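import Mathlib
import Vale.Agent.P100.Cert

/-!
# Exact elimination of two coupled Hessians for fourteen general coefficients

`rowGen` is the divergence expression with arbitrary values `c j` of the coefficients and arbitrary
values `la j`, `mb j` of their weighted derivatives along `a`, `b`. When the form in the two
Hessians is positive definite it is bounded below by `elimN`, a quadratic form in
`(|a|², a·b, |b|², P, Q)`, in every real dimension `N ≥ n`; for `N = n` the bound is sharp.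
-/

open Finset

namespace Vale.Agent.P100.Calib

variable {n : ℕ}

/-- The divergence expression with values `c`, `la`, `mb`. -/
def rowGen (p q : ℝ) (c la mb : Fin 14 → ℝ) (a b : Fin n → ℝ) (P Q : ℝ)
    (H K : Fin n → Fin n → ℝ) : ℝ :=
  ∑ j, (c j * divT p q a b P Q H K j + la j * dotv a (fld a b P Q H K j) +
    mb j * dotv b (fld a b P Q H K j))

theorem rowZ_eq_rowGen (p q lam mu : ℝ) (c : Fin 14 → ℝ → ℝ) (a b : Fin n → ℝ) (P Q : ℝ)
    (H K : Fin n → Fin n → ℝ) :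
    rowZ p q lam mu c a b P Q H K =
      rowGen p q (fun j => c j (P / Q))
        (fun j => c j (P / Q) * lam - (q + 1) * (deriv (c j) (P / Q) * (P / Q)))
        (fun j => c j (P / Q) * mu + (p + 1) * (deriv (c j) (P / Q) * (P / Q))) a b P Q H K := by
  unfold rowZ rowGen
  refine sum_congr rfl fun j _ => ?_
  simp only [dotv, mul_add, mul_sum, add_assoc, add_right_inj, ← sum_add_distrib]
  exact sum_congr rfl fun i _ => by ring

theorem rowR_eq_rowGen (p q lam mu : ℝ) (c : Fin 14 → ℝ) (a b : Fin n → ℝ) (P Q : ℝ)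
    (H K : Fin n → Fin n → ℝ) :
    rowR p q lam mu c a b P Q H K =
      rowGen p q c (fun j => c j * lam) (fun j => c j * mu) a b P Q H K := by
  unfold rowR rowGen
  refine sum_congr rfl fun j _ => ?_
  simp only [dotv, mul_add, mul_sum, add_assoc, add_right_inj, ← sum_add_distrib]
  exact sum_congr rfl fun i _ => by ring

/-- The Gram product of two combinations `g₀ aa + g₁ sym(ab) + g₂ bb`, less `r` times the product
of their traces. -/
noncomputable def gram (r g₀ g₁ g₂ h₀ h₁ h₂ A C B : ℝ) : ℝ :=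
  g₀ * h₀ * (A ^ 2 * (1 - r)) + (g₀ * h₁ + g₁ * h₀) * (A * C * (1 - r)) +
    (g₀ * h₂ + g₂ * h₀) * (C ^ 2 - r * (A * B)) +
    g₁ * h₁ * ((A * B + C ^ 2) / 2 - r * C ^ 2) +
    (g₁ * h₂ + g₂ * h₁) * (B * C * (1 - r)) + g₂ * h₂ * (B ^ 2 * (1 - r))

theorem gram_eq (r g₀ g₁ g₂ h₀ h₁ h₂ A C B : ℝ) :
    gram r g₀ g₁ g₂ h₀ h₁ h₂ A C B = gram 0 g₀ g₁ g₂ h₀ h₁ h₂ A C B -
      r * ((g₀ * A + g₁ * C + g₂ * B) * (h₀ * A + h₁ * C + h₂ * B)) := by
  unfold gram; ring

/-- The minimum in one matrix with trace `T`. -/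
noncomputable def hessOne (N s x y w A C B T : ℝ) : ℝ :=
  (s * T ^ 2 + T * (x * A + y * C + w * B)) / N - gram (1 / N) x y w x y w A C B / (4 * s)

theorem hessOne_le (hn : 0 < n) {N : ℝ} (hN : (n : ℝ) ≤ N) {s : ℝ} (hs : 0 < s) (x y w : ℝ)
    (a b : Fin n → ℝ) (H : Fin n → Fin n → ℝ) (hH : ∀ i j, H i j = H j i) {T : ℝ}
    (hT : ∑ i, H i i = T) :
    hessOne N s x y w (dotv a a) (dotv a b) (dotv b b) T +
      (1 / n - 1 / N) * ((s * T + (x * dotv a a + y * dotv a b + w * dotv b b) / 2) ^ 2 / s) ≤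
      s * frob H H + x * dotv (mulv H a) a + y * dotv (mulv H a) b + w * dotv (mulv H b) b := by
  have hn' : (0 : ℝ) < n := by exact_mod_cast hn
  have hn0 : (n : ℝ) ≠ 0 := hn'.ne'
  have hN0 : N ≠ 0 := by linarith
  set A := dotv a a with hA
  set B := dotv b b with hB
  set C := dotv a b with hC
  set α := -(s * T / n) - (x * A + y * C + w * B) / (2 * n) with hα
  let d : Fin n → Fin n → ℝ := fun i j => if i = j then 1 else 0
  let Z : Fin n → Fin n → ℝ := fun i j => s * H i j + α * d i j + x / 2 * (a i * a j) +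
    y / 4 * (a i * b j) + y / 4 * (b i * a j) + w / 2 * (b i * b j)
  have haa : ∑ i, ∑ j, H i j * (a i * a j) = dotv (mulv H a) a := by
    simp only [dotv, mulv, Finset.sum_mul]
    exact sum_congr rfl fun i _ => sum_congr rfl fun j _ => by ring
  have hbb : ∑ i, ∑ j, H i j * (b i * b j) = dotv (mulv H b) b := by
    simp only [dotv, mulv, Finset.sum_mul]
    exact sum_congr rfl fun i _ => sum_congr rfl fun j _ => by ring
  have hba : ∑ i, ∑ j, H i j * (b i * a j) = dotv (mulv H a) b := by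
    simp only [dotv, mulv, Finset.sum_mul]
    exact sum_congr rfl fun i _ => sum_congr rfl fun j _ => by ring
  have hab : ∑ i, ∑ j, H i j * (a i * b j) = dotv (mulv H a) b := by
    rw [← hba, sum_comm]
    exact sum_congr rfl fun i _ => sum_congr rfl fun j _ => by rw [hH j i]; ring
  have pr : ∀ x y z w : Fin n → ℝ,
      ∑ i, ∑ j, (x i * y j) * (z i * w j) = dotv x z * dotv y w := fun x y z w => by
    rw [dotv, dotv, sum_mul_sum]
    exact sum_congr rfl fun i _ => sum_congr rfl fun j _ => by ring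
  have e : ∑ i, ∑ j, Z i j * Z i j = s ^ 2 * frob H H + α ^ 2 * n + x ^ 2 / 4 * (A * A) +
      y ^ 2 / 8 * (A * B + C * C) + w ^ 2 / 4 * (B * B) + 2 * s * α * T +
      s * x * dotv (mulv H a) a + s * y * dotv (mulv H a) b + s * w * dotv (mulv H b) b +
      α * x * A + α * y * C + α * w * B + x * y / 2 * (A * C) + x * w / 2 * (C * C) +
      y * w / 2 * (B * C) := by
    have hz : ∀ i j, Z i j * Z i j = s ^ 2 * (H i j * H i j) + α ^ 2 * d i j +
        x ^ 2 / 4 * ((a i * a j) * (a i * a j)) + y ^ 2 / 16 * ((a i * b j) * (a i * b j)) +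
        y ^ 2 / 16 * ((b i * a j) * (b i * a j)) + y ^ 2 / 8 * ((a i * b j) * (b i * a j)) +
        w ^ 2 / 4 * ((b i * b j) * (b i * b j)) +
        2 * s * α * (d i j * H i j) + s * x * (H i j * (a i * a j)) +
        s * y / 2 * (H i j * (a i * b j)) + s * y / 2 * (H i j * (b i * a j)) +
        s * w * (H i j * (b i * b j)) +
        α * x * (d i j * (a i * a j)) + α * y / 2 * (d i j * (a i * b j)) +
        α * y / 2 * (d i j * (b i * a j)) + α * w * (d i j * (b i * b j)) +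
        x * y / 4 * ((a i * a j) * (a i * b j)) + x * y / 4 * ((a i * a j) * (b i * a j)) +
        x * w / 2 * ((a i * a j) * (b i * b j)) + y * w / 4 * ((a i * b j) * (b i * b j)) +
        y * w / 4 * ((b i * a j) * (b i * b j)) := fun i j => by
      simp only [Z, d]
      split_ifs <;> ring
    simp only [hz, sum_add_distrib, ← mul_sum, haa, hab, hba, hbb, pr, frob]
    simp only [d, ite_mul, one_mul, zero_mul, sum_ite_eq, mem_univ, if_true, sum_const,
      card_univ, Fintype.card_fin, nsmul_eq_mul, mul_one, hT]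
    have e1 : ∑ i, a i * a i = A := rfl
    have e2 : ∑ i, a i * b i = C := rfl
    have e3 : ∑ i, b i * a i = C := by
      rw [hC]; exact sum_congr rfl fun i _ => mul_comm _ _
    have e4 : dotv b a = C := e3
    have e5 : ∑ i, b i * b i = B := rfl
    rw [e1, e2, e3, e4, e5, ← hA, ← hB, ← hC]
    ring
  have h0 : 0 ≤ ∑ i, ∑ j, Z i j * Z i j :=
    sum_nonneg fun i _ => sum_nonneg fun j _ => mul_self_nonneg _
  rw [e, hα] at h0
  rw [← sub_nonneg]
  refine nonneg_of_mul_nonneg_right ?_ hs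
  refine h0.trans_eq ?_
  unfold hessOne gram
  field_simp
  ring

/-- The minimum in two coupled matrices with traces `S`, `T`. -/
noncomputable def hessPair (N c₀ m c₃ u₀ u₁ u₂ v₀ v₁ v₂ A C B S T : ℝ) : ℝ :=
  (c₀ * S ^ 2 + 2 * m * (S * T) + c₃ * T ^ 2 + S * (u₀ * A + u₁ * C + u₂ * B) +
      T * (v₀ * A + v₁ * C + v₂ * B)) / N -
    (c₃ * gram (1 / N) u₀ u₁ u₂ u₀ u₁ u₂ A C B -
        2 * m * gram (1 / N) u₀ u₁ u₂ v₀ v₁ v₂ A C B +
        c₀ * gram (1 / N) v₀ v₁ v₂ v₀ v₁ v₂ A C B) / (4 * (c₀ * c₃ - m ^ 2))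

theorem hessPair_eq (N : ℝ) {c₀ m c₃ : ℝ} (h0 : c₀ ≠ 0) (hd : c₀ * c₃ - m ^ 2 ≠ 0)
    (u₀ u₁ u₂ v₀ v₁ v₂ A C B S T : ℝ) :
    hessPair N c₀ m c₃ u₀ u₁ u₂ v₀ v₁ v₂ A C B S T =
      hessOne N c₀ u₀ u₁ u₂ A C B (S + m / c₀ * T) +
      hessOne N ((c₀ * c₃ - m ^ 2) / c₀) (v₀ - m / c₀ * u₀) (v₁ - m / c₀ * u₁)
        (v₂ - m / c₀ * u₂) A C B T := by
  rw [hessPair, hessOne, hessOne]
  obtain ⟨D, hD⟩ : ∃ D, D = c₀ * c₃ - m ^ 2 := ⟨_, rfl⟩
  have hc : c₃ = (D + m ^ 2) / c₀ := by rw [hD]; field_simp; ring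
  rw [← hD] at hd ⊢
  unfold gram
  rw [hc]
  field_simp
  ring

/-- The surplus of dimension `n` over dimension `N`, before the factor `1/n - 1/N`. -/
noncomputable def hessGap (c₀ m c₃ u₀ u₁ u₂ v₀ v₁ v₂ A C B S T : ℝ) : ℝ :=
  (c₀ * S + m * T + (u₀ * A + u₁ * C + u₂ * B) / 2) ^ 2 / c₀ +
    ((c₀ * c₃ - m ^ 2) / c₀ * T + ((v₀ - m / c₀ * u₀) * A + (v₁ - m / c₀ * u₁) * C +
      (v₂ - m / c₀ * u₂) * B) / 2) ^ 2 / ((c₀ * c₃ - m ^ 2) / c₀)

theorem hessGap_nonneg {c₀ m c₃ : ℝ} (h0 : 0 < c₀) (hd : 0 < c₀ * c₃ - m ^ 2)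
    (u₀ u₁ u₂ v₀ v₁ v₂ A C B S T : ℝ) :
    0 ≤ hessGap c₀ m c₃ u₀ u₁ u₂ v₀ v₁ v₂ A C B S T := by
  unfold hessGap; positivity

theorem hessPair_le (hn : 0 < n) {N : ℝ} (hN : (n : ℝ) ≤ N) {c₀ m c₃ : ℝ} (h0 : 0 < c₀)
    (hd : 0 < c₀ * c₃ - m ^ 2) (u₀ u₁ u₂ v₀ v₁ v₂ : ℝ) (a b : Fin n → ℝ)
    (H K : Fin n → Fin n → ℝ) (hH : ∀ i j, H i j = H j i) (hK : ∀ i j, K i j = K j i) {S T : ℝ}
    (hS : ∑ i, H i i = S) (hT : ∑ i, K i i = T) :
    hessPair N c₀ m c₃ u₀ u₁ u₂ v₀ v₁ v₂ (dotv a a) (dotv a b) (dotv b b) S T +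
      (1 / n - 1 / N) *
        hessGap c₀ m c₃ u₀ u₁ u₂ v₀ v₁ v₂ (dotv a a) (dotv a b) (dotv b b) S T ≤
      c₀ * frob H H + 2 * m * frob H K + c₃ * frob K K +
        u₀ * dotv (mulv H a) a + u₁ * dotv (mulv H a) b + u₂ * dotv (mulv H b) b +
        v₀ * dotv (mulv K a) a + v₁ * dotv (mulv K a) b + v₂ * dotv (mulv K b) b := by
  set k := m / c₀ with hk
  have ck : c₀ * k = m := by rw [hk]; field_simp
  let W : Fin n → Fin n → ℝ := fun i j => H i j + k * K i j
  have hW : ∀ i j, W i j = W j i := fun i j => by simp only [W]; rw [hH i j, hK i j]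
  have tW : ∑ i, W i i = S + k * T := by simp only [W, sum_add_distrib, ← mul_sum, hS, hT]
  have h1 := hessOne_le hn hN h0 u₀ u₁ u₂ a b W hW tW
  have h2 := hessOne_le hn hN (div_pos hd h0) (v₀ - k * u₀) (v₁ - k * u₁) (v₂ - k * u₂) a b K hK hT
  have eq1 : frob W W = frob H H + 2 * k * frob H K + k ^ 2 * frob K K := by
    simp only [frob, W, mul_sum, ← sum_add_distrib]
    exact sum_congr rfl fun i _ => sum_congr rfl fun j _ => by ring
  have eq2 : ∀ x y : Fin n → ℝ,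
      dotv (mulv W x) y = dotv (mulv H x) y + k * dotv (mulv K x) y := fun x y => by
    simp only [dotv, mulv, W, sum_mul, mul_sum, ← sum_add_distrib]
    exact sum_congr rfl fun i _ => sum_congr rfl fun j _ => by ring
  rw [eq1, eq2, eq2, eq2] at h1
  rw [hessPair_eq N h0.ne' hd.ne', hessGap, ← hk]
  have e3 : c₀ * k ^ 2 + (c₀ * c₃ - m ^ 2) / c₀ = c₃ := by rw [hk]; field_simp; ring
  have e4 : c₀ * (S + k * T) = c₀ * S + m * T := by rw [mul_add, ← mul_assoc, ck]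
  rw [e4] at h1
  refine (le_of_eq ?_).trans ((add_le_add h1 h2).trans (le_of_eq ?_))
  · ring
  · linear_combination frob K K * e3 + 2 * frob H K * ck

/-- The coefficients of `aHa, bHa, bHb`. -/
def linU (c la mb : Fin 14 → ℝ) : Fin 3 → ℝ :=
  ![-2 * c 0 + la 0 + 2 * c 4, -2 * c 1 + la 1 + mb 0 + 2 * c 5 + c 6, mb 1 + c 7]

/-- The coefficients of `aKa, bKa, bKb`. -/
def linV (c la mb : Fin 14 → ℝ) : Fin 3 → ℝ :=
  ![la 2 + c 6, -2 * c 2 + la 3 + mb 2 + c 7 + 2 * c 8, -2 * c 3 + mb 3 + 2 * c 9]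

/-- The part of `rowGen` free of the Hessians. -/
noncomputable def freePart (p q : ℝ) (c la mb : Fin 14 → ℝ) (A C B P Q : ℝ) : ℝ :=
  -(c 0 * (P * (p * C - A))) - c 1 * (P * (p * B - C)) - c 2 * (Q * (q * A - C)) -
    c 3 * (Q * (q * C - B)) +
  (c 4 * (A * -(A + P)) + la 4 * (A * A) + mb 4 * (A * C)) +
  (c 5 * (A * -(B + Q)) + la 5 * (A * C) + mb 5 * (A * B)) +
  (c 6 * (C * -(A + P)) + la 6 * (A * C) + mb 6 * (C * C)) +
  (c 7 * (C * -(B + Q)) + la 7 * (C * C) + mb 7 * (C * B)) +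
  (c 8 * (B * -(A + P)) + la 8 * (A * B) + mb 8 * (C * B)) +
  (c 9 * (B * -(B + Q)) + la 9 * (C * B) + mb 9 * (B * B)) +
  (c 10 * (P * -(A + P) + P * (p * C - A)) + la 10 * (P * A) + mb 10 * (P * C)) +
  (c 11 * (P * -(B + Q) + P * (p * B - C)) + la 11 * (P * C) + mb 11 * (P * B)) +
  (c 12 * (Q * -(A + P) + Q * (q * A - C)) + la 12 * (Q * A) + mb 12 * (Q * C)) +
  (c 13 * (Q * -(B + Q) + Q * (q * C - B)) + la 13 * (Q * C) + mb 13 * (Q * B))

/-- The exact lower bound of `rowGen` in dimension `N`. -/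
noncomputable def elimN (N p q : ℝ) (c la mb : Fin 14 → ℝ) (A C B P Q : ℝ) : ℝ :=
  freePart p q c la mb A C B P Q +
    hessPair N (c 0) ((c 1 + c 2) / 2) (c 3) (linU c la mb 0) (linU c la mb 1) (linU c la mb 2)
      (linV c la mb 0) (linV c la mb 1) (linV c la mb 2) A C B (-(A + P)) (-(B + Q))

/-- The surplus of `rowGen` in dimension `n`. -/
noncomputable def elimGap (c la mb : Fin 14 → ℝ) (A C B P Q : ℝ) : ℝ :=
  hessGap (c 0) ((c 1 + c 2) / 2) (c 3) (linU c la mb 0) (linU c la mb 1) (linU c la mb 2)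
    (linV c la mb 0) (linV c la mb 1) (linV c la mb 2) A C B (-(A + P)) (-(B + Q))

theorem rowGen_eq (p q : ℝ) (c la mb : Fin 14 → ℝ) (a b : Fin n → ℝ) (P Q : ℝ)
    (H K : Fin n → Fin n → ℝ) (hH : ∀ i j, H i j = H j i) (hK : ∀ i j, K i j = K j i) :
    rowGen p q c la mb a b P Q H K =
      freePart p q c la mb (dotv a a) (dotv a b) (dotv b b) P Q +
      (c 0 * frob H H + (c 1 + c 2) * frob H K + c 3 * frob K K +
        linU c la mb 0 * dotv (mulv H a) a + linU c la mb 1 * dotv (mulv H a) b +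
        linU c la mb 2 * dotv (mulv H b) b +
        linV c la mb 0 * dotv (mulv K a) a + linV c la mb 1 * dotv (mulv K a) b +
        linV c la mb 2 * dotv (mulv K b) b) := by
  have comm : ∀ x y : Fin n → ℝ, dotv x y = dotv y x := fun x y =>
    sum_congr rfl fun i _ => mul_comm _ _
  have sym : ∀ M : Fin n → Fin n → ℝ, (∀ i j, M i j = M j i) → ∀ x y : Fin n → ℝ,
      dotv (mulv M x) y = dotv (mulv M y) x := fun M hM x y => by
    simp only [dotv, mulv, sum_mul]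
    rw [sum_comm]
    exact sum_congr rfl fun i _ => sum_congr rfl fun j _ => by rw [hM j i]; ring
  have fc : frob K H = frob H K :=
    sum_congr rfl fun i _ => sum_congr rfl fun j _ => mul_comm _ _
  have gU : ∀ y : Fin n → ℝ, dotv (gradLapU p a b P H) y =
      -2 * dotv (mulv H a) y - P * (p * dotv b y - dotv a y) := fun y => by
    simp only [dotv, gradLapU, mul_sum, ← sum_sub_distrib]
    exact sum_congr rfl fun i _ => by ring
  have gV : ∀ y : Fin n → ℝ, dotv (gradLapV q a b Q K) y =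
      -2 * dotv (mulv K b) y - Q * (q * dotv a y - dotv b y) := fun y => by
    simp only [dotv, gradLapV, mul_sum, ← sum_sub_distrib]
    exact sum_congr rfl fun i _ => by ring
  have sm : ∀ (r : ℝ) (x y : Fin n → ℝ), dotv y (fun i => r * x i) = r * dotv y x := fun r x y => by
    simp only [dotv, mul_sum]
    exact sum_congr rfl fun i _ => by ring
  have h1 : dotv (mulv H b) a = dotv (mulv H a) b := sym H hH b a
  have h2 : dotv (mulv K b) a = dotv (mulv K a) b := sym K hK b a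
  rw [rowGen, Fin.sum_univ_succ]
  simp only [Fin.sum_univ_succ, Fin.sum_univ_zero]
  simp [divT, fld, freePart, linU, linV, gU, gV, sm, comm b a, comm a (mulv H a),
    comm a (mulv H b), comm a (mulv K a), comm a (mulv K b), comm b (mulv H a),
    comm b (mulv H b), comm b (mulv K a), comm b (mulv K b), h1, h2, fc]
  ring

/-- **Exact elimination.** `rowGen` in dimension `n` dominates `elimN` in every real dimension
`N ≥ n`, with surplus `(1/n - 1/N) elimGap`. -/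
theorem elimN_le_rowGen (hn : 0 < n) {N : ℝ} (hN : (n : ℝ) ≤ N) {p q : ℝ} {c la mb : Fin 14 → ℝ}
    (h0 : 0 < c 0) (hd : 0 < c 0 * c 3 - ((c 1 + c 2) / 2) ^ 2) (a b : Fin n → ℝ) (P Q : ℝ)
    (H K : Fin n → Fin n → ℝ) (hH : ∀ i j, H i j = H j i) (hK : ∀ i j, K i j = K j i)
    (hS : ∑ i, H i i = -(dotv a a + P)) (hT : ∑ i, K i i = -(dotv b b + Q)) :
    elimN N p q c la mb (dotv a a) (dotv a b) (dotv b b) P Q +
      (1 / n - 1 / N) * elimGap c la mb (dotv a a) (dotv a b) (dotv b b) P Q ≤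
      rowGen p q c la mb a b P Q H K := by
  rw [rowGen_eq p q c la mb a b P Q H K hH hK, elimN, elimGap]
  have h := hessPair_le hn hN h0 hd (linU c la mb 0) (linU c la mb 1) (linU c la mb 2)
    (linV c la mb 0) (linV c la mb 1) (linV c la mb 2) a b H K hH hK hS hT
  linarith

theorem elimGap_nonneg {c la mb : Fin 14 → ℝ} (h0 : 0 < c 0)
    (hd : 0 < c 0 * c 3 - ((c 1 + c 2) / 2) ^ 2) (A C B P Q : ℝ) :
    0 ≤ elimGap c la mb A C B P Q :=
  hessGap_nonneg h0 hd _ _ _ _ _ _ _ _ _ _ _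

/-- In dimension `n ≤ N` a nonnegative `elimN` gives a nonnegative row. -/
theorem rowGen_nonneg (hn : 0 < n) {N : ℝ} (hN : (n : ℝ) ≤ N) {p q : ℝ} {c la mb : Fin 14 → ℝ}
    (h0 : 0 < c 0) (hd : 0 < c 0 * c 3 - ((c 1 + c 2) / 2) ^ 2) (a b : Fin n → ℝ) (P Q : ℝ)
    (H K : Fin n → Fin n → ℝ) (hH : ∀ i j, H i j = H j i) (hK : ∀ i j, K i j = K j i)
    (hS : ∑ i, H i i = -(dotv a a + P)) (hT : ∑ i, K i i = -(dotv b b + Q))
    (h : 0 ≤ elimN N p q c la mb (dotv a a) (dotv a b) (dotv b b) P Q) :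
    0 ≤ rowGen p q c la mb a b P Q H K := by
  refine le_trans (add_nonneg h (mul_nonneg (sub_nonneg.2 ?_) (elimGap_nonneg h0 hd _ _ _ _ _)))
    (elimN_le_rowGen hn hN h0 hd a b P Q H K hH hK hS hT)
  exact one_div_le_one_div_of_le (by exact_mod_cast hn) hN

end Vale.Agent.P100.Calib
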