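import Mathlib
import Vale.Agent.P100.Calib.Elim

/-!
# From the gradient block to all states

On the line `P = z Q` the form `elimN` is quadratic in `(A, C, B, Q)`. If the orbit point
`(X², XY, Y², Zq)` is a zero with gradient `τ (Y², -2XY, X², 0)`, the gradient block minus
`μ (AB - C²)` is positive semidefinite and `0 ≤ μ`, `0 ≤ (τ - μ) Zq`, then the form is nonnegative
at every state.
-/

namespace Vale.Agent.P100.Calib

/-- A quadratic form with positive leading minors and nonnegative determinant is nonnegative. -/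
theorem quad3_nonneg {w₀₀ w₀₁ w₀₂ w₁₁ w₁₂ w₂₂ : ℝ} (h1 : 0 < w₀₀)
    (h2 : 0 < w₀₀ * w₁₁ - w₀₁ ^ 2)
    (h3 : 0 ≤ w₀₀ * (w₁₁ * w₂₂ - w₁₂ ^ 2) - w₀₁ * (w₀₁ * w₂₂ - w₁₂ * w₀₂) +
      w₀₂ * (w₀₁ * w₁₂ - w₁₁ * w₀₂)) (x y z : ℝ) :
    0 ≤ w₀₀ * x ^ 2 + 2 * w₀₁ * (x * y) + 2 * w₀₂ * (x * z) + w₁₁ * y ^ 2 +
      2 * w₁₂ * (y * z) + w₂₂ * z ^ 2 := by
  set d := w₀₀ * w₁₁ - w₀₁ ^ 2
  set e := w₀₀ * (w₁₁ * w₂₂ - w₁₂ ^ 2) - w₀₁ * (w₀₁ * w₂₂ - w₁₂ * w₀₂) +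
      w₀₂ * (w₀₁ * w₁₂ - w₁₁ * w₀₂)
  have key : w₀₀ * x ^ 2 + 2 * w₀₁ * (x * y) + 2 * w₀₂ * (x * z) + w₁₁ * y ^ 2 +
      2 * w₁₂ * (y * z) + w₂₂ * z ^ 2 = (w₀₀ * x + w₀₁ * y + w₀₂ * z) ^ 2 / w₀₀ +
      (d * y + (w₀₀ * w₁₂ - w₀₁ * w₀₂) * z) ^ 2 / (w₀₀ * d) + e / d * z ^ 2 := by
    have hd : w₁₁ = (d + w₀₁ ^ 2) / w₀₀ := by simp only [d]; field_simp; ring
    simp only [e]
    rw [hd]
    field_simp
    ring
  rw [key]
  positivity

theorem elimN_line (N p q : ℝ) (c la mb : Fin 14 → ℝ) (A C B A₀ C₀ B₀ P₀ Q₀ l : ℝ) :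
    elimN N p q c la mb (A + l * A₀) (C + l * C₀) (B + l * B₀) (l * P₀) (l * Q₀) =
      elimN N p q c la mb A C B 0 0 +
      l * (elimN N p q c la mb (A + A₀) (C + C₀) (B + B₀) P₀ Q₀ -
        elimN N p q c la mb A C B 0 0 - elimN N p q c la mb A₀ C₀ B₀ P₀ Q₀) +
      l ^ 2 * elimN N p q c la mb A₀ C₀ B₀ P₀ Q₀ := by
  unfold elimN freePart hessPair gram
  ring

/-- **Block to global.** -/
theorem elimN_nonneg_of_block {N p q X Y z Zq μ τ : ℝ} {c la mb : Fin 14 → ℝ} (hZ : Zq ≠ 0)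
    (hblock : ∀ A C B : ℝ, μ * (A * B - C ^ 2) ≤ elimN N p q c la mb A C B 0 0)
    (hker : ∀ A C B : ℝ,
      elimN N p q c la mb (A + X ^ 2) (C + X * Y) (B + Y ^ 2) (z * Zq) Zq =
        elimN N p q c la mb A C B 0 0 + τ * (Y ^ 2 * A - 2 * (X * Y) * C + X ^ 2 * B))
    (hμ : 0 ≤ μ) (hτ : 0 ≤ (τ - μ) * Zq) {A C B Q : ℝ} (hA : 0 ≤ A) (hB : 0 ≤ B)
    (hC : C ^ 2 ≤ A * B) (hQ : 0 ≤ Q) :
    μ * (A * B - C ^ 2) + (τ - μ) * Zq * Q / Zq ^ 2 * (Y ^ 2 * A - 2 * (X * Y) * C + X ^ 2 * B)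
        ≤ elimN N p q c la mb A C B (z * Q) Q ∧
      0 ≤ elimN N p q c la mb A C B (z * Q) Q := by
  have h00 : elimN N p q c la mb 0 0 0 0 0 = 0 := by
    unfold elimN freePart hessPair gram; ring
  have hv : elimN N p q c la mb (X ^ 2) (X * Y) (Y ^ 2) (z * Zq) Zq = 0 := by
    have := hker 0 0 0
    simpa [h00] using this
  set l := Q / Zq with hl
  have hlQ : l * Zq = Q := div_mul_cancel₀ Q hZ
  set E := Y ^ 2 * A - 2 * (X * Y) * C + X ^ 2 * B with hE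
  have hE0 : 0 ≤ E := by
    rcases eq_or_lt_of_le hA with h | h
    · have : C = 0 := by
        rw [← h, zero_mul] at hC
        exact pow_eq_zero_iff two_ne_zero |>.1 (le_antisymm hC (sq_nonneg C))
      rw [hE, ← h, this]
      simp only [mul_zero, zero_sub, neg_zero, zero_add]
      positivity
    · refine nonneg_of_mul_nonneg_right ?_ h
      have : A * E = (Y * A - X * C) ^ 2 + X ^ 2 * (A * B - C ^ 2) := by rw [hE]; ring
      rw [this]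
      exact add_nonneg (sq_nonneg _) (mul_nonneg (sq_nonneg _) (sub_nonneg.2 hC))
  have key := elimN_line N p q c la mb (A - l * X ^ 2) (C - l * (X * Y)) (B - l * Y ^ 2) (X ^ 2)
    (X * Y) (Y ^ 2) (z * Zq) Zq l
  rw [sub_add_cancel, sub_add_cancel, sub_add_cancel, hv, hker,
    show l * (z * Zq) = z * Q by rw [← hlQ]; ring, hlQ] at key
  have hb := hblock (A - l * X ^ 2) (C - l * (X * Y)) (B - l * Y ^ 2)
  have hc : (τ - μ) * Zq * Q / Zq ^ 2 = (τ - μ) * l := by rw [hl]; field_simp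
  have first : μ * (A * B - C ^ 2) + (τ - μ) * Zq * Q / Zq ^ 2 * E ≤
      elimN N p q c la mb A C B (z * Q) Q := by
    rw [hc, key]
    refine le_trans (le_of_eq ?_) (add_le_add (add_le_add hb le_rfl) le_rfl)
    rw [hE]
    ring
  refine ⟨first, le_trans ?_ first⟩
  exact add_nonneg (mul_nonneg hμ (sub_nonneg.2 hC))
    (mul_nonneg (div_nonneg (mul_nonneg hτ hQ) (sq_nonneg _)) hE0)

end Vale.Agent.P100.Calib
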