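import Mathlib
import Vale.Agent.P100.Calib.Elim

/-!
# The calibration fields at a point of the critical radial orbit

A point `(X, Y, P, Q)` of the critical orbit in dimension `N` moves by
`X' = -(N-2)X - X² - P`, `Y' = -(N-2)Y - Y² - Q`, `P' = P(2 + pY - X)`, `Q' = Q(2 + qX - Y)`.
Below are the coefficient vectors of the base field and of seven fields vanishing on the orbit,
and their derivatives along the orbit.
-/

namespace Vale.Agent.P100.Calib

/-- The parameters and a point. -/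
structure Orb where
  /-- `1/(p+1)` -/
  al : ℝ
  /-- `1/(q+1)` -/
  be : ℝ
  /-- dimension -/
  N : ℝ
  /-- first exponent -/
  p : ℝ
  /-- second exponent -/
  q : ℝ
  /-- `r u'/u` -/
  X : ℝ
  /-- `r v'/v` -/
  Y : ℝ
  /-- `r² v^p/u` -/
  P : ℝ
  /-- `r² u^q/v` -/
  Q : ℝ
  /-- the free parameter of the weight; the exponent is `1 - (kap+2)/(N-2)` -/
  kap : ℝ

namespace Orb

variable (o : Orb)

/-- `D = αX + βY`. -/
def D : ℝ := o.al * o.X + o.be * o.Y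

/-- The velocity of `X`. -/
def vX : ℝ := -(o.N - 2) * o.X - o.X ^ 2 - o.P

/-- The velocity of `Y`. -/
def vY : ℝ := -(o.N - 2) * o.Y - o.Y ^ 2 - o.Q

/-- The velocity of `P`. -/
def vP : ℝ := o.P * (2 + o.p * o.Y - o.X)

/-- The velocity of `Q`. -/
def vQ : ℝ := o.Q * (2 + o.q * o.X - o.Y)

/-- The velocity of `log (P/Q)`. -/
def phi : ℝ := (o.p + 1) * o.Y - (o.q + 1) * o.X

/-- The traceless radial coefficient of the Hessian of `log u`. -/
def sU : ℝ := -o.N * o.X - o.X ^ 2 - o.P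

/-- The traceless radial coefficient of the Hessian of `log v`. -/
def sV : ℝ := -o.N * o.Y - o.Y ^ 2 - o.Q

/-- The velocity of `sU`. -/
def vsU : ℝ := -o.N * o.vX - 2 * o.X * o.vX - o.vP

/-- The velocity of `sV`. -/
def vsV : ℝ := -o.N * o.vY - 2 * o.Y * o.vY - o.vQ

/-- A point of the orbit where all denominators are nonzero. -/
structure Valid (o : Orb) : Prop where
  hp : (o.p + 1) * o.al = 1
  hq : (o.q + 1) * o.be = 1
  hN : (o.al + o.be) * o.N = o.N - 2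
  quadric : o.al * o.P + o.be * o.Q + o.X * o.Y + o.N * (o.al * o.X + o.be * o.Y) = 0
  N0 : o.N ≠ 0
  X0 : o.X ≠ 0
  Y0 : o.Y ≠ 0
  Q0 : o.Q ≠ 0
  D0 : o.al * o.X + o.be * o.Y ≠ 0
  E0 : o.al * o.X - o.be * o.Y ≠ 0

/-- `J = (αX² + βY² - XY)/D`. -/
noncomputable def J : ℝ := (o.al * o.X ^ 2 + o.be * o.Y ^ 2 - o.X * o.Y) / o.D

/-- The logarithmic `u`-exponent of the weight. -/
noncomputable def lam : ℝ :=
  1 + ((o.kap + 2) * o.Y + o.N * o.al * o.J) / (o.N * (o.al * o.X - o.be * o.Y))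

/-- The logarithmic `v`-exponent of the weight. -/
noncomputable def mu : ℝ :=
  1 + (-((o.kap + 2) * o.X) - o.N * o.be * o.J) / (o.N * (o.al * o.X - o.be * o.Y))

/-- The base field. -/
noncomputable def cBase : Fin 14 → ℝ :=
  let a := o.al
  let b := o.be
  let d := -(o.al - o.be) / 2
  ![a ^ 2, a * b, a * b, b ^ 2, a ^ 2, -a / 2 + d * a, a * b - a * (1 / 2 - 1 / o.N) - d * a,
    a * b - b * (1 / 2 - 1 / o.N) + d * b, -b / 2 - d * b, b ^ 2, a ^ 2 / o.N, a * b / o.N,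
    a * b / o.N, b ^ 2 / o.N]

/-- The shape of the field built from `U · d`. -/
noncomputable def shapeU (e y x s₁ s₂ : ℝ) : Fin 14 → ℝ :=
  let r := 1 / o.N
  ![y, -e, -e, x, y * r, -e * r + s₁ / 2, s₁ * (1 / 2 - r), -s₂ * (1 / 2 - r), -e * r - s₂ / 2,
    x * r, y * r, -e * r, -e * r, x * r]

/-- The scalar of the correction in `fU`. -/
noncomputable def sC : ℝ := -(o.Y * o.sU - o.X * o.sV) / (o.X * o.Y)

/-- Its velocity. -/
noncomputable def vsC : ℝ :=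
  (-(o.vY * o.sU + o.Y * o.vsU - o.vX * o.sV - o.X * o.vsV) * (o.X * o.Y) +
    (o.Y * o.sU - o.X * o.sV) * (o.vX * o.Y + o.X * o.vY)) / (o.X * o.Y) ^ 2

/-- The field built from `U · d`. -/
noncomputable def fU : Fin 14 → ℝ :=
  o.shapeU 1 (o.Y / o.X) (o.X / o.Y) (o.sC / o.X) (o.sC / o.Y)

/-- Its velocity. -/
noncomputable def vU : Fin 14 → ℝ :=
  o.shapeU 0 ((o.vY * o.X - o.Y * o.vX) / o.X ^ 2) ((o.vX * o.Y - o.X * o.vY) / o.Y ^ 2)
    ((o.vsC * o.X - o.sC * o.vX) / o.X ^ 2) ((o.vsC * o.Y - o.sC * o.vY) / o.Y ^ 2)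

/-- The shapes of `|d|² a`, `|d|² b`, `(d·a) d`, `(d·b) d`, divided by `XY`. -/
def shapeG (i : Fin 4) (y e x : ℝ) : Fin 14 → ℝ :=
  ![![0, 0, 0, 0, y, 0, -2 * e, 0, x, 0, 0, 0, 0, 0],
    ![0, 0, 0, 0, 0, y, 0, -2 * e, 0, x, 0, 0, 0, 0],
    ![0, 0, 0, 0, y, -e, -e, x, 0, 0, 0, 0, 0, 0],
    ![0, 0, 0, 0, 0, 0, y, -e, -e, x, 0, 0, 0, 0]] i

/-- The four gradient fields. -/
noncomputable def fG (i : Fin 4) : Fin 14 → ℝ := shapeG i (o.Y / o.X) 1 (o.X / o.Y)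

/-- Their velocities. -/
noncomputable def vG (i : Fin 4) : Fin 14 → ℝ :=
  shapeG i ((o.vY * o.X - o.Y * o.vX) / o.X ^ 2) 0 ((o.vX * o.Y - o.X * o.vY) / o.Y ^ 2)

/-- The shape of the field built from `T · d`. -/
noncomputable def shapeT (u w : ℝ) : Fin 14 → ℝ :=
  let a := o.al
  let b := o.be
  let r := 1 / o.N
  ![a * u, -a * w, b * u, -b * w, a * u, -u / 2, -a * w - u * (1 / 2 - r),
    b * u + w * (1 / 2 - r), w / 2, -b * w, a * r * u, -a * r * w, b * r * u, -b * r * w]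

/-- The velocity of `D`. -/
def vD : ℝ := o.al * o.vX + o.be * o.vY

/-- The field built from `T · d`, times `D`. -/
noncomputable def fT : Fin 14 → ℝ := o.shapeT (o.D / o.X) (o.D / o.Y)

/-- Its velocity. -/
noncomputable def vT : Fin 14 → ℝ :=
  o.shapeT ((o.vD * o.X - o.D * o.vX) / o.X ^ 2) ((o.vD * o.Y - o.D * o.vY) / o.Y ^ 2)

/-- The shape of the field built from `C/(XY) - Q/Q₀`. -/
def shapeW (u w a b : ℝ) : Fin 14 → ℝ := ![0, 0, 0, 0, 0, 0, u, -w, 0, 0, 0, 0, a, b]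

/-- The field built from `C/(XY) - Q/Q₀`, times `D d`. -/
noncomputable def fW : Fin 14 → ℝ :=
  shapeW (o.D / o.X) (o.D / o.Y) (-(o.D * o.Y / o.Q)) (o.D * o.X / o.Q)

/-- Its velocity. -/
noncomputable def vW : Fin 14 → ℝ :=
  shapeW ((o.vD * o.X - o.D * o.vX) / o.X ^ 2) ((o.vD * o.Y - o.D * o.vY) / o.Y ^ 2)
    (-(((o.vD * o.Y + o.D * o.vY) * o.Q - o.D * o.Y * o.vQ) / o.Q ^ 2))
    (((o.vD * o.X + o.D * o.vX) * o.Q - o.D * o.X * o.vQ) / o.Q ^ 2)

/-- The seven free fields. -/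
noncomputable def fld7 : Fin 7 → Fin 14 → ℝ :=
  ![o.fU, o.fG 0, o.fG 1, o.fG 2, o.fG 3, o.fT, o.fW]

/-- Their velocities. -/
noncomputable def vel7 : Fin 7 → Fin 14 → ℝ :=
  ![o.vU, o.vG 0, o.vG 1, o.vG 2, o.vG 3, o.vT, o.vW]

/-- The coefficients for scalars `k`. -/
noncomputable def coef (k : Fin 7 → ℝ) (j : Fin 14) : ℝ :=
  o.cBase j + ∑ r, k r * o.fld7 r j

/-- `z d/dz` of the coefficients when `z dk/dz = dk`. -/
noncomputable def dcoef (k dk : Fin 7 → ℝ) (j : Fin 14) : ℝ :=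
  ∑ r, (dk r * o.fld7 r j + k r * (o.vel7 r j / o.phi))

/-- The derivative of the weighted coefficients along `a`. -/
noncomputable def cLa (k dk : Fin 7 → ℝ) (j : Fin 14) : ℝ :=
  o.coef k j * o.lam - (o.q + 1) * o.dcoef k dk j

/-- The derivative of the weighted coefficients along `b`. -/
noncomputable def cMb (k dk : Fin 7 → ℝ) (j : Fin 14) : ℝ :=
  o.coef k j * o.mu + (o.p + 1) * o.dcoef k dk j

end Orb

end Vale.Agent.P100.Calib
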