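import Mathlib
import Vale.Agent.P100.Calib.Block
import Vale.Agent.P100.Calib.Fields

/-!
# The orbit point is a critical zero of the eliminated form

Stationarity of the Hessians and vanishing of the first variation are linear in the coefficient
data, so they are checked field by field; they give the kernel identity with an explicit `τ`.
-/

namespace Vale.Agent.P100.Calib

open Orb

variable {c la mb c' la' mb' : Fin 14 → ℝ} (o : Orb)

/-- `u₀ A + u₁ C + u₂ B`. -/
def lu (c la mb : Fin 14 → ℝ) (A C B : ℝ) : ℝ :=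
  linU c la mb 0 * A + linU c la mb 1 * C + linU c la mb 2 * B

/-- `v₀ A + v₁ C + v₂ B`. -/
def lv (c la mb : Fin 14 → ℝ) (A C B : ℝ) : ℝ :=
  linV c la mb 0 * A + linV c la mb 1 * C + linV c la mb 2 * B

/-- The linearisation at the orbit point, the Hessians being the orbit ones. -/
noncomputable def lin (o : Orb) (c la mb : Fin 14 → ℝ) (A C B P Q : ℝ) : ℝ :=
  freePart o.p o.q c la mb (A + o.X ^ 2) (C + o.X * o.Y) (B + o.Y ^ 2) (P + o.P) (Q + o.Q) -
    freePart o.p o.q c la mb A C B P Q -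
    freePart o.p o.q c la mb (o.X ^ 2) (o.X * o.Y) (o.Y ^ 2) o.P o.Q +
  (2 * c 0 * ((A + P) * (o.X ^ 2 + o.P)) +
    (c 1 + c 2) * ((A + P) * (o.Y ^ 2 + o.Q) + (B + Q) * (o.X ^ 2 + o.P)) +
    2 * c 3 * ((B + Q) * (o.Y ^ 2 + o.Q)) -
    (A + P) * lu c la mb (o.X ^ 2) (o.X * o.Y) (o.Y ^ 2) - (o.X ^ 2 + o.P) * lu c la mb A C B -
    (B + Q) * lv c la mb (o.X ^ 2) (o.X * o.Y) (o.Y ^ 2) -
    (o.Y ^ 2 + o.Q) * lv c la mb A C B) / o.N +
  (1 - 1 / o.N) * (o.sU * lu c la mb A C B + o.sV * lv c la mb A C B)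

/-- Stationarity of the two Hessians and vanishing first variation up to a multiple of
`Y² A - 2XY C + X² B`. -/
structure IsKer (o : Orb) (c la mb : Fin 14 → ℝ) : Prop where
  statU : 2 * c 0 * o.sU + (c 1 + c 2) * o.sV + lu c la mb (o.X ^ 2) (o.X * o.Y) (o.Y ^ 2) = 0
  statV : (c 1 + c 2) * o.sU + 2 * c 3 * o.sV + lv c la mb (o.X ^ 2) (o.X * o.Y) (o.Y ^ 2) = 0
  line : lin o c la mb 0 0 0 o.P o.Q = 0
  grad : ∀ A C B, o.Y ^ 2 * lin o c la mb A C B 0 0 =
    (o.Y ^ 2 * A - 2 * (o.X * o.Y) * C + o.X ^ 2 * B) * lin o c la mb 1 0 0 0 0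

theorem lu_add (A C B : ℝ) :
    lu (c + c') (la + la') (mb + mb') A C B = lu c la mb A C B + lu c' la' mb' A C B := by
  simp [lu, linU]; ring

theorem lv_add (A C B : ℝ) :
    lv (c + c') (la + la') (mb + mb') A C B = lv c la mb A C B + lv c' la' mb' A C B := by
  simp [lv, linV]; ring

theorem lu_smul (k A C B : ℝ) :
    lu (k • c) (k • la) (k • mb) A C B = k * lu c la mb A C B := by
  simp [lu, linU]; ring

theorem lv_smul (k A C B : ℝ) :
    lv (k • c) (k • la) (k • mb) A C B = k * lv c la mb A C B := by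
  simp [lv, linV]; ring

theorem lin_add (A C B P Q : ℝ) :
    lin o (c + c') (la + la') (mb + mb') A C B P Q =
      lin o c la mb A C B P Q + lin o c' la' mb' A C B P Q := by
  simp only [lin, lu_add, lv_add, freePart, Pi.add_apply]; ring

theorem lin_smul (k A C B P Q : ℝ) :
    lin o (k • c) (k • la) (k • mb) A C B P Q = k * lin o c la mb A C B P Q := by
  simp only [lin, lu_smul, lv_smul, freePart, Pi.smul_apply, smul_eq_mul]; ring

theorem IsKer.add (h : IsKer o c la mb) (h' : IsKer o c' la' mb') :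
    IsKer o (c + c') (la + la') (mb + mb') where
  statU := by
    simp only [lu_add, Pi.add_apply]; linear_combination h.statU + h'.statU
  statV := by
    simp only [lv_add, Pi.add_apply]; linear_combination h.statV + h'.statV
  line := by rw [lin_add, h.line, h'.line, add_zero]
  grad A C B := by
    rw [lin_add, lin_add]; linear_combination h.grad A C B + h'.grad A C B

theorem IsKer.smul (h : IsKer o c la mb) (k : ℝ) : IsKer o (k • c) (k • la) (k • mb) where
  statU := by
    simp only [lu_smul, Pi.smul_apply, smul_eq_mul]; linear_combination k * h.statU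
  statV := by
    simp only [lv_smul, Pi.smul_apply, smul_eq_mul]; linear_combination k * h.statV
  line := by rw [lin_smul, h.line, mul_zero]
  grad A C B := by
    rw [lin_smul, lin_smul]; linear_combination k * h.grad A C B

theorem IsKer.zero : IsKer o 0 0 0 := by
  constructor <;> intros <;> simp [lin, lu, lv, linU, linV, freePart]

theorem IsKer.sum {ι : Type} (s : Finset ι) {f g h : ι → Fin 14 → ℝ}
    (H : ∀ i ∈ s, IsKer o (f i) (g i) (h i)) :
    IsKer o (∑ i ∈ s, f i) (∑ i ∈ s, g i) (∑ i ∈ s, h i) := by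
  classical
  induction s using Finset.induction_on with
  | empty => simpa using IsKer.zero o
  | insert a s ha ih =>
    simp only [Finset.sum_insert ha]
    exact (H a (Finset.mem_insert_self a s)).add o
      (ih fun i hi => H i (Finset.mem_insert_of_mem hi))

/-- The middle term along the kernel. -/
theorem middle_shift {c₀ m c₃ su sv u v u₀ v₀ : ℝ} (hd : c₀ * c₃ - m ^ 2 ≠ 0)
    (hu : u₀ = -2 * (c₀ * su + m * sv)) (hv : v₀ = -2 * (m * su + c₃ * sv)) :
    (c₃ * (u + u₀) ^ 2 - 2 * m * ((u + u₀) * (v + v₀)) + c₀ * (v + v₀) ^ 2) /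
        (4 * (c₀ * c₃ - m ^ 2)) =
      (c₃ * u ^ 2 - 2 * m * (u * v) + c₀ * v ^ 2) / (4 * (c₀ * c₃ - m ^ 2)) -
        (su * u + sv * v) - (su * u₀ + sv * v₀) / 2 := by
  subst hu hv
  rw [div_sub', div_sub', div_eq_div_iff]
  · ring
  all_goals simp [hd]

theorem gram_rank (r g₀ g₁ g₂ h₀ h₁ h₂ A C B : ℝ) :
    gram r g₀ g₁ g₂ h₀ h₁ h₂ A C B =
      (1 - r) * ((g₀ * A + g₁ * C + g₂ * B) * (h₀ * A + h₁ * C + h₂ * B)) +
        (A * B - C ^ 2) * (g₁ * h₁ / 2 - g₀ * h₂ - g₂ * h₀) := by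
  unfold gram; ring

/-- The part of `τ` coming from the Gram determinant. -/
noncomputable def tauGram (c la mb : Fin 14 → ℝ) : ℝ :=
  (c 3 * (linU c la mb 1 ^ 2 / 2 - 2 * linU c la mb 0 * linU c la mb 2) -
    (c 1 + c 2) * (linU c la mb 1 * linV c la mb 1 / 2 - linU c la mb 0 * linV c la mb 2 -
      linU c la mb 2 * linV c la mb 0) +
    c 0 * (linV c la mb 1 ^ 2 / 2 - 2 * linV c la mb 0 * linV c la mb 2)) /
    (4 * (c 0 * c 3 - ((c 1 + c 2) / 2) ^ 2))

/-- The multiplier `τ`. -/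
noncomputable def tauOf (o : Orb) (c la mb : Fin 14 → ℝ) : ℝ :=
  lin o c la mb 1 0 0 0 0 / o.Y ^ 2 - tauGram c la mb

/-- **Kernel identity.** -/
theorem IsKer.identity (h : IsKer o c la mb) (hY : o.Y ≠ 0) (hQ : o.Q ≠ 0)
    (hd : c 0 * c 3 - ((c 1 + c 2) / 2) ^ 2 ≠ 0) (A C B : ℝ) :
    elimN o.N o.p o.q c la mb (A + o.X ^ 2) (C + o.X * o.Y) (B + o.Y ^ 2)
        (o.P / o.Q * o.Q) o.Q =
      elimN o.N o.p o.q c la mb A C B 0 0 +
        tauOf o c la mb * (o.Y ^ 2 * A - 2 * (o.X * o.Y) * C + o.X ^ 2 * B) := by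
  have hY2 : o.Y ^ 2 ≠ 0 := pow_ne_zero 2 hY
  rw [div_mul_cancel₀ _ hQ]
  have g1 : lin o c la mb A C B 0 0 =
      (o.Y ^ 2 * A - 2 * (o.X * o.Y) * C + o.X ^ 2 * B) *
        (lin o c la mb 1 0 0 0 0 / o.Y ^ 2) := by
    field_simp; linear_combination h.grad A C B
  have g2 : lin o c la mb (o.X ^ 2) (o.X * o.Y) (o.Y ^ 2) o.P o.Q = 0 := by
    have e : lin o c la mb (o.X ^ 2) (o.X * o.Y) (o.Y ^ 2) o.P o.Q =
        lin o c la mb (o.X ^ 2) (o.X * o.Y) (o.Y ^ 2) 0 0 +
          lin o c la mb 0 0 0 o.P o.Q := by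
      simp only [lin, freePart, lu, lv]; ring
    have g0 := h.grad (o.X ^ 2) (o.X * o.Y) (o.Y ^ 2)
    rw [show o.Y ^ 2 * o.X ^ 2 - 2 * (o.X * o.Y) * (o.X * o.Y) + o.X ^ 2 * o.Y ^ 2 = 0 by ring,
      zero_mul] at g0
    rw [e, h.line, (mul_eq_zero.1 g0).resolve_left hY2, add_zero]
  have hu : lu c la mb (o.X ^ 2) (o.X * o.Y) (o.Y ^ 2) =
      -2 * (c 0 * o.sU + (c 1 + c 2) / 2 * o.sV) := by linear_combination h.statU
  have hv : lv c la mb (o.X ^ 2) (o.X * o.Y) (o.Y ^ 2) =
      -2 * ((c 1 + c 2) / 2 * o.sU + c 3 * o.sV) := by linear_combination h.statV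
  have key := middle_shift (u := lu c la mb A C B) (v := lv c la mb A C B) hd hu hv
  rw [lin] at g1 g2
  simp only [elimN, hessPair, gram_rank, tauOf, tauGram]
  simp only [lu, lv, freePart] at key g1 g2 ⊢
  linear_combination g1 + g2 / 2 - (1 - 1 / o.N) * key

section
variable (hv : o.Valid)
include hv

theorem al_ne : o.al ≠ 0 := fun h => by have := hv.hp; rw [h, mul_zero] at this; norm_num at this

theorem be_ne : o.be ≠ 0 := fun h => by have := hv.hq; rw [h, mul_zero] at this; norm_num at this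

theorem p_eq : o.p = 1 / o.al - 1 := by
  have := al_ne o hv; field_simp; linear_combination hv.hp

theorem q_eq : o.q = 1 / o.be - 1 := by
  have := be_ne o hv; field_simp; linear_combination hv.hq

theorem P_eq : o.P = -(o.be * o.Q + o.X * o.Y + o.N * (o.al * o.X + o.be * o.Y)) / o.al := by
  have := al_ne o hv; field_simp; linear_combination hv.quadric

theorem be_eq : o.be = (o.N - 2) / o.N - o.al := by
  have := hv.N0; field_simp; linear_combination hv.hN

theorem phi_eq : o.phi = -(o.al * o.X - o.be * o.Y) / (o.al * o.be) := by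
  have := al_ne o hv; have := be_ne o hv
  rw [Orb.phi, p_eq o hv, q_eq o hv]; field_simp; ring

end

end Vale.Agent.P100.Calib
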