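import Mathlib
import Vale.Agent.P100.Calib.Kernel

/-!
# From the gradient block to all states, uniformly through the centre of the orbit

With `X = -2Rx`, `Y = -2Ry`, `Zp = R z s`, `Zq = R s` the kernel ray divided by `R` is
`(4Rx², 4Rxy, 4Ry², z s, s)`, which is regular at `R = 0`. The multiplier becomes `τ R`.
-/

namespace Vale.Agent.P100.Calib

/-- The multiplier times `R`. -/
noncomputable def rayTau (N p q : ℝ) (c la mb : Fin 14 → ℝ) (R x y z s : ℝ) : ℝ :=
  (elimN N p q c la mb (1 + 4 * R * x ^ 2) (4 * R * x * y) (4 * R * y ^ 2) (z * s) s -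
    elimN N p q c la mb 1 0 0 0 0) / (4 * y ^ 2)

/-- The ray is a critical zero: the kernel identity and stationarity of the two Hessians. -/
structure RayKer (N p q : ℝ) (c la mb : Fin 14 → ℝ) (R x y z s : ℝ) : Prop where
  ker : ∀ A C B : ℝ,
    elimN N p q c la mb (A + 4 * R * x ^ 2) (C + 4 * R * x * y) (B + 4 * R * y ^ 2) (z * s) s =
      elimN N p q c la mb A C B 0 0 +
        4 * rayTau N p q c la mb R x y z s * (y ^ 2 * A - 2 * (x * y) * C + x ^ 2 * B)
  statU : 2 * c 0 * (2 * N * x - 4 * R * x ^ 2 - z * s) +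
    (c 1 + c 2) * (2 * N * y - 4 * R * y ^ 2 - s) +
    lu c la mb (4 * R * x ^ 2) (4 * R * x * y) (4 * R * y ^ 2) = 0
  statV : (c 1 + c 2) * (2 * N * x - 4 * R * x ^ 2 - z * s) +
    2 * c 3 * (2 * N * y - 4 * R * y ^ 2 - s) +
    lv c la mb (4 * R * x ^ 2) (4 * R * x * y) (4 * R * y ^ 2) = 0

theorem elimN_smul (N p q : ℝ) (c la mb : Fin 14 → ℝ) (t A C B P Q : ℝ) :
    elimN N p q c la mb (t * A) (t * C) (t * B) (t * P) (t * Q) =
      t ^ 2 * elimN N p q c la mb A C B P Q := by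
  unfold elimN freePart hessPair gram
  ring

theorem elimGap_smul (c la mb : Fin 14 → ℝ) (t A C B P Q : ℝ) :
    elimGap c la mb (t * A) (t * C) (t * B) (t * P) (t * Q) =
      t ^ 2 * elimGap c la mb A C B P Q := by
  unfold elimGap hessGap
  ring

/-- Away from `R = 0` the kernel conditions at the orbit point give the ray conditions. -/
theorem rayKer_of_isKer {o : Orb} {c la mb : Fin 14 → ℝ} (h : IsKer o c la mb)
    {R x y z s : ℝ} (hR : R ≠ 0) (hy : y ≠ 0) (hs : s ≠ 0) (hX : o.X = -2 * R * x)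
    (hY : o.Y = -2 * R * y) (hP : o.P = R * (z * s)) (hQ : o.Q = R * s)
    (hd : c 0 * c 3 - ((c 1 + c 2) / 2) ^ 2 ≠ 0) :
    RayKer o.N o.p o.q c la mb R x y z s := by
  have hY0 : o.Y ≠ 0 := by rw [hY]; simp [hR, hy]
  have hQ0 : o.Q ≠ 0 := by rw [hQ]; simp [hR, hs]
  have key : ∀ A C B : ℝ,
      elimN o.N o.p o.q c la mb (A + 4 * R * x ^ 2) (C + 4 * R * x * y) (B + 4 * R * y ^ 2) (z * s) s =
        elimN o.N o.p o.q c la mb A C B 0 0 +
          4 * R * tauOf o c la mb * (y ^ 2 * A - 2 * (x * y) * C + x ^ 2 * B) := by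
    intro A C B
    have e := h.identity o hY0 hQ0 hd (R * A) (R * C) (R * B)
    rw [div_mul_cancel₀ _ hQ0, hP, hQ, hX, hY,
      show R * A + (-2 * R * x) ^ 2 = R * (A + 4 * R * x ^ 2) by ring,
      show R * C + -2 * R * x * (-2 * R * y) = R * (C + 4 * R * x * y) by ring,
      show R * B + (-2 * R * y) ^ 2 = R * (B + 4 * R * y ^ 2) by ring, elimN_smul] at e
    have e0 := elimN_smul o.N o.p o.q c la mb R A C B 0 0
    rw [mul_zero] at e0
    refine mul_left_cancel₀ (pow_ne_zero 2 hR) ?_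
    linear_combination e + e0
  have ht : rayTau o.N o.p o.q c la mb R x y z s = R * tauOf o c la mb := by
    have e := key 1 0 0
    simp only [zero_add] at e
    rw [rayTau, e]
    field_simp
    ring
  refine ⟨fun A C B => by rw [ht, key]; ring, ?_, ?_⟩
  · refine mul_left_cancel₀ hR ?_
    have e := h.statU
    simp only [Orb.sU, Orb.sV, hX, hY, hP, hQ, lu] at e ⊢
    linear_combination e
  · refine mul_left_cancel₀ hR ?_
    have e := h.statV
    simp only [Orb.sU, Orb.sV, hX, hY, hP, hQ, lv] at e ⊢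
    linear_combination e

/-- **Block to global, with positivity.** If the block minus `μ (AB - C²)` is positive definite,
`0 ≤ μ` and `μ R ≤ τ R`, the form is nonnegative at all states and its zeros have a positive
surplus. -/
theorem pos_of_rayKer {N p q R x y z s μ : ℝ} {c la mb : Fin 14 → ℝ}
    (h : RayKer N p q c la mb R x y z s) (hN : N ≠ 0) (hs : 0 < s) (hy : y ≠ 0) (h0 : 0 < c 0)
    (hd : 0 < c 0 * c 3 - ((c 1 + c 2) / 2) ^ 2)
    (hblock : ∀ A C B : ℝ, A ≠ 0 ∨ C ≠ 0 ∨ B ≠ 0 →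
      μ * (A * B - C ^ 2) < elimN N p q c la mb A C B 0 0)
    (hμ : 0 ≤ μ) (hτ : μ * R ≤ rayTau N p q c la mb R x y z s) {A B C Q : ℝ} (hA : 0 ≤ A)
    (hB : 0 ≤ B) (hC : C ^ 2 ≤ A * B) (hQ : 0 ≤ Q) (hne : 0 < A + B + Q) :
    0 ≤ elimN N p q c la mb A C B (z * Q) Q ∧
      (elimN N p q c la mb A C B (z * Q) Q = 0 → 0 < elimGap c la mb A C B (z * Q) Q) := by
  set T := rayTau N p q c la mb R x y z s with hT
  set l := Q / s with hl
  have hl0 : 0 ≤ l := div_nonneg hQ hs.le
  have hlQ : l * s = Q := div_mul_cancel₀ Q hs.ne'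
  set E := y ^ 2 * A - 2 * (x * y) * C + x ^ 2 * B with hE
  have hE0 : 0 ≤ E := by
    rcases eq_or_lt_of_le hA with hA' | hA'
    · have : C = 0 := by
        rw [← hA', zero_mul] at hC
        exact pow_eq_zero_iff two_ne_zero |>.1 (le_antisymm hC (sq_nonneg C))
      rw [hE, ← hA', this]
      simp only [mul_zero, zero_sub, neg_zero, zero_add]
      positivity
    · refine nonneg_of_mul_nonneg_right ?_ hA'
      have : A * E = (y * A - x * C) ^ 2 + x ^ 2 * (A * B - C ^ 2) := by rw [hE]; ring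
      rw [this]
      exact add_nonneg (sq_nonneg _) (mul_nonneg (sq_nonneg _) (sub_nonneg.2 hC))
  have h00 : elimN N p q c la mb 0 0 0 0 0 = 0 := by
    unfold elimN freePart hessPair gram; ring
  have hray : elimN N p q c la mb (4 * R * x ^ 2) (4 * R * x * y) (4 * R * y ^ 2) (z * s) s = 0 := by
    have := h.ker 0 0 0
    simpa [h00] using this
  set A' := A - l * (4 * R * x ^ 2) with hA'
  set C' := C - l * (4 * R * x * y) with hC'
  set B' := B - l * (4 * R * y ^ 2) with hB'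
  have key := elimN_line N p q c la mb A' C' B' (4 * R * x ^ 2) (4 * R * x * y) (4 * R * y ^ 2)
    (z * s) s l
  rw [hray, h.ker, ← hT, hA', hC', hB', sub_add_cancel, sub_add_cancel, sub_add_cancel,
    show l * (z * s) = z * Q by rw [← hlQ]; ring, hlQ] at key
  rw [← hA', ← hC', ← hB'] at key
  have split : elimN N p q c la mb A C B (z * Q) Q =
      (elimN N p q c la mb A' C' B' 0 0 - μ * (A' * B' - C' ^ 2)) + μ * (A * B - C ^ 2) +
        4 * l * (T - μ * R) * E := by
    rw [key, hA', hC', hB', hE]; ring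
  have r1 : 0 ≤ μ * (A * B - C ^ 2) := mul_nonneg hμ (sub_nonneg.2 hC)
  have r2 : 0 ≤ 4 * l * (T - μ * R) * E :=
    mul_nonneg (mul_nonneg (by linarith) (sub_nonneg.2 hτ)) hE0
  have r0 : A' ≠ 0 ∨ C' ≠ 0 ∨ B' ≠ 0 →
      0 < elimN N p q c la mb A' C' B' 0 0 - μ * (A' * B' - C' ^ 2) :=
    fun hn => sub_pos.2 (hblock A' C' B' hn)
  by_cases hz : A' = 0 ∧ C' = 0 ∧ B' = 0
  swap
  · have := r0 (by tauto)
    have hp' : 0 < elimN N p q c la mb A C B (z * Q) Q := by rw [split]; linarith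
    exact ⟨hp'.le, fun e => absurd e hp'.ne'⟩
  obtain ⟨zA, zC, zB⟩ := hz
  refine ⟨?_, fun _ => ?_⟩
  · rw [split, zA, zC, zB, h00]; linarith
  have eA : A = l * (4 * R * x ^ 2) := sub_eq_zero.1 zA
  have eC : C = l * (4 * R * x * y) := sub_eq_zero.1 zC
  have eB : B = l * (4 * R * y ^ 2) := sub_eq_zero.1 zB
  have hlp : 0 < l := by
    rcases hl0.eq_or_lt with hl' | hl'
    · rw [← hl', zero_mul] at eA eB
      rw [← hlQ, ← hl', eA, eB] at hne
      linarith
    · exact hl'
  rw [eA, eC, eB, show z * Q = l * (z * s) by rw [← hlQ]; ring, ← hlQ, elimGap_smul]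
  refine mul_pos (pow_pos hlp 2) ?_
  have hu := h.statU
  have hw := h.statV
  simp only [lu, lv] at hu hw
  set m := (c 1 + c 2) / 2 with hm
  have e : elimGap c la mb (4 * R * x ^ 2) (4 * R * x * y) (4 * R * y ^ 2) (z * s) s =
      4 * N ^ 2 * ((c 0 * x + m * y) ^ 2 / c 0 + (c 0 * c 3 - m ^ 2) / c 0 * y ^ 2) := by
    have eU : c 0 * -(4 * R * x ^ 2 + z * s) + m * -(4 * R * y ^ 2 + s) +
        (linU c la mb 0 * (4 * R * x ^ 2) + linU c la mb 1 * (4 * R * x * y) +
          linU c la mb 2 * (4 * R * y ^ 2)) / 2 = -2 * N * (c 0 * x + m * y) := by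
      rw [hm]; linear_combination hu / 2
    have eV : (c 0 * c 3 - m ^ 2) / c 0 * -(4 * R * y ^ 2 + s) +
        ((linV c la mb 0 - m / c 0 * linU c la mb 0) * (4 * R * x ^ 2) +
          (linV c la mb 1 - m / c 0 * linU c la mb 1) * (4 * R * x * y) +
          (linV c la mb 2 - m / c 0 * linU c la mb 2) * (4 * R * y ^ 2)) / 2 =
        -2 * N * ((c 0 * c 3 - m ^ 2) / c 0 * y) := by
      rw [hm]; field_simp
      linear_combination (2 * c 0) * hw - (c 1 + c 2) * hu
    rw [elimGap, hessGap, ← hm, eU, eV]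
    field_simp
    ring
  rw [e]
  positivity

end Vale.Agent.P100.Calib
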