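import Mathlib
import Vale.Agent.P100.Calib.Block

/-!
# The end point `z = 0` of the orbit

At `z = 0` the orbit value `Zq` may vanish, so the reduction to the gradient block is replaced by
its limit: adding the orbit state changes the form by `τ (Y² A - 2 XY C + X² B)`, whatever `Q` is.
Then positivity on the quotient by the orbit state gives the positivity at every state.
-/

open Filter Topology

namespace Vale.Agent.P100.Calib

/-- `Y² A - 2XY C + X² B`. -/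
def crossE (X Y A C B : ℝ) : ℝ := Y ^ 2 * A - 2 * (X * Y) * C + X ^ 2 * B

theorem crossE_nonneg (X Y : ℝ) {A C B : ℝ} (hA : 0 ≤ A) (hB : 0 ≤ B) (hC : C ^ 2 ≤ A * B) :
    0 ≤ crossE X Y A C B := by
  rcases eq_or_lt_of_le hA with h | h
  · have : C = 0 := by
      rw [← h, zero_mul] at hC
      exact pow_eq_zero_iff two_ne_zero |>.1 (le_antisymm hC (sq_nonneg C))
    simp only [crossE, ← h, this, mul_zero, zero_sub, neg_zero, zero_add]
    positivity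
  · refine nonneg_of_mul_nonneg_right ?_ h
    have : A * crossE X Y A C B = (Y * A - X * C) ^ 2 + X ^ 2 * (A * B - C ^ 2) := by
      unfold crossE; ring
    rw [this]
    exact add_nonneg (sq_nonneg _) (mul_nonneg (sq_nonneg _) (sub_nonneg.2 hC))

/-- The form is quadratic along every line. -/
theorem elimN_add_smul (N p q : ℝ) (c la mb : Fin 14 → ℝ) (A C B P Q A₀ C₀ B₀ P₀ Q₀ l : ℝ) :
    elimN N p q c la mb (A + l * A₀) (C + l * C₀) (B + l * B₀) (P + l * P₀) (Q + l * Q₀) =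
      elimN N p q c la mb A C B P Q +
      l * (elimN N p q c la mb (A + A₀) (C + C₀) (B + B₀) (P + P₀) (Q + Q₀) -
        elimN N p q c la mb A C B P Q - elimN N p q c la mb A₀ C₀ B₀ P₀ Q₀) +
      l ^ 2 * elimN N p q c la mb A₀ C₀ B₀ P₀ Q₀ := by
  unfold elimN freePart hessPair gram
  ring

theorem elimN_zero (N p q : ℝ) (c la mb : Fin 14 → ℝ) : elimN N p q c la mb 0 0 0 0 0 = 0 := by
  unfold elimN freePart hessPair gram; ring

theorem elimGap_scale (c la mb : Fin 14 → ℝ) (A C B P Q l : ℝ) :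
    elimGap c la mb (l * A) (l * C) (l * B) (l * P) (l * Q) =
      l ^ 2 * elimGap c la mb A C B P Q := by
  unfold elimGap hessGap; ring

/-- The kernel identity holds for every `Q`, not only for `Q = 0`. -/
theorem line_identity {N p q X Y z Zq τ : ℝ} {c la mb : Fin 14 → ℝ} (hZ : Zq ≠ 0)
    (hker : ∀ A C B : ℝ,
      elimN N p q c la mb (A + X ^ 2) (C + X * Y) (B + Y ^ 2) (z * Zq) Zq =
        elimN N p q c la mb A C B 0 0 + τ * crossE X Y A C B) (A C B Q : ℝ) :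
    elimN N p q c la mb (A + X ^ 2) (C + X * Y) (B + Y ^ 2) (z * (Q + Zq)) (Q + Zq) =
      elimN N p q c la mb A C B (z * Q) Q + τ * crossE X Y A C B := by
  have hv : elimN N p q c la mb (X ^ 2) (X * Y) (Y ^ 2) (z * Zq) Zq = 0 := by
    have := hker 0 0 0
    simpa [elimN_zero, crossE] using this
  obtain ⟨s, rfl⟩ : ∃ s, Q = s * Zq := ⟨Q / Zq, (div_mul_cancel₀ Q hZ).symm⟩
  have hl : ∀ l : ℝ, elimN N p q c la mb (A - s * X ^ 2 + l * X ^ 2) (C - s * (X * Y) + l * (X * Y))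
      (B - s * Y ^ 2 + l * Y ^ 2) (z * (l * Zq)) (l * Zq) =
      elimN N p q c la mb (A - s * X ^ 2) (C - s * (X * Y)) (B - s * Y ^ 2) 0 0 +
        l * (τ * crossE X Y A C B) := by
    intro l
    have key := elimN_line N p q c la mb (A - s * X ^ 2) (C - s * (X * Y)) (B - s * Y ^ 2) (X ^ 2)
      (X * Y) (Y ^ 2) (z * Zq) Zq l
    rw [hv, hker] at key
    rw [mul_left_comm z l Zq, key]
    unfold crossE
    ring
  have h0 := hl s
  have h1 := hl (s + 1)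
  simp only [sub_add_cancel] at h0
  rw [show A - s * X ^ 2 + (s + 1) * X ^ 2 = A + X ^ 2 by ring,
    show C - s * (X * Y) + (s + 1) * (X * Y) = C + X * Y by ring,
    show B - s * Y ^ 2 + (s + 1) * Y ^ 2 = B + Y ^ 2 by ring,
    show (s + 1) * Zq = s * Zq + Zq by ring] at h1
  rw [h1, h0]
  ring

/-- The eliminated form is continuous in its data. -/
theorem tendsto_elimN {ι : Type*} {l : Filter ι} (N p q : ℝ)
    {cs las mbs : ι → Fin 14 → ℝ} {c la mb : Fin 14 → ℝ} (hc : Tendsto cs l (𝓝 c))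
    (hla : Tendsto las l (𝓝 la)) (hmb : Tendsto mbs l (𝓝 mb))
    (hd : c 0 * c 3 - ((c 1 + c 2) / 2) ^ 2 ≠ 0) {As Cs Bs Ps Qs : ι → ℝ} {A C B P Q : ℝ}
    (hA : Tendsto As l (𝓝 A)) (hC : Tendsto Cs l (𝓝 C)) (hB : Tendsto Bs l (𝓝 B))
    (hP : Tendsto Ps l (𝓝 P)) (hQ : Tendsto Qs l (𝓝 Q)) :
    Tendsto (fun i => elimN N p q (cs i) (las i) (mbs i) (As i) (Cs i) (Bs i) (Ps i) (Qs i)) l
      (𝓝 (elimN N p q c la mb A C B P Q)) := by
  have hc' := tendsto_pi_nhds.1 hc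
  have hla' := tendsto_pi_nhds.1 hla
  have hmb' := tendsto_pi_nhds.1 hmb
  have kU : ∀ k, Tendsto (fun i => linU (cs i) (las i) (mbs i) k) l (𝓝 (linU c la mb k)) := by
    intro k
    fin_cases k
    · exact (((hc' 0).const_mul (-2)).add (hla' 0)).add ((hc' 4).const_mul 2)
    · exact (((((hc' 1).const_mul (-2)).add (hla' 1)).add (hmb' 0)).add ((hc' 5).const_mul 2)).add
        (hc' 6)
    · exact (hmb' 1).add (hc' 7)
  have kV : ∀ k, Tendsto (fun i => linV (cs i) (las i) (mbs i) k) l (𝓝 (linV c la mb k)) := by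
    intro k
    fin_cases k
    · exact (hla' 2).add (hc' 6)
    · exact (((((hc' 2).const_mul (-2)).add (hla' 3)).add (hmb' 2)).add (hc' 7)).add
        ((hc' 8).const_mul 2)
    · exact (((hc' 3).const_mul (-2)).add (hmb' 3)).add ((hc' 9).const_mul 2)
  have hfree : Tendsto (fun i => freePart p q (cs i) (las i) (mbs i) (As i) (Cs i) (Bs i) (Ps i)
      (Qs i)) l (𝓝 (freePart p q c la mb A C B P Q)) := by
    unfold freePart
    repeat' with_reducible first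
      | exact tendsto_const_nhds | exact hA | exact hB | exact hC | exact hP | exact hQ
      | exact hc' _ | exact hla' _ | exact hmb' _
      | apply Tendsto.add | apply Tendsto.sub | apply Tendsto.neg | apply Tendsto.mul
  have kgram : ∀ {g₀ g₁ g₂ h₀ h₁ h₂ : ι → ℝ} {G₀ G₁ G₂ H₀ H₁ H₂ : ℝ},
      Tendsto g₀ l (𝓝 G₀) → Tendsto g₁ l (𝓝 G₁) → Tendsto g₂ l (𝓝 G₂) →
      Tendsto h₀ l (𝓝 H₀) → Tendsto h₁ l (𝓝 H₁) → Tendsto h₂ l (𝓝 H₂) →
      Tendsto (fun i => gram (1 / N) (g₀ i) (g₁ i) (g₂ i) (h₀ i) (h₁ i) (h₂ i) (As i) (Cs i)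
        (Bs i)) l (𝓝 (gram (1 / N) G₀ G₁ G₂ H₀ H₁ H₂ A C B)) := by
    intro g₀ g₁ g₂ h₀ h₁ h₂ G₀ G₁ G₂ H₀ H₁ H₂ a b c d e f
    unfold gram
    repeat' with_reducible first
      | exact tendsto_const_nhds | exact hA | exact hB | exact hC | assumption
      | apply Tendsto.add | apply Tendsto.sub | apply Tendsto.div_const | apply Tendsto.pow
      | apply Tendsto.mul
  have hm := ((hc' 1).add (hc' 2)).div_const 2
  have hS := (hA.add hP).neg
  have hT := (hB.add hQ).neg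
  refine hfree.add (Tendsto.sub ((Tendsto.add ?_ ?_).div_const N) (Tendsto.div ?_ ?_ ?_))
  · exact ((((hc' 0).mul (hS.pow 2)).add ((hm.const_mul 2).mul (hS.mul hT))).add
      ((hc' 3).mul (hT.pow 2))).add
      (hS.mul ((((kU 0).mul hA).add ((kU 1).mul hC)).add ((kU 2).mul hB)))
  · exact hT.mul ((((kV 0).mul hA).add ((kV 1).mul hC)).add ((kV 2).mul hB))
  · exact (((hc' 3).mul (kgram (kU 0) (kU 1) (kU 2) (kU 0) (kU 1) (kU 2))).sub
      ((hm.const_mul 2).mul (kgram (kU 0) (kU 1) (kU 2) (kV 0) (kV 1) (kV 2)))).add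
      ((hc' 0).mul (kgram (kV 0) (kV 1) (kV 2) (kV 0) (kV 1) (kV 2)))
  · exact (((hc' 0).mul (hc' 3)).sub (hm.pow 2)).const_mul 4
  · exact mul_ne_zero four_ne_zero hd

/-- **The identity at a limit point of the orbit.** -/
theorem line_identity_of_tendsto {ι : Type*} {l : Filter ι} [l.NeBot] {N p q : ℝ} {cs las mbs : ι → Fin 14 → ℝ} {c la mb : Fin 14 → ℝ} {Xs Ys zs Zs : ι → ℝ}
    {X Y z Zq : ℝ} (hc : Tendsto cs l (𝓝 c)) (hla : Tendsto las l (𝓝 la))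
    (hmb : Tendsto mbs l (𝓝 mb)) (hd : c 0 * c 3 - ((c 1 + c 2) / 2) ^ 2 ≠ 0)
    (hX : Tendsto Xs l (𝓝 X)) (hY : Tendsto Ys l (𝓝 Y)) (hz : Tendsto zs l (𝓝 z))
    (hZ : Tendsto Zs l (𝓝 Zq)) (hY0 : Y ≠ 0)
    (hker : ∀ᶠ i in l, Zs i ≠ 0 ∧ ∃ τ, ∀ A C B : ℝ,
      elimN N p q (cs i) (las i) (mbs i) (A + Xs i ^ 2) (C + Xs i * Ys i) (B + Ys i ^ 2)
          (zs i * Zs i) (Zs i) =
        elimN N p q (cs i) (las i) (mbs i) A C B 0 0 + τ * crossE (Xs i) (Ys i) A C B)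
    (A C B Q : ℝ) :
    elimN N p q c la mb (A + X ^ 2) (C + X * Y) (B + Y ^ 2) (z * (Q + Zq)) (Q + Zq) =
      elimN N p q c la mb A C B (z * Q) Q +
        (elimN N p q c la mb (1 + X ^ 2) (X * Y) (Y ^ 2) (z * Zq) Zq -
          elimN N p q c la mb 1 0 0 0 0) / Y ^ 2 * crossE X Y A C B := by
  let G : ℝ → ℝ → ℝ → ℝ → (Fin 14 → ℝ) → (Fin 14 → ℝ) → (Fin 14 → ℝ) → ℝ → ℝ → ℝ → ℝ → ℝ :=
    fun A C B Q c la mb X Y z Z =>
      elimN N p q c la mb (A + X ^ 2) (C + X * Y) (B + Y ^ 2) (z * (Q + Z)) (Q + Z) -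
        elimN N p q c la mb A C B (z * Q) Q
  have hG : ∀ A C B Q, Tendsto
      (fun i => G A C B Q (cs i) (las i) (mbs i) (Xs i) (Ys i) (zs i) (Zs i)) l
      (𝓝 (G A C B Q c la mb X Y z Zq)) := fun A C B Q =>
    (tendsto_elimN N p q hc hla hmb hd (tendsto_const_nhds.add (hX.pow 2))
      (tendsto_const_nhds.add (hX.mul hY)) (tendsto_const_nhds.add (hY.pow 2))
      (hz.mul (tendsto_const_nhds.add hZ)) (tendsto_const_nhds.add hZ)).sub
      (tendsto_elimN N p q hc hla hmb hd tendsto_const_nhds tendsto_const_nhds tendsto_const_nhds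
        (hz.mul tendsto_const_nhds) tendsto_const_nhds)
  have hE : Tendsto (fun i => crossE (Xs i) (Ys i) A C B) l (𝓝 (crossE X Y A C B)) := by
    unfold crossE
    exact (((hY.pow 2).mul_const A).sub (((hX.mul hY).const_mul 2).mul_const C)).add
      ((hX.pow 2).mul_const B)
  have key : G A C B Q c la mb X Y z Zq * Y ^ 2 =
      G 1 0 0 0 c la mb X Y z Zq * crossE X Y A C B := by
    refine tendsto_nhds_unique_of_eventuallyEq ((hG A C B Q).mul (hY.pow 2))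
      ((hG 1 0 0 0).mul hE) ?_
    filter_upwards [hker] with i ⟨hi, τ, hτ⟩
    simp only [G, line_identity hi hτ, add_sub_cancel_left]
    unfold crossE
    ring
  simp only [G, zero_add, mul_zero] at key
  field_simp
  linear_combination key

/-- On a stationary orbit state the surplus is `N²` times the form in `(X, Y)`. -/
theorem elimGap_orbit {N X Y P Q : ℝ} {c la mb : Fin 14 → ℝ} (h0 : 0 < c 0)
    (hd : 0 < c 0 * c 3 - ((c 1 + c 2) / 2) ^ 2)
    (hu : 2 * c 0 * (-N * X - X ^ 2 - P) + (c 1 + c 2) * (-N * Y - Y ^ 2 - Q) +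
      (linU c la mb 0 * X ^ 2 + linU c la mb 1 * (X * Y) + linU c la mb 2 * Y ^ 2) = 0)
    (hv : (c 1 + c 2) * (-N * X - X ^ 2 - P) + 2 * c 3 * (-N * Y - Y ^ 2 - Q) +
      (linV c la mb 0 * X ^ 2 + linV c la mb 1 * (X * Y) + linV c la mb 2 * Y ^ 2) = 0) :
    elimGap c la mb (X ^ 2) (X * Y) (Y ^ 2) P Q =
      N ^ 2 * (c 0 * X ^ 2 + (c 1 + c 2) * (X * Y) + c 3 * Y ^ 2) := by
  set m := (c 1 + c 2) / 2 with hm
  set d := c 0 * c 3 - m ^ 2 with hd'
  have e1 : c 0 * (-(X ^ 2 + P)) + m * (-(Y ^ 2 + Q)) +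
      (linU c la mb 0 * X ^ 2 + linU c la mb 1 * (X * Y) + linU c la mb 2 * Y ^ 2) / 2 =
      N * (c 0 * X + m * Y) := by
    rw [hm]; linear_combination (1 / 2 : ℝ) * hu
  have e2 : d / c 0 * (-(Y ^ 2 + Q)) + ((linV c la mb 0 - m / c 0 * linU c la mb 0) * X ^ 2 +
      (linV c la mb 1 - m / c 0 * linU c la mb 1) * (X * Y) +
      (linV c la mb 2 - m / c 0 * linU c la mb 2) * Y ^ 2) / 2 = N * (d / c 0 * Y) := by
    rw [hd']
    field_simp
    rw [hm]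
    linear_combination (c 0) * hv - (c 1 + c 2) / 2 * hu
  rw [elimGap, hessGap, ← hm, ← hd', e1, e2]
  have := hd.ne'
  have e3 : c 1 + c 2 = 2 * m := by rw [hm]; ring
  rw [e3]
  field_simp
  rw [hd']
  ring

theorem elimGap_orbit_pos {N X Y P Q : ℝ} {c la mb : Fin 14 → ℝ} (hN : N ≠ 0) (h0 : 0 < c 0)
    (hd : 0 < c 0 * c 3 - ((c 1 + c 2) / 2) ^ 2) (hY : Y ≠ 0)
    (hu : 2 * c 0 * (-N * X - X ^ 2 - P) + (c 1 + c 2) * (-N * Y - Y ^ 2 - Q) +
      (linU c la mb 0 * X ^ 2 + linU c la mb 1 * (X * Y) + linU c la mb 2 * Y ^ 2) = 0)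
    (hv : (c 1 + c 2) * (-N * X - X ^ 2 - P) + 2 * c 3 * (-N * Y - Y ^ 2 - Q) +
      (linV c la mb 0 * X ^ 2 + linV c la mb 1 * (X * Y) + linV c la mb 2 * Y ^ 2) = 0) :
    0 < elimGap c la mb (X ^ 2) (X * Y) (Y ^ 2) P Q := by
  rw [elimGap_orbit h0 hd hu hv]
  refine mul_pos (lt_of_le_of_ne (sq_nonneg N) (Ne.symm (pow_ne_zero 2 hN))) ?_
  have e : c 0 * X ^ 2 + (c 1 + c 2) * (X * Y) + c 3 * Y ^ 2 =
      (c 0 * X + (c 1 + c 2) / 2 * Y) ^ 2 / c 0 +
        (c 0 * c 3 - ((c 1 + c 2) / 2) ^ 2) / c 0 * Y ^ 2 := by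
    field_simp; ring
  rw [e]
  exact add_pos_of_nonneg_of_pos (div_nonneg (sq_nonneg _) h0.le)
    (mul_pos (div_pos hd h0) (lt_of_le_of_ne (sq_nonneg Y) (Ne.symm (pow_ne_zero 2 hY))))

/-- **Positivity from the quotient by the orbit state.** -/
theorem elimN_pos_of_ray {N p q X Y z τ ν δ : ℝ} {c la mb : Fin 14 → ℝ} (hY : Y ≠ 0)
    (hray : ∀ A C B Q : ℝ, elimN N p q c la mb (A + X ^ 2) (C + X * Y) (B + Y ^ 2) (z * Q) Q =
      elimN N p q c la mb A C B (z * Q) Q + τ * crossE X Y A C B)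
    (hquot : ∀ A C Q : ℝ, δ * (A ^ 2 + C ^ 2 + Q ^ 2) + τ * (-C ^ 2) + ν * Q * crossE X Y A C 0 ≤
      elimN N p q c la mb A C 0 (z * Q) Q)
    (hδ : 0 < δ) (hτ : 0 ≤ τ) (hν : 0 ≤ ν)
    (hgap : 0 < elimGap c la mb (X ^ 2) (X * Y) (Y ^ 2) 0 0) {A C B Q : ℝ} (hA : 0 ≤ A)
    (hB : 0 ≤ B) (hC : C ^ 2 ≤ A * B) (hQ : 0 ≤ Q) (hsum : 0 < A + B + Q) :
    0 ≤ elimN N p q c la mb A C B (z * Q) Q ∧
      (elimN N p q c la mb A C B (z * Q) Q = 0 → 0 < elimGap c la mb A C B (z * Q) Q) := by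
  have hv : elimN N p q c la mb (X ^ 2) (X * Y) (Y ^ 2) 0 0 = 0 := by
    have := hray 0 0 0 0
    simpa [elimN_zero, crossE] using this
  obtain ⟨l, hl⟩ : ∃ l, B = l * Y ^ 2 := ⟨B / Y ^ 2, (div_mul_cancel₀ B (pow_ne_zero 2 hY)).symm⟩
  obtain ⟨A', rfl⟩ : ∃ A', A = A' + l * X ^ 2 := ⟨_, (sub_add_cancel A _).symm⟩
  obtain ⟨C', rfl⟩ : ∃ C', C = C' + l * (X * Y) := ⟨_, (sub_add_cancel C _).symm⟩
  have key := elimN_add_smul N p q c la mb A' C' 0 (z * Q) Q (X ^ 2) (X * Y) (Y ^ 2) 0 0 l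
  simp only [mul_zero, add_zero] at key
  rw [hray, hv, zero_add (l * Y ^ 2), ← hl] at key
  have hE : crossE X Y (A' + l * X ^ 2) (C' + l * (X * Y)) B = crossE X Y A' C' 0 := by
    rw [hl]; unfold crossE; ring
  have hdet : (A' + l * X ^ 2) * B - (C' + l * (X * Y)) ^ 2 =
      -C' ^ 2 + l * crossE X Y A' C' 0 := by
    rw [hl]; unfold crossE; ring
  have h1 : 0 ≤ τ * (-C' ^ 2 + l * crossE X Y A' C' 0) := by
    rw [← hdet]; exact mul_nonneg hτ (sub_nonneg.2 hC)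
  have h2 : 0 ≤ ν * Q * crossE X Y A' C' 0 := by
    rw [← hE]; exact mul_nonneg (mul_nonneg hν hQ) (crossE_nonneg X Y hA hB hC)
  have h3 := hquot A' C' Q
  have h4 : δ * (A' ^ 2 + C' ^ 2 + Q ^ 2) ≤
      elimN N p q c la mb (A' + l * X ^ 2) (C' + l * (X * Y)) B (z * Q) Q := by
    rw [key]; linarith
  refine ⟨le_trans (by positivity) h4, fun h => ?_⟩
  rw [h] at h4
  have hz2 : A' ^ 2 + C' ^ 2 + Q ^ 2 ≤ 0 := nonpos_of_mul_nonpos_right h4 hδ
  have hA' : A' = 0 := pow_eq_zero_iff two_ne_zero |>.1 (le_antisymm (by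
    linarith [sq_nonneg C', sq_nonneg Q]) (sq_nonneg A'))
  have hC' : C' = 0 := pow_eq_zero_iff two_ne_zero |>.1 (le_antisymm (by
    linarith [sq_nonneg A', sq_nonneg Q]) (sq_nonneg C'))
  have hQ' : Q = 0 := pow_eq_zero_iff two_ne_zero |>.1 (le_antisymm (by
    linarith [sq_nonneg A', sq_nonneg C']) (sq_nonneg Q))
  have hl0 : l ≠ 0 := by
    rintro rfl
    rw [hA', hQ', hl] at hsum
    simp at hsum
  have hg := elimGap_scale c la mb (X ^ 2) (X * Y) (Y ^ 2) 0 0 l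
  simp only [mul_zero] at hg
  simp only [hA', hC', hQ', hl, zero_add, mul_zero, hg]
  exact mul_pos (lt_of_le_of_ne (sq_nonneg l) (Ne.symm (pow_ne_zero 2 hl0))) hgap

end Vale.Agent.P100.Calib
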