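import Mathlib

/-!
# Positivity of a polynomial expression on a box in four variables

In the coordinates `x = (lo + hi w)/(den (1 + w))`, `w ≥ 0`, an expression becomes a polynomial in
`w` over a common denominator. The polynomial is packed into one integer; bounds on the size of the
coefficients and on the degrees make the digits equal to the coefficients.
-/

namespace Vale.Agent.P100.Calib.BoxPos

/-- Four natural numbers. -/
structure Vec where
  c₀ : ℕ
  c₁ : ℕ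
  c₂ : ℕ
  c₃ : ℕ

/-- The components. -/
def Vec.get (v : Vec) : Fin 4 → ℕ := ![v.c₀, v.c₁, v.c₂, v.c₃]

/-- The configuration: the digit base and the degree bounds. -/
structure Cfg where
  bits : ℕ
  bound : Vec

/-- The base. -/
def Cfg.base (c : Cfg) : ℕ := 2 ^ c.bits

/-- The strides. -/
def Cfg.stride (c : Cfg) : Vec :=
  ⟨(c.bound.c₁ + 1) * ((c.bound.c₂ + 1) * (c.bound.c₃ + 1)),
    (c.bound.c₂ + 1) * (c.bound.c₃ + 1), c.bound.c₃ + 1, 1⟩

/-- The packed value of a variable. -/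
def Cfg.packed (c : Cfg) (s : ℕ) : ℤ := ((c.base ^ s : ℕ) : ℤ)

/-- The evaluation point of the packing. -/
def Cfg.point (c : Cfg) : Fin 4 → ℤ := fun i => c.packed (c.stride.get i)

/-- The number of digits. -/
def Cfg.count (c : Cfg) : ℕ := (c.bound.c₀ + 1) * c.stride.c₀

/-- A packed polynomial with a bound, degrees and a denominator. -/
structure Res where
  E : ℤ
  M : ℕ
  n : Vec
  D : ℕ

/-- Product. -/
def Res.mul (p q : Res) : Res :=
  ⟨p.E * q.E, p.M * q.M,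
    ⟨p.n.c₀ + q.n.c₀, p.n.c₁ + q.n.c₁, p.n.c₂ + q.n.c₂, p.n.c₃ + q.n.c₃⟩, p.D * q.D⟩

/-- A constant `n / d`. -/
def Res.cst (n : ℤ) (d : ℕ) : Res := ⟨n, n.natAbs, ⟨0, 0, 0, 0⟩, d⟩

/-- A power of one of `1 + w`, packed as `e`, with degree vector `v`. -/
def Res.raise (e : ℤ) (v : Vec) : ℕ → Res
  | 0 => Res.cst 1 1
  | k + 1 => Res.mul ⟨1 + e, 2, v, 1⟩ (Res.raise e v k)

/-- Raise the degrees to `m`. -/
def Res.lift (c : Cfg) (p : Res) (m : Vec) : Res :=
  Res.mul (Res.mul (Res.raise (c.packed c.stride.c₀) ⟨1, 0, 0, 0⟩ (m.c₀ - p.n.c₀))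
    (Res.raise (c.packed c.stride.c₁) ⟨0, 1, 0, 0⟩ (m.c₁ - p.n.c₁)))
    (Res.mul (Res.raise (c.packed c.stride.c₂) ⟨0, 0, 1, 0⟩ (m.c₂ - p.n.c₂))
      (Res.mul (Res.raise (c.packed c.stride.c₃) ⟨0, 0, 0, 1⟩ (m.c₃ - p.n.c₃)) p))

/-- Sum. -/
def Res.add (c : Cfg) (p q : Res) : Res :=
  let m : Vec := ⟨max p.n.c₀ q.n.c₀, max p.n.c₁ q.n.c₁, max p.n.c₂ q.n.c₂, max p.n.c₃ q.n.c₃⟩
  let a := Res.lift c p m
  let b := Res.lift c q m
  let g := Nat.gcd p.D q.D
  ⟨a.E * ((q.D / g : ℕ) : ℤ) + b.E * ((p.D / g : ℕ) : ℤ), a.M * (q.D / g) + b.M * (p.D / g), m,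
    p.D * (q.D / g)⟩

/-- Negation. -/
def Res.neg (p : Res) : Res := ⟨-p.E, p.M, p.n, p.D⟩

/-- Expressions in four variables. -/
inductive Ex
  | cst (n : ℤ) (d : ℕ)
  | x₀
  | x₁
  | x₂
  | x₃
  | add (a b : Ex)
  | sub (a b : Ex)
  | mul (a b : Ex)

/-- The value of an expression. -/
noncomputable def Ex.val (x₀ x₁ x₂ x₃ : ℝ) : Ex → ℝ
  | .cst n d => n / d
  | .x₀ => x₀
  | .x₁ => x₁
  | .x₂ => x₂
  | .x₃ => x₃
  | .add a b => a.val x₀ x₁ x₂ x₃ + b.val x₀ x₁ x₂ x₃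
  | .sub a b => a.val x₀ x₁ x₂ x₃ - b.val x₀ x₁ x₂ x₃
  | .mul a b => a.val x₀ x₁ x₂ x₃ * b.val x₀ x₁ x₂ x₃

/-- A side of a box: from `lo/den` to `hi/den`. -/
structure Side where
  lo : ℤ
  hi : ℤ
  den : ℕ

/-- A box. -/
structure Box where
  s₀ : Side
  s₁ : Side
  s₂ : Side
  s₃ : Side

/-- A variable on a side. -/
def Side.res (s : Side) (e : ℤ) (v : Vec) : Res :=
  ⟨s.lo + s.hi * e, s.lo.natAbs + s.hi.natAbs, v, s.den⟩

/-- The packed form of an expression on a box. -/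
def Ex.res (c : Cfg) (b : Box) : Ex → Res
  | .cst n d => Res.cst n d
  | .x₀ => b.s₀.res (c.packed c.stride.c₀) ⟨1, 0, 0, 0⟩
  | .x₁ => b.s₁.res (c.packed c.stride.c₁) ⟨0, 1, 0, 0⟩
  | .x₂ => b.s₂.res (c.packed c.stride.c₂) ⟨0, 0, 1, 0⟩
  | .x₃ => b.s₃.res (c.packed c.stride.c₃) ⟨0, 0, 0, 1⟩
  | .add e f => Res.add c (e.res c b) (f.res c b)
  | .sub e f => Res.add c (e.res c b) (f.res c b).neg
  | .mul e f => Res.mul (e.res c b) (f.res c b)

/-- The constants have nonzero denominators. -/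
def Ex.ok : Ex → Bool
  | .cst _ d => decide (0 < d)
  | .add a b => a.ok && b.ok
  | .sub a b => a.ok && b.ok
  | .mul a b => a.ok && b.ok
  | _ => true

/-- The first `k` digits lie in the lower half. -/
def digitsOk (X : ℕ) : ℕ → ℕ → Bool
  | 0, _ => true
  | k + 1, e => decide (2 * (e % X) < X) && digitsOk X k (e / X)

/-- The test. -/
def Res.test (c : Cfg) (r : Res) : Bool :=
  decide (r.n.c₀ ≤ c.bound.c₀) && (decide (r.n.c₁ ≤ c.bound.c₁) &&
    (decide (r.n.c₂ ≤ c.bound.c₂) && (decide (r.n.c₃ ≤ c.bound.c₃) &&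
      (decide (2 * r.M < c.base) && (decide (0 ≤ r.E) &&
        (decide (0 < r.E.toNat % c.base) && digitsOk c.base c.count r.E.toNat))))))

/-- The test on an expression. -/
def Ex.check (e : Ex) (c : Cfg) (b : Box) : Bool :=
  e.ok && (decide (0 < b.s₀.den) && (decide (0 < b.s₁.den) && (decide (0 < b.s₂.den) &&
    (decide (0 < b.s₃.den) && Res.test c (e.res c b)))))

/-! ### Soundness -/

open MvPolynomial

/-- A packed polynomial stands for the value `x` at the point `w`. -/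
def Res.Good (c : Cfg) (w : Fin 4 → ℝ) (r : Res) (x : ℝ) : Prop :=
  0 < r.D ∧ ∃ P A : MvPolynomial (Fin 4) ℤ,
    (∀ I, |coeff I P| ≤ coeff I A) ∧ eval (fun _ => 1) A ≤ (r.M : ℤ) ∧
      (∀ i, degreeOf i P ≤ r.n.get i) ∧ eval c.point P = r.E ∧
        aeval w P = x * r.D * ∏ i, (1 + w i) ^ r.n.get i

variable {c : Cfg} {w : Fin 4 → ℝ} {p q : Res} {x y : ℝ}

theorem eval_one_nonneg {A : MvPolynomial (Fin 4) ℤ} (hA : ∀ I, 0 ≤ coeff I A) :
    0 ≤ eval (fun _ => (1 : ℤ)) A := by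
  rw [eval_eq]
  exact Finset.sum_nonneg fun I _ => by simpa using hA I

theorem good_mul (hp : p.Good c w x) (hq : q.Good c w y) : (p.mul q).Good c w (x * y) := by
  obtain ⟨pD, P, A, hPA, hA, hP, eP, vP⟩ := hp
  obtain ⟨qD, Q, B, hQB, hB, hQ, eQ, vQ⟩ := hq
  have hn : ∀ i, (p.mul q).n.get i = p.n.get i + q.n.get i := by
    intro i; fin_cases i <;> rfl
  refine ⟨Nat.mul_pos pD qD, P * Q, A * B, fun I => ?_, ?_, fun i => ?_, ?_, ?_⟩
  · classical
    rw [coeff_mul, coeff_mul]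
    refine (Finset.abs_sum_le_sum_abs _ _).trans (Finset.sum_le_sum fun a _ => ?_)
    rw [abs_mul]
    exact mul_le_mul (hPA _) (hQB _) (abs_nonneg _) ((abs_nonneg _).trans (hPA _))
  · rw [map_mul]
    push_cast [Res.mul]
    exact mul_le_mul hA hB (eval_one_nonneg fun I => (abs_nonneg _).trans (hQB I))
      (Nat.cast_nonneg _)
  · exact (degreeOf_mul_le i P Q).trans (by rw [hn]; exact add_le_add (hP i) (hQ i))
  · rw [map_mul, eP, eQ]; rfl
  · simp only [map_mul, vP, vQ, hn, pow_add, Finset.prod_mul_distrib]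
    simp only [Res.mul]
    push_cast
    ring

theorem good_cst (n : ℤ) {d : ℕ} (hd : 0 < d) : (Res.cst n d).Good c w (n / d) := by
  have hd' : (d : ℝ) ≠ 0 := by exact_mod_cast hd.ne'
  have e : ∀ i, (Res.cst n d).n.get i = 0 := by intro i; fin_cases i <;> rfl
  refine ⟨hd, C n, C (n.natAbs : ℤ), fun I => ?_, (eval_C _).le, fun i => ?_, eval_C _, ?_⟩
  · rw [coeff_C, coeff_C]
    split_ifs
    · exact le_of_eq (Int.abs_eq_natAbs n)
    · simp
  · rw [degreeOf_C]; exact Nat.zero_le _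
  · simp only [e, pow_zero, Finset.prod_const_one, mul_one, aeval_C]
    simp [Res.cst, div_mul_cancel₀ _ hd']

/-- The unit vector. -/
def unitVec : Fin 4 → Vec := ![⟨1, 0, 0, 0⟩, ⟨0, 1, 0, 0⟩, ⟨0, 0, 1, 0⟩, ⟨0, 0, 0, 1⟩]

theorem unitVec_get (i j : Fin 4) : (unitVec i).get j = if j = i then 1 else 0 := by
  fin_cases i <;> fin_cases j <;> rfl

theorem good_affine (i : Fin 4) (a b : ℤ) {d : ℕ} (hd : 0 < d) {x : ℝ}
    (hx : (a : ℝ) + b * w i = x * d * (1 + w i)) :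
    Res.Good c w ⟨a + b * c.point i, a.natAbs + b.natAbs, unitVec i, d⟩ x := by
  classical
  refine ⟨hd, C a + C b * X i, C (a.natAbs : ℤ) + C (b.natAbs : ℤ) * X i, fun I => ?_, by simp,
    fun j => ?_, by simp, ?_⟩
  · rw [coeff_add, coeff_add, coeff_C, coeff_C, coeff_C_mul, coeff_C_mul, coeff_X]
    refine (abs_add_le _ _).trans (add_le_add ?_ ?_)
    · split_ifs
      · exact (Int.abs_eq_natAbs a).le
      · exact abs_zero.le
    · split_ifs
      · rw [mul_one, mul_one]; exact (Int.abs_eq_natAbs b).le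
      · rw [mul_zero, mul_zero, abs_zero]
  · refine (degreeOf_add_le j _ _).trans (max_le (by rw [degreeOf_C]; exact Nat.zero_le _) ?_)
    refine (degreeOf_C_mul_le _ j b).trans ?_
    rw [unitVec_get]
    split_ifs with h <;> simp [degreeOf_X, h]
  · have e : (∏ j, (1 + w j) ^ (unitVec i).get j) = 1 + w i := by
      simp [unitVec_get, pow_ite]
    simp only [map_add, map_mul, aeval_X, aeval_C, e]
    simpa using hx

theorem good_raise (i : Fin 4) : ∀ k, (Res.raise (c.point i) (unitVec i) k).Good c w 1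
  | 0 => by simpa [Res.raise] using good_cst (c := c) (w := w) 1 one_pos
  | k + 1 => by
    have h := good_mul (good_affine (c := c) (w := w) i 1 1 one_pos (x := 1) (by simp))
      (good_raise i k)
    simpa [Res.raise] using h

theorem raise_n (e : ℤ) (v : Vec) : ∀ k, (Res.raise e v k).n.c₀ = k * v.c₀ ∧
    (Res.raise e v k).n.c₁ = k * v.c₁ ∧ (Res.raise e v k).n.c₂ = k * v.c₂ ∧
    (Res.raise e v k).n.c₃ = k * v.c₃
  | 0 => by simp [Res.raise, Res.cst]
  | k + 1 => by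
    obtain ⟨h0, h1, h2, h3⟩ := raise_n e v k
    simp only [Res.raise, Res.mul, h0, h1, h2, h3, add_one_mul, add_comm, and_self]

theorem raise_D (e : ℤ) (v : Vec) : ∀ k, (Res.raise e v k).D = 1
  | 0 => rfl
  | k + 1 => by simp [Res.raise, Res.mul, raise_D e v k]

theorem good_lift (hp : p.Good c w x) (m : Vec) : (p.lift c m).Good c w x := by
  have h := good_mul (good_mul (good_raise (c := c) (w := w) 0 (m.c₀ - p.n.c₀))
    (good_raise (c := c) (w := w) 1 (m.c₁ - p.n.c₁)))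
    (good_mul (good_raise (c := c) (w := w) 2 (m.c₂ - p.n.c₂))
      (good_mul (good_raise (c := c) (w := w) 3 (m.c₃ - p.n.c₃)) hp))
  simp only [one_mul] at h
  exact h

theorem lift_n (p : Res) (m : Vec) (h₀ : p.n.c₀ ≤ m.c₀) (h₁ : p.n.c₁ ≤ m.c₁) (h₂ : p.n.c₂ ≤ m.c₂)
    (h₃ : p.n.c₃ ≤ m.c₃) : (p.lift c m).n = m := by
  simp only [Res.lift, Res.mul, raise_n, mul_one, mul_zero, zero_add, add_zero,
    Nat.sub_add_cancel h₀, Nat.sub_add_cancel h₁, Nat.sub_add_cancel h₂, Nat.sub_add_cancel h₃]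

theorem good_same (hp : p.Good c w x) (hq : q.Good c w y) (hn : q.n = p.n) (hD : q.D = p.D) :
    Res.Good c w ⟨p.E + q.E, p.M + q.M, p.n, p.D⟩ (x + y) := by
  obtain ⟨pD, P, A, hPA, hA, hP, eP, vP⟩ := hp
  obtain ⟨-, Q, B, hQB, hB, hQ, eQ, vQ⟩ := hq
  refine ⟨pD, P + Q, A + B, fun I => ?_, ?_, fun i => ?_, ?_, ?_⟩
  · rw [coeff_add, coeff_add]
    exact (abs_add_le _ _).trans (add_le_add (hPA I) (hQB I))
  · rw [map_add]
    push_cast
    exact add_le_add hA hB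
  · exact (degreeOf_add_le i P Q).trans (max_le (hP i) (hn ▸ hQ i))
  · rw [map_add, eP, eQ]
  · simp only [map_add, vP, vQ, hn, hD]
    ring

theorem good_neg (hp : p.Good c w x) : p.neg.Good c w (-x) := by
  obtain ⟨pD, P, A, hPA, hA, hP, eP, vP⟩ := hp
  refine ⟨pD, -P, A, fun I => ?_, hA, fun i => ?_, ?_, ?_⟩
  · rw [coeff_neg, abs_neg]
    exact hPA I
  · rw [degreeOf_neg]
    exact hP i
  · rw [map_neg, eP]; rfl
  · simp only [map_neg, vP, Res.neg]
    ring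

theorem good_scale (hp : p.Good c w x) {k : ℕ} (hk : 0 < k) :
    Res.Good c w ⟨p.E * (k : ℤ), p.M * k, p.n, p.D * k⟩ x := by
  have h := good_mul hp (good_cst (c := c) (w := w) (k : ℤ) hk)
  have hk' : (k : ℝ) ≠ 0 := by exact_mod_cast hk.ne'
  simpa [Res.mul, Res.cst, hk'] using h

theorem good_add (hp : p.Good c w x) (hq : q.Good c w y) : (p.add c q).Good c w (x + y) := by
  set m : Vec := ⟨max p.n.c₀ q.n.c₀, max p.n.c₁ q.n.c₁, max p.n.c₂ q.n.c₂, max p.n.c₃ q.n.c₃⟩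
  have hpn : (p.lift c m).n = m :=
    lift_n p m (le_max_left ..) (le_max_left ..) (le_max_left ..) (le_max_left ..)
  have hqn : (q.lift c m).n = m :=
    lift_n q m (le_max_right ..) (le_max_right ..) (le_max_right ..) (le_max_right ..)
  have eD : ∀ r : Res, (r.lift c m).D = r.D := fun r => by
    simp only [Res.lift, Res.mul, raise_D, one_mul]
  have hg : 0 < Nat.gcd p.D q.D := Nat.gcd_pos_of_pos_left _ hp.1
  have h := good_same
    (good_scale (good_lift hp m) (k := q.D / Nat.gcd p.D q.D)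
      (Nat.div_pos (Nat.le_of_dvd hq.1 (Nat.gcd_dvd_right ..)) hg))
    (good_scale (good_lift hq m) (k := p.D / Nat.gcd p.D q.D)
      (Nat.div_pos (Nat.le_of_dvd hp.1 (Nat.gcd_dvd_left ..)) hg))
    (by simp only [hpn, hqn])
    (by simp only [eD, ← Nat.mul_div_assoc _ (Nat.gcd_dvd_left ..),
      ← Nat.mul_div_assoc _ (Nat.gcd_dvd_right ..), mul_comm])
  simp only [hpn, eD] at h
  exact h

theorem good_res (b : Box) {y₀ y₁ y₂ y₃ : ℝ}
    (d₀ : 0 < b.s₀.den) (d₁ : 0 < b.s₁.den) (d₂ : 0 < b.s₂.den) (d₃ : 0 < b.s₃.den)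
    (e₀ : (b.s₀.lo : ℝ) + b.s₀.hi * w 0 = y₀ * b.s₀.den * (1 + w 0))
    (e₁ : (b.s₁.lo : ℝ) + b.s₁.hi * w 1 = y₁ * b.s₁.den * (1 + w 1))
    (e₂ : (b.s₂.lo : ℝ) + b.s₂.hi * w 2 = y₂ * b.s₂.den * (1 + w 2))
    (e₃ : (b.s₃.lo : ℝ) + b.s₃.hi * w 3 = y₃ * b.s₃.den * (1 + w 3)) :
    ∀ e : Ex, e.ok = true → (e.res c b).Good c w (e.val y₀ y₁ y₂ y₃)
  | .cst n d, h => good_cst n (by simpa [Ex.ok] using h)
  | .x₀, _ => good_affine (c := c) (w := w) 0 b.s₀.lo b.s₀.hi d₀ e₀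
  | .x₁, _ => good_affine (c := c) (w := w) 1 b.s₁.lo b.s₁.hi d₁ e₁
  | .x₂, _ => good_affine (c := c) (w := w) 2 b.s₂.lo b.s₂.hi d₂ e₂
  | .x₃, _ => good_affine (c := c) (w := w) 3 b.s₃.lo b.s₃.hi d₃ e₃
  | .add e f, h => by
    simp only [Ex.ok, Bool.and_eq_true] at h
    exact good_add (good_res b d₀ d₁ d₂ d₃ e₀ e₁ e₂ e₃ e h.1)
      (good_res b d₀ d₁ d₂ d₃ e₀ e₁ e₂ e₃ f h.2)
  | .sub e f, h => by
    simp only [Ex.ok, Bool.and_eq_true] at h
    have := good_add (good_res b d₀ d₁ d₂ d₃ e₀ e₁ e₂ e₃ e h.1)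
      (good_neg (good_res b d₀ d₁ d₂ d₃ e₀ e₁ e₂ e₃ f h.2))
    rw [← sub_eq_add_neg] at this
    exact this
  | .mul e f, h => by
    simp only [Ex.ok, Bool.and_eq_true] at h
    exact good_mul (good_res b d₀ d₁ d₂ d₃ e₀ e₁ e₂ e₃ e h.1)
      (good_res b d₀ d₁ d₂ d₃ e₀ e₁ e₂ e₃ f h.2)

/-- The position of a monomial. -/
def Cfg.idx (c : Cfg) (I : Fin 4 →₀ ℕ) : ℕ := ∑ i, c.stride.get i * I i

theorem idx_lt_and_inj (c : Cfg) {I J : Fin 4 →₀ ℕ} (hI : ∀ i, I i ≤ c.bound.get i)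
    (hJ : ∀ i, J i ≤ c.bound.get i) : c.idx I < c.count ∧ (c.idx I = c.idx J → I = J) := by
  have e : ∀ K : Fin 4 →₀ ℕ, c.idx K = ((K 0 * (c.bound.c₁ + 1) + K 1) * (c.bound.c₂ + 1) + K 2) *
      (c.bound.c₃ + 1) + K 3 := fun K => by
    simp only [Cfg.idx, Fin.sum_univ_four, Cfg.stride, Vec.get]
    simp
    ring
  have split : ∀ {m a a' b b' : ℕ}, b < m → b' < m → a * m + b = a' * m + b' → a = a' ∧ b = b' := by
    intro m a a' b b' hb hb' h
    rcases lt_trichotomy a a' with h1 | h1 | h1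
    · have := Nat.mul_le_mul_right m h1
      rw [Nat.succ_mul] at this
      omega
    · subst h1; omega
    · have := Nat.mul_le_mul_right m h1
      rw [Nat.succ_mul] at this
      omega
  have lim : ∀ {m n a b : ℕ}, a < n → b < m → a * m + b < n * m := by
    intro m n a b ha hb
    have := Nat.mul_le_mul_right m ha
    rw [Nat.succ_mul] at this
    omega
  have b : ∀ K : Fin 4 →₀ ℕ, (∀ i, K i ≤ c.bound.get i) → K 0 < c.bound.c₀ + 1 ∧
      K 1 < c.bound.c₁ + 1 ∧ K 2 < c.bound.c₂ + 1 ∧ K 3 < c.bound.c₃ + 1 := fun K h =>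
    ⟨Nat.lt_succ_of_le (h 0), Nat.lt_succ_of_le (h 1), Nat.lt_succ_of_le (h 2),
      Nat.lt_succ_of_le (h 3)⟩
  obtain ⟨i0, i1, i2, i3⟩ := b I hI
  obtain ⟨-, j1, j2, j3⟩ := b J hJ
  refine ⟨?_, fun h => ?_⟩
  · rw [e]
    refine lt_of_lt_of_eq (lim (lim (lim i0 i1) i2) i3) ?_
    simp only [Cfg.count, Cfg.stride]
    ring
  · rw [e, e] at h
    obtain ⟨h, h3⟩ := split i3 j3 h
    obtain ⟨h, h2⟩ := split i2 j2 h
    obtain ⟨h0, h1⟩ := split i1 j1 h
    ext i
    fin_cases i <;> assumption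

theorem coeff_nonneg_of_digits (X : ℕ) : ∀ (k : ℕ) (U : Polynomial ℤ) (e : ℕ),
    (∀ n, 2 * |U.coeff n| < X) → U.eval (X : ℤ) = e → digitsOk X k e = true →
      (∀ n < k, 0 ≤ U.coeff n) ∧ (0 < k → U.coeff 0 = (e % X : ℕ))
  | 0, U, e, _, _, _ => ⟨fun n hn => absurd hn (Nat.not_lt_zero n), fun h => absurd h (lt_irrefl _)⟩
  | k + 1, U, e, hU, he, hd => by
    simp only [digitsOk, Bool.and_eq_true, decide_eq_true_eq] at hd
    have hdec := Polynomial.X_mul_divX_add U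
    have hev : (X : ℤ) * U.divX.eval (X : ℤ) + U.coeff 0 = e := by
      rw [← he]
      conv_rhs => rw [← hdec]
      simp
    have h2 : ((e % X : ℕ) : ℤ) + (X : ℤ) * ((e / X : ℕ) : ℤ) = e := by
      exact_mod_cast Nat.mod_add_div e X
    have hd1 : 2 * ((e % X : ℕ) : ℤ) < X := by exact_mod_cast hd.1
    have hb := abs_le.1 (le_of_eq (rfl : |U.coeff 0| = |U.coeff 0|))
    have hlt := hU 0
    have h0 : U.coeff 0 = ((e % X : ℕ) : ℤ) := by
      have h3 : U.coeff 0 - ((e % X : ℕ) : ℤ) =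
          (X : ℤ) * (((e / X : ℕ) : ℤ) - U.divX.eval (X : ℤ)) := by linarith
      have h4 : |U.coeff 0 - ((e % X : ℕ) : ℤ)| < X := by
        rw [abs_lt]
        have hm : (0 : ℤ) ≤ ((e % X : ℕ) : ℤ) := Int.natCast_nonneg _
        constructor <;> linarith
      have := Int.eq_zero_of_abs_lt_dvd ⟨_, h3⟩ h4
      linarith
    have hX : (0 : ℤ) < X := lt_of_le_of_lt (by positivity) hlt
    have hr : U.divX.eval (X : ℤ) = ((e / X : ℕ) : ℤ) := by
      refine mul_left_cancel₀ hX.ne' ?_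
      linarith
    obtain ⟨ih, -⟩ := coeff_nonneg_of_digits X k U.divX (e / X)
      (fun n => by rw [Polynomial.coeff_divX]; exact hU _) hr hd.2
    refine ⟨fun n hn => ?_, fun _ => h0⟩
    cases n with
    | zero => rw [h0]; exact Int.natCast_nonneg _
    | succ n => rw [← Polynomial.coeff_divX]; exact ih n (by omega)

/-- Positive digits give a positive value. -/
theorem pos_of_test {r : Res} (hr : r.Good c w x) (hw : ∀ i, 0 ≤ w i) (ht : r.test c = true) :
    0 < x := by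
  classical
  simp only [Res.test, Bool.and_eq_true, decide_eq_true_eq] at ht
  obtain ⟨n0, n1, n2, n3, hM, hE, hfirst, hdig⟩ := ht
  obtain ⟨hD, P, A, hPA, hA, hP, eP, vP⟩ := hr
  have hN : ∀ i, r.n.get i ≤ c.bound.get i := by
    intro i; fin_cases i <;> assumption
  have hdeg : ∀ I ∈ P.support, ∀ i, I i ≤ c.bound.get i := fun I hI i =>
    ((degreeOf_le_iff.1 (hP i)) I hI).trans (hN i)
  have hA' : ∀ I, 0 ≤ coeff I A := fun I => (abs_nonneg _).trans (hPA I)
  have hbd : ∀ I, |coeff I P| ≤ r.M := by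
    intro I
    by_cases hI : I ∈ A.support
    · refine (hPA I).trans (le_trans ?_ hA)
      rw [eval_eq]
      simpa using Finset.single_le_sum (f := fun J => coeff J A) (fun J _ => hA' J) hI
    · refine (hPA I).trans ?_
      rw [notMem_support_iff.1 hI]
      positivity
  let U : Polynomial ℤ := ∑ I ∈ P.support, Polynomial.monomial (c.idx I) (coeff I P)
  have hU : ∀ I ∈ P.support, U.coeff (c.idx I) = coeff I P := fun I hI => by
    simp only [U, Polynomial.finsetSum_coeff, Polynomial.coeff_monomial]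
    rw [Finset.sum_eq_single I]
    · simp
    · intro J hJ hne
      rw [if_neg]
      exact fun h => hne ((idx_lt_and_inj c (hdeg J hJ) (hdeg I hI)).2 h)
    · exact fun h => absurd hI h
  have hUb : ∀ n, 2 * |U.coeff n| < (c.base : ℤ) := fun n => by
    have hM' : 2 * (r.M : ℤ) < c.base := by exact_mod_cast hM
    by_cases h : ∃ I ∈ P.support, c.idx I = n
    · obtain ⟨I, hI, rfl⟩ := h
      rw [hU I hI]
      linarith [hbd I]
    · have h0 : U.coeff n = 0 := by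
        simp only [U, Polynomial.finsetSum_coeff, Polynomial.coeff_monomial]
        refine Finset.sum_eq_zero fun I hI => ?_
        rw [if_neg]
        exact fun e => h ⟨I, hI, e⟩
      rw [h0, abs_zero, mul_zero]
      exact lt_of_le_of_lt (by positivity) hM'
  have hUe : U.eval (c.base : ℤ) = (r.E.toNat : ℤ) := by
    rw [Int.toNat_of_nonneg hE, ← eP, eval_eq]
    simp only [U, Polynomial.eval_finsetSum, Polynomial.eval_monomial]
    refine Finset.sum_congr rfl fun I _ => ?_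
    rw [Cfg.idx, ← Finset.prod_pow_eq_pow_sum]
    simp only [Cfg.point, Cfg.packed, Nat.cast_pow, ← pow_mul]
    congr 1
    refine (Finset.prod_subset (Finset.subset_univ I.support) fun i _ hi => ?_).symm
    rw [Finsupp.notMem_support_iff.1 hi, mul_zero, pow_zero]
  obtain ⟨hnn, h00⟩ := coeff_nonneg_of_digits c.base c.count U r.E.toNat hUb hUe hdig
  have hcount : 0 < c.count := by simp [Cfg.count, Cfg.stride]
  have hc0 : 0 < coeff 0 P := by
    by_contra h
    have h1 : U.coeff 0 ≤ 0 := by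
      by_cases hI : (0 : Fin 4 →₀ ℕ) ∈ P.support
      · have e := hU 0 hI
        simp only [Cfg.idx, Finsupp.coe_zero, Pi.zero_apply, mul_zero, Finset.sum_const_zero] at e
        linarith
      · simp only [U, Polynomial.finsetSum_coeff, Polynomial.coeff_monomial]
        refine (Finset.sum_eq_zero fun J hJ => ?_).le
        rw [if_neg]
        intro e
        refine hI ?_
        have : c.idx J = c.idx 0 := by rw [e]; simp [Cfg.idx]
        rwa [← (idx_lt_and_inj c (hdeg J hJ) (fun i => by simp)).2 this]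
    rw [h00 hcount] at h1
    have : (0 : ℤ) < ((r.E.toNat % c.base : ℕ) : ℤ) := by exact_mod_cast hfirst
    linarith
  have hpos : 0 < aeval w P := by
    rw [aeval_def, eval₂_eq]
    refine Finset.sum_pos' (fun I hI => ?_) ⟨0, mem_support_iff.2 hc0.ne', by simpa using hc0⟩
    refine mul_nonneg ?_ (Finset.prod_nonneg fun i _ => pow_nonneg (hw i) _)
    have := hnn _ (idx_lt_and_inj c (hdeg I hI) (hdeg I hI)).1
    rw [hU I hI] at this
    simpa using this
  rw [vP] at hpos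
  refine pos_of_mul_pos_left (b := (r.D : ℝ) * ∏ i, (1 + w i) ^ r.n.get i) ?_ ?_
  · rwa [← mul_assoc]
  · exact mul_nonneg (Nat.cast_nonneg _) (Finset.prod_nonneg fun i _ => pow_nonneg (by linarith [hw i]) _)

/-- Membership in a side. -/
def Side.Mem (s : Side) (x : ℝ) : Prop := (s.lo : ℝ) / s.den ≤ x ∧ x < (s.hi : ℝ) / s.den

theorem Side.param {s : Side} {x : ℝ} (hd : 0 < s.den) (h : s.Mem x) :
    ∃ t, 0 ≤ t ∧ (s.lo : ℝ) + s.hi * t = x * s.den * (1 + t) := by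
  have hd' : (0 : ℝ) < s.den := by exact_mod_cast hd
  obtain ⟨h1, h2⟩ := h
  rw [div_le_iff₀ hd'] at h1
  rw [lt_div_iff₀ hd'] at h2
  refine ⟨(x * s.den - s.lo) / (s.hi - x * s.den), div_nonneg (by linarith) (by linarith), ?_⟩
  have h3 : (x * s.den - s.lo) / (s.hi - x * s.den) * ((s.hi : ℝ) - x * s.den) = x * s.den - s.lo :=
    div_mul_cancel₀ _ (by linarith)
  linarith

/-- A positive test gives positivity on the box. -/
theorem Ex.pos_of_check {e : Ex} {c : Cfg} {b : Box} (h : e.check c b = true) {y₀ y₁ y₂ y₃ : ℝ}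
    (h₀ : b.s₀.Mem y₀) (h₁ : b.s₁.Mem y₁) (h₂ : b.s₂.Mem y₂) (h₃ : b.s₃.Mem y₃) :
    0 < e.val y₀ y₁ y₂ y₃ := by
  simp only [Ex.check, Bool.and_eq_true, decide_eq_true_eq] at h
  obtain ⟨hok, d₀, d₁, d₂, d₃, ht⟩ := h
  obtain ⟨t₀, a₀, e₀⟩ := Side.param d₀ h₀
  obtain ⟨t₁, a₁, e₁⟩ := Side.param d₁ h₁
  obtain ⟨t₂, a₂, e₂⟩ := Side.param d₂ h₂
  obtain ⟨t₃, a₃, e₃⟩ := Side.param d₃ h₃
  refine pos_of_test (good_res (w := ![t₀, t₁, t₂, t₃]) b d₀ d₁ d₂ d₃ e₀ e₁ e₂ e₃ e hok) ?_ ht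
  intro i
  fin_cases i <;> assumption

end Vale.Agent.P100.Calib.BoxPos
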