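import Vale.Agent.P100.Calib.BoxPosTree

/-!
# A quicker evaluation of packed expressions

`Ex.quick` computes what `Ex.res` computes, by the recursor and primitive arithmetic, and skips
the lifts that do nothing.
-/

namespace Vale.Agent.P100.Calib.BoxPos

/-- The exponents of two of the four variables in a packing. -/
structure Shifts where
  s₀ : ℕ
  s₁ : ℕ
  s₂ : ℕ
  s₃ : ℕ

/-- The exponents of a configuration. -/
def Cfg.shifts (c : Cfg) : Shifts :=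
  ⟨Nat.mul c.bits c.stride.c₀, Nat.mul c.bits c.stride.c₁, Nat.mul c.bits c.stride.c₂,
    Nat.mul c.bits c.stride.c₃⟩

/-- `x (1 + 2 ^ s)`, by one shift. -/
def stepUp (s : ℕ) : ℤ → ℤ
  | .ofNat n => .ofNat (Nat.add n (Nat.shiftLeft n s))
  | .negSucc n =>
    .negSucc (Nat.sub (Nat.add (Nat.add n 1) (Nat.shiftLeft (Nat.add n 1) s)) 1)

/-- `x (1 + 2 ^ s) ^ k`, by shifts. -/
noncomputable def iterUp (s k : ℕ) (x : ℤ) : ℤ :=
  Nat.rec (motive := fun _ => ℤ) x (fun _ y => stepUp s y) k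

theorem stepUp_eq (s : ℕ) : ∀ x : ℤ, stepUp s x = x * (1 + 2 ^ s)
  | .ofNat n => by
    show ((n + n <<< s : ℕ) : ℤ) = (n : ℤ) * (1 + 2 ^ s)
    rw [Nat.shiftLeft_eq]
    push_cast
    ring
  | .negSucc n => by
    show Int.negSucc (n + 1 + (n + 1) <<< s - 1) = _
    rw [Int.negSucc_eq, Int.negSucc_eq, Nat.shiftLeft_eq,
      show n + 1 + (n + 1) * 2 ^ s - 1 = n + (n + 1) * 2 ^ s by omega]
    push_cast
    ring

theorem iterUp_eq (s : ℕ) (x : ℤ) : ∀ k, iterUp s k x = (1 + 2 ^ s) ^ k * x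
  | 0 => by simp [iterUp]
  | k + 1 => by
    show stepUp s (iterUp s k x) = _
    rw [stepUp_eq, iterUp_eq s x k]
    ring

/-- The maximum, by primitive operations. -/
def natMax (a b : ℕ) : ℕ := Nat.add a (Nat.sub b a)

theorem natMax_eq (a b : ℕ) : natMax a b = max a b := by
  show a + (b - a) = max a b
  omega

/-- The packed value raised to degrees `m`. -/
noncomputable def liftE (P : Shifts) (r : Res) (a b c e : ℕ) : ℤ :=
  iterUp P.s₀ (Nat.sub a r.n.c₀) (iterUp P.s₁ (Nat.sub b r.n.c₁)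
    (iterUp P.s₂ (Nat.sub c r.n.c₂) (iterUp P.s₃ (Nat.sub e r.n.c₃) r.E)))

/-- The bound raised to degrees `m`. -/
def liftM (r : Res) (a b c e : ℕ) : ℕ :=
  Nat.mul r.M (Nat.pow 2 (Nat.add (Nat.add (Nat.sub a r.n.c₀) (Nat.sub b r.n.c₁))
    (Nat.add (Nat.sub c r.n.c₂) (Nat.sub e r.n.c₃))))

/-- Sum. -/
noncomputable def addQuick (P : Shifts) (p q : Res) : Res :=
  ⟨Int.add (Int.mul (liftE P p (natMax p.n.c₀ q.n.c₀) (natMax p.n.c₁ q.n.c₁) (natMax p.n.c₂ q.n.c₂)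
      (natMax p.n.c₃ q.n.c₃)) (Int.ofNat (Nat.div q.D (Nat.gcd p.D q.D))))
    (Int.mul (liftE P q (natMax p.n.c₀ q.n.c₀) (natMax p.n.c₁ q.n.c₁) (natMax p.n.c₂ q.n.c₂)
      (natMax p.n.c₃ q.n.c₃)) (Int.ofNat (Nat.div p.D (Nat.gcd p.D q.D)))),
    Nat.add (Nat.mul (liftM p (natMax p.n.c₀ q.n.c₀) (natMax p.n.c₁ q.n.c₁) (natMax p.n.c₂ q.n.c₂)
      (natMax p.n.c₃ q.n.c₃)) (Nat.div q.D (Nat.gcd p.D q.D)))
    (Nat.mul (liftM q (natMax p.n.c₀ q.n.c₀) (natMax p.n.c₁ q.n.c₁) (natMax p.n.c₂ q.n.c₂)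
      (natMax p.n.c₃ q.n.c₃)) (Nat.div p.D (Nat.gcd p.D q.D))),
    ⟨natMax p.n.c₀ q.n.c₀, natMax p.n.c₁ q.n.c₁, natMax p.n.c₂ q.n.c₂, natMax p.n.c₃ q.n.c₃⟩,
    Nat.mul p.D (Nat.div q.D (Nat.gcd p.D q.D))⟩

/-- Product. -/
def mulQuick (p q : Res) : Res :=
  ⟨Int.mul p.E q.E, Nat.mul p.M q.M, ⟨Nat.add p.n.c₀ q.n.c₀, Nat.add p.n.c₁ q.n.c₁,
    Nat.add p.n.c₂ q.n.c₂, Nat.add p.n.c₃ q.n.c₃⟩, Nat.mul p.D q.D⟩

/-- One pass over an expression. -/
noncomputable def quickWith (P : Shifts) (r₀ r₁ r₂ r₃ : Res) (e : Ex) : Res :=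
  Ex.rec (motive := fun _ => Res) (fun n d => Res.cst n d) r₀ r₁ r₂ r₃
    (fun _ _ p q => addQuick P p q) (fun _ _ p q => addQuick P p q.neg)
    (fun _ _ p q => mulQuick p q) e

/-- One pass over an expression on a box. -/
noncomputable def Ex.quick (c : Cfg) (b : Box) (e : Ex) : Res :=
  quickWith c.shifts (Ex.res c b .x₀) (Ex.res c b .x₁) (Ex.res c b .x₂) (Ex.res c b .x₃) e

theorem raise_E (e : ℤ) (v : Vec) : ∀ k, (Res.raise e v k).E = (1 + e) ^ k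
  | 0 => by simp [Res.raise, Res.cst]
  | k + 1 => by
    simp only [Res.raise, Res.mul, raise_E e v k]
    ring

theorem raise_M (e : ℤ) (v : Vec) : ∀ k, (Res.raise e v k).M = 2 ^ k
  | 0 => by simp [Res.raise, Res.cst]
  | k + 1 => by
    simp only [Res.raise, Res.mul, raise_M e v k]
    ring

theorem addQuick_eq (c : Cfg) (p q : Res) : addQuick c.shifts p q = Res.add c p q := by
  have hE : ∀ (r : Res) (m : Vec), liftE c.shifts r m.c₀ m.c₁ m.c₂ m.c₃ = (r.lift c m).E := by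
    intro r m
    simp only [liftE, Res.lift, Res.mul, raise_E, Cfg.shifts, iterUp_eq, Cfg.packed, Cfg.base,
      ← pow_mul, Nat.cast_pow, Nat.cast_ofNat, Nat.mul_eq, Nat.sub_eq]
    ring
  have hM : ∀ (r : Res) (m : Vec), liftM r m.c₀ m.c₁ m.c₂ m.c₃ = (r.lift c m).M := by
    intro r m
    simp only [liftM, Res.lift, Res.mul, raise_M, Nat.mul_eq, Nat.pow_eq, Nat.sub_eq, Nat.add_eq]
    ring
  have hD : ∀ (r : Res) (m : Vec), (r.lift c m).D = r.D := fun r m => by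
    simp only [Res.lift, Res.mul, raise_D, one_mul]
  simp only [addQuick, Res.add, natMax_eq]
  rw [hE p ⟨_, _, _, _⟩, hE q ⟨_, _, _, _⟩, hM p ⟨_, _, _, _⟩, hM q ⟨_, _, _, _⟩]
  simp only [Int.mul_def, Nat.mul_eq, Int.ofNat_eq_natCast]
  rfl

theorem quick_eq (c : Cfg) (b : Box) : ∀ e : Ex, e.quick c b = e.res c b
  | .cst n d => rfl
  | .x₀ => rfl
  | .x₁ => rfl
  | .x₂ => rfl
  | .x₃ => rfl
  | .add e f => by
    show addQuick c.shifts (e.quick c b) (f.quick c b) = _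
    rw [addQuick_eq, quick_eq c b e, quick_eq c b f]
    rfl
  | .sub e f => by
    show addQuick c.shifts (e.quick c b) (f.quick c b).neg = _
    rw [addQuick_eq, quick_eq c b e, quick_eq c b f]
    rfl
  | .mul e f => by
    show mulQuick (e.quick c b) (f.quick c b) = _
    rw [quick_eq c b e, quick_eq c b f]
    rfl

/-- The test with the quicker evaluation. -/
noncomputable def Ex.checkQuick (e : Ex) (c : Cfg) (b : Box) : Bool :=
  e.ok && (decide (0 < b.s₀.den) && (decide (0 < b.s₁.den) && (decide (0 < b.s₂.den) &&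
    (decide (0 < b.s₃.den) && Res.testTree c (e.quick c b)))))

theorem Ex.checkTree_of_quick {e : Ex} {c : Cfg} {b : Box} (h : e.checkQuick c b = true) :
    e.checkTree c b = true := by
  rw [Ex.checkTree, ← quick_eq c b e]
  exact h

/-- A positive test gives positivity on the box. -/
theorem Ex.pos_of_checkQuick {e : Ex} {c : Cfg} {b : Box} (h : e.checkQuick c b = true)
    {y₀ y₁ y₂ y₃ : ℝ} (h₀ : b.s₀.Mem y₀) (h₁ : b.s₁.Mem y₁) (h₂ : b.s₂.Mem y₂)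
    (h₃ : b.s₃.Mem y₃) : 0 < e.val y₀ y₁ y₂ y₃ :=
  Ex.pos_of_checkTree (Ex.checkTree_of_quick h) h₀ h₁ h₂ h₃

end Vale.Agent.P100.Calib.BoxPos
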