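import Vale.Agent.P100.Calib.BoxPos
import Vale.Agent.P100.Pack.Mask

/-!
# Reading the digits at once

`BoxPos.digitsOk` divides the packed number once for each digit. The top bits of all digits can be
read by one bitwise `and`, which is much quicker in the kernel.
-/

namespace Vale.Agent.P100.Calib.BoxPos

/-- The digits lie in the lower half if all their top bits vanish. -/
theorem digitsOk_of_bits (B : ℕ) (hB : 1 ≤ B) : ∀ k Z : ℕ,
    (∀ i < k, Z.testBit (B * i + (B - 1)) = false) → digitsOk (2 ^ B) k Z = true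
  | 0, _, _ => rfl
  | k + 1, Z, h => by
    simp only [digitsOk, Bool.and_eq_true, decide_eq_true_eq]
    refine ⟨Pack.two_mul_lt_of_testBit hB (Nat.mod_lt _ (by positivity)) ?_,
      digitsOk_of_bits B hB k _ fun i hi => ?_⟩
    · rw [Nat.testBit_mod_two_pow]
      have := h 0 k.succ_pos
      simp only [mul_zero, zero_add] at this
      rw [this, Bool.and_false]
    · rw [Nat.testBit_div_two_pow,
        show B * i + (B - 1) + B = B * (i + 1) + (B - 1) by rw [Nat.mul_succ]; omega]
      exact h _ (Nat.succ_lt_succ hi)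

/-- The test on a packed expression, digits read at once. -/
def Res.testTree (c : Cfg) (r : Res) : Bool :=
  decide (r.n.c₀ ≤ c.bound.c₀) && (decide (r.n.c₁ ≤ c.bound.c₁) &&
    (decide (r.n.c₂ ≤ c.bound.c₂) && (decide (r.n.c₃ ≤ c.bound.c₃) &&
      (decide (2 * r.M < c.base) && (decide (0 ≤ r.E) &&
        (decide (0 < r.E.toNat % c.base) && (decide (1 ≤ c.bits) &&
          Pack.maskDigits c.bits c.count r.E.toNat)))))))

/-- The test on an expression, digits read at once. -/
def Ex.checkTree (e : Ex) (c : Cfg) (b : Box) : Bool :=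
  e.ok && (decide (0 < b.s₀.den) && (decide (0 < b.s₁.den) && (decide (0 < b.s₂.den) &&
    (decide (0 < b.s₃.den) && Res.testTree c (e.res c b)))))

theorem Ex.check_of_tree {e : Ex} {c : Cfg} {b : Box} (h : e.checkTree c b = true) :
    e.check c b = true := by
  simp only [Ex.checkTree, Res.testTree, Bool.and_eq_true] at h
  obtain ⟨h0, h1, h2, h3, h4, g0, g1, g2, g3, gM, gE, g5, g6, g7⟩ := h
  simp only [Ex.check, Res.test, Bool.and_eq_true]
  have hB : 1 ≤ c.bits := by simpa using g6
  exact ⟨h0, h1, h2, h3, h4, g0, g1, g2, g3, gM, gE, g5,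
    digitsOk_of_bits c.bits hB _ _ (Pack.testBit_of_maskDigits hB g7).2⟩

/-- A positive test gives positivity on the box. -/
theorem Ex.pos_of_checkTree {e : Ex} {c : Cfg} {b : Box} (h : e.checkTree c b = true)
    {y₀ y₁ y₂ y₃ : ℝ} (h₀ : b.s₀.Mem y₀) (h₁ : b.s₁.Mem y₁) (h₂ : b.s₂.Mem y₂)
    (h₃ : b.s₃.Mem y₃) : 0 < e.val y₀ y₁ y₂ y₃ :=
  Ex.pos_of_check (Ex.check_of_tree h) h₀ h₁ h₂ h₃

end Vale.Agent.P100.Calib.BoxPos
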