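import Mathlib
import Vale.Agent.P100.ConeForm
import Vale.Agent.P100.Calib.Elim

/-!
# Elimination of two coupled Hessians with a radial weight

For a common weight `-g ∈ (-2, 0]` the fourteen fields are completed by four fields built from
`z = x / |x|²` so that the divergence expression `coneRow` is the unweighted one in the Hessians
of the conformal metric, up to the Bochner expressions. Hence it is bounded below by the
unweighted form in the real dimension `ν = 2 (n - g) / (2 - g)`.
-/

open Finset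

namespace Vale.Agent.P100.Calib

variable {n : ℕ}

/-- The four radial fields `|a|² z, |b|² z, (a·b) z, a (z·b) - b (z·a)`. -/
def extFld (a b z : Fin n → ℝ) : Fin 4 → Fin n → ℝ :=
  ![fun i => dotv a a * z i, fun i => dotv b b * z i, fun i => dotv a b * z i,
    fun i => dotv z b * a i - dotv z a * b i]

/-- Their divergences. -/
def extDiv (a b z : Fin n → ℝ) (P Q : ℝ) (H K : Fin n → Fin n → ℝ) : Fin 4 → ℝ :=
  ![2 * dotv (mulv H a) z + dotv a a * (((n : ℝ) - 2) * dotv z z),
    2 * dotv (mulv K b) z + dotv b b * (((n : ℝ) - 2) * dotv z z),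
    dotv (mulv H b) z + dotv (mulv K a) z + dotv a b * (((n : ℝ) - 2) * dotv z z),
    -(dotv a a + P) * dotv z b + (dotv b b + Q) * dotv z a + dotv (mulv K a) z -
      dotv (mulv H b) z]

/-- The coefficients of the radial fields, linear in those of the fourteen. -/
noncomputable def extC (g : ℝ) (c : Fin 14 → ℝ) : Fin 4 → ℝ :=
  ![g / 2 * c 0, g / 2 * c 3, g / 2 * (c 1 + c 2), g / 2 * (c 1 - c 2)]

/-- The eighteen fields together. -/
noncomputable def coneFlux (g : ℝ) (c : Fin 14 → ℝ) (a b z : Fin n → ℝ) (P Q : ℝ)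
    (H K : Fin n → Fin n → ℝ) (i : Fin n) : ℝ :=
  (∑ j, c j * fld a b P Q H K j i) + ∑ l, extC g c l * extFld a b z l i

/-- `div (|x| ^ g w F) / (|x| ^ g w)` for coefficient values `c` with weighted derivatives `la`,
`mb` along `a`, `b`. -/
noncomputable def coneRow (g p q : ℝ) (c la mb : Fin 14 → ℝ) (a b z : Fin n → ℝ) (P Q : ℝ)
    (H K : Fin n → Fin n → ℝ) : ℝ :=
  rowGen p q c la mb a b P Q H K + (∑ j, c j * divWt (-g) (-g) a b z P Q j) +
    (∑ l, (extC g c l * extDiv a b z P Q H K l + extC g la l * dotv a (extFld a b z l) +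
      extC g mb l * dotv b (extFld a b z l))) +
    g * dotv z (coneFlux g c a b z P Q H K)

/-- The Bochner expression of two functions (`S = -tr H`, `T = -tr K`). -/
noncomputable def coneCross (g : ℝ) (a b z : Fin n → ℝ) (H K : Fin n → Fin n → ℝ) (S T : ℝ) : ℝ :=
  frob H K + g * (dotv (mulv H b) z + dotv (mulv K a) z) +
    g / 2 * (dotv z a * T + dotv z b * S) + g * (g + n - 2) / 2 * (dotv a b * dotv z z)

/-- **The row as an expression in the conformal Hessians.** -/
theorem coneRow_eq (g p q : ℝ) (c la mb : Fin 14 → ℝ) (a b z : Fin n → ℝ) (P Q : ℝ)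
    (H K : Fin n → Fin n → ℝ) (hH : ∀ i j, H i j = H j i) (hK : ∀ i j, K i j = K j i) :
    coneRow g p q c la mb a b z P Q H K =
      freePart p q c la mb (dotv a a) (dotv a b) (dotv b b) P Q +
      (c 0 * coneGamma g a z H (dotv a a + P) +
        (c 1 + c 2) * coneCross g a b z H K (dotv a a + P) (dotv b b + Q) +
        c 3 * coneGamma g b z K (dotv b b + Q) +
        linU c la mb 0 * dotv (mulv (coneHc g a z H) a) a +
        linU c la mb 1 * dotv (mulv (coneHc g a z H) a) b +
        linU c la mb 2 * dotv (mulv (coneHc g a z H) b) b +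
        linV c la mb 0 * dotv (mulv (coneHc g b z K) a) a +
        linV c la mb 1 * dotv (mulv (coneHc g b z K) a) b +
        linV c la mb 2 * dotv (mulv (coneHc g b z K) b) b) := by
  have sm : ∀ (r : ℝ) (x y : Fin n → ℝ), dotv y (fun i => r * x i) = r * dotv y x := fun r x y => by
    simp only [dotv, mul_sum]
    exact sum_congr rfl fun i _ => by ring
  have sub' : ∀ (r s : ℝ) (x y w : Fin n → ℝ),
      dotv w (fun i => r * x i - s * y i) = r * dotv w x - s * dotv w y := fun r s x y w => by
    simp only [dotv, mul_sum, ← sum_sub_distrib]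
    exact sum_congr rfl fun i _ => by ring
  have flux : dotv z (coneFlux g c a b z P Q H K) =
      (∑ j, c j * dotv z (fld a b P Q H K j)) + ∑ l, extC g c l * dotv z (extFld a b z l) := by
    simp only [dotv, coneFlux, mul_add, sum_add_distrib, mul_sum]
    rw [sum_comm, add_comm]
    rw [sum_comm, add_comm]
    congr 1 <;> exact sum_congr rfl fun j _ => sum_congr rfl fun i _ => by ring
  rw [coneRow, flux, rowGen_eq p q c la mb a b P Q H K hH hK]
  simp only [coneHc_mulv, coneGamma, coneCross, Fin.sum_univ_succ, Fin.sum_univ_zero]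
  simp [divWt, extC, extDiv, extFld, fld, linU, linV, sm, sub', dotv_comm b a, dotv_comm a z,
    dotv_comm b z, dotv_comm z (mulv H a), dotv_comm z (mulv H b), dotv_comm z (mulv K a),
    dotv_comm z (mulv K b)]
  ring

theorem gram_zero_sub (r x y w A C B : ℝ) :
    gram r x y w x y w A C B = gram 0 x y w x y w A C B - r * (x * A + y * C + w * B) ^ 2 := by
  unfold gram; ring

/-- `hessOne` as a square less a Gram term. -/
theorem hessOne_eq_sq {N s : ℝ} (hN : N ≠ 0) (hs : s ≠ 0) (x y w A C B T : ℝ) :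
    hessOne N s x y w A C B T = (s * T + (x * A + y * C + w * B) / 2) ^ 2 / (N * s) -
      gram 0 x y w x y w A C B / (4 * s) := by
  rw [hessOne, gram_zero_sub (1 / N)]
  field_simp
  ring

/-- The change of dimension in one matrix. -/
theorem hessOne_dim {M N s : ℝ} (hM : M ≠ 0) (hN : N ≠ 0) (hs : s ≠ 0) (x y w A C B T : ℝ) :
    hessOne M s x y w A C B T = hessOne N s x y w A C B T +
      (1 / M - 1 / N) * ((s * T + (x * A + y * C + w * B) / 2) ^ 2 / s) := by
  rw [hessOne_eq_sq hM hs, hessOne_eq_sq hN hs]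
  field_simp
  ring

/-- The change of dimension in two matrices. -/
theorem hessPair_dim {M N c₀ m c₃ : ℝ} (hM : M ≠ 0) (hN : N ≠ 0) (h0 : c₀ ≠ 0)
    (hd : c₀ * c₃ - m ^ 2 ≠ 0) (u₀ u₁ u₂ v₀ v₁ v₂ A C B S T : ℝ) :
    hessPair M c₀ m c₃ u₀ u₁ u₂ v₀ v₁ v₂ A C B S T =
      hessPair N c₀ m c₃ u₀ u₁ u₂ v₀ v₁ v₂ A C B S T +
        (1 / M - 1 / N) * hessGap c₀ m c₃ u₀ u₁ u₂ v₀ v₁ v₂ A C B S T := by
  have e : c₀ * (S + m / c₀ * T) = c₀ * S + m * T := by field_simp
  rw [hessPair_eq M h0 hd, hessPair_eq N h0 hd, hessOne_dim hM hN h0,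
    hessOne_dim hM hN (div_ne_zero hd h0), hessGap, e]
  ring

/-- The form in dimension `M` from the one in dimension `N`. -/
theorem elimN_dim {M N p q : ℝ} (hM : M ≠ 0) (hN : N ≠ 0) {c la mb : Fin 14 → ℝ} (h0 : c 0 ≠ 0)
    (hd : c 0 * c 3 - ((c 1 + c 2) / 2) ^ 2 ≠ 0) (A C B P Q : ℝ) :
    elimN M p q c la mb A C B P Q =
      elimN N p q c la mb A C B P Q + (1 / M - 1 / N) * elimGap c la mb A C B P Q := by
  rw [elimN, elimN, elimGap, hessPair_dim hM hN h0 hd]
  ring

/-- **Bochner inequality of dimension `ν` for one Hessian and any three test products.** -/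
theorem hessOne_cone_le (hn : 3 ≤ n) {g ν s : ℝ} (hg : 0 ≤ g) (hg2 : g < 2)
    (hν : ν = 2 * ((n : ℝ) - g) / (2 - g)) (hs : 0 < s) (x y w : ℝ) (e a b z : Fin n → ℝ)
    (H : Fin n → Fin n → ℝ) (hH : ∀ i j, H i j = H j i) {T : ℝ} (hT : ∑ i, H i i = T) :
    hessOne ν s x y w (dotv a a) (dotv a b) (dotv b b) T ≤
      s * coneGamma g e z H (-T) + x * dotv (mulv (coneHc g e z H) a) a +
        y * dotv (mulv (coneHc g e z H) a) b + w * dotv (mulv (coneHc g e z H) b) b := by
  have h3 : (3 : ℝ) ≤ n := by exact_mod_cast hn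
  have hg0 : (0 : ℝ) < 2 - g := by linarith
  have hD : (ν - n) * (2 - g) = g * ((n : ℝ) - 2) := by
    rw [hν, sub_mul, div_mul_cancel₀ _ hg0.ne']; ring
  have hνn : 0 ≤ ν - n := nonneg_of_mul_nonneg_left (hD ▸ mul_nonneg hg (by linarith)) hg0
  have hν0 : 0 < ν := by linarith
  set A := dotv a a
  set B := dotv b b
  set C := dotv a b
  set d := dotv z e with hd
  set h := (2 - g) / 2 * d with hh
  have hsym : ∀ i j, coneHc g e z H i j = coneHc g e z H j i := fun i j => by
    rcases eq_or_ne i j with h | h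
    · rw [h]
    · simp only [coneHc, if_neg h, if_neg h.symm, hH i j]; ring
  have htr : ∑ i, coneHc g e z H i i = T - (ν - n) * h := by
    rw [coneHc_trace, hT, hh, ← mul_assoc, mul_div_assoc', hD, ← hd]
  have hq := hessOne_le (n := n) (by omega) (le_refl (n : ℝ)) hs x y w a b (coneHc g e z H) hsym htr
  rw [sub_self, zero_mul, add_zero] at hq
  have hc := coneHc_frob g e z H hH (T := -T) (by rw [neg_neg]; exact hT)
  have hdef : s * (frob (coneHc g e z H) (coneHc g e z H) + (ν - n) * h ^ 2) ≤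
      s * coneGamma g e z H (-T) := by
    refine mul_le_mul_of_nonneg_left ?_ hs.le
    have e' : coneGamma g e z H (-T) -
        (frob (coneHc g e z H) (coneHc g e z H) + (ν - n) * h ^ 2) =
        g * ((n : ℝ) - 2) / 2 * (dotv e e * dotv z z - d ^ 2) := by
      rw [hc, hh, show (ν - n) * ((2 - g) / 2 * d) ^ 2 = (ν - n) * (2 - g) * ((2 - g) / 4) * d ^ 2
        by ring, hD]
      simp only [coneGamma, hd]; ring
    have : 0 ≤ g * ((n : ℝ) - 2) / 2 * (dotv e e * dotv z z - d ^ 2) :=
      mul_nonneg (div_nonneg (mul_nonneg hg (by linarith)) (by norm_num))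
        (sub_nonneg.2 ((sq_dotv_le z e).trans_eq (mul_comm _ _)))
    linarith
  have key : hessOne n s x y w A C B (T - (ν - n) * h) + s * ((ν - n) * h ^ 2) =
      hessOne ν s x y w A C B T +
        (ν - n) * (s * T + (x * A + y * C + w * B) / 2 - ν * s * h) ^ 2 / (n * ν * s) := by
    have hn0 : (n : ℝ) ≠ 0 := by linarith
    rw [hessOne_eq_sq hn0 hs.ne', hessOne_eq_sq hν0.ne' hs.ne']
    field_simp
    ring
  have hsq : 0 ≤ (ν - n) * (s * T + (x * A + y * C + w * B) / 2 - ν * s * h) ^ 2 / (n * ν * s) :=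
    div_nonneg (mul_nonneg hνn (sq_nonneg _)) (by positivity)
  linarith

/-- The conformal Hessian is linear in the function. -/
theorem coneHc_add_mul (g k : ℝ) (a b z : Fin n → ℝ) (H K : Fin n → Fin n → ℝ) :
    coneHc g (fun i => a i + k * b i) z (fun i j => H i j + k * K i j) =
      fun i j => coneHc g a z H i j + k * coneHc g b z K i j := by
  have hd : dotv z (fun i => a i + k * b i) = dotv z a + k * dotv z b := by
    simp only [dotv, mul_sum, ← sum_add_distrib]
    exact sum_congr rfl fun i _ => by ring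
  funext i j
  simp only [coneHc, hd]
  split_ifs <;> ring

/-- The Bochner expression is quadratic in the function. -/
theorem coneGamma_add_mul (g k : ℝ) (a b z : Fin n → ℝ) (H K : Fin n → Fin n → ℝ) (S T : ℝ) :
    coneGamma g (fun i => a i + k * b i) z (fun i j => H i j + k * K i j) (S + k * T) =
      coneGamma g a z H S + 2 * k * coneCross g a b z H K S T + k ^ 2 * coneGamma g b z K T := by
  have hd : dotv z (fun i => a i + k * b i) = dotv z a + k * dotv z b := by
    simp only [dotv, mul_sum, ← sum_add_distrib]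
    exact sum_congr rfl fun i _ => by ring
  have he : dotv (fun i => a i + k * b i) (fun i => a i + k * b i) =
      dotv a a + 2 * k * dotv a b + k ^ 2 * dotv b b := by
    simp only [dotv, mul_sum, ← sum_add_distrib]
    exact sum_congr rfl fun i _ => by ring
  have hf : frob (fun i j => H i j + k * K i j) (fun i j => H i j + k * K i j) =
      frob H H + 2 * k * frob H K + k ^ 2 * frob K K := by
    simp only [frob, mul_sum, ← sum_add_distrib]
    exact sum_congr rfl fun i _ => sum_congr rfl fun j _ => by ring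
  have hm : dotv (mulv (fun i j => H i j + k * K i j) (fun i => a i + k * b i)) z =
      dotv (mulv H a) z + k * (dotv (mulv H b) z + dotv (mulv K a) z) +
        k ^ 2 * dotv (mulv K b) z := by
    simp only [dotv, mulv, sum_mul, mul_add, mul_sum, ← sum_add_distrib]
    exact sum_congr rfl fun i _ => sum_congr rfl fun j _ => by ring
  simp only [coneGamma, coneCross, hd, he, hf, hm]
  ring

/-- **Two coupled Hessians in the dimension `ν`.** -/
theorem hessPair_cone_le (hn : 3 ≤ n) {g ν : ℝ} (hg : 0 ≤ g) (hg2 : g < 2)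
    (hν : ν = 2 * ((n : ℝ) - g) / (2 - g)) {c₀ m c₃ : ℝ} (h0 : 0 < c₀)
    (hd : 0 < c₀ * c₃ - m ^ 2) (u₀ u₁ u₂ v₀ v₁ v₂ : ℝ) (a b z : Fin n → ℝ)
    (H K : Fin n → Fin n → ℝ) (hH : ∀ i j, H i j = H j i) (hK : ∀ i j, K i j = K j i) {S T : ℝ}
    (hS : ∑ i, H i i = -S) (hT : ∑ i, K i i = -T) :
    hessPair ν c₀ m c₃ u₀ u₁ u₂ v₀ v₁ v₂ (dotv a a) (dotv a b) (dotv b b) (-S) (-T) ≤
      c₀ * coneGamma g a z H S + 2 * m * coneCross g a b z H K S T +
        c₃ * coneGamma g b z K T +
        u₀ * dotv (mulv (coneHc g a z H) a) a + u₁ * dotv (mulv (coneHc g a z H) a) b +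
        u₂ * dotv (mulv (coneHc g a z H) b) b +
        v₀ * dotv (mulv (coneHc g b z K) a) a + v₁ * dotv (mulv (coneHc g b z K) a) b +
        v₂ * dotv (mulv (coneHc g b z K) b) b := by
  set k := m / c₀ with hk
  have ck : c₀ * k = m := by rw [hk]; field_simp
  let W : Fin n → Fin n → ℝ := fun i j => H i j + k * K i j
  have hW : ∀ i j, W i j = W j i := fun i j => by simp only [W]; rw [hH i j, hK i j]
  have tW : ∑ i, W i i = -S + k * -T := by simp only [W, sum_add_distrib, ← mul_sum, hS, hT]
  have h1 := hessOne_cone_le hn hg hg2 hν h0 u₀ u₁ u₂ (fun i => a i + k * b i) a b z W hW tW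
  have h2 := hessOne_cone_le hn hg hg2 hν (div_pos hd h0) (v₀ - k * u₀) (v₁ - k * u₁) (v₂ - k * u₂)
    b a b z K hK hT
  have eq2 : ∀ x y : Fin n → ℝ,
      dotv (mulv (fun i j => coneHc g a z H i j + k * coneHc g b z K i j) x) y =
        dotv (mulv (coneHc g a z H) x) y + k * dotv (mulv (coneHc g b z K) x) y := fun x y => by
    simp only [dotv, mulv, sum_mul, mul_sum, ← sum_add_distrib]
    exact sum_congr rfl fun i _ => sum_congr rfl fun j _ => by ring
  have e1 : -(-S + k * -T) = S + k * T := by ring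
  rw [e1, show coneGamma g (fun i => a i + k * b i) z W (S + k * T) = _ from
      coneGamma_add_mul g k a b z H K S T,
    show coneHc g (fun i => a i + k * b i) z W = _ from coneHc_add_mul g k a b z H K,
    eq2, eq2, eq2] at h1
  rw [neg_neg] at h2
  rw [hessPair_eq ν h0.ne' hd.ne', ← hk]
  have e3 : c₀ * k ^ 2 + (c₀ * c₃ - m ^ 2) / c₀ = c₃ := by rw [hk]; field_simp; ring
  refine (add_le_add h1 h2).trans (le_of_eq ?_)
  linear_combination coneGamma g b z K T * e3 + 2 * coneCross g a b z H K S T * ck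

end Vale.Agent.P100.Calib
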