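import Mathlib
import Vale.Agent.P100.CriterionW
import Vale.Agent.P100.Calib.ConeElim

/-!
# The integral identity with coefficients depending on `z = P / Q` and a radial factor

For a common weight `-g` the ratio `z = v ^ (p + 1) / u ^ (q + 1)` does not see the weight. Rows of
the weighted system are multiplied by the factors `|x| ^ g c (z)`; two more rows give the fields
`(a·b) z` and `a (z·b) - b (z·a)`.
-/

open MeasureTheory Filter Set Topology Laplacian

namespace Vale.Agent.P100.Calib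

variable {n : ℕ} {Ω : Set (EuclideanSpace ℝ (Fin n))} {φ U V W : EuclideanSpace ℝ (Fin n) → ℝ}

/-- Rows multiplied by factors and added. -/
theorem rows_factor {J : Type*} [Fintype J] (hΩ : IsOpen Ω) (hφ : ContDiff ℝ 1 φ)
    (hφc : HasCompactSupport φ) (hsub : tsupport φ ⊆ Ω) (cW : ContinuousOn W Ω)
    {f T : J → EuclideanSpace ℝ (Fin n) → ℝ} {F : J → EuclideanSpace ℝ (Fin n) → Fin n → ℝ}
    (hf : ∀ j, ContDiffOn ℝ 1 (f j) Ω) (cT : ∀ j, ContinuousOn (T j) Ω)
    (cF : ∀ j i, ContinuousOn (fun x => F j x i) Ω)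
    (hrow : ∀ j, ∀ ψ : EuclideanSpace ℝ (Fin n) → ℝ, ContDiff ℝ 1 ψ → HasCompactSupport ψ →
      tsupport ψ ⊆ Ω → ∫ x, ψ x * (W x * T j x) =
        -∫ x, W x * ∑ i, fderiv ℝ ψ x (eStd i) * F j x i) :
    Integrable (fun x => φ x * (W x *
      ∑ j, (f j x * T j x + ∑ i, fderiv ℝ (f j) x (eStd i) * F j x i))) ∧
    ∫ x, φ x * (W x * ∑ j, (f j x * T j x + ∑ i, fderiv ℝ (f j) x (eStd i) * F j x i)) =
      -∫ x, W x * ∑ i, fderiv ℝ φ x (eStd i) * ∑ j, f j x * F j x i := by
  have cD : ∀ j, ContinuousOn (fun x => ∑ i, fderiv ℝ (f j) x (eStd i) * F j x i) Ω := fun j =>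
    continuousOn_finsetSum _ fun i _ => (((hf j).continuousOn_fderiv_of_isOpen hΩ le_rfl).clm_apply
      continuousOn_const).mul (cF j i)
  have intT : ∀ j, Integrable (fun x => φ x * (W x * (f j x * T j x))) := fun j =>
    integrable_test_mul hΩ hφ.continuous hφc hsub (cW.mul ((hf j).continuousOn.mul (cT j)))
  have intD : ∀ j, Integrable (fun x => φ x * (W x *
      ∑ i, fderiv ℝ (f j) x (eStd i) * F j x i)) := fun j =>
    integrable_test_mul hΩ hφ.continuous hφc hsub (cW.mul (cD j))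
  have intF : ∀ j, Integrable (fun x => W x * ∑ i, fderiv ℝ φ x (eStd i) * (f j x * F j x i)) := by
    intro j
    have := integrable_finsetSum (μ := volume) Finset.univ fun i _ =>
      integrable_deriv_mul (μ := volume) hΩ hφ hφc hsub
        (cW.mul ((hf j).continuousOn.mul (cF j i))) (eStd i)
    refine this.congr (Eventually.of_forall fun x => ?_)
    simp only [Finset.mul_sum, Pi.mul_apply]
    exact Finset.sum_congr rfl fun i _ => by ring
  have each : ∀ j, ∫ x, (φ x * (W x * (f j x * T j x)) +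
      φ x * (W x * ∑ i, fderiv ℝ (f j) x (eStd i) * F j x i)) =
      -∫ x, W x * ∑ i, fderiv ℝ φ x (eStd i) * (f j x * F j x i) := by
    intro j
    have h := hrow j _ (contDiff_test_mul hΩ hφ hsub (hf j)) hφc.mul_right
      (tsupport_mul_subset_left.trans hsub)
    have h' : ∫ x, φ x * (W x * (f j x * T j x)) =
        -∫ x, (W x * ∑ i, fderiv ℝ φ x (eStd i) * (f j x * F j x i) +
          φ x * (W x * ∑ i, fderiv ℝ (f j) x (eStd i) * F j x i)) := by
      refine Eq.trans ?_ (h.trans ?_)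
      · refine integral_congr_ae (Eventually.of_forall fun x => ?_)
        ring
      · refine congrArg Neg.neg (integral_congr_ae (Eventually.of_forall fun x => ?_))
        simp only [fderiv_test_mul hΩ hφ hsub (hf j), Finset.mul_sum, ← Finset.sum_add_distrib]
        exact Finset.sum_congr rfl fun i _ => by ring
    rw [integral_add (intT j) (intD j), h', integral_add (intF j) (intD j)]
    ring
  have intTD : ∀ j, Integrable (fun x => φ x * (W x * (f j x * T j x)) +
      φ x * (W x * ∑ i, fderiv ℝ (f j) x (eStd i) * F j x i)) := fun j => (intT j).add (intD j)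
  have eL : ∀ x, φ x * (W x * ∑ j, (f j x * T j x + ∑ i, fderiv ℝ (f j) x (eStd i) * F j x i)) =
      ∑ j, (φ x * (W x * (f j x * T j x)) +
        φ x * (W x * ∑ i, fderiv ℝ (f j) x (eStd i) * F j x i)) := fun x => by
    simp only [← mul_add, ← Finset.mul_sum]
  have eR : ∀ x, W x * ∑ i, fderiv ℝ φ x (eStd i) * ∑ j, f j x * F j x i =
      ∑ j, W x * ∑ i, fderiv ℝ φ x (eStd i) * (f j x * F j x i) := fun x => by
    simp only [Finset.mul_sum]
    exact Finset.sum_comm
  simp only [eL, eR]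
  refine ⟨integrable_finsetSum _ fun j _ => intTD j, ?_⟩
  rw [integral_finsetSum _ fun j _ => intTD j, integral_finsetSum _ fun j _ => intF j,
    ← Finset.sum_neg_distrib]
  exact Finset.sum_congr rfl fun j _ => each j

/-- The eighteen fields: the fourteen and the four radial ones. -/
noncomputable def fldCAt (p q w : ℝ) (U V : EuclideanSpace ℝ (Fin n) → ℝ) (j : Fin 14 ⊕ Fin 4)
    (x : EuclideanSpace ℝ (Fin n)) (i : Fin n) : ℝ :=
  let D := dataW p q w w U V x
  Sum.elim (fun j => fld D.1 D.2.1 D.2.2.2.1 D.2.2.2.2.1 D.2.2.2.2.2.1 D.2.2.2.2.2.2 j i)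
    (fun l => extFld D.1 D.2.1 D.2.2.1 l i) j

/-- Their divergences. -/
noncomputable def divCAt (p q w : ℝ) (U V : EuclideanSpace ℝ (Fin n) → ℝ) (j : Fin 14 ⊕ Fin 4)
    (x : EuclideanSpace ℝ (Fin n)) : ℝ :=
  let D := dataW p q w w U V x
  Sum.elim (fun j => divT p q D.1 D.2.1 D.2.2.2.1 D.2.2.2.2.1 D.2.2.2.2.2.1 D.2.2.2.2.2.2 j +
      divWt w w D.1 D.2.1 D.2.2.1 D.2.2.2.1 D.2.2.2.2.1 j)
    (fun l => extDiv D.1 D.2.1 D.2.2.1 D.2.2.2.1 D.2.2.2.2.1 D.2.2.2.2.2.1 D.2.2.2.2.2.2 l) j

/-- The weighted identity, row by row, with the radial fields. -/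
theorem row_eachC {p q w lam mu : ℝ} (hΩ : IsOpen Ω)
    (h0 : (0 : EuclideanSpace ℝ (Fin n)) ∉ Ω) (hφ : ContDiff ℝ 1 φ)
    (hφc : HasCompactSupport φ) (hsub : tsupport φ ⊆ Ω) (hU : ContDiffOn ℝ 2 U Ω)
    (hV : ContDiffOn ℝ 2 V Ω)
    (heqU : ∀ x ∈ Ω, ∑ i, fderiv ℝ (fderiv ℝ U) x (eStd i) (eStd i) =
      -((∑ i, fderiv ℝ U x (eStd i) * fderiv ℝ U x (eStd i)) +
        Real.exp (p * V x - U x + w * logNormX x)))
    (heqV : ∀ x ∈ Ω, ∑ i, fderiv ℝ (fderiv ℝ V) x (eStd i) (eStd i) =
      -((∑ i, fderiv ℝ V x (eStd i) * fderiv ℝ V x (eStd i)) +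
        Real.exp (q * U x - V x + w * logNormX x)))
    (j : Fin 14 ⊕ Fin 4) :
    ∫ x, φ x * (Real.exp (lam * U x + mu * V x) * (divCAt p q w U V j x +
        ∑ i, (lam * fderiv ℝ U x (eStd i) + mu * fderiv ℝ V x (eStd i)) *
          fldCAt p q w U V j x i)) =
      -∫ x, Real.exp (lam * U x + mu * V x) *
        ∑ i, fderiv ℝ φ x (eStd i) * fldCAt p q w U V j x i := by
  have hne : ∀ x ∈ Ω, x ≠ 0 := fun x hx h => h0 (h ▸ hx)
  have hZ : ContDiffOn ℝ 2 (logNormX (n := n)) Ω := fun x hx =>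
    (contDiffAt_logNormX (hne x hx)).contDiffWithinAt
  have hU1 := hU.of_le (show (1 : WithTop ℕ∞) ≤ 2 from one_le_two)
  have hV1 := hV.of_le (show (1 : WithTop ℕ∞) ≤ 2 from one_le_two)
  have hW : ContDiffOn ℝ 1 (fun y => lam * U y + mu * V y) Ω :=
    (contDiffOn_const.mul hU1).add (contDiffOn_const.mul hV1)
  have hWd : ∀ x ∈ Ω, ∀ (G : Fin n → ℝ),
      ∑ i, fderiv ℝ (fun y => lam * U y + mu * V y) x (eStd i) * G i =
        ∑ i, (lam * fderiv ℝ U x (eStd i) + mu * fderiv ℝ V x (eStd i)) * G i := by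
    intro x hx G
    refine Finset.sum_congr rfl fun i _ => ?_
    have hn := hΩ.mem_nhds hx
    rw [((((hU1.contDiffAt hn).differentiableAt one_ne_zero).hasFDerivAt.const_mul lam).fun_add
      (((hV1.contDiffAt hn).differentiableAt one_ne_zero).hasFDerivAt.const_mul mu)).fderiv]
    simp
  have off : ∀ x, x ∉ Ω → φ x = 0 ∧ fderiv ℝ φ x = 0 := fun x hx =>
    ⟨image_eq_zero_of_notMem_tsupport fun h => hx (hsub h), by
      rw [(notMem_tsupport_iff_eventuallyEq.1 fun h => hx (hsub h)).fderiv_eq]; simp⟩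
  have hdd : ∀ {X : EuclideanSpace ℝ (Fin n) → ℝ}, ContDiffOn ℝ 2 X Ω → ∀ i,
      ContDiffOn ℝ 1 (fun y => fderiv ℝ X y (eStd i)) Ω := fun hX i =>
    (hX.fderiv_of_isOpen hΩ (by norm_num)).clm_apply contDiffOn_const
  have cdot : ∀ {X X' : EuclideanSpace ℝ (Fin n) → ℝ}, ContDiffOn ℝ 2 X Ω → ContDiffOn ℝ 2 X' Ω →
      ContDiffOn ℝ 1 (fun y => ∑ i, fderiv ℝ X y (eStd i) * fderiv ℝ X' y (eStd i)) Ω :=
    fun hX hX' => ContDiffOn.sum fun i _ => (hdd hX i).mul (hdd hX' i)
  have hzd : ∀ x ∈ Ω, ∀ i, fderiv ℝ logNormX x (eStd i) = x i / ‖x‖ ^ 2 := fun x hx i =>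
    fderiv_logNormX (hne x hx) i
  rcases j with j | l
  · exact row_eachW hΩ h0 hφ hφc hsub hU hV heqU heqV (Sum.inl j)
  fin_cases l
  · exact row_eachW hΩ h0 hφ hφc hsub hU hV heqU heqV (Sum.inr 0)
  · exact row_eachW hΩ h0 hφ hφc hsub hU hV heqU heqV (Sum.inr 1)
  · have key := grad_row hΩ hφ hφc hsub (cdot hU hV) hZ hW
      (fun x hx i => fderiv_sum_mul hΩ hU hV (x := x) hx i)
      (fun x hx => laplacian_logNormX (hne x hx))
    refine Eq.trans ?_ (key.trans ?_)
    · refine integral_congr_ae (Eventually.of_forall fun x => ?_)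
      by_cases hx : x ∈ Ω
      · simp only [Fin.reduceFinMk, fldCAt, divCAt, dataW, Sum.elim_inr, extFld, extDiv,
          Matrix.cons_val, hWd x hx, hzd x hx, dotv_add]
        simp only [dotv]
        ring
      · simp [(off x hx).1]
    · refine congrArg Neg.neg (integral_congr_ae (Eventually.of_forall fun x => ?_))
      by_cases hx : x ∈ Ω
      · simp only [Fin.reduceFinMk, fldCAt, dataW, Sum.elim_inr, extFld, Matrix.cons_val,
          hzd x hx, dotv]
      · simp [(off x hx).2]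
  · have k1 := grad_row hΩ hφ hφc hsub (cdot hZ hV) hU hW
      (fun x hx i => fderiv_sum_mul hΩ hZ hV (x := x) hx i) heqU
    have k2 := grad_row hΩ hφ hφc hsub (cdot hZ hU) hV hW
      (fun x hx i => fderiv_sum_mul hΩ hZ hU (x := x) hx i) heqV
    have cd1 : ∀ {X : EuclideanSpace ℝ (Fin n) → ℝ}, ContDiffOn ℝ 2 X Ω → ∀ i,
        ContinuousOn (fun x => fderiv ℝ X x (eStd i)) Ω := fun hX i => (hdd hX i).continuousOn
    have cd2 : ∀ {X : EuclideanSpace ℝ (Fin n) → ℝ}, ContDiffOn ℝ 2 X Ω → ∀ i j,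
        ContinuousOn (fun x => fderiv ℝ (fderiv ℝ X) x (eStd i) (eStd j)) Ω := fun hX i j =>
      (((hX.fderiv_of_isOpen hΩ (m := 1) (by norm_num)).continuousOn_fderiv_of_isOpen hΩ
        le_rfl).clm_apply continuousOn_const).clm_apply continuousOn_const
    have cWd : ∀ i, ContinuousOn (fun x => fderiv ℝ (fun y => lam * U y + mu * V y) x (eStd i)) Ω :=
      fun i => (hW.continuousOn_fderiv_of_isOpen hΩ le_rfl).clm_apply continuousOn_const
    have cexp : ∀ w' : ℝ, ∀ {X X' : EuclideanSpace ℝ (Fin n) → ℝ}, ContDiffOn ℝ 2 X Ω →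
        ContDiffOn ℝ 2 X' Ω → ∀ t : ℝ,
        ContinuousOn (fun x => Real.exp (t * X x - X' x + w' * logNormX x)) Ω := fun w' _ _ hX hX' t =>
      (((hX.continuousOn.const_mul t).sub hX'.continuousOn).add
        (hZ.continuousOn.const_mul w')).rexp
    have cW0 : ContinuousOn (fun x => Real.exp (lam * U x + mu * V x)) Ω := hW.continuousOn.rexp
    have intL : ∀ (G : EuclideanSpace ℝ (Fin n) → ℝ) (X Y : EuclideanSpace ℝ (Fin n) → ℝ)
        (dg : EuclideanSpace ℝ (Fin n) → Fin n → ℝ) (T : EuclideanSpace ℝ (Fin n) → ℝ),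
        ContinuousOn G Ω → ContinuousOn T Ω → ContDiffOn ℝ 2 X Ω →
        (∀ i, ContinuousOn (fun x => dg x i) Ω) →
        Integrable (fun x => φ x * (Real.exp (lam * U x + mu * V x) * (G x * T x +
          dotv (dg x) (fun i => fderiv ℝ X x (eStd i)) +
          ∑ i, fderiv ℝ (fun y => lam * U y + mu * V y) x (eStd i) *
            (G x * fderiv ℝ X x (eStd i))))) := fun G X _ dg T hG hT hX hdg =>
      integrable_test_mul hΩ hφ.continuous hφc hsub (cW0.mul (((hG.mul hT).add
        (continuousOn_dotv hdg (cd1 hX))).add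
          (continuousOn_finsetSum _ fun i _ => (cWd i).mul (hG.mul (cd1 hX i)))))
    have cTU : ContinuousOn (fun x => -((∑ i, fderiv ℝ U x (eStd i) * fderiv ℝ U x (eStd i)) +
        Real.exp (p * V x - U x + w * logNormX x))) Ω :=
      ((cdot hU hU).continuousOn.add (cexp w hV hU p)).neg
    have cTV : ContinuousOn (fun x => -((∑ i, fderiv ℝ V x (eStd i) * fderiv ℝ V x (eStd i)) +
        Real.exp (q * U x - V x + w * logNormX x))) Ω :=
      ((cdot hV hV).continuousOn.add (cexp w hU hV q)).neg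
    have cdg : ∀ {X X' : EuclideanSpace ℝ (Fin n) → ℝ}, ContDiffOn ℝ 2 X Ω → ContDiffOn ℝ 2 X' Ω →
        ∀ i, ContinuousOn (fun x =>
          mulv (fun i j => fderiv ℝ (fderiv ℝ X) x (eStd i) (eStd j))
              (fun i => fderiv ℝ X' x (eStd i)) i +
            mulv (fun i j => fderiv ℝ (fderiv ℝ X') x (eStd i) (eStd j))
              (fun i => fderiv ℝ X x (eStd i)) i) Ω := fun hX hX' i =>
      (continuousOn_mulv (cd2 hX) (cd1 hX') i).add (continuousOn_mulv (cd2 hX') (cd1 hX) i)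
    have i1 := intL _ U U _ _ (cdot hZ hV).continuousOn cTU hU (cdg hZ hV)
    have i2 := intL _ V V _ _ (cdot hZ hU).continuousOn cTV hV (cdg hZ hU)
    have intR : ∀ (G : EuclideanSpace ℝ (Fin n) → ℝ) (X : EuclideanSpace ℝ (Fin n) → ℝ),
        ContinuousOn G Ω → ContDiffOn ℝ 2 X Ω →
        Integrable (fun x => Real.exp (lam * U x + mu * V x) *
          ∑ i, fderiv ℝ φ x (eStd i) * (G x * fderiv ℝ X x (eStd i))) := fun G X hG hX => by
      have := integrable_finsetSum (μ := volume) Finset.univ fun i _ =>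
        integrable_deriv_mul (μ := volume) hΩ hφ hφc hsub (cW0.mul (hG.mul (cd1 hX i))) (eStd i)
      refine this.congr (Eventually.of_forall fun x => ?_)
      simp only [Finset.mul_sum, Pi.mul_apply]
      exact Finset.sum_congr rfl fun i _ => by ring
    have k3 := (integral_sub i1 i2).trans (congrArg₂ (· - ·) k1 k2)
    rw [← neg_sub', ← integral_sub (intR _ _ (cdot hZ hV).continuousOn hU)
      (intR _ _ (cdot hZ hU).continuousOn hV)] at k3
    refine Eq.trans ?_ (k3.trans ?_)
    · refine integral_congr_ae (Eventually.of_forall fun x => ?_)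
      by_cases hx : x ∈ Ω
      · have hsym : ∀ {X : EuclideanSpace ℝ (Fin n) → ℝ}, ContDiffOn ℝ 2 X Ω → ∀ i j,
            fderiv ℝ (fderiv ℝ X) x (eStd i) (eStd j) = fderiv ℝ (fderiv ℝ X) x (eStd j) (eStd i) :=
          fun hX i j => (hX.contDiffAt (hΩ.mem_nhds hx)).isSymmSndFDerivAt (by simp) _ _
        have hs : ∀ (a b : Fin n → ℝ),
            dotv (mulv (fun i j => fderiv ℝ (fderiv ℝ logNormX) x (eStd i) (eStd j)) b) a =
              dotv (mulv (fun i j => fderiv ℝ (fderiv ℝ logNormX) x (eStd i) (eStd j)) a) b := by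
          intro a b
          simp only [dotv_mulv_sum]
          rw [Finset.sum_comm]
          exact Finset.sum_congr rfl fun i _ => Finset.sum_congr rfl fun j _ => by
            rw [hsym hZ j i]; ring
        have hsK : ∀ (a b : Fin n → ℝ),
            dotv (mulv (fun i j => fderiv ℝ (fderiv ℝ V) x (eStd i) (eStd j)) b) a =
              dotv (mulv (fun i j => fderiv ℝ (fderiv ℝ V) x (eStd i) (eStd j)) a) b := by
          intro a b
          simp only [dotv_mulv_sum]
          rw [Finset.sum_comm]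
          exact Finset.sum_congr rfl fun i _ => Finset.sum_congr rfl fun j _ => by
            rw [hsym hV j i]; ring
        have hsH : ∀ (a b : Fin n → ℝ),
            dotv (mulv (fun i j => fderiv ℝ (fderiv ℝ U) x (eStd i) (eStd j)) b) a =
              dotv (mulv (fun i j => fderiv ℝ (fderiv ℝ U) x (eStd i) (eStd j)) a) b := by
          intro a b
          simp only [dotv_mulv_sum]
          rw [Finset.sum_comm]
          exact Finset.sum_congr rfl fun i _ => Finset.sum_congr rfl fun j _ => by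
            rw [hsym hU j i]; ring
        simp only [Fin.reduceFinMk, fldCAt, divCAt, dataW, Sum.elim_inr, extFld, extDiv,
          Matrix.cons_val, hWd x hx, hzd x hx, dotv_add]
        rw [hs (fun i => fderiv ℝ U x (eStd i)) (fun i => fderiv ℝ V x (eStd i)),
          hsK (fun i => fderiv ℝ U x (eStd i)) (fun i => x i / ‖x‖ ^ 2),
          hsH (fun i => fderiv ℝ V x (eStd i)) (fun i => x i / ‖x‖ ^ 2)]
        simp only [mul_sub, Finset.sum_sub_distrib, dotv]
        ring
      · simp [(off x hx).1]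
    · refine congrArg Neg.neg (integral_congr_ae (Eventually.of_forall fun x => ?_))
      by_cases hx : x ∈ Ω
      · simp only [Fin.reduceFinMk, fldCAt, dataW, Sum.elim_inr, extFld, Matrix.cons_val,
          hzd x hx, mul_sub, Finset.sum_sub_distrib, dotv]
      · simp [(off x hx).2]

/-- The fields and their divergences are continuous. -/
theorem continuousOn_rowsC (p q w : ℝ) (hΩ : IsOpen Ω)
    (h0 : (0 : EuclideanSpace ℝ (Fin n)) ∉ Ω) (hU : ContDiffOn ℝ 2 U Ω)
    (hV : ContDiffOn ℝ 2 V Ω) (j : Fin 14 ⊕ Fin 4) :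
    (∀ i, ContinuousOn (fun x => fldCAt p q w U V j x i) Ω) ∧
      ContinuousOn (divCAt p q w U V j) Ω := by
  rcases j with j | l
  · exact continuousOn_rowsW p q w w hΩ h0 hU hV (Sum.inl j)
  have hne : ∀ x ∈ Ω, x ≠ 0 := fun x hx h => h0 (h ▸ hx)
  have cd1 : ∀ {X : EuclideanSpace ℝ (Fin n) → ℝ}, ContDiffOn ℝ 2 X Ω → ∀ i,
      ContinuousOn (fun x => fderiv ℝ X x (eStd i)) Ω := fun hX i =>
    (hX.continuousOn_fderiv_of_isOpen hΩ (by norm_num)).clm_apply continuousOn_const
  have cd2 : ∀ {X : EuclideanSpace ℝ (Fin n) → ℝ}, ContDiffOn ℝ 2 X Ω → ∀ i j,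
      ContinuousOn (fun x => fderiv ℝ (fderiv ℝ X) x (eStd i) (eStd j)) Ω := fun hX i j =>
    (((hX.fderiv_of_isOpen hΩ (m := 1) (by norm_num)).continuousOn_fderiv_of_isOpen hΩ
      le_rfl).clm_apply continuousOn_const).clm_apply continuousOn_const
  have cn : ContinuousOn (logNormX (n := n)) Ω := fun x hx =>
    (contDiffAt_logNormX (k := 0) (hne x hx)).continuousAt.continuousWithinAt
  have cz : ∀ i, ContinuousOn (fun x : EuclideanSpace ℝ (Fin n) => x i / ‖x‖ ^ 2) Ω := fun i =>
    (EuclideanSpace.proj (𝕜 := ℝ) i).continuous.continuousOn.div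
      (continuous_norm.pow 2).continuousOn
      fun x hx => pow_ne_zero _ (norm_ne_zero_iff.2 (hne x hx))
  have cP : ContinuousOn (fun x => Real.exp (p * V x - U x + w * logNormX x)) Ω :=
    (((hV.continuousOn.const_mul p).sub hU.continuousOn).add (cn.const_mul w)).rexp
  have cQ : ContinuousOn (fun x => Real.exp (q * U x - V x + w * logNormX x)) Ω :=
    (((hU.continuousOn.const_mul q).sub hV.continuousOn).add (cn.const_mul w)).rexp
  have ca := cd1 hU
  have cb := cd1 hV
  have cA := continuousOn_dotv ca ca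
  have cB := continuousOn_dotv cb cb
  have cC := continuousOn_dotv ca cb
  have cza := continuousOn_dotv cz ca
  have czb := continuousOn_dotv cz cb
  have cZ := (continuousOn_dotv cz cz).const_mul ((n : ℝ) - 2)
  have Ha := continuousOn_dotv (continuousOn_mulv (cd2 hU) ca) cz
  have Hb := continuousOn_dotv (continuousOn_mulv (cd2 hU) cb) cz
  have Ka := continuousOn_dotv (continuousOn_mulv (cd2 hV) ca) cz
  have Kb := continuousOn_dotv (continuousOn_mulv (cd2 hV) cb) cz
  constructor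
  · intro i
    fin_cases l
    · exact cA.mul (cz i)
    · exact cB.mul (cz i)
    · exact cC.mul (cz i)
    · exact (czb.mul (ca i)).sub (cza.mul (cb i))
  · fin_cases l
    · exact (Ha.const_mul 2).add (cA.mul cZ)
    · exact (Kb.const_mul 2).add (cB.mul cZ)
    · exact (Hb.add Ka).add (cC.mul cZ)
    · exact ((((cA.add cP).neg.mul czb).add ((cB.add cQ).mul cza)).add Ka).sub Hb

/-- `extC` commutes with differentiation. -/
theorem deriv_extC (g : ℝ) {c : Fin 14 → ℝ → ℝ} {t : ℝ} (hc : ∀ j, DifferentiableAt ℝ (c j) t)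
    (l : Fin 4) :
    deriv (fun s => extC g (fun j => c j s) l) t = extC g (fun j => deriv (c j) t) l := by
  have h := fun j => (hc j).hasDerivAt
  fin_cases l <;> simp only [Fin.reduceFinMk, extC, Matrix.cons_val]
  · exact ((h 0).const_mul (g / 2)).deriv
  · exact ((h 3).const_mul (g / 2)).deriv
  · exact (((h 1).add (h 2)).const_mul (g / 2)).deriv
  · exact (((h 1).sub (h 2)).const_mul (g / 2)).deriv

theorem contDiffOn_extC (g : ℝ) {c : Fin 14 → ℝ → ℝ} {S : Set ℝ}
    (hc : ∀ j, ContDiffOn ℝ 1 (c j) S) (l : Fin 4) :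
    ContDiffOn ℝ 1 (fun s => extC g (fun j => c j s) l) S := by
  fin_cases l <;> simp only [Fin.reduceFinMk, extC, Matrix.cons_val]
  · exact contDiffOn_const.mul (hc 0)
  · exact contDiffOn_const.mul (hc 3)
  · exact contDiffOn_const.mul ((hc 1).add (hc 2))
  · exact contDiffOn_const.mul ((hc 1).sub (hc 2))

/-- The pointwise row of a solution. -/
noncomputable def solRowC (g p q lam mu : ℝ) (c : Fin 14 → ℝ → ℝ)
    (u v : EuclideanSpace ℝ (Fin n) → ℝ) (x : EuclideanSpace ℝ (Fin n)) : ℝ :=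
  let z := v x ^ (p + 1) / u x ^ (q + 1)
  coneRow g p q (fun j => c j z)
    (fun j => c j z * lam - (q + 1) * (deriv (c j) z * z))
    (fun j => c j z * mu + (p + 1) * (deriv (c j) z * z)) (logGrad u x) (logGrad v x) (zVec x)
    (‖x‖ ^ (-g) * v x ^ p / u x) (‖x‖ ^ (-g) * u x ^ q / v x) (logHess u x) (logHess v x)

/-- The pointwise flux of a solution. -/
noncomputable def solFluxC (g p q : ℝ) (c : Fin 14 → ℝ → ℝ)
    (u v : EuclideanSpace ℝ (Fin n) → ℝ) (x : EuclideanSpace ℝ (Fin n)) (i : Fin n) : ℝ :=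
  let z := v x ^ (p + 1) / u x ^ (q + 1)
  coneFlux g (fun j => c j z) (logGrad u x) (logGrad v x) (zVec x)
    (‖x‖ ^ (-g) * v x ^ p / u x) (‖x‖ ^ (-g) * u x ^ q / v x) (logHess u x) (logHess v x) i

/-- **The identity with coefficients in `z` and the radial factor.** -/
theorem cone_identity {g p q lam mu : ℝ} {c : Fin 14 → ℝ → ℝ} {S₀ : Set ℝ} (hS : IsOpen S₀)
    (hc : ∀ j, ContDiffOn ℝ 1 (c j) S₀) {u v φ : EuclideanSpace ℝ (Fin n) → ℝ}
    (hu : ContDiffOn ℝ 2 u {0}ᶜ) (hv : ContDiffOn ℝ 2 v {0}ᶜ) (hu0 : ∀ x, 0 < u x)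
    (hv0 : ∀ x, 0 < v x) (equ : ∀ x, x ≠ 0 → Δ u x = -(‖x‖ ^ (-g) * v x ^ p))
    (eqv : ∀ x, x ≠ 0 → Δ v x = -(‖x‖ ^ (-g) * u x ^ q))
    (hz : ∀ x, x ≠ 0 → v x ^ (p + 1) / u x ^ (q + 1) ∈ S₀)
    (hφ : ContDiff ℝ 1 φ) (hφc : HasCompactSupport φ) (hsub : tsupport φ ⊆ {0}ᶜ) :
    Integrable (fun x => φ x * (wgtG g lam mu u v x * solRowC g p q lam mu c u v x)) ∧
    ∫ x, φ x * (wgtG g lam mu u v x * solRowC g p q lam mu c u v x) =
      -∫ x, wgtG g lam mu u v x * ∑ i, fderiv ℝ φ x (eStd i) * solFluxC g p q c u v x i := by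
  set Ω : Set (EuclideanSpace ℝ (Fin n)) := {0}ᶜ with hΩd
  have hΩ : IsOpen Ω := isOpen_compl_singleton
  have h0 : (0 : EuclideanSpace ℝ (Fin n)) ∉ Ω := fun h => h rfl
  set U := fun y => Real.log (u y) with hUdef
  set V := fun y => Real.log (v y) with hVdef
  have hU : ContDiffOn ℝ 2 U Ω := hu.log fun y _ => (hu0 y).ne'
  have hV : ContDiffOn ℝ 2 V Ω := hv.log fun y _ => (hv0 y).ne'
  have hU1 := hU.of_le (show (1 : WithTop ℕ∞) ≤ 2 from one_le_two)
  have hV1 := hV.of_le (show (1 : WithTop ℕ∞) ≤ 2 from one_le_two)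
  have ew : ∀ x, Real.exp (lam * U x + mu * V x) = u x ^ lam * v x ^ mu := fun x => by
    rw [Real.rpow_def_of_pos (hu0 x), Real.rpow_def_of_pos (hv0 x), ← Real.exp_add]
    simp only [U, V]; ring_nf
  have en : ∀ x ∈ Ω, ∀ w : ℝ, Real.exp (w * logNormX x) = ‖x‖ ^ w := fun x hx w => by
    rw [Real.rpow_def_of_pos (norm_pos_iff.2 hx), logNormX, Real.log_pow]
    push_cast; ring_nf
  have eP : ∀ x ∈ Ω, Real.exp (p * V x - U x + -g * logNormX x) =
      ‖x‖ ^ (-g) * v x ^ p / u x := fun x hx => by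
    rw [Real.exp_add, en x hx, Real.exp_sub, Real.exp_log (hu0 x),
      Real.rpow_def_of_pos (hv0 x), mul_comm p]
    simp only [V]; ring
  have eQ : ∀ x ∈ Ω, Real.exp (q * U x - V x + -g * logNormX x) =
      ‖x‖ ^ (-g) * u x ^ q / v x := fun x hx => by
    rw [Real.exp_add, en x hx, Real.exp_sub, Real.exp_log (hv0 x),
      Real.rpow_def_of_pos (hu0 x), mul_comm q]
    simp only [U]; ring
  have eZ : ∀ x, Real.exp ((p + 1) * V x - (q + 1) * U x) = v x ^ (p + 1) / u x ^ (q + 1) :=
    fun x => by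
    rw [Real.exp_sub, Real.rpow_def_of_pos (hu0 x), Real.rpow_def_of_pos (hv0 x)]
    simp only [U, V]; ring_nf
  have heqU : ∀ x ∈ Ω, ∑ i, fderiv ℝ (fderiv ℝ U) x (eStd i) (eStd i) =
      -((∑ i, fderiv ℝ U x (eStd i) * fderiv ℝ U x (eStd i)) +
        Real.exp (p * V x - U x + -g * logNormX x)) := by
    intro x hx
    rw [eP x hx, sum_log_second hΩ hu (fun y _ => hu0 y) hx, equ x hx]
    simp only [logGrad, U]; ring
  have heqV : ∀ x ∈ Ω, ∑ i, fderiv ℝ (fderiv ℝ V) x (eStd i) (eStd i) =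
      -((∑ i, fderiv ℝ V x (eStd i) * fderiv ℝ V x (eStd i)) +
        Real.exp (q * U x - V x + -g * logNormX x)) := by
    intro x hx
    rw [eQ x hx, sum_log_second hΩ hv (fun y _ => hv0 y) hx, eqv x hx]
    simp only [logGrad, V]; ring
  set Z := fun x => Real.exp ((p + 1) * V x - (q + 1) * U x) with hZd
  have hZ1 : ContDiffOn ℝ 1 Z Ω :=
    ((contDiffOn_const.mul hV1).sub (contDiffOn_const.mul hU1)).exp
  have hZS : MapsTo Z Ω S₀ := fun x hx => by simp only [Z, eZ]; exact hz x hx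
  set e : Fin 14 ⊕ Fin 4 → ℝ → ℝ :=
    Sum.elim c (fun l t => extC g (fun j => c j t) l) with hed
  have he : ∀ j, ContDiffOn ℝ 1 (e j) S₀ := by
    rintro (j | l)
    exacts [hc j, contDiffOn_extC g hc l]
  set f := fun j x => Real.exp (g * logNormX x) * e j (Z x) with hfd
  have hexp : ContDiffOn ℝ 1
      (fun x : EuclideanSpace ℝ (Fin n) => Real.exp (g * logNormX x)) Ω := fun x hx =>
    ((contDiffAt_const.mul (contDiffAt_logNormX hx)).exp).contDiffWithinAt
  have hf : ∀ j, ContDiffOn ℝ 1 (f j) Ω := fun j => hexp.mul ((he j).comp hZ1 hZS)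
  have hfder : ∀ j, ∀ x ∈ Ω, ∀ i, fderiv ℝ (f j) x (eStd i) = ‖x‖ ^ g *
      (g * zVec x i * e j (Z x) + deriv (e j) (Z x) * Z x *
        ((p + 1) * fderiv ℝ V x (eStd i) - (q + 1) * fderiv ℝ U x (eStd i))) := by
    intro j x hx i
    have hn := hΩ.mem_nhds hx
    have d1 := (((contDiffAt_logNormX (n := n) (k := 1) hx).differentiableAt
      one_ne_zero).hasFDerivAt.const_mul g).exp
    have hin := ((((hV.contDiffAt hn).differentiableAt two_ne_zero).hasFDerivAt.const_mul
      (p + 1)).fun_sub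
      (((hU.contDiffAt hn).differentiableAt two_ne_zero).hasFDerivAt.const_mul (q + 1))).exp
    have d2 := ((((he j).contDiffAt (hS.mem_nhds (hZS hx))).differentiableAt
      one_ne_zero).hasDerivAt.comp_hasFDerivAt x hin)
    have d := d1.fun_mul d2
    rw [show f j = fun y => Real.exp (g * logNormX y) *
      (e j ∘ fun y => Real.exp ((p + 1) * V y - (q + 1) * U y)) y from rfl, d.fderiv]
    simp [fderiv_logNormX hx i, en x hx, zVec, Z]
    ring
  have cW : ContinuousOn (fun x => Real.exp (lam * U x + mu * V x)) Ω :=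
    ((hU.continuousOn.const_mul lam).add (hV.continuousOn.const_mul mu)).rexp
  have cd1 : ∀ {X : EuclideanSpace ℝ (Fin n) → ℝ}, ContDiffOn ℝ 2 X Ω → ∀ i,
      ContinuousOn (fun x => fderiv ℝ X x (eStd i)) Ω := fun hX i =>
    (hX.continuousOn_fderiv_of_isOpen hΩ (by norm_num)).clm_apply continuousOn_const
  obtain ⟨hint, hid⟩ := rows_factor (W := fun x => Real.exp (lam * U x + mu * V x)) (f := f)
    (T := fun j x => divCAt p q (-g) U V j x +
      ∑ i, (lam * fderiv ℝ U x (eStd i) + mu * fderiv ℝ V x (eStd i)) * fldCAt p q (-g) U V j x i)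
    (F := fldCAt p q (-g) U V) hΩ hφ hφc hsub cW hf
    (fun j => (continuousOn_rowsC p q (-g) hΩ h0 hU hV j).2.add (continuousOn_finsetSum _ fun i _ =>
      (((cd1 hU i).const_mul lam).add ((cd1 hV i).const_mul mu)).mul
        ((continuousOn_rowsC p q (-g) hΩ h0 hU hV j).1 i)))
    (fun j => (continuousOn_rowsC p q (-g) hΩ h0 hU hV j).1)
    (fun j ψ hψ hψc hψs => row_eachC hΩ h0 hψ hψc hψs hU hV heqU heqV j)
  have lin : ∀ (X Y G : Fin n → ℝ) (s t : ℝ),
      ∑ i, (s * X i + t * Y i) * G i = s * dotv X G + t * dotv Y G := fun X Y G s t => by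
    simp only [dotv, Finset.mul_sum, ← Finset.sum_add_distrib]
    exact Finset.sum_congr rfl fun i _ => by ring
  have eL : ∀ x, φ x * (Real.exp (lam * U x + mu * V x) * ∑ j, (f j x * (divCAt p q (-g) U V j x +
      ∑ i, (lam * fderiv ℝ U x (eStd i) + mu * fderiv ℝ V x (eStd i)) *
        fldCAt p q (-g) U V j x i) + ∑ i, fderiv ℝ (f j) x (eStd i) * fldCAt p q (-g) U V j x i)) =
      φ x * (wgtG g lam mu u v x * solRowC g p q lam mu c u v x) := by
    intro x
    by_cases hx : x ∈ Ω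
    · have hS' := hS.mem_nhds (hz x hx)
      have dif : ∀ j, DifferentiableAt ℝ (c j) (v x ^ (p + 1) / u x ^ (q + 1)) := fun j =>
        ((hc j).contDiffAt hS').differentiableAt one_ne_zero
      have hsum : ∀ j, f j x * (divCAt p q (-g) U V j x +
          ∑ i, (lam * fderiv ℝ U x (eStd i) + mu * fderiv ℝ V x (eStd i)) *
            fldCAt p q (-g) U V j x i) +
          ∑ i, fderiv ℝ (f j) x (eStd i) * fldCAt p q (-g) U V j x i =
          ‖x‖ ^ g * (e j (Z x) * divCAt p q (-g) U V j x +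
            (e j (Z x) * lam - (q + 1) * (deriv (e j) (Z x) * Z x)) *
              dotv (logGrad u x) (fldCAt p q (-g) U V j x) +
            (e j (Z x) * mu + (p + 1) * (deriv (e j) (Z x) * Z x)) *
              dotv (logGrad v x) (fldCAt p q (-g) U V j x) +
            g * (e j (Z x) * dotv (zVec x) (fldCAt p q (-g) U V j x))) := by
        intro j
        have hd : ∑ i, fderiv ℝ (f j) x (eStd i) * fldCAt p q (-g) U V j x i = ‖x‖ ^ g *
            (g * (e j (Z x) * dotv (zVec x) (fldCAt p q (-g) U V j x)) +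
              deriv (e j) (Z x) * Z x *
                ((p + 1) * dotv (logGrad v x) (fldCAt p q (-g) U V j x) -
                  (q + 1) * dotv (logGrad u x) (fldCAt p q (-g) U V j x))) := by
          simp only [dotv, Finset.mul_sum, ← Finset.sum_add_distrib, ← Finset.sum_sub_distrib]
          exact Finset.sum_congr rfl fun i _ => by
            rw [hfder j x hx i]; simp only [logGrad, U, V]; ring
        rw [hd, lin]
        simp only [f, en x hx, dotv, logGrad, U, V]
        ring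
      simp only [hsum, ← Finset.mul_sum]
      rw [show Real.exp (lam * U x + mu * V x) = u x ^ lam * v x ^ mu from ew x]
      simp only [wgtG, solRowC]
      rw [mul_left_comm (u x ^ lam * v x ^ mu) (‖x‖ ^ g), ← mul_assoc (‖x‖ ^ g)]
      refine congrArg (fun r => φ x * (‖x‖ ^ g * (u x ^ lam * v x ^ mu) * r)) ?_
      have flux : ∀ (cv : Fin 14 → ℝ) (zv a b : Fin n → ℝ) (P Q : ℝ) (H K : Fin n → Fin n → ℝ),
          dotv zv (coneFlux g cv a b zv P Q H K) = (∑ j, cv j * dotv zv (fld a b P Q H K j)) +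
            ∑ l, extC g cv l * dotv zv (extFld a b zv l) := fun cv zv a b P Q H K => by
        simp only [dotv, coneFlux, mul_add, Finset.sum_add_distrib, Finset.mul_sum]
        rw [Finset.sum_comm, add_comm]
        rw [Finset.sum_comm, add_comm]
        congr 1 <;>
          exact Finset.sum_congr rfl fun j _ => Finset.sum_congr rfl fun i _ => by ring
      have hl : ∀ (cv dv : Fin 14 → ℝ) (s k z : ℝ) (l : Fin 4),
          extC g (fun j => cv j * s + k * (dv j * z)) l =
            extC g cv l * s + k * (extC g dv l * z) := fun cv dv s k z l => by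
        fin_cases l <;> simp [extC] <;> ring
      have hl' : ∀ (cv dv : Fin 14 → ℝ) (s k z : ℝ) (l : Fin 4),
          extC g (fun j => cv j * s - k * (dv j * z)) l =
            extC g cv l * s - k * (extC g dv l * z) := fun cv dv s k z l => by
        fin_cases l <;> simp [extC] <;> ring
      have hF : ∀ j, fldCAt p q (-g) U V (Sum.inl j) x =
          fld (logGrad u x) (logGrad v x) (‖x‖ ^ (-g) * v x ^ p / u x)
            (‖x‖ ^ (-g) * u x ^ q / v x) (logHess u x) (logHess v x) j := fun j => by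
        funext i; simp only [fldCAt, dataW, Sum.elim_inl, eP x hx, eQ x hx]; rfl
      have hG : ∀ l, fldCAt p q (-g) U V (Sum.inr l) x =
          extFld (logGrad u x) (logGrad v x) (zVec x) l := fun l => rfl
      have hD : ∀ j, divCAt p q (-g) U V (Sum.inl j) x =
          divT p q (logGrad u x) (logGrad v x) (‖x‖ ^ (-g) * v x ^ p / u x)
            (‖x‖ ^ (-g) * u x ^ q / v x) (logHess u x) (logHess v x) j +
          divWt (-g) (-g) (logGrad u x) (logGrad v x) (zVec x) (‖x‖ ^ (-g) * v x ^ p / u x)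
            (‖x‖ ^ (-g) * u x ^ q / v x) j := fun j => by
        simp only [divCAt, dataW, Sum.elim_inl, eP x hx, eQ x hx]; rfl
      have hE : ∀ l, divCAt p q (-g) U V (Sum.inr l) x =
          extDiv (logGrad u x) (logGrad v x) (zVec x) (‖x‖ ^ (-g) * v x ^ p / u x)
            (‖x‖ ^ (-g) * u x ^ q / v x) (logHess u x) (logHess v x) l := fun l => by
        simp only [divCAt, dataW, Sum.elim_inr, eP x hx, eQ x hx]; rfl
      simp only [coneRow, flux, hl, hl', rowGen, Z, eZ, Fintype.sum_sum_type, e, Sum.elim_inl,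
        Sum.elim_inr, deriv_extC g dif]
      simp only [hF, hG, hD, hE]
      simp only [mul_add, Finset.sum_add_distrib, ← Finset.mul_sum]
      ring
    · simp [image_eq_zero_of_notMem_tsupport fun h => hx (hsub h)]
  have eR : ∀ x, Real.exp (lam * U x + mu * V x) *
      ∑ i, fderiv ℝ φ x (eStd i) * ∑ j, f j x * fldCAt p q (-g) U V j x i =
      wgtG g lam mu u v x * ∑ i, fderiv ℝ φ x (eStd i) * solFluxC g p q c u v x i := by
    intro x
    by_cases hx : x ∈ Ω
    · have hi : ∀ i, ∑ j, f j x * fldCAt p q (-g) U V j x i =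
          ‖x‖ ^ g * solFluxC g p q c u v x i := fun i => by
        simp only [f, en x hx, mul_assoc, ← Finset.mul_sum]
        refine congrArg _ ?_
        simp only [solFluxC, coneFlux, Z, eZ, Fintype.sum_sum_type, e, fldCAt, dataW,
          Sum.elim_inl, Sum.elim_inr, eP x hx, eQ x hx]
        rfl
      simp only [hi, ew, wgtG, Finset.mul_sum]
      exact Finset.sum_congr rfl fun i _ => by ring
    · have : fderiv ℝ φ x = 0 := by
        rw [(notMem_tsupport_iff_eventuallyEq.1 fun h => hx (hsub h)).fderiv_eq]; simp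
      simp [this]
  simp only [eL, eR] at hint hid
  exact ⟨hint, hid⟩

end Vale.Agent.P100.Calib
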