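import Mathlib
import Vale.Agent.P100.EnergyH
import Vale.Agent.P100.CompareW
import Vale.Agent.P100.Calib.ConeRows

/-!
# A criterion with a factor of the coefficients for a common radial weight

The coefficients are `c j z` with `|c j z| ≤ B h z` and the weighted row is at least `ε h z` times
the full norm, `0 < h ≤ 1` on `(0, κ]`. With the weight `|x| ^ g u ^ lam v ^ mu` two cut-offs give a
contradiction for `5 ≤ n` and `2 (n - g) / (2 - g) < 4 (1 + r₁ + r₂)`.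
-/

open MeasureTheory Filter Set Metric Topology Laplacian

namespace Vale.Agent.P100.Calib

variable {n : ℕ}

/-- A weighted integral identity `∫ φ W T = -∫ W ∇φ · F` bounds `∫ W N` on an annulus. -/
theorem energy_of_identityW (hn : 5 ≤ n) {r σ ε G₀ M : ℝ} (hr : 0 ≤ r)
    (hε : 0 < ε) (hG₀ : 0 ≤ G₀) {W N T : EuclideanSpace ℝ (Fin n) → ℝ}
    {F : EuclideanSpace ℝ (Fin n) → Fin n → ℝ}
    (cW : ContinuousOn W {0}ᶜ) (cN : ContinuousOn N {0}ᶜ)
    (hW : ∀ x, x ≠ 0 → 0 < W x) (hN : ∀ x, x ≠ 0 → 0 < N x)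
    (hM : ∀ x, x ≠ 0 → ‖x‖ ≤ 1 → W x ≤ M) (hWN : ∀ x, x ≠ 0 → W x ≤ ‖x‖ ^ σ * N x ^ r)
    (hT : ∀ x, x ≠ 0 → ε * N x ≤ T x)
    (hF : ∀ x, x ≠ 0 → ∀ i, |F x i| ≤ G₀ * (N x ^ (3 / 4 : ℝ) + N x ^ (1 / 2 : ℝ) * ‖x‖⁻¹))
    (hid : ∀ φ : EuclideanSpace ℝ (Fin n) → ℝ, ContDiff ℝ 1 φ → HasCompactSupport φ →
      tsupport φ ⊆ {0}ᶜ → Integrable (fun x => φ x * (W x * T x)) ∧
        ∫ x, φ x * (W x * T x) = -∫ x, W x * ∑ i, fderiv ℝ φ x (eStd i) * F x i) :
    ∃ C₁ C₂ : ℝ, ∀ R e' : ℝ, 2 ≤ R → 0 < e' → e' ≤ 1 / 2 →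
      ∫ x in closedBall (0 : EuclideanSpace ℝ (Fin n)) 2 \ ball 0 1, W x * N x ≤
        C₁ * e' ^ ((n : ℝ) - 4) + C₂ * R ^ ((n : ℝ) + σ - 4 * (1 + r)) := by
  have hΩ : IsOpen ({0}ᶜ : Set (EuclideanSpace ℝ (Fin n))) := isOpen_compl_singleton
  obtain ⟨m, hm5, hmr⟩ : ∃ m : ℕ, 5 ≤ m ∧ 4 * (1 + r) ≤ m :=
    ⟨max 5 ⌈4 * (1 + r)⌉₊, le_max_left _ _,
      (Nat.le_ceil _).trans (Nat.cast_le.2 (le_max_right _ _))⟩
  obtain ⟨L, hL0, hcut⟩ := exists_cutoffs (n := n)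
  have hn5 : (5 : ℝ) ≤ n := by exact_mod_cast hn
  set e₁ : EuclideanSpace ℝ (Fin n) := EuclideanSpace.single (⟨0, by omega⟩ : Fin n) (1 : ℝ)
    with he₁
  have hM0 : 0 ≤ M := by
    have hx : e₁ ≠ 0 := by rw [← norm_ne_zero_iff, he₁]; simp
    exact (hW e₁ hx).le.trans (hM e₁ hx (by rw [he₁]; simp))
  set G : ℝ := (m : ℝ) * (n * L) * G₀ with hG
  have hG0 : 0 ≤ G := by positivity
  set Cy : ℝ := (ε / 8) ^ (-3 : ℝ) * G ^ 4 + (ε / 8)⁻¹ * G ^ 2 with hCy
  have hCy0 : 0 ≤ Cy := by positivity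
  set δ' : ℝ := ε / (4 * (Cy + 1)) with hδ'
  have hδ'0 : 0 < δ' := by positivity
  have hδC : Cy * δ' ≤ ε / 4 := by
    rw [hδ', mul_div_assoc', div_le_div_iff₀ (by positivity) (by norm_num)]
    nlinarith
  set V1 : ℝ := volume.real (closedBall (0 : EuclideanSpace ℝ (Fin n)) 1) with hV1
  set wN := fun x => W x * N x with hwN
  have cg : ContinuousOn wN {0}ᶜ := cW.mul cN
  set A0 : Set (EuclideanSpace ℝ (Fin n)) := closedBall 0 2 \ ball 0 1 with hA0
  have hA0m : MeasurableSet A0 := measurableSet_closedBall.diff measurableSet_ball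
  have hA0s : A0 ⊆ {0}ᶜ := fun x hx h0 =>
    hx.2 (by rw [mem_singleton_iff.1 h0]; exact mem_ball_self one_pos)
  set s : ℝ := (n : ℝ) + σ - 4 * (1 + r) with hs
  refine ⟨4 / ε * (Cy * M * 2 ^ n * V1),
    4 / ε * (Cy * δ' ^ (-r) * max 1 ((2 : ℝ) ^ σ) * 2 ^ n * V1), fun R e' hR he' he'2 => ?_⟩
  obtain ⟨η, hη, hηc, hηsupp, hηI, hη1, hDη, hDsupp⟩ := hcut R e' hR he' he'2
  have hR0 : 0 < R := by linarith
  have hηΩ : tsupport η ⊆ {0}ᶜ := hηsupp.trans fun x hx h0 => hx.2 (by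
    rw [mem_singleton_iff.1 h0]; exact mem_ball_self he')
  set φ : EuclideanSpace ℝ (Fin n) → ℝ := fun x => η x ^ m with hφdef
  have hφ : ContDiff ℝ 1 φ := hη.pow m
  have hφs : tsupport φ ⊆ tsupport η := by
    refine closure_mono fun x hx => ?_
    simp only [Function.mem_support, φ] at hx ⊢
    exact fun h => hx (by rw [h, zero_pow (by omega)])
  have hφc : HasCompactSupport φ := hηc.mono' fun x hx => hφs (subset_tsupport φ hx)
  obtain ⟨hint, hidn⟩ := hid φ hφ hφc (hφs.trans hηΩ)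
  have hφ0 : ∀ x, 0 ≤ φ x := fun x => pow_nonneg (hηI x).1 m
  have hφN : ∀ x, 0 ≤ φ x * wN x := fun x => by
    by_cases hx : x = 0
    · simp [image_eq_zero_of_notMem_tsupport (f := φ) fun h => hφs.trans hηΩ h hx]
    · exact mul_nonneg (hφ0 x) (mul_nonneg (hW x hx).le (hN x hx).le)
  have iwN : Integrable (fun x => φ x * wN x) :=
    integrable_test_mul hΩ hφ.continuous hφc (hφs.trans hηΩ) cg
  have step1 : ε * ∫ x, φ x * wN x ≤ ∫ x, φ x * (W x * T x) := by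
    rw [← integral_const_mul]
    refine integral_mono (iwN.const_mul ε) hint fun x => ?_
    by_cases hx : x = 0
    · simp [image_eq_zero_of_notMem_tsupport (f := φ) fun h => hφs.trans hηΩ h hx]
    · refine le_trans (le_of_eq ?_)
        (mul_le_mul_of_nonneg_left (mul_le_mul_of_nonneg_left (hT x hx) (hW x hx).le) (hφ0 x))
      simp only [wN]; ring
  set a1 : ℝ := Cy * M * e' ^ (-4 : ℝ) with ha1
  set a2 : ℝ := Cy * δ' ^ (-r) * max 1 ((2 : ℝ) ^ σ) * R ^ (σ - 4 * (1 + r))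
    with ha2
  have ha10 : 0 ≤ a1 := by positivity
  have ha20 : 0 ≤ a2 := by positivity
  have point : ∀ x, ‖W x * ∑ i, fderiv ℝ φ x (eStd i) * F x i‖ ≤ 3 * ε / 4 * (φ x * wN x) +
      ((closedBall (0 : EuclideanSpace ℝ (Fin n)) (2 * e')).indicator (fun _ => a1) x +
       (closedBall (0 : EuclideanSpace ℝ (Fin n)) (2 * R)).indicator (fun _ => a2) x) := by
    intro x
    have i1 : (0 : ℝ) ≤ (closedBall (0 : EuclideanSpace ℝ (Fin n)) (2 * e')).indicator
      (fun _ => a1) x := indicator_nonneg (fun _ _ => ha10) _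
    have i2 : (0 : ℝ) ≤ (closedBall (0 : EuclideanSpace ℝ (Fin n)) (2 * R)).indicator
      (fun _ => a2) x := indicator_nonneg (fun _ _ => ha20) _
    have hX : 0 ≤ φ x * wN x := hφN x
    by_cases hne : fderiv ℝ η x = 0
    · have h3 : fderiv ℝ φ x = 0 := by
        rw [((hη.differentiable one_ne_zero x).hasFDerivAt.pow m).fderiv, hne, smul_zero]
      simp only [h3, zero_apply, zero_mul, Finset.sum_const_zero, mul_zero, norm_zero]
      linarith [mul_nonneg hε.le hX]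
    have hxΩ : x ∈ ({0}ᶜ : Set (EuclideanSpace ℝ (Fin n))) := hηΩ (support_fderiv_subset ℝ hne)
    have hx0 : 0 < ‖x‖ := norm_pos_iff.2 hxΩ
    obtain ⟨hη0, hη01⟩ := hηI x
    have hw := hW x hxΩ
    have hN0 := (hN x hxΩ).le
    have hdφ : ∀ i, |fderiv ℝ φ x (eStd i)| ≤ m * η x ^ (m - 1) * (L * ‖x‖⁻¹) := by
      intro i
      rw [((hη.differentiable one_ne_zero x).hasFDerivAt.pow m).fderiv]
      have h3 : |fderiv ℝ η x (eStd i)| ≤ L * ‖x‖⁻¹ := by
        refine ((fderiv ℝ η x).le_opNorm (eStd i)).trans ?_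
        rw [show ‖eStd i‖ = 1 by simp [eStd], mul_one]
        exact hDη x
      simpa [abs_mul, abs_of_nonneg hη0] using
        mul_le_mul_of_nonneg_left h3 (show 0 ≤ (m : ℝ) * η x ^ (m - 1) by positivity)
    have hflux : ‖W x * ∑ i, fderiv ℝ φ x (eStd i) * F x i‖ ≤ G * (W x * (η x ^ (m - 1) *
        (‖x‖⁻¹ * N x ^ (3 / 4 : ℝ) + ‖x‖⁻¹ ^ 2 * N x ^ (1 / 2 : ℝ)))) := by
      rw [Real.norm_eq_abs, abs_mul, abs_of_pos hw]
      refine le_trans (mul_le_mul_of_nonneg_left ((Finset.abs_sum_le_sum_abs _ _).trans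
        (Finset.sum_le_sum (g := fun _ => m * η x ^ (m - 1) * (L * ‖x‖⁻¹) *
          (G₀ * (N x ^ (3 / 4 : ℝ) + N x ^ (1 / 2 : ℝ) * ‖x‖⁻¹))) fun i _ => ?_)) hw.le) ?_
      · rw [abs_mul]
        exact mul_le_mul (hdφ i) (hF x hxΩ i) (abs_nonneg _) (by positivity)
      · refine le_of_eq ?_
        rw [Finset.sum_const, Finset.card_univ, Fintype.card_fin, nsmul_eq_mul, hG]
        ring
    refine hflux.trans ?_
    have hX' : 0 ≤ η x ^ m * (W x * N x) := by positivity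
    rcases hDsupp x hne with hcase | hcase
    · refine (flux_inner hw.le (hM x hxΩ (by linarith [hcase.2])) hN0 hη0 hη01 he' hcase.1 hG0
        (show (0 : ℝ) < ε / 8 by positivity) hm5).trans ?_
      rw [indicator_of_mem (s := closedBall (0 : EuclideanSpace ℝ (Fin n)) (2 * e'))
        (mem_closedBall_zero_iff.2 hcase.2), ← hCy]
      simp only [φ, wN, a1]
      linarith [mul_nonneg hε.le hX']
    · refine (flux_outer hw hN0 hr (hWN x hxΩ)
        hη0 hη01 hR0 hcase.1 hcase.2 hG0 (show (0 : ℝ) < ε / 8 by positivity) hδ'0 hmr hm5).trans ?_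
      rw [indicator_of_mem (s := closedBall (0 : EuclideanSpace ℝ (Fin n)) (2 * R))
        (mem_closedBall_zero_iff.2 hcase.2), ← hCy]
      simp only [φ, wN, a2]
      linarith [mul_le_mul_of_nonneg_right hδC hX', mul_nonneg hε.le hX']
  obtain ⟨iB1, vB1⟩ :=
    integral_indicator_const_closedBall (n := n) (show 0 ≤ 2 * e' by linarith) a1
  obtain ⟨iB2, vB2⟩ :=
    integral_indicator_const_closedBall (n := n) (show 0 ≤ 2 * R by linarith) a2
  have step3 := (neg_le_abs _).trans (le_of_eq_of_le (Real.norm_eq_abs _).symm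
    (norm_integral_le_of_norm_le (μ := volume) ((iwN.const_mul _).fun_add (iB1.fun_add iB2))
      (Eventually.of_forall point)))
  rw [← hidn, integral_add (iwN.const_mul _) (iB1.fun_add iB2), integral_add iB1 iB2, vB1, vB2,
    integral_const_mul] at step3
  have hlow : ∫ x in A0, wN x ≤ ∫ x, φ x * wN x := by
    rw [← integral_indicator hA0m]
    refine integral_mono ((integrable_indicator_iff hA0m).2 ((cg.mono hA0s).integrableOn_compact
      ((isCompact_closedBall 0 2).diff isOpen_ball))) iwN fun x => ?_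
    refine indicator_apply_le' (fun hx => ?_) fun _ => hφN x
    have hx1 := mem_closedBall_zero_iff.1 hx.1
    have hx2 : 1 ≤ ‖x‖ := not_lt.1 fun h => hx.2 (mem_ball_zero_iff.2 h)
    simp [φ, hη1 x hx2 hx1]
  have e1 : (2 * e') ^ n * V1 * a1 = Cy * M * 2 ^ n * V1 * e' ^ ((n : ℝ) - 4) := by
    rw [ha1, Real.rpow_sub he', mul_pow, Real.rpow_natCast, Real.rpow_neg he'.le]
    field_simp
  have e2 : (2 * R) ^ n * V1 * a2 =
      Cy * δ' ^ (-r) * max 1 ((2 : ℝ) ^ σ) * 2 ^ n * V1 * R ^ s := by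
    rw [ha2, hs, show (n : ℝ) + σ - 4 * (1 + r) = (n : ℝ) + (σ - 4 * (1 + r)) by ring,
      Real.rpow_add hR0, mul_pow, Real.rpow_natCast]
    ring
  rw [← hV1, e1, e2] at step3
  refine le_of_mul_le_mul_left ?_ (show (0 : ℝ) < ε / 4 by positivity)
  refine le_trans (mul_le_mul_of_nonneg_left hlow (by positivity)) ?_
  calc ε / 4 * ∫ x, φ x * wN x ≤ Cy * M * 2 ^ n * V1 * e' ^ ((n : ℝ) - 4) +
        Cy * δ' ^ (-r) * max 1 ((2 : ℝ) ^ σ) * 2 ^ n * V1 * R ^ s := by linarith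
    _ = _ := by field_simp

/-- **Two cut-offs with a weight.** An integral identity `∫ φ W T = -∫ W ∇φ · F` with `T ≥ ε N`,
`|F| ≤ G (N ^ (3/4) + N ^ (1/2) / |x|)` and `W ≤ |x| ^ σ N ^ r` is impossible for
`n + σ < 4 (1 + r)`, `5 ≤ n`. -/
theorem false_of_identityW (hn : 5 ≤ n) {r σ ε G₀ M : ℝ} (hr : 0 ≤ r) (hexp : (n : ℝ) + σ < 4 * (1 + r))
    (hε : 0 < ε) (hG₀ : 0 ≤ G₀) {W N T : EuclideanSpace ℝ (Fin n) → ℝ}
    {F : EuclideanSpace ℝ (Fin n) → Fin n → ℝ}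
    (cW : ContinuousOn W {0}ᶜ) (cN : ContinuousOn N {0}ᶜ)
    (hW : ∀ x, x ≠ 0 → 0 < W x) (hN : ∀ x, x ≠ 0 → 0 < N x)
    (hM : ∀ x, x ≠ 0 → ‖x‖ ≤ 1 → W x ≤ M) (hWN : ∀ x, x ≠ 0 → W x ≤ ‖x‖ ^ σ * N x ^ r)
    (hT : ∀ x, x ≠ 0 → ε * N x ≤ T x)
    (hF : ∀ x, x ≠ 0 → ∀ i, |F x i| ≤ G₀ * (N x ^ (3 / 4 : ℝ) + N x ^ (1 / 2 : ℝ) * ‖x‖⁻¹))
    (hid : ∀ φ : EuclideanSpace ℝ (Fin n) → ℝ, ContDiff ℝ 1 φ → HasCompactSupport φ →
      tsupport φ ⊆ {0}ᶜ → Integrable (fun x => φ x * (W x * T x)) ∧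
        ∫ x, φ x * (W x * T x) = -∫ x, W x * ∑ i, fderiv ℝ φ x (eStd i) * F x i) : False := by
  obtain ⟨C₁, C₂, main⟩ := energy_of_identityW hn hr hε hG₀ cW cN hW hN hM hWN hT hF hid
  have hn5 : (5 : ℝ) ≤ n := by exact_mod_cast hn
  set wN := fun x => W x * N x with hwN
  have cg : ContinuousOn wN {0}ᶜ := cW.mul cN
  set A0 : Set (EuclideanSpace ℝ (Fin n)) := closedBall 0 2 \ ball 0 1 with hA0
  have hA0m : MeasurableSet A0 := measurableSet_closedBall.diff measurableSet_ball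
  have hA0s : A0 ⊆ {0}ᶜ := fun x hx h0 =>
    hx.2 (by rw [mem_singleton_iff.1 h0]; exact mem_ball_self one_pos)
  set s : ℝ := (n : ℝ) + σ - 4 * (1 + r) with hs
  have hI0pos : 0 < ∫ x in A0, wN x := by
    refine (setIntegral_pos_iff_support_of_nonneg_ae ?_ ((cg.mono hA0s).integrableOn_compact
      ((isCompact_closedBall 0 2).diff isOpen_ball))).2 ?_
    · filter_upwards [ae_restrict_mem hA0m] with x hx
      exact (mul_pos (hW x (hA0s hx)) (hN x (hA0s hx))).le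
    · have hsub : ball (0 : EuclideanSpace ℝ (Fin n)) 2 \ closedBall 0 1 ⊆
          Function.support wN ∩ A0 := fun x hx => by
        have hxA : x ∈ A0 :=
          ⟨ball_subset_closedBall hx.1, fun h => hx.2 (ball_subset_closedBall h)⟩
        exact ⟨(mul_pos (hW x (hA0s hxA)) (hN x (hA0s hxA))).ne', hxA⟩
      refine lt_of_lt_of_le ?_ (measure_mono hsub)
      refine (isOpen_ball.sdiff isClosed_closedBall).measure_pos volume ?_
      refine ⟨EuclideanSpace.single (⟨0, by omega⟩ : Fin n) (3 / 2 : ℝ), ?_⟩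
      simp
      norm_num
  have lim1 : Tendsto (fun e' : ℝ => C₁ * e' ^ ((n : ℝ) - 4)) (𝓝[>] 0) (𝓝 0) := by
    have h := ((Real.continuous_rpow_const
      (show (0 : ℝ) ≤ (n : ℝ) - 4 by linarith)).tendsto 0).const_mul C₁
    rw [Real.zero_rpow (by linarith), mul_zero] at h
    exact h.mono_left nhdsWithin_le_nhds
  have main2 : ∀ R : ℝ, 2 ≤ R → ∫ x in A0, wN x ≤ C₂ * R ^ s := by
    intro R hR
    refine ge_of_tendsto (by simpa using lim1.add_const (C₂ * R ^ s)) ?_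
    filter_upwards [Ioo_mem_nhdsGT (show (0 : ℝ) < 1 / 2 by norm_num)] with e' he'
    exact main R e' hR he'.1 he'.2.le
  have lim2 : Tendsto (fun R : ℝ => C₂ * R ^ s) atTop (𝓝 0) := by
    have := (tendsto_rpow_neg_atTop (show 0 < -s by linarith)).const_mul C₂
    simpa using this
  exact hI0pos.not_ge (ge_of_tendsto lim2 (by
    filter_upwards [eventually_ge_atTop (2 : ℝ)] with R hR using main2 R hR))

/-- The radial fields are of order two in the data and one in `1/|x|`. -/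
theorem abs_extFld_le (a b z : Fin n → ℝ) (P Q : ℝ) (H K : Fin n → Fin n → ℝ) {ρ : ℝ} (hρ : 0 ≤ ρ)
    (hz : ∀ i, |z i| ≤ ρ) (l : Fin 4) (i : Fin n) :
    |extFld a b z l i| ≤ 2 * (n + 1) * (nrm a b P Q H K ^ (1 / 2 : ℝ) * ρ) := by
  obtain ⟨hA, hB, -, -, -, -⟩ := sq_dotv_le_nrm a b P Q H K
  set s : ℝ := nrm a b P Q H K ^ (1 / 2 : ℝ) with hs
  have hs0 : 0 ≤ s := Real.rpow_nonneg (nrm_nonneg _ _ _ _ _ _) _
  have hA' : dotv a a ≤ s := (le_abs_self _).trans (by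
    rw [hs, ← Real.sqrt_eq_rpow]; exact Real.abs_le_sqrt hA)
  have hB' : dotv b b ≤ s := (le_abs_self _).trans (by
    rw [hs, ← Real.sqrt_eq_rpow]; exact Real.abs_le_sqrt hB)
  have two : ∀ k m : Fin n, |a k * b m| ≤ s := fun k m => by
    have h1 : a k * a k ≤ dotv a a :=
      Finset.single_le_sum (f := fun t => a t * a t) (fun t _ => mul_self_nonneg _)
        (Finset.mem_univ k)
    have h2 : b m * b m ≤ dotv b b :=
      Finset.single_le_sum (f := fun t => b t * b t) (fun t _ => mul_self_nonneg _)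
        (Finset.mem_univ m)
    rw [abs_le]
    constructor <;> nlinarith [sq_nonneg (a k + b m), sq_nonneg (a k - b m)]
  have hC : |dotv a b| ≤ n * s := by
    refine (Finset.abs_sum_le_sum_abs _ _).trans ((Finset.sum_le_sum fun t _ => two t t).trans ?_)
    simp [Finset.sum_const]
  have hsum : ∀ (x : Fin n → ℝ) (r : ℝ), (∀ k, |x k * r| ≤ s) →
      |dotv z x * r| ≤ n * (s * ρ) := fun x r hx => by
    rw [dotv, Finset.sum_mul]
    refine (Finset.abs_sum_le_sum_abs _ _).trans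
      ((Finset.sum_le_sum (g := fun _ => s * ρ) fun t _ => ?_).trans (by simp [Finset.sum_const]))
    rw [mul_assoc, abs_mul, mul_comm s]
    exact mul_le_mul (hz t) (hx t) (abs_nonneg _) hρ
  have hsρ : 0 ≤ s * ρ := mul_nonneg hs0 hρ
  have scal : ∀ r : ℝ, |r| ≤ (n + 1) * s → |r * z i| ≤ 2 * (n + 1) * (s * ρ) := fun r hr => by
    rw [abs_mul]
    refine (mul_le_mul hr (hz i) (abs_nonneg _) (by positivity)).trans ?_
    nlinarith [mul_nonneg (show (0 : ℝ) ≤ n + 1 by positivity) hsρ]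
  have hns : 0 ≤ (n : ℝ) * s := mul_nonneg (Nat.cast_nonneg n) hs0
  fin_cases l <;> simp only [Fin.reduceFinMk, extFld, Matrix.cons_val]
  · exact scal _ (by rw [abs_of_nonneg (dotv_self_nonneg a)]; linarith)
  · exact scal _ (by rw [abs_of_nonneg (dotv_self_nonneg b)]; linarith)
  · exact scal _ (by linarith)
  · refine (abs_sub _ _).trans ((add_le_add (hsum b (a i) fun k => by rw [mul_comm]; exact two i k)
      (hsum a (b i) fun k => two k i)).trans ?_)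
    nlinarith [mul_nonneg (show (0 : ℝ) ≤ (n : ℝ) + 1 by positivity) hsρ]

/-- Size of all the fields with a common coefficient bound. -/
theorem abs_coneFlux_le {g B : ℝ} (hg : 0 ≤ g) {c : Fin 14 → ℝ} (hc : ∀ j, |c j| ≤ B)
    (a b z : Fin n → ℝ) (P Q : ℝ) (H K : Fin n → Fin n → ℝ) {ρ : ℝ} (hρ : 0 ≤ ρ)
    (hz : ∀ i, |z i| ≤ ρ) (i : Fin n) :
    |coneFlux g c a b z P Q H K i| ≤ (14 + 8 * g) * B * (n + 1) *
      (nrm a b P Q H K ^ (3 / 4 : ℝ) + nrm a b P Q H K ^ (1 / 2 : ℝ) * ρ) := by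
  have hN := nrm_nonneg a b P Q H K
  have hB : 0 ≤ B := (abs_nonneg _).trans (hc 0)
  set N₁ := nrm a b P Q H K ^ (3 / 4 : ℝ)
  set N₂ := nrm a b P Q H K ^ (1 / 2 : ℝ) * ρ
  have hN1 : 0 ≤ N₁ := Real.rpow_nonneg hN _
  have hN2 : 0 ≤ N₂ := mul_nonneg (Real.rpow_nonneg hN _) hρ
  have h4 : ∀ j, |c j * fld a b P Q H K j i| ≤ B * ((n + 1) * N₁) := fun j => by
    rw [abs_mul]
    exact mul_le_mul (hc j) (abs_fld_le _ _ _ _ _ _ j i) (abs_nonneg _) hB
  have he : ∀ l, |extC g c l| ≤ g * B := fun l => by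
    have h0 := abs_le.1 (hc 0); have h1 := abs_le.1 (hc 1)
    have h2 := abs_le.1 (hc 2); have h3 := abs_le.1 (hc 3)
    fin_cases l <;> simp only [Fin.reduceFinMk, extC, Matrix.cons_val, abs_le] <;>
      constructor <;> nlinarith
  have h5 : ∀ l, |extC g c l * extFld a b z l i| ≤ g * B * (2 * (n + 1) * N₂) := fun l => by
    rw [abs_mul]
    exact mul_le_mul (he l) (abs_extFld_le a b z P Q H K hρ hz l i) (abs_nonneg _) (by positivity)
  refine (abs_add_le _ _).trans ((add_le_add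
    ((Finset.abs_sum_le_sum_abs _ _).trans (Finset.sum_le_sum fun j _ => h4 j))
    ((Finset.abs_sum_le_sum_abs _ _).trans (Finset.sum_le_sum fun l _ => h5 l))).trans ?_)
  simp only [Finset.sum_const, Finset.card_univ, Fintype.card_fin, nsmul_eq_mul]
  push_cast
  nlinarith [mul_nonneg (mul_nonneg hB (show (0 : ℝ) ≤ n + 1 by positivity)) hN2,
    mul_nonneg (mul_nonneg (mul_nonneg hg hB) (show (0 : ℝ) ≤ n + 1 by positivity)) hN1]

/-- **The criterion with a factor, weighted.** -/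
theorem no_solution_of_boundC (hn : 5 ≤ n) {g ν p q r₁ r₂ ε B : ℝ} (hg : 0 ≤ g) (hg2 : g < 2)
    (hν : ν = 2 * ((n : ℝ) - g) / (2 - g)) (c : Fin 14 → ℝ → ℝ) (h : ℝ → ℝ)
    {S₀ : Set ℝ} (hS : IsOpen S₀) (hI : Ioc 0 ((p + 1) / (q + 1)) ⊆ S₀) (hq : 0 < q)
    (hqp : q ≤ p) (hpq : 1 < p * q) (h1 : 0 ≤ r₁) (h2 : 0 ≤ r₂)
    (hexp : ν < 4 * (1 + r₁ + r₂)) (hε : 0 < ε) (hc : ∀ j, ContDiffOn ℝ 1 (c j) S₀)
    (hh : ContinuousOn h (Ioc 0 ((p + 1) / (q + 1))))
    (hh0 : ∀ z ∈ Ioc (0 : ℝ) ((p + 1) / (q + 1)), 0 < h z ∧ h z ≤ 1)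
    (hB : ∀ j, ∀ z ∈ Ioc (0 : ℝ) ((p + 1) / (q + 1)), |c j z| ≤ B * h z)
    (hb : ∀ (a b zv : Fin n → ℝ) (P Q : ℝ) (H K : Fin n → Fin n → ℝ),
      (∀ i j, H i j = H j i) → (∀ i j, K i j = K j i) →
      ∑ i, H i i = -(dotv a a + P) → ∑ i, K i i = -(dotv b b + Q) →
      0 < P → 0 < Q → P ≤ (p + 1) / (q + 1) * Q →
      ε * h (P / Q) * nrm a b P Q H K ≤ coneRow g p q (fun j => c j (P / Q))
        (fun j => c j (P / Q) * (-2 * r₁ + 2 * q * r₂) - (q + 1) * (deriv (c j) (P / Q) * (P / Q)))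
        (fun j => c j (P / Q) * (2 * p * r₁ - 2 * r₂) + (p + 1) * (deriv (c j) (P / Q) * (P / Q)))
        a b zv P Q H K) :
    ¬ ∃ u v : EuclideanSpace ℝ (Fin n) → ℝ,
      Continuous u ∧ Continuous v ∧ ContDiffOn ℝ 2 u {0}ᶜ ∧ ContDiffOn ℝ 2 v {0}ᶜ ∧
      (∀ x, 0 < u x) ∧ (∀ x, 0 < v x) ∧ (∀ x, x ≠ 0 → Δ u x = -(‖x‖ ^ (-g) * v x ^ p)) ∧
      (∀ x, x ≠ 0 → Δ v x = -(‖x‖ ^ (-g) * u x ^ q)) := by
  rintro ⟨u, v, hcu, hcv, hu, hv, hu0, hv0, equ, eqv⟩
  have hp1 : 1 < p := by nlinarith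
  set lam : ℝ := -2 * r₁ + 2 * q * r₂
  set mu : ℝ := 2 * p * r₁ - 2 * r₂
  set κ : ℝ := (p + 1) / (q + 1) with hκdef
  set Ω : Set (EuclideanSpace ℝ (Fin n)) := {0}ᶜ with hΩdef
  have hΩ : IsOpen Ω := isOpen_compl_singleton
  have hcmp := comparison_puncturedW (by omega) hq hqp hp1 (w := -g) (by linarith) (by linarith)
    hcu hcv hu hv hu0 hv0 (fun x hx => equ x hx) (fun x hx => eqv x hx)
  set zs := fun x => v x ^ (p + 1) / u x ^ (q + 1) with hzs
  have hzm : ∀ x, zs x ∈ Ioc (0 : ℝ) κ := fun x => by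
    have := hu0 x
    have := hv0 x
    refine ⟨by simp only [zs]; positivity, ?_⟩
    simp only [zs]
    rw [div_le_iff₀ (by positivity), hκdef]
    have h3 := hcmp x
    rw [div_le_iff₀ (by linarith)] at h3
    exact h3.trans_eq (by field_simp)
  have czs : Continuous zs :=
    (hcv.rpow_const fun x => Or.inl (hv0 x).ne').div (hcu.rpow_const fun x => Or.inl (hu0 x).ne')
      fun x => (Real.rpow_pos_of_pos (hu0 x) _).ne'
  have hdiv : ∀ x, x ≠ 0 →
      ‖x‖ ^ (-g) * v x ^ p / u x / (‖x‖ ^ (-g) * u x ^ q / v x) = zs x := fun x hx => by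
    have := hu0 x
    have := hv0 x
    have : 0 < ‖x‖ := norm_pos_iff.2 hx
    simp only [zs, Real.rpow_add (hu0 x), Real.rpow_add (hv0 x), Real.rpow_one]
    field_simp
  set w := fun x => u x ^ lam * v x ^ mu with hw
  have cw : Continuous w := (hcu.rpow_const fun x => Or.inl (hu0 x).ne').mul
    (hcv.rpow_const fun x => Or.inl (hv0 x).ne')
  set W := fun x => wgtG g lam mu u v x * h (zs x) with hWdef
  set N := fun x => nrmData (solDataW p q (-g) (-g) u v x) with hNdef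
  have hW0 : ∀ x, x ≠ 0 → 0 < wgtG g lam mu u v x := fun x hx => by
    have := hu0 x; have := hv0 x
    have : 0 < ‖x‖ := norm_pos_iff.2 hx
    simp only [wgtG]; positivity
  obtain ⟨M, hM⟩ := (isCompact_closedBall (0 : EuclideanSpace ℝ (Fin n)) 1).exists_bound_of_continuousOn
    cw.continuousOn
  have hWw : ∀ x, x ≠ 0 → W x ≤ wgtG g lam mu u v x := fun x hx =>
    mul_le_of_le_one_right (hW0 x hx).le (hh0 _ (hzm x)).2
  have hNP : ∀ x, (‖x‖ ^ (-g) * v x ^ p / u x) ^ 2 ≤ N x ∧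
      (‖x‖ ^ (-g) * u x ^ q / v x) ^ 2 ≤ N x := fun x =>
    ⟨(sq_dotv_le_nrm _ _ _ _ _ _).2.2.1, (sq_dotv_le_nrm _ _ _ _ _ _).2.2.2.1⟩
  have hN0 : ∀ x, x ≠ 0 → 0 < N x := fun x hx => by
    have := hu0 x; have := hv0 x
    have : 0 < ‖x‖ := norm_pos_iff.2 hx
    exact lt_of_lt_of_le (by positivity) (hNP x).1
  refine false_of_identityW (n := n) hn (r := r₁ + r₂) (σ := g + 2 * g * (r₁ + r₂)) (ε := ε)
    (G₀ := (14 + 8 * g) * |B| * (n + 1)) (M := M) (W := W) (N := N)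
    (T := fun x => solRowC g p q lam mu c u v x / h (zs x))
    (F := fun x i => solFluxC g p q c u v x i / h (zs x))
    (add_nonneg h1 h2) ?_ hε (by positivity)
    (((continuous_norm.continuousOn.rpow_const fun x hx => Or.inl (norm_ne_zero_iff.2 hx)).mul
      cw.continuousOn).mul (hh.comp czs.continuousOn fun x _ => hzm x))
    (continuous_nrmData.comp_continuousOn (continuousOn_solDataW hu hv hu0 hv0))
    (fun x hx => mul_pos (hW0 x hx) (hh0 _ (hzm x)).1) hN0 (fun x hx hx1 => ?_) (fun x hx => ?_)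
    (fun x hx => ?_) (fun x hx i => ?_) fun φ hφ hφc hφs => ?_
  · have hg0 : 0 < 2 - g := by linarith
    have h5 := mul_lt_mul_of_pos_right hexp hg0
    rw [hν, div_mul_cancel₀ _ hg0.ne'] at h5
    linarith
  · refine ((hWw x hx).trans ?_).trans ((le_abs_self _).trans (hM x (mem_closedBall_zero_iff.2 hx1)))
    simp only [wgtG, w]
    refine mul_le_of_le_one_left ?_ (Real.rpow_le_one (norm_nonneg x) hx1 hg)
    have := hu0 x; have := hv0 x
    positivity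
  · have hx0 : 0 < ‖x‖ := norm_pos_iff.2 hx
    refine (hWw x hx).trans ?_
    simp only [wgtG]
    refine (mul_le_mul_of_nonneg_left (weightW_le (p := p) (q := q) h1 h2 (hu0 x) (hv0 x)
      (Real.rpow_pos_of_pos hx0 (-g)) (Real.rpow_pos_of_pos hx0 (-g)) (hNP x).1 (hNP x).2)
      (Real.rpow_nonneg hx0.le g)).trans_eq ?_
    rw [← Real.rpow_mul hx0.le, ← Real.rpow_mul hx0.le, ← mul_assoc, ← mul_assoc,
      ← Real.rpow_add hx0, ← Real.rpow_add hx0]
    ring_nf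
  · have hn' := hΩ.mem_nhds hx
    have sy : ∀ {f : EuclideanSpace ℝ (Fin n) → ℝ}, ContDiffOn ℝ 2 f Ω → (∀ y, 0 < f y) →
        ∀ i j, logHess f x i j = logHess f x j i := fun hf hf0 i j =>
      ((hf.log fun y _ => (hf0 y).ne').contDiffAt hn').isSymmSndFDerivAt (by simp) _ _
    have tr : ∀ {f : EuclideanSpace ℝ (Fin n) → ℝ} (s : ℝ), ContDiffOn ℝ 2 f Ω →
        (∀ y, 0 < f y) → Δ f x = -s →
        ∑ i, logHess f x i i = -(dotv (logGrad f x) (logGrad f x) + s / f x) := by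
      intro f s hf hf0 he
      refine (sum_log_second hΩ hf (fun y _ => hf0 y) hx).trans ?_
      rw [he, dotv]
      ring
    have := hu0 x
    have := hv0 x
    have : 0 < ‖x‖ := norm_pos_iff.2 hx
    have hle : ‖x‖ ^ (-g) * v x ^ p / u x ≤ κ * (‖x‖ ^ (-g) * u x ^ q / v x) := by
      rw [← div_le_iff₀ (by positivity), hdiv x hx]
      exact (hzm x).2
    have key := hb (logGrad u x) (logGrad v x) (zVec x) (‖x‖ ^ (-g) * v x ^ p / u x)
      (‖x‖ ^ (-g) * u x ^ q / v x) (logHess u x) (logHess v x) (sy hu hu0) (sy hv hv0)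
      (tr _ hu hu0 (equ x hx)) (tr _ hv hv0 (eqv x hx)) (by positivity) (by positivity) hle
    rw [hdiv x hx] at key
    rw [le_div_iff₀ (hh0 _ (hzm x)).1]
    refine le_trans (le_of_eq ?_) key
    simp only [N, solDataW, nrmData]
    ring
  · have hz := hzm x
    rw [abs_div, abs_of_pos (hh0 _ hz).1, div_le_iff₀ (hh0 _ hz).1]
    refine le_trans (abs_coneFlux_le hg (fun j => (hB j _ hz).trans (mul_le_mul_of_nonneg_right
      (le_abs_self B) (hh0 _ hz).1.le)) _ _ _ _ _ _ _ (inv_nonneg.2 (norm_nonneg x))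
      (abs_zVec_le x) i) (le_of_eq ?_)
    simp only [N, solDataW, nrmData, zs]
    ring
  · obtain ⟨hint, hid⟩ := cone_identity (g := g) (p := p) (q := q) (lam := lam) (mu := mu) hS hc
      hu hv hu0 hv0 equ eqv (fun x _ => hI (hzm x)) hφ hφc hφs
    have eI : ∀ x, φ x * (W x * (solRowC g p q lam mu c u v x / h (zs x))) =
        φ x * (wgtG g lam mu u v x * solRowC g p q lam mu c u v x) := fun x => by
      simp only [W]
      rw [mul_assoc (wgtG g lam mu u v x), mul_div_cancel₀ _ (hh0 _ (hzm x)).1.ne']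
    have eF : ∀ x, W x * ∑ i, fderiv ℝ φ x (eStd i) * (solFluxC g p q c u v x i / h (zs x)) =
        wgtG g lam mu u v x * ∑ i, fderiv ℝ φ x (eStd i) * solFluxC g p q c u v x i := fun x => by
      simp only [W, Finset.mul_sum]
      refine Finset.sum_congr rfl fun i _ => ?_
      have := (hh0 _ (hzm x)).1.ne'
      generalize h (zs x) = t at this ⊢
      field_simp
    simp only [eI, eF]
    exact ⟨hint, hid⟩

end Vale.Agent.P100.Calib
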