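import Mathlib
import Vale.Agent.P100.Criterion
import Vale.Agent.P100.Calib.Elim

/-!
# A nonnegative calibration in dimension `N > n` gives a strict certificate in dimension `n`

The coefficient values and their logarithmic derivatives are continuous on the compact interval
`[0, κ]`; the scalar form `elimN N + (1/n - 1/N) elimGap` is positive on the compact set of
normalised states, so it stays positive after perturbing the Hessian coefficients by a small `ε`.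
-/

open Set Finset

namespace Vale.Agent.P100.Calib

variable {n : ℕ}

/-- The perturbed scalar form at the state `(A, C, B, z Q, Q)`. -/
noncomputable def strictForm (n : ℕ) (N p q ε z : ℝ) (c la mb : Fin 14 → ℝ) (A C B Q : ℝ) : ℝ :=
  freePart p q c la mb A C B (z * Q) Q +
    hessPair N (c 0 - ε) ((c 1 + c 2) / 2) (c 3 - ε) (linU c la mb 0) (linU c la mb 1)
      (linU c la mb 2) (linV c la mb 0) (linV c la mb 1) (linV c la mb 2) A C B (-(A + z * Q))
      (-(B + Q)) +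
    (1 / n - 1 / N) * hessGap (c 0 - ε) ((c 1 + c 2) / 2) (c 3 - ε) (linU c la mb 0)
      (linU c la mb 1) (linU c la mb 2) (linV c la mb 0) (linV c la mb 1) (linV c la mb 2) A C B
      (-(A + z * Q)) (-(B + Q)) -
    ε * (A ^ 2 + B ^ 2 + (z * Q) ^ 2 + Q ^ 2)

theorem strictForm_zero (n : ℕ) (N p q z : ℝ) (c la mb : Fin 14 → ℝ) (A C B Q : ℝ) :
    strictForm n N p q 0 z c la mb A C B Q = elimN N p q c la mb A C B (z * Q) Q +
      (1 / n - 1 / N) * elimGap c la mb A C B (z * Q) Q := by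
  simp [strictForm, elimN, elimGap]

theorem strictForm_smul (n : ℕ) (N p q ε z : ℝ) (c la mb : Fin 14 → ℝ) (S A C B Q : ℝ) :
    strictForm n N p q ε z c la mb (S * A) (S * C) (S * B) (S * Q) =
      S ^ 2 * strictForm n N p q ε z c la mb A C B Q := by
  unfold strictForm freePart hessPair hessGap gram
  ring

/-- The normalised states `(A, C, B, Q)`. -/
def stateSimplex : Set (ℝ × ℝ × ℝ × ℝ) :=
  {x | 0 ≤ x.1 ∧ 0 ≤ x.2.2.1 ∧ x.2.1 ^ 2 ≤ x.1 * x.2.2.1 ∧ 0 ≤ x.2.2.2 ∧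
    x.1 + x.2.2.1 + x.2.2.2 = 1}

theorem isCompact_stateSimplex : IsCompact stateSimplex := by
  refine Metric.isCompact_of_isClosed_isBounded ?_ ?_
  · simp only [stateSimplex, Set.ofPred_and]
    exact (isClosed_le continuous_const (by fun_prop)).inter
      ((isClosed_le continuous_const (by fun_prop)).inter
      ((isClosed_le (by fun_prop) (by fun_prop)).inter
      ((isClosed_le continuous_const (by fun_prop)).inter
        (isClosed_eq (by fun_prop) continuous_const))))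
  · refine (Metric.isBounded_closedBall (x := (0 : ℝ × ℝ × ℝ × ℝ)) (r := 1)).subset ?_
    rintro ⟨A, C, B, Q⟩ ⟨hA, hB, hC, hQ, h1⟩
    simp only at hA hB hC hQ h1
    have hC1 : |C| ≤ 1 := by
      rw [← sq_le_sq₀ (abs_nonneg C) zero_le_one, sq_abs, one_pow]
      refine hC.trans (mul_le_one₀ ?_ hB ?_) <;> linarith
    simp only [Metric.mem_closedBall, dist_zero_right, Prod.norm_def, Real.norm_eq_abs, max_le_iff]
    refine ⟨?_, hC1, ?_, ?_⟩ <;> (rw [abs_of_nonneg (by assumption)]; linarith)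

/-- **Strictness from a calibration in dimension `N > n`.** -/
theorem exists_eps_of_calib (hn : 0 < n) {N p q κ : ℝ} (hN : (n : ℝ) < N)
    {C LA MB : ℝ → Fin 14 → ℝ} (hC : ∀ j, ContinuousOn (fun z => C z j) (Icc 0 κ))
    (hLA : ∀ j, ContinuousOn (fun z => LA z j) (Icc 0 κ))
    (hMB : ∀ j, ContinuousOn (fun z => MB z j) (Icc 0 κ))
    (h0 : ∀ z ∈ Icc 0 κ, 0 < C z 0)
    (hd : ∀ z ∈ Icc 0 κ, 0 < C z 0 * C z 3 - ((C z 1 + C z 2) / 2) ^ 2)
    (hpos : ∀ z ∈ Icc 0 κ, ∀ A B D Q : ℝ, 0 ≤ A → 0 ≤ B → D ^ 2 ≤ A * B → 0 ≤ Q →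
      0 < A + B + Q →
      0 ≤ elimN N p q (C z) (LA z) (MB z) A D B (z * Q) Q ∧
        (elimN N p q (C z) (LA z) (MB z) A D B (z * Q) Q = 0 →
          0 < elimGap (C z) (LA z) (MB z) A D B (z * Q) Q)) :
    ∃ ε : ℝ, 0 < ε ∧ ∀ (a b : Fin n → ℝ) (P Q : ℝ) (H K : Fin n → Fin n → ℝ),
      (∀ i j, H i j = H j i) → (∀ i j, K i j = K j i) →
      ∑ i, H i i = -(dotv a a + P) → ∑ i, K i i = -(dotv b b + Q) →
      0 < P → 0 < Q → P ≤ κ * Q →
      ε * nrm a b P Q H K ≤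
        rowGen p q (C (P / Q)) (LA (P / Q)) (MB (P / Q)) a b P Q H K := by
  have hn' : (0 : ℝ) < n := by exact_mod_cast hn
  have hgap : (0 : ℝ) < 1 / n - 1 / N := sub_pos.2 (one_div_lt_one_div_of_lt hn' hN)
  obtain ⟨a₀, ha₀, hA0⟩ := exists_pos_le_of_isCompact isCompact_Icc (hC 0) h0
  obtain ⟨d₀, hd₀, hD0⟩ := exists_pos_le_of_isCompact isCompact_Icc
    (((hC 0).mul (hC 3)).sub ((((hC 1).add (hC 2)).div_const 2).pow 2)) hd
  obtain ⟨R, hR⟩ := isCompact_Icc.exists_bound_of_continuousOn ((hC 0).add (hC 3))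
  simp only [Pi.add_apply, Pi.mul_apply, Pi.sub_apply, Pi.pow_apply] at hR hD0
  set δ := min (a₀ / 2) (d₀ / (2 * (|R| + 1))) with hδdef
  have hδ : 0 < δ := lt_min (by linarith) (by positivity)
  have hpd : ∀ ε ∈ Icc 0 δ, ∀ z ∈ Icc 0 κ, 0 < C z 0 - ε ∧
      0 < (C z 0 - ε) * (C z 3 - ε) - ((C z 1 + C z 2) / 2) ^ 2 := by
    intro ε hε z hz
    have e1 : ε ≤ a₀ / 2 := hε.2.trans (min_le_left _ _)
    have e2 : ε * (|R| + 1) ≤ d₀ / 2 := by
      have := mul_le_mul_of_nonneg_right (hε.2.trans (min_le_right _ _))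
        (show 0 ≤ |R| + 1 by positivity)
      refine this.trans_eq ?_
      field_simp
    have e3 : C z 0 + C z 3 ≤ |R| + 1 := by
      have := hR z hz
      rw [Real.norm_eq_abs] at this
      linarith [le_abs_self (C z 0 + C z 3), le_abs_self R]
    refine ⟨by linarith [hA0 z hz], ?_⟩
    linarith [hD0 z hz, sq_nonneg ε, mul_le_mul_of_nonneg_left e3 hε.1,
      show (C z 0 - ε) * (C z 3 - ε) = C z 0 * C z 3 - ε * (C z 0 + C z 3) + ε ^ 2 by ring]
  set T : Set (ℝ × ℝ × (ℝ × ℝ × ℝ × ℝ)) := Icc 0 δ ×ˢ (Icc 0 κ ×ˢ stateSimplex) with hT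
  have hTc : IsCompact T := isCompact_Icc.prod (isCompact_Icc.prod isCompact_stateSimplex)
  set F : ℝ × ℝ × (ℝ × ℝ × ℝ × ℝ) → ℝ := fun w => strictForm n N p q w.1 w.2.1
    (C w.2.1) (LA w.2.1) (MB w.2.1) w.2.2.1 w.2.2.2.1 w.2.2.2.2.1 w.2.2.2.2.2 with hF
  have hz : MapsTo (fun w : ℝ × ℝ × (ℝ × ℝ × ℝ × ℝ) => w.2.1) T (Icc 0 κ) := fun w hw => hw.2.1
  have kc : ∀ j, ContinuousOn (fun w : ℝ × ℝ × (ℝ × ℝ × ℝ × ℝ) => C w.2.1 j) T := fun j =>
    (hC j).comp (by fun_prop) hz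
  have kl : ∀ j, ContinuousOn (fun w : ℝ × ℝ × (ℝ × ℝ × ℝ × ℝ) => LA w.2.1 j) T := fun j =>
    (hLA j).comp (by fun_prop) hz
  have km : ∀ j, ContinuousOn (fun w : ℝ × ℝ × (ℝ × ℝ × ℝ × ℝ) => MB w.2.1 j) T := fun j =>
    (hMB j).comp (by fun_prop) hz
  have hFc : ContinuousOn F T := by
    simp only [hF, strictForm, freePart, hessPair, hessGap, gram, linU, linV, Matrix.cons_val_zero,
      Matrix.cons_val_one, Matrix.cons_val_two, Matrix.tail_cons, Matrix.head_cons]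
    have hN0 : N ≠ 0 := by linarith
    fun_prop (disch := first | positivity | assumption |
      (intro (w : ℝ × ℝ × ℝ × ℝ × ℝ × ℝ) hw
       obtain ⟨h1, h2⟩ := hpd w.1 hw.1 w.2.1 hw.2.1
       positivity))
  obtain ⟨m₀, hm₀, hmin⟩ := exists_pos_le_of_isCompact
    (s := Icc 0 κ ×ˢ stateSimplex) (isCompact_Icc.prod isCompact_stateSimplex)
    (f := fun y => F (0, y)) (hFc.comp (by fun_prop) fun y hy => ⟨⟨le_rfl, hδ.le⟩, hy⟩)
    (fun y hy => by
      obtain ⟨z, A, D, B, Q⟩ := y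
      obtain ⟨hz, hA, hB, hDAB, hQ, h1⟩ := hy
      simp only [hF, strictForm_zero]
      obtain ⟨hnn, heq⟩ := hpos z hz A B D Q hA hB hDAB hQ (by simp only at h1; linarith)
      rcases hnn.eq_or_lt with h | h
      · exact add_pos_of_nonneg_of_pos hnn (mul_pos hgap (heq h.symm))
      · exact add_pos_of_pos_of_nonneg h (mul_nonneg hgap.le
          (elimGap_nonneg (h0 z hz) (hd z hz) _ _ _ _ _)))
  obtain ⟨η, hη, hunif⟩ := Metric.uniformContinuousOn_iff.1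
    (hTc.uniformContinuousOn_of_continuous hFc) m₀ hm₀
  set ε := min δ (η / 2) with hεdef
  have hε : 0 < ε := lt_min hδ (by linarith)
  have hεI : ε ∈ Icc 0 δ := ⟨hε.le, min_le_left _ _⟩
  refine ⟨ε, hε, fun a b P Q H K hH hK hS hT' hP hQ hPQ => ?_⟩
  set z := P / Q with hzdef
  have hzI : z ∈ Icc 0 κ := ⟨(div_pos hP hQ).le, (div_le_iff₀ hQ).2 hPQ⟩
  have hzQ : z * Q = P := div_mul_cancel₀ P hQ.ne'
  obtain ⟨hc0, hcd⟩ := hpd ε hεI z hzI
  have hAB : dotv a b ^ 2 ≤ dotv a a * dotv b b := by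
    simpa [dotv, sq] using Finset.sum_mul_sq_le_sq_mul_sq univ a b
  have hA : 0 ≤ dotv a a := sum_nonneg fun i _ => mul_self_nonneg _
  have hB : 0 ≤ dotv b b := sum_nonneg fun i _ => mul_self_nonneg _
  set S := dotv a a + dotv b b + Q with hSdef
  have hS0 : 0 < S := by linarith
  have hy : ((z, dotv a a / S, dotv a b / S, dotv b b / S, Q / S) :
      ℝ × ℝ × ℝ × ℝ × ℝ) ∈ Icc 0 κ ×ˢ stateSimplex := by
    refine ⟨hzI, by positivity, by positivity, ?_, by positivity, ?_⟩ <;> simp only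
    · rw [div_pow, div_mul_div_comm, ← sq S]; gcongr
    · rw [← add_div, ← add_div, ← hSdef, div_self hS0.ne']
  set y : ℝ × ℝ × ℝ × ℝ × ℝ := (z, dotv a a / S, dotv a b / S, dotv b b / S, Q / S) with hydef
  have hdist : dist (ε, y) ((0 : ℝ), y) < η := by
    rw [Prod.dist_eq, dist_self, max_eq_left dist_nonneg, Real.dist_eq, sub_zero, abs_of_pos hε]
    linarith [min_le_right δ (η / 2)]
  have hnn : 0 ≤ F (ε, y) := by
    have h1 := hunif (ε, y) ⟨hεI, hy⟩ (0, y) ⟨⟨le_rfl, hδ.le⟩, hy⟩ hdist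
    rw [Real.dist_eq, abs_lt] at h1
    linarith [hmin y hy]
  have e := strictForm_smul n N p q ε z (C z) (LA z) (MB z) S (dotv a a / S) (dotv a b / S)
    (dotv b b / S) (Q / S)
  simp only [mul_div_cancel₀ _ hS0.ne'] at e
  have hform : 0 ≤ strictForm n N p q ε z (C z) (LA z) (MB z) (dotv a a) (dotv a b) (dotv b b) Q := by
    rw [e]; exact mul_nonneg (sq_nonneg S) hnn
  have hp := hessPair_le hn hN.le hc0 hcd (linU (C z) (LA z) (MB z) 0)
    (linU (C z) (LA z) (MB z) 1) (linU (C z) (LA z) (MB z) 2) (linV (C z) (LA z) (MB z) 0)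
    (linV (C z) (LA z) (MB z) 1) (linV (C z) (LA z) (MB z) 2) a b H K hH hK hS hT'
  rw [rowGen_eq p q (C z) (LA z) (MB z) a b P Q H K hH hK]
  simp only [strictForm, hzQ] at hform
  simp only [nrm]
  linarith

/-- **No solution from a calibration in dimension `N > n`.** `Cv` are the coefficient values and
`Dv` the values of `z c'(z)`, continuous up to `z = 0`. -/
theorem no_solution_of_calib (hn : 3 ≤ n) {N p q L : ℝ} (hN : (n : ℝ) < N) (c : Fin 14 → ℝ → ℝ)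
    {S₀ : Set ℝ} (hS : IsOpen S₀) (hI : Ioc 0 ((p + 1) / (q + 1)) ⊆ S₀) (hq : 0 < q)
    (hqp : q ≤ p) (hpq : 1 < p * q)
    (hsub : ((n : ℝ) - 2) < (n : ℝ) / (p + 1) + (n : ℝ) / (q + 1))
    (hL0 : 0 < L) (hL2 : L < 2) (hLn : (n : ℝ) - 5 ≤ L * ((n : ℝ) - 3))
    (hc : ∀ j, ContDiffOn ℝ 1 (c j) S₀) {Cv Dv : ℝ → Fin 14 → ℝ}
    (hCv : ∀ j, ContinuousOn (fun z => Cv z j) (Icc 0 ((p + 1) / (q + 1))))
    (hDv : ∀ j, ContinuousOn (fun z => Dv z j) (Icc 0 ((p + 1) / (q + 1))))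
    (hval : ∀ j, ∀ z ∈ Ioc 0 ((p + 1) / (q + 1)), c j z = Cv z j ∧ deriv (c j) z * z = Dv z j)
    (h0 : ∀ z ∈ Icc 0 ((p + 1) / (q + 1)), 0 < Cv z 0)
    (hd : ∀ z ∈ Icc 0 ((p + 1) / (q + 1)), 0 < Cv z 0 * Cv z 3 - ((Cv z 1 + Cv z 2) / 2) ^ 2)
    (hpos : ∀ z ∈ Icc 0 ((p + 1) / (q + 1)), ∀ A B D Q : ℝ, 0 ≤ A → 0 ≤ B → D ^ 2 ≤ A * B →
      0 ≤ Q → 0 < A + B + Q →
      let la := fun j => Cv z j * L - (q + 1) * Dv z j
      let mb := fun j => Cv z j * L + (p + 1) * Dv z j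
      0 ≤ elimN N p q (Cv z) la mb A D B (z * Q) Q ∧
        (elimN N p q (Cv z) la mb A D B (z * Q) Q = 0 →
          0 < elimGap (Cv z) la mb A D B (z * Q) Q)) :
    ¬ ∃ u v : EuclideanSpace ℝ (Fin n) → ℝ, IsSol p q u v := by
  obtain ⟨ε, hε, hb⟩ := exists_eps_of_calib (n := n) (by omega) hN
    (C := Cv) (LA := fun z j => Cv z j * L - (q + 1) * Dv z j)
    (MB := fun z j => Cv z j * L + (p + 1) * Dv z j) hCv
    (fun j => ((hCv j).mul continuousOn_const).sub (continuousOn_const.mul (hDv j)))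
    (fun j => ((hCv j).mul continuousOn_const).add (continuousOn_const.mul (hDv j))) h0 hd hpos
  choose R hR using fun j => isCompact_Icc.exists_bound_of_continuousOn (hCv j)
  refine no_solution_of_boundOn hn (B := ∑ j, |R j|) c hS hI hq hqp hpq hsub hL0 hL2 hLn hε hc
    (fun j z hz => ?_) (fun a b P Q H K hH hK tH tK hP hQ hPQ => ?_)
  · rw [(hval j z hz).1]
    exact ((hR j z ⟨hz.1.le, hz.2⟩).trans (le_abs_self _)).trans
      (single_le_sum (f := fun j => |R j|) (fun i _ => abs_nonneg _) (mem_univ j))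
  · have hz : P / Q ∈ Ioc 0 ((p + 1) / (q + 1)) :=
      ⟨div_pos hP hQ, (div_le_iff₀ hQ).2 hPQ⟩
    refine (hb a b P Q H K hH hK tH tK hP hQ hPQ).trans (le_of_eq ?_)
    rw [rowZ_eq_rowGen]
    simp only [fun j => (hval j _ hz).1, fun j => (hval j _ hz).2]

end Vale.Agent.P100.Calib
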