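import Mathlib
import Vale.Agent.P100.Calib.ConeElim
import Vale.Agent.P100.Calib.Strict

/-!
# A calibration in dimension `N > ν` gives a strict weighted certificate

`ν = 2 (n - g) / (2 - g)` is the dimension of the conformal metric. The form in dimension `ν`
exceeds the one in dimension `N` by `(1/ν - 1/N) elimGap`, so it is positive on the compact set of
normalised states and stays positive after perturbing the Hessian coefficients by a small `ε`.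
-/

open Set Finset

namespace Vale.Agent.P100.Calib

variable {n : ℕ}

/-- The perturbed form in the dimension `M`. -/
noncomputable def strictAt (M p q ε z : ℝ) (c la mb : Fin 14 → ℝ) (A C B Q : ℝ) : ℝ :=
  freePart p q c la mb A C B (z * Q) Q +
    hessPair M (c 0 - ε) ((c 1 + c 2) / 2) (c 3 - ε) (linU c la mb 0) (linU c la mb 1)
      (linU c la mb 2) (linV c la mb 0) (linV c la mb 1) (linV c la mb 2) A C B (-(A + z * Q))
      (-(B + Q)) -
    ε * (A ^ 2 + B ^ 2 + (z * Q) ^ 2 + Q ^ 2)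

theorem strictAt_zero (M p q z : ℝ) (c la mb : Fin 14 → ℝ) (A C B Q : ℝ) :
    strictAt M p q 0 z c la mb A C B Q = elimN M p q c la mb A C B (z * Q) Q := by
  simp [strictAt, elimN]

theorem strictAt_smul (M p q ε z : ℝ) (c la mb : Fin 14 → ℝ) (S A C B Q : ℝ) :
    strictAt M p q ε z c la mb (S * A) (S * C) (S * B) (S * Q) =
      S ^ 2 * strictAt M p q ε z c la mb A C B Q := by
  unfold strictAt freePart hessPair gram
  ring

/-- A positive form stays nonnegative after a small perturbation. -/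
theorem exists_eps_strictAt {M p q κ : ℝ} (hM : M ≠ 0) {C LA MB : ℝ → Fin 14 → ℝ}
    (hC : ∀ j, ContinuousOn (fun z => C z j) (Icc 0 κ))
    (hLA : ∀ j, ContinuousOn (fun z => LA z j) (Icc 0 κ))
    (hMB : ∀ j, ContinuousOn (fun z => MB z j) (Icc 0 κ))
    (h0 : ∀ z ∈ Icc 0 κ, 0 < C z 0)
    (hd : ∀ z ∈ Icc 0 κ, 0 < C z 0 * C z 3 - ((C z 1 + C z 2) / 2) ^ 2)
    (hpos : ∀ z ∈ Icc 0 κ, ∀ A B D Q : ℝ, 0 ≤ A → 0 ≤ B → D ^ 2 ≤ A * B → 0 ≤ Q →
      0 < A + B + Q → 0 < elimN M p q (C z) (LA z) (MB z) A D B (z * Q) Q) :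
    ∃ ε : ℝ, 0 < ε ∧ ∀ z ∈ Icc 0 κ, 0 < C z 0 - ε ∧
      0 < (C z 0 - ε) * (C z 3 - ε) - ((C z 1 + C z 2) / 2) ^ 2 ∧
      ∀ A B D Q : ℝ, 0 ≤ A → 0 ≤ B → D ^ 2 ≤ A * B → 0 ≤ Q → 0 < A + B + Q →
        0 ≤ strictAt M p q ε z (C z) (LA z) (MB z) A D B Q := by
  obtain ⟨a₀, ha₀, hA0⟩ := exists_pos_le_of_isCompact isCompact_Icc (hC 0) h0
  obtain ⟨d₀, hd₀, hD0⟩ := exists_pos_le_of_isCompact isCompact_Icc
    (((hC 0).mul (hC 3)).sub ((((hC 1).add (hC 2)).div_const 2).pow 2)) hd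
  obtain ⟨R, hR⟩ := isCompact_Icc.exists_bound_of_continuousOn ((hC 0).add (hC 3))
  simp only [Pi.add_apply, Pi.mul_apply, Pi.sub_apply, Pi.pow_apply] at hR hD0
  set δ := min (a₀ / 2) (d₀ / (2 * (|R| + 1))) with hδdef
  have hδ : 0 < δ := lt_min (by linarith) (by positivity)
  have hpd : ∀ ε ∈ Icc 0 δ, ∀ z ∈ Icc 0 κ, 0 < C z 0 - ε ∧
      0 < (C z 0 - ε) * (C z 3 - ε) - ((C z 1 + C z 2) / 2) ^ 2 := by
    intro ε hε z hz
    have e1 : ε ≤ a₀ / 2 := hε.2.trans (min_le_left _ _)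
    have e2 : ε * (|R| + 1) ≤ d₀ / 2 := by
      have := mul_le_mul_of_nonneg_right (hε.2.trans (min_le_right _ _))
        (show 0 ≤ |R| + 1 by positivity)
      refine this.trans_eq ?_
      field_simp
    have e3 : C z 0 + C z 3 ≤ |R| + 1 := by
      have := hR z hz
      rw [Real.norm_eq_abs] at this
      linarith [le_abs_self (C z 0 + C z 3), le_abs_self R]
    refine ⟨by linarith [hA0 z hz], ?_⟩
    linarith [hD0 z hz, sq_nonneg ε, mul_le_mul_of_nonneg_left e3 hε.1,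
      show (C z 0 - ε) * (C z 3 - ε) = C z 0 * C z 3 - ε * (C z 0 + C z 3) + ε ^ 2 by ring]
  set T : Set (ℝ × ℝ × (ℝ × ℝ × ℝ × ℝ)) := Icc 0 δ ×ˢ (Icc 0 κ ×ˢ stateSimplex) with hT
  have hTc : IsCompact T := isCompact_Icc.prod (isCompact_Icc.prod isCompact_stateSimplex)
  set F : ℝ × ℝ × (ℝ × ℝ × ℝ × ℝ) → ℝ := fun w => strictAt M p q w.1 w.2.1
    (C w.2.1) (LA w.2.1) (MB w.2.1) w.2.2.1 w.2.2.2.1 w.2.2.2.2.1 w.2.2.2.2.2 with hF
  have hz : MapsTo (fun w : ℝ × ℝ × (ℝ × ℝ × ℝ × ℝ) => w.2.1) T (Icc 0 κ) := fun w hw => hw.2.1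
  have kc : ∀ j, ContinuousOn (fun w : ℝ × ℝ × (ℝ × ℝ × ℝ × ℝ) => C w.2.1 j) T := fun j =>
    (hC j).comp (by fun_prop) hz
  have kl : ∀ j, ContinuousOn (fun w : ℝ × ℝ × (ℝ × ℝ × ℝ × ℝ) => LA w.2.1 j) T := fun j =>
    (hLA j).comp (by fun_prop) hz
  have km : ∀ j, ContinuousOn (fun w : ℝ × ℝ × (ℝ × ℝ × ℝ × ℝ) => MB w.2.1 j) T := fun j =>
    (hMB j).comp (by fun_prop) hz
  have hFc : ContinuousOn F T := by
    simp only [hF, strictAt, freePart, hessPair, gram, linU, linV, Matrix.cons_val_zero,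
      Matrix.cons_val_one, Matrix.cons_val_two, Matrix.tail_cons, Matrix.head_cons]
    fun_prop (disch := first | assumption | positivity |
      (intro (w : ℝ × ℝ × ℝ × ℝ × ℝ × ℝ) hw
       obtain ⟨h1, h2⟩ := hpd w.1 hw.1 w.2.1 hw.2.1
       positivity))
  obtain ⟨m₀, hm₀, hmin⟩ := exists_pos_le_of_isCompact
    (s := Icc 0 κ ×ˢ stateSimplex) (isCompact_Icc.prod isCompact_stateSimplex)
    (f := fun y => F (0, y)) (hFc.comp (by fun_prop) fun y hy => ⟨⟨le_rfl, hδ.le⟩, hy⟩)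
    (fun y hy => by
      obtain ⟨z, A, D, B, Q⟩ := y
      obtain ⟨hz, hA, hB, hDAB, hQ, h1⟩ := hy
      simp only [hF, strictAt_zero]
      exact hpos z hz A B D Q hA hB hDAB hQ (by simp only at h1; linarith))
  obtain ⟨η, hη, hunif⟩ := Metric.uniformContinuousOn_iff.1
    (hTc.uniformContinuousOn_of_continuous hFc) m₀ hm₀
  set ε := min δ (η / 2) with hεdef
  have hε : 0 < ε := lt_min hδ (by linarith)
  have hεI : ε ∈ Icc 0 δ := ⟨hε.le, min_le_left _ _⟩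
  refine ⟨ε, hε, fun z hzI => ⟨(hpd ε hεI z hzI).1, (hpd ε hεI z hzI).2,
    fun A B D Q hA hB hAB hQ hne => ?_⟩⟩
  set S := A + B + Q with hSdef
  have hy : ((z, A / S, D / S, B / S, Q / S) : ℝ × ℝ × ℝ × ℝ × ℝ) ∈ Icc 0 κ ×ˢ stateSimplex := by
    refine ⟨hzI, by positivity, by positivity, ?_, by positivity, ?_⟩ <;> simp only
    · rw [div_pow, div_mul_div_comm, ← sq S]; gcongr
    · rw [← add_div, ← add_div, ← hSdef, div_self hne.ne']
  set y : ℝ × ℝ × ℝ × ℝ × ℝ := (z, A / S, D / S, B / S, Q / S) with hydef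
  have hdist : dist (ε, y) ((0 : ℝ), y) < η := by
    rw [Prod.dist_eq, dist_self, max_eq_left dist_nonneg, Real.dist_eq, sub_zero, abs_of_pos hε]
    linarith [min_le_right δ (η / 2)]
  have hnn : 0 ≤ F (ε, y) := by
    have h1 := hunif (ε, y) ⟨hεI, hy⟩ (0, y) ⟨⟨le_rfl, hδ.le⟩, hy⟩ hdist
    rw [Real.dist_eq, abs_lt] at h1
    linarith [hmin y hy]
  have e := strictAt_smul M p q ε z (C z) (LA z) (MB z) S (A / S) (D / S) (B / S) (Q / S)
  simp only [mul_div_cancel₀ _ hne.ne'] at e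
  rw [e]
  exact mul_nonneg (sq_nonneg S) hnn

/-- **Strictness for the weighted row from a calibration in dimension `N > ν`.** -/
theorem exists_eps_cone (hn : 3 ≤ n) {g ν N p q κ : ℝ} (hg : 0 ≤ g) (hg2 : g < 2)
    (hν : ν = 2 * ((n : ℝ) - g) / (2 - g)) (hN : ν < N) {C LA MB : ℝ → Fin 14 → ℝ}
    (hC : ∀ j, ContinuousOn (fun z => C z j) (Icc 0 κ))
    (hLA : ∀ j, ContinuousOn (fun z => LA z j) (Icc 0 κ))
    (hMB : ∀ j, ContinuousOn (fun z => MB z j) (Icc 0 κ))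
    (h0 : ∀ z ∈ Icc 0 κ, 0 < C z 0)
    (hd : ∀ z ∈ Icc 0 κ, 0 < C z 0 * C z 3 - ((C z 1 + C z 2) / 2) ^ 2)
    (hpos : ∀ z ∈ Icc 0 κ, ∀ A B D Q : ℝ, 0 ≤ A → 0 ≤ B → D ^ 2 ≤ A * B → 0 ≤ Q →
      0 < A + B + Q →
      0 ≤ elimN N p q (C z) (LA z) (MB z) A D B (z * Q) Q ∧
        (elimN N p q (C z) (LA z) (MB z) A D B (z * Q) Q = 0 →
          0 < elimGap (C z) (LA z) (MB z) A D B (z * Q) Q)) :
    ∃ ε : ℝ, 0 < ε ∧ ∀ (a b zv : Fin n → ℝ) (P Q : ℝ) (H K : Fin n → Fin n → ℝ),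
      (∀ i j, H i j = H j i) → (∀ i j, K i j = K j i) →
      ∑ i, H i i = -(dotv a a + P) → ∑ i, K i i = -(dotv b b + Q) →
      0 < P → 0 < Q → P ≤ κ * Q →
      ε * nrm a b P Q H K ≤
        coneRow g p q (C (P / Q)) (LA (P / Q)) (MB (P / Q)) a b zv P Q H K := by
  have h3 : (3 : ℝ) ≤ n := by exact_mod_cast hn
  have hν0 : 0 < ν := by rw [hν]; exact div_pos (by linarith) (by linarith)
  have hN0 : 0 < N := hν0.trans hN
  have hgap : (0 : ℝ) < 1 / ν - 1 / N := sub_pos.2 (one_div_lt_one_div_of_lt hν0 hN)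
  obtain ⟨ε, hε, hb⟩ := exists_eps_strictAt hν0.ne' hC hLA hMB h0 hd
    fun z hz A B D Q hA hB hD hQ hne => by
      obtain ⟨hnn, heq⟩ := hpos z hz A B D Q hA hB hD hQ hne
      rw [elimN_dim hν0.ne' hN0.ne' (h0 z hz).ne' (hd z hz).ne']
      rcases hnn.eq_or_lt with h | h
      · exact add_pos_of_nonneg_of_pos hnn (mul_pos hgap (heq h.symm))
      · exact add_pos_of_pos_of_nonneg h (mul_nonneg hgap.le
          (elimGap_nonneg (h0 z hz) (hd z hz) _ _ _ _ _))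
  set Kc := 2 + 2 * g * n / (((n : ℝ) - 2) * (2 - g)) with hKc
  have hKc1 : 1 ≤ Kc := by
    have : 0 ≤ 2 * g * n / (((n : ℝ) - 2) * (2 - g)) :=
      div_nonneg (by positivity) (mul_nonneg (by linarith) (by linarith))
    linarith
  have hK0 : 0 < Kc := by linarith
  refine ⟨ε / Kc, div_pos hε hK0, fun a b zv P Q H K hH hK tH tK hP hQ hPQ => ?_⟩
  have hz : P / Q ∈ Icc 0 κ := ⟨(div_pos hP hQ).le, (div_le_iff₀ hQ).2 hPQ⟩
  obtain ⟨hc0, hcd, hform⟩ := hb _ hz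
  have hA := dotv_self_nonneg a
  have hB := dotv_self_nonneg b
  have h := hform _ _ _ Q hA hB (sq_dotv_le a b) hQ.le (by linarith)
  simp only [strictAt, div_mul_cancel₀ P hQ.ne'] at h
  have hp := hessPair_cone_le hn hg hg2 hν hc0 hcd (linU (C (P / Q)) (LA (P / Q)) (MB (P / Q)) 0)
    (linU (C (P / Q)) (LA (P / Q)) (MB (P / Q)) 1) (linU (C (P / Q)) (LA (P / Q)) (MB (P / Q)) 2)
    (linV (C (P / Q)) (LA (P / Q)) (MB (P / Q)) 0) (linV (C (P / Q)) (LA (P / Q)) (MB (P / Q)) 1)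
    (linV (C (P / Q)) (LA (P / Q)) (MB (P / Q)) 2) a b zv H K hH hK tH tK
  have f1 := mul_le_mul_of_nonneg_left (frob_le_coneGamma hn hg hg2 a zv H hH tH)
    (div_pos hε hK0).le
  have f2 := mul_le_mul_of_nonneg_left (frob_le_coneGamma hn hg hg2 b zv K hK tK)
    (div_pos hε hK0).le
  rw [← hKc, ← mul_assoc, div_mul_cancel₀ _ hK0.ne'] at f1 f2
  have f3 := mul_le_mul_of_nonneg_right (div_le_self hε.le hKc1) (show (0 : ℝ) ≤
    dotv a a ^ 2 + dotv b b ^ 2 + P ^ 2 + Q ^ 2 by positivity)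
  rw [coneRow_eq g p q _ _ _ a b zv P Q H K hH hK]
  simp only [nrm]
  linarith

end Vale.Agent.P100.Calib
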