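import Mathlib
import Vale.Agent.P100.Calib.Kernel

/-!
# The seven fields and the base field satisfy the kernel conditions
-/

namespace Vale.Agent.P100.Calib

open Orb

variable (o : Orb) (hv : o.Valid)
include hv

theorem N_eq : 1 - o.al - o.be ≠ 0 ∧ o.N = 2 / (1 - o.al - o.be) := by
  have h : o.N * (1 - o.al - o.be) = 2 := by linear_combination -hv.hN
  have h0 : 1 - o.al - o.be ≠ 0 := fun h0 => by rw [h0, mul_zero] at h; norm_num at h
  exact ⟨h0, by field_simp; linear_combination h⟩

theorem isKer_flux_G (i : Fin 4) (l m : ℝ) : IsKer o 0 (l • o.fG i) (m • o.fG i) := by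
  have := hv.X0; have := hv.Y0; have := hv.N0
  constructor <;> intros <;> fin_cases i <;>
    simp [lin, lu, lv, freePart, linU, linV, fG, shapeG] <;> field_simp <;> ring

theorem isKer_flux_U (l m : ℝ) : IsKer o 0 (l • o.fU) (m • o.fU) := by
  have := hv.X0; have := hv.Y0; have := hv.N0
  constructor <;> intros <;>
    simp [lin, lu, lv, freePart, linU, linV, fU, shapeU, sC, Orb.sU, Orb.sV] <;> field_simp <;> ring

set_option maxHeartbeats 1000000 in
set_option maxRecDepth 4000 in
theorem isKer_flux_T (l m : ℝ) : IsKer o 0 (l • o.fT) (m • o.fT) := by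
  have := hv.X0; have := hv.Y0; have := hv.N0; have := al_ne o hv; have := be_ne o hv
  obtain ⟨hs, hN⟩ := N_eq o hv
  constructor <;> intros <;>
    simp [lin, lu, lv, freePart, linU, linV, fT, shapeT, Orb.D, Orb.sU, Orb.sV] <;>
    (try simp only [P_eq o hv]) <;> (try simp only [hN]) <;> field_simp <;> ring

set_option maxHeartbeats 1000000 in
set_option maxRecDepth 4000 in
theorem isKer_flux_W (l m : ℝ) : IsKer o 0 (l • o.fW) (m • o.fW) := by
  have := hv.X0; have := hv.Y0; have := hv.N0; have := hv.Q0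
  constructor <;> intros <;>
    simp [lin, lu, lv, freePart, linU, linV, fW, shapeW, Orb.D] <;> field_simp <;> ring

set_option maxHeartbeats 1000000 in
set_option maxRecDepth 4000 in
theorem isKer_div_G (i : Fin 4) :
    IsKer o (o.phi • (o.fG i)) ((-(o.q + 1)) • o.vG i) ((o.p + 1) • o.vG i) := by
  have := hv.X0; have := hv.Y0; have := hv.N0
  have := al_ne o hv; have := be_ne o hv; have := hv.E0
  constructor <;> intros <;> fin_cases i <;>
    simp [lin, lu, lv, freePart, linU, linV, fG, vG, shapeG, Orb.vX, Orb.vY, Orb.sU, Orb.sV, Orb.phi] <;>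
    (try simp only [p_eq o hv, q_eq o hv]) <;> field_simp <;> ring

set_option maxHeartbeats 1000000 in
set_option maxRecDepth 4000 in
theorem isKer_div_W :
    IsKer o (o.phi • o.fW) ((-(o.q + 1)) • o.vW) ((o.p + 1) • o.vW) := by
  have := hv.X0; have := hv.Y0; have := hv.N0; have := hv.Q0
  have := al_ne o hv; have := be_ne o hv; have := hv.E0
  constructor <;> intros <;>
    simp [lin, lu, lv, freePart, linU, linV, fW, vW, shapeW, Orb.D, Orb.vD, Orb.vX, Orb.vY,
      Orb.vQ, Orb.sU, Orb.sV, Orb.phi] <;>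
    (try simp only [p_eq o hv, q_eq o hv]) <;> field_simp <;> ring

set_option maxHeartbeats 1000000 in
set_option maxRecDepth 4000 in
theorem isKer_div_U :
    IsKer o (o.phi • o.fU) ((-(o.q + 1)) • o.vU) ((o.p + 1) • o.vU) := by
  have := hv.X0; have := hv.Y0; have := hv.N0
  have := al_ne o hv; have := be_ne o hv; have := hv.E0
  obtain ⟨hs, hN⟩ := N_eq o hv
  constructor <;> intros <;>
    simp [lin, lu, lv, freePart, linU, linV, fU, vU, shapeU, sC, vsC, Orb.vsU, Orb.vsV, Orb.vX,
      Orb.vY, Orb.vP, Orb.vQ, Orb.sU, Orb.sV, Orb.phi] <;>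
    (try simp only [p_eq o hv, q_eq o hv]) <;> field_simp <;> ring

set_option maxHeartbeats 4000000 in
set_option maxRecDepth 4000 in
theorem isKer_div_T :
    IsKer o (o.phi • o.fT) ((-(o.q + 1)) • o.vT) ((o.p + 1) • o.vT) := by
  have := hv.X0; have := hv.Y0; have := hv.N0
  have := al_ne o hv; have := be_ne o hv
  obtain ⟨hs, hN⟩ := N_eq o hv
  constructor <;> intros <;>
    simp [lin, lu, lv, freePart, linU, linV, fT, vT, shapeT, Orb.D, Orb.vD, Orb.vX, Orb.vY,
      Orb.sU, Orb.sV, Orb.phi] <;>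
    (try simp only [p_eq o hv, q_eq o hv, P_eq o hv]) <;> (try simp only [hN]) <;>
    field_simp <;> ring

set_option maxHeartbeats 4000000 in
set_option maxRecDepth 4000 in
theorem isKer_base_scaled :
    IsKer o ((o.N * (o.al * o.X - o.be * o.Y) * (o.al * o.X + o.be * o.Y)) • o.cBase)
      ((o.N * (o.al * o.X - o.be * o.Y) * (o.al * o.X + o.be * o.Y) +
          (o.kap + 2) * o.Y * (o.al * o.X + o.be * o.Y) +
          o.N * o.al * (o.al * o.X ^ 2 + o.be * o.Y ^ 2 - o.X * o.Y)) • o.cBase)
      ((o.N * (o.al * o.X - o.be * o.Y) * (o.al * o.X + o.be * o.Y) -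
          (o.kap + 2) * o.X * (o.al * o.X + o.be * o.Y) -
          o.N * o.be * (o.al * o.X ^ 2 + o.be * o.Y ^ 2 - o.X * o.Y)) • o.cBase) := by
  have := hv.N0; have := al_ne o hv; have := be_ne o hv
  obtain ⟨hs, hN⟩ := N_eq o hv
  constructor <;> intros <;>
    simp [lin, lu, lv, freePart, linU, linV, cBase, Orb.sU, Orb.sV] <;>
    (try simp only [p_eq o hv, q_eq o hv, P_eq o hv]) <;> (try simp only [hN]) <;>
    field_simp <;> ring

end Vale.Agent.P100.Calib
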