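import Mathlib
import Vale.Agent.P100.Calib.KernelFields

/-!
# The kernel identity for every choice of the seven free scalars

For a point of the orbit and arbitrary values `k`, `dk` of the scalars and of their `z d/dz`, the
eliminated form has the orbit state as a zero with gradient `τ (Y², -2XY, X², 0)`.
-/

namespace Vale.Agent.P100.Calib

open Orb

variable (o : Orb) (hv : o.Valid)
include hv

theorem phi_ne : o.phi ≠ 0 := by
  rw [phi_eq o hv]
  exact div_ne_zero (neg_ne_zero.2 hv.E0) (mul_ne_zero (al_ne o hv) (be_ne o hv))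

theorem isKer_flux (l m : ℝ) (r : Fin 7) : IsKer o 0 (l • o.fld7 r) (m • o.fld7 r) := by
  fin_cases r
  · exact isKer_flux_U o hv l m
  · exact isKer_flux_G o hv 0 l m
  · exact isKer_flux_G o hv 1 l m
  · exact isKer_flux_G o hv 2 l m
  · exact isKer_flux_G o hv 3 l m
  · exact isKer_flux_T o hv l m
  · exact isKer_flux_W o hv l m

theorem isKer_div (r : Fin 7) :
    IsKer o (o.phi • o.fld7 r) ((-(o.q + 1)) • o.vel7 r) ((o.p + 1) • o.vel7 r) := by
  fin_cases r
  · exact isKer_div_U o hv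
  · exact isKer_div_G o hv 0
  · exact isKer_div_G o hv 1
  · exact isKer_div_G o hv 2
  · exact isKer_div_G o hv 3
  · exact isKer_div_T o hv
  · exact isKer_div_W o hv

theorem isKer_base : IsKer o o.cBase (o.lam • o.cBase) (o.mu • o.cBase) := by
  obtain ⟨S, hS⟩ : ∃ S, S = o.N * (o.al * o.X - o.be * o.Y) * (o.al * o.X + o.be * o.Y) :=
    ⟨_, rfl⟩
  have hS0 : S ≠ 0 := hS ▸ mul_ne_zero (mul_ne_zero hv.N0 hv.E0) hv.D0
  have hD := hv.D0
  have h := (isKer_base_scaled o hv).smul o (1 / S)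
  have := hv.N0
  have := hv.E0
  rw [← hS, smul_smul, smul_smul, smul_smul, one_div_mul_cancel hS0, one_smul] at h
  convert h using 2
  · simp only [Orb.lam, Orb.J, Orb.D, hS]
    generalize o.al * o.X - o.be * o.Y = E at *
    generalize o.al * o.X + o.be * o.Y = D at *
    field_simp; ring
  · simp only [Orb.mu, Orb.J, Orb.D, hS]
    generalize o.al * o.X - o.be * o.Y = E at *
    generalize o.al * o.X + o.be * o.Y = D at *
    field_simp; ring

theorem isKer_coef (k dk : Fin 7 → ℝ) : IsKer o (o.coef k) (o.cLa k dk) (o.cMb k dk) := by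
  have hphi := phi_ne o hv
  have h1 : ∀ r, IsKer o (k r • o.fld7 r)
      ((k r * o.lam - (o.q + 1) * dk r) • o.fld7 r + (-(o.q + 1) * k r / o.phi) • o.vel7 r)
      ((k r * o.mu + (o.p + 1) * dk r) • o.fld7 r + ((o.p + 1) * k r / o.phi) • o.vel7 r) := by
    intro r
    have hd := (isKer_div o hv r).smul o (k r / o.phi)
    rw [smul_smul, smul_smul, smul_smul, div_mul_cancel₀ _ hphi] at hd
    have := (isKer_flux o hv (k r * o.lam - (o.q + 1) * dk r)
      (k r * o.mu + (o.p + 1) * dk r) r).add o hd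
    rw [zero_add] at this
    convert this using 3 <;> ring
  have h := (isKer_base o hv).add o (IsKer.sum o Finset.univ fun r _ => h1 r)
  convert h using 1
  · funext j
    simp [Orb.coef]
  · funext j
    simp only [Orb.cLa, Orb.coef, Orb.dcoef, Pi.add_apply, Finset.sum_apply, Pi.smul_apply,
      smul_eq_mul, add_mul, Finset.sum_mul, Finset.mul_sum, add_sub_assoc, ← Finset.sum_sub_distrib]
    refine congrArg₂ (· + ·) (mul_comm _ _) (Finset.sum_congr rfl fun r _ => ?_)
    ring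
  · funext j
    simp only [Orb.cMb, Orb.coef, Orb.dcoef, Pi.add_apply, Finset.sum_apply, Pi.smul_apply,
      smul_eq_mul, add_mul, Finset.sum_mul, Finset.mul_sum, add_assoc, ← Finset.sum_add_distrib]
    refine congrArg₂ (· + ·) (mul_comm _ _) (Finset.sum_congr rfl fun r _ => ?_)
    ring

/-- The multiplier at a point. -/
noncomputable def tauCalib (o : Orb) (k dk : Fin 7 → ℝ) : ℝ :=
  tauOf o (o.coef k) (o.cLa k dk) (o.cMb k dk)

/-- **Kernel identity of the calibration.** -/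
theorem calib_kernel (k dk : Fin 7 → ℝ)
    (hd : o.coef k 0 * o.coef k 3 - ((o.coef k 1 + o.coef k 2) / 2) ^ 2 ≠ 0) (A C B : ℝ) :
    elimN o.N o.p o.q (o.coef k) (o.cLa k dk) (o.cMb k dk) (A + o.X ^ 2) (C + o.X * o.Y)
        (B + o.Y ^ 2) (o.P / o.Q * o.Q) o.Q =
      elimN o.N o.p o.q (o.coef k) (o.cLa k dk) (o.cMb k dk) A C B 0 0 +
        tauCalib o k dk * (o.Y ^ 2 * A - 2 * (o.X * o.Y) * C + o.X ^ 2 * B) :=
  (isKer_coef o hv k dk).identity o hv.Y0 hv.Q0 hd A C B

/-- **Reduction to the gradient block.** If the block minus `μ (AB - C²)` is positive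
semidefinite, `0 ≤ μ` and `0 ≤ (τ - μ) Q₀`, the eliminated form is nonnegative at every state. -/
theorem calib_nonneg (k dk : Fin 7 → ℝ) {μ : ℝ}
    (hd : o.coef k 0 * o.coef k 3 - ((o.coef k 1 + o.coef k 2) / 2) ^ 2 ≠ 0)
    (hblock : ∀ A C B : ℝ, μ * (A * B - C ^ 2) ≤
      elimN o.N o.p o.q (o.coef k) (o.cLa k dk) (o.cMb k dk) A C B 0 0)
    (hμ : 0 ≤ μ) (hτ : 0 ≤ (tauCalib o k dk - μ) * o.Q) {A C B Q : ℝ} (hA : 0 ≤ A) (hB : 0 ≤ B)
    (hC : C ^ 2 ≤ A * B) (hQ : 0 ≤ Q) :
    0 ≤ elimN o.N o.p o.q (o.coef k) (o.cLa k dk) (o.cMb k dk) A C B (o.P / o.Q * Q) Q :=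
  (elimN_nonneg_of_block hv.Q0 hblock (calib_kernel o hv k dk hd) hμ hτ hA hB hC hQ).2

end Vale.Agent.P100.Calib
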