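import Mathlib
import Vale.Agent.P100.Bubble.Param

/-!
# `(x - z y)/R` is continuously differentiable through the centre of the orbit

The quotient `w = (x - z y)/R` solves `R w' = R' (G - a w)` with `a = 1 + N/2` and `G` of class
`C¹`; a solution of this singular equation that is continuous at the zero of `R` is `C¹` there.
-/

open Set Filter Topology

namespace Vale.Agent.P100.Calib

/-- Near a simple zero of a decreasing `R`, `R u' + a R' u = R η` and `|η| < e (a + 1) |R'|` give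
`|u| ≤ e |R|`. -/
theorem abs_le_of_singular {R R' u η : ℝ → ℝ} {a e z₀ δ : ℝ} (ha : 0 < a) (hδ : 0 < δ)
    (hR0 : R z₀ = 0) (cu : ∀ z ∈ Icc (z₀ - δ) (z₀ + δ), ContinuousAt u z)
    (hR : ∀ z ∈ Icc (z₀ - δ) (z₀ + δ), HasDerivAt R (R' z) z)
    (hR' : ∀ z ∈ Icc (z₀ - δ) (z₀ + δ), R' z < 0)
    (hu : ∀ z ∈ Icc (z₀ - δ) (z₀ + δ), z ≠ z₀ →
      HasDerivAt u (η z - a * R' z * u z / R z) z)
    (hη : ∀ z ∈ Icc (z₀ - δ) (z₀ + δ), |η z| < e * (a + 1) * -R' z) :
    ∀ z ∈ Icc (z₀ - δ) (z₀ + δ), |u z| ≤ e * |R z| ∨ z = z₀ := by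
  have hsR : StrictAntiOn R (Icc (z₀ - δ) (z₀ + δ)) :=
    strictAntiOn_of_hasDerivWithinAt_neg (f' := R') (convex_Icc _ _)
      (fun z hz => (hR z hz).continuousAt.continuousWithinAt)
      (fun z hz => (hR z (interior_subset hz)).hasDerivWithinAt)
      fun z hz => hR' z (interior_subset hz)
  have hz₀ : z₀ ∈ Icc (z₀ - δ) (z₀ + δ) := ⟨by linarith, by linarith⟩
  set E : ℝ → ℝ := fun z => (R z ^ 2) ^ (a / 2) with hE
  have cE : ∀ z ∈ Icc (z₀ - δ) (z₀ + δ), ContinuousAt E z := fun z hz =>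
    ((hR z hz).continuousAt.pow 2).rpow_const (Or.inr (by linarith))
  have hne : ∀ z ∈ Icc (z₀ - δ) (z₀ + δ), z ≠ z₀ → R z ≠ 0 := fun z hz hzn h =>
    hzn (hsR.injOn hz hz₀ (h.trans hR0.symm))
  have hd : ∀ k, ∀ z ∈ Icc (z₀ - δ) (z₀ + δ), z ≠ z₀ →
      HasDerivAt (fun y => E y * (u y - k * R y)) (E z * (η z - (a + 1) * k * R' z)) z := by
    intro k z hz hzn
    have hRz := hne z hz hzn
    refine ((((hR z hz).fun_pow 2).rpow_const (p := a / 2) (Or.inl (pow_ne_zero 2 hRz))).fun_mul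
      ((hu z hz hzn).fun_sub ((hR z hz).const_mul k))).congr_deriv ?_
    simp only [hE]
    rw [Real.rpow_sub_one (pow_ne_zero 2 hRz)]
    field_simp
    ring
  have hcont : ∀ k, ContinuousOn (fun y => E y * (u y - k * R y)) (Icc (z₀ - δ) (z₀ + δ)) :=
    fun k z hz => ((cE z hz).mul ((cu z hz).sub ((hR z hz).continuousAt.const_mul k))).continuousWithinAt
  have hE0 : E z₀ = 0 := by simp [hE, hR0, Real.zero_rpow (by linarith : a / 2 ≠ 0)]
  have hEp : ∀ z ∈ Icc (z₀ - δ) (z₀ + δ), z ≠ z₀ → 0 < E z := fun z hz hzn =>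
    Real.rpow_pos_of_pos (by positivity [hne z hz hzn]) _
  intro z hz
  rcases eq_or_ne z z₀ with h | hzn
  · exact Or.inr h
  refine Or.inl ?_
  have up : ∀ y ∈ Icc (z₀ - δ) (z₀ + δ), y ≠ z₀ → 0 < E y * (η y - (a + 1) * e * R' y) :=
    fun y hy hyn => mul_pos (hEp y hy hyn) (by linarith [(abs_lt.1 (hη y hy)).1])
  have dn : ∀ y ∈ Icc (z₀ - δ) (z₀ + δ), y ≠ z₀ → E y * (η y - (a + 1) * -e * R' y) < 0 :=
    fun y hy hyn => mul_neg_of_pos_of_neg (hEp y hy hyn) (by linarith [(abs_lt.1 (hη y hy)).2])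
  rcases lt_or_gt_of_ne hzn with hlt | hgt
  · have hsub : Icc z z₀ ⊆ Icc (z₀ - δ) (z₀ + δ) := Icc_subset_Icc hz.1 (by linarith)
    have hin : ∀ y ∈ interior (Icc z z₀), y ∈ Icc (z₀ - δ) (z₀ + δ) ∧ y ≠ z₀ := fun y hy => by
      rw [interior_Icc] at hy
      exact ⟨hsub (Ioo_subset_Icc_self hy), hy.2.ne⟩
    have m1 := (strictMonoOn_of_hasDerivWithinAt_pos (convex_Icc z z₀) ((hcont e).mono hsub)
      (fun y hy => (hd e y (hin y hy).1 (hin y hy).2).hasDerivWithinAt)
      fun y hy => up y (hin y hy).1 (hin y hy).2) (left_mem_Icc.2 hlt.le) (right_mem_Icc.2 hlt.le) hlt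
    have m2 := (strictAntiOn_of_hasDerivWithinAt_neg (convex_Icc z z₀) ((hcont (-e)).mono hsub)
      (fun y hy => (hd (-e) y (hin y hy).1 (hin y hy).2).hasDerivWithinAt)
      fun y hy => dn y (hin y hy).1 (hin y hy).2) (left_mem_Icc.2 hlt.le) (right_mem_Icc.2 hlt.le) hlt
    simp only [hE0, zero_mul] at m1 m2
    have hRpos : 0 < R z := by
      have := hsR hz hz₀ hlt
      rwa [hR0] at this
    have p1 := neg_of_mul_neg_right m1 (hEp z hz hzn).le
    have p2 := pos_of_mul_pos_right m2 (hEp z hz hzn).le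
    rw [abs_of_pos hRpos, abs_le]
    constructor <;> linarith
  · have hsub : Icc z₀ z ⊆ Icc (z₀ - δ) (z₀ + δ) := Icc_subset_Icc (by linarith) hz.2
    have hin : ∀ y ∈ interior (Icc z₀ z), y ∈ Icc (z₀ - δ) (z₀ + δ) ∧ y ≠ z₀ := fun y hy => by
      rw [interior_Icc] at hy
      exact ⟨hsub (Ioo_subset_Icc_self hy), hy.1.ne'⟩
    have m1 := (strictMonoOn_of_hasDerivWithinAt_pos (convex_Icc z₀ z) ((hcont e).mono hsub)
      (fun y hy => (hd e y (hin y hy).1 (hin y hy).2).hasDerivWithinAt)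
      fun y hy => up y (hin y hy).1 (hin y hy).2) (left_mem_Icc.2 hgt.le) (right_mem_Icc.2 hgt.le) hgt
    have m2 := (strictAntiOn_of_hasDerivWithinAt_neg (convex_Icc z₀ z) ((hcont (-e)).mono hsub)
      (fun y hy => (hd (-e) y (hin y hy).1 (hin y hy).2).hasDerivWithinAt)
      fun y hy => dn y (hin y hy).1 (hin y hy).2) (left_mem_Icc.2 hgt.le) (right_mem_Icc.2 hgt.le) hgt
    simp only [hE0, zero_mul] at m1 m2
    have hRneg : R z < 0 := by
      have := hsR hz₀ hz hgt
      rwa [hR0] at this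
    have p1 := pos_of_mul_pos_right m1 (hEp z hz hzn).le
    have p2 := neg_of_mul_neg_right m2 (hEp z hz hzn).le
    rw [abs_of_neg hRneg, abs_le]
    constructor <;> linarith

/-- A solution of `R w' = R' (G - a w)` continuous at a simple zero of `R` is `C¹`. -/
theorem contDiffOn_of_singular {S : Set ℝ} (hS : IsOpen S) {R R' w G : ℝ → ℝ} {a z₀ : ℝ}
    (ha : 0 < a) (hz₀ : z₀ ∈ S) (hR0 : R z₀ = 0) (hne : ∀ z ∈ S, z ≠ z₀ → R z ≠ 0)
    (hR : ∀ z ∈ S, HasDerivAt R (R' z) z) (hR' : ∀ z ∈ S, R' z < 0) (cR' : ContinuousOn R' S)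
    (cw : ContinuousOn w S) (hG : ContDiffOn ℝ 1 G S) (hw0 : G z₀ = a * w z₀)
    (hw : ∀ z ∈ S, z ≠ z₀ → HasDerivAt w (R' z * (G z - a * w z) / R z) z) :
    ContDiffOn ℝ 1 w S := by
  set v : ℝ → ℝ := fun z => G z - a * w z with hv
  set ℓ : ℝ := deriv G z₀ / ((a + 1) * R' z₀) with hℓ
  set g : ℝ → ℝ := fun z => if z = z₀ then R' z₀ * ℓ else R' z * v z / R z with hg
  have hGd : ∀ z ∈ S, HasDerivAt G (deriv G z) z := fun z hz =>
    ((hG.contDiffAt (hS.mem_nhds hz)).differentiableAt one_ne_zero).hasDerivAt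
  have cdG : ContinuousOn (deriv G) S := hG.continuousOn_deriv_of_isOpen hS le_rfl
  -- the second order remainder
  have hlim : Tendsto (fun z => v z / R z) (𝓝[≠] z₀) (𝓝 ℓ) := by
    rw [Metric.tendsto_nhdsWithin_nhds]
    intro e he
    have c0 : ContinuousAt (fun z => |deriv G z - (a + 1) * ℓ * R' z| - e / 2 * (a + 1) * -R' z) z₀ :=
      ((((cdG.continuousAt (hS.mem_nhds hz₀))).sub
        (((cR'.continuousAt (hS.mem_nhds hz₀))).const_mul _)).abs).sub
        ((cR'.continuousAt (hS.mem_nhds hz₀)).neg.const_mul _)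
    have hneg : |deriv G z₀ - (a + 1) * ℓ * R' z₀| - e / 2 * (a + 1) * -R' z₀ < 0 := by
      have h1 := hR' z₀ hz₀
      have : deriv G z₀ - (a + 1) * ℓ * R' z₀ = 0 := by
        have := h1.ne
        have : a + 1 ≠ 0 := by linarith
        rw [hℓ, mul_right_comm, mul_div_cancel₀ _ (mul_ne_zero this h1.ne), sub_self]
      rw [this, abs_zero, zero_sub, neg_lt_zero]
      have : 0 < -R' z₀ := by linarith
      positivity
    obtain ⟨δ, hδ, hball⟩ := Metric.mem_nhds_iff.1
      (Filter.inter_mem (hS.mem_nhds hz₀) (c0.eventually (Iio_mem_nhds hneg)))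
    refine ⟨δ / 2, by linarith, fun {z} hzn hzd => ?_⟩
    have hIcc : Icc (z₀ - δ / 2) (z₀ + δ / 2) ⊆ S ∩ _ := fun y hy => hball (by
      rw [Metric.mem_ball, Real.dist_eq, abs_lt]; constructor <;> linarith [hy.1, hy.2])
    rw [Real.dist_eq, abs_lt] at hzd
    have key := abs_le_of_singular (R := R) (R' := R') (u := fun y => v y - ℓ * R y)
      (η := fun y => deriv G y - (a + 1) * ℓ * R' y) (a := a) (e := e / 2) ha
      (show 0 < δ / 2 by linarith) hR0
      (fun y hy => (((hGd y (hIcc hy).1).continuousAt.sub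
        ((cw.continuousAt (hS.mem_nhds (hIcc hy).1)).const_mul a)).sub
          ((hR y (hIcc hy).1).continuousAt.const_mul ℓ)))
      (fun y hy => hR y (hIcc hy).1) (fun y hy => hR' y (hIcc hy).1)
      (fun y hy hyn => by
        refine (((hGd y (hIcc hy).1).fun_sub ((hw y (hIcc hy).1 hyn).const_mul a)).fun_sub
          ((hR y (hIcc hy).1).const_mul ℓ)).congr_deriv ?_
        have := hne y (hIcc hy).1 hyn
        simp only [v]
        field_simp
        ring)
      (fun y hy => sub_neg.1 (hIcc hy).2) z ⟨by linarith, by linarith⟩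
    have hzR : R z ≠ 0 := hne z (hIcc ⟨by linarith, by linarith⟩).1 hzn
    rcases key with h | h
    · rw [Real.dist_eq, show v z / R z - ℓ = (v z - ℓ * R z) / R z by field_simp, abs_div,
        div_lt_iff₀ (abs_pos.2 hzR)]
      nlinarith [abs_pos.2 hzR]
    · exact absurd h hzn
  have cg0 : ContinuousAt g z₀ := by
    rw [continuousAt_iff_punctured_nhds]
    simp only [hg, if_pos]
    refine (((cR'.continuousAt (hS.mem_nhds hz₀)).tendsto.mono_left nhdsWithin_le_nhds).mul hlim).congr' ?_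
    filter_upwards [self_mem_nhdsWithin] with y hy
    rw [if_neg (show y ≠ z₀ from hy), mul_div_assoc]
  have hd : ∀ z ∈ S, HasDerivAt w (g z) z := by
    intro z hz
    rcases eq_or_ne z z₀ with h | h
    · subst h
      obtain ⟨δ, hδ, hball⟩ := Metric.mem_nhds_iff.1 (hS.mem_nhds hz)
      have hb : ∀ y, |y - z| < δ → y ∈ S := fun y hy =>
        hball (by rwa [Metric.mem_ball, Real.dist_eq])
      have hdn : ∀ y, |y - z| < δ → y ≠ z → HasDerivAt w (g y) y := fun y hy hyn => by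
        simp only [hg, if_neg hyn]
        exact hw y (hb y hy) hyn
      have inR : ∀ y ∈ Ioo z (z + δ), |y - z| < δ ∧ y ≠ z := fun y hy =>
        ⟨by rw [abs_lt]; constructor <;> linarith [hy.1, hy.2], hy.1.ne'⟩
      have inL : ∀ y ∈ Ioo (z - δ) z, |y - z| < δ ∧ y ≠ z := fun y hy =>
        ⟨by rw [abs_lt]; constructor <;> linarith [hy.1, hy.2], hy.2.ne⟩
      have cwz := cw.continuousAt (hS.mem_nhds hz)
      have A : HasDerivWithinAt w (g z) (Ici z) z := by
        refine hasDerivWithinAt_Ici_of_tendsto_deriv (s := Ioo z (z + δ))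
          (fun y hy => (hdn y (inR y hy).1 (inR y hy).2).differentiableAt.differentiableWithinAt)
          cwz.continuousWithinAt (Ioo_mem_nhdsGT (by linarith))
          ((cg0.tendsto.mono_left nhdsWithin_le_nhds).congr' ?_)
        filter_upwards [Ioo_mem_nhdsGT (show z < z + δ by linarith)] with y hy
        exact (hdn y (inR y hy).1 (inR y hy).2).deriv.symm
      have B : HasDerivWithinAt w (g z) (Iic z) z := by
        refine hasDerivWithinAt_Iic_of_tendsto_deriv (s := Ioo (z - δ) z)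
          (fun y hy => (hdn y (inL y hy).1 (inL y hy).2).differentiableAt.differentiableWithinAt)
          cwz.continuousWithinAt (Ioo_mem_nhdsLT (by linarith))
          ((cg0.tendsto.mono_left nhdsWithin_le_nhds).congr' ?_)
        filter_upwards [Ioo_mem_nhdsLT (show z - δ < z by linarith)] with y hy
        exact (hdn y (inL y hy).1 (inL y hy).2).deriv.symm
      simpa using B.union A
    · simp only [hg, if_neg h]
      exact hw z hz h
  exact Bubble.contDiffOn_one_of_deriv hS hd fun z hz => by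
    rcases eq_or_ne z z₀ with h | h
    · exact h ▸ cg0.continuousWithinAt
    · refine ContinuousAt.continuousWithinAt ?_
      have h1 : g =ᶠ[𝓝 z] fun y => R' y * v y / R y := by
        filter_upwards [isOpen_ne.mem_nhds h] with y hy
        simp only [hg]
        exact if_neg hy
      refine ContinuousAt.congr ?_ h1.symm
      exact ((cR'.continuousAt (hS.mem_nhds hz)).mul ((hGd z hz).continuousAt.sub
        ((cw.continuousAt (hS.mem_nhds hz)).const_mul a))).div (hR z hz).continuousAt (hne z hz h)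

end Vale.Agent.P100.Calib
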