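import Mathlib
import Vale.Agent.P100.Calib.Fields

/-!
# The orbit point, the fields and their velocities in regular variables

Definitions only, so that the algebra on them does not wait for the theory of the orbit.
-/

namespace Vale.Agent.P100.Calib

open Orb

/-- The end point of the orbit. -/
noncomputable def endOrb (N p q kap : ℝ) : Orb :=
  let m := min (N - 2) (N * (1 / (p + 1)) / (1 / (q + 1)))
  ⟨1 / (p + 1), 1 / (q + 1), N, p, q, -(N - 2), -m, 0,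
    N * (1 / (p + 1)) / (1 / (q + 1)) * (N - 2 - m), kap⟩

/-- The fields with the last one multiplied by `Zq`. -/
noncomputable def Orb.fldQ (o : Orb) : Fin 7 → Fin 14 → ℝ :=
  ![o.fU, o.fG 0, o.fG 1, o.fG 2, o.fG 3, o.fT,
    shapeW (o.Q * (o.D / o.X)) (o.Q * (o.D / o.Y)) (-(o.D * o.Y)) (o.D * o.X)]

/-- The velocities of `fldQ`. -/
noncomputable def Orb.velQ (o : Orb) : Fin 7 → Fin 14 → ℝ :=
  ![o.vU, o.vG 0, o.vG 1, o.vG 2, o.vG 3, o.vT,
    shapeW (o.vQ * (o.D / o.X) + o.Q * ((o.vD * o.X - o.D * o.vX) / o.X ^ 2))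
      (o.vQ * (o.D / o.Y) + o.Q * ((o.vD * o.Y - o.D * o.vY) / o.Y ^ 2))
      (-(o.vD * o.Y + o.D * o.vY)) (o.vD * o.X + o.D * o.vX)]

/-- The orbit point with regular coordinates `(R, x, y, z, s)`. -/
noncomputable def orbAt (N p q kap R x y z s : ℝ) : Orb :=
  ⟨1 / (p + 1), 1 / (q + 1), N, p, q, -2 * R * x, -2 * R * y, R * (z * s), R * s, kap⟩

/-- The seven fields in regular variables. -/
noncomputable def regFld (N p q R x y s w : ℝ) : Fin 7 → Fin 14 → ℝ :=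
  let o := orbAt N p q 0 0 0 0 0 0
  let D := 1 / (p + 1) * x + 1 / (q + 1) * y
  let σ := 2 * (y - x) + s * w / (2 * (x * y))
  ![o.shapeU 1 (y / x) (x / y) (-σ / (2 * x)) (-σ / (2 * y)), shapeG 0 (y / x) 1 (x / y),
    shapeG 1 (y / x) 1 (x / y), shapeG 2 (y / x) 1 (x / y), shapeG 3 (y / x) 1 (x / y),
    o.shapeT (D / x) (D / y), shapeW (D / x) (D / y) (-(4 * R * D * y / s)) (4 * R * D * x / s)]

/-- The `u`-exponent in regular variables. -/
noncomputable def lamR (N p q kap x y : ℝ) : ℝ :=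
  1 + ((kap + 2) * y + N * (1 / (p + 1)) *
      ((1 / (p + 1) * x ^ 2 + 1 / (q + 1) * y ^ 2 - x * y) / (1 / (p + 1) * x + 1 / (q + 1) * y))) /
    (N * (1 / (p + 1) * x - 1 / (q + 1) * y))

/-- The `v`-exponent in regular variables. -/
noncomputable def muR (N p q kap x y : ℝ) : ℝ :=
  1 + (-((kap + 2) * x) - N * (1 / (q + 1)) *
      ((1 / (p + 1) * x ^ 2 + 1 / (q + 1) * y ^ 2 - x * y) / (1 / (p + 1) * x + 1 / (q + 1) * y))) /
    (N * (1 / (p + 1) * x - 1 / (q + 1) * y))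

/-- `(s - 2 N y)/R`. -/
noncomputable def etaR (N p q x y z w : ℝ) : ℝ :=
  (2 * N * (1 / (p + 1)) * w - 4 * (x * y)) / (1 / (p + 1) * z + 1 / (q + 1))

/-- `dx/dR`. -/
noncomputable def dxR (N p q x y z w : ℝ) : ℝ :=
  x ^ 2 + (z * etaR N p q x y z w - 2 * N * w) / 4

/-- `dy/dR`. -/
noncomputable def dyR (N p q x y z w : ℝ) : ℝ := y ^ 2 + etaR N p q x y z w / 4

/-- `R' z`, that is `-αβ/W`. -/
noncomputable def rhoR (p q x y : ℝ) : ℝ :=
  -(1 / (p + 1) * (1 / (q + 1))) / (1 / (q + 1) * y - 1 / (p + 1) * x)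

/-- The source `G` of `R dw/dR = G - (1 + N/2) w`. -/
noncomputable def srcG (p q x y z : ℝ) : ℝ :=
  x ^ 2 - z * y ^ 2 +
    z * y * (1 / (q + 1) * y - 1 / (p + 1) * x) / (1 / (p + 1) * (1 / (q + 1)))

/-- `dG/dR`. -/
noncomputable def srcG' (N p q x y z w : ℝ) : ℝ :=
  let dx := dxR N p q x y z w
  let dy := dyR N p q x y z w
  let W := 1 / (q + 1) * y - 1 / (p + 1) * x
  let c := 1 / (p + 1) * (1 / (q + 1))
  let dz := -(z * W) / c
  2 * x * dx - dz * y ^ 2 - 2 * z * y * dy +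
    (dz * y * W + z * dy * W + z * y * (1 / (q + 1) * dy - 1 / (p + 1) * dx)) / c

/-- `z d/dz` of the seven fields. -/
noncomputable def regVel (N p q R x y z s w w₁ : ℝ) : Fin 7 → Fin 14 → ℝ :=
  let o := orbAt N p q 0 0 0 0 0 0
  let dx := dxR N p q x y z w
  let dy := dyR N p q x y z w
  let ds := s * (y - q * x)
  let ρ := rhoR p q x y
  let D := 1 / (p + 1) * x + 1 / (q + 1) * y
  let dD := 1 / (p + 1) * dx + 1 / (q + 1) * dy
  let σ := 2 * (y - x) + s * w / (2 * (x * y))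
  let dσ := 2 * (dy - dx) +
    ((ds * w + s * w₁) * (x * y) - s * w * (dx * y + x * dy)) / (2 * (x * y) ^ 2)
  let dyx := (dy * x - y * dx) / x ^ 2
  let dxy := (dx * y - x * dy) / y ^ 2
  let ds₁ := -(dσ * x - σ * dx) / (2 * x ^ 2)
  let ds₂ := -(dσ * y - σ * dy) / (2 * y ^ 2)
  let du := (dD * x - D * dx) / x ^ 2
  let dv := (dD * y - D * dy) / y ^ 2
  let da := -(4 * ((D * y + R * dD * y + R * D * dy) * s - R * D * y * ds) / s ^ 2)
  let db := 4 * ((D * x + R * dD * x + R * D * dx) * s - R * D * x * ds) / s ^ 2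
  ![o.shapeU 0 (ρ * dyx) (ρ * dxy) (ρ * ds₁) (ρ * ds₂), shapeG 0 (ρ * dyx) 0 (ρ * dxy),
    shapeG 1 (ρ * dyx) 0 (ρ * dxy), shapeG 2 (ρ * dyx) 0 (ρ * dxy),
    shapeG 3 (ρ * dyx) 0 (ρ * dxy), o.shapeT (ρ * du) (ρ * dv),
    shapeW (ρ * du) (ρ * dv) (ρ * da) (ρ * db)]

end Vale.Agent.P100.Calib
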