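import Mathlib
import Vale.Agent.P100.Calib.KernelMain
import Vale.Agent.P100.Calib.Ratio
import Vale.Agent.P100.Calib.RegDefs

/-!
# The calibration fields along the orbit in regular variables

With `X = -2Rx`, `Y = -2Ry`, `Zp = R z s`, `Zq = R s` and `w = (x - z y)/R` the seven fields and the
weight exponents have formulas without `R` in a denominator, so they are `C¹` functions of `z`
through the centre; where `R ≠ 0` their derivatives are the velocities divided by `z φ`.
-/

open Set Filter Topology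

namespace Vale.Agent.P100.Calib

open Orb

variable {N p q kap R x y z s w : ℝ}

theorem regFld_eq (hR : R ≠ 0) (hx : x ≠ 0) (hy : y ≠ 0) (hs : s ≠ 0)
    (hw : R * w = x - z * y) :
    (orbAt N p q kap R x y z s).fld7 = regFld N p q R x y s w := by
  have hsC : (orbAt N p q kap R x y z s).sC = R * (2 * (y - x) + s * w / (2 * (x * y))) := by
    simp only [orbAt, Orb.sC, Orb.sU, Orb.sV]
    field_simp
    linear_combination (-s) * hw
  funext r j
  have hyx : -2 * R * y / (-2 * R * x) = y / x := by field_simp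
  have hxy : -2 * R * x / (-2 * R * y) = x / y := by field_simp
  fin_cases r
  · simp only [Orb.fld7, regFld, Orb.fU, hsC, Fin.reduceFinMk, Matrix.cons_val]
    simp only [orbAt, hyx, hxy, Orb.shapeU]
    fin_cases j <;> simp only [Fin.reduceFinMk, Matrix.cons_val] <;> field_simp
  all_goals
    simp only [Orb.fld7, regFld, Orb.fG, Orb.fT, Orb.fW, Fin.reduceFinMk, Matrix.cons_val]
    simp only [orbAt, Orb.D, hyx, hxy, Orb.shapeT, Orb.shapeW, Orb.shapeG]
    all_goals fin_cases j <;> simp only [Fin.reduceFinMk, Matrix.cons_val] <;> (try field_simp) <;> (try ring)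

theorem lam_orbAt (hR : R ≠ 0) :
    (orbAt N p q kap R x y z s).lam = lamR N p q kap x y ∧
      (orbAt N p q kap R x y z s).mu = muR N p q kap x y := by
  have h1 : (orbAt N p q kap R x y z s).J = -2 * R *
      ((1 / (p + 1) * x ^ 2 + 1 / (q + 1) * y ^ 2 - x * y) / (1 / (p + 1) * x + 1 / (q + 1) * y)) := by
    simp only [orbAt, Orb.J, Orb.D]
    generalize 1 / (p + 1) = a
    generalize 1 / (q + 1) = b
    rw [show a * (-2 * R * x) ^ 2 + b * (-2 * R * y) ^ 2 - -2 * R * x * (-2 * R * y) =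
      (-2 * R) * ((-2 * R) * (a * x ^ 2 + b * y ^ 2 - x * y)) by ring,
      show a * (-2 * R * x) + b * (-2 * R * y) = (-2 * R) * (a * x + b * y) by ring,
      mul_div_mul_left _ _ (show -2 * R ≠ 0 by simpa using hR), mul_div_assoc]
  have h2 : ∀ t : ℝ, (-2 * R * t) / ((orbAt N p q kap R x y z s).N *
      ((orbAt N p q kap R x y z s).al * (orbAt N p q kap R x y z s).X -
        (orbAt N p q kap R x y z s).be * (orbAt N p q kap R x y z s).Y)) =
      t / (N * (1 / (p + 1) * x - 1 / (q + 1) * y)) := fun t => by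
    simp only [orbAt]
    rw [show N * (1 / (p + 1) * (-2 * R * x) - 1 / (q + 1) * (-2 * R * y)) =
      (-2 * R) * (N * (1 / (p + 1) * x - 1 / (q + 1) * y)) by ring,
      mul_div_mul_left _ _ (show -2 * R ≠ 0 by simpa using hR)]
  constructor
  · rw [Orb.lam, lamR, ← h2, h1]
    simp only [orbAt]
    ring
  · rw [Orb.mu, muR, ← h2, h1]
    simp only [orbAt]
    ring

theorem orbAt_valid (hp : 0 < p) (hq : 0 < q) (hN : 0 < N)
    (hcr : N * (1 / (p + 1)) + N * (1 / (q + 1)) = N - 2) (hR : R ≠ 0) (hx : 0 < x) (hy : 0 < y)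
    (hs : 0 < s) (hW : 0 < 1 / (q + 1) * y - 1 / (p + 1) * x)
    (hquad : 4 * R * x * y + 1 / (p + 1) * (z * s) + 1 / (q + 1) * s =
      2 * N * (1 / (p + 1) * x + 1 / (q + 1) * y)) :
    (orbAt N p q kap R x y z s).Valid where
  hp := by simp only [orbAt]; field_simp
  hq := by simp only [orbAt]; field_simp
  hN := by simp only [orbAt]; linear_combination hcr
  quadric := by simp only [orbAt]; linear_combination R * hquad
  N0 := hN.ne'
  X0 := by simp [orbAt, hR, hx.ne']
  Y0 := by simp [orbAt, hR, hy.ne']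
  Q0 := by simp [orbAt, hR, hs.ne']
  D0 := by
    simp only [orbAt]
    rw [show 1 / (p + 1) * (-2 * R * x) + 1 / (q + 1) * (-2 * R * y) =
      -2 * R * (1 / (p + 1) * x + 1 / (q + 1) * y) by ring]
    exact mul_ne_zero (by simpa using hR) (by positivity)
  E0 := by
    simp only [orbAt]
    rw [show 1 / (p + 1) * (-2 * R * x) - 1 / (q + 1) * (-2 * R * y) =
      2 * R * (1 / (q + 1) * y - 1 / (p + 1) * x) by ring]
    exact mul_ne_zero (by simpa using hR) hW.ne'

theorem shapeU_linear (o : Orb) (e y x s₁ s₂ : ℝ) (j : Fin 14) :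
    o.shapeU e y x s₁ s₂ j = e * o.shapeU 1 0 0 0 0 j + y * o.shapeU 0 1 0 0 0 j +
      x * o.shapeU 0 0 1 0 0 j + s₁ * o.shapeU 0 0 0 1 0 j + s₂ * o.shapeU 0 0 0 0 1 j := by
  fin_cases j <;> simp [Orb.shapeU] <;> ring

theorem shapeG_linear (i : Fin 4) (y e x : ℝ) (j : Fin 14) :
    shapeG i y e x j = y * shapeG i 1 0 0 j + e * shapeG i 0 1 0 j + x * shapeG i 0 0 1 j := by
  fin_cases i <;> fin_cases j <;> simp [Orb.shapeG] <;> ring

theorem shapeT_linear (o : Orb) (u w : ℝ) (j : Fin 14) :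
    o.shapeT u w j = u * o.shapeT 1 0 j + w * o.shapeT 0 1 j := by
  fin_cases j <;> simp [Orb.shapeT] <;> ring

theorem shapeW_linear (u w a b : ℝ) (j : Fin 14) :
    shapeW u w a b j = u * shapeW 1 0 0 0 j + w * shapeW 0 1 0 0 j + a * shapeW 0 0 1 0 j +
      b * shapeW 0 0 0 1 j := by
  fin_cases j <;> simp [Orb.shapeW]

/-- The seven fields move with the velocities. -/
theorem hasDerivAt_fld7 {X Y P Q : ℝ → ℝ} {z d : ℝ} (al be N p q kap : ℝ) (o : Orb)
    (ho : o = ⟨al, be, N, p, q, X z, Y z, P z, Q z, kap⟩) (hX0 : X z ≠ 0) (hY0 : Y z ≠ 0)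
    (hQ0 : Q z ≠ 0) (hX : HasDerivAt X (o.vX / d) z) (hY : HasDerivAt Y (o.vY / d) z)
    (hP : HasDerivAt P (o.vP / d) z) (hQ : HasDerivAt Q (o.vQ / d) z) (r : Fin 7) (j : Fin 14) :
    HasDerivAt (fun t => (⟨al, be, N, p, q, X t, Y t, P t, Q t, kap⟩ : Orb).fld7 r j)
      (o.vel7 r j / d) z := by
  subst ho
  set o : Orb := ⟨al, be, N, p, q, X z, Y z, P z, Q z, kap⟩ with ho
  have dyx : HasDerivAt (fun t => Y t / X t) ((o.vY * o.X - o.Y * o.vX) / o.X ^ 2 / d) z :=
    (hY.fun_div hX hX0).congr_deriv (by simp only [ho]; field_simp)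
  have dxy : HasDerivAt (fun t => X t / Y t) ((o.vX * o.Y - o.X * o.vY) / o.Y ^ 2 / d) z :=
    (hX.fun_div hY hY0).congr_deriv (by simp only [ho]; field_simp)
  have dsC : HasDerivAt (fun t => (⟨al, be, N, p, q, X t, Y t, P t, Q t, kap⟩ : Orb).sC)
      (o.vsC / d) z := by
    have hsU := ((hX.const_mul (-N)).fun_sub (hX.fun_pow 2)).fun_sub hP
    have hsV := ((hY.const_mul (-N)).fun_sub (hY.fun_pow 2)).fun_sub hQ
    refine (((hY.fun_mul hsU).fun_sub (hX.fun_mul hsV)).fun_neg.fun_div (hX.fun_mul hY)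
      (mul_ne_zero hX0 hY0)).congr_deriv ?_
    simp only [ho, Orb.vsC, Orb.vsU, Orb.vsV, Orb.sU, Orb.sV]
    ring
  have ds1 : HasDerivAt (fun t => (⟨al, be, N, p, q, X t, Y t, P t, Q t, kap⟩ : Orb).sC / X t)
      ((o.vsC * o.X - o.sC * o.vX) / o.X ^ 2 / d) z :=
    (dsC.fun_div hX hX0).congr_deriv (by simp only [ho]; field_simp)
  have ds2 : HasDerivAt (fun t => (⟨al, be, N, p, q, X t, Y t, P t, Q t, kap⟩ : Orb).sC / Y t)
      ((o.vsC * o.Y - o.sC * o.vY) / o.Y ^ 2 / d) z :=
    (dsC.fun_div hY hY0).congr_deriv (by simp only [ho]; field_simp)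
  have dD : HasDerivAt (fun t => al * X t + be * Y t) (o.vD / d) z :=
    ((hX.const_mul al).fun_add (hY.const_mul be)).congr_deriv (by simp only [ho, Orb.vD]; ring)
  have du : HasDerivAt (fun t => (al * X t + be * Y t) / X t)
      ((o.vD * o.X - o.D * o.vX) / o.X ^ 2 / d) z :=
    (dD.fun_div hX hX0).congr_deriv (by simp only [ho, Orb.D]; field_simp)
  have dw : HasDerivAt (fun t => (al * X t + be * Y t) / Y t)
      ((o.vD * o.Y - o.D * o.vY) / o.Y ^ 2 / d) z :=
    (dD.fun_div hY hY0).congr_deriv (by simp only [ho, Orb.D]; field_simp)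
  have da : HasDerivAt (fun t => -((al * X t + be * Y t) * Y t / Q t))
      (-(((o.vD * o.Y + o.D * o.vY) * o.Q - o.D * o.Y * o.vQ) / o.Q ^ 2) / d) z :=
    ((dD.fun_mul hY).fun_div hQ hQ0).fun_neg.congr_deriv (by simp only [ho, Orb.D]; field_simp)
  have db : HasDerivAt (fun t => (al * X t + be * Y t) * X t / Q t)
      (((o.vD * o.X + o.D * o.vX) * o.Q - o.D * o.X * o.vQ) / o.Q ^ 2 / d) z :=
    ((dD.fun_mul hX).fun_div hQ hQ0).congr_deriv (by simp only [ho, Orb.D]; field_simp)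
  have lin2 : ∀ {f g : ℝ → ℝ} {f' g' : ℝ} (A B : ℝ), HasDerivAt f (f' / d) z →
      HasDerivAt g (g' / d) z → HasDerivAt (fun t => f t * A + g t * B) ((f' * A + g' * B) / d) z :=
    fun A B hf hg => ((hf.mul_const A).fun_add (hg.mul_const B)).congr_deriv (by ring)
  fin_cases r
  · simp only [Orb.fld7, Orb.vel7, Orb.fU, Orb.vU, Fin.reduceFinMk, Matrix.cons_val]
    change HasDerivAt (fun t => o.shapeU 1 (Y t / X t) (X t / Y t)
      ((⟨al, be, N, p, q, X t, Y t, P t, Q t, kap⟩ : Orb).sC / X t)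
      ((⟨al, be, N, p, q, X t, Y t, P t, Q t, kap⟩ : Orb).sC / Y t) j) _ z
    rw [shapeU_linear]
    conv => arg 1; ext t; rw [shapeU_linear]
    refine ((((hasDerivAt_const z ((1 : ℝ) * o.shapeU 1 0 0 0 0 j)).fun_add
      (dyx.mul_const (o.shapeU 0 1 0 0 0 j))).fun_add (dxy.mul_const (o.shapeU 0 0 1 0 0 j))).fun_add
      (ds1.mul_const (o.shapeU 0 0 0 1 0 j))).fun_add (ds2.mul_const (o.shapeU 0 0 0 0 1 j))
      |>.congr_deriv ?_
    ring
  iterate 4
    · simp only [Orb.fld7, Orb.vel7, Orb.fG, Orb.vG, Fin.reduceFinMk, Matrix.cons_val]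
      rw [shapeG_linear]
      conv => arg 1; ext t; rw [shapeG_linear]
      refine (((dyx.mul_const _).fun_add (hasDerivAt_const z _)).fun_add
        (dxy.mul_const _)).congr_deriv ?_
      ring
  · simp only [Orb.fld7, Orb.vel7, Orb.fT, Orb.vT, Fin.reduceFinMk, Matrix.cons_val]
    change HasDerivAt (fun t => o.shapeT ((al * X t + be * Y t) / X t)
      ((al * X t + be * Y t) / Y t) j) _ z
    rw [shapeT_linear]
    conv => arg 1; ext t; rw [shapeT_linear]
    exact lin2 _ _ du dw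
  · simp only [Orb.fld7, Orb.vel7, Orb.fW, Orb.vW, Fin.reduceFinMk, Matrix.cons_val]
    rw [shapeW_linear]
    conv => arg 1; ext t; rw [shapeW_linear]; simp only [Orb.D]
    refine ((((du.mul_const _).fun_add (dw.mul_const _)).fun_add (da.mul_const _)).fun_add
      (db.mul_const _)).congr_deriv ?_
    ring

end Vale.Agent.P100.Calib
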