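import Mathlib
import Vale.Agent.P100.EnergyH
import Vale.Agent.P100.Calib.Strict

/-!
# No solution from a calibration with varying weight exponents

The calibration is weighted by `u ^ Λ v ^ Μ` with exponents depending on `z = P / Q`. It is turned
into constant exponents `-2 r₁ + 2 q r₂`, `2 p r₁ - 2 r₂` by the factor
`h z = exp (∫_κ^z g/s)`, `g = (lam - Λ)/(q + 1) ≥ 0`, which may vanish at `z = 0`.
-/

open Set Finset

namespace Vale.Agent.P100.Calib

variable {n : ℕ}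

theorem rowGen_smul (t p q : ℝ) (c la mb : Fin 14 → ℝ) (a b : Fin n → ℝ) (P Q : ℝ)
    (H K : Fin n → Fin n → ℝ) :
    rowGen p q (fun j => t * c j) (fun j => t * la j) (fun j => t * mb j) a b P Q H K =
      t * rowGen p q c la mb a b P Q H K := by
  unfold rowGen
  rw [mul_sum]
  exact sum_congr rfl fun j _ => by ring

/-- The factor which makes the exponents constant. -/
theorem exists_factor {κ : ℝ} (hκ : 0 < κ) {g : ℝ → ℝ} (hg : Continuous g) (hg0 : ∀ z, 0 ≤ g z) :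
    ∃ h : ℝ → ℝ, ContDiffOn ℝ 1 h (Ioi 0) ∧ (∀ z, 0 < h z) ∧ (∀ z, 0 < z → z ≤ κ → h z ≤ 1) ∧
      ∀ z, 0 < z → HasDerivAt h (h z * (g z / z)) z := by
  set f : ℝ → ℝ := fun s => g s / s with hf
  have hfc : ContinuousOn f (Ioi 0) :=
    hg.continuousOn.div continuousOn_id fun x hx => (mem_Ioi.1 hx).ne'
  have hsub : ∀ z, 0 < z → uIcc κ z ⊆ Ioi (0 : ℝ) := fun z hz x hx =>
    lt_of_lt_of_le (lt_min hκ hz) hx.1
  have hd : ∀ z, 0 < z → HasDerivAt (fun t => ∫ s in κ..t, f s) (f z) z := fun z hz =>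
    intervalIntegral.integral_hasDerivAt_right ((hfc.mono (hsub z hz)).intervalIntegrable)
      (hfc.stronglyMeasurableAtFilter isOpen_Ioi z hz) (hfc.continuousAt (Ioi_mem_nhds hz))
  refine ⟨fun z => Real.exp (∫ s in κ..z, f s), ?_, fun z => Real.exp_pos _, fun z hz hzκ => ?_,
    fun z hz => (hd z hz).exp⟩
  · rw [show (1 : WithTop ℕ∞) = 0 + 1 by norm_num, contDiffOn_succ_iff_deriv_of_isOpen isOpen_Ioi]
    refine ⟨fun z hz => (hd z hz).exp.differentiableAt.differentiableWithinAt, by simp, ?_⟩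
    rw [contDiffOn_zero]
    refine ContinuousOn.congr ?_ fun z hz => (hd z hz).exp.deriv
    exact (ContinuousOn.rexp fun z hz => (hd z hz).continuousAt.continuousWithinAt).mul hfc
  · rw [Real.exp_le_one_iff, intervalIntegral.integral_symm, neg_nonpos]
    exact intervalIntegral.integral_nonneg hzκ fun s hs =>
      div_nonneg (hg0 s) (hz.le.trans hs.1)

/-- **No solution from a calibration with varying exponents.** `Cv` are the coefficient values and
`Dv` the values of `z c'(z)`, continuous up to `z = 0`. -/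
theorem no_solution_of_calibH (hn : 5 ≤ n) {N p q r₁ r₂ : ℝ} (hN : (n : ℝ) < N)
    (c : Fin 14 → ℝ → ℝ) {S₀ : Set ℝ} (hS : IsOpen S₀) (hI : Ioc 0 ((p + 1) / (q + 1)) ⊆ S₀)
    (hq : 0 < q) (hqp : q ≤ p) (hpq : 1 < p * q) (h1 : 0 ≤ r₁) (h2 : 0 ≤ r₂)
    (hexp : (n : ℝ) < 4 * (1 + r₁ + r₂)) (hc : ∀ j, ContDiffOn ℝ 1 (c j) S₀)
    {Cv Dv : ℝ → Fin 14 → ℝ} {Λ Μ : ℝ → ℝ}
    (hCv : ∀ j, ContinuousOn (fun z => Cv z j) (Icc 0 ((p + 1) / (q + 1))))
    (hDv : ∀ j, ContinuousOn (fun z => Dv z j) (Icc 0 ((p + 1) / (q + 1))))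
    (hΛ : ContinuousOn Λ (Icc 0 ((p + 1) / (q + 1))))
    (hΜ : ContinuousOn Μ (Icc 0 ((p + 1) / (q + 1))))
    (hsum : ∀ z ∈ Icc 0 ((p + 1) / (q + 1)), (p + 1) * Λ z + (q + 1) * Μ z =
      (p + 1) * (-2 * r₁ + 2 * q * r₂) + (q + 1) * (2 * p * r₁ - 2 * r₂))
    (hle : ∀ z ∈ Icc 0 ((p + 1) / (q + 1)), Λ z ≤ -2 * r₁ + 2 * q * r₂)
    (hval : ∀ j, ∀ z ∈ Ioc 0 ((p + 1) / (q + 1)), c j z = Cv z j ∧ deriv (c j) z * z = Dv z j)
    (h0 : ∀ z ∈ Icc 0 ((p + 1) / (q + 1)), 0 < Cv z 0)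
    (hd : ∀ z ∈ Icc 0 ((p + 1) / (q + 1)), 0 < Cv z 0 * Cv z 3 - ((Cv z 1 + Cv z 2) / 2) ^ 2)
    (hpos : ∀ z ∈ Icc 0 ((p + 1) / (q + 1)), ∀ A B D Q : ℝ, 0 ≤ A → 0 ≤ B → D ^ 2 ≤ A * B →
      0 ≤ Q → 0 < A + B + Q →
      let la := fun j => Cv z j * Λ z - (q + 1) * Dv z j
      let mb := fun j => Cv z j * Μ z + (p + 1) * Dv z j
      0 ≤ elimN N p q (Cv z) la mb A D B (z * Q) Q ∧
        (elimN N p q (Cv z) la mb A D B (z * Q) Q = 0 →
          0 < elimGap (Cv z) la mb A D B (z * Q) Q)) :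
    ¬ ∃ u v : EuclideanSpace ℝ (Fin n) → ℝ, IsSol p q u v := by
  set κ := (p + 1) / (q + 1) with hκdef
  set lam := -2 * r₁ + 2 * q * r₂ with hlam
  set mu := 2 * p * r₁ - 2 * r₂ with hmu
  have hκ : 0 < κ := div_pos (by linarith) (by linarith)
  obtain ⟨ε, hε, hb⟩ := exists_eps_of_calib (n := n) (by omega) hN
    (C := Cv) (LA := fun z j => Cv z j * Λ z - (q + 1) * Dv z j)
    (MB := fun z j => Cv z j * Μ z + (p + 1) * Dv z j) hCv
    (fun j => ((hCv j).mul hΛ).sub (continuousOn_const.mul (hDv j)))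
    (fun j => ((hCv j).mul hΜ).add (continuousOn_const.mul (hDv j))) h0 hd hpos
  set g : ℝ → ℝ := fun z => (lam - Λ (projIcc 0 κ hκ.le z)) / (q + 1) with hg
  have hgc : Continuous g := by
    have : Continuous fun z => Λ (projIcc 0 κ hκ.le z) :=
      hΛ.comp_continuous (continuous_subtype_val.comp continuous_projIcc) fun z => Subtype.coe_prop _
    simp only [hg]
    exact (continuous_const.sub this).div_const _
  have hg0 : ∀ z, 0 ≤ g z := fun z =>
    div_nonneg (sub_nonneg.2 (hle _ (Subtype.coe_prop _))) (by linarith)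
  obtain ⟨h, hh1, hh0, hhle, hhd⟩ := exists_factor hκ hgc hg0
  choose R hR using fun j => isCompact_Icc.exists_bound_of_continuousOn (hCv j)
  have hI' : Ioc 0 κ ⊆ S₀ ∩ Ioi 0 := fun z hz => ⟨hI hz, hz.1⟩
  refine no_solution_of_boundH hn (r₁ := r₁) (r₂ := r₂) (ε := ε) (B := ∑ j, |R j|)
    (fun j z => h z * c j z) h (hS.inter isOpen_Ioi) hI' hq hqp hpq h1 h2 hexp hε
    (fun j => (hh1.mono inter_subset_right).mul ((hc j).mono inter_subset_left))
    (hh1.continuousOn.mono fun z hz => hz.1) (fun z hz => ⟨hh0 z, hhle z hz.1 hz.2⟩)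
    (fun j z hz => ?_) (fun a b P Q H K hH hK tH tK hP hQ hPQ => ?_)
  · rw [abs_mul, abs_of_pos (hh0 z), (hval j z hz).1, mul_comm (∑ j, |R j|)]
    exact mul_le_mul_of_nonneg_left (((hR j z ⟨hz.1.le, hz.2⟩).trans (le_abs_self _)).trans
      (single_le_sum (f := fun j => |R j|) (fun i _ => abs_nonneg _) (mem_univ j))) (hh0 z).le
  · set z := P / Q with hzdef
    have hz : z ∈ Ioc 0 κ := ⟨div_pos hP hQ, (div_le_iff₀ hQ).2 hPQ⟩
    have hz' : z ∈ Icc 0 κ := ⟨hz.1.le, hz.2⟩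
    have hgz : (q + 1) * g z = lam - Λ z := by
      have : (q + 1) ≠ 0 := by linarith
      rw [hg]; simp only [projIcc_of_mem hκ.le hz']; field_simp
    have hder : ∀ j, deriv (fun y => h y * c j y) z * z = h z * (g z * Cv z j + Dv z j) := by
      intro j
      have hcj := ((hc j).contDiffAt (hS.mem_nhds (hI hz))).differentiableAt one_ne_zero
      rw [((hhd z hz.1).fun_mul hcj.hasDerivAt).deriv, ← (hval j z hz).2, ← (hval j z hz).1]
      have := hz.1.ne'
      field_simp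
    have hμ : mu + (p + 1) * g z = Μ z := by
      have h3 := hsum z hz'
      have : (q + 1) ≠ 0 := by linarith
      refine mul_left_cancel₀ this ?_
      linear_combination (p + 1) * hgz - h3
    have key := hb a b P Q H K hH hK tH tK hP hQ hPQ
    rw [rowZ_eq_rowGen]
    refine le_trans (le_of_eq ?_) ((mul_le_mul_of_nonneg_left key (hh0 z).le).trans (le_of_eq ?_))
    · ring
    · rw [← rowGen_smul]
      simp only [← hzdef, hder, fun j => (hval j z hz).1]
      congr 1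
      · funext j; linear_combination (h z * Cv z j) * hgz
      · funext j; linear_combination (-(h z * Cv z j)) * hμ

end Vale.Agent.P100.Calib
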