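import Mathlib
import Vale.Agent.P100.Calib.OrbitCoef
import Vale.Agent.P100.Calib.BlockR
import Vale.Agent.P100.Calib.StrictH

/-!
# No solution from a calibration along the critical orbit

For scalars `k r` of class `C¹` in `z` the calibration has `C¹` coefficients through the centre of
the orbit, and the kernel identity passes to the centre by continuity. Hence nonexistence follows
from: at every `z ∈ (0, κ]` a multiplier `μ` making the gradient block minus `μ (AB - C²)` positive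
definite with `0 ≤ μ` and `μ R ≤ τ R`; and positivity for the limits at `z = 0`.
-/

open Set Filter Topology

namespace Vale.Agent.P100.Calib

open Orb Bubble

variable {n : ℕ} {N p q kap : ℝ} {S : Set ℝ} {R x y s dx dy : ℝ → ℝ}

/-- `(x - z y)/R`. -/
noncomputable def wFun (N : ℝ) (x y dx dy : ℝ → ℝ) (z : ℝ) : ℝ :=
  2 / N * (x z ^ 2 - z * y z ^ 2 - dx z + z * dy z)

/-- The calibration coefficients as functions of `z`. -/
noncomputable def orbCoef (N p q : ℝ) (R x y s dx dy : ℝ → ℝ) (k : Fin 7 → ℝ → ℝ) (j : Fin 14)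
    (z : ℝ) : ℝ :=
  (orbAt N p q 0 0 0 0 0 0).cBase j +
    ∑ r, k r z * regFld N p q (R z) (x z) (y z) (s z) (wFun N x y dx dy z) r j

/-- The derivatives of the weighted coefficients along `a`. -/
noncomputable def orbLa (N p q kap : ℝ) (R x y s dx dy : ℝ → ℝ) (k : Fin 7 → ℝ → ℝ) (z : ℝ)
    (j : Fin 14) : ℝ :=
  orbCoef N p q R x y s dx dy k j z * lamR N p q kap (x z) (y z) -
    (q + 1) * (deriv (orbCoef N p q R x y s dx dy k j) z * z)

/-- The derivatives of the weighted coefficients along `b`. -/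
noncomputable def orbMb (N p q kap : ℝ) (R x y s dx dy : ℝ → ℝ) (k : Fin 7 → ℝ → ℝ) (z : ℝ)
    (j : Fin 14) : ℝ :=
  orbCoef N p q R x y s dx dy k j z * muR N p q kap (x z) (y z) +
    (p + 1) * (deriv (orbCoef N p q R x y s dx dy k j) z * z)

section
variable (hc : IsCrit N p q) (h : IsOrbitFns N p q S R x y s dx dy)
include hc h

theorem dR_neg {z : ℝ} (hz : z ∈ S) :
    -(1 / (p + 1) * (1 / (q + 1))) / (z * (1 / (q + 1) * y z - 1 / (p + 1) * x z)) < 0 := by
  have := hc.p_pos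
  have := hc.q_pos
  exact div_neg_of_neg_of_pos (neg_neg_of_pos (by positivity)) (mul_pos (h.pos hz) (h.W_pos z hz))

theorem wFun_eq {z : ℝ} (hz : z ∈ S) : R z * wFun N x y dx dy z = x z - z * y z := by
  have hN : N ≠ 0 := by linarith [hc.dim]
  rw [wFun]
  field_simp
  linear_combination -2 * h.ode_x z hz + 2 * z * h.ode_y z hz

theorem contDiffOn_wFun : ContDiffOn ℝ 1 (wFun N x y dx dy) S := by
  obtain ⟨z₀, hz₀, hR0⟩ := h.crossing
  have hz₀S : z₀ ∈ S := h.cover (Ioo_subset_Ioc_self hz₀)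
  obtain ⟨hR1, hx1, hy1, hs1⟩ := h.smooth
  have hN : N ≠ 0 := by linarith [hc.dim]
  have hp1 : p + 1 ≠ 0 := by linarith [hc.p_pos]
  have hq1 : q + 1 ≠ 0 := by linarith [hc.q_pos]
  set R' : ℝ → ℝ := fun z =>
    -(1 / (p + 1) * (1 / (q + 1))) / (z * (1 / (q + 1) * y z - 1 / (p + 1) * x z)) with hR'
  set G : ℝ → ℝ := fun z => x z ^ 2 - z * y z ^ 2 +
    z * y z * (1 / (q + 1) * y z - 1 / (p + 1) * x z) / (1 / (p + 1) * (1 / (q + 1))) with hG
  have hne : ∀ z ∈ S, z ≠ z₀ → R z ≠ 0 := fun z hz hzn h0 =>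
    hzn (h.anti.injOn hz hz₀S (h0.trans hR0.symm))
  refine contDiffOn_of_singular h.isOpen (R := R) (R' := R') (G := G) (a := 1 + N / 2) (z₀ := z₀)
    (by linarith [hc.dim]) hz₀S hR0 hne h.dR (fun z hz => dR_neg hc h hz) ?_ ?_ ?_ ?_ ?_
  · exact continuousOn_const.div (continuousOn_id.mul
      ((continuousOn_const.mul hy1.continuousOn).sub (continuousOn_const.mul hx1.continuousOn)))
      fun z hz => (mul_pos (h.pos hz) (h.W_pos z hz)).ne'
  · exact continuousOn_const.mul ((((hx1.continuousOn.pow 2).sub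
      (continuousOn_id.mul (hy1.continuousOn.pow 2))).sub h.cont_dx).add
      (continuousOn_id.mul h.cont_dy))
  · exact ((hx1.pow 2).sub (contDiffOn_id.mul (hy1.pow 2))).add
      (((contDiffOn_id.mul hy1).mul ((contDiffOn_const.mul hy1).sub
        (contDiffOn_const.mul hx1))).div_const _)
  · have e1 := h.zero_x z₀ hz₀S hR0
    have e2 := h.zero_y z₀ hz₀S hR0
    have e3 := h.ode_x z₀ hz₀S
    have e4 := h.ode_y z₀ hz₀S
    have ha : (1 + N / 2) ≠ 0 := by linarith [hc.dim]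
    rw [hR0, zero_mul] at e3 e4
    have ex : dx z₀ = (z₀ * s z₀ * (x z₀ - p * y z₀) / 4 + x z₀ ^ 2) / (1 + N / 2) := by
      rw [eq_div_iff ha]; linear_combination e1
    have ey : dy z₀ = (s z₀ * (y z₀ - q * x z₀) / 4 + y z₀ ^ 2) / (1 + N / 2) := by
      rw [eq_div_iff ha]; linear_combination e2
    have es : s z₀ = 2 * N * y z₀ := by linear_combination (-4) * e4
    have exz : x z₀ = z₀ * y z₀ := by
      refine mul_left_cancel₀ hN ?_
      linear_combination 2 * e3 - 2 * z₀ * e4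
    have : (2 + N) ≠ 0 := by linarith [hc.dim]
    simp only [hG, wFun, ex, ey, es, exz]
    field_simp
    ring
  · intro z hz hzn
    have hRz := hne z hz hzn
    have hd := (((h.deriv_x z hz).fun_sub ((hasDerivAt_id z).fun_mul (h.deriv_y z hz))).fun_div
      (h.dR z hz) hRz)
    have heq : wFun N x y dx dy =ᶠ[𝓝 z] fun t => (x t - id t * y t) / R t := by
      filter_upwards [h.isOpen.mem_nhds hz, (h.dR z hz).continuousAt.eventually_ne hRz] with t ht htR
      rw [eq_div_iff htR, id_eq, ← wFun_eq hc h ht, mul_comm]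
    refine (hd.congr_of_eventuallyEq heq).congr_deriv ?_
    have hzz := (show (0 : ℝ) < z from h.pos hz).ne'
    have hW := (h.W_pos z hz).ne'
    have hcab : 1 / (p + 1) * (1 / (q + 1)) ≠ 0 := by positivity
    simp only [hR', hG, id_eq, one_mul]
    rw [show x z - z * y z = R z * wFun N x y dx dy z from (wFun_eq hc h hz).symm]
    generalize 1 / (q + 1) * y z - 1 / (p + 1) * x z = W at hW ⊢
    generalize 1 / (p + 1) * (1 / (q + 1)) = c at hcab ⊢
    simp only [wFun]
    field_simp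
    ring

theorem contDiffOn_orbCoef {k : Fin 7 → ℝ → ℝ} (hk : ∀ r, ContDiffOn ℝ 1 (k r) S) (j : Fin 14) :
    ContDiffOn ℝ 1 (orbCoef N p q R x y s dx dy k j) S := by
  obtain ⟨hR1, hx1, hy1, hs1⟩ := h.smooth
  have hw := contDiffOn_wFun hc h
  set o := orbAt N p q 0 0 0 0 0 0
  have nx : ∀ z ∈ S, x z ≠ 0 := fun z hz => (h.x_pos z hz).ne'
  have ny : ∀ z ∈ S, y z ≠ 0 := fun z hz => (h.y_pos z hz).ne'
  have ns : ∀ z ∈ S, s z ≠ 0 := fun z hz => (h.s_pos z hz).ne'
  have dD : ContDiffOn ℝ 1 (fun z => 1 / (p + 1) * x z + 1 / (q + 1) * y z) S :=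
    (contDiffOn_const.mul hx1).add (contDiffOn_const.mul hy1)
  have hσ : ContDiffOn ℝ 1 (fun z => -(2 * (y z - x z) +
      s z * wFun N x y dx dy z / (2 * (x z * y z)))) S :=
    ((contDiffOn_const.mul (hy1.sub hx1)).add ((hs1.mul hw).div
      (contDiffOn_const.mul (hx1.mul hy1)) fun z hz => by simp [nx z hz, ny z hz])).neg
  have e1 := hy1.div hx1 nx
  have e2 := hx1.div hy1 ny
  have e3 := hσ.div (contDiffOn_const (c := (2 : ℝ)).mul hx1) fun z hz => by simp [nx z hz]
  have e4 := hσ.div (contDiffOn_const (c := (2 : ℝ)).mul hy1) fun z hz => by simp [ny z hz]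
  have e5 := dD.div hx1 nx
  have e6 := dD.div hy1 ny
  have e7 : ContDiffOn ℝ 1
      (fun z => -(4 * R z * (1 / (p + 1) * x z + 1 / (q + 1) * y z) * y z / s z)) S :=
    ((((contDiffOn_const.mul hR1).mul dD).mul hy1).div hs1 ns).neg
  have e8 : ContDiffOn ℝ 1
      (fun z => 4 * R z * (1 / (p + 1) * x z + 1 / (q + 1) * y z) * x z / s z) S :=
    (((contDiffOn_const.mul hR1).mul dD).mul hx1).div hs1 ns
  have hfld : ∀ r, ContDiffOn ℝ 1
      (fun z => regFld N p q (R z) (x z) (y z) (s z) (wFun N x y dx dy z) r j) S := by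
    intro r
    fin_cases r <;> simp only [regFld, Fin.reduceFinMk, Matrix.cons_val]
    · exact (((((contDiffOn_const).add (e1.mul contDiffOn_const)).add
        (e2.mul contDiffOn_const)).add (e3.mul contDiffOn_const)).add
        (e4.mul contDiffOn_const)).congr fun z _ => shapeU_linear o _ _ _ _ _ j
    iterate 4
      · exact (((e1.mul contDiffOn_const).add contDiffOn_const).add
          (e2.mul contDiffOn_const)).congr fun z _ => shapeG_linear _ _ _ _ j
    · exact ((e5.mul contDiffOn_const).add (e6.mul contDiffOn_const)).congr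
        fun z _ => shapeT_linear o _ _ j
    · exact ((((e5.mul contDiffOn_const).add (e6.mul contDiffOn_const)).add
        (e7.mul contDiffOn_const)).add (e8.mul contDiffOn_const)).congr
        fun z _ => shapeW_linear _ _ _ _ j
  exact contDiffOn_const.add (ContDiffOn.sum fun r _ => (hk r).mul (hfld r))

/-- Where `R ≠ 0` the coefficients are those of the calibration at the orbit point. -/
theorem orbCoef_spec {k : Fin 7 → ℝ → ℝ} (hk : ∀ r, ContDiffOn ℝ 1 (k r) S) {z : ℝ} (hz : z ∈ S)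
    (hR : R z ≠ 0) (j : Fin 14) :
    let o := orbAt N p q kap (R z) (x z) (y z) z (s z)
    o.Valid ∧ orbCoef N p q R x y s dx dy k j z = o.coef (fun r => k r z) j ∧
      deriv (orbCoef N p q R x y s dx dy k j) z * z =
        o.dcoef (fun r => k r z) (fun r => deriv (k r) z * z) j := by
  intro o
  obtain ⟨hal, -, hw⟩ := hc.weights
  have hN : 0 < N := by linarith [hc.dim]
  have hzp : (0 : ℝ) < z := h.pos hz
  have hW := h.W_pos z hz
  have hv : o.Valid := orbAt_valid hc.p_pos hc.q_pos hN hw hR (h.x_pos z hz) (h.y_pos z hz)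
    (h.s_pos z hz) hW (h.quad z hz)
  have hfld : ∀ t ∈ S, R t ≠ 0 →
      regFld N p q (R t) (x t) (y t) (s t) (wFun N x y dx dy t) =
        (orbAt N p q kap (R t) (x t) (y t) t (s t)).fld7 := fun t ht htR =>
    (regFld_eq htR (h.x_pos t ht).ne' (h.y_pos t ht).ne' (h.s_pos t ht).ne' (wFun_eq hc h ht)).symm
  refine ⟨hv, ?_, ?_⟩
  · simp only [orbCoef, hfld z hz hR]
    rfl
  have hphi := phi_ne o hv
  have hp1 : p + 1 ≠ 0 := by linarith [hc.p_pos]
  have hq1 : q + 1 ≠ 0 := by linarith [hc.q_pos]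
  have hphi' : o.phi = -2 * R z * (1 / (q + 1) * y z - 1 / (p + 1) * x z) /
      (1 / (p + 1) * (1 / (q + 1))) := by
    simp only [o, orbAt, Orb.phi]; field_simp; ring
  have hX : HasDerivAt (fun t => -2 * R t * x t) (o.vX / (z * o.phi)) z := by
    refine (((h.dR z hz).const_mul (-2)).fun_mul (h.deriv_x z hz)).congr_deriv ?_
    rw [hphi']
    have hWne := hW.ne'
    simp only [o, orbAt, Orb.vX]
    generalize 1 / (q + 1) * y z - 1 / (p + 1) * x z = W at hWne ⊢
    field_simp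
    linear_combination 4 * h.ode_x z hz
  have hY : HasDerivAt (fun t => -2 * R t * y t) (o.vY / (z * o.phi)) z := by
    refine (((h.dR z hz).const_mul (-2)).fun_mul (h.deriv_y z hz)).congr_deriv ?_
    rw [hphi']
    have hWne := hW.ne'
    simp only [o, orbAt, Orb.vY]
    generalize 1 / (q + 1) * y z - 1 / (p + 1) * x z = W at hWne ⊢
    field_simp
    linear_combination 4 * h.ode_y z hz
  have hQ : HasDerivAt (fun t => R t * s t) (o.vQ / (z * o.phi)) z := by
    refine ((h.dR z hz).fun_mul (h.deriv_s z hz)).congr_deriv ?_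
    rw [hphi']
    have hWne := hW.ne'
    simp only [o, orbAt, Orb.vQ]
    generalize 1 / (q + 1) * y z - 1 / (p + 1) * x z = W at hWne ⊢
    field_simp
    ring
  have hP : HasDerivAt (fun t => R t * (t * s t)) (o.vP / (z * o.phi)) z := by
    have e : o.vP = z * o.vQ + o.Q * z * o.phi := by
      simp only [o, orbAt, Orb.vP, Orb.vQ, Orb.phi]; ring
    have h2 := (hasDerivAt_id z).fun_mul hQ
    refine (h2.congr_deriv ?_).congr_of_eventuallyEq
      (Eventually.of_forall fun t => by simp only [id_eq]; ring)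
    have hQe : o.Q = R z * s z := rfl
    rw [e, hQe]
    simp only [id_eq, one_mul]
    field_simp
    ring
  have hd : ∀ r, HasDerivAt (fun t => regFld N p q (R t) (x t) (y t) (s t) (wFun N x y dx dy t) r j)
      (o.vel7 r j / (z * o.phi)) z := fun r => by
    have h1 := hasDerivAt_fld7 (X := fun t => -2 * R t * x t) (Y := fun t => -2 * R t * y t)
      (P := fun t => R t * (t * s t)) (Q := fun t => R t * s t)
      (1 / (p + 1)) (1 / (q + 1)) N p q kap o rfl hv.X0 hv.Y0 hv.Q0 hX hY hP hQ r j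
    refine h1.congr_of_eventuallyEq ?_
    filter_upwards [h.isOpen.mem_nhds hz, (h.dR z hz).continuousAt.eventually_ne hR] with t ht htR
    rw [hfld t ht htR]
    rfl
  have hkd : ∀ r, HasDerivAt (k r) (deriv (k r) z) z := fun r =>
    (((hk r).contDiffAt (h.isOpen.mem_nhds hz)).differentiableAt one_ne_zero).hasDerivAt
  have hall := (HasDerivAt.fun_sum (u := Finset.univ) fun r _ => (hkd r).fun_mul (hd r)).const_add
    ((orbAt N p q 0 0 0 0 0 0).cBase j)
  rw [show deriv (orbCoef N p q R x y s dx dy k j) z = _ from hall.deriv, Finset.sum_mul, Orb.dcoef]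
  refine Finset.sum_congr rfl fun r _ => ?_
  rw [hfld z hz hR]
  have := hzp.ne'
  field_simp
  simp only [o]
  ring

theorem continuousOn_lamR :
    ContinuousOn (fun z => lamR N p q kap (x z) (y z)) S ∧
      ContinuousOn (fun z => muR N p q kap (x z) (y z)) S := by
  obtain ⟨-, hx1, hy1, -⟩ := h.smooth
  have cx := hx1.continuousOn
  have cy := hy1.continuousOn
  have hN : N ≠ 0 := by linarith [hc.dim]
  have := hc.p_pos
  have := hc.q_pos
  have hD : ∀ z ∈ S, 1 / (p + 1) * x z + 1 / (q + 1) * y z ≠ 0 := fun z hz => by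
    have := h.x_pos z hz
    have := h.y_pos z hz
    positivity
  have hE : ∀ z ∈ S, N * (1 / (p + 1) * x z - 1 / (q + 1) * y z) ≠ 0 := fun z hz =>
    mul_ne_zero hN (by linarith [h.W_pos z hz])
  constructor <;> simp only [lamR, muR] <;> fun_prop (disch := assumption)

/-- The exponents have a constant weighted sum. -/
theorem lamR_add_muR {r₁ r₂ z : ℝ} (hz : z ∈ S) (hr : r₁ + r₂ = (N - 4 - kap) / 4) :
    (p + 1) * lamR N p q kap (x z) (y z) + (q + 1) * muR N p q kap (x z) (y z) =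
      (p + 1) * (-2 * r₁ + 2 * q * r₂) + (q + 1) * (2 * p * r₁ - 2 * r₂) := by
  obtain ⟨hal, -, hw⟩ := hc.weights
  have hN : N ≠ 0 := by linarith [hc.dim]
  have hp1 : p + 1 ≠ 0 := by linarith [hc.p_pos]
  have hq1 : q + 1 ≠ 0 := by linarith [hc.q_pos]
  have hW := h.W_pos z hz
  have hE : 1 / (p + 1) * x z - 1 / (q + 1) * y z ≠ 0 := by linarith
  have hxy : (p + 1) * y z - (q + 1) * x z =
      -((1 / (p + 1) * x z - 1 / (q + 1) * y z) / (1 / (p + 1) * (1 / (q + 1)))) := by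
    field_simp; ring
  have e1 : (p + 1) * lamR N p q kap (x z) (y z) + (q + 1) * muR N p q kap (x z) (y z) =
      p + q + 2 - (kap + 2) * ((p + 1) * (q + 1)) / N := by
    simp only [lamR, muR]
    generalize (1 / (p + 1) * x z ^ 2 + 1 / (q + 1) * y z ^ 2 - x z * y z) /
      (1 / (p + 1) * x z + 1 / (q + 1) * y z) = J
    generalize hE' : 1 / (p + 1) * x z - 1 / (q + 1) * y z = E at hE hxy
    field_simp at hxy ⊢
    linear_combination (kap + 2) * hxy
  have e2 : p * q - 1 = 2 * ((p + 1) * (q + 1)) / N := by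
    field_simp at hw ⊢
    linear_combination -hw
  have e3 : p + q + 2 = (N - 2) * ((p + 1) * (q + 1)) / N := by
    field_simp at hw ⊢
    linear_combination hw
  rw [e1, show (p + 1) * (-2 * r₁ + 2 * q * r₂) + (q + 1) * (2 * p * r₁ - 2 * r₂) =
    2 * (p * q - 1) * (r₁ + r₂) by ring, e2, e3, hr]
  field_simp
  ring

/-- Where `R ≠ 0` the kernel conditions hold. -/
theorem rayKer_orbit_off {k : Fin 7 → ℝ → ℝ} (hk : ∀ r, ContDiffOn ℝ 1 (k r) S) {z : ℝ}
    (hz : z ∈ S) (hR : R z ≠ 0)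
    (hd : orbCoef N p q R x y s dx dy k 0 z * orbCoef N p q R x y s dx dy k 3 z -
      ((orbCoef N p q R x y s dx dy k 1 z + orbCoef N p q R x y s dx dy k 2 z) / 2) ^ 2 ≠ 0) :
    RayKer N p q (fun j => orbCoef N p q R x y s dx dy k j z)
      (orbLa N p q kap R x y s dx dy k z) (orbMb N p q kap R x y s dx dy k z)
      (R z) (x z) (y z) z (s z) := by
  set o := orbAt N p q kap (R z) (x z) (y z) z (s z) with ho
  set kz := fun r => k r z
  set dk := fun r => deriv (k r) z * z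
  obtain ⟨hv, e1, e2⟩ : o.Valid ∧ (fun j => orbCoef N p q R x y s dx dy k j z) = o.coef kz ∧
      (fun j => deriv (orbCoef N p q R x y s dx dy k j) z * z) = o.dcoef kz dk :=
    ⟨(orbCoef_spec hc h hk hz hR 0).1, funext fun j => (orbCoef_spec hc h hk hz hR j).2.1,
      funext fun j => (orbCoef_spec hc h hk hz hR j).2.2⟩
  obtain ⟨el, em⟩ := lam_orbAt (N := N) (p := p) (q := q) (kap := kap) (x := x z) (y := y z)
    (z := z) (s := s z) hR
  have ea : orbLa N p q kap R x y s dx dy k z = o.cLa kz dk := funext fun j => by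
    rw [orbLa, Orb.cLa, congrFun e1 j, congrFun e2 j, ho, el]
    rfl
  have eb : orbMb N p q kap R x y s dx dy k z = o.cMb kz dk := funext fun j => by
    rw [orbMb, Orb.cMb, congrFun e1 j, congrFun e2 j, ho, em]
    rfl
  rw [e1, ea, eb]
  rw [congrFun e1 0, congrFun e1 1, congrFun e1 2, congrFun e1 3] at hd
  exact rayKer_of_isKer (o := o) (isKer_coef o hv kz dk) hR (h.y_pos z hz).ne'
    (h.s_pos z hz).ne' rfl rfl rfl rfl hd

/-- The kernel conditions hold at every point, the centre included. -/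
theorem rayKer_orbit {k : Fin 7 → ℝ → ℝ} (hk : ∀ r, ContDiffOn ℝ 1 (k r) S) {z : ℝ} (hz : z ∈ S)
    (hd : orbCoef N p q R x y s dx dy k 0 z * orbCoef N p q R x y s dx dy k 3 z -
      ((orbCoef N p q R x y s dx dy k 1 z + orbCoef N p q R x y s dx dy k 2 z) / 2) ^ 2 ≠ 0) :
    RayKer N p q (fun j => orbCoef N p q R x y s dx dy k j z)
      (orbLa N p q kap R x y s dx dy k z) (orbMb N p q kap R x y s dx dy k z)
      (R z) (x z) (y z) z (s z) := by
  by_cases hR : R z = 0
  swap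
  · exact rayKer_orbit_off hc h hk hz hR hd
  set c : Fin 14 → ℝ → ℝ := orbCoef N p q R x y s dx dy k with hcdef
  have cc : ∀ j, ContinuousAt (c j) z := fun j =>
    ((contDiffOn_orbCoef hc h hk j).continuousOn).continuousAt (h.isOpen.mem_nhds hz)
  have cd : ∀ j, ContinuousAt (deriv (c j)) z := fun j =>
    ((contDiffOn_orbCoef hc h hk j).continuousOn_deriv_of_isOpen h.isOpen le_rfl).continuousAt
      (h.isOpen.mem_nhds hz)
  have cla : ∀ j, ContinuousAt (fun t => orbLa N p q kap R x y s dx dy k t j) z := fun j =>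
    ((cc j).mul ((continuousOn_lamR (kap := kap) hc h).1.continuousAt (h.isOpen.mem_nhds hz))).sub
      (continuousAt_const.mul ((cd j).mul continuousAt_id))
  have cmb : ∀ j, ContinuousAt (fun t => orbMb N p q kap R x y s dx dy k t j) z := fun j =>
    ((cc j).mul ((continuousOn_lamR (kap := kap) hc h).2.continuousAt (h.isOpen.mem_nhds hz))).add
      (continuousAt_const.mul ((cd j).mul continuousAt_id))
  obtain ⟨hR1, hx1, hy1, hs1⟩ := h.smooth
  have cR := hR1.continuousOn.continuousAt (h.isOpen.mem_nhds hz)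
  have cx := hx1.continuousOn.continuousAt (h.isOpen.mem_nhds hz)
  have cy := hy1.continuousOn.continuousAt (h.isOpen.mem_nhds hz)
  have cs := hs1.continuousOn.continuousAt (h.isOpen.mem_nhds hz)
  have cid : ContinuousAt (fun t : ℝ => t) z := continuousAt_id
  have hy0 := (h.y_pos z hz).ne'
  have hN : N ≠ 0 := by linarith [hc.dim]
  have near : ∀ᶠ t in 𝓝[≠] z, RayKer N p q (fun j => c j t)
      (orbLa N p q kap R x y s dx dy k t) (orbMb N p q kap R x y s dx dy k t)
      (R t) (x t) (y t) t (s t) := by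
    filter_upwards [self_mem_nhdsWithin, mem_nhdsWithin_of_mem_nhds (h.isOpen.mem_nhds hz),
      (((cc 0).mul (cc 3)).sub ((((cc 1).add (cc 2)).div_const 2).pow 2)).tendsto.mono_left
        nhdsWithin_le_nhds |>.eventually_ne hd] with t ht htS htd
    exact rayKer_orbit_off hc h hk htS
      (fun h0 => ht (h.anti.injOn htS hz (h0.trans hR.symm))) htd
  have eq_of : ∀ f g : ℝ → ℝ, ContinuousAt f z → ContinuousAt g z →
      (∀ᶠ t in 𝓝[≠] z, f t = g t) → f z = g z := fun f g hf hg e =>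
    tendsto_nhds_unique_of_eventuallyEq (hf.tendsto.mono_left nhdsWithin_le_nhds)
      (hg.tendsto.mono_left nhdsWithin_le_nhds) e
  have hdne : c 0 z * c 3 z - ((c 1 z + c 2 z) / 2) ^ 2 ≠ 0 := hd
  have hd4 : 4 * (c 0 z * c 3 z - ((c 1 z + c 2 z) / 2) ^ 2) ≠ 0 := mul_ne_zero (by norm_num) hd
  have hy4 : 4 * y z ^ 2 ≠ 0 := mul_ne_zero (by norm_num) (pow_ne_zero 2 hy0)
  have celim : ∀ A C B P Q : ℝ → ℝ, ContinuousAt A z → ContinuousAt C z → ContinuousAt B z →
      ContinuousAt P z → ContinuousAt Q z → ContinuousAt (fun t => elimN N p q (fun j => c j t)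
        (orbLa N p q kap R x y s dx dy k t) (orbMb N p q kap R x y s dx dy k t)
        (A t) (C t) (B t) (P t) (Q t)) z := by
    intro A C B P Q hA hC hB hP hQ
    simp only [elimN, freePart, hessPair, gram, linU, linV, Matrix.cons_val_zero,
      Matrix.cons_val_one, Matrix.cons_val_two, Matrix.tail_cons, Matrix.head_cons]
    fun_prop (disch := assumption)
  refine ⟨fun A C B => ?_, ?_, ?_⟩
  · refine eq_of
      (fun t => elimN N p q (fun j => c j t) (orbLa N p q kap R x y s dx dy k t)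
        (orbMb N p q kap R x y s dx dy k t) (A + 4 * R t * x t ^ 2) (C + 4 * R t * x t * y t)
        (B + 4 * R t * y t ^ 2) (t * s t) (s t))
      (fun t => elimN N p q (fun j => c j t) (orbLa N p q kap R x y s dx dy k t)
        (orbMb N p q kap R x y s dx dy k t) A C B 0 0 +
          4 * rayTau N p q (fun j => c j t) (orbLa N p q kap R x y s dx dy k t)
            (orbMb N p q kap R x y s dx dy k t) (R t) (x t) (y t) t (s t) *
            (y t ^ 2 * A - 2 * (x t * y t) * C + x t ^ 2 * B))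
      ?_ ?_ (near.mono fun t ht => ht.ker A C B)
    · exact celim _ _ _ _ _ (by fun_prop) (by fun_prop) (by fun_prop) (by fun_prop) cs
    · simp only [rayTau]
      refine (celim _ _ _ _ _ (by fun_prop) (by fun_prop) (by fun_prop) (by fun_prop)
        (by fun_prop)).add (ContinuousAt.mul (continuousAt_const.mul (ContinuousAt.div
          ((celim _ _ _ _ _ (by fun_prop) (by fun_prop) (by fun_prop) (by fun_prop) cs).sub
            (celim _ _ _ _ _ (by fun_prop) (by fun_prop) (by fun_prop) (by fun_prop) (by fun_prop)))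
          (by fun_prop) hy4)) (by fun_prop))
  · refine eq_of
      (fun t => 2 * c 0 t * (2 * N * x t - 4 * R t * x t ^ 2 - t * s t) +
        (c 1 t + c 2 t) * (2 * N * y t - 4 * R t * y t ^ 2 - s t) +
        lu (fun j => c j t) (orbLa N p q kap R x y s dx dy k t) (orbMb N p q kap R x y s dx dy k t)
          (4 * R t * x t ^ 2) (4 * R t * x t * y t) (4 * R t * y t ^ 2))
      (fun _ => 0) ?_ continuousAt_const (near.mono fun t ht => ht.statU)
    simp only [lu, linU, Matrix.cons_val_zero, Matrix.cons_val_one, Matrix.cons_val_two,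
      Matrix.tail_cons, Matrix.head_cons]
    fun_prop
  · refine eq_of
      (fun t => (c 1 t + c 2 t) * (2 * N * x t - 4 * R t * x t ^ 2 - t * s t) +
        2 * c 3 t * (2 * N * y t - 4 * R t * y t ^ 2 - s t) +
        lv (fun j => c j t) (orbLa N p q kap R x y s dx dy k t) (orbMb N p q kap R x y s dx dy k t)
          (4 * R t * x t ^ 2) (4 * R t * x t * y t) (4 * R t * y t ^ 2))
      (fun _ => 0) ?_ continuousAt_const (near.mono fun t ht => ht.statV)
    simp only [lv, linV, Matrix.cons_val_zero, Matrix.cons_val_one, Matrix.cons_val_two,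
      Matrix.tail_cons, Matrix.head_cons]
    fun_prop

/-- **No solution from a calibration along the orbit.** At every `z ∈ (0, κ]` positivity of the
eliminated form, with positive surplus at its zeros; at `z = 0` the same for the limit values `C₀`,
`D₀`, `L₀` of `c`, `z c'`, `lam`. -/
theorem no_solution_of_orbit_pos (hn : 5 ≤ n) (hnN : (n : ℝ) < N) {r₁ r₂ : ℝ} (h1 : 0 ≤ r₁)
    (h2 : 0 ≤ r₂) (hr : r₁ + r₂ = (N - 4 - kap) / 4) (hkap : (n : ℝ) < N - kap)
    {k : Fin 7 → ℝ → ℝ} (hk : ∀ r, ContDiffOn ℝ 1 (k r) S)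
    (hle : ∀ z ∈ Ioc 0 ((p + 1) / (q + 1)),
      lamR N p q kap (x z) (y z) ≤ -2 * r₁ + 2 * q * r₂)
    (hpos : ∀ z ∈ Ioc 0 ((p + 1) / (q + 1)),
      let c := fun j => orbCoef N p q R x y s dx dy k j z
      let la := orbLa N p q kap R x y s dx dy k z
      let mb := orbMb N p q kap R x y s dx dy k z
      0 < c 0 ∧ 0 < c 0 * c 3 - ((c 1 + c 2) / 2) ^ 2 ∧
      ∀ A B D Q : ℝ, 0 ≤ A → 0 ≤ B → D ^ 2 ≤ A * B → 0 ≤ Q → 0 < A + B + Q →
        0 ≤ elimN N p q c la mb A D B (z * Q) Q ∧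
          (elimN N p q c la mb A D B (z * Q) Q = 0 → 0 < elimGap c la mb A D B (z * Q) Q))
    {C₀ D₀ : Fin 14 → ℝ} {L₀ : ℝ}
    (hC0 : ∀ j, Tendsto (fun z => orbCoef N p q R x y s dx dy k j z) (𝓝[>] 0) (𝓝 (C₀ j)))
    (hD0 : ∀ j, Tendsto (fun z => deriv (orbCoef N p q R x y s dx dy k j) z * z) (𝓝[>] 0)
      (𝓝 (D₀ j)))
    (hL0 : Tendsto (fun z => lamR N p q kap (x z) (y z)) (𝓝[>] 0) (𝓝 L₀))
    (h00 : 0 < C₀ 0) (hd0 : 0 < C₀ 0 * C₀ 3 - ((C₀ 1 + C₀ 2) / 2) ^ 2)
    (hpos0 : ∀ A B D Q : ℝ, 0 ≤ A → 0 ≤ B → D ^ 2 ≤ A * B → 0 ≤ Q → 0 < A + B + Q →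
      let M₀ := ((p + 1) * (-2 * r₁ + 2 * q * r₂) + (q + 1) * (2 * p * r₁ - 2 * r₂) -
        (p + 1) * L₀) / (q + 1)
      let la := fun j => C₀ j * L₀ - (q + 1) * D₀ j
      let mb := fun j => C₀ j * M₀ + (p + 1) * D₀ j
      0 ≤ elimN N p q C₀ la mb A D B 0 Q ∧
        (elimN N p q C₀ la mb A D B 0 Q = 0 → 0 < elimGap C₀ la mb A D B 0 Q)) :
    ¬ ∃ u v : EuclideanSpace ℝ (Fin n) → ℝ, IsSol p q u v := by
  have hp := hc.p_pos
  have hq := hc.q_pos
  obtain ⟨hal, -, hw⟩ := hc.weights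
  have hN : 0 < N := by linarith [hc.dim]
  set κ := (p + 1) / (q + 1) with hκ
  set lam := -2 * r₁ + 2 * q * r₂ with hlam
  set T := (p + 1) * lam + (q + 1) * (2 * p * r₁ - 2 * r₂) with hT
  set c : Fin 14 → ℝ → ℝ := orbCoef N p q R x y s dx dy k with hcdef
  have hpq : 1 < p * q := by
    have e2 : p * q - 1 = 2 * ((p + 1) * (q + 1)) / N := by
      field_simp at hw ⊢
      linear_combination -hw
    have : 0 < 2 * ((p + 1) * (q + 1)) / N := by positivity
    linarith
  set Cv : ℝ → Fin 14 → ℝ := fun z j => if z = 0 then C₀ j else c j z with hCvd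
  set Dv : ℝ → Fin 14 → ℝ := fun z j => if z = 0 then D₀ j else deriv (c j) z * z with hDvd
  set Λ : ℝ → ℝ := fun z => if z = 0 then L₀ else lamR N p q kap (x z) (y z) with hΛd
  set Μ : ℝ → ℝ := fun z => (T - (p + 1) * Λ z) / (q + 1) with hΜd
  have cont : ∀ (f : ℝ → ℝ) (f₀ : ℝ), ContinuousOn f S → Tendsto f (𝓝[>] 0) (𝓝 f₀) →
      ContinuousOn (fun z => if z = 0 then f₀ else f z) (Icc 0 κ) := by
    intro f f₀ hf hf₀ t ht
    rcases eq_or_lt_of_le ht.1 with e | e
    · subst e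
      rw [← continuousWithinAt_sdiff_self, ContinuousWithinAt, if_pos rfl]
      refine ((hf₀.mono_left (nhdsWithin_mono _ fun y hy => lt_of_le_of_ne hy.1.1
        fun e => hy.2 e.symm))).congr' ?_
      filter_upwards [self_mem_nhdsWithin] with y hy
      rw [if_neg]
      exact fun e => hy.2 e
    · refine ((hf.continuousAt (h.isOpen.mem_nhds (h.cover ⟨e, ht.2⟩))).congr ?_).continuousWithinAt
      filter_upwards [Ioi_mem_nhds e] with y hy
      exact (if_neg (ne_of_gt hy)).symm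
  have hMu : ∀ z ∈ Ioc 0 κ, Μ z = muR N p q kap (x z) (y z) := fun z hz => by
    have := lamR_add_muR (r₁ := r₁) (r₂ := r₂) hc h (h.cover hz) hr
    have hq1 : q + 1 ≠ 0 := by linarith
    simp only [hΜd, hΛd, if_neg hz.1.ne', hT, hlam]
    field_simp
    linear_combination -this
  have hΛle : ∀ z ∈ Icc 0 κ, Λ z ≤ lam := by
    intro z hz
    simp only [hΛd]
    split_ifs with e
    · refine le_of_tendsto hL0 ?_
      filter_upwards [Ioo_mem_nhdsGT (show (0 : ℝ) < κ by positivity)] with t ht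
      exact hle t (Ioo_subset_Ioc_self ht)
    · exact hle z ⟨lt_of_le_of_ne hz.1 (Ne.symm e), hz.2⟩
  have hΛc : ContinuousOn Λ (Icc 0 κ) := cont _ _ (continuousOn_lamR (kap := kap) hc h).1 hL0
  refine no_solution_of_calibH hn hnN (r₁ := r₁) (r₂ := r₂) c h.isOpen h.cover hq hc.lt.le hpq h1
    h2 (by linarith) (contDiffOn_orbCoef hc h hk) (Cv := Cv) (Dv := Dv) (Λ := Λ) (Μ := Μ)
    (fun j => cont _ _ (contDiffOn_orbCoef hc h hk j).continuousOn (hC0 j))
    (fun j => cont _ _ (((contDiffOn_orbCoef hc h hk j).continuousOn_deriv_of_isOpen h.isOpen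
      le_rfl).mul continuousOn_id) (hD0 j))
    hΛc (((continuousOn_const.sub (continuousOn_const.mul hΛc))).div_const _)
    (fun z _ => by
      have hq1 : q + 1 ≠ 0 := by linarith
      simp only [hΜd, hT]
      field_simp
      ring)
    hΛle (fun j z hz => by simp [hCvd, hDvd, hz.1.ne']) (fun z hz => ?_) (fun z hz => ?_)
    fun z hz A B D Q hA hB hD hQ hne => ?_
  · simp only [hCvd]
    split_ifs with e
    · exact h00
    · exact (hpos z ⟨lt_of_le_of_ne hz.1 (Ne.symm e), hz.2⟩).1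
  · simp only [hCvd]
    split_ifs with e
    · exact hd0
    · exact (hpos z ⟨lt_of_le_of_ne hz.1 (Ne.symm e), hz.2⟩).2.1
  rcases eq_or_lt_of_le hz.1 with e | e
  · subst e
    simpa [hCvd, hDvd, hΛd, hΜd, hT, hlam] using hpos0 A B D Q hA hB hD hQ hne
  · have hz' : z ∈ Ioc 0 κ := ⟨e, hz.2⟩
    have key := (hpos z hz').2.2 A B D Q hA hB hD hQ hne
    simp only [hCvd, hDvd, hΛd, if_neg e.ne', hMu z hz']
    exact key

/-- **No solution from a calibration along the orbit.** At every `z ∈ (0, κ]` the block condition;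
at `z = 0` positivity of the limit values `C₀`, `D₀`, `L₀` of `c`, `z c'`, `lam`. -/
theorem no_solution_of_orbit (hn : 5 ≤ n) (hnN : (n : ℝ) < N) {r₁ r₂ : ℝ} (h1 : 0 ≤ r₁)
    (h2 : 0 ≤ r₂) (hr : r₁ + r₂ = (N - 4 - kap) / 4) (hkap : (n : ℝ) < N - kap)
    {k : Fin 7 → ℝ → ℝ} (hk : ∀ r, ContDiffOn ℝ 1 (k r) S)
    (hle : ∀ z ∈ Ioc 0 ((p + 1) / (q + 1)),
      lamR N p q kap (x z) (y z) ≤ -2 * r₁ + 2 * q * r₂)
    (hblock : ∀ z ∈ Ioc 0 ((p + 1) / (q + 1)),
      let c := fun j => orbCoef N p q R x y s dx dy k j z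
      let la := orbLa N p q kap R x y s dx dy k z
      let mb := orbMb N p q kap R x y s dx dy k z
      0 < c 0 ∧ 0 < c 0 * c 3 - ((c 1 + c 2) / 2) ^ 2 ∧
      ∃ μ : ℝ, 0 ≤ μ ∧ μ * R z ≤ rayTau N p q c la mb (R z) (x z) (y z) z (s z) ∧
        ∀ A C B : ℝ, A ≠ 0 ∨ C ≠ 0 ∨ B ≠ 0 → μ * (A * B - C ^ 2) < elimN N p q c la mb A C B 0 0)
    {C₀ D₀ : Fin 14 → ℝ} {L₀ : ℝ}
    (hC0 : ∀ j, Tendsto (fun z => orbCoef N p q R x y s dx dy k j z) (𝓝[>] 0) (𝓝 (C₀ j)))
    (hD0 : ∀ j, Tendsto (fun z => deriv (orbCoef N p q R x y s dx dy k j) z * z) (𝓝[>] 0)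
      (𝓝 (D₀ j)))
    (hL0 : Tendsto (fun z => lamR N p q kap (x z) (y z)) (𝓝[>] 0) (𝓝 L₀))
    (h00 : 0 < C₀ 0) (hd0 : 0 < C₀ 0 * C₀ 3 - ((C₀ 1 + C₀ 2) / 2) ^ 2)
    (hpos0 : ∀ A B D Q : ℝ, 0 ≤ A → 0 ≤ B → D ^ 2 ≤ A * B → 0 ≤ Q → 0 < A + B + Q →
      let M₀ := ((p + 1) * (-2 * r₁ + 2 * q * r₂) + (q + 1) * (2 * p * r₁ - 2 * r₂) -
        (p + 1) * L₀) / (q + 1)
      let la := fun j => C₀ j * L₀ - (q + 1) * D₀ j
      let mb := fun j => C₀ j * M₀ + (p + 1) * D₀ j
      0 ≤ elimN N p q C₀ la mb A D B 0 Q ∧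
        (elimN N p q C₀ la mb A D B 0 Q = 0 → 0 < elimGap C₀ la mb A D B 0 Q)) :
    ¬ ∃ u v : EuclideanSpace ℝ (Fin n) → ℝ, IsSol p q u v := by
  refine no_solution_of_orbit_pos hc h hn hnN h1 h2 hr hkap hk hle (fun z hz => ?_) hC0 hD0 hL0 h00
    hd0 hpos0
  obtain ⟨hc0, hdet, μ, hμ, hτ, hbl⟩ := hblock z hz
  have hzS := h.cover hz
  have hN : N ≠ 0 := by linarith [hc.dim]
  exact ⟨hc0, hdet, fun A B D Q hA hB hD hQ hne => pos_of_rayKer
    (rayKer_orbit (kap := kap) hc h hk hzS hdet.ne') hN (h.s_pos z hzS) (h.y_pos z hzS).ne' hc0 hdet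
    hbl hμ hτ hA hB hD hQ hne⟩

end

end Vale.Agent.P100.Calib
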