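import Mathlib
import Vale.Agent.P100.AssemblyG
import Vale.Agent.P100.Calib.Orbit

/-!
# Calibration data along the critical orbit
-/

open Laplacian Set Filter Topology

namespace Vale.Agent.P100.Calib

open Orb Bubble

variable {n : ℕ} {p q : ℝ}

/-- Calibration data along the orbit: the hypotheses of `no_solution_of_orbit_pos`. -/
structure OrbitCalib (n : ℕ) (N p q kap r₁ r₂ : ℝ) (S : Set ℝ) (R x y s dx dy : ℝ → ℝ)
    (k : Fin 7 → ℝ → ℝ) (C₀ D₀ : Fin 14 → ℝ) (L₀ : ℝ) : Prop where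
  r₁_nonneg : 0 ≤ r₁
  r₂_nonneg : 0 ≤ r₂
  sum : r₁ + r₂ = (N - 4 - kap) / 4
  kap_lt : (n : ℝ) < N - kap
  smooth : ∀ r, ContDiffOn ℝ 1 (k r) S
  lam_le : ∀ z ∈ Ioc 0 ((p + 1) / (q + 1)),
    lamR N p q kap (x z) (y z) ≤ -2 * r₁ + 2 * q * r₂
  pos : ∀ z ∈ Ioc 0 ((p + 1) / (q + 1)),
    let c := fun j => orbCoef N p q R x y s dx dy k j z
    let la := orbLa N p q kap R x y s dx dy k z
    let mb := orbMb N p q kap R x y s dx dy k z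
    0 < c 0 ∧ 0 < c 0 * c 3 - ((c 1 + c 2) / 2) ^ 2 ∧
    ∀ A B D Q : ℝ, 0 ≤ A → 0 ≤ B → D ^ 2 ≤ A * B → 0 ≤ Q → 0 < A + B + Q →
      0 ≤ elimN N p q c la mb A D B (z * Q) Q ∧
        (elimN N p q c la mb A D B (z * Q) Q = 0 → 0 < elimGap c la mb A D B (z * Q) Q)
  lim_C : ∀ j, Tendsto (fun z => orbCoef N p q R x y s dx dy k j z) (𝓝[>] 0) (𝓝 (C₀ j))
  lim_D : ∀ j, Tendsto (fun z => deriv (orbCoef N p q R x y s dx dy k j) z * z) (𝓝[>] 0)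
    (𝓝 (D₀ j))
  lim_L : Tendsto (fun z => lamR N p q kap (x z) (y z)) (𝓝[>] 0) (𝓝 L₀)
  C₀_pos : 0 < C₀ 0
  C₀_det : 0 < C₀ 0 * C₀ 3 - ((C₀ 1 + C₀ 2) / 2) ^ 2
  pos_zero : ∀ A B D Q : ℝ, 0 ≤ A → 0 ≤ B → D ^ 2 ≤ A * B → 0 ≤ Q → 0 < A + B + Q →
    let M₀ := ((p + 1) * (-2 * r₁ + 2 * q * r₂) + (q + 1) * (2 * p * r₁ - 2 * r₂) -
      (p + 1) * L₀) / (q + 1)
    let la := fun j => C₀ j * L₀ - (q + 1) * D₀ j
    let mb := fun j => C₀ j * M₀ + (p + 1) * D₀ j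
    0 ≤ elimN N p q C₀ la mb A D B 0 Q ∧
      (elimN N p q C₀ la mb A D B 0 Q = 0 → 0 < elimGap C₀ la mb A D B 0 Q)

theorem OrbitCalib.no_solution {N kap r₁ r₂ L₀ : ℝ} {S : Set ℝ} {R x y s dx dy : ℝ → ℝ}
    {k : Fin 7 → ℝ → ℝ} {C₀ D₀ : Fin 14 → ℝ}
    (o : OrbitCalib n N p q kap r₁ r₂ S R x y s dx dy k C₀ D₀ L₀) (hc : IsCrit N p q)
    (h : IsOrbitFns N p q S R x y s dx dy) (hn : 5 ≤ n) (hnN : (n : ℝ) < N) :
    ¬ ∃ u v : EuclideanSpace ℝ (Fin n) → ℝ, IsSol p q u v :=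
  no_solution_of_orbit_pos hc h hn hnN o.r₁_nonneg o.r₂_nonneg o.sum o.kap_lt o.smooth o.lam_le
    o.pos o.lim_C o.lim_D o.lim_L o.C₀_pos o.C₀_det o.pos_zero

/-- Certificate parameters in dimension `n` rule out solutions. -/
theorem no_solution_of_paramsN (hn : 5 ≤ n) (hp : 0 < p) (hq : 0 < q) (hpq : 1 < p * q)
    (h : HasParamsN (n : ℝ) p q) :
    ¬ ∃ u v : EuclideanSpace ℝ (Fin n) → ℝ, IsSol p q u v := by
  rintro ⟨u, v, hs⟩
  have e : coneDim n 0 = (n : ℝ) := by rw [coneDim]; ring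
  refine no_solutionG_of_params hn (w := 0) (by norm_num) le_rfl hp hq hpq (by rwa [e]) ⟨u, v,
    hs.contU, hs.contV, hs.smoothU, hs.smoothV, hs.posU, hs.posV, fun x hx => ?_, fun x hx => ?_⟩
  · rw [Real.rpow_zero, one_mul]
    exact hs.eqU x hx
  · rw [Real.rpow_zero, one_mul]
    exact hs.eqV x hx

/-- The dimension in which `(p, q)` is critical. -/
theorem crit_of_scaling (hp : 0 < p) (hq : 0 < q) (hpq : 1 < p * q) :
    1 / (p + 1) + 1 / (q + 1) =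
      (2 * (p + 1) / (p * q - 1) + 2 * (q + 1) / (p * q - 1)) /
        (2 * (p + 1) / (p * q - 1) + 2 * (q + 1) / (p * q - 1) + 2) := by
  have hd : (p * q - 1 : ℝ) ≠ 0 := by linarith
  rw [← add_div, div_add' _ _ _ hd, div_div_div_cancel_right₀ hd,
    div_add_div _ _ (by linarith) (by linarith), div_eq_div_iff (by positivity) (by nlinarith)]
  ring

end Vale.Agent.P100.Calib
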