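import Mathlib
import Vale.Agent.P100.Calib.StrictH
import Vale.Agent.P100.Calib.OrbitCalib
import Vale.Agent.P100.Calib.ConeStrict
import Vale.Agent.P100.Calib.ConeEnergy

/-!
# No solution with a common weight from calibration data along the critical orbit

The data of `OrbitCalib` exclude solutions with weight `-g ∈ (-2, 0]` on `ℝ^n` as soon as the
dimension `ν = 2 (n - g) / (2 - g)` is below `N` and below `N - kap`.
-/

open Set Filter Topology Laplacian

namespace Vale.Agent.P100.Calib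

open Orb Bubble

variable {n : ℕ}

/-- The row is linear in the coefficients. -/
theorem coneRow_smul (t g p q : ℝ) (c la mb : Fin 14 → ℝ) (a b z : Fin n → ℝ) (P Q : ℝ)
    (H K : Fin n → Fin n → ℝ) :
    coneRow g p q (fun j => t * c j) (fun j => t * la j) (fun j => t * mb j) a b z P Q H K =
      t * coneRow g p q c la mb a b z P Q H K := by
  have he : ∀ (d : Fin 14 → ℝ) l, extC g (fun j => t * d j) l = t * extC g d l := fun d l => by
    fin_cases l <;> simp [extC] <;> ring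
  have hf : dotv z (coneFlux g (fun j => t * c j) a b z P Q H K) =
      t * dotv z (coneFlux g c a b z P Q H K) := by
    simp only [dotv, coneFlux, he, Finset.mul_sum, mul_add]
    exact Finset.sum_congr rfl fun i _ => by congr 1 <;> exact Finset.sum_congr rfl fun j _ => by ring
  rw [coneRow, rowGen_smul, hf]
  simp only [he, coneRow, mul_add, Finset.mul_sum, Finset.sum_add_distrib]
  congr 1
  · congr 1
    · congr 1
      exact Finset.sum_congr rfl fun j _ => by ring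
    · congr 1 <;> [congr 1; skip] <;> exact Finset.sum_congr rfl fun j _ => by ring
  · ring

/-- **No weighted solution from a calibration with varying exponents.** -/
theorem no_solution_of_calibC (hn : 5 ≤ n) {g ν N p q r₁ r₂ : ℝ} (hg : 0 ≤ g) (hg2 : g < 2)
    (hν : ν = 2 * ((n : ℝ) - g) / (2 - g)) (hN : ν < N)
    (c : Fin 14 → ℝ → ℝ) {S₀ : Set ℝ} (hS : IsOpen S₀) (hI : Ioc 0 ((p + 1) / (q + 1)) ⊆ S₀)
    (hq : 0 < q) (hqp : q ≤ p) (hpq : 1 < p * q) (h1 : 0 ≤ r₁) (h2 : 0 ≤ r₂)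
    (hexp : ν < 4 * (1 + r₁ + r₂)) (hc : ∀ j, ContDiffOn ℝ 1 (c j) S₀)
    {Cv Dv : ℝ → Fin 14 → ℝ} {Λ Μ : ℝ → ℝ}
    (hCv : ∀ j, ContinuousOn (fun z => Cv z j) (Icc 0 ((p + 1) / (q + 1))))
    (hDv : ∀ j, ContinuousOn (fun z => Dv z j) (Icc 0 ((p + 1) / (q + 1))))
    (hΛ : ContinuousOn Λ (Icc 0 ((p + 1) / (q + 1))))
    (hΜ : ContinuousOn Μ (Icc 0 ((p + 1) / (q + 1))))
    (hsum : ∀ z ∈ Icc 0 ((p + 1) / (q + 1)), (p + 1) * Λ z + (q + 1) * Μ z =
      (p + 1) * (-2 * r₁ + 2 * q * r₂) + (q + 1) * (2 * p * r₁ - 2 * r₂))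
    (hle : ∀ z ∈ Icc 0 ((p + 1) / (q + 1)), Λ z ≤ -2 * r₁ + 2 * q * r₂)
    (hval : ∀ j, ∀ z ∈ Ioc 0 ((p + 1) / (q + 1)), c j z = Cv z j ∧ deriv (c j) z * z = Dv z j)
    (h0 : ∀ z ∈ Icc 0 ((p + 1) / (q + 1)), 0 < Cv z 0)
    (hd : ∀ z ∈ Icc 0 ((p + 1) / (q + 1)), 0 < Cv z 0 * Cv z 3 - ((Cv z 1 + Cv z 2) / 2) ^ 2)
    (hpos : ∀ z ∈ Icc 0 ((p + 1) / (q + 1)), ∀ A B D Q : ℝ, 0 ≤ A → 0 ≤ B → D ^ 2 ≤ A * B →
      0 ≤ Q → 0 < A + B + Q →
      let la := fun j => Cv z j * Λ z - (q + 1) * Dv z j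
      let mb := fun j => Cv z j * Μ z + (p + 1) * Dv z j
      0 ≤ elimN N p q (Cv z) la mb A D B (z * Q) Q ∧
        (elimN N p q (Cv z) la mb A D B (z * Q) Q = 0 →
          0 < elimGap (Cv z) la mb A D B (z * Q) Q)) :
    ¬ ∃ u v : EuclideanSpace ℝ (Fin n) → ℝ,
      Continuous u ∧ Continuous v ∧ ContDiffOn ℝ 2 u {0}ᶜ ∧ ContDiffOn ℝ 2 v {0}ᶜ ∧
      (∀ x, 0 < u x) ∧ (∀ x, 0 < v x) ∧ (∀ x, x ≠ 0 → Δ u x = -(‖x‖ ^ (-g) * v x ^ p)) ∧
      (∀ x, x ≠ 0 → Δ v x = -(‖x‖ ^ (-g) * u x ^ q)) := by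
  set κ := (p + 1) / (q + 1) with hκdef
  set lam := -2 * r₁ + 2 * q * r₂ with hlam
  set mu := 2 * p * r₁ - 2 * r₂ with hmu
  have hκ : 0 < κ := div_pos (by linarith) (by linarith)
  obtain ⟨ε, hε, hb⟩ := exists_eps_cone (n := n) (by omega) hg hg2 hν hN
    (C := Cv) (LA := fun z j => Cv z j * Λ z - (q + 1) * Dv z j)
    (MB := fun z j => Cv z j * Μ z + (p + 1) * Dv z j) hCv
    (fun j => ((hCv j).mul hΛ).sub (continuousOn_const.mul (hDv j)))
    (fun j => ((hCv j).mul hΜ).add (continuousOn_const.mul (hDv j))) h0 hd hpos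
  set G : ℝ → ℝ := fun z => (lam - Λ (projIcc 0 κ hκ.le z)) / (q + 1) with hG
  have hgc : Continuous G := by
    have : Continuous fun z => Λ (projIcc 0 κ hκ.le z) :=
      hΛ.comp_continuous (continuous_subtype_val.comp continuous_projIcc) fun z => Subtype.coe_prop _
    simp only [hG]
    exact (continuous_const.sub this).div_const _
  have hg0 : ∀ z, 0 ≤ G z := fun z =>
    div_nonneg (sub_nonneg.2 (hle _ (Subtype.coe_prop _))) (by linarith)
  obtain ⟨h, hh1, hh0, hhle, hhd⟩ := exists_factor hκ hgc hg0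
  choose R hR using fun j => isCompact_Icc.exists_bound_of_continuousOn (hCv j)
  have hI' : Ioc 0 κ ⊆ S₀ ∩ Ioi 0 := fun z hz => ⟨hI hz, hz.1⟩
  refine no_solution_of_boundC hn hg hg2 hν (r₁ := r₁) (r₂ := r₂) (ε := ε) (B := ∑ j, |R j|)
    (fun j z => h z * c j z) h (hS.inter isOpen_Ioi) hI' hq hqp hpq h1 h2 hexp hε
    (fun j => (hh1.mono inter_subset_right).mul ((hc j).mono inter_subset_left))
    (hh1.continuousOn.mono fun z hz => hz.1) (fun z hz => ⟨hh0 z, hhle z hz.1 hz.2⟩)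
    (fun j z hz => ?_) (fun a b zv P Q H K hH hK tH tK hP hQ hPQ => ?_)
  · rw [abs_mul, abs_of_pos (hh0 z), (hval j z hz).1, mul_comm (∑ j, |R j|)]
    exact mul_le_mul_of_nonneg_left (((hR j z ⟨hz.1.le, hz.2⟩).trans (le_abs_self _)).trans
      (Finset.single_le_sum (f := fun j => |R j|) (fun i _ => abs_nonneg _) (Finset.mem_univ j))) (hh0 z).le
  · set z := P / Q with hzdef
    have hz : z ∈ Ioc 0 κ := ⟨div_pos hP hQ, (div_le_iff₀ hQ).2 hPQ⟩
    have hz' : z ∈ Icc 0 κ := ⟨hz.1.le, hz.2⟩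
    have hgz : (q + 1) * G z = lam - Λ z := by
      have : (q + 1) ≠ 0 := by linarith
      rw [hG]; simp only [projIcc_of_mem hκ.le hz']; field_simp
    have hder : ∀ j, deriv (fun y => h y * c j y) z * z = h z * (G z * Cv z j + Dv z j) := by
      intro j
      have hcj := ((hc j).contDiffAt (hS.mem_nhds (hI hz))).differentiableAt one_ne_zero
      rw [((hhd z hz.1).fun_mul hcj.hasDerivAt).deriv, ← (hval j z hz).2, ← (hval j z hz).1]
      have := hz.1.ne'
      field_simp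
    have hμ : mu + (p + 1) * G z = Μ z := by
      have h3 := hsum z hz'
      have : (q + 1) ≠ 0 := by linarith
      refine mul_left_cancel₀ this ?_
      linear_combination (p + 1) * hgz - h3
    have key := hb a b zv P Q H K hH hK tH tK hP hQ hPQ
    refine le_trans (le_of_eq ?_) ((mul_le_mul_of_nonneg_left key (hh0 z).le).trans (le_of_eq ?_))
    · ring
    · rw [← coneRow_smul]
      simp only [← hzdef, hder, fun j => (hval j z hz).1]
      congr 1
      · funext j; linear_combination (h z * Cv z j) * hgz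
      · funext j; linear_combination (-(h z * Cv z j)) * hμ

/-- **No solution with weight `-g` from calibration data along the critical orbit.** The natural
parameter `m` of the data plays no role. -/
theorem OrbitCalib.no_solution_cone {m : ℕ} {g ν N p q kap r₁ r₂ L₀ : ℝ} {S : Set ℝ}
    {R x y s dx dy : ℝ → ℝ} {k : Fin 7 → ℝ → ℝ} {C₀ D₀ : Fin 14 → ℝ}
    (o : OrbitCalib m N p q kap r₁ r₂ S R x y s dx dy k C₀ D₀ L₀) (hc : IsCrit N p q)
    (h : IsOrbitFns N p q S R x y s dx dy) (hn : 5 ≤ n) (hg : 0 ≤ g) (hg2 : g < 2)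
    (hν : ν = 2 * ((n : ℝ) - g) / (2 - g)) (hνN : ν < N) (hνk : ν < N - kap) :
    ¬ ∃ u v : EuclideanSpace ℝ (Fin n) → ℝ,
      Continuous u ∧ Continuous v ∧ ContDiffOn ℝ 2 u {0}ᶜ ∧ ContDiffOn ℝ 2 v {0}ᶜ ∧
      (∀ x, 0 < u x) ∧ (∀ x, 0 < v x) ∧ (∀ x, x ≠ 0 → Δ u x = -(‖x‖ ^ (-g) * v x ^ p)) ∧
      (∀ x, x ≠ 0 → Δ v x = -(‖x‖ ^ (-g) * u x ^ q)) := by
  obtain ⟨h1, h2, hr, -, hk, hle, hpos, hC0, hD0, hL0, h00, hd0, hpos0⟩ := o
  have hp := hc.p_pos
  have hq := hc.q_pos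
  obtain ⟨hal, -, hw⟩ := hc.weights
  have hN : 0 < N := by linarith [hc.dim]
  set κ := (p + 1) / (q + 1) with hκ
  set lam := -2 * r₁ + 2 * q * r₂ with hlam
  set T := (p + 1) * lam + (q + 1) * (2 * p * r₁ - 2 * r₂) with hT
  set c : Fin 14 → ℝ → ℝ := orbCoef N p q R x y s dx dy k with hcdef
  have hpq : 1 < p * q := by
    have e2 : p * q - 1 = 2 * ((p + 1) * (q + 1)) / N := by
      field_simp at hw ⊢
      linear_combination -hw
    have : 0 < 2 * ((p + 1) * (q + 1)) / N := by positivity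
    linarith
  set Cv : ℝ → Fin 14 → ℝ := fun z j => if z = 0 then C₀ j else c j z with hCvd
  set Dv : ℝ → Fin 14 → ℝ := fun z j => if z = 0 then D₀ j else deriv (c j) z * z with hDvd
  set Λ : ℝ → ℝ := fun z => if z = 0 then L₀ else lamR N p q kap (x z) (y z) with hΛd
  set Μ : ℝ → ℝ := fun z => (T - (p + 1) * Λ z) / (q + 1) with hΜd
  have cont : ∀ (f : ℝ → ℝ) (f₀ : ℝ), ContinuousOn f S → Tendsto f (𝓝[>] 0) (𝓝 f₀) →
      ContinuousOn (fun z => if z = 0 then f₀ else f z) (Icc 0 κ) := by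
    intro f f₀ hf hf₀ t ht
    rcases eq_or_lt_of_le ht.1 with e | e
    · subst e
      rw [← continuousWithinAt_sdiff_self, ContinuousWithinAt, if_pos rfl]
      refine ((hf₀.mono_left (nhdsWithin_mono _ fun y hy => lt_of_le_of_ne hy.1.1
        fun e => hy.2 e.symm))).congr' ?_
      filter_upwards [self_mem_nhdsWithin] with y hy
      rw [if_neg]
      exact fun e => hy.2 e
    · refine ((hf.continuousAt (h.isOpen.mem_nhds (h.cover ⟨e, ht.2⟩))).congr ?_).continuousWithinAt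
      filter_upwards [Ioi_mem_nhds e] with y hy
      exact (if_neg (ne_of_gt hy)).symm
  have hMu : ∀ z ∈ Ioc 0 κ, Μ z = muR N p q kap (x z) (y z) := fun z hz => by
    have := lamR_add_muR (r₁ := r₁) (r₂ := r₂) hc h (h.cover hz) hr
    have hq1 : q + 1 ≠ 0 := by linarith
    simp only [hΜd, hΛd, if_neg hz.1.ne', hT, hlam]
    field_simp
    linear_combination -this
  have hΛle : ∀ z ∈ Icc 0 κ, Λ z ≤ lam := by
    intro z hz
    simp only [hΛd]
    split_ifs with e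
    · refine le_of_tendsto hL0 ?_
      filter_upwards [Ioo_mem_nhdsGT (show (0 : ℝ) < κ by positivity)] with t ht
      exact hle t (Ioo_subset_Ioc_self ht)
    · exact hle z ⟨lt_of_le_of_ne hz.1 (Ne.symm e), hz.2⟩
  have hΛc : ContinuousOn Λ (Icc 0 κ) := cont _ _ (continuousOn_lamR (kap := kap) hc h).1 hL0
  refine no_solution_of_calibC hn hg hg2 hν hνN (r₁ := r₁) (r₂ := r₂) c h.isOpen h.cover hq hc.lt.le
    hpq h1 h2 (by linarith) (contDiffOn_orbCoef hc h hk) (Cv := Cv) (Dv := Dv) (Λ := Λ) (Μ := Μ)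
    (fun j => cont _ _ (contDiffOn_orbCoef hc h hk j).continuousOn (hC0 j))
    (fun j => cont _ _ (((contDiffOn_orbCoef hc h hk j).continuousOn_deriv_of_isOpen h.isOpen
      le_rfl).mul continuousOn_id) (hD0 j))
    hΛc (((continuousOn_const.sub (continuousOn_const.mul hΛc))).div_const _)
    (fun z _ => by
      have hq1 : q + 1 ≠ 0 := by linarith
      simp only [hΜd, hT]
      field_simp
      ring)
    hΛle (fun j z hz => by simp [hCvd, hDvd, hz.1.ne']) (fun z hz => ?_) (fun z hz => ?_)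
    fun z hz A B D Q hA hB hD hQ hne => ?_
  · simp only [hCvd]
    split_ifs with e
    · exact h00
    · exact (hpos z ⟨lt_of_le_of_ne hz.1 (Ne.symm e), hz.2⟩).1
  · simp only [hCvd]
    split_ifs with e
    · exact hd0
    · exact (hpos z ⟨lt_of_le_of_ne hz.1 (Ne.symm e), hz.2⟩).2.1
  rcases eq_or_lt_of_le hz.1 with e | e
  · subst e
    simpa [hCvd, hDvd, hΛd, hΜd, hT, hlam] using hpos0 A B D Q hA hB hD hQ hne
  · have hz' : z ∈ Ioc 0 κ := ⟨e, hz.2⟩
    have key := (hpos z hz').2.2 A B D Q hA hB hD hQ hne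
    simp only [hCvd, hDvd, hΛd, if_neg e.ne', hMu z hz']
    exact key

end Vale.Agent.P100.Calib
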