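import Mathlib
import Vale.Agent.P100.Calib.Orbit

/-!
# The limits of the calibration at `z = 0`

The orbit tends to an equilibrium `(X, Y, P, Q) = (-(N-2), -m, 0, m (N-2-m))` with
`m = min (N-2) (N α/β)`. The six first fields tend to their values there and the last one does so
after multiplication by `Zq`, so its scalar is taken of the form `k 6 = Zq e` on `R > 0` (`e` may
be singular at the centre). All velocities
vanish at the equilibrium, so `z c'` tends to the part coming from the limits of `z k_r'`.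
-/

open Set Filter Topology

namespace Vale.Agent.P100.Calib

open Orb Bubble

variable {N p q kap : ℝ}

theorem endOrb_facts (hc : IsCrit N p q) :
    (endOrb N p q kap).X ≠ 0 ∧ (endOrb N p q kap).Y ≠ 0 ∧ (endOrb N p q kap).D ≠ 0 ∧
      (endOrb N p q kap).al * (endOrb N p q kap).X - (endOrb N p q kap).be * (endOrb N p q kap).Y ≠ 0 ∧
      (endOrb N p q kap).vX = 0 ∧ (endOrb N p q kap).vY = 0 ∧ (endOrb N p q kap).vQ = 0 ∧
      (endOrb N p q kap).vP = 0 ∧ (endOrb N p q kap).phi ≠ 0 := by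
  obtain ⟨hal, hlt, hw⟩ := hc.weights
  have hN := hc.dim
  have hp := hc.p_pos
  have hq := hc.q_pos
  set a := 1 / (p + 1) with ha
  set b := 1 / (q + 1) with hb
  have hb0 : 0 < b := hal.trans hlt
  set M := N * a / b with hM
  have hM0 : 0 < M := by positivity
  set m := min (N - 2) M with hm
  have hm0 : 0 < m := lt_min (by linarith) hM0
  have hmN : m ≤ N - 2 := min_le_left _ _
  have hQ : M * (N - 2 - m) = m * (N - 2 - m) := by
    rcases le_total (N - 2) M with h | h
    · rw [hm, min_eq_left h, sub_self, mul_zero, mul_zero]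
    · rw [hm, min_eq_right h]
  have hE : 0 < a * -(N - 2) - b * -m := by
    rcases le_total (N - 2) M with h | h
    · rw [hm, min_eq_left h]; nlinarith
    · rw [hm, min_eq_right h, hM]
      field_simp
      linarith
  have hphi : (p + 1) * -m - (q + 1) * -(N - 2) = (a * -(N - 2) - b * -m) / (-(a * b)) := by
    rw [ha, hb]; field_simp; ring
  refine ⟨?_, ?_, ?_, ?_, ?_, ?_, ?_, ?_, ?_⟩ <;>
    simp only [endOrb, Orb.D, Orb.vX, Orb.vY, Orb.vP, Orb.vQ, Orb.phi, ← ha, ← hb, ← hM, ← hm]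
  · linarith
  · linarith
  · nlinarith
  · linarith
  · ring
  · linear_combination hQ * (-1 : ℝ)
  · rcases le_total (N - 2) M with h | h
    · rw [show m = N - 2 from min_eq_left h, sub_self, mul_zero, zero_mul]
    · have e : 2 + q * -(N - 2) - -m = 0 := by
        rw [show m = M from min_eq_right h, hM]
        field_simp
        have : q * b = 1 - b := by rw [hb]; field_simp; ring
        linear_combination -(N - 2) * this + hw
      rw [e, mul_zero]
  · ring
  · rw [hphi]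
    exact div_ne_zero hE.ne' (neg_ne_zero.2 (by positivity))

/-- Linear shapes: the fields at a point depend continuously on it. -/
theorem tendsto_fldQ {X Y P Q : ℝ → ℝ} {l : Filter ℝ} (al be N p q kap : ℝ) (o : Orb)
    (ho : o = ⟨al, be, N, p, q, o.X, o.Y, o.P, o.Q, kap⟩)
    (hX0 : o.X ≠ 0) (hY0 : o.Y ≠ 0) (hX : Tendsto X l (𝓝 o.X)) (hY : Tendsto Y l (𝓝 o.Y))
    (hP : Tendsto P l (𝓝 o.P)) (hQ : Tendsto Q l (𝓝 o.Q)) (r : Fin 7) (j : Fin 14) :
    Tendsto (fun t => (⟨al, be, N, p, q, X t, Y t, P t, Q t, kap⟩ : Orb).fldQ r j) l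
        (𝓝 (o.fldQ r j)) ∧
      Tendsto (fun t => (⟨al, be, N, p, q, X t, Y t, P t, Q t, kap⟩ : Orb).velQ r j) l
        (𝓝 (o.velQ r j)) := by
  rw [ho]
  set o' : Orb := ⟨al, be, N, p, q, o.X, o.Y, o.P, o.Q, kap⟩ with ho'
  have hxy : o.X * o.Y ≠ 0 := mul_ne_zero hX0 hY0
  have hx2 : o.X ^ 2 ≠ 0 := pow_ne_zero 2 hX0
  have hy2 : o.Y ^ 2 ≠ 0 := pow_ne_zero 2 hY0
  have tvX : Tendsto (fun t => -(N - 2) * X t - X t ^ 2 - P t) l (𝓝 o'.vX) :=
    ((hX.const_mul _).sub (hX.pow 2)).sub hP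
  have tvY : Tendsto (fun t => -(N - 2) * Y t - Y t ^ 2 - Q t) l (𝓝 o'.vY) :=
    ((hY.const_mul _).sub (hY.pow 2)).sub hQ
  have tvP : Tendsto (fun t => P t * (2 + p * Y t - X t)) l (𝓝 o'.vP) :=
    hP.mul (((hY.const_mul p).const_add 2).sub hX)
  have tvQ : Tendsto (fun t => Q t * (2 + q * X t - Y t)) l (𝓝 o'.vQ) :=
    hQ.mul (((hX.const_mul q).const_add 2).sub hY)
  have tD : Tendsto (fun t => al * X t + be * Y t) l (𝓝 o'.D) :=
    (hX.const_mul al).add (hY.const_mul be)
  have tvD : Tendsto (fun t => al * (-(N - 2) * X t - X t ^ 2 - P t) +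
      be * (-(N - 2) * Y t - Y t ^ 2 - Q t)) l (𝓝 o'.vD) := (tvX.const_mul al).add (tvY.const_mul be)
  have tsU : Tendsto (fun t => -N * X t - X t ^ 2 - P t) l (𝓝 o'.sU) :=
    ((hX.const_mul _).sub (hX.pow 2)).sub hP
  have tsV : Tendsto (fun t => -N * Y t - Y t ^ 2 - Q t) l (𝓝 o'.sV) :=
    ((hY.const_mul _).sub (hY.pow 2)).sub hQ
  have tsC : Tendsto (fun t => (⟨al, be, N, p, q, X t, Y t, P t, Q t, kap⟩ : Orb).sC) l
      (𝓝 o'.sC) := (((hY.mul tsU).sub (hX.mul tsV)).neg).div (hX.mul hY) hxy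
  have tvsU : Tendsto (fun t => (⟨al, be, N, p, q, X t, Y t, P t, Q t, kap⟩ : Orb).vsU) l
      (𝓝 o'.vsU) := ((tvX.const_mul _).sub ((hX.const_mul 2).mul tvX)).sub tvP
  have tvsV : Tendsto (fun t => (⟨al, be, N, p, q, X t, Y t, P t, Q t, kap⟩ : Orb).vsV) l
      (𝓝 o'.vsV) := ((tvY.const_mul _).sub ((hY.const_mul 2).mul tvY)).sub tvQ
  have tvsC : Tendsto (fun t => (⟨al, be, N, p, q, X t, Y t, P t, Q t, kap⟩ : Orb).vsC) l
      (𝓝 o'.vsC) :=
    ((((((tvY.mul tsU).add (hY.mul tvsU)).sub (tvX.mul tsV)).sub (hX.mul tvsV)).neg.mul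
      (hX.mul hY)).add (((hY.mul tsU).sub (hX.mul tsV)).mul ((tvX.mul hY).add (hX.mul tvY)))).div
      ((hX.mul hY).pow 2) (pow_ne_zero 2 hxy)
  have dyx := ((tvY.mul hX).sub (hY.mul tvX)).div (hX.pow 2) hx2
  have dxy := ((tvX.mul hY).sub (hX.mul tvY)).div (hY.pow 2) hy2
  have ds1 := ((tvsC.mul hX).sub (tsC.mul tvX)).div (hX.pow 2) hx2
  have ds2 := ((tvsC.mul hY).sub (tsC.mul tvY)).div (hY.pow 2) hy2
  have du := ((tvD.mul hX).sub (tD.mul tvX)).div (hX.pow 2) hx2
  have dw := ((tvD.mul hY).sub (tD.mul tvY)).div (hY.pow 2) hy2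
  have yx := hY.div hX hX0
  have xy := hX.div hY hY0
  have s1 := tsC.div hX hX0
  have s2 := tsC.div hY hY0
  have u := tD.div hX hX0
  have w := tD.div hY hY0
  constructor
  · fin_cases r <;> simp only [Orb.fldQ, Fin.reduceFinMk, Matrix.cons_val]
    · simp only [Orb.fU]
      rw [shapeU_linear]
      exact ((((tendsto_const_nhds.add (yx.mul_const _)).add (xy.mul_const _)).add
        (s1.mul_const _)).add (s2.mul_const _)).congr fun t => (shapeU_linear o' _ _ _ _ _ j).symm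
    iterate 4
      · simp only [Orb.fG]
        rw [shapeG_linear]
        exact (((yx.mul_const _).add tendsto_const_nhds).add (xy.mul_const _)).congr
          fun t => (shapeG_linear _ _ _ _ j).symm
    · simp only [Orb.fT]
      rw [shapeT_linear]
      exact ((u.mul_const _).add (w.mul_const _)).congr fun t => (shapeT_linear o' _ _ j).symm
    · rw [shapeW_linear]
      exact (((((hQ.mul u).mul_const _).add ((hQ.mul w).mul_const _)).add
        ((tD.mul hY).neg.mul_const _)).add ((tD.mul hX).mul_const _)).congr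
          fun t => (shapeW_linear _ _ _ _ j).symm
  · fin_cases r <;> simp only [Orb.velQ, Fin.reduceFinMk, Matrix.cons_val]
    · simp only [Orb.vU]
      rw [shapeU_linear]
      exact ((((tendsto_const_nhds.add (dyx.mul_const _)).add (dxy.mul_const _)).add
        (ds1.mul_const _)).add (ds2.mul_const _)).congr fun t => (shapeU_linear o' _ _ _ _ _ j).symm
    iterate 4
      · simp only [Orb.vG]
        rw [shapeG_linear]
        exact (((dyx.mul_const _).add tendsto_const_nhds).add (dxy.mul_const _)).congr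
          fun t => (shapeG_linear _ _ _ _ j).symm
    · simp only [Orb.vT]
      rw [shapeT_linear]
      exact ((du.mul_const _).add (dw.mul_const _)).congr fun t => (shapeT_linear o' _ _ j).symm
    · rw [shapeW_linear]
      exact ((((((tvQ.mul u).add (hQ.mul du))).mul_const _).add
        (((tvQ.mul w).add (hQ.mul dw)).mul_const _)).add
        (((tvD.mul hY).add (tD.mul tvY)).neg.mul_const _)).add
        (((tvD.mul hX).add (tD.mul tvX)).mul_const _) |>.congr
          fun t => (shapeW_linear _ _ _ _ j).symm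

/-- At the end point all velocities vanish. -/
theorem velQ_endOrb (hc : IsCrit N p q) (r : Fin 7) (j : Fin 14) :
    (endOrb N p q kap).velQ r j = 0 := by
  obtain ⟨-, -, -, -, hX, hY, hQ, hP, -⟩ := endOrb_facts (kap := kap) hc
  fin_cases r <;> fin_cases j <;>
    simp [Orb.velQ, Orb.vU, Orb.vG, Orb.vT, Orb.shapeU, Orb.shapeG, Orb.shapeT, Orb.shapeW,
      Orb.vsC, Orb.vsU, Orb.vsV, Orb.vD, hX, hY, hQ, hP]

/-- **The limits.** -/
theorem tendsto_orbCoef (hc : IsCrit N p q) {S : Set ℝ} {R x y s dx dy : ℝ → ℝ}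
    (h : IsOrbitFns N p q S R x y s dx dy) {k : Fin 7 → ℝ → ℝ} (hk : ∀ r, ContDiffOn ℝ 1 (k r) S)
    {e : ℝ → ℝ} (hk6 : ∀ z ∈ S, 0 < R z → k 6 z = R z * s z * e z)
    (he : ContDiffOn ℝ 1 e (S ∩ R ⁻¹' Ioi 0)) {A B : Fin 7 → ℝ}
    (hA : ∀ r, r ≠ 6 → Tendsto (k r) (𝓝[>] 0) (𝓝 (A r)))
    (hB : ∀ r, r ≠ 6 → Tendsto (fun z => deriv (k r) z * z) (𝓝[>] 0) (𝓝 (B r)))
    (hA6 : Tendsto e (𝓝[>] 0) (𝓝 (A 6)))
    (hB6 : Tendsto (fun z => deriv e z * z) (𝓝[>] 0) (𝓝 (B 6))) (j : Fin 14) :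
    Tendsto (fun z => orbCoef N p q R x y s dx dy k j z) (𝓝[>] 0)
        (𝓝 ((endOrb N p q kap).cBase j + ∑ r, A r * (endOrb N p q kap).fldQ r j)) ∧
      Tendsto (fun z => deriv (orbCoef N p q R x y s dx dy k j) z * z) (𝓝[>] 0)
        (𝓝 (∑ r, B r * (endOrb N p q kap).fldQ r j)) ∧
      Tendsto (fun z => lamR N p q kap (x z) (y z)) (𝓝[>] 0) (𝓝 (endOrb N p q kap).lam) := by
  obtain ⟨hX0, hY0, hD0, hE0, hvX, hvY, hvQ, hvP, hphi⟩ := endOrb_facts (kap := kap) hc
  set E := endOrb N p q kap with hE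
  have hz0 : Tendsto (fun z : ℝ => z) (𝓝[>] 0) (𝓝 0) := tendsto_id.mono_left nhdsWithin_le_nhds
  have hκ : (0 : ℝ) < (p + 1) / (q + 1) := by
    have := hc.p_pos
    have := hc.q_pos
    positivity
  have hS : ∀ᶠ z in 𝓝[>] (0 : ℝ), z ∈ S ∧ 0 < R z := by
    filter_upwards [Ioo_mem_nhdsGT hκ, h.R_tendsto.eventually (eventually_gt_atTop 0)] with z hz hR
    exact ⟨h.cover (Ioo_subset_Ioc_self hz), hR⟩
  have hSo : IsOpen (S ∩ R ⁻¹' Ioi 0) :=
    h.smooth.1.continuousOn.isOpen_inter_preimage h.isOpen isOpen_Ioi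
  have tX : Tendsto (fun z => -2 * R z * x z) (𝓝[>] 0) (𝓝 E.X) :=
    h.X_tendsto.neg.congr fun z => by ring
  have tY : Tendsto (fun z => -2 * R z * y z) (𝓝[>] 0) (𝓝 E.Y) :=
    h.Y_tendsto.neg.congr fun z => by ring
  have tQ : Tendsto (fun z => R z * s z) (𝓝[>] 0) (𝓝 E.Q) := h.Q_tendsto
  have tP : Tendsto (fun z => R z * (z * s z)) (𝓝[>] 0) (𝓝 E.P) := by
    have := hz0.mul tQ
    rw [zero_mul] at this
    exact this.congr fun z => by ring
  have tF := fun r j => tendsto_fldQ (l := 𝓝[>] (0 : ℝ)) (1 / (p + 1)) (1 / (q + 1)) N p q kap E rfl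
    hX0 hY0 tX tY tP tQ r j
  have tphi : Tendsto (fun z => (orbAt N p q kap (R z) (x z) (y z) z (s z)).phi) (𝓝[>] 0)
      (𝓝 E.phi) := by
    simp only [orbAt, Orb.phi]
    exact (tY.const_mul _).sub (tX.const_mul _)
  have tAll : ∀ r, Tendsto (if r = 6 then e else k r) (𝓝[>] 0) (𝓝 (A r)) ∧
      Tendsto (fun z => deriv (if r = 6 then e else k r) z * z) (𝓝[>] 0) (𝓝 (B r)) := by
    intro r
    split_ifs with hr
    · subst hr; exact ⟨hA6, hB6⟩
    · exact ⟨hA r hr, hB r hr⟩
  have split : ∀ z ∈ S, 0 < R z → ∀ r, let o := orbAt N p q kap (R z) (x z) (y z) z (s z)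
      let g := (if r = 6 then e else k r)
      k r z * o.fld7 r j = g z * o.fldQ r j ∧
      deriv (k r) z * z * o.fld7 r j + k r z * (o.vel7 r j / o.phi) =
        deriv g z * z * o.fldQ r j + g z * (o.velQ r j / o.phi) := by
    intro z hz hRp r o g
    have hR := hRp.ne'
    obtain ⟨hal, -, hw⟩ := hc.weights
    have hv : o.Valid := orbAt_valid hc.p_pos hc.q_pos (by linarith [hc.dim]) hw hR (h.x_pos z hz)
      (h.y_pos z hz) (h.s_pos z hz) (h.W_pos z hz) (h.quad z hz)
    have hphi' := phi_ne o hv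
    have hsz := (h.s_pos z hz).ne'
    by_cases hr : r = 6
    swap
    · simp only [g, if_neg hr]
      fin_cases r <;> first
        | exact absurd rfl hr
        | simp [Orb.fld7, Orb.fldQ, Orb.vel7, Orb.velQ]
    subst hr
    simp only [g, if_pos]
    have hQe : o.Q = R z * s z := rfl
    have hfW : o.fldQ 6 j = o.Q * o.fld7 6 j := by
      simp only [Orb.fldQ, Orb.fld7, Orb.fW, Matrix.cons_val]
      rw [shapeW_linear, shapeW_linear (o.D / o.X)]
      have := hv.Q0
      field_simp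
    have hvW : o.velQ 6 j = o.vQ * o.fld7 6 j + o.Q * o.vel7 6 j := by
      simp only [Orb.velQ, Orb.fld7, Orb.vel7, Orb.fW, Orb.vW, Matrix.cons_val]
      rw [shapeW_linear, shapeW_linear (o.D / o.X),
        shapeW_linear ((o.vD * o.X - o.D * o.vX) / o.X ^ 2)]
      have := hv.Q0; have := hv.X0; have := hv.Y0
      field_simp
      ring
    refine ⟨by rw [hk6 z hz hRp, hfW, hQe]; ring, ?_⟩
    have dQ : HasDerivAt (fun t => R t * s t) (o.vQ / (z * o.phi)) z := by
      refine ((h.dR z hz).fun_mul (h.deriv_s z hz)).congr_deriv ?_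
      have hphi2 : o.phi = -2 * R z * (1 / (q + 1) * y z - 1 / (p + 1) * x z) /
          (1 / (p + 1) * (1 / (q + 1))) := by
        have : p + 1 ≠ 0 := by linarith [hc.p_pos]
        have : q + 1 ≠ 0 := by linarith [hc.q_pos]
        simp only [o, orbAt, Orb.phi]; field_simp; ring
      rw [hphi2]
      have hW := (h.W_pos z hz).ne'
      have := hc.p_pos
      have := hc.q_pos
      have := (show (0 : ℝ) < z from h.pos hz).ne'
      simp only [o, orbAt, Orb.vQ]
      generalize 1 / (q + 1) * y z - 1 / (p + 1) * x z = W at hW ⊢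
      field_simp
      ring
    have hed : HasDerivAt e (deriv e z) z :=
      ((he.contDiffAt (hSo.mem_nhds ⟨hz, hRp⟩)).differentiableAt one_ne_zero).hasDerivAt
    have hd : deriv (k 6) z = o.vQ / (z * o.phi) * e z + R z * s z * deriv e z := by
      refine ((dQ.fun_mul hed).congr_of_eventuallyEq ?_).deriv
      filter_upwards [hSo.mem_nhds ⟨hz, hRp⟩] with t ht
      exact hk6 t ht.1 ht.2
    have := (show (0 : ℝ) < z from h.pos hz).ne'
    rw [hd, hfW, hvW, hk6 z hz hRp, hQe]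
    field_simp
    ring
  refine ⟨?_, ?_, ?_⟩
  · refine Tendsto.congr' ?_ (tendsto_const_nhds.add
      (tendsto_finsetSum Finset.univ fun r _ => (tAll r).1.mul (tF r j).1))
    filter_upwards [hS] with z ⟨hz, hR⟩
    rw [(orbCoef_spec (kap := kap) hc h hk hz hR.ne' j).2.1, Orb.coef]
    refine congrArg₂ (· + ·) rfl (Finset.sum_congr rfl fun r _ => ?_)
    exact ((split z hz hR r).1).symm
  · have hv0 : ∀ r, Tendsto (fun z => (if r = 6 then e else k r) z *
        ((orbAt N p q kap (R z) (x z) (y z) z (s z)).velQ r j /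
          (orbAt N p q kap (R z) (x z) (y z) z (s z)).phi)) (𝓝[>] 0) (𝓝 0) := fun r => by
      have := (tAll r).1.mul ((tF r j).2.div tphi hphi)
      rw [velQ_endOrb hc, zero_div, mul_zero] at this
      exact this
    have := tendsto_finsetSum Finset.univ fun r _ => ((tAll r).2.mul (tF r j).1).add (hv0 r)
    simp only [add_zero] at this
    refine this.congr' ?_
    filter_upwards [hS] with z ⟨hz, hR⟩
    rw [(orbCoef_spec (kap := kap) hc h hk hz hR.ne' j).2.2, Orb.dcoef]
    exact Finset.sum_congr rfl fun r _ => ((split z hz hR r).2).symm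
  · have tD : Tendsto (fun z => (1 / (p + 1)) * (-2 * R z * x z) + 1 / (q + 1) * (-2 * R z * y z))
        (𝓝[>] 0) (𝓝 E.D) := (tX.const_mul _).add (tY.const_mul _)
    have tJ := ((((tX.pow 2).const_mul (1 / (p + 1))).add ((tY.pow 2).const_mul (1 / (q + 1)))).sub
      (tX.mul tY)).div tD hD0
    have hN : N ≠ 0 := by linarith [hc.dim]
    refine Tendsto.congr' ?_ (tendsto_const_nhds.add
      (((tY.const_mul (kap + 2)).add (tJ.const_mul (N * (1 / (p + 1))))).div
        (((tX.const_mul (1 / (p + 1))).sub (tY.const_mul (1 / (q + 1)))).const_mul N)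
        (mul_ne_zero hN hE0)))
    filter_upwards [hS] with z ⟨hz, hR⟩
    rw [← (lam_orbAt (z := z) (s := s z) hR.ne').1]
    rfl

end Vale.Agent.P100.Calib
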