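import Mathlib
import Vale.Agent.P100.Calib.Fields

/-!
# The five numbers at the end point
-/

namespace Vale.Agent.P100.Calib

open Orb

/-- Values at the end point of the five scalars: `rho = c/(XY)`, `w`, `k₁ = u/(XY)`, `k₂ = v/(XY)`,
`k₃ = g/(XY D)`. -/
structure TailVal where
  /-- the scalar of the field built from `U · d` -/
  c : ℝ
  /-- the scalar of the field built from `Qt d` -/
  w : ℝ
  /-- the scalar of the field built from `G m` -/
  u : ℝ
  /-- the scalar of the field built from `E d` -/
  v : ℝ
  /-- the scalar of the field built from `G d` -/
  g : ℝ

end Vale.Agent.P100.Calib
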