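import Mathlib
import Vale.Agent.P100.Calib.BlockZero
import Vale.Agent.P100.Calib.Fields
import Vale.Agent.P100.Calib.RegDefs
import Vale.Agent.P100.Calib.TailDefs

/-!
# The eliminated form at the end point of the orbit, in the natural frame

At `z = 0` the orbit is at an equilibrium and all velocities vanish, so only the values of the
scalars enter. In the variables `M = |m|²`, `E = m·d`, `G = |d|²` with `m = α a + β b`,
`d = Y a - X b`, and `Qt = Q - (Q₀/D²) M` the eliminated form is a form in `(E, G, Qt)` plus a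
multiple of `M G`. Three minors then give positivity, and the zeros lie on the orbit state.
-/

-- The linters cost more than the proofs here.
set_option linter.all false

namespace Vale.Agent.P100.Calib

open Orb

/-- An equilibrium at the end of the orbit: `Y = X` or `β Y = -N α`. -/
structure Orb.AtEnd (o : Orb) : Prop where
  hp : (o.p + 1) * o.al = 1
  hq : (o.q + 1) * o.be = 1
  hN : (o.al + o.be) * o.N = o.N - 2
  hX : o.X = -(o.N - 2)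
  hP : o.P = 0
  hQ : o.Q = -o.Y * (o.Y + (o.N - 2))
  hY : o.Y = -(o.N - 2) ∨ o.be * o.Y = -(o.N * o.al)
  N0 : o.N ≠ 0
  X0 : o.X ≠ 0
  Y0 : o.Y ≠ 0
  D0 : o.D ≠ 0
  E0 : o.al * o.X - o.be * o.Y ≠ 0
  al0 : o.al ≠ 0
  be0 : o.be ≠ 0

namespace TailVal

variable (t : TailVal) (o : Orb)

/-- `Q₀/D²`. -/
noncomputable def gam : ℝ := o.Q / o.D ^ 2

/-- The coefficient of `G d` in the fields. -/
noncomputable def gd : ℝ := t.g - t.w * o.Q * (o.al * o.be) / o.D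

/-- The coefficient of `E d` in the fields. -/
noncomputable def ed : ℝ := t.v + t.w * o.Q * (o.be * o.Y - o.al * o.X) / o.D ^ 2

/-- The field built from `U · d`. -/
noncomputable def fldU : Fin 14 → ℝ :=
  o.shapeU 1 (o.Y / o.X) (o.X / o.Y) (o.sC / o.X) (o.sC / o.Y)

/-- The field built from `Qt d`, with `Q₀` multiplied out. -/
noncomputable def fldW : Fin 14 → ℝ :=
  shapeW (o.Q * (o.D / o.X)) (o.Q * (o.D / o.Y)) (-(o.D * o.Y)) (o.D * o.X)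

/-- The coefficients at the end point. -/
noncomputable def coef (j : Fin 14) : ℝ :=
  o.cBase j + t.c * fldU o j + (o.al * t.u + o.Y / o.D * t.gd o) * o.fG 0 j +
    (o.be * t.u - o.X / o.D * t.gd o) * o.fG 1 j + o.al * t.ed o * o.fG 2 j +
    o.be * t.ed o * o.fG 3 j + -t.w / o.D * fldW o j

/-- `nu'`. -/
noncomputable def nup : ℝ :=
  ((o.kap + 2) * o.D + 4 * o.N * o.al * o.be) / (o.N * (o.al * o.X - o.be * o.Y) * o.D)

/-- The coefficient `e` of the base field. -/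
noncomputable def eC : ℝ :=
  (2 * o.al * o.be * (o.X - o.Y) + o.al * o.X - o.be * o.Y) / o.D ^ 2

/-- The coefficient `f` of the base field. -/
noncomputable def fC : ℝ := o.al * o.be * (o.al + o.be + 1) / o.D ^ 2

/-- The first drift. -/
noncomputable def n1 : ℝ := (o.X + o.Y + 2) / o.D

/-- The second drift. -/
noncomputable def n2 : ℝ := (o.be - o.al) / o.D + nup o

/-- `2 (1 - 1/N) c / D²`. -/
noncomputable def bigK : ℝ := 2 * (1 - 1 / o.N) * t.c / o.D ^ 2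

/-- The coupling of `T` with `md`. -/
noncomputable def T1 : ℝ := nup o - eC o - 2 * t.w * gam o - t.bigK o * (o.X - o.Y)

/-- The coupling of `T` with `dd`. -/
noncomputable def T2 : ℝ := -fC o + t.v / (o.X * o.Y) - t.bigK o * (o.al + o.be)

/-- The coupling of `W` with `md`. -/
noncomputable def W1 : ℝ :=
  2 * (t.u / (o.X * o.Y)) + t.v / (o.X * o.Y) - t.bigK o * (o.al + o.be) +
    t.c / (o.X * o.Y) * n1 o

/-- The coupling of `W` with `dd`. -/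
noncomputable def W2 : ℝ :=
  2 * (t.g / (o.X * o.Y * o.D)) -
    2 * (1 - 1 / o.N) * (t.c / (o.X * o.Y)) * (o.be ^ 2 * o.Y - o.al ^ 2 * o.X) / o.D ^ 2 +
    t.c / (o.X * o.Y) * n2 o

/-- Schur complement of `md` with itself. -/
noncomputable def h11 : ℝ := t.T1 o ^ 2 / 4 + t.W1 o ^ 2 * (o.X * o.Y) / (4 * t.c)

/-- Schur complement of `md` with `dd`. -/
noncomputable def h12 : ℝ :=
  t.T1 o * t.T2 o / 4 + t.W1 o * t.W2 o * (o.X * o.Y) / (4 * t.c)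

/-- Schur complement of `dd` with itself. -/
noncomputable def h22 : ℝ := t.T2 o ^ 2 / 4 + t.W2 o ^ 2 * (o.X * o.Y) / (4 * t.c)

/-- The coefficient of `E²` before elimination. -/
noncomputable def rawEE : ℝ :=
  let a₁ := t.u / (o.X * o.Y)
  let a₂ := t.v / (o.X * o.Y)
  let dE := -2 * o.X * o.Y * (o.al + o.be) / o.D ^ 2
  let mE := -2 * o.al * o.be * (o.X - o.Y) / o.D ^ 2
  (o.be - o.al) / 2 * nup o / o.D + a₁ * 2 / o.N * dE +
    a₂ * ((1 + 1 / o.N) * dE - 2 / o.D + n1 o) -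
    2 * t.w * gam o * (-eC o * (1 / 2 - 1 / o.N) + mE / o.N) +
    t.bigK o * ((o.X - o.Y) * eC o * (1 / 2 - 1 / o.N) + (o.al + o.be) * 2 / o.D) +
    4 * (1 - 1 / o.N) * t.c * (o.be * o.X + o.al * o.Y) / (o.N * o.D ^ 3)

/-- The coefficient of `M G` before elimination. -/
noncomputable def rawMG : ℝ :=
  let a₁ := t.u / (o.X * o.Y)
  let a₂ := t.v / (o.X * o.Y)
  let r := t.c / (o.X * o.Y)
  let mM := (o.N - 2) / o.D
  let cG := (o.q * o.be + o.al) / o.D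
  a₁ * (mM + n1 o) - (o.be - o.al) / 2 * nup o / o.D + a₂ * (2 / (o.N * o.D) + mM / o.N) +
    t.w * (gam o * cG + gam o * eC o) +
    t.bigK o * ((o.X - o.Y) * eC o / 2 - (o.al + o.be) * 2 / (o.N * o.D)) +
    2 * (1 - 1 / o.N) * r * (o.X ^ 2 * o.Y * o.be + o.X * o.al * (o.Y ^ 2 + o.Q)) /
      (o.N * o.D ^ 3) + (1 - 1 / o.N) * r * gam o * (o.X * cG)

/-- The coefficient of `E G` before elimination. -/
noncomputable def rawEG : ℝ :=
  let a₁ := t.u / (o.X * o.Y)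
  let a₂ := t.v / (o.X * o.Y)
  let a₃ := t.g / (o.X * o.Y * o.D)
  let dE := -2 * o.X * o.Y * (o.al + o.be) / o.D ^ 2
  let dG := -(o.be ^ 2 * o.Y - o.al ^ 2 * o.X) / o.D ^ 2
  let mE := -2 * o.al * o.be * (o.X - o.Y) / o.D ^ 2
  let mG := -(o.al * o.be * (o.al + o.be)) / o.D ^ 2
  a₁ * (mE + 2 / o.N * dG + n2 o) +
    a₂ * ((1 + 1 / o.N) * dG - eC o * (1 - 1 / o.N) + mE / o.N + n2 o) +
    a₃ * ((1 + 2 / o.N) * dE + n1 o) - 2 * t.w * gam o * (-fC o * (1 - 1 / o.N) + mG / o.N) +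
    t.bigK o * ((o.X - o.Y) * fC o * (1 - 1 / o.N) + (o.al + o.be) * eC o * (1 - 1 / o.N)) +
    6 * (1 - 1 / o.N) * t.c * (o.be ^ 2 - o.al ^ 2) / (o.N * o.D ^ 3)

/-- The coefficient of `G²` before elimination. -/
noncomputable def rawGG : ℝ :=
  let a₁ := t.u / (o.X * o.Y)
  let a₂ := t.v / (o.X * o.Y)
  let a₃ := t.g / (o.X * o.Y * o.D)
  let dG := -(o.be ^ 2 * o.Y - o.al ^ 2 * o.X) / o.D ^ 2
  let mG := -(o.al * o.be * (o.al + o.be)) / o.D ^ 2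
  a₁ * mG + a₂ * (-fC o * (1 - 1 / o.N) + mG / o.N) + a₃ * ((1 + 2 / o.N) * dG + n2 o) +
    t.bigK o * (o.al + o.be) * fC o * (1 - 1 / o.N) +
    2 * (1 - 1 / o.N) * (t.c / (o.X * o.Y)) * (o.Y * o.be ^ 3 + o.X * o.al ^ 3) / (o.N * o.D ^ 3)

/-- The coefficient of `E Qt`. -/
noncomputable def eEQ : ℝ :=
  let a₁ := t.u / (o.X * o.Y)
  let a₂ := t.v / (o.X * o.Y)
  let dE := -2 * o.X * o.Y * (o.al + o.be) / o.D ^ 2
  let cE := (o.q * o.X - o.Y) / o.D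
  a₁ * 2 / o.N * o.X + a₂ * (1 + 1 / o.N) * o.X +
    t.w * (dE + cE + 2 * gam o * o.be / o.N + n1 o) -
    2 * (1 - 1 / o.N) * t.c / (o.N * o.D) + (1 - 1 / o.N) * (t.c / (o.X * o.Y)) * (o.X * cE)

/-- The coefficient of `G Qt`. -/
noncomputable def eGQ : ℝ :=
  let a₁ := t.u / (o.X * o.Y)
  let a₂ := t.v / (o.X * o.Y)
  let a₃ := t.g / (o.X * o.Y * o.D)
  let dG := -(o.be ^ 2 * o.Y - o.al ^ 2 * o.X) / o.D ^ 2
  let cG := (o.q * o.be + o.al) / o.D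
  a₃ * (1 + 2 / o.N) * o.X - a₁ * o.be - a₂ * o.be / o.N + t.w * (dG + cG + n2 o) +
    2 * (1 - 1 / o.N) * (t.c / (o.X * o.Y)) * o.X * o.al / (o.N * o.D) +
    (1 - 1 / o.N) * (t.c / (o.X * o.Y)) * (o.X * cG)

/-- The coefficient of `E²`. -/
noncomputable def eEE : ℝ := t.rawEE o - t.h11 o * (1 / 2 - 1 / o.N)

/-- The coefficient of `M G`. -/
noncomputable def eMG : ℝ := t.rawMG o - t.h11 o / 2

/-- The coefficient of `E G`. -/
noncomputable def eEG : ℝ := t.rawEG o - 2 * t.h12 o * (1 - 1 / o.N)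

/-- The coefficient of `G²`. -/
noncomputable def eGG : ℝ := t.rawGG o - t.h22 o * (1 - 1 / o.N)

/-- The form in the natural frame. -/
noncomputable def frameForm (A C B Q : ℝ) : ℝ :=
  let M := o.al ^ 2 * A + 2 * (o.al * o.be) * C + o.be ^ 2 * B
  let E := o.al * o.Y * A + (o.be * o.Y - o.al * o.X) * C - o.be * o.X * B
  let G := o.Y ^ 2 * A - 2 * (o.X * o.Y) * C + o.X ^ 2 * B
  let Qt := Q - gam o * M
  t.eEE o * E ^ 2 + t.eEG o * (E * G) + t.eGG o * G ^ 2 + t.eEQ o * (E * Qt) +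
    t.eGQ o * (G * Qt) + t.w * o.X * Qt ^ 2 + t.eMG o * (M * G)

theorem coef_head (hX : o.X ≠ 0) (hY : o.Y ≠ 0) :
    t.coef o 0 = o.al ^ 2 + t.c * (o.Y / o.X) ∧
      (t.coef o 1 + t.coef o 2) / 2 = o.al * o.be - t.c ∧
      t.coef o 3 = o.be ^ 2 + t.c * (o.X / o.Y) := by
  simp [coef, Orb.cBase, fldU, Orb.shapeU, Orb.fG, shapeG, fldW, shapeW]
  ring

theorem coef_det (hX : o.X ≠ 0) (hY : o.Y ≠ 0) :
    t.coef o 0 * t.coef o 3 - ((t.coef o 1 + t.coef o 2) / 2) ^ 2 =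
      t.c * o.D ^ 2 / (o.X * o.Y) := by
  obtain ⟨h0, h1, h3⟩ := t.coef_head o hX hY
  rw [h0, h1, h3, Orb.D]
  field_simp
  ring

theorem gram_frame (hX : o.X ≠ 0) (hY : o.Y ≠ 0) (hD : o.D ≠ 0) (hc : t.c ≠ 0)
    (r a₀ a₁ a₂ b₀ b₁ b₂ A C B : ℝ) :
    ((o.be ^ 2 + t.c * (o.X / o.Y)) *
          gram r (o.al * a₀ + o.Y * b₀) (o.al * a₁ + o.Y * b₁) (o.al * a₂ + o.Y * b₂)
            (o.al * a₀ + o.Y * b₀) (o.al * a₁ + o.Y * b₁) (o.al * a₂ + o.Y * b₂) A C B -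
        2 * (o.al * o.be - t.c) *
          gram r (o.al * a₀ + o.Y * b₀) (o.al * a₁ + o.Y * b₁) (o.al * a₂ + o.Y * b₂)
            (o.be * a₀ - o.X * b₀) (o.be * a₁ - o.X * b₁) (o.be * a₂ - o.X * b₂) A C B +
        (o.al ^ 2 + t.c * (o.Y / o.X)) *
          gram r (o.be * a₀ - o.X * b₀) (o.be * a₁ - o.X * b₁) (o.be * a₂ - o.X * b₂)
            (o.be * a₀ - o.X * b₀) (o.be * a₁ - o.X * b₁) (o.be * a₂ - o.X * b₂) A C B) /
      (4 * (t.c * o.D ^ 2 / (o.X * o.Y))) =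
    gram r a₀ a₁ a₂ a₀ a₁ a₂ A C B / 4 +
      gram r b₀ b₁ b₂ b₀ b₁ b₂ A C B * (o.X * o.Y) / (4 * t.c) := by
  have e : (o.be ^ 2 + t.c * (o.X / o.Y)) *
          gram r (o.al * a₀ + o.Y * b₀) (o.al * a₁ + o.Y * b₁) (o.al * a₂ + o.Y * b₂)
            (o.al * a₀ + o.Y * b₀) (o.al * a₁ + o.Y * b₁) (o.al * a₂ + o.Y * b₂) A C B -
        2 * (o.al * o.be - t.c) *
          gram r (o.al * a₀ + o.Y * b₀) (o.al * a₁ + o.Y * b₁) (o.al * a₂ + o.Y * b₂)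
            (o.be * a₀ - o.X * b₀) (o.be * a₁ - o.X * b₁) (o.be * a₂ - o.X * b₂) A C B +
        (o.al ^ 2 + t.c * (o.Y / o.X)) *
          gram r (o.be * a₀ - o.X * b₀) (o.be * a₁ - o.X * b₁) (o.be * a₂ - o.X * b₂)
            (o.be * a₀ - o.X * b₀) (o.be * a₁ - o.X * b₁) (o.be * a₂ - o.X * b₂) A C B =
      o.D ^ 2 / (o.X * o.Y) * (t.c * gram r a₀ a₁ a₂ a₀ a₁ a₂ A C B +
        o.X * o.Y * gram r b₀ b₁ b₂ b₀ b₁ b₂ A C B) := by
    simp only [gram, Orb.D]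
    field_simp
    ring
  rw [e]
  field_simp

theorem gram_md_dd (hN : o.N ≠ 0) (T₁ T₂ A C B : ℝ) :
    gram (1 / o.N) (o.al * o.Y * T₁ + o.Y ^ 2 * T₂)
        ((o.be * o.Y - o.al * o.X) * T₁ - 2 * (o.X * o.Y) * T₂)
        (-(o.be * o.X) * T₁ + o.X ^ 2 * T₂) (o.al * o.Y * T₁ + o.Y ^ 2 * T₂)
        ((o.be * o.Y - o.al * o.X) * T₁ - 2 * (o.X * o.Y) * T₂)
        (-(o.be * o.X) * T₁ + o.X ^ 2 * T₂) A C B =
      let M := o.al ^ 2 * A + 2 * (o.al * o.be) * C + o.be ^ 2 * B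
      let E := o.al * o.Y * A + (o.be * o.Y - o.al * o.X) * C - o.be * o.X * B
      let G := o.Y ^ 2 * A - 2 * (o.X * o.Y) * C + o.X ^ 2 * B
      T₁ ^ 2 * ((M * G + E ^ 2) / 2 - E ^ 2 / o.N) + 2 * T₁ * T₂ * (E * G * (1 - 1 / o.N)) +
        T₂ ^ 2 * (G ^ 2 * (1 - 1 / o.N)) := by
  simp only [gram]
  field_simp
  ring

/-- The data `c lam`. -/
noncomputable def cl (j : Fin 14) : ℝ := t.coef o j * o.lam

/-- The data `c mu`. -/
noncomputable def cm (j : Fin 14) : ℝ := t.coef o j * o.mu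

theorem J_end (h : o.AtEnd) : o.J = 2 := by
  have hN := h.N0
  have hD := h.D0
  rw [Orb.J, div_eq_iff hD, Orb.D, h.hX]
  rcases h.hY with hY | hY
  · rw [hY]; linear_combination (o.N - 2) * h.hN
  · refine mul_left_cancel₀ h.be0 ?_
    linear_combination (o.be * o.Y + o.N - 2 - 2 * o.be - o.N * o.al) * hY +
      (o.al * o.N) * h.hN

theorem end_values (h : o.AtEnd) :
    (∃ m s : ℝ, m ≠ 0 ∧ s ≠ 0 ∧ m + 2 ≠ 0 ∧ o.N = m + 2 ∧ o.al = (m - s) / (2 * (m + 2)) ∧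
        o.be = (m + s) / (2 * (m + 2)) ∧ o.X = -m ∧ o.Y = -m ∧ o.Q = 0 ∧
        o.D = -m ^ 2 / (m + 2) ∧ o.al * o.X - o.be * o.Y = m * s / (m + 2)) ∨
      (∃ m l : ℝ, m ≠ 0 ∧ l ≠ 0 ∧ m + 1 ≠ 0 ∧ m + 2 ≠ 0 ∧ m - l ≠ 0 ∧ o.N = m + 2 ∧
        o.al = l / (m + 2) ∧ o.be = (m - l) / (m + 2) ∧ o.X = -m ∧
        o.Y = -((m + 2) * l) / (m - l) ∧
        o.Q = (m + 2) * l / (m - l) * (m - (m + 2) * l / (m - l)) ∧
        o.D = -(2 * l * (m + 1)) / (m + 2) ∧ o.al * o.X - o.be * o.Y = 2 * l / (m + 2)) := by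
  have N0 := h.N0
  have hb : o.be = (o.N - 2) / o.N - o.al := by
    rw [eq_sub_iff_add_eq, eq_div_iff N0]; linear_combination h.hN
  have m0 : o.N - 2 ≠ 0 := fun e => h.X0 (by rw [h.hX, e, neg_zero])
  have eN : o.N = o.N - 2 + 2 := by ring
  have m2 : o.N - 2 + 2 ≠ 0 := by rw [← eN]; exact N0
  rcases h.hY with hY | hY
  · refine Or.inl ⟨o.N - 2, o.N - 2 - 2 * o.N * o.al, m0, fun e => ?_, m2, eN, ?_, ?_, h.hX, hY,
      ?_, ?_, ?_⟩
    · refine h.E0 ?_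
      rw [h.hX, hY, hb]; field_simp; linear_combination (o.N - 2) * e
    · rw [← eN]; field_simp; ring
    · rw [hb, ← eN]; field_simp; ring
    · rw [h.hQ, hY]; ring
    · rw [Orb.D, h.hX, hY, hb, ← eN]; field_simp; ring
    · rw [h.hX, hY, hb, ← eN]; field_simp; ring
  · have be' : o.N - 2 - o.N * o.al ≠ 0 := fun e => h.be0 (by rw [hb]; field_simp; linarith)
    have hY' : o.Y = -(o.N * o.al) / o.be := by rw [eq_div_iff h.be0]; linear_combination hY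
    refine Or.inr ⟨o.N - 2, o.N * o.al, m0, mul_ne_zero N0 h.al0, fun e => ?_, m2, be', eN, ?_, ?_,
      h.hX, ?_, ?_, ?_, ?_⟩
    · refine h.D0 ?_
      rw [Orb.D, h.hX, hY]; linear_combination (-(2 * o.al)) * e
    · rw [← eN]; field_simp
    · rw [hb, ← eN]; field_simp
    · rw [hY', hb, ← eN]; field_simp
    · rw [h.hQ, hY', hb, ← eN]; field_simp; ring
    · rw [Orb.D, h.hX, hY, ← eN]; field_simp; ring
    · rw [h.hX, hY, ← eN]; field_simp; ring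

theorem linU_end0 (h : o.AtEnd) (hc : t.c ≠ 0) :
    linU (t.coef o) (t.cl o) (t.cm o) 0 =
      o.al * (2 * o.al + o.al * o.Y * t.T1 o + o.Y ^ 2 * t.T2 o) +
      o.Y * (o.al * o.Y * t.W1 o + o.Y ^ 2 * t.W2 o) := by
  have hJ := J_end o h
  simp only [linU, Matrix.cons_val_zero, cl, cm, coef, Orb.cBase, fldU, Orb.shapeU, Orb.fG, shapeG,
    fldW, shapeW, Matrix.cons_val, gd, ed, T1, T2, W1, W2, bigK, nup, eC, fC, n1, n2, gam,
    Orb.lam, Orb.mu, hJ, Orb.sC, Orb.sU, Orb.sV, h.hP]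
  rcases end_values o h with ⟨m, s, m0, s0, m2, hN, hal, hbe, hX, hY, hQ, hD, hE⟩ |
    ⟨m, l, m0, l0, m1, m2, ml, hN, hal, hbe, hX, hY, hQ, hD, hE⟩
  · rw [hE, hD, hQ, hX, hY, hal, hbe, hN]
    field_simp
    ring
  · rw [hE, hD, hQ, hX, hY, hal, hbe, hN]
    field_simp
    ring

theorem linV_end0 (h : o.AtEnd) (hc : t.c ≠ 0) :
    linV (t.coef o) (t.cl o) (t.cm o) 0 =
      o.be * (2 * o.al + o.al * o.Y * t.T1 o + o.Y ^ 2 * t.T2 o) -
      o.X * (o.al * o.Y * t.W1 o + o.Y ^ 2 * t.W2 o) := by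
  have hJ := J_end o h
  simp only [linV, Matrix.cons_val_zero, cl, cm, coef, Orb.cBase, fldU, Orb.shapeU, Orb.fG, shapeG,
    fldW, shapeW, Matrix.cons_val, gd, ed, T1, T2, W1, W2, bigK, nup, eC, fC, n1, n2, gam,
    Orb.lam, Orb.mu, hJ, Orb.sC, Orb.sU, Orb.sV, h.hP]
  rcases end_values o h with ⟨m, s, m0, s0, m2, hN, hal, hbe, hX, hY, hQ, hD, hE⟩ |
    ⟨m, l, m0, l0, m1, m2, ml, hN, hal, hbe, hX, hY, hQ, hD, hE⟩
  · rw [hE, hD, hQ, hX, hY, hal, hbe, hN]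
    field_simp
    ring
  · rw [hE, hD, hQ, hX, hY, hal, hbe, hN]
    field_simp
    ring

theorem linU_end1 (h : o.AtEnd) (hc : t.c ≠ 0) :
    linU (t.coef o) (t.cl o) (t.cm o) 1 =
      o.al * (-2 + (o.be * o.Y - o.al * o.X) * t.T1 o + -(2 * (o.X * o.Y)) * t.T2 o) +
      o.Y * ((o.be * o.Y - o.al * o.X) * t.W1 o + -(2 * (o.X * o.Y)) * t.W2 o) := by
  have hJ := J_end o h
  simp only [linU, Matrix.cons_val_zero, cl, cm, coef, Orb.cBase, fldU, Orb.shapeU, Orb.fG, shapeG,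
    fldW, shapeW, Matrix.cons_val, gd, ed, T1, T2, W1, W2, bigK, nup, eC, fC, n1, n2, gam,
    Orb.lam, Orb.mu, hJ, Orb.sC, Orb.sU, Orb.sV, h.hP]
  rcases end_values o h with ⟨m, s, m0, s0, m2, hN, hal, hbe, hX, hY, hQ, hD, hE⟩ |
    ⟨m, l, m0, l0, m1, m2, ml, hN, hal, hbe, hX, hY, hQ, hD, hE⟩
  · rw [hE, hD, hQ, hX, hY, hal, hbe, hN]
    field_simp
    ring
  · rw [hE, hD, hQ, hX, hY, hal, hbe, hN]
    field_simp
    ring

theorem linV_end1 (h : o.AtEnd) (hc : t.c ≠ 0) :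
    linV (t.coef o) (t.cl o) (t.cm o) 1 =
      o.be * (-2 + (o.be * o.Y - o.al * o.X) * t.T1 o + -(2 * (o.X * o.Y)) * t.T2 o) -
      o.X * ((o.be * o.Y - o.al * o.X) * t.W1 o + -(2 * (o.X * o.Y)) * t.W2 o) := by
  have hJ := J_end o h
  simp only [linV, Matrix.cons_val_zero, cl, cm, coef, Orb.cBase, fldU, Orb.shapeU, Orb.fG, shapeG,
    fldW, shapeW, Matrix.cons_val, gd, ed, T1, T2, W1, W2, bigK, nup, eC, fC, n1, n2, gam,
    Orb.lam, Orb.mu, hJ, Orb.sC, Orb.sU, Orb.sV, h.hP]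
  rcases end_values o h with ⟨m, s, m0, s0, m2, hN, hal, hbe, hX, hY, hQ, hD, hE⟩ |
    ⟨m, l, m0, l0, m1, m2, ml, hN, hal, hbe, hX, hY, hQ, hD, hE⟩
  · rw [hE, hD, hQ, hX, hY, hal, hbe, hN]
    field_simp
    ring
  · rw [hE, hD, hQ, hX, hY, hal, hbe, hN]
    field_simp
    ring

theorem linU_end2 (h : o.AtEnd) (hc : t.c ≠ 0) :
    linU (t.coef o) (t.cl o) (t.cm o) 2 =
      o.al * (2 * o.be + -(o.be * o.X) * t.T1 o + o.X ^ 2 * t.T2 o) +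
      o.Y * (-(o.be * o.X) * t.W1 o + o.X ^ 2 * t.W2 o) := by
  have hJ := J_end o h
  simp only [linU, Matrix.cons_val_zero, cl, cm, coef, Orb.cBase, fldU, Orb.shapeU, Orb.fG, shapeG,
    fldW, shapeW, Matrix.cons_val, gd, ed, T1, T2, W1, W2, bigK, nup, eC, fC, n1, n2, gam,
    Orb.lam, Orb.mu, hJ, Orb.sC, Orb.sU, Orb.sV, h.hP]
  rcases end_values o h with ⟨m, s, m0, s0, m2, hN, hal, hbe, hX, hY, hQ, hD, hE⟩ |
    ⟨m, l, m0, l0, m1, m2, ml, hN, hal, hbe, hX, hY, hQ, hD, hE⟩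
  · rw [hE, hD, hQ, hX, hY, hal, hbe, hN]
    field_simp
    ring
  · rw [hE, hD, hQ, hX, hY, hal, hbe, hN]
    field_simp
    ring

theorem linV_end2 (h : o.AtEnd) (hc : t.c ≠ 0) :
    linV (t.coef o) (t.cl o) (t.cm o) 2 =
      o.be * (2 * o.be + -(o.be * o.X) * t.T1 o + o.X ^ 2 * t.T2 o) -
      o.X * (-(o.be * o.X) * t.W1 o + o.X ^ 2 * t.W2 o) := by
  have hJ := J_end o h
  simp only [linV, Matrix.cons_val_zero, cl, cm, coef, Orb.cBase, fldU, Orb.shapeU, Orb.fG, shapeG,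
    fldW, shapeW, Matrix.cons_val, gd, ed, T1, T2, W1, W2, bigK, nup, eC, fC, n1, n2, gam,
    Orb.lam, Orb.mu, hJ, Orb.sC, Orb.sU, Orb.sV, h.hP]
  rcases end_values o h with ⟨m, s, m0, s0, m2, hN, hal, hbe, hX, hY, hQ, hD, hE⟩ |
    ⟨m, l, m0, l0, m1, m2, ml, hN, hal, hbe, hX, hY, hQ, hD, hE⟩
  · rw [hE, hD, hQ, hX, hY, hal, hbe, hN]
    field_simp
    ring
  · rw [hE, hD, hQ, hX, hY, hal, hbe, hN]
    field_simp
    ring

theorem coef_AA (h : o.AtEnd) (hc : t.c ≠ 0) :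
    -t.coef o 4 + t.cl o 4 + (t.coef o 0 - (o.al * ((2 * o.al) + (o.al * o.Y * t.T1 o + o.Y ^ 2 * t.T2 o)) + o.Y * (o.al * o.Y * t.W1 o + o.Y ^ 2 * t.W2 o))) / o.N =
      t.rawEE o * ((o.al * o.Y) * (o.al * o.Y)) +
        t.rawEG o * ((o.al * o.Y) * o.Y ^ 2) +
        t.rawGG o * (o.Y ^ 2 * o.Y ^ 2) +
        t.eEQ o * ((o.al * o.Y) * (-(gam o * o.al ^ 2))) +
        t.eGQ o * (o.Y ^ 2 * (-(gam o * o.al ^ 2))) +
        t.w * o.X * ((-(gam o * o.al ^ 2)) * (-(gam o * o.al ^ 2))) +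
        t.rawMG o * (o.al ^ 2 * o.Y ^ 2) +
        (o.al * (o.al + (o.al * o.Y * t.T1 o + o.Y ^ 2 * t.T2 o)) * (1 - 1 / o.N)) := by
  have hJ := J_end o h
  simp only [cl, cm, coef, eEQ, eGQ, rawEE, rawMG, rawEG, rawGG, Orb.cBase, fldU, Orb.shapeU,
    Orb.fG, shapeG, fldW, shapeW, Matrix.cons_val, Matrix.cons_val_zero, gd, ed, T1, T2, W1, W2,
    bigK, nup, eC, fC, n1, n2, gam, Orb.lam, Orb.mu, hJ, Orb.sC, Orb.sU, Orb.sV, h.hP]
  have hq : o.q = 1 / o.be - 1 := by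
    have := h.hq; have := h.be0; field_simp; linarith
  rcases end_values o h with ⟨m, s, m0, s0, m2, hN, hal, hbe, hX, hY, hQ, hD, hE⟩ |
    ⟨m, l, m0, l0, m1, m2, ml, hN, hal, hbe, hX, hY, hQ, hD, hE⟩
  · have hms : m + s ≠ 0 := fun e => h.be0 (by rw [hbe, e, zero_div])
    rw [hE, hD, hQ, hX, hY]
    try rw [hq]
    rw [hal, hbe, hN]
    field_simp
    ring
  · rw [hE, hD, hQ, hX, hY]
    try rw [hq]
    rw [hal, hbe, hN]
    field_simp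
    ring

theorem coef_AC (h : o.AtEnd) (hc : t.c ≠ 0) :
    t.cm o 4 + t.cl o 5 - t.coef o 6 + t.cl o 6 - (o.al * ((-2) + ((o.be * o.Y - o.al * o.X) * t.T1 o + -(2 * (o.X * o.Y)) * t.T2 o)) + o.Y * ((o.be * o.Y - o.al * o.X) * t.W1 o + -(2 * (o.X * o.Y)) * t.W2 o)) / o.N =
      t.rawEE o * ((o.al * o.Y) * (o.be * o.Y - o.al * o.X) + (o.be * o.Y - o.al * o.X) * (o.al * o.Y)) +
        t.rawEG o * ((o.al * o.Y) * (-(2 * (o.X * o.Y))) + (o.be * o.Y - o.al * o.X) * o.Y ^ 2) +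
        t.rawGG o * (o.Y ^ 2 * (-(2 * (o.X * o.Y))) + (-(2 * (o.X * o.Y))) * o.Y ^ 2) +
        t.eEQ o * ((o.al * o.Y) * (-(gam o * (2 * (o.al * o.be)))) + (o.be * o.Y - o.al * o.X) * (-(gam o * o.al ^ 2))) +
        t.eGQ o * (o.Y ^ 2 * (-(gam o * (2 * (o.al * o.be)))) + (-(2 * (o.X * o.Y))) * (-(gam o * o.al ^ 2))) +
        t.w * o.X * ((-(gam o * o.al ^ 2)) * (-(gam o * (2 * (o.al * o.be)))) + (-(gam o * (2 * (o.al * o.be)))) * (-(gam o * o.al ^ 2))) +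
        t.rawMG o * (o.al ^ 2 * (-(2 * (o.X * o.Y))) + (2 * (o.al * o.be)) * o.Y ^ 2) +
        ((o.al * ((-1) + ((o.be * o.Y - o.al * o.X) * t.T1 o + -(2 * (o.X * o.Y)) * t.T2 o)) + (-1) * (o.al + (o.al * o.Y * t.T1 o + o.Y ^ 2 * t.T2 o))) * (1 - 1 / o.N)) := by
  have hJ := J_end o h
  simp only [cl, cm, coef, eEQ, eGQ, rawEE, rawMG, rawEG, rawGG, Orb.cBase, fldU, Orb.shapeU,
    Orb.fG, shapeG, fldW, shapeW, Matrix.cons_val, Matrix.cons_val_zero, gd, ed, T1, T2, W1, W2,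
    bigK, nup, eC, fC, n1, n2, gam, Orb.lam, Orb.mu, hJ, Orb.sC, Orb.sU, Orb.sV, h.hP]
  have hq : o.q = 1 / o.be - 1 := by
    have := h.hq; have := h.be0; field_simp; linarith
  rcases end_values o h with ⟨m, s, m0, s0, m2, hN, hal, hbe, hX, hY, hQ, hD, hE⟩ |
    ⟨m, l, m0, l0, m1, m2, ml, hN, hal, hbe, hX, hY, hQ, hD, hE⟩
  · have hms : m + s ≠ 0 := fun e => h.be0 (by rw [hbe, e, zero_div])
    rw [hE, hD, hQ, hX, hY]
    try rw [hq]
    rw [hal, hbe, hN]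
    field_simp
    ring
  · rw [hE, hD, hQ, hX, hY]
    try rw [hq]
    rw [hal, hbe, hN]
    field_simp
    ring

theorem coef_AB (h : o.AtEnd) (hc : t.c ≠ 0) :
    -t.coef o 5 + t.cm o 5 - t.coef o 8 + t.cl o 8 + (2 * ((t.coef o 1 + t.coef o 2) / 2) - (o.al * ((2 * o.be) + (-(o.be * o.X) * t.T1 o + o.X ^ 2 * t.T2 o)) + o.Y * (-(o.be * o.X) * t.W1 o + o.X ^ 2 * t.W2 o)) - (o.be * ((2 * o.al) + (o.al * o.Y * t.T1 o + o.Y ^ 2 * t.T2 o)) - o.X * (o.al * o.Y * t.W1 o + o.Y ^ 2 * t.W2 o))) / o.N =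
      t.rawEE o * ((o.al * o.Y) * (-(o.be * o.X)) + (-(o.be * o.X)) * (o.al * o.Y)) +
        t.rawEG o * ((o.al * o.Y) * o.X ^ 2 + (-(o.be * o.X)) * o.Y ^ 2) +
        t.rawGG o * (o.Y ^ 2 * o.X ^ 2 + o.X ^ 2 * o.Y ^ 2) +
        t.eEQ o * ((o.al * o.Y) * (-(gam o * o.be ^ 2)) + (-(o.be * o.X)) * (-(gam o * o.al ^ 2))) +
        t.eGQ o * (o.Y ^ 2 * (-(gam o * o.be ^ 2)) + o.X ^ 2 * (-(gam o * o.al ^ 2))) +
        t.w * o.X * ((-(gam o * o.al ^ 2)) * (-(gam o * o.be ^ 2)) + (-(gam o * o.be ^ 2)) * (-(gam o * o.al ^ 2))) +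
        t.rawMG o * (o.al ^ 2 * o.X ^ 2 + o.be ^ 2 * o.Y ^ 2) +
        (-(1 / o.N * (o.al * (o.be + (-(o.be * o.X) * t.T1 o + o.X ^ 2 * t.T2 o)) + o.be * (o.al + (o.al * o.Y * t.T1 o + o.Y ^ 2 * t.T2 o)))) + (-1) * ((-1) + ((o.be * o.Y - o.al * o.X) * t.T1 o + -(2 * (o.X * o.Y)) * t.T2 o)) / 2) := by
  have hJ := J_end o h
  simp only [cl, cm, coef, eEQ, eGQ, rawEE, rawMG, rawEG, rawGG, Orb.cBase, fldU, Orb.shapeU,
    Orb.fG, shapeG, fldW, shapeW, Matrix.cons_val, Matrix.cons_val_zero, gd, ed, T1, T2, W1, W2,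
    bigK, nup, eC, fC, n1, n2, gam, Orb.lam, Orb.mu, hJ, Orb.sC, Orb.sU, Orb.sV, h.hP]
  have hq : o.q = 1 / o.be - 1 := by
    have := h.hq; have := h.be0; field_simp; linarith
  rcases end_values o h with ⟨m, s, m0, s0, m2, hN, hal, hbe, hX, hY, hQ, hD, hE⟩ |
    ⟨m, l, m0, l0, m1, m2, ml, hN, hal, hbe, hX, hY, hQ, hD, hE⟩
  · have hms : m + s ≠ 0 := fun e => h.be0 (by rw [hbe, e, zero_div])
    rw [hE, hD, hQ, hX, hY]
    try rw [hq]
    rw [hal, hbe, hN]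
    field_simp
    ring
  · rw [hE, hD, hQ, hX, hY]
    try rw [hq]
    rw [hal, hbe, hN]
    field_simp
    ring

theorem coef_CC (h : o.AtEnd) (hc : t.c ≠ 0) :
    t.cm o 6 + t.cl o 7 =
      t.rawEE o * ((o.be * o.Y - o.al * o.X) * (o.be * o.Y - o.al * o.X)) +
        t.rawEG o * ((o.be * o.Y - o.al * o.X) * (-(2 * (o.X * o.Y)))) +
        t.rawGG o * ((-(2 * (o.X * o.Y))) * (-(2 * (o.X * o.Y)))) +
        t.eEQ o * ((o.be * o.Y - o.al * o.X) * (-(gam o * (2 * (o.al * o.be))))) +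
        t.eGQ o * ((-(2 * (o.X * o.Y))) * (-(gam o * (2 * (o.al * o.be))))) +
        t.w * o.X * ((-(gam o * (2 * (o.al * o.be)))) * (-(gam o * (2 * (o.al * o.be))))) +
        t.rawMG o * ((2 * (o.al * o.be)) * (-(2 * (o.X * o.Y)))) +
        ((o.al * (o.be + (-(o.be * o.X) * t.T1 o + o.X ^ 2 * t.T2 o)) + o.be * (o.al + (o.al * o.Y * t.T1 o + o.Y ^ 2 * t.T2 o))) + (-1) * ((-1) + ((o.be * o.Y - o.al * o.X) * t.T1 o + -(2 * (o.X * o.Y)) * t.T2 o)) * (1 / 2 - 1 / o.N)) := by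
  have hJ := J_end o h
  simp only [cl, cm, coef, eEQ, eGQ, rawEE, rawMG, rawEG, rawGG, Orb.cBase, fldU, Orb.shapeU,
    Orb.fG, shapeG, fldW, shapeW, Matrix.cons_val, Matrix.cons_val_zero, gd, ed, T1, T2, W1, W2,
    bigK, nup, eC, fC, n1, n2, gam, Orb.lam, Orb.mu, hJ, Orb.sC, Orb.sU, Orb.sV, h.hP]
  have hq : o.q = 1 / o.be - 1 := by
    have := h.hq; have := h.be0; field_simp; linarith
  rcases end_values o h with ⟨m, s, m0, s0, m2, hN, hal, hbe, hX, hY, hQ, hD, hE⟩ |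
    ⟨m, l, m0, l0, m1, m2, ml, hN, hal, hbe, hX, hY, hQ, hD, hE⟩
  · have hms : m + s ≠ 0 := fun e => h.be0 (by rw [hbe, e, zero_div])
    rw [hE, hD, hQ, hX, hY]
    try rw [hq]
    rw [hal, hbe, hN]
    field_simp
    ring
  · rw [hE, hD, hQ, hX, hY]
    try rw [hq]
    rw [hal, hbe, hN]
    field_simp
    ring

theorem coef_CB (h : o.AtEnd) (hc : t.c ≠ 0) :
    -t.coef o 7 + t.cm o 7 + t.cm o 8 + t.cl o 9 - (o.be * ((-2) + ((o.be * o.Y - o.al * o.X) * t.T1 o + -(2 * (o.X * o.Y)) * t.T2 o)) - o.X * ((o.be * o.Y - o.al * o.X) * t.W1 o + -(2 * (o.X * o.Y)) * t.W2 o)) / o.N =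
      t.rawEE o * ((o.be * o.Y - o.al * o.X) * (-(o.be * o.X)) + (-(o.be * o.X)) * (o.be * o.Y - o.al * o.X)) +
        t.rawEG o * ((o.be * o.Y - o.al * o.X) * o.X ^ 2 + (-(o.be * o.X)) * (-(2 * (o.X * o.Y)))) +
        t.rawGG o * ((-(2 * (o.X * o.Y))) * o.X ^ 2 + o.X ^ 2 * (-(2 * (o.X * o.Y)))) +
        t.eEQ o * ((o.be * o.Y - o.al * o.X) * (-(gam o * o.be ^ 2)) + (-(o.be * o.X)) * (-(gam o * (2 * (o.al * o.be))))) +
        t.eGQ o * ((-(2 * (o.X * o.Y))) * (-(gam o * o.be ^ 2)) + o.X ^ 2 * (-(gam o * (2 * (o.al * o.be))))) +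
        t.w * o.X * ((-(gam o * (2 * (o.al * o.be)))) * (-(gam o * o.be ^ 2)) + (-(gam o * o.be ^ 2)) * (-(gam o * (2 * (o.al * o.be))))) +
        t.rawMG o * ((2 * (o.al * o.be)) * o.X ^ 2 + o.be ^ 2 * (-(2 * (o.X * o.Y)))) +
        (((-1) * (o.be + (-(o.be * o.X) * t.T1 o + o.X ^ 2 * t.T2 o)) + o.be * ((-1) + ((o.be * o.Y - o.al * o.X) * t.T1 o + -(2 * (o.X * o.Y)) * t.T2 o))) * (1 - 1 / o.N)) := by
  have hJ := J_end o h
  simp only [cl, cm, coef, eEQ, eGQ, rawEE, rawMG, rawEG, rawGG, Orb.cBase, fldU, Orb.shapeU,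
    Orb.fG, shapeG, fldW, shapeW, Matrix.cons_val, Matrix.cons_val_zero, gd, ed, T1, T2, W1, W2,
    bigK, nup, eC, fC, n1, n2, gam, Orb.lam, Orb.mu, hJ, Orb.sC, Orb.sU, Orb.sV, h.hP]
  have hq : o.q = 1 / o.be - 1 := by
    have := h.hq; have := h.be0; field_simp; linarith
  rcases end_values o h with ⟨m, s, m0, s0, m2, hN, hal, hbe, hX, hY, hQ, hD, hE⟩ |
    ⟨m, l, m0, l0, m1, m2, ml, hN, hal, hbe, hX, hY, hQ, hD, hE⟩
  · have hms : m + s ≠ 0 := fun e => h.be0 (by rw [hbe, e, zero_div])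
    rw [hE, hD, hQ, hX, hY]
    try rw [hq]
    rw [hal, hbe, hN]
    field_simp
    ring
  · rw [hE, hD, hQ, hX, hY]
    try rw [hq]
    rw [hal, hbe, hN]
    field_simp
    ring

theorem coef_BB (h : o.AtEnd) (hc : t.c ≠ 0) :
    -t.coef o 9 + t.cm o 9 + (t.coef o 3 - (o.be * ((2 * o.be) + (-(o.be * o.X) * t.T1 o + o.X ^ 2 * t.T2 o)) - o.X * (-(o.be * o.X) * t.W1 o + o.X ^ 2 * t.W2 o))) / o.N =
      t.rawEE o * ((-(o.be * o.X)) * (-(o.be * o.X))) +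
        t.rawEG o * ((-(o.be * o.X)) * o.X ^ 2) +
        t.rawGG o * (o.X ^ 2 * o.X ^ 2) +
        t.eEQ o * ((-(o.be * o.X)) * (-(gam o * o.be ^ 2))) +
        t.eGQ o * (o.X ^ 2 * (-(gam o * o.be ^ 2))) +
        t.w * o.X * ((-(gam o * o.be ^ 2)) * (-(gam o * o.be ^ 2))) +
        t.rawMG o * (o.be ^ 2 * o.X ^ 2) +
        (o.be * (o.be + (-(o.be * o.X) * t.T1 o + o.X ^ 2 * t.T2 o)) * (1 - 1 / o.N)) := by
  have hJ := J_end o h
  simp only [cl, cm, coef, eEQ, eGQ, rawEE, rawMG, rawEG, rawGG, Orb.cBase, fldU, Orb.shapeU,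
    Orb.fG, shapeG, fldW, shapeW, Matrix.cons_val, Matrix.cons_val_zero, gd, ed, T1, T2, W1, W2,
    bigK, nup, eC, fC, n1, n2, gam, Orb.lam, Orb.mu, hJ, Orb.sC, Orb.sU, Orb.sV, h.hP]
  have hq : o.q = 1 / o.be - 1 := by
    have := h.hq; have := h.be0; field_simp; linarith
  rcases end_values o h with ⟨m, s, m0, s0, m2, hN, hal, hbe, hX, hY, hQ, hD, hE⟩ |
    ⟨m, l, m0, l0, m1, m2, ml, hN, hal, hbe, hX, hY, hQ, hD, hE⟩
  · have hms : m + s ≠ 0 := fun e => h.be0 (by rw [hbe, e, zero_div])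
    rw [hE, hD, hQ, hX, hY]
    try rw [hq]
    rw [hal, hbe, hN]
    field_simp
    ring
  · rw [hE, hD, hQ, hX, hY]
    try rw [hq]
    rw [hal, hbe, hN]
    field_simp
    ring

theorem coef_QA (h : o.AtEnd) (hc : t.c ≠ 0) :
    -(t.coef o 2 * o.q) - t.coef o 5 + t.coef o 12 * (o.q - 1) + t.cl o 12 + (2 * ((t.coef o 1 + t.coef o 2) / 2) - (o.be * ((2 * o.al) + (o.al * o.Y * t.T1 o + o.Y ^ 2 * t.T2 o)) - o.X * (o.al * o.Y * t.W1 o + o.Y ^ 2 * t.W2 o))) / o.N =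
      t.eEQ o * (o.al * o.Y) + t.eGQ o * o.Y ^ 2 + 2 * (t.w * o.X) * (-(gam o * o.al ^ 2)) := by
  have hJ := J_end o h
  simp only [cl, cm, coef, eEQ, eGQ, rawEE, rawMG, rawEG, rawGG, Orb.cBase, fldU, Orb.shapeU,
    Orb.fG, shapeG, fldW, shapeW, Matrix.cons_val, Matrix.cons_val_zero, gd, ed, T1, T2, W1, W2,
    bigK, nup, eC, fC, n1, n2, gam, Orb.lam, Orb.mu, hJ, Orb.sC, Orb.sU, Orb.sV, h.hP]
  have hq : o.q = 1 / o.be - 1 := by
    have := h.hq; have := h.be0; field_simp; linarith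
  rcases end_values o h with ⟨m, s, m0, s0, m2, hN, hal, hbe, hX, hY, hQ, hD, hE⟩ |
    ⟨m, l, m0, l0, m1, m2, ml, hN, hal, hbe, hX, hY, hQ, hD, hE⟩
  · have hms : m + s ≠ 0 := fun e => h.be0 (by rw [hbe, e, zero_div])
    rw [hE, hD, hQ, hX, hY]
    try rw [hq]
    rw [hal, hbe, hN]
    field_simp
    ring
  · rw [hE, hD, hQ, hX, hY]
    try rw [hq]
    rw [hal, hbe, hN]
    field_simp
    ring

theorem coef_QC (h : o.AtEnd) (hc : t.c ≠ 0) :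
    t.coef o 2 - t.coef o 3 * o.q - t.coef o 7 - t.coef o 12 + t.cm o 12 + t.cl o 13 + t.coef o 13 * o.q - (o.be * ((-2) + ((o.be * o.Y - o.al * o.X) * t.T1 o + -(2 * (o.X * o.Y)) * t.T2 o)) - o.X * ((o.be * o.Y - o.al * o.X) * t.W1 o + -(2 * (o.X * o.Y)) * t.W2 o)) / o.N =
      t.eEQ o * (o.be * o.Y - o.al * o.X) + t.eGQ o * (-(2 * (o.X * o.Y))) + 2 * (t.w * o.X) * (-(gam o * (2 * (o.al * o.be)))) := by
  have hJ := J_end o h
  simp only [cl, cm, coef, eEQ, eGQ, rawEE, rawMG, rawEG, rawGG, Orb.cBase, fldU, Orb.shapeU,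
    Orb.fG, shapeG, fldW, shapeW, Matrix.cons_val, Matrix.cons_val_zero, gd, ed, T1, T2, W1, W2,
    bigK, nup, eC, fC, n1, n2, gam, Orb.lam, Orb.mu, hJ, Orb.sC, Orb.sU, Orb.sV, h.hP]
  have hq : o.q = 1 / o.be - 1 := by
    have := h.hq; have := h.be0; field_simp; linarith
  rcases end_values o h with ⟨m, s, m0, s0, m2, hN, hal, hbe, hX, hY, hQ, hD, hE⟩ |
    ⟨m, l, m0, l0, m1, m2, ml, hN, hal, hbe, hX, hY, hQ, hD, hE⟩
  · have hms : m + s ≠ 0 := fun e => h.be0 (by rw [hbe, e, zero_div])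
    rw [hE, hD, hQ, hX, hY]
    try rw [hq]
    rw [hal, hbe, hN]
    field_simp
    ring
  · rw [hE, hD, hQ, hX, hY]
    try rw [hq]
    rw [hal, hbe, hN]
    field_simp
    ring

theorem coef_QB (h : o.AtEnd) (hc : t.c ≠ 0) :
    t.coef o 3 - t.coef o 9 - 2 * t.coef o 13 + t.cm o 13 + (2 * t.coef o 3 - (o.be * ((2 * o.be) + (-(o.be * o.X) * t.T1 o + o.X ^ 2 * t.T2 o)) - o.X * (-(o.be * o.X) * t.W1 o + o.X ^ 2 * t.W2 o))) / o.N =
      t.eEQ o * (-(o.be * o.X)) + t.eGQ o * o.X ^ 2 + 2 * (t.w * o.X) * (-(gam o * o.be ^ 2)) := by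
  have hJ := J_end o h
  simp only [cl, cm, coef, eEQ, eGQ, rawEE, rawMG, rawEG, rawGG, Orb.cBase, fldU, Orb.shapeU,
    Orb.fG, shapeG, fldW, shapeW, Matrix.cons_val, Matrix.cons_val_zero, gd, ed, T1, T2, W1, W2,
    bigK, nup, eC, fC, n1, n2, gam, Orb.lam, Orb.mu, hJ, Orb.sC, Orb.sU, Orb.sV, h.hP]
  have hq : o.q = 1 / o.be - 1 := by
    have := h.hq; have := h.be0; field_simp; linarith
  rcases end_values o h with ⟨m, s, m0, s0, m2, hN, hal, hbe, hX, hY, hQ, hD, hE⟩ |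
    ⟨m, l, m0, l0, m1, m2, ml, hN, hal, hbe, hX, hY, hQ, hD, hE⟩
  · have hms : m + s ≠ 0 := fun e => h.be0 (by rw [hbe, e, zero_div])
    rw [hE, hD, hQ, hX, hY]
    try rw [hq]
    rw [hal, hbe, hN]
    field_simp
    ring
  · rw [hE, hD, hQ, hX, hY]
    try rw [hq]
    rw [hal, hbe, hN]
    field_simp
    ring

theorem coef_QQ (h : o.AtEnd) (hc : t.c ≠ 0) :
    -t.coef o 13 + t.coef o 3 / o.N =
      t.w * o.X := by
  have := h.N0
  have := h.X0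
  have := h.D0
  simp [coef, Orb.cBase, fldU, Orb.shapeU, Orb.fG, shapeG, fldW, shapeW]
  field_simp
  ring

theorem elim_frame (h : o.AtEnd) (hc : t.c ≠ 0) (A C B Q : ℝ) :
    elimN o.N o.p o.q (t.coef o) (t.cl o) (t.cm o) A C B 0 Q = t.frameForm o A C B Q := by
  obtain ⟨h0, hm, h3⟩ := t.coef_head o h.X0 h.Y0
  rw [elimN, hessPair, t.linU_end0 o h hc, t.linU_end1 o h hc, t.linU_end2 o h hc,
    t.linV_end0 o h hc, t.linV_end1 o h hc, t.linV_end2 o h hc, t.coef_det o h.X0 h.Y0]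
  conv_lhs =>
    arg 2; arg 2
    rw [hm, h3, h0, t.gram_frame o h.X0 h.Y0 h.D0 hc]
  simp only [gram, freePart, frameForm, eEE, eMG, eEG, eGG, h11, h12, h22]
  linear_combination A ^ 2 * t.coef_AA o h hc + A * C * t.coef_AC o h hc +
    A * B * t.coef_AB o h hc + C ^ 2 * t.coef_CC o h hc + C * B * t.coef_CB o h hc +
    B ^ 2 * t.coef_BB o h hc + Q * A * t.coef_QA o h hc + Q * C * t.coef_QC o h hc +
    Q * B * t.coef_QB o h hc + Q ^ 2 * t.coef_QQ o h hc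

/-- The seven scalars at the end point, the last one after multiplication by `Zq`. -/
noncomputable def scalars : Fin 7 → ℝ :=
  ![t.c, o.al * t.u + o.Y / o.D * t.gd o, o.be * t.u - o.X / o.D * t.gd o, o.al * t.ed o,
    o.be * t.ed o, 0, -t.w / o.D]

theorem coef_eq (j : Fin 14) :
    t.coef o j = o.cBase j + ∑ r, t.scalars o r * o.fldQ r j := by
  simp only [coef, scalars, Orb.fldQ, Fin.sum_univ_seven, Matrix.cons_val, fldU, Orb.fU, fldW]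
  ring

theorem gap_end_pos (h : o.AtEnd) (hc : 0 < t.c) (hXY : 0 < o.X * o.Y) :
    0 < elimGap (t.coef o) (t.cl o) (t.cm o) (o.X ^ 2) (o.X * o.Y) (o.Y ^ 2) 0 o.Q := by
  have D0 := h.D0
  refine elimGap_orbit_pos h.N0 ?_ ?_ h.Y0 ?_ ?_
  · obtain ⟨e0, -, -⟩ := t.coef_head o h.X0 h.Y0
    rw [e0]
    refine add_pos_of_nonneg_of_pos (sq_nonneg _) (mul_pos hc ?_)
    rcases mul_pos_iff.1 hXY with ⟨a, b⟩ | ⟨a, b⟩
    · exact div_pos b a
    · exact div_pos_of_neg_of_neg b a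
  · rw [t.coef_det o h.X0 h.Y0]
    exact div_pos (mul_pos hc (lt_of_le_of_ne (sq_nonneg _) (Ne.symm (pow_ne_zero 2 D0)))) hXY
  all_goals
    rw [show -o.N * o.X - o.X ^ 2 - 0 = -2 * o.X by rw [h.hX]; ring,
      show -o.N * o.Y - o.Y ^ 2 - o.Q = -2 * o.Y by rw [h.hQ]; ring]
    obtain ⟨e0, em, e3⟩ := t.coef_head o h.X0 h.Y0
    have e12 : t.coef o 1 + t.coef o 2 = 2 * (o.al * o.be - t.c) := by linarith
    have hJ := J_end o h
    rw [Orb.J, div_eq_iff D0, Orb.D] at hJ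
    have X0 := h.X0
    have Y0 := h.Y0
  · rw [t.linU_end0 o h hc.ne', t.linU_end1 o h hc.ne', t.linU_end2 o h hc.ne', e0, e12]
    field_simp
    linear_combination (2 * o.al) * hJ
  · rw [t.linV_end0 o h hc.ne', t.linV_end1 o h hc.ne', t.linV_end2 o h hc.ne', e3, e12]
    field_simp
    linear_combination (2 * o.be) * hJ

/-- **Positivity at the end point.** Three minors in the natural frame suffice. -/
theorem end_pos (h : o.AtEnd) (hc : 0 < t.c) (hXY : 0 < o.X * o.Y) {μ ν : ℝ}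
    (hμν : μ + gam o * ν = t.eMG o) (hμ : 0 ≤ μ) (hν : 0 ≤ ν) (h1 : 0 < t.eEE o + μ)
    (h2 : 0 < (t.eEE o + μ) * t.eGG o - (t.eEG o / 2) ^ 2)
    (h3 : 0 < (t.eEE o + μ) * (t.eGG o * (t.w * o.X) - ((t.eGQ o - ν) / 2) ^ 2) -
      t.eEG o / 2 * (t.eEG o / 2 * (t.w * o.X) - (t.eGQ o - ν) / 2 * (t.eEQ o / 2)) +
      t.eEQ o / 2 * (t.eEG o / 2 * ((t.eGQ o - ν) / 2) - t.eGG o * (t.eEQ o / 2)))
    {A C B Q : ℝ} (hA : 0 ≤ A) (hB : 0 ≤ B) (hC : C ^ 2 ≤ A * B) (hQ : 0 ≤ Q)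
    (hsum : 0 < A + B + Q) :
    0 ≤ elimN o.N o.p o.q (t.coef o) (t.cl o) (t.cm o) A C B (0 * Q) Q ∧
      (elimN o.N o.p o.q (t.coef o) (t.cl o) (t.cm o) A C B (0 * Q) Q = 0 →
        0 < elimGap (t.coef o) (t.cl o) (t.cm o) A C B (0 * Q) Q) := by
  have D0 := h.D0
  rw [zero_mul, t.elim_frame o h hc.ne', frameForm]
  set M := o.al ^ 2 * A + 2 * (o.al * o.be) * C + o.be ^ 2 * B with hM
  set E := o.al * o.Y * A + (o.be * o.Y - o.al * o.X) * C - o.be * o.X * B with hE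
  set G := o.Y ^ 2 * A - 2 * (o.X * o.Y) * C + o.X ^ 2 * B with hG
  set S := Q - gam o * M with hS
  set P₁ := t.eEE o + μ
  set H := (t.eGQ o - ν) / 2
  set d := P₁ * t.eGG o - (t.eEG o / 2) ^ 2 with hd
  set k := P₁ * (t.eGG o * (t.w * o.X) - H ^ 2) -
      t.eEG o / 2 * (t.eEG o / 2 * (t.w * o.X) - H * (t.eEQ o / 2)) +
      t.eEQ o / 2 * (t.eEG o / 2 * H - t.eGG o * (t.eEQ o / 2)) with hk
  have key : t.eEE o * E ^ 2 + t.eEG o * (E * G) + t.eGG o * G ^ 2 + t.eEQ o * (E * S) +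
      t.eGQ o * (G * S) + t.w * o.X * S ^ 2 + t.eMG o * (M * G) =
      (P₁ * E + t.eEG o / 2 * G + t.eEQ o / 2 * S) ^ 2 / P₁ +
      (d * G + (P₁ * H - t.eEG o / 2 * (t.eEQ o / 2)) * S) ^ 2 / (P₁ * d) + k / d * S ^ 2 +
      (μ * (o.D ^ 2 * (A * B - C ^ 2)) + ν * (Q * G)) := by
    have e : M * G - E ^ 2 = o.D ^ 2 * (A * B - C ^ 2) := by
      rw [hM, hE, hG, Orb.D]; ring
    rw [← hμν, ← e, hk, hS]
    have := h1.ne'
    have := h2.ne'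
    field_simp
    simp only [hd, P₁, H]
    ring
  rw [key]
  have hG0 : 0 ≤ G := crossE_nonneg o.X o.Y hA hB hC
  have n1 : 0 ≤ (P₁ * E + t.eEG o / 2 * G + t.eEQ o / 2 * S) ^ 2 / P₁ := by positivity
  have n2 : 0 ≤ (d * G + (P₁ * H - t.eEG o / 2 * (t.eEQ o / 2)) * S) ^ 2 / (P₁ * d) := by positivity
  have n3 : 0 ≤ k / d * S ^ 2 := by positivity
  have n4 : 0 ≤ μ * (o.D ^ 2 * (A * B - C ^ 2)) + ν * (Q * G) := by
    have := sub_nonneg.2 hC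
    positivity
  refine ⟨by linarith, fun h0 => ?_⟩
  have z3 : k / d * S ^ 2 = 0 := by linarith
  have hS0 : S = 0 := by
    simpa [(div_pos h3 h2).ne'] using z3
  have z2 : (d * G + (P₁ * H - t.eEG o / 2 * (t.eEQ o / 2)) * S) ^ 2 / (P₁ * d) = 0 := by linarith
  have hG' : G = 0 := by simpa [hS0, h1.ne', h2.ne'] using z2
  have z1 : (P₁ * E + t.eEG o / 2 * G + t.eEQ o / 2 * S) ^ 2 / P₁ = 0 := by linarith
  have hE' : E = 0 := by simpa [hS0, hG', h1.ne'] using z1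
  set l := M / o.D ^ 2 with hl
  have eA : A = l * o.X ^ 2 := by
    rw [hl]; field_simp
    rw [hM, Orb.D]
    linear_combination 2 * o.be * o.X * (hE.symm.trans hE') + o.be ^ 2 * (hG.symm.trans hG')
  have eC : C = l * (o.X * o.Y) := by
    rw [hl]; field_simp
    rw [hM, Orb.D]
    linear_combination (o.be * o.Y - o.al * o.X) * (hE.symm.trans hE') - o.al * o.be * (hG.symm.trans hG')
  have eB : B = l * o.Y ^ 2 := by
    rw [hl]; field_simp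
    rw [hM, Orb.D]
    linear_combination -2 * o.al * o.Y * (hE.symm.trans hE') + o.al ^ 2 * (hG.symm.trans hG')
  have eQ : Q = l * o.Q := by
    rw [hl, sub_eq_zero.1 (hS.symm.trans hS0), gam]; field_simp
  have hl0 : l ≠ 0 := by
    intro e
    rw [eA, eB, eQ, e] at hsum
    simp at hsum
  have key2 := mul_pos (lt_of_le_of_ne (sq_nonneg l) (Ne.symm (pow_ne_zero 2 hl0)))
    (t.gap_end_pos o h hc hXY)
  rw [← elimGap_scale, ← eA, ← eC, ← eB, ← eQ, mul_zero] at key2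
  exact key2

end TailVal

end Vale.Agent.P100.Calib
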