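import Mathlib
import Vale.Agent.P100.Calib.OrbitCalib
import Vale.Agent.P100.Calib.OrbitLimit
import Vale.Agent.P100.Calib.Tail

/-!
# Calibration data from the block condition and the end-point minors

`OrbitCalib.of_block`: scalars `k` with limits given by five numbers `t`, the bound on `lam`, the
block condition on `(0, κ]` and the three minors at `z = 0` fill every field of `OrbitCalib`.
-/

open Set Filter Topology

namespace Vale.Agent.P100.Calib

open Orb Bubble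

variable {n : ℕ} {N p q kap : ℝ}

/-- The end point satisfies the algebraic equations used there. -/
theorem endOrb_atEnd (hc : IsCrit N p q) :
    (endOrb N p q kap).AtEnd ∧ 0 < (endOrb N p q kap).X * (endOrb N p q kap).Y := by
  obtain ⟨hX0, hY0, hD0, hE0, -⟩ := endOrb_facts (kap := kap) hc
  obtain ⟨hal, hlt, hw⟩ := hc.weights
  have hN := hc.dim
  have hp := hc.p_pos
  have hq := hc.q_pos
  have hb : 0 < 1 / (q + 1) := hal.trans hlt
  have hM : 0 < N * (1 / (p + 1)) / (1 / (q + 1)) := by positivity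
  have hm := lt_min (by linarith : (0 : ℝ) < N - 2) hM
  refine ⟨⟨?_, ?_, ?_, rfl, rfl, ?_, ?_, ?_, hX0, hY0, hD0, hE0, hal.ne', hb.ne'⟩, ?_⟩
  all_goals simp only [endOrb]
  · field_simp
  · field_simp
  · linarith
  · rcases le_total (N - 2) (N * (1 / (p + 1)) / (1 / (q + 1))) with h | h
    · rw [min_eq_left h]; ring
    · rw [min_eq_right h]; ring
  · rcases le_total (N - 2) (N * (1 / (p + 1)) / (1 / (q + 1))) with h | h
    · exact Or.inl (by rw [min_eq_left h])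
    · exact Or.inr (by rw [min_eq_right h]; field_simp)
  · linarith
  · rw [neg_mul_neg]
    exact mul_pos (by linarith) hm

/-- The second exponent at the end point, from the sum rule. -/
theorem endOrb_mu (hc : IsCrit N p q) {r₁ r₂ : ℝ} (hr : r₁ + r₂ = (N - 4 - kap) / 4) :
    ((p + 1) * (-2 * r₁ + 2 * q * r₂) + (q + 1) * (2 * p * r₁ - 2 * r₂) -
      (p + 1) * (endOrb N p q kap).lam) / (q + 1) = (endOrb N p q kap).mu := by
  obtain ⟨he, -⟩ := endOrb_atEnd (kap := kap) hc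
  have hp := hc.p_pos
  have hq := hc.q_pos
  have hN := hc.dim
  obtain ⟨-, -, hw⟩ := hc.weights
  have hE := he.E0
  have key : (p + 1) * (endOrb N p q kap).lam + (q + 1) * (endOrb N p q kap).mu =
      p + q + 2 - (kap + 2) * ((p + 1) * (q + 1)) / N := by
    simp only [Orb.lam, Orb.mu]
    generalize (endOrb N p q kap).J = J
    simp only [endOrb] at hE ⊢
    generalize min (N - 2) (N * (1 / (p + 1)) / (1 / (q + 1))) = m at hE ⊢
    generalize -(N - 2) = X at hE ⊢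
    generalize ha : 1 / (p + 1) = a at hE hw ⊢
    generalize hb : 1 / (q + 1) = b at hE hw ⊢
    have e1 : (p + 1) * a = 1 := by rw [← ha]; field_simp
    have e2 : (q + 1) * b = 1 := by rw [← hb]; field_simp
    generalize hE' : a * X - b * -m = D at hE ⊢
    field_simp
    linear_combination (N * J + (kap + 2) * (q + 1) * X) * e1 +
      (-(N * J) + (kap + 2) * (p + 1) * m) * e2 - (kap + 2) * (p + 1) * (q + 1) * hE'
  have hw' : N * (p + q + 2) = (N - 2) * ((p + 1) * (q + 1)) := by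
    field_simp at hw
    linear_combination hw
  rw [div_eq_iff (by linarith), eq_comm]
  field_simp at key
  have hN0 : N ≠ 0 := by linarith
  have hr' : 4 * (r₁ + r₂) = N - 4 - kap := by rw [hr]; ring
  refine mul_left_cancel₀ (mul_ne_zero hN0 two_ne_zero) ?_
  linear_combination 2 * key - ((p + 1) * (q + 1) - (p + q + 2)) * N * hr' +
    (N - 2 - kap) * hw'

section
variable {S : Set ℝ} {R x y s dx dy : ℝ → ℝ} (hc : IsCrit N p q)
  (h : IsOrbitFns N p q S R x y s dx dy)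
include hc h

/-- **Calibration data** from the block condition and positivity at the end point (the shape of
`Five.endFive_pos`). -/
theorem OrbitCalib.of_block_end {r₁ r₂ : ℝ} (h1 : 0 ≤ r₁) (h2 : 0 ≤ r₂)
    (hr : r₁ + r₂ = (N - 4 - kap) / 4) (hkap : (n : ℝ) < N - kap) {k : Fin 7 → ℝ → ℝ}
    (hk : ∀ r, ContDiffOn ℝ 1 (k r) S) {e : ℝ → ℝ}
    (hk6 : ∀ z ∈ S, 0 < R z → k 6 z = R z * s z * e z)
    (he : ContDiffOn ℝ 1 e (S ∩ R ⁻¹' Ioi 0)) (t : TailVal)
    (hA : ∀ r, r ≠ 6 → Tendsto (k r) (𝓝[>] 0) (𝓝 (t.scalars (endOrb N p q kap) r)))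
    (hB : ∀ r, r ≠ 6 → Tendsto (fun z => deriv (k r) z * z) (𝓝[>] 0) (𝓝 0))
    (hA6 : Tendsto e (𝓝[>] 0) (𝓝 (t.scalars (endOrb N p q kap) 6)))
    (hB6 : Tendsto (fun z => deriv e z * z) (𝓝[>] 0) (𝓝 0))
    (hle : ∀ z ∈ Ioc 0 ((p + 1) / (q + 1)),
      lamR N p q kap (x z) (y z) ≤ -2 * r₁ + 2 * q * r₂)
    (hblock : ∀ z ∈ Ioc 0 ((p + 1) / (q + 1)),
      let c := fun j => orbCoef N p q R x y s dx dy k j z
      let la := orbLa N p q kap R x y s dx dy k z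
      let mb := orbMb N p q kap R x y s dx dy k z
      0 < c 0 ∧ 0 < c 0 * c 3 - ((c 1 + c 2) / 2) ^ 2 ∧
      ∃ μ : ℝ, 0 ≤ μ ∧ μ * R z ≤ rayTau N p q c la mb (R z) (x z) (y z) z (s z) ∧
        ∀ A C B : ℝ, A ≠ 0 ∨ C ≠ 0 ∨ B ≠ 0 → μ * (A * B - C ^ 2) < elimN N p q c la mb A C B 0 0)
    (hend : let o := endOrb N p q kap
      let C₀ := fun j => o.cBase j + ∑ r, t.scalars o r * o.fldQ r j
      let D₀ := fun _ : Fin 14 => (0 : ℝ)
      0 < C₀ 0 ∧ 0 < C₀ 0 * C₀ 3 - ((C₀ 1 + C₀ 2) / 2) ^ 2 ∧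
        ∀ A B D Q : ℝ, 0 ≤ A → 0 ≤ B → D ^ 2 ≤ A * B → 0 ≤ Q → 0 < A + B + Q →
          let M₀ := ((p + 1) * (-2 * r₁ + 2 * q * r₂) + (q + 1) * (2 * p * r₁ - 2 * r₂) -
            (p + 1) * o.lam) / (q + 1)
          let la := fun j => C₀ j * o.lam - (q + 1) * D₀ j
          let mb := fun j => C₀ j * M₀ + (p + 1) * D₀ j
          0 ≤ elimN N p q C₀ la mb A D B 0 Q ∧
            (elimN N p q C₀ la mb A D B 0 Q = 0 → 0 < elimGap C₀ la mb A D B 0 Q)) :
    OrbitCalib n N p q kap r₁ r₂ S R x y s dx dy k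
      (fun j => (endOrb N p q kap).cBase j +
        ∑ r, t.scalars (endOrb N p q kap) r * (endOrb N p q kap).fldQ r j)
      (fun _ => 0) (endOrb N p q kap).lam := by
  have lim := fun j => tendsto_orbCoef (kap := kap) hc h hk hk6 he
    (A := t.scalars (endOrb N p q kap)) (B := fun _ => 0) hA hB hA6 hB6 j
  obtain ⟨e0, e1, e2⟩ := hend
  refine ⟨h1, h2, hr, hkap, hk, hle, fun z hz => ?_, fun j => (lim j).1, fun j => ?_, (lim 0).2.2,
    e0, e1, e2⟩
  · obtain ⟨hc0, hdet, μ', hμ', hτ, hbl⟩ := hblock z hz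
    have hzS := h.cover hz
    have hN : N ≠ 0 := by linarith [hc.dim]
    exact ⟨hc0, hdet, fun A B D Q hA hB hD hQ hne => pos_of_rayKer
      (rayKer_orbit (kap := kap) hc h hk hzS hdet.ne') hN (h.s_pos z hzS) (h.y_pos z hzS).ne' hc0
      hdet hbl hμ' hτ hA hB hD hQ hne⟩
  · simpa using (lim j).2.1

/-- **Calibration data** from the block condition and the end-point minors. -/
theorem OrbitCalib.of_block {r₁ r₂ : ℝ} (h1 : 0 ≤ r₁) (h2 : 0 ≤ r₂)
    (hr : r₁ + r₂ = (N - 4 - kap) / 4) (hkap : (n : ℝ) < N - kap) {k : Fin 7 → ℝ → ℝ}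
    (hk : ∀ r, ContDiffOn ℝ 1 (k r) S) {e : ℝ → ℝ}
    (hk6 : ∀ z ∈ S, 0 < R z → k 6 z = R z * s z * e z)
    (he : ContDiffOn ℝ 1 e (S ∩ R ⁻¹' Ioi 0)) (t : TailVal)
    (hA : ∀ r, r ≠ 6 → Tendsto (k r) (𝓝[>] 0) (𝓝 (t.scalars (endOrb N p q kap) r)))
    (hB : ∀ r, r ≠ 6 → Tendsto (fun z => deriv (k r) z * z) (𝓝[>] 0) (𝓝 0))
    (hA6 : Tendsto e (𝓝[>] 0) (𝓝 (t.scalars (endOrb N p q kap) 6)))
    (hB6 : Tendsto (fun z => deriv e z * z) (𝓝[>] 0) (𝓝 0))
    (hle : ∀ z ∈ Ioc 0 ((p + 1) / (q + 1)),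
      lamR N p q kap (x z) (y z) ≤ -2 * r₁ + 2 * q * r₂)
    (hblock : ∀ z ∈ Ioc 0 ((p + 1) / (q + 1)),
      let c := fun j => orbCoef N p q R x y s dx dy k j z
      let la := orbLa N p q kap R x y s dx dy k z
      let mb := orbMb N p q kap R x y s dx dy k z
      0 < c 0 ∧ 0 < c 0 * c 3 - ((c 1 + c 2) / 2) ^ 2 ∧
      ∃ μ : ℝ, 0 ≤ μ ∧ μ * R z ≤ rayTau N p q c la mb (R z) (x z) (y z) z (s z) ∧
        ∀ A C B : ℝ, A ≠ 0 ∨ C ≠ 0 ∨ B ≠ 0 → μ * (A * B - C ^ 2) < elimN N p q c la mb A C B 0 0)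
    (htc : 0 < t.c) {μ ν : ℝ}
    (hμν : μ + TailVal.gam (endOrb N p q kap) * ν = t.eMG (endOrb N p q kap)) (hμ : 0 ≤ μ)
    (hν : 0 ≤ ν) (m1 : 0 < t.eEE (endOrb N p q kap) + μ)
    (m2 : 0 < (t.eEE (endOrb N p q kap) + μ) * t.eGG (endOrb N p q kap) -
      (t.eEG (endOrb N p q kap) / 2) ^ 2)
    (m3 : let o := endOrb N p q kap
      0 < (t.eEE o + μ) * (t.eGG o * (t.w * o.X) - ((t.eGQ o - ν) / 2) ^ 2) -
        t.eEG o / 2 * (t.eEG o / 2 * (t.w * o.X) - (t.eGQ o - ν) / 2 * (t.eEQ o / 2)) +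
        t.eEQ o / 2 * (t.eEG o / 2 * ((t.eGQ o - ν) / 2) - t.eGG o * (t.eEQ o / 2))) :
    OrbitCalib n N p q kap r₁ r₂ S R x y s dx dy k
      (fun j => (endOrb N p q kap).cBase j +
        ∑ r, t.scalars (endOrb N p q kap) r * (endOrb N p q kap).fldQ r j)
      (fun _ => 0) (endOrb N p q kap).lam := by
  obtain ⟨hEnd, hXY⟩ := endOrb_atEnd (kap := kap) hc
  obtain ⟨e0, -, -⟩ := t.coef_head (endOrb N p q kap) hEnd.X0 hEnd.Y0
  refine OrbitCalib.of_block_end hc h h1 h2 hr hkap hk hk6 he t hA hB hA6 hB6 hle hblock ?_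
  intro o C₀ D₀
  have hC : C₀ = t.coef o := funext fun j => (t.coef_eq o j).symm
  rw [hC]
  refine ⟨?_, ?_, fun A B D Q hA hB hD hQ hne => ?_⟩
  · rw [e0]
    refine add_pos_of_nonneg_of_pos (sq_nonneg _) (mul_pos htc ?_)
    rcases mul_pos_iff.1 hXY with ⟨a, b⟩ | ⟨a, b⟩
    · exact div_pos b a
    · exact div_pos_of_neg_of_neg b a
  · rw [t.coef_det _ hEnd.X0 hEnd.Y0]
    exact div_pos (mul_pos htc (lt_of_le_of_ne (sq_nonneg _)
      (Ne.symm (pow_ne_zero 2 hEnd.D0)))) hXY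
  · have := t.end_pos o hEnd htc hXY hμν hμ hν m1 m2 m3 hA hB hD hQ hne
    intro M₀ la mb
    have hla : la = t.cl o := funext fun j => by simp [la, D₀, TailVal.cl]
    have hmb : mb = t.cm o := funext fun j => by
      simp [mb, M₀, D₀, o, TailVal.cm, endOrb_mu hc hr]
    rw [hla, hmb]
    rwa [zero_mul] at this

end

end Vale.Agent.P100.Calib
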