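import Mathlib
import Vale.Agent.P100.Calib.Elim

/-!
# The gradient block in the natural frame

With `m = αa + βb`, `d = y a - x b` and `D = αx + βy` the variables `M = |m|²`, `E = m·d`, `G = |d|²`
replace `A = |a|²`, `C = a·b`, `B = |b|²`; the orbit state is `E = G = 0`. The block becomes a linear
part minus Gram products of the transformed rows, and `AB - C² = (MG - E²)/D²`. With `μ` the `MG`
coefficient the condition on the block is an arrow matrix, hence three scalar inequalities.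

For the point `(X, Y) = -2R (x, y)` the variables of the frame of the orbit are the same up to the
powers of `-2R`; the regular variables have no singularity at `R = 0`.
-/

namespace Vale.Agent.P100.Calib

/-- The frame: `α`, `β`, `x`, `y`. -/
structure Frame where
  /-- `1/(p+1)` -/
  al : ℝ
  /-- `1/(q+1)` -/
  be : ℝ
  /-- first coordinate of the orbit direction -/
  x : ℝ
  /-- second coordinate of the orbit direction -/
  y : ℝ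

namespace Frame

variable (F : Frame)

/-- `D = αx + βy`. -/
def D : ℝ := F.al * F.x + F.be * F.y

/-- `|m|²`. -/
def vM (A C B : ℝ) : ℝ := F.al ^ 2 * A + 2 * F.al * F.be * C + F.be ^ 2 * B

/-- `m·d`. -/
def vE (A C B : ℝ) : ℝ :=
  F.al * F.y * A + (F.be * F.y - F.al * F.x) * C - F.be * F.x * B

/-- `|d|²`. -/
def vG (A C B : ℝ) : ℝ := F.y ^ 2 * A - 2 * (F.x * F.y) * C + F.x ^ 2 * B

/-- `|a|²` from the frame. -/
noncomputable def pA (M E G : ℝ) : ℝ :=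
  (F.x ^ 2 * M + 2 * F.x * F.be * E + F.be ^ 2 * G) / F.D ^ 2

/-- `a·b` from the frame. -/
noncomputable def pC (M E G : ℝ) : ℝ :=
  (F.x * F.y * M + (F.be * F.y - F.al * F.x) * E - F.al * F.be * G) / F.D ^ 2

/-- `|b|²` from the frame. -/
noncomputable def pB (M E G : ℝ) : ℝ :=
  (F.y ^ 2 * M - 2 * F.al * F.y * E + F.al ^ 2 * G) / F.D ^ 2

theorem pre_eq (hD : F.D ≠ 0) (A C B : ℝ) :
    F.pA (F.vM A C B) (F.vE A C B) (F.vG A C B) = A ∧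
      F.pC (F.vM A C B) (F.vE A C B) (F.vG A C B) = C ∧
      F.pB (F.vM A C B) (F.vE A C B) (F.vG A C B) = B := by
  simp only [pA, pC, pB, vM, vE, vG, D] at hD ⊢
  refine ⟨?_, ?_, ?_⟩ <;> rw [div_eq_iff (pow_ne_zero 2 hD)] <;> ring

theorem det_eq (hD : F.D ≠ 0) (A C B : ℝ) :
    A * B - C ^ 2 = (F.vM A C B * F.vG A C B - F.vE A C B ^ 2) / F.D ^ 2 := by
  simp only [vM, vE, vG, D] at hD ⊢
  field_simp
  ring

theorem ne_zero_of_ne (hD : F.D ≠ 0) {A C B : ℝ} (h : A ≠ 0 ∨ C ≠ 0 ∨ B ≠ 0) :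
    F.vM A C B ≠ 0 ∨ F.vE A C B ≠ 0 ∨ F.vG A C B ≠ 0 := by
  by_contra hc
  push Not at hc
  obtain ⟨h1, h2, h3⟩ := F.pre_eq hD A C B
  rw [hc.1, hc.2.1, hc.2.2] at h1 h2 h3
  simp only [pA, pC, pB, mul_zero, add_zero, sub_zero, zero_div] at h1 h2 h3
  simp [← h1, ← h2, ← h3] at h

/-- A row `u₀ aa + u₁ sym(ab) + u₂ bb` in the frame: the `mm` coefficient. -/
noncomputable def rM (u₀ u₁ u₂ : ℝ) : ℝ :=
  (F.x ^ 2 * u₀ + F.x * F.y * u₁ + F.y ^ 2 * u₂) / F.D ^ 2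

/-- The `sym(md)` coefficient. -/
noncomputable def rE (u₀ u₁ u₂ : ℝ) : ℝ :=
  (2 * F.x * F.be * u₀ + (F.be * F.y - F.al * F.x) * u₁ - 2 * F.al * F.y * u₂) / F.D ^ 2

/-- The `dd` coefficient. -/
noncomputable def rG (u₀ u₁ u₂ : ℝ) : ℝ :=
  (F.be ^ 2 * u₀ - F.al * F.be * u₁ + F.al ^ 2 * u₂) / F.D ^ 2

/-- The Gram product does not see the frame. -/
theorem gram_frame (r g₀ g₁ g₂ h₀ h₁ h₂ M E G : ℝ) (hD : F.D ≠ 0) :
    gram r g₀ g₁ g₂ h₀ h₁ h₂ (F.pA M E G) (F.pC M E G) (F.pB M E G) =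
      gram r (F.rM g₀ g₁ g₂) (F.rE g₀ g₁ g₂) (F.rG g₀ g₁ g₂)
        (F.rM h₀ h₁ h₂) (F.rE h₀ h₁ h₂) (F.rG h₀ h₁ h₂) M E G := by
  have e1 : ∀ u₀ u₁ u₂ : ℝ, u₀ * F.pA M E G + u₁ * F.pC M E G + u₂ * F.pB M E G =
      F.rM u₀ u₁ u₂ * M + F.rE u₀ u₁ u₂ * E + F.rG u₀ u₁ u₂ * G := fun u₀ u₁ u₂ => by
    simp only [pA, pC, pB, rM, rE, rG, D]; ring
  have e2 : (F.pA M E G * F.pB M E G - F.pC M E G ^ 2) *
        (g₁ * h₁ / 2 - g₀ * h₂ - g₂ * h₀) =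
      (M * G - E ^ 2) * (F.rE g₀ g₁ g₂ * F.rE h₀ h₁ h₂ / 2 - F.rM g₀ g₁ g₂ * F.rG h₀ h₁ h₂ -
        F.rG g₀ g₁ g₂ * F.rM h₀ h₁ h₂) := by
    simp only [pA, pC, pB, rM, rE, rG, D] at hD ⊢
    field_simp
    ring
  have hr : ∀ g₀ g₁ g₂ h₀ h₁ h₂ A C B : ℝ, gram r g₀ g₁ g₂ h₀ h₁ h₂ A C B =
      (1 - r) * ((g₀ * A + g₁ * C + g₂ * B) * (h₀ * A + h₁ * C + h₂ * B)) +
        (A * B - C ^ 2) * (g₁ * h₁ / 2 - g₀ * h₂ - g₂ * h₀) := fun _ _ _ _ _ _ _ _ _ => by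
    unfold gram; ring
  rw [hr, hr, e1, e1, e2]

end Frame

/-- The part of the block linear in the coefficient data: free part and traces. -/
noncomputable def blockLin (N p q : ℝ) (c la mb : Fin 14 → ℝ) (A C B : ℝ) : ℝ :=
  freePart p q c la mb A C B 0 0 +
    (c 0 * A ^ 2 + (c 1 + c 2) * (A * B) + c 3 * B ^ 2 -
      A * (linU c la mb 0 * A + linU c la mb 1 * C + linU c la mb 2 * B) -
      B * (linV c la mb 0 * A + linV c la mb 1 * C + linV c la mb 2 * B)) / N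

/-- The Gram part of the block. -/
noncomputable def blockGram (N c₀ m c₃ u₀ u₁ u₂ v₀ v₁ v₂ A C B : ℝ) : ℝ :=
  (c₃ * gram (1 / N) u₀ u₁ u₂ u₀ u₁ u₂ A C B - 2 * m * gram (1 / N) u₀ u₁ u₂ v₀ v₁ v₂ A C B +
    c₀ * gram (1 / N) v₀ v₁ v₂ v₀ v₁ v₂ A C B) / (4 * (c₀ * c₃ - m ^ 2))

theorem block_split (N p q : ℝ) (c la mb : Fin 14 → ℝ) (A C B : ℝ) :
    elimN N p q c la mb A C B 0 0 = blockLin N p q c la mb A C B -
      blockGram N (c 0) ((c 1 + c 2) / 2) (c 3) (linU c la mb 0) (linU c la mb 1) (linU c la mb 2)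
        (linV c la mb 0) (linV c la mb 1) (linV c la mb 2) A C B := by
  unfold elimN blockLin blockGram hessPair
  ring

/-- `blockLin` is linear in the coefficient data. -/
theorem blockLin_add (N p q : ℝ) (c la mb c' la' mb' : Fin 14 → ℝ) (A C B : ℝ) :
    blockLin N p q (c + c') (la + la') (mb + mb') A C B =
      blockLin N p q c la mb A C B + blockLin N p q c' la' mb' A C B := by
  simp only [blockLin, freePart, linU, linV, Pi.add_apply, Matrix.cons_val]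
  ring

theorem blockLin_smul (N p q k : ℝ) (c la mb : Fin 14 → ℝ) (A C B : ℝ) :
    blockLin N p q (k • c) (k • la) (k • mb) A C B = k * blockLin N p q c la mb A C B := by
  simp only [blockLin, freePart, linU, linV, Pi.smul_apply, smul_eq_mul, Matrix.cons_val]
  ring

/-- Rotation of the two coupled rows: if `c₀ H² + 2m HK + c₃ K² = γ (t₁H + t₂K)² + ρ (w₁H + w₂K)²`,
the Gram part splits into the rows `g` of `T = t₁H + t₂K` and `h` of `W = w₁H + w₂K`. -/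
theorem blockGram_rotate {γ ρ t₁ t₂ w₁ w₂ c₀ m c₃ : ℝ} (hγ : γ ≠ 0) (hρ : ρ ≠ 0)
    (ht : t₁ * w₂ - t₂ * w₁ ≠ 0) (e0 : c₀ = γ * t₁ ^ 2 + ρ * w₁ ^ 2)
    (e1 : m = γ * t₁ * t₂ + ρ * w₁ * w₂) (e3 : c₃ = γ * t₂ ^ 2 + ρ * w₂ ^ 2)
    (N g₀ g₁ g₂ h₀ h₁ h₂ A C B : ℝ) :
    blockGram N c₀ m c₃ (t₁ * g₀ + w₁ * h₀) (t₁ * g₁ + w₁ * h₁) (t₁ * g₂ + w₁ * h₂)
        (t₂ * g₀ + w₂ * h₀) (t₂ * g₁ + w₂ * h₁) (t₂ * g₂ + w₂ * h₂) A C B =
      gram (1 / N) g₀ g₁ g₂ g₀ g₁ g₂ A C B / (4 * γ) +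
        gram (1 / N) h₀ h₁ h₂ h₀ h₁ h₂ A C B / (4 * ρ) := by
  have hd : c₀ * c₃ - m ^ 2 = γ * ρ * (t₁ * w₂ - t₂ * w₁) ^ 2 := by rw [e0, e1, e3]; ring
  have hn : c₃ * gram (1 / N) (t₁ * g₀ + w₁ * h₀) (t₁ * g₁ + w₁ * h₁) (t₁ * g₂ + w₁ * h₂)
        (t₁ * g₀ + w₁ * h₀) (t₁ * g₁ + w₁ * h₁) (t₁ * g₂ + w₁ * h₂) A C B -
      2 * m * gram (1 / N) (t₁ * g₀ + w₁ * h₀) (t₁ * g₁ + w₁ * h₁) (t₁ * g₂ + w₁ * h₂)
        (t₂ * g₀ + w₂ * h₀) (t₂ * g₁ + w₂ * h₁) (t₂ * g₂ + w₂ * h₂) A C B +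
      c₀ * gram (1 / N) (t₂ * g₀ + w₂ * h₀) (t₂ * g₁ + w₂ * h₁) (t₂ * g₂ + w₂ * h₂)
        (t₂ * g₀ + w₂ * h₀) (t₂ * g₁ + w₂ * h₁) (t₂ * g₂ + w₂ * h₂) A C B =
      (t₁ * w₂ - t₂ * w₁) ^ 2 * (ρ * gram (1 / N) g₀ g₁ g₂ g₀ g₁ g₂ A C B +
        γ * gram (1 / N) h₀ h₁ h₂ h₀ h₁ h₂ A C B) := by
    rw [e0, e1, e3]; unfold gram; ring
  rw [blockGram, hd, hn]
  generalize gram (1 / N) g₀ g₁ g₂ g₀ g₁ g₂ A C B = a
  generalize gram (1 / N) h₀ h₁ h₂ h₀ h₁ h₂ A C B = b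
  generalize t₁ * w₂ - t₂ * w₁ = d at ht ⊢
  field_simp

/-- The six coefficients of the block in the frame. -/
structure NatCoef where
  /-- `M²` -/
  MM : ℝ
  /-- `ME` -/
  ME : ℝ
  /-- `MG` -/
  MG : ℝ
  /-- `E²` -/
  EE : ℝ
  /-- `EG` -/
  EG : ℝ
  /-- `G²` -/
  GG : ℝ

/-- The quadratic form with these coefficients. -/
def NatCoef.form (T : NatCoef) (M E G : ℝ) : ℝ :=
  T.MM * M ^ 2 + T.ME * (M * E) + T.MG * (M * G) + T.EE * E ^ 2 + T.EG * (E * G) + T.GG * G ^ 2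

/-- The coefficients of a quadratic function of three variables, read off from values. -/
def NatCoef.of (f : ℝ → ℝ → ℝ → ℝ) : NatCoef where
  MM := f 1 0 0
  ME := f 1 1 0 - f 1 0 0 - f 0 1 0
  MG := f 1 0 1 - f 1 0 0 - f 0 0 1
  EE := f 0 1 0
  EG := f 0 1 1 - f 0 1 0 - f 0 0 1
  GG := f 0 0 1

/-- The block in the frame. -/
noncomputable def natBlock (F : Frame) (N p q : ℝ) (c la mb : Fin 14 → ℝ) : NatCoef :=
  .of fun M E G => elimN N p q c la mb (F.pA M E G) (F.pC M E G) (F.pB M E G) 0 0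

/-- The linear part of the block in the frame. -/
noncomputable def natLin (F : Frame) (N p q : ℝ) (c la mb : Fin 14 → ℝ) : NatCoef :=
  .of fun M E G => blockLin N p q c la mb (F.pA M E G) (F.pC M E G) (F.pB M E G)

theorem natLin_eq (F : Frame) (N p q : ℝ) (c la mb : Fin 14 → ℝ) (M E G : ℝ) :
    blockLin N p q c la mb (F.pA M E G) (F.pC M E G) (F.pB M E G) =
      (natLin F N p q c la mb).form M E G := by
  simp only [natLin, NatCoef.of, NatCoef.form, blockLin, freePart, Frame.pA, Frame.pC, Frame.pB]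
  ring

theorem natBlock_form (F : Frame) (hD : F.D ≠ 0) (N p q : ℝ) (c la mb : Fin 14 → ℝ) (M E G : ℝ) :
    elimN N p q c la mb (F.pA M E G) (F.pC M E G) (F.pB M E G) 0 0 =
      (natBlock F N p q c la mb).form M E G := by
  simp only [natBlock, NatCoef.of, NatCoef.form, block_split, blockGram,
    F.gram_frame _ _ _ _ _ _ _ _ _ _ hD, natLin_eq]
  unfold gram
  ring

/-- **The block in the natural frame.** -/
theorem natBlock_eq (F : Frame) (hD : F.D ≠ 0) (N p q : ℝ) (c la mb : Fin 14 → ℝ) (A C B : ℝ) :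
    elimN N p q c la mb A C B 0 0 =
      (natBlock F N p q c la mb).form (F.vM A C B) (F.vE A C B) (F.vG A C B) := by
  obtain ⟨h1, h2, h3⟩ := F.pre_eq hD A C B
  rw [← natBlock_form F hD, h1, h2, h3]

/-- `natBlock` as linear part less the Gram part of the transformed rows. -/
theorem natBlock_split (F : Frame) (hD : F.D ≠ 0) (N p q : ℝ) (c la mb : Fin 14 → ℝ) (M E G : ℝ) :
    (natBlock F N p q c la mb).form M E G = (natLin F N p q c la mb).form M E G -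
      blockGram N (c 0) ((c 1 + c 2) / 2) (c 3)
        (F.rM (linU c la mb 0) (linU c la mb 1) (linU c la mb 2))
        (F.rE (linU c la mb 0) (linU c la mb 1) (linU c la mb 2))
        (F.rG (linU c la mb 0) (linU c la mb 1) (linU c la mb 2))
        (F.rM (linV c la mb 0) (linV c la mb 1) (linV c la mb 2))
        (F.rE (linV c la mb 0) (linV c la mb 1) (linV c la mb 2))
        (F.rG (linV c la mb 0) (linV c la mb 1) (linV c la mb 2)) M E G := by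
  simp only [natBlock, NatCoef.of, NatCoef.form, block_split, blockGram, F.gram_frame _ _ _ _ _ _ _ _ _ _ hD,
    natLin_eq]
  unfold gram
  ring

/-- A quadratic form with three positive leading minors is positive. -/
theorem quad3_pos {w₀₀ w₀₁ w₀₂ w₁₁ w₁₂ w₂₂ : ℝ} (h1 : 0 < w₀₀)
    (h2 : 0 < w₀₀ * w₁₁ - w₀₁ ^ 2)
    (h3 : 0 < w₀₀ * (w₁₁ * w₂₂ - w₁₂ ^ 2) - w₀₁ * (w₀₁ * w₂₂ - w₁₂ * w₀₂) +
      w₀₂ * (w₀₁ * w₁₂ - w₁₁ * w₀₂)) {x y z : ℝ} (h : x ≠ 0 ∨ y ≠ 0 ∨ z ≠ 0) :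
    0 < w₀₀ * x ^ 2 + 2 * w₀₁ * (x * y) + 2 * w₀₂ * (x * z) + w₁₁ * y ^ 2 +
      2 * w₁₂ * (y * z) + w₂₂ * z ^ 2 := by
  set d := w₀₀ * w₁₁ - w₀₁ ^ 2 with hd'
  set e := w₀₀ * (w₁₁ * w₂₂ - w₁₂ ^ 2) - w₀₁ * (w₀₁ * w₂₂ - w₁₂ * w₀₂) +
      w₀₂ * (w₀₁ * w₁₂ - w₁₁ * w₀₂) with he'
  have key : w₀₀ * x ^ 2 + 2 * w₀₁ * (x * y) + 2 * w₀₂ * (x * z) + w₁₁ * y ^ 2 +
      2 * w₁₂ * (y * z) + w₂₂ * z ^ 2 = (w₀₀ * x + w₀₁ * y + w₀₂ * z) ^ 2 / w₀₀ +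
      (d * y + (w₀₀ * w₁₂ - w₀₁ * w₀₂) * z) ^ 2 / (w₀₀ * d) + e / d * z ^ 2 := by
    have hd : w₁₁ = (d + w₀₁ ^ 2) / w₀₀ := by rw [hd']; field_simp; ring
    rw [he', hd]
    field_simp
    ring
  rw [key]
  by_cases hz : z = 0
  swap
  · have : 0 < e / d * z ^ 2 := mul_pos (div_pos h3 h2) (by positivity)
    have : 0 ≤ (w₀₀ * x + w₀₁ * y + w₀₂ * z) ^ 2 / w₀₀ := by positivity
    have : 0 ≤ (d * y + (w₀₀ * w₁₂ - w₀₁ * w₀₂) * z) ^ 2 / (w₀₀ * d) := by positivity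
    linarith
  subst hz
  simp only [mul_zero, add_zero, ne_eq, OfNat.ofNat_ne_zero, not_false_eq_true, zero_pow]
  by_cases hy : y = 0
  swap
  · have : 0 < (d * y) ^ 2 / (w₀₀ * d) := by
      have : d * y ≠ 0 := mul_ne_zero h2.ne' hy
      positivity
    have : 0 ≤ (w₀₀ * x + w₀₁ * y) ^ 2 / w₀₀ := by positivity
    linarith
  subst hy
  have hx : w₀₀ * x ≠ 0 := mul_ne_zero h1.ne' (by simpa using h)
  simp only [mul_zero, add_zero, ne_eq, OfNat.ofNat_ne_zero, not_false_eq_true, zero_pow, zero_div]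
  positivity

/-- **Block condition from the frame**, for an arbitrary multiplier: `μ = ν D²`. -/
theorem block_pos_of_minors (F : Frame) (hD : F.D ≠ 0) {N p q ν : ℝ} {c la mb : Fin 14 → ℝ}
    {T : NatCoef} (hT : natBlock F N p q c la mb = T) (h1 : 0 < T.GG)
    (h2 : 0 < T.GG * (T.EE + ν) - (T.EG / 2) ^ 2)
    (h3 : 0 < T.GG * ((T.EE + ν) * T.MM - (T.ME / 2) ^ 2) -
      T.EG / 2 * (T.EG / 2 * T.MM - T.ME / 2 * ((T.MG - ν) / 2)) +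
      (T.MG - ν) / 2 * (T.EG / 2 * (T.ME / 2) - (T.EE + ν) * ((T.MG - ν) / 2)))
    {A C B : ℝ} (h : A ≠ 0 ∨ C ≠ 0 ∨ B ≠ 0) :
    ν * F.D ^ 2 * (A * B - C ^ 2) < elimN N p q c la mb A C B 0 0 := by
  have hne := F.ne_zero_of_ne hD h
  have key := quad3_pos h1 h2 h3 (x := F.vG A C B) (y := F.vE A C B) (z := F.vM A C B) (by tauto)
  rw [natBlock_eq F hD, F.det_eq hD, hT, mul_assoc, mul_div_cancel₀ _ (pow_ne_zero 2 hD)]
  simp only [NatCoef.form]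
  linarith

/-- **The scalar criterion**: the multiplier is the `MG` coefficient, so it removes the `MG` entry,
and the block is positive once `GG, MM > 0` and the arrow determinant is positive. -/
theorem block_pos_of_arrow (F : Frame) (hD : F.D ≠ 0) {N p q : ℝ} {c la mb : Fin 14 → ℝ}
    {T : NatCoef} (hT : natBlock F N p q c la mb = T) (h1 : 0 < T.GG) (h2 : 0 < T.MM)
    (h3 : T.EG ^ 2 * T.MM + T.ME ^ 2 * T.GG < 4 * (T.EE + T.MG) * T.MM * T.GG)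
    {A C B : ℝ} (h : A ≠ 0 ∨ C ≠ 0 ∨ B ≠ 0) :
    T.MG * F.D ^ 2 * (A * B - C ^ 2) < elimN N p q c la mb A C B 0 0 := by
  refine block_pos_of_minors F hD hT h1 (pos_of_mul_pos_left ?_ h2.le) ?_ h
  · have : 0 ≤ T.ME ^ 2 * T.GG := mul_nonneg (sq_nonneg _) h1.le
    linarith
  · rw [sub_self, zero_div, zero_mul, add_zero, mul_zero, sub_zero]
    linarith

/-- **The block hypothesis of the orbit criterion**, in the form used there. -/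
theorem hblock_of_arrow (F : Frame) (hD : F.D ≠ 0) {N p q R τR : ℝ} {c la mb : Fin 14 → ℝ}
    {T : NatCoef} (hT : natBlock F N p q c la mb = T) (h1 : 0 < T.GG) (h2 : 0 < T.MM)
    (h3 : T.EG ^ 2 * T.MM + T.ME ^ 2 * T.GG < 4 * (T.EE + T.MG) * T.MM * T.GG)
    (hμ : 0 ≤ T.MG) (hτ : T.MG * F.D ^ 2 * R ≤ τR) :
    ∃ μ : ℝ, 0 ≤ μ ∧ μ * R ≤ τR ∧
      ∀ A C B : ℝ, A ≠ 0 ∨ C ≠ 0 ∨ B ≠ 0 → μ * (A * B - C ^ 2) < elimN N p q c la mb A C B 0 0 :=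
  ⟨T.MG * F.D ^ 2, mul_nonneg hμ (sq_nonneg _), hτ, fun _ _ _ h => block_pos_of_arrow F hD hT h1 h2 h3 h⟩

end Vale.Agent.P100.Calib
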