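import Mathlib
import Vale.Agent.P100.Calib.BlockR
import Vale.Agent.P100.Calib.NaturalFrame
import Vale.Agent.P100.Calib.RegDefs
import Vale.Agent.P100.Calib.TailDefs

/-!
# The slab family in dimension five at one point

Definitions only: the shift of the frame, the family of scalars and the five signs at a point.
-/

namespace Vale.Agent.P100.Calib

open Orb

/-- The five numbers in the normalisation of the natural frame: the correction of the field built
from `U · d` by multiples of the `G` fields. -/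
noncomputable def TailVal.shift (t : TailVal) (o : Orb) : TailVal :=
  let u := t.c * o.sC * (o.be * o.Y - o.al * o.X) / (2 * o.D ^ 2)
  ⟨t.c, t.w, t.u - u, t.v - (o.al + o.be) * u,
    t.g + t.c * o.sC * (o.al * o.be) * (1 - 1 / o.N) / o.D⟩

/-- `sC/R` in regular variables. -/
noncomputable def sigR (x y s w : ℝ) : ℝ := 2 * (y - x) + s * w / (2 * (x * y))

/-- `TailVal.shift` in regular variables, with `σ = sC/R`. -/
noncomputable def regShift (N p q : ℝ) (t : TailVal) (x y σ : ℝ) : TailVal :=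
  let a := 1 / (p + 1)
  let b := 1 / (q + 1)
  let u := t.c * σ * (b * y - a * x) / (4 * (a * x + b * y) ^ 2)
  ⟨t.c, t.w, t.u + u, t.v + (a + b) * u,
    t.g - t.c * σ * (a * b) * (1 - 1 / N) / (2 * (a * x + b * y))⟩

/-- The seven scalars at the regular point `(x, y, s)`. -/
noncomputable def famReg (p q : ℝ) (t : TailVal) (x y s : ℝ) : Fin 7 → ℝ :=
  let a := 1 / (p + 1)
  let b := 1 / (q + 1)
  let D := a * x + b * y
  let gd := t.g + t.w * (a * b) * s / (2 * D)
  let ed := t.v - t.w * s * (b * y - a * x) / (2 * D ^ 2)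
  ![t.c, a * t.u + y / D * gd, b * t.u - x / D * gd, a * ed, b * ed, 0, t.w * s / (2 * D)]

/-- The five numbers of the slab family in dimension five before the shift, with `a = 1/(p+1)`,
`b = 1/(q+1)`, `d = b - a`: `c = 1/8`, `w = (-(1/20 + d) + (1/20 - 9 d) (a/b) z)/N`, `k₁ = k₃ = 0`,
`v = -21/100`. -/
noncomputable def famFive (N p q : ℝ) (v : ℝ × ℝ) : TailVal :=
  let a := 1 / (p + 1)
  let b := 1 / (q + 1)
  ⟨1 / 8, (-(1 / 20 + (b - a)) + (1 / 20 - 9 * (b - a)) * (a / b) * v.1) / N, 0, -(21 / 100), 0⟩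

/-- The scalars of the family at a point. -/
noncomputable def fiveReg (N p q x y z s w : ℝ) : Fin 7 → ℝ :=
  famReg p q (regShift N p q (famFive N p q (z, y / x)) x y (sigR x y s w)) x y s

/-- `z d/dz` of the scalars at a point. -/
noncomputable def fiveDk (N p q x y z s w w₁ : ℝ) : Fin 7 → ℝ :=
  let a := 1 / (p + 1)
  let b := 1 / (q + 1)
  let ρ := rhoR p q x y
  let X := dxR N p q x y z w
  let Y := dyR N p q x y z w
  let x' := ρ * X
  let y' := ρ * Y
  let s₁ := s * (y - q * x)
  let s' := ρ * s₁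
  let D := a * x + b * y
  let D' := a * x' + b * y'
  let om := (-(1 / 20 + (b - a)) + (1 / 20 - 9 * (b - a)) * (a / b) * z) / N
  let om' := (1 / 20 - 9 * (b - a)) * (a / b) * z / N
  let σ := sigR x y s w
  let σ' := ρ * (2 * (Y - X) +
    ((s₁ * w + s * w₁) * (x * y) - s * w * (X * y + x * Y)) / (2 * (x * y) ^ 2))
  let W := b * y - a * x
  let W' := b * y' - a * x'
  let u := 1 / 8 * σ * W / (4 * D ^ 2)
  let u' := 1 / 8 * ((σ' * W + σ * W') * D - 2 * σ * W * D') / (4 * D ^ 3)
  let g := -(1 / 8 * σ * (a * b) * (1 - 1 / N) / (2 * D))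
  let g' := -(1 / 8 * (a * b) * (1 - 1 / N) * (σ' * D - σ * D') / (2 * D ^ 2))
  let P := om * s / (2 * D)
  let P' := ((om' * s + om * s') * D - om * s * D') / (2 * D ^ 2)
  let gd := g + a * b * P
  let gd' := g' + a * b * P'
  let V := W / D
  let V' := (W' * D - W * D') / D ^ 2
  let E := (a + b) * u' - (P' * V + P * V')
  ![0, a * u' + (y' * D - y * D') / D ^ 2 * gd + y / D * gd',
    b * u' - ((x' * D - x * D') / D ^ 2 * gd + x / D * gd'), a * E, b * E, 0, P']

/-- The coefficients at a point. -/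
noncomputable def fiveC (N p q R x y z s w : ℝ) (j : Fin 14) : ℝ :=
  (orbAt N p q 0 0 0 0 0 0).cBase j +
    ∑ r, fiveReg N p q x y z s w r * regFld N p q R x y s w r j

/-- `z c'` at a point. -/
noncomputable def fiveD (N p q R x y z s w w₁ : ℝ) (j : Fin 14) : ℝ :=
  ∑ r, (fiveDk N p q x y z s w w₁ r * regFld N p q R x y s w r j +
    fiveReg N p q x y z s w r * regVel N p q R x y z s w w₁ r j)

/-- The derivatives along `a` at a point. -/
noncomputable def fiveLa (N p q R x y z s w w₁ : ℝ) (j : Fin 14) : ℝ :=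
  fiveC N p q R x y z s w j * lamR N p q (-1) x y - (q + 1) * fiveD N p q R x y z s w w₁ j

/-- The derivatives along `b` at a point. -/
noncomputable def fiveMb (N p q R x y z s w w₁ : ℝ) (j : Fin 14) : ℝ :=
  fiveC N p q R x y z s w j * muR N p q (-1) x y + (p + 1) * fiveD N p q R x y z s w w₁ j

/-- The block in the regular natural frame at a point. -/
noncomputable def fiveBlock (N p q R x y z s w w₁ : ℝ) : NatCoef :=
  natBlock ⟨1 / (p + 1), 1 / (q + 1), x, y⟩ N p q (fiveC N p q R x y z s w)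
    (fiveLa N p q R x y z s w w₁) (fiveMb N p q R x y z s w w₁)

/-- The multiplier times `R` at a point. -/
noncomputable def fiveTau (N p q R x y z s w w₁ : ℝ) : ℝ :=
  rayTau N p q (fiveC N p q R x y z s w) (fiveLa N p q R x y z s w w₁)
    (fiveMb N p q R x y z s w w₁) R x y z s

/-- The five signs at a point. -/
def FiveSigns (N p q R x y z s w w₁ : ℝ) : Prop :=
  let T := fiveBlock N p q R x y z s w w₁
  0 < T.GG ∧ 0 < T.MM ∧
    T.EG ^ 2 * T.MM + T.ME ^ 2 * T.GG < 4 * (T.EE + T.MG) * T.MM * T.GG ∧ 0 ≤ T.MG ∧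
    T.MG * (1 / (p + 1) * x + 1 / (q + 1) * y) ^ 2 * R ≤ fiveTau N p q R x y z s w w₁

end Vale.Agent.P100.Calib
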