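import Mathlib
import Vale.Agent.P100.RealDim.Range
import Vale.Agent.P100.Souplet.Range
import Vale.Agent.P100.Calib.OrbitCalib

/-!
# The Lane–Emden conjecture in dimension five from calibrations on the slab

In terms of `al = 1/(p+1)`, `be = 1/(q+1)`, `σ = al + be` and the critical dimension
`N = 2/(1 - σ)` the slab is `3/5 < σ < 307/507`, `2 σ - 1 ≤ al < σ/2`,
`(5 σ - 3) σ³ < 4 al² (be - al)²`.
-/

open Laplacian Set Filter Topology

namespace Vale.Agent.P100.Calib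

open Orb Bubble

variable {p q : ℝ}

/-- Calibration data exist at every point of the slab of dimension five. -/
def SlabCalibFive : Prop :=
  ∀ p q N al be σ : ℝ, 0 < q → q < p → 1 < p * q → IsCrit N p q →
    al = 1 / (p + 1) → be = 1 / (q + 1) → σ = al + be → N * (1 - σ) = 2 →
    5 < N → N < 5 + 7 / 100 → 3 / 5 < σ → σ < 307 / 507 →
    2 * σ - 1 ≤ al → 1 / 5 < al → al < be → al < 31 / 100 → be < 41 / 100 →
    (5 * σ - 3) * σ ^ 3 < 4 * al ^ 2 * (be - al) ^ 2 →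
    ∃ (S : Set ℝ) (R x y s dx dy : ℝ → ℝ) (kap r₁ r₂ : ℝ) (k : Fin 7 → ℝ → ℝ)
      (C₀ D₀ : Fin 14 → ℝ) (L₀ : ℝ),
      IsOrbitFns N p q S R x y s dx dy ∧
        OrbitCalib 5 N p q kap r₁ r₂ S R x y s dx dy k C₀ D₀ L₀

/-- The scaling exponents in terms of `1/(p+1)`, `1/(q+1)`. -/
theorem scaling_eq (hp : 0 < p) (hq : 0 < q) (hpq : 1 < p * q) {N α β : ℝ}
    (hα : α = 2 * (p + 1) / (p * q - 1)) (hβ : β = 2 * (q + 1) / (p * q - 1))
    (hN : N = α + β + 2) : β = N * (1 / (p + 1)) ∧ α = N * (1 / (q + 1)) := by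
  have hd : (p * q - 1 : ℝ) ≠ 0 := by linarith
  have hp' : (p + 1 : ℝ) ≠ 0 := by linarith
  have hq' : (q + 1 : ℝ) ≠ 0 := by linarith
  have e : N = 2 * ((p + 1) * (q + 1)) / (p * q - 1) := by
    rw [hN, hα, hβ, ← add_div, div_add' _ _ _ hd]
    congr 1
    ring
  constructor
  · rw [hβ, e, div_mul_div_comm, div_eq_div_iff hd (mul_ne_zero hd hp')]
    ring
  · rw [hα, e, div_mul_div_comm, div_eq_div_iff hd (mul_ne_zero hd hq')]
    ring

/-- The slab of dimension five is thinner than `7/100`. -/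
theorem slab_five_thin {α β : ℝ} (ha : α ≤ 2) (hab : β ≤ α) (h : 3 < α + β)
    (hlay : α + β - 3 < 2 * β ^ 2 * (α - β) ^ 2 / (α + β) ^ 3) : α + β - 3 < 7 / 100 := by
  by_contra hc
  rw [not_lt] at hc
  have hb : 1 + (α + β - 3) ≤ β := by linarith
  have h1 : 0 ≤ β * (α - β) := mul_nonneg (by linarith) (by linarith)
  have h2 : β * (α - β) ≤ 1 := by nlinarith
  have h3 : (β * (α - β)) ^ 2 ≤ 1 := by nlinarith
  have h4 : (307 / 100 : ℝ) ^ 3 ≤ (α + β) ^ 3 := pow_le_pow_left₀ (by norm_num) (by linarith) 3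
  rw [lt_div_iff₀ (by positivity)] at hlay
  have h5 := mul_le_mul hc h4 (by norm_num) (by linarith)
  have h6 : (β * (α - β)) ^ 2 = β ^ 2 * (α - β) ^ 2 := by ring
  nlinarith

/-- The slab in terms of `1/(p+1)`, `1/(q+1)`. -/
theorem slab_five_bounds {N α β al be σ : ℝ} (hN : N = α + β + 2) (hb : β = N * al)
    (ha : α = N * be) (hσ : σ = al + be) (ha2 : α ≤ 2) (hab : β < α) (h : 5 < N)
    (hlay : α + β - 3 < 2 * β ^ 2 * (α - β) ^ 2 / (α + β) ^ 3) :
    N * (1 - σ) = 2 ∧ N < 5 + 7 / 100 ∧ 3 / 5 < σ ∧ σ < 307 / 507 ∧ 2 * σ - 1 ≤ al ∧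
      1 / 5 < al ∧ al < be ∧ al < 31 / 100 ∧ be < 41 / 100 ∧
      (5 * σ - 3) * σ ^ 3 < 4 * al ^ 2 * (be - al) ^ 2 := by
  have thin := slab_five_thin ha2 hab.le (by linarith) hlay
  have e : N * (1 - σ) = 2 := by rw [hσ, mul_sub, mul_add, ← ha, ← hb]; linarith
  have hN0 : 0 < N := by linarith
  refine ⟨e, by linarith, by nlinarith, by nlinarith, by nlinarith, by nlinarith, by nlinarith,
    by nlinarith, by nlinarith, ?_⟩
  have es : α + β = N * σ := by rw [hσ, ha, hb]; ring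
  rw [lt_div_iff₀ (by nlinarith [pow_pos (show (0 : ℝ) < α + β by linarith) 3]), es, ha, hb] at hlay
  refine lt_of_mul_lt_mul_left (a := N ^ 4 * 2) ?_ (by positivity)
  have k : (N * σ - 3) * (N * σ) ^ 3 * 4 = N ^ 4 * 2 * ((5 * σ - 3) * σ ^ 3) := by
    have : (N * σ - 3) * 2 = N * (5 * σ - 3) := by linear_combination 3 * e
    linear_combination (2 * (N * σ) ^ 3) * this
  rw [← k]
  nlinarith

/-- Nonexistence in dimension five for `q ≤ p`. -/
theorem no_solution_five_ordered (hS : SlabCalibFive) (hq : 0 < q)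
    (hqp : q ≤ p) (hpq : 1 < p * q) (hsub : (3 : ℝ) / 5 < 1 / (p + 1) + 1 / (q + 1)) :
    ¬ ∃ u v : EuclideanSpace ℝ (Fin 5) → ℝ, IsSol p q u v := by
  have hp : 0 < p := hq.trans_le hqp
  have hd : 0 < p * q - 1 := by linarith
  obtain ⟨α, hα⟩ : ∃ α, α = 2 * (p + 1) / (p * q - 1) := ⟨_, rfl⟩
  obtain ⟨β, hβ⟩ : ∃ β, β = 2 * (q + 1) / (p * q - 1) := ⟨_, rfl⟩
  have hcr := crit_of_scaling hp hq hpq
  rw [← hα, ← hβ] at hcr
  have hab : 0 < α + β + 2 := by rw [hα, hβ]; positivity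
  have hN : (3 : ℝ) < α + β := by
    rw [hcr, div_lt_div_iff₀ (by norm_num) hab] at hsub
    linarith
  rcases lt_or_ge 2 α with ha | ha
  · refine Souplet.souplet_range le_rfl hq hqp hpq ?_ ?_
    · rw [← hα]; push_cast; linarith
    · push_cast
      calc ((5 : ℝ) - 2) < (1 / (p + 1) + 1 / (q + 1)) * 5 := by linarith
        _ = _ := by ring
  have hser : 2 * (p + 1) ≤ ((5 : ℝ) - 2) * (p * q - 1) := by
    rw [hα, div_le_iff₀ hd] at ha
    nlinarith
  rcases le_or_gt (2 * β ^ 2 * (α - β) ^ 2 / (α + β) ^ 3) (α + β - 3) with hlay | hlay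
  · refine no_solution_of_paramsN le_rfl hp hq hpq ?_
    rw [Nat.cast_ofNat]
    refine RealDim.hasParamsN_layer le_rfl hq hqp hpq hser (Or.inr ?_)
    subst hα hβ
    exact ⟨by linarith, by linarith, by norm_num; exact hlay⟩
  have hlt : q < p := by
    refine lt_of_le_of_ne hqp fun e => ?_
    have : α - β = 0 := by rw [hα, hβ, e]; ring
    rw [this] at hlay
    simp at hlay
    linarith
  have hba : β < α := by
    rw [hα, hβ]
    exact div_lt_div_of_pos_right (by linarith) hd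
  obtain ⟨eb, ea⟩ := scaling_eq hp hq hpq hα hβ rfl
  obtain ⟨b1, b2, b3, b4, b5, b6, b7, b8, b9, b10⟩ :=
    slab_five_bounds rfl eb ea rfl ha hba (by linarith) hlay
  have hcrit : IsCrit (α + β + 2) p q :=
    ⟨by linarith, hq, hlt, by rw [hcr, add_sub_cancel_right]⟩
  obtain ⟨S, R, x, y, s, dx, dy, kap, r₁, r₂, k, C₀, D₀, L₀, h, o⟩ :=
    hS p q (α + β + 2) _ _ _ hq hlt hpq hcrit rfl rfl rfl b1 (by linarith) b2 b3 b4 b5 b6 b7 b8 b9
      b10
  exact o.no_solution hcrit h le_rfl (by push_cast; linarith)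

/-- **The Lane–Emden conjecture in dimension five from calibrations on the slab.** -/
theorem lane_emden_five (hS : SlabCalibFive) (hp : 0 < p) (hq : 0 < q)
    (hsub : (3 : ℝ) / 5 < 1 / (p + 1) + 1 / (q + 1)) :
    ¬ ∃ u v : EuclideanSpace ℝ (Fin 5) → ℝ,
      Continuous u ∧ Continuous v ∧ ContDiffOn ℝ 2 u {0}ᶜ ∧ ContDiffOn ℝ 2 v {0}ᶜ ∧
      (∀ x, 0 < u x) ∧ (∀ x, 0 < v x) ∧ (∀ x, x ≠ 0 → Δ u x = -(v x) ^ p) ∧
      (∀ x, x ≠ 0 → Δ v x = -(u x) ^ q) := by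
  rintro ⟨u, v, hs⟩
  have hs' := (isSol_iff u v).2 hs
  rcases le_or_gt (p * q) 1 with hpq | hpq
  · exact no_solution_mul_le_one (by norm_num) hp hq hpq ⟨u, v, hs'⟩
  rcases le_total q p with hqp | hqp
  · exact no_solution_five_ordered hS hq hqp hpq hsub ⟨u, v, hs'⟩
  · exact no_solution_five_ordered hS hp hqp (by rwa [mul_comm]) (by rwa [add_comm])
      ⟨v, u, hs'.swap⟩

end Vale.Agent.P100.Calib
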