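import Mathlib
import Vale.Agent.P100.Calib.SlabFive
import Vale.Agent.P100.Calib.OrbitCalibBlock
import Vale.Agent.P100.Calib.SlabDefs

/-!
# The slab family of scalars

`famK` are the seven scalars with five numbers `t = (c, w, u, v, g)`, each a `C¹` function of
`(z, Y/X)` (`rho = c/(XY)`,
multiplier `w` of `Qt d`, `k₁ = u/(XY)`, `k₂ = v/(XY)`, `k₃ = g/(XY D)`), shifted to the
normalisation of the natural frame (`TailVal.shift`), in the regular variables `x, y, s, w`: they are `C¹` through the centre, tend to `t.scalars` at `z = 0` with `z k' → 0`, and in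
dimension five (`kap = -1`, `r₁ = 0`, `r₂ = (N-3)/4`) the bound on `lam` holds on the whole orbit.
So `SlabCalibFive` follows from the multiplier condition (`SlabBlockFive`) and positivity at
`z = 0` (`SlabEndFive`).
-/

open Set Filter Topology

namespace Vale.Agent.P100.Calib

open Orb Bubble

variable {N p q kap : ℝ}

/-- The point `(z, X, Y, Q)` of the orbit. -/
def orbPt (R x y s : ℝ → ℝ) (z : ℝ) : ℝ × ℝ × ℝ × ℝ :=
  (z, -2 * R z * x z, -2 * R z * y z, R z * s z)

/-- The arguments `(z, Y/X)` of the five numbers. -/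
noncomputable def numArg (x y : ℝ → ℝ) (z : ℝ) : ℝ × ℝ := (z, y z / x z)

/-- The five numbers are `C¹` functions of `(z, Y/X)`. -/
structure IsC1Num (t : ℝ × ℝ → TailVal) : Prop where
  c : ContDiff ℝ 1 fun v => (t v).c
  w : ContDiff ℝ 1 fun v => (t v).w
  u : ContDiff ℝ 1 fun v => (t v).u
  v : ContDiff ℝ 1 fun v => (t v).v
  g : ContDiff ℝ 1 fun v => (t v).g

theorem isC1Num_const (t : TailVal) : IsC1Num fun _ => t :=
  ⟨contDiff_const, contDiff_const, contDiff_const, contDiff_const, contDiff_const⟩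

/-- The seven scalars along the orbit. -/
noncomputable def famK (N p q : ℝ) (t : ℝ × ℝ → TailVal) (x y s dx dy : ℝ → ℝ) (r : Fin 7)
    (z : ℝ) : ℝ :=
  famReg p q (regShift N p q (t (numArg x y z)) (x z) (y z)
    (sigR (x z) (y z) (s z) (wFun N x y dx dy z))) (x z) (y z) (s z) r

/-- The last scalar over `Zq`, defined off the centre. -/
noncomputable def famE (p q : ℝ) (t : ℝ × ℝ → TailVal) (R x y : ℝ → ℝ) (z : ℝ) : ℝ :=
  (t (numArg x y z)).w / (2 * R z * (1 / (p + 1) * x z + 1 / (q + 1) * y z))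

/-- The end point as a point `(z, X, Y, Q)`. -/
noncomputable def endPt (N p q kap : ℝ) : ℝ × ℝ × ℝ × ℝ :=
  (0, (endOrb N p q kap).X, (endOrb N p q kap).Y, (endOrb N p q kap).Q)

/-- The argument of the five numbers at `z = 0`. -/
noncomputable def endArg (N p q kap : ℝ) : ℝ × ℝ :=
  (0, (endOrb N p q kap).Y / (endOrb N p q kap).X)

/-- The tail scalars as functions of `(z, X, Y, Q)`. -/
noncomputable def scalXYQ (N p q : ℝ) (t : ℝ × ℝ → TailVal) (r : Fin 7)
    (v : ℝ × ℝ × ℝ × ℝ) : ℝ :=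
  let o : Orb := ⟨1 / (p + 1), 1 / (q + 1), N, p, q, v.2.1, v.2.2.1, v.1 * v.2.2.2, v.2.2.2, 0⟩
  ((t (v.1, v.2.2.1 / v.2.1)).shift o).scalars o r

theorem scalars_endOrb (t : ℝ × ℝ → TailVal) (r : Fin 7) :
    ((t (endArg N p q kap)).shift (endOrb N p q kap)).scalars (endOrb N p q kap) r =
      scalXYQ N p q t r (endPt N p q kap) := by
  fin_cases r <;> simp [scalXYQ, endPt, endArg, endOrb, TailVal.scalars, TailVal.gd, TailVal.ed,
    TailVal.shift, Orb.D, Orb.sC, Orb.sU, Orb.sV]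

theorem contDiffAt_scalXYQ {t : ℝ × ℝ → TailVal} (ht : IsC1Num t) (r : Fin 7)
    {v : ℝ × ℝ × ℝ × ℝ} (hX : v.2.1 ≠ 0) (hY : v.2.2.1 ≠ 0) (hD : 1 / (p + 1) * v.2.1 + 1 / (q + 1) * v.2.2.1 ≠ 0) :
    ContDiffAt ℝ 1 (scalXYQ N p q t r) v := by
  have dX : ContDiffAt ℝ 1 (fun w : ℝ × ℝ × ℝ × ℝ => w.2.1) v :=
    contDiffAt_fst.comp v contDiffAt_snd
  have dY : ContDiffAt ℝ 1 (fun w : ℝ × ℝ × ℝ × ℝ => w.2.2.1) v :=
    contDiffAt_fst.comp v (contDiffAt_snd.comp v contDiffAt_snd)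
  have dQ : ContDiffAt ℝ 1 (fun w : ℝ × ℝ × ℝ × ℝ => w.2.2.2) v :=
    contDiffAt_snd.comp v (contDiffAt_snd.comp v contDiffAt_snd)
  have dD : ContDiffAt ℝ 1
      (fun w : ℝ × ℝ × ℝ × ℝ => 1 / (p + 1) * w.2.1 + 1 / (q + 1) * w.2.2.1) v :=
    (contDiffAt_const.mul dX).add (contDiffAt_const.mul dY)
  have dA : ContDiffAt ℝ 1 (fun w : ℝ × ℝ × ℝ × ℝ => (w.1, w.2.2.1 / w.2.1)) v :=
    contDiffAt_fst.prodMk (dY.div dX hX)
  have tc := ht.c.contDiffAt.comp v dA
  have tw := ht.w.contDiffAt.comp v dA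
  have tu := ht.u.contDiffAt.comp v dA
  have tv := ht.v.contDiffAt.comp v dA
  have tg := ht.g.contDiffAt.comp v dA
  have dP := (contDiffAt_fst (𝕜 := ℝ) (n := 1) (p := v)).mul dQ
  have dU := (((contDiffAt_const (c := -N)).mul dX).sub (dX.pow 2)).sub dP
  have dV := (((contDiffAt_const (c := -N)).mul dY).sub (dY.pow 2)).sub dQ
  have dC := ((dY.mul dU).sub (dX.mul dV)).neg.div (dX.mul dY) (mul_ne_zero hX hY)
  have du := ((tc.mul dC).mul ((contDiffAt_const (c := 1 / (q + 1)).mul dY).sub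
    (contDiffAt_const (c := 1 / (p + 1)).mul dX))).div ((contDiffAt_const (c := (2 : ℝ))).mul (dD.pow 2))
    (mul_ne_zero two_ne_zero (pow_ne_zero 2 hD))
  have tu' := tu.sub du
  have tv' := tv.sub ((contDiffAt_const (c := 1 / (p + 1) + 1 / (q + 1))).mul du)
  have tg' := tg.add ((((tc.mul dC).mul (contDiffAt_const (c := 1 / (p + 1) * (1 / (q + 1))))).mul
    (contDiffAt_const (c := 1 - 1 / N))).div dD hD)
  have gd := tg'.sub (((tw.mul dQ).mul (contDiffAt_const (c := 1 / (p + 1) * (1 / (q + 1))))).div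
    dD hD)
  have ed := tv'.add (((tw.mul dQ).mul ((contDiffAt_const (c := 1 / (q + 1)).mul dY).sub
    (contDiffAt_const (c := 1 / (p + 1)).mul dX))).div (dD.pow 2) (pow_ne_zero 2 hD))
  unfold scalXYQ
  fin_cases r <;>
    simp only [TailVal.scalars, TailVal.shift, TailVal.gd, TailVal.ed, Orb.D, Orb.sC, Orb.sU,
      Orb.sV, Fin.reduceFinMk, Matrix.cons_val]
  · exact tc
  · exact (contDiffAt_const.mul tu').add ((dY.div dD hD).mul gd)
  · exact (contDiffAt_const.mul tu').sub ((dX.div dD hD).mul gd)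
  · exact contDiffAt_const.mul ed
  · exact contDiffAt_const.mul ed
  · exact contDiffAt_const
  · exact tw.neg.div dD hD

/-- A `C¹` function along a curve tending to a point with `z γ' → 0`. -/
theorem tendsto_mul_deriv_comp {V : Type*} [NormedAddCommGroup V] [NormedSpace ℝ V] {F : V → ℝ}
    {v₀ : V} (hF : ContDiffAt ℝ 1 F v₀) {γ γ' : ℝ → V} {l : Filter ℝ} {f : ℝ → ℝ}
    (hγ : Tendsto γ l (𝓝 v₀)) (hd : ∀ᶠ z in l, HasDerivAt γ (γ' z) z)
    (h0 : Tendsto (fun z => z • γ' z) l (𝓝 0)) (hf : ∀ᶠ z in l, f =ᶠ[𝓝 z] fun t => F (γ t)) :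
    Tendsto f l (𝓝 (F v₀)) ∧ Tendsto (fun z => deriv f z * z) l (𝓝 0) := by
  obtain ⟨U, hU, hFU⟩ := hF.contDiffOn le_rfl (by simp)
  obtain ⟨W, hWU, hWo, hv₀⟩ := mem_nhds_iff.1 hU
  have hFW := hFU.mono hWU
  have hc : ContinuousAt (fderiv ℝ F) v₀ :=
    (hFW.continuousOn_fderiv_of_isOpen hWo le_rfl).continuousAt (hWo.mem_nhds hv₀)
  refine ⟨(hF.continuousAt.tendsto.comp hγ).congr' (hf.mono fun z hz => hz.eq_of_nhds.symm), ?_⟩
  have lim : Tendsto (fun z => fderiv ℝ F (γ z) (z • γ' z)) l (𝓝 (fderiv ℝ F v₀ 0)) :=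
    (isBoundedBilinearMap_apply.continuous.tendsto (fderiv ℝ F v₀, (0 : V))).comp
      ((hc.tendsto.comp hγ).prodMk_nhds h0)
  rw [map_zero] at lim
  refine lim.congr' ?_
  filter_upwards [hd, hf, hγ.eventually (hWo.mem_nhds hv₀)] with z hz hfz hzW
  have hFz : HasFDerivAt F (fderiv ℝ F (γ z)) (γ z) :=
    ((hFW.contDiffAt (hWo.mem_nhds hzW)).differentiableAt one_ne_zero).hasFDerivAt
  rw [((hFz.comp_hasDerivAt z hz).congr_of_eventuallyEq hfz).deriv, map_smul, smul_eq_mul,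
    mul_comm]

section
variable {S : Set ℝ} {R x y s dx dy : ℝ → ℝ} (hc : IsCrit N p q)
  (h : IsOrbitFns N p q S R x y s dx dy)
include hc h

/-- The velocities of `(X, Y, Q)` off the centre. -/
theorem hasDerivAt_orbitXYQ {z : ℝ} (hz : z ∈ S) (hR : R z ≠ 0) :
    let o := orbAt N p q kap (R z) (x z) (y z) z (s z)
    HasDerivAt (orbPt R x y s)
      (1, o.vX / (z * o.phi), o.vY / (z * o.phi), o.vQ / (z * o.phi)) z := by
  intro o
  obtain ⟨hal, -, hw⟩ := hc.weights
  have hN : 0 < N := by linarith [hc.dim]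
  have hzp : (0 : ℝ) < z := h.pos hz
  have hW := (h.W_pos z hz).ne'
  have := hzp.ne'
  have hp1 : p + 1 ≠ 0 := by linarith [hc.p_pos]
  have hq1 : q + 1 ≠ 0 := by linarith [hc.q_pos]
  have hphi' : o.phi = -2 * R z * (1 / (q + 1) * y z - 1 / (p + 1) * x z) /
      (1 / (p + 1) * (1 / (q + 1))) := by
    simp only [o, orbAt, Orb.phi]; field_simp; ring
  refine (hasDerivAt_id z).prodMk (HasDerivAt.prodMk ?_ (HasDerivAt.prodMk ?_ ?_))
  · refine (((h.dR z hz).const_mul (-2)).fun_mul (h.deriv_x z hz)).congr_deriv ?_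
    rw [hphi']
    simp only [o, orbAt, Orb.vX]
    generalize 1 / (q + 1) * y z - 1 / (p + 1) * x z = W at hW ⊢
    field_simp
    linear_combination 4 * h.ode_x z hz
  · refine (((h.dR z hz).const_mul (-2)).fun_mul (h.deriv_y z hz)).congr_deriv ?_
    rw [hphi']
    simp only [o, orbAt, Orb.vY]
    generalize 1 / (q + 1) * y z - 1 / (p + 1) * x z = W at hW ⊢
    field_simp
    linear_combination 4 * h.ode_y z hz
  · refine ((h.dR z hz).fun_mul (h.deriv_s z hz)).congr_deriv ?_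
    rw [hphi']
    simp only [o, orbAt, Orb.vQ]
    generalize 1 / (q + 1) * y z - 1 / (p + 1) * x z = W at hW ⊢
    field_simp
    ring

theorem denom_pos {z : ℝ} (hz : z ∈ S) : 0 < 1 / (p + 1) * x z + 1 / (q + 1) * y z := by
  have := hc.p_pos
  have := hc.q_pos
  have := h.x_pos z hz
  have := h.y_pos z hz
  positivity

/-- The scalars are the tail scalars at the orbit point. -/
theorem fam_eq_scal (t : ℝ × ℝ → TailVal) {z : ℝ} (hz : z ∈ S) (hR : R z ≠ 0)
    (r : Fin 7) : scalXYQ N p q t r (orbPt R x y s z) =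
      if r = 6 then famE p q t R x y z else famK N p q t x y s dx dy r z := by
  have hD := (denom_pos hc h hz).ne'
  have hx := (h.x_pos z hz).ne'
  have hy := (h.y_pos z hz).ne'
  have hw := wFun_eq hc h hz
  have hC : (⟨1 / (p + 1), 1 / (q + 1), N, p, q, -2 * R z * x z, -2 * R z * y z, z * (R z * s z),
      R z * s z, 0⟩ : Orb).sC = R z * sigR (x z) (y z) (s z) (wFun N x y dx dy z) := by
    simp only [Orb.sC, Orb.sU, Orb.sV, sigR]
    field_simp
    linear_combination (-(s z)) * hw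
  have hr : -2 * R z * y z / (-2 * R z * x z) = y z / x z :=
    mul_div_mul_left _ _ (mul_ne_zero (by norm_num) hR)
  have e : 1 / (p + 1) * (-2 * R z * x z) + 1 / (q + 1) * (-2 * R z * y z) =
      -2 * R z * (1 / (p + 1) * x z + 1 / (q + 1) * y z) := by ring
  fin_cases r <;>
    simp only [scalXYQ, famE, famK, famReg, orbPt, numArg, hr, TailVal.scalars, TailVal.shift, regShift, hC,
      TailVal.gd, TailVal.ed, Orb.D,
      Fin.reduceFinMk, Matrix.cons_val, Fin.reduceEq, if_false, if_true, e]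
  all_goals
    generalize 1 / (p + 1) * x z + 1 / (q + 1) * y z = D at hD ⊢
    field_simp
  all_goals ring

omit hc in
theorem contDiffOn_numArg : ContDiffOn ℝ 1 (numArg x y) S := by
  obtain ⟨-, hx, hy, -⟩ := h.smooth
  exact contDiffOn_id.prodMk (hy.div hx fun z hz => (h.x_pos z hz).ne')

theorem contDiffOn_famK {t : ℝ × ℝ → TailVal} (ht : IsC1Num t) (r : Fin 7) :
    ContDiffOn ℝ 1 (famK N p q t x y s dx dy r) S := by
  obtain ⟨-, hx, hy, hs⟩ := h.smooth
  have hP := contDiffOn_numArg h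
  have tc := ht.c.comp_contDiffOn hP
  have tw := ht.w.comp_contDiffOn hP
  have tu := ht.u.comp_contDiffOn hP
  have tv := ht.v.comp_contDiffOn hP
  have tg := ht.g.comp_contDiffOn hP
  have dD : ContDiffOn ℝ 1 (fun z => 1 / (p + 1) * x z + 1 / (q + 1) * y z) S :=
    (contDiffOn_const.mul hx).add (contDiffOn_const.mul hy)
  have n1 : ∀ z ∈ S, 1 / (p + 1) * x z + 1 / (q + 1) * y z ≠ 0 := fun z hz =>
    (denom_pos hc h hz).ne'
  have n2 : ∀ z ∈ S, 2 * (1 / (p + 1) * x z + 1 / (q + 1) * y z) ≠ 0 := fun z hz =>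
    mul_ne_zero two_ne_zero (n1 z hz)
  have n3 : ∀ z ∈ S, 2 * (1 / (p + 1) * x z + 1 / (q + 1) * y z) ^ 2 ≠ 0 := fun z hz =>
    mul_ne_zero two_ne_zero (pow_ne_zero 2 (n1 z hz))
  have n4 : ∀ z ∈ S, 2 * (x z * y z) ≠ 0 := fun z hz =>
    mul_ne_zero two_ne_zero (mul_pos (h.x_pos z hz) (h.y_pos z hz)).ne'
  have n5 : ∀ z ∈ S, 4 * (1 / (p + 1) * x z + 1 / (q + 1) * y z) ^ 2 ≠ 0 := fun z hz =>
    mul_ne_zero (by norm_num) (pow_ne_zero 2 (n1 z hz))
  have dσ := ((contDiffOn_const (c := (2 : ℝ))).mul (hy.sub hx)).add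
    ((hs.mul (contDiffOn_wFun hc h)).div ((contDiffOn_const (c := (2 : ℝ))).mul (hx.mul hy)) n4)
  have du := ((tc.mul dσ).mul ((contDiffOn_const (c := 1 / (q + 1)).mul hy).sub
    (contDiffOn_const (c := 1 / (p + 1)).mul hx))).div ((contDiffOn_const (c := (4 : ℝ))).mul (dD.pow 2)) n5
  have tu' := tu.add du
  have tv' := tv.add ((contDiffOn_const (c := 1 / (p + 1) + 1 / (q + 1))).mul du)
  have tg' := tg.sub ((((tc.mul dσ).mul (contDiffOn_const (c := 1 / (p + 1) * (1 / (q + 1))))).mul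
    (contDiffOn_const (c := 1 - 1 / N))).div ((contDiffOn_const (c := (2 : ℝ))).mul dD) n2)
  have gd := tg'.add (((tw.mul (contDiffOn_const (c := 1 / (p + 1) * (1 / (q + 1))))).mul hs).div
    (contDiffOn_const (c := (2 : ℝ)).mul dD) n2)
  have ed := tv'.sub (((tw.mul hs).mul ((contDiffOn_const (c := 1 / (q + 1)).mul hy).sub
    (contDiffOn_const (c := 1 / (p + 1)).mul hx))).div
    (contDiffOn_const (c := (2 : ℝ)).mul (dD.pow 2)) n3)
  unfold famK famReg regShift sigR
  fin_cases r <;> simp only [Fin.reduceFinMk, Matrix.cons_val]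
  · exact tc
  · exact (contDiffOn_const.mul tu').add ((hy.div dD n1).mul gd)
  · exact (contDiffOn_const.mul tu').sub ((hx.div dD n1).mul gd)
  · exact contDiffOn_const.mul ed
  · exact contDiffOn_const.mul ed
  · exact contDiffOn_const
  · exact (tw.mul hs).div (contDiffOn_const.mul dD) n2

theorem famK_six (t : ℝ × ℝ → TailVal) {z : ℝ} (hz : z ∈ S) (hR : 0 < R z) :
    famK N p q t x y s dx dy 6 z = R z * s z * famE p q t R x y z := by
  have hD := (denom_pos hc h hz).ne'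
  have := hR.ne'
  simp only [famK, famReg, regShift, famE, Matrix.cons_val]
  generalize 1 / (p + 1) * x z + 1 / (q + 1) * y z = D at hD ⊢
  field_simp

theorem contDiffOn_famE {t : ℝ × ℝ → TailVal} (ht : IsC1Num t) :
    ContDiffOn ℝ 1 (famE p q t R x y) (S ∩ R ⁻¹' Ioi 0) := by
  have hP := (contDiffOn_numArg h).mono (inter_subset_left (t := R ⁻¹' Ioi 0))
  obtain ⟨hR, hx, hy, -⟩ := h.smooth
  refine (ht.w.comp_contDiffOn hP).div (((contDiffOn_const.mul hR).mul
    ((contDiffOn_const.mul hx).add (contDiffOn_const.mul hy))).mono inter_subset_left) ?_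
  exact fun z hz => mul_ne_zero (mul_ne_zero two_ne_zero (show 0 < R z from hz.2).ne')
    (denom_pos hc h hz.1).ne'

/-- The limits at `z = 0`. -/
theorem fam_limits {t : ℝ × ℝ → TailVal} (ht : IsC1Num t) (r : Fin 7) :
    Tendsto (if r = 6 then famE p q t R x y else famK N p q t x y s dx dy r) (𝓝[>] 0)
        (𝓝 (((t (endArg N p q kap)).shift (endOrb N p q kap)).scalars (endOrb N p q kap) r)) ∧
      Tendsto (fun z => deriv (if r = 6 then famE p q t R x y else famK N p q t x y s dx dy r) z * z)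
        (𝓝[>] 0) (𝓝 0) := by
  obtain ⟨hX0, hY0, hD0, -, hvX, hvY, hvQ, -, hphi0⟩ := endOrb_facts (kap := kap) hc
  have hκ : (0 : ℝ) < (p + 1) / (q + 1) := by
    have := hc.p_pos
    have := hc.q_pos
    positivity
  have hS : ∀ᶠ z in 𝓝[>] (0 : ℝ), z ∈ S ∧ 0 < R z := by
    filter_upwards [Ioo_mem_nhdsGT hκ, h.R_tendsto.eventually (eventually_gt_atTop 0)] with z hz hR
    exact ⟨h.cover (Ioo_subset_Ioc_self hz), hR⟩
  have hSo : IsOpen (S ∩ R ⁻¹' Ioi 0) :=
    h.smooth.1.continuousOn.isOpen_inter_preimage h.isOpen isOpen_Ioi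
  have hz0 : Tendsto (fun z : ℝ => z) (𝓝[>] 0) (𝓝 0) := tendsto_id.mono_left nhdsWithin_le_nhds
  have tX : Tendsto (fun z => -2 * R z * x z) (𝓝[>] 0) (𝓝 (endOrb N p q kap).X) :=
    h.X_tendsto.neg.congr fun z => by ring
  have tY : Tendsto (fun z => -2 * R z * y z) (𝓝[>] 0) (𝓝 (endOrb N p q kap).Y) :=
    h.Y_tendsto.neg.congr fun z => by ring
  have tQ : Tendsto (fun z => R z * s z) (𝓝[>] 0) (𝓝 (endOrb N p q kap).Q) := h.Q_tendsto
  have tP : Tendsto (fun z => R z * (z * s z)) (𝓝[>] 0) (𝓝 (endOrb N p q kap).P) := by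
    have := hz0.mul tQ
    rw [zero_mul] at this
    exact this.congr fun z => by ring
  have tphi : Tendsto (fun z => (orbAt N p q kap (R z) (x z) (y z) z (s z)).phi) (𝓝[>] 0)
      (𝓝 (endOrb N p q kap).phi) := (tY.const_mul _).sub (tX.const_mul _)
  have t1 : Tendsto (fun z => (orbAt N p q kap (R z) (x z) (y z) z (s z)).vX) (𝓝[>] 0)
      (𝓝 (endOrb N p q kap).vX) := ((tX.const_mul _).sub (tX.pow 2)).sub tP
  have t2 : Tendsto (fun z => (orbAt N p q kap (R z) (x z) (y z) z (s z)).vY) (𝓝[>] 0)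
      (𝓝 (endOrb N p q kap).vY) := ((tY.const_mul _).sub (tY.pow 2)).sub tQ
  have t3 : Tendsto (fun z => (orbAt N p q kap (R z) (x z) (y z) z (s z)).vQ) (𝓝[>] 0)
      (𝓝 (endOrb N p q kap).vQ) := tQ.mul (((tX.const_mul q).const_add 2).sub tY)
  rw [hvX] at t1
  rw [hvY] at t2
  rw [hvQ] at t3
  rw [scalars_endOrb t r]
  refine tendsto_mul_deriv_comp (γ := orbPt R x y s)
    (γ' := fun z => let o := orbAt N p q kap (R z) (x z) (y z) z (s z)
      (1, o.vX / (z * o.phi), o.vY / (z * o.phi), o.vQ / (z * o.phi)))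
    (contDiffAt_scalXYQ ht r hX0 hY0 hD0) (hz0.prodMk_nhds (tX.prodMk_nhds (tY.prodMk_nhds tQ)))
    (hS.mono fun z hz => hasDerivAt_orbitXYQ hc h hz.1 hz.2.ne') ?_
    (hS.mono fun z hz => eventually_of_mem (hSo.mem_nhds ⟨hz.1, hz.2⟩) fun u hu => ?_)
  · have key := hz0.prodMk_nhds ((t1.div tphi hphi0).prodMk_nhds
      ((t2.div tphi hphi0).prodMk_nhds (t3.div tphi hphi0)))
    simp only [zero_div] at key
    refine key.congr' ?_
    filter_upwards [hS] with z hz
    have := (show (0 : ℝ) < z from h.pos hz.1).ne'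
    simp only [Prod.smul_mk, smul_eq_mul, Prod.mk.injEq, Pi.div_apply]
    refine ⟨(mul_one z).symm, ?_, ?_, ?_⟩ <;> field_simp
  · show (if r = 6 then famE p q t R x y else famK N p q t x y s dx dy r) u =
      scalXYQ N p q t r (orbPt R x y s u)
    rw [fam_eq_scal hc h t hu.1 (show 0 < R u from hu.2).ne' r]
    split_ifs <;> rfl

/-- The head of the coefficients: `c 0` and the determinant are positive once `t.c` is. -/
theorem famK_head {t : ℝ × ℝ → TailVal} {z : ℝ} (htc : 0 < (t (numArg x y z)).c)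
    (hz : z ∈ S) :
    let c := fun j => orbCoef N p q R x y s dx dy (famK N p q t x y s dx dy) j z
    0 < c 0 ∧ 0 < c 0 * c 3 - ((c 1 + c 2) / 2) ^ 2 := by
  have hD := denom_pos hc h hz
  have hx := h.x_pos z hz
  have hy := h.y_pos z hz
  simp only [orbCoef, famK, famReg, regShift, regFld, orbAt, Fin.sum_univ_seven, Orb.cBase, Orb.shapeU,
    shapeG, Orb.shapeT, shapeW, Matrix.cons_val, mul_zero, add_zero, zero_mul]
  generalize (t (numArg x y z)).c = c₀ at htc ⊢
  generalize 1 / (p + 1) = a at *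
  generalize 1 / (q + 1) = b at *
  refine ⟨add_pos_of_nonneg_of_pos (sq_nonneg a) (mul_pos htc (div_pos hy hx)), ?_⟩
  have e : (a ^ 2 + c₀ * (y z / x z)) * (b ^ 2 + c₀ * (x z / y z)) -
      ((a * b + c₀ * -1 + (a * b + c₀ * -1)) / 2) ^ 2 =
      c₀ * (a * x z + b * y z) ^ 2 / (x z * y z) := by
    field_simp
    ring
  rw [e]
  positivity

/-- With `kap = -1` the `u`-exponent stays below `3/2` on the orbit. -/
theorem lamR_le {z : ℝ} (hz : z ∈ S) : lamR N p q (-1) (x z) (y z) ≤ 3 / 2 := by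
  obtain ⟨hal, -, hw⟩ := hc.weights
  have hN : 0 < N := by linarith [hc.dim]
  have hD := denom_pos hc h hz
  have hW := h.W_pos z hz
  have hx := h.x_pos z hz
  have hy := h.y_pos z hz
  have hb : 0 < 1 / (q + 1) := by have := hc.q_pos; positivity
  simp only [lamR]
  generalize 1 / (p + 1) = a at *
  generalize 1 / (q + 1) = b at *
  rw [← le_sub_iff_add_le', div_le_iff_of_neg (mul_neg_of_pos_of_neg hN (by linarith))]
  refine le_of_mul_le_mul_right ?_ hD
  rw [add_mul, mul_assoc (N * a), div_mul_cancel₀ _ hD.ne']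
  have hl : 0 ≤ (1 + N * a + N * b / 2) * y z - N * a * x z / 2 := by
    have h1 : 0 ≤ N * (b * y z - a * x z) := mul_nonneg hN.le hW.le
    have h2 : 0 ≤ (1 + N * a) * y z := by positivity
    linarith
  have key : (-1 + 2) * y z * (a * x z + b * y z) +
      N * a * (a * x z ^ 2 + b * y z ^ 2 - x z * y z) -
      (3 / 2 - 1) * (N * (a * x z - b * y z)) * (a * x z + b * y z) =
      (b * y z - a * x z) * ((1 + N * a + N * b / 2) * y z - N * a * x z / 2) := by
    linear_combination (a * x z * y z) * hw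
  linarith [mul_nonneg hW.le hl]

end

theorem isC1Num_famFive : IsC1Num (famFive N p q) where
  c := contDiff_const
  w := (contDiff_const.add (contDiff_const.mul contDiff_fst)).div_const N
  u := contDiff_const
  v := contDiff_const
  g := contDiff_const

/-- The numbers of the slab family at `z = 0`. -/
theorem famFive_end (N p q kap : ℝ) : famFive N p q (endArg N p q kap) =
    ⟨1 / 8, -(1 / 20 + (1 / (q + 1) - 1 / (p + 1))) / N, 0, -(21 / 100), 0⟩ := by
  simp [famFive, endArg]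

/-- The multiplier condition for the slab family at every orbit of the slab of dimension five. -/
def SlabBlockFive : Prop :=
  ∀ p q N al be σ : ℝ, 0 < q → q < p → 1 < p * q → IsCrit N p q →
    al = 1 / (p + 1) → be = 1 / (q + 1) → σ = al + be → N * (1 - σ) = 2 →
    5 < N → N < 5 + 7 / 100 → 3 / 5 < σ → σ < 307 / 507 →
    2 * σ - 1 ≤ al → 1 / 5 < al → al < be → al < 31 / 100 → be < 41 / 100 →
    (5 * σ - 3) * σ ^ 3 < 4 * al ^ 2 * (be - al) ^ 2 →
    ∀ (S : Set ℝ) (R x y s dx dy : ℝ → ℝ), IsOrbitFns N p q S R x y s dx dy →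
      ∀ z ∈ Ioc 0 ((p + 1) / (q + 1)),
        let c := fun j => orbCoef N p q R x y s dx dy (famK N p q (famFive N p q) x y s dx dy) j z
        let la := orbLa N p q (-1) R x y s dx dy (famK N p q (famFive N p q) x y s dx dy) z
        let mb := orbMb N p q (-1) R x y s dx dy (famK N p q (famFive N p q) x y s dx dy) z
        ∃ μ : ℝ, 0 ≤ μ ∧ μ * R z ≤ rayTau N p q c la mb (R z) (x z) (y z) z (s z) ∧
          ∀ A C B : ℝ, A ≠ 0 ∨ C ≠ 0 ∨ B ≠ 0 →
            μ * (A * B - C ^ 2) < elimN N p q c la mb A C B 0 0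

/-- Positivity at `z = 0` for the slab family on the slab, in the shape of `of_block_end`. -/
def SlabEndFive : Prop :=
  ∀ N p q : ℝ, IsCrit N p q → 5 < N → N < 5 + 7 / 100 → N - 4 ≤ N / (p + 1) →
    (5 * (1 / (p + 1) + 1 / (q + 1)) - 3) * (1 / (p + 1) + 1 / (q + 1)) ^ 3 <
      4 * (1 / (p + 1)) ^ 2 * (1 / (q + 1) - 1 / (p + 1)) ^ 2 →
    let o := endOrb N p q (-1)
    let C₀ := fun j => o.cBase j +
      ∑ r, ((famFive N p q (endArg N p q (-1))).shift o).scalars o r * o.fldQ r j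
    let D₀ := fun _ : Fin 14 => (0 : ℝ)
    0 < C₀ 0 ∧ 0 < C₀ 0 * C₀ 3 - ((C₀ 1 + C₀ 2) / 2) ^ 2 ∧
      ∀ A B D Q : ℝ, 0 ≤ A → 0 ≤ B → D ^ 2 ≤ A * B → 0 ≤ Q → 0 < A + B + Q →
        let M₀ := ((p + 1) * (-2 * 0 + 2 * q * ((N - 3) / 4)) +
          (q + 1) * (2 * p * 0 - 2 * ((N - 3) / 4)) - (p + 1) * o.lam) / (q + 1)
        let la := fun j => C₀ j * o.lam - (q + 1) * D₀ j
        let mb := fun j => C₀ j * M₀ + (p + 1) * D₀ j
        0 ≤ elimN N p q C₀ la mb A D B 0 Q ∧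
          (elimN N p q C₀ la mb A D B 0 Q = 0 → 0 < elimGap C₀ la mb A D B 0 Q)

/-- **The multiplier condition and the end point give the calibration on the slab.** -/
theorem slabCalibFive_of_block (hB : SlabBlockFive) (hE : SlabEndFive) : SlabCalibFive := by
  intro p q N al be σ hq hqp hpq hc hal hbe hσ hN h1 h2 h3 h4 h5 h6 h7 h8 h9 h10
  obtain ⟨S, R, x, y, s, dx, dy, h⟩ := exists_orbitFns hc
  have hblock := hB p q N al be σ hq hqp hpq hc hal hbe hσ hN h1 h2 h3 h4 h5 h6 h7 h8 h9 h10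
    S R x y s dx dy h
  have hb : N - 4 ≤ N / (p + 1) := by
    have e : N / (p + 1) = N * al := by rw [hal]; ring
    rw [e]
    nlinarith [mul_le_mul_of_nonneg_left h5 (show (0 : ℝ) ≤ N by linarith)]
  have hq32 : 3 / 2 ≤ q := by
    have : 1 / (q + 1) ≤ 2 / 5 := by linarith
    rw [div_le_div_iff₀ (by linarith) (by norm_num)] at this
    linarith
  have hle : ∀ z ∈ Ioc 0 ((p + 1) / (q + 1)),
      lamR N p q (-1) (x z) (y z) ≤ -2 * 0 + 2 * q * ((N - 3) / 4) := fun z hz =>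
    (lamR_le hc h (h.cover hz)).trans (by nlinarith)
  have hr : 0 + (N - 3) / 4 = (N - 4 - (-1)) / 4 := by ring
  have hT := isC1Num_famFive (N := N) (p := p) (q := q)
  refine ⟨S, R, x, y, s, dx, dy, -1, 0, (N - 3) / 4, _, _, _, _, h,
    OrbitCalib.of_block_end hc h le_rfl (by linarith) hr (by push_cast; linarith)
      (contDiffOn_famK hc h hT) (fun z hz hR => famK_six hc h _ hz hR)
      (contDiffOn_famE hc h hT) ((famFive N p q (endArg N p q (-1))).shift (endOrb N p q (-1))) (fun r hr => ?_)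
      (fun r hr => ?_) ?_ ?_ hle (fun z hz => ?_) (hE N p q hc h1 h2 hb (by subst hσ hal hbe; exact h10))⟩
  · simpa [hr] using (fam_limits (kap := -1) hc h hT r).1
  · simpa [hr] using (fam_limits (kap := -1) hc h hT r).2
  · simpa using (fam_limits (kap := -1) hc h hT 6).1
  · simpa using (fam_limits (kap := -1) hc h hT 6).2
  · have hd : 0 < (famFive N p q (numArg x y z)).c := by norm_num [famFive]
    obtain ⟨e0, e1⟩ := famK_head hc h hd (h.cover hz)
    exact ⟨e0, e1, hblock z hz⟩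

end Vale.Agent.P100.Calib
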