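import Mathlib
import Vale.Agent.P100.RealDim.Range
import Vale.Agent.P100.RealDim.LayerEighth
import Vale.Agent.P100.RealDim.EighthNear
import Vale.Agent.P100.Souplet.Range
import Vale.Agent.P100.Calib.OrbitCalib

/-!
# Reduction of the Lane–Emden conjecture to calibrations on the slab

With `N - 2 = α + β` the dimension in which `(p, q)` is critical, the slab is
`n < N < n + 1/8`, `N - n < 2 β² (α - β)² / (N - 2)³`, `β < α ≤ n - 3`. Outside the slab there is
no solution, so a calibration along the critical orbit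
at each point of the slab gives the conjecture in dimension `n`.
-/

open Laplacian Set Filter Topology

namespace Vale.Agent.P100.Calib

open Orb Bubble

variable {n : ℕ} {p q : ℝ}

/-- Calibration data exist at every point of the slab of dimension `n`. -/
def SlabCalib (n : ℕ) : Prop :=
  ∀ p q N α β : ℝ, 0 < q → q < p → 1 < p * q → IsCrit N p q →
    α = 2 * (p + 1) / (p * q - 1) → β = 2 * (q + 1) / (p * q - 1) → α + β = N - 2 →
    (n : ℝ) < N → N < (n : ℝ) + 1 / 8 →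
    N - n < 2 * β ^ 2 * (α - β) ^ 2 / (N - 2) ^ 3 → α ≤ (n : ℝ) - 3 →
    ∃ (S : Set ℝ) (R x y s dx dy : ℝ → ℝ) (kap r₁ r₂ : ℝ) (k : Fin 7 → ℝ → ℝ)
      (C₀ D₀ : Fin 14 → ℝ) (L₀ : ℝ),
      IsOrbitFns N p q S R x y s dx dy ∧
        OrbitCalib n N p q kap r₁ r₂ S R x y s dx dy k C₀ D₀ L₀

/-- Nonexistence for `q ≤ p` from calibrations on the slab. -/
theorem no_solution_ordered (hn : 5 ≤ n) (hS : SlabCalib n)
    (hq : 0 < q) (hqp : q ≤ p) (hpq : 1 < p * q)
    (hsub : ((n : ℝ) - 2) / n < 1 / (p + 1) + 1 / (q + 1)) :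
    ¬ ∃ u v : EuclideanSpace ℝ (Fin n) → ℝ, IsSol p q u v := by
  have hp : 0 < p := hq.trans_le hqp
  have h5 : (5 : ℝ) ≤ n := by exact_mod_cast hn
  have hd : 0 < p * q - 1 := by linarith
  obtain ⟨α, hα⟩ : ∃ α, α = 2 * (p + 1) / (p * q - 1) := ⟨_, rfl⟩
  obtain ⟨β, hβ⟩ : ∃ β, β = 2 * (q + 1) / (p * q - 1) := ⟨_, rfl⟩
  have hcr := crit_of_scaling hp hq hpq
  rw [← hα, ← hβ] at hcr
  have hab : 0 < α + β + 2 := by
    rw [hα, hβ]; positivity
  have hN : (n : ℝ) - 2 < α + β := by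
    rw [hcr, div_lt_div_iff₀ (by linarith) hab] at hsub
    nlinarith
  rcases lt_or_ge ((n : ℝ) - 3) α with ha | ha
  · refine Souplet.souplet_range hn hq hqp hpq (hα ▸ ha) ?_
    rw [div_lt_iff₀ (by linarith)] at hsub
    calc ((n : ℝ) - 2) < (1 / (p + 1) + 1 / (q + 1)) * n := hsub
      _ = _ := by ring
  have hser : 2 * (p + 1) ≤ ((n : ℝ) - 2) * (p * q - 1) := by
    rw [hα, div_le_iff₀ hd] at ha
    nlinarith
  rcases le_or_gt (2 * β ^ 2 * (α - β) ^ 2 / (α + β) ^ 3) (α + β - ((n : ℝ) - 2)) with hlay | hlay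
  · refine no_solution_of_paramsN hn hp hq hpq (RealDim.hasParamsN_layer h5 hq hqp hpq hser
      (Or.inr ?_))
    subst hα hβ
    exact ⟨ha, hN, hlay⟩
  rcases le_or_gt ((n : ℝ) - 2 + 1 / 8) (α + β) with he | he
  · refine no_solution_of_paramsN hn hp hq hpq ?_
    subst hα hβ
    rcases le_total (20 * ((n : ℝ) + 2)) (9 * ((n : ℝ) - 2) * p) with hc | hc
    · exact RealDim.hasParamsN_eighth h5 hq hpq hc ha he
    · exact RealDim.hasParamsN_eighth_near h5 hq hqp hpq hc ha he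
  have hlt : q < p := by
    refine lt_of_le_of_ne hqp fun e => ?_
    have : α - β = 0 := by rw [hα, hβ, e]; ring
    rw [this] at hlay
    simp at hlay
    linarith
  have hcrit : IsCrit (α + β + 2) p q :=
    ⟨by linarith, hq, hlt, by rw [hcr, add_sub_cancel_right]⟩
  obtain ⟨S, R, x, y, s, dx, dy, kap, r₁, r₂, k, C₀, D₀, L₀, h, o⟩ :=
    hS p q (α + β + 2) α β hq hlt hpq hcrit hα hβ (by ring) (by linarith) (by linarith)
      (by rw [show α + β + 2 - (n : ℝ) = α + β - ((n : ℝ) - 2) by ring,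
        show α + β + 2 - 2 = α + β by ring]; exact hlay) ha
  exact o.no_solution hcrit h hn (by linarith)

/-- **The Lane–Emden conjecture in dimension `n` from calibrations on the slab.** -/
theorem lane_emden_of_slabCalib (hn : 5 ≤ n) (hS : SlabCalib n)
    (hp : 0 < p) (hq : 0 < q) (hsub : ((n : ℝ) - 2) / n < 1 / (p + 1) + 1 / (q + 1)) :
    ¬ ∃ u v : EuclideanSpace ℝ (Fin n) → ℝ,
      Continuous u ∧ Continuous v ∧ ContDiffOn ℝ 2 u {0}ᶜ ∧ ContDiffOn ℝ 2 v {0}ᶜ ∧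
      (∀ x, 0 < u x) ∧ (∀ x, 0 < v x) ∧ (∀ x, x ≠ 0 → Δ u x = -(v x) ^ p) ∧
      (∀ x, x ≠ 0 → Δ v x = -(u x) ^ q) := by
  rintro ⟨u, v, hs⟩
  have hs' := (isSol_iff u v).2 hs
  rcases le_or_gt (p * q) 1 with hpq | hpq
  · exact no_solution_mul_le_one (by omega) hp hq hpq ⟨u, v, hs'⟩
  rcases le_total q p with hqp | hqp
  · exact no_solution_ordered hn hS hq hqp hpq hsub ⟨u, v, hs'⟩
  · exact no_solution_ordered hn hS hp hqp (by rwa [mul_comm]) (by rwa [add_comm])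
      ⟨v, u, hs'.swap⟩

end Vale.Agent.P100.Calib
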