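import Mathlib
import Vale.Agent.P100.Calib.SlabFiveFamily
import Vale.Agent.P100.Calib.SlabReduction

/-!
# Slab families with parameters

The scalars are those of five numbers with constant `c`, `u = 0`, constant `v`,
`w = w₀ + w₁ z` and `g = g₀ + g₁ z + gY Y/N` (`k₃ = g/(XY D)`), shifted to the normalisation of the
natural frame, with the free exponent `kap`. The coefficient data are `C¹` through the centre and
tend to the tail data at `z = 0`.
-/

open Set Filter Topology

namespace Vale.Agent.P100.Calib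

open Orb Bubble

variable {N p q : ℝ}

/-- Parameters of a slab family. -/
structure GenPar where
  /-- the exponent of the weight -/
  kap : ℝ
  /-- the scalar of the field built from `U · d` -/
  c : ℝ
  /-- the multiplier of the field built from `Qt d` at `z = 0` -/
  w₀ : ℝ
  /-- its slope in `z` -/
  w₁ : ℝ
  /-- the scalar of the field built from `E d` -/
  v : ℝ
  /-- the scalar of the field built from `G d` at `z = 0`, without the part in `Y` -/
  g₀ : ℝ
  /-- its slope in `z` -/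
  g₁ : ℝ
  /-- its coefficient of `Y/N` -/
  gY : ℝ

namespace GenPar

variable (P : GenPar)

/-- The numbers without the part in `Y`. -/
noncomputable def base (v : ℝ × ℝ) : TailVal :=
  ⟨P.c, P.w₀ + P.w₁ * v.1, 0, P.v, P.g₀ + P.g₁ * v.1⟩

theorem isC1Num_base : IsC1Num P.base where
  c := contDiff_const
  w := contDiff_const.add (contDiff_const.mul contDiff_fst)
  u := contDiff_const
  v := contDiff_const
  g := contDiff_const.add (contDiff_const.mul contDiff_fst)

/-- The five numbers at a point. -/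
noncomputable def num (N R y z : ℝ) : TailVal :=
  ⟨P.c, P.w₀ + P.w₁ * z, 0, P.v, P.g₀ + P.g₁ * z + P.gY * (-2 * R * y / N)⟩

/-- The five numbers at `z = 0`. -/
noncomputable def endVal (N p q : ℝ) : TailVal :=
  ⟨P.c, P.w₀, 0, P.v, P.g₀ + P.gY * ((endOrb N p q P.kap).Y / N)⟩

end GenPar

/-- The scalars of the family along the orbit. -/
noncomputable def genK (N p q : ℝ) (P : GenPar) (R x y s dx dy : ℝ → ℝ) (r : Fin 7) (z : ℝ) : ℝ :=
  famReg p q (regShift N p q (P.num N (R z) (y z) z) (x z) (y z)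
    (sigR (x z) (y z) (s z) (wFun N x y dx dy z))) (x z) (y z) (s z) r

/-- The direction of a change of `g` in the scalars. -/
noncomputable def gDir (p q x y : ℝ) : Fin 7 → ℝ :=
  ![0, y / (1 / (p + 1) * x + 1 / (q + 1) * y), -(x / (1 / (p + 1) * x + 1 / (q + 1) * y)), 0, 0, 0,
    0]

theorem genK_eq (P : GenPar) (R x y s dx dy : ℝ → ℝ) (r : Fin 7) (z : ℝ) :
    genK N p q P R x y s dx dy r z = famK N p q P.base x y s dx dy r z +
      P.gY * (-2 * R z * y z / N * gDir p q (x z) (y z) r) := by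
  fin_cases r <;> simp [genK, famK, famReg, regShift, GenPar.num, GenPar.base, numArg, gDir] <;>
    ring

/-- The part in `Y` of the scalars as a function of `(z, X, Y, Q)`. -/
noncomputable def gXYQ (N p q : ℝ) (r : Fin 7) (v : ℝ × ℝ × ℝ × ℝ) : ℝ :=
  v.2.2.1 / N * gDir p q v.2.1 v.2.2.1 r

theorem contDiffAt_gXYQ (r : Fin 7) {v : ℝ × ℝ × ℝ × ℝ}
    (hD : 1 / (p + 1) * v.2.1 + 1 / (q + 1) * v.2.2.1 ≠ 0) :
    ContDiffAt ℝ 1 (gXYQ N p q r) v := by
  have dX : ContDiffAt ℝ 1 (fun w : ℝ × ℝ × ℝ × ℝ => w.2.1) v :=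
    contDiffAt_fst.comp v contDiffAt_snd
  have dY : ContDiffAt ℝ 1 (fun w : ℝ × ℝ × ℝ × ℝ => w.2.2.1) v :=
    contDiffAt_fst.comp v (contDiffAt_snd.comp v contDiffAt_snd)
  have dD : ContDiffAt ℝ 1
      (fun w : ℝ × ℝ × ℝ × ℝ => 1 / (p + 1) * w.2.1 + 1 / (q + 1) * w.2.2.1) v :=
    (contDiffAt_const.mul dX).add (contDiffAt_const.mul dY)
  unfold gXYQ
  refine (dY.div_const N).mul ?_
  fin_cases r <;> simp only [gDir, Fin.reduceFinMk, Matrix.cons_val]
  · exact contDiffAt_const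
  · exact dY.div dD hD
  · exact (dX.div dD hD).neg
  all_goals exact contDiffAt_const

section
variable {S : Set ℝ} {R x y s dx dy : ℝ → ℝ} (hc : IsCrit N p q)
  (h : IsOrbitFns N p q S R x y s dx dy)
include hc h

theorem contDiffOn_genK (P : GenPar) (r : Fin 7) :
    ContDiffOn ℝ 1 (genK N p q P R x y s dx dy r) S := by
  obtain ⟨hR, hx, hy, -⟩ := h.smooth
  have dD : ContDiffOn ℝ 1 (fun z => 1 / (p + 1) * x z + 1 / (q + 1) * y z) S :=
    (contDiffOn_const.mul hx).add (contDiffOn_const.mul hy)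
  have n1 : ∀ z ∈ S, 1 / (p + 1) * x z + 1 / (q + 1) * y z ≠ 0 := fun z hz =>
    (denom_pos hc h hz).ne'
  have dg : ContDiffOn ℝ 1 (fun z => gDir p q (x z) (y z) r) S := by
    fin_cases r <;> simp only [gDir, Fin.reduceFinMk, Matrix.cons_val]
    · exact contDiffOn_const
    · exact hy.div dD n1
    · exact (hx.div dD n1).neg
    all_goals exact contDiffOn_const
  refine ((contDiffOn_famK hc h P.isC1Num_base r).add ((contDiffOn_const (c := P.gY)).mul
    ((((contDiffOn_const (c := (-2 : ℝ))).mul hR).mul hy).div_const N |>.mul dg))).congr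
      fun z _ => ?_
  exact genK_eq P R x y s dx dy r z

theorem genK_six (P : GenPar) {z : ℝ} (hz : z ∈ S) (hR : 0 < R z) :
    genK N p q P R x y s dx dy 6 z = R z * s z * famE p q P.base R x y z := by
  rw [genK_eq, famK_six hc h P.base hz hR]
  simp [gDir]

omit hc h in
theorem genK_six_eq (P : GenPar) : genK N p q P R x y s dx dy 6 = famK N p q P.base x y s dx dy 6 :=
  funext fun z => by rw [genK_eq]; simp [gDir]

theorem genK_head (P : GenPar) (htc : 0 < P.c) {z : ℝ} (hz : z ∈ S) :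
    let c := fun j => orbCoef N p q R x y s dx dy (genK N p q P R x y s dx dy) j z
    0 < c 0 ∧ 0 < c 0 * c 3 - ((c 1 + c 2) / 2) ^ 2 := by
  have := famK_head hc h (t := P.base) htc hz
  simp only [orbCoef, genK_eq, regFld, orbAt, Fin.sum_univ_seven, Orb.cBase, Orb.shapeU,
    shapeG, Orb.shapeT, shapeW, gDir, Matrix.cons_val, mul_zero, add_zero] at this ⊢
  exact this

/-- The limit of the part in `Y`. -/
theorem gPart_limits (kap : ℝ) (r : Fin 7) :
    Tendsto (fun z => -2 * R z * y z / N * gDir p q (x z) (y z) r) (𝓝[>] 0)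
        (𝓝 (gXYQ N p q r (endPt N p q kap))) ∧
      Tendsto (fun z => deriv (fun z => -2 * R z * y z / N * gDir p q (x z) (y z) r) z * z)
        (𝓝[>] 0) (𝓝 0) := by
  obtain ⟨-, -, hD0, -, hvX, hvY, hvQ, -, hphi0⟩ := endOrb_facts (kap := kap) hc
  have hκ : (0 : ℝ) < (p + 1) / (q + 1) := by
    have := hc.p_pos
    have := hc.q_pos
    positivity
  have hS : ∀ᶠ z in 𝓝[>] (0 : ℝ), z ∈ S ∧ 0 < R z := by
    filter_upwards [Ioo_mem_nhdsGT hκ, h.R_tendsto.eventually (eventually_gt_atTop 0)] with z hz hR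
    exact ⟨h.cover (Ioo_subset_Ioc_self hz), hR⟩
  have hSo : IsOpen (S ∩ R ⁻¹' Ioi 0) :=
    h.smooth.1.continuousOn.isOpen_inter_preimage h.isOpen isOpen_Ioi
  have hz0 : Tendsto (fun z : ℝ => z) (𝓝[>] 0) (𝓝 0) := tendsto_id.mono_left nhdsWithin_le_nhds
  have tX : Tendsto (fun z => -2 * R z * x z) (𝓝[>] 0) (𝓝 (endOrb N p q kap).X) :=
    h.X_tendsto.neg.congr fun z => by ring
  have tY : Tendsto (fun z => -2 * R z * y z) (𝓝[>] 0) (𝓝 (endOrb N p q kap).Y) :=
    h.Y_tendsto.neg.congr fun z => by ring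
  have tQ : Tendsto (fun z => R z * s z) (𝓝[>] 0) (𝓝 (endOrb N p q kap).Q) := h.Q_tendsto
  have tP : Tendsto (fun z => R z * (z * s z)) (𝓝[>] 0) (𝓝 (endOrb N p q kap).P) := by
    have := hz0.mul tQ
    rw [zero_mul] at this
    exact this.congr fun z => by ring
  have tphi : Tendsto (fun z => (orbAt N p q kap (R z) (x z) (y z) z (s z)).phi) (𝓝[>] 0)
      (𝓝 (endOrb N p q kap).phi) := (tY.const_mul _).sub (tX.const_mul _)
  have t1 : Tendsto (fun z => (orbAt N p q kap (R z) (x z) (y z) z (s z)).vX) (𝓝[>] 0)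
      (𝓝 (endOrb N p q kap).vX) := ((tX.const_mul _).sub (tX.pow 2)).sub tP
  have t2 : Tendsto (fun z => (orbAt N p q kap (R z) (x z) (y z) z (s z)).vY) (𝓝[>] 0)
      (𝓝 (endOrb N p q kap).vY) := ((tY.const_mul _).sub (tY.pow 2)).sub tQ
  have t3 : Tendsto (fun z => (orbAt N p q kap (R z) (x z) (y z) z (s z)).vQ) (𝓝[>] 0)
      (𝓝 (endOrb N p q kap).vQ) := tQ.mul (((tX.const_mul q).const_add 2).sub tY)
  rw [hvX] at t1
  rw [hvY] at t2
  rw [hvQ] at t3
  refine tendsto_mul_deriv_comp (γ := orbPt R x y s)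
    (γ' := fun z => let o := orbAt N p q kap (R z) (x z) (y z) z (s z)
      (1, o.vX / (z * o.phi), o.vY / (z * o.phi), o.vQ / (z * o.phi)))
    (contDiffAt_gXYQ r hD0) (hz0.prodMk_nhds (tX.prodMk_nhds (tY.prodMk_nhds tQ)))
    (hS.mono fun z hz => hasDerivAt_orbitXYQ hc h hz.1 hz.2.ne') ?_
    (hS.mono fun z hz => eventually_of_mem (hSo.mem_nhds ⟨hz.1, hz.2⟩) fun u hu => ?_)
  · have key := hz0.prodMk_nhds ((t1.div tphi hphi0).prodMk_nhds
      ((t2.div tphi hphi0).prodMk_nhds (t3.div tphi hphi0)))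
    simp only [zero_div] at key
    refine key.congr' ?_
    filter_upwards [hS] with z hz
    have := (show (0 : ℝ) < z from h.pos hz.1).ne'
    simp only [Prod.smul_mk, smul_eq_mul, Prod.mk.injEq, Pi.div_apply]
    refine ⟨(mul_one z).symm, ?_, ?_, ?_⟩ <;> field_simp
  · have hD := (denom_pos hc h hu.1).ne'
    have := (show 0 < R u from hu.2).ne'
    simp only [gXYQ, orbPt]
    fin_cases r <;> simp only [gDir, Fin.reduceFinMk, Matrix.cons_val]
    all_goals
      try rw [show 1 / (p + 1) * (-2 * R u * x u) + 1 / (q + 1) * (-2 * R u * y u) =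
        -2 * R u * (1 / (p + 1) * x u + 1 / (q + 1) * y u) by ring]
    all_goals
      generalize 1 / (p + 1) * x u + 1 / (q + 1) * y u = D at hD ⊢
      field_simp

/-- The limits of the scalars at `z = 0`. -/
theorem gen_limits (P : GenPar) (r : Fin 7) :
    Tendsto (if r = 6 then famE p q P.base R x y else genK N p q P R x y s dx dy r) (𝓝[>] 0)
        (𝓝 (((P.endVal N p q).shift (endOrb N p q P.kap)).scalars (endOrb N p q P.kap) r)) ∧
      Tendsto (fun z => deriv (if r = 6 then famE p q P.base R x y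
        else genK N p q P R x y s dx dy r) z * z) (𝓝[>] 0) (𝓝 0) := by
  obtain ⟨l1, l2⟩ := fam_limits (kap := P.kap) hc h P.isC1Num_base r
  obtain ⟨m1, m2⟩ := gPart_limits hc h P.kap r
  have e : ((P.endVal N p q).shift (endOrb N p q P.kap)).scalars (endOrb N p q P.kap) r =
      ((P.base (endArg N p q P.kap)).shift (endOrb N p q P.kap)).scalars (endOrb N p q P.kap) r +
        P.gY * gXYQ N p q r (endPt N p q P.kap) := by
    fin_cases r <;> simp [GenPar.endVal, GenPar.base, endArg, endPt, endOrb, TailVal.scalars,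
      TailVal.shift, TailVal.gd, TailVal.ed, gXYQ, gDir, Orb.D] <;> ring
  rw [e]
  by_cases hr : r = 6
  · subst hr
    simp only [gXYQ, gDir, Matrix.cons_val, mul_zero, add_zero] at *
    exact ⟨l1, l2⟩
  simp only [if_neg hr] at l1 l2 ⊢
  have hf : genK N p q P R x y s dx dy r = fun z => famK N p q P.base x y s dx dy r z +
      P.gY * (-2 * R z * y z / N * gDir p q (x z) (y z) r) :=
    funext fun z => genK_eq P R x y s dx dy r z
  rw [hf]
  refine ⟨l1.add (m1.const_mul P.gY), ?_⟩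
  have := l2.add (m2.const_mul P.gY)
  rw [mul_zero, add_zero] at this
  refine this.congr' ?_
  have hκ : (0 : ℝ) < (p + 1) / (q + 1) := by
    have := hc.p_pos
    have := hc.q_pos
    positivity
  filter_upwards [Ioo_mem_nhdsGT hκ] with z hz
  have hzS : z ∈ S := h.cover (Ioo_subset_Ioc_self hz)
  have d1 := ((contDiffOn_famK hc h P.isC1Num_base r).contDiffAt
    (h.isOpen.mem_nhds hzS)).differentiableAt one_ne_zero
  have d2 : DifferentiableAt ℝ (fun z => -2 * R z * y z / N * gDir p q (x z) (y z) r) z := by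
    have dR := (h.dR z hzS).differentiableAt
    have dx := (h.deriv_x z hzS).differentiableAt
    have dy := (h.deriv_y z hzS).differentiableAt
    have hD := (denom_pos hc h hzS).ne'
    fin_cases r <;> simp only [gDir, Fin.reduceFinMk, Matrix.cons_val] <;>
      fun_prop (disch := assumption)
  rw [deriv_fun_add d1 (d2.const_mul P.gY), deriv_const_mul _ d2]
  ring

/-- For `kap ≥ -1` the `u`-exponent stays below `B` as soon as
`N - 3 - 2 N al ≤ 2 N be (B - 1) + 3 (kap + 1)`. -/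
theorem lamR_le_of_kap {kap B : ℝ} (hk : -1 ≤ kap) (hB : 1 ≤ B)
    (hB' : N - 3 - 2 * N * (1 / (p + 1)) ≤ 2 * N * (1 / (q + 1)) * (B - 1) + 3 * (kap + 1))
    {z : ℝ} (hz : z ∈ S) :
    lamR N p q kap (x z) (y z) ≤ B := by
  obtain ⟨hal, -, hw⟩ := hc.weights
  have hN : 0 < N := by linarith [hc.dim]
  have hD := denom_pos hc h hz
  have hW := h.W_pos z hz
  have hx := h.x_pos z hz
  have hy := h.y_pos z hz
  have hb : 0 < 1 / (q + 1) := by have := hc.q_pos; positivity
  simp only [lamR]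
  generalize 1 / (p + 1) = a at *
  generalize 1 / (q + 1) = b at *
  rw [← le_sub_iff_add_le', div_le_iff_of_neg (mul_neg_of_pos_of_neg hN (by linarith))]
  refine le_of_mul_le_mul_right ?_ hD
  rw [add_mul, mul_assoc (N * a), div_mul_cancel₀ _ hD.ne']
  refine le_of_mul_le_mul_right ?_ hb
  obtain ⟨E, hE⟩ : ∃ E, E = b * y z - a * x z := ⟨_, rfl⟩
  rw [← hE] at hW
  have key : ((kap + 2) * y z * (a * x z + b * y z) +
      N * a * (a * x z ^ 2 + b * y z ^ 2 - x z * y z)) * b -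
      (B - 1) * (N * (a * x z - b * y z)) * (a * x z + b * y z) * b =
      (kap + 1) * (2 * (a * x z) ^ 2 + E ^ 2) + (1 + N * a) * E ^ 2 +
        E * (a * x z) * (2 * N * b * (B - 1) + 3 * (kap + 1) - (N - 3 - 2 * N * a)) +
        (B - 1) * N * b * E ^ 2 := by
    subst hE
    linear_combination (a ^ 2 * x z ^ 2) * hw
  have h1 : 0 ≤ (kap + 1) * (2 * (a * x z) ^ 2 + E ^ 2) :=
    mul_nonneg (by linarith) (by positivity)
  have h2 : 0 ≤ (1 + N * a) * E ^ 2 :=
    mul_nonneg (by linarith [mul_pos hN hal]) (sq_nonneg E)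
  have h3 : 0 ≤ E * (a * x z) * (2 * N * b * (B - 1) + 3 * (kap + 1) - (N - 3 - 2 * N * a)) :=
    mul_nonneg (mul_nonneg hW.le (mul_pos hal hx).le) (by linarith)
  have h4 : 0 ≤ (B - 1) * N * b * E ^ 2 :=
    mul_nonneg (mul_nonneg (mul_nonneg (by linarith) hN.le) hb.le) (sq_nonneg E)
  linarith

/-- **Calibration data of a family** from the multiplier condition on the orbit and positivity at
`z = 0`. -/
theorem OrbitCalib.of_gen {n : ℕ} (P : GenPar) (hk0 : -1 ≤ P.kap) (hkn : (n : ℝ) < N - P.kap)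
    (hk4 : P.kap ≤ N - 4) (hq1 : 1 ≤ 2 * q * ((N - 4 - P.kap) / 4))
    (hq2 : N - 3 - 2 * N * (1 / (p + 1)) ≤
      2 * N * (1 / (q + 1)) * (2 * q * ((N - 4 - P.kap) / 4) - 1) + 3 * (P.kap + 1))
    (htc : 0 < P.c)
    (hblock : ∀ z ∈ Ioc 0 ((p + 1) / (q + 1)),
      let c := fun j => orbCoef N p q R x y s dx dy (genK N p q P R x y s dx dy) j z
      let la := orbLa N p q P.kap R x y s dx dy (genK N p q P R x y s dx dy) z
      let mb := orbMb N p q P.kap R x y s dx dy (genK N p q P R x y s dx dy) z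
      ∃ μ : ℝ, 0 ≤ μ ∧ μ * R z ≤ rayTau N p q c la mb (R z) (x z) (y z) z (s z) ∧
        ∀ A C B : ℝ, A ≠ 0 ∨ C ≠ 0 ∨ B ≠ 0 →
          μ * (A * B - C ^ 2) < elimN N p q c la mb A C B 0 0)
    (hend : let o := endOrb N p q P.kap
      let C₀ := fun j => o.cBase j +
        ∑ r, ((P.endVal N p q).shift o).scalars o r * o.fldQ r j
      let D₀ := fun _ : Fin 14 => (0 : ℝ)
      0 < C₀ 0 ∧ 0 < C₀ 0 * C₀ 3 - ((C₀ 1 + C₀ 2) / 2) ^ 2 ∧
        ∀ A B D Q : ℝ, 0 ≤ A → 0 ≤ B → D ^ 2 ≤ A * B → 0 ≤ Q → 0 < A + B + Q →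
          let M₀ := ((p + 1) * (-2 * 0 + 2 * q * ((N - 4 - P.kap) / 4)) +
            (q + 1) * (2 * p * 0 - 2 * ((N - 4 - P.kap) / 4)) - (p + 1) * o.lam) / (q + 1)
          let la := fun j => C₀ j * o.lam - (q + 1) * D₀ j
          let mb := fun j => C₀ j * M₀ + (p + 1) * D₀ j
          0 ≤ elimN N p q C₀ la mb A D B 0 Q ∧
            (elimN N p q C₀ la mb A D B 0 Q = 0 → 0 < elimGap C₀ la mb A D B 0 Q)) :
    ∃ (kap r₁ r₂ : ℝ) (k : Fin 7 → ℝ → ℝ) (C₀ D₀ : Fin 14 → ℝ) (L₀ : ℝ),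
      OrbitCalib n N p q kap r₁ r₂ S R x y s dx dy k C₀ D₀ L₀ := by
  refine ⟨P.kap, 0, (N - 4 - P.kap) / 4, _, _, _, _,
    OrbitCalib.of_block_end hc h le_rfl (by linarith) (zero_add _) hkn
      (contDiffOn_genK hc h P) (fun z hz hR => genK_six hc h P hz hR)
      (contDiffOn_famE hc h P.isC1Num_base) ((P.endVal N p q).shift (endOrb N p q P.kap))
      (fun r hr => ?_) (fun r hr => ?_) ?_ ?_
      (fun z hz => (lamR_le_of_kap hc h hk0 hq1 hq2 (h.cover hz)).trans (by linarith))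
      (fun z hz => ?_) hend⟩
  · simpa [hr] using (gen_limits hc h P r).1
  · simpa [hr] using (gen_limits hc h P r).2
  · simpa using (gen_limits hc h P 6).1
  · simpa using (gen_limits hc h P 6).2
  · obtain ⟨e0, e1⟩ := genK_head hc h P htc (h.cover hz)
    exact ⟨e0, e1, hblock z hz⟩

end

end Vale.Agent.P100.Calib
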