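import Mathlib
import Vale.Agent.P100.Calib.TailDefs

/-!
# The numbers at the end point of the family of all dimensions from six on
-/

namespace Vale.Agent.P100.Calib.AllN

open Orb

/-- The exponent shift. -/
noncomputable def kapAll (N al : ℝ) : ℝ := max (-1) (-(2 * (N * al) * (N - 1) / (N - 2) ^ 2))

/-- The five numbers at the end point as functions of the weights and `N`. -/
noncomputable def num (al be N : ℝ) : TailVal :=
  ⟨al * be, -2 * (1 - 3 / N - 2 * al ^ 2) / N ^ 2, 0, -(1 - 2 * al - 1 / (2 * N)) / N,
    -al * (1 - 3 * al - 1 / N) / N⟩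

/-- Their values at an end point. -/
noncomputable def tv (o : Orb) : TailVal :=
  num o.al o.be o.N

end Vale.Agent.P100.Calib.AllN
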