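import Mathlib
import Vale.Agent.P100.Calib.SlabGenFamily
import Vale.Agent.P100.Calib.TailAllNDefs

/-!
# The family with the end values of all dimensions from six on
-/

namespace Vale.Agent.P100.Calib

open Orb Bubble

/-- The family with the end values of `TailAllN` and slopes `w₁`, `g₁`, `gY`. -/
noncomputable def genAll (N p q w₁ g₁ gY : ℝ) : GenPar :=
  let k := AllN.kapAll N (1 / (p + 1))
  let t := AllN.num (1 / (p + 1)) (1 / (q + 1)) N
  ⟨k, t.c, t.w, w₁, t.v, t.g - gY * ((endOrb N p q k).Y / N), g₁, gY⟩

end Vale.Agent.P100.Calib
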