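import Mathlib
import Vale.Agent.P100.Calib.SlabDefs

/-!
# Linear functionals of the block at a point of the slab

The entries of the block in the natural frame are thirteen linear functionals of the coefficient data
(`natLin`, the two rows of the head, the ray gap) less Gram products of the rows.
-/

namespace Vale.Agent.P100.Calib.Bridge

/-- A functional of the coefficient data. -/
abbrev Fun3 : Type := (Fin 14 → ℝ) → (Fin 14 → ℝ) → (Fin 14 → ℝ) → ℝ

/-- Linearity of a functional. -/
structure IsLin (φ : Fun3) : Prop where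
  add : ∀ c la mb c' la' mb', φ (c + c') (la + la') (mb + mb') = φ c la mb + φ c' la' mb'
  smul : ∀ (k : ℝ) c la mb, φ (k • c) (k • la) (k • mb) = k * φ c la mb

/-- A functional on a pair (coefficients, `z` times their derivatives). -/
noncomputable def pairFun (φ : Fun3) (N p q x y : ℝ) (f f' : Fin 14 → ℝ) : ℝ :=
  φ f (fun j => f j * lamR N p q (-1) x y - (q + 1) * f' j)
    (fun j => f j * muR N p q (-1) x y + (p + 1) * f' j)

variable {φ : Fun3} {N p q x y : ℝ}

theorem pairFun_add (h : IsLin φ) (f f' g g' : Fin 14 → ℝ) :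
    pairFun φ N p q x y (f + g) (f' + g') = pairFun φ N p q x y f f' + pairFun φ N p q x y g g' := by
  rw [pairFun, pairFun, pairFun, ← h.add]
  congr 1 <;> funext j <;> simp only [Pi.add_apply] <;> ring

theorem pairFun_smul (h : IsLin φ) (k : ℝ) (f f' : Fin 14 → ℝ) :
    pairFun φ N p q x y (k • f) (k • f') = k * pairFun φ N p q x y f f' := by
  rw [pairFun, pairFun, ← h.smul]
  congr 1 <;> funext j <;> simp only [Pi.smul_apply, smul_eq_mul] <;> ring

/-- The product rule under a linear functional. -/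
theorem pairFun_term (h : IsLin φ) (k k' : ℝ) (f f' : Fin 14 → ℝ) :
    pairFun φ N p q x y (k • f) (k' • f + k • f') =
      k * pairFun φ N p q x y f f' + k' * pairFun φ N p q x y 0 f := by
  rw [← pairFun_smul h, ← pairFun_smul h, ← pairFun_add h]
  congr 1 <;> simp [add_comm]

variable (F : Frame)

/-- Row `g` of the head in the frame, `M`. -/
noncomputable def gM : Fun3 := fun c la mb =>
  (F.x * F.rM (linU c la mb 0) (linU c la mb 1) (linU c la mb 2) +
    F.y * F.rM (linV c la mb 0) (linV c la mb 1) (linV c la mb 2)) / F.D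

/-- Row `g`, `E`. -/
noncomputable def gE : Fun3 := fun c la mb =>
  (F.x * F.rE (linU c la mb 0) (linU c la mb 1) (linU c la mb 2) +
    F.y * F.rE (linV c la mb 0) (linV c la mb 1) (linV c la mb 2)) / F.D

/-- Row `g`, `G`. -/
noncomputable def gG : Fun3 := fun c la mb =>
  (F.x * F.rG (linU c la mb 0) (linU c la mb 1) (linU c la mb 2) +
    F.y * F.rG (linV c la mb 0) (linV c la mb 1) (linV c la mb 2)) / F.D

/-- Row `h` of the head in the frame, `M`. -/
noncomputable def hM : Fun3 := fun c la mb =>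
  (F.be * F.rM (linU c la mb 0) (linU c la mb 1) (linU c la mb 2) -
    F.al * F.rM (linV c la mb 0) (linV c la mb 1) (linV c la mb 2)) / F.D

/-- Row `h`, `E`. -/
noncomputable def hEf : Fun3 := fun c la mb =>
  (F.be * F.rE (linU c la mb 0) (linU c la mb 1) (linU c la mb 2) -
    F.al * F.rE (linV c la mb 0) (linV c la mb 1) (linV c la mb 2)) / F.D

/-- Row `h`, `G`. -/
noncomputable def hG : Fun3 := fun c la mb =>
  (F.be * F.rG (linU c la mb 0) (linU c la mb 1) (linU c la mb 2) -
    F.al * F.rG (linV c la mb 0) (linV c la mb 1) (linV c la mb 2)) / F.D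

variable (N p q : ℝ)

/-- The linear part, `M²`. -/
noncomputable def lMM : Fun3 := fun c la mb => (natLin F N p q c la mb).MM

/-- The linear part, `ME`. -/
noncomputable def lME : Fun3 := fun c la mb => (natLin F N p q c la mb).ME

/-- The linear part, `MG`. -/
noncomputable def lMG : Fun3 := fun c la mb => (natLin F N p q c la mb).MG

/-- The linear part, `E²`. -/
noncomputable def lEE : Fun3 := fun c la mb => (natLin F N p q c la mb).EE

/-- The linear part, `EG`. -/
noncomputable def lEG : Fun3 := fun c la mb => (natLin F N p q c la mb).EG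

/-- The linear part, `G²`. -/
noncomputable def lGG : Fun3 := fun c la mb => (natLin F N p q c la mb).GG

/-- The cross term of the form between a block vector and `(P, Q)`. -/
noncomputable def crossPQ (c la mb : Fin 14 → ℝ) (A C B P Q : ℝ) : ℝ :=
  -(c 0 * (P * (p * C - A))) - c 1 * (P * (p * B - C)) - c 2 * (Q * (q * A - C)) -
      c 3 * (Q * (q * C - B)) -
    c 4 * (A * P) - c 5 * (A * Q) - c 6 * (C * P) - c 7 * (C * Q) - c 8 * (B * P) - c 9 * (B * Q) +
    (c 10 * (P * (p * C - A) - P * A) + la 10 * (P * A) + mb 10 * (P * C)) +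
    (c 11 * (P * (p * B - C) - P * B) + la 11 * (P * C) + mb 11 * (P * B)) +
    (c 12 * (Q * (q * A - C) - Q * A) + la 12 * (Q * A) + mb 12 * (Q * C)) +
    (c 13 * (Q * (q * C - B) - Q * B) + la 13 * (Q * C) + mb 13 * (Q * B)) +
    (2 * c 0 * (A * P) + (c 1 + c 2) * (A * Q + B * P) + 2 * c 3 * (B * Q) -
      P * (linU c la mb 0 * A + linU c la mb 1 * C + linU c la mb 2 * B) -
      Q * (linV c la mb 0 * A + linV c la mb 1 * C + linV c la mb 2 * B)) / N

/-- The ray gap. -/
noncomputable def lLG (z : ℝ) : Fun3 := fun c la mb =>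
  crossPQ N p q c la mb (F.pA 0 0 1) (F.pC 0 0 1) (F.pB 0 0 1) z 1

/-- The form at a block vector plus `(P, Q)`. -/
theorem elimN_cross (c la mb : Fin 14 → ℝ) (A C B P Q : ℝ) :
    elimN N p q c la mb A C B P Q = elimN N p q c la mb A C B 0 0 +
      elimN N p q c la mb 0 0 0 P Q + crossPQ N p q c la mb A C B P Q := by
  simp only [elimN, freePart, hessPair, gram, crossPQ]
  ring

/-- The base coefficients. -/
noncomputable def baseVec (N p q : ℝ) : Fin 14 → ℝ := (orbAt N p q 0 0 0 0 0 0).cBase

/-- The field `G m` in regular variables. -/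
noncomputable def fldA (N p q R x y s w : ℝ) : Fin 14 → ℝ :=
  (1 / (p + 1)) • regFld N p q R x y s w 1 + (1 / (q + 1)) • regFld N p q R x y s w 2

/-- `z d/dz` of `fldA`. -/
noncomputable def velA (N p q R x y z s w w₁ : ℝ) : Fin 14 → ℝ :=
  (1 / (p + 1)) • regVel N p q R x y z s w w₁ 1 + (1 / (q + 1)) • regVel N p q R x y z s w w₁ 2

/-- The field `E d` in regular variables. -/
noncomputable def fldE (N p q R x y s w : ℝ) : Fin 14 → ℝ :=
  (1 / (p + 1)) • regFld N p q R x y s w 3 + (1 / (q + 1)) • regFld N p q R x y s w 4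

/-- `z d/dz` of `fldE`. -/
noncomputable def velE (N p q R x y z s w w₁ : ℝ) : Fin 14 → ℝ :=
  (1 / (p + 1)) • regVel N p q R x y z s w w₁ 3 + (1 / (q + 1)) • regVel N p q R x y z s w w₁ 4

/-- The field `G d` in regular variables. -/
noncomputable def fldG (N p q R x y s w : ℝ) : Fin 14 → ℝ :=
  (y / (1 / (p + 1) * x + 1 / (q + 1) * y)) • regFld N p q R x y s w 1 -
    (x / (1 / (p + 1) * x + 1 / (q + 1) * y)) • regFld N p q R x y s w 2

/-- `z d/dz` of `fldG`. -/
noncomputable def velG (N p q R x y z s w w₁ : ℝ) : Fin 14 → ℝ :=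
  let a := 1 / (p + 1)
  let b := 1 / (q + 1)
  let D := a * x + b * y
  let x' := rhoR p q x y * dxR N p q x y z w
  let y' := rhoR p q x y * dyR N p q x y z w
  let D' := a * x' + b * y'
  ((y' * D - y * D') / D ^ 2) • regFld N p q R x y s w 1 +
      (y / D) • regVel N p q R x y z s w w₁ 1 -
    ((x' * D - x * D') / D ^ 2) • regFld N p q R x y s w 2 -
    (x / D) • regVel N p q R x y z s w w₁ 2

/-- A point at which the closed forms hold. -/
structure Pt (N p q a b R x y z s w : ℝ) : Prop where
  ha : p = 1 / a - 1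
  hb : q = 1 / b - 1
  hN : N = 2 / (1 - a - b)
  a0 : a ≠ 0
  b0 : b ≠ 0
  M0 : 1 - a - b ≠ 0
  x0 : x ≠ 0
  y0 : y ≠ 0
  s0 : s ≠ 0
  D0 : a * x + b * y ≠ 0
  E0 : b * y - a * x ≠ 0
  hz : z = (x - R * w) / y

/-- The exponents at such a point. -/
theorem Pt.lam_eq {N p q a b R x y z s w : ℝ} (h : Pt N p q a b R x y z s w) :
    lamR N p q (-1) x y = 1 - ((1 - a - b) * y * (a * x + b * y) +
        2 * a * (a * x ^ 2 + b * y ^ 2 - x * y)) / (2 * (a * x + b * y) * (b * y - a * x)) ∧
      muR N p q (-1) x y = 1 + ((1 - a - b) * x * (a * x + b * y) +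
        2 * b * (a * x ^ 2 + b * y ^ 2 - x * y)) / (2 * (a * x + b * y) * (b * y - a * x)) ∧
      rhoR p q x y = -(a * b) / (b * y - a * x) := by
  obtain ⟨rfl, rfl, rfl, a0, b0, M0, x0, y0, s0, D0, E0, -⟩ := h
  simp only [lamR, muR, rhoR, sub_add_cancel, one_div_one_div, and_true]
  have e : a * x - b * y = -(b * y - a * x) := by ring
  rw [e]
  generalize a * x + b * y = D at D0 ⊢
  generalize b * y - a * x = E at E0 ⊢
  generalize 1 - a - b = M at M0 ⊢
  constructor <;> field_simp <;> ring

end Vale.Agent.P100.Calib.Bridge
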