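import Mathlib
import Vale.Agent.P100.Calib.SlabBridgeLin

/-!
# The thirteen functionals on a pair as explicit linear forms
-/

set_option linter.unusedVariables false
set_option linter.unusedSimpArgs false

namespace Vale.Agent.P100.Calib.Bridge

variable {N p q a b R x y z s w : ℝ}

/-- Part of the linear form of `gM`. -/
def gML0 (a b x y : ℝ) (f : Fin 14 → ℝ) : ℝ :=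
  (x ^ (2 : ℕ) * y ^ (2 : ℕ) * (2 * a * b ^ (2 : ℕ)) + x ^ (3 : ℕ) * y * (a ^ (2 : ℕ) * b - a * b ^ (2 : ℕ) - a * b)) * f 0 + (x * y
    ^ (3 : ℕ) * (2 * a * b ^ (2 : ℕ)) + x ^ (2 : ℕ) * y ^ (2 : ℕ) * (a ^ (2 : ℕ) * b - a * b ^ (2 : ℕ) - a * b)) * f 1 + (x ^ (2 : ℕ) * y ^
    2 * (-a ^ (2 : ℕ) * b + a * b ^ (2 : ℕ) - a * b) + x ^ (3 : ℕ) * y * (2 * a ^ (2 : ℕ) * b)) * f 2 + (x * y ^ (3 : ℕ) * (-a ^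
    2 * b + a * b ^ (2 : ℕ) - a * b) + x ^ (2 : ℕ) * y ^ (2 : ℕ) * (2 * a ^ (2 : ℕ) * b)) * f 3

/-- Part of the linear form of `gM`. -/
def gML1 (a b x y : ℝ) (f : Fin 14 → ℝ) : ℝ :=
  (x ^ (3 : ℕ) * y * (2 * a * b ^ (2 : ℕ)) + x ^ (4 : ℕ) * (2 * a ^ (2 : ℕ) * b)) * f 4 + (x ^ (2 : ℕ) * y ^ (2 : ℕ) * (2 * a * b ^
    2) + x ^ (3 : ℕ) * y * (2 * a ^ (2 : ℕ) * b)) * f 5 + (x ^ (2 : ℕ) * y ^ (2 : ℕ) * (2 * a * b ^ (2 : ℕ)) + x ^ (3 : ℕ) * y * (2 *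
    a ^ (2 : ℕ) * b)) * f 6

/-- Part of the linear form of `gM`. -/
def gML2 (a b x y : ℝ) (f : Fin 14 → ℝ) : ℝ :=
  (x * y ^ (3 : ℕ) * (2 * a * b ^ (2 : ℕ)) + x ^ (2 : ℕ) * y ^ (2 : ℕ) * (2 * a ^ (2 : ℕ) * b)) * f 7 + (x * y ^ (3 : ℕ) * (2 * a *
    b ^ (2 : ℕ)) + x ^ (2 : ℕ) * y ^ (2 : ℕ) * (2 * a ^ (2 : ℕ) * b)) * f 8 + (y ^ (4 : ℕ) * (2 * a * b ^ (2 : ℕ)) + x * y ^ (3 : ℕ) * (2 *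
    a ^ (2 : ℕ) * b)) * f 9

/-- Part of the linear form of `gM`. -/
def gML4 (a b x y : ℝ) (f : Fin 14 → ℝ) : ℝ :=
  (x ^ (2 : ℕ) * y ^ (2 : ℕ) * (b ^ (2 : ℕ)) + x ^ (4 : ℕ) * (-a ^ (2 : ℕ))) * f 0 + (x * y ^ (3 : ℕ) * (b ^ (2 : ℕ)) + x ^ (3 : ℕ) * y * (-a ^
    2)) * f 1 + (x * y ^ (3 : ℕ) * (b ^ (2 : ℕ)) + x ^ (3 : ℕ) * y * (-a ^ (2 : ℕ))) * f 2 + (y ^ (4 : ℕ) * (b ^ (2 : ℕ)) + x ^ (2 : ℕ) * y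
    ^ (2 : ℕ) * (-a ^ (2 : ℕ))) * f 3

/-- `gM` on a pair, explicitly. -/
theorem gM_lin (h : Pt N p q a b R x y z s w) (f f' : Fin 14 → ℝ) :
    pairFun (gM (⟨a, b, x, y⟩ : Frame)) N p q x y f f' =
      (gML0 a b x y f + gML1 a b x y f + gML2 a b x y f + gML4 a b x y f') / (a * b * (a * x + b
        * y) ^ (4 : ℕ)) := by
  obtain ⟨el, em, -⟩ := h.lam_eq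
  obtain ⟨rfl, rfl, rfl, a0, b0, M0, x0, y0, s0, D0, E0, hz⟩ := h
  subst hz
  obtain ⟨D, hD⟩ : ∃ D, D = a * x + b * y := ⟨_, rfl⟩
  obtain ⟨E, hE⟩ : ∃ E, E = b * y - a * x := ⟨_, rfl⟩
  rw [← hD] at D0
  rw [← hE] at E0
  simp only [← hD, ← hE] at el em
  simp only [pairFun, el, em, gM, gE, gG, linU, linV, Frame.rM, Frame.rE, Frame.rG, Frame.D, gML0, gML1, gML2, gML4,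
    Matrix.cons_val, sub_add_cancel, one_div_one_div, one_div_div, mul_one, mul_zero, zero_mul,
    add_zero, zero_add, sub_zero, neg_zero, zero_div, ← hD]
  field_simp
  subst hD hE
  ring

/-- Part of the linear form of `gE`. -/
def gEL0 (a b x y : ℝ) (f : Fin 14 → ℝ) : ℝ :=
  (x * y ^ (2 : ℕ) * (4 * a * b ^ (3 : ℕ)) + x ^ (2 : ℕ) * y * (-3 * a ^ (2 : ℕ) * b ^ (2 : ℕ) - 3 * a * b ^ (3 : ℕ) - 3 * a * b ^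
    2) + x ^ (3 : ℕ) * (-3 * a ^ (3 : ℕ) * b + a ^ (2 : ℕ) * b ^ (2 : ℕ) + a ^ (2 : ℕ) * b)) * f 0 + (x * y ^ (2 : ℕ) * (-9 * a ^ (2 : ℕ) *
    b ^ (2 : ℕ) - a * b ^ (3 : ℕ) - a * b ^ (2 : ℕ)) + x ^ (2 : ℕ) * y * (-5 * a ^ (3 : ℕ) * b + 3 * a ^ (2 : ℕ) * b ^ (2 : ℕ) + 3 * a ^ (2 : ℕ) *
    b)) * f 1 + (x * y ^ (2 : ℕ) * (-3 * a ^ (2 : ℕ) * b ^ (2 : ℕ) + 5 * a * b ^ (3 : ℕ) - 3 * a * b ^ (2 : ℕ)) + x ^ (2 : ℕ) * y * (a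
    ^ (3 : ℕ) * b + 9 * a ^ (2 : ℕ) * b ^ (2 : ℕ) + a ^ (2 : ℕ) * b)) * f 2 + (y ^ (3 : ℕ) * (-a ^ (2 : ℕ) * b ^ (2 : ℕ) + 3 * a * b ^ (3 : ℕ) - a
    * b ^ (2 : ℕ)) + x * y ^ (2 : ℕ) * (3 * a ^ (3 : ℕ) * b + 3 * a ^ (2 : ℕ) * b ^ (2 : ℕ) + 3 * a ^ (2 : ℕ) * b) + x ^ (2 : ℕ) * y * (-4 *
    a ^ (3 : ℕ) * b)) * f 3

/-- Part of the linear form of `gE`. -/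
def gEL1 (a b x y : ℝ) (f : Fin 14 → ℝ) : ℝ :=
  (x ^ (2 : ℕ) * y * (8 * a * b ^ (3 : ℕ)) + x ^ (3 : ℕ) * (8 * a ^ (2 : ℕ) * b ^ (2 : ℕ))) * f 4 + (x * y ^ (2 : ℕ) * (4 * a * b ^
    3) + x ^ (3 : ℕ) * (-4 * a ^ (3 : ℕ) * b)) * f 5 + (x * y ^ (2 : ℕ) * (6 * a * b ^ (3 : ℕ)) + x ^ (2 : ℕ) * y * (4 * a ^ (2 : ℕ) *
    b ^ (2 : ℕ)) + x ^ (3 : ℕ) * (-2 * a ^ (3 : ℕ) * b)) * f 6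

/-- Part of the linear form of `gE`. -/
def gEL2 (a b x y : ℝ) (f : Fin 14 → ℝ) : ℝ :=
  (y ^ (3 : ℕ) * (2 * a * b ^ (3 : ℕ)) + x * y ^ (2 : ℕ) * (-4 * a ^ (2 : ℕ) * b ^ (2 : ℕ)) + x ^ (2 : ℕ) * y * (-6 * a ^ (3 : ℕ) * b)) *
    f 7 + (y ^ (3 : ℕ) * (4 * a * b ^ (3 : ℕ)) + x ^ (2 : ℕ) * y * (-4 * a ^ (3 : ℕ) * b)) * f 8 + (y ^ (3 : ℕ) * (-8 * a ^ (2 : ℕ) *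
    b ^ (2 : ℕ)) + x * y ^ (2 : ℕ) * (-8 * a ^ (3 : ℕ) * b)) * f 9

/-- Part of the linear form of `gE`. -/
def gEL4 (a b x y : ℝ) (f : Fin 14 → ℝ) : ℝ :=
  (x * y ^ (2 : ℕ) * (2 * b ^ (3 : ℕ)) + x ^ (2 : ℕ) * y * (-4 * a * b ^ (2 : ℕ)) + x ^ (3 : ℕ) * (-6 * a ^ (2 : ℕ) * b)) * f 0 + (x
    * y ^ (2 : ℕ) * (-6 * a * b ^ (2 : ℕ)) + x ^ (2 : ℕ) * y * (-4 * a ^ (2 : ℕ) * b) + x ^ (3 : ℕ) * (2 * a ^ (3 : ℕ))) * f 1 + (y ^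
    3 * (2 * b ^ (3 : ℕ)) + x * y ^ (2 : ℕ) * (-4 * a * b ^ (2 : ℕ)) + x ^ (2 : ℕ) * y * (-6 * a ^ (2 : ℕ) * b)) * f 2 + (y ^ (3 : ℕ)
    * (-6 * a * b ^ (2 : ℕ)) + x * y ^ (2 : ℕ) * (-4 * a ^ (2 : ℕ) * b) + x ^ (2 : ℕ) * y * (2 * a ^ (3 : ℕ))) * f 3

/-- `gE` on a pair, explicitly. -/
theorem gE_lin (h : Pt N p q a b R x y z s w) (f f' : Fin 14 → ℝ) :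
    pairFun (gE (⟨a, b, x, y⟩ : Frame)) N p q x y f f' =
      (gEL0 a b x y f + gEL1 a b x y f + gEL2 a b x y f + gEL4 a b x y f') / (2 * a * b * (a * x
        + b * y) ^ (4 : ℕ)) := by
  obtain ⟨el, em, -⟩ := h.lam_eq
  obtain ⟨rfl, rfl, rfl, a0, b0, M0, x0, y0, s0, D0, E0, hz⟩ := h
  subst hz
  obtain ⟨D, hD⟩ : ∃ D, D = a * x + b * y := ⟨_, rfl⟩
  obtain ⟨E, hE⟩ : ∃ E, E = b * y - a * x := ⟨_, rfl⟩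
  rw [← hD] at D0
  rw [← hE] at E0
  simp only [← hD, ← hE] at el em
  simp only [pairFun, el, em, gM, gE, gG, linU, linV, Frame.rM, Frame.rE, Frame.rG, Frame.D, gEL0, gEL1, gEL2, gEL4,
    Matrix.cons_val, sub_add_cancel, one_div_one_div, one_div_div, mul_one, mul_zero, zero_mul,
    add_zero, zero_add, sub_zero, neg_zero, zero_div, ← hD]
  field_simp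
  subst hD hE
  ring

/-- Part of the linear form of `gG`. -/
def gGL0 (a b x y : ℝ) (f : Fin 14 → ℝ) : ℝ :=
  (x * y * (-5 * a * b ^ (2 : ℕ) - b ^ (3 : ℕ) - b ^ (2 : ℕ)) + x ^ (2 : ℕ) * (-3 * a ^ (2 : ℕ) * b + a * b ^ (2 : ℕ) + a * b)) * f
    0 + (x * y * (5 * a ^ (2 : ℕ) * b + a * b ^ (2 : ℕ) + a * b) + x ^ (2 : ℕ) * (3 * a ^ (3 : ℕ) - a ^ (2 : ℕ) * b - a ^ (2 : ℕ))) *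
    f 1 + (y ^ (2 : ℕ) * (-a * b ^ (2 : ℕ) + 3 * b ^ (3 : ℕ) - b ^ (2 : ℕ)) + x * y * (a ^ (2 : ℕ) * b + 5 * a * b ^ (2 : ℕ) + a * b))
    * f 2 + (y ^ (2 : ℕ) * (a ^ (2 : ℕ) * b - 3 * a * b ^ (2 : ℕ) + a * b) + x * y * (-a ^ (3 : ℕ) - 5 * a ^ (2 : ℕ) * b - a ^
    2)) * f 3

/-- Part of the linear form of `gG`. -/
def gGL1 (a b x y : ℝ) (f : Fin 14 → ℝ) : ℝ :=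
  (x * y * (4 * b ^ (3 : ℕ)) + x ^ (2 : ℕ) * (4 * a * b ^ (2 : ℕ))) * f 4 + (x * y * (-4 * a * b ^ (2 : ℕ)) + x ^ (2 : ℕ) *
    (-4 * a ^ (2 : ℕ) * b)) * f 5 + (y ^ (2 : ℕ) * (2 * b ^ (3 : ℕ)) + x ^ (2 : ℕ) * (-2 * a ^ (2 : ℕ) * b)) * f 6

/-- Part of the linear form of `gG`. -/
def gGL2 (a b x y : ℝ) (f : Fin 14 → ℝ) : ℝ :=
  (y ^ (2 : ℕ) * (-2 * a * b ^ (2 : ℕ)) + x ^ (2 : ℕ) * (2 * a ^ (3 : ℕ))) * f 7 + (y ^ (2 : ℕ) * (-4 * a * b ^ (2 : ℕ)) + x * y *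
    (-4 * a ^ (2 : ℕ) * b)) * f 8 + (y ^ (2 : ℕ) * (4 * a ^ (2 : ℕ) * b) + x * y * (4 * a ^ (3 : ℕ))) * f 9

/-- Part of the linear form of `gG`. -/
def gGL4 (a b x y : ℝ) (f : Fin 14 → ℝ) : ℝ :=
  (x * y * (-4 * b ^ (2 : ℕ)) + x ^ (2 : ℕ) * (-4 * a * b)) * f 0 + (x * y * (4 * a * b) + x ^ (2 : ℕ) * (4 * a ^
    2)) * f 1 + (y ^ (2 : ℕ) * (-4 * b ^ (2 : ℕ)) + x * y * (-4 * a * b)) * f 2 + (y ^ (2 : ℕ) * (4 * a * b) + x * y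
    * (4 * a ^ (2 : ℕ))) * f 3

/-- `gG` on a pair, explicitly. -/
theorem gG_lin (h : Pt N p q a b R x y z s w) (f f' : Fin 14 → ℝ) :
    pairFun (gG (⟨a, b, x, y⟩ : Frame)) N p q x y f f' =
      (gGL0 a b x y f + gGL1 a b x y f + gGL2 a b x y f + gGL4 a b x y f') / (2 * (a * x + b *
        y) ^ (4 : ℕ)) := by
  obtain ⟨el, em, -⟩ := h.lam_eq
  obtain ⟨rfl, rfl, rfl, a0, b0, M0, x0, y0, s0, D0, E0, hz⟩ := h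
  subst hz
  obtain ⟨D, hD⟩ : ∃ D, D = a * x + b * y := ⟨_, rfl⟩
  obtain ⟨E, hE⟩ : ∃ E, E = b * y - a * x := ⟨_, rfl⟩
  rw [← hD] at D0
  rw [← hE] at E0
  simp only [← hD, ← hE] at el em
  simp only [pairFun, el, em, gM, gE, gG, linU, linV, Frame.rM, Frame.rE, Frame.rG, Frame.D, gGL0, gGL1, gGL2, gGL4,
    Matrix.cons_val, sub_add_cancel, one_div_one_div, one_div_div, mul_one, mul_zero, zero_mul,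
    add_zero, zero_add, sub_zero, neg_zero, zero_div, ← hD]
  field_simp
  subst hD hE
  ring

/-- Part of the linear form of `hM`. -/
def hML0 (a b x y : ℝ) (f : Fin 14 → ℝ) : ℝ :=
  (x * y ^ (2 : ℕ) * (2 * a * b ^ (3 : ℕ)) + x ^ (2 : ℕ) * y * (a ^ (2 : ℕ) * b ^ (2 : ℕ) - a * b ^ (3 : ℕ) - a * b ^ (2 : ℕ))) * f 0 + (y
    ^ (3 : ℕ) * (2 * a * b ^ (3 : ℕ)) + x * y ^ (2 : ℕ) * (a ^ (2 : ℕ) * b ^ (2 : ℕ) - a * b ^ (3 : ℕ) - a * b ^ (2 : ℕ))) * f 1 + (x ^ (2 : ℕ) *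
    y * (a ^ (3 : ℕ) * b - a ^ (2 : ℕ) * b ^ (2 : ℕ) + a ^ (2 : ℕ) * b) + x ^ (3 : ℕ) * (-2 * a ^ (3 : ℕ) * b)) * f 2 + (x * y ^ (2 : ℕ) *
    (a ^ (3 : ℕ) * b - a ^ (2 : ℕ) * b ^ (2 : ℕ) + a ^ (2 : ℕ) * b) + x ^ (2 : ℕ) * y * (-2 * a ^ (3 : ℕ) * b)) * f 3

/-- Part of the linear form of `hM`. -/
def hML1 (a b x y : ℝ) (f : Fin 14 → ℝ) : ℝ :=
  (x ^ (2 : ℕ) * y * (2 * a * b ^ (3 : ℕ)) + x ^ (3 : ℕ) * (2 * a ^ (2 : ℕ) * b ^ (2 : ℕ))) * f 4 + (x * y ^ (2 : ℕ) * (2 * a * b ^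
    3) + x ^ (2 : ℕ) * y * (2 * a ^ (2 : ℕ) * b ^ (2 : ℕ))) * f 5 + (x * y ^ (2 : ℕ) * (a * b ^ (3 : ℕ)) + x ^ (3 : ℕ) * (-a ^ (3 : ℕ) * b))
    * f 6

/-- Part of the linear form of `hM`. -/
def hML2 (a b x y : ℝ) (f : Fin 14 → ℝ) : ℝ :=
  (y ^ (3 : ℕ) * (a * b ^ (3 : ℕ)) + x ^ (2 : ℕ) * y * (-a ^ (3 : ℕ) * b)) * f 7 + (x * y ^ (2 : ℕ) * (-2 * a ^ (2 : ℕ) * b ^ (2 : ℕ)) + x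
    ^ (2 : ℕ) * y * (-2 * a ^ (3 : ℕ) * b)) * f 8 + (y ^ (3 : ℕ) * (-2 * a ^ (2 : ℕ) * b ^ (2 : ℕ)) + x * y ^ (2 : ℕ) * (-2 * a ^ (3 : ℕ) *
    b)) * f 9

/-- Part of the linear form of `hM`. -/
def hML4 (a b x y : ℝ) (f : Fin 14 → ℝ) : ℝ :=
  (x * y ^ (2 : ℕ) * (b ^ (3 : ℕ)) + x ^ (3 : ℕ) * (-a ^ (2 : ℕ) * b)) * f 0 + (y ^ (3 : ℕ) * (b ^ (3 : ℕ)) + x ^ (2 : ℕ) * y * (-a ^ (2 : ℕ) *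
    b)) * f 1 + (x * y ^ (2 : ℕ) * (-a * b ^ (2 : ℕ)) + x ^ (3 : ℕ) * (a ^ (3 : ℕ))) * f 2 + (y ^ (3 : ℕ) * (-a * b ^ (2 : ℕ)) + x ^ (2 : ℕ)
    * y * (a ^ (3 : ℕ))) * f 3

/-- `hM` on a pair, explicitly. -/
theorem hM_lin (h : Pt N p q a b R x y z s w) (f f' : Fin 14 → ℝ) :
    pairFun (hM (⟨a, b, x, y⟩ : Frame)) N p q x y f f' =
      (hML0 a b x y f + hML1 a b x y f + hML2 a b x y f + hML4 a b x y f') / (a * b * (a * x + b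
        * y) ^ (4 : ℕ)) := by
  obtain ⟨el, em, -⟩ := h.lam_eq
  obtain ⟨rfl, rfl, rfl, a0, b0, M0, x0, y0, s0, D0, E0, hz⟩ := h
  subst hz
  obtain ⟨D, hD⟩ : ∃ D, D = a * x + b * y := ⟨_, rfl⟩
  obtain ⟨E, hE⟩ : ∃ E, E = b * y - a * x := ⟨_, rfl⟩
  rw [← hD] at D0
  rw [← hE] at E0
  simp only [← hD, ← hE] at el em
  simp only [pairFun, el, em, hM, hEf, hG, linU, linV, Frame.rM, Frame.rE, Frame.rG, Frame.D, hML0, hML1, hML2, hML4,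
    Matrix.cons_val, sub_add_cancel, one_div_one_div, one_div_div, mul_one, mul_zero, zero_mul,
    add_zero, zero_add, sub_zero, neg_zero, zero_div, ← hD]
  field_simp
  subst hD hE
  ring

/-- Part of the linear form of `hEf`. -/
def hEL0 (a b x y : ℝ) (f : Fin 14 → ℝ) : ℝ :=
  (y ^ (2 : ℕ) * (4 * a * b ^ (4 : ℕ)) + x * y * (-3 * a ^ (2 : ℕ) * b ^ (3 : ℕ) - 3 * a * b ^ (4 : ℕ) - 3 * a * b ^ (3 : ℕ)) + x ^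
    2 * (-3 * a ^ (3 : ℕ) * b ^ (2 : ℕ) + a ^ (2 : ℕ) * b ^ (3 : ℕ) + a ^ (2 : ℕ) * b ^ (2 : ℕ))) * f 0 + (y ^ (2 : ℕ) * (-9 * a ^ (2 : ℕ) * b ^ (3 : ℕ)
    - a * b ^ (4 : ℕ) - a * b ^ (3 : ℕ)) + x * y * (-5 * a ^ (3 : ℕ) * b ^ (2 : ℕ) + 3 * a ^ (2 : ℕ) * b ^ (3 : ℕ) + 3 * a ^ (2 : ℕ) * b ^
    2)) * f 1 + (x * y * (3 * a ^ (3 : ℕ) * b ^ (2 : ℕ) - 5 * a ^ (2 : ℕ) * b ^ (3 : ℕ) + 3 * a ^ (2 : ℕ) * b ^ (2 : ℕ)) + x ^ (2 : ℕ) * (-a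
    ^ (4 : ℕ) * b - 9 * a ^ (3 : ℕ) * b ^ (2 : ℕ) - a ^ (3 : ℕ) * b)) * f 2 + (y ^ (2 : ℕ) * (a ^ (3 : ℕ) * b ^ (2 : ℕ) - 3 * a ^ (2 : ℕ) * b ^ (3 : ℕ)
    + a ^ (2 : ℕ) * b ^ (2 : ℕ)) + x * y * (-3 * a ^ (4 : ℕ) * b - 3 * a ^ (3 : ℕ) * b ^ (2 : ℕ) - 3 * a ^ (3 : ℕ) * b) + x ^ (2 : ℕ) * (4 *
    a ^ (4 : ℕ) * b)) * f 3

/-- Part of the linear form of `hEf`. -/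
def hEL1 (a b x y : ℝ) (f : Fin 14 → ℝ) : ℝ :=
  (x * y * (8 * a * b ^ (4 : ℕ)) + x ^ (2 : ℕ) * (8 * a ^ (2 : ℕ) * b ^ (3 : ℕ))) * f 4 + (y ^ (2 : ℕ) * (4 * a * b ^ (4 : ℕ)) + x ^
    2 * (-4 * a ^ (3 : ℕ) * b ^ (2 : ℕ))) * f 5 + (y ^ (2 : ℕ) * (2 * a * b ^ (4 : ℕ)) + x * y * (-4 * a ^ (2 : ℕ) * b ^ (3 : ℕ)) + x
    ^ (2 : ℕ) * (-6 * a ^ (3 : ℕ) * b ^ (2 : ℕ))) * f 6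

/-- Part of the linear form of `hEf`. -/
def hEL2 (a b x y : ℝ) (f : Fin 14 → ℝ) : ℝ :=
  (y ^ (2 : ℕ) * (-6 * a ^ (2 : ℕ) * b ^ (3 : ℕ)) + x * y * (-4 * a ^ (3 : ℕ) * b ^ (2 : ℕ)) + x ^ (2 : ℕ) * (2 * a ^ (4 : ℕ) * b)) * f 7
    + (y ^ (2 : ℕ) * (-4 * a ^ (2 : ℕ) * b ^ (3 : ℕ)) + x ^ (2 : ℕ) * (4 * a ^ (4 : ℕ) * b)) * f 8 + (y ^ (2 : ℕ) * (8 * a ^ (3 : ℕ) * b ^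
    2) + x * y * (8 * a ^ (4 : ℕ) * b)) * f 9

/-- Part of the linear form of `hEf`. -/
def hEL4 (a b x y : ℝ) (f : Fin 14 → ℝ) : ℝ :=
  (y ^ (2 : ℕ) * (2 * b ^ (4 : ℕ)) + x * y * (-4 * a * b ^ (3 : ℕ)) + x ^ (2 : ℕ) * (-6 * a ^ (2 : ℕ) * b ^ (2 : ℕ))) * f 0 + (y ^ (2 : ℕ)
    * (-6 * a * b ^ (3 : ℕ)) + x * y * (-4 * a ^ (2 : ℕ) * b ^ (2 : ℕ)) + x ^ (2 : ℕ) * (2 * a ^ (3 : ℕ) * b)) * f 1 + (y ^ (2 : ℕ) *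
    (-2 * a * b ^ (3 : ℕ)) + x * y * (4 * a ^ (2 : ℕ) * b ^ (2 : ℕ)) + x ^ (2 : ℕ) * (6 * a ^ (3 : ℕ) * b)) * f 2 + (y ^ (2 : ℕ) * (6
    * a ^ (2 : ℕ) * b ^ (2 : ℕ)) + x * y * (4 * a ^ (3 : ℕ) * b) + x ^ (2 : ℕ) * (-2 * a ^ (4 : ℕ))) * f 3

/-- `hEf` on a pair, explicitly. -/
theorem hEf_lin (h : Pt N p q a b R x y z s w) (f f' : Fin 14 → ℝ) :
    pairFun (hEf (⟨a, b, x, y⟩ : Frame)) N p q x y f f' =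
      (hEL0 a b x y f + hEL1 a b x y f + hEL2 a b x y f + hEL4 a b x y f') / (2 * a * b * (a * x
        + b * y) ^ (4 : ℕ)) := by
  obtain ⟨el, em, -⟩ := h.lam_eq
  obtain ⟨rfl, rfl, rfl, a0, b0, M0, x0, y0, s0, D0, E0, hz⟩ := h
  subst hz
  obtain ⟨D, hD⟩ : ∃ D, D = a * x + b * y := ⟨_, rfl⟩
  obtain ⟨E, hE⟩ : ∃ E, E = b * y - a * x := ⟨_, rfl⟩
  rw [← hD] at D0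
  rw [← hE] at E0
  simp only [← hD, ← hE] at el em
  simp only [pairFun, el, em, hM, hEf, hG, linU, linV, Frame.rM, Frame.rE, Frame.rG, Frame.D, hEL0, hEL1, hEL2, hEL4,
    Matrix.cons_val, sub_add_cancel, one_div_one_div, one_div_div, mul_one, mul_zero, zero_mul,
    add_zero, zero_add, sub_zero, neg_zero, zero_div, ← hD]
  field_simp
  subst hD hE
  ring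

/-- Part of the linear form of `hG`. -/
def hGL0 (a b x y : ℝ) (f : Fin 14 → ℝ) : ℝ :=
  (y * (-5 * a * b ^ (3 : ℕ) - b ^ (4 : ℕ) - b ^ (3 : ℕ)) + x * (-3 * a ^ (2 : ℕ) * b ^ (2 : ℕ) + a * b ^ (3 : ℕ) + a * b ^ (2 : ℕ))) * f
    0 + (y * (5 * a ^ (2 : ℕ) * b ^ (2 : ℕ) + a * b ^ (3 : ℕ) + a * b ^ (2 : ℕ)) + x * (3 * a ^ (3 : ℕ) * b - a ^ (2 : ℕ) * b ^ (2 : ℕ) - a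
    ^ (2 : ℕ) * b)) * f 1 + (y * (a ^ (2 : ℕ) * b ^ (2 : ℕ) - 3 * a * b ^ (3 : ℕ) + a * b ^ (2 : ℕ)) + x * (-a ^ (3 : ℕ) * b - 5 * a ^
    2 * b ^ (2 : ℕ) - a ^ (2 : ℕ) * b)) * f 2 + (y * (-a ^ (3 : ℕ) * b + 3 * a ^ (2 : ℕ) * b ^ (2 : ℕ) - a ^ (2 : ℕ) * b) + x * (a ^ (4 : ℕ)
    + 5 * a ^ (3 : ℕ) * b + a ^ (3 : ℕ))) * f 3

/-- Part of the linear form of `hG`. -/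
def hGL1 (a b x y : ℝ) (f : Fin 14 → ℝ) : ℝ :=
  (y * (4 * b ^ (4 : ℕ)) + x * (4 * a * b ^ (3 : ℕ))) * f 4 + (y * (-4 * a * b ^ (3 : ℕ)) + x * (-4 * a ^ (2 : ℕ) * b ^
    2)) * f 5 + (y * (-4 * a * b ^ (3 : ℕ)) + x * (-4 * a ^ (2 : ℕ) * b ^ (2 : ℕ))) * f 6

/-- Part of the linear form of `hG`. -/
def hGL2 (a b x y : ℝ) (f : Fin 14 → ℝ) : ℝ :=
  (y * (4 * a ^ (2 : ℕ) * b ^ (2 : ℕ)) + x * (4 * a ^ (3 : ℕ) * b)) * f 7 + (y * (4 * a ^ (2 : ℕ) * b ^ (2 : ℕ)) + x * (4 * a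
    ^ (3 : ℕ) * b)) * f 8 + (y * (-4 * a ^ (3 : ℕ) * b) + x * (-4 * a ^ (4 : ℕ))) * f 9

/-- Part of the linear form of `hG`. -/
def hGL4 (a b x y : ℝ) (f : Fin 14 → ℝ) : ℝ :=
  (y * (-4 * b ^ (3 : ℕ)) + x * (-4 * a * b ^ (2 : ℕ))) * f 0 + (y * (4 * a * b ^ (2 : ℕ)) + x * (4 * a ^ (2 : ℕ) * b))
    * f 1 + (y * (4 * a * b ^ (2 : ℕ)) + x * (4 * a ^ (2 : ℕ) * b)) * f 2 + (y * (-4 * a ^ (2 : ℕ) * b) + x * (-4 *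
    a ^ (3 : ℕ))) * f 3

/-- `hG` on a pair, explicitly. -/
theorem hG_lin (h : Pt N p q a b R x y z s w) (f f' : Fin 14 → ℝ) :
    pairFun (hG (⟨a, b, x, y⟩ : Frame)) N p q x y f f' =
      (hGL0 a b x y f + hGL1 a b x y f + hGL2 a b x y f + hGL4 a b x y f') / (2 * (a * x + b *
        y) ^ (4 : ℕ)) := by
  obtain ⟨el, em, -⟩ := h.lam_eq
  obtain ⟨rfl, rfl, rfl, a0, b0, M0, x0, y0, s0, D0, E0, hz⟩ := h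
  subst hz
  obtain ⟨D, hD⟩ : ∃ D, D = a * x + b * y := ⟨_, rfl⟩
  obtain ⟨E, hE⟩ : ∃ E, E = b * y - a * x := ⟨_, rfl⟩
  rw [← hD] at D0
  rw [← hE] at E0
  simp only [← hD, ← hE] at el em
  simp only [pairFun, el, em, hM, hEf, hG, linU, linV, Frame.rM, Frame.rE, Frame.rG, Frame.D, hGL0, hGL1, hGL2, hGL4,
    Matrix.cons_val, sub_add_cancel, one_div_one_div, one_div_div, mul_one, mul_zero, zero_mul,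
    add_zero, zero_add, sub_zero, neg_zero, zero_div, ← hD]
  field_simp
  subst hD hE
  ring

/-- Part of the linear form of `lMM`. -/
def MML0 (a b x y : ℝ) (f : Fin 14 → ℝ) : ℝ :=
  (x ^ (3 : ℕ) * y ^ (2 : ℕ) * (2 * a ^ (2 : ℕ) * b ^ (2 : ℕ) + 2 * a * b ^ (3 : ℕ) - 2 * a * b ^ (2 : ℕ)) + x ^ (4 : ℕ) * y * (a ^ (3 : ℕ) * b
    - a ^ (2 : ℕ) * b ^ (2 : ℕ) - 2 * a ^ (2 : ℕ) * b - 2 * a * b ^ (3 : ℕ) + a * b ^ (2 : ℕ) + a * b) + x ^ (5 : ℕ) * (-a ^ (3 : ℕ) * b - a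
    ^ (2 : ℕ) * b ^ (2 : ℕ) + a ^ (2 : ℕ) * b)) * f 0 + (x ^ (2 : ℕ) * y ^ (3 : ℕ) * (a ^ (2 : ℕ) * b ^ (2 : ℕ) + a * b ^ (3 : ℕ) - a * b ^ (2 : ℕ)) + x
    ^ (3 : ℕ) * y ^ (2 : ℕ) * (-a ^ (2 : ℕ) * b ^ (2 : ℕ) - a ^ (2 : ℕ) * b - a * b ^ (3 : ℕ) + a * b)) * f 1 + (x ^ (2 : ℕ) * y ^ (3 : ℕ) * (-a ^
    3 * b - a ^ (2 : ℕ) * b ^ (2 : ℕ) - a * b ^ (2 : ℕ) + a * b) + x ^ (3 : ℕ) * y ^ (2 : ℕ) * (a ^ (3 : ℕ) * b + a ^ (2 : ℕ) * b ^ (2 : ℕ) - a ^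
    2 * b)) * f 2 + (y ^ (5 : ℕ) * (-a ^ (2 : ℕ) * b ^ (2 : ℕ) - a * b ^ (3 : ℕ) + a * b ^ (2 : ℕ)) + x * y ^ (4 : ℕ) * (-2 * a ^ (3 : ℕ) *
    b - a ^ (2 : ℕ) * b ^ (2 : ℕ) + a ^ (2 : ℕ) * b + a * b ^ (3 : ℕ) - 2 * a * b ^ (2 : ℕ) + a * b) + x ^ (2 : ℕ) * y ^ (3 : ℕ) * (2 * a ^
    3 * b + 2 * a ^ (2 : ℕ) * b ^ (2 : ℕ) - 2 * a ^ (2 : ℕ) * b)) * f 3

/-- Part of the linear form of `lMM`. -/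
def MML1 (a b x y : ℝ) (f : Fin 14 → ℝ) : ℝ :=
  (x ^ (3 : ℕ) * y ^ (2 : ℕ) * (4 * a * b ^ (2 : ℕ)) + x ^ (4 : ℕ) * y * (2 * a ^ (2 : ℕ) * b ^ (2 : ℕ) + 2 * a ^ (2 : ℕ) * b + 2 * a * b
    ^ (3 : ℕ) - 2 * a * b ^ (2 : ℕ) - 2 * a * b) + x ^ (5 : ℕ) * (2 * a ^ (3 : ℕ) * b + 2 * a ^ (2 : ℕ) * b ^ (2 : ℕ))) * f 4 + (x ^ (2 : ℕ)
    * y ^ (3 : ℕ) * (2 * a * b ^ (2 : ℕ)) + x ^ (3 : ℕ) * y ^ (2 : ℕ) * (2 * a ^ (2 : ℕ) * b ^ (2 : ℕ) + 2 * a * b ^ (3 : ℕ) - 2 * a * b) +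
    x ^ (4 : ℕ) * y * (2 * a ^ (3 : ℕ) * b + 2 * a ^ (2 : ℕ) * b ^ (2 : ℕ) + 2 * a ^ (2 : ℕ) * b)) * f 5 + (x ^ (2 : ℕ) * y ^ (3 : ℕ) * (a ^
    2 * b ^ (2 : ℕ) + a * b ^ (3 : ℕ) + 3 * a * b ^ (2 : ℕ)) + x ^ (3 : ℕ) * y ^ (2 : ℕ) * (a ^ (3 : ℕ) * b + 2 * a ^ (2 : ℕ) * b ^ (2 : ℕ) + a ^
    2 * b + a * b ^ (3 : ℕ) - a * b ^ (2 : ℕ) - 2 * a * b) + x ^ (4 : ℕ) * y * (a ^ (3 : ℕ) * b + a ^ (2 : ℕ) * b ^ (2 : ℕ) + a ^ (2 : ℕ) *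
    b)) * f 6

/-- Part of the linear form of `lMM`. -/
def MML2 (a b x y : ℝ) (f : Fin 14 → ℝ) : ℝ :=
  (x * y ^ (4 : ℕ) * (a ^ (2 : ℕ) * b ^ (2 : ℕ) + a * b ^ (3 : ℕ) + a * b ^ (2 : ℕ)) + x ^ (2 : ℕ) * y ^ (3 : ℕ) * (a ^ (3 : ℕ) * b + 2 * a ^ (2 : ℕ)
    * b ^ (2 : ℕ) - a ^ (2 : ℕ) * b + a * b ^ (3 : ℕ) + a * b ^ (2 : ℕ) - 2 * a * b) + x ^ (3 : ℕ) * y ^ (2 : ℕ) * (a ^ (3 : ℕ) * b + a ^ (2 : ℕ)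
    * b ^ (2 : ℕ) + 3 * a ^ (2 : ℕ) * b)) * f 7 + (x * y ^ (4 : ℕ) * (2 * a ^ (2 : ℕ) * b ^ (2 : ℕ) + 2 * a * b ^ (3 : ℕ) + 2 * a * b
    ^ (2 : ℕ)) + x ^ (2 : ℕ) * y ^ (3 : ℕ) * (2 * a ^ (3 : ℕ) * b + 2 * a ^ (2 : ℕ) * b ^ (2 : ℕ) - 2 * a * b) + x ^ (3 : ℕ) * y ^ (2 : ℕ) * (2 *
    a ^ (2 : ℕ) * b)) * f 8 + (y ^ (5 : ℕ) * (2 * a ^ (2 : ℕ) * b ^ (2 : ℕ) + 2 * a * b ^ (3 : ℕ)) + x * y ^ (4 : ℕ) * (2 * a ^ (3 : ℕ) * b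
    + 2 * a ^ (2 : ℕ) * b ^ (2 : ℕ) - 2 * a ^ (2 : ℕ) * b + 2 * a * b ^ (2 : ℕ) - 2 * a * b) + x ^ (2 : ℕ) * y ^ (3 : ℕ) * (4 * a ^ (2 : ℕ)
    * b)) * f 9

/-- Part of the linear form of `lMM`. -/
def MML4 (a b x y : ℝ) (f : Fin 14 → ℝ) : ℝ :=
  (x ^ (3 : ℕ) * y ^ (2 : ℕ) * (a * b ^ (2 : ℕ) + b ^ (3 : ℕ) - b ^ (2 : ℕ)) + x ^ (5 : ℕ) * (-a ^ (3 : ℕ) - a ^ (2 : ℕ) * b + a ^ (2 : ℕ))) * f 0 +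
    (x ^ (2 : ℕ) * y ^ (3 : ℕ) * (a * b ^ (2 : ℕ) + b ^ (3 : ℕ) - b ^ (2 : ℕ)) + x ^ (4 : ℕ) * y * (-a ^ (3 : ℕ) - a ^ (2 : ℕ) * b + a ^ (2 : ℕ))) * f 1
    + (x * y ^ (4 : ℕ) * (a * b ^ (2 : ℕ) + b ^ (3 : ℕ) - b ^ (2 : ℕ)) + x ^ (3 : ℕ) * y ^ (2 : ℕ) * (-a ^ (3 : ℕ) - a ^ (2 : ℕ) * b + a ^ (2 : ℕ))) * f
    2 + (y ^ (5 : ℕ) * (a * b ^ (2 : ℕ) + b ^ (3 : ℕ) - b ^ (2 : ℕ)) + x ^ (2 : ℕ) * y ^ (3 : ℕ) * (-a ^ (3 : ℕ) - a ^ (2 : ℕ) * b + a ^ (2 : ℕ))) * f 3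

/-- Part of the linear form of `lMM`. -/
def MML5 (a b x y : ℝ) (f : Fin 14 → ℝ) : ℝ :=
  (x ^ (3 : ℕ) * y ^ (2 : ℕ) * (2 * b ^ (2 : ℕ)) + x ^ (5 : ℕ) * (-2 * a ^ (2 : ℕ))) * f 4 + (x ^ (2 : ℕ) * y ^ (3 : ℕ) * (2 * b ^ (2 : ℕ)) + x
    ^ (4 : ℕ) * y * (-2 * a ^ (2 : ℕ))) * f 5 + (x ^ (2 : ℕ) * y ^ (3 : ℕ) * (2 * b ^ (2 : ℕ)) + x ^ (4 : ℕ) * y * (-2 * a ^ (2 : ℕ))) * f 6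

/-- Part of the linear form of `lMM`. -/
def MML6 (a b x y : ℝ) (f : Fin 14 → ℝ) : ℝ :=
  (x * y ^ (4 : ℕ) * (2 * b ^ (2 : ℕ)) + x ^ (3 : ℕ) * y ^ (2 : ℕ) * (-2 * a ^ (2 : ℕ))) * f 7 + (x * y ^ (4 : ℕ) * (2 * b ^ (2 : ℕ)) + x
    ^ (3 : ℕ) * y ^ (2 : ℕ) * (-2 * a ^ (2 : ℕ))) * f 8 + (y ^ (5 : ℕ) * (2 * b ^ (2 : ℕ)) + x ^ (2 : ℕ) * y ^ (3 : ℕ) * (-2 * a ^ (2 : ℕ))) * f 9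

/-- `lMM` on a pair, explicitly. -/
theorem lMM_lin (h : Pt N p q a b R x y z s w) (f f' : Fin 14 → ℝ) :
    pairFun (lMM (⟨a, b, x, y⟩ : Frame) N p q) N p q x y f f' =
      (MML0 a b x y f + MML1 a b x y f + MML2 a b x y f + MML4 a b x y f' + MML5 a b x y f' +
        MML6 a b x y f') / (2 * a * b * (a * x + b * y) ^ (5 : ℕ)) := by
  obtain ⟨el, em, -⟩ := h.lam_eq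
  obtain ⟨rfl, rfl, rfl, a0, b0, M0, x0, y0, s0, D0, E0, hz⟩ := h
  subst hz
  obtain ⟨D, hD⟩ : ∃ D, D = a * x + b * y := ⟨_, rfl⟩
  obtain ⟨E, hE⟩ : ∃ E, E = b * y - a * x := ⟨_, rfl⟩
  rw [← hD] at D0
  rw [← hE] at E0
  simp only [← hD, ← hE] at el em
  simp only [pairFun, el, em, lMM, lME, lMG, lEE, lEG, lGG, natLin, NatCoef.of, blockLin, freePart, linU, linV, Frame.pA, Frame.pC, Frame.pB, Frame.D, MML0, MML1, MML2, MML4, MML5, MML6,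
    Matrix.cons_val, sub_add_cancel, one_div_one_div, one_div_div, mul_one, mul_zero, zero_mul,
    add_zero, zero_add, sub_zero, neg_zero, zero_div, ← hD]
  field_simp
  subst hD hE
  ring

/-- Part of the linear form of `lME`. -/
def MEL0 (a b x y : ℝ) (f : Fin 14 → ℝ) : ℝ :=
  (x ^ (2 : ℕ) * y ^ (2 : ℕ) * (12 * a ^ (2 : ℕ) * b ^ (3 : ℕ) + 12 * a * b ^ (4 : ℕ) - 12 * a * b ^ (3 : ℕ)) + x ^ (3 : ℕ) * y * (a ^ (3 : ℕ) *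
    b ^ (2 : ℕ) - 14 * a ^ (2 : ℕ) * b ^ (3 : ℕ) - 8 * a ^ (2 : ℕ) * b ^ (2 : ℕ) - 15 * a * b ^ (4 : ℕ) + 8 * a * b ^ (3 : ℕ) + 7 * a * b ^
    2) + x ^ (4 : ℕ) * (-3 * a ^ (4 : ℕ) * b - 10 * a ^ (3 : ℕ) * b ^ (2 : ℕ) + 4 * a ^ (3 : ℕ) * b - 7 * a ^ (2 : ℕ) * b ^ (3 : ℕ) + 8 * a
    ^ (2 : ℕ) * b ^ (2 : ℕ) - a ^ (2 : ℕ) * b)) * f 0 + (x * y ^ (3 : ℕ) * (4 * a ^ (2 : ℕ) * b ^ (3 : ℕ) + 4 * a * b ^ (4 : ℕ) - 4 * a * b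
    ^ (3 : ℕ)) + x ^ (2 : ℕ) * y ^ (2 : ℕ) * (-5 * a ^ (3 : ℕ) * b ^ (2 : ℕ) - 10 * a ^ (2 : ℕ) * b ^ (3 : ℕ) - 5 * a * b ^ (4 : ℕ) + 5 * a * b ^
    2) + x ^ (3 : ℕ) * y * (-a ^ (4 : ℕ) * b + 2 * a ^ (3 : ℕ) * b ^ (2 : ℕ) + 4 * a ^ (3 : ℕ) * b + 3 * a ^ (2 : ℕ) * b ^ (3 : ℕ) - 3 * a ^
    2 * b)) * f 1 + (x * y ^ (3 : ℕ) * (-3 * a ^ (3 : ℕ) * b ^ (2 : ℕ) - 2 * a ^ (2 : ℕ) * b ^ (3 : ℕ) + a * b ^ (4 : ℕ) - 4 * a * b ^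
    3 + 3 * a * b ^ (2 : ℕ)) + x ^ (2 : ℕ) * y ^ (2 : ℕ) * (5 * a ^ (4 : ℕ) * b + 10 * a ^ (3 : ℕ) * b ^ (2 : ℕ) + 5 * a ^ (2 : ℕ) * b ^ (3 : ℕ) -
    5 * a ^ (2 : ℕ) * b) + x ^ (3 : ℕ) * y * (-4 * a ^ (4 : ℕ) * b - 4 * a ^ (3 : ℕ) * b ^ (2 : ℕ) + 4 * a ^ (3 : ℕ) * b)) * f 2 + (y
    ^ (4 : ℕ) * (7 * a ^ (3 : ℕ) * b ^ (2 : ℕ) + 10 * a ^ (2 : ℕ) * b ^ (3 : ℕ) - 8 * a ^ (2 : ℕ) * b ^ (2 : ℕ) + 3 * a * b ^ (4 : ℕ) - 4 * a * b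
    ^ (3 : ℕ) + a * b ^ (2 : ℕ)) + x * y ^ (3 : ℕ) * (15 * a ^ (4 : ℕ) * b + 14 * a ^ (3 : ℕ) * b ^ (2 : ℕ) - 8 * a ^ (3 : ℕ) * b - a ^ (2 : ℕ) *
    b ^ (3 : ℕ) + 8 * a ^ (2 : ℕ) * b ^ (2 : ℕ) - 7 * a ^ (2 : ℕ) * b) + x ^ (2 : ℕ) * y ^ (2 : ℕ) * (-12 * a ^ (4 : ℕ) * b - 12 * a ^ (3 : ℕ) * b
    ^ (2 : ℕ) + 12 * a ^ (3 : ℕ) * b)) * f 3

/-- Part of the linear form of `lME`. -/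
def MEL1 (a b x y : ℝ) (f : Fin 14 → ℝ) : ℝ :=
  (x ^ (2 : ℕ) * y ^ (2 : ℕ) * (24 * a * b ^ (3 : ℕ)) + x ^ (3 : ℕ) * y * (16 * a ^ (2 : ℕ) * b ^ (3 : ℕ) + 2 * a ^ (2 : ℕ) * b ^ (2 : ℕ) + 16 *
    a * b ^ (4 : ℕ) - 14 * a * b ^ (3 : ℕ) - 14 * a * b ^ (2 : ℕ)) + x ^ (4 : ℕ) * (16 * a ^ (3 : ℕ) * b ^ (2 : ℕ) - 6 * a ^ (3 : ℕ) * b +
    16 * a ^ (2 : ℕ) * b ^ (3 : ℕ) + 2 * a ^ (2 : ℕ) * b ^ (2 : ℕ) + 2 * a ^ (2 : ℕ) * b)) * f 4 + (x * y ^ (3 : ℕ) * (8 * a * b ^ (3 : ℕ))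
    + x ^ (2 : ℕ) * y ^ (2 : ℕ) * (12 * a ^ (2 : ℕ) * b ^ (3 : ℕ) - 10 * a ^ (2 : ℕ) * b ^ (2 : ℕ) + 12 * a * b ^ (4 : ℕ) + 2 * a * b ^ (3 : ℕ) -
    10 * a * b ^ (2 : ℕ)) + x ^ (3 : ℕ) * y * (8 * a ^ (3 : ℕ) * b ^ (2 : ℕ) - 2 * a ^ (3 : ℕ) * b + 8 * a ^ (2 : ℕ) * b ^ (3 : ℕ) + 14 * a
    ^ (2 : ℕ) * b ^ (2 : ℕ) + 6 * a ^ (2 : ℕ) * b) + x ^ (4 : ℕ) * (-4 * a ^ (4 : ℕ) * b - 4 * a ^ (3 : ℕ) * b ^ (2 : ℕ) - 4 * a ^ (3 : ℕ) * b)) *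
    f 5 + (x * y ^ (3 : ℕ) * (4 * a ^ (2 : ℕ) * b ^ (3 : ℕ) + 4 * a * b ^ (4 : ℕ) + 12 * a * b ^ (3 : ℕ)) + x ^ (2 : ℕ) * y ^ (2 : ℕ) * (6 *
    a ^ (2 : ℕ) * b ^ (3 : ℕ) - 10 * a ^ (2 : ℕ) * b ^ (2 : ℕ) + 6 * a * b ^ (4 : ℕ) - 4 * a * b ^ (3 : ℕ) - 10 * a * b ^ (2 : ℕ)) + x ^ (3 : ℕ) *
    y * (-4 * a ^ (4 : ℕ) * b - 6 * a ^ (3 : ℕ) * b + 4 * a ^ (2 : ℕ) * b ^ (3 : ℕ) + 10 * a ^ (2 : ℕ) * b ^ (2 : ℕ) + 6 * a ^ (2 : ℕ) * b)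
    + x ^ (4 : ℕ) * (-2 * a ^ (4 : ℕ) * b - 2 * a ^ (3 : ℕ) * b ^ (2 : ℕ) - 2 * a ^ (3 : ℕ) * b)) * f 6

/-- Part of the linear form of `lME`. -/
def MEL2 (a b x y : ℝ) (f : Fin 14 → ℝ) : ℝ :=
  (y ^ (4 : ℕ) * (2 * a ^ (2 : ℕ) * b ^ (3 : ℕ) + 2 * a * b ^ (4 : ℕ) + 2 * a * b ^ (3 : ℕ)) + x * y ^ (3 : ℕ) * (-4 * a ^ (3 : ℕ) * b ^ (2 : ℕ)
    - 10 * a ^ (2 : ℕ) * b ^ (2 : ℕ) + 4 * a * b ^ (4 : ℕ) + 6 * a * b ^ (3 : ℕ) - 6 * a * b ^ (2 : ℕ)) + x ^ (2 : ℕ) * y ^ (2 : ℕ) * (-6 *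
    a ^ (4 : ℕ) * b - 6 * a ^ (3 : ℕ) * b ^ (2 : ℕ) + 4 * a ^ (3 : ℕ) * b + 10 * a ^ (2 : ℕ) * b ^ (2 : ℕ) + 10 * a ^ (2 : ℕ) * b) + x ^ (3 : ℕ) *
    y * (-4 * a ^ (4 : ℕ) * b - 4 * a ^ (3 : ℕ) * b ^ (2 : ℕ) - 12 * a ^ (3 : ℕ) * b)) * f 7 + (y ^ (4 : ℕ) * (4 * a ^ (2 : ℕ) * b ^ (3 : ℕ)
    + 4 * a * b ^ (4 : ℕ) + 4 * a * b ^ (3 : ℕ)) + x * y ^ (3 : ℕ) * (-8 * a ^ (3 : ℕ) * b ^ (2 : ℕ) - 8 * a ^ (2 : ℕ) * b ^ (3 : ℕ) - 14 *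
    a ^ (2 : ℕ) * b ^ (2 : ℕ) + 2 * a * b ^ (3 : ℕ) - 6 * a * b ^ (2 : ℕ)) + x ^ (2 : ℕ) * y ^ (2 : ℕ) * (-12 * a ^ (4 : ℕ) * b - 12 * a ^ (3 : ℕ)
    * b ^ (2 : ℕ) - 2 * a ^ (3 : ℕ) * b + 10 * a ^ (2 : ℕ) * b ^ (2 : ℕ) + 10 * a ^ (2 : ℕ) * b) + x ^ (3 : ℕ) * y * (-8 * a ^ (3 : ℕ) * b))
    * f 8 + (y ^ (4 : ℕ) * (-16 * a ^ (3 : ℕ) * b ^ (2 : ℕ) - 16 * a ^ (2 : ℕ) * b ^ (3 : ℕ) - 2 * a ^ (2 : ℕ) * b ^ (2 : ℕ) + 6 * a * b ^ (3 : ℕ)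
    - 2 * a * b ^ (2 : ℕ)) + x * y ^ (3 : ℕ) * (-16 * a ^ (4 : ℕ) * b - 16 * a ^ (3 : ℕ) * b ^ (2 : ℕ) + 14 * a ^ (3 : ℕ) * b - 2 * a
    ^ (2 : ℕ) * b ^ (2 : ℕ) + 14 * a ^ (2 : ℕ) * b) + x ^ (2 : ℕ) * y ^ (2 : ℕ) * (-24 * a ^ (3 : ℕ) * b)) * f 9

/-- Part of the linear form of `lME`. -/
def MEL4 (a b x y : ℝ) (f : Fin 14 → ℝ) : ℝ :=
  (x ^ (2 : ℕ) * y ^ (2 : ℕ) * (6 * a * b ^ (3 : ℕ) + 6 * b ^ (4 : ℕ) - 6 * b ^ (3 : ℕ)) + x ^ (3 : ℕ) * y * (-4 * a ^ (2 : ℕ) * b ^ (2 : ℕ) - 4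
    * a * b ^ (3 : ℕ) + 4 * a * b ^ (2 : ℕ)) + x ^ (4 : ℕ) * (-10 * a ^ (3 : ℕ) * b - 10 * a ^ (2 : ℕ) * b ^ (2 : ℕ) + 10 * a ^ (2 : ℕ) *
    b)) * f 0 + (x * y ^ (3 : ℕ) * (4 * a * b ^ (3 : ℕ) + 4 * b ^ (4 : ℕ) - 4 * b ^ (3 : ℕ)) + x ^ (2 : ℕ) * y ^ (2 : ℕ) * (-6 * a ^ (2 : ℕ)
    * b ^ (2 : ℕ) - 6 * a * b ^ (3 : ℕ) + 6 * a * b ^ (2 : ℕ)) + x ^ (3 : ℕ) * y * (-8 * a ^ (3 : ℕ) * b - 8 * a ^ (2 : ℕ) * b ^ (2 : ℕ) + 8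
    * a ^ (2 : ℕ) * b) + x ^ (4 : ℕ) * (2 * a ^ (4 : ℕ) + 2 * a ^ (3 : ℕ) * b - 2 * a ^ (3 : ℕ))) * f 1 + (y ^ (4 : ℕ) * (2 * a * b ^
    3 + 2 * b ^ (4 : ℕ) - 2 * b ^ (3 : ℕ)) + x * y ^ (3 : ℕ) * (-8 * a ^ (2 : ℕ) * b ^ (2 : ℕ) - 8 * a * b ^ (3 : ℕ) + 8 * a * b ^ (2 : ℕ))
    + x ^ (2 : ℕ) * y ^ (2 : ℕ) * (-6 * a ^ (3 : ℕ) * b - 6 * a ^ (2 : ℕ) * b ^ (2 : ℕ) + 6 * a ^ (2 : ℕ) * b) + x ^ (3 : ℕ) * y * (4 * a ^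
    4 + 4 * a ^ (3 : ℕ) * b - 4 * a ^ (3 : ℕ))) * f 2 + (y ^ (4 : ℕ) * (-10 * a ^ (2 : ℕ) * b ^ (2 : ℕ) - 10 * a * b ^ (3 : ℕ) + 10 *
    a * b ^ (2 : ℕ)) + x * y ^ (3 : ℕ) * (-4 * a ^ (3 : ℕ) * b - 4 * a ^ (2 : ℕ) * b ^ (2 : ℕ) + 4 * a ^ (2 : ℕ) * b) + x ^ (2 : ℕ) * y ^ (2 : ℕ)
    * (6 * a ^ (4 : ℕ) + 6 * a ^ (3 : ℕ) * b - 6 * a ^ (3 : ℕ))) * f 3

/-- Part of the linear form of `lME`. -/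
def MEL5 (a b x y : ℝ) (f : Fin 14 → ℝ) : ℝ :=
  (x ^ (2 : ℕ) * y ^ (2 : ℕ) * (12 * b ^ (3 : ℕ)) + x ^ (3 : ℕ) * y * (-8 * a * b ^ (2 : ℕ)) + x ^ (4 : ℕ) * (-20 * a ^ (2 : ℕ) * b)) * f
    4 + (x * y ^ (3 : ℕ) * (8 * b ^ (3 : ℕ)) + x ^ (2 : ℕ) * y ^ (2 : ℕ) * (-12 * a * b ^ (2 : ℕ)) + x ^ (3 : ℕ) * y * (-16 * a ^ (2 : ℕ) *
    b) + x ^ (4 : ℕ) * (4 * a ^ (3 : ℕ))) * f 5 + (x * y ^ (3 : ℕ) * (8 * b ^ (3 : ℕ)) + x ^ (2 : ℕ) * y ^ (2 : ℕ) * (-12 * a * b ^ (2 : ℕ))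
    + x ^ (3 : ℕ) * y * (-16 * a ^ (2 : ℕ) * b) + x ^ (4 : ℕ) * (4 * a ^ (3 : ℕ))) * f 6

/-- Part of the linear form of `lME`. -/
def MEL6 (a b x y : ℝ) (f : Fin 14 → ℝ) : ℝ :=
  (y ^ (4 : ℕ) * (4 * b ^ (3 : ℕ)) + x * y ^ (3 : ℕ) * (-16 * a * b ^ (2 : ℕ)) + x ^ (2 : ℕ) * y ^ (2 : ℕ) * (-12 * a ^ (2 : ℕ) * b) + x ^
    3 * y * (8 * a ^ (3 : ℕ))) * f 7 + (y ^ (4 : ℕ) * (4 * b ^ (3 : ℕ)) + x * y ^ (3 : ℕ) * (-16 * a * b ^ (2 : ℕ)) + x ^ (2 : ℕ) * y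
    ^ (2 : ℕ) * (-12 * a ^ (2 : ℕ) * b) + x ^ (3 : ℕ) * y * (8 * a ^ (3 : ℕ))) * f 8 + (y ^ (4 : ℕ) * (-20 * a * b ^ (2 : ℕ)) + x * y
    ^ (3 : ℕ) * (-8 * a ^ (2 : ℕ) * b) + x ^ (2 : ℕ) * y ^ (2 : ℕ) * (12 * a ^ (3 : ℕ))) * f 9

/-- `lME` on a pair, explicitly. -/
theorem lME_lin (h : Pt N p q a b R x y z s w) (f f' : Fin 14 → ℝ) :
    pairFun (lME (⟨a, b, x, y⟩ : Frame) N p q) N p q x y f f' =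
      (MEL0 a b x y f + MEL1 a b x y f + MEL2 a b x y f + MEL4 a b x y f' + MEL5 a b x y f' +
        MEL6 a b x y f') / (4 * a * b * (a * x + b * y) ^ (5 : ℕ)) := by
  obtain ⟨el, em, -⟩ := h.lam_eq
  obtain ⟨rfl, rfl, rfl, a0, b0, M0, x0, y0, s0, D0, E0, hz⟩ := h
  subst hz
  obtain ⟨D, hD⟩ : ∃ D, D = a * x + b * y := ⟨_, rfl⟩
  obtain ⟨E, hE⟩ : ∃ E, E = b * y - a * x := ⟨_, rfl⟩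
  rw [← hD] at D0
  rw [← hE] at E0
  simp only [← hD, ← hE] at el em
  simp only [pairFun, el, em, lMM, lME, lMG, lEE, lEG, lGG, natLin, NatCoef.of, blockLin, freePart, linU, linV, Frame.pA, Frame.pC, Frame.pB, Frame.D, MEL0, MEL1, MEL2, MEL4, MEL5, MEL6,
    Matrix.cons_val, sub_add_cancel, one_div_one_div, one_div_div, mul_one, mul_zero, zero_mul,
    add_zero, zero_add, sub_zero, neg_zero, zero_div, ← hD]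
  field_simp
  subst hD hE
  ring

/-- Part of the linear form of `lMG`. -/
def MGL0 (a b x y : ℝ) (f : Fin 14 → ℝ) : ℝ :=
  (x * y ^ (2 : ℕ) * (4 * a ^ (2 : ℕ) * b ^ (4 : ℕ) + 4 * a * b ^ (5 : ℕ) - 4 * a * b ^ (4 : ℕ)) + x ^ (2 : ℕ) * y * (-3 * a ^ (3 : ℕ) * b
    ^ (3 : ℕ) - 10 * a ^ (2 : ℕ) * b ^ (4 : ℕ) - 7 * a * b ^ (5 : ℕ) + 4 * a * b ^ (4 : ℕ) + 3 * a * b ^ (3 : ℕ)) + x ^ (3 : ℕ) * (-3 * a ^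
    4 * b ^ (2 : ℕ) - 6 * a ^ (3 : ℕ) * b ^ (3 : ℕ) + 4 * a ^ (3 : ℕ) * b ^ (2 : ℕ) - 3 * a ^ (2 : ℕ) * b ^ (4 : ℕ) + 4 * a ^ (2 : ℕ) * b ^ (3 : ℕ) - a
    ^ (2 : ℕ) * b ^ (2 : ℕ))) * f 0 + (y ^ (3 : ℕ) * (2 * a ^ (2 : ℕ) * b ^ (4 : ℕ) + 2 * a * b ^ (5 : ℕ) - 2 * a * b ^ (4 : ℕ)) + x * y ^ (2 : ℕ)
    * (-2 * a ^ (2 : ℕ) * b ^ (4 : ℕ) - 2 * a ^ (2 : ℕ) * b ^ (3 : ℕ) - 2 * a * b ^ (5 : ℕ) + 2 * a * b ^ (3 : ℕ)) + x ^ (2 : ℕ) * y * (3 *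
    a ^ (4 : ℕ) * b ^ (2 : ℕ) + 4 * a ^ (3 : ℕ) * b ^ (3 : ℕ) - 2 * a ^ (3 : ℕ) * b ^ (2 : ℕ) + a ^ (2 : ℕ) * b ^ (4 : ℕ) - a ^ (2 : ℕ) * b ^ (2 : ℕ)) + x ^ (3 : ℕ)
    * (a ^ (5 : ℕ) * b - 2 * a ^ (4 : ℕ) * b - a ^ (3 : ℕ) * b ^ (3 : ℕ) + a ^ (3 : ℕ) * b)) * f 1 + (y ^ (3 : ℕ) * (-a ^ (3 : ℕ) * b ^ (3 : ℕ) +
    a * b ^ (5 : ℕ) - 2 * a * b ^ (4 : ℕ) + a * b ^ (3 : ℕ)) + x * y ^ (2 : ℕ) * (a ^ (4 : ℕ) * b ^ (2 : ℕ) + 4 * a ^ (3 : ℕ) * b ^ (3 : ℕ) + 3 *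
    a ^ (2 : ℕ) * b ^ (4 : ℕ) - 2 * a ^ (2 : ℕ) * b ^ (3 : ℕ) - a ^ (2 : ℕ) * b ^ (2 : ℕ)) + x ^ (2 : ℕ) * y * (-2 * a ^ (5 : ℕ) * b - 2 * a ^ (4 : ℕ) *
    b ^ (2 : ℕ) - 2 * a ^ (3 : ℕ) * b ^ (2 : ℕ) + 2 * a ^ (3 : ℕ) * b) + x ^ (3 : ℕ) * (2 * a ^ (5 : ℕ) * b + 2 * a ^ (4 : ℕ) * b ^ (2 : ℕ) - 2 *
    a ^ (4 : ℕ) * b)) * f 2 + (y ^ (3 : ℕ) * (-3 * a ^ (4 : ℕ) * b ^ (2 : ℕ) - 6 * a ^ (3 : ℕ) * b ^ (3 : ℕ) + 4 * a ^ (3 : ℕ) * b ^ (2 : ℕ) - 3 *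
    a ^ (2 : ℕ) * b ^ (4 : ℕ) + 4 * a ^ (2 : ℕ) * b ^ (3 : ℕ) - a ^ (2 : ℕ) * b ^ (2 : ℕ)) + x * y ^ (2 : ℕ) * (-7 * a ^ (5 : ℕ) * b - 10 * a ^ (4 : ℕ)
    * b ^ (2 : ℕ) + 4 * a ^ (4 : ℕ) * b - 3 * a ^ (3 : ℕ) * b ^ (3 : ℕ) + 3 * a ^ (3 : ℕ) * b) + x ^ (2 : ℕ) * y * (4 * a ^ (5 : ℕ) * b + 4
    * a ^ (4 : ℕ) * b ^ (2 : ℕ) - 4 * a ^ (4 : ℕ) * b)) * f 3

/-- Part of the linear form of `lMG`. -/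
def MGL1 (a b x y : ℝ) (f : Fin 14 → ℝ) : ℝ :=
  (x * y ^ (2 : ℕ) * (8 * a * b ^ (4 : ℕ)) + x ^ (2 : ℕ) * y * (8 * a ^ (2 : ℕ) * b ^ (4 : ℕ) - 6 * a ^ (2 : ℕ) * b ^ (3 : ℕ) + 8 * a * b
    ^ (5 : ℕ) - 6 * a * b ^ (4 : ℕ) - 6 * a * b ^ (3 : ℕ)) + x ^ (3 : ℕ) * (8 * a ^ (3 : ℕ) * b ^ (3 : ℕ) - 6 * a ^ (3 : ℕ) * b ^ (2 : ℕ) + 8 * a
    ^ (2 : ℕ) * b ^ (4 : ℕ) + 2 * a ^ (2 : ℕ) * b ^ (3 : ℕ) + 2 * a ^ (2 : ℕ) * b ^ (2 : ℕ))) * f 4 + (y ^ (3 : ℕ) * (4 * a * b ^ (4 : ℕ)) + x * y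
    ^ (2 : ℕ) * (4 * a ^ (2 : ℕ) * b ^ (4 : ℕ) + 4 * a * b ^ (5 : ℕ) - 4 * a * b ^ (3 : ℕ)) + x ^ (2 : ℕ) * y * (6 * a ^ (3 : ℕ) * b ^ (2 : ℕ) + 2
    * a ^ (2 : ℕ) * b ^ (3 : ℕ) + 2 * a ^ (2 : ℕ) * b ^ (2 : ℕ)) + x ^ (3 : ℕ) * (-4 * a ^ (4 : ℕ) * b ^ (2 : ℕ) + 2 * a ^ (4 : ℕ) * b - 4 * a ^ (3 : ℕ)
    * b ^ (3 : ℕ) - 6 * a ^ (3 : ℕ) * b ^ (2 : ℕ) - 2 * a ^ (3 : ℕ) * b)) * f 5 + (y ^ (3 : ℕ) * (2 * a ^ (2 : ℕ) * b ^ (4 : ℕ) + 2 * a * b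
    ^ (5 : ℕ) - 2 * a * b ^ (4 : ℕ)) + x * y ^ (2 : ℕ) * (2 * a ^ (3 : ℕ) * b ^ (3 : ℕ) + 4 * a ^ (2 : ℕ) * b ^ (4 : ℕ) - 20 * a ^ (2 : ℕ) * b ^ (3 : ℕ)
    + 2 * a * b ^ (5 : ℕ) - 2 * a * b ^ (3 : ℕ)) + x ^ (2 : ℕ) * y * (2 * a ^ (4 : ℕ) * b ^ (2 : ℕ) + 2 * a ^ (3 : ℕ) * b ^ (3 : ℕ) - 12 * a
    ^ (3 : ℕ) * b ^ (2 : ℕ) + 6 * a ^ (2 : ℕ) * b ^ (3 : ℕ) + 6 * a ^ (2 : ℕ) * b ^ (2 : ℕ)) + x ^ (3 : ℕ) * (2 * a ^ (5 : ℕ) * b - 2 * a ^ (4 : ℕ) * b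
    - 2 * a ^ (3 : ℕ) * b ^ (3 : ℕ) - 2 * a ^ (3 : ℕ) * b ^ (2 : ℕ))) * f 6

/-- Part of the linear form of `lMG`. -/
def MGL2 (a b x y : ℝ) (f : Fin 14 → ℝ) : ℝ :=
  (y ^ (3 : ℕ) * (-2 * a ^ (3 : ℕ) * b ^ (3 : ℕ) - 2 * a ^ (2 : ℕ) * b ^ (3 : ℕ) + 2 * a * b ^ (5 : ℕ) - 2 * a * b ^ (4 : ℕ)) + x * y ^ (2 : ℕ)
    * (2 * a ^ (3 : ℕ) * b ^ (3 : ℕ) + 6 * a ^ (3 : ℕ) * b ^ (2 : ℕ) + 2 * a ^ (2 : ℕ) * b ^ (4 : ℕ) - 12 * a ^ (2 : ℕ) * b ^ (3 : ℕ) + 6 * a ^ (2 : ℕ)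
    * b ^ (2 : ℕ)) + x ^ (2 : ℕ) * y * (2 * a ^ (5 : ℕ) * b + 4 * a ^ (4 : ℕ) * b ^ (2 : ℕ) + 2 * a ^ (3 : ℕ) * b ^ (3 : ℕ) - 20 * a ^ (3 : ℕ) * b
    ^ (2 : ℕ) - 2 * a ^ (3 : ℕ) * b) + x ^ (3 : ℕ) * (2 * a ^ (5 : ℕ) * b + 2 * a ^ (4 : ℕ) * b ^ (2 : ℕ) - 2 * a ^ (4 : ℕ) * b)) * f 7 + (y
    ^ (3 : ℕ) * (-4 * a ^ (3 : ℕ) * b ^ (3 : ℕ) - 4 * a ^ (2 : ℕ) * b ^ (4 : ℕ) - 6 * a ^ (2 : ℕ) * b ^ (3 : ℕ) + 2 * a * b ^ (4 : ℕ) - 2 * a * b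
    ^ (3 : ℕ)) + x * y ^ (2 : ℕ) * (2 * a ^ (3 : ℕ) * b ^ (2 : ℕ) + 6 * a ^ (2 : ℕ) * b ^ (3 : ℕ) + 2 * a ^ (2 : ℕ) * b ^ (2 : ℕ)) + x ^ (2 : ℕ) * y *
    (4 * a ^ (5 : ℕ) * b + 4 * a ^ (4 : ℕ) * b ^ (2 : ℕ) - 4 * a ^ (3 : ℕ) * b) + x ^ (3 : ℕ) * (4 * a ^ (4 : ℕ) * b)) * f 8 + (y ^ (3 : ℕ)
    * (8 * a ^ (4 : ℕ) * b ^ (2 : ℕ) + 8 * a ^ (3 : ℕ) * b ^ (3 : ℕ) + 2 * a ^ (3 : ℕ) * b ^ (2 : ℕ) - 6 * a ^ (2 : ℕ) * b ^ (3 : ℕ) + 2 * a ^ (2 : ℕ) *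
    b ^ (2 : ℕ)) + x * y ^ (2 : ℕ) * (8 * a ^ (5 : ℕ) * b + 8 * a ^ (4 : ℕ) * b ^ (2 : ℕ) - 6 * a ^ (4 : ℕ) * b - 6 * a ^ (3 : ℕ) * b ^ (2 : ℕ) -
    6 * a ^ (3 : ℕ) * b) + x ^ (2 : ℕ) * y * (8 * a ^ (4 : ℕ) * b)) * f 9

/-- Part of the linear form of `lMG`. -/
def MGL4 (a b x y : ℝ) (f : Fin 14 → ℝ) : ℝ :=
  (x * y ^ (2 : ℕ) * (2 * a * b ^ (4 : ℕ) + 2 * b ^ (5 : ℕ) - 2 * b ^ (4 : ℕ)) + x ^ (2 : ℕ) * y * (-4 * a ^ (2 : ℕ) * b ^ (3 : ℕ) - 4 * a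
    * b ^ (4 : ℕ) + 4 * a * b ^ (3 : ℕ)) + x ^ (3 : ℕ) * (-6 * a ^ (3 : ℕ) * b ^ (2 : ℕ) - 6 * a ^ (2 : ℕ) * b ^ (3 : ℕ) + 6 * a ^ (2 : ℕ) * b ^
    2)) * f 0 + (y ^ (3 : ℕ) * (2 * a * b ^ (4 : ℕ) + 2 * b ^ (5 : ℕ) - 2 * b ^ (4 : ℕ)) + x ^ (2 : ℕ) * y * (2 * a ^ (3 : ℕ) * b ^ (2 : ℕ)
    + 2 * a ^ (2 : ℕ) * b ^ (3 : ℕ) - 2 * a ^ (2 : ℕ) * b ^ (2 : ℕ)) + x ^ (3 : ℕ) * (4 * a ^ (4 : ℕ) * b + 4 * a ^ (3 : ℕ) * b ^ (2 : ℕ) - 4 * a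
    ^ (3 : ℕ) * b)) * f 1 + (y ^ (3 : ℕ) * (-4 * a ^ (2 : ℕ) * b ^ (3 : ℕ) - 4 * a * b ^ (4 : ℕ) + 4 * a * b ^ (3 : ℕ)) + x * y ^ (2 : ℕ) *
    (-2 * a ^ (3 : ℕ) * b ^ (2 : ℕ) - 2 * a ^ (2 : ℕ) * b ^ (3 : ℕ) + 2 * a ^ (2 : ℕ) * b ^ (2 : ℕ)) + x ^ (3 : ℕ) * (-2 * a ^ (5 : ℕ) - 2 * a ^ (4 : ℕ)
    * b + 2 * a ^ (4 : ℕ))) * f 2 + (y ^ (3 : ℕ) * (6 * a ^ (3 : ℕ) * b ^ (2 : ℕ) + 6 * a ^ (2 : ℕ) * b ^ (3 : ℕ) - 6 * a ^ (2 : ℕ) * b ^ (2 : ℕ))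
    + x * y ^ (2 : ℕ) * (4 * a ^ (4 : ℕ) * b + 4 * a ^ (3 : ℕ) * b ^ (2 : ℕ) - 4 * a ^ (3 : ℕ) * b) + x ^ (2 : ℕ) * y * (-2 * a ^ (5 : ℕ) -
    2 * a ^ (4 : ℕ) * b + 2 * a ^ (4 : ℕ))) * f 3

/-- Part of the linear form of `lMG`. -/
def MGL5 (a b x y : ℝ) (f : Fin 14 → ℝ) : ℝ :=
  (x * y ^ (2 : ℕ) * (4 * b ^ (4 : ℕ)) + x ^ (2 : ℕ) * y * (-8 * a * b ^ (3 : ℕ)) + x ^ (3 : ℕ) * (-12 * a ^ (2 : ℕ) * b ^ (2 : ℕ))) * f 4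
    + (y ^ (3 : ℕ) * (4 * b ^ (4 : ℕ)) + x ^ (2 : ℕ) * y * (4 * a ^ (2 : ℕ) * b ^ (2 : ℕ)) + x ^ (3 : ℕ) * (8 * a ^ (3 : ℕ) * b)) * f 5 + (x
    * y ^ (2 : ℕ) * (-12 * a * b ^ (3 : ℕ)) + x ^ (2 : ℕ) * y * (-8 * a ^ (2 : ℕ) * b ^ (2 : ℕ)) + x ^ (3 : ℕ) * (4 * a ^ (3 : ℕ) * b)) * f
    6

/-- Part of the linear form of `lMG`. -/
def MGL6 (a b x y : ℝ) (f : Fin 14 → ℝ) : ℝ :=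
  (y ^ (3 : ℕ) * (-4 * a * b ^ (3 : ℕ)) + x * y ^ (2 : ℕ) * (8 * a ^ (2 : ℕ) * b ^ (2 : ℕ)) + x ^ (2 : ℕ) * y * (12 * a ^ (3 : ℕ) * b)) *
    f 7 + (y ^ (3 : ℕ) * (-8 * a * b ^ (3 : ℕ)) + x * y ^ (2 : ℕ) * (-4 * a ^ (2 : ℕ) * b ^ (2 : ℕ)) + x ^ (3 : ℕ) * (-4 * a ^ (4 : ℕ))) * f
    8 + (y ^ (3 : ℕ) * (12 * a ^ (2 : ℕ) * b ^ (2 : ℕ)) + x * y ^ (2 : ℕ) * (8 * a ^ (3 : ℕ) * b) + x ^ (2 : ℕ) * y * (-4 * a ^ (4 : ℕ))) *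
    f 9

/-- `lMG` on a pair, explicitly. -/
theorem lMG_lin (h : Pt N p q a b R x y z s w) (f f' : Fin 14 → ℝ) :
    pairFun (lMG (⟨a, b, x, y⟩ : Frame) N p q) N p q x y f f' =
      (MGL0 a b x y f + MGL1 a b x y f + MGL2 a b x y f + MGL4 a b x y f' + MGL5 a b x y f' +
        MGL6 a b x y f') / (4 * a * b * (a * x + b * y) ^ (5 : ℕ)) := by
  obtain ⟨el, em, -⟩ := h.lam_eq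
  obtain ⟨rfl, rfl, rfl, a0, b0, M0, x0, y0, s0, D0, E0, hz⟩ := h
  subst hz
  obtain ⟨D, hD⟩ : ∃ D, D = a * x + b * y := ⟨_, rfl⟩
  obtain ⟨E, hE⟩ : ∃ E, E = b * y - a * x := ⟨_, rfl⟩
  rw [← hD] at D0
  rw [← hE] at E0
  simp only [← hD, ← hE] at el em
  simp only [pairFun, el, em, lMM, lME, lMG, lEE, lEG, lGG, natLin, NatCoef.of, blockLin, freePart, linU, linV, Frame.pA, Frame.pC, Frame.pB, Frame.D, MGL0, MGL1, MGL2, MGL4, MGL5, MGL6,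
    Matrix.cons_val, sub_add_cancel, one_div_one_div, one_div_div, mul_one, mul_zero, zero_mul,
    add_zero, zero_add, sub_zero, neg_zero, zero_div, ← hD]
  field_simp
  subst hD hE
  ring

/-- Part of the linear form of `lEE`. -/
def EEL0 (a b x y : ℝ) (f : Fin 14 → ℝ) : ℝ :=
  (x * y ^ (2 : ℕ) * (4 * a ^ (2 : ℕ) * b ^ (4 : ℕ) + 4 * a * b ^ (5 : ℕ) - 4 * a * b ^ (4 : ℕ)) + x ^ (2 : ℕ) * y * (-3 * a ^ (3 : ℕ) * b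
    ^ (3 : ℕ) - 10 * a ^ (2 : ℕ) * b ^ (4 : ℕ) - 7 * a * b ^ (5 : ℕ) + 4 * a * b ^ (4 : ℕ) + 3 * a * b ^ (3 : ℕ)) + x ^ (3 : ℕ) * (-3 * a ^
    4 * b ^ (2 : ℕ) - 6 * a ^ (3 : ℕ) * b ^ (3 : ℕ) + 4 * a ^ (3 : ℕ) * b ^ (2 : ℕ) - 3 * a ^ (2 : ℕ) * b ^ (4 : ℕ) + 4 * a ^ (2 : ℕ) * b ^ (3 : ℕ) - a
    ^ (2 : ℕ) * b ^ (2 : ℕ))) * f 0 + (x * y ^ (2 : ℕ) * (-5 * a ^ (3 : ℕ) * b ^ (3 : ℕ) - 6 * a ^ (2 : ℕ) * b ^ (4 : ℕ) + 4 * a ^ (2 : ℕ) * b ^ (3 : ℕ)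
    - a * b ^ (5 : ℕ) + a * b ^ (3 : ℕ)) + x ^ (2 : ℕ) * y * (-a ^ (4 : ℕ) * b ^ (2 : ℕ) + 2 * a ^ (3 : ℕ) * b ^ (3 : ℕ) + 4 * a ^ (3 : ℕ) * b ^ (2 : ℕ)
    + 3 * a ^ (2 : ℕ) * b ^ (4 : ℕ) - 3 * a ^ (2 : ℕ) * b ^ (2 : ℕ))) * f 1 + (x * y ^ (2 : ℕ) * (3 * a ^ (4 : ℕ) * b ^ (2 : ℕ) + 2 * a ^ (3 : ℕ)
    * b ^ (3 : ℕ) - a ^ (2 : ℕ) * b ^ (4 : ℕ) + 4 * a ^ (2 : ℕ) * b ^ (3 : ℕ) - 3 * a ^ (2 : ℕ) * b ^ (2 : ℕ)) + x ^ (2 : ℕ) * y * (-a ^ (5 : ℕ) * b - 6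
    * a ^ (4 : ℕ) * b ^ (2 : ℕ) - 5 * a ^ (3 : ℕ) * b ^ (3 : ℕ) + 4 * a ^ (3 : ℕ) * b ^ (2 : ℕ) + a ^ (3 : ℕ) * b)) * f 2 + (y ^ (3 : ℕ) * (-3 * a
    ^ (4 : ℕ) * b ^ (2 : ℕ) - 6 * a ^ (3 : ℕ) * b ^ (3 : ℕ) + 4 * a ^ (3 : ℕ) * b ^ (2 : ℕ) - 3 * a ^ (2 : ℕ) * b ^ (4 : ℕ) + 4 * a ^ (2 : ℕ) * b ^ (3 : ℕ) -
    a ^ (2 : ℕ) * b ^ (2 : ℕ)) + x * y ^ (2 : ℕ) * (-7 * a ^ (5 : ℕ) * b - 10 * a ^ (4 : ℕ) * b ^ (2 : ℕ) + 4 * a ^ (4 : ℕ) * b - 3 * a ^ (3 : ℕ)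
    * b ^ (3 : ℕ) + 3 * a ^ (3 : ℕ) * b) + x ^ (2 : ℕ) * y * (4 * a ^ (5 : ℕ) * b + 4 * a ^ (4 : ℕ) * b ^ (2 : ℕ) - 4 * a ^ (4 : ℕ) * b)) *
    f 3

/-- Part of the linear form of `lEE`. -/
def EEL1 (a b x y : ℝ) (f : Fin 14 → ℝ) : ℝ :=
  (x * y ^ (2 : ℕ) * (8 * a * b ^ (4 : ℕ)) + x ^ (2 : ℕ) * y * (8 * a ^ (2 : ℕ) * b ^ (4 : ℕ) - 6 * a ^ (2 : ℕ) * b ^ (3 : ℕ) + 8 * a * b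
    ^ (5 : ℕ) - 6 * a * b ^ (4 : ℕ) - 6 * a * b ^ (3 : ℕ)) + x ^ (3 : ℕ) * (8 * a ^ (3 : ℕ) * b ^ (3 : ℕ) - 6 * a ^ (3 : ℕ) * b ^ (2 : ℕ) + 8 * a
    ^ (2 : ℕ) * b ^ (4 : ℕ) + 2 * a ^ (2 : ℕ) * b ^ (3 : ℕ) + 2 * a ^ (2 : ℕ) * b ^ (2 : ℕ))) * f 4 + (x * y ^ (2 : ℕ) * (4 * a ^ (2 : ℕ) * b ^ (4 : ℕ)
    - 10 * a ^ (2 : ℕ) * b ^ (3 : ℕ) + 4 * a * b ^ (5 : ℕ) + 2 * a * b ^ (4 : ℕ) - 2 * a * b ^ (3 : ℕ)) + x ^ (2 : ℕ) * y * (-2 * a ^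
    3 * b ^ (2 : ℕ) + 6 * a ^ (2 : ℕ) * b ^ (3 : ℕ) + 6 * a ^ (2 : ℕ) * b ^ (2 : ℕ)) + x ^ (3 : ℕ) * (-4 * a ^ (4 : ℕ) * b ^ (2 : ℕ) - 4 * a ^ (3 : ℕ) *
    b ^ (3 : ℕ) - 4 * a ^ (3 : ℕ) * b ^ (2 : ℕ))) * f 5 + (y ^ (3 : ℕ) * (4 * a * b ^ (4 : ℕ)) + x * y ^ (2 : ℕ) * (-4 * a ^ (3 : ℕ) * b ^ (3 : ℕ)
    - 2 * a ^ (2 : ℕ) * b ^ (4 : ℕ) - 3 * a ^ (2 : ℕ) * b ^ (3 : ℕ) + 2 * a * b ^ (5 : ℕ) - a * b ^ (4 : ℕ) - 3 * a * b ^ (3 : ℕ)) + x ^ (2 : ℕ) *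
    y * (-4 * a ^ (4 : ℕ) * b ^ (2 : ℕ) - 4 * a ^ (3 : ℕ) * b ^ (3 : ℕ) + 4 * a ^ (3 : ℕ) * b ^ (2 : ℕ) + 4 * a ^ (2 : ℕ) * b ^ (3 : ℕ) + 4 * a ^
    2 * b ^ (2 : ℕ)) + x ^ (3 : ℕ) * (-2 * a ^ (4 : ℕ) * b ^ (2 : ℕ) + 3 * a ^ (4 : ℕ) * b - 2 * a ^ (3 : ℕ) * b ^ (3 : ℕ) - 3 * a ^ (3 : ℕ) * b ^
    2 - a ^ (3 : ℕ) * b)) * f 6

/-- Part of the linear form of `lEE`. -/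
def EEL2 (a b x y : ℝ) (f : Fin 14 → ℝ) : ℝ :=
  (y ^ (3 : ℕ) * (-2 * a ^ (3 : ℕ) * b ^ (3 : ℕ) - 2 * a ^ (2 : ℕ) * b ^ (4 : ℕ) - 3 * a ^ (2 : ℕ) * b ^ (3 : ℕ) + 3 * a * b ^ (4 : ℕ) - a * b ^
    3) + x * y ^ (2 : ℕ) * (-4 * a ^ (3 : ℕ) * b ^ (3 : ℕ) + 4 * a ^ (3 : ℕ) * b ^ (2 : ℕ) - 4 * a ^ (2 : ℕ) * b ^ (4 : ℕ) + 4 * a ^ (2 : ℕ) * b ^
    3 + 4 * a ^ (2 : ℕ) * b ^ (2 : ℕ)) + x ^ (2 : ℕ) * y * (2 * a ^ (5 : ℕ) * b - 2 * a ^ (4 : ℕ) * b ^ (2 : ℕ) - a ^ (4 : ℕ) * b - 4 * a ^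
    3 * b ^ (3 : ℕ) - 3 * a ^ (3 : ℕ) * b ^ (2 : ℕ) - 3 * a ^ (3 : ℕ) * b) + x ^ (3 : ℕ) * (4 * a ^ (4 : ℕ) * b)) * f 7 + (y ^ (3 : ℕ) * (-4
    * a ^ (3 : ℕ) * b ^ (3 : ℕ) - 4 * a ^ (2 : ℕ) * b ^ (4 : ℕ) - 4 * a ^ (2 : ℕ) * b ^ (3 : ℕ)) + x * y ^ (2 : ℕ) * (6 * a ^ (3 : ℕ) * b ^ (2 : ℕ) - 2
    * a ^ (2 : ℕ) * b ^ (3 : ℕ) + 6 * a ^ (2 : ℕ) * b ^ (2 : ℕ)) + x ^ (2 : ℕ) * y * (4 * a ^ (5 : ℕ) * b + 4 * a ^ (4 : ℕ) * b ^ (2 : ℕ) + 2 * a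
    ^ (4 : ℕ) * b - 10 * a ^ (3 : ℕ) * b ^ (2 : ℕ) - 2 * a ^ (3 : ℕ) * b)) * f 8 + (y ^ (3 : ℕ) * (8 * a ^ (4 : ℕ) * b ^ (2 : ℕ) + 8 * a ^ (3 : ℕ)
    * b ^ (3 : ℕ) + 2 * a ^ (3 : ℕ) * b ^ (2 : ℕ) - 6 * a ^ (2 : ℕ) * b ^ (3 : ℕ) + 2 * a ^ (2 : ℕ) * b ^ (2 : ℕ)) + x * y ^ (2 : ℕ) * (8 * a ^ (5 : ℕ)
    * b + 8 * a ^ (4 : ℕ) * b ^ (2 : ℕ) - 6 * a ^ (4 : ℕ) * b - 6 * a ^ (3 : ℕ) * b ^ (2 : ℕ) - 6 * a ^ (3 : ℕ) * b) + x ^ (2 : ℕ) * y * (8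
    * a ^ (4 : ℕ) * b)) * f 9

/-- Part of the linear form of `lEE`. -/
def EEL4 (a b x y : ℝ) (f : Fin 14 → ℝ) : ℝ :=
  (x * y ^ (2 : ℕ) * (2 * a * b ^ (4 : ℕ) + 2 * b ^ (5 : ℕ) - 2 * b ^ (4 : ℕ)) + x ^ (2 : ℕ) * y * (-4 * a ^ (2 : ℕ) * b ^ (3 : ℕ) - 4 * a
    * b ^ (4 : ℕ) + 4 * a * b ^ (3 : ℕ)) + x ^ (3 : ℕ) * (-6 * a ^ (3 : ℕ) * b ^ (2 : ℕ) - 6 * a ^ (2 : ℕ) * b ^ (3 : ℕ) + 6 * a ^ (2 : ℕ) * b ^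
    2)) * f 0 + (x * y ^ (2 : ℕ) * (-6 * a ^ (2 : ℕ) * b ^ (3 : ℕ) - 6 * a * b ^ (4 : ℕ) + 6 * a * b ^ (3 : ℕ)) + x ^ (2 : ℕ) * y *
    (-4 * a ^ (3 : ℕ) * b ^ (2 : ℕ) - 4 * a ^ (2 : ℕ) * b ^ (3 : ℕ) + 4 * a ^ (2 : ℕ) * b ^ (2 : ℕ)) + x ^ (3 : ℕ) * (2 * a ^ (4 : ℕ) * b + 2 * a
    ^ (3 : ℕ) * b ^ (2 : ℕ) - 2 * a ^ (3 : ℕ) * b)) * f 1 + (y ^ (3 : ℕ) * (-2 * a ^ (2 : ℕ) * b ^ (3 : ℕ) - 2 * a * b ^ (4 : ℕ) + 2 * a * b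
    ^ (3 : ℕ)) + x * y ^ (2 : ℕ) * (4 * a ^ (3 : ℕ) * b ^ (2 : ℕ) + 4 * a ^ (2 : ℕ) * b ^ (3 : ℕ) - 4 * a ^ (2 : ℕ) * b ^ (2 : ℕ)) + x ^ (2 : ℕ) * y *
    (6 * a ^ (4 : ℕ) * b + 6 * a ^ (3 : ℕ) * b ^ (2 : ℕ) - 6 * a ^ (3 : ℕ) * b)) * f 2 + (y ^ (3 : ℕ) * (6 * a ^ (3 : ℕ) * b ^ (2 : ℕ) + 6 *
    a ^ (2 : ℕ) * b ^ (3 : ℕ) - 6 * a ^ (2 : ℕ) * b ^ (2 : ℕ)) + x * y ^ (2 : ℕ) * (4 * a ^ (4 : ℕ) * b + 4 * a ^ (3 : ℕ) * b ^ (2 : ℕ) - 4 * a ^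
    3 * b) + x ^ (2 : ℕ) * y * (-2 * a ^ (5 : ℕ) - 2 * a ^ (4 : ℕ) * b + 2 * a ^ (4 : ℕ))) * f 3

/-- Part of the linear form of `lEE`. -/
def EEL5 (a b x y : ℝ) (f : Fin 14 → ℝ) : ℝ :=
  (x * y ^ (2 : ℕ) * (4 * b ^ (4 : ℕ)) + x ^ (2 : ℕ) * y * (-8 * a * b ^ (3 : ℕ)) + x ^ (3 : ℕ) * (-12 * a ^ (2 : ℕ) * b ^ (2 : ℕ))) * f 4
    + (x * y ^ (2 : ℕ) * (-12 * a * b ^ (3 : ℕ)) + x ^ (2 : ℕ) * y * (-8 * a ^ (2 : ℕ) * b ^ (2 : ℕ)) + x ^ (3 : ℕ) * (4 * a ^ (3 : ℕ) * b))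
    * f 5 + (y ^ (3 : ℕ) * (2 * b ^ (4 : ℕ)) + x * y ^ (2 : ℕ) * (-6 * a * b ^ (3 : ℕ)) + x ^ (2 : ℕ) * y * (-2 * a ^ (2 : ℕ) * b ^ (2 : ℕ))
    + x ^ (3 : ℕ) * (6 * a ^ (3 : ℕ) * b)) * f 6

/-- Part of the linear form of `lEE`. -/
def EEL6 (a b x y : ℝ) (f : Fin 14 → ℝ) : ℝ :=
  (y ^ (3 : ℕ) * (-6 * a * b ^ (3 : ℕ)) + x * y ^ (2 : ℕ) * (2 * a ^ (2 : ℕ) * b ^ (2 : ℕ)) + x ^ (2 : ℕ) * y * (6 * a ^ (3 : ℕ) * b) + x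
    ^ (3 : ℕ) * (-2 * a ^ (4 : ℕ))) * f 7 + (y ^ (3 : ℕ) * (-4 * a * b ^ (3 : ℕ)) + x * y ^ (2 : ℕ) * (8 * a ^ (2 : ℕ) * b ^ (2 : ℕ)) + x ^
    2 * y * (12 * a ^ (3 : ℕ) * b)) * f 8 + (y ^ (3 : ℕ) * (12 * a ^ (2 : ℕ) * b ^ (2 : ℕ)) + x * y ^ (2 : ℕ) * (8 * a ^ (3 : ℕ) * b)
    + x ^ (2 : ℕ) * y * (-4 * a ^ (4 : ℕ))) * f 9

/-- `lEE` on a pair, explicitly. -/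
theorem lEE_lin (h : Pt N p q a b R x y z s w) (f f' : Fin 14 → ℝ) :
    pairFun (lEE (⟨a, b, x, y⟩ : Frame) N p q) N p q x y f f' =
      (EEL0 a b x y f + EEL1 a b x y f + EEL2 a b x y f + EEL4 a b x y f' + EEL5 a b x y f' +
        EEL6 a b x y f') / (2 * a * b * (a * x + b * y) ^ (5 : ℕ)) := by
  obtain ⟨el, em, -⟩ := h.lam_eq
  obtain ⟨rfl, rfl, rfl, a0, b0, M0, x0, y0, s0, D0, E0, hz⟩ := h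
  subst hz
  obtain ⟨D, hD⟩ : ∃ D, D = a * x + b * y := ⟨_, rfl⟩
  obtain ⟨E, hE⟩ : ∃ E, E = b * y - a * x := ⟨_, rfl⟩
  rw [← hD] at D0
  rw [← hE] at E0
  simp only [← hD, ← hE] at el em
  simp only [pairFun, el, em, lMM, lME, lMG, lEE, lEG, lGG, natLin, NatCoef.of, blockLin, freePart, linU, linV, Frame.pA, Frame.pC, Frame.pB, Frame.D, EEL0, EEL1, EEL2, EEL4, EEL5, EEL6,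
    Matrix.cons_val, sub_add_cancel, one_div_one_div, one_div_div, mul_one, mul_zero, zero_mul,
    add_zero, zero_add, sub_zero, neg_zero, zero_div, ← hD]
  field_simp
  subst hD hE
  ring

/-- Part of the linear form of `lEG`. -/
def EGL0 (a b x y : ℝ) (f : Fin 14 → ℝ) : ℝ :=
  (y ^ (2 : ℕ) * (4 * a ^ (2 : ℕ) * b ^ (5 : ℕ) + 4 * a * b ^ (6 : ℕ) - 4 * a * b ^ (5 : ℕ)) + x * y * (-13 * a ^ (3 : ℕ) * b ^ (4 : ℕ) -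
    26 * a ^ (2 : ℕ) * b ^ (5 : ℕ) + 8 * a ^ (2 : ℕ) * b ^ (4 : ℕ) - 13 * a * b ^ (6 : ℕ) + 8 * a * b ^ (5 : ℕ) + 5 * a * b ^ (4 : ℕ)) + x ^
    2 * (-9 * a ^ (4 : ℕ) * b ^ (3 : ℕ) - 14 * a ^ (3 : ℕ) * b ^ (4 : ℕ) + 12 * a ^ (3 : ℕ) * b ^ (3 : ℕ) - 5 * a ^ (2 : ℕ) * b ^ (5 : ℕ) + 8 * a
    ^ (2 : ℕ) * b ^ (4 : ℕ) - 3 * a ^ (2 : ℕ) * b ^ (3 : ℕ))) * f 0 + (y ^ (2 : ℕ) * (-5 * a ^ (3 : ℕ) * b ^ (4 : ℕ) - 6 * a ^ (2 : ℕ) * b ^ (5 : ℕ) + 4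
    * a ^ (2 : ℕ) * b ^ (4 : ℕ) - a * b ^ (6 : ℕ) + a * b ^ (4 : ℕ)) + x * y * (5 * a ^ (4 : ℕ) * b ^ (3 : ℕ) + 10 * a ^ (3 : ℕ) * b ^ (4 : ℕ) + 5
    * a ^ (2 : ℕ) * b ^ (5 : ℕ) - 5 * a ^ (2 : ℕ) * b ^ (3 : ℕ)) + x ^ (2 : ℕ) * (2 * a ^ (5 : ℕ) * b ^ (2 : ℕ) - 4 * a ^ (4 : ℕ) * b ^ (2 : ℕ) - 2 * a
    ^ (3 : ℕ) * b ^ (4 : ℕ) + 2 * a ^ (3 : ℕ) * b ^ (2 : ℕ))) * f 1 + (y ^ (2 : ℕ) * (2 * a ^ (4 : ℕ) * b ^ (3 : ℕ) - 2 * a ^ (2 : ℕ) * b ^ (5 : ℕ) + 4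
    * a ^ (2 : ℕ) * b ^ (4 : ℕ) - 2 * a ^ (2 : ℕ) * b ^ (3 : ℕ)) + x * y * (-5 * a ^ (5 : ℕ) * b ^ (2 : ℕ) - 10 * a ^ (4 : ℕ) * b ^ (3 : ℕ) - 5 *
    a ^ (3 : ℕ) * b ^ (4 : ℕ) + 5 * a ^ (3 : ℕ) * b ^ (2 : ℕ)) + x ^ (2 : ℕ) * (a ^ (6 : ℕ) * b + 6 * a ^ (5 : ℕ) * b ^ (2 : ℕ) + 5 * a ^ (4 : ℕ) * b ^
    3 - 4 * a ^ (4 : ℕ) * b ^ (2 : ℕ) - a ^ (4 : ℕ) * b)) * f 2 + (y ^ (2 : ℕ) * (5 * a ^ (5 : ℕ) * b ^ (2 : ℕ) + 14 * a ^ (4 : ℕ) * b ^ (3 : ℕ) -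
    8 * a ^ (4 : ℕ) * b ^ (2 : ℕ) + 9 * a ^ (3 : ℕ) * b ^ (4 : ℕ) - 12 * a ^ (3 : ℕ) * b ^ (3 : ℕ) + 3 * a ^ (3 : ℕ) * b ^ (2 : ℕ)) + x * y * (13
    * a ^ (6 : ℕ) * b + 26 * a ^ (5 : ℕ) * b ^ (2 : ℕ) - 8 * a ^ (5 : ℕ) * b + 13 * a ^ (4 : ℕ) * b ^ (3 : ℕ) - 8 * a ^ (4 : ℕ) * b ^ (2 : ℕ) - 5
    * a ^ (4 : ℕ) * b) + x ^ (2 : ℕ) * (-4 * a ^ (6 : ℕ) * b - 4 * a ^ (5 : ℕ) * b ^ (2 : ℕ) + 4 * a ^ (5 : ℕ) * b)) * f 3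

/-- Part of the linear form of `lEG`. -/
def EGL1 (a b x y : ℝ) (f : Fin 14 → ℝ) : ℝ :=
  (y ^ (2 : ℕ) * (8 * a * b ^ (5 : ℕ)) + x * y * (16 * a ^ (2 : ℕ) * b ^ (5 : ℕ) - 26 * a ^ (2 : ℕ) * b ^ (4 : ℕ) + 16 * a * b ^ (6 : ℕ) -
    10 * a * b ^ (5 : ℕ) - 10 * a * b ^ (4 : ℕ)) + x ^ (2 : ℕ) * (16 * a ^ (3 : ℕ) * b ^ (4 : ℕ) - 18 * a ^ (3 : ℕ) * b ^ (3 : ℕ) + 16 * a ^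
    2 * b ^ (5 : ℕ) + 6 * a ^ (2 : ℕ) * b ^ (4 : ℕ) + 6 * a ^ (2 : ℕ) * b ^ (3 : ℕ))) * f 4 + (y ^ (2 : ℕ) * (4 * a ^ (2 : ℕ) * b ^ (5 : ℕ) - 10 *
    a ^ (2 : ℕ) * b ^ (4 : ℕ) + 4 * a * b ^ (6 : ℕ) + 2 * a * b ^ (5 : ℕ) - 2 * a * b ^ (4 : ℕ)) + x * y * (-8 * a ^ (3 : ℕ) * b ^ (4 : ℕ) +
    10 * a ^ (3 : ℕ) * b ^ (3 : ℕ) - 8 * a ^ (2 : ℕ) * b ^ (5 : ℕ) + 2 * a ^ (2 : ℕ) * b ^ (4 : ℕ) + 10 * a ^ (2 : ℕ) * b ^ (3 : ℕ)) + x ^ (2 : ℕ) *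
    (-12 * a ^ (4 : ℕ) * b ^ (3 : ℕ) + 4 * a ^ (4 : ℕ) * b ^ (2 : ℕ) - 12 * a ^ (3 : ℕ) * b ^ (4 : ℕ) - 16 * a ^ (3 : ℕ) * b ^ (3 : ℕ) - 4 * a ^ (3 : ℕ)
    * b ^ (2 : ℕ))) * f 5 + (y ^ (2 : ℕ) * (-4 * a ^ (3 : ℕ) * b ^ (4 : ℕ) - 2 * a ^ (2 : ℕ) * b ^ (5 : ℕ) - 14 * a ^ (2 : ℕ) * b ^ (4 : ℕ) + 2 *
    a * b ^ (6 : ℕ) - 2 * a * b ^ (4 : ℕ)) + x * y * (-4 * a ^ (3 : ℕ) * b ^ (4 : ℕ) + 10 * a ^ (3 : ℕ) * b ^ (3 : ℕ) - 4 * a ^ (2 : ℕ) * b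
    ^ (5 : ℕ) + 6 * a ^ (2 : ℕ) * b ^ (4 : ℕ) + 10 * a ^ (2 : ℕ) * b ^ (3 : ℕ)) + x ^ (2 : ℕ) * (4 * a ^ (5 : ℕ) * b ^ (2 : ℕ) - 2 * a ^ (4 : ℕ) * b ^ (3 : ℕ)
    + 8 * a ^ (4 : ℕ) * b ^ (2 : ℕ) - 6 * a ^ (3 : ℕ) * b ^ (4 : ℕ) - 10 * a ^ (3 : ℕ) * b ^ (3 : ℕ) - 4 * a ^ (3 : ℕ) * b ^ (2 : ℕ))) * f 6

/-- Part of the linear form of `lEG`. -/
def EGL2 (a b x y : ℝ) (f : Fin 14 → ℝ) : ℝ :=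
  (y ^ (2 : ℕ) * (6 * a ^ (4 : ℕ) * b ^ (3 : ℕ) + 2 * a ^ (3 : ℕ) * b ^ (4 : ℕ) + 10 * a ^ (3 : ℕ) * b ^ (3 : ℕ) - 4 * a ^ (2 : ℕ) * b ^ (5 : ℕ) - 8 *
    a ^ (2 : ℕ) * b ^ (4 : ℕ) + 4 * a ^ (2 : ℕ) * b ^ (3 : ℕ)) + x * y * (4 * a ^ (5 : ℕ) * b ^ (2 : ℕ) + 4 * a ^ (4 : ℕ) * b ^ (3 : ℕ) - 6 * a ^
    4 * b ^ (2 : ℕ) - 10 * a ^ (3 : ℕ) * b ^ (3 : ℕ) - 10 * a ^ (3 : ℕ) * b ^ (2 : ℕ)) + x ^ (2 : ℕ) * (-2 * a ^ (6 : ℕ) * b + 2 * a ^ (5 : ℕ) * b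
    ^ (2 : ℕ) + 4 * a ^ (4 : ℕ) * b ^ (3 : ℕ) + 14 * a ^ (4 : ℕ) * b ^ (2 : ℕ) + 2 * a ^ (4 : ℕ) * b)) * f 7 + (y ^ (2 : ℕ) * (12 * a ^ (4 : ℕ) *
    b ^ (3 : ℕ) + 12 * a ^ (3 : ℕ) * b ^ (4 : ℕ) + 16 * a ^ (3 : ℕ) * b ^ (3 : ℕ) - 4 * a ^ (2 : ℕ) * b ^ (4 : ℕ) + 4 * a ^ (2 : ℕ) * b ^ (3 : ℕ)) + x *
    y * (8 * a ^ (5 : ℕ) * b ^ (2 : ℕ) + 8 * a ^ (4 : ℕ) * b ^ (3 : ℕ) - 2 * a ^ (4 : ℕ) * b ^ (2 : ℕ) - 10 * a ^ (3 : ℕ) * b ^ (3 : ℕ) - 10 * a ^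
    3 * b ^ (2 : ℕ)) + x ^ (2 : ℕ) * (-4 * a ^ (6 : ℕ) * b - 4 * a ^ (5 : ℕ) * b ^ (2 : ℕ) - 2 * a ^ (5 : ℕ) * b + 10 * a ^ (4 : ℕ) * b ^ (2 : ℕ)
    + 2 * a ^ (4 : ℕ) * b)) * f 8 + (y ^ (2 : ℕ) * (-16 * a ^ (5 : ℕ) * b ^ (2 : ℕ) - 16 * a ^ (4 : ℕ) * b ^ (3 : ℕ) - 6 * a ^ (4 : ℕ) * b ^
    2 + 18 * a ^ (3 : ℕ) * b ^ (3 : ℕ) - 6 * a ^ (3 : ℕ) * b ^ (2 : ℕ)) + x * y * (-16 * a ^ (6 : ℕ) * b - 16 * a ^ (5 : ℕ) * b ^ (2 : ℕ) +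
    10 * a ^ (5 : ℕ) * b + 26 * a ^ (4 : ℕ) * b ^ (2 : ℕ) + 10 * a ^ (4 : ℕ) * b) + x ^ (2 : ℕ) * (-8 * a ^ (5 : ℕ) * b)) * f 9

/-- Part of the linear form of `lEG`. -/
def EGL4 (a b x y : ℝ) (f : Fin 14 → ℝ) : ℝ :=
  (y ^ (2 : ℕ) * (2 * a * b ^ (5 : ℕ) + 2 * b ^ (6 : ℕ) - 2 * b ^ (5 : ℕ)) + x * y * (-12 * a ^ (2 : ℕ) * b ^ (4 : ℕ) - 12 * a * b ^
    5 + 12 * a * b ^ (4 : ℕ)) + x ^ (2 : ℕ) * (-14 * a ^ (3 : ℕ) * b ^ (3 : ℕ) - 14 * a ^ (2 : ℕ) * b ^ (4 : ℕ) + 14 * a ^ (2 : ℕ) * b ^ (3 : ℕ)))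
    * f 0 + (y ^ (2 : ℕ) * (-6 * a ^ (2 : ℕ) * b ^ (4 : ℕ) - 6 * a * b ^ (5 : ℕ) + 6 * a * b ^ (4 : ℕ)) + x * y * (4 * a ^ (3 : ℕ) * b
    ^ (3 : ℕ) + 4 * a ^ (2 : ℕ) * b ^ (4 : ℕ) - 4 * a ^ (2 : ℕ) * b ^ (3 : ℕ)) + x ^ (2 : ℕ) * (10 * a ^ (4 : ℕ) * b ^ (2 : ℕ) + 10 * a ^ (3 : ℕ) * b ^
    3 - 10 * a ^ (3 : ℕ) * b ^ (2 : ℕ))) * f 1 + (y ^ (2 : ℕ) * (10 * a ^ (3 : ℕ) * b ^ (3 : ℕ) + 10 * a ^ (2 : ℕ) * b ^ (4 : ℕ) - 10 * a ^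
    2 * b ^ (3 : ℕ)) + x * y * (4 * a ^ (4 : ℕ) * b ^ (2 : ℕ) + 4 * a ^ (3 : ℕ) * b ^ (3 : ℕ) - 4 * a ^ (3 : ℕ) * b ^ (2 : ℕ)) + x ^ (2 : ℕ) * (-6
    * a ^ (5 : ℕ) * b - 6 * a ^ (4 : ℕ) * b ^ (2 : ℕ) + 6 * a ^ (4 : ℕ) * b)) * f 2 + (y ^ (2 : ℕ) * (-14 * a ^ (4 : ℕ) * b ^ (2 : ℕ) - 14 *
    a ^ (3 : ℕ) * b ^ (3 : ℕ) + 14 * a ^ (3 : ℕ) * b ^ (2 : ℕ)) + x * y * (-12 * a ^ (5 : ℕ) * b - 12 * a ^ (4 : ℕ) * b ^ (2 : ℕ) + 12 * a ^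
    4 * b) + x ^ (2 : ℕ) * (2 * a ^ (6 : ℕ) + 2 * a ^ (5 : ℕ) * b - 2 * a ^ (5 : ℕ))) * f 3

/-- Part of the linear form of `lEG`. -/
def EGL5 (a b x y : ℝ) (f : Fin 14 → ℝ) : ℝ :=
  (y ^ (2 : ℕ) * (4 * b ^ (5 : ℕ)) + x * y * (-24 * a * b ^ (4 : ℕ)) + x ^ (2 : ℕ) * (-28 * a ^ (2 : ℕ) * b ^ (3 : ℕ))) * f 4 + (y ^
    2 * (-12 * a * b ^ (4 : ℕ)) + x * y * (8 * a ^ (2 : ℕ) * b ^ (3 : ℕ)) + x ^ (2 : ℕ) * (20 * a ^ (3 : ℕ) * b ^ (2 : ℕ))) * f 5 + (y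
    ^ (2 : ℕ) * (-12 * a * b ^ (4 : ℕ)) + x * y * (8 * a ^ (2 : ℕ) * b ^ (3 : ℕ)) + x ^ (2 : ℕ) * (20 * a ^ (3 : ℕ) * b ^ (2 : ℕ))) * f 6

/-- Part of the linear form of `lEG`. -/
def EGL6 (a b x y : ℝ) (f : Fin 14 → ℝ) : ℝ :=
  (y ^ (2 : ℕ) * (20 * a ^ (2 : ℕ) * b ^ (3 : ℕ)) + x * y * (8 * a ^ (3 : ℕ) * b ^ (2 : ℕ)) + x ^ (2 : ℕ) * (-12 * a ^ (4 : ℕ) * b)) * f 7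
    + (y ^ (2 : ℕ) * (20 * a ^ (2 : ℕ) * b ^ (3 : ℕ)) + x * y * (8 * a ^ (3 : ℕ) * b ^ (2 : ℕ)) + x ^ (2 : ℕ) * (-12 * a ^ (4 : ℕ) * b)) * f
    8 + (y ^ (2 : ℕ) * (-28 * a ^ (3 : ℕ) * b ^ (2 : ℕ)) + x * y * (-24 * a ^ (4 : ℕ) * b) + x ^ (2 : ℕ) * (4 * a ^ (5 : ℕ))) * f 9

/-- `lEG` on a pair, explicitly. -/
theorem lEG_lin (h : Pt N p q a b R x y z s w) (f f' : Fin 14 → ℝ) :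
    pairFun (lEG (⟨a, b, x, y⟩ : Frame) N p q) N p q x y f f' =
      (EGL0 a b x y f + EGL1 a b x y f + EGL2 a b x y f + EGL4 a b x y f' + EGL5 a b x y f' +
        EGL6 a b x y f') / (4 * a * b * (a * x + b * y) ^ (5 : ℕ)) := by
  obtain ⟨el, em, -⟩ := h.lam_eq
  obtain ⟨rfl, rfl, rfl, a0, b0, M0, x0, y0, s0, D0, E0, hz⟩ := h
  subst hz
  obtain ⟨D, hD⟩ : ∃ D, D = a * x + b * y := ⟨_, rfl⟩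
  obtain ⟨E, hE⟩ : ∃ E, E = b * y - a * x := ⟨_, rfl⟩
  rw [← hD] at D0
  rw [← hE] at E0
  simp only [← hD, ← hE] at el em
  simp only [pairFun, el, em, lMM, lME, lMG, lEE, lEG, lGG, natLin, NatCoef.of, blockLin, freePart, linU, linV, Frame.pA, Frame.pC, Frame.pB, Frame.D, EGL0, EGL1, EGL2, EGL4, EGL5, EGL6,
    Matrix.cons_val, sub_add_cancel, one_div_one_div, one_div_div, mul_one, mul_zero, zero_mul,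
    add_zero, zero_add, sub_zero, neg_zero, zero_div, ← hD]
  field_simp
  subst hD hE
  ring

/-- Part of the linear form of `lGG`. -/
def GGL0 (a b x y : ℝ) (f : Fin 14 → ℝ) : ℝ :=
  (y * (-5 * a ^ (2 : ℕ) * b ^ (4 : ℕ) - 8 * a * b ^ (5 : ℕ) + 4 * a * b ^ (4 : ℕ) - 3 * b ^ (6 : ℕ) + 2 * b ^ (5 : ℕ) + b ^ (4 : ℕ)) + x
    * (-3 * a ^ (3 : ℕ) * b ^ (3 : ℕ) - 4 * a ^ (2 : ℕ) * b ^ (4 : ℕ) + 4 * a ^ (2 : ℕ) * b ^ (3 : ℕ) - a * b ^ (5 : ℕ) + 2 * a * b ^ (4 : ℕ) - a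
    * b ^ (3 : ℕ))) * f 0 + (y * (3 * a ^ (3 : ℕ) * b ^ (3 : ℕ) + 4 * a ^ (2 : ℕ) * b ^ (4 : ℕ) - 2 * a ^ (2 : ℕ) * b ^ (3 : ℕ) + a * b ^ (5 : ℕ)
    - a * b ^ (3 : ℕ)) + x * (a ^ (4 : ℕ) * b ^ (2 : ℕ) - 2 * a ^ (3 : ℕ) * b ^ (2 : ℕ) - a ^ (2 : ℕ) * b ^ (4 : ℕ) + a ^ (2 : ℕ) * b ^ (2 : ℕ))) * f 1
    + (y * (-a ^ (4 : ℕ) * b ^ (2 : ℕ) + a ^ (2 : ℕ) * b ^ (4 : ℕ) - 2 * a ^ (2 : ℕ) * b ^ (3 : ℕ) + a ^ (2 : ℕ) * b ^ (2 : ℕ)) + x * (a ^ (5 : ℕ) * b +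
    4 * a ^ (4 : ℕ) * b ^ (2 : ℕ) + 3 * a ^ (3 : ℕ) * b ^ (3 : ℕ) - 2 * a ^ (3 : ℕ) * b ^ (2 : ℕ) - a ^ (3 : ℕ) * b)) * f 2 + (y * (-a ^ (5 : ℕ) *
    b - 4 * a ^ (4 : ℕ) * b ^ (2 : ℕ) + 2 * a ^ (4 : ℕ) * b - 3 * a ^ (3 : ℕ) * b ^ (3 : ℕ) + 4 * a ^ (3 : ℕ) * b ^ (2 : ℕ) - a ^ (3 : ℕ) * b) + x
    * (-3 * a ^ (6 : ℕ) - 8 * a ^ (5 : ℕ) * b + 2 * a ^ (5 : ℕ) - 5 * a ^ (4 : ℕ) * b ^ (2 : ℕ) + 4 * a ^ (4 : ℕ) * b + a ^ (4 : ℕ))) * f 3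

/-- Part of the linear form of `lGG`. -/
def GGL1 (a b x y : ℝ) (f : Fin 14 → ℝ) : ℝ :=
  (y * (4 * a * b ^ (5 : ℕ) - 10 * a * b ^ (4 : ℕ) + 4 * b ^ (6 : ℕ) - 2 * b ^ (5 : ℕ) - 2 * b ^ (4 : ℕ)) + x * (4 * a ^ (2 : ℕ) * b
    ^ (4 : ℕ) - 6 * a ^ (2 : ℕ) * b ^ (3 : ℕ) + 4 * a * b ^ (5 : ℕ) + 2 * a * b ^ (4 : ℕ) + 2 * a * b ^ (3 : ℕ))) * f 4 + (y * (-4 * a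
    ^ (2 : ℕ) * b ^ (4 : ℕ) + 6 * a ^ (2 : ℕ) * b ^ (3 : ℕ) - 4 * a * b ^ (5 : ℕ) - 2 * a * b ^ (4 : ℕ) + 2 * a * b ^ (3 : ℕ)) + x * (-4 * a
    ^ (3 : ℕ) * b ^ (3 : ℕ) + 2 * a ^ (3 : ℕ) * b ^ (2 : ℕ) - 4 * a ^ (2 : ℕ) * b ^ (4 : ℕ) - 6 * a ^ (2 : ℕ) * b ^ (3 : ℕ) - 2 * a ^ (2 : ℕ) * b ^ (2 : ℕ)))
    * f 5 + (y * (2 * a ^ (3 : ℕ) * b ^ (3 : ℕ) + 8 * a ^ (2 : ℕ) * b ^ (3 : ℕ) - 2 * a * b ^ (5 : ℕ) + 2 * a * b ^ (3 : ℕ)) + x * (2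
    * a ^ (4 : ℕ) * b ^ (2 : ℕ) + 4 * a ^ (3 : ℕ) * b ^ (2 : ℕ) - 2 * a ^ (2 : ℕ) * b ^ (4 : ℕ) - 4 * a ^ (2 : ℕ) * b ^ (3 : ℕ) - 2 * a ^ (2 : ℕ) * b ^
    2)) * f 6

/-- Part of the linear form of `lGG`. -/
def GGL2 (a b x y : ℝ) (f : Fin 14 → ℝ) : ℝ :=
  (y * (-2 * a ^ (4 : ℕ) * b ^ (2 : ℕ) - 4 * a ^ (3 : ℕ) * b ^ (2 : ℕ) + 2 * a ^ (2 : ℕ) * b ^ (4 : ℕ) + 4 * a ^ (2 : ℕ) * b ^ (3 : ℕ) - 2 * a ^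
    2 * b ^ (2 : ℕ)) + x * (-2 * a ^ (5 : ℕ) * b + 2 * a ^ (3 : ℕ) * b ^ (3 : ℕ) + 8 * a ^ (3 : ℕ) * b ^ (2 : ℕ) + 2 * a ^ (3 : ℕ) * b)) * f
    7 + (y * (-4 * a ^ (4 : ℕ) * b ^ (2 : ℕ) - 4 * a ^ (3 : ℕ) * b ^ (3 : ℕ) - 6 * a ^ (3 : ℕ) * b ^ (2 : ℕ) + 2 * a ^ (2 : ℕ) * b ^ (3 : ℕ) - 2 *
    a ^ (2 : ℕ) * b ^ (2 : ℕ)) + x * (-4 * a ^ (5 : ℕ) * b - 4 * a ^ (4 : ℕ) * b ^ (2 : ℕ) - 2 * a ^ (4 : ℕ) * b + 6 * a ^ (3 : ℕ) * b ^ (2 : ℕ) +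
    2 * a ^ (3 : ℕ) * b)) * f 8 + (y * (4 * a ^ (5 : ℕ) * b + 4 * a ^ (4 : ℕ) * b ^ (2 : ℕ) + 2 * a ^ (4 : ℕ) * b - 6 * a ^ (3 : ℕ) *
    b ^ (2 : ℕ) + 2 * a ^ (3 : ℕ) * b) + x * (4 * a ^ (6 : ℕ) + 4 * a ^ (5 : ℕ) * b - 2 * a ^ (5 : ℕ) - 10 * a ^ (4 : ℕ) * b - 2 * a ^
    4)) * f 9

/-- Part of the linear form of `lGG`. -/
def GGL4 (a b x y : ℝ) (f : Fin 14 → ℝ) : ℝ :=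
  (y * (-4 * a * b ^ (4 : ℕ) - 4 * b ^ (5 : ℕ) + 4 * b ^ (4 : ℕ)) + x * (-4 * a ^ (2 : ℕ) * b ^ (3 : ℕ) - 4 * a * b ^ (4 : ℕ) + 4 *
    a * b ^ (3 : ℕ))) * f 0 + (y * (4 * a ^ (2 : ℕ) * b ^ (3 : ℕ) + 4 * a * b ^ (4 : ℕ) - 4 * a * b ^ (3 : ℕ)) + x * (4 * a ^ (3 : ℕ)
    * b ^ (2 : ℕ) + 4 * a ^ (2 : ℕ) * b ^ (3 : ℕ) - 4 * a ^ (2 : ℕ) * b ^ (2 : ℕ))) * f 1 + (y * (-4 * a ^ (3 : ℕ) * b ^ (2 : ℕ) - 4 * a ^ (2 : ℕ)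
    * b ^ (3 : ℕ) + 4 * a ^ (2 : ℕ) * b ^ (2 : ℕ)) + x * (-4 * a ^ (4 : ℕ) * b - 4 * a ^ (3 : ℕ) * b ^ (2 : ℕ) + 4 * a ^ (3 : ℕ) * b)) * f 2
    + (y * (4 * a ^ (4 : ℕ) * b + 4 * a ^ (3 : ℕ) * b ^ (2 : ℕ) - 4 * a ^ (3 : ℕ) * b) + x * (4 * a ^ (5 : ℕ) + 4 * a ^ (4 : ℕ) * b -
    4 * a ^ (4 : ℕ))) * f 3

/-- Part of the linear form of `lGG`. -/
def GGL5 (a b x y : ℝ) (f : Fin 14 → ℝ) : ℝ :=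
  (y * (-8 * b ^ (4 : ℕ)) + x * (-8 * a * b ^ (3 : ℕ))) * f 4 + (y * (8 * a * b ^ (3 : ℕ)) + x * (8 * a ^ (2 : ℕ) * b ^
    2)) * f 5 + (y * (8 * a * b ^ (3 : ℕ)) + x * (8 * a ^ (2 : ℕ) * b ^ (2 : ℕ))) * f 6

/-- Part of the linear form of `lGG`. -/
def GGL6 (a b x y : ℝ) (f : Fin 14 → ℝ) : ℝ :=
  (y * (-8 * a ^ (2 : ℕ) * b ^ (2 : ℕ)) + x * (-8 * a ^ (3 : ℕ) * b)) * f 7 + (y * (-8 * a ^ (2 : ℕ) * b ^ (2 : ℕ)) + x * (-8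
    * a ^ (3 : ℕ) * b)) * f 8 + (y * (8 * a ^ (3 : ℕ) * b) + x * (8 * a ^ (4 : ℕ))) * f 9

/-- `lGG` on a pair, explicitly. -/
theorem lGG_lin (h : Pt N p q a b R x y z s w) (f f' : Fin 14 → ℝ) :
    pairFun (lGG (⟨a, b, x, y⟩ : Frame) N p q) N p q x y f f' =
      (GGL0 a b x y f + GGL1 a b x y f + GGL2 a b x y f + GGL4 a b x y f' + GGL5 a b x y f' +
        GGL6 a b x y f') / (4 * (a * x + b * y) ^ (5 : ℕ)) := by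
  obtain ⟨el, em, -⟩ := h.lam_eq
  obtain ⟨rfl, rfl, rfl, a0, b0, M0, x0, y0, s0, D0, E0, hz⟩ := h
  subst hz
  obtain ⟨D, hD⟩ : ∃ D, D = a * x + b * y := ⟨_, rfl⟩
  obtain ⟨E, hE⟩ : ∃ E, E = b * y - a * x := ⟨_, rfl⟩
  rw [← hD] at D0
  rw [← hE] at E0
  simp only [← hD, ← hE] at el em
  simp only [pairFun, el, em, lMM, lME, lMG, lEE, lEG, lGG, natLin, NatCoef.of, blockLin, freePart, linU, linV, Frame.pA, Frame.pC, Frame.pB, Frame.D, GGL0, GGL1, GGL2, GGL4, GGL5, GGL6,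
    Matrix.cons_val, sub_add_cancel, one_div_one_div, one_div_div, mul_one, mul_zero, zero_mul,
    add_zero, zero_add, sub_zero, neg_zero, zero_div, ← hD]
  field_simp
  subst hD hE
  ring

/-- Part of the linear form of `lLG`. -/
def LGL0 (a b R x y w : ℝ) (f : Fin 14 → ℝ) : ℝ :=
  (y * w * R * (5 * a ^ (2 : ℕ) * b ^ (2 : ℕ) + 10 * a * b ^ (3 : ℕ) + 5 * b ^ (4 : ℕ) - 8 * b ^ (3 : ℕ) - 5 * b ^ (2 : ℕ)) + x * w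
    * R * (3 * a ^ (3 : ℕ) * b + 6 * a ^ (2 : ℕ) * b ^ (2 : ℕ) + 3 * a * b ^ (3 : ℕ) - 8 * a * b ^ (2 : ℕ) - 3 * a * b) + x * y
    * (-5 * a ^ (2 : ℕ) * b ^ (2 : ℕ) - 10 * a * b ^ (3 : ℕ) - 5 * b ^ (4 : ℕ) + 8 * b ^ (3 : ℕ) + 5 * b ^ (2 : ℕ)) + x ^ (2 : ℕ) * (-3 * a
    ^ (3 : ℕ) * b - 6 * a ^ (2 : ℕ) * b ^ (2 : ℕ) - 3 * a * b ^ (3 : ℕ) + 8 * a * b ^ (2 : ℕ) + 3 * a * b)) * f 0 + (y * w * R *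
    (-3 * a ^ (3 : ℕ) * b - 4 * a ^ (2 : ℕ) * b ^ (2 : ℕ) - 2 * a ^ (2 : ℕ) * b - a * b ^ (3 : ℕ) + 4 * a * b ^ (2 : ℕ) + 5 * a * b) +
    y ^ (2 : ℕ) * (-2 * a * b ^ (3 : ℕ) - 2 * b ^ (4 : ℕ) + 2 * b ^ (3 : ℕ)) + x * w * R * (-a ^ (4 : ℕ) - 2 * a ^ (3 : ℕ) + a ^ (2 : ℕ) * b
    ^ (2 : ℕ) + 4 * a ^ (2 : ℕ) * b + 3 * a ^ (2 : ℕ)) + x * y * (3 * a ^ (3 : ℕ) * b + 2 * a ^ (2 : ℕ) * b ^ (2 : ℕ) + 2 * a ^ (2 : ℕ) * b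
    - a * b ^ (3 : ℕ) - 2 * a * b ^ (2 : ℕ) - 5 * a * b) + x ^ (2 : ℕ) * (a ^ (4 : ℕ) + 2 * a ^ (3 : ℕ) - a ^ (2 : ℕ) * b ^ (2 : ℕ) - 4 * a
    ^ (2 : ℕ) * b - 3 * a ^ (2 : ℕ))) * f 1 + (y * w * R * (2 * a ^ (3 : ℕ) * b + 2 * a ^ (2 : ℕ) * b ^ (2 : ℕ) - 2 * a ^ (2 : ℕ) * b)
    + y ^ (2 : ℕ) * (-a ^ (2 : ℕ) * b ^ (2 : ℕ) - 4 * a * b ^ (2 : ℕ) + b ^ (4 : ℕ) + 2 * b ^ (3 : ℕ) - 3 * b ^ (2 : ℕ)) + x * w * R * (2 *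
    a ^ (4 : ℕ) + 2 * a ^ (3 : ℕ) * b - 2 * a ^ (3 : ℕ)) + x * y * (-a ^ (3 : ℕ) * b + 2 * a ^ (2 : ℕ) * b ^ (2 : ℕ) - 2 * a ^ (2 : ℕ) * b +
    3 * a * b ^ (3 : ℕ) + 2 * a * b ^ (2 : ℕ) - 5 * a * b) + x ^ (2 : ℕ) * (-2 * a ^ (4 : ℕ) - 2 * a ^ (3 : ℕ) * b + 2 * a ^ (3 : ℕ)))
    * f 2 + (y ^ (2 : ℕ) * (-3 * a ^ (3 : ℕ) * b - 6 * a ^ (2 : ℕ) * b ^ (2 : ℕ) + 8 * a ^ (2 : ℕ) * b - 3 * a * b ^ (3 : ℕ) + 3 * a *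
    b) + x * y * (-5 * a ^ (4 : ℕ) - 10 * a ^ (3 : ℕ) * b + 8 * a ^ (3 : ℕ) - 5 * a ^ (2 : ℕ) * b ^ (2 : ℕ) + 5 * a ^ (2 : ℕ))) * f 3

/-- Part of the linear form of `lLG`. -/
def LGL1 (a b R x y w : ℝ) (f : Fin 14 → ℝ) : ℝ :=
  (y * w * R * (-4 * a * b ^ (3 : ℕ) - 4 * b ^ (4 : ℕ) + 8 * b ^ (3 : ℕ)) + x * w * R * (-4 * a ^ (2 : ℕ) * b ^ (2 : ℕ) - 4 *
    a * b ^ (3 : ℕ) + 8 * a * b ^ (2 : ℕ)) + x * y * (4 * a * b ^ (3 : ℕ) + 4 * b ^ (4 : ℕ) - 8 * b ^ (3 : ℕ)) + x ^ (2 : ℕ) * (4 * a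
    ^ (2 : ℕ) * b ^ (2 : ℕ) + 4 * a * b ^ (3 : ℕ) - 8 * a * b ^ (2 : ℕ))) * f 4 + (y * w * R * (4 * a ^ (2 : ℕ) * b ^ (2 : ℕ) + 4 * a
    * b ^ (3 : ℕ) - 4 * a * b ^ (2 : ℕ)) + y ^ (2 : ℕ) * (-4 * b ^ (3 : ℕ)) + x * w * R * (4 * a ^ (3 : ℕ) * b + 4 * a ^ (2 : ℕ) * b ^
    2 - 4 * a ^ (2 : ℕ) * b) + x * y * (-4 * a ^ (2 : ℕ) * b ^ (2 : ℕ) - 4 * a * b ^ (3 : ℕ)) + x ^ (2 : ℕ) * (-4 * a ^ (3 : ℕ) * b -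
    4 * a ^ (2 : ℕ) * b ^ (2 : ℕ) + 4 * a ^ (2 : ℕ) * b)) * f 5 + (y * w * R * (2 * a ^ (2 : ℕ) * b ^ (2 : ℕ) + 2 * a * b ^ (3 : ℕ) -
    6 * a * b ^ (2 : ℕ)) + y ^ (2 : ℕ) * (2 * a * b ^ (3 : ℕ) + 2 * b ^ (4 : ℕ) - 2 * b ^ (3 : ℕ)) + x * w * R * (2 * a ^ (3 : ℕ) * b
    + 2 * a ^ (2 : ℕ) * b ^ (2 : ℕ) - 6 * a ^ (2 : ℕ) * b) + x * y * (4 * a * b ^ (2 : ℕ)) + x ^ (2 : ℕ) * (-2 * a ^ (3 : ℕ) * b - 2 *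
    a ^ (2 : ℕ) * b ^ (2 : ℕ) + 6 * a ^ (2 : ℕ) * b)) * f 6

/-- Part of the linear form of `lLG`. -/
def LGL2 (a b R x y w : ℝ) (f : Fin 14 → ℝ) : ℝ :=
  (y * w * R * (-2 * a ^ (3 : ℕ) * b - 2 * a ^ (2 : ℕ) * b ^ (2 : ℕ) + 2 * a ^ (2 : ℕ) * b) + y ^ (2 : ℕ) * (-2 * a ^ (2 : ℕ) * b ^
    2 - 2 * a * b ^ (3 : ℕ) + 6 * a * b ^ (2 : ℕ)) + x * w * R * (-2 * a ^ (4 : ℕ) - 2 * a ^ (3 : ℕ) * b + 2 * a ^ (3 : ℕ)) + x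
    * y * (4 * a ^ (2 : ℕ) * b) + x ^ (2 : ℕ) * (2 * a ^ (4 : ℕ) + 2 * a ^ (3 : ℕ) * b - 2 * a ^ (3 : ℕ))) * f 7 + (y * w * R *
    (4 * a ^ (2 : ℕ) * b) + y ^ (2 : ℕ) * (-4 * a ^ (2 : ℕ) * b ^ (2 : ℕ) - 4 * a * b ^ (3 : ℕ) + 4 * a * b ^ (2 : ℕ)) + x * w * R *
    (4 * a ^ (3 : ℕ)) + x * y * (-4 * a ^ (3 : ℕ) * b - 4 * a ^ (2 : ℕ) * b ^ (2 : ℕ)) + x ^ (2 : ℕ) * (-4 * a ^ (3 : ℕ))) * f 8 + (y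
    ^ (2 : ℕ) * (4 * a ^ (3 : ℕ) * b + 4 * a ^ (2 : ℕ) * b ^ (2 : ℕ) - 8 * a ^ (2 : ℕ) * b) + x * y * (4 * a ^ (4 : ℕ) + 4 * a ^ (3 : ℕ) * b
    - 8 * a ^ (3 : ℕ))) * f 9

/-- Part of the linear form of `lLG`. -/
def LGL3 (a b R x y w : ℝ) (f : Fin 14 → ℝ) : ℝ :=
  (y * w * R * (6 * a * b ^ (2 : ℕ) + 2 * b ^ (3 : ℕ) + 6 * b ^ (2 : ℕ)) + x * w * R * (2 * a ^ (2 : ℕ) * b - 2 * a * b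
    ^ (2 : ℕ) + 2 * a * b) + x * y * (-6 * a * b ^ (2 : ℕ) - 2 * b ^ (3 : ℕ) - 6 * b ^ (2 : ℕ)) + x ^ (2 : ℕ) * (-2 * a ^ (2 : ℕ) * b
    + 2 * a * b ^ (2 : ℕ) - 2 * a * b)) * f 10 + (y * w * R * (-2 * a ^ (2 : ℕ) * b + 2 * a * b ^ (2 : ℕ) - 6 * a *
    b) + x * w * R * (2 * a ^ (3 : ℕ) + 6 * a ^ (2 : ℕ) * b - 2 * a ^ (2 : ℕ)) + x * y * (2 * a ^ (2 : ℕ) * b - 2 * a * b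
    ^ (2 : ℕ) + 6 * a * b) + x ^ (2 : ℕ) * (-2 * a ^ (3 : ℕ) - 6 * a ^ (2 : ℕ) * b + 2 * a ^ (2 : ℕ))) * f 11 + (y ^ (2 : ℕ) * (-6 * a
    * b ^ (2 : ℕ) - 2 * b ^ (3 : ℕ) + 2 * b ^ (2 : ℕ)) + x * y * (-2 * a ^ (2 : ℕ) * b + 2 * a * b ^ (2 : ℕ) + 6 * a * b)) * f
    12 + (y ^ (2 : ℕ) * (2 * a ^ (2 : ℕ) * b - 2 * a * b ^ (2 : ℕ) - 2 * a * b) + x * y * (-2 * a ^ (3 : ℕ) - 6 * a ^ (2 : ℕ) *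
    b - 6 * a ^ (2 : ℕ))) * f 13

/-- Part of the linear form of `lLG`. -/
def LGL4 (a b R x y w : ℝ) (f : Fin 14 → ℝ) : ℝ :=
  (y * w * R * (4 * a * b ^ (2 : ℕ) + 4 * b ^ (3 : ℕ) - 4 * b ^ (2 : ℕ)) + x * w * R * (4 * a ^ (2 : ℕ) * b + 4 * a * b
    ^ (2 : ℕ) - 4 * a * b) + x * y * (-4 * a * b ^ (2 : ℕ) - 4 * b ^ (3 : ℕ) + 4 * b ^ (2 : ℕ)) + x ^ (2 : ℕ) * (-4 * a ^ (2 : ℕ) * b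
    - 4 * a * b ^ (2 : ℕ) + 4 * a * b)) * f 0 + (y * w * R * (-4 * a ^ (2 : ℕ) * b - 4 * a * b ^ (2 : ℕ) + 4 * a *
    b) + x * w * R * (-4 * a ^ (3 : ℕ) - 4 * a ^ (2 : ℕ) * b + 4 * a ^ (2 : ℕ)) + x * y * (4 * a ^ (2 : ℕ) * b + 4 * a * b
    ^ (2 : ℕ) - 4 * a * b) + x ^ (2 : ℕ) * (4 * a ^ (3 : ℕ) + 4 * a ^ (2 : ℕ) * b - 4 * a ^ (2 : ℕ))) * f 1 + (y ^ (2 : ℕ) * (-4 * a *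
    b ^ (2 : ℕ) - 4 * b ^ (3 : ℕ) + 4 * b ^ (2 : ℕ)) + x * y * (-4 * a ^ (2 : ℕ) * b - 4 * a * b ^ (2 : ℕ) + 4 * a * b)) * f 2 +
    (y ^ (2 : ℕ) * (4 * a ^ (2 : ℕ) * b + 4 * a * b ^ (2 : ℕ) - 4 * a * b) + x * y * (4 * a ^ (3 : ℕ) + 4 * a ^ (2 : ℕ) * b - 4
    * a ^ (2 : ℕ))) * f 3

/-- Part of the linear form of `lLG`. -/
def LGL7 (a b R x y w : ℝ) (f : Fin 14 → ℝ) : ℝ :=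
  (y * w * R * (8 * b ^ (2 : ℕ)) + x * w * R * (8 * a * b) + x * y * (-8 * b ^ (2 : ℕ)) + x ^ (2 : ℕ) * (-8 * a *
    b)) * f 10 + (y * w * R * (-8 * a * b) + x * w * R * (-8 * a ^ (2 : ℕ)) + x * y * (8 * a * b) + x ^
    2 * (8 * a ^ (2 : ℕ))) * f 11 + (y ^ (2 : ℕ) * (-8 * b ^ (2 : ℕ)) + x * y * (-8 * a * b)) * f 12 + (y ^ (2 : ℕ) * (8 *
    a * b) + x * y * (8 * a ^ (2 : ℕ))) * f 13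

/-- `lLG` on a pair, explicitly. -/
theorem lLG_lin (h : Pt N p q a b R x y z s w) (f f' : Fin 14 → ℝ) :
    pairFun (lLG (⟨a, b, x, y⟩ : Frame) N p q z) N p q x y f f' =
      (LGL0 a b R x y w f + LGL1 a b R x y w f + LGL2 a b R x y w f + LGL3 a b R x y w f + LGL4
        a b R x y w f' + LGL7 a b R x y w f') / (4 * y * (a * x + b * y) ^ (3 : ℕ)) := by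
  obtain ⟨el, em, -⟩ := h.lam_eq
  obtain ⟨rfl, rfl, rfl, a0, b0, M0, x0, y0, s0, D0, E0, hz⟩ := h
  subst hz
  obtain ⟨D, hD⟩ : ∃ D, D = a * x + b * y := ⟨_, rfl⟩
  obtain ⟨E, hE⟩ : ∃ E, E = b * y - a * x := ⟨_, rfl⟩
  rw [← hD] at D0
  rw [← hE] at E0
  simp only [← hD, ← hE] at el em
  simp only [pairFun, el, em, lLG, crossPQ, linU, linV, Frame.pA, Frame.pC, Frame.pB, Frame.D, LGL0, LGL1, LGL2, LGL3, LGL4, LGL7,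
    Matrix.cons_val, sub_add_cancel, one_div_one_div, one_div_div, mul_one, mul_zero, zero_mul,
    add_zero, zero_add, sub_zero, neg_zero, zero_div, ← hD]
  field_simp
  subst hD hE
  ring

end Vale.Agent.P100.Calib.Bridge
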