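import Mathlib
import Vale.Agent.P100.Calib.SlabBridgeForms

/-!
# The functionals on the fields of the slab family
-/

set_option linter.unusedVariables false
set_option linter.unusedSimpArgs false
set_option linter.unusedTactic false
set_option linter.unreachableTactic false

namespace Vale.Agent.P100.Calib.Bridge

open Orb

variable {N p q a b R x y z s w w₁ : ℝ}

theorem base_gM (h : Pt N p q a b R x y z s w) :
    let X := dxR N p q x y z w
    let Y := dyR N p q x y z w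
    pairFun (gM (⟨a, b, x, y⟩ : Frame)) N p q x y (baseVec N p q)
      (0) =
      ((y ^ (2 : ℕ) * (2 * b) + x * y * (-2) + x ^ (2 : ℕ) * (2 * a))) / ((a * x + b * y) ^ (2 : ℕ)) := by
  have e := fun f f' => gM_lin h f f'
  obtain ⟨-, -, er⟩ := h.lam_eq
  intro X Y
  rw [e]
  obtain ⟨rfl, rfl, rfl, a0, b0, M0, x0, y0, s0, D0, E0, hz⟩ := h
  subst hz
  obtain ⟨D, hD⟩ : ∃ D, D = a * x + b * y := ⟨_, rfl⟩
  obtain ⟨E, hE⟩ : ∃ E, E = b * y - a * x := ⟨_, rfl⟩
  rw [← hD] at D0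
  rw [← hE] at E0
  simp only [← hE] at er
  simp only [gML0, gML1, gML2, gML4, baseVec, regFld, orbAt, Orb.cBase, Orb.shapeU, shapeG, Orb.shapeT, shapeW, er,
    Pi.add_apply, Pi.sub_apply, Pi.smul_apply, Pi.zero_apply, smul_eq_mul, Matrix.cons_val,
    sub_add_cancel, one_div_one_div, one_div_div, mul_one, one_mul, mul_zero, zero_mul, add_zero,
    zero_add, sub_zero, neg_zero, zero_div, div_one, ← hD, ← hE, X, Y]
  all_goals
    (try simp only [← hD, ← hE])
    (try generalize dxR _ _ _ x y _ w = X')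
    (try generalize dyR _ _ _ x y _ w = Y')
    (try field_simp)
  all_goals
    subst hD hE
    (try ring)

theorem base_gE (h : Pt N p q a b R x y z s w) :
    let X := dxR N p q x y z w
    let Y := dyR N p q x y z w
    pairFun (gE (⟨a, b, x, y⟩ : Frame)) N p q x y (baseVec N p q)
      (0) =
      ((y * (-7 * a * b + b ^ (2 : ℕ) - 3 * b) + x * (-a ^ (2 : ℕ) + 7 * a * b + 3 * a))) / (2 * (a * x + b
        * y) ^ (2 : ℕ)) := by
  have e := fun f f' => gE_lin h f f'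
  obtain ⟨-, -, er⟩ := h.lam_eq
  intro X Y
  rw [e]
  obtain ⟨rfl, rfl, rfl, a0, b0, M0, x0, y0, s0, D0, E0, hz⟩ := h
  subst hz
  obtain ⟨D, hD⟩ : ∃ D, D = a * x + b * y := ⟨_, rfl⟩
  obtain ⟨E, hE⟩ : ∃ E, E = b * y - a * x := ⟨_, rfl⟩
  rw [← hD] at D0
  rw [← hE] at E0
  simp only [← hE] at er
  simp only [gEL0, gEL1, gEL2, gEL4, baseVec, regFld, orbAt, Orb.cBase, Orb.shapeU, shapeG, Orb.shapeT, shapeW, er,
    Pi.add_apply, Pi.sub_apply, Pi.smul_apply, Pi.zero_apply, smul_eq_mul, Matrix.cons_val,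
    sub_add_cancel, one_div_one_div, one_div_div, mul_one, one_mul, mul_zero, zero_mul, add_zero,
    zero_add, sub_zero, neg_zero, zero_div, div_one, ← hD, ← hE, X, Y]
  all_goals
    (try simp only [← hD, ← hE])
    (try generalize dxR _ _ _ x y _ w = X')
    (try generalize dyR _ _ _ x y _ w = Y')
    (try field_simp)
  all_goals
    subst hD hE
    (try ring)

theorem base_gG (h : Pt N p q a b R x y z s w) :
    let X := dxR N p q x y z w
    let Y := dyR N p q x y z w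
    pairFun (gG (⟨a, b, x, y⟩ : Frame)) N p q x y (baseVec N p q)
      (0) =
      (((a ^ (2 : ℕ) * b + a * b ^ (2 : ℕ) + a * b))) / ((a * x + b * y) ^ (2 : ℕ)) := by
  have e := fun f f' => gG_lin h f f'
  obtain ⟨-, -, er⟩ := h.lam_eq
  intro X Y
  rw [e]
  obtain ⟨rfl, rfl, rfl, a0, b0, M0, x0, y0, s0, D0, E0, hz⟩ := h
  subst hz
  obtain ⟨D, hD⟩ : ∃ D, D = a * x + b * y := ⟨_, rfl⟩
  obtain ⟨E, hE⟩ : ∃ E, E = b * y - a * x := ⟨_, rfl⟩
  rw [← hD] at D0
  rw [← hE] at E0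
  simp only [← hE] at er
  simp only [gGL0, gGL1, gGL2, gGL4, baseVec, regFld, orbAt, Orb.cBase, Orb.shapeU, shapeG, Orb.shapeT, shapeW, er,
    Pi.add_apply, Pi.sub_apply, Pi.smul_apply, Pi.zero_apply, smul_eq_mul, Matrix.cons_val,
    sub_add_cancel, one_div_one_div, one_div_div, mul_one, one_mul, mul_zero, zero_mul, add_zero,
    zero_add, sub_zero, neg_zero, zero_div, div_one, ← hD, ← hE, X, Y]
  all_goals
    (try simp only [← hD, ← hE])
    (try generalize dxR _ _ _ x y _ w = X')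
    (try generalize dyR _ _ _ x y _ w = Y')
    (try field_simp)
  all_goals
    subst hD hE
    (try ring)

theorem base_hM (h : Pt N p q a b R x y z s w) :
    let X := dxR N p q x y z w
    let Y := dyR N p q x y z w
    pairFun (hM (⟨a, b, x, y⟩ : Frame)) N p q x y (baseVec N p q)
      (0) =
      0 := by
  have e := fun f f' => hM_lin h f f'
  obtain ⟨-, -, er⟩ := h.lam_eq
  intro X Y
  rw [e]
  obtain ⟨rfl, rfl, rfl, a0, b0, M0, x0, y0, s0, D0, E0, hz⟩ := h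
  subst hz
  obtain ⟨D, hD⟩ : ∃ D, D = a * x + b * y := ⟨_, rfl⟩
  obtain ⟨E, hE⟩ : ∃ E, E = b * y - a * x := ⟨_, rfl⟩
  rw [← hD] at D0
  rw [← hE] at E0
  simp only [← hE] at er
  simp only [hML0, hML1, hML2, hML4, baseVec, regFld, orbAt, Orb.cBase, Orb.shapeU, shapeG, Orb.shapeT, shapeW, er,
    Pi.add_apply, Pi.sub_apply, Pi.smul_apply, Pi.zero_apply, smul_eq_mul, Matrix.cons_val,
    sub_add_cancel, one_div_one_div, one_div_div, mul_one, one_mul, mul_zero, zero_mul, add_zero,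
    zero_add, sub_zero, neg_zero, zero_div, div_one, ← hD, ← hE, X, Y]
  all_goals
    (try simp only [← hD, ← hE])
    (try generalize dxR _ _ _ x y _ w = X')
    (try generalize dyR _ _ _ x y _ w = Y')
    (try field_simp)
  all_goals
    subst hD hE
    (try ring)

theorem base_hEf (h : Pt N p q a b R x y z s w) :
    let X := dxR N p q x y z w
    let Y := dyR N p q x y z w
    pairFun (hEf (⟨a, b, x, y⟩ : Frame)) N p q x y (baseVec N p q)
      (0) =
      0 := by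
  have e := fun f f' => hEf_lin h f f'
  obtain ⟨-, -, er⟩ := h.lam_eq
  intro X Y
  rw [e]
  obtain ⟨rfl, rfl, rfl, a0, b0, M0, x0, y0, s0, D0, E0, hz⟩ := h
  subst hz
  obtain ⟨D, hD⟩ : ∃ D, D = a * x + b * y := ⟨_, rfl⟩
  obtain ⟨E, hE⟩ : ∃ E, E = b * y - a * x := ⟨_, rfl⟩
  rw [← hD] at D0
  rw [← hE] at E0
  simp only [← hE] at er
  simp only [hEL0, hEL1, hEL2, hEL4, baseVec, regFld, orbAt, Orb.cBase, Orb.shapeU, shapeG, Orb.shapeT, shapeW, er,
    Pi.add_apply, Pi.sub_apply, Pi.smul_apply, Pi.zero_apply, smul_eq_mul, Matrix.cons_val,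
    sub_add_cancel, one_div_one_div, one_div_div, mul_one, one_mul, mul_zero, zero_mul, add_zero,
    zero_add, sub_zero, neg_zero, zero_div, div_one, ← hD, ← hE, X, Y]
  all_goals
    (try simp only [← hD, ← hE])
    (try generalize dxR _ _ _ x y _ w = X')
    (try generalize dyR _ _ _ x y _ w = Y')
    (try field_simp)
  all_goals
    subst hD hE
    (try ring)

theorem base_hG (h : Pt N p q a b R x y z s w) :
    let X := dxR N p q x y z w
    let Y := dyR N p q x y z w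
    pairFun (hG (⟨a, b, x, y⟩ : Frame)) N p q x y (baseVec N p q)
      (0) =
      0 := by
  have e := fun f f' => hG_lin h f f'
  obtain ⟨-, -, er⟩ := h.lam_eq
  intro X Y
  rw [e]
  obtain ⟨rfl, rfl, rfl, a0, b0, M0, x0, y0, s0, D0, E0, hz⟩ := h
  subst hz
  obtain ⟨D, hD⟩ : ∃ D, D = a * x + b * y := ⟨_, rfl⟩
  obtain ⟨E, hE⟩ : ∃ E, E = b * y - a * x := ⟨_, rfl⟩
  rw [← hD] at D0
  rw [← hE] at E0
  simp only [← hE] at er
  simp only [hGL0, hGL1, hGL2, hGL4, baseVec, regFld, orbAt, Orb.cBase, Orb.shapeU, shapeG, Orb.shapeT, shapeW, er,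
    Pi.add_apply, Pi.sub_apply, Pi.smul_apply, Pi.zero_apply, smul_eq_mul, Matrix.cons_val,
    sub_add_cancel, one_div_one_div, one_div_div, mul_one, one_mul, mul_zero, zero_mul, add_zero,
    zero_add, sub_zero, neg_zero, zero_div, div_one, ← hD, ← hE, X, Y]
  all_goals
    (try simp only [← hD, ← hE])
    (try generalize dxR _ _ _ x y _ w = X')
    (try generalize dyR _ _ _ x y _ w = Y')
    (try field_simp)
  all_goals
    subst hD hE
    (try ring)

theorem base_lMM (h : Pt N p q a b R x y z s w) :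
    let X := dxR N p q x y z w
    let Y := dyR N p q x y z w
    pairFun (lMM (⟨a, b, x, y⟩ : Frame) N p q) N p q x y (baseVec N p q)
      (0) =
      ((y ^ (4 : ℕ) * (a * b ^ (2 : ℕ) + b ^ (3 : ℕ) + b ^ (2 : ℕ)) + x * y ^ (3 : ℕ) * (-2 * a * b - 2 * b ^ (2 : ℕ) - 2 * b) + x ^
        2 * y ^ (2 : ℕ) * (2 * a ^ (2 : ℕ) * b + 2 * a * b ^ (2 : ℕ) + 2 * a * b + a + b + 1) + x ^ (3 : ℕ) * y * (-2 * a
        ^ (2 : ℕ) - 2 * a * b - 2 * a) + x ^ (4 : ℕ) * (a ^ (3 : ℕ) + a ^ (2 : ℕ) * b + a ^ (2 : ℕ)))) / (2 * (a * x + b * y) ^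
        4) := by
  have e := fun f f' => lMM_lin h f f'
  obtain ⟨-, -, er⟩ := h.lam_eq
  intro X Y
  rw [e]
  obtain ⟨rfl, rfl, rfl, a0, b0, M0, x0, y0, s0, D0, E0, hz⟩ := h
  subst hz
  obtain ⟨D, hD⟩ : ∃ D, D = a * x + b * y := ⟨_, rfl⟩
  obtain ⟨E, hE⟩ : ∃ E, E = b * y - a * x := ⟨_, rfl⟩
  rw [← hD] at D0
  rw [← hE] at E0
  simp only [← hE] at er
  simp only [MML0, MML1, MML2, MML4, MML5, MML6, baseVec, regFld, orbAt, Orb.cBase, Orb.shapeU, shapeG, Orb.shapeT, shapeW, er,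
    Pi.add_apply, Pi.sub_apply, Pi.smul_apply, Pi.zero_apply, smul_eq_mul, Matrix.cons_val,
    sub_add_cancel, one_div_one_div, one_div_div, mul_one, one_mul, mul_zero, zero_mul, add_zero,
    zero_add, sub_zero, neg_zero, zero_div, div_one, ← hD, ← hE, X, Y]
  all_goals
    (try simp only [← hD, ← hE])
    (try generalize dxR _ _ _ x y _ w = X')
    (try generalize dyR _ _ _ x y _ w = Y')
    (try field_simp)
  all_goals
    subst hD hE
    (try ring)

/-- Part of the value of `lME` on the field base. -/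
def baseME_0_0 (a b x y : ℝ) : ℝ :=
  (y ^ (3 : ℕ) * (-7 * a ^ (2 : ℕ) * b ^ (2 : ℕ) - 6 * a * b ^ (3 : ℕ) - 10 * a * b ^ (2 : ℕ) + b ^ (4 : ℕ) - 2 * b ^ (3 : ℕ) - 3 * b ^ (2 : ℕ))
    + x * y ^ (2 : ℕ) * (-a ^ (3 : ℕ) * b + 6 * a ^ (2 : ℕ) * b ^ (2 : ℕ) + 9 * a ^ (2 : ℕ) * b + 7 * a * b ^ (3 : ℕ) + 16 * a * b ^ (2 : ℕ)
    + 13 * a * b - b ^ (3 : ℕ) + 2 * b ^ (2 : ℕ) + 3 * b) + x ^ (2 : ℕ) * y * (-7 * a ^ (3 : ℕ) * b + a ^ (3 : ℕ) - 6 * a ^ (2 : ℕ) *
    b ^ (2 : ℕ) - 16 * a ^ (2 : ℕ) * b - 2 * a ^ (2 : ℕ) + a * b ^ (3 : ℕ) - 9 * a * b ^ (2 : ℕ) - 13 * a * b - 3 * a) + x ^ (3 : ℕ) *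
    (-a ^ (4 : ℕ) + 6 * a ^ (3 : ℕ) * b + 2 * a ^ (3 : ℕ) + 7 * a ^ (2 : ℕ) * b ^ (2 : ℕ) + 10 * a ^ (2 : ℕ) * b + 3 * a ^ (2 : ℕ)))

theorem base_lME (h : Pt N p q a b R x y z s w) :
    let X := dxR N p q x y z w
    let Y := dyR N p q x y z w
    pairFun (lME (⟨a, b, x, y⟩ : Frame) N p q) N p q x y (baseVec N p q)
      (0) =
      (baseME_0_0 a b x y) / (4 * (a * x + b * y) ^ (4 : ℕ)) := by
  have e := fun f f' => lME_lin h f f'
  obtain ⟨-, -, er⟩ := h.lam_eq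
  intro X Y
  rw [e]
  obtain ⟨rfl, rfl, rfl, a0, b0, M0, x0, y0, s0, D0, E0, hz⟩ := h
  subst hz
  obtain ⟨D, hD⟩ : ∃ D, D = a * x + b * y := ⟨_, rfl⟩
  obtain ⟨E, hE⟩ : ∃ E, E = b * y - a * x := ⟨_, rfl⟩
  rw [← hD] at D0
  rw [← hE] at E0
  simp only [← hE] at er
  simp only [MEL0, MEL1, MEL2, MEL4, MEL5, MEL6, baseME_0_0, baseVec, regFld, orbAt, Orb.cBase, Orb.shapeU, shapeG, Orb.shapeT, shapeW, er,
    Pi.add_apply, Pi.sub_apply, Pi.smul_apply, Pi.zero_apply, smul_eq_mul, Matrix.cons_val,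
    sub_add_cancel, one_div_one_div, one_div_div, mul_one, one_mul, mul_zero, zero_mul, add_zero,
    zero_add, sub_zero, neg_zero, zero_div, div_one, ← hD, ← hE, X, Y]
  all_goals
    (try simp only [← hD, ← hE])
    (try generalize dxR _ _ _ x y _ w = X')
    (try generalize dyR _ _ _ x y _ w = Y')
    (try field_simp)
  all_goals
    subst hD hE
    (try ring)

theorem base_lMG (h : Pt N p q a b R x y z s w) :
    let X := dxR N p q x y z w
    let Y := dyR N p q x y z w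
    pairFun (lMG (⟨a, b, x, y⟩ : Frame) N p q) N p q x y (baseVec N p q)
      (0) =
      ((y ^ (2 : ℕ) * (2 * a ^ (3 : ℕ) * b ^ (2 : ℕ) + 4 * a ^ (2 : ℕ) * b ^ (3 : ℕ) + 3 * a ^ (2 : ℕ) * b ^ (2 : ℕ) + 2 * a * b ^ (4 : ℕ) + 2 *
        a * b ^ (3 : ℕ) + 2 * a * b ^ (2 : ℕ) - b ^ (4 : ℕ) + b ^ (2 : ℕ)) + x * y * (-4 * a ^ (3 : ℕ) * b - 8 * a ^ (2 : ℕ) * b ^ (2 : ℕ) -
        4 * a ^ (2 : ℕ) * b - 4 * a * b ^ (3 : ℕ) - 4 * a * b ^ (2 : ℕ)) + x ^ (2 : ℕ) * (2 * a ^ (4 : ℕ) * b - a ^ (4 : ℕ) + 4 * a ^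
        3 * b ^ (2 : ℕ) + 2 * a ^ (3 : ℕ) * b + 2 * a ^ (2 : ℕ) * b ^ (3 : ℕ) + 3 * a ^ (2 : ℕ) * b ^ (2 : ℕ) + 2 * a ^ (2 : ℕ) * b + a ^
        2))) / (4 * (a * x + b * y) ^ (4 : ℕ)) := by
  have e := fun f f' => lMG_lin h f f'
  obtain ⟨-, -, er⟩ := h.lam_eq
  intro X Y
  rw [e]
  obtain ⟨rfl, rfl, rfl, a0, b0, M0, x0, y0, s0, D0, E0, hz⟩ := h
  subst hz
  obtain ⟨D, hD⟩ : ∃ D, D = a * x + b * y := ⟨_, rfl⟩
  obtain ⟨E, hE⟩ : ∃ E, E = b * y - a * x := ⟨_, rfl⟩
  rw [← hD] at D0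
  rw [← hE] at E0
  simp only [← hE] at er
  simp only [MGL0, MGL1, MGL2, MGL4, MGL5, MGL6, baseVec, regFld, orbAt, Orb.cBase, Orb.shapeU, shapeG, Orb.shapeT, shapeW, er,
    Pi.add_apply, Pi.sub_apply, Pi.smul_apply, Pi.zero_apply, smul_eq_mul, Matrix.cons_val,
    sub_add_cancel, one_div_one_div, one_div_div, mul_one, one_mul, mul_zero, zero_mul, add_zero,
    zero_add, sub_zero, neg_zero, zero_div, div_one, ← hD, ← hE, X, Y]
  all_goals
    (try simp only [← hD, ← hE])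
    (try generalize dxR _ _ _ x y _ w = X')
    (try generalize dyR _ _ _ x y _ w = Y')
    (try field_simp)
  all_goals
    subst hD hE
    (try ring)

theorem base_lEE (h : Pt N p q a b R x y z s w) :
    let X := dxR N p q x y z w
    let Y := dyR N p q x y z w
    pairFun (lEE (⟨a, b, x, y⟩ : Frame) N p q) N p q x y (baseVec N p q)
      (0) =
      ((y ^ (2 : ℕ) * (3 * a ^ (3 : ℕ) * b ^ (2 : ℕ) + 2 * a ^ (2 : ℕ) * b ^ (3 : ℕ) + 6 * a ^ (2 : ℕ) * b ^ (2 : ℕ) - a * b ^ (4 : ℕ) + 2 * a *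
        b ^ (3 : ℕ) + 3 * a * b ^ (2 : ℕ)) + x * y * (a ^ (4 : ℕ) * b - 5 * a ^ (3 : ℕ) * b ^ (2 : ℕ) - 5 * a ^ (2 : ℕ) * b ^ (3 : ℕ) - 8 *
        a ^ (2 : ℕ) * b ^ (2 : ℕ) - 3 * a ^ (2 : ℕ) * b + a * b ^ (4 : ℕ) - 3 * a * b ^ (2 : ℕ) - 2 * a * b) + x ^ (2 : ℕ) * (-a ^ (4 : ℕ) *
        b + 2 * a ^ (3 : ℕ) * b ^ (2 : ℕ) + 2 * a ^ (3 : ℕ) * b + 3 * a ^ (2 : ℕ) * b ^ (3 : ℕ) + 6 * a ^ (2 : ℕ) * b ^ (2 : ℕ) + 3 * a ^ (2 : ℕ)
        * b))) / (2 * (a * x + b * y) ^ (4 : ℕ)) := by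
  have e := fun f f' => lEE_lin h f f'
  obtain ⟨-, -, er⟩ := h.lam_eq
  intro X Y
  rw [e]
  obtain ⟨rfl, rfl, rfl, a0, b0, M0, x0, y0, s0, D0, E0, hz⟩ := h
  subst hz
  obtain ⟨D, hD⟩ : ∃ D, D = a * x + b * y := ⟨_, rfl⟩
  obtain ⟨E, hE⟩ : ∃ E, E = b * y - a * x := ⟨_, rfl⟩
  rw [← hD] at D0
  rw [← hE] at E0
  simp only [← hE] at er
  simp only [EEL0, EEL1, EEL2, EEL4, EEL5, EEL6, baseVec, regFld, orbAt, Orb.cBase, Orb.shapeU, shapeG, Orb.shapeT, shapeW, er,
    Pi.add_apply, Pi.sub_apply, Pi.smul_apply, Pi.zero_apply, smul_eq_mul, Matrix.cons_val,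
    sub_add_cancel, one_div_one_div, one_div_div, mul_one, one_mul, mul_zero, zero_mul, add_zero,
    zero_add, sub_zero, neg_zero, zero_div, div_one, ← hD, ← hE, X, Y]
  all_goals
    (try simp only [← hD, ← hE])
    (try generalize dxR _ _ _ x y _ w = X')
    (try generalize dyR _ _ _ x y _ w = Y')
    (try field_simp)
  all_goals
    subst hD hE
    (try ring)

theorem base_lEG (h : Pt N p q a b R x y z s w) :
    let X := dxR N p q x y z w
    let Y := dyR N p q x y z w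
    pairFun (lEG (⟨a, b, x, y⟩ : Frame) N p q) N p q x y (baseVec N p q)
      (0) =
      ((y * (-3 * a ^ (4 : ℕ) * b ^ (2 : ℕ) - 5 * a ^ (3 : ℕ) * b ^ (3 : ℕ) - 7 * a ^ (3 : ℕ) * b ^ (2 : ℕ) - a ^ (2 : ℕ) * b ^ (4 : ℕ) - 6 * a
        ^ (2 : ℕ) * b ^ (3 : ℕ) - 5 * a ^ (2 : ℕ) * b ^ (2 : ℕ) + a * b ^ (5 : ℕ) + a * b ^ (4 : ℕ) - a * b ^ (3 : ℕ) - a * b ^ (2 : ℕ)) + x * (-a
        ^ (5 : ℕ) * b + a ^ (4 : ℕ) * b ^ (2 : ℕ) - a ^ (4 : ℕ) * b + 5 * a ^ (3 : ℕ) * b ^ (3 : ℕ) + 6 * a ^ (3 : ℕ) * b ^ (2 : ℕ) + a ^ (3 : ℕ) * b +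
        3 * a ^ (2 : ℕ) * b ^ (4 : ℕ) + 7 * a ^ (2 : ℕ) * b ^ (3 : ℕ) + 5 * a ^ (2 : ℕ) * b ^ (2 : ℕ) + a ^ (2 : ℕ) * b))) / (4 * (a * x + b
        * y) ^ (4 : ℕ)) := by
  have e := fun f f' => lEG_lin h f f'
  obtain ⟨-, -, er⟩ := h.lam_eq
  intro X Y
  rw [e]
  obtain ⟨rfl, rfl, rfl, a0, b0, M0, x0, y0, s0, D0, E0, hz⟩ := h
  subst hz
  obtain ⟨D, hD⟩ : ∃ D, D = a * x + b * y := ⟨_, rfl⟩
  obtain ⟨E, hE⟩ : ∃ E, E = b * y - a * x := ⟨_, rfl⟩
  rw [← hD] at D0
  rw [← hE] at E0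
  simp only [← hE] at er
  simp only [EGL0, EGL1, EGL2, EGL4, EGL5, EGL6, baseVec, regFld, orbAt, Orb.cBase, Orb.shapeU, shapeG, Orb.shapeT, shapeW, er,
    Pi.add_apply, Pi.sub_apply, Pi.smul_apply, Pi.zero_apply, smul_eq_mul, Matrix.cons_val,
    sub_add_cancel, one_div_one_div, one_div_div, mul_one, one_mul, mul_zero, zero_mul, add_zero,
    zero_add, sub_zero, neg_zero, zero_div, div_one, ← hD, ← hE, X, Y]
  all_goals
    (try simp only [← hD, ← hE])
    (try generalize dxR _ _ _ x y _ w = X')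
    (try generalize dyR _ _ _ x y _ w = Y')
    (try field_simp)
  all_goals
    subst hD hE
    (try ring)

theorem base_lGG (h : Pt N p q a b R x y z s w) :
    let X := dxR N p q x y z w
    let Y := dyR N p q x y z w
    pairFun (lGG (⟨a, b, x, y⟩ : Frame) N p q) N p q x y (baseVec N p q)
      (0) =
      0 := by
  have e := fun f f' => lGG_lin h f f'
  obtain ⟨-, -, er⟩ := h.lam_eq
  intro X Y
  rw [e]
  obtain ⟨rfl, rfl, rfl, a0, b0, M0, x0, y0, s0, D0, E0, hz⟩ := h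
  subst hz
  obtain ⟨D, hD⟩ : ∃ D, D = a * x + b * y := ⟨_, rfl⟩
  obtain ⟨E, hE⟩ : ∃ E, E = b * y - a * x := ⟨_, rfl⟩
  rw [← hD] at D0
  rw [← hE] at E0
  simp only [← hE] at er
  simp only [GGL0, GGL1, GGL2, GGL4, GGL5, GGL6, baseVec, regFld, orbAt, Orb.cBase, Orb.shapeU, shapeG, Orb.shapeT, shapeW, er,
    Pi.add_apply, Pi.sub_apply, Pi.smul_apply, Pi.zero_apply, smul_eq_mul, Matrix.cons_val,
    sub_add_cancel, one_div_one_div, one_div_div, mul_one, one_mul, mul_zero, zero_mul, add_zero,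
    zero_add, sub_zero, neg_zero, zero_div, div_one, ← hD, ← hE, X, Y]
  all_goals
    (try simp only [← hD, ← hE])
    (try generalize dxR _ _ _ x y _ w = X')
    (try generalize dyR _ _ _ x y _ w = Y')
    (try field_simp)
  all_goals
    subst hD hE
    (try ring)

theorem base_lLG (h : Pt N p q a b R x y z s w) :
    let X := dxR N p q x y z w
    let Y := dyR N p q x y z w
    pairFun (lLG (⟨a, b, x, y⟩ : Frame) N p q z) N p q x y (baseVec N p q)
      (0) =
      0 := by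
  have e := fun f f' => lLG_lin h f f'
  obtain ⟨-, -, er⟩ := h.lam_eq
  intro X Y
  rw [e]
  obtain ⟨rfl, rfl, rfl, a0, b0, M0, x0, y0, s0, D0, E0, hz⟩ := h
  subst hz
  obtain ⟨D, hD⟩ : ∃ D, D = a * x + b * y := ⟨_, rfl⟩
  obtain ⟨E, hE⟩ : ∃ E, E = b * y - a * x := ⟨_, rfl⟩
  rw [← hD] at D0
  rw [← hE] at E0
  simp only [← hE] at er
  simp only [LGL0, LGL1, LGL2, LGL3, LGL4, LGL7, baseVec, regFld, orbAt, Orb.cBase, Orb.shapeU, shapeG, Orb.shapeT, shapeW, er,
    Pi.add_apply, Pi.sub_apply, Pi.smul_apply, Pi.zero_apply, smul_eq_mul, Matrix.cons_val,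
    sub_add_cancel, one_div_one_div, one_div_div, mul_one, one_mul, mul_zero, zero_mul, add_zero,
    zero_add, sub_zero, neg_zero, zero_div, div_one, ← hD, ← hE, X, Y]
  all_goals
    (try simp only [← hD, ← hE])
    (try generalize dxR _ _ _ x y _ w = X')
    (try generalize dyR _ _ _ x y _ w = Y')
    (try field_simp)
  all_goals
    subst hD hE
    (try ring)

theorem A_gM (h : Pt N p q a b R x y z s w) :
    let X := dxR N p q x y z w
    let Y := dyR N p q x y z w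
    pairFun (gM (⟨a, b, x, y⟩ : Frame)) N p q x y (fldA N p q R x y s w)
      (velA N p q R x y z s w w₁) =
      0 := by
  have e := fun f f' => gM_lin h f f'
  obtain ⟨-, -, er⟩ := h.lam_eq
  intro X Y
  rw [e]
  obtain ⟨rfl, rfl, rfl, a0, b0, M0, x0, y0, s0, D0, E0, hz⟩ := h
  subst hz
  obtain ⟨D, hD⟩ : ∃ D, D = a * x + b * y := ⟨_, rfl⟩
  obtain ⟨E, hE⟩ : ∃ E, E = b * y - a * x := ⟨_, rfl⟩
  rw [← hD] at D0
  rw [← hE] at E0
  simp only [← hE] at er
  simp only [gML0, gML1, gML2, gML4, fldA, velA, regVel, regFld, orbAt, Orb.cBase, Orb.shapeU, shapeG, Orb.shapeT, shapeW, er,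
    Pi.add_apply, Pi.sub_apply, Pi.smul_apply, Pi.zero_apply, smul_eq_mul, Matrix.cons_val,
    sub_add_cancel, one_div_one_div, one_div_div, mul_one, one_mul, mul_zero, zero_mul, add_zero,
    zero_add, sub_zero, neg_zero, zero_div, div_one, ← hD, ← hE, X, Y]
  all_goals
    (try simp only [← hD, ← hE])
    (try generalize dxR _ _ _ x y _ w = X')
    (try generalize dyR _ _ _ x y _ w = Y')
    (try field_simp)
  all_goals
    subst hD hE
    (try ring)

theorem A_gE (h : Pt N p q a b R x y z s w) :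
    let X := dxR N p q x y z w
    let Y := dyR N p q x y z w
    pairFun (gE (⟨a, b, x, y⟩ : Frame)) N p q x y (fldA N p q R x y s w)
      (velA N p q R x y z s w w₁) =
      0 := by
  have e := fun f f' => gE_lin h f f'
  obtain ⟨-, -, er⟩ := h.lam_eq
  intro X Y
  rw [e]
  obtain ⟨rfl, rfl, rfl, a0, b0, M0, x0, y0, s0, D0, E0, hz⟩ := h
  subst hz
  obtain ⟨D, hD⟩ : ∃ D, D = a * x + b * y := ⟨_, rfl⟩
  obtain ⟨E, hE⟩ : ∃ E, E = b * y - a * x := ⟨_, rfl⟩
  rw [← hD] at D0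
  rw [← hE] at E0
  simp only [← hE] at er
  simp only [gEL0, gEL1, gEL2, gEL4, fldA, velA, regVel, regFld, orbAt, Orb.cBase, Orb.shapeU, shapeG, Orb.shapeT, shapeW, er,
    Pi.add_apply, Pi.sub_apply, Pi.smul_apply, Pi.zero_apply, smul_eq_mul, Matrix.cons_val,
    sub_add_cancel, one_div_one_div, one_div_div, mul_one, one_mul, mul_zero, zero_mul, add_zero,
    zero_add, sub_zero, neg_zero, zero_div, div_one, ← hD, ← hE, X, Y]
  all_goals
    (try simp only [← hD, ← hE])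
    (try generalize dxR _ _ _ x y _ w = X')
    (try generalize dyR _ _ _ x y _ w = Y')
    (try field_simp)
  all_goals
    subst hD hE
    (try ring)

theorem A_gG (h : Pt N p q a b R x y z s w) :
    let X := dxR N p q x y z w
    let Y := dyR N p q x y z w
    pairFun (gG (⟨a, b, x, y⟩ : Frame)) N p q x y (fldA N p q R x y s w)
      (velA N p q R x y z s w w₁) =
      0 := by
  have e := fun f f' => gG_lin h f f'
  obtain ⟨-, -, er⟩ := h.lam_eq
  intro X Y
  rw [e]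
  obtain ⟨rfl, rfl, rfl, a0, b0, M0, x0, y0, s0, D0, E0, hz⟩ := h
  subst hz
  obtain ⟨D, hD⟩ : ∃ D, D = a * x + b * y := ⟨_, rfl⟩
  obtain ⟨E, hE⟩ : ∃ E, E = b * y - a * x := ⟨_, rfl⟩
  rw [← hD] at D0
  rw [← hE] at E0
  simp only [← hE] at er
  simp only [gGL0, gGL1, gGL2, gGL4, fldA, velA, regVel, regFld, orbAt, Orb.cBase, Orb.shapeU, shapeG, Orb.shapeT, shapeW, er,
    Pi.add_apply, Pi.sub_apply, Pi.smul_apply, Pi.zero_apply, smul_eq_mul, Matrix.cons_val,
    sub_add_cancel, one_div_one_div, one_div_div, mul_one, one_mul, mul_zero, zero_mul, add_zero,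
    zero_add, sub_zero, neg_zero, zero_div, div_one, ← hD, ← hE, X, Y]
  all_goals
    (try simp only [← hD, ← hE])
    (try generalize dxR _ _ _ x y _ w = X')
    (try generalize dyR _ _ _ x y _ w = Y')
    (try field_simp)
  all_goals
    subst hD hE
    (try ring)

theorem A_hM (h : Pt N p q a b R x y z s w) :
    let X := dxR N p q x y z w
    let Y := dyR N p q x y z w
    pairFun (hM (⟨a, b, x, y⟩ : Frame)) N p q x y (fldA N p q R x y s w)
      (velA N p q R x y z s w w₁) =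
      0 := by
  have e := fun f f' => hM_lin h f f'
  obtain ⟨-, -, er⟩ := h.lam_eq
  intro X Y
  rw [e]
  obtain ⟨rfl, rfl, rfl, a0, b0, M0, x0, y0, s0, D0, E0, hz⟩ := h
  subst hz
  obtain ⟨D, hD⟩ : ∃ D, D = a * x + b * y := ⟨_, rfl⟩
  obtain ⟨E, hE⟩ : ∃ E, E = b * y - a * x := ⟨_, rfl⟩
  rw [← hD] at D0
  rw [← hE] at E0
  simp only [← hE] at er
  simp only [hML0, hML1, hML2, hML4, fldA, velA, regVel, regFld, orbAt, Orb.cBase, Orb.shapeU, shapeG, Orb.shapeT, shapeW, er,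
    Pi.add_apply, Pi.sub_apply, Pi.smul_apply, Pi.zero_apply, smul_eq_mul, Matrix.cons_val,
    sub_add_cancel, one_div_one_div, one_div_div, mul_one, one_mul, mul_zero, zero_mul, add_zero,
    zero_add, sub_zero, neg_zero, zero_div, div_one, ← hD, ← hE, X, Y]
  all_goals
    (try simp only [← hD, ← hE])
    (try generalize dxR _ _ _ x y _ w = X')
    (try generalize dyR _ _ _ x y _ w = Y')
    (try field_simp)
  all_goals
    subst hD hE
    (try ring)

theorem A_hEf (h : Pt N p q a b R x y z s w) :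
    let X := dxR N p q x y z w
    let Y := dyR N p q x y z w
    pairFun (hEf (⟨a, b, x, y⟩ : Frame)) N p q x y (fldA N p q R x y s w)
      (velA N p q R x y z s w w₁) =
      (((2))) / (x * y) := by
  have e := fun f f' => hEf_lin h f f'
  obtain ⟨-, -, er⟩ := h.lam_eq
  intro X Y
  rw [e]
  obtain ⟨rfl, rfl, rfl, a0, b0, M0, x0, y0, s0, D0, E0, hz⟩ := h
  subst hz
  obtain ⟨D, hD⟩ : ∃ D, D = a * x + b * y := ⟨_, rfl⟩
  obtain ⟨E, hE⟩ : ∃ E, E = b * y - a * x := ⟨_, rfl⟩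
  rw [← hD] at D0
  rw [← hE] at E0
  simp only [← hE] at er
  simp only [hEL0, hEL1, hEL2, hEL4, fldA, velA, regVel, regFld, orbAt, Orb.cBase, Orb.shapeU, shapeG, Orb.shapeT, shapeW, er,
    Pi.add_apply, Pi.sub_apply, Pi.smul_apply, Pi.zero_apply, smul_eq_mul, Matrix.cons_val,
    sub_add_cancel, one_div_one_div, one_div_div, mul_one, one_mul, mul_zero, zero_mul, add_zero,
    zero_add, sub_zero, neg_zero, zero_div, div_one, ← hD, ← hE, X, Y]
  all_goals
    (try simp only [← hD, ← hE])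
    (try generalize dxR _ _ _ x y _ w = X')
    (try generalize dyR _ _ _ x y _ w = Y')
    (try field_simp)
  all_goals
    subst hD hE
    (try ring)

theorem A_hG (h : Pt N p q a b R x y z s w) :
    let X := dxR N p q x y z w
    let Y := dyR N p q x y z w
    pairFun (hG (⟨a, b, x, y⟩ : Frame)) N p q x y (fldA N p q R x y s w)
      (velA N p q R x y z s w w₁) =
      0 := by
  have e := fun f f' => hG_lin h f f'
  obtain ⟨-, -, er⟩ := h.lam_eq
  intro X Y
  rw [e]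
  obtain ⟨rfl, rfl, rfl, a0, b0, M0, x0, y0, s0, D0, E0, hz⟩ := h
  subst hz
  obtain ⟨D, hD⟩ : ∃ D, D = a * x + b * y := ⟨_, rfl⟩
  obtain ⟨E, hE⟩ : ∃ E, E = b * y - a * x := ⟨_, rfl⟩
  rw [← hD] at D0
  rw [← hE] at E0
  simp only [← hE] at er
  simp only [hGL0, hGL1, hGL2, hGL4, fldA, velA, regVel, regFld, orbAt, Orb.cBase, Orb.shapeU, shapeG, Orb.shapeT, shapeW, er,
    Pi.add_apply, Pi.sub_apply, Pi.smul_apply, Pi.zero_apply, smul_eq_mul, Matrix.cons_val,
    sub_add_cancel, one_div_one_div, one_div_div, mul_one, one_mul, mul_zero, zero_mul, add_zero,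
    zero_add, sub_zero, neg_zero, zero_div, div_one, ← hD, ← hE, X, Y]
  all_goals
    (try simp only [← hD, ← hE])
    (try generalize dxR _ _ _ x y _ w = X')
    (try generalize dyR _ _ _ x y _ w = Y')
    (try field_simp)
  all_goals
    subst hD hE
    (try ring)

theorem A_lMM (h : Pt N p q a b R x y z s w) :
    let X := dxR N p q x y z w
    let Y := dyR N p q x y z w
    pairFun (lMM (⟨a, b, x, y⟩ : Frame) N p q) N p q x y (fldA N p q R x y s w)
      (velA N p q R x y z s w w₁) =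
      0 := by
  have e := fun f f' => lMM_lin h f f'
  obtain ⟨-, -, er⟩ := h.lam_eq
  intro X Y
  rw [e]
  obtain ⟨rfl, rfl, rfl, a0, b0, M0, x0, y0, s0, D0, E0, hz⟩ := h
  subst hz
  obtain ⟨D, hD⟩ : ∃ D, D = a * x + b * y := ⟨_, rfl⟩
  obtain ⟨E, hE⟩ : ∃ E, E = b * y - a * x := ⟨_, rfl⟩
  rw [← hD] at D0
  rw [← hE] at E0
  simp only [← hE] at er
  simp only [MML0, MML1, MML2, MML4, MML5, MML6, fldA, velA, regVel, regFld, orbAt, Orb.cBase, Orb.shapeU, shapeG, Orb.shapeT, shapeW, er,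
    Pi.add_apply, Pi.sub_apply, Pi.smul_apply, Pi.zero_apply, smul_eq_mul, Matrix.cons_val,
    sub_add_cancel, one_div_one_div, one_div_div, mul_one, one_mul, mul_zero, zero_mul, add_zero,
    zero_add, sub_zero, neg_zero, zero_div, div_one, ← hD, ← hE, X, Y]
  all_goals
    (try simp only [← hD, ← hE])
    (try generalize dxR _ _ _ x y _ w = X')
    (try generalize dyR _ _ _ x y _ w = Y')
    (try field_simp)
  all_goals
    subst hD hE
    (try ring)

theorem A_lME (h : Pt N p q a b R x y z s w) :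
    let X := dxR N p q x y z w
    let Y := dyR N p q x y z w
    pairFun (lME (⟨a, b, x, y⟩ : Frame) N p q) N p q x y (fldA N p q R x y s w)
      (velA N p q R x y z s w w₁) =
      ((x * y ^ (2 : ℕ) * (-a - b + 1) + x ^ (2 : ℕ) * y * (a + b - 1)) + Y * (x * (-2)) + X * (y * (2))) /
        (x * y * (a * x + b * y) ^ (2 : ℕ)) := by
  have e := fun f f' => lME_lin h f f'
  obtain ⟨-, -, er⟩ := h.lam_eq
  intro X Y
  rw [e]
  obtain ⟨rfl, rfl, rfl, a0, b0, M0, x0, y0, s0, D0, E0, hz⟩ := h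
  subst hz
  obtain ⟨D, hD⟩ : ∃ D, D = a * x + b * y := ⟨_, rfl⟩
  obtain ⟨E, hE⟩ : ∃ E, E = b * y - a * x := ⟨_, rfl⟩
  rw [← hD] at D0
  rw [← hE] at E0
  simp only [← hE] at er
  simp only [MEL0, MEL1, MEL2, MEL4, MEL5, MEL6, fldA, velA, regVel, regFld, orbAt, Orb.cBase, Orb.shapeU, shapeG, Orb.shapeT, shapeW, er,
    Pi.add_apply, Pi.sub_apply, Pi.smul_apply, Pi.zero_apply, smul_eq_mul, Matrix.cons_val,
    sub_add_cancel, one_div_one_div, one_div_div, mul_one, one_mul, mul_zero, zero_mul, add_zero,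
    zero_add, sub_zero, neg_zero, zero_div, div_one, ← hD, ← hE, X, Y]
  all_goals
    (try simp only [← hD, ← hE])
    (try generalize dxR _ _ _ x y _ w = X')
    (try generalize dyR _ _ _ x y _ w = Y')
    (try field_simp)
  all_goals
    subst hD hE
    (try ring)

theorem A_lMG (h : Pt N p q a b R x y z s w) :
    let X := dxR N p q x y z w
    let Y := dyR N p q x y z w
    pairFun (lMG (⟨a, b, x, y⟩ : Frame) N p q) N p q x y (fldA N p q R x y s w)
      (velA N p q R x y z s w w₁) =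
      ((x * y ^ (3 : ℕ) * (b) + x ^ (2 : ℕ) * y ^ (2 : ℕ) * (a + b - 1) + x ^ (3 : ℕ) * y * (a)) + Y * (x * y * (-b) + x
        ^ (2 : ℕ) * (a)) + X * (y ^ (2 : ℕ) * (b) + x * y * (-a))) / (x ^ (2 : ℕ) * y ^ (2 : ℕ) * (a * x + b * y) ^ (2 : ℕ)) := by
  have e := fun f f' => lMG_lin h f f'
  obtain ⟨-, -, er⟩ := h.lam_eq
  intro X Y
  rw [e]
  obtain ⟨rfl, rfl, rfl, a0, b0, M0, x0, y0, s0, D0, E0, hz⟩ := h
  subst hz
  obtain ⟨D, hD⟩ : ∃ D, D = a * x + b * y := ⟨_, rfl⟩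
  obtain ⟨E, hE⟩ : ∃ E, E = b * y - a * x := ⟨_, rfl⟩
  rw [← hD] at D0
  rw [← hE] at E0
  simp only [← hE] at er
  simp only [MGL0, MGL1, MGL2, MGL4, MGL5, MGL6, fldA, velA, regVel, regFld, orbAt, Orb.cBase, Orb.shapeU, shapeG, Orb.shapeT, shapeW, er,
    Pi.add_apply, Pi.sub_apply, Pi.smul_apply, Pi.zero_apply, smul_eq_mul, Matrix.cons_val,
    sub_add_cancel, one_div_one_div, one_div_div, mul_one, one_mul, mul_zero, zero_mul, add_zero,
    zero_add, sub_zero, neg_zero, zero_div, div_one, ← hD, ← hE, X, Y]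
  all_goals
    (try simp only [← hD, ← hE])
    (try generalize dxR _ _ _ x y _ w = X')
    (try generalize dyR _ _ _ x y _ w = Y')
    (try field_simp)
  all_goals
    subst hD hE
    (try ring)

theorem A_lEE (h : Pt N p q a b R x y z s w) :
    let X := dxR N p q x y z w
    let Y := dyR N p q x y z w
    pairFun (lEE (⟨a, b, x, y⟩ : Frame) N p q) N p q x y (fldA N p q R x y s w)
      (velA N p q R x y z s w w₁) =
      ((x * y ^ (2 : ℕ) * (2 * a ^ (2 : ℕ) * b + 4 * a * b ^ (2 : ℕ) - 2 * a * b + 2 * b ^ (3 : ℕ) - 2 * b ^ (2 : ℕ)) + x ^ (2 : ℕ)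
        * y * (-2 * a ^ (3 : ℕ) - 4 * a ^ (2 : ℕ) * b + 2 * a ^ (2 : ℕ) - 2 * a * b ^ (2 : ℕ) + 2 * a * b)) + Y * (x * (4
        * a * b)) + X * (y * (-4 * a * b))) / (x * y * (a * x + b * y) ^ (2 : ℕ) * (b * y - a * x)) := by
  have e := fun f f' => lEE_lin h f f'
  obtain ⟨-, -, er⟩ := h.lam_eq
  intro X Y
  rw [e]
  obtain ⟨rfl, rfl, rfl, a0, b0, M0, x0, y0, s0, D0, E0, hz⟩ := h
  subst hz
  obtain ⟨D, hD⟩ : ∃ D, D = a * x + b * y := ⟨_, rfl⟩
  obtain ⟨E, hE⟩ : ∃ E, E = b * y - a * x := ⟨_, rfl⟩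
  rw [← hD] at D0
  rw [← hE] at E0
  simp only [← hE] at er
  simp only [EEL0, EEL1, EEL2, EEL4, EEL5, EEL6, fldA, velA, regVel, regFld, orbAt, Orb.cBase, Orb.shapeU, shapeG, Orb.shapeT, shapeW, er,
    Pi.add_apply, Pi.sub_apply, Pi.smul_apply, Pi.zero_apply, smul_eq_mul, Matrix.cons_val,
    sub_add_cancel, one_div_one_div, one_div_div, mul_one, one_mul, mul_zero, zero_mul, add_zero,
    zero_add, sub_zero, neg_zero, zero_div, div_one, ← hD, ← hE, X, Y]
  all_goals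
    (try simp only [← hD, ← hE])
    (try generalize dxR _ _ _ x y _ w = X')
    (try generalize dyR _ _ _ x y _ w = Y')
    (try field_simp)
  all_goals
    subst hD hE
    (try ring)

theorem A_lEG (h : Pt N p q a b R x y z s w) :
    let X := dxR N p q x y z w
    let Y := dyR N p q x y z w
    pairFun (lEG (⟨a, b, x, y⟩ : Frame) N p q) N p q x y (fldA N p q R x y s w)
      (velA N p q R x y z s w w₁) =
      ((x * y ^ (2 : ℕ) * (2 * a * b ^ (2 : ℕ) - a * b + 2 * b ^ (3 : ℕ) + b ^ (2 : ℕ) - b) + x ^ (2 : ℕ) * y * (-2 * a ^ (3 : ℕ) -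
        2 * a ^ (2 : ℕ) * b - a ^ (2 : ℕ) + a * b + a)) + Y * (x * (4 * a * b)) + X * (y * (-4 * a * b))) / (2
        * x ^ (2 : ℕ) * y ^ (2 : ℕ) * (a * x + b * y) ^ (2 : ℕ)) := by
  have e := fun f f' => lEG_lin h f f'
  obtain ⟨-, -, er⟩ := h.lam_eq
  intro X Y
  rw [e]
  obtain ⟨rfl, rfl, rfl, a0, b0, M0, x0, y0, s0, D0, E0, hz⟩ := h
  subst hz
  obtain ⟨D, hD⟩ : ∃ D, D = a * x + b * y := ⟨_, rfl⟩
  obtain ⟨E, hE⟩ : ∃ E, E = b * y - a * x := ⟨_, rfl⟩
  rw [← hD] at D0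
  rw [← hE] at E0
  simp only [← hE] at er
  simp only [EGL0, EGL1, EGL2, EGL4, EGL5, EGL6, fldA, velA, regVel, regFld, orbAt, Orb.cBase, Orb.shapeU, shapeG, Orb.shapeT, shapeW, er,
    Pi.add_apply, Pi.sub_apply, Pi.smul_apply, Pi.zero_apply, smul_eq_mul, Matrix.cons_val,
    sub_add_cancel, one_div_one_div, one_div_div, mul_one, one_mul, mul_zero, zero_mul, add_zero,
    zero_add, sub_zero, neg_zero, zero_div, div_one, ← hD, ← hE, X, Y]
  all_goals
    (try simp only [← hD, ← hE])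
    (try generalize dxR _ _ _ x y _ w = X')
    (try generalize dyR _ _ _ x y _ w = Y')
    (try field_simp)
  all_goals
    subst hD hE
    (try ring)

theorem A_lGG (h : Pt N p q a b R x y z s w) :
    let X := dxR N p q x y z w
    let Y := dyR N p q x y z w
    pairFun (lGG (⟨a, b, x, y⟩ : Frame) N p q) N p q x y (fldA N p q R x y s w)
      (velA N p q R x y z s w w₁) =
      (((-a ^ (2 : ℕ) * b - a * b ^ (2 : ℕ)))) / (x * y * (a * x + b * y) ^ (2 : ℕ)) := by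
  have e := fun f f' => lGG_lin h f f'
  obtain ⟨-, -, er⟩ := h.lam_eq
  intro X Y
  rw [e]
  obtain ⟨rfl, rfl, rfl, a0, b0, M0, x0, y0, s0, D0, E0, hz⟩ := h
  subst hz
  obtain ⟨D, hD⟩ : ∃ D, D = a * x + b * y := ⟨_, rfl⟩
  obtain ⟨E, hE⟩ : ∃ E, E = b * y - a * x := ⟨_, rfl⟩
  rw [← hD] at D0
  rw [← hE] at E0
  simp only [← hE] at er
  simp only [GGL0, GGL1, GGL2, GGL4, GGL5, GGL6, fldA, velA, regVel, regFld, orbAt, Orb.cBase, Orb.shapeU, shapeG, Orb.shapeT, shapeW, er,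
    Pi.add_apply, Pi.sub_apply, Pi.smul_apply, Pi.zero_apply, smul_eq_mul, Matrix.cons_val,
    sub_add_cancel, one_div_one_div, one_div_div, mul_one, one_mul, mul_zero, zero_mul, add_zero,
    zero_add, sub_zero, neg_zero, zero_div, div_one, ← hD, ← hE, X, Y]
  all_goals
    (try simp only [← hD, ← hE])
    (try generalize dxR _ _ _ x y _ w = X')
    (try generalize dyR _ _ _ x y _ w = Y')
    (try field_simp)
  all_goals
    subst hD hE
    (try ring)

theorem A_lLG (h : Pt N p q a b R x y z s w) :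
    let X := dxR N p q x y z w
    let Y := dyR N p q x y z w
    pairFun (lLG (⟨a, b, x, y⟩ : Frame) N p q z) N p q x y (fldA N p q R x y s w)
      (velA N p q R x y z s w w₁) =
      ((y * (-b) + x * (-a)) + w * R * ((a))) / (x * y ^ (2 : ℕ)) := by
  have e := fun f f' => lLG_lin h f f'
  obtain ⟨-, -, er⟩ := h.lam_eq
  intro X Y
  rw [e]
  obtain ⟨rfl, rfl, rfl, a0, b0, M0, x0, y0, s0, D0, E0, hz⟩ := h
  subst hz
  obtain ⟨D, hD⟩ : ∃ D, D = a * x + b * y := ⟨_, rfl⟩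
  obtain ⟨E, hE⟩ : ∃ E, E = b * y - a * x := ⟨_, rfl⟩
  rw [← hD] at D0
  rw [← hE] at E0
  simp only [← hE] at er
  simp only [LGL0, LGL1, LGL2, LGL3, LGL4, LGL7, fldA, velA, regVel, regFld, orbAt, Orb.cBase, Orb.shapeU, shapeG, Orb.shapeT, shapeW, er,
    Pi.add_apply, Pi.sub_apply, Pi.smul_apply, Pi.zero_apply, smul_eq_mul, Matrix.cons_val,
    sub_add_cancel, one_div_one_div, one_div_div, mul_one, one_mul, mul_zero, zero_mul, add_zero,
    zero_add, sub_zero, neg_zero, zero_div, div_one, ← hD, ← hE, X, Y]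
  all_goals
    (try simp only [← hD, ← hE])
    (try generalize dxR _ _ _ x y _ w = X')
    (try generalize dyR _ _ _ x y _ w = Y')
    (try field_simp)
  all_goals
    subst hD hE
    (try ring)

theorem A₀_gM (h : Pt N p q a b R x y z s w) :
    let X := dxR N p q x y z w
    let Y := dyR N p q x y z w
    pairFun (gM (⟨a, b, x, y⟩ : Frame)) N p q x y (0)
      (fldA N p q R x y s w) =
      0 := by
  have e := fun f f' => gM_lin h f f'
  obtain ⟨-, -, er⟩ := h.lam_eq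
  intro X Y
  rw [e]
  obtain ⟨rfl, rfl, rfl, a0, b0, M0, x0, y0, s0, D0, E0, hz⟩ := h
  subst hz
  obtain ⟨D, hD⟩ : ∃ D, D = a * x + b * y := ⟨_, rfl⟩
  obtain ⟨E, hE⟩ : ∃ E, E = b * y - a * x := ⟨_, rfl⟩
  rw [← hD] at D0
  rw [← hE] at E0
  simp only [← hE] at er
  simp only [gML0, gML1, gML2, gML4, fldA, regFld, orbAt, Orb.cBase, Orb.shapeU, shapeG, Orb.shapeT, shapeW, er,
    Pi.add_apply, Pi.sub_apply, Pi.smul_apply, Pi.zero_apply, smul_eq_mul, Matrix.cons_val,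
    sub_add_cancel, one_div_one_div, one_div_div, mul_one, one_mul, mul_zero, zero_mul, add_zero,
    zero_add, sub_zero, neg_zero, zero_div, div_one, ← hD, ← hE, X, Y]
  all_goals
    (try simp only [← hD, ← hE])
    (try generalize dxR _ _ _ x y _ w = X')
    (try generalize dyR _ _ _ x y _ w = Y')
    (try field_simp)
  all_goals
    subst hD hE
    (try ring)

theorem A₀_gE (h : Pt N p q a b R x y z s w) :
    let X := dxR N p q x y z w
    let Y := dyR N p q x y z w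
    pairFun (gE (⟨a, b, x, y⟩ : Frame)) N p q x y (0)
      (fldA N p q R x y s w) =
      0 := by
  have e := fun f f' => gE_lin h f f'
  obtain ⟨-, -, er⟩ := h.lam_eq
  intro X Y
  rw [e]
  obtain ⟨rfl, rfl, rfl, a0, b0, M0, x0, y0, s0, D0, E0, hz⟩ := h
  subst hz
  obtain ⟨D, hD⟩ : ∃ D, D = a * x + b * y := ⟨_, rfl⟩
  obtain ⟨E, hE⟩ : ∃ E, E = b * y - a * x := ⟨_, rfl⟩
  rw [← hD] at D0
  rw [← hE] at E0
  simp only [← hE] at er
  simp only [gEL0, gEL1, gEL2, gEL4, fldA, regFld, orbAt, Orb.cBase, Orb.shapeU, shapeG, Orb.shapeT, shapeW, er,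
    Pi.add_apply, Pi.sub_apply, Pi.smul_apply, Pi.zero_apply, smul_eq_mul, Matrix.cons_val,
    sub_add_cancel, one_div_one_div, one_div_div, mul_one, one_mul, mul_zero, zero_mul, add_zero,
    zero_add, sub_zero, neg_zero, zero_div, div_one, ← hD, ← hE, X, Y]
  all_goals
    (try simp only [← hD, ← hE])
    (try generalize dxR _ _ _ x y _ w = X')
    (try generalize dyR _ _ _ x y _ w = Y')
    (try field_simp)
  all_goals
    subst hD hE
    (try ring)

theorem A₀_gG (h : Pt N p q a b R x y z s w) :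
    let X := dxR N p q x y z w
    let Y := dyR N p q x y z w
    pairFun (gG (⟨a, b, x, y⟩ : Frame)) N p q x y (0)
      (fldA N p q R x y s w) =
      0 := by
  have e := fun f f' => gG_lin h f f'
  obtain ⟨-, -, er⟩ := h.lam_eq
  intro X Y
  rw [e]
  obtain ⟨rfl, rfl, rfl, a0, b0, M0, x0, y0, s0, D0, E0, hz⟩ := h
  subst hz
  obtain ⟨D, hD⟩ : ∃ D, D = a * x + b * y := ⟨_, rfl⟩
  obtain ⟨E, hE⟩ : ∃ E, E = b * y - a * x := ⟨_, rfl⟩
  rw [← hD] at D0
  rw [← hE] at E0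
  simp only [← hE] at er
  simp only [gGL0, gGL1, gGL2, gGL4, fldA, regFld, orbAt, Orb.cBase, Orb.shapeU, shapeG, Orb.shapeT, shapeW, er,
    Pi.add_apply, Pi.sub_apply, Pi.smul_apply, Pi.zero_apply, smul_eq_mul, Matrix.cons_val,
    sub_add_cancel, one_div_one_div, one_div_div, mul_one, one_mul, mul_zero, zero_mul, add_zero,
    zero_add, sub_zero, neg_zero, zero_div, div_one, ← hD, ← hE, X, Y]
  all_goals
    (try simp only [← hD, ← hE])
    (try generalize dxR _ _ _ x y _ w = X')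
    (try generalize dyR _ _ _ x y _ w = Y')
    (try field_simp)
  all_goals
    subst hD hE
    (try ring)

theorem A₀_hM (h : Pt N p q a b R x y z s w) :
    let X := dxR N p q x y z w
    let Y := dyR N p q x y z w
    pairFun (hM (⟨a, b, x, y⟩ : Frame)) N p q x y (0)
      (fldA N p q R x y s w) =
      0 := by
  have e := fun f f' => hM_lin h f f'
  obtain ⟨-, -, er⟩ := h.lam_eq
  intro X Y
  rw [e]
  obtain ⟨rfl, rfl, rfl, a0, b0, M0, x0, y0, s0, D0, E0, hz⟩ := h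
  subst hz
  obtain ⟨D, hD⟩ : ∃ D, D = a * x + b * y := ⟨_, rfl⟩
  obtain ⟨E, hE⟩ : ∃ E, E = b * y - a * x := ⟨_, rfl⟩
  rw [← hD] at D0
  rw [← hE] at E0
  simp only [← hE] at er
  simp only [hML0, hML1, hML2, hML4, fldA, regFld, orbAt, Orb.cBase, Orb.shapeU, shapeG, Orb.shapeT, shapeW, er,
    Pi.add_apply, Pi.sub_apply, Pi.smul_apply, Pi.zero_apply, smul_eq_mul, Matrix.cons_val,
    sub_add_cancel, one_div_one_div, one_div_div, mul_one, one_mul, mul_zero, zero_mul, add_zero,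
    zero_add, sub_zero, neg_zero, zero_div, div_one, ← hD, ← hE, X, Y]
  all_goals
    (try simp only [← hD, ← hE])
    (try generalize dxR _ _ _ x y _ w = X')
    (try generalize dyR _ _ _ x y _ w = Y')
    (try field_simp)
  all_goals
    subst hD hE
    (try ring)

theorem A₀_hEf (h : Pt N p q a b R x y z s w) :
    let X := dxR N p q x y z w
    let Y := dyR N p q x y z w
    pairFun (hEf (⟨a, b, x, y⟩ : Frame)) N p q x y (0)
      (fldA N p q R x y s w) =
      0 := by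
  have e := fun f f' => hEf_lin h f f'
  obtain ⟨-, -, er⟩ := h.lam_eq
  intro X Y
  rw [e]
  obtain ⟨rfl, rfl, rfl, a0, b0, M0, x0, y0, s0, D0, E0, hz⟩ := h
  subst hz
  obtain ⟨D, hD⟩ : ∃ D, D = a * x + b * y := ⟨_, rfl⟩
  obtain ⟨E, hE⟩ : ∃ E, E = b * y - a * x := ⟨_, rfl⟩
  rw [← hD] at D0
  rw [← hE] at E0
  simp only [← hE] at er
  simp only [hEL0, hEL1, hEL2, hEL4, fldA, regFld, orbAt, Orb.cBase, Orb.shapeU, shapeG, Orb.shapeT, shapeW, er,
    Pi.add_apply, Pi.sub_apply, Pi.smul_apply, Pi.zero_apply, smul_eq_mul, Matrix.cons_val,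
    sub_add_cancel, one_div_one_div, one_div_div, mul_one, one_mul, mul_zero, zero_mul, add_zero,
    zero_add, sub_zero, neg_zero, zero_div, div_one, ← hD, ← hE, X, Y]
  all_goals
    (try simp only [← hD, ← hE])
    (try generalize dxR _ _ _ x y _ w = X')
    (try generalize dyR _ _ _ x y _ w = Y')
    (try field_simp)
  all_goals
    subst hD hE
    (try ring)

theorem A₀_hG (h : Pt N p q a b R x y z s w) :
    let X := dxR N p q x y z w
    let Y := dyR N p q x y z w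
    pairFun (hG (⟨a, b, x, y⟩ : Frame)) N p q x y (0)
      (fldA N p q R x y s w) =
      0 := by
  have e := fun f f' => hG_lin h f f'
  obtain ⟨-, -, er⟩ := h.lam_eq
  intro X Y
  rw [e]
  obtain ⟨rfl, rfl, rfl, a0, b0, M0, x0, y0, s0, D0, E0, hz⟩ := h
  subst hz
  obtain ⟨D, hD⟩ : ∃ D, D = a * x + b * y := ⟨_, rfl⟩
  obtain ⟨E, hE⟩ : ∃ E, E = b * y - a * x := ⟨_, rfl⟩
  rw [← hD] at D0
  rw [← hE] at E0
  simp only [← hE] at er
  simp only [hGL0, hGL1, hGL2, hGL4, fldA, regFld, orbAt, Orb.cBase, Orb.shapeU, shapeG, Orb.shapeT, shapeW, er,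
    Pi.add_apply, Pi.sub_apply, Pi.smul_apply, Pi.zero_apply, smul_eq_mul, Matrix.cons_val,
    sub_add_cancel, one_div_one_div, one_div_div, mul_one, one_mul, mul_zero, zero_mul, add_zero,
    zero_add, sub_zero, neg_zero, zero_div, div_one, ← hD, ← hE, X, Y]
  all_goals
    (try simp only [← hD, ← hE])
    (try generalize dxR _ _ _ x y _ w = X')
    (try generalize dyR _ _ _ x y _ w = Y')
    (try field_simp)
  all_goals
    subst hD hE
    (try ring)

theorem A₀_lMM (h : Pt N p q a b R x y z s w) :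
    let X := dxR N p q x y z w
    let Y := dyR N p q x y z w
    pairFun (lMM (⟨a, b, x, y⟩ : Frame) N p q) N p q x y (0)
      (fldA N p q R x y s w) =
      0 := by
  have e := fun f f' => lMM_lin h f f'
  obtain ⟨-, -, er⟩ := h.lam_eq
  intro X Y
  rw [e]
  obtain ⟨rfl, rfl, rfl, a0, b0, M0, x0, y0, s0, D0, E0, hz⟩ := h
  subst hz
  obtain ⟨D, hD⟩ : ∃ D, D = a * x + b * y := ⟨_, rfl⟩
  obtain ⟨E, hE⟩ : ∃ E, E = b * y - a * x := ⟨_, rfl⟩
  rw [← hD] at D0
  rw [← hE] at E0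
  simp only [← hE] at er
  simp only [MML0, MML1, MML2, MML4, MML5, MML6, fldA, regFld, orbAt, Orb.cBase, Orb.shapeU, shapeG, Orb.shapeT, shapeW, er,
    Pi.add_apply, Pi.sub_apply, Pi.smul_apply, Pi.zero_apply, smul_eq_mul, Matrix.cons_val,
    sub_add_cancel, one_div_one_div, one_div_div, mul_one, one_mul, mul_zero, zero_mul, add_zero,
    zero_add, sub_zero, neg_zero, zero_div, div_one, ← hD, ← hE, X, Y]
  all_goals
    (try simp only [← hD, ← hE])
    (try generalize dxR _ _ _ x y _ w = X')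
    (try generalize dyR _ _ _ x y _ w = Y')
    (try field_simp)
  all_goals
    subst hD hE
    (try ring)

theorem A₀_lME (h : Pt N p q a b R x y z s w) :
    let X := dxR N p q x y z w
    let Y := dyR N p q x y z w
    pairFun (lME (⟨a, b, x, y⟩ : Frame) N p q) N p q x y (0)
      (fldA N p q R x y s w) =
      0 := by
  have e := fun f f' => lME_lin h f f'
  obtain ⟨-, -, er⟩ := h.lam_eq
  intro X Y
  rw [e]
  obtain ⟨rfl, rfl, rfl, a0, b0, M0, x0, y0, s0, D0, E0, hz⟩ := h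
  subst hz
  obtain ⟨D, hD⟩ : ∃ D, D = a * x + b * y := ⟨_, rfl⟩
  obtain ⟨E, hE⟩ : ∃ E, E = b * y - a * x := ⟨_, rfl⟩
  rw [← hD] at D0
  rw [← hE] at E0
  simp only [← hE] at er
  simp only [MEL0, MEL1, MEL2, MEL4, MEL5, MEL6, fldA, regFld, orbAt, Orb.cBase, Orb.shapeU, shapeG, Orb.shapeT, shapeW, er,
    Pi.add_apply, Pi.sub_apply, Pi.smul_apply, Pi.zero_apply, smul_eq_mul, Matrix.cons_val,
    sub_add_cancel, one_div_one_div, one_div_div, mul_one, one_mul, mul_zero, zero_mul, add_zero,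
    zero_add, sub_zero, neg_zero, zero_div, div_one, ← hD, ← hE, X, Y]
  all_goals
    (try simp only [← hD, ← hE])
    (try generalize dxR _ _ _ x y _ w = X')
    (try generalize dyR _ _ _ x y _ w = Y')
    (try field_simp)
  all_goals
    subst hD hE
    (try ring)

theorem A₀_lMG (h : Pt N p q a b R x y z s w) :
    let X := dxR N p q x y z w
    let Y := dyR N p q x y z w
    pairFun (lMG (⟨a, b, x, y⟩ : Frame) N p q) N p q x y (0)
      (fldA N p q R x y s w) =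
      ((y * (b) + x * (-a))) / (x * y * a * b * (a * x + b * y)) := by
  have e := fun f f' => lMG_lin h f f'
  obtain ⟨-, -, er⟩ := h.lam_eq
  intro X Y
  rw [e]
  obtain ⟨rfl, rfl, rfl, a0, b0, M0, x0, y0, s0, D0, E0, hz⟩ := h
  subst hz
  obtain ⟨D, hD⟩ : ∃ D, D = a * x + b * y := ⟨_, rfl⟩
  obtain ⟨E, hE⟩ : ∃ E, E = b * y - a * x := ⟨_, rfl⟩
  rw [← hD] at D0
  rw [← hE] at E0
  simp only [← hE] at er
  simp only [MGL0, MGL1, MGL2, MGL4, MGL5, MGL6, fldA, regFld, orbAt, Orb.cBase, Orb.shapeU, shapeG, Orb.shapeT, shapeW, er,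
    Pi.add_apply, Pi.sub_apply, Pi.smul_apply, Pi.zero_apply, smul_eq_mul, Matrix.cons_val,
    sub_add_cancel, one_div_one_div, one_div_div, mul_one, one_mul, mul_zero, zero_mul, add_zero,
    zero_add, sub_zero, neg_zero, zero_div, div_one, ← hD, ← hE, X, Y]
  all_goals
    (try simp only [← hD, ← hE])
    (try generalize dxR _ _ _ x y _ w = X')
    (try generalize dyR _ _ _ x y _ w = Y')
    (try field_simp)
  all_goals
    subst hD hE
    (try ring)

theorem A₀_lEE (h : Pt N p q a b R x y z s w) :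
    let X := dxR N p q x y z w
    let Y := dyR N p q x y z w
    pairFun (lEE (⟨a, b, x, y⟩ : Frame) N p q) N p q x y (0)
      (fldA N p q R x y s w) =
      0 := by
  have e := fun f f' => lEE_lin h f f'
  obtain ⟨-, -, er⟩ := h.lam_eq
  intro X Y
  rw [e]
  obtain ⟨rfl, rfl, rfl, a0, b0, M0, x0, y0, s0, D0, E0, hz⟩ := h
  subst hz
  obtain ⟨D, hD⟩ : ∃ D, D = a * x + b * y := ⟨_, rfl⟩
  obtain ⟨E, hE⟩ : ∃ E, E = b * y - a * x := ⟨_, rfl⟩
  rw [← hD] at D0
  rw [← hE] at E0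
  simp only [← hE] at er
  simp only [EEL0, EEL1, EEL2, EEL4, EEL5, EEL6, fldA, regFld, orbAt, Orb.cBase, Orb.shapeU, shapeG, Orb.shapeT, shapeW, er,
    Pi.add_apply, Pi.sub_apply, Pi.smul_apply, Pi.zero_apply, smul_eq_mul, Matrix.cons_val,
    sub_add_cancel, one_div_one_div, one_div_div, mul_one, one_mul, mul_zero, zero_mul, add_zero,
    zero_add, sub_zero, neg_zero, zero_div, div_one, ← hD, ← hE, X, Y]
  all_goals
    (try simp only [← hD, ← hE])
    (try generalize dxR _ _ _ x y _ w = X')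
    (try generalize dyR _ _ _ x y _ w = Y')
    (try field_simp)
  all_goals
    subst hD hE
    (try ring)

theorem A₀_lEG (h : Pt N p q a b R x y z s w) :
    let X := dxR N p q x y z w
    let Y := dyR N p q x y z w
    pairFun (lEG (⟨a, b, x, y⟩ : Frame) N p q) N p q x y (0)
      (fldA N p q R x y s w) =
      (((-2))) / (x * y * (a * x + b * y)) := by
  have e := fun f f' => lEG_lin h f f'
  obtain ⟨-, -, er⟩ := h.lam_eq
  intro X Y
  rw [e]
  obtain ⟨rfl, rfl, rfl, a0, b0, M0, x0, y0, s0, D0, E0, hz⟩ := h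
  subst hz
  obtain ⟨D, hD⟩ : ∃ D, D = a * x + b * y := ⟨_, rfl⟩
  obtain ⟨E, hE⟩ : ∃ E, E = b * y - a * x := ⟨_, rfl⟩
  rw [← hD] at D0
  rw [← hE] at E0
  simp only [← hE] at er
  simp only [EGL0, EGL1, EGL2, EGL4, EGL5, EGL6, fldA, regFld, orbAt, Orb.cBase, Orb.shapeU, shapeG, Orb.shapeT, shapeW, er,
    Pi.add_apply, Pi.sub_apply, Pi.smul_apply, Pi.zero_apply, smul_eq_mul, Matrix.cons_val,
    sub_add_cancel, one_div_one_div, one_div_div, mul_one, one_mul, mul_zero, zero_mul, add_zero,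
    zero_add, sub_zero, neg_zero, zero_div, div_one, ← hD, ← hE, X, Y]
  all_goals
    (try simp only [← hD, ← hE])
    (try generalize dxR _ _ _ x y _ w = X')
    (try generalize dyR _ _ _ x y _ w = Y')
    (try field_simp)
  all_goals
    subst hD hE
    (try ring)

theorem A₀_lGG (h : Pt N p q a b R x y z s w) :
    let X := dxR N p q x y z w
    let Y := dyR N p q x y z w
    pairFun (lGG (⟨a, b, x, y⟩ : Frame) N p q) N p q x y (0)
      (fldA N p q R x y s w) =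
      0 := by
  have e := fun f f' => lGG_lin h f f'
  obtain ⟨-, -, er⟩ := h.lam_eq
  intro X Y
  rw [e]
  obtain ⟨rfl, rfl, rfl, a0, b0, M0, x0, y0, s0, D0, E0, hz⟩ := h
  subst hz
  obtain ⟨D, hD⟩ : ∃ D, D = a * x + b * y := ⟨_, rfl⟩
  obtain ⟨E, hE⟩ : ∃ E, E = b * y - a * x := ⟨_, rfl⟩
  rw [← hD] at D0
  rw [← hE] at E0
  simp only [← hE] at er
  simp only [GGL0, GGL1, GGL2, GGL4, GGL5, GGL6, fldA, regFld, orbAt, Orb.cBase, Orb.shapeU, shapeG, Orb.shapeT, shapeW, er,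
    Pi.add_apply, Pi.sub_apply, Pi.smul_apply, Pi.zero_apply, smul_eq_mul, Matrix.cons_val,
    sub_add_cancel, one_div_one_div, one_div_div, mul_one, one_mul, mul_zero, zero_mul, add_zero,
    zero_add, sub_zero, neg_zero, zero_div, div_one, ← hD, ← hE, X, Y]
  all_goals
    (try simp only [← hD, ← hE])
    (try generalize dxR _ _ _ x y _ w = X')
    (try generalize dyR _ _ _ x y _ w = Y')
    (try field_simp)
  all_goals
    subst hD hE
    (try ring)

theorem A₀_lLG (h : Pt N p q a b R x y z s w) :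
    let X := dxR N p q x y z w
    let Y := dyR N p q x y z w
    pairFun (lLG (⟨a, b, x, y⟩ : Frame) N p q z) N p q x y (0)
      (fldA N p q R x y s w) =
      0 := by
  have e := fun f f' => lLG_lin h f f'
  obtain ⟨-, -, er⟩ := h.lam_eq
  intro X Y
  rw [e]
  obtain ⟨rfl, rfl, rfl, a0, b0, M0, x0, y0, s0, D0, E0, hz⟩ := h
  subst hz
  obtain ⟨D, hD⟩ : ∃ D, D = a * x + b * y := ⟨_, rfl⟩
  obtain ⟨E, hE⟩ : ∃ E, E = b * y - a * x := ⟨_, rfl⟩
  rw [← hD] at D0
  rw [← hE] at E0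
  simp only [← hE] at er
  simp only [LGL0, LGL1, LGL2, LGL3, LGL4, LGL7, fldA, regFld, orbAt, Orb.cBase, Orb.shapeU, shapeG, Orb.shapeT, shapeW, er,
    Pi.add_apply, Pi.sub_apply, Pi.smul_apply, Pi.zero_apply, smul_eq_mul, Matrix.cons_val,
    sub_add_cancel, one_div_one_div, one_div_div, mul_one, one_mul, mul_zero, zero_mul, add_zero,
    zero_add, sub_zero, neg_zero, zero_div, div_one, ← hD, ← hE, X, Y]
  all_goals
    (try simp only [← hD, ← hE])
    (try generalize dxR _ _ _ x y _ w = X')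
    (try generalize dyR _ _ _ x y _ w = Y')
    (try field_simp)
  all_goals
    subst hD hE
    (try ring)

theorem E_gM (h : Pt N p q a b R x y z s w) :
    let X := dxR N p q x y z w
    let Y := dyR N p q x y z w
    pairFun (gM (⟨a, b, x, y⟩ : Frame)) N p q x y (fldE N p q R x y s w)
      (velE N p q R x y z s w w₁) =
      0 := by
  have e := fun f f' => gM_lin h f f'
  obtain ⟨-, -, er⟩ := h.lam_eq
  intro X Y
  rw [e]
  obtain ⟨rfl, rfl, rfl, a0, b0, M0, x0, y0, s0, D0, E0, hz⟩ := h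
  subst hz
  obtain ⟨D, hD⟩ : ∃ D, D = a * x + b * y := ⟨_, rfl⟩
  obtain ⟨E, hE⟩ : ∃ E, E = b * y - a * x := ⟨_, rfl⟩
  rw [← hD] at D0
  rw [← hE] at E0
  simp only [← hE] at er
  simp only [gML0, gML1, gML2, gML4, fldE, velE, regVel, regFld, orbAt, Orb.cBase, Orb.shapeU, shapeG, Orb.shapeT, shapeW, er,
    Pi.add_apply, Pi.sub_apply, Pi.smul_apply, Pi.zero_apply, smul_eq_mul, Matrix.cons_val,
    sub_add_cancel, one_div_one_div, one_div_div, mul_one, one_mul, mul_zero, zero_mul, add_zero,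
    zero_add, sub_zero, neg_zero, zero_div, div_one, ← hD, ← hE, X, Y]
  all_goals
    (try simp only [← hD, ← hE])
    (try generalize dxR _ _ _ x y _ w = X')
    (try generalize dyR _ _ _ x y _ w = Y')
    (try field_simp)
  all_goals
    subst hD hE
    (try ring)

theorem E_gE (h : Pt N p q a b R x y z s w) :
    let X := dxR N p q x y z w
    let Y := dyR N p q x y z w
    pairFun (gE (⟨a, b, x, y⟩ : Frame)) N p q x y (fldE N p q R x y s w)
      (velE N p q R x y z s w w₁) =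
      0 := by
  have e := fun f f' => gE_lin h f f'
  obtain ⟨-, -, er⟩ := h.lam_eq
  intro X Y
  rw [e]
  obtain ⟨rfl, rfl, rfl, a0, b0, M0, x0, y0, s0, D0, E0, hz⟩ := h
  subst hz
  obtain ⟨D, hD⟩ : ∃ D, D = a * x + b * y := ⟨_, rfl⟩
  obtain ⟨E, hE⟩ : ∃ E, E = b * y - a * x := ⟨_, rfl⟩
  rw [← hD] at D0
  rw [← hE] at E0
  simp only [← hE] at er
  simp only [gEL0, gEL1, gEL2, gEL4, fldE, velE, regVel, regFld, orbAt, Orb.cBase, Orb.shapeU, shapeG, Orb.shapeT, shapeW, er,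
    Pi.add_apply, Pi.sub_apply, Pi.smul_apply, Pi.zero_apply, smul_eq_mul, Matrix.cons_val,
    sub_add_cancel, one_div_one_div, one_div_div, mul_one, one_mul, mul_zero, zero_mul, add_zero,
    zero_add, sub_zero, neg_zero, zero_div, div_one, ← hD, ← hE, X, Y]
  all_goals
    (try simp only [← hD, ← hE])
    (try generalize dxR _ _ _ x y _ w = X')
    (try generalize dyR _ _ _ x y _ w = Y')
    (try field_simp)
  all_goals
    subst hD hE
    (try ring)

theorem E_gG (h : Pt N p q a b R x y z s w) :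
    let X := dxR N p q x y z w
    let Y := dyR N p q x y z w
    pairFun (gG (⟨a, b, x, y⟩ : Frame)) N p q x y (fldE N p q R x y s w)
      (velE N p q R x y z s w w₁) =
      (((1))) / (x * y) := by
  have e := fun f f' => gG_lin h f f'
  obtain ⟨-, -, er⟩ := h.lam_eq
  intro X Y
  rw [e]
  obtain ⟨rfl, rfl, rfl, a0, b0, M0, x0, y0, s0, D0, E0, hz⟩ := h
  subst hz
  obtain ⟨D, hD⟩ : ∃ D, D = a * x + b * y := ⟨_, rfl⟩
  obtain ⟨E, hE⟩ : ∃ E, E = b * y - a * x := ⟨_, rfl⟩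
  rw [← hD] at D0
  rw [← hE] at E0
  simp only [← hE] at er
  simp only [gGL0, gGL1, gGL2, gGL4, fldE, velE, regVel, regFld, orbAt, Orb.cBase, Orb.shapeU, shapeG, Orb.shapeT, shapeW, er,
    Pi.add_apply, Pi.sub_apply, Pi.smul_apply, Pi.zero_apply, smul_eq_mul, Matrix.cons_val,
    sub_add_cancel, one_div_one_div, one_div_div, mul_one, one_mul, mul_zero, zero_mul, add_zero,
    zero_add, sub_zero, neg_zero, zero_div, div_one, ← hD, ← hE, X, Y]
  all_goals
    (try simp only [← hD, ← hE])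
    (try generalize dxR _ _ _ x y _ w = X')
    (try generalize dyR _ _ _ x y _ w = Y')
    (try field_simp)
  all_goals
    subst hD hE
    (try ring)

theorem E_hM (h : Pt N p q a b R x y z s w) :
    let X := dxR N p q x y z w
    let Y := dyR N p q x y z w
    pairFun (hM (⟨a, b, x, y⟩ : Frame)) N p q x y (fldE N p q R x y s w)
      (velE N p q R x y z s w w₁) =
      0 := by
  have e := fun f f' => hM_lin h f f'
  obtain ⟨-, -, er⟩ := h.lam_eq
  intro X Y
  rw [e]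
  obtain ⟨rfl, rfl, rfl, a0, b0, M0, x0, y0, s0, D0, E0, hz⟩ := h
  subst hz
  obtain ⟨D, hD⟩ : ∃ D, D = a * x + b * y := ⟨_, rfl⟩
  obtain ⟨E, hE⟩ : ∃ E, E = b * y - a * x := ⟨_, rfl⟩
  rw [← hD] at D0
  rw [← hE] at E0
  simp only [← hE] at er
  simp only [hML0, hML1, hML2, hML4, fldE, velE, regVel, regFld, orbAt, Orb.cBase, Orb.shapeU, shapeG, Orb.shapeT, shapeW, er,
    Pi.add_apply, Pi.sub_apply, Pi.smul_apply, Pi.zero_apply, smul_eq_mul, Matrix.cons_val,
    sub_add_cancel, one_div_one_div, one_div_div, mul_one, one_mul, mul_zero, zero_mul, add_zero,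
    zero_add, sub_zero, neg_zero, zero_div, div_one, ← hD, ← hE, X, Y]
  all_goals
    (try simp only [← hD, ← hE])
    (try generalize dxR _ _ _ x y _ w = X')
    (try generalize dyR _ _ _ x y _ w = Y')
    (try field_simp)
  all_goals
    subst hD hE
    (try ring)

theorem E_hEf (h : Pt N p q a b R x y z s w) :
    let X := dxR N p q x y z w
    let Y := dyR N p q x y z w
    pairFun (hEf (⟨a, b, x, y⟩ : Frame)) N p q x y (fldE N p q R x y s w)
      (velE N p q R x y z s w w₁) =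
      (((1))) / (x * y) := by
  have e := fun f f' => hEf_lin h f f'
  obtain ⟨-, -, er⟩ := h.lam_eq
  intro X Y
  rw [e]
  obtain ⟨rfl, rfl, rfl, a0, b0, M0, x0, y0, s0, D0, E0, hz⟩ := h
  subst hz
  obtain ⟨D, hD⟩ : ∃ D, D = a * x + b * y := ⟨_, rfl⟩
  obtain ⟨E, hE⟩ : ∃ E, E = b * y - a * x := ⟨_, rfl⟩
  rw [← hD] at D0
  rw [← hE] at E0
  simp only [← hE] at er
  simp only [hEL0, hEL1, hEL2, hEL4, fldE, velE, regVel, regFld, orbAt, Orb.cBase, Orb.shapeU, shapeG, Orb.shapeT, shapeW, er,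
    Pi.add_apply, Pi.sub_apply, Pi.smul_apply, Pi.zero_apply, smul_eq_mul, Matrix.cons_val,
    sub_add_cancel, one_div_one_div, one_div_div, mul_one, one_mul, mul_zero, zero_mul, add_zero,
    zero_add, sub_zero, neg_zero, zero_div, div_one, ← hD, ← hE, X, Y]
  all_goals
    (try simp only [← hD, ← hE])
    (try generalize dxR _ _ _ x y _ w = X')
    (try generalize dyR _ _ _ x y _ w = Y')
    (try field_simp)
  all_goals
    subst hD hE
    (try ring)

theorem E_hG (h : Pt N p q a b R x y z s w) :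
    let X := dxR N p q x y z w
    let Y := dyR N p q x y z w
    pairFun (hG (⟨a, b, x, y⟩ : Frame)) N p q x y (fldE N p q R x y s w)
      (velE N p q R x y z s w w₁) =
      0 := by
  have e := fun f f' => hG_lin h f f'
  obtain ⟨-, -, er⟩ := h.lam_eq
  intro X Y
  rw [e]
  obtain ⟨rfl, rfl, rfl, a0, b0, M0, x0, y0, s0, D0, E0, hz⟩ := h
  subst hz
  obtain ⟨D, hD⟩ : ∃ D, D = a * x + b * y := ⟨_, rfl⟩
  obtain ⟨E, hE⟩ : ∃ E, E = b * y - a * x := ⟨_, rfl⟩
  rw [← hD] at D0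
  rw [← hE] at E0
  simp only [← hE] at er
  simp only [hGL0, hGL1, hGL2, hGL4, fldE, velE, regVel, regFld, orbAt, Orb.cBase, Orb.shapeU, shapeG, Orb.shapeT, shapeW, er,
    Pi.add_apply, Pi.sub_apply, Pi.smul_apply, Pi.zero_apply, smul_eq_mul, Matrix.cons_val,
    sub_add_cancel, one_div_one_div, one_div_div, mul_one, one_mul, mul_zero, zero_mul, add_zero,
    zero_add, sub_zero, neg_zero, zero_div, div_one, ← hD, ← hE, X, Y]
  all_goals
    (try simp only [← hD, ← hE])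
    (try generalize dxR _ _ _ x y _ w = X')
    (try generalize dyR _ _ _ x y _ w = Y')
    (try field_simp)
  all_goals
    subst hD hE
    (try ring)

theorem E_lMM (h : Pt N p q a b R x y z s w) :
    let X := dxR N p q x y z w
    let Y := dyR N p q x y z w
    pairFun (lMM (⟨a, b, x, y⟩ : Frame) N p q) N p q x y (fldE N p q R x y s w)
      (velE N p q R x y z s w w₁) =
      0 := by
  have e := fun f f' => lMM_lin h f f'
  obtain ⟨-, -, er⟩ := h.lam_eq
  intro X Y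
  rw [e]
  obtain ⟨rfl, rfl, rfl, a0, b0, M0, x0, y0, s0, D0, E0, hz⟩ := h
  subst hz
  obtain ⟨D, hD⟩ : ∃ D, D = a * x + b * y := ⟨_, rfl⟩
  obtain ⟨E, hE⟩ : ∃ E, E = b * y - a * x := ⟨_, rfl⟩
  rw [← hD] at D0
  rw [← hE] at E0
  simp only [← hE] at er
  simp only [MML0, MML1, MML2, MML4, MML5, MML6, fldE, velE, regVel, regFld, orbAt, Orb.cBase, Orb.shapeU, shapeG, Orb.shapeT, shapeW, er,
    Pi.add_apply, Pi.sub_apply, Pi.smul_apply, Pi.zero_apply, smul_eq_mul, Matrix.cons_val,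
    sub_add_cancel, one_div_one_div, one_div_div, mul_one, one_mul, mul_zero, zero_mul, add_zero,
    zero_add, sub_zero, neg_zero, zero_div, div_one, ← hD, ← hE, X, Y]
  all_goals
    (try simp only [← hD, ← hE])
    (try generalize dxR _ _ _ x y _ w = X')
    (try generalize dyR _ _ _ x y _ w = Y')
    (try field_simp)
  all_goals
    subst hD hE
    (try ring)

theorem E_lME (h : Pt N p q a b R x y z s w) :
    let X := dxR N p q x y z w
    let Y := dyR N p q x y z w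
    pairFun (lME (⟨a, b, x, y⟩ : Frame) N p q) N p q x y (fldE N p q R x y s w)
      (velE N p q R x y z s w w₁) =
      ((x * y ^ (2 : ℕ) * (-a - b + 3) + x ^ (2 : ℕ) * y * (a + b - 3)) + Y * (x * (-4)) + X * (y * (4))) /
        (2 * x * y * (a * x + b * y) ^ (2 : ℕ)) := by
  have e := fun f f' => lME_lin h f f'
  obtain ⟨-, -, er⟩ := h.lam_eq
  intro X Y
  rw [e]
  obtain ⟨rfl, rfl, rfl, a0, b0, M0, x0, y0, s0, D0, E0, hz⟩ := h
  subst hz
  obtain ⟨D, hD⟩ : ∃ D, D = a * x + b * y := ⟨_, rfl⟩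
  obtain ⟨E, hE⟩ : ∃ E, E = b * y - a * x := ⟨_, rfl⟩
  rw [← hD] at D0
  rw [← hE] at E0
  simp only [← hE] at er
  simp only [MEL0, MEL1, MEL2, MEL4, MEL5, MEL6, fldE, velE, regVel, regFld, orbAt, Orb.cBase, Orb.shapeU, shapeG, Orb.shapeT, shapeW, er,
    Pi.add_apply, Pi.sub_apply, Pi.smul_apply, Pi.zero_apply, smul_eq_mul, Matrix.cons_val,
    sub_add_cancel, one_div_one_div, one_div_div, mul_one, one_mul, mul_zero, zero_mul, add_zero,
    zero_add, sub_zero, neg_zero, zero_div, div_one, ← hD, ← hE, X, Y]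
  all_goals
    (try simp only [← hD, ← hE])
    (try generalize dxR _ _ _ x y _ w = X')
    (try generalize dyR _ _ _ x y _ w = Y')
    (try field_simp)
  all_goals
    subst hD hE
    (try ring)

theorem E_lMG (h : Pt N p q a b R x y z s w) :
    let X := dxR N p q x y z w
    let Y := dyR N p q x y z w
    pairFun (lMG (⟨a, b, x, y⟩ : Frame) N p q) N p q x y (fldE N p q R x y s w)
      (velE N p q R x y z s w w₁) =
      ((y ^ (3 : ℕ) * (a * b ^ (2 : ℕ) + b ^ (3 : ℕ) - b ^ (2 : ℕ)) + x * y ^ (2 : ℕ) * (-a ^ (2 : ℕ) * b - a * b ^ (2 : ℕ) + a * b) + x ^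
        2 * y * (a ^ (2 : ℕ) * b + a * b ^ (2 : ℕ) - a * b) + x ^ (3 : ℕ) * (-a ^ (3 : ℕ) - a ^ (2 : ℕ) * b + a ^ (2 : ℕ))) + Y * (x *
        (4 * a * b)) + X * (y * (-4 * a * b))) / (2 * x * y * (a * x + b * y) ^ (2 : ℕ) * (b * y - a *
        x)) := by
  have e := fun f f' => lMG_lin h f f'
  obtain ⟨-, -, er⟩ := h.lam_eq
  intro X Y
  rw [e]
  obtain ⟨rfl, rfl, rfl, a0, b0, M0, x0, y0, s0, D0, E0, hz⟩ := h
  subst hz
  obtain ⟨D, hD⟩ : ∃ D, D = a * x + b * y := ⟨_, rfl⟩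
  obtain ⟨E, hE⟩ : ∃ E, E = b * y - a * x := ⟨_, rfl⟩
  rw [← hD] at D0
  rw [← hE] at E0
  simp only [← hE] at er
  simp only [MGL0, MGL1, MGL2, MGL4, MGL5, MGL6, fldE, velE, regVel, regFld, orbAt, Orb.cBase, Orb.shapeU, shapeG, Orb.shapeT, shapeW, er,
    Pi.add_apply, Pi.sub_apply, Pi.smul_apply, Pi.zero_apply, smul_eq_mul, Matrix.cons_val,
    sub_add_cancel, one_div_one_div, one_div_div, mul_one, one_mul, mul_zero, zero_mul, add_zero,
    zero_add, sub_zero, neg_zero, zero_div, div_one, ← hD, ← hE, X, Y]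
  all_goals
    (try simp only [← hD, ← hE])
    (try generalize dxR _ _ _ x y _ w = X')
    (try generalize dyR _ _ _ x y _ w = Y')
    (try field_simp)
  all_goals
    subst hD hE
    (try ring)

theorem E_lEE (h : Pt N p q a b R x y z s w) :
    let X := dxR N p q x y z w
    let Y := dyR N p q x y z w
    pairFun (lEE (⟨a, b, x, y⟩ : Frame) N p q) N p q x y (fldE N p q R x y s w)
      (velE N p q R x y z s w w₁) =
      ((x * y ^ (4 : ℕ) * (2 * b ^ (2 : ℕ)) + x ^ (2 : ℕ) * y ^ (3 : ℕ) * (a ^ (2 : ℕ) * b + 2 * a * b ^ (2 : ℕ) - 4 * a * b + b ^ (3 : ℕ)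
        - 2 * b ^ (2 : ℕ) - b) + x ^ (3 : ℕ) * y ^ (2 : ℕ) * (-a ^ (3 : ℕ) - 2 * a ^ (2 : ℕ) * b + 2 * a ^ (2 : ℕ) - a * b ^ (2 : ℕ) + 4 * a
        * b + a) + x ^ (4 : ℕ) * y * (-2 * a ^ (2 : ℕ))) + Y * (x * y ^ (2 : ℕ) * (-b ^ (2 : ℕ)) + x ^ (2 : ℕ) * y * (4 * a * b)
        + x ^ (3 : ℕ) * (-a ^ (2 : ℕ))) + X * (y ^ (3 : ℕ) * (b ^ (2 : ℕ)) + x * y ^ (2 : ℕ) * (-4 * a * b) + x ^ (2 : ℕ) * y * (a ^
        2))) / (x ^ (2 : ℕ) * y ^ (2 : ℕ) * (a * x + b * y) ^ (2 : ℕ) * (b * y - a * x)) := by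
  have e := fun f f' => lEE_lin h f f'
  obtain ⟨-, -, er⟩ := h.lam_eq
  intro X Y
  rw [e]
  obtain ⟨rfl, rfl, rfl, a0, b0, M0, x0, y0, s0, D0, E0, hz⟩ := h
  subst hz
  obtain ⟨D, hD⟩ : ∃ D, D = a * x + b * y := ⟨_, rfl⟩
  obtain ⟨E, hE⟩ : ∃ E, E = b * y - a * x := ⟨_, rfl⟩
  rw [← hD] at D0
  rw [← hE] at E0
  simp only [← hE] at er
  simp only [EEL0, EEL1, EEL2, EEL4, EEL5, EEL6, fldE, velE, regVel, regFld, orbAt, Orb.cBase, Orb.shapeU, shapeG, Orb.shapeT, shapeW, er,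
    Pi.add_apply, Pi.sub_apply, Pi.smul_apply, Pi.zero_apply, smul_eq_mul, Matrix.cons_val,
    sub_add_cancel, one_div_one_div, one_div_div, mul_one, one_mul, mul_zero, zero_mul, add_zero,
    zero_add, sub_zero, neg_zero, zero_div, div_one, ← hD, ← hE, X, Y]
  all_goals
    (try simp only [← hD, ← hE])
    (try generalize dxR _ _ _ x y _ w = X')
    (try generalize dyR _ _ _ x y _ w = Y')
    (try field_simp)
  all_goals
    subst hD hE
    (try ring)

theorem E_lEG (h : Pt N p q a b R x y z s w) :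
    let X := dxR N p q x y z w
    let Y := dyR N p q x y z w
    pairFun (lEG (⟨a, b, x, y⟩ : Frame) N p q) N p q x y (fldE N p q R x y s w)
      (velE N p q R x y z s w w₁) =
      ((x * y ^ (2 : ℕ) * (-2 * a ^ (2 : ℕ) * b - a * b ^ (2 : ℕ) - 3 * a * b + b ^ (3 : ℕ) - b) + x ^ (2 : ℕ) * y * (-a ^ (3 : ℕ) +
        a ^ (2 : ℕ) * b + 2 * a * b ^ (2 : ℕ) + 3 * a * b + a)) + Y * (x * (4 * a * b)) + X * (y * (-4 * a *
        b))) / (2 * x ^ (2 : ℕ) * y ^ (2 : ℕ) * (a * x + b * y) ^ (2 : ℕ)) := by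
  have e := fun f f' => lEG_lin h f f'
  obtain ⟨-, -, er⟩ := h.lam_eq
  intro X Y
  rw [e]
  obtain ⟨rfl, rfl, rfl, a0, b0, M0, x0, y0, s0, D0, E0, hz⟩ := h
  subst hz
  obtain ⟨D, hD⟩ : ∃ D, D = a * x + b * y := ⟨_, rfl⟩
  obtain ⟨E, hE⟩ : ∃ E, E = b * y - a * x := ⟨_, rfl⟩
  rw [← hD] at D0
  rw [← hE] at E0
  simp only [← hE] at er
  simp only [EGL0, EGL1, EGL2, EGL4, EGL5, EGL6, fldE, velE, regVel, regFld, orbAt, Orb.cBase, Orb.shapeU, shapeG, Orb.shapeT, shapeW, er,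
    Pi.add_apply, Pi.sub_apply, Pi.smul_apply, Pi.zero_apply, smul_eq_mul, Matrix.cons_val,
    sub_add_cancel, one_div_one_div, one_div_div, mul_one, one_mul, mul_zero, zero_mul, add_zero,
    zero_add, sub_zero, neg_zero, zero_div, div_one, ← hD, ← hE, X, Y]
  all_goals
    (try simp only [← hD, ← hE])
    (try generalize dxR _ _ _ x y _ w = X')
    (try generalize dyR _ _ _ x y _ w = Y')
    (try field_simp)
  all_goals
    subst hD hE
    (try ring)

theorem E_lGG (h : Pt N p q a b R x y z s w) :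
    let X := dxR N p q x y z w
    let Y := dyR N p q x y z w
    pairFun (lGG (⟨a, b, x, y⟩ : Frame) N p q) N p q x y (fldE N p q R x y s w)
      (velE N p q R x y z s w w₁) =
      (((a ^ (3 : ℕ) * b + 2 * a ^ (2 : ℕ) * b ^ (2 : ℕ) - a ^ (2 : ℕ) * b + a * b ^ (3 : ℕ) - a * b ^ (2 : ℕ)))) / (2 * x * y * (a
        * x + b * y) ^ (2 : ℕ)) := by
  have e := fun f f' => lGG_lin h f f'
  obtain ⟨-, -, er⟩ := h.lam_eq
  intro X Y
  rw [e]
  obtain ⟨rfl, rfl, rfl, a0, b0, M0, x0, y0, s0, D0, E0, hz⟩ := h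
  subst hz
  obtain ⟨D, hD⟩ : ∃ D, D = a * x + b * y := ⟨_, rfl⟩
  obtain ⟨E, hE⟩ : ∃ E, E = b * y - a * x := ⟨_, rfl⟩
  rw [← hD] at D0
  rw [← hE] at E0
  simp only [← hE] at er
  simp only [GGL0, GGL1, GGL2, GGL4, GGL5, GGL6, fldE, velE, regVel, regFld, orbAt, Orb.cBase, Orb.shapeU, shapeG, Orb.shapeT, shapeW, er,
    Pi.add_apply, Pi.sub_apply, Pi.smul_apply, Pi.zero_apply, smul_eq_mul, Matrix.cons_val,
    sub_add_cancel, one_div_one_div, one_div_div, mul_one, one_mul, mul_zero, zero_mul, add_zero,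
    zero_add, sub_zero, neg_zero, zero_div, div_one, ← hD, ← hE, X, Y]
  all_goals
    (try simp only [← hD, ← hE])
    (try generalize dxR _ _ _ x y _ w = X')
    (try generalize dyR _ _ _ x y _ w = Y')
    (try field_simp)
  all_goals
    subst hD hE
    (try ring)

theorem E_lLG (h : Pt N p q a b R x y z s w) :
    let X := dxR N p q x y z w
    let Y := dyR N p q x y z w
    pairFun (lLG (⟨a, b, x, y⟩ : Frame) N p q z) N p q x y (fldE N p q R x y s w)
      (velE N p q R x y z s w w₁) =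
      ((y * (a * b + b ^ (2 : ℕ) - b) + x * (a ^ (2 : ℕ) + a * b - a)) + w * R * ((-a ^ (2 : ℕ) - a * b + a))) /
        (2 * x * y ^ (2 : ℕ)) := by
  have e := fun f f' => lLG_lin h f f'
  obtain ⟨-, -, er⟩ := h.lam_eq
  intro X Y
  rw [e]
  obtain ⟨rfl, rfl, rfl, a0, b0, M0, x0, y0, s0, D0, E0, hz⟩ := h
  subst hz
  obtain ⟨D, hD⟩ : ∃ D, D = a * x + b * y := ⟨_, rfl⟩
  obtain ⟨E, hE⟩ : ∃ E, E = b * y - a * x := ⟨_, rfl⟩
  rw [← hD] at D0
  rw [← hE] at E0
  simp only [← hE] at er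
  simp only [LGL0, LGL1, LGL2, LGL3, LGL4, LGL7, fldE, velE, regVel, regFld, orbAt, Orb.cBase, Orb.shapeU, shapeG, Orb.shapeT, shapeW, er,
    Pi.add_apply, Pi.sub_apply, Pi.smul_apply, Pi.zero_apply, smul_eq_mul, Matrix.cons_val,
    sub_add_cancel, one_div_one_div, one_div_div, mul_one, one_mul, mul_zero, zero_mul, add_zero,
    zero_add, sub_zero, neg_zero, zero_div, div_one, ← hD, ← hE, X, Y]
  all_goals
    (try simp only [← hD, ← hE])
    (try generalize dxR _ _ _ x y _ w = X')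
    (try generalize dyR _ _ _ x y _ w = Y')
    (try field_simp)
  all_goals
    subst hD hE
    (try ring)

theorem E₀_gM (h : Pt N p q a b R x y z s w) :
    let X := dxR N p q x y z w
    let Y := dyR N p q x y z w
    pairFun (gM (⟨a, b, x, y⟩ : Frame)) N p q x y (0)
      (fldE N p q R x y s w) =
      0 := by
  have e := fun f f' => gM_lin h f f'
  obtain ⟨-, -, er⟩ := h.lam_eq
  intro X Y
  rw [e]
  obtain ⟨rfl, rfl, rfl, a0, b0, M0, x0, y0, s0, D0, E0, hz⟩ := h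
  subst hz
  obtain ⟨D, hD⟩ : ∃ D, D = a * x + b * y := ⟨_, rfl⟩
  obtain ⟨E, hE⟩ : ∃ E, E = b * y - a * x := ⟨_, rfl⟩
  rw [← hD] at D0
  rw [← hE] at E0
  simp only [← hE] at er
  simp only [gML0, gML1, gML2, gML4, fldE, regFld, orbAt, Orb.cBase, Orb.shapeU, shapeG, Orb.shapeT, shapeW, er,
    Pi.add_apply, Pi.sub_apply, Pi.smul_apply, Pi.zero_apply, smul_eq_mul, Matrix.cons_val,
    sub_add_cancel, one_div_one_div, one_div_div, mul_one, one_mul, mul_zero, zero_mul, add_zero,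
    zero_add, sub_zero, neg_zero, zero_div, div_one, ← hD, ← hE, X, Y]
  all_goals
    (try simp only [← hD, ← hE])
    (try generalize dxR _ _ _ x y _ w = X')
    (try generalize dyR _ _ _ x y _ w = Y')
    (try field_simp)
  all_goals
    subst hD hE
    (try ring)

theorem E₀_gE (h : Pt N p q a b R x y z s w) :
    let X := dxR N p q x y z w
    let Y := dyR N p q x y z w
    pairFun (gE (⟨a, b, x, y⟩ : Frame)) N p q x y (0)
      (fldE N p q R x y s w) =
      0 := by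
  have e := fun f f' => gE_lin h f f'
  obtain ⟨-, -, er⟩ := h.lam_eq
  intro X Y
  rw [e]
  obtain ⟨rfl, rfl, rfl, a0, b0, M0, x0, y0, s0, D0, E0, hz⟩ := h
  subst hz
  obtain ⟨D, hD⟩ : ∃ D, D = a * x + b * y := ⟨_, rfl⟩
  obtain ⟨E, hE⟩ : ∃ E, E = b * y - a * x := ⟨_, rfl⟩
  rw [← hD] at D0
  rw [← hE] at E0
  simp only [← hE] at er
  simp only [gEL0, gEL1, gEL2, gEL4, fldE, regFld, orbAt, Orb.cBase, Orb.shapeU, shapeG, Orb.shapeT, shapeW, er,
    Pi.add_apply, Pi.sub_apply, Pi.smul_apply, Pi.zero_apply, smul_eq_mul, Matrix.cons_val,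
    sub_add_cancel, one_div_one_div, one_div_div, mul_one, one_mul, mul_zero, zero_mul, add_zero,
    zero_add, sub_zero, neg_zero, zero_div, div_one, ← hD, ← hE, X, Y]
  all_goals
    (try simp only [← hD, ← hE])
    (try generalize dxR _ _ _ x y _ w = X')
    (try generalize dyR _ _ _ x y _ w = Y')
    (try field_simp)
  all_goals
    subst hD hE
    (try ring)

theorem E₀_gG (h : Pt N p q a b R x y z s w) :
    let X := dxR N p q x y z w
    let Y := dyR N p q x y z w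
    pairFun (gG (⟨a, b, x, y⟩ : Frame)) N p q x y (0)
      (fldE N p q R x y s w) =
      0 := by
  have e := fun f f' => gG_lin h f f'
  obtain ⟨-, -, er⟩ := h.lam_eq
  intro X Y
  rw [e]
  obtain ⟨rfl, rfl, rfl, a0, b0, M0, x0, y0, s0, D0, E0, hz⟩ := h
  subst hz
  obtain ⟨D, hD⟩ : ∃ D, D = a * x + b * y := ⟨_, rfl⟩
  obtain ⟨E, hE⟩ : ∃ E, E = b * y - a * x := ⟨_, rfl⟩
  rw [← hD] at D0
  rw [← hE] at E0
  simp only [← hE] at er
  simp only [gGL0, gGL1, gGL2, gGL4, fldE, regFld, orbAt, Orb.cBase, Orb.shapeU, shapeG, Orb.shapeT, shapeW, er,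
    Pi.add_apply, Pi.sub_apply, Pi.smul_apply, Pi.zero_apply, smul_eq_mul, Matrix.cons_val,
    sub_add_cancel, one_div_one_div, one_div_div, mul_one, one_mul, mul_zero, zero_mul, add_zero,
    zero_add, sub_zero, neg_zero, zero_div, div_one, ← hD, ← hE, X, Y]
  all_goals
    (try simp only [← hD, ← hE])
    (try generalize dxR _ _ _ x y _ w = X')
    (try generalize dyR _ _ _ x y _ w = Y')
    (try field_simp)
  all_goals
    subst hD hE
    (try ring)

theorem E₀_hM (h : Pt N p q a b R x y z s w) :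
    let X := dxR N p q x y z w
    let Y := dyR N p q x y z w
    pairFun (hM (⟨a, b, x, y⟩ : Frame)) N p q x y (0)
      (fldE N p q R x y s w) =
      0 := by
  have e := fun f f' => hM_lin h f f'
  obtain ⟨-, -, er⟩ := h.lam_eq
  intro X Y
  rw [e]
  obtain ⟨rfl, rfl, rfl, a0, b0, M0, x0, y0, s0, D0, E0, hz⟩ := h
  subst hz
  obtain ⟨D, hD⟩ : ∃ D, D = a * x + b * y := ⟨_, rfl⟩
  obtain ⟨E, hE⟩ : ∃ E, E = b * y - a * x := ⟨_, rfl⟩
  rw [← hD] at D0
  rw [← hE] at E0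
  simp only [← hE] at er
  simp only [hML0, hML1, hML2, hML4, fldE, regFld, orbAt, Orb.cBase, Orb.shapeU, shapeG, Orb.shapeT, shapeW, er,
    Pi.add_apply, Pi.sub_apply, Pi.smul_apply, Pi.zero_apply, smul_eq_mul, Matrix.cons_val,
    sub_add_cancel, one_div_one_div, one_div_div, mul_one, one_mul, mul_zero, zero_mul, add_zero,
    zero_add, sub_zero, neg_zero, zero_div, div_one, ← hD, ← hE, X, Y]
  all_goals
    (try simp only [← hD, ← hE])
    (try generalize dxR _ _ _ x y _ w = X')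
    (try generalize dyR _ _ _ x y _ w = Y')
    (try field_simp)
  all_goals
    subst hD hE
    (try ring)

theorem E₀_hEf (h : Pt N p q a b R x y z s w) :
    let X := dxR N p q x y z w
    let Y := dyR N p q x y z w
    pairFun (hEf (⟨a, b, x, y⟩ : Frame)) N p q x y (0)
      (fldE N p q R x y s w) =
      0 := by
  have e := fun f f' => hEf_lin h f f'
  obtain ⟨-, -, er⟩ := h.lam_eq
  intro X Y
  rw [e]
  obtain ⟨rfl, rfl, rfl, a0, b0, M0, x0, y0, s0, D0, E0, hz⟩ := h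
  subst hz
  obtain ⟨D, hD⟩ : ∃ D, D = a * x + b * y := ⟨_, rfl⟩
  obtain ⟨E, hE⟩ : ∃ E, E = b * y - a * x := ⟨_, rfl⟩
  rw [← hD] at D0
  rw [← hE] at E0
  simp only [← hE] at er
  simp only [hEL0, hEL1, hEL2, hEL4, fldE, regFld, orbAt, Orb.cBase, Orb.shapeU, shapeG, Orb.shapeT, shapeW, er,
    Pi.add_apply, Pi.sub_apply, Pi.smul_apply, Pi.zero_apply, smul_eq_mul, Matrix.cons_val,
    sub_add_cancel, one_div_one_div, one_div_div, mul_one, one_mul, mul_zero, zero_mul, add_zero,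
    zero_add, sub_zero, neg_zero, zero_div, div_one, ← hD, ← hE, X, Y]
  all_goals
    (try simp only [← hD, ← hE])
    (try generalize dxR _ _ _ x y _ w = X')
    (try generalize dyR _ _ _ x y _ w = Y')
    (try field_simp)
  all_goals
    subst hD hE
    (try ring)

theorem E₀_hG (h : Pt N p q a b R x y z s w) :
    let X := dxR N p q x y z w
    let Y := dyR N p q x y z w
    pairFun (hG (⟨a, b, x, y⟩ : Frame)) N p q x y (0)
      (fldE N p q R x y s w) =
      0 := by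
  have e := fun f f' => hG_lin h f f'
  obtain ⟨-, -, er⟩ := h.lam_eq
  intro X Y
  rw [e]
  obtain ⟨rfl, rfl, rfl, a0, b0, M0, x0, y0, s0, D0, E0, hz⟩ := h
  subst hz
  obtain ⟨D, hD⟩ : ∃ D, D = a * x + b * y := ⟨_, rfl⟩
  obtain ⟨E, hE⟩ : ∃ E, E = b * y - a * x := ⟨_, rfl⟩
  rw [← hD] at D0
  rw [← hE] at E0
  simp only [← hE] at er
  simp only [hGL0, hGL1, hGL2, hGL4, fldE, regFld, orbAt, Orb.cBase, Orb.shapeU, shapeG, Orb.shapeT, shapeW, er,
    Pi.add_apply, Pi.sub_apply, Pi.smul_apply, Pi.zero_apply, smul_eq_mul, Matrix.cons_val,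
    sub_add_cancel, one_div_one_div, one_div_div, mul_one, one_mul, mul_zero, zero_mul, add_zero,
    zero_add, sub_zero, neg_zero, zero_div, div_one, ← hD, ← hE, X, Y]
  all_goals
    (try simp only [← hD, ← hE])
    (try generalize dxR _ _ _ x y _ w = X')
    (try generalize dyR _ _ _ x y _ w = Y')
    (try field_simp)
  all_goals
    subst hD hE
    (try ring)

theorem E₀_lMM (h : Pt N p q a b R x y z s w) :
    let X := dxR N p q x y z w
    let Y := dyR N p q x y z w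
    pairFun (lMM (⟨a, b, x, y⟩ : Frame) N p q) N p q x y (0)
      (fldE N p q R x y s w) =
      0 := by
  have e := fun f f' => lMM_lin h f f'
  obtain ⟨-, -, er⟩ := h.lam_eq
  intro X Y
  rw [e]
  obtain ⟨rfl, rfl, rfl, a0, b0, M0, x0, y0, s0, D0, E0, hz⟩ := h
  subst hz
  obtain ⟨D, hD⟩ : ∃ D, D = a * x + b * y := ⟨_, rfl⟩
  obtain ⟨E, hE⟩ : ∃ E, E = b * y - a * x := ⟨_, rfl⟩
  rw [← hD] at D0
  rw [← hE] at E0
  simp only [← hE] at er
  simp only [MML0, MML1, MML2, MML4, MML5, MML6, fldE, regFld, orbAt, Orb.cBase, Orb.shapeU, shapeG, Orb.shapeT, shapeW, er,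
    Pi.add_apply, Pi.sub_apply, Pi.smul_apply, Pi.zero_apply, smul_eq_mul, Matrix.cons_val,
    sub_add_cancel, one_div_one_div, one_div_div, mul_one, one_mul, mul_zero, zero_mul, add_zero,
    zero_add, sub_zero, neg_zero, zero_div, div_one, ← hD, ← hE, X, Y]
  all_goals
    (try simp only [← hD, ← hE])
    (try generalize dxR _ _ _ x y _ w = X')
    (try generalize dyR _ _ _ x y _ w = Y')
    (try field_simp)
  all_goals
    subst hD hE
    (try ring)

theorem E₀_lME (h : Pt N p q a b R x y z s w) :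
    let X := dxR N p q x y z w
    let Y := dyR N p q x y z w
    pairFun (lME (⟨a, b, x, y⟩ : Frame) N p q) N p q x y (0)
      (fldE N p q R x y s w) =
      0 := by
  have e := fun f f' => lME_lin h f f'
  obtain ⟨-, -, er⟩ := h.lam_eq
  intro X Y
  rw [e]
  obtain ⟨rfl, rfl, rfl, a0, b0, M0, x0, y0, s0, D0, E0, hz⟩ := h
  subst hz
  obtain ⟨D, hD⟩ : ∃ D, D = a * x + b * y := ⟨_, rfl⟩
  obtain ⟨E, hE⟩ : ∃ E, E = b * y - a * x := ⟨_, rfl⟩
  rw [← hD] at D0
  rw [← hE] at E0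
  simp only [← hE] at er
  simp only [MEL0, MEL1, MEL2, MEL4, MEL5, MEL6, fldE, regFld, orbAt, Orb.cBase, Orb.shapeU, shapeG, Orb.shapeT, shapeW, er,
    Pi.add_apply, Pi.sub_apply, Pi.smul_apply, Pi.zero_apply, smul_eq_mul, Matrix.cons_val,
    sub_add_cancel, one_div_one_div, one_div_div, mul_one, one_mul, mul_zero, zero_mul, add_zero,
    zero_add, sub_zero, neg_zero, zero_div, div_one, ← hD, ← hE, X, Y]
  all_goals
    (try simp only [← hD, ← hE])
    (try generalize dxR _ _ _ x y _ w = X')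
    (try generalize dyR _ _ _ x y _ w = Y')
    (try field_simp)
  all_goals
    subst hD hE
    (try ring)

theorem E₀_lMG (h : Pt N p q a b R x y z s w) :
    let X := dxR N p q x y z w
    let Y := dyR N p q x y z w
    pairFun (lMG (⟨a, b, x, y⟩ : Frame) N p q) N p q x y (0)
      (fldE N p q R x y s w) =
      0 := by
  have e := fun f f' => lMG_lin h f f'
  obtain ⟨-, -, er⟩ := h.lam_eq
  intro X Y
  rw [e]
  obtain ⟨rfl, rfl, rfl, a0, b0, M0, x0, y0, s0, D0, E0, hz⟩ := h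
  subst hz
  obtain ⟨D, hD⟩ : ∃ D, D = a * x + b * y := ⟨_, rfl⟩
  obtain ⟨E, hE⟩ : ∃ E, E = b * y - a * x := ⟨_, rfl⟩
  rw [← hD] at D0
  rw [← hE] at E0
  simp only [← hE] at er
  simp only [MGL0, MGL1, MGL2, MGL4, MGL5, MGL6, fldE, regFld, orbAt, Orb.cBase, Orb.shapeU, shapeG, Orb.shapeT, shapeW, er,
    Pi.add_apply, Pi.sub_apply, Pi.smul_apply, Pi.zero_apply, smul_eq_mul, Matrix.cons_val,
    sub_add_cancel, one_div_one_div, one_div_div, mul_one, one_mul, mul_zero, zero_mul, add_zero,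
    zero_add, sub_zero, neg_zero, zero_div, div_one, ← hD, ← hE, X, Y]
  all_goals
    (try simp only [← hD, ← hE])
    (try generalize dxR _ _ _ x y _ w = X')
    (try generalize dyR _ _ _ x y _ w = Y')
    (try field_simp)
  all_goals
    subst hD hE
    (try ring)

theorem E₀_lEE (h : Pt N p q a b R x y z s w) :
    let X := dxR N p q x y z w
    let Y := dyR N p q x y z w
    pairFun (lEE (⟨a, b, x, y⟩ : Frame) N p q) N p q x y (0)
      (fldE N p q R x y s w) =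
      ((y * (b) + x * (-a))) / (x * y * a * b * (a * x + b * y)) := by
  have e := fun f f' => lEE_lin h f f'
  obtain ⟨-, -, er⟩ := h.lam_eq
  intro X Y
  rw [e]
  obtain ⟨rfl, rfl, rfl, a0, b0, M0, x0, y0, s0, D0, E0, hz⟩ := h
  subst hz
  obtain ⟨D, hD⟩ : ∃ D, D = a * x + b * y := ⟨_, rfl⟩
  obtain ⟨E, hE⟩ : ∃ E, E = b * y - a * x := ⟨_, rfl⟩
  rw [← hD] at D0
  rw [← hE] at E0
  simp only [← hE] at er
  simp only [EEL0, EEL1, EEL2, EEL4, EEL5, EEL6, fldE, regFld, orbAt, Orb.cBase, Orb.shapeU, shapeG, Orb.shapeT, shapeW, er,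
    Pi.add_apply, Pi.sub_apply, Pi.smul_apply, Pi.zero_apply, smul_eq_mul, Matrix.cons_val,
    sub_add_cancel, one_div_one_div, one_div_div, mul_one, one_mul, mul_zero, zero_mul, add_zero,
    zero_add, sub_zero, neg_zero, zero_div, div_one, ← hD, ← hE, X, Y]
  all_goals
    (try simp only [← hD, ← hE])
    (try generalize dxR _ _ _ x y _ w = X')
    (try generalize dyR _ _ _ x y _ w = Y')
    (try field_simp)
  all_goals
    subst hD hE
    (try ring)

theorem E₀_lEG (h : Pt N p q a b R x y z s w) :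
    let X := dxR N p q x y z w
    let Y := dyR N p q x y z w
    pairFun (lEG (⟨a, b, x, y⟩ : Frame) N p q) N p q x y (0)
      (fldE N p q R x y s w) =
      (((-2))) / (x * y * (a * x + b * y)) := by
  have e := fun f f' => lEG_lin h f f'
  obtain ⟨-, -, er⟩ := h.lam_eq
  intro X Y
  rw [e]
  obtain ⟨rfl, rfl, rfl, a0, b0, M0, x0, y0, s0, D0, E0, hz⟩ := h
  subst hz
  obtain ⟨D, hD⟩ : ∃ D, D = a * x + b * y := ⟨_, rfl⟩
  obtain ⟨E, hE⟩ : ∃ E, E = b * y - a * x := ⟨_, rfl⟩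
  rw [← hD] at D0
  rw [← hE] at E0
  simp only [← hE] at er
  simp only [EGL0, EGL1, EGL2, EGL4, EGL5, EGL6, fldE, regFld, orbAt, Orb.cBase, Orb.shapeU, shapeG, Orb.shapeT, shapeW, er,
    Pi.add_apply, Pi.sub_apply, Pi.smul_apply, Pi.zero_apply, smul_eq_mul, Matrix.cons_val,
    sub_add_cancel, one_div_one_div, one_div_div, mul_one, one_mul, mul_zero, zero_mul, add_zero,
    zero_add, sub_zero, neg_zero, zero_div, div_one, ← hD, ← hE, X, Y]
  all_goals
    (try simp only [← hD, ← hE])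
    (try generalize dxR _ _ _ x y _ w = X')
    (try generalize dyR _ _ _ x y _ w = Y')
    (try field_simp)
  all_goals
    subst hD hE
    (try ring)

theorem E₀_lGG (h : Pt N p q a b R x y z s w) :
    let X := dxR N p q x y z w
    let Y := dyR N p q x y z w
    pairFun (lGG (⟨a, b, x, y⟩ : Frame) N p q) N p q x y (0)
      (fldE N p q R x y s w) =
      0 := by
  have e := fun f f' => lGG_lin h f f'
  obtain ⟨-, -, er⟩ := h.lam_eq
  intro X Y
  rw [e]
  obtain ⟨rfl, rfl, rfl, a0, b0, M0, x0, y0, s0, D0, E0, hz⟩ := h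
  subst hz
  obtain ⟨D, hD⟩ : ∃ D, D = a * x + b * y := ⟨_, rfl⟩
  obtain ⟨E, hE⟩ : ∃ E, E = b * y - a * x := ⟨_, rfl⟩
  rw [← hD] at D0
  rw [← hE] at E0
  simp only [← hE] at er
  simp only [GGL0, GGL1, GGL2, GGL4, GGL5, GGL6, fldE, regFld, orbAt, Orb.cBase, Orb.shapeU, shapeG, Orb.shapeT, shapeW, er,
    Pi.add_apply, Pi.sub_apply, Pi.smul_apply, Pi.zero_apply, smul_eq_mul, Matrix.cons_val,
    sub_add_cancel, one_div_one_div, one_div_div, mul_one, one_mul, mul_zero, zero_mul, add_zero,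
    zero_add, sub_zero, neg_zero, zero_div, div_one, ← hD, ← hE, X, Y]
  all_goals
    (try simp only [← hD, ← hE])
    (try generalize dxR _ _ _ x y _ w = X')
    (try generalize dyR _ _ _ x y _ w = Y')
    (try field_simp)
  all_goals
    subst hD hE
    (try ring)

theorem E₀_lLG (h : Pt N p q a b R x y z s w) :
    let X := dxR N p q x y z w
    let Y := dyR N p q x y z w
    pairFun (lLG (⟨a, b, x, y⟩ : Frame) N p q z) N p q x y (0)
      (fldE N p q R x y s w) =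
      0 := by
  have e := fun f f' => lLG_lin h f f'
  obtain ⟨-, -, er⟩ := h.lam_eq
  intro X Y
  rw [e]
  obtain ⟨rfl, rfl, rfl, a0, b0, M0, x0, y0, s0, D0, E0, hz⟩ := h
  subst hz
  obtain ⟨D, hD⟩ : ∃ D, D = a * x + b * y := ⟨_, rfl⟩
  obtain ⟨E, hE⟩ : ∃ E, E = b * y - a * x := ⟨_, rfl⟩
  rw [← hD] at D0
  rw [← hE] at E0
  simp only [← hE] at er
  simp only [LGL0, LGL1, LGL2, LGL3, LGL4, LGL7, fldE, regFld, orbAt, Orb.cBase, Orb.shapeU, shapeG, Orb.shapeT, shapeW, er,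
    Pi.add_apply, Pi.sub_apply, Pi.smul_apply, Pi.zero_apply, smul_eq_mul, Matrix.cons_val,
    sub_add_cancel, one_div_one_div, one_div_div, mul_one, one_mul, mul_zero, zero_mul, add_zero,
    zero_add, sub_zero, neg_zero, zero_div, div_one, ← hD, ← hE, X, Y]
  all_goals
    (try simp only [← hD, ← hE])
    (try generalize dxR _ _ _ x y _ w = X')
    (try generalize dyR _ _ _ x y _ w = Y')
    (try field_simp)
  all_goals
    subst hD hE
    (try ring)

end Vale.Agent.P100.Calib.Bridge
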