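import Mathlib
import Vale.Agent.P100.Calib.SlabBridgeForms

/-!
# The functionals on the fields of the slab family
-/

set_option linter.unusedVariables false
set_option linter.unusedSimpArgs false
set_option linter.unusedTactic false
set_option linter.unreachableTactic false

namespace Vale.Agent.P100.Calib.Bridge

open Orb

variable {N p q a b R x y z s w w₁ : ℝ}

theorem G_gM (h : Pt N p q a b R x y z s w) :
    let X := dxR N p q x y z w
    let Y := dyR N p q x y z w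
    pairFun (gM (⟨a, b, x, y⟩ : Frame)) N p q x y (fldG N p q R x y s w)
      (velG N p q R x y z s w w₁) =
      0 := by
  have e := fun f f' => gM_lin h f f'
  obtain ⟨-, -, er⟩ := h.lam_eq
  intro X Y
  rw [e]
  obtain ⟨rfl, rfl, rfl, a0, b0, M0, x0, y0, s0, D0, E0, hz⟩ := h
  subst hz
  obtain ⟨D, hD⟩ : ∃ D, D = a * x + b * y := ⟨_, rfl⟩
  obtain ⟨E, hE⟩ : ∃ E, E = b * y - a * x := ⟨_, rfl⟩
  rw [← hD] at D0
  rw [← hE] at E0
  simp only [← hE] at er
  simp only [gML0, gML1, gML2, gML4, fldG, velG, regVel, regFld, orbAt, Orb.cBase, Orb.shapeU, shapeG, Orb.shapeT, shapeW, er,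
    Pi.add_apply, Pi.sub_apply, Pi.smul_apply, Pi.zero_apply, smul_eq_mul, Matrix.cons_val,
    sub_add_cancel, one_div_one_div, one_div_div, mul_one, one_mul, mul_zero, zero_mul, add_zero,
    zero_add, sub_zero, neg_zero, zero_div, div_one, ← hD, ← hE, X, Y]
  all_goals
    (try simp only [← hD, ← hE])
    (try generalize dxR _ _ _ x y _ w = X')
    (try generalize dyR _ _ _ x y _ w = Y')
    (try field_simp)
  all_goals
    subst hD hE
    (try ring)

theorem G_gE (h : Pt N p q a b R x y z s w) :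
    let X := dxR N p q x y z w
    let Y := dyR N p q x y z w
    pairFun (gE (⟨a, b, x, y⟩ : Frame)) N p q x y (fldG N p q R x y s w)
      (velG N p q R x y z s w w₁) =
      0 := by
  have e := fun f f' => gE_lin h f f'
  obtain ⟨-, -, er⟩ := h.lam_eq
  intro X Y
  rw [e]
  obtain ⟨rfl, rfl, rfl, a0, b0, M0, x0, y0, s0, D0, E0, hz⟩ := h
  subst hz
  obtain ⟨D, hD⟩ : ∃ D, D = a * x + b * y := ⟨_, rfl⟩
  obtain ⟨E, hE⟩ : ∃ E, E = b * y - a * x := ⟨_, rfl⟩
  rw [← hD] at D0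
  rw [← hE] at E0
  simp only [← hE] at er
  simp only [gEL0, gEL1, gEL2, gEL4, fldG, velG, regVel, regFld, orbAt, Orb.cBase, Orb.shapeU, shapeG, Orb.shapeT, shapeW, er,
    Pi.add_apply, Pi.sub_apply, Pi.smul_apply, Pi.zero_apply, smul_eq_mul, Matrix.cons_val,
    sub_add_cancel, one_div_one_div, one_div_div, mul_one, one_mul, mul_zero, zero_mul, add_zero,
    zero_add, sub_zero, neg_zero, zero_div, div_one, ← hD, ← hE, X, Y]
  all_goals
    (try simp only [← hD, ← hE])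
    (try generalize dxR _ _ _ x y _ w = X')
    (try generalize dyR _ _ _ x y _ w = Y')
    (try field_simp)
  all_goals
    subst hD hE
    (try ring)

theorem G_gG (h : Pt N p q a b R x y z s w) :
    let X := dxR N p q x y z w
    let Y := dyR N p q x y z w
    pairFun (gG (⟨a, b, x, y⟩ : Frame)) N p q x y (fldG N p q R x y s w)
      (velG N p q R x y z s w w₁) =
      0 := by
  have e := fun f f' => gG_lin h f f'
  obtain ⟨-, -, er⟩ := h.lam_eq
  intro X Y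
  rw [e]
  obtain ⟨rfl, rfl, rfl, a0, b0, M0, x0, y0, s0, D0, E0, hz⟩ := h
  subst hz
  obtain ⟨D, hD⟩ : ∃ D, D = a * x + b * y := ⟨_, rfl⟩
  obtain ⟨E, hE⟩ : ∃ E, E = b * y - a * x := ⟨_, rfl⟩
  rw [← hD] at D0
  rw [← hE] at E0
  simp only [← hE] at er
  simp only [gGL0, gGL1, gGL2, gGL4, fldG, velG, regVel, regFld, orbAt, Orb.cBase, Orb.shapeU, shapeG, Orb.shapeT, shapeW, er,
    Pi.add_apply, Pi.sub_apply, Pi.smul_apply, Pi.zero_apply, smul_eq_mul, Matrix.cons_val,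
    sub_add_cancel, one_div_one_div, one_div_div, mul_one, one_mul, mul_zero, zero_mul, add_zero,
    zero_add, sub_zero, neg_zero, zero_div, div_one, ← hD, ← hE, X, Y]
  all_goals
    (try simp only [← hD, ← hE])
    (try generalize dxR _ _ _ x y _ w = X')
    (try generalize dyR _ _ _ x y _ w = Y')
    (try field_simp)
  all_goals
    subst hD hE
    (try ring)

theorem G_hM (h : Pt N p q a b R x y z s w) :
    let X := dxR N p q x y z w
    let Y := dyR N p q x y z w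
    pairFun (hM (⟨a, b, x, y⟩ : Frame)) N p q x y (fldG N p q R x y s w)
      (velG N p q R x y z s w w₁) =
      0 := by
  have e := fun f f' => hM_lin h f f'
  obtain ⟨-, -, er⟩ := h.lam_eq
  intro X Y
  rw [e]
  obtain ⟨rfl, rfl, rfl, a0, b0, M0, x0, y0, s0, D0, E0, hz⟩ := h
  subst hz
  obtain ⟨D, hD⟩ : ∃ D, D = a * x + b * y := ⟨_, rfl⟩
  obtain ⟨E, hE⟩ : ∃ E, E = b * y - a * x := ⟨_, rfl⟩
  rw [← hD] at D0
  rw [← hE] at E0
  simp only [← hE] at er
  simp only [hML0, hML1, hML2, hML4, fldG, velG, regVel, regFld, orbAt, Orb.cBase, Orb.shapeU, shapeG, Orb.shapeT, shapeW, er,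
    Pi.add_apply, Pi.sub_apply, Pi.smul_apply, Pi.zero_apply, smul_eq_mul, Matrix.cons_val,
    sub_add_cancel, one_div_one_div, one_div_div, mul_one, one_mul, mul_zero, zero_mul, add_zero,
    zero_add, sub_zero, neg_zero, zero_div, div_one, ← hD, ← hE, X, Y]
  all_goals
    (try simp only [← hD, ← hE])
    (try generalize dxR _ _ _ x y _ w = X')
    (try generalize dyR _ _ _ x y _ w = Y')
    (try field_simp)
  all_goals
    subst hD hE
    (try ring)

theorem G_hEf (h : Pt N p q a b R x y z s w) :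
    let X := dxR N p q x y z w
    let Y := dyR N p q x y z w
    pairFun (hEf (⟨a, b, x, y⟩ : Frame)) N p q x y (fldG N p q R x y s w)
      (velG N p q R x y z s w w₁) =
      0 := by
  have e := fun f f' => hEf_lin h f f'
  obtain ⟨-, -, er⟩ := h.lam_eq
  intro X Y
  rw [e]
  obtain ⟨rfl, rfl, rfl, a0, b0, M0, x0, y0, s0, D0, E0, hz⟩ := h
  subst hz
  obtain ⟨D, hD⟩ : ∃ D, D = a * x + b * y := ⟨_, rfl⟩
  obtain ⟨E, hE⟩ : ∃ E, E = b * y - a * x := ⟨_, rfl⟩
  rw [← hD] at D0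
  rw [← hE] at E0
  simp only [← hE] at er
  simp only [hEL0, hEL1, hEL2, hEL4, fldG, velG, regVel, regFld, orbAt, Orb.cBase, Orb.shapeU, shapeG, Orb.shapeT, shapeW, er,
    Pi.add_apply, Pi.sub_apply, Pi.smul_apply, Pi.zero_apply, smul_eq_mul, Matrix.cons_val,
    sub_add_cancel, one_div_one_div, one_div_div, mul_one, one_mul, mul_zero, zero_mul, add_zero,
    zero_add, sub_zero, neg_zero, zero_div, div_one, ← hD, ← hE, X, Y]
  all_goals
    (try simp only [← hD, ← hE])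
    (try generalize dxR _ _ _ x y _ w = X')
    (try generalize dyR _ _ _ x y _ w = Y')
    (try field_simp)
  all_goals
    subst hD hE
    (try ring)

theorem G_hG (h : Pt N p q a b R x y z s w) :
    let X := dxR N p q x y z w
    let Y := dyR N p q x y z w
    pairFun (hG (⟨a, b, x, y⟩ : Frame)) N p q x y (fldG N p q R x y s w)
      (velG N p q R x y z s w w₁) =
      (((2))) / (x * y * (a * x + b * y)) := by
  have e := fun f f' => hG_lin h f f'
  obtain ⟨-, -, er⟩ := h.lam_eq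
  intro X Y
  rw [e]
  obtain ⟨rfl, rfl, rfl, a0, b0, M0, x0, y0, s0, D0, E0, hz⟩ := h
  subst hz
  obtain ⟨D, hD⟩ : ∃ D, D = a * x + b * y := ⟨_, rfl⟩
  obtain ⟨E, hE⟩ : ∃ E, E = b * y - a * x := ⟨_, rfl⟩
  rw [← hD] at D0
  rw [← hE] at E0
  simp only [← hE] at er
  simp only [hGL0, hGL1, hGL2, hGL4, fldG, velG, regVel, regFld, orbAt, Orb.cBase, Orb.shapeU, shapeG, Orb.shapeT, shapeW, er,
    Pi.add_apply, Pi.sub_apply, Pi.smul_apply, Pi.zero_apply, smul_eq_mul, Matrix.cons_val,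
    sub_add_cancel, one_div_one_div, one_div_div, mul_one, one_mul, mul_zero, zero_mul, add_zero,
    zero_add, sub_zero, neg_zero, zero_div, div_one, ← hD, ← hE, X, Y]
  all_goals
    (try simp only [← hD, ← hE])
    (try generalize dxR _ _ _ x y _ w = X')
    (try generalize dyR _ _ _ x y _ w = Y')
    (try field_simp)
  all_goals
    subst hD hE
    (try ring)

theorem G_lMM (h : Pt N p q a b R x y z s w) :
    let X := dxR N p q x y z w
    let Y := dyR N p q x y z w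
    pairFun (lMM (⟨a, b, x, y⟩ : Frame) N p q) N p q x y (fldG N p q R x y s w)
      (velG N p q R x y z s w w₁) =
      0 := by
  have e := fun f f' => lMM_lin h f f'
  obtain ⟨-, -, er⟩ := h.lam_eq
  intro X Y
  rw [e]
  obtain ⟨rfl, rfl, rfl, a0, b0, M0, x0, y0, s0, D0, E0, hz⟩ := h
  subst hz
  obtain ⟨D, hD⟩ : ∃ D, D = a * x + b * y := ⟨_, rfl⟩
  obtain ⟨E, hE⟩ : ∃ E, E = b * y - a * x := ⟨_, rfl⟩
  rw [← hD] at D0
  rw [← hE] at E0
  simp only [← hE] at er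
  simp only [MML0, MML1, MML2, MML4, MML5, MML6, fldG, velG, regVel, regFld, orbAt, Orb.cBase, Orb.shapeU, shapeG, Orb.shapeT, shapeW, er,
    Pi.add_apply, Pi.sub_apply, Pi.smul_apply, Pi.zero_apply, smul_eq_mul, Matrix.cons_val,
    sub_add_cancel, one_div_one_div, one_div_div, mul_one, one_mul, mul_zero, zero_mul, add_zero,
    zero_add, sub_zero, neg_zero, zero_div, div_one, ← hD, ← hE, X, Y]
  all_goals
    (try simp only [← hD, ← hE])
    (try generalize dxR _ _ _ x y _ w = X')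
    (try generalize dyR _ _ _ x y _ w = Y')
    (try field_simp)
  all_goals
    subst hD hE
    (try ring)

theorem G_lME (h : Pt N p q a b R x y z s w) :
    let X := dxR N p q x y z w
    let Y := dyR N p q x y z w
    pairFun (lME (⟨a, b, x, y⟩ : Frame) N p q) N p q x y (fldG N p q R x y s w)
      (velG N p q R x y z s w w₁) =
      0 := by
  have e := fun f f' => lME_lin h f f'
  obtain ⟨-, -, er⟩ := h.lam_eq
  intro X Y
  rw [e]
  obtain ⟨rfl, rfl, rfl, a0, b0, M0, x0, y0, s0, D0, E0, hz⟩ := h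
  subst hz
  obtain ⟨D, hD⟩ : ∃ D, D = a * x + b * y := ⟨_, rfl⟩
  obtain ⟨E, hE⟩ : ∃ E, E = b * y - a * x := ⟨_, rfl⟩
  rw [← hD] at D0
  rw [← hE] at E0
  simp only [← hE] at er
  simp only [MEL0, MEL1, MEL2, MEL4, MEL5, MEL6, fldG, velG, regVel, regFld, orbAt, Orb.cBase, Orb.shapeU, shapeG, Orb.shapeT, shapeW, er,
    Pi.add_apply, Pi.sub_apply, Pi.smul_apply, Pi.zero_apply, smul_eq_mul, Matrix.cons_val,
    sub_add_cancel, one_div_one_div, one_div_div, mul_one, one_mul, mul_zero, zero_mul, add_zero,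
    zero_add, sub_zero, neg_zero, zero_div, div_one, ← hD, ← hE, X, Y]
  all_goals
    (try simp only [← hD, ← hE])
    (try generalize dxR _ _ _ x y _ w = X')
    (try generalize dyR _ _ _ x y _ w = Y')
    (try field_simp)
  all_goals
    subst hD hE
    (try ring)

theorem G_lMG (h : Pt N p q a b R x y z s w) :
    let X := dxR N p q x y z w
    let Y := dyR N p q x y z w
    pairFun (lMG (⟨a, b, x, y⟩ : Frame) N p q) N p q x y (fldG N p q R x y s w)
      (velG N p q R x y z s w w₁) =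
      ((x * y ^ (2 : ℕ) * (-a - b + 2) + x ^ (2 : ℕ) * y * (a + b - 2)) + Y * (x * (-1)) + X * (y * (1))) /
        (x * y * (a * x + b * y) ^ (3 : ℕ)) := by
  have e := fun f f' => lMG_lin h f f'
  obtain ⟨-, -, er⟩ := h.lam_eq
  intro X Y
  rw [e]
  obtain ⟨rfl, rfl, rfl, a0, b0, M0, x0, y0, s0, D0, E0, hz⟩ := h
  subst hz
  obtain ⟨D, hD⟩ : ∃ D, D = a * x + b * y := ⟨_, rfl⟩
  obtain ⟨E, hE⟩ : ∃ E, E = b * y - a * x := ⟨_, rfl⟩
  rw [← hD] at D0
  rw [← hE] at E0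
  simp only [← hE] at er
  simp only [MGL0, MGL1, MGL2, MGL4, MGL5, MGL6, fldG, velG, regVel, regFld, orbAt, Orb.cBase, Orb.shapeU, shapeG, Orb.shapeT, shapeW, er,
    Pi.add_apply, Pi.sub_apply, Pi.smul_apply, Pi.zero_apply, smul_eq_mul, Matrix.cons_val,
    sub_add_cancel, one_div_one_div, one_div_div, mul_one, one_mul, mul_zero, zero_mul, add_zero,
    zero_add, sub_zero, neg_zero, zero_div, div_one, ← hD, ← hE, X, Y]
  all_goals
    (try simp only [← hD, ← hE])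
    (try generalize dxR _ _ _ x y _ w = X')
    (try generalize dyR _ _ _ x y _ w = Y')
    (try field_simp)
  all_goals
    subst hD hE
    (try ring)

theorem G_lEE (h : Pt N p q a b R x y z s w) :
    let X := dxR N p q x y z w
    let Y := dyR N p q x y z w
    pairFun (lEE (⟨a, b, x, y⟩ : Frame) N p q) N p q x y (fldG N p q R x y s w)
      (velG N p q R x y z s w w₁) =
      (Y * (x * (-2)) + X * (y * (2))) / (x * y * (a * x + b * y) ^ (3 : ℕ)) := by
  have e := fun f f' => lEE_lin h f f'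
  obtain ⟨-, -, er⟩ := h.lam_eq
  intro X Y
  rw [e]
  obtain ⟨rfl, rfl, rfl, a0, b0, M0, x0, y0, s0, D0, E0, hz⟩ := h
  subst hz
  obtain ⟨D, hD⟩ : ∃ D, D = a * x + b * y := ⟨_, rfl⟩
  obtain ⟨E, hE⟩ : ∃ E, E = b * y - a * x := ⟨_, rfl⟩
  rw [← hD] at D0
  rw [← hE] at E0
  simp only [← hE] at er
  simp only [EEL0, EEL1, EEL2, EEL4, EEL5, EEL6, fldG, velG, regVel, regFld, orbAt, Orb.cBase, Orb.shapeU, shapeG, Orb.shapeT, shapeW, er,
    Pi.add_apply, Pi.sub_apply, Pi.smul_apply, Pi.zero_apply, smul_eq_mul, Matrix.cons_val,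
    sub_add_cancel, one_div_one_div, one_div_div, mul_one, one_mul, mul_zero, zero_mul, add_zero,
    zero_add, sub_zero, neg_zero, zero_div, div_one, ← hD, ← hE, X, Y]
  all_goals
    (try simp only [← hD, ← hE])
    (try generalize dxR _ _ _ x y _ w = X')
    (try generalize dyR _ _ _ x y _ w = Y')
    (try field_simp)
  all_goals
    subst hD hE
    (try ring)

theorem G_lEG (h : Pt N p q a b R x y z s w) :
    let X := dxR N p q x y z w
    let Y := dyR N p q x y z w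
    pairFun (lEG (⟨a, b, x, y⟩ : Frame) N p q) N p q x y (fldG N p q R x y s w)
      (velG N p q R x y z s w w₁) =
      ((x * y ^ (4 : ℕ) * (2 * b ^ (2 : ℕ)) + x ^ (2 : ℕ) * y ^ (3 : ℕ) * (2 * a ^ (2 : ℕ) * b + 4 * a * b ^ (2 : ℕ) - 5 * a * b + 2
        * b ^ (3 : ℕ) - 3 * b ^ (2 : ℕ) - b) + x ^ (3 : ℕ) * y ^ (2 : ℕ) * (-2 * a ^ (3 : ℕ) - 4 * a ^ (2 : ℕ) * b + 3 * a ^ (2 : ℕ) - 2 * a
        * b ^ (2 : ℕ) + 5 * a * b + a) + x ^ (4 : ℕ) * y * (-2 * a ^ (2 : ℕ))) + Y * (x * y ^ (2 : ℕ) * (-b ^ (2 : ℕ)) + x ^ (2 : ℕ) *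
        y * (8 * a * b) + x ^ (3 : ℕ) * (-a ^ (2 : ℕ))) + X * (y ^ (3 : ℕ) * (b ^ (2 : ℕ)) + x * y ^ (2 : ℕ) * (-8 * a * b) + x
        ^ (2 : ℕ) * y * (a ^ (2 : ℕ)))) / (x ^ (2 : ℕ) * y ^ (2 : ℕ) * (a * x + b * y) ^ (3 : ℕ) * (b * y - a * x)) := by
  have e := fun f f' => lEG_lin h f f'
  obtain ⟨-, -, er⟩ := h.lam_eq
  intro X Y
  rw [e]
  obtain ⟨rfl, rfl, rfl, a0, b0, M0, x0, y0, s0, D0, E0, hz⟩ := h
  subst hz
  obtain ⟨D, hD⟩ : ∃ D, D = a * x + b * y := ⟨_, rfl⟩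
  obtain ⟨E, hE⟩ : ∃ E, E = b * y - a * x := ⟨_, rfl⟩
  rw [← hD] at D0
  rw [← hE] at E0
  simp only [← hE] at er
  simp only [EGL0, EGL1, EGL2, EGL4, EGL5, EGL6, fldG, velG, regVel, regFld, orbAt, Orb.cBase, Orb.shapeU, shapeG, Orb.shapeT, shapeW, er,
    Pi.add_apply, Pi.sub_apply, Pi.smul_apply, Pi.zero_apply, smul_eq_mul, Matrix.cons_val,
    sub_add_cancel, one_div_one_div, one_div_div, mul_one, one_mul, mul_zero, zero_mul, add_zero,
    zero_add, sub_zero, neg_zero, zero_div, div_one, ← hD, ← hE, X, Y]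
  all_goals
    (try simp only [← hD, ← hE])
    (try generalize dxR _ _ _ x y _ w = X')
    (try generalize dyR _ _ _ x y _ w = Y')
    (try field_simp)
  all_goals
    subst hD hE
    (try ring)

theorem G_lGG (h : Pt N p q a b R x y z s w) :
    let X := dxR N p q x y z w
    let Y := dyR N p q x y z w
    pairFun (lGG (⟨a, b, x, y⟩ : Frame) N p q) N p q x y (fldG N p q R x y s w)
      (velG N p q R x y z s w w₁) =
      ((x * y ^ (2 : ℕ) * (2 * a * b ^ (2 : ℕ) - 5 * a * b + 2 * b ^ (3 : ℕ) - b ^ (2 : ℕ) - b) + x ^ (2 : ℕ) * y * (-2 * a ^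
        3 - 2 * a ^ (2 : ℕ) * b + a ^ (2 : ℕ) + 5 * a * b + a)) + Y * (x * (4 * a * b)) + X * (y * (-4 * a *
        b))) / (2 * x ^ (2 : ℕ) * y ^ (2 : ℕ) * (a * x + b * y) ^ (3 : ℕ)) := by
  have e := fun f f' => lGG_lin h f f'
  obtain ⟨-, -, er⟩ := h.lam_eq
  intro X Y
  rw [e]
  obtain ⟨rfl, rfl, rfl, a0, b0, M0, x0, y0, s0, D0, E0, hz⟩ := h
  subst hz
  obtain ⟨D, hD⟩ : ∃ D, D = a * x + b * y := ⟨_, rfl⟩
  obtain ⟨E, hE⟩ : ∃ E, E = b * y - a * x := ⟨_, rfl⟩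
  rw [← hD] at D0
  rw [← hE] at E0
  simp only [← hE] at er
  simp only [GGL0, GGL1, GGL2, GGL4, GGL5, GGL6, fldG, velG, regVel, regFld, orbAt, Orb.cBase, Orb.shapeU, shapeG, Orb.shapeT, shapeW, er,
    Pi.add_apply, Pi.sub_apply, Pi.smul_apply, Pi.zero_apply, smul_eq_mul, Matrix.cons_val,
    sub_add_cancel, one_div_one_div, one_div_div, mul_one, one_mul, mul_zero, zero_mul, add_zero,
    zero_add, sub_zero, neg_zero, zero_div, div_one, ← hD, ← hE, X, Y]
  all_goals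
    (try simp only [← hD, ← hE])
    (try generalize dxR _ _ _ x y _ w = X')
    (try generalize dyR _ _ _ x y _ w = Y')
    (try field_simp)
  all_goals
    subst hD hE
    (try ring)

theorem G_lLG (h : Pt N p q a b R x y z s w) :
    let X := dxR N p q x y z w
    let Y := dyR N p q x y z w
    pairFun (lLG (⟨a, b, x, y⟩ : Frame) N p q z) N p q x y (fldG N p q R x y s w)
      (velG N p q R x y z s w w₁) =
      (w * R * ((-a - b + 2))) / (x * y * (a * x + b * y)) := by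
  have e := fun f f' => lLG_lin h f f'
  obtain ⟨-, -, er⟩ := h.lam_eq
  intro X Y
  rw [e]
  obtain ⟨rfl, rfl, rfl, a0, b0, M0, x0, y0, s0, D0, E0, hz⟩ := h
  subst hz
  obtain ⟨D, hD⟩ : ∃ D, D = a * x + b * y := ⟨_, rfl⟩
  obtain ⟨E, hE⟩ : ∃ E, E = b * y - a * x := ⟨_, rfl⟩
  rw [← hD] at D0
  rw [← hE] at E0
  simp only [← hE] at er
  simp only [LGL0, LGL1, LGL2, LGL3, LGL4, LGL7, fldG, velG, regVel, regFld, orbAt, Orb.cBase, Orb.shapeU, shapeG, Orb.shapeT, shapeW, er,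
    Pi.add_apply, Pi.sub_apply, Pi.smul_apply, Pi.zero_apply, smul_eq_mul, Matrix.cons_val,
    sub_add_cancel, one_div_one_div, one_div_div, mul_one, one_mul, mul_zero, zero_mul, add_zero,
    zero_add, sub_zero, neg_zero, zero_div, div_one, ← hD, ← hE, X, Y]
  all_goals
    (try simp only [← hD, ← hE])
    (try generalize dxR _ _ _ x y _ w = X')
    (try generalize dyR _ _ _ x y _ w = Y')
    (try field_simp)
  all_goals
    subst hD hE
    (try ring)

theorem G₀_gM (h : Pt N p q a b R x y z s w) :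
    let X := dxR N p q x y z w
    let Y := dyR N p q x y z w
    pairFun (gM (⟨a, b, x, y⟩ : Frame)) N p q x y (0)
      (fldG N p q R x y s w) =
      0 := by
  have e := fun f f' => gM_lin h f f'
  obtain ⟨-, -, er⟩ := h.lam_eq
  intro X Y
  rw [e]
  obtain ⟨rfl, rfl, rfl, a0, b0, M0, x0, y0, s0, D0, E0, hz⟩ := h
  subst hz
  obtain ⟨D, hD⟩ : ∃ D, D = a * x + b * y := ⟨_, rfl⟩
  obtain ⟨E, hE⟩ : ∃ E, E = b * y - a * x := ⟨_, rfl⟩
  rw [← hD] at D0
  rw [← hE] at E0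
  simp only [← hE] at er
  simp only [gML0, gML1, gML2, gML4, fldG, regFld, orbAt, Orb.cBase, Orb.shapeU, shapeG, Orb.shapeT, shapeW, er,
    Pi.add_apply, Pi.sub_apply, Pi.smul_apply, Pi.zero_apply, smul_eq_mul, Matrix.cons_val,
    sub_add_cancel, one_div_one_div, one_div_div, mul_one, one_mul, mul_zero, zero_mul, add_zero,
    zero_add, sub_zero, neg_zero, zero_div, div_one, ← hD, ← hE, X, Y]
  all_goals
    (try simp only [← hD, ← hE])
    (try generalize dxR _ _ _ x y _ w = X')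
    (try generalize dyR _ _ _ x y _ w = Y')
    (try field_simp)
  all_goals
    subst hD hE
    (try ring)

theorem G₀_gE (h : Pt N p q a b R x y z s w) :
    let X := dxR N p q x y z w
    let Y := dyR N p q x y z w
    pairFun (gE (⟨a, b, x, y⟩ : Frame)) N p q x y (0)
      (fldG N p q R x y s w) =
      0 := by
  have e := fun f f' => gE_lin h f f'
  obtain ⟨-, -, er⟩ := h.lam_eq
  intro X Y
  rw [e]
  obtain ⟨rfl, rfl, rfl, a0, b0, M0, x0, y0, s0, D0, E0, hz⟩ := h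
  subst hz
  obtain ⟨D, hD⟩ : ∃ D, D = a * x + b * y := ⟨_, rfl⟩
  obtain ⟨E, hE⟩ : ∃ E, E = b * y - a * x := ⟨_, rfl⟩
  rw [← hD] at D0
  rw [← hE] at E0
  simp only [← hE] at er
  simp only [gEL0, gEL1, gEL2, gEL4, fldG, regFld, orbAt, Orb.cBase, Orb.shapeU, shapeG, Orb.shapeT, shapeW, er,
    Pi.add_apply, Pi.sub_apply, Pi.smul_apply, Pi.zero_apply, smul_eq_mul, Matrix.cons_val,
    sub_add_cancel, one_div_one_div, one_div_div, mul_one, one_mul, mul_zero, zero_mul, add_zero,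
    zero_add, sub_zero, neg_zero, zero_div, div_one, ← hD, ← hE, X, Y]
  all_goals
    (try simp only [← hD, ← hE])
    (try generalize dxR _ _ _ x y _ w = X')
    (try generalize dyR _ _ _ x y _ w = Y')
    (try field_simp)
  all_goals
    subst hD hE
    (try ring)

theorem G₀_gG (h : Pt N p q a b R x y z s w) :
    let X := dxR N p q x y z w
    let Y := dyR N p q x y z w
    pairFun (gG (⟨a, b, x, y⟩ : Frame)) N p q x y (0)
      (fldG N p q R x y s w) =
      0 := by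
  have e := fun f f' => gG_lin h f f'
  obtain ⟨-, -, er⟩ := h.lam_eq
  intro X Y
  rw [e]
  obtain ⟨rfl, rfl, rfl, a0, b0, M0, x0, y0, s0, D0, E0, hz⟩ := h
  subst hz
  obtain ⟨D, hD⟩ : ∃ D, D = a * x + b * y := ⟨_, rfl⟩
  obtain ⟨E, hE⟩ : ∃ E, E = b * y - a * x := ⟨_, rfl⟩
  rw [← hD] at D0
  rw [← hE] at E0
  simp only [← hE] at er
  simp only [gGL0, gGL1, gGL2, gGL4, fldG, regFld, orbAt, Orb.cBase, Orb.shapeU, shapeG, Orb.shapeT, shapeW, er,
    Pi.add_apply, Pi.sub_apply, Pi.smul_apply, Pi.zero_apply, smul_eq_mul, Matrix.cons_val,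
    sub_add_cancel, one_div_one_div, one_div_div, mul_one, one_mul, mul_zero, zero_mul, add_zero,
    zero_add, sub_zero, neg_zero, zero_div, div_one, ← hD, ← hE, X, Y]
  all_goals
    (try simp only [← hD, ← hE])
    (try generalize dxR _ _ _ x y _ w = X')
    (try generalize dyR _ _ _ x y _ w = Y')
    (try field_simp)
  all_goals
    subst hD hE
    (try ring)

theorem G₀_hM (h : Pt N p q a b R x y z s w) :
    let X := dxR N p q x y z w
    let Y := dyR N p q x y z w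
    pairFun (hM (⟨a, b, x, y⟩ : Frame)) N p q x y (0)
      (fldG N p q R x y s w) =
      0 := by
  have e := fun f f' => hM_lin h f f'
  obtain ⟨-, -, er⟩ := h.lam_eq
  intro X Y
  rw [e]
  obtain ⟨rfl, rfl, rfl, a0, b0, M0, x0, y0, s0, D0, E0, hz⟩ := h
  subst hz
  obtain ⟨D, hD⟩ : ∃ D, D = a * x + b * y := ⟨_, rfl⟩
  obtain ⟨E, hE⟩ : ∃ E, E = b * y - a * x := ⟨_, rfl⟩
  rw [← hD] at D0
  rw [← hE] at E0
  simp only [← hE] at er
  simp only [hML0, hML1, hML2, hML4, fldG, regFld, orbAt, Orb.cBase, Orb.shapeU, shapeG, Orb.shapeT, shapeW, er,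
    Pi.add_apply, Pi.sub_apply, Pi.smul_apply, Pi.zero_apply, smul_eq_mul, Matrix.cons_val,
    sub_add_cancel, one_div_one_div, one_div_div, mul_one, one_mul, mul_zero, zero_mul, add_zero,
    zero_add, sub_zero, neg_zero, zero_div, div_one, ← hD, ← hE, X, Y]
  all_goals
    (try simp only [← hD, ← hE])
    (try generalize dxR _ _ _ x y _ w = X')
    (try generalize dyR _ _ _ x y _ w = Y')
    (try field_simp)
  all_goals
    subst hD hE
    (try ring)

theorem G₀_hEf (h : Pt N p q a b R x y z s w) :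
    let X := dxR N p q x y z w
    let Y := dyR N p q x y z w
    pairFun (hEf (⟨a, b, x, y⟩ : Frame)) N p q x y (0)
      (fldG N p q R x y s w) =
      0 := by
  have e := fun f f' => hEf_lin h f f'
  obtain ⟨-, -, er⟩ := h.lam_eq
  intro X Y
  rw [e]
  obtain ⟨rfl, rfl, rfl, a0, b0, M0, x0, y0, s0, D0, E0, hz⟩ := h
  subst hz
  obtain ⟨D, hD⟩ : ∃ D, D = a * x + b * y := ⟨_, rfl⟩
  obtain ⟨E, hE⟩ : ∃ E, E = b * y - a * x := ⟨_, rfl⟩
  rw [← hD] at D0
  rw [← hE] at E0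
  simp only [← hE] at er
  simp only [hEL0, hEL1, hEL2, hEL4, fldG, regFld, orbAt, Orb.cBase, Orb.shapeU, shapeG, Orb.shapeT, shapeW, er,
    Pi.add_apply, Pi.sub_apply, Pi.smul_apply, Pi.zero_apply, smul_eq_mul, Matrix.cons_val,
    sub_add_cancel, one_div_one_div, one_div_div, mul_one, one_mul, mul_zero, zero_mul, add_zero,
    zero_add, sub_zero, neg_zero, zero_div, div_one, ← hD, ← hE, X, Y]
  all_goals
    (try simp only [← hD, ← hE])
    (try generalize dxR _ _ _ x y _ w = X')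
    (try generalize dyR _ _ _ x y _ w = Y')
    (try field_simp)
  all_goals
    subst hD hE
    (try ring)

theorem G₀_hG (h : Pt N p q a b R x y z s w) :
    let X := dxR N p q x y z w
    let Y := dyR N p q x y z w
    pairFun (hG (⟨a, b, x, y⟩ : Frame)) N p q x y (0)
      (fldG N p q R x y s w) =
      0 := by
  have e := fun f f' => hG_lin h f f'
  obtain ⟨-, -, er⟩ := h.lam_eq
  intro X Y
  rw [e]
  obtain ⟨rfl, rfl, rfl, a0, b0, M0, x0, y0, s0, D0, E0, hz⟩ := h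
  subst hz
  obtain ⟨D, hD⟩ : ∃ D, D = a * x + b * y := ⟨_, rfl⟩
  obtain ⟨E, hE⟩ : ∃ E, E = b * y - a * x := ⟨_, rfl⟩
  rw [← hD] at D0
  rw [← hE] at E0
  simp only [← hE] at er
  simp only [hGL0, hGL1, hGL2, hGL4, fldG, regFld, orbAt, Orb.cBase, Orb.shapeU, shapeG, Orb.shapeT, shapeW, er,
    Pi.add_apply, Pi.sub_apply, Pi.smul_apply, Pi.zero_apply, smul_eq_mul, Matrix.cons_val,
    sub_add_cancel, one_div_one_div, one_div_div, mul_one, one_mul, mul_zero, zero_mul, add_zero,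
    zero_add, sub_zero, neg_zero, zero_div, div_one, ← hD, ← hE, X, Y]
  all_goals
    (try simp only [← hD, ← hE])
    (try generalize dxR _ _ _ x y _ w = X')
    (try generalize dyR _ _ _ x y _ w = Y')
    (try field_simp)
  all_goals
    subst hD hE
    (try ring)

theorem G₀_lMM (h : Pt N p q a b R x y z s w) :
    let X := dxR N p q x y z w
    let Y := dyR N p q x y z w
    pairFun (lMM (⟨a, b, x, y⟩ : Frame) N p q) N p q x y (0)
      (fldG N p q R x y s w) =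
      0 := by
  have e := fun f f' => lMM_lin h f f'
  obtain ⟨-, -, er⟩ := h.lam_eq
  intro X Y
  rw [e]
  obtain ⟨rfl, rfl, rfl, a0, b0, M0, x0, y0, s0, D0, E0, hz⟩ := h
  subst hz
  obtain ⟨D, hD⟩ : ∃ D, D = a * x + b * y := ⟨_, rfl⟩
  obtain ⟨E, hE⟩ : ∃ E, E = b * y - a * x := ⟨_, rfl⟩
  rw [← hD] at D0
  rw [← hE] at E0
  simp only [← hE] at er
  simp only [MML0, MML1, MML2, MML4, MML5, MML6, fldG, regFld, orbAt, Orb.cBase, Orb.shapeU, shapeG, Orb.shapeT, shapeW, er,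
    Pi.add_apply, Pi.sub_apply, Pi.smul_apply, Pi.zero_apply, smul_eq_mul, Matrix.cons_val,
    sub_add_cancel, one_div_one_div, one_div_div, mul_one, one_mul, mul_zero, zero_mul, add_zero,
    zero_add, sub_zero, neg_zero, zero_div, div_one, ← hD, ← hE, X, Y]
  all_goals
    (try simp only [← hD, ← hE])
    (try generalize dxR _ _ _ x y _ w = X')
    (try generalize dyR _ _ _ x y _ w = Y')
    (try field_simp)
  all_goals
    subst hD hE
    (try ring)

theorem G₀_lME (h : Pt N p q a b R x y z s w) :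
    let X := dxR N p q x y z w
    let Y := dyR N p q x y z w
    pairFun (lME (⟨a, b, x, y⟩ : Frame) N p q) N p q x y (0)
      (fldG N p q R x y s w) =
      0 := by
  have e := fun f f' => lME_lin h f f'
  obtain ⟨-, -, er⟩ := h.lam_eq
  intro X Y
  rw [e]
  obtain ⟨rfl, rfl, rfl, a0, b0, M0, x0, y0, s0, D0, E0, hz⟩ := h
  subst hz
  obtain ⟨D, hD⟩ : ∃ D, D = a * x + b * y := ⟨_, rfl⟩
  obtain ⟨E, hE⟩ : ∃ E, E = b * y - a * x := ⟨_, rfl⟩
  rw [← hD] at D0
  rw [← hE] at E0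
  simp only [← hE] at er
  simp only [MEL0, MEL1, MEL2, MEL4, MEL5, MEL6, fldG, regFld, orbAt, Orb.cBase, Orb.shapeU, shapeG, Orb.shapeT, shapeW, er,
    Pi.add_apply, Pi.sub_apply, Pi.smul_apply, Pi.zero_apply, smul_eq_mul, Matrix.cons_val,
    sub_add_cancel, one_div_one_div, one_div_div, mul_one, one_mul, mul_zero, zero_mul, add_zero,
    zero_add, sub_zero, neg_zero, zero_div, div_one, ← hD, ← hE, X, Y]
  all_goals
    (try simp only [← hD, ← hE])
    (try generalize dxR _ _ _ x y _ w = X')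
    (try generalize dyR _ _ _ x y _ w = Y')
    (try field_simp)
  all_goals
    subst hD hE
    (try ring)

theorem G₀_lMG (h : Pt N p q a b R x y z s w) :
    let X := dxR N p q x y z w
    let Y := dyR N p q x y z w
    pairFun (lMG (⟨a, b, x, y⟩ : Frame) N p q) N p q x y (0)
      (fldG N p q R x y s w) =
      0 := by
  have e := fun f f' => lMG_lin h f f'
  obtain ⟨-, -, er⟩ := h.lam_eq
  intro X Y
  rw [e]
  obtain ⟨rfl, rfl, rfl, a0, b0, M0, x0, y0, s0, D0, E0, hz⟩ := h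
  subst hz
  obtain ⟨D, hD⟩ : ∃ D, D = a * x + b * y := ⟨_, rfl⟩
  obtain ⟨E, hE⟩ : ∃ E, E = b * y - a * x := ⟨_, rfl⟩
  rw [← hD] at D0
  rw [← hE] at E0
  simp only [← hE] at er
  simp only [MGL0, MGL1, MGL2, MGL4, MGL5, MGL6, fldG, regFld, orbAt, Orb.cBase, Orb.shapeU, shapeG, Orb.shapeT, shapeW, er,
    Pi.add_apply, Pi.sub_apply, Pi.smul_apply, Pi.zero_apply, smul_eq_mul, Matrix.cons_val,
    sub_add_cancel, one_div_one_div, one_div_div, mul_one, one_mul, mul_zero, zero_mul, add_zero,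
    zero_add, sub_zero, neg_zero, zero_div, div_one, ← hD, ← hE, X, Y]
  all_goals
    (try simp only [← hD, ← hE])
    (try generalize dxR _ _ _ x y _ w = X')
    (try generalize dyR _ _ _ x y _ w = Y')
    (try field_simp)
  all_goals
    subst hD hE
    (try ring)

theorem G₀_lEE (h : Pt N p q a b R x y z s w) :
    let X := dxR N p q x y z w
    let Y := dyR N p q x y z w
    pairFun (lEE (⟨a, b, x, y⟩ : Frame) N p q) N p q x y (0)
      (fldG N p q R x y s w) =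
      0 := by
  have e := fun f f' => lEE_lin h f f'
  obtain ⟨-, -, er⟩ := h.lam_eq
  intro X Y
  rw [e]
  obtain ⟨rfl, rfl, rfl, a0, b0, M0, x0, y0, s0, D0, E0, hz⟩ := h
  subst hz
  obtain ⟨D, hD⟩ : ∃ D, D = a * x + b * y := ⟨_, rfl⟩
  obtain ⟨E, hE⟩ : ∃ E, E = b * y - a * x := ⟨_, rfl⟩
  rw [← hD] at D0
  rw [← hE] at E0
  simp only [← hE] at er
  simp only [EEL0, EEL1, EEL2, EEL4, EEL5, EEL6, fldG, regFld, orbAt, Orb.cBase, Orb.shapeU, shapeG, Orb.shapeT, shapeW, er,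
    Pi.add_apply, Pi.sub_apply, Pi.smul_apply, Pi.zero_apply, smul_eq_mul, Matrix.cons_val,
    sub_add_cancel, one_div_one_div, one_div_div, mul_one, one_mul, mul_zero, zero_mul, add_zero,
    zero_add, sub_zero, neg_zero, zero_div, div_one, ← hD, ← hE, X, Y]
  all_goals
    (try simp only [← hD, ← hE])
    (try generalize dxR _ _ _ x y _ w = X')
    (try generalize dyR _ _ _ x y _ w = Y')
    (try field_simp)
  all_goals
    subst hD hE
    (try ring)

theorem G₀_lEG (h : Pt N p q a b R x y z s w) :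
    let X := dxR N p q x y z w
    let Y := dyR N p q x y z w
    pairFun (lEG (⟨a, b, x, y⟩ : Frame) N p q) N p q x y (0)
      (fldG N p q R x y s w) =
      ((y * (b) + x * (-a))) / (x * y * a * b * (a * x + b * y) ^ (2 : ℕ)) := by
  have e := fun f f' => lEG_lin h f f'
  obtain ⟨-, -, er⟩ := h.lam_eq
  intro X Y
  rw [e]
  obtain ⟨rfl, rfl, rfl, a0, b0, M0, x0, y0, s0, D0, E0, hz⟩ := h
  subst hz
  obtain ⟨D, hD⟩ : ∃ D, D = a * x + b * y := ⟨_, rfl⟩
  obtain ⟨E, hE⟩ : ∃ E, E = b * y - a * x := ⟨_, rfl⟩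
  rw [← hD] at D0
  rw [← hE] at E0
  simp only [← hE] at er
  simp only [EGL0, EGL1, EGL2, EGL4, EGL5, EGL6, fldG, regFld, orbAt, Orb.cBase, Orb.shapeU, shapeG, Orb.shapeT, shapeW, er,
    Pi.add_apply, Pi.sub_apply, Pi.smul_apply, Pi.zero_apply, smul_eq_mul, Matrix.cons_val,
    sub_add_cancel, one_div_one_div, one_div_div, mul_one, one_mul, mul_zero, zero_mul, add_zero,
    zero_add, sub_zero, neg_zero, zero_div, div_one, ← hD, ← hE, X, Y]
  all_goals
    (try simp only [← hD, ← hE])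
    (try generalize dxR _ _ _ x y _ w = X')
    (try generalize dyR _ _ _ x y _ w = Y')
    (try field_simp)
  all_goals
    subst hD hE
    (try ring)

theorem G₀_lGG (h : Pt N p q a b R x y z s w) :
    let X := dxR N p q x y z w
    let Y := dyR N p q x y z w
    pairFun (lGG (⟨a, b, x, y⟩ : Frame) N p q) N p q x y (0)
      (fldG N p q R x y s w) =
      (((-2))) / (x * y * (a * x + b * y) ^ (2 : ℕ)) := by
  have e := fun f f' => lGG_lin h f f'
  obtain ⟨-, -, er⟩ := h.lam_eq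
  intro X Y
  rw [e]
  obtain ⟨rfl, rfl, rfl, a0, b0, M0, x0, y0, s0, D0, E0, hz⟩ := h
  subst hz
  obtain ⟨D, hD⟩ : ∃ D, D = a * x + b * y := ⟨_, rfl⟩
  obtain ⟨E, hE⟩ : ∃ E, E = b * y - a * x := ⟨_, rfl⟩
  rw [← hD] at D0
  rw [← hE] at E0
  simp only [← hE] at er
  simp only [GGL0, GGL1, GGL2, GGL4, GGL5, GGL6, fldG, regFld, orbAt, Orb.cBase, Orb.shapeU, shapeG, Orb.shapeT, shapeW, er,
    Pi.add_apply, Pi.sub_apply, Pi.smul_apply, Pi.zero_apply, smul_eq_mul, Matrix.cons_val,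
    sub_add_cancel, one_div_one_div, one_div_div, mul_one, one_mul, mul_zero, zero_mul, add_zero,
    zero_add, sub_zero, neg_zero, zero_div, div_one, ← hD, ← hE, X, Y]
  all_goals
    (try simp only [← hD, ← hE])
    (try generalize dxR _ _ _ x y _ w = X')
    (try generalize dyR _ _ _ x y _ w = Y')
    (try field_simp)
  all_goals
    subst hD hE
    (try ring)

theorem G₀_lLG (h : Pt N p q a b R x y z s w) :
    let X := dxR N p q x y z w
    let Y := dyR N p q x y z w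
    pairFun (lLG (⟨a, b, x, y⟩ : Frame) N p q z) N p q x y (0)
      (fldG N p q R x y s w) =
      0 := by
  have e := fun f f' => lLG_lin h f f'
  obtain ⟨-, -, er⟩ := h.lam_eq
  intro X Y
  rw [e]
  obtain ⟨rfl, rfl, rfl, a0, b0, M0, x0, y0, s0, D0, E0, hz⟩ := h
  subst hz
  obtain ⟨D, hD⟩ : ∃ D, D = a * x + b * y := ⟨_, rfl⟩
  obtain ⟨E, hE⟩ : ∃ E, E = b * y - a * x := ⟨_, rfl⟩
  rw [← hD] at D0
  rw [← hE] at E0
  simp only [← hE] at er
  simp only [LGL0, LGL1, LGL2, LGL3, LGL4, LGL7, fldG, regFld, orbAt, Orb.cBase, Orb.shapeU, shapeG, Orb.shapeT, shapeW, er,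
    Pi.add_apply, Pi.sub_apply, Pi.smul_apply, Pi.zero_apply, smul_eq_mul, Matrix.cons_val,
    sub_add_cancel, one_div_one_div, one_div_div, mul_one, one_mul, mul_zero, zero_mul, add_zero,
    zero_add, sub_zero, neg_zero, zero_div, div_one, ← hD, ← hE, X, Y]
  all_goals
    (try simp only [← hD, ← hE])
    (try generalize dxR _ _ _ x y _ w = X')
    (try generalize dyR _ _ _ x y _ w = Y')
    (try field_simp)
  all_goals
    subst hD hE
    (try ring)

theorem W_gM (h : Pt N p q a b R x y z s w) :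
    let X := dxR N p q x y z w
    let Y := dyR N p q x y z w
    pairFun (gM (⟨a, b, x, y⟩ : Frame)) N p q x y (regFld N p q R x y s w 6)
      (regVel N p q R x y z s w w₁ 6) =
      0 := by
  have e := fun f f' => gM_lin h f f'
  obtain ⟨-, -, er⟩ := h.lam_eq
  intro X Y
  rw [e]
  obtain ⟨rfl, rfl, rfl, a0, b0, M0, x0, y0, s0, D0, E0, hz⟩ := h
  subst hz
  obtain ⟨D, hD⟩ : ∃ D, D = a * x + b * y := ⟨_, rfl⟩
  obtain ⟨E, hE⟩ : ∃ E, E = b * y - a * x := ⟨_, rfl⟩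
  rw [← hD] at D0
  rw [← hE] at E0
  simp only [← hE] at er
  simp only [gML0, gML1, gML2, gML4, regVel, regFld, orbAt, Orb.cBase, Orb.shapeU, shapeG, Orb.shapeT, shapeW, er,
    Pi.add_apply, Pi.sub_apply, Pi.smul_apply, Pi.zero_apply, smul_eq_mul, Matrix.cons_val,
    sub_add_cancel, one_div_one_div, one_div_div, mul_one, one_mul, mul_zero, zero_mul, add_zero,
    zero_add, sub_zero, neg_zero, zero_div, div_one, ← hD, ← hE, X, Y]
  all_goals
    (try simp only [← hD, ← hE])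
    (try generalize dxR _ _ _ x y _ w = X')
    (try generalize dyR _ _ _ x y _ w = Y')
    (try field_simp)
  all_goals
    subst hD hE
    (try ring)

theorem W_gE (h : Pt N p q a b R x y z s w) :
    let X := dxR N p q x y z w
    let Y := dyR N p q x y z w
    pairFun (gE (⟨a, b, x, y⟩ : Frame)) N p q x y (regFld N p q R x y s w 6)
      (regVel N p q R x y z s w w₁ 6) =
      (((2))) / ((a * x + b * y)) := by
  have e := fun f f' => gE_lin h f f'
  obtain ⟨-, -, er⟩ := h.lam_eq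
  intro X Y
  rw [e]
  obtain ⟨rfl, rfl, rfl, a0, b0, M0, x0, y0, s0, D0, E0, hz⟩ := h
  subst hz
  obtain ⟨D, hD⟩ : ∃ D, D = a * x + b * y := ⟨_, rfl⟩
  obtain ⟨E, hE⟩ : ∃ E, E = b * y - a * x := ⟨_, rfl⟩
  rw [← hD] at D0
  rw [← hE] at E0
  simp only [← hE] at er
  simp only [gEL0, gEL1, gEL2, gEL4, regVel, regFld, orbAt, Orb.cBase, Orb.shapeU, shapeG, Orb.shapeT, shapeW, er,
    Pi.add_apply, Pi.sub_apply, Pi.smul_apply, Pi.zero_apply, smul_eq_mul, Matrix.cons_val,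
    sub_add_cancel, one_div_one_div, one_div_div, mul_one, one_mul, mul_zero, zero_mul, add_zero,
    zero_add, sub_zero, neg_zero, zero_div, div_one, ← hD, ← hE, X, Y]
  all_goals
    (try simp only [← hD, ← hE])
    (try generalize dxR _ _ _ x y _ w = X')
    (try generalize dyR _ _ _ x y _ w = Y')
    (try field_simp)
  all_goals
    subst hD hE
    (try ring)

theorem W_gG (h : Pt N p q a b R x y z s w) :
    let X := dxR N p q x y z w
    let Y := dyR N p q x y z w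
    pairFun (gG (⟨a, b, x, y⟩ : Frame)) N p q x y (regFld N p q R x y s w 6)
      (regVel N p q R x y z s w w₁ 6) =
      ((y * (b) + x * (-a))) / (x * y * (a * x + b * y)) := by
  have e := fun f f' => gG_lin h f f'
  obtain ⟨-, -, er⟩ := h.lam_eq
  intro X Y
  rw [e]
  obtain ⟨rfl, rfl, rfl, a0, b0, M0, x0, y0, s0, D0, E0, hz⟩ := h
  subst hz
  obtain ⟨D, hD⟩ : ∃ D, D = a * x + b * y := ⟨_, rfl⟩
  obtain ⟨E, hE⟩ : ∃ E, E = b * y - a * x := ⟨_, rfl⟩
  rw [← hD] at D0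
  rw [← hE] at E0
  simp only [← hE] at er
  simp only [gGL0, gGL1, gGL2, gGL4, regVel, regFld, orbAt, Orb.cBase, Orb.shapeU, shapeG, Orb.shapeT, shapeW, er,
    Pi.add_apply, Pi.sub_apply, Pi.smul_apply, Pi.zero_apply, smul_eq_mul, Matrix.cons_val,
    sub_add_cancel, one_div_one_div, one_div_div, mul_one, one_mul, mul_zero, zero_mul, add_zero,
    zero_add, sub_zero, neg_zero, zero_div, div_one, ← hD, ← hE, X, Y]
  all_goals
    (try simp only [← hD, ← hE])
    (try generalize dxR _ _ _ x y _ w = X')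
    (try generalize dyR _ _ _ x y _ w = Y')
    (try field_simp)
  all_goals
    subst hD hE
    (try ring)

theorem W_hM (h : Pt N p q a b R x y z s w) :
    let X := dxR N p q x y z w
    let Y := dyR N p q x y z w
    pairFun (hM (⟨a, b, x, y⟩ : Frame)) N p q x y (regFld N p q R x y s w 6)
      (regVel N p q R x y z s w w₁ 6) =
      0 := by
  have e := fun f f' => hM_lin h f f'
  obtain ⟨-, -, er⟩ := h.lam_eq
  intro X Y
  rw [e]
  obtain ⟨rfl, rfl, rfl, a0, b0, M0, x0, y0, s0, D0, E0, hz⟩ := h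
  subst hz
  obtain ⟨D, hD⟩ : ∃ D, D = a * x + b * y := ⟨_, rfl⟩
  obtain ⟨E, hE⟩ : ∃ E, E = b * y - a * x := ⟨_, rfl⟩
  rw [← hD] at D0
  rw [← hE] at E0
  simp only [← hE] at er
  simp only [hML0, hML1, hML2, hML4, regVel, regFld, orbAt, Orb.cBase, Orb.shapeU, shapeG, Orb.shapeT, shapeW, er,
    Pi.add_apply, Pi.sub_apply, Pi.smul_apply, Pi.zero_apply, smul_eq_mul, Matrix.cons_val,
    sub_add_cancel, one_div_one_div, one_div_div, mul_one, one_mul, mul_zero, zero_mul, add_zero,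
    zero_add, sub_zero, neg_zero, zero_div, div_one, ← hD, ← hE, X, Y]
  all_goals
    (try simp only [← hD, ← hE])
    (try generalize dxR _ _ _ x y _ w = X')
    (try generalize dyR _ _ _ x y _ w = Y')
    (try field_simp)
  all_goals
    subst hD hE
    (try ring)

theorem W_hEf (h : Pt N p q a b R x y z s w) :
    let X := dxR N p q x y z w
    let Y := dyR N p q x y z w
    pairFun (hEf (⟨a, b, x, y⟩ : Frame)) N p q x y (regFld N p q R x y s w 6)
      (regVel N p q R x y z s w w₁ 6) =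
      ((y * (b) + x * (-a))) / (x * y * (a * x + b * y)) := by
  have e := fun f f' => hEf_lin h f f'
  obtain ⟨-, -, er⟩ := h.lam_eq
  intro X Y
  rw [e]
  obtain ⟨rfl, rfl, rfl, a0, b0, M0, x0, y0, s0, D0, E0, hz⟩ := h
  subst hz
  obtain ⟨D, hD⟩ : ∃ D, D = a * x + b * y := ⟨_, rfl⟩
  obtain ⟨E, hE⟩ : ∃ E, E = b * y - a * x := ⟨_, rfl⟩
  rw [← hD] at D0
  rw [← hE] at E0
  simp only [← hE] at er
  simp only [hEL0, hEL1, hEL2, hEL4, regVel, regFld, orbAt, Orb.cBase, Orb.shapeU, shapeG, Orb.shapeT, shapeW, er,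
    Pi.add_apply, Pi.sub_apply, Pi.smul_apply, Pi.zero_apply, smul_eq_mul, Matrix.cons_val,
    sub_add_cancel, one_div_one_div, one_div_div, mul_one, one_mul, mul_zero, zero_mul, add_zero,
    zero_add, sub_zero, neg_zero, zero_div, div_one, ← hD, ← hE, X, Y]
  all_goals
    (try simp only [← hD, ← hE])
    (try generalize dxR _ _ _ x y _ w = X')
    (try generalize dyR _ _ _ x y _ w = Y')
    (try field_simp)
  all_goals
    subst hD hE
    (try ring)

theorem W_hG (h : Pt N p q a b R x y z s w) :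
    let X := dxR N p q x y z w
    let Y := dyR N p q x y z w
    pairFun (hG (⟨a, b, x, y⟩ : Frame)) N p q x y (regFld N p q R x y s w 6)
      (regVel N p q R x y z s w w₁ 6) =
      (((-2 * a * b))) / (x * y * (a * x + b * y)) := by
  have e := fun f f' => hG_lin h f f'
  obtain ⟨-, -, er⟩ := h.lam_eq
  intro X Y
  rw [e]
  obtain ⟨rfl, rfl, rfl, a0, b0, M0, x0, y0, s0, D0, E0, hz⟩ := h
  subst hz
  obtain ⟨D, hD⟩ : ∃ D, D = a * x + b * y := ⟨_, rfl⟩
  obtain ⟨E, hE⟩ : ∃ E, E = b * y - a * x := ⟨_, rfl⟩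
  rw [← hD] at D0
  rw [← hE] at E0
  simp only [← hE] at er
  simp only [hGL0, hGL1, hGL2, hGL4, regVel, regFld, orbAt, Orb.cBase, Orb.shapeU, shapeG, Orb.shapeT, shapeW, er,
    Pi.add_apply, Pi.sub_apply, Pi.smul_apply, Pi.zero_apply, smul_eq_mul, Matrix.cons_val,
    sub_add_cancel, one_div_one_div, one_div_div, mul_one, one_mul, mul_zero, zero_mul, add_zero,
    zero_add, sub_zero, neg_zero, zero_div, div_one, ← hD, ← hE, X, Y]
  all_goals
    (try simp only [← hD, ← hE])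
    (try generalize dxR _ _ _ x y _ w = X')
    (try generalize dyR _ _ _ x y _ w = Y')
    (try field_simp)
  all_goals
    subst hD hE
    (try ring)

theorem W_lMM (h : Pt N p q a b R x y z s w) :
    let X := dxR N p q x y z w
    let Y := dyR N p q x y z w
    pairFun (lMM (⟨a, b, x, y⟩ : Frame) N p q) N p q x y (regFld N p q R x y s w 6)
      (regVel N p q R x y z s w w₁ 6) =
      ((x * y ^ (2 : ℕ) * (1) + x ^ (2 : ℕ) * y * (-1)) + Y * (x * (-1)) + X * (y * (1))) / ((a * x + b * y)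
        ^ (3 : ℕ)) := by
  have e := fun f f' => lMM_lin h f f'
  obtain ⟨-, -, er⟩ := h.lam_eq
  intro X Y
  rw [e]
  obtain ⟨rfl, rfl, rfl, a0, b0, M0, x0, y0, s0, D0, E0, hz⟩ := h
  subst hz
  obtain ⟨D, hD⟩ : ∃ D, D = a * x + b * y := ⟨_, rfl⟩
  obtain ⟨E, hE⟩ : ∃ E, E = b * y - a * x := ⟨_, rfl⟩
  rw [← hD] at D0
  rw [← hE] at E0
  simp only [← hE] at er
  simp only [MML0, MML1, MML2, MML4, MML5, MML6, regVel, regFld, orbAt, Orb.cBase, Orb.shapeU, shapeG, Orb.shapeT, shapeW, er,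
    Pi.add_apply, Pi.sub_apply, Pi.smul_apply, Pi.zero_apply, smul_eq_mul, Matrix.cons_val,
    sub_add_cancel, one_div_one_div, one_div_div, mul_one, one_mul, mul_zero, zero_mul, add_zero,
    zero_add, sub_zero, neg_zero, zero_div, div_one, ← hD, ← hE, X, Y]
  all_goals
    (try simp only [← hD, ← hE])
    (try generalize dxR _ _ _ x y _ w = X')
    (try generalize dyR _ _ _ x y _ w = Y')
    (try field_simp)
  all_goals
    subst hD hE
    (try ring)

theorem W_lME (h : Pt N p q a b R x y z s w) :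
    let X := dxR N p q x y z w
    let Y := dyR N p q x y z w
    pairFun (lME (⟨a, b, x, y⟩ : Frame) N p q) N p q x y (regFld N p q R x y s w 6)
      (regVel N p q R x y z s w w₁ 6) =
      ((x * y ^ (4 : ℕ) * (a * b ^ (2 : ℕ) + b ^ (3 : ℕ) + 5 * b ^ (2 : ℕ)) + x ^ (2 : ℕ) * y ^ (3 : ℕ) * (a * b ^ (2 : ℕ) - 10 * a * b +
        b ^ (3 : ℕ) - 5 * b ^ (2 : ℕ) - 2 * b) + x ^ (3 : ℕ) * y ^ (2 : ℕ) * (-a ^ (3 : ℕ) - a ^ (2 : ℕ) * b + 5 * a ^ (2 : ℕ) + 10 * a * b
        + 2 * a) + x ^ (4 : ℕ) * y * (-a ^ (3 : ℕ) - a ^ (2 : ℕ) * b - 5 * a ^ (2 : ℕ))) + Y * (x * y ^ (2 : ℕ) * (-4 * b ^ (2 : ℕ)) +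
        x ^ (2 : ℕ) * y * (12 * a * b) + x ^ (3 : ℕ) * (-4 * a ^ (2 : ℕ))) + X * (y ^ (3 : ℕ) * (4 * b ^ (2 : ℕ)) + x * y ^ (2 : ℕ) *
        (-12 * a * b) + x ^ (2 : ℕ) * y * (4 * a ^ (2 : ℕ)))) / (2 * x * y * (a * x + b * y) ^ (3 : ℕ) * (b * y - a
        * x)) := by
  have e := fun f f' => lME_lin h f f'
  obtain ⟨-, -, er⟩ := h.lam_eq
  intro X Y
  rw [e]
  obtain ⟨rfl, rfl, rfl, a0, b0, M0, x0, y0, s0, D0, E0, hz⟩ := h
  subst hz
  obtain ⟨D, hD⟩ : ∃ D, D = a * x + b * y := ⟨_, rfl⟩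
  obtain ⟨E, hE⟩ : ∃ E, E = b * y - a * x := ⟨_, rfl⟩
  rw [← hD] at D0
  rw [← hE] at E0
  simp only [← hE] at er
  simp only [MEL0, MEL1, MEL2, MEL4, MEL5, MEL6, regVel, regFld, orbAt, Orb.cBase, Orb.shapeU, shapeG, Orb.shapeT, shapeW, er,
    Pi.add_apply, Pi.sub_apply, Pi.smul_apply, Pi.zero_apply, smul_eq_mul, Matrix.cons_val,
    sub_add_cancel, one_div_one_div, one_div_div, mul_one, one_mul, mul_zero, zero_mul, add_zero,
    zero_add, sub_zero, neg_zero, zero_div, div_one, ← hD, ← hE, X, Y]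
  all_goals
    (try simp only [← hD, ← hE])
    (try generalize dxR _ _ _ x y _ w = X')
    (try generalize dyR _ _ _ x y _ w = Y')
    (try field_simp)
  all_goals
    subst hD hE
    (try ring)

theorem W_lMG (h : Pt N p q a b R x y z s w) :
    let X := dxR N p q x y z w
    let Y := dyR N p q x y z w
    pairFun (lMG (⟨a, b, x, y⟩ : Frame) N p q) N p q x y (regFld N p q R x y s w 6)
      (regVel N p q R x y z s w w₁ 6) =
      ((y ^ (3 : ℕ) * (a * b ^ (2 : ℕ) + b ^ (3 : ℕ) - b ^ (2 : ℕ)) + x * y ^ (2 : ℕ) * (a ^ (2 : ℕ) * b + a * b ^ (2 : ℕ) - 8 * a * b + b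
        ^ (2 : ℕ) - b) + x ^ (2 : ℕ) * y * (-a ^ (2 : ℕ) * b - a ^ (2 : ℕ) - a * b ^ (2 : ℕ) + 8 * a * b + a) + x ^ (3 : ℕ) * (-a ^ (3 : ℕ)
        - a ^ (2 : ℕ) * b + a ^ (2 : ℕ))) + Y * (x * (6 * a * b)) + X * (y * (-6 * a * b))) / (2 * x * y * (a
        * x + b * y) ^ (3 : ℕ)) := by
  have e := fun f f' => lMG_lin h f f'
  obtain ⟨-, -, er⟩ := h.lam_eq
  intro X Y
  rw [e]
  obtain ⟨rfl, rfl, rfl, a0, b0, M0, x0, y0, s0, D0, E0, hz⟩ := h
  subst hz
  obtain ⟨D, hD⟩ : ∃ D, D = a * x + b * y := ⟨_, rfl⟩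
  obtain ⟨E, hE⟩ : ∃ E, E = b * y - a * x := ⟨_, rfl⟩
  rw [← hD] at D0
  rw [← hE] at E0
  simp only [← hE] at er
  simp only [MGL0, MGL1, MGL2, MGL4, MGL5, MGL6, regVel, regFld, orbAt, Orb.cBase, Orb.shapeU, shapeG, Orb.shapeT, shapeW, er,
    Pi.add_apply, Pi.sub_apply, Pi.smul_apply, Pi.zero_apply, smul_eq_mul, Matrix.cons_val,
    sub_add_cancel, one_div_one_div, one_div_div, mul_one, one_mul, mul_zero, zero_mul, add_zero,
    zero_add, sub_zero, neg_zero, zero_div, div_one, ← hD, ← hE, X, Y]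
  all_goals
    (try simp only [← hD, ← hE])
    (try generalize dxR _ _ _ x y _ w = X')
    (try generalize dyR _ _ _ x y _ w = Y')
    (try field_simp)
  all_goals
    subst hD hE
    (try ring)

theorem W_lEE (h : Pt N p q a b R x y z s w) :
    let X := dxR N p q x y z w
    let Y := dyR N p q x y z w
    pairFun (lEE (⟨a, b, x, y⟩ : Frame) N p q) N p q x y (regFld N p q R x y s w 6)
      (regVel N p q R x y z s w w₁ 6) =
      ((x * y ^ (4 : ℕ) * (2 * b ^ (2 : ℕ)) + x ^ (2 : ℕ) * y ^ (3 : ℕ) * (-a ^ (2 : ℕ) * b - 2 * a * b + b ^ (3 : ℕ) - 2 * b ^ (2 : ℕ) -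
        b) + x ^ (3 : ℕ) * y ^ (2 : ℕ) * (-a ^ (3 : ℕ) + 2 * a ^ (2 : ℕ) + a * b ^ (2 : ℕ) + 2 * a * b + a) + x ^ (4 : ℕ) * y * (-2 *
        a ^ (2 : ℕ))) + Y * (x * y ^ (2 : ℕ) * (-b ^ (2 : ℕ)) + x ^ (2 : ℕ) * y * (4 * a * b) + x ^ (3 : ℕ) * (-a ^ (2 : ℕ))) + X * (y
        ^ (3 : ℕ) * (b ^ (2 : ℕ)) + x * y ^ (2 : ℕ) * (-4 * a * b) + x ^ (2 : ℕ) * y * (a ^ (2 : ℕ)))) / (x ^ (2 : ℕ) * y ^ (2 : ℕ) * (a * x
        + b * y) ^ (3 : ℕ)) := by
  have e := fun f f' => lEE_lin h f f'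
  obtain ⟨-, -, er⟩ := h.lam_eq
  intro X Y
  rw [e]
  obtain ⟨rfl, rfl, rfl, a0, b0, M0, x0, y0, s0, D0, E0, hz⟩ := h
  subst hz
  obtain ⟨D, hD⟩ : ∃ D, D = a * x + b * y := ⟨_, rfl⟩
  obtain ⟨E, hE⟩ : ∃ E, E = b * y - a * x := ⟨_, rfl⟩
  rw [← hD] at D0
  rw [← hE] at E0
  simp only [← hE] at er
  simp only [EEL0, EEL1, EEL2, EEL4, EEL5, EEL6, regVel, regFld, orbAt, Orb.cBase, Orb.shapeU, shapeG, Orb.shapeT, shapeW, er,
    Pi.add_apply, Pi.sub_apply, Pi.smul_apply, Pi.zero_apply, smul_eq_mul, Matrix.cons_val,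
    sub_add_cancel, one_div_one_div, one_div_div, mul_one, one_mul, mul_zero, zero_mul, add_zero,
    zero_add, sub_zero, neg_zero, zero_div, div_one, ← hD, ← hE, X, Y]
  all_goals
    (try simp only [← hD, ← hE])
    (try generalize dxR _ _ _ x y _ w = X')
    (try generalize dyR _ _ _ x y _ w = Y')
    (try field_simp)
  all_goals
    subst hD hE
    (try ring)

/-- Part of the value of `lEG` on the field W. -/
def WEG_0_0 (a b x y : ℝ) : ℝ :=
  (x * y ^ (4 : ℕ) * (-2 * a ^ (2 : ℕ) * b ^ (3 : ℕ) - a * b ^ (4 : ℕ) - 7 * a * b ^ (3 : ℕ) + b ^ (5 : ℕ) - b ^ (3 : ℕ)) + x ^ (2 : ℕ) * y ^ (3 : ℕ)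
    * (a ^ (3 : ℕ) * b ^ (2 : ℕ) - a ^ (2 : ℕ) * b ^ (3 : ℕ) + 14 * a ^ (2 : ℕ) * b ^ (2 : ℕ) - 2 * a * b ^ (4 : ℕ) + 7 * a * b ^ (3 : ℕ) + 5 * a
    * b ^ (2 : ℕ)) + x ^ (3 : ℕ) * y ^ (2 : ℕ) * (2 * a ^ (4 : ℕ) * b + a ^ (3 : ℕ) * b ^ (2 : ℕ) - 7 * a ^ (3 : ℕ) * b - a ^ (2 : ℕ) * b ^ (3 : ℕ) - 14
    * a ^ (2 : ℕ) * b ^ (2 : ℕ) - 5 * a ^ (2 : ℕ) * b) + x ^ (4 : ℕ) * y * (-a ^ (5 : ℕ) + a ^ (4 : ℕ) * b + 2 * a ^ (3 : ℕ) * b ^ (2 : ℕ) + 7 * a
    ^ (3 : ℕ) * b + a ^ (3 : ℕ)))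

/-- Part of the value of `lEG` on the field W. -/
def WEG_1_0 (a b x y Y : ℝ) : ℝ :=
  Y * (x * y ^ (2 : ℕ) * (6 * a * b ^ (3 : ℕ)) + x ^ (2 : ℕ) * y * (-16 * a ^ (2 : ℕ) * b ^ (2 : ℕ)) + x ^ (3 : ℕ) * (6 * a ^ (3 : ℕ) *
    b))

/-- Part of the value of `lEG` on the field W. -/
def WEG_2_0 (a b x y X : ℝ) : ℝ :=
  X * (y ^ (3 : ℕ) * (-6 * a * b ^ (3 : ℕ)) + x * y ^ (2 : ℕ) * (16 * a ^ (2 : ℕ) * b ^ (2 : ℕ)) + x ^ (2 : ℕ) * y * (-6 * a ^ (3 : ℕ) *
    b))

theorem W_lEG (h : Pt N p q a b R x y z s w) :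
    let X := dxR N p q x y z w
    let Y := dyR N p q x y z w
    pairFun (lEG (⟨a, b, x, y⟩ : Frame) N p q) N p q x y (regFld N p q R x y s w 6)
      (regVel N p q R x y z s w w₁ 6) =
      (WEG_0_0 a b x y + WEG_1_0 a b x y Y + WEG_2_0 a b x y X) / (2 * x ^ (2 : ℕ) * y ^ (2 : ℕ) * (a * x +
        b * y) ^ (3 : ℕ) * (b * y - a * x)) := by
  have e := fun f f' => lEG_lin h f f'
  obtain ⟨-, -, er⟩ := h.lam_eq
  intro X Y
  rw [e]
  obtain ⟨rfl, rfl, rfl, a0, b0, M0, x0, y0, s0, D0, E0, hz⟩ := h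
  subst hz
  obtain ⟨D, hD⟩ : ∃ D, D = a * x + b * y := ⟨_, rfl⟩
  obtain ⟨E, hE⟩ : ∃ E, E = b * y - a * x := ⟨_, rfl⟩
  rw [← hD] at D0
  rw [← hE] at E0
  simp only [← hE] at er
  simp only [EGL0, EGL1, EGL2, EGL4, EGL5, EGL6, WEG_0_0, WEG_1_0, WEG_2_0, regVel, regFld, orbAt, Orb.cBase, Orb.shapeU, shapeG, Orb.shapeT, shapeW, er,
    Pi.add_apply, Pi.sub_apply, Pi.smul_apply, Pi.zero_apply, smul_eq_mul, Matrix.cons_val,
    sub_add_cancel, one_div_one_div, one_div_div, mul_one, one_mul, mul_zero, zero_mul, add_zero,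
    zero_add, sub_zero, neg_zero, zero_div, div_one, ← hD, ← hE, X, Y]
  all_goals
    (try simp only [← hD, ← hE])
    (try generalize dxR _ _ _ x y _ w = X')
    (try generalize dyR _ _ _ x y _ w = Y')
    (try field_simp)
  all_goals
    subst hD hE
    (try ring)

theorem W_lGG (h : Pt N p q a b R x y z s w) :
    let X := dxR N p q x y z w
    let Y := dyR N p q x y z w
    pairFun (lGG (⟨a, b, x, y⟩ : Frame) N p q) N p q x y (regFld N p q R x y s w 6)
      (regVel N p q R x y z s w w₁ 6) =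
      ((x * y ^ (2 : ℕ) * (a ^ (3 : ℕ) * b ^ (2 : ℕ) + 4 * a ^ (2 : ℕ) * b ^ (2 : ℕ) - a * b ^ (4 : ℕ) + a * b ^ (2 : ℕ)) + x ^ (2 : ℕ) * y * (a
        ^ (4 : ℕ) * b - a ^ (2 : ℕ) * b ^ (3 : ℕ) - 4 * a ^ (2 : ℕ) * b ^ (2 : ℕ) - a ^ (2 : ℕ) * b)) + Y * (x * (-4 * a ^ (2 : ℕ) * b ^ (2 : ℕ)))
        + X * (y * (4 * a ^ (2 : ℕ) * b ^ (2 : ℕ)))) / (2 * x ^ (2 : ℕ) * y ^ (2 : ℕ) * (a * x + b * y) ^ (3 : ℕ)) := by
  have e := fun f f' => lGG_lin h f f'
  obtain ⟨-, -, er⟩ := h.lam_eq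
  intro X Y
  rw [e]
  obtain ⟨rfl, rfl, rfl, a0, b0, M0, x0, y0, s0, D0, E0, hz⟩ := h
  subst hz
  obtain ⟨D, hD⟩ : ∃ D, D = a * x + b * y := ⟨_, rfl⟩
  obtain ⟨E, hE⟩ : ∃ E, E = b * y - a * x := ⟨_, rfl⟩
  rw [← hD] at D0
  rw [← hE] at E0
  simp only [← hE] at er
  simp only [GGL0, GGL1, GGL2, GGL4, GGL5, GGL6, regVel, regFld, orbAt, Orb.cBase, Orb.shapeU, shapeG, Orb.shapeT, shapeW, er,
    Pi.add_apply, Pi.sub_apply, Pi.smul_apply, Pi.zero_apply, smul_eq_mul, Matrix.cons_val,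
    sub_add_cancel, one_div_one_div, one_div_div, mul_one, one_mul, mul_zero, zero_mul, add_zero,
    zero_add, sub_zero, neg_zero, zero_div, div_one, ← hD, ← hE, X, Y]
  all_goals
    (try simp only [← hD, ← hE])
    (try generalize dxR _ _ _ x y _ w = X')
    (try generalize dyR _ _ _ x y _ w = Y')
    (try field_simp)
  all_goals
    subst hD hE
    (try ring)

/-- Part of the value of `lLG` on the field W. -/
def WLG_0_0 (a b x y : ℝ) : ℝ :=
  (x * y ^ (3 : ℕ) * (-16 * a * b ^ (2 : ℕ)) + x ^ (2 : ℕ) * y ^ (2 : ℕ) * (-16 * a ^ (2 : ℕ) * b))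

/-- Part of the value of `lLG` on the field W. -/
def WLG_1_0 (a b x y R : ℝ) : ℝ :=
  R * (x * y ^ (4 : ℕ) * (28 * a * b ^ (2 : ℕ) + 4 * b ^ (3 : ℕ) - 4 * b ^ (2 : ℕ)) + x ^ (2 : ℕ) * y ^ (3 : ℕ) * (-24 * a * b) + x
    ^ (3 : ℕ) * y ^ (2 : ℕ) * (4 * a ^ (3 : ℕ) + 28 * a ^ (2 : ℕ) * b - 4 * a ^ (2 : ℕ)))

/-- Part of the value of `lLG` on the field W. -/
def WLG_2_0 (a b x y Y R : ℝ) : ℝ :=
  Y * R * (x * y ^ (2 : ℕ) * (-32 * a * b ^ (2 : ℕ)))

/-- Part of the value of `lLG` on the field W. -/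
def WLG_3_0 (a b x y X R : ℝ) : ℝ :=
  X * R * (x * y ^ (2 : ℕ) * (-32 * a ^ (2 : ℕ) * b))

/-- Part of the value of `lLG` on the field W. -/
def WLG_4_0 (a b x y s : ℝ) : ℝ :=
  s * (y ^ (3 : ℕ) * (a * b ^ (3 : ℕ) + b ^ (4 : ℕ) - b ^ (3 : ℕ)) + x * y ^ (2 : ℕ) * (-a ^ (2 : ℕ) * b ^ (2 : ℕ) - a * b ^ (3 : ℕ) + a * b ^
    2) + x ^ (2 : ℕ) * y * (-a ^ (3 : ℕ) * b - a ^ (2 : ℕ) * b ^ (2 : ℕ) + a ^ (2 : ℕ) * b) + x ^ (3 : ℕ) * (a ^ (4 : ℕ) + a ^ (3 : ℕ) * b - a ^
    3))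

/-- Part of the value of `lLG` on the field W. -/
def WLG_5_0 (a b x y s w R : ℝ) : ℝ :=
  s * w * R * (y ^ (2 : ℕ) * (a ^ (2 : ℕ) * b ^ (2 : ℕ) + a * b ^ (3 : ℕ) - 3 * a * b ^ (2 : ℕ)) + x * y * (2 * a ^ (2 : ℕ) * b) + x
    ^ (2 : ℕ) * (-a ^ (4 : ℕ) - a ^ (3 : ℕ) * b + a ^ (3 : ℕ)))

theorem W_lLG (h : Pt N p q a b R x y z s w) :
    let X := dxR N p q x y z w
    let Y := dyR N p q x y z w
    pairFun (lLG (⟨a, b, x, y⟩ : Frame) N p q z) N p q x y (regFld N p q R x y s w 6)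
      (regVel N p q R x y z s w w₁ 6) =
      (WLG_0_0 a b x y + WLG_1_0 a b x y R + WLG_2_0 a b x y Y R + WLG_3_0 a b x y X R + WLG_4_0
        a b x y s + WLG_5_0 a b x y s w R) / (2 * x * y ^ (2 : ℕ) * s * (a * x + b * y) * (b * y - a *
        x)) := by
  have e := fun f f' => lLG_lin h f f'
  obtain ⟨-, -, er⟩ := h.lam_eq
  intro X Y
  rw [e]
  obtain ⟨rfl, rfl, rfl, a0, b0, M0, x0, y0, s0, D0, E0, hz⟩ := h
  subst hz
  obtain ⟨D, hD⟩ : ∃ D, D = a * x + b * y := ⟨_, rfl⟩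
  obtain ⟨E, hE⟩ : ∃ E, E = b * y - a * x := ⟨_, rfl⟩
  rw [← hD] at D0
  rw [← hE] at E0
  simp only [← hE] at er
  simp only [LGL0, LGL1, LGL2, LGL3, LGL4, LGL7, WLG_0_0, WLG_1_0, WLG_2_0, WLG_3_0, WLG_4_0, WLG_5_0, regVel, regFld, orbAt, Orb.cBase, Orb.shapeU, shapeG, Orb.shapeT, shapeW, er,
    Pi.add_apply, Pi.sub_apply, Pi.smul_apply, Pi.zero_apply, smul_eq_mul, Matrix.cons_val,
    sub_add_cancel, one_div_one_div, one_div_div, mul_one, one_mul, mul_zero, zero_mul, add_zero,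
    zero_add, sub_zero, neg_zero, zero_div, div_one, ← hD, ← hE, X, Y]
  all_goals
    (try simp only [← hD, ← hE])
    (try generalize dxR _ _ _ x y _ w = X')
    (try generalize dyR _ _ _ x y _ w = Y')
    (try field_simp)
  all_goals
    subst hD hE
    (try ring)

theorem W₀_gM (h : Pt N p q a b R x y z s w) :
    let X := dxR N p q x y z w
    let Y := dyR N p q x y z w
    pairFun (gM (⟨a, b, x, y⟩ : Frame)) N p q x y (0)
      (regFld N p q R x y s w 6) =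
      0 := by
  have e := fun f f' => gM_lin h f f'
  obtain ⟨-, -, er⟩ := h.lam_eq
  intro X Y
  rw [e]
  obtain ⟨rfl, rfl, rfl, a0, b0, M0, x0, y0, s0, D0, E0, hz⟩ := h
  subst hz
  obtain ⟨D, hD⟩ : ∃ D, D = a * x + b * y := ⟨_, rfl⟩
  obtain ⟨E, hE⟩ : ∃ E, E = b * y - a * x := ⟨_, rfl⟩
  rw [← hD] at D0
  rw [← hE] at E0
  simp only [← hE] at er
  simp only [gML0, gML1, gML2, gML4, regFld, orbAt, Orb.cBase, Orb.shapeU, shapeG, Orb.shapeT, shapeW, er,
    Pi.add_apply, Pi.sub_apply, Pi.smul_apply, Pi.zero_apply, smul_eq_mul, Matrix.cons_val,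
    sub_add_cancel, one_div_one_div, one_div_div, mul_one, one_mul, mul_zero, zero_mul, add_zero,
    zero_add, sub_zero, neg_zero, zero_div, div_one, ← hD, ← hE, X, Y]
  all_goals
    (try simp only [← hD, ← hE])
    (try generalize dxR _ _ _ x y _ w = X')
    (try generalize dyR _ _ _ x y _ w = Y')
    (try field_simp)
  all_goals
    subst hD hE
    (try ring)

theorem W₀_gE (h : Pt N p q a b R x y z s w) :
    let X := dxR N p q x y z w
    let Y := dyR N p q x y z w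
    pairFun (gE (⟨a, b, x, y⟩ : Frame)) N p q x y (0)
      (regFld N p q R x y s w 6) =
      0 := by
  have e := fun f f' => gE_lin h f f'
  obtain ⟨-, -, er⟩ := h.lam_eq
  intro X Y
  rw [e]
  obtain ⟨rfl, rfl, rfl, a0, b0, M0, x0, y0, s0, D0, E0, hz⟩ := h
  subst hz
  obtain ⟨D, hD⟩ : ∃ D, D = a * x + b * y := ⟨_, rfl⟩
  obtain ⟨E, hE⟩ : ∃ E, E = b * y - a * x := ⟨_, rfl⟩
  rw [← hD] at D0
  rw [← hE] at E0
  simp only [← hE] at er
  simp only [gEL0, gEL1, gEL2, gEL4, regFld, orbAt, Orb.cBase, Orb.shapeU, shapeG, Orb.shapeT, shapeW, er,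
    Pi.add_apply, Pi.sub_apply, Pi.smul_apply, Pi.zero_apply, smul_eq_mul, Matrix.cons_val,
    sub_add_cancel, one_div_one_div, one_div_div, mul_one, one_mul, mul_zero, zero_mul, add_zero,
    zero_add, sub_zero, neg_zero, zero_div, div_one, ← hD, ← hE, X, Y]
  all_goals
    (try simp only [← hD, ← hE])
    (try generalize dxR _ _ _ x y _ w = X')
    (try generalize dyR _ _ _ x y _ w = Y')
    (try field_simp)
  all_goals
    subst hD hE
    (try ring)

theorem W₀_gG (h : Pt N p q a b R x y z s w) :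
    let X := dxR N p q x y z w
    let Y := dyR N p q x y z w
    pairFun (gG (⟨a, b, x, y⟩ : Frame)) N p q x y (0)
      (regFld N p q R x y s w 6) =
      0 := by
  have e := fun f f' => gG_lin h f f'
  obtain ⟨-, -, er⟩ := h.lam_eq
  intro X Y
  rw [e]
  obtain ⟨rfl, rfl, rfl, a0, b0, M0, x0, y0, s0, D0, E0, hz⟩ := h
  subst hz
  obtain ⟨D, hD⟩ : ∃ D, D = a * x + b * y := ⟨_, rfl⟩
  obtain ⟨E, hE⟩ : ∃ E, E = b * y - a * x := ⟨_, rfl⟩
  rw [← hD] at D0
  rw [← hE] at E0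
  simp only [← hE] at er
  simp only [gGL0, gGL1, gGL2, gGL4, regFld, orbAt, Orb.cBase, Orb.shapeU, shapeG, Orb.shapeT, shapeW, er,
    Pi.add_apply, Pi.sub_apply, Pi.smul_apply, Pi.zero_apply, smul_eq_mul, Matrix.cons_val,
    sub_add_cancel, one_div_one_div, one_div_div, mul_one, one_mul, mul_zero, zero_mul, add_zero,
    zero_add, sub_zero, neg_zero, zero_div, div_one, ← hD, ← hE, X, Y]
  all_goals
    (try simp only [← hD, ← hE])
    (try generalize dxR _ _ _ x y _ w = X')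
    (try generalize dyR _ _ _ x y _ w = Y')
    (try field_simp)
  all_goals
    subst hD hE
    (try ring)

theorem W₀_hM (h : Pt N p q a b R x y z s w) :
    let X := dxR N p q x y z w
    let Y := dyR N p q x y z w
    pairFun (hM (⟨a, b, x, y⟩ : Frame)) N p q x y (0)
      (regFld N p q R x y s w 6) =
      0 := by
  have e := fun f f' => hM_lin h f f'
  obtain ⟨-, -, er⟩ := h.lam_eq
  intro X Y
  rw [e]
  obtain ⟨rfl, rfl, rfl, a0, b0, M0, x0, y0, s0, D0, E0, hz⟩ := h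
  subst hz
  obtain ⟨D, hD⟩ : ∃ D, D = a * x + b * y := ⟨_, rfl⟩
  obtain ⟨E, hE⟩ : ∃ E, E = b * y - a * x := ⟨_, rfl⟩
  rw [← hD] at D0
  rw [← hE] at E0
  simp only [← hE] at er
  simp only [hML0, hML1, hML2, hML4, regFld, orbAt, Orb.cBase, Orb.shapeU, shapeG, Orb.shapeT, shapeW, er,
    Pi.add_apply, Pi.sub_apply, Pi.smul_apply, Pi.zero_apply, smul_eq_mul, Matrix.cons_val,
    sub_add_cancel, one_div_one_div, one_div_div, mul_one, one_mul, mul_zero, zero_mul, add_zero,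
    zero_add, sub_zero, neg_zero, zero_div, div_one, ← hD, ← hE, X, Y]
  all_goals
    (try simp only [← hD, ← hE])
    (try generalize dxR _ _ _ x y _ w = X')
    (try generalize dyR _ _ _ x y _ w = Y')
    (try field_simp)
  all_goals
    subst hD hE
    (try ring)

theorem W₀_hEf (h : Pt N p q a b R x y z s w) :
    let X := dxR N p q x y z w
    let Y := dyR N p q x y z w
    pairFun (hEf (⟨a, b, x, y⟩ : Frame)) N p q x y (0)
      (regFld N p q R x y s w 6) =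
      0 := by
  have e := fun f f' => hEf_lin h f f'
  obtain ⟨-, -, er⟩ := h.lam_eq
  intro X Y
  rw [e]
  obtain ⟨rfl, rfl, rfl, a0, b0, M0, x0, y0, s0, D0, E0, hz⟩ := h
  subst hz
  obtain ⟨D, hD⟩ : ∃ D, D = a * x + b * y := ⟨_, rfl⟩
  obtain ⟨E, hE⟩ : ∃ E, E = b * y - a * x := ⟨_, rfl⟩
  rw [← hD] at D0
  rw [← hE] at E0
  simp only [← hE] at er
  simp only [hEL0, hEL1, hEL2, hEL4, regFld, orbAt, Orb.cBase, Orb.shapeU, shapeG, Orb.shapeT, shapeW, er,
    Pi.add_apply, Pi.sub_apply, Pi.smul_apply, Pi.zero_apply, smul_eq_mul, Matrix.cons_val,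
    sub_add_cancel, one_div_one_div, one_div_div, mul_one, one_mul, mul_zero, zero_mul, add_zero,
    zero_add, sub_zero, neg_zero, zero_div, div_one, ← hD, ← hE, X, Y]
  all_goals
    (try simp only [← hD, ← hE])
    (try generalize dxR _ _ _ x y _ w = X')
    (try generalize dyR _ _ _ x y _ w = Y')
    (try field_simp)
  all_goals
    subst hD hE
    (try ring)

theorem W₀_hG (h : Pt N p q a b R x y z s w) :
    let X := dxR N p q x y z w
    let Y := dyR N p q x y z w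
    pairFun (hG (⟨a, b, x, y⟩ : Frame)) N p q x y (0)
      (regFld N p q R x y s w 6) =
      0 := by
  have e := fun f f' => hG_lin h f f'
  obtain ⟨-, -, er⟩ := h.lam_eq
  intro X Y
  rw [e]
  obtain ⟨rfl, rfl, rfl, a0, b0, M0, x0, y0, s0, D0, E0, hz⟩ := h
  subst hz
  obtain ⟨D, hD⟩ : ∃ D, D = a * x + b * y := ⟨_, rfl⟩
  obtain ⟨E, hE⟩ : ∃ E, E = b * y - a * x := ⟨_, rfl⟩
  rw [← hD] at D0
  rw [← hE] at E0
  simp only [← hE] at er
  simp only [hGL0, hGL1, hGL2, hGL4, regFld, orbAt, Orb.cBase, Orb.shapeU, shapeG, Orb.shapeT, shapeW, er,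
    Pi.add_apply, Pi.sub_apply, Pi.smul_apply, Pi.zero_apply, smul_eq_mul, Matrix.cons_val,
    sub_add_cancel, one_div_one_div, one_div_div, mul_one, one_mul, mul_zero, zero_mul, add_zero,
    zero_add, sub_zero, neg_zero, zero_div, div_one, ← hD, ← hE, X, Y]
  all_goals
    (try simp only [← hD, ← hE])
    (try generalize dxR _ _ _ x y _ w = X')
    (try generalize dyR _ _ _ x y _ w = Y')
    (try field_simp)
  all_goals
    subst hD hE
    (try ring)

theorem W₀_lMM (h : Pt N p q a b R x y z s w) :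
    let X := dxR N p q x y z w
    let Y := dyR N p q x y z w
    pairFun (lMM (⟨a, b, x, y⟩ : Frame) N p q) N p q x y (0)
      (regFld N p q R x y s w 6) =
      0 := by
  have e := fun f f' => lMM_lin h f f'
  obtain ⟨-, -, er⟩ := h.lam_eq
  intro X Y
  rw [e]
  obtain ⟨rfl, rfl, rfl, a0, b0, M0, x0, y0, s0, D0, E0, hz⟩ := h
  subst hz
  obtain ⟨D, hD⟩ : ∃ D, D = a * x + b * y := ⟨_, rfl⟩
  obtain ⟨E, hE⟩ : ∃ E, E = b * y - a * x := ⟨_, rfl⟩
  rw [← hD] at D0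
  rw [← hE] at E0
  simp only [← hE] at er
  simp only [MML0, MML1, MML2, MML4, MML5, MML6, regFld, orbAt, Orb.cBase, Orb.shapeU, shapeG, Orb.shapeT, shapeW, er,
    Pi.add_apply, Pi.sub_apply, Pi.smul_apply, Pi.zero_apply, smul_eq_mul, Matrix.cons_val,
    sub_add_cancel, one_div_one_div, one_div_div, mul_one, one_mul, mul_zero, zero_mul, add_zero,
    zero_add, sub_zero, neg_zero, zero_div, div_one, ← hD, ← hE, X, Y]
  all_goals
    (try simp only [← hD, ← hE])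
    (try generalize dxR _ _ _ x y _ w = X')
    (try generalize dyR _ _ _ x y _ w = Y')
    (try field_simp)
  all_goals
    subst hD hE
    (try ring)

theorem W₀_lME (h : Pt N p q a b R x y z s w) :
    let X := dxR N p q x y z w
    let Y := dyR N p q x y z w
    pairFun (lME (⟨a, b, x, y⟩ : Frame) N p q) N p q x y (0)
      (regFld N p q R x y s w 6) =
      ((y * (b) + x * (-a))) / (a * b * (a * x + b * y) ^ (2 : ℕ)) := by
  have e := fun f f' => lME_lin h f f'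
  obtain ⟨-, -, er⟩ := h.lam_eq
  intro X Y
  rw [e]
  obtain ⟨rfl, rfl, rfl, a0, b0, M0, x0, y0, s0, D0, E0, hz⟩ := h
  subst hz
  obtain ⟨D, hD⟩ : ∃ D, D = a * x + b * y := ⟨_, rfl⟩
  obtain ⟨E, hE⟩ : ∃ E, E = b * y - a * x := ⟨_, rfl⟩
  rw [← hD] at D0
  rw [← hE] at E0
  simp only [← hE] at er
  simp only [MEL0, MEL1, MEL2, MEL4, MEL5, MEL6, regFld, orbAt, Orb.cBase, Orb.shapeU, shapeG, Orb.shapeT, shapeW, er,
    Pi.add_apply, Pi.sub_apply, Pi.smul_apply, Pi.zero_apply, smul_eq_mul, Matrix.cons_val,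
    sub_add_cancel, one_div_one_div, one_div_div, mul_one, one_mul, mul_zero, zero_mul, add_zero,
    zero_add, sub_zero, neg_zero, zero_div, div_one, ← hD, ← hE, X, Y]
  all_goals
    (try simp only [← hD, ← hE])
    (try generalize dxR _ _ _ x y _ w = X')
    (try generalize dyR _ _ _ x y _ w = Y')
    (try field_simp)
  all_goals
    subst hD hE
    (try ring)

theorem W₀_lMG (h : Pt N p q a b R x y z s w) :
    let X := dxR N p q x y z w
    let Y := dyR N p q x y z w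
    pairFun (lMG (⟨a, b, x, y⟩ : Frame) N p q) N p q x y (0)
      (regFld N p q R x y s w 6) =
      (((-2))) / ((a * x + b * y) ^ (2 : ℕ)) := by
  have e := fun f f' => lMG_lin h f f'
  obtain ⟨-, -, er⟩ := h.lam_eq
  intro X Y
  rw [e]
  obtain ⟨rfl, rfl, rfl, a0, b0, M0, x0, y0, s0, D0, E0, hz⟩ := h
  subst hz
  obtain ⟨D, hD⟩ : ∃ D, D = a * x + b * y := ⟨_, rfl⟩
  obtain ⟨E, hE⟩ : ∃ E, E = b * y - a * x := ⟨_, rfl⟩
  rw [← hD] at D0
  rw [← hE] at E0
  simp only [← hE] at er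
  simp only [MGL0, MGL1, MGL2, MGL4, MGL5, MGL6, regFld, orbAt, Orb.cBase, Orb.shapeU, shapeG, Orb.shapeT, shapeW, er,
    Pi.add_apply, Pi.sub_apply, Pi.smul_apply, Pi.zero_apply, smul_eq_mul, Matrix.cons_val,
    sub_add_cancel, one_div_one_div, one_div_div, mul_one, one_mul, mul_zero, zero_mul, add_zero,
    zero_add, sub_zero, neg_zero, zero_div, div_one, ← hD, ← hE, X, Y]
  all_goals
    (try simp only [← hD, ← hE])
    (try generalize dxR _ _ _ x y _ w = X')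
    (try generalize dyR _ _ _ x y _ w = Y')
    (try field_simp)
  all_goals
    subst hD hE
    (try ring)

theorem W₀_lEE (h : Pt N p q a b R x y z s w) :
    let X := dxR N p q x y z w
    let Y := dyR N p q x y z w
    pairFun (lEE (⟨a, b, x, y⟩ : Frame) N p q) N p q x y (0)
      (regFld N p q R x y s w 6) =
      ((y ^ (2 : ℕ) * (b ^ (2 : ℕ)) + x * y * (-2 * a * b) + x ^ (2 : ℕ) * (a ^ (2 : ℕ)))) / (x * y * a * b * (a * x + b
        * y) ^ (2 : ℕ)) := by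
  have e := fun f f' => lEE_lin h f f'
  obtain ⟨-, -, er⟩ := h.lam_eq
  intro X Y
  rw [e]
  obtain ⟨rfl, rfl, rfl, a0, b0, M0, x0, y0, s0, D0, E0, hz⟩ := h
  subst hz
  obtain ⟨D, hD⟩ : ∃ D, D = a * x + b * y := ⟨_, rfl⟩
  obtain ⟨E, hE⟩ : ∃ E, E = b * y - a * x := ⟨_, rfl⟩
  rw [← hD] at D0
  rw [← hE] at E0
  simp only [← hE] at er
  simp only [EEL0, EEL1, EEL2, EEL4, EEL5, EEL6, regFld, orbAt, Orb.cBase, Orb.shapeU, shapeG, Orb.shapeT, shapeW, er,
    Pi.add_apply, Pi.sub_apply, Pi.smul_apply, Pi.zero_apply, smul_eq_mul, Matrix.cons_val,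
    sub_add_cancel, one_div_one_div, one_div_div, mul_one, one_mul, mul_zero, zero_mul, add_zero,
    zero_add, sub_zero, neg_zero, zero_div, div_one, ← hD, ← hE, X, Y]
  all_goals
    (try simp only [← hD, ← hE])
    (try generalize dxR _ _ _ x y _ w = X')
    (try generalize dyR _ _ _ x y _ w = Y')
    (try field_simp)
  all_goals
    subst hD hE
    (try ring)

theorem W₀_lEG (h : Pt N p q a b R x y z s w) :
    let X := dxR N p q x y z w
    let Y := dyR N p q x y z w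
    pairFun (lEG (⟨a, b, x, y⟩ : Frame) N p q) N p q x y (0)
      (regFld N p q R x y s w 6) =
      ((y * (-3 * b) + x * (3 * a))) / (x * y * (a * x + b * y) ^ (2 : ℕ)) := by
  have e := fun f f' => lEG_lin h f f'
  obtain ⟨-, -, er⟩ := h.lam_eq
  intro X Y
  rw [e]
  obtain ⟨rfl, rfl, rfl, a0, b0, M0, x0, y0, s0, D0, E0, hz⟩ := h
  subst hz
  obtain ⟨D, hD⟩ : ∃ D, D = a * x + b * y := ⟨_, rfl⟩
  obtain ⟨E, hE⟩ : ∃ E, E = b * y - a * x := ⟨_, rfl⟩
  rw [← hD] at D0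
  rw [← hE] at E0
  simp only [← hE] at er
  simp only [EGL0, EGL1, EGL2, EGL4, EGL5, EGL6, regFld, orbAt, Orb.cBase, Orb.shapeU, shapeG, Orb.shapeT, shapeW, er,
    Pi.add_apply, Pi.sub_apply, Pi.smul_apply, Pi.zero_apply, smul_eq_mul, Matrix.cons_val,
    sub_add_cancel, one_div_one_div, one_div_div, mul_one, one_mul, mul_zero, zero_mul, add_zero,
    zero_add, sub_zero, neg_zero, zero_div, div_one, ← hD, ← hE, X, Y]
  all_goals
    (try simp only [← hD, ← hE])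
    (try generalize dxR _ _ _ x y _ w = X')
    (try generalize dyR _ _ _ x y _ w = Y')
    (try field_simp)
  all_goals
    subst hD hE
    (try ring)

theorem W₀_lGG (h : Pt N p q a b R x y z s w) :
    let X := dxR N p q x y z w
    let Y := dyR N p q x y z w
    pairFun (lGG (⟨a, b, x, y⟩ : Frame) N p q) N p q x y (0)
      (regFld N p q R x y s w 6) =
      (((2 * a * b))) / (x * y * (a * x + b * y) ^ (2 : ℕ)) := by
  have e := fun f f' => lGG_lin h f f'
  obtain ⟨-, -, er⟩ := h.lam_eq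
  intro X Y
  rw [e]
  obtain ⟨rfl, rfl, rfl, a0, b0, M0, x0, y0, s0, D0, E0, hz⟩ := h
  subst hz
  obtain ⟨D, hD⟩ : ∃ D, D = a * x + b * y := ⟨_, rfl⟩
  obtain ⟨E, hE⟩ : ∃ E, E = b * y - a * x := ⟨_, rfl⟩
  rw [← hD] at D0
  rw [← hE] at E0
  simp only [← hE] at er
  simp only [GGL0, GGL1, GGL2, GGL4, GGL5, GGL6, regFld, orbAt, Orb.cBase, Orb.shapeU, shapeG, Orb.shapeT, shapeW, er,
    Pi.add_apply, Pi.sub_apply, Pi.smul_apply, Pi.zero_apply, smul_eq_mul, Matrix.cons_val,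
    sub_add_cancel, one_div_one_div, one_div_div, mul_one, one_mul, mul_zero, zero_mul, add_zero,
    zero_add, sub_zero, neg_zero, zero_div, div_one, ← hD, ← hE, X, Y]
  all_goals
    (try simp only [← hD, ← hE])
    (try generalize dxR _ _ _ x y _ w = X')
    (try generalize dyR _ _ _ x y _ w = Y')
    (try field_simp)
  all_goals
    subst hD hE
    (try ring)

theorem W₀_lLG (h : Pt N p q a b R x y z s w) :
    let X := dxR N p q x y z w
    let Y := dyR N p q x y z w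
    pairFun (lLG (⟨a, b, x, y⟩ : Frame) N p q z) N p q x y (0)
      (regFld N p q R x y s w 6) =
      (R * ((8))) / (s) := by
  have e := fun f f' => lLG_lin h f f'
  obtain ⟨-, -, er⟩ := h.lam_eq
  intro X Y
  rw [e]
  obtain ⟨rfl, rfl, rfl, a0, b0, M0, x0, y0, s0, D0, E0, hz⟩ := h
  subst hz
  obtain ⟨D, hD⟩ : ∃ D, D = a * x + b * y := ⟨_, rfl⟩
  obtain ⟨E, hE⟩ : ∃ E, E = b * y - a * x := ⟨_, rfl⟩
  rw [← hD] at D0
  rw [← hE] at E0
  simp only [← hE] at er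
  simp only [LGL0, LGL1, LGL2, LGL3, LGL4, LGL7, regFld, orbAt, Orb.cBase, Orb.shapeU, shapeG, Orb.shapeT, shapeW, er,
    Pi.add_apply, Pi.sub_apply, Pi.smul_apply, Pi.zero_apply, smul_eq_mul, Matrix.cons_val,
    sub_add_cancel, one_div_one_div, one_div_div, mul_one, one_mul, mul_zero, zero_mul, add_zero,
    zero_add, sub_zero, neg_zero, zero_div, div_one, ← hD, ← hE, X, Y]
  all_goals
    (try simp only [← hD, ← hE])
    (try generalize dxR _ _ _ x y _ w = X')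
    (try generalize dyR _ _ _ x y _ w = Y')
    (try field_simp)
  all_goals
    subst hD hE
    (try ring)

end Vale.Agent.P100.Calib.Bridge
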