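import Mathlib
import Vale.Agent.P100.Calib.SlabBridgeForms

/-!
# The functionals on the fields of the slab family
-/

set_option linter.unusedVariables false
set_option linter.unusedSimpArgs false
set_option linter.unusedTactic false
set_option linter.unreachableTactic false

namespace Vale.Agent.P100.Calib.Bridge

open Orb

variable {N p q a b R x y z s w w₁ : ℝ}

theorem U_gM (h : Pt N p q a b R x y z s w) :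
    let X := dxR N p q x y z w
    let Y := dyR N p q x y z w
    pairFun (gM (⟨a, b, x, y⟩ : Frame)) N p q x y (regFld N p q R x y s w 0)
      (regVel N p q R x y z s w w₁ 0) =
      0 := by
  have e := fun f f' => gM_lin h f f'
  obtain ⟨-, -, er⟩ := h.lam_eq
  intro X Y
  rw [e]
  obtain ⟨rfl, rfl, rfl, a0, b0, M0, x0, y0, s0, D0, E0, hz⟩ := h
  subst hz
  obtain ⟨D, hD⟩ : ∃ D, D = a * x + b * y := ⟨_, rfl⟩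
  obtain ⟨E, hE⟩ : ∃ E, E = b * y - a * x := ⟨_, rfl⟩
  rw [← hD] at D0
  rw [← hE] at E0
  simp only [← hE] at er
  simp only [gML0, gML1, gML2, gML4, regVel, regFld, orbAt, Orb.cBase, Orb.shapeU, shapeG, Orb.shapeT, shapeW, er,
    Pi.add_apply, Pi.sub_apply, Pi.smul_apply, Pi.zero_apply, smul_eq_mul, Matrix.cons_val,
    sub_add_cancel, one_div_one_div, one_div_div, mul_one, one_mul, mul_zero, zero_mul, add_zero,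
    zero_add, sub_zero, neg_zero, zero_div, div_one, ← hD, ← hE, X, Y]
  all_goals
    (try simp only [← hD, ← hE])
    (try generalize dxR _ _ _ x y _ w = X')
    (try generalize dyR _ _ _ x y _ w = Y')
    (try field_simp)
  all_goals
    subst hD hE
    (try ring)

theorem U_gE (h : Pt N p q a b R x y z s w) :
    let X := dxR N p q x y z w
    let Y := dyR N p q x y z w
    pairFun (gE (⟨a, b, x, y⟩ : Frame)) N p q x y (regFld N p q R x y s w 0)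
      (regVel N p q R x y z s w w₁ 0) =
      ((x * y ^ (2 : ℕ) * (4) + x ^ (2 : ℕ) * y * (-4)) + Y * (x * (-4)) + X * (y * (4)) + s * w * ((-a -
        b))) / (4 * x * y * (a * x + b * y) ^ (2 : ℕ)) := by
  have e := fun f f' => gE_lin h f f'
  obtain ⟨-, -, er⟩ := h.lam_eq
  intro X Y
  rw [e]
  obtain ⟨rfl, rfl, rfl, a0, b0, M0, x0, y0, s0, D0, E0, hz⟩ := h
  subst hz
  obtain ⟨D, hD⟩ : ∃ D, D = a * x + b * y := ⟨_, rfl⟩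
  obtain ⟨E, hE⟩ : ∃ E, E = b * y - a * x := ⟨_, rfl⟩
  rw [← hD] at D0
  rw [← hE] at E0
  simp only [← hE] at er
  simp only [gEL0, gEL1, gEL2, gEL4, regVel, regFld, orbAt, Orb.cBase, Orb.shapeU, shapeG, Orb.shapeT, shapeW, er,
    Pi.add_apply, Pi.sub_apply, Pi.smul_apply, Pi.zero_apply, smul_eq_mul, Matrix.cons_val,
    sub_add_cancel, one_div_one_div, one_div_div, mul_one, one_mul, mul_zero, zero_mul, add_zero,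
    zero_add, sub_zero, neg_zero, zero_div, div_one, ← hD, ← hE, X, Y]
  all_goals
    (try simp only [← hD, ← hE])
    (try generalize dxR _ _ _ x y _ w = X')
    (try generalize dyR _ _ _ x y _ w = Y')
    (try field_simp)
  all_goals
    subst hD hE
    (try ring)

theorem U_gG (h : Pt N p q a b R x y z s w) :
    let X := dxR N p q x y z w
    let Y := dyR N p q x y z w
    pairFun (gG (⟨a, b, x, y⟩ : Frame)) N p q x y (regFld N p q R x y s w 0)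
      (regVel N p q R x y z s w w₁ 0) =
      ((x * y ^ (4 : ℕ) * (-4 * a * b ^ (2 : ℕ) - 4 * b ^ (3 : ℕ)) + x ^ (2 : ℕ) * y ^ (3 : ℕ) * (-4 * a * b ^ (2 : ℕ) - 8 * a * b -
        4 * b ^ (3 : ℕ) - 8 * b ^ (2 : ℕ)) + x ^ (3 : ℕ) * y ^ (2 : ℕ) * (4 * a ^ (3 : ℕ) + 4 * a ^ (2 : ℕ) * b + 8 * a ^ (2 : ℕ) + 8 * a *
        b) + x ^ (4 : ℕ) * y * (4 * a ^ (3 : ℕ) + 4 * a ^ (2 : ℕ) * b)) + Y * (x ^ (2 : ℕ) * y * (16 * a * b)) + X * (x *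
        y ^ (2 : ℕ) * (-16 * a * b)) + s * w * (y ^ (2 : ℕ) * (-a * b ^ (2 : ℕ) - b ^ (3 : ℕ)) + x * y * (2 * a ^ (2 : ℕ) * b +
        2 * a * b ^ (2 : ℕ)) + x ^ (2 : ℕ) * (-a ^ (3 : ℕ) - a ^ (2 : ℕ) * b))) / (8 * x ^ (2 : ℕ) * y ^ (2 : ℕ) * (a * x + b * y) ^ (2 : ℕ)
        * (b * y - a * x)) := by
  have e := fun f f' => gG_lin h f f'
  obtain ⟨-, -, er⟩ := h.lam_eq
  intro X Y
  rw [e]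
  obtain ⟨rfl, rfl, rfl, a0, b0, M0, x0, y0, s0, D0, E0, hz⟩ := h
  subst hz
  obtain ⟨D, hD⟩ : ∃ D, D = a * x + b * y := ⟨_, rfl⟩
  obtain ⟨E, hE⟩ : ∃ E, E = b * y - a * x := ⟨_, rfl⟩
  rw [← hD] at D0
  rw [← hE] at E0
  simp only [← hE] at er
  simp only [gGL0, gGL1, gGL2, gGL4, regVel, regFld, orbAt, Orb.cBase, Orb.shapeU, shapeG, Orb.shapeT, shapeW, er,
    Pi.add_apply, Pi.sub_apply, Pi.smul_apply, Pi.zero_apply, smul_eq_mul, Matrix.cons_val,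
    sub_add_cancel, one_div_one_div, one_div_div, mul_one, one_mul, mul_zero, zero_mul, add_zero,
    zero_add, sub_zero, neg_zero, zero_div, div_one, ← hD, ← hE, X, Y]
  all_goals
    (try simp only [← hD, ← hE])
    (try generalize dxR _ _ _ x y _ w = X')
    (try generalize dyR _ _ _ x y _ w = Y')
    (try field_simp)
  all_goals
    subst hD hE
    (try ring)

theorem U_hM (h : Pt N p q a b R x y z s w) :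
    let X := dxR N p q x y z w
    let Y := dyR N p q x y z w
    pairFun (hM (⟨a, b, x, y⟩ : Frame)) N p q x y (regFld N p q R x y s w 0)
      (regVel N p q R x y z s w w₁ 0) =
      ((x * y ^ (2 : ℕ) * (-4) + x ^ (2 : ℕ) * y * (4)) + Y * (x * (-4)) + X * (y * (4)) + s * w * ((-1))) /
        (4 * x * y * (a * x + b * y) ^ (2 : ℕ)) := by
  have e := fun f f' => hM_lin h f f'
  obtain ⟨-, -, er⟩ := h.lam_eq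
  intro X Y
  rw [e]
  obtain ⟨rfl, rfl, rfl, a0, b0, M0, x0, y0, s0, D0, E0, hz⟩ := h
  subst hz
  obtain ⟨D, hD⟩ : ∃ D, D = a * x + b * y := ⟨_, rfl⟩
  obtain ⟨E, hE⟩ : ∃ E, E = b * y - a * x := ⟨_, rfl⟩
  rw [← hD] at D0
  rw [← hE] at E0
  simp only [← hE] at er
  simp only [hML0, hML1, hML2, hML4, regVel, regFld, orbAt, Orb.cBase, Orb.shapeU, shapeG, Orb.shapeT, shapeW, er,
    Pi.add_apply, Pi.sub_apply, Pi.smul_apply, Pi.zero_apply, smul_eq_mul, Matrix.cons_val,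
    sub_add_cancel, one_div_one_div, one_div_div, mul_one, one_mul, mul_zero, zero_mul, add_zero,
    zero_add, sub_zero, neg_zero, zero_div, div_one, ← hD, ← hE, X, Y]
  all_goals
    (try simp only [← hD, ← hE])
    (try generalize dxR _ _ _ x y _ w = X')
    (try generalize dyR _ _ _ x y _ w = Y')
    (try field_simp)
  all_goals
    subst hD hE
    (try ring)

/-- Part of the value of `hEf` on the field U. -/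
def UhE_0_0 (a b x y : ℝ) : ℝ :=
  (x * y ^ (4 : ℕ) * (-4 * a * b ^ (2 : ℕ) - 4 * b ^ (3 : ℕ) + 8 * b ^ (2 : ℕ)) + x ^ (2 : ℕ) * y ^ (3 : ℕ) * (-4 * a * b ^ (2 : ℕ) - 4 *
    b ^ (3 : ℕ) + 8 * b ^ (2 : ℕ) - 8 * b) + x ^ (3 : ℕ) * y ^ (2 : ℕ) * (4 * a ^ (3 : ℕ) + 4 * a ^ (2 : ℕ) * b - 8 * a ^ (2 : ℕ) + 8 * a) +
    x ^ (4 : ℕ) * y * (4 * a ^ (3 : ℕ) + 4 * a ^ (2 : ℕ) * b - 8 * a ^ (2 : ℕ)))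

/-- Part of the value of `hEf` on the field U. -/
def UhE_1_0 (a b x y Y : ℝ) : ℝ :=
  Y * (x * y ^ (2 : ℕ) * (-8 * b ^ (2 : ℕ)) + x ^ (2 : ℕ) * y * (32 * a * b) + x ^ (3 : ℕ) * (-8 * a ^ (2 : ℕ)))

/-- Part of the value of `hEf` on the field U. -/
def UhE_2_0 (a b x y X : ℝ) : ℝ :=
  X * (y ^ (3 : ℕ) * (8 * b ^ (2 : ℕ)) + x * y ^ (2 : ℕ) * (-32 * a * b) + x ^ (2 : ℕ) * y * (8 * a ^ (2 : ℕ)))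

/-- Part of the value of `hEf` on the field U. -/
def UhE_3_0 (a b x y s w : ℝ) : ℝ :=
  s * w * (y ^ (2 : ℕ) * (-a * b ^ (2 : ℕ) - b ^ (3 : ℕ) - 2 * b ^ (2 : ℕ)) + x * y * (2 * a ^ (2 : ℕ) * b + 2 * a * b ^ (2 : ℕ) + 4
    * a * b) + x ^ (2 : ℕ) * (-a ^ (3 : ℕ) - a ^ (2 : ℕ) * b - 2 * a ^ (2 : ℕ)))

theorem U_hEf (h : Pt N p q a b R x y z s w) :
    let X := dxR N p q x y z w
    let Y := dyR N p q x y z w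
    pairFun (hEf (⟨a, b, x, y⟩ : Frame)) N p q x y (regFld N p q R x y s w 0)
      (regVel N p q R x y z s w w₁ 0) =
      (UhE_0_0 a b x y + UhE_1_0 a b x y Y + UhE_2_0 a b x y X + UhE_3_0 a b x y s w) / (8 * x ^
        2 * y ^ (2 : ℕ) * (a * x + b * y) ^ (2 : ℕ) * (b * y - a * x)) := by
  have e := fun f f' => hEf_lin h f f'
  obtain ⟨-, -, er⟩ := h.lam_eq
  intro X Y
  rw [e]
  obtain ⟨rfl, rfl, rfl, a0, b0, M0, x0, y0, s0, D0, E0, hz⟩ := h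
  subst hz
  obtain ⟨D, hD⟩ : ∃ D, D = a * x + b * y := ⟨_, rfl⟩
  obtain ⟨E, hE⟩ : ∃ E, E = b * y - a * x := ⟨_, rfl⟩
  rw [← hD] at D0
  rw [← hE] at E0
  simp only [← hE] at er
  simp only [hEL0, hEL1, hEL2, hEL4, UhE_0_0, UhE_1_0, UhE_2_0, UhE_3_0, regVel, regFld, orbAt, Orb.cBase, Orb.shapeU, shapeG, Orb.shapeT, shapeW, er,
    Pi.add_apply, Pi.sub_apply, Pi.smul_apply, Pi.zero_apply, smul_eq_mul, Matrix.cons_val,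
    sub_add_cancel, one_div_one_div, one_div_div, mul_one, one_mul, mul_zero, zero_mul, add_zero,
    zero_add, sub_zero, neg_zero, zero_div, div_one, ← hD, ← hE, X, Y]
  all_goals
    (try simp only [← hD, ← hE])
    (try generalize dxR _ _ _ x y _ w = X')
    (try generalize dyR _ _ _ x y _ w = Y')
    (try field_simp)
  all_goals
    subst hD hE
    (try ring)

theorem U_hG (h : Pt N p q a b R x y z s w) :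
    let X := dxR N p q x y z w
    let Y := dyR N p q x y z w
    pairFun (hG (⟨a, b, x, y⟩ : Frame)) N p q x y (regFld N p q R x y s w 0)
      (regVel N p q R x y z s w w₁ 0) =
      ((x * y ^ (2 : ℕ) * (4 * a ^ (2 : ℕ) * b - 6 * a * b - 4 * b ^ (3 : ℕ) + 2 * b ^ (2 : ℕ) - 2 * b) + x ^ (2 : ℕ) * y * (4
        * a ^ (3 : ℕ) - 2 * a ^ (2 : ℕ) - 4 * a * b ^ (2 : ℕ) + 6 * a * b + 2 * a)) + Y * (x * (8 * a * b)) + X * (y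
        * (-8 * a * b)) + s * w * ((a ^ (2 : ℕ) * b + a * b ^ (2 : ℕ) + a * b))) / (4 * x ^ (2 : ℕ) * y ^ (2 : ℕ) * (a * x
        + b * y) ^ (2 : ℕ)) := by
  have e := fun f f' => hG_lin h f f'
  obtain ⟨-, -, er⟩ := h.lam_eq
  intro X Y
  rw [e]
  obtain ⟨rfl, rfl, rfl, a0, b0, M0, x0, y0, s0, D0, E0, hz⟩ := h
  subst hz
  obtain ⟨D, hD⟩ : ∃ D, D = a * x + b * y := ⟨_, rfl⟩
  obtain ⟨E, hE⟩ : ∃ E, E = b * y - a * x := ⟨_, rfl⟩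
  rw [← hD] at D0
  rw [← hE] at E0
  simp only [← hE] at er
  simp only [hGL0, hGL1, hGL2, hGL4, regVel, regFld, orbAt, Orb.cBase, Orb.shapeU, shapeG, Orb.shapeT, shapeW, er,
    Pi.add_apply, Pi.sub_apply, Pi.smul_apply, Pi.zero_apply, smul_eq_mul, Matrix.cons_val,
    sub_add_cancel, one_div_one_div, one_div_div, mul_one, one_mul, mul_zero, zero_mul, add_zero,
    zero_add, sub_zero, neg_zero, zero_div, div_one, ← hD, ← hE, X, Y]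
  all_goals
    (try simp only [← hD, ← hE])
    (try generalize dxR _ _ _ x y _ w = X')
    (try generalize dyR _ _ _ x y _ w = Y')
    (try field_simp)
  all_goals
    subst hD hE
    (try ring)

theorem U_lMM (h : Pt N p q a b R x y z s w) :
    let X := dxR N p q x y z w
    let Y := dyR N p q x y z w
    pairFun (lMM (⟨a, b, x, y⟩ : Frame) N p q) N p q x y (regFld N p q R x y s w 0)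
      (regVel N p q R x y z s w w₁ 0) =
      (Y * (x ^ (2 : ℕ) * y ^ (2 : ℕ) * (4 * a + 4 * b + 4) + x ^ (3 : ℕ) * y * (-4 * a - 4 * b - 4)) + X * (x * y
        ^ (3 : ℕ) * (-4 * a - 4 * b - 4) + x ^ (2 : ℕ) * y ^ (2 : ℕ) * (4 * a + 4 * b + 4)) + s * w * Y * (x * (a +
        b + 1)) + s * w * X * (y * (-a - b - 1))) / (8 * x * y * (a * x + b * y) ^ (4 : ℕ)) := by
  have e := fun f f' => lMM_lin h f f'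
  obtain ⟨-, -, er⟩ := h.lam_eq
  intro X Y
  rw [e]
  obtain ⟨rfl, rfl, rfl, a0, b0, M0, x0, y0, s0, D0, E0, hz⟩ := h
  subst hz
  obtain ⟨D, hD⟩ : ∃ D, D = a * x + b * y := ⟨_, rfl⟩
  obtain ⟨E, hE⟩ : ∃ E, E = b * y - a * x := ⟨_, rfl⟩
  rw [← hD] at D0
  rw [← hE] at E0
  simp only [← hE] at er
  simp only [MML0, MML1, MML2, MML4, MML5, MML6, regVel, regFld, orbAt, Orb.cBase, Orb.shapeU, shapeG, Orb.shapeT, shapeW, er,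
    Pi.add_apply, Pi.sub_apply, Pi.smul_apply, Pi.zero_apply, smul_eq_mul, Matrix.cons_val,
    sub_add_cancel, one_div_one_div, one_div_div, mul_one, one_mul, mul_zero, zero_mul, add_zero,
    zero_add, sub_zero, neg_zero, zero_div, div_one, ← hD, ← hE, X, Y]
  all_goals
    (try simp only [← hD, ← hE])
    (try generalize dxR _ _ _ x y _ w = X')
    (try generalize dyR _ _ _ x y _ w = Y')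
    (try field_simp)
  all_goals
    subst hD hE
    (try ring)

/-- Part of the value of `lME` on the field U. -/
def UME_0_0 (a b x y : ℝ) : ℝ :=
  (x ^ (2 : ℕ) * y ^ (6 : ℕ) * (4 * a ^ (2 : ℕ) * b ^ (3 : ℕ) + 8 * a * b ^ (4 : ℕ) - 12 * a * b ^ (3 : ℕ) + 4 * b ^ (5 : ℕ) - 12 * b ^ (4 : ℕ)
    - 16 * b ^ (3 : ℕ)) + x ^ (3 : ℕ) * y ^ (5 : ℕ) * (8 * a ^ (2 : ℕ) * b ^ (2 : ℕ) + 16 * a * b ^ (3 : ℕ) + 16 * a * b ^ (2 : ℕ) + 8 * b ^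
    4 + 16 * b ^ (3 : ℕ) + 8 * b ^ (2 : ℕ)) + x ^ (4 : ℕ) * y ^ (4 : ℕ) * (-4 * a ^ (4 : ℕ) * b - 8 * a ^ (3 : ℕ) * b ^ (2 : ℕ) + 4 * a ^ (3 : ℕ)
    * b - 8 * a ^ (2 : ℕ) * b ^ (3 : ℕ) - 12 * a ^ (2 : ℕ) * b ^ (2 : ℕ) - 8 * a * b ^ (4 : ℕ) - 12 * a * b ^ (3 : ℕ) - 32 * a * b ^ (2 : ℕ)
    - 8 * a * b - 4 * b ^ (5 : ℕ) + 4 * b ^ (4 : ℕ) - 8 * b ^ (2 : ℕ)) + x ^ (5 : ℕ) * y ^ (3 : ℕ) * (8 * a ^ (3 : ℕ) * b + 16 * a ^ (2 : ℕ)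
    * b ^ (2 : ℕ) + 16 * a ^ (2 : ℕ) * b + 8 * a * b ^ (3 : ℕ) + 16 * a * b ^ (2 : ℕ) + 8 * a * b))

/-- Part of the value of `lME` on the field U. -/
def UME_0_1 (a b x y : ℝ) : ℝ :=
  (x ^ (6 : ℕ) * y ^ (2 : ℕ) * (4 * a ^ (4 : ℕ) * b + 8 * a ^ (3 : ℕ) * b ^ (2 : ℕ) - 12 * a ^ (3 : ℕ) * b + 4 * a ^ (2 : ℕ) * b ^ (3 : ℕ) - 12
    * a ^ (2 : ℕ) * b ^ (2 : ℕ) - 16 * a ^ (2 : ℕ) * b))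

/-- Part of the value of `lME` on the field U. -/
def UME_1_0 (a b x y Y : ℝ) : ℝ :=
  Y * (x ^ (2 : ℕ) * y ^ (4 : ℕ) * (16 * a * b ^ (3 : ℕ) + 16 * b ^ (4 : ℕ) + 16 * b ^ (3 : ℕ)) + x ^ (3 : ℕ) * y ^ (3 : ℕ) * (-40 * a ^ (2 : ℕ)
    * b ^ (2 : ℕ) - 48 * a * b ^ (3 : ℕ) - 40 * a * b ^ (2 : ℕ) - 8 * b ^ (4 : ℕ) - 8 * b ^ (3 : ℕ)) + x ^ (4 : ℕ) * y ^ (2 : ℕ) * (8 * a ^
    3 * b + 48 * a ^ (2 : ℕ) * b ^ (2 : ℕ) + 8 * a ^ (2 : ℕ) * b + 40 * a * b ^ (3 : ℕ) + 40 * a * b ^ (2 : ℕ)) + x ^ (5 : ℕ) * y *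
    (-16 * a ^ (3 : ℕ) * b - 16 * a ^ (2 : ℕ) * b ^ (2 : ℕ) - 16 * a ^ (2 : ℕ) * b))

/-- Part of the value of `lME` on the field U. -/
def UME_2_0 (a b x y X : ℝ) : ℝ :=
  X * (x * y ^ (5 : ℕ) * (-16 * a * b ^ (3 : ℕ) - 16 * b ^ (4 : ℕ) - 16 * b ^ (3 : ℕ)) + x ^ (2 : ℕ) * y ^ (4 : ℕ) * (40 * a ^ (2 : ℕ) * b
    ^ (2 : ℕ) + 48 * a * b ^ (3 : ℕ) + 40 * a * b ^ (2 : ℕ) + 8 * b ^ (4 : ℕ) + 8 * b ^ (3 : ℕ)) + x ^ (3 : ℕ) * y ^ (3 : ℕ) * (-8 * a ^ (3 : ℕ) *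
    b - 48 * a ^ (2 : ℕ) * b ^ (2 : ℕ) - 8 * a ^ (2 : ℕ) * b - 40 * a * b ^ (3 : ℕ) - 40 * a * b ^ (2 : ℕ)) + x ^ (4 : ℕ) * y ^ (2 : ℕ) *
    (16 * a ^ (3 : ℕ) * b + 16 * a ^ (2 : ℕ) * b ^ (2 : ℕ) + 16 * a ^ (2 : ℕ) * b))

/-- Part of the value of `lME` on the field U. -/
def UME_3_0 (a b x y s w₁ : ℝ) : ℝ :=
  s * w₁ * (x * y ^ (3 : ℕ) * (2 * a * b ^ (3 : ℕ) + 2 * b ^ (4 : ℕ) + 2 * b ^ (3 : ℕ)) + x ^ (3 : ℕ) * y * (-2 * a ^ (3 : ℕ) * b -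
    2 * a ^ (2 : ℕ) * b ^ (2 : ℕ) - 2 * a ^ (2 : ℕ) * b))

/-- Part of the value of `lME` on the field U. -/
def UME_4_0 (a b x y s w : ℝ) : ℝ :=
  s * w * (x * y ^ (4 : ℕ) * (-a ^ (2 : ℕ) * b ^ (3 : ℕ) - 2 * a * b ^ (4 : ℕ) - a * b ^ (3 : ℕ) - b ^ (5 : ℕ) - b ^ (4 : ℕ)) + x ^ (2 : ℕ) * y
    ^ (3 : ℕ) * (-a ^ (2 : ℕ) * b ^ (3 : ℕ) + 2 * a ^ (2 : ℕ) * b ^ (2 : ℕ) - 2 * a * b ^ (4 : ℕ) + 3 * a * b ^ (3 : ℕ) + 2 * a * b ^ (2 : ℕ) - b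
    ^ (5 : ℕ) + b ^ (4 : ℕ) + 2 * b ^ (3 : ℕ)) + x ^ (3 : ℕ) * y ^ (2 : ℕ) * (a ^ (4 : ℕ) * b + 2 * a ^ (3 : ℕ) * b ^ (2 : ℕ) - a ^ (3 : ℕ) * b + a ^ (2 : ℕ)
    * b ^ (3 : ℕ) - 3 * a ^ (2 : ℕ) * b ^ (2 : ℕ) - 4 * a ^ (2 : ℕ) * b - 2 * a * b ^ (3 : ℕ) - 4 * a * b ^ (2 : ℕ) - 2 * a * b) + x ^
    4 * y * (a ^ (4 : ℕ) * b + 2 * a ^ (3 : ℕ) * b ^ (2 : ℕ) + a ^ (3 : ℕ) * b + 2 * a ^ (3 : ℕ) + a ^ (2 : ℕ) * b ^ (3 : ℕ) + a ^ (2 : ℕ) * b ^ (2 : ℕ)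
    + 2 * a ^ (2 : ℕ) * b + 2 * a ^ (2 : ℕ)))

/-- Part of the value of `lME` on the field U. -/
def UME_5_0 (a b x y s w Y : ℝ) : ℝ :=
  s * w * Y * (x ^ (2 : ℕ) * y * (-10 * a ^ (2 : ℕ) * b ^ (2 : ℕ) - 10 * a * b ^ (3 : ℕ) - 10 * a * b ^ (2 : ℕ)) + x ^ (3 : ℕ) * (6
    * a ^ (3 : ℕ) * b + 6 * a ^ (2 : ℕ) * b ^ (2 : ℕ) + 6 * a ^ (2 : ℕ) * b))

/-- Part of the value of `lME` on the field U. -/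
def UME_6_0 (a b x y s w X : ℝ) : ℝ :=
  s * w * X * (y ^ (3 : ℕ) * (-6 * a * b ^ (3 : ℕ) - 6 * b ^ (4 : ℕ) - 6 * b ^ (3 : ℕ)) + x * y ^ (2 : ℕ) * (10 * a ^ (2 : ℕ) * b ^
    2 + 10 * a * b ^ (3 : ℕ) + 10 * a * b ^ (2 : ℕ)))

theorem U_lME (h : Pt N p q a b R x y z s w) :
    let X := dxR N p q x y z w
    let Y := dyR N p q x y z w
    pairFun (lME (⟨a, b, x, y⟩ : Frame) N p q) N p q x y (regFld N p q R x y s w 0)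
      (regVel N p q R x y z s w w₁ 0) =
      (UME_0_0 a b x y + UME_0_1 a b x y + UME_1_0 a b x y Y + UME_2_0 a b x y X + UME_3_0 a b x
        y s w₁ + UME_4_0 a b x y s w + UME_5_0 a b x y s w Y + UME_6_0 a b x y s w X) / (16 * x ^
        2 * y ^ (2 : ℕ) * b * (a * x + b * y) ^ (4 : ℕ) * (b * y - a * x)) := by
  have e := fun f f' => lME_lin h f f'
  obtain ⟨-, -, er⟩ := h.lam_eq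
  intro X Y
  rw [e]
  obtain ⟨rfl, rfl, rfl, a0, b0, M0, x0, y0, s0, D0, E0, hz⟩ := h
  subst hz
  obtain ⟨D, hD⟩ : ∃ D, D = a * x + b * y := ⟨_, rfl⟩
  obtain ⟨E, hE⟩ : ∃ E, E = b * y - a * x := ⟨_, rfl⟩
  rw [← hD] at D0
  rw [← hE] at E0
  simp only [← hE] at er
  simp only [MEL0, MEL1, MEL2, MEL4, MEL5, MEL6, UME_0_0, UME_0_1, UME_1_0, UME_2_0, UME_3_0, UME_4_0, UME_5_0, UME_6_0, regVel, regFld, orbAt, Orb.cBase, Orb.shapeU, shapeG, Orb.shapeT, shapeW, er,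
    Pi.add_apply, Pi.sub_apply, Pi.smul_apply, Pi.zero_apply, smul_eq_mul, Matrix.cons_val,
    sub_add_cancel, one_div_one_div, one_div_div, mul_one, one_mul, mul_zero, zero_mul, add_zero,
    zero_add, sub_zero, neg_zero, zero_div, div_one, ← hD, ← hE, X, Y]
  all_goals
    (try simp only [← hD, ← hE])
    (try generalize dxR _ _ _ x y _ w = X')
    (try generalize dyR _ _ _ x y _ w = Y')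
    (try field_simp)
  all_goals
    subst hD hE
    (try ring)

/-- Part of the value of `lMG` on the field U. -/
def UMG_0_0 (a b x y : ℝ) : ℝ :=
  (x ^ (2 : ℕ) * y ^ (7 : ℕ) * (-4 * a ^ (2 : ℕ) * b ^ (4 : ℕ) - 8 * a * b ^ (5 : ℕ) + 4 * a * b ^ (4 : ℕ) - 4 * b ^ (6 : ℕ) + 4 * b ^ (5 : ℕ) -
    8 * b ^ (4 : ℕ)) + x ^ (3 : ℕ) * y ^ (6 : ℕ) * (-8 * a ^ (3 : ℕ) * b ^ (3 : ℕ) - 12 * a ^ (2 : ℕ) * b ^ (4 : ℕ) + 20 * a ^ (2 : ℕ) * b ^ (3 : ℕ) + 4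
    * a * b ^ (4 : ℕ) + 16 * a * b ^ (3 : ℕ) + 4 * b ^ (6 : ℕ) - 16 * b ^ (5 : ℕ) + 16 * b ^ (4 : ℕ) + 4 * b ^ (3 : ℕ)) + x ^ (4 : ℕ) * y ^
    5 * (4 * a ^ (4 : ℕ) * b ^ (2 : ℕ) + 12 * a ^ (3 : ℕ) * b ^ (3 : ℕ) - 12 * a ^ (3 : ℕ) * b ^ (2 : ℕ) + 4 * a ^ (2 : ℕ) * b ^ (4 : ℕ) - 44 * a
    ^ (2 : ℕ) * b ^ (3 : ℕ) - 8 * a ^ (2 : ℕ) * b ^ (2 : ℕ) - 12 * a * b ^ (5 : ℕ) - 20 * a * b ^ (4 : ℕ) - 16 * a * b ^ (3 : ℕ) - 8 * a * b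
    ^ (2 : ℕ) - 8 * b ^ (6 : ℕ) + 12 * b ^ (5 : ℕ) - 4 * b ^ (3 : ℕ)) + x ^ (5 : ℕ) * y ^ (4 : ℕ) * (8 * a * b ^ (3 : ℕ) + 8 * a * b ^ (2 : ℕ)))

/-- Part of the value of `lMG` on the field U. -/
def UMG_0_1 (a b x y : ℝ) : ℝ :=
  (x ^ (5 : ℕ) * y ^ (4 : ℕ) * (8 * a ^ (5 : ℕ) * b + 12 * a ^ (4 : ℕ) * b ^ (2 : ℕ) - 12 * a ^ (4 : ℕ) * b - 4 * a ^ (3 : ℕ) * b ^ (3 : ℕ) + 20
    * a ^ (3 : ℕ) * b ^ (2 : ℕ) - 12 * a ^ (2 : ℕ) * b ^ (4 : ℕ) + 44 * a ^ (2 : ℕ) * b ^ (3 : ℕ) + 16 * a ^ (2 : ℕ) * b ^ (2 : ℕ) + 4 * a ^ (2 : ℕ) * b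
    - 4 * a * b ^ (5 : ℕ) + 12 * a * b ^ (4 : ℕ)) + x ^ (6 : ℕ) * y ^ (3 : ℕ) * (-4 * a ^ (5 : ℕ) * b + 16 * a ^ (4 : ℕ) * b + 12 * a
    ^ (3 : ℕ) * b ^ (3 : ℕ) - 4 * a ^ (3 : ℕ) * b ^ (2 : ℕ) - 16 * a ^ (3 : ℕ) * b + 8 * a ^ (2 : ℕ) * b ^ (4 : ℕ) - 20 * a ^ (2 : ℕ) * b ^ (3 : ℕ) - 16
    * a ^ (2 : ℕ) * b ^ (2 : ℕ) - 4 * a ^ (2 : ℕ) * b) + x ^ (7 : ℕ) * y ^ (2 : ℕ) * (4 * a ^ (5 : ℕ) * b + 8 * a ^ (4 : ℕ) * b ^ (2 : ℕ) - 4 * a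
    ^ (4 : ℕ) * b + 4 * a ^ (3 : ℕ) * b ^ (3 : ℕ) - 4 * a ^ (3 : ℕ) * b ^ (2 : ℕ) + 8 * a ^ (3 : ℕ) * b))

/-- Part of the value of `lMG` on the field U. -/
def UMG_1_0 (a b x y Y : ℝ) : ℝ :=
  Y * (x ^ (2 : ℕ) * y ^ (5 : ℕ) * (8 * b ^ (4 : ℕ)) + x ^ (3 : ℕ) * y ^ (4 : ℕ) * (-24 * a ^ (2 : ℕ) * b ^ (3 : ℕ) - 24 * a * b ^ (4 : ℕ) - 8 *
    a * b ^ (3 : ℕ)) + x ^ (4 : ℕ) * y ^ (3 : ℕ) * (8 * a ^ (3 : ℕ) * b ^ (2 : ℕ) + 16 * a ^ (2 : ℕ) * b ^ (3 : ℕ) + 16 * a ^ (2 : ℕ) * b ^ (2 : ℕ) + 8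
    * a * b ^ (4 : ℕ) + 16 * a * b ^ (3 : ℕ)) + x ^ (5 : ℕ) * y ^ (2 : ℕ) * (-24 * a ^ (3 : ℕ) * b ^ (2 : ℕ) - 24 * a ^ (2 : ℕ) * b ^ (3 : ℕ) - 8
    * a ^ (2 : ℕ) * b ^ (2 : ℕ)) + x ^ (6 : ℕ) * y * (8 * a ^ (3 : ℕ) * b))

/-- Part of the value of `lMG` on the field U. -/
def UMG_2_0 (a b x y X : ℝ) : ℝ :=
  X * (x * y ^ (6 : ℕ) * (-8 * b ^ (4 : ℕ)) + x ^ (2 : ℕ) * y ^ (5 : ℕ) * (24 * a ^ (2 : ℕ) * b ^ (3 : ℕ) + 24 * a * b ^ (4 : ℕ) + 8 * a *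
    b ^ (3 : ℕ)) + x ^ (3 : ℕ) * y ^ (4 : ℕ) * (-8 * a ^ (3 : ℕ) * b ^ (2 : ℕ) - 16 * a ^ (2 : ℕ) * b ^ (3 : ℕ) - 16 * a ^ (2 : ℕ) * b ^ (2 : ℕ) - 8 * a
    * b ^ (4 : ℕ) - 16 * a * b ^ (3 : ℕ)) + x ^ (4 : ℕ) * y ^ (3 : ℕ) * (24 * a ^ (3 : ℕ) * b ^ (2 : ℕ) + 24 * a ^ (2 : ℕ) * b ^ (3 : ℕ) + 8 * a ^
    2 * b ^ (2 : ℕ)) + x ^ (5 : ℕ) * y ^ (2 : ℕ) * (-8 * a ^ (3 : ℕ) * b))

/-- Part of the value of `lMG` on the field U. -/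
def UMG_3_0 (a b x y s w₁ : ℝ) : ℝ :=
  s * w₁ * (x * y ^ (4 : ℕ) * (2 * b ^ (4 : ℕ)) + x ^ (2 : ℕ) * y ^ (3 : ℕ) * (-4 * a ^ (2 : ℕ) * b ^ (3 : ℕ) - 4 * a * b ^ (4 : ℕ) + 2 *
    a * b ^ (3 : ℕ)) + x ^ (3 : ℕ) * y ^ (2 : ℕ) * (-4 * a ^ (3 : ℕ) * b ^ (2 : ℕ) - 4 * a ^ (2 : ℕ) * b ^ (3 : ℕ) + 2 * a ^ (2 : ℕ) * b ^ (2 : ℕ)) + x
    ^ (4 : ℕ) * y * (2 * a ^ (3 : ℕ) * b))

/-- Part of the value of `lMG` on the field U. -/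
def UMG_4_0 (a b x y s w : ℝ) : ℝ :=
  s * w * (x * y ^ (5 : ℕ) * (-a ^ (2 : ℕ) * b ^ (4 : ℕ) - 2 * a * b ^ (5 : ℕ) + a * b ^ (4 : ℕ) - b ^ (6 : ℕ) + b ^ (5 : ℕ)) + x ^ (2 : ℕ) * y
    ^ (4 : ℕ) * (a ^ (2 : ℕ) * b ^ (3 : ℕ) - 2 * a * b ^ (4 : ℕ) + 4 * a * b ^ (3 : ℕ) - 3 * b ^ (5 : ℕ) + 4 * b ^ (4 : ℕ) - b ^ (3 : ℕ)) + x ^ (3 : ℕ)
    * y ^ (3 : ℕ) * (a ^ (4 : ℕ) * b ^ (2 : ℕ) + 3 * a ^ (3 : ℕ) * b ^ (3 : ℕ) - 7 * a ^ (3 : ℕ) * b ^ (2 : ℕ) + 3 * a ^ (2 : ℕ) * b ^ (4 : ℕ) - 14 * a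
    ^ (2 : ℕ) * b ^ (3 : ℕ) + 4 * a ^ (2 : ℕ) * b ^ (2 : ℕ) + a * b ^ (5 : ℕ) - 7 * a * b ^ (4 : ℕ) + 4 * a * b ^ (3 : ℕ) - 4 * a * b ^ (2 : ℕ)) +
    x ^ (4 : ℕ) * y ^ (2 : ℕ) * (-3 * a ^ (4 : ℕ) * b - 2 * a ^ (3 : ℕ) * b ^ (2 : ℕ) + 8 * a ^ (3 : ℕ) * b + a ^ (2 : ℕ) * b ^ (3 : ℕ) + 8 * a ^
    2 * b ^ (2 : ℕ) - a ^ (2 : ℕ) * b) + x ^ (5 : ℕ) * y * (-a ^ (3 : ℕ) * b ^ (3 : ℕ) + a ^ (3 : ℕ) * b ^ (2 : ℕ) - 2 * a ^ (3 : ℕ)))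

/-- Part of the value of `lMG` on the field U. -/
def UMG_4_1 (a b x y s w : ℝ) : ℝ :=
  s * w * (x ^ (5 : ℕ) * y * (-a ^ (5 : ℕ) * b - 2 * a ^ (4 : ℕ) * b ^ (2 : ℕ) + a ^ (4 : ℕ) * b))

/-- Part of the value of `lMG` on the field U. -/
def UMG_5_0 (a b x y s w Y : ℝ) : ℝ :=
  s * w * Y * (x * y ^ (3 : ℕ) * (-2 * b ^ (4 : ℕ)) + x ^ (2 : ℕ) * y ^ (2 : ℕ) * (2 * a ^ (2 : ℕ) * b ^ (3 : ℕ) + 2 * a * b ^ (4 : ℕ) - 6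
    * a * b ^ (3 : ℕ)) + x ^ (3 : ℕ) * y * (10 * a ^ (3 : ℕ) * b ^ (2 : ℕ) + 10 * a ^ (2 : ℕ) * b ^ (3 : ℕ)) + x ^ (4 : ℕ) * (-4 * a ^ (3 : ℕ) *
    b))

/-- Part of the value of `lMG` on the field U. -/
def UMG_6_0 (a b x y s w X : ℝ) : ℝ :=
  s * w * X * (y ^ (4 : ℕ) * (-4 * b ^ (4 : ℕ)) + x * y ^ (3 : ℕ) * (10 * a ^ (2 : ℕ) * b ^ (3 : ℕ) + 10 * a * b ^ (4 : ℕ)) + x ^ (2 : ℕ)
    * y ^ (2 : ℕ) * (2 * a ^ (3 : ℕ) * b ^ (2 : ℕ) + 2 * a ^ (2 : ℕ) * b ^ (3 : ℕ) - 6 * a ^ (2 : ℕ) * b ^ (2 : ℕ)) + x ^ (3 : ℕ) * y * (-2 * a ^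
    3 * b))

theorem U_lMG (h : Pt N p q a b R x y z s w) :
    let X := dxR N p q x y z w
    let Y := dyR N p q x y z w
    pairFun (lMG (⟨a, b, x, y⟩ : Frame) N p q) N p q x y (regFld N p q R x y s w 0)
      (regVel N p q R x y z s w w₁ 0) =
      (UMG_0_0 a b x y + UMG_0_1 a b x y + UMG_1_0 a b x y Y + UMG_2_0 a b x y X + UMG_3_0 a b x
        y s w₁ + UMG_4_0 a b x y s w + UMG_4_1 a b x y s w + UMG_5_0 a b x y s w Y + UMG_6_0 a b x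
        y s w X) / (16 * x ^ (3 : ℕ) * y ^ (3 : ℕ) * b * (a * x + b * y) ^ (4 : ℕ) * (b * y - a * x)) := by
  have e := fun f f' => lMG_lin h f f'
  obtain ⟨-, -, er⟩ := h.lam_eq
  intro X Y
  rw [e]
  obtain ⟨rfl, rfl, rfl, a0, b0, M0, x0, y0, s0, D0, E0, hz⟩ := h
  subst hz
  obtain ⟨D, hD⟩ : ∃ D, D = a * x + b * y := ⟨_, rfl⟩
  obtain ⟨E, hE⟩ : ∃ E, E = b * y - a * x := ⟨_, rfl⟩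
  rw [← hD] at D0
  rw [← hE] at E0
  simp only [← hE] at er
  simp only [MGL0, MGL1, MGL2, MGL4, MGL5, MGL6, UMG_0_0, UMG_0_1, UMG_1_0, UMG_2_0, UMG_3_0, UMG_4_0, UMG_4_1, UMG_5_0, UMG_6_0, regVel, regFld, orbAt, Orb.cBase, Orb.shapeU, shapeG, Orb.shapeT, shapeW, er,
    Pi.add_apply, Pi.sub_apply, Pi.smul_apply, Pi.zero_apply, smul_eq_mul, Matrix.cons_val,
    sub_add_cancel, one_div_one_div, one_div_div, mul_one, one_mul, mul_zero, zero_mul, add_zero,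
    zero_add, sub_zero, neg_zero, zero_div, div_one, ← hD, ← hE, X, Y]
  all_goals
    (try simp only [← hD, ← hE])
    (try generalize dxR _ _ _ x y _ w = X')
    (try generalize dyR _ _ _ x y _ w = Y')
    (try field_simp)
  all_goals
    subst hD hE
    (try ring)

/-- Part of the value of `lEE` on the field U. -/
def UEE_0_0 (a b x y : ℝ) : ℝ :=
  (x ^ (2 : ℕ) * y ^ (7 : ℕ) * (-8 * a * b ^ (4 : ℕ) - 8 * b ^ (5 : ℕ)) + x ^ (3 : ℕ) * y ^ (6 : ℕ) * (-4 * a ^ (3 : ℕ) * b ^ (3 : ℕ) - 12 * a ^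
    2 * b ^ (4 : ℕ) + 8 * a ^ (2 : ℕ) * b ^ (3 : ℕ) - 12 * a * b ^ (5 : ℕ) + 16 * a * b ^ (4 : ℕ) + 24 * a * b ^ (3 : ℕ) - 4 * b ^ (6 : ℕ) +
    8 * b ^ (5 : ℕ) + 4 * b ^ (3 : ℕ)) + x ^ (4 : ℕ) * y ^ (5 : ℕ) * (-4 * a ^ (3 : ℕ) * b ^ (3 : ℕ) - 12 * a ^ (2 : ℕ) * b ^ (4 : ℕ) - 8 * a ^ (2 : ℕ)
    * b ^ (3 : ℕ) - 16 * a ^ (2 : ℕ) * b ^ (2 : ℕ) - 12 * a * b ^ (5 : ℕ) - 8 * a * b ^ (4 : ℕ) - 32 * a * b ^ (3 : ℕ) - 8 * a * b ^ (2 : ℕ)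
    - 4 * b ^ (6 : ℕ) + 8 * b ^ (4 : ℕ) - 4 * b ^ (3 : ℕ)) + x ^ (5 : ℕ) * y ^ (4 : ℕ) * (8 * a ^ (3 : ℕ) * b ^ (2 : ℕ) - 8 * a ^ (3 : ℕ) * b + 4
    * a ^ (2 : ℕ) * b ^ (4 : ℕ) + 8 * a ^ (2 : ℕ) * b ^ (3 : ℕ) + 32 * a ^ (2 : ℕ) * b ^ (2 : ℕ) + 4 * a ^ (2 : ℕ) * b + 16 * a * b ^ (3 : ℕ) + 8
    * a * b ^ (2 : ℕ)))

/-- Part of the value of `lEE` on the field U. -/
def UEE_0_1 (a b x y : ℝ) : ℝ :=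
  (x ^ (5 : ℕ) * y ^ (4 : ℕ) * (4 * a ^ (5 : ℕ) * b + 12 * a ^ (4 : ℕ) * b ^ (2 : ℕ) + 12 * a ^ (3 : ℕ) * b ^ (3 : ℕ)) + x ^ (6 : ℕ) * y ^ (3 : ℕ) *
    (4 * a ^ (5 : ℕ) * b + 12 * a ^ (4 : ℕ) * b ^ (2 : ℕ) - 8 * a ^ (4 : ℕ) * b + 12 * a ^ (3 : ℕ) * b ^ (3 : ℕ) - 16 * a ^ (3 : ℕ) * b ^ (2 : ℕ)
    + 4 * a ^ (2 : ℕ) * b ^ (4 : ℕ) - 8 * a ^ (2 : ℕ) * b ^ (3 : ℕ) - 24 * a ^ (2 : ℕ) * b ^ (2 : ℕ) - 4 * a ^ (2 : ℕ) * b) + x ^ (7 : ℕ) * y ^ (2 : ℕ)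
    * (8 * a ^ (4 : ℕ) * b + 8 * a ^ (3 : ℕ) * b ^ (2 : ℕ)))

/-- Part of the value of `lEE` on the field U. -/
def UEE_1_0 (a b x y Y : ℝ) : ℝ :=
  Y * (x ^ (2 : ℕ) * y ^ (5 : ℕ) * (4 * a * b ^ (4 : ℕ) + 4 * b ^ (5 : ℕ)) + x ^ (3 : ℕ) * y ^ (4 : ℕ) * (-16 * a ^ (2 : ℕ) * b ^ (3 : ℕ) - 16 *
    a * b ^ (4 : ℕ) - 24 * a * b ^ (3 : ℕ)) + x ^ (4 : ℕ) * y ^ (3 : ℕ) * (12 * a ^ (3 : ℕ) * b ^ (2 : ℕ) + 24 * a ^ (2 : ℕ) * b ^ (3 : ℕ) + 8 * a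
    ^ (2 : ℕ) * b ^ (2 : ℕ) + 12 * a * b ^ (4 : ℕ) + 8 * a * b ^ (3 : ℕ)) + x ^ (5 : ℕ) * y ^ (2 : ℕ) * (-16 * a ^ (3 : ℕ) * b ^ (2 : ℕ) - 16 * a
    ^ (2 : ℕ) * b ^ (3 : ℕ) - 24 * a ^ (2 : ℕ) * b ^ (2 : ℕ)) + x ^ (6 : ℕ) * y * (4 * a ^ (4 : ℕ) * b + 4 * a ^ (3 : ℕ) * b ^ (2 : ℕ)))

/-- Part of the value of `lEE` on the field U. -/
def UEE_2_0 (a b x y X : ℝ) : ℝ :=
  X * (x * y ^ (6 : ℕ) * (-4 * a * b ^ (4 : ℕ) - 4 * b ^ (5 : ℕ)) + x ^ (2 : ℕ) * y ^ (5 : ℕ) * (16 * a ^ (2 : ℕ) * b ^ (3 : ℕ) + 16 * a *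
    b ^ (4 : ℕ) + 24 * a * b ^ (3 : ℕ)) + x ^ (3 : ℕ) * y ^ (4 : ℕ) * (-12 * a ^ (3 : ℕ) * b ^ (2 : ℕ) - 24 * a ^ (2 : ℕ) * b ^ (3 : ℕ) - 8 * a ^
    2 * b ^ (2 : ℕ) - 12 * a * b ^ (4 : ℕ) - 8 * a * b ^ (3 : ℕ)) + x ^ (4 : ℕ) * y ^ (3 : ℕ) * (16 * a ^ (3 : ℕ) * b ^ (2 : ℕ) + 16 * a ^ (2 : ℕ)
    * b ^ (3 : ℕ) + 24 * a ^ (2 : ℕ) * b ^ (2 : ℕ)) + x ^ (5 : ℕ) * y ^ (2 : ℕ) * (-4 * a ^ (4 : ℕ) * b - 4 * a ^ (3 : ℕ) * b ^ (2 : ℕ)))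

/-- Part of the value of `lEE` on the field U. -/
def UEE_3_0 (a b x y s w₁ : ℝ) : ℝ :=
  s * w₁ * (x * y ^ (4 : ℕ) * (a * b ^ (4 : ℕ) + b ^ (5 : ℕ)) + x ^ (2 : ℕ) * y ^ (3 : ℕ) * (-a ^ (2 : ℕ) * b ^ (3 : ℕ) - a * b ^ (4 : ℕ) - 4 *
    a * b ^ (3 : ℕ)) + x ^ (3 : ℕ) * y ^ (2 : ℕ) * (-a ^ (3 : ℕ) * b ^ (2 : ℕ) - a ^ (2 : ℕ) * b ^ (3 : ℕ) - 4 * a ^ (2 : ℕ) * b ^ (2 : ℕ)) + x ^ (4 : ℕ) * y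
    * (a ^ (4 : ℕ) * b + a ^ (3 : ℕ) * b ^ (2 : ℕ)))

/-- Part of the value of `lEE` on the field U. -/
def UEE_4_0 (a b x y s w : ℝ) : ℝ :=
  s * w * (x * y ^ (5 : ℕ) * (-a * b ^ (4 : ℕ) - b ^ (5 : ℕ)) + x ^ (2 : ℕ) * y ^ (4 : ℕ) * (a ^ (3 : ℕ) * b ^ (3 : ℕ) + a ^ (2 : ℕ) * b ^ (4 : ℕ) + a
    ^ (2 : ℕ) * b ^ (3 : ℕ) - a * b ^ (5 : ℕ) + 2 * a * b ^ (4 : ℕ) - a * b ^ (3 : ℕ) - b ^ (6 : ℕ) + b ^ (5 : ℕ) - b ^ (4 : ℕ) + b ^ (3 : ℕ)) + x ^ (3 : ℕ) *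
    y ^ (3 : ℕ) * (-a ^ (3 : ℕ) * b ^ (2 : ℕ) - 2 * a ^ (2 : ℕ) * b ^ (3 : ℕ) - 7 * a ^ (2 : ℕ) * b ^ (2 : ℕ) - a * b ^ (4 : ℕ) - 7 * a * b ^ (3 : ℕ) +
    2 * a * b ^ (2 : ℕ)) + x ^ (4 : ℕ) * y ^ (2 : ℕ) * (-a ^ (5 : ℕ) * b - a ^ (4 : ℕ) * b ^ (2 : ℕ) + a ^ (4 : ℕ) * b + a ^ (3 : ℕ) * b ^ (3 : ℕ) + 2 *
    a ^ (3 : ℕ) * b ^ (2 : ℕ) + a ^ (3 : ℕ) * b + a ^ (2 : ℕ) * b ^ (4 : ℕ) + a ^ (2 : ℕ) * b ^ (3 : ℕ) + a ^ (2 : ℕ) * b ^ (2 : ℕ) + 5 * a ^ (2 : ℕ) * b) + x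
    ^ (5 : ℕ) * y * (-a ^ (3 : ℕ) * b ^ (2 : ℕ) - a ^ (3 : ℕ) * b))

/-- Part of the value of `lEE` on the field U. -/
def UEE_4_1 (a b x y s w : ℝ) : ℝ :=
  s * w * (x ^ (5 : ℕ) * y * (-a ^ (4 : ℕ) * b - a ^ (4 : ℕ)))

/-- Part of the value of `lEE` on the field U. -/
def UEE_5_0 (a b x y s w Y : ℝ) : ℝ :=
  s * w * Y * (x * y ^ (3 : ℕ) * (-a * b ^ (4 : ℕ) - b ^ (5 : ℕ)) + x ^ (2 : ℕ) * y ^ (2 : ℕ) * (-2 * a ^ (2 : ℕ) * b ^ (3 : ℕ) - 2 * a *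
    b ^ (4 : ℕ) + 2 * a * b ^ (3 : ℕ)) + x ^ (3 : ℕ) * y * (5 * a ^ (3 : ℕ) * b ^ (2 : ℕ) + 5 * a ^ (2 : ℕ) * b ^ (3 : ℕ) + 10 * a ^ (2 : ℕ) * b ^
    2) + x ^ (4 : ℕ) * (-2 * a ^ (4 : ℕ) * b - 2 * a ^ (3 : ℕ) * b ^ (2 : ℕ)))

/-- Part of the value of `lEE` on the field U. -/
def UEE_6_0 (a b x y s w X : ℝ) : ℝ :=
  s * w * X * (y ^ (4 : ℕ) * (-2 * a * b ^ (4 : ℕ) - 2 * b ^ (5 : ℕ)) + x * y ^ (3 : ℕ) * (5 * a ^ (2 : ℕ) * b ^ (3 : ℕ) + 5 * a * b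
    ^ (4 : ℕ) + 10 * a * b ^ (3 : ℕ)) + x ^ (2 : ℕ) * y ^ (2 : ℕ) * (-2 * a ^ (3 : ℕ) * b ^ (2 : ℕ) - 2 * a ^ (2 : ℕ) * b ^ (3 : ℕ) + 2 * a ^ (2 : ℕ) *
    b ^ (2 : ℕ)) + x ^ (3 : ℕ) * y * (-a ^ (4 : ℕ) * b - a ^ (3 : ℕ) * b ^ (2 : ℕ)))

theorem U_lEE (h : Pt N p q a b R x y z s w) :
    let X := dxR N p q x y z w
    let Y := dyR N p q x y z w
    pairFun (lEE (⟨a, b, x, y⟩ : Frame) N p q) N p q x y (regFld N p q R x y s w 0)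
      (regVel N p q R x y z s w w₁ 0) =
      (UEE_0_0 a b x y + UEE_0_1 a b x y + UEE_1_0 a b x y Y + UEE_2_0 a b x y X + UEE_3_0 a b x
        y s w₁ + UEE_4_0 a b x y s w + UEE_4_1 a b x y s w + UEE_5_0 a b x y s w Y + UEE_6_0 a b x
        y s w X) / (8 * x ^ (3 : ℕ) * y ^ (3 : ℕ) * b * (a * x + b * y) ^ (4 : ℕ) * (b * y - a * x)) := by
  have e := fun f f' => lEE_lin h f f'
  obtain ⟨-, -, er⟩ := h.lam_eq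
  intro X Y
  rw [e]
  obtain ⟨rfl, rfl, rfl, a0, b0, M0, x0, y0, s0, D0, E0, hz⟩ := h
  subst hz
  obtain ⟨D, hD⟩ : ∃ D, D = a * x + b * y := ⟨_, rfl⟩
  obtain ⟨E, hE⟩ : ∃ E, E = b * y - a * x := ⟨_, rfl⟩
  rw [← hD] at D0
  rw [← hE] at E0
  simp only [← hE] at er
  simp only [EEL0, EEL1, EEL2, EEL4, EEL5, EEL6, UEE_0_0, UEE_0_1, UEE_1_0, UEE_2_0, UEE_3_0, UEE_4_0, UEE_4_1, UEE_5_0, UEE_6_0, regVel, regFld, orbAt, Orb.cBase, Orb.shapeU, shapeG, Orb.shapeT, shapeW, er,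
    Pi.add_apply, Pi.sub_apply, Pi.smul_apply, Pi.zero_apply, smul_eq_mul, Matrix.cons_val,
    sub_add_cancel, one_div_one_div, one_div_div, mul_one, one_mul, mul_zero, zero_mul, add_zero,
    zero_add, sub_zero, neg_zero, zero_div, div_one, ← hD, ← hE, X, Y]
  all_goals
    (try simp only [← hD, ← hE])
    (try generalize dxR _ _ _ x y _ w = X')
    (try generalize dyR _ _ _ x y _ w = Y')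
    (try field_simp)
  all_goals
    subst hD hE
    (try ring)

/-- Part of the value of `lEG` on the field U. -/
def UEG_0_0 (a b x y : ℝ) : ℝ :=
  (x ^ (2 : ℕ) * y ^ (6 : ℕ) * (8 * a ^ (3 : ℕ) * b ^ (3 : ℕ) + 12 * a ^ (2 : ℕ) * b ^ (4 : ℕ) + 28 * a ^ (2 : ℕ) * b ^ (3 : ℕ) + 20 * a * b ^ (4 : ℕ)
    + 24 * a * b ^ (3 : ℕ) - 4 * b ^ (6 : ℕ) - 8 * b ^ (5 : ℕ) + 4 * b ^ (3 : ℕ)) + x ^ (3 : ℕ) * y ^ (5 : ℕ) * (20 * a ^ (4 : ℕ) * b ^ (2 : ℕ) +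
    40 * a ^ (3 : ℕ) * b ^ (3 : ℕ) - 32 * a ^ (3 : ℕ) * b ^ (2 : ℕ) - 56 * a ^ (2 : ℕ) * b ^ (3 : ℕ) - 72 * a ^ (2 : ℕ) * b ^ (2 : ℕ) - 40 * a * b
    ^ (5 : ℕ) - 16 * a * b ^ (4 : ℕ) - 48 * a * b ^ (3 : ℕ) - 20 * a * b ^ (2 : ℕ) - 20 * b ^ (6 : ℕ) + 8 * b ^ (5 : ℕ) + 24 * b ^ (4 : ℕ) -
    4 * b ^ (3 : ℕ)) + x ^ (4 : ℕ) * y ^ (4 : ℕ) * (24 * a ^ (3 : ℕ) * b - 8 * a ^ (2 : ℕ) * b ^ (4 : ℕ) + 60 * a ^ (2 : ℕ) * b ^ (3 : ℕ) + 96 * a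
    ^ (2 : ℕ) * b ^ (2 : ℕ) + 20 * a ^ (2 : ℕ) * b - 8 * a * b ^ (5 : ℕ) - 4 * a * b ^ (4 : ℕ) + 24 * a * b ^ (3 : ℕ) + 20 * a * b ^
    2))

/-- Part of the value of `lEG` on the field U. -/
def UEG_0_1 (a b x y : ℝ) : ℝ :=
  (x ^ (4 : ℕ) * y ^ (4 : ℕ) * (-8 * a ^ (5 : ℕ) * b - 8 * a ^ (4 : ℕ) * b ^ (2 : ℕ) - 4 * a ^ (4 : ℕ) * b + 60 * a ^ (3 : ℕ) * b ^ (2 : ℕ)) + x
    ^ (5 : ℕ) * y ^ (3 : ℕ) * (-20 * a ^ (6 : ℕ) - 40 * a ^ (5 : ℕ) * b + 8 * a ^ (5 : ℕ) - 16 * a ^ (4 : ℕ) * b + 24 * a ^ (4 : ℕ) + 40 * a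
    ^ (3 : ℕ) * b ^ (3 : ℕ) - 56 * a ^ (3 : ℕ) * b ^ (2 : ℕ) - 48 * a ^ (3 : ℕ) * b - 4 * a ^ (3 : ℕ) + 20 * a ^ (2 : ℕ) * b ^ (4 : ℕ) - 32 * a ^
    2 * b ^ (3 : ℕ) - 72 * a ^ (2 : ℕ) * b ^ (2 : ℕ) - 20 * a ^ (2 : ℕ) * b) + x ^ (6 : ℕ) * y ^ (2 : ℕ) * (-4 * a ^ (6 : ℕ) - 8 * a ^ (5 : ℕ) +
    12 * a ^ (4 : ℕ) * b ^ (2 : ℕ) + 20 * a ^ (4 : ℕ) * b + 8 * a ^ (3 : ℕ) * b ^ (3 : ℕ) + 28 * a ^ (3 : ℕ) * b ^ (2 : ℕ) + 24 * a ^ (3 : ℕ) * b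
    + 4 * a ^ (3 : ℕ)))

/-- Part of the value of `lEG` on the field U. -/
def UEG_1_0 (a b x y Y : ℝ) : ℝ :=
  Y * (x ^ (2 : ℕ) * y ^ (4 : ℕ) * (-24 * a ^ (2 : ℕ) * b ^ (3 : ℕ) - 24 * a * b ^ (4 : ℕ) - 24 * a * b ^ (3 : ℕ)) + x ^ (3 : ℕ) * y ^ (3 : ℕ) *
    (40 * a ^ (3 : ℕ) * b ^ (2 : ℕ) + 40 * a ^ (2 : ℕ) * b ^ (3 : ℕ) + 40 * a ^ (2 : ℕ) * b ^ (2 : ℕ)) + x ^ (4 : ℕ) * y ^ (2 : ℕ) * (-40 * a ^ (3 : ℕ)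
    * b ^ (2 : ℕ) - 40 * a ^ (2 : ℕ) * b ^ (3 : ℕ) - 40 * a ^ (2 : ℕ) * b ^ (2 : ℕ)) + x ^ (5 : ℕ) * y * (24 * a ^ (4 : ℕ) * b + 24 * a ^ (3 : ℕ)
    * b ^ (2 : ℕ) + 24 * a ^ (3 : ℕ) * b))

/-- Part of the value of `lEG` on the field U. -/
def UEG_2_0 (a b x y X : ℝ) : ℝ :=
  X * (x * y ^ (5 : ℕ) * (24 * a ^ (2 : ℕ) * b ^ (3 : ℕ) + 24 * a * b ^ (4 : ℕ) + 24 * a * b ^ (3 : ℕ)) + x ^ (2 : ℕ) * y ^ (4 : ℕ) * (-40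
    * a ^ (3 : ℕ) * b ^ (2 : ℕ) - 40 * a ^ (2 : ℕ) * b ^ (3 : ℕ) - 40 * a ^ (2 : ℕ) * b ^ (2 : ℕ)) + x ^ (3 : ℕ) * y ^ (3 : ℕ) * (40 * a ^ (3 : ℕ) * b ^
    2 + 40 * a ^ (2 : ℕ) * b ^ (3 : ℕ) + 40 * a ^ (2 : ℕ) * b ^ (2 : ℕ)) + x ^ (4 : ℕ) * y ^ (2 : ℕ) * (-24 * a ^ (4 : ℕ) * b - 24 * a ^ (3 : ℕ) *
    b ^ (2 : ℕ) - 24 * a ^ (3 : ℕ) * b))

/-- Part of the value of `lEG` on the field U. -/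
def UEG_3_0 (a b x y s w₁ : ℝ) : ℝ :=
  s * w₁ * (x * y ^ (3 : ℕ) * (-6 * a ^ (2 : ℕ) * b ^ (3 : ℕ) - 6 * a * b ^ (4 : ℕ) - 6 * a * b ^ (3 : ℕ)) + x ^ (3 : ℕ) * y * (6 *
    a ^ (4 : ℕ) * b + 6 * a ^ (3 : ℕ) * b ^ (2 : ℕ) + 6 * a ^ (3 : ℕ) * b))

/-- Part of the value of `lEG` on the field U. -/
def UEG_4_0 (a b x y s w : ℝ) : ℝ :=
  s * w * (x * y ^ (4 : ℕ) * (2 * a ^ (3 : ℕ) * b ^ (3 : ℕ) + 3 * a ^ (2 : ℕ) * b ^ (4 : ℕ) + a ^ (2 : ℕ) * b ^ (3 : ℕ) - a * b ^ (4 : ℕ) - b ^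
    6 - 2 * b ^ (5 : ℕ) + b ^ (3 : ℕ)) + x ^ (2 : ℕ) * y ^ (3 : ℕ) * (-a ^ (4 : ℕ) * b ^ (2 : ℕ) - 8 * a ^ (3 : ℕ) * b ^ (2 : ℕ) + 3 * a ^ (2 : ℕ) * b ^
    4 - 13 * a ^ (2 : ℕ) * b ^ (3 : ℕ) - 6 * a ^ (2 : ℕ) * b ^ (2 : ℕ) + 2 * a * b ^ (5 : ℕ) - 5 * a * b ^ (4 : ℕ) - 6 * a * b ^ (3 : ℕ) + a
    * b ^ (2 : ℕ)) + x ^ (3 : ℕ) * y ^ (2 : ℕ) * (-2 * a ^ (5 : ℕ) * b - 3 * a ^ (4 : ℕ) * b ^ (2 : ℕ) + 5 * a ^ (4 : ℕ) * b + 13 * a ^ (3 : ℕ) *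
    b ^ (2 : ℕ) + 12 * a ^ (3 : ℕ) * b + a ^ (2 : ℕ) * b ^ (4 : ℕ) + 8 * a ^ (2 : ℕ) * b ^ (3 : ℕ) + 12 * a ^ (2 : ℕ) * b ^ (2 : ℕ) + 5 * a ^ (2 : ℕ) *
    b) + x ^ (4 : ℕ) * y * (-6 * a ^ (4 : ℕ) - 2 * a ^ (3 : ℕ) * b ^ (3 : ℕ) - a ^ (3 : ℕ) * b ^ (2 : ℕ) - 6 * a ^ (3 : ℕ) * b - 7 * a ^ (3 : ℕ)))

/-- Part of the value of `lEG` on the field U. -/
def UEG_4_1 (a b x y s w : ℝ) : ℝ :=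
  s * w * (x ^ (4 : ℕ) * y * (a ^ (6 : ℕ) + 2 * a ^ (5 : ℕ) - 3 * a ^ (4 : ℕ) * b ^ (2 : ℕ) + a ^ (4 : ℕ) * b))

/-- Part of the value of `lEG` on the field U. -/
def UEG_5_0 (a b x y s w Y : ℝ) : ℝ :=
  s * w * Y * (x * y ^ (2 : ℕ) * (6 * a ^ (2 : ℕ) * b ^ (3 : ℕ) + 6 * a * b ^ (4 : ℕ) + 6 * a * b ^ (3 : ℕ)) + x ^ (2 : ℕ) * y * (10
    * a ^ (3 : ℕ) * b ^ (2 : ℕ) + 10 * a ^ (2 : ℕ) * b ^ (3 : ℕ) + 10 * a ^ (2 : ℕ) * b ^ (2 : ℕ)) + x ^ (3 : ℕ) * (-12 * a ^ (4 : ℕ) * b - 12 * a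
    ^ (3 : ℕ) * b ^ (2 : ℕ) - 12 * a ^ (3 : ℕ) * b))

/-- Part of the value of `lEG` on the field U. -/
def UEG_6_0 (a b x y s w X : ℝ) : ℝ :=
  s * w * X * (y ^ (3 : ℕ) * (12 * a ^ (2 : ℕ) * b ^ (3 : ℕ) + 12 * a * b ^ (4 : ℕ) + 12 * a * b ^ (3 : ℕ)) + x * y ^ (2 : ℕ) * (-10
    * a ^ (3 : ℕ) * b ^ (2 : ℕ) - 10 * a ^ (2 : ℕ) * b ^ (3 : ℕ) - 10 * a ^ (2 : ℕ) * b ^ (2 : ℕ)) + x ^ (2 : ℕ) * y * (-6 * a ^ (4 : ℕ) * b - 6 *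
    a ^ (3 : ℕ) * b ^ (2 : ℕ) - 6 * a ^ (3 : ℕ) * b))

theorem U_lEG (h : Pt N p q a b R x y z s w) :
    let X := dxR N p q x y z w
    let Y := dyR N p q x y z w
    pairFun (lEG (⟨a, b, x, y⟩ : Frame) N p q) N p q x y (regFld N p q R x y s w 0)
      (regVel N p q R x y z s w w₁ 0) =
      (UEG_0_0 a b x y + UEG_0_1 a b x y + UEG_1_0 a b x y Y + UEG_2_0 a b x y X + UEG_3_0 a b x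
        y s w₁ + UEG_4_0 a b x y s w + UEG_4_1 a b x y s w + UEG_5_0 a b x y s w Y + UEG_6_0 a b x
        y s w X) / (16 * x ^ (3 : ℕ) * y ^ (3 : ℕ) * (a * x + b * y) ^ (4 : ℕ) * (b * y - a * x)) := by
  have e := fun f f' => lEG_lin h f f'
  obtain ⟨-, -, er⟩ := h.lam_eq
  intro X Y
  rw [e]
  obtain ⟨rfl, rfl, rfl, a0, b0, M0, x0, y0, s0, D0, E0, hz⟩ := h
  subst hz
  obtain ⟨D, hD⟩ : ∃ D, D = a * x + b * y := ⟨_, rfl⟩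
  obtain ⟨E, hE⟩ : ∃ E, E = b * y - a * x := ⟨_, rfl⟩
  rw [← hD] at D0
  rw [← hE] at E0
  simp only [← hE] at er
  simp only [EGL0, EGL1, EGL2, EGL4, EGL5, EGL6, UEG_0_0, UEG_0_1, UEG_1_0, UEG_2_0, UEG_3_0, UEG_4_0, UEG_4_1, UEG_5_0, UEG_6_0, regVel, regFld, orbAt, Orb.cBase, Orb.shapeU, shapeG, Orb.shapeT, shapeW, er,
    Pi.add_apply, Pi.sub_apply, Pi.smul_apply, Pi.zero_apply, smul_eq_mul, Matrix.cons_val,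
    sub_add_cancel, one_div_one_div, one_div_div, mul_one, one_mul, mul_zero, zero_mul, add_zero,
    zero_add, sub_zero, neg_zero, zero_div, div_one, ← hD, ← hE, X, Y]
  all_goals
    (try simp only [← hD, ← hE])
    (try generalize dxR _ _ _ x y _ w = X')
    (try generalize dyR _ _ _ x y _ w = Y')
    (try field_simp)
  all_goals
    subst hD hE
    (try ring)

/-- Part of the value of `lGG` on the field U. -/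
def UGG_0_0 (a b x y : ℝ) : ℝ :=
  (x ^ (2 : ℕ) * y ^ (5 : ℕ) * (-4 * a ^ (4 : ℕ) * b ^ (3 : ℕ) - 4 * a ^ (3 : ℕ) * b ^ (4 : ℕ) - 16 * a ^ (3 : ℕ) * b ^ (3 : ℕ) - 4 * a ^ (2 : ℕ) * b
    ^ (5 : ℕ) - 8 * a ^ (2 : ℕ) * b ^ (4 : ℕ) - 16 * a ^ (2 : ℕ) * b ^ (3 : ℕ) - 12 * a * b ^ (6 : ℕ) + 8 * a * b ^ (5 : ℕ) - 4 * a * b ^ (3 : ℕ)
    - 8 * b ^ (7 : ℕ) + 8 * b ^ (5 : ℕ)) + x ^ (3 : ℕ) * y ^ (4 : ℕ) * (-8 * a ^ (5 : ℕ) * b ^ (2 : ℕ) - 12 * a ^ (4 : ℕ) * b ^ (3 : ℕ) + 8 * a ^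
    4 * b ^ (2 : ℕ) - 4 * a ^ (3 : ℕ) * b ^ (4 : ℕ) + 32 * a ^ (3 : ℕ) * b ^ (3 : ℕ) + 24 * a ^ (3 : ℕ) * b ^ (2 : ℕ) - 4 * a ^ (2 : ℕ) * b ^ (5 : ℕ) +
    16 * a ^ (2 : ℕ) * b ^ (4 : ℕ) + 32 * a ^ (2 : ℕ) * b ^ (3 : ℕ) + 8 * a ^ (2 : ℕ) * b ^ (2 : ℕ) - 4 * a * b ^ (6 : ℕ) - 8 * a * b ^ (5 : ℕ) +
    4 * a * b ^ (3 : ℕ)) + x ^ (4 : ℕ) * y ^ (3 : ℕ) * (-32 * a ^ (3 : ℕ) * b ^ (2 : ℕ) - 4 * a ^ (3 : ℕ) * b + 8 * a ^ (2 : ℕ) * b ^ (5 : ℕ) - 8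
    * a ^ (2 : ℕ) * b ^ (4 : ℕ) - 24 * a ^ (2 : ℕ) * b ^ (3 : ℕ) - 8 * a ^ (2 : ℕ) * b ^ (2 : ℕ)))

/-- Part of the value of `lGG` on the field U. -/
def UGG_0_1 (a b x y : ℝ) : ℝ :=
  (x ^ (4 : ℕ) * y ^ (3 : ℕ) * (4 * a ^ (6 : ℕ) * b + 4 * a ^ (5 : ℕ) * b ^ (2 : ℕ) + 8 * a ^ (5 : ℕ) * b + 4 * a ^ (4 : ℕ) * b ^ (3 : ℕ) - 16 *
    a ^ (4 : ℕ) * b ^ (2 : ℕ) + 12 * a ^ (3 : ℕ) * b ^ (4 : ℕ) - 32 * a ^ (3 : ℕ) * b ^ (3 : ℕ)) + x ^ (5 : ℕ) * y ^ (2 : ℕ) * (8 * a ^ (7 : ℕ) + 12 * a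
    ^ (6 : ℕ) * b + 4 * a ^ (5 : ℕ) * b ^ (2 : ℕ) - 8 * a ^ (5 : ℕ) * b - 8 * a ^ (5 : ℕ) + 4 * a ^ (4 : ℕ) * b ^ (3 : ℕ) + 8 * a ^ (4 : ℕ) * b ^
    2 + 4 * a ^ (3 : ℕ) * b ^ (4 : ℕ) + 16 * a ^ (3 : ℕ) * b ^ (3 : ℕ) + 16 * a ^ (3 : ℕ) * b ^ (2 : ℕ) + 4 * a ^ (3 : ℕ) * b))

/-- Part of the value of `lGG` on the field U. -/
def UGG_1_0 (a b x y Y : ℝ) : ℝ :=
  Y * (x ^ (2 : ℕ) * y ^ (3 : ℕ) * (16 * a ^ (3 : ℕ) * b ^ (3 : ℕ) + 16 * a ^ (2 : ℕ) * b ^ (4 : ℕ) + 16 * a ^ (2 : ℕ) * b ^ (3 : ℕ)) + x ^ (4 : ℕ) *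
    y * (16 * a ^ (4 : ℕ) * b ^ (2 : ℕ) + 16 * a ^ (3 : ℕ) * b ^ (3 : ℕ) + 16 * a ^ (3 : ℕ) * b ^ (2 : ℕ)))

/-- Part of the value of `lGG` on the field U. -/
def UGG_2_0 (a b x y X : ℝ) : ℝ :=
  X * (x * y ^ (4 : ℕ) * (-16 * a ^ (3 : ℕ) * b ^ (3 : ℕ) - 16 * a ^ (2 : ℕ) * b ^ (4 : ℕ) - 16 * a ^ (2 : ℕ) * b ^ (3 : ℕ)) + x ^ (3 : ℕ) * y ^
    2 * (-16 * a ^ (4 : ℕ) * b ^ (2 : ℕ) - 16 * a ^ (3 : ℕ) * b ^ (3 : ℕ) - 16 * a ^ (3 : ℕ) * b ^ (2 : ℕ)))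

/-- Part of the value of `lGG` on the field U. -/
def UGG_3_0 (a b x y s w₁ : ℝ) : ℝ :=
  s * w₁ * (x * y ^ (2 : ℕ) * (4 * a ^ (3 : ℕ) * b ^ (3 : ℕ) + 4 * a ^ (2 : ℕ) * b ^ (4 : ℕ) + 4 * a ^ (2 : ℕ) * b ^ (3 : ℕ)) + x ^ (2 : ℕ) * y
    * (4 * a ^ (4 : ℕ) * b ^ (2 : ℕ) + 4 * a ^ (3 : ℕ) * b ^ (3 : ℕ) + 4 * a ^ (3 : ℕ) * b ^ (2 : ℕ)))

/-- Part of the value of `lGG` on the field U. -/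
def UGG_4_0 (a b x y s w : ℝ) : ℝ :=
  s * w * (x * y ^ (3 : ℕ) * (-a ^ (4 : ℕ) * b ^ (3 : ℕ) - a ^ (3 : ℕ) * b ^ (4 : ℕ) + a ^ (2 : ℕ) * b ^ (5 : ℕ) + 2 * a ^ (2 : ℕ) * b ^ (4 : ℕ) + a *
    b ^ (6 : ℕ) + 2 * a * b ^ (5 : ℕ) - a * b ^ (3 : ℕ)) + x ^ (2 : ℕ) * y ^ (2 : ℕ) * (6 * a ^ (4 : ℕ) * b ^ (2 : ℕ) + 12 * a ^ (3 : ℕ) * b ^ (3 : ℕ) +
    4 * a ^ (3 : ℕ) * b ^ (2 : ℕ) + 6 * a ^ (2 : ℕ) * b ^ (4 : ℕ) + 4 * a ^ (2 : ℕ) * b ^ (3 : ℕ) - 2 * a ^ (2 : ℕ) * b ^ (2 : ℕ)) + x ^ (3 : ℕ) * y *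
    (a ^ (6 : ℕ) * b + a ^ (5 : ℕ) * b ^ (2 : ℕ) + 2 * a ^ (5 : ℕ) * b - a ^ (4 : ℕ) * b ^ (3 : ℕ) + 2 * a ^ (4 : ℕ) * b ^ (2 : ℕ) - 4 * a ^ (4 : ℕ) * b
    - a ^ (3 : ℕ) * b ^ (4 : ℕ) - 4 * a ^ (3 : ℕ) * b ^ (2 : ℕ) - 5 * a ^ (3 : ℕ) * b))

/-- Part of the value of `lGG` on the field U. -/
def UGG_5_0 (a b x y s w Y : ℝ) : ℝ :=
  s * w * Y * (x * y * (-4 * a ^ (3 : ℕ) * b ^ (3 : ℕ) - 4 * a ^ (2 : ℕ) * b ^ (4 : ℕ) - 4 * a ^ (2 : ℕ) * b ^ (3 : ℕ)) + x ^ (2 : ℕ) *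
    (-8 * a ^ (4 : ℕ) * b ^ (2 : ℕ) - 8 * a ^ (3 : ℕ) * b ^ (3 : ℕ) - 8 * a ^ (3 : ℕ) * b ^ (2 : ℕ)))

/-- Part of the value of `lGG` on the field U. -/
def UGG_6_0 (a b x y s w X : ℝ) : ℝ :=
  s * w * X * (y ^ (2 : ℕ) * (-8 * a ^ (3 : ℕ) * b ^ (3 : ℕ) - 8 * a ^ (2 : ℕ) * b ^ (4 : ℕ) - 8 * a ^ (2 : ℕ) * b ^ (3 : ℕ)) + x * y *
    (-4 * a ^ (4 : ℕ) * b ^ (2 : ℕ) - 4 * a ^ (3 : ℕ) * b ^ (3 : ℕ) - 4 * a ^ (3 : ℕ) * b ^ (2 : ℕ)))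

theorem U_lGG (h : Pt N p q a b R x y z s w) :
    let X := dxR N p q x y z w
    let Y := dyR N p q x y z w
    pairFun (lGG (⟨a, b, x, y⟩ : Frame) N p q) N p q x y (regFld N p q R x y s w 0)
      (regVel N p q R x y z s w w₁ 0) =
      (UGG_0_0 a b x y + UGG_0_1 a b x y + UGG_1_0 a b x y Y + UGG_2_0 a b x y X + UGG_3_0 a b x
        y s w₁ + UGG_4_0 a b x y s w + UGG_5_0 a b x y s w Y + UGG_6_0 a b x y s w X) / (16 * x ^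
        3 * y ^ (3 : ℕ) * (a * x + b * y) ^ (4 : ℕ) * (b * y - a * x)) := by
  have e := fun f f' => lGG_lin h f f'
  obtain ⟨-, -, er⟩ := h.lam_eq
  intro X Y
  rw [e]
  obtain ⟨rfl, rfl, rfl, a0, b0, M0, x0, y0, s0, D0, E0, hz⟩ := h
  subst hz
  obtain ⟨D, hD⟩ : ∃ D, D = a * x + b * y := ⟨_, rfl⟩
  obtain ⟨E, hE⟩ : ∃ E, E = b * y - a * x := ⟨_, rfl⟩
  rw [← hD] at D0
  rw [← hE] at E0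
  simp only [← hE] at er
  simp only [GGL0, GGL1, GGL2, GGL4, GGL5, GGL6, UGG_0_0, UGG_0_1, UGG_1_0, UGG_2_0, UGG_3_0, UGG_4_0, UGG_5_0, UGG_6_0, regVel, regFld, orbAt, Orb.cBase, Orb.shapeU, shapeG, Orb.shapeT, shapeW, er,
    Pi.add_apply, Pi.sub_apply, Pi.smul_apply, Pi.zero_apply, smul_eq_mul, Matrix.cons_val,
    sub_add_cancel, one_div_one_div, one_div_div, mul_one, one_mul, mul_zero, zero_mul, add_zero,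
    zero_add, sub_zero, neg_zero, zero_div, div_one, ← hD, ← hE, X, Y]
  all_goals
    (try simp only [← hD, ← hE])
    (try generalize dxR _ _ _ x y _ w = X')
    (try generalize dyR _ _ _ x y _ w = Y')
    (try field_simp)
  all_goals
    subst hD hE
    (try ring)

/-- Part of the value of `lLG` on the field U. -/
def ULG_0_0 (a b x y : ℝ) : ℝ :=
  (x * y ^ (3 : ℕ) * (-4 * a ^ (2 : ℕ) * b - 8 * a * b ^ (2 : ℕ) + 4 * a * b - 4 * b ^ (3 : ℕ) + 4 * b ^ (2 : ℕ) + 8 * b) + x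
    ^ (2 : ℕ) * y ^ (2 : ℕ) * (-4 * a ^ (3 : ℕ) - 12 * a ^ (2 : ℕ) * b - 4 * a ^ (2 : ℕ) - 12 * a * b ^ (2 : ℕ) - 8 * a * b + 16 * a -
    4 * b ^ (3 : ℕ) - 4 * b ^ (2 : ℕ) + 16 * b + 16) + x ^ (3 : ℕ) * y * (-4 * a ^ (3 : ℕ) - 8 * a ^ (2 : ℕ) * b + 4 * a ^ (2 : ℕ) - 4
    * a * b ^ (2 : ℕ) + 4 * a * b + 8 * a))

/-- Part of the value of `lLG` on the field U. -/
def ULG_1_0 (a b x y w R : ℝ) : ℝ :=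
  w * R * (x * y ^ (2 : ℕ) * (-4 * a ^ (3 : ℕ) + 12 * a ^ (2 : ℕ) + 12 * a * b ^ (2 : ℕ) + 4 * a * b + 8 * a + 8 * b ^ (3 : ℕ)
    - 8 * b ^ (2 : ℕ) - 24 * b - 8) + x ^ (2 : ℕ) * y * (4 * a ^ (3 : ℕ) + 8 * a ^ (2 : ℕ) * b - 4 * a ^ (2 : ℕ) + 4 * a * b ^ (2 : ℕ)
    - 4 * a * b - 8 * a))

/-- Part of the value of `lLG` on the field U. -/
def ULG_2_0 (a b x y s w : ℝ) : ℝ :=
  s * w * (y * (-a ^ (2 : ℕ) * b - 2 * a * b ^ (2 : ℕ) + a * b - b ^ (3 : ℕ) + b ^ (2 : ℕ) + 2 * b) + x * (a ^ (3 : ℕ) + 2 * a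
    ^ (2 : ℕ) * b - a ^ (2 : ℕ) + a * b ^ (2 : ℕ) - a * b - 2 * a))

/-- Part of the value of `lLG` on the field U. -/
def ULG_3_0 (a b s w R : ℝ) : ℝ :=
  s * w ^ (2 : ℕ) * R * ((-a ^ (3 : ℕ) - 2 * a ^ (2 : ℕ) * b + a ^ (2 : ℕ) - a * b ^ (2 : ℕ) + a * b + 2 * a))

theorem U_lLG (h : Pt N p q a b R x y z s w) :
    let X := dxR N p q x y z w
    let Y := dyR N p q x y z w
    pairFun (lLG (⟨a, b, x, y⟩ : Frame) N p q z) N p q x y (regFld N p q R x y s w 0)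
      (regVel N p q R x y z s w w₁ 0) =
      (ULG_0_0 a b x y + ULG_1_0 a b x y w R + ULG_2_0 a b x y s w + ULG_3_0 a b s w R) / (16 *
        x ^ (2 : ℕ) * y ^ (3 : ℕ) * (a * x + b * y)) := by
  have e := fun f f' => lLG_lin h f f'
  obtain ⟨-, -, er⟩ := h.lam_eq
  intro X Y
  rw [e]
  obtain ⟨rfl, rfl, rfl, a0, b0, M0, x0, y0, s0, D0, E0, hz⟩ := h
  subst hz
  obtain ⟨D, hD⟩ : ∃ D, D = a * x + b * y := ⟨_, rfl⟩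
  obtain ⟨E, hE⟩ : ∃ E, E = b * y - a * x := ⟨_, rfl⟩
  rw [← hD] at D0
  rw [← hE] at E0
  simp only [← hE] at er
  simp only [LGL0, LGL1, LGL2, LGL3, LGL4, LGL7, ULG_0_0, ULG_1_0, ULG_2_0, ULG_3_0, regVel, regFld, orbAt, Orb.cBase, Orb.shapeU, shapeG, Orb.shapeT, shapeW, er,
    Pi.add_apply, Pi.sub_apply, Pi.smul_apply, Pi.zero_apply, smul_eq_mul, Matrix.cons_val,
    sub_add_cancel, one_div_one_div, one_div_div, mul_one, one_mul, mul_zero, zero_mul, add_zero,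
    zero_add, sub_zero, neg_zero, zero_div, div_one, ← hD, ← hE, X, Y]
  all_goals
    (try simp only [← hD, ← hE])
    (try generalize dxR _ _ _ x y _ w = X')
    (try generalize dyR _ _ _ x y _ w = Y')
    (try field_simp)
  all_goals
    subst hD hE
    (try ring)

end Vale.Agent.P100.Calib.Bridge
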