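import Mathlib
import Vale.Agent.P100.Calib.SlabBridgeFld
import Vale.Agent.P100.Calib.SlabBridgeU
import Vale.Agent.P100.Calib.SlabBridgeFldG

/-!
# The parts of the family in closed form
-/

set_option linter.unusedVariables false
set_option linter.unusedSimpArgs false

namespace Vale.Agent.P100.Calib.Bridge

variable {a b R x y s w w₁ e k : ℝ}

/-- `dx/dR` through the two relations of the orbit. -/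
noncomputable def solX (a b x y s w : ℝ) : ℝ :=
  (x * (a * x ^ (2 : ℕ) + b * y ^ (2 : ℕ) - x * y) - b * (x * y * (y - x) + s * w / 4)) / (a * x + b * y)

/-- `dy/dR` through the two relations of the orbit. -/
noncomputable def solY (a b x y s w : ℝ) : ℝ :=
  (a * (x * y * (y - x) + s * w / 4) + y * (a * x ^ (2 : ℕ) + b * y ^ (2 : ℕ) - x * y)) / (a * x + b * y)

/-- `σ`. -/
noncomputable def sgm (x y s w : ℝ) : ℝ := 2 * (y - x) + s * w / (2 * (x * y))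

/-- The shift of the `u` number for `c = 1`, and `z d/dz` of it. -/
noncomputable def cU (a b x y s w : ℝ) : ℝ :=
  sgm x y s w * (b * y - a * x) / (4 * (a * x + b * y) ^ (2 : ℕ))

/-- The `R`-derivative of `σ`. -/
noncomputable def sgm' (b x y s w w₁ X Y : ℝ) : ℝ :=
  2 * (Y - X) + ((s * (y - (1 / b - 1) * x) * w + s * w₁) * (x * y) -
    s * w * (X * y + x * Y)) / (2 * (x * y) ^ (2 : ℕ))

/-- `z d/dz` of `cU`. -/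
noncomputable def cU' (a b x y s w w₁ X Y : ℝ) : ℝ :=
  -(a * b) / (b * y - a * x) *
    ((sgm' b x y s w w₁ X Y * (b * y - a * x) + sgm x y s w * (b * Y - a * X)) * (a * x + b * y) -
      2 * sgm x y s w * (b * y - a * x) * (a * X + b * Y)) / (4 * (a * x + b * y) ^ (3 : ℕ))

/-- The shift of the `g` number for `c = 1`. -/
noncomputable def cG (a b x y s w : ℝ) : ℝ :=
  -(sgm x y s w * (a * b) * (1 - (1 - a - b) / 2) / (2 * (a * x + b * y)))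

/-- `z d/dz` of `cG`. -/
noncomputable def cG' (a b x y s w w₁ X Y : ℝ) : ℝ :=
  -(-(a * b) / (b * y - a * x) * (a * b) * (1 - (1 - a - b) / 2) *
    (sgm' b x y s w w₁ X Y * (a * x + b * y) - sgm x y s w * (a * X + b * Y)) /
      (2 * (a * x + b * y) ^ (2 : ℕ)))

/-- The multiplier part, with `e = N ω`. -/
noncomputable def wP (a b x y s e : ℝ) : ℝ := e * ((1 - a - b) / 2) * s / (2 * (a * x + b * y))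

/-- `z d/dz` of `wP`, with `k = z N ω'`. -/
noncomputable def wP' (a b x y s e k X Y : ℝ) : ℝ :=
  -(a * b) / (b * y - a * x) * (e * ((1 - a - b) / 2)) *
      (s * (y - (1 / b - 1) * x) * (a * x + b * y) - s * (a * X + b * Y)) /
      (2 * (a * x + b * y) ^ (2 : ℕ)) + k * ((1 - a - b) / 2) * s / (2 * (a * x + b * y))

/-- `P V`, `V = (b y - a x)/D`. -/
noncomputable def wV (a b x y s e : ℝ) : ℝ := wP a b x y s e * ((b * y - a * x) / (a * x + b * y))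

/-- `z d/dz` of `P V`. -/
noncomputable def wV' (a b x y s e k X Y : ℝ) : ℝ :=
  wP' a b x y s e k X Y * ((b * y - a * x) / (a * x + b * y)) +
    wP a b x y s e * (-(a * b) / (b * y - a * x) *
      ((b * Y - a * X) * (a * x + b * y) - (b * y - a * x) * (a * X + b * Y)) /
        (a * x + b * y) ^ (2 : ℕ))

/-- The `c` part of `gM`. -/
def rcgM : ℝ := 0

/-- The `c` part of `gE`. -/
noncomputable def rcgE (a b x y s w : ℝ) : ℝ :=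
  (s * w * ((-a - b - 1))) / (4 * x * y * (a * x + b * y) ^ (2 : ℕ))

theorem rcgE_sum (a0 : a ≠ 0) (b0 : b ≠ 0) (x0 : x ≠ 0) (y0 : y ≠ 0) (s0 : s ≠ 0)
    (D0 : a * x + b * y ≠ 0) (E0 : b * y - a * x ≠ 0) :
    let X := solX a b x y s w
    let Y := solY a b x y s w
    1 * (((x * y ^ (2 : ℕ) * (4) + x ^ (2 : ℕ) * y * (-4)) + Y * (x * (-4)) + X * (y * (4)) + s * w * ((-a -
      b))) / (4 * x * y * (a * x + b * y) ^ (2 : ℕ))) = rcgE a b x y s w := by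
  intro X Y
  simp only [rcgE, X, Y, solX, solY, sgm, sgm', cU, cU', cG, cG', wP, wP', wV, wV']
  obtain ⟨D, hD⟩ : ∃ D, D = a * x + b * y := ⟨_, rfl⟩
  obtain ⟨E, hE⟩ : ∃ E, E = b * y - a * x := ⟨_, rfl⟩
  rw [← hD] at D0
  rw [← hE] at E0
  (try simp only [← hD, ← hE])
  (try field_simp)
  all_goals
    subst hD hE
    ring

/-- The `c` part of `gG`. -/
noncomputable def rcgG (a b x y s w : ℝ) : ℝ :=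
  ((x * y ^ (2 : ℕ) * (-2 * a ^ (2 : ℕ) * b - 4 * a * b ^ (2 : ℕ) + 2 * a * b - 2 * b ^ (3 : ℕ) - 2 * b ^ (2 : ℕ)) + x ^ (2 : ℕ) * y
    * (2 * a ^ (3 : ℕ) + 4 * a ^ (2 : ℕ) * b + 2 * a ^ (2 : ℕ) + 2 * a * b ^ (2 : ℕ) - 2 * a * b)) + s * w * ((a * b))) /
    (2 * x * y * (a * x + b * y) ^ (2 : ℕ) * (b * y - a * x))

theorem rcgG_sum (a0 : a ≠ 0) (b0 : b ≠ 0) (x0 : x ≠ 0) (y0 : y ≠ 0) (s0 : s ≠ 0)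
    (D0 : a * x + b * y ≠ 0) (E0 : b * y - a * x ≠ 0) :
    let X := solX a b x y s w
    let Y := solY a b x y s w
    1 * (((x * y ^ (4 : ℕ) * (-4 * a * b ^ (2 : ℕ) - 4 * b ^ (3 : ℕ)) + x ^ (2 : ℕ) * y ^ (3 : ℕ) * (-4 * a * b ^ (2 : ℕ) - 8 * a *
      b - 4 * b ^ (3 : ℕ) - 8 * b ^ (2 : ℕ)) + x ^ (3 : ℕ) * y ^ (2 : ℕ) * (4 * a ^ (3 : ℕ) + 4 * a ^ (2 : ℕ) * b + 8 * a ^ (2 : ℕ) + 8 * a
      * b) + x ^ (4 : ℕ) * y * (4 * a ^ (3 : ℕ) + 4 * a ^ (2 : ℕ) * b)) + Y * (x ^ (2 : ℕ) * y * (16 * a * b)) + X * (x *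
      y ^ (2 : ℕ) * (-16 * a * b)) + s * w * (y ^ (2 : ℕ) * (-a * b ^ (2 : ℕ) - b ^ (3 : ℕ)) + x * y * (2 * a ^ (2 : ℕ) * b + 2
      * a * b ^ (2 : ℕ)) + x ^ (2 : ℕ) * (-a ^ (3 : ℕ) - a ^ (2 : ℕ) * b))) / (8 * x ^ (2 : ℕ) * y ^ (2 : ℕ) * (a * x + b * y) ^ (2 : ℕ) *
      (b * y - a * x))) + ((a + b) * cU a b x y s w) * ((((1))) / (x * y)) = rcgG a b x y s w := by
  intro X Y
  simp only [rcgG, X, Y, solX, solY, sgm, sgm', cU, cU', cG, cG', wP, wP', wV, wV']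
  obtain ⟨D, hD⟩ : ∃ D, D = a * x + b * y := ⟨_, rfl⟩
  obtain ⟨E, hE⟩ : ∃ E, E = b * y - a * x := ⟨_, rfl⟩
  rw [← hD] at D0
  rw [← hE] at E0
  (try simp only [← hD, ← hE])
  (try field_simp)
  all_goals
    subst hD hE
    ring

/-- The `c` part of `hM`. -/
noncomputable def rchM (a b x y s w : ℝ) : ℝ :=
  ((x * y ^ (2 : ℕ) * (-4) + x ^ (2 : ℕ) * y * (4)) + s * w * ((-1))) / (2 * x * y * (a * x + b * y) ^ (2 : ℕ))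

theorem rchM_sum (a0 : a ≠ 0) (b0 : b ≠ 0) (x0 : x ≠ 0) (y0 : y ≠ 0) (s0 : s ≠ 0)
    (D0 : a * x + b * y ≠ 0) (E0 : b * y - a * x ≠ 0) :
    let X := solX a b x y s w
    let Y := solY a b x y s w
    1 * (((x * y ^ (2 : ℕ) * (-4) + x ^ (2 : ℕ) * y * (4)) + Y * (x * (-4)) + X * (y * (4)) + s * w *
      ((-1))) / (4 * x * y * (a * x + b * y) ^ (2 : ℕ))) = rchM a b x y s w := by
  intro X Y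
  simp only [rchM, X, Y, solX, solY, sgm, sgm', cU, cU', cG, cG', wP, wP', wV, wV']
  obtain ⟨D, hD⟩ : ∃ D, D = a * x + b * y := ⟨_, rfl⟩
  obtain ⟨E, hE⟩ : ∃ E, E = b * y - a * x := ⟨_, rfl⟩
  rw [← hD] at D0
  rw [← hE] at E0
  (try simp only [← hD, ← hE])
  (try field_simp)
  all_goals
    subst hD hE
    ring

/-- Part of `rchE`. -/
def rchE_0_0 (a b x y : ℝ) : ℝ :=
  x * y ^ (4 : ℕ) * (4 * b ^ (2 : ℕ)) + x ^ (2 : ℕ) * y ^ (3 : ℕ) * (-4 * a ^ (2 : ℕ) * b - 8 * a * b ^ (2 : ℕ) + 8 * a * b - 4 * b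
    ^ (3 : ℕ) + 4 * b ^ (2 : ℕ) - 4 * b) + x ^ (3 : ℕ) * y ^ (2 : ℕ) * (4 * a ^ (3 : ℕ) + 8 * a ^ (2 : ℕ) * b - 4 * a ^ (2 : ℕ) + 4 * a * b
    ^ (2 : ℕ) - 8 * a * b + 4 * a)

/-- Part of `rchE`. -/
def rchE_0_3 (a x y : ℝ) : ℝ :=
  x ^ (4 : ℕ) * y * (-4 * a ^ (2 : ℕ))

/-- The `c` part of `hEf`. -/
noncomputable def rchE (a b x y s w : ℝ) : ℝ :=
  (rchE_0_0 a b x y + rchE_0_3 a x y + s * w * (y ^ (2 : ℕ) * (-b ^ (2 : ℕ)) + x * y * (4 * a * b) + x ^ (2 : ℕ) *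
    (-a ^ (2 : ℕ)))) / (4 * x ^ (2 : ℕ) * y ^ (2 : ℕ) * (a * x + b * y) ^ (2 : ℕ) * (b * y - a * x))

theorem rchE_sum (a0 : a ≠ 0) (b0 : b ≠ 0) (x0 : x ≠ 0) (y0 : y ≠ 0) (s0 : s ≠ 0)
    (D0 : a * x + b * y ≠ 0) (E0 : b * y - a * x ≠ 0) :
    let X := solX a b x y s w
    let Y := solY a b x y s w
    1 * ((UhE_0_0 a b x y + UhE_1_0 a b x y Y + UhE_2_0 a b x y X + UhE_3_0 a b x y s w) / (8 *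
      x ^ (2 : ℕ) * y ^ (2 : ℕ) * (a * x + b * y) ^ (2 : ℕ) * (b * y - a * x))) + (cU a b x y s w) * ((((2))) / (x *
      y)) + ((a + b) * cU a b x y s w) * ((((1))) / (x * y)) = rchE a b x y s w := by
  intro X Y
  simp only [rchE, rchE_0_0, rchE_0_3, UhE_0_0, UhE_1_0, UhE_2_0, UhE_3_0, X, Y, solX, solY, sgm, sgm', cU, cU', cG, cG', wP, wP', wV, wV']
  obtain ⟨D, hD⟩ : ∃ D, D = a * x + b * y := ⟨_, rfl⟩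
  obtain ⟨E, hE⟩ : ∃ E, E = b * y - a * x := ⟨_, rfl⟩
  rw [← hD] at D0
  rw [← hE] at E0
  (try simp only [← hD, ← hE])
  (try field_simp)
  all_goals
    subst hD hE
    ring

/-- The `c` part of `hG`. -/
noncomputable def rchG (a b x y s w : ℝ) : ℝ :=
  ((x * y ^ (2 : ℕ) * (-2 * a * b ^ (2 : ℕ) - a * b - 2 * b ^ (3 : ℕ) + b ^ (2 : ℕ) - b) + x ^ (2 : ℕ) * y * (2 * a ^ (3 : ℕ) + 2 *
    a ^ (2 : ℕ) * b - a ^ (2 : ℕ) + a * b + a)) + s * w * ((a * b))) / (2 * x ^ (2 : ℕ) * y ^ (2 : ℕ) * (a * x + b * y) ^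
    2)

theorem rchG_sum (a0 : a ≠ 0) (b0 : b ≠ 0) (x0 : x ≠ 0) (y0 : y ≠ 0) (s0 : s ≠ 0)
    (D0 : a * x + b * y ≠ 0) (E0 : b * y - a * x ≠ 0) :
    let X := solX a b x y s w
    let Y := solY a b x y s w
    1 * (((x * y ^ (2 : ℕ) * (4 * a ^ (2 : ℕ) * b - 6 * a * b - 4 * b ^ (3 : ℕ) + 2 * b ^ (2 : ℕ) - 2 * b) + x ^ (2 : ℕ) * y *
      (4 * a ^ (3 : ℕ) - 2 * a ^ (2 : ℕ) - 4 * a * b ^ (2 : ℕ) + 6 * a * b + 2 * a)) + Y * (x * (8 * a * b)) + X *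
      (y * (-8 * a * b)) + s * w * ((a ^ (2 : ℕ) * b + a * b ^ (2 : ℕ) + a * b))) / (4 * x ^ (2 : ℕ) * y ^ (2 : ℕ) * (a *
      x + b * y) ^ (2 : ℕ))) + (cG a b x y s w) * ((((2))) / (x * y * (a * x + b * y))) = rchG a b x y s w := by
  intro X Y
  simp only [rchG, X, Y, solX, solY, sgm, sgm', cU, cU', cG, cG', wP, wP', wV, wV']
  obtain ⟨D, hD⟩ : ∃ D, D = a * x + b * y := ⟨_, rfl⟩
  obtain ⟨E, hE⟩ : ∃ E, E = b * y - a * x := ⟨_, rfl⟩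
  rw [← hD] at D0
  rw [← hE] at E0
  (try simp only [← hD, ← hE])
  (try field_simp)
  all_goals
    subst hD hE
    ring

/-- The `c` part of `lMM`. -/
noncomputable def rcMM (a b x y s w : ℝ) : ℝ :=
  ((x ^ (2 : ℕ) * y ^ (4 : ℕ) * (16 * a + 16 * b + 16) + x ^ (3 : ℕ) * y ^ (3 : ℕ) * (-32 * a - 32 * b - 32) + x ^ (4 : ℕ) * y
    ^ (2 : ℕ) * (16 * a + 16 * b + 16)) + s * w * (x * y ^ (2 : ℕ) * (8 * a + 8 * b + 8) + x ^ (2 : ℕ) * y * (-8 * a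
    - 8 * b - 8)) + s ^ (2 : ℕ) * w ^ (2 : ℕ) * ((a + b + 1))) / (32 * x * y * (a * x + b * y) ^ (4 : ℕ))

theorem rcMM_sum (a0 : a ≠ 0) (b0 : b ≠ 0) (x0 : x ≠ 0) (y0 : y ≠ 0) (s0 : s ≠ 0)
    (D0 : a * x + b * y ≠ 0) (E0 : b * y - a * x ≠ 0) :
    let X := solX a b x y s w
    let Y := solY a b x y s w
    1 * ((Y * (x ^ (2 : ℕ) * y ^ (2 : ℕ) * (4 * a + 4 * b + 4) + x ^ (3 : ℕ) * y * (-4 * a - 4 * b - 4)) + X * (x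
      * y ^ (3 : ℕ) * (-4 * a - 4 * b - 4) + x ^ (2 : ℕ) * y ^ (2 : ℕ) * (4 * a + 4 * b + 4)) + s * w * Y * (x * (a
      + b + 1)) + s * w * X * (y * (-a - b - 1))) / (8 * x * y * (a * x + b * y) ^ (4 : ℕ))) = rcMM a b x y s w := by
  intro X Y
  simp only [rcMM, X, Y, solX, solY, sgm, sgm', cU, cU', cG, cG', wP, wP', wV, wV']
  obtain ⟨D, hD⟩ : ∃ D, D = a * x + b * y := ⟨_, rfl⟩
  obtain ⟨E, hE⟩ : ∃ E, E = b * y - a * x := ⟨_, rfl⟩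
  rw [← hD] at D0
  rw [← hE] at E0
  (try simp only [← hD, ← hE])
  (try field_simp)
  all_goals
    subst hD hE
    ring

/-- Part of `rcME`. -/
def rcME_0_0 (a b x y : ℝ) : ℝ :=
  x ^ (2 : ℕ) * y ^ (6 : ℕ) * (-16 * a * b ^ (3 : ℕ) - 16 * b ^ (4 : ℕ) - 16 * b ^ (3 : ℕ)) + x ^ (3 : ℕ) * y ^ (5 : ℕ) * (16 * a ^ (3 : ℕ) * b
    ^ (2 : ℕ) + 48 * a ^ (2 : ℕ) * b ^ (3 : ℕ) - 16 * a ^ (2 : ℕ) * b ^ (2 : ℕ) + 48 * a * b ^ (4 : ℕ) - 16 * a * b ^ (2 : ℕ) + 16 * b ^ (5 : ℕ) +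
    16 * b ^ (4 : ℕ) + 16 * b ^ (3 : ℕ) + 16 * b ^ (2 : ℕ)) + x ^ (4 : ℕ) * y ^ (4 : ℕ) * (-16 * a ^ (4 : ℕ) * b - 64 * a ^ (3 : ℕ) * b ^ (2 : ℕ)
    - 96 * a ^ (2 : ℕ) * b ^ (3 : ℕ) + 32 * a ^ (2 : ℕ) * b ^ (2 : ℕ) - 64 * a * b ^ (4 : ℕ) + 32 * a * b ^ (3 : ℕ) + 32 * a * b ^ (2 : ℕ) -
    16 * a * b - 16 * b ^ (5 : ℕ) - 16 * b ^ (2 : ℕ))

/-- Part of `rcME`. -/
def rcME_0_3 (a b x y : ℝ) : ℝ :=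
  x ^ (5 : ℕ) * y ^ (3 : ℕ) * (16 * a ^ (4 : ℕ) * b + 48 * a ^ (3 : ℕ) * b ^ (2 : ℕ) + 16 * a ^ (3 : ℕ) * b + 48 * a ^ (2 : ℕ) * b ^ (3 : ℕ) +
    16 * a ^ (2 : ℕ) * b + 16 * a * b ^ (4 : ℕ) - 16 * a * b ^ (3 : ℕ) - 16 * a * b ^ (2 : ℕ) + 16 * a * b) + x ^ (6 : ℕ) * y ^
    2 * (-16 * a ^ (3 : ℕ) * b - 16 * a ^ (2 : ℕ) * b ^ (2 : ℕ) - 16 * a ^ (2 : ℕ) * b)

/-- Part of `rcME`. -/
def rcME_2_0 (a b x y : ℝ) : ℝ :=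
  x * y ^ (4 : ℕ) * (-4 * a ^ (2 : ℕ) * b ^ (3 : ℕ) - 8 * a * b ^ (4 : ℕ) - 8 * a * b ^ (3 : ℕ) - 4 * b ^ (5 : ℕ) - 8 * b ^ (4 : ℕ) - 4 *
    b ^ (3 : ℕ)) + x ^ (2 : ℕ) * y ^ (3 : ℕ) * (4 * a ^ (3 : ℕ) * b ^ (2 : ℕ) + 8 * a ^ (2 : ℕ) * b ^ (3 : ℕ) - 8 * a ^ (2 : ℕ) * b ^ (2 : ℕ) + 4 * a *
    b ^ (4 : ℕ) - 8 * a * b ^ (3 : ℕ) + 12 * b ^ (3 : ℕ) + 12 * b ^ (2 : ℕ)) + x ^ (3 : ℕ) * y ^ (2 : ℕ) * (-4 * a ^ (3 : ℕ) * b ^ (2 : ℕ) - 8 * a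
    ^ (2 : ℕ) * b ^ (3 : ℕ) + 8 * a ^ (2 : ℕ) * b ^ (2 : ℕ) - 16 * a ^ (2 : ℕ) * b - 4 * a * b ^ (4 : ℕ) + 8 * a * b ^ (3 : ℕ) - 4 * a * b ^
    2 - 16 * a * b)

/-- Part of `rcME`. -/
def rcME_2_3 (a b x y : ℝ) : ℝ :=
  x ^ (4 : ℕ) * y * (4 * a ^ (4 : ℕ) * b + 8 * a ^ (3 : ℕ) * b ^ (2 : ℕ) + 8 * a ^ (3 : ℕ) * b + 4 * a ^ (3 : ℕ) + 4 * a ^ (2 : ℕ) * b ^ (3 : ℕ)
    + 8 * a ^ (2 : ℕ) * b ^ (2 : ℕ) + 8 * a ^ (2 : ℕ) * b + 4 * a ^ (2 : ℕ))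

/-- The `c` part of `lME`. -/
noncomputable def rcME (a b x y s w w₁ : ℝ) : ℝ :=
  (rcME_0_0 a b x y + rcME_0_3 a b x y + s * w₁ * (x * y ^ (3 : ℕ) * (4 * a * b ^ (3 : ℕ) + 4 * b ^ (4 : ℕ) + 4 *
    b ^ (3 : ℕ)) + x ^ (3 : ℕ) * y * (-4 * a ^ (3 : ℕ) * b - 4 * a ^ (2 : ℕ) * b ^ (2 : ℕ) - 4 * a ^ (2 : ℕ) * b)) + s * w * rcME_2_0
    a b x y + s * w * rcME_2_3 a b x y + s ^ (2 : ℕ) * w ^ (2 : ℕ) * (y ^ (2 : ℕ) * (a * b ^ (3 : ℕ) + b ^ (4 : ℕ) + b ^ (3 : ℕ)) + x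
    * y * (-4 * a ^ (2 : ℕ) * b ^ (2 : ℕ) - 4 * a * b ^ (3 : ℕ) - 4 * a * b ^ (2 : ℕ)) + x ^ (2 : ℕ) * (a ^ (3 : ℕ) * b + a ^ (2 : ℕ) * b ^
    2 + a ^ (2 : ℕ) * b))) / (32 * x ^ (2 : ℕ) * y ^ (2 : ℕ) * b * (a * x + b * y) ^ (4 : ℕ) * (b * y - a * x))

theorem rcME_sum (a0 : a ≠ 0) (b0 : b ≠ 0) (x0 : x ≠ 0) (y0 : y ≠ 0) (s0 : s ≠ 0)
    (D0 : a * x + b * y ≠ 0) (E0 : b * y - a * x ≠ 0) :
    let X := solX a b x y s w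
    let Y := solY a b x y s w
    1 * ((UME_0_0 a b x y + UME_0_1 a b x y + UME_1_0 a b x y Y + UME_2_0 a b x y X + UME_3_0 a
      b x y s w₁ + UME_4_0 a b x y s w + UME_5_0 a b x y s w Y + UME_6_0 a b x y s w X) / (16 * x
      ^ (2 : ℕ) * y ^ (2 : ℕ) * b * (a * x + b * y) ^ (4 : ℕ) * (b * y - a * x))) + (cU a b x y s w) * (((x * y ^ (2 : ℕ)
      * (-a - b + 1) + x ^ (2 : ℕ) * y * (a + b - 1)) + Y * (x * (-2)) + X * (y * (2))) / (x * y * (a *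
      x + b * y) ^ (2 : ℕ))) + ((a + b) * cU a b x y s w) * (((x * y ^ (2 : ℕ) * (-a - b + 3) + x ^ (2 : ℕ) * y * (a
      + b - 3)) + Y * (x * (-4)) + X * (y * (4))) / (2 * x * y * (a * x + b * y) ^ (2 : ℕ))) = rcME a b x y s w w₁ := by
  intro X Y
  simp only [rcME, rcME_0_0, rcME_0_3, rcME_2_0, rcME_2_3, UME_0_0, UME_0_1, UME_1_0, UME_2_0, UME_3_0, UME_4_0, UME_5_0, UME_6_0, X, Y, solX, solY, sgm, sgm', cU, cU', cG, cG', wP, wP', wV, wV']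
  obtain ⟨D, hD⟩ : ∃ D, D = a * x + b * y := ⟨_, rfl⟩
  obtain ⟨E, hE⟩ : ∃ E, E = b * y - a * x := ⟨_, rfl⟩
  rw [← hD] at D0
  rw [← hE] at E0
  (try simp only [← hD, ← hE])
  (try field_simp)
  all_goals
    subst hD hE
    ring

/-- Part of `rcMG`. -/
def rcMG_0_0 (a b x y : ℝ) : ℝ :=
  x ^ (2 : ℕ) * y ^ (5 : ℕ) * (-8 * a ^ (3 : ℕ) * b ^ (2 : ℕ) - 16 * a ^ (2 : ℕ) * b ^ (3 : ℕ) + 20 * a ^ (2 : ℕ) * b ^ (2 : ℕ) - 8 * a * b ^ (4 : ℕ)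
    + 8 * a * b ^ (3 : ℕ) - 8 * a * b ^ (2 : ℕ) - 12 * b ^ (4 : ℕ) + 16 * b ^ (3 : ℕ) - 4 * b ^ (2 : ℕ)) + x ^ (3 : ℕ) * y ^ (4 : ℕ) * (-24
    * a ^ (3 : ℕ) * b - 8 * a ^ (2 : ℕ) * b ^ (3 : ℕ) - 68 * a ^ (2 : ℕ) * b ^ (2 : ℕ) + 16 * a ^ (2 : ℕ) * b - 16 * a * b ^ (4 : ℕ) - 32 *
    a * b ^ (3 : ℕ) + 32 * a * b ^ (2 : ℕ) + 8 * a * b - 8 * b ^ (5 : ℕ) + 12 * b ^ (4 : ℕ) - 8 * b ^ (3 : ℕ) + 4 * b ^ (2 : ℕ)) + x ^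
    4 * y ^ (3 : ℕ) * (8 * a ^ (5 : ℕ) + 16 * a ^ (4 : ℕ) * b - 12 * a ^ (4 : ℕ) + 8 * a ^ (3 : ℕ) * b ^ (2 : ℕ) + 32 * a ^ (3 : ℕ) * b + 8
    * a ^ (3 : ℕ) + 68 * a ^ (2 : ℕ) * b ^ (2 : ℕ) - 32 * a ^ (2 : ℕ) * b - 4 * a ^ (2 : ℕ) + 24 * a * b ^ (3 : ℕ) - 16 * a * b ^ (2 : ℕ) -
    8 * a * b)

/-- Part of `rcMG`. -/
def rcMG_0_3 (a b x y : ℝ) : ℝ :=
  x ^ (5 : ℕ) * y ^ (2 : ℕ) * (8 * a ^ (4 : ℕ) * b + 12 * a ^ (4 : ℕ) + 16 * a ^ (3 : ℕ) * b ^ (2 : ℕ) - 8 * a ^ (3 : ℕ) * b - 16 * a ^ (3 : ℕ)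
    + 8 * a ^ (2 : ℕ) * b ^ (3 : ℕ) - 20 * a ^ (2 : ℕ) * b ^ (2 : ℕ) + 8 * a ^ (2 : ℕ) * b + 4 * a ^ (2 : ℕ))

/-- Part of `rcMG`. -/
def rcMG_2_0 (a b x y : ℝ) : ℝ :=
  x * y ^ (3 : ℕ) * (9 * a ^ (2 : ℕ) * b ^ (2 : ℕ) + 6 * a * b ^ (3 : ℕ) - 8 * a * b ^ (2 : ℕ) - 3 * b ^ (4 : ℕ) + 4 * b ^ (3 : ℕ) - b ^
    2) + x ^ (2 : ℕ) * y ^ (2 : ℕ) * (-6 * a ^ (3 : ℕ) * b - 12 * a ^ (2 : ℕ) * b ^ (2 : ℕ) - 4 * a ^ (2 : ℕ) * b - 6 * a * b ^ (3 : ℕ) - 4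
    * a * b ^ (2 : ℕ) + 10 * a * b) + x ^ (3 : ℕ) * y * (-3 * a ^ (4 : ℕ) + 6 * a ^ (3 : ℕ) * b + 8 * a ^ (3 : ℕ) + 9 * a ^ (2 : ℕ) *
    b ^ (2 : ℕ) - 4 * a ^ (2 : ℕ) * b - 5 * a ^ (2 : ℕ))

/-- The `c` part of `lMG`. -/
noncomputable def rcMG (a b x y s w w₁ : ℝ) : ℝ :=
  (rcMG_0_0 a b x y + rcMG_0_3 a b x y + s * w₁ * (x * y ^ (2 : ℕ) * (-4 * a ^ (2 : ℕ) * b ^ (2 : ℕ) - 4 * a * b ^
    3 + 4 * a * b ^ (2 : ℕ)) + x ^ (2 : ℕ) * y * (-4 * a ^ (3 : ℕ) * b - 4 * a ^ (2 : ℕ) * b ^ (2 : ℕ) + 4 * a ^ (2 : ℕ) * b)) + s * w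
    * rcMG_2_0 a b x y + s ^ (2 : ℕ) * w ^ (2 : ℕ) * (y * (-a ^ (2 : ℕ) * b ^ (2 : ℕ) - a * b ^ (3 : ℕ) + a * b ^ (2 : ℕ)) + x * (a ^
    3 * b + a ^ (2 : ℕ) * b ^ (2 : ℕ) - a ^ (2 : ℕ) * b))) / (16 * x ^ (2 : ℕ) * y ^ (2 : ℕ) * (a * x + b * y) ^ (4 : ℕ) * (b * y - a
    * x))

theorem rcMG_sum (a0 : a ≠ 0) (b0 : b ≠ 0) (x0 : x ≠ 0) (y0 : y ≠ 0) (s0 : s ≠ 0)
    (D0 : a * x + b * y ≠ 0) (E0 : b * y - a * x ≠ 0) :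
    let X := solX a b x y s w
    let Y := solY a b x y s w
    1 * ((UMG_0_0 a b x y + UMG_0_1 a b x y + UMG_1_0 a b x y Y + UMG_2_0 a b x y X + UMG_3_0 a
      b x y s w₁ + UMG_4_0 a b x y s w + UMG_4_1 a b x y s w + UMG_5_0 a b x y s w Y + UMG_6_0 a b
      x y s w X) / (16 * x ^ (3 : ℕ) * y ^ (3 : ℕ) * b * (a * x + b * y) ^ (4 : ℕ) * (b * y - a * x))) + (cU a b x y
      s w) * (((x * y ^ (3 : ℕ) * (b) + x ^ (2 : ℕ) * y ^ (2 : ℕ) * (a + b - 1) + x ^ (3 : ℕ) * y * (a)) + Y * (x * y *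
      (-b) + x ^ (2 : ℕ) * (a)) + X * (y ^ (2 : ℕ) * (b) + x * y * (-a))) / (x ^ (2 : ℕ) * y ^ (2 : ℕ) * (a * x + b * y) ^
      2)) + (cU' a b x y s w w₁ X Y) * (((y * (b) + x * (-a))) / (x * y * a * b * (a * x + b *
      y))) + ((a + b) * cU a b x y s w) * (((y ^ (3 : ℕ) * (a * b ^ (2 : ℕ) + b ^ (3 : ℕ) - b ^ (2 : ℕ)) + x * y ^ (2 : ℕ) * (-a
      ^ (2 : ℕ) * b - a * b ^ (2 : ℕ) + a * b) + x ^ (2 : ℕ) * y * (a ^ (2 : ℕ) * b + a * b ^ (2 : ℕ) - a * b) + x ^ (3 : ℕ) * (-a ^ (3 : ℕ)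
      - a ^ (2 : ℕ) * b + a ^ (2 : ℕ))) + Y * (x * (4 * a * b)) + X * (y * (-4 * a * b))) / (2 * x * y * (a *
      x + b * y) ^ (2 : ℕ) * (b * y - a * x))) + (cG a b x y s w) * (((x * y ^ (2 : ℕ) * (-a - b + 2) + x ^ (2 : ℕ)
      * y * (a + b - 2)) + Y * (x * (-1)) + X * (y * (1))) / (x * y * (a * x + b * y) ^ (3 : ℕ))) = rcMG a b x y s w w₁ := by
  intro X Y
  simp only [rcMG, rcMG_0_0, rcMG_0_3, rcMG_2_0, UMG_0_0, UMG_0_1, UMG_1_0, UMG_2_0, UMG_3_0, UMG_4_0, UMG_4_1, UMG_5_0, UMG_6_0, X, Y, solX, solY, sgm, sgm', cU, cU', cG, cG', wP, wP', wV, wV']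
  obtain ⟨D, hD⟩ : ∃ D, D = a * x + b * y := ⟨_, rfl⟩
  obtain ⟨E, hE⟩ : ∃ E, E = b * y - a * x := ⟨_, rfl⟩
  rw [← hD] at D0
  rw [← hE] at E0
  (try simp only [← hD, ← hE])
  (try field_simp)
  all_goals
    subst hD hE
    ring

/-- Part of `rcEE`. -/
def rcEE_0_0 (a b x y : ℝ) : ℝ :=
  x ^ (2 : ℕ) * y ^ (5 : ℕ) * (-8 * a ^ (2 : ℕ) * b ^ (2 : ℕ) - 8 * a * b ^ (3 : ℕ) + 12 * a * b ^ (2 : ℕ) - 12 * b ^ (3 : ℕ) + 4 * b ^ (2 : ℕ))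
    + x ^ (3 : ℕ) * y ^ (4 : ℕ) * (-8 * a ^ (4 : ℕ) * b - 32 * a ^ (3 : ℕ) * b ^ (2 : ℕ) + 8 * a ^ (3 : ℕ) * b - 48 * a ^ (2 : ℕ) * b ^ (3 : ℕ) +
    24 * a ^ (2 : ℕ) * b ^ (2 : ℕ) - 8 * a ^ (2 : ℕ) * b - 32 * a * b ^ (4 : ℕ) + 16 * a * b ^ (3 : ℕ) - 12 * a * b ^ (2 : ℕ) - 8 * a
    * b - 8 * b ^ (5 : ℕ) + 20 * b ^ (3 : ℕ) - 4 * b ^ (2 : ℕ)) + x ^ (4 : ℕ) * y ^ (3 : ℕ) * (8 * a ^ (5 : ℕ) + 32 * a ^ (4 : ℕ) * b + 48 *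
    a ^ (3 : ℕ) * b ^ (2 : ℕ) - 16 * a ^ (3 : ℕ) * b - 20 * a ^ (3 : ℕ) + 32 * a ^ (2 : ℕ) * b ^ (3 : ℕ) - 24 * a ^ (2 : ℕ) * b ^ (2 : ℕ) + 12 * a
    ^ (2 : ℕ) * b + 4 * a ^ (2 : ℕ) + 8 * a * b ^ (4 : ℕ) - 8 * a * b ^ (3 : ℕ) + 8 * a * b ^ (2 : ℕ) + 8 * a * b)

/-- Part of `rcEE`. -/
def rcEE_0_3 (a b x y : ℝ) : ℝ :=
  x ^ (5 : ℕ) * y ^ (2 : ℕ) * (8 * a ^ (3 : ℕ) * b + 12 * a ^ (3 : ℕ) + 8 * a ^ (2 : ℕ) * b ^ (2 : ℕ) - 12 * a ^ (2 : ℕ) * b - 4 * a ^ (2 : ℕ))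

/-- Part of `rcEE`. -/
def rcEE_2_0 (a b x y : ℝ) : ℝ :=
  x * y ^ (3 : ℕ) * (2 * a ^ (3 : ℕ) * b ^ (2 : ℕ) + 4 * a ^ (2 : ℕ) * b ^ (3 : ℕ) - 2 * a ^ (2 : ℕ) * b ^ (2 : ℕ) + 2 * a * b ^ (4 : ℕ) - 2 * a
    * b ^ (3 : ℕ) + 5 * a * b ^ (2 : ℕ) - 3 * b ^ (3 : ℕ) + b ^ (2 : ℕ)) + x ^ (2 : ℕ) * y ^ (2 : ℕ) * (-2 * a ^ (4 : ℕ) * b - 6 * a ^ (3 : ℕ) * b
    ^ (2 : ℕ) + 2 * a ^ (3 : ℕ) * b - 6 * a ^ (2 : ℕ) * b ^ (3 : ℕ) + 4 * a ^ (2 : ℕ) * b ^ (2 : ℕ) - 2 * a ^ (2 : ℕ) * b - 2 * a * b ^ (4 : ℕ) +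
    2 * a * b ^ (3 : ℕ) - 2 * a * b ^ (2 : ℕ) - 10 * a * b) + x ^ (3 : ℕ) * y * (2 * a ^ (4 : ℕ) * b + 4 * a ^ (3 : ℕ) * b ^ (2 : ℕ) -
    2 * a ^ (3 : ℕ) * b - 3 * a ^ (3 : ℕ) + 2 * a ^ (2 : ℕ) * b ^ (3 : ℕ) - 2 * a ^ (2 : ℕ) * b ^ (2 : ℕ) + 5 * a ^ (2 : ℕ) * b + 5 * a ^ (2 : ℕ))

/-- The `c` part of `lEE`. -/
noncomputable def rcEE (a b x y s w w₁ : ℝ) : ℝ :=
  (rcEE_0_0 a b x y + rcEE_0_3 a b x y + s * w₁ * (x * y ^ (2 : ℕ) * (-4 * a * b ^ (2 : ℕ)) + x ^ (2 : ℕ) * y *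
    (-4 * a ^ (2 : ℕ) * b)) + s * w * rcEE_2_0 a b x y + s ^ (2 : ℕ) * w ^ (2 : ℕ) * (y * (-a * b ^ (2 : ℕ)) + x * (a ^ (2 : ℕ)
    * b))) / (8 * x ^ (2 : ℕ) * y ^ (2 : ℕ) * (a * x + b * y) ^ (4 : ℕ) * (b * y - a * x))

theorem rcEE_sum (a0 : a ≠ 0) (b0 : b ≠ 0) (x0 : x ≠ 0) (y0 : y ≠ 0) (s0 : s ≠ 0)
    (D0 : a * x + b * y ≠ 0) (E0 : b * y - a * x ≠ 0) :
    let X := solX a b x y s w
    let Y := solY a b x y s w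
    1 * ((UEE_0_0 a b x y + UEE_0_1 a b x y + UEE_1_0 a b x y Y + UEE_2_0 a b x y X + UEE_3_0 a
      b x y s w₁ + UEE_4_0 a b x y s w + UEE_4_1 a b x y s w + UEE_5_0 a b x y s w Y + UEE_6_0 a b
      x y s w X) / (8 * x ^ (3 : ℕ) * y ^ (3 : ℕ) * b * (a * x + b * y) ^ (4 : ℕ) * (b * y - a * x))) + (cU a b x y
      s w) * (((x * y ^ (2 : ℕ) * (2 * a ^ (2 : ℕ) * b + 4 * a * b ^ (2 : ℕ) - 2 * a * b + 2 * b ^ (3 : ℕ) - 2 * b ^ (2 : ℕ)) +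
      x ^ (2 : ℕ) * y * (-2 * a ^ (3 : ℕ) - 4 * a ^ (2 : ℕ) * b + 2 * a ^ (2 : ℕ) - 2 * a * b ^ (2 : ℕ) + 2 * a * b)) + Y * (x *
      (4 * a * b)) + X * (y * (-4 * a * b))) / (x * y * (a * x + b * y) ^ (2 : ℕ) * (b * y - a * x))) +
      ((a + b) * cU a b x y s w) * (((x * y ^ (4 : ℕ) * (2 * b ^ (2 : ℕ)) + x ^ (2 : ℕ) * y ^ (3 : ℕ) * (a ^ (2 : ℕ) * b + 2 * a
      * b ^ (2 : ℕ) - 4 * a * b + b ^ (3 : ℕ) - 2 * b ^ (2 : ℕ) - b) + x ^ (3 : ℕ) * y ^ (2 : ℕ) * (-a ^ (3 : ℕ) - 2 * a ^ (2 : ℕ) * b + 2 *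
      a ^ (2 : ℕ) - a * b ^ (2 : ℕ) + 4 * a * b + a) + x ^ (4 : ℕ) * y * (-2 * a ^ (2 : ℕ))) + Y * (x * y ^ (2 : ℕ) * (-b ^ (2 : ℕ)) +
      x ^ (2 : ℕ) * y * (4 * a * b) + x ^ (3 : ℕ) * (-a ^ (2 : ℕ))) + X * (y ^ (3 : ℕ) * (b ^ (2 : ℕ)) + x * y ^ (2 : ℕ) * (-4 * a *
      b) + x ^ (2 : ℕ) * y * (a ^ (2 : ℕ)))) / (x ^ (2 : ℕ) * y ^ (2 : ℕ) * (a * x + b * y) ^ (2 : ℕ) * (b * y - a * x))) + ((a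
      + b) * cU' a b x y s w w₁ X Y) * (((y * (b) + x * (-a))) / (x * y * a * b * (a * x + b *
      y))) + (cG a b x y s w) * ((Y * (x * (-2)) + X * (y * (2))) / (x * y * (a * x + b * y) ^ (3 : ℕ))) = rcEE a b x y s w w₁ := by
  intro X Y
  simp only [rcEE, rcEE_0_0, rcEE_0_3, rcEE_2_0, UEE_0_0, UEE_0_1, UEE_1_0, UEE_2_0, UEE_3_0, UEE_4_0, UEE_4_1, UEE_5_0, UEE_6_0, X, Y, solX, solY, sgm, sgm', cU, cU', cG, cG', wP, wP', wV, wV']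
  obtain ⟨D, hD⟩ : ∃ D, D = a * x + b * y := ⟨_, rfl⟩
  obtain ⟨E, hE⟩ : ∃ E, E = b * y - a * x := ⟨_, rfl⟩
  rw [← hD] at D0
  rw [← hE] at E0
  (try simp only [← hD, ← hE])
  (try field_simp)
  all_goals
    subst hD hE
    ring

/-- Part of `rcEG`. -/
def rcEG_0_0 (a b x y : ℝ) : ℝ :=
  x * y ^ (2 : ℕ) * (8 * a ^ (4 : ℕ) * b + 12 * a ^ (3 : ℕ) * b ^ (2 : ℕ) + 4 * a ^ (3 : ℕ) * b - 12 * a ^ (2 : ℕ) * b ^ (3 : ℕ) + 8 * a ^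
    2 * b ^ (2 : ℕ) - 4 * a ^ (2 : ℕ) * b - 28 * a * b ^ (4 : ℕ) + 4 * a * b ^ (3 : ℕ) + 8 * a * b ^ (2 : ℕ) - 12 * b ^ (5 : ℕ) + 12 *
    b ^ (3 : ℕ)) + x ^ (2 : ℕ) * y * (12 * a ^ (5 : ℕ) + 28 * a ^ (4 : ℕ) * b + 12 * a ^ (3 : ℕ) * b ^ (2 : ℕ) - 4 * a ^ (3 : ℕ) * b - 12 *
    a ^ (3 : ℕ) - 12 * a ^ (2 : ℕ) * b ^ (3 : ℕ) - 8 * a ^ (2 : ℕ) * b ^ (2 : ℕ) - 8 * a ^ (2 : ℕ) * b - 8 * a * b ^ (4 : ℕ) - 4 * a * b ^ (3 : ℕ)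
    + 4 * a * b ^ (2 : ℕ))

/-- The `c` part of `lEG`. -/
noncomputable def rcEG (a b x y s w : ℝ) : ℝ :=
  (rcEG_0_0 a b x y + s * w * ((-a ^ (4 : ℕ) * b - 3 * a ^ (3 : ℕ) * b ^ (2 : ℕ) + a ^ (3 : ℕ) * b - 3 * a ^ (2 : ℕ) * b ^ (3 : ℕ) +
    2 * a ^ (2 : ℕ) * b ^ (2 : ℕ) + 2 * a ^ (2 : ℕ) * b - a * b ^ (4 : ℕ) + a * b ^ (3 : ℕ) + 2 * a * b ^ (2 : ℕ)))) / (8 * x * y * (a
    * x + b * y) ^ (4 : ℕ))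

theorem rcEG_sum (a0 : a ≠ 0) (b0 : b ≠ 0) (x0 : x ≠ 0) (y0 : y ≠ 0) (s0 : s ≠ 0)
    (D0 : a * x + b * y ≠ 0) (E0 : b * y - a * x ≠ 0) :
    let X := solX a b x y s w
    let Y := solY a b x y s w
    1 * ((UEG_0_0 a b x y + UEG_0_1 a b x y + UEG_1_0 a b x y Y + UEG_2_0 a b x y X + UEG_3_0 a
      b x y s w₁ + UEG_4_0 a b x y s w + UEG_4_1 a b x y s w + UEG_5_0 a b x y s w Y + UEG_6_0 a b
      x y s w X) / (16 * x ^ (3 : ℕ) * y ^ (3 : ℕ) * (a * x + b * y) ^ (4 : ℕ) * (b * y - a * x))) + (cU a b x y s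
      w) * (((x * y ^ (2 : ℕ) * (2 * a * b ^ (2 : ℕ) - a * b + 2 * b ^ (3 : ℕ) + b ^ (2 : ℕ) - b) + x ^ (2 : ℕ) * y * (-2 * a ^
      3 - 2 * a ^ (2 : ℕ) * b - a ^ (2 : ℕ) + a * b + a)) + Y * (x * (4 * a * b)) + X * (y * (-4 * a * b))) /
      (2 * x ^ (2 : ℕ) * y ^ (2 : ℕ) * (a * x + b * y) ^ (2 : ℕ))) + (cU' a b x y s w w₁ X Y) * ((((-2))) / (x * y *
      (a * x + b * y))) + ((a + b) * cU a b x y s w) * (((x * y ^ (2 : ℕ) * (-2 * a ^ (2 : ℕ) * b - a * b ^ (2 : ℕ)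
      - 3 * a * b + b ^ (3 : ℕ) - b) + x ^ (2 : ℕ) * y * (-a ^ (3 : ℕ) + a ^ (2 : ℕ) * b + 2 * a * b ^ (2 : ℕ) + 3 * a * b + a))
      + Y * (x * (4 * a * b)) + X * (y * (-4 * a * b))) / (2 * x ^ (2 : ℕ) * y ^ (2 : ℕ) * (a * x + b * y) ^
      2)) + ((a + b) * cU' a b x y s w w₁ X Y) * ((((-2))) / (x * y * (a * x + b * y))) + (cG a b
      x y s w) * (((x * y ^ (4 : ℕ) * (2 * b ^ (2 : ℕ)) + x ^ (2 : ℕ) * y ^ (3 : ℕ) * (2 * a ^ (2 : ℕ) * b + 4 * a * b ^ (2 : ℕ) - 5 *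
      a * b + 2 * b ^ (3 : ℕ) - 3 * b ^ (2 : ℕ) - b) + x ^ (3 : ℕ) * y ^ (2 : ℕ) * (-2 * a ^ (3 : ℕ) - 4 * a ^ (2 : ℕ) * b + 3 * a ^ (2 : ℕ)
      - 2 * a * b ^ (2 : ℕ) + 5 * a * b + a) + x ^ (4 : ℕ) * y * (-2 * a ^ (2 : ℕ))) + Y * (x * y ^ (2 : ℕ) * (-b ^ (2 : ℕ)) + x
      ^ (2 : ℕ) * y * (8 * a * b) + x ^ (3 : ℕ) * (-a ^ (2 : ℕ))) + X * (y ^ (3 : ℕ) * (b ^ (2 : ℕ)) + x * y ^ (2 : ℕ) * (-8 * a * b)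
      + x ^ (2 : ℕ) * y * (a ^ (2 : ℕ)))) / (x ^ (2 : ℕ) * y ^ (2 : ℕ) * (a * x + b * y) ^ (3 : ℕ) * (b * y - a * x))) + (cG' a
      b x y s w w₁ X Y) * (((y * (b) + x * (-a))) / (x * y * a * b * (a * x + b * y) ^ (2 : ℕ))) = rcEG a b x y s w := by
  intro X Y
  simp only [rcEG, rcEG_0_0, UEG_0_0, UEG_0_1, UEG_1_0, UEG_2_0, UEG_3_0, UEG_4_0, UEG_4_1, UEG_5_0, UEG_6_0, X, Y, solX, solY, sgm, sgm', cU, cU', cG, cG', wP, wP', wV, wV']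
  obtain ⟨D, hD⟩ : ∃ D, D = a * x + b * y := ⟨_, rfl⟩
  obtain ⟨E, hE⟩ : ∃ E, E = b * y - a * x := ⟨_, rfl⟩
  rw [← hD] at D0
  rw [← hE] at E0
  (try simp only [← hD, ← hE])
  (try field_simp)
  all_goals
    subst hD hE
    ring

/-- The `c` part of `lGG`. -/
noncomputable def rcGG (a b x y : ℝ) : ℝ :=
  ((y * (-a ^ (2 : ℕ) * b ^ (3 : ℕ) - 2 * a * b ^ (4 : ℕ) - b ^ (5 : ℕ) + b ^ (3 : ℕ)) + x * (-a ^ (5 : ℕ) - 2 * a ^ (4 : ℕ) * b - a ^ (3 : ℕ) *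
    b ^ (2 : ℕ) + a ^ (3 : ℕ)))) / (2 * x * y * (a * x + b * y) ^ (3 : ℕ))

theorem rcGG_sum (a0 : a ≠ 0) (b0 : b ≠ 0) (x0 : x ≠ 0) (y0 : y ≠ 0) (s0 : s ≠ 0)
    (D0 : a * x + b * y ≠ 0) (E0 : b * y - a * x ≠ 0) :
    let X := solX a b x y s w
    let Y := solY a b x y s w
    1 * ((UGG_0_0 a b x y + UGG_0_1 a b x y + UGG_1_0 a b x y Y + UGG_2_0 a b x y X + UGG_3_0 a
      b x y s w₁ + UGG_4_0 a b x y s w + UGG_5_0 a b x y s w Y + UGG_6_0 a b x y s w X) / (16 * x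
      ^ (3 : ℕ) * y ^ (3 : ℕ) * (a * x + b * y) ^ (4 : ℕ) * (b * y - a * x))) + (cU a b x y s w) * ((((-a ^ (2 : ℕ) * b -
      a * b ^ (2 : ℕ)))) / (x * y * (a * x + b * y) ^ (2 : ℕ))) + ((a + b) * cU a b x y s w) * ((((a ^ (3 : ℕ) * b +
      2 * a ^ (2 : ℕ) * b ^ (2 : ℕ) - a ^ (2 : ℕ) * b + a * b ^ (3 : ℕ) - a * b ^ (2 : ℕ)))) / (2 * x * y * (a * x + b * y) ^
      2)) + (cG a b x y s w) * (((x * y ^ (2 : ℕ) * (2 * a * b ^ (2 : ℕ) - 5 * a * b + 2 * b ^ (3 : ℕ) - b ^ (2 : ℕ) - b)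
      + x ^ (2 : ℕ) * y * (-2 * a ^ (3 : ℕ) - 2 * a ^ (2 : ℕ) * b + a ^ (2 : ℕ) + 5 * a * b + a)) + Y * (x * (4 * a * b))
      + X * (y * (-4 * a * b))) / (2 * x ^ (2 : ℕ) * y ^ (2 : ℕ) * (a * x + b * y) ^ (3 : ℕ))) + (cG' a b x y s w w₁
      X Y) * ((((-2))) / (x * y * (a * x + b * y) ^ (2 : ℕ))) = rcGG a b x y := by
  intro X Y
  simp only [rcGG, UGG_0_0, UGG_0_1, UGG_1_0, UGG_2_0, UGG_3_0, UGG_4_0, UGG_5_0, UGG_6_0, X, Y, solX, solY, sgm, sgm', cU, cU', cG, cG', wP, wP', wV, wV']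
  obtain ⟨D, hD⟩ : ∃ D, D = a * x + b * y := ⟨_, rfl⟩
  obtain ⟨E, hE⟩ : ∃ E, E = b * y - a * x := ⟨_, rfl⟩
  rw [← hD] at D0
  rw [← hE] at E0
  (try simp only [← hD, ← hE])
  (try field_simp)
  all_goals
    subst hD hE
    ring

/-- The `c` part of `lLG`. -/
noncomputable def rcLG (a b x y w R : ℝ) : ℝ :=
  ((x * (-a ^ (3 : ℕ) - 3 * a ^ (2 : ℕ) * b - 3 * a * b ^ (2 : ℕ) + 3 * a - b ^ (3 : ℕ) + 3 * b + 2)) + w * R * ((a ^ (2 : ℕ)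
    * b + a ^ (2 : ℕ) + 2 * a * b ^ (2 : ℕ) + b ^ (3 : ℕ) - b ^ (2 : ℕ) - 3 * b - 1))) / (2 * x * y * (a * x + b * y))

theorem rcLG_sum (a0 : a ≠ 0) (b0 : b ≠ 0) (x0 : x ≠ 0) (y0 : y ≠ 0) (s0 : s ≠ 0)
    (D0 : a * x + b * y ≠ 0) (E0 : b * y - a * x ≠ 0) :
    let X := solX a b x y s w
    let Y := solY a b x y s w
    1 * ((ULG_0_0 a b x y + ULG_1_0 a b x y w R + ULG_2_0 a b x y s w + ULG_3_0 a b s w R) / (16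
      * x ^ (2 : ℕ) * y ^ (3 : ℕ) * (a * x + b * y))) + (cU a b x y s w) * (((y * (-b) + x * (-a)) + w * R *
      ((a))) / (x * y ^ (2 : ℕ))) + ((a + b) * cU a b x y s w) * (((y * (a * b + b ^ (2 : ℕ) - b) + x * (a ^ (2 : ℕ)
      + a * b - a)) + w * R * ((-a ^ (2 : ℕ) - a * b + a))) / (2 * x * y ^ (2 : ℕ))) + (cG a b x y s w) * ((w
      * R * ((-a - b + 2))) / (x * y * (a * x + b * y))) = rcLG a b x y w R := by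
  intro X Y
  simp only [rcLG, ULG_0_0, ULG_1_0, ULG_2_0, ULG_3_0, X, Y, solX, solY, sgm, sgm', cU, cU', cG, cG', wP, wP', wV, wV']
  obtain ⟨D, hD⟩ : ∃ D, D = a * x + b * y := ⟨_, rfl⟩
  obtain ⟨E, hE⟩ : ∃ E, E = b * y - a * x := ⟨_, rfl⟩
  rw [← hD] at D0
  rw [← hE] at E0
  (try simp only [← hD, ← hE])
  (try field_simp)
  all_goals
    subst hD hE
    ring

/-- The `v` part of `gM`. -/
def rvgM : ℝ := 0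

/-- The `v` part of `gE`. -/
def rvgE : ℝ := 0

/-- The `v` part of `gG`. -/
noncomputable def rvgG (x y : ℝ) : ℝ :=
  (((1))) / (x * y)

theorem rvgG_sum (a0 : a ≠ 0) (b0 : b ≠ 0) (x0 : x ≠ 0) (y0 : y ≠ 0) (s0 : s ≠ 0)
    (D0 : a * x + b * y ≠ 0) (E0 : b * y - a * x ≠ 0) :
    let X := solX a b x y s w
    let Y := solY a b x y s w
    1 * ((((1))) / (x * y)) = rvgG x y := by
  intro X Y
  simp only [rvgG, X, Y, solX, solY, sgm, sgm', cU, cU', cG, cG', wP, wP', wV, wV']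
  obtain ⟨D, hD⟩ : ∃ D, D = a * x + b * y := ⟨_, rfl⟩
  obtain ⟨E, hE⟩ : ∃ E, E = b * y - a * x := ⟨_, rfl⟩
  rw [← hD] at D0
  rw [← hE] at E0
  (try simp only [← hD, ← hE])
  (try field_simp)
  all_goals
    subst hD hE
    ring

/-- The `v` part of `hM`. -/
def rvhM : ℝ := 0

/-- The `v` part of `hEf`. -/
noncomputable def rvhE (x y : ℝ) : ℝ :=
  (((1))) / (x * y)

theorem rvhE_sum (a0 : a ≠ 0) (b0 : b ≠ 0) (x0 : x ≠ 0) (y0 : y ≠ 0) (s0 : s ≠ 0)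
    (D0 : a * x + b * y ≠ 0) (E0 : b * y - a * x ≠ 0) :
    let X := solX a b x y s w
    let Y := solY a b x y s w
    1 * ((((1))) / (x * y)) = rvhE x y := by
  intro X Y
  simp only [rvhE, X, Y, solX, solY, sgm, sgm', cU, cU', cG, cG', wP, wP', wV, wV']
  obtain ⟨D, hD⟩ : ∃ D, D = a * x + b * y := ⟨_, rfl⟩
  obtain ⟨E, hE⟩ : ∃ E, E = b * y - a * x := ⟨_, rfl⟩
  rw [← hD] at D0
  rw [← hE] at E0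
  (try simp only [← hD, ← hE])
  (try field_simp)
  all_goals
    subst hD hE
    ring

/-- The `v` part of `hG`. -/
def rvhG : ℝ := 0

/-- The `v` part of `lMM`. -/
def rvMM : ℝ := 0

/-- The `v` part of `lME`. -/
noncomputable def rvME (a b x y s w : ℝ) : ℝ :=
  ((x * y ^ (2 : ℕ) * (-a - b - 1) + x ^ (2 : ℕ) * y * (a + b + 1)) + s * w * ((-1))) / (2 * x * y * (a * x
    + b * y) ^ (2 : ℕ))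

theorem rvME_sum (a0 : a ≠ 0) (b0 : b ≠ 0) (x0 : x ≠ 0) (y0 : y ≠ 0) (s0 : s ≠ 0)
    (D0 : a * x + b * y ≠ 0) (E0 : b * y - a * x ≠ 0) :
    let X := solX a b x y s w
    let Y := solY a b x y s w
    1 * (((x * y ^ (2 : ℕ) * (-a - b + 3) + x ^ (2 : ℕ) * y * (a + b - 3)) + Y * (x * (-4)) + X * (y * (4)))
      / (2 * x * y * (a * x + b * y) ^ (2 : ℕ))) = rvME a b x y s w := by
  intro X Y
  simp only [rvME, X, Y, solX, solY, sgm, sgm', cU, cU', cG, cG', wP, wP', wV, wV']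
  obtain ⟨D, hD⟩ : ∃ D, D = a * x + b * y := ⟨_, rfl⟩
  obtain ⟨E, hE⟩ : ∃ E, E = b * y - a * x := ⟨_, rfl⟩
  rw [← hD] at D0
  rw [← hE] at E0
  (try simp only [← hD, ← hE])
  (try field_simp)
  all_goals
    subst hD hE
    ring

/-- The `v` part of `lMG`. -/
noncomputable def rvMG (a b x y s w : ℝ) : ℝ :=
  ((y ^ (3 : ℕ) * (a * b ^ (2 : ℕ) + b ^ (3 : ℕ) - b ^ (2 : ℕ)) + x * y ^ (2 : ℕ) * (-a ^ (2 : ℕ) * b - a * b ^ (2 : ℕ) + 5 * a * b) + x ^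
    2 * y * (a ^ (2 : ℕ) * b + a * b ^ (2 : ℕ) - 5 * a * b) + x ^ (3 : ℕ) * (-a ^ (3 : ℕ) - a ^ (2 : ℕ) * b + a ^ (2 : ℕ))) + s * w *
    ((a * b))) / (2 * x * y * (a * x + b * y) ^ (2 : ℕ) * (b * y - a * x))

theorem rvMG_sum (a0 : a ≠ 0) (b0 : b ≠ 0) (x0 : x ≠ 0) (y0 : y ≠ 0) (s0 : s ≠ 0)
    (D0 : a * x + b * y ≠ 0) (E0 : b * y - a * x ≠ 0) :
    let X := solX a b x y s w
    let Y := solY a b x y s w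
    1 * (((y ^ (3 : ℕ) * (a * b ^ (2 : ℕ) + b ^ (3 : ℕ) - b ^ (2 : ℕ)) + x * y ^ (2 : ℕ) * (-a ^ (2 : ℕ) * b - a * b ^ (2 : ℕ) + a * b) +
      x ^ (2 : ℕ) * y * (a ^ (2 : ℕ) * b + a * b ^ (2 : ℕ) - a * b) + x ^ (3 : ℕ) * (-a ^ (3 : ℕ) - a ^ (2 : ℕ) * b + a ^ (2 : ℕ))) + Y * (x
      * (4 * a * b)) + X * (y * (-4 * a * b))) / (2 * x * y * (a * x + b * y) ^ (2 : ℕ) * (b * y - a *
      x))) = rvMG a b x y s w := by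
  intro X Y
  simp only [rvMG, X, Y, solX, solY, sgm, sgm', cU, cU', cG, cG', wP, wP', wV, wV']
  obtain ⟨D, hD⟩ : ∃ D, D = a * x + b * y := ⟨_, rfl⟩
  obtain ⟨E, hE⟩ : ∃ E, E = b * y - a * x := ⟨_, rfl⟩
  rw [← hD] at D0
  rw [← hE] at E0
  (try simp only [← hD, ← hE])
  (try field_simp)
  all_goals
    subst hD hE
    ring

/-- The `v` part of `lEE`. -/
noncomputable def rvEE (a b x y s w : ℝ) : ℝ :=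
  ((x * y ^ (4 : ℕ) * (4 * b ^ (2 : ℕ)) + x ^ (2 : ℕ) * y ^ (3 : ℕ) * (4 * a ^ (2 : ℕ) * b + 8 * a * b ^ (2 : ℕ) + 4 * b ^ (3 : ℕ) - 4 * b
    ^ (2 : ℕ) - 4 * b) + x ^ (3 : ℕ) * y ^ (2 : ℕ) * (-4 * a ^ (3 : ℕ) - 8 * a ^ (2 : ℕ) * b + 4 * a ^ (2 : ℕ) - 4 * a * b ^ (2 : ℕ) + 4 *
    a) + x ^ (4 : ℕ) * y * (-4 * a ^ (2 : ℕ))) + s * w * (y ^ (2 : ℕ) * (-b ^ (2 : ℕ)) + x * y * (4 * a * b) + x ^ (2 : ℕ) * (-a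
    ^ (2 : ℕ)))) / (4 * x ^ (2 : ℕ) * y ^ (2 : ℕ) * (a * x + b * y) ^ (2 : ℕ) * (b * y - a * x))

theorem rvEE_sum (a0 : a ≠ 0) (b0 : b ≠ 0) (x0 : x ≠ 0) (y0 : y ≠ 0) (s0 : s ≠ 0)
    (D0 : a * x + b * y ≠ 0) (E0 : b * y - a * x ≠ 0) :
    let X := solX a b x y s w
    let Y := solY a b x y s w
    1 * (((x * y ^ (4 : ℕ) * (2 * b ^ (2 : ℕ)) + x ^ (2 : ℕ) * y ^ (3 : ℕ) * (a ^ (2 : ℕ) * b + 2 * a * b ^ (2 : ℕ) - 4 * a * b + b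
      ^ (3 : ℕ) - 2 * b ^ (2 : ℕ) - b) + x ^ (3 : ℕ) * y ^ (2 : ℕ) * (-a ^ (3 : ℕ) - 2 * a ^ (2 : ℕ) * b + 2 * a ^ (2 : ℕ) - a * b ^ (2 : ℕ) + 4 *
      a * b + a) + x ^ (4 : ℕ) * y * (-2 * a ^ (2 : ℕ))) + Y * (x * y ^ (2 : ℕ) * (-b ^ (2 : ℕ)) + x ^ (2 : ℕ) * y * (4 * a * b)
      + x ^ (3 : ℕ) * (-a ^ (2 : ℕ))) + X * (y ^ (3 : ℕ) * (b ^ (2 : ℕ)) + x * y ^ (2 : ℕ) * (-4 * a * b) + x ^ (2 : ℕ) * y * (a ^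
      2))) / (x ^ (2 : ℕ) * y ^ (2 : ℕ) * (a * x + b * y) ^ (2 : ℕ) * (b * y - a * x))) = rvEE a b x y s w := by
  intro X Y
  simp only [rvEE, X, Y, solX, solY, sgm, sgm', cU, cU', cG, cG', wP, wP', wV, wV']
  obtain ⟨D, hD⟩ : ∃ D, D = a * x + b * y := ⟨_, rfl⟩
  obtain ⟨E, hE⟩ : ∃ E, E = b * y - a * x := ⟨_, rfl⟩
  rw [← hD] at D0
  rw [← hE] at E0
  (try simp only [← hD, ← hE])
  (try field_simp)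
  all_goals
    subst hD hE
    ring

/-- The `v` part of `lEG`. -/
noncomputable def rvEG (a b x y s w : ℝ) : ℝ :=
  ((x * y ^ (2 : ℕ) * (-2 * a ^ (2 : ℕ) * b - a * b ^ (2 : ℕ) + a * b + b ^ (3 : ℕ) - b) + x ^ (2 : ℕ) * y * (-a ^ (3 : ℕ) + a ^ (2 : ℕ) *
    b + 2 * a * b ^ (2 : ℕ) - a * b + a)) + s * w * ((a * b))) / (2 * x ^ (2 : ℕ) * y ^ (2 : ℕ) * (a * x + b * y) ^
    2)

theorem rvEG_sum (a0 : a ≠ 0) (b0 : b ≠ 0) (x0 : x ≠ 0) (y0 : y ≠ 0) (s0 : s ≠ 0)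
    (D0 : a * x + b * y ≠ 0) (E0 : b * y - a * x ≠ 0) :
    let X := solX a b x y s w
    let Y := solY a b x y s w
    1 * (((x * y ^ (2 : ℕ) * (-2 * a ^ (2 : ℕ) * b - a * b ^ (2 : ℕ) - 3 * a * b + b ^ (3 : ℕ) - b) + x ^ (2 : ℕ) * y * (-a ^
      3 + a ^ (2 : ℕ) * b + 2 * a * b ^ (2 : ℕ) + 3 * a * b + a)) + Y * (x * (4 * a * b)) + X * (y * (-4 * a *
      b))) / (2 * x ^ (2 : ℕ) * y ^ (2 : ℕ) * (a * x + b * y) ^ (2 : ℕ))) = rvEG a b x y s w := by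
  intro X Y
  simp only [rvEG, X, Y, solX, solY, sgm, sgm', cU, cU', cG, cG', wP, wP', wV, wV']
  obtain ⟨D, hD⟩ : ∃ D, D = a * x + b * y := ⟨_, rfl⟩
  obtain ⟨E, hE⟩ : ∃ E, E = b * y - a * x := ⟨_, rfl⟩
  rw [← hD] at D0
  rw [← hE] at E0
  (try simp only [← hD, ← hE])
  (try field_simp)
  all_goals
    subst hD hE
    ring

/-- The `v` part of `lGG`. -/
noncomputable def rvGG (a b x y : ℝ) : ℝ :=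
  (((a ^ (3 : ℕ) * b + 2 * a ^ (2 : ℕ) * b ^ (2 : ℕ) - a ^ (2 : ℕ) * b + a * b ^ (3 : ℕ) - a * b ^ (2 : ℕ)))) / (2 * x * y * (a * x
    + b * y) ^ (2 : ℕ))

theorem rvGG_sum (a0 : a ≠ 0) (b0 : b ≠ 0) (x0 : x ≠ 0) (y0 : y ≠ 0) (s0 : s ≠ 0)
    (D0 : a * x + b * y ≠ 0) (E0 : b * y - a * x ≠ 0) :
    let X := solX a b x y s w
    let Y := solY a b x y s w
    1 * ((((a ^ (3 : ℕ) * b + 2 * a ^ (2 : ℕ) * b ^ (2 : ℕ) - a ^ (2 : ℕ) * b + a * b ^ (3 : ℕ) - a * b ^ (2 : ℕ)))) / (2 * x * y *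
      (a * x + b * y) ^ (2 : ℕ))) = rvGG a b x y := by
  intro X Y
  simp only [rvGG, X, Y, solX, solY, sgm, sgm', cU, cU', cG, cG', wP, wP', wV, wV']
  obtain ⟨D, hD⟩ : ∃ D, D = a * x + b * y := ⟨_, rfl⟩
  obtain ⟨E, hE⟩ : ∃ E, E = b * y - a * x := ⟨_, rfl⟩
  rw [← hD] at D0
  rw [← hE] at E0
  (try simp only [← hD, ← hE])
  (try field_simp)
  all_goals
    subst hD hE
    ring

/-- The `v` part of `lLG`. -/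
noncomputable def rvLG (a b x y w R : ℝ) : ℝ :=
  ((y * (a * b + b ^ (2 : ℕ) - b) + x * (a ^ (2 : ℕ) + a * b - a)) + w * R * ((-a ^ (2 : ℕ) - a * b + a))) / (2 *
    x * y ^ (2 : ℕ))

theorem rvLG_sum (a0 : a ≠ 0) (b0 : b ≠ 0) (x0 : x ≠ 0) (y0 : y ≠ 0) (s0 : s ≠ 0)
    (D0 : a * x + b * y ≠ 0) (E0 : b * y - a * x ≠ 0) :
    let X := solX a b x y s w
    let Y := solY a b x y s w
    1 * (((y * (a * b + b ^ (2 : ℕ) - b) + x * (a ^ (2 : ℕ) + a * b - a)) + w * R * ((-a ^ (2 : ℕ) - a * b + a)))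
      / (2 * x * y ^ (2 : ℕ))) = rvLG a b x y w R := by
  intro X Y
  simp only [rvLG, X, Y, solX, solY, sgm, sgm', cU, cU', cG, cG', wP, wP', wV, wV']
  obtain ⟨D, hD⟩ : ∃ D, D = a * x + b * y := ⟨_, rfl⟩
  obtain ⟨E, hE⟩ : ∃ E, E = b * y - a * x := ⟨_, rfl⟩
  rw [← hD] at D0
  rw [← hE] at E0
  (try simp only [← hD, ← hE])
  (try field_simp)
  all_goals
    subst hD hE
    ring

/-- The `w` part of `gM`. -/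
def rwgM : ℝ := 0

/-- The `w` part of `gE`. -/
noncomputable def rwgE (a b x y s e : ℝ) : ℝ :=
  (s * e * ((-a - b + 1))) / (2 * (a * x + b * y) ^ (2 : ℕ))

theorem rwgE_sum (a0 : a ≠ 0) (b0 : b ≠ 0) (x0 : x ≠ 0) (y0 : y ≠ 0) (s0 : s ≠ 0)
    (D0 : a * x + b * y ≠ 0) (E0 : b * y - a * x ≠ 0) :
    let X := solX a b x y s w
    let Y := solY a b x y s w
    (wP a b x y s e) * ((((2))) / ((a * x + b * y))) = rwgE a b x y s e := by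
  intro X Y
  simp only [rwgE, X, Y, solX, solY, sgm, sgm', cU, cU', cG, cG', wP, wP', wV, wV']
  obtain ⟨D, hD⟩ : ∃ D, D = a * x + b * y := ⟨_, rfl⟩
  obtain ⟨E, hE⟩ : ∃ E, E = b * y - a * x := ⟨_, rfl⟩
  rw [← hD] at D0
  rw [← hE] at E0
  (try simp only [← hD, ← hE])
  (try field_simp)
  all_goals
    subst hD hE
    ring

/-- The `w` part of `gG`. -/
def rwgG : ℝ := 0

theorem rwgG_sum (a0 : a ≠ 0) (b0 : b ≠ 0) (x0 : x ≠ 0) (y0 : y ≠ 0) (s0 : s ≠ 0)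
    (D0 : a * x + b * y ≠ 0) (E0 : b * y - a * x ≠ 0) :
    let X := solX a b x y s w
    let Y := solY a b x y s w
    (-wV a b x y s e) * ((((1))) / (x * y)) + (wP a b x y s e) * (((y * (b) + x * (-a))) / (x *
      y * (a * x + b * y))) = rwgG := by
  intro X Y
  simp only [rwgG, X, Y, solX, solY, sgm, sgm', cU, cU', cG, cG', wP, wP', wV, wV']
  obtain ⟨D, hD⟩ : ∃ D, D = a * x + b * y := ⟨_, rfl⟩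
  obtain ⟨E, hE⟩ : ∃ E, E = b * y - a * x := ⟨_, rfl⟩
  rw [← hD] at D0
  rw [← hE] at E0
  (try simp only [← hD, ← hE])
  (try field_simp)
  all_goals
    subst hD hE
    ring

/-- The `w` part of `hM`. -/
def rwhM : ℝ := 0

/-- The `w` part of `hEf`. -/
def rwhE : ℝ := 0

theorem rwhE_sum (a0 : a ≠ 0) (b0 : b ≠ 0) (x0 : x ≠ 0) (y0 : y ≠ 0) (s0 : s ≠ 0)
    (D0 : a * x + b * y ≠ 0) (E0 : b * y - a * x ≠ 0) :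
    let X := solX a b x y s w
    let Y := solY a b x y s w
    (-wV a b x y s e) * ((((1))) / (x * y)) + (wP a b x y s e) * (((y * (b) + x * (-a))) / (x *
      y * (a * x + b * y))) = rwhE := by
  intro X Y
  simp only [rwhE, X, Y, solX, solY, sgm, sgm', cU, cU', cG, cG', wP, wP', wV, wV']
  obtain ⟨D, hD⟩ : ∃ D, D = a * x + b * y := ⟨_, rfl⟩
  obtain ⟨E, hE⟩ : ∃ E, E = b * y - a * x := ⟨_, rfl⟩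
  rw [← hD] at D0
  rw [← hE] at E0
  (try simp only [← hD, ← hE])
  (try field_simp)
  all_goals
    subst hD hE
    ring

/-- The `w` part of `hG`. -/
def rwhG : ℝ := 0

theorem rwhG_sum (a0 : a ≠ 0) (b0 : b ≠ 0) (x0 : x ≠ 0) (y0 : y ≠ 0) (s0 : s ≠ 0)
    (D0 : a * x + b * y ≠ 0) (E0 : b * y - a * x ≠ 0) :
    let X := solX a b x y s w
    let Y := solY a b x y s w
    (a * b * wP a b x y s e) * ((((2))) / (x * y * (a * x + b * y))) + (wP a b x y s e) * ((((-2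
      * a * b))) / (x * y * (a * x + b * y))) = rwhG := by
  intro X Y
  simp only [rwhG, X, Y, solX, solY, sgm, sgm', cU, cU', cG, cG', wP, wP', wV, wV']
  obtain ⟨D, hD⟩ : ∃ D, D = a * x + b * y := ⟨_, rfl⟩
  obtain ⟨E, hE⟩ : ∃ E, E = b * y - a * x := ⟨_, rfl⟩
  rw [← hD] at D0
  rw [← hE] at E0
  (try simp only [← hD, ← hE])
  (try field_simp)
  all_goals
    subst hD hE
    ring

/-- The `w` part of `lMM`. -/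
noncomputable def rwMM (a b x y s w e : ℝ) : ℝ :=
  (s ^ (2 : ℕ) * w * e * ((a + b - 1))) / (16 * (a * x + b * y) ^ (4 : ℕ))

theorem rwMM_sum (a0 : a ≠ 0) (b0 : b ≠ 0) (x0 : x ≠ 0) (y0 : y ≠ 0) (s0 : s ≠ 0)
    (D0 : a * x + b * y ≠ 0) (E0 : b * y - a * x ≠ 0) :
    let X := solX a b x y s w
    let Y := solY a b x y s w
    (wP a b x y s e) * (((x * y ^ (2 : ℕ) * (1) + x ^ (2 : ℕ) * y * (-1)) + Y * (x * (-1)) + X * (y * (1)))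
      / ((a * x + b * y) ^ (3 : ℕ))) = rwMM a b x y s w e := by
  intro X Y
  simp only [rwMM, X, Y, solX, solY, sgm, sgm', cU, cU', cG, cG', wP, wP', wV, wV']
  obtain ⟨D, hD⟩ : ∃ D, D = a * x + b * y := ⟨_, rfl⟩
  obtain ⟨E, hE⟩ : ∃ E, E = b * y - a * x := ⟨_, rfl⟩
  rw [← hD] at D0
  rw [← hE] at E0
  (try simp only [← hD, ← hE])
  (try field_simp)
  all_goals
    subst hD hE
    ring

/-- Part of `rwME`. -/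
def rwME_1_0 (a b x y : ℝ) : ℝ :=
  y ^ (3 : ℕ) * (-2 * a ^ (3 : ℕ) * b ^ (3 : ℕ) - 4 * a ^ (2 : ℕ) * b ^ (4 : ℕ) - 2 * a * b ^ (5 : ℕ) + 2 * a * b ^ (3 : ℕ)) + x * y ^ (2 : ℕ) *
    (2 * a ^ (4 : ℕ) * b ^ (2 : ℕ) + 4 * a ^ (3 : ℕ) * b ^ (3 : ℕ) + 2 * a ^ (2 : ℕ) * b ^ (4 : ℕ) + 4 * a ^ (2 : ℕ) * b ^ (3 : ℕ) + 4 * a * b ^ (4 : ℕ)
    - 2 * a * b ^ (3 : ℕ) - 2 * a * b ^ (2 : ℕ)) + x ^ (2 : ℕ) * y * (-2 * a ^ (4 : ℕ) * b ^ (2 : ℕ) - 4 * a ^ (4 : ℕ) * b - 4 * a ^ (3 : ℕ)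
    * b ^ (3 : ℕ) - 4 * a ^ (3 : ℕ) * b ^ (2 : ℕ) - 2 * a ^ (2 : ℕ) * b ^ (4 : ℕ) - 2 * a ^ (2 : ℕ) * b ^ (2 : ℕ) + 4 * a ^ (2 : ℕ) * b)

/-- Part of `rwME`. -/
def rwME_1_3 (a b x : ℝ) : ℝ :=
  x ^ (3 : ℕ) * (2 * a ^ (5 : ℕ) * b + 4 * a ^ (4 : ℕ) * b ^ (2 : ℕ) + 2 * a ^ (4 : ℕ) + 2 * a ^ (3 : ℕ) * b ^ (3 : ℕ) - 2 * a ^ (3 : ℕ))

/-- The `w` part of `lME`. -/
noncomputable def rwME (a b x y s w e k : ℝ) : ℝ :=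
  (s * k * (y ^ (3 : ℕ) * (-2 * a * b ^ (3 : ℕ) - 2 * b ^ (4 : ℕ) + 2 * b ^ (3 : ℕ)) + x * y ^ (2 : ℕ) * (2 * a ^ (2 : ℕ) * b ^ (2 : ℕ) +
    2 * a * b ^ (3 : ℕ) - 2 * a * b ^ (2 : ℕ)) + x ^ (2 : ℕ) * y * (2 * a ^ (3 : ℕ) * b + 2 * a ^ (2 : ℕ) * b ^ (2 : ℕ) - 2 * a ^ (2 : ℕ) *
    b) + x ^ (3 : ℕ) * (-2 * a ^ (4 : ℕ) - 2 * a ^ (3 : ℕ) * b + 2 * a ^ (3 : ℕ))) + s * e * rwME_1_0 a b x y + s * e *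
    rwME_1_3 a b x + s ^ (2 : ℕ) * w * e * ((-a ^ (3 : ℕ) * b ^ (2 : ℕ) - a ^ (2 : ℕ) * b ^ (3 : ℕ) + a ^ (2 : ℕ) * b ^ (2 : ℕ)))) / (8 * a
    * b * (a * x + b * y) ^ (4 : ℕ) * (b * y - a * x))

theorem rwME_sum (a0 : a ≠ 0) (b0 : b ≠ 0) (x0 : x ≠ 0) (y0 : y ≠ 0) (s0 : s ≠ 0)
    (D0 : a * x + b * y ≠ 0) (E0 : b * y - a * x ≠ 0) :
    let X := solX a b x y s w
    let Y := solY a b x y s w
    (-wV a b x y s e) * (((x * y ^ (2 : ℕ) * (-a - b + 3) + x ^ (2 : ℕ) * y * (a + b - 3)) + Y * (x * (-4))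
      + X * (y * (4))) / (2 * x * y * (a * x + b * y) ^ (2 : ℕ))) + (wP a b x y s e) * (((x * y ^ (4 : ℕ) * (a
      * b ^ (2 : ℕ) + b ^ (3 : ℕ) + 5 * b ^ (2 : ℕ)) + x ^ (2 : ℕ) * y ^ (3 : ℕ) * (a * b ^ (2 : ℕ) - 10 * a * b + b ^ (3 : ℕ) - 5 * b ^ (2 : ℕ) -
      2 * b) + x ^ (3 : ℕ) * y ^ (2 : ℕ) * (-a ^ (3 : ℕ) - a ^ (2 : ℕ) * b + 5 * a ^ (2 : ℕ) + 10 * a * b + 2 * a) + x ^ (4 : ℕ) * y *
      (-a ^ (3 : ℕ) - a ^ (2 : ℕ) * b - 5 * a ^ (2 : ℕ))) + Y * (x * y ^ (2 : ℕ) * (-4 * b ^ (2 : ℕ)) + x ^ (2 : ℕ) * y * (12 * a * b)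
      + x ^ (3 : ℕ) * (-4 * a ^ (2 : ℕ))) + X * (y ^ (3 : ℕ) * (4 * b ^ (2 : ℕ)) + x * y ^ (2 : ℕ) * (-12 * a * b) + x ^ (2 : ℕ) * y *
      (4 * a ^ (2 : ℕ)))) / (2 * x * y * (a * x + b * y) ^ (3 : ℕ) * (b * y - a * x))) + (wP' a b x y s e k X
      Y) * (((y * (b) + x * (-a))) / (a * b * (a * x + b * y) ^ (2 : ℕ))) = rwME a b x y s w e k := by
  intro X Y
  simp only [rwME, rwME_1_0, rwME_1_3, X, Y, solX, solY, sgm, sgm', cU, cU', cG, cG', wP, wP', wV, wV']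
  obtain ⟨D, hD⟩ : ∃ D, D = a * x + b * y := ⟨_, rfl⟩
  obtain ⟨E, hE⟩ : ∃ E, E = b * y - a * x := ⟨_, rfl⟩
  rw [← hD] at D0
  rw [← hE] at E0
  (try simp only [← hD, ← hE])
  (try field_simp)
  all_goals
    subst hD hE
    ring

/-- Part of `rwMG`. -/
def rwMG_1_0 (a b x y : ℝ) : ℝ :=
  y ^ (2 : ℕ) * (5 * a ^ (2 : ℕ) * b ^ (2 : ℕ) + 4 * a * b ^ (3 : ℕ) - 4 * a * b ^ (2 : ℕ) - b ^ (4 : ℕ) + 2 * b ^ (3 : ℕ) - b ^ (2 : ℕ)) + x *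
    y * (-8 * a ^ (3 : ℕ) * b - 16 * a ^ (2 : ℕ) * b ^ (2 : ℕ) + 6 * a ^ (2 : ℕ) * b - 8 * a * b ^ (3 : ℕ) + 6 * a * b ^ (2 : ℕ) + 2 *
    a * b) + x ^ (2 : ℕ) * (-a ^ (4 : ℕ) + 4 * a ^ (3 : ℕ) * b + 6 * a ^ (3 : ℕ) + 5 * a ^ (2 : ℕ) * b ^ (2 : ℕ) - 5 * a ^ (2 : ℕ))

/-- The `w` part of `lMG`. -/
noncomputable def rwMG (a b x y s e k : ℝ) : ℝ :=
  (s * k * (y ^ (2 : ℕ) * (4 * a * b ^ (2 : ℕ) + 4 * b ^ (3 : ℕ) - 4 * b ^ (2 : ℕ)) + x ^ (2 : ℕ) * (-4 * a ^ (3 : ℕ) - 4 * a ^ (2 : ℕ) *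
    b + 4 * a ^ (2 : ℕ))) + s * e * rwMG_1_0 a b x y) / (8 * (a * x + b * y) ^ (4 : ℕ) * (b * y - a * x))

theorem rwMG_sum (a0 : a ≠ 0) (b0 : b ≠ 0) (x0 : x ≠ 0) (y0 : y ≠ 0) (s0 : s ≠ 0)
    (D0 : a * x + b * y ≠ 0) (E0 : b * y - a * x ≠ 0) :
    let X := solX a b x y s w
    let Y := solY a b x y s w
    (a * b * wP a b x y s e) * (((x * y ^ (2 : ℕ) * (-a - b + 2) + x ^ (2 : ℕ) * y * (a + b - 2)) + Y * (x *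
      (-1)) + X * (y * (1))) / (x * y * (a * x + b * y) ^ (3 : ℕ))) + (-wV a b x y s e) * (((y ^ (3 : ℕ) * (a
      * b ^ (2 : ℕ) + b ^ (3 : ℕ) - b ^ (2 : ℕ)) + x * y ^ (2 : ℕ) * (-a ^ (2 : ℕ) * b - a * b ^ (2 : ℕ) + a * b) + x ^ (2 : ℕ) * y * (a ^ (2 : ℕ)
      * b + a * b ^ (2 : ℕ) - a * b) + x ^ (3 : ℕ) * (-a ^ (3 : ℕ) - a ^ (2 : ℕ) * b + a ^ (2 : ℕ))) + Y * (x * (4 * a * b)) + X
      * (y * (-4 * a * b))) / (2 * x * y * (a * x + b * y) ^ (2 : ℕ) * (b * y - a * x))) + (wP a b x y s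
      e) * (((y ^ (3 : ℕ) * (a * b ^ (2 : ℕ) + b ^ (3 : ℕ) - b ^ (2 : ℕ)) + x * y ^ (2 : ℕ) * (a ^ (2 : ℕ) * b + a * b ^ (2 : ℕ) - 8 * a * b
      + b ^ (2 : ℕ) - b) + x ^ (2 : ℕ) * y * (-a ^ (2 : ℕ) * b - a ^ (2 : ℕ) - a * b ^ (2 : ℕ) + 8 * a * b + a) + x ^ (3 : ℕ) * (-a ^
      3 - a ^ (2 : ℕ) * b + a ^ (2 : ℕ))) + Y * (x * (6 * a * b)) + X * (y * (-6 * a * b))) / (2 * x * y * (a
      * x + b * y) ^ (3 : ℕ))) + (wP' a b x y s e k X Y) * ((((-2))) / ((a * x + b * y) ^ (2 : ℕ))) = rwMG a b x y s e k := by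
  intro X Y
  simp only [rwMG, rwMG_1_0, X, Y, solX, solY, sgm, sgm', cU, cU', cG, cG', wP, wP', wV, wV']
  obtain ⟨D, hD⟩ : ∃ D, D = a * x + b * y := ⟨_, rfl⟩
  obtain ⟨E, hE⟩ : ∃ E, E = b * y - a * x := ⟨_, rfl⟩
  rw [← hD] at D0
  rw [← hE] at E0
  (try simp only [← hD, ← hE])
  (try field_simp)
  all_goals
    subst hD hE
    ring

/-- The `w` part of `lEE`. -/
noncomputable def rwEE (a b x y s e : ℝ) : ℝ :=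
  (s * e * (y * (a ^ (3 : ℕ) * b + 2 * a ^ (2 : ℕ) * b ^ (2 : ℕ) - 2 * a ^ (2 : ℕ) * b + a * b ^ (3 : ℕ) - 2 * a * b ^ (2 : ℕ) + a *
    b) + x * (-a ^ (3 : ℕ) * b - 2 * a ^ (2 : ℕ) * b ^ (2 : ℕ) + 2 * a ^ (2 : ℕ) * b - a * b ^ (3 : ℕ) + 2 * a * b ^ (2 : ℕ) - a *
    b))) / (2 * (a * x + b * y) ^ (4 : ℕ))

theorem rwEE_sum (a0 : a ≠ 0) (b0 : b ≠ 0) (x0 : x ≠ 0) (y0 : y ≠ 0) (s0 : s ≠ 0)
    (D0 : a * x + b * y ≠ 0) (E0 : b * y - a * x ≠ 0) :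
    let X := solX a b x y s w
    let Y := solY a b x y s w
    (a * b * wP a b x y s e) * ((Y * (x * (-2)) + X * (y * (2))) / (x * y * (a * x + b * y) ^
      3)) + (-wV a b x y s e) * (((x * y ^ (4 : ℕ) * (2 * b ^ (2 : ℕ)) + x ^ (2 : ℕ) * y ^ (3 : ℕ) * (a ^ (2 : ℕ) * b + 2 * a *
      b ^ (2 : ℕ) - 4 * a * b + b ^ (3 : ℕ) - 2 * b ^ (2 : ℕ) - b) + x ^ (3 : ℕ) * y ^ (2 : ℕ) * (-a ^ (3 : ℕ) - 2 * a ^ (2 : ℕ) * b + 2 * a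
      ^ (2 : ℕ) - a * b ^ (2 : ℕ) + 4 * a * b + a) + x ^ (4 : ℕ) * y * (-2 * a ^ (2 : ℕ))) + Y * (x * y ^ (2 : ℕ) * (-b ^ (2 : ℕ)) + x
      ^ (2 : ℕ) * y * (4 * a * b) + x ^ (3 : ℕ) * (-a ^ (2 : ℕ))) + X * (y ^ (3 : ℕ) * (b ^ (2 : ℕ)) + x * y ^ (2 : ℕ) * (-4 * a * b)
      + x ^ (2 : ℕ) * y * (a ^ (2 : ℕ)))) / (x ^ (2 : ℕ) * y ^ (2 : ℕ) * (a * x + b * y) ^ (2 : ℕ) * (b * y - a * x))) + (-wV' a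
      b x y s e k X Y) * (((y * (b) + x * (-a))) / (x * y * a * b * (a * x + b * y))) + (wP a b x
      y s e) * (((x * y ^ (4 : ℕ) * (2 * b ^ (2 : ℕ)) + x ^ (2 : ℕ) * y ^ (3 : ℕ) * (-a ^ (2 : ℕ) * b - 2 * a * b + b ^ (3 : ℕ) - 2 *
      b ^ (2 : ℕ) - b) + x ^ (3 : ℕ) * y ^ (2 : ℕ) * (-a ^ (3 : ℕ) + 2 * a ^ (2 : ℕ) + a * b ^ (2 : ℕ) + 2 * a * b + a) + x ^ (4 : ℕ) * y *
      (-2 * a ^ (2 : ℕ))) + Y * (x * y ^ (2 : ℕ) * (-b ^ (2 : ℕ)) + x ^ (2 : ℕ) * y * (4 * a * b) + x ^ (3 : ℕ) * (-a ^ (2 : ℕ))) + X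
      * (y ^ (3 : ℕ) * (b ^ (2 : ℕ)) + x * y ^ (2 : ℕ) * (-4 * a * b) + x ^ (2 : ℕ) * y * (a ^ (2 : ℕ)))) / (x ^ (2 : ℕ) * y ^ (2 : ℕ) * (a
      * x + b * y) ^ (3 : ℕ))) + (wP' a b x y s e k X Y) * (((y ^ (2 : ℕ) * (b ^ (2 : ℕ)) + x * y * (-2 * a * b) + x
      ^ (2 : ℕ) * (a ^ (2 : ℕ)))) / (x * y * a * b * (a * x + b * y) ^ (2 : ℕ))) = rwEE a b x y s e := by
  intro X Y
  simp only [rwEE, X, Y, solX, solY, sgm, sgm', cU, cU', cG, cG', wP, wP', wV, wV']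
  obtain ⟨D, hD⟩ : ∃ D, D = a * x + b * y := ⟨_, rfl⟩
  obtain ⟨E, hE⟩ : ∃ E, E = b * y - a * x := ⟨_, rfl⟩
  rw [← hD] at D0
  rw [← hE] at E0
  (try simp only [← hD, ← hE])
  (try field_simp)
  all_goals
    subst hD hE
    ring

/-- The `w` part of `lEG`. -/
noncomputable def rwEG (a b x y s e : ℝ) : ℝ :=
  (s * e * ((-a ^ (4 : ℕ) * b - 3 * a ^ (3 : ℕ) * b ^ (2 : ℕ) + 2 * a ^ (3 : ℕ) * b - 3 * a ^ (2 : ℕ) * b ^ (3 : ℕ) + 4 * a ^ (2 : ℕ) * b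
    ^ (2 : ℕ) - a ^ (2 : ℕ) * b - a * b ^ (4 : ℕ) + 2 * a * b ^ (3 : ℕ) - a * b ^ (2 : ℕ)))) / (4 * (a * x + b * y) ^ (4 : ℕ))

theorem rwEG_sum (a0 : a ≠ 0) (b0 : b ≠ 0) (x0 : x ≠ 0) (y0 : y ≠ 0) (s0 : s ≠ 0)
    (D0 : a * x + b * y ≠ 0) (E0 : b * y - a * x ≠ 0) :
    let X := solX a b x y s w
    let Y := solY a b x y s w
    (a * b * wP a b x y s e) * (((x * y ^ (4 : ℕ) * (2 * b ^ (2 : ℕ)) + x ^ (2 : ℕ) * y ^ (3 : ℕ) * (2 * a ^ (2 : ℕ) * b + 4 *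
      a * b ^ (2 : ℕ) - 5 * a * b + 2 * b ^ (3 : ℕ) - 3 * b ^ (2 : ℕ) - b) + x ^ (3 : ℕ) * y ^ (2 : ℕ) * (-2 * a ^ (3 : ℕ) - 4 * a ^ (2 : ℕ)
      * b + 3 * a ^ (2 : ℕ) - 2 * a * b ^ (2 : ℕ) + 5 * a * b + a) + x ^ (4 : ℕ) * y * (-2 * a ^ (2 : ℕ))) + Y * (x * y ^
      2 * (-b ^ (2 : ℕ)) + x ^ (2 : ℕ) * y * (8 * a * b) + x ^ (3 : ℕ) * (-a ^ (2 : ℕ))) + X * (y ^ (3 : ℕ) * (b ^ (2 : ℕ)) + x * y ^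
      2 * (-8 * a * b) + x ^ (2 : ℕ) * y * (a ^ (2 : ℕ)))) / (x ^ (2 : ℕ) * y ^ (2 : ℕ) * (a * x + b * y) ^ (3 : ℕ) * (b * y - a
      * x))) + (a * b * wP' a b x y s e k X Y) * (((y * (b) + x * (-a))) / (x * y * a * b * (a * x
      + b * y) ^ (2 : ℕ))) + (-wV a b x y s e) * (((x * y ^ (2 : ℕ) * (-2 * a ^ (2 : ℕ) * b - a * b ^ (2 : ℕ) - 3 * a * b
      + b ^ (3 : ℕ) - b) + x ^ (2 : ℕ) * y * (-a ^ (3 : ℕ) + a ^ (2 : ℕ) * b + 2 * a * b ^ (2 : ℕ) + 3 * a * b + a)) + Y * (x *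
      (4 * a * b)) + X * (y * (-4 * a * b))) / (2 * x ^ (2 : ℕ) * y ^ (2 : ℕ) * (a * x + b * y) ^ (2 : ℕ))) + (-wV'
      a b x y s e k X Y) * ((((-2))) / (x * y * (a * x + b * y))) + (wP a b x y s e) * ((WEG_0_0 a
      b x y + WEG_1_0 a b x y Y + WEG_2_0 a b x y X) / (2 * x ^ (2 : ℕ) * y ^ (2 : ℕ) * (a * x + b * y) ^ (3 : ℕ) *
      (b * y - a * x))) + (wP' a b x y s e k X Y) * (((y * (-3 * b) + x * (3 * a))) / (x * y * (a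
      * x + b * y) ^ (2 : ℕ))) = rwEG a b x y s e := by
  intro X Y
  simp only [rwEG, WEG_0_0, WEG_1_0, WEG_2_0, X, Y, solX, solY, sgm, sgm', cU, cU', cG, cG', wP, wP', wV, wV']
  obtain ⟨D, hD⟩ : ∃ D, D = a * x + b * y := ⟨_, rfl⟩
  obtain ⟨E, hE⟩ : ∃ E, E = b * y - a * x := ⟨_, rfl⟩
  rw [← hD] at D0
  rw [← hE] at E0
  (try simp only [← hD, ← hE])
  (try field_simp)
  all_goals
    subst hD hE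
    ring

/-- The `w` part of `lGG`. -/
def rwGG : ℝ := 0

theorem rwGG_sum (a0 : a ≠ 0) (b0 : b ≠ 0) (x0 : x ≠ 0) (y0 : y ≠ 0) (s0 : s ≠ 0)
    (D0 : a * x + b * y ≠ 0) (E0 : b * y - a * x ≠ 0) :
    let X := solX a b x y s w
    let Y := solY a b x y s w
    (a * b * wP a b x y s e) * (((x * y ^ (2 : ℕ) * (2 * a * b ^ (2 : ℕ) - 5 * a * b + 2 * b ^ (3 : ℕ) - b ^ (2 : ℕ) -
      b) + x ^ (2 : ℕ) * y * (-2 * a ^ (3 : ℕ) - 2 * a ^ (2 : ℕ) * b + a ^ (2 : ℕ) + 5 * a * b + a)) + Y * (x * (4 * a *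
      b)) + X * (y * (-4 * a * b))) / (2 * x ^ (2 : ℕ) * y ^ (2 : ℕ) * (a * x + b * y) ^ (3 : ℕ))) + (a * b * wP' a
      b x y s e k X Y) * ((((-2))) / (x * y * (a * x + b * y) ^ (2 : ℕ))) + (-wV a b x y s e) * ((((a ^
      3 * b + 2 * a ^ (2 : ℕ) * b ^ (2 : ℕ) - a ^ (2 : ℕ) * b + a * b ^ (3 : ℕ) - a * b ^ (2 : ℕ)))) / (2 * x * y * (a * x + b *
      y) ^ (2 : ℕ))) + (wP a b x y s e) * (((x * y ^ (2 : ℕ) * (a ^ (3 : ℕ) * b ^ (2 : ℕ) + 4 * a ^ (2 : ℕ) * b ^ (2 : ℕ) - a * b ^ (4 : ℕ)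
      + a * b ^ (2 : ℕ)) + x ^ (2 : ℕ) * y * (a ^ (4 : ℕ) * b - a ^ (2 : ℕ) * b ^ (3 : ℕ) - 4 * a ^ (2 : ℕ) * b ^ (2 : ℕ) - a ^ (2 : ℕ) * b)) + Y
      * (x * (-4 * a ^ (2 : ℕ) * b ^ (2 : ℕ))) + X * (y * (4 * a ^ (2 : ℕ) * b ^ (2 : ℕ)))) / (2 * x ^ (2 : ℕ) * y ^ (2 : ℕ) * (a * x
      + b * y) ^ (3 : ℕ))) + (wP' a b x y s e k X Y) * ((((2 * a * b))) / (x * y * (a * x + b * y) ^ (2 : ℕ))) = rwGG := by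
  intro X Y
  simp only [rwGG, X, Y, solX, solY, sgm, sgm', cU, cU', cG, cG', wP, wP', wV, wV']
  obtain ⟨D, hD⟩ : ∃ D, D = a * x + b * y := ⟨_, rfl⟩
  obtain ⟨E, hE⟩ : ∃ E, E = b * y - a * x := ⟨_, rfl⟩
  rw [← hD] at D0
  rw [← hE] at E0
  (try simp only [← hD, ← hE])
  (try field_simp)
  all_goals
    subst hD hE
    ring

/-- Part of `rwLG`. -/
def rwLG_2_0 (a b x y : ℝ) : ℝ :=
  y ^ (2 : ℕ) * (a ^ (2 : ℕ) * b ^ (2 : ℕ) - b ^ (4 : ℕ) + 2 * b ^ (3 : ℕ) - b ^ (2 : ℕ)) + x * y * (4 * a ^ (3 : ℕ) * b + 8 * a ^ (2 : ℕ) * b ^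
    2 - 6 * a ^ (2 : ℕ) * b + 4 * a * b ^ (3 : ℕ) - 6 * a * b ^ (2 : ℕ) + 2 * a * b) + x ^ (2 : ℕ) * (-a ^ (4 : ℕ) - 2 * a ^ (3 : ℕ) +
    a ^ (2 : ℕ) * b ^ (2 : ℕ) - 4 * a ^ (2 : ℕ) * b + 3 * a ^ (2 : ℕ))

/-- The `w` part of `lLG`. -/
noncomputable def rwLG (a b x y R e k : ℝ) : ℝ :=
  (e * (y * (4 * a ^ (2 : ℕ) * b ^ (2 : ℕ) + 4 * a * b ^ (3 : ℕ) - 4 * a * b ^ (2 : ℕ)) + x * (4 * a ^ (3 : ℕ) * b + 4 * a ^ (2 : ℕ)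
    * b ^ (2 : ℕ) - 4 * a ^ (2 : ℕ) * b)) + R * k * (y ^ (2 : ℕ) * (-4 * a * b ^ (2 : ℕ) - 4 * b ^ (3 : ℕ) + 4 * b ^ (2 : ℕ)) + x ^ (2 : ℕ)
    * (4 * a ^ (3 : ℕ) + 4 * a ^ (2 : ℕ) * b - 4 * a ^ (2 : ℕ))) + R * e * rwLG_2_0 a b x y) / (2 * (a * x + b * y)
    ^ (2 : ℕ) * (b * y - a * x))

theorem rwLG_sum (a0 : a ≠ 0) (b0 : b ≠ 0) (x0 : x ≠ 0) (y0 : y ≠ 0) (s0 : s ≠ 0)
    (D0 : a * x + b * y ≠ 0) (E0 : b * y - a * x ≠ 0) :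
    let X := solX a b x y s w
    let Y := solY a b x y s w
    (a * b * wP a b x y s e) * ((w * R * ((-a - b + 2))) / (x * y * (a * x + b * y))) + (-wV a b
      x y s e) * (((y * (a * b + b ^ (2 : ℕ) - b) + x * (a ^ (2 : ℕ) + a * b - a)) + w * R * ((-a ^ (2 : ℕ) - a * b
      + a))) / (2 * x * y ^ (2 : ℕ))) + (wP a b x y s e) * ((WLG_0_0 a b x y + WLG_1_0 a b x y R +
      WLG_2_0 a b x y Y R + WLG_3_0 a b x y X R + WLG_4_0 a b x y s + WLG_5_0 a b x y s w R) / (2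
      * x * y ^ (2 : ℕ) * s * (a * x + b * y) * (b * y - a * x))) + (wP' a b x y s e k X Y) * ((R *
      ((8))) / (s)) = rwLG a b x y R e k := by
  intro X Y
  simp only [rwLG, rwLG_2_0, WLG_0_0, WLG_1_0, WLG_2_0, WLG_3_0, WLG_4_0, WLG_5_0, X, Y, solX, solY, sgm, sgm', cU, cU', cG, cG', wP, wP', wV, wV']
  obtain ⟨D, hD⟩ : ∃ D, D = a * x + b * y := ⟨_, rfl⟩
  obtain ⟨E, hE⟩ : ∃ E, E = b * y - a * x := ⟨_, rfl⟩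
  rw [← hD] at D0
  rw [← hE] at E0
  (try simp only [← hD, ← hE])
  (try field_simp)
  all_goals
    subst hD hE
    ring

end Vale.Agent.P100.Calib.Bridge
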