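import Mathlib

/-!
# Closed forms of the block entries at a point of the slab

Variables: `a = 1/(p+1)`, `b = a + d`, `v`, `g`, `W`, `W1`, `R` with `y/x = a (1 + d v)/b`,
`s = g y`, `w = d W x²`, `w1 = d W1 x³`, and `R x` in place of `R`. `E` and `K` stand for the values
`eVal`, `kVal` of the multiplier. With `x = 1` each numerator is the entry times its denominator and
divided by the power of `d` (and of `g`, `a + d`) that it carries.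
-/

set_option linter.unusedVariables false

namespace Vale.Agent.P100.Calib.Closed

/-- Row g, M. -/
def gM (a d v : ℝ) : ℝ :=
  (v * (v * (2 * a * d ^ (2 : ℕ)) + 4 * a * d - 2 * d) + 4 * a + 2 * d - 2)

/-- Row g, E (without `d`). -/
def gE (a d v g W E : ℝ) : ℝ :=
  (v * (-96 * a ^ (3 : ℕ) - 80 * a ^ (2 : ℕ) * d - 48 * a ^ (2 : ℕ) + 16 * a * d ^ (2 : ℕ) - 48 * a * d) + 128 * a ^ (2 : ℕ)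
    + 128 * a * d) + g * E * (-32 * a ^ (2 : ℕ) - 16 * a * d + 16 * a) + g * W * (-2 * a ^ (2 : ℕ) - 3 * a *
    d - a - d ^ (2 : ℕ) - d)

/-- Row g, G. -/
def gG (a d v g W : ℝ) : ℝ :=
  (v * (v * (v * (-84 * a ^ (2 : ℕ) * d ^ (2 : ℕ) - 84 * a * d ^ (3 : ℕ)) + 800 * a ^ (3 : ℕ) * d + 1200 * a ^ (2 : ℕ) * d ^
    2 - 136 * a ^ (2 : ℕ) * d + 400 * a * d ^ (3 : ℕ) - 136 * a * d ^ (2 : ℕ) - 50 * d ^ (3 : ℕ) - 50 * d ^ (2 : ℕ)) + 800 * a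
    ^ (3 : ℕ) + 1200 * a ^ (2 : ℕ) * d - 136 * a ^ (2 : ℕ) + 400 * a * d ^ (2 : ℕ) - 136 * a * d - 50 * d ^ (2 : ℕ) - 150 * d)
    - 100) + g * W * (v * (25 * a * d + 25 * d ^ (2 : ℕ)) + 25 * a + 25 * d)

/-- Row h, M (without `d`). -/
def hM (a d v g W : ℝ) : ℝ :=
  (v * (-4 * a) + 4) + g * W * (-a - d)

/-- Row h, E. -/
def hE (a d v g W : ℝ) : ℝ :=
  (v * (v * (v * (-168 * a ^ (2 : ℕ) * d ^ (2 : ℕ) - 168 * a * d ^ (3 : ℕ) + 100 * a * d ^ (2 : ℕ)) - 1072 * a ^ (2 : ℕ) * d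
    - 1072 * a * d ^ (2 : ℕ) + 600 * a * d - 100 * d ^ (3 : ℕ) + 100 * d ^ (2 : ℕ) - 100 * d) - 1072 * a ^ (2 : ℕ) -
    1072 * a * d + 600 * a - 100 * d ^ (2 : ℕ) - 100) - 200) + g * W * (v * (v * (-25 * a * d ^ (2 : ℕ) - 25
    * d ^ (3 : ℕ)) + 50 * a * d + 50 * d ^ (2 : ℕ)) + 50 * a + 50 * d)

/-- Row h, G (without `d (a + d)`). -/
def hG (a d v g W : ℝ) : ℝ :=
  (v * (-4 * a ^ (2 : ℕ) - 6 * a * d - 2 * d ^ (2 : ℕ) + d - 1) - 4 * a - 2 * d + 2) + g * W * (a + d)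

def TME_010000_0 (a d v : ℝ) : ℝ :=
  v * (-536 * a ^ (4 : ℕ) - 1340 * a ^ (3 : ℕ) * d + 504 * a ^ (3 : ℕ) - 1122 * a ^ (2 : ℕ) * d ^ (2 : ℕ) + 1008 * a ^ (2 : ℕ) * d
    + 50 * a ^ (2 : ℕ) - 343 * a * d ^ (3 : ℕ) + 504 * a * d ^ (2 : ℕ) + 75 * a * d - 25 * d ^ (4 : ℕ) + 25 * d ^ (2 : ℕ))

def TME_010000_1 (a d v : ℝ) : ℝ :=
  v * (-84 * a ^ (4 : ℕ) * d ^ (2 : ℕ) - 210 * a ^ (3 : ℕ) * d ^ (3 : ℕ) + 126 * a ^ (3 : ℕ) * d ^ (2 : ℕ) - 168 * a ^ (2 : ℕ) * d ^ (4 : ℕ) +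
    252 * a ^ (2 : ℕ) * d ^ (3 : ℕ) - 42 * a * d ^ (5 : ℕ) + 126 * a * d ^ (4 : ℕ)) - 536 * a ^ (4 : ℕ) * d - 1340 * a ^ (3 : ℕ) * d
    ^ (2 : ℕ) + 504 * a ^ (3 : ℕ) * d - 1122 * a ^ (2 : ℕ) * d ^ (3 : ℕ) + 1008 * a ^ (2 : ℕ) * d ^ (2 : ℕ) + 100 * a ^ (2 : ℕ) * d - 343
    * a * d ^ (4 : ℕ) + 504 * a * d ^ (3 : ℕ) + 150 * a * d ^ (2 : ℕ) + 25 * a * d - 25 * d ^ (5 : ℕ) + 50 * d ^ (3 : ℕ) + 25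
    * d ^ (2 : ℕ)

/-- Block, ME (without `d g`). -/
def TME (a d v g W W1 E K : ℝ) : ℝ :=
  K * (v * (v * (v * (-800 * a ^ (2 : ℕ) * d - 400 * a * d ^ (2 : ℕ) + 400 * a * d) - 1600 * a ^ (2 : ℕ) - 800 *
    a * d + 800 * a))) + E * (v * (v * (800 * a ^ (2 : ℕ) * d ^ (2 : ℕ) + 400 * a * d ^ (3 : ℕ) - 400 * a * d ^ (2 : ℕ))
    + 2400 * a ^ (2 : ℕ) * d - 800 * a ^ (2 : ℕ) + 1200 * a * d ^ (2 : ℕ) - 1600 * a * d + 400 * a) + 1600 * a ^ (2 : ℕ)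
    + 800 * a * d - 800 * a) + W1 * (v * (v * (50 * a ^ (3 : ℕ) * d + 125 * a ^ (2 : ℕ) * d ^ (2 : ℕ) + 25 * a ^ (2 : ℕ)
    * d + 100 * a * d ^ (3 : ℕ) + 50 * a * d ^ (2 : ℕ) + 25 * d ^ (4 : ℕ) + 25 * d ^ (3 : ℕ)) + 100 * a ^ (3 : ℕ) + 250 * a ^
    2 * d + 50 * a ^ (2 : ℕ) + 200 * a * d ^ (2 : ℕ) + 100 * a * d + 50 * d ^ (3 : ℕ) + 50 * d ^ (2 : ℕ))) + W *
    (TME_010000_0 a d v + v ^ (2 : ℕ) * TME_010000_1 a d v) + g * W * E * (v * (-400 * a ^ (3 : ℕ) * d - 600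
    * a ^ (2 : ℕ) * d ^ (2 : ℕ) + 200 * a ^ (2 : ℕ) * d - 200 * a * d ^ (3 : ℕ) + 200 * a * d ^ (2 : ℕ)) - 400 * a ^ (3 : ℕ) - 600 *
    a ^ (2 : ℕ) * d + 200 * a ^ (2 : ℕ) - 200 * a * d ^ (2 : ℕ) + 200 * a * d)

def LEG1_000000_0 (a d v : ℝ) : ℝ :=
  v * (-8 * a ^ (4 : ℕ) - 12 * a ^ (3 : ℕ) * d - 12 * a ^ (3 : ℕ) - 2 * a ^ (2 : ℕ) * d ^ (2 : ℕ) - 16 * a ^ (2 : ℕ) * d - 6 * a ^
    2 + 3 * a * d ^ (3 : ℕ) - 3 * a * d ^ (2 : ℕ) - 7 * a * d - a + d ^ (4 : ℕ) + d ^ (3 : ℕ) - d ^ (2 : ℕ) - d) + 16 * a ^ (3 : ℕ)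
    + 32 * a ^ (2 : ℕ) * d + 16 * a ^ (2 : ℕ) + 20 * a * d ^ (2 : ℕ) + 24 * a * d + 4 * a + 4 * d ^ (3 : ℕ) + 8 * d ^ (2 : ℕ)
    + 4 * d

/-- LEG, part of the base. -/
def LEG1 (a d v : ℝ) : ℝ :=
  LEG1_000000_0 a d v

/-- LEG, part of the first field. -/
def LEGc (a d v g W : ℝ) : ℝ :=
  (v * (-32 * a ^ (4 : ℕ) - 144 * a ^ (3 : ℕ) * d + 16 * a ^ (3 : ℕ) - 168 * a ^ (2 : ℕ) * d ^ (2 : ℕ) + 16 * a ^ (2 : ℕ) * d + 16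
    * a ^ (2 : ℕ) - 76 * a * d ^ (3 : ℕ) + 4 * a * d ^ (2 : ℕ) + 32 * a * d - 12 * d ^ (4 : ℕ) + 12 * d ^ (2 : ℕ)) - 160 * a ^
    3 - 240 * a ^ (2 : ℕ) * d - 16 * a ^ (2 : ℕ) - 120 * a * d ^ (2 : ℕ) - 16 * a * d + 32 * a - 20 * d ^ (3 : ℕ) - 4 *
    d ^ (2 : ℕ) + 16 * d) + g * W * (-8 * a ^ (4 : ℕ) - 20 * a ^ (3 : ℕ) * d + 4 * a ^ (3 : ℕ) - 18 * a ^ (2 : ℕ) * d ^ (2 : ℕ) + 8
    * a ^ (2 : ℕ) * d + 4 * a ^ (2 : ℕ) - 7 * a * d ^ (3 : ℕ) + 5 * a * d ^ (2 : ℕ) + 6 * a * d - d ^ (4 : ℕ) + d ^ (3 : ℕ) + 2 * d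
    ^ (2 : ℕ))

/-- LEG, part of the E field. -/
def LEGv (a d v g W : ℝ) : ℝ :=
  (v * (-2 * a ^ (3 : ℕ) - a ^ (2 : ℕ) * d + a ^ (2 : ℕ) + 2 * a * d ^ (2 : ℕ) + a * d - a + d ^ (3 : ℕ) - d) + 6 * a ^ (2 : ℕ) +
    9 * a * d - a + 3 * d ^ (2 : ℕ) - d) + g * W * (a ^ (2 : ℕ) + 2 * a * d + d ^ (2 : ℕ))

/-- LEG, part of the multiplier. -/
def LEGw (a d v g E : ℝ) : ℝ :=
  g * E * (-8 * a ^ (3 : ℕ) - 12 * a ^ (2 : ℕ) * d + 8 * a ^ (2 : ℕ) - 6 * a * d ^ (2 : ℕ) + 8 * a * d - 2 * a - d ^ (3 : ℕ)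
    + 2 * d ^ (2 : ℕ) - d)

/-- Linear part, EG (without `d`). -/
noncomputable def LEG (a d v g W W1 R E K : ℝ) : ℝ :=
  400 * a * (1 + d * v) * LEG1 a d v
    + (1 / 8) * 200 * (1 + d * v) * LEGc a d v g W
    + (-(21 / 100)) * 800 * a * (2 + d * v) ^ (2 : ℕ) * LEGv a d v g W
    + 400 * a * (1 + d * v) * LEGw a d v g E

/-- LGG, part of the first field. -/
def LGGc (a d v : ℝ) : ℝ :=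
  (v * (-4 * a ^ (4 : ℕ) * d - 12 * a ^ (3 : ℕ) * d ^ (2 : ℕ) - 13 * a ^ (2 : ℕ) * d ^ (3 : ℕ) + a ^ (2 : ℕ) * d - 6 * a * d ^ (4 : ℕ) +
    2 * a * d ^ (2 : ℕ) - d ^ (5 : ℕ) + d ^ (3 : ℕ)) - 8 * a ^ (4 : ℕ) - 16 * a ^ (3 : ℕ) * d - 14 * a ^ (2 : ℕ) * d ^ (2 : ℕ) + 2 * a ^ (2 : ℕ)
    - 6 * a * d ^ (3 : ℕ) + 2 * a * d - d ^ (4 : ℕ) + d ^ (2 : ℕ))

/-- LGG, part of the E field. -/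
def LGGv (a d v : ℝ) : ℝ :=
  (4 * a ^ (3 : ℕ) + 8 * a ^ (2 : ℕ) * d - 2 * a ^ (2 : ℕ) + 5 * a * d ^ (2 : ℕ) - 3 * a * d + d ^ (3 : ℕ) - d ^ (2 : ℕ))

/-- Linear part, G² (without `a + d`). -/
noncomputable def LGG (a d v g W W1 R E K : ℝ) : ℝ :=
  (1 / 8) * 200 * LGGc a d v
    + (-(21 / 100)) * 200 * a * (2 + d * v) * LGGv a d v

/-- LEE, part of the base. -/
def LEE1 (a d v : ℝ) : ℝ :=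
  (v * (v * (4 * a ^ (3 : ℕ) * d ^ (2 : ℕ) + 8 * a ^ (2 : ℕ) * d ^ (2 : ℕ) - a * d ^ (4 : ℕ) + 2 * a * d ^ (3 : ℕ) + 3 * a * d ^
    2) - 12 * a ^ (2 : ℕ) * d ^ (2 : ℕ) + 8 * a ^ (2 : ℕ) * d - 4 * a * d ^ (3 : ℕ) - 4 * a * d ^ (2 : ℕ) + d ^ (4 : ℕ) - 3 * d ^ (2 : ℕ)
    - 2 * d) + 8 * a ^ (2 : ℕ) + 8 * a * d ^ (2 : ℕ) + 8 * a * d + 4 * d ^ (3 : ℕ) + 6 * d ^ (2 : ℕ) - 2)

def LEEc_000000_0 (a d v : ℝ) : ℝ :=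
  v * (-128 * a ^ (4 : ℕ) - 256 * a ^ (3 : ℕ) * d - 192 * a ^ (2 : ℕ) * d ^ (2 : ℕ) - 64 * a * d ^ (3 : ℕ) - 16 * a * d ^ (2 : ℕ)
    + 48 * a * d - 8 * d ^ (4 : ℕ) - 8 * d ^ (3 : ℕ) + 48 * d ^ (2 : ℕ)) + 32 * a + 16 * d

def LEEc_000000_1 (a d v : ℝ) : ℝ :=
  v * (-16 * a ^ (3 : ℕ) * d ^ (2 : ℕ) - 8 * a ^ (2 : ℕ) * d ^ (3 : ℕ) - 12 * a * d ^ (3 : ℕ) + 4 * a * d ^ (2 : ℕ)) - 128 * a ^ (4 : ℕ)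
    * d - 256 * a ^ (3 : ℕ) * d ^ (2 : ℕ) - 192 * a ^ (2 : ℕ) * d ^ (3 : ℕ) + 32 * a ^ (2 : ℕ) * d ^ (2 : ℕ) - 64 * a * d ^ (4 : ℕ) + 16 *
    a * d ^ (3 : ℕ) - 8 * a * d ^ (2 : ℕ) - 8 * d ^ (5 : ℕ) + 20 * d ^ (3 : ℕ) - 4 * d ^ (2 : ℕ)

def LEEc_110000_0 (a d v : ℝ) : ℝ :=
  v * (-8 * a ^ (3 : ℕ) * d ^ (2 : ℕ) - 16 * a ^ (2 : ℕ) * d ^ (3 : ℕ) + 4 * a ^ (2 : ℕ) * d ^ (2 : ℕ) - 10 * a * d ^ (4 : ℕ) + 6 * a *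
    d ^ (3 : ℕ) - 8 * a * d ^ (2 : ℕ) - 8 * a * d - 2 * d ^ (5 : ℕ) + 2 * d ^ (4 : ℕ) - 8 * d ^ (3 : ℕ) - 8 * d ^ (2 : ℕ)) - 4 * a -
    4 * d

def LEEc_110000_1 (a d v : ℝ) : ℝ :=
  8 * a ^ (4 : ℕ) * d ^ (2 : ℕ) + 16 * a ^ (3 : ℕ) * d ^ (3 : ℕ) - 4 * a ^ (3 : ℕ) * d ^ (2 : ℕ) + 10 * a ^ (2 : ℕ) * d ^ (4 : ℕ) - 6 * a ^ (2 : ℕ)
    * d ^ (3 : ℕ) + 2 * a ^ (2 : ℕ) * d ^ (2 : ℕ) + 2 * a * d ^ (5 : ℕ) - 2 * a * d ^ (4 : ℕ) - a * d ^ (3 : ℕ) + a * d ^ (2 : ℕ) - 3 * d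
    ^ (4 : ℕ) + d ^ (3 : ℕ)

/-- LEE, part of the first field. -/
def LEEc (a d v g W W1 : ℝ) : ℝ :=
  (LEEc_000000_0 a d v + v ^ (2 : ℕ) * LEEc_000000_1 a d v) + g * W1 * (v * (-4 * a ^ (2 : ℕ) * d - 8 * a
    * d ^ (2 : ℕ) - 4 * d ^ (3 : ℕ)) - 8 * a ^ (2 : ℕ) - 16 * a * d - 8 * d ^ (2 : ℕ)) + g * W * (LEEc_110000_0 a d v +
    v ^ (2 : ℕ) * LEEc_110000_1 a d v) + g ^ (2 : ℕ) * W ^ (2 : ℕ) * (v * (-a ^ (2 : ℕ) * d ^ (2 : ℕ) - 2 * a * d ^ (3 : ℕ) - d ^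
    4))

/-- LEE, part of the E field. -/
def LEEv (a d v g W : ℝ) : ℝ :=
  (v * (v * (v * (4 * a * d ^ (2 : ℕ)) + 16 * a ^ (2 : ℕ) * d + 16 * a * d ^ (2 : ℕ) + 8 * a * d + 4 * d ^ (3 : ℕ) - 4
    * d ^ (2 : ℕ) - 4 * d) + 16 * a ^ (2 : ℕ) + 16 * a * d + 8 * a + 4 * d ^ (2 : ℕ) - 8 * d - 4) - 8) + g * W *
    (v * (v * (-a * d ^ (2 : ℕ) - d ^ (3 : ℕ)) + 2 * a * d + 2 * d ^ (2 : ℕ)) + 2 * a + 2 * d)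

/-- LEE, part of the multiplier. -/
def LEEw (a d v g E : ℝ) : ℝ :=
  g * E * (v * (4 * a ^ (3 : ℕ) * d ^ (2 : ℕ) + 4 * a ^ (2 : ℕ) * d ^ (3 : ℕ) - 4 * a ^ (2 : ℕ) * d ^ (2 : ℕ) + a * d ^ (4 : ℕ) - 2 * a
    * d ^ (3 : ℕ) + a * d ^ (2 : ℕ)) - 4 * a ^ (2 : ℕ) * d ^ (2 : ℕ) - 4 * a * d ^ (3 : ℕ) + 4 * a * d ^ (2 : ℕ) - d ^ (4 : ℕ) + 2 * d ^ (3 : ℕ)
    - d ^ (2 : ℕ))

/-- Linear part, E². -/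
noncomputable def LEE (a d v g W W1 R E K : ℝ) : ℝ :=
  800 * a * (a + d) * v * (1 + d * v) * LEE1 a d v
    + (1 / 8) * 200 * (1 + d * v) * LEEc a d v g W W1
    + (-(21 / 100)) * 400 * a * (a + d) * (2 + d * v) ^ (2 : ℕ) * LEEv a d v g W
    + 800 * a * v * (1 + d * v) * LEEw a d v g E

def LMG1_000000_0 (a d v : ℝ) : ℝ :=
  v * (16 * a ^ (3 : ℕ) * d + 16 * a ^ (2 : ℕ) * d ^ (2 : ℕ) - 8 * a ^ (2 : ℕ) * d + 4 * a * d ^ (3 : ℕ) - 16 * a * d ^ (2 : ℕ) -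
    4 * a * d - 6 * d ^ (3 : ℕ) - 4 * d ^ (2 : ℕ) + 2 * d) + 16 * a ^ (3 : ℕ) + 24 * a ^ (2 : ℕ) * d - 8 * a ^ (2 : ℕ) + 12 *
    a * d ^ (2 : ℕ) - 8 * a * d - 4 * a + 2 * d ^ (3 : ℕ) - 2 * d ^ (2 : ℕ) - 2 * d + 2

def LMG1_000000_1 (a d v : ℝ) : ℝ :=
  8 * a ^ (3 : ℕ) * d ^ (2 : ℕ) + 8 * a ^ (2 : ℕ) * d ^ (3 : ℕ) + 4 * a ^ (2 : ℕ) * d ^ (2 : ℕ) + 2 * a * d ^ (4 : ℕ) + 2 * a * d ^ (2 : ℕ) -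
    d ^ (4 : ℕ) + d ^ (2 : ℕ)

/-- LMG, part of the base. -/
def LMG1 (a d v : ℝ) : ℝ :=
  (LMG1_000000_0 a d v + v ^ (2 : ℕ) * LMG1_000000_1 a d v)

def LMGc_000000_0 (a d v : ℝ) : ℝ :=
  v * (-128 * a ^ (4 : ℕ) - 256 * a ^ (3 : ℕ) * d - 64 * a ^ (3 : ℕ) - 224 * a ^ (2 : ℕ) * d ^ (2 : ℕ) + 64 * a ^ (2 : ℕ) - 96 * a
    * d ^ (3 : ℕ) + 112 * a * d ^ (2 : ℕ) + 16 * a * d - 16 * d ^ (4 : ℕ) + 48 * d ^ (3 : ℕ) - 32 * d ^ (2 : ℕ)) + 64 * a ^ (2 : ℕ)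
    + 64 * a * d - 32 * a + 16 * d ^ (2 : ℕ) - 16 * d

def LMGc_000000_1 (a d v : ℝ) : ℝ :=
  v * (-32 * a ^ (4 : ℕ) * d ^ (2 : ℕ) - 32 * a ^ (3 : ℕ) * d ^ (3 : ℕ) + 16 * a ^ (3 : ℕ) * d ^ (2 : ℕ) - 8 * a ^ (2 : ℕ) * d ^ (4 : ℕ) - 16
    * a ^ (2 : ℕ) * d ^ (3 : ℕ) + 8 * a ^ (2 : ℕ) * d ^ (2 : ℕ) - 12 * a * d ^ (4 : ℕ) + 16 * a * d ^ (3 : ℕ) - 4 * a * d ^ (2 : ℕ)) - 128
    * a ^ (4 : ℕ) * d - 192 * a ^ (3 : ℕ) * d ^ (2 : ℕ) - 64 * a ^ (3 : ℕ) * d - 128 * a ^ (2 : ℕ) * d ^ (3 : ℕ) - 144 * a ^ (2 : ℕ) * d ^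
    2 + 64 * a ^ (2 : ℕ) * d - 48 * a * d ^ (4 : ℕ) - 32 * a * d ^ (3 : ℕ) + 64 * a * d ^ (2 : ℕ) - 8 * d ^ (5 : ℕ) + 12 * d ^
    4 - 8 * d ^ (3 : ℕ) + 4 * d ^ (2 : ℕ)

/-- LMG, part of the first field. -/
def LMGc (a d v g W W1 : ℝ) : ℝ :=
  (LMGc_000000_0 a d v + v ^ (2 : ℕ) * LMGc_000000_1 a d v) + g * W1 * (v * (-8 * a ^ (3 : ℕ) * d - 20 * a
    ^ (2 : ℕ) * d ^ (2 : ℕ) + 4 * a ^ (2 : ℕ) * d - 16 * a * d ^ (3 : ℕ) + 8 * a * d ^ (2 : ℕ) - 4 * d ^ (4 : ℕ) + 4 * d ^ (3 : ℕ)) - 16 *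
    a ^ (3 : ℕ) - 40 * a ^ (2 : ℕ) * d + 8 * a ^ (2 : ℕ) - 32 * a * d ^ (2 : ℕ) + 16 * a * d - 8 * d ^ (3 : ℕ) + 8 * d ^ (2 : ℕ)) +
    g * W * (v * (v * (12 * a ^ (3 : ℕ) * d ^ (2 : ℕ) + 12 * a ^ (2 : ℕ) * d ^ (3 : ℕ) - 4 * a ^ (2 : ℕ) * d ^ (2 : ℕ) - 3 * a * d ^
    4 - a * d ^ (2 : ℕ) - 3 * d ^ (5 : ℕ) + 4 * d ^ (4 : ℕ) - d ^ (3 : ℕ)) - 24 * a ^ (2 : ℕ) * d ^ (2 : ℕ) - 16 * a ^ (2 : ℕ) * d - 36 *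
    a * d ^ (3 : ℕ) - 12 * a * d ^ (2 : ℕ) + 8 * a * d - 12 * d ^ (4 : ℕ) + 4 * d ^ (3 : ℕ) + 8 * d ^ (2 : ℕ)) - 8 * a ^ (2 : ℕ) -
    12 * a * d + 4 * a - 4 * d ^ (2 : ℕ) + 4 * d) + g ^ (2 : ℕ) * W ^ (2 : ℕ) * (v * (-2 * a ^ (3 : ℕ) * d ^ (2 : ℕ) - 5 * a ^
    2 * d ^ (3 : ℕ) + a ^ (2 : ℕ) * d ^ (2 : ℕ) - 4 * a * d ^ (4 : ℕ) + 2 * a * d ^ (3 : ℕ) - d ^ (5 : ℕ) + d ^ (4 : ℕ)))

/-- LMG, part of the E field. -/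
def LMGv (a d v g W : ℝ) : ℝ :=
  (v * (v * (v * (2 * a ^ (2 : ℕ) * d ^ (2 : ℕ) + a * d ^ (3 : ℕ) - a * d ^ (2 : ℕ)) + 4 * a ^ (2 : ℕ) * d + 2 * a * d ^ (2 : ℕ) +
    2 * a * d) + 4 * a ^ (2 : ℕ) + 4 * a * d + 2 * a + d ^ (2 : ℕ) - 5 * d) - 4) + g * W * (v * (a * d + d ^
    2) + a + d)

/-- LMG, part of the multiplier. -/
def LMGw (a d v g E K : ℝ) : ℝ :=
  g * K * (v * (v * (8 * a * d + 4 * d ^ (2 : ℕ) - 4 * d) + 16 * a + 8 * d - 8)) + g * E * (v * (v *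
    (8 * a ^ (2 : ℕ) * d ^ (2 : ℕ) + 2 * a * d ^ (3 : ℕ) - 2 * a * d ^ (2 : ℕ) - d ^ (4 : ℕ) + 2 * d ^ (3 : ℕ) - d ^ (2 : ℕ)) - 16 * a ^ (2 : ℕ)
    * d - 28 * a * d ^ (2 : ℕ) + 8 * a * d - 10 * d ^ (3 : ℕ) + 10 * d ^ (2 : ℕ)) - 16 * a ^ (2 : ℕ) - 16 * a * d + 16 *
    a - 4 * d ^ (2 : ℕ) + 8 * d - 4)

/-- Linear part, MG. -/
noncomputable def LMG (a d v g W W1 R E K : ℝ) : ℝ :=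
  800 * a * (a + d) * v * (1 + d * v) * LMG1 a d v
    + (1 / 8) * 200 * (1 + d * v) * LMGc a d v g W W1
    + (-(21 / 100)) * 1600 * a * (a + d) * (2 + d * v) ^ (2 : ℕ) * LMGv a d v g W
    + 400 * a * (1 + d * v) * LMGw a d v g E K

/-- LLG, part of the first field. -/
def LLGc (a d v W R : ℝ) : ℝ :=
  (-8 * a ^ (4 : ℕ) - 20 * a ^ (3 : ℕ) * d - 18 * a ^ (2 : ℕ) * d ^ (2 : ℕ) + 6 * a ^ (2 : ℕ) - 7 * a * d ^ (3 : ℕ) + 9 * a * d +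
    2 * a - d ^ (4 : ℕ) + 3 * d ^ (2 : ℕ) + 2 * d) + W * R * (4 * a ^ (4 : ℕ) * d + 12 * a ^ (3 : ℕ) * d ^ (2 : ℕ) + 13 * a ^
    2 * d ^ (3 : ℕ) - 2 * a ^ (2 : ℕ) * d ^ (2 : ℕ) - 3 * a ^ (2 : ℕ) * d + 6 * a * d ^ (4 : ℕ) - 3 * a * d ^ (3 : ℕ) - 6 * a * d ^
    2 - a * d + d ^ (5 : ℕ) - d ^ (4 : ℕ) - 3 * d ^ (3 : ℕ) - d ^ (2 : ℕ))

/-- LLG, part of the E field. -/
def LLGv (a d v W R : ℝ) : ℝ :=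
  (v * (2 * a ^ (3 : ℕ) * d + 5 * a ^ (2 : ℕ) * d ^ (2 : ℕ) - a ^ (2 : ℕ) * d + 4 * a * d ^ (3 : ℕ) - 2 * a * d ^ (2 : ℕ) + d ^ (4 : ℕ)
    - d ^ (3 : ℕ)) + 4 * a ^ (3 : ℕ) + 10 * a ^ (2 : ℕ) * d - 2 * a ^ (2 : ℕ) + 8 * a * d ^ (2 : ℕ) - 4 * a * d + 2 * d ^ (3 : ℕ) -
    2 * d ^ (2 : ℕ)) + W * R * (-2 * a ^ (3 : ℕ) * d - 5 * a ^ (2 : ℕ) * d ^ (2 : ℕ) + a ^ (2 : ℕ) * d - 4 * a * d ^ (3 : ℕ) + 2 * a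
    * d ^ (2 : ℕ) - d ^ (4 : ℕ) + d ^ (3 : ℕ))

/-- LLG, part of the multiplier. -/
def LLGw (a d v R E K : ℝ) : ℝ :=
  E * (v * (8 * a ^ (2 : ℕ) * d + 12 * a * d ^ (2 : ℕ) - 4 * a * d + 4 * d ^ (3 : ℕ) - 4 * d ^ (2 : ℕ)) + 16 * a ^ (2 : ℕ) +
    24 * a * d - 8 * a + 8 * d ^ (2 : ℕ) - 8 * d) + R * K * (v * (v * (-8 * a * d - 4 * d ^ (2 : ℕ) + 4 * d)
    - 16 * a - 8 * d + 8)) + R * E * (v * (v * (-2 * a * d ^ (3 : ℕ) + 2 * a * d ^ (2 : ℕ) - d ^ (4 : ℕ) + 2 * d ^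
    3 - d ^ (2 : ℕ)) + 16 * a ^ (2 : ℕ) * d + 12 * a * d ^ (2 : ℕ) - 8 * a * d + 2 * d ^ (3 : ℕ) - 2 * d ^ (2 : ℕ)) + 16 * a ^
    2 + 16 * a * d - 16 * a + 4 * d ^ (2 : ℕ) - 8 * d + 4)

/-- Ray gap. -/
noncomputable def LLG (a d v g W W1 R E K : ℝ) : ℝ :=
  (1 / 8) * 200 * v * (2 + d * v) * (1 + d * v) * LLGc a d v W R
    + (-(21 / 100)) * 200 * a * v * (2 + d * v) ^ (2 : ℕ) * LLGv a d v W R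
    + 200 * a * (1 + d * v) * LLGw a d v R E K

/-- `1 - I`, with `I = 1/N = (1 - a - b)/2`. -/
noncomputable def j1 (a d : ℝ) : ℝ := (1 + 2 * a + d) / 2

/-- `N (1 + d v)/d` times the multiplier of the family at the point. -/
noncomputable def eVal (d v W R : ℝ) : ℝ :=
  -(10 + v * (1 / 20 + d) + R * W * (1 / 20 - 9 * d))

/-- `N (1 + d v)` times `z` times the `z`-derivative of the multiplier. -/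
noncomputable def kVal (d W R : ℝ) : ℝ := (1 / 20 - 9 * d) * (1 - R * d * W)

/-- The block, M²: the entry is `d ^ (2 : ℕ) * g ^ (2 : ℕ) * TMM / (16 * a ^ (2 : ℕ) * b ^ (2 : ℕ) * (2 + d * v) ^ (4 : ℕ))`. -/
def TMM (a d v W E : ℝ) : ℝ := -((1 - 2 * a - d) * (1 + d * v) * E * W)

/-- The Gram sum at `EE`. -/
def gramEE (a d v g W E : ℝ) : ℝ :=
  625 * d ^ (2 : ℕ) * v ^ (2 : ℕ) * (1 + d * v) * gE a d v g W E ^ (2 : ℕ) + 8 * a * (a + d) * hE a d v g W ^ (2 : ℕ)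

/-- The Gram sum at `MG`. -/
def gramMG (a d v g W : ℝ) : ℝ :=
  1600 * a * (a + d) * v * (gM a d v * gG a d v g W) +
    20000 * a * (a + d) * d ^ (2 : ℕ) * v ^ (2 : ℕ) * (1 + d * v) * (hM a d v g W * hG a d v g W)

/-- The block, G², times `640000 * a ^ (4 : ℕ) * v ^ (2 : ℕ) * (2 + d * v) ^ (4 : ℕ) * (1 + d * v) ^ (2 : ℕ)`. -/
noncomputable def TGG (a d v g W W1 R E K : ℝ) : ℝ :=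
  1600 * a * (a + d) * v ^ (2 : ℕ) * (2 + d * v) * (1 + d * v) * LGG a d v g W W1 R E K -
    j1 a d * (gG a d v g W ^ (2 : ℕ) +
      5000 * a * (a + d) * d ^ (2 : ℕ) * v ^ (2 : ℕ) * (1 + d * v) * hG a d v g W ^ (2 : ℕ))

/-- The block, EG: the entry is `d * TEG / (51200 * a ^ (4 : ℕ) * b * v * (2 + d * v) ^ (4 : ℕ) * (1 + d * v))`. -/
noncomputable def TEG (a d v g W W1 R E K : ℝ) : ℝ :=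
  32 * a * (a + d) * v * LEG a d v g W W1 R E K - 2 * j1 a d *
    (gE a d v g W E * gG a d v g W + 8 * a * (a + d) * (hE a d v g W * hG a d v g W))

/-- The block, E², times `2560000 * a ^ (4 : ℕ) * b ^ (2 : ℕ) * v ^ (2 : ℕ) * (2 + d * v) ^ (4 : ℕ) * (1 + d * v)`. -/
noncomputable def TEE (a d v g W W1 R E K : ℝ) : ℝ :=
  1600 * a * (a + d) * v * LEE a d v g W W1 R E K -
    (j1 a d - 1 / 2) * gramEE a d v g W E - 2 * gramMG a d v g W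

/-- The block, MG, times the factor of `TEE`. -/
noncomputable def TMG (a d v g W W1 R E K : ℝ) : ℝ :=
  800 * a * (a + d) * v * LMG a d v g W W1 R E K -
    (2 * j1 a d - 2) * gramMG a d v g W - gramEE a d v g W E / 2

/-- The sum `E² + MG`. -/
noncomputable def TA (a d v g W W1 R E K : ℝ) : ℝ :=
  TEE a d v g W W1 R E K + TMG a d v g W W1 R E K

/-- The arrow determinant. -/
noncomputable def TArrow (a d v g W W1 R E K : ℝ) : ℝ :=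
  4 * TA a d v g W W1 R E K * TMM a d v W E * TGG a d v g W W1 R E K -
    16 * (1 + d * v) * TME a d v g W W1 E K ^ (2 : ℕ) * TGG a d v g W W1 R E K -
    625 * d ^ (2 : ℕ) * v ^ (2 : ℕ) * (1 + d * v) * TEG a d v g W W1 R E K ^ (2 : ℕ) * TMM a d v W E

/-- The five signs in closed form. -/
def Signs (a d v g W W1 R : ℝ) : Prop :=
  let E := eVal d v W R
  let K := kVal d W R
  0 < TGG a d v g W W1 R E K ∧ 0 < W ∧ E < 0 ∧ 0 < TArrow a d v g W W1 R E K ∧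
    0 ≤ TMG a d v g W W1 R E K ∧ 0 ≤ LLG a d v g W W1 R E K

end Vale.Agent.P100.Calib.Closed
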