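import Mathlib
import Vale.Agent.P100.Calib.SlabClosed
import Vale.Agent.P100.Calib.SlabBridgeParts

/-!
# The parts in the variables of the closed forms
-/

set_option linter.unusedVariables false
set_option linter.unusedSimpArgs false

namespace Vale.Agent.P100.Calib.Bridge

variable {a d v x g W W1 R E K : ℝ}

/-- `y` of the chart. -/
noncomputable def sy (a d v x : ℝ) : ℝ := a * (1 + d * v) / (a + d) * x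

/-- Nondegeneracy in the chart. -/
structure Ch (a d v x : ℝ) : Prop where
  a0 : a ≠ 0
  b0 : a + d ≠ 0
  d0 : d ≠ 0
  v0 : v ≠ 0
  x0 : x ≠ 0
  P0 : 2 + d * v ≠ 0
  Q0 : 1 + d * v ≠ 0

theorem Ch.eqs {a d v x : ℝ} (h : Ch a d v x) :
    a * x + (a + d) * sy a d v x = a * x * (2 + d * v) ∧
      (a + d) * sy a d v x - a * x = a * d * v * x := by
  have := h.b0
  constructor <;> unfold sy <;> field_simp <;> ring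

theorem LEG1_at (h : Ch a d v x) :
    (((sy a d v x) * (-3 * a ^ (4 : ℕ) * (a + d) ^ (2 : ℕ) - 5 * a ^ (3 : ℕ) * (a + d) ^ (3 : ℕ) - 7 * a ^ (3 : ℕ) * (a + d) ^
      2 - a ^ (2 : ℕ) * (a + d) ^ (4 : ℕ) - 6 * a ^ (2 : ℕ) * (a + d) ^ (3 : ℕ) - 5 * a ^ (2 : ℕ) * (a + d) ^ (2 : ℕ) + a * (a + d) ^
      5 + a * (a + d) ^ (4 : ℕ) - a * (a + d) ^ (3 : ℕ) - a * (a + d) ^ (2 : ℕ)) + x * (-a ^ (5 : ℕ) * (a + d) + a ^ (4 : ℕ) *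
      (a + d) ^ (2 : ℕ) - a ^ (4 : ℕ) * (a + d) + 5 * a ^ (3 : ℕ) * (a + d) ^ (3 : ℕ) + 6 * a ^ (3 : ℕ) * (a + d) ^ (2 : ℕ) + a ^ (3 : ℕ) *
      (a + d) + 3 * a ^ (2 : ℕ) * (a + d) ^ (4 : ℕ) + 7 * a ^ (2 : ℕ) * (a + d) ^ (3 : ℕ) + 5 * a ^ (2 : ℕ) * (a + d) ^ (2 : ℕ) + a ^
      2 * (a + d)))) / (4 * (a * x + (a + d) * (sy a d v x)) ^ (4 : ℕ)) =
      d * Closed.LEG1 a d v / (4 * a ^ (2 : ℕ) * (2 + d * v) ^ (4 : ℕ) * x ^ (3 : ℕ)) := by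
  obtain ⟨eD, eE⟩ := h.eqs
  obtain ⟨a0, b0, d0, v0, x0, P0, Q0⟩ := h
  simp only [Closed.LEG1, Closed.LEG1_000000_0]
  (try simp only [eD, eE])
  simp only [sy]
  obtain ⟨P, hP⟩ : ∃ P, P = 2 + d * v := ⟨_, rfl⟩
  obtain ⟨Q, hQ⟩ : ∃ Q, Q = 1 + d * v := ⟨_, rfl⟩
  obtain ⟨B, hB⟩ : ∃ B, B = a + d := ⟨_, rfl⟩
  rw [← hP] at P0
  rw [← hQ] at Q0
  rw [← hB] at b0
  simp only [← hP, ← hQ, ← hB]
  field_simp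
  subst hP hQ hB
  ring

theorem LEGc_at (h : Ch a d v x) :
    rcEG a (a + d) x (sy a d v x) (g * sy a d v x) (d * W * x ^ (2 : ℕ)) =
      d * Closed.LEGc a d v g W / (8 * a ^ (3 : ℕ) * (2 + d * v) ^ (4 : ℕ) * x ^ (3 : ℕ)) := by
  obtain ⟨eD, eE⟩ := h.eqs
  obtain ⟨a0, b0, d0, v0, x0, P0, Q0⟩ := h
  simp only [rcEG, rcEG_0_0, Closed.LEGc]
  (try simp only [eD, eE])
  simp only [sy]
  obtain ⟨P, hP⟩ : ∃ P, P = 2 + d * v := ⟨_, rfl⟩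
  obtain ⟨Q, hQ⟩ : ∃ Q, Q = 1 + d * v := ⟨_, rfl⟩
  obtain ⟨B, hB⟩ : ∃ B, B = a + d := ⟨_, rfl⟩
  rw [← hP] at P0
  rw [← hQ] at Q0
  rw [← hB] at b0
  simp only [← hP, ← hQ, ← hB]
  field_simp
  subst hP hQ hB
  ring

theorem LEGv_at (h : Ch a d v x) :
    rvEG a (a + d) x (sy a d v x) (g * sy a d v x) (d * W * x ^ (2 : ℕ)) =
      d * Closed.LEGv a d v g W / (2 * a ^ (2 : ℕ) * (2 + d * v) ^ (2 : ℕ) * (1 + d * v) * x ^ (3 : ℕ)) := by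
  obtain ⟨eD, eE⟩ := h.eqs
  obtain ⟨a0, b0, d0, v0, x0, P0, Q0⟩ := h
  simp only [rvEG, Closed.LEGv]
  (try simp only [eD, eE])
  simp only [sy]
  obtain ⟨P, hP⟩ : ∃ P, P = 2 + d * v := ⟨_, rfl⟩
  obtain ⟨Q, hQ⟩ : ∃ Q, Q = 1 + d * v := ⟨_, rfl⟩
  obtain ⟨B, hB⟩ : ∃ B, B = a + d := ⟨_, rfl⟩
  rw [← hP] at P0
  rw [← hQ] at Q0
  rw [← hB] at b0
  simp only [← hP, ← hQ, ← hB]
  field_simp
  subst hP hQ hB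
  ring

theorem LEGw_at (h : Ch a d v x) :
    rwEG a (a + d) x (sy a d v x) (g * sy a d v x) (d * E / (1 + d * v)) =
      d * Closed.LEGw a d v g E / (4 * a ^ (2 : ℕ) * (2 + d * v) ^ (4 : ℕ) * x ^ (3 : ℕ)) := by
  obtain ⟨eD, eE⟩ := h.eqs
  obtain ⟨a0, b0, d0, v0, x0, P0, Q0⟩ := h
  simp only [rwEG, Closed.LEGw]
  (try simp only [eD, eE])
  simp only [sy]
  obtain ⟨P, hP⟩ : ∃ P, P = 2 + d * v := ⟨_, rfl⟩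
  obtain ⟨Q, hQ⟩ : ∃ Q, Q = 1 + d * v := ⟨_, rfl⟩
  obtain ⟨B, hB⟩ : ∃ B, B = a + d := ⟨_, rfl⟩
  rw [← hP] at P0
  rw [← hQ] at Q0
  rw [← hB] at b0
  simp only [← hP, ← hQ, ← hB]
  field_simp
  subst hP hQ hB
  ring

theorem LGGc_at (h : Ch a d v x) :
    rcGG a (a + d) x (sy a d v x) =
      (a + d) * Closed.LGGc a d v / (2 * a ^ (3 : ℕ) * (2 + d * v) ^ (3 : ℕ) * (1 + d * v) * x ^ (4 : ℕ)) := by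
  obtain ⟨eD, eE⟩ := h.eqs
  obtain ⟨a0, b0, d0, v0, x0, P0, Q0⟩ := h
  simp only [rcGG, Closed.LGGc]
  (try simp only [eD, eE])
  simp only [sy]
  obtain ⟨P, hP⟩ : ∃ P, P = 2 + d * v := ⟨_, rfl⟩
  obtain ⟨Q, hQ⟩ : ∃ Q, Q = 1 + d * v := ⟨_, rfl⟩
  obtain ⟨B, hB⟩ : ∃ B, B = a + d := ⟨_, rfl⟩
  rw [← hP] at P0
  rw [← hQ] at Q0
  rw [← hB] at b0
  simp only [← hP, ← hQ, ← hB]
  field_simp
  subst hP hQ hB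
  ring

theorem LGGv_at (h : Ch a d v x) :
    rvGG a (a + d) x (sy a d v x) =
      (a + d) * Closed.LGGv a d v / (2 * a ^ (2 : ℕ) * (2 + d * v) ^ (2 : ℕ) * (1 + d * v) * x ^ (4 : ℕ)) := by
  obtain ⟨eD, eE⟩ := h.eqs
  obtain ⟨a0, b0, d0, v0, x0, P0, Q0⟩ := h
  simp only [rvGG, Closed.LGGv]
  (try simp only [eD, eE])
  simp only [sy]
  obtain ⟨P, hP⟩ : ∃ P, P = 2 + d * v := ⟨_, rfl⟩
  obtain ⟨Q, hQ⟩ : ∃ Q, Q = 1 + d * v := ⟨_, rfl⟩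
  obtain ⟨B, hB⟩ : ∃ B, B = a + d := ⟨_, rfl⟩
  rw [← hP] at P0
  rw [← hQ] at Q0
  rw [← hB] at b0
  simp only [← hP, ← hQ, ← hB]
  field_simp
  subst hP hQ hB
  ring

theorem LEE1_at (h : Ch a d v x) :
    (((sy a d v x) ^ (2 : ℕ) * (3 * a ^ (3 : ℕ) * (a + d) ^ (2 : ℕ) + 2 * a ^ (2 : ℕ) * (a + d) ^ (3 : ℕ) + 6 * a ^ (2 : ℕ) * (a +
      d) ^ (2 : ℕ) - a * (a + d) ^ (4 : ℕ) + 2 * a * (a + d) ^ (3 : ℕ) + 3 * a * (a + d) ^ (2 : ℕ)) + x * (sy a d v x) *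
      (a ^ (4 : ℕ) * (a + d) - 5 * a ^ (3 : ℕ) * (a + d) ^ (2 : ℕ) - 5 * a ^ (2 : ℕ) * (a + d) ^ (3 : ℕ) - 8 * a ^ (2 : ℕ) * (a + d) ^
      2 - 3 * a ^ (2 : ℕ) * (a + d) + a * (a + d) ^ (4 : ℕ) - 3 * a * (a + d) ^ (2 : ℕ) - 2 * a * (a + d)) + x ^ (2 : ℕ) *
      (-a ^ (4 : ℕ) * (a + d) + 2 * a ^ (3 : ℕ) * (a + d) ^ (2 : ℕ) + 2 * a ^ (3 : ℕ) * (a + d) + 3 * a ^ (2 : ℕ) * (a + d) ^ (3 : ℕ)
      + 6 * a ^ (2 : ℕ) * (a + d) ^ (2 : ℕ) + 3 * a ^ (2 : ℕ) * (a + d)))) / (2 * (a * x + (a + d) * (sy a d v x)) ^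
      4) =
      Closed.LEE1 a d v / (2 * a ^ (2 : ℕ) * (2 + d * v) ^ (4 : ℕ) * x ^ (2 : ℕ)) := by
  obtain ⟨eD, eE⟩ := h.eqs
  obtain ⟨a0, b0, d0, v0, x0, P0, Q0⟩ := h
  simp only [Closed.LEE1]
  (try simp only [eD, eE])
  simp only [sy]
  obtain ⟨P, hP⟩ : ∃ P, P = 2 + d * v := ⟨_, rfl⟩
  obtain ⟨Q, hQ⟩ : ∃ Q, Q = 1 + d * v := ⟨_, rfl⟩
  obtain ⟨B, hB⟩ : ∃ B, B = a + d := ⟨_, rfl⟩
  rw [← hP] at P0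
  rw [← hQ] at Q0
  rw [← hB] at b0
  simp only [← hP, ← hQ, ← hB]
  field_simp
  subst hP hQ hB
  ring

theorem LEEc_at (h : Ch a d v x) :
    rcEE a (a + d) x (sy a d v x) (g * sy a d v x) (d * W * x ^ (2 : ℕ)) (d * W1 * x ^ (3 : ℕ)) =
      Closed.LEEc a d v g W W1 / (8 * a ^ (3 : ℕ) * (a + d) * v * (2 + d * v) ^ (4 : ℕ) * x ^ (2 : ℕ)) := by
  obtain ⟨eD, eE⟩ := h.eqs
  obtain ⟨a0, b0, d0, v0, x0, P0, Q0⟩ := h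
  simp only [rcEE, rcEE_0_0, rcEE_0_3, rcEE_2_0, Closed.LEEc, Closed.LEEc_000000_0, Closed.LEEc_000000_1, Closed.LEEc_110000_0, Closed.LEEc_110000_1]
  (try simp only [eD, eE])
  simp only [sy]
  obtain ⟨P, hP⟩ : ∃ P, P = 2 + d * v := ⟨_, rfl⟩
  obtain ⟨Q, hQ⟩ : ∃ Q, Q = 1 + d * v := ⟨_, rfl⟩
  obtain ⟨B, hB⟩ : ∃ B, B = a + d := ⟨_, rfl⟩
  rw [← hP] at P0
  rw [← hQ] at Q0
  rw [← hB] at b0
  simp only [← hP, ← hQ, ← hB]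
  field_simp
  subst hP hQ hB
  ring

theorem LEEv_at (h : Ch a d v x) :
    rvEE a (a + d) x (sy a d v x) (g * sy a d v x) (d * W * x ^ (2 : ℕ)) =
      Closed.LEEv a d v g W / (4 * a ^ (2 : ℕ) * v * (2 + d * v) ^ (2 : ℕ) * (1 + d * v) * x ^ (2 : ℕ)) := by
  obtain ⟨eD, eE⟩ := h.eqs
  obtain ⟨a0, b0, d0, v0, x0, P0, Q0⟩ := h
  simp only [rvEE, Closed.LEEv]
  (try simp only [eD, eE])
  simp only [sy]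
  obtain ⟨P, hP⟩ : ∃ P, P = 2 + d * v := ⟨_, rfl⟩
  obtain ⟨Q, hQ⟩ : ∃ Q, Q = 1 + d * v := ⟨_, rfl⟩
  obtain ⟨B, hB⟩ : ∃ B, B = a + d := ⟨_, rfl⟩
  rw [← hP] at P0
  rw [← hQ] at Q0
  rw [← hB] at b0
  simp only [← hP, ← hQ, ← hB]
  field_simp
  subst hP hQ hB
  ring

theorem LEEw_at (h : Ch a d v x) :
    rwEE a (a + d) x (sy a d v x) (g * sy a d v x) (d * E / (1 + d * v)) =
      Closed.LEEw a d v g E / (2 * a ^ (2 : ℕ) * (a + d) * (2 + d * v) ^ (4 : ℕ) * x ^ (2 : ℕ)) := by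
  obtain ⟨eD, eE⟩ := h.eqs
  obtain ⟨a0, b0, d0, v0, x0, P0, Q0⟩ := h
  simp only [rwEE, Closed.LEEw]
  (try simp only [eD, eE])
  simp only [sy]
  obtain ⟨P, hP⟩ : ∃ P, P = 2 + d * v := ⟨_, rfl⟩
  obtain ⟨Q, hQ⟩ : ∃ Q, Q = 1 + d * v := ⟨_, rfl⟩
  obtain ⟨B, hB⟩ : ∃ B, B = a + d := ⟨_, rfl⟩
  rw [← hP] at P0
  rw [← hQ] at Q0
  rw [← hB] at b0
  simp only [← hP, ← hQ, ← hB]
  field_simp
  subst hP hQ hB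
  ring

theorem LMG1_at (h : Ch a d v x) :
    (((sy a d v x) ^ (2 : ℕ) * (2 * a ^ (3 : ℕ) * (a + d) ^ (2 : ℕ) + 4 * a ^ (2 : ℕ) * (a + d) ^ (3 : ℕ) + 3 * a ^ (2 : ℕ) * (a +
      d) ^ (2 : ℕ) + 2 * a * (a + d) ^ (4 : ℕ) + 2 * a * (a + d) ^ (3 : ℕ) + 2 * a * (a + d) ^ (2 : ℕ) - (a + d) ^ (4 : ℕ) + (a
      + d) ^ (2 : ℕ)) + x * (sy a d v x) * (-4 * a ^ (3 : ℕ) * (a + d) - 8 * a ^ (2 : ℕ) * (a + d) ^ (2 : ℕ) - 4 * a ^ (2 : ℕ) *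
      (a + d) - 4 * a * (a + d) ^ (3 : ℕ) - 4 * a * (a + d) ^ (2 : ℕ)) + x ^ (2 : ℕ) * (2 * a ^ (4 : ℕ) * (a + d) - a ^ (4 : ℕ)
      + 4 * a ^ (3 : ℕ) * (a + d) ^ (2 : ℕ) + 2 * a ^ (3 : ℕ) * (a + d) + 2 * a ^ (2 : ℕ) * (a + d) ^ (3 : ℕ) + 3 * a ^ (2 : ℕ) * (a +
      d) ^ (2 : ℕ) + 2 * a ^ (2 : ℕ) * (a + d) + a ^ (2 : ℕ)))) / (4 * (a * x + (a + d) * (sy a d v x)) ^ (4 : ℕ)) =
      Closed.LMG1 a d v / (4 * a ^ (2 : ℕ) * (2 + d * v) ^ (4 : ℕ) * x ^ (2 : ℕ)) := by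
  obtain ⟨eD, eE⟩ := h.eqs
  obtain ⟨a0, b0, d0, v0, x0, P0, Q0⟩ := h
  simp only [Closed.LMG1, Closed.LMG1_000000_0, Closed.LMG1_000000_1]
  (try simp only [eD, eE])
  simp only [sy]
  obtain ⟨P, hP⟩ : ∃ P, P = 2 + d * v := ⟨_, rfl⟩
  obtain ⟨Q, hQ⟩ : ∃ Q, Q = 1 + d * v := ⟨_, rfl⟩
  obtain ⟨B, hB⟩ : ∃ B, B = a + d := ⟨_, rfl⟩
  rw [← hP] at P0
  rw [← hQ] at Q0
  rw [← hB] at b0
  simp only [← hP, ← hQ, ← hB]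
  field_simp
  subst hP hQ hB
  ring

theorem LMGc_at (h : Ch a d v x) :
    rcMG a (a + d) x (sy a d v x) (g * sy a d v x) (d * W * x ^ (2 : ℕ)) (d * W1 * x ^ (3 : ℕ)) =
      Closed.LMGc a d v g W W1 / (16 * a ^ (3 : ℕ) * (a + d) * v * (2 + d * v) ^ (4 : ℕ) * x ^ (2 : ℕ)) := by
  obtain ⟨eD, eE⟩ := h.eqs
  obtain ⟨a0, b0, d0, v0, x0, P0, Q0⟩ := h
  simp only [rcMG, rcMG_0_0, rcMG_0_3, rcMG_2_0, Closed.LMGc, Closed.LMGc_000000_0, Closed.LMGc_000000_1]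
  (try simp only [eD, eE])
  simp only [sy]
  obtain ⟨P, hP⟩ : ∃ P, P = 2 + d * v := ⟨_, rfl⟩
  obtain ⟨Q, hQ⟩ : ∃ Q, Q = 1 + d * v := ⟨_, rfl⟩
  obtain ⟨B, hB⟩ : ∃ B, B = a + d := ⟨_, rfl⟩
  rw [← hP] at P0
  rw [← hQ] at Q0
  rw [← hB] at b0
  simp only [← hP, ← hQ, ← hB]
  field_simp
  subst hP hQ hB
  ring

theorem LMGv_at (h : Ch a d v x) :
    rvMG a (a + d) x (sy a d v x) (g * sy a d v x) (d * W * x ^ (2 : ℕ)) =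
      Closed.LMGv a d v g W / (2 * a ^ (2 : ℕ) * v * (2 + d * v) ^ (2 : ℕ) * (1 + d * v) * x ^ (2 : ℕ)) := by
  obtain ⟨eD, eE⟩ := h.eqs
  obtain ⟨a0, b0, d0, v0, x0, P0, Q0⟩ := h
  simp only [rvMG, Closed.LMGv]
  (try simp only [eD, eE])
  simp only [sy]
  obtain ⟨P, hP⟩ : ∃ P, P = 2 + d * v := ⟨_, rfl⟩
  obtain ⟨Q, hQ⟩ : ∃ Q, Q = 1 + d * v := ⟨_, rfl⟩
  obtain ⟨B, hB⟩ : ∃ B, B = a + d := ⟨_, rfl⟩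
  rw [← hP] at P0
  rw [← hQ] at Q0
  rw [← hB] at b0
  simp only [← hP, ← hQ, ← hB]
  field_simp
  subst hP hQ hB
  ring

theorem LMGw_at (h : Ch a d v x) :
    rwMG a (a + d) x (sy a d v x) (g * sy a d v x) (d * E / (1 + d * v)) (K / (1 + d * v)) =
      Closed.LMGw a d v g E K / (8 * a ^ (2 : ℕ) * (a + d) * v * (2 + d * v) ^ (4 : ℕ) * x ^ (2 : ℕ)) := by
  obtain ⟨eD, eE⟩ := h.eqs
  obtain ⟨a0, b0, d0, v0, x0, P0, Q0⟩ := h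
  simp only [rwMG, rwMG_1_0, Closed.LMGw]
  (try simp only [eD, eE])
  simp only [sy]
  obtain ⟨P, hP⟩ : ∃ P, P = 2 + d * v := ⟨_, rfl⟩
  obtain ⟨Q, hQ⟩ : ∃ Q, Q = 1 + d * v := ⟨_, rfl⟩
  obtain ⟨B, hB⟩ : ∃ B, B = a + d := ⟨_, rfl⟩
  rw [← hP] at P0
  rw [← hQ] at Q0
  rw [← hB] at b0
  simp only [← hP, ← hQ, ← hB]
  field_simp
  subst hP hQ hB
  ring

theorem LLGc_at (h : Ch a d v x) :
    rcLG a (a + d) x (sy a d v x) (d * W * x ^ (2 : ℕ)) (R / x) =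
      Closed.LLGc a d v W R / (2 * a ^ (2 : ℕ) * (2 + d * v) * (1 + d * v) * x ^ (2 : ℕ)) := by
  obtain ⟨eD, eE⟩ := h.eqs
  obtain ⟨a0, b0, d0, v0, x0, P0, Q0⟩ := h
  simp only [rcLG, Closed.LLGc]
  (try simp only [eD, eE])
  simp only [sy]
  obtain ⟨P, hP⟩ : ∃ P, P = 2 + d * v := ⟨_, rfl⟩
  obtain ⟨Q, hQ⟩ : ∃ Q, Q = 1 + d * v := ⟨_, rfl⟩
  obtain ⟨B, hB⟩ : ∃ B, B = a + d := ⟨_, rfl⟩
  rw [← hP] at P0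
  rw [← hQ] at Q0
  rw [← hB] at b0
  simp only [← hP, ← hQ, ← hB]
  field_simp
  subst hP hQ hB
  ring

theorem LLGv_at (h : Ch a d v x) :
    rvLG a (a + d) x (sy a d v x) (d * W * x ^ (2 : ℕ)) (R / x) =
      Closed.LLGv a d v W R / (2 * a * (1 + d * v) ^ (2 : ℕ) * x ^ (2 : ℕ)) := by
  obtain ⟨eD, eE⟩ := h.eqs
  obtain ⟨a0, b0, d0, v0, x0, P0, Q0⟩ := h
  simp only [rvLG, Closed.LLGv]
  (try simp only [eD, eE])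
  simp only [sy]
  obtain ⟨P, hP⟩ : ∃ P, P = 2 + d * v := ⟨_, rfl⟩
  obtain ⟨Q, hQ⟩ : ∃ Q, Q = 1 + d * v := ⟨_, rfl⟩
  obtain ⟨B, hB⟩ : ∃ B, B = a + d := ⟨_, rfl⟩
  rw [← hP] at P0
  rw [← hQ] at Q0
  rw [← hB] at b0
  simp only [← hP, ← hQ, ← hB]
  field_simp
  subst hP hQ hB
  ring

theorem LLGw_at (h : Ch a d v x) :
    rwLG a (a + d) x (sy a d v x) (R / x) (d * E / (1 + d * v)) (K / (1 + d * v)) =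
      Closed.LLGw a d v R E K / (2 * a * v * (2 + d * v) ^ (2 : ℕ) * (1 + d * v) * x ^ (2 : ℕ)) := by
  obtain ⟨eD, eE⟩ := h.eqs
  obtain ⟨a0, b0, d0, v0, x0, P0, Q0⟩ := h
  simp only [rwLG, rwLG_2_0, Closed.LLGw]
  (try simp only [eD, eE])
  simp only [sy]
  obtain ⟨P, hP⟩ : ∃ P, P = 2 + d * v := ⟨_, rfl⟩
  obtain ⟨Q, hQ⟩ : ∃ Q, Q = 1 + d * v := ⟨_, rfl⟩
  obtain ⟨B, hB⟩ : ∃ B, B = a + d := ⟨_, rfl⟩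
  rw [← hP] at P0
  rw [← hQ] at Q0
  rw [← hB] at b0
  simp only [← hP, ← hQ, ← hB]
  field_simp
  subst hP hQ hB
  ring

theorem gM_at (h : Ch a d v x) :
    ((((sy a d v x) ^ (2 : ℕ) * (2 * (a + d)) + x * (sy a d v x) * (-2) + x ^ (2 : ℕ) * (2 * a))) / ((a * x
      + (a + d) * (sy a d v x)) ^ (2 : ℕ))) =
      Closed.gM a d v / (a * (a + d) * (2 + d * v) ^ (2 : ℕ)) := by
  obtain ⟨eD, eE⟩ := h.eqs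
  obtain ⟨a0, b0, d0, v0, x0, P0, Q0⟩ := h
  simp only [Closed.gM]
  (try simp only [eD, eE])
  simp only [sy]
  obtain ⟨P, hP⟩ : ∃ P, P = 2 + d * v := ⟨_, rfl⟩
  obtain ⟨Q, hQ⟩ : ∃ Q, Q = 1 + d * v := ⟨_, rfl⟩
  obtain ⟨B, hB⟩ : ∃ B, B = a + d := ⟨_, rfl⟩
  rw [← hP] at P0
  rw [← hQ] at Q0
  rw [← hB] at b0
  simp only [← hP, ← hQ, ← hB]
  field_simp
  subst hP hQ hB
  ring

theorem gE_at (h : Ch a d v x) :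
    ((((sy a d v x) * (-7 * a * (a + d) + (a + d) ^ (2 : ℕ) - 3 * (a + d)) + x * (-a ^ (2 : ℕ) + 7 * a * (a
      + d) + 3 * a))) / (2 * (a * x + (a + d) * (sy a d v x)) ^ (2 : ℕ))) + (1 / 8) * rcgE a (a + d) x
      (sy a d v x) (g * sy a d v x) (d * W * x ^ (2 : ℕ)) + rwgE a (a + d) x (sy a d v x) (g * sy a d v
      x) (d * E / (1 + d * v)) =
      d * Closed.gE a d v g W E / (32 * a ^ (2 : ℕ) * (a + d) * (2 + d * v) ^ (2 : ℕ) * x) := by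
  obtain ⟨eD, eE⟩ := h.eqs
  obtain ⟨a0, b0, d0, v0, x0, P0, Q0⟩ := h
  simp only [rcgE, rwgE, Closed.gE]
  (try simp only [eD, eE])
  simp only [sy]
  obtain ⟨P, hP⟩ : ∃ P, P = 2 + d * v := ⟨_, rfl⟩
  obtain ⟨Q, hQ⟩ : ∃ Q, Q = 1 + d * v := ⟨_, rfl⟩
  obtain ⟨B, hB⟩ : ∃ B, B = a + d := ⟨_, rfl⟩
  rw [← hP] at P0
  rw [← hQ] at Q0
  rw [← hB] at b0
  simp only [← hP, ← hQ, ← hB]
  field_simp
  subst hP hQ hB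
  ring

theorem gG_at (h : Ch a d v x) :
    ((((a ^ (2 : ℕ) * (a + d) + a * (a + d) ^ (2 : ℕ) + a * (a + d)))) / ((a * x + (a + d) * (sy a d v x)) ^
      2)) + (1 / 8) * rcgG a (a + d) x (sy a d v x) (g * sy a d v x) (d * W * x ^ (2 : ℕ)) + (-(21 /
      100)) * rvgG x (sy a d v x) =
      Closed.gG a d v g W / (400 * a ^ (2 : ℕ) * v * (2 + d * v) ^ (2 : ℕ) * (1 + d * v) * x ^ (2 : ℕ)) := by
  obtain ⟨eD, eE⟩ := h.eqs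
  obtain ⟨a0, b0, d0, v0, x0, P0, Q0⟩ := h
  simp only [rcgG, rvgG, Closed.gG]
  (try simp only [eD, eE])
  simp only [sy]
  obtain ⟨P, hP⟩ : ∃ P, P = 2 + d * v := ⟨_, rfl⟩
  obtain ⟨Q, hQ⟩ : ∃ Q, Q = 1 + d * v := ⟨_, rfl⟩
  obtain ⟨B, hB⟩ : ∃ B, B = a + d := ⟨_, rfl⟩
  rw [← hP] at P0
  rw [← hQ] at Q0
  rw [← hB] at b0
  simp only [← hP, ← hQ, ← hB]
  field_simp
  subst hP hQ hB
  ring

theorem hM_at (h : Ch a d v x) :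
    (1 / 8) * rchM a (a + d) x (sy a d v x) (g * sy a d v x) (d * W * x ^ (2 : ℕ)) =
      d * Closed.hM a d v g W / (16 * a ^ (2 : ℕ) * (a + d) * (2 + d * v) ^ (2 : ℕ) * x) := by
  obtain ⟨eD, eE⟩ := h.eqs
  obtain ⟨a0, b0, d0, v0, x0, P0, Q0⟩ := h
  simp only [rchM, Closed.hM]
  (try simp only [eD, eE])
  simp only [sy]
  obtain ⟨P, hP⟩ : ∃ P, P = 2 + d * v := ⟨_, rfl⟩
  obtain ⟨Q, hQ⟩ : ∃ Q, Q = 1 + d * v := ⟨_, rfl⟩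
  obtain ⟨B, hB⟩ : ∃ B, B = a + d := ⟨_, rfl⟩
  rw [← hP] at P0
  rw [← hQ] at Q0
  rw [← hB] at b0
  simp only [← hP, ← hQ, ← hB]
  field_simp
  subst hP hQ hB
  ring

theorem hE_at (h : Ch a d v x) :
    (1 / 8) * rchE a (a + d) x (sy a d v x) (g * sy a d v x) (d * W * x ^ (2 : ℕ)) + (-(21 / 100)) *
      rvhE x (sy a d v x) =
      Closed.hE a d v g W / (800 * a ^ (2 : ℕ) * v * (2 + d * v) ^ (2 : ℕ) * (1 + d * v) * x ^ (2 : ℕ)) := by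
  obtain ⟨eD, eE⟩ := h.eqs
  obtain ⟨a0, b0, d0, v0, x0, P0, Q0⟩ := h
  simp only [rchE, rchE_0_0, rchE_0_3, rvhE, Closed.hE]
  (try simp only [eD, eE])
  simp only [sy]
  obtain ⟨P, hP⟩ : ∃ P, P = 2 + d * v := ⟨_, rfl⟩
  obtain ⟨Q, hQ⟩ : ∃ Q, Q = 1 + d * v := ⟨_, rfl⟩
  obtain ⟨B, hB⟩ : ∃ B, B = a + d := ⟨_, rfl⟩
  rw [← hP] at P0
  rw [← hQ] at Q0
  rw [← hB] at b0
  simp only [← hP, ← hQ, ← hB]
  field_simp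
  subst hP hQ hB
  ring

theorem hG_at (h : Ch a d v x) :
    (1 / 8) * rchG a (a + d) x (sy a d v x) (g * sy a d v x) (d * W * x ^ (2 : ℕ)) =
      d * (a + d) * Closed.hG a d v g W / (16 * a ^ (2 : ℕ) * (2 + d * v) ^ (2 : ℕ) * (1 + d * v) * x ^ (3 : ℕ)) := by
  obtain ⟨eD, eE⟩ := h.eqs
  obtain ⟨a0, b0, d0, v0, x0, P0, Q0⟩ := h
  simp only [rchG, Closed.hG]
  (try simp only [eD, eE])
  simp only [sy]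
  obtain ⟨P, hP⟩ : ∃ P, P = 2 + d * v := ⟨_, rfl⟩
  obtain ⟨Q, hQ⟩ : ∃ Q, Q = 1 + d * v := ⟨_, rfl⟩
  obtain ⟨B, hB⟩ : ∃ B, B = a + d := ⟨_, rfl⟩
  rw [← hP] at P0
  rw [← hQ] at Q0
  rw [← hB] at b0
  simp only [← hP, ← hQ, ← hB]
  field_simp
  subst hP hQ hB
  ring

theorem TMM_at (h : Ch a d v x) :
    ((((sy a d v x) ^ (4 : ℕ) * (a * (a + d) ^ (2 : ℕ) + (a + d) ^ (3 : ℕ) + (a + d) ^ (2 : ℕ)) + x * (sy a d v x) ^ (3 : ℕ) *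
      (-2 * a * (a + d) - 2 * (a + d) ^ (2 : ℕ) - 2 * (a + d)) + x ^ (2 : ℕ) * (sy a d v x) ^ (2 : ℕ) * (2 * a ^ (2 : ℕ) *
      (a + d) + 2 * a * (a + d) ^ (2 : ℕ) + 2 * a * (a + d) + a + (a + d) + 1) + x ^ (3 : ℕ) * (sy a d v x) *
      (-2 * a ^ (2 : ℕ) - 2 * a * (a + d) - 2 * a) + x ^ (4 : ℕ) * (a ^ (3 : ℕ) + a ^ (2 : ℕ) * (a + d) + a ^ (2 : ℕ)))) / (2 *
      (a * x + (a + d) * (sy a d v x)) ^ (4 : ℕ))) + (1 / 8) * rcMM a (a + d) x (sy a d v x) (g * sy a d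
      v x) (d * W * x ^ (2 : ℕ)) + rwMM a (a + d) x (sy a d v x) (g * sy a d v x) (d * W * x ^ (2 : ℕ)) (d * E
      / (1 + d * v)) -
      (1 - (1 - a - (a + d)) / 2) * ((Closed.gM a d v / (a * (a + d) * (2 + d * v) ^ (2 : ℕ))) * (Closed.gM a d v / (a * (a + d) * (2
        + d * v) ^ (2 : ℕ))) / 4 + 2 * x * sy a d v x * ((d * Closed.hM a d v g W / (16 * a ^ (2 : ℕ) * (a +
        d) * (2 + d * v) ^ (2 : ℕ) * x)) * (d * Closed.hM a d v g W / (16 * a ^ (2 : ℕ) * (a + d) * (2 + d *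
        v) ^ (2 : ℕ) * x)))) =
      d ^ (2 : ℕ) * g ^ (2 : ℕ) * Closed.TMM a d v W E / (16 * a ^ (2 : ℕ) * (a + d) ^ (2 : ℕ) * (2 + d * v) ^ (4 : ℕ)) := by
  obtain ⟨eD, eE⟩ := h.eqs
  obtain ⟨a0, b0, d0, v0, x0, P0, Q0⟩ := h
  simp only [Closed.TMM, Closed.gM, Closed.hM, rcMM, rwMM]
  (try simp only [eD, eE])
  simp only [sy]
  obtain ⟨P, hP⟩ : ∃ P, P = 2 + d * v := ⟨_, rfl⟩
  obtain ⟨Q, hQ⟩ : ∃ Q, Q = 1 + d * v := ⟨_, rfl⟩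
  obtain ⟨B, hB⟩ : ∃ B, B = a + d := ⟨_, rfl⟩
  rw [← hP] at P0
  rw [← hQ] at Q0
  rw [← hB] at b0
  simp only [← hP, ← hQ, ← hB]
  field_simp
  subst hP hQ hB
  ring

theorem TME_at (h : Ch a d v x) :
    ((baseME_0_0 a (a + d) x (sy a d v x)) / (4 * (a * x + (a + d) * (sy a d v x)) ^ (4 : ℕ))) + (1 /
      8) * rcME a (a + d) x (sy a d v x) (g * sy a d v x) (d * W * x ^ (2 : ℕ)) (d * W1 * x ^ (3 : ℕ)) + (-(21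
      / 100)) * rvME a (a + d) x (sy a d v x) (g * sy a d v x) (d * W * x ^ (2 : ℕ)) + rwME a (a + d) x
      (sy a d v x) (g * sy a d v x) (d * W * x ^ (2 : ℕ)) (d * E / (1 + d * v)) (K / (1 + d * v)) -
      2 * (1 - (1 - a - (a + d)) / 2) * ((Closed.gM a d v / (a * (a + d) * (2 + d * v) ^ (2 : ℕ))) * (d * Closed.gE a d v g W E / (32 * a
        ^ (2 : ℕ) * (a + d) * (2 + d * v) ^ (2 : ℕ) * x)) / 4 + 2 * x * sy a d v x * ((d * Closed.hM a d v g W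
        / (16 * a ^ (2 : ℕ) * (a + d) * (2 + d * v) ^ (2 : ℕ) * x)) * (Closed.hE a d v g W / (800 * a ^ (2 : ℕ) * v
        * (2 + d * v) ^ (2 : ℕ) * (1 + d * v) * x ^ (2 : ℕ))))) =
      d * g * Closed.TME a d v g W W1 E K / (1600 * a ^ (3 : ℕ) * (a + d) ^ (2 : ℕ) * v * (2 + d * v) ^ (4 : ℕ) *
        x) := by
  obtain ⟨eD, eE⟩ := h.eqs
  obtain ⟨a0, b0, d0, v0, x0, P0, Q0⟩ := h
  simp only [Closed.TME, Closed.TME_010000_0, Closed.TME_010000_1, Closed.gE, Closed.gM, Closed.hE, Closed.hM, baseME_0_0, rcME, rcME_0_0, rcME_0_3, rcME_2_0, rcME_2_3, rvME, rwME, rwME_1_0, rwME_1_3]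
  (try simp only [eD, eE])
  simp only [sy]
  obtain ⟨P, hP⟩ : ∃ P, P = 2 + d * v := ⟨_, rfl⟩
  obtain ⟨Q, hQ⟩ : ∃ Q, Q = 1 + d * v := ⟨_, rfl⟩
  obtain ⟨B, hB⟩ : ∃ B, B = a + d := ⟨_, rfl⟩
  rw [← hP] at P0
  rw [← hQ] at Q0
  rw [← hB] at b0
  simp only [← hP, ← hQ, ← hB]
  field_simp
  subst hP hQ hB
  ring

end Vale.Agent.P100.Calib.Bridge
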