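import Mathlib
import Vale.Agent.P100.Calib.SlabBridgeParts

/-!
# The functionals on the data of the slab family
-/

set_option linter.unusedVariables false
set_option linter.unusedSimpArgs false

namespace Vale.Agent.P100.Calib.Bridge

theorem isLin_gM (F : Frame) : IsLin (gM F) where
  add c la mb c' la' mb' := by
    simp only [gM, linU, linV, Frame.rM, Frame.rE, Frame.rG, Pi.add_apply, Matrix.cons_val]; ring
  smul k c la mb := by
    simp only [gM, linU, linV, Frame.rM, Frame.rE, Frame.rG, Pi.smul_apply, smul_eq_mul, Matrix.cons_val]; ring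

theorem isLin_gE (F : Frame) : IsLin (gE F) where
  add c la mb c' la' mb' := by
    simp only [gE, linU, linV, Frame.rM, Frame.rE, Frame.rG, Pi.add_apply, Matrix.cons_val]; ring
  smul k c la mb := by
    simp only [gE, linU, linV, Frame.rM, Frame.rE, Frame.rG, Pi.smul_apply, smul_eq_mul, Matrix.cons_val]; ring

theorem isLin_gG (F : Frame) : IsLin (gG F) where
  add c la mb c' la' mb' := by
    simp only [gG, linU, linV, Frame.rM, Frame.rE, Frame.rG, Pi.add_apply, Matrix.cons_val]; ring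
  smul k c la mb := by
    simp only [gG, linU, linV, Frame.rM, Frame.rE, Frame.rG, Pi.smul_apply, smul_eq_mul, Matrix.cons_val]; ring

theorem isLin_hM (F : Frame) : IsLin (hM F) where
  add c la mb c' la' mb' := by
    simp only [hM, linU, linV, Frame.rM, Frame.rE, Frame.rG, Pi.add_apply, Matrix.cons_val]; ring
  smul k c la mb := by
    simp only [hM, linU, linV, Frame.rM, Frame.rE, Frame.rG, Pi.smul_apply, smul_eq_mul, Matrix.cons_val]; ring

theorem isLin_hEf (F : Frame) : IsLin (hEf F) where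
  add c la mb c' la' mb' := by
    simp only [hEf, linU, linV, Frame.rM, Frame.rE, Frame.rG, Pi.add_apply, Matrix.cons_val]; ring
  smul k c la mb := by
    simp only [hEf, linU, linV, Frame.rM, Frame.rE, Frame.rG, Pi.smul_apply, smul_eq_mul, Matrix.cons_val]; ring

theorem isLin_hG (F : Frame) : IsLin (hG F) where
  add c la mb c' la' mb' := by
    simp only [hG, linU, linV, Frame.rM, Frame.rE, Frame.rG, Pi.add_apply, Matrix.cons_val]; ring
  smul k c la mb := by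
    simp only [hG, linU, linV, Frame.rM, Frame.rE, Frame.rG, Pi.smul_apply, smul_eq_mul, Matrix.cons_val]; ring

theorem isLin_lMM (F : Frame) (N p q : ℝ) : IsLin (lMM F N p q) where
  add c la mb c' la' mb' := by
    simp only [lMM, natLin, NatCoef.of, blockLin, freePart, linU, linV, Pi.add_apply, Matrix.cons_val]; ring
  smul k c la mb := by
    simp only [lMM, natLin, NatCoef.of, blockLin, freePart, linU, linV, Pi.smul_apply, smul_eq_mul, Matrix.cons_val]; ring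

theorem isLin_lME (F : Frame) (N p q : ℝ) : IsLin (lME F N p q) where
  add c la mb c' la' mb' := by
    simp only [lME, natLin, NatCoef.of, blockLin, freePart, linU, linV, Pi.add_apply, Matrix.cons_val]; ring
  smul k c la mb := by
    simp only [lME, natLin, NatCoef.of, blockLin, freePart, linU, linV, Pi.smul_apply, smul_eq_mul, Matrix.cons_val]; ring

theorem isLin_lMG (F : Frame) (N p q : ℝ) : IsLin (lMG F N p q) where
  add c la mb c' la' mb' := by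
    simp only [lMG, natLin, NatCoef.of, blockLin, freePart, linU, linV, Pi.add_apply, Matrix.cons_val]; ring
  smul k c la mb := by
    simp only [lMG, natLin, NatCoef.of, blockLin, freePart, linU, linV, Pi.smul_apply, smul_eq_mul, Matrix.cons_val]; ring

theorem isLin_lEE (F : Frame) (N p q : ℝ) : IsLin (lEE F N p q) where
  add c la mb c' la' mb' := by
    simp only [lEE, natLin, NatCoef.of, blockLin, freePart, linU, linV, Pi.add_apply, Matrix.cons_val]; ring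
  smul k c la mb := by
    simp only [lEE, natLin, NatCoef.of, blockLin, freePart, linU, linV, Pi.smul_apply, smul_eq_mul, Matrix.cons_val]; ring

theorem isLin_lEG (F : Frame) (N p q : ℝ) : IsLin (lEG F N p q) where
  add c la mb c' la' mb' := by
    simp only [lEG, natLin, NatCoef.of, blockLin, freePart, linU, linV, Pi.add_apply, Matrix.cons_val]; ring
  smul k c la mb := by
    simp only [lEG, natLin, NatCoef.of, blockLin, freePart, linU, linV, Pi.smul_apply, smul_eq_mul, Matrix.cons_val]; ring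

theorem isLin_lGG (F : Frame) (N p q : ℝ) : IsLin (lGG F N p q) where
  add c la mb c' la' mb' := by
    simp only [lGG, natLin, NatCoef.of, blockLin, freePart, linU, linV, Pi.add_apply, Matrix.cons_val]; ring
  smul k c la mb := by
    simp only [lGG, natLin, NatCoef.of, blockLin, freePart, linU, linV, Pi.smul_apply, smul_eq_mul, Matrix.cons_val]; ring

theorem isLin_lLG (F : Frame) (N p q z : ℝ) : IsLin (lLG F N p q z) where
  add c la mb c' la' mb' := by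
    simp only [lLG, crossPQ, linU, linV, Pi.add_apply, Matrix.cons_val]; ring
  smul k c la mb := by
    simp only [lLG, crossPQ, linU, linV, Pi.smul_apply, smul_eq_mul, Matrix.cons_val]; ring

section
variable {N p q a b R x y z s w w₁ e k : ℝ}

/-- A point of the family: the relations of the orbit and the value of the multiplier. -/
structure Fam (N p q a b R x y z s w e k : ℝ) : Prop extends Pt N p q a b R x y z s w where
  quad : s * (a * z + b) = 2 * N * (a * x + b * y) - 4 * R * x * y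
  Z0 : a * z + b ≠ 0
  he : e = -(1 / 20 + (b - a)) + (1 / 20 - 9 * (b - a)) * (a / b) * z
  hk : k = (1 / 20 - 9 * (b - a)) * (a / b) * z

variable (h : Fam N p q a b R x y z s w e k)
include h

theorem Fam.sol : dxR N p q x y z w = solX a b x y s w ∧ dyR N p q x y z w = solY a b x y s w := by
  obtain ⟨⟨rfl, rfl, hN, a0, b0, M0, x0, y0, s0, D0, E0, hz⟩, hquad, Z0, -, -⟩ := h
  have hrel : R * w = x - z * y := by rw [hz]; field_simp; ring
  obtain ⟨η, hη⟩ : ∃ η, η = (2 * N * a * w - 4 * (x * y)) / (a * z + b) := ⟨_, rfl⟩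
  have hη' : η * (a * z + b) = 2 * N * a * w - 4 * (x * y) := by
    rw [hη, div_mul_cancel₀ _ Z0]
  have hs : R * η = s - 2 * N * y := by
    refine mul_right_cancel₀ Z0 ?_
    linear_combination R * hη' + 2 * N * a * hrel - hquad
  simp only [dxR, dyR, etaR, sub_add_cancel, one_div_one_div, ← hη]
  constructor <;> simp only [solX, solY] <;> rw [eq_div_iff D0]
  · linear_combination (x / 4) * hη' + (b / 4) * η * hrel - (b / 4) * w * hs
  · linear_combination (y / 4) * hη' - (a / 4) * η * hrel + (a / 4) * w * hs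

/-- The family splits into parts. -/
theorem Fam.pair_five {φ : Fun3} (hφ : IsLin φ) :
    let X := solX a b x y s w
    let Y := solY a b x y s w
    let fA := fldA N p q R x y s w
    let fE := fldE N p q R x y s w
    let fG := fldG N p q R x y s w
    let fW := regFld N p q R x y s w 6
    pairFun φ N p q x y (fiveC N p q R x y z s w) (fiveD N p q R x y z s w w₁) =
      pairFun φ N p q x y (baseVec N p q) 0 +
        1 / 8 * (pairFun φ N p q x y (regFld N p q R x y s w 0) (regVel N p q R x y z s w w₁ 0) +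
          cU a b x y s w * pairFun φ N p q x y fA (velA N p q R x y z s w w₁) +
          cU' a b x y s w w₁ X Y * pairFun φ N p q x y 0 fA +
          (a + b) * cU a b x y s w * pairFun φ N p q x y fE (velE N p q R x y z s w w₁) +
          (a + b) * cU' a b x y s w w₁ X Y * pairFun φ N p q x y 0 fE +
          cG a b x y s w * pairFun φ N p q x y fG (velG N p q R x y z s w w₁) +
          cG' a b x y s w w₁ X Y * pairFun φ N p q x y 0 fG) +
        -(21 / 100) * pairFun φ N p q x y fE (velE N p q R x y z s w w₁) +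
        (a * b * wP a b x y s e * pairFun φ N p q x y fG (velG N p q R x y z s w w₁) +
          a * b * wP' a b x y s e k X Y * pairFun φ N p q x y 0 fG -
          wV a b x y s e * pairFun φ N p q x y fE (velE N p q R x y z s w w₁) - wV' a b x y s e k X Y * pairFun φ N p q x y 0 fE +
          wP a b x y s e * pairFun φ N p q x y fW (regVel N p q R x y z s w w₁ 6) +
          wP' a b x y s e k X Y * pairFun φ N p q x y 0 fW) := by
  obtain ⟨eX, eY⟩ := h.sol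
  obtain ⟨-, -, er⟩ := h.toPt.lam_eq
  obtain ⟨⟨hp, hq, hN, a0, b0, M0, x0, y0, s0, D0, E0, -⟩, -, -, he, hk⟩ := h
  intro X Y fA fE fG fW
  have ha : 1 / (p + 1) = a := by rw [hp]; simp
  have hb : 1 / (q + 1) = b := by rw [hq]; simp
  obtain ⟨D, hDd⟩ : ∃ D, D = a * x + b * y := ⟨_, rfl⟩
  obtain ⟨E, hEd⟩ : ∃ E, E = b * y - a * x := ⟨_, rfl⟩
  rw [← hDd] at D0
  rw [← hEd] at E0
  obtain ⟨u, hu⟩ : ∃ u, u = 1 / 8 * cU a b x y s w := ⟨_, rfl⟩
  obtain ⟨u', hu'⟩ : ∃ u', u' = 1 / 8 * cU' a b x y s w w₁ X Y := ⟨_, rfl⟩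
  obtain ⟨ε, hε⟩ : ∃ ε, ε = -(21 / 100) + (a + b) * u - wV a b x y s e := ⟨_, rfl⟩
  obtain ⟨ε', hε'⟩ : ∃ ε', ε' = (a + b) * u' - wV' a b x y s e k X Y := ⟨_, rfl⟩
  obtain ⟨γ, hγ⟩ : ∃ γ, γ = 1 / 8 * cG a b x y s w + a * b * wP a b x y s e := ⟨_, rfl⟩
  obtain ⟨γ', hγ'⟩ : ∃ γ', γ' = 1 / 8 * cG' a b x y s w w₁ X Y + a * b * wP' a b x y s e k X Y :=
    ⟨_, rfl⟩
  obtain ⟨π, hπ⟩ : ∃ π, π = wP a b x y s e := ⟨_, rfl⟩
  obtain ⟨π', hπ'⟩ : ∃ π', π' = wP' a b x y s e k X Y := ⟨_, rfl⟩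
  have hreg : fiveReg N p q x y z s w =
      ![1 / 8, a * u + y / (a * x + b * y) * γ, b * u - x / (a * x + b * y) * γ, a * ε, b * ε, 0, π] := by
    funext r
    fin_cases r <;> simp only [fiveReg, famReg, regShift, famFive, sigR, ha, hb, hN, one_div_div, hu, hε, hγ, hπ,
      cU, cG, sgm, wV, wP, he, Fin.reduceFinMk, Matrix.cons_val, ← hDd, ← hEd]
    all_goals (field_simp; try (subst hDd hEd; ring))
  have hdk : fiveDk N p q x y z s w w₁ =
      ![0, a * u' + (rhoR p q x y * Y * (a * x + b * y) -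
            y * (a * (rhoR p q x y * X) + b * (rhoR p q x y * Y))) / (a * x + b * y) ^ (2 : ℕ) * γ +
          y / (a * x + b * y) * γ',
        b * u' - ((rhoR p q x y * X * (a * x + b * y) -
            x * (a * (rhoR p q x y * X) + b * (rhoR p q x y * Y))) / (a * x + b * y) ^ (2 : ℕ) * γ +
          x / (a * x + b * y) * γ'), a * ε', b * ε', 0, π'] := by
    have hq' : q = 1 / b - 1 := hq
    have eσ : 2 * (solY a b x y s w - solX a b x y s w) +
        ((s * (y - (1 / b - 1) * x) * w + s * w₁) * (x * y) -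
          s * w * (solX a b x y s w * y + x * solY a b x y s w)) / (2 * (x * y) ^ (2 : ℕ)) =
        sgm' b x y s w w₁ (solX a b x y s w) (solY a b x y s w) := rfl
    have eσ₀ : sigR x y s w = sgm x y s w := rfl
    funext r
    fin_cases r <;>
      simp only [fiveDk, eσ₀, eX, eY, er, ha, hb, Fin.reduceFinMk, Matrix.cons_val, X, Y]
    all_goals
      (try simp only [hN, one_div_div, hu', hε', hγ, hγ', hπ',
        cU, cU', cG, cG', wV, wV', wP, wP', he, hk, hq', X, Y])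
      (try simp only [eσ, ← hDd, ← hEd])
    all_goals
      generalize sgm' b x y s w w₁ (solX a b x y s w) (solY a b x y s w) = σ₁
      generalize sgm x y s w = σ
      generalize solX a b x y s w = Xv
      generalize solY a b x y s w = Yv
      field_simp
      try (subst hDd hEd; ring)
  have hC : fiveC N p q R x y z s w = baseVec N p q +
      ((1 / 8 : ℝ) • regFld N p q R x y s w 0 + u • fA + ε • fE + γ • fG + π • fW) := by
    funext j
    simp only [fiveC, hreg, baseVec, fA, fE, fG, fW, fldA, fldE, fldG, ha, hb, Fin.sum_univ_seven,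
      Pi.add_apply, Pi.sub_apply, Pi.smul_apply, smul_eq_mul, Matrix.cons_val]
    ring
  have hD : fiveD N p q R x y z s w w₁ = 0 +
      (((0 : ℝ) • regFld N p q R x y s w 0 + (1 / 8 : ℝ) • regVel N p q R x y z s w w₁ 0) +
        (u' • fA + u • velA N p q R x y z s w w₁) + (ε' • fE + ε • velE N p q R x y z s w w₁) +
        (γ' • fG + γ • velG N p q R x y z s w w₁) +
        (π' • fW + π • regVel N p q R x y z s w w₁ 6)) := by
    funext j
    simp only [fiveD, hreg, hdk, fA, fE, fG, fW, fldA, velA, fldE, velE, fldG, velG, ha, hb, eX, eY,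
      X, Y, Fin.sum_univ_seven, Pi.add_apply, Pi.sub_apply, Pi.smul_apply, Pi.zero_apply,
      smul_eq_mul, Matrix.cons_val]
    ring
  rw [hC, hD, pairFun_add hφ, pairFun_add hφ, pairFun_add hφ, pairFun_add hφ, pairFun_add hφ,
    pairFun_term hφ, pairFun_term hφ, pairFun_term hφ, pairFun_term hφ, pairFun_term hφ,
    hu, hu', hε, hε', hγ, hγ', hπ, hπ']
  rw [hu, hu']
  ring

theorem Fam.tot_gM :
    pairFun (gM (⟨a, b, x, y⟩ : Frame)) N p q x y (fiveC N p q R x y z s w)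
        (fiveD N p q R x y z s w w₁) =
      (((y ^ (2 : ℕ) * (2 * b) + x * y * (-2) + x ^ (2 : ℕ) * (2 * a))) / ((a * x + b * y) ^ (2 : ℕ))) + (1 / 8) *
        rcgM + (-(21 / 100)) * rvgM + (1) * rwgM := by
  obtain ⟨eX, eY⟩ := h.sol
  rw [h.pair_five (isLin_gM _)]
  simp only [base_gM h.toPt, U_gM h.toPt,
    A_gM h.toPt, A₀_gM h.toPt,
    E_gM h.toPt, E₀_gM h.toPt,
    G_gM h.toPt, G₀_gM h.toPt,
    W_gM h.toPt, W₀_gM h.toPt,
    eX, eY, rcgM, rvgM, rwgM]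
  ring

theorem Fam.tot_gE :
    pairFun (gE (⟨a, b, x, y⟩ : Frame)) N p q x y (fiveC N p q R x y z s w)
        (fiveD N p q R x y z s w w₁) =
      (((y * (-7 * a * b + b ^ (2 : ℕ) - 3 * b) + x * (-a ^ (2 : ℕ) + 7 * a * b + 3 * a))) / (2 * (a * x + b
        * y) ^ (2 : ℕ))) + (1 / 8) * rcgE a b x y s w + (-(21 / 100)) * rvgE + (1) * rwgE a b x y s e := by
  obtain ⟨eX, eY⟩ := h.sol
  rw [h.pair_five (isLin_gE _)]
  simp only [base_gE h.toPt, U_gE h.toPt,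
    A_gE h.toPt, A₀_gE h.toPt,
    E_gE h.toPt, E₀_gE h.toPt,
    G_gE h.toPt, G₀_gE h.toPt,
    W_gE h.toPt, W₀_gE h.toPt,
    eX, eY, rvgE]
  have h0 := rcgE_sum (w := w) (s := s) h.a0 h.b0 h.x0 h.y0 h.s0 h.D0 h.E0
  have h1 := rwgE_sum (w := w) (e := e) (s := s) h.a0 h.b0 h.x0 h.y0 h.s0 h.D0 h.E0
  linear_combination (1 / 8) * h0 + (1) * h1

theorem Fam.tot_gG :
    pairFun (gG (⟨a, b, x, y⟩ : Frame)) N p q x y (fiveC N p q R x y z s w)
        (fiveD N p q R x y z s w w₁) =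
      ((((a ^ (2 : ℕ) * b + a * b ^ (2 : ℕ) + a * b))) / ((a * x + b * y) ^ (2 : ℕ))) + (1 / 8) * rcgG a b x y s w
        + (-(21 / 100)) * rvgG x y + (1) * rwgG := by
  obtain ⟨eX, eY⟩ := h.sol
  rw [h.pair_five (isLin_gG _)]
  simp only [base_gG h.toPt, U_gG h.toPt,
    A_gG h.toPt, A₀_gG h.toPt,
    E_gG h.toPt, E₀_gG h.toPt,
    G_gG h.toPt, G₀_gG h.toPt,
    W_gG h.toPt, W₀_gG h.toPt,
    eX, eY]
  have h0 := rcgG_sum (w := w) (s := s) h.a0 h.b0 h.x0 h.y0 h.s0 h.D0 h.E0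
  have h1 := rvgG_sum (w := w) (s := s) h.a0 h.b0 h.x0 h.y0 h.s0 h.D0 h.E0
  have h2 := rwgG_sum (w := w) (e := e) (s := s) h.a0 h.b0 h.x0 h.y0 h.s0 h.D0 h.E0
  linear_combination (1 / 8) * h0 + (-(21 / 100)) * h1 + (1) * h2

theorem Fam.tot_hM :
    pairFun (hM (⟨a, b, x, y⟩ : Frame)) N p q x y (fiveC N p q R x y z s w)
        (fiveD N p q R x y z s w w₁) =
      (0) + (1 / 8) * rchM a b x y s w + (-(21 / 100)) * rvhM + (1) * rwhM := by
  obtain ⟨eX, eY⟩ := h.sol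
  rw [h.pair_five (isLin_hM _)]
  simp only [base_hM h.toPt, U_hM h.toPt,
    A_hM h.toPt, A₀_hM h.toPt,
    E_hM h.toPt, E₀_hM h.toPt,
    G_hM h.toPt, G₀_hM h.toPt,
    W_hM h.toPt, W₀_hM h.toPt,
    eX, eY, rvhM, rwhM]
  have h0 := rchM_sum (w := w) (s := s) h.a0 h.b0 h.x0 h.y0 h.s0 h.D0 h.E0
  linear_combination (1 / 8) * h0

theorem Fam.tot_hEf :
    pairFun (hEf (⟨a, b, x, y⟩ : Frame)) N p q x y (fiveC N p q R x y z s w)
        (fiveD N p q R x y z s w w₁) =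
      (0) + (1 / 8) * rchE a b x y s w + (-(21 / 100)) * rvhE x y + (1) * rwhE := by
  obtain ⟨eX, eY⟩ := h.sol
  rw [h.pair_five (isLin_hEf _)]
  simp only [base_hEf h.toPt, U_hEf h.toPt,
    A_hEf h.toPt, A₀_hEf h.toPt,
    E_hEf h.toPt, E₀_hEf h.toPt,
    G_hEf h.toPt, G₀_hEf h.toPt,
    W_hEf h.toPt, W₀_hEf h.toPt,
    eX, eY]
  have h0 := rchE_sum (w := w) (s := s) h.a0 h.b0 h.x0 h.y0 h.s0 h.D0 h.E0
  have h1 := rvhE_sum (w := w) (s := s) h.a0 h.b0 h.x0 h.y0 h.s0 h.D0 h.E0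
  have h2 := rwhE_sum (w := w) (e := e) (s := s) h.a0 h.b0 h.x0 h.y0 h.s0 h.D0 h.E0
  linear_combination (1 / 8) * h0 + (-(21 / 100)) * h1 + (1) * h2

theorem Fam.tot_hG :
    pairFun (hG (⟨a, b, x, y⟩ : Frame)) N p q x y (fiveC N p q R x y z s w)
        (fiveD N p q R x y z s w w₁) =
      (0) + (1 / 8) * rchG a b x y s w + (-(21 / 100)) * rvhG + (1) * rwhG := by
  obtain ⟨eX, eY⟩ := h.sol
  rw [h.pair_five (isLin_hG _)]
  simp only [base_hG h.toPt, U_hG h.toPt,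
    A_hG h.toPt, A₀_hG h.toPt,
    E_hG h.toPt, E₀_hG h.toPt,
    G_hG h.toPt, G₀_hG h.toPt,
    W_hG h.toPt, W₀_hG h.toPt,
    eX, eY, rvhG]
  have h0 := rchG_sum (w := w) (s := s) h.a0 h.b0 h.x0 h.y0 h.s0 h.D0 h.E0
  have h1 := rwhG_sum (w := w) (e := e) (s := s) h.a0 h.b0 h.x0 h.y0 h.s0 h.D0 h.E0
  linear_combination (1 / 8) * h0 + (1) * h1

theorem Fam.tot_lMM :
    pairFun (lMM (⟨a, b, x, y⟩ : Frame) N p q) N p q x y (fiveC N p q R x y z s w)
        (fiveD N p q R x y z s w w₁) =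
      (((y ^ (4 : ℕ) * (a * b ^ (2 : ℕ) + b ^ (3 : ℕ) + b ^ (2 : ℕ)) + x * y ^ (3 : ℕ) * (-2 * a * b - 2 * b ^ (2 : ℕ) - 2 * b) + x
        ^ (2 : ℕ) * y ^ (2 : ℕ) * (2 * a ^ (2 : ℕ) * b + 2 * a * b ^ (2 : ℕ) + 2 * a * b + a + b + 1) + x ^ (3 : ℕ) * y * (-2 *
        a ^ (2 : ℕ) - 2 * a * b - 2 * a) + x ^ (4 : ℕ) * (a ^ (3 : ℕ) + a ^ (2 : ℕ) * b + a ^ (2 : ℕ)))) / (2 * (a * x + b * y)
        ^ (4 : ℕ))) + (1 / 8) * rcMM a b x y s w + (-(21 / 100)) * rvMM + (1) * rwMM a b x y s w e := by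
  obtain ⟨eX, eY⟩ := h.sol
  rw [h.pair_five (isLin_lMM _ _ _ _)]
  simp only [base_lMM h.toPt, U_lMM h.toPt,
    A_lMM h.toPt, A₀_lMM h.toPt,
    E_lMM h.toPt, E₀_lMM h.toPt,
    G_lMM h.toPt, G₀_lMM h.toPt,
    W_lMM h.toPt, W₀_lMM h.toPt,
    eX, eY, rvMM]
  have h0 := rcMM_sum (w := w) (s := s) h.a0 h.b0 h.x0 h.y0 h.s0 h.D0 h.E0
  have h1 := rwMM_sum (w := w) (e := e) (s := s) h.a0 h.b0 h.x0 h.y0 h.s0 h.D0 h.E0
  linear_combination (1 / 8) * h0 + (1) * h1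

theorem Fam.tot_lME :
    pairFun (lME (⟨a, b, x, y⟩ : Frame) N p q) N p q x y (fiveC N p q R x y z s w)
        (fiveD N p q R x y z s w w₁) =
      ((baseME_0_0 a b x y) / (4 * (a * x + b * y) ^ (4 : ℕ))) + (1 / 8) * rcME a b x y s w w₁ + (-(21
        / 100)) * rvME a b x y s w + (1) * rwME a b x y s w e k := by
  obtain ⟨eX, eY⟩ := h.sol
  rw [h.pair_five (isLin_lME _ _ _ _)]
  simp only [base_lME h.toPt, U_lME h.toPt,
    A_lME h.toPt, A₀_lME h.toPt,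
    E_lME h.toPt, E₀_lME h.toPt,
    G_lME h.toPt, G₀_lME h.toPt,
    W_lME h.toPt, W₀_lME h.toPt,
    eX, eY]
  have h0 := rcME_sum (w := w) (w₁ := w₁) (s := s) h.a0 h.b0 h.x0 h.y0 h.s0 h.D0 h.E0
  have h1 := rvME_sum (w := w) (s := s) h.a0 h.b0 h.x0 h.y0 h.s0 h.D0 h.E0
  have h2 := rwME_sum (w := w) (e := e) (k := k) (s := s) h.a0 h.b0 h.x0 h.y0 h.s0 h.D0 h.E0
  linear_combination (1 / 8) * h0 + (-(21 / 100)) * h1 + (1) * h2

theorem Fam.tot_lMG :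
    pairFun (lMG (⟨a, b, x, y⟩ : Frame) N p q) N p q x y (fiveC N p q R x y z s w)
        (fiveD N p q R x y z s w w₁) =
      (((y ^ (2 : ℕ) * (2 * a ^ (3 : ℕ) * b ^ (2 : ℕ) + 4 * a ^ (2 : ℕ) * b ^ (3 : ℕ) + 3 * a ^ (2 : ℕ) * b ^ (2 : ℕ) + 2 * a * b ^ (4 : ℕ) + 2
        * a * b ^ (3 : ℕ) + 2 * a * b ^ (2 : ℕ) - b ^ (4 : ℕ) + b ^ (2 : ℕ)) + x * y * (-4 * a ^ (3 : ℕ) * b - 8 * a ^ (2 : ℕ) * b ^ (2 : ℕ)
        - 4 * a ^ (2 : ℕ) * b - 4 * a * b ^ (3 : ℕ) - 4 * a * b ^ (2 : ℕ)) + x ^ (2 : ℕ) * (2 * a ^ (4 : ℕ) * b - a ^ (4 : ℕ) + 4 * a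
        ^ (3 : ℕ) * b ^ (2 : ℕ) + 2 * a ^ (3 : ℕ) * b + 2 * a ^ (2 : ℕ) * b ^ (3 : ℕ) + 3 * a ^ (2 : ℕ) * b ^ (2 : ℕ) + 2 * a ^ (2 : ℕ) * b + a ^
        2))) / (4 * (a * x + b * y) ^ (4 : ℕ))) + (1 / 8) * rcMG a b x y s w w₁ + (-(21 / 100)) * rvMG a
        b x y s w + (1) * rwMG a b x y s e k := by
  obtain ⟨eX, eY⟩ := h.sol
  rw [h.pair_five (isLin_lMG _ _ _ _)]
  simp only [base_lMG h.toPt, U_lMG h.toPt,
    A_lMG h.toPt, A₀_lMG h.toPt,
    E_lMG h.toPt, E₀_lMG h.toPt,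
    G_lMG h.toPt, G₀_lMG h.toPt,
    W_lMG h.toPt, W₀_lMG h.toPt,
    eX, eY]
  have h0 := rcMG_sum (w := w) (w₁ := w₁) (s := s) h.a0 h.b0 h.x0 h.y0 h.s0 h.D0 h.E0
  have h1 := rvMG_sum (w := w) (s := s) h.a0 h.b0 h.x0 h.y0 h.s0 h.D0 h.E0
  have h2 := rwMG_sum (w := w) (e := e) (k := k) (s := s) h.a0 h.b0 h.x0 h.y0 h.s0 h.D0 h.E0
  linear_combination (1 / 8) * h0 + (-(21 / 100)) * h1 + (1) * h2

theorem Fam.tot_lEE :
    pairFun (lEE (⟨a, b, x, y⟩ : Frame) N p q) N p q x y (fiveC N p q R x y z s w)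
        (fiveD N p q R x y z s w w₁) =
      (((y ^ (2 : ℕ) * (3 * a ^ (3 : ℕ) * b ^ (2 : ℕ) + 2 * a ^ (2 : ℕ) * b ^ (3 : ℕ) + 6 * a ^ (2 : ℕ) * b ^ (2 : ℕ) - a * b ^ (4 : ℕ) + 2 * a
        * b ^ (3 : ℕ) + 3 * a * b ^ (2 : ℕ)) + x * y * (a ^ (4 : ℕ) * b - 5 * a ^ (3 : ℕ) * b ^ (2 : ℕ) - 5 * a ^ (2 : ℕ) * b ^ (3 : ℕ) - 8
        * a ^ (2 : ℕ) * b ^ (2 : ℕ) - 3 * a ^ (2 : ℕ) * b + a * b ^ (4 : ℕ) - 3 * a * b ^ (2 : ℕ) - 2 * a * b) + x ^ (2 : ℕ) * (-a ^ (4 : ℕ)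
        * b + 2 * a ^ (3 : ℕ) * b ^ (2 : ℕ) + 2 * a ^ (3 : ℕ) * b + 3 * a ^ (2 : ℕ) * b ^ (3 : ℕ) + 6 * a ^ (2 : ℕ) * b ^ (2 : ℕ) + 3 * a ^
        2 * b))) / (2 * (a * x + b * y) ^ (4 : ℕ))) + (1 / 8) * rcEE a b x y s w w₁ + (-(21 / 100)) *
        rvEE a b x y s w + (1) * rwEE a b x y s e := by
  obtain ⟨eX, eY⟩ := h.sol
  rw [h.pair_five (isLin_lEE _ _ _ _)]
  simp only [base_lEE h.toPt, U_lEE h.toPt,
    A_lEE h.toPt, A₀_lEE h.toPt,
    E_lEE h.toPt, E₀_lEE h.toPt,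
    G_lEE h.toPt, G₀_lEE h.toPt,
    W_lEE h.toPt, W₀_lEE h.toPt,
    eX, eY]
  have h0 := rcEE_sum (w := w) (w₁ := w₁) (s := s) h.a0 h.b0 h.x0 h.y0 h.s0 h.D0 h.E0
  have h1 := rvEE_sum (w := w) (s := s) h.a0 h.b0 h.x0 h.y0 h.s0 h.D0 h.E0
  have h2 := rwEE_sum (w := w) (e := e) (k := k) (s := s) h.a0 h.b0 h.x0 h.y0 h.s0 h.D0 h.E0
  linear_combination (1 / 8) * h0 + (-(21 / 100)) * h1 + (1) * h2

theorem Fam.tot_lEG :
    pairFun (lEG (⟨a, b, x, y⟩ : Frame) N p q) N p q x y (fiveC N p q R x y z s w)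
        (fiveD N p q R x y z s w w₁) =
      (((y * (-3 * a ^ (4 : ℕ) * b ^ (2 : ℕ) - 5 * a ^ (3 : ℕ) * b ^ (3 : ℕ) - 7 * a ^ (3 : ℕ) * b ^ (2 : ℕ) - a ^ (2 : ℕ) * b ^ (4 : ℕ) - 6 * a
        ^ (2 : ℕ) * b ^ (3 : ℕ) - 5 * a ^ (2 : ℕ) * b ^ (2 : ℕ) + a * b ^ (5 : ℕ) + a * b ^ (4 : ℕ) - a * b ^ (3 : ℕ) - a * b ^ (2 : ℕ)) + x * (-a
        ^ (5 : ℕ) * b + a ^ (4 : ℕ) * b ^ (2 : ℕ) - a ^ (4 : ℕ) * b + 5 * a ^ (3 : ℕ) * b ^ (3 : ℕ) + 6 * a ^ (3 : ℕ) * b ^ (2 : ℕ) + a ^ (3 : ℕ) * b +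
        3 * a ^ (2 : ℕ) * b ^ (4 : ℕ) + 7 * a ^ (2 : ℕ) * b ^ (3 : ℕ) + 5 * a ^ (2 : ℕ) * b ^ (2 : ℕ) + a ^ (2 : ℕ) * b))) / (4 * (a * x + b
        * y) ^ (4 : ℕ))) + (1 / 8) * rcEG a b x y s w + (-(21 / 100)) * rvEG a b x y s w + (1) * rwEG a
        b x y s e := by
  obtain ⟨eX, eY⟩ := h.sol
  rw [h.pair_five (isLin_lEG _ _ _ _)]
  simp only [base_lEG h.toPt, U_lEG h.toPt,
    A_lEG h.toPt, A₀_lEG h.toPt,
    E_lEG h.toPt, E₀_lEG h.toPt,
    G_lEG h.toPt, G₀_lEG h.toPt,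
    W_lEG h.toPt, W₀_lEG h.toPt,
    eX, eY]
  have h0 := rcEG_sum (w := w) (w₁ := w₁) (s := s) h.a0 h.b0 h.x0 h.y0 h.s0 h.D0 h.E0
  have h1 := rvEG_sum (w := w) (s := s) h.a0 h.b0 h.x0 h.y0 h.s0 h.D0 h.E0
  have h2 := rwEG_sum (w := w) (e := e) (k := k) (s := s) h.a0 h.b0 h.x0 h.y0 h.s0 h.D0 h.E0
  linear_combination (1 / 8) * h0 + (-(21 / 100)) * h1 + (1) * h2

theorem Fam.tot_lGG :
    pairFun (lGG (⟨a, b, x, y⟩ : Frame) N p q) N p q x y (fiveC N p q R x y z s w)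
        (fiveD N p q R x y z s w w₁) =
      (0) + (1 / 8) * rcGG a b x y + (-(21 / 100)) * rvGG a b x y + (1) * rwGG := by
  obtain ⟨eX, eY⟩ := h.sol
  rw [h.pair_five (isLin_lGG _ _ _ _)]
  simp only [base_lGG h.toPt, U_lGG h.toPt,
    A_lGG h.toPt, A₀_lGG h.toPt,
    E_lGG h.toPt, E₀_lGG h.toPt,
    G_lGG h.toPt, G₀_lGG h.toPt,
    W_lGG h.toPt, W₀_lGG h.toPt,
    eX, eY]
  have h0 := rcGG_sum (w := w) (w₁ := w₁) (s := s) h.a0 h.b0 h.x0 h.y0 h.s0 h.D0 h.E0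
  have h1 := rvGG_sum (w := w) (s := s) h.a0 h.b0 h.x0 h.y0 h.s0 h.D0 h.E0
  have h2 := rwGG_sum (w := w) (e := e) (k := k) (s := s) h.a0 h.b0 h.x0 h.y0 h.s0 h.D0 h.E0
  linear_combination (1 / 8) * h0 + (-(21 / 100)) * h1 + (1) * h2

theorem Fam.tot_lLG :
    pairFun (lLG (⟨a, b, x, y⟩ : Frame) N p q z) N p q x y (fiveC N p q R x y z s w)
        (fiveD N p q R x y z s w w₁) =
      (0) + (1 / 8) * rcLG a b x y w R + (-(21 / 100)) * rvLG a b x y w R + (1) * rwLG a b x y R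
        e k := by
  obtain ⟨eX, eY⟩ := h.sol
  rw [h.pair_five (isLin_lLG _ _ _ _ _)]
  simp only [base_lLG h.toPt, U_lLG h.toPt,
    A_lLG h.toPt, A₀_lLG h.toPt,
    E_lLG h.toPt, E₀_lLG h.toPt,
    G_lLG h.toPt, G₀_lLG h.toPt,
    W_lLG h.toPt, W₀_lLG h.toPt,
    eX, eY]
  have h0 := rcLG_sum (R := R) (w := w) (s := s) h.a0 h.b0 h.x0 h.y0 h.s0 h.D0 h.E0
  have h1 := rvLG_sum (R := R) (w := w) (s := s) h.a0 h.b0 h.x0 h.y0 h.s0 h.D0 h.E0
  have h2 := rwLG_sum (R := R) (w := w) (e := e) (k := k) (s := s) h.a0 h.b0 h.x0 h.y0 h.s0 h.D0 h.E0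
  linear_combination (1 / 8) * h0 + (-(21 / 100)) * h1 + (1) * h2

end

end Vale.Agent.P100.Calib.Bridge
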