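import Mathlib
import Vale.Agent.P100.Calib.SlabBridgeSum
import Vale.Agent.P100.Calib.SlabBridgeSubst

/-!
# The thirteen functionals in the closed variables
-/

set_option linter.unusedVariables false
set_option linter.unusedSimpArgs false

namespace Vale.Agent.P100.Calib.Bridge

variable {N p q a d v g W W1 R x z E K : ℝ}

theorem val_gM (hch : Ch a d v x) (h : Fam N p q a (a + d) R x (sy a d v x) z (g * sy a d v x)
    (d * W * x ^ 2) (d * E / (1 + d * v)) (K / (1 + d * v))) :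
    pairFun (gM (⟨a, a + d, x, sy a d v x⟩ : Frame)) N p q x (sy a d v x)
        (fiveC N p q R x (sy a d v x) z (g * sy a d v x) (d * W * x ^ 2))
        (fiveD N p q R x (sy a d v x) z (g * sy a d v x) (d * W * x ^ 2) (d * W1 * x ^ 3)) =
      Closed.gM a d v / (a * (a + d) * (2 + d * v) ^ 2) := by
  rw [h.tot_gM, ← gM_at hch]
  simp only [rcgM, rvgM, rwgM]
  ring

theorem val_gE (hch : Ch a d v x) (h : Fam N p q a (a + d) R x (sy a d v x) z (g * sy a d v x)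
    (d * W * x ^ 2) (d * E / (1 + d * v)) (K / (1 + d * v))) :
    pairFun (gE (⟨a, a + d, x, sy a d v x⟩ : Frame)) N p q x (sy a d v x)
        (fiveC N p q R x (sy a d v x) z (g * sy a d v x) (d * W * x ^ 2))
        (fiveD N p q R x (sy a d v x) z (g * sy a d v x) (d * W * x ^ 2) (d * W1 * x ^ 3)) =
      d * Closed.gE a d v g W E / (32 * a ^ 2 * (a + d) * (2 + d * v) ^ 2 * x) := by
  rw [h.tot_gE, ← gE_at hch]
  simp only [rvgE]
  ring

theorem val_gG (hch : Ch a d v x) (h : Fam N p q a (a + d) R x (sy a d v x) z (g * sy a d v x)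
    (d * W * x ^ 2) (d * E / (1 + d * v)) (K / (1 + d * v))) :
    pairFun (gG (⟨a, a + d, x, sy a d v x⟩ : Frame)) N p q x (sy a d v x)
        (fiveC N p q R x (sy a d v x) z (g * sy a d v x) (d * W * x ^ 2))
        (fiveD N p q R x (sy a d v x) z (g * sy a d v x) (d * W * x ^ 2) (d * W1 * x ^ 3)) =
      Closed.gG a d v g W / (400 * a ^ 2 * v * (2 + d * v) ^ 2 * (1 + d * v) * x ^ 2) := by
  rw [h.tot_gG, ← gG_at hch]
  simp only [rwgG]
  ring

theorem val_hM (hch : Ch a d v x) (h : Fam N p q a (a + d) R x (sy a d v x) z (g * sy a d v x)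
    (d * W * x ^ 2) (d * E / (1 + d * v)) (K / (1 + d * v))) :
    pairFun (hM (⟨a, a + d, x, sy a d v x⟩ : Frame)) N p q x (sy a d v x)
        (fiveC N p q R x (sy a d v x) z (g * sy a d v x) (d * W * x ^ 2))
        (fiveD N p q R x (sy a d v x) z (g * sy a d v x) (d * W * x ^ 2) (d * W1 * x ^ 3)) =
      d * Closed.hM a d v g W / (16 * a ^ 2 * (a + d) * (2 + d * v) ^ 2 * x) := by
  rw [h.tot_hM, ← hM_at hch]
  simp only [rvhM, rwhM]
  ring

theorem val_hEf (hch : Ch a d v x) (h : Fam N p q a (a + d) R x (sy a d v x) z (g * sy a d v x)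
    (d * W * x ^ 2) (d * E / (1 + d * v)) (K / (1 + d * v))) :
    pairFun (hEf (⟨a, a + d, x, sy a d v x⟩ : Frame)) N p q x (sy a d v x)
        (fiveC N p q R x (sy a d v x) z (g * sy a d v x) (d * W * x ^ 2))
        (fiveD N p q R x (sy a d v x) z (g * sy a d v x) (d * W * x ^ 2) (d * W1 * x ^ 3)) =
      Closed.hE a d v g W / (800 * a ^ 2 * v * (2 + d * v) ^ 2 * (1 + d * v) * x ^ 2) := by
  rw [h.tot_hEf, ← hE_at hch]
  simp only [rwhE]
  ring

theorem val_hG (hch : Ch a d v x) (h : Fam N p q a (a + d) R x (sy a d v x) z (g * sy a d v x)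
    (d * W * x ^ 2) (d * E / (1 + d * v)) (K / (1 + d * v))) :
    pairFun (hG (⟨a, a + d, x, sy a d v x⟩ : Frame)) N p q x (sy a d v x)
        (fiveC N p q R x (sy a d v x) z (g * sy a d v x) (d * W * x ^ 2))
        (fiveD N p q R x (sy a d v x) z (g * sy a d v x) (d * W * x ^ 2) (d * W1 * x ^ 3)) =
      d * (a + d) * Closed.hG a d v g W / (16 * a ^ 2 * (2 + d * v) ^ 2 * (1 + d * v) * x ^ 3) := by
  rw [h.tot_hG, ← hG_at hch]
  simp only [rvhG, rwhG]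
  ring

theorem val_lEG (hch : Ch a d v x) (h : Fam N p q a (a + d) (R / x) x (sy a d v x) z (g * sy a d v x)
    (d * W * x ^ 2) (d * E / (1 + d * v)) (K / (1 + d * v))) :
    pairFun (lEG (⟨a, a + d, x, sy a d v x⟩ : Frame) N p q) N p q x (sy a d v x)
        (fiveC N p q (R / x) x (sy a d v x) z (g * sy a d v x) (d * W * x ^ 2))
        (fiveD N p q (R / x) x (sy a d v x) z (g * sy a d v x) (d * W * x ^ 2) (d * W1 * x ^ 3)) =
      d * Closed.LEG a d v g W W1 R E K / (1600 * a ^ 3 * (2 + d * v) ^ 4 * (1 + d * v) * x ^ 3) := by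
  rw [h.tot_lEG, LEG1_at hch, LEGc_at hch, LEGv_at hch, LEGw_at hch]
  obtain ⟨a0, b0, d0, v0, x0, P0, Q0⟩ := hch
  simp only [Closed.LEG]
  obtain ⟨P, hP⟩ : ∃ P, P = 2 + d * v := ⟨_, rfl⟩
  obtain ⟨Q, hQ⟩ : ∃ Q, Q = 1 + d * v := ⟨_, rfl⟩
  rw [← hP] at P0
  rw [← hQ] at Q0
  simp only [← hP, ← hQ]
  field_simp
  ring

theorem val_lGG (hch : Ch a d v x) (h : Fam N p q a (a + d) (R / x) x (sy a d v x) z (g * sy a d v x)
    (d * W * x ^ 2) (d * E / (1 + d * v)) (K / (1 + d * v))) :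
    pairFun (lGG (⟨a, a + d, x, sy a d v x⟩ : Frame) N p q) N p q x (sy a d v x)
        (fiveC N p q (R / x) x (sy a d v x) z (g * sy a d v x) (d * W * x ^ 2))
        (fiveD N p q (R / x) x (sy a d v x) z (g * sy a d v x) (d * W * x ^ 2) (d * W1 * x ^ 3)) =
      (a + d) * Closed.LGG a d v g W W1 R E K / (400 * a ^ 3 * (2 + d * v) ^ 3 * (1 + d * v) * x
        ^ 4) := by
  rw [h.tot_lGG, LGGc_at hch, LGGv_at hch]
  obtain ⟨a0, b0, d0, v0, x0, P0, Q0⟩ := hch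
  simp only [Closed.LGG, rwGG]
  obtain ⟨P, hP⟩ : ∃ P, P = 2 + d * v := ⟨_, rfl⟩
  obtain ⟨Q, hQ⟩ : ∃ Q, Q = 1 + d * v := ⟨_, rfl⟩
  rw [← hP] at P0
  rw [← hQ] at Q0
  simp only [← hP, ← hQ]
  field_simp
  ring

theorem val_lEE (hch : Ch a d v x) (h : Fam N p q a (a + d) (R / x) x (sy a d v x) z (g * sy a d v x)
    (d * W * x ^ 2) (d * E / (1 + d * v)) (K / (1 + d * v))) :
    pairFun (lEE (⟨a, a + d, x, sy a d v x⟩ : Frame) N p q) N p q x (sy a d v x)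
        (fiveC N p q (R / x) x (sy a d v x) z (g * sy a d v x) (d * W * x ^ 2))
        (fiveD N p q (R / x) x (sy a d v x) z (g * sy a d v x) (d * W * x ^ 2) (d * W1 * x ^ 3)) =
      Closed.LEE a d v g W W1 R E K / (1600 * a ^ 3 * (a + d) * v * (2 + d * v) ^ 4 * (1 + d *
        v) * x ^ 2) := by
  rw [h.tot_lEE, LEE1_at hch, LEEc_at hch, LEEv_at hch, LEEw_at hch]
  obtain ⟨a0, b0, d0, v0, x0, P0, Q0⟩ := hch
  simp only [Closed.LEE]
  obtain ⟨P, hP⟩ : ∃ P, P = 2 + d * v := ⟨_, rfl⟩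
  obtain ⟨Q, hQ⟩ : ∃ Q, Q = 1 + d * v := ⟨_, rfl⟩
  rw [← hP] at P0
  rw [← hQ] at Q0
  simp only [← hP, ← hQ]
  field_simp
  ring

theorem val_lMG (hch : Ch a d v x) (h : Fam N p q a (a + d) (R / x) x (sy a d v x) z (g * sy a d v x)
    (d * W * x ^ 2) (d * E / (1 + d * v)) (K / (1 + d * v))) :
    pairFun (lMG (⟨a, a + d, x, sy a d v x⟩ : Frame) N p q) N p q x (sy a d v x)
        (fiveC N p q (R / x) x (sy a d v x) z (g * sy a d v x) (d * W * x ^ 2))
        (fiveD N p q (R / x) x (sy a d v x) z (g * sy a d v x) (d * W * x ^ 2) (d * W1 * x ^ 3)) =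
      Closed.LMG a d v g W W1 R E K / (3200 * a ^ 3 * (a + d) * v * (2 + d * v) ^ 4 * (1 + d *
        v) * x ^ 2) := by
  rw [h.tot_lMG, LMG1_at hch, LMGc_at hch, LMGv_at hch, LMGw_at hch]
  obtain ⟨a0, b0, d0, v0, x0, P0, Q0⟩ := hch
  simp only [Closed.LMG]
  obtain ⟨P, hP⟩ : ∃ P, P = 2 + d * v := ⟨_, rfl⟩
  obtain ⟨Q, hQ⟩ : ∃ Q, Q = 1 + d * v := ⟨_, rfl⟩
  rw [← hP] at P0
  rw [← hQ] at Q0
  simp only [← hP, ← hQ]
  field_simp
  ring

theorem val_lLG (hch : Ch a d v x) (h : Fam N p q a (a + d) (R / x) x (sy a d v x) z (g * sy a d v x)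
    (d * W * x ^ 2) (d * E / (1 + d * v)) (K / (1 + d * v))) :
    pairFun (lLG (⟨a, a + d, x, sy a d v x⟩ : Frame) N p q z) N p q x (sy a d v x)
        (fiveC N p q (R / x) x (sy a d v x) z (g * sy a d v x) (d * W * x ^ 2))
        (fiveD N p q (R / x) x (sy a d v x) z (g * sy a d v x) (d * W * x ^ 2) (d * W1 * x ^ 3)) =
      Closed.LLG a d v g W W1 R E K / (400 * a ^ 2 * v * (2 + d * v) ^ 2 * (1 + d * v) ^ 2 * x ^
        2) := by
  rw [h.tot_lLG, LLGc_at hch, LLGv_at hch, LLGw_at hch]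
  obtain ⟨a0, b0, d0, v0, x0, P0, Q0⟩ := hch
  simp only [Closed.LLG]
  obtain ⟨P, hP⟩ : ∃ P, P = 2 + d * v := ⟨_, rfl⟩
  obtain ⟨Q, hQ⟩ : ∃ Q, Q = 1 + d * v := ⟨_, rfl⟩
  rw [← hP] at P0
  rw [← hQ] at Q0
  simp only [← hP, ← hQ]
  field_simp
  ring

theorem val_TMM (hch : Ch a d v x) (h : Fam N p q a (a + d) R x (sy a d v x) z (g * sy a d v x)
    (d * W * x ^ 2) (d * E / (1 + d * v)) (K / (1 + d * v))) :
    pairFun (lMM (⟨a, a + d, x, sy a d v x⟩ : Frame) N p q) N p q x (sy a d v x)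
        (fiveC N p q R x (sy a d v x) z (g * sy a d v x) (d * W * x ^ 2))
        (fiveD N p q R x (sy a d v x) z (g * sy a d v x) (d * W * x ^ 2) (d * W1 * x ^ 3)) -
      (1 - (1 - a - (a + d)) / 2) * ((Closed.gM a d v / (a * (a + d) * (2 + d * v) ^ 2)) ^ 2 / 4 + 2 * x * sy a d v x * (d * Closed.hM a d v g W / (16 * a ^ 2 * (a + d) * (2 + d * v) ^ 2 * x)) ^ 2) =
      d ^ 2 * g ^ 2 * Closed.TMM a d v W E / (16 * a ^ 2 * (a + d) ^ 2 * (2 + d * v) ^ 4) := by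
  rw [h.tot_lMM, ← TMM_at hch]
  simp only [rvMM]
  ring

theorem val_TME (hch : Ch a d v x) (h : Fam N p q a (a + d) R x (sy a d v x) z (g * sy a d v x)
    (d * W * x ^ 2) (d * E / (1 + d * v)) (K / (1 + d * v))) :
    pairFun (lME (⟨a, a + d, x, sy a d v x⟩ : Frame) N p q) N p q x (sy a d v x)
        (fiveC N p q R x (sy a d v x) z (g * sy a d v x) (d * W * x ^ 2))
        (fiveD N p q R x (sy a d v x) z (g * sy a d v x) (d * W * x ^ 2) (d * W1 * x ^ 3)) -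
      2 * (1 - (1 - a - (a + d)) / 2) *
        ((Closed.gM a d v / (a * (a + d) * (2 + d * v) ^ 2)) * (d * Closed.gE a d v g W E / (32 * a ^ 2 * (a + d) * (2 + d * v) ^ 2 * x)) / 4 + 2 * x * sy a d v x * ((d * Closed.hM a d v g W / (16 * a ^ 2 * (a + d) * (2 + d * v) ^ 2 * x)) * (Closed.hE a d v g W / (800 * a ^ 2 * v * (2 + d * v) ^ 2 * (1 + d * v) * x ^ 2)))) =
      d * g * Closed.TME a d v g W W1 E K / (1600 * a ^ 3 * (a + d) ^ 2 * v * (2 + d * v) ^ 4 * x) := by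
  rw [h.tot_lME, ← TME_at hch]
  ring

end Vale.Agent.P100.Calib.Bridge
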