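import Mathlib
import Vale.Agent.P100.Calib.Orbit

/-!
# Regular formulas for `z c'` along the orbit

`dx`, `dy` and the `z`-derivatives of the seven fields are algebraic in `R, x, y, z, s`, in
`w = (x - z y)/R` and in `w₁ = dw/dR`, at every point of `S`, the centre included. Moreover
`a w = G(ξ)` and `(a + 1) w₁ = (dG/dR)(ξ)` at intermediate points, `a = 1 + N/2`.
-/

open Set Filter Topology

namespace Vale.Agent.P100.Calib

open Orb Bubble

/-- `dw/dR`. -/
noncomputable def wFun₁ (N : ℝ) (R x y dx dy : ℝ → ℝ) (z : ℝ) : ℝ :=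
  deriv (wFun N x y dx dy) z / deriv R z

variable {N p q : ℝ} {S : Set ℝ} {R x y s dx dy : ℝ → ℝ}
variable (hc : IsCrit N p q) (h : IsOrbitFns N p q S R x y s dx dy)
include hc h

omit hc in
theorem dR_eq {z : ℝ} (hz : z ∈ S) : deriv R z * z = rhoR p q (x z) (y z) := by
  rw [(h.dR z hz).deriv, rhoR]
  have := (show (0 : ℝ) < z from h.pos hz).ne'
  field_simp

omit hc in
theorem eq_of_off {f g : ℝ → ℝ} (hf : ContinuousOn f S) (hg : ContinuousOn g S)
    (e : ∀ z ∈ S, R z ≠ 0 → f z = g z) {z : ℝ} (hz : z ∈ S) : f z = g z := by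
  by_cases hR : R z = 0
  swap
  · exact e z hz hR
  refine tendsto_nhds_unique_of_eventuallyEq
    ((hf.continuousAt (h.isOpen.mem_nhds hz)).tendsto.mono_left (nhdsWithin_le_nhds (s := {z}ᶜ)))
    ((hg.continuousAt (h.isOpen.mem_nhds hz)).tendsto.mono_left nhdsWithin_le_nhds) ?_
  filter_upwards [self_mem_nhdsWithin, mem_nhdsWithin_of_mem_nhds (h.isOpen.mem_nhds hz)]
    with t ht htS
  exact e t htS fun h0 => ht (h.anti.injOn htS hz (h0.trans hR.symm))

theorem continuousOn_dxR :
    ContinuousOn (fun z => dxR N p q (x z) (y z) z (wFun N x y dx dy z)) S ∧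
      ContinuousOn (fun z => dyR N p q (x z) (y z) z (wFun N x y dx dy z)) S := by
  have cx := h.smooth.2.1.continuousOn
  have cy := h.smooth.2.2.1.continuousOn
  have cw := (contDiffOn_wFun hc h).continuousOn
  have := hc.p_pos
  have := hc.q_pos
  have hd : ∀ z ∈ S, 1 / (p + 1) * z + 1 / (q + 1) ≠ 0 := fun z hz => by
    have : (0 : ℝ) < z := h.pos hz
    positivity
  constructor <;> simp only [dxR, dyR, etaR] <;> fun_prop (disch := assumption)

/-- `dx/dR` and `dy/dR` in regular variables. -/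
theorem dx_eq {z : ℝ} (hz : z ∈ S) :
    dx z = dxR N p q (x z) (y z) z (wFun N x y dx dy z) ∧
      dy z = dyR N p q (x z) (y z) z (wFun N x y dx dy z) := by
  have := hc.p_pos
  have := hc.q_pos
  have key : ∀ t ∈ S, R t ≠ 0 →
      R t * etaR N p q (x t) (y t) t (wFun N x y dx dy t) = s t - 2 * N * y t := by
    intro t ht _
    have : (0 : ℝ) < t := h.pos ht
    have hd : 1 / (p + 1) * t + 1 / (q + 1) ≠ 0 := by positivity
    rw [etaR, mul_div_assoc', div_eq_iff hd]
    linear_combination 2 * N * (1 / (p + 1)) * wFun_eq hc h ht - h.quad t ht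
  refine ⟨eq_of_off h h.cont_dx (continuousOn_dxR hc h).1 (fun t ht hR => ?_) hz,
    eq_of_off h h.cont_dy (continuousOn_dxR hc h).2 (fun t ht hR => ?_) hz⟩
  · refine mul_left_cancel₀ hR ?_
    rw [dxR, h.ode_x t ht]
    linear_combination -(t / 4) * key t ht hR + N / 2 * wFun_eq hc h ht
  · refine mul_left_cancel₀ hR ?_
    rw [dyR, h.ode_y t ht]
    linear_combination -(1 / 4) * key t ht hR

theorem hasDerivAt_wFun {z : ℝ} (hz : z ∈ S) :
    HasDerivAt (wFun N x y dx dy) (wFun₁ N R x y dx dy z * deriv R z) z := by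
  have hne : deriv R z ≠ 0 := by rw [(h.dR z hz).deriv]; exact (dR_neg hc h hz).ne
  rw [wFun₁, div_mul_cancel₀ _ hne]
  exact (((contDiffOn_wFun hc h).contDiffAt (h.isOpen.mem_nhds hz)).differentiableAt
    one_ne_zero).hasDerivAt

theorem continuousOn_wFun₁ : ContinuousOn (wFun₁ N R x y dx dy) S :=
  ((contDiffOn_wFun hc h).continuousOn_deriv_of_isOpen h.isOpen le_rfl).div
    (h.smooth.1.continuousOn_deriv_of_isOpen h.isOpen le_rfl) fun z hz => by
      rw [(h.dR z hz).deriv]; exact (dR_neg hc h hz).ne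

theorem hasDerivAt_srcG {z : ℝ} (hz : z ∈ S) :
    HasDerivAt (fun t => srcG p q (x t) (y t) t)
      (srcG' N p q (x z) (y z) z (wFun N x y dx dy z) * deriv R z) z := by
  have hx := (h.deriv_x z hz).congr_deriv
    (show _ = dxR N p q (x z) (y z) z (wFun N x y dx dy z) * deriv R z by
      rw [(dx_eq hc h hz).1, (h.dR z hz).deriv])
  have hy := (h.deriv_y z hz).congr_deriv
    (show _ = dyR N p q (x z) (y z) z (wFun N x y dx dy z) * deriv R z by
      rw [(dx_eq hc h hz).2, (h.dR z hz).deriv])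
  refine (((hx.fun_pow 2).fun_sub ((hasDerivAt_id z).fun_mul (hy.fun_pow 2))).fun_add
    ((((hasDerivAt_id z).fun_mul hy).fun_mul ((hy.const_mul (1 / (q + 1))).fun_sub
      (hx.const_mul (1 / (p + 1))))).div_const (1 / (p + 1) * (1 / (q + 1))))).congr_deriv ?_
  have := hc.p_pos
  have := hc.q_pos
  have hW := (h.W_pos z hz).ne'
  have hz0 := (show (0 : ℝ) < z from h.pos hz).ne'
  have hcab : 1 / (p + 1) * (1 / (q + 1)) ≠ 0 := by positivity
  simp only [srcG', (h.dR z hz).deriv, id_eq]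
  generalize dxR N p q (x z) (y z) z (wFun N x y dx dy z) = a
  generalize dyR N p q (x z) (y z) z (wFun N x y dx dy z) = b
  generalize 1 / (p + 1) * (1 / (q + 1)) = c at hcab ⊢
  generalize hW' : 1 / (q + 1) * y z - 1 / (p + 1) * x z = W at hW ⊢
  field_simp
  ring

/-- The source equation, at every point. -/
theorem wFun₁_eq {z : ℝ} (hz : z ∈ S) :
    R z * wFun₁ N R x y dx dy z =
      srcG p q (x z) (y z) z - (1 + N / 2) * wFun N x y dx dy z := by
  have cR := h.smooth.1.continuousOn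
  have cw := (contDiffOn_wFun hc h).continuousOn
  have cG : ContinuousOn (fun t => srcG p q (x t) (y t) t) S := fun t ht =>
    (hasDerivAt_srcG hc h ht).continuousAt.continuousWithinAt
  refine eq_of_off h (cR.mul (continuousOn_wFun₁ hc h))
    (cG.sub (continuousOn_const.mul cw)) (fun t ht hR => ?_) hz
  have hd := (((h.deriv_x t ht).fun_sub ((hasDerivAt_id t).fun_mul (h.deriv_y t ht))))
  have e := ((h.dR t ht).fun_mul (hasDerivAt_wFun hc h ht)).congr_of_eventuallyEq
    (f₁ := fun u => x u - id u * y u) (by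
      filter_upwards [h.isOpen.mem_nhds ht] with u hu
      simpa using (wFun_eq hc h hu).symm)
  have eq := e.unique hd
  have hW := (h.W_pos t ht).ne'
  have ht0 := (show (0 : ℝ) < t from h.pos ht).ne'
  have := hc.p_pos
  have := hc.q_pos
  have hcab : 1 / (p + 1) * (1 / (q + 1)) ≠ 0 := by positivity
  obtain ⟨ex, ey⟩ := And.intro (h.ode_x t ht) (h.ode_y t ht)
  simp only [srcG, Pi.mul_apply, Pi.sub_apply]
  rw [(h.dR t ht).deriv] at eq
  simp only [id_eq, one_mul] at eq
  have hN : N ≠ 0 := by linarith [hc.dim]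
  have ew : wFun N x y dx dy t * N = 2 * (x t ^ 2 - t * y t ^ 2 - dx t + t * dy t) := by
    rw [wFun]; field_simp
  generalize 1 / (p + 1) * (1 / (q + 1)) = c at hcab eq ⊢
  generalize hW' : 1 / (q + 1) * y t - 1 / (p + 1) * x t = W at hW eq ⊢
  generalize wFun₁ N R x y dx dy t = v at eq ⊢
  generalize wFun N x y dx dy t = w at eq ew ⊢
  field_simp at eq ⊢
  linear_combination -2 * eq + c * ew

/-- **Regular formula for `z c'`.** -/
theorem deriv_orbCoef {k : Fin 7 → ℝ → ℝ} (hk : ∀ r, ContDiffOn ℝ 1 (k r) S) {z : ℝ} (hz : z ∈ S)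
    (j : Fin 14) :
    deriv (orbCoef N p q R x y s dx dy k j) z * z =
      ∑ r, (deriv (k r) z * z *
          regFld N p q (R z) (x z) (y z) (s z) (wFun N x y dx dy z) r j +
        k r z * regVel N p q (R z) (x z) (y z) z (s z) (wFun N x y dx dy z)
          (wFun₁ N R x y dx dy z) r j) := by
  set w := wFun N x y dx dy z with hw
  set w₁ := wFun₁ N R x y dx dy z with hw₁
  set o := orbAt N p q 0 0 0 0 0 0 with ho
  have hR : HasDerivAt R (deriv R z) z := (h.dR z hz).congr_deriv (h.dR z hz).deriv.symm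
  have hx : HasDerivAt x (dxR N p q (x z) (y z) z w * deriv R z) z :=
    (h.deriv_x z hz).congr_deriv (by rw [(dx_eq hc h hz).1, (h.dR z hz).deriv])
  have hy : HasDerivAt y (dyR N p q (x z) (y z) z w * deriv R z) z :=
    (h.deriv_y z hz).congr_deriv (by rw [(dx_eq hc h hz).2, (h.dR z hz).deriv])
  have hs : HasDerivAt s (s z * (y z - q * x z) * deriv R z) z :=
    (h.deriv_s z hz).congr_deriv (by rw [(h.dR z hz).deriv])
  have hwd := hasDerivAt_wFun hc h hz
  rw [← hw₁] at hwd
  have hx0 := (h.x_pos z hz).ne'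
  have hy0 := (h.y_pos z hz).ne'
  have hs0 := (h.s_pos z hz).ne'
  have hz0 := (show (0 : ℝ) < z from h.pos hz).ne'
  have hρ := dR_eq h hz
  have hD := (hx.const_mul (1 / (p + 1))).fun_add (hy.const_mul (1 / (q + 1)))
  have hσ := (((hy.fun_sub hx).const_mul 2).fun_add ((hs.fun_mul hwd).fun_div
    ((hx.fun_mul hy).const_mul 2) (by simp [hx0, hy0]))).fun_neg
  have e1 := hy.fun_div hx hx0
  have e2 := hx.fun_div hy hy0
  have e3 := hσ.fun_div (hx.const_mul 2) (by simp [hx0])
  have e4 := hσ.fun_div (hy.const_mul 2) (by simp [hy0])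
  have e5 := hD.fun_div hx hx0
  have e6 := hD.fun_div hy hy0
  have e7 := ((((hR.const_mul 4).fun_mul hD).fun_mul hy).fun_div hs hs0).fun_neg
  have e8 := (((hR.const_mul 4).fun_mul hD).fun_mul hx).fun_div hs hs0
  have hfld : ∀ r, HasDerivAt
      (fun t => regFld N p q (R t) (x t) (y t) (s t) (wFun N x y dx dy t) r j)
      (regVel N p q (R z) (x z) (y z) z (s z) w w₁ r j / z) z := by
    intro r
    fin_cases r <;> simp only [regFld, regVel, Fin.reduceFinMk, Matrix.cons_val]
    · refine (((((hasDerivAt_const z ((1 : ℝ) * o.shapeU 1 0 0 0 0 j)).fun_add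
        (e1.mul_const (o.shapeU 0 1 0 0 0 j))).fun_add (e2.mul_const (o.shapeU 0 0 1 0 0 j))).fun_add
        (e3.mul_const (o.shapeU 0 0 0 1 0 j))).fun_add
        (e4.mul_const (o.shapeU 0 0 0 0 1 j))).congr_of_eventuallyEq
        (Eventually.of_forall fun t => shapeU_linear o _ _ _ _ _ j) |>.congr_deriv ?_
      refine Eq.trans ?_ (congrArg (· / z) (shapeU_linear o _ _ _ _ _ j).symm)
      rw [← hρ, ← hw]
      field_simp
      ring
    iterate 4
      · refine (((e1.mul_const _).fun_add (hasDerivAt_const z _)).fun_add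
          (e2.mul_const _)).congr_of_eventuallyEq
          (Eventually.of_forall fun t => shapeG_linear _ _ _ _ j) |>.congr_deriv ?_
        refine Eq.trans ?_ (congrArg (· / z) (shapeG_linear _ _ _ _ j).symm)
        rw [← hρ]
        field_simp
        ring
    · refine ((e5.mul_const _).fun_add (e6.mul_const _)).congr_of_eventuallyEq
        (Eventually.of_forall fun t => shapeT_linear o _ _ j) |>.congr_deriv ?_
      refine Eq.trans ?_ (congrArg (· / z) (shapeT_linear o _ _ j).symm)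
      rw [← hρ]
      field_simp
    · refine ((((e5.mul_const _).fun_add (e6.mul_const _)).fun_add (e7.mul_const _)).fun_add
        (e8.mul_const _)).congr_of_eventuallyEq
        (Eventually.of_forall fun t => shapeW_linear _ _ _ _ j) |>.congr_deriv ?_
      refine Eq.trans ?_ (congrArg (· / z) (shapeW_linear _ _ _ _ j).symm)
      rw [← hρ]
      field_simp
  have hkd : ∀ r, HasDerivAt (k r) (deriv (k r) z) z := fun r =>
    (((hk r).contDiffAt (h.isOpen.mem_nhds hz)).differentiableAt one_ne_zero).hasDerivAt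
  have hall := (HasDerivAt.fun_sum (u := Finset.univ) fun r _ => (hkd r).fun_mul (hfld r)).const_add
    (o.cBase j)
  rw [show deriv (orbCoef N p q R x y s dx dy k j) z = _ from hall.deriv, Finset.sum_mul]
  refine Finset.sum_congr rfl fun r _ => ?_
  rw [← hw]
  field_simp

/-- Mean value form of `R u' + b R' u = R' g` at a zero `z₀` of `R`: `b u = g` at an intermediate
point. -/
theorem exists_mean {u g : ℝ → ℝ} {b z₀ z : ℝ} (hb : 0 < b) (hz₀ : z₀ ∈ S) (hR0 : R z₀ = 0)
    (hz : z ∈ S) (hne : z ≠ z₀) (hS : Icc (min z₀ z) (max z₀ z) ⊆ S) (cu : ContinuousOn u S)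
    (hu : ∀ t ∈ S, t ≠ z₀ → HasDerivAt u (deriv R t * (g t - b * u t) / R t) t) :
    ∃ ξ ∈ Ioo (min z₀ z) (max z₀ z), b * u z = g ξ := by
  set E : ℝ → ℝ := fun t => (R t ^ 2) ^ (b / 2) with hE
  have hR : ∀ t ∈ S, HasDerivAt R (deriv R t) t := fun t ht =>
    (h.dR t ht).congr_deriv (h.dR t ht).deriv.symm
  have hRne : ∀ t ∈ S, t ≠ z₀ → R t ≠ 0 := fun t ht hn h0 =>
    hn (h.anti.injOn ht hz₀ (h0.trans hR0.symm))
  have cE : ContinuousOn E S := ((h.smooth.1.continuousOn).pow 2).rpow_const fun t _ =>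
    Or.inr (by linarith)
  have hin : ∀ t ∈ Ioo (min z₀ z) (max z₀ z), t ∈ S ∧ t ≠ z₀ := fun t ht =>
    ⟨hS (Ioo_subset_Icc_self ht), fun e => by
      rw [e] at ht
      rcases le_total z₀ z with h' | h'
      · simp [h'] at ht
      · simp [h'] at ht⟩
  have hE' : ∀ t ∈ Ioo (min z₀ z) (max z₀ z), HasDerivAt E (b * deriv R t * E t / R t) t :=
    fun t ht => by
      obtain ⟨htS, htn⟩ := hin t ht
      refine (((hR t htS).fun_pow 2).rpow_const (p := b / 2)
        (Or.inl (pow_ne_zero 2 (hRne t htS htn)))).congr_deriv ?_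
      simp only [hE]
      rw [Real.rpow_sub_one (pow_ne_zero 2 (hRne t htS htn))]
      have := hRne t htS htn
      field_simp
      ring
  have hlt : min z₀ z < max z₀ z := min_lt_max.2 (Ne.symm hne)
  have hF' : ∀ t ∈ Ioo (min z₀ z) (max z₀ z),
      HasDerivAt (fun t => E t * u t) (E t * deriv R t * g t / R t) t := fun t ht => by
    obtain ⟨htS, htn⟩ := hin t ht
    refine ((hE' t ht).fun_mul (hu t htS htn)).congr_deriv ?_
    have := hRne t htS htn
    field_simp
    ring
  obtain ⟨ξ, hξ, e⟩ := exists_ratio_hasDerivAt_eq_ratio_slope (fun t => E t * u t)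
    (fun t => E t * deriv R t * g t / R t) hlt ((cE.mul cu).mono hS) hF' E
    (fun t => b * deriv R t * E t / R t) (cE.mono hS) hE'
  obtain ⟨hξS, hξn⟩ := hin ξ hξ
  refine ⟨ξ, hξ, ?_⟩
  have h1 := hRne ξ hξS hξn
  have h2 : deriv R ξ ≠ 0 := by rw [(h.dR ξ hξS).deriv]; exact (dR_neg hc h hξS).ne
  have h3 : E ξ ≠ 0 := (Real.rpow_pos_of_pos (by positivity) _).ne'
  have h4 : E z ≠ 0 :=
    (Real.rpow_pos_of_pos (lt_of_le_of_ne (sq_nonneg _)
      (pow_ne_zero 2 (hRne z hz hne)).symm) _).ne'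
  have h0 : E z₀ = 0 := by simp [hE, hR0, Real.zero_rpow (by linarith : b / 2 ≠ 0)]
  rcases le_total z₀ z with h' | h' <;>
    simp only [h', max_eq_right, min_eq_left, max_eq_left, min_eq_right, h0, zero_mul, sub_zero,
      zero_sub] at e <;>
    field_simp at e <;>
    linarith

/-- **Bands for `w` and `dw/dR`.** -/
theorem wFun_mean {z₀ z : ℝ} (hz₀ : z₀ ∈ S) (hR0 : R z₀ = 0) (hz : z ∈ S) (hne : z ≠ z₀)
    (hS : Icc (min z₀ z) (max z₀ z) ⊆ S) :
    (∃ ξ ∈ Ioo (min z₀ z) (max z₀ z),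
      (1 + N / 2) * wFun N x y dx dy z = srcG p q (x ξ) (y ξ) ξ) ∧
    ∃ ξ ∈ Ioo (min z₀ z) (max z₀ z), (2 + N / 2) * wFun₁ N R x y dx dy z =
      srcG' N p q (x ξ) (y ξ) ξ (wFun N x y dx dy ξ) := by
  have hN : 2 < N := hc.dim
  have hne' : ∀ t ∈ S, t ≠ z₀ → R t ≠ 0 := fun t ht hn h0 =>
    hn (h.anti.injOn ht hz₀ (h0.trans hR0.symm))
  constructor
  · refine exists_mean hc h (g := fun t => srcG p q (x t) (y t) t) (by linarith) hz₀ hR0 hz hne hS
      (contDiffOn_wFun hc h).continuousOn fun t ht htn => ?_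
    refine (hasDerivAt_wFun hc h ht).congr_deriv ?_
    rw [← wFun₁_eq hc h ht]
    have := hne' t ht htn
    field_simp
  · refine exists_mean hc h (g := fun t => srcG' N p q (x t) (y t) t (wFun N x y dx dy t))
      (by linarith) hz₀ hR0 hz hne hS (continuousOn_wFun₁ hc h) fun t ht htn => ?_
    have hRt := hne' t ht htn
    have e : ∀ᶠ u in 𝓝 t, wFun₁ N R x y dx dy u =
        (srcG p q (x u) (y u) u - (1 + N / 2) * wFun N x y dx dy u) / R u := by
      filter_upwards [h.isOpen.mem_nhds ht, (h.dR t ht).continuousAt.eventually_ne hRt] with u hu hu'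
      rw [eq_div_iff hu', mul_comm, wFun₁_eq hc h hu]
    refine ((((hasDerivAt_srcG hc h ht).fun_sub
      ((hasDerivAt_wFun hc h ht).const_mul (1 + N / 2))).fun_div
      ((h.dR t ht).congr_deriv (h.dR t ht).deriv.symm) hRt).congr_of_eventuallyEq e).congr_deriv ?_
    rw [← wFun₁_eq hc h ht]
    field_simp
    ring

end Vale.Agent.P100.Calib
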