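import Mathlib
import Vale.Agent.P100.Calib.SlabFiveFamily
import Vale.Agent.P100.Calib.NaturalFrame
import Vale.Agent.P100.Calib.OrbitVel

/-!
# The five scalar signs at one orbit point

For the slab family in dimension five the data of the block condition at `z` are explicit functions
of `(R, x, y, z, s, w, w₁)`, the centre included. `SlabBlockFive` follows from five signs of these
functions (`FiveSigns`) on every orbit of the slab.
-/

-- The linters cost more than the proofs here.
set_option linter.all false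

open Set Filter Topology

namespace Vale.Agent.P100.Calib

open Orb Bubble

variable {N p q : ℝ}

section
variable {S : Set ℝ} {R x y s dx dy : ℝ → ℝ} (hc : IsCrit N p q)
  (h : IsOrbitFns N p q S R x y s dx dy)
include hc h

/-- `z d/dz` of the scalars of the family along the orbit. -/
theorem deriv_famFive {z : ℝ} (hz : z ∈ S) (r : Fin 7) :
    deriv (famK N p q (famFive N p q) x y s dx dy r) z * z =
      fiveDk N p q (x z) (y z) z (s z) (wFun N x y dx dy z) (wFun₁ N R x y dx dy z) r := by
  have hz0 := (show (0 : ℝ) < z from h.pos hz).ne'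
  have hD := (denom_pos hc h hz).ne'
  have hx0 := (h.x_pos z hz).ne'
  have hy0 := (h.y_pos z hz).ne'
  have hN : N ≠ 0 := by linarith [hc.dim]
  have hρ := dR_eq h hz
  obtain ⟨ex, ey⟩ := dx_eq hc h hz
  have hx : HasDerivAt x (dxR N p q (x z) (y z) z (wFun N x y dx dy z) * deriv R z) z :=
    (h.deriv_x z hz).congr_deriv (by rw [ex, (h.dR z hz).deriv])
  have hy : HasDerivAt y (dyR N p q (x z) (y z) z (wFun N x y dx dy z) * deriv R z) z :=
    (h.deriv_y z hz).congr_deriv (by rw [ey, (h.dR z hz).deriv])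
  have hs : HasDerivAt s (s z * (y z - q * x z) * deriv R z) z :=
    (h.deriv_s z hz).congr_deriv (by rw [(h.dR z hz).deriv])
  have hw := hasDerivAt_wFun hc h hz
  have hb : (1 : ℝ) / (q + 1) ≠ 0 := by linarith [hc.weights.1, hc.weights.2.1]
  simp only [fiveDk, sigR, ← hρ]
  unfold famK famReg regShift sigR famFive numArg
  generalize 1 / (p + 1) = a at *
  generalize 1 / (q + 1) = b at *
  generalize dxR N p q (x z) (y z) z (wFun N x y dx dy z) = X at *
  generalize dyR N p q (x z) (y z) z (wFun N x y dx dy z) = Y at *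
  have dD := (hx.const_mul a).fun_add (hy.const_mul b)
  have dom : HasDerivAt
      (fun t => (-(1 / 20 + (b - a)) + (1 / 20 - 9 * (b - a)) * (a / b) * t) / N)
      ((1 / 20 - 9 * (b - a)) * (a / b) / N) z := by
    simpa using (((hasDerivAt_id z).const_mul ((1 / 20 - 9 * (b - a)) * (a / b))).const_add
      (-(1 / 20 + (b - a)))).div_const N
  have d2 : 2 * (a * x z + b * y z) ≠ 0 := mul_ne_zero two_ne_zero hD
  have d3 : 2 * (a * x z + b * y z) ^ 2 ≠ 0 := mul_ne_zero two_ne_zero (pow_ne_zero 2 hD)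
  have d4 : 4 * (a * x z + b * y z) ^ 2 ≠ 0 := mul_ne_zero (by norm_num) (pow_ne_zero 2 hD)
  obtain ⟨σd, hσd⟩ : ∃ σd, σd = 2 * (Y - X) + ((s z * (y z - q * x z) * wFun N x y dx dy z +
      s z * wFun₁ N R x y dx dy z) * (x z * y z) -
        s z * wFun N x y dx dy z * (X * y z + x z * Y)) / (2 * (x z * y z) ^ 2) := ⟨_, rfl⟩
  have dσ : HasDerivAt (fun t => 2 * (y t - x t) + s t * wFun N x y dx dy t / (2 * (x t * y t)))
      (deriv R z * σd) z :=
    (((hy.fun_sub hx).const_mul 2).fun_add ((hs.fun_mul hw).fun_div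
      ((hx.fun_mul hy).const_mul 2) (mul_ne_zero two_ne_zero (mul_ne_zero hx0 hy0)))).congr_deriv
      (by rw [hσd]; field_simp)
  rw [← hσd]
  clear hσd
  have dW := (hy.const_mul b).fun_sub (hx.const_mul a)
  have du := (((dσ.const_mul (1 / 8 : ℝ)).fun_mul dW).fun_div ((dD.fun_pow 2).const_mul 4) d4)
  have dgd := (((((dσ.const_mul (1 / 8 : ℝ)).mul_const (a * b)).mul_const (1 - 1 / N)).fun_div
    (dD.const_mul 2) d2).const_sub 0).fun_add
    (((dom.mul_const (a * b)).fun_mul hs).fun_div (dD.const_mul 2) d2)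
  have ded := ((du.const_mul (a + b)).const_add (-(21 / 100) : ℝ)).fun_sub
    (((dom.fun_mul hs).fun_mul dW).fun_div ((dD.fun_pow 2).const_mul 2) d3)
  fin_cases r <;> simp only [Fin.reduceFinMk, Matrix.cons_val, deriv_const', zero_mul]
  · rw [(((du.const_add (0 : ℝ)).const_mul a).fun_add ((hy.fun_div dD hD).fun_mul dgd)).deriv]
    generalize 2 * (y z - x z) + s z * wFun N x y dx dy z / (2 * (x z * y z)) = σ
    field_simp
    ring
  · rw [(((du.const_add (0 : ℝ)).const_mul b).fun_sub ((hx.fun_div dD hD).fun_mul dgd)).deriv]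
    generalize 2 * (y z - x z) + s z * wFun N x y dx dy z / (2 * (x z * y z)) = σ
    field_simp
    ring
  · rw [(ded.const_mul a).deriv]
    field_simp
    ring
  · rw [(ded.const_mul b).deriv]
    field_simp
    ring
  · rw [((dom.fun_mul hs).fun_div (dD.const_mul 2) d2).deriv]
    field_simp

/-- The coefficients and their derivatives are those of the point. -/
theorem five_data {z : ℝ} (hz : z ∈ S) :
    let P := fun j => fiveC N p q (R z) (x z) (y z) z (s z) (wFun N x y dx dy z) j
    (fun j => orbCoef N p q R x y s dx dy (famK N p q (famFive N p q) x y s dx dy) j z) = P ∧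
    orbLa N p q (-1) R x y s dx dy (famK N p q (famFive N p q) x y s dx dy) z =
      fiveLa N p q (R z) (x z) (y z) z (s z) (wFun N x y dx dy z) (wFun₁ N R x y dx dy z) ∧
    orbMb N p q (-1) R x y s dx dy (famK N p q (famFive N p q) x y s dx dy) z =
      fiveMb N p q (R z) (x z) (y z) z (s z) (wFun N x y dx dy z) (wFun₁ N R x y dx dy z) := by
  intro P
  have hk := contDiffOn_famK hc h (isC1Num_famFive (N := N) (p := p) (q := q))
  have ec : ∀ j, orbCoef N p q R x y s dx dy (famK N p q (famFive N p q) x y s dx dy) j z =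
      fiveC N p q (R z) (x z) (y z) z (s z) (wFun N x y dx dy z) j := fun j => rfl
  have ed : ∀ j, deriv (orbCoef N p q R x y s dx dy (famK N p q (famFive N p q) x y s dx dy) j) z * z =
      fiveD N p q (R z) (x z) (y z) z (s z) (wFun N x y dx dy z) (wFun₁ N R x y dx dy z) j := by
    intro j
    rw [deriv_orbCoef hc h hk hz j, fiveD]
    refine Finset.sum_congr rfl fun r _ => ?_
    rw [deriv_famFive hc h hz r]
    rfl
  exact ⟨funext ec, funext fun j => by rw [orbLa, fiveLa, ec, ed],
    funext fun j => by rw [orbMb, fiveMb, ec, ed]⟩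

/-- The five signs give the multiplier condition. -/
theorem block_of_fiveSigns {z : ℝ} (hz : z ∈ S)
    (hsig : FiveSigns N p q (R z) (x z) (y z) z (s z) (wFun N x y dx dy z)
      (wFun₁ N R x y dx dy z)) :
    let c := fun j => orbCoef N p q R x y s dx dy (famK N p q (famFive N p q) x y s dx dy) j z
    let la := orbLa N p q (-1) R x y s dx dy (famK N p q (famFive N p q) x y s dx dy) z
    let mb := orbMb N p q (-1) R x y s dx dy (famK N p q (famFive N p q) x y s dx dy) z
    ∃ μ : ℝ, 0 ≤ μ ∧ μ * R z ≤ rayTau N p q c la mb (R z) (x z) (y z) z (s z) ∧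
      ∀ A C B : ℝ, A ≠ 0 ∨ C ≠ 0 ∨ B ≠ 0 →
        μ * (A * B - C ^ 2) < elimN N p q c la mb A C B 0 0 := by
  obtain ⟨e1, e2, e3⟩ := five_data hc h hz
  obtain ⟨g1, g2, g3, g4, g5⟩ := hsig
  intro c la mb
  simp only [c, la, mb, e1, e2, e3]
  exact hblock_of_arrow ⟨1 / (p + 1), 1 / (q + 1), x z, y z⟩ (denom_pos hc h hz).ne'
    (T := fiveBlock N p q (R z) (x z) (y z) z (s z) (wFun N x y dx dy z) (wFun₁ N R x y dx dy z))
    rfl g1 g2 g3 g4 g5

end

/-- The five signs along every orbit of the slab of dimension five. -/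
def SlabSignsFive : Prop :=
  ∀ p q N al be σ : ℝ, 0 < q → q < p → 1 < p * q → IsCrit N p q →
    al = 1 / (p + 1) → be = 1 / (q + 1) → σ = al + be → N * (1 - σ) = 2 →
    5 < N → N < 5 + 7 / 100 → 3 / 5 < σ → σ < 307 / 507 →
    2 * σ - 1 ≤ al → 1 / 5 < al → al < be → al < 31 / 100 → be < 41 / 100 →
    (5 * σ - 3) * σ ^ 3 < 4 * al ^ 2 * (be - al) ^ 2 →
    ∀ (S : Set ℝ) (R x y s dx dy : ℝ → ℝ), IsOrbitFns N p q S R x y s dx dy →
      ∀ z ∈ Ioc 0 ((p + 1) / (q + 1)),
        FiveSigns N p q (R z) (x z) (y z) z (s z) (wFun N x y dx dy z) (wFun₁ N R x y dx dy z)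

/-- **The five signs give the multiplier condition on the slab.** -/
theorem slabBlockFive_of_signs (hS : SlabSignsFive) : SlabBlockFive :=
  fun p q N al be σ hq hqp hpq hc hal hbe hσ hN h1 h2 h3 h4 h5 h6 h7 h8 h9 h10
    S R x y s dx dy h z hz =>
  block_of_fiveSigns hc h (h.cover hz)
    (hS p q N al be σ hq hqp hpq hc hal hbe hσ hN h1 h2 h3 h4 h5 h6 h7 h8 h9 h10
      S R x y s dx dy h z hz)

end Vale.Agent.P100.Calib
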