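import Mathlib
import Vale.Agent.P100.Calib.SlabBridgeVal
import Vale.Agent.P100.Calib.SlabPoint

/-!
# The five signs from the closed forms

Along an orbit of the slab the five signs at a point follow from `Closed.Signs` of the seven
variables of the closed forms.
-/

set_option linter.unusedVariables false
set_option linter.unusedSimpArgs false

open Set

namespace Vale.Agent.P100.Calib

open Orb Bubble Bridge

variable {N p q : ℝ}

namespace Bridge

variable {a b x y R z s w w₁ : ℝ}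

/-- The six coefficients from the values of a form with two Gram products. -/
theorem entries_of_form {T : NatCoef} {I x y a₁ a₂ a₃ a₄ a₅ a₆ g₀ g₁ g₂ k₀ k₁ k₂ : ℝ}
    (key : ∀ M E K : ℝ, T.form M E K = (⟨a₁, a₂, a₃, a₄, a₅, a₆⟩ : NatCoef).form M E K -
      (gram I g₀ g₁ g₂ g₀ g₁ g₂ M E K / 4 + 2 * x * y * gram I k₀ k₁ k₂ k₀ k₁ k₂ M E K)) :
    let G := fun g g' k k' : ℝ => g * g' / 4 + 2 * x * y * (k * k')
    T.MM = a₁ - (1 - I) * G g₀ g₀ k₀ k₀ ∧
    T.ME = a₂ - 2 * (1 - I) * G g₀ g₁ k₀ k₁ ∧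
    T.EG = a₅ - 2 * (1 - I) * G g₁ g₂ k₁ k₂ ∧
    T.GG = a₆ - (1 - I) * G g₂ g₂ k₂ k₂ ∧
    T.EE = a₄ - (1 - I - 1 / 2) * G g₁ g₁ k₁ k₁ - 2 * G g₀ g₂ k₀ k₂ ∧
    T.MG = a₃ - (2 * (1 - I) - 2) * G g₀ g₂ k₀ k₂ - G g₁ g₁ k₁ k₁ / 2 := by
  intro G
  have e100 := key 1 0 0
  have e010 := key 0 1 0
  have e001 := key 0 0 1
  have e110 := key 1 1 0
  have e101 := key 1 0 1
  have e011 := key 0 1 1
  simp only [NatCoef.form, gram] at e100 e010 e001 e110 e101 e011
  refine ⟨?_, ?_, ?_, ?_, ?_, ?_⟩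
  · linear_combination e100
  · linear_combination e110 - e100 - e010
  · linear_combination e011 - e010 - e001
  · linear_combination e001
  · linear_combination e010
  · linear_combination e101 - e100 - e001

/-- The entries of the block: linear part less the Gram products of the rows of the head. -/
theorem block_entries (ha : 1 / (p + 1) = a) (hb : 1 / (q + 1) = b) (hx : 0 < x) (hy : 0 < y)
    (hD : a * x + b * y ≠ 0) :
    let F : Frame := ⟨a, b, x, y⟩
    let V := fun φ : Fun3 => pairFun φ N p q x y (fiveC N p q R x y z s w)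
      (fiveD N p q R x y z s w w₁)
    let T := fiveBlock N p q R x y z s w w₁
    let G := fun φ ψ φ' ψ' : Fun3 => V φ * V φ' / 4 + 2 * x * y * (V ψ * V ψ')
    T.MM = V (lMM F N p q) - (1 - 1 / N) * G (gM F) (hM F) (gM F) (hM F) ∧
    T.ME = V (lME F N p q) - 2 * (1 - 1 / N) * G (gM F) (hM F) (gE F) (hEf F) ∧
    T.EG = V (lEG F N p q) - 2 * (1 - 1 / N) * G (gE F) (hEf F) (gG F) (hG F) ∧
    T.GG = V (lGG F N p q) - (1 - 1 / N) * G (gG F) (hG F) (gG F) (hG F) ∧
    T.EE = V (lEE F N p q) - (1 - 1 / N - 1 / 2) * G (gE F) (hEf F) (gE F) (hEf F) -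
      2 * G (gM F) (hM F) (gG F) (hG F) ∧
    T.MG = V (lMG F N p q) - (2 * (1 - 1 / N) - 2) * G (gM F) (hM F) (gG F) (hG F) -
      G (gE F) (hEf F) (gE F) (hEf F) / 2 := by
  intro F V T G
  subst ha hb
  set c := fiveC N p q R x y z s w with hcdef
  have h0 : c 0 = (1 / (p + 1)) ^ 2 + 1 / (8 * (x * y)) * y ^ 2 := by
    simp only [hcdef, fiveC, fiveReg, famReg, regShift, famFive, regFld, orbAt, Orb.cBase,
      Orb.shapeU, shapeG, Orb.shapeT, shapeW, Fin.sum_univ_seven, Matrix.cons_val]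
    field_simp
    ring
  have h12 : (c 1 + c 2) / 2 =
      1 / (p + 1) * (1 / (q + 1)) + 1 / (8 * (x * y)) * (y * -x) := by
    simp only [hcdef, fiveC, fiveReg, famReg, regShift, famFive, regFld, orbAt, Orb.cBase,
      Orb.shapeU, shapeG, Orb.shapeT, shapeW, Fin.sum_univ_seven, Matrix.cons_val]
    field_simp
    ring
  have h3 : c 3 = (1 / (q + 1)) ^ 2 + 1 / (8 * (x * y)) * (-x) ^ 2 := by
    simp only [hcdef, fiveC, fiveReg, famReg, regShift, famFive, regFld, orbAt, Orb.cBase,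
      Orb.shapeU, shapeG, Orb.shapeT, shapeW, Fin.sum_univ_seven, Matrix.cons_val]
    field_simp
    ring
  set la := fiveLa N p q R x y z s w w₁ with hla
  set mb := fiveMb N p q R x y z s w w₁ with hmb
  have hV : ∀ φ : Fun3, V φ = φ c la mb := fun φ => rfl
  have hFD : F.D ≠ 0 := hD
  have hU : ∀ u v : ℝ, u = 1 / (p + 1) * ((x * u + y * v) / F.D) +
        y * ((1 / (q + 1) * u - 1 / (p + 1) * v) / F.D) ∧
      v = 1 / (q + 1) * ((x * u + y * v) / F.D) +
        -x * ((1 / (q + 1) * u - 1 / (p + 1) * v) / F.D) := by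
    intro u v
    obtain ⟨D, hDe⟩ : ∃ D, D = F.D := ⟨_, rfl⟩
    rw [← hDe] at hFD ⊢
    constructor <;> field_simp <;> rw [hDe] <;> simp only [F, Frame.D] <;> ring
  have hρ : (1 : ℝ) / (8 * (x * y)) ≠ 0 := by positivity
  have ht : 1 / (p + 1) * -x - 1 / (q + 1) * y ≠ 0 := by
    intro e; apply hD; linarith
  refine entries_of_form (T := T) (a₁ := V (lMM F N p q)) (a₂ := V (lME F N p q))
    (a₃ := V (lMG F N p q)) (a₄ := V (lEE F N p q)) (a₅ := V (lEG F N p q))
    (a₆ := V (lGG F N p q)) fun M E K => ?_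
  have e0 := natBlock_split F hFD N p q c la mb M E K
  have hG' := blockGram_rotate (γ := 1) one_ne_zero hρ ht (c₀ := c 0) (m := (c 1 + c 2) / 2)
    (c₃ := c 3) (by rw [h0]; ring) (by rw [h12]; ring) (by rw [h3]; ring) N (V (gM F)) (V (gE F))
    (V (gG F)) (V (hM F)) (V (hEf F)) (V (hG F)) M E K
  have e4 : ∀ t : ℝ, t / (4 * (1 / (8 * (x * y)))) = 2 * x * y * t := fun t => by
    field_simp; ring
  rw [mul_one, e4] at hG'
  rw [← hG']
  refine e0.trans ?_
  simp only [hV, gM, gE, gG, hM, hEf, hG, F]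
  rw [← (hU _ _).1, ← (hU _ _).1, ← (hU _ _).1, ← (hU _ _).2, ← (hU _ _).2, ← (hU _ _).2]
  rfl

/-- The last sign: the multiplier gap is the cross term with the ray. -/
theorem tau_gap (hy : y ≠ 0) (hD : 1 / (p + 1) * x + 1 / (q + 1) * y ≠ 0)
    (hk : RayKer N p q (fiveC N p q R x y z s w) (fiveLa N p q R x y z s w w₁)
      (fiveMb N p q R x y z s w w₁) R x y z s) :
    let a := 1 / (p + 1)
    let b := 1 / (q + 1)
    fiveTau N p q R x y z s w w₁ -
        (fiveBlock N p q R x y z s w w₁).MG * (a * x + b * y) ^ 2 * R =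
      s * pairFun (lLG (⟨a, b, x, y⟩ : Frame) N p q z) N p q x y (fiveC N p q R x y z s w)
        (fiveD N p q R x y z s w w₁) / 4 := by
  intro a b
  set F : Frame := ⟨a, b, x, y⟩ with hF
  set c := fiveC N p q R x y z s w
  set la := fiveLa N p q R x y z s w w₁
  set mb := fiveMb N p q R x y z s w w₁
  have hFD : F.D ≠ 0 := hD
  show fiveTau N p q R x y z s w w₁ - _ = s * lLG F N p q z c la mb / 4
  have eD : a * x + b * y = F.D := rfl
  rw [eD]
  obtain ⟨A, hA⟩ : ∃ A, A = F.pA 0 0 1 := ⟨_, rfl⟩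
  obtain ⟨C, hC⟩ : ∃ C, C = F.pC 0 0 1 := ⟨_, rfl⟩
  obtain ⟨B, hB⟩ : ∃ B, B = F.pB 0 0 1 := ⟨_, rfl⟩
  obtain ⟨hv1, hv2, hv3⟩ : F.vM A C B = 0 ∧ F.vE A C B = 0 ∧ F.vG A C B = 1 := by
    simp only [hA, hC, hB, Frame.pA, Frame.pC, Frame.pB, Frame.vM, Frame.vE, Frame.vG, hF,
      Frame.D] at hFD ⊢
    obtain ⟨D, hDe⟩ : ∃ D, D = a * x + b * y := ⟨_, rfl⟩
    rw [← hDe] at hFD
    simp only [← hDe]
    refine ⟨?_, ?_, ?_⟩ <;> field_simp <;> rw [hDe] <;> ring
  have k1 := hk.ker A C B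
  have k0 := hk.ker 0 0 0
  have ez : elimN N p q c la mb 0 0 0 0 0 = 0 := by
    simp only [elimN, freePart, hessPair, gram]; ring
  simp only [zero_add, mul_zero, sub_zero, add_zero, ez] at k0
  rw [elimN_cross] at k1 k0
  have eG : y ^ 2 * A - 2 * (x * y) * C + x ^ 2 * B = F.vG A C B := rfl
  rw [eG, hv3] at k1
  rw [natBlock_eq F hFD, natBlock_eq F hFD N p q c la mb A C B] at k1
  rw [natBlock_eq F hFD] at k0
  have f1 : F.vM (A + 4 * R * x ^ 2) (C + 4 * R * x * y) (B + 4 * R * y ^ 2) = 4 * R * F.D ^ 2 := by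
    have : F.vM (A + 4 * R * x ^ 2) (C + 4 * R * x * y) (B + 4 * R * y ^ 2) =
        F.vM A C B + 4 * R * F.D ^ 2 := by simp only [Frame.vM, Frame.D, hF]; ring
    rw [this, hv1, zero_add]
  have f2 : F.vE (A + 4 * R * x ^ 2) (C + 4 * R * x * y) (B + 4 * R * y ^ 2) = 0 := by
    have : F.vE (A + 4 * R * x ^ 2) (C + 4 * R * x * y) (B + 4 * R * y ^ 2) = F.vE A C B := by
      simp only [Frame.vE, hF]; ring
    rw [this, hv2]
  have f3 : F.vG (A + 4 * R * x ^ 2) (C + 4 * R * x * y) (B + 4 * R * y ^ 2) = 1 := by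
    have : F.vG (A + 4 * R * x ^ 2) (C + 4 * R * x * y) (B + 4 * R * y ^ 2) = F.vG A C B := by
      simp only [Frame.vG, hF]; ring
    rw [this, hv3]
  have f4 : F.vM (4 * R * x ^ 2) (4 * R * x * y) (4 * R * y ^ 2) = 4 * R * F.D ^ 2 := by
    simp only [Frame.vM, Frame.D, hF]; ring
  have f5 : F.vE (4 * R * x ^ 2) (4 * R * x * y) (4 * R * y ^ 2) = 0 := by
    simp only [Frame.vE, hF]; ring
  have f6 : F.vG (4 * R * x ^ 2) (4 * R * x * y) (4 * R * y ^ 2) = 0 := by
    simp only [Frame.vG, hF]; ring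
  rw [f1, f2, f3, hv1, hv2, hv3] at k1
  rw [f4, f5, f6] at k0
  have ec : crossPQ N p q c la mb (A + 4 * R * x ^ 2) (C + 4 * R * x * y) (B + 4 * R * y ^ 2)
      (z * s) s = s * lLG F N p q z c la mb +
        crossPQ N p q c la mb (4 * R * x ^ 2) (4 * R * x * y) (4 * R * y ^ 2) (z * s) s := by
    simp only [lLG, crossPQ, hA, hC, hB]; ring
  rw [ec] at k1
  simp only [NatCoef.form] at k1 k0
  unfold fiveBlock fiveTau
  rw [show (⟨1 / (p + 1), 1 / (q + 1), x, y⟩ : Frame) = F from rfl]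
  linear_combination -(k1 - k0) / 4

end Bridge

section
variable {a d v g W W1 R x z : ℝ}

/-- At a point of the chart the closed signs give the five signs. -/
theorem fiveSigns_point (ha : 1 / (p + 1) = a) (hb : 1 / (q + 1) = a + d) (ha0 : 0 < a)
    (hd : 0 < d) (hM : 0 < 1 - a - (a + d)) (hv : 0 < v) (hx : 0 < x) (hg : 0 < g)
    (h : Bridge.Fam N p q a (a + d) (R / x) x (sy a d v x) z (g * sy a d v x) (d * W * x ^ 2)
      (d * Closed.eVal d v W R / (1 + d * v)) (Closed.kVal d W R / (1 + d * v)))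
    (hk : RayKer N p q
      (fiveC N p q (R / x) x (sy a d v x) z (g * sy a d v x) (d * W * x ^ 2))
      (fiveLa N p q (R / x) x (sy a d v x) z (g * sy a d v x) (d * W * x ^ 2) (d * W1 * x ^ 3))
      (fiveMb N p q (R / x) x (sy a d v x) z (g * sy a d v x) (d * W * x ^ 2) (d * W1 * x ^ 3))
      (R / x) x (sy a d v x) z (g * sy a d v x))
    (hs : Closed.Signs a d v g W W1 R) :
    FiveSigns N p q (R / x) x (sy a d v x) z (g * sy a d v x) (d * W * x ^ 2)
      (d * W1 * x ^ 3) := by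
  obtain ⟨sG, sW, sE, sA, sM, sL⟩ := hs
  set E := Closed.eVal d v W R
  set K := Closed.kVal d W R
  have hQ : 0 < 1 + d * v := by positivity
  have hP : 0 < 2 + d * v := by positivity
  have hb0 : 0 < a + d := by linarith
  have hy : 0 < sy a d v x := by unfold sy; positivity
  have hch : Bridge.Ch a d v x :=
    ⟨ha0.ne', hb0.ne', hd.ne', hv.ne', hx.ne', hP.ne', hQ.ne'⟩
  have hD0 : a * x + (a + d) * sy a d v x ≠ 0 := by positivity
  obtain ⟨eMM, eME, eEG, eGG, eEE, eMG⟩ := Bridge.block_entries (N := N) (R := R / x) (z := z)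
    (s := g * sy a d v x) (w := d * W * x ^ 2) (w₁ := d * W1 * x ^ 3) ha hb hx hy hD0
  have hI : 1 / N = (1 - a - (a + d)) / 2 := by rw [h.hN, one_div_div]
  simp only [hI, Bridge.val_gM hch h, Bridge.val_gE hch h, Bridge.val_gG hch h, Bridge.val_hM hch h,
    Bridge.val_hEf hch h, Bridge.val_hG hch h] at eMM eME eEG eGG eEE eMG
  have tMM : (fiveBlock N p q (R / x) x (sy a d v x) z (g * sy a d v x) (d * W * x ^ 2)
      (d * W1 * x ^ 3)).MM = d ^ 2 * g ^ 2 * Closed.TMM a d v W E /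
        (16 * a ^ 2 * (a + d) ^ 2 * (2 + d * v) ^ 4) := by
    rw [eMM, ← Bridge.val_TMM (W1 := W1) hch h]; ring
  have tME : (fiveBlock N p q (R / x) x (sy a d v x) z (g * sy a d v x) (d * W * x ^ 2)
      (d * W1 * x ^ 3)).ME = d * g * Closed.TME a d v g W W1 E K /
        (1600 * a ^ 3 * (a + d) ^ 2 * v * (2 + d * v) ^ 4 * x) := by
    rw [eME, ← Bridge.val_TME (W1 := W1) hch h]
  rw [Bridge.val_lEG (W1 := W1) hch h] at eEG
  rw [Bridge.val_lGG (W1 := W1) hch h] at eGG
  rw [Bridge.val_lEE (W1 := W1) hch h] at eEE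
  rw [Bridge.val_lMG (W1 := W1) hch h] at eMG
  have tEG : (fiveBlock N p q (R / x) x (sy a d v x) z (g * sy a d v x) (d * W * x ^ 2)
      (d * W1 * x ^ 3)).EG = d * Closed.TEG a d v g W W1 R E K /
        (51200 * a ^ 4 * (a + d) * v * (2 + d * v) ^ 4 * (1 + d * v) * x ^ 3) := by
    rw [eEG]; simp only [Closed.TEG, Closed.j1, sy]; field_simp; ring
  have tGG : (fiveBlock N p q (R / x) x (sy a d v x) z (g * sy a d v x) (d * W * x ^ 2)
      (d * W1 * x ^ 3)).GG = Closed.TGG a d v g W W1 R E K /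
        (640000 * a ^ 4 * v ^ 2 * (2 + d * v) ^ 4 * (1 + d * v) ^ 2 * x ^ 4) := by
    rw [eGG]; simp only [Closed.TGG, Closed.j1, sy]; field_simp; ring
  have tEE : (fiveBlock N p q (R / x) x (sy a d v x) z (g * sy a d v x) (d * W * x ^ 2)
      (d * W1 * x ^ 3)).EE = Closed.TEE a d v g W W1 R E K /
        (2560000 * a ^ 4 * (a + d) ^ 2 * v ^ 2 * (2 + d * v) ^ 4 * (1 + d * v) * x ^ 2) := by
    rw [eEE]; simp only [Closed.TEE, Closed.gramEE, Closed.gramMG, Closed.j1, sy]; field_simp; ring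
  have tMG : (fiveBlock N p q (R / x) x (sy a d v x) z (g * sy a d v x) (d * W * x ^ 2)
      (d * W1 * x ^ 3)).MG = Closed.TMG a d v g W W1 R E K /
        (2560000 * a ^ 4 * (a + d) ^ 2 * v ^ 2 * (2 + d * v) ^ 4 * (1 + d * v) * x ^ 2) := by
    rw [eMG]; simp only [Closed.TMG, Closed.gramEE, Closed.gramMG, Closed.j1, sy]; field_simp; ring
  have hTMM : 0 < Closed.TMM a d v W E := by
    have h1 : 0 < 1 - 2 * a - d := by linarith
    have h2 : 0 < (1 - 2 * a - d) * (1 + d * v) * (-E) * W :=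
      mul_pos (mul_pos (mul_pos h1 hQ) (neg_pos.2 sE)) sW
    simp only [Closed.TMM]
    linarith
  refine ⟨?_, ?_, ?_, ?_, ?_⟩
  · rw [tGG]; positivity
  · rw [tMM]; positivity
  · rw [tMM, tME, tEG, tGG, tEE, tMG]
    have hpos : 0 < d ^ 2 * g ^ 2 * Closed.TArrow a d v g W W1 R E K /
        (2560000 * 16 * 640000 * a ^ 10 * (a + d) ^ 4 * v ^ 4 * (2 + d * v) ^ 12 *
          (1 + d * v) ^ 3 * x ^ 6) := by positivity
    refine sub_pos.1 (lt_of_lt_of_eq hpos ?_)
    simp only [Closed.TArrow, Closed.TA]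
    generalize Closed.TMM a d v W E = t₁
    generalize Closed.TME a d v g W W1 E K = t₂
    generalize Closed.TEG a d v g W W1 R E K = t₃
    generalize Closed.TGG a d v g W W1 R E K = t₄
    generalize Closed.TEE a d v g W W1 R E K = t₅
    generalize Closed.TMG a d v g W W1 R E K = t₆
    field_simp
    ring
  · rw [tMG]
    exact div_nonneg sM (by positivity)
  · have hD1 : 1 / (p + 1) * x + 1 / (q + 1) * sy a d v x ≠ 0 := by rw [ha, hb]; exact hD0
    have e := Bridge.tau_gap hy.ne' hD1 hk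
    simp only [ha, hb, Bridge.val_lLG (W1 := W1) hch h] at e
    refine sub_nonneg.1 ?_
    rw [ha, hb, e]
    exact div_nonneg (mul_nonneg (mul_nonneg hg.le hy.le) (div_nonneg sL (by positivity)))
      (by norm_num)

end

section
variable {S : Set ℝ} {R x y s dx dy : ℝ → ℝ} (hc : IsCrit N p q)
  (h : IsOrbitFns N p q S R x y s dx dy)
include hc h

/-- **The bridge.** Along the orbit the closed signs give the five signs, with
`v = (b y/(a x) - 1)/d`. -/
theorem fiveSigns_of_closed {z : ℝ} (hz : z ∈ S) {a d v : ℝ} (ha : a = 1 / (p + 1))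
    (hd : d = 1 / (q + 1) - 1 / (p + 1)) (hv : v = (1 / (q + 1) * y z / (a * x z) - 1) / d)
    (hs : Closed.Signs a d v (s z / y z) (wFun N x y dx dy z / (d * x z ^ 2))
      (wFun₁ N R x y dx dy z / (d * x z ^ 3)) (R z * x z)) :
    FiveSigns N p q (R z) (x z) (y z) z (s z) (wFun N x y dx dy z)
      (wFun₁ N R x y dx dy z) := by
  obtain ⟨hal, hlt, hw⟩ := hc.weights
  have hN : 0 < N := by linarith [hc.dim]
  have hp : 0 < p := hc.p_pos
  have hq : 0 < q := hc.q_pos
  have hb : 1 / (q + 1) = a + d := by rw [ha, hd]; ring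
  have ha0 : 0 < a := ha ▸ hal
  have hd0 : 0 < d := by linarith
  have hM : 0 < 1 - a - (a + d) := by
    rw [ha] at *
    have : 0 < N * (1 - 1 / (p + 1) - (1 / (p + 1) + d)) := by
      have e : N * (1 - 1 / (p + 1) - (1 / (p + 1) + d)) = 2 := by
        rw [hd]; linear_combination -hw
      linarith
    exact pos_of_mul_pos_right this hN.le
  have hx := h.x_pos z hz
  have hy := h.y_pos z hz
  have hsz := h.s_pos z hz
  have hW := h.W_pos z hz
  rw [hb, ← ha] at hW
  rw [hb] at hv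
  have hv' : v = ((a + d) * y z - a * x z) / (a * x z * d) := by
    rw [hv]; field_simp
  have hv0 : 0 < v := by
    rw [hv']; exact div_pos hW (by positivity)
  have hy' : y z = sy a d v (x z) := by
    rw [hv', sy]; field_simp; ring
  have hquad := h.quad z hz
  have hwz := wFun_eq hc h hz
  have hz0 : (0 : ℝ) < z := h.pos hz
  obtain ⟨g, hg⟩ : ∃ g, g = s z / y z := ⟨_, rfl⟩
  obtain ⟨W, hWd⟩ : ∃ W, W = wFun N x y dx dy z / (d * x z ^ 2) := ⟨_, rfl⟩
  obtain ⟨W1, hW1⟩ : ∃ W1, W1 = wFun₁ N R x y dx dy z / (d * x z ^ 3) := ⟨_, rfl⟩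
  obtain ⟨R', hR'⟩ : ∃ R', R' = R z * x z := ⟨_, rfl⟩
  rw [← hg, ← hWd, ← hW1, ← hR'] at hs
  have es : s z = g * sy a d v (x z) := by rw [hg, ← hy']; field_simp
  have ew : wFun N x y dx dy z = d * W * x z ^ 2 := by rw [hWd]; field_simp
  have ew1 : wFun₁ N R x y dx dy z = d * W1 * x z ^ 3 := by rw [hW1]; field_simp
  have eR : R z = R' / x z := by rw [hR']; field_simp
  have hk : RayKer N p q
      (fiveC N p q (R z) (x z) (y z) z (s z) (wFun N x y dx dy z))
      (fiveLa N p q (R z) (x z) (y z) z (s z) (wFun N x y dx dy z) (wFun₁ N R x y dx dy z))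
      (fiveMb N p q (R z) (x z) (y z) z (s z) (wFun N x y dx dy z) (wFun₁ N R x y dx dy z))
      (R z) (x z) (y z) z (s z) := by
    obtain ⟨e1, e2, e3⟩ := five_data hc h hz
    have hkf := contDiffOn_famK hc h (isC1Num_famFive (N := N) (p := p) (q := q))
    obtain ⟨-, hdet⟩ := famK_head hc h (t := famFive N p q) (by norm_num [famFive]) hz
    have := rayKer_orbit (kap := -1) hc h hkf hz hdet.ne'
    rwa [e1, e2, e3] at this
  have hz' : z = (x z - R z * wFun N x y dx dy z) / y z := by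
    field_simp; linarith
  have hquad' : s z * (a * z + (a + d)) = 2 * N * (a * x z + (a + d) * y z) - 4 * R z * x z * y z := by
    rw [← hb, ha]; linear_combination hquad
  have hN2 : N = 2 / (1 - a - (a + d)) := by
    rw [eq_div_iff hM.ne', ha, hd]; linear_combination -hw
  have hzz : (a / (a + d)) * z = (1 - R' * d * W) / (1 + d * v) := by
    rw [hR', hWd, hv']
    have : z * y z = x z - R z * wFun N x y dx dy z := by linarith
    field_simp
    linear_combination (a + d) * this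
  have fam : Bridge.Fam N p q a (a + d) (R z) (x z) (y z) z (s z) (wFun N x y dx dy z)
      (d * Closed.eVal d v W R' / (1 + d * v)) (Closed.kVal d W R' / (1 + d * v)) := by
    have hQ : (1 : ℝ) + d * v ≠ 0 := by positivity
    refine ⟨⟨by rw [ha]; simp, by rw [← hb]; simp, hN2, ha0.ne', by linarith, hM.ne', hx.ne',
      hy.ne', hsz.ne', by positivity, hW.ne', hz'⟩, hquad', by positivity, ?_, ?_⟩
    · rw [show a + d - a = d by ring, mul_assoc, hzz, Closed.eVal]
      field_simp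
      ring
    · rw [show a + d - a = d by ring, mul_assoc, hzz, Closed.kVal]
      field_simp
  rw [hy', es, ew, eR] at fam
  rw [hy', es, ew, ew1, eR] at hk ⊢
  exact fiveSigns_point ha.symm hb ha0 hd0 hM hv0 hx (hg ▸ div_pos hsz hy) fam hk hs

end

/-- The closed signs along every orbit of the slab of dimension five, in the variables of the
closed forms. -/
def SlabClosedFive : Prop :=
  ∀ p q N al be σ : ℝ, 0 < q → q < p → 1 < p * q → IsCrit N p q →
    al = 1 / (p + 1) → be = 1 / (q + 1) → σ = al + be → N * (1 - σ) = 2 →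
    5 < N → N < 5 + 7 / 100 → 3 / 5 < σ → σ < 307 / 507 →
    2 * σ - 1 ≤ al → 1 / 5 < al → al < be → al < 31 / 100 → be < 41 / 100 →
    (5 * σ - 3) * σ ^ 3 < 4 * al ^ 2 * (be - al) ^ 2 →
    ∀ (S : Set ℝ) (R x y s dx dy : ℝ → ℝ), IsOrbitFns N p q S R x y s dx dy →
      ∀ z ∈ Ioc 0 ((p + 1) / (q + 1)),
        Closed.Signs al (be - al) ((be * y z / (al * x z) - 1) / (be - al)) (s z / y z)
          (wFun N x y dx dy z / ((be - al) * x z ^ 2))
          (wFun₁ N R x y dx dy z / ((be - al) * x z ^ 3)) (R z * x z)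

/-- **The closed signs give the five signs of the slab.** -/
theorem slabSignsFive_of_closed (hS : SlabClosedFive) : SlabSignsFive := by
  intro p q N al be σ hq hqp hpq hc hal hbe hσ hN h1 h2 h3 h4 h5 h6 h7 h8 h9 h10
    S R x y s dx dy h z hz
  have := hS p q N al be σ hq hqp hpq hc hal hbe hσ hN h1 h2 h3 h4 h5 h6 h7 h8 h9 h10
    S R x y s dx dy h z hz
  subst hal hbe
  exact fiveSigns_of_closed hc h (h.cover hz) rfl rfl rfl this

end Vale.Agent.P100.Calib
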