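import Mathlib
import Vale.Agent.P100.Calib.SlabGenFamily
import Vale.Agent.P100.Calib.NaturalFrame
import Vale.Agent.P100.Calib.OrbitVel

/-!
# The signs at one orbit point for a slab family with parameters

At `z` the data of the block condition are explicit functions of the five numbers, of the
`z`-derivatives of the two that vary, and of `(R, x, y, z, s, w, w₁)`. The block condition follows
from three signs for a multiplier `ν` (`GenSigns`), and with `ν` the `MG` entry from five
(`GenArrow`).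
-/

open Set Filter Topology

namespace Vale.Agent.P100.Calib

open Orb Bubble

variable {N p q : ℝ}

namespace GenPar

/-- `z d/dz` of the number `w`. -/
def numW₁ (P : GenPar) (z : ℝ) : ℝ := P.w₁ * z

/-- `z d/dz` of the number `g` in regular variables. -/
noncomputable def numG₁ (P : GenPar) (N p q R x y z w : ℝ) : ℝ :=
  P.g₁ * z + P.gY * (-2 * (rhoR p q x y * (y + R * dyR N p q x y z w)) / N)

end GenPar

/-- The scalars at a point with numbers `t`. -/
noncomputable def genReg (N p q : ℝ) (t : TailVal) (x y s w : ℝ) : Fin 7 → ℝ :=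
  famReg p q (regShift N p q t x y (sigR x y s w)) x y s

/-- `z d/dz` of the scalars, with constant `c`, `u`, `v` and `z d/dz` of `w`, `g` given. -/
noncomputable def genDk (N p q : ℝ) (t : TailVal) (om' ga' x y z s w w₁ : ℝ) : Fin 7 → ℝ :=
  let a := 1 / (p + 1)
  let b := 1 / (q + 1)
  let ρ := rhoR p q x y
  let X := dxR N p q x y z w
  let Y := dyR N p q x y z w
  let x' := ρ * X
  let y' := ρ * Y
  let s₁ := s * (y - q * x)
  let s' := ρ * s₁
  let D := a * x + b * y
  let D' := a * x' + b * y'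
  let σ := sigR x y s w
  let σ' := ρ * (2 * (Y - X) +
    ((s₁ * w + s * w₁) * (x * y) - s * w * (X * y + x * Y)) / (2 * (x * y) ^ 2))
  let W := b * y - a * x
  let W' := b * y' - a * x'
  let u' := t.c * ((σ' * W + σ * W') * D - 2 * σ * W * D') / (4 * D ^ 3)
  let g := t.g - t.c * σ * (a * b) * (1 - 1 / N) / (2 * D)
  let g' := ga' - t.c * (a * b) * (1 - 1 / N) * (σ' * D - σ * D') / (2 * D ^ 2)
  let P := t.w * s / (2 * D)
  let P' := ((om' * s + t.w * s') * D - t.w * s * D') / (2 * D ^ 2)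
  let gd := g + a * b * P
  let gd' := g' + a * b * P'
  let V := W / D
  let V' := (W' * D - W * D') / D ^ 2
  let E := (a + b) * u' - (P' * V + P * V')
  ![0, a * u' + (y' * D - y * D') / D ^ 2 * gd + y / D * gd',
    b * u' - ((x' * D - x * D') / D ^ 2 * gd + x / D * gd'), a * E, b * E, 0, P']

/-- The coefficients at a point. -/
noncomputable def genC (N p q : ℝ) (t : TailVal) (R x y s w : ℝ) (j : Fin 14) : ℝ :=
  (orbAt N p q 0 0 0 0 0 0).cBase j +
    ∑ r, genReg N p q t x y s w r * regFld N p q R x y s w r j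

/-- `z c'` at a point. -/
noncomputable def genD (N p q : ℝ) (t : TailVal) (om' ga' R x y z s w w₁ : ℝ) (j : Fin 14) : ℝ :=
  ∑ r, (genDk N p q t om' ga' x y z s w w₁ r * regFld N p q R x y s w r j +
    genReg N p q t x y s w r * regVel N p q R x y z s w w₁ r j)

/-- The derivatives along `a` at a point. -/
noncomputable def genLa (N p q kap : ℝ) (t : TailVal) (om' ga' R x y z s w w₁ : ℝ) (j : Fin 14) :
    ℝ :=
  genC N p q t R x y s w j * lamR N p q kap x y -
    (q + 1) * genD N p q t om' ga' R x y z s w w₁ j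

/-- The derivatives along `b` at a point. -/
noncomputable def genMb (N p q kap : ℝ) (t : TailVal) (om' ga' R x y z s w w₁ : ℝ) (j : Fin 14) :
    ℝ :=
  genC N p q t R x y s w j * muR N p q kap x y +
    (p + 1) * genD N p q t om' ga' R x y z s w w₁ j

/-- The block in the regular natural frame at a point. -/
noncomputable def genBlock (N p q kap : ℝ) (t : TailVal) (om' ga' R x y z s w w₁ : ℝ) : NatCoef :=
  natBlock ⟨1 / (p + 1), 1 / (q + 1), x, y⟩ N p q (genC N p q t R x y s w)
    (genLa N p q kap t om' ga' R x y z s w w₁) (genMb N p q kap t om' ga' R x y z s w w₁)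

/-- The multiplier times `R` at a point. -/
noncomputable def genTau (N p q kap : ℝ) (t : TailVal) (om' ga' R x y z s w w₁ : ℝ) : ℝ :=
  rayTau N p q (genC N p q t R x y s w) (genLa N p q kap t om' ga' R x y z s w w₁)
    (genMb N p q kap t om' ga' R x y z s w w₁) R x y z s

/-- The signs at a point for the multiplier `ν D²`. -/
def GenSigns (N p q kap : ℝ) (t : TailVal) (om' ga' ν R x y z s w w₁ : ℝ) : Prop :=
  let T := genBlock N p q kap t om' ga' R x y z s w w₁
  0 < T.GG ∧ 0 < T.GG * (T.EE + ν) - (T.EG / 2) ^ 2 ∧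
    0 < T.GG * ((T.EE + ν) * T.MM - (T.ME / 2) ^ 2) -
      T.EG / 2 * (T.EG / 2 * T.MM - T.ME / 2 * ((T.MG - ν) / 2)) +
      (T.MG - ν) / 2 * (T.EG / 2 * (T.ME / 2) - (T.EE + ν) * ((T.MG - ν) / 2)) ∧ 0 ≤ ν ∧
    ν * (1 / (p + 1) * x + 1 / (q + 1) * y) ^ 2 * R ≤
      genTau N p q kap t om' ga' R x y z s w w₁

/-- The five signs at a point, the multiplier being the `MG` entry. -/
def GenArrow (N p q kap : ℝ) (t : TailVal) (om' ga' R x y z s w w₁ : ℝ) : Prop :=
  let T := genBlock N p q kap t om' ga' R x y z s w w₁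
  0 < T.GG ∧ 0 < T.MM ∧
    T.EG ^ 2 * T.MM + T.ME ^ 2 * T.GG < 4 * (T.EE + T.MG) * T.MM * T.GG ∧ 0 ≤ T.MG ∧
    T.MG * (1 / (p + 1) * x + 1 / (q + 1) * y) ^ 2 * R ≤
      genTau N p q kap t om' ga' R x y z s w w₁

theorem genSigns_of_arrow {kap om' ga' R x y z s w w₁ : ℝ} {t : TailVal}
    (h : GenArrow N p q kap t om' ga' R x y z s w w₁) :
    GenSigns N p q kap t om' ga' (genBlock N p q kap t om' ga' R x y z s w w₁).MG
      R x y z s w w₁ := by
  obtain ⟨h1, h2, h3, h4, h5⟩ := h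
  refine ⟨h1, pos_of_mul_pos_left ?_ h2.le, ?_, h4, h5⟩
  · have := mul_nonneg (sq_nonneg (genBlock N p q kap t om' ga' R x y z s w w₁).ME) h1.le
    linarith
  · rw [sub_self, zero_div, zero_mul, add_zero, mul_zero, sub_zero]
    linarith

section
variable {S : Set ℝ} {R x y s dx dy : ℝ → ℝ} (hc : IsCrit N p q)
  (h : IsOrbitFns N p q S R x y s dx dy)
include hc h

/-- `z d/dz` of the scalars of the family along the orbit. -/
theorem deriv_genK (P : GenPar) {z : ℝ} (hz : z ∈ S) (r : Fin 7) :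
    deriv (genK N p q P R x y s dx dy r) z * z =
      genDk N p q (P.num N (R z) (y z) z) (P.numW₁ z)
        (P.numG₁ N p q (R z) (x z) (y z) z (wFun N x y dx dy z))
        (x z) (y z) z (s z) (wFun N x y dx dy z) (wFun₁ N R x y dx dy z) r := by
  have hz0 := (show (0 : ℝ) < z from h.pos hz).ne'
  have hD := (denom_pos hc h hz).ne'
  have hx0 := (h.x_pos z hz).ne'
  have hy0 := (h.y_pos z hz).ne'
  have hN : N ≠ 0 := by linarith [hc.dim]
  have hρ := dR_eq h hz
  obtain ⟨ex, ey⟩ := dx_eq hc h hz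
  have hx : HasDerivAt x (dxR N p q (x z) (y z) z (wFun N x y dx dy z) * deriv R z) z :=
    (h.deriv_x z hz).congr_deriv (by rw [ex, (h.dR z hz).deriv])
  have hy : HasDerivAt y (dyR N p q (x z) (y z) z (wFun N x y dx dy z) * deriv R z) z :=
    (h.deriv_y z hz).congr_deriv (by rw [ey, (h.dR z hz).deriv])
  have hs : HasDerivAt s (s z * (y z - q * x z) * deriv R z) z :=
    (h.deriv_s z hz).congr_deriv (by rw [(h.dR z hz).deriv])
  have hw := hasDerivAt_wFun hc h hz
  have hb : (1 : ℝ) / (q + 1) ≠ 0 := by linarith [hc.weights.1, hc.weights.2.1]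
  simp only [genDk, GenPar.numW₁, GenPar.numG₁, GenPar.num, sigR, ← hρ]
  unfold genK famReg regShift sigR GenPar.num
  generalize 1 / (p + 1) = a at *
  generalize 1 / (q + 1) = b at *
  generalize dxR N p q (x z) (y z) z (wFun N x y dx dy z) = X at *
  generalize dyR N p q (x z) (y z) z (wFun N x y dx dy z) = Y at *
  have dD := (hx.const_mul a).fun_add (hy.const_mul b)
  have dom : HasDerivAt (fun t => P.w₀ + P.w₁ * t) P.w₁ z := by
    simpa using ((hasDerivAt_id z).const_mul P.w₁).const_add P.w₀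
  have hR : HasDerivAt R (deriv R z) z := (h.dR z hz).congr_deriv (h.dR z hz).deriv.symm
  have dga : HasDerivAt (fun t => P.g₀ + P.g₁ * t + P.gY * (-2 * R t * y t / N))
      (P.g₁ + P.gY * (-2 * (deriv R z * (y z + R z * Y)) / N)) z := by
    refine ((((hasDerivAt_id z).const_mul P.g₁).const_add P.g₀).fun_add
      ((((hR.const_mul (-2)).fun_mul hy).div_const N).const_mul P.gY)).congr_deriv ?_
    ring
  have d2 : 2 * (a * x z + b * y z) ≠ 0 := mul_ne_zero two_ne_zero hD
  have d3 : 2 * (a * x z + b * y z) ^ 2 ≠ 0 := mul_ne_zero two_ne_zero (pow_ne_zero 2 hD)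
  have d4 : 4 * (a * x z + b * y z) ^ 2 ≠ 0 := mul_ne_zero (by norm_num) (pow_ne_zero 2 hD)
  obtain ⟨σd, hσd⟩ : ∃ σd, σd = 2 * (Y - X) + ((s z * (y z - q * x z) * wFun N x y dx dy z +
      s z * wFun₁ N R x y dx dy z) * (x z * y z) -
        s z * wFun N x y dx dy z * (X * y z + x z * Y)) / (2 * (x z * y z) ^ 2) := ⟨_, rfl⟩
  have dσ : HasDerivAt (fun t => 2 * (y t - x t) + s t * wFun N x y dx dy t / (2 * (x t * y t)))
      (deriv R z * σd) z :=
    (((hy.fun_sub hx).const_mul 2).fun_add ((hs.fun_mul hw).fun_div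
      ((hx.fun_mul hy).const_mul 2) (mul_ne_zero two_ne_zero (mul_ne_zero hx0 hy0)))).congr_deriv
      (by rw [hσd]; field_simp)
  rw [← hσd]
  clear hσd
  have dW := (hy.const_mul b).fun_sub (hx.const_mul a)
  have du := (((dσ.const_mul P.c).fun_mul dW).fun_div ((dD.fun_pow 2).const_mul 4) d4)
  have dgd := (dga.fun_sub ((((dσ.const_mul P.c).mul_const (a * b)).mul_const (1 - 1 / N)).fun_div
    (dD.const_mul 2) d2)).fun_add
    (((dom.mul_const (a * b)).fun_mul hs).fun_div (dD.const_mul 2) d2)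
  have ded := ((du.const_mul (a + b)).const_add P.v).fun_sub
    (((dom.fun_mul hs).fun_mul dW).fun_div ((dD.fun_pow 2).const_mul 2) d3)
  fin_cases r <;> simp only [Fin.reduceFinMk, Matrix.cons_val, deriv_const', zero_mul]
  · rw [(((du.const_add (0 : ℝ)).const_mul a).fun_add ((hy.fun_div dD hD).fun_mul dgd)).deriv]
    generalize 2 * (y z - x z) + s z * wFun N x y dx dy z / (2 * (x z * y z)) = σ
    field_simp
    ring
  · rw [(((du.const_add (0 : ℝ)).const_mul b).fun_sub ((hx.fun_div dD hD).fun_mul dgd)).deriv]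
    generalize 2 * (y z - x z) + s z * wFun N x y dx dy z / (2 * (x z * y z)) = σ
    field_simp
    ring
  · rw [(ded.const_mul a).deriv]
    field_simp
    ring
  · rw [(ded.const_mul b).deriv]
    field_simp
    ring
  · rw [((dom.fun_mul hs).fun_div (dD.const_mul 2) d2).deriv]
    field_simp

/-- The coefficients and their derivatives are those of the point. -/
theorem gen_data (P : GenPar) {z : ℝ} (hz : z ∈ S) :
    let t := P.num N (R z) (y z) z
    let om' := P.numW₁ z
    let ga' := P.numG₁ N p q (R z) (x z) (y z) z (wFun N x y dx dy z)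
    (fun j => orbCoef N p q R x y s dx dy (genK N p q P R x y s dx dy) j z) =
      genC N p q t (R z) (x z) (y z) (s z) (wFun N x y dx dy z) ∧
    orbLa N p q P.kap R x y s dx dy (genK N p q P R x y s dx dy) z =
      genLa N p q P.kap t om' ga' (R z) (x z) (y z) z (s z) (wFun N x y dx dy z)
        (wFun₁ N R x y dx dy z) ∧
    orbMb N p q P.kap R x y s dx dy (genK N p q P R x y s dx dy) z =
      genMb N p q P.kap t om' ga' (R z) (x z) (y z) z (s z) (wFun N x y dx dy z)
        (wFun₁ N R x y dx dy z) := by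
  intro t om' ga'
  have ec : ∀ j, orbCoef N p q R x y s dx dy (genK N p q P R x y s dx dy) j z =
      genC N p q t (R z) (x z) (y z) (s z) (wFun N x y dx dy z) j := fun j => rfl
  have ed : ∀ j, deriv (orbCoef N p q R x y s dx dy (genK N p q P R x y s dx dy) j) z * z =
      genD N p q t om' ga' (R z) (x z) (y z) z (s z) (wFun N x y dx dy z)
        (wFun₁ N R x y dx dy z) j := by
    intro j
    rw [deriv_orbCoef hc h (contDiffOn_genK hc h P) hz j, genD]
    refine Finset.sum_congr rfl fun r _ => ?_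
    rw [deriv_genK hc h P hz r]
    rfl
  exact ⟨funext ec, funext fun j => by rw [orbLa, genLa, ec, ed],
    funext fun j => by rw [orbMb, genMb, ec, ed]⟩

/-- The signs give the multiplier condition. -/
theorem block_of_genSigns (P : GenPar) {z ν : ℝ} (hz : z ∈ S)
    (hsig : GenSigns N p q P.kap (P.num N (R z) (y z) z) (P.numW₁ z)
      (P.numG₁ N p q (R z) (x z) (y z) z (wFun N x y dx dy z)) ν (R z) (x z) (y z) z (s z)
      (wFun N x y dx dy z) (wFun₁ N R x y dx dy z)) :
    let c := fun j => orbCoef N p q R x y s dx dy (genK N p q P R x y s dx dy) j z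
    let la := orbLa N p q P.kap R x y s dx dy (genK N p q P R x y s dx dy) z
    let mb := orbMb N p q P.kap R x y s dx dy (genK N p q P R x y s dx dy) z
    ∃ μ : ℝ, 0 ≤ μ ∧ μ * R z ≤ rayTau N p q c la mb (R z) (x z) (y z) z (s z) ∧
      ∀ A C B : ℝ, A ≠ 0 ∨ C ≠ 0 ∨ B ≠ 0 →
        μ * (A * B - C ^ 2) < elimN N p q c la mb A C B 0 0 := by
  obtain ⟨e1, e2, e3⟩ := gen_data hc h P hz
  obtain ⟨g1, g2, g3, g4, g5⟩ := hsig
  intro c la mb
  simp only [c, la, mb, e1, e2, e3]
  exact ⟨ν * (1 / (p + 1) * x z + 1 / (q + 1) * y z) ^ 2, mul_nonneg g4 (sq_nonneg _), g5,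
    fun A C B hne => block_pos_of_minors ⟨1 / (p + 1), 1 / (q + 1), x z, y z⟩
      (denom_pos hc h hz).ne' (T := genBlock N p q P.kap (P.num N (R z) (y z) z) (P.numW₁ z)
        (P.numG₁ N p q (R z) (x z) (y z) z (wFun N x y dx dy z)) (R z) (x z) (y z) z (s z)
        (wFun N x y dx dy z) (wFun₁ N R x y dx dy z)) rfl g1 g2 g3 hne⟩

end

/-- The parameters admitted in dimension `n` at a point. -/
structure GenPar.Adm (P : GenPar) (n : ℕ) (N p q : ℝ) : Prop where
  c_pos : 0 < P.c
  kap_low : -1 ≤ P.kap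
  kap_lt : (n : ℝ) < N - P.kap
  kap_high : P.kap ≤ N - 4
  exp_one : 1 ≤ 2 * q * ((N - 4 - P.kap) / 4)
  exp_drift : N - 3 - 2 * N * (1 / (p + 1)) ≤
    2 * N * (1 / (q + 1)) * (2 * q * ((N - 4 - P.kap) / 4) - 1) + 3 * (P.kap + 1)

/-- Positivity at `z = 0` of a family. -/
def GenEnd (N p q : ℝ) (P : GenPar) : Prop :=
  let o := endOrb N p q P.kap
  let C₀ := fun j => o.cBase j + ∑ r, ((P.endVal N p q).shift o).scalars o r * o.fldQ r j
  let D₀ := fun _ : Fin 14 => (0 : ℝ)
  0 < C₀ 0 ∧ 0 < C₀ 0 * C₀ 3 - ((C₀ 1 + C₀ 2) / 2) ^ 2 ∧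
    ∀ A B D Q : ℝ, 0 ≤ A → 0 ≤ B → D ^ 2 ≤ A * B → 0 ≤ Q → 0 < A + B + Q →
      let M₀ := ((p + 1) * (-2 * 0 + 2 * q * ((N - 4 - P.kap) / 4)) +
        (q + 1) * (2 * p * 0 - 2 * ((N - 4 - P.kap) / 4)) - (p + 1) * o.lam) / (q + 1)
      let la := fun j => C₀ j * o.lam - (q + 1) * D₀ j
      let mb := fun j => C₀ j * M₀ + (p + 1) * D₀ j
      0 ≤ elimN N p q C₀ la mb A D B 0 Q ∧
        (elimN N p q C₀ la mb A D B 0 Q = 0 → 0 < elimGap C₀ la mb A D B 0 Q)

/-- **The slab of dimension `n` from a family**: admitted parameters, positivity at `z = 0` and the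
signs along every orbit of the slab give the calibrations. -/
theorem slabCalib_of_gen {n : ℕ} (P : ℝ → ℝ → ℝ → GenPar)
    (hP : ∀ p q N α β : ℝ, 0 < q → q < p → 1 < p * q → IsCrit N p q →
      α = 2 * (p + 1) / (p * q - 1) → β = 2 * (q + 1) / (p * q - 1) → α + β = N - 2 →
      (n : ℝ) < N → N < (n : ℝ) + 1 / 8 →
      N - n < 2 * β ^ 2 * (α - β) ^ 2 / (N - 2) ^ 3 → α ≤ (n : ℝ) - 3 →
      (P N p q).Adm n N p q ∧ GenEnd N p q (P N p q) ∧
        ∀ (S : Set ℝ) (R x y s dx dy : ℝ → ℝ), IsOrbitFns N p q S R x y s dx dy →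
          ∀ z ∈ Ioc 0 ((p + 1) / (q + 1)),
            ∃ ν : ℝ, GenSigns N p q (P N p q).kap ((P N p q).num N (R z) (y z) z)
              ((P N p q).numW₁ z)
              ((P N p q).numG₁ N p q (R z) (x z) (y z) z (wFun N x y dx dy z)) ν (R z) (x z) (y z) z
              (s z) (wFun N x y dx dy z) (wFun₁ N R x y dx dy z)) :
    SlabCalib n := by
  intro p q N α β hq hqp hpq hc hα hβ hsum h1 h2 h3 h4
  obtain ⟨hA, hE, hS⟩ := hP p q N α β hq hqp hpq hc hα hβ hsum h1 h2 h3 h4
  obtain ⟨S, R, x, y, s, dx, dy, h⟩ := exists_orbitFns hc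
  obtain ⟨kap, r₁, r₂, k, C₀, D₀, L₀, o⟩ := OrbitCalib.of_gen (n := n) hc h (P N p q) hA.kap_low
    hA.kap_lt hA.kap_high hA.exp_one hA.exp_drift hA.c_pos (fun z hz => by
      obtain ⟨ν, hν⟩ := hS S R x y s dx dy h z hz
      exact block_of_genSigns hc h (P N p q) (h.cover hz) hν) hE
  exact ⟨S, R, x, y, s, dx, dy, kap, r₁, r₂, k, C₀, D₀, L₀, h, o⟩

end Vale.Agent.P100.Calib
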