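import Mathlib
import Vale.Agent.P100.Calib.SlabBridge
import Vale.Agent.P100.Calib.SlabGenPoint

/-!
# The functionals of the block on the data of a family with parameters

A change of the exponent adds a multiple of `kapFun`; the data split into the base and the fields,
as for the family of dimension five.
-/

set_option linter.unusedVariables false
set_option linter.unusedSimpArgs false

namespace Vale.Agent.P100.Calib.Bridge

open Orb

variable {N p q kap a b c e2 G G' R x y z s w w₁ e k : ℝ} {φ : Fun3}

/-- A functional on a pair with the exponent `kap`. -/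
noncomputable def pairK (φ : Fun3) (N p q kap x y : ℝ) (f f' : Fin 14 → ℝ) : ℝ :=
  φ f (fun j => f j * lamR N p q kap x y - (q + 1) * f' j)
    (fun j => f j * muR N p q kap x y + (p + 1) * f' j)

/-- The part of a functional that the exponent multiplies. -/
noncomputable def kapFun (φ : Fun3) (a b x y : ℝ) (f : Fin 14 → ℝ) : ℝ :=
  -((1 - a - b) / 2) / (b * y - a * x) * φ 0 (fun j => f j * y) (fun j => -(f j * x))

theorem kapFun_add (h : IsLin φ) (f g : Fin 14 → ℝ) :
    kapFun φ a b x y (f + g) = kapFun φ a b x y f + kapFun φ a b x y g := by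
  simp only [kapFun, ← mul_add, ← h.add, add_zero]
  congr 2 <;> funext j <;> simp only [Pi.add_apply] <;> ring

theorem kapFun_smul (h : IsLin φ) (t : ℝ) (f : Fin 14 → ℝ) :
    kapFun φ a b x y (t • f) = t * kapFun φ a b x y f := by
  have e : φ 0 (fun j => (t • f) j * y) (fun j => -((t • f) j * x)) =
      t * φ 0 (fun j => f j * y) (fun j => -(f j * x)) := by
    rw [← h.smul, smul_zero]
    congr 1 <;> funext j <;> simp only [Pi.smul_apply, smul_eq_mul] <;> ring
  simp only [kapFun, e]
  ring

/-- A change of the exponent. -/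
theorem pairK_eq (hφ : IsLin φ) (h : Pt N p q a b R x y z s w) (f f' : Fin 14 → ℝ) :
    pairK φ N p q kap x y f f' =
      pairFun φ N p q x y f f' + (kap + 1) * kapFun φ a b x y f := by
  obtain ⟨hp, hq, hN, a0, b0, M0, x0, y0, s0, D0, E0, -⟩ := h
  have ha : 1 / (p + 1) = a := by rw [hp]; simp
  have hb : 1 / (q + 1) = b := by rw [hq]; simp
  obtain ⟨k₀, hk₀⟩ : ∃ k₀, k₀ = (kap + 1) * (-((1 - a - b) / 2) / (b * y - a * x)) := ⟨_, rfl⟩
  have el : lamR N p q kap x y = lamR N p q (-1) x y + k₀ * y := by
    have e : N * (a * x - b * y) = -(2 * (b * y - a * x) / (1 - a - b)) := by rw [hN]; ring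
    simp only [lamR, ha, hb, e, hk₀, div_neg]
    generalize b * y - a * x = E at E0
    generalize 1 - a - b = M at M0
    field_simp
    ring
  have em : muR N p q kap x y = muR N p q (-1) x y + k₀ * -x := by
    have e : N * (a * x - b * y) = -(2 * (b * y - a * x) / (1 - a - b)) := by rw [hN]; ring
    simp only [muR, ha, hb, e, hk₀, div_neg]
    generalize b * y - a * x = E at E0
    generalize 1 - a - b = M at M0
    field_simp
    ring
  simp only [kapFun, pairFun, pairK]
  rw [← mul_assoc, ← hk₀, ← hφ.smul, ← hφ.add]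
  congr 1
  · simp
  · funext j; simp only [Pi.add_apply, Pi.smul_apply, smul_eq_mul, el]; ring
  · funext j; simp only [Pi.add_apply, Pi.smul_apply, smul_eq_mul, em]; ring

/-- The five numbers at a point: `c`, `N w = e`, `v = e2`, `g = G`. -/
noncomputable def numAt (N c e e2 G : ℝ) : TailVal := ⟨c, e / N, 0, e2, G⟩

/-- The relations of the orbit at a point. -/
structure GFam (N p q a b R x y z s w : ℝ) : Prop extends Pt N p q a b R x y z s w where
  quad : s * (a * z + b) = 2 * N * (a * x + b * y) - 4 * R * x * y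
  Z0 : a * z + b ≠ 0

theorem GFam.sol (h : GFam N p q a b R x y z s w) :
    dxR N p q x y z w = solX a b x y s w ∧ dyR N p q x y z w = solY a b x y s w :=
  (Fam.mk h.toPt h.quad h.Z0 rfl rfl).sol

/-- The family splits into parts. -/
theorem GFam.pair_gen (h : GFam N p q a b R x y z s w) (hφ : IsLin φ) :
    let X := solX a b x y s w
    let Y := solY a b x y s w
    let fA := fldA N p q R x y s w
    let fE := fldE N p q R x y s w
    let fG := fldG N p q R x y s w
    let fW := regFld N p q R x y s w 6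
    pairK φ N p q kap x y (genC N p q (numAt N c e e2 G) R x y s w)
        (genD N p q (numAt N c e e2 G) (k / N) G' R x y z s w w₁) =
      pairFun φ N p q x y (baseVec N p q) 0 +
        c * (pairFun φ N p q x y (regFld N p q R x y s w 0) (regVel N p q R x y z s w w₁ 0) +
          cU a b x y s w * pairFun φ N p q x y fA (velA N p q R x y z s w w₁) +
          cU' a b x y s w w₁ X Y * pairFun φ N p q x y 0 fA +
          (a + b) * cU a b x y s w * pairFun φ N p q x y fE (velE N p q R x y z s w w₁) +
          (a + b) * cU' a b x y s w w₁ X Y * pairFun φ N p q x y 0 fE +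
          cG a b x y s w * pairFun φ N p q x y fG (velG N p q R x y z s w w₁) +
          cG' a b x y s w w₁ X Y * pairFun φ N p q x y 0 fG) +
        e2 * pairFun φ N p q x y fE (velE N p q R x y z s w w₁) +
        (a * b * wP a b x y s e * pairFun φ N p q x y fG (velG N p q R x y z s w w₁) +
          a * b * wP' a b x y s e k X Y * pairFun φ N p q x y 0 fG -
          wV a b x y s e * pairFun φ N p q x y fE (velE N p q R x y z s w w₁) -
          wV' a b x y s e k X Y * pairFun φ N p q x y 0 fE +
          wP a b x y s e * pairFun φ N p q x y fW (regVel N p q R x y z s w w₁ 6) +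
          wP' a b x y s e k X Y * pairFun φ N p q x y 0 fW) +
        G * pairFun φ N p q x y fG (velG N p q R x y z s w w₁) +
        G' * pairFun φ N p q x y 0 fG +
        (kap + 1) * (kapFun φ a b x y (baseVec N p q) +
          c * (kapFun φ a b x y (regFld N p q R x y s w 0) +
            cU a b x y s w * kapFun φ a b x y fA + (a + b) * cU a b x y s w * kapFun φ a b x y fE +
            cG a b x y s w * kapFun φ a b x y fG) +
          e2 * kapFun φ a b x y fE +
          (a * b * wP a b x y s e * kapFun φ a b x y fG - wV a b x y s e * kapFun φ a b x y fE +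
            wP a b x y s e * kapFun φ a b x y fW) +
          G * kapFun φ a b x y fG) := by
  obtain ⟨eX, eY⟩ := h.sol
  obtain ⟨-, -, er⟩ := h.toPt.lam_eq
  have hpt := h.toPt
  obtain ⟨⟨hp, hq, hN, a0, b0, M0, x0, y0, s0, D0, E0, -⟩, -, -⟩ := h
  intro X Y fA fE fG fW
  rw [pairK_eq hφ hpt]
  have ha : 1 / (p + 1) = a := by rw [hp]; simp
  have hb : 1 / (q + 1) = b := by rw [hq]; simp
  obtain ⟨D, hDd⟩ : ∃ D, D = a * x + b * y := ⟨_, rfl⟩
  obtain ⟨E, hEd⟩ : ∃ E, E = b * y - a * x := ⟨_, rfl⟩
  rw [← hDd] at D0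
  rw [← hEd] at E0
  obtain ⟨u, hu⟩ : ∃ u, u = c * cU a b x y s w := ⟨_, rfl⟩
  obtain ⟨u', hu'⟩ : ∃ u', u' = c * cU' a b x y s w w₁ X Y := ⟨_, rfl⟩
  obtain ⟨ε, hε⟩ : ∃ ε, ε = e2 + (a + b) * u - wV a b x y s e := ⟨_, rfl⟩
  obtain ⟨ε', hε'⟩ : ∃ ε', ε' = (a + b) * u' - wV' a b x y s e k X Y := ⟨_, rfl⟩
  obtain ⟨γ, hγ⟩ : ∃ γ, γ = G + c * cG a b x y s w + a * b * wP a b x y s e := ⟨_, rfl⟩
  obtain ⟨γ', hγ'⟩ : ∃ γ', γ' = G' + c * cG' a b x y s w w₁ X Y + a * b * wP' a b x y s e k X Y :=
    ⟨_, rfl⟩
  obtain ⟨π, hπ⟩ : ∃ π, π = wP a b x y s e := ⟨_, rfl⟩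
  obtain ⟨π', hπ'⟩ : ∃ π', π' = wP' a b x y s e k X Y := ⟨_, rfl⟩
  have hreg : genReg N p q (numAt N c e e2 G) x y s w =
      ![c, a * u + y / (a * x + b * y) * γ, b * u - x / (a * x + b * y) * γ, a * ε, b * ε, 0, π] := by
    funext r
    fin_cases r <;> simp only [genReg, famReg, regShift, numAt, sigR, ha, hb, hN, one_div_div, hu, hε,
      hγ, hπ, cU, cG, sgm, wV, wP, Fin.reduceFinMk, Matrix.cons_val, ← hDd, ← hEd]
    all_goals (field_simp; try (subst hDd hEd; ring))
  have hdk : genDk N p q (numAt N c e e2 G) (k / N) G' x y z s w w₁ =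
      ![0, a * u' + (rhoR p q x y * Y * (a * x + b * y) -
            y * (a * (rhoR p q x y * X) + b * (rhoR p q x y * Y))) / (a * x + b * y) ^ 2 * γ +
          y / (a * x + b * y) * γ',
        b * u' - ((rhoR p q x y * X * (a * x + b * y) -
            x * (a * (rhoR p q x y * X) + b * (rhoR p q x y * Y))) / (a * x + b * y) ^ 2 * γ +
          x / (a * x + b * y) * γ'), a * ε', b * ε', 0, π'] := by
    have hq' : q = 1 / b - 1 := hq
    have eσ : 2 * (solY a b x y s w - solX a b x y s w) +
        ((s * (y - (1 / b - 1) * x) * w + s * w₁) * (x * y) -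
          s * w * (solX a b x y s w * y + x * solY a b x y s w)) / (2 * (x * y) ^ 2) =
        sgm' b x y s w w₁ (solX a b x y s w) (solY a b x y s w) := rfl
    have eσ₀ : sigR x y s w = sgm x y s w := rfl
    funext r
    fin_cases r <;>
      simp only [genDk, numAt, eσ₀, eX, eY, er, ha, hb, Fin.reduceFinMk, Matrix.cons_val, X, Y]
    all_goals
      (try simp only [hN, one_div_div, hu', hε', hγ, hγ', hπ',
        cU, cU', cG, cG', wV, wV', wP, wP', hq', X, Y])
      (try simp only [eσ, ← hDd, ← hEd])
    all_goals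
      generalize sgm' b x y s w w₁ (solX a b x y s w) (solY a b x y s w) = σ₁
      generalize sgm x y s w = σ
      generalize solX a b x y s w = Xv
      generalize solY a b x y s w = Yv
      field_simp
      try (subst hDd hEd; ring)
  have hC : genC N p q (numAt N c e e2 G) R x y s w = baseVec N p q +
      (c • regFld N p q R x y s w 0 + u • fA + ε • fE + γ • fG + π • fW) := by
    funext j
    simp only [genC, hreg, baseVec, fA, fE, fG, fW, fldA, fldE, fldG, ha, hb, Fin.sum_univ_seven,
      Pi.add_apply, Pi.sub_apply, Pi.smul_apply, smul_eq_mul, Matrix.cons_val]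
    ring
  have hD : genD N p q (numAt N c e e2 G) (k / N) G' R x y z s w w₁ = 0 +
      (((0 : ℝ) • regFld N p q R x y s w 0 + c • regVel N p q R x y z s w w₁ 0) +
        (u' • fA + u • velA N p q R x y z s w w₁) + (ε' • fE + ε • velE N p q R x y z s w w₁) +
        (γ' • fG + γ • velG N p q R x y z s w w₁) +
        (π' • fW + π • regVel N p q R x y z s w w₁ 6)) := by
    funext j
    simp only [genD, hreg, hdk, fA, fE, fG, fW, fldA, velA, fldE, velE, fldG, velG, ha, hb, eX, eY,
      X, Y, Fin.sum_univ_seven, Pi.add_apply, Pi.sub_apply, Pi.smul_apply, Pi.zero_apply,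
      smul_eq_mul, Matrix.cons_val]
    ring
  rw [hC, hD, pairFun_add hφ, pairFun_add hφ, pairFun_add hφ, pairFun_add hφ, pairFun_add hφ,
    pairFun_term hφ, pairFun_term hφ, pairFun_term hφ, pairFun_term hφ, pairFun_term hφ,
    kapFun_add hφ, kapFun_add hφ, kapFun_add hφ, kapFun_add hφ, kapFun_add hφ,
    kapFun_smul hφ, kapFun_smul hφ, kapFun_smul hφ, kapFun_smul hφ, kapFun_smul hφ,
    hu, hu', hε, hε', hγ, hγ', hπ, hπ']
  rw [hu, hu']
  ring

end Vale.Agent.P100.Calib.Bridge
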