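import Mathlib
import Vale.Agent.P100.Calib.SlabGenBridgeCore

/-!
# The part of the exponent on the fields of a family
-/

set_option linter.unusedVariables false
set_option linter.unusedSimpArgs false
set_option linter.unusedTactic false
set_option linter.unreachableTactic false

namespace Vale.Agent.P100.Calib.Bridge

open Orb

variable {N p q a b R x y z s w : ℝ}

theorem kap_gM (h : Pt N p q a b R x y z s w) (f : Fin 14 → ℝ) :
    kapFun (gM (⟨a, b, x, y⟩ : Frame)) a b x y f = 0 := by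
  obtain ⟨rfl, rfl, rfl, a0, b0, M0, x0, y0, s0, D0, E0, hz⟩ := h
  subst hz
  obtain ⟨D, hD⟩ : ∃ D, D = a * x + b * y := ⟨_, rfl⟩
  obtain ⟨E, hE⟩ : ∃ E, E = b * y - a * x := ⟨_, rfl⟩
  rw [← hD] at D0
  rw [← hE] at E0
  simp only [kapFun, gM, gE, gG, hM, hEf, hG, lMM, lME, lMG, lEE, lEG, lGG, lLG, crossPQ,
    natLin, NatCoef.of, blockLin, freePart, linU, linV, Frame.pA, Frame.pC, Frame.pB, Frame.rM,
    Frame.rE, Frame.rG, Frame.D, Pi.zero_apply, Matrix.cons_val, sub_add_cancel, one_div_one_div,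
    one_div_div, mul_one, one_mul, mul_zero, zero_mul, add_zero, zero_add, sub_zero, zero_sub,
    neg_zero, zero_div, ← hD, ← hE]
  all_goals (try field_simp)
  all_goals (try simp only [← hD, ← hE])
  all_goals (try field_simp)
  all_goals
    subst hD hE
    (try ring)

/-- The linear form of `kapFun` of `gE`. -/
noncomputable def kgEL (a b x y : ℝ) (f : Fin 14 → ℝ) : ℝ :=
    ((x ^ 2 * (a + b - 1))) / (2 * (a * x + b * y) ^ 2 * (b * y - a * x)) * f 0 +
    ((x * y * (a + b - 1))) / (2 * (a * x + b * y) ^ 2 * (b * y - a * x)) * f 1 +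
    ((x * y * (a + b - 1))) / (2 * (a * x + b * y) ^ 2 * (b * y - a * x)) * f 2 +
    ((y ^ 2 * (a + b - 1))) / (2 * (a * x + b * y) ^ 2 * (b * y - a * x)) * f 3

theorem kap_gE (h : Pt N p q a b R x y z s w) (f : Fin 14 → ℝ) :
    kapFun (gE (⟨a, b, x, y⟩ : Frame)) a b x y f = kgEL a b x y f := by
  obtain ⟨rfl, rfl, rfl, a0, b0, M0, x0, y0, s0, D0, E0, hz⟩ := h
  subst hz
  obtain ⟨D, hD⟩ : ∃ D, D = a * x + b * y := ⟨_, rfl⟩
  obtain ⟨E, hE⟩ : ∃ E, E = b * y - a * x := ⟨_, rfl⟩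
  rw [← hD] at D0
  rw [← hE] at E0
  simp only [kapFun, kgEL, gM, gE, gG, hM, hEf, hG, lMM, lME, lMG, lEE, lEG, lGG, lLG, crossPQ,
    natLin, NatCoef.of, blockLin, freePart, linU, linV, Frame.pA, Frame.pC, Frame.pB, Frame.rM,
    Frame.rE, Frame.rG, Frame.D, Pi.zero_apply, Matrix.cons_val, sub_add_cancel, one_div_one_div,
    one_div_div, mul_one, one_mul, mul_zero, zero_mul, add_zero, zero_add, sub_zero, zero_sub,
    neg_zero, zero_div, ← hD, ← hE]
  all_goals (try field_simp)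
  all_goals (try simp only [← hD, ← hE])
  all_goals (try field_simp)
  all_goals
    subst hD hE
    (try ring)

/-- The linear form of `kapFun` of `gG`. -/
noncomputable def kgGL (a b x y : ℝ) (f : Fin 14 → ℝ) : ℝ :=
    ((x * (a * b + b ^ 2 - b))) / (2 * (a * x + b * y) ^ 2 * (b * y - a * x)) * f 0 +
    ((x * (-a ^ 2 - a * b + a))) / (2 * (a * x + b * y) ^ 2 * (b * y - a * x)) * f 1 +
    ((y * (a * b + b ^ 2 - b))) / (2 * (a * x + b * y) ^ 2 * (b * y - a * x)) * f 2 +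
    ((y * (-a ^ 2 - a * b + a))) / (2 * (a * x + b * y) ^ 2 * (b * y - a * x)) * f 3

theorem kap_gG (h : Pt N p q a b R x y z s w) (f : Fin 14 → ℝ) :
    kapFun (gG (⟨a, b, x, y⟩ : Frame)) a b x y f = kgGL a b x y f := by
  obtain ⟨rfl, rfl, rfl, a0, b0, M0, x0, y0, s0, D0, E0, hz⟩ := h
  subst hz
  obtain ⟨D, hD⟩ : ∃ D, D = a * x + b * y := ⟨_, rfl⟩
  obtain ⟨E, hE⟩ : ∃ E, E = b * y - a * x := ⟨_, rfl⟩
  rw [← hD] at D0
  rw [← hE] at E0
  simp only [kapFun, kgGL, gM, gE, gG, hM, hEf, hG, lMM, lME, lMG, lEE, lEG, lGG, lLG, crossPQ,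
    natLin, NatCoef.of, blockLin, freePart, linU, linV, Frame.pA, Frame.pC, Frame.pB, Frame.rM,
    Frame.rE, Frame.rG, Frame.D, Pi.zero_apply, Matrix.cons_val, sub_add_cancel, one_div_one_div,
    one_div_div, mul_one, one_mul, mul_zero, zero_mul, add_zero, zero_add, sub_zero, zero_sub,
    neg_zero, zero_div, ← hD, ← hE]
  all_goals (try field_simp)
  all_goals (try simp only [← hD, ← hE])
  all_goals (try field_simp)
  all_goals
    subst hD hE
    (try ring)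

theorem kap_hM (h : Pt N p q a b R x y z s w) (f : Fin 14 → ℝ) :
    kapFun (hM (⟨a, b, x, y⟩ : Frame)) a b x y f = 0 := by
  obtain ⟨rfl, rfl, rfl, a0, b0, M0, x0, y0, s0, D0, E0, hz⟩ := h
  subst hz
  obtain ⟨D, hD⟩ : ∃ D, D = a * x + b * y := ⟨_, rfl⟩
  obtain ⟨E, hE⟩ : ∃ E, E = b * y - a * x := ⟨_, rfl⟩
  rw [← hD] at D0
  rw [← hE] at E0
  simp only [kapFun, gM, gE, gG, hM, hEf, hG, lMM, lME, lMG, lEE, lEG, lGG, lLG, crossPQ,
    natLin, NatCoef.of, blockLin, freePart, linU, linV, Frame.pA, Frame.pC, Frame.pB, Frame.rM,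
    Frame.rE, Frame.rG, Frame.D, Pi.zero_apply, Matrix.cons_val, sub_add_cancel, one_div_one_div,
    one_div_div, mul_one, one_mul, mul_zero, zero_mul, add_zero, zero_add, sub_zero, zero_sub,
    neg_zero, zero_div, ← hD, ← hE]
  all_goals (try field_simp)
  all_goals (try simp only [← hD, ← hE])
  all_goals (try field_simp)
  all_goals
    subst hD hE
    (try ring)

/-- The linear form of `kapFun` of `hEf`. -/
noncomputable def khEfL (a b x y : ℝ) (f : Fin 14 → ℝ) : ℝ :=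
    ((x * (a * b + b ^ 2 - b))) / (2 * (a * x + b * y) ^ 2 * (b * y - a * x)) * f 0 +
    ((y * (a * b + b ^ 2 - b))) / (2 * (a * x + b * y) ^ 2 * (b * y - a * x)) * f 1 +
    ((x * (-a ^ 2 - a * b + a))) / (2 * (a * x + b * y) ^ 2 * (b * y - a * x)) * f 2 +
    ((y * (-a ^ 2 - a * b + a))) / (2 * (a * x + b * y) ^ 2 * (b * y - a * x)) * f 3

theorem kap_hEf (h : Pt N p q a b R x y z s w) (f : Fin 14 → ℝ) :
    kapFun (hEf (⟨a, b, x, y⟩ : Frame)) a b x y f = khEfL a b x y f := by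
  obtain ⟨rfl, rfl, rfl, a0, b0, M0, x0, y0, s0, D0, E0, hz⟩ := h
  subst hz
  obtain ⟨D, hD⟩ : ∃ D, D = a * x + b * y := ⟨_, rfl⟩
  obtain ⟨E, hE⟩ : ∃ E, E = b * y - a * x := ⟨_, rfl⟩
  rw [← hD] at D0
  rw [← hE] at E0
  simp only [kapFun, khEfL, gM, gE, gG, hM, hEf, hG, lMM, lME, lMG, lEE, lEG, lGG, lLG, crossPQ,
    natLin, NatCoef.of, blockLin, freePart, linU, linV, Frame.pA, Frame.pC, Frame.pB, Frame.rM,
    Frame.rE, Frame.rG, Frame.D, Pi.zero_apply, Matrix.cons_val, sub_add_cancel, one_div_one_div,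
    one_div_div, mul_one, one_mul, mul_zero, zero_mul, add_zero, zero_add, sub_zero, zero_sub,
    neg_zero, zero_div, ← hD, ← hE]
  all_goals (try field_simp)
  all_goals (try simp only [← hD, ← hE])
  all_goals (try field_simp)
  all_goals
    subst hD hE
    (try ring)

/-- The linear form of `kapFun` of `hG`. -/
noncomputable def khGL (a b x y : ℝ) (f : Fin 14 → ℝ) : ℝ :=
    (((a * b ^ 2 + b ^ 3 - b ^ 2))) / (2 * (a * x + b * y) ^ 2 * (b * y - a * x)) * f 0 +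
    (((-a ^ 2 * b - a * b ^ 2 + a * b))) / (2 * (a * x + b * y) ^ 2 * (b * y - a * x)) * f 1 +
    (((-a ^ 2 * b - a * b ^ 2 + a * b))) / (2 * (a * x + b * y) ^ 2 * (b * y - a * x)) * f 2 +
    (((a ^ 3 + a ^ 2 * b - a ^ 2))) / (2 * (a * x + b * y) ^ 2 * (b * y - a * x)) * f 3

theorem kap_hG (h : Pt N p q a b R x y z s w) (f : Fin 14 → ℝ) :
    kapFun (hG (⟨a, b, x, y⟩ : Frame)) a b x y f = khGL a b x y f := by
  obtain ⟨rfl, rfl, rfl, a0, b0, M0, x0, y0, s0, D0, E0, hz⟩ := h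
  subst hz
  obtain ⟨D, hD⟩ : ∃ D, D = a * x + b * y := ⟨_, rfl⟩
  obtain ⟨E, hE⟩ : ∃ E, E = b * y - a * x := ⟨_, rfl⟩
  rw [← hD] at D0
  rw [← hE] at E0
  simp only [kapFun, khGL, gM, gE, gG, hM, hEf, hG, lMM, lME, lMG, lEE, lEG, lGG, lLG, crossPQ,
    natLin, NatCoef.of, blockLin, freePart, linU, linV, Frame.pA, Frame.pC, Frame.pB, Frame.rM,
    Frame.rE, Frame.rG, Frame.D, Pi.zero_apply, Matrix.cons_val, sub_add_cancel, one_div_one_div,
    one_div_div, mul_one, one_mul, mul_zero, zero_mul, add_zero, zero_add, sub_zero, zero_sub,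
    neg_zero, zero_div, ← hD, ← hE]
  all_goals (try field_simp)
  all_goals (try simp only [← hD, ← hE])
  all_goals (try field_simp)
  all_goals
    subst hD hE
    (try ring)

theorem kap_lMM (h : Pt N p q a b R x y z s w) (f : Fin 14 → ℝ) :
    kapFun (lMM (⟨a, b, x, y⟩ : Frame) N p q) a b x y f = 0 := by
  obtain ⟨rfl, rfl, rfl, a0, b0, M0, x0, y0, s0, D0, E0, hz⟩ := h
  subst hz
  obtain ⟨D, hD⟩ : ∃ D, D = a * x + b * y := ⟨_, rfl⟩
  obtain ⟨E, hE⟩ : ∃ E, E = b * y - a * x := ⟨_, rfl⟩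
  rw [← hD] at D0
  rw [← hE] at E0
  simp only [kapFun, gM, gE, gG, hM, hEf, hG, lMM, lME, lMG, lEE, lEG, lGG, lLG, crossPQ,
    natLin, NatCoef.of, blockLin, freePart, linU, linV, Frame.pA, Frame.pC, Frame.pB, Frame.rM,
    Frame.rE, Frame.rG, Frame.D, Pi.zero_apply, Matrix.cons_val, sub_add_cancel, one_div_one_div,
    one_div_div, mul_one, one_mul, mul_zero, zero_mul, add_zero, zero_add, sub_zero, zero_sub,
    neg_zero, zero_div, ← hD, ← hE]
  all_goals (try field_simp)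
  all_goals (try simp only [← hD, ← hE])
  all_goals (try field_simp)
  all_goals
    subst hD hE
    (try ring)

/-- The linear form of `kapFun` of `lME`. -/
noncomputable def klMEL (a b x y : ℝ) (f : Fin 14 → ℝ) : ℝ :=
    ((x ^ 3 * (a ^ 2 + 2 * a * b - 2 * a + b ^ 2 - 2 * b + 1))) / (4 * (a * x + b * y) ^ 3 * (b *
    y - a * x)) * f 0 +
    ((x ^ 2 * y * (a ^ 2 + 2 * a * b - 2 * a + b ^ 2 - 2 * b + 1))) / (4 * (a * x + b * y) ^ 3 *
    (b * y - a * x)) * f 1 +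
    ((x * y ^ 2 * (a ^ 2 + 2 * a * b - 2 * a + b ^ 2 - 2 * b + 1))) / (4 * (a * x + b * y) ^ 3 *
    (b * y - a * x)) * f 2 +
    ((y ^ 3 * (a ^ 2 + 2 * a * b - 2 * a + b ^ 2 - 2 * b + 1))) / (4 * (a * x + b * y) ^ 3 * (b *
    y - a * x)) * f 3 +
    ((x ^ 3 * (a + b - 1))) / (2 * (a * x + b * y) ^ 3 * (b * y - a * x)) * f 4 +
    ((x ^ 2 * y * (a + b - 1))) / (2 * (a * x + b * y) ^ 3 * (b * y - a * x)) * f 5 +
    ((x ^ 2 * y * (a + b - 1))) / (2 * (a * x + b * y) ^ 3 * (b * y - a * x)) * f 6 +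
    ((x * y ^ 2 * (a + b - 1))) / (2 * (a * x + b * y) ^ 3 * (b * y - a * x)) * f 7 +
    ((x * y ^ 2 * (a + b - 1))) / (2 * (a * x + b * y) ^ 3 * (b * y - a * x)) * f 8 +
    ((y ^ 3 * (a + b - 1))) / (2 * (a * x + b * y) ^ 3 * (b * y - a * x)) * f 9

theorem kap_lME (h : Pt N p q a b R x y z s w) (f : Fin 14 → ℝ) :
    kapFun (lME (⟨a, b, x, y⟩ : Frame) N p q) a b x y f = klMEL a b x y f := by
  obtain ⟨rfl, rfl, rfl, a0, b0, M0, x0, y0, s0, D0, E0, hz⟩ := h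
  subst hz
  obtain ⟨D, hD⟩ : ∃ D, D = a * x + b * y := ⟨_, rfl⟩
  obtain ⟨E, hE⟩ : ∃ E, E = b * y - a * x := ⟨_, rfl⟩
  rw [← hD] at D0
  rw [← hE] at E0
  simp only [kapFun, klMEL, gM, gE, gG, hM, hEf, hG, lMM, lME, lMG, lEE, lEG, lGG, lLG, crossPQ,
    natLin, NatCoef.of, blockLin, freePart, linU, linV, Frame.pA, Frame.pC, Frame.pB, Frame.rM,
    Frame.rE, Frame.rG, Frame.D, Pi.zero_apply, Matrix.cons_val, sub_add_cancel, one_div_one_div,
    one_div_div, mul_one, one_mul, mul_zero, zero_mul, add_zero, zero_add, sub_zero, zero_sub,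
    neg_zero, zero_div, ← hD, ← hE]
  all_goals (try field_simp)
  all_goals (try simp only [← hD, ← hE])
  all_goals (try field_simp)
  all_goals
    subst hD hE
    (try ring)

/-- The linear form of `kapFun` of `lMG`. -/
noncomputable def klMGL (a b x y : ℝ) (f : Fin 14 → ℝ) : ℝ :=
    ((x ^ 2 * (a ^ 2 * b + 2 * a * b ^ 2 - 2 * a * b + b ^ 3 - 2 * b ^ 2 + b))) / (4 * (a * x + b
    * y) ^ 3 * (b * y - a * x)) * f 0 +
    ((x ^ 2 * (-a ^ 3 - 2 * a ^ 2 * b + 2 * a ^ 2 - a * b ^ 2 + 2 * a * b - a))) / (4 * (a * x + b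
    * y) ^ 3 * (b * y - a * x)) * f 1 +
    ((y ^ 2 * (a ^ 2 * b + 2 * a * b ^ 2 - 2 * a * b + b ^ 3 - 2 * b ^ 2 + b))) / (4 * (a * x + b
    * y) ^ 3 * (b * y - a * x)) * f 2 +
    ((y ^ 2 * (-a ^ 3 - 2 * a ^ 2 * b + 2 * a ^ 2 - a * b ^ 2 + 2 * a * b - a))) / (4 * (a * x + b
    * y) ^ 3 * (b * y - a * x)) * f 3 +
    ((x ^ 2 * (a * b + b ^ 2 - b))) / (2 * (a * x + b * y) ^ 3 * (b * y - a * x)) * f 4 +
    ((x ^ 2 * (-a ^ 2 - a * b + a))) / (2 * (a * x + b * y) ^ 3 * (b * y - a * x)) * f 5 +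
    ((x * y * (a * b + b ^ 2 - b))) / (2 * (a * x + b * y) ^ 3 * (b * y - a * x)) * f 6 +
    ((x * y * (-a ^ 2 - a * b + a))) / (2 * (a * x + b * y) ^ 3 * (b * y - a * x)) * f 7 +
    ((y ^ 2 * (a * b + b ^ 2 - b))) / (2 * (a * x + b * y) ^ 3 * (b * y - a * x)) * f 8 +
    ((y ^ 2 * (-a ^ 2 - a * b + a))) / (2 * (a * x + b * y) ^ 3 * (b * y - a * x)) * f 9

theorem kap_lMG (h : Pt N p q a b R x y z s w) (f : Fin 14 → ℝ) :
    kapFun (lMG (⟨a, b, x, y⟩ : Frame) N p q) a b x y f = klMGL a b x y f := by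
  obtain ⟨rfl, rfl, rfl, a0, b0, M0, x0, y0, s0, D0, E0, hz⟩ := h
  subst hz
  obtain ⟨D, hD⟩ : ∃ D, D = a * x + b * y := ⟨_, rfl⟩
  obtain ⟨E, hE⟩ : ∃ E, E = b * y - a * x := ⟨_, rfl⟩
  rw [← hD] at D0
  rw [← hE] at E0
  simp only [kapFun, klMGL, gM, gE, gG, hM, hEf, hG, lMM, lME, lMG, lEE, lEG, lGG, lLG, crossPQ,
    natLin, NatCoef.of, blockLin, freePart, linU, linV, Frame.pA, Frame.pC, Frame.pB, Frame.rM,
    Frame.rE, Frame.rG, Frame.D, Pi.zero_apply, Matrix.cons_val, sub_add_cancel, one_div_one_div,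
    one_div_div, mul_one, one_mul, mul_zero, zero_mul, add_zero, zero_add, sub_zero, zero_sub,
    neg_zero, zero_div, ← hD, ← hE]
  all_goals (try field_simp)
  all_goals (try simp only [← hD, ← hE])
  all_goals (try field_simp)
  all_goals
    subst hD hE
    (try ring)

/-- The linear form of `kapFun` of `lEE`. -/
noncomputable def klEEL (a b x y : ℝ) (f : Fin 14 → ℝ) : ℝ :=
    ((x ^ 2 * (a ^ 2 * b + 2 * a * b ^ 2 - 2 * a * b + b ^ 3 - 2 * b ^ 2 + b))) / (2 * (a * x + b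
    * y) ^ 3 * (b * y - a * x)) * f 0 +
    ((x * y * (a ^ 2 * b + 2 * a * b ^ 2 - 2 * a * b + b ^ 3 - 2 * b ^ 2 + b))) / (2 * (a * x + b
    * y) ^ 3 * (b * y - a * x)) * f 1 +
    ((x * y * (-a ^ 3 - 2 * a ^ 2 * b + 2 * a ^ 2 - a * b ^ 2 + 2 * a * b - a))) / (2 * (a * x + b
    * y) ^ 3 * (b * y - a * x)) * f 2 +
    ((y ^ 2 * (-a ^ 3 - 2 * a ^ 2 * b + 2 * a ^ 2 - a * b ^ 2 + 2 * a * b - a))) / (2 * (a * x + b
    * y) ^ 3 * (b * y - a * x)) * f 3 +
    ((x ^ 2 * (a * b + b ^ 2 - b))) / ((a * x + b * y) ^ 3 * (b * y - a * x)) * f 4 +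
    ((x * y * (a * b + b ^ 2 - b))) / ((a * x + b * y) ^ 3 * (b * y - a * x)) * f 5 +
    ((x * (a + b - 1))) / (2 * (a * x + b * y) ^ 3) * f 6 +
    ((y * (a + b - 1))) / (2 * (a * x + b * y) ^ 3) * f 7 +
    ((x * y * (-a ^ 2 - a * b + a))) / ((a * x + b * y) ^ 3 * (b * y - a * x)) * f 8 +
    ((y ^ 2 * (-a ^ 2 - a * b + a))) / ((a * x + b * y) ^ 3 * (b * y - a * x)) * f 9

theorem kap_lEE (h : Pt N p q a b R x y z s w) (f : Fin 14 → ℝ) :
    kapFun (lEE (⟨a, b, x, y⟩ : Frame) N p q) a b x y f = klEEL a b x y f := by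
  obtain ⟨rfl, rfl, rfl, a0, b0, M0, x0, y0, s0, D0, E0, hz⟩ := h
  subst hz
  obtain ⟨D, hD⟩ : ∃ D, D = a * x + b * y := ⟨_, rfl⟩
  obtain ⟨E, hE⟩ : ∃ E, E = b * y - a * x := ⟨_, rfl⟩
  rw [← hD] at D0
  rw [← hE] at E0
  simp only [kapFun, klEEL, gM, gE, gG, hM, hEf, hG, lMM, lME, lMG, lEE, lEG, lGG, lLG, crossPQ,
    natLin, NatCoef.of, blockLin, freePart, linU, linV, Frame.pA, Frame.pC, Frame.pB, Frame.rM,
    Frame.rE, Frame.rG, Frame.D, Pi.zero_apply, Matrix.cons_val, sub_add_cancel, one_div_one_div,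
    one_div_div, mul_one, one_mul, mul_zero, zero_mul, add_zero, zero_add, sub_zero, zero_sub,
    neg_zero, zero_div, ← hD, ← hE]
  all_goals (try field_simp)
  all_goals (try simp only [← hD, ← hE])
  all_goals (try field_simp)
  all_goals
    subst hD hE
    (try ring)

/-- The linear form of `kapFun` of `lEG`. -/
noncomputable def klEGL (a b x y : ℝ) (f : Fin 14 → ℝ) : ℝ :=
    ((x * (3 * a ^ 2 * b ^ 2 + 6 * a * b ^ 3 - 6 * a * b ^ 2 + 3 * b ^ 4 - 6 * b ^ 3 + 3 * b ^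
    2))) / (4 * (a * x + b * y) ^ 3 * (b * y - a * x)) * f 0 +
    ((y * (a ^ 2 * b ^ 2 + 2 * a * b ^ 3 - 2 * a * b ^ 2 + b ^ 4 - 2 * b ^ 3 + b ^ 2) + x * (-2 *
    a ^ 3 * b - 4 * a ^ 2 * b ^ 2 + 4 * a ^ 2 * b - 2 * a * b ^ 3 + 4 * a * b ^ 2 - 2 * a * b))) /
    (4 * (a * x + b * y) ^ 3 * (b * y - a * x)) * f 1 +
    ((y * (-2 * a ^ 3 * b - 4 * a ^ 2 * b ^ 2 + 4 * a ^ 2 * b - 2 * a * b ^ 3 + 4 * a * b ^ 2 - 2
    * a * b) + x * (a ^ 4 + 2 * a ^ 3 * b - 2 * a ^ 3 + a ^ 2 * b ^ 2 - 2 * a ^ 2 * b + a ^ 2))) /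
    (4 * (a * x + b * y) ^ 3 * (b * y - a * x)) * f 2 +
    ((y * (3 * a ^ 4 + 6 * a ^ 3 * b - 6 * a ^ 3 + 3 * a ^ 2 * b ^ 2 - 6 * a ^ 2 * b + 3 * a ^
    2))) / (4 * (a * x + b * y) ^ 3 * (b * y - a * x)) * f 3 +
    ((x * (3 * a * b ^ 2 + 3 * b ^ 3 - 3 * b ^ 2))) / (2 * (a * x + b * y) ^ 3 * (b * y - a * x))
    * f 4 +
    ((y * (a * b ^ 2 + b ^ 3 - b ^ 2) + x * (-2 * a ^ 2 * b - 2 * a * b ^ 2 + 2 * a * b))) / (2 *
    (a * x + b * y) ^ 3 * (b * y - a * x)) * f 5 +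
    ((y * (a * b ^ 2 + b ^ 3 - b ^ 2) + x * (-2 * a ^ 2 * b - 2 * a * b ^ 2 + 2 * a * b))) / (2 *
    (a * x + b * y) ^ 3 * (b * y - a * x)) * f 6 +
    ((y * (-2 * a ^ 2 * b - 2 * a * b ^ 2 + 2 * a * b) + x * (a ^ 3 + a ^ 2 * b - a ^ 2))) / (2 *
    (a * x + b * y) ^ 3 * (b * y - a * x)) * f 7 +
    ((y * (-2 * a ^ 2 * b - 2 * a * b ^ 2 + 2 * a * b) + x * (a ^ 3 + a ^ 2 * b - a ^ 2))) / (2 *
    (a * x + b * y) ^ 3 * (b * y - a * x)) * f 8 +
    ((y * (3 * a ^ 3 + 3 * a ^ 2 * b - 3 * a ^ 2))) / (2 * (a * x + b * y) ^ 3 * (b * y - a * x))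
    * f 9

theorem kap_lEG (h : Pt N p q a b R x y z s w) (f : Fin 14 → ℝ) :
    kapFun (lEG (⟨a, b, x, y⟩ : Frame) N p q) a b x y f = klEGL a b x y f := by
  obtain ⟨rfl, rfl, rfl, a0, b0, M0, x0, y0, s0, D0, E0, hz⟩ := h
  subst hz
  obtain ⟨D, hD⟩ : ∃ D, D = a * x + b * y := ⟨_, rfl⟩
  obtain ⟨E, hE⟩ : ∃ E, E = b * y - a * x := ⟨_, rfl⟩
  rw [← hD] at D0
  rw [← hE] at E0
  simp only [kapFun, klEGL, gM, gE, gG, hM, hEf, hG, lMM, lME, lMG, lEE, lEG, lGG, lLG, crossPQ,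
    natLin, NatCoef.of, blockLin, freePart, linU, linV, Frame.pA, Frame.pC, Frame.pB, Frame.rM,
    Frame.rE, Frame.rG, Frame.D, Pi.zero_apply, Matrix.cons_val, sub_add_cancel, one_div_one_div,
    one_div_div, mul_one, one_mul, mul_zero, zero_mul, add_zero, zero_add, sub_zero, zero_sub,
    neg_zero, zero_div, ← hD, ← hE]
  all_goals (try field_simp)
  all_goals (try simp only [← hD, ← hE])
  all_goals (try field_simp)
  all_goals
    subst hD hE
    (try ring)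

/-- The linear form of `kapFun` of `lGG`. -/
noncomputable def klGGL (a b x y : ℝ) (f : Fin 14 → ℝ) : ℝ :=
    (((a ^ 2 * b ^ 3 + 2 * a * b ^ 4 - 2 * a * b ^ 3 + b ^ 5 - 2 * b ^ 4 + b ^ 3))) / (4 * (a * x
    + b * y) ^ 3 * (b * y - a * x)) * f 0 +
    (((-a ^ 3 * b ^ 2 - 2 * a ^ 2 * b ^ 3 + 2 * a ^ 2 * b ^ 2 - a * b ^ 4 + 2 * a * b ^ 3 - a * b
    ^ 2))) / (4 * (a * x + b * y) ^ 3 * (b * y - a * x)) * f 1 +
    (((a ^ 4 * b + 2 * a ^ 3 * b ^ 2 - 2 * a ^ 3 * b + a ^ 2 * b ^ 3 - 2 * a ^ 2 * b ^ 2 + a ^ 2 *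
    b))) / (4 * (a * x + b * y) ^ 3 * (b * y - a * x)) * f 2 +
    (((-a ^ 5 - 2 * a ^ 4 * b + 2 * a ^ 4 - a ^ 3 * b ^ 2 + 2 * a ^ 3 * b - a ^ 3))) / (4 * (a * x
    + b * y) ^ 3 * (b * y - a * x)) * f 3 +
    (((a * b ^ 3 + b ^ 4 - b ^ 3))) / (2 * (a * x + b * y) ^ 3 * (b * y - a * x)) * f 4 +
    (((-a ^ 2 * b ^ 2 - a * b ^ 3 + a * b ^ 2))) / (2 * (a * x + b * y) ^ 3 * (b * y - a * x)) * f
    5 +
    (((-a ^ 2 * b ^ 2 - a * b ^ 3 + a * b ^ 2))) / (2 * (a * x + b * y) ^ 3 * (b * y - a * x)) * f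
    6 +
    (((a ^ 3 * b + a ^ 2 * b ^ 2 - a ^ 2 * b))) / (2 * (a * x + b * y) ^ 3 * (b * y - a * x)) * f
    7 +
    (((a ^ 3 * b + a ^ 2 * b ^ 2 - a ^ 2 * b))) / (2 * (a * x + b * y) ^ 3 * (b * y - a * x)) * f
    8 +
    (((-a ^ 4 - a ^ 3 * b + a ^ 3))) / (2 * (a * x + b * y) ^ 3 * (b * y - a * x)) * f 9

theorem kap_lGG (h : Pt N p q a b R x y z s w) (f : Fin 14 → ℝ) :
    kapFun (lGG (⟨a, b, x, y⟩ : Frame) N p q) a b x y f = klGGL a b x y f := by
  obtain ⟨rfl, rfl, rfl, a0, b0, M0, x0, y0, s0, D0, E0, hz⟩ := h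
  subst hz
  obtain ⟨D, hD⟩ : ∃ D, D = a * x + b * y := ⟨_, rfl⟩
  obtain ⟨E, hE⟩ : ∃ E, E = b * y - a * x := ⟨_, rfl⟩
  rw [← hD] at D0
  rw [← hE] at E0
  simp only [kapFun, klGGL, gM, gE, gG, hM, hEf, hG, lMM, lME, lMG, lEE, lEG, lGG, lLG, crossPQ,
    natLin, NatCoef.of, blockLin, freePart, linU, linV, Frame.pA, Frame.pC, Frame.pB, Frame.rM,
    Frame.rE, Frame.rG, Frame.D, Pi.zero_apply, Matrix.cons_val, sub_add_cancel, one_div_one_div,
    one_div_div, mul_one, one_mul, mul_zero, zero_mul, add_zero, zero_add, sub_zero, zero_sub,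
    neg_zero, zero_div, ← hD, ← hE]
  all_goals (try field_simp)
  all_goals (try simp only [← hD, ← hE])
  all_goals (try field_simp)
  all_goals
    subst hD hE
    (try ring)

/-- The linear form of `kapFun` of `lLG`. -/
noncomputable def klLGL (a b x y w R : ℝ) (f : Fin 14 → ℝ) : ℝ :=
    ((x * (a ^ 2 * b + 2 * a * b ^ 2 - 2 * a * b + b ^ 3 - 2 * b ^ 2 + b)) + w * R * ((-a ^ 2 * b
    - 2 * a * b ^ 2 + 2 * a * b - b ^ 3 + 2 * b ^ 2 - b))) / (4 * y * (a * x + b * y) * (b * y - a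
    * x)) * f 0 +
    ((x * (-a ^ 3 - 2 * a ^ 2 * b + 2 * a ^ 2 - a * b ^ 2 + 2 * a * b - a)) + w * R * ((a ^ 3 + 2
    * a ^ 2 * b - 2 * a ^ 2 + a * b ^ 2 - 2 * a * b + a))) / (4 * y * (a * x + b * y) * (b * y - a
    * x)) * f 1 +
    (((a ^ 2 * b + 2 * a * b ^ 2 - 2 * a * b + b ^ 3 - 2 * b ^ 2 + b))) / (4 * (a * x + b * y) *
    (b * y - a * x)) * f 2 +
    (((-a ^ 3 - 2 * a ^ 2 * b + 2 * a ^ 2 - a * b ^ 2 + 2 * a * b - a))) / (4 * (a * x + b * y) *
    (b * y - a * x)) * f 3 +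
    ((x * (a * b + b ^ 2 - b)) + w * R * ((-a * b - b ^ 2 + b))) / (2 * y * (a * x + b * y) * (b *
    y - a * x)) * f 10 +
    ((x * (-a ^ 2 - a * b + a)) + w * R * ((a ^ 2 + a * b - a))) / (2 * y * (a * x + b * y) * (b *
    y - a * x)) * f 11 +
    (((a * b + b ^ 2 - b))) / (2 * (a * x + b * y) * (b * y - a * x)) * f 12 +
    (((-a ^ 2 - a * b + a))) / (2 * (a * x + b * y) * (b * y - a * x)) * f 13

theorem kap_lLG (h : Pt N p q a b R x y z s w) (f : Fin 14 → ℝ) :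
    kapFun (lLG (⟨a, b, x, y⟩ : Frame) N p q z) a b x y f = klLGL a b x y w R f := by
  obtain ⟨rfl, rfl, rfl, a0, b0, M0, x0, y0, s0, D0, E0, hz⟩ := h
  subst hz
  obtain ⟨D, hD⟩ : ∃ D, D = a * x + b * y := ⟨_, rfl⟩
  obtain ⟨E, hE⟩ : ∃ E, E = b * y - a * x := ⟨_, rfl⟩
  rw [← hD] at D0
  rw [← hE] at E0
  simp only [kapFun, klLGL, gM, gE, gG, hM, hEf, hG, lMM, lME, lMG, lEE, lEG, lGG, lLG, crossPQ,
    natLin, NatCoef.of, blockLin, freePart, linU, linV, Frame.pA, Frame.pC, Frame.pB, Frame.rM,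
    Frame.rE, Frame.rG, Frame.D, Pi.zero_apply, Matrix.cons_val, sub_add_cancel, one_div_one_div,
    one_div_div, mul_one, one_mul, mul_zero, zero_mul, add_zero, zero_add, sub_zero, zero_sub,
    neg_zero, zero_div, ← hD, ← hE]
  all_goals (try field_simp)
  all_goals (try simp only [← hD, ← hE])
  all_goals (try field_simp)
  all_goals
    subst hD hE
    (try ring)

theorem kbase_gE (h : Pt N p q a b R x y z s w) :
    kapFun (gE (⟨a, b, x, y⟩ : Frame)) a b x y (baseVec N p q) =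
      (((a + b - 1))) / (2 * (b * y - a * x)) := by
  rw [kap_gE h]
  obtain ⟨rfl, rfl, rfl, a0, b0, M0, x0, y0, s0, D0, E0, hz⟩ := h
  subst hz
  obtain ⟨D, hD⟩ : ∃ D, D = a * x + b * y := ⟨_, rfl⟩
  obtain ⟨E, hE⟩ : ∃ E, E = b * y - a * x := ⟨_, rfl⟩
  rw [← hD] at D0
  rw [← hE] at E0
  simp only [kgEL, fldA, fldE, fldG, baseVec, regFld, orbAt, Orb.cBase, Orb.shapeU, shapeG, Orb.shapeT,
    shapeW, Pi.add_apply, Pi.sub_apply, Pi.smul_apply, smul_eq_mul, Matrix.cons_val, sub_add_cancel,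
    one_div_one_div, one_div_div, mul_one, one_mul, mul_zero, zero_mul, add_zero, zero_add, sub_zero,
    neg_zero, zero_div, ← hD, ← hE]
  all_goals (try field_simp)
  all_goals (try simp only [← hD, ← hE])
  all_goals (try field_simp)
  all_goals
    subst hD hE
    (try ring)

theorem kbase_gG (h : Pt N p q a b R x y z s w) :
    kapFun (gG (⟨a, b, x, y⟩ : Frame)) a b x y (baseVec N p q) =
      0 := by
  rw [kap_gG h]
  obtain ⟨rfl, rfl, rfl, a0, b0, M0, x0, y0, s0, D0, E0, hz⟩ := h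
  subst hz
  obtain ⟨D, hD⟩ : ∃ D, D = a * x + b * y := ⟨_, rfl⟩
  obtain ⟨E, hE⟩ : ∃ E, E = b * y - a * x := ⟨_, rfl⟩
  rw [← hD] at D0
  rw [← hE] at E0
  simp only [kgGL, fldA, fldE, fldG, baseVec, regFld, orbAt, Orb.cBase, Orb.shapeU, shapeG, Orb.shapeT,
    shapeW, Pi.add_apply, Pi.sub_apply, Pi.smul_apply, smul_eq_mul, Matrix.cons_val, sub_add_cancel,
    one_div_one_div, one_div_div, mul_one, one_mul, mul_zero, zero_mul, add_zero, zero_add, sub_zero,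
    neg_zero, zero_div, ← hD, ← hE]
  all_goals (try field_simp)
  all_goals (try simp only [← hD, ← hE])
  all_goals (try field_simp)
  all_goals
    subst hD hE
    (try ring)

theorem kbase_hEf (h : Pt N p q a b R x y z s w) :
    kapFun (hEf (⟨a, b, x, y⟩ : Frame)) a b x y (baseVec N p q) =
      0 := by
  rw [kap_hEf h]
  obtain ⟨rfl, rfl, rfl, a0, b0, M0, x0, y0, s0, D0, E0, hz⟩ := h
  subst hz
  obtain ⟨D, hD⟩ : ∃ D, D = a * x + b * y := ⟨_, rfl⟩
  obtain ⟨E, hE⟩ : ∃ E, E = b * y - a * x := ⟨_, rfl⟩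
  rw [← hD] at D0
  rw [← hE] at E0
  simp only [khEfL, fldA, fldE, fldG, baseVec, regFld, orbAt, Orb.cBase, Orb.shapeU, shapeG, Orb.shapeT,
    shapeW, Pi.add_apply, Pi.sub_apply, Pi.smul_apply, smul_eq_mul, Matrix.cons_val, sub_add_cancel,
    one_div_one_div, one_div_div, mul_one, one_mul, mul_zero, zero_mul, add_zero, zero_add, sub_zero,
    neg_zero, zero_div, ← hD, ← hE]
  all_goals (try field_simp)
  all_goals (try simp only [← hD, ← hE])
  all_goals (try field_simp)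
  all_goals
    subst hD hE
    (try ring)

theorem kbase_hG (h : Pt N p q a b R x y z s w) :
    kapFun (hG (⟨a, b, x, y⟩ : Frame)) a b x y (baseVec N p q) =
      0 := by
  rw [kap_hG h]
  obtain ⟨rfl, rfl, rfl, a0, b0, M0, x0, y0, s0, D0, E0, hz⟩ := h
  subst hz
  obtain ⟨D, hD⟩ : ∃ D, D = a * x + b * y := ⟨_, rfl⟩
  obtain ⟨E, hE⟩ : ∃ E, E = b * y - a * x := ⟨_, rfl⟩
  rw [← hD] at D0
  rw [← hE] at E0
  simp only [khGL, fldA, fldE, fldG, baseVec, regFld, orbAt, Orb.cBase, Orb.shapeU, shapeG, Orb.shapeT,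
    shapeW, Pi.add_apply, Pi.sub_apply, Pi.smul_apply, smul_eq_mul, Matrix.cons_val, sub_add_cancel,
    one_div_one_div, one_div_div, mul_one, one_mul, mul_zero, zero_mul, add_zero, zero_add, sub_zero,
    neg_zero, zero_div, ← hD, ← hE]
  all_goals (try field_simp)
  all_goals (try simp only [← hD, ← hE])
  all_goals (try field_simp)
  all_goals
    subst hD hE
    (try ring)

theorem kbase_lME (h : Pt N p q a b R x y z s w) :
    kapFun (lME (⟨a, b, x, y⟩ : Frame) N p q) a b x y (baseVec N p q) =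
      ((y ^ 2 * (a ^ 2 * b + 2 * a * b ^ 2 + b ^ 3 - b) + x * y * (-a ^ 2 - 2 * a * b - b ^ 2 +
        1) + x ^ 2 * (a ^ 3 + 2 * a ^ 2 * b + a * b ^ 2 - a))) / (4 * (a * x + b * y) ^ 2 * (b * y
        - a * x)) := by
  rw [kap_lME h]
  obtain ⟨rfl, rfl, rfl, a0, b0, M0, x0, y0, s0, D0, E0, hz⟩ := h
  subst hz
  obtain ⟨D, hD⟩ : ∃ D, D = a * x + b * y := ⟨_, rfl⟩
  obtain ⟨E, hE⟩ : ∃ E, E = b * y - a * x := ⟨_, rfl⟩
  rw [← hD] at D0
  rw [← hE] at E0
  simp only [klMEL, fldA, fldE, fldG, baseVec, regFld, orbAt, Orb.cBase, Orb.shapeU, shapeG, Orb.shapeT,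
    shapeW, Pi.add_apply, Pi.sub_apply, Pi.smul_apply, smul_eq_mul, Matrix.cons_val, sub_add_cancel,
    one_div_one_div, one_div_div, mul_one, one_mul, mul_zero, zero_mul, add_zero, zero_add, sub_zero,
    neg_zero, zero_div, ← hD, ← hE]
  all_goals (try field_simp)
  all_goals (try simp only [← hD, ← hE])
  all_goals (try field_simp)
  all_goals
    subst hD hE
    (try ring)

theorem kbase_lMG (h : Pt N p q a b R x y z s w) :
    kapFun (lMG (⟨a, b, x, y⟩ : Frame) N p q) a b x y (baseVec N p q) =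
      (((-a ^ 2 - 2 * a * b - b ^ 2 + 1))) / (4 * (a * x + b * y) ^ 2) := by
  rw [kap_lMG h]
  obtain ⟨rfl, rfl, rfl, a0, b0, M0, x0, y0, s0, D0, E0, hz⟩ := h
  subst hz
  obtain ⟨D, hD⟩ : ∃ D, D = a * x + b * y := ⟨_, rfl⟩
  obtain ⟨E, hE⟩ : ∃ E, E = b * y - a * x := ⟨_, rfl⟩
  rw [← hD] at D0
  rw [← hE] at E0
  simp only [klMGL, fldA, fldE, fldG, baseVec, regFld, orbAt, Orb.cBase, Orb.shapeU, shapeG, Orb.shapeT,
    shapeW, Pi.add_apply, Pi.sub_apply, Pi.smul_apply, smul_eq_mul, Matrix.cons_val, sub_add_cancel,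
    one_div_one_div, one_div_div, mul_one, one_mul, mul_zero, zero_mul, add_zero, zero_add, sub_zero,
    neg_zero, zero_div, ← hD, ← hE]
  all_goals (try field_simp)
  all_goals (try simp only [← hD, ← hE])
  all_goals (try field_simp)
  all_goals
    subst hD hE
    (try ring)

theorem kbase_lEE (h : Pt N p q a b R x y z s w) :
    kapFun (lEE (⟨a, b, x, y⟩ : Frame) N p q) a b x y (baseVec N p q) =
      ((y * (-a ^ 3 * b - 2 * a ^ 2 * b ^ 2 - a * b ^ 3 + a * b) + x * (a ^ 3 * b + 2 * a ^ 2 *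
        b ^ 2 + a * b ^ 3 - a * b))) / (2 * (a * x + b * y) ^ 2 * (b * y - a * x)) := by
  rw [kap_lEE h]
  obtain ⟨rfl, rfl, rfl, a0, b0, M0, x0, y0, s0, D0, E0, hz⟩ := h
  subst hz
  obtain ⟨D, hD⟩ : ∃ D, D = a * x + b * y := ⟨_, rfl⟩
  obtain ⟨E, hE⟩ : ∃ E, E = b * y - a * x := ⟨_, rfl⟩
  rw [← hD] at D0
  rw [← hE] at E0
  simp only [klEEL, fldA, fldE, fldG, baseVec, regFld, orbAt, Orb.cBase, Orb.shapeU, shapeG, Orb.shapeT,
    shapeW, Pi.add_apply, Pi.sub_apply, Pi.smul_apply, smul_eq_mul, Matrix.cons_val, sub_add_cancel,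
    one_div_one_div, one_div_div, mul_one, one_mul, mul_zero, zero_mul, add_zero, zero_add, sub_zero,
    neg_zero, zero_div, ← hD, ← hE]
  all_goals (try field_simp)
  all_goals (try simp only [← hD, ← hE])
  all_goals (try field_simp)
  all_goals
    subst hD hE
    (try ring)

theorem kbase_lEG (h : Pt N p q a b R x y z s w) :
    kapFun (lEG (⟨a, b, x, y⟩ : Frame) N p q) a b x y (baseVec N p q) =
      (((a ^ 4 * b + 3 * a ^ 3 * b ^ 2 + a ^ 3 * b + 3 * a ^ 2 * b ^ 3 + 2 * a ^ 2 * b ^ 2 - a ^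
        2 * b + a * b ^ 4 + a * b ^ 3 - a * b ^ 2 - a * b))) / (4 * (a * x + b * y) ^ 2 * (b * y -
        a * x)) := by
  rw [kap_lEG h]
  obtain ⟨rfl, rfl, rfl, a0, b0, M0, x0, y0, s0, D0, E0, hz⟩ := h
  subst hz
  obtain ⟨D, hD⟩ : ∃ D, D = a * x + b * y := ⟨_, rfl⟩
  obtain ⟨E, hE⟩ : ∃ E, E = b * y - a * x := ⟨_, rfl⟩
  rw [← hD] at D0
  rw [← hE] at E0
  simp only [klEGL, fldA, fldE, fldG, baseVec, regFld, orbAt, Orb.cBase, Orb.shapeU, shapeG, Orb.shapeT,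
    shapeW, Pi.add_apply, Pi.sub_apply, Pi.smul_apply, smul_eq_mul, Matrix.cons_val, sub_add_cancel,
    one_div_one_div, one_div_div, mul_one, one_mul, mul_zero, zero_mul, add_zero, zero_add, sub_zero,
    neg_zero, zero_div, ← hD, ← hE]
  all_goals (try field_simp)
  all_goals (try simp only [← hD, ← hE])
  all_goals (try field_simp)
  all_goals
    subst hD hE
    (try ring)

theorem kbase_lGG (h : Pt N p q a b R x y z s w) :
    kapFun (lGG (⟨a, b, x, y⟩ : Frame) N p q) a b x y (baseVec N p q) =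
      0 := by
  rw [kap_lGG h]
  obtain ⟨rfl, rfl, rfl, a0, b0, M0, x0, y0, s0, D0, E0, hz⟩ := h
  subst hz
  obtain ⟨D, hD⟩ : ∃ D, D = a * x + b * y := ⟨_, rfl⟩
  obtain ⟨E, hE⟩ : ∃ E, E = b * y - a * x := ⟨_, rfl⟩
  rw [← hD] at D0
  rw [← hE] at E0
  simp only [klGGL, fldA, fldE, fldG, baseVec, regFld, orbAt, Orb.cBase, Orb.shapeU, shapeG, Orb.shapeT,
    shapeW, Pi.add_apply, Pi.sub_apply, Pi.smul_apply, smul_eq_mul, Matrix.cons_val, sub_add_cancel,
    one_div_one_div, one_div_div, mul_one, one_mul, mul_zero, zero_mul, add_zero, zero_add, sub_zero,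
    neg_zero, zero_div, ← hD, ← hE]
  all_goals (try field_simp)
  all_goals (try simp only [← hD, ← hE])
  all_goals (try field_simp)
  all_goals
    subst hD hE
    (try ring)

theorem kbase_lLG (h : Pt N p q a b R x y z s w) :
    kapFun (lLG (⟨a, b, x, y⟩ : Frame) N p q z) a b x y (baseVec N p q) =
      0 := by
  rw [kap_lLG h]
  obtain ⟨rfl, rfl, rfl, a0, b0, M0, x0, y0, s0, D0, E0, hz⟩ := h
  subst hz
  obtain ⟨D, hD⟩ : ∃ D, D = a * x + b * y := ⟨_, rfl⟩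
  obtain ⟨E, hE⟩ : ∃ E, E = b * y - a * x := ⟨_, rfl⟩
  rw [← hD] at D0
  rw [← hE] at E0
  simp only [klLGL, fldA, fldE, fldG, baseVec, regFld, orbAt, Orb.cBase, Orb.shapeU, shapeG, Orb.shapeT,
    shapeW, Pi.add_apply, Pi.sub_apply, Pi.smul_apply, smul_eq_mul, Matrix.cons_val, sub_add_cancel,
    one_div_one_div, one_div_div, mul_one, one_mul, mul_zero, zero_mul, add_zero, zero_add, sub_zero,
    neg_zero, zero_div, ← hD, ← hE]
  all_goals (try field_simp)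
  all_goals (try simp only [← hD, ← hE])
  all_goals (try field_simp)
  all_goals
    subst hD hE
    (try ring)

theorem kU_gE (h : Pt N p q a b R x y z s w) :
    kapFun (gE (⟨a, b, x, y⟩ : Frame)) a b x y (regFld N p q R x y s w 0) =
      0 := by
  rw [kap_gE h]
  obtain ⟨rfl, rfl, rfl, a0, b0, M0, x0, y0, s0, D0, E0, hz⟩ := h
  subst hz
  obtain ⟨D, hD⟩ : ∃ D, D = a * x + b * y := ⟨_, rfl⟩
  obtain ⟨E, hE⟩ : ∃ E, E = b * y - a * x := ⟨_, rfl⟩
  rw [← hD] at D0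
  rw [← hE] at E0
  simp only [kgEL, fldA, fldE, fldG, baseVec, regFld, orbAt, Orb.cBase, Orb.shapeU, shapeG, Orb.shapeT,
    shapeW, Pi.add_apply, Pi.sub_apply, Pi.smul_apply, smul_eq_mul, Matrix.cons_val, sub_add_cancel,
    one_div_one_div, one_div_div, mul_one, one_mul, mul_zero, zero_mul, add_zero, zero_add, sub_zero,
    neg_zero, zero_div, ← hD, ← hE]
  all_goals (try field_simp)
  all_goals (try simp only [← hD, ← hE])
  all_goals (try field_simp)
  all_goals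
    subst hD hE
    (try ring)

theorem kU_gG (h : Pt N p q a b R x y z s w) :
    kapFun (gG (⟨a, b, x, y⟩ : Frame)) a b x y (regFld N p q R x y s w 0) =
      0 := by
  rw [kap_gG h]
  obtain ⟨rfl, rfl, rfl, a0, b0, M0, x0, y0, s0, D0, E0, hz⟩ := h
  subst hz
  obtain ⟨D, hD⟩ : ∃ D, D = a * x + b * y := ⟨_, rfl⟩
  obtain ⟨E, hE⟩ : ∃ E, E = b * y - a * x := ⟨_, rfl⟩
  rw [← hD] at D0
  rw [← hE] at E0
  simp only [kgGL, fldA, fldE, fldG, baseVec, regFld, orbAt, Orb.cBase, Orb.shapeU, shapeG, Orb.shapeT,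
    shapeW, Pi.add_apply, Pi.sub_apply, Pi.smul_apply, smul_eq_mul, Matrix.cons_val, sub_add_cancel,
    one_div_one_div, one_div_div, mul_one, one_mul, mul_zero, zero_mul, add_zero, zero_add, sub_zero,
    neg_zero, zero_div, ← hD, ← hE]
  all_goals (try field_simp)
  all_goals (try simp only [← hD, ← hE])
  all_goals (try field_simp)
  all_goals
    subst hD hE
    (try ring)

theorem kU_hEf (h : Pt N p q a b R x y z s w) :
    kapFun (hEf (⟨a, b, x, y⟩ : Frame)) a b x y (regFld N p q R x y s w 0) =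
      0 := by
  rw [kap_hEf h]
  obtain ⟨rfl, rfl, rfl, a0, b0, M0, x0, y0, s0, D0, E0, hz⟩ := h
  subst hz
  obtain ⟨D, hD⟩ : ∃ D, D = a * x + b * y := ⟨_, rfl⟩
  obtain ⟨E, hE⟩ : ∃ E, E = b * y - a * x := ⟨_, rfl⟩
  rw [← hD] at D0
  rw [← hE] at E0
  simp only [khEfL, fldA, fldE, fldG, baseVec, regFld, orbAt, Orb.cBase, Orb.shapeU, shapeG, Orb.shapeT,
    shapeW, Pi.add_apply, Pi.sub_apply, Pi.smul_apply, smul_eq_mul, Matrix.cons_val, sub_add_cancel,
    one_div_one_div, one_div_div, mul_one, one_mul, mul_zero, zero_mul, add_zero, zero_add, sub_zero,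
    neg_zero, zero_div, ← hD, ← hE]
  all_goals (try field_simp)
  all_goals (try simp only [← hD, ← hE])
  all_goals (try field_simp)
  all_goals
    subst hD hE
    (try ring)

theorem kU_hG (h : Pt N p q a b R x y z s w) :
    kapFun (hG (⟨a, b, x, y⟩ : Frame)) a b x y (regFld N p q R x y s w 0) =
      (((a + b - 1))) / (2 * x * y * (b * y - a * x)) := by
  rw [kap_hG h]
  obtain ⟨rfl, rfl, rfl, a0, b0, M0, x0, y0, s0, D0, E0, hz⟩ := h
  subst hz
  obtain ⟨D, hD⟩ : ∃ D, D = a * x + b * y := ⟨_, rfl⟩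
  obtain ⟨E, hE⟩ : ∃ E, E = b * y - a * x := ⟨_, rfl⟩
  rw [← hD] at D0
  rw [← hE] at E0
  simp only [khGL, fldA, fldE, fldG, baseVec, regFld, orbAt, Orb.cBase, Orb.shapeU, shapeG, Orb.shapeT,
    shapeW, Pi.add_apply, Pi.sub_apply, Pi.smul_apply, smul_eq_mul, Matrix.cons_val, sub_add_cancel,
    one_div_one_div, one_div_div, mul_one, one_mul, mul_zero, zero_mul, add_zero, zero_add, sub_zero,
    neg_zero, zero_div, ← hD, ← hE]
  all_goals (try field_simp)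
  all_goals (try simp only [← hD, ← hE])
  all_goals (try field_simp)
  all_goals
    subst hD hE
    (try ring)

theorem kU_lME (h : Pt N p q a b R x y z s w) :
    kapFun (lME (⟨a, b, x, y⟩ : Frame) N p q) a b x y (regFld N p q R x y s w 0) =
      0 := by
  rw [kap_lME h]
  obtain ⟨rfl, rfl, rfl, a0, b0, M0, x0, y0, s0, D0, E0, hz⟩ := h
  subst hz
  obtain ⟨D, hD⟩ : ∃ D, D = a * x + b * y := ⟨_, rfl⟩
  obtain ⟨E, hE⟩ : ∃ E, E = b * y - a * x := ⟨_, rfl⟩
  rw [← hD] at D0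
  rw [← hE] at E0
  simp only [klMEL, fldA, fldE, fldG, baseVec, regFld, orbAt, Orb.cBase, Orb.shapeU, shapeG, Orb.shapeT,
    shapeW, Pi.add_apply, Pi.sub_apply, Pi.smul_apply, smul_eq_mul, Matrix.cons_val, sub_add_cancel,
    one_div_one_div, one_div_div, mul_one, one_mul, mul_zero, zero_mul, add_zero, zero_add, sub_zero,
    neg_zero, zero_div, ← hD, ← hE]
  all_goals (try field_simp)
  all_goals (try simp only [← hD, ← hE])
  all_goals (try field_simp)
  all_goals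
    subst hD hE
    (try ring)

theorem kU_lMG (h : Pt N p q a b R x y z s w) :
    kapFun (lMG (⟨a, b, x, y⟩ : Frame) N p q) a b x y (regFld N p q R x y s w 0) =
      ((x * y ^ 2 * (-4 * a ^ 2 - 8 * a * b + 8 * a - 4 * b ^ 2 + 8 * b - 4) + x ^ 2 * y * (4 *
        a ^ 2 + 8 * a * b - 8 * a + 4 * b ^ 2 - 8 * b + 4)) + s * w * ((-a ^ 2 - 2 * a * b + 2 * a
        - b ^ 2 + 2 * b - 1))) / (16 * x * y * (a * x + b * y) ^ 2 * (b * y - a * x)) := by
  rw [kap_lMG h]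
  obtain ⟨rfl, rfl, rfl, a0, b0, M0, x0, y0, s0, D0, E0, hz⟩ := h
  subst hz
  obtain ⟨D, hD⟩ : ∃ D, D = a * x + b * y := ⟨_, rfl⟩
  obtain ⟨E, hE⟩ : ∃ E, E = b * y - a * x := ⟨_, rfl⟩
  rw [← hD] at D0
  rw [← hE] at E0
  simp only [klMGL, fldA, fldE, fldG, baseVec, regFld, orbAt, Orb.cBase, Orb.shapeU, shapeG, Orb.shapeT,
    shapeW, Pi.add_apply, Pi.sub_apply, Pi.smul_apply, smul_eq_mul, Matrix.cons_val, sub_add_cancel,
    one_div_one_div, one_div_div, mul_one, one_mul, mul_zero, zero_mul, add_zero, zero_add, sub_zero,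
    neg_zero, zero_div, ← hD, ← hE]
  all_goals (try field_simp)
  all_goals (try simp only [← hD, ← hE])
  all_goals (try field_simp)
  all_goals
    subst hD hE
    (try ring)

theorem kU_lEE (h : Pt N p q a b R x y z s w) :
    kapFun (lEE (⟨a, b, x, y⟩ : Frame) N p q) a b x y (regFld N p q R x y s w 0) =
      ((x * y ^ 2 * (-4 * a - 4 * b + 4) + x ^ 2 * y * (4 * a + 4 * b - 4)) + s * w * ((-a - b +
        1))) / (8 * x * y * (a * x + b * y) ^ 2 * (b * y - a * x)) := by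
  rw [kap_lEE h]
  obtain ⟨rfl, rfl, rfl, a0, b0, M0, x0, y0, s0, D0, E0, hz⟩ := h
  subst hz
  obtain ⟨D, hD⟩ : ∃ D, D = a * x + b * y := ⟨_, rfl⟩
  obtain ⟨E, hE⟩ : ∃ E, E = b * y - a * x := ⟨_, rfl⟩
  rw [← hD] at D0
  rw [← hE] at E0
  simp only [klEEL, fldA, fldE, fldG, baseVec, regFld, orbAt, Orb.cBase, Orb.shapeU, shapeG, Orb.shapeT,
    shapeW, Pi.add_apply, Pi.sub_apply, Pi.smul_apply, smul_eq_mul, Matrix.cons_val, sub_add_cancel,
    one_div_one_div, one_div_div, mul_one, one_mul, mul_zero, zero_mul, add_zero, zero_add, sub_zero,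
    neg_zero, zero_div, ← hD, ← hE]
  all_goals (try field_simp)
  all_goals (try simp only [← hD, ← hE])
  all_goals (try field_simp)
  all_goals
    subst hD hE
    (try ring)

theorem kU_lEG (h : Pt N p q a b R x y z s w) :
    kapFun (lEG (⟨a, b, x, y⟩ : Frame) N p q) a b x y (regFld N p q R x y s w 0) =
      ((x * y ^ 2 * (-4 * a ^ 2 - 8 * a * b - 4 * b ^ 2 + 4) + x ^ 2 * y * (4 * a ^ 2 + 8 * a *
        b + 4 * b ^ 2 - 4)) + s * w * ((-a ^ 2 - 2 * a * b - b ^ 2 + 1))) / (16 * x ^ 2 * y ^ 2 *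
        (a * x + b * y) ^ 2) := by
  rw [kap_lEG h]
  obtain ⟨rfl, rfl, rfl, a0, b0, M0, x0, y0, s0, D0, E0, hz⟩ := h
  subst hz
  obtain ⟨D, hD⟩ : ∃ D, D = a * x + b * y := ⟨_, rfl⟩
  obtain ⟨E, hE⟩ : ∃ E, E = b * y - a * x := ⟨_, rfl⟩
  rw [← hD] at D0
  rw [← hE] at E0
  simp only [klEGL, fldA, fldE, fldG, baseVec, regFld, orbAt, Orb.cBase, Orb.shapeU, shapeG, Orb.shapeT,
    shapeW, Pi.add_apply, Pi.sub_apply, Pi.smul_apply, smul_eq_mul, Matrix.cons_val, sub_add_cancel,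
    one_div_one_div, one_div_div, mul_one, one_mul, mul_zero, zero_mul, add_zero, zero_add, sub_zero,
    neg_zero, zero_div, ← hD, ← hE]
  all_goals (try field_simp)
  all_goals (try simp only [← hD, ← hE])
  all_goals (try field_simp)
  all_goals
    subst hD hE
    (try ring)

theorem kU_lGG (h : Pt N p q a b R x y z s w) :
    kapFun (lGG (⟨a, b, x, y⟩ : Frame) N p q) a b x y (regFld N p q R x y s w 0) =
      ((x * y ^ 2 * (4 * a ^ 3 * b + 8 * a ^ 2 * b ^ 2 + 4 * a * b ^ 3 - 4 * a * b) + x ^ 2 * y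
        * (-4 * a ^ 3 * b - 8 * a ^ 2 * b ^ 2 - 4 * a * b ^ 3 + 4 * a * b)) + s * w * ((a ^ 3 * b
        + 2 * a ^ 2 * b ^ 2 + a * b ^ 3 - a * b))) / (16 * x ^ 2 * y ^ 2 * (a * x + b * y) ^ 2 *
        (b * y - a * x)) := by
  rw [kap_lGG h]
  obtain ⟨rfl, rfl, rfl, a0, b0, M0, x0, y0, s0, D0, E0, hz⟩ := h
  subst hz
  obtain ⟨D, hD⟩ : ∃ D, D = a * x + b * y := ⟨_, rfl⟩
  obtain ⟨E, hE⟩ : ∃ E, E = b * y - a * x := ⟨_, rfl⟩
  rw [← hD] at D0
  rw [← hE] at E0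
  simp only [klGGL, fldA, fldE, fldG, baseVec, regFld, orbAt, Orb.cBase, Orb.shapeU, shapeG, Orb.shapeT,
    shapeW, Pi.add_apply, Pi.sub_apply, Pi.smul_apply, smul_eq_mul, Matrix.cons_val, sub_add_cancel,
    one_div_one_div, one_div_div, mul_one, one_mul, mul_zero, zero_mul, add_zero, zero_add, sub_zero,
    neg_zero, zero_div, ← hD, ← hE]
  all_goals (try field_simp)
  all_goals (try simp only [← hD, ← hE])
  all_goals (try field_simp)
  all_goals
    subst hD hE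
    (try ring)

theorem kU_lLG (h : Pt N p q a b R x y z s w) :
    kapFun (lLG (⟨a, b, x, y⟩ : Frame) N p q z) a b x y (regFld N p q R x y s w 0) =
      0 := by
  rw [kap_lLG h]
  obtain ⟨rfl, rfl, rfl, a0, b0, M0, x0, y0, s0, D0, E0, hz⟩ := h
  subst hz
  obtain ⟨D, hD⟩ : ∃ D, D = a * x + b * y := ⟨_, rfl⟩
  obtain ⟨E, hE⟩ : ∃ E, E = b * y - a * x := ⟨_, rfl⟩
  rw [← hD] at D0
  rw [← hE] at E0
  simp only [klLGL, fldA, fldE, fldG, baseVec, regFld, orbAt, Orb.cBase, Orb.shapeU, shapeG, Orb.shapeT,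
    shapeW, Pi.add_apply, Pi.sub_apply, Pi.smul_apply, smul_eq_mul, Matrix.cons_val, sub_add_cancel,
    one_div_one_div, one_div_div, mul_one, one_mul, mul_zero, zero_mul, add_zero, zero_add, sub_zero,
    neg_zero, zero_div, ← hD, ← hE]
  all_goals (try field_simp)
  all_goals (try simp only [← hD, ← hE])
  all_goals (try field_simp)
  all_goals
    subst hD hE
    (try ring)

theorem kA_gE (h : Pt N p q a b R x y z s w) :
    kapFun (gE (⟨a, b, x, y⟩ : Frame)) a b x y (fldA N p q R x y s w) =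
      0 := by
  rw [kap_gE h]
  obtain ⟨rfl, rfl, rfl, a0, b0, M0, x0, y0, s0, D0, E0, hz⟩ := h
  subst hz
  obtain ⟨D, hD⟩ : ∃ D, D = a * x + b * y := ⟨_, rfl⟩
  obtain ⟨E, hE⟩ : ∃ E, E = b * y - a * x := ⟨_, rfl⟩
  rw [← hD] at D0
  rw [← hE] at E0
  simp only [kgEL, fldA, fldE, fldG, baseVec, regFld, orbAt, Orb.cBase, Orb.shapeU, shapeG, Orb.shapeT,
    shapeW, Pi.add_apply, Pi.sub_apply, Pi.smul_apply, smul_eq_mul, Matrix.cons_val, sub_add_cancel,
    one_div_one_div, one_div_div, mul_one, one_mul, mul_zero, zero_mul, add_zero, zero_add, sub_zero,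
    neg_zero, zero_div, ← hD, ← hE]
  all_goals (try field_simp)
  all_goals (try simp only [← hD, ← hE])
  all_goals (try field_simp)
  all_goals
    subst hD hE
    (try ring)

theorem kA_gG (h : Pt N p q a b R x y z s w) :
    kapFun (gG (⟨a, b, x, y⟩ : Frame)) a b x y (fldA N p q R x y s w) =
      0 := by
  rw [kap_gG h]
  obtain ⟨rfl, rfl, rfl, a0, b0, M0, x0, y0, s0, D0, E0, hz⟩ := h
  subst hz
  obtain ⟨D, hD⟩ : ∃ D, D = a * x + b * y := ⟨_, rfl⟩
  obtain ⟨E, hE⟩ : ∃ E, E = b * y - a * x := ⟨_, rfl⟩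
  rw [← hD] at D0
  rw [← hE] at E0
  simp only [kgGL, fldA, fldE, fldG, baseVec, regFld, orbAt, Orb.cBase, Orb.shapeU, shapeG, Orb.shapeT,
    shapeW, Pi.add_apply, Pi.sub_apply, Pi.smul_apply, smul_eq_mul, Matrix.cons_val, sub_add_cancel,
    one_div_one_div, one_div_div, mul_one, one_mul, mul_zero, zero_mul, add_zero, zero_add, sub_zero,
    neg_zero, zero_div, ← hD, ← hE]
  all_goals (try field_simp)
  all_goals (try simp only [← hD, ← hE])
  all_goals (try field_simp)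
  all_goals
    subst hD hE
    (try ring)

theorem kA_hEf (h : Pt N p q a b R x y z s w) :
    kapFun (hEf (⟨a, b, x, y⟩ : Frame)) a b x y (fldA N p q R x y s w) =
      0 := by
  rw [kap_hEf h]
  obtain ⟨rfl, rfl, rfl, a0, b0, M0, x0, y0, s0, D0, E0, hz⟩ := h
  subst hz
  obtain ⟨D, hD⟩ : ∃ D, D = a * x + b * y := ⟨_, rfl⟩
  obtain ⟨E, hE⟩ : ∃ E, E = b * y - a * x := ⟨_, rfl⟩
  rw [← hD] at D0
  rw [← hE] at E0
  simp only [khEfL, fldA, fldE, fldG, baseVec, regFld, orbAt, Orb.cBase, Orb.shapeU, shapeG, Orb.shapeT,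
    shapeW, Pi.add_apply, Pi.sub_apply, Pi.smul_apply, smul_eq_mul, Matrix.cons_val, sub_add_cancel,
    one_div_one_div, one_div_div, mul_one, one_mul, mul_zero, zero_mul, add_zero, zero_add, sub_zero,
    neg_zero, zero_div, ← hD, ← hE]
  all_goals (try field_simp)
  all_goals (try simp only [← hD, ← hE])
  all_goals (try field_simp)
  all_goals
    subst hD hE
    (try ring)

theorem kA_hG (h : Pt N p q a b R x y z s w) :
    kapFun (hG (⟨a, b, x, y⟩ : Frame)) a b x y (fldA N p q R x y s w) =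
      0 := by
  rw [kap_hG h]
  obtain ⟨rfl, rfl, rfl, a0, b0, M0, x0, y0, s0, D0, E0, hz⟩ := h
  subst hz
  obtain ⟨D, hD⟩ : ∃ D, D = a * x + b * y := ⟨_, rfl⟩
  obtain ⟨E, hE⟩ : ∃ E, E = b * y - a * x := ⟨_, rfl⟩
  rw [← hD] at D0
  rw [← hE] at E0
  simp only [khGL, fldA, fldE, fldG, baseVec, regFld, orbAt, Orb.cBase, Orb.shapeU, shapeG, Orb.shapeT,
    shapeW, Pi.add_apply, Pi.sub_apply, Pi.smul_apply, smul_eq_mul, Matrix.cons_val, sub_add_cancel,
    one_div_one_div, one_div_div, mul_one, one_mul, mul_zero, zero_mul, add_zero, zero_add, sub_zero,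
    neg_zero, zero_div, ← hD, ← hE]
  all_goals (try field_simp)
  all_goals (try simp only [← hD, ← hE])
  all_goals (try field_simp)
  all_goals
    subst hD hE
    (try ring)

theorem kA_lME (h : Pt N p q a b R x y z s w) :
    kapFun (lME (⟨a, b, x, y⟩ : Frame) N p q) a b x y (fldA N p q R x y s w) =
      0 := by
  rw [kap_lME h]
  obtain ⟨rfl, rfl, rfl, a0, b0, M0, x0, y0, s0, D0, E0, hz⟩ := h
  subst hz
  obtain ⟨D, hD⟩ : ∃ D, D = a * x + b * y := ⟨_, rfl⟩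
  obtain ⟨E, hE⟩ : ∃ E, E = b * y - a * x := ⟨_, rfl⟩
  rw [← hD] at D0
  rw [← hE] at E0
  simp only [klMEL, fldA, fldE, fldG, baseVec, regFld, orbAt, Orb.cBase, Orb.shapeU, shapeG, Orb.shapeT,
    shapeW, Pi.add_apply, Pi.sub_apply, Pi.smul_apply, smul_eq_mul, Matrix.cons_val, sub_add_cancel,
    one_div_one_div, one_div_div, mul_one, one_mul, mul_zero, zero_mul, add_zero, zero_add, sub_zero,
    neg_zero, zero_div, ← hD, ← hE]
  all_goals (try field_simp)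
  all_goals (try simp only [← hD, ← hE])
  all_goals (try field_simp)
  all_goals
    subst hD hE
    (try ring)

theorem kA_lMG (h : Pt N p q a b R x y z s w) :
    kapFun (lMG (⟨a, b, x, y⟩ : Frame) N p q) a b x y (fldA N p q R x y s w) =
      0 := by
  rw [kap_lMG h]
  obtain ⟨rfl, rfl, rfl, a0, b0, M0, x0, y0, s0, D0, E0, hz⟩ := h
  subst hz
  obtain ⟨D, hD⟩ : ∃ D, D = a * x + b * y := ⟨_, rfl⟩
  obtain ⟨E, hE⟩ : ∃ E, E = b * y - a * x := ⟨_, rfl⟩
  rw [← hD] at D0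
  rw [← hE] at E0
  simp only [klMGL, fldA, fldE, fldG, baseVec, regFld, orbAt, Orb.cBase, Orb.shapeU, shapeG, Orb.shapeT,
    shapeW, Pi.add_apply, Pi.sub_apply, Pi.smul_apply, smul_eq_mul, Matrix.cons_val, sub_add_cancel,
    one_div_one_div, one_div_div, mul_one, one_mul, mul_zero, zero_mul, add_zero, zero_add, sub_zero,
    neg_zero, zero_div, ← hD, ← hE]
  all_goals (try field_simp)
  all_goals (try simp only [← hD, ← hE])
  all_goals (try field_simp)
  all_goals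
    subst hD hE
    (try ring)

theorem kA_lEE (h : Pt N p q a b R x y z s w) :
    kapFun (lEE (⟨a, b, x, y⟩ : Frame) N p q) a b x y (fldA N p q R x y s w) =
      0 := by
  rw [kap_lEE h]
  obtain ⟨rfl, rfl, rfl, a0, b0, M0, x0, y0, s0, D0, E0, hz⟩ := h
  subst hz
  obtain ⟨D, hD⟩ : ∃ D, D = a * x + b * y := ⟨_, rfl⟩
  obtain ⟨E, hE⟩ : ∃ E, E = b * y - a * x := ⟨_, rfl⟩
  rw [← hD] at D0
  rw [← hE] at E0
  simp only [klEEL, fldA, fldE, fldG, baseVec, regFld, orbAt, Orb.cBase, Orb.shapeU, shapeG, Orb.shapeT,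
    shapeW, Pi.add_apply, Pi.sub_apply, Pi.smul_apply, smul_eq_mul, Matrix.cons_val, sub_add_cancel,
    one_div_one_div, one_div_div, mul_one, one_mul, mul_zero, zero_mul, add_zero, zero_add, sub_zero,
    neg_zero, zero_div, ← hD, ← hE]
  all_goals (try field_simp)
  all_goals (try simp only [← hD, ← hE])
  all_goals (try field_simp)
  all_goals
    subst hD hE
    (try ring)

theorem kA_lEG (h : Pt N p q a b R x y z s w) :
    kapFun (lEG (⟨a, b, x, y⟩ : Frame) N p q) a b x y (fldA N p q R x y s w) =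
      (((a + b - 1))) / (2 * x * y * (b * y - a * x)) := by
  rw [kap_lEG h]
  obtain ⟨rfl, rfl, rfl, a0, b0, M0, x0, y0, s0, D0, E0, hz⟩ := h
  subst hz
  obtain ⟨D, hD⟩ : ∃ D, D = a * x + b * y := ⟨_, rfl⟩
  obtain ⟨E, hE⟩ : ∃ E, E = b * y - a * x := ⟨_, rfl⟩
  rw [← hD] at D0
  rw [← hE] at E0
  simp only [klEGL, fldA, fldE, fldG, baseVec, regFld, orbAt, Orb.cBase, Orb.shapeU, shapeG, Orb.shapeT,
    shapeW, Pi.add_apply, Pi.sub_apply, Pi.smul_apply, smul_eq_mul, Matrix.cons_val, sub_add_cancel,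
    one_div_one_div, one_div_div, mul_one, one_mul, mul_zero, zero_mul, add_zero, zero_add, sub_zero,
    neg_zero, zero_div, ← hD, ← hE]
  all_goals (try field_simp)
  all_goals (try simp only [← hD, ← hE])
  all_goals (try field_simp)
  all_goals
    subst hD hE
    (try ring)

theorem kA_lGG (h : Pt N p q a b R x y z s w) :
    kapFun (lGG (⟨a, b, x, y⟩ : Frame) N p q) a b x y (fldA N p q R x y s w) =
      0 := by
  rw [kap_lGG h]
  obtain ⟨rfl, rfl, rfl, a0, b0, M0, x0, y0, s0, D0, E0, hz⟩ := h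
  subst hz
  obtain ⟨D, hD⟩ : ∃ D, D = a * x + b * y := ⟨_, rfl⟩
  obtain ⟨E, hE⟩ : ∃ E, E = b * y - a * x := ⟨_, rfl⟩
  rw [← hD] at D0
  rw [← hE] at E0
  simp only [klGGL, fldA, fldE, fldG, baseVec, regFld, orbAt, Orb.cBase, Orb.shapeU, shapeG, Orb.shapeT,
    shapeW, Pi.add_apply, Pi.sub_apply, Pi.smul_apply, smul_eq_mul, Matrix.cons_val, sub_add_cancel,
    one_div_one_div, one_div_div, mul_one, one_mul, mul_zero, zero_mul, add_zero, zero_add, sub_zero,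
    neg_zero, zero_div, ← hD, ← hE]
  all_goals (try field_simp)
  all_goals (try simp only [← hD, ← hE])
  all_goals (try field_simp)
  all_goals
    subst hD hE
    (try ring)

theorem kA_lLG (h : Pt N p q a b R x y z s w) :
    kapFun (lLG (⟨a, b, x, y⟩ : Frame) N p q z) a b x y (fldA N p q R x y s w) =
      0 := by
  rw [kap_lLG h]
  obtain ⟨rfl, rfl, rfl, a0, b0, M0, x0, y0, s0, D0, E0, hz⟩ := h
  subst hz
  obtain ⟨D, hD⟩ : ∃ D, D = a * x + b * y := ⟨_, rfl⟩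
  obtain ⟨E, hE⟩ : ∃ E, E = b * y - a * x := ⟨_, rfl⟩
  rw [← hD] at D0
  rw [← hE] at E0
  simp only [klLGL, fldA, fldE, fldG, baseVec, regFld, orbAt, Orb.cBase, Orb.shapeU, shapeG, Orb.shapeT,
    shapeW, Pi.add_apply, Pi.sub_apply, Pi.smul_apply, smul_eq_mul, Matrix.cons_val, sub_add_cancel,
    one_div_one_div, one_div_div, mul_one, one_mul, mul_zero, zero_mul, add_zero, zero_add, sub_zero,
    neg_zero, zero_div, ← hD, ← hE]
  all_goals (try field_simp)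
  all_goals (try simp only [← hD, ← hE])
  all_goals (try field_simp)
  all_goals
    subst hD hE
    (try ring)

theorem kE_gE (h : Pt N p q a b R x y z s w) :
    kapFun (gE (⟨a, b, x, y⟩ : Frame)) a b x y (fldE N p q R x y s w) =
      0 := by
  rw [kap_gE h]
  obtain ⟨rfl, rfl, rfl, a0, b0, M0, x0, y0, s0, D0, E0, hz⟩ := h
  subst hz
  obtain ⟨D, hD⟩ : ∃ D, D = a * x + b * y := ⟨_, rfl⟩
  obtain ⟨E, hE⟩ : ∃ E, E = b * y - a * x := ⟨_, rfl⟩
  rw [← hD] at D0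
  rw [← hE] at E0
  simp only [kgEL, fldA, fldE, fldG, baseVec, regFld, orbAt, Orb.cBase, Orb.shapeU, shapeG, Orb.shapeT,
    shapeW, Pi.add_apply, Pi.sub_apply, Pi.smul_apply, smul_eq_mul, Matrix.cons_val, sub_add_cancel,
    one_div_one_div, one_div_div, mul_one, one_mul, mul_zero, zero_mul, add_zero, zero_add, sub_zero,
    neg_zero, zero_div, ← hD, ← hE]
  all_goals (try field_simp)
  all_goals (try simp only [← hD, ← hE])
  all_goals (try field_simp)
  all_goals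
    subst hD hE
    (try ring)

theorem kE_gG (h : Pt N p q a b R x y z s w) :
    kapFun (gG (⟨a, b, x, y⟩ : Frame)) a b x y (fldE N p q R x y s w) =
      0 := by
  rw [kap_gG h]
  obtain ⟨rfl, rfl, rfl, a0, b0, M0, x0, y0, s0, D0, E0, hz⟩ := h
  subst hz
  obtain ⟨D, hD⟩ : ∃ D, D = a * x + b * y := ⟨_, rfl⟩
  obtain ⟨E, hE⟩ : ∃ E, E = b * y - a * x := ⟨_, rfl⟩
  rw [← hD] at D0
  rw [← hE] at E0
  simp only [kgGL, fldA, fldE, fldG, baseVec, regFld, orbAt, Orb.cBase, Orb.shapeU, shapeG, Orb.shapeT,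
    shapeW, Pi.add_apply, Pi.sub_apply, Pi.smul_apply, smul_eq_mul, Matrix.cons_val, sub_add_cancel,
    one_div_one_div, one_div_div, mul_one, one_mul, mul_zero, zero_mul, add_zero, zero_add, sub_zero,
    neg_zero, zero_div, ← hD, ← hE]
  all_goals (try field_simp)
  all_goals (try simp only [← hD, ← hE])
  all_goals (try field_simp)
  all_goals
    subst hD hE
    (try ring)

theorem kE_hEf (h : Pt N p q a b R x y z s w) :
    kapFun (hEf (⟨a, b, x, y⟩ : Frame)) a b x y (fldE N p q R x y s w) =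
      0 := by
  rw [kap_hEf h]
  obtain ⟨rfl, rfl, rfl, a0, b0, M0, x0, y0, s0, D0, E0, hz⟩ := h
  subst hz
  obtain ⟨D, hD⟩ : ∃ D, D = a * x + b * y := ⟨_, rfl⟩
  obtain ⟨E, hE⟩ : ∃ E, E = b * y - a * x := ⟨_, rfl⟩
  rw [← hD] at D0
  rw [← hE] at E0
  simp only [khEfL, fldA, fldE, fldG, baseVec, regFld, orbAt, Orb.cBase, Orb.shapeU, shapeG, Orb.shapeT,
    shapeW, Pi.add_apply, Pi.sub_apply, Pi.smul_apply, smul_eq_mul, Matrix.cons_val, sub_add_cancel,
    one_div_one_div, one_div_div, mul_one, one_mul, mul_zero, zero_mul, add_zero, zero_add, sub_zero,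
    neg_zero, zero_div, ← hD, ← hE]
  all_goals (try field_simp)
  all_goals (try simp only [← hD, ← hE])
  all_goals (try field_simp)
  all_goals
    subst hD hE
    (try ring)

theorem kE_hG (h : Pt N p q a b R x y z s w) :
    kapFun (hG (⟨a, b, x, y⟩ : Frame)) a b x y (fldE N p q R x y s w) =
      0 := by
  rw [kap_hG h]
  obtain ⟨rfl, rfl, rfl, a0, b0, M0, x0, y0, s0, D0, E0, hz⟩ := h
  subst hz
  obtain ⟨D, hD⟩ : ∃ D, D = a * x + b * y := ⟨_, rfl⟩
  obtain ⟨E, hE⟩ : ∃ E, E = b * y - a * x := ⟨_, rfl⟩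
  rw [← hD] at D0
  rw [← hE] at E0
  simp only [khGL, fldA, fldE, fldG, baseVec, regFld, orbAt, Orb.cBase, Orb.shapeU, shapeG, Orb.shapeT,
    shapeW, Pi.add_apply, Pi.sub_apply, Pi.smul_apply, smul_eq_mul, Matrix.cons_val, sub_add_cancel,
    one_div_one_div, one_div_div, mul_one, one_mul, mul_zero, zero_mul, add_zero, zero_add, sub_zero,
    neg_zero, zero_div, ← hD, ← hE]
  all_goals (try field_simp)
  all_goals (try simp only [← hD, ← hE])
  all_goals (try field_simp)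
  all_goals
    subst hD hE
    (try ring)

theorem kE_lME (h : Pt N p q a b R x y z s w) :
    kapFun (lME (⟨a, b, x, y⟩ : Frame) N p q) a b x y (fldE N p q R x y s w) =
      0 := by
  rw [kap_lME h]
  obtain ⟨rfl, rfl, rfl, a0, b0, M0, x0, y0, s0, D0, E0, hz⟩ := h
  subst hz
  obtain ⟨D, hD⟩ : ∃ D, D = a * x + b * y := ⟨_, rfl⟩
  obtain ⟨E, hE⟩ : ∃ E, E = b * y - a * x := ⟨_, rfl⟩
  rw [← hD] at D0
  rw [← hE] at E0
  simp only [klMEL, fldA, fldE, fldG, baseVec, regFld, orbAt, Orb.cBase, Orb.shapeU, shapeG, Orb.shapeT,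
    shapeW, Pi.add_apply, Pi.sub_apply, Pi.smul_apply, smul_eq_mul, Matrix.cons_val, sub_add_cancel,
    one_div_one_div, one_div_div, mul_one, one_mul, mul_zero, zero_mul, add_zero, zero_add, sub_zero,
    neg_zero, zero_div, ← hD, ← hE]
  all_goals (try field_simp)
  all_goals (try simp only [← hD, ← hE])
  all_goals (try field_simp)
  all_goals
    subst hD hE
    (try ring)

theorem kE_lMG (h : Pt N p q a b R x y z s w) :
    kapFun (lMG (⟨a, b, x, y⟩ : Frame) N p q) a b x y (fldE N p q R x y s w) =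
      0 := by
  rw [kap_lMG h]
  obtain ⟨rfl, rfl, rfl, a0, b0, M0, x0, y0, s0, D0, E0, hz⟩ := h
  subst hz
  obtain ⟨D, hD⟩ : ∃ D, D = a * x + b * y := ⟨_, rfl⟩
  obtain ⟨E, hE⟩ : ∃ E, E = b * y - a * x := ⟨_, rfl⟩
  rw [← hD] at D0
  rw [← hE] at E0
  simp only [klMGL, fldA, fldE, fldG, baseVec, regFld, orbAt, Orb.cBase, Orb.shapeU, shapeG, Orb.shapeT,
    shapeW, Pi.add_apply, Pi.sub_apply, Pi.smul_apply, smul_eq_mul, Matrix.cons_val, sub_add_cancel,
    one_div_one_div, one_div_div, mul_one, one_mul, mul_zero, zero_mul, add_zero, zero_add, sub_zero,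
    neg_zero, zero_div, ← hD, ← hE]
  all_goals (try field_simp)
  all_goals (try simp only [← hD, ← hE])
  all_goals (try field_simp)
  all_goals
    subst hD hE
    (try ring)

theorem kE_lEE (h : Pt N p q a b R x y z s w) :
    kapFun (lEE (⟨a, b, x, y⟩ : Frame) N p q) a b x y (fldE N p q R x y s w) =
      0 := by
  rw [kap_lEE h]
  obtain ⟨rfl, rfl, rfl, a0, b0, M0, x0, y0, s0, D0, E0, hz⟩ := h
  subst hz
  obtain ⟨D, hD⟩ : ∃ D, D = a * x + b * y := ⟨_, rfl⟩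
  obtain ⟨E, hE⟩ : ∃ E, E = b * y - a * x := ⟨_, rfl⟩
  rw [← hD] at D0
  rw [← hE] at E0
  simp only [klEEL, fldA, fldE, fldG, baseVec, regFld, orbAt, Orb.cBase, Orb.shapeU, shapeG, Orb.shapeT,
    shapeW, Pi.add_apply, Pi.sub_apply, Pi.smul_apply, smul_eq_mul, Matrix.cons_val, sub_add_cancel,
    one_div_one_div, one_div_div, mul_one, one_mul, mul_zero, zero_mul, add_zero, zero_add, sub_zero,
    neg_zero, zero_div, ← hD, ← hE]
  all_goals (try field_simp)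
  all_goals (try simp only [← hD, ← hE])
  all_goals (try field_simp)
  all_goals
    subst hD hE
    (try ring)

theorem kE_lEG (h : Pt N p q a b R x y z s w) :
    kapFun (lEG (⟨a, b, x, y⟩ : Frame) N p q) a b x y (fldE N p q R x y s w) =
      (((a + b - 1))) / (2 * x * y * (b * y - a * x)) := by
  rw [kap_lEG h]
  obtain ⟨rfl, rfl, rfl, a0, b0, M0, x0, y0, s0, D0, E0, hz⟩ := h
  subst hz
  obtain ⟨D, hD⟩ : ∃ D, D = a * x + b * y := ⟨_, rfl⟩
  obtain ⟨E, hE⟩ : ∃ E, E = b * y - a * x := ⟨_, rfl⟩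
  rw [← hD] at D0
  rw [← hE] at E0
  simp only [klEGL, fldA, fldE, fldG, baseVec, regFld, orbAt, Orb.cBase, Orb.shapeU, shapeG, Orb.shapeT,
    shapeW, Pi.add_apply, Pi.sub_apply, Pi.smul_apply, smul_eq_mul, Matrix.cons_val, sub_add_cancel,
    one_div_one_div, one_div_div, mul_one, one_mul, mul_zero, zero_mul, add_zero, zero_add, sub_zero,
    neg_zero, zero_div, ← hD, ← hE]
  all_goals (try field_simp)
  all_goals (try simp only [← hD, ← hE])
  all_goals (try field_simp)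
  all_goals
    subst hD hE
    (try ring)

theorem kE_lGG (h : Pt N p q a b R x y z s w) :
    kapFun (lGG (⟨a, b, x, y⟩ : Frame) N p q) a b x y (fldE N p q R x y s w) =
      0 := by
  rw [kap_lGG h]
  obtain ⟨rfl, rfl, rfl, a0, b0, M0, x0, y0, s0, D0, E0, hz⟩ := h
  subst hz
  obtain ⟨D, hD⟩ : ∃ D, D = a * x + b * y := ⟨_, rfl⟩
  obtain ⟨E, hE⟩ : ∃ E, E = b * y - a * x := ⟨_, rfl⟩
  rw [← hD] at D0
  rw [← hE] at E0
  simp only [klGGL, fldA, fldE, fldG, baseVec, regFld, orbAt, Orb.cBase, Orb.shapeU, shapeG, Orb.shapeT,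
    shapeW, Pi.add_apply, Pi.sub_apply, Pi.smul_apply, smul_eq_mul, Matrix.cons_val, sub_add_cancel,
    one_div_one_div, one_div_div, mul_one, one_mul, mul_zero, zero_mul, add_zero, zero_add, sub_zero,
    neg_zero, zero_div, ← hD, ← hE]
  all_goals (try field_simp)
  all_goals (try simp only [← hD, ← hE])
  all_goals (try field_simp)
  all_goals
    subst hD hE
    (try ring)

theorem kE_lLG (h : Pt N p q a b R x y z s w) :
    kapFun (lLG (⟨a, b, x, y⟩ : Frame) N p q z) a b x y (fldE N p q R x y s w) =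
      0 := by
  rw [kap_lLG h]
  obtain ⟨rfl, rfl, rfl, a0, b0, M0, x0, y0, s0, D0, E0, hz⟩ := h
  subst hz
  obtain ⟨D, hD⟩ : ∃ D, D = a * x + b * y := ⟨_, rfl⟩
  obtain ⟨E, hE⟩ : ∃ E, E = b * y - a * x := ⟨_, rfl⟩
  rw [← hD] at D0
  rw [← hE] at E0
  simp only [klLGL, fldA, fldE, fldG, baseVec, regFld, orbAt, Orb.cBase, Orb.shapeU, shapeG, Orb.shapeT,
    shapeW, Pi.add_apply, Pi.sub_apply, Pi.smul_apply, smul_eq_mul, Matrix.cons_val, sub_add_cancel,
    one_div_one_div, one_div_div, mul_one, one_mul, mul_zero, zero_mul, add_zero, zero_add, sub_zero,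
    neg_zero, zero_div, ← hD, ← hE]
  all_goals (try field_simp)
  all_goals (try simp only [← hD, ← hE])
  all_goals (try field_simp)
  all_goals
    subst hD hE
    (try ring)

theorem kG_gE (h : Pt N p q a b R x y z s w) :
    kapFun (gE (⟨a, b, x, y⟩ : Frame)) a b x y (fldG N p q R x y s w) =
      0 := by
  rw [kap_gE h]
  obtain ⟨rfl, rfl, rfl, a0, b0, M0, x0, y0, s0, D0, E0, hz⟩ := h
  subst hz
  obtain ⟨D, hD⟩ : ∃ D, D = a * x + b * y := ⟨_, rfl⟩
  obtain ⟨E, hE⟩ : ∃ E, E = b * y - a * x := ⟨_, rfl⟩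
  rw [← hD] at D0
  rw [← hE] at E0
  simp only [kgEL, fldA, fldE, fldG, baseVec, regFld, orbAt, Orb.cBase, Orb.shapeU, shapeG, Orb.shapeT,
    shapeW, Pi.add_apply, Pi.sub_apply, Pi.smul_apply, smul_eq_mul, Matrix.cons_val, sub_add_cancel,
    one_div_one_div, one_div_div, mul_one, one_mul, mul_zero, zero_mul, add_zero, zero_add, sub_zero,
    neg_zero, zero_div, ← hD, ← hE]
  all_goals (try field_simp)
  all_goals (try simp only [← hD, ← hE])
  all_goals (try field_simp)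
  all_goals
    subst hD hE
    (try ring)

theorem kG_gG (h : Pt N p q a b R x y z s w) :
    kapFun (gG (⟨a, b, x, y⟩ : Frame)) a b x y (fldG N p q R x y s w) =
      0 := by
  rw [kap_gG h]
  obtain ⟨rfl, rfl, rfl, a0, b0, M0, x0, y0, s0, D0, E0, hz⟩ := h
  subst hz
  obtain ⟨D, hD⟩ : ∃ D, D = a * x + b * y := ⟨_, rfl⟩
  obtain ⟨E, hE⟩ : ∃ E, E = b * y - a * x := ⟨_, rfl⟩
  rw [← hD] at D0
  rw [← hE] at E0
  simp only [kgGL, fldA, fldE, fldG, baseVec, regFld, orbAt, Orb.cBase, Orb.shapeU, shapeG, Orb.shapeT,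
    shapeW, Pi.add_apply, Pi.sub_apply, Pi.smul_apply, smul_eq_mul, Matrix.cons_val, sub_add_cancel,
    one_div_one_div, one_div_div, mul_one, one_mul, mul_zero, zero_mul, add_zero, zero_add, sub_zero,
    neg_zero, zero_div, ← hD, ← hE]
  all_goals (try field_simp)
  all_goals (try simp only [← hD, ← hE])
  all_goals (try field_simp)
  all_goals
    subst hD hE
    (try ring)

theorem kG_hEf (h : Pt N p q a b R x y z s w) :
    kapFun (hEf (⟨a, b, x, y⟩ : Frame)) a b x y (fldG N p q R x y s w) =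
      0 := by
  rw [kap_hEf h]
  obtain ⟨rfl, rfl, rfl, a0, b0, M0, x0, y0, s0, D0, E0, hz⟩ := h
  subst hz
  obtain ⟨D, hD⟩ : ∃ D, D = a * x + b * y := ⟨_, rfl⟩
  obtain ⟨E, hE⟩ : ∃ E, E = b * y - a * x := ⟨_, rfl⟩
  rw [← hD] at D0
  rw [← hE] at E0
  simp only [khEfL, fldA, fldE, fldG, baseVec, regFld, orbAt, Orb.cBase, Orb.shapeU, shapeG, Orb.shapeT,
    shapeW, Pi.add_apply, Pi.sub_apply, Pi.smul_apply, smul_eq_mul, Matrix.cons_val, sub_add_cancel,
    one_div_one_div, one_div_div, mul_one, one_mul, mul_zero, zero_mul, add_zero, zero_add, sub_zero,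
    neg_zero, zero_div, ← hD, ← hE]
  all_goals (try field_simp)
  all_goals (try simp only [← hD, ← hE])
  all_goals (try field_simp)
  all_goals
    subst hD hE
    (try ring)

theorem kG_hG (h : Pt N p q a b R x y z s w) :
    kapFun (hG (⟨a, b, x, y⟩ : Frame)) a b x y (fldG N p q R x y s w) =
      0 := by
  rw [kap_hG h]
  obtain ⟨rfl, rfl, rfl, a0, b0, M0, x0, y0, s0, D0, E0, hz⟩ := h
  subst hz
  obtain ⟨D, hD⟩ : ∃ D, D = a * x + b * y := ⟨_, rfl⟩
  obtain ⟨E, hE⟩ : ∃ E, E = b * y - a * x := ⟨_, rfl⟩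
  rw [← hD] at D0
  rw [← hE] at E0
  simp only [khGL, fldA, fldE, fldG, baseVec, regFld, orbAt, Orb.cBase, Orb.shapeU, shapeG, Orb.shapeT,
    shapeW, Pi.add_apply, Pi.sub_apply, Pi.smul_apply, smul_eq_mul, Matrix.cons_val, sub_add_cancel,
    one_div_one_div, one_div_div, mul_one, one_mul, mul_zero, zero_mul, add_zero, zero_add, sub_zero,
    neg_zero, zero_div, ← hD, ← hE]
  all_goals (try field_simp)
  all_goals (try simp only [← hD, ← hE])
  all_goals (try field_simp)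
  all_goals
    subst hD hE
    (try ring)

theorem kG_lME (h : Pt N p q a b R x y z s w) :
    kapFun (lME (⟨a, b, x, y⟩ : Frame) N p q) a b x y (fldG N p q R x y s w) =
      0 := by
  rw [kap_lME h]
  obtain ⟨rfl, rfl, rfl, a0, b0, M0, x0, y0, s0, D0, E0, hz⟩ := h
  subst hz
  obtain ⟨D, hD⟩ : ∃ D, D = a * x + b * y := ⟨_, rfl⟩
  obtain ⟨E, hE⟩ : ∃ E, E = b * y - a * x := ⟨_, rfl⟩
  rw [← hD] at D0
  rw [← hE] at E0
  simp only [klMEL, fldA, fldE, fldG, baseVec, regFld, orbAt, Orb.cBase, Orb.shapeU, shapeG, Orb.shapeT,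
    shapeW, Pi.add_apply, Pi.sub_apply, Pi.smul_apply, smul_eq_mul, Matrix.cons_val, sub_add_cancel,
    one_div_one_div, one_div_div, mul_one, one_mul, mul_zero, zero_mul, add_zero, zero_add, sub_zero,
    neg_zero, zero_div, ← hD, ← hE]
  all_goals (try field_simp)
  all_goals (try simp only [← hD, ← hE])
  all_goals (try field_simp)
  all_goals
    subst hD hE
    (try ring)

theorem kG_lMG (h : Pt N p q a b R x y z s w) :
    kapFun (lMG (⟨a, b, x, y⟩ : Frame) N p q) a b x y (fldG N p q R x y s w) =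
      0 := by
  rw [kap_lMG h]
  obtain ⟨rfl, rfl, rfl, a0, b0, M0, x0, y0, s0, D0, E0, hz⟩ := h
  subst hz
  obtain ⟨D, hD⟩ : ∃ D, D = a * x + b * y := ⟨_, rfl⟩
  obtain ⟨E, hE⟩ : ∃ E, E = b * y - a * x := ⟨_, rfl⟩
  rw [← hD] at D0
  rw [← hE] at E0
  simp only [klMGL, fldA, fldE, fldG, baseVec, regFld, orbAt, Orb.cBase, Orb.shapeU, shapeG, Orb.shapeT,
    shapeW, Pi.add_apply, Pi.sub_apply, Pi.smul_apply, smul_eq_mul, Matrix.cons_val, sub_add_cancel,
    one_div_one_div, one_div_div, mul_one, one_mul, mul_zero, zero_mul, add_zero, zero_add, sub_zero,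
    neg_zero, zero_div, ← hD, ← hE]
  all_goals (try field_simp)
  all_goals (try simp only [← hD, ← hE])
  all_goals (try field_simp)
  all_goals
    subst hD hE
    (try ring)

theorem kG_lEE (h : Pt N p q a b R x y z s w) :
    kapFun (lEE (⟨a, b, x, y⟩ : Frame) N p q) a b x y (fldG N p q R x y s w) =
      0 := by
  rw [kap_lEE h]
  obtain ⟨rfl, rfl, rfl, a0, b0, M0, x0, y0, s0, D0, E0, hz⟩ := h
  subst hz
  obtain ⟨D, hD⟩ : ∃ D, D = a * x + b * y := ⟨_, rfl⟩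
  obtain ⟨E, hE⟩ : ∃ E, E = b * y - a * x := ⟨_, rfl⟩
  rw [← hD] at D0
  rw [← hE] at E0
  simp only [klEEL, fldA, fldE, fldG, baseVec, regFld, orbAt, Orb.cBase, Orb.shapeU, shapeG, Orb.shapeT,
    shapeW, Pi.add_apply, Pi.sub_apply, Pi.smul_apply, smul_eq_mul, Matrix.cons_val, sub_add_cancel,
    one_div_one_div, one_div_div, mul_one, one_mul, mul_zero, zero_mul, add_zero, zero_add, sub_zero,
    neg_zero, zero_div, ← hD, ← hE]
  all_goals (try field_simp)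
  all_goals (try simp only [← hD, ← hE])
  all_goals (try field_simp)
  all_goals
    subst hD hE
    (try ring)

theorem kG_lEG (h : Pt N p q a b R x y z s w) :
    kapFun (lEG (⟨a, b, x, y⟩ : Frame) N p q) a b x y (fldG N p q R x y s w) =
      0 := by
  rw [kap_lEG h]
  obtain ⟨rfl, rfl, rfl, a0, b0, M0, x0, y0, s0, D0, E0, hz⟩ := h
  subst hz
  obtain ⟨D, hD⟩ : ∃ D, D = a * x + b * y := ⟨_, rfl⟩
  obtain ⟨E, hE⟩ : ∃ E, E = b * y - a * x := ⟨_, rfl⟩
  rw [← hD] at D0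
  rw [← hE] at E0
  simp only [klEGL, fldA, fldE, fldG, baseVec, regFld, orbAt, Orb.cBase, Orb.shapeU, shapeG, Orb.shapeT,
    shapeW, Pi.add_apply, Pi.sub_apply, Pi.smul_apply, smul_eq_mul, Matrix.cons_val, sub_add_cancel,
    one_div_one_div, one_div_div, mul_one, one_mul, mul_zero, zero_mul, add_zero, zero_add, sub_zero,
    neg_zero, zero_div, ← hD, ← hE]
  all_goals (try field_simp)
  all_goals (try simp only [← hD, ← hE])
  all_goals (try field_simp)
  all_goals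
    subst hD hE
    (try ring)

theorem kG_lGG (h : Pt N p q a b R x y z s w) :
    kapFun (lGG (⟨a, b, x, y⟩ : Frame) N p q) a b x y (fldG N p q R x y s w) =
      (((a + b - 1))) / (2 * x * y * (a * x + b * y) * (b * y - a * x)) := by
  rw [kap_lGG h]
  obtain ⟨rfl, rfl, rfl, a0, b0, M0, x0, y0, s0, D0, E0, hz⟩ := h
  subst hz
  obtain ⟨D, hD⟩ : ∃ D, D = a * x + b * y := ⟨_, rfl⟩
  obtain ⟨E, hE⟩ : ∃ E, E = b * y - a * x := ⟨_, rfl⟩
  rw [← hD] at D0
  rw [← hE] at E0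
  simp only [klGGL, fldA, fldE, fldG, baseVec, regFld, orbAt, Orb.cBase, Orb.shapeU, shapeG, Orb.shapeT,
    shapeW, Pi.add_apply, Pi.sub_apply, Pi.smul_apply, smul_eq_mul, Matrix.cons_val, sub_add_cancel,
    one_div_one_div, one_div_div, mul_one, one_mul, mul_zero, zero_mul, add_zero, zero_add, sub_zero,
    neg_zero, zero_div, ← hD, ← hE]
  all_goals (try field_simp)
  all_goals (try simp only [← hD, ← hE])
  all_goals (try field_simp)
  all_goals
    subst hD hE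
    (try ring)

theorem kG_lLG (h : Pt N p q a b R x y z s w) :
    kapFun (lLG (⟨a, b, x, y⟩ : Frame) N p q z) a b x y (fldG N p q R x y s w) =
      0 := by
  rw [kap_lLG h]
  obtain ⟨rfl, rfl, rfl, a0, b0, M0, x0, y0, s0, D0, E0, hz⟩ := h
  subst hz
  obtain ⟨D, hD⟩ : ∃ D, D = a * x + b * y := ⟨_, rfl⟩
  obtain ⟨E, hE⟩ : ∃ E, E = b * y - a * x := ⟨_, rfl⟩
  rw [← hD] at D0
  rw [← hE] at E0
  simp only [klLGL, fldA, fldE, fldG, baseVec, regFld, orbAt, Orb.cBase, Orb.shapeU, shapeG, Orb.shapeT,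
    shapeW, Pi.add_apply, Pi.sub_apply, Pi.smul_apply, smul_eq_mul, Matrix.cons_val, sub_add_cancel,
    one_div_one_div, one_div_div, mul_one, one_mul, mul_zero, zero_mul, add_zero, zero_add, sub_zero,
    neg_zero, zero_div, ← hD, ← hE]
  all_goals (try field_simp)
  all_goals (try simp only [← hD, ← hE])
  all_goals (try field_simp)
  all_goals
    subst hD hE
    (try ring)

theorem kW_gE (h : Pt N p q a b R x y z s w) :
    kapFun (gE (⟨a, b, x, y⟩ : Frame)) a b x y (regFld N p q R x y s w 6) =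
      0 := by
  rw [kap_gE h]
  obtain ⟨rfl, rfl, rfl, a0, b0, M0, x0, y0, s0, D0, E0, hz⟩ := h
  subst hz
  obtain ⟨D, hD⟩ : ∃ D, D = a * x + b * y := ⟨_, rfl⟩
  obtain ⟨E, hE⟩ : ∃ E, E = b * y - a * x := ⟨_, rfl⟩
  rw [← hD] at D0
  rw [← hE] at E0
  simp only [kgEL, fldA, fldE, fldG, baseVec, regFld, orbAt, Orb.cBase, Orb.shapeU, shapeG, Orb.shapeT,
    shapeW, Pi.add_apply, Pi.sub_apply, Pi.smul_apply, smul_eq_mul, Matrix.cons_val, sub_add_cancel,
    one_div_one_div, one_div_div, mul_one, one_mul, mul_zero, zero_mul, add_zero, zero_add, sub_zero,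
    neg_zero, zero_div, ← hD, ← hE]
  all_goals (try field_simp)
  all_goals (try simp only [← hD, ← hE])
  all_goals (try field_simp)
  all_goals
    subst hD hE
    (try ring)

theorem kW_gG (h : Pt N p q a b R x y z s w) :
    kapFun (gG (⟨a, b, x, y⟩ : Frame)) a b x y (regFld N p q R x y s w 6) =
      0 := by
  rw [kap_gG h]
  obtain ⟨rfl, rfl, rfl, a0, b0, M0, x0, y0, s0, D0, E0, hz⟩ := h
  subst hz
  obtain ⟨D, hD⟩ : ∃ D, D = a * x + b * y := ⟨_, rfl⟩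
  obtain ⟨E, hE⟩ : ∃ E, E = b * y - a * x := ⟨_, rfl⟩
  rw [← hD] at D0
  rw [← hE] at E0
  simp only [kgGL, fldA, fldE, fldG, baseVec, regFld, orbAt, Orb.cBase, Orb.shapeU, shapeG, Orb.shapeT,
    shapeW, Pi.add_apply, Pi.sub_apply, Pi.smul_apply, smul_eq_mul, Matrix.cons_val, sub_add_cancel,
    one_div_one_div, one_div_div, mul_one, one_mul, mul_zero, zero_mul, add_zero, zero_add, sub_zero,
    neg_zero, zero_div, ← hD, ← hE]
  all_goals (try field_simp)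
  all_goals (try simp only [← hD, ← hE])
  all_goals (try field_simp)
  all_goals
    subst hD hE
    (try ring)

theorem kW_hEf (h : Pt N p q a b R x y z s w) :
    kapFun (hEf (⟨a, b, x, y⟩ : Frame)) a b x y (regFld N p q R x y s w 6) =
      0 := by
  rw [kap_hEf h]
  obtain ⟨rfl, rfl, rfl, a0, b0, M0, x0, y0, s0, D0, E0, hz⟩ := h
  subst hz
  obtain ⟨D, hD⟩ : ∃ D, D = a * x + b * y := ⟨_, rfl⟩
  obtain ⟨E, hE⟩ : ∃ E, E = b * y - a * x := ⟨_, rfl⟩
  rw [← hD] at D0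
  rw [← hE] at E0
  simp only [khEfL, fldA, fldE, fldG, baseVec, regFld, orbAt, Orb.cBase, Orb.shapeU, shapeG, Orb.shapeT,
    shapeW, Pi.add_apply, Pi.sub_apply, Pi.smul_apply, smul_eq_mul, Matrix.cons_val, sub_add_cancel,
    one_div_one_div, one_div_div, mul_one, one_mul, mul_zero, zero_mul, add_zero, zero_add, sub_zero,
    neg_zero, zero_div, ← hD, ← hE]
  all_goals (try field_simp)
  all_goals (try simp only [← hD, ← hE])
  all_goals (try field_simp)
  all_goals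
    subst hD hE
    (try ring)

theorem kW_hG (h : Pt N p q a b R x y z s w) :
    kapFun (hG (⟨a, b, x, y⟩ : Frame)) a b x y (regFld N p q R x y s w 6) =
      0 := by
  rw [kap_hG h]
  obtain ⟨rfl, rfl, rfl, a0, b0, M0, x0, y0, s0, D0, E0, hz⟩ := h
  subst hz
  obtain ⟨D, hD⟩ : ∃ D, D = a * x + b * y := ⟨_, rfl⟩
  obtain ⟨E, hE⟩ : ∃ E, E = b * y - a * x := ⟨_, rfl⟩
  rw [← hD] at D0
  rw [← hE] at E0
  simp only [khGL, fldA, fldE, fldG, baseVec, regFld, orbAt, Orb.cBase, Orb.shapeU, shapeG, Orb.shapeT,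
    shapeW, Pi.add_apply, Pi.sub_apply, Pi.smul_apply, smul_eq_mul, Matrix.cons_val, sub_add_cancel,
    one_div_one_div, one_div_div, mul_one, one_mul, mul_zero, zero_mul, add_zero, zero_add, sub_zero,
    neg_zero, zero_div, ← hD, ← hE]
  all_goals (try field_simp)
  all_goals (try simp only [← hD, ← hE])
  all_goals (try field_simp)
  all_goals
    subst hD hE
    (try ring)

theorem kW_lME (h : Pt N p q a b R x y z s w) :
    kapFun (lME (⟨a, b, x, y⟩ : Frame) N p q) a b x y (regFld N p q R x y s w 6) =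
      0 := by
  rw [kap_lME h]
  obtain ⟨rfl, rfl, rfl, a0, b0, M0, x0, y0, s0, D0, E0, hz⟩ := h
  subst hz
  obtain ⟨D, hD⟩ : ∃ D, D = a * x + b * y := ⟨_, rfl⟩
  obtain ⟨E, hE⟩ : ∃ E, E = b * y - a * x := ⟨_, rfl⟩
  rw [← hD] at D0
  rw [← hE] at E0
  simp only [klMEL, fldA, fldE, fldG, baseVec, regFld, orbAt, Orb.cBase, Orb.shapeU, shapeG, Orb.shapeT,
    shapeW, Pi.add_apply, Pi.sub_apply, Pi.smul_apply, smul_eq_mul, Matrix.cons_val, sub_add_cancel,
    one_div_one_div, one_div_div, mul_one, one_mul, mul_zero, zero_mul, add_zero, zero_add, sub_zero,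
    neg_zero, zero_div, ← hD, ← hE]
  all_goals (try field_simp)
  all_goals (try simp only [← hD, ← hE])
  all_goals (try field_simp)
  all_goals
    subst hD hE
    (try ring)

theorem kW_lMG (h : Pt N p q a b R x y z s w) :
    kapFun (lMG (⟨a, b, x, y⟩ : Frame) N p q) a b x y (regFld N p q R x y s w 6) =
      (((a + b - 1))) / (2 * (a * x + b * y) * (b * y - a * x)) := by
  rw [kap_lMG h]
  obtain ⟨rfl, rfl, rfl, a0, b0, M0, x0, y0, s0, D0, E0, hz⟩ := h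
  subst hz
  obtain ⟨D, hD⟩ : ∃ D, D = a * x + b * y := ⟨_, rfl⟩
  obtain ⟨E, hE⟩ : ∃ E, E = b * y - a * x := ⟨_, rfl⟩
  rw [← hD] at D0
  rw [← hE] at E0
  simp only [klMGL, fldA, fldE, fldG, baseVec, regFld, orbAt, Orb.cBase, Orb.shapeU, shapeG, Orb.shapeT,
    shapeW, Pi.add_apply, Pi.sub_apply, Pi.smul_apply, smul_eq_mul, Matrix.cons_val, sub_add_cancel,
    one_div_one_div, one_div_div, mul_one, one_mul, mul_zero, zero_mul, add_zero, zero_add, sub_zero,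
    neg_zero, zero_div, ← hD, ← hE]
  all_goals (try field_simp)
  all_goals (try simp only [← hD, ← hE])
  all_goals (try field_simp)
  all_goals
    subst hD hE
    (try ring)

theorem kW_lEE (h : Pt N p q a b R x y z s w) :
    kapFun (lEE (⟨a, b, x, y⟩ : Frame) N p q) a b x y (regFld N p q R x y s w 6) =
      0 := by
  rw [kap_lEE h]
  obtain ⟨rfl, rfl, rfl, a0, b0, M0, x0, y0, s0, D0, E0, hz⟩ := h
  subst hz
  obtain ⟨D, hD⟩ : ∃ D, D = a * x + b * y := ⟨_, rfl⟩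
  obtain ⟨E, hE⟩ : ∃ E, E = b * y - a * x := ⟨_, rfl⟩
  rw [← hD] at D0
  rw [← hE] at E0
  simp only [klEEL, fldA, fldE, fldG, baseVec, regFld, orbAt, Orb.cBase, Orb.shapeU, shapeG, Orb.shapeT,
    shapeW, Pi.add_apply, Pi.sub_apply, Pi.smul_apply, smul_eq_mul, Matrix.cons_val, sub_add_cancel,
    one_div_one_div, one_div_div, mul_one, one_mul, mul_zero, zero_mul, add_zero, zero_add, sub_zero,
    neg_zero, zero_div, ← hD, ← hE]
  all_goals (try field_simp)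
  all_goals (try simp only [← hD, ← hE])
  all_goals (try field_simp)
  all_goals
    subst hD hE
    (try ring)

theorem kW_lEG (h : Pt N p q a b R x y z s w) :
    kapFun (lEG (⟨a, b, x, y⟩ : Frame) N p q) a b x y (regFld N p q R x y s w 6) =
      (((a + b - 1))) / (2 * x * y * (a * x + b * y)) := by
  rw [kap_lEG h]
  obtain ⟨rfl, rfl, rfl, a0, b0, M0, x0, y0, s0, D0, E0, hz⟩ := h
  subst hz
  obtain ⟨D, hD⟩ : ∃ D, D = a * x + b * y := ⟨_, rfl⟩
  obtain ⟨E, hE⟩ : ∃ E, E = b * y - a * x := ⟨_, rfl⟩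
  rw [← hD] at D0
  rw [← hE] at E0
  simp only [klEGL, fldA, fldE, fldG, baseVec, regFld, orbAt, Orb.cBase, Orb.shapeU, shapeG, Orb.shapeT,
    shapeW, Pi.add_apply, Pi.sub_apply, Pi.smul_apply, smul_eq_mul, Matrix.cons_val, sub_add_cancel,
    one_div_one_div, one_div_div, mul_one, one_mul, mul_zero, zero_mul, add_zero, zero_add, sub_zero,
    neg_zero, zero_div, ← hD, ← hE]
  all_goals (try field_simp)
  all_goals (try simp only [← hD, ← hE])
  all_goals (try field_simp)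
  all_goals
    subst hD hE
    (try ring)

theorem kW_lGG (h : Pt N p q a b R x y z s w) :
    kapFun (lGG (⟨a, b, x, y⟩ : Frame) N p q) a b x y (regFld N p q R x y s w 6) =
      (((-a ^ 2 * b - a * b ^ 2 + a * b))) / (2 * x * y * (a * x + b * y) * (b * y - a * x)) := by
  rw [kap_lGG h]
  obtain ⟨rfl, rfl, rfl, a0, b0, M0, x0, y0, s0, D0, E0, hz⟩ := h
  subst hz
  obtain ⟨D, hD⟩ : ∃ D, D = a * x + b * y := ⟨_, rfl⟩
  obtain ⟨E, hE⟩ : ∃ E, E = b * y - a * x := ⟨_, rfl⟩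
  rw [← hD] at D0
  rw [← hE] at E0
  simp only [klGGL, fldA, fldE, fldG, baseVec, regFld, orbAt, Orb.cBase, Orb.shapeU, shapeG, Orb.shapeT,
    shapeW, Pi.add_apply, Pi.sub_apply, Pi.smul_apply, smul_eq_mul, Matrix.cons_val, sub_add_cancel,
    one_div_one_div, one_div_div, mul_one, one_mul, mul_zero, zero_mul, add_zero, zero_add, sub_zero,
    neg_zero, zero_div, ← hD, ← hE]
  all_goals (try field_simp)
  all_goals (try simp only [← hD, ← hE])
  all_goals (try field_simp)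
  all_goals
    subst hD hE
    (try ring)

theorem kW_lLG (h : Pt N p q a b R x y z s w) :
    kapFun (lLG (⟨a, b, x, y⟩ : Frame) N p q z) a b x y (regFld N p q R x y s w 6) =
      (R * (y * (-2 * a * b - 2 * b ^ 2 + 2 * b) + x * (-2 * a ^ 2 - 2 * a * b + 2 * a))) / (s *
        (b * y - a * x)) := by
  rw [kap_lLG h]
  obtain ⟨rfl, rfl, rfl, a0, b0, M0, x0, y0, s0, D0, E0, hz⟩ := h
  subst hz
  obtain ⟨D, hD⟩ : ∃ D, D = a * x + b * y := ⟨_, rfl⟩
  obtain ⟨E, hE⟩ : ∃ E, E = b * y - a * x := ⟨_, rfl⟩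
  rw [← hD] at D0
  rw [← hE] at E0
  simp only [klLGL, fldA, fldE, fldG, baseVec, regFld, orbAt, Orb.cBase, Orb.shapeU, shapeG, Orb.shapeT,
    shapeW, Pi.add_apply, Pi.sub_apply, Pi.smul_apply, smul_eq_mul, Matrix.cons_val, sub_add_cancel,
    one_div_one_div, one_div_div, mul_one, one_mul, mul_zero, zero_mul, add_zero, zero_add, sub_zero,
    neg_zero, zero_div, ← hD, ← hE]
  all_goals (try field_simp)
  all_goals (try simp only [← hD, ← hE])
  all_goals (try field_simp)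
  all_goals
    subst hD hE
    (try ring)

end Vale.Agent.P100.Calib.Bridge
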