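import Mathlib
import Vale.Agent.P100.Calib.SlabGenBridgeKap

/-!
# The functionals on the data of a family with parameters
-/

set_option linter.unusedVariables false
set_option linter.unusedSimpArgs false
set_option linter.unusedTactic false
set_option linter.unreachableTactic false

namespace Vale.Agent.P100.Calib.Bridge

variable {N p q kap a b c e2 G G' R x y z s w w₁ e k : ℝ}

/-- The part of the number g of `hG`. -/
noncomputable def rghG (a b x y : ℝ) : ℝ :=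
  (((2))) / (x * y * (a * x + b * y))

/-- The part of the number g of `lMG`. -/
noncomputable def rgMG (a b x y s w : ℝ) : ℝ :=
  ((x * y ^ 2 * (-4 * a - 4 * b + 4) + x ^ 2 * y * (4 * a + 4 * b - 4)) + s * w * ((-1))) / (4 *
    x * y * (a * x + b * y) ^ 3)

/-- The part of the number g of `lEE`. -/
noncomputable def rgEE (a b x y s w : ℝ) : ℝ :=
  ((x * y ^ 2 * (-4) + x ^ 2 * y * (4)) + s * w * ((-1))) / (2 * x * y * (a * x + b * y) ^ 3)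

/-- The part of the number g of `lEG`. -/
noncomputable def rgEG (a b x y s w : ℝ) : ℝ :=
  ((x * y ^ 4 * (4 * b ^ 2) + x ^ 2 * y ^ 3 * (8 * a ^ 2 * b + 16 * a * b ^ 2 + 12 * a * b + 8 *
    b ^ 3 - 8 * b ^ 2 - 4 * b) + x ^ 3 * y ^ 2 * (-8 * a ^ 3 - 16 * a ^ 2 * b + 8 * a ^ 2 - 8 * a
    * b ^ 2 - 12 * a * b + 4 * a) + x ^ 4 * y * (-4 * a ^ 2)) + s * w * (y ^ 2 * (-b ^ 2) + x * y
    * (8 * a * b) + x ^ 2 * (-a ^ 2))) / (4 * x ^ 2 * y ^ 2 * (a * x + b * y) ^ 3 * (b * y - a *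
    x))

/-- The part of the number g of `lGG`. -/
noncomputable def rgGG (a b x y s w : ℝ) : ℝ :=
  ((x * y ^ 2 * (2 * a * b ^ 2 - a * b + 2 * b ^ 3 - b ^ 2 - b) + x ^ 2 * y * (-2 * a ^ 3 - 2 *
    a ^ 2 * b + a ^ 2 + a * b + a)) + s * w * ((a * b))) / (2 * x ^ 2 * y ^ 2 * (a * x + b * y) ^
    3)

/-- The part of the number g of `lLG`. -/
noncomputable def rgLG (a b x y w R : ℝ) : ℝ :=
  (w * R * ((-a - b + 2))) / (x * y * (a * x + b * y))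

/-- The exponent on the first field of `hG`. -/
noncomputable def rkchG (a b x y : ℝ) : ℝ :=
  (((a + b - 1))) / (2 * x * y * (b * y - a * x))

/-- The exponent on the first field of `lMG`. -/
noncomputable def rkcMG (a b x y s w : ℝ) : ℝ :=
  ((x * y ^ 2 * (-4 * a ^ 2 - 8 * a * b + 8 * a - 4 * b ^ 2 + 8 * b - 4) + x ^ 2 * y * (4 * a ^
    2 + 8 * a * b - 8 * a + 4 * b ^ 2 - 8 * b + 4)) + s * w * ((-a ^ 2 - 2 * a * b + 2 * a - b ^ 2
    + 2 * b - 1))) / (16 * x * y * (a * x + b * y) ^ 2 * (b * y - a * x))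

/-- The exponent on the first field of `lEE`. -/
noncomputable def rkcEE (a b x y s w : ℝ) : ℝ :=
  ((x * y ^ 2 * (-4 * a - 4 * b + 4) + x ^ 2 * y * (4 * a + 4 * b - 4)) + s * w * ((-a - b +
    1))) / (8 * x * y * (a * x + b * y) ^ 2 * (b * y - a * x))

/-- The exponent on the first field of `lEG`. -/
noncomputable def rkcEG : ℝ :=
  0

/-- The exponent on the first field of `lGG`. -/
noncomputable def rkcGG : ℝ :=
  0

/-- The exponent on the multiplier of `lMG`. -/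
noncomputable def rkwMG (a b x y s e : ℝ) : ℝ :=
  (s * e * ((-a ^ 2 - 2 * a * b + 2 * a - b ^ 2 + 2 * b - 1))) / (8 * (a * x + b * y) ^ 2 * (b *
    y - a * x))

/-- The exponent on the multiplier of `lEG`. -/
noncomputable def rkwEG : ℝ :=
  0

/-- The exponent on the multiplier of `lGG`. -/
noncomputable def rkwGG : ℝ :=
  0

/-- The exponent on the multiplier of `lLG`. -/
noncomputable def rkwLG (a b x y R e : ℝ) : ℝ :=
  (R * e * ((a ^ 2 + 2 * a * b - 2 * a + b ^ 2 - 2 * b + 1))) / (2 * (b * y - a * x))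

theorem rghG_sum (a0 : a ≠ 0) (b0 : b ≠ 0) (x0 : x ≠ 0) (y0 : y ≠ 0) (s0 : s ≠ 0)
    (D0 : a * x + b * y ≠ 0) (E0 : b * y - a * x ≠ 0) :
    let X := solX a b x y s w
    let Y := solY a b x y s w
    ((((2))) / (x * y * (a * x + b * y))) = rghG a b x y := by
  intro X Y
  simp only [rghG, X, Y, solX, solY, sgm, sgm', cU, cU', cG, cG', wP, wP', wV, wV']
  all_goals
    obtain ⟨D, hD⟩ : ∃ D, D = a * x + b * y := ⟨_, rfl⟩
    obtain ⟨E, hE⟩ : ∃ E, E = b * y - a * x := ⟨_, rfl⟩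
    rw [← hD] at D0
    rw [← hE] at E0
    (try simp only [← hD, ← hE])
    (try field_simp)
    all_goals
      subst hD hE
      (try ring)

theorem rgMG_sum (a0 : a ≠ 0) (b0 : b ≠ 0) (x0 : x ≠ 0) (y0 : y ≠ 0) (s0 : s ≠ 0)
    (D0 : a * x + b * y ≠ 0) (E0 : b * y - a * x ≠ 0) :
    let X := solX a b x y s w
    let Y := solY a b x y s w
    (((x * y ^ 2 * (-a - b + 2) + x ^ 2 * y * (a + b - 2)) + Y * (x * (-1)) + X * (y * (1))) /
      (x * y * (a * x + b * y) ^ 3)) = rgMG a b x y s w := by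
  intro X Y
  simp only [rgMG, X, Y, solX, solY, sgm, sgm', cU, cU', cG, cG', wP, wP', wV, wV']
  all_goals
    obtain ⟨D, hD⟩ : ∃ D, D = a * x + b * y := ⟨_, rfl⟩
    obtain ⟨E, hE⟩ : ∃ E, E = b * y - a * x := ⟨_, rfl⟩
    rw [← hD] at D0
    rw [← hE] at E0
    (try simp only [← hD, ← hE])
    (try field_simp)
    all_goals
      subst hD hE
      (try ring)

theorem rgEE_sum (a0 : a ≠ 0) (b0 : b ≠ 0) (x0 : x ≠ 0) (y0 : y ≠ 0) (s0 : s ≠ 0)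
    (D0 : a * x + b * y ≠ 0) (E0 : b * y - a * x ≠ 0) :
    let X := solX a b x y s w
    let Y := solY a b x y s w
    ((Y * (x * (-2)) + X * (y * (2))) / (x * y * (a * x + b * y) ^ 3)) = rgEE a b x y s w := by
  intro X Y
  simp only [rgEE, X, Y, solX, solY, sgm, sgm', cU, cU', cG, cG', wP, wP', wV, wV']
  all_goals
    obtain ⟨D, hD⟩ : ∃ D, D = a * x + b * y := ⟨_, rfl⟩
    obtain ⟨E, hE⟩ : ∃ E, E = b * y - a * x := ⟨_, rfl⟩
    rw [← hD] at D0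
    rw [← hE] at E0
    (try simp only [← hD, ← hE])
    (try field_simp)
    all_goals
      subst hD hE
      (try ring)

theorem rgEG_sum (a0 : a ≠ 0) (b0 : b ≠ 0) (x0 : x ≠ 0) (y0 : y ≠ 0) (s0 : s ≠ 0)
    (D0 : a * x + b * y ≠ 0) (E0 : b * y - a * x ≠ 0) :
    let X := solX a b x y s w
    let Y := solY a b x y s w
    (((x * y ^ 4 * (2 * b ^ 2) + x ^ 2 * y ^ 3 * (2 * a ^ 2 * b + 4 * a * b ^ 2 - 5 * a * b + 2
      * b ^ 3 - 3 * b ^ 2 - b) + x ^ 3 * y ^ 2 * (-2 * a ^ 3 - 4 * a ^ 2 * b + 3 * a ^ 2 - 2 * a *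
      b ^ 2 + 5 * a * b + a) + x ^ 4 * y * (-2 * a ^ 2)) + Y * (x * y ^ 2 * (-b ^ 2) + x ^ 2 * y *
      (8 * a * b) + x ^ 3 * (-a ^ 2)) + X * (y ^ 3 * (b ^ 2) + x * y ^ 2 * (-8 * a * b) + x ^ 2 *
      y * (a ^ 2))) / (x ^ 2 * y ^ 2 * (a * x + b * y) ^ 3 * (b * y - a * x))) = rgEG a b x y s w := by
  intro X Y
  simp only [rgEG, X, Y, solX, solY, sgm, sgm', cU, cU', cG, cG', wP, wP', wV, wV']
  all_goals
    obtain ⟨D, hD⟩ : ∃ D, D = a * x + b * y := ⟨_, rfl⟩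
    obtain ⟨E, hE⟩ : ∃ E, E = b * y - a * x := ⟨_, rfl⟩
    rw [← hD] at D0
    rw [← hE] at E0
    (try simp only [← hD, ← hE])
    (try field_simp)
    all_goals
      subst hD hE
      (try ring)

theorem rgGG_sum (a0 : a ≠ 0) (b0 : b ≠ 0) (x0 : x ≠ 0) (y0 : y ≠ 0) (s0 : s ≠ 0)
    (D0 : a * x + b * y ≠ 0) (E0 : b * y - a * x ≠ 0) :
    let X := solX a b x y s w
    let Y := solY a b x y s w
    (((x * y ^ 2 * (2 * a * b ^ 2 - 5 * a * b + 2 * b ^ 3 - b ^ 2 - b) + x ^ 2 * y * (-2 * a ^ 3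
      - 2 * a ^ 2 * b + a ^ 2 + 5 * a * b + a)) + Y * (x * (4 * a * b)) + X * (y * (-4 * a * b)))
      / (2 * x ^ 2 * y ^ 2 * (a * x + b * y) ^ 3)) = rgGG a b x y s w := by
  intro X Y
  simp only [rgGG, X, Y, solX, solY, sgm, sgm', cU, cU', cG, cG', wP, wP', wV, wV']
  all_goals
    obtain ⟨D, hD⟩ : ∃ D, D = a * x + b * y := ⟨_, rfl⟩
    obtain ⟨E, hE⟩ : ∃ E, E = b * y - a * x := ⟨_, rfl⟩
    rw [← hD] at D0
    rw [← hE] at E0
    (try simp only [← hD, ← hE])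
    (try field_simp)
    all_goals
      subst hD hE
      (try ring)

theorem rgLG_sum (a0 : a ≠ 0) (b0 : b ≠ 0) (x0 : x ≠ 0) (y0 : y ≠ 0) (s0 : s ≠ 0)
    (D0 : a * x + b * y ≠ 0) (E0 : b * y - a * x ≠ 0) :
    let X := solX a b x y s w
    let Y := solY a b x y s w
    ((w * R * ((-a - b + 2))) / (x * y * (a * x + b * y))) = rgLG a b x y w R := by
  intro X Y
  simp only [rgLG, X, Y, solX, solY, sgm, sgm', cU, cU', cG, cG', wP, wP', wV, wV']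
  all_goals
    obtain ⟨D, hD⟩ : ∃ D, D = a * x + b * y := ⟨_, rfl⟩
    obtain ⟨E, hE⟩ : ∃ E, E = b * y - a * x := ⟨_, rfl⟩
    rw [← hD] at D0
    rw [← hE] at E0
    (try simp only [← hD, ← hE])
    (try field_simp)
    all_goals
      subst hD hE
      (try ring)

theorem rkchG_sum (a0 : a ≠ 0) (b0 : b ≠ 0) (x0 : x ≠ 0) (y0 : y ≠ 0) (s0 : s ≠ 0)
    (D0 : a * x + b * y ≠ 0) (E0 : b * y - a * x ≠ 0) :
    let X := solX a b x y s w
    let Y := solY a b x y s w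
    ((((a + b - 1))) / (2 * x * y * (b * y - a * x))) + cU a b x y s w * (0) + (a + b) * cU a b
      x y s w * (0) + cG a b x y s w * (0) = rkchG a b x y := by
  intro X Y
  simp only [rkchG, X, Y, solX, solY, sgm, sgm', cU, cU', cG, cG', wP, wP', wV, wV']
  all_goals
    obtain ⟨D, hD⟩ : ∃ D, D = a * x + b * y := ⟨_, rfl⟩
    obtain ⟨E, hE⟩ : ∃ E, E = b * y - a * x := ⟨_, rfl⟩
    rw [← hD] at D0
    rw [← hE] at E0
    (try simp only [← hD, ← hE])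
    (try field_simp)
    all_goals
      subst hD hE
      (try ring)

theorem rkcMG_sum (a0 : a ≠ 0) (b0 : b ≠ 0) (x0 : x ≠ 0) (y0 : y ≠ 0) (s0 : s ≠ 0)
    (D0 : a * x + b * y ≠ 0) (E0 : b * y - a * x ≠ 0) :
    let X := solX a b x y s w
    let Y := solY a b x y s w
    (((x * y ^ 2 * (-4 * a ^ 2 - 8 * a * b + 8 * a - 4 * b ^ 2 + 8 * b - 4) + x ^ 2 * y * (4 * a
      ^ 2 + 8 * a * b - 8 * a + 4 * b ^ 2 - 8 * b + 4)) + s * w * ((-a ^ 2 - 2 * a * b + 2 * a - b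
      ^ 2 + 2 * b - 1))) / (16 * x * y * (a * x + b * y) ^ 2 * (b * y - a * x))) + cU a b x y s w
      * (0) + (a + b) * cU a b x y s w * (0) + cG a b x y s w * (0) = rkcMG a b x y s w := by
  intro X Y
  simp only [rkcMG, X, Y, solX, solY, sgm, sgm', cU, cU', cG, cG', wP, wP', wV, wV']
  all_goals
    obtain ⟨D, hD⟩ : ∃ D, D = a * x + b * y := ⟨_, rfl⟩
    obtain ⟨E, hE⟩ : ∃ E, E = b * y - a * x := ⟨_, rfl⟩
    rw [← hD] at D0
    rw [← hE] at E0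
    (try simp only [← hD, ← hE])
    (try field_simp)
    all_goals
      subst hD hE
      (try ring)

theorem rkcEE_sum (a0 : a ≠ 0) (b0 : b ≠ 0) (x0 : x ≠ 0) (y0 : y ≠ 0) (s0 : s ≠ 0)
    (D0 : a * x + b * y ≠ 0) (E0 : b * y - a * x ≠ 0) :
    let X := solX a b x y s w
    let Y := solY a b x y s w
    (((x * y ^ 2 * (-4 * a - 4 * b + 4) + x ^ 2 * y * (4 * a + 4 * b - 4)) + s * w * ((-a - b +
      1))) / (8 * x * y * (a * x + b * y) ^ 2 * (b * y - a * x))) + cU a b x y s w * (0) + (a + b)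
      * cU a b x y s w * (0) + cG a b x y s w * (0) = rkcEE a b x y s w := by
  intro X Y
  simp only [rkcEE, X, Y, solX, solY, sgm, sgm', cU, cU', cG, cG', wP, wP', wV, wV']
  all_goals
    obtain ⟨D, hD⟩ : ∃ D, D = a * x + b * y := ⟨_, rfl⟩
    obtain ⟨E, hE⟩ : ∃ E, E = b * y - a * x := ⟨_, rfl⟩
    rw [← hD] at D0
    rw [← hE] at E0
    (try simp only [← hD, ← hE])
    (try field_simp)
    all_goals
      subst hD hE
      (try ring)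

theorem rkcEG_sum (a0 : a ≠ 0) (b0 : b ≠ 0) (x0 : x ≠ 0) (y0 : y ≠ 0) (s0 : s ≠ 0)
    (D0 : a * x + b * y ≠ 0) (E0 : b * y - a * x ≠ 0) :
    let X := solX a b x y s w
    let Y := solY a b x y s w
    (((x * y ^ 2 * (-4 * a ^ 2 - 8 * a * b - 4 * b ^ 2 + 4) + x ^ 2 * y * (4 * a ^ 2 + 8 * a * b
      + 4 * b ^ 2 - 4)) + s * w * ((-a ^ 2 - 2 * a * b - b ^ 2 + 1))) / (16 * x ^ 2 * y ^ 2 * (a *
      x + b * y) ^ 2)) + cU a b x y s w * ((((a + b - 1))) / (2 * x * y * (b * y - a * x))) + (a +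
      b) * cU a b x y s w * ((((a + b - 1))) / (2 * x * y * (b * y - a * x))) + cG a b x y s w *
      (0) = rkcEG := by
  intro X Y
  simp only [rkcEG, X, Y, solX, solY, sgm, sgm', cU, cU', cG, cG', wP, wP', wV, wV']
  all_goals
    obtain ⟨D, hD⟩ : ∃ D, D = a * x + b * y := ⟨_, rfl⟩
    obtain ⟨E, hE⟩ : ∃ E, E = b * y - a * x := ⟨_, rfl⟩
    rw [← hD] at D0
    rw [← hE] at E0
    (try simp only [← hD, ← hE])
    (try field_simp)
    all_goals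
      subst hD hE
      (try ring)

theorem rkcGG_sum (a0 : a ≠ 0) (b0 : b ≠ 0) (x0 : x ≠ 0) (y0 : y ≠ 0) (s0 : s ≠ 0)
    (D0 : a * x + b * y ≠ 0) (E0 : b * y - a * x ≠ 0) :
    let X := solX a b x y s w
    let Y := solY a b x y s w
    (((x * y ^ 2 * (4 * a ^ 3 * b + 8 * a ^ 2 * b ^ 2 + 4 * a * b ^ 3 - 4 * a * b) + x ^ 2 * y *
      (-4 * a ^ 3 * b - 8 * a ^ 2 * b ^ 2 - 4 * a * b ^ 3 + 4 * a * b)) + s * w * ((a ^ 3 * b + 2
      * a ^ 2 * b ^ 2 + a * b ^ 3 - a * b))) / (16 * x ^ 2 * y ^ 2 * (a * x + b * y) ^ 2 * (b * y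
      - a * x))) + cU a b x y s w * (0) + (a + b) * cU a b x y s w * (0) + cG a b x y s w * ((((a
      + b - 1))) / (2 * x * y * (a * x + b * y) * (b * y - a * x))) = rkcGG := by
  intro X Y
  simp only [rkcGG, X, Y, solX, solY, sgm, sgm', cU, cU', cG, cG', wP, wP', wV, wV']
  all_goals
    obtain ⟨D, hD⟩ : ∃ D, D = a * x + b * y := ⟨_, rfl⟩
    obtain ⟨E, hE⟩ : ∃ E, E = b * y - a * x := ⟨_, rfl⟩
    rw [← hD] at D0
    rw [← hE] at E0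
    (try simp only [← hD, ← hE])
    (try field_simp)
    all_goals
      subst hD hE
      (try ring)

theorem rkwMG_sum (a0 : a ≠ 0) (b0 : b ≠ 0) (x0 : x ≠ 0) (y0 : y ≠ 0) (s0 : s ≠ 0)
    (D0 : a * x + b * y ≠ 0) (E0 : b * y - a * x ≠ 0) :
    let X := solX a b x y s w
    let Y := solY a b x y s w
    a * b * wP a b x y s e * (0) - wV a b x y s e * (0) + wP a b x y s e * ((((a + b - 1))) / (2
      * (a * x + b * y) * (b * y - a * x))) = rkwMG a b x y s e := by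
  intro X Y
  simp only [rkwMG, X, Y, solX, solY, sgm, sgm', cU, cU', cG, cG', wP, wP', wV, wV']
  all_goals
    obtain ⟨D, hD⟩ : ∃ D, D = a * x + b * y := ⟨_, rfl⟩
    obtain ⟨E, hE⟩ : ∃ E, E = b * y - a * x := ⟨_, rfl⟩
    rw [← hD] at D0
    rw [← hE] at E0
    (try simp only [← hD, ← hE])
    (try field_simp)
    all_goals
      subst hD hE
      (try ring)

theorem rkwEG_sum (a0 : a ≠ 0) (b0 : b ≠ 0) (x0 : x ≠ 0) (y0 : y ≠ 0) (s0 : s ≠ 0)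
    (D0 : a * x + b * y ≠ 0) (E0 : b * y - a * x ≠ 0) :
    let X := solX a b x y s w
    let Y := solY a b x y s w
    a * b * wP a b x y s e * (0) - wV a b x y s e * ((((a + b - 1))) / (2 * x * y * (b * y - a *
      x))) + wP a b x y s e * ((((a + b - 1))) / (2 * x * y * (a * x + b * y))) = rkwEG := by
  intro X Y
  simp only [rkwEG, X, Y, solX, solY, sgm, sgm', cU, cU', cG, cG', wP, wP', wV, wV']
  all_goals
    obtain ⟨D, hD⟩ : ∃ D, D = a * x + b * y := ⟨_, rfl⟩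
    obtain ⟨E, hE⟩ : ∃ E, E = b * y - a * x := ⟨_, rfl⟩
    rw [← hD] at D0
    rw [← hE] at E0
    (try simp only [← hD, ← hE])
    (try field_simp)
    all_goals
      subst hD hE
      (try ring)

theorem rkwGG_sum (a0 : a ≠ 0) (b0 : b ≠ 0) (x0 : x ≠ 0) (y0 : y ≠ 0) (s0 : s ≠ 0)
    (D0 : a * x + b * y ≠ 0) (E0 : b * y - a * x ≠ 0) :
    let X := solX a b x y s w
    let Y := solY a b x y s w
    a * b * wP a b x y s e * ((((a + b - 1))) / (2 * x * y * (a * x + b * y) * (b * y - a * x)))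
      - wV a b x y s e * (0) + wP a b x y s e * ((((-a ^ 2 * b - a * b ^ 2 + a * b))) / (2 * x * y
      * (a * x + b * y) * (b * y - a * x))) = rkwGG := by
  intro X Y
  simp only [rkwGG, X, Y, solX, solY, sgm, sgm', cU, cU', cG, cG', wP, wP', wV, wV']
  all_goals
    obtain ⟨D, hD⟩ : ∃ D, D = a * x + b * y := ⟨_, rfl⟩
    obtain ⟨E, hE⟩ : ∃ E, E = b * y - a * x := ⟨_, rfl⟩
    rw [← hD] at D0
    rw [← hE] at E0
    (try simp only [← hD, ← hE])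
    (try field_simp)
    all_goals
      subst hD hE
      (try ring)

theorem rkwLG_sum (a0 : a ≠ 0) (b0 : b ≠ 0) (x0 : x ≠ 0) (y0 : y ≠ 0) (s0 : s ≠ 0)
    (D0 : a * x + b * y ≠ 0) (E0 : b * y - a * x ≠ 0) :
    let X := solX a b x y s w
    let Y := solY a b x y s w
    a * b * wP a b x y s e * (0) - wV a b x y s e * (0) + wP a b x y s e * ((R * (y * (-2 * a *
      b - 2 * b ^ 2 + 2 * b) + x * (-2 * a ^ 2 - 2 * a * b + 2 * a))) / (s * (b * y - a * x))) = rkwLG a b x y R e := by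
  intro X Y
  simp only [rkwLG, X, Y, solX, solY, sgm, sgm', cU, cU', cG, cG', wP, wP', wV, wV']
  all_goals
    obtain ⟨D, hD⟩ : ∃ D, D = a * x + b * y := ⟨_, rfl⟩
    obtain ⟨E, hE⟩ : ∃ E, E = b * y - a * x := ⟨_, rfl⟩
    rw [← hD] at D0
    rw [← hE] at E0
    (try simp only [← hD, ← hE])
    (try field_simp)
    all_goals
      subst hD hE
      (try ring)

theorem GFam.tot_gM (h : GFam N p q a b R x y z s w) :
    pairK (gM (⟨a, b, x, y⟩ : Frame)) N p q kap x y (genC N p q (numAt N c e e2 G) R x y s w)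
        (genD N p q (numAt N c e e2 G) (k / N) G' R x y z s w w₁) =
      (((y ^ 2 * (2 * b) + x * y * (-2) + x ^ 2 * (2 * a))) / ((a * x + b * y) ^ 2)) + c * rcgM
        + e2 * rvgM + 1 * rwgM := by
  obtain ⟨eX, eY⟩ := h.sol
  rw [h.pair_gen (isLin_gM _)]
  simp only [base_gM h.toPt, U_gM h.toPt,
    A_gM h.toPt, A₀_gM h.toPt,
    E_gM h.toPt, E₀_gM h.toPt,
    G_gM h.toPt, G₀_gM h.toPt,
    W_gM h.toPt, W₀_gM h.toPt,
    kap_gM h.toPt,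
    eX, eY, rcgM, rvgM, rwgM]
  ring

theorem GFam.tot_gE (h : GFam N p q a b R x y z s w) :
    pairK (gE (⟨a, b, x, y⟩ : Frame)) N p q kap x y (genC N p q (numAt N c e e2 G) R x y s w)
        (genD N p q (numAt N c e e2 G) (k / N) G' R x y z s w w₁) =
      (((y * (-7 * a * b + b ^ 2 - 3 * b) + x * (-a ^ 2 + 7 * a * b + 3 * a))) / (2 * (a * x + b
        * y) ^ 2)) + c * rcgE a b x y s w + e2 * rvgE + 1 * rwgE a b x y s e + (kap + 1) * (((((a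
        + b - 1))) / (2 * (b * y - a * x)))) := by
  obtain ⟨eX, eY⟩ := h.sol
  rw [h.pair_gen (isLin_gE _)]
  simp only [base_gE h.toPt, U_gE h.toPt,
    A_gE h.toPt, A₀_gE h.toPt,
    E_gE h.toPt, E₀_gE h.toPt,
    G_gE h.toPt, G₀_gE h.toPt,
    W_gE h.toPt, W₀_gE h.toPt,
    kbase_gE h.toPt, kU_gE h.toPt,
    kA_gE h.toPt, kE_gE h.toPt,
    kG_gE h.toPt, kW_gE h.toPt,
    eX, eY, rvgE]
  have h0 := rcgE_sum (w := w) (s := s) h.a0 h.b0 h.x0 h.y0 h.s0 h.D0 h.E0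
  have h1 := rwgE_sum (w := w) (e := e) (s := s) h.a0 h.b0 h.x0 h.y0 h.s0 h.D0 h.E0
  linear_combination c * h0 + 1 * h1

theorem GFam.tot_gG (h : GFam N p q a b R x y z s w) :
    pairK (gG (⟨a, b, x, y⟩ : Frame)) N p q kap x y (genC N p q (numAt N c e e2 G) R x y s w)
        (genD N p q (numAt N c e e2 G) (k / N) G' R x y z s w w₁) =
      ((((a ^ 2 * b + a * b ^ 2 + a * b))) / ((a * x + b * y) ^ 2)) + c * rcgG a b x y s w + e2
        * rvgG x y + 1 * rwgG := by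
  obtain ⟨eX, eY⟩ := h.sol
  rw [h.pair_gen (isLin_gG _)]
  simp only [base_gG h.toPt, U_gG h.toPt,
    A_gG h.toPt, A₀_gG h.toPt,
    E_gG h.toPt, E₀_gG h.toPt,
    G_gG h.toPt, G₀_gG h.toPt,
    W_gG h.toPt, W₀_gG h.toPt,
    kbase_gG h.toPt, kU_gG h.toPt,
    kA_gG h.toPt, kE_gG h.toPt,
    kG_gG h.toPt, kW_gG h.toPt,
    eX, eY]
  have h0 := rcgG_sum (w := w) (s := s) h.a0 h.b0 h.x0 h.y0 h.s0 h.D0 h.E0
  have h1 := rvgG_sum (w := w) (s := s) h.a0 h.b0 h.x0 h.y0 h.s0 h.D0 h.E0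
  have h2 := rwgG_sum (w := w) (e := e) (s := s) h.a0 h.b0 h.x0 h.y0 h.s0 h.D0 h.E0
  linear_combination c * h0 + e2 * h1 + 1 * h2

theorem GFam.tot_hM (h : GFam N p q a b R x y z s w) :
    pairK (hM (⟨a, b, x, y⟩ : Frame)) N p q kap x y (genC N p q (numAt N c e e2 G) R x y s w)
        (genD N p q (numAt N c e e2 G) (k / N) G' R x y z s w w₁) =
      (0) + c * rchM a b x y s w + e2 * rvhM + 1 * rwhM := by
  obtain ⟨eX, eY⟩ := h.sol
  rw [h.pair_gen (isLin_hM _)]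
  simp only [base_hM h.toPt, U_hM h.toPt,
    A_hM h.toPt, A₀_hM h.toPt,
    E_hM h.toPt, E₀_hM h.toPt,
    G_hM h.toPt, G₀_hM h.toPt,
    W_hM h.toPt, W₀_hM h.toPt,
    kap_hM h.toPt,
    eX, eY, rvhM, rwhM]
  have h0 := rchM_sum (w := w) (s := s) h.a0 h.b0 h.x0 h.y0 h.s0 h.D0 h.E0
  linear_combination c * h0

theorem GFam.tot_hEf (h : GFam N p q a b R x y z s w) :
    pairK (hEf (⟨a, b, x, y⟩ : Frame)) N p q kap x y (genC N p q (numAt N c e e2 G) R x y s w)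
        (genD N p q (numAt N c e e2 G) (k / N) G' R x y z s w w₁) =
      (0) + c * rchE a b x y s w + e2 * rvhE x y + 1 * rwhE := by
  obtain ⟨eX, eY⟩ := h.sol
  rw [h.pair_gen (isLin_hEf _)]
  simp only [base_hEf h.toPt, U_hEf h.toPt,
    A_hEf h.toPt, A₀_hEf h.toPt,
    E_hEf h.toPt, E₀_hEf h.toPt,
    G_hEf h.toPt, G₀_hEf h.toPt,
    W_hEf h.toPt, W₀_hEf h.toPt,
    kbase_hEf h.toPt, kU_hEf h.toPt,
    kA_hEf h.toPt, kE_hEf h.toPt,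
    kG_hEf h.toPt, kW_hEf h.toPt,
    eX, eY]
  have h0 := rchE_sum (w := w) (s := s) h.a0 h.b0 h.x0 h.y0 h.s0 h.D0 h.E0
  have h1 := rvhE_sum (w := w) (s := s) h.a0 h.b0 h.x0 h.y0 h.s0 h.D0 h.E0
  have h2 := rwhE_sum (w := w) (e := e) (s := s) h.a0 h.b0 h.x0 h.y0 h.s0 h.D0 h.E0
  linear_combination c * h0 + e2 * h1 + 1 * h2

theorem GFam.tot_hG (h : GFam N p q a b R x y z s w) :
    pairK (hG (⟨a, b, x, y⟩ : Frame)) N p q kap x y (genC N p q (numAt N c e e2 G) R x y s w)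
        (genD N p q (numAt N c e e2 G) (k / N) G' R x y z s w w₁) =
      (0) + c * rchG a b x y s w + e2 * rvhG + 1 * rwhG + G * (rghG a b x y) + (kap + 1) * (c *
        (rkchG a b x y)) := by
  obtain ⟨eX, eY⟩ := h.sol
  rw [h.pair_gen (isLin_hG _)]
  simp only [base_hG h.toPt, U_hG h.toPt,
    A_hG h.toPt, A₀_hG h.toPt,
    E_hG h.toPt, E₀_hG h.toPt,
    G_hG h.toPt, G₀_hG h.toPt,
    W_hG h.toPt, W₀_hG h.toPt,
    kbase_hG h.toPt, kU_hG h.toPt,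
    kA_hG h.toPt, kE_hG h.toPt,
    kG_hG h.toPt, kW_hG h.toPt,
    eX, eY, rvhG]
  have h0 := rchG_sum (w := w) (s := s) h.a0 h.b0 h.x0 h.y0 h.s0 h.D0 h.E0
  have h1 := rwhG_sum (w := w) (e := e) (s := s) h.a0 h.b0 h.x0 h.y0 h.s0 h.D0 h.E0
  have h2 := rghG_sum (w := w) (s := s) h.a0 h.b0 h.x0 h.y0 h.s0 h.D0 h.E0
  have h3 := rkchG_sum (w := w) (s := s) h.a0 h.b0 h.x0 h.y0 h.s0 h.D0 h.E0
  linear_combination c * h0 + 1 * h1 + G * h2 + ((kap + 1) * c) * h3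

theorem GFam.tot_lMM (h : GFam N p q a b R x y z s w) :
    pairK (lMM (⟨a, b, x, y⟩ : Frame) N p q) N p q kap x y (genC N p q (numAt N c e e2 G) R x y s w)
        (genD N p q (numAt N c e e2 G) (k / N) G' R x y z s w w₁) =
      (((y ^ 4 * (a * b ^ 2 + b ^ 3 + b ^ 2) + x * y ^ 3 * (-2 * a * b - 2 * b ^ 2 - 2 * b) + x
        ^ 2 * y ^ 2 * (2 * a ^ 2 * b + 2 * a * b ^ 2 + 2 * a * b + a + b + 1) + x ^ 3 * y * (-2 *
        a ^ 2 - 2 * a * b - 2 * a) + x ^ 4 * (a ^ 3 + a ^ 2 * b + a ^ 2))) / (2 * (a * x + b * y)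
        ^ 4)) + c * rcMM a b x y s w + e2 * rvMM + 1 * rwMM a b x y s w e := by
  obtain ⟨eX, eY⟩ := h.sol
  rw [h.pair_gen (isLin_lMM _ _ _ _)]
  simp only [base_lMM h.toPt, U_lMM h.toPt,
    A_lMM h.toPt, A₀_lMM h.toPt,
    E_lMM h.toPt, E₀_lMM h.toPt,
    G_lMM h.toPt, G₀_lMM h.toPt,
    W_lMM h.toPt, W₀_lMM h.toPt,
    kap_lMM h.toPt,
    eX, eY, rvMM]
  have h0 := rcMM_sum (w := w) (s := s) h.a0 h.b0 h.x0 h.y0 h.s0 h.D0 h.E0
  have h1 := rwMM_sum (w := w) (e := e) (s := s) h.a0 h.b0 h.x0 h.y0 h.s0 h.D0 h.E0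
  linear_combination c * h0 + 1 * h1

theorem GFam.tot_lME (h : GFam N p q a b R x y z s w) :
    pairK (lME (⟨a, b, x, y⟩ : Frame) N p q) N p q kap x y (genC N p q (numAt N c e e2 G) R x y s w)
        (genD N p q (numAt N c e e2 G) (k / N) G' R x y z s w w₁) =
      ((baseME_0_0 a b x y) / (4 * (a * x + b * y) ^ 4)) + c * rcME a b x y s w w₁ + e2 * rvME a
        b x y s w + 1 * rwME a b x y s w e k + (kap + 1) * ((((y ^ 2 * (a ^ 2 * b + 2 * a * b ^ 2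
        + b ^ 3 - b) + x * y * (-a ^ 2 - 2 * a * b - b ^ 2 + 1) + x ^ 2 * (a ^ 3 + 2 * a ^ 2 * b +
        a * b ^ 2 - a))) / (4 * (a * x + b * y) ^ 2 * (b * y - a * x)))) := by
  obtain ⟨eX, eY⟩ := h.sol
  rw [h.pair_gen (isLin_lME _ _ _ _)]
  simp only [base_lME h.toPt, U_lME h.toPt,
    A_lME h.toPt, A₀_lME h.toPt,
    E_lME h.toPt, E₀_lME h.toPt,
    G_lME h.toPt, G₀_lME h.toPt,
    W_lME h.toPt, W₀_lME h.toPt,
    kbase_lME h.toPt, kU_lME h.toPt,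
    kA_lME h.toPt, kE_lME h.toPt,
    kG_lME h.toPt, kW_lME h.toPt,
    eX, eY]
  have h0 := rcME_sum (w := w) (w₁ := w₁) (s := s) h.a0 h.b0 h.x0 h.y0 h.s0 h.D0 h.E0
  have h1 := rvME_sum (w := w) (s := s) h.a0 h.b0 h.x0 h.y0 h.s0 h.D0 h.E0
  have h2 := rwME_sum (w := w) (e := e) (k := k) (s := s) h.a0 h.b0 h.x0 h.y0 h.s0 h.D0 h.E0
  linear_combination c * h0 + e2 * h1 + 1 * h2

theorem GFam.tot_lMG (h : GFam N p q a b R x y z s w) :
    pairK (lMG (⟨a, b, x, y⟩ : Frame) N p q) N p q kap x y (genC N p q (numAt N c e e2 G) R x y s w)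
        (genD N p q (numAt N c e e2 G) (k / N) G' R x y z s w w₁) =
      (((y ^ 2 * (2 * a ^ 3 * b ^ 2 + 4 * a ^ 2 * b ^ 3 + 3 * a ^ 2 * b ^ 2 + 2 * a * b ^ 4 + 2
        * a * b ^ 3 + 2 * a * b ^ 2 - b ^ 4 + b ^ 2) + x * y * (-4 * a ^ 3 * b - 8 * a ^ 2 * b ^ 2
        - 4 * a ^ 2 * b - 4 * a * b ^ 3 - 4 * a * b ^ 2) + x ^ 2 * (2 * a ^ 4 * b - a ^ 4 + 4 * a
        ^ 3 * b ^ 2 + 2 * a ^ 3 * b + 2 * a ^ 2 * b ^ 3 + 3 * a ^ 2 * b ^ 2 + 2 * a ^ 2 * b + a ^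
        2))) / (4 * (a * x + b * y) ^ 4)) + c * rcMG a b x y s w w₁ + e2 * rvMG a b x y s w + 1 *
        rwMG a b x y s e k + G * (rgMG a b x y s w) + (kap + 1) * (((((-a ^ 2 - 2 * a * b - b ^ 2
        + 1))) / (4 * (a * x + b * y) ^ 2)) + c * (rkcMG a b x y s w) + 1 * (rkwMG a b x y s e)) := by
  obtain ⟨eX, eY⟩ := h.sol
  rw [h.pair_gen (isLin_lMG _ _ _ _)]
  simp only [base_lMG h.toPt, U_lMG h.toPt,
    A_lMG h.toPt, A₀_lMG h.toPt,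
    E_lMG h.toPt, E₀_lMG h.toPt,
    G_lMG h.toPt, G₀_lMG h.toPt,
    W_lMG h.toPt, W₀_lMG h.toPt,
    kbase_lMG h.toPt, kU_lMG h.toPt,
    kA_lMG h.toPt, kE_lMG h.toPt,
    kG_lMG h.toPt, kW_lMG h.toPt,
    eX, eY]
  have h0 := rcMG_sum (w := w) (w₁ := w₁) (s := s) h.a0 h.b0 h.x0 h.y0 h.s0 h.D0 h.E0
  have h1 := rvMG_sum (w := w) (s := s) h.a0 h.b0 h.x0 h.y0 h.s0 h.D0 h.E0
  have h2 := rwMG_sum (w := w) (e := e) (k := k) (s := s) h.a0 h.b0 h.x0 h.y0 h.s0 h.D0 h.E0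
  have h3 := rgMG_sum (w := w) (s := s) h.a0 h.b0 h.x0 h.y0 h.s0 h.D0 h.E0
  have h4 := rkcMG_sum (w := w) (s := s) h.a0 h.b0 h.x0 h.y0 h.s0 h.D0 h.E0
  have h5 := rkwMG_sum (w := w) (e := e) (s := s) h.a0 h.b0 h.x0 h.y0 h.s0 h.D0 h.E0
  linear_combination c * h0 + e2 * h1 + 1 * h2 + G * h3 + ((kap + 1) * c) * h4 + (kap + 1) * h5

theorem GFam.tot_lEE (h : GFam N p q a b R x y z s w) :
    pairK (lEE (⟨a, b, x, y⟩ : Frame) N p q) N p q kap x y (genC N p q (numAt N c e e2 G) R x y s w)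
        (genD N p q (numAt N c e e2 G) (k / N) G' R x y z s w w₁) =
      (((y ^ 2 * (3 * a ^ 3 * b ^ 2 + 2 * a ^ 2 * b ^ 3 + 6 * a ^ 2 * b ^ 2 - a * b ^ 4 + 2 * a
        * b ^ 3 + 3 * a * b ^ 2) + x * y * (a ^ 4 * b - 5 * a ^ 3 * b ^ 2 - 5 * a ^ 2 * b ^ 3 - 8
        * a ^ 2 * b ^ 2 - 3 * a ^ 2 * b + a * b ^ 4 - 3 * a * b ^ 2 - 2 * a * b) + x ^ 2 * (-a ^ 4
        * b + 2 * a ^ 3 * b ^ 2 + 2 * a ^ 3 * b + 3 * a ^ 2 * b ^ 3 + 6 * a ^ 2 * b ^ 2 + 3 * a ^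
        2 * b))) / (2 * (a * x + b * y) ^ 4)) + c * rcEE a b x y s w w₁ + e2 * rvEE a b x y s w +
        1 * rwEE a b x y s e + G * (rgEE a b x y s w) + (kap + 1) * ((((y * (-a ^ 3 * b - 2 * a ^
        2 * b ^ 2 - a * b ^ 3 + a * b) + x * (a ^ 3 * b + 2 * a ^ 2 * b ^ 2 + a * b ^ 3 - a * b)))
        / (2 * (a * x + b * y) ^ 2 * (b * y - a * x))) + c * (rkcEE a b x y s w)) := by
  obtain ⟨eX, eY⟩ := h.sol
  rw [h.pair_gen (isLin_lEE _ _ _ _)]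
  simp only [base_lEE h.toPt, U_lEE h.toPt,
    A_lEE h.toPt, A₀_lEE h.toPt,
    E_lEE h.toPt, E₀_lEE h.toPt,
    G_lEE h.toPt, G₀_lEE h.toPt,
    W_lEE h.toPt, W₀_lEE h.toPt,
    kbase_lEE h.toPt, kU_lEE h.toPt,
    kA_lEE h.toPt, kE_lEE h.toPt,
    kG_lEE h.toPt, kW_lEE h.toPt,
    eX, eY]
  have h0 := rcEE_sum (w := w) (w₁ := w₁) (s := s) h.a0 h.b0 h.x0 h.y0 h.s0 h.D0 h.E0
  have h1 := rvEE_sum (w := w) (s := s) h.a0 h.b0 h.x0 h.y0 h.s0 h.D0 h.E0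
  have h2 := rwEE_sum (w := w) (e := e) (k := k) (s := s) h.a0 h.b0 h.x0 h.y0 h.s0 h.D0 h.E0
  have h3 := rgEE_sum (w := w) (s := s) h.a0 h.b0 h.x0 h.y0 h.s0 h.D0 h.E0
  have h4 := rkcEE_sum (w := w) (s := s) h.a0 h.b0 h.x0 h.y0 h.s0 h.D0 h.E0
  linear_combination c * h0 + e2 * h1 + 1 * h2 + G * h3 + ((kap + 1) * c) * h4

theorem GFam.tot_lEG (h : GFam N p q a b R x y z s w) :
    pairK (lEG (⟨a, b, x, y⟩ : Frame) N p q) N p q kap x y (genC N p q (numAt N c e e2 G) R x y s w)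
        (genD N p q (numAt N c e e2 G) (k / N) G' R x y z s w w₁) =
      (((y * (-3 * a ^ 4 * b ^ 2 - 5 * a ^ 3 * b ^ 3 - 7 * a ^ 3 * b ^ 2 - a ^ 2 * b ^ 4 - 6 * a
        ^ 2 * b ^ 3 - 5 * a ^ 2 * b ^ 2 + a * b ^ 5 + a * b ^ 4 - a * b ^ 3 - a * b ^ 2) + x * (-a
        ^ 5 * b + a ^ 4 * b ^ 2 - a ^ 4 * b + 5 * a ^ 3 * b ^ 3 + 6 * a ^ 3 * b ^ 2 + a ^ 3 * b +
        3 * a ^ 2 * b ^ 4 + 7 * a ^ 2 * b ^ 3 + 5 * a ^ 2 * b ^ 2 + a ^ 2 * b))) / (4 * (a * x + b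
        * y) ^ 4)) + c * rcEG a b x y s w + e2 * rvEG a b x y s w + 1 * rwEG a b x y s e + G *
        (rgEG a b x y s w) + G' * (((y * (b) + x * (-a))) / (x * y * a * b * (a * x + b * y) ^ 2))
        + (kap + 1) * (((((a ^ 4 * b + 3 * a ^ 3 * b ^ 2 + a ^ 3 * b + 3 * a ^ 2 * b ^ 3 + 2 * a ^
        2 * b ^ 2 - a ^ 2 * b + a * b ^ 4 + a * b ^ 3 - a * b ^ 2 - a * b))) / (4 * (a * x + b *
        y) ^ 2 * (b * y - a * x))) + c * (rkcEG) + 1 * (rkwEG) + e2 * ((((a + b - 1))) / (2 * x *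
        y * (b * y - a * x)))) := by
  obtain ⟨eX, eY⟩ := h.sol
  rw [h.pair_gen (isLin_lEG _ _ _ _)]
  simp only [base_lEG h.toPt, U_lEG h.toPt,
    A_lEG h.toPt, A₀_lEG h.toPt,
    E_lEG h.toPt, E₀_lEG h.toPt,
    G_lEG h.toPt, G₀_lEG h.toPt,
    W_lEG h.toPt, W₀_lEG h.toPt,
    kbase_lEG h.toPt, kU_lEG h.toPt,
    kA_lEG h.toPt, kE_lEG h.toPt,
    kG_lEG h.toPt, kW_lEG h.toPt,
    eX, eY]
  have h0 := rcEG_sum (w := w) (w₁ := w₁) (s := s) h.a0 h.b0 h.x0 h.y0 h.s0 h.D0 h.E0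
  have h1 := rvEG_sum (w := w) (s := s) h.a0 h.b0 h.x0 h.y0 h.s0 h.D0 h.E0
  have h2 := rwEG_sum (w := w) (e := e) (k := k) (s := s) h.a0 h.b0 h.x0 h.y0 h.s0 h.D0 h.E0
  have h3 := rgEG_sum (w := w) (s := s) h.a0 h.b0 h.x0 h.y0 h.s0 h.D0 h.E0
  have h4 := rkcEG_sum (w := w) (s := s) h.a0 h.b0 h.x0 h.y0 h.s0 h.D0 h.E0
  have h5 := rkwEG_sum (w := w) (e := e) (s := s) h.a0 h.b0 h.x0 h.y0 h.s0 h.D0 h.E0
  linear_combination c * h0 + e2 * h1 + 1 * h2 + G * h3 + ((kap + 1) * c) * h4 + (kap + 1) * h5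

theorem GFam.tot_lGG (h : GFam N p q a b R x y z s w) :
    pairK (lGG (⟨a, b, x, y⟩ : Frame) N p q) N p q kap x y (genC N p q (numAt N c e e2 G) R x y s w)
        (genD N p q (numAt N c e e2 G) (k / N) G' R x y z s w w₁) =
      (0) + c * rcGG a b x y + e2 * rvGG a b x y + 1 * rwGG + G * (rgGG a b x y s w) + G' *
        ((((-2))) / (x * y * (a * x + b * y) ^ 2)) + (kap + 1) * (c * (rkcGG) + 1 * (rkwGG) + G *
        ((((a + b - 1))) / (2 * x * y * (a * x + b * y) * (b * y - a * x)))) := by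
  obtain ⟨eX, eY⟩ := h.sol
  rw [h.pair_gen (isLin_lGG _ _ _ _)]
  simp only [base_lGG h.toPt, U_lGG h.toPt,
    A_lGG h.toPt, A₀_lGG h.toPt,
    E_lGG h.toPt, E₀_lGG h.toPt,
    G_lGG h.toPt, G₀_lGG h.toPt,
    W_lGG h.toPt, W₀_lGG h.toPt,
    kbase_lGG h.toPt, kU_lGG h.toPt,
    kA_lGG h.toPt, kE_lGG h.toPt,
    kG_lGG h.toPt, kW_lGG h.toPt,
    eX, eY]
  have h0 := rcGG_sum (w := w) (w₁ := w₁) (s := s) h.a0 h.b0 h.x0 h.y0 h.s0 h.D0 h.E0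
  have h1 := rvGG_sum (w := w) (s := s) h.a0 h.b0 h.x0 h.y0 h.s0 h.D0 h.E0
  have h2 := rwGG_sum (w := w) (e := e) (k := k) (s := s) h.a0 h.b0 h.x0 h.y0 h.s0 h.D0 h.E0
  have h3 := rgGG_sum (w := w) (s := s) h.a0 h.b0 h.x0 h.y0 h.s0 h.D0 h.E0
  have h4 := rkcGG_sum (w := w) (s := s) h.a0 h.b0 h.x0 h.y0 h.s0 h.D0 h.E0
  have h5 := rkwGG_sum (w := w) (e := e) (s := s) h.a0 h.b0 h.x0 h.y0 h.s0 h.D0 h.E0
  linear_combination c * h0 + e2 * h1 + 1 * h2 + G * h3 + ((kap + 1) * c) * h4 + (kap + 1) * h5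

theorem GFam.tot_lLG (h : GFam N p q a b R x y z s w) :
    pairK (lLG (⟨a, b, x, y⟩ : Frame) N p q z) N p q kap x y (genC N p q (numAt N c e e2 G) R x y s w)
        (genD N p q (numAt N c e e2 G) (k / N) G' R x y z s w w₁) =
      (0) + c * rcLG a b x y w R + e2 * rvLG a b x y w R + 1 * rwLG a b x y R e k + G * (rgLG a
        b x y w R) + (kap + 1) * (1 * (rkwLG a b x y R e)) := by
  obtain ⟨eX, eY⟩ := h.sol
  rw [h.pair_gen (isLin_lLG _ _ _ _ _)]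
  simp only [base_lLG h.toPt, U_lLG h.toPt,
    A_lLG h.toPt, A₀_lLG h.toPt,
    E_lLG h.toPt, E₀_lLG h.toPt,
    G_lLG h.toPt, G₀_lLG h.toPt,
    W_lLG h.toPt, W₀_lLG h.toPt,
    kbase_lLG h.toPt, kU_lLG h.toPt,
    kA_lLG h.toPt, kE_lLG h.toPt,
    kG_lLG h.toPt, kW_lLG h.toPt,
    eX, eY]
  have h0 := rcLG_sum (R := R) (w := w) (s := s) h.a0 h.b0 h.x0 h.y0 h.s0 h.D0 h.E0
  have h1 := rvLG_sum (R := R) (w := w) (s := s) h.a0 h.b0 h.x0 h.y0 h.s0 h.D0 h.E0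
  have h2 := rwLG_sum (R := R) (w := w) (e := e) (k := k) (s := s) h.a0 h.b0 h.x0 h.y0 h.s0 h.D0 h.E0
  have h3 := rgLG_sum (R := R) (w := w) (s := s) h.a0 h.b0 h.x0 h.y0 h.s0 h.D0 h.E0
  have h4 := rkwLG_sum (R := R) (w := w) (e := e) (s := s) h.a0 h.b0 h.x0 h.y0 h.s0 h.D0 h.E0
  linear_combination c * h0 + e2 * h1 + 1 * h2 + G * h3 + (kap + 1) * h4

end Vale.Agent.P100.Calib.Bridge
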