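import Mathlib
import Vale.Agent.P100.Calib.SlabClosed

/-!
# Closed forms of the block entries with the numbers of the family as variables

`a = 1/(p+1)`, `b = a + d`, `v`, `g`, `W`, `W1`, `R` are the variables of `Closed`. The family enters
through `Num`: `c`; `e2`, the number of the field `E d`; `E`, `K` with `N w = d E/(1 + d v)` and
`z N w' = K/(1 + d v)`; `G`, `G1` with `g = d² G` and `z g' = d² G1`; `D2` with `kap + 1 = d² D2`.
-/

set_option linter.unusedVariables false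

namespace Vale.Agent.P100.Calib.ClosedGen

/-- The numbers of a family at a point. -/
structure Num where
  /-- the scalar of the field built from `U · d` -/
  c : ℝ
  /-- the scalar of the field built from `E d` -/
  e2 : ℝ
  /-- the multiplier -/
  E : ℝ
  /-- `z` times its derivative -/
  K : ℝ
  /-- the scalar of the field built from `G d` -/
  G : ℝ
  /-- `z` times its derivative -/
  G1 : ℝ
  /-- the excess of the exponent -/
  D2 : ℝ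

/-- Row g, M, part 1. -/
def gM_1 (a d v : ℝ) : ℝ :=
  (v * (v * (2 * a * d ^ 2) + 4 * a * d - 2 * d) + 4 * a + 2 * d - 2)

/-- Row g, E, part 1. -/
def gE_1 (a d v : ℝ) : ℝ :=
  (v * (-6 * a + d - 3) + 8)

/-- Row g, E, part c. -/
def gE_c (a d v W : ℝ) : ℝ :=
  W * (-2 * a - d - 1)

/-- Row g, E, part w. -/
def gE_w (a d v E : ℝ) : ℝ :=
  E * (-2 * a - d + 1)

/-- Row g, G, part 1. -/
def gG_1 (a d v : ℝ) : ℝ :=
  (2 * a + d + 1)

/-- Row g, G, part c. -/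
def gG_c (a d v g W : ℝ) : ℝ :=
  (v * (-8 * a ^ 2 - 8 * a * d - 2 * d ^ 2 - 2 * d) - 4) + g * W * (a + d)

/-- Row g, G, part v. -/
def gG_v (a d v : ℝ) : ℝ :=
  (1)

/-- Row h, M, part c. -/
def hM_c (a d v g W : ℝ) : ℝ :=
  (v * (-4 * a) + 4) + g * W * (-a - d)

/-- Row h, E, part c. -/
def hE_c (a d v g W : ℝ) : ℝ :=
  (v * (v * (v * (4 * a * d ^ 2) - 16 * a ^ 2 * d - 16 * a * d ^ 2 + 24 * a * d - 4 * d ^ 3 +
    4 * d ^ 2 - 4 * d) - 16 * a ^ 2 - 16 * a * d + 24 * a - 4 * d ^ 2 - 4) - 8) + g * W * (v *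
    (v * (-a * d ^ 2 - d ^ 3) + 2 * a * d + 2 * d ^ 2) + 2 * a + 2 * d)

/-- Row h, E, part v. -/
def hE_v (a d v : ℝ) : ℝ :=
  (1)

/-- Row h, G, part c. -/
def hG_c (a d v g W : ℝ) : ℝ :=
  (v * (-4 * a ^ 2 - 6 * a * d - 2 * d ^ 2 + d - 1) - 4 * a - 2 * d + 2) + g * W * (a + d)

/-- Part of the number g of `EE`. -/
def EE_g (a d v g W : ℝ) : ℝ :=
  (v * (-4 * a) + 4) + g * W * (-a - d)

/-- Part of the number g of `EG`. -/
def EG_g (a d v g W : ℝ) : ℝ :=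
  (v * (v * (v * (4 * a * d ^ 2) + 32 * a ^ 2 * d + 32 * a * d ^ 2 + 16 * a * d + 8 * d ^ 3 -
    8 * d ^ 2 - 4 * d) + 32 * a ^ 2 + 32 * a * d + 16 * a + 8 * d ^ 2 - 28 * d - 4) - 24) + g *
    W * (v * (v * (-a * d ^ 2 - d ^ 3) + 6 * a * d + 6 * d ^ 2) + 6 * a + 6 * d)

/-- Part of the number g of `GG`. -/
def GG_g (a d v g W : ℝ) : ℝ :=
  (v * (4 * a ^ 2 + 6 * a * d - 2 * a + 2 * d ^ 2 - d - 1) + 4 * a + 2 * d) + g * W * (a + d)

/-- Part of the number g of `LG`. -/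
def LG_g (a d v W R : ℝ) : ℝ :=
  W * R * (-2 * a - d + 2)

/-- Part of the number g of `MG`. -/
def MG_g (a d v g W : ℝ) : ℝ :=
  (v * (-8 * a ^ 2 - 4 * a * d + 4 * a) + 8 * a + 4 * d - 4) + g * W * (-a - d)

/-- Part of the number g of `hG`. -/
def hG_g (a d v : ℝ) : ℝ :=
  (2)

/-- Part of the derivative of g of `EG`. -/
def EG_g0 (a d v : ℝ) : ℝ :=
  (v * (1))

/-- Part of the derivative of g of `GG`. -/
def GG_g0 (a d v : ℝ) : ℝ :=
  (-2)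

/-- Part of the exponent on the base of `EE`. -/
def EE_k1 (a d v : ℝ) : ℝ :=
  (v * (-4 * a ^ 3 - 4 * a ^ 2 * d - a * d ^ 2 + a) + 4 * a ^ 2 + 4 * a * d + d ^ 2 - 1)

/-- Part of the exponent on the base of `EG`. -/
def EG_k1 (a d v : ℝ) : ℝ :=
  (8 * a ^ 3 + 12 * a ^ 2 * d + 4 * a ^ 2 + 6 * a * d ^ 2 + 4 * a * d - 2 * a + d ^ 3 + d ^ 2
    - d - 1)

/-- Part of the exponent on the base of `ME`. -/
def ME_k1 (a d v : ℝ) : ℝ :=
  (v * (v * (4 * a ^ 3 * d ^ 2 + 4 * a ^ 2 * d ^ 3 + a * d ^ 4 - a * d ^ 2) + 8 * a ^ 3 * d +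
    8 * a ^ 2 * d ^ 2 - 4 * a ^ 2 * d + 2 * a * d ^ 3 - 4 * a * d ^ 2 - 2 * a * d - d ^ 3 + d) +
    8 * a ^ 3 + 12 * a ^ 2 * d - 4 * a ^ 2 + 6 * a * d ^ 2 - 4 * a * d - 2 * a + d ^ 3 - d ^ 2 -
    d + 1)

/-- Part of the exponent on the base of `MG`. -/
def MG_k1 (a d v : ℝ) : ℝ :=
  (-4 * a ^ 2 - 4 * a * d - d ^ 2 + 1)

/-- Part of the exponent on the base of `gE`. -/
def gE_k1 (a d v : ℝ) : ℝ :=
  (2 * a + d - 1)

/-- Part of the exponent on the first field of `EE`. -/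
def EE_kc (a d v g W : ℝ) : ℝ :=
  (v * (-8 * a ^ 2 - 4 * a * d + 4 * a) + 8 * a + 4 * d - 4) + g * W * (-2 * a ^ 2 - 3 * a * d
    + a - d ^ 2 + d)

/-- Part of the exponent on the first field of `MG`. -/
def MG_kc (a d v g W : ℝ) : ℝ :=
  (v * (-16 * a ^ 3 - 16 * a ^ 2 * d + 16 * a ^ 2 - 4 * a * d ^ 2 + 8 * a * d - 4 * a) + 16 *
    a ^ 2 + 16 * a * d - 16 * a + 4 * d ^ 2 - 8 * d + 4) + g * W * (-4 * a ^ 3 - 8 * a ^ 2 * d +
    4 * a ^ 2 - 5 * a * d ^ 2 + 6 * a * d - a - d ^ 3 + 2 * d ^ 2 - d)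

/-- Part of the exponent on the first field of `hG`. -/
def hG_kc (a d v : ℝ) : ℝ :=
  (2 * a + d - 1)

/-- Part of the exponent on the G field of `GG`. -/
def GG_kg (a d v : ℝ) : ℝ :=
  (2 * a + d - 1)

/-- Part of the exponent on the E field of `EG`. -/
def EG_kv (a d v : ℝ) : ℝ :=
  (2 * a + d - 1)

/-- Part of the exponent on the multiplier of `LG`. -/
def LG_kw (a d v R E : ℝ) : ℝ :=
  R * E * (4 * a ^ 2 + 4 * a * d - 4 * a + d ^ 2 - 2 * d + 1)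

/-- Part of the exponent on the multiplier of `MG`. -/
def MG_kw (a d v E : ℝ) : ℝ :=
  E * (-4 * a ^ 2 - 4 * a * d + 4 * a - d ^ 2 + 2 * d - 1)

/-- Row g, M. -/
noncomputable def gMS (a d v g W W1 R : ℝ) (t : Num) : ℝ :=
  (gM_1 a d v)

/-- Row g, E. -/
noncomputable def gES (a d v g W W1 R : ℝ) (t : Num) : ℝ :=
  2 * a * (a + d) * v * (gE_1 a d v) + t.c * (a + d) * v * g * (gE_c a d v W) + 2 * a * v * g
    * (gE_w a d v t.E) + 2 * t.D2 * a * (a + d) * (2 + d * v) ^ 2 * (gE_k1 a d v)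

/-- Row g, G. -/
noncomputable def gGS (a d v g W W1 R : ℝ) (t : Num) : ℝ :=
  2 * a * (a + d) * v * (1 + d * v) * (gG_1 a d v) + t.c * (1 + d * v) * (gG_c a d v g W) + 2
    * t.e2 * a * (a + d) * v * (2 + d * v) ^ 2 * (gG_v a d v)

/-- Row h, M. -/
noncomputable def hMS (a d v g W W1 R : ℝ) (t : Num) : ℝ :=
  t.c * (hM_c a d v g W)

/-- Row h, E. -/
noncomputable def hES (a d v g W W1 R : ℝ) (t : Num) : ℝ :=
  t.c * (hE_c a d v g W) + 4 * t.e2 * a * (a + d) * v * (2 + d * v) ^ 2 * (hE_v a d v)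

/-- Row h, G. -/
noncomputable def hGS (a d v g W W1 R : ℝ) (t : Num) : ℝ :=
  t.c * v * (hG_c a d v g W) + 2 * t.G * v * d * (2 + d * v) * (hG_g a d v) + t.D2 * t.c * (2
    + d * v) ^ 2 * (hG_kc a d v)

/-- Linear part EG; ray gap for LG. -/
noncomputable def LEGS (a d v g W W1 R : ℝ) (t : Num) : ℝ :=
  2 * a * v * (1 + d * v) * (Closed.LEG1 a d v) + t.c * v * (1 + d * v) * (Closed.LEGc a d v g
    W) + 4 * t.e2 * a * v * (2 + d * v) ^ 2 * (Closed.LEGv a d v g W) + 2 * a * v * (1 + d * v)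
    * (Closed.LEGw a d v g t.E) + 2 * t.G * d * (2 + d * v) * (EG_g a d v g W) + 8 * t.G1 * v *
    d ^ 2 * (2 + d * v) ^ 2 * (EG_g0 a d v) + 2 * t.D2 * a * (a + d) * (2 + d * v) ^ 2 * (1 + d
    * v) * (EG_k1 a d v) + 4 * t.D2 * t.e2 * a * (a + d) * (2 + d * v) ^ 4 * (EG_kv a d v)

/-- Linear part GG; ray gap for LG. -/
noncomputable def LGGS (a d v g W W1 R : ℝ) (t : Num) : ℝ :=
  t.c * v * (Closed.LGGc a d v) + t.e2 * a * v * (2 + d * v) * (Closed.LGGv a d v) + t.G * v *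
    d ^ 3 * (GG_g a d v g W) + 2 * t.G1 * v * d ^ 2 * (2 + d * v) * (GG_g0 a d v) + t.D2 * t.G *
    d ^ 3 * (2 + d * v) ^ 2 * (GG_kg a d v)

/-- Linear part EE; ray gap for LG. -/
noncomputable def LEES (a d v g W W1 R : ℝ) (t : Num) : ℝ :=
  4 * a * (a + d) * v * (1 + d * v) * (Closed.LEE1 a d v) + t.c * (1 + d * v) * (Closed.LEEc a
    d v g W W1) + 2 * t.e2 * a * (a + d) * (2 + d * v) ^ 2 * (Closed.LEEv a d v g W) + 4 * a * v
    * (1 + d * v) * (Closed.LEEw a d v g t.E) + 4 * t.G * v * d ^ 3 * (2 + d * v) * (1 + d * v)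
    * (EE_g a d v g W) + 4 * t.D2 * a * (a + d) * d ^ 2 * (2 + d * v) ^ 2 * (1 + d * v) * (EE_k1
    a d v) + t.D2 * t.c * d ^ 2 * (2 + d * v) ^ 2 * (1 + d * v) * (EE_kc a d v g W)

/-- Linear part MG; ray gap for LG. -/
noncomputable def LMGS (a d v g W W1 R : ℝ) (t : Num) : ℝ :=
  4 * a * (a + d) * v * (1 + d * v) * (Closed.LMG1 a d v) + t.c * (1 + d * v) * (Closed.LMGc a
    d v g W W1) + 8 * t.e2 * a * (a + d) * (2 + d * v) ^ 2 * (Closed.LMGv a d v g W) + 2 * a *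
    (1 + d * v) * (Closed.LMGw a d v g t.E t.K) + 4 * t.G * v * d ^ 3 * (2 + d * v) * (1 + d *
    v) * (MG_g a d v g W) + 4 * t.D2 * a * (a + d) * v * d ^ 2 * (2 + d * v) ^ 2 * (1 + d * v) *
    (MG_k1 a d v) + t.D2 * t.c * d ^ 2 * (2 + d * v) ^ 2 * (1 + d * v) * (MG_kc a d v g W) + 2 *
    t.D2 * a * d ^ 2 * g * (2 + d * v) ^ 2 * (1 + d * v) * (MG_kw a d v t.E)

/-- Linear part LG; ray gap for LG. -/
noncomputable def LLGS (a d v g W W1 R : ℝ) (t : Num) : ℝ :=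
  t.c * v * (2 + d * v) * (1 + d * v) * (Closed.LLGc a d v W R) + t.e2 * a * v * (2 + d * v) ^
    2 * (Closed.LLGv a d v W R) + a * (1 + d * v) * (Closed.LLGw a d v R t.E t.K) + 2 * t.G * (a
    + d) * v * d ^ 3 * (2 + d * v) * (1 + d * v) * (LG_g a d v W R) + t.D2 * a * d ^ 2 * (2 + d
    * v) ^ 2 * (1 + d * v) * (LG_kw a d v R t.E)

/-- ME, part c. -/
def TME_c (a d v W W1 : ℝ) : ℝ :=
  W1 * (v * (2 * a ^ 2 * d + 3 * a * d ^ 2 + a * d + d ^ 3 + d ^ 2) + 4 * a ^ 2 + 6 * a * d +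
    2 * a + 2 * d ^ 2 + 2 * d) + W * (v * (-8 * a ^ 3 * d - 12 * a ^ 2 * d ^ 2 - 6 * a * d ^ 3 +
    4 * a * d - d ^ 4 + 2 * d ^ 2 + d) - 8 * a ^ 3 - 12 * a ^ 2 * d - 6 * a * d ^ 2 + 2 * a - d
    ^ 3 + d)

/-- ME, part v. -/
def TME_v (a d v W : ℝ) : ℝ :=
  W * (2 * a + d - 3)

/-- ME, part w. -/
def TME_w (a d v g W E K : ℝ) : ℝ :=
  K * (v * (v * (v * (-4 * a * d - 2 * d ^ 2 + 2 * d) - 8 * a - 4 * d + 4))) + E * (v * (v *
    (4 * a * d ^ 2 + 2 * d ^ 3 - 2 * d ^ 2) + 12 * a * d - 4 * a + 6 * d ^ 2 - 8 * d + 2) + 8 *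
    a + 4 * d - 4) + g * W * E * (v * (-2 * a ^ 2 * d - 3 * a * d ^ 2 + a * d - d ^ 3 + d ^ 2) -
    2 * a ^ 2 - 3 * a * d + a - d ^ 2 + d)

/-- The block, ME. -/
noncomputable def TMES (a d v g W W1 R : ℝ) (t : Num) : ℝ :=
  t.c * (a + d) * v * (TME_c a d v W W1) + t.e2 * a * (a + d) ^ 2 * v * (2 + d * v) ^ 2 *
    (TME_v a d v W) + a * (TME_w a d v g W t.E t.K)

/-- The block, M². -/
def TMM_w (a d v W E : ℝ) : ℝ :=
  W * E * (v * (2 * a * d + d ^ 2 - d) + 2 * a + d - 1)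

/-- The block, M². -/
noncomputable def TMMS (a d v g W W1 R : ℝ) (t : Num) : ℝ :=
  (TMM_w a d v W t.E)

/-- The block, G², times c. -/
noncomputable def TGGS (a d v g W W1 R : ℝ) (t : Num) : ℝ :=
  8 * t.c * a * (a + d) * v * (2 + d * v) * (1 + d * v) * (LGGS a d v g W W1 R t) +
    (-Closed.j1 a d) * t.c * (gGS a d v g W W1 R t) ^ 2 + (-Closed.j1 a d) * a * (a + d) * d ^ 2
    * (1 + d * v) * (hGS a d v g W W1 R t) ^ 2

/-- The block, EG, times c. -/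
noncomputable def TEGS (a d v g W W1 R : ℝ) (t : Num) : ℝ :=
  4 * t.c * a * (a + d) * v * (LEGS a d v g W W1 R t) + (-(2 * Closed.j1 a d)) * t.c * (gES a
    d v g W W1 R t) * (gGS a d v g W W1 R t) + (-(2 * Closed.j1 a d)) * a * (a + d) * (hES a d v
    g W W1 R t) * (hGS a d v g W W1 R t)

/-- The block, E², times c. -/
noncomputable def TEES (a d v g W W1 R : ℝ) (t : Num) : ℝ :=
  8 * t.c * a * (a + d) * v * (LEES a d v g W W1 R t) + (1 / 2 - Closed.j1 a d) * t.c * d ^ 2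
    * (1 + d * v) * (gES a d v g W W1 R t) ^ 2 + (1 / 2 - Closed.j1 a d) * a * (a + d) * (hES a
    d v g W W1 R t) ^ 2 + 8 * (-2) * t.c * a * (a + d) * v * (gMS a d v g W W1 R t) * (gGS a d v
    g W W1 R t) + 4 * (-2) * a * (a + d) * v * d ^ 2 * (1 + d * v) * (hMS a d v g W W1 R t) *
    (hGS a d v g W W1 R t)

/-- The block, MG, times c. -/
noncomputable def TMGS (a d v g W W1 R : ℝ) (t : Num) : ℝ :=
  4 * t.c * a * (a + d) * v * (LMGS a d v g W W1 R t) + 8 * (2 - 2 * Closed.j1 a d) * t.c * a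
    * (a + d) * v * (gMS a d v g W W1 R t) * (gGS a d v g W W1 R t) + 4 * (2 - 2 * Closed.j1 a
    d) * a * (a + d) * v * d ^ 2 * (1 + d * v) * (hMS a d v g W W1 R t) * (hGS a d v g W W1 R t)
    + (-1 / 2) * t.c * d ^ 2 * (1 + d * v) * (gES a d v g W W1 R t) ^ 2 + (-1 / 2) * a * (a + d)
    * (hES a d v g W W1 R t) ^ 2

/-- `E² + MG`, times c. -/
noncomputable def TAS (a d v g W W1 R : ℝ) (t : Num) : ℝ :=
  TEES a d v g W W1 R t + TMGS a d v g W W1 R t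

/-- The arrow determinant, times c². -/
noncomputable def TArrowS (a d v g W W1 R : ℝ) (t : Num) : ℝ :=
  4 * (TAS a d v g W W1 R t) * (TMMS a d v g W W1 R t) * (TGGS a d v g W W1 R t) + (-1) * d ^
    2 * (1 + d * v) * (TEGS a d v g W W1 R t) ^ 2 * (TMMS a d v g W W1 R t) + (-16) * t.c * (1 +
    d * v) * (TMES a d v g W W1 R t) ^ 2 * (TGGS a d v g W W1 R t)

/-- The signs in closed form, the multiplier being the `MG` entry. -/
def Signs (a d v g W W1 R : ℝ) (t : Num) : Prop :=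
  0 < TGGS a d v g W W1 R t ∧ 0 < TMMS a d v g W W1 R t ∧ 0 < TArrowS a d v g W W1 R t ∧
    0 ≤ TMGS a d v g W W1 R t ∧ 0 ≤ LLGS a d v g W W1 R t

end Vale.Agent.P100.Calib.ClosedGen
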