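import Mathlib
import Vale.Agent.P100.Calib.SlabGenBridgeSum
import Vale.Agent.P100.Calib.SlabBridgeSubst
import Vale.Agent.P100.Calib.SlabGenClosed

/-!
# The functionals in the closed variables, with the numbers of the family as variables
-/

set_option linter.unusedVariables false
set_option linter.unusedSimpArgs false
set_option linter.unusedTactic false
set_option linter.unreachableTactic false

namespace Vale.Agent.P100.Calib.Bridge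

variable {N p q a d v g W W1 R x z : ℝ} {t : ClosedGen.Num}

theorem gval_gM (hch : Ch a d v x) (h : GFam N p q a (a + d) (R / x) x (sy a d v x) z (g * sy a d v x)
    (d * W * x ^ 2)) :
    pairK (gM (⟨a, a + d, x, sy a d v x⟩ : Frame)) N p q (-1 + d ^ 2 * t.D2) x (sy a d v x)
        (genC N p q (numAt N t.c (d * t.E / (1 + d * v)) t.e2 (d ^ 2 * t.G)) (R / x) x (sy a d v x)
          (g * sy a d v x) (d * W * x ^ 2))
        (genD N p q (numAt N t.c (d * t.E / (1 + d * v)) t.e2 (d ^ 2 * t.G)) (t.K / (1 + d * v) / N)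
          (d ^ 2 * t.G1) (R / x) x (sy a d v x) z (g * sy a d v x) (d * W * x ^ 2) (d * W1 * x ^ 3)) =
      ClosedGen.gMS a d v g W W1 R t / (a * (a + d) * (2 + d * v) ^ 2) := by
  rw [h.tot_gM]
  obtain ⟨eD, eE⟩ := hch.eqs
  obtain ⟨a0, b0, d0, v0, x0, P0, Q0⟩ := hch
  simp only [rcgM, rvgM, rwgM, ClosedGen.gMS, ClosedGen.gM_1]
  (try simp only [eD, eE])
  simp only [sy]
  obtain ⟨P, hP⟩ : ∃ P, P = 2 + d * v := ⟨_, rfl⟩
  obtain ⟨Q, hQ⟩ : ∃ Q, Q = 1 + d * v := ⟨_, rfl⟩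
  obtain ⟨B, hB⟩ : ∃ B, B = a + d := ⟨_, rfl⟩
  rw [← hP] at P0
  rw [← hQ] at Q0
  rw [← hB] at b0
  simp only [← hP, ← hQ, ← hB]
  field_simp
  subst hP hQ hB
  ring

theorem gval_gE (hch : Ch a d v x) (h : GFam N p q a (a + d) (R / x) x (sy a d v x) z (g * sy a d v x)
    (d * W * x ^ 2)) :
    pairK (gE (⟨a, a + d, x, sy a d v x⟩ : Frame)) N p q (-1 + d ^ 2 * t.D2) x (sy a d v x)
        (genC N p q (numAt N t.c (d * t.E / (1 + d * v)) t.e2 (d ^ 2 * t.G)) (R / x) x (sy a d v x)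
          (g * sy a d v x) (d * W * x ^ 2))
        (genD N p q (numAt N t.c (d * t.E / (1 + d * v)) t.e2 (d ^ 2 * t.G)) (t.K / (1 + d * v) / N)
          (d ^ 2 * t.G1) (R / x) x (sy a d v x) z (g * sy a d v x) (d * W * x ^ 2) (d * W1 * x ^ 3)) =
      d * ClosedGen.gES a d v g W W1 R t / (4 * a ^ 2 * (a + d) * v * (2 + d * v) ^ 2 * x) := by
  rw [h.tot_gE]
  obtain ⟨eD, eE⟩ := hch.eqs
  obtain ⟨a0, b0, d0, v0, x0, P0, Q0⟩ := hch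
  simp only [rcgE, rvgE, rwgE, ClosedGen.gES, ClosedGen.gE_1, ClosedGen.gE_c, ClosedGen.gE_w,
    ClosedGen.gE_k1]
  (try simp only [eD, eE])
  simp only [sy]
  obtain ⟨P, hP⟩ : ∃ P, P = 2 + d * v := ⟨_, rfl⟩
  obtain ⟨Q, hQ⟩ : ∃ Q, Q = 1 + d * v := ⟨_, rfl⟩
  obtain ⟨B, hB⟩ : ∃ B, B = a + d := ⟨_, rfl⟩
  rw [← hP] at P0
  rw [← hQ] at Q0
  rw [← hB] at b0
  simp only [← hP, ← hQ, ← hB]
  field_simp
  subst hP hQ hB
  ring

theorem gval_gG (hch : Ch a d v x) (h : GFam N p q a (a + d) (R / x) x (sy a d v x) z (g * sy a d v x)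
    (d * W * x ^ 2)) :
    pairK (gG (⟨a, a + d, x, sy a d v x⟩ : Frame)) N p q (-1 + d ^ 2 * t.D2) x (sy a d v x)
        (genC N p q (numAt N t.c (d * t.E / (1 + d * v)) t.e2 (d ^ 2 * t.G)) (R / x) x (sy a d v x)
          (g * sy a d v x) (d * W * x ^ 2))
        (genD N p q (numAt N t.c (d * t.E / (1 + d * v)) t.e2 (d ^ 2 * t.G)) (t.K / (1 + d * v) / N)
          (d ^ 2 * t.G1) (R / x) x (sy a d v x) z (g * sy a d v x) (d * W * x ^ 2) (d * W1 * x ^ 3)) =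
      ClosedGen.gGS a d v g W W1 R t / (2 * a ^ 2 * v * (2 + d * v) ^ 2 * (1 + d * v) * x ^ 2) := by
  rw [h.tot_gG]
  obtain ⟨eD, eE⟩ := hch.eqs
  obtain ⟨a0, b0, d0, v0, x0, P0, Q0⟩ := hch
  simp only [rcgG, rvgG, rwgG, ClosedGen.gGS, ClosedGen.gG_1, ClosedGen.gG_c, ClosedGen.gG_v]
  (try simp only [eD, eE])
  simp only [sy]
  obtain ⟨P, hP⟩ : ∃ P, P = 2 + d * v := ⟨_, rfl⟩
  obtain ⟨Q, hQ⟩ : ∃ Q, Q = 1 + d * v := ⟨_, rfl⟩
  obtain ⟨B, hB⟩ : ∃ B, B = a + d := ⟨_, rfl⟩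
  rw [← hP] at P0
  rw [← hQ] at Q0
  rw [← hB] at b0
  simp only [← hP, ← hQ, ← hB]
  field_simp
  subst hP hQ hB
  ring

theorem gval_hM (hch : Ch a d v x) (h : GFam N p q a (a + d) (R / x) x (sy a d v x) z (g * sy a d v x)
    (d * W * x ^ 2)) :
    pairK (hM (⟨a, a + d, x, sy a d v x⟩ : Frame)) N p q (-1 + d ^ 2 * t.D2) x (sy a d v x)
        (genC N p q (numAt N t.c (d * t.E / (1 + d * v)) t.e2 (d ^ 2 * t.G)) (R / x) x (sy a d v x)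
          (g * sy a d v x) (d * W * x ^ 2))
        (genD N p q (numAt N t.c (d * t.E / (1 + d * v)) t.e2 (d ^ 2 * t.G)) (t.K / (1 + d * v) / N)
          (d ^ 2 * t.G1) (R / x) x (sy a d v x) z (g * sy a d v x) (d * W * x ^ 2) (d * W1 * x ^ 3)) =
      d * ClosedGen.hMS a d v g W W1 R t / (2 * a ^ 2 * (a + d) * (2 + d * v) ^ 2 * x) := by
  rw [h.tot_hM]
  obtain ⟨eD, eE⟩ := hch.eqs
  obtain ⟨a0, b0, d0, v0, x0, P0, Q0⟩ := hch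
  simp only [rchM, rvhM, rwhM, ClosedGen.hMS, ClosedGen.hM_c]
  (try simp only [eD, eE])
  simp only [sy]
  obtain ⟨P, hP⟩ : ∃ P, P = 2 + d * v := ⟨_, rfl⟩
  obtain ⟨Q, hQ⟩ : ∃ Q, Q = 1 + d * v := ⟨_, rfl⟩
  obtain ⟨B, hB⟩ : ∃ B, B = a + d := ⟨_, rfl⟩
  rw [← hP] at P0
  rw [← hQ] at Q0
  rw [← hB] at b0
  simp only [← hP, ← hQ, ← hB]
  field_simp
  subst hP hQ hB
  ring

theorem gval_hEf (hch : Ch a d v x) (h : GFam N p q a (a + d) (R / x) x (sy a d v x) z (g * sy a d v x)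
    (d * W * x ^ 2)) :
    pairK (hEf (⟨a, a + d, x, sy a d v x⟩ : Frame)) N p q (-1 + d ^ 2 * t.D2) x (sy a d v x)
        (genC N p q (numAt N t.c (d * t.E / (1 + d * v)) t.e2 (d ^ 2 * t.G)) (R / x) x (sy a d v x)
          (g * sy a d v x) (d * W * x ^ 2))
        (genD N p q (numAt N t.c (d * t.E / (1 + d * v)) t.e2 (d ^ 2 * t.G)) (t.K / (1 + d * v) / N)
          (d ^ 2 * t.G1) (R / x) x (sy a d v x) z (g * sy a d v x) (d * W * x ^ 2) (d * W1 * x ^ 3)) =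
      ClosedGen.hES a d v g W W1 R t / (4 * a ^ 2 * v * (2 + d * v) ^ 2 * (1 + d * v) * x ^ 2) := by
  rw [h.tot_hEf]
  obtain ⟨eD, eE⟩ := hch.eqs
  obtain ⟨a0, b0, d0, v0, x0, P0, Q0⟩ := hch
  simp only [rchE, rchE_0_0, rchE_0_3, rvhE, rwhE, ClosedGen.hES, ClosedGen.hE_c, ClosedGen.hE_v]
  (try simp only [eD, eE])
  simp only [sy]
  obtain ⟨P, hP⟩ : ∃ P, P = 2 + d * v := ⟨_, rfl⟩
  obtain ⟨Q, hQ⟩ : ∃ Q, Q = 1 + d * v := ⟨_, rfl⟩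
  obtain ⟨B, hB⟩ : ∃ B, B = a + d := ⟨_, rfl⟩
  rw [← hP] at P0
  rw [← hQ] at Q0
  rw [← hB] at b0
  simp only [← hP, ← hQ, ← hB]
  field_simp
  subst hP hQ hB
  ring

theorem gval_hG (hch : Ch a d v x) (h : GFam N p q a (a + d) (R / x) x (sy a d v x) z (g * sy a d v x)
    (d * W * x ^ 2)) :
    pairK (hG (⟨a, a + d, x, sy a d v x⟩ : Frame)) N p q (-1 + d ^ 2 * t.D2) x (sy a d v x)
        (genC N p q (numAt N t.c (d * t.E / (1 + d * v)) t.e2 (d ^ 2 * t.G)) (R / x) x (sy a d v x)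
          (g * sy a d v x) (d * W * x ^ 2))
        (genD N p q (numAt N t.c (d * t.E / (1 + d * v)) t.e2 (d ^ 2 * t.G)) (t.K / (1 + d * v) / N)
          (d ^ 2 * t.G1) (R / x) x (sy a d v x) z (g * sy a d v x) (d * W * x ^ 2) (d * W1 * x ^ 3)) =
      (a + d) * d * ClosedGen.hGS a d v g W W1 R t / (2 * a ^ 2 * v * (2 + d * v) ^ 2 * (1 + d *
        v) * x ^ 3) := by
  rw [h.tot_hG]
  obtain ⟨eD, eE⟩ := hch.eqs
  obtain ⟨a0, b0, d0, v0, x0, P0, Q0⟩ := hch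
  simp only [rchG, rvhG, rwhG, rghG, rkchG, ClosedGen.hGS, ClosedGen.hG_c, ClosedGen.hG_g, ClosedGen.hG_kc]
  (try simp only [eD, eE])
  simp only [sy]
  obtain ⟨P, hP⟩ : ∃ P, P = 2 + d * v := ⟨_, rfl⟩
  obtain ⟨Q, hQ⟩ : ∃ Q, Q = 1 + d * v := ⟨_, rfl⟩
  obtain ⟨B, hB⟩ : ∃ B, B = a + d := ⟨_, rfl⟩
  rw [← hP] at P0
  rw [← hQ] at Q0
  rw [← hB] at b0
  simp only [← hP, ← hQ, ← hB]
  field_simp
  subst hP hQ hB
  ring

theorem gval_lEG (hch : Ch a d v x) (h : GFam N p q a (a + d) (R / x) x (sy a d v x) z (g * sy a d v x)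
    (d * W * x ^ 2)) :
    pairK (lEG (⟨a, a + d, x, sy a d v x⟩ : Frame) N p q) N p q (-1 + d ^ 2 * t.D2) x (sy a d v x)
        (genC N p q (numAt N t.c (d * t.E / (1 + d * v)) t.e2 (d ^ 2 * t.G)) (R / x) x (sy a d v x)
          (g * sy a d v x) (d * W * x ^ 2))
        (genD N p q (numAt N t.c (d * t.E / (1 + d * v)) t.e2 (d ^ 2 * t.G)) (t.K / (1 + d * v) / N)
          (d ^ 2 * t.G1) (R / x) x (sy a d v x) z (g * sy a d v x) (d * W * x ^ 2) (d * W1 * x ^ 3)) =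
      d * ClosedGen.LEGS a d v g W W1 R t / (8 * a ^ 3 * v * (2 + d * v) ^ 4 * (1 + d * v) * x ^
        3) := by
  rw [h.tot_lEG, LEG1_at hch, LEGc_at hch, LEGv_at hch, LEGw_at hch]
  obtain ⟨eD, eE⟩ := hch.eqs
  obtain ⟨a0, b0, d0, v0, x0, P0, Q0⟩ := hch
  simp only [rgEG, rkcEG, rkwEG, ClosedGen.LEGS, ClosedGen.EG_g, ClosedGen.EG_g0, ClosedGen.EG_k1,
    ClosedGen.EG_kv]
  (try simp only [eD, eE])
  simp only [sy]
  obtain ⟨P, hP⟩ : ∃ P, P = 2 + d * v := ⟨_, rfl⟩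
  obtain ⟨Q, hQ⟩ : ∃ Q, Q = 1 + d * v := ⟨_, rfl⟩
  obtain ⟨B, hB⟩ : ∃ B, B = a + d := ⟨_, rfl⟩
  rw [← hP] at P0
  rw [← hQ] at Q0
  rw [← hB] at b0
  simp only [← hP, ← hQ, ← hB]
  field_simp
  subst hP hQ hB
  ring

theorem gval_lGG (hch : Ch a d v x) (h : GFam N p q a (a + d) (R / x) x (sy a d v x) z (g * sy a d v x)
    (d * W * x ^ 2)) :
    pairK (lGG (⟨a, a + d, x, sy a d v x⟩ : Frame) N p q) N p q (-1 + d ^ 2 * t.D2) x (sy a d v x)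
        (genC N p q (numAt N t.c (d * t.E / (1 + d * v)) t.e2 (d ^ 2 * t.G)) (R / x) x (sy a d v x)
          (g * sy a d v x) (d * W * x ^ 2))
        (genD N p q (numAt N t.c (d * t.E / (1 + d * v)) t.e2 (d ^ 2 * t.G)) (t.K / (1 + d * v) / N)
          (d ^ 2 * t.G1) (R / x) x (sy a d v x) z (g * sy a d v x) (d * W * x ^ 2) (d * W1 * x ^ 3)) =
      (a + d) * ClosedGen.LGGS a d v g W W1 R t / (2 * a ^ 3 * v * (2 + d * v) ^ 3 * (1 + d * v)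
        * x ^ 4) := by
  rw [h.tot_lGG, LGGc_at hch, LGGv_at hch]
  obtain ⟨eD, eE⟩ := hch.eqs
  obtain ⟨a0, b0, d0, v0, x0, P0, Q0⟩ := hch
  simp only [rwGG, rgGG, rkcGG, rkwGG, ClosedGen.LGGS, ClosedGen.GG_g, ClosedGen.GG_g0, ClosedGen.GG_kg]
  (try simp only [eD, eE])
  simp only [sy]
  obtain ⟨P, hP⟩ : ∃ P, P = 2 + d * v := ⟨_, rfl⟩
  obtain ⟨Q, hQ⟩ : ∃ Q, Q = 1 + d * v := ⟨_, rfl⟩
  obtain ⟨B, hB⟩ : ∃ B, B = a + d := ⟨_, rfl⟩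
  rw [← hP] at P0
  rw [← hQ] at Q0
  rw [← hB] at b0
  simp only [← hP, ← hQ, ← hB]
  field_simp
  subst hP hQ hB
  ring

theorem gval_lEE (hch : Ch a d v x) (h : GFam N p q a (a + d) (R / x) x (sy a d v x) z (g * sy a d v x)
    (d * W * x ^ 2)) :
    pairK (lEE (⟨a, a + d, x, sy a d v x⟩ : Frame) N p q) N p q (-1 + d ^ 2 * t.D2) x (sy a d v x)
        (genC N p q (numAt N t.c (d * t.E / (1 + d * v)) t.e2 (d ^ 2 * t.G)) (R / x) x (sy a d v x)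
          (g * sy a d v x) (d * W * x ^ 2))
        (genD N p q (numAt N t.c (d * t.E / (1 + d * v)) t.e2 (d ^ 2 * t.G)) (t.K / (1 + d * v) / N)
          (d ^ 2 * t.G1) (R / x) x (sy a d v x) z (g * sy a d v x) (d * W * x ^ 2) (d * W1 * x ^ 3)) =
      ClosedGen.LEES a d v g W W1 R t / (8 * a ^ 3 * (a + d) * v * (2 + d * v) ^ 4 * (1 + d * v)
        * x ^ 2) := by
  rw [h.tot_lEE, LEE1_at hch, LEEc_at hch, LEEv_at hch, LEEw_at hch]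
  obtain ⟨eD, eE⟩ := hch.eqs
  obtain ⟨a0, b0, d0, v0, x0, P0, Q0⟩ := hch
  simp only [rgEE, rkcEE, ClosedGen.LEES, ClosedGen.EE_g, ClosedGen.EE_k1, ClosedGen.EE_kc]
  (try simp only [eD, eE])
  simp only [sy]
  obtain ⟨P, hP⟩ : ∃ P, P = 2 + d * v := ⟨_, rfl⟩
  obtain ⟨Q, hQ⟩ : ∃ Q, Q = 1 + d * v := ⟨_, rfl⟩
  obtain ⟨B, hB⟩ : ∃ B, B = a + d := ⟨_, rfl⟩
  rw [← hP] at P0
  rw [← hQ] at Q0
  rw [← hB] at b0
  simp only [← hP, ← hQ, ← hB]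
  field_simp
  subst hP hQ hB
  ring

theorem gval_lMG (hch : Ch a d v x) (h : GFam N p q a (a + d) (R / x) x (sy a d v x) z (g * sy a d v x)
    (d * W * x ^ 2)) :
    pairK (lMG (⟨a, a + d, x, sy a d v x⟩ : Frame) N p q) N p q (-1 + d ^ 2 * t.D2) x (sy a d v x)
        (genC N p q (numAt N t.c (d * t.E / (1 + d * v)) t.e2 (d ^ 2 * t.G)) (R / x) x (sy a d v x)
          (g * sy a d v x) (d * W * x ^ 2))
        (genD N p q (numAt N t.c (d * t.E / (1 + d * v)) t.e2 (d ^ 2 * t.G)) (t.K / (1 + d * v) / N)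
          (d ^ 2 * t.G1) (R / x) x (sy a d v x) z (g * sy a d v x) (d * W * x ^ 2) (d * W1 * x ^ 3)) =
      ClosedGen.LMGS a d v g W W1 R t / (16 * a ^ 3 * (a + d) * v * (2 + d * v) ^ 4 * (1 + d *
        v) * x ^ 2) := by
  rw [h.tot_lMG, LMG1_at hch, LMGc_at hch, LMGv_at hch, LMGw_at hch]
  obtain ⟨eD, eE⟩ := hch.eqs
  obtain ⟨a0, b0, d0, v0, x0, P0, Q0⟩ := hch
  simp only [rgMG, rkcMG, rkwMG, ClosedGen.LMGS, ClosedGen.MG_g, ClosedGen.MG_k1, ClosedGen.MG_kc,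
    ClosedGen.MG_kw]
  (try simp only [eD, eE])
  simp only [sy]
  obtain ⟨P, hP⟩ : ∃ P, P = 2 + d * v := ⟨_, rfl⟩
  obtain ⟨Q, hQ⟩ : ∃ Q, Q = 1 + d * v := ⟨_, rfl⟩
  obtain ⟨B, hB⟩ : ∃ B, B = a + d := ⟨_, rfl⟩
  rw [← hP] at P0
  rw [← hQ] at Q0
  rw [← hB] at b0
  simp only [← hP, ← hQ, ← hB]
  field_simp
  subst hP hQ hB
  ring

theorem gval_lLG (hch : Ch a d v x) (h : GFam N p q a (a + d) (R / x) x (sy a d v x) z (g * sy a d v x)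
    (d * W * x ^ 2)) :
    pairK (lLG (⟨a, a + d, x, sy a d v x⟩ : Frame) N p q z) N p q (-1 + d ^ 2 * t.D2) x (sy a d v x)
        (genC N p q (numAt N t.c (d * t.E / (1 + d * v)) t.e2 (d ^ 2 * t.G)) (R / x) x (sy a d v x)
          (g * sy a d v x) (d * W * x ^ 2))
        (genD N p q (numAt N t.c (d * t.E / (1 + d * v)) t.e2 (d ^ 2 * t.G)) (t.K / (1 + d * v) / N)
          (d ^ 2 * t.G1) (R / x) x (sy a d v x) z (g * sy a d v x) (d * W * x ^ 2) (d * W1 * x ^ 3)) =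
      ClosedGen.LLGS a d v g W W1 R t / (2 * a ^ 2 * v * (2 + d * v) ^ 2 * (1 + d * v) ^ 2 * x ^
        2) := by
  rw [h.tot_lLG, LLGc_at hch, LLGv_at hch, LLGw_at hch]
  obtain ⟨eD, eE⟩ := hch.eqs
  obtain ⟨a0, b0, d0, v0, x0, P0, Q0⟩ := hch
  simp only [rgLG, rkwLG, ClosedGen.LLGS, ClosedGen.LG_g, ClosedGen.LG_kw]
  (try simp only [eD, eE])
  simp only [sy]
  obtain ⟨P, hP⟩ : ∃ P, P = 2 + d * v := ⟨_, rfl⟩
  obtain ⟨Q, hQ⟩ : ∃ Q, Q = 1 + d * v := ⟨_, rfl⟩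
  obtain ⟨B, hB⟩ : ∃ B, B = a + d := ⟨_, rfl⟩
  rw [← hP] at P0
  rw [← hQ] at Q0
  rw [← hB] at b0
  simp only [← hP, ← hQ, ← hB]
  field_simp
  subst hP hQ hB
  ring

theorem gval_TMM (hch : Ch a d v x) (h : GFam N p q a (a + d) (R / x) x (sy a d v x) z (g * sy a d v x)
    (d * W * x ^ 2)) (hc : t.c ≠ 0) :
    pairK (lMM (⟨a, a + d, x, sy a d v x⟩ : Frame) N p q) N p q (-1 + d ^ 2 * t.D2) x (sy a d v x)
        (genC N p q (numAt N t.c (d * t.E / (1 + d * v)) t.e2 (d ^ 2 * t.G)) (R / x) x (sy a d v x)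
          (g * sy a d v x) (d * W * x ^ 2))
        (genD N p q (numAt N t.c (d * t.E / (1 + d * v)) t.e2 (d ^ 2 * t.G)) (t.K / (1 + d * v) / N)
          (d ^ 2 * t.G1) (R / x) x (sy a d v x) z (g * sy a d v x) (d * W * x ^ 2) (d * W1 * x ^ 3)) -
      (1 - (1 - a - (a + d)) / 2) * ((ClosedGen.gMS a d v g W W1 R t / (a * (a + d) * (2 + d * v) ^ 2)) ^ 2 / 4 + x * sy a d v x / (4 * t.c) * (d * ClosedGen.hMS a d v g W W1 R t / (2 * a ^ 2 * (a + d) * (2 + d * v) ^ 2 * x)) ^ 2) =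
      d ^ 2 * g ^ 2 * ClosedGen.TMMS a d v g W W1 R t / (16 * a ^ 2 * (a + d) ^ 2 * (2 + d * v)
        ^ 4) := by
  rw [h.tot_lMM]
  obtain ⟨eD, eE⟩ := hch.eqs
  obtain ⟨a0, b0, d0, v0, x0, P0, Q0⟩ := hch
  simp only [rcMM, rvMM, rwMM, ClosedGen.TMMS, ClosedGen.TMM_w, ClosedGen.gMS, ClosedGen.gM_1,
    ClosedGen.hMS, ClosedGen.hM_c]
  (try simp only [eD, eE])
  simp only [sy]
  obtain ⟨P, hP⟩ : ∃ P, P = 2 + d * v := ⟨_, rfl⟩
  obtain ⟨Q, hQ⟩ : ∃ Q, Q = 1 + d * v := ⟨_, rfl⟩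
  obtain ⟨B, hB⟩ : ∃ B, B = a + d := ⟨_, rfl⟩
  rw [← hP] at P0
  rw [← hQ] at Q0
  rw [← hB] at b0
  simp only [← hP, ← hQ, ← hB]
  field_simp
  subst hP hQ hB
  ring

theorem gval_TME (hch : Ch a d v x) (h : GFam N p q a (a + d) (R / x) x (sy a d v x) z (g * sy a d v x)
    (d * W * x ^ 2)) (hc : t.c ≠ 0) :
    pairK (lME (⟨a, a + d, x, sy a d v x⟩ : Frame) N p q) N p q (-1 + d ^ 2 * t.D2) x (sy a d v x)
        (genC N p q (numAt N t.c (d * t.E / (1 + d * v)) t.e2 (d ^ 2 * t.G)) (R / x) x (sy a d v x)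
          (g * sy a d v x) (d * W * x ^ 2))
        (genD N p q (numAt N t.c (d * t.E / (1 + d * v)) t.e2 (d ^ 2 * t.G)) (t.K / (1 + d * v) / N)
          (d ^ 2 * t.G1) (R / x) x (sy a d v x) z (g * sy a d v x) (d * W * x ^ 2) (d * W1 * x ^ 3)) -
      2 * (1 - (1 - a - (a + d)) / 2) *
        ((ClosedGen.gMS a d v g W W1 R t / (a * (a + d) * (2 + d * v) ^ 2)) * (d * ClosedGen.gES a d v g W W1 R t / (4 * a ^ 2 * (a + d) * v * (2 + d * v) ^ 2 * x)) / 4 + x * sy a d v x / (4 * t.c) * ((d * ClosedGen.hMS a d v g W W1 R t / (2 * a ^ 2 * (a + d) * (2 + d * v) ^ 2 * x)) * (ClosedGen.hES a d v g W W1 R t / (4 * a ^ 2 * v * (2 + d * v) ^ 2 * (1 + d * v) * x ^ 2)))) =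
      d * g * ClosedGen.TMES a d v g W W1 R t / (8 * a ^ 3 * (a + d) ^ 2 * v * (2 + d * v) ^ 4 *
        x) := by
  rw [h.tot_lME]
  obtain ⟨eD, eE⟩ := hch.eqs
  obtain ⟨a0, b0, d0, v0, x0, P0, Q0⟩ := hch
  simp only [rcME, rcME_0_0, rcME_0_3, rcME_2_0, rcME_2_3, rvME, rwME, rwME_1_0, rwME_1_3, baseME_0_0,
    ClosedGen.TMES, ClosedGen.TME_c, ClosedGen.TME_v, ClosedGen.TME_w, ClosedGen.gMS,
    ClosedGen.gM_1, ClosedGen.gES, ClosedGen.gE_1, ClosedGen.gE_c, ClosedGen.gE_w,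
    ClosedGen.gE_k1, ClosedGen.hMS, ClosedGen.hM_c, ClosedGen.hES, ClosedGen.hE_c, ClosedGen.hE_v]
  (try simp only [eD, eE])
  simp only [sy]
  obtain ⟨P, hP⟩ : ∃ P, P = 2 + d * v := ⟨_, rfl⟩
  obtain ⟨Q, hQ⟩ : ∃ Q, Q = 1 + d * v := ⟨_, rfl⟩
  obtain ⟨B, hB⟩ : ∃ B, B = a + d := ⟨_, rfl⟩
  rw [← hP] at P0
  rw [← hQ] at Q0
  rw [← hB] at b0
  simp only [← hP, ← hQ, ← hB]
  field_simp
  subst hP hQ hB
  ring

end Vale.Agent.P100.Calib.Bridge
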