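import Mathlib
import Vale.Agent.P100.Calib.SlabGenClosed

/-!
# The closed signs with a multiplier

`Signs` takes the multiplier equal to the `MG` entry. Here it is a free number `NU` in the scale of
`TMGS`; `Signs` is the case `NU = TMGS`.
-/

namespace Vale.Agent.P100.Calib.ClosedGen

/-- The determinant of the block with the multiplier `NU`, times `c²`. -/
noncomputable def TDetS (a d v g W W1 R : ℝ) (t : Num) (NU : ℝ) : ℝ :=
  16 * a ^ 2 * (a + d) ^ 2 * v ^ 2 * t.c * d ^ 2 * g ^ 2 *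
      (4 * (TEES a d v g W W1 R t + NU) * TMMS a d v g W W1 R t * TGGS a d v g W W1 R t -
        d ^ 2 * (1 + d * v) * TEGS a d v g W W1 R t ^ 2 * TMMS a d v g W W1 R t -
        16 * t.c * (1 + d * v) * TMES a d v g W W1 R t ^ 2 * TGGS a d v g W W1 R t) +
    16 * a * (a + d) * v * t.c * (1 + d * v) * d ^ 2 * g * TMES a d v g W W1 R t *
      TEGS a d v g W W1 R t * (TMGS a d v g W W1 R t - NU) -
    (TEES a d v g W W1 R t + NU) * (TMGS a d v g W W1 R t - NU) ^ 2

/-- The signs in closed form for the multiplier `NU`. -/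
def SignsNu (a d v g W W1 R : ℝ) (t : Num) (NU : ℝ) : Prop :=
  0 < TGGS a d v g W W1 R t ∧
    0 < 4 * TGGS a d v g W W1 R t * (TEES a d v g W W1 R t + NU) -
      d ^ 2 * (1 + d * v) * TEGS a d v g W W1 R t ^ 2 ∧
    0 < TDetS a d v g W W1 R t NU ∧ 0 ≤ NU ∧
    (NU - TMGS a d v g W W1 R t) * R ≤
      8 * a * (a + d) * v * t.c * g * LLGS a d v g W W1 R t

/-- The signs in closed form for some multiplier. -/
def SignsMult (a d v g W W1 R : ℝ) (t : Num) : Prop :=
  ∃ NU : ℝ, SignsNu a d v g W W1 R t NU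

theorem Signs.mult {a d v g W W1 R : ℝ} {t : Num} (ha : 0 < a) (hd : 0 < d) (hv : 0 < v)
    (hg : 0 < g) (hc : 0 < t.c) (h : Signs a d v g W W1 R t) : SignsMult a d v g W W1 R t := by
  obtain ⟨sG, sM, sA, sM2, sL⟩ := h
  refine ⟨TMGS a d v g W W1 R t, sG, ?_, ?_, sM2, ?_⟩
  · refine pos_of_mul_pos_left (b := TMMS a d v g W W1 R t) ?_ sM.le
    have : 0 ≤ 16 * t.c * (1 + d * v) * TMES a d v g W W1 R t ^ 2 * TGGS a d v g W W1 R t := by
      positivity
    simp only [TArrowS, TAS] at sA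
    linarith
  · have e : TDetS a d v g W W1 R t (TMGS a d v g W W1 R t) =
        16 * a ^ 2 * (a + d) ^ 2 * v ^ 2 * t.c * d ^ 2 * g ^ 2 * TArrowS a d v g W W1 R t := by
      simp only [TDetS, TArrowS, TAS]; ring
    rw [e]; positivity
  · rw [sub_self, zero_mul]; positivity

end Vale.Agent.P100.Calib.ClosedGen
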