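import Mathlib
import Vale.Agent.P100.Calib.SlabGenBridgeVal
import Vale.Agent.P100.Calib.SlabGenClosedMult

/-!
# The signs of a family with parameters from the closed forms

Along an orbit of a slab the five signs at a point follow from `ClosedGen.Signs`, and the signs for
a free multiplier from `ClosedGen.SignsMult`, for every positive `c` and every choice of the other
numbers.
-/

set_option linter.unusedVariables false
set_option linter.unusedSimpArgs false

open Set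

namespace Vale.Agent.P100.Calib

open Orb Bubble Bridge

variable {N p q kap : ℝ}

namespace Bridge

variable {a b x y R z s w w₁ : ℝ}

/-- The six coefficients from the values of a form with two Gram products. -/
theorem gentries_of_form {T : NatCoef} {I μ a₁ a₂ a₃ a₄ a₅ a₆ g₀ g₁ g₂ k₀ k₁ k₂ : ℝ}
    (key : ∀ M E K : ℝ, T.form M E K = (⟨a₁, a₂, a₃, a₄, a₅, a₆⟩ : NatCoef).form M E K -
      (gram I g₀ g₁ g₂ g₀ g₁ g₂ M E K / 4 + μ * gram I k₀ k₁ k₂ k₀ k₁ k₂ M E K)) :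
    let G := fun g g' k k' : ℝ => g * g' / 4 + μ * (k * k')
    T.MM = a₁ - (1 - I) * G g₀ g₀ k₀ k₀ ∧
    T.ME = a₂ - 2 * (1 - I) * G g₀ g₁ k₀ k₁ ∧
    T.EG = a₅ - 2 * (1 - I) * G g₁ g₂ k₁ k₂ ∧
    T.GG = a₆ - (1 - I) * G g₂ g₂ k₂ k₂ ∧
    T.EE = a₄ - (1 - I - 1 / 2) * G g₁ g₁ k₁ k₁ - 2 * G g₀ g₂ k₀ k₂ ∧
    T.MG = a₃ - (2 * (1 - I) - 2) * G g₀ g₂ k₀ k₂ - G g₁ g₁ k₁ k₁ / 2 := by
  intro G
  have e100 := key 1 0 0
  have e010 := key 0 1 0
  have e001 := key 0 0 1
  have e110 := key 1 1 0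
  have e101 := key 1 0 1
  have e011 := key 0 1 1
  simp only [NatCoef.form, gram] at e100 e010 e001 e110 e101 e011
  refine ⟨?_, ?_, ?_, ?_, ?_, ?_⟩
  · linear_combination e100
  · linear_combination e110 - e100 - e010
  · linear_combination e011 - e010 - e001
  · linear_combination e001
  · linear_combination e010
  · linear_combination e101 - e100 - e001

/-- The entries of the block: linear part less the Gram products of the rows of the head. -/
theorem gblock_entries {t : TailVal} {om ga : ℝ} (htc : t.c ≠ 0) (ha : 1 / (p + 1) = a) (hb : 1 /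
    (q + 1) = b) (hx : 0 < x) (hy : 0 < y)
    (hD : a * x + b * y ≠ 0) :
    let F : Frame := ⟨a, b, x, y⟩
    let V := fun φ : Fun3 => pairK φ N p q kap x y (genC N p q t R x y s w)
      (genD N p q t om ga R x y z s w w₁)
    let T := genBlock N p q kap t om ga R x y z s w w₁
    let G := fun φ ψ φ' ψ' : Fun3 => V φ * V φ' / 4 + x * y / (4 * t.c) * (V ψ * V ψ')
    T.MM = V (lMM F N p q) - (1 - 1 / N) * G (gM F) (hM F) (gM F) (hM F) ∧
    T.ME = V (lME F N p q) - 2 * (1 - 1 / N) * G (gM F) (hM F) (gE F) (hEf F) ∧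
    T.EG = V (lEG F N p q) - 2 * (1 - 1 / N) * G (gE F) (hEf F) (gG F) (hG F) ∧
    T.GG = V (lGG F N p q) - (1 - 1 / N) * G (gG F) (hG F) (gG F) (hG F) ∧
    T.EE = V (lEE F N p q) - (1 - 1 / N - 1 / 2) * G (gE F) (hEf F) (gE F) (hEf F) -
      2 * G (gM F) (hM F) (gG F) (hG F) ∧
    T.MG = V (lMG F N p q) - (2 * (1 - 1 / N) - 2) * G (gM F) (hM F) (gG F) (hG F) -
      G (gE F) (hEf F) (gE F) (hEf F) / 2 := by
  intro F V T G
  subst ha hb
  set c := genC N p q t R x y s w with hcdef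
  have h0 : c 0 = (1 / (p + 1)) ^ 2 + t.c / (x * y) * y ^ 2 := by
    simp only [hcdef, genC, genReg, famReg, regShift, regFld, orbAt, Orb.cBase,
      Orb.shapeU, shapeG, Orb.shapeT, shapeW, Fin.sum_univ_seven, Matrix.cons_val]
    field_simp
    ring
  have h12 : (c 1 + c 2) / 2 =
      1 / (p + 1) * (1 / (q + 1)) + t.c / (x * y) * (y * -x) := by
    simp only [hcdef, genC, genReg, famReg, regShift, regFld, orbAt, Orb.cBase,
      Orb.shapeU, shapeG, Orb.shapeT, shapeW, Fin.sum_univ_seven, Matrix.cons_val]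
    field_simp
    ring
  have h3 : c 3 = (1 / (q + 1)) ^ 2 + t.c / (x * y) * (-x) ^ 2 := by
    simp only [hcdef, genC, genReg, famReg, regShift, regFld, orbAt, Orb.cBase,
      Orb.shapeU, shapeG, Orb.shapeT, shapeW, Fin.sum_univ_seven, Matrix.cons_val]
    field_simp
    ring
  set la := genLa N p q kap t om ga R x y z s w w₁ with hla
  set mb := genMb N p q kap t om ga R x y z s w w₁ with hmb
  have hV : ∀ φ : Fun3, V φ = φ c la mb := fun φ => rfl
  have hFD : F.D ≠ 0 := hD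
  have hU : ∀ u v : ℝ, u = 1 / (p + 1) * ((x * u + y * v) / F.D) +
        y * ((1 / (q + 1) * u - 1 / (p + 1) * v) / F.D) ∧
      v = 1 / (q + 1) * ((x * u + y * v) / F.D) +
        -x * ((1 / (q + 1) * u - 1 / (p + 1) * v) / F.D) := by
    intro u v
    obtain ⟨D, hDe⟩ : ∃ D, D = F.D := ⟨_, rfl⟩
    rw [← hDe] at hFD ⊢
    constructor <;> field_simp <;> rw [hDe] <;> simp only [F, Frame.D] <;> ring
  have hρ : t.c / (x * y) ≠ 0 := div_ne_zero htc (by positivity)
  have htt : 1 / (p + 1) * -x - 1 / (q + 1) * y ≠ 0 := by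
    intro e; apply hD; linarith
  refine gentries_of_form (T := T) (a₁ := V (lMM F N p q)) (a₂ := V (lME F N p q))
    (a₃ := V (lMG F N p q)) (a₄ := V (lEE F N p q)) (a₅ := V (lEG F N p q))
    (a₆ := V (lGG F N p q)) fun M E K => ?_
  have e0 := natBlock_split F hFD N p q c la mb M E K
  have hG' := blockGram_rotate (γ := 1) one_ne_zero hρ htt (c₀ := c 0) (m := (c 1 + c 2) / 2)
    (c₃ := c 3) (by rw [h0]; ring) (by rw [h12]; ring) (by rw [h3]; ring) N (V (gM F)) (V (gE F))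
    (V (gG F)) (V (hM F)) (V (hEf F)) (V (hG F)) M E K
  have e4 : ∀ u : ℝ, u / (4 * (t.c / (x * y))) = x * y / (4 * t.c) * u := fun u => by
    field_simp
  rw [mul_one, e4] at hG'
  rw [← hG']
  refine e0.trans ?_
  simp only [hV, gM, gE, gG, hM, hEf, hG, F]
  rw [← (hU _ _).1, ← (hU _ _).1, ← (hU _ _).1, ← (hU _ _).2, ← (hU _ _).2, ← (hU _ _).2]
  rfl

/-- The last sign: the multiplier gap is the cross term with the ray. -/
theorem gtau_gap {t : TailVal} {om ga : ℝ} (hy : y ≠ 0) (hD : 1 / (p + 1) * x + 1 / (q + 1) * y ≠ 0)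
    (hk : RayKer N p q (genC N p q t R x y s w) (genLa N p q kap t om ga R x y z s w w₁)
      (genMb N p q kap t om ga R x y z s w w₁) R x y z s) :
    let a := 1 / (p + 1)
    let b := 1 / (q + 1)
    genTau N p q kap t om ga R x y z s w w₁ -
        (genBlock N p q kap t om ga R x y z s w w₁).MG * (a * x + b * y) ^ 2 * R =
      s * pairK (lLG (⟨a, b, x, y⟩ : Frame) N p q z) N p q kap x y (genC N p q t R x y s w)
        (genD N p q t om ga R x y z s w w₁) / 4 := by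
  intro a b
  set F : Frame := ⟨a, b, x, y⟩ with hF
  set c := genC N p q t R x y s w
  set la := genLa N p q kap t om ga R x y z s w w₁
  set mb := genMb N p q kap t om ga R x y z s w w₁
  have hFD : F.D ≠ 0 := hD
  show genTau N p q kap t om ga R x y z s w w₁ - _ = s * lLG F N p q z c la mb / 4
  have eD : a * x + b * y = F.D := rfl
  rw [eD]
  obtain ⟨A, hA⟩ : ∃ A, A = F.pA 0 0 1 := ⟨_, rfl⟩
  obtain ⟨C, hC⟩ : ∃ C, C = F.pC 0 0 1 := ⟨_, rfl⟩
  obtain ⟨B, hB⟩ : ∃ B, B = F.pB 0 0 1 := ⟨_, rfl⟩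
  obtain ⟨hv1, hv2, hv3⟩ : F.vM A C B = 0 ∧ F.vE A C B = 0 ∧ F.vG A C B = 1 := by
    simp only [hA, hC, hB, Frame.pA, Frame.pC, Frame.pB, Frame.vM, Frame.vE, Frame.vG, hF,
      Frame.D] at hFD ⊢
    obtain ⟨D, hDe⟩ : ∃ D, D = a * x + b * y := ⟨_, rfl⟩
    rw [← hDe] at hFD
    simp only [← hDe]
    refine ⟨?_, ?_, ?_⟩ <;> field_simp <;> rw [hDe] <;> ring
  have k1 := hk.ker A C B
  have k0 := hk.ker 0 0 0
  have ez : elimN N p q c la mb 0 0 0 0 0 = 0 := by
    simp only [elimN, freePart, hessPair, gram]; ring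
  simp only [zero_add, mul_zero, sub_zero, add_zero, ez] at k0
  rw [elimN_cross] at k1 k0
  have eG : y ^ 2 * A - 2 * (x * y) * C + x ^ 2 * B = F.vG A C B := rfl
  rw [eG, hv3] at k1
  rw [natBlock_eq F hFD, natBlock_eq F hFD N p q c la mb A C B] at k1
  rw [natBlock_eq F hFD] at k0
  have f1 : F.vM (A + 4 * R * x ^ 2) (C + 4 * R * x * y) (B + 4 * R * y ^ 2) = 4 * R * F.D ^ 2 := by
    have : F.vM (A + 4 * R * x ^ 2) (C + 4 * R * x * y) (B + 4 * R * y ^ 2) =
        F.vM A C B + 4 * R * F.D ^ 2 := by simp only [Frame.vM, Frame.D, hF]; ring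
    rw [this, hv1, zero_add]
  have f2 : F.vE (A + 4 * R * x ^ 2) (C + 4 * R * x * y) (B + 4 * R * y ^ 2) = 0 := by
    have : F.vE (A + 4 * R * x ^ 2) (C + 4 * R * x * y) (B + 4 * R * y ^ 2) = F.vE A C B := by
      simp only [Frame.vE, hF]; ring
    rw [this, hv2]
  have f3 : F.vG (A + 4 * R * x ^ 2) (C + 4 * R * x * y) (B + 4 * R * y ^ 2) = 1 := by
    have : F.vG (A + 4 * R * x ^ 2) (C + 4 * R * x * y) (B + 4 * R * y ^ 2) = F.vG A C B := by
      simp only [Frame.vG, hF]; ring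
    rw [this, hv3]
  have f4 : F.vM (4 * R * x ^ 2) (4 * R * x * y) (4 * R * y ^ 2) = 4 * R * F.D ^ 2 := by
    simp only [Frame.vM, Frame.D, hF]; ring
  have f5 : F.vE (4 * R * x ^ 2) (4 * R * x * y) (4 * R * y ^ 2) = 0 := by
    simp only [Frame.vE, hF]; ring
  have f6 : F.vG (4 * R * x ^ 2) (4 * R * x * y) (4 * R * y ^ 2) = 0 := by
    simp only [Frame.vG, hF]; ring
  rw [f1, f2, f3, hv1, hv2, hv3] at k1
  rw [f4, f5, f6] at k0
  have ec : crossPQ N p q c la mb (A + 4 * R * x ^ 2) (C + 4 * R * x * y) (B + 4 * R * y ^ 2)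
      (z * s) s = s * lLG F N p q z c la mb +
        crossPQ N p q c la mb (4 * R * x ^ 2) (4 * R * x * y) (4 * R * y ^ 2) (z * s) s := by
    simp only [lLG, crossPQ, hA, hC, hB]; ring
  rw [ec] at k1
  simp only [NatCoef.form] at k1 k0
  unfold genBlock genTau
  rw [show (⟨1 / (p + 1), 1 / (q + 1), x, y⟩ : Frame) = F from rfl]
  linear_combination -(k1 - k0) / 4

end Bridge

variable {x z : ℝ}

section
variable {a d v g W W1 R : ℝ} {t : ClosedGen.Num}

/-- The entries of the block and the gap of the multiplier at a point of the chart, closed. -/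
theorem genBlock_closed (ha : 1 / (p + 1) = a) (hb : 1 / (q + 1) = a + d) (ha0 : 0 < a)
    (hd : 0 < d) (hv : 0 < v) (hx : 0 < x) (hg : 0 < g) (hc : 0 < t.c)
    (h : Bridge.GFam N p q a (a + d) (R / x) x (sy a d v x) z (g * sy a d v x) (d * W * x ^ 2))
    (hk : RayKer N p q (genC N p q (numAt N t.c (d * t.E / (1 + d * v)) t.e2 (d ^ 2 * t.G)) (R /
      x) x (sy a d v x) (g * sy a d v x) (d * W * x ^ 2))
      (genLa N p q (-1 + d ^ 2 * t.D2) (numAt N t.c (d * t.E / (1 + d * v)) t.e2 (d ^ 2 * t.G))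
        (t.K / (1 + d * v) / N)
      (d ^ 2 * t.G1) (R / x) x (sy a d v x) z (g * sy a d v x) (d * W * x ^ 2) (d * W1 * x ^ 3))
      (genMb N p q (-1 + d ^ 2 * t.D2) (numAt N t.c (d * t.E / (1 + d * v)) t.e2 (d ^ 2 * t.G))
        (t.K / (1 + d * v) / N)
      (d ^ 2 * t.G1) (R / x) x (sy a d v x) z (g * sy a d v x) (d * W * x ^ 2) (d * W1 * x ^ 3))
      (R / x) x (sy a d v x) z (g * sy a d v x))
:
    let T := genBlock N p q (-1 + d ^ 2 * t.D2) (numAt N t.c (d * t.E / (1 + d * v)) t.e2 (d ^ 2 * t.G))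
      (t.K / (1 + d * v) / N) (d ^ 2 * t.G1) (R / x) x (sy a d v x) z (g * sy a d v x)
      (d * W * x ^ 2) (d * W1 * x ^ 3)
    let K₅ := 64 * a ^ 4 * (a + d) ^ 2 * v ^ 2 * (2 + d * v) ^ 4 * (1 + d * v) * x ^ 2 * t.c
    T.MM = d ^ 2 * g ^ 2 * ClosedGen.TMMS a d v g W W1 R t /
        (16 * a ^ 2 * (a + d) ^ 2 * (2 + d * v) ^ 4) ∧
      T.ME = d * g * ClosedGen.TMES a d v g W W1 R t /
        (8 * a ^ 3 * (a + d) ^ 2 * v * (2 + d * v) ^ 4 * x) ∧
      T.GG = ClosedGen.TGGS a d v g W W1 R t /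
        (16 * a ^ 4 * v ^ 2 * (2 + d * v) ^ 4 * (1 + d * v) ^ 2 * x ^ 4 * t.c) ∧
      T.EG = d * ClosedGen.TEGS a d v g W W1 R t /
        (32 * a ^ 4 * (a + d) * v ^ 2 * (2 + d * v) ^ 4 * (1 + d * v) * x ^ 3 * t.c) ∧
      T.EE = ClosedGen.TEES a d v g W W1 R t / K₅ ∧
      T.MG = ClosedGen.TMGS a d v g W W1 R t / K₅ ∧
      genTau N p q (-1 + d ^ 2 * t.D2) (numAt N t.c (d * t.E / (1 + d * v)) t.e2 (d ^ 2 * t.G))
      (t.K / (1 + d * v) / N) (d ^ 2 * t.G1) (R / x) x (sy a d v x) z (g * sy a d v x)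
      (d * W * x ^ 2) (d * W1 * x ^ 3) -
        T.MG * (a * x + (a + d) * sy a d v x) ^ 2 * (R / x) =
        g * ClosedGen.LLGS a d v g W W1 R t /
          (8 * a * (a + d) * v * (2 + d * v) ^ 2 * (1 + d * v) * x) := by
  have hQ : 0 < 1 + d * v := by positivity
  have hP : 0 < 2 + d * v := by positivity
  have hb0 : 0 < a + d := by linarith
  have hy : 0 < sy a d v x := by unfold sy; positivity
  have hch : Bridge.Ch a d v x :=
    ⟨ha0.ne', hb0.ne', hd.ne', hv.ne', hx.ne', hP.ne', hQ.ne'⟩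
  have hD0 : a * x + (a + d) * sy a d v x ≠ 0 := by positivity
  obtain ⟨eMM, eME, eEG, eGG, eEE, eMG⟩ := Bridge.gblock_entries (N := N) (kap := -1 + d ^ 2 * t.D2)
    (t := (numAt N t.c (d * t.E / (1 + d * v)) t.e2 (d ^ 2 * t.G))) (om := t.K / (1 + d * v) / N)
      (ga := d ^ 2 * t.G1) (R := R / x) (z := z)
    (s := g * sy a d v x) (w := d * W * x ^ 2) (w₁ := d * W1 * x ^ 3) hc.ne' ha hb hx hy hD0
  have etc : ((numAt N t.c (d * t.E / (1 + d * v)) t.e2 (d ^ 2 * t.G)) : TailVal).c = t.c := rfl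
  have hI : 1 / N = (1 - a - (a + d)) / 2 := by rw [h.hN, one_div_div]
  simp only [etc, hI, Bridge.gval_gM hch h, Bridge.gval_gE hch h, Bridge.gval_gG hch h,
    Bridge.gval_hM hch h, Bridge.gval_hEf hch h, Bridge.gval_hG hch h] at eMM eME eEG eGG eEE eMG
  have tMM : (genBlock N p q (-1 + d ^ 2 * t.D2) (numAt N t.c (d * t.E / (1 + d * v)) t.e2 (d ^ 2
    * t.G)) (t.K / (1 + d * v) / N)
      (d ^ 2 * t.G1) (R / x) x (sy a d v x) z (g * sy a d v x) (d * W * x ^ 2) (d * W1 * x ^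
        3)).MM = d ^ 2 * g ^ 2 * ClosedGen.TMMS a d v g W W1 R t / (16 * a ^ 2 * (a + d) ^ 2 * (2
          + d * v) ^ 4) := by
    rw [eMM, ← Bridge.gval_TMM (W1 := W1) hch h hc.ne']; ring
  have tME : (genBlock N p q (-1 + d ^ 2 * t.D2) (numAt N t.c (d * t.E / (1 + d * v)) t.e2 (d ^ 2
    * t.G)) (t.K / (1 + d * v) / N)
      (d ^ 2 * t.G1) (R / x) x (sy a d v x) z (g * sy a d v x) (d * W * x ^ 2) (d * W1 * x ^
        3)).ME = d * g * ClosedGen.TMES a d v g W W1 R t / (8 * a ^ 3 * (a + d) ^ 2 * v * (2 + d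
          * v) ^ 4 * x) := by
    rw [eME, ← Bridge.gval_TME (W1 := W1) hch h hc.ne']
  rw [Bridge.gval_lEG (W1 := W1) hch h] at eEG
  rw [Bridge.gval_lGG (W1 := W1) hch h] at eGG
  rw [Bridge.gval_lEE (W1 := W1) hch h] at eEE
  rw [Bridge.gval_lMG (W1 := W1) hch h] at eMG
  have tGG : (genBlock N p q (-1 + d ^ 2 * t.D2) (numAt N t.c (d * t.E / (1 + d * v)) t.e2 (d ^ 2
    * t.G)) (t.K / (1 + d * v) / N)
      (d ^ 2 * t.G1) (R / x) x (sy a d v x) z (g * sy a d v x) (d * W * x ^ 2) (d * W1 * x ^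
        3)).GG = ClosedGen.TGGS a d v g W W1 R t / (16 * a ^ 4 * v ^ 2 * (2 + d * v) ^ 4 * (1 + d
          * v) ^ 2 * x ^ 4 * t.c) := by
    rw [eGG]; simp only [ClosedGen.TGGS, Closed.j1, sy]; field_simp; ring
  have tEG : (genBlock N p q (-1 + d ^ 2 * t.D2) (numAt N t.c (d * t.E / (1 + d * v)) t.e2 (d ^ 2
    * t.G)) (t.K / (1 + d * v) / N)
      (d ^ 2 * t.G1) (R / x) x (sy a d v x) z (g * sy a d v x) (d * W * x ^ 2) (d * W1 * x ^
        3)).EG = d * ClosedGen.TEGS a d v g W W1 R t / (32 * a ^ 4 * (a + d) * v ^ 2 * (2 + d *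
          v) ^ 4 * (1 + d * v) * x ^ 3 * t.c) := by
    rw [eEG]; simp only [ClosedGen.TEGS, Closed.j1, sy]; field_simp; ring
  have tEE : (genBlock N p q (-1 + d ^ 2 * t.D2) (numAt N t.c (d * t.E / (1 + d * v)) t.e2 (d ^ 2
    * t.G)) (t.K / (1 + d * v) / N)
      (d ^ 2 * t.G1) (R / x) x (sy a d v x) z (g * sy a d v x) (d * W * x ^ 2) (d * W1 * x ^
        3)).EE = ClosedGen.TEES a d v g W W1 R t / (64 * a ^ 4 * (a + d) ^ 2 * v ^ 2 * (2 + d *
          v) ^ 4 * (1 + d * v) * x ^ 2 * t.c) := by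
    rw [eEE]; simp only [ClosedGen.TEES, Closed.j1, sy]; field_simp; ring
  have tMG : (genBlock N p q (-1 + d ^ 2 * t.D2) (numAt N t.c (d * t.E / (1 + d * v)) t.e2 (d ^ 2
    * t.G)) (t.K / (1 + d * v) / N)
      (d ^ 2 * t.G1) (R / x) x (sy a d v x) z (g * sy a d v x) (d * W * x ^ 2) (d * W1 * x ^
        3)).MG = ClosedGen.TMGS a d v g W W1 R t / (64 * a ^ 4 * (a + d) ^ 2 * v ^ 2 * (2 + d *
          v) ^ 4 * (1 + d * v) * x ^ 2 * t.c) := by
    rw [eMG]; simp only [ClosedGen.TMGS, Closed.j1, sy]; field_simp; ring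
  refine ⟨tMM, tME, tGG, tEG, tEE, tMG, ?_⟩
  have hD1 : 1 / (p + 1) * x + 1 / (q + 1) * sy a d v x ≠ 0 := by rw [ha, hb]; exact hD0
  have e := Bridge.gtau_gap hy.ne' hD1 hk
  simp only [ha, hb, Bridge.gval_lLG (W1 := W1) hch h] at e
  rw [e]
  simp only [sy]
  field_simp
  ring

/-- **At a point of the chart the closed signs give the five signs of a family.** -/
theorem genArrow_point (ha : 1 / (p + 1) = a) (hb : 1 / (q + 1) = a + d) (ha0 : 0 < a)
    (hd : 0 < d) (hv : 0 < v) (hx : 0 < x) (hg : 0 < g) (hc : 0 < t.c)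
    (h : Bridge.GFam N p q a (a + d) (R / x) x (sy a d v x) z (g * sy a d v x) (d * W * x ^ 2))
    (hk : RayKer N p q (genC N p q (numAt N t.c (d * t.E / (1 + d * v)) t.e2 (d ^ 2 * t.G)) (R /
      x) x (sy a d v x) (g * sy a d v x) (d * W * x ^ 2))
      (genLa N p q (-1 + d ^ 2 * t.D2) (numAt N t.c (d * t.E / (1 + d * v)) t.e2 (d ^ 2 * t.G))
        (t.K / (1 + d * v) / N)
      (d ^ 2 * t.G1) (R / x) x (sy a d v x) z (g * sy a d v x) (d * W * x ^ 2) (d * W1 * x ^ 3))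
      (genMb N p q (-1 + d ^ 2 * t.D2) (numAt N t.c (d * t.E / (1 + d * v)) t.e2 (d ^ 2 * t.G))
        (t.K / (1 + d * v) / N)
      (d ^ 2 * t.G1) (R / x) x (sy a d v x) z (g * sy a d v x) (d * W * x ^ 2) (d * W1 * x ^ 3))
      (R / x) x (sy a d v x) z (g * sy a d v x))
    (hs : ClosedGen.Signs a d v g W W1 R t) :
    GenArrow N p q (-1 + d ^ 2 * t.D2) (numAt N t.c (d * t.E / (1 + d * v)) t.e2 (d ^ 2 * t.G))
      (t.K / (1 + d * v) / N)
      (d ^ 2 * t.G1) (R / x) x (sy a d v x) z (g * sy a d v x) (d * W * x ^ 2) (d * W1 * x ^ 3)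
        := by
  obtain ⟨sG, sM2, sA, sM, sL⟩ := hs
  obtain ⟨tMM, tME, tGG, tEG, tEE, tMG, gap⟩ := genBlock_closed ha hb ha0 hd hv hx hg hc h hk
  have hQ : 0 < 1 + d * v := by positivity
  refine ⟨?_, ?_, ?_, ?_, ?_⟩
  · rw [tGG]; positivity
  · rw [tMM]; positivity
  · rw [tMM, tME, tEG, tGG, tEE, tMG]
    have hpos : 0 < d ^ 2 * g ^ 2 * ClosedGen.TArrowS a d v g W W1 R t / (16384 * a ^ 10 * (a +
      d) ^ 4 * v ^ 4 * (2 + d * v) ^ 12 * (1 + d * v) ^ 3 * x ^ 6 * t.c ^ 2) := by positivity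
    refine sub_pos.1 (lt_of_lt_of_eq hpos ?_)
    simp only [ClosedGen.TArrowS, ClosedGen.TAS]
    generalize ClosedGen.TMMS a d v g W W1 R t = t₁
    generalize ClosedGen.TMES a d v g W W1 R t = t₂
    generalize ClosedGen.TEGS a d v g W W1 R t = t₃
    generalize ClosedGen.TGGS a d v g W W1 R t = t₄
    generalize ClosedGen.TEES a d v g W W1 R t = t₅
    generalize ClosedGen.TMGS a d v g W W1 R t = t₆
    field_simp
    ring
  · rw [tMG]
    exact div_nonneg sM (by positivity)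
  · rw [ha, hb, ← sub_nonneg, gap]
    exact div_nonneg (mul_nonneg hg.le sL) (by positivity)

/-- **At a point of the chart the closed signs with a multiplier give the signs of a family.** -/
theorem genSigns_point (ha : 1 / (p + 1) = a) (hb : 1 / (q + 1) = a + d) (ha0 : 0 < a)
    (hd : 0 < d) (hv : 0 < v) (hx : 0 < x) (hg : 0 < g) (hc : 0 < t.c)
    (h : Bridge.GFam N p q a (a + d) (R / x) x (sy a d v x) z (g * sy a d v x) (d * W * x ^ 2))
    (hk : RayKer N p q (genC N p q (numAt N t.c (d * t.E / (1 + d * v)) t.e2 (d ^ 2 * t.G)) (R /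
      x) x (sy a d v x) (g * sy a d v x) (d * W * x ^ 2))
      (genLa N p q (-1 + d ^ 2 * t.D2) (numAt N t.c (d * t.E / (1 + d * v)) t.e2 (d ^ 2 * t.G))
        (t.K / (1 + d * v) / N)
      (d ^ 2 * t.G1) (R / x) x (sy a d v x) z (g * sy a d v x) (d * W * x ^ 2) (d * W1 * x ^ 3))
      (genMb N p q (-1 + d ^ 2 * t.D2) (numAt N t.c (d * t.E / (1 + d * v)) t.e2 (d ^ 2 * t.G))
        (t.K / (1 + d * v) / N)
      (d ^ 2 * t.G1) (R / x) x (sy a d v x) z (g * sy a d v x) (d * W * x ^ 2) (d * W1 * x ^ 3))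
      (R / x) x (sy a d v x) z (g * sy a d v x))
    (hs : ClosedGen.SignsMult a d v g W W1 R t) :
    ∃ ν : ℝ, GenSigns N p q (-1 + d ^ 2 * t.D2) (numAt N t.c (d * t.E / (1 + d * v)) t.e2 (d ^ 2 * t.G))
      (t.K / (1 + d * v) / N) (d ^ 2 * t.G1) ν (R / x) x (sy a d v x) z (g * sy a d v x)
      (d * W * x ^ 2) (d * W1 * x ^ 3) := by
  obtain ⟨NU, sG, s2, s3, sN, sL⟩ := hs
  obtain ⟨tMM, tME, tGG, tEG, tEE, tMG, gap⟩ := genBlock_closed ha hb ha0 hd hv hx hg hc h hk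
  have hQ : 0 < 1 + d * v := by positivity
  have hP : 0 < 2 + d * v := by positivity
  have hb0 : 0 < a + d := by linarith
  refine ⟨NU / (64 * a ^ 4 * (a + d) ^ 2 * v ^ 2 * (2 + d * v) ^ 4 * (1 + d * v) * x ^ 2 * t.c),
    ?_, ?_, ?_, by positivity, ?_⟩
  · rw [tGG]; positivity
  · rw [tGG, tEG, tEE]
    have hpos : 0 < (4 * ClosedGen.TGGS a d v g W W1 R t * (ClosedGen.TEES a d v g W W1 R t + NU) -
        d ^ 2 * (1 + d * v) * ClosedGen.TEGS a d v g W W1 R t ^ 2) / (4096 * a ^ 8 * (a + d) ^ 2 *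
          v ^ 4 * (2 + d * v) ^ 8 * (1 + d * v) ^ 3 * x ^ 6 * t.c ^ 2) := by positivity
    refine lt_of_lt_of_eq hpos ?_
    generalize ClosedGen.TGGS a d v g W W1 R t = t₄
    generalize ClosedGen.TEES a d v g W W1 R t = t₅
    generalize ClosedGen.TEGS a d v g W W1 R t = t₃
    field_simp
    ring
  · rw [tMM, tME, tGG, tEG, tEE, tMG]
    have hpos : 0 < ClosedGen.TDetS a d v g W W1 R t NU / (4 * (262144 * a ^ 12 * (a + d) ^ 6 *
        v ^ 6 * (2 + d * v) ^ 12 * (1 + d * v) ^ 3 * x ^ 6 * t.c ^ 3)) := by positivity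
    refine lt_of_lt_of_eq hpos ?_
    simp only [ClosedGen.TDetS]
    generalize ClosedGen.TMMS a d v g W W1 R t = t₁
    generalize ClosedGen.TMES a d v g W W1 R t = t₂
    generalize ClosedGen.TEGS a d v g W W1 R t = t₃
    generalize ClosedGen.TGGS a d v g W W1 R t = t₄
    generalize ClosedGen.TEES a d v g W W1 R t = t₅
    generalize ClosedGen.TMGS a d v g W W1 R t = t₆
    field_simp
    ring
  · rw [ha, hb, ← sub_nonneg]
    rw [tMG, sub_eq_iff_eq_add] at gap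
    rw [gap]
    have hpos : 0 ≤ (8 * a * (a + d) * v * t.c * g * ClosedGen.LLGS a d v g W W1 R t -
        (NU - ClosedGen.TMGS a d v g W W1 R t) * R) / (64 * a ^ 2 * (a + d) ^ 2 * v ^ 2 *
          (2 + d * v) ^ 2 * (1 + d * v) * x * t.c) := div_nonneg (sub_nonneg.2 sL) (by positivity)
    refine le_of_le_of_eq hpos ?_
    generalize ClosedGen.TMGS a d v g W W1 R t = t₆
    generalize ClosedGen.LLGS a d v g W W1 R t = t₇
    simp only [sy]
    field_simp
    ring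

end

/-- The numbers of the closed forms of a family with parameters at a point of an orbit. -/
noncomputable def GenPar.closedNum (P : GenPar) (N p q d v R x y z w : ℝ) : ClosedGen.Num :=
  ⟨P.c, P.v, N * (P.w₀ + P.w₁ * z) * (1 + d * v) / d, N * (P.w₁ * z) * (1 + d * v),
    (P.g₀ + P.g₁ * z + P.gY * (-2 * R * y / N)) / d ^ 2, P.numG₁ N p q R x y z w / d ^ 2,
    (P.kap + 1) / d ^ 2⟩

section
variable {S : Set ℝ} {R x y s dx dy : ℝ → ℝ} (hc : IsCrit N p q)
  (h : IsOrbitFns N p q S R x y s dx dy)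
include hc h

/-- Along the orbit the closed signs give the signs of a family, for either multiplier. -/
theorem genClosed_transfer (P : GenPar) (hc0 : 0 < P.c) {z : ℝ} (hz : z ∈ S) {a d v : ℝ} (ha : a
    = 1 / (p + 1))
    (hd : d = 1 / (q + 1) - 1 / (p + 1)) (hv : v = (1 / (q + 1) * y z / (a * x z) - 1) / d)
    : (ClosedGen.Signs a d v (s z / y z) (wFun N x y dx dy z / (d * x z ^ 2))
      (wFun₁ N R x y dx dy z / (d * x z ^ 3)) (R z * x z)
      (P.closedNum N p q d v (R z) (x z) (y z) z (wFun N x y dx dy z)) →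
    GenArrow N p q P.kap (P.num N (R z) (y z) z) (P.numW₁ z)
      (P.numG₁ N p q (R z) (x z) (y z) z (wFun N x y dx dy z)) (R z) (x z) (y z) z (s z)
      (wFun N x y dx dy z) (wFun₁ N R x y dx dy z)) ∧
    (ClosedGen.SignsMult a d v (s z / y z) (wFun N x y dx dy z / (d * x z ^ 2))
      (wFun₁ N R x y dx dy z / (d * x z ^ 3)) (R z * x z)
      (P.closedNum N p q d v (R z) (x z) (y z) z (wFun N x y dx dy z)) →
    ∃ ν : ℝ, GenSigns N p q P.kap (P.num N (R z) (y z) z) (P.numW₁ z)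
      (P.numG₁ N p q (R z) (x z) (y z) z (wFun N x y dx dy z)) ν (R z) (x z) (y z) z (s z)
      (wFun N x y dx dy z) (wFun₁ N R x y dx dy z)) := by
  obtain ⟨hal, hlt, hw⟩ := hc.weights
  have hN : 0 < N := by linarith [hc.dim]
  have hp : 0 < p := hc.p_pos
  have hq : 0 < q := hc.q_pos
  have hb : 1 / (q + 1) = a + d := by rw [ha, hd]; ring
  have ha0 : 0 < a := ha ▸ hal
  have hd0 : 0 < d := by linarith
  have hM : 0 < 1 - a - (a + d) := by
    rw [ha] at *
    have : 0 < N * (1 - 1 / (p + 1) - (1 / (p + 1) + d)) := by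
      have e : N * (1 - 1 / (p + 1) - (1 / (p + 1) + d)) = 2 := by
        rw [hd]; linear_combination -hw
      linarith
    exact pos_of_mul_pos_right this hN.le
  have hx := h.x_pos z hz
  have hy := h.y_pos z hz
  have hsz := h.s_pos z hz
  have hW := h.W_pos z hz
  rw [hb, ← ha] at hW
  rw [hb] at hv
  have hv' : v = ((a + d) * y z - a * x z) / (a * x z * d) := by
    rw [hv]; field_simp
  have hv0 : 0 < v := by
    rw [hv']; exact div_pos hW (by positivity)
  have hy' : y z = sy a d v (x z) := by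
    rw [hv', sy]; field_simp; ring
  have hquad := h.quad z hz
  have hwz := wFun_eq hc h hz
  have hz0 : (0 : ℝ) < z := h.pos hz
  obtain ⟨g, hg⟩ : ∃ g, g = s z / y z := ⟨_, rfl⟩
  obtain ⟨W, hWd⟩ : ∃ W, W = wFun N x y dx dy z / (d * x z ^ 2) := ⟨_, rfl⟩
  obtain ⟨W1, hW1⟩ : ∃ W1, W1 = wFun₁ N R x y dx dy z / (d * x z ^ 3) := ⟨_, rfl⟩
  obtain ⟨R', hR'⟩ : ∃ R', R' = R z * x z := ⟨_, rfl⟩
  rw [← hg, ← hWd, ← hW1, ← hR']
  have es : s z = g * sy a d v (x z) := by rw [hg, ← hy']; field_simp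
  have ew : wFun N x y dx dy z = d * W * x z ^ 2 := by rw [hWd]; field_simp
  have ew1 : wFun₁ N R x y dx dy z = d * W1 * x z ^ 3 := by rw [hW1]; field_simp
  have eR : R z = R' / x z := by rw [hR']; field_simp
  obtain ⟨e1, e2, e3⟩ := gen_data hc h P hz
  obtain ⟨-, hdet⟩ := genK_head hc h P hc0 hz
  have hk := rayKer_orbit (kap := P.kap) hc h (contDiffOn_genK hc h P) hz hdet.ne'
  rw [e1, e2, e3] at hk
  obtain ⟨ga', hga⟩ : ∃ u, u = P.numG₁ N p q (R z) (x z) (y z) z (wFun N x y dx dy z) := ⟨_, rfl⟩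
  simp only [← hga] at hk ⊢
  obtain ⟨t, ht⟩ : ∃ t, t = P.closedNum N p q d v (R z) (x z) (y z) z (wFun N x y dx dy z) :=
    ⟨_, rfl⟩
  rw [← ht]
  have hQ : (1 : ℝ) + d * v ≠ 0 := by positivity
  have etv : P.num N (R z) (y z) z =
      Bridge.numAt N t.c (d * t.E / (1 + d * v)) t.e2 (d ^ 2 * t.G) := by
    simp only [ht, GenPar.closedNum, GenPar.num, Bridge.numAt, TailVal.mk.injEq, true_and]
    constructor <;> field_simp
  have eom : P.numW₁ z = t.K / (1 + d * v) / N := by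
    simp only [ht, GenPar.closedNum, GenPar.numW₁]; field_simp
  have ega : ga' = d ^ 2 * t.G1 := by
    simp only [hga, ht, GenPar.closedNum]; field_simp
  have ekap : P.kap = -1 + d ^ 2 * t.D2 := by
    simp only [ht, GenPar.closedNum]; field_simp; ring
  have htc : 0 < t.c := by simp only [ht, GenPar.closedNum]; exact hc0
  rw [etv, eom, ega, ekap] at hk ⊢
  have hz' : z = (x z - R z * wFun N x y dx dy z) / y z := by
    field_simp; linarith
  have hquad' : s z * (a * z + (a + d)) = 2 * N * (a * x z + (a + d) * y z) - 4 * R z * x z * y z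
    := by
    rw [← hb, ha]; linear_combination hquad
  have hN2 : N = 2 / (1 - a - (a + d)) := by
    rw [eq_div_iff hM.ne', ha, hd]; linear_combination -hw
  have fam : Bridge.GFam N p q a (a + d) (R z) (x z) (y z) z (s z) (wFun N x y dx dy z) :=
    ⟨⟨by rw [ha]; simp, by rw [← hb]; simp, hN2, ha0.ne', by linarith, hM.ne', hx.ne',
      hy.ne', hsz.ne', by positivity, hW.ne', hz'⟩, hquad', by positivity⟩
  rw [hy', es, ew, eR] at fam
  rw [hy', es, ew, ew1, eR] at hk ⊢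
  exact ⟨genArrow_point ha.symm hb ha0 hd0 hv0 hx (hg ▸ div_pos hsz hy) htc fam hk,
    genSigns_point ha.symm hb ha0 hd0 hv0 hx (hg ▸ div_pos hsz hy) htc fam hk⟩

/-- **The bridge.** Along the orbit the closed signs give the five signs of a family, with
`v = (b y/(a x) - 1)/d`. -/
theorem genArrow_of_closed (P : GenPar) (hc0 : 0 < P.c) {z : ℝ} (hz : z ∈ S) {a d v : ℝ} (ha : a
    = 1 / (p + 1))
    (hd : d = 1 / (q + 1) - 1 / (p + 1)) (hv : v = (1 / (q + 1) * y z / (a * x z) - 1) / d)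
    (hs : ClosedGen.Signs a d v (s z / y z) (wFun N x y dx dy z / (d * x z ^ 2))
      (wFun₁ N R x y dx dy z / (d * x z ^ 3)) (R z * x z)
      (P.closedNum N p q d v (R z) (x z) (y z) z (wFun N x y dx dy z))) :
    GenArrow N p q P.kap (P.num N (R z) (y z) z) (P.numW₁ z)
      (P.numG₁ N p q (R z) (x z) (y z) z (wFun N x y dx dy z)) (R z) (x z) (y z) z (s z)
      (wFun N x y dx dy z) (wFun₁ N R x y dx dy z) :=
  (genClosed_transfer hc h P hc0 hz ha hd hv).1 hs

/-- **The bridge with a free multiplier.** -/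
theorem genSigns_of_closed (P : GenPar) (hc0 : 0 < P.c) {z : ℝ} (hz : z ∈ S) {a d v : ℝ} (ha : a
    = 1 / (p + 1))
    (hd : d = 1 / (q + 1) - 1 / (p + 1)) (hv : v = (1 / (q + 1) * y z / (a * x z) - 1) / d)
    (hs : ClosedGen.SignsMult a d v (s z / y z) (wFun N x y dx dy z / (d * x z ^ 2))
      (wFun₁ N R x y dx dy z / (d * x z ^ 3)) (R z * x z)
      (P.closedNum N p q d v (R z) (x z) (y z) z (wFun N x y dx dy z))) :
    ∃ ν : ℝ, GenSigns N p q P.kap (P.num N (R z) (y z) z) (P.numW₁ z)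
      (P.numG₁ N p q (R z) (x z) (y z) z (wFun N x y dx dy z)) ν (R z) (x z) (y z) z (s z)
      (wFun N x y dx dy z) (wFun₁ N R x y dx dy z) :=
  (genClosed_transfer hc h P hc0 hz ha hd hv).2 hs

end

end Vale.Agent.P100.Calib
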