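import Mathlib
import Vale.Agent.P100.Calib.SlabGenBridge
import Vale.Agent.P100.Calib.SlabGenAllDef

/-!
# The numbers of the family of all dimensions from six on

`genSlope` is `genAll` with the slopes `w₁ = -(5/2) (al/be)/N`, `g₁ = -(3/10) (al/be)²`, `gY = 0`.
Along an orbit its numbers are functions of `a = al`, `d = be - al`, `v`, `W`, `R`, the dimension
being `N = 2/(1 - 2 a - d)`.
-/

set_option linter.unusedVariables false

open Set Laplacian

namespace Vale.Agent.P100.Calib

open Orb Bubble

variable {N p q : ℝ}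

/-- `genAll` with the slopes of the uniform design. -/
noncomputable def genSlope (N p q : ℝ) : GenPar :=
  genAll N p q (-(5 / 2) * ((1 / (p + 1)) / (1 / (q + 1))) / N)
    (-(3 / 10) * ((1 / (p + 1)) / (1 / (q + 1))) ^ 2) 0

/-- The dimension in the variables of the closed forms. -/
noncomputable def dimAll (a d : ℝ) : ℝ := 2 / (1 - (a + (a + d)))

/-- The numbers of `genSlope` in the variables of the closed forms. -/
noncomputable def allNum (a d v W R : ℝ) : ClosedGen.Num :=
  let N := dimAll a d
  let T := (1 - R * d * W) / (1 + d * v)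
  ⟨a * (a + d), -(1 - 2 * a - 1 / (2 * N)) / N,
    (-2 * (1 - 3 / N - 2 * a ^ 2) / N * (1 + d * v) - 5 / 2 * (1 - R * d * W)) / d,
    -(5 / 2) * (1 - R * d * W),
    (-a * (1 - 3 * a - 1 / N) / N - 3 / 10 * (a / (a + d)) * T) / d ^ 2,
    -(3 / 10) * (a / (a + d)) * T / d ^ 2, (AllN.kapAll N a + 1) / d ^ 2⟩

/-- The numbers of `genSlope` along an orbit are `allNum`. -/
theorem closedNum_all {S : Set ℝ} {R x y s dx dy : ℝ → ℝ} (hc : IsCrit N p q)
    (h : IsOrbitFns N p q S R x y s dx dy) {z : ℝ} (hz : z ∈ S) {a d v : ℝ}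
    (ha : a = 1 / (p + 1)) (hd : d = 1 / (q + 1) - 1 / (p + 1))
    (hv : v = (1 / (q + 1) * y z / (a * x z) - 1) / d) :
    (genSlope N p q).closedNum N p q d v (R z) (x z) (y z) z (wFun N x y dx dy z) =
      allNum a d v (wFun N x y dx dy z / (d * x z ^ 2)) (R z * x z) := by
  obtain ⟨hal, hlt, hw⟩ := hc.weights
  have hN : N ≠ 0 := by linarith [hc.dim]
  have hb : 1 / (q + 1) = a + d := by rw [ha, hd]; ring
  have ha0 : 0 < a := ha ▸ hal
  have hd0 : 0 < d := by linarith
  have hM : 1 - (a + (a + d)) ≠ 0 := by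
    intro e
    have : N * (1 - (a + (a + d))) = 2 := by rw [ha, hd]; linear_combination -hw
    rw [e, mul_zero] at this
    norm_num at this
  have eN : dimAll a d = N := by
    rw [dimAll, div_eq_iff hM, ha, hd]; linear_combination hw
  have hx := h.x_pos z hz
  have hy := h.y_pos z hz
  have hW := h.W_pos z hz
  rw [hb, ← ha] at hW
  rw [hb] at hv
  have hv' : v = ((a + d) * y z - a * x z) / (a * x z * d) := by rw [hv]; field_simp
  have hQ : (1 : ℝ) + d * v ≠ 0 := by
    have : 0 < v := by rw [hv']; exact div_pos hW (by positivity)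
    positivity
  have hzz : a / (a + d) * z * (1 + d * v) = 1 - R z * x z * d *
      (wFun N x y dx dy z / (d * x z ^ 2)) := by
    have hwz := wFun_eq hc h hz
    have : z * y z = x z - R z * wFun N x y dx dy z := by linarith
    rw [hv']
    field_simp
    linear_combination (a + d) * this
  have hT : a / (a + d) * z = (1 - R z * x z * d *
      (wFun N x y dx dy z / (d * x z ^ 2))) / (1 + d * v) := by rw [eq_div_iff hQ, hzz]
  simp only [GenPar.closedNum, GenPar.numG₁, genSlope, genAll, allNum, AllN.num, eN, ← ha, hb,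
    ClosedGen.Num.mk.injEq, true_and, zero_mul, add_zero, sub_zero, and_true]
  rw [← hT, ← hzz]
  refine ⟨?_, ?_, ?_, ?_⟩ <;> field_simp <;> ring

end Vale.Agent.P100.Calib
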