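import Mathlib
import Vale.Agent.P100.Calib.Tail
import Vale.Agent.P100.Calib.OrbitLimit
import Vale.Agent.P100.Calib.TailFiveCert

/-!
# The end point `z = 0` of the slab family in five dimensions

For `N ∈ [5, 5 + 3/40]` and `N - 4 ≤ N/(p+1) < (N-2)/2` the scalars with end values `tv` and
`kap = -1` make the eliminated form at the end point nonnegative on the cone, with positive
surplus at its zeros. In the criterion `ν` is the coefficient
of `G Qt`, so that only the entries `(E, G)` and `(E, Qt)` remain off the diagonal.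
-/

-- The linters cost more than the proofs here.
set_option linter.all false

namespace Vale.Agent.P100.Calib.Five

open Bubble TailVal

/-- The five numbers on the slab as functions of the weights and `N`. -/
noncomputable def num (al be N : ℝ) : TailVal :=
  ⟨1 / 8, -(1 / 20 + (be - al)) / N, 0, -(21 / 100), 0⟩

/-- Their values at an end point. -/
noncomputable def tv (o : Orb) : TailVal :=
  num o.al o.be o.N

/-- The end point when `Y = X`, in `m = N - 2` and `b = N/(p+1)`. -/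
noncomputable def orbA (m b : ℝ) : Orb :=
  ⟨b / (m + 2), (m - b) / (m + 2), m + 2, (m + 2) / b - 1, (m + 2) / (m - b) - 1, -m, -m, 0, 0, -1⟩

/-- The end point when `β Y = -N α`. -/
noncomputable def orbB (m b : ℝ) : Orb :=
  ⟨b / (m + 2), (m - b) / (m + 2), m + 2, (m + 2) / b - 1, (m + 2) / (m - b) - 1, -m,
    -((m + 2) * b / (m - b)), 0, (m + 2) * b / (m - b) * (m - (m + 2) * b / (m - b)), -1⟩

/-- The parameters with `Y = X`. -/
structure DomA (m b : ℝ) : Prop where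
  m3 : 3 ≤ m
  m4 : m ≤ 3 + 3 / 40
  hb : m ^ 2 ≤ 2 * b * (m + 1)
  hlt : b < m / 2

/-- The parameters with `β Y = -N α`. -/
structure DomB (m b : ℝ) : Prop where
  m3 : 3 ≤ m
  m4 : m ≤ 3 + 3 / 40
  hb : 2 * b * (m + 1) ≤ m ^ 2
  hlo : m - 2 ≤ b

theorem DomA.facts {m b : ℝ} (h : DomA m b) :
    0 < m ∧ 0 < m + 1 ∧ 0 < b ∧ 0 < m - b ∧ 0 < m + 2 ∧ m + 2 ≠ 0 ∧ 0 < m - 2 * b ∧
      0 ≤ (m - 3) * (40 / 3) ∧ (m - 3) * (40 / 3) ≤ 1 ∧ 0 ≤ (m - 2 * b) * (25 / 19) ∧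
      (m - 2 * b) * (25 / 19) ≤ 1 := by
  obtain ⟨h1, h2, h3, h4⟩ := h
  have : 0 < b := by nlinarith
  refine ⟨by linarith, by linarith, this, by linarith, by linarith, by linarith, by linarith,
    by linarith, by linarith, by linarith, ?_⟩
  nlinarith

theorem DomB.facts {m b : ℝ} (h : DomB m b) :
    0 < m ∧ 0 < m + 1 ∧ 0 < b ∧ 0 < m - b ∧ 0 < m + 2 ∧ m + 2 ≠ 0 ∧ 2 * b ≠ 0 ∧
      0 ≤ (m - 3) * (40 / 3) ∧ (m - 3) * (40 / 3) ≤ 1 ∧ 0 ≤ (b - m + 2) * 8 ∧
      (b - m + 2) * 8 ≤ 1 := by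
  obtain ⟨h1, h2, h3, h4⟩ := h
  have : 0 < b := by linarith
  refine ⟨by linarith, by linarith, this, by nlinarith, by linarith, by linarith, by linarith,
    by linarith, by linarith, by linarith, ?_⟩
  nlinarith

variable {m b : ℝ}

theorem of_cert {l : List (ℕ × ℕ × ℤ)} {K d r x y : ℝ} (hl : 0 ≤ low l) (hK : 0 ≤ K) (hd : 0 ≤ d)
    (x0 : 0 ≤ x) (x1 : x ≤ 1) (y0 : 0 ≤ y) (y1 : y ≤ 1) (e : r = K * evl l x y / d) : 0 ≤ r :=
  e ▸ div_nonneg (mul_nonneg hK ((Int.cast_nonneg hl).trans (low_le_evl x0 x1 y0 y1 l))) hd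

theorem orbA_DE (h : DomA m b) : (orbA m b).D = -(m ^ 2 / (m + 2)) ∧
    (orbA m b).al * (orbA m b).X - (orbA m b).be * (orbA m b).Y =
      m * (m - 2 * b) / (m + 2) := by
  obtain ⟨-, -, -, -, -, n1, -⟩ := h.facts
  constructor <;> simp only [orbA, Orb.D] <;> field_simp <;> ring

theorem orbB_DE (h : DomB m b) : (orbB m b).D = -(2 * b * (m + 1) / (m + 2)) ∧
    (orbB m b).al * (orbB m b).X - (orbB m b).be * (orbB m b).Y = 2 * b / (m + 2) := by
  obtain ⟨-, -, -, a0, -, n1, -⟩ := h.facts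
  have := a0.ne'
  constructor <;> simp only [orbB, Orb.D] <;> field_simp <;> ring

theorem bAGQLo (hA : DomA m b) :
    (131 / 5000) ≤
      (tv (orbA m b)).eGQ (orbA m b) := by
  obtain ⟨m0, m1, b0, a0, N0, N1, s0, hx, hx1, hy, hy1⟩ := hA.facts
  have s1 : m - b * 2 ≠ 0 := by linarith
  rw [← sub_nonneg]
  refine of_cert (l := lAGQLo) (K := (1 / 512000000000))
    (d := (m + 2) ^ 2 * m ^ 3)
    okAGQLo (by norm_num)
    (le_of_lt (mul_pos (pow_pos N0 2) (pow_pos m0 3)))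
    hx hx1 hy hy1 ?_
  simp only [eGQ, n2, nup]
  simp only [(orbA_DE hA).2, (orbA_DE hA).1]
  simp only [tv, num, orbA, lAGQLo, evl, Int.cast_ofNat, Int.cast_neg]
  field_simp
  ring

theorem bAmuLo (hA : DomA m b) :
    (23 / 1000) ≤
      (tv (orbA m b)).eMG (orbA m b) - gam (orbA m b) * (tv (orbA m b)).eGQ (orbA m b) := by
  obtain ⟨m0, m1, b0, a0, N0, N1, s0, hx, hx1, hy, hy1⟩ := hA.facts
  have s1 : m - b * 2 ≠ 0 := by linarith
  rw [← sub_nonneg]
  refine of_cert (l := lAmuLo) (K := (1 / 4096000000000))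
    (d := m ^ 6)
    okAmuLo (by norm_num)
    (le_of_lt (pow_pos m0 6))
    hx hx1 hy hy1 ?_
  simp only [eMG, rawMG, eGQ, h11, T1, W1, bigK, nup, eC, n1, n2, gam]
  simp only [(orbA_DE hA).2, (orbA_DE hA).1]
  simp only [tv, num, orbA, lAmuLo, evl, Int.cast_ofNat, Int.cast_neg]
  field_simp
  ring

theorem bAPLo (hA : DomA m b) :
    (163 / 10000) ≤
      (tv (orbA m b)).eEE (orbA m b) +
        ((tv (orbA m b)).eMG (orbA m b)
          - gam (orbA m b) * (tv (orbA m b)).eGQ (orbA m b)) := by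
  obtain ⟨m0, m1, b0, a0, N0, N1, s0, hx, hx1, hy, hy1⟩ := hA.facts
  have s1 : m - b * 2 ≠ 0 := by linarith
  rw [← sub_nonneg]
  refine of_cert (l := lAPLo) (K := (1 / 1638400000000000))
    (d := (m + 2) ^ 1 * m ^ 6)
    okAPLo (by norm_num)
    (le_of_lt (mul_pos (pow_pos N0 1) (pow_pos m0 6)))
    hx hx1 hy hy1 ?_
  simp only [eEE, eMG, rawEE, rawMG, eGQ, h11, T1, W1, bigK, nup, eC, n1, n2, gam]
  simp only [(orbA_DE hA).2, (orbA_DE hA).1]
  simp only [tv, num, orbA, lAPLo, evl, Int.cast_ofNat, Int.cast_neg]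
  field_simp
  ring

theorem bAGLo (hA : DomA m b) :
    (121 / 1000000) ≤
      (tv (orbA m b)).eGG (orbA m b) := by
  obtain ⟨m0, m1, b0, a0, N0, N1, s0, hx, hx1, hy, hy1⟩ := hA.facts
  have s1 : m - b * 2 ≠ 0 := by linarith
  rw [← sub_nonneg]
  refine of_cert (l := lAGLo) (K := (1 / 419430400000000000000000))
    (d := (m + 2) ^ 3 * m ^ 8)
    okAGLo (by norm_num)
    (le_of_lt (mul_pos (pow_pos N0 3) (pow_pos m0 8)))
    hx hx1 hy hy1 ?_
  simp only [eGG, rawGG, h22, T2, W2, bigK, fC, n2, nup]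
  simp only [(orbA_DE hA).2, (orbA_DE hA).1]
  simp only [tv, num, orbA, lAGLo, evl, Int.cast_ofNat, Int.cast_neg]
  field_simp
  ring

theorem bABLo (hA : DomA m b) :
    (-(23 / 200000)) ≤
      (tv (orbA m b)).eEG (orbA m b) / 2 := by
  obtain ⟨m0, m1, b0, a0, N0, N1, s0, hx, hx1, hy, hy1⟩ := hA.facts
  have s1 : m - b * 2 ≠ 0 := by linarith
  rw [← sub_nonneg]
  refine of_cert (l := lABLo) (K := (1 / 52428800000000000000))
    (d := (m + 2) ^ 2 * m ^ 7)
    okABLo (by norm_num)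
    (le_of_lt (mul_pos (pow_pos N0 2) (pow_pos m0 7)))
    hx hx1 hy hy1 ?_
  simp only [eEG, rawEG, h12, T1, T2, W1, W2, bigK, nup, eC, fC, n1, n2, gam]
  simp only [(orbA_DE hA).2, (orbA_DE hA).1]
  simp only [tv, num, orbA, lABLo, evl, Int.cast_ofNat]
  field_simp
  ring

theorem bABHi (hA : DomA m b) :
    (tv (orbA m b)).eEG (orbA m b) / 2 ≤
      (23 / 200000) := by
  obtain ⟨m0, m1, b0, a0, N0, N1, s0, hx, hx1, hy, hy1⟩ := hA.facts
  have s1 : m - b * 2 ≠ 0 := by linarith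
  rw [← sub_nonneg]
  refine of_cert (l := lABHi) (K := (1 / 52428800000000000000))
    (d := (m + 2) ^ 2 * m ^ 7)
    okABHi (by norm_num)
    (le_of_lt (mul_pos (pow_pos N0 2) (pow_pos m0 7)))
    hx hx1 hy hy1 ?_
  simp only [eEG, rawEG, h12, T1, T2, W1, W2, bigK, nup, eC, fC, n1, n2, gam]
  simp only [(orbA_DE hA).2, (orbA_DE hA).1]
  simp only [tv, num, orbA, lABHi, evl, Int.cast_ofNat, Int.cast_neg]
  field_simp
  ring

theorem bAQLo (hA : DomA m b) :
    (3 / 100) ≤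
      (tv (orbA m b)).w * (orbA m b).X := by
  obtain ⟨m0, m1, b0, a0, N0, N1, s0, hx, hx1, hy, hy1⟩ := hA.facts
  have s1 : m - b * 2 ≠ 0 := by linarith
  rw [← sub_nonneg]
  refine of_cert (l := lAQLo) (K := (3 / 80000))
    (d := (m + 2) ^ 2)
    okAQLo (by norm_num)
    (le_of_lt (pow_pos N0 2))
    hx hx1 hy hy1 ?_
  simp only [tv, num, orbA, lAQLo, evl, Int.cast_ofNat]
  field_simp
  ring

theorem bAKLo (hA : DomA m b) :
    ((tv (orbA m b)).eEQ (orbA m b) / 2) ^ 2 ≤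
      (13 / 1250) * ((tv (orbA m b)).w * (orbA m b).X) := by
  obtain ⟨m0, m1, b0, a0, N0, N1, s0, hx, hx1, hy, hy1⟩ := hA.facts
  have s1 : m - b * 2 ≠ 0 := by linarith
  rw [← sub_nonneg]
  refine of_cert (l := lAKLo) (K := (1 / 16384000000000000000))
    (d := (m + 2) ^ 2 * (m - b) ^ 2 * m ^ 4)
    okAKLo (by norm_num)
    (le_of_lt (mul_pos (mul_pos (pow_pos N0 2) (pow_pos a0 2)) (pow_pos m0 4)))
    hx hx1 hy hy1 ?_
  simp only [eEQ, n1, gam]
  simp only [(orbA_DE hA).1]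
  simp only [tv, num, orbA, lAKLo, evl, Int.cast_ofNat, Int.cast_neg]
  field_simp
  ring

theorem bBGQLo (hB : DomB m b) :
    (313 / 10000) ≤
      (tv (orbB m b)).eGQ (orbB m b) := by
  obtain ⟨m0, m1, b0, a0, N0, N1, s0, hx, hx1, hy, hy1⟩ := hB.facts
  rw [← sub_nonneg]
  refine of_cert (l := lBGQLo) (K := (3 / 65536000000000000))
    (d := (m + 2) ^ 3 * b ^ 2 * m ^ 1 * (m + 1) ^ 2)
    okBGQLo (by norm_num)
    (le_of_lt (mul_pos (mul_pos (mul_pos (pow_pos N0 3) (pow_pos b0 2)) (pow_pos m0 1))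
      (pow_pos m1 2)))
    hx hx1 hy hy1 ?_
  simp only [eGQ, n2, nup]
  simp only [(orbB_DE hB).2, (orbB_DE hB).1]
  simp only [tv, num, orbB, lBGQLo, evl, Int.cast_ofNat, Int.cast_neg]
  field_simp
  ring

theorem bBmuLo (hB : DomB m b) :
    (11 / 500) ≤
      (tv (orbB m b)).eMG (orbB m b) - gam (orbB m b) * (tv (orbB m b)).eGQ (orbB m b) := by
  obtain ⟨m0, m1, b0, a0, N0, N1, s0, hx, hx1, hy, hy1⟩ := hB.facts
  rw [← sub_nonneg]
  refine of_cert (l := lBmuLo) (K := (1 / 858993459200000000000000))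
    (d := (m + 2) ^ 1 * (m - b) ^ 4 * b ^ 4 * m ^ 1 * (m + 1) ^ 4)
    okBmuLo (by norm_num)
    (le_of_lt (mul_pos (mul_pos (mul_pos (mul_pos (pow_pos N0 1) (pow_pos a0 4)) (pow_pos b0 4))
      (pow_pos m0 1)) (pow_pos m1 4)))
    hx hx1 hy hy1 ?_
  simp only [eMG, rawMG, eGQ, h11, T1, W1, bigK, nup, eC, n1, n2, gam]
  simp only [(orbB_DE hB).2, (orbB_DE hB).1]
  simp only [tv, num, orbB, lBmuLo, evl, Int.cast_ofNat, Int.cast_neg]
  field_simp
  ring

theorem bBPLo (hB : DomB m b) :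
    (143 / 10000) ≤
      (tv (orbB m b)).eEE (orbB m b) +
        ((tv (orbB m b)).eMG (orbB m b)
          - gam (orbB m b) * (tv (orbB m b)).eGQ (orbB m b)) := by
  obtain ⟨m0, m1, b0, a0, N0, N1, s0, hx, hx1, hy, hy1⟩ := hB.facts
  rw [← sub_nonneg]
  refine of_cert (l := lBPLo) (K := (1 / 17179869184000000000000000))
    (d := (m + 2) ^ 2 * (m - b) ^ 4 * b ^ 4 * m ^ 1 * (m + 1) ^ 4)
    okBPLo (by norm_num)
    (le_of_lt (mul_pos (mul_pos (mul_pos (mul_pos (pow_pos N0 2) (pow_pos a0 4)) (pow_pos b0 4))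
      (pow_pos m0 1)) (pow_pos m1 4)))
    hx hx1 hy hy1 ?_
  simp only [eEE, eMG, rawEE, rawMG, eGQ, h11, T1, W1, bigK, nup, eC, n1, n2, gam]
  simp only [(orbB_DE hB).2, (orbB_DE hB).1]
  simp only [tv, num, orbB, lBPLo, evl, Int.cast_ofNat, Int.cast_neg]
  field_simp
  ring

theorem bBGLo (hB : DomB m b) :
    (13 / 125000) ≤
      (tv (orbB m b)).eGG (orbB m b) := by
  obtain ⟨m0, m1, b0, a0, N0, N1, s0, hx, hx1, hy, hy1⟩ := hB.facts
  rw [← sub_nonneg]
  refine of_cert (l := lBGLo) (K := (3 / 2097152000000000000000000))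
    (d := (m + 2) ^ 4 * b ^ 4 * m ^ 2 * (m + 1) ^ 2)
    okBGLo (by norm_num)
    (le_of_lt (mul_pos (mul_pos (mul_pos (pow_pos N0 4) (pow_pos b0 4)) (pow_pos m0 2))
      (pow_pos m1 2)))
    hx hx1 hy hy1 ?_
  simp only [eGG, rawGG, h22, T2, W2, bigK, fC, n2, nup]
  simp only [(orbB_DE hB).2, (orbB_DE hB).1]
  simp only [tv, num, orbB, lBGLo, evl, Int.cast_ofNat, Int.cast_neg]
  field_simp
  ring

theorem bBBLo (hB : DomB m b) :
    (-(291 / 500000)) ≤
      (tv (orbB m b)).eEG (orbB m b) / 2 := by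
  obtain ⟨m0, m1, b0, a0, N0, N1, s0, hx, hx1, hy, hy1⟩ := hB.facts
  rw [← sub_nonneg]
  refine of_cert (l := lBBLo) (K := (1 / 536870912000000000000000000))
    (d := (m + 2) ^ 3 * (m - b) ^ 2 * b ^ 4 * m ^ 1 * (m + 1) ^ 4)
    okBBLo (by norm_num)
    (le_of_lt (mul_pos (mul_pos (mul_pos (mul_pos (pow_pos N0 3) (pow_pos a0 2)) (pow_pos b0 4))
      (pow_pos m0 1)) (pow_pos m1 4)))
    hx hx1 hy hy1 ?_
  simp only [eEG, rawEG, h12, T1, T2, W1, W2, bigK, nup, eC, fC, n1, n2, gam]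
  simp only [(orbB_DE hB).2, (orbB_DE hB).1]
  simp only [tv, num, orbB, lBBLo, evl, Int.cast_ofNat, Int.cast_neg]
  field_simp
  ring

theorem bBBHi (hB : DomB m b) :
    (tv (orbB m b)).eEG (orbB m b) / 2 ≤
      (291 / 500000) := by
  obtain ⟨m0, m1, b0, a0, N0, N1, s0, hx, hx1, hy, hy1⟩ := hB.facts
  rw [← sub_nonneg]
  refine of_cert (l := lBBHi) (K := (1 / 536870912000000000000000000))
    (d := (m + 2) ^ 3 * (m - b) ^ 2 * b ^ 4 * m ^ 1 * (m + 1) ^ 4)
    okBBHi (by norm_num)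
    (le_of_lt (mul_pos (mul_pos (mul_pos (mul_pos (pow_pos N0 3) (pow_pos a0 2)) (pow_pos b0 4))
      (pow_pos m0 1)) (pow_pos m1 4)))
    hx hx1 hy hy1 ?_
  simp only [eEG, rawEG, h12, T1, T2, W1, W2, bigK, nup, eC, fC, n1, n2, gam]
  simp only [(orbB_DE hB).2, (orbB_DE hB).1]
  simp only [tv, num, orbB, lBBHi, evl, Int.cast_ofNat, Int.cast_neg]
  field_simp
  ring

theorem bBQLo (hB : DomB m b) :
    (11 / 100) ≤
      (tv (orbB m b)).w * (orbB m b).X := by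
  obtain ⟨m0, m1, b0, a0, N0, N1, s0, hx, hx1, hy, hy1⟩ := hB.facts
  rw [← sub_nonneg]
  refine of_cert (l := lBQLo) (K := (1 / 80000))
    (d := (m + 2) ^ 2)
    okBQLo (by norm_num)
    (le_of_lt (pow_pos N0 2))
    hx hx1 hy hy1 ?_
  simp only [tv, num, orbB, lBQLo, evl, Int.cast_ofNat, Int.cast_neg]
  field_simp
  ring

theorem bBKLo (hB : DomB m b) :
    ((tv (orbB m b)).eEQ (orbB m b) / 2) ^ 2 ≤
      (51 / 5000) * ((tv (orbB m b)).w * (orbB m b).X) := by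
  obtain ⟨m0, m1, b0, a0, N0, N1, s0, hx, hx1, hy, hy1⟩ := hB.facts
  rw [← sub_nonneg]
  refine of_cert (l := lBKLo) (K := (1 / 655360000000000000))
    (d := (m + 2) ^ 4 * b ^ 4)
    okBKLo (by norm_num)
    (le_of_lt (mul_pos (pow_pos N0 4) (pow_pos b0 4)))
    hx hx1 hy hy1 ?_
  simp only [eEQ, n1, gam]
  simp only [(orbB_DE hB).1]
  simp only [tv, num, orbB, lBKLo, evl, Int.cast_ofNat, Int.cast_neg]
  field_simp
  ring

/-- The minors follow from five bounds, since `ν` removes the entry `(G, Qt)`. -/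
theorem end_pos_of_bounds {o : Orb} (h : o.AtEnd) {P₀ G₀ B₀ K₀ : ℝ} (hc : 0 < (tv o).c)
    (hXY : 0 < o.X * o.Y) (hw : 0 < (tv o).w * o.X) (P0 : 0 < P₀) (G0 : 0 < G₀)
    (key : B₀ ^ 2 < G₀ * (P₀ - K₀))
    (hν : 0 ≤ (tv o).eGQ o) (hμ : 0 ≤ (tv o).eMG o - gam o * (tv o).eGQ o)
    (hP : P₀ ≤ (tv o).eEE o + ((tv o).eMG o - gam o * (tv o).eGQ o)) (hG : G₀ ≤ (tv o).eGG o)
    (hB : -B₀ ≤ (tv o).eEG o / 2) (hB' : (tv o).eEG o / 2 ≤ B₀)
    (hK : ((tv o).eEQ o / 2) ^ 2 ≤ K₀ * ((tv o).w * o.X))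
    {A C B Q : ℝ} (hA : 0 ≤ A) (hB0 : 0 ≤ B) (hCs : C ^ 2 ≤ A * B) (hQ : 0 ≤ Q)
    (hsum : 0 < A + B + Q) :
    0 ≤ elimN o.N o.p o.q ((tv o).coef o) ((tv o).cl o) ((tv o).cm o) A C B (0 * Q) Q ∧
      (elimN o.N o.p o.q ((tv o).coef o) ((tv o).cl o) ((tv o).cm o) A C B (0 * Q) Q = 0 →
        0 < elimGap ((tv o).coef o) ((tv o).cl o) ((tv o).cm o) A C B (0 * Q) Q) := by
  set P := (tv o).eEE o + ((tv o).eMG o - gam o * (tv o).eGQ o) with hPd
  set e₁ := (tv o).eEG o / 2 with hed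
  set f₁ := (tv o).eEQ o / 2 with hfd
  set g₀ := (tv o).eGG o with hgd
  have e2 : e₁ ^ 2 ≤ B₀ ^ 2 := sq_le_sq' hB hB'
  set w₀ := (tv o).w * o.X with hwd
  have hb : 0 < P₀ - K₀ := pos_of_mul_pos_right (lt_of_le_of_lt (sq_nonneg _) key) G0.le
  have hk : e₁ ^ 2 * w₀ < g₀ * (P * w₀ - f₁ ^ 2) := by
    calc e₁ ^ 2 * w₀ < G₀ * (P₀ - K₀) * w₀ := mul_lt_mul_of_pos_right (e2.trans_lt key) hw
      _ ≤ g₀ * (P₀ - K₀) * w₀ :=
        mul_le_mul_of_nonneg_right (mul_le_mul_of_nonneg_right hG hb.le) hw.le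
      _ ≤ g₀ * (P * w₀ - f₁ ^ 2) := by
        rw [mul_assoc]
        refine mul_le_mul_of_nonneg_left ?_ (G0.le.trans hG)
        linarith [mul_le_mul_of_nonneg_right hP hw.le]
  have hd : 0 < P * g₀ - e₁ ^ 2 := by
    have := mul_nonneg (G0.le.trans hG) (sq_nonneg f₁)
    have hn : e₁ ^ 2 * w₀ < (P * g₀) * w₀ := by linarith
    linarith [lt_of_mul_lt_mul_right hn hw.le]
  refine (tv o).end_pos o h hc hXY (μ := (tv o).eMG o - gam o * (tv o).eGQ o)
    (ν := (tv o).eGQ o) (by ring) hμ hν (P0.trans_le hP) hd ?_ hA hB0 hCs hQ hsum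
  rw [sub_self, zero_div, ← hPd, ← hed, ← hfd, ← hwd, ← hgd]
  linarith

/-- At the end point the weighted exponents have their constant sum. -/
theorem end_lam_mu {o : Orb} (h : o.AtEnd) {r₁ r₂ : ℝ} (hr : r₁ + r₂ = (o.N - 4 - o.kap) / 4) :
    (o.p + 1) * o.lam + (o.q + 1) * o.mu =
      (o.p + 1) * (-2 * r₁ + 2 * o.q * r₂) + (o.q + 1) * (2 * o.p * r₁ - 2 * r₂) := by
  have hN := h.N0
  have hE := h.E0
  have al0 := h.al0
  have be0 := h.be0
  have hp : o.p = 1 / o.al - 1 := by rw [eq_sub_iff_add_eq, eq_div_iff al0]; exact h.hp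
  have hq : o.q = 1 / o.be - 1 := by rw [eq_sub_iff_add_eq, eq_div_iff be0]; exact h.hq
  have hbe : o.be = (o.N - 2 - o.N * o.al) / o.N := by
    rw [eq_div_iff hN]; linear_combination h.hN
  have e1 : (o.p + 1) * o.lam + (o.q + 1) * o.mu =
      1 / o.al + 1 / o.be - (o.kap + 2) / (o.N * o.al * o.be) := by
    rw [Orb.lam, Orb.mu, hp, hq]
    generalize o.J = J
    generalize hd : o.al * o.X - o.be * o.Y = d at hE ⊢
    field_simp
    linear_combination -(o.kap + 2) * hd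
  have e2 : (o.p + 1) * (-2 * r₁ + 2 * o.q * r₂) + (o.q + 1) * (2 * o.p * r₁ - 2 * r₂) =
      2 * (o.p * o.q - 1) * (r₁ + r₂) := by ring
  rw [e1, e2, hr, hp, hq]
  field_simp
  linear_combination (2 * (o.N - 2 - o.kap)) * h.hN

/-- **The end point of the slab family.** The hypotheses at `z = 0` of `no_solution_of_orbit_pos`,
for scalars with limits `tv.scalars` and vanishing limits of `z k'`, and `kap = -1`. -/
theorem endFive_pos {N p q : ℝ} (hc : IsCrit N p q) (h1 : 5 ≤ N) (h2 : N ≤ 5 + 3 / 40)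
    (hb : N - 4 ≤ N / (p + 1)) {r₁ r₂ : ℝ} (hr : r₁ + r₂ = (N - 4 - (-1)) / 4) :
    let o := endOrb N p q (-1)
    let C₀ := fun j => o.cBase j + ∑ r, (tv o).scalars o r * o.fldQ r j
    let D₀ := fun _ : Fin 14 => (0 : ℝ)
    0 < C₀ 0 ∧ 0 < C₀ 0 * C₀ 3 - ((C₀ 1 + C₀ 2) / 2) ^ 2 ∧
      ∀ A B D Q : ℝ, 0 ≤ A → 0 ≤ B → D ^ 2 ≤ A * B → 0 ≤ Q → 0 < A + B + Q →
        let M₀ := ((p + 1) * (-2 * r₁ + 2 * q * r₂) + (q + 1) * (2 * p * r₁ - 2 * r₂) -
          (p + 1) * o.lam) / (q + 1)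
        let la := fun j => C₀ j * o.lam - (q + 1) * D₀ j
        let mb := fun j => C₀ j * M₀ + (p + 1) * D₀ j
        0 ≤ elimN N p q C₀ la mb A D B 0 Q ∧
          (elimN N p q C₀ la mb A D B 0 Q = 0 → 0 < elimGap C₀ la mb A D B 0 Q) := by
  intro o C₀ D₀
  obtain ⟨hal, hlt, hw⟩ := hc.weights
  have p1 : 0 < p + 1 := by linarith [hc.p_pos]
  have q1 : 0 < q + 1 := by linarith [hc.q_pos]
  have N0 : 0 < N := by linarith
  set m := N - 2 with hm
  set b := N / (p + 1) with hbd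
  have eN : N = m + 2 := by linarith
  have hb1 : N * (1 / (p + 1)) = b := by rw [hbd]; ring
  have b0 : 0 < b := by positivity
  have hq1 : N / (q + 1) = m - b := by
    rw [← hb1]; linear_combination hw
  have hb2 : b < m / 2 := by
    have := mul_lt_mul_of_pos_left hlt N0
    rw [hb1] at this
    linarith
  have ep : p = (m + 2) / b - 1 := by rw [← eN, hbd]; field_simp; ring
  have eq : q = (m + 2) / (m - b) - 1 := by rw [← eN, ← hq1]; field_simp; ring
  have eal : 1 / (p + 1) = b / (m + 2) := by rw [← eN, hbd]; field_simp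
  have ebe : 1 / (q + 1) = (m - b) / (m + 2) := by rw [← eN, ← hq1]; field_simp
  have ha0 : 0 < m - b := by linarith
  have cases : o = orbA m b ∧ DomA m b ∨ o = orbB m b ∧ DomB m b := by
    have eM : N * (1 / (p + 1)) / (1 / (q + 1)) = (m + 2) * b / (m - b) := by
      rw [hb1, ebe]; field_simp
    rcases le_or_gt (m ^ 2) (2 * b * (m + 1)) with c | c
    · refine Or.inl ⟨?_, ⟨by linarith, by linarith, c, hb2⟩⟩
      have hle : m ≤ (m + 2) * b / (m - b) := by rw [le_div_iff₀ ha0]; nlinarith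
      simp only [o, endOrb, orbA, eM, ← hm, min_eq_left hle, Orb.mk.injEq]
      exact ⟨eal, ebe, eN, ep, eq, trivial, trivial, trivial, by ring, trivial⟩
    · refine Or.inr ⟨?_, ⟨by linarith, by linarith, c.le, by linarith⟩⟩
      have hle : (m + 2) * b / (m - b) ≤ m := by rw [div_le_iff₀ ha0]; nlinarith
      simp only [o, endOrb, orbB, eM, ← hm, min_eq_right hle, Orb.mk.injEq]
      exact ⟨eal, ebe, eN, ep, eq, trivial, trivial, trivial, trivial, trivial⟩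
  obtain ⟨hX0, hY0, hD0, hE0, -⟩ := endOrb_facts (kap := -1) hc
  have hN' : o.N = N := rfl
  have hp' : o.p = p := rfl
  have hq' : o.q = q := rfl
  have hat : o.AtEnd := by
    refine ⟨?_, ?_, ?_, rfl, rfl, ?_, ?_, N0.ne', hX0, hY0, hD0, hE0, ?_, ?_⟩
    · simp only [o, endOrb]; field_simp
    · simp only [o, endOrb]; field_simp
    · simp only [o, endOrb]; linear_combination hw
    · rcases cases with ⟨e, -⟩ | ⟨e, hB⟩
      · rw [e]; simp only [orbA]; ring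
      · rw [e]; simp only [orbB]; ring
    · rcases cases with ⟨e, -⟩ | ⟨e, hB⟩
      · rw [e]; exact Or.inl (by simp only [orbA]; ring)
      · rw [e]; refine Or.inr ?_
        have := ha0.ne'
        simp only [orbB]; field_simp
    · exact hal.ne'
    · exact (hal.trans hlt).ne'
  have hXY : 0 < o.X * o.Y := by
    rcases cases with ⟨e, hA⟩ | ⟨e, hB⟩ <;> rw [e]
    · simp only [orbA]; nlinarith [hA.m3]
    · simp only [orbB]
      rw [neg_mul_neg]
      have := hB.m3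
      positivity
  have hC : C₀ = (tv o).coef o := funext fun j => ((tv o).coef_eq o j).symm
  rw [hC]
  have hc0 : 0 < (tv o).c := by
    rcases cases with ⟨e, h⟩ | ⟨e, h⟩ <;>
    · rw [e]; have := h.facts; simp only [tv, num]; norm_num
  obtain ⟨e0, -, -⟩ := (tv o).coef_head o hX0 hY0
  refine ⟨?_, ?_, ?_⟩
  · rw [e0]
    refine add_pos_of_nonneg_of_pos (sq_nonneg _) (mul_pos hc0 ?_)
    rw [show o.Y / o.X = o.X * o.Y / o.X ^ 2 by field_simp]
    exact div_pos hXY (lt_of_le_of_ne (sq_nonneg _) (Ne.symm (pow_ne_zero 2 hX0)))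
  · rw [(tv o).coef_det o hX0 hY0]
    exact div_pos (mul_pos hc0
      (lt_of_le_of_ne (sq_nonneg _) (Ne.symm (pow_ne_zero 2 hD0)))) hXY
  intro A B D Q hA hB hD hQ hs M₀ la mb
  have hM : M₀ = o.mu := by
    have := end_lam_mu hat (r₁ := r₁) (r₂ := r₂) hr
    simp only [hp', hq'] at this
    simp only [M₀, div_eq_iff q1.ne']
    linarith
  have hla : la = (tv o).cl o := funext fun j => by simp [la, D₀, TailVal.cl]
  have hmb : mb = (tv o).cm o := funext fun j => by simp [mb, D₀, TailVal.cm, hM]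
  rw [hla, hmb, ← hN', ← hp', ← hq', show (0 : ℝ) = 0 * Q from (zero_mul Q).symm]
  simp only [zero_mul]
  rcases cases with ⟨e, h⟩ | ⟨e, h⟩
  · have := end_pos_of_bounds hat (P₀ := (163 / 10000)) (G₀ := (121 / 1000000))
      (B₀ := (23 / 200000)) (K₀ := (13 / 1250)) hc0 hXY
      (by rw [e]; linarith [bAQLo h]) (by norm_num) (by norm_num) (by norm_num)
      (by rw [e]; linarith [bAGQLo h]) (by rw [e]; linarith [bAmuLo h])
      (by rw [e]; exact bAPLo h) (by rw [e]; exact bAGLo h) (by rw [e]; exact bABLo h)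
      (by rw [e]; exact bABHi h) (by rw [e]; exact bAKLo h) hA hB hD hQ hs
    simpa using this
  · have := end_pos_of_bounds hat (P₀ := (143 / 10000)) (G₀ := (13 / 125000))
      (B₀ := (291 / 500000)) (K₀ := (51 / 5000)) hc0 hXY
      (by rw [e]; linarith [bBQLo h]) (by norm_num) (by norm_num) (by norm_num)
      (by rw [e]; linarith [bBGQLo h]) (by rw [e]; linarith [bBmuLo h])
      (by rw [e]; exact bBPLo h) (by rw [e]; exact bBGLo h) (by rw [e]; exact bBBLo h)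
      (by rw [e]; exact bBBHi h) (by rw [e]; exact bBKLo h) hA hB hD hQ hs
    simpa using this

end Vale.Agent.P100.Calib.Five
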