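import Mathlib
import Vale.Agent.P100.Calib.SlabFiveFamily
import Vale.Agent.P100.Calib.TailFive

/-!
# The end point condition of the slab family

`SlabEndFive` holds: `sC` vanishes at the end point, so the shift of the frame is the identity
there, and the numbers of `famFive` at `z = 0` are those of `Five.tv`.
-/

namespace Vale.Agent.P100.Calib

theorem sC_end {o : Orb} (h : o.AtEnd) : o.sC = 0 := by
  have e : o.Y * o.sU - o.X * o.sV = 0 := by
    rw [Orb.sU, Orb.sV, h.hQ, h.hP, h.hX]; ring
  rw [Orb.sC, e, neg_zero, zero_div]

/-- The shift of the frame is the identity at the end point. -/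
theorem shift_end {o : Orb} (h : o.AtEnd) (t : TailVal) : t.shift o = t := by
  simp [TailVal.shift, sC_end h]

/-- **The end point of the slab family is positive.** -/
theorem slabEndFive : SlabEndFive := by
  intro N p q hc h1 h2 hb _ o C₀ D₀
  have e : (famFive N p q (endArg N p q (-1))).shift o = Five.tv o := by
    rw [shift_end (endOrb_atEnd hc).1]
    simp [famFive, endArg, Five.tv, Five.num, o, endOrb]
  simp only [C₀, D₀, e]
  exact Five.endFive_pos hc h1.le (by linarith) hb (r₁ := 0) (r₂ := (N - 3) / 4) (by ring)

end Vale.Agent.P100.Calib
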