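import Vale.Agent.P100.Calib.Tail
import Vale.Agent.P100.Calib.TailFive
import Vale.Agent.P100.Calib.TailAllNExpr
import Vale.Agent.P100.Calib.TailAllNDefs

/-!
# The end point `z = 0` of one slab family in every dimension from six on

With `I = 1/N`, `a = 1/(p+1)`, `b = 1/(q+1)` the numbers `c = a b`,
`w = -2 I² (1 - 3 I - 2 a²)`, `v = -I (1 - 2 a - I/2)`, `g = -a I (1 - 3 a - I)` and
`kap = max (-1) (-2 N a (N - 1)/(N - 2)²)` make the eliminated form at the end point nonnegative on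
the cone, with positive surplus at its zeros, for all real `N ≥ 6` with `N a ≥ 1`. The multiplier is
`((1 - a)/N)²` when `β Y = -N α` and the coefficient of `G Qt` otherwise.
-/

namespace Vale.Agent.P100.Calib.AllN

open Bubble TailVal

/-- The multiplier when `β Y = -N α`. -/
noncomputable def nuB (o : Orb) : ℝ := ((1 - o.al) / o.N) ^ 2

/-- The end point when `Y = X`, in `m = N - 2` and `b = N/(p+1)`. -/
noncomputable def orbA (m b : ℝ) : Orb :=
  ⟨b / (m + 2), (m - b) / (m + 2), m + 2, (m + 2) / b - 1, (m + 2) / (m - b) - 1, -m, -m, 0, 0, -1⟩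

/-- The end point when `β Y = -N α`. -/
noncomputable def orbB (m b : ℝ) : Orb :=
  ⟨b / (m + 2), (m - b) / (m + 2), m + 2, (m + 2) / b - 1, (m + 2) / (m - b) - 1, -m,
    -((m + 2) * b / (m - b)), 0, (m + 2) * b / (m - b) * (m - (m + 2) * b / (m - b)),
    -(2 * b * (m + 1) / m ^ 2)⟩

/-- The parameters with `Y = X`. -/
structure DomA (m b : ℝ) : Prop where
  m4 : 4 ≤ m
  hb : m ^ 2 ≤ 2 * b * (m + 1)
  hlt : b < m / 2

/-- The parameters with `β Y = -N α`. -/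
structure DomB (m b : ℝ) : Prop where
  m4 : 4 ≤ m
  hb : 2 * b * (m + 1) ≤ m ^ 2
  hlo : 1 ≤ b

theorem DomA.facts {m b : ℝ} (h : DomA m b) :
    0 < m ∧ 0 < m + 1 ∧ 0 < b ∧ 0 < m - b ∧ 0 < m + 2 ∧ m + 2 ≠ 0 ∧ 0 < m - 2 * b ∧
      0 ≤ b - 3 / 2 ∧ m - 2 * b < 1 := by
  obtain ⟨h1, h3, h4⟩ := h
  have : 0 < b := by nlinarith
  refine ⟨by linarith, by linarith, this, by linarith, by linarith, by linarith, by linarith,
    by nlinarith, by nlinarith⟩

theorem DomB.facts {m b : ℝ} (h : DomB m b) :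
    0 < m ∧ 0 < m + 1 ∧ 0 < b ∧ 0 < m - b ∧ 0 < m + 2 ∧ m + 2 ≠ 0 ∧ 2 * b ≠ 0 ∧
      0 ≤ b - 1 ∧ 0 ≤ m - 2 * b - 7 / 10 := by
  obtain ⟨h1, h3, h4⟩ := h
  have : 0 < b := by linarith
  refine ⟨by linarith, by linarith, this, by nlinarith, by linarith, by linarith, by linarith,
    by linarith, by nlinarith⟩

variable {m b : ℝ}

theorem orbA_DE (h : DomA m b) : (orbA m b).D = -(m ^ 2 / (m + 2)) ∧
    (orbA m b).al * (orbA m b).X - (orbA m b).be * (orbA m b).Y =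
      m * (m - 2 * b) / (m + 2) := by
  obtain ⟨-, -, -, -, -, n1, -⟩ := h.facts
  constructor <;> simp only [orbA, Orb.D] <;> field_simp <;> ring

theorem orbB_DE (h : DomB m b) : (orbB m b).D = -(2 * b * (m + 1) / (m + 2)) ∧
    (orbB m b).al * (orbB m b).X - (orbB m b).be * (orbB m b).Y = 2 * b / (m + 2) := by
  obtain ⟨-, -, -, a0, -, n1, -⟩ := h.facts
  have := a0.ne'
  constructor <;> simp only [orbB, Orb.D] <;> field_simp <;> ring

theorem eqAGQ (h : DomA m b) :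
    (tv (orbA m b)).eGQ (orbA m b) =
      (1 / 4) * ev2 (b - 3 / 2) (m - 2 * b) nAGQ /
        ((m + 2) ^ 4 * m ^ 3) := by
  obtain ⟨m0, m1, b0, a0, N0, N1, s0, -, -⟩ := h.facts
  have s1 : m - b * 2 ≠ 0 := by linarith
  simp only [eGQ, n2, nup]
  simp only [(orbA_DE h).2, (orbA_DE h).1]
  simp only [tv, num, orbA, nAGQ, ev2, ev1]
  push_cast
  field_simp
  ring

theorem eqAmu (h : DomA m b) :
    (tv (orbA m b)).eMG (orbA m b) - gam (orbA m b) * (tv (orbA m b)).eGQ (orbA m b) =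
      (1 / 32) * ev2 (b - 3 / 2) (m - 2 * b) nAmu /
        ((m + 2) ^ 2 * (m - b) ^ 1 * b ^ 1 * m ^ 5) := by
  obtain ⟨m0, m1, b0, a0, N0, N1, s0, -, -⟩ := h.facts
  have s1 : m - b * 2 ≠ 0 := by linarith
  simp only [eMG, rawMG, eGQ, h11, T1, W1, bigK, nup, eC, n1, n2, gam]
  simp only [(orbA_DE h).2, (orbA_DE h).1]
  simp only [tv, num, orbA, nAmu, ev2, ev1]
  push_cast
  field_simp
  ring

theorem eqAP (h : DomA m b) :
    (tv (orbA m b)).eEE (orbA m b) + ((tv (orbA m b)).eMG (orbA m b) - gam (orbA m b) * (tv (orbA m b)).eGQ (orbA m b)) =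
      (1 / 16) * ev2 (b - 3 / 2) (m - 2 * b) nAP /
        ((m + 2) ^ 3 * (m - b) ^ 1 * b ^ 1 * m ^ 5) := by
  obtain ⟨m0, m1, b0, a0, N0, N1, s0, -, -⟩ := h.facts
  have s1 : m - b * 2 ≠ 0 := by linarith
  simp only [eEE, eMG, rawEE, rawMG, eGQ, h11, T1, W1, bigK, nup, eC, n1, n2, gam]
  simp only [(orbA_DE h).2, (orbA_DE h).1]
  simp only [tv, num, orbA, nAP, ev2, ev1]
  push_cast
  field_simp
  ring

theorem eqAG (h : DomA m b) :
    (tv (orbA m b)).eGG (orbA m b) =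
      (1 / 32) * ev2 (b - 3 / 2) (m - 2 * b) nAG /
        ((m + 2) ^ 5 * (m - b) ^ 1 * m ^ 7) := by
  obtain ⟨m0, m1, b0, a0, N0, N1, s0, -, -⟩ := h.facts
  have s1 : m - b * 2 ≠ 0 := by linarith
  simp only [eGG, rawGG, h22, T2, W2, bigK, fC, n2, nup]
  simp only [(orbA_DE h).2, (orbA_DE h).1]
  simp only [tv, num, orbA, nAG, ev2, ev1]
  push_cast
  field_simp
  ring

theorem eqAB (h : DomA m b) :
    (tv (orbA m b)).eEG (orbA m b) / 2 =
      (1 / 8) * ev2 (b - 3 / 2) (m - 2 * b) nAB /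
        ((m + 2) ^ 4 * (m - b) ^ 1 * m ^ 6) := by
  obtain ⟨m0, m1, b0, a0, N0, N1, s0, -, -⟩ := h.facts
  have s1 : m - b * 2 ≠ 0 := by linarith
  simp only [eEG, rawEG, h12, T1, T2, W1, W2, bigK, nup, eC, fC, n1, n2, gam]
  simp only [(orbA_DE h).2, (orbA_DE h).1]
  simp only [tv, num, orbA, nAB, ev2, ev1]
  push_cast
  field_simp
  ring

theorem eqAC (h : DomA m b) :
    (tv (orbA m b)).eEQ (orbA m b) / 2 =
      (1 / 8) * ev2 (b - 3 / 2) (m - 2 * b) nAC /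
        ((m + 2) ^ 3 * (m - b) ^ 1 * m ^ 2) := by
  obtain ⟨m0, m1, b0, a0, N0, N1, s0, -, -⟩ := h.facts
  have s1 : m - b * 2 ≠ 0 := by linarith
  simp only [eEQ, n1, gam]
  simp only [(orbA_DE h).1]
  simp only [tv, num, orbA, nAC, ev2, ev1]
  push_cast
  field_simp
  ring

theorem eqAQ (h : DomA m b) :
    (tv (orbA m b)).w * (orbA m b).X =
      1 * ev2 (b - 3 / 2) (m - 2 * b) nAQ /
        ((m + 2) ^ 4) := by
  obtain ⟨m0, m1, b0, a0, N0, N1, s0, -, -⟩ := h.facts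
  have s1 : m - b * 2 ≠ 0 := by linarith
  simp only [tv, num, orbA, nAQ, ev2, ev1]
  push_cast
  field_simp
  ring

theorem posAGQ (h : DomA m b) :
    0 < (tv (orbA m b)).eGQ (orbA m b) := by
  obtain ⟨m0, m1, b0, a0, N0, N1, s0, hx, hy⟩ := h.facts
  rw [eqAGQ h]
  exact div_pos (mul_pos (by norm_num) (pos_of_homog_ok hx s0.le hy chkAGQ))
    (mul_pos (pow_pos N0 4) (pow_pos m0 3))

theorem posAmu (h : DomA m b) :
    0 < (tv (orbA m b)).eMG (orbA m b) - gam (orbA m b) * (tv (orbA m b)).eGQ (orbA m b) := by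
  obtain ⟨m0, m1, b0, a0, N0, N1, s0, hx, hy⟩ := h.facts
  rw [eqAmu h]
  exact div_pos (mul_pos (by norm_num) (pos_of_homog_ok hx s0.le hy chkAmu))
    (mul_pos (mul_pos (mul_pos (pow_pos N0 2) (pow_pos a0 1)) (pow_pos b0 1)) (pow_pos m0 5))

theorem posAP (h : DomA m b) :
    0 < (tv (orbA m b)).eEE (orbA m b) + ((tv (orbA m b)).eMG (orbA m b) - gam (orbA m b) * (tv (orbA m b)).eGQ (orbA m b)) := by
  obtain ⟨m0, m1, b0, a0, N0, N1, s0, hx, hy⟩ := h.facts
  rw [eqAP h]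
  exact div_pos (mul_pos (by norm_num) (pos_of_homog_ok hx s0.le hy chkAP))
    (mul_pos (mul_pos (mul_pos (pow_pos N0 3) (pow_pos a0 1)) (pow_pos b0 1)) (pow_pos m0 5))

theorem posAG (h : DomA m b) :
    0 < (tv (orbA m b)).eGG (orbA m b) := by
  obtain ⟨m0, m1, b0, a0, N0, N1, s0, hx, hy⟩ := h.facts
  rw [eqAG h]
  exact div_pos (mul_pos (by norm_num) (pos_of_homog_ok hx s0.le hy chkAG))
    (mul_pos (mul_pos (pow_pos N0 5) (pow_pos a0 1)) (pow_pos m0 7))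

theorem posAQ (h : DomA m b) :
    0 < (tv (orbA m b)).w * (orbA m b).X := by
  obtain ⟨m0, m1, b0, a0, N0, N1, s0, hx, hy⟩ := h.facts
  rw [eqAQ h]
  exact div_pos (mul_pos (by norm_num) (pos_of_homog_ok hx s0.le hy chkAQ))
    (pow_pos N0 4)

theorem posAMinor (h : DomA m b) :
    0 < ((tv (orbA m b)).eEE (orbA m b) + ((tv (orbA m b)).eMG (orbA m b) - gam (orbA m b) * (tv (orbA m b)).eGQ (orbA m b))) *
        (tv (orbA m b)).eGG (orbA m b) - ((tv (orbA m b)).eEG (orbA m b) / 2) ^ 2 := by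
  obtain ⟨m0, m1, b0, a0, N0, N1, s0, hx, hy⟩ := h.facts
  rw [eqAP h, eqAG h, eqAB h]
  refine lt_of_lt_of_eq (div_pos (mul_pos (show (0 : ℝ) < (1 / 512) by norm_num)
    (pos_of_homog_ok hx s0.le hy chkAMinor))
    (mul_pos (mul_pos (mul_pos (pow_pos N0 8) (pow_pos a0 2)) (pow_pos b0 1)) (pow_pos m0 12))) ?_
  simp only [nAMinor, ev2_add, ev2_scale, ev2_mul, ev1]
  generalize ev2 (b - 3 / 2) (m - 2 * b) nAP = vP
  generalize ev2 (b - 3 / 2) (m - 2 * b) nAG = vG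
  generalize ev2 (b - 3 / 2) (m - 2 * b) nAB = vB
  simp only [fAB, ev2, ev1]
  push_cast
  field_simp
  ring

theorem posADet (h : DomA m b) :
    0 < ((tv (orbA m b)).eEE (orbA m b) + ((tv (orbA m b)).eMG (orbA m b) - gam (orbA m b) * (tv (orbA m b)).eGQ (orbA m b))) *
        ((tv (orbA m b)).eGG (orbA m b) * ((tv (orbA m b)).w * (orbA m b).X) -
          ((0 : ℝ)) ^ 2) -
      (tv (orbA m b)).eEG (orbA m b) / 2 * ((tv (orbA m b)).eEG (orbA m b) / 2 *
        ((tv (orbA m b)).w * (orbA m b).X) - (0 : ℝ) *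
          ((tv (orbA m b)).eEQ (orbA m b) / 2)) +
      (tv (orbA m b)).eEQ (orbA m b) / 2 * ((tv (orbA m b)).eEG (orbA m b) / 2 *
        ((0 : ℝ)) - (tv (orbA m b)).eGG (orbA m b) *
          ((tv (orbA m b)).eEQ (orbA m b) / 2)) := by
  obtain ⟨m0, m1, b0, a0, N0, N1, s0, hx, hy⟩ := h.facts
  rw [eqAP h, eqAG h, eqAQ h, eqAB h, eqAC h]
  refine lt_of_lt_of_eq (div_pos (mul_pos (show (0 : ℝ) < (1 / 4096) by norm_num)
    (pos_of_homog_ok hx s0.le hy chkADet))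
    (mul_pos (mul_pos (mul_pos (pow_pos N0 12) (pow_pos a0 3)) (pow_pos b0 1)) (pow_pos m0 12))) ?_
  simp only [nADet, ev2_add, ev2_scale, ev2_mul, ev1]
  generalize ev2 (b - 3 / 2) (m - 2 * b) nAP = vP
  generalize ev2 (b - 3 / 2) (m - 2 * b) nAG = vG
  generalize ev2 (b - 3 / 2) (m - 2 * b) nAQ = vQ
  generalize ev2 (b - 3 / 2) (m - 2 * b) nAB = vB
  generalize ev2 (b - 3 / 2) (m - 2 * b) nAC = vC
  simp only [fAN, fAA, fAB, fAM, ev2, ev1]
  push_cast
  field_simp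
  ring

theorem eqBnu (h : DomB m b) :
    nuB (orbB m b) =
      (1 / 100) * ev2 (b - 1) (m - 2 * b - 7 / 10) nBnu /
        ((m + 2) ^ 4) := by
  obtain ⟨m0, m1, b0, a0, N0, N1, s0, -, -⟩ := h.facts
  simp only [nuB]
  simp only [tv, num, orbB, nBnu, ev2, ev1]
  push_cast
  field_simp
  ring

theorem eqBH (h : DomB m b) :
    ((tv (orbB m b)).eGQ (orbB m b) - nuB (orbB m b)) / 2 =
      (1 / 10000000) * ev2 (b - 1) (m - 2 * b - 7 / 10) nBH /
        ((m + 2) ^ 5 * b ^ 1 * m ^ 2 * (m + 1) ^ 2) := by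
  obtain ⟨m0, m1, b0, a0, N0, N1, s0, -, -⟩ := h.facts
  simp only [nuB, eGQ, n2, nup]
  simp only [(orbB_DE h).2, (orbB_DE h).1]
  simp only [tv, num, orbB, nBH, ev2, ev1]
  push_cast
  field_simp
  ring

theorem eqBmu (h : DomB m b) :
    (tv (orbB m b)).eMG (orbB m b) - gam (orbB m b) * nuB (orbB m b) =
      (1 / 400000000000000) * ev2 (b - 1) (m - 2 * b - 7 / 10) nBmu /
        ((m + 2) ^ 3 * (m - b) ^ 4 * b ^ 2 * m ^ 4 * (m + 1) ^ 4) := by
  obtain ⟨m0, m1, b0, a0, N0, N1, s0, -, -⟩ := h.facts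
  simp only [eMG, rawMG, nuB, h11, T1, W1, bigK, nup, eC, n1, n2, gam]
  simp only [(orbB_DE h).2, (orbB_DE h).1]
  simp only [tv, num, orbB, nBmu, ev2, ev1]
  push_cast
  field_simp
  ring

theorem eqBP (h : DomB m b) :
    (tv (orbB m b)).eEE (orbB m b) + ((tv (orbB m b)).eMG (orbB m b) - gam (orbB m b) * nuB (orbB m b)) =
      (1 / 400000000000000) * ev2 (b - 1) (m - 2 * b - 7 / 10) nBP /
        ((m + 2) ^ 4 * (m - b) ^ 4 * b ^ 2 * m ^ 4 * (m + 1) ^ 4) := by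
  obtain ⟨m0, m1, b0, a0, N0, N1, s0, -, -⟩ := h.facts
  simp only [eEE, eMG, rawEE, rawMG, nuB, h11, T1, W1, bigK, nup, eC, n1, n2, gam]
  simp only [(orbB_DE h).2, (orbB_DE h).1]
  simp only [tv, num, orbB, nBP, ev2, ev1]
  push_cast
  field_simp
  ring

theorem eqBG (h : DomB m b) :
    (tv (orbB m b)).eGG (orbB m b) =
      (1 / 8000000000000) * ev2 (b - 1) (m - 2 * b - 7 / 10) nBG /
        ((m + 2) ^ 7 * b ^ 2 * m ^ 5 * (m + 1) ^ 3) := by
  obtain ⟨m0, m1, b0, a0, N0, N1, s0, -, -⟩ := h.facts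
  simp only [eGG, rawGG, h22, T2, W2, bigK, fC, n2, nup]
  simp only [(orbB_DE h).2, (orbB_DE h).1]
  simp only [tv, num, orbB, nBG, ev2, ev1]
  push_cast
  field_simp
  ring

theorem eqBB (h : DomB m b) :
    (tv (orbB m b)).eEG (orbB m b) / 2 =
      (1 / 160000000000) * ev2 (b - 1) (m - 2 * b - 7 / 10) nBB /
        ((m + 2) ^ 5 * (m - b) ^ 1 * b ^ 2 * m ^ 3 * (m + 1) ^ 4) := by
  obtain ⟨m0, m1, b0, a0, N0, N1, s0, -, -⟩ := h.facts
  simp only [eEG, rawEG, h12, T1, T2, W1, W2, bigK, nup, eC, fC, n1, n2, gam]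
  simp only [(orbB_DE h).2, (orbB_DE h).1]
  simp only [tv, num, orbB, nBB, ev2, ev1]
  push_cast
  field_simp
  ring

theorem eqBC (h : DomB m b) :
    (tv (orbB m b)).eEQ (orbB m b) / 2 =
      (1 / 80) * ev2 (b - 1) (m - 2 * b - 7 / 10) nBC /
        ((m + 2) ^ 4 * b ^ 1) := by
  obtain ⟨m0, m1, b0, a0, N0, N1, s0, -, -⟩ := h.facts
  simp only [eEQ, n1, gam]
  simp only [(orbB_DE h).1]
  simp only [tv, num, orbB, nBC, ev2, ev1]
  push_cast
  field_simp
  ring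

theorem eqBQ (h : DomB m b) :
    (tv (orbB m b)).w * (orbB m b).X =
      (1 / 500) * ev2 (b - 1) (m - 2 * b - 7 / 10) nBQ /
        ((m + 2) ^ 4) := by
  obtain ⟨m0, m1, b0, a0, N0, N1, s0, -, -⟩ := h.facts
  simp only [tv, num, orbB, nBQ, ev2, ev1]
  push_cast
  field_simp
  ring

theorem posBnu (h : DomB m b) :
    0 < nuB (orbB m b) := by
  obtain ⟨m0, m1, b0, a0, N0, N1, s0, hx, hy⟩ := h.facts
  rw [eqBnu h]
  exact div_pos (mul_pos (by norm_num) (pos_of_ok hx hy chkBnu))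
    (pow_pos N0 4)

theorem posBmu (h : DomB m b) :
    0 < (tv (orbB m b)).eMG (orbB m b) - gam (orbB m b) * nuB (orbB m b) := by
  obtain ⟨m0, m1, b0, a0, N0, N1, s0, hx, hy⟩ := h.facts
  rw [eqBmu h]
  exact div_pos (mul_pos (by norm_num) (pos_of_ok hx hy chkBmu))
    (mul_pos (mul_pos (mul_pos (mul_pos (pow_pos N0 3) (pow_pos a0 4)) (pow_pos b0 2)) (pow_pos m0 4)) (pow_pos m1 4))

theorem posBP (h : DomB m b) :
    0 < (tv (orbB m b)).eEE (orbB m b) + ((tv (orbB m b)).eMG (orbB m b) - gam (orbB m b) * nuB (orbB m b)) := by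
  obtain ⟨m0, m1, b0, a0, N0, N1, s0, hx, hy⟩ := h.facts
  rw [eqBP h]
  exact div_pos (mul_pos (by norm_num) (pos_of_ok hx hy chkBP))
    (mul_pos (mul_pos (mul_pos (mul_pos (pow_pos N0 4) (pow_pos a0 4)) (pow_pos b0 2)) (pow_pos m0 4)) (pow_pos m1 4))

theorem posBG (h : DomB m b) :
    0 < (tv (orbB m b)).eGG (orbB m b) := by
  obtain ⟨m0, m1, b0, a0, N0, N1, s0, hx, hy⟩ := h.facts
  rw [eqBG h]
  exact div_pos (mul_pos (by norm_num) (pos_of_ok hx hy chkBG))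
    (mul_pos (mul_pos (mul_pos (pow_pos N0 7) (pow_pos b0 2)) (pow_pos m0 5)) (pow_pos m1 3))

theorem posBQ (h : DomB m b) :
    0 < (tv (orbB m b)).w * (orbB m b).X := by
  obtain ⟨m0, m1, b0, a0, N0, N1, s0, hx, hy⟩ := h.facts
  rw [eqBQ h]
  exact div_pos (mul_pos (by norm_num) (pos_of_ok hx hy chkBQ))
    (pow_pos N0 4)

theorem posBMinor (h : DomB m b) :
    0 < ((tv (orbB m b)).eEE (orbB m b) + ((tv (orbB m b)).eMG (orbB m b) - gam (orbB m b) * nuB (orbB m b))) *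
        (tv (orbB m b)).eGG (orbB m b) - ((tv (orbB m b)).eEG (orbB m b) / 2) ^ 2 := by
  obtain ⟨m0, m1, b0, a0, N0, N1, s0, hx, hy⟩ := h.facts
  rw [eqBP h, eqBG h, eqBB h]
  refine lt_of_lt_of_eq (div_pos (mul_pos (show (0 : ℝ) < (1 / 128000000000000000000000000000) by norm_num)
    (pos_of_ok hx hy chkBMinor))
    (mul_pos (mul_pos (mul_pos (mul_pos (pow_pos N0 11) (pow_pos a0 4)) (pow_pos b0 4)) (pow_pos m0 9)) (pow_pos m1 8))) ?_
  simp only [nBMinor, ev2_add, ev2_scale, ev2_mul, ev1]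
  generalize ev2 (b - 1) (m - 2 * b - 7 / 10) nBP = vP
  generalize ev2 (b - 1) (m - 2 * b - 7 / 10) nBG = vG
  generalize ev2 (b - 1) (m - 2 * b - 7 / 10) nBB = vB
  simp only [fBN, fBA, fBM, fBOne, ev2, ev1]
  push_cast
  field_simp
  ring

theorem posBDet (h : DomB m b) :
    0 < ((tv (orbB m b)).eEE (orbB m b) + ((tv (orbB m b)).eMG (orbB m b) - gam (orbB m b) * nuB (orbB m b))) *
        ((tv (orbB m b)).eGG (orbB m b) * ((tv (orbB m b)).w * (orbB m b).X) -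
          (((tv (orbB m b)).eGQ (orbB m b) - nuB (orbB m b)) / 2) ^ 2) -
      (tv (orbB m b)).eEG (orbB m b) / 2 * ((tv (orbB m b)).eEG (orbB m b) / 2 *
        ((tv (orbB m b)).w * (orbB m b).X) - ((tv (orbB m b)).eGQ (orbB m b) - nuB (orbB m b)) / 2 *
          ((tv (orbB m b)).eEQ (orbB m b) / 2)) +
      (tv (orbB m b)).eEQ (orbB m b) / 2 * ((tv (orbB m b)).eEG (orbB m b) / 2 *
        (((tv (orbB m b)).eGQ (orbB m b) - nuB (orbB m b)) / 2) - (tv (orbB m b)).eGG (orbB m b) *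
          ((tv (orbB m b)).eEQ (orbB m b) / 2)) := by
  obtain ⟨m0, m1, b0, a0, N0, N1, s0, hx, hy⟩ := h.facts
  rw [eqBP h, eqBG h, eqBQ h, eqBB h, eqBC h, eqBH h]
  refine lt_of_lt_of_eq (div_pos (mul_pos (show (0 : ℝ) < (1 / 64000000000000000000000000000000) by norm_num)
    (pos_of_ok hx hy chkBDet))
    (mul_pos (mul_pos (mul_pos (mul_pos (pow_pos N0 15) (pow_pos a0 4)) (pow_pos b0 4)) (pow_pos m0 9)) (pow_pos m1 8))) ?_
  simp only [nBDet, ev2_add, ev2_scale, ev2_mul, ev1]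
  generalize ev2 (b - 1) (m - 2 * b - 7 / 10) nBP = vP
  generalize ev2 (b - 1) (m - 2 * b - 7 / 10) nBG = vG
  generalize ev2 (b - 1) (m - 2 * b - 7 / 10) nBQ = vQ
  generalize ev2 (b - 1) (m - 2 * b - 7 / 10) nBB = vB
  generalize ev2 (b - 1) (m - 2 * b - 7 / 10) nBC = vC
  generalize ev2 (b - 1) (m - 2 * b - 7 / 10) nBH = vH
  simp only [fBN, fBA, fBM, fBOne, ev2, ev1]
  push_cast
  field_simp
  ring

/-- **The end point of the family in every dimension from six on.** The hypotheses at `z = 0`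
of `no_solution_of_orbit_pos`, for scalars with limits `tv.scalars` and vanishing limits of `z k'`,
and `kap = kapAll`. -/
theorem endAll_pos {N p q : ℝ} (hc : IsCrit N p q) (h1 : 6 ≤ N)
    (hb : 1 ≤ N / (p + 1)) {r₁ r₂ : ℝ} (hr : r₁ + r₂ = (N - 4 - kapAll N (1 / (p + 1))) / 4) :
    let o := endOrb N p q (kapAll N (1 / (p + 1)))
    let C₀ := fun j => o.cBase j + ∑ r, (tv o).scalars o r * o.fldQ r j
    let D₀ := fun _ : Fin 14 => (0 : ℝ)
    0 < C₀ 0 ∧ 0 < C₀ 0 * C₀ 3 - ((C₀ 1 + C₀ 2) / 2) ^ 2 ∧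
      ∀ A B D Q : ℝ, 0 ≤ A → 0 ≤ B → D ^ 2 ≤ A * B → 0 ≤ Q → 0 < A + B + Q →
        let M₀ := ((p + 1) * (-2 * r₁ + 2 * q * r₂) + (q + 1) * (2 * p * r₁ - 2 * r₂) -
          (p + 1) * o.lam) / (q + 1)
        let la := fun j => C₀ j * o.lam - (q + 1) * D₀ j
        let mb := fun j => C₀ j * M₀ + (p + 1) * D₀ j
        0 ≤ elimN N p q C₀ la mb A D B 0 Q ∧
          (elimN N p q C₀ la mb A D B 0 Q = 0 → 0 < elimGap C₀ la mb A D B 0 Q) := by
  intro o C₀ D₀
  obtain ⟨hal, hlt, hw⟩ := hc.weights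
  have p1 : 0 < p + 1 := by linarith [hc.p_pos]
  have q1 : 0 < q + 1 := by linarith [hc.q_pos]
  have N0 : 0 < N := by linarith
  set m := N - 2 with hm
  set b := N / (p + 1) with hbd
  have eN : N = m + 2 := by linarith
  have hb1 : N * (1 / (p + 1)) = b := by rw [hbd]; ring
  have b0 : 0 < b := by positivity
  have hq1 : N / (q + 1) = m - b := by
    rw [← hb1]; linear_combination hw
  have hb2 : b < m / 2 := by
    have := mul_lt_mul_of_pos_left hlt N0
    rw [hb1] at this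
    linarith
  have ep : p = (m + 2) / b - 1 := by rw [← eN, hbd]; field_simp; ring
  have eq : q = (m + 2) / (m - b) - 1 := by rw [← eN, ← hq1]; field_simp; ring
  have eal : 1 / (p + 1) = b / (m + 2) := by rw [← eN, hbd]; field_simp
  have ebe : 1 / (q + 1) = (m - b) / (m + 2) := by rw [← eN, ← hq1]; field_simp
  have ha0 : 0 < m - b := by linarith
  have cases : o = orbA m b ∧ DomA m b ∨ o = orbB m b ∧ DomB m b := by
    have eM : N * (1 / (p + 1)) / (1 / (q + 1)) = (m + 2) * b / (m - b) := by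
      rw [hb1, ebe]; field_simp
    rcases le_or_gt (m ^ 2) (2 * b * (m + 1)) with c | c
    · refine Or.inl ⟨?_, ⟨by linarith, c, hb2⟩⟩
      have hle : m ≤ (m + 2) * b / (m - b) := by rw [le_div_iff₀ ha0]; nlinarith
      simp only [o, endOrb, orbA, eM, ← hm, min_eq_left hle, Orb.mk.injEq]
      refine ⟨eal, ebe, eN, ep, eq, trivial, trivial, trivial, by ring, ?_⟩
      rw [kapAll, hb1, ← hm, max_eq_left]
      rw [neg_le_neg_iff, one_le_div (pow_pos (by linarith) 2)]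
      linarith
    · refine Or.inr ⟨?_, ⟨by linarith, c.le, hb⟩⟩
      have hle : (m + 2) * b / (m - b) ≤ m := by rw [div_le_iff₀ ha0]; nlinarith
      simp only [o, endOrb, orbB, eM, ← hm, min_eq_right hle, Orb.mk.injEq]
      refine ⟨eal, ebe, eN, ep, eq, trivial, trivial, trivial, trivial, ?_⟩
      rw [kapAll, hb1, ← hm, max_eq_right, eN]
      · ring_nf
      · rw [neg_le_neg_iff, div_le_one (pow_pos (by linarith) 2)]
        linarith
  obtain ⟨hX0, hY0, hD0, hE0, -⟩ := endOrb_facts (kap := kapAll N (1 / (p + 1))) hc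
  have hN' : o.N = N := rfl
  have hp' : o.p = p := rfl
  have hq' : o.q = q := rfl
  have hat : o.AtEnd := by
    refine ⟨?_, ?_, ?_, rfl, rfl, ?_, ?_, N0.ne', hX0, hY0, hD0, hE0, ?_, ?_⟩
    · simp only [o, endOrb]; field_simp
    · simp only [o, endOrb]; field_simp
    · simp only [o, endOrb]; linear_combination hw
    · rcases cases with ⟨e, -⟩ | ⟨e, hB⟩
      · rw [e]; simp only [orbA]; ring
      · rw [e]; simp only [orbB]; ring
    · rcases cases with ⟨e, -⟩ | ⟨e, hB⟩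
      · rw [e]; exact Or.inl (by simp only [orbA]; ring)
      · rw [e]; refine Or.inr ?_
        have := ha0.ne'
        simp only [orbB]; field_simp
    · exact hal.ne'
    · exact (hal.trans hlt).ne'
  have hXY : 0 < o.X * o.Y := by
    rcases cases with ⟨e, hA⟩ | ⟨e, hB⟩ <;> rw [e]
    · simp only [orbA]; nlinarith [hA.m4]
    · simp only [orbB]
      rw [neg_mul_neg]
      have := hB.m4
      positivity
  have hC : C₀ = (tv o).coef o := funext fun j => ((tv o).coef_eq o j).symm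
  rw [hC]
  have hc0 : 0 < (tv o).c := mul_pos hal (hal.trans hlt)
  obtain ⟨e0, -, -⟩ := (tv o).coef_head o hX0 hY0
  refine ⟨?_, ?_, ?_⟩
  · rw [e0]
    refine add_pos_of_nonneg_of_pos (sq_nonneg _) (mul_pos hc0 ?_)
    rw [show o.Y / o.X = o.X * o.Y / o.X ^ 2 by field_simp]
    exact div_pos hXY (lt_of_le_of_ne (sq_nonneg _) (Ne.symm (pow_ne_zero 2 hX0)))
  · rw [(tv o).coef_det o hX0 hY0]
    exact div_pos (mul_pos hc0
      (lt_of_le_of_ne (sq_nonneg _) (Ne.symm (pow_ne_zero 2 hD0)))) hXY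
  intro A B D Q hA hB hD hQ hs M₀ la mb
  have hM : M₀ = o.mu := by
    have := Five.end_lam_mu hat (r₁ := r₁) (r₂ := r₂) hr
    simp only [hp', hq'] at this
    simp only [M₀, div_eq_iff q1.ne']
    linarith
  have hla : la = (tv o).cl o := funext fun j => by simp [la, D₀, TailVal.cl]
  have hmb : mb = (tv o).cm o := funext fun j => by simp [mb, D₀, TailVal.cm, hM]
  rw [hla, hmb, ← hN', ← hp', ← hq', show (0 : ℝ) = 0 * Q from (zero_mul Q).symm]
  simp only [zero_mul]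
  rcases cases with ⟨e, h⟩ | ⟨e, h⟩
  · have := (tv o).end_pos o hat hc0 hXY (μ := (tv o).eMG o - gam o * ((tv o).eGQ o)) (ν := ((tv o).eGQ o)) (by ring)
      (by rw [e]; exact (posAmu h).le) (by rw [e]; exact (posAGQ h).le) (by rw [e]; exact posAP h)
      (by rw [e]; exact posAMinor h)
      (by rw [e]; simp only [sub_self, zero_div]; exact posADet h) hA hB hD hQ hs
    simpa using this
  · have := (tv o).end_pos o hat hc0 hXY (μ := (tv o).eMG o - gam o * (nuB o)) (ν := (nuB o)) (by ring)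
      (by rw [e]; exact (posBmu h).le) (by rw [e]; exact (posBnu h).le) (by rw [e]; exact posBP h)
      (by rw [e]; exact posBMinor h)
      (by rw [e]; exact posBDet h) hA hB hD hQ hs
    simpa using this

end Vale.Agent.P100.Calib.AllN
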