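import Mathlib
import Vale.Agent.P100.Calib.SlabGenBridge
import Vale.Agent.P100.Calib.SlabReduction
import Vale.Agent.P100.Calib.SlabEnd
import Vale.Agent.P100.Calib.TailAllN
import Vale.Agent.P100.Calib.SlabGenAllDef

/-!
# The slab of a dimension `n ≥ 6` from closed signs

`genAll` is a family with the end values of `TailAllN` and free slopes in `z`; its end point is
positive in every dimension `N ≥ 6`, and it is admitted on the slab of every dimension `n ≥ 6`.
So the conjecture in dimension `n` follows from its closed signs along the orbits.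
-/

set_option linter.unusedVariables false

open Laplacian Set

namespace Vale.Agent.P100.Calib

open Orb Bubble

variable {n : ℕ} {N p q : ℝ}

/-- **The end point of `genAll` is positive.** -/
theorem genEnd_all (hc : IsCrit N p q) (h6 : 6 ≤ N) (hb : 1 ≤ N / (p + 1)) (w₁ g₁ gY : ℝ) :
    GenEnd N p q (genAll N p q w₁ g₁ gY) := by
  have e := AllN.endAll_pos hc h6 hb (r₁ := 0)
    (r₂ := (N - 4 - AllN.kapAll N (1 / (p + 1))) / 4) (zero_add _)
  have e' : ((genAll N p q w₁ g₁ gY).endVal N p q).shift (endOrb N p q (genAll N p q w₁ g₁ gY).kap) =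
      AllN.tv (endOrb N p q (AllN.kapAll N (1 / (p + 1)))) := by
    rw [shift_end (endOrb_atEnd hc).1]
    simp only [genAll, GenPar.endVal, AllN.tv, AllN.num, endOrb, sub_add_cancel]
  simp only [GenEnd, e']
  exact e

/-- The closed signs of the family `P` along every orbit of the slab of dimension `n`. -/
def SlabClosedAt (n : ℕ) (P : ℝ → ℝ → ℝ → GenPar) : Prop :=
  ∀ p q N α β : ℝ, 0 < q → q < p → 1 < p * q → IsCrit N p q →
    α = 2 * (p + 1) / (p * q - 1) → β = 2 * (q + 1) / (p * q - 1) → α + β = N - 2 →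
    (n : ℝ) < N → N < (n : ℝ) + 1 / 8 →
    N - n < 2 * β ^ 2 * (α - β) ^ 2 / (N - 2) ^ 3 → α ≤ (n : ℝ) - 3 →
    ∀ (S : Set ℝ) (R x y s dx dy : ℝ → ℝ), IsOrbitFns N p q S R x y s dx dy →
      ∀ z ∈ Ioc 0 ((p + 1) / (q + 1)),
        let al := 1 / (p + 1)
        let be := 1 / (q + 1)
        let v := (be * y z / (al * x z) - 1) / (be - al)
        ClosedGen.Signs al (be - al) v (s z / y z)
          (wFun N x y dx dy z / ((be - al) * x z ^ 2))
          (wFun₁ N R x y dx dy z / ((be - al) * x z ^ 3)) (R z * x z)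
          ((P N p q).closedNum N p q (be - al) v (R z) (x z) (y z) z (wFun N x y dx dy z))

/-- **The calibrations on the slab from an admitted family with positive end and closed signs.** -/
theorem slabCalib_of_closedAt (P : ℝ → ℝ → ℝ → GenPar)
    (hP : ∀ p q N α β : ℝ, 0 < q → q < p → 1 < p * q → IsCrit N p q →
      α = 2 * (p + 1) / (p * q - 1) → β = 2 * (q + 1) / (p * q - 1) → α + β = N - 2 →
      (n : ℝ) < N → N < (n : ℝ) + 1 / 8 → α ≤ (n : ℝ) - 3 →
      (P N p q).Adm n N p q ∧ GenEnd N p q (P N p q))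
    (hS : SlabClosedAt n P) : SlabCalib n := by
  refine slabCalib_of_gen P fun p q N α β hq hqp hpq hc hα hβ hsum h1 h2 h3 h4 => ?_
  obtain ⟨hA, hE⟩ := hP p q N α β hq hqp hpq hc hα hβ hsum h1 h2 h4
  refine ⟨hA, hE, fun S R x y s dx dy h z hz => ⟨_, genSigns_of_arrow ?_⟩⟩
  exact genArrow_of_closed hc h _ hA.c_pos (h.cover hz) rfl rfl rfl
    (hS p q N α β hq hqp hpq hc hα hβ hsum h1 h2 h3 h4 S R x y s dx dy h z hz)

/-- `genAll` is admitted on the slab of every dimension `n ≥ 6`. -/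
theorem genAll_adm (hn : 6 ≤ n) {α β : ℝ} (hc : IsCrit N p q) (hpq : 1 < p * q)
    (hα : α = 2 * (p + 1) / (p * q - 1)) (hβ : β = 2 * (q + 1) / (p * q - 1))
    (hsum : α + β = N - 2) (h1 : (n : ℝ) < N) (h2 : N < (n : ℝ) + 1 / 8)
    (h4 : α ≤ (n : ℝ) - 3) (w₁ g₁ gY : ℝ) :
    (genAll N p q w₁ g₁ gY).Adm n N p q ∧ 1 ≤ N / (p + 1) := by
  have hq := hc.q_pos
  have hp := hc.p_pos
  obtain ⟨hal, hlt, hw⟩ := hc.weights
  obtain ⟨eb, ea⟩ := scaling_eq hp hq hpq hα hβ (N := N) (by linarith)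
  have h6 : (6 : ℝ) ≤ n := by exact_mod_cast hn
  set b := N * (1 / (p + 1)) with hb
  have hb1 : 1 ≤ b := by linarith
  have hb2 : 1 ≤ N / (p + 1) := by rw [hb, mul_one_div] at hb1; exact hb1
  set k := AllN.kapAll N (1 / (p + 1)) with hk
  have hk1 : -1 ≤ k := le_max_left _ _
  have hk2 : k ≤ 0 := by
    refine max_le (by norm_num) (neg_nonpos.2 ?_)
    rw [← hb]
    exact div_nonneg (mul_nonneg (by linarith) (by linarith)) (sq_nonneg _)
  have hqa : q * α = N - α := by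
    have : α * (q + 1) = N := by rw [ea]; field_simp
    linarith
  have hα0 : 0 < α := by rw [hα]; exact div_pos (by linarith) (by linarith)
  have h3 : 3 ≤ q * α := by linarith
  refine ⟨⟨?_, hk1, ?_, ?_, ?_, ?_⟩, hb2⟩
  · exact mul_pos hal (hal.trans hlt)
  · show (n : ℝ) < N - k
    linarith
  · show k ≤ N - 4
    linarith
  · show 1 ≤ 2 * q * ((N - 4 - k) / 4)
    refine le_of_mul_le_mul_right (a := α) ?_ hα0
    have := mul_le_mul h3 (show N - 4 ≤ N - 4 - k by linarith) (by linarith) (by linarith)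
    linarith
  · have e2 : 2 * N * (1 / (p + 1)) = 2 * b := by rw [hb]; ring
    rw [e2]
    show N - 3 - 2 * b ≤
      2 * N * (1 / (q + 1)) * (2 * q * ((N - 4 - k) / 4) - 1) + 3 * (k + 1)
    rw [show 2 * N * (1 / (q + 1)) = 2 * α by rw [ea]; ring]
    have e : 2 * α * (2 * q * ((N - 4 - k) / 4) - 1) = q * α * (N - 4 - k) - 2 * α := by ring
    rw [e, hqa]
    have h5 : 0 ≤ (N - k) * (N - α - 3) := mul_nonneg (by linarith) (by linarith)
    linarith

/-- **The Lane–Emden conjecture in dimension `n ≥ 6` from closed signs of `genAll`.** -/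
theorem lane_emden_genAll_of (hn : 6 ≤ n) (w₁ g₁ gY : ℝ → ℝ → ℝ → ℝ)
    (hS : SlabClosedAt n fun N p q => genAll N p q (w₁ N p q) (g₁ N p q) (gY N p q))
    {p q : ℝ} (hp : 0 < p) (hq : 0 < q)
    (hsub : ((n : ℝ) - 2) / n < 1 / (p + 1) + 1 / (q + 1)) :
    ¬ ∃ u v : EuclideanSpace ℝ (Fin n) → ℝ,
      Continuous u ∧ Continuous v ∧ ContDiffOn ℝ 2 u {0}ᶜ ∧ ContDiffOn ℝ 2 v {0}ᶜ ∧
      (∀ x, 0 < u x) ∧ (∀ x, 0 < v x) ∧ (∀ x, x ≠ 0 → Δ u x = -(v x) ^ p) ∧
      (∀ x, x ≠ 0 → Δ v x = -(u x) ^ q) := by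
  refine lane_emden_of_slabCalib (by omega) ?_ hp hq hsub
  refine slabCalib_of_closedAt _ (fun p q N α β hq hqp hpq hc hα hβ hsum h1 h2 h4 => ?_) hS
  obtain ⟨hA, hb⟩ := genAll_adm hn hc hpq hα hβ hsum h1 h2 h4
    (w₁ N p q) (g₁ N p q) (gY N p q)
  have h6 : (6 : ℝ) ≤ n := by exact_mod_cast hn
  exact ⟨hA, genEnd_all hc (by linarith) hb _ _ _⟩

/-- **The Lane–Emden conjecture in dimension seven from closed signs of `genAll`.** -/
theorem lane_emden_seven_of (w₁ g₁ gY : ℝ → ℝ → ℝ → ℝ)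
    (hS : SlabClosedAt 7 fun N p q => genAll N p q (w₁ N p q) (g₁ N p q) (gY N p q))
    {p q : ℝ} (hp : 0 < p) (hq : 0 < q) (hsub : (5 : ℝ) / 7 < 1 / (p + 1) + 1 / (q + 1)) :
    ¬ ∃ u v : EuclideanSpace ℝ (Fin 7) → ℝ,
      Continuous u ∧ Continuous v ∧ ContDiffOn ℝ 2 u {0}ᶜ ∧ ContDiffOn ℝ 2 v {0}ᶜ ∧
      (∀ x, 0 < u x) ∧ (∀ x, 0 < v x) ∧ (∀ x, x ≠ 0 → Δ u x = -(v x) ^ p) ∧
      (∀ x, x ≠ 0 → Δ v x = -(u x) ^ q) :=
  lane_emden_genAll_of (by norm_num) w₁ g₁ gY hS hp hq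
    (by push_cast; norm_num; simpa [one_div] using hsub)

end Vale.Agent.P100.Calib
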