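import Mathlib

/-!
# The box of the slabs in every dimension from six on

`SlabBoxAll` is the range of `(N, 1/(p+1), 1/(q+1))` on the slabs of dimensions `n ≥ 6`, the real
dimension `N` being free.
-/

namespace Vale.Agent.P100.Calib.Band

/-- The slab box of all dimensions from six on. -/
structure SlabBoxAll (N al be : ℝ) : Prop where
  six : 6 ≤ N
  sum : N * (1 - (al + be)) = 2
  one_le : 1 ≤ N * al
  lt : al < be

namespace SlabBoxAll

variable {N al be : ℝ}

theorem five (h : SlabBoxAll N al be) : 5 ≤ N := by linarith [h.six]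

theorem al_pos (h : SlabBoxAll N al be) : 0 < al :=
  pos_of_mul_pos_right (lt_of_lt_of_le one_pos h.one_le) (by linarith [h.six])

theorem be_pos (h : SlabBoxAll N al be) : 0 < be := h.al_pos.trans h.lt

theorem S_lt (h : SlabBoxAll N al be) : al + be < 1 := by
  have : 0 < N * (1 - (al + be)) := by rw [h.sum]; norm_num
  linarith [pos_of_mul_pos_right this (by linarith [h.six])]

theorem S_low (h : SlabBoxAll N al be) : 2 / 3 ≤ al + be := by
  have := mul_le_mul_of_nonneg_right h.six (sub_pos.2 h.S_lt).le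
  linarith [h.sum]

theorem facts (h : SlabBoxAll N al be) :
    0 < al ∧ 0 < be ∧ 0 < be - al ∧ 1 - (al + be) ≠ 0 ∧ 2 - (al + be) ≠ 0 ∧
      1 / 3 ≤ be ∧ al < 1 / 2 := by
  have h1 := h.S_lt
  exact ⟨h.al_pos, h.be_pos, sub_pos.2 h.lt, by linarith, by linarith,
    by linarith [h.S_low, h.lt], by linarith [h.lt]⟩

theorem dim_eq (h : SlabBoxAll N al be) : N = 2 / (1 - (al + be)) := by
  rw [eq_div_iff h.facts.2.2.2.1]; exact h.sum

end SlabBoxAll

end Vale.Agent.P100.Calib.Band
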