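import Mathlib
import Vale.Agent.P100.Calib.SlabClosed

/-!
# The chart of the closed signs

Five reals `(d, S, u, v, t)`: `d = be - al`, `S = al + be`, `u`, `v`, and `t` the slope of
`h - hc` in units of `d u`. With `H = h/d`, that is `H = S (1 + (1 - al) v)/(be (2 - S)) + u t`,
the arguments of `Closed.Signs` are rational in the five reals. The regions state the closed
signs on explicit sets of the five reals.
-/

set_option linter.unusedVariables false

namespace Vale.Agent.P100.Calib.Closed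

/-- `h/d` in the chart. -/
noncomputable def chH (d S u v t : ℝ) : ℝ :=
  S * (1 + (1 - (S - d) / 2) * v) / ((S + d) / 2 * (2 - S)) + u * t

/-- `s/y` in the chart. -/
noncomputable def chG (d S u v t : ℝ) : ℝ :=
  4 * ((2 + d * v) * ((S + d) / 2) - S * u * (1 + d * v)) /
    ((1 - S) * ((S + d) / 2) * (2 + d * v - d * u * chH d S u v t))

/-- `w/(d x²)` in the chart. -/
noncomputable def chW (d S u v t : ℝ) : ℝ := (1 - S) / S * chH d S u v t

/-- `w₁/(d x³)` in the chart. -/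
noncomputable def chW1 (d S u v t : ℝ) : ℝ :=
  (1 - S) / S * (chH d S u v t * ((S - d) / 2 - (1 - (S - d) / 2) * d * v) / ((S + d) / 2) -
    (2 - S) / S * t)

/-- `R x` in the chart. -/
noncomputable def chR (S u : ℝ) : ℝ := S * u / (1 - S)

/-- The closed signs at a point of the chart. -/
def ChartSigns (d S u v t : ℝ) : Prop :=
  Signs ((S - d) / 2) d v (chG d S u v t) (chW d S u v t) (chW1 d S u v t) (chR S u)

/-- The parameters of the slab of dimension five. -/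
structure ChartBox (d S : ℝ) : Prop where
  pos : 0 < d
  tri : d ≤ 2 - 3 * S
  diff : d ≤ 1 / 5
  S_low : 3 / 5 < S
  S_high : S < 307 / 507
  pinch : (5 * S - 3) * S ^ 3 < (S - d) ^ 2 * d ^ 2

/-- What holds at every point of the outer orbit, `0 < u`: the trap, in the chart. -/
structure ChartFacts (d S u v t : ℝ) : Prop where
  u_pos : 0 < u
  u_lt : u < 1
  H_pos : 0 < chH d S u v t
  h_lt : d * chH d S u v t < 1
  v_crit : 2 * (1 - S) < v * (2 + (S - d) * (1 - S))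
  v_low : 7 / 20 ≤ v
  r_lt : (S - d) * v < 2
  kap : S * (1 + d * v) < 1
  drift : 2 * S * (1 - (S - d) / 2 * v) / ((1 - S) * ((S + d) / 2)) <
    chG d S u v t * chH d S u v t / 2
  ev_pos : 0 < (1 - d * u * chH d S u v t) * chG d S u v t / 2 + 2 * S / (1 - S) * (u - 1)

/-- The closed signs past the crossing and at it, `u ≤ 0`. -/
def SignsNeg : Prop :=
  ∀ d S u v t : ℝ, ChartBox d S → u ≤ 0 →
    89 / 250 + 1 / 16 * d - (S - 3 / 5) ≤ v - 9 / 50 * u →
    v - 9 / 50 * u ≤ 14 / 25 - 1 / 20 * d →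
    -(1 / 500 + 7 / 40 * d + (5 / 8 + 1 / 5 * d) * (v - 9 / 50 * u)) ≤ u →
    131 / 100 - 26 / 5 * d + 43 / 5 * (d * d) + (93 / 100 - 9 / 2 * d + 7 * (d * d)) * u ≤ t →
    t ≤ 143 / 100 - 5 * d + 25 / 4 * (d * d) →
    0 ≤ v + u * chH d S u v t →
    ChartSigns d S u v t

/-- The closed signs for `0 < u ≤ 3/5`, `d ≤ 3/25`. -/
def SignsSmall : Prop :=
  ∀ d S u v t : ℝ, ChartBox d S → d ≤ 3 / 25 → 0 < u → u ≤ 3 / 5 → ChartFacts d S u v t →
    v < 5 / 8 - 13 / 50 * d + (33 / 50 - 4 / 5 * d) * u +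
      (5 / 8 + 9 / 25 * d) * u ^ 2 / (21 / 20 - u) →
    119 / 100 - 67 / 20 * d + (31 / 20 - 69 / 10 * d) * u + (11 / 20 + 2 / 5 * d) * u ^ 2 < t →
    t < 161 / 100 - 28 / 5 * d + (7 / 10 - 4 * d) * u + (89 / 20 - 45 / 2 * d) * u ^ 2 →
    ChartSigns d S u v t

/-- The closed signs for `0 < u ≤ 3/5`, `3/25 ≤ d`. -/
def SignsLarge : Prop :=
  ∀ d S u v t : ℝ, ChartBox d S → 3 / 25 ≤ d → 0 < u → u ≤ 3 / 5 → ChartFacts d S u v t →
    v < 67 / 100 - 29 / 100 * d + (18 / 25 - 3 / 25 * d) * u +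
      (13 / 50 + 3 / 100 * d) * u ^ 2 / (483 / 500 - u) →
    4 / 5 - 31 / 25 * d + (42 / 25 - 29 / 5 * d) * u + (1 / 4 - 9 / 2 * d) * u ^ 2 < t →
    t < 141 / 100 - 16 / 5 * d + (1 / 2 - 63 / 20 * d) * u + (27 / 10 - 31 / 4 * d) * u ^ 2 →
    ChartSigns d S u v t

end Vale.Agent.P100.Calib.Closed
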