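import Mathlib
import Vale.Agent.P100.Calib.SlabChart
import Vale.Agent.P100.Calib.SlabAllNum

/-!
# The closed signs of the slabs of every dimension from six on, in the chart

The variables are those of `SlabChart`: `(d, S, u, v, t)`, the real dimension being `2/(1 - S)`.
The bands are parameters: a region below the crossing, a band and an exit curve on `0 < u ≤ 3/5`,
two bands beyond.
-/

set_option linter.unusedVariables false

namespace Vale.Agent.P100.Calib.Closed.All

/-- The signs at a point of the chart, for some multiplier. -/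
def ChartSigns (d S u v t : ℝ) : Prop :=
  ClosedGen.SignsMult ((S - d) / 2) d v (chG d S u v t) (chW d S u v t) (chW1 d S u v t) (chR S u)
    (allNum ((S - d) / 2) d v (chW d S u v t) (chR S u))

/-- The parameters above the dimension `n`, below twenty when `n < 20`. -/
structure ChartBox (n : ℕ) (d S : ℝ) : Prop where
  pos : 0 < d
  S_low : 2 / 3 ≤ S
  S_lt : S < 1
  one : 1 + d ≤ 2 * S
  dim_low : (n : ℝ) < 2 / (1 - S)
  dim_high : n < 20 → 2 / (1 - S) < 20

/-- The signs with the multiplier equal to the `MG` entry suffice. -/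
theorem ChartSigns.of_arrow {n : ℕ} {d S u v t : ℝ} (hb : ChartBox n d S) (hv : 0 < v)
    (hg : 0 < chG d S u v t)
    (h : ClosedGen.Signs ((S - d) / 2) d v (chG d S u v t) (chW d S u v t) (chW1 d S u v t) (chR S u)
      (allNum ((S - d) / 2) d v (chW d S u v t) (chR S u))) : ChartSigns d S u v t := by
  have ha : 0 < (S - d) / 2 := by linarith [hb.one, hb.S_lt]
  exact h.mult ha hb.pos hv hg (mul_pos ha (by linarith [hb.pos]))

/-- What holds at every point of the outer orbit, `0 < u`. -/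
structure ChartFacts (d S u v t : ℝ) : Prop where
  u_pos : 0 < u
  u_lt : u < 1
  H_pos : 0 < chH d S u v t
  h_lt : d * chH d S u v t < 1
  v_crit : 2 * (1 - S) < v * (2 + (S - d) * (1 - S))
  r_lt : (S - d) * v < 2
  kap : S * (1 + d * v) < 1
  drift : 2 * S * (1 - (S - d) / 2 * v) / ((1 - S) * ((S + d) / 2)) <
    chG d S u v t * chH d S u v t / 2
  ev_pos : 0 < (1 - d * u * chH d S u v t) * chG d S u v t / 2 + 2 * S / (1 - S) * (u - 1)

/-- The bands of a dimension. -/
structure Bands where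
  /-- the region of `(d, S, u, v, t)` at and below the crossing -/
  neg : ℝ → ℝ → ℝ → ℝ → ℝ → Prop
  /-- the exit curve on `0 < u ≤ 3/5`, in `(d, S, u)` -/
  phi : ℝ → ℝ → ℝ → ℝ
  /-- the lower band on `0 < u ≤ 3/5`, in `(d, S, u, v)` -/
  lo : ℝ → ℝ → ℝ → ℝ → ℝ
  /-- the upper band on `0 < u ≤ 3/5`, in `(d, S, u, v)` -/
  up : ℝ → ℝ → ℝ → ℝ → ℝ
  /-- the lower band beyond `3/5`, in `(d, S, u, v)` -/
  tailLo : ℝ → ℝ → ℝ → ℝ → ℝ
  /-- the upper band beyond `3/5`, in `(d, S, u, v)` -/
  tailUp : ℝ → ℝ → ℝ → ℝ → ℝ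
  /-- the lower exit curve beyond `3/5`, in `(d, S, u, t)` -/
  phiLo : ℝ → ℝ → ℝ → ℝ → ℝ
  /-- the upper exit curve beyond `3/5`, in `(d, S, u, t)` -/
  phiUp : ℝ → ℝ → ℝ → ℝ → ℝ

/-- The signs at and below the crossing. -/
def SignsNeg (B : Bands) (n : ℕ) : Prop :=
  ∀ d S u v t : ℝ, ChartBox n d S → u ≤ 0 → B.neg d S u v t → ChartSigns d S u v t

/-- The signs on `0 < u ≤ 3/5`. -/
def SignsLow (B : Bands) (n : ℕ) : Prop :=
  ∀ d S u v t : ℝ, ChartBox n d S → 0 < u → u ≤ 3 / 5 → ChartFacts d S u v t →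
    v < B.phi d S u → B.lo d S u v < t → t < B.up d S u v → ChartSigns d S u v t

/-- The signs on `3/5 < u < 1`. -/
def SignsTail (B : Bands) (n : ℕ) : Prop :=
  ∀ d S u v t : ℝ, ChartBox n d S → 3 / 5 < u → u < 1 → ChartFacts d S u v t →
    B.phiLo d S u t < v → v < B.phiUp d S u t → B.tailLo d S u v < t → t < B.tailUp d S u v →
    ChartSigns d S u v t

end Vale.Agent.P100.Calib.Closed.All
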