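import Mathlib
import Vale.Agent.P100.Bubble.Param

/-!
# Bands of the orbit on a slab of weights: exact numerators

Chart `al = (S - d)/2`, `be = (S + d)/2`, `r = (al/be) (1 + d v)`, `h = d K/B`, `B = be (2 - S)`,
`K = S (1 + (1 - al) v) + B (c₁ u + c₂ u² + c₃ u³)`, that is `h = hc r + d (c₁ u + c₂ u² + c₃ u³)`.
-/

-- The linters cost more than the proofs here.
set_option linter.all false

open Set Filter Topology

namespace Vale.Agent.P100.Calib.Band

open Vale.Agent.P100.Bubble Chart

variable {N al be S d u v c₁ c₂ c₃ : ℝ}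

/-- The scale `be (2 - S)`. -/
noncomputable def bandB (S d : ℝ) : ℝ := (S + d) / 2 * (2 - S)

/-- `h B/d`. -/
noncomputable def bandK (S d u v c₁ c₂ c₃ : ℝ) : ℝ :=
  S * (1 + (1 - (S - d) / 2) * v) + bandB S d * u * (c₁ + c₂ * u + c₃ * u ^ 2)

/-- The cleared denominator of `Q/y`. -/
noncomputable def bandD (S d u v K : ℝ) : ℝ := bandB S d * (2 + d * v) - d * u * K

/-- The cleared numerator of `Q/y`. -/
def bandQ (S d u v : ℝ) : ℝ := (S + d) * (2 + d * v) - 2 * S * u * (1 + d * v)

/-- The numerator of the flow applied to `h - L`. -/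
noncomputable def lieT (S d u v c₁ c₂ c₃ : ℝ) : ℝ :=
  let B := bandB S d;
  let K := bandK S d u v c₁ c₂ c₃;
  let D := bandD S d u v K;
  let c := 1 + (1 - (S - d) / 2) * v;
  let Qn := bandQ S d u v;
  -2 * B * B * B * (2 + d * v) * (c₁ + c₂ * u + c₃ * u ^ 2) +
    B * (2 * (2 * S * (1 + d * v)) * K - 2 * S * c * d * K) -
    d * K * (2 * S * c * D - 2 * Qn * K) - 2 * S * ((S + d) / 2) * d * K * K -
    2 * S * ((S + d) / 2) * K * D -
    (c₁ + 2 * c₂ * u + 3 * c₃ * u ^ 2) * B *
      ((B - u * d * K) * Qn + 2 * S * (u - 1) * ((S + d) / 2) * D) -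
    S * (1 - (S - d) / 2) * (1 + d * v) * (Qn * K - 2 * S * (1 - (S - d) / 2 * v) * D)

/-- The exit numerator for `v < 11/10 + (8/5) u/(22/25 - u)` at `h = hc r - d (1/2 + 3 d) u`. -/
noncomputable def exitT (S d u : ℝ) : ℝ :=
  let G := 22 / 25 - u;
  let Vn := 11 / 10 * G + 8 / 5 * u;
  let B := bandB S d;
  let K := S * (G + (1 - (S - d) / 2) * Vn) + B * (-1 / 2 - 3 * d) * u * G;
  let Qn := (S + d) * (2 * G + d * Vn) - 2 * S * u * (G + d * Vn);
  let D := B * (2 * G + d * Vn) - d * u * K;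
  (G + d * Vn) * (Qn * K - 2 * S * (G - (S - d) / 2 * Vn) * D) * G -
    8 / 5 * (22 / 25) * ((B * G - u * d * K) * Qn + 2 * S * (u - 1) * ((S + d) / 2) * D * G)

/-- The band function. -/
noncomputable def bandL (N al be d c₁ c₂ c₃ u r : ℝ) : ℝ :=
  hc N al be r + d * (c₁ * u + c₂ * u ^ 2 + c₃ * u ^ 3)

/-- Its `u`-derivative. -/
def bandLu (d c₁ c₂ c₃ u : ℝ) : ℝ := d * (c₁ + 2 * c₂ * u + 3 * c₃ * u ^ 2)

/-- Its `r`-derivative. -/
noncomputable def bandLr (N al : ℝ) : ℝ := (N - 2) * (1 / al - 1) / (N + 2)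

theorem hasGradTwo_band : HasGradTwo (bandL N al be d c₁ c₂ c₃)
    (fun u _ => bandLu d c₁ c₂ c₃ u) (fun _ _ => bandLr N al) := by
  intro a b da db t ha hb
  refine ((((((hb.div_const al).sub_const (1 / be)).add_const 1).fun_sub hb).const_mul
    (N - 2)).div_const (N + 2)).fun_add ((((ha.const_mul c₁).fun_add
      ((ha.fun_pow 2).const_mul c₂)).fun_add ((ha.fun_pow 3).const_mul c₃)).const_mul d)
    |>.congr_deriv ?_
  simp only [bandLu, bandLr]
  ring

theorem continuous_band :
    Continuous (fun w : ℝ × ℝ => bandL N al be d c₁ c₂ c₃ w.1 w.2) ∧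
      Continuous (fun w : ℝ × ℝ => bandLu d c₁ c₂ c₃ w.1) ∧
      Continuous (fun _ : ℝ × ℝ => bandLr N al) := by
  unfold bandL bandLu hc
  exact ⟨by fun_prop, by fun_prop, continuous_const⟩

theorem band_value (hN : N * (1 - S) = 2) (hS : al + be = S) (hd : be - al = d) (hal : al ≠ 0)
    (hbe : be ≠ 0) (hS1 : 1 - S ≠ 0) (hS2 : 2 - S ≠ 0) :
    bandL N al be d c₁ c₂ c₃ u (al / be * (1 + d * v)) =
      d * bandK S d u v c₁ c₂ c₃ / bandB S d := by
  have hNv : N = 2 / (1 - S) := by rw [eq_div_iff hS1]; exact hN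
  have e1 : (S + d) / 2 = be := by linarith
  have e2 : (S - d) / 2 = al := by linarith
  have h4 : (2 : ℝ) + 2 * (1 - S) ≠ 0 := by
    intro h; exact hS2 (by linarith)
  simp only [bandL, hc, bandK, bandB, e1, e2]
  have h5 : 2 / (1 - S) + 2 = 2 * (2 - S) / (1 - S) := by field_simp; ring
  rw [hNv, h5]
  field_simp
  subst hd hS
  ring

theorem qv_band (hN : N * (1 - S) = 2) (hS : al + be = S) (hd : be - al = d) (hal : al ≠ 0)
    (hbe : be ≠ 0) (hS1 : 1 - S ≠ 0) (hS2 : 2 - S ≠ 0) {K : ℝ} (hD : bandD S d u v K ≠ 0) :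
    qv N al be u (al / be * (1 + d * v)) (d * K / bandB S d) =
      bandQ S d u v * bandB S d / ((1 - S) * be * bandD S d u v K) := by
  have hNv : N = 2 / (1 - S) := by rw [eq_div_iff hS1]; exact hN
  have e1 : (S + d) / 2 = be := by linarith
  have hB : bandB S d ≠ 0 := by rw [bandB, e1]; exact mul_ne_zero hbe hS2
  have e : al + be * (al / be * (1 + d * v)) - al * u * (d * K / bandB S d) =
      al * bandD S d u v K / bandB S d := by
    simp only [bandD]
    field_simp
    ring
  rw [qv, e, hNv]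
  generalize bandD S d u v K = D at hD ⊢
  simp only [bandQ, bandB, e1, show S + d = 2 * be by linarith]
  field_simp
  ring

/-- **The flow on a band.** -/
theorem lie_band (hN : N * (1 - S) = 2) (hS : al + be = S) (hd : be - al = d) (hal : al ≠ 0)
    (hbe : be ≠ 0) (hS1 : 1 - S ≠ 0) (hS2 : 2 - S ≠ 0)
    (hD : bandD S d u v (bandK S d u v c₁ c₂ c₃) ≠ 0) :
    lie N al be (fun u _ => bandLu d c₁ c₂ c₃ u) (fun _ _ => bandLr N al) u
        (al / be * (1 + d * v)) (bandL N al be d c₁ c₂ c₃ u (al / be * (1 + d * v))) *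
      ((1 - S) * bandB S d * be * bandD S d u v (bandK S d u v c₁ c₂ c₃)) =
      d * u * lieT S d u v c₁ c₂ c₃ := by
  have hNv : N = 2 / (1 - S) := by rw [eq_div_iff hS1]; exact hN
  have e1 : (S + d) / 2 = be := by linarith
  have e2 : (S - d) / 2 = al := by linarith
  have h4 : (2 : ℝ) + 2 * (1 - S) ≠ 0 := by intro h; exact hS2 (by linarith)
  rw [band_value hN hS hd hal hbe hS1 hS2]
  simp only [lie, fh, ev, dv]
  rw [qv_band hN hS hd hal hbe hS1 hS2 hD]
  have h5 : 2 / (1 - S) + 2 = 2 * (2 - S) / (1 - S) := by field_simp; ring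
  simp only [bandLu, bandLr, lieT, e1, e2]
  rw [hNv, h5]
  generalize hDv : bandD S d u v (bandK S d u v c₁ c₂ c₃) = D at hD ⊢
  generalize hKv : bandK S d u v c₁ c₂ c₃ = K at hDv ⊢
  simp only [bandB, bandQ, e1]
  field_simp
  rw [← hDv, ← hKv]
  simp only [bandD, bandK, bandB, e1, e2]
  subst hd hS
  ring

/-- `φ u = 11/10 + (8/5) u/(22/25 - u)`. -/
noncomputable def phiB (u : ℝ) : ℝ := 11 / 10 + 8 / 5 * u / (22 / 25 - u)

/-- Its derivative. -/
noncomputable def phiB' (u : ℝ) : ℝ := 8 / 5 * (22 / 25) / (22 / 25 - u) ^ 2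

/-- `d` times the drift of `v - φ u`, over `u`. -/
noncomputable def exitF (N al be d u h : ℝ) : ℝ :=
  (1 + d * phiB u) * (qv N al be u (al / be * (1 + d * phiB u)) h * h -
      (N - 2) * (1 - al / be * (1 + d * phiB u))) -
    d * phiB' u * ev N al be u (al / be * (1 + d * phiB u)) h

/-- The value of `exitF` at the crude lower band. -/
theorem exitF_band (hN : N * (1 - S) = 2) (hS : al + be = S) (hd : be - al = d) (hal : al ≠ 0)
    (hbe : be ≠ 0) (hS1 : 1 - S ≠ 0) (hS2 : 2 - S ≠ 0) (hu : 22 / 25 - u ≠ 0)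
    (hD : bandD S d u (phiB u) (bandK S d u (phiB u) (-1 / 2 - 3 * d) 0 0) ≠ 0) :
    exitF N al be d u (d * bandK S d u (phiB u) (-1 / 2 - 3 * d) 0 0 / bandB S d) *
      ((1 - S) * be * bandD S d u (phiB u) (bandK S d u (phiB u) (-1 / 2 - 3 * d) 0 0) *
        (22 / 25 - u) ^ 4) = d * exitT S d u := by
  have hNv : N = 2 / (1 - S) := by rw [eq_div_iff hS1]; exact hN
  have e1 : (S + d) / 2 = be := by linarith
  have e2 : (S - d) / 2 = al := by linarith
  simp only [exitF, ev]
  rw [qv_band hN hS hd hal hbe hS1 hS2 hD]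
  rw [hNv]
  generalize hDv : bandD S d u (phiB u) (bandK S d u (phiB u) (-1 / 2 - 3 * d) 0 0) = D at hD ⊢
  simp only [bandD, bandK, bandB, bandQ, phiB', phiB, e1, e2] at hDv ⊢
  generalize hG : (22 / 25 : ℝ) - u = G at hu hDv ⊢
  field_simp
  rw [← hDv]
  simp only [exitT, bandB, e1, e2, hG]
  subst hd hS
  field_simp
  ring

/-- `exitF` increases in `h`. -/
theorem exitF_mono {h g : ℝ} (hh : g ≤ h) (hal : 0 < al) (hbe : 0 < be) (hd0 : 0 < d) (hd1 : d ≤ 21 / 100)
    (hu0 : 0 ≤ u) (hu1 : u ≤ 3 / 5) (hN : 2 ≤ N) (hh0 : 0 ≤ h) (huh : u * h ≤ 1)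
    (hgd : 0 < 2 + d * phiB u - u * g) (hq : 0 ≤ N * (al + al * (1 + d * phiB u)) -
      (N - 2) * u * (al / be * (1 + d * phiB u))) :
    exitF N al be d u g ≤ exitF N al be d u h := by
  have hG : 0 < 22 / 25 - u := by linarith
  set v := phiB u with hv
  have hv0 : 0 < v := by rw [hv, phiB]; positivity
  set r := al / be * (1 + d * v) with hr
  have hA : al + be * r = al + al * (1 + d * v) := by rw [hr]; field_simp
  have hdv : 0 < d * v := mul_pos hd0 hv0
  have hDg : 0 < al + be * r - al * u * g := by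
    rw [hA]
    have := mul_pos hal hgd
    linarith
  have hDh : 0 < al + be * r - al * u * h := by
    rw [hA]
    have := mul_le_mul_of_nonneg_left huh hal.le
    have := mul_pos hal hdv
    linarith
  set k := qv N al be u r h * al * u / (al + be * r - al * u * g) with hk
  have hqe : qv N al be u r h = qv N al be u r g + (h - g) * k := by
    simp only [k, qv]
    generalize hA' : N * (al + be * r) - (N - 2) * u * r = A
    generalize hD : al + be * r - al * u * h = D at hDh ⊢
    generalize hE : al + be * r - al * u * g = E at hDg ⊢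
    field_simp
    subst hD hE
    ring
  have hqh : 0 ≤ qv N al be u r h := div_nonneg (by rw [hA]; exact hq) hDh.le
  have hk0 : 0 ≤ k := div_nonneg (mul_nonneg (mul_nonneg hqh hal.le) hu0) hDg.le
  have hqg : qv N al be u r g = qv N al be u r h * (al + be * r - al * u * h) /
      (al + be * r - al * u * g) := by
    simp only [qv]
    field_simp
  -- the slope
  have hphi : phiB' u * u ≤ 3 * v := by
    have e : 3 * v - phiB' u * u =
        (3 * (11 / 10 * (22 / 25 - u) + 8 / 5 * u) * (22 / 25 - u) - 8 / 5 * (22 / 25) * u) /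
          (22 / 25 - u) ^ 2 := by
      simp only [hv, phiB, phiB']
      generalize hG' : (22 / 25 : ℝ) - u = G at hG ⊢
      field_simp
    have h1 : 0 ≤ (3 * (11 / 10 * (22 / 25 - u) + 8 / 5 * u) * (22 / 25 - u) -
        8 / 5 * (22 / 25) * u) / (22 / 25 - u) ^ 2 := div_nonneg (by nlinarith) (sq_nonneg _)
    linarith
  have hslope : d * phiB' u * ((1 - u * h) * k - u * qv N al be u r g) ≤
      (1 + d * v) * (k * h + qv N al be u r g) := by
    have h1 : d * phiB' u * u * (1 - u * h) * al ≤ (1 + d * v) * (al + be * r - al * u * h) := by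
      have h2 : d * phiB' u * u ≤ 2 + 3 * (d * v) := by
        have := mul_le_mul_of_nonneg_left hphi hd0.le
        linarith
      have h3 := mul_le_mul_of_nonneg_right (mul_le_mul_of_nonneg_right h2
        (sub_nonneg.2 huh)) hal.le
      have h4 : 0 ≤ al * ((1 + d * v) * (1 + d * v) + (1 + d * v) * (1 - u * h) -
          (2 + 3 * (d * v)) * (1 - u * h)) := by
        refine mul_nonneg hal.le ?_
        have h5 : 0 ≤ u * h := mul_nonneg hu0 hh0
        have h6 := mul_nonneg hdv.le h5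
        nlinarith
      rw [hA]
      linarith
    have h5 := mul_le_mul_of_nonneg_left h1 (div_nonneg hqh hDg.le)
    have e1 : qv N al be u r h / (al + be * r - al * u * g) *
        (d * phiB' u * u * (1 - u * h) * al) = d * phiB' u * ((1 - u * h) * k) := by
      simp only [k]; ring
    have e2 : qv N al be u r h / (al + be * r - al * u * g) *
        ((1 + d * v) * (al + be * r - al * u * h)) = (1 + d * v) * qv N al be u r g := by
      rw [hqg]; ring
    rw [e1, e2] at h5
    have h6 : 0 ≤ d * phiB' u * (u * qv N al be u r g) := by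
      refine mul_nonneg (mul_nonneg hd0.le (by simp only [phiB']; positivity)) (mul_nonneg hu0 ?_)
      rw [hqg]
      exact div_nonneg (mul_nonneg hqh hDh.le) hDg.le
    have h7 := mul_nonneg (add_nonneg zero_le_one hdv.le) (mul_nonneg hk0 hh0)
    linarith
  have key := mul_le_mul_of_nonneg_left hslope (sub_nonneg.2 hh)
  simp only [exitF, ev, ← hv, ← hr]
  rw [hqe]
  linarith

end Vale.Agent.P100.Calib.Band
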