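import Mathlib
import Vale.Agent.P100.Calib.SlabBands

/-!
# The orbit bands on the dimension five slab

From the signs of the band numerators: for `0 < u ≤ 3/5` the orbit satisfies `v < φ u` and
`hc r + d L u < h < hc r + d U u`, with `r = (al/be) (1 + d v)`.
-/

open Set Filter Topology

namespace Vale.Agent.P100.Calib.Band

open Vale.Agent.P100.Bubble Chart

/-- The sign conditions of the bands. -/
structure BandSigns (S d : ℝ) : Prop where
  low : ∀ u v, 0 ≤ u → u ≤ 3 / 5 → 33 / 100 ≤ v → v ≤ 89 / 20 →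
    0 < lieT S d u v (-1 / 2 - 3 * d) 0 0
  exit : ∀ u, 0 ≤ u → u ≤ 3 / 5 → 0 < exitT S d u
  lower : ∀ u v, 0 ≤ u → u ≤ 3 / 5 → 33 / 100 ≤ v → v ≤ 89 / 20 →
    (u ≤ 1 / 5 → v ≤ 79 / 50) → (u ≤ 9 / 20 → v ≤ 14 / 5) → (u ≤ 13 / 25 → v ≤ 171 / 50) →
    (u ≤ 14 / 25 → v ≤ 391 / 100) → 0 < lieT S d u v (1 - 7 / 2 * d) (-6 / 5 - 3 * d) 0
  upper : ∀ u v, 0 ≤ u → u ≤ 3 / 5 → 33 / 100 ≤ v → v ≤ 89 / 20 →
    lieT S d u v (8 / 5 - 4 * d) 3 6 < 0

/-- The slab box of the parameters. -/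
structure SlabBox (N al be : ℝ) : Prop where
  five : 5 ≤ N
  sum : N * (1 - (al + be)) = 2
  low : 1 ≤ N * al
  lt : al < be
  diff : be - al ≤ 1 / 5
  S_low : 3 / 5 ≤ al + be
  S_high : al + be ≤ 307 / 507

namespace SlabBox

variable {N al be r u : ℝ}

theorem facts (h : SlabBox N al be) :
    0 < al ∧ 0 < be ∧ 0 < be - al ∧ 1 - (al + be) ≠ 0 ∧ 2 - (al + be) ≠ 0 ∧
      1 / 5 ≤ al ∧ al ≤ 31 / 100 := by
  have hS : (al + be) < 1 := lt_of_le_of_lt h.S_high (by norm_num)
  have h1 : 1 / 5 ≤ al := by linarith [h.diff, h.S_low]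
  have h2 : al ≤ 31 / 100 := by linarith [h.lt, h.S_high]
  exact ⟨by linarith, by linarith [h.lt], by linarith [h.lt], by linarith, by linarith, h1, h2⟩

/-- The range of `v`. -/
theorem v_mem (h : SlabBox N al be) (hc : 0 < Trap.c0p N al be r) (h1 : r < 1)
    (hk : (N - 2) * be * r < N * al) :
    33 / 100 ≤ (be / al * r - 1) / (be - al) ∧ (be / al * r - 1) / (be - al) ≤ 89 / 20 := by
  obtain ⟨hal, hbe, hd, hS1, -, hal1, hal2⟩ := h.facts
  have hN := h.five
  have hN2 : N ≤ 507 / 100 := by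
    have h2 := mul_le_mul_of_nonneg_left (show (200 : ℝ) / 507 ≤ 1 - (al + be) by linarith [h.S_high])
      (show 0 ≤ N by linarith)
    linarith [h.sum]
  set v := (be / al * r - 1) / (be - al) with hv
  have hr : be * r = al * (1 + (be - al) * v) := by rw [hv]; field_simp; ring
  constructor
  · simp only [Trap.c0p] at hc
    have h2 : 2 * ((be - al) * al) < (N + 2 * al) * ((be - al) * al) * v := by
      have := congrArg (fun w => (N + 2 * al) * w) hr
      linarith
    have h3 : 2 < (N + 2 * al) * v := by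
      refine lt_of_mul_lt_mul_right (a := (be - al) * al) ?_ (mul_pos hd hal).le
      linarith
    have hv0 : 0 < v := pos_of_mul_pos_right (lt_trans two_pos h3) (by linarith)
    have := mul_le_mul_of_nonneg_right (show N + 2 * al ≤ 569 / 100 by linarith) hv0.le
    linarith
  · by_contra hv1
    rw [not_le] at hv1
    have a1 : al * v < 1 := by
      have h2 : be * r < be * 1 := mul_lt_mul_of_pos_left h1 hbe
      refine lt_of_mul_lt_mul_left (a := be - al) ?_ hd.le
      have h3 : al * (1 + (be - al) * v) < be := by linarith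
      linarith
    have a2 : (be - al) * v < 2 / 3 := by
      have h2 : (N - 2) * (1 + (be - al) * v) < N := by
        refine lt_of_mul_lt_mul_left (a := al) ?_ hal.le
        have := congrArg (fun w => (N - 2) * w) hr
        linarith
      have h3 : 0 < (be - al) * v := mul_pos hd (by linarith)
      have := mul_le_mul_of_nonneg_right (show (3 : ℝ) ≤ N - 2 by linarith) h3.le
      linarith
    rcases le_or_gt (be - al) (3 / 20) with hd2 | hd2
    · have h2 := mul_lt_mul_of_pos_left hv1 hal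
      have h3 : 9 / 40 ≤ al := by linarith [h.S_low]
      linarith
    · have h2 := mul_lt_mul_of_pos_right hd2 (show 0 < v by linarith)
      linarith

theorem r_eq (h : SlabBox N al be) (r : ℝ) :
    al / be * (1 + (be - al) * ((be / al * r - 1) / (be - al))) = r := by
  obtain ⟨hal, hbe, hd, -⟩ := h.facts
  field_simp
  ring

theorem bandD_pos (h : SlabBox N al be) {v c₁ c₂ c₃ : ℝ} (hu : 0 ≤ u) (hu1 : u ≤ 3 / 5)
    (hv : 33 / 100 ≤ v) (hv1 : v ≤ 89 / 20)
    (hc : c₁ + c₂ * u + c₃ * u ^ 2 ≤ 6) :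
    0 < bandD (al + be) (be - al) u v (bandK (al + be) (be - al) u v c₁ c₂ c₃) := by
  obtain ⟨hal, hbe, hd, -, -, hal1, hal2⟩ := h.facts
  have hS := h.S_low
  have hS' := h.S_high
  have hdd := h.diff
  have hB : 0 < bandB (al + be) (be - al) := by
    unfold bandB; nlinarith
  have hB1 : (al + be) * (1 + (1 - al) * v) ≤ 3 := by
    have h1 : (1 - al) * v ≤ 89 / 20 :=
      (mul_le_of_le_one_left (by linarith) (by linarith)).trans hv1
    nlinarith [mul_nonneg (sub_nonneg.2 (show al ≤ 1 by linarith)) (show (0 : ℝ) ≤ v by linarith)]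
  have e : (al + be - (be - al)) / 2 = al := by ring
  have hB2 : 2 / 5 ≤ bandB (al + be) (be - al) := by
    unfold bandB; nlinarith
  have hdu : (be - al) * u ≤ 3 / 25 := by nlinarith
  have hdu0 : 0 ≤ (be - al) * u := mul_nonneg hd.le hu
  have hK : bandK (al + be) (be - al) u v c₁ c₂ c₃ ≤ 3 + bandB (al + be) (be - al) * u * 6 := by
    simp only [bandK, e]
    have := mul_le_mul_of_nonneg_left hc (mul_nonneg hB.le hu)
    linarith
  have h1 := mul_le_mul_of_nonneg_left hK hdu0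
  have h2 : 0 ≤ bandB (al + be) (be - al) * ((be - al) * v) :=
    mul_nonneg hB.le (mul_nonneg hd.le (by linarith))
  have h3 := mul_le_mul_of_nonneg_right hdu (show (0:ℝ) ≤ 3 + bandB (al + be) (be - al) * u * 6 by positivity)
  have h4 := mul_le_mul_of_nonneg_left hu1 hB.le
  unfold bandD
  nlinarith

theorem lie_sign (h : SlabBox N al be) {c₁ c₂ c₃ : ℝ} (hu : 0 < u) (hu1 : u ≤ 3 / 5)
    (hc : 0 < Trap.c0p N al be r) (h1 : r < 1) (hk : (N - 2) * be * r < N * al)
    (hb : c₁ + c₂ * u + c₃ * u ^ 2 ≤ 6) {e : ℝ}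
    (hT : 0 < e * lieT (al + be) (be - al) u ((be / al * r - 1) / (be - al)) c₁ c₂ c₃) :
    0 < e * lie N al be (fun u _ => bandLu (be - al) c₁ c₂ c₃ u) (fun _ _ => bandLr N al) u r
      (bandL N al be (be - al) c₁ c₂ c₃ u r) := by
  obtain ⟨hal, hbe, hd, hS1, hS2, -, -⟩ := h.facts
  obtain ⟨hv, hv1⟩ := h.v_mem hc h1 hk
  have hD := h.bandD_pos hu.le hu1 hv hv1 hb
  have key := lie_band (u := u) h.sum rfl rfl hal.ne' hbe.ne' hS1 hS2 hD.ne'
  rw [h.r_eq] at key
  set X := (1 - (al + be)) * bandB (al + be) (be - al) * be *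
    bandD (al + be) (be - al) u ((be / al * r - 1) / (be - al))
      (bandK (al + be) (be - al) u ((be / al * r - 1) / (be - al)) c₁ c₂ c₃)
  have hX : 0 < X := by
    refine mul_pos (mul_pos (mul_pos (by linarith [h.S_high]) ?_) hbe) hD
    unfold bandB
    exact mul_pos (by linarith) (by linarith [h.S_high])
  refine pos_of_mul_pos_left (b := X) ?_ hX.le
  rw [mul_assoc, key]
  have := mul_pos (mul_pos hd hu) hT
  linarith

end SlabBox

variable {N p q : ℝ} {S : Set ℝ} {R x y s dx dy : ℝ → ℝ}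

/-- `v` of the chart. -/
noncomputable def vOf (al be r : ℝ) : ℝ := (be / al * r - 1) / (be - al)

/-- The crude lower band. -/
theorem orbit_crude (hf : IsOrbitFns N p q S R x y s dx dy)
    (hb : SlabBox N (1 / (p + 1)) (1 / (q + 1)))
    (hs : BandSigns (1 / (p + 1) + 1 / (q + 1)) (1 / (q + 1) - 1 / (p + 1)))
    {w : ℝ} (hw : w ∈ S) (hw0 : 0 < R w) (hwu : uOf N (R w) (x w) ≤ 3 / 5) :
    let al := 1 / (p + 1)
    let be := 1 / (q + 1)
    bandL N al be (be - al) (-1 / 2 - 3 * (be - al)) 0 0 (uOf N (R w) (x w)) (y w / x w) <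
      hOf N (R w) (x w) (y w) w := by
  intro al be
  obtain ⟨hal', hbe', hd', hS1, hS2, hal1', hal2'⟩ := hb.facts
  have hal : 0 < al := hal'
  have hbe : 0 < be := hbe'
  have hd : 0 < be - al := hd'
  have hal1 : 1 / 5 ≤ al := hal1'
  have hal2 : al ≤ 31 / 100 := hal2'
  have hS_low : 3 / 5 ≤ al + be := hb.S_low
  have hS_high : al + be ≤ 307 / 507 := hb.S_high
  have hsum : N * (1 - (al + be)) = 2 := hb.sum
  have h5 := hb.five
  have hlow : 1 ≤ N * al := hb.low
  set d := be - al with hdd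
  have hdiff : d ≤ 1 / 5 := hb.diff
  have cont : ∀ c₁ c₂ c₃ r', ContinuousAt (fun w : ℝ × ℝ => bandL N al be d c₁ c₂ c₃ w.1 w.2) (0, r') ∧
      ContinuousAt (fun w : ℝ × ℝ => bandLu d c₁ c₂ c₃ w.1) (0, r') ∧
      ContinuousAt (fun _ : ℝ × ℝ => bandLr N al) (0, r') := fun c₁ c₂ c₃ r' =>
    ⟨(continuous_band (N := N) (al := al) (be := be) (d := d) (c₁ := c₁) (c₂ := c₂) (c₃ := c₃)).1.continuousAt,
      (continuous_band (N := N) (al := al) (be := be) (d := d) (c₁ := c₁) (c₂ := c₂) (c₃ := c₃)).2.1.continuousAt,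
      continuous_const.continuousAt⟩
  have start : ∀ (e c₁ c₂ c₃ r' : ℝ), 0 ≤ e * (hc N al be r' - bandL N al be d c₁ c₂ c₃ 0 r') :=
    fun e c₁ c₂ c₃ r' => le_of_eq (by simp [bandL])
  have := hf.band_barrier h5 hlow 1 (3 / 5) (one_mul 1) _ _ _ (fun _ _ => True) (hasGradTwo_band (N := N) (al := al) (be := be) (d := d) (c₁ := -1 / 2 - 3 * d) (c₂ := 0) (c₃ := 0))
    (cont _ _ _) (fun r' _ _ _ => start 1 _ _ _ r') (fun _ _ _ _ => trivial)
    (fun u' r' hu0 _ hu1 _ hr1 _ hc hk _ => ?_) w hw hw0 hwu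
  · linarith
  · obtain ⟨hv, hv1⟩ := hb.v_mem hc hr1 hk
    exact hb.lie_sign hu0 hu1 hc hr1 hk (by linarith)
      (by rw [one_mul]; exact hs.low u' _ hu0.le hu1 hv hv1)

/-- The exit: `v < φ u`. -/
theorem orbit_exit (hf : IsOrbitFns N p q S R x y s dx dy)
    (hb : SlabBox N (1 / (p + 1)) (1 / (q + 1)))
    (hs : BandSigns (1 / (p + 1) + 1 / (q + 1)) (1 / (q + 1) - 1 / (p + 1)))
    {w : ℝ} (hw : w ∈ S) (hw0 : 0 < R w) (hwu : uOf N (R w) (x w) ≤ 3 / 5) :
    let al := 1 / (p + 1)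
    let be := 1 / (q + 1)
    vOf al be (y w / x w) < phiB (uOf N (R w) (x w)) := by
  intro al be
  obtain ⟨hal', hbe', hd', hS1, hS2, hal1', hal2'⟩ := hb.facts
  have hal : 0 < al := hal'
  have hbe : 0 < be := hbe'
  have hd : 0 < be - al := hd'
  have hal1 : 1 / 5 ≤ al := hal1'
  have hal2 : al ≤ 31 / 100 := hal2'
  have hS_low : 3 / 5 ≤ al + be := hb.S_low
  have hS_high : al + be ≤ 307 / 507 := hb.S_high
  have hsum : N * (1 - (al + be)) = 2 := hb.sum
  have h5 := hb.five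
  have hlow : 1 ≤ N * al := hb.low
  set d := be - al with hdd
  have hdiff : d ≤ 1 / 5 := hb.diff
  have cont : ∀ c₁ c₂ c₃ r', ContinuousAt (fun w : ℝ × ℝ => bandL N al be d c₁ c₂ c₃ w.1 w.2) (0, r') ∧
      ContinuousAt (fun w : ℝ × ℝ => bandLu d c₁ c₂ c₃ w.1) (0, r') ∧
      ContinuousAt (fun _ : ℝ × ℝ => bandLr N al) (0, r') := fun c₁ c₂ c₃ r' =>
    ⟨(continuous_band (N := N) (al := al) (be := be) (d := d) (c₁ := c₁) (c₂ := c₂) (c₃ := c₃)).1.continuousAt,
      (continuous_band (N := N) (al := al) (be := be) (d := d) (c₁ := c₁) (c₂ := c₂) (c₃ := c₃)).2.1.continuousAt,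
      continuous_const.continuousAt⟩
  have start : ∀ (e c₁ c₂ c₃ r' : ℝ), 0 ≤ e * (hc N al be r' - bandL N al be d c₁ c₂ c₃ 0 r') :=
    fun e c₁ c₂ c₃ r' => le_of_eq (by simp [bandL])
  set G : ℝ → ℝ → ℝ → ℝ := fun a b _ => 11 / 10 * (22 / 25 - a) + 8 / 5 * a -
    (22 / 25 - a) * vOf al be b with hGdef
  have hG : HasGrad G (fun a b _ => (1 / 2 : ℝ) + vOf al be b)
      (fun a _ _ => -((22 / 25 - a) * (be / al / d))) (fun _ _ _ => 0) := by
    intro a b c da db dc t ha hb' hc'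
    refine (((((ha.const_sub (22 / 25 : ℝ)).const_mul (11 / 10)).fun_add (ha.const_mul (8 / 5))).fun_sub
      ((ha.const_sub (22 / 25 : ℝ)).fun_mul
        (((hb'.const_mul (be / al)).sub_const 1).div_const (be - al))))).congr_deriv ?_
    simp only [vOf, d]
    ring
  have key := hf.exit_barrier h5 hlow (3 / 5) (by norm_num) G _ _ _
    (fun a b c => a ≤ 3 / 5 → bandL N al be d (-1 / 2 - 3 * d) 0 0 a b < c) hG
    (fun w' hw' hw'0 hw'u _ => orbit_crude hf hb hs hw' hw'0 hw'u)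
    (fun r' w' hI _ => ?_) (fun u' r' w' hI hu' hE hG0 => ?_) w hw hw0 hwu
  · have hg : 0 < 22 / 25 - uOf N (R w) (x w) := by linarith
    simp only [G] at key
    unfold phiB
    rw [← sub_pos]
    have e : 11 / 10 + 8 / 5 * uOf N (R w) (x w) / (22 / 25 - uOf N (R w) (x w)) -
        vOf al be (y w / x w) = (11 / 10 * (22 / 25 - uOf N (R w) (x w)) +
          8 / 5 * uOf N (R w) (x w) - (22 / 25 - uOf N (R w) (x w)) * vOf al be (y w / x w)) /
            (22 / 25 - uOf N (R w) (x w)) := by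
      rw [eq_div_iff hg.ne', sub_mul, add_mul, div_mul_cancel₀ _ hg.ne']
      ring
    rw [e]
    exact div_pos key hg
  · obtain ⟨-, -, -, hr1, -, -, -, hc, hk, -⟩ := hI
    obtain ⟨-, hv1⟩ := hb.v_mem hc hr1 hk
    simp only [G]
    have hv1' : vOf al be r' ≤ 89 / 20 := hv1
    norm_num
    linarith
  · obtain ⟨hu0, hu1, hr0, hr1, hh0, hh1, hr2, hc, hk, -⟩ := hI
    simp only [G] at hG0
    have hgap : 0 < 22 / 25 - u' := by linarith
    have hvphi : vOf al be r' = phiB u' := by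
      refine mul_left_cancel₀ hgap.ne' ?_
      unfold phiB
      rw [mul_add, mul_div_cancel₀ _ hgap.ne']
      linarith
    obtain ⟨hv0, hv2⟩ := hb.v_mem hc hr1 hk
    have hv : 33 / 100 ≤ phiB u' := hvphi ▸ (show 33 / 100 ≤ vOf al be r' from hv0)
    have hv1 : phiB u' ≤ 89 / 20 := hvphi ▸ (show vOf al be r' ≤ 89 / 20 from hv2)
    have hr' : al / be * (1 + d * phiB u') = r' := by rw [← hvphi]; exact hb.r_eq r'
    have hD := hb.bandD_pos (v := phiB u') (c₁ := -1 / 2 - 3 * d) (c₂ := 0) (c₃ := 0) hu0.le hu'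
      hv hv1 (by linarith)
    have hbv := band_value (u := u') (v := phiB u') (c₁ := -1 / 2 - 3 * d) (c₂ := 0) (c₃ := 0)
      hb.sum rfl rfl hal.ne' hbe.ne' hS1 hS2
    rw [hr'] at hbv
    have hband := exitF_band (u := u') hb.sum rfl rfl hal.ne' hbe.ne' hS1 hS2 hgap.ne' hD.ne'
    have hB : 0 < bandB (al + be) d := by
      unfold bandB; exact mul_pos (by linarith) (by linarith [hb.S_high])
    have hpos : 0 < exitF N al be d u'
        (d * bandK (al + be) d u' (phiB u') (-1 / 2 - 3 * d) 0 0 / bandB (al + be) d) := by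
      refine pos_of_mul_pos_left (hband.symm ▸ mul_pos hd (hs.exit u' hu0.le hu')) ?_
      exact mul_nonneg (mul_nonneg (mul_nonneg (by linarith [hb.S_high]) hbe.le) hD.le) (by positivity)
    rw [← hbv] at hpos
    have hN2 : N ≤ 6 := by
      have h2 := mul_le_mul_of_nonneg_left
        (show (1 : ℝ) / 3 ≤ 1 - (al + be) by linarith [hb.S_high]) (show 0 ≤ N by linarith)
      linarith [hb.sum]
    have hmono := exitF_mono (N := N) (al := al) (be := be) (d := d) (u := u')
      (g := bandL N al be d (-1 / 2 - 3 * d) 0 0 u' r') (h := w') (hE hu').le hal hbe hd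
      (by linarith) hu0.le hu' (by linarith) hh0.le
      ((mul_le_of_le_one_right hu0.le hh1.le).trans hu1.le)
      ?_ ?_
    · have hf' := hpos.trans_le hmono
      simp only [exitF, hr'] at hf'
      have e : (1 / 2 + vOf al be r') * (u' * ev N al be u' r' w') +
          -((22 / 25 - u') * (be / al / d)) * (r' * dv N al be u' r' w') + 0 * fh N al be u' r' w' =
          -(u' * (22 / 25 - u') / d) * ((1 + d * phiB u') *
            (qv N al be u' r' w' * w' - (N - 2) * (1 - r')) -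
            d * phiB' u' * ev N al be u' r' w') := by
        rw [hvphi]
        have hr'' : r' * (be / al) = 1 + d * phiB u' := by rw [← hr']; field_simp
        simp only [dv]
        rw [show -((22 / 25 - u') * (be / al / d)) *
            (r' * (u' * (qv N al be u' r' w' * w' - (N - 2) * (1 - r')))) =
            -((22 / 25 - u') / d) * (r' * (be / al)) *
              (u' * (qv N al be u' r' w' * w' - (N - 2) * (1 - r'))) by ring, hr'']
        unfold phiB phiB'
        generalize hG' : (22 / 25 : ℝ) - u' = G' at hgap ⊢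
        field_simp
        subst hG'
        ring
      rw [e]
      exact mul_neg_of_neg_of_pos (neg_neg_of_pos (div_pos (mul_pos hu0 hgap) hd)) hf'
    · have h2 : u' * bandL N al be d (-1 / 2 - 3 * d) 0 0 u' r' ≤ u' * w' :=
        mul_le_mul_of_nonneg_left (hE hu').le hu0.le
      have h3 : u' * w' < 1 := lt_of_le_of_lt (mul_le_of_le_one_right hu0.le hh1.le) hu1
      have h4 := mul_pos hd (lt_of_lt_of_le (by norm_num) hv : 0 < phiB u')
      linarith
    · rw [hr']
      have h2 : (N - 2) * u' * r' ≤ 4 := by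
        have := mul_le_mul_of_nonneg_left hr1.le (mul_nonneg (show 0 ≤ N - 2 by linarith) hu0.le)
        have := mul_le_mul_of_nonneg_left hu' (show 0 ≤ N - 2 by linarith)
        linarith
      have h4 := mul_pos hd (lt_of_lt_of_le (by norm_num) hv : 0 < phiB u')
      have h6 : 1 ≤ al * (2 + d * phiB u') * N / 2 := by
        have := mul_le_mul_of_nonneg_right hlow h4.le
        linarith
      have h7 : (N - 2) * u' * r' ≤ (N - 2) * (3 / 5) * 1 :=
        mul_le_mul (mul_le_mul_of_nonneg_left hu' (by linarith)) hr1.le hr0.le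
          (mul_nonneg (by linarith) (by norm_num))
      have h8 : N * (al + al * (1 + d * phiB u')) ≥ 2 * (N * al) := by
        have := mul_nonneg (mul_nonneg (show 0 ≤ N by linarith) hal.le) h4.le
        linarith
      have h9 : N * al = (N - 2) - N * be := by linarith [hb.sum]
      have h10 : N * be ≤ N * (41 / 100) :=
        mul_le_mul_of_nonneg_left (by linarith [hb.S_high]) (by linarith)
      linarith

/-- The lower band. -/
theorem orbit_lower (hf : IsOrbitFns N p q S R x y s dx dy)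
    (hb : SlabBox N (1 / (p + 1)) (1 / (q + 1)))
    (hs : BandSigns (1 / (p + 1) + 1 / (q + 1)) (1 / (q + 1) - 1 / (p + 1)))
    {w : ℝ} (hw : w ∈ S) (hw0 : 0 < R w) (hwu : uOf N (R w) (x w) ≤ 3 / 5) :
    let al := 1 / (p + 1)
    let be := 1 / (q + 1)
    bandL N al be (be - al) (1 - 7 / 2 * (be - al)) (-6 / 5 - 3 * (be - al)) 0
      (uOf N (R w) (x w)) (y w / x w) < hOf N (R w) (x w) (y w) w := by
  intro al be
  obtain ⟨hal', hbe', hd', hS1, hS2, hal1', hal2'⟩ := hb.facts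
  have hal : 0 < al := hal'
  have hbe : 0 < be := hbe'
  have hd : 0 < be - al := hd'
  have hal1 : 1 / 5 ≤ al := hal1'
  have hal2 : al ≤ 31 / 100 := hal2'
  have hS_low : 3 / 5 ≤ al + be := hb.S_low
  have hS_high : al + be ≤ 307 / 507 := hb.S_high
  have hsum : N * (1 - (al + be)) = 2 := hb.sum
  have h5 := hb.five
  have hlow : 1 ≤ N * al := hb.low
  set d := be - al with hdd
  have hdiff : d ≤ 1 / 5 := hb.diff
  have cont : ∀ c₁ c₂ c₃ r', ContinuousAt (fun w : ℝ × ℝ => bandL N al be d c₁ c₂ c₃ w.1 w.2) (0, r') ∧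
      ContinuousAt (fun w : ℝ × ℝ => bandLu d c₁ c₂ c₃ w.1) (0, r') ∧
      ContinuousAt (fun _ : ℝ × ℝ => bandLr N al) (0, r') := fun c₁ c₂ c₃ r' =>
    ⟨(continuous_band (N := N) (al := al) (be := be) (d := d) (c₁ := c₁) (c₂ := c₂) (c₃ := c₃)).1.continuousAt,
      (continuous_band (N := N) (al := al) (be := be) (d := d) (c₁ := c₁) (c₂ := c₂) (c₃ := c₃)).2.1.continuousAt,
      continuous_const.continuousAt⟩
  have start : ∀ (e c₁ c₂ c₃ r' : ℝ), 0 ≤ e * (hc N al be r' - bandL N al be d c₁ c₂ c₃ 0 r') :=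
    fun e c₁ c₂ c₃ r' => le_of_eq (by simp [bandL])
  have := hf.band_barrier h5 hlow 1 (3 / 5) (one_mul 1) _ _ _
    (fun a b => a ≤ 3 / 5 → vOf al be b < phiB a) (hasGradTwo_band (N := N) (al := al) (be := be) (d := d)
    (c₁ := 1 - 7 / 2 * d) (c₂ := -6 / 5 - 3 * d) (c₃ := 0)) (cont _ _ _)
    (fun r' _ _ _ => start 1 _ _ _ r')
    (fun w hw hw0 hwu _ => orbit_exit hf hb hs hw hw0 hwu)
    (fun u' r' hu0 _ hu1 _ hr1 _ hc hk hv' => ?_) w hw hw0 hwu
  · linarith
  · obtain ⟨hv, hv1⟩ := hb.v_mem hc hr1 hk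
    refine hb.lie_sign (c₁ := 1 - 7 / 2 * d) (c₂ := -6 / 5 - 3 * d) (c₃ := 0) hu0 hu1 hc hr1 hk
      (by nlinarith) ?_
    rw [one_mul]
    have hstep : ∀ b, u' ≤ b → b ≤ 3 / 5 → vOf al be r' < phiB b := fun b hb1 hb2 => by
      refine lt_of_lt_of_le (hv' hu1) ?_
      unfold phiB
      gcongr <;> linarith
    refine hs.lower u' _ hu0.le hu1 hv hv1 (fun h => ?_) (fun h => ?_) (fun h => ?_) (fun h => ?_)
    all_goals
      refine (hstep _ h (by norm_num)).le.trans ?_
      norm_num [phiB]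

/-- The upper band. -/
theorem orbit_upper (hf : IsOrbitFns N p q S R x y s dx dy)
    (hb : SlabBox N (1 / (p + 1)) (1 / (q + 1)))
    (hs : BandSigns (1 / (p + 1) + 1 / (q + 1)) (1 / (q + 1) - 1 / (p + 1)))
    {w : ℝ} (hw : w ∈ S) (hw0 : 0 < R w) (hwu : uOf N (R w) (x w) ≤ 3 / 5) :
    let al := 1 / (p + 1)
    let be := 1 / (q + 1)
    hOf N (R w) (x w) (y w) w <
      bandL N al be (be - al) (8 / 5 - 4 * (be - al)) 3 6 (uOf N (R w) (x w)) (y w / x w) := by
  intro al be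
  obtain ⟨hal', hbe', hd', hS1, hS2, hal1', hal2'⟩ := hb.facts
  have hal : 0 < al := hal'
  have hbe : 0 < be := hbe'
  have hd : 0 < be - al := hd'
  have hal1 : 1 / 5 ≤ al := hal1'
  have hal2 : al ≤ 31 / 100 := hal2'
  have hS_low : 3 / 5 ≤ al + be := hb.S_low
  have hS_high : al + be ≤ 307 / 507 := hb.S_high
  have hsum : N * (1 - (al + be)) = 2 := hb.sum
  have h5 := hb.five
  have hlow : 1 ≤ N * al := hb.low
  set d := be - al with hdd
  have hdiff : d ≤ 1 / 5 := hb.diff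
  have cont : ∀ c₁ c₂ c₃ r', ContinuousAt (fun w : ℝ × ℝ => bandL N al be d c₁ c₂ c₃ w.1 w.2) (0, r') ∧
      ContinuousAt (fun w : ℝ × ℝ => bandLu d c₁ c₂ c₃ w.1) (0, r') ∧
      ContinuousAt (fun _ : ℝ × ℝ => bandLr N al) (0, r') := fun c₁ c₂ c₃ r' =>
    ⟨(continuous_band (N := N) (al := al) (be := be) (d := d) (c₁ := c₁) (c₂ := c₂) (c₃ := c₃)).1.continuousAt,
      (continuous_band (N := N) (al := al) (be := be) (d := d) (c₁ := c₁) (c₂ := c₂) (c₃ := c₃)).2.1.continuousAt,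
      continuous_const.continuousAt⟩
  have start : ∀ (e c₁ c₂ c₃ r' : ℝ), 0 ≤ e * (hc N al be r' - bandL N al be d c₁ c₂ c₃ 0 r') :=
    fun e c₁ c₂ c₃ r' => le_of_eq (by simp [bandL])
  have := hf.band_barrier h5 hlow (-1) (3 / 5) (by norm_num) _ _ _ (fun _ _ => True) (hasGradTwo_band (N := N) (al := al) (be := be) (d := d) (c₁ := 8 / 5 - 4 * d) (c₂ := 3) (c₃ := 6))
    (cont _ _ _) (fun r' _ _ _ => start (-1) _ _ _ r') (fun _ _ _ _ => trivial)
    (fun u' r' hu0 _ hu1 _ hr1 _ hc hk _ => ?_) w hw hw0 hwu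
  · linarith
  · obtain ⟨hv, hv1⟩ := hb.v_mem hc hr1 hk
    refine hb.lie_sign hu0 hu1 hc hr1 hk (by nlinarith) ?_
    linarith [hs.upper u' _ hu0.le hu1 hv hv1]


/-- **The bands.** -/
theorem orbit_bands (hf : IsOrbitFns N p q S R x y s dx dy)
    (hb : SlabBox N (1 / (p + 1)) (1 / (q + 1)))
    (hs : BandSigns (1 / (p + 1) + 1 / (q + 1)) (1 / (q + 1) - 1 / (p + 1)))
    {w : ℝ} (hw : w ∈ S) (hw0 : 0 < R w) (hwu : uOf N (R w) (x w) ≤ 3 / 5) :
    let al := 1 / (p + 1)
    let be := 1 / (q + 1)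
    let u := uOf N (R w) (x w)
    let r := y w / x w
    vOf al be r < phiB u ∧
      bandL N al be (be - al) (1 - 7 / 2 * (be - al)) (-6 / 5 - 3 * (be - al)) 0 u r <
        hOf N (R w) (x w) (y w) w ∧
      hOf N (R w) (x w) (y w) w < bandL N al be (be - al) (8 / 5 - 4 * (be - al)) 3 6 u r :=
  ⟨orbit_exit hf hb hs hw hw0 hwu, orbit_lower hf hb hs hw hw0 hwu, orbit_upper hf hb hs hw hw0 hwu⟩

end Vale.Agent.P100.Calib.Band
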