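import Mathlib
import Vale.Agent.P100.Calib.SlabBands

/-!
# The algebra of the exit rungs of the ladder
-/

-- The linters cost more than the proofs here.
set_option linter.all false

namespace Vale.Agent.P100.Calib.Band

open Vale.Agent.P100.Bubble Chart

variable {N al be r u : ℝ}

/-- The exit curve `a + b u + k u²/(c - u)`. -/
noncomputable def phiG (a b k c u : ℝ) : ℝ := a + b * u + k * u ^ 2 / (c - u)

/-- Its derivative. -/
noncomputable def phiG' (b k c u : ℝ) : ℝ := b + k * (2 * c * u - u ^ 2) / (c - u) ^ 2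

/-- The cleared exit sign at a band. -/
noncomputable def exitG (S d u a b k c c₁ c₂ c₃ : ℝ) : ℝ :=
  let G := c - u;
  let Vn := (a + b * u) * G + k * u ^ 2;
  let dN := b * G ^ 2 + k * (2 * c * u - u ^ 2);
  let B := bandB S d;
  let K := S * (G + (1 - (S - d) / 2) * Vn) + B * (c₁ + c₂ * u + c₃ * u ^ 2) * u * G;
  let Qn := (S + d) * (2 * G + d * Vn) - 2 * S * u * (G + d * Vn);
  let D := B * (2 * G + d * Vn) - d * u * K;
  (G + d * Vn) * (Qn * K - 2 * S * (G - (S - d) / 2 * Vn) * D) * G -
    dN * ((B * G - u * d * K) * Qn + 2 * S * (u - 1) * ((S + d) / 2) * D * G)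

/-- The cleared slope condition. -/
def slopeG (d u a b k c : ℝ) : ℝ :=
  let G := c - u;
  let Vn := (a + b * u) * G + k * u ^ 2;
  (G + d * Vn) * (2 * G + d * Vn) - d * u * (b * G ^ 2 + k * (2 * c * u - u ^ 2))

/-- `d` times the drift of `v - φ`, over `u`, at the point `φ = v`, `φ' = vp`. -/
noncomputable def exitV (N al be d v vp u h : ℝ) : ℝ :=
  (1 + d * v) * (qv N al be u (al / be * (1 + d * v)) h * h -
      (N - 2) * (1 - al / be * (1 + d * v))) -
    d * vp * ev N al be u (al / be * (1 + d * v)) h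

theorem exitV_band {Sg d a b k c c₁ c₂ c₃ : ℝ} (hN : N * (1 - Sg) = 2) (hS : al + be = Sg)
    (hd : be - al = d) (hal : al ≠ 0) (hbe : be ≠ 0) (hS1 : 1 - Sg ≠ 0) (hS2 : 2 - Sg ≠ 0)
    (hu : c - u ≠ 0)
    (hD : bandD Sg d u (phiG a b k c u) (bandK Sg d u (phiG a b k c u) c₁ c₂ c₃) ≠ 0) :
    exitV N al be d (phiG a b k c u) (phiG' b k c u) u
        (d * bandK Sg d u (phiG a b k c u) c₁ c₂ c₃ / bandB Sg d) *
      ((1 - Sg) * be * bandD Sg d u (phiG a b k c u) (bandK Sg d u (phiG a b k c u) c₁ c₂ c₃) *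
        (c - u) ^ 4) = d * exitG Sg d u a b k c c₁ c₂ c₃ := by
  have hNv : N = 2 / (1 - Sg) := by rw [eq_div_iff hS1]; exact hN
  have e1 : (Sg + d) / 2 = be := by linarith
  have e2 : (Sg - d) / 2 = al := by linarith
  simp only [exitV, ev]
  rw [qv_band hN hS hd hal hbe hS1 hS2 hD]
  rw [hNv]
  generalize hDv : bandD Sg d u (phiG a b k c u) (bandK Sg d u (phiG a b k c u) c₁ c₂ c₃) = D at hD ⊢
  simp only [bandD, bandK, bandB, bandQ, phiG', phiG, e1, e2] at hDv ⊢
  generalize hG : c - u = G at hu hDv ⊢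
  field_simp
  rw [← hDv]
  simp only [exitG, bandB, e1, e2, hG]
  subst hd hS
  field_simp
  ring

/-- `exitV` increases in `h`. -/
theorem exitV_mono {d v vp h g : ℝ} (hh : g ≤ h) (hal : 0 < al) (hbe : 0 < be) (hd0 : 0 < d)
    (hu0 : 0 ≤ u) (hh0 : 0 ≤ h) (huh : u * h ≤ 1) (hv0 : 0 < v) (hvp : 0 ≤ vp)
    (hsl : d * u * vp ≤ (1 + d * v) * (2 + d * v))
    (hgd : 0 < 2 + d * v - u * g) (hq : 0 ≤ N * (al + al * (1 + d * v)) -
      (N - 2) * u * (al / be * (1 + d * v))) :
    exitV N al be d v vp u g ≤ exitV N al be d v vp u h := by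
  set r := al / be * (1 + d * v) with hr
  have hA : al + be * r = al + al * (1 + d * v) := by rw [hr]; field_simp
  have hdv : 0 < d * v := mul_pos hd0 hv0
  have hDg : 0 < al + be * r - al * u * g := by
    rw [hA]
    have := mul_pos hal hgd
    linarith
  have hDh : 0 < al + be * r - al * u * h := by
    rw [hA]
    have := mul_le_mul_of_nonneg_left huh hal.le
    have := mul_pos hal hdv
    linarith
  set k := qv N al be u r h * al * u / (al + be * r - al * u * g) with hk
  have hqe : qv N al be u r h = qv N al be u r g + (h - g) * k := by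
    simp only [k, qv]
    generalize hA' : N * (al + be * r) - (N - 2) * u * r = A
    generalize hD : al + be * r - al * u * h = D at hDh ⊢
    generalize hE : al + be * r - al * u * g = E at hDg ⊢
    field_simp
    subst hD hE
    ring
  have hqh : 0 ≤ qv N al be u r h := div_nonneg (by rw [hA]; exact hq) hDh.le
  have hk0 : 0 ≤ k := div_nonneg (mul_nonneg (mul_nonneg hqh hal.le) hu0) hDg.le
  have hqg : qv N al be u r g = qv N al be u r h * (al + be * r - al * u * h) /
      (al + be * r - al * u * g) := by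
    simp only [qv]
    field_simp
  have hslope : d * vp * ((1 - u * h) * k - u * qv N al be u r g) ≤
      (1 + d * v) * (k * h + qv N al be u r g) := by
    have h1 : d * vp * u * (1 - u * h) * al ≤ (1 + d * v) * (al + be * r - al * u * h) := by
      have h3 := mul_le_mul_of_nonneg_right (mul_le_mul_of_nonneg_right hsl
        (sub_nonneg.2 huh)) hal.le
      have h4 : 0 ≤ al * ((1 + d * v) * ((1 + d * v) * (u * h))) :=
        mul_nonneg hal.le (mul_nonneg (by linarith) (mul_nonneg (by linarith) (mul_nonneg hu0 hh0)))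
      rw [hA]
      linarith
    have h5 := mul_le_mul_of_nonneg_left h1 (div_nonneg hqh hDg.le)
    have e1 : qv N al be u r h / (al + be * r - al * u * g) *
        (d * vp * u * (1 - u * h) * al) = d * vp * ((1 - u * h) * k) := by
      simp only [k]; ring
    have e2 : qv N al be u r h / (al + be * r - al * u * g) *
        ((1 + d * v) * (al + be * r - al * u * h)) = (1 + d * v) * qv N al be u r g := by
      rw [hqg]; ring
    rw [e1, e2] at h5
    have h6 : 0 ≤ d * vp * (u * qv N al be u r g) := by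
      refine mul_nonneg (mul_nonneg hd0.le hvp) (mul_nonneg hu0 ?_)
      rw [hqg]
      exact div_nonneg (mul_nonneg hqh hDh.le) hDg.le
    have h7 := mul_nonneg (add_nonneg zero_le_one hdv.le) (mul_nonneg hk0 hh0)
    linarith
  have key := mul_le_mul_of_nonneg_left hslope (sub_nonneg.2 hh)
  simp only [exitV, ev, ← hr]
  rw [hqe]
  linarith

end Vale.Agent.P100.Calib.Band
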