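import Mathlib
import Vale.Agent.P100.Calib.SlabLadder

/-!
# `x'/x` is positive on the outer orbit

In the chart this is `0 < ev`, so `u` increases along the orbit.
-/

namespace Vale.Agent.P100.Calib.Band

open Vale.Agent.P100.Bubble Chart

variable {N p q : ℝ} {S : Set ℝ} {R x y s dx dy : ℝ → ℝ}

/-- **`0 < ev`** on the outer orbit. -/
theorem orbit_ev_pos (hf : IsOrbitFns N p q S R x y s dx dy) (h5 : 5 ≤ N)
    (hb : 1 ≤ N * (1 / (p + 1))) (hal : 0 < 1 / (p + 1)) (hbe : 0 < 1 / (q + 1))
    {w : ℝ} (hw : w ∈ S) (hw0 : 0 < R w) :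
    0 < ev N (1 / (p + 1)) (1 / (q + 1)) (uOf N (R w) (x w)) (y w / x w)
      (hOf N (R w) (x w) (y w) w) := by
  have hx := hf.x_pos w hw
  have hy := hf.y_pos w hw
  have hz : 0 < w := hf.pos hw
  obtain ⟨-, -, -, htr, -⟩ := hf.trap h5 hb w hw hw0
  have hq := hf.quad w hw
  set al := 1 / (p + 1) with hald
  set be := 1 / (q + 1) with hbed
  have hM : N - 2 ≠ 0 := by linarith
  have euh : uOf N (R w) (x w) * hOf N (R w) (x w) (y w) w = 1 - w * y w / x w := by
    simp only [uOf, hOf]
    field_simp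
  have hden : al + be * (y w / x w) - al * uOf N (R w) (x w) * hOf N (R w) (x w) (y w) w =
      y w * (be + al * w) / x w := by
    rw [mul_assoc, euh]
    field_simp
    ring
  have eqv : qv N al be (uOf N (R w) (x w)) (y w / x w) (hOf N (R w) (x w) (y w) w) =
      s w / (2 * y w) := by
    have hpos : 0 < y w * (be + al * w) / x w := by positivity
    rw [qv, hden, div_eq_iff hpos.ne']
    simp only [uOf]
    field_simp
    linear_combination (-1) * hq
  rw [ev, euh, eqv]
  simp only [uOf]
  have e : (1 - (1 - w * y w / x w)) * (s w / (2 * y w)) + (N - 2) * (2 * R w * x w / (N - 2)) -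
      (N - 2) = (w * s w - 2 * x w * (N - 2 - 2 * R w * x w)) / (2 * x w) := by
    field_simp
    ring
  rw [e]
  exact div_pos (by linarith) (by linarith)

end Vale.Agent.P100.Calib.Band
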