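import Mathlib
import Vale.Agent.P100.Calib.SlabChartAll
import Vale.Agent.P100.Calib.SlabChartOrbit
import Vale.Agent.P100.Calib.SlabBoxAll

/-!
# The orbit in the chart of the closed signs of every dimension from six on
-/

set_option linter.unusedVariables false

open Set Filter Topology

namespace Vale.Agent.P100.Calib.Band

open Vale.Agent.P100.Bubble Chart Closed

section
variable {N al be R x y z s w w₁ : ℝ}

/-- The pieces of the chart at a point. -/
theorem chart_point_all (hb : SlabBoxAll N al be) (hx : 0 < x) (hy : 0 < y) (hz : 0 < z)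
    (hw : R * w = x - z * y)
    (hw1 : R * w₁ = x ^ 2 - z * y ^ 2 + z * y * (be * y - al * x) / (al * be) - (1 + N / 2) * w)
    (hq : 4 * R * x * y + al * (z * s) + be * s = 2 * N * (al * x + be * y)) :
    let d := be - al
    let σ := al + be
    let u := uOf N R x
    let v := vOf al be (y / x)
    let t := slopeOf al be x y w w₁
    d * u * t = (σ / (1 - σ) * (w / x ^ 2)) - hc N al be (y / x) ∧
      d * chH d σ u v t = σ / (1 - σ) * (w / x ^ 2) ∧
      0 < 2 + d * v - d * u * chH d σ u v t ∧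
      chG d σ u v t = s / y ∧ chW d σ u v t = w / (d * x ^ 2) ∧
      chW1 d σ u v t = w₁ / (d * x ^ 3) ∧ chR σ u = R * x := by
  intro d σ u v t
  obtain ⟨hal, hbe, hd, hS1, hS2, -⟩ := hb.facts
  have hNv : N = 2 / (1 - (al + be)) := by rw [eq_div_iff hS1]; exact hb.sum
  have hS0 : al + be ≠ 0 := by linarith
  have hM : N - 2 = 2 * (al + be) / (1 - (al + be)) := by rw [hNv]; field_simp; ring
  have hP : N + 2 = 2 * (2 - (al + be)) / (1 - (al + be)) := by rw [hNv]; field_simp; ring
  have hzy : z = (x - R * w) / y := by rw [eq_div_iff hy.ne']; linarith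
  have e1 : d * u * t = σ / (1 - σ) * (w / x ^ 2) - hc N al be (y / x) := by
    simp only [u, t, slopeOf, uOf, hc, vOf, d, σ]
    rw [hM, hP]
    rw [hNv, hzy] at hw1
    obtain ⟨D, hD⟩ : ∃ D, D = be - al := ⟨_, rfl⟩
    obtain ⟨M, hM'⟩ : ∃ M, M = 1 - (al + be) := ⟨_, rfl⟩
    obtain ⟨T, hT⟩ : ∃ T, T = 2 - (al + be) := ⟨_, rfl⟩
    simp only [← hD, ← hM', ← hT] at hw1 hd hS1 hS2 ⊢
    field_simp at hw1 ⊢
    subst hD hM' hT
    linear_combination (-(1 : ℝ)) * hw1
  have eH : d * chH d σ u v t = σ / (1 - σ) * (w / x ^ 2) := by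
    have e : d * chH d σ u v t = d * u * t + hc N al be (y / x) := by
      simp only [chH, hc, v, vOf, d, σ]
      rw [hM, hP, show (al + be - (be - al)) / 2 = al by ring,
        show (al + be + (be - al)) / 2 = be by ring]
      field_simp
      ring
    rw [e, e1]; ring
  have eu : u * (σ / (1 - σ) * (w / x ^ 2)) = 1 - z * y / x := by
    simp only [u, uOf, σ]
    rw [hM]
    field_simp
    linear_combination hw
  have eden : 2 + d * v - d * u * chH d σ u v t = y * (al * z + be) / (al * x) := by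
    rw [show d * u * chH d σ u v t = u * (d * chH d σ u v t) by ring, eH, eu]
    simp only [v, vOf, d]
    field_simp
    ring
  have hden : 0 < 2 + d * v - d * u * chH d σ u v t := by rw [eden]; positivity
  refine ⟨e1, eH, hden, ?_, ?_, ?_, ?_⟩
  · have hs : s = (2 * N * (al * x + be * y) - 4 * R * x * y) / (al * z + be) := by
      rw [eq_div_iff (by positivity)]; linarith
    have hne : al * z + be ≠ 0 := by positivity
    simp only [chG]
    rw [eden, hs]
    simp only [u, uOf, v, vOf, d, σ]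
    rw [hM, hNv, show (al + be + (be - al)) / 2 = be by ring]
    generalize al * z + be = E at hne
    field_simp
    ring
  · have h2 : chH d σ u v t = σ / (1 - σ) * (w / x ^ 2) / d := by
      rw [eq_div_iff hd.ne', mul_comm]; exact eH
    simp only [chW]
    rw [h2]
    simp only [d, σ]
    field_simp
  · have h2 : chH d σ u v t = σ / (1 - σ) * (w / x ^ 2) / d := by
      rw [eq_div_iff hd.ne', mul_comm]; exact eH
    simp only [chW1]
    rw [h2]
    simp only [t, slopeOf, v, d, σ]
    rw [show (al + be - (be - al)) / 2 = al by ring, show (al + be + (be - al)) / 2 = be by ring]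
    field_simp
    ring
  · simp only [chR, u, uOf, σ]
    rw [hM]
    field_simp

end

section
variable {N p q : ℝ} {S : Set ℝ} {R x y s dx dy : ℝ → ℝ}

theorem continuousOn_slopeAt_all (hc : IsCrit N p q) (h : IsOrbitFns N p q S R x y s dx dy)
    (hb : SlabBoxAll N (1 / (p + 1)) (1 / (q + 1))) :
    ContinuousOn (slopeAt N p q R x y dx dy) S := by
  obtain ⟨hal, hbe, hd, hS1, hS2, -⟩ := hb.facts
  have cx := h.smooth.2.1.continuousOn
  have cy := h.smooth.2.2.1.continuousOn
  have cw := (contDiffOn_wFun hc h).continuousOn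
  have cw1 := continuousOn_wFun₁ hc h
  have n1 : ∀ z ∈ S, x z ≠ 0 := fun z hz => (h.x_pos z hz).ne'
  have n2 : ∀ z ∈ S, (1 / (q + 1) - 1 / (p + 1)) * x z ^ 2 ≠ 0 := fun z hz =>
    mul_ne_zero hd.ne' (pow_ne_zero 2 (n1 z hz))
  have n3 : ∀ z ∈ S, (1 / (q + 1) - 1 / (p + 1)) * x z ^ 3 ≠ 0 := fun z hz =>
    mul_ne_zero hd.ne' (pow_ne_zero 3 (n1 z hz))
  unfold slopeAt slopeOf vOf
  fun_prop (disch := assumption)

/-- **The closed signs from the chart.** -/
theorem closedSigns_of_chart_all (hc : IsCrit N p q) (h : IsOrbitFns N p q S R x y s dx dy)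
    (hb : SlabBoxAll N (1 / (p + 1)) (1 / (q + 1))) {z : ℝ} (hz : z ∈ S)
    (hs : All.ChartSigns (1 / (q + 1) - 1 / (p + 1)) (1 / (p + 1) + 1 / (q + 1)) (uOf N (R z) (x z))
      (vOf (1 / (p + 1)) (1 / (q + 1)) (y z / x z)) (slopeAt N p q R x y dx dy z)) :
    let al := 1 / (p + 1)
    let be := 1 / (q + 1)
    let v := (be * y z / (al * x z) - 1) / (be - al)
    ClosedGen.SignsMult al (be - al) v (s z / y z) (wFun N x y dx dy z / ((be - al) * x z ^ 2))
      (wFun₁ N R x y dx dy z / ((be - al) * x z ^ 3)) (R z * x z)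
      (allNum al (be - al) v (wFun N x y dx dy z / ((be - al) * x z ^ 2)) (R z * x z)) := by
  intro al be v
  obtain ⟨-, -, -, e1, e2, e3, e4⟩ := chart_point_all hb (h.x_pos z hz) (h.y_pos z hz) (h.pos hz)
    (wFun_eq hc h hz) (wFun₁_eq hc h hz) (h.quad z hz)
  simp only [All.ChartSigns, slopeAt] at hs
  rw [e1, e2, e3, e4] at hs
  rw [show (1 / (p + 1) + 1 / (q + 1) - (1 / (q + 1) - 1 / (p + 1))) / 2 = 1 / (p + 1) by ring] at hs
  simp only [v, al, be]
  rw [← show vOf (1 / (p + 1)) (1 / (q + 1)) (y z / x z) =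
      (1 / (q + 1) * y z / (1 / (p + 1) * x z) - 1) / (1 / (q + 1) - 1 / (p + 1)) by
    simp only [vOf]; ring]
  exact hs

/-- `d u t = h - hc` off the crossing. -/
theorem slopeAt_eq_all (hc : IsCrit N p q) (h : IsOrbitFns N p q S R x y s dx dy)
    (hb : SlabBoxAll N (1 / (p + 1)) (1 / (q + 1))) {z : ℝ} (hz : z ∈ S) (hR : R z ≠ 0) :
    (1 / (q + 1) - 1 / (p + 1)) * uOf N (R z) (x z) * slopeAt N p q R x y dx dy z =
        hOf N (R z) (x z) (y z) z - Chart.hc N (1 / (p + 1)) (1 / (q + 1)) (y z / x z) ∧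
      (1 / (q + 1) - 1 / (p + 1)) * chH (1 / (q + 1) - 1 / (p + 1)) (1 / (p + 1) + 1 / (q + 1))
        (uOf N (R z) (x z)) (vOf (1 / (p + 1)) (1 / (q + 1)) (y z / x z))
        (slopeAt N p q R x y dx dy z) = hOf N (R z) (x z) (y z) z := by
  obtain ⟨e0, eH, -⟩ := chart_point_all hb (h.x_pos z hz) (h.y_pos z hz) (h.pos hz)
    (wFun_eq hc h hz) (wFun₁_eq hc h hz) (h.quad z hz)
  obtain ⟨-, -, -, hS1, -⟩ := hb.facts
  have hx := (h.x_pos z hz).ne'
  have e : (1 / (p + 1) + 1 / (q + 1)) / (1 - (1 / (p + 1) + 1 / (q + 1))) *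
      (wFun N x y dx dy z / x z ^ 2) = hOf N (R z) (x z) (y z) z := by
    have hM : N - 2 = 2 * (1 / (p + 1) + 1 / (q + 1)) / (1 - (1 / (p + 1) + 1 / (q + 1))) := by
      rw [eq_div_iff hS1]; linear_combination hb.sum
    rw [hOf, ← wFun_eq hc h hz, hM]
    generalize 1 / (p + 1) + 1 / (q + 1) = σ at hS1
    field_simp
  rw [e] at e0 eH
  exact ⟨e0, eH⟩

/-- Off the crossing a band in the chart. -/
theorem band_slope_all (hc : IsCrit N p q) (h : IsOrbitFns N p q S R x y s dx dy)
    (hb : SlabBoxAll N (1 / (p + 1)) (1 / (q + 1))) {z : ℝ} (hz : z ∈ S) (hR : 0 < R z) (T : ℝ) :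
    let d := 1 / (q + 1) - 1 / (p + 1)
    let u := uOf N (R z) (x z)
    let h₀ := Chart.hc N (1 / (p + 1)) (1 / (q + 1)) (y z / x z)
    (h₀ + d * u * T < hOf N (R z) (x z) (y z) z ↔ T < slopeAt N p q R x y dx dy z) ∧
      (hOf N (R z) (x z) (y z) z < h₀ + d * u * T ↔ slopeAt N p q R x y dx dy z < T) := by
  intro d u h₀
  have hu : 0 < u := div_pos (mul_pos (mul_pos two_pos hR) (h.x_pos z hz)) (by linarith [hb.five])
  have hdu : 0 < d * u := mul_pos (sub_pos.2 hb.lt) hu
  have e : hOf N (R z) (x z) (y z) z = h₀ + d * u * slopeAt N p q R x y dx dy z := by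
    simp only [h₀, d, u]; rw [(slopeAt_eq_all hc h hb hz hR.ne').1]; ring
  rw [e, add_lt_add_iff_left, add_lt_add_iff_left, mul_lt_mul_iff_of_pos_left hdu,
    mul_lt_mul_iff_of_pos_left hdu]
  exact ⟨Iff.rfl, Iff.rfl⟩

/-- **The trap in the chart.** -/
theorem chartFacts_orbit_all (hc : IsCrit N p q) (h : IsOrbitFns N p q S R x y s dx dy)
    (hb : SlabBoxAll N (1 / (p + 1)) (1 / (q + 1))) {z : ℝ} (hz : z ∈ S) (hR : 0 < R z) :
    All.ChartFacts (1 / (q + 1) - 1 / (p + 1)) (1 / (p + 1) + 1 / (q + 1)) (uOf N (R z) (x z))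
      (vOf (1 / (p + 1)) (1 / (q + 1)) (y z / x z)) (slopeAt N p q R x y dx dy z) := by
  obtain ⟨-, -, hden, -⟩ := chart_point_all hb (h.x_pos z hz) (h.y_pos z hz) (h.pos hz)
    (wFun_eq hc h hz) (wFun₁_eq hc h hz) (h.quad z hz)
  obtain ⟨-, eH⟩ := slopeAt_eq_all hc h hb hz hR.ne'
  obtain ⟨u0, u1, r0, r1, h0, h1, hab, hc0, hk, hdv⟩ := h.chart hb.five hb.one_le z hz hR
  obtain ⟨hal0, hbe0, -⟩ := hb.facts
  have hev := orbit_ev_pos h hb.five hb.one_le hal0 hbe0 hz hR
  obtain ⟨hal, hbe, hd, hS1, hS2, -⟩ := hb.facts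
  simp only [slopeAt] at eH ⊢
  set al := 1 / (p + 1) with hald
  set be := 1 / (q + 1) with hbed
  set u := uOf N (R z) (x z) with hud
  set r := y z / x z with hrd
  set v := vOf al be r with hvd
  set t := slopeOf al be (x z) (y z) (wFun N x y dx dy z) (wFun₁ N R x y dx dy z) with htd
  have hrv : al / be * (1 + (be - al) * v) = r := by
    simp only [hvd, vOf]; field_simp; ring
  have e1 : (al + be - (be - al)) / 2 = al := by ring
  have e2 : (al + be + (be - al)) / 2 = be := by ring
  rw [← eH] at h0 h1 hdv hev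
  set H := chH (be - al) (al + be) u v t with hHd
  have hσ : 0 < 1 - (al + be) := by linarith [hb.S_lt]
  have hS0 : 0 < al + be := by linarith
  have hM : N - 2 = 2 * (al + be) / (1 - (al + be)) := by
    rw [eq_div_iff hS1]; linear_combination hb.sum
  have eq : qv N al be u r ((be - al) * H) = chG (be - al) (al + be) u v t / 2 := by
    have hD : al + be * r - al * u * ((be - al) * H) =
        al * (2 + (be - al) * v - (be - al) * u * H) := by
      rw [← hrv]; field_simp; ring
    rw [qv, hD, chG, e2, ← hHd]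
    generalize 2 + (be - al) * v - (be - al) * u * H = X at hden
    rw [← hrv, show N = 2 / (1 - (al + be)) by rw [eq_div_iff hS1]; exact hb.sum]
    generalize hd' : be - al = D at hd ⊢
    field_simp
    subst hd'
    ring
  rw [eq] at hdv
  simp only [ev, eq, hM] at hev
  refine ⟨u0, u1, pos_of_mul_pos_right (by linarith) hd.le, h1, ?_, ?_, ?_, ?_, ?_⟩
  · simp only [Trap.c0p] at hc0
    rw [← hrv] at hc0
    refine lt_of_mul_lt_mul_left (a := al * (be - al)) ?_ (mul_pos hal hd).le
    have h2 : 0 < (be * (N + 2 * al) * (al / be * (1 + (be - al) * v)) - al * (N + 2 * be)) *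
        (1 - (al + be)) := mul_pos hc0 hσ
    rw [show be * (N + 2 * al) * (al / be * (1 + (be - al) * v)) =
      al * (N + 2 * al) * (1 + (be - al) * v) by field_simp] at h2
    linear_combination h2 + al * (be - al) * v * hb.sum
  · rw [show al + be - (be - al) = 2 * al by ring]
    have h2 : al * (1 + (be - al) * v) < be := by
      have := mul_lt_mul_of_pos_left r1 hbe
      rw [← hrv, ← mul_assoc, mul_div_cancel₀ _ hbe.ne', mul_one] at this
      exact this
    refine lt_of_mul_lt_mul_left (a := be - al) ?_ hd.le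
    linarith
  · rw [← hrv] at hk
    rw [show (N - 2) * be * (al / be * (1 + (be - al) * v)) =
      al * ((N - 2) * (1 + (be - al) * v)) by field_simp, mul_comm N al] at hk
    have h2 := mul_lt_mul_of_pos_right (lt_of_mul_lt_mul_left hk hal.le) hσ
    rw [hb.sum, hM] at h2
    field_simp at h2
    linarith
  · rw [e1, e2]
    refine lt_of_mul_lt_mul_left (a := be - al) ?_ hd.le
    have e : (N - 2) * (1 - r) =
        (be - al) * (2 * (al + be) * (1 - al * v) / ((1 - (al + be)) * be)) := by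
      rw [hM, ← hrv]
      field_simp
      ring
    rw [e] at hdv
    linarith
  · rw [← hHd]
    linear_combination hev

end

end Vale.Agent.P100.Calib.Band
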