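import Mathlib
import Vale.Agent.P100.Calib.SlabChartOrbitAll
import Vale.Agent.P100.Calib.SlabAllNumMain

/-!
# The slabs of every dimension from six on from the regions of the chart and the bands of the orbit

For given bands the conjecture in dimension `n ≥ 6` follows from three sets of signs on the chart and
three sets of bands along the orbits.
-/

set_option linter.unusedVariables false

open Set Laplacian

namespace Vale.Agent.P100.Calib.Band

open Vale.Agent.P100.Bubble Chart Closed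

/-- The bands at and below the crossing hold along the orbits. -/
def OrbitAllNeg (B : All.Bands) (n : ℕ) : Prop :=
  ∀ (N p q : ℝ) (S : Set ℝ) (R x y s dx dy : ℝ → ℝ), IsCrit N p q →
    IsOrbitFns N p q S R x y s dx dy → SlabBoxAll N (1 / (p + 1)) (1 / (q + 1)) →
    All.ChartBox n (1 / (q + 1) - 1 / (p + 1)) (1 / (p + 1) + 1 / (q + 1)) →
    ∀ z ∈ S, R z ≤ 0 → z ≤ 1 / (q + 1) / (1 / (p + 1)) →
      B.neg (1 / (q + 1) - 1 / (p + 1)) (1 / (p + 1) + 1 / (q + 1)) (uOf N (R z) (x z))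
        (vOf (1 / (p + 1)) (1 / (q + 1)) (y z / x z)) (slopeAt N p q R x y dx dy z)

/-- The bands on `0 < u ≤ 3/5` hold along the orbits. -/
def OrbitAllLow (B : All.Bands) (n : ℕ) : Prop :=
  ∀ (N p q : ℝ) (S : Set ℝ) (R x y s dx dy : ℝ → ℝ), IsCrit N p q →
    IsOrbitFns N p q S R x y s dx dy → SlabBoxAll N (1 / (p + 1)) (1 / (q + 1)) →
    All.ChartBox n (1 / (q + 1) - 1 / (p + 1)) (1 / (p + 1) + 1 / (q + 1)) →
    ∀ z ∈ S, 0 < R z → uOf N (R z) (x z) ≤ 3 / 5 →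
      let d := 1 / (q + 1) - 1 / (p + 1)
      let σ := 1 / (p + 1) + 1 / (q + 1)
      let u := uOf N (R z) (x z)
      let v := vOf (1 / (p + 1)) (1 / (q + 1)) (y z / x z)
      let t := slopeAt N p q R x y dx dy z
      v < B.phi d σ u ∧ B.lo d σ u v < t ∧ t < B.up d σ u v

/-- The bands on `3/5 < u` hold along the orbits. -/
def OrbitAllTail (B : All.Bands) (n : ℕ) : Prop :=
  ∀ (N p q : ℝ) (S : Set ℝ) (R x y s dx dy : ℝ → ℝ), IsCrit N p q →
    IsOrbitFns N p q S R x y s dx dy → SlabBoxAll N (1 / (p + 1)) (1 / (q + 1)) →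
    All.ChartBox n (1 / (q + 1) - 1 / (p + 1)) (1 / (p + 1) + 1 / (q + 1)) →
    ∀ z ∈ S, 0 < R z → 3 / 5 < uOf N (R z) (x z) →
      let d := 1 / (q + 1) - 1 / (p + 1)
      let σ := 1 / (p + 1) + 1 / (q + 1)
      let u := uOf N (R z) (x z)
      let v := vOf (1 / (p + 1)) (1 / (q + 1)) (y z / x z)
      let t := slopeAt N p q R x y dx dy z
      B.phiLo d σ u t < v ∧ v < B.phiUp d σ u t ∧ B.tailLo d σ u v < t ∧ t < B.tailUp d σ u v

/-- On the slab of dimension `n` the orbit parameters are in the box and in the chart's box. -/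
theorem box_of_slab {n : ℕ} (hn : 6 ≤ n) {p q N α β : ℝ} (hq : 0 < q) (hqp : q < p)
    (hpq : 1 < p * q) (hα : α = 2 * (p + 1) / (p * q - 1)) (hβ : β = 2 * (q + 1) / (p * q - 1))
    (hsum : α + β = N - 2) (h1 : (n : ℝ) < N) (h2 : N < (n : ℝ) + 1 / 8)
    (h3 : N - n < 2 * β ^ 2 * (α - β) ^ 2 / (N - 2) ^ 3) (h4 : α ≤ (n : ℝ) - 3) :
    SlabBoxAll N (1 / (p + 1)) (1 / (q + 1)) ∧
      All.ChartBox n (1 / (q + 1) - 1 / (p + 1)) (1 / (p + 1) + 1 / (q + 1)) := by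
  have hp : 0 < p := hq.trans hqp
  obtain ⟨eb, ea⟩ := scaling_eq hp hq hpq hα hβ (N := N) (by linarith)
  have h6 : (6 : ℝ) ≤ n := by exact_mod_cast hn
  have hw : N * (1 - (1 / (p + 1) + 1 / (q + 1))) = 2 := by linarith
  have hlt : 1 / (p + 1) < 1 / (q + 1) := one_div_lt_one_div_of_lt (by linarith) (by linarith)
  have hb : SlabBoxAll N (1 / (p + 1)) (1 / (q + 1)) := ⟨by linarith, hw, by linarith, hlt⟩
  refine ⟨hb, ⟨sub_pos.2 hlt, hb.S_low, hb.S_lt, ?_, ?_, fun hn' => ?_⟩⟩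
  · refine le_of_mul_le_mul_left (a := N) ?_ (by linarith)
    linarith
  all_goals rw [← hb.dim_eq]
  · exact h1
  · have : (n : ℝ) + 1 ≤ 20 := by exact_mod_cast hn'
    linarith

/-- **The Lane–Emden conjecture in dimension `n ≥ 6` from the regions of the chart and the bands of
the orbit.** -/
theorem lane_emden_all_of {n : ℕ} (hn : 6 ≤ n) (B : All.Bands) (sN : All.SignsNeg B n)
    (sL : All.SignsLow B n) (sT : All.SignsTail B n) (oN : OrbitAllNeg B n) (oL : OrbitAllLow B n)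
    (oT : OrbitAllTail B n) {p q : ℝ} (hp : 0 < p) (hq : 0 < q)
    (hsub : ((n : ℝ) - 2) / n < 1 / (p + 1) + 1 / (q + 1)) :
    ¬ ∃ u v : EuclideanSpace ℝ (Fin n) → ℝ,
      Continuous u ∧ Continuous v ∧ ContDiffOn ℝ 2 u {0}ᶜ ∧ ContDiffOn ℝ 2 v {0}ᶜ ∧
      (∀ x, 0 < u x) ∧ (∀ x, 0 < v x) ∧ (∀ x, x ≠ 0 → Δ u x = -(v x) ^ p) ∧
      (∀ x, x ≠ 0 → Δ v x = -(u x) ^ q) := by
  refine lane_emden_slope_of hn ?_ hp hq hsub
  intro p q N α β hq hqp hpq hc hα hβ hsum h1 h2 h3 h4 S R x y s dx dy h z hz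
  obtain ⟨hb, hcb⟩ := box_of_slab hn hq hqp hpq hα hβ hsum h1 h2 h3 h4
  have hzS : z ∈ S := h.cover hz
  refine closedSigns_of_chart_all hc h hb hzS ?_
  rcases le_or_gt (R z) 0 with hR | hR
  · have hu : uOf N (R z) (x z) ≤ 0 :=
      div_nonpos_of_nonpos_of_nonneg
        (mul_nonpos_of_nonpos_of_nonneg (mul_nonpos_of_nonneg_of_nonpos two_pos.le hR)
          (h.x_pos z hzS).le) (by linarith [hb.six])
    have hκ : z ≤ 1 / (q + 1) / (1 / (p + 1)) := by
      rw [div_div_eq_mul_div, div_one, one_div_mul_eq_div]; exact hz.2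
    exact sN _ _ _ _ _ hcb hu (oN N p q S R x y s dx dy hc h hb hcb z hzS hR hκ)
  have hf := chartFacts_orbit_all hc h hb hzS hR
  rcases le_or_gt (uOf N (R z) (x z)) (3 / 5) with hu | hu
  · obtain ⟨b1, b2, b3⟩ := oL N p q S R x y s dx dy hc h hb hcb z hzS hR hu
    exact sL _ _ _ _ _ hcb hf.u_pos hu hf b1 b2 b3
  · obtain ⟨b1, b2, b3, b4⟩ := oT N p q S R x y s dx dy hc h hb hcb z hzS hR hu
    exact sT _ _ _ _ _ hcb hu hf.u_lt hf b1 b2 b3 b4

end Vale.Agent.P100.Calib.Band
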