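import Mathlib
import Vale.Agent.P100.Calib.SlabReduction
import Vale.Agent.P100.Calib.SlabAllNum
import Vale.Agent.P100.Calib.SlabGenEnd

/-!
# The conjecture for the pairs whose smaller weight is below a bound

Calibrations are asked only on the points of the slab with `1/(p + 1) ≤ a₀`, and give nonexistence
for all subcritical pairs with `min (1/(p+1)) (1/(q+1)) ≤ a₀`.
-/

set_option linter.unusedVariables false

open Set Laplacian

namespace Vale.Agent.P100.Calib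

open Orb Bubble

variable {n : ℕ} {p q a₀ : ℝ}

/-- Calibration data exist at every point of the slab of dimension `n` with `1/(p + 1) ≤ a₀`. -/
def SlabCalibBelow (n : ℕ) (a₀ : ℝ) : Prop :=
  ∀ p q N α β : ℝ, 0 < q → q < p → 1 < p * q → IsCrit N p q →
    α = 2 * (p + 1) / (p * q - 1) → β = 2 * (q + 1) / (p * q - 1) → α + β = N - 2 →
    (n : ℝ) < N → N < (n : ℝ) + 1 / 8 →
    N - n < 2 * β ^ 2 * (α - β) ^ 2 / (N - 2) ^ 3 → α ≤ (n : ℝ) - 3 → 1 / (p + 1) ≤ a₀ →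
    ∃ (S : Set ℝ) (R x y s dx dy : ℝ → ℝ) (kap r₁ r₂ : ℝ) (k : Fin 7 → ℝ → ℝ)
      (C₀ D₀ : Fin 14 → ℝ) (L₀ : ℝ),
      IsOrbitFns N p q S R x y s dx dy ∧
        OrbitCalib n N p q kap r₁ r₂ S R x y s dx dy k C₀ D₀ L₀

/-- Nonexistence for `q ≤ p` and `1/(p + 1) ≤ a₀`. -/
theorem no_solution_ordered_below (hn : 5 ≤ n) (hS : SlabCalibBelow n a₀)
    (hq : 0 < q) (hqp : q ≤ p) (hpq : 1 < p * q) (ha₀ : 1 / (p + 1) ≤ a₀)
    (hsub : ((n : ℝ) - 2) / n < 1 / (p + 1) + 1 / (q + 1)) :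
    ¬ ∃ u v : EuclideanSpace ℝ (Fin n) → ℝ, IsSol p q u v := by
  have hp : 0 < p := hq.trans_le hqp
  have h5 : (5 : ℝ) ≤ n := by exact_mod_cast hn
  have hd : 0 < p * q - 1 := by linarith
  obtain ⟨α, hα⟩ : ∃ α, α = 2 * (p + 1) / (p * q - 1) := ⟨_, rfl⟩
  obtain ⟨β, hβ⟩ : ∃ β, β = 2 * (q + 1) / (p * q - 1) := ⟨_, rfl⟩
  have hcr := crit_of_scaling hp hq hpq
  rw [← hα, ← hβ] at hcr
  have hab : 0 < α + β + 2 := by
    rw [hα, hβ]; positivity
  have hN : (n : ℝ) - 2 < α + β := by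
    rw [hcr, div_lt_div_iff₀ (by linarith) hab] at hsub
    nlinarith
  rcases lt_or_ge ((n : ℝ) - 3) α with ha | ha
  · refine Souplet.souplet_range hn hq hqp hpq (hα ▸ ha) ?_
    rw [div_lt_iff₀ (by linarith)] at hsub
    calc ((n : ℝ) - 2) < (1 / (p + 1) + 1 / (q + 1)) * n := hsub
      _ = _ := by ring
  have hser : 2 * (p + 1) ≤ ((n : ℝ) - 2) * (p * q - 1) := by
    rw [hα, div_le_iff₀ hd] at ha
    nlinarith
  rcases le_or_gt (2 * β ^ 2 * (α - β) ^ 2 / (α + β) ^ 3) (α + β - ((n : ℝ) - 2)) with hlay | hlay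
  · refine no_solution_of_paramsN hn hp hq hpq (RealDim.hasParamsN_layer h5 hq hqp hpq hser
      (Or.inr ?_))
    subst hα hβ
    exact ⟨ha, hN, hlay⟩
  rcases le_or_gt ((n : ℝ) - 2 + 1 / 8) (α + β) with he | he
  · refine no_solution_of_paramsN hn hp hq hpq ?_
    subst hα hβ
    rcases le_total (20 * ((n : ℝ) + 2)) (9 * ((n : ℝ) - 2) * p) with hc | hc
    · exact RealDim.hasParamsN_eighth h5 hq hpq hc ha he
    · exact RealDim.hasParamsN_eighth_near h5 hq hqp hpq hc ha he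
  have hlt : q < p := by
    refine lt_of_le_of_ne hqp fun e => ?_
    have : α - β = 0 := by rw [hα, hβ, e]; ring
    rw [this] at hlay
    simp at hlay
    linarith
  have hcrit : IsCrit (α + β + 2) p q :=
    ⟨by linarith, hq, hlt, by rw [hcr, add_sub_cancel_right]⟩
  obtain ⟨S, R, x, y, s, dx, dy, kap, r₁, r₂, k, C₀, D₀, L₀, h, o⟩ :=
    hS p q (α + β + 2) α β hq hlt hpq hcrit hα hβ (by ring) (by linarith) (by linarith)
      (by rw [show α + β + 2 - (n : ℝ) = α + β - ((n : ℝ) - 2) by ring,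
        show α + β + 2 - 2 = α + β by ring]; exact hlay) ha ha₀
  exact o.no_solution hcrit h hn (by linarith)

/-- **The conjecture for `min (1/(p+1)) (1/(q+1)) ≤ a₀`** from the calibrations below `a₀`. -/
theorem lane_emden_of_slabCalib_below (hn : 5 ≤ n) (hS : SlabCalibBelow n a₀)
    (hp : 0 < p) (hq : 0 < q) (ha : min (1 / (p + 1)) (1 / (q + 1)) ≤ a₀)
    (hsub : ((n : ℝ) - 2) / n < 1 / (p + 1) + 1 / (q + 1)) :
    ¬ ∃ u v : EuclideanSpace ℝ (Fin n) → ℝ,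
      Continuous u ∧ Continuous v ∧ ContDiffOn ℝ 2 u {0}ᶜ ∧ ContDiffOn ℝ 2 v {0}ᶜ ∧
      (∀ x, 0 < u x) ∧ (∀ x, 0 < v x) ∧ (∀ x, x ≠ 0 → Δ u x = -(v x) ^ p) ∧
      (∀ x, x ≠ 0 → Δ v x = -(u x) ^ q) := by
  rintro ⟨u, v, hs⟩
  have hs' := (isSol_iff u v).2 hs
  rcases le_or_gt (p * q) 1 with hpq | hpq
  · exact no_solution_mul_le_one (by omega) hp hq hpq ⟨u, v, hs'⟩
  rcases le_total q p with hqp | hqp
  · rw [min_eq_left (one_div_le_one_div_of_le (by linarith) (by linarith))] at ha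
    exact no_solution_ordered_below hn hS hq hqp hpq ha hsub ⟨u, v, hs'⟩
  · rw [min_eq_right (one_div_le_one_div_of_le (by linarith) (by linarith))] at ha
    exact no_solution_ordered_below hn hS hp hqp (by rwa [mul_comm]) ha (by rwa [add_comm])
      ⟨v, u, hs'.swap⟩

/-- The closed signs of `genSlope` below `a₀` give the conjecture there. -/
theorem lane_emden_slope_below (hn : 6 ≤ n)
    (hS : ∀ p q N α β : ℝ, 0 < q → q < p → 1 < p * q → IsCrit N p q →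
      α = 2 * (p + 1) / (p * q - 1) → β = 2 * (q + 1) / (p * q - 1) → α + β = N - 2 →
      (n : ℝ) < N → N < (n : ℝ) + 1 / 8 →
      N - n < 2 * β ^ 2 * (α - β) ^ 2 / (N - 2) ^ 3 → α ≤ (n : ℝ) - 3 → 1 / (p + 1) ≤ a₀ →
      ∀ (S : Set ℝ) (R x y s dx dy : ℝ → ℝ), IsOrbitFns N p q S R x y s dx dy →
        ∀ z ∈ Ioc 0 ((p + 1) / (q + 1)),
          let al := 1 / (p + 1)
          let be := 1 / (q + 1)
          let v := (be * y z / (al * x z) - 1) / (be - al)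
          ClosedGen.SignsMult al (be - al) v (s z / y z)
            (wFun N x y dx dy z / ((be - al) * x z ^ 2))
            (wFun₁ N R x y dx dy z / ((be - al) * x z ^ 3)) (R z * x z)
            (allNum al (be - al) v (wFun N x y dx dy z / ((be - al) * x z ^ 2)) (R z * x z)))
    {p q : ℝ} (hp : 0 < p) (hq : 0 < q) (ha : min (1 / (p + 1)) (1 / (q + 1)) ≤ a₀)
    (hsub : ((n : ℝ) - 2) / n < 1 / (p + 1) + 1 / (q + 1)) :
    ¬ ∃ u v : EuclideanSpace ℝ (Fin n) → ℝ,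
      Continuous u ∧ Continuous v ∧ ContDiffOn ℝ 2 u {0}ᶜ ∧ ContDiffOn ℝ 2 v {0}ᶜ ∧
      (∀ x, 0 < u x) ∧ (∀ x, 0 < v x) ∧ (∀ x, x ≠ 0 → Δ u x = -(v x) ^ p) ∧
      (∀ x, x ≠ 0 → Δ v x = -(u x) ^ q) := by
  refine lane_emden_of_slabCalib_below (by omega) ?_ hp hq ha hsub
  intro p q N α β hq hqp hpq hc hα hβ hsum h1 h2 h3 h4 ha
  obtain ⟨hA, hb⟩ := genAll_adm hn hc hpq hα hβ hsum h1 h2 h4
    (-(5 / 2) * ((1 / (p + 1)) / (1 / (q + 1))) / N)
    (-(3 / 10) * ((1 / (p + 1)) / (1 / (q + 1))) ^ 2) 0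
  have h6 : (6 : ℝ) ≤ n := by exact_mod_cast hn
  obtain ⟨S, R, x, y, s, dx, dy, h⟩ := exists_orbitFns hc
  have hA' : (genSlope N p q).Adm n N p q := hA
  obtain ⟨kap, r₁, r₂, k, C₀, D₀, L₀, o⟩ := OrbitCalib.of_gen (n := n) hc h (genSlope N p q)
    hA'.kap_low hA'.kap_lt hA'.kap_high hA'.exp_one hA'.exp_drift hA'.c_pos (fun z hz => by
      have hs := hS p q N α β hq hqp hpq hc hα hβ hsum h1 h2 h3 h4 ha S R x y s dx dy h z hz
      simp only at hs
      rw [← closedNum_all hc h (h.cover hz) rfl rfl rfl] at hs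
      obtain ⟨ν, hν⟩ := genSigns_of_closed hc h (genSlope N p q) hA'.c_pos (h.cover hz) rfl rfl rfl hs
      exact block_of_genSigns hc h (genSlope N p q) (h.cover hz) hν)
    (genEnd_all hc (by linarith) hb _ _ _)
  exact ⟨S, R, x, y, s, dx, dy, kap, r₁, r₂, k, C₀, D₀, L₀, h, o⟩

end Vale.Agent.P100.Calib
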