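import Mathlib
import Vale.Agent.P100.Calib.SlabAllNum

/-!
# The numbers of the family on the strip `al > 31/100`

`genStrip` is `genAll` with slopes that follow the limit `al -> be`: with `r = al/be`, `d = be - al`
and `I = 1/N` the slope `w₁` is `-r I` times the blend of `5/2 - (43/20) r²` and of the value that
cancels the end multiplier, with weights `d` and `3 I²`; `g₁ = -(r²/10)` and `gY = 0`. The end
values, hence admission and positivity at the end point, are those of `genAll`.
-/

set_option linter.unusedVariables false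

open Set Laplacian

namespace Vale.Agent.P100.Calib

open Orb Bubble

variable {N p q : ℝ}

/-- The coefficient of the slope of the strip as a function of the weights and `N`. -/
noncomputable def stripK (a d N : ℝ) : ℝ :=
  ((5 / 2 - 43 / 20 * (a / (a + d)) ^ 2) * d -
      6 * (1 - 3 / N - 2 * a ^ 2) / N ^ 3) / (d + 3 / N ^ 2)

/-- `genAll` with the slopes of the strip. -/
noncomputable def genStrip (N p q : ℝ) : GenPar :=
  let a := 1 / (p + 1)
  let b := 1 / (q + 1)
  genAll N p q (-stripK a (b - a) N * (a / b) / N) (-(1 / 10) * (a / b) ^ 2) 0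

/-- The numbers of `genStrip` in the variables of the closed forms. -/
noncomputable def stripNum (a d v W R : ℝ) : ClosedGen.Num :=
  let N := dimAll a d
  let T := (1 - R * d * W) / (1 + d * v)
  ⟨a * (a + d), -(1 - 2 * a - 1 / (2 * N)) / N,
    (-2 * (1 - 3 / N - 2 * a ^ 2) / N * (1 + d * v) - stripK a d N * (1 - R * d * W)) / d,
    -stripK a d N * (1 - R * d * W),
    (-a * (1 - 3 * a - 1 / N) / N - 1 / 10 * (a / (a + d)) * T) / d ^ 2,
    -(1 / 10) * (a / (a + d)) * T / d ^ 2, (AllN.kapAll N a + 1) / d ^ 2⟩

/-- The numbers of `genStrip` along an orbit are `stripNum`. -/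
theorem closedNum_strip {S : Set ℝ} {R x y s dx dy : ℝ → ℝ} (hc : IsCrit N p q)
    (h : IsOrbitFns N p q S R x y s dx dy) {z : ℝ} (hz : z ∈ S) {a d v : ℝ}
    (ha : a = 1 / (p + 1)) (hd : d = 1 / (q + 1) - 1 / (p + 1))
    (hv : v = (1 / (q + 1) * y z / (a * x z) - 1) / d) :
    (genStrip N p q).closedNum N p q d v (R z) (x z) (y z) z (wFun N x y dx dy z) =
      stripNum a d v (wFun N x y dx dy z / (d * x z ^ 2)) (R z * x z) := by
  obtain ⟨hal, hlt, hw⟩ := hc.weights
  have hN : N ≠ 0 := by linarith [hc.dim]
  have hb : 1 / (q + 1) = a + d := by rw [ha, hd]; ring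
  have ha0 : 0 < a := ha ▸ hal
  have hd0 : 0 < d := by linarith
  have hM : 1 - (a + (a + d)) ≠ 0 := by
    intro e
    have : N * (1 - (a + (a + d))) = 2 := by rw [ha, hd]; linear_combination -hw
    rw [e, mul_zero] at this
    norm_num at this
  have eN : dimAll a d = N := by
    rw [dimAll, div_eq_iff hM, ha, hd]; linear_combination hw
  have hx := h.x_pos z hz
  have hy := h.y_pos z hz
  have hW := h.W_pos z hz
  rw [hb, ← ha] at hW
  rw [hb] at hv
  have hv' : v = ((a + d) * y z - a * x z) / (a * x z * d) := by rw [hv]; field_simp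
  have hQ : (1 : ℝ) + d * v ≠ 0 := by
    have : 0 < v := by rw [hv']; exact div_pos hW (by positivity)
    positivity
  have hzz : a / (a + d) * z * (1 + d * v) = 1 - R z * x z * d *
      (wFun N x y dx dy z / (d * x z ^ 2)) := by
    have hwz := wFun_eq hc h hz
    have : z * y z = x z - R z * wFun N x y dx dy z := by linarith
    rw [hv']
    field_simp
    linear_combination (a + d) * this
  have hT : a / (a + d) * z = (1 - R z * x z * d *
      (wFun N x y dx dy z / (d * x z ^ 2))) / (1 + d * v) := by rw [eq_div_iff hQ, hzz]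
  simp only [GenPar.closedNum, GenPar.numG₁, genStrip, genAll, stripNum, AllN.num, eN, ← ha, hb,
    show a + d - a = d by ring,
    ClosedGen.Num.mk.injEq, true_and, zero_mul, add_zero, sub_zero, and_true]
  generalize stripK a d N = k
  rw [← hT, ← hzz]
  refine ⟨?_, ?_, ?_, ?_⟩ <;> field_simp <;> ring

/-- `genSlope` for `al ≤ 31/100` and `genStrip` above. -/
noncomputable def genSplit (N p q : ℝ) : GenPar :=
  if 1 / (p + 1) ≤ 31 / 100 then genSlope N p q else genStrip N p q

/-- The numbers of `genSplit` in the variables of the closed forms. -/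
noncomputable def splitNum (a d v W R : ℝ) : ClosedGen.Num :=
  if a ≤ 31 / 100 then allNum a d v W R else stripNum a d v W R

end Vale.Agent.P100.Calib
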