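import Vale.Agent.P100.Calib.SlabChartAll
import Vale.Agent.P100.Calib.SlabStripNum

/-!
# The closed signs of the family of the strip in the chart

`Closed.Strip.ChartSigns` is `Closed.All.ChartSigns` with the numbers `stripNum`.
-/

set_option linter.unusedVariables false

namespace Vale.Agent.P100.Calib.Closed.Strip

/-- The signs of the family of the strip at a point of the chart, for some multiplier. -/
def ChartSigns (d S u v t : ℝ) : Prop :=
  ClosedGen.SignsMult ((S - d) / 2) d v (chG d S u v t) (chW d S u v t) (chW1 d S u v t) (chR S u)
    (stripNum ((S - d) / 2) d v (chW d S u v t) (chR S u))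

/-- The signs with the multiplier equal to the `MG` entry suffice. -/
theorem ChartSigns.of_arrow {n : ℕ} {d S u v t : ℝ} (hb : All.ChartBox n d S) (hv : 0 < v)
    (hg : 0 < chG d S u v t)
    (h : ClosedGen.Signs ((S - d) / 2) d v (chG d S u v t) (chW d S u v t) (chW1 d S u v t) (chR S u)
      (stripNum ((S - d) / 2) d v (chW d S u v t) (chR S u))) : ChartSigns d S u v t := by
  have ha : 0 < (S - d) / 2 := by linarith [hb.one, hb.S_lt]
  exact h.mult ha hb.pos hv hg (mul_pos ha (by linarith [hb.pos]))

end Vale.Agent.P100.Calib.Closed.Strip
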