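import Mathlib
import Vale.Agent.P100.Calib.SlabGenEnd
import Vale.Agent.P100.Calib.SlabStripNum

/-!
# The conjecture from the closed signs of the numbers of `SlabStripNum`
-/

set_option linter.unusedVariables false

open Set Laplacian

namespace Vale.Agent.P100.Calib

open Orb Bubble

variable {N p q : ℝ}

/-- **The conjecture in dimension `n` from the closed signs of the split family.** -/
theorem lane_emden_split_of {n : ℕ} (hn : 6 ≤ n)
    (hS : ∀ p q N α β : ℝ, 0 < q → q < p → 1 < p * q → IsCrit N p q →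
      α = 2 * (p + 1) / (p * q - 1) → β = 2 * (q + 1) / (p * q - 1) → α + β = N - 2 →
      (n : ℝ) < N → N < (n : ℝ) + 1 / 8 →
      N - n < 2 * β ^ 2 * (α - β) ^ 2 / (N - 2) ^ 3 → α ≤ (n : ℝ) - 3 →
      ∀ (S : Set ℝ) (R x y s dx dy : ℝ → ℝ), IsOrbitFns N p q S R x y s dx dy →
        ∀ z ∈ Ioc 0 ((p + 1) / (q + 1)),
          let al := 1 / (p + 1)
          let be := 1 / (q + 1)
          let v := (be * y z / (al * x z) - 1) / (be - al)
          ClosedGen.SignsMult al (be - al) v (s z / y z)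
            (wFun N x y dx dy z / ((be - al) * x z ^ 2))
            (wFun₁ N R x y dx dy z / ((be - al) * x z ^ 3)) (R z * x z)
            (splitNum al (be - al) v (wFun N x y dx dy z / ((be - al) * x z ^ 2)) (R z * x z)))
    {p q : ℝ} (hp : 0 < p) (hq : 0 < q)
    (hsub : ((n : ℝ) - 2) / n < 1 / (p + 1) + 1 / (q + 1)) :
    ¬ ∃ u v : EuclideanSpace ℝ (Fin n) → ℝ,
      Continuous u ∧ Continuous v ∧ ContDiffOn ℝ 2 u {0}ᶜ ∧ ContDiffOn ℝ 2 v {0}ᶜ ∧
      (∀ x, 0 < u x) ∧ (∀ x, 0 < v x) ∧ (∀ x, x ≠ 0 → Δ u x = -(v x) ^ p) ∧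
      (∀ x, x ≠ 0 → Δ v x = -(u x) ^ q) := by
  refine lane_emden_of_slabCalib (by omega) ?_ hp hq hsub
  refine slabCalib_of_gen genSplit fun p q N α β hq hqp hpq hc hα hβ hsum h1 h2 h3 h4 => ?_
  have h6 : (6 : ℝ) ≤ n := by exact_mod_cast hn
  unfold genSplit
  split_ifs with hal
  · obtain ⟨hA, hb⟩ := genAll_adm hn hc hpq hα hβ hsum h1 h2 h4
      (-(5 / 2) * ((1 / (p + 1)) / (1 / (q + 1))) / N)
      (-(3 / 10) * ((1 / (p + 1)) / (1 / (q + 1))) ^ 2) 0
    refine ⟨hA, genEnd_all hc (by linarith) hb _ _ _, fun S R x y s dx dy h z hz => ?_⟩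
    have hs := hS p q N α β hq hqp hpq hc hα hβ hsum h1 h2 h3 h4 S R x y s dx dy h z hz
    simp only [splitNum, if_pos hal] at hs
    rw [← closedNum_all hc h (h.cover hz) rfl rfl rfl] at hs
    exact genSigns_of_closed hc h (genSlope N p q) hA.c_pos (h.cover hz) rfl rfl rfl hs
  · obtain ⟨hA, hb⟩ := genAll_adm hn hc hpq hα hβ hsum h1 h2 h4
      (-stripK (1 / (p + 1)) (1 / (q + 1) - 1 / (p + 1)) N *
        ((1 / (p + 1)) / (1 / (q + 1))) / N)
      (-(1 / 10) * ((1 / (p + 1)) / (1 / (q + 1))) ^ 2) 0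
    refine ⟨hA, genEnd_all hc (by linarith) hb _ _ _, fun S R x y s dx dy h z hz => ?_⟩
    have hs := hS p q N α β hq hqp hpq hc hα hβ hsum h1 h2 h3 h4 S R x y s dx dy h z hz
    simp only [splitNum, if_neg hal] at hs
    rw [← closedNum_strip hc h (h.cover hz) rfl rfl rfl] at hs
    exact genSigns_of_closed hc h (genStrip N p q) hA.c_pos (h.cover hz) rfl rfl rfl hs

end Vale.Agent.P100.Calib
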