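import Mathlib
import Vale.Agent.P100.Calib.SlabChartOrbitAll
import Vale.Agent.P100.Calib.SlabStripChart
import Vale.Agent.P100.Calib.SlabStripNumMain
import Vale.Agent.P100.Calib.SlabAssemblyAll
import Vale.Agent.P100.Calib.SlabMainPair

/-!
# The slabs of every dimension from seven on from the regions of the orbits

`OrbitSignsSlope` and `OrbitSignsStrip` state the closed signs on the orbits of a dimension, for
`1/(p + 1) ≤ 31/100` and above, at the points of a region of `(R z, u)`.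
-/

set_option linter.unusedVariables false

open Set Laplacian

namespace Vale.Agent.P100.Calib.Band

open Vale.Agent.P100.Bubble Chart Closed

/-- The closed signs of `genSlope` on the orbits of dimension `n` with `1/(p + 1) ≤ 31/100`, at the
points with `Z (R z) u`. -/
def OrbitSignsSlope (n : ℕ) (Z : ℝ → ℝ → Prop) : Prop :=
  ∀ (N p q : ℝ) (S : Set ℝ) (R x y s dx dy : ℝ → ℝ), IsCrit N p q →
    IsOrbitFns N p q S R x y s dx dy → SlabBoxAll N (1 / (p + 1)) (1 / (q + 1)) →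
    All.ChartBox n (1 / (q + 1) - 1 / (p + 1)) (1 / (p + 1) + 1 / (q + 1)) →
    1 / (p + 1) ≤ 31 / 100 → ∀ z ∈ S, z ≤ 1 / (q + 1) / (1 / (p + 1)) →
      Z (R z) (uOf N (R z) (x z)) →
      All.ChartSigns (1 / (q + 1) - 1 / (p + 1)) (1 / (p + 1) + 1 / (q + 1)) (uOf N (R z) (x z))
        (vOf (1 / (p + 1)) (1 / (q + 1)) (y z / x z)) (slopeAt N p q R x y dx dy z)

/-- The closed signs of `genStrip` on the orbits of dimension `n` with `31/100 < 1/(p + 1)`, at the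
points with `Z (R z) u`. -/
def OrbitSignsStrip (n : ℕ) (Z : ℝ → ℝ → Prop) : Prop :=
  ∀ (N p q : ℝ) (S : Set ℝ) (R x y s dx dy : ℝ → ℝ), IsCrit N p q →
    IsOrbitFns N p q S R x y s dx dy → SlabBoxAll N (1 / (p + 1)) (1 / (q + 1)) →
    All.ChartBox n (1 / (q + 1) - 1 / (p + 1)) (1 / (p + 1) + 1 / (q + 1)) →
    31 / 100 < 1 / (p + 1) → ∀ z ∈ S, z ≤ 1 / (q + 1) / (1 / (p + 1)) →
      Z (R z) (uOf N (R z) (x z)) →
      Strip.ChartSigns (1 / (q + 1) - 1 / (p + 1)) (1 / (p + 1) + 1 / (q + 1)) (uOf N (R z) (x z))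
        (vOf (1 / (p + 1)) (1 / (q + 1)) (y z / x z)) (slopeAt N p q R x y dx dy z)

/-- At and below the crossing. -/
def ZoneNeg : ℝ → ℝ → Prop := fun r _ => r ≤ 0

/-- Above the crossing, up to `u = a`. -/
def ZoneUpTo (a : ℝ) : ℝ → ℝ → Prop := fun r u => 0 < r ∧ u ≤ a

/-- Above the crossing, `a ≤ u ≤ b`. -/
def ZoneBetween (a b : ℝ) : ℝ → ℝ → Prop := fun r u => 0 < r ∧ a ≤ u ∧ u ≤ b

/-- Above the crossing, from `u = a` on. -/
def ZoneFrom (a : ℝ) : ℝ → ℝ → Prop := fun r u => 0 < r ∧ a ≤ u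

/-- Above the crossing. -/
def ZonePos : ℝ → ℝ → Prop := fun r _ => 0 < r

/-- All points. -/
def ZoneAll : ℝ → ℝ → Prop := fun _ _ => True

variable {n : ℕ}

/-- A region made of two. -/
theorem OrbitSignsSlope.mono {Z Z₁ Z₂ : ℝ → ℝ → Prop} (h₁ : OrbitSignsSlope n Z₁)
    (h₂ : OrbitSignsSlope n Z₂) (h : ∀ r u, Z r u → Z₁ r u ∨ Z₂ r u) : OrbitSignsSlope n Z := by
  intro N p q S R x y s dx dy hc hf hb hcb ha z hz hκ hZ
  rcases h _ _ hZ with e | e
  · exact h₁ N p q S R x y s dx dy hc hf hb hcb ha z hz hκ e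
  · exact h₂ N p q S R x y s dx dy hc hf hb hcb ha z hz hκ e

/-- A region made of two, in the strip. -/
theorem OrbitSignsStrip.mono {Z Z₁ Z₂ : ℝ → ℝ → Prop} (h₁ : OrbitSignsStrip n Z₁)
    (h₂ : OrbitSignsStrip n Z₂) (h : ∀ r u, Z r u → Z₁ r u ∨ Z₂ r u) : OrbitSignsStrip n Z := by
  intro N p q S R x y s dx dy hc hf hb hcb ha z hz hκ hZ
  rcases h _ _ hZ with e | e
  · exact h₁ N p q S R x y s dx dy hc hf hb hcb ha z hz hκ e
  · exact h₂ N p q S R x y s dx dy hc hf hb hcb ha z hz hκ e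

section
variable {N p q : ℝ} {S : Set ℝ} {R x y s dx dy : ℝ → ℝ}

/-- The closed signs of the strip from the chart. -/
theorem closedSigns_of_chart_strip (hc : IsCrit N p q) (h : IsOrbitFns N p q S R x y s dx dy)
    (hb : SlabBoxAll N (1 / (p + 1)) (1 / (q + 1))) {z : ℝ} (hz : z ∈ S)
    (hs : Strip.ChartSigns (1 / (q + 1) - 1 / (p + 1)) (1 / (p + 1) + 1 / (q + 1))
      (uOf N (R z) (x z)) (vOf (1 / (p + 1)) (1 / (q + 1)) (y z / x z))
      (slopeAt N p q R x y dx dy z)) :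
    let al := 1 / (p + 1)
    let be := 1 / (q + 1)
    let v := (be * y z / (al * x z) - 1) / (be - al)
    ClosedGen.SignsMult al (be - al) v (s z / y z) (wFun N x y dx dy z / ((be - al) * x z ^ 2))
      (wFun₁ N R x y dx dy z / ((be - al) * x z ^ 3)) (R z * x z)
      (stripNum al (be - al) v (wFun N x y dx dy z / ((be - al) * x z ^ 2)) (R z * x z)) := by
  intro al be v
  obtain ⟨-, -, -, e1, e2, e3, e4⟩ := chart_point_all hb (h.x_pos z hz) (h.y_pos z hz) (h.pos hz)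
    (wFun_eq hc h hz) (wFun₁_eq hc h hz) (h.quad z hz)
  simp only [Strip.ChartSigns, slopeAt] at hs
  rw [e1, e2, e3, e4] at hs
  rw [show (1 / (p + 1) + 1 / (q + 1) - (1 / (q + 1) - 1 / (p + 1))) / 2 = 1 / (p + 1) by ring] at hs
  simp only [v, al, be]
  rw [← show vOf (1 / (p + 1)) (1 / (q + 1)) (y z / x z) =
      (1 / (q + 1) * y z / (1 / (p + 1) * x z) - 1) / (1 / (q + 1) - 1 / (p + 1)) by
    simp only [vOf]; ring]
  exact hs

end

/-- **The conjecture in dimension `n` from the signs on all orbit points of both families.** -/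
theorem lane_emden_of_orbit_signs (hn : 6 ≤ n) (hA : OrbitSignsSlope n ZoneAll)
    (hB : OrbitSignsStrip n ZoneAll) {p q : ℝ} (hp : 0 < p) (hq : 0 < q)
    (hsub : ((n : ℝ) - 2) / n < 1 / (p + 1) + 1 / (q + 1)) :
    ¬ ∃ u v : EuclideanSpace ℝ (Fin n) → ℝ,
      Continuous u ∧ Continuous v ∧ ContDiffOn ℝ 2 u {0}ᶜ ∧ ContDiffOn ℝ 2 v {0}ᶜ ∧
      (∀ x, 0 < u x) ∧ (∀ x, 0 < v x) ∧ (∀ x, x ≠ 0 → Δ u x = -(v x) ^ p) ∧
      (∀ x, x ≠ 0 → Δ v x = -(u x) ^ q) := by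
  refine lane_emden_split_of hn ?_ hp hq hsub
  intro p q N α β hq hqp hpq hc hα hβ hsum h1 h2 h3 h4 S R x y s dx dy h z hz
  obtain ⟨hb, hcb⟩ := box_of_slab hn hq hqp hpq hα hβ hsum h1 h2 h3 h4
  have hzS : z ∈ S := h.cover hz
  have hκ : z ≤ 1 / (q + 1) / (1 / (p + 1)) := by
    rw [div_div_eq_mul_div, div_one, one_div_mul_eq_div]; exact hz.2
  simp only [splitNum]
  split_ifs with ha
  · exact closedSigns_of_chart_all hc h hb hzS
      (hA N p q S R x y s dx dy hc h hb hcb ha z hzS hκ trivial)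
  · exact closedSigns_of_chart_strip hc h hb hzS
      (hB N p q S R x y s dx dy hc h hb hcb (lt_of_not_ge ha) z hzS hκ trivial)

/-- **The conjecture for `min (1/(p+1)) (1/(q+1)) ≤ 31/100`** from the signs of `genSlope`. -/
theorem lane_emden_below_of_orbit_signs (hn : 6 ≤ n) (hA : OrbitSignsSlope n ZoneAll)
    {p q : ℝ} (hp : 0 < p) (hq : 0 < q) (ha : min (1 / (p + 1)) (1 / (q + 1)) ≤ 31 / 100)
    (hsub : ((n : ℝ) - 2) / n < 1 / (p + 1) + 1 / (q + 1)) :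
    ¬ ∃ u v : EuclideanSpace ℝ (Fin n) → ℝ,
      Continuous u ∧ Continuous v ∧ ContDiffOn ℝ 2 u {0}ᶜ ∧ ContDiffOn ℝ 2 v {0}ᶜ ∧
      (∀ x, 0 < u x) ∧ (∀ x, 0 < v x) ∧ (∀ x, x ≠ 0 → Δ u x = -(v x) ^ p) ∧
      (∀ x, x ≠ 0 → Δ v x = -(u x) ^ q) := by
  refine lane_emden_slope_below hn ?_ hp hq ha hsub
  intro p q N α β hq hqp hpq hc hα hβ hsum h1 h2 h3 h4 ha S R x y s dx dy h z hz
  obtain ⟨hb, hcb⟩ := box_of_slab hn hq hqp hpq hα hβ hsum h1 h2 h3 h4
  have hκ : z ≤ 1 / (q + 1) / (1 / (p + 1)) := by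
    rw [div_div_eq_mul_div, div_one, one_div_mul_eq_div]; exact hz.2
  exact closedSigns_of_chart_all hc h hb (h.cover hz)
    (hA N p q S R x y s dx dy hc h hb hcb ha z (h.cover hz) hκ trivial)

end Vale.Agent.P100.Calib.Band
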