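import Vale.Agent.P100.Calib.SlabStripLeftExit

/-!
# The range of `v` and the radial speed in the middle of the strip

On orbits, for real `N >= 20` and `31/100 < a`, with `I = allStabI a b`: bounds
`c0 (2 a u) (2 I) < (v - 2 I) (1 - 2 a u) < c1 (2 a u) (2 I)` on cells of `1/10 < u <= 83/100`,
`2 allFlow <= I allDen` up to `u = 9/20`, and `allFlow` against `I allDen` up to `83/100`.
-/

open Set Filter Topology

namespace Vale.Agent.P100.Calib.Band

open Vale.Agent.P100.Bubble Chart

/-- The flow in the variables of `StripAtoms`. -/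
theorem strip_flow_eq (a b u v H : ℝ) :
    allFlow a b u v H = (stripAt a b u v).f0 * H - (stripAt a b u v).N ∧
      allDen a b u v H = (stripAt a b u v).D0 - (stripAt a b u v).ud * H := by
  simp only [stripAt, StripAtoms.f0, StripAtoms.N, StripAtoms.qn, StripAtoms.D0,
    StripAtoms.qu, StripAtoms.q, StripAtoms.ud, StripAtoms.u, allFlow, allQn, allDen]
  constructor <;> ring

/-- A lower curve of `v`. -/
theorem strip_lower_of {a b u v H : ℝ} {c : ℤ} (hP : StripPlace a b u v)
    (hfl : 0 < allFlow a b u v H) (hup : H < stripUp a b u v)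
    (h : v * (1 - 2 * a * u) ≤ stripLeftCurve a b u c → 0 ≤ (stripAt a b u v).lfLow) :
    stripLeftCurve a b u c < v * (1 - 2 * a * u) := by
  by_contra hc
  have h' := h (not_lt.1 hc)
  obtain ⟨e1, -, -⟩ := stripUp_eq (a := a) (b := b) (v := v) hP.u_lt.le
  obtain ⟨-, hW, hf0⟩ := strip_pos hP
  rw [e1, lt_div_iff₀ hW] at hup
  rw [(strip_flow_eq a b u v H).1] at hfl
  simp only [StripAtoms.lfLow] at h'
  have h1 := mul_pos hW hfl
  have h2 := mul_lt_mul_of_pos_left hup hf0
  linarith

/-- An upper curve of `v` from the left exit band. -/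
theorem strip_upper_left_of {a b u v H : ℝ} {c : ℤ} (hP : StripPlace a b u v)
    (hfl : 0 < allFlow a b u v H) (hF : 0 < stripLeft a b u v H)
    (h : stripLeftCurve a b u c ≤ v * (1 - 2 * a * u) → 0 ≤ (stripAt a b u v).lfFlow) :
    v * (1 - 2 * a * u) < stripLeftCurve a b u c := by
  by_contra hc
  have h' := h (not_lt.1 hc)
  obtain ⟨hPp, -, hf0⟩ := strip_pos hP
  have eF := stripLeft_eq a b u v H
  rw [(strip_flow_eq a b u v H).1] at hfl
  simp only [StripAtoms.lfFlow, show (stripAt a b u v).u = u by simp [stripAt, StripAtoms.u]] at h'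
  have h1 := mul_pos (mul_pos hP.u_pos hPp) hfl
  have h2 := mul_pos hf0 hF
  have h3 : (stripAt a b u v).f0 * (20 * stripLeft a b u v H) =
      (stripAt a b u v).f0 * ((stripAt a b u v).lfN -
        20 * (u * ((stripAt a b u v).P * H))) := by rw [eF]
  linarith

/-- An upper curve of `v` from `stripTop`. -/
theorem strip_upper_top_of {a b u v H : ℝ} {c : ℤ} (hP : StripPlace a b u v)
    (hfl : 0 < allFlow a b u v H) (hF : 0 ≤ stripTop a b u v H)
    (h : stripLeftCurve a b u c ≤ v * (1 - 2 * a * u) → 0 ≤ (stripAt a b u v).lfTopFlow) :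
    v * (1 - 2 * a * u) < stripLeftCurve a b u c := by
  by_contra hc
  have h' := h (not_lt.1 hc)
  obtain ⟨hPp, -, hf0⟩ := strip_pos hP
  have eF : 20 * stripTop a b u v H =
      (stripAt a b u v).upM - 20 * (stripAt a b u v).P * H := by
    simp only [stripAt, StripAtoms.P, StripAtoms.upM, StripAtoms.upG, StripAtoms.upKI,
      StripAtoms.qu, StripAtoms.q, StripAtoms.u, stripTop, stripTopG]
    ring
  rw [(strip_flow_eq a b u v H).1] at hfl
  simp only [StripAtoms.lfTopFlow] at h'
  have h1 := mul_pos hPp hfl
  have h2 := mul_nonneg hf0.le hF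
  have h3 : (stripAt a b u v).f0 * (20 * stripTop a b u v H) = (stripAt a b u v).f0 *
      ((stripAt a b u v).upM - 20 * (stripAt a b u v).P * H) := by rw [eF]
  linarith

/-- The lower curve on the cell A. -/
theorem strip_lower_A {a b u v H : ℝ} (h : StripPlace a b u v) (h0 : 1 / 10 < u)
    (h1 : u ≤ 1 / 5) (hfl : 0 < allFlow a b u v H) (hup : H < stripUp a b u v) :
    13 / 100 * (2 * a * u) * (2 * allStabI a b) < (v - 2 * allStabI a b) * (1 - 2 * a * u) := by
  have key := strip_lower_of (c := 13) h hfl hup (fun hv => ?_)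
  · simp only [stripLeftCurve] at key
    push_cast at key
    linarith
  obtain ⟨σ, θ, hσ0, hσ1, hθ0, hθ1, hC⟩ := AllLow.strip_left_below h hv
  have hk : 0 < 50 * (1 - 2 * a * u) := by linarith [AllLow.strip_left_den h]
  obtain ⟨hI0, hI20, -, -, -, -, -, -⟩ := h
  have hb : 0 ≤ (AllLow.eLf_lfLow (AllLow.eLfBelowV 13) AllLow.eLfDen).eval
      (AllLow.stabPt u σ (allStabI a b) θ) :=
    Pack.nonneg_of_checkFour AllLow.stripLeftBelowLfLowA_ok (AllLow.strip_point
      (by simp only [AllLow.stripLeftBelowLfLowABox]
          exact AllLow.strip_back (den := 10) (by norm_num) (by push_cast; linarith)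
            (by push_cast; linarith))
      (by simp only [AllLow.stripLeftBelowLfLowABox]
          exact AllLow.strip_back (den := 1) (by norm_num) (by push_cast; linarith)
            (by push_cast; linarith))
      (by simp only [AllLow.stripLeftBelowLfLowABox]
          exact AllLow.strip_back (den := 20) (by norm_num) (by push_cast; linarith)
            (by push_cast; linarith))
      (by simp only [AllLow.stripLeftBelowLfLowABox]
          exact AllLow.side_point (den := 1) (by norm_num) (by push_cast; linarith)
            (by push_cast; linarith)))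
  rw [AllLow.evalLf_lfLow hC] at hb
  exact nonneg_of_mul_nonneg_left hb (by positivity)

/-- The lower curve on the cell B. -/
theorem strip_lower_B {a b u v H : ℝ} (h : StripPlace a b u v) (h0 : 1 / 5 < u)
    (h1 : u ≤ 3 / 10) (hfl : 0 < allFlow a b u v H) (hup : H < stripUp a b u v) :
    1 / 2 * (2 * a * u) * (2 * allStabI a b) < (v - 2 * allStabI a b) * (1 - 2 * a * u) := by
  have key := strip_lower_of (c := 50) h hfl hup (fun hv => ?_)
  · simp only [stripLeftCurve] at key
    push_cast at key
    linarith
  obtain ⟨σ, θ, hσ0, hσ1, hθ0, hθ1, hC⟩ := AllLow.strip_left_below h hv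
  have hk : 0 < 50 * (1 - 2 * a * u) := by linarith [AllLow.strip_left_den h]
  obtain ⟨hI0, hI20, -, -, -, -, -, -⟩ := h
  have hb : 0 ≤ (AllLow.eLf_lfLow (AllLow.eLfBelowV 50) AllLow.eLfDen).eval
      (AllLow.stabPt u σ (allStabI a b) θ) :=
    Pack.nonneg_of_checkFour AllLow.stripLeftBelowLfLowB_ok (AllLow.strip_point
      (by simp only [AllLow.stripLeftBelowLfLowBBox]
          exact AllLow.strip_back (den := 10) (by norm_num) (by push_cast; linarith)
            (by push_cast; linarith))
      (by simp only [AllLow.stripLeftBelowLfLowBBox]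
          exact AllLow.strip_back (den := 1) (by norm_num) (by push_cast; linarith)
            (by push_cast; linarith))
      (by simp only [AllLow.stripLeftBelowLfLowBBox]
          exact AllLow.strip_back (den := 20) (by norm_num) (by push_cast; linarith)
            (by push_cast; linarith))
      (by simp only [AllLow.stripLeftBelowLfLowBBox]
          exact AllLow.side_point (den := 1) (by norm_num) (by push_cast; linarith)
            (by push_cast; linarith)))
  rw [AllLow.evalLf_lfLow hC] at hb
  exact nonneg_of_mul_nonneg_left hb (by positivity)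

/-- The lower curve on the cell C. -/
theorem strip_lower_C {a b u v H : ℝ} (h : StripPlace a b u v) (h0 : 3 / 10 < u)
    (h1 : u ≤ 14 / 25) (hfl : 0 < allFlow a b u v H) (hup : H < stripUp a b u v) :
    13 / 20 * (2 * a * u) * (2 * allStabI a b) < (v - 2 * allStabI a b) * (1 - 2 * a * u) := by
  have key := strip_lower_of (c := 65) h hfl hup (fun hv => ?_)
  · simp only [stripLeftCurve] at key
    push_cast at key
    linarith
  obtain ⟨σ, θ, hσ0, hσ1, hθ0, hθ1, hC⟩ := AllLow.strip_left_below h hv
  have hk : 0 < 50 * (1 - 2 * a * u) := by linarith [AllLow.strip_left_den h]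
  obtain ⟨hI0, hI20, -, -, -, -, -, -⟩ := h
  have hb : 0 ≤ (AllLow.eLf_lfLow (AllLow.eLfBelowV 65) AllLow.eLfDen).eval
      (AllLow.stabPt u σ (allStabI a b) θ) :=
    Pack.nonneg_of_checkFour AllLow.stripLeftBelowLfLowC_ok (AllLow.strip_point
      (by simp only [AllLow.stripLeftBelowLfLowCBox]
          exact AllLow.strip_back (den := 50) (by norm_num) (by push_cast; linarith)
            (by push_cast; linarith))
      (by simp only [AllLow.stripLeftBelowLfLowCBox]
          exact AllLow.strip_back (den := 1) (by norm_num) (by push_cast; linarith)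
            (by push_cast; linarith))
      (by simp only [AllLow.stripLeftBelowLfLowCBox]
          exact AllLow.strip_back (den := 20) (by norm_num) (by push_cast; linarith)
            (by push_cast; linarith))
      (by simp only [AllLow.stripLeftBelowLfLowCBox]
          exact AllLow.side_point (den := 1) (by norm_num) (by push_cast; linarith)
            (by push_cast; linarith)))
  rw [AllLow.evalLf_lfLow hC] at hb
  exact nonneg_of_mul_nonneg_left hb (by positivity)

/-- The lower curve on the cell D. -/
theorem strip_lower_D {a b u v H : ℝ} (h : StripPlace a b u v) (h0 : 14 / 25 < u)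
    (h1 : u ≤ 18 / 25) (hfl : 0 < allFlow a b u v H) (hup : H < stripUp a b u v) :
    53 / 100 * (2 * a * u) * (2 * allStabI a b) < (v - 2 * allStabI a b) * (1 - 2 * a * u) := by
  have key := strip_lower_of (c := 53) h hfl hup (fun hv => ?_)
  · simp only [stripLeftCurve] at key
    push_cast at key
    linarith
  obtain ⟨σ, θ, hσ0, hσ1, hθ0, hθ1, hC⟩ := AllLow.strip_left_below h hv
  have hk : 0 < 50 * (1 - 2 * a * u) := by linarith [AllLow.strip_left_den h]
  obtain ⟨hI0, hI20, -, -, -, -, -, -⟩ := h
  have hb : 0 ≤ (AllLow.eLf_lfLow (AllLow.eLfBelowV 53) AllLow.eLfDen).eval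
      (AllLow.stabPt u σ (allStabI a b) θ) :=
    Pack.nonneg_of_checkFour AllLow.stripLeftBelowLfLowD_ok (AllLow.strip_point
      (by simp only [AllLow.stripLeftBelowLfLowDBox]
          exact AllLow.strip_back (den := 25) (by norm_num) (by push_cast; linarith)
            (by push_cast; linarith))
      (by simp only [AllLow.stripLeftBelowLfLowDBox]
          exact AllLow.strip_back (den := 1) (by norm_num) (by push_cast; linarith)
            (by push_cast; linarith))
      (by simp only [AllLow.stripLeftBelowLfLowDBox]
          exact AllLow.strip_back (den := 20) (by norm_num) (by push_cast; linarith)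
            (by push_cast; linarith))
      (by simp only [AllLow.stripLeftBelowLfLowDBox]
          exact AllLow.side_point (den := 1) (by norm_num) (by push_cast; linarith)
            (by push_cast; linarith)))
  rw [AllLow.evalLf_lfLow hC] at hb
  exact nonneg_of_mul_nonneg_left hb (by positivity)

/-- The lower curve on the cell E. -/
theorem strip_lower_E {a b u v H : ℝ} (h : StripPlace a b u v) (h0 : 18 / 25 < u)
    (h1 : u ≤ 4 / 5) (hfl : 0 < allFlow a b u v H) (hup : H < stripUp a b u v) :
    39 / 100 * (2 * a * u) * (2 * allStabI a b) < (v - 2 * allStabI a b) * (1 - 2 * a * u) := by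
  have key := strip_lower_of (c := 39) h hfl hup (fun hv => ?_)
  · simp only [stripLeftCurve] at key
    push_cast at key
    linarith
  obtain ⟨σ, θ, hσ0, hσ1, hθ0, hθ1, hC⟩ := AllLow.strip_left_below h hv
  have hk : 0 < 50 * (1 - 2 * a * u) := by linarith [AllLow.strip_left_den h]
  obtain ⟨hI0, hI20, -, -, -, -, -, -⟩ := h
  have hb : 0 ≤ (AllLow.eLf_lfLow (AllLow.eLfBelowV 39) AllLow.eLfDen).eval
      (AllLow.stabPt u σ (allStabI a b) θ) :=
    Pack.nonneg_of_checkFour AllLow.stripLeftBelowLfLowE_ok (AllLow.strip_point
      (by simp only [AllLow.stripLeftBelowLfLowEBox]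
          exact AllLow.strip_back (den := 25) (by norm_num) (by push_cast; linarith)
            (by push_cast; linarith))
      (by simp only [AllLow.stripLeftBelowLfLowEBox]
          exact AllLow.strip_back (den := 1) (by norm_num) (by push_cast; linarith)
            (by push_cast; linarith))
      (by simp only [AllLow.stripLeftBelowLfLowEBox]
          exact AllLow.strip_back (den := 20) (by norm_num) (by push_cast; linarith)
            (by push_cast; linarith))
      (by simp only [AllLow.stripLeftBelowLfLowEBox]
          exact AllLow.side_point (den := 1) (by norm_num) (by push_cast; linarith)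
            (by push_cast; linarith)))
  rw [AllLow.evalLf_lfLow hC] at hb
  exact nonneg_of_mul_nonneg_left hb (by positivity)

/-- The lower curve on the cell F. -/
theorem strip_lower_F {a b u v H : ℝ} (h : StripPlace a b u v) (h0 : 4 / 5 < u)
    (h1 : u ≤ 83 / 100) (hfl : 0 < allFlow a b u v H) (hup : H < stripUp a b u v) :
    17 / 50 * (2 * a * u) * (2 * allStabI a b) < (v - 2 * allStabI a b) * (1 - 2 * a * u) := by
  have key := strip_lower_of (c := 34) h hfl hup (fun hv => ?_)
  · simp only [stripLeftCurve] at key
    push_cast at key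
    linarith
  obtain ⟨σ, θ, hσ0, hσ1, hθ0, hθ1, hC⟩ := AllLow.strip_left_below h hv
  have hk : 0 < 50 * (1 - 2 * a * u) := by linarith [AllLow.strip_left_den h]
  obtain ⟨hI0, hI20, -, -, -, -, -, -⟩ := h
  have hb : 0 ≤ (AllLow.eLf_lfLow (AllLow.eLfBelowV 34) AllLow.eLfDen).eval
      (AllLow.stabPt u σ (allStabI a b) θ) :=
    Pack.nonneg_of_checkFour AllLow.stripLeftBelowLfLowF_ok (AllLow.strip_point
      (by simp only [AllLow.stripLeftBelowLfLowFBox]
          exact AllLow.strip_back (den := 100) (by norm_num) (by push_cast; linarith)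
            (by push_cast; linarith))
      (by simp only [AllLow.stripLeftBelowLfLowFBox]
          exact AllLow.strip_back (den := 1) (by norm_num) (by push_cast; linarith)
            (by push_cast; linarith))
      (by simp only [AllLow.stripLeftBelowLfLowFBox]
          exact AllLow.strip_back (den := 20) (by norm_num) (by push_cast; linarith)
            (by push_cast; linarith))
      (by simp only [AllLow.stripLeftBelowLfLowFBox]
          exact AllLow.side_point (den := 1) (by norm_num) (by push_cast; linarith)
            (by push_cast; linarith)))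
  rw [AllLow.evalLf_lfLow hC] at hb
  exact nonneg_of_mul_nonneg_left hb (by positivity)

/-- The upper curve on the cell A. -/
theorem strip_upper_A {a b u v H : ℝ} (h : StripPlace a b u v) (h0 : 1 / 10 < u)
    (h1 : u ≤ 1 / 5) (hfl : 0 < allFlow a b u v H) (hF : 0 < stripLeft a b u v H) :
    (v - 2 * allStabI a b) * (1 - 2 * a * u) < 3 * (2 * a * u) * (2 * allStabI a b) := by
  have key := strip_upper_left_of (c := 300) h hfl hF (fun hv => ?_)
  · simp only [stripLeftCurve] at key
    push_cast at key
    linarith
  obtain ⟨σ, θ, hσ0, hσ1, hθ0, hθ1, hC⟩ := AllLow.strip_left_above h hv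
  have hk : 0 < 50 * (1 - 2 * a * u) := by linarith [AllLow.strip_left_den h]
  obtain ⟨hI0, hI20, -, -, -, -, -, -⟩ := h
  have hb : 0 ≤ (AllLow.eLf_lfFlow (AllLow.eLfAboveV 300) AllLow.eLfDen).eval
      (AllLow.stabPt u σ (allStabI a b) θ) :=
    Pack.nonneg_of_checkFour AllLow.stripLeftAboveLfFlowA_ok (AllLow.strip_point
      (by simp only [AllLow.stripLeftAboveLfFlowABox]
          exact AllLow.strip_back (den := 10) (by norm_num) (by push_cast; linarith)
            (by push_cast; linarith))
      (by simp only [AllLow.stripLeftAboveLfFlowABox]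
          exact AllLow.side_point (den := 1) (by norm_num) (by push_cast; linarith)
            (by push_cast; linarith))
      (by simp only [AllLow.stripLeftAboveLfFlowABox]
          exact AllLow.strip_back (den := 20) (by norm_num) (by push_cast; linarith)
            (by push_cast; linarith))
      (by simp only [AllLow.stripLeftAboveLfFlowABox]
          exact AllLow.side_point (den := 1) (by norm_num) (by push_cast; linarith)
            (by push_cast; linarith)))
  rw [AllLow.evalLf_lfFlow hC] at hb
  exact nonneg_of_mul_nonneg_left hb (by positivity)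

/-- The upper curve on the cell B. -/
theorem strip_upper_B {a b u v H : ℝ} (h : StripPlace a b u v) (h0 : 1 / 5 < u)
    (h1 : u ≤ 3 / 10) (hfl : 0 < allFlow a b u v H) (hF : 0 < stripLeft a b u v H) :
    (v - 2 * allStabI a b) * (1 - 2 * a * u) < 12 / 5 * (2 * a * u) * (2 * allStabI a b) := by
  have key := strip_upper_left_of (c := 240) h hfl hF (fun hv => ?_)
  · simp only [stripLeftCurve] at key
    push_cast at key
    linarith
  obtain ⟨σ, θ, hσ0, hσ1, hθ0, hθ1, hC⟩ := AllLow.strip_left_above h hv
  have hk : 0 < 50 * (1 - 2 * a * u) := by linarith [AllLow.strip_left_den h]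
  obtain ⟨hI0, hI20, -, -, -, -, -, -⟩ := h
  have hb : 0 ≤ (AllLow.eLf_lfFlow (AllLow.eLfAboveV 240) AllLow.eLfDen).eval
      (AllLow.stabPt u σ (allStabI a b) θ) :=
    Pack.nonneg_of_checkFour AllLow.stripLeftAboveLfFlowB_ok (AllLow.strip_point
      (by simp only [AllLow.stripLeftAboveLfFlowBBox]
          exact AllLow.strip_back (den := 10) (by norm_num) (by push_cast; linarith)
            (by push_cast; linarith))
      (by simp only [AllLow.stripLeftAboveLfFlowBBox]
          exact AllLow.side_point (den := 1) (by norm_num) (by push_cast; linarith)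
            (by push_cast; linarith))
      (by simp only [AllLow.stripLeftAboveLfFlowBBox]
          exact AllLow.strip_back (den := 20) (by norm_num) (by push_cast; linarith)
            (by push_cast; linarith))
      (by simp only [AllLow.stripLeftAboveLfFlowBBox]
          exact AllLow.side_point (den := 1) (by norm_num) (by push_cast; linarith)
            (by push_cast; linarith)))
  rw [AllLow.evalLf_lfFlow hC] at hb
  exact nonneg_of_mul_nonneg_left hb (by positivity)

/-- The upper curve on the cell C. -/
theorem strip_upper_C {a b u v H : ℝ} (h : StripPlace a b u v) (h0 : 3 / 10 < u)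
    (h1 : u ≤ 9 / 20) (hfl : 0 < allFlow a b u v H) (hF : 0 < stripLeft a b u v H) :
    (v - 2 * allStabI a b) * (1 - 2 * a * u) < 41 / 20 * (2 * a * u) * (2 * allStabI a b) := by
  have key := strip_upper_left_of (c := 205) h hfl hF (fun hv => ?_)
  · simp only [stripLeftCurve] at key
    push_cast at key
    linarith
  obtain ⟨σ, θ, hσ0, hσ1, hθ0, hθ1, hC⟩ := AllLow.strip_left_above h hv
  have hk : 0 < 50 * (1 - 2 * a * u) := by linarith [AllLow.strip_left_den h]
  obtain ⟨hI0, hI20, -, -, -, -, -, -⟩ := h
  have hb : 0 ≤ (AllLow.eLf_lfFlow (AllLow.eLfAboveV 205) AllLow.eLfDen).eval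
      (AllLow.stabPt u σ (allStabI a b) θ) :=
    Pack.nonneg_of_checkFour AllLow.stripLeftAboveLfFlowC_ok (AllLow.strip_point
      (by simp only [AllLow.stripLeftAboveLfFlowCBox]
          exact AllLow.strip_back (den := 20) (by norm_num) (by push_cast; linarith)
            (by push_cast; linarith))
      (by simp only [AllLow.stripLeftAboveLfFlowCBox]
          exact AllLow.side_point (den := 1) (by norm_num) (by push_cast; linarith)
            (by push_cast; linarith))
      (by simp only [AllLow.stripLeftAboveLfFlowCBox]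
          exact AllLow.strip_back (den := 20) (by norm_num) (by push_cast; linarith)
            (by push_cast; linarith))
      (by simp only [AllLow.stripLeftAboveLfFlowCBox]
          exact AllLow.side_point (den := 1) (by norm_num) (by push_cast; linarith)
            (by push_cast; linarith)))
  rw [AllLow.evalLf_lfFlow hC] at hb
  exact nonneg_of_mul_nonneg_left hb (by positivity)

/-- The upper curve on the cell D. -/
theorem strip_upper_D {a b u v H : ℝ} (h : StripPlace a b u v) (h0 : 9 / 20 < u)
    (h1 : u ≤ 14 / 25) (hfl : 0 < allFlow a b u v H) (hF : 0 ≤ stripTop a b u v H) :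
    (v - 2 * allStabI a b) * (1 - 2 * a * u) < 19 / 10 * (2 * a * u) * (2 * allStabI a b) := by
  have key := strip_upper_top_of (c := 190) h hfl hF (fun hv => ?_)
  · simp only [stripLeftCurve] at key
    push_cast at key
    linarith
  obtain ⟨σ, θ, hσ0, hσ1, hθ0, hθ1, hC⟩ := AllLow.strip_left_above h hv
  have hk : 0 < 50 * (1 - 2 * a * u) := by linarith [AllLow.strip_left_den h]
  obtain ⟨hI0, hI20, -, -, -, -, -, -⟩ := h
  have hb : 0 ≤ (AllLow.eLf_lfTopFlow (AllLow.eLfAboveV 190) AllLow.eLfDen).eval
      (AllLow.stabPt u σ (allStabI a b) θ) :=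
    Pack.nonneg_of_checkFour AllLow.stripLeftAboveLfTopFlowD_ok (AllLow.strip_point
      (by simp only [AllLow.stripLeftAboveLfTopFlowDBox]
          exact AllLow.strip_back (den := 100) (by norm_num) (by push_cast; linarith)
            (by push_cast; linarith))
      (by simp only [AllLow.stripLeftAboveLfTopFlowDBox]
          exact AllLow.side_point (den := 1) (by norm_num) (by push_cast; linarith)
            (by push_cast; linarith))
      (by simp only [AllLow.stripLeftAboveLfTopFlowDBox]
          exact AllLow.strip_back (den := 20) (by norm_num) (by push_cast; linarith)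
            (by push_cast; linarith))
      (by simp only [AllLow.stripLeftAboveLfTopFlowDBox]
          exact AllLow.side_point (den := 1) (by norm_num) (by push_cast; linarith)
            (by push_cast; linarith)))
  rw [AllLow.evalLf_lfTopFlow hC] at hb
  exact nonneg_of_mul_nonneg_left hb (by positivity)

/-- The upper curve on the cell E. -/
theorem strip_upper_E {a b u v H : ℝ} (h : StripPlace a b u v) (h0 : 14 / 25 < u)
    (h1 : u ≤ 4 / 5) (hfl : 0 < allFlow a b u v H) (hF : 0 ≤ stripTop a b u v H) :
    (v - 2 * allStabI a b) * (1 - 2 * a * u) < 7 / 4 * (2 * a * u) * (2 * allStabI a b) := by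
  have key := strip_upper_top_of (c := 175) h hfl hF (fun hv => ?_)
  · simp only [stripLeftCurve] at key
    push_cast at key
    linarith
  obtain ⟨σ, θ, hσ0, hσ1, hθ0, hθ1, hC⟩ := AllLow.strip_left_above h hv
  have hk : 0 < 50 * (1 - 2 * a * u) := by linarith [AllLow.strip_left_den h]
  obtain ⟨hI0, hI20, -, -, -, -, -, -⟩ := h
  have hb : 0 ≤ (AllLow.eLf_lfTopFlow (AllLow.eLfAboveV 175) AllLow.eLfDen).eval
      (AllLow.stabPt u σ (allStabI a b) θ) :=
    Pack.nonneg_of_checkFour AllLow.stripLeftAboveLfTopFlowE_ok (AllLow.strip_point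
      (by simp only [AllLow.stripLeftAboveLfTopFlowEBox]
          exact AllLow.strip_back (den := 25) (by norm_num) (by push_cast; linarith)
            (by push_cast; linarith))
      (by simp only [AllLow.stripLeftAboveLfTopFlowEBox]
          exact AllLow.side_point (den := 1) (by norm_num) (by push_cast; linarith)
            (by push_cast; linarith))
      (by simp only [AllLow.stripLeftAboveLfTopFlowEBox]
          exact AllLow.strip_back (den := 20) (by norm_num) (by push_cast; linarith)
            (by push_cast; linarith))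
      (by simp only [AllLow.stripLeftAboveLfTopFlowEBox]
          exact AllLow.side_point (den := 1) (by norm_num) (by push_cast; linarith)
            (by push_cast; linarith)))
  rw [AllLow.evalLf_lfTopFlow hC] at hb
  exact nonneg_of_mul_nonneg_left hb (by positivity)

/-- The upper curve on the cell F. -/
theorem strip_upper_F {a b u v H : ℝ} (h : StripPlace a b u v) (h0 : 4 / 5 < u)
    (h1 : u ≤ 83 / 100) (hfl : 0 < allFlow a b u v H) (hF : 0 ≤ stripTop a b u v H) :
    (v - 2 * allStabI a b) * (1 - 2 * a * u) < 33 / 20 * (2 * a * u) * (2 * allStabI a b) := by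
  have key := strip_upper_top_of (c := 165) h hfl hF (fun hv => ?_)
  · simp only [stripLeftCurve] at key
    push_cast at key
    linarith
  obtain ⟨σ, θ, hσ0, hσ1, hθ0, hθ1, hC⟩ := AllLow.strip_left_above h hv
  have hk : 0 < 50 * (1 - 2 * a * u) := by linarith [AllLow.strip_left_den h]
  obtain ⟨hI0, hI20, -, -, -, -, -, -⟩ := h
  have hb : 0 ≤ (AllLow.eLf_lfTopFlow (AllLow.eLfAboveV 165) AllLow.eLfDen).eval
      (AllLow.stabPt u σ (allStabI a b) θ) :=
    Pack.nonneg_of_checkFour AllLow.stripLeftAboveLfTopFlowF_ok (AllLow.strip_point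
      (by simp only [AllLow.stripLeftAboveLfTopFlowFBox]
          exact AllLow.strip_back (den := 100) (by norm_num) (by push_cast; linarith)
            (by push_cast; linarith))
      (by simp only [AllLow.stripLeftAboveLfTopFlowFBox]
          exact AllLow.side_point (den := 1) (by norm_num) (by push_cast; linarith)
            (by push_cast; linarith))
      (by simp only [AllLow.stripLeftAboveLfTopFlowFBox]
          exact AllLow.strip_back (den := 20) (by norm_num) (by push_cast; linarith)
            (by push_cast; linarith))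
      (by simp only [AllLow.stripLeftAboveLfTopFlowFBox]
          exact AllLow.side_point (den := 1) (by norm_num) (by push_cast; linarith)
            (by push_cast; linarith)))
  rw [AllLow.evalLf_lfTopFlow hC] at hb
  exact nonneg_of_mul_nonneg_left hb (by positivity)

/-- The two conditions of the radial speed. -/
theorem strip_flow_mid_conds {a b u v : ℝ} (h : StripPlace a b u v) (h0 : 3 / 4 < u)
    (h1 : u ≤ 81 / 100) (hv : v * (1 - 2 * a * u) ≤ stripLeftCurve a b u 175) :
    0 ≤ (stripAt a b u v).flMid ∨ 0 ≤ (stripAt a b u v).flMidC := by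
  obtain ⟨σ, θ, hσ0, hσ1, hθ0, hθ1, hC⟩ := AllLow.strip_left_below (p := 175) h (by simpa using hv)
  have hk : 0 < 50 * (1 - 2 * a * u) := by linarith [AllLow.strip_left_den h]
  obtain ⟨hI0, hI20, -, -, -, -, -, -⟩ := h
  rcases le_or_gt σ (2 / 5) with hs | hs
  · have hb : 0 ≤ (AllLow.eLf_flMidC (AllLow.eLfBelowV 175) AllLow.eLfDen).eval
        (AllLow.stabPt u σ (allStabI a b) θ) :=
      Pack.nonneg_of_checkFour AllLow.stripLeftBelowFlMidCM_ok (AllLow.strip_point
        (by simp only [AllLow.stripLeftBelowFlMidCMBox]
            exact AllLow.strip_back (den := 100) (by norm_num) (by push_cast; linarith)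
              (by push_cast; linarith))
        (by simp only [AllLow.stripLeftBelowFlMidCMBox]
            exact AllLow.strip_back (den := 5) (by norm_num) (by push_cast; linarith)
              (by push_cast; linarith))
        (by simp only [AllLow.stripLeftBelowFlMidCMBox]
            exact AllLow.strip_back (den := 20) (by norm_num) (by push_cast; linarith)
              (by push_cast; linarith))
        (by simp only [AllLow.stripLeftBelowFlMidCMBox]
            exact AllLow.side_point (den := 1) (by norm_num) (by push_cast; linarith)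
              (by push_cast; linarith)))
    rw [AllLow.evalLf_flMidC hC] at hb
    exact Or.inr (nonneg_of_mul_nonneg_left hb (by positivity))
  · have hb : 0 ≤ (AllLow.eLf_flMid (AllLow.eLfBelowV 175) AllLow.eLfDen).eval
        (AllLow.stabPt u σ (allStabI a b) θ) :=
      Pack.nonneg_of_checkFour AllLow.stripLeftBelowFlMidN_ok (AllLow.strip_point
        (by simp only [AllLow.stripLeftBelowFlMidNBox]
            exact AllLow.strip_back (den := 100) (by norm_num) (by push_cast; linarith)
              (by push_cast; linarith))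
        (by simp only [AllLow.stripLeftBelowFlMidNBox]
            exact AllLow.strip_back (den := 5) (by norm_num) (by push_cast; linarith)
              (by push_cast; linarith))
        (by simp only [AllLow.stripLeftBelowFlMidNBox]
            exact AllLow.strip_back (den := 20) (by norm_num) (by push_cast; linarith)
              (by push_cast; linarith))
        (by simp only [AllLow.stripLeftBelowFlMidNBox]
            exact AllLow.side_point (den := 1) (by norm_num) (by push_cast; linarith)
              (by push_cast; linarith)))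
    rw [AllLow.evalLf_flMid hC] at hb
    exact Or.inl (nonneg_of_mul_nonneg_left hb (by positivity))

/-- The two conditions of the radial speed. -/
theorem strip_flow_right_conds {a b u v : ℝ} (h : StripPlace a b u v) (h0 : 81 / 100 < u)
    (h1 : u ≤ 83 / 100) (hv : v * (1 - 2 * a * u) ≤ stripLeftCurve a b u 175) :
    0 ≤ (stripAt a b u v).flTop ∨ 0 ≤ (stripAt a b u v).flTopC := by
  obtain ⟨σ, θ, hσ0, hσ1, hθ0, hθ1, hC⟩ := AllLow.strip_left_below (p := 175) h (by simpa using hv)
  have hk : 0 < 50 * (1 - 2 * a * u) := by linarith [AllLow.strip_left_den h]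
  obtain ⟨hI0, hI20, -, -, -, -, -, -⟩ := h
  rcases le_or_gt σ (2 / 5) with hs | hs
  · have hb : 0 ≤ (AllLow.eLf_flTopC (AllLow.eLfBelowV 175) AllLow.eLfDen).eval
        (AllLow.stabPt u σ (allStabI a b) θ) :=
      Pack.nonneg_of_checkFour AllLow.stripLeftBelowFlTopCP_ok (AllLow.strip_point
        (by simp only [AllLow.stripLeftBelowFlTopCPBox]
            exact AllLow.strip_back (den := 100) (by norm_num) (by push_cast; linarith)
              (by push_cast; linarith))
        (by simp only [AllLow.stripLeftBelowFlTopCPBox]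
            exact AllLow.strip_back (den := 5) (by norm_num) (by push_cast; linarith)
              (by push_cast; linarith))
        (by simp only [AllLow.stripLeftBelowFlTopCPBox]
            exact AllLow.strip_back (den := 20) (by norm_num) (by push_cast; linarith)
              (by push_cast; linarith))
        (by simp only [AllLow.stripLeftBelowFlTopCPBox]
            exact AllLow.side_point (den := 1) (by norm_num) (by push_cast; linarith)
              (by push_cast; linarith)))
    rw [AllLow.evalLf_flTopC hC] at hb
    exact Or.inr (nonneg_of_mul_nonneg_left hb (by positivity))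
  · have hb : 0 ≤ (AllLow.eLf_flTop (AllLow.eLfBelowV 175) AllLow.eLfDen).eval
        (AllLow.stabPt u σ (allStabI a b) θ) :=
      Pack.nonneg_of_checkFour AllLow.stripLeftBelowFlTopQ_ok (AllLow.strip_point
        (by simp only [AllLow.stripLeftBelowFlTopQBox]
            exact AllLow.strip_back (den := 100) (by norm_num) (by push_cast; linarith)
              (by push_cast; linarith))
        (by simp only [AllLow.stripLeftBelowFlTopQBox]
            exact AllLow.strip_back (den := 5) (by norm_num) (by push_cast; linarith)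
              (by push_cast; linarith))
        (by simp only [AllLow.stripLeftBelowFlTopQBox]
            exact AllLow.strip_back (den := 20) (by norm_num) (by push_cast; linarith)
              (by push_cast; linarith))
        (by simp only [AllLow.stripLeftBelowFlTopQBox]
            exact AllLow.side_point (den := 1) (by norm_num) (by push_cast; linarith)
              (by push_cast; linarith)))
    rw [AllLow.evalLf_flTop hC] at hb
    exact Or.inl (nonneg_of_mul_nonneg_left hb (by positivity))

/-- The radial speed and the window left of `u = 9/20`. -/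
theorem strip_left_flow {a b u v H : ℝ} (hP : StripPlace a b u v) (hu9 : u ≤ 9 / 20)
    (hfl : 0 < allFlow a b u v H) (hup : H < stripUp a b u v) (hF : 0 < stripLeft a b u v H) :
    v < 2 * allStabI a b * (stripLeftC u + u * stripLeftHi u) ∧
      2 * allFlow a b u v H ≤ allStabI a b * allDen a b u v H := by
  obtain ⟨e1, -, -⟩ := stripUp_eq (a := a) (b := b) (v := v) hP.u_lt.le
  obtain ⟨hPp, hW, hf0⟩ := strip_pos hP
  rw [e1, lt_div_iff₀ hW] at hup
  have eF := stripLeft_eq a b u v H
  obtain ⟨ef, ed⟩ := strip_flow_eq a b u v H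
  set p := stripAt a b u v with hp
  have eu : p.u = u := by simp [hp, stripAt, StripAtoms.u]
  have hu := hP.u_pos
  have hv : v < 2 * allStabI a b * (stripLeftC u + u * stripLeftHi u) := by
    by_contra hc
    have h := AllLow.strip_left_low hP hu9 (not_lt.1 hc)
    simp only [← hp, StripAtoms.lfFlow, eu] at h
    rw [ef] at hfl
    have h1 := mul_pos (mul_pos hu hPp) hfl
    have h2 := mul_pos hf0 hF
    have h3 : p.f0 * (20 * stripLeft a b u v H) =
        p.f0 * (p.lfN - 20 * (u * (p.P * H))) := by rw [eF]
    linarith
  refine ⟨hv, ?_⟩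
  have h := AllLow.strip_left_half hP hu9 hv.le
  simp only [← hp, StripAtoms.lfHalf, show p.I = allStabI a b from rfl] at h
  have hud : 0 ≤ p.ud := by
    simp only [hp, stripAt, StripAtoms.ud, StripAtoms.u]
    exact mul_nonneg (by linarith) hP.d_pos.le
  rw [ef, ed]
  have hm : H * (180 * (p.P * p.upW)) ≤ p.lfMix := by
    have h1 := mul_le_mul_of_nonneg_left (show 20 * (u * (p.P * H)) ≤ p.lfN by linarith)
      (mul_nonneg (show (0 : ℝ) ≤ 10 by norm_num) hW.le)
    have h2 := mul_le_mul_of_nonneg_left hup.le
      (mul_nonneg (show 0 ≤ 9 - 10 * u by linarith) (show 0 ≤ 20 * p.P by positivity))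
    simp only [StripAtoms.lfMix, eu]
    linarith
  have h0 : 0 < 180 * (p.P * p.upW) := by positivity
  have := strip_flow_le (c := allStabI a b / 2) (f := p.f0) (n := p.N) (D := p.D0) (e := p.ud)
    (y := p.lfMix / (180 * (p.P * p.upW))) hf0.le hud (by linarith [hP.I_pos])
    ((le_div_iff₀ h0).2 hm) (by
      refine le_of_mul_le_mul_right (a := 2 * (180 * (p.P * p.upW))) ?_ (by positivity)
      field_simp
      linarith)
  linarith

/-- The radial speed right of `u = 3/4`. -/
theorem strip_flow_right {a b u v H : ℝ} (hP : StripPlace a b u v) (h0 : 3 / 4 < u)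
    (h1 : u ≤ 83 / 100) (hfl : 0 < allFlow a b u v H) (hup : H < stripUp a b u v)
    (hT : 0 ≤ stripTop a b u v H) :
    (u ≤ 81 / 100 → allFlow a b u v H ≤ allStabI a b * allDen a b u v H) ∧
      10 * allFlow a b u v H ≤ 11 * (allStabI a b * allDen a b u v H) := by
  have hv : v * (1 - 2 * a * u) ≤ stripLeftCurve a b u 175 := by
    simp only [stripLeftCurve]
    rcases le_or_gt u (4 / 5) with h8 | h8
    · linarith [strip_upper_E hP (by linarith) h8 hfl hT]
    · have := mul_pos hP.I_pos (mul_pos (show 0 < a by linarith [hP.a_gt]) hP.u_pos)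
      linarith [strip_upper_F hP h8 h1 hfl hT]
  obtain ⟨e1, -, -⟩ := stripUp_eq (a := a) (b := b) (v := v) hP.u_lt.le
  obtain ⟨hPp, hW, hf0⟩ := strip_pos hP
  rw [e1, lt_div_iff₀ hW] at hup
  obtain ⟨ef, ed⟩ := strip_flow_eq a b u v H
  have hden : 0 ≤ allStabI a b := hP.I_pos.le
  set p := stripAt a b u v with hp
  have hud : 0 ≤ p.ud := by
    simp only [hp, stripAt, StripAtoms.ud, StripAtoms.u]
    exact mul_nonneg (by linarith) hP.d_pos.le
  have eF : 20 * stripTop a b u v H = p.upM - 20 * p.P * H := by
    simp only [hp, stripAt, StripAtoms.P, StripAtoms.upM, StripAtoms.upG, StripAtoms.upKI,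
      StripAtoms.qu, StripAtoms.q, StripAtoms.u, stripTop, stripTopG]
    ring
  have g1 := mul_le_mul_of_nonneg_left (show 20 * p.P * H ≤ p.upM by linarith) hW.le
  have g2 := mul_le_mul_of_nonneg_left hup.le (show 0 ≤ 20 * p.P by positivity)
  have m1 : H * (100 * (p.P * p.upW)) ≤ p.flMix := by
    simp only [StripAtoms.flMix]
    linarith
  have m2 : H * (200 * (p.P * p.upW)) ≤ p.flMixC := by
    simp only [StripAtoms.flMixC]
    linarith
  rw [ef, ed]
  have ten : ∀ k > 0, ∀ m, H * k ≤ m →
      0 ≤ 11 * (allStabI a b * (p.D0 * k - p.ud * m)) - 10 * (p.f0 * m - p.N * k) →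
      10 * (p.f0 * H - p.N) ≤ 11 * (allStabI a b * (p.D0 - p.ud * H)) := by
    intro k hk m hm hc
    refine le_of_mul_le_mul_right (a := k) ?_ hk
    have e := mul_le_mul_of_nonneg_left hm
      (show 0 ≤ 10 * p.f0 + 11 * (allStabI a b * p.ud) by positivity)
    linarith
  have one : ∀ k > 0, ∀ m, H * k ≤ m →
      0 ≤ allStabI a b * (p.D0 * k - p.ud * m) - (p.f0 * m - p.N * k) →
      p.f0 * H - p.N ≤ allStabI a b * (p.D0 - p.ud * H) := by
    intro k hk m hm hc
    refine le_of_mul_le_mul_right (a := k) ?_ hk
    have e := mul_le_mul_of_nonneg_left hm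
      (show 0 ≤ p.f0 + allStabI a b * p.ud by positivity)
    linarith
  have k1 : 0 < 100 * (p.P * p.upW) := by positivity
  have k2 : 0 < 200 * (p.P * p.upW) := by positivity
  have eI : p.I = allStabI a b := rfl
  refine ⟨fun h8 => ?_, ?_⟩
  · rcases strip_flow_mid_conds hP h0 h8 hv with h | h <;>
      simp only [← hp, StripAtoms.flMid, StripAtoms.flMidC, eI] at h
    · exact one _ k1 _ m1 h
    · exact one _ k2 _ m2 h
  · rcases le_or_gt u (81 / 100) with h8 | h8
    · have hd0 : p.f0 * H - p.N ≤ allStabI a b * (p.D0 - p.ud * H) := by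
        rcases strip_flow_mid_conds hP h0 h8 hv with h | h <;>
          simp only [← hp, StripAtoms.flMid, StripAtoms.flMidC, eI] at h
        · exact one _ k1 _ m1 h
        · exact one _ k2 _ m2 h
      rw [ef] at hfl
      linarith
    · rcases strip_flow_right_conds hP h8 h1 hv with h | h <;>
        simp only [← hp, StripAtoms.flTop, StripAtoms.flTopC, eI] at h
      · exact ten _ k1 _ m1 h
      · exact ten _ k2 _ m2 h

variable {N p q : ℝ} {S : Set ℝ} {R x y s dx dy : ℝ → ℝ}

/-- **The range of `v` in the middle of the strip** for real `N ≥ 20` and `31/100 < 1/(p+1)`: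
`c0 (2 a u) (2 I) < (v - 2 I) (1 - 2 a u)`. -/
theorem orbit_strip_lower (hf : IsOrbitFns N p q S R x y s dx dy)
    (hb : SlabBoxAll N (1 / (p + 1)) (1 / (q + 1))) (h20 : 20 ≤ N) (ha : 31 / 100 < 1 / (p + 1))
    {w : ℝ} (hw : w ∈ S) (hw0 : 0 < R w) :
    let a := 1 / (p + 1)
    let b := 1 / (q + 1)
    let u := uOf N (R w) (x w)
    let v := vOf a b (y w / x w)
    let k := (2 * a * u) * (2 * allStabI a b)
    let z := (v - 2 * allStabI a b) * (1 - 2 * a * u)
    (1 / 10 < u → u ≤ 1 / 5 → 13 / 100 * k < z) ∧ (1 / 5 < u → u ≤ 3 / 10 → 1 / 2 * k < z) ∧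
      (3 / 10 < u → u ≤ 14 / 25 → 13 / 20 * k < z) ∧
      (14 / 25 < u → u ≤ 18 / 25 → 53 / 100 * k < z) ∧
      (18 / 25 < u → u ≤ 4 / 5 → 39 / 100 * k < z) ∧
      (4 / 5 < u → u ≤ 83 / 100 → 17 / 50 * k < z) := by
  intro a b u v k z
  have hP := (orbit_point_all hf hb hw hw0).1
  have hS := stripPlace_of hb h20 ha hP.u_pos hP.u_lt hP.toVRange
  have hfl := hP.flow_pos
  have hup := fun h => orbit_strip_up_all hf hb h20 ha hw hw0 h
  simp only [k, z, ← mul_assoc]
  exact ⟨fun g0 g1 => by linarith [strip_lower_A hS g0 g1 hfl (hup (g1.trans (by norm_num)))],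
    fun g0 g1 => by linarith [strip_lower_B hS g0 g1 hfl (hup (g1.trans (by norm_num)))],
    fun g0 g1 => by linarith [strip_lower_C hS g0 g1 hfl (hup (g1.trans (by norm_num)))],
    fun g0 g1 => by linarith [strip_lower_D hS g0 g1 hfl (hup (g1.trans (by norm_num)))],
    fun g0 g1 => by linarith [strip_lower_E hS g0 g1 hfl (hup (g1.trans (by norm_num)))],
    fun g0 g1 => by linarith [strip_lower_F hS g0 g1 hfl (hup (g1.trans (by norm_num)))]⟩

/-- **The range of `v` in the middle of the strip** for real `N ≥ 20` and `31/100 < 1/(p+1)`: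
`(v - 2 I) (1 - 2 a u) < c1 (2 a u) (2 I)`. -/
theorem orbit_strip_upper (hf : IsOrbitFns N p q S R x y s dx dy)
    (hb : SlabBoxAll N (1 / (p + 1)) (1 / (q + 1))) (h20 : 20 ≤ N) (ha : 31 / 100 < 1 / (p + 1))
    {w : ℝ} (hw : w ∈ S) (hw0 : 0 < R w) :
    let a := 1 / (p + 1)
    let b := 1 / (q + 1)
    let u := uOf N (R w) (x w)
    let v := vOf a b (y w / x w)
    let k := (2 * a * u) * (2 * allStabI a b)
    let z := (v - 2 * allStabI a b) * (1 - 2 * a * u)
    (1 / 10 < u → u ≤ 1 / 5 → z < 3 * k) ∧ (1 / 5 < u → u ≤ 3 / 10 → z < 12 / 5 * k) ∧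
      (3 / 10 < u → u ≤ 9 / 20 → z < 41 / 20 * k) ∧
      (9 / 20 < u → u ≤ 14 / 25 → z < 19 / 10 * k) ∧
      (14 / 25 < u → u ≤ 4 / 5 → z < 7 / 4 * k) ∧
      (4 / 5 < u → u ≤ 83 / 100 → z < 33 / 20 * k) := by
  intro a b u v k z
  have hP := (orbit_point_all hf hb hw hw0).1
  have hS := stripPlace_of hb h20 ha hP.u_pos hP.u_lt hP.toVRange
  have hfl := hP.flow_pos
  have hl := fun h => orbit_strip_left hf hb h20 ha hw hw0 h
  have ht := fun h => orbit_strip_top_all hf hb h20 ha hw hw0 h
  simp only [k, z, ← mul_assoc]
  exact ⟨fun g0 g1 => by linarith [strip_upper_A hS g0 g1 hfl (hl (g1.trans (by norm_num)))],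
    fun g0 g1 => by linarith [strip_upper_B hS g0 g1 hfl (hl (g1.trans (by norm_num)))],
    fun g0 g1 => by linarith [strip_upper_C hS g0 g1 hfl (hl (g1.trans (by norm_num)))],
    fun g0 g1 => by linarith [strip_upper_D hS g0 g1 hfl (ht g0.le)],
    fun g0 g1 => by linarith [strip_upper_E hS g0 g1 hfl (ht (le_trans (by norm_num) g0.le))],
    fun g0 g1 => by linarith [strip_upper_F hS g0 g1 hfl (ht (le_trans (by norm_num) g0.le))]⟩

/-- **The radial speed in the strip up to `u = 83/100`** for real `N ≥ 20` and
`31/100 < 1/(p+1)`. -/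
theorem orbit_strip_speed (hf : IsOrbitFns N p q S R x y s dx dy)
    (hb : SlabBoxAll N (1 / (p + 1)) (1 / (q + 1))) (h20 : 20 ≤ N) (ha : 31 / 100 < 1 / (p + 1))
    {w : ℝ} (hw : w ∈ S) (hw0 : 0 < R w) :
    let a := 1 / (p + 1)
    let b := 1 / (q + 1)
    let u := uOf N (R w) (x w)
    let v := vOf a b (y w / x w)
    let H := hOf N (R w) (x w) (y w) w / (b - a)
    let e := allStabI a b * allDen a b u v H
    (u ≤ 9 / 20 → 2 * allFlow a b u v H ≤ e ∧
        v < 2 * allStabI a b * (stripLeftC u + u * stripLeftHi u)) ∧
      (u ≤ 81 / 100 → allFlow a b u v H ≤ e) ∧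
      (u ≤ 83 / 100 → 10 * allFlow a b u v H ≤ 11 * e) := by
  intro a b u v H e
  have hP := (orbit_point_all hf hb hw hw0).1
  have hS := stripPlace_of hb h20 ha hP.u_pos hP.u_lt hP.toVRange
  have he : 0 ≤ e := mul_nonneg hS.I_pos.le hP.den_pos.le
  have hfl := hP.flow_pos
  have hup := fun h => orbit_strip_up_all hf hb h20 ha hw hw0 h
  have hl : u ≤ 9 / 20 → v < 2 * allStabI a b * (stripLeftC u + u * stripLeftHi u) ∧
      2 * allFlow a b u v H ≤ e := fun h => strip_left_flow hS h hfl
    (hup (h.trans (by norm_num))) (orbit_strip_left hf hb h20 ha hw hw0 h)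
  refine ⟨fun h => ⟨(hl h).2, (hl h).1⟩, fun h => ?_, fun h => ?_⟩
  · rcases le_or_gt u (9 / 20) with h4 | h4
    · linarith [(hl h4).2]
    rcases le_or_gt u (3 / 4) with h7 | h7
    · exact (orbit_strip_flow hf hb h20 ha hw hw0 h4.le).2 h7
    · exact (strip_flow_right hS h7 (h.trans (by norm_num)) hfl (hup (h.trans (by norm_num)))
        (orbit_strip_top_all hf hb h20 ha hw hw0 h4.le)).1 h
  · rcases le_or_gt u (9 / 20) with h4 | h4
    · linarith [(hl h4).2]
    rcases le_or_gt u (3 / 4) with h7 | h7
    · have h2 := (orbit_strip_flow hf hb h20 ha hw hw0 h4.le).2 h7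
      simp only [e] at he ⊢
      linarith
    · exact (strip_flow_right hS h7 h hfl (hup (h.trans (by norm_num)))
        (orbit_strip_top_all hf hb h20 ha hw hw0 h4.le)).2

end Vale.Agent.P100.Calib.Band
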