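import Vale.Agent.P100.Calib.SlabStripSevLeftExit

/-!
# The upper end of the velocity window of the strip for `N` between seven and twenty

On orbits `v < 2 I (C + u s)` up to `u = 67/100`, `s` the upper end of the window of the left exit
band; so `v <= 2 I * 13/10` up to `u = 1/10`.
-/

namespace Vale.Agent.P100.Calib.Band

open Vale.Agent.P100.Bubble Chart

/-- Where the flow is positive and the band function too, `v` is left of the window's upper end. -/
theorem strip_sev_left_v {a b u v H : ℝ} (hP : SevPlace a b u v) (hu9 : u ≤ 67 / 100)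
    (hfl : 0 < allFlow a b u v H) (hF : 0 < stripSevLeft a b u v H) :
    v < 2 * allStabI a b * (stripSevLeftC u + u * stripSevLeftHi u) := by
  by_contra hc
  have h := AllLow.strip_sev_left_low hP hu9 (not_lt.1 hc)
  obtain ⟨hPp, -, hf0⟩ := strip_sev_pos hP
  have eF := stripSevLeft_eq a b u v H
  have hu := hP.u_pos
  obtain ⟨p, hp⟩ : ∃ p, p = stripAt a b u v := ⟨_, rfl⟩
  have eflow : allFlow a b u v H = p.f0 * H - p.N := by
    simp only [hp, stripAt, StripAtoms.f0, StripAtoms.N, StripAtoms.qn, StripAtoms.D0,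
      StripAtoms.qu, StripAtoms.q, StripAtoms.ud, StripAtoms.u, allFlow, allQn, allDen]
    ring
  rw [← hp] at eF hPp hf0 h
  simp only [StripAtoms.slFlow, show p.u = u by simp [hp, stripAt, StripAtoms.u]] at h
  rw [eflow] at hfl
  have h1 := mul_pos (show 0 < 20 * (u * p.P) by positivity) hfl
  have h2 := mul_lt_mul_of_pos_left (show 20 * (u * (p.P * H)) < p.slN by linarith) hf0
  linarith

variable {N p q : ℝ} {S : Set ℝ} {R x y s dx dy : ℝ → ℝ}

/-- **The upper end of the window on orbits** for real `N ∈ [7, 20)` and `31/100 < 1/(p+1)`. -/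
theorem orbit_strip_sev_window (hf : IsOrbitFns N p q S R x y s dx dy)
    (hb : SlabBoxAll N (1 / (p + 1)) (1 / (q + 1))) (h7 : 7 ≤ N) (h20 : N < 20)
    (ha : 31 / 100 < 1 / (p + 1)) {w : ℝ} (hw : w ∈ S) (hw0 : 0 < R w)
    (hwu : uOf N (R w) (x w) ≤ 67 / 100) :
    vOf (1 / (p + 1)) (1 / (q + 1)) (y w / x w) <
      2 * allStabI (1 / (p + 1)) (1 / (q + 1)) * (stripSevLeftC (uOf N (R w) (x w)) +
        uOf N (R w) (x w) * stripSevLeftHi (uOf N (R w) (x w))) := by
  have hP := (orbit_point_all hf hb hw hw0).1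
  exact strip_sev_left_v (sevPlace_of hb h7 h20 ha hP.u_pos hP.u_lt hP.toVRange) hwu hP.flow_pos
    (orbit_strip_sev_left hf hb h7 h20 ha hw hw0 hwu)

/-- **An upper bound of `v` up to `u = 1/10`** for real `N ∈ [7, 20)` and `31/100 < 1/(p+1)`. -/
theorem orbit_strip_sev_speed (hf : IsOrbitFns N p q S R x y s dx dy)
    (hb : SlabBoxAll N (1 / (p + 1)) (1 / (q + 1))) (h7 : 7 ≤ N) (h20 : N < 20)
    (ha : 31 / 100 < 1 / (p + 1)) {w : ℝ} (hw : w ∈ S) (hw0 : 0 < R w)
    (hwu : uOf N (R w) (x w) ≤ 1 / 10) :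
    vOf (1 / (p + 1)) (1 / (q + 1)) (y w / x w) <
      2 * allStabI (1 / (p + 1)) (1 / (q + 1)) * (13 / 10) := by
  have hP := (orbit_point_all hf hb hw hw0).1
  have hPl := sevPlace_of hb h7 h20 ha hP.u_pos hP.u_lt hP.toVRange
  refine lt_of_lt_of_le
    (orbit_strip_sev_window hf hb h7 h20 ha hw hw0 (by linarith)) ?_
  refine mul_le_mul_of_nonneg_left ?_ (by linarith [hPl.I_gt])
  have hu := hP.u_pos
  generalize uOf N (R w) (x w) = u at *
  have h2 : u * u ≤ 1 / 100 := by
    have := mul_le_mul hwu hwu hu.le (by norm_num)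
    linarith
  have h3 := mul_le_mul hwu h2 (mul_self_nonneg u) (by norm_num)
  have h4 := mul_le_mul_of_nonneg_left (show 81 + 165 * (u * (u * u)) ≤ 82 by linarith) hu.le
  simp only [stripSevLeftC, stripSevLeftHi]
  linarith

end Vale.Agent.P100.Calib.Band
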