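import Vale.Agent.P100.Calib.SlabStripFirstSigns
import Vale.Agent.P100.Calib.SlabMainOrbit
import Vale.Agent.P100.Calib.SlabStripRange
import Vale.Agent.P100.Calib.SlabStripSevWindow

/-!
# The closed signs along orbits of the strip on `0 < u ≤ 1/10`, every dimension from seven on
-/

set_option linter.unusedVariables false

open Set Filter Topology

namespace Vale.Agent.P100.Calib.Band

open Vale.Agent.P100.Bubble Chart Closed

variable {N p q : ℝ} {S : Set ℝ} {R x y s dx dy : ℝ → ℝ}

/-- The speed on the first stretch of the strip, real `N ≥ 7`. -/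
theorem orbit_strip_first_speed (hf : IsOrbitFns N p q S R x y s dx dy)
    (hb : SlabBoxAll N (1 / (p + 1)) (1 / (q + 1))) (h7 : 7 ≤ N) (ha : 31 / 100 < 1 / (p + 1))
    {w : ℝ} (hw : w ∈ S) (hw0 : 0 < R w) (hwu : uOf N (R w) (x w) ≤ 1 / 10) :
    vOf (1 / (p + 1)) (1 / (q + 1)) (y w / x w) <
      2 * allStabI (1 / (p + 1)) (1 / (q + 1)) * (13 / 10) := by
  rcases le_or_gt 20 N with h20 | h20
  · have h := ((orbit_strip_speed hf hb h20 ha hw hw0).1 (by linarith)).2
    have hP := (orbit_point_all hf hb hw hw0).1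
    have hu := hP.u_pos
    obtain ⟨ha0, hb0, -⟩ := hb.facts
    have hI : 0 < allStabI (1 / (p + 1)) (1 / (q + 1)) := by
      have := hb.S_lt
      simp only [allStabI]; linarith
    refine h.trans_le (mul_le_mul_of_nonneg_left ?_ (by linarith))
    generalize uOf N (R w) (x w) = u at hwu hu ⊢
    have h2 : u * u ≤ 1 / 100 := by
      have := mul_le_mul hwu hwu hu.le (by norm_num)
      linarith
    have h3 : u * u * u ≤ 1 / 1000 := by
      have := mul_le_mul h2 hwu hu.le (by norm_num)
      linarith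
    simp only [stripLeftC, stripLeftHi]
    linarith
  · exact orbit_strip_sev_speed hf hb h7 h20 ha hw hw0 hwu

/-- **The closed signs of the strip on `0 < u ≤ 1/10`** in every dimension from seven on. -/
theorem orbit_signs_strip_first {n : ℕ} (hn : 7 ≤ n) :
    OrbitSignsStrip n (ZoneUpTo (1 / 10)) := by
  intro N p q S R x y s dx dy hc hf hb hcb ha z hz hκ hZ
  obtain ⟨hR, hu⟩ := hZ
  have h7 : 7 ≤ N := by
    have h := hcb.dim_low
    rw [← hb.dim_eq] at h
    have : (7 : ℝ) ≤ n := by exact_mod_cast hn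
    linarith
  obtain ⟨-, eH⟩ := slopeAt_eq_all hc hf hb hz hR.ne'
  obtain ⟨-, -, hd, -⟩ := hb.facts
  have e1 : (1 / (p + 1) + 1 / (q + 1) - (1 / (q + 1) - 1 / (p + 1))) / 2 = 1 / (p + 1) := by ring
  have e2 : (1 / (p + 1) + 1 / (q + 1) + (1 / (q + 1) - 1 / (p + 1))) / 2 = 1 / (q + 1) := by ring
  have eq : chH (1 / (q + 1) - 1 / (p + 1)) (1 / (p + 1) + 1 / (q + 1)) (uOf N (R z) (x z))
      (vOf (1 / (p + 1)) (1 / (q + 1)) (y z / x z)) (slopeAt N p q R x y dx dy z) =
      hOf N (R z) (x z) (y z) z / (1 / (q + 1) - 1 / (p + 1)) := by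
    rw [eq_div_iff hd.ne', mul_comm]
    exact eH
  have hI : 0 < allStabI (1 / (p + 1)) (1 / (q + 1)) := by
    have := hb.S_lt
    simp only [allStabI]; linarith
  have hv := orbit_strip_first_speed hf hb h7 ha hz hR hu
  obtain ⟨hl, hr⟩ := orbit_strip_tight hf hb h7 ha
    (fun w hw hw0 hwu => (orbit_strip_first_speed hf hb h7 ha hw hw0 hwu).le.trans
      (by linarith)) hz hR hu
  refine StripMid.signs_first_strip hn hcb (by rw [e1]; exact ha)
    (chartFacts_orbit_all hc hf hb hz hR) hu ?_ ?_ ?_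
  · simp only [allStabI] at hv hI
    linarith
  · rw [e1, e2, eq]; exact hl.le
  · rw [e1, e2, eq]; exact hr.le

end Vale.Agent.P100.Calib.Band
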