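import Vale.Agent.P100.Calib.SlabStripNegBand
import Vale.Agent.P100.Calib.SlabStripRange
import Vale.Agent.P100.Calib.SlabStripSevWindow

/-!
# The conditions at and below the crossing on orbits of the strip

The speed bounds on `u > 0` give `v ≤ 2 I C` at the crossing, with `C = 11/10` from `N = 20` on
and `C = 23/20` below, so for `31/100 < al` the conditions `stripNeg` hold on every orbit at and
below the crossing, for every `N ≥ 7`.
-/

set_option linter.unusedVariables false

open Set Filter Topology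

namespace Vale.Agent.P100.Calib.Band

open Vale.Agent.P100.Bubble Chart

variable {N p q : ℝ} {S : Set ℝ} {R x y s dx dy : ℝ → ℝ}

/-- The conditions in the chart. -/
def stripNeg (d S u v t : ℝ) : Prop :=
  (stripNegP ((S - d) / 2) ((S + d) / 2)).Holds d S u v t

/-- A bound of `v` by a curve in `u` on `0 < u ≤ 1/10` passes to the crossing. -/
theorem crossing_le {a b : ℝ} (hf : IsOrbitFns N p q S R x y s dx dy) (f : ℝ → ℝ)
    (hcont : Continuous f)
    (h : ∀ w ∈ S, 0 < R w → uOf N (R w) (x w) ≤ 1 / 10 →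
      vOf a b (y w / x w) < f (uOf N (R w) (x w)))
    {z₀ : ℝ} (hz₀ : z₀ ∈ S) (hR₀ : R z₀ = 0) : vOf a b (y z₀ / x z₀) ≤ f 0 := by
  have cR := hf.smooth.1.continuousOn.continuousAt (hf.isOpen.mem_nhds hz₀)
  have cx := hf.smooth.2.1.continuousOn.continuousAt (hf.isOpen.mem_nhds hz₀)
  have cy := hf.smooth.2.2.1.continuousOn.continuousAt (hf.isOpen.mem_nhds hz₀)
  have tu : Tendsto (fun z => uOf N (R z) (x z)) (𝓝[<] z₀) (𝓝 0) := by
    have hc : ContinuousAt (fun z => uOf N (R z) (x z)) z₀ := by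
      simp only [uOf]
      exact ((cR.const_mul 2).mul cx).div_const _
    have := hc.tendsto.mono_left (nhdsWithin_le_nhds (s := Iio z₀))
    simpa [uOf, hR₀] using this
  have tv : Tendsto (fun z => vOf a b (y z / x z)) (𝓝[<] z₀) (𝓝 (vOf a b (y z₀ / x z₀))) := by
    have hc : ContinuousAt (fun z => vOf a b (y z / x z)) z₀ := by
      simp only [vOf]
      exact (((cy.div cx (hf.x_pos z₀ hz₀).ne').const_mul (b / a)).sub
        continuousAt_const).div_const _
    exact hc.tendsto.mono_left (nhdsWithin_le_nhds (s := Iio z₀))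
  refine le_of_tendsto_of_tendsto tv ((hcont.tendsto 0).comp tu) ?_
  filter_upwards [mem_nhdsWithin_of_mem_nhds (hf.isOpen.mem_nhds hz₀), self_mem_nhdsWithin,
    tu.eventually (Iio_mem_nhds (show (0 : ℝ) < 1 / 10 by norm_num))] with z hz hlt hu
  exact (h z hz (hR₀ ▸ hf.anti hz hz₀ hlt) hu.le).le

/-- At the crossing `v` is below the upper end. -/
theorem stripNeg_high (hf : IsOrbitFns N p q S R x y s dx dy)
    (hb : SlabBoxAll N (1 / (p + 1)) (1 / (q + 1))) (h7 : 7 ≤ N) (ha : 31 / 100 < 1 / (p + 1))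
    {z₀ : ℝ} (hz₀ : z₀ ∈ S) (hR₀ : R z₀ = 0) :
    vOf (1 / (p + 1)) (1 / (q + 1)) (y z₀ / x z₀) <
      (stripNegP (1 / (p + 1)) (1 / (q + 1))).V₁ := by
  obtain ⟨hI, -⟩ := StripNeg.box_facts hb h7
  simp only [stripNegP]
  set I := allStabI (1 / (p + 1)) (1 / (q + 1)) with hId
  rcases le_or_gt 20 N with h20 | h20
  · refine lt_of_le_of_lt (crossing_le hf (fun u => 2 * I * (stripLeftC u + u * stripLeftHi u))
      (by simp only [stripLeftC, stripLeftHi]; fun_prop) (fun w hw hw0 hwu => ?_) hz₀ hR₀) ?_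
    · exact ((orbit_strip_speed hf hb h20 ha hw hw0).1 (by linarith)).2
    · refine mul_lt_mul_of_pos_left ?_ (by linarith)
      simp only [stripLeftC, stripLeftHi]
      linarith
  · have hIN : N * I = 1 := by
      rw [hId, allStabI, mul_div_assoc', hb.sum]; norm_num
    have h' : N * I < 20 * I := mul_lt_mul_of_pos_right h20 hI
    refine lt_of_le_of_lt (crossing_le hf
      (fun u => 2 * I * (stripSevLeftC u + u * stripSevLeftHi u))
      (by simp only [stripSevLeftC, stripSevLeftHi]; fun_prop) (fun w hw hw0 hwu => ?_) hz₀ hR₀) ?_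
    · exact orbit_strip_sev_window hf hb h7 h20 ha hw hw0 (by linarith)
    · refine mul_lt_mul_of_pos_left ?_ (by linarith)
      simp only [stripSevLeftC, stripSevLeftHi]
      linarith

/-- **The conditions in the chart at and below the crossing** in the strip, every real `N ≥ 7`. -/
theorem orbit_stripNeg (hc : IsCrit N p q) (hf : IsOrbitFns N p q S R x y s dx dy)
    (hb : SlabBoxAll N (1 / (p + 1)) (1 / (q + 1))) (h7 : 7 ≤ N) (ha : 31 / 100 < 1 / (p + 1))
    {z : ℝ} (hz : z ∈ S) (hR : R z ≤ 0) (hκ : z ≤ 1 / (q + 1) / (1 / (p + 1))) :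
    stripNeg (1 / (q + 1) - 1 / (p + 1)) (1 / (p + 1) + 1 / (q + 1)) (uOf N (R z) (x z))
      (vOf (1 / (p + 1)) (1 / (q + 1)) (y z / x z)) (slopeAt N p q R x y dx dy z) := by
  have := NegPar.orbit_holds hc hf hb (StripNeg.cert hb h7 ha)
    (fun z₀ h₀ h₁ => stripNeg_high hf hb h7 ha h₀ h₁) hz hR hκ
  simp only [stripNeg,
    show (1 / (p + 1) + 1 / (q + 1) - (1 / (q + 1) - 1 / (p + 1))) / 2 = 1 / (p + 1) by ring,
    show (1 / (p + 1) + 1 / (q + 1) + (1 / (q + 1) - 1 / (p + 1))) / 2 = 1 / (q + 1) by ring]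
  exact this

end Vale.Agent.P100.Calib.Band
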