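import Mathlib
import Vale.Agent.P100.Pack.FastFour
import Vale.Agent.P100.Calib.BoxPos

/-!
# Nonnegativity of expressions with rational constants

An expression in four variables with rational constants becomes an integer expression over a
natural denominator, to which the nonnegativity test applies.
-/

namespace Vale.Agent.P100.Calib.BoxPos

/-- `D` over the common divisor of `A` and `B`. -/
def coFac (D A B : ℕ) : ℤ := ((D / Nat.gcd A B : ℕ) : ℤ)

/-- Numerator and denominator. -/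
def Ex.split : Ex → Pack.Ex × ℕ
  | .cst n d => (.num n, d)
  | .x₀ => (.var 0, 1)
  | .x₁ => (.var 1, 1)
  | .x₂ => (.var 2, 1)
  | .x₃ => (.var 3, 1)
  | .add e f => ((((e.split).1).mul (.num (coFac (f.split).2 (e.split).2 (f.split).2))).add
      (((f.split).1).mul (.num (coFac (e.split).2 (e.split).2 (f.split).2))),
      (e.split).2 * ((f.split).2 / Nat.gcd (e.split).2 (f.split).2))
  | .sub e f => ((((e.split).1).mul (.num (coFac (f.split).2 (e.split).2 (f.split).2))).sub
      (((f.split).1).mul (.num (coFac (e.split).2 (e.split).2 (f.split).2))),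
      (e.split).2 * ((f.split).2 / Nat.gcd (e.split).2 (f.split).2))
  | .mul e f => (((e.split).1).mul (f.split).1, (e.split).2 * (f.split).2)

theorem common_den {D E : ℕ} :
    ((D * (E / Nat.gcd D E) : ℕ) : ℝ) = (E : ℝ) * ((D / Nat.gcd D E : ℕ) : ℝ) := by
  rw [← Nat.cast_mul]
  congr 1
  rw [← Nat.mul_div_assoc _ (Nat.gcd_dvd_right D E), ← Nat.mul_div_assoc _ (Nat.gcd_dvd_left D E),
    mul_comm]

theorem Ex.eval_split (x : ℕ → ℝ) : ∀ e : Ex, e.ok = true →
    0 < (e.split).2 ∧ (e.split).1.eval x = e.val (x 0) (x 1) (x 2) (x 3) * ((e.split).2 : ℝ)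
  | .cst n d, h => by
    have hd : 0 < d := by simpa [Ex.ok] using h
    refine ⟨hd, ?_⟩
    simp only [Ex.split, Pack.Ex.eval, Ex.val]
    rw [div_mul_cancel₀ _ (by exact_mod_cast hd.ne')]
  | .x₀, _ => by simp [Ex.split, Pack.Ex.eval, Ex.val]
  | .x₁, _ => by simp [Ex.split, Pack.Ex.eval, Ex.val]
  | .x₂, _ => by simp [Ex.split, Pack.Ex.eval, Ex.val]
  | .x₃, _ => by simp [Ex.split, Pack.Ex.eval, Ex.val]
  | .add e f, h => by
    simp only [Ex.ok, Bool.and_eq_true] at h
    obtain ⟨p1, e1⟩ := eval_split x e h.1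
    obtain ⟨p2, e2⟩ := eval_split x f h.2
    refine ⟨Nat.mul_pos p1 (Nat.div_pos (Nat.le_of_dvd p2 (Nat.gcd_dvd_right _ _))
      (Nat.gcd_pos_of_pos_left _ p1)), ?_⟩
    have k := common_den (D := (e.split).2) (E := (f.split).2)
    simp only [Ex.split, Pack.Ex.eval, Ex.val, e1, e2]
    simp only [coFac, Int.cast_natCast, Nat.cast_mul] at k ⊢
    linear_combination (- f.val (x 0) (x 1) (x 2) (x 3)) * k
  | .sub e f, h => by
    simp only [Ex.ok, Bool.and_eq_true] at h
    obtain ⟨p1, e1⟩ := eval_split x e h.1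
    obtain ⟨p2, e2⟩ := eval_split x f h.2
    refine ⟨Nat.mul_pos p1 (Nat.div_pos (Nat.le_of_dvd p2 (Nat.gcd_dvd_right _ _))
      (Nat.gcd_pos_of_pos_left _ p1)), ?_⟩
    have k := common_den (D := (e.split).2) (E := (f.split).2)
    simp only [Ex.split, Pack.Ex.eval, Ex.val, e1, e2]
    simp only [coFac, Int.cast_natCast, Nat.cast_mul] at k ⊢
    linear_combination f.val (x 0) (x 1) (x 2) (x 3) * k
  | .mul e f, h => by
    simp only [Ex.ok, Bool.and_eq_true] at h
    obtain ⟨p1, e1⟩ := eval_split x e h.1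
    obtain ⟨p2, e2⟩ := eval_split x f h.2
    refine ⟨Nat.mul_pos p1 p2, ?_⟩
    simp only [Ex.split, Pack.Ex.eval, Ex.val, e1, e2]
    push_cast
    ring

/-- The nonnegativity test. -/
noncomputable def Ex.checkNonneg (e : Ex) (C : ℕ → Pack.Chart) (K : ℕ) (n : Vec) : Bool :=
  e.ok && Pack.checkFour C K n.c₀ n.c₁ n.c₂ n.c₃ (e.split).1

/-- A test that passes gives nonnegativity on the charts. -/
theorem Ex.nonneg_of_checkNonneg {e : Ex} {C : ℕ → Pack.Chart} {K : ℕ} {n : Vec}
    (h : e.checkNonneg C K n = true) {x : ℕ → ℝ}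
    (hx : ∀ i < 4, ∃ t : ℝ, 0 ≤ t ∧ 0 < ((C i).c : ℝ) + (C i).d * t ∧
      ((C i).a : ℝ) + (C i).b * t = x i * (((C i).c : ℝ) + (C i).d * t)) :
    0 ≤ e.val (x 0) (x 1) (x 2) (x 3) := by
  simp only [Ex.checkNonneg, Bool.and_eq_true] at h
  obtain ⟨hd, he⟩ := e.eval_split x h.1
  have h1 := Pack.nonneg_of_checkFour h.2 hx
  rw [he] at h1
  exact nonneg_of_mul_nonneg_left h1 (by exact_mod_cast hd)

end Vale.Agent.P100.Calib.BoxPos
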