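import Vale.Agent.P100.Pack.Shift
import Vale.Agent.P100.Calib.SlabAllPack

/-!
# Nonnegativity of expressions with rational constants and long packed integers
-/

namespace Vale.Agent.P100.Calib.BoxPos

/-- `Ex.checkNonneg` without large powers. -/
noncomputable def Ex.checkShifted (e : Ex) (C : ℕ → Pack.Chart) (K : ℕ) (n : Vec) : Bool :=
  e.ok && Pack.checkShift C K n.c₀ n.c₁ n.c₂ n.c₃ (e.split).1

theorem Ex.checkNonneg_of_shifted {e : Ex} {C : ℕ → Pack.Chart} {K : ℕ} {n : Vec}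
    (h : e.checkShifted C K n = true) : e.checkNonneg C K n = true := by
  rwa [Ex.checkNonneg, ← Pack.checkShift_eq]

/-- A test that passes gives nonnegativity on the charts. -/
theorem Ex.nonneg_of_checkShifted {e : Ex} {C : ℕ → Pack.Chart} {K : ℕ} {n : Vec}
    (h : e.checkShifted C K n = true) {x : ℕ → ℝ}
    (hx : ∀ i < 4, ∃ t : ℝ, 0 ≤ t ∧ 0 < ((C i).c : ℝ) + (C i).d * t ∧
      ((C i).a : ℝ) + (C i).b * t = x i * (((C i).c : ℝ) + (C i).d * t)) :
    0 ≤ e.val (x 0) (x 1) (x 2) (x 3) :=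
  Ex.nonneg_of_checkNonneg (Ex.checkNonneg_of_shifted h) hx

end Vale.Agent.P100.Calib.BoxPos
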