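import Vale.Agent.P100.Calib.SlabStripNegReal
import Vale.Agent.P100.Calib.SlabPackShift

/-!
# The charts of the strip below the crossing
-/

set_option linter.unusedSimpArgs false

namespace Vale.Agent.P100.Calib.Closed.Strip.SgnNeg

open BoxPos All.SgnNeg

local instance chartAdd : Add Ex := ⟨Ex.add⟩
local instance chartSub : Sub Ex := ⟨Ex.sub⟩
local instance chartMul : Mul Ex := ⟨Ex.mul⟩

/-- A point of a box. -/
def InBox (C : ℕ → Pack.Chart) (y : ℕ → ℝ) : Prop :=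
  ∀ i < 4, ∃ t : ℝ, 0 ≤ t ∧ 0 < ((C i).c : ℝ) + (C i).d * t ∧
    ((C i).a : ℝ) + (C i).b * t = y i * (((C i).c : ℝ) + (C i).d * t)

/-- `x = (U, X, I, a)` has the coordinates `y = (W, w, I, θ)`. -/
structure InChart (y x : ℕ → ℝ) : Prop where
  e₀ : x 0 = x 1 * y 0
  e₁ : x 1 = 1 - 3 * y 2 + y 1 * (1 / 8 + 5 * y 2)
  e₂ : x 2 = y 2
  e₃ : x 3 = 1 / 2 * (1 - 2 * y 2 - y 3 * (19 / 50 - 2 * y 2))

/-- A checked expression is nonnegative at the points of the chart. -/
theorem nonneg_inChart {e : Ex} {C : ℕ → Pack.Chart} {K : ℕ} {n : Vec}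
    (h : (inChart e).checkShifted C K n = true) {x y : ℕ → ℝ} (hy : InBox C y)
    (hx : InChart y x) : 0 ≤ ev x e := by
  have h1 : 0 ≤ ev y (inChart e) := Ex.nonneg_of_checkShifted h hy
  obtain ⟨e0, e1, e2, e3⟩ := hx
  simp only [inChart, ev_subst] at h1
  simp only [eXs, eDs, ev_add, ev_sub, ev_mul, ev_nC, ev_x₀, ev_x₁, ev_x₂, ev_x₃] at h1
  norm_num at h1
  simp only [ev, e0, e1, e2, e3]
  convert h1 using 2 <;> ring

/-- A coordinate falling from `a/c` to `b/e`. -/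
theorem chart_fall {y : ℝ} {A B C E : ℤ} (hC : 0 < C) (hE : 0 < E) (h₁ : (B : ℝ) < y * E)
    (h₂ : y * C ≤ A) :
    ∃ t : ℝ, 0 ≤ t ∧ 0 < (C : ℝ) + E * t ∧ (A : ℝ) + B * t = y * ((C : ℝ) + E * t) := by
  have hC' : (0 : ℝ) < C := by exact_mod_cast hC
  have hE' : (0 : ℝ) < E := by exact_mod_cast hE
  have h3 : 0 ≤ ((A : ℝ) - y * C) / (y * E - B) := div_nonneg (by linarith) (by linarith)
  refine ⟨(A - y * C) / (y * E - B), h3, by positivity, ?_⟩
  field_simp [(by linarith : y * E - B ≠ 0)]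
  ring

/-- A coordinate rising from `a/c` to `b/e`. -/
theorem chart_rise {y : ℝ} {A B C E : ℤ} (hC : 0 < C) (hE : 0 < E) (h₁ : (A : ℝ) ≤ y * C)
    (h₂ : y * E < B) :
    ∃ t : ℝ, 0 ≤ t ∧ 0 < (C : ℝ) + E * t ∧ (A : ℝ) + B * t = y * ((C : ℝ) + E * t) := by
  have hC' : (0 : ℝ) < C := by exact_mod_cast hC
  have hE' : (0 : ℝ) < E := by exact_mod_cast hE
  have h3 : 0 ≤ (y * C - (A : ℝ)) / (B - y * E) := div_nonneg (by linarith) (by linarith)
  refine ⟨(y * C - A) / (B - y * E), h3, by positivity, ?_⟩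
  field_simp [(by linarith : (B : ℝ) - y * E ≠ 0)]
  ring

/-- The upper part of piece C. -/
theorem inBox_C₁ {y : ℕ → ℝ} (hy : InBox boxC y) (h : 9 / 20 ≤ y 0) : InBox boxC₁ y := by
  intro i hi
  interval_cases i
  · obtain ⟨t, ht, hp, e⟩ := hy 0 (by norm_num)
    simp only [boxC] at hp e
    push_cast at hp e
    refine chart_rise (A := 9) (B := 3) (C := 20) (E := 4) (by norm_num) (by norm_num) ?_ ?_
    · push_cast; linarith
    · push_cast; nlinarith
  · exact hy 1 (by norm_num)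
  · exact hy 2 (by norm_num)
  · exact hy 3 (by norm_num)

/-- The lower part of piece C. -/
theorem inBox_C₀ {y : ℕ → ℝ} (hy : InBox boxC y) (h : y 0 < 9 / 20) : InBox boxC₀ y := by
  intro i hi
  interval_cases i
  · obtain ⟨t, ht, hp, e⟩ := hy 0 (by norm_num)
    simp only [boxC] at hp e
    push_cast at hp e
    refine chart_rise (A := 0) (B := 9) (C := 1) (E := 20) (by norm_num) (by norm_num) ?_ ?_
    · push_cast; nlinarith
    · push_cast; linarith
  · exact hy 1 (by norm_num)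
  · exact hy 2 (by norm_num)
  · exact hy 3 (by norm_num)

end Vale.Agent.P100.Calib.Closed.Strip.SgnNeg
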