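import Vale.Agent.P100.Calib.SlabStripNegExpr
import Vale.Agent.P100.Calib.SlabPackShift

/-!
# Checks below the crossing in the strip, piece A
-/

set_option linter.defProp false

namespace Vale.Agent.P100.Calib.Closed.Strip.SgnNeg

open BoxPos All.SgnNeg

def gyA00000 :
    Ex.checkShifted (inChart (Strip.SgnNeg.cGY 11 false (spE false) (sgE false) (soE false) (szE szA false))) boxA 307 ⟨3, 8, 39, 14⟩ = true := by decide +kernel

def gyA00001 :
    Ex.checkShifted (inChart (Strip.SgnNeg.cGY 11 false (spE false) (sgE false) (soE false) (szE szA true))) boxA 307 ⟨3, 8, 39, 14⟩ = true := by decide +kernel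

def gyA00010 :
    Ex.checkShifted (inChart (Strip.SgnNeg.cGY 11 false (spE false) (sgE false) (soE true) (szE szA false))) boxA 307 ⟨3, 8, 39, 14⟩ = true := by decide +kernel

def gyA00011 :
    Ex.checkShifted (inChart (Strip.SgnNeg.cGY 11 false (spE false) (sgE false) (soE true) (szE szA true))) boxA 307 ⟨3, 8, 39, 14⟩ = true := by decide +kernel

def gyA00100 :
    Ex.checkShifted (inChart (Strip.SgnNeg.cGY 11 false (spE false) (sgE true) (soE false) (szE szA false))) boxA 307 ⟨3, 8, 39, 14⟩ = true := by decide +kernel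

def gyA00101 :
    Ex.checkShifted (inChart (Strip.SgnNeg.cGY 11 false (spE false) (sgE true) (soE false) (szE szA true))) boxA 307 ⟨3, 8, 39, 14⟩ = true := by decide +kernel

def gyA00110 :
    Ex.checkShifted (inChart (Strip.SgnNeg.cGY 11 false (spE false) (sgE true) (soE true) (szE szA false))) boxA 307 ⟨3, 8, 39, 14⟩ = true := by decide +kernel

def gyA00111 :
    Ex.checkShifted (inChart (Strip.SgnNeg.cGY 11 false (spE false) (sgE true) (soE true) (szE szA true))) boxA 307 ⟨3, 8, 39, 14⟩ = true := by decide +kernel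

def gyA01000 :
    Ex.checkShifted (inChart (Strip.SgnNeg.cGY 11 false (spE true) (sgE false) (soE false) (szE szA false))) boxA 307 ⟨3, 8, 39, 14⟩ = true := by decide +kernel

def gyA01001 :
    Ex.checkShifted (inChart (Strip.SgnNeg.cGY 11 false (spE true) (sgE false) (soE false) (szE szA true))) boxA 307 ⟨3, 8, 39, 14⟩ = true := by decide +kernel

def gyA01010 :
    Ex.checkShifted (inChart (Strip.SgnNeg.cGY 11 false (spE true) (sgE false) (soE true) (szE szA false))) boxA 307 ⟨3, 8, 39, 14⟩ = true := by decide +kernel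

def gyA01011 :
    Ex.checkShifted (inChart (Strip.SgnNeg.cGY 11 false (spE true) (sgE false) (soE true) (szE szA true))) boxA 307 ⟨3, 8, 39, 14⟩ = true := by decide +kernel

def gyA01100 :
    Ex.checkShifted (inChart (Strip.SgnNeg.cGY 11 false (spE true) (sgE true) (soE false) (szE szA false))) boxA 307 ⟨3, 8, 39, 14⟩ = true := by decide +kernel

def gyA01101 :
    Ex.checkShifted (inChart (Strip.SgnNeg.cGY 11 false (spE true) (sgE true) (soE false) (szE szA true))) boxA 307 ⟨3, 8, 39, 14⟩ = true := by decide +kernel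

def gyA01110 :
    Ex.checkShifted (inChart (Strip.SgnNeg.cGY 11 false (spE true) (sgE true) (soE true) (szE szA false))) boxA 307 ⟨3, 8, 39, 14⟩ = true := by decide +kernel

def gyA01111 :
    Ex.checkShifted (inChart (Strip.SgnNeg.cGY 11 false (spE true) (sgE true) (soE true) (szE szA true))) boxA 307 ⟨3, 8, 39, 14⟩ = true := by decide +kernel

def gyA10000 :
    Ex.checkShifted (inChart (Strip.SgnNeg.cGY 11 true (spE false) (sgE false) (soE false) (szE szA false))) boxA 307 ⟨3, 8, 39, 14⟩ = true := by decide +kernel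

def gyA10001 :
    Ex.checkShifted (inChart (Strip.SgnNeg.cGY 11 true (spE false) (sgE false) (soE false) (szE szA true))) boxA 307 ⟨3, 8, 39, 14⟩ = true := by decide +kernel

def gyA10010 :
    Ex.checkShifted (inChart (Strip.SgnNeg.cGY 11 true (spE false) (sgE false) (soE true) (szE szA false))) boxA 307 ⟨3, 8, 39, 14⟩ = true := by decide +kernel

def gyA10011 :
    Ex.checkShifted (inChart (Strip.SgnNeg.cGY 11 true (spE false) (sgE false) (soE true) (szE szA true))) boxA 307 ⟨3, 8, 39, 14⟩ = true := by decide +kernel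

def gyA10100 :
    Ex.checkShifted (inChart (Strip.SgnNeg.cGY 11 true (spE false) (sgE true) (soE false) (szE szA false))) boxA 307 ⟨3, 8, 39, 14⟩ = true := by decide +kernel

def gyA10101 :
    Ex.checkShifted (inChart (Strip.SgnNeg.cGY 11 true (spE false) (sgE true) (soE false) (szE szA true))) boxA 307 ⟨3, 8, 39, 14⟩ = true := by decide +kernel

def gyA10110 :
    Ex.checkShifted (inChart (Strip.SgnNeg.cGY 11 true (spE false) (sgE true) (soE true) (szE szA false))) boxA 307 ⟨3, 8, 39, 14⟩ = true := by decide +kernel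

def gyA10111 :
    Ex.checkShifted (inChart (Strip.SgnNeg.cGY 11 true (spE false) (sgE true) (soE true) (szE szA true))) boxA 307 ⟨3, 8, 39, 14⟩ = true := by decide +kernel

def gyA11000 :
    Ex.checkShifted (inChart (Strip.SgnNeg.cGY 11 true (spE true) (sgE false) (soE false) (szE szA false))) boxA 307 ⟨3, 8, 39, 14⟩ = true := by decide +kernel

def gyA11001 :
    Ex.checkShifted (inChart (Strip.SgnNeg.cGY 11 true (spE true) (sgE false) (soE false) (szE szA true))) boxA 307 ⟨3, 8, 39, 14⟩ = true := by decide +kernel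

def gyA11010 :
    Ex.checkShifted (inChart (Strip.SgnNeg.cGY 11 true (spE true) (sgE false) (soE true) (szE szA false))) boxA 307 ⟨3, 8, 39, 14⟩ = true := by decide +kernel

def gyA11011 :
    Ex.checkShifted (inChart (Strip.SgnNeg.cGY 11 true (spE true) (sgE false) (soE true) (szE szA true))) boxA 307 ⟨3, 8, 39, 14⟩ = true := by decide +kernel

def gyA11100 :
    Ex.checkShifted (inChart (Strip.SgnNeg.cGY 11 true (spE true) (sgE true) (soE false) (szE szA false))) boxA 307 ⟨3, 8, 39, 14⟩ = true := by decide +kernel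

def gyA11101 :
    Ex.checkShifted (inChart (Strip.SgnNeg.cGY 11 true (spE true) (sgE true) (soE false) (szE szA true))) boxA 307 ⟨3, 8, 39, 14⟩ = true := by decide +kernel

def gyA11110 :
    Ex.checkShifted (inChart (Strip.SgnNeg.cGY 11 true (spE true) (sgE true) (soE true) (szE szA false))) boxA 307 ⟨3, 8, 39, 14⟩ = true := by decide +kernel

def gyA11111 :
    Ex.checkShifted (inChart (Strip.SgnNeg.cGY 11 true (spE true) (sgE true) (soE true) (szE szA true))) boxA 307 ⟨3, 8, 39, 14⟩ = true := by decide +kernel

end Vale.Agent.P100.Calib.Closed.Strip.SgnNeg
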