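import Vale.Agent.P100.Calib.SlabStripNegExpr
import Vale.Agent.P100.Calib.SlabPackShift

/-!
# Checks below the crossing in the strip, piece A
-/

set_option linter.defProp false

namespace Vale.Agent.P100.Calib.Closed.Strip.SgnNeg

open BoxPos All.SgnNeg

def azA0000 :
    Ex.checkShifted (inChart (cLm 11 szA (spE false) (sgE false) (soE false) false)) boxA 334 ⟨2, 7, 39, 18⟩ = true := by decide +kernel

def azA0001 :
    Ex.checkShifted (inChart (cLm 11 szA (spE false) (sgE false) (soE true) false)) boxA 334 ⟨2, 7, 39, 18⟩ = true := by decide +kernel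

def azA0010 :
    Ex.checkShifted (inChart (cLm 11 szA (spE false) (sgE true) (soE false) false)) boxA 334 ⟨2, 7, 39, 18⟩ = true := by decide +kernel

def azA0011 :
    Ex.checkShifted (inChart (cLm 11 szA (spE false) (sgE true) (soE true) false)) boxA 334 ⟨2, 7, 39, 18⟩ = true := by decide +kernel

def azA0100 :
    Ex.checkShifted (inChart (cLm 11 szA (spE true) (sgE false) (soE false) false)) boxA 334 ⟨2, 7, 39, 18⟩ = true := by decide +kernel

def azA0101 :
    Ex.checkShifted (inChart (cLm 11 szA (spE true) (sgE false) (soE true) false)) boxA 334 ⟨2, 7, 39, 18⟩ = true := by decide +kernel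

def azA0110 :
    Ex.checkShifted (inChart (cLm 11 szA (spE true) (sgE true) (soE false) false)) boxA 334 ⟨2, 7, 39, 18⟩ = true := by decide +kernel

def azA0111 :
    Ex.checkShifted (inChart (cLm 11 szA (spE true) (sgE true) (soE true) false)) boxA 334 ⟨2, 7, 39, 18⟩ = true := by decide +kernel

def azA1000 :
    Ex.checkShifted (inChart (cLm 11 szA (spE false) (sgE false) (soE false) true)) boxA 334 ⟨2, 7, 39, 18⟩ = true := by decide +kernel

def azA1001 :
    Ex.checkShifted (inChart (cLm 11 szA (spE false) (sgE false) (soE true) true)) boxA 334 ⟨2, 7, 39, 18⟩ = true := by decide +kernel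

def azA1010 :
    Ex.checkShifted (inChart (cLm 11 szA (spE false) (sgE true) (soE false) true)) boxA 334 ⟨2, 7, 39, 18⟩ = true := by decide +kernel

def azA1011 :
    Ex.checkShifted (inChart (cLm 11 szA (spE false) (sgE true) (soE true) true)) boxA 334 ⟨2, 7, 39, 18⟩ = true := by decide +kernel

def azA1100 :
    Ex.checkShifted (inChart (cLm 11 szA (spE true) (sgE false) (soE false) true)) boxA 334 ⟨2, 7, 39, 18⟩ = true := by decide +kernel

def azA1101 :
    Ex.checkShifted (inChart (cLm 11 szA (spE true) (sgE false) (soE true) true)) boxA 334 ⟨2, 7, 39, 18⟩ = true := by decide +kernel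

def azA1110 :
    Ex.checkShifted (inChart (cLm 11 szA (spE true) (sgE true) (soE false) true)) boxA 334 ⟨2, 7, 39, 18⟩ = true := by decide +kernel

def azA1111 :
    Ex.checkShifted (inChart (cLm 11 szA (spE true) (sgE true) (soE true) true)) boxA 334 ⟨2, 7, 39, 18⟩ = true := by decide +kernel

end Vale.Agent.P100.Calib.Closed.Strip.SgnNeg
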