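import Vale.Agent.P100.Calib.SlabStripNegExpr
import Vale.Agent.P100.Calib.SlabPackShift

/-!
# Checks below the crossing in the strip, piece A
-/

set_option linter.defProp false

namespace Vale.Agent.P100.Calib.Closed.Strip.SgnNeg

open BoxPos All.SgnNeg

def lgA000 :
    Ex.checkShifted (inChart (sLG (soE false) (soE false) (szE szA false))) boxA 222 ⟨2, 6, 27, 11⟩ = true := by decide +kernel

def lgA001 :
    Ex.checkShifted (inChart (sLG (soE false) (soE false) (szE szA true))) boxA 223 ⟨2, 6, 27, 11⟩ = true := by decide +kernel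

def lgA010 :
    Ex.checkShifted (inChart (sLG (soE false) (soE true) (szE szA false))) boxA 222 ⟨2, 6, 27, 11⟩ = true := by decide +kernel

def lgA011 :
    Ex.checkShifted (inChart (sLG (soE false) (soE true) (szE szA true))) boxA 223 ⟨2, 6, 27, 11⟩ = true := by decide +kernel

def lgA100 :
    Ex.checkShifted (inChart (sLG (soE true) (soE false) (szE szA false))) boxA 222 ⟨2, 6, 27, 11⟩ = true := by decide +kernel

def lgA101 :
    Ex.checkShifted (inChart (sLG (soE true) (soE false) (szE szA true))) boxA 223 ⟨2, 6, 27, 11⟩ = true := by decide +kernel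

def lgA110 :
    Ex.checkShifted (inChart (sLG (soE true) (soE true) (szE szA false))) boxA 222 ⟨2, 6, 27, 11⟩ = true := by decide +kernel

def lgA111 :
    Ex.checkShifted (inChart (sLG (soE true) (soE true) (szE szA true))) boxA 223 ⟨2, 6, 27, 11⟩ = true := by decide +kernel

def dgyA0 :
    Ex.checkShifted (inChart (Strip.SgnNeg.dGY 11 false)) boxA 201 ⟨0, 5, 26, 10⟩ = true := by decide +kernel

def dlA0 :
    Ex.checkShifted (inChart (Strip.SgnNeg.dL 11 false)) boxA 261 ⟨0, 5, 31, 15⟩ = true := by decide +kernel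

def dgyA1 :
    Ex.checkShifted (inChart (Strip.SgnNeg.dGY 11 true)) boxA 201 ⟨0, 5, 26, 10⟩ = true := by decide +kernel

def dlA1 :
    Ex.checkShifted (inChart (Strip.SgnNeg.dL 11 true)) boxA 261 ⟨0, 5, 31, 15⟩ = true := by decide +kernel

def dGGA :
    Ex.checkShifted (inChart (Strip.SgnNeg.dGG)) boxA 112 ⟨0, 5, 18, 3⟩ = true := by decide +kernel

def dGZA :
    Ex.checkShifted (inChart (dGZ)) boxA 218 ⟨0, 7, 28, 11⟩ = true := by decide +kernel

def dTEA :
    Ex.checkShifted (inChart (Strip.SgnNeg.dTE)) boxA 124 ⟨0, 4, 18, 5⟩ = true := by decide +kernel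

def dTZA :
    Ex.checkShifted (inChart (dTZ)) boxA 261 ⟨0, 6, 31, 15⟩ = true := by decide +kernel

def dNEA :
    Ex.checkShifted (inChart (Strip.SgnNeg.dNE)) boxA 119 ⟨0, 4, 17, 5⟩ = true := by decide +kernel

def dNZA :
    Ex.checkShifted (inChart (dNZ)) boxA 256 ⟨0, 6, 30, 15⟩ = true := by decide +kernel

def dNPA :
    Ex.checkShifted (inChart (Strip.SgnNeg.dNP)) boxA 242 ⟨0, 5, 29, 14⟩ = true := by decide +kernel

def dTWA :
    Ex.checkShifted (inChart (dTW)) boxA 57 ⟨0, 2, 7, 2⟩ = true := by decide +kernel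

def dNWA :
    Ex.checkShifted (inChart (dNW)) boxA 54 ⟨0, 2, 6, 2⟩ = true := by decide +kernel

def dXWA :
    Ex.checkShifted (inChart (dXW)) boxA 31 ⟨0, 1, 4, 1⟩ = true := by decide +kernel

def envPLA :
    Ex.checkShifted (inChart (Strip.SgnNeg.envPL)) boxA 133 ⟨3, 3, 16, 6⟩ = true := by decide +kernel

def envPHA :
    Ex.checkShifted (inChart (Strip.SgnNeg.envPH)) boxA 139 ⟨3, 3, 17, 6⟩ = true := by decide +kernel

def envGHA :
    Ex.checkShifted (inChart (Strip.SgnNeg.envGH)) boxA 147 ⟨3, 3, 16, 8⟩ = true := by decide +kernel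

def envGLA :
    Ex.checkShifted (inChart (Strip.SgnNeg.envGL)) boxA 153 ⟨3, 3, 17, 8⟩ = true := by decide +kernel

def envOLA :
    Ex.checkShifted (inChart (envOL)) boxA 88 ⟨2, 2, 11, 4⟩ = true := by decide +kernel

def envOHA :
    Ex.checkShifted (inChart (envOH)) boxA 82 ⟨2, 2, 10, 4⟩ = true := by decide +kernel

end Vale.Agent.P100.Calib.Closed.Strip.SgnNeg
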