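import Vale.Agent.P100.Calib.SlabStripNegSound
import Vale.Agent.P100.Calib.SlabStripNegChart
import Vale.Agent.P100.Calib.SlabStripNegCheckAGy
import Vale.Agent.P100.Calib.SlabStripNegCheckAX
import Vale.Agent.P100.Calib.SlabStripNegCheckAL
import Vale.Agent.P100.Calib.SlabStripNegCheckALz
import Vale.Agent.P100.Calib.SlabStripNegCheckAN
import Vale.Agent.P100.Calib.SlabStripNegCheckARest

/-!
# The points of piece A are good
-/

namespace Vale.Agent.P100.Calib.Closed.Strip.SgnNeg

open BoxPos All.SgnNeg

theorem gyA_all {x y : ℕ → ℝ} (hy : InBox boxA y) (hx : InChart y x) :
    ∀ s i j l m, 0 ≤ ev x (Strip.SgnNeg.cGY 11 s (spE i) (sgE j) (soE l) (szE szA m)) := by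
  intro s i j l m
  exact match s, i, j, l, m with
    | false, false, false, false, false => nonneg_inChart gyA00000 hy hx
    | false, false, false, false, true => nonneg_inChart gyA00001 hy hx
    | false, false, false, true, false => nonneg_inChart gyA00010 hy hx
    | false, false, false, true, true => nonneg_inChart gyA00011 hy hx
    | false, false, true, false, false => nonneg_inChart gyA00100 hy hx
    | false, false, true, false, true => nonneg_inChart gyA00101 hy hx
    | false, false, true, true, false => nonneg_inChart gyA00110 hy hx
    | false, false, true, true, true => nonneg_inChart gyA00111 hy hx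
    | false, true, false, false, false => nonneg_inChart gyA01000 hy hx
    | false, true, false, false, true => nonneg_inChart gyA01001 hy hx
    | false, true, false, true, false => nonneg_inChart gyA01010 hy hx
    | false, true, false, true, true => nonneg_inChart gyA01011 hy hx
    | false, true, true, false, false => nonneg_inChart gyA01100 hy hx
    | false, true, true, false, true => nonneg_inChart gyA01101 hy hx
    | false, true, true, true, false => nonneg_inChart gyA01110 hy hx
    | false, true, true, true, true => nonneg_inChart gyA01111 hy hx
    | true, false, false, false, false => nonneg_inChart gyA10000 hy hx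
    | true, false, false, false, true => nonneg_inChart gyA10001 hy hx
    | true, false, false, true, false => nonneg_inChart gyA10010 hy hx
    | true, false, false, true, true => nonneg_inChart gyA10011 hy hx
    | true, false, true, false, false => nonneg_inChart gyA10100 hy hx
    | true, false, true, false, true => nonneg_inChart gyA10101 hy hx
    | true, false, true, true, false => nonneg_inChart gyA10110 hy hx
    | true, false, true, true, true => nonneg_inChart gyA10111 hy hx
    | true, true, false, false, false => nonneg_inChart gyA11000 hy hx
    | true, true, false, false, true => nonneg_inChart gyA11001 hy hx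
    | true, true, false, true, false => nonneg_inChart gyA11010 hy hx
    | true, true, false, true, true => nonneg_inChart gyA11011 hy hx
    | true, true, true, false, false => nonneg_inChart gyA11100 hy hx
    | true, true, true, false, true => nonneg_inChart gyA11101 hy hx
    | true, true, true, true, false => nonneg_inChart gyA11110 hy hx
    | true, true, true, true, true => nonneg_inChart gyA11111 hy hx

theorem xbA_all {x y : ℕ → ℝ} (hy : InBox boxA y) (hx : InChart y x) :
    ∀ s i j l, 0 ≤ ev x (Strip.SgnNeg.cX (nC 17 20) s (spE i) (sgE j) (soE l) (swE s)) := by
  intro s i j l
  exact match s, i, j, l with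
    | false, false, false, false => nonneg_inChart xbA0000 hy hx
    | false, false, false, true => nonneg_inChart xbA0001 hy hx
    | false, false, true, false => nonneg_inChart xbA0010 hy hx
    | false, false, true, true => nonneg_inChart xbA0011 hy hx
    | false, true, false, false => nonneg_inChart xbA0100 hy hx
    | false, true, false, true => nonneg_inChart xbA0101 hy hx
    | false, true, true, false => nonneg_inChart xbA0110 hy hx
    | false, true, true, true => nonneg_inChart xbA0111 hy hx
    | true, false, false, false => nonneg_inChart xbA1000 hy hx
    | true, false, false, true => nonneg_inChart xbA1001 hy hx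
    | true, false, true, false => nonneg_inChart xbA1010 hy hx
    | true, false, true, true => nonneg_inChart xbA1011 hy hx
    | true, true, false, false => nonneg_inChart xbA1100 hy hx
    | true, true, false, true => nonneg_inChart xbA1101 hy hx
    | true, true, true, false => nonneg_inChart xbA1110 hy hx
    | true, true, true, true => nonneg_inChart xbA1111 hy hx

theorem arA_all {x y : ℕ → ℝ} (hy : InBox boxA y) (hx : InChart y x) :
    ∀ s i j l, 0 ≤ ev x (Strip.SgnNeg.cL 11 (nC 17 20) s (spE i) (sgE j) (soE l) (swE false) (szE szA s)) := by
  intro s i j l
  exact match s, i, j, l with
    | false, false, false, false => nonneg_inChart arA0000 hy hx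
    | false, false, false, true => nonneg_inChart arA0001 hy hx
    | false, false, true, false => nonneg_inChart arA0010 hy hx
    | false, false, true, true => nonneg_inChart arA0011 hy hx
    | false, true, false, false => nonneg_inChart arA0100 hy hx
    | false, true, false, true => nonneg_inChart arA0101 hy hx
    | false, true, true, false => nonneg_inChart arA0110 hy hx
    | false, true, true, true => nonneg_inChart arA0111 hy hx
    | true, false, false, false => nonneg_inChart arA1000 hy hx
    | true, false, false, true => nonneg_inChart arA1001 hy hx
    | true, false, true, false => nonneg_inChart arA1010 hy hx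
    | true, false, true, true => nonneg_inChart arA1011 hy hx
    | true, true, false, false => nonneg_inChart arA1100 hy hx
    | true, true, false, true => nonneg_inChart arA1101 hy hx
    | true, true, true, false => nonneg_inChart arA1110 hy hx
    | true, true, true, true => nonneg_inChart arA1111 hy hx

theorem azA_all {x y : ℕ → ℝ} (hy : InBox boxA y) (hx : InChart y x) :
    ∀ s i j l, 0 ≤ ev x (cLm 11 szA (spE i) (sgE j) (soE l) s) := by
  intro s i j l
  exact match s, i, j, l with
    | false, false, false, false => nonneg_inChart azA0000 hy hx
    | false, false, false, true => nonneg_inChart azA0001 hy hx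
    | false, false, true, false => nonneg_inChart azA0010 hy hx
    | false, false, true, true => nonneg_inChart azA0011 hy hx
    | false, true, false, false => nonneg_inChart azA0100 hy hx
    | false, true, false, true => nonneg_inChart azA0101 hy hx
    | false, true, true, false => nonneg_inChart azA0110 hy hx
    | false, true, true, true => nonneg_inChart azA0111 hy hx
    | true, false, false, false => nonneg_inChart azA1000 hy hx
    | true, false, false, true => nonneg_inChart azA1001 hy hx
    | true, false, true, false => nonneg_inChart azA1010 hy hx
    | true, false, true, true => nonneg_inChart azA1011 hy hx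
    | true, true, false, false => nonneg_inChart azA1100 hy hx
    | true, true, false, true => nonneg_inChart azA1101 hy hx
    | true, true, true, false => nonneg_inChart azA1110 hy hx
    | true, true, true, true => nonneg_inChart azA1111 hy hx

theorem mgA_all {x y : ℕ → ℝ} (hy : InBox boxA y) (hx : InChart y x) :
    ∀ i j l m, 0 ≤ ev x (sN (spE i) (sgE j) (soE l) (swE true) (szE szA m)) := by
  intro i j l m
  exact match i, j, l, m with
    | false, false, false, false => nonneg_inChart mgA0000 hy hx
    | false, false, false, true => nonneg_inChart mgA0001 hy hx
    | false, false, true, false => nonneg_inChart mgA0010 hy hx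
    | false, false, true, true => nonneg_inChart mgA0011 hy hx
    | false, true, false, false => nonneg_inChart mgA0100 hy hx
    | false, true, false, true => nonneg_inChart mgA0101 hy hx
    | false, true, true, false => nonneg_inChart mgA0110 hy hx
    | false, true, true, true => nonneg_inChart mgA0111 hy hx
    | true, false, false, false => nonneg_inChart mgA1000 hy hx
    | true, false, false, true => nonneg_inChart mgA1001 hy hx
    | true, false, true, false => nonneg_inChart mgA1010 hy hx
    | true, false, true, true => nonneg_inChart mgA1011 hy hx
    | true, true, false, false => nonneg_inChart mgA1100 hy hx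
    | true, true, false, true => nonneg_inChart mgA1101 hy hx
    | true, true, true, false => nonneg_inChart mgA1110 hy hx
    | true, true, true, true => nonneg_inChart mgA1111 hy hx

theorem lgA_all {x y : ℕ → ℝ} (hy : InBox boxA y) (hx : InChart y x) :
    ∀ i l m, 0 ≤ ev x (sLG (soE i) (soE l) (szE szA m)) := by
  intro i l m
  exact match i, l, m with
    | false, false, false => nonneg_inChart lgA000 hy hx
    | false, false, true => nonneg_inChart lgA001 hy hx
    | false, true, false => nonneg_inChart lgA010 hy hx
    | false, true, true => nonneg_inChart lgA011 hy hx
    | true, false, false => nonneg_inChart lgA100 hy hx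
    | true, false, true => nonneg_inChart lgA101 hy hx
    | true, true, false => nonneg_inChart lgA110 hy hx
    | true, true, true => nonneg_inChart lgA111 hy hx

/-- The points of piece A are good. -/
theorem goodA {x y : ℕ → ℝ} (hy : InBox boxA y) (hx : InChart y x) :
    Good 11 (nC 17 20) szA x where
  gy := gyA_all hy hx
  xb := xbA_all hy hx
  arrow := arA_all hy hx
  az := azA_all hy hx
  mg := mgA_all hy hx
  lg := lgA_all hy hx
  cgy
    | false => nonneg_inChart dgyA0 hy hx
    | true => nonneg_inChart dgyA1 hy hx
  cl
    | false => nonneg_inChart dlA0 hy hx
    | true => nonneg_inChart dlA1 hy hx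
  cgg := nonneg_inChart dGGA hy hx
  cgz := nonneg_inChart dGZA hy hx
  cte := nonneg_inChart dTEA hy hx
  ctz := nonneg_inChart dTZA hy hx
  cne := nonneg_inChart dNEA hy hx
  cnz := nonneg_inChart dNZA hy hx
  cnp := nonneg_inChart dNPA hy hx
  tw := nonneg_inChart dTWA hy hx
  nw := nonneg_inChart dNWA hy hx
  xw := nonneg_inChart dXWA hy hx
  pl := nonneg_inChart envPLA hy hx
  ph := nonneg_inChart envPHA hy hx
  gh := nonneg_inChart envGHA hy hx
  gl := nonneg_inChart envGLA hy hx
  oh := nonneg_inChart envOHA hy hx
  ol := nonneg_inChart envOLA hy hx

end Vale.Agent.P100.Calib.Closed.Strip.SgnNeg
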