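import Vale.Agent.P100.Calib.SlabStripNegExpr
import Vale.Agent.P100.Calib.SlabPackShift

/-!
# Checks below the crossing in the strip, piece B
-/

set_option linter.defProp false

namespace Vale.Agent.P100.Calib.Closed.Strip.SgnNeg

open BoxPos All.SgnNeg

def gyB00000 :
    Ex.checkShifted (inChart (Strip.SgnNeg.cGY 10 false (spE false) (sgE false) (soE false) (szE szB false))) boxB 338 ⟨3, 8, 39, 14⟩ = true := by decide +kernel

def gyB00001 :
    Ex.checkShifted (inChart (Strip.SgnNeg.cGY 10 false (spE false) (sgE false) (soE false) (szE szB true))) boxB 344 ⟨3, 8, 39, 14⟩ = true := by decide +kernel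

def gyB00010 :
    Ex.checkShifted (inChart (Strip.SgnNeg.cGY 10 false (spE false) (sgE false) (soE true) (szE szB false))) boxB 338 ⟨3, 8, 39, 14⟩ = true := by decide +kernel

def gyB00011 :
    Ex.checkShifted (inChart (Strip.SgnNeg.cGY 10 false (spE false) (sgE false) (soE true) (szE szB true))) boxB 344 ⟨3, 8, 39, 14⟩ = true := by decide +kernel

def gyB00100 :
    Ex.checkShifted (inChart (Strip.SgnNeg.cGY 10 false (spE false) (sgE true) (soE false) (szE szB false))) boxB 338 ⟨3, 8, 39, 14⟩ = true := by decide +kernel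

def gyB00101 :
    Ex.checkShifted (inChart (Strip.SgnNeg.cGY 10 false (spE false) (sgE true) (soE false) (szE szB true))) boxB 344 ⟨3, 8, 39, 14⟩ = true := by decide +kernel

def gyB00110 :
    Ex.checkShifted (inChart (Strip.SgnNeg.cGY 10 false (spE false) (sgE true) (soE true) (szE szB false))) boxB 338 ⟨3, 8, 39, 14⟩ = true := by decide +kernel

def gyB00111 :
    Ex.checkShifted (inChart (Strip.SgnNeg.cGY 10 false (spE false) (sgE true) (soE true) (szE szB true))) boxB 344 ⟨3, 8, 39, 14⟩ = true := by decide +kernel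

def gyB01000 :
    Ex.checkShifted (inChart (Strip.SgnNeg.cGY 10 false (spE true) (sgE false) (soE false) (szE szB false))) boxB 338 ⟨3, 8, 39, 14⟩ = true := by decide +kernel

def gyB01001 :
    Ex.checkShifted (inChart (Strip.SgnNeg.cGY 10 false (spE true) (sgE false) (soE false) (szE szB true))) boxB 344 ⟨3, 8, 39, 14⟩ = true := by decide +kernel

def gyB01010 :
    Ex.checkShifted (inChart (Strip.SgnNeg.cGY 10 false (spE true) (sgE false) (soE true) (szE szB false))) boxB 338 ⟨3, 8, 39, 14⟩ = true := by decide +kernel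

def gyB01011 :
    Ex.checkShifted (inChart (Strip.SgnNeg.cGY 10 false (spE true) (sgE false) (soE true) (szE szB true))) boxB 344 ⟨3, 8, 39, 14⟩ = true := by decide +kernel

def gyB01100 :
    Ex.checkShifted (inChart (Strip.SgnNeg.cGY 10 false (spE true) (sgE true) (soE false) (szE szB false))) boxB 338 ⟨3, 8, 39, 14⟩ = true := by decide +kernel

def gyB01101 :
    Ex.checkShifted (inChart (Strip.SgnNeg.cGY 10 false (spE true) (sgE true) (soE false) (szE szB true))) boxB 344 ⟨3, 8, 39, 14⟩ = true := by decide +kernel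

def gyB01110 :
    Ex.checkShifted (inChart (Strip.SgnNeg.cGY 10 false (spE true) (sgE true) (soE true) (szE szB false))) boxB 338 ⟨3, 8, 39, 14⟩ = true := by decide +kernel

def gyB01111 :
    Ex.checkShifted (inChart (Strip.SgnNeg.cGY 10 false (spE true) (sgE true) (soE true) (szE szB true))) boxB 344 ⟨3, 8, 39, 14⟩ = true := by decide +kernel

def gyB10000 :
    Ex.checkShifted (inChart (Strip.SgnNeg.cGY 10 true (spE false) (sgE false) (soE false) (szE szB false))) boxB 338 ⟨3, 8, 39, 14⟩ = true := by decide +kernel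

def gyB10001 :
    Ex.checkShifted (inChart (Strip.SgnNeg.cGY 10 true (spE false) (sgE false) (soE false) (szE szB true))) boxB 344 ⟨3, 8, 39, 14⟩ = true := by decide +kernel

def gyB10010 :
    Ex.checkShifted (inChart (Strip.SgnNeg.cGY 10 true (spE false) (sgE false) (soE true) (szE szB false))) boxB 338 ⟨3, 8, 39, 14⟩ = true := by decide +kernel

def gyB10011 :
    Ex.checkShifted (inChart (Strip.SgnNeg.cGY 10 true (spE false) (sgE false) (soE true) (szE szB true))) boxB 344 ⟨3, 8, 39, 14⟩ = true := by decide +kernel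

def gyB10100 :
    Ex.checkShifted (inChart (Strip.SgnNeg.cGY 10 true (spE false) (sgE true) (soE false) (szE szB false))) boxB 338 ⟨3, 8, 39, 14⟩ = true := by decide +kernel

def gyB10101 :
    Ex.checkShifted (inChart (Strip.SgnNeg.cGY 10 true (spE false) (sgE true) (soE false) (szE szB true))) boxB 344 ⟨3, 8, 39, 14⟩ = true := by decide +kernel

def gyB10110 :
    Ex.checkShifted (inChart (Strip.SgnNeg.cGY 10 true (spE false) (sgE true) (soE true) (szE szB false))) boxB 338 ⟨3, 8, 39, 14⟩ = true := by decide +kernel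

def gyB10111 :
    Ex.checkShifted (inChart (Strip.SgnNeg.cGY 10 true (spE false) (sgE true) (soE true) (szE szB true))) boxB 344 ⟨3, 8, 39, 14⟩ = true := by decide +kernel

def gyB11000 :
    Ex.checkShifted (inChart (Strip.SgnNeg.cGY 10 true (spE true) (sgE false) (soE false) (szE szB false))) boxB 338 ⟨3, 8, 39, 14⟩ = true := by decide +kernel

def gyB11001 :
    Ex.checkShifted (inChart (Strip.SgnNeg.cGY 10 true (spE true) (sgE false) (soE false) (szE szB true))) boxB 344 ⟨3, 8, 39, 14⟩ = true := by decide +kernel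

def gyB11010 :
    Ex.checkShifted (inChart (Strip.SgnNeg.cGY 10 true (spE true) (sgE false) (soE true) (szE szB false))) boxB 338 ⟨3, 8, 39, 14⟩ = true := by decide +kernel

def gyB11011 :
    Ex.checkShifted (inChart (Strip.SgnNeg.cGY 10 true (spE true) (sgE false) (soE true) (szE szB true))) boxB 344 ⟨3, 8, 39, 14⟩ = true := by decide +kernel

def gyB11100 :
    Ex.checkShifted (inChart (Strip.SgnNeg.cGY 10 true (spE true) (sgE true) (soE false) (szE szB false))) boxB 338 ⟨3, 8, 39, 14⟩ = true := by decide +kernel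

def gyB11101 :
    Ex.checkShifted (inChart (Strip.SgnNeg.cGY 10 true (spE true) (sgE true) (soE false) (szE szB true))) boxB 344 ⟨3, 8, 39, 14⟩ = true := by decide +kernel

def gyB11110 :
    Ex.checkShifted (inChart (Strip.SgnNeg.cGY 10 true (spE true) (sgE true) (soE true) (szE szB false))) boxB 338 ⟨3, 8, 39, 14⟩ = true := by decide +kernel

def gyB11111 :
    Ex.checkShifted (inChart (Strip.SgnNeg.cGY 10 true (spE true) (sgE true) (soE true) (szE szB true))) boxB 344 ⟨3, 8, 39, 14⟩ = true := by decide +kernel

end Vale.Agent.P100.Calib.Closed.Strip.SgnNeg
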