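import Vale.Agent.P100.Calib.SlabStripNegExpr
import Vale.Agent.P100.Calib.SlabPackShift

/-!
# Checks below the crossing in the strip, piece B
-/

set_option linter.defProp false

namespace Vale.Agent.P100.Calib.Closed.Strip.SgnNeg

open BoxPos All.SgnNeg

def arB0000 :
    Ex.checkShifted (inChart (Strip.SgnNeg.cL 10 (nC 18 25) false (spE false) (sgE false) (soE false) (swE false) (szE szB false))) boxB 429 ⟨4, 8, 47, 20⟩ = true := by decide +kernel

def arB0001 :
    Ex.checkShifted (inChart (Strip.SgnNeg.cL 10 (nC 18 25) false (spE false) (sgE false) (soE true) (swE false) (szE szB false))) boxB 429 ⟨4, 8, 47, 20⟩ = true := by decide +kernel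

def arB0010 :
    Ex.checkShifted (inChart (Strip.SgnNeg.cL 10 (nC 18 25) false (spE false) (sgE true) (soE false) (swE false) (szE szB false))) boxB 429 ⟨4, 8, 47, 20⟩ = true := by decide +kernel

def arB0011 :
    Ex.checkShifted (inChart (Strip.SgnNeg.cL 10 (nC 18 25) false (spE false) (sgE true) (soE true) (swE false) (szE szB false))) boxB 429 ⟨4, 8, 47, 20⟩ = true := by decide +kernel

def arB0100 :
    Ex.checkShifted (inChart (Strip.SgnNeg.cL 10 (nC 18 25) false (spE true) (sgE false) (soE false) (swE false) (szE szB false))) boxB 429 ⟨4, 8, 47, 20⟩ = true := by decide +kernel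

def arB0101 :
    Ex.checkShifted (inChart (Strip.SgnNeg.cL 10 (nC 18 25) false (spE true) (sgE false) (soE true) (swE false) (szE szB false))) boxB 429 ⟨4, 8, 47, 20⟩ = true := by decide +kernel

def arB0110 :
    Ex.checkShifted (inChart (Strip.SgnNeg.cL 10 (nC 18 25) false (spE true) (sgE true) (soE false) (swE false) (szE szB false))) boxB 429 ⟨4, 8, 47, 20⟩ = true := by decide +kernel

def arB0111 :
    Ex.checkShifted (inChart (Strip.SgnNeg.cL 10 (nC 18 25) false (spE true) (sgE true) (soE true) (swE false) (szE szB false))) boxB 429 ⟨4, 8, 47, 20⟩ = true := by decide +kernel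

def arB1000 :
    Ex.checkShifted (inChart (Strip.SgnNeg.cL 10 (nC 18 25) true (spE false) (sgE false) (soE false) (swE false) (szE szB true))) boxB 435 ⟨4, 8, 47, 20⟩ = true := by decide +kernel

def arB1001 :
    Ex.checkShifted (inChart (Strip.SgnNeg.cL 10 (nC 18 25) true (spE false) (sgE false) (soE true) (swE false) (szE szB true))) boxB 435 ⟨4, 8, 47, 20⟩ = true := by decide +kernel

def arB1010 :
    Ex.checkShifted (inChart (Strip.SgnNeg.cL 10 (nC 18 25) true (spE false) (sgE true) (soE false) (swE false) (szE szB true))) boxB 435 ⟨4, 8, 47, 20⟩ = true := by decide +kernel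

def arB1011 :
    Ex.checkShifted (inChart (Strip.SgnNeg.cL 10 (nC 18 25) true (spE false) (sgE true) (soE true) (swE false) (szE szB true))) boxB 435 ⟨4, 8, 47, 20⟩ = true := by decide +kernel

def arB1100 :
    Ex.checkShifted (inChart (Strip.SgnNeg.cL 10 (nC 18 25) true (spE true) (sgE false) (soE false) (swE false) (szE szB true))) boxB 435 ⟨4, 8, 47, 20⟩ = true := by decide +kernel

def arB1101 :
    Ex.checkShifted (inChart (Strip.SgnNeg.cL 10 (nC 18 25) true (spE true) (sgE false) (soE true) (swE false) (szE szB true))) boxB 435 ⟨4, 8, 47, 20⟩ = true := by decide +kernel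

def arB1110 :
    Ex.checkShifted (inChart (Strip.SgnNeg.cL 10 (nC 18 25) true (spE true) (sgE true) (soE false) (swE false) (szE szB true))) boxB 435 ⟨4, 8, 47, 20⟩ = true := by decide +kernel

def arB1111 :
    Ex.checkShifted (inChart (Strip.SgnNeg.cL 10 (nC 18 25) true (spE true) (sgE true) (soE true) (swE false) (szE szB true))) boxB 435 ⟨4, 8, 47, 20⟩ = true := by decide +kernel

end Vale.Agent.P100.Calib.Closed.Strip.SgnNeg
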