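import Vale.Agent.P100.Calib.SlabStripNegExpr
import Vale.Agent.P100.Calib.SlabPackShift

/-!
# Checks below the crossing in the strip, piece B
-/

set_option linter.defProp false

namespace Vale.Agent.P100.Calib.Closed.Strip.SgnNeg

open BoxPos All.SgnNeg

def azB0000 :
    Ex.checkShifted (inChart (cLm 10 szB (spE false) (sgE false) (soE false) false)) boxB 367 ⟨2, 7, 39, 18⟩ = true := by decide +kernel

def azB0001 :
    Ex.checkShifted (inChart (cLm 10 szB (spE false) (sgE false) (soE true) false)) boxB 367 ⟨2, 7, 39, 18⟩ = true := by decide +kernel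

def azB0010 :
    Ex.checkShifted (inChart (cLm 10 szB (spE false) (sgE true) (soE false) false)) boxB 367 ⟨2, 7, 39, 18⟩ = true := by decide +kernel

def azB0011 :
    Ex.checkShifted (inChart (cLm 10 szB (spE false) (sgE true) (soE true) false)) boxB 367 ⟨2, 7, 39, 18⟩ = true := by decide +kernel

def azB0100 :
    Ex.checkShifted (inChart (cLm 10 szB (spE true) (sgE false) (soE false) false)) boxB 367 ⟨2, 7, 39, 18⟩ = true := by decide +kernel

def azB0101 :
    Ex.checkShifted (inChart (cLm 10 szB (spE true) (sgE false) (soE true) false)) boxB 367 ⟨2, 7, 39, 18⟩ = true := by decide +kernel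

def azB0110 :
    Ex.checkShifted (inChart (cLm 10 szB (spE true) (sgE true) (soE false) false)) boxB 367 ⟨2, 7, 39, 18⟩ = true := by decide +kernel

def azB0111 :
    Ex.checkShifted (inChart (cLm 10 szB (spE true) (sgE true) (soE true) false)) boxB 367 ⟨2, 7, 39, 18⟩ = true := by decide +kernel

def azB1000 :
    Ex.checkShifted (inChart (cLm 10 szB (spE false) (sgE false) (soE false) true)) boxB 365 ⟨2, 7, 39, 18⟩ = true := by decide +kernel

def azB1001 :
    Ex.checkShifted (inChart (cLm 10 szB (spE false) (sgE false) (soE true) true)) boxB 365 ⟨2, 7, 39, 18⟩ = true := by decide +kernel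

def azB1010 :
    Ex.checkShifted (inChart (cLm 10 szB (spE false) (sgE true) (soE false) true)) boxB 365 ⟨2, 7, 39, 18⟩ = true := by decide +kernel

def azB1011 :
    Ex.checkShifted (inChart (cLm 10 szB (spE false) (sgE true) (soE true) true)) boxB 365 ⟨2, 7, 39, 18⟩ = true := by decide +kernel

def azB1100 :
    Ex.checkShifted (inChart (cLm 10 szB (spE true) (sgE false) (soE false) true)) boxB 365 ⟨2, 7, 39, 18⟩ = true := by decide +kernel

def azB1101 :
    Ex.checkShifted (inChart (cLm 10 szB (spE true) (sgE false) (soE true) true)) boxB 365 ⟨2, 7, 39, 18⟩ = true := by decide +kernel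

def azB1110 :
    Ex.checkShifted (inChart (cLm 10 szB (spE true) (sgE true) (soE false) true)) boxB 365 ⟨2, 7, 39, 18⟩ = true := by decide +kernel

def azB1111 :
    Ex.checkShifted (inChart (cLm 10 szB (spE true) (sgE true) (soE true) true)) boxB 365 ⟨2, 7, 39, 18⟩ = true := by decide +kernel

end Vale.Agent.P100.Calib.Closed.Strip.SgnNeg
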