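import Vale.Agent.P100.Calib.SlabStripNegExpr
import Vale.Agent.P100.Calib.SlabPackShift

/-!
# Checks below the crossing in the strip, piece B
-/

set_option linter.defProp false

namespace Vale.Agent.P100.Calib.Closed.Strip.SgnNeg

open BoxPos All.SgnNeg

def mgB0000 :
    Ex.checkShifted (inChart (sN (spE false) (sgE false) (soE false) (swE true) (szE szB false))) boxB 409 ⟨4, 8, 45, 19⟩ = true := by decide +kernel

def mgB0001 :
    Ex.checkShifted (inChart (sN (spE false) (sgE false) (soE false) (swE true) (szE szB true))) boxB 414 ⟨4, 8, 45, 19⟩ = true := by decide +kernel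

def mgB0010 :
    Ex.checkShifted (inChart (sN (spE false) (sgE false) (soE true) (swE true) (szE szB false))) boxB 409 ⟨4, 8, 45, 19⟩ = true := by decide +kernel

def mgB0011 :
    Ex.checkShifted (inChart (sN (spE false) (sgE false) (soE true) (swE true) (szE szB true))) boxB 414 ⟨4, 8, 45, 19⟩ = true := by decide +kernel

def mgB0100 :
    Ex.checkShifted (inChart (sN (spE false) (sgE true) (soE false) (swE true) (szE szB false))) boxB 409 ⟨4, 8, 45, 19⟩ = true := by decide +kernel

def mgB0101 :
    Ex.checkShifted (inChart (sN (spE false) (sgE true) (soE false) (swE true) (szE szB true))) boxB 414 ⟨4, 8, 45, 19⟩ = true := by decide +kernel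

def mgB0110 :
    Ex.checkShifted (inChart (sN (spE false) (sgE true) (soE true) (swE true) (szE szB false))) boxB 409 ⟨4, 8, 45, 19⟩ = true := by decide +kernel

def mgB0111 :
    Ex.checkShifted (inChart (sN (spE false) (sgE true) (soE true) (swE true) (szE szB true))) boxB 414 ⟨4, 8, 45, 19⟩ = true := by decide +kernel

def mgB1000 :
    Ex.checkShifted (inChart (sN (spE true) (sgE false) (soE false) (swE true) (szE szB false))) boxB 409 ⟨4, 8, 45, 19⟩ = true := by decide +kernel

def mgB1001 :
    Ex.checkShifted (inChart (sN (spE true) (sgE false) (soE false) (swE true) (szE szB true))) boxB 414 ⟨4, 8, 45, 19⟩ = true := by decide +kernel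

def mgB1010 :
    Ex.checkShifted (inChart (sN (spE true) (sgE false) (soE true) (swE true) (szE szB false))) boxB 409 ⟨4, 8, 45, 19⟩ = true := by decide +kernel

def mgB1011 :
    Ex.checkShifted (inChart (sN (spE true) (sgE false) (soE true) (swE true) (szE szB true))) boxB 414 ⟨4, 8, 45, 19⟩ = true := by decide +kernel

def mgB1100 :
    Ex.checkShifted (inChart (sN (spE true) (sgE true) (soE false) (swE true) (szE szB false))) boxB 409 ⟨4, 8, 45, 19⟩ = true := by decide +kernel

def mgB1101 :
    Ex.checkShifted (inChart (sN (spE true) (sgE true) (soE false) (swE true) (szE szB true))) boxB 414 ⟨4, 8, 45, 19⟩ = true := by decide +kernel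

def mgB1110 :
    Ex.checkShifted (inChart (sN (spE true) (sgE true) (soE true) (swE true) (szE szB false))) boxB 409 ⟨4, 8, 45, 19⟩ = true := by decide +kernel

def mgB1111 :
    Ex.checkShifted (inChart (sN (spE true) (sgE true) (soE true) (swE true) (szE szB true))) boxB 414 ⟨4, 8, 45, 19⟩ = true := by decide +kernel

end Vale.Agent.P100.Calib.Closed.Strip.SgnNeg
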