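import Vale.Agent.P100.Calib.SlabStripNegExpr
import Vale.Agent.P100.Calib.SlabPackShift

/-!
# Checks below the crossing in the strip, piece B
-/

set_option linter.defProp false

namespace Vale.Agent.P100.Calib.Closed.Strip.SgnNeg

open BoxPos All.SgnNeg

def lgB000 :
    Ex.checkShifted (inChart (sLG (soE false) (soE false) (szE szB false))) boxB 244 ⟨2, 6, 27, 11⟩ = true := by decide +kernel

def lgB001 :
    Ex.checkShifted (inChart (sLG (soE false) (soE false) (szE szB true))) boxB 248 ⟨2, 6, 27, 11⟩ = true := by decide +kernel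

def lgB010 :
    Ex.checkShifted (inChart (sLG (soE false) (soE true) (szE szB false))) boxB 244 ⟨2, 6, 27, 11⟩ = true := by decide +kernel

def lgB011 :
    Ex.checkShifted (inChart (sLG (soE false) (soE true) (szE szB true))) boxB 248 ⟨2, 6, 27, 11⟩ = true := by decide +kernel

def lgB100 :
    Ex.checkShifted (inChart (sLG (soE true) (soE false) (szE szB false))) boxB 244 ⟨2, 6, 27, 11⟩ = true := by decide +kernel

def lgB101 :
    Ex.checkShifted (inChart (sLG (soE true) (soE false) (szE szB true))) boxB 248 ⟨2, 6, 27, 11⟩ = true := by decide +kernel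

def lgB110 :
    Ex.checkShifted (inChart (sLG (soE true) (soE true) (szE szB false))) boxB 244 ⟨2, 6, 27, 11⟩ = true := by decide +kernel

def lgB111 :
    Ex.checkShifted (inChart (sLG (soE true) (soE true) (szE szB true))) boxB 248 ⟨2, 6, 27, 11⟩ = true := by decide +kernel

def dgyB0 :
    Ex.checkShifted (inChart (Strip.SgnNeg.dGY 10 false)) boxB 222 ⟨0, 5, 26, 10⟩ = true := by decide +kernel

def dlB0 :
    Ex.checkShifted (inChart (Strip.SgnNeg.dL 10 false)) boxB 286 ⟨0, 5, 31, 15⟩ = true := by decide +kernel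

def dgyB1 :
    Ex.checkShifted (inChart (Strip.SgnNeg.dGY 10 true)) boxB 222 ⟨0, 5, 26, 10⟩ = true := by decide +kernel

def dlB1 :
    Ex.checkShifted (inChart (Strip.SgnNeg.dL 10 true)) boxB 286 ⟨0, 5, 31, 15⟩ = true := by decide +kernel

def dGGB :
    Ex.checkShifted (inChart (Strip.SgnNeg.dGG)) boxB 128 ⟨0, 5, 18, 3⟩ = true := by decide +kernel

def dGZB :
    Ex.checkShifted (inChart (dGZ)) boxB 242 ⟨0, 7, 28, 11⟩ = true := by decide +kernel

def dTEB :
    Ex.checkShifted (inChart (Strip.SgnNeg.dTE)) boxB 139 ⟨0, 4, 18, 5⟩ = true := by decide +kernel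

def dTZB :
    Ex.checkShifted (inChart (dTZ)) boxB 286 ⟨0, 6, 31, 15⟩ = true := by decide +kernel

def dNEB :
    Ex.checkShifted (inChart (Strip.SgnNeg.dNE)) boxB 134 ⟨0, 4, 17, 5⟩ = true := by decide +kernel

def dNZB :
    Ex.checkShifted (inChart (dNZ)) boxB 281 ⟨0, 6, 30, 15⟩ = true := by decide +kernel

def dNPB :
    Ex.checkShifted (inChart (Strip.SgnNeg.dNP)) boxB 265 ⟨0, 5, 29, 14⟩ = true := by decide +kernel

def dTWB :
    Ex.checkShifted (inChart (dTW)) boxB 63 ⟨0, 2, 7, 2⟩ = true := by decide +kernel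

def dNWB :
    Ex.checkShifted (inChart (dNW)) boxB 59 ⟨0, 2, 6, 2⟩ = true := by decide +kernel

def dXWB :
    Ex.checkShifted (inChart (dXW)) boxB 34 ⟨0, 1, 4, 1⟩ = true := by decide +kernel

def envPLB :
    Ex.checkShifted (inChart (Strip.SgnNeg.envPL)) boxB 145 ⟨3, 3, 16, 6⟩ = true := by decide +kernel

def envPHB :
    Ex.checkShifted (inChart (Strip.SgnNeg.envPH)) boxB 152 ⟨3, 3, 17, 6⟩ = true := by decide +kernel

def envGHB :
    Ex.checkShifted (inChart (Strip.SgnNeg.envGH)) boxB 159 ⟨3, 3, 16, 8⟩ = true := by decide +kernel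

def envGLB :
    Ex.checkShifted (inChart (Strip.SgnNeg.envGL)) boxB 166 ⟨3, 3, 17, 8⟩ = true := by decide +kernel

def envOLB :
    Ex.checkShifted (inChart (envOL)) boxB 97 ⟨2, 2, 11, 4⟩ = true := by decide +kernel

def envOHB :
    Ex.checkShifted (inChart (envOH)) boxB 90 ⟨2, 2, 10, 4⟩ = true := by decide +kernel

end Vale.Agent.P100.Calib.Closed.Strip.SgnNeg
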