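import Vale.Agent.P100.Calib.SlabStripNegSound
import Vale.Agent.P100.Calib.SlabStripNegChart
import Vale.Agent.P100.Calib.SlabStripNegCheckBGy
import Vale.Agent.P100.Calib.SlabStripNegCheckBX
import Vale.Agent.P100.Calib.SlabStripNegCheckBL
import Vale.Agent.P100.Calib.SlabStripNegCheckBLz
import Vale.Agent.P100.Calib.SlabStripNegCheckBN
import Vale.Agent.P100.Calib.SlabStripNegCheckBRest

/-!
# The points of piece B are good
-/

namespace Vale.Agent.P100.Calib.Closed.Strip.SgnNeg

open BoxPos All.SgnNeg

theorem gyB_all {x y : ℕ → ℝ} (hy : InBox boxB y) (hx : InChart y x) :
    ∀ s i j l m, 0 ≤ ev x (Strip.SgnNeg.cGY 10 s (spE i) (sgE j) (soE l) (szE szB m)) := by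
  intro s i j l m
  exact match s, i, j, l, m with
    | false, false, false, false, false => nonneg_inChart gyB00000 hy hx
    | false, false, false, false, true => nonneg_inChart gyB00001 hy hx
    | false, false, false, true, false => nonneg_inChart gyB00010 hy hx
    | false, false, false, true, true => nonneg_inChart gyB00011 hy hx
    | false, false, true, false, false => nonneg_inChart gyB00100 hy hx
    | false, false, true, false, true => nonneg_inChart gyB00101 hy hx
    | false, false, true, true, false => nonneg_inChart gyB00110 hy hx
    | false, false, true, true, true => nonneg_inChart gyB00111 hy hx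
    | false, true, false, false, false => nonneg_inChart gyB01000 hy hx
    | false, true, false, false, true => nonneg_inChart gyB01001 hy hx
    | false, true, false, true, false => nonneg_inChart gyB01010 hy hx
    | false, true, false, true, true => nonneg_inChart gyB01011 hy hx
    | false, true, true, false, false => nonneg_inChart gyB01100 hy hx
    | false, true, true, false, true => nonneg_inChart gyB01101 hy hx
    | false, true, true, true, false => nonneg_inChart gyB01110 hy hx
    | false, true, true, true, true => nonneg_inChart gyB01111 hy hx
    | true, false, false, false, false => nonneg_inChart gyB10000 hy hx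
    | true, false, false, false, true => nonneg_inChart gyB10001 hy hx
    | true, false, false, true, false => nonneg_inChart gyB10010 hy hx
    | true, false, false, true, true => nonneg_inChart gyB10011 hy hx
    | true, false, true, false, false => nonneg_inChart gyB10100 hy hx
    | true, false, true, false, true => nonneg_inChart gyB10101 hy hx
    | true, false, true, true, false => nonneg_inChart gyB10110 hy hx
    | true, false, true, true, true => nonneg_inChart gyB10111 hy hx
    | true, true, false, false, false => nonneg_inChart gyB11000 hy hx
    | true, true, false, false, true => nonneg_inChart gyB11001 hy hx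
    | true, true, false, true, false => nonneg_inChart gyB11010 hy hx
    | true, true, false, true, true => nonneg_inChart gyB11011 hy hx
    | true, true, true, false, false => nonneg_inChart gyB11100 hy hx
    | true, true, true, false, true => nonneg_inChart gyB11101 hy hx
    | true, true, true, true, false => nonneg_inChart gyB11110 hy hx
    | true, true, true, true, true => nonneg_inChart gyB11111 hy hx

theorem xbB_all {x y : ℕ → ℝ} (hy : InBox boxB y) (hx : InChart y x) :
    ∀ s i j l, 0 ≤ ev x (Strip.SgnNeg.cX (nC 18 25) s (spE i) (sgE j) (soE l) (swE s)) := by
  intro s i j l
  exact match s, i, j, l with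
    | false, false, false, false => nonneg_inChart xbB0000 hy hx
    | false, false, false, true => nonneg_inChart xbB0001 hy hx
    | false, false, true, false => nonneg_inChart xbB0010 hy hx
    | false, false, true, true => nonneg_inChart xbB0011 hy hx
    | false, true, false, false => nonneg_inChart xbB0100 hy hx
    | false, true, false, true => nonneg_inChart xbB0101 hy hx
    | false, true, true, false => nonneg_inChart xbB0110 hy hx
    | false, true, true, true => nonneg_inChart xbB0111 hy hx
    | true, false, false, false => nonneg_inChart xbB1000 hy hx
    | true, false, false, true => nonneg_inChart xbB1001 hy hx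
    | true, false, true, false => nonneg_inChart xbB1010 hy hx
    | true, false, true, true => nonneg_inChart xbB1011 hy hx
    | true, true, false, false => nonneg_inChart xbB1100 hy hx
    | true, true, false, true => nonneg_inChart xbB1101 hy hx
    | true, true, true, false => nonneg_inChart xbB1110 hy hx
    | true, true, true, true => nonneg_inChart xbB1111 hy hx

theorem arB_all {x y : ℕ → ℝ} (hy : InBox boxB y) (hx : InChart y x) :
    ∀ s i j l, 0 ≤ ev x (Strip.SgnNeg.cL 10 (nC 18 25) s (spE i) (sgE j) (soE l) (swE false) (szE szB s)) := by
  intro s i j l
  exact match s, i, j, l with
    | false, false, false, false => nonneg_inChart arB0000 hy hx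
    | false, false, false, true => nonneg_inChart arB0001 hy hx
    | false, false, true, false => nonneg_inChart arB0010 hy hx
    | false, false, true, true => nonneg_inChart arB0011 hy hx
    | false, true, false, false => nonneg_inChart arB0100 hy hx
    | false, true, false, true => nonneg_inChart arB0101 hy hx
    | false, true, true, false => nonneg_inChart arB0110 hy hx
    | false, true, true, true => nonneg_inChart arB0111 hy hx
    | true, false, false, false => nonneg_inChart arB1000 hy hx
    | true, false, false, true => nonneg_inChart arB1001 hy hx
    | true, false, true, false => nonneg_inChart arB1010 hy hx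
    | true, false, true, true => nonneg_inChart arB1011 hy hx
    | true, true, false, false => nonneg_inChart arB1100 hy hx
    | true, true, false, true => nonneg_inChart arB1101 hy hx
    | true, true, true, false => nonneg_inChart arB1110 hy hx
    | true, true, true, true => nonneg_inChart arB1111 hy hx

theorem azB_all {x y : ℕ → ℝ} (hy : InBox boxB y) (hx : InChart y x) :
    ∀ s i j l, 0 ≤ ev x (cLm 10 szB (spE i) (sgE j) (soE l) s) := by
  intro s i j l
  exact match s, i, j, l with
    | false, false, false, false => nonneg_inChart azB0000 hy hx
    | false, false, false, true => nonneg_inChart azB0001 hy hx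
    | false, false, true, false => nonneg_inChart azB0010 hy hx
    | false, false, true, true => nonneg_inChart azB0011 hy hx
    | false, true, false, false => nonneg_inChart azB0100 hy hx
    | false, true, false, true => nonneg_inChart azB0101 hy hx
    | false, true, true, false => nonneg_inChart azB0110 hy hx
    | false, true, true, true => nonneg_inChart azB0111 hy hx
    | true, false, false, false => nonneg_inChart azB1000 hy hx
    | true, false, false, true => nonneg_inChart azB1001 hy hx
    | true, false, true, false => nonneg_inChart azB1010 hy hx
    | true, false, true, true => nonneg_inChart azB1011 hy hx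
    | true, true, false, false => nonneg_inChart azB1100 hy hx
    | true, true, false, true => nonneg_inChart azB1101 hy hx
    | true, true, true, false => nonneg_inChart azB1110 hy hx
    | true, true, true, true => nonneg_inChart azB1111 hy hx

theorem mgB_all {x y : ℕ → ℝ} (hy : InBox boxB y) (hx : InChart y x) :
    ∀ i j l m, 0 ≤ ev x (sN (spE i) (sgE j) (soE l) (swE true) (szE szB m)) := by
  intro i j l m
  exact match i, j, l, m with
    | false, false, false, false => nonneg_inChart mgB0000 hy hx
    | false, false, false, true => nonneg_inChart mgB0001 hy hx
    | false, false, true, false => nonneg_inChart mgB0010 hy hx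
    | false, false, true, true => nonneg_inChart mgB0011 hy hx
    | false, true, false, false => nonneg_inChart mgB0100 hy hx
    | false, true, false, true => nonneg_inChart mgB0101 hy hx
    | false, true, true, false => nonneg_inChart mgB0110 hy hx
    | false, true, true, true => nonneg_inChart mgB0111 hy hx
    | true, false, false, false => nonneg_inChart mgB1000 hy hx
    | true, false, false, true => nonneg_inChart mgB1001 hy hx
    | true, false, true, false => nonneg_inChart mgB1010 hy hx
    | true, false, true, true => nonneg_inChart mgB1011 hy hx
    | true, true, false, false => nonneg_inChart mgB1100 hy hx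
    | true, true, false, true => nonneg_inChart mgB1101 hy hx
    | true, true, true, false => nonneg_inChart mgB1110 hy hx
    | true, true, true, true => nonneg_inChart mgB1111 hy hx

theorem lgB_all {x y : ℕ → ℝ} (hy : InBox boxB y) (hx : InChart y x) :
    ∀ i l m, 0 ≤ ev x (sLG (soE i) (soE l) (szE szB m)) := by
  intro i l m
  exact match i, l, m with
    | false, false, false => nonneg_inChart lgB000 hy hx
    | false, false, true => nonneg_inChart lgB001 hy hx
    | false, true, false => nonneg_inChart lgB010 hy hx
    | false, true, true => nonneg_inChart lgB011 hy hx
    | true, false, false => nonneg_inChart lgB100 hy hx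
    | true, false, true => nonneg_inChart lgB101 hy hx
    | true, true, false => nonneg_inChart lgB110 hy hx
    | true, true, true => nonneg_inChart lgB111 hy hx

/-- The points of piece B are good. -/
theorem goodB {x y : ℕ → ℝ} (hy : InBox boxB y) (hx : InChart y x) :
    Good 10 (nC 18 25) szB x where
  gy := gyB_all hy hx
  xb := xbB_all hy hx
  arrow := arB_all hy hx
  az := azB_all hy hx
  mg := mgB_all hy hx
  lg := lgB_all hy hx
  cgy
    | false => nonneg_inChart dgyB0 hy hx
    | true => nonneg_inChart dgyB1 hy hx
  cl
    | false => nonneg_inChart dlB0 hy hx
    | true => nonneg_inChart dlB1 hy hx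
  cgg := nonneg_inChart dGGB hy hx
  cgz := nonneg_inChart dGZB hy hx
  cte := nonneg_inChart dTEB hy hx
  ctz := nonneg_inChart dTZB hy hx
  cne := nonneg_inChart dNEB hy hx
  cnz := nonneg_inChart dNZB hy hx
  cnp := nonneg_inChart dNPB hy hx
  tw := nonneg_inChart dTWB hy hx
  nw := nonneg_inChart dNWB hy hx
  xw := nonneg_inChart dXWB hy hx
  pl := nonneg_inChart envPLB hy hx
  ph := nonneg_inChart envPHB hy hx
  gh := nonneg_inChart envGHB hy hx
  gl := nonneg_inChart envGLB hy hx
  oh := nonneg_inChart envOHB hy hx
  ol := nonneg_inChart envOLB hy hx

end Vale.Agent.P100.Calib.Closed.Strip.SgnNeg
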