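import Vale.Agent.P100.Calib.SlabStripNegExpr
import Vale.Agent.P100.Calib.SlabPackShift

/-!
# Checks below the crossing in the strip, piece C
-/

set_option linter.defProp false

namespace Vale.Agent.P100.Calib.Closed.Strip.SgnNeg

open BoxPos All.SgnNeg

def gyC00000 :
    Ex.checkShifted (inChart (Strip.SgnNeg.cGY 10 false (spE false) (sgE false) (soE false) (szE szB false))) boxC 339 ⟨3, 8, 39, 14⟩ = true := by decide +kernel

def gyC00001 :
    Ex.checkShifted (inChart (Strip.SgnNeg.cGY 10 false (spE false) (sgE false) (soE false) (szE szB true))) boxC 345 ⟨3, 8, 39, 14⟩ = true := by decide +kernel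

def gyC00010 :
    Ex.checkShifted (inChart (Strip.SgnNeg.cGY 10 false (spE false) (sgE false) (soE true) (szE szB false))) boxC 339 ⟨3, 8, 39, 14⟩ = true := by decide +kernel

def gyC00011 :
    Ex.checkShifted (inChart (Strip.SgnNeg.cGY 10 false (spE false) (sgE false) (soE true) (szE szB true))) boxC 345 ⟨3, 8, 39, 14⟩ = true := by decide +kernel

def gyC00100 :
    Ex.checkShifted (inChart (Strip.SgnNeg.cGY 10 false (spE false) (sgE true) (soE false) (szE szB false))) boxC 339 ⟨3, 8, 39, 14⟩ = true := by decide +kernel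

def gyC00101 :
    Ex.checkShifted (inChart (Strip.SgnNeg.cGY 10 false (spE false) (sgE true) (soE false) (szE szB true))) boxC 345 ⟨3, 8, 39, 14⟩ = true := by decide +kernel

def gyC00110 :
    Ex.checkShifted (inChart (Strip.SgnNeg.cGY 10 false (spE false) (sgE true) (soE true) (szE szB false))) boxC 339 ⟨3, 8, 39, 14⟩ = true := by decide +kernel

def gyC00111 :
    Ex.checkShifted (inChart (Strip.SgnNeg.cGY 10 false (spE false) (sgE true) (soE true) (szE szB true))) boxC 345 ⟨3, 8, 39, 14⟩ = true := by decide +kernel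

def gyC01000 :
    Ex.checkShifted (inChart (Strip.SgnNeg.cGY 10 false (spE true) (sgE false) (soE false) (szE szB false))) boxC 339 ⟨3, 8, 39, 14⟩ = true := by decide +kernel

def gyC01001 :
    Ex.checkShifted (inChart (Strip.SgnNeg.cGY 10 false (spE true) (sgE false) (soE false) (szE szB true))) boxC 345 ⟨3, 8, 39, 14⟩ = true := by decide +kernel

def gyC01010 :
    Ex.checkShifted (inChart (Strip.SgnNeg.cGY 10 false (spE true) (sgE false) (soE true) (szE szB false))) boxC 339 ⟨3, 8, 39, 14⟩ = true := by decide +kernel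

def gyC01011 :
    Ex.checkShifted (inChart (Strip.SgnNeg.cGY 10 false (spE true) (sgE false) (soE true) (szE szB true))) boxC 345 ⟨3, 8, 39, 14⟩ = true := by decide +kernel

def gyC01100 :
    Ex.checkShifted (inChart (Strip.SgnNeg.cGY 10 false (spE true) (sgE true) (soE false) (szE szB false))) boxC 339 ⟨3, 8, 39, 14⟩ = true := by decide +kernel

def gyC01101 :
    Ex.checkShifted (inChart (Strip.SgnNeg.cGY 10 false (spE true) (sgE true) (soE false) (szE szB true))) boxC 345 ⟨3, 8, 39, 14⟩ = true := by decide +kernel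

def gyC01110 :
    Ex.checkShifted (inChart (Strip.SgnNeg.cGY 10 false (spE true) (sgE true) (soE true) (szE szB false))) boxC 339 ⟨3, 8, 39, 14⟩ = true := by decide +kernel

def gyC01111 :
    Ex.checkShifted (inChart (Strip.SgnNeg.cGY 10 false (spE true) (sgE true) (soE true) (szE szB true))) boxC 345 ⟨3, 8, 39, 14⟩ = true := by decide +kernel

def gyC10000 :
    Ex.checkShifted (inChart (Strip.SgnNeg.cGY 10 true (spE false) (sgE false) (soE false) (szE szB false))) boxC 339 ⟨3, 8, 39, 14⟩ = true := by decide +kernel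

def gyC10001 :
    Ex.checkShifted (inChart (Strip.SgnNeg.cGY 10 true (spE false) (sgE false) (soE false) (szE szB true))) boxC 345 ⟨3, 8, 39, 14⟩ = true := by decide +kernel

def gyC10010 :
    Ex.checkShifted (inChart (Strip.SgnNeg.cGY 10 true (spE false) (sgE false) (soE true) (szE szB false))) boxC 339 ⟨3, 8, 39, 14⟩ = true := by decide +kernel

def gyC10011 :
    Ex.checkShifted (inChart (Strip.SgnNeg.cGY 10 true (spE false) (sgE false) (soE true) (szE szB true))) boxC 345 ⟨3, 8, 39, 14⟩ = true := by decide +kernel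

def gyC10100 :
    Ex.checkShifted (inChart (Strip.SgnNeg.cGY 10 true (spE false) (sgE true) (soE false) (szE szB false))) boxC 339 ⟨3, 8, 39, 14⟩ = true := by decide +kernel

def gyC10101 :
    Ex.checkShifted (inChart (Strip.SgnNeg.cGY 10 true (spE false) (sgE true) (soE false) (szE szB true))) boxC 345 ⟨3, 8, 39, 14⟩ = true := by decide +kernel

def gyC10110 :
    Ex.checkShifted (inChart (Strip.SgnNeg.cGY 10 true (spE false) (sgE true) (soE true) (szE szB false))) boxC 339 ⟨3, 8, 39, 14⟩ = true := by decide +kernel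

def gyC10111 :
    Ex.checkShifted (inChart (Strip.SgnNeg.cGY 10 true (spE false) (sgE true) (soE true) (szE szB true))) boxC 345 ⟨3, 8, 39, 14⟩ = true := by decide +kernel

def gyC11000 :
    Ex.checkShifted (inChart (Strip.SgnNeg.cGY 10 true (spE true) (sgE false) (soE false) (szE szB false))) boxC 339 ⟨3, 8, 39, 14⟩ = true := by decide +kernel

def gyC11001 :
    Ex.checkShifted (inChart (Strip.SgnNeg.cGY 10 true (spE true) (sgE false) (soE false) (szE szB true))) boxC 345 ⟨3, 8, 39, 14⟩ = true := by decide +kernel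

def gyC11010 :
    Ex.checkShifted (inChart (Strip.SgnNeg.cGY 10 true (spE true) (sgE false) (soE true) (szE szB false))) boxC 339 ⟨3, 8, 39, 14⟩ = true := by decide +kernel

def gyC11011 :
    Ex.checkShifted (inChart (Strip.SgnNeg.cGY 10 true (spE true) (sgE false) (soE true) (szE szB true))) boxC 345 ⟨3, 8, 39, 14⟩ = true := by decide +kernel

def gyC11100 :
    Ex.checkShifted (inChart (Strip.SgnNeg.cGY 10 true (spE true) (sgE true) (soE false) (szE szB false))) boxC 339 ⟨3, 8, 39, 14⟩ = true := by decide +kernel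

def gyC11101 :
    Ex.checkShifted (inChart (Strip.SgnNeg.cGY 10 true (spE true) (sgE true) (soE false) (szE szB true))) boxC 345 ⟨3, 8, 39, 14⟩ = true := by decide +kernel

def gyC11110 :
    Ex.checkShifted (inChart (Strip.SgnNeg.cGY 10 true (spE true) (sgE true) (soE true) (szE szB false))) boxC 339 ⟨3, 8, 39, 14⟩ = true := by decide +kernel

def gyC11111 :
    Ex.checkShifted (inChart (Strip.SgnNeg.cGY 10 true (spE true) (sgE true) (soE true) (szE szB true))) boxC 345 ⟨3, 8, 39, 14⟩ = true := by decide +kernel

end Vale.Agent.P100.Calib.Closed.Strip.SgnNeg
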