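import Vale.Agent.P100.Calib.SlabStripNegExpr
import Vale.Agent.P100.Calib.SlabPackShift

/-!
# Checks below the crossing in the strip, piece C
-/

set_option linter.defProp false

namespace Vale.Agent.P100.Calib.Closed.Strip.SgnNeg

open BoxPos All.SgnNeg

def mgC0000 :
    Ex.checkShifted (inChart (sN (spE false) (sgE false) (soE false) (swE true) (szE szB false))) boxC 409 ⟨4, 8, 45, 19⟩ = true := by decide +kernel

def mgC0001 :
    Ex.checkShifted (inChart (sN (spE false) (sgE false) (soE false) (swE true) (szE szB true))) boxC 415 ⟨4, 8, 45, 19⟩ = true := by decide +kernel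

def mgC0010 :
    Ex.checkShifted (inChart (sN (spE false) (sgE false) (soE true) (swE true) (szE szB false))) boxC 409 ⟨4, 8, 45, 19⟩ = true := by decide +kernel

def mgC0011 :
    Ex.checkShifted (inChart (sN (spE false) (sgE false) (soE true) (swE true) (szE szB true))) boxC 415 ⟨4, 8, 45, 19⟩ = true := by decide +kernel

def mgC0100 :
    Ex.checkShifted (inChart (sN (spE false) (sgE true) (soE false) (swE true) (szE szB false))) boxC 409 ⟨4, 8, 45, 19⟩ = true := by decide +kernel

def mgC0101 :
    Ex.checkShifted (inChart (sN (spE false) (sgE true) (soE false) (swE true) (szE szB true))) boxC 415 ⟨4, 8, 45, 19⟩ = true := by decide +kernel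

def mgC0110 :
    Ex.checkShifted (inChart (sN (spE false) (sgE true) (soE true) (swE true) (szE szB false))) boxC 409 ⟨4, 8, 45, 19⟩ = true := by decide +kernel

def mgC0111 :
    Ex.checkShifted (inChart (sN (spE false) (sgE true) (soE true) (swE true) (szE szB true))) boxC 415 ⟨4, 8, 45, 19⟩ = true := by decide +kernel

def mgC1000 :
    Ex.checkShifted (inChart (sN (spE true) (sgE false) (soE false) (swE true) (szE szB false))) boxC 409 ⟨4, 8, 45, 19⟩ = true := by decide +kernel

def mgC1001 :
    Ex.checkShifted (inChart (sN (spE true) (sgE false) (soE false) (swE true) (szE szB true))) boxC 415 ⟨4, 8, 45, 19⟩ = true := by decide +kernel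

def mgC1010 :
    Ex.checkShifted (inChart (sN (spE true) (sgE false) (soE true) (swE true) (szE szB false))) boxC 409 ⟨4, 8, 45, 19⟩ = true := by decide +kernel

def mgC1011 :
    Ex.checkShifted (inChart (sN (spE true) (sgE false) (soE true) (swE true) (szE szB true))) boxC 415 ⟨4, 8, 45, 19⟩ = true := by decide +kernel

def mgC1100 :
    Ex.checkShifted (inChart (sN (spE true) (sgE true) (soE false) (swE true) (szE szB false))) boxC 409 ⟨4, 8, 45, 19⟩ = true := by decide +kernel

def mgC1101 :
    Ex.checkShifted (inChart (sN (spE true) (sgE true) (soE false) (swE true) (szE szB true))) boxC 415 ⟨4, 8, 45, 19⟩ = true := by decide +kernel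

def mgC1110 :
    Ex.checkShifted (inChart (sN (spE true) (sgE true) (soE true) (swE true) (szE szB false))) boxC 409 ⟨4, 8, 45, 19⟩ = true := by decide +kernel

def mgC1111 :
    Ex.checkShifted (inChart (sN (spE true) (sgE true) (soE true) (swE true) (szE szB true))) boxC 415 ⟨4, 8, 45, 19⟩ = true := by decide +kernel

end Vale.Agent.P100.Calib.Closed.Strip.SgnNeg
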