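import Vale.Agent.P100.Calib.SlabStripNegExpr
import Vale.Agent.P100.Calib.SlabPackShift

/-!
# Checks below the crossing in the strip, piece C
-/

set_option linter.defProp false

namespace Vale.Agent.P100.Calib.Closed.Strip.SgnNeg

open BoxPos All.SgnNeg

def lgC000 :
    Ex.checkShifted (inChart (sLG (soE false) (soE false) (szE szB false))) boxC 245 ⟨2, 6, 27, 11⟩ = true := by decide +kernel

def lgC001 :
    Ex.checkShifted (inChart (sLG (soE false) (soE false) (szE szB true))) boxC 249 ⟨2, 6, 27, 11⟩ = true := by decide +kernel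

def lgC010 :
    Ex.checkShifted (inChart (sLG (soE false) (soE true) (szE szB false))) boxC 245 ⟨2, 6, 27, 11⟩ = true := by decide +kernel

def lgC011 :
    Ex.checkShifted (inChart (sLG (soE false) (soE true) (szE szB true))) boxC 249 ⟨2, 6, 27, 11⟩ = true := by decide +kernel

def lgC100 :
    Ex.checkShifted (inChart (sLG (soE true) (soE false) (szE szB false))) boxC 245 ⟨2, 6, 27, 11⟩ = true := by decide +kernel

def lgC101 :
    Ex.checkShifted (inChart (sLG (soE true) (soE false) (szE szB true))) boxC 249 ⟨2, 6, 27, 11⟩ = true := by decide +kernel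

def lgC110 :
    Ex.checkShifted (inChart (sLG (soE true) (soE true) (szE szB false))) boxC 245 ⟨2, 6, 27, 11⟩ = true := by decide +kernel

def lgC111 :
    Ex.checkShifted (inChart (sLG (soE true) (soE true) (szE szB true))) boxC 249 ⟨2, 6, 27, 11⟩ = true := by decide +kernel

def dgyC0 :
    Ex.checkShifted (inChart (Strip.SgnNeg.dGY 10 false)) boxC 223 ⟨0, 5, 26, 10⟩ = true := by decide +kernel

def dlC0 :
    Ex.checkShifted (inChart (Strip.SgnNeg.dL 10 false)) boxC 286 ⟨0, 5, 31, 15⟩ = true := by decide +kernel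

def dgyC1 :
    Ex.checkShifted (inChart (Strip.SgnNeg.dGY 10 true)) boxC 223 ⟨0, 5, 26, 10⟩ = true := by decide +kernel

def dlC1 :
    Ex.checkShifted (inChart (Strip.SgnNeg.dL 10 true)) boxC 286 ⟨0, 5, 31, 15⟩ = true := by decide +kernel

def dGGC :
    Ex.checkShifted (inChart (Strip.SgnNeg.dGG)) boxC 128 ⟨0, 5, 18, 3⟩ = true := by decide +kernel

def dGZC :
    Ex.checkShifted (inChart (dGZ)) boxC 242 ⟨0, 7, 28, 11⟩ = true := by decide +kernel

def dTEC :
    Ex.checkShifted (inChart (Strip.SgnNeg.dTE)) boxC 140 ⟨0, 4, 18, 5⟩ = true := by decide +kernel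

def dTZC :
    Ex.checkShifted (inChart (dTZ)) boxC 287 ⟨0, 6, 31, 15⟩ = true := by decide +kernel

def dNEC :
    Ex.checkShifted (inChart (Strip.SgnNeg.dNE)) boxC 135 ⟨0, 4, 17, 5⟩ = true := by decide +kernel

def dNZC :
    Ex.checkShifted (inChart (dNZ)) boxC 281 ⟨0, 6, 30, 15⟩ = true := by decide +kernel

def dNPC :
    Ex.checkShifted (inChart (Strip.SgnNeg.dNP)) boxC 265 ⟨0, 5, 29, 14⟩ = true := by decide +kernel

def dTWC :
    Ex.checkShifted (inChart (dTW)) boxC 64 ⟨0, 2, 7, 2⟩ = true := by decide +kernel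

def dNWC :
    Ex.checkShifted (inChart (dNW)) boxC 59 ⟨0, 2, 6, 2⟩ = true := by decide +kernel

def dXWC :
    Ex.checkShifted (inChart (dXW)) boxC 34 ⟨0, 1, 4, 1⟩ = true := by decide +kernel

def envPLC :
    Ex.checkShifted (inChart (Strip.SgnNeg.envPL)) boxC 146 ⟨3, 3, 16, 6⟩ = true := by decide +kernel

def envPHC :
    Ex.checkShifted (inChart (Strip.SgnNeg.envPH)) boxC 153 ⟨3, 3, 17, 6⟩ = true := by decide +kernel

def envGHC :
    Ex.checkShifted (inChart (Strip.SgnNeg.envGH)) boxC 159 ⟨3, 3, 16, 8⟩ = true := by decide +kernel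

def envGLC :
    Ex.checkShifted (inChart (Strip.SgnNeg.envGL)) boxC 167 ⟨3, 3, 17, 8⟩ = true := by decide +kernel

def envOLC0 :
    Ex.checkShifted (inChart (envOL)) boxC₀ 101 ⟨2, 2, 11, 4⟩ = true := by decide +kernel

def envOLC1 :
    Ex.checkShifted (inChart (envOL)) boxC₁ 101 ⟨2, 2, 11, 4⟩ = true := by decide +kernel

def envOHC :
    Ex.checkShifted (inChart (envOH)) boxC 90 ⟨2, 2, 10, 4⟩ = true := by decide +kernel

end Vale.Agent.P100.Calib.Closed.Strip.SgnNeg
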