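import Vale.Agent.P100.Calib.SlabStripNegExpr
import Vale.Agent.P100.Calib.SlabPackShift

/-!
# Checks below the crossing in the strip, piece C
-/

set_option linter.defProp false

namespace Vale.Agent.P100.Calib.Closed.Strip.SgnNeg

open BoxPos All.SgnNeg

def xbC0000 :
    Ex.checkShifted (inChart (Strip.SgnNeg.cX (nC 21 25) false (spE false) (sgE false) (soE false) (swE false))) boxC 263 ⟨3, 5, 27, 13⟩ = true := by decide +kernel

def xbC0001 :
    Ex.checkShifted (inChart (Strip.SgnNeg.cX (nC 21 25) false (spE false) (sgE false) (soE true) (swE false))) boxC 263 ⟨3, 5, 27, 13⟩ = true := by decide +kernel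

def xbC0010 :
    Ex.checkShifted (inChart (Strip.SgnNeg.cX (nC 21 25) false (spE false) (sgE true) (soE false) (swE false))) boxC 263 ⟨3, 5, 27, 13⟩ = true := by decide +kernel

def xbC0011 :
    Ex.checkShifted (inChart (Strip.SgnNeg.cX (nC 21 25) false (spE false) (sgE true) (soE true) (swE false))) boxC 263 ⟨3, 5, 27, 13⟩ = true := by decide +kernel

def xbC0100 :
    Ex.checkShifted (inChart (Strip.SgnNeg.cX (nC 21 25) false (spE true) (sgE false) (soE false) (swE false))) boxC 263 ⟨3, 5, 27, 13⟩ = true := by decide +kernel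

def xbC0101 :
    Ex.checkShifted (inChart (Strip.SgnNeg.cX (nC 21 25) false (spE true) (sgE false) (soE true) (swE false))) boxC 263 ⟨3, 5, 27, 13⟩ = true := by decide +kernel

def xbC0110 :
    Ex.checkShifted (inChart (Strip.SgnNeg.cX (nC 21 25) false (spE true) (sgE true) (soE false) (swE false))) boxC 263 ⟨3, 5, 27, 13⟩ = true := by decide +kernel

def xbC0111 :
    Ex.checkShifted (inChart (Strip.SgnNeg.cX (nC 21 25) false (spE true) (sgE true) (soE true) (swE false))) boxC 263 ⟨3, 5, 27, 13⟩ = true := by decide +kernel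

def xbC1000 :
    Ex.checkShifted (inChart (Strip.SgnNeg.cX (nC 21 25) true (spE false) (sgE false) (soE false) (swE true))) boxC 261 ⟨3, 5, 27, 13⟩ = true := by decide +kernel

def xbC1001 :
    Ex.checkShifted (inChart (Strip.SgnNeg.cX (nC 21 25) true (spE false) (sgE false) (soE true) (swE true))) boxC 261 ⟨3, 5, 27, 13⟩ = true := by decide +kernel

def xbC1010 :
    Ex.checkShifted (inChart (Strip.SgnNeg.cX (nC 21 25) true (spE false) (sgE true) (soE false) (swE true))) boxC 261 ⟨3, 5, 27, 13⟩ = true := by decide +kernel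

def xbC1011 :
    Ex.checkShifted (inChart (Strip.SgnNeg.cX (nC 21 25) true (spE false) (sgE true) (soE true) (swE true))) boxC 261 ⟨3, 5, 27, 13⟩ = true := by decide +kernel

def xbC1100 :
    Ex.checkShifted (inChart (Strip.SgnNeg.cX (nC 21 25) true (spE true) (sgE false) (soE false) (swE true))) boxC 261 ⟨3, 5, 27, 13⟩ = true := by decide +kernel

def xbC1101 :
    Ex.checkShifted (inChart (Strip.SgnNeg.cX (nC 21 25) true (spE true) (sgE false) (soE true) (swE true))) boxC 261 ⟨3, 5, 27, 13⟩ = true := by decide +kernel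

def xbC1110 :
    Ex.checkShifted (inChart (Strip.SgnNeg.cX (nC 21 25) true (spE true) (sgE true) (soE false) (swE true))) boxC 261 ⟨3, 5, 27, 13⟩ = true := by decide +kernel

def xbC1111 :
    Ex.checkShifted (inChart (Strip.SgnNeg.cX (nC 21 25) true (spE true) (sgE true) (soE true) (swE true))) boxC 261 ⟨3, 5, 27, 13⟩ = true := by decide +kernel

end Vale.Agent.P100.Calib.Closed.Strip.SgnNeg
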