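import Vale.Agent.P100.Calib.SlabStripNegSound
import Vale.Agent.P100.Calib.SlabStripNegChart
import Vale.Agent.P100.Calib.SlabStripNegCheckCGy
import Vale.Agent.P100.Calib.SlabStripNegCheckCX
import Vale.Agent.P100.Calib.SlabStripNegCheckCL
import Vale.Agent.P100.Calib.SlabStripNegCheckCLz
import Vale.Agent.P100.Calib.SlabStripNegCheckCN
import Vale.Agent.P100.Calib.SlabStripNegCheckCRest

/-!
# The points of piece C are good
-/

namespace Vale.Agent.P100.Calib.Closed.Strip.SgnNeg

open BoxPos All.SgnNeg

theorem gyC_all {x y : ℕ → ℝ} (hy : InBox boxC y) (hx : InChart y x) :
    ∀ s i j l m, 0 ≤ ev x (Strip.SgnNeg.cGY 10 s (spE i) (sgE j) (soE l) (szE szB m)) := by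
  intro s i j l m
  exact match s, i, j, l, m with
    | false, false, false, false, false => nonneg_inChart gyC00000 hy hx
    | false, false, false, false, true => nonneg_inChart gyC00001 hy hx
    | false, false, false, true, false => nonneg_inChart gyC00010 hy hx
    | false, false, false, true, true => nonneg_inChart gyC00011 hy hx
    | false, false, true, false, false => nonneg_inChart gyC00100 hy hx
    | false, false, true, false, true => nonneg_inChart gyC00101 hy hx
    | false, false, true, true, false => nonneg_inChart gyC00110 hy hx
    | false, false, true, true, true => nonneg_inChart gyC00111 hy hx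
    | false, true, false, false, false => nonneg_inChart gyC01000 hy hx
    | false, true, false, false, true => nonneg_inChart gyC01001 hy hx
    | false, true, false, true, false => nonneg_inChart gyC01010 hy hx
    | false, true, false, true, true => nonneg_inChart gyC01011 hy hx
    | false, true, true, false, false => nonneg_inChart gyC01100 hy hx
    | false, true, true, false, true => nonneg_inChart gyC01101 hy hx
    | false, true, true, true, false => nonneg_inChart gyC01110 hy hx
    | false, true, true, true, true => nonneg_inChart gyC01111 hy hx
    | true, false, false, false, false => nonneg_inChart gyC10000 hy hx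
    | true, false, false, false, true => nonneg_inChart gyC10001 hy hx
    | true, false, false, true, false => nonneg_inChart gyC10010 hy hx
    | true, false, false, true, true => nonneg_inChart gyC10011 hy hx
    | true, false, true, false, false => nonneg_inChart gyC10100 hy hx
    | true, false, true, false, true => nonneg_inChart gyC10101 hy hx
    | true, false, true, true, false => nonneg_inChart gyC10110 hy hx
    | true, false, true, true, true => nonneg_inChart gyC10111 hy hx
    | true, true, false, false, false => nonneg_inChart gyC11000 hy hx
    | true, true, false, false, true => nonneg_inChart gyC11001 hy hx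
    | true, true, false, true, false => nonneg_inChart gyC11010 hy hx
    | true, true, false, true, true => nonneg_inChart gyC11011 hy hx
    | true, true, true, false, false => nonneg_inChart gyC11100 hy hx
    | true, true, true, false, true => nonneg_inChart gyC11101 hy hx
    | true, true, true, true, false => nonneg_inChart gyC11110 hy hx
    | true, true, true, true, true => nonneg_inChart gyC11111 hy hx

theorem xbC_all {x y : ℕ → ℝ} (hy : InBox boxC y) (hx : InChart y x) :
    ∀ s i j l, 0 ≤ ev x (Strip.SgnNeg.cX (nC 21 25) s (spE i) (sgE j) (soE l) (swE s)) := by
  intro s i j l
  exact match s, i, j, l with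
    | false, false, false, false => nonneg_inChart xbC0000 hy hx
    | false, false, false, true => nonneg_inChart xbC0001 hy hx
    | false, false, true, false => nonneg_inChart xbC0010 hy hx
    | false, false, true, true => nonneg_inChart xbC0011 hy hx
    | false, true, false, false => nonneg_inChart xbC0100 hy hx
    | false, true, false, true => nonneg_inChart xbC0101 hy hx
    | false, true, true, false => nonneg_inChart xbC0110 hy hx
    | false, true, true, true => nonneg_inChart xbC0111 hy hx
    | true, false, false, false => nonneg_inChart xbC1000 hy hx
    | true, false, false, true => nonneg_inChart xbC1001 hy hx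
    | true, false, true, false => nonneg_inChart xbC1010 hy hx
    | true, false, true, true => nonneg_inChart xbC1011 hy hx
    | true, true, false, false => nonneg_inChart xbC1100 hy hx
    | true, true, false, true => nonneg_inChart xbC1101 hy hx
    | true, true, true, false => nonneg_inChart xbC1110 hy hx
    | true, true, true, true => nonneg_inChart xbC1111 hy hx

theorem arC_all {x y : ℕ → ℝ} (hy : InBox boxC y) (hx : InChart y x) :
    ∀ s i j l, 0 ≤ ev x (Strip.SgnNeg.cL 10 (nC 21 25) s (spE i) (sgE j) (soE l) (swE false) (szE szB s)) := by
  intro s i j l
  exact match s, i, j, l with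
    | false, false, false, false => nonneg_inChart arC0000 hy hx
    | false, false, false, true => nonneg_inChart arC0001 hy hx
    | false, false, true, false => nonneg_inChart arC0010 hy hx
    | false, false, true, true => nonneg_inChart arC0011 hy hx
    | false, true, false, false => nonneg_inChart arC0100 hy hx
    | false, true, false, true => nonneg_inChart arC0101 hy hx
    | false, true, true, false => nonneg_inChart arC0110 hy hx
    | false, true, true, true => nonneg_inChart arC0111 hy hx
    | true, false, false, false => nonneg_inChart arC1000 hy hx
    | true, false, false, true => nonneg_inChart arC1001 hy hx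
    | true, false, true, false => nonneg_inChart arC1010 hy hx
    | true, false, true, true => nonneg_inChart arC1011 hy hx
    | true, true, false, false => nonneg_inChart arC1100 hy hx
    | true, true, false, true => nonneg_inChart arC1101 hy hx
    | true, true, true, false => nonneg_inChart arC1110 hy hx
    | true, true, true, true => nonneg_inChart arC1111 hy hx

theorem azC_all {x y : ℕ → ℝ} (hy : InBox boxC y) (hx : InChart y x) :
    ∀ s i j l, 0 ≤ ev x (cLm 10 szB (spE i) (sgE j) (soE l) s) := by
  intro s i j l
  exact match s, i, j, l with
    | false, false, false, false => nonneg_inChart azC0000 hy hx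
    | false, false, false, true => nonneg_inChart azC0001 hy hx
    | false, false, true, false => nonneg_inChart azC0010 hy hx
    | false, false, true, true => nonneg_inChart azC0011 hy hx
    | false, true, false, false => nonneg_inChart azC0100 hy hx
    | false, true, false, true => nonneg_inChart azC0101 hy hx
    | false, true, true, false => nonneg_inChart azC0110 hy hx
    | false, true, true, true => nonneg_inChart azC0111 hy hx
    | true, false, false, false => nonneg_inChart azC1000 hy hx
    | true, false, false, true => nonneg_inChart azC1001 hy hx
    | true, false, true, false => nonneg_inChart azC1010 hy hx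
    | true, false, true, true => nonneg_inChart azC1011 hy hx
    | true, true, false, false => nonneg_inChart azC1100 hy hx
    | true, true, false, true => nonneg_inChart azC1101 hy hx
    | true, true, true, false => nonneg_inChart azC1110 hy hx
    | true, true, true, true => nonneg_inChart azC1111 hy hx

theorem mgC_all {x y : ℕ → ℝ} (hy : InBox boxC y) (hx : InChart y x) :
    ∀ i j l m, 0 ≤ ev x (sN (spE i) (sgE j) (soE l) (swE true) (szE szB m)) := by
  intro i j l m
  exact match i, j, l, m with
    | false, false, false, false => nonneg_inChart mgC0000 hy hx
    | false, false, false, true => nonneg_inChart mgC0001 hy hx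
    | false, false, true, false => nonneg_inChart mgC0010 hy hx
    | false, false, true, true => nonneg_inChart mgC0011 hy hx
    | false, true, false, false => nonneg_inChart mgC0100 hy hx
    | false, true, false, true => nonneg_inChart mgC0101 hy hx
    | false, true, true, false => nonneg_inChart mgC0110 hy hx
    | false, true, true, true => nonneg_inChart mgC0111 hy hx
    | true, false, false, false => nonneg_inChart mgC1000 hy hx
    | true, false, false, true => nonneg_inChart mgC1001 hy hx
    | true, false, true, false => nonneg_inChart mgC1010 hy hx
    | true, false, true, true => nonneg_inChart mgC1011 hy hx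
    | true, true, false, false => nonneg_inChart mgC1100 hy hx
    | true, true, false, true => nonneg_inChart mgC1101 hy hx
    | true, true, true, false => nonneg_inChart mgC1110 hy hx
    | true, true, true, true => nonneg_inChart mgC1111 hy hx

theorem lgC_all {x y : ℕ → ℝ} (hy : InBox boxC y) (hx : InChart y x) :
    ∀ i l m, 0 ≤ ev x (sLG (soE i) (soE l) (szE szB m)) := by
  intro i l m
  exact match i, l, m with
    | false, false, false => nonneg_inChart lgC000 hy hx
    | false, false, true => nonneg_inChart lgC001 hy hx
    | false, true, false => nonneg_inChart lgC010 hy hx
    | false, true, true => nonneg_inChart lgC011 hy hx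
    | true, false, false => nonneg_inChart lgC100 hy hx
    | true, false, true => nonneg_inChart lgC101 hy hx
    | true, true, false => nonneg_inChart lgC110 hy hx
    | true, true, true => nonneg_inChart lgC111 hy hx

theorem envOLC_split {x y : ℕ → ℝ} (hy : InBox boxC y) (hx : InChart y x) :
    0 ≤ ev x envOL := by
  rcases le_or_gt (9 / 20) (y 0) with h | h
  · exact nonneg_inChart envOLC1 (inBox_C₁ hy h) hx
  · exact nonneg_inChart envOLC0 (inBox_C₀ hy h) hx

/-- The points of piece C are good. -/
theorem goodC {x y : ℕ → ℝ} (hy : InBox boxC y) (hx : InChart y x) :
    Good 10 (nC 21 25) szB x where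
  gy := gyC_all hy hx
  xb := xbC_all hy hx
  arrow := arC_all hy hx
  az := azC_all hy hx
  mg := mgC_all hy hx
  lg := lgC_all hy hx
  cgy
    | false => nonneg_inChart dgyC0 hy hx
    | true => nonneg_inChart dgyC1 hy hx
  cl
    | false => nonneg_inChart dlC0 hy hx
    | true => nonneg_inChart dlC1 hy hx
  cgg := nonneg_inChart dGGC hy hx
  cgz := nonneg_inChart dGZC hy hx
  cte := nonneg_inChart dTEC hy hx
  ctz := nonneg_inChart dTZC hy hx
  cne := nonneg_inChart dNEC hy hx
  cnz := nonneg_inChart dNZC hy hx
  cnp := nonneg_inChart dNPC hy hx
  tw := nonneg_inChart dTWC hy hx
  nw := nonneg_inChart dNWC hy hx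
  xw := nonneg_inChart dXWC hy hx
  pl := nonneg_inChart envPLC hy hx
  ph := nonneg_inChart envPHC hy hx
  gh := nonneg_inChart envGHC hy hx
  gl := nonneg_inChart envGLC hy hx
  oh := nonneg_inChart envOHC hy hx
  ol := envOLC_split hy hx

end Vale.Agent.P100.Calib.Closed.Strip.SgnNeg
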