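import Vale.Agent.P100.Calib.SlabStripNegPoint
import Vale.Agent.P100.Calib.SlabStripNegA
import Vale.Agent.P100.Calib.SlabStripNegB
import Vale.Agent.P100.Calib.SlabStripNegC
import Vale.Agent.P100.Calib.SlabStripNeg

/-!
# The closed signs of the strip below the crossing

On `stripNeg`, at `u ≤ 0`, for every `n ≥ 7` and `31/100 < (S - d)/2`, the closed signs hold.
-/

set_option linter.unusedSimpArgs false

namespace Vale.Agent.P100.Calib.Closed.Strip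

open BoxPos All.SgnNeg

local instance signsAdd : Add Ex := ⟨Ex.add⟩
local instance signsSub : Sub Ex := ⟨Ex.sub⟩
local instance signsMul : Mul Ex := ⟨Ex.mul⟩

namespace SgnNeg

/-- The upper end of `D₂ d S²` holds for `I ≤ 1/10`. -/
theorem szA_bound {x : ℕ → ℝ} (hI : 0 < x 2) (hI1 : x 2 ≤ 1 / 10) (hd : 0 < pd x)
    (hdm : pd x ≤ 19 / 50 - 2 * x 2) :
    0 < ev x szA ∧ max 0 (rK1 x) / pd x ≤ ev x szA := by
  have e : ev x szA = 1 - 7 / 2 * x 2 := by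
    simp only [szA, ev_sub, ev_mul, ev_nC, ev_x₂]; push_cast; ring
  have h : 0 < ev x szA := by rw [e]; linarith
  refine ⟨h, (div_le_iff₀ hd).2 (max_le (mul_nonneg h.le hd.le) ?_)⟩
  have eS : pS x = 1 - 2 * x 2 := rfl
  have e2 : 2 * x 3 = pS x - pd x := by simp only [pd, pb]; ring
  rw [e, rK1, e2]
  have h2 : x 2 * (5 / 2 * pd x - pS x) ≤ 0 :=
    mul_nonpos_of_nonneg_of_nonpos hI.le (by linarith)
  rw [eS] at h2 ⊢
  nlinarith

/-- The upper end of `D₂ d S²` holds for `I ≤ 1/7`. -/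
theorem szB_bound {x : ℕ → ℝ} (hI : 0 < x 2) (hI1 : x 2 ≤ 1 / 7) (hd : 0 < pd x)
    (hdm : pd x ≤ 19 / 50 - 2 * x 2) :
    0 < ev x szB ∧ max 0 (rK1 x) / pd x ≤ ev x szB := by
  have e : ev x szB = 12 * (1 / 7 - x 2) + 1 / 50 := by
    simp only [szB, ev_add, ev_sub, ev_mul, ev_nC, ev_x₂]; push_cast; ring
  have h : 0 < ev x szB := by rw [e]; linarith
  refine ⟨h, (div_le_iff₀ hd).2 (max_le (mul_nonneg h.le hd.le) ?_)⟩
  have eS : pS x = 1 - 2 * x 2 := rfl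
  have e2 : 2 * x 3 = pS x - pd x := by simp only [pd, pb]; ring
  rw [e, rK1, e2, eS]
  suffices 0 ≤ pd x * (12 / 7 + 1 / 50 - 1 - 11 * x 2) + x 2 * (1 - 2 * x 2) by
    nlinarith
  rcases le_or_gt 0 (12 / 7 + 1 / 50 - 1 - 11 * x 2) with hc | hc
  · exact add_nonneg (mul_nonneg hd.le hc) (mul_nonneg hI.le (by linarith))
  · nlinarith [mul_le_mul_of_nonpos_right hdm hc.le, mul_self_nonneg (40 * x 2 - 93 / 20)]

/-- The coordinates of a point of the strip below the crossing. -/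
theorem inBox_of {C : ℕ → Pack.Chart} {y : ℕ → ℝ}
    (h0 : ∃ t : ℝ, 0 ≤ t ∧ 0 < ((C 0).c : ℝ) + (C 0).d * t ∧
      ((C 0).a : ℝ) + (C 0).b * t = y 0 * (((C 0).c : ℝ) + (C 0).d * t))
    (h1 : ∃ t : ℝ, 0 ≤ t ∧ 0 < ((C 1).c : ℝ) + (C 1).d * t ∧
      ((C 1).a : ℝ) + (C 1).b * t = y 1 * (((C 1).c : ℝ) + (C 1).d * t))
    (h2 : ∃ t : ℝ, 0 ≤ t ∧ 0 < ((C 2).c : ℝ) + (C 2).d * t ∧
      ((C 2).a : ℝ) + (C 2).b * t = y 2 * (((C 2).c : ℝ) + (C 2).d * t))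
    (h3 : ∃ t : ℝ, 0 ≤ t ∧ 0 < ((C 3).c : ℝ) + (C 3).d * t ∧
      ((C 3).a : ℝ) + (C 3).b * t = y 3 * (((C 3).c : ℝ) + (C 3).d * t)) : InBox C y := by
  intro i hi
  interval_cases i <;> assumption

variable {y : ℕ → ℝ}

theorem chart_W (h0 : 0 ≤ y 0) (h1 : y 0 < 3 / 4) :
    ∃ t : ℝ, 0 ≤ t ∧ 0 < ((1 : ℤ) : ℝ) + (4 : ℤ) * t ∧
      ((0 : ℤ) : ℝ) + (3 : ℤ) * t = y 0 * (((1 : ℤ) : ℝ) + (4 : ℤ) * t) :=
  chart_rise (by norm_num) (by norm_num) (by push_cast; linarith) (by push_cast; linarith)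

theorem chart_side (h0 : 0 < y 3) (h1 : y 3 ≤ 1) :
    ∃ t : ℝ, 0 ≤ t ∧ 0 < ((1 : ℤ) : ℝ) + (1 : ℤ) * t ∧
      ((1 : ℤ) : ℝ) + (0 : ℤ) * t = y 3 * (((1 : ℤ) : ℝ) + (1 : ℤ) * t) :=
  chart_fall (by norm_num) (by norm_num) (by push_cast; linarith) (by push_cast; linarith)

/-- The points of piece A. -/
theorem inBox_A (hW0 : 0 ≤ y 0) (hW : y 0 < 3 / 4) (hw0 : 0 < y 1) (hw1 : y 1 ≤ 1) (hI0 : 0 < y 2)
    (hI : y 2 ≤ 1 / 10) (hθ0 : 0 < y 3) (hθ1 : y 3 ≤ 1) : InBox SgnNeg.boxA y :=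
  inBox_of (chart_W hW0 hW)
    (chart_fall (A := 1) (B := 0) (C := 1) (E := 1) (by norm_num) (by norm_num)
      (by push_cast; linarith) (by push_cast; linarith))
    (chart_fall (A := 1) (B := 0) (C := 10) (E := 1) (by norm_num) (by norm_num)
      (by push_cast; linarith) (by push_cast; linarith)) (chart_side hθ0 hθ1)

/-- The points of piece B. -/
theorem inBox_B (hW0 : 0 ≤ y 0) (hW : y 0 < 3 / 4) (hw0 : 0 < y 1) (hw1 : y 1 ≤ 1 / 2)
    (hI0 : 1 / 10 < y 2) (hI : y 2 ≤ 1 / 7) (hθ0 : 0 < y 3) (hθ1 : y 3 ≤ 1) :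
    InBox SgnNeg.boxB y :=
  inBox_of (chart_W hW0 hW)
    (chart_fall (A := 1) (B := 0) (C := 2) (E := 1) (by norm_num) (by norm_num)
      (by push_cast; linarith) (by push_cast; linarith))
    (chart_fall (A := 1) (B := 1) (C := 7) (E := 10) (by norm_num) (by norm_num)
      (by push_cast; linarith) (by push_cast; linarith)) (chart_side hθ0 hθ1)

/-- The points of piece C. -/
theorem inBox_C (hW0 : 0 ≤ y 0) (hW : y 0 < 3 / 4) (hw0 : 1 / 2 < y 1) (hw1 : y 1 ≤ 1)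
    (hI0 : 1 / 10 < y 2) (hI : y 2 ≤ 1 / 7) (hθ0 : 0 < y 3) (hθ1 : y 3 ≤ 1) :
    InBox SgnNeg.boxC y :=
  inBox_of (chart_W hW0 hW)
    (chart_fall (A := 1) (B := 1) (C := 1) (E := 2) (by norm_num) (by norm_num)
      (by push_cast; linarith) (by push_cast; linarith))
    (chart_fall (A := 1) (B := 1) (C := 7) (E := 10) (by norm_num) (by norm_num)
      (by push_cast; linarith) (by push_cast; linarith)) (chart_side hθ0 hθ1)

/-- The coordinates in the chart of a point of the region. -/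
theorem exists_coords {x : ℕ → ℝ} {W : ℝ} (hU : x 0 = x 1 * W)
    (hX : 1 - 3 * x 2 < x 1) (hX1 : x 1 ≤ 9 / 8 + 2 * x 2) (hI : 0 < x 2) (hI1 : x 2 ≤ 1 / 7)
    (ha : 31 / 100 < x 3) (hd : 0 < 1 - 2 * x 2 - 2 * x 3) :
    ∃ y : ℕ → ℝ, InChart y x ∧ y 0 = W ∧ 0 < y 1 ∧ y 1 ≤ 1 ∧ y 2 = x 2 ∧ 0 < y 3 ∧ y 3 ≤ 1 := by
  have hden : 0 < 1 / 8 + 5 * x 2 := by linarith
  have hdd : 0 < 19 / 50 - 2 * x 2 := by linarith
  refine ⟨fun i => match i with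
    | 0 => W
    | 1 => (x 1 - (1 - 3 * x 2)) / (1 / 8 + 5 * x 2)
    | 2 => x 2
    | _ => (1 - 2 * x 2 - 2 * x 3) / (19 / 50 - 2 * x 2), ⟨hU, ?_, rfl, ?_⟩, rfl,
    div_pos (by linarith) hden, (div_le_one hden).2 (by linarith), rfl,
    div_pos hd hdd, (div_le_one hdd).2 (by linarith)⟩
  · show x 1 = 1 - 3 * x 2 + (x 1 - (1 - 3 * x 2)) / (1 / 8 + 5 * x 2) * (1 / 8 + 5 * x 2)
    rw [div_mul_cancel₀ _ hden.ne']; ring
  · show x 3 = 1 / 2 * (1 - 2 * x 2 -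
      (1 - 2 * x 2 - 2 * x 3) / (19 / 50 - 2 * x 2) * (19 / 50 - 2 * x 2))
    rw [div_mul_cancel₀ _ hdd.ne']; ring

end SgnNeg

open SgnNeg

/-- **The closed signs of the strip below the crossing**, every dimension from seven on. -/
theorem signsNeg_strip {n : ℕ} {d S u v t : ℝ} (hn : 7 ≤ n) (hb : All.ChartBox n d S)
    (ha : 31 / 100 < (S - d) / 2) (hu : u ≤ 0) (hN : Band.stripNeg d S u v t) :
    ChartSigns d S u v t := by
  have hn7 : (7 : ℝ) ≤ n := by exact_mod_cast hn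
  have hS1 : 0 < 1 - S := by linarith [hb.S_lt]
  have hIS : Band.allStabI ((S - d) / 2) ((S + d) / 2) = (1 - S) / 2 := by
    rw [Band.allStabI]; ring
  obtain ⟨h₀, h₁, h₂, h₃, h₄⟩ := hN
  simp only [Band.stripNegP, hIS] at h₀ h₁ h₂ h₃ h₄
  set I := (1 - S) / 2 with hId
  set a := (S - d) / 2 with hA
  have hI0 : 0 < I := by linarith
  have hI1 : I < 1 / 7 := by
    have := hb.dim_low
    rw [lt_div_iff₀ hS1] at this
    linarith [mul_le_mul_of_nonneg_right hn7 hS1.le]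
  have eI : 1 - S = 2 * I := by linarith
  have hII : I ^ 2 ≤ 1 / 49 := by nlinarith
  have hd : 0 < d := hb.pos
  have hdm : d ≤ 19 / 50 - 2 * I := by linarith
  have hX₀ : 1 - 3 * I + 6 * I ^ 2 ≤ v / (1 - S) := by
    rw [le_div_iff₀ hS1, eI]; linarith
  have hX₁ : v / (1 - S) ≤ 9 / 8 + 2 * I := by
    rw [div_le_iff₀ hS1, eI]; linarith
  have hI2 : 0 < I ^ 2 := pow_pos hI0 2
  have hXp : 0 < v / (1 - S) := by linarith
  have hv : 0 < v := pos_of_mul_pos_right (a := (1 - S)⁻¹)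
    (by rw [← div_eq_inv_mul]; exact hXp) (inv_nonneg.2 hS1.le)
  have hK : (1 - a) * (1 + 3 / 5 * I) < 3 / 4 := by
    have := mul_le_mul (show 1 - a ≤ 69 / 100 by linarith)
      (show 1 + 3 / 5 * I ≤ 38 / 35 by linarith) (by linarith) (by norm_num)
    linarith
  have hW : -u / v < 3 / 4 := by
    rw [div_lt_iff₀ hv]
    linarith [mul_lt_mul_of_pos_right hK hv]
  have hW0 : 0 ≤ -u / v := div_nonneg (by linarith) hv.le
  set x := All.SgnNeg.pt d S u v with hx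
  have x0e : x 0 = -u / (1 - S) := rfl
  have x1e : x 1 = v / (1 - S) := rfl
  have x2e : x 2 = I := rfl
  have x3e : x 3 = a := rfl
  have eU : x 0 = x 1 * (-u / v) := by
    rw [x0e, x1e]; field_simp
  have hU : x 0 ≤ 9 / 8 := by
    rw [eU]
    nlinarith [mul_le_mul (show x 1 ≤ 3 / 2 by rw [x1e]; linarith) hW.le hW0 (by norm_num)]
  have h : Region x := ⟨⟨div_nonneg (by linarith) hS1.le, hXp.le, hI0, hI1.le,
    by show I ≤ a; linarith, by show 0 < 1 - 2 * I - 2 * a; linarith⟩, ha.le,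
    by show v / (1 - S) ≤ 3 / 2; linarith, hU⟩
  obtain ⟨y, hc, y0, hw0, hw1, y2, hθ0, hθ1⟩ := exists_coords eU
    (show 1 - 3 * I < v / (1 - S) by linarith) (show v / (1 - S) ≤ 9 / 8 + 2 * I from hX₁)
    (show 0 < I from hI0) (show I ≤ 1 / 7 from hI1.le) (show 31 / 100 < a from ha)
    (show 0 < 1 - 2 * I - 2 * a by linarith)
  rw [← y0] at hW hW0
  have hpd : pd x = d := by simp only [pd, pb, pS, x2e, x3e]; linarith
  have w₀ : ev x (swE false) = 2 - 27 / 10 * a - 13 * I + 60 * I ^ 2 := by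
    simp only [swE, ev_add, ev_sub, ev_mul, ev_nC, ev_x₂, ev_x₃, x2e, x3e]; push_cast; ring
  have w₁ : ev x (swE true) = 11 / 5 + 25 * (a - 31 / 100) + 8 * I := by
    simp only [swE, ev_add, ev_sub, ev_mul, ev_nC, ev_x₂, ev_x₃, x2e, x3e]; push_cast; ring
  have h₃' : Band.allNegS a ((S + d) / 2) (ev x (swE false)) ≤ t := by rw [w₀]; exact h₃
  have h₄' : t ≤ Band.allNegS a ((S + d) / 2) (ev x (swE true)) := by rw [w₁]; exact h₄
  have hIp : 0 < x 2 := hI0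
  rcases le_or_gt I (1 / 10) with hI10 | hI10
  · obtain ⟨hZ0, hZ⟩ := szA_bound hIp hI10 (hpd ▸ hd) (by rw [hpd]; exact hdm)
    exact SgnNeg.signs_of_good (by norm_num) hb h hXp hZ hZ0 (SgnNeg.goodA
      (inBox_A hW0 hW hw0 hw1 (y2 ▸ hIp) (y2 ▸ hI10) hθ0 hθ1) hc) h₃' h₄'
  obtain ⟨hZ0, hZ⟩ := szB_bound hIp hI1.le (hpd ▸ hd) (by rw [hpd]; exact hdm)
  have hI7 : x 2 ≤ 1 / 7 := hI1.le
  have hI10' : 1 / 10 < x 2 := hI10
  rcases le_or_gt (y 1) (1 / 2) with hw | hw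
  · exact SgnNeg.signs_of_good (by norm_num) hb h hXp hZ hZ0 (SgnNeg.goodB
      (inBox_B hW0 hW hw0 hw (y2 ▸ hI10') (y2 ▸ hI7) hθ0 hθ1) hc) h₃' h₄'
  · exact SgnNeg.signs_of_good (by norm_num) hb h hXp hZ hZ0 (SgnNeg.goodC
      (inBox_C hW0 hW hw hw1 (y2 ▸ hI10') (y2 ▸ hI7) hθ0 hθ1) hc) h₃' h₄'

end Vale.Agent.P100.Calib.Closed.Strip
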