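import Vale.Agent.P100.Calib.SlabMainOrbit
import Vale.Agent.P100.Calib.SlabSignsStripNeg

/-!
# The closed signs along orbits of the strip at and below the crossing
-/

set_option linter.unusedVariables false

namespace Vale.Agent.P100.Calib.Band

open Vale.Agent.P100.Bubble Chart Closed

/-- **The closed signs of the strip at and below the crossing** in every dimension from seven
on. -/
theorem orbit_signs_strip_neg {n : ℕ} (hn : 7 ≤ n) : OrbitSignsStrip n ZoneNeg := by
  intro N p q S R x y s dx dy hc hf hb hcb ha z hz hκ hR
  have h7 : 7 ≤ N := by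
    have h := hcb.dim_low
    rw [← hb.dim_eq] at h
    have : (7 : ℝ) ≤ n := by exact_mod_cast hn
    linarith
  refine Strip.signsNeg_strip hn hcb (by linarith) ?_ (orbit_stripNeg hc hf hb h7 ha hz hR hκ)
  exact div_nonpos_of_nonpos_of_nonneg
    (mul_nonpos_of_nonpos_of_nonneg (mul_nonpos_of_nonneg_of_nonpos two_pos.le hR)
      (hf.x_pos z hz).le) (by linarith [hb.six])

end Vale.Agent.P100.Calib.Band
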