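import Vale.Agent.P100.Calib.SlabMainOrbit
import Vale.Agent.P100.Calib.SlabStripFirstOrbit
import Vale.Agent.P100.Calib.SlabStripNegOrbit

/-!
# The strip above the crossing from its stretches
-/

set_option linter.unusedVariables false

open Set Laplacian

namespace Vale.Agent.P100.Calib.Band

open Vale.Agent.P100.Bubble Chart Closed

variable {n : ℕ}

/-- The middle stretch of the strip. -/
def ZoneStripMid : ℝ → ℝ → Prop := fun r u => 0 < r ∧ 1 / 10 < u ∧ u ≤ 153 / 200

/-- The signs of the strip above the crossing from its stretches from `u = 1/10` on. -/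
theorem orbit_signs_strip_pos (hn : 7 ≤ n) (hM : OrbitSignsStrip n ZoneStripMid)
    (hF : OrbitSignsStrip n (ZoneFrom (153 / 200))) : OrbitSignsStrip n ZonePos :=
  (orbit_signs_strip_first hn).mono
    (OrbitSignsStrip.mono hM hF (Z := fun r u => 0 < r ∧ 1 / 10 < u) fun r u h =>
      (le_or_gt u (153 / 200)).imp (fun e => ⟨h.1, h.2, e⟩) fun e => ⟨h.1, e.le⟩)
    fun r u h => (le_or_gt u (1 / 10)).imp (fun e => ⟨h, e⟩) fun e => ⟨h, e⟩

/-- The far stretch of the strip. -/
def ZoneStripFar : ℝ → ℝ → Prop := fun r u => 0 < r ∧ 153 / 200 < u ∧ u ≤ 4 / 5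

/-- The signs of the strip from `u = 153/200` on from those of its far stretch and of `4/5 ≤ u`. -/
theorem orbit_signs_strip_from (hM : OrbitSignsStrip n ZoneStripMid)
    (hR : OrbitSignsStrip n ZoneStripFar) (hT : OrbitSignsStrip n (ZoneFrom (4 / 5))) :
    OrbitSignsStrip n (ZoneFrom (153 / 200)) := by
  intro N p q S R x y s dx dy hc hf hb hcb ha z hz hκ hZ
  rcases hZ.2.lt_or_eq with h | h
  · rcases le_or_gt (uOf N (R z) (x z)) (4 / 5) with e | e
    · exact hR N p q S R x y s dx dy hc hf hb hcb ha z hz hκ ⟨hZ.1, h, e⟩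
    · exact hT N p q S R x y s dx dy hc hf hb hcb ha z hz hκ ⟨hZ.1, e.le⟩
  · exact hM N p q S R x y s dx dy hc hf hb hcb ha z hz hκ ⟨hZ.1, by linarith, h.symm.le⟩

/-- The signs of the strip on all points from its stretches from `u = 1/10` on. -/
theorem orbit_signs_strip_all (hn : 7 ≤ n) (hM : OrbitSignsStrip n ZoneStripMid)
    (hF : OrbitSignsStrip n (ZoneFrom (153 / 200))) : OrbitSignsStrip n ZoneAll :=
  (orbit_signs_strip_neg hn).mono (orbit_signs_strip_pos hn hM hF) fun r u _ => le_or_gt r 0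

end Vale.Agent.P100.Calib.Band
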