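import Vale.Agent.P100.Calib.SlabMidSignsOrbit
import Vale.Agent.P100.Calib.SlabMainOrbit

/-!
# The region `0 < u ≤ 3/5` in the dimensions from seven to twenty
-/

namespace Vale.Agent.P100.Calib.Band

/-- The closed signs on the region `0 < u ≤ 3/5` in the dimensions from seven to twenty. -/
theorem orbit_signs_zone_low_mid {n : ℕ} (h7 : 7 ≤ n) (h20 : n < 20) :
    OrbitSignsSlope n (ZoneUpTo (3 / 5)) :=
  fun _ _ _ _ _ _ _ _ _ _ hc hf hb hcb ha _ hz _ hZ =>
    orbit_signs_low_mid h7 h20 hc hf hb hcb ha hz hZ.1 hZ.2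

end Vale.Agent.P100.Calib.Band
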