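import Vale.Agent.P100.Calib.SlabMidData

/-!
# Packed signs for the dimensions from seven to twenty: the bands of piece `B`
-/

namespace Vale.Agent.P100.Calib.Band.AllLow

open Pack

set_option linter.defProp false


def midB_low_num0 :
    checkFour (midBox 0 1000 97 254 83 108 83 140) 560 9 3 11 8 (eMidLow midLowB 0 659079 0) = true := by
  decide +kernel

def midB_low_num1 :
    checkFour (midBox 0 500 96 285 83 108 140 168) 560 9 3 11 8 (eMidLow midLowB 0 313342 0) = true := by
  decide +kernel

def midB_low_num2 :
    checkFour (midBox 500 1000 96 285 83 108 140 168) 560 9 3 11 8 (eMidLow midLowB 0 541596 0) = true := by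
  decide +kernel

def midB_low_num3 :
    checkFour (midBox 0 1000 95 211 83 108 168 197) 560 9 3 11 8 (eMidLow midLowB 0 0 0) = true := by
  decide +kernel

def midB_low_num4 :
    checkFour (midBox 0 1000 211 328 83 108 168 197) 560 9 3 11 8 (eMidLow midLowB 0 512525 0) = true := by
  decide +kernel

def midB_low_num5 :
    checkFour (midBox 0 1000 94 278 83 108 197 254) 560 9 3 11 8 (eMidLow midLowB 0 0 0) = true := by
  decide +kernel

def midB_low_num6 :
    checkFour (midBox 0 1000 278 382 83 108 197 225) 560 9 3 11 8 (eMidLow midLowB 0 392307 0) = true := by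
  decide +kernel

def midB_low_num7 :
    checkFour (midBox 0 1000 278 463 83 108 225 254) 560 9 3 11 8 (eMidLow midLowB 0 257609 0) = true := by
  decide +kernel

def midB_low_num8 :
    checkFour (midBox 0 500 93 435 83 108 254 311) 560 9 3 11 8 (eMidLow midLowB 0 46202 0) = true := by
  decide +kernel

def midB_low_num9 :
    checkFour (midBox 500 1000 94 435 83 108 254 282) 560 9 3 11 8 (eMidLow midLowB 0 88806 0) = true := by
  decide +kernel

def midB_low_num10 :
    checkFour (midBox 500 1000 93 435 83 108 282 311) 560 9 3 11 8 (eMidLow midLowB 0 0 0) = true := by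
  decide +kernel

def midB_low_num11 :
    checkFour (midBox 0 500 435 580 83 108 254 282) 560 9 3 11 8 (eMidLow midLowB 0 132291 0) = true := by
  decide +kernel

def midB_low_num12 :
    checkFour (midBox 500 1000 435 580 83 108 254 282) 560 9 3 11 8 (eMidLow midLowB 0 109766 0) = true := by
  decide +kernel

def midB_low_num13 :
    checkFour (midBox 0 500 435 606 83 108 282 311) 560 9 3 11 8 (eMidLow midLowB 0 76883 0) = true := by
  decide +kernel

def midB_low_num14 :
    checkFour (midBox 0 500 606 778 83 108 282 311) 560 9 3 11 8 (eMidLow midLowB 0 83937 0) = true := by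
  decide +kernel

def midB_low_num15 :
    checkFour (midBox 500 750 435 606 83 108 282 311) 560 9 3 11 8 (eMidLow midLowB 0 73714 0) = true := by
  decide +kernel

def midB_low_num16 :
    checkFour (midBox 500 750 606 778 83 108 282 311) 560 9 3 11 8 (eMidLow midLowB 0 78361 0) = true := by
  decide +kernel

def midB_low_num17 :
    checkFour (midBox 750 1000 435 665 83 108 282 296) 560 9 3 11 8 (eMidLow midLowB 0 61012 0) = true := by
  decide +kernel

def midB_low_num18 :
    checkFour (midBox 750 1000 435 717 83 108 296 303) 560 9 3 11 8 (eMidLow midLowB 0 46031 0) = true := by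
  decide +kernel

def midB_low_num19 :
    checkFour (midBox 750 1000 435 606 83 108 303 311) 560 9 3 11 8 (eMidLow midLowB 0 34664 0) = true := by
  decide +kernel

def midB_low_num20 :
    checkFour (midBox 750 1000 606 751 83 108 303 307) 560 9 3 11 8 (eMidLow midLowB 0 37808 0) = true := by
  decide +kernel

def midB_low_num21 :
    checkFour (midBox 750 1000 606 650 83 95 307 311) 560 9 3 11 8 (eMidLow midLowB 0 38784 0) = true := by
  decide +kernel

def midB_low_num22 :
    checkFour (midBox 750 1000 606 778 95 108 307 311) 560 9 3 11 8 (eMidLow midLowB 0 30583 0) = true := by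
  decide +kernel

def midB_low_den0 :
    checkFour (midBox 0 1000 93 778 83 108 83 311) 560 4 1 4 3 (eMidDenOne midLowB) = true := by
  decide +kernel

def midB_low_start0 :
    checkFour (midBox 0 1 93 778 83 108 83 311) 560 0 1 3 2 (eMidStartLow midLowB 0 0) = true := by
  decide +kernel

def midB_up_num0 :
    checkFour (midBox 0 500 94 264 83 95 83 311) 560 9 3 11 8 (eMidUp midUpB 0 0 0) = true := by
  decide +kernel

def midB_up_num1 :
    checkFour (midBox 500 1000 96 264 83 95 83 197) 560 9 3 11 8 (eMidUp midUpB 0 0 0) = true := by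
  decide +kernel

def midB_up_num2 :
    checkFour (midBox 500 750 94 264 83 95 197 311) 560 9 3 11 8 (eMidUp midUpB 0 0 0) = true := by
  decide +kernel

def midB_up_num3 :
    checkFour (midBox 750 1000 94 264 83 95 197 311) 560 9 3 11 8 (eMidUp midUpB 0 0 0) = true := by
  decide +kernel

def midB_up_num4 :
    checkFour (midBox 0 500 93 178 95 108 95 311) 560 9 3 11 8 (eMidUp midUpB 0 0 0) = true := by
  decide +kernel

def midB_up_num5 :
    checkFour (midBox 500 750 93 178 95 108 95 311) 560 9 3 11 8 (eMidUp midUpB 0 0 0) = true := by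
  decide +kernel

def midB_up_num6 :
    checkFour (midBox 750 1000 93 178 95 108 95 311) 560 9 3 11 8 (eMidUp midUpB 0 0 0) = true := by
  decide +kernel

def midB_up_num7 :
    checkFour (midBox 0 500 178 264 95 108 95 311) 560 9 3 11 8 (eMidUp midUpB 0 0 0) = true := by
  decide +kernel

def midB_up_num8 :
    checkFour (midBox 500 1000 178 264 95 108 95 203) 560 9 3 11 8 (eMidUp midUpB 0 0 0) = true := by
  decide +kernel

def midB_up_num9 :
    checkFour (midBox 500 750 178 264 95 108 203 311) 560 9 3 11 8 (eMidUp midUpB 0 0 0) = true := by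
  decide +kernel

def midB_up_num10 :
    checkFour (midBox 750 1000 178 264 95 108 203 311) 560 9 3 11 8 (eMidUp midUpB 0 0 0) = true := by
  decide +kernel

def midB_up_num11 :
    checkFour (midBox 0 500 264 435 83 108 83 311) 560 9 3 11 8 (eMidUp midUpB 0 0 0) = true := by
  decide +kernel

def midB_up_num12 :
    checkFour (midBox 500 1000 264 328 83 108 83 197) 560 9 3 11 8 (eMidUp midUpB 0 0 0) = true := by
  decide +kernel

def midB_up_num13 :
    checkFour (midBox 500 750 264 435 83 108 197 311) 560 9 3 11 8 (eMidUp midUpB 0 0 0) = true := by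
  decide +kernel

def midB_up_num14 :
    checkFour (midBox 750 1000 264 435 83 108 197 254) 560 9 3 11 8 (eMidUp midUpB 0 0 0) = true := by
  decide +kernel

def midB_up_num15 :
    checkFour (midBox 750 875 264 435 83 108 254 311) 560 9 3 11 8 (eMidUp midUpB 0 0 0) = true := by
  decide +kernel

def midB_up_num16 :
    checkFour (midBox 875 1000 264 435 83 108 254 311) 560 9 3 11 8 (eMidUp midUpB 0 0 0) = true := by
  decide +kernel

def midB_up_num17 :
    checkFour (midBox 0 500 435 778 83 108 83 311) 560 9 3 11 8 (eMidUp midUpB 0 0 0) = true := by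
  decide +kernel

def midB_up_num18 :
    checkFour (midBox 500 750 435 778 83 108 83 311) 560 9 3 11 8 (eMidUp midUpB 0 0 0) = true := by
  decide +kernel

def midB_up_num19 :
    checkFour (midBox 750 1000 435 778 83 108 83 311) 560 9 3 11 8 (eMidUp midUpB 0 0 0) = true := by
  decide +kernel

def midB_up_den0 :
    checkFour (midBox 0 1000 93 778 83 108 83 311) 560 4 1 4 3 (eMidDenOne midUpB) = true := by
  decide +kernel

def midB_up_start0 :
    checkFour (midBox 0 1 93 778 83 108 83 311) 560 0 1 3 2 (eMidStartUp midUpB 0 0) = true := by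
  decide +kernel

end Vale.Agent.P100.Calib.Band.AllLow
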