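import Vale.Agent.P100.Calib.SlabMidSound
import Vale.Agent.P100.Calib.SlabMidCertB

/-!
# The signs at the bands of piece B, dimensions from seven to twenty
-/

open Set Filter Topology

namespace Vale.Agent.P100.Calib.Band

open Vale.Agent.P100.Bubble Chart

namespace AllLow

theorem midB_low_num_s0 {a I X u : ℝ} (hP : MidPlace a I X) (hI : 1 / 12 ≤ I ∧ I < 27 / 250) (hu : 0 < u) (hu1 : u < 1) (p0 : a < (197 / 1000)) :
    0 < (eMidNum midLowB).eval (stabPt u X I a) := by
  obtain ⟨hI1, hI2⟩ := hI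
  have hIa := hP.I_le_a
  have haH := hP.a_le
  rcases lt_or_ge a (7 / 50) with h0 | h0
  · have hXu := hP.X_lt (7 / 50) (27 / 250) (127 / 50) (by linarith only [p0, h0, hIa, haH, hI1, hI2]) (by linarith only [hI1, hI2, hIa, haH]) (by norm_num) (by norm_num) (by norm_num)
    have hXl := hP.le_X (7 / 50) (27 / 250) (97 / 100) (by linarith only [p0, h0, hIa, haH, hI1, hI2]) (by linarith only [hI1, hI2, hIa, haH]) (by norm_num)
    exact mid_low_box hP (by decide) midB_low_num0
      ⟨⟨(by push_cast; linarith only [hu, hu1]), (by push_cast; linarith only [hu, hu1])⟩, ⟨(by push_cast; linarith only [hXu, hXl]), (by push_cast; linarith only [hXu, hXl])⟩,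
        ⟨(by push_cast; linarith only [hI1, hI2, hIa, haH]), (by push_cast; linarith only [hI1, hI2, hIa, haH])⟩, (by push_cast; linarith only [p0, h0, hIa, haH, hI1, hI2]), (by push_cast; linarith only [p0, h0, hIa, haH, hI1, hI2])⟩
  · rcases lt_or_ge a (21 / 125) with h1 | h1
    · rcases lt_or_ge u (1 / 2) with h2 | h2
      · have hXu := hP.X_lt (21 / 125) (27 / 250) (57 / 20) (by linarith only [p0, h0, h1, hIa, haH, hI1, hI2]) (by linarith only [hI1, hI2, hIa, haH]) (by norm_num) (by norm_num) (by norm_num)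
        have hXl := hP.le_X (21 / 125) (27 / 250) (24 / 25) (by linarith only [p0, h0, h1, hIa, haH, hI1, hI2]) (by linarith only [hI1, hI2, hIa, haH]) (by norm_num)
        exact mid_low_box hP (by decide) midB_low_num1
          ⟨⟨(by push_cast; linarith only [hu, hu1, h2]), (by push_cast; linarith only [hu, hu1, h2])⟩, ⟨(by push_cast; linarith only [hXu, hXl]), (by push_cast; linarith only [hXu, hXl])⟩,
        ⟨(by push_cast; linarith only [hI1, hI2, hIa, haH]), (by push_cast; linarith only [hI1, hI2, hIa, haH])⟩, (by push_cast; linarith only [p0, h0, h1, hIa, haH, hI1, hI2]), (by push_cast; linarith only [p0, h0, h1, hIa, haH, hI1, hI2])⟩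
      · have hXu := hP.X_lt (21 / 125) (27 / 250) (57 / 20) (by linarith only [p0, h0, h1, hIa, haH, hI1, hI2]) (by linarith only [hI1, hI2, hIa, haH]) (by norm_num) (by norm_num) (by norm_num)
        have hXl := hP.le_X (21 / 125) (27 / 250) (24 / 25) (by linarith only [p0, h0, h1, hIa, haH, hI1, hI2]) (by linarith only [hI1, hI2, hIa, haH]) (by norm_num)
        exact mid_low_box hP (by decide) midB_low_num2
          ⟨⟨(by push_cast; linarith only [hu, hu1, h2]), (by push_cast; linarith only [hu, hu1, h2])⟩, ⟨(by push_cast; linarith only [hXu, hXl]), (by push_cast; linarith only [hXu, hXl])⟩,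
        ⟨(by push_cast; linarith only [hI1, hI2, hIa, haH]), (by push_cast; linarith only [hI1, hI2, hIa, haH])⟩, (by push_cast; linarith only [p0, h0, h1, hIa, haH, hI1, hI2]), (by push_cast; linarith only [p0, h0, h1, hIa, haH, hI1, hI2])⟩
    · rcases lt_or_ge X (211 / 100) with h3 | h3
      · have hXu := hP.X_lt (197 / 1000) (27 / 250) (82 / 25) (by linarith only [p0, h0, h1, hIa, haH, hI1, hI2]) (by linarith only [hI1, hI2, hIa, haH]) (by norm_num) (by norm_num) (by norm_num)
        have hXl := hP.le_X (197 / 1000) (27 / 250) (19 / 20) (by linarith only [p0, h0, h1, hIa, haH, hI1, hI2]) (by linarith only [hI1, hI2, hIa, haH]) (by norm_num)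
        exact mid_low_box hP (by decide) midB_low_num3
          ⟨⟨(by push_cast; linarith only [hu, hu1]), (by push_cast; linarith only [hu, hu1])⟩, ⟨(by push_cast; linarith only [h3, hXu, hXl]), (by push_cast; linarith only [h3, hXu, hXl])⟩,
        ⟨(by push_cast; linarith only [hI1, hI2, hIa, haH]), (by push_cast; linarith only [hI1, hI2, hIa, haH])⟩, (by push_cast; linarith only [p0, h0, h1, hIa, haH, hI1, hI2]), (by push_cast; linarith only [p0, h0, h1, hIa, haH, hI1, hI2])⟩
      · have hXu := hP.X_lt (197 / 1000) (27 / 250) (82 / 25) (by linarith only [p0, h0, h1, hIa, haH, hI1, hI2]) (by linarith only [hI1, hI2, hIa, haH]) (by norm_num) (by norm_num) (by norm_num)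
        have hXl := hP.le_X (197 / 1000) (27 / 250) (19 / 20) (by linarith only [p0, h0, h1, hIa, haH, hI1, hI2]) (by linarith only [hI1, hI2, hIa, haH]) (by norm_num)
        exact mid_low_box hP (by decide) midB_low_num4
          ⟨⟨(by push_cast; linarith only [hu, hu1]), (by push_cast; linarith only [hu, hu1])⟩, ⟨(by push_cast; linarith only [h3, hXu, hXl]), (by push_cast; linarith only [h3, hXu, hXl])⟩,
        ⟨(by push_cast; linarith only [hI1, hI2, hIa, haH]), (by push_cast; linarith only [hI1, hI2, hIa, haH])⟩, (by push_cast; linarith only [p0, h0, h1, hIa, haH, hI1, hI2]), (by push_cast; linarith only [p0, h0, h1, hIa, haH, hI1, hI2])⟩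

theorem midB_low_num_s2 {a I X u : ℝ} (hP : MidPlace a I X) (hI : 1 / 12 ≤ I ∧ I < 27 / 250) (hu : 0 < u) (hu1 : u < 1) (p0 : (197 / 1000) ≤ a) (p1 : a < (127 / 500)) :
    0 < (eMidNum midLowB).eval (stabPt u X I a) := by
  obtain ⟨hI1, hI2⟩ := hI
  have hIa := hP.I_le_a
  have haH := hP.a_le
  rcases lt_or_ge X (139 / 50) with h0 | h0
  · have hXu := hP.X_lt (127 / 500) (27 / 250) (463 / 100) (by linarith only [p0, p1, hIa, haH, hI1, hI2]) (by linarith only [hI1, hI2, hIa, haH]) (by norm_num) (by norm_num) (by norm_num)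
    have hXl := hP.le_X (127 / 500) (27 / 250) (47 / 50) (by linarith only [p0, p1, hIa, haH, hI1, hI2]) (by linarith only [hI1, hI2, hIa, haH]) (by norm_num)
    exact mid_low_box hP (by decide) midB_low_num5
      ⟨⟨(by push_cast; linarith only [hu, hu1]), (by push_cast; linarith only [hu, hu1])⟩, ⟨(by push_cast; linarith only [h0, hXu, hXl]), (by push_cast; linarith only [h0, hXu, hXl])⟩,
        ⟨(by push_cast; linarith only [hI1, hI2, hIa, haH]), (by push_cast; linarith only [hI1, hI2, hIa, haH])⟩, (by push_cast; linarith only [p0, p1, hIa, haH, hI1, hI2]), (by push_cast; linarith only [p0, p1, hIa, haH, hI1, hI2])⟩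
  · rcases lt_or_ge a (9 / 40) with h1 | h1
    · have hXu := hP.X_lt (9 / 40) (27 / 250) (191 / 50) (by linarith only [p0, p1, h1, hIa, haH, hI1, hI2]) (by linarith only [hI1, hI2, hIa, haH]) (by norm_num) (by norm_num) (by norm_num)
      have hXl := hP.le_X (9 / 40) (27 / 250) (19 / 20) (by linarith only [p0, p1, h1, hIa, haH, hI1, hI2]) (by linarith only [hI1, hI2, hIa, haH]) (by norm_num)
      exact mid_low_box hP (by decide) midB_low_num6
        ⟨⟨(by push_cast; linarith only [hu, hu1]), (by push_cast; linarith only [hu, hu1])⟩, ⟨(by push_cast; linarith only [h0, hXu, hXl]), (by push_cast; linarith only [h0, hXu, hXl])⟩,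
        ⟨(by push_cast; linarith only [hI1, hI2, hIa, haH]), (by push_cast; linarith only [hI1, hI2, hIa, haH])⟩, (by push_cast; linarith only [p0, p1, h1, hIa, haH, hI1, hI2]), (by push_cast; linarith only [p0, p1, h1, hIa, haH, hI1, hI2])⟩
    · have hXu := hP.X_lt (127 / 500) (27 / 250) (463 / 100) (by linarith only [p0, p1, h1, hIa, haH, hI1, hI2]) (by linarith only [hI1, hI2, hIa, haH]) (by norm_num) (by norm_num) (by norm_num)
      have hXl := hP.le_X (127 / 500) (27 / 250) (47 / 50) (by linarith only [p0, p1, h1, hIa, haH, hI1, hI2]) (by linarith only [hI1, hI2, hIa, haH]) (by norm_num)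
      exact mid_low_box hP (by decide) midB_low_num7
        ⟨⟨(by push_cast; linarith only [hu, hu1]), (by push_cast; linarith only [hu, hu1])⟩, ⟨(by push_cast; linarith only [h0, hXu, hXl]), (by push_cast; linarith only [h0, hXu, hXl])⟩,
        ⟨(by push_cast; linarith only [hI1, hI2, hIa, haH]), (by push_cast; linarith only [hI1, hI2, hIa, haH])⟩, (by push_cast; linarith only [p0, p1, h1, hIa, haH, hI1, hI2]), (by push_cast; linarith only [p0, p1, h1, hIa, haH, hI1, hI2])⟩

theorem midB_low_num_s4 {a I X u : ℝ} (hP : MidPlace a I X) (hI : 1 / 12 ≤ I ∧ I < 27 / 250) (hu : 0 < u) (hu1 : u < 1) (p0 : (197 / 1000) ≤ a) (p1 : (127 / 500) ≤ a) (p2 : X < (87 / 20)) :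
    0 < (eMidNum midLowB).eval (stabPt u X I a) := by
  obtain ⟨hI1, hI2⟩ := hI
  have hIa := hP.I_le_a
  have haH := hP.a_le
  rcases lt_or_ge u (1 / 2) with h0 | h0
  · have hXu := hP.X_lt (31 / 100) (27 / 250) (389 / 50) (by linarith only [p0, p1, hIa, haH, hI1, hI2]) (by linarith only [hI1, hI2, hIa, haH]) (by norm_num) (by norm_num) (by norm_num)
    have hXl := hP.le_X (31 / 100) (27 / 250) (93 / 100) (by linarith only [p0, p1, hIa, haH, hI1, hI2]) (by linarith only [hI1, hI2, hIa, haH]) (by norm_num)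
    exact mid_low_box hP (by decide) midB_low_num8
      ⟨⟨(by push_cast; linarith only [hu, hu1, h0]), (by push_cast; linarith only [hu, hu1, h0])⟩, ⟨(by push_cast; linarith only [p2, hXu, hXl]), (by push_cast; linarith only [p2, hXu, hXl])⟩,
        ⟨(by push_cast; linarith only [hI1, hI2, hIa, haH]), (by push_cast; linarith only [hI1, hI2, hIa, haH])⟩, (by push_cast; linarith only [p0, p1, hIa, haH, hI1, hI2]), (by push_cast; linarith only [p0, p1, hIa, haH, hI1, hI2])⟩
  · rcases lt_or_ge a (141 / 500) with h1 | h1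
    · have hXu := hP.X_lt (141 / 500) (27 / 250) (29 / 5) (by linarith only [p0, p1, h1, hIa, haH, hI1, hI2]) (by linarith only [hI1, hI2, hIa, haH]) (by norm_num) (by norm_num) (by norm_num)
      have hXl := hP.le_X (141 / 500) (27 / 250) (47 / 50) (by linarith only [p0, p1, h1, hIa, haH, hI1, hI2]) (by linarith only [hI1, hI2, hIa, haH]) (by norm_num)
      exact mid_low_box hP (by decide) midB_low_num9
        ⟨⟨(by push_cast; linarith only [hu, hu1, h0]), (by push_cast; linarith only [hu, hu1, h0])⟩, ⟨(by push_cast; linarith only [p2, hXu, hXl]), (by push_cast; linarith only [p2, hXu, hXl])⟩,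
        ⟨(by push_cast; linarith only [hI1, hI2, hIa, haH]), (by push_cast; linarith only [hI1, hI2, hIa, haH])⟩, (by push_cast; linarith only [p0, p1, h1, hIa, haH, hI1, hI2]), (by push_cast; linarith only [p0, p1, h1, hIa, haH, hI1, hI2])⟩
    · have hXu := hP.X_lt (31 / 100) (27 / 250) (389 / 50) (by linarith only [p0, p1, h1, hIa, haH, hI1, hI2]) (by linarith only [hI1, hI2, hIa, haH]) (by norm_num) (by norm_num) (by norm_num)
      have hXl := hP.le_X (31 / 100) (27 / 250) (93 / 100) (by linarith only [p0, p1, h1, hIa, haH, hI1, hI2]) (by linarith only [hI1, hI2, hIa, haH]) (by norm_num)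
      exact mid_low_box hP (by decide) midB_low_num10
        ⟨⟨(by push_cast; linarith only [hu, hu1, h0]), (by push_cast; linarith only [hu, hu1, h0])⟩, ⟨(by push_cast; linarith only [p2, hXu, hXl]), (by push_cast; linarith only [p2, hXu, hXl])⟩,
        ⟨(by push_cast; linarith only [hI1, hI2, hIa, haH]), (by push_cast; linarith only [hI1, hI2, hIa, haH])⟩, (by push_cast; linarith only [p0, p1, h1, hIa, haH, hI1, hI2]), (by push_cast; linarith only [p0, p1, h1, hIa, haH, hI1, hI2])⟩

theorem midB_low_num_s6 {a I X u : ℝ} (hP : MidPlace a I X) (hI : 1 / 12 ≤ I ∧ I < 27 / 250) (hu : 0 < u) (hu1 : u < 1) (p0 : (197 / 1000) ≤ a) (p1 : (127 / 500) ≤ a) (p2 : (87 / 20) ≤ X) (p3 : a < (141 / 500)) :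
    0 < (eMidNum midLowB).eval (stabPt u X I a) := by
  obtain ⟨hI1, hI2⟩ := hI
  have hIa := hP.I_le_a
  have haH := hP.a_le
  rcases lt_or_ge u (1 / 2) with h0 | h0
  · have hXu := hP.X_lt (141 / 500) (27 / 250) (29 / 5) (by linarith only [p0, p1, p3, hIa, haH, hI1, hI2]) (by linarith only [hI1, hI2, hIa, haH]) (by norm_num) (by norm_num) (by norm_num)
    have hXl := hP.le_X (141 / 500) (27 / 250) (47 / 50) (by linarith only [p0, p1, p3, hIa, haH, hI1, hI2]) (by linarith only [hI1, hI2, hIa, haH]) (by norm_num)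
    exact mid_low_box hP (by decide) midB_low_num11
      ⟨⟨(by push_cast; linarith only [hu, hu1, h0]), (by push_cast; linarith only [hu, hu1, h0])⟩, ⟨(by push_cast; linarith only [p2, hXu, hXl]), (by push_cast; linarith only [p2, hXu, hXl])⟩,
        ⟨(by push_cast; linarith only [hI1, hI2, hIa, haH]), (by push_cast; linarith only [hI1, hI2, hIa, haH])⟩, (by push_cast; linarith only [p0, p1, p3, hIa, haH, hI1, hI2]), (by push_cast; linarith only [p0, p1, p3, hIa, haH, hI1, hI2])⟩
  · have hXu := hP.X_lt (141 / 500) (27 / 250) (29 / 5) (by linarith only [p0, p1, p3, hIa, haH, hI1, hI2]) (by linarith only [hI1, hI2, hIa, haH]) (by norm_num) (by norm_num) (by norm_num)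
    have hXl := hP.le_X (141 / 500) (27 / 250) (47 / 50) (by linarith only [p0, p1, p3, hIa, haH, hI1, hI2]) (by linarith only [hI1, hI2, hIa, haH]) (by norm_num)
    exact mid_low_box hP (by decide) midB_low_num12
      ⟨⟨(by push_cast; linarith only [hu, hu1, h0]), (by push_cast; linarith only [hu, hu1, h0])⟩, ⟨(by push_cast; linarith only [p2, hXu, hXl]), (by push_cast; linarith only [p2, hXu, hXl])⟩,
        ⟨(by push_cast; linarith only [hI1, hI2, hIa, haH]), (by push_cast; linarith only [hI1, hI2, hIa, haH])⟩, (by push_cast; linarith only [p0, p1, p3, hIa, haH, hI1, hI2]), (by push_cast; linarith only [p0, p1, p3, hIa, haH, hI1, hI2])⟩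

theorem midB_low_num_s8 {a I X u : ℝ} (hP : MidPlace a I X) (hI : 1 / 12 ≤ I ∧ I < 27 / 250) (hu : 0 < u) (hu1 : u < 1) (p0 : (197 / 1000) ≤ a) (p1 : (127 / 500) ≤ a) (p2 : (87 / 20) ≤ X) (p3 : (141 / 500) ≤ a) (p4 : u < (1 / 2)) :
    0 < (eMidNum midLowB).eval (stabPt u X I a) := by
  obtain ⟨hI1, hI2⟩ := hI
  have hIa := hP.I_le_a
  have haH := hP.a_le
  rcases lt_or_ge X (303 / 50) with h0 | h0
  · have hXu := hP.X_lt (31 / 100) (27 / 250) (389 / 50) (by linarith only [p0, p1, p3, hIa, haH, hI1, hI2]) (by linarith only [hI1, hI2, hIa, haH]) (by norm_num) (by norm_num) (by norm_num)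
    have hXl := hP.le_X (31 / 100) (27 / 250) (93 / 100) (by linarith only [p0, p1, p3, hIa, haH, hI1, hI2]) (by linarith only [hI1, hI2, hIa, haH]) (by norm_num)
    exact mid_low_box hP (by decide) midB_low_num13
      ⟨⟨(by push_cast; linarith only [hu, hu1, p4]), (by push_cast; linarith only [hu, hu1, p4])⟩, ⟨(by push_cast; linarith only [p2, h0, hXu, hXl]), (by push_cast; linarith only [p2, h0, hXu, hXl])⟩,
        ⟨(by push_cast; linarith only [hI1, hI2, hIa, haH]), (by push_cast; linarith only [hI1, hI2, hIa, haH])⟩, (by push_cast; linarith only [p0, p1, p3, hIa, haH, hI1, hI2]), (by push_cast; linarith only [p0, p1, p3, hIa, haH, hI1, hI2])⟩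
  · have hXu := hP.X_lt (31 / 100) (27 / 250) (389 / 50) (by linarith only [p0, p1, p3, hIa, haH, hI1, hI2]) (by linarith only [hI1, hI2, hIa, haH]) (by norm_num) (by norm_num) (by norm_num)
    have hXl := hP.le_X (31 / 100) (27 / 250) (93 / 100) (by linarith only [p0, p1, p3, hIa, haH, hI1, hI2]) (by linarith only [hI1, hI2, hIa, haH]) (by norm_num)
    exact mid_low_box hP (by decide) midB_low_num14
      ⟨⟨(by push_cast; linarith only [hu, hu1, p4]), (by push_cast; linarith only [hu, hu1, p4])⟩, ⟨(by push_cast; linarith only [p2, h0, hXu, hXl]), (by push_cast; linarith only [p2, h0, hXu, hXl])⟩,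
        ⟨(by push_cast; linarith only [hI1, hI2, hIa, haH]), (by push_cast; linarith only [hI1, hI2, hIa, haH])⟩, (by push_cast; linarith only [p0, p1, p3, hIa, haH, hI1, hI2]), (by push_cast; linarith only [p0, p1, p3, hIa, haH, hI1, hI2])⟩

theorem midB_low_num_s10 {a I X u : ℝ} (hP : MidPlace a I X) (hI : 1 / 12 ≤ I ∧ I < 27 / 250) (hu : 0 < u) (hu1 : u < 1) (p0 : (197 / 1000) ≤ a) (p1 : (127 / 500) ≤ a) (p2 : (87 / 20) ≤ X) (p3 : (141 / 500) ≤ a) (p4 : (1 / 2) ≤ u) (p5 : u < (3 / 4)) :
    0 < (eMidNum midLowB).eval (stabPt u X I a) := by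
  obtain ⟨hI1, hI2⟩ := hI
  have hIa := hP.I_le_a
  have haH := hP.a_le
  rcases lt_or_ge X (303 / 50) with h0 | h0
  · have hXu := hP.X_lt (31 / 100) (27 / 250) (389 / 50) (by linarith only [p0, p1, p3, hIa, haH, hI1, hI2]) (by linarith only [hI1, hI2, hIa, haH]) (by norm_num) (by norm_num) (by norm_num)
    have hXl := hP.le_X (31 / 100) (27 / 250) (93 / 100) (by linarith only [p0, p1, p3, hIa, haH, hI1, hI2]) (by linarith only [hI1, hI2, hIa, haH]) (by norm_num)
    exact mid_low_box hP (by decide) midB_low_num15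
      ⟨⟨(by push_cast; linarith only [hu, hu1, p4, p5]), (by push_cast; linarith only [hu, hu1, p4, p5])⟩, ⟨(by push_cast; linarith only [p2, h0, hXu, hXl]), (by push_cast; linarith only [p2, h0, hXu, hXl])⟩,
        ⟨(by push_cast; linarith only [hI1, hI2, hIa, haH]), (by push_cast; linarith only [hI1, hI2, hIa, haH])⟩, (by push_cast; linarith only [p0, p1, p3, hIa, haH, hI1, hI2]), (by push_cast; linarith only [p0, p1, p3, hIa, haH, hI1, hI2])⟩
  · have hXu := hP.X_lt (31 / 100) (27 / 250) (389 / 50) (by linarith only [p0, p1, p3, hIa, haH, hI1, hI2]) (by linarith only [hI1, hI2, hIa, haH]) (by norm_num) (by norm_num) (by norm_num)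
    have hXl := hP.le_X (31 / 100) (27 / 250) (93 / 100) (by linarith only [p0, p1, p3, hIa, haH, hI1, hI2]) (by linarith only [hI1, hI2, hIa, haH]) (by norm_num)
    exact mid_low_box hP (by decide) midB_low_num16
      ⟨⟨(by push_cast; linarith only [hu, hu1, p4, p5]), (by push_cast; linarith only [hu, hu1, p4, p5])⟩, ⟨(by push_cast; linarith only [p2, h0, hXu, hXl]), (by push_cast; linarith only [p2, h0, hXu, hXl])⟩,
        ⟨(by push_cast; linarith only [hI1, hI2, hIa, haH]), (by push_cast; linarith only [hI1, hI2, hIa, haH])⟩, (by push_cast; linarith only [p0, p1, p3, hIa, haH, hI1, hI2]), (by push_cast; linarith only [p0, p1, p3, hIa, haH, hI1, hI2])⟩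

theorem midB_low_num_s12 {a I X u : ℝ} (hP : MidPlace a I X) (hI : 1 / 12 ≤ I ∧ I < 27 / 250) (hu : 0 < u) (hu1 : u < 1) (p0 : (197 / 1000) ≤ a) (p1 : (127 / 500) ≤ a) (p2 : (87 / 20) ≤ X) (p3 : (141 / 500) ≤ a) (p4 : (1 / 2) ≤ u) (p5 : (3 / 4) ≤ u) (p6 : a < (37 / 125)) :
    0 < (eMidNum midLowB).eval (stabPt u X I a) := by
  obtain ⟨hI1, hI2⟩ := hI
  have hIa := hP.I_le_a
  have haH := hP.a_le
  have hXu := hP.X_lt (37 / 125) (27 / 250) (133 / 20) (by linarith only [p0, p1, p3, p6, hIa, haH, hI1, hI2]) (by linarith only [hI1, hI2, hIa, haH]) (by norm_num) (by norm_num) (by norm_num)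
  have hXl := hP.le_X (37 / 125) (27 / 250) (93 / 100) (by linarith only [p0, p1, p3, p6, hIa, haH, hI1, hI2]) (by linarith only [hI1, hI2, hIa, haH]) (by norm_num)
  exact mid_low_box hP (by decide) midB_low_num17
    ⟨⟨(by push_cast; linarith only [hu, hu1, p4, p5]), (by push_cast; linarith only [hu, hu1, p4, p5])⟩, ⟨(by push_cast; linarith only [p2, hXu, hXl]), (by push_cast; linarith only [p2, hXu, hXl])⟩,
        ⟨(by push_cast; linarith only [hI1, hI2, hIa, haH]), (by push_cast; linarith only [hI1, hI2, hIa, haH])⟩, (by push_cast; linarith only [p0, p1, p3, p6, hIa, haH, hI1, hI2]), (by push_cast; linarith only [p0, p1, p3, p6, hIa, haH, hI1, hI2])⟩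

theorem midB_low_num_s13 {a I X u : ℝ} (hP : MidPlace a I X) (hI : 1 / 12 ≤ I ∧ I < 27 / 250) (hu : 0 < u) (hu1 : u < 1) (p0 : (197 / 1000) ≤ a) (p1 : (127 / 500) ≤ a) (p2 : (87 / 20) ≤ X) (p3 : (141 / 500) ≤ a) (p4 : (1 / 2) ≤ u) (p5 : (3 / 4) ≤ u) (p6 : (37 / 125) ≤ a) :
    0 < (eMidNum midLowB).eval (stabPt u X I a) := by
  obtain ⟨hI1, hI2⟩ := hI
  have hIa := hP.I_le_a
  have haH := hP.a_le
  rcases lt_or_ge a (303 / 1000) with h0 | h0
  · have hXu := hP.X_lt (303 / 1000) (27 / 250) (717 / 100) (by linarith only [p0, p1, p3, p6, h0, hIa, haH, hI1, hI2]) (by linarith only [hI1, hI2, hIa, haH]) (by norm_num) (by norm_num) (by norm_num)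
    have hXl := hP.le_X (303 / 1000) (27 / 250) (93 / 100) (by linarith only [p0, p1, p3, p6, h0, hIa, haH, hI1, hI2]) (by linarith only [hI1, hI2, hIa, haH]) (by norm_num)
    exact mid_low_box hP (by decide) midB_low_num18
      ⟨⟨(by push_cast; linarith only [hu, hu1, p4, p5]), (by push_cast; linarith only [hu, hu1, p4, p5])⟩, ⟨(by push_cast; linarith only [p2, hXu, hXl]), (by push_cast; linarith only [p2, hXu, hXl])⟩,
        ⟨(by push_cast; linarith only [hI1, hI2, hIa, haH]), (by push_cast; linarith only [hI1, hI2, hIa, haH])⟩, (by push_cast; linarith only [p0, p1, p3, p6, h0, hIa, haH, hI1, hI2]), (by push_cast; linarith only [p0, p1, p3, p6, h0, hIa, haH, hI1, hI2])⟩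
  · rcases lt_or_ge X (303 / 50) with h1 | h1
    · have hXu := hP.X_lt (31 / 100) (27 / 250) (389 / 50) (by linarith only [p0, p1, p3, p6, h0, hIa, haH, hI1, hI2]) (by linarith only [hI1, hI2, hIa, haH]) (by norm_num) (by norm_num) (by norm_num)
      have hXl := hP.le_X (31 / 100) (27 / 250) (93 / 100) (by linarith only [p0, p1, p3, p6, h0, hIa, haH, hI1, hI2]) (by linarith only [hI1, hI2, hIa, haH]) (by norm_num)
      exact mid_low_box hP (by decide) midB_low_num19
        ⟨⟨(by push_cast; linarith only [hu, hu1, p4, p5]), (by push_cast; linarith only [hu, hu1, p4, p5])⟩, ⟨(by push_cast; linarith only [p2, h1, hXu, hXl]), (by push_cast; linarith only [p2, h1, hXu, hXl])⟩,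
        ⟨(by push_cast; linarith only [hI1, hI2, hIa, haH]), (by push_cast; linarith only [hI1, hI2, hIa, haH])⟩, (by push_cast; linarith only [p0, p1, p3, p6, h0, hIa, haH, hI1, hI2]), (by push_cast; linarith only [p0, p1, p3, p6, h0, hIa, haH, hI1, hI2])⟩
    · rcases lt_or_ge a (307 / 1000) with h2 | h2
      · have hXu := hP.X_lt (307 / 1000) (27 / 250) (751 / 100) (by linarith only [p0, p1, p3, p6, h0, h2, hIa, haH, hI1, hI2]) (by linarith only [hI1, hI2, hIa, haH]) (by norm_num) (by norm_num) (by norm_num)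
        have hXl := hP.le_X (307 / 1000) (27 / 250) (93 / 100) (by linarith only [p0, p1, p3, p6, h0, h2, hIa, haH, hI1, hI2]) (by linarith only [hI1, hI2, hIa, haH]) (by norm_num)
        exact mid_low_box hP (by decide) midB_low_num20
          ⟨⟨(by push_cast; linarith only [hu, hu1, p4, p5]), (by push_cast; linarith only [hu, hu1, p4, p5])⟩, ⟨(by push_cast; linarith only [p2, h1, hXu, hXl]), (by push_cast; linarith only [p2, h1, hXu, hXl])⟩,
        ⟨(by push_cast; linarith only [hI1, hI2, hIa, haH]), (by push_cast; linarith only [hI1, hI2, hIa, haH])⟩, (by push_cast; linarith only [p0, p1, p3, p6, h0, h2, hIa, haH, hI1, hI2]), (by push_cast; linarith only [p0, p1, p3, p6, h0, h2, hIa, haH, hI1, hI2])⟩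
      · rcases lt_or_ge I (19 / 200) with h3 | h3
        · have hXu := hP.X_lt (31 / 100) (19 / 200) (13 / 2) (by linarith only [p0, p1, p3, p6, h0, h2, hIa, haH, hI1, hI2, h3]) (by linarith only [hI1, hI2, h3, hIa, haH]) (by norm_num) (by norm_num) (by norm_num)
          have hXl := hP.le_X (31 / 100) (19 / 200) (47 / 50) (by linarith only [p0, p1, p3, p6, h0, h2, hIa, haH, hI1, hI2, h3]) (by linarith only [hI1, hI2, h3, hIa, haH]) (by norm_num)
          exact mid_low_box hP (by decide) midB_low_num21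
            ⟨⟨(by push_cast; linarith only [hu, hu1, p4, p5]), (by push_cast; linarith only [hu, hu1, p4, p5])⟩, ⟨(by push_cast; linarith only [p2, h1, hXu, hXl]), (by push_cast; linarith only [p2, h1, hXu, hXl])⟩,
        ⟨(by push_cast; linarith only [hI1, hI2, h3, hIa, haH]), (by push_cast; linarith only [hI1, hI2, h3, hIa, haH])⟩, (by push_cast; linarith only [p0, p1, p3, p6, h0, h2, hIa, haH, hI1, hI2, h3]), (by push_cast; linarith only [p0, p1, p3, p6, h0, h2, hIa, haH, hI1, hI2, h3])⟩
        · have hXu := hP.X_lt (31 / 100) (27 / 250) (389 / 50) (by linarith only [p0, p1, p3, p6, h0, h2, hIa, haH, hI1, hI2, h3]) (by linarith only [hI1, hI2, h3, hIa, haH]) (by norm_num) (by norm_num) (by norm_num)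
          have hXl := hP.le_X (31 / 100) (27 / 250) (93 / 100) (by linarith only [p0, p1, p3, p6, h0, h2, hIa, haH, hI1, hI2, h3]) (by linarith only [hI1, hI2, h3, hIa, haH]) (by norm_num)
          exact mid_low_box hP (by decide) midB_low_num22
            ⟨⟨(by push_cast; linarith only [hu, hu1, p4, p5]), (by push_cast; linarith only [hu, hu1, p4, p5])⟩, ⟨(by push_cast; linarith only [p2, h1, hXu, hXl]), (by push_cast; linarith only [p2, h1, hXu, hXl])⟩,
        ⟨(by push_cast; linarith only [hI1, hI2, h3, hIa, haH]), (by push_cast; linarith only [hI1, hI2, h3, hIa, haH])⟩, (by push_cast; linarith only [p0, p1, p3, p6, h0, h2, hIa, haH, hI1, hI2, h3]), (by push_cast; linarith only [p0, p1, p3, p6, h0, h2, hIa, haH, hI1, hI2, h3])⟩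

theorem midB_low_num_s11 {a I X u : ℝ} (hP : MidPlace a I X) (hI : 1 / 12 ≤ I ∧ I < 27 / 250) (hu : 0 < u) (hu1 : u < 1) (p0 : (197 / 1000) ≤ a) (p1 : (127 / 500) ≤ a) (p2 : (87 / 20) ≤ X) (p3 : (141 / 500) ≤ a) (p4 : (1 / 2) ≤ u) (p5 : (3 / 4) ≤ u) :
    0 < (eMidNum midLowB).eval (stabPt u X I a) := by
  rcases lt_or_ge a (37 / 125) with h | h
  · exact midB_low_num_s12 hP hI hu hu1 p0 p1 p2 p3 p4 p5 h
  · exact midB_low_num_s13 hP hI hu hu1 p0 p1 p2 p3 p4 p5 h

theorem midB_low_num_s9 {a I X u : ℝ} (hP : MidPlace a I X) (hI : 1 / 12 ≤ I ∧ I < 27 / 250) (hu : 0 < u) (hu1 : u < 1) (p0 : (197 / 1000) ≤ a) (p1 : (127 / 500) ≤ a) (p2 : (87 / 20) ≤ X) (p3 : (141 / 500) ≤ a) (p4 : (1 / 2) ≤ u) :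
    0 < (eMidNum midLowB).eval (stabPt u X I a) := by
  rcases lt_or_ge u (3 / 4) with h | h
  · exact midB_low_num_s10 hP hI hu hu1 p0 p1 p2 p3 p4 h
  · exact midB_low_num_s11 hP hI hu hu1 p0 p1 p2 p3 p4 h

theorem midB_low_num_s7 {a I X u : ℝ} (hP : MidPlace a I X) (hI : 1 / 12 ≤ I ∧ I < 27 / 250) (hu : 0 < u) (hu1 : u < 1) (p0 : (197 / 1000) ≤ a) (p1 : (127 / 500) ≤ a) (p2 : (87 / 20) ≤ X) (p3 : (141 / 500) ≤ a) :
    0 < (eMidNum midLowB).eval (stabPt u X I a) := by
  rcases lt_or_ge u (1 / 2) with h | h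
  · exact midB_low_num_s8 hP hI hu hu1 p0 p1 p2 p3 h
  · exact midB_low_num_s9 hP hI hu hu1 p0 p1 p2 p3 h

theorem midB_low_num_s5 {a I X u : ℝ} (hP : MidPlace a I X) (hI : 1 / 12 ≤ I ∧ I < 27 / 250) (hu : 0 < u) (hu1 : u < 1) (p0 : (197 / 1000) ≤ a) (p1 : (127 / 500) ≤ a) (p2 : (87 / 20) ≤ X) :
    0 < (eMidNum midLowB).eval (stabPt u X I a) := by
  rcases lt_or_ge a (141 / 500) with h | h
  · exact midB_low_num_s6 hP hI hu hu1 p0 p1 p2 h
  · exact midB_low_num_s7 hP hI hu hu1 p0 p1 p2 h

theorem midB_low_num_s3 {a I X u : ℝ} (hP : MidPlace a I X) (hI : 1 / 12 ≤ I ∧ I < 27 / 250) (hu : 0 < u) (hu1 : u < 1) (p0 : (197 / 1000) ≤ a) (p1 : (127 / 500) ≤ a) :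
    0 < (eMidNum midLowB).eval (stabPt u X I a) := by
  rcases lt_or_ge X (87 / 20) with h | h
  · exact midB_low_num_s4 hP hI hu hu1 p0 p1 h
  · exact midB_low_num_s5 hP hI hu hu1 p0 p1 h

theorem midB_low_num_s1 {a I X u : ℝ} (hP : MidPlace a I X) (hI : 1 / 12 ≤ I ∧ I < 27 / 250) (hu : 0 < u) (hu1 : u < 1) (p0 : (197 / 1000) ≤ a) :
    0 < (eMidNum midLowB).eval (stabPt u X I a) := by
  rcases lt_or_ge a (127 / 500) with h | h
  · exact midB_low_num_s2 hP hI hu hu1 p0 h
  · exact midB_low_num_s3 hP hI hu hu1 p0 h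

theorem midB_low_num {a I X u : ℝ} (hP : MidPlace a I X) (hI : 1 / 12 ≤ I ∧ I < 27 / 250) (hu : 0 < u) (hu1 : u < 1) :
    0 < (eMidNum midLowB).eval (stabPt u X I a) := by
  rcases lt_or_ge a (197 / 1000) with h | h
  · exact midB_low_num_s0 hP hI hu hu1  h
  · exact midB_low_num_s1 hP hI hu hu1  h

theorem midB_low_den {a I X u : ℝ} (hP : MidPlace a I X) (hI : 1 / 12 ≤ I ∧ I < 27 / 250) (hu : 0 < u) (hu1 : u < 1) :
    0 < (eMidDen midLowB).eval (stabPt u X I a) := by
  obtain ⟨hI1, hI2⟩ := hI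
  have hIa := hP.I_le_a
  have haH := hP.a_le
  have hXu := hP.X_lt (31 / 100) (27 / 250) (389 / 50) (by linarith only [hIa, haH, hI1, hI2]) (by linarith only [hI1, hI2, hIa, haH]) (by norm_num) (by norm_num) (by norm_num)
  have hXl := hP.le_X (31 / 100) (27 / 250) (93 / 100) (by linarith only [hIa, haH, hI1, hI2]) (by linarith only [hI1, hI2, hIa, haH]) (by norm_num)
  exact mid_den_box midB_low_den0
    ⟨⟨(by push_cast; linarith only [hu, hu1]), (by push_cast; linarith only [hu, hu1])⟩, ⟨(by push_cast; linarith only [hXu, hXl]), (by push_cast; linarith only [hXu, hXl])⟩,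
        ⟨(by push_cast; linarith only [hI1, hI2, hIa, haH]), (by push_cast; linarith only [hI1, hI2, hIa, haH])⟩, (by push_cast; linarith only [hIa, haH, hI1, hI2]), (by push_cast; linarith only [hIa, haH, hI1, hI2])⟩

theorem midB_low_start {a I X : ℝ} (hP : MidPlace a I X) (hI : 1 / 12 ≤ I ∧ I < 27 / 250) :
    0 ≤ (eMidStart midLowB).eval (stabPt 0 X I a) := by
  obtain ⟨hI1, hI2⟩ := hI
  have hIa := hP.I_le_a
  have haH := hP.a_le
  have hXu := hP.X_lt (31 / 100) (27 / 250) (389 / 50) (by linarith only [hIa, haH, hI1, hI2]) (by linarith only [hI1, hI2, hIa, haH]) (by norm_num) (by norm_num) (by norm_num)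
  have hXl := hP.le_X (31 / 100) (27 / 250) (93 / 100) (by linarith only [hIa, haH, hI1, hI2]) (by linarith only [hI1, hI2, hIa, haH]) (by norm_num)
  exact mid_start_low_box hP (by decide) midB_low_start0
    ⟨⟨by norm_num, by norm_num⟩, ⟨(by push_cast; linarith only [hXu, hXl]), (by push_cast; linarith only [hXu, hXl])⟩,
        ⟨(by push_cast; linarith only [hI1, hI2, hIa, haH]), (by push_cast; linarith only [hI1, hI2, hIa, haH])⟩, (by push_cast; linarith only [hIa, haH, hI1, hI2]), (by push_cast; linarith only [hIa, haH, hI1, hI2])⟩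

theorem midB_up_num_s2 {a I X u : ℝ} (hP : MidPlace a I X) (hI : 1 / 12 ≤ I ∧ I < 27 / 250) (hu : 0 < u) (hu1 : u < 1) (p0 : X < (87 / 20)) (p1 : X < (66 / 25)) (p2 : I < (19 / 200)) :
    (eMidNum midUpB).eval (stabPt u X I a) < 0 := by
  obtain ⟨hI1, hI2⟩ := hI
  have hIa := hP.I_le_a
  have haH := hP.a_le
  rcases lt_or_ge u (1 / 2) with h0 | h0
  · have hXu := hP.X_lt (31 / 100) (19 / 200) (13 / 2) (by linarith only [hIa, haH, p2, hI1, hI2]) (by linarith only [p2, hI1, hI2, hIa, haH]) (by norm_num) (by norm_num) (by norm_num)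
    have hXl := hP.le_X (31 / 100) (19 / 200) (47 / 50) (by linarith only [hIa, haH, p2, hI1, hI2]) (by linarith only [p2, hI1, hI2, hIa, haH]) (by norm_num)
    exact mid_up_box hP (by decide) midB_up_num0
      ⟨⟨(by push_cast; linarith only [hu, hu1, h0]), (by push_cast; linarith only [hu, hu1, h0])⟩, ⟨(by push_cast; linarith only [p0, p1, hXu, hXl]), (by push_cast; linarith only [p0, p1, hXu, hXl])⟩,
        ⟨(by push_cast; linarith only [p2, hI1, hI2, hIa, haH]), (by push_cast; linarith only [p2, hI1, hI2, hIa, haH])⟩, (by push_cast; linarith only [hIa, haH, p2, hI1, hI2]), (by push_cast; linarith only [hIa, haH, p2, hI1, hI2])⟩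
  · rcases lt_or_ge a (197 / 1000) with h1 | h1
    · have hXu := hP.X_lt (197 / 1000) (19 / 200) (297 / 100) (by linarith only [h1, hIa, haH, p2, hI1, hI2]) (by linarith only [p2, hI1, hI2, hIa, haH]) (by norm_num) (by norm_num) (by norm_num)
      have hXl := hP.le_X (197 / 1000) (19 / 200) (24 / 25) (by linarith only [h1, hIa, haH, p2, hI1, hI2]) (by linarith only [p2, hI1, hI2, hIa, haH]) (by norm_num)
      exact mid_up_box hP (by decide) midB_up_num1
        ⟨⟨(by push_cast; linarith only [hu, hu1, h0]), (by push_cast; linarith only [hu, hu1, h0])⟩, ⟨(by push_cast; linarith only [p0, p1, hXu, hXl]), (by push_cast; linarith only [p0, p1, hXu, hXl])⟩,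
        ⟨(by push_cast; linarith only [p2, hI1, hI2, hIa, haH]), (by push_cast; linarith only [p2, hI1, hI2, hIa, haH])⟩, (by push_cast; linarith only [h1, hIa, haH, p2, hI1, hI2]), (by push_cast; linarith only [h1, hIa, haH, p2, hI1, hI2])⟩
    · rcases lt_or_ge u (3 / 4) with h2 | h2
      · have hXu := hP.X_lt (31 / 100) (19 / 200) (13 / 2) (by linarith only [h1, hIa, haH, p2, hI1, hI2]) (by linarith only [p2, hI1, hI2, hIa, haH]) (by norm_num) (by norm_num) (by norm_num)
        have hXl := hP.le_X (31 / 100) (19 / 200) (47 / 50) (by linarith only [h1, hIa, haH, p2, hI1, hI2]) (by linarith only [p2, hI1, hI2, hIa, haH]) (by norm_num)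
        exact mid_up_box hP (by decide) midB_up_num2
          ⟨⟨(by push_cast; linarith only [hu, hu1, h0, h2]), (by push_cast; linarith only [hu, hu1, h0, h2])⟩, ⟨(by push_cast; linarith only [p0, p1, hXu, hXl]), (by push_cast; linarith only [p0, p1, hXu, hXl])⟩,
        ⟨(by push_cast; linarith only [p2, hI1, hI2, hIa, haH]), (by push_cast; linarith only [p2, hI1, hI2, hIa, haH])⟩, (by push_cast; linarith only [h1, hIa, haH, p2, hI1, hI2]), (by push_cast; linarith only [h1, hIa, haH, p2, hI1, hI2])⟩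
      · have hXu := hP.X_lt (31 / 100) (19 / 200) (13 / 2) (by linarith only [h1, hIa, haH, p2, hI1, hI2]) (by linarith only [p2, hI1, hI2, hIa, haH]) (by norm_num) (by norm_num) (by norm_num)
        have hXl := hP.le_X (31 / 100) (19 / 200) (47 / 50) (by linarith only [h1, hIa, haH, p2, hI1, hI2]) (by linarith only [p2, hI1, hI2, hIa, haH]) (by norm_num)
        exact mid_up_box hP (by decide) midB_up_num3
          ⟨⟨(by push_cast; linarith only [hu, hu1, h0, h2]), (by push_cast; linarith only [hu, hu1, h0, h2])⟩, ⟨(by push_cast; linarith only [p0, p1, hXu, hXl]), (by push_cast; linarith only [p0, p1, hXu, hXl])⟩,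
        ⟨(by push_cast; linarith only [p2, hI1, hI2, hIa, haH]), (by push_cast; linarith only [p2, hI1, hI2, hIa, haH])⟩, (by push_cast; linarith only [h1, hIa, haH, p2, hI1, hI2]), (by push_cast; linarith only [h1, hIa, haH, p2, hI1, hI2])⟩

theorem midB_up_num_s4 {a I X u : ℝ} (hP : MidPlace a I X) (hI : 1 / 12 ≤ I ∧ I < 27 / 250) (hu : 0 < u) (hu1 : u < 1) (p0 : X < (87 / 20)) (p1 : X < (66 / 25)) (p2 : (19 / 200) ≤ I) (p3 : X < (89 / 50)) :
    (eMidNum midUpB).eval (stabPt u X I a) < 0 := by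
  obtain ⟨hI1, hI2⟩ := hI
  have hIa := hP.I_le_a
  have haH := hP.a_le
  rcases lt_or_ge u (1 / 2) with h0 | h0
  · have hXu := hP.X_lt (31 / 100) (27 / 250) (389 / 50) (by linarith only [hIa, haH, p2, hI1, hI2]) (by linarith only [p2, hI1, hI2, hIa, haH]) (by norm_num) (by norm_num) (by norm_num)
    have hXl := hP.le_X (31 / 100) (27 / 250) (93 / 100) (by linarith only [hIa, haH, p2, hI1, hI2]) (by linarith only [p2, hI1, hI2, hIa, haH]) (by norm_num)
    exact mid_up_box hP (by decide) midB_up_num4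
      ⟨⟨(by push_cast; linarith only [hu, hu1, h0]), (by push_cast; linarith only [hu, hu1, h0])⟩, ⟨(by push_cast; linarith only [p0, p1, p3, hXu, hXl]), (by push_cast; linarith only [p0, p1, p3, hXu, hXl])⟩,
        ⟨(by push_cast; linarith only [p2, hI1, hI2, hIa, haH]), (by push_cast; linarith only [p2, hI1, hI2, hIa, haH])⟩, (by push_cast; linarith only [hIa, haH, p2, hI1, hI2]), (by push_cast; linarith only [hIa, haH, p2, hI1, hI2])⟩
  · rcases lt_or_ge u (3 / 4) with h1 | h1
    · have hXu := hP.X_lt (31 / 100) (27 / 250) (389 / 50) (by linarith only [hIa, haH, p2, hI1, hI2]) (by linarith only [p2, hI1, hI2, hIa, haH]) (by norm_num) (by norm_num) (by norm_num)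
      have hXl := hP.le_X (31 / 100) (27 / 250) (93 / 100) (by linarith only [hIa, haH, p2, hI1, hI2]) (by linarith only [p2, hI1, hI2, hIa, haH]) (by norm_num)
      exact mid_up_box hP (by decide) midB_up_num5
        ⟨⟨(by push_cast; linarith only [hu, hu1, h0, h1]), (by push_cast; linarith only [hu, hu1, h0, h1])⟩, ⟨(by push_cast; linarith only [p0, p1, p3, hXu, hXl]), (by push_cast; linarith only [p0, p1, p3, hXu, hXl])⟩,
        ⟨(by push_cast; linarith only [p2, hI1, hI2, hIa, haH]), (by push_cast; linarith only [p2, hI1, hI2, hIa, haH])⟩, (by push_cast; linarith only [hIa, haH, p2, hI1, hI2]), (by push_cast; linarith only [hIa, haH, p2, hI1, hI2])⟩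
    · have hXu := hP.X_lt (31 / 100) (27 / 250) (389 / 50) (by linarith only [hIa, haH, p2, hI1, hI2]) (by linarith only [p2, hI1, hI2, hIa, haH]) (by norm_num) (by norm_num) (by norm_num)
      have hXl := hP.le_X (31 / 100) (27 / 250) (93 / 100) (by linarith only [hIa, haH, p2, hI1, hI2]) (by linarith only [p2, hI1, hI2, hIa, haH]) (by norm_num)
      exact mid_up_box hP (by decide) midB_up_num6
        ⟨⟨(by push_cast; linarith only [hu, hu1, h0, h1]), (by push_cast; linarith only [hu, hu1, h0, h1])⟩, ⟨(by push_cast; linarith only [p0, p1, p3, hXu, hXl]), (by push_cast; linarith only [p0, p1, p3, hXu, hXl])⟩,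
        ⟨(by push_cast; linarith only [p2, hI1, hI2, hIa, haH]), (by push_cast; linarith only [p2, hI1, hI2, hIa, haH])⟩, (by push_cast; linarith only [hIa, haH, p2, hI1, hI2]), (by push_cast; linarith only [hIa, haH, p2, hI1, hI2])⟩

theorem midB_up_num_s5 {a I X u : ℝ} (hP : MidPlace a I X) (hI : 1 / 12 ≤ I ∧ I < 27 / 250) (hu : 0 < u) (hu1 : u < 1) (p0 : X < (87 / 20)) (p1 : X < (66 / 25)) (p2 : (19 / 200) ≤ I) (p3 : (89 / 50) ≤ X) :
    (eMidNum midUpB).eval (stabPt u X I a) < 0 := by
  obtain ⟨hI1, hI2⟩ := hI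
  have hIa := hP.I_le_a
  have haH := hP.a_le
  rcases lt_or_ge u (1 / 2) with h0 | h0
  · have hXu := hP.X_lt (31 / 100) (27 / 250) (389 / 50) (by linarith only [hIa, haH, p2, hI1, hI2]) (by linarith only [p2, hI1, hI2, hIa, haH]) (by norm_num) (by norm_num) (by norm_num)
    have hXl := hP.le_X (31 / 100) (27 / 250) (93 / 100) (by linarith only [hIa, haH, p2, hI1, hI2]) (by linarith only [p2, hI1, hI2, hIa, haH]) (by norm_num)
    exact mid_up_box hP (by decide) midB_up_num7
      ⟨⟨(by push_cast; linarith only [hu, hu1, h0]), (by push_cast; linarith only [hu, hu1, h0])⟩, ⟨(by push_cast; linarith only [p0, p1, p3, hXu, hXl]), (by push_cast; linarith only [p0, p1, p3, hXu, hXl])⟩,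
        ⟨(by push_cast; linarith only [p2, hI1, hI2, hIa, haH]), (by push_cast; linarith only [p2, hI1, hI2, hIa, haH])⟩, (by push_cast; linarith only [hIa, haH, p2, hI1, hI2]), (by push_cast; linarith only [hIa, haH, p2, hI1, hI2])⟩
  · rcases lt_or_ge a (203 / 1000) with h1 | h1
    · have hXu := hP.X_lt (203 / 1000) (27 / 250) (169 / 50) (by linarith only [h1, hIa, haH, p2, hI1, hI2]) (by linarith only [p2, hI1, hI2, hIa, haH]) (by norm_num) (by norm_num) (by norm_num)
      have hXl := hP.le_X (203 / 1000) (27 / 250) (19 / 20) (by linarith only [h1, hIa, haH, p2, hI1, hI2]) (by linarith only [p2, hI1, hI2, hIa, haH]) (by norm_num)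
      exact mid_up_box hP (by decide) midB_up_num8
        ⟨⟨(by push_cast; linarith only [hu, hu1, h0]), (by push_cast; linarith only [hu, hu1, h0])⟩, ⟨(by push_cast; linarith only [p0, p1, p3, hXu, hXl]), (by push_cast; linarith only [p0, p1, p3, hXu, hXl])⟩,
        ⟨(by push_cast; linarith only [p2, hI1, hI2, hIa, haH]), (by push_cast; linarith only [p2, hI1, hI2, hIa, haH])⟩, (by push_cast; linarith only [h1, hIa, haH, p2, hI1, hI2]), (by push_cast; linarith only [h1, hIa, haH, p2, hI1, hI2])⟩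
    · rcases lt_or_ge u (3 / 4) with h2 | h2
      · have hXu := hP.X_lt (31 / 100) (27 / 250) (389 / 50) (by linarith only [h1, hIa, haH, p2, hI1, hI2]) (by linarith only [p2, hI1, hI2, hIa, haH]) (by norm_num) (by norm_num) (by norm_num)
        have hXl := hP.le_X (31 / 100) (27 / 250) (93 / 100) (by linarith only [h1, hIa, haH, p2, hI1, hI2]) (by linarith only [p2, hI1, hI2, hIa, haH]) (by norm_num)
        exact mid_up_box hP (by decide) midB_up_num9
          ⟨⟨(by push_cast; linarith only [hu, hu1, h0, h2]), (by push_cast; linarith only [hu, hu1, h0, h2])⟩, ⟨(by push_cast; linarith only [p0, p1, p3, hXu, hXl]), (by push_cast; linarith only [p0, p1, p3, hXu, hXl])⟩,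
        ⟨(by push_cast; linarith only [p2, hI1, hI2, hIa, haH]), (by push_cast; linarith only [p2, hI1, hI2, hIa, haH])⟩, (by push_cast; linarith only [h1, hIa, haH, p2, hI1, hI2]), (by push_cast; linarith only [h1, hIa, haH, p2, hI1, hI2])⟩
      · have hXu := hP.X_lt (31 / 100) (27 / 250) (389 / 50) (by linarith only [h1, hIa, haH, p2, hI1, hI2]) (by linarith only [p2, hI1, hI2, hIa, haH]) (by norm_num) (by norm_num) (by norm_num)
        have hXl := hP.le_X (31 / 100) (27 / 250) (93 / 100) (by linarith only [h1, hIa, haH, p2, hI1, hI2]) (by linarith only [p2, hI1, hI2, hIa, haH]) (by norm_num)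
        exact mid_up_box hP (by decide) midB_up_num10
          ⟨⟨(by push_cast; linarith only [hu, hu1, h0, h2]), (by push_cast; linarith only [hu, hu1, h0, h2])⟩, ⟨(by push_cast; linarith only [p0, p1, p3, hXu, hXl]), (by push_cast; linarith only [p0, p1, p3, hXu, hXl])⟩,
        ⟨(by push_cast; linarith only [p2, hI1, hI2, hIa, haH]), (by push_cast; linarith only [p2, hI1, hI2, hIa, haH])⟩, (by push_cast; linarith only [h1, hIa, haH, p2, hI1, hI2]), (by push_cast; linarith only [h1, hIa, haH, p2, hI1, hI2])⟩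

theorem midB_up_num_s3 {a I X u : ℝ} (hP : MidPlace a I X) (hI : 1 / 12 ≤ I ∧ I < 27 / 250) (hu : 0 < u) (hu1 : u < 1) (p0 : X < (87 / 20)) (p1 : X < (66 / 25)) (p2 : (19 / 200) ≤ I) :
    (eMidNum midUpB).eval (stabPt u X I a) < 0 := by
  rcases lt_or_ge X (89 / 50) with h | h
  · exact midB_up_num_s4 hP hI hu hu1 p0 p1 p2 h
  · exact midB_up_num_s5 hP hI hu hu1 p0 p1 p2 h

theorem midB_up_num_s1 {a I X u : ℝ} (hP : MidPlace a I X) (hI : 1 / 12 ≤ I ∧ I < 27 / 250) (hu : 0 < u) (hu1 : u < 1) (p0 : X < (87 / 20)) (p1 : X < (66 / 25)) :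
    (eMidNum midUpB).eval (stabPt u X I a) < 0 := by
  rcases lt_or_ge I (19 / 200) with h | h
  · exact midB_up_num_s2 hP hI hu hu1 p0 p1 h
  · exact midB_up_num_s3 hP hI hu hu1 p0 p1 h

theorem midB_up_num_s7 {a I X u : ℝ} (hP : MidPlace a I X) (hI : 1 / 12 ≤ I ∧ I < 27 / 250) (hu : 0 < u) (hu1 : u < 1) (p0 : X < (87 / 20)) (p1 : (66 / 25) ≤ X) (p2 : u < (1 / 2)) :
    (eMidNum midUpB).eval (stabPt u X I a) < 0 := by
  obtain ⟨hI1, hI2⟩ := hI
  have hIa := hP.I_le_a
  have haH := hP.a_le
  have hXu := hP.X_lt (31 / 100) (27 / 250) (389 / 50) (by linarith only [hIa, haH, hI1, hI2]) (by linarith only [hI1, hI2, hIa, haH]) (by norm_num) (by norm_num) (by norm_num)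
  have hXl := hP.le_X (31 / 100) (27 / 250) (93 / 100) (by linarith only [hIa, haH, hI1, hI2]) (by linarith only [hI1, hI2, hIa, haH]) (by norm_num)
  exact mid_up_box hP (by decide) midB_up_num11
    ⟨⟨(by push_cast; linarith only [hu, hu1, p2]), (by push_cast; linarith only [hu, hu1, p2])⟩, ⟨(by push_cast; linarith only [p0, p1, hXu, hXl]), (by push_cast; linarith only [p0, p1, hXu, hXl])⟩,
        ⟨(by push_cast; linarith only [hI1, hI2, hIa, haH]), (by push_cast; linarith only [hI1, hI2, hIa, haH])⟩, (by push_cast; linarith only [hIa, haH, hI1, hI2]), (by push_cast; linarith only [hIa, haH, hI1, hI2])⟩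

theorem midB_up_num_s8 {a I X u : ℝ} (hP : MidPlace a I X) (hI : 1 / 12 ≤ I ∧ I < 27 / 250) (hu : 0 < u) (hu1 : u < 1) (p0 : X < (87 / 20)) (p1 : (66 / 25) ≤ X) (p2 : (1 / 2) ≤ u) :
    (eMidNum midUpB).eval (stabPt u X I a) < 0 := by
  obtain ⟨hI1, hI2⟩ := hI
  have hIa := hP.I_le_a
  have haH := hP.a_le
  rcases lt_or_ge a (197 / 1000) with h0 | h0
  · have hXu := hP.X_lt (197 / 1000) (27 / 250) (82 / 25) (by linarith only [h0, hIa, haH, hI1, hI2]) (by linarith only [hI1, hI2, hIa, haH]) (by norm_num) (by norm_num) (by norm_num)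
    have hXl := hP.le_X (197 / 1000) (27 / 250) (19 / 20) (by linarith only [h0, hIa, haH, hI1, hI2]) (by linarith only [hI1, hI2, hIa, haH]) (by norm_num)
    exact mid_up_box hP (by decide) midB_up_num12
      ⟨⟨(by push_cast; linarith only [hu, hu1, p2]), (by push_cast; linarith only [hu, hu1, p2])⟩, ⟨(by push_cast; linarith only [p0, p1, hXu, hXl]), (by push_cast; linarith only [p0, p1, hXu, hXl])⟩,
        ⟨(by push_cast; linarith only [hI1, hI2, hIa, haH]), (by push_cast; linarith only [hI1, hI2, hIa, haH])⟩, (by push_cast; linarith only [h0, hIa, haH, hI1, hI2]), (by push_cast; linarith only [h0, hIa, haH, hI1, hI2])⟩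
  · rcases lt_or_ge u (3 / 4) with h1 | h1
    · have hXu := hP.X_lt (31 / 100) (27 / 250) (389 / 50) (by linarith only [h0, hIa, haH, hI1, hI2]) (by linarith only [hI1, hI2, hIa, haH]) (by norm_num) (by norm_num) (by norm_num)
      have hXl := hP.le_X (31 / 100) (27 / 250) (93 / 100) (by linarith only [h0, hIa, haH, hI1, hI2]) (by linarith only [hI1, hI2, hIa, haH]) (by norm_num)
      exact mid_up_box hP (by decide) midB_up_num13
        ⟨⟨(by push_cast; linarith only [hu, hu1, p2, h1]), (by push_cast; linarith only [hu, hu1, p2, h1])⟩, ⟨(by push_cast; linarith only [p0, p1, hXu, hXl]), (by push_cast; linarith only [p0, p1, hXu, hXl])⟩,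
        ⟨(by push_cast; linarith only [hI1, hI2, hIa, haH]), (by push_cast; linarith only [hI1, hI2, hIa, haH])⟩, (by push_cast; linarith only [h0, hIa, haH, hI1, hI2]), (by push_cast; linarith only [h0, hIa, haH, hI1, hI2])⟩
    · rcases lt_or_ge a (127 / 500) with h2 | h2
      · have hXu := hP.X_lt (127 / 500) (27 / 250) (463 / 100) (by linarith only [h0, h2, hIa, haH, hI1, hI2]) (by linarith only [hI1, hI2, hIa, haH]) (by norm_num) (by norm_num) (by norm_num)
        have hXl := hP.le_X (127 / 500) (27 / 250) (47 / 50) (by linarith only [h0, h2, hIa, haH, hI1, hI2]) (by linarith only [hI1, hI2, hIa, haH]) (by norm_num)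
        exact mid_up_box hP (by decide) midB_up_num14
          ⟨⟨(by push_cast; linarith only [hu, hu1, p2, h1]), (by push_cast; linarith only [hu, hu1, p2, h1])⟩, ⟨(by push_cast; linarith only [p0, p1, hXu, hXl]), (by push_cast; linarith only [p0, p1, hXu, hXl])⟩,
        ⟨(by push_cast; linarith only [hI1, hI2, hIa, haH]), (by push_cast; linarith only [hI1, hI2, hIa, haH])⟩, (by push_cast; linarith only [h0, h2, hIa, haH, hI1, hI2]), (by push_cast; linarith only [h0, h2, hIa, haH, hI1, hI2])⟩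
      · rcases lt_or_ge u (7 / 8) with h3 | h3
        · have hXu := hP.X_lt (31 / 100) (27 / 250) (389 / 50) (by linarith only [h0, h2, hIa, haH, hI1, hI2]) (by linarith only [hI1, hI2, hIa, haH]) (by norm_num) (by norm_num) (by norm_num)
          have hXl := hP.le_X (31 / 100) (27 / 250) (93 / 100) (by linarith only [h0, h2, hIa, haH, hI1, hI2]) (by linarith only [hI1, hI2, hIa, haH]) (by norm_num)
          exact mid_up_box hP (by decide) midB_up_num15
            ⟨⟨(by push_cast; linarith only [hu, hu1, p2, h1, h3]), (by push_cast; linarith only [hu, hu1, p2, h1, h3])⟩, ⟨(by push_cast; linarith only [p0, p1, hXu, hXl]), (by push_cast; linarith only [p0, p1, hXu, hXl])⟩,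
        ⟨(by push_cast; linarith only [hI1, hI2, hIa, haH]), (by push_cast; linarith only [hI1, hI2, hIa, haH])⟩, (by push_cast; linarith only [h0, h2, hIa, haH, hI1, hI2]), (by push_cast; linarith only [h0, h2, hIa, haH, hI1, hI2])⟩
        · have hXu := hP.X_lt (31 / 100) (27 / 250) (389 / 50) (by linarith only [h0, h2, hIa, haH, hI1, hI2]) (by linarith only [hI1, hI2, hIa, haH]) (by norm_num) (by norm_num) (by norm_num)
          have hXl := hP.le_X (31 / 100) (27 / 250) (93 / 100) (by linarith only [h0, h2, hIa, haH, hI1, hI2]) (by linarith only [hI1, hI2, hIa, haH]) (by norm_num)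
          exact mid_up_box hP (by decide) midB_up_num16
            ⟨⟨(by push_cast; linarith only [hu, hu1, p2, h1, h3]), (by push_cast; linarith only [hu, hu1, p2, h1, h3])⟩, ⟨(by push_cast; linarith only [p0, p1, hXu, hXl]), (by push_cast; linarith only [p0, p1, hXu, hXl])⟩,
        ⟨(by push_cast; linarith only [hI1, hI2, hIa, haH]), (by push_cast; linarith only [hI1, hI2, hIa, haH])⟩, (by push_cast; linarith only [h0, h2, hIa, haH, hI1, hI2]), (by push_cast; linarith only [h0, h2, hIa, haH, hI1, hI2])⟩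

theorem midB_up_num_s6 {a I X u : ℝ} (hP : MidPlace a I X) (hI : 1 / 12 ≤ I ∧ I < 27 / 250) (hu : 0 < u) (hu1 : u < 1) (p0 : X < (87 / 20)) (p1 : (66 / 25) ≤ X) :
    (eMidNum midUpB).eval (stabPt u X I a) < 0 := by
  rcases lt_or_ge u (1 / 2) with h | h
  · exact midB_up_num_s7 hP hI hu hu1 p0 p1 h
  · exact midB_up_num_s8 hP hI hu hu1 p0 p1 h

theorem midB_up_num_s0 {a I X u : ℝ} (hP : MidPlace a I X) (hI : 1 / 12 ≤ I ∧ I < 27 / 250) (hu : 0 < u) (hu1 : u < 1) (p0 : X < (87 / 20)) :
    (eMidNum midUpB).eval (stabPt u X I a) < 0 := by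
  rcases lt_or_ge X (66 / 25) with h | h
  · exact midB_up_num_s1 hP hI hu hu1 p0 h
  · exact midB_up_num_s6 hP hI hu hu1 p0 h

theorem midB_up_num_s9 {a I X u : ℝ} (hP : MidPlace a I X) (hI : 1 / 12 ≤ I ∧ I < 27 / 250) (hu : 0 < u) (hu1 : u < 1) (p0 : (87 / 20) ≤ X) :
    (eMidNum midUpB).eval (stabPt u X I a) < 0 := by
  obtain ⟨hI1, hI2⟩ := hI
  have hIa := hP.I_le_a
  have haH := hP.a_le
  rcases lt_or_ge u (1 / 2) with h0 | h0
  · have hXu := hP.X_lt (31 / 100) (27 / 250) (389 / 50) (by linarith only [hIa, haH, hI1, hI2]) (by linarith only [hI1, hI2, hIa, haH]) (by norm_num) (by norm_num) (by norm_num)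
    have hXl := hP.le_X (31 / 100) (27 / 250) (93 / 100) (by linarith only [hIa, haH, hI1, hI2]) (by linarith only [hI1, hI2, hIa, haH]) (by norm_num)
    exact mid_up_box hP (by decide) midB_up_num17
      ⟨⟨(by push_cast; linarith only [hu, hu1, h0]), (by push_cast; linarith only [hu, hu1, h0])⟩, ⟨(by push_cast; linarith only [p0, hXu, hXl]), (by push_cast; linarith only [p0, hXu, hXl])⟩,
        ⟨(by push_cast; linarith only [hI1, hI2, hIa, haH]), (by push_cast; linarith only [hI1, hI2, hIa, haH])⟩, (by push_cast; linarith only [hIa, haH, hI1, hI2]), (by push_cast; linarith only [hIa, haH, hI1, hI2])⟩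
  · rcases lt_or_ge u (3 / 4) with h1 | h1
    · have hXu := hP.X_lt (31 / 100) (27 / 250) (389 / 50) (by linarith only [hIa, haH, hI1, hI2]) (by linarith only [hI1, hI2, hIa, haH]) (by norm_num) (by norm_num) (by norm_num)
      have hXl := hP.le_X (31 / 100) (27 / 250) (93 / 100) (by linarith only [hIa, haH, hI1, hI2]) (by linarith only [hI1, hI2, hIa, haH]) (by norm_num)
      exact mid_up_box hP (by decide) midB_up_num18
        ⟨⟨(by push_cast; linarith only [hu, hu1, h0, h1]), (by push_cast; linarith only [hu, hu1, h0, h1])⟩, ⟨(by push_cast; linarith only [p0, hXu, hXl]), (by push_cast; linarith only [p0, hXu, hXl])⟩,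
        ⟨(by push_cast; linarith only [hI1, hI2, hIa, haH]), (by push_cast; linarith only [hI1, hI2, hIa, haH])⟩, (by push_cast; linarith only [hIa, haH, hI1, hI2]), (by push_cast; linarith only [hIa, haH, hI1, hI2])⟩
    · have hXu := hP.X_lt (31 / 100) (27 / 250) (389 / 50) (by linarith only [hIa, haH, hI1, hI2]) (by linarith only [hI1, hI2, hIa, haH]) (by norm_num) (by norm_num) (by norm_num)
      have hXl := hP.le_X (31 / 100) (27 / 250) (93 / 100) (by linarith only [hIa, haH, hI1, hI2]) (by linarith only [hI1, hI2, hIa, haH]) (by norm_num)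
      exact mid_up_box hP (by decide) midB_up_num19
        ⟨⟨(by push_cast; linarith only [hu, hu1, h0, h1]), (by push_cast; linarith only [hu, hu1, h0, h1])⟩, ⟨(by push_cast; linarith only [p0, hXu, hXl]), (by push_cast; linarith only [p0, hXu, hXl])⟩,
        ⟨(by push_cast; linarith only [hI1, hI2, hIa, haH]), (by push_cast; linarith only [hI1, hI2, hIa, haH])⟩, (by push_cast; linarith only [hIa, haH, hI1, hI2]), (by push_cast; linarith only [hIa, haH, hI1, hI2])⟩

theorem midB_up_num {a I X u : ℝ} (hP : MidPlace a I X) (hI : 1 / 12 ≤ I ∧ I < 27 / 250) (hu : 0 < u) (hu1 : u < 1) :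
    (eMidNum midUpB).eval (stabPt u X I a) < 0 := by
  rcases lt_or_ge X (87 / 20) with h | h
  · exact midB_up_num_s0 hP hI hu hu1  h
  · exact midB_up_num_s9 hP hI hu hu1  h

theorem midB_up_den {a I X u : ℝ} (hP : MidPlace a I X) (hI : 1 / 12 ≤ I ∧ I < 27 / 250) (hu : 0 < u) (hu1 : u < 1) :
    0 < (eMidDen midUpB).eval (stabPt u X I a) := by
  obtain ⟨hI1, hI2⟩ := hI
  have hIa := hP.I_le_a
  have haH := hP.a_le
  have hXu := hP.X_lt (31 / 100) (27 / 250) (389 / 50) (by linarith only [hIa, haH, hI1, hI2]) (by linarith only [hI1, hI2, hIa, haH]) (by norm_num) (by norm_num) (by norm_num)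
  have hXl := hP.le_X (31 / 100) (27 / 250) (93 / 100) (by linarith only [hIa, haH, hI1, hI2]) (by linarith only [hI1, hI2, hIa, haH]) (by norm_num)
  exact mid_den_box midB_up_den0
    ⟨⟨(by push_cast; linarith only [hu, hu1]), (by push_cast; linarith only [hu, hu1])⟩, ⟨(by push_cast; linarith only [hXu, hXl]), (by push_cast; linarith only [hXu, hXl])⟩,
        ⟨(by push_cast; linarith only [hI1, hI2, hIa, haH]), (by push_cast; linarith only [hI1, hI2, hIa, haH])⟩, (by push_cast; linarith only [hIa, haH, hI1, hI2]), (by push_cast; linarith only [hIa, haH, hI1, hI2])⟩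

theorem midB_up_start {a I X : ℝ} (hP : MidPlace a I X) (hI : 1 / 12 ≤ I ∧ I < 27 / 250) :
    (eMidStart midUpB).eval (stabPt 0 X I a) ≤ 0 := by
  obtain ⟨hI1, hI2⟩ := hI
  have hIa := hP.I_le_a
  have haH := hP.a_le
  have hXu := hP.X_lt (31 / 100) (27 / 250) (389 / 50) (by linarith only [hIa, haH, hI1, hI2]) (by linarith only [hI1, hI2, hIa, haH]) (by norm_num) (by norm_num) (by norm_num)
  have hXl := hP.le_X (31 / 100) (27 / 250) (93 / 100) (by linarith only [hIa, haH, hI1, hI2]) (by linarith only [hI1, hI2, hIa, haH]) (by norm_num)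
  exact mid_start_up_box hP (by decide) midB_up_start0
    ⟨⟨by norm_num, by norm_num⟩, ⟨(by push_cast; linarith only [hXu, hXl]), (by push_cast; linarith only [hXu, hXl])⟩,
        ⟨(by push_cast; linarith only [hI1, hI2, hIa, haH]), (by push_cast; linarith only [hI1, hI2, hIa, haH])⟩, (by push_cast; linarith only [hIa, haH, hI1, hI2]), (by push_cast; linarith only [hIa, haH, hI1, hI2])⟩

end AllLow

end Vale.Agent.P100.Calib.Band
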