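import Vale.Agent.P100.Calib.SlabMidData

/-!
# Packed signs for the dimensions from seven to twenty: the bands of piece `C`
-/

namespace Vale.Agent.P100.Calib.Band.AllLow

open Pack

set_option linter.defProp false


def midC_low_num0 :
    checkFour (midBox 0 500 95 352 108 143 108 158) 560 9 3 11 8 (eMidLow midLowC 0 644274 0) = true := by
  decide +kernel

def midC_low_num1 :
    checkFour (midBox 500 1000 95 223 108 143 108 158) 560 9 3 11 8 (eMidLow midLowC 0 0 0) = true := by
  decide +kernel

def midC_low_num2 :
    checkFour (midBox 500 1000 223 352 108 143 108 158) 560 9 3 11 8 (eMidLow midLowC 0 1084843 0) = true := by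
  decide +kernel

def midC_low_num3 :
    checkFour (midBox 0 1000 94 284 108 143 158 209) 560 9 3 11 8 (eMidLow midLowC 0 0 0) = true := by
  decide +kernel

def midC_low_num4 :
    checkFour (midBox 0 500 284 474 108 143 158 209) 560 9 3 11 8 (eMidLow midLowC 0 525881 0) = true := by
  decide +kernel

def midC_low_num5 :
    checkFour (midBox 500 1000 284 403 108 143 158 183) 560 9 3 11 8 (eMidLow midLowC 0 814357 0) = true := by
  decide +kernel

def midC_low_num6 :
    checkFour (midBox 500 1000 284 379 108 143 183 209) 560 9 3 11 8 (eMidLow midLowC 0 485085 0) = true := by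
  decide +kernel

def midC_low_num7 :
    checkFour (midBox 500 1000 379 474 108 143 183 209) 560 9 3 11 8 (eMidLow midLowC 0 556591 0) = true := by
  decide +kernel

def midC_low_num8 :
    checkFour (midBox 0 500 93 407 108 143 209 260) 560 9 3 11 8 (eMidLow midLowC 0 208163 0) = true := by
  decide +kernel

def midC_low_num9 :
    checkFour (midBox 500 1000 93 250 108 143 209 234) 560 9 3 11 8 (eMidLow midLowC 0 0 0) = true := by
  decide +kernel

def midC_low_num10 :
    checkFour (midBox 500 1000 250 407 108 143 209 234) 560 9 3 11 8 (eMidLow midLowC 0 294979 0) = true := by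
  decide +kernel

def midC_low_num11 :
    checkFour (midBox 500 1000 93 407 108 143 234 260) 560 9 3 11 8 (eMidLow midLowC 0 0 0) = true := by
  decide +kernel

def midC_low_num12 :
    checkFour (midBox 0 500 407 570 108 143 209 234) 560 9 3 11 8 (eMidLow midLowC 0 332404 0) = true := by
  decide +kernel

def midC_low_num13 :
    checkFour (midBox 500 1000 407 570 108 143 209 234) 560 9 3 11 8 (eMidLow midLowC 0 327555 0) = true := by
  decide +kernel

def midC_low_num14 :
    checkFour (midBox 0 500 407 722 108 143 234 260) 560 9 3 11 8 (eMidLow midLowC 0 208512 0) = true := by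
  decide +kernel

def midC_low_num15 :
    checkFour (midBox 500 1000 407 637 108 143 234 247) 560 9 3 11 8 (eMidLow midLowC 0 206353 0) = true := by
  decide +kernel

def midC_low_num16 :
    checkFour (midBox 500 1000 407 564 108 143 247 260) 560 9 3 11 8 (eMidLow midLowC 0 148397 0) = true := by
  decide +kernel

def midC_low_num17 :
    checkFour (midBox 500 1000 564 722 108 143 247 260) 560 9 3 11 8 (eMidLow midLowC 0 148003 0) = true := by
  decide +kernel

def midC_low_num18 :
    checkFour (midBox 0 500 91 440 108 143 260 311) 560 9 3 11 8 (eMidLow midLowC 0 0 0) = true := by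
  decide +kernel

def midC_low_num19 :
    checkFour (midBox 500 1000 91 440 108 143 260 311) 560 9 3 11 8 (eMidLow midLowC 0 0 63550) = true := by
  decide +kernel

def midC_low_num20 :
    checkFour (midBox 0 250 440 790 108 143 260 285) 560 9 3 11 8 (eMidLow midLowC 0 71473 0) = true := by
  decide +kernel

def midC_low_num21 :
    checkFour (midBox 250 500 440 790 108 143 260 285) 560 9 3 11 8 (eMidLow midLowC 0 128846 0) = true := by
  decide +kernel

def midC_low_num22 :
    checkFour (midBox 500 750 440 790 108 143 260 285) 560 9 3 11 8 (eMidLow midLowC 0 126964 0) = true := by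
  decide +kernel

def midC_low_num23 :
    checkFour (midBox 750 1000 440 648 108 125 260 272) 560 9 3 11 8 (eMidLow midLowC 0 119106 0) = true := by
  decide +kernel

def midC_low_num24 :
    checkFour (midBox 750 1000 440 790 125 143 260 272) 560 9 3 11 8 (eMidLow midLowC 0 85612 0) = true := by
  decide +kernel

def midC_low_num25 :
    checkFour (midBox 750 1000 440 590 108 125 272 285) 560 9 3 11 8 (eMidLow midLowC 0 76563 0) = true := by
  decide +kernel

def midC_low_num26 :
    checkFour (midBox 750 1000 590 741 108 125 272 285) 560 9 3 11 8 (eMidLow midLowC 0 80246 0) = true := by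
  decide +kernel

def midC_low_num27 :
    checkFour (midBox 750 1000 440 790 125 134 272 285) 560 9 3 11 8 (eMidLow midLowC 0 58917 0) = true := by
  decide +kernel

def midC_low_num28 :
    checkFour (midBox 750 1000 440 790 134 143 272 285) 560 9 3 11 8 (eMidLow midLowC 0 40799 0) = true := by
  decide +kernel

def midC_low_num29 :
    checkFour (midBox 0 500 440 790 108 125 285 311) 560 9 3 11 8 (eMidLow midLowC 0 81132 0) = true := by
  decide +kernel

def midC_low_num30 :
    checkFour (midBox 500 750 440 790 108 125 285 311) 560 9 3 11 8 (eMidLow midLowC 0 77282 0) = true := by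
  decide +kernel

def midC_low_num31 :
    checkFour (midBox 750 1000 440 790 108 125 285 291) 560 9 3 11 8 (eMidLow midLowC 0 58752 0) = true := by
  decide +kernel

def midC_low_num32 :
    checkFour (midBox 750 1000 440 790 108 125 291 298) 560 9 3 11 8 (eMidLow midLowC 0 44633 0) = true := by
  decide +kernel

def midC_low_num33 :
    checkFour (midBox 750 1000 440 790 108 116 298 304) 560 9 3 11 8 (eMidLow midLowC 0 37222 0) = true := by
  decide +kernel

def midC_low_num34 :
    checkFour (midBox 750 1000 440 790 116 125 298 304) 560 9 3 11 8 (eMidLow midLowC 0 28298 0) = true := by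
  decide +kernel

def midC_low_num35 :
    checkFour (midBox 750 1000 440 790 108 116 304 311) 560 9 3 11 8 (eMidLow midLowC 0 28988 0) = true := by
  decide +kernel

def midC_low_num36 :
    checkFour (midBox 750 1000 440 790 116 125 304 311) 560 9 3 11 8 (eMidLow midLowC 0 0 0) = true := by
  decide +kernel

def midC_low_num37 :
    checkFour (midBox 0 1000 440 790 125 143 285 311) 560 9 3 11 8 (eMidLow midLowC 0 10830 0) = true := by
  decide +kernel

def midC_low_num38 :
    checkFour (midBox 0 500 790 973 108 143 260 285) 560 9 3 11 8 (eMidLow midLowC 0 121146 0) = true := by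
  decide +kernel

def midC_low_num39 :
    checkFour (midBox 500 1000 790 824 125 143 260 272) 560 9 3 11 8 (eMidLow midLowC 0 93210 0) = true := by
  decide +kernel

def midC_low_num40 :
    checkFour (midBox 500 1000 790 887 125 143 272 278) 560 9 3 11 8 (eMidLow midLowC 0 64235 0) = true := by
  decide +kernel

def midC_low_num41 :
    checkFour (midBox 500 1000 790 973 125 143 278 285) 560 9 3 11 8 (eMidLow midLowC 0 51480 0) = true := by
  decide +kernel

def midC_low_num42 :
    checkFour (midBox 0 500 790 1026 108 125 285 311) 560 9 3 11 8 (eMidLow midLowC 0 107409 0) = true := by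
  decide +kernel

def midC_low_num43 :
    checkFour (midBox 0 250 790 1187 125 143 285 298) 560 9 3 11 8 (eMidLow midLowC 0 0 0) = true := by
  decide +kernel

def midC_low_num44 :
    checkFour (midBox 250 500 790 1187 125 143 285 298) 560 9 3 11 8 (eMidLow midLowC 0 63155 0) = true := by
  decide +kernel

def midC_low_num45 :
    checkFour (midBox 0 500 790 1220 125 134 298 311) 560 9 3 11 8 (eMidLow midLowC 0 47073 0) = true := by
  decide +kernel

def midC_low_num46 :
    checkFour (midBox 0 500 790 1253 134 138 298 311) 560 9 3 11 8 (eMidLow midLowC 0 43581 0) = true := by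
  decide +kernel

def midC_low_num47 :
    checkFour (midBox 0 500 790 1216 138 140 298 311) 560 9 3 11 8 (eMidLow midLowC 0 39620 0) = true := by
  decide +kernel

def midC_low_num48 :
    checkFour (midBox 0 250 790 1199 140 143 298 311) 560 9 3 11 8 (eMidLow midLowC 0 0 0) = true := by
  decide +kernel

def midC_low_num49 :
    checkFour (midBox 250 500 790 1199 140 143 298 311) 560 9 3 11 8 (eMidLow midLowC 0 34770 0) = true := by
  decide +kernel

def midC_low_num50 :
    checkFour (midBox 500 750 790 1026 108 125 285 311) 560 9 3 11 8 (eMidLow midLowC 0 85168 0) = true := by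
  decide +kernel

def midC_low_num51 :
    checkFour (midBox 750 1000 790 866 108 125 285 298) 560 9 3 11 8 (eMidLow midLowC 0 53208 0) = true := by
  decide +kernel

def midC_low_num52 :
    checkFour (midBox 750 1000 790 814 108 116 298 304) 560 9 3 11 8 (eMidLow midLowC 0 40515 0) = true := by
  decide +kernel

def midC_low_num53 :
    checkFour (midBox 750 1000 790 939 116 125 298 304) 560 9 3 11 8 (eMidLow midLowC 0 31897 0) = true := by
  decide +kernel

def midC_low_num54 :
    checkFour (midBox 750 1000 790 827 108 112 304 311) 560 9 3 11 8 (eMidLow midLowC 0 31291 0) = true := by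
  decide +kernel

def midC_low_num55 :
    checkFour (midBox 750 1000 790 880 112 116 304 311) 560 9 3 11 8 (eMidLow midLowC 0 28145 0) = true := by
  decide +kernel

def midC_low_num56 :
    checkFour (midBox 750 1000 790 940 116 120 304 311) 560 9 3 11 8 (eMidLow midLowC 0 25170 0) = true := by
  decide +kernel

def midC_low_num57 :
    checkFour (midBox 750 1000 790 973 120 122 304 311) 560 9 3 11 8 (eMidLow midLowC 0 22216 0) = true := by
  decide +kernel

def midC_low_num58 :
    checkFour (midBox 750 1000 790 1026 122 125 304 311) 560 9 3 11 8 (eMidLow midLowC 0 20768 0) = true := by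
  decide +kernel

def midC_low_num59 :
    checkFour (midBox 500 750 790 1187 125 143 285 298) 560 9 3 11 8 (eMidLow midLowC 0 60143 0) = true := by
  decide +kernel

def midC_low_num60 :
    checkFour (midBox 750 1000 790 924 125 129 285 298) 560 9 3 11 8 (eMidLow midLowC 0 39405 0) = true := by
  decide +kernel

def midC_low_num61 :
    checkFour (midBox 750 1000 790 1005 129 134 285 298) 560 9 3 11 8 (eMidLow midLowC 0 35032 0) = true := by
  decide +kernel

def midC_low_num62 :
    checkFour (midBox 750 1000 790 1062 134 143 285 291) 560 9 3 11 8 (eMidLow midLowC 0 32055 0) = true := by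
  decide +kernel

def midC_low_num63 :
    checkFour (midBox 750 1000 790 1080 134 138 291 298) 560 9 3 11 8 (eMidLow midLowC 0 25108 0) = true := by
  decide +kernel

def midC_low_num64 :
    checkFour (midBox 750 1000 790 988 138 143 291 298) 560 9 3 11 8 (eMidLow midLowC 0 0 0) = true := by
  decide +kernel

def midC_low_num65 :
    checkFour (midBox 750 1000 988 1187 138 143 291 298) 560 9 3 11 8 (eMidLow midLowC 0 21917 0) = true := by
  decide +kernel

def midC_low_num66 :
    checkFour (midBox 500 750 790 1220 125 134 298 311) 560 9 3 11 8 (eMidLow midLowC 0 43071 0) = true := by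
  decide +kernel

def midC_low_num67 :
    checkFour (midBox 500 750 790 1253 134 138 298 311) 560 9 3 11 8 (eMidLow midLowC 0 39865 0) = true := by
  decide +kernel

def midC_low_num68 :
    checkFour (midBox 500 750 790 1216 138 140 298 311) 560 9 3 11 8 (eMidLow midLowC 0 36120 0) = true := by
  decide +kernel

def midC_low_num69 :
    checkFour (midBox 500 750 790 1199 140 143 298 311) 560 9 3 11 8 (eMidLow midLowC 0 31945 0) = true := by
  decide +kernel

def midC_low_num70 :
    checkFour (midBox 750 1000 790 1006 125 129 298 304) 560 9 3 11 8 (eMidLow midLowC 0 25271 0) = true := by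
  decide +kernel

def midC_low_num71 :
    checkFour (midBox 750 1000 790 1102 129 134 298 304) 560 9 3 11 8 (eMidLow midLowC 0 21729 0) = true := by
  decide +kernel

def midC_low_num72 :
    checkFour (midBox 750 1000 790 1053 125 129 304 307) 560 9 3 11 8 (eMidLow midLowC 0 20436 0) = true := by
  decide +kernel

def midC_low_num73 :
    checkFour (midBox 750 1000 790 1105 125 129 307 311) 560 9 3 11 8 (eMidLow midLowC 0 17145 0) = true := by
  decide +kernel

def midC_low_num74 :
    checkFour (midBox 750 1000 790 1158 129 134 304 307) 560 9 3 11 8 (eMidLow midLowC 0 17272 0) = true := by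
  decide +kernel

def midC_low_num75 :
    checkFour (midBox 750 1000 790 1149 129 131 307 311) 560 9 3 11 8 (eMidLow midLowC 0 15011 0) = true := by
  decide +kernel

def midC_low_num76 :
    checkFour (midBox 750 1000 790 1199 131 134 307 309) 560 9 3 11 8 (eMidLow midLowC 0 14546 0) = true := by
  decide +kernel

def midC_low_num77 :
    checkFour (midBox 750 1000 790 1172 131 132 309 311) 560 9 3 11 8 (eMidLow midLowC 0 12815 0) = true := by
  decide +kernel

def midC_low_num78 :
    checkFour (midBox 750 1000 790 1196 132 133 309 311) 560 9 3 11 8 (eMidLow midLowC 0 12282 0) = true := by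
  decide +kernel

def midC_low_num79 :
    checkFour (midBox 750 1000 790 1217 133 134 309 311) 560 9 3 11 8 (eMidLow midLowC 0 11683 0) = true := by
  decide +kernel

def midC_low_num80 :
    checkFour (midBox 750 1000 790 990 134 138 298 304) 560 9 3 11 8 (eMidLow midLowC 0 0 0) = true := by
  decide +kernel

def midC_low_num81 :
    checkFour (midBox 750 1000 990 1191 134 138 298 304) 560 9 3 11 8 (eMidLow midLowC 0 18629 0) = true := by
  decide +kernel

def midC_low_num82 :
    checkFour (midBox 750 1000 790 1216 138 140 298 304) 560 9 3 11 8 (eMidLow midLowC 0 15654 0) = true := by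
  decide +kernel

def midC_low_num83 :
    checkFour (midBox 750 1000 790 1199 140 143 298 304) 560 9 3 11 8 (eMidLow midLowC 0 12825 0) = true := by
  decide +kernel

def midC_low_num84 :
    checkFour (midBox 750 1000 790 1009 134 138 304 307) 560 9 3 11 8 (eMidLow midLowC 0 0 0) = true := by
  decide +kernel

def midC_low_num85 :
    checkFour (midBox 750 1000 1009 1228 134 138 304 307) 560 9 3 11 8 (eMidLow midLowC 0 14304 0) = true := by
  decide +kernel

def midC_low_num86 :
    checkFour (midBox 750 1000 790 1216 134 138 307 309) 560 9 3 11 8 (eMidLow midLowC 0 11671 0) = true := by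
  decide +kernel

def midC_low_num87 :
    checkFour (midBox 750 1000 790 1208 134 138 309 311) 560 9 3 11 8 (eMidLow midLowC 0 9592 0) = true := by
  decide +kernel

def midC_low_num88 :
    checkFour (midBox 750 1000 790 1192 138 143 304 311) 560 9 3 11 8 (eMidLow midLowC 0 0 0) = true := by
  decide +kernel

def midC_low_den0 :
    checkFour (midBox 0 1000 91 1490 108 143 108 311) 560 4 1 4 3 (eMidDenOne midLowC) = true := by
  decide +kernel

def midC_low_start0 :
    checkFour (midBox 0 1 91 1490 108 143 108 311) 560 0 1 3 2 (eMidStartLow midLowC 0 0) = true := by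
  decide +kernel

def midC_up_num0 :
    checkFour (midBox 0 500 92 265 108 125 108 311) 560 9 3 11 8 (eMidUp midUpC 0 0 0) = true := by
  decide +kernel

def midC_up_num1 :
    checkFour (midBox 500 750 95 265 108 125 108 209) 560 9 3 11 8 (eMidUp midUpC 0 0 0) = true := by
  decide +kernel

def midC_up_num2 :
    checkFour (midBox 500 750 92 265 108 125 209 311) 560 9 3 11 8 (eMidUp midUpC 0 0 0) = true := by
  decide +kernel

def midC_up_num3 :
    checkFour (midBox 750 1000 95 180 108 125 108 209) 560 9 3 11 8 (eMidUp midUpC 0 0 0) = true := by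
  decide +kernel

def midC_up_num4 :
    checkFour (midBox 750 1000 180 265 108 125 108 209) 560 9 3 11 8 (eMidUp midUpC 0 0 0) = true := by
  decide +kernel

def midC_up_num5 :
    checkFour (midBox 750 1000 92 265 108 125 209 311) 560 9 3 11 8 (eMidUp midUpC 0 0 0) = true := by
  decide +kernel

def midC_up_num6 :
    checkFour (midBox 0 500 91 265 125 143 125 311) 560 9 3 11 8 (eMidUp midUpC 0 0 0) = true := by
  decide +kernel

def midC_up_num7 :
    checkFour (midBox 500 1000 92 178 125 134 125 311) 560 9 3 11 8 (eMidUp midUpC 0 0 0) = true := by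
  decide +kernel

def midC_up_num8 :
    checkFour (midBox 500 1000 91 178 134 143 134 311) 560 9 3 11 8 (eMidUp midUpC 0 0 0) = true := by
  decide +kernel

def midC_up_num9 :
    checkFour (midBox 500 750 178 265 125 143 125 218) 560 9 3 11 8 (eMidUp midUpC 0 0 0) = true := by
  decide +kernel

def midC_up_num10 :
    checkFour (midBox 750 1000 178 265 125 143 125 218) 560 9 3 11 8 (eMidUp midUpC 0 0 0) = true := by
  decide +kernel

def midC_up_num11 :
    checkFour (midBox 500 1000 178 265 125 143 218 311) 560 9 3 11 8 (eMidUp midUpC 0 0 0) = true := by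
  decide +kernel

def midC_up_num12 :
    checkFour (midBox 0 500 265 440 108 143 108 311) 560 9 3 11 8 (eMidUp midUpC 0 0 0) = true := by
  decide +kernel

def midC_up_num13 :
    checkFour (midBox 500 1000 265 440 108 143 108 209) 560 9 3 11 8 (eMidUp midUpC 0 0 0) = true := by
  decide +kernel

def midC_up_num14 :
    checkFour (midBox 500 750 265 440 108 143 209 311) 560 9 3 11 8 (eMidUp midUpC 0 0 0) = true := by
  decide +kernel

def midC_up_num15 :
    checkFour (midBox 750 1000 265 352 108 143 209 260) 560 9 3 11 8 (eMidUp midUpC 0 0 0) = true := by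
  decide +kernel

def midC_up_num16 :
    checkFour (midBox 750 1000 352 440 108 143 209 260) 560 9 3 11 8 (eMidUp midUpC 0 0 0) = true := by
  decide +kernel

def midC_up_num17 :
    checkFour (midBox 750 875 265 440 108 143 260 311) 560 9 3 11 8 (eMidUp midUpC 0 0 0) = true := by
  decide +kernel

def midC_up_num18 :
    checkFour (midBox 875 1000 265 352 108 143 260 311) 560 9 3 11 8 (eMidUp midUpC 0 0 0) = true := by
  decide +kernel

def midC_up_num19 :
    checkFour (midBox 875 1000 352 440 108 143 260 311) 560 9 3 11 8 (eMidUp midUpC 0 0 0) = true := by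
  decide +kernel

def midC_up_num20 :
    checkFour (midBox 0 500 440 790 108 143 108 311) 560 9 3 11 8 (eMidUp midUpC 0 2353 0) = true := by
  decide +kernel

def midC_up_num21 :
    checkFour (midBox 500 1000 440 474 108 143 108 209) 560 9 3 11 8 (eMidUp midUpC 0 0 0) = true := by
  decide +kernel

def midC_up_num22 :
    checkFour (midBox 500 750 440 790 108 143 209 311) 560 9 3 11 8 (eMidUp midUpC 0 0 0) = true := by
  decide +kernel

def midC_up_num23 :
    checkFour (midBox 750 1000 440 722 108 143 209 260) 560 9 3 11 8 (eMidUp midUpC 0 0 0) = true := by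
  decide +kernel

def midC_up_num24 :
    checkFour (midBox 750 875 440 790 108 143 260 311) 560 9 3 11 8 (eMidUp midUpC 0 0 0) = true := by
  decide +kernel

def midC_up_num25 :
    checkFour (midBox 875 937 440 615 108 143 260 311) 560 9 3 11 8 (eMidUp midUpC 0 0 0) = true := by
  decide +kernel

def midC_up_num26 :
    checkFour (midBox 937 1000 440 615 108 143 260 311) 560 9 3 11 8 (eMidUp midUpC 0 0 0) = true := by
  decide +kernel

def midC_up_num27 :
    checkFour (midBox 875 1000 615 790 108 143 260 311) 560 9 3 11 8 (eMidUp midUpC 0 0 0) = true := by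
  decide +kernel

def midC_up_num28 :
    checkFour (midBox 0 500 790 1140 108 143 108 311) 560 9 3 11 8 (eMidUp midUpC 0 3107 0) = true := by
  decide +kernel

def midC_up_num29 :
    checkFour (midBox 0 500 1140 1490 108 143 108 311) 560 9 3 11 8 (eMidUp midUpC 0 2992 0) = true := by
  decide +kernel

def midC_up_num30 :
    checkFour (midBox 500 750 790 1490 108 143 108 311) 560 9 3 11 8 (eMidUp midUpC 0 0 0) = true := by
  decide +kernel

def midC_up_num31 :
    checkFour (midBox 750 875 790 1490 108 143 108 311) 560 9 3 11 8 (eMidUp midUpC 0 0 0) = true := by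
  decide +kernel

def midC_up_num32 :
    checkFour (midBox 875 1000 790 1490 108 143 108 311) 560 9 3 11 8 (eMidUp midUpC 0 0 0) = true := by
  decide +kernel

def midC_up_den0 :
    checkFour (midBox 0 1000 91 1490 108 143 108 311) 560 4 1 4 3 (eMidDenOne midUpC) = true := by
  decide +kernel

def midC_up_start0 :
    checkFour (midBox 0 1 91 1490 108 143 108 311) 560 0 1 3 2 (eMidStartUp midUpC 5 0) = true := by
  decide +kernel

end Vale.Agent.P100.Calib.Band.AllLow
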