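import Vale.Agent.P100.Calib.SlabMidSound
import Vale.Agent.P100.Calib.SlabMidCertC

/-!
# The signs at the bands of piece C, lower band, dimensions from seven to twenty
-/

open Set Filter Topology

namespace Vale.Agent.P100.Calib.Band

open Vale.Agent.P100.Bubble Chart

namespace AllLow

theorem midC_low_num_s1 {a I X u : ℝ} (hP : MidPlace a I X) (hI : 27 / 250 ≤ I ∧ I ≤ 1 / 7) (hu : 0 < u) (hu1 : u < 1) (p0 : a < (209 / 1000)) (p1 : a < (79 / 500)) :
    0 < (eMidNum midLowC).eval (stabPt u X I a) := by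
  obtain ⟨hI1, hI2⟩ := hI
  have hIa := hP.I_le_a
  have haH := hP.a_le
  rcases lt_or_ge u (1 / 2) with h0 | h0
  · have hXu := hP.X_lt (79 / 500) (143 / 1000) (88 / 25) (by linarith only [p0, p1, hIa, haH, hI1, hI2]) (by linarith only [hI1, hI2, hIa, haH]) (by norm_num) (by norm_num) (by norm_num)
    have hXl := hP.le_X (79 / 500) (143 / 1000) (19 / 20) (by linarith only [p0, p1, hIa, haH, hI1, hI2]) (by linarith only [hI1, hI2, hIa, haH]) (by norm_num)
    exact mid_low_box hP (by decide) midC_low_num0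
      ⟨⟨(by push_cast; linarith only [hu, hu1, h0]), (by push_cast; linarith only [hu, hu1, h0])⟩, ⟨(by push_cast; linarith only [hXu, hXl]), (by push_cast; linarith only [hXu, hXl])⟩,
        ⟨(by push_cast; linarith only [hI1, hI2, hIa, haH]), (by push_cast; linarith only [hI1, hI2, hIa, haH])⟩, (by push_cast; linarith only [p0, p1, hIa, haH, hI1, hI2]), (by push_cast; linarith only [p0, p1, hIa, haH, hI1, hI2])⟩
  · rcases lt_or_ge X (223 / 100) with h1 | h1
    · have hXu := hP.X_lt (79 / 500) (143 / 1000) (88 / 25) (by linarith only [p0, p1, hIa, haH, hI1, hI2]) (by linarith only [hI1, hI2, hIa, haH]) (by norm_num) (by norm_num) (by norm_num)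
      have hXl := hP.le_X (79 / 500) (143 / 1000) (19 / 20) (by linarith only [p0, p1, hIa, haH, hI1, hI2]) (by linarith only [hI1, hI2, hIa, haH]) (by norm_num)
      exact mid_low_box hP (by decide) midC_low_num1
        ⟨⟨(by push_cast; linarith only [hu, hu1, h0]), (by push_cast; linarith only [hu, hu1, h0])⟩, ⟨(by push_cast; linarith only [h1, hXu, hXl]), (by push_cast; linarith only [h1, hXu, hXl])⟩,
        ⟨(by push_cast; linarith only [hI1, hI2, hIa, haH]), (by push_cast; linarith only [hI1, hI2, hIa, haH])⟩, (by push_cast; linarith only [p0, p1, hIa, haH, hI1, hI2]), (by push_cast; linarith only [p0, p1, hIa, haH, hI1, hI2])⟩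
    · have hXu := hP.X_lt (79 / 500) (143 / 1000) (88 / 25) (by linarith only [p0, p1, hIa, haH, hI1, hI2]) (by linarith only [hI1, hI2, hIa, haH]) (by norm_num) (by norm_num) (by norm_num)
      have hXl := hP.le_X (79 / 500) (143 / 1000) (19 / 20) (by linarith only [p0, p1, hIa, haH, hI1, hI2]) (by linarith only [hI1, hI2, hIa, haH]) (by norm_num)
      exact mid_low_box hP (by decide) midC_low_num2
        ⟨⟨(by push_cast; linarith only [hu, hu1, h0]), (by push_cast; linarith only [hu, hu1, h0])⟩, ⟨(by push_cast; linarith only [h1, hXu, hXl]), (by push_cast; linarith only [h1, hXu, hXl])⟩,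
        ⟨(by push_cast; linarith only [hI1, hI2, hIa, haH]), (by push_cast; linarith only [hI1, hI2, hIa, haH])⟩, (by push_cast; linarith only [p0, p1, hIa, haH, hI1, hI2]), (by push_cast; linarith only [p0, p1, hIa, haH, hI1, hI2])⟩

theorem midC_low_num_s2 {a I X u : ℝ} (hP : MidPlace a I X) (hI : 27 / 250 ≤ I ∧ I ≤ 1 / 7) (hu : 0 < u) (hu1 : u < 1) (p0 : a < (209 / 1000)) (p1 : (79 / 500) ≤ a) :
    0 < (eMidNum midLowC).eval (stabPt u X I a) := by
  obtain ⟨hI1, hI2⟩ := hI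
  have hIa := hP.I_le_a
  have haH := hP.a_le
  rcases lt_or_ge X (71 / 25) with h0 | h0
  · have hXu := hP.X_lt (209 / 1000) (143 / 1000) (237 / 50) (by linarith only [p0, p1, hIa, haH, hI1, hI2]) (by linarith only [hI1, hI2, hIa, haH]) (by norm_num) (by norm_num) (by norm_num)
    have hXl := hP.le_X (209 / 1000) (143 / 1000) (47 / 50) (by linarith only [p0, p1, hIa, haH, hI1, hI2]) (by linarith only [hI1, hI2, hIa, haH]) (by norm_num)
    exact mid_low_box hP (by decide) midC_low_num3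
      ⟨⟨(by push_cast; linarith only [hu, hu1]), (by push_cast; linarith only [hu, hu1])⟩, ⟨(by push_cast; linarith only [h0, hXu, hXl]), (by push_cast; linarith only [h0, hXu, hXl])⟩,
        ⟨(by push_cast; linarith only [hI1, hI2, hIa, haH]), (by push_cast; linarith only [hI1, hI2, hIa, haH])⟩, (by push_cast; linarith only [p0, p1, hIa, haH, hI1, hI2]), (by push_cast; linarith only [p0, p1, hIa, haH, hI1, hI2])⟩
  · rcases lt_or_ge u (1 / 2) with h1 | h1
    · have hXu := hP.X_lt (209 / 1000) (143 / 1000) (237 / 50) (by linarith only [p0, p1, hIa, haH, hI1, hI2]) (by linarith only [hI1, hI2, hIa, haH]) (by norm_num) (by norm_num) (by norm_num)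
      have hXl := hP.le_X (209 / 1000) (143 / 1000) (47 / 50) (by linarith only [p0, p1, hIa, haH, hI1, hI2]) (by linarith only [hI1, hI2, hIa, haH]) (by norm_num)
      exact mid_low_box hP (by decide) midC_low_num4
        ⟨⟨(by push_cast; linarith only [hu, hu1, h1]), (by push_cast; linarith only [hu, hu1, h1])⟩, ⟨(by push_cast; linarith only [h0, hXu, hXl]), (by push_cast; linarith only [h0, hXu, hXl])⟩,
        ⟨(by push_cast; linarith only [hI1, hI2, hIa, haH]), (by push_cast; linarith only [hI1, hI2, hIa, haH])⟩, (by push_cast; linarith only [p0, p1, hIa, haH, hI1, hI2]), (by push_cast; linarith only [p0, p1, hIa, haH, hI1, hI2])⟩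
    · rcases lt_or_ge a (183 / 1000) with h2 | h2
      · have hXu := hP.X_lt (183 / 1000) (143 / 1000) (403 / 100) (by linarith only [p0, p1, h2, hIa, haH, hI1, hI2]) (by linarith only [hI1, hI2, hIa, haH]) (by norm_num) (by norm_num) (by norm_num)
        have hXl := hP.le_X (183 / 1000) (143 / 1000) (19 / 20) (by linarith only [p0, p1, h2, hIa, haH, hI1, hI2]) (by linarith only [hI1, hI2, hIa, haH]) (by norm_num)
        exact mid_low_box hP (by decide) midC_low_num5
          ⟨⟨(by push_cast; linarith only [hu, hu1, h1]), (by push_cast; linarith only [hu, hu1, h1])⟩, ⟨(by push_cast; linarith only [h0, hXu, hXl]), (by push_cast; linarith only [h0, hXu, hXl])⟩,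
        ⟨(by push_cast; linarith only [hI1, hI2, hIa, haH]), (by push_cast; linarith only [hI1, hI2, hIa, haH])⟩, (by push_cast; linarith only [p0, p1, h2, hIa, haH, hI1, hI2]), (by push_cast; linarith only [p0, p1, h2, hIa, haH, hI1, hI2])⟩
      · rcases lt_or_ge X (379 / 100) with h3 | h3
        · have hXu := hP.X_lt (209 / 1000) (143 / 1000) (237 / 50) (by linarith only [p0, p1, h2, hIa, haH, hI1, hI2]) (by linarith only [hI1, hI2, hIa, haH]) (by norm_num) (by norm_num) (by norm_num)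
          have hXl := hP.le_X (209 / 1000) (143 / 1000) (47 / 50) (by linarith only [p0, p1, h2, hIa, haH, hI1, hI2]) (by linarith only [hI1, hI2, hIa, haH]) (by norm_num)
          exact mid_low_box hP (by decide) midC_low_num6
            ⟨⟨(by push_cast; linarith only [hu, hu1, h1]), (by push_cast; linarith only [hu, hu1, h1])⟩, ⟨(by push_cast; linarith only [h0, h3, hXu, hXl]), (by push_cast; linarith only [h0, h3, hXu, hXl])⟩,
        ⟨(by push_cast; linarith only [hI1, hI2, hIa, haH]), (by push_cast; linarith only [hI1, hI2, hIa, haH])⟩, (by push_cast; linarith only [p0, p1, h2, hIa, haH, hI1, hI2]), (by push_cast; linarith only [p0, p1, h2, hIa, haH, hI1, hI2])⟩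
        · have hXu := hP.X_lt (209 / 1000) (143 / 1000) (237 / 50) (by linarith only [p0, p1, h2, hIa, haH, hI1, hI2]) (by linarith only [hI1, hI2, hIa, haH]) (by norm_num) (by norm_num) (by norm_num)
          have hXl := hP.le_X (209 / 1000) (143 / 1000) (47 / 50) (by linarith only [p0, p1, h2, hIa, haH, hI1, hI2]) (by linarith only [hI1, hI2, hIa, haH]) (by norm_num)
          exact mid_low_box hP (by decide) midC_low_num7
            ⟨⟨(by push_cast; linarith only [hu, hu1, h1]), (by push_cast; linarith only [hu, hu1, h1])⟩, ⟨(by push_cast; linarith only [h0, h3, hXu, hXl]), (by push_cast; linarith only [h0, h3, hXu, hXl])⟩,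
        ⟨(by push_cast; linarith only [hI1, hI2, hIa, haH]), (by push_cast; linarith only [hI1, hI2, hIa, haH])⟩, (by push_cast; linarith only [p0, p1, h2, hIa, haH, hI1, hI2]), (by push_cast; linarith only [p0, p1, h2, hIa, haH, hI1, hI2])⟩

theorem midC_low_num_s0 {a I X u : ℝ} (hP : MidPlace a I X) (hI : 27 / 250 ≤ I ∧ I ≤ 1 / 7) (hu : 0 < u) (hu1 : u < 1) (p0 : a < (209 / 1000)) :
    0 < (eMidNum midLowC).eval (stabPt u X I a) := by
  rcases lt_or_ge a (79 / 500) with h | h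
  · exact midC_low_num_s1 hP hI hu hu1 p0 h
  · exact midC_low_num_s2 hP hI hu hu1 p0 h

theorem midC_low_num_s5 {a I X u : ℝ} (hP : MidPlace a I X) (hI : 27 / 250 ≤ I ∧ I ≤ 1 / 7) (hu : 0 < u) (hu1 : u < 1) (p0 : (209 / 1000) ≤ a) (p1 : a < (13 / 50)) (p2 : X < (407 / 100)) :
    0 < (eMidNum midLowC).eval (stabPt u X I a) := by
  obtain ⟨hI1, hI2⟩ := hI
  have hIa := hP.I_le_a
  have haH := hP.a_le
  rcases lt_or_ge u (1 / 2) with h0 | h0
  · have hXu := hP.X_lt (13 / 50) (143 / 1000) (361 / 50) (by linarith only [p0, p1, hIa, haH, hI1, hI2]) (by linarith only [hI1, hI2, hIa, haH]) (by norm_num) (by norm_num) (by norm_num)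
    have hXl := hP.le_X (13 / 50) (143 / 1000) (93 / 100) (by linarith only [p0, p1, hIa, haH, hI1, hI2]) (by linarith only [hI1, hI2, hIa, haH]) (by norm_num)
    exact mid_low_box hP (by decide) midC_low_num8
      ⟨⟨(by push_cast; linarith only [hu, hu1, h0]), (by push_cast; linarith only [hu, hu1, h0])⟩, ⟨(by push_cast; linarith only [p2, hXu, hXl]), (by push_cast; linarith only [p2, hXu, hXl])⟩,
        ⟨(by push_cast; linarith only [hI1, hI2, hIa, haH]), (by push_cast; linarith only [hI1, hI2, hIa, haH])⟩, (by push_cast; linarith only [p0, p1, hIa, haH, hI1, hI2]), (by push_cast; linarith only [p0, p1, hIa, haH, hI1, hI2])⟩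
  · rcases lt_or_ge a (117 / 500) with h1 | h1
    · rcases lt_or_ge X (5 / 2) with h2 | h2
      · have hXu := hP.X_lt (117 / 500) (143 / 1000) (57 / 10) (by linarith only [p0, p1, h1, hIa, haH, hI1, hI2]) (by linarith only [hI1, hI2, hIa, haH]) (by norm_num) (by norm_num) (by norm_num)
        have hXl := hP.le_X (117 / 500) (143 / 1000) (93 / 100) (by linarith only [p0, p1, h1, hIa, haH, hI1, hI2]) (by linarith only [hI1, hI2, hIa, haH]) (by norm_num)
        exact mid_low_box hP (by decide) midC_low_num9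
          ⟨⟨(by push_cast; linarith only [hu, hu1, h0]), (by push_cast; linarith only [hu, hu1, h0])⟩, ⟨(by push_cast; linarith only [p2, h2, hXu, hXl]), (by push_cast; linarith only [p2, h2, hXu, hXl])⟩,
        ⟨(by push_cast; linarith only [hI1, hI2, hIa, haH]), (by push_cast; linarith only [hI1, hI2, hIa, haH])⟩, (by push_cast; linarith only [p0, p1, h1, hIa, haH, hI1, hI2]), (by push_cast; linarith only [p0, p1, h1, hIa, haH, hI1, hI2])⟩
      · have hXu := hP.X_lt (117 / 500) (143 / 1000) (57 / 10) (by linarith only [p0, p1, h1, hIa, haH, hI1, hI2]) (by linarith only [hI1, hI2, hIa, haH]) (by norm_num) (by norm_num) (by norm_num)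
        have hXl := hP.le_X (117 / 500) (143 / 1000) (93 / 100) (by linarith only [p0, p1, h1, hIa, haH, hI1, hI2]) (by linarith only [hI1, hI2, hIa, haH]) (by norm_num)
        exact mid_low_box hP (by decide) midC_low_num10
          ⟨⟨(by push_cast; linarith only [hu, hu1, h0]), (by push_cast; linarith only [hu, hu1, h0])⟩, ⟨(by push_cast; linarith only [p2, h2, hXu, hXl]), (by push_cast; linarith only [p2, h2, hXu, hXl])⟩,
        ⟨(by push_cast; linarith only [hI1, hI2, hIa, haH]), (by push_cast; linarith only [hI1, hI2, hIa, haH])⟩, (by push_cast; linarith only [p0, p1, h1, hIa, haH, hI1, hI2]), (by push_cast; linarith only [p0, p1, h1, hIa, haH, hI1, hI2])⟩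
    · have hXu := hP.X_lt (13 / 50) (143 / 1000) (361 / 50) (by linarith only [p0, p1, h1, hIa, haH, hI1, hI2]) (by linarith only [hI1, hI2, hIa, haH]) (by norm_num) (by norm_num) (by norm_num)
      have hXl := hP.le_X (13 / 50) (143 / 1000) (93 / 100) (by linarith only [p0, p1, h1, hIa, haH, hI1, hI2]) (by linarith only [hI1, hI2, hIa, haH]) (by norm_num)
      exact mid_low_box hP (by decide) midC_low_num11
        ⟨⟨(by push_cast; linarith only [hu, hu1, h0]), (by push_cast; linarith only [hu, hu1, h0])⟩, ⟨(by push_cast; linarith only [p2, hXu, hXl]), (by push_cast; linarith only [p2, hXu, hXl])⟩,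
        ⟨(by push_cast; linarith only [hI1, hI2, hIa, haH]), (by push_cast; linarith only [hI1, hI2, hIa, haH])⟩, (by push_cast; linarith only [p0, p1, h1, hIa, haH, hI1, hI2]), (by push_cast; linarith only [p0, p1, h1, hIa, haH, hI1, hI2])⟩

theorem midC_low_num_s7 {a I X u : ℝ} (hP : MidPlace a I X) (hI : 27 / 250 ≤ I ∧ I ≤ 1 / 7) (hu : 0 < u) (hu1 : u < 1) (p0 : (209 / 1000) ≤ a) (p1 : a < (13 / 50)) (p2 : (407 / 100) ≤ X) (p3 : a < (117 / 500)) :
    0 < (eMidNum midLowC).eval (stabPt u X I a) := by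
  obtain ⟨hI1, hI2⟩ := hI
  have hIa := hP.I_le_a
  have haH := hP.a_le
  rcases lt_or_ge u (1 / 2) with h0 | h0
  · have hXu := hP.X_lt (117 / 500) (143 / 1000) (57 / 10) (by linarith only [p0, p1, p3, hIa, haH, hI1, hI2]) (by linarith only [hI1, hI2, hIa, haH]) (by norm_num) (by norm_num) (by norm_num)
    have hXl := hP.le_X (117 / 500) (143 / 1000) (93 / 100) (by linarith only [p0, p1, p3, hIa, haH, hI1, hI2]) (by linarith only [hI1, hI2, hIa, haH]) (by norm_num)
    exact mid_low_box hP (by decide) midC_low_num12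
      ⟨⟨(by push_cast; linarith only [hu, hu1, h0]), (by push_cast; linarith only [hu, hu1, h0])⟩, ⟨(by push_cast; linarith only [p2, hXu, hXl]), (by push_cast; linarith only [p2, hXu, hXl])⟩,
        ⟨(by push_cast; linarith only [hI1, hI2, hIa, haH]), (by push_cast; linarith only [hI1, hI2, hIa, haH])⟩, (by push_cast; linarith only [p0, p1, p3, hIa, haH, hI1, hI2]), (by push_cast; linarith only [p0, p1, p3, hIa, haH, hI1, hI2])⟩
  · have hXu := hP.X_lt (117 / 500) (143 / 1000) (57 / 10) (by linarith only [p0, p1, p3, hIa, haH, hI1, hI2]) (by linarith only [hI1, hI2, hIa, haH]) (by norm_num) (by norm_num) (by norm_num)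
    have hXl := hP.le_X (117 / 500) (143 / 1000) (93 / 100) (by linarith only [p0, p1, p3, hIa, haH, hI1, hI2]) (by linarith only [hI1, hI2, hIa, haH]) (by norm_num)
    exact mid_low_box hP (by decide) midC_low_num13
      ⟨⟨(by push_cast; linarith only [hu, hu1, h0]), (by push_cast; linarith only [hu, hu1, h0])⟩, ⟨(by push_cast; linarith only [p2, hXu, hXl]), (by push_cast; linarith only [p2, hXu, hXl])⟩,
        ⟨(by push_cast; linarith only [hI1, hI2, hIa, haH]), (by push_cast; linarith only [hI1, hI2, hIa, haH])⟩, (by push_cast; linarith only [p0, p1, p3, hIa, haH, hI1, hI2]), (by push_cast; linarith only [p0, p1, p3, hIa, haH, hI1, hI2])⟩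

theorem midC_low_num_s8 {a I X u : ℝ} (hP : MidPlace a I X) (hI : 27 / 250 ≤ I ∧ I ≤ 1 / 7) (hu : 0 < u) (hu1 : u < 1) (p0 : (209 / 1000) ≤ a) (p1 : a < (13 / 50)) (p2 : (407 / 100) ≤ X) (p3 : (117 / 500) ≤ a) :
    0 < (eMidNum midLowC).eval (stabPt u X I a) := by
  obtain ⟨hI1, hI2⟩ := hI
  have hIa := hP.I_le_a
  have haH := hP.a_le
  rcases lt_or_ge u (1 / 2) with h0 | h0
  · have hXu := hP.X_lt (13 / 50) (143 / 1000) (361 / 50) (by linarith only [p0, p1, p3, hIa, haH, hI1, hI2]) (by linarith only [hI1, hI2, hIa, haH]) (by norm_num) (by norm_num) (by norm_num)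
    have hXl := hP.le_X (13 / 50) (143 / 1000) (93 / 100) (by linarith only [p0, p1, p3, hIa, haH, hI1, hI2]) (by linarith only [hI1, hI2, hIa, haH]) (by norm_num)
    exact mid_low_box hP (by decide) midC_low_num14
      ⟨⟨(by push_cast; linarith only [hu, hu1, h0]), (by push_cast; linarith only [hu, hu1, h0])⟩, ⟨(by push_cast; linarith only [p2, hXu, hXl]), (by push_cast; linarith only [p2, hXu, hXl])⟩,
        ⟨(by push_cast; linarith only [hI1, hI2, hIa, haH]), (by push_cast; linarith only [hI1, hI2, hIa, haH])⟩, (by push_cast; linarith only [p0, p1, p3, hIa, haH, hI1, hI2]), (by push_cast; linarith only [p0, p1, p3, hIa, haH, hI1, hI2])⟩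
  · rcases lt_or_ge a (247 / 1000) with h1 | h1
    · have hXu := hP.X_lt (247 / 1000) (143 / 1000) (637 / 100) (by linarith only [p0, p1, p3, h1, hIa, haH, hI1, hI2]) (by linarith only [hI1, hI2, hIa, haH]) (by norm_num) (by norm_num) (by norm_num)
      have hXl := hP.le_X (247 / 1000) (143 / 1000) (93 / 100) (by linarith only [p0, p1, p3, h1, hIa, haH, hI1, hI2]) (by linarith only [hI1, hI2, hIa, haH]) (by norm_num)
      exact mid_low_box hP (by decide) midC_low_num15
        ⟨⟨(by push_cast; linarith only [hu, hu1, h0]), (by push_cast; linarith only [hu, hu1, h0])⟩, ⟨(by push_cast; linarith only [p2, hXu, hXl]), (by push_cast; linarith only [p2, hXu, hXl])⟩,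
        ⟨(by push_cast; linarith only [hI1, hI2, hIa, haH]), (by push_cast; linarith only [hI1, hI2, hIa, haH])⟩, (by push_cast; linarith only [p0, p1, p3, h1, hIa, haH, hI1, hI2]), (by push_cast; linarith only [p0, p1, p3, h1, hIa, haH, hI1, hI2])⟩
    · rcases lt_or_ge X (141 / 25) with h2 | h2
      · have hXu := hP.X_lt (13 / 50) (143 / 1000) (361 / 50) (by linarith only [p0, p1, p3, h1, hIa, haH, hI1, hI2]) (by linarith only [hI1, hI2, hIa, haH]) (by norm_num) (by norm_num) (by norm_num)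
        have hXl := hP.le_X (13 / 50) (143 / 1000) (93 / 100) (by linarith only [p0, p1, p3, h1, hIa, haH, hI1, hI2]) (by linarith only [hI1, hI2, hIa, haH]) (by norm_num)
        exact mid_low_box hP (by decide) midC_low_num16
          ⟨⟨(by push_cast; linarith only [hu, hu1, h0]), (by push_cast; linarith only [hu, hu1, h0])⟩, ⟨(by push_cast; linarith only [p2, h2, hXu, hXl]), (by push_cast; linarith only [p2, h2, hXu, hXl])⟩,
        ⟨(by push_cast; linarith only [hI1, hI2, hIa, haH]), (by push_cast; linarith only [hI1, hI2, hIa, haH])⟩, (by push_cast; linarith only [p0, p1, p3, h1, hIa, haH, hI1, hI2]), (by push_cast; linarith only [p0, p1, p3, h1, hIa, haH, hI1, hI2])⟩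
      · have hXu := hP.X_lt (13 / 50) (143 / 1000) (361 / 50) (by linarith only [p0, p1, p3, h1, hIa, haH, hI1, hI2]) (by linarith only [hI1, hI2, hIa, haH]) (by norm_num) (by norm_num) (by norm_num)
        have hXl := hP.le_X (13 / 50) (143 / 1000) (93 / 100) (by linarith only [p0, p1, p3, h1, hIa, haH, hI1, hI2]) (by linarith only [hI1, hI2, hIa, haH]) (by norm_num)
        exact mid_low_box hP (by decide) midC_low_num17
          ⟨⟨(by push_cast; linarith only [hu, hu1, h0]), (by push_cast; linarith only [hu, hu1, h0])⟩, ⟨(by push_cast; linarith only [p2, h2, hXu, hXl]), (by push_cast; linarith only [p2, h2, hXu, hXl])⟩,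
        ⟨(by push_cast; linarith only [hI1, hI2, hIa, haH]), (by push_cast; linarith only [hI1, hI2, hIa, haH])⟩, (by push_cast; linarith only [p0, p1, p3, h1, hIa, haH, hI1, hI2]), (by push_cast; linarith only [p0, p1, p3, h1, hIa, haH, hI1, hI2])⟩

theorem midC_low_num_s6 {a I X u : ℝ} (hP : MidPlace a I X) (hI : 27 / 250 ≤ I ∧ I ≤ 1 / 7) (hu : 0 < u) (hu1 : u < 1) (p0 : (209 / 1000) ≤ a) (p1 : a < (13 / 50)) (p2 : (407 / 100) ≤ X) :
    0 < (eMidNum midLowC).eval (stabPt u X I a) := by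
  rcases lt_or_ge a (117 / 500) with h | h
  · exact midC_low_num_s7 hP hI hu hu1 p0 p1 p2 h
  · exact midC_low_num_s8 hP hI hu hu1 p0 p1 p2 h

theorem midC_low_num_s4 {a I X u : ℝ} (hP : MidPlace a I X) (hI : 27 / 250 ≤ I ∧ I ≤ 1 / 7) (hu : 0 < u) (hu1 : u < 1) (p0 : (209 / 1000) ≤ a) (p1 : a < (13 / 50)) :
    0 < (eMidNum midLowC).eval (stabPt u X I a) := by
  rcases lt_or_ge X (407 / 100) with h | h
  · exact midC_low_num_s5 hP hI hu hu1 p0 p1 h
  · exact midC_low_num_s6 hP hI hu hu1 p0 p1 h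

theorem midC_low_num_s11 {a I X u : ℝ} (hP : MidPlace a I X) (hI : 27 / 250 ≤ I ∧ I ≤ 1 / 7) (hu : 0 < u) (hu1 : u < 1) (p0 : (209 / 1000) ≤ a) (p1 : (13 / 50) ≤ a) (p2 : X < (79 / 10)) (p3 : X < (22 / 5)) :
    0 < (eMidNum midLowC).eval (stabPt u X I a) := by
  obtain ⟨hI1, hI2⟩ := hI
  have hIa := hP.I_le_a
  have haH := hP.a_le
  rcases lt_or_ge u (1 / 2) with h0 | h0
  · have hXu := hP.X_lt (31 / 100) (143 / 1000) (149 / 10) (by linarith only [p0, p1, hIa, haH, hI1, hI2]) (by linarith only [hI1, hI2, hIa, haH]) (by norm_num) (by norm_num) (by norm_num)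
    have hXl := hP.le_X (31 / 100) (143 / 1000) (91 / 100) (by linarith only [p0, p1, hIa, haH, hI1, hI2]) (by linarith only [hI1, hI2, hIa, haH]) (by norm_num)
    exact mid_low_box hP (by decide) midC_low_num18
      ⟨⟨(by push_cast; linarith only [hu, hu1, h0]), (by push_cast; linarith only [hu, hu1, h0])⟩, ⟨(by push_cast; linarith only [p2, p3, hXu, hXl]), (by push_cast; linarith only [p2, p3, hXu, hXl])⟩,
        ⟨(by push_cast; linarith only [hI1, hI2, hIa, haH]), (by push_cast; linarith only [hI1, hI2, hIa, haH])⟩, (by push_cast; linarith only [p0, p1, hIa, haH, hI1, hI2]), (by push_cast; linarith only [p0, p1, hIa, haH, hI1, hI2])⟩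
  · have hXu := hP.X_lt (31 / 100) (143 / 1000) (149 / 10) (by linarith only [p0, p1, hIa, haH, hI1, hI2]) (by linarith only [hI1, hI2, hIa, haH]) (by norm_num) (by norm_num) (by norm_num)
    have hXl := hP.le_X (31 / 100) (143 / 1000) (91 / 100) (by linarith only [p0, p1, hIa, haH, hI1, hI2]) (by linarith only [hI1, hI2, hIa, haH]) (by norm_num)
    exact mid_low_box hP (by decide) midC_low_num19
      ⟨⟨(by push_cast; linarith only [hu, hu1, h0]), (by push_cast; linarith only [hu, hu1, h0])⟩, ⟨(by push_cast; linarith only [p2, p3, hXu, hXl]), (by push_cast; linarith only [p2, p3, hXu, hXl])⟩,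
        ⟨(by push_cast; linarith only [hI1, hI2, hIa, haH]), (by push_cast; linarith only [hI1, hI2, hIa, haH])⟩, (by push_cast; linarith only [p0, p1, hIa, haH, hI1, hI2]), (by push_cast; linarith only [p0, p1, hIa, haH, hI1, hI2])⟩

theorem midC_low_num_s14 {a I X u : ℝ} (hP : MidPlace a I X) (hI : 27 / 250 ≤ I ∧ I ≤ 1 / 7) (hu : 0 < u) (hu1 : u < 1) (p0 : (209 / 1000) ≤ a) (p1 : (13 / 50) ≤ a) (p2 : X < (79 / 10)) (p3 : (22 / 5) ≤ X) (p4 : a < (57 / 200)) (p5 : u < (1 / 2)) :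
    0 < (eMidNum midLowC).eval (stabPt u X I a) := by
  obtain ⟨hI1, hI2⟩ := hI
  have hIa := hP.I_le_a
  have haH := hP.a_le
  rcases lt_or_ge u (1 / 4) with h0 | h0
  · have hXu := hP.X_lt (57 / 200) (143 / 1000) (973 / 100) (by linarith only [p0, p1, p4, hIa, haH, hI1, hI2]) (by linarith only [hI1, hI2, hIa, haH]) (by norm_num) (by norm_num) (by norm_num)
    have hXl := hP.le_X (57 / 200) (143 / 1000) (23 / 25) (by linarith only [p0, p1, p4, hIa, haH, hI1, hI2]) (by linarith only [hI1, hI2, hIa, haH]) (by norm_num)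
    exact mid_low_box hP (by decide) midC_low_num20
      ⟨⟨(by push_cast; linarith only [hu, hu1, p5, h0]), (by push_cast; linarith only [hu, hu1, p5, h0])⟩, ⟨(by push_cast; linarith only [p2, p3, hXu, hXl]), (by push_cast; linarith only [p2, p3, hXu, hXl])⟩,
        ⟨(by push_cast; linarith only [hI1, hI2, hIa, haH]), (by push_cast; linarith only [hI1, hI2, hIa, haH])⟩, (by push_cast; linarith only [p0, p1, p4, hIa, haH, hI1, hI2]), (by push_cast; linarith only [p0, p1, p4, hIa, haH, hI1, hI2])⟩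
  · have hXu := hP.X_lt (57 / 200) (143 / 1000) (973 / 100) (by linarith only [p0, p1, p4, hIa, haH, hI1, hI2]) (by linarith only [hI1, hI2, hIa, haH]) (by norm_num) (by norm_num) (by norm_num)
    have hXl := hP.le_X (57 / 200) (143 / 1000) (23 / 25) (by linarith only [p0, p1, p4, hIa, haH, hI1, hI2]) (by linarith only [hI1, hI2, hIa, haH]) (by norm_num)
    exact mid_low_box hP (by decide) midC_low_num21
      ⟨⟨(by push_cast; linarith only [hu, hu1, p5, h0]), (by push_cast; linarith only [hu, hu1, p5, h0])⟩, ⟨(by push_cast; linarith only [p2, p3, hXu, hXl]), (by push_cast; linarith only [p2, p3, hXu, hXl])⟩,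
        ⟨(by push_cast; linarith only [hI1, hI2, hIa, haH]), (by push_cast; linarith only [hI1, hI2, hIa, haH])⟩, (by push_cast; linarith only [p0, p1, p4, hIa, haH, hI1, hI2]), (by push_cast; linarith only [p0, p1, p4, hIa, haH, hI1, hI2])⟩

theorem midC_low_num_s16 {a I X u : ℝ} (hP : MidPlace a I X) (hI : 27 / 250 ≤ I ∧ I ≤ 1 / 7) (hu : 0 < u) (hu1 : u < 1) (p0 : (209 / 1000) ≤ a) (p1 : (13 / 50) ≤ a) (p2 : X < (79 / 10)) (p3 : (22 / 5) ≤ X) (p4 : a < (57 / 200)) (p5 : (1 / 2) ≤ u) (p6 : u < (3 / 4)) :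
    0 < (eMidNum midLowC).eval (stabPt u X I a) := by
  obtain ⟨hI1, hI2⟩ := hI
  have hIa := hP.I_le_a
  have haH := hP.a_le
  have hXu := hP.X_lt (57 / 200) (143 / 1000) (973 / 100) (by linarith only [p0, p1, p4, hIa, haH, hI1, hI2]) (by linarith only [hI1, hI2, hIa, haH]) (by norm_num) (by norm_num) (by norm_num)
  have hXl := hP.le_X (57 / 200) (143 / 1000) (23 / 25) (by linarith only [p0, p1, p4, hIa, haH, hI1, hI2]) (by linarith only [hI1, hI2, hIa, haH]) (by norm_num)
  exact mid_low_box hP (by decide) midC_low_num22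
    ⟨⟨(by push_cast; linarith only [hu, hu1, p5, p6]), (by push_cast; linarith only [hu, hu1, p5, p6])⟩, ⟨(by push_cast; linarith only [p2, p3, hXu, hXl]), (by push_cast; linarith only [p2, p3, hXu, hXl])⟩,
        ⟨(by push_cast; linarith only [hI1, hI2, hIa, haH]), (by push_cast; linarith only [hI1, hI2, hIa, haH])⟩, (by push_cast; linarith only [p0, p1, p4, hIa, haH, hI1, hI2]), (by push_cast; linarith only [p0, p1, p4, hIa, haH, hI1, hI2])⟩

theorem midC_low_num_s18 {a I X u : ℝ} (hP : MidPlace a I X) (hI : 27 / 250 ≤ I ∧ I ≤ 1 / 7) (hu : 0 < u) (hu1 : u < 1) (p0 : (209 / 1000) ≤ a) (p1 : (13 / 50) ≤ a) (p2 : X < (79 / 10)) (p3 : (22 / 5) ≤ X) (p4 : a < (57 / 200)) (p5 : (1 / 2) ≤ u) (p6 : (3 / 4) ≤ u) (p7 : a < (34 / 125)) :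
    0 < (eMidNum midLowC).eval (stabPt u X I a) := by
  obtain ⟨hI1, hI2⟩ := hI
  have hIa := hP.I_le_a
  have haH := hP.a_le
  rcases lt_or_ge I (1 / 8) with h0 | h0
  · have hXu := hP.X_lt (34 / 125) (1 / 8) (162 / 25) (by linarith only [p0, p1, p4, p7, hIa, haH, hI1, hI2, h0]) (by linarith only [hI1, hI2, h0, hIa, haH]) (by norm_num) (by norm_num) (by norm_num)
    have hXl := hP.le_X (34 / 125) (1 / 8) (93 / 100) (by linarith only [p0, p1, p4, p7, hIa, haH, hI1, hI2, h0]) (by linarith only [hI1, hI2, h0, hIa, haH]) (by norm_num)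
    exact mid_low_box hP (by decide) midC_low_num23
      ⟨⟨(by push_cast; linarith only [hu, hu1, p5, p6]), (by push_cast; linarith only [hu, hu1, p5, p6])⟩, ⟨(by push_cast; linarith only [p2, p3, hXu, hXl]), (by push_cast; linarith only [p2, p3, hXu, hXl])⟩,
        ⟨(by push_cast; linarith only [hI1, hI2, h0, hIa, haH]), (by push_cast; linarith only [hI1, hI2, h0, hIa, haH])⟩, (by push_cast; linarith only [p0, p1, p4, p7, hIa, haH, hI1, hI2, h0]), (by push_cast; linarith only [p0, p1, p4, p7, hIa, haH, hI1, hI2, h0])⟩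
  · have hXu := hP.X_lt (34 / 125) (143 / 1000) (206 / 25) (by linarith only [p0, p1, p4, p7, hIa, haH, hI1, hI2, h0]) (by linarith only [hI1, hI2, h0, hIa, haH]) (by norm_num) (by norm_num) (by norm_num)
    have hXl := hP.le_X (34 / 125) (143 / 1000) (23 / 25) (by linarith only [p0, p1, p4, p7, hIa, haH, hI1, hI2, h0]) (by linarith only [hI1, hI2, h0, hIa, haH]) (by norm_num)
    exact mid_low_box hP (by decide) midC_low_num24
      ⟨⟨(by push_cast; linarith only [hu, hu1, p5, p6]), (by push_cast; linarith only [hu, hu1, p5, p6])⟩, ⟨(by push_cast; linarith only [p2, p3, hXu, hXl]), (by push_cast; linarith only [p2, p3, hXu, hXl])⟩,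
        ⟨(by push_cast; linarith only [hI1, hI2, h0, hIa, haH]), (by push_cast; linarith only [hI1, hI2, h0, hIa, haH])⟩, (by push_cast; linarith only [p0, p1, p4, p7, hIa, haH, hI1, hI2, h0]), (by push_cast; linarith only [p0, p1, p4, p7, hIa, haH, hI1, hI2, h0])⟩

theorem midC_low_num_s19 {a I X u : ℝ} (hP : MidPlace a I X) (hI : 27 / 250 ≤ I ∧ I ≤ 1 / 7) (hu : 0 < u) (hu1 : u < 1) (p0 : (209 / 1000) ≤ a) (p1 : (13 / 50) ≤ a) (p2 : X < (79 / 10)) (p3 : (22 / 5) ≤ X) (p4 : a < (57 / 200)) (p5 : (1 / 2) ≤ u) (p6 : (3 / 4) ≤ u) (p7 : (34 / 125) ≤ a) :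
    0 < (eMidNum midLowC).eval (stabPt u X I a) := by
  obtain ⟨hI1, hI2⟩ := hI
  have hIa := hP.I_le_a
  have haH := hP.a_le
  rcases lt_or_ge I (1 / 8) with h0 | h0
  · rcases lt_or_ge X (59 / 10) with h1 | h1
    · have hXu := hP.X_lt (57 / 200) (1 / 8) (741 / 100) (by linarith only [p0, p1, p4, p7, hIa, haH, hI1, hI2, h0]) (by linarith only [hI1, hI2, h0, hIa, haH]) (by norm_num) (by norm_num) (by norm_num)
      have hXl := hP.le_X (57 / 200) (1 / 8) (93 / 100) (by linarith only [p0, p1, p4, p7, hIa, haH, hI1, hI2, h0]) (by linarith only [hI1, hI2, h0, hIa, haH]) (by norm_num)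
      exact mid_low_box hP (by decide) midC_low_num25
        ⟨⟨(by push_cast; linarith only [hu, hu1, p5, p6]), (by push_cast; linarith only [hu, hu1, p5, p6])⟩, ⟨(by push_cast; linarith only [p2, p3, h1, hXu, hXl]), (by push_cast; linarith only [p2, p3, h1, hXu, hXl])⟩,
        ⟨(by push_cast; linarith only [hI1, hI2, h0, hIa, haH]), (by push_cast; linarith only [hI1, hI2, h0, hIa, haH])⟩, (by push_cast; linarith only [p0, p1, p4, p7, hIa, haH, hI1, hI2, h0]), (by push_cast; linarith only [p0, p1, p4, p7, hIa, haH, hI1, hI2, h0])⟩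
    · have hXu := hP.X_lt (57 / 200) (1 / 8) (741 / 100) (by linarith only [p0, p1, p4, p7, hIa, haH, hI1, hI2, h0]) (by linarith only [hI1, hI2, h0, hIa, haH]) (by norm_num) (by norm_num) (by norm_num)
      have hXl := hP.le_X (57 / 200) (1 / 8) (93 / 100) (by linarith only [p0, p1, p4, p7, hIa, haH, hI1, hI2, h0]) (by linarith only [hI1, hI2, h0, hIa, haH]) (by norm_num)
      exact mid_low_box hP (by decide) midC_low_num26
        ⟨⟨(by push_cast; linarith only [hu, hu1, p5, p6]), (by push_cast; linarith only [hu, hu1, p5, p6])⟩, ⟨(by push_cast; linarith only [p2, p3, h1, hXu, hXl]), (by push_cast; linarith only [p2, p3, h1, hXu, hXl])⟩,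
        ⟨(by push_cast; linarith only [hI1, hI2, h0, hIa, haH]), (by push_cast; linarith only [hI1, hI2, h0, hIa, haH])⟩, (by push_cast; linarith only [p0, p1, p4, p7, hIa, haH, hI1, hI2, h0]), (by push_cast; linarith only [p0, p1, p4, p7, hIa, haH, hI1, hI2, h0])⟩
  · rcases lt_or_ge I (67 / 500) with h2 | h2
    · have hXu := hP.X_lt (57 / 200) (67 / 500) (211 / 25) (by linarith only [p0, p1, p4, p7, hIa, haH, hI1, hI2, h0, h2]) (by linarith only [hI1, hI2, h0, h2, hIa, haH]) (by norm_num) (by norm_num) (by norm_num)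
      have hXl := hP.le_X (57 / 200) (67 / 500) (23 / 25) (by linarith only [p0, p1, p4, p7, hIa, haH, hI1, hI2, h0, h2]) (by linarith only [hI1, hI2, h0, h2, hIa, haH]) (by norm_num)
      exact mid_low_box hP (by decide) midC_low_num27
        ⟨⟨(by push_cast; linarith only [hu, hu1, p5, p6]), (by push_cast; linarith only [hu, hu1, p5, p6])⟩, ⟨(by push_cast; linarith only [p2, p3, hXu, hXl]), (by push_cast; linarith only [p2, p3, hXu, hXl])⟩,
        ⟨(by push_cast; linarith only [hI1, hI2, h0, h2, hIa, haH]), (by push_cast; linarith only [hI1, hI2, h0, h2, hIa, haH])⟩, (by push_cast; linarith only [p0, p1, p4, p7, hIa, haH, hI1, hI2, h0, h2]), (by push_cast; linarith only [p0, p1, p4, p7, hIa, haH, hI1, hI2, h0, h2])⟩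
    · have hXu := hP.X_lt (57 / 200) (143 / 1000) (973 / 100) (by linarith only [p0, p1, p4, p7, hIa, haH, hI1, hI2, h0, h2]) (by linarith only [hI1, hI2, h0, h2, hIa, haH]) (by norm_num) (by norm_num) (by norm_num)
      have hXl := hP.le_X (57 / 200) (143 / 1000) (23 / 25) (by linarith only [p0, p1, p4, p7, hIa, haH, hI1, hI2, h0, h2]) (by linarith only [hI1, hI2, h0, h2, hIa, haH]) (by norm_num)
      exact mid_low_box hP (by decide) midC_low_num28
        ⟨⟨(by push_cast; linarith only [hu, hu1, p5, p6]), (by push_cast; linarith only [hu, hu1, p5, p6])⟩, ⟨(by push_cast; linarith only [p2, p3, hXu, hXl]), (by push_cast; linarith only [p2, p3, hXu, hXl])⟩,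
        ⟨(by push_cast; linarith only [hI1, hI2, h0, h2, hIa, haH]), (by push_cast; linarith only [hI1, hI2, h0, h2, hIa, haH])⟩, (by push_cast; linarith only [p0, p1, p4, p7, hIa, haH, hI1, hI2, h0, h2]), (by push_cast; linarith only [p0, p1, p4, p7, hIa, haH, hI1, hI2, h0, h2])⟩

theorem midC_low_num_s17 {a I X u : ℝ} (hP : MidPlace a I X) (hI : 27 / 250 ≤ I ∧ I ≤ 1 / 7) (hu : 0 < u) (hu1 : u < 1) (p0 : (209 / 1000) ≤ a) (p1 : (13 / 50) ≤ a) (p2 : X < (79 / 10)) (p3 : (22 / 5) ≤ X) (p4 : a < (57 / 200)) (p5 : (1 / 2) ≤ u) (p6 : (3 / 4) ≤ u) :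
    0 < (eMidNum midLowC).eval (stabPt u X I a) := by
  rcases lt_or_ge a (34 / 125) with h | h
  · exact midC_low_num_s18 hP hI hu hu1 p0 p1 p2 p3 p4 p5 p6 h
  · exact midC_low_num_s19 hP hI hu hu1 p0 p1 p2 p3 p4 p5 p6 h

theorem midC_low_num_s15 {a I X u : ℝ} (hP : MidPlace a I X) (hI : 27 / 250 ≤ I ∧ I ≤ 1 / 7) (hu : 0 < u) (hu1 : u < 1) (p0 : (209 / 1000) ≤ a) (p1 : (13 / 50) ≤ a) (p2 : X < (79 / 10)) (p3 : (22 / 5) ≤ X) (p4 : a < (57 / 200)) (p5 : (1 / 2) ≤ u) :
    0 < (eMidNum midLowC).eval (stabPt u X I a) := by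
  rcases lt_or_ge u (3 / 4) with h | h
  · exact midC_low_num_s16 hP hI hu hu1 p0 p1 p2 p3 p4 p5 h
  · exact midC_low_num_s17 hP hI hu hu1 p0 p1 p2 p3 p4 p5 h

theorem midC_low_num_s13 {a I X u : ℝ} (hP : MidPlace a I X) (hI : 27 / 250 ≤ I ∧ I ≤ 1 / 7) (hu : 0 < u) (hu1 : u < 1) (p0 : (209 / 1000) ≤ a) (p1 : (13 / 50) ≤ a) (p2 : X < (79 / 10)) (p3 : (22 / 5) ≤ X) (p4 : a < (57 / 200)) :
    0 < (eMidNum midLowC).eval (stabPt u X I a) := by
  rcases lt_or_ge u (1 / 2) with h | h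
  · exact midC_low_num_s14 hP hI hu hu1 p0 p1 p2 p3 p4 h
  · exact midC_low_num_s15 hP hI hu hu1 p0 p1 p2 p3 p4 h

theorem midC_low_num_s22 {a I X u : ℝ} (hP : MidPlace a I X) (hI : 27 / 250 ≤ I ∧ I ≤ 1 / 7) (hu : 0 < u) (hu1 : u < 1) (p0 : (209 / 1000) ≤ a) (p1 : (13 / 50) ≤ a) (p2 : X < (79 / 10)) (p3 : (22 / 5) ≤ X) (p4 : (57 / 200) ≤ a) (p5 : I < (1 / 8)) (p6 : u < (1 / 2)) :
    0 < (eMidNum midLowC).eval (stabPt u X I a) := by
  obtain ⟨hI1, hI2⟩ := hI
  have hIa := hP.I_le_a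
  have haH := hP.a_le
  have hXu := hP.X_lt (31 / 100) (1 / 8) (513 / 50) (by linarith only [p0, p1, p4, hIa, haH, p5, hI1, hI2]) (by linarith only [p5, hI1, hI2, hIa, haH]) (by norm_num) (by norm_num) (by norm_num)
  have hXl := hP.le_X (31 / 100) (1 / 8) (23 / 25) (by linarith only [p0, p1, p4, hIa, haH, p5, hI1, hI2]) (by linarith only [p5, hI1, hI2, hIa, haH]) (by norm_num)
  exact mid_low_box hP (by decide) midC_low_num29
    ⟨⟨(by push_cast; linarith only [hu, hu1, p6]), (by push_cast; linarith only [hu, hu1, p6])⟩, ⟨(by push_cast; linarith only [p2, p3, hXu, hXl]), (by push_cast; linarith only [p2, p3, hXu, hXl])⟩,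
        ⟨(by push_cast; linarith only [p5, hI1, hI2, hIa, haH]), (by push_cast; linarith only [p5, hI1, hI2, hIa, haH])⟩, (by push_cast; linarith only [p0, p1, p4, hIa, haH, p5, hI1, hI2]), (by push_cast; linarith only [p0, p1, p4, hIa, haH, p5, hI1, hI2])⟩

theorem midC_low_num_s24 {a I X u : ℝ} (hP : MidPlace a I X) (hI : 27 / 250 ≤ I ∧ I ≤ 1 / 7) (hu : 0 < u) (hu1 : u < 1) (p0 : (209 / 1000) ≤ a) (p1 : (13 / 50) ≤ a) (p2 : X < (79 / 10)) (p3 : (22 / 5) ≤ X) (p4 : (57 / 200) ≤ a) (p5 : I < (1 / 8)) (p6 : (1 / 2) ≤ u) (p7 : u < (3 / 4)) :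
    0 < (eMidNum midLowC).eval (stabPt u X I a) := by
  obtain ⟨hI1, hI2⟩ := hI
  have hIa := hP.I_le_a
  have haH := hP.a_le
  have hXu := hP.X_lt (31 / 100) (1 / 8) (513 / 50) (by linarith only [p0, p1, p4, hIa, haH, p5, hI1, hI2]) (by linarith only [p5, hI1, hI2, hIa, haH]) (by norm_num) (by norm_num) (by norm_num)
  have hXl := hP.le_X (31 / 100) (1 / 8) (23 / 25) (by linarith only [p0, p1, p4, hIa, haH, p5, hI1, hI2]) (by linarith only [p5, hI1, hI2, hIa, haH]) (by norm_num)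
  exact mid_low_box hP (by decide) midC_low_num30
    ⟨⟨(by push_cast; linarith only [hu, hu1, p6, p7]), (by push_cast; linarith only [hu, hu1, p6, p7])⟩, ⟨(by push_cast; linarith only [p2, p3, hXu, hXl]), (by push_cast; linarith only [p2, p3, hXu, hXl])⟩,
        ⟨(by push_cast; linarith only [p5, hI1, hI2, hIa, haH]), (by push_cast; linarith only [p5, hI1, hI2, hIa, haH])⟩, (by push_cast; linarith only [p0, p1, p4, hIa, haH, p5, hI1, hI2]), (by push_cast; linarith only [p0, p1, p4, hIa, haH, p5, hI1, hI2])⟩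

theorem midC_low_num_s26 {a I X u : ℝ} (hP : MidPlace a I X) (hI : 27 / 250 ≤ I ∧ I ≤ 1 / 7) (hu : 0 < u) (hu1 : u < 1) (p0 : (209 / 1000) ≤ a) (p1 : (13 / 50) ≤ a) (p2 : X < (79 / 10)) (p3 : (22 / 5) ≤ X) (p4 : (57 / 200) ≤ a) (p5 : I < (1 / 8)) (p6 : (1 / 2) ≤ u) (p7 : (3 / 4) ≤ u) (p8 : a < (149 / 500)) :
    0 < (eMidNum midLowC).eval (stabPt u X I a) := by
  obtain ⟨hI1, hI2⟩ := hI
  have hIa := hP.I_le_a
  have haH := hP.a_le
  rcases lt_or_ge a (291 / 1000) with h0 | h0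
  · have hXu := hP.X_lt (291 / 1000) (1 / 8) (397 / 50) (by linarith only [p0, p1, p4, p8, h0, hIa, haH, p5, hI1, hI2]) (by linarith only [p5, hI1, hI2, hIa, haH]) (by norm_num) (by norm_num) (by norm_num)
    have hXl := hP.le_X (291 / 1000) (1 / 8) (93 / 100) (by linarith only [p0, p1, p4, p8, h0, hIa, haH, p5, hI1, hI2]) (by linarith only [p5, hI1, hI2, hIa, haH]) (by norm_num)
    exact mid_low_box hP (by decide) midC_low_num31
      ⟨⟨(by push_cast; linarith only [hu, hu1, p6, p7]), (by push_cast; linarith only [hu, hu1, p6, p7])⟩, ⟨(by push_cast; linarith only [p2, p3, hXu, hXl]), (by push_cast; linarith only [p2, p3, hXu, hXl])⟩,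
        ⟨(by push_cast; linarith only [p5, hI1, hI2, hIa, haH]), (by push_cast; linarith only [p5, hI1, hI2, hIa, haH])⟩, (by push_cast; linarith only [p0, p1, p4, p8, h0, hIa, haH, p5, hI1, hI2]), (by push_cast; linarith only [p0, p1, p4, p8, h0, hIa, haH, p5, hI1, hI2])⟩
  · have hXu := hP.X_lt (149 / 500) (1 / 8) (433 / 50) (by linarith only [p0, p1, p4, p8, h0, hIa, haH, p5, hI1, hI2]) (by linarith only [p5, hI1, hI2, hIa, haH]) (by norm_num) (by norm_num) (by norm_num)
    have hXl := hP.le_X (149 / 500) (1 / 8) (93 / 100) (by linarith only [p0, p1, p4, p8, h0, hIa, haH, p5, hI1, hI2]) (by linarith only [p5, hI1, hI2, hIa, haH]) (by norm_num)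
    exact mid_low_box hP (by decide) midC_low_num32
      ⟨⟨(by push_cast; linarith only [hu, hu1, p6, p7]), (by push_cast; linarith only [hu, hu1, p6, p7])⟩, ⟨(by push_cast; linarith only [p2, p3, hXu, hXl]), (by push_cast; linarith only [p2, p3, hXu, hXl])⟩,
        ⟨(by push_cast; linarith only [p5, hI1, hI2, hIa, haH]), (by push_cast; linarith only [p5, hI1, hI2, hIa, haH])⟩, (by push_cast; linarith only [p0, p1, p4, p8, h0, hIa, haH, p5, hI1, hI2]), (by push_cast; linarith only [p0, p1, p4, p8, h0, hIa, haH, p5, hI1, hI2])⟩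

theorem midC_low_num_s27 {a I X u : ℝ} (hP : MidPlace a I X) (hI : 27 / 250 ≤ I ∧ I ≤ 1 / 7) (hu : 0 < u) (hu1 : u < 1) (p0 : (209 / 1000) ≤ a) (p1 : (13 / 50) ≤ a) (p2 : X < (79 / 10)) (p3 : (22 / 5) ≤ X) (p4 : (57 / 200) ≤ a) (p5 : I < (1 / 8)) (p6 : (1 / 2) ≤ u) (p7 : (3 / 4) ≤ u) (p8 : (149 / 500) ≤ a) :
    0 < (eMidNum midLowC).eval (stabPt u X I a) := by
  obtain ⟨hI1, hI2⟩ := hI
  have hIa := hP.I_le_a
  have haH := hP.a_le
  rcases lt_or_ge a (38 / 125) with h0 | h0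
  · rcases lt_or_ge I (29 / 250) with h1 | h1
    · have hXu := hP.X_lt (38 / 125) (29 / 250) (407 / 50) (by linarith only [p0, p1, p4, p8, h0, hIa, haH, p5, hI1, hI2, h1]) (by linarith only [p5, hI1, hI2, h1, hIa, haH]) (by norm_num) (by norm_num) (by norm_num)
      have hXl := hP.le_X (38 / 125) (29 / 250) (93 / 100) (by linarith only [p0, p1, p4, p8, h0, hIa, haH, p5, hI1, hI2, h1]) (by linarith only [p5, hI1, hI2, h1, hIa, haH]) (by norm_num)
      exact mid_low_box hP (by decide) midC_low_num33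
        ⟨⟨(by push_cast; linarith only [hu, hu1, p6, p7]), (by push_cast; linarith only [hu, hu1, p6, p7])⟩, ⟨(by push_cast; linarith only [p2, p3, hXu, hXl]), (by push_cast; linarith only [p2, p3, hXu, hXl])⟩,
        ⟨(by push_cast; linarith only [p5, hI1, hI2, h1, hIa, haH]), (by push_cast; linarith only [p5, hI1, hI2, h1, hIa, haH])⟩, (by push_cast; linarith only [p0, p1, p4, p8, h0, hIa, haH, p5, hI1, hI2, h1]), (by push_cast; linarith only [p0, p1, p4, p8, h0, hIa, haH, p5, hI1, hI2, h1])⟩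
    · have hXu := hP.X_lt (38 / 125) (1 / 8) (939 / 100) (by linarith only [p0, p1, p4, p8, h0, hIa, haH, p5, hI1, hI2, h1]) (by linarith only [p5, hI1, hI2, h1, hIa, haH]) (by norm_num) (by norm_num) (by norm_num)
      have hXl := hP.le_X (38 / 125) (1 / 8) (23 / 25) (by linarith only [p0, p1, p4, p8, h0, hIa, haH, p5, hI1, hI2, h1]) (by linarith only [p5, hI1, hI2, h1, hIa, haH]) (by norm_num)
      exact mid_low_box hP (by decide) midC_low_num34
        ⟨⟨(by push_cast; linarith only [hu, hu1, p6, p7]), (by push_cast; linarith only [hu, hu1, p6, p7])⟩, ⟨(by push_cast; linarith only [p2, p3, hXu, hXl]), (by push_cast; linarith only [p2, p3, hXu, hXl])⟩,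
        ⟨(by push_cast; linarith only [p5, hI1, hI2, h1, hIa, haH]), (by push_cast; linarith only [p5, hI1, hI2, h1, hIa, haH])⟩, (by push_cast; linarith only [p0, p1, p4, p8, h0, hIa, haH, p5, hI1, hI2, h1]), (by push_cast; linarith only [p0, p1, p4, p8, h0, hIa, haH, p5, hI1, hI2, h1])⟩
  · rcases lt_or_ge I (29 / 250) with h2 | h2
    · have hXu := hP.X_lt (31 / 100) (29 / 250) (44 / 5) (by linarith only [p0, p1, p4, p8, h0, hIa, haH, p5, hI1, hI2, h2]) (by linarith only [p5, hI1, hI2, h2, hIa, haH]) (by norm_num) (by norm_num) (by norm_num)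
      have hXl := hP.le_X (31 / 100) (29 / 250) (93 / 100) (by linarith only [p0, p1, p4, p8, h0, hIa, haH, p5, hI1, hI2, h2]) (by linarith only [p5, hI1, hI2, h2, hIa, haH]) (by norm_num)
      exact mid_low_box hP (by decide) midC_low_num35
        ⟨⟨(by push_cast; linarith only [hu, hu1, p6, p7]), (by push_cast; linarith only [hu, hu1, p6, p7])⟩, ⟨(by push_cast; linarith only [p2, p3, hXu, hXl]), (by push_cast; linarith only [p2, p3, hXu, hXl])⟩,
        ⟨(by push_cast; linarith only [p5, hI1, hI2, h2, hIa, haH]), (by push_cast; linarith only [p5, hI1, hI2, h2, hIa, haH])⟩, (by push_cast; linarith only [p0, p1, p4, p8, h0, hIa, haH, p5, hI1, hI2, h2]), (by push_cast; linarith only [p0, p1, p4, p8, h0, hIa, haH, p5, hI1, hI2, h2])⟩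
    · have hXu := hP.X_lt (31 / 100) (1 / 8) (513 / 50) (by linarith only [p0, p1, p4, p8, h0, hIa, haH, p5, hI1, hI2, h2]) (by linarith only [p5, hI1, hI2, h2, hIa, haH]) (by norm_num) (by norm_num) (by norm_num)
      have hXl := hP.le_X (31 / 100) (1 / 8) (23 / 25) (by linarith only [p0, p1, p4, p8, h0, hIa, haH, p5, hI1, hI2, h2]) (by linarith only [p5, hI1, hI2, h2, hIa, haH]) (by norm_num)
      exact mid_low_box hP (by decide) midC_low_num36
        ⟨⟨(by push_cast; linarith only [hu, hu1, p6, p7]), (by push_cast; linarith only [hu, hu1, p6, p7])⟩, ⟨(by push_cast; linarith only [p2, p3, hXu, hXl]), (by push_cast; linarith only [p2, p3, hXu, hXl])⟩,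
        ⟨(by push_cast; linarith only [p5, hI1, hI2, h2, hIa, haH]), (by push_cast; linarith only [p5, hI1, hI2, h2, hIa, haH])⟩, (by push_cast; linarith only [p0, p1, p4, p8, h0, hIa, haH, p5, hI1, hI2, h2]), (by push_cast; linarith only [p0, p1, p4, p8, h0, hIa, haH, p5, hI1, hI2, h2])⟩

theorem midC_low_num_s25 {a I X u : ℝ} (hP : MidPlace a I X) (hI : 27 / 250 ≤ I ∧ I ≤ 1 / 7) (hu : 0 < u) (hu1 : u < 1) (p0 : (209 / 1000) ≤ a) (p1 : (13 / 50) ≤ a) (p2 : X < (79 / 10)) (p3 : (22 / 5) ≤ X) (p4 : (57 / 200) ≤ a) (p5 : I < (1 / 8)) (p6 : (1 / 2) ≤ u) (p7 : (3 / 4) ≤ u) :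
    0 < (eMidNum midLowC).eval (stabPt u X I a) := by
  rcases lt_or_ge a (149 / 500) with h | h
  · exact midC_low_num_s26 hP hI hu hu1 p0 p1 p2 p3 p4 p5 p6 p7 h
  · exact midC_low_num_s27 hP hI hu hu1 p0 p1 p2 p3 p4 p5 p6 p7 h

theorem midC_low_num_s23 {a I X u : ℝ} (hP : MidPlace a I X) (hI : 27 / 250 ≤ I ∧ I ≤ 1 / 7) (hu : 0 < u) (hu1 : u < 1) (p0 : (209 / 1000) ≤ a) (p1 : (13 / 50) ≤ a) (p2 : X < (79 / 10)) (p3 : (22 / 5) ≤ X) (p4 : (57 / 200) ≤ a) (p5 : I < (1 / 8)) (p6 : (1 / 2) ≤ u) :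
    0 < (eMidNum midLowC).eval (stabPt u X I a) := by
  rcases lt_or_ge u (3 / 4) with h | h
  · exact midC_low_num_s24 hP hI hu hu1 p0 p1 p2 p3 p4 p5 p6 h
  · exact midC_low_num_s25 hP hI hu hu1 p0 p1 p2 p3 p4 p5 p6 h

theorem midC_low_num_s21 {a I X u : ℝ} (hP : MidPlace a I X) (hI : 27 / 250 ≤ I ∧ I ≤ 1 / 7) (hu : 0 < u) (hu1 : u < 1) (p0 : (209 / 1000) ≤ a) (p1 : (13 / 50) ≤ a) (p2 : X < (79 / 10)) (p3 : (22 / 5) ≤ X) (p4 : (57 / 200) ≤ a) (p5 : I < (1 / 8)) :
    0 < (eMidNum midLowC).eval (stabPt u X I a) := by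
  rcases lt_or_ge u (1 / 2) with h | h
  · exact midC_low_num_s22 hP hI hu hu1 p0 p1 p2 p3 p4 p5 h
  · exact midC_low_num_s23 hP hI hu hu1 p0 p1 p2 p3 p4 p5 h

theorem midC_low_num_s28 {a I X u : ℝ} (hP : MidPlace a I X) (hI : 27 / 250 ≤ I ∧ I ≤ 1 / 7) (hu : 0 < u) (hu1 : u < 1) (p0 : (209 / 1000) ≤ a) (p1 : (13 / 50) ≤ a) (p2 : X < (79 / 10)) (p3 : (22 / 5) ≤ X) (p4 : (57 / 200) ≤ a) (p5 : (1 / 8) ≤ I) :
    0 < (eMidNum midLowC).eval (stabPt u X I a) := by
  obtain ⟨hI1, hI2⟩ := hI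
  have hIa := hP.I_le_a
  have haH := hP.a_le
  have hXu := hP.X_lt_av (57 / 200) (1 / 8) (351 / 25) (by linarith only [p0, p1, p4, hIa, haH, p5, hI1, hI2]) (by linarith only [p5, hI1, hI2, hIa, haH]) (by norm_num) (by norm_num) (by norm_num)
  have hXl := hP.le_X (31 / 100) (143 / 1000) (91 / 100) (by linarith only [p0, p1, p4, hIa, haH, p5, hI1, hI2]) (by linarith only [p5, hI1, hI2, hIa, haH]) (by norm_num)
  exact mid_low_box hP (by decide) midC_low_num37
    ⟨⟨(by push_cast; linarith only [hu, hu1]), (by push_cast; linarith only [hu, hu1])⟩, ⟨(by push_cast; linarith only [p2, p3, hXu, hXl]), (by push_cast; linarith only [p2, p3, hXu, hXl])⟩,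
        ⟨(by push_cast; linarith only [p5, hI1, hI2, hIa, haH]), (by push_cast; linarith only [p5, hI1, hI2, hIa, haH])⟩, (by push_cast; linarith only [p0, p1, p4, hIa, haH, p5, hI1, hI2]), (by push_cast; linarith only [p0, p1, p4, hIa, haH, p5, hI1, hI2])⟩

theorem midC_low_num_s20 {a I X u : ℝ} (hP : MidPlace a I X) (hI : 27 / 250 ≤ I ∧ I ≤ 1 / 7) (hu : 0 < u) (hu1 : u < 1) (p0 : (209 / 1000) ≤ a) (p1 : (13 / 50) ≤ a) (p2 : X < (79 / 10)) (p3 : (22 / 5) ≤ X) (p4 : (57 / 200) ≤ a) :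
    0 < (eMidNum midLowC).eval (stabPt u X I a) := by
  rcases lt_or_ge I (1 / 8) with h | h
  · exact midC_low_num_s21 hP hI hu hu1 p0 p1 p2 p3 p4 h
  · exact midC_low_num_s28 hP hI hu hu1 p0 p1 p2 p3 p4 h

theorem midC_low_num_s12 {a I X u : ℝ} (hP : MidPlace a I X) (hI : 27 / 250 ≤ I ∧ I ≤ 1 / 7) (hu : 0 < u) (hu1 : u < 1) (p0 : (209 / 1000) ≤ a) (p1 : (13 / 50) ≤ a) (p2 : X < (79 / 10)) (p3 : (22 / 5) ≤ X) :
    0 < (eMidNum midLowC).eval (stabPt u X I a) := by
  rcases lt_or_ge a (57 / 200) with h | h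
  · exact midC_low_num_s13 hP hI hu hu1 p0 p1 p2 p3 h
  · exact midC_low_num_s20 hP hI hu hu1 p0 p1 p2 p3 h

theorem midC_low_num_s10 {a I X u : ℝ} (hP : MidPlace a I X) (hI : 27 / 250 ≤ I ∧ I ≤ 1 / 7) (hu : 0 < u) (hu1 : u < 1) (p0 : (209 / 1000) ≤ a) (p1 : (13 / 50) ≤ a) (p2 : X < (79 / 10)) :
    0 < (eMidNum midLowC).eval (stabPt u X I a) := by
  rcases lt_or_ge X (22 / 5) with h | h
  · exact midC_low_num_s11 hP hI hu hu1 p0 p1 p2 h
  · exact midC_low_num_s12 hP hI hu hu1 p0 p1 p2 h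

theorem midC_low_num_s30 {a I X u : ℝ} (hP : MidPlace a I X) (hI : 27 / 250 ≤ I ∧ I ≤ 1 / 7) (hu : 0 < u) (hu1 : u < 1) (p0 : (209 / 1000) ≤ a) (p1 : (13 / 50) ≤ a) (p2 : (79 / 10) ≤ X) (p3 : a < (57 / 200)) :
    0 < (eMidNum midLowC).eval (stabPt u X I a) := by
  obtain ⟨hI1, hI2⟩ := hI
  have hIa := hP.I_le_a
  have haH := hP.a_le
  rcases lt_or_ge u (1 / 2) with h0 | h0
  · have hXu := hP.X_lt (57 / 200) (143 / 1000) (973 / 100) (by linarith only [p0, p1, p3, hIa, haH, hI1, hI2]) (by linarith only [hI1, hI2, hIa, haH]) (by norm_num) (by norm_num) (by norm_num)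
    have hXl := hP.le_X (57 / 200) (143 / 1000) (23 / 25) (by linarith only [p0, p1, p3, hIa, haH, hI1, hI2]) (by linarith only [hI1, hI2, hIa, haH]) (by norm_num)
    exact mid_low_box hP (by decide) midC_low_num38
      ⟨⟨(by push_cast; linarith only [hu, hu1, h0]), (by push_cast; linarith only [hu, hu1, h0])⟩, ⟨(by push_cast; linarith only [p2, hXu, hXl]), (by push_cast; linarith only [p2, hXu, hXl])⟩,
        ⟨(by push_cast; linarith only [hI1, hI2, hIa, haH]), (by push_cast; linarith only [hI1, hI2, hIa, haH])⟩, (by push_cast; linarith only [p0, p1, p3, hIa, haH, hI1, hI2]), (by push_cast; linarith only [p0, p1, p3, hIa, haH, hI1, hI2])⟩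
  · rcases lt_or_ge I (1 / 8) with h1 | h1
    · have hXu := hP.X_lt (57 / 200) (1 / 8) (741 / 100) (by linarith only [p0, p1, p3, hIa, haH, hI1, hI2, h1]) (by linarith only [hI1, hI2, h1, hIa, haH]) (by norm_num) (by norm_num) (by norm_num)
      have hXl := hP.le_X (57 / 200) (1 / 8) (93 / 100) (by linarith only [p0, p1, p3, hIa, haH, hI1, hI2, h1]) (by linarith only [hI1, hI2, h1, hIa, haH]) (by norm_num)
      exfalso; linarith
    · rcases lt_or_ge a (34 / 125) with h2 | h2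
      · have hXu := hP.X_lt (34 / 125) (143 / 1000) (206 / 25) (by linarith only [p0, p1, p3, h2, hIa, haH, hI1, hI2, h1]) (by linarith only [hI1, hI2, h1, hIa, haH]) (by norm_num) (by norm_num) (by norm_num)
        have hXl := hP.le_X (34 / 125) (143 / 1000) (23 / 25) (by linarith only [p0, p1, p3, h2, hIa, haH, hI1, hI2, h1]) (by linarith only [hI1, hI2, h1, hIa, haH]) (by norm_num)
        exact mid_low_box hP (by decide) midC_low_num39
          ⟨⟨(by push_cast; linarith only [hu, hu1, h0]), (by push_cast; linarith only [hu, hu1, h0])⟩, ⟨(by push_cast; linarith only [p2, hXu, hXl]), (by push_cast; linarith only [p2, hXu, hXl])⟩,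
        ⟨(by push_cast; linarith only [hI1, hI2, h1, hIa, haH]), (by push_cast; linarith only [hI1, hI2, h1, hIa, haH])⟩, (by push_cast; linarith only [p0, p1, p3, h2, hIa, haH, hI1, hI2, h1]), (by push_cast; linarith only [p0, p1, p3, h2, hIa, haH, hI1, hI2, h1])⟩
      · rcases lt_or_ge a (139 / 500) with h3 | h3
        · have hXu := hP.X_lt (139 / 500) (143 / 1000) (887 / 100) (by linarith only [p0, p1, p3, h2, h3, hIa, haH, hI1, hI2, h1]) (by linarith only [hI1, hI2, h1, hIa, haH]) (by norm_num) (by norm_num) (by norm_num)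
          have hXl := hP.le_X (139 / 500) (143 / 1000) (23 / 25) (by linarith only [p0, p1, p3, h2, h3, hIa, haH, hI1, hI2, h1]) (by linarith only [hI1, hI2, h1, hIa, haH]) (by norm_num)
          exact mid_low_box hP (by decide) midC_low_num40
            ⟨⟨(by push_cast; linarith only [hu, hu1, h0]), (by push_cast; linarith only [hu, hu1, h0])⟩, ⟨(by push_cast; linarith only [p2, hXu, hXl]), (by push_cast; linarith only [p2, hXu, hXl])⟩,
        ⟨(by push_cast; linarith only [hI1, hI2, h1, hIa, haH]), (by push_cast; linarith only [hI1, hI2, h1, hIa, haH])⟩, (by push_cast; linarith only [p0, p1, p3, h2, h3, hIa, haH, hI1, hI2, h1]), (by push_cast; linarith only [p0, p1, p3, h2, h3, hIa, haH, hI1, hI2, h1])⟩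
        · have hXu := hP.X_lt (57 / 200) (143 / 1000) (973 / 100) (by linarith only [p0, p1, p3, h2, h3, hIa, haH, hI1, hI2, h1]) (by linarith only [hI1, hI2, h1, hIa, haH]) (by norm_num) (by norm_num) (by norm_num)
          have hXl := hP.le_X (57 / 200) (143 / 1000) (23 / 25) (by linarith only [p0, p1, p3, h2, h3, hIa, haH, hI1, hI2, h1]) (by linarith only [hI1, hI2, h1, hIa, haH]) (by norm_num)
          exact mid_low_box hP (by decide) midC_low_num41
            ⟨⟨(by push_cast; linarith only [hu, hu1, h0]), (by push_cast; linarith only [hu, hu1, h0])⟩, ⟨(by push_cast; linarith only [p2, hXu, hXl]), (by push_cast; linarith only [p2, hXu, hXl])⟩,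
        ⟨(by push_cast; linarith only [hI1, hI2, h1, hIa, haH]), (by push_cast; linarith only [hI1, hI2, h1, hIa, haH])⟩, (by push_cast; linarith only [p0, p1, p3, h2, h3, hIa, haH, hI1, hI2, h1]), (by push_cast; linarith only [p0, p1, p3, h2, h3, hIa, haH, hI1, hI2, h1])⟩

theorem midC_low_num_s33 {a I X u : ℝ} (hP : MidPlace a I X) (hI : 27 / 250 ≤ I ∧ I ≤ 1 / 7) (hu : 0 < u) (hu1 : u < 1) (p0 : (209 / 1000) ≤ a) (p1 : (13 / 50) ≤ a) (p2 : (79 / 10) ≤ X) (p3 : (57 / 200) ≤ a) (p4 : u < (1 / 2)) (p5 : I < (1 / 8)) :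
    0 < (eMidNum midLowC).eval (stabPt u X I a) := by
  obtain ⟨hI1, hI2⟩ := hI
  have hIa := hP.I_le_a
  have haH := hP.a_le
  have hXu := hP.X_lt (31 / 100) (1 / 8) (513 / 50) (by linarith only [p0, p1, p3, hIa, haH, p5, hI1, hI2]) (by linarith only [p5, hI1, hI2, hIa, haH]) (by norm_num) (by norm_num) (by norm_num)
  have hXl := hP.le_X (31 / 100) (1 / 8) (23 / 25) (by linarith only [p0, p1, p3, hIa, haH, p5, hI1, hI2]) (by linarith only [p5, hI1, hI2, hIa, haH]) (by norm_num)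
  exact mid_low_box hP (by decide) midC_low_num42
    ⟨⟨(by push_cast; linarith only [hu, hu1, p4]), (by push_cast; linarith only [hu, hu1, p4])⟩, ⟨(by push_cast; linarith only [p2, hXu, hXl]), (by push_cast; linarith only [p2, hXu, hXl])⟩,
        ⟨(by push_cast; linarith only [p5, hI1, hI2, hIa, haH]), (by push_cast; linarith only [p5, hI1, hI2, hIa, haH])⟩, (by push_cast; linarith only [p0, p1, p3, hIa, haH, p5, hI1, hI2]), (by push_cast; linarith only [p0, p1, p3, hIa, haH, p5, hI1, hI2])⟩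

theorem midC_low_num_s35 {a I X u : ℝ} (hP : MidPlace a I X) (hI : 27 / 250 ≤ I ∧ I ≤ 1 / 7) (hu : 0 < u) (hu1 : u < 1) (p0 : (209 / 1000) ≤ a) (p1 : (13 / 50) ≤ a) (p2 : (79 / 10) ≤ X) (p3 : (57 / 200) ≤ a) (p4 : u < (1 / 2)) (p5 : (1 / 8) ≤ I) (p6 : a < (149 / 500)) :
    0 < (eMidNum midLowC).eval (stabPt u X I a) := by
  obtain ⟨hI1, hI2⟩ := hI
  have hIa := hP.I_le_a
  have haH := hP.a_le
  rcases lt_or_ge u (1 / 4) with h0 | h0
  · have hXu := hP.X_lt (149 / 500) (143 / 1000) (1187 / 100) (by linarith only [p0, p1, p3, p6, hIa, haH, p5, hI1, hI2]) (by linarith only [p5, hI1, hI2, hIa, haH]) (by norm_num) (by norm_num) (by norm_num)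
    have hXl := hP.le_X (149 / 500) (143 / 1000) (23 / 25) (by linarith only [p0, p1, p3, p6, hIa, haH, p5, hI1, hI2]) (by linarith only [p5, hI1, hI2, hIa, haH]) (by norm_num)
    exact mid_low_box hP (by decide) midC_low_num43
      ⟨⟨(by push_cast; linarith only [hu, hu1, p4, h0]), (by push_cast; linarith only [hu, hu1, p4, h0])⟩, ⟨(by push_cast; linarith only [p2, hXu, hXl]), (by push_cast; linarith only [p2, hXu, hXl])⟩,
        ⟨(by push_cast; linarith only [p5, hI1, hI2, hIa, haH]), (by push_cast; linarith only [p5, hI1, hI2, hIa, haH])⟩, (by push_cast; linarith only [p0, p1, p3, p6, hIa, haH, p5, hI1, hI2]), (by push_cast; linarith only [p0, p1, p3, p6, hIa, haH, p5, hI1, hI2])⟩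
  · have hXu := hP.X_lt (149 / 500) (143 / 1000) (1187 / 100) (by linarith only [p0, p1, p3, p6, hIa, haH, p5, hI1, hI2]) (by linarith only [p5, hI1, hI2, hIa, haH]) (by norm_num) (by norm_num) (by norm_num)
    have hXl := hP.le_X (149 / 500) (143 / 1000) (23 / 25) (by linarith only [p0, p1, p3, p6, hIa, haH, p5, hI1, hI2]) (by linarith only [p5, hI1, hI2, hIa, haH]) (by norm_num)
    exact mid_low_box hP (by decide) midC_low_num44
      ⟨⟨(by push_cast; linarith only [hu, hu1, p4, h0]), (by push_cast; linarith only [hu, hu1, p4, h0])⟩, ⟨(by push_cast; linarith only [p2, hXu, hXl]), (by push_cast; linarith only [p2, hXu, hXl])⟩,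
        ⟨(by push_cast; linarith only [p5, hI1, hI2, hIa, haH]), (by push_cast; linarith only [p5, hI1, hI2, hIa, haH])⟩, (by push_cast; linarith only [p0, p1, p3, p6, hIa, haH, p5, hI1, hI2]), (by push_cast; linarith only [p0, p1, p3, p6, hIa, haH, p5, hI1, hI2])⟩

theorem midC_low_num_s36 {a I X u : ℝ} (hP : MidPlace a I X) (hI : 27 / 250 ≤ I ∧ I ≤ 1 / 7) (hu : 0 < u) (hu1 : u < 1) (p0 : (209 / 1000) ≤ a) (p1 : (13 / 50) ≤ a) (p2 : (79 / 10) ≤ X) (p3 : (57 / 200) ≤ a) (p4 : u < (1 / 2)) (p5 : (1 / 8) ≤ I) (p6 : (149 / 500) ≤ a) :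
    0 < (eMidNum midLowC).eval (stabPt u X I a) := by
  obtain ⟨hI1, hI2⟩ := hI
  have hIa := hP.I_le_a
  have haH := hP.a_le
  rcases lt_or_ge I (67 / 500) with h0 | h0
  · have hXu := hP.X_lt (31 / 100) (67 / 500) (61 / 5) (by linarith only [p0, p1, p3, p6, hIa, haH, p5, hI1, hI2, h0]) (by linarith only [p5, hI1, hI2, h0, hIa, haH]) (by norm_num) (by norm_num) (by norm_num)
    have hXl := hP.le_X (31 / 100) (67 / 500) (23 / 25) (by linarith only [p0, p1, p3, p6, hIa, haH, p5, hI1, hI2, h0]) (by linarith only [p5, hI1, hI2, h0, hIa, haH]) (by norm_num)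
    exact mid_low_box hP (by decide) midC_low_num45
      ⟨⟨(by push_cast; linarith only [hu, hu1, p4]), (by push_cast; linarith only [hu, hu1, p4])⟩, ⟨(by push_cast; linarith only [p2, hXu, hXl]), (by push_cast; linarith only [p2, hXu, hXl])⟩,
        ⟨(by push_cast; linarith only [p5, hI1, hI2, h0, hIa, haH]), (by push_cast; linarith only [p5, hI1, hI2, h0, hIa, haH])⟩, (by push_cast; linarith only [p0, p1, p3, p6, hIa, haH, p5, hI1, hI2, h0]), (by push_cast; linarith only [p0, p1, p3, p6, hIa, haH, p5, hI1, hI2, h0])⟩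
  · rcases lt_or_ge I (69 / 500) with h1 | h1
    · have hXu := hP.X_lt_av (149 / 500) (67 / 500) (1253 / 100) (by linarith only [p0, p1, p3, p6, hIa, haH, p5, hI1, hI2, h0, h1]) (by linarith only [p5, hI1, hI2, h0, h1, hIa, haH]) (by norm_num) (by norm_num) (by norm_num)
      have hXl := hP.le_X (31 / 100) (69 / 500) (23 / 25) (by linarith only [p0, p1, p3, p6, hIa, haH, p5, hI1, hI2, h0, h1]) (by linarith only [p5, hI1, hI2, h0, h1, hIa, haH]) (by norm_num)
      exact mid_low_box hP (by decide) midC_low_num46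
        ⟨⟨(by push_cast; linarith only [hu, hu1, p4]), (by push_cast; linarith only [hu, hu1, p4])⟩, ⟨(by push_cast; linarith only [p2, hXu, hXl]), (by push_cast; linarith only [p2, hXu, hXl])⟩,
        ⟨(by push_cast; linarith only [p5, hI1, hI2, h0, h1, hIa, haH]), (by push_cast; linarith only [p5, hI1, hI2, h0, h1, hIa, haH])⟩, (by push_cast; linarith only [p0, p1, p3, p6, hIa, haH, p5, hI1, hI2, h0, h1]), (by push_cast; linarith only [p0, p1, p3, p6, hIa, haH, p5, hI1, hI2, h0, h1])⟩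
    · rcases lt_or_ge I (7 / 50) with h2 | h2
      · have hXu := hP.X_lt_av (149 / 500) (69 / 500) (304 / 25) (by linarith only [p0, p1, p3, p6, hIa, haH, p5, hI1, hI2, h0, h1, h2]) (by linarith only [p5, hI1, hI2, h0, h1, h2, hIa, haH]) (by norm_num) (by norm_num) (by norm_num)
        have hXl := hP.le_X (31 / 100) (7 / 50) (23 / 25) (by linarith only [p0, p1, p3, p6, hIa, haH, p5, hI1, hI2, h0, h1, h2]) (by linarith only [p5, hI1, hI2, h0, h1, h2, hIa, haH]) (by norm_num)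
        exact mid_low_box hP (by decide) midC_low_num47
          ⟨⟨(by push_cast; linarith only [hu, hu1, p4]), (by push_cast; linarith only [hu, hu1, p4])⟩, ⟨(by push_cast; linarith only [p2, hXu, hXl]), (by push_cast; linarith only [p2, hXu, hXl])⟩,
        ⟨(by push_cast; linarith only [p5, hI1, hI2, h0, h1, h2, hIa, haH]), (by push_cast; linarith only [p5, hI1, hI2, h0, h1, h2, hIa, haH])⟩, (by push_cast; linarith only [p0, p1, p3, p6, hIa, haH, p5, hI1, hI2, h0, h1, h2]), (by push_cast; linarith only [p0, p1, p3, p6, hIa, haH, p5, hI1, hI2, h0, h1, h2])⟩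
      · rcases lt_or_ge u (1 / 4) with h3 | h3
        · have hXu := hP.X_lt_av (149 / 500) (7 / 50) (1199 / 100) (by linarith only [p0, p1, p3, p6, hIa, haH, p5, hI1, hI2, h0, h1, h2]) (by linarith only [p5, hI1, hI2, h0, h1, h2, hIa, haH]) (by norm_num) (by norm_num) (by norm_num)
          have hXl := hP.le_X (31 / 100) (143 / 1000) (91 / 100) (by linarith only [p0, p1, p3, p6, hIa, haH, p5, hI1, hI2, h0, h1, h2]) (by linarith only [p5, hI1, hI2, h0, h1, h2, hIa, haH]) (by norm_num)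
          exact mid_low_box hP (by decide) midC_low_num48
            ⟨⟨(by push_cast; linarith only [hu, hu1, p4, h3]), (by push_cast; linarith only [hu, hu1, p4, h3])⟩, ⟨(by push_cast; linarith only [p2, hXu, hXl]), (by push_cast; linarith only [p2, hXu, hXl])⟩,
        ⟨(by push_cast; linarith only [p5, hI1, hI2, h0, h1, h2, hIa, haH]), (by push_cast; linarith only [p5, hI1, hI2, h0, h1, h2, hIa, haH])⟩, (by push_cast; linarith only [p0, p1, p3, p6, hIa, haH, p5, hI1, hI2, h0, h1, h2]), (by push_cast; linarith only [p0, p1, p3, p6, hIa, haH, p5, hI1, hI2, h0, h1, h2])⟩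
        · have hXu := hP.X_lt_av (149 / 500) (7 / 50) (1199 / 100) (by linarith only [p0, p1, p3, p6, hIa, haH, p5, hI1, hI2, h0, h1, h2]) (by linarith only [p5, hI1, hI2, h0, h1, h2, hIa, haH]) (by norm_num) (by norm_num) (by norm_num)
          have hXl := hP.le_X (31 / 100) (143 / 1000) (91 / 100) (by linarith only [p0, p1, p3, p6, hIa, haH, p5, hI1, hI2, h0, h1, h2]) (by linarith only [p5, hI1, hI2, h0, h1, h2, hIa, haH]) (by norm_num)
          exact mid_low_box hP (by decide) midC_low_num49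
            ⟨⟨(by push_cast; linarith only [hu, hu1, p4, h3]), (by push_cast; linarith only [hu, hu1, p4, h3])⟩, ⟨(by push_cast; linarith only [p2, hXu, hXl]), (by push_cast; linarith only [p2, hXu, hXl])⟩,
        ⟨(by push_cast; linarith only [p5, hI1, hI2, h0, h1, h2, hIa, haH]), (by push_cast; linarith only [p5, hI1, hI2, h0, h1, h2, hIa, haH])⟩, (by push_cast; linarith only [p0, p1, p3, p6, hIa, haH, p5, hI1, hI2, h0, h1, h2]), (by push_cast; linarith only [p0, p1, p3, p6, hIa, haH, p5, hI1, hI2, h0, h1, h2])⟩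

theorem midC_low_num_s34 {a I X u : ℝ} (hP : MidPlace a I X) (hI : 27 / 250 ≤ I ∧ I ≤ 1 / 7) (hu : 0 < u) (hu1 : u < 1) (p0 : (209 / 1000) ≤ a) (p1 : (13 / 50) ≤ a) (p2 : (79 / 10) ≤ X) (p3 : (57 / 200) ≤ a) (p4 : u < (1 / 2)) (p5 : (1 / 8) ≤ I) :
    0 < (eMidNum midLowC).eval (stabPt u X I a) := by
  rcases lt_or_ge a (149 / 500) with h | h
  · exact midC_low_num_s35 hP hI hu hu1 p0 p1 p2 p3 p4 p5 h
  · exact midC_low_num_s36 hP hI hu hu1 p0 p1 p2 p3 p4 p5 h

theorem midC_low_num_s32 {a I X u : ℝ} (hP : MidPlace a I X) (hI : 27 / 250 ≤ I ∧ I ≤ 1 / 7) (hu : 0 < u) (hu1 : u < 1) (p0 : (209 / 1000) ≤ a) (p1 : (13 / 50) ≤ a) (p2 : (79 / 10) ≤ X) (p3 : (57 / 200) ≤ a) (p4 : u < (1 / 2)) :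
    0 < (eMidNum midLowC).eval (stabPt u X I a) := by
  rcases lt_or_ge I (1 / 8) with h | h
  · exact midC_low_num_s33 hP hI hu hu1 p0 p1 p2 p3 p4 h
  · exact midC_low_num_s34 hP hI hu hu1 p0 p1 p2 p3 p4 h

theorem midC_low_num_s39 {a I X u : ℝ} (hP : MidPlace a I X) (hI : 27 / 250 ≤ I ∧ I ≤ 1 / 7) (hu : 0 < u) (hu1 : u < 1) (p0 : (209 / 1000) ≤ a) (p1 : (13 / 50) ≤ a) (p2 : (79 / 10) ≤ X) (p3 : (57 / 200) ≤ a) (p4 : (1 / 2) ≤ u) (p5 : I < (1 / 8)) (p6 : u < (3 / 4)) :
    0 < (eMidNum midLowC).eval (stabPt u X I a) := by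
  obtain ⟨hI1, hI2⟩ := hI
  have hIa := hP.I_le_a
  have haH := hP.a_le
  have hXu := hP.X_lt (31 / 100) (1 / 8) (513 / 50) (by linarith only [p0, p1, p3, hIa, haH, p5, hI1, hI2]) (by linarith only [p5, hI1, hI2, hIa, haH]) (by norm_num) (by norm_num) (by norm_num)
  have hXl := hP.le_X (31 / 100) (1 / 8) (23 / 25) (by linarith only [p0, p1, p3, hIa, haH, p5, hI1, hI2]) (by linarith only [p5, hI1, hI2, hIa, haH]) (by norm_num)
  exact mid_low_box hP (by decide) midC_low_num50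
    ⟨⟨(by push_cast; linarith only [hu, hu1, p4, p6]), (by push_cast; linarith only [hu, hu1, p4, p6])⟩, ⟨(by push_cast; linarith only [p2, hXu, hXl]), (by push_cast; linarith only [p2, hXu, hXl])⟩,
        ⟨(by push_cast; linarith only [p5, hI1, hI2, hIa, haH]), (by push_cast; linarith only [p5, hI1, hI2, hIa, haH])⟩, (by push_cast; linarith only [p0, p1, p3, hIa, haH, p5, hI1, hI2]), (by push_cast; linarith only [p0, p1, p3, hIa, haH, p5, hI1, hI2])⟩

theorem midC_low_num_s41 {a I X u : ℝ} (hP : MidPlace a I X) (hI : 27 / 250 ≤ I ∧ I ≤ 1 / 7) (hu : 0 < u) (hu1 : u < 1) (p0 : (209 / 1000) ≤ a) (p1 : (13 / 50) ≤ a) (p2 : (79 / 10) ≤ X) (p3 : (57 / 200) ≤ a) (p4 : (1 / 2) ≤ u) (p5 : I < (1 / 8)) (p6 : (3 / 4) ≤ u) (p7 : a < (149 / 500)) :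
    0 < (eMidNum midLowC).eval (stabPt u X I a) := by
  obtain ⟨hI1, hI2⟩ := hI
  have hIa := hP.I_le_a
  have haH := hP.a_le
  have hXu := hP.X_lt (149 / 500) (1 / 8) (433 / 50) (by linarith only [p0, p1, p3, p7, hIa, haH, p5, hI1, hI2]) (by linarith only [p5, hI1, hI2, hIa, haH]) (by norm_num) (by norm_num) (by norm_num)
  have hXl := hP.le_X (149 / 500) (1 / 8) (93 / 100) (by linarith only [p0, p1, p3, p7, hIa, haH, p5, hI1, hI2]) (by linarith only [p5, hI1, hI2, hIa, haH]) (by norm_num)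
  exact mid_low_box hP (by decide) midC_low_num51
    ⟨⟨(by push_cast; linarith only [hu, hu1, p4, p6]), (by push_cast; linarith only [hu, hu1, p4, p6])⟩, ⟨(by push_cast; linarith only [p2, hXu, hXl]), (by push_cast; linarith only [p2, hXu, hXl])⟩,
        ⟨(by push_cast; linarith only [p5, hI1, hI2, hIa, haH]), (by push_cast; linarith only [p5, hI1, hI2, hIa, haH])⟩, (by push_cast; linarith only [p0, p1, p3, p7, hIa, haH, p5, hI1, hI2]), (by push_cast; linarith only [p0, p1, p3, p7, hIa, haH, p5, hI1, hI2])⟩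

theorem midC_low_num_s43 {a I X u : ℝ} (hP : MidPlace a I X) (hI : 27 / 250 ≤ I ∧ I ≤ 1 / 7) (hu : 0 < u) (hu1 : u < 1) (p0 : (209 / 1000) ≤ a) (p1 : (13 / 50) ≤ a) (p2 : (79 / 10) ≤ X) (p3 : (57 / 200) ≤ a) (p4 : (1 / 2) ≤ u) (p5 : I < (1 / 8)) (p6 : (3 / 4) ≤ u) (p7 : (149 / 500) ≤ a) (p8 : a < (38 / 125)) :
    0 < (eMidNum midLowC).eval (stabPt u X I a) := by
  obtain ⟨hI1, hI2⟩ := hI
  have hIa := hP.I_le_a
  have haH := hP.a_le
  rcases lt_or_ge I (29 / 250) with h0 | h0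
  · have hXu := hP.X_lt (38 / 125) (29 / 250) (407 / 50) (by linarith only [p0, p1, p3, p7, p8, hIa, haH, p5, hI1, hI2, h0]) (by linarith only [p5, hI1, hI2, h0, hIa, haH]) (by norm_num) (by norm_num) (by norm_num)
    have hXl := hP.le_X (38 / 125) (29 / 250) (93 / 100) (by linarith only [p0, p1, p3, p7, p8, hIa, haH, p5, hI1, hI2, h0]) (by linarith only [p5, hI1, hI2, h0, hIa, haH]) (by norm_num)
    exact mid_low_box hP (by decide) midC_low_num52
      ⟨⟨(by push_cast; linarith only [hu, hu1, p4, p6]), (by push_cast; linarith only [hu, hu1, p4, p6])⟩, ⟨(by push_cast; linarith only [p2, hXu, hXl]), (by push_cast; linarith only [p2, hXu, hXl])⟩,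
        ⟨(by push_cast; linarith only [p5, hI1, hI2, h0, hIa, haH]), (by push_cast; linarith only [p5, hI1, hI2, h0, hIa, haH])⟩, (by push_cast; linarith only [p0, p1, p3, p7, p8, hIa, haH, p5, hI1, hI2, h0]), (by push_cast; linarith only [p0, p1, p3, p7, p8, hIa, haH, p5, hI1, hI2, h0])⟩
  · have hXu := hP.X_lt (38 / 125) (1 / 8) (939 / 100) (by linarith only [p0, p1, p3, p7, p8, hIa, haH, p5, hI1, hI2, h0]) (by linarith only [p5, hI1, hI2, h0, hIa, haH]) (by norm_num) (by norm_num) (by norm_num)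
    have hXl := hP.le_X (38 / 125) (1 / 8) (23 / 25) (by linarith only [p0, p1, p3, p7, p8, hIa, haH, p5, hI1, hI2, h0]) (by linarith only [p5, hI1, hI2, h0, hIa, haH]) (by norm_num)
    exact mid_low_box hP (by decide) midC_low_num53
      ⟨⟨(by push_cast; linarith only [hu, hu1, p4, p6]), (by push_cast; linarith only [hu, hu1, p4, p6])⟩, ⟨(by push_cast; linarith only [p2, hXu, hXl]), (by push_cast; linarith only [p2, hXu, hXl])⟩,
        ⟨(by push_cast; linarith only [p5, hI1, hI2, h0, hIa, haH]), (by push_cast; linarith only [p5, hI1, hI2, h0, hIa, haH])⟩, (by push_cast; linarith only [p0, p1, p3, p7, p8, hIa, haH, p5, hI1, hI2, h0]), (by push_cast; linarith only [p0, p1, p3, p7, p8, hIa, haH, p5, hI1, hI2, h0])⟩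

theorem midC_low_num_s44 {a I X u : ℝ} (hP : MidPlace a I X) (hI : 27 / 250 ≤ I ∧ I ≤ 1 / 7) (hu : 0 < u) (hu1 : u < 1) (p0 : (209 / 1000) ≤ a) (p1 : (13 / 50) ≤ a) (p2 : (79 / 10) ≤ X) (p3 : (57 / 200) ≤ a) (p4 : (1 / 2) ≤ u) (p5 : I < (1 / 8)) (p6 : (3 / 4) ≤ u) (p7 : (149 / 500) ≤ a) (p8 : (38 / 125) ≤ a) :
    0 < (eMidNum midLowC).eval (stabPt u X I a) := by
  obtain ⟨hI1, hI2⟩ := hI
  have hIa := hP.I_le_a
  have haH := hP.a_le
  rcases lt_or_ge I (29 / 250) with h0 | h0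
  · rcases lt_or_ge I (14 / 125) with h1 | h1
    · have hXu := hP.X_lt (31 / 100) (14 / 125) (827 / 100) (by linarith only [p0, p1, p3, p7, p8, hIa, haH, p5, hI1, hI2, h0, h1]) (by linarith only [p5, hI1, hI2, h0, h1, hIa, haH]) (by norm_num) (by norm_num) (by norm_num)
      have hXl := hP.le_X (31 / 100) (14 / 125) (93 / 100) (by linarith only [p0, p1, p3, p7, p8, hIa, haH, p5, hI1, hI2, h0, h1]) (by linarith only [p5, hI1, hI2, h0, h1, hIa, haH]) (by norm_num)
      exact mid_low_box hP (by decide) midC_low_num54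
        ⟨⟨(by push_cast; linarith only [hu, hu1, p4, p6]), (by push_cast; linarith only [hu, hu1, p4, p6])⟩, ⟨(by push_cast; linarith only [p2, hXu, hXl]), (by push_cast; linarith only [p2, hXu, hXl])⟩,
        ⟨(by push_cast; linarith only [p5, hI1, hI2, h0, h1, hIa, haH]), (by push_cast; linarith only [p5, hI1, hI2, h0, h1, hIa, haH])⟩, (by push_cast; linarith only [p0, p1, p3, p7, p8, hIa, haH, p5, hI1, hI2, h0, h1]), (by push_cast; linarith only [p0, p1, p3, p7, p8, hIa, haH, p5, hI1, hI2, h0, h1])⟩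
    · have hXu := hP.X_lt (31 / 100) (29 / 250) (44 / 5) (by linarith only [p0, p1, p3, p7, p8, hIa, haH, p5, hI1, hI2, h0, h1]) (by linarith only [p5, hI1, hI2, h0, h1, hIa, haH]) (by norm_num) (by norm_num) (by norm_num)
      have hXl := hP.le_X (31 / 100) (29 / 250) (93 / 100) (by linarith only [p0, p1, p3, p7, p8, hIa, haH, p5, hI1, hI2, h0, h1]) (by linarith only [p5, hI1, hI2, h0, h1, hIa, haH]) (by norm_num)
      exact mid_low_box hP (by decide) midC_low_num55
        ⟨⟨(by push_cast; linarith only [hu, hu1, p4, p6]), (by push_cast; linarith only [hu, hu1, p4, p6])⟩, ⟨(by push_cast; linarith only [p2, hXu, hXl]), (by push_cast; linarith only [p2, hXu, hXl])⟩,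
        ⟨(by push_cast; linarith only [p5, hI1, hI2, h0, h1, hIa, haH]), (by push_cast; linarith only [p5, hI1, hI2, h0, h1, hIa, haH])⟩, (by push_cast; linarith only [p0, p1, p3, p7, p8, hIa, haH, p5, hI1, hI2, h0, h1]), (by push_cast; linarith only [p0, p1, p3, p7, p8, hIa, haH, p5, hI1, hI2, h0, h1])⟩
  · rcases lt_or_ge I (3 / 25) with h2 | h2
    · have hXu := hP.X_lt (31 / 100) (3 / 25) (47 / 5) (by linarith only [p0, p1, p3, p7, p8, hIa, haH, p5, hI1, hI2, h0, h2]) (by linarith only [p5, hI1, hI2, h0, h2, hIa, haH]) (by norm_num) (by norm_num) (by norm_num)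
      have hXl := hP.le_X (31 / 100) (3 / 25) (93 / 100) (by linarith only [p0, p1, p3, p7, p8, hIa, haH, p5, hI1, hI2, h0, h2]) (by linarith only [p5, hI1, hI2, h0, h2, hIa, haH]) (by norm_num)
      exact mid_low_box hP (by decide) midC_low_num56
        ⟨⟨(by push_cast; linarith only [hu, hu1, p4, p6]), (by push_cast; linarith only [hu, hu1, p4, p6])⟩, ⟨(by push_cast; linarith only [p2, hXu, hXl]), (by push_cast; linarith only [p2, hXu, hXl])⟩,
        ⟨(by push_cast; linarith only [p5, hI1, hI2, h0, h2, hIa, haH]), (by push_cast; linarith only [p5, hI1, hI2, h0, h2, hIa, haH])⟩, (by push_cast; linarith only [p0, p1, p3, p7, p8, hIa, haH, p5, hI1, hI2, h0, h2]), (by push_cast; linarith only [p0, p1, p3, p7, p8, hIa, haH, p5, hI1, hI2, h0, h2])⟩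
    · rcases lt_or_ge I (61 / 500) with h3 | h3
      · have hXu := hP.X_lt (31 / 100) (61 / 500) (973 / 100) (by linarith only [p0, p1, p3, p7, p8, hIa, haH, p5, hI1, hI2, h0, h2, h3]) (by linarith only [p5, hI1, hI2, h0, h2, h3, hIa, haH]) (by norm_num) (by norm_num) (by norm_num)
        have hXl := hP.le_X (31 / 100) (61 / 500) (23 / 25) (by linarith only [p0, p1, p3, p7, p8, hIa, haH, p5, hI1, hI2, h0, h2, h3]) (by linarith only [p5, hI1, hI2, h0, h2, h3, hIa, haH]) (by norm_num)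
        exact mid_low_box hP (by decide) midC_low_num57
          ⟨⟨(by push_cast; linarith only [hu, hu1, p4, p6]), (by push_cast; linarith only [hu, hu1, p4, p6])⟩, ⟨(by push_cast; linarith only [p2, hXu, hXl]), (by push_cast; linarith only [p2, hXu, hXl])⟩,
        ⟨(by push_cast; linarith only [p5, hI1, hI2, h0, h2, h3, hIa, haH]), (by push_cast; linarith only [p5, hI1, hI2, h0, h2, h3, hIa, haH])⟩, (by push_cast; linarith only [p0, p1, p3, p7, p8, hIa, haH, p5, hI1, hI2, h0, h2, h3]), (by push_cast; linarith only [p0, p1, p3, p7, p8, hIa, haH, p5, hI1, hI2, h0, h2, h3])⟩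
      · have hXu := hP.X_lt (31 / 100) (1 / 8) (513 / 50) (by linarith only [p0, p1, p3, p7, p8, hIa, haH, p5, hI1, hI2, h0, h2, h3]) (by linarith only [p5, hI1, hI2, h0, h2, h3, hIa, haH]) (by norm_num) (by norm_num) (by norm_num)
        have hXl := hP.le_X (31 / 100) (1 / 8) (23 / 25) (by linarith only [p0, p1, p3, p7, p8, hIa, haH, p5, hI1, hI2, h0, h2, h3]) (by linarith only [p5, hI1, hI2, h0, h2, h3, hIa, haH]) (by norm_num)
        exact mid_low_box hP (by decide) midC_low_num58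
          ⟨⟨(by push_cast; linarith only [hu, hu1, p4, p6]), (by push_cast; linarith only [hu, hu1, p4, p6])⟩, ⟨(by push_cast; linarith only [p2, hXu, hXl]), (by push_cast; linarith only [p2, hXu, hXl])⟩,
        ⟨(by push_cast; linarith only [p5, hI1, hI2, h0, h2, h3, hIa, haH]), (by push_cast; linarith only [p5, hI1, hI2, h0, h2, h3, hIa, haH])⟩, (by push_cast; linarith only [p0, p1, p3, p7, p8, hIa, haH, p5, hI1, hI2, h0, h2, h3]), (by push_cast; linarith only [p0, p1, p3, p7, p8, hIa, haH, p5, hI1, hI2, h0, h2, h3])⟩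

theorem midC_low_num_s42 {a I X u : ℝ} (hP : MidPlace a I X) (hI : 27 / 250 ≤ I ∧ I ≤ 1 / 7) (hu : 0 < u) (hu1 : u < 1) (p0 : (209 / 1000) ≤ a) (p1 : (13 / 50) ≤ a) (p2 : (79 / 10) ≤ X) (p3 : (57 / 200) ≤ a) (p4 : (1 / 2) ≤ u) (p5 : I < (1 / 8)) (p6 : (3 / 4) ≤ u) (p7 : (149 / 500) ≤ a) :
    0 < (eMidNum midLowC).eval (stabPt u X I a) := by
  rcases lt_or_ge a (38 / 125) with h | h
  · exact midC_low_num_s43 hP hI hu hu1 p0 p1 p2 p3 p4 p5 p6 p7 h
  · exact midC_low_num_s44 hP hI hu hu1 p0 p1 p2 p3 p4 p5 p6 p7 h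

theorem midC_low_num_s40 {a I X u : ℝ} (hP : MidPlace a I X) (hI : 27 / 250 ≤ I ∧ I ≤ 1 / 7) (hu : 0 < u) (hu1 : u < 1) (p0 : (209 / 1000) ≤ a) (p1 : (13 / 50) ≤ a) (p2 : (79 / 10) ≤ X) (p3 : (57 / 200) ≤ a) (p4 : (1 / 2) ≤ u) (p5 : I < (1 / 8)) (p6 : (3 / 4) ≤ u) :
    0 < (eMidNum midLowC).eval (stabPt u X I a) := by
  rcases lt_or_ge a (149 / 500) with h | h
  · exact midC_low_num_s41 hP hI hu hu1 p0 p1 p2 p3 p4 p5 p6 h
  · exact midC_low_num_s42 hP hI hu hu1 p0 p1 p2 p3 p4 p5 p6 h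

theorem midC_low_num_s38 {a I X u : ℝ} (hP : MidPlace a I X) (hI : 27 / 250 ≤ I ∧ I ≤ 1 / 7) (hu : 0 < u) (hu1 : u < 1) (p0 : (209 / 1000) ≤ a) (p1 : (13 / 50) ≤ a) (p2 : (79 / 10) ≤ X) (p3 : (57 / 200) ≤ a) (p4 : (1 / 2) ≤ u) (p5 : I < (1 / 8)) :
    0 < (eMidNum midLowC).eval (stabPt u X I a) := by
  rcases lt_or_ge u (3 / 4) with h | h
  · exact midC_low_num_s39 hP hI hu hu1 p0 p1 p2 p3 p4 p5 h
  · exact midC_low_num_s40 hP hI hu hu1 p0 p1 p2 p3 p4 p5 h

theorem midC_low_num_s47 {a I X u : ℝ} (hP : MidPlace a I X) (hI : 27 / 250 ≤ I ∧ I ≤ 1 / 7) (hu : 0 < u) (hu1 : u < 1) (p0 : (209 / 1000) ≤ a) (p1 : (13 / 50) ≤ a) (p2 : (79 / 10) ≤ X) (p3 : (57 / 200) ≤ a) (p4 : (1 / 2) ≤ u) (p5 : (1 / 8) ≤ I) (p6 : a < (149 / 500)) (p7 : u < (3 / 4)) :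
    0 < (eMidNum midLowC).eval (stabPt u X I a) := by
  obtain ⟨hI1, hI2⟩ := hI
  have hIa := hP.I_le_a
  have haH := hP.a_le
  have hXu := hP.X_lt (149 / 500) (143 / 1000) (1187 / 100) (by linarith only [p0, p1, p3, p6, hIa, haH, p5, hI1, hI2]) (by linarith only [p5, hI1, hI2, hIa, haH]) (by norm_num) (by norm_num) (by norm_num)
  have hXl := hP.le_X (149 / 500) (143 / 1000) (23 / 25) (by linarith only [p0, p1, p3, p6, hIa, haH, p5, hI1, hI2]) (by linarith only [p5, hI1, hI2, hIa, haH]) (by norm_num)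
  exact mid_low_box hP (by decide) midC_low_num59
    ⟨⟨(by push_cast; linarith only [hu, hu1, p4, p7]), (by push_cast; linarith only [hu, hu1, p4, p7])⟩, ⟨(by push_cast; linarith only [p2, hXu, hXl]), (by push_cast; linarith only [p2, hXu, hXl])⟩,
        ⟨(by push_cast; linarith only [p5, hI1, hI2, hIa, haH]), (by push_cast; linarith only [p5, hI1, hI2, hIa, haH])⟩, (by push_cast; linarith only [p0, p1, p3, p6, hIa, haH, p5, hI1, hI2]), (by push_cast; linarith only [p0, p1, p3, p6, hIa, haH, p5, hI1, hI2])⟩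

theorem midC_low_num_s49 {a I X u : ℝ} (hP : MidPlace a I X) (hI : 27 / 250 ≤ I ∧ I ≤ 1 / 7) (hu : 0 < u) (hu1 : u < 1) (p0 : (209 / 1000) ≤ a) (p1 : (13 / 50) ≤ a) (p2 : (79 / 10) ≤ X) (p3 : (57 / 200) ≤ a) (p4 : (1 / 2) ≤ u) (p5 : (1 / 8) ≤ I) (p6 : a < (149 / 500)) (p7 : (3 / 4) ≤ u) (p8 : I < (67 / 500)) :
    0 < (eMidNum midLowC).eval (stabPt u X I a) := by
  obtain ⟨hI1, hI2⟩ := hI
  have hIa := hP.I_le_a
  have haH := hP.a_le
  rcases lt_or_ge I (129 / 1000) with h0 | h0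
  · have hXu := hP.X_lt (149 / 500) (129 / 1000) (231 / 25) (by linarith only [p0, p1, p3, p6, hIa, haH, p5, p8, hI1, hI2, h0]) (by linarith only [p5, p8, hI1, hI2, h0, hIa, haH]) (by norm_num) (by norm_num) (by norm_num)
    have hXl := hP.le_X (149 / 500) (129 / 1000) (23 / 25) (by linarith only [p0, p1, p3, p6, hIa, haH, p5, p8, hI1, hI2, h0]) (by linarith only [p5, p8, hI1, hI2, h0, hIa, haH]) (by norm_num)
    exact mid_low_box hP (by decide) midC_low_num60
      ⟨⟨(by push_cast; linarith only [hu, hu1, p4, p7]), (by push_cast; linarith only [hu, hu1, p4, p7])⟩, ⟨(by push_cast; linarith only [p2, hXu, hXl]), (by push_cast; linarith only [p2, hXu, hXl])⟩,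
        ⟨(by push_cast; linarith only [p5, p8, hI1, hI2, h0, hIa, haH]), (by push_cast; linarith only [p5, p8, hI1, hI2, h0, hIa, haH])⟩, (by push_cast; linarith only [p0, p1, p3, p6, hIa, haH, p5, p8, hI1, hI2, h0]), (by push_cast; linarith only [p0, p1, p3, p6, hIa, haH, p5, p8, hI1, hI2, h0])⟩
  · have hXu := hP.X_lt (149 / 500) (67 / 500) (201 / 20) (by linarith only [p0, p1, p3, p6, hIa, haH, p5, p8, hI1, hI2, h0]) (by linarith only [p5, p8, hI1, hI2, h0, hIa, haH]) (by norm_num) (by norm_num) (by norm_num)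
    have hXl := hP.le_X (149 / 500) (67 / 500) (23 / 25) (by linarith only [p0, p1, p3, p6, hIa, haH, p5, p8, hI1, hI2, h0]) (by linarith only [p5, p8, hI1, hI2, h0, hIa, haH]) (by norm_num)
    exact mid_low_box hP (by decide) midC_low_num61
      ⟨⟨(by push_cast; linarith only [hu, hu1, p4, p7]), (by push_cast; linarith only [hu, hu1, p4, p7])⟩, ⟨(by push_cast; linarith only [p2, hXu, hXl]), (by push_cast; linarith only [p2, hXu, hXl])⟩,
        ⟨(by push_cast; linarith only [p5, p8, hI1, hI2, h0, hIa, haH]), (by push_cast; linarith only [p5, p8, hI1, hI2, h0, hIa, haH])⟩, (by push_cast; linarith only [p0, p1, p3, p6, hIa, haH, p5, p8, hI1, hI2, h0]), (by push_cast; linarith only [p0, p1, p3, p6, hIa, haH, p5, p8, hI1, hI2, h0])⟩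

theorem midC_low_num_s50 {a I X u : ℝ} (hP : MidPlace a I X) (hI : 27 / 250 ≤ I ∧ I ≤ 1 / 7) (hu : 0 < u) (hu1 : u < 1) (p0 : (209 / 1000) ≤ a) (p1 : (13 / 50) ≤ a) (p2 : (79 / 10) ≤ X) (p3 : (57 / 200) ≤ a) (p4 : (1 / 2) ≤ u) (p5 : (1 / 8) ≤ I) (p6 : a < (149 / 500)) (p7 : (3 / 4) ≤ u) (p8 : (67 / 500) ≤ I) :
    0 < (eMidNum midLowC).eval (stabPt u X I a) := by
  obtain ⟨hI1, hI2⟩ := hI
  have hIa := hP.I_le_a
  have haH := hP.a_le
  rcases lt_or_ge a (291 / 1000) with h0 | h0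
  · have hXu := hP.X_lt (291 / 1000) (143 / 1000) (531 / 50) (by linarith only [p0, p1, p3, p6, h0, hIa, haH, p5, p8, hI1, hI2]) (by linarith only [p5, p8, hI1, hI2, hIa, haH]) (by norm_num) (by norm_num) (by norm_num)
    have hXl := hP.le_X (291 / 1000) (143 / 1000) (23 / 25) (by linarith only [p0, p1, p3, p6, h0, hIa, haH, p5, p8, hI1, hI2]) (by linarith only [p5, p8, hI1, hI2, hIa, haH]) (by norm_num)
    exact mid_low_box hP (by decide) midC_low_num62
      ⟨⟨(by push_cast; linarith only [hu, hu1, p4, p7]), (by push_cast; linarith only [hu, hu1, p4, p7])⟩, ⟨(by push_cast; linarith only [p2, hXu, hXl]), (by push_cast; linarith only [p2, hXu, hXl])⟩,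
        ⟨(by push_cast; linarith only [p5, p8, hI1, hI2, hIa, haH]), (by push_cast; linarith only [p5, p8, hI1, hI2, hIa, haH])⟩, (by push_cast; linarith only [p0, p1, p3, p6, h0, hIa, haH, p5, p8, hI1, hI2]), (by push_cast; linarith only [p0, p1, p3, p6, h0, hIa, haH, p5, p8, hI1, hI2])⟩
  · rcases lt_or_ge I (69 / 500) with h1 | h1
    · have hXu := hP.X_lt (149 / 500) (69 / 500) (54 / 5) (by linarith only [p0, p1, p3, p6, h0, hIa, haH, p5, p8, hI1, hI2, h1]) (by linarith only [p5, p8, hI1, hI2, h1, hIa, haH]) (by norm_num) (by norm_num) (by norm_num)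
      have hXl := hP.le_X (149 / 500) (69 / 500) (23 / 25) (by linarith only [p0, p1, p3, p6, h0, hIa, haH, p5, p8, hI1, hI2, h1]) (by linarith only [p5, p8, hI1, hI2, h1, hIa, haH]) (by norm_num)
      exact mid_low_box hP (by decide) midC_low_num63
        ⟨⟨(by push_cast; linarith only [hu, hu1, p4, p7]), (by push_cast; linarith only [hu, hu1, p4, p7])⟩, ⟨(by push_cast; linarith only [p2, hXu, hXl]), (by push_cast; linarith only [p2, hXu, hXl])⟩,
        ⟨(by push_cast; linarith only [p5, p8, hI1, hI2, h1, hIa, haH]), (by push_cast; linarith only [p5, p8, hI1, hI2, h1, hIa, haH])⟩, (by push_cast; linarith only [p0, p1, p3, p6, h0, hIa, haH, p5, p8, hI1, hI2, h1]), (by push_cast; linarith only [p0, p1, p3, p6, h0, hIa, haH, p5, p8, hI1, hI2, h1])⟩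
    · rcases lt_or_ge X (247 / 25) with h2 | h2
      · have hXu := hP.X_lt (149 / 500) (143 / 1000) (1187 / 100) (by linarith only [p0, p1, p3, p6, h0, hIa, haH, p5, p8, hI1, hI2, h1]) (by linarith only [p5, p8, hI1, hI2, h1, hIa, haH]) (by norm_num) (by norm_num) (by norm_num)
        have hXl := hP.le_X (149 / 500) (143 / 1000) (23 / 25) (by linarith only [p0, p1, p3, p6, h0, hIa, haH, p5, p8, hI1, hI2, h1]) (by linarith only [p5, p8, hI1, hI2, h1, hIa, haH]) (by norm_num)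
        exact mid_low_box hP (by decide) midC_low_num64
          ⟨⟨(by push_cast; linarith only [hu, hu1, p4, p7]), (by push_cast; linarith only [hu, hu1, p4, p7])⟩, ⟨(by push_cast; linarith only [p2, h2, hXu, hXl]), (by push_cast; linarith only [p2, h2, hXu, hXl])⟩,
        ⟨(by push_cast; linarith only [p5, p8, hI1, hI2, h1, hIa, haH]), (by push_cast; linarith only [p5, p8, hI1, hI2, h1, hIa, haH])⟩, (by push_cast; linarith only [p0, p1, p3, p6, h0, hIa, haH, p5, p8, hI1, hI2, h1]), (by push_cast; linarith only [p0, p1, p3, p6, h0, hIa, haH, p5, p8, hI1, hI2, h1])⟩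
      · have hXu := hP.X_lt (149 / 500) (143 / 1000) (1187 / 100) (by linarith only [p0, p1, p3, p6, h0, hIa, haH, p5, p8, hI1, hI2, h1]) (by linarith only [p5, p8, hI1, hI2, h1, hIa, haH]) (by norm_num) (by norm_num) (by norm_num)
        have hXl := hP.le_X (149 / 500) (143 / 1000) (23 / 25) (by linarith only [p0, p1, p3, p6, h0, hIa, haH, p5, p8, hI1, hI2, h1]) (by linarith only [p5, p8, hI1, hI2, h1, hIa, haH]) (by norm_num)
        exact mid_low_box hP (by decide) midC_low_num65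
          ⟨⟨(by push_cast; linarith only [hu, hu1, p4, p7]), (by push_cast; linarith only [hu, hu1, p4, p7])⟩, ⟨(by push_cast; linarith only [p2, h2, hXu, hXl]), (by push_cast; linarith only [p2, h2, hXu, hXl])⟩,
        ⟨(by push_cast; linarith only [p5, p8, hI1, hI2, h1, hIa, haH]), (by push_cast; linarith only [p5, p8, hI1, hI2, h1, hIa, haH])⟩, (by push_cast; linarith only [p0, p1, p3, p6, h0, hIa, haH, p5, p8, hI1, hI2, h1]), (by push_cast; linarith only [p0, p1, p3, p6, h0, hIa, haH, p5, p8, hI1, hI2, h1])⟩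

theorem midC_low_num_s48 {a I X u : ℝ} (hP : MidPlace a I X) (hI : 27 / 250 ≤ I ∧ I ≤ 1 / 7) (hu : 0 < u) (hu1 : u < 1) (p0 : (209 / 1000) ≤ a) (p1 : (13 / 50) ≤ a) (p2 : (79 / 10) ≤ X) (p3 : (57 / 200) ≤ a) (p4 : (1 / 2) ≤ u) (p5 : (1 / 8) ≤ I) (p6 : a < (149 / 500)) (p7 : (3 / 4) ≤ u) :
    0 < (eMidNum midLowC).eval (stabPt u X I a) := by
  rcases lt_or_ge I (67 / 500) with h | h
  · exact midC_low_num_s49 hP hI hu hu1 p0 p1 p2 p3 p4 p5 p6 p7 h
  · exact midC_low_num_s50 hP hI hu hu1 p0 p1 p2 p3 p4 p5 p6 p7 h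

theorem midC_low_num_s46 {a I X u : ℝ} (hP : MidPlace a I X) (hI : 27 / 250 ≤ I ∧ I ≤ 1 / 7) (hu : 0 < u) (hu1 : u < 1) (p0 : (209 / 1000) ≤ a) (p1 : (13 / 50) ≤ a) (p2 : (79 / 10) ≤ X) (p3 : (57 / 200) ≤ a) (p4 : (1 / 2) ≤ u) (p5 : (1 / 8) ≤ I) (p6 : a < (149 / 500)) :
    0 < (eMidNum midLowC).eval (stabPt u X I a) := by
  rcases lt_or_ge u (3 / 4) with h | h
  · exact midC_low_num_s47 hP hI hu hu1 p0 p1 p2 p3 p4 p5 p6 h
  · exact midC_low_num_s48 hP hI hu hu1 p0 p1 p2 p3 p4 p5 p6 h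

theorem midC_low_num_s52 {a I X u : ℝ} (hP : MidPlace a I X) (hI : 27 / 250 ≤ I ∧ I ≤ 1 / 7) (hu : 0 < u) (hu1 : u < 1) (p0 : (209 / 1000) ≤ a) (p1 : (13 / 50) ≤ a) (p2 : (79 / 10) ≤ X) (p3 : (57 / 200) ≤ a) (p4 : (1 / 2) ≤ u) (p5 : (1 / 8) ≤ I) (p6 : (149 / 500) ≤ a) (p7 : u < (3 / 4)) :
    0 < (eMidNum midLowC).eval (stabPt u X I a) := by
  obtain ⟨hI1, hI2⟩ := hI
  have hIa := hP.I_le_a
  have haH := hP.a_le
  rcases lt_or_ge I (67 / 500) with h0 | h0
  · have hXu := hP.X_lt (31 / 100) (67 / 500) (61 / 5) (by linarith only [p0, p1, p3, p6, hIa, haH, p5, hI1, hI2, h0]) (by linarith only [p5, hI1, hI2, h0, hIa, haH]) (by norm_num) (by norm_num) (by norm_num)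
    have hXl := hP.le_X (31 / 100) (67 / 500) (23 / 25) (by linarith only [p0, p1, p3, p6, hIa, haH, p5, hI1, hI2, h0]) (by linarith only [p5, hI1, hI2, h0, hIa, haH]) (by norm_num)
    exact mid_low_box hP (by decide) midC_low_num66
      ⟨⟨(by push_cast; linarith only [hu, hu1, p4, p7]), (by push_cast; linarith only [hu, hu1, p4, p7])⟩, ⟨(by push_cast; linarith only [p2, hXu, hXl]), (by push_cast; linarith only [p2, hXu, hXl])⟩,
        ⟨(by push_cast; linarith only [p5, hI1, hI2, h0, hIa, haH]), (by push_cast; linarith only [p5, hI1, hI2, h0, hIa, haH])⟩, (by push_cast; linarith only [p0, p1, p3, p6, hIa, haH, p5, hI1, hI2, h0]), (by push_cast; linarith only [p0, p1, p3, p6, hIa, haH, p5, hI1, hI2, h0])⟩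
  · rcases lt_or_ge I (69 / 500) with h1 | h1
    · have hXu := hP.X_lt_av (149 / 500) (67 / 500) (1253 / 100) (by linarith only [p0, p1, p3, p6, hIa, haH, p5, hI1, hI2, h0, h1]) (by linarith only [p5, hI1, hI2, h0, h1, hIa, haH]) (by norm_num) (by norm_num) (by norm_num)
      have hXl := hP.le_X (31 / 100) (69 / 500) (23 / 25) (by linarith only [p0, p1, p3, p6, hIa, haH, p5, hI1, hI2, h0, h1]) (by linarith only [p5, hI1, hI2, h0, h1, hIa, haH]) (by norm_num)
      exact mid_low_box hP (by decide) midC_low_num67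
        ⟨⟨(by push_cast; linarith only [hu, hu1, p4, p7]), (by push_cast; linarith only [hu, hu1, p4, p7])⟩, ⟨(by push_cast; linarith only [p2, hXu, hXl]), (by push_cast; linarith only [p2, hXu, hXl])⟩,
        ⟨(by push_cast; linarith only [p5, hI1, hI2, h0, h1, hIa, haH]), (by push_cast; linarith only [p5, hI1, hI2, h0, h1, hIa, haH])⟩, (by push_cast; linarith only [p0, p1, p3, p6, hIa, haH, p5, hI1, hI2, h0, h1]), (by push_cast; linarith only [p0, p1, p3, p6, hIa, haH, p5, hI1, hI2, h0, h1])⟩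
    · rcases lt_or_ge I (7 / 50) with h2 | h2
      · have hXu := hP.X_lt_av (149 / 500) (69 / 500) (304 / 25) (by linarith only [p0, p1, p3, p6, hIa, haH, p5, hI1, hI2, h0, h1, h2]) (by linarith only [p5, hI1, hI2, h0, h1, h2, hIa, haH]) (by norm_num) (by norm_num) (by norm_num)
        have hXl := hP.le_X (31 / 100) (7 / 50) (23 / 25) (by linarith only [p0, p1, p3, p6, hIa, haH, p5, hI1, hI2, h0, h1, h2]) (by linarith only [p5, hI1, hI2, h0, h1, h2, hIa, haH]) (by norm_num)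
        exact mid_low_box hP (by decide) midC_low_num68
          ⟨⟨(by push_cast; linarith only [hu, hu1, p4, p7]), (by push_cast; linarith only [hu, hu1, p4, p7])⟩, ⟨(by push_cast; linarith only [p2, hXu, hXl]), (by push_cast; linarith only [p2, hXu, hXl])⟩,
        ⟨(by push_cast; linarith only [p5, hI1, hI2, h0, h1, h2, hIa, haH]), (by push_cast; linarith only [p5, hI1, hI2, h0, h1, h2, hIa, haH])⟩, (by push_cast; linarith only [p0, p1, p3, p6, hIa, haH, p5, hI1, hI2, h0, h1, h2]), (by push_cast; linarith only [p0, p1, p3, p6, hIa, haH, p5, hI1, hI2, h0, h1, h2])⟩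
      · have hXu := hP.X_lt_av (149 / 500) (7 / 50) (1199 / 100) (by linarith only [p0, p1, p3, p6, hIa, haH, p5, hI1, hI2, h0, h1, h2]) (by linarith only [p5, hI1, hI2, h0, h1, h2, hIa, haH]) (by norm_num) (by norm_num) (by norm_num)
        have hXl := hP.le_X (31 / 100) (143 / 1000) (91 / 100) (by linarith only [p0, p1, p3, p6, hIa, haH, p5, hI1, hI2, h0, h1, h2]) (by linarith only [p5, hI1, hI2, h0, h1, h2, hIa, haH]) (by norm_num)
        exact mid_low_box hP (by decide) midC_low_num69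
          ⟨⟨(by push_cast; linarith only [hu, hu1, p4, p7]), (by push_cast; linarith only [hu, hu1, p4, p7])⟩, ⟨(by push_cast; linarith only [p2, hXu, hXl]), (by push_cast; linarith only [p2, hXu, hXl])⟩,
        ⟨(by push_cast; linarith only [p5, hI1, hI2, h0, h1, h2, hIa, haH]), (by push_cast; linarith only [p5, hI1, hI2, h0, h1, h2, hIa, haH])⟩, (by push_cast; linarith only [p0, p1, p3, p6, hIa, haH, p5, hI1, hI2, h0, h1, h2]), (by push_cast; linarith only [p0, p1, p3, p6, hIa, haH, p5, hI1, hI2, h0, h1, h2])⟩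

theorem midC_low_num_s55 {a I X u : ℝ} (hP : MidPlace a I X) (hI : 27 / 250 ≤ I ∧ I ≤ 1 / 7) (hu : 0 < u) (hu1 : u < 1) (p0 : (209 / 1000) ≤ a) (p1 : (13 / 50) ≤ a) (p2 : (79 / 10) ≤ X) (p3 : (57 / 200) ≤ a) (p4 : (1 / 2) ≤ u) (p5 : (1 / 8) ≤ I) (p6 : (149 / 500) ≤ a) (p7 : (3 / 4) ≤ u) (p8 : I < (67 / 500)) (p9 : a < (38 / 125)) :
    0 < (eMidNum midLowC).eval (stabPt u X I a) := by
  obtain ⟨hI1, hI2⟩ := hI
  have hIa := hP.I_le_a
  have haH := hP.a_le
  rcases lt_or_ge I (129 / 1000) with h0 | h0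
  · have hXu := hP.X_lt (38 / 125) (129 / 1000) (503 / 50) (by linarith only [p0, p1, p3, p6, p9, hIa, haH, p5, p8, hI1, hI2, h0]) (by linarith only [p5, p8, hI1, hI2, h0, hIa, haH]) (by norm_num) (by norm_num) (by norm_num)
    have hXl := hP.le_X (38 / 125) (129 / 1000) (23 / 25) (by linarith only [p0, p1, p3, p6, p9, hIa, haH, p5, p8, hI1, hI2, h0]) (by linarith only [p5, p8, hI1, hI2, h0, hIa, haH]) (by norm_num)
    exact mid_low_box hP (by decide) midC_low_num70
      ⟨⟨(by push_cast; linarith only [hu, hu1, p4, p7]), (by push_cast; linarith only [hu, hu1, p4, p7])⟩, ⟨(by push_cast; linarith only [p2, hXu, hXl]), (by push_cast; linarith only [p2, hXu, hXl])⟩,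
        ⟨(by push_cast; linarith only [p5, p8, hI1, hI2, h0, hIa, haH]), (by push_cast; linarith only [p5, p8, hI1, hI2, h0, hIa, haH])⟩, (by push_cast; linarith only [p0, p1, p3, p6, p9, hIa, haH, p5, p8, hI1, hI2, h0]), (by push_cast; linarith only [p0, p1, p3, p6, p9, hIa, haH, p5, p8, hI1, hI2, h0])⟩
  · have hXu := hP.X_lt (38 / 125) (67 / 500) (551 / 50) (by linarith only [p0, p1, p3, p6, p9, hIa, haH, p5, p8, hI1, hI2, h0]) (by linarith only [p5, p8, hI1, hI2, h0, hIa, haH]) (by norm_num) (by norm_num) (by norm_num)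
    have hXl := hP.le_X (38 / 125) (67 / 500) (23 / 25) (by linarith only [p0, p1, p3, p6, p9, hIa, haH, p5, p8, hI1, hI2, h0]) (by linarith only [p5, p8, hI1, hI2, h0, hIa, haH]) (by norm_num)
    exact mid_low_box hP (by decide) midC_low_num71
      ⟨⟨(by push_cast; linarith only [hu, hu1, p4, p7]), (by push_cast; linarith only [hu, hu1, p4, p7])⟩, ⟨(by push_cast; linarith only [p2, hXu, hXl]), (by push_cast; linarith only [p2, hXu, hXl])⟩,
        ⟨(by push_cast; linarith only [p5, p8, hI1, hI2, h0, hIa, haH]), (by push_cast; linarith only [p5, p8, hI1, hI2, h0, hIa, haH])⟩, (by push_cast; linarith only [p0, p1, p3, p6, p9, hIa, haH, p5, p8, hI1, hI2, h0]), (by push_cast; linarith only [p0, p1, p3, p6, p9, hIa, haH, p5, p8, hI1, hI2, h0])⟩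

theorem midC_low_num_s57 {a I X u : ℝ} (hP : MidPlace a I X) (hI : 27 / 250 ≤ I ∧ I ≤ 1 / 7) (hu : 0 < u) (hu1 : u < 1) (p0 : (209 / 1000) ≤ a) (p1 : (13 / 50) ≤ a) (p2 : (79 / 10) ≤ X) (p3 : (57 / 200) ≤ a) (p4 : (1 / 2) ≤ u) (p5 : (1 / 8) ≤ I) (p6 : (149 / 500) ≤ a) (p7 : (3 / 4) ≤ u) (p8 : I < (67 / 500)) (p9 : (38 / 125) ≤ a) (p10 : I < (129 / 1000)) :
    0 < (eMidNum midLowC).eval (stabPt u X I a) := by
  obtain ⟨hI1, hI2⟩ := hI
  have hIa := hP.I_le_a
  have haH := hP.a_le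
  rcases lt_or_ge a (307 / 1000) with h0 | h0
  · have hXu := hP.X_lt (307 / 1000) (129 / 1000) (1053 / 100) (by linarith only [p0, p1, p3, p6, p9, h0, hIa, haH, p5, p8, p10, hI1, hI2]) (by linarith only [p5, p8, p10, hI1, hI2, hIa, haH]) (by norm_num) (by norm_num) (by norm_num)
    have hXl := hP.le_X (307 / 1000) (129 / 1000) (23 / 25) (by linarith only [p0, p1, p3, p6, p9, h0, hIa, haH, p5, p8, p10, hI1, hI2]) (by linarith only [p5, p8, p10, hI1, hI2, hIa, haH]) (by norm_num)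
    exact mid_low_box hP (by decide) midC_low_num72
      ⟨⟨(by push_cast; linarith only [hu, hu1, p4, p7]), (by push_cast; linarith only [hu, hu1, p4, p7])⟩, ⟨(by push_cast; linarith only [p2, hXu, hXl]), (by push_cast; linarith only [p2, hXu, hXl])⟩,
        ⟨(by push_cast; linarith only [p5, p8, p10, hI1, hI2, hIa, haH]), (by push_cast; linarith only [p5, p8, p10, hI1, hI2, hIa, haH])⟩, (by push_cast; linarith only [p0, p1, p3, p6, p9, h0, hIa, haH, p5, p8, p10, hI1, hI2]), (by push_cast; linarith only [p0, p1, p3, p6, p9, h0, hIa, haH, p5, p8, p10, hI1, hI2])⟩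
  · have hXu := hP.X_lt (31 / 100) (129 / 1000) (221 / 20) (by linarith only [p0, p1, p3, p6, p9, h0, hIa, haH, p5, p8, p10, hI1, hI2]) (by linarith only [p5, p8, p10, hI1, hI2, hIa, haH]) (by norm_num) (by norm_num) (by norm_num)
    have hXl := hP.le_X (31 / 100) (129 / 1000) (23 / 25) (by linarith only [p0, p1, p3, p6, p9, h0, hIa, haH, p5, p8, p10, hI1, hI2]) (by linarith only [p5, p8, p10, hI1, hI2, hIa, haH]) (by norm_num)
    exact mid_low_box hP (by decide) midC_low_num73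
      ⟨⟨(by push_cast; linarith only [hu, hu1, p4, p7]), (by push_cast; linarith only [hu, hu1, p4, p7])⟩, ⟨(by push_cast; linarith only [p2, hXu, hXl]), (by push_cast; linarith only [p2, hXu, hXl])⟩,
        ⟨(by push_cast; linarith only [p5, p8, p10, hI1, hI2, hIa, haH]), (by push_cast; linarith only [p5, p8, p10, hI1, hI2, hIa, haH])⟩, (by push_cast; linarith only [p0, p1, p3, p6, p9, h0, hIa, haH, p5, p8, p10, hI1, hI2]), (by push_cast; linarith only [p0, p1, p3, p6, p9, h0, hIa, haH, p5, p8, p10, hI1, hI2])⟩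

theorem midC_low_num_s59 {a I X u : ℝ} (hP : MidPlace a I X) (hI : 27 / 250 ≤ I ∧ I ≤ 1 / 7) (hu : 0 < u) (hu1 : u < 1) (p0 : (209 / 1000) ≤ a) (p1 : (13 / 50) ≤ a) (p2 : (79 / 10) ≤ X) (p3 : (57 / 200) ≤ a) (p4 : (1 / 2) ≤ u) (p5 : (1 / 8) ≤ I) (p6 : (149 / 500) ≤ a) (p7 : (3 / 4) ≤ u) (p8 : I < (67 / 500)) (p9 : (38 / 125) ≤ a) (p10 : (129 / 1000) ≤ I) (p11 : a < (307 / 1000)) :
    0 < (eMidNum midLowC).eval (stabPt u X I a) := by
  obtain ⟨hI1, hI2⟩ := hI
  have hIa := hP.I_le_a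
  have haH := hP.a_le
  have hXu := hP.X_lt (307 / 1000) (67 / 500) (579 / 50) (by linarith only [p0, p1, p3, p6, p9, p11, hIa, haH, p5, p8, p10, hI1, hI2]) (by linarith only [p5, p8, p10, hI1, hI2, hIa, haH]) (by norm_num) (by norm_num) (by norm_num)
  have hXl := hP.le_X (307 / 1000) (67 / 500) (23 / 25) (by linarith only [p0, p1, p3, p6, p9, p11, hIa, haH, p5, p8, p10, hI1, hI2]) (by linarith only [p5, p8, p10, hI1, hI2, hIa, haH]) (by norm_num)
  exact mid_low_box hP (by decide) midC_low_num74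
    ⟨⟨(by push_cast; linarith only [hu, hu1, p4, p7]), (by push_cast; linarith only [hu, hu1, p4, p7])⟩, ⟨(by push_cast; linarith only [p2, hXu, hXl]), (by push_cast; linarith only [p2, hXu, hXl])⟩,
        ⟨(by push_cast; linarith only [p5, p8, p10, hI1, hI2, hIa, haH]), (by push_cast; linarith only [p5, p8, p10, hI1, hI2, hIa, haH])⟩, (by push_cast; linarith only [p0, p1, p3, p6, p9, p11, hIa, haH, p5, p8, p10, hI1, hI2]), (by push_cast; linarith only [p0, p1, p3, p6, p9, p11, hIa, haH, p5, p8, p10, hI1, hI2])⟩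

theorem midC_low_num_s60 {a I X u : ℝ} (hP : MidPlace a I X) (hI : 27 / 250 ≤ I ∧ I ≤ 1 / 7) (hu : 0 < u) (hu1 : u < 1) (p0 : (209 / 1000) ≤ a) (p1 : (13 / 50) ≤ a) (p2 : (79 / 10) ≤ X) (p3 : (57 / 200) ≤ a) (p4 : (1 / 2) ≤ u) (p5 : (1 / 8) ≤ I) (p6 : (149 / 500) ≤ a) (p7 : (3 / 4) ≤ u) (p8 : I < (67 / 500)) (p9 : (38 / 125) ≤ a) (p10 : (129 / 1000) ≤ I) (p11 : (307 / 1000) ≤ a) :
    0 < (eMidNum midLowC).eval (stabPt u X I a) := by
  obtain ⟨hI1, hI2⟩ := hI
  have hIa := hP.I_le_a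
  have haH := hP.a_le
  rcases lt_or_ge I (131 / 1000) with h0 | h0
  · have hXu := hP.X_lt (31 / 100) (131 / 1000) (1149 / 100) (by linarith only [p0, p1, p3, p6, p9, p11, hIa, haH, p5, p8, p10, hI1, hI2, h0]) (by linarith only [p5, p8, p10, hI1, hI2, h0, hIa, haH]) (by norm_num) (by norm_num) (by norm_num)
    have hXl := hP.le_X (31 / 100) (131 / 1000) (23 / 25) (by linarith only [p0, p1, p3, p6, p9, p11, hIa, haH, p5, p8, p10, hI1, hI2, h0]) (by linarith only [p5, p8, p10, hI1, hI2, h0, hIa, haH]) (by norm_num)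
    exact mid_low_box hP (by decide) midC_low_num75
      ⟨⟨(by push_cast; linarith only [hu, hu1, p4, p7]), (by push_cast; linarith only [hu, hu1, p4, p7])⟩, ⟨(by push_cast; linarith only [p2, hXu, hXl]), (by push_cast; linarith only [p2, hXu, hXl])⟩,
        ⟨(by push_cast; linarith only [p5, p8, p10, hI1, hI2, h0, hIa, haH]), (by push_cast; linarith only [p5, p8, p10, hI1, hI2, h0, hIa, haH])⟩, (by push_cast; linarith only [p0, p1, p3, p6, p9, p11, hIa, haH, p5, p8, p10, hI1, hI2, h0]), (by push_cast; linarith only [p0, p1, p3, p6, p9, p11, hIa, haH, p5, p8, p10, hI1, hI2, h0])⟩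
  · rcases lt_or_ge a (309 / 1000) with h1 | h1
    · have hXu := hP.X_lt (309 / 1000) (67 / 500) (1199 / 100) (by linarith only [p0, p1, p3, p6, p9, p11, h1, hIa, haH, p5, p8, p10, hI1, hI2, h0]) (by linarith only [p5, p8, p10, hI1, hI2, h0, hIa, haH]) (by norm_num) (by norm_num) (by norm_num)
      have hXl := hP.le_X (309 / 1000) (67 / 500) (23 / 25) (by linarith only [p0, p1, p3, p6, p9, p11, h1, hIa, haH, p5, p8, p10, hI1, hI2, h0]) (by linarith only [p5, p8, p10, hI1, hI2, h0, hIa, haH]) (by norm_num)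
      exact mid_low_box hP (by decide) midC_low_num76
        ⟨⟨(by push_cast; linarith only [hu, hu1, p4, p7]), (by push_cast; linarith only [hu, hu1, p4, p7])⟩, ⟨(by push_cast; linarith only [p2, hXu, hXl]), (by push_cast; linarith only [p2, hXu, hXl])⟩,
        ⟨(by push_cast; linarith only [p5, p8, p10, hI1, hI2, h0, hIa, haH]), (by push_cast; linarith only [p5, p8, p10, hI1, hI2, h0, hIa, haH])⟩, (by push_cast; linarith only [p0, p1, p3, p6, p9, p11, h1, hIa, haH, p5, p8, p10, hI1, hI2, h0]), (by push_cast; linarith only [p0, p1, p3, p6, p9, p11, h1, hIa, haH, p5, p8, p10, hI1, hI2, h0])⟩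
    · rcases lt_or_ge I (33 / 250) with h2 | h2
      · have hXu := hP.X_lt (31 / 100) (33 / 250) (293 / 25) (by linarith only [p0, p1, p3, p6, p9, p11, h1, hIa, haH, p5, p8, p10, hI1, hI2, h0, h2]) (by linarith only [p5, p8, p10, hI1, hI2, h0, h2, hIa, haH]) (by norm_num) (by norm_num) (by norm_num)
        have hXl := hP.le_X (31 / 100) (33 / 250) (23 / 25) (by linarith only [p0, p1, p3, p6, p9, p11, h1, hIa, haH, p5, p8, p10, hI1, hI2, h0, h2]) (by linarith only [p5, p8, p10, hI1, hI2, h0, h2, hIa, haH]) (by norm_num)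
        exact mid_low_box hP (by decide) midC_low_num77
          ⟨⟨(by push_cast; linarith only [hu, hu1, p4, p7]), (by push_cast; linarith only [hu, hu1, p4, p7])⟩, ⟨(by push_cast; linarith only [p2, hXu, hXl]), (by push_cast; linarith only [p2, hXu, hXl])⟩,
        ⟨(by push_cast; linarith only [p5, p8, p10, hI1, hI2, h0, h2, hIa, haH]), (by push_cast; linarith only [p5, p8, p10, hI1, hI2, h0, h2, hIa, haH])⟩, (by push_cast; linarith only [p0, p1, p3, p6, p9, p11, h1, hIa, haH, p5, p8, p10, hI1, hI2, h0, h2]), (by push_cast; linarith only [p0, p1, p3, p6, p9, p11, h1, hIa, haH, p5, p8, p10, hI1, hI2, h0, h2])⟩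
      · rcases lt_or_ge I (133 / 1000) with h3 | h3
        · have hXu := hP.X_lt (31 / 100) (133 / 1000) (299 / 25) (by linarith only [p0, p1, p3, p6, p9, p11, h1, hIa, haH, p5, p8, p10, hI1, hI2, h0, h2, h3]) (by linarith only [p5, p8, p10, hI1, hI2, h0, h2, h3, hIa, haH]) (by norm_num) (by norm_num) (by norm_num)
          have hXl := hP.le_X (31 / 100) (133 / 1000) (23 / 25) (by linarith only [p0, p1, p3, p6, p9, p11, h1, hIa, haH, p5, p8, p10, hI1, hI2, h0, h2, h3]) (by linarith only [p5, p8, p10, hI1, hI2, h0, h2, h3, hIa, haH]) (by norm_num)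
          exact mid_low_box hP (by decide) midC_low_num78
            ⟨⟨(by push_cast; linarith only [hu, hu1, p4, p7]), (by push_cast; linarith only [hu, hu1, p4, p7])⟩, ⟨(by push_cast; linarith only [p2, hXu, hXl]), (by push_cast; linarith only [p2, hXu, hXl])⟩,
        ⟨(by push_cast; linarith only [p5, p8, p10, hI1, hI2, h0, h2, h3, hIa, haH]), (by push_cast; linarith only [p5, p8, p10, hI1, hI2, h0, h2, h3, hIa, haH])⟩, (by push_cast; linarith only [p0, p1, p3, p6, p9, p11, h1, hIa, haH, p5, p8, p10, hI1, hI2, h0, h2, h3]), (by push_cast; linarith only [p0, p1, p3, p6, p9, p11, h1, hIa, haH, p5, p8, p10, hI1, hI2, h0, h2, h3])⟩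
        · have hXu := hP.X_lt_av (309 / 1000) (133 / 1000) (1217 / 100) (by linarith only [p0, p1, p3, p6, p9, p11, h1, hIa, haH, p5, p8, p10, hI1, hI2, h0, h2, h3]) (by linarith only [p5, p8, p10, hI1, hI2, h0, h2, h3, hIa, haH]) (by norm_num) (by norm_num) (by norm_num)
          have hXl := hP.le_X (31 / 100) (67 / 500) (23 / 25) (by linarith only [p0, p1, p3, p6, p9, p11, h1, hIa, haH, p5, p8, p10, hI1, hI2, h0, h2, h3]) (by linarith only [p5, p8, p10, hI1, hI2, h0, h2, h3, hIa, haH]) (by norm_num)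
          exact mid_low_box hP (by decide) midC_low_num79
            ⟨⟨(by push_cast; linarith only [hu, hu1, p4, p7]), (by push_cast; linarith only [hu, hu1, p4, p7])⟩, ⟨(by push_cast; linarith only [p2, hXu, hXl]), (by push_cast; linarith only [p2, hXu, hXl])⟩,
        ⟨(by push_cast; linarith only [p5, p8, p10, hI1, hI2, h0, h2, h3, hIa, haH]), (by push_cast; linarith only [p5, p8, p10, hI1, hI2, h0, h2, h3, hIa, haH])⟩, (by push_cast; linarith only [p0, p1, p3, p6, p9, p11, h1, hIa, haH, p5, p8, p10, hI1, hI2, h0, h2, h3]), (by push_cast; linarith only [p0, p1, p3, p6, p9, p11, h1, hIa, haH, p5, p8, p10, hI1, hI2, h0, h2, h3])⟩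

theorem midC_low_num_s58 {a I X u : ℝ} (hP : MidPlace a I X) (hI : 27 / 250 ≤ I ∧ I ≤ 1 / 7) (hu : 0 < u) (hu1 : u < 1) (p0 : (209 / 1000) ≤ a) (p1 : (13 / 50) ≤ a) (p2 : (79 / 10) ≤ X) (p3 : (57 / 200) ≤ a) (p4 : (1 / 2) ≤ u) (p5 : (1 / 8) ≤ I) (p6 : (149 / 500) ≤ a) (p7 : (3 / 4) ≤ u) (p8 : I < (67 / 500)) (p9 : (38 / 125) ≤ a) (p10 : (129 / 1000) ≤ I) :
    0 < (eMidNum midLowC).eval (stabPt u X I a) := by
  rcases lt_or_ge a (307 / 1000) with h | h
  · exact midC_low_num_s59 hP hI hu hu1 p0 p1 p2 p3 p4 p5 p6 p7 p8 p9 p10 h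
  · exact midC_low_num_s60 hP hI hu hu1 p0 p1 p2 p3 p4 p5 p6 p7 p8 p9 p10 h

theorem midC_low_num_s56 {a I X u : ℝ} (hP : MidPlace a I X) (hI : 27 / 250 ≤ I ∧ I ≤ 1 / 7) (hu : 0 < u) (hu1 : u < 1) (p0 : (209 / 1000) ≤ a) (p1 : (13 / 50) ≤ a) (p2 : (79 / 10) ≤ X) (p3 : (57 / 200) ≤ a) (p4 : (1 / 2) ≤ u) (p5 : (1 / 8) ≤ I) (p6 : (149 / 500) ≤ a) (p7 : (3 / 4) ≤ u) (p8 : I < (67 / 500)) (p9 : (38 / 125) ≤ a) :
    0 < (eMidNum midLowC).eval (stabPt u X I a) := by
  rcases lt_or_ge I (129 / 1000) with h | h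
  · exact midC_low_num_s57 hP hI hu hu1 p0 p1 p2 p3 p4 p5 p6 p7 p8 p9 h
  · exact midC_low_num_s58 hP hI hu hu1 p0 p1 p2 p3 p4 p5 p6 p7 p8 p9 h

theorem midC_low_num_s54 {a I X u : ℝ} (hP : MidPlace a I X) (hI : 27 / 250 ≤ I ∧ I ≤ 1 / 7) (hu : 0 < u) (hu1 : u < 1) (p0 : (209 / 1000) ≤ a) (p1 : (13 / 50) ≤ a) (p2 : (79 / 10) ≤ X) (p3 : (57 / 200) ≤ a) (p4 : (1 / 2) ≤ u) (p5 : (1 / 8) ≤ I) (p6 : (149 / 500) ≤ a) (p7 : (3 / 4) ≤ u) (p8 : I < (67 / 500)) :
    0 < (eMidNum midLowC).eval (stabPt u X I a) := by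
  rcases lt_or_ge a (38 / 125) with h | h
  · exact midC_low_num_s55 hP hI hu hu1 p0 p1 p2 p3 p4 p5 p6 p7 p8 h
  · exact midC_low_num_s56 hP hI hu hu1 p0 p1 p2 p3 p4 p5 p6 p7 p8 h

theorem midC_low_num_s62 {a I X u : ℝ} (hP : MidPlace a I X) (hI : 27 / 250 ≤ I ∧ I ≤ 1 / 7) (hu : 0 < u) (hu1 : u < 1) (p0 : (209 / 1000) ≤ a) (p1 : (13 / 50) ≤ a) (p2 : (79 / 10) ≤ X) (p3 : (57 / 200) ≤ a) (p4 : (1 / 2) ≤ u) (p5 : (1 / 8) ≤ I) (p6 : (149 / 500) ≤ a) (p7 : (3 / 4) ≤ u) (p8 : (67 / 500) ≤ I) (p9 : a < (38 / 125)) :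
    0 < (eMidNum midLowC).eval (stabPt u X I a) := by
  obtain ⟨hI1, hI2⟩ := hI
  have hIa := hP.I_le_a
  have haH := hP.a_le
  rcases lt_or_ge I (69 / 500) with h0 | h0
  · rcases lt_or_ge X (99 / 10) with h1 | h1
    · have hXu := hP.X_lt (38 / 125) (69 / 500) (1191 / 100) (by linarith only [p0, p1, p3, p6, p9, hIa, haH, p5, p8, hI1, hI2, h0]) (by linarith only [p5, p8, hI1, hI2, h0, hIa, haH]) (by norm_num) (by norm_num) (by norm_num)
      have hXl := hP.le_X (38 / 125) (69 / 500) (23 / 25) (by linarith only [p0, p1, p3, p6, p9, hIa, haH, p5, p8, hI1, hI2, h0]) (by linarith only [p5, p8, hI1, hI2, h0, hIa, haH]) (by norm_num)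
      exact mid_low_box hP (by decide) midC_low_num80
        ⟨⟨(by push_cast; linarith only [hu, hu1, p4, p7]), (by push_cast; linarith only [hu, hu1, p4, p7])⟩, ⟨(by push_cast; linarith only [p2, h1, hXu, hXl]), (by push_cast; linarith only [p2, h1, hXu, hXl])⟩,
        ⟨(by push_cast; linarith only [p5, p8, hI1, hI2, h0, hIa, haH]), (by push_cast; linarith only [p5, p8, hI1, hI2, h0, hIa, haH])⟩, (by push_cast; linarith only [p0, p1, p3, p6, p9, hIa, haH, p5, p8, hI1, hI2, h0]), (by push_cast; linarith only [p0, p1, p3, p6, p9, hIa, haH, p5, p8, hI1, hI2, h0])⟩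
    · have hXu := hP.X_lt (38 / 125) (69 / 500) (1191 / 100) (by linarith only [p0, p1, p3, p6, p9, hIa, haH, p5, p8, hI1, hI2, h0]) (by linarith only [p5, p8, hI1, hI2, h0, hIa, haH]) (by norm_num) (by norm_num) (by norm_num)
      have hXl := hP.le_X (38 / 125) (69 / 500) (23 / 25) (by linarith only [p0, p1, p3, p6, p9, hIa, haH, p5, p8, hI1, hI2, h0]) (by linarith only [p5, p8, hI1, hI2, h0, hIa, haH]) (by norm_num)
      exact mid_low_box hP (by decide) midC_low_num81
        ⟨⟨(by push_cast; linarith only [hu, hu1, p4, p7]), (by push_cast; linarith only [hu, hu1, p4, p7])⟩, ⟨(by push_cast; linarith only [p2, h1, hXu, hXl]), (by push_cast; linarith only [p2, h1, hXu, hXl])⟩,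
        ⟨(by push_cast; linarith only [p5, p8, hI1, hI2, h0, hIa, haH]), (by push_cast; linarith only [p5, p8, hI1, hI2, h0, hIa, haH])⟩, (by push_cast; linarith only [p0, p1, p3, p6, p9, hIa, haH, p5, p8, hI1, hI2, h0]), (by push_cast; linarith only [p0, p1, p3, p6, p9, hIa, haH, p5, p8, hI1, hI2, h0])⟩
  · rcases lt_or_ge I (7 / 50) with h2 | h2
    · have hXu := hP.X_lt_av (149 / 500) (69 / 500) (304 / 25) (by linarith only [p0, p1, p3, p6, p9, hIa, haH, p5, p8, hI1, hI2, h0, h2]) (by linarith only [p5, p8, hI1, hI2, h0, h2, hIa, haH]) (by norm_num) (by norm_num) (by norm_num)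
      have hXl := hP.le_X (38 / 125) (7 / 50) (23 / 25) (by linarith only [p0, p1, p3, p6, p9, hIa, haH, p5, p8, hI1, hI2, h0, h2]) (by linarith only [p5, p8, hI1, hI2, h0, h2, hIa, haH]) (by norm_num)
      exact mid_low_box hP (by decide) midC_low_num82
        ⟨⟨(by push_cast; linarith only [hu, hu1, p4, p7]), (by push_cast; linarith only [hu, hu1, p4, p7])⟩, ⟨(by push_cast; linarith only [p2, hXu, hXl]), (by push_cast; linarith only [p2, hXu, hXl])⟩,
        ⟨(by push_cast; linarith only [p5, p8, hI1, hI2, h0, h2, hIa, haH]), (by push_cast; linarith only [p5, p8, hI1, hI2, h0, h2, hIa, haH])⟩, (by push_cast; linarith only [p0, p1, p3, p6, p9, hIa, haH, p5, p8, hI1, hI2, h0, h2]), (by push_cast; linarith only [p0, p1, p3, p6, p9, hIa, haH, p5, p8, hI1, hI2, h0, h2])⟩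
    · have hXu := hP.X_lt_av (149 / 500) (7 / 50) (1199 / 100) (by linarith only [p0, p1, p3, p6, p9, hIa, haH, p5, p8, hI1, hI2, h0, h2]) (by linarith only [p5, p8, hI1, hI2, h0, h2, hIa, haH]) (by norm_num) (by norm_num) (by norm_num)
      have hXl := hP.le_X (38 / 125) (143 / 1000) (23 / 25) (by linarith only [p0, p1, p3, p6, p9, hIa, haH, p5, p8, hI1, hI2, h0, h2]) (by linarith only [p5, p8, hI1, hI2, h0, h2, hIa, haH]) (by norm_num)
      exact mid_low_box hP (by decide) midC_low_num83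
        ⟨⟨(by push_cast; linarith only [hu, hu1, p4, p7]), (by push_cast; linarith only [hu, hu1, p4, p7])⟩, ⟨(by push_cast; linarith only [p2, hXu, hXl]), (by push_cast; linarith only [p2, hXu, hXl])⟩,
        ⟨(by push_cast; linarith only [p5, p8, hI1, hI2, h0, h2, hIa, haH]), (by push_cast; linarith only [p5, p8, hI1, hI2, h0, h2, hIa, haH])⟩, (by push_cast; linarith only [p0, p1, p3, p6, p9, hIa, haH, p5, p8, hI1, hI2, h0, h2]), (by push_cast; linarith only [p0, p1, p3, p6, p9, hIa, haH, p5, p8, hI1, hI2, h0, h2])⟩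

theorem midC_low_num_s63 {a I X u : ℝ} (hP : MidPlace a I X) (hI : 27 / 250 ≤ I ∧ I ≤ 1 / 7) (hu : 0 < u) (hu1 : u < 1) (p0 : (209 / 1000) ≤ a) (p1 : (13 / 50) ≤ a) (p2 : (79 / 10) ≤ X) (p3 : (57 / 200) ≤ a) (p4 : (1 / 2) ≤ u) (p5 : (1 / 8) ≤ I) (p6 : (149 / 500) ≤ a) (p7 : (3 / 4) ≤ u) (p8 : (67 / 500) ≤ I) (p9 : (38 / 125) ≤ a) :
    0 < (eMidNum midLowC).eval (stabPt u X I a) := by
  obtain ⟨hI1, hI2⟩ := hI
  have hIa := hP.I_le_a
  have haH := hP.a_le
  rcases lt_or_ge I (69 / 500) with h0 | h0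
  · rcases lt_or_ge a (307 / 1000) with h1 | h1
    · rcases lt_or_ge X (1009 / 100) with h2 | h2
      · have hXu := hP.X_lt_av (38 / 125) (67 / 500) (307 / 25) (by linarith only [p0, p1, p3, p6, p9, h1, hIa, haH, p5, p8, hI1, hI2, h0]) (by linarith only [p5, p8, hI1, hI2, h0, hIa, haH]) (by norm_num) (by norm_num) (by norm_num)
        have hXl := hP.le_X (307 / 1000) (69 / 500) (23 / 25) (by linarith only [p0, p1, p3, p6, p9, h1, hIa, haH, p5, p8, hI1, hI2, h0]) (by linarith only [p5, p8, hI1, hI2, h0, hIa, haH]) (by norm_num)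
        exact mid_low_box hP (by decide) midC_low_num84
          ⟨⟨(by push_cast; linarith only [hu, hu1, p4, p7]), (by push_cast; linarith only [hu, hu1, p4, p7])⟩, ⟨(by push_cast; linarith only [p2, h2, hXu, hXl]), (by push_cast; linarith only [p2, h2, hXu, hXl])⟩,
        ⟨(by push_cast; linarith only [p5, p8, hI1, hI2, h0, hIa, haH]), (by push_cast; linarith only [p5, p8, hI1, hI2, h0, hIa, haH])⟩, (by push_cast; linarith only [p0, p1, p3, p6, p9, h1, hIa, haH, p5, p8, hI1, hI2, h0]), (by push_cast; linarith only [p0, p1, p3, p6, p9, h1, hIa, haH, p5, p8, hI1, hI2, h0])⟩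
      · have hXu := hP.X_lt_av (38 / 125) (67 / 500) (307 / 25) (by linarith only [p0, p1, p3, p6, p9, h1, hIa, haH, p5, p8, hI1, hI2, h0]) (by linarith only [p5, p8, hI1, hI2, h0, hIa, haH]) (by norm_num) (by norm_num) (by norm_num)
        have hXl := hP.le_X (307 / 1000) (69 / 500) (23 / 25) (by linarith only [p0, p1, p3, p6, p9, h1, hIa, haH, p5, p8, hI1, hI2, h0]) (by linarith only [p5, p8, hI1, hI2, h0, hIa, haH]) (by norm_num)
        exact mid_low_box hP (by decide) midC_low_num85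
          ⟨⟨(by push_cast; linarith only [hu, hu1, p4, p7]), (by push_cast; linarith only [hu, hu1, p4, p7])⟩, ⟨(by push_cast; linarith only [p2, h2, hXu, hXl]), (by push_cast; linarith only [p2, h2, hXu, hXl])⟩,
        ⟨(by push_cast; linarith only [p5, p8, hI1, hI2, h0, hIa, haH]), (by push_cast; linarith only [p5, p8, hI1, hI2, h0, hIa, haH])⟩, (by push_cast; linarith only [p0, p1, p3, p6, p9, h1, hIa, haH, p5, p8, hI1, hI2, h0]), (by push_cast; linarith only [p0, p1, p3, p6, p9, h1, hIa, haH, p5, p8, hI1, hI2, h0])⟩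
    · rcases lt_or_ge a (309 / 1000) with h3 | h3
      · have hXu := hP.X_lt_av (307 / 1000) (67 / 500) (304 / 25) (by linarith only [p0, p1, p3, p6, p9, h1, h3, hIa, haH, p5, p8, hI1, hI2, h0]) (by linarith only [p5, p8, hI1, hI2, h0, hIa, haH]) (by norm_num) (by norm_num) (by norm_num)
        have hXl := hP.le_X (309 / 1000) (69 / 500) (23 / 25) (by linarith only [p0, p1, p3, p6, p9, h1, h3, hIa, haH, p5, p8, hI1, hI2, h0]) (by linarith only [p5, p8, hI1, hI2, h0, hIa, haH]) (by norm_num)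
        exact mid_low_box hP (by decide) midC_low_num86
          ⟨⟨(by push_cast; linarith only [hu, hu1, p4, p7]), (by push_cast; linarith only [hu, hu1, p4, p7])⟩, ⟨(by push_cast; linarith only [p2, hXu, hXl]), (by push_cast; linarith only [p2, hXu, hXl])⟩,
        ⟨(by push_cast; linarith only [p5, p8, hI1, hI2, h0, hIa, haH]), (by push_cast; linarith only [p5, p8, hI1, hI2, h0, hIa, haH])⟩, (by push_cast; linarith only [p0, p1, p3, p6, p9, h1, h3, hIa, haH, p5, p8, hI1, hI2, h0]), (by push_cast; linarith only [p0, p1, p3, p6, p9, h1, h3, hIa, haH, p5, p8, hI1, hI2, h0])⟩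
      · have hXu := hP.X_lt_av (309 / 1000) (67 / 500) (302 / 25) (by linarith only [p0, p1, p3, p6, p9, h1, h3, hIa, haH, p5, p8, hI1, hI2, h0]) (by linarith only [p5, p8, hI1, hI2, h0, hIa, haH]) (by norm_num) (by norm_num) (by norm_num)
        have hXl := hP.le_X (31 / 100) (69 / 500) (23 / 25) (by linarith only [p0, p1, p3, p6, p9, h1, h3, hIa, haH, p5, p8, hI1, hI2, h0]) (by linarith only [p5, p8, hI1, hI2, h0, hIa, haH]) (by norm_num)
        exact mid_low_box hP (by decide) midC_low_num87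
          ⟨⟨(by push_cast; linarith only [hu, hu1, p4, p7]), (by push_cast; linarith only [hu, hu1, p4, p7])⟩, ⟨(by push_cast; linarith only [p2, hXu, hXl]), (by push_cast; linarith only [p2, hXu, hXl])⟩,
        ⟨(by push_cast; linarith only [p5, p8, hI1, hI2, h0, hIa, haH]), (by push_cast; linarith only [p5, p8, hI1, hI2, h0, hIa, haH])⟩, (by push_cast; linarith only [p0, p1, p3, p6, p9, h1, h3, hIa, haH, p5, p8, hI1, hI2, h0]), (by push_cast; linarith only [p0, p1, p3, p6, p9, h1, h3, hIa, haH, p5, p8, hI1, hI2, h0])⟩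
  · have hXu := hP.X_lt_av (38 / 125) (69 / 500) (298 / 25) (by linarith only [p0, p1, p3, p6, p9, hIa, haH, p5, p8, hI1, hI2, h0]) (by linarith only [p5, p8, hI1, hI2, h0, hIa, haH]) (by norm_num) (by norm_num) (by norm_num)
    have hXl := hP.le_X (31 / 100) (143 / 1000) (91 / 100) (by linarith only [p0, p1, p3, p6, p9, hIa, haH, p5, p8, hI1, hI2, h0]) (by linarith only [p5, p8, hI1, hI2, h0, hIa, haH]) (by norm_num)
    exact mid_low_box hP (by decide) midC_low_num88
      ⟨⟨(by push_cast; linarith only [hu, hu1, p4, p7]), (by push_cast; linarith only [hu, hu1, p4, p7])⟩, ⟨(by push_cast; linarith only [p2, hXu, hXl]), (by push_cast; linarith only [p2, hXu, hXl])⟩,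
        ⟨(by push_cast; linarith only [p5, p8, hI1, hI2, h0, hIa, haH]), (by push_cast; linarith only [p5, p8, hI1, hI2, h0, hIa, haH])⟩, (by push_cast; linarith only [p0, p1, p3, p6, p9, hIa, haH, p5, p8, hI1, hI2, h0]), (by push_cast; linarith only [p0, p1, p3, p6, p9, hIa, haH, p5, p8, hI1, hI2, h0])⟩

theorem midC_low_num_s61 {a I X u : ℝ} (hP : MidPlace a I X) (hI : 27 / 250 ≤ I ∧ I ≤ 1 / 7) (hu : 0 < u) (hu1 : u < 1) (p0 : (209 / 1000) ≤ a) (p1 : (13 / 50) ≤ a) (p2 : (79 / 10) ≤ X) (p3 : (57 / 200) ≤ a) (p4 : (1 / 2) ≤ u) (p5 : (1 / 8) ≤ I) (p6 : (149 / 500) ≤ a) (p7 : (3 / 4) ≤ u) (p8 : (67 / 500) ≤ I) :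
    0 < (eMidNum midLowC).eval (stabPt u X I a) := by
  rcases lt_or_ge a (38 / 125) with h | h
  · exact midC_low_num_s62 hP hI hu hu1 p0 p1 p2 p3 p4 p5 p6 p7 p8 h
  · exact midC_low_num_s63 hP hI hu hu1 p0 p1 p2 p3 p4 p5 p6 p7 p8 h

theorem midC_low_num_s53 {a I X u : ℝ} (hP : MidPlace a I X) (hI : 27 / 250 ≤ I ∧ I ≤ 1 / 7) (hu : 0 < u) (hu1 : u < 1) (p0 : (209 / 1000) ≤ a) (p1 : (13 / 50) ≤ a) (p2 : (79 / 10) ≤ X) (p3 : (57 / 200) ≤ a) (p4 : (1 / 2) ≤ u) (p5 : (1 / 8) ≤ I) (p6 : (149 / 500) ≤ a) (p7 : (3 / 4) ≤ u) :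
    0 < (eMidNum midLowC).eval (stabPt u X I a) := by
  rcases lt_or_ge I (67 / 500) with h | h
  · exact midC_low_num_s54 hP hI hu hu1 p0 p1 p2 p3 p4 p5 p6 p7 h
  · exact midC_low_num_s61 hP hI hu hu1 p0 p1 p2 p3 p4 p5 p6 p7 h

theorem midC_low_num_s51 {a I X u : ℝ} (hP : MidPlace a I X) (hI : 27 / 250 ≤ I ∧ I ≤ 1 / 7) (hu : 0 < u) (hu1 : u < 1) (p0 : (209 / 1000) ≤ a) (p1 : (13 / 50) ≤ a) (p2 : (79 / 10) ≤ X) (p3 : (57 / 200) ≤ a) (p4 : (1 / 2) ≤ u) (p5 : (1 / 8) ≤ I) (p6 : (149 / 500) ≤ a) :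
    0 < (eMidNum midLowC).eval (stabPt u X I a) := by
  rcases lt_or_ge u (3 / 4) with h | h
  · exact midC_low_num_s52 hP hI hu hu1 p0 p1 p2 p3 p4 p5 p6 h
  · exact midC_low_num_s53 hP hI hu hu1 p0 p1 p2 p3 p4 p5 p6 h

theorem midC_low_num_s45 {a I X u : ℝ} (hP : MidPlace a I X) (hI : 27 / 250 ≤ I ∧ I ≤ 1 / 7) (hu : 0 < u) (hu1 : u < 1) (p0 : (209 / 1000) ≤ a) (p1 : (13 / 50) ≤ a) (p2 : (79 / 10) ≤ X) (p3 : (57 / 200) ≤ a) (p4 : (1 / 2) ≤ u) (p5 : (1 / 8) ≤ I) :
    0 < (eMidNum midLowC).eval (stabPt u X I a) := by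
  rcases lt_or_ge a (149 / 500) with h | h
  · exact midC_low_num_s46 hP hI hu hu1 p0 p1 p2 p3 p4 p5 h
  · exact midC_low_num_s51 hP hI hu hu1 p0 p1 p2 p3 p4 p5 h

theorem midC_low_num_s37 {a I X u : ℝ} (hP : MidPlace a I X) (hI : 27 / 250 ≤ I ∧ I ≤ 1 / 7) (hu : 0 < u) (hu1 : u < 1) (p0 : (209 / 1000) ≤ a) (p1 : (13 / 50) ≤ a) (p2 : (79 / 10) ≤ X) (p3 : (57 / 200) ≤ a) (p4 : (1 / 2) ≤ u) :
    0 < (eMidNum midLowC).eval (stabPt u X I a) := by
  rcases lt_or_ge I (1 / 8) with h | h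
  · exact midC_low_num_s38 hP hI hu hu1 p0 p1 p2 p3 p4 h
  · exact midC_low_num_s45 hP hI hu hu1 p0 p1 p2 p3 p4 h

theorem midC_low_num_s31 {a I X u : ℝ} (hP : MidPlace a I X) (hI : 27 / 250 ≤ I ∧ I ≤ 1 / 7) (hu : 0 < u) (hu1 : u < 1) (p0 : (209 / 1000) ≤ a) (p1 : (13 / 50) ≤ a) (p2 : (79 / 10) ≤ X) (p3 : (57 / 200) ≤ a) :
    0 < (eMidNum midLowC).eval (stabPt u X I a) := by
  rcases lt_or_ge u (1 / 2) with h | h
  · exact midC_low_num_s32 hP hI hu hu1 p0 p1 p2 p3 h
  · exact midC_low_num_s37 hP hI hu hu1 p0 p1 p2 p3 h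

theorem midC_low_num_s29 {a I X u : ℝ} (hP : MidPlace a I X) (hI : 27 / 250 ≤ I ∧ I ≤ 1 / 7) (hu : 0 < u) (hu1 : u < 1) (p0 : (209 / 1000) ≤ a) (p1 : (13 / 50) ≤ a) (p2 : (79 / 10) ≤ X) :
    0 < (eMidNum midLowC).eval (stabPt u X I a) := by
  rcases lt_or_ge a (57 / 200) with h | h
  · exact midC_low_num_s30 hP hI hu hu1 p0 p1 p2 h
  · exact midC_low_num_s31 hP hI hu hu1 p0 p1 p2 h

theorem midC_low_num_s9 {a I X u : ℝ} (hP : MidPlace a I X) (hI : 27 / 250 ≤ I ∧ I ≤ 1 / 7) (hu : 0 < u) (hu1 : u < 1) (p0 : (209 / 1000) ≤ a) (p1 : (13 / 50) ≤ a) :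
    0 < (eMidNum midLowC).eval (stabPt u X I a) := by
  rcases lt_or_ge X (79 / 10) with h | h
  · exact midC_low_num_s10 hP hI hu hu1 p0 p1 h
  · exact midC_low_num_s29 hP hI hu hu1 p0 p1 h

theorem midC_low_num_s3 {a I X u : ℝ} (hP : MidPlace a I X) (hI : 27 / 250 ≤ I ∧ I ≤ 1 / 7) (hu : 0 < u) (hu1 : u < 1) (p0 : (209 / 1000) ≤ a) :
    0 < (eMidNum midLowC).eval (stabPt u X I a) := by
  rcases lt_or_ge a (13 / 50) with h | h
  · exact midC_low_num_s4 hP hI hu hu1 p0 h
  · exact midC_low_num_s9 hP hI hu hu1 p0 h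

theorem midC_low_num {a I X u : ℝ} (hP : MidPlace a I X) (hI : 27 / 250 ≤ I ∧ I ≤ 1 / 7) (hu : 0 < u) (hu1 : u < 1) :
    0 < (eMidNum midLowC).eval (stabPt u X I a) := by
  rcases lt_or_ge a (209 / 1000) with h | h
  · exact midC_low_num_s0 hP hI hu hu1  h
  · exact midC_low_num_s3 hP hI hu hu1  h

theorem midC_low_den {a I X u : ℝ} (hP : MidPlace a I X) (hI : 27 / 250 ≤ I ∧ I ≤ 1 / 7) (hu : 0 < u) (hu1 : u < 1) :
    0 < (eMidDen midLowC).eval (stabPt u X I a) := by
  obtain ⟨hI1, hI2⟩ := hI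
  have hIa := hP.I_le_a
  have haH := hP.a_le
  have hXu := hP.X_lt (31 / 100) (143 / 1000) (149 / 10) (by linarith only [hIa, haH, hI1, hI2]) (by linarith only [hI1, hI2, hIa, haH]) (by norm_num) (by norm_num) (by norm_num)
  have hXl := hP.le_X (31 / 100) (143 / 1000) (91 / 100) (by linarith only [hIa, haH, hI1, hI2]) (by linarith only [hI1, hI2, hIa, haH]) (by norm_num)
  exact mid_den_box midC_low_den0
    ⟨⟨(by push_cast; linarith only [hu, hu1]), (by push_cast; linarith only [hu, hu1])⟩, ⟨(by push_cast; linarith only [hXu, hXl]), (by push_cast; linarith only [hXu, hXl])⟩,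
        ⟨(by push_cast; linarith only [hI1, hI2, hIa, haH]), (by push_cast; linarith only [hI1, hI2, hIa, haH])⟩, (by push_cast; linarith only [hIa, haH, hI1, hI2]), (by push_cast; linarith only [hIa, haH, hI1, hI2])⟩

theorem midC_low_start {a I X : ℝ} (hP : MidPlace a I X) (hI : 27 / 250 ≤ I ∧ I ≤ 1 / 7) :
    0 ≤ (eMidStart midLowC).eval (stabPt 0 X I a) := by
  obtain ⟨hI1, hI2⟩ := hI
  have hIa := hP.I_le_a
  have haH := hP.a_le
  have hXu := hP.X_lt (31 / 100) (143 / 1000) (149 / 10) (by linarith only [hIa, haH, hI1, hI2]) (by linarith only [hI1, hI2, hIa, haH]) (by norm_num) (by norm_num) (by norm_num)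
  have hXl := hP.le_X (31 / 100) (143 / 1000) (91 / 100) (by linarith only [hIa, haH, hI1, hI2]) (by linarith only [hI1, hI2, hIa, haH]) (by norm_num)
  exact mid_start_low_box hP (by decide) midC_low_start0
    ⟨⟨by norm_num, by norm_num⟩, ⟨(by push_cast; linarith only [hXu, hXl]), (by push_cast; linarith only [hXu, hXl])⟩,
        ⟨(by push_cast; linarith only [hI1, hI2, hIa, haH]), (by push_cast; linarith only [hI1, hI2, hIa, haH])⟩, (by push_cast; linarith only [hIa, haH, hI1, hI2]), (by push_cast; linarith only [hIa, haH, hI1, hI2])⟩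

end AllLow

end Vale.Agent.P100.Calib.Band
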