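import Vale.Agent.P100.Calib.SlabMidSound
import Vale.Agent.P100.Calib.SlabMidCertC

/-!
# The signs at the bands of piece C, upper band, dimensions from seven to twenty
-/

open Set Filter Topology

namespace Vale.Agent.P100.Calib.Band

open Vale.Agent.P100.Bubble Chart

namespace AllLow

theorem midC_up_num_s4 {a I X u : ℝ} (hP : MidPlace a I X) (hI : 27 / 250 ≤ I ∧ I ≤ 1 / 7) (hu : 0 < u) (hu1 : u < 1) (p0 : X < (79 / 10)) (p1 : X < (22 / 5)) (p2 : X < (53 / 20)) (p3 : I < (1 / 8)) (p4 : u < (1 / 2)) :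
    (eMidNum midUpC).eval (stabPt u X I a) < 0 := by
  obtain ⟨hI1, hI2⟩ := hI
  have hIa := hP.I_le_a
  have haH := hP.a_le
  have hXu := hP.X_lt (31 / 100) (1 / 8) (513 / 50) (by linarith only [hIa, haH, p3, hI1, hI2]) (by linarith only [p3, hI1, hI2, hIa, haH]) (by norm_num) (by norm_num) (by norm_num)
  have hXl := hP.le_X (31 / 100) (1 / 8) (23 / 25) (by linarith only [hIa, haH, p3, hI1, hI2]) (by linarith only [p3, hI1, hI2, hIa, haH]) (by norm_num)
  exact mid_up_box hP (by decide) midC_up_num0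
    ⟨⟨(by push_cast; linarith only [hu, hu1, p4]), (by push_cast; linarith only [hu, hu1, p4])⟩, ⟨(by push_cast; linarith only [p0, p1, p2, hXu, hXl]), (by push_cast; linarith only [p0, p1, p2, hXu, hXl])⟩,
        ⟨(by push_cast; linarith only [p3, hI1, hI2, hIa, haH]), (by push_cast; linarith only [p3, hI1, hI2, hIa, haH])⟩, (by push_cast; linarith only [hIa, haH, p3, hI1, hI2]), (by push_cast; linarith only [hIa, haH, p3, hI1, hI2])⟩

theorem midC_up_num_s5 {a I X u : ℝ} (hP : MidPlace a I X) (hI : 27 / 250 ≤ I ∧ I ≤ 1 / 7) (hu : 0 < u) (hu1 : u < 1) (p0 : X < (79 / 10)) (p1 : X < (22 / 5)) (p2 : X < (53 / 20)) (p3 : I < (1 / 8)) (p4 : (1 / 2) ≤ u) :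
    (eMidNum midUpC).eval (stabPt u X I a) < 0 := by
  obtain ⟨hI1, hI2⟩ := hI
  have hIa := hP.I_le_a
  have haH := hP.a_le
  rcases lt_or_ge u (3 / 4) with h0 | h0
  · rcases lt_or_ge a (209 / 1000) with h1 | h1
    · have hXu := hP.X_lt (209 / 1000) (1 / 8) (201 / 50) (by linarith only [h1, hIa, haH, p3, hI1, hI2]) (by linarith only [p3, hI1, hI2, hIa, haH]) (by norm_num) (by norm_num) (by norm_num)
      have hXl := hP.le_X (209 / 1000) (1 / 8) (19 / 20) (by linarith only [h1, hIa, haH, p3, hI1, hI2]) (by linarith only [p3, hI1, hI2, hIa, haH]) (by norm_num)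
      exact mid_up_box hP (by decide) midC_up_num1
        ⟨⟨(by push_cast; linarith only [hu, hu1, p4, h0]), (by push_cast; linarith only [hu, hu1, p4, h0])⟩, ⟨(by push_cast; linarith only [p0, p1, p2, hXu, hXl]), (by push_cast; linarith only [p0, p1, p2, hXu, hXl])⟩,
        ⟨(by push_cast; linarith only [p3, hI1, hI2, hIa, haH]), (by push_cast; linarith only [p3, hI1, hI2, hIa, haH])⟩, (by push_cast; linarith only [h1, hIa, haH, p3, hI1, hI2]), (by push_cast; linarith only [h1, hIa, haH, p3, hI1, hI2])⟩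
    · have hXu := hP.X_lt (31 / 100) (1 / 8) (513 / 50) (by linarith only [h1, hIa, haH, p3, hI1, hI2]) (by linarith only [p3, hI1, hI2, hIa, haH]) (by norm_num) (by norm_num) (by norm_num)
      have hXl := hP.le_X (31 / 100) (1 / 8) (23 / 25) (by linarith only [h1, hIa, haH, p3, hI1, hI2]) (by linarith only [p3, hI1, hI2, hIa, haH]) (by norm_num)
      exact mid_up_box hP (by decide) midC_up_num2
        ⟨⟨(by push_cast; linarith only [hu, hu1, p4, h0]), (by push_cast; linarith only [hu, hu1, p4, h0])⟩, ⟨(by push_cast; linarith only [p0, p1, p2, hXu, hXl]), (by push_cast; linarith only [p0, p1, p2, hXu, hXl])⟩,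
        ⟨(by push_cast; linarith only [p3, hI1, hI2, hIa, haH]), (by push_cast; linarith only [p3, hI1, hI2, hIa, haH])⟩, (by push_cast; linarith only [h1, hIa, haH, p3, hI1, hI2]), (by push_cast; linarith only [h1, hIa, haH, p3, hI1, hI2])⟩
  · rcases lt_or_ge a (209 / 1000) with h2 | h2
    · rcases lt_or_ge X (9 / 5) with h3 | h3
      · have hXu := hP.X_lt (209 / 1000) (1 / 8) (201 / 50) (by linarith only [h2, hIa, haH, p3, hI1, hI2]) (by linarith only [p3, hI1, hI2, hIa, haH]) (by norm_num) (by norm_num) (by norm_num)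
        have hXl := hP.le_X (209 / 1000) (1 / 8) (19 / 20) (by linarith only [h2, hIa, haH, p3, hI1, hI2]) (by linarith only [p3, hI1, hI2, hIa, haH]) (by norm_num)
        exact mid_up_box hP (by decide) midC_up_num3
          ⟨⟨(by push_cast; linarith only [hu, hu1, p4, h0]), (by push_cast; linarith only [hu, hu1, p4, h0])⟩, ⟨(by push_cast; linarith only [p0, p1, p2, h3, hXu, hXl]), (by push_cast; linarith only [p0, p1, p2, h3, hXu, hXl])⟩,
        ⟨(by push_cast; linarith only [p3, hI1, hI2, hIa, haH]), (by push_cast; linarith only [p3, hI1, hI2, hIa, haH])⟩, (by push_cast; linarith only [h2, hIa, haH, p3, hI1, hI2]), (by push_cast; linarith only [h2, hIa, haH, p3, hI1, hI2])⟩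
      · have hXu := hP.X_lt (209 / 1000) (1 / 8) (201 / 50) (by linarith only [h2, hIa, haH, p3, hI1, hI2]) (by linarith only [p3, hI1, hI2, hIa, haH]) (by norm_num) (by norm_num) (by norm_num)
        have hXl := hP.le_X (209 / 1000) (1 / 8) (19 / 20) (by linarith only [h2, hIa, haH, p3, hI1, hI2]) (by linarith only [p3, hI1, hI2, hIa, haH]) (by norm_num)
        exact mid_up_box hP (by decide) midC_up_num4
          ⟨⟨(by push_cast; linarith only [hu, hu1, p4, h0]), (by push_cast; linarith only [hu, hu1, p4, h0])⟩, ⟨(by push_cast; linarith only [p0, p1, p2, h3, hXu, hXl]), (by push_cast; linarith only [p0, p1, p2, h3, hXu, hXl])⟩,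
        ⟨(by push_cast; linarith only [p3, hI1, hI2, hIa, haH]), (by push_cast; linarith only [p3, hI1, hI2, hIa, haH])⟩, (by push_cast; linarith only [h2, hIa, haH, p3, hI1, hI2]), (by push_cast; linarith only [h2, hIa, haH, p3, hI1, hI2])⟩
    · have hXu := hP.X_lt (31 / 100) (1 / 8) (513 / 50) (by linarith only [h2, hIa, haH, p3, hI1, hI2]) (by linarith only [p3, hI1, hI2, hIa, haH]) (by norm_num) (by norm_num) (by norm_num)
      have hXl := hP.le_X (31 / 100) (1 / 8) (23 / 25) (by linarith only [h2, hIa, haH, p3, hI1, hI2]) (by linarith only [p3, hI1, hI2, hIa, haH]) (by norm_num)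
      exact mid_up_box hP (by decide) midC_up_num5
        ⟨⟨(by push_cast; linarith only [hu, hu1, p4, h0]), (by push_cast; linarith only [hu, hu1, p4, h0])⟩, ⟨(by push_cast; linarith only [p0, p1, p2, hXu, hXl]), (by push_cast; linarith only [p0, p1, p2, hXu, hXl])⟩,
        ⟨(by push_cast; linarith only [p3, hI1, hI2, hIa, haH]), (by push_cast; linarith only [p3, hI1, hI2, hIa, haH])⟩, (by push_cast; linarith only [h2, hIa, haH, p3, hI1, hI2]), (by push_cast; linarith only [h2, hIa, haH, p3, hI1, hI2])⟩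

theorem midC_up_num_s3 {a I X u : ℝ} (hP : MidPlace a I X) (hI : 27 / 250 ≤ I ∧ I ≤ 1 / 7) (hu : 0 < u) (hu1 : u < 1) (p0 : X < (79 / 10)) (p1 : X < (22 / 5)) (p2 : X < (53 / 20)) (p3 : I < (1 / 8)) :
    (eMidNum midUpC).eval (stabPt u X I a) < 0 := by
  rcases lt_or_ge u (1 / 2) with h | h
  · exact midC_up_num_s4 hP hI hu hu1 p0 p1 p2 p3 h
  · exact midC_up_num_s5 hP hI hu hu1 p0 p1 p2 p3 h

theorem midC_up_num_s7 {a I X u : ℝ} (hP : MidPlace a I X) (hI : 27 / 250 ≤ I ∧ I ≤ 1 / 7) (hu : 0 < u) (hu1 : u < 1) (p0 : X < (79 / 10)) (p1 : X < (22 / 5)) (p2 : X < (53 / 20)) (p3 : (1 / 8) ≤ I) (p4 : u < (1 / 2)) :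
    (eMidNum midUpC).eval (stabPt u X I a) < 0 := by
  obtain ⟨hI1, hI2⟩ := hI
  have hIa := hP.I_le_a
  have haH := hP.a_le
  have hXu := hP.X_lt (31 / 100) (143 / 1000) (149 / 10) (by linarith only [hIa, haH, p3, hI1, hI2]) (by linarith only [p3, hI1, hI2, hIa, haH]) (by norm_num) (by norm_num) (by norm_num)
  have hXl := hP.le_X (31 / 100) (143 / 1000) (91 / 100) (by linarith only [hIa, haH, p3, hI1, hI2]) (by linarith only [p3, hI1, hI2, hIa, haH]) (by norm_num)
  exact mid_up_box hP (by decide) midC_up_num6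
    ⟨⟨(by push_cast; linarith only [hu, hu1, p4]), (by push_cast; linarith only [hu, hu1, p4])⟩, ⟨(by push_cast; linarith only [p0, p1, p2, hXu, hXl]), (by push_cast; linarith only [p0, p1, p2, hXu, hXl])⟩,
        ⟨(by push_cast; linarith only [p3, hI1, hI2, hIa, haH]), (by push_cast; linarith only [p3, hI1, hI2, hIa, haH])⟩, (by push_cast; linarith only [hIa, haH, p3, hI1, hI2]), (by push_cast; linarith only [hIa, haH, p3, hI1, hI2])⟩

theorem midC_up_num_s8 {a I X u : ℝ} (hP : MidPlace a I X) (hI : 27 / 250 ≤ I ∧ I ≤ 1 / 7) (hu : 0 < u) (hu1 : u < 1) (p0 : X < (79 / 10)) (p1 : X < (22 / 5)) (p2 : X < (53 / 20)) (p3 : (1 / 8) ≤ I) (p4 : (1 / 2) ≤ u) :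
    (eMidNum midUpC).eval (stabPt u X I a) < 0 := by
  obtain ⟨hI1, hI2⟩ := hI
  have hIa := hP.I_le_a
  have haH := hP.a_le
  rcases lt_or_ge X (89 / 50) with h0 | h0
  · rcases lt_or_ge I (67 / 500) with h1 | h1
    · have hXu := hP.X_lt (31 / 100) (67 / 500) (61 / 5) (by linarith only [hIa, haH, p3, hI1, hI2, h1]) (by linarith only [p3, hI1, hI2, h1, hIa, haH]) (by norm_num) (by norm_num) (by norm_num)
      have hXl := hP.le_X (31 / 100) (67 / 500) (23 / 25) (by linarith only [hIa, haH, p3, hI1, hI2, h1]) (by linarith only [p3, hI1, hI2, h1, hIa, haH]) (by norm_num)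
      exact mid_up_box hP (by decide) midC_up_num7
        ⟨⟨(by push_cast; linarith only [hu, hu1, p4]), (by push_cast; linarith only [hu, hu1, p4])⟩, ⟨(by push_cast; linarith only [p0, p1, p2, h0, hXu, hXl]), (by push_cast; linarith only [p0, p1, p2, h0, hXu, hXl])⟩,
        ⟨(by push_cast; linarith only [p3, hI1, hI2, h1, hIa, haH]), (by push_cast; linarith only [p3, hI1, hI2, h1, hIa, haH])⟩, (by push_cast; linarith only [hIa, haH, p3, hI1, hI2, h1]), (by push_cast; linarith only [hIa, haH, p3, hI1, hI2, h1])⟩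
    · have hXu := hP.X_lt (31 / 100) (143 / 1000) (149 / 10) (by linarith only [hIa, haH, p3, hI1, hI2, h1]) (by linarith only [p3, hI1, hI2, h1, hIa, haH]) (by norm_num) (by norm_num) (by norm_num)
      have hXl := hP.le_X (31 / 100) (143 / 1000) (91 / 100) (by linarith only [hIa, haH, p3, hI1, hI2, h1]) (by linarith only [p3, hI1, hI2, h1, hIa, haH]) (by norm_num)
      exact mid_up_box hP (by decide) midC_up_num8
        ⟨⟨(by push_cast; linarith only [hu, hu1, p4]), (by push_cast; linarith only [hu, hu1, p4])⟩, ⟨(by push_cast; linarith only [p0, p1, p2, h0, hXu, hXl]), (by push_cast; linarith only [p0, p1, p2, h0, hXu, hXl])⟩,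
        ⟨(by push_cast; linarith only [p3, hI1, hI2, h1, hIa, haH]), (by push_cast; linarith only [p3, hI1, hI2, h1, hIa, haH])⟩, (by push_cast; linarith only [hIa, haH, p3, hI1, hI2, h1]), (by push_cast; linarith only [hIa, haH, p3, hI1, hI2, h1])⟩
  · rcases lt_or_ge a (109 / 500) with h2 | h2
    · rcases lt_or_ge u (3 / 4) with h3 | h3
      · have hXu := hP.X_lt (109 / 500) (143 / 1000) (126 / 25) (by linarith only [h2, hIa, haH, p3, hI1, hI2]) (by linarith only [p3, hI1, hI2, hIa, haH]) (by norm_num) (by norm_num) (by norm_num)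
        have hXl := hP.le_X (109 / 500) (143 / 1000) (47 / 50) (by linarith only [h2, hIa, haH, p3, hI1, hI2]) (by linarith only [p3, hI1, hI2, hIa, haH]) (by norm_num)
        exact mid_up_box hP (by decide) midC_up_num9
          ⟨⟨(by push_cast; linarith only [hu, hu1, p4, h3]), (by push_cast; linarith only [hu, hu1, p4, h3])⟩, ⟨(by push_cast; linarith only [p0, p1, p2, h0, hXu, hXl]), (by push_cast; linarith only [p0, p1, p2, h0, hXu, hXl])⟩,
        ⟨(by push_cast; linarith only [p3, hI1, hI2, hIa, haH]), (by push_cast; linarith only [p3, hI1, hI2, hIa, haH])⟩, (by push_cast; linarith only [h2, hIa, haH, p3, hI1, hI2]), (by push_cast; linarith only [h2, hIa, haH, p3, hI1, hI2])⟩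
      · have hXu := hP.X_lt (109 / 500) (143 / 1000) (126 / 25) (by linarith only [h2, hIa, haH, p3, hI1, hI2]) (by linarith only [p3, hI1, hI2, hIa, haH]) (by norm_num) (by norm_num) (by norm_num)
        have hXl := hP.le_X (109 / 500) (143 / 1000) (47 / 50) (by linarith only [h2, hIa, haH, p3, hI1, hI2]) (by linarith only [p3, hI1, hI2, hIa, haH]) (by norm_num)
        exact mid_up_box hP (by decide) midC_up_num10
          ⟨⟨(by push_cast; linarith only [hu, hu1, p4, h3]), (by push_cast; linarith only [hu, hu1, p4, h3])⟩, ⟨(by push_cast; linarith only [p0, p1, p2, h0, hXu, hXl]), (by push_cast; linarith only [p0, p1, p2, h0, hXu, hXl])⟩,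
        ⟨(by push_cast; linarith only [p3, hI1, hI2, hIa, haH]), (by push_cast; linarith only [p3, hI1, hI2, hIa, haH])⟩, (by push_cast; linarith only [h2, hIa, haH, p3, hI1, hI2]), (by push_cast; linarith only [h2, hIa, haH, p3, hI1, hI2])⟩
    · have hXu := hP.X_lt (31 / 100) (143 / 1000) (149 / 10) (by linarith only [h2, hIa, haH, p3, hI1, hI2]) (by linarith only [p3, hI1, hI2, hIa, haH]) (by norm_num) (by norm_num) (by norm_num)
      have hXl := hP.le_X (31 / 100) (143 / 1000) (91 / 100) (by linarith only [h2, hIa, haH, p3, hI1, hI2]) (by linarith only [p3, hI1, hI2, hIa, haH]) (by norm_num)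
      exact mid_up_box hP (by decide) midC_up_num11
        ⟨⟨(by push_cast; linarith only [hu, hu1, p4]), (by push_cast; linarith only [hu, hu1, p4])⟩, ⟨(by push_cast; linarith only [p0, p1, p2, h0, hXu, hXl]), (by push_cast; linarith only [p0, p1, p2, h0, hXu, hXl])⟩,
        ⟨(by push_cast; linarith only [p3, hI1, hI2, hIa, haH]), (by push_cast; linarith only [p3, hI1, hI2, hIa, haH])⟩, (by push_cast; linarith only [h2, hIa, haH, p3, hI1, hI2]), (by push_cast; linarith only [h2, hIa, haH, p3, hI1, hI2])⟩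

theorem midC_up_num_s6 {a I X u : ℝ} (hP : MidPlace a I X) (hI : 27 / 250 ≤ I ∧ I ≤ 1 / 7) (hu : 0 < u) (hu1 : u < 1) (p0 : X < (79 / 10)) (p1 : X < (22 / 5)) (p2 : X < (53 / 20)) (p3 : (1 / 8) ≤ I) :
    (eMidNum midUpC).eval (stabPt u X I a) < 0 := by
  rcases lt_or_ge u (1 / 2) with h | h
  · exact midC_up_num_s7 hP hI hu hu1 p0 p1 p2 p3 h
  · exact midC_up_num_s8 hP hI hu hu1 p0 p1 p2 p3 h

theorem midC_up_num_s2 {a I X u : ℝ} (hP : MidPlace a I X) (hI : 27 / 250 ≤ I ∧ I ≤ 1 / 7) (hu : 0 < u) (hu1 : u < 1) (p0 : X < (79 / 10)) (p1 : X < (22 / 5)) (p2 : X < (53 / 20)) :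
    (eMidNum midUpC).eval (stabPt u X I a) < 0 := by
  rcases lt_or_ge I (1 / 8) with h | h
  · exact midC_up_num_s3 hP hI hu hu1 p0 p1 p2 h
  · exact midC_up_num_s6 hP hI hu hu1 p0 p1 p2 h

theorem midC_up_num_s10 {a I X u : ℝ} (hP : MidPlace a I X) (hI : 27 / 250 ≤ I ∧ I ≤ 1 / 7) (hu : 0 < u) (hu1 : u < 1) (p0 : X < (79 / 10)) (p1 : X < (22 / 5)) (p2 : (53 / 20) ≤ X) (p3 : u < (1 / 2)) :
    (eMidNum midUpC).eval (stabPt u X I a) < 0 := by
  obtain ⟨hI1, hI2⟩ := hI
  have hIa := hP.I_le_a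
  have haH := hP.a_le
  have hXu := hP.X_lt (31 / 100) (143 / 1000) (149 / 10) (by linarith only [hIa, haH, hI1, hI2]) (by linarith only [hI1, hI2, hIa, haH]) (by norm_num) (by norm_num) (by norm_num)
  have hXl := hP.le_X (31 / 100) (143 / 1000) (91 / 100) (by linarith only [hIa, haH, hI1, hI2]) (by linarith only [hI1, hI2, hIa, haH]) (by norm_num)
  exact mid_up_box hP (by decide) midC_up_num12
    ⟨⟨(by push_cast; linarith only [hu, hu1, p3]), (by push_cast; linarith only [hu, hu1, p3])⟩, ⟨(by push_cast; linarith only [p0, p1, p2, hXu, hXl]), (by push_cast; linarith only [p0, p1, p2, hXu, hXl])⟩,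
        ⟨(by push_cast; linarith only [hI1, hI2, hIa, haH]), (by push_cast; linarith only [hI1, hI2, hIa, haH])⟩, (by push_cast; linarith only [hIa, haH, hI1, hI2]), (by push_cast; linarith only [hIa, haH, hI1, hI2])⟩

theorem midC_up_num_s12 {a I X u : ℝ} (hP : MidPlace a I X) (hI : 27 / 250 ≤ I ∧ I ≤ 1 / 7) (hu : 0 < u) (hu1 : u < 1) (p0 : X < (79 / 10)) (p1 : X < (22 / 5)) (p2 : (53 / 20) ≤ X) (p3 : (1 / 2) ≤ u) (p4 : a < (209 / 1000)) :
    (eMidNum midUpC).eval (stabPt u X I a) < 0 := by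
  obtain ⟨hI1, hI2⟩ := hI
  have hIa := hP.I_le_a
  have haH := hP.a_le
  have hXu := hP.X_lt (209 / 1000) (143 / 1000) (237 / 50) (by linarith only [p4, hIa, haH, hI1, hI2]) (by linarith only [hI1, hI2, hIa, haH]) (by norm_num) (by norm_num) (by norm_num)
  have hXl := hP.le_X (209 / 1000) (143 / 1000) (47 / 50) (by linarith only [p4, hIa, haH, hI1, hI2]) (by linarith only [hI1, hI2, hIa, haH]) (by norm_num)
  exact mid_up_box hP (by decide) midC_up_num13
    ⟨⟨(by push_cast; linarith only [hu, hu1, p3]), (by push_cast; linarith only [hu, hu1, p3])⟩, ⟨(by push_cast; linarith only [p0, p1, p2, hXu, hXl]), (by push_cast; linarith only [p0, p1, p2, hXu, hXl])⟩,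
        ⟨(by push_cast; linarith only [hI1, hI2, hIa, haH]), (by push_cast; linarith only [hI1, hI2, hIa, haH])⟩, (by push_cast; linarith only [p4, hIa, haH, hI1, hI2]), (by push_cast; linarith only [p4, hIa, haH, hI1, hI2])⟩

theorem midC_up_num_s14 {a I X u : ℝ} (hP : MidPlace a I X) (hI : 27 / 250 ≤ I ∧ I ≤ 1 / 7) (hu : 0 < u) (hu1 : u < 1) (p0 : X < (79 / 10)) (p1 : X < (22 / 5)) (p2 : (53 / 20) ≤ X) (p3 : (1 / 2) ≤ u) (p4 : (209 / 1000) ≤ a) (p5 : u < (3 / 4)) :
    (eMidNum midUpC).eval (stabPt u X I a) < 0 := by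
  obtain ⟨hI1, hI2⟩ := hI
  have hIa := hP.I_le_a
  have haH := hP.a_le
  have hXu := hP.X_lt (31 / 100) (143 / 1000) (149 / 10) (by linarith only [p4, hIa, haH, hI1, hI2]) (by linarith only [hI1, hI2, hIa, haH]) (by norm_num) (by norm_num) (by norm_num)
  have hXl := hP.le_X (31 / 100) (143 / 1000) (91 / 100) (by linarith only [p4, hIa, haH, hI1, hI2]) (by linarith only [hI1, hI2, hIa, haH]) (by norm_num)
  exact mid_up_box hP (by decide) midC_up_num14
    ⟨⟨(by push_cast; linarith only [hu, hu1, p3, p5]), (by push_cast; linarith only [hu, hu1, p3, p5])⟩, ⟨(by push_cast; linarith only [p0, p1, p2, hXu, hXl]), (by push_cast; linarith only [p0, p1, p2, hXu, hXl])⟩,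
        ⟨(by push_cast; linarith only [hI1, hI2, hIa, haH]), (by push_cast; linarith only [hI1, hI2, hIa, haH])⟩, (by push_cast; linarith only [p4, hIa, haH, hI1, hI2]), (by push_cast; linarith only [p4, hIa, haH, hI1, hI2])⟩

theorem midC_up_num_s15 {a I X u : ℝ} (hP : MidPlace a I X) (hI : 27 / 250 ≤ I ∧ I ≤ 1 / 7) (hu : 0 < u) (hu1 : u < 1) (p0 : X < (79 / 10)) (p1 : X < (22 / 5)) (p2 : (53 / 20) ≤ X) (p3 : (1 / 2) ≤ u) (p4 : (209 / 1000) ≤ a) (p5 : (3 / 4) ≤ u) :
    (eMidNum midUpC).eval (stabPt u X I a) < 0 := by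
  obtain ⟨hI1, hI2⟩ := hI
  have hIa := hP.I_le_a
  have haH := hP.a_le
  rcases lt_or_ge a (13 / 50) with h0 | h0
  · rcases lt_or_ge X (88 / 25) with h1 | h1
    · have hXu := hP.X_lt (13 / 50) (143 / 1000) (361 / 50) (by linarith only [p4, h0, hIa, haH, hI1, hI2]) (by linarith only [hI1, hI2, hIa, haH]) (by norm_num) (by norm_num) (by norm_num)
      have hXl := hP.le_X (13 / 50) (143 / 1000) (93 / 100) (by linarith only [p4, h0, hIa, haH, hI1, hI2]) (by linarith only [hI1, hI2, hIa, haH]) (by norm_num)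
      exact mid_up_box hP (by decide) midC_up_num15
        ⟨⟨(by push_cast; linarith only [hu, hu1, p3, p5]), (by push_cast; linarith only [hu, hu1, p3, p5])⟩, ⟨(by push_cast; linarith only [p0, p1, p2, h1, hXu, hXl]), (by push_cast; linarith only [p0, p1, p2, h1, hXu, hXl])⟩,
        ⟨(by push_cast; linarith only [hI1, hI2, hIa, haH]), (by push_cast; linarith only [hI1, hI2, hIa, haH])⟩, (by push_cast; linarith only [p4, h0, hIa, haH, hI1, hI2]), (by push_cast; linarith only [p4, h0, hIa, haH, hI1, hI2])⟩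
    · have hXu := hP.X_lt (13 / 50) (143 / 1000) (361 / 50) (by linarith only [p4, h0, hIa, haH, hI1, hI2]) (by linarith only [hI1, hI2, hIa, haH]) (by norm_num) (by norm_num) (by norm_num)
      have hXl := hP.le_X (13 / 50) (143 / 1000) (93 / 100) (by linarith only [p4, h0, hIa, haH, hI1, hI2]) (by linarith only [hI1, hI2, hIa, haH]) (by norm_num)
      exact mid_up_box hP (by decide) midC_up_num16
        ⟨⟨(by push_cast; linarith only [hu, hu1, p3, p5]), (by push_cast; linarith only [hu, hu1, p3, p5])⟩, ⟨(by push_cast; linarith only [p0, p1, p2, h1, hXu, hXl]), (by push_cast; linarith only [p0, p1, p2, h1, hXu, hXl])⟩,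
        ⟨(by push_cast; linarith only [hI1, hI2, hIa, haH]), (by push_cast; linarith only [hI1, hI2, hIa, haH])⟩, (by push_cast; linarith only [p4, h0, hIa, haH, hI1, hI2]), (by push_cast; linarith only [p4, h0, hIa, haH, hI1, hI2])⟩
  · rcases lt_or_ge u (7 / 8) with h2 | h2
    · have hXu := hP.X_lt (31 / 100) (143 / 1000) (149 / 10) (by linarith only [p4, h0, hIa, haH, hI1, hI2]) (by linarith only [hI1, hI2, hIa, haH]) (by norm_num) (by norm_num) (by norm_num)
      have hXl := hP.le_X (31 / 100) (143 / 1000) (91 / 100) (by linarith only [p4, h0, hIa, haH, hI1, hI2]) (by linarith only [hI1, hI2, hIa, haH]) (by norm_num)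
      exact mid_up_box hP (by decide) midC_up_num17
        ⟨⟨(by push_cast; linarith only [hu, hu1, p3, p5, h2]), (by push_cast; linarith only [hu, hu1, p3, p5, h2])⟩, ⟨(by push_cast; linarith only [p0, p1, p2, hXu, hXl]), (by push_cast; linarith only [p0, p1, p2, hXu, hXl])⟩,
        ⟨(by push_cast; linarith only [hI1, hI2, hIa, haH]), (by push_cast; linarith only [hI1, hI2, hIa, haH])⟩, (by push_cast; linarith only [p4, h0, hIa, haH, hI1, hI2]), (by push_cast; linarith only [p4, h0, hIa, haH, hI1, hI2])⟩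
    · rcases lt_or_ge X (88 / 25) with h3 | h3
      · have hXu := hP.X_lt (31 / 100) (143 / 1000) (149 / 10) (by linarith only [p4, h0, hIa, haH, hI1, hI2]) (by linarith only [hI1, hI2, hIa, haH]) (by norm_num) (by norm_num) (by norm_num)
        have hXl := hP.le_X (31 / 100) (143 / 1000) (91 / 100) (by linarith only [p4, h0, hIa, haH, hI1, hI2]) (by linarith only [hI1, hI2, hIa, haH]) (by norm_num)
        exact mid_up_box hP (by decide) midC_up_num18
          ⟨⟨(by push_cast; linarith only [hu, hu1, p3, p5, h2]), (by push_cast; linarith only [hu, hu1, p3, p5, h2])⟩, ⟨(by push_cast; linarith only [p0, p1, p2, h3, hXu, hXl]), (by push_cast; linarith only [p0, p1, p2, h3, hXu, hXl])⟩,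
        ⟨(by push_cast; linarith only [hI1, hI2, hIa, haH]), (by push_cast; linarith only [hI1, hI2, hIa, haH])⟩, (by push_cast; linarith only [p4, h0, hIa, haH, hI1, hI2]), (by push_cast; linarith only [p4, h0, hIa, haH, hI1, hI2])⟩
      · have hXu := hP.X_lt (31 / 100) (143 / 1000) (149 / 10) (by linarith only [p4, h0, hIa, haH, hI1, hI2]) (by linarith only [hI1, hI2, hIa, haH]) (by norm_num) (by norm_num) (by norm_num)
        have hXl := hP.le_X (31 / 100) (143 / 1000) (91 / 100) (by linarith only [p4, h0, hIa, haH, hI1, hI2]) (by linarith only [hI1, hI2, hIa, haH]) (by norm_num)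
        exact mid_up_box hP (by decide) midC_up_num19
          ⟨⟨(by push_cast; linarith only [hu, hu1, p3, p5, h2]), (by push_cast; linarith only [hu, hu1, p3, p5, h2])⟩, ⟨(by push_cast; linarith only [p0, p1, p2, h3, hXu, hXl]), (by push_cast; linarith only [p0, p1, p2, h3, hXu, hXl])⟩,
        ⟨(by push_cast; linarith only [hI1, hI2, hIa, haH]), (by push_cast; linarith only [hI1, hI2, hIa, haH])⟩, (by push_cast; linarith only [p4, h0, hIa, haH, hI1, hI2]), (by push_cast; linarith only [p4, h0, hIa, haH, hI1, hI2])⟩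

theorem midC_up_num_s13 {a I X u : ℝ} (hP : MidPlace a I X) (hI : 27 / 250 ≤ I ∧ I ≤ 1 / 7) (hu : 0 < u) (hu1 : u < 1) (p0 : X < (79 / 10)) (p1 : X < (22 / 5)) (p2 : (53 / 20) ≤ X) (p3 : (1 / 2) ≤ u) (p4 : (209 / 1000) ≤ a) :
    (eMidNum midUpC).eval (stabPt u X I a) < 0 := by
  rcases lt_or_ge u (3 / 4) with h | h
  · exact midC_up_num_s14 hP hI hu hu1 p0 p1 p2 p3 p4 h
  · exact midC_up_num_s15 hP hI hu hu1 p0 p1 p2 p3 p4 h

theorem midC_up_num_s11 {a I X u : ℝ} (hP : MidPlace a I X) (hI : 27 / 250 ≤ I ∧ I ≤ 1 / 7) (hu : 0 < u) (hu1 : u < 1) (p0 : X < (79 / 10)) (p1 : X < (22 / 5)) (p2 : (53 / 20) ≤ X) (p3 : (1 / 2) ≤ u) :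
    (eMidNum midUpC).eval (stabPt u X I a) < 0 := by
  rcases lt_or_ge a (209 / 1000) with h | h
  · exact midC_up_num_s12 hP hI hu hu1 p0 p1 p2 p3 h
  · exact midC_up_num_s13 hP hI hu hu1 p0 p1 p2 p3 h

theorem midC_up_num_s9 {a I X u : ℝ} (hP : MidPlace a I X) (hI : 27 / 250 ≤ I ∧ I ≤ 1 / 7) (hu : 0 < u) (hu1 : u < 1) (p0 : X < (79 / 10)) (p1 : X < (22 / 5)) (p2 : (53 / 20) ≤ X) :
    (eMidNum midUpC).eval (stabPt u X I a) < 0 := by
  rcases lt_or_ge u (1 / 2) with h | h
  · exact midC_up_num_s10 hP hI hu hu1 p0 p1 p2 h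
  · exact midC_up_num_s11 hP hI hu hu1 p0 p1 p2 h

theorem midC_up_num_s1 {a I X u : ℝ} (hP : MidPlace a I X) (hI : 27 / 250 ≤ I ∧ I ≤ 1 / 7) (hu : 0 < u) (hu1 : u < 1) (p0 : X < (79 / 10)) (p1 : X < (22 / 5)) :
    (eMidNum midUpC).eval (stabPt u X I a) < 0 := by
  rcases lt_or_ge X (53 / 20) with h | h
  · exact midC_up_num_s2 hP hI hu hu1 p0 p1 h
  · exact midC_up_num_s9 hP hI hu hu1 p0 p1 h

theorem midC_up_num_s17 {a I X u : ℝ} (hP : MidPlace a I X) (hI : 27 / 250 ≤ I ∧ I ≤ 1 / 7) (hu : 0 < u) (hu1 : u < 1) (p0 : X < (79 / 10)) (p1 : (22 / 5) ≤ X) (p2 : u < (1 / 2)) :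
    (eMidNum midUpC).eval (stabPt u X I a) < 0 := by
  obtain ⟨hI1, hI2⟩ := hI
  have hIa := hP.I_le_a
  have haH := hP.a_le
  have hXu := hP.X_lt (31 / 100) (143 / 1000) (149 / 10) (by linarith only [hIa, haH, hI1, hI2]) (by linarith only [hI1, hI2, hIa, haH]) (by norm_num) (by norm_num) (by norm_num)
  have hXl := hP.le_X (31 / 100) (143 / 1000) (91 / 100) (by linarith only [hIa, haH, hI1, hI2]) (by linarith only [hI1, hI2, hIa, haH]) (by norm_num)
  exact mid_up_box hP (by decide) midC_up_num20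
    ⟨⟨(by push_cast; linarith only [hu, hu1, p2]), (by push_cast; linarith only [hu, hu1, p2])⟩, ⟨(by push_cast; linarith only [p0, p1, hXu, hXl]), (by push_cast; linarith only [p0, p1, hXu, hXl])⟩,
        ⟨(by push_cast; linarith only [hI1, hI2, hIa, haH]), (by push_cast; linarith only [hI1, hI2, hIa, haH])⟩, (by push_cast; linarith only [hIa, haH, hI1, hI2]), (by push_cast; linarith only [hIa, haH, hI1, hI2])⟩

theorem midC_up_num_s19 {a I X u : ℝ} (hP : MidPlace a I X) (hI : 27 / 250 ≤ I ∧ I ≤ 1 / 7) (hu : 0 < u) (hu1 : u < 1) (p0 : X < (79 / 10)) (p1 : (22 / 5) ≤ X) (p2 : (1 / 2) ≤ u) (p3 : a < (209 / 1000)) :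
    (eMidNum midUpC).eval (stabPt u X I a) < 0 := by
  obtain ⟨hI1, hI2⟩ := hI
  have hIa := hP.I_le_a
  have haH := hP.a_le
  have hXu := hP.X_lt (209 / 1000) (143 / 1000) (237 / 50) (by linarith only [p3, hIa, haH, hI1, hI2]) (by linarith only [hI1, hI2, hIa, haH]) (by norm_num) (by norm_num) (by norm_num)
  have hXl := hP.le_X (209 / 1000) (143 / 1000) (47 / 50) (by linarith only [p3, hIa, haH, hI1, hI2]) (by linarith only [hI1, hI2, hIa, haH]) (by norm_num)
  exact mid_up_box hP (by decide) midC_up_num21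
    ⟨⟨(by push_cast; linarith only [hu, hu1, p2]), (by push_cast; linarith only [hu, hu1, p2])⟩, ⟨(by push_cast; linarith only [p0, p1, hXu, hXl]), (by push_cast; linarith only [p0, p1, hXu, hXl])⟩,
        ⟨(by push_cast; linarith only [hI1, hI2, hIa, haH]), (by push_cast; linarith only [hI1, hI2, hIa, haH])⟩, (by push_cast; linarith only [p3, hIa, haH, hI1, hI2]), (by push_cast; linarith only [p3, hIa, haH, hI1, hI2])⟩

theorem midC_up_num_s21 {a I X u : ℝ} (hP : MidPlace a I X) (hI : 27 / 250 ≤ I ∧ I ≤ 1 / 7) (hu : 0 < u) (hu1 : u < 1) (p0 : X < (79 / 10)) (p1 : (22 / 5) ≤ X) (p2 : (1 / 2) ≤ u) (p3 : (209 / 1000) ≤ a) (p4 : u < (3 / 4)) :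
    (eMidNum midUpC).eval (stabPt u X I a) < 0 := by
  obtain ⟨hI1, hI2⟩ := hI
  have hIa := hP.I_le_a
  have haH := hP.a_le
  have hXu := hP.X_lt (31 / 100) (143 / 1000) (149 / 10) (by linarith only [p3, hIa, haH, hI1, hI2]) (by linarith only [hI1, hI2, hIa, haH]) (by norm_num) (by norm_num) (by norm_num)
  have hXl := hP.le_X (31 / 100) (143 / 1000) (91 / 100) (by linarith only [p3, hIa, haH, hI1, hI2]) (by linarith only [hI1, hI2, hIa, haH]) (by norm_num)
  exact mid_up_box hP (by decide) midC_up_num22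
    ⟨⟨(by push_cast; linarith only [hu, hu1, p2, p4]), (by push_cast; linarith only [hu, hu1, p2, p4])⟩, ⟨(by push_cast; linarith only [p0, p1, hXu, hXl]), (by push_cast; linarith only [p0, p1, hXu, hXl])⟩,
        ⟨(by push_cast; linarith only [hI1, hI2, hIa, haH]), (by push_cast; linarith only [hI1, hI2, hIa, haH])⟩, (by push_cast; linarith only [p3, hIa, haH, hI1, hI2]), (by push_cast; linarith only [p3, hIa, haH, hI1, hI2])⟩

theorem midC_up_num_s22 {a I X u : ℝ} (hP : MidPlace a I X) (hI : 27 / 250 ≤ I ∧ I ≤ 1 / 7) (hu : 0 < u) (hu1 : u < 1) (p0 : X < (79 / 10)) (p1 : (22 / 5) ≤ X) (p2 : (1 / 2) ≤ u) (p3 : (209 / 1000) ≤ a) (p4 : (3 / 4) ≤ u) :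
    (eMidNum midUpC).eval (stabPt u X I a) < 0 := by
  obtain ⟨hI1, hI2⟩ := hI
  have hIa := hP.I_le_a
  have haH := hP.a_le
  rcases lt_or_ge a (13 / 50) with h0 | h0
  · have hXu := hP.X_lt (13 / 50) (143 / 1000) (361 / 50) (by linarith only [p3, h0, hIa, haH, hI1, hI2]) (by linarith only [hI1, hI2, hIa, haH]) (by norm_num) (by norm_num) (by norm_num)
    have hXl := hP.le_X (13 / 50) (143 / 1000) (93 / 100) (by linarith only [p3, h0, hIa, haH, hI1, hI2]) (by linarith only [hI1, hI2, hIa, haH]) (by norm_num)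
    exact mid_up_box hP (by decide) midC_up_num23
      ⟨⟨(by push_cast; linarith only [hu, hu1, p2, p4]), (by push_cast; linarith only [hu, hu1, p2, p4])⟩, ⟨(by push_cast; linarith only [p0, p1, hXu, hXl]), (by push_cast; linarith only [p0, p1, hXu, hXl])⟩,
        ⟨(by push_cast; linarith only [hI1, hI2, hIa, haH]), (by push_cast; linarith only [hI1, hI2, hIa, haH])⟩, (by push_cast; linarith only [p3, h0, hIa, haH, hI1, hI2]), (by push_cast; linarith only [p3, h0, hIa, haH, hI1, hI2])⟩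
  · rcases lt_or_ge u (7 / 8) with h1 | h1
    · have hXu := hP.X_lt (31 / 100) (143 / 1000) (149 / 10) (by linarith only [p3, h0, hIa, haH, hI1, hI2]) (by linarith only [hI1, hI2, hIa, haH]) (by norm_num) (by norm_num) (by norm_num)
      have hXl := hP.le_X (31 / 100) (143 / 1000) (91 / 100) (by linarith only [p3, h0, hIa, haH, hI1, hI2]) (by linarith only [hI1, hI2, hIa, haH]) (by norm_num)
      exact mid_up_box hP (by decide) midC_up_num24
        ⟨⟨(by push_cast; linarith only [hu, hu1, p2, p4, h1]), (by push_cast; linarith only [hu, hu1, p2, p4, h1])⟩, ⟨(by push_cast; linarith only [p0, p1, hXu, hXl]), (by push_cast; linarith only [p0, p1, hXu, hXl])⟩,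
        ⟨(by push_cast; linarith only [hI1, hI2, hIa, haH]), (by push_cast; linarith only [hI1, hI2, hIa, haH])⟩, (by push_cast; linarith only [p3, h0, hIa, haH, hI1, hI2]), (by push_cast; linarith only [p3, h0, hIa, haH, hI1, hI2])⟩
    · rcases lt_or_ge X (123 / 20) with h2 | h2
      · rcases lt_or_ge u (937 / 1000) with h3 | h3
        · have hXu := hP.X_lt (31 / 100) (143 / 1000) (149 / 10) (by linarith only [p3, h0, hIa, haH, hI1, hI2]) (by linarith only [hI1, hI2, hIa, haH]) (by norm_num) (by norm_num) (by norm_num)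
          have hXl := hP.le_X (31 / 100) (143 / 1000) (91 / 100) (by linarith only [p3, h0, hIa, haH, hI1, hI2]) (by linarith only [hI1, hI2, hIa, haH]) (by norm_num)
          exact mid_up_box hP (by decide) midC_up_num25
            ⟨⟨(by push_cast; linarith only [hu, hu1, p2, p4, h1, h3]), (by push_cast; linarith only [hu, hu1, p2, p4, h1, h3])⟩, ⟨(by push_cast; linarith only [p0, p1, h2, hXu, hXl]), (by push_cast; linarith only [p0, p1, h2, hXu, hXl])⟩,
        ⟨(by push_cast; linarith only [hI1, hI2, hIa, haH]), (by push_cast; linarith only [hI1, hI2, hIa, haH])⟩, (by push_cast; linarith only [p3, h0, hIa, haH, hI1, hI2]), (by push_cast; linarith only [p3, h0, hIa, haH, hI1, hI2])⟩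
        · have hXu := hP.X_lt (31 / 100) (143 / 1000) (149 / 10) (by linarith only [p3, h0, hIa, haH, hI1, hI2]) (by linarith only [hI1, hI2, hIa, haH]) (by norm_num) (by norm_num) (by norm_num)
          have hXl := hP.le_X (31 / 100) (143 / 1000) (91 / 100) (by linarith only [p3, h0, hIa, haH, hI1, hI2]) (by linarith only [hI1, hI2, hIa, haH]) (by norm_num)
          exact mid_up_box hP (by decide) midC_up_num26
            ⟨⟨(by push_cast; linarith only [hu, hu1, p2, p4, h1, h3]), (by push_cast; linarith only [hu, hu1, p2, p4, h1, h3])⟩, ⟨(by push_cast; linarith only [p0, p1, h2, hXu, hXl]), (by push_cast; linarith only [p0, p1, h2, hXu, hXl])⟩,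
        ⟨(by push_cast; linarith only [hI1, hI2, hIa, haH]), (by push_cast; linarith only [hI1, hI2, hIa, haH])⟩, (by push_cast; linarith only [p3, h0, hIa, haH, hI1, hI2]), (by push_cast; linarith only [p3, h0, hIa, haH, hI1, hI2])⟩
      · have hXu := hP.X_lt (31 / 100) (143 / 1000) (149 / 10) (by linarith only [p3, h0, hIa, haH, hI1, hI2]) (by linarith only [hI1, hI2, hIa, haH]) (by norm_num) (by norm_num) (by norm_num)
        have hXl := hP.le_X (31 / 100) (143 / 1000) (91 / 100) (by linarith only [p3, h0, hIa, haH, hI1, hI2]) (by linarith only [hI1, hI2, hIa, haH]) (by norm_num)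
        exact mid_up_box hP (by decide) midC_up_num27
          ⟨⟨(by push_cast; linarith only [hu, hu1, p2, p4, h1]), (by push_cast; linarith only [hu, hu1, p2, p4, h1])⟩, ⟨(by push_cast; linarith only [p0, p1, h2, hXu, hXl]), (by push_cast; linarith only [p0, p1, h2, hXu, hXl])⟩,
        ⟨(by push_cast; linarith only [hI1, hI2, hIa, haH]), (by push_cast; linarith only [hI1, hI2, hIa, haH])⟩, (by push_cast; linarith only [p3, h0, hIa, haH, hI1, hI2]), (by push_cast; linarith only [p3, h0, hIa, haH, hI1, hI2])⟩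

theorem midC_up_num_s20 {a I X u : ℝ} (hP : MidPlace a I X) (hI : 27 / 250 ≤ I ∧ I ≤ 1 / 7) (hu : 0 < u) (hu1 : u < 1) (p0 : X < (79 / 10)) (p1 : (22 / 5) ≤ X) (p2 : (1 / 2) ≤ u) (p3 : (209 / 1000) ≤ a) :
    (eMidNum midUpC).eval (stabPt u X I a) < 0 := by
  rcases lt_or_ge u (3 / 4) with h | h
  · exact midC_up_num_s21 hP hI hu hu1 p0 p1 p2 p3 h
  · exact midC_up_num_s22 hP hI hu hu1 p0 p1 p2 p3 h

theorem midC_up_num_s18 {a I X u : ℝ} (hP : MidPlace a I X) (hI : 27 / 250 ≤ I ∧ I ≤ 1 / 7) (hu : 0 < u) (hu1 : u < 1) (p0 : X < (79 / 10)) (p1 : (22 / 5) ≤ X) (p2 : (1 / 2) ≤ u) :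
    (eMidNum midUpC).eval (stabPt u X I a) < 0 := by
  rcases lt_or_ge a (209 / 1000) with h | h
  · exact midC_up_num_s19 hP hI hu hu1 p0 p1 p2 h
  · exact midC_up_num_s20 hP hI hu hu1 p0 p1 p2 h

theorem midC_up_num_s16 {a I X u : ℝ} (hP : MidPlace a I X) (hI : 27 / 250 ≤ I ∧ I ≤ 1 / 7) (hu : 0 < u) (hu1 : u < 1) (p0 : X < (79 / 10)) (p1 : (22 / 5) ≤ X) :
    (eMidNum midUpC).eval (stabPt u X I a) < 0 := by
  rcases lt_or_ge u (1 / 2) with h | h
  · exact midC_up_num_s17 hP hI hu hu1 p0 p1 h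
  · exact midC_up_num_s18 hP hI hu hu1 p0 p1 h

theorem midC_up_num_s0 {a I X u : ℝ} (hP : MidPlace a I X) (hI : 27 / 250 ≤ I ∧ I ≤ 1 / 7) (hu : 0 < u) (hu1 : u < 1) (p0 : X < (79 / 10)) :
    (eMidNum midUpC).eval (stabPt u X I a) < 0 := by
  rcases lt_or_ge X (22 / 5) with h | h
  · exact midC_up_num_s1 hP hI hu hu1 p0 h
  · exact midC_up_num_s16 hP hI hu hu1 p0 h

theorem midC_up_num_s23 {a I X u : ℝ} (hP : MidPlace a I X) (hI : 27 / 250 ≤ I ∧ I ≤ 1 / 7) (hu : 0 < u) (hu1 : u < 1) (p0 : (79 / 10) ≤ X) :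
    (eMidNum midUpC).eval (stabPt u X I a) < 0 := by
  obtain ⟨hI1, hI2⟩ := hI
  have hIa := hP.I_le_a
  have haH := hP.a_le
  rcases lt_or_ge u (1 / 2) with h0 | h0
  · rcases lt_or_ge X (57 / 5) with h1 | h1
    · have hXu := hP.X_lt (31 / 100) (143 / 1000) (149 / 10) (by linarith only [hIa, haH, hI1, hI2]) (by linarith only [hI1, hI2, hIa, haH]) (by norm_num) (by norm_num) (by norm_num)
      have hXl := hP.le_X (31 / 100) (143 / 1000) (91 / 100) (by linarith only [hIa, haH, hI1, hI2]) (by linarith only [hI1, hI2, hIa, haH]) (by norm_num)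
      exact mid_up_box hP (by decide) midC_up_num28
        ⟨⟨(by push_cast; linarith only [hu, hu1, h0]), (by push_cast; linarith only [hu, hu1, h0])⟩, ⟨(by push_cast; linarith only [p0, h1, hXu, hXl]), (by push_cast; linarith only [p0, h1, hXu, hXl])⟩,
        ⟨(by push_cast; linarith only [hI1, hI2, hIa, haH]), (by push_cast; linarith only [hI1, hI2, hIa, haH])⟩, (by push_cast; linarith only [hIa, haH, hI1, hI2]), (by push_cast; linarith only [hIa, haH, hI1, hI2])⟩
    · have hXu := hP.X_lt (31 / 100) (143 / 1000) (149 / 10) (by linarith only [hIa, haH, hI1, hI2]) (by linarith only [hI1, hI2, hIa, haH]) (by norm_num) (by norm_num) (by norm_num)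
      have hXl := hP.le_X (31 / 100) (143 / 1000) (91 / 100) (by linarith only [hIa, haH, hI1, hI2]) (by linarith only [hI1, hI2, hIa, haH]) (by norm_num)
      exact mid_up_box hP (by decide) midC_up_num29
        ⟨⟨(by push_cast; linarith only [hu, hu1, h0]), (by push_cast; linarith only [hu, hu1, h0])⟩, ⟨(by push_cast; linarith only [p0, h1, hXu, hXl]), (by push_cast; linarith only [p0, h1, hXu, hXl])⟩,
        ⟨(by push_cast; linarith only [hI1, hI2, hIa, haH]), (by push_cast; linarith only [hI1, hI2, hIa, haH])⟩, (by push_cast; linarith only [hIa, haH, hI1, hI2]), (by push_cast; linarith only [hIa, haH, hI1, hI2])⟩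
  · rcases lt_or_ge u (3 / 4) with h2 | h2
    · have hXu := hP.X_lt (31 / 100) (143 / 1000) (149 / 10) (by linarith only [hIa, haH, hI1, hI2]) (by linarith only [hI1, hI2, hIa, haH]) (by norm_num) (by norm_num) (by norm_num)
      have hXl := hP.le_X (31 / 100) (143 / 1000) (91 / 100) (by linarith only [hIa, haH, hI1, hI2]) (by linarith only [hI1, hI2, hIa, haH]) (by norm_num)
      exact mid_up_box hP (by decide) midC_up_num30
        ⟨⟨(by push_cast; linarith only [hu, hu1, h0, h2]), (by push_cast; linarith only [hu, hu1, h0, h2])⟩, ⟨(by push_cast; linarith only [p0, hXu, hXl]), (by push_cast; linarith only [p0, hXu, hXl])⟩,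
        ⟨(by push_cast; linarith only [hI1, hI2, hIa, haH]), (by push_cast; linarith only [hI1, hI2, hIa, haH])⟩, (by push_cast; linarith only [hIa, haH, hI1, hI2]), (by push_cast; linarith only [hIa, haH, hI1, hI2])⟩
    · rcases lt_or_ge u (7 / 8) with h3 | h3
      · have hXu := hP.X_lt (31 / 100) (143 / 1000) (149 / 10) (by linarith only [hIa, haH, hI1, hI2]) (by linarith only [hI1, hI2, hIa, haH]) (by norm_num) (by norm_num) (by norm_num)
        have hXl := hP.le_X (31 / 100) (143 / 1000) (91 / 100) (by linarith only [hIa, haH, hI1, hI2]) (by linarith only [hI1, hI2, hIa, haH]) (by norm_num)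
        exact mid_up_box hP (by decide) midC_up_num31
          ⟨⟨(by push_cast; linarith only [hu, hu1, h0, h2, h3]), (by push_cast; linarith only [hu, hu1, h0, h2, h3])⟩, ⟨(by push_cast; linarith only [p0, hXu, hXl]), (by push_cast; linarith only [p0, hXu, hXl])⟩,
        ⟨(by push_cast; linarith only [hI1, hI2, hIa, haH]), (by push_cast; linarith only [hI1, hI2, hIa, haH])⟩, (by push_cast; linarith only [hIa, haH, hI1, hI2]), (by push_cast; linarith only [hIa, haH, hI1, hI2])⟩
      · have hXu := hP.X_lt (31 / 100) (143 / 1000) (149 / 10) (by linarith only [hIa, haH, hI1, hI2]) (by linarith only [hI1, hI2, hIa, haH]) (by norm_num) (by norm_num) (by norm_num)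
        have hXl := hP.le_X (31 / 100) (143 / 1000) (91 / 100) (by linarith only [hIa, haH, hI1, hI2]) (by linarith only [hI1, hI2, hIa, haH]) (by norm_num)
        exact mid_up_box hP (by decide) midC_up_num32
          ⟨⟨(by push_cast; linarith only [hu, hu1, h0, h2, h3]), (by push_cast; linarith only [hu, hu1, h0, h2, h3])⟩, ⟨(by push_cast; linarith only [p0, hXu, hXl]), (by push_cast; linarith only [p0, hXu, hXl])⟩,
        ⟨(by push_cast; linarith only [hI1, hI2, hIa, haH]), (by push_cast; linarith only [hI1, hI2, hIa, haH])⟩, (by push_cast; linarith only [hIa, haH, hI1, hI2]), (by push_cast; linarith only [hIa, haH, hI1, hI2])⟩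

theorem midC_up_num {a I X u : ℝ} (hP : MidPlace a I X) (hI : 27 / 250 ≤ I ∧ I ≤ 1 / 7) (hu : 0 < u) (hu1 : u < 1) :
    (eMidNum midUpC).eval (stabPt u X I a) < 0 := by
  rcases lt_or_ge X (79 / 10) with h | h
  · exact midC_up_num_s0 hP hI hu hu1  h
  · exact midC_up_num_s23 hP hI hu hu1  h

theorem midC_up_den {a I X u : ℝ} (hP : MidPlace a I X) (hI : 27 / 250 ≤ I ∧ I ≤ 1 / 7) (hu : 0 < u) (hu1 : u < 1) :
    0 < (eMidDen midUpC).eval (stabPt u X I a) := by
  obtain ⟨hI1, hI2⟩ := hI
  have hIa := hP.I_le_a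
  have haH := hP.a_le
  have hXu := hP.X_lt (31 / 100) (143 / 1000) (149 / 10) (by linarith only [hIa, haH, hI1, hI2]) (by linarith only [hI1, hI2, hIa, haH]) (by norm_num) (by norm_num) (by norm_num)
  have hXl := hP.le_X (31 / 100) (143 / 1000) (91 / 100) (by linarith only [hIa, haH, hI1, hI2]) (by linarith only [hI1, hI2, hIa, haH]) (by norm_num)
  exact mid_den_box midC_up_den0
    ⟨⟨(by push_cast; linarith only [hu, hu1]), (by push_cast; linarith only [hu, hu1])⟩, ⟨(by push_cast; linarith only [hXu, hXl]), (by push_cast; linarith only [hXu, hXl])⟩,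
        ⟨(by push_cast; linarith only [hI1, hI2, hIa, haH]), (by push_cast; linarith only [hI1, hI2, hIa, haH])⟩, (by push_cast; linarith only [hIa, haH, hI1, hI2]), (by push_cast; linarith only [hIa, haH, hI1, hI2])⟩

theorem midC_up_start {a I X : ℝ} (hP : MidPlace a I X) (hI : 27 / 250 ≤ I ∧ I ≤ 1 / 7) :
    (eMidStart midUpC).eval (stabPt 0 X I a) ≤ 0 := by
  obtain ⟨hI1, hI2⟩ := hI
  have hIa := hP.I_le_a
  have haH := hP.a_le
  have hXu := hP.X_lt (31 / 100) (143 / 1000) (149 / 10) (by linarith only [hIa, haH, hI1, hI2]) (by linarith only [hI1, hI2, hIa, haH]) (by norm_num) (by norm_num) (by norm_num)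
  have hXl := hP.le_X (31 / 100) (143 / 1000) (91 / 100) (by linarith only [hIa, haH, hI1, hI2]) (by linarith only [hI1, hI2, hIa, haH]) (by norm_num)
  exact mid_start_up_box hP (by decide) midC_up_start0
    ⟨⟨by norm_num, by norm_num⟩, ⟨(by push_cast; linarith only [hXu, hXl]), (by push_cast; linarith only [hXu, hXl])⟩,
        ⟨(by push_cast; linarith only [hI1, hI2, hIa, haH]), (by push_cast; linarith only [hI1, hI2, hIa, haH])⟩, (by push_cast; linarith only [hIa, haH, hI1, hI2]), (by push_cast; linarith only [hIa, haH, hI1, hI2])⟩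

end AllLow

end Vale.Agent.P100.Calib.Band
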