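import Vale.Agent.P100.Calib.SlabMidBandsA
import Vale.Agent.P100.Calib.SlabMidBandsB
import Vale.Agent.P100.Calib.SlabMidBandsC
import Vale.Agent.P100.Calib.SlabMidBandsCUp

/-!
# The orbit between the bands in the dimensions from seven to twenty
-/

open Set Filter Topology

namespace Vale.Agent.P100.Calib.Band

open Vale.Agent.P100.Bubble Chart

variable {N p q : ℝ} {S : Set ℝ} {R x y s dx dy : ℝ → ℝ}

/-- **The orbit between the bands** of piece `A`. -/
theorem orbit_midA (hf : IsOrbitFns N p q S R x y s dx dy)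
    (hb : SlabBoxAll N (1 / (p + 1)) (1 / (q + 1))) (h12 : 12 ≤ N) (h20 : N ≤ 20)
    (ha : 1 / (p + 1) ≤ 31 / 100) {w : ℝ} (hw : w ∈ S) (hw0 : 0 < R w) :
    let al := 1 / (p + 1)
    let be := 1 / (q + 1)
    let u := uOf N (R w) (x w)
    let v := vOf al be (y w / x w)
    let H := hOf N (R w) (x w) (y w) w / (be - al)
    midBandG midLowA al be u v < H ∧ H < midBandG midUpA al be u v := by
  have hJ : (fun I : ℝ => 1 / 20 ≤ I ∧ I ≤ 1 / 12) (1 / N) := ⟨one_div_le_one_div_of_le (by linarith) h20, one_div_le_one_div_of_le (by norm_num) h12⟩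
  exact ⟨orbit_mid_low hf hb (by linarith) h20 ha midLowA (J := fun I => 1 / 20 ≤ I ∧ I ≤ 1 / 12) hJ
      (fun _ _ _ hP hI => AllLow.midA_low_start hP hI)
      (fun _ _ _ _ hP hI hu hu1 => AllLow.midA_low_den hP hI hu hu1)
      (fun _ _ _ _ hP hI hu hu1 => AllLow.midA_low_num hP hI hu hu1) hw hw0,
    orbit_mid_up hf hb (by linarith) h20 ha midUpA (J := fun I => 1 / 20 ≤ I ∧ I ≤ 1 / 12) hJ
      (fun _ _ _ hP hI => AllLow.midA_up_start hP hI)
      (fun _ _ _ _ hP hI hu hu1 => AllLow.midA_up_den hP hI hu hu1)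
      (fun _ _ _ _ hP hI hu hu1 => AllLow.midA_up_num hP hI hu hu1) hw hw0⟩

/-- **The orbit between the bands** of piece `B`. -/
theorem orbit_midB (hf : IsOrbitFns N p q S R x y s dx dy)
    (hb : SlabBoxAll N (1 / (p + 1)) (1 / (q + 1))) (h9 : 250 / 27 < N) (h12 : N ≤ 12)
    (ha : 1 / (p + 1) ≤ 31 / 100) {w : ℝ} (hw : w ∈ S) (hw0 : 0 < R w) :
    let al := 1 / (p + 1)
    let be := 1 / (q + 1)
    let u := uOf N (R w) (x w)
    let v := vOf al be (y w / x w)
    let H := hOf N (R w) (x w) (y w) w / (be - al)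
    midBandG midLowB al be u v < H ∧ H < midBandG midUpB al be u v := by
  have hJ : (fun I : ℝ => 1 / 12 ≤ I ∧ I < 27 / 250) (1 / N) := ⟨one_div_le_one_div_of_le (by linarith) h12, by rw [div_lt_iff₀ (by linarith)]; linarith⟩
  exact ⟨orbit_mid_low hf hb (by linarith) (by linarith) ha midLowB (J := fun I => 1 / 12 ≤ I ∧ I < 27 / 250) hJ
      (fun _ _ _ hP hI => AllLow.midB_low_start hP hI)
      (fun _ _ _ _ hP hI hu hu1 => AllLow.midB_low_den hP hI hu hu1)
      (fun _ _ _ _ hP hI hu hu1 => AllLow.midB_low_num hP hI hu hu1) hw hw0,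
    orbit_mid_up hf hb (by linarith) (by linarith) ha midUpB (J := fun I => 1 / 12 ≤ I ∧ I < 27 / 250) hJ
      (fun _ _ _ hP hI => AllLow.midB_up_start hP hI)
      (fun _ _ _ _ hP hI hu hu1 => AllLow.midB_up_den hP hI hu hu1)
      (fun _ _ _ _ hP hI hu hu1 => AllLow.midB_up_num hP hI hu hu1) hw hw0⟩

/-- **The orbit between the bands** of piece `C`. -/
theorem orbit_midC (hf : IsOrbitFns N p q S R x y s dx dy)
    (hb : SlabBoxAll N (1 / (p + 1)) (1 / (q + 1))) (h7 : 7 ≤ N) (h9 : N ≤ 250 / 27)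
    (ha : 1 / (p + 1) ≤ 31 / 100) {w : ℝ} (hw : w ∈ S) (hw0 : 0 < R w) :
    let al := 1 / (p + 1)
    let be := 1 / (q + 1)
    let u := uOf N (R w) (x w)
    let v := vOf al be (y w / x w)
    let H := hOf N (R w) (x w) (y w) w / (be - al)
    midBandG midLowC al be u v < H ∧ H < midBandG midUpC al be u v := by
  have hJ : (fun I : ℝ => 27 / 250 ≤ I ∧ I ≤ 1 / 7) (1 / N) := ⟨by rw [le_div_iff₀ (by linarith)]; linarith, one_div_le_one_div_of_le (by norm_num) h7⟩
  exact ⟨orbit_mid_low hf hb h7 (by linarith) ha midLowC (J := fun I => 27 / 250 ≤ I ∧ I ≤ 1 / 7) hJ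
      (fun _ _ _ hP hI => AllLow.midC_low_start hP hI)
      (fun _ _ _ _ hP hI hu hu1 => AllLow.midC_low_den hP hI hu hu1)
      (fun _ _ _ _ hP hI hu hu1 => AllLow.midC_low_num hP hI hu hu1) hw hw0,
    orbit_mid_up hf hb h7 (by linarith) ha midUpC (J := fun I => 27 / 250 ≤ I ∧ I ≤ 1 / 7) hJ
      (fun _ _ _ hP hI => AllLow.midC_up_start hP hI)
      (fun _ _ _ _ hP hI hu hu1 => AllLow.midC_up_den hP hI hu hu1)
      (fun _ _ _ _ hP hI hu hu1 => AllLow.midC_up_num hP hI hu hu1) hw hw0⟩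

end Vale.Agent.P100.Calib.Band
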