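import Vale.Agent.P100.Calib.SlabMidData

/-!
# Packed signs for the dimensions from seven to twenty: the exit curves
-/

namespace Vale.Agent.P100.Calib.Band.AllLow

open Pack

set_option linter.defProp false


def midExitA_dl :
    checkFour (midBox 0 996 100 101 50 84 50 311) 200 1 0 1 1 (eMidDl midExitA) = true := by
  decide +kernel

def midExitA_pos :
    checkFour (midBox 0 996 100 101 50 84 50 311) 200 2 0 1 1 (eMidEOne midExitA) = true := by
  decide +kernel

def midExitA_sign0 :
    checkFour (midBox 0 996 100 101 50 58 50 180) 560 12 0 10 7 (eMidExit midLowA midExitA 0 2047536915 0 0) = true := by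
  decide +kernel

def midExitA_sign1 :
    checkFour (midBox 0 996 100 101 58 67 58 180) 560 12 0 10 7 (eMidExit midLowA midExitA 0 0 0 0) = true := by
  decide +kernel

def midExitA_sign2 :
    checkFour (midBox 0 498 100 101 50 67 180 311) 560 12 0 10 7 (eMidExit midLowA midExitA 0 0 0 0) = true := by
  decide +kernel

def midExitA_sign3 :
    checkFour (midBox 498 996 100 101 50 67 180 311) 560 12 0 10 7 (eMidExit midLowA midExitA 0 0 0 0) = true := by
  decide +kernel

def midExitA_sign4 :
    checkFour (midBox 0 498 100 101 67 75 67 311) 560 12 0 10 7 (eMidExit midLowA midExitA 0 0 0 0) = true := by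
  decide +kernel

def midExitA_sign5 :
    checkFour (midBox 498 996 100 101 67 75 67 311) 560 12 0 10 7 (eMidExit midLowA midExitA 0 0 0 0) = true := by
  decide +kernel

def midExitA_sign6 :
    checkFour (midBox 0 996 100 101 75 79 75 311) 560 12 0 10 7 (eMidExit midLowA midExitA 0 0 0 0) = true := by
  decide +kernel

def midExitA_sign7 :
    checkFour (midBox 0 996 100 101 79 81 79 311) 560 12 0 10 7 (eMidExit midLowA midExitA 0 0 0 0) = true := by
  decide +kernel

def midExitA_sign8 :
    checkFour (midBox 0 996 100 101 81 82 81 311) 560 12 0 10 7 (eMidExit midLowA midExitA 0 0 0 0) = true := by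
  decide +kernel

def midExitA_sign9 :
    checkFour (midBox 0 996 100 101 82 84 82 311) 560 12 0 10 7 (eMidExit midLowA midExitA 0 540902955 0 0) = true := by
  decide +kernel

def midExitA_end0 :
    checkFour (midBox 995 996 97 176 50 67 50 180) 560 5 2 7 5 (eMidEnd midLowA midExitA 93 0) = true := by
  decide +kernel

def midExitA_end1 :
    checkFour (midBox 995 996 97 176 67 84 67 180) 560 5 2 7 5 (eMidEnd midLowA midExitA 150 0) = true := by
  decide +kernel

def midExitA_end2 :
    checkFour (midBox 995 996 176 229 50 67 50 180) 560 5 2 7 5 (eMidEnd midLowA midExitA 52 0) = true := by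
  decide +kernel

def midExitA_end3 :
    checkFour (midBox 995 996 176 255 67 84 67 180) 560 5 2 7 5 (eMidEnd midLowA midExitA 90 26250) = true := by
  decide +kernel

def midExitA_end4 :
    checkFour (midBox 995 996 95 213 50 84 180 311) 560 5 2 7 5 (eMidEnd midLowA midExitA 2251799810153686 0) = true := by
  decide +kernel

def midExitA_end5 :
    checkFour (midBox 995 996 213 272 50 84 180 245) 560 5 2 7 5 (eMidEnd midLowA midExitA 39 0) = true := by
  decide +kernel

def midExitA_end6 :
    checkFour (midBox 995 996 272 331 50 84 180 245) 560 5 2 7 5 (eMidEnd midLowA midExitA 26 0) = true := by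
  decide +kernel

def midExitA_end7 :
    checkFour (midBox 995 996 213 331 50 84 245 311) 560 5 2 7 5 (eMidEnd midLowA midExitA 23 0) = true := by
  decide +kernel

def midExitA_end8 :
    checkFour (midBox 995 996 331 352 50 84 180 245) 560 5 2 7 5 (eMidEnd midLowA midExitA 22 0) = true := by
  decide +kernel

def midExitA_end9 :
    checkFour (midBox 995 996 331 436 50 84 245 278) 560 5 2 7 5 (eMidEnd midLowA midExitA 16 0) = true := by
  decide +kernel

def midExitA_end10 :
    checkFour (midBox 995 996 331 390 50 84 278 311) 560 5 2 7 5 (eMidEnd midLowA midExitA 14 0) = true := by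
  decide +kernel

def midExitA_end11 :
    checkFour (midBox 995 996 390 449 50 84 278 311) 560 5 2 7 5 (eMidEnd midLowA midExitA 11 0) = true := by
  decide +kernel

def midExitA_end12 :
    checkFour (midBox 995 996 449 567 50 84 245 311) 560 5 2 7 5 (eMidEnd midLowA midExitA 10 0) = true := by
  decide +kernel

def midExitB_dl :
    checkFour (midBox 0 996 100 101 83 108 83 311) 200 1 0 1 1 (eMidDl midExitB) = true := by
  decide +kernel

def midExitB_pos :
    checkFour (midBox 0 996 100 101 83 108 83 311) 200 2 0 1 1 (eMidEOne midExitB) = true := by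
  decide +kernel

def midExitB_sign0 :
    checkFour (midBox 0 498 100 101 83 95 83 311) 560 12 0 10 7 (eMidExit midLowB midExitB 0 0 0 0) = true := by
  decide +kernel

def midExitB_sign1 :
    checkFour (midBox 498 996 100 101 83 89 83 311) 560 12 0 10 7 (eMidExit midLowB midExitB 0 97343567 0 0) = true := by
  decide +kernel

def midExitB_sign2 :
    checkFour (midBox 498 996 100 101 89 95 89 311) 560 12 0 10 7 (eMidExit midLowB midExitB 0 0 0 0) = true := by
  decide +kernel

def midExitB_sign3 :
    checkFour (midBox 0 498 100 101 95 101 95 311) 560 12 0 10 7 (eMidExit midLowB midExitB 0 0 0 0) = true := by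
  decide +kernel

def midExitB_sign4 :
    checkFour (midBox 498 747 100 101 95 101 95 311) 560 12 0 10 7 (eMidExit midLowB midExitB 0 0 0 0) = true := by
  decide +kernel

def midExitB_sign5 :
    checkFour (midBox 747 996 100 101 95 101 95 311) 560 12 0 10 7 (eMidExit midLowB midExitB 0 162547851 0 0) = true := by
  decide +kernel

def midExitB_sign6 :
    checkFour (midBox 0 498 100 101 101 108 101 206) 560 12 0 10 7 (eMidExit midLowB midExitB 0 0 0 0) = true := by
  decide +kernel

def midExitB_sign7 :
    checkFour (midBox 498 996 100 101 101 108 101 206) 560 12 0 10 7 (eMidExit midLowB midExitB 0 525765391 0 0) = true := by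
  decide +kernel

def midExitB_sign8 :
    checkFour (midBox 0 996 100 101 101 108 206 311) 560 12 0 10 7 (eMidExit midLowB midExitB 0 75403818 0 0) = true := by
  decide +kernel

def midExitB_end0 :
    checkFour (midBox 995 996 95 211 83 108 83 197) 560 5 2 7 5 (eMidEnd midLowB midExitB 173 0) = true := by
  decide +kernel

def midExitB_end1 :
    checkFour (midBox 995 996 211 269 83 108 83 197) 560 5 2 7 5 (eMidEnd midLowB midExitB 146 86496) = true := by
  decide +kernel

def midExitB_end2 :
    checkFour (midBox 995 996 269 328 83 108 83 197) 560 5 2 7 5 (eMidEnd midLowB midExitB 45 0) = true := by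
  decide +kernel

def midExitB_end3 :
    checkFour (midBox 995 996 95 238 83 108 197 225) 560 5 2 7 5 (eMidEnd midLowB midExitB 2251799810153686 0) = true := by
  decide +kernel

def midExitB_end4 :
    checkFour (midBox 995 996 238 382 83 108 197 225) 560 5 2 7 5 (eMidEnd midLowB midExitB 35 0) = true := by
  decide +kernel

def midExitB_end5 :
    checkFour (midBox 995 996 94 264 83 108 225 254) 560 5 2 7 5 (eMidEnd midLowB midExitB 2251799810153686 0) = true := by
  decide +kernel

def midExitB_end6 :
    checkFour (midBox 995 996 264 349 83 108 225 254) 560 5 2 7 5 (eMidEnd midLowB midExitB 41 0) = true := by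
  decide +kernel

def midExitB_end7 :
    checkFour (midBox 995 996 349 435 83 108 225 254) 560 5 2 7 5 (eMidEnd midLowB midExitB 24 0) = true := by
  decide +kernel

def midExitB_end8 :
    checkFour (midBox 995 996 93 435 83 108 254 311) 560 5 2 7 5 (eMidEnd midLowB midExitB 23 0) = true := by
  decide +kernel

def midExitB_end9 :
    checkFour (midBox 995 996 435 463 83 108 197 254) 560 5 2 7 5 (eMidEnd midLowB midExitB 29 13485) = true := by
  decide +kernel

def midExitB_end10 :
    checkFour (midBox 995 996 435 507 83 108 254 268) 560 5 2 7 5 (eMidEnd midLowB midExitB 17 0) = true := by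
  decide +kernel

def midExitB_end11 :
    checkFour (midBox 995 996 435 507 83 108 268 282) 560 5 2 7 5 (eMidEnd midLowB midExitB 15 0) = true := by
  decide +kernel

def midExitB_end12 :
    checkFour (midBox 995 996 507 543 83 108 254 282) 560 5 2 7 5 (eMidEnd midLowB midExitB 16 3521) = true := by
  decide +kernel

def midExitB_end13 :
    checkFour (midBox 995 996 543 580 83 108 254 282) 560 5 2 7 5 (eMidEnd midLowB midExitB 11 0) = true := by
  decide +kernel

def midExitB_end14 :
    checkFour (midBox 995 996 435 520 83 108 282 311) 560 5 2 7 5 (eMidEnd midLowB midExitB 13 0) = true := by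
  decide +kernel

def midExitB_end15 :
    checkFour (midBox 995 996 520 563 83 108 282 296) 560 5 2 7 5 (eMidEnd midLowB midExitB 11 0) = true := by
  decide +kernel

def midExitB_end16 :
    checkFour (midBox 995 996 563 606 83 108 282 296) 560 5 2 7 5 (eMidEnd midLowB midExitB 10 0) = true := by
  decide +kernel

def midExitB_end17 :
    checkFour (midBox 995 996 520 563 83 108 296 311) 560 5 2 7 5 (eMidEnd midLowB midExitB 10 0) = true := by
  decide +kernel

def midExitB_end18 :
    checkFour (midBox 995 996 563 606 83 108 296 311) 560 5 2 7 5 (eMidEnd midLowB midExitB 9 0) = true := by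
  decide +kernel

def midExitB_end19 :
    checkFour (midBox 995 996 606 649 83 108 282 311) 560 5 2 7 5 (eMidEnd midLowB midExitB 10 2551) = true := by
  decide +kernel

def midExitB_end20 :
    checkFour (midBox 995 996 649 692 83 108 282 311) 560 5 2 7 5 (eMidEnd midLowB midExitB 6 0) = true := by
  decide +kernel

def midExitB_end21 :
    checkFour (midBox 995 996 692 778 83 108 282 311) 560 5 2 7 5 (eMidEnd midLowB midExitB 5 0) = true := by
  decide +kernel

def midExitC_dl :
    checkFour (midBox 0 996 100 101 108 143 108 311) 200 1 0 1 1 (eMidDl midExitC) = true := by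
  decide +kernel

def midExitC_pos :
    checkFour (midBox 0 996 100 101 108 143 108 311) 200 2 0 1 1 (eMidEOne midExitC) = true := by
  decide +kernel

def midExitC_sign0 :
    checkFour (midBox 0 498 100 101 108 143 108 311) 560 12 0 10 7 (eMidExit midLowC midExitC 0 0 0 0) = true := by
  decide +kernel

def midExitC_sign1 :
    checkFour (midBox 498 996 100 101 108 143 108 209) 560 12 0 10 7 (eMidExit midLowC midExitC 0 711294997 0 0) = true := by
  decide +kernel

def midExitC_sign2 :
    checkFour (midBox 498 996 100 101 108 143 209 311) 560 12 0 10 7 (eMidExit midLowC midExitC 0 0 0 0) = true := by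
  decide +kernel

def midExitC_end0 :
    checkFour (midBox 995 996 94 284 108 143 108 209) 560 5 2 7 5 (eMidEnd midLowC midExitC 121 0) = true := by
  decide +kernel

def midExitC_end1 :
    checkFour (midBox 995 996 284 379 108 143 108 209) 560 5 2 7 5 (eMidEnd midLowC midExitC 66 0) = true := by
  decide +kernel

def midExitC_end2 :
    checkFour (midBox 995 996 379 474 108 143 108 209) 560 5 2 7 5 (eMidEnd midLowC midExitC 31 0) = true := by
  decide +kernel

def midExitC_end3 :
    checkFour (midBox 995 996 91 440 108 143 209 311) 560 5 2 7 5 (eMidEnd midLowC midExitC 52 0) = true := by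
  decide +kernel

def midExitC_end4 :
    checkFour (midBox 995 996 440 581 108 143 209 260) 560 5 2 7 5 (eMidEnd midLowC midExitC 19 0) = true := by
  decide +kernel

def midExitC_end5 :
    checkFour (midBox 995 996 581 651 108 143 234 260) 560 5 2 7 5 (eMidEnd midLowC midExitC 12 0) = true := by
  decide +kernel

def midExitC_end6 :
    checkFour (midBox 995 996 651 722 108 143 234 260) 560 5 2 7 5 (eMidEnd midLowC midExitC 10 0) = true := by
  decide +kernel

def midExitC_end7 :
    checkFour (midBox 995 996 440 615 108 143 260 311) 560 5 2 7 5 (eMidEnd midLowC midExitC 16 0) = true := by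
  decide +kernel

def midExitC_end8 :
    checkFour (midBox 995 996 615 702 108 143 260 285) 560 5 2 7 5 (eMidEnd midLowC midExitC 9 0) = true := by
  decide +kernel

def midExitC_end9 :
    checkFour (midBox 995 996 702 741 108 125 260 285) 560 5 2 7 5 (eMidEnd midLowC midExitC 7 0) = true := by
  decide +kernel

def midExitC_end10 :
    checkFour (midBox 995 996 702 790 125 143 260 285) 560 5 2 7 5 (eMidEnd midLowC midExitC 7 0) = true := by
  decide +kernel

def midExitC_end11 :
    checkFour (midBox 995 996 615 790 108 125 285 311) 560 5 2 7 5 (eMidEnd midLowC midExitC 7 0) = true := by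
  decide +kernel

def midExitC_end12 :
    checkFour (midBox 995 996 615 790 125 143 285 311) 560 5 2 7 5 (eMidEnd midLowC midExitC 7 0) = true := by
  decide +kernel

def midExitC_end13 :
    checkFour (midBox 995 996 790 877 108 143 260 285) 560 5 2 7 5 (eMidEnd midLowC midExitC 5 760) = true := by
  decide +kernel

def midExitC_end14 :
    checkFour (midBox 995 996 877 965 108 143 260 285) 560 5 2 7 5 (eMidEnd midLowC midExitC 3 0) = true := by
  decide +kernel

def midExitC_end15 :
    checkFour (midBox 995 996 790 877 108 125 285 311) 560 5 2 7 5 (eMidEnd midLowC midExitC 4 0) = true := by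
  decide +kernel

def midExitC_end16 :
    checkFour (midBox 995 996 877 965 108 125 285 311) 560 5 2 7 5 (eMidEnd midLowC midExitC 3 0) = true := by
  decide +kernel

def midExitC_end17 :
    checkFour (midBox 995 996 790 877 125 143 285 311) 560 5 2 7 5 (eMidEnd midLowC midExitC 4 0) = true := by
  decide +kernel

def midExitC_end18 :
    checkFour (midBox 995 996 877 965 125 143 285 311) 560 5 2 7 5 (eMidEnd midLowC midExitC 3 0) = true := by
  decide +kernel

def midExitC_end19 :
    checkFour (midBox 995 996 965 973 108 143 260 285) 560 5 2 7 5 (eMidEnd midLowC midExitC 0 0) = true := by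
  decide +kernel

def midExitC_end20 :
    checkFour (midBox 995 996 965 1140 108 143 285 311) 560 5 2 7 5 (eMidEnd midLowC midExitC 1 0) = true := by
  decide +kernel

def midExitC_end21 :
    checkFour (midBox 995 996 1140 1315 108 143 260 311) 560 5 2 7 5 (eMidEnd midLowC midExitC 0 0) = true := by
  decide +kernel

def midExitC_end22 :
    checkFour (midBox 995 996 1315 1490 108 143 260 311) 560 5 2 7 5 (eMidEnd midLowC midExitC 0 1208) = true := by
  decide +kernel

def midExitD_dl :
    checkFour (midBox 0 976 100 101 108 143 108 311) 200 1 0 1 1 (eMidDl midExitD) = true := by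
  decide +kernel

def midExitD_pos :
    checkFour (midBox 0 976 100 101 108 143 108 311) 200 2 0 1 1 (eMidEOne midExitD) = true := by
  decide +kernel

def midExitD_sign0 :
    checkFour (midBox 0 488 100 101 108 143 108 311) 560 12 0 10 7 (eMidExit midLowC midExitD 0 0 0 0) = true := by
  decide +kernel

def midExitD_sign1 :
    checkFour (midBox 488 732 100 101 108 143 108 311) 560 12 0 10 7 (eMidExit midLowC midExitD 0 0 0 0) = true := by
  decide +kernel

def midExitD_sign2 :
    checkFour (midBox 732 976 100 101 108 143 108 209) 560 12 0 10 7 (eMidExit midLowC midExitD 0 0 0 0) = true := by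
  decide +kernel

def midExitD_sign3 :
    checkFour (midBox 732 854 100 101 108 143 209 311) 560 12 0 10 7 (eMidExit midLowC midExitD 0 0 0 0) = true := by
  decide +kernel

def midExitD_sign4 :
    checkFour (midBox 854 976 100 101 108 143 209 311) 560 12 0 10 7 (eMidExit midLowC midExitD 0 0 0 0) = true := by
  decide +kernel

def midExitD_end0 :
    checkFour (midBox 975 976 94 284 108 143 108 209) 560 5 2 7 5 (eMidEnd midLowC midExitD 2251799810153686 0) = true := by
  decide +kernel

def midExitD_end1 :
    checkFour (midBox 975 976 284 474 108 143 108 209) 560 5 2 7 5 (eMidEnd midLowC midExitD 45 0) = true := by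
  decide +kernel

def midExitD_end2 :
    checkFour (midBox 975 976 91 440 108 143 209 311) 560 5 2 7 5 (eMidEnd midLowC midExitD 69 0) = true := by
  decide +kernel

def midExitD_end3 :
    checkFour (midBox 975 976 440 581 108 143 209 260) 560 5 2 7 5 (eMidEnd midLowC midExitD 21 0) = true := by
  decide +kernel

def midExitD_end4 :
    checkFour (midBox 975 976 581 722 108 143 209 260) 560 5 2 7 5 (eMidEnd midLowC midExitD 12 0) = true := by
  decide +kernel

def midExitD_end5 :
    checkFour (midBox 975 976 440 615 108 143 260 311) 560 5 2 7 5 (eMidEnd midLowC midExitD 16 0) = true := by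
  decide +kernel

def midExitD_end6 :
    checkFour (midBox 975 976 615 702 108 143 260 285) 560 5 2 7 5 (eMidEnd midLowC midExitD 9 0) = true := by
  decide +kernel

def midExitD_end7 :
    checkFour (midBox 975 976 702 790 108 143 260 285) 560 5 2 7 5 (eMidEnd midLowC midExitD 7 0) = true := by
  decide +kernel

def midExitD_end8 :
    checkFour (midBox 975 976 615 702 108 125 285 311) 560 5 2 7 5 (eMidEnd midLowC midExitD 8 0) = true := by
  decide +kernel

def midExitD_end9 :
    checkFour (midBox 975 976 702 790 108 125 285 311) 560 5 2 7 5 (eMidEnd midLowC midExitD 6 0) = true := by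
  decide +kernel

def midExitD_end10 :
    checkFour (midBox 975 976 615 702 125 143 285 311) 560 5 2 7 5 (eMidEnd midLowC midExitD 10 0) = true := by
  decide +kernel

def midExitD_end11 :
    checkFour (midBox 975 976 702 790 125 143 285 311) 560 5 2 7 5 (eMidEnd midLowC midExitD 6 0) = true := by
  decide +kernel

def midExitD_end12 :
    checkFour (midBox 975 976 790 973 108 143 260 285) 560 5 2 7 5 (eMidEnd midLowC midExitD 4 0) = true := by
  decide +kernel

def midExitD_end13 :
    checkFour (midBox 975 976 790 1140 108 143 285 311) 560 5 2 7 5 (eMidEnd midLowC midExitD 3 0) = true := by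
  decide +kernel

def midExitD_end14 :
    checkFour (midBox 975 976 1140 1490 108 143 260 311) 560 5 2 7 5 (eMidEnd midLowC midExitD 0 0) = true := by
  decide +kernel

end Vale.Agent.P100.Calib.Band.AllLow
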