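import Vale.Agent.P100.Calib.SlabMidSound
import Vale.Agent.P100.Calib.SlabMidBands
import Vale.Agent.P100.Calib.SlabMidCertExit

/-!
# The exit curves in the dimensions from seven to twenty
-/

open Set Filter Topology

namespace Vale.Agent.P100.Calib.Band

open Vale.Agent.P100.Bubble Chart

namespace AllLow

theorem midExitA_bracket {a I X u : ℝ} (hP : MidPlace a I X) (hI : 1 / 20 ≤ I ∧ I ≤ 1 / 12) (hu : 0 < u)
    (hu1 : u ≤ (199 / 200)) : 0 < midBracket midExitA I a u ∧ 0 ≤ midBracketDl midExitA I a u := by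
  obtain ⟨hI1, hI2⟩ := hI
  have hIa := hP.I_le_a
  have haH := hP.a_le
  exact mid_bracket_box midExitA midExitA_pos midExitA_dl
    ⟨⟨(by push_cast; linarith only [hu, hu1]), (by push_cast; linarith only [hu, hu1])⟩, ⟨by norm_num, by norm_num⟩,
        ⟨(by push_cast; linarith only [hI1, hI2]), (by push_cast; linarith only [hI1, hI2])⟩, (by push_cast; linarith only [hIa, haH, hI1, hI2]), (by push_cast; linarith only [hIa, haH, hI1, hI2])⟩

theorem midExitA_sign_s0 {a b I X u : ℝ} (hP : MidPlace a I X) (hb : b = 1 - 2 * I - a)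
    (hI : 1 / 20 ≤ I ∧ I ≤ 1 / 12) (hu : 0 < u) (hu1 : u ≤ (199 / 200))
    (hV : 2 * I * X * midBracket midExitA I a u = 2000 * I)
    (hen : 0 < allEn a b u (2 * I * X) (midBandG midLowA a b u (2 * I * X))) (p0 : I < (67 / 1000)) :
    allDot a b u (2 * I * X) (midBandG midLowA a b u (2 * I * X))
      (2 * I * X * midBracketDl midExitA I a u) (-midBracket midExitA I a u) 0 < 0 := by
  have hE := (midExitA_bracket hP hI hu hu1).1
  obtain ⟨hI1, hI2⟩ := hI
  have hIa := hP.I_le_a
  have haH := hP.a_le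
  rcases lt_or_ge a (9 / 50) with h0 | h0
  · rcases lt_or_ge I (29 / 500) with h1 | h1
    · exact mid_exit_box hP hb hu (by linarith only [hu1]) rfl hV hE hen (by decide) midExitA_sign0
        ⟨⟨(by push_cast; linarith only [hu, hu1]), (by push_cast; linarith only [hu, hu1])⟩, ⟨by norm_num, by norm_num⟩,
        ⟨(by push_cast; linarith only [p0, hI1, hI2, h1]), (by push_cast; linarith only [p0, hI1, hI2, h1])⟩, (by push_cast; linarith only [h0, hIa, haH, hI1, h1, p0, hI2]), (by push_cast; linarith only [h0, hIa, haH, hI1, h1, p0, hI2])⟩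
    · exact mid_exit_box hP hb hu (by linarith only [hu1]) rfl hV hE hen (by decide) midExitA_sign1
        ⟨⟨(by push_cast; linarith only [hu, hu1]), (by push_cast; linarith only [hu, hu1])⟩, ⟨by norm_num, by norm_num⟩,
        ⟨(by push_cast; linarith only [p0, hI1, hI2, h1]), (by push_cast; linarith only [p0, hI1, hI2, h1])⟩, (by push_cast; linarith only [h0, hIa, haH, hI1, h1, p0, hI2]), (by push_cast; linarith only [h0, hIa, haH, hI1, h1, p0, hI2])⟩
  · rcases lt_or_ge u (249 / 500) with h2 | h2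
    · exact mid_exit_box hP hb hu (by linarith only [hu1]) rfl hV hE hen (by decide) midExitA_sign2
        ⟨⟨(by push_cast; linarith only [hu, hu1, h2]), (by push_cast; linarith only [hu, hu1, h2])⟩, ⟨by norm_num, by norm_num⟩,
        ⟨(by push_cast; linarith only [p0, hI1, hI2]), (by push_cast; linarith only [p0, hI1, hI2])⟩, (by push_cast; linarith only [h0, hIa, haH, hI1, p0, hI2]), (by push_cast; linarith only [h0, hIa, haH, hI1, p0, hI2])⟩
    · exact mid_exit_box hP hb hu (by linarith only [hu1]) rfl hV hE hen (by decide) midExitA_sign3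
        ⟨⟨(by push_cast; linarith only [hu, hu1, h2]), (by push_cast; linarith only [hu, hu1, h2])⟩, ⟨by norm_num, by norm_num⟩,
        ⟨(by push_cast; linarith only [p0, hI1, hI2]), (by push_cast; linarith only [p0, hI1, hI2])⟩, (by push_cast; linarith only [h0, hIa, haH, hI1, p0, hI2]), (by push_cast; linarith only [h0, hIa, haH, hI1, p0, hI2])⟩

theorem midExitA_sign_s2 {a b I X u : ℝ} (hP : MidPlace a I X) (hb : b = 1 - 2 * I - a)
    (hI : 1 / 20 ≤ I ∧ I ≤ 1 / 12) (hu : 0 < u) (hu1 : u ≤ (199 / 200))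
    (hV : 2 * I * X * midBracket midExitA I a u = 2000 * I)
    (hen : 0 < allEn a b u (2 * I * X) (midBandG midLowA a b u (2 * I * X))) (p0 : (67 / 1000) ≤ I) (p1 : I < (3 / 40)) :
    allDot a b u (2 * I * X) (midBandG midLowA a b u (2 * I * X))
      (2 * I * X * midBracketDl midExitA I a u) (-midBracket midExitA I a u) 0 < 0 := by
  have hE := (midExitA_bracket hP hI hu hu1).1
  obtain ⟨hI1, hI2⟩ := hI
  have hIa := hP.I_le_a
  have haH := hP.a_le
  rcases lt_or_ge u (249 / 500) with h0 | h0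
  · exact mid_exit_box hP hb hu (by linarith only [hu1]) rfl hV hE hen (by decide) midExitA_sign4
      ⟨⟨(by push_cast; linarith only [hu, hu1, h0]), (by push_cast; linarith only [hu, hu1, h0])⟩, ⟨by norm_num, by norm_num⟩,
        ⟨(by push_cast; linarith only [p0, p1, hI1, hI2]), (by push_cast; linarith only [p0, p1, hI1, hI2])⟩, (by push_cast; linarith only [hIa, haH, hI1, p0, p1, hI2]), (by push_cast; linarith only [hIa, haH, hI1, p0, p1, hI2])⟩
  · exact mid_exit_box hP hb hu (by linarith only [hu1]) rfl hV hE hen (by decide) midExitA_sign5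
      ⟨⟨(by push_cast; linarith only [hu, hu1, h0]), (by push_cast; linarith only [hu, hu1, h0])⟩, ⟨by norm_num, by norm_num⟩,
        ⟨(by push_cast; linarith only [p0, p1, hI1, hI2]), (by push_cast; linarith only [p0, p1, hI1, hI2])⟩, (by push_cast; linarith only [hIa, haH, hI1, p0, p1, hI2]), (by push_cast; linarith only [hIa, haH, hI1, p0, p1, hI2])⟩

theorem midExitA_sign_s3 {a b I X u : ℝ} (hP : MidPlace a I X) (hb : b = 1 - 2 * I - a)
    (hI : 1 / 20 ≤ I ∧ I ≤ 1 / 12) (hu : 0 < u) (hu1 : u ≤ (199 / 200))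
    (hV : 2 * I * X * midBracket midExitA I a u = 2000 * I)
    (hen : 0 < allEn a b u (2 * I * X) (midBandG midLowA a b u (2 * I * X))) (p0 : (67 / 1000) ≤ I) (p1 : (3 / 40) ≤ I) :
    allDot a b u (2 * I * X) (midBandG midLowA a b u (2 * I * X))
      (2 * I * X * midBracketDl midExitA I a u) (-midBracket midExitA I a u) 0 < 0 := by
  have hE := (midExitA_bracket hP hI hu hu1).1
  obtain ⟨hI1, hI2⟩ := hI
  have hIa := hP.I_le_a
  have haH := hP.a_le
  rcases lt_or_ge I (79 / 1000) with h0 | h0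
  · exact mid_exit_box hP hb hu (by linarith only [hu1]) rfl hV hE hen (by decide) midExitA_sign6
      ⟨⟨(by push_cast; linarith only [hu, hu1]), (by push_cast; linarith only [hu, hu1])⟩, ⟨by norm_num, by norm_num⟩,
        ⟨(by push_cast; linarith only [p0, p1, hI1, hI2, h0]), (by push_cast; linarith only [p0, p1, hI1, hI2, h0])⟩, (by push_cast; linarith only [hIa, haH, hI1, h0, p0, p1, hI2]), (by push_cast; linarith only [hIa, haH, hI1, h0, p0, p1, hI2])⟩
  · rcases lt_or_ge I (81 / 1000) with h1 | h1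
    · exact mid_exit_box hP hb hu (by linarith only [hu1]) rfl hV hE hen (by decide) midExitA_sign7
        ⟨⟨(by push_cast; linarith only [hu, hu1]), (by push_cast; linarith only [hu, hu1])⟩, ⟨by norm_num, by norm_num⟩,
        ⟨(by push_cast; linarith only [p0, p1, hI1, hI2, h0, h1]), (by push_cast; linarith only [p0, p1, hI1, hI2, h0, h1])⟩, (by push_cast; linarith only [hIa, haH, hI1, h0, h1, p0, p1, hI2]), (by push_cast; linarith only [hIa, haH, hI1, h0, h1, p0, p1, hI2])⟩
    · rcases lt_or_ge I (41 / 500) with h2 | h2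
      · exact mid_exit_box hP hb hu (by linarith only [hu1]) rfl hV hE hen (by decide) midExitA_sign8
          ⟨⟨(by push_cast; linarith only [hu, hu1]), (by push_cast; linarith only [hu, hu1])⟩, ⟨by norm_num, by norm_num⟩,
        ⟨(by push_cast; linarith only [p0, p1, hI1, hI2, h0, h1, h2]), (by push_cast; linarith only [p0, p1, hI1, hI2, h0, h1, h2])⟩, (by push_cast; linarith only [hIa, haH, hI1, h0, h1, h2, p0, p1, hI2]), (by push_cast; linarith only [hIa, haH, hI1, h0, h1, h2, p0, p1, hI2])⟩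
      · exact mid_exit_box hP hb hu (by linarith only [hu1]) rfl hV hE hen (by decide) midExitA_sign9
          ⟨⟨(by push_cast; linarith only [hu, hu1]), (by push_cast; linarith only [hu, hu1])⟩, ⟨by norm_num, by norm_num⟩,
        ⟨(by push_cast; linarith only [p0, p1, hI1, hI2, h0, h1, h2]), (by push_cast; linarith only [p0, p1, hI1, hI2, h0, h1, h2])⟩, (by push_cast; linarith only [hIa, haH, hI1, h0, h1, h2, p0, p1, hI2]), (by push_cast; linarith only [hIa, haH, hI1, h0, h1, h2, p0, p1, hI2])⟩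

theorem midExitA_sign_s1 {a b I X u : ℝ} (hP : MidPlace a I X) (hb : b = 1 - 2 * I - a)
    (hI : 1 / 20 ≤ I ∧ I ≤ 1 / 12) (hu : 0 < u) (hu1 : u ≤ (199 / 200))
    (hV : 2 * I * X * midBracket midExitA I a u = 2000 * I)
    (hen : 0 < allEn a b u (2 * I * X) (midBandG midLowA a b u (2 * I * X))) (p0 : (67 / 1000) ≤ I) :
    allDot a b u (2 * I * X) (midBandG midLowA a b u (2 * I * X))
      (2 * I * X * midBracketDl midExitA I a u) (-midBracket midExitA I a u) 0 < 0 := by
  rcases lt_or_ge I (3 / 40) with h | h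
  · exact midExitA_sign_s2 hP hb hI hu hu1 hV hen p0 h
  · exact midExitA_sign_s3 hP hb hI hu hu1 hV hen p0 h

theorem midExitA_sign {a b I X u : ℝ} (hP : MidPlace a I X) (hb : b = 1 - 2 * I - a)
    (hI : 1 / 20 ≤ I ∧ I ≤ 1 / 12) (hu : 0 < u) (hu1 : u ≤ (199 / 200))
    (hV : 2 * I * X * midBracket midExitA I a u = 2000 * I)
    (hen : 0 < allEn a b u (2 * I * X) (midBandG midLowA a b u (2 * I * X))) :
    allDot a b u (2 * I * X) (midBandG midLowA a b u (2 * I * X))
      (2 * I * X * midBracketDl midExitA I a u) (-midBracket midExitA I a u) 0 < 0 := by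
  rcases lt_or_ge I (67 / 1000) with h | h
  · exact midExitA_sign_s0 hP hb hI hu hu1 hV hen  h
  · exact midExitA_sign_s1 hP hb hI hu hu1 hV hen  h

theorem midExitA_end_s0 {a b I X : ℝ} (hP : MidPlace a I X) (hb : b = 1 - 2 * I - a)
    (hI : 1 / 20 ≤ I ∧ I ≤ 1 / 12) (hX : 1000 ≤ X * midBracket midExitA I a (199 / 200)) (p0 : a < (9 / 50)) :
    allEn a b (199 / 200) (2 * I * X) (midBandG midLowA a b (199 / 200) (2 * I * X)) < 0 := by
  obtain ⟨hI1, hI2⟩ := hI
  have hIa := hP.I_le_a
  have haH := hP.a_le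
  rcases lt_or_ge X (44 / 25) with h0 | h0
  · rcases lt_or_ge I (67 / 1000) with h1 | h1
    · have hXu := hP.X_lt (9 / 50) (67 / 1000) (229 / 100) (by linarith only [p0, hIa, haH, hI1, h1, hI2]) (by linarith only [hI1, hI2, h1]) (by norm_num) (by norm_num) (by norm_num)
      have hXl := hP.le_X (9 / 50) (67 / 1000) (97 / 100) (by linarith only [p0, hIa, haH, hI1, h1, hI2]) (by linarith only [hI1, hI2, h1]) (by norm_num)
      exact mid_end_box hP hb (by norm_num) hX (by decide) midExitA_end0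
        ⟨⟨by norm_num, by norm_num⟩, ⟨(by push_cast; linarith only [h0, hXu, hXl]), (by push_cast; linarith only [h0, hXu, hXl])⟩,
        ⟨(by push_cast; linarith only [hI1, hI2, h1]), (by push_cast; linarith only [hI1, hI2, h1])⟩, (by push_cast; linarith only [p0, hIa, haH, hI1, h1, hI2]), (by push_cast; linarith only [p0, hIa, haH, hI1, h1, hI2])⟩
    · have hXu := hP.X_lt (9 / 50) (21 / 250) (51 / 20) (by linarith only [p0, hIa, haH, hI1, h1, hI2]) (by linarith only [hI1, hI2, h1]) (by norm_num) (by norm_num) (by norm_num)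
      have hXl := hP.le_X (9 / 50) (21 / 250) (97 / 100) (by linarith only [p0, hIa, haH, hI1, h1, hI2]) (by linarith only [hI1, hI2, h1]) (by norm_num)
      exact mid_end_box hP hb (by norm_num) hX (by decide) midExitA_end1
        ⟨⟨by norm_num, by norm_num⟩, ⟨(by push_cast; linarith only [h0, hXu, hXl]), (by push_cast; linarith only [h0, hXu, hXl])⟩,
        ⟨(by push_cast; linarith only [hI1, hI2, h1]), (by push_cast; linarith only [hI1, hI2, h1])⟩, (by push_cast; linarith only [p0, hIa, haH, hI1, h1, hI2]), (by push_cast; linarith only [p0, hIa, haH, hI1, h1, hI2])⟩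
  · rcases lt_or_ge I (67 / 1000) with h2 | h2
    · have hXu := hP.X_lt (9 / 50) (67 / 1000) (229 / 100) (by linarith only [p0, hIa, haH, hI1, h2, hI2]) (by linarith only [hI1, hI2, h2]) (by norm_num) (by norm_num) (by norm_num)
      have hXl := hP.le_X (9 / 50) (67 / 1000) (97 / 100) (by linarith only [p0, hIa, haH, hI1, h2, hI2]) (by linarith only [hI1, hI2, h2]) (by norm_num)
      exact mid_end_box hP hb (by norm_num) hX (by decide) midExitA_end2
        ⟨⟨by norm_num, by norm_num⟩, ⟨(by push_cast; linarith only [h0, hXu, hXl]), (by push_cast; linarith only [h0, hXu, hXl])⟩,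
        ⟨(by push_cast; linarith only [hI1, hI2, h2]), (by push_cast; linarith only [hI1, hI2, h2])⟩, (by push_cast; linarith only [p0, hIa, haH, hI1, h2, hI2]), (by push_cast; linarith only [p0, hIa, haH, hI1, h2, hI2])⟩
    · have hXu := hP.X_lt (9 / 50) (21 / 250) (51 / 20) (by linarith only [p0, hIa, haH, hI1, h2, hI2]) (by linarith only [hI1, hI2, h2]) (by norm_num) (by norm_num) (by norm_num)
      have hXl := hP.le_X (9 / 50) (21 / 250) (97 / 100) (by linarith only [p0, hIa, haH, hI1, h2, hI2]) (by linarith only [hI1, hI2, h2]) (by norm_num)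
      exact mid_end_box hP hb (by norm_num) hX (by decide) midExitA_end3
        ⟨⟨by norm_num, by norm_num⟩, ⟨(by push_cast; linarith only [h0, hXu, hXl]), (by push_cast; linarith only [h0, hXu, hXl])⟩,
        ⟨(by push_cast; linarith only [hI1, hI2, h2]), (by push_cast; linarith only [hI1, hI2, h2])⟩, (by push_cast; linarith only [p0, hIa, haH, hI1, h2, hI2]), (by push_cast; linarith only [p0, hIa, haH, hI1, h2, hI2])⟩

theorem midExitA_end_s2 {a b I X : ℝ} (hP : MidPlace a I X) (hb : b = 1 - 2 * I - a)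
    (hI : 1 / 20 ≤ I ∧ I ≤ 1 / 12) (hX : 1000 ≤ X * midBracket midExitA I a (199 / 200)) (p0 : (9 / 50) ≤ a) (p1 : X < (331 / 100)) :
    allEn a b (199 / 200) (2 * I * X) (midBandG midLowA a b (199 / 200) (2 * I * X)) < 0 := by
  obtain ⟨hI1, hI2⟩ := hI
  have hIa := hP.I_le_a
  have haH := hP.a_le
  rcases lt_or_ge X (213 / 100) with h0 | h0
  · have hXu := hP.X_lt (31 / 100) (21 / 250) (567 / 100) (by linarith only [p0, hIa, haH, hI1, hI2]) (by linarith only [hI1, hI2]) (by norm_num) (by norm_num) (by norm_num)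
    have hXl := hP.le_X (31 / 100) (21 / 250) (19 / 20) (by linarith only [p0, hIa, haH, hI1, hI2]) (by linarith only [hI1, hI2]) (by norm_num)
    exact mid_end_box hP hb (by norm_num) hX (by decide) midExitA_end4
      ⟨⟨by norm_num, by norm_num⟩, ⟨(by push_cast; linarith only [p1, h0, hXu, hXl]), (by push_cast; linarith only [p1, h0, hXu, hXl])⟩,
        ⟨(by push_cast; linarith only [hI1, hI2]), (by push_cast; linarith only [hI1, hI2])⟩, (by push_cast; linarith only [p0, hIa, haH, hI1, hI2]), (by push_cast; linarith only [p0, hIa, haH, hI1, hI2])⟩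
  · rcases lt_or_ge a (49 / 200) with h1 | h1
    · rcases lt_or_ge X (68 / 25) with h2 | h2
      · have hXu := hP.X_lt (49 / 200) (21 / 250) (88 / 25) (by linarith only [p0, h1, hIa, haH, hI1, hI2]) (by linarith only [hI1, hI2]) (by norm_num) (by norm_num) (by norm_num)
        have hXl := hP.le_X (49 / 200) (21 / 250) (24 / 25) (by linarith only [p0, h1, hIa, haH, hI1, hI2]) (by linarith only [hI1, hI2]) (by norm_num)
        exact mid_end_box hP hb (by norm_num) hX (by decide) midExitA_end5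
          ⟨⟨by norm_num, by norm_num⟩, ⟨(by push_cast; linarith only [p1, h0, h2, hXu, hXl]), (by push_cast; linarith only [p1, h0, h2, hXu, hXl])⟩,
        ⟨(by push_cast; linarith only [hI1, hI2]), (by push_cast; linarith only [hI1, hI2])⟩, (by push_cast; linarith only [p0, h1, hIa, haH, hI1, hI2]), (by push_cast; linarith only [p0, h1, hIa, haH, hI1, hI2])⟩
      · have hXu := hP.X_lt (49 / 200) (21 / 250) (88 / 25) (by linarith only [p0, h1, hIa, haH, hI1, hI2]) (by linarith only [hI1, hI2]) (by norm_num) (by norm_num) (by norm_num)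
        have hXl := hP.le_X (49 / 200) (21 / 250) (24 / 25) (by linarith only [p0, h1, hIa, haH, hI1, hI2]) (by linarith only [hI1, hI2]) (by norm_num)
        exact mid_end_box hP hb (by norm_num) hX (by decide) midExitA_end6
          ⟨⟨by norm_num, by norm_num⟩, ⟨(by push_cast; linarith only [p1, h0, h2, hXu, hXl]), (by push_cast; linarith only [p1, h0, h2, hXu, hXl])⟩,
        ⟨(by push_cast; linarith only [hI1, hI2]), (by push_cast; linarith only [hI1, hI2])⟩, (by push_cast; linarith only [p0, h1, hIa, haH, hI1, hI2]), (by push_cast; linarith only [p0, h1, hIa, haH, hI1, hI2])⟩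
    · have hXu := hP.X_lt (31 / 100) (21 / 250) (567 / 100) (by linarith only [p0, h1, hIa, haH, hI1, hI2]) (by linarith only [hI1, hI2]) (by norm_num) (by norm_num) (by norm_num)
      have hXl := hP.le_X (31 / 100) (21 / 250) (19 / 20) (by linarith only [p0, h1, hIa, haH, hI1, hI2]) (by linarith only [hI1, hI2]) (by norm_num)
      exact mid_end_box hP hb (by norm_num) hX (by decide) midExitA_end7
        ⟨⟨by norm_num, by norm_num⟩, ⟨(by push_cast; linarith only [p1, h0, hXu, hXl]), (by push_cast; linarith only [p1, h0, hXu, hXl])⟩,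
        ⟨(by push_cast; linarith only [hI1, hI2]), (by push_cast; linarith only [hI1, hI2])⟩, (by push_cast; linarith only [p0, h1, hIa, haH, hI1, hI2]), (by push_cast; linarith only [p0, h1, hIa, haH, hI1, hI2])⟩

theorem midExitA_end_s3 {a b I X : ℝ} (hP : MidPlace a I X) (hb : b = 1 - 2 * I - a)
    (hI : 1 / 20 ≤ I ∧ I ≤ 1 / 12) (hX : 1000 ≤ X * midBracket midExitA I a (199 / 200)) (p0 : (9 / 50) ≤ a) (p1 : (331 / 100) ≤ X) :
    allEn a b (199 / 200) (2 * I * X) (midBandG midLowA a b (199 / 200) (2 * I * X)) < 0 := by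
  obtain ⟨hI1, hI2⟩ := hI
  have hIa := hP.I_le_a
  have haH := hP.a_le
  rcases lt_or_ge a (49 / 200) with h0 | h0
  · have hXu := hP.X_lt (49 / 200) (21 / 250) (88 / 25) (by linarith only [p0, h0, hIa, haH, hI1, hI2]) (by linarith only [hI1, hI2]) (by norm_num) (by norm_num) (by norm_num)
    have hXl := hP.le_X (49 / 200) (21 / 250) (24 / 25) (by linarith only [p0, h0, hIa, haH, hI1, hI2]) (by linarith only [hI1, hI2]) (by norm_num)
    exact mid_end_box hP hb (by norm_num) hX (by decide) midExitA_end8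
      ⟨⟨by norm_num, by norm_num⟩, ⟨(by push_cast; linarith only [p1, hXu, hXl]), (by push_cast; linarith only [p1, hXu, hXl])⟩,
        ⟨(by push_cast; linarith only [hI1, hI2]), (by push_cast; linarith only [hI1, hI2])⟩, (by push_cast; linarith only [p0, h0, hIa, haH, hI1, hI2]), (by push_cast; linarith only [p0, h0, hIa, haH, hI1, hI2])⟩
  · rcases lt_or_ge X (449 / 100) with h1 | h1
    · rcases lt_or_ge a (139 / 500) with h2 | h2
      · have hXu := hP.X_lt (139 / 500) (21 / 250) (109 / 25) (by linarith only [p0, h0, h2, hIa, haH, hI1, hI2]) (by linarith only [hI1, hI2]) (by norm_num) (by norm_num) (by norm_num)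
        have hXl := hP.le_X (139 / 500) (21 / 250) (19 / 20) (by linarith only [p0, h0, h2, hIa, haH, hI1, hI2]) (by linarith only [hI1, hI2]) (by norm_num)
        exact mid_end_box hP hb (by norm_num) hX (by decide) midExitA_end9
          ⟨⟨by norm_num, by norm_num⟩, ⟨(by push_cast; linarith only [p1, h1, hXu, hXl]), (by push_cast; linarith only [p1, h1, hXu, hXl])⟩,
        ⟨(by push_cast; linarith only [hI1, hI2]), (by push_cast; linarith only [hI1, hI2])⟩, (by push_cast; linarith only [p0, h0, h2, hIa, haH, hI1, hI2]), (by push_cast; linarith only [p0, h0, h2, hIa, haH, hI1, hI2])⟩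
      · rcases lt_or_ge X (39 / 10) with h3 | h3
        · have hXu := hP.X_lt (31 / 100) (21 / 250) (567 / 100) (by linarith only [p0, h0, h2, hIa, haH, hI1, hI2]) (by linarith only [hI1, hI2]) (by norm_num) (by norm_num) (by norm_num)
          have hXl := hP.le_X (31 / 100) (21 / 250) (19 / 20) (by linarith only [p0, h0, h2, hIa, haH, hI1, hI2]) (by linarith only [hI1, hI2]) (by norm_num)
          exact mid_end_box hP hb (by norm_num) hX (by decide) midExitA_end10
            ⟨⟨by norm_num, by norm_num⟩, ⟨(by push_cast; linarith only [p1, h1, h3, hXu, hXl]), (by push_cast; linarith only [p1, h1, h3, hXu, hXl])⟩,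
        ⟨(by push_cast; linarith only [hI1, hI2]), (by push_cast; linarith only [hI1, hI2])⟩, (by push_cast; linarith only [p0, h0, h2, hIa, haH, hI1, hI2]), (by push_cast; linarith only [p0, h0, h2, hIa, haH, hI1, hI2])⟩
        · have hXu := hP.X_lt (31 / 100) (21 / 250) (567 / 100) (by linarith only [p0, h0, h2, hIa, haH, hI1, hI2]) (by linarith only [hI1, hI2]) (by norm_num) (by norm_num) (by norm_num)
          have hXl := hP.le_X (31 / 100) (21 / 250) (19 / 20) (by linarith only [p0, h0, h2, hIa, haH, hI1, hI2]) (by linarith only [hI1, hI2]) (by norm_num)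
          exact mid_end_box hP hb (by norm_num) hX (by decide) midExitA_end11
            ⟨⟨by norm_num, by norm_num⟩, ⟨(by push_cast; linarith only [p1, h1, h3, hXu, hXl]), (by push_cast; linarith only [p1, h1, h3, hXu, hXl])⟩,
        ⟨(by push_cast; linarith only [hI1, hI2]), (by push_cast; linarith only [hI1, hI2])⟩, (by push_cast; linarith only [p0, h0, h2, hIa, haH, hI1, hI2]), (by push_cast; linarith only [p0, h0, h2, hIa, haH, hI1, hI2])⟩
    · have hXu := hP.X_lt (31 / 100) (21 / 250) (567 / 100) (by linarith only [p0, h0, hIa, haH, hI1, hI2]) (by linarith only [hI1, hI2]) (by norm_num) (by norm_num) (by norm_num)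
      have hXl := hP.le_X (31 / 100) (21 / 250) (19 / 20) (by linarith only [p0, h0, hIa, haH, hI1, hI2]) (by linarith only [hI1, hI2]) (by norm_num)
      exact mid_end_box hP hb (by norm_num) hX (by decide) midExitA_end12
        ⟨⟨by norm_num, by norm_num⟩, ⟨(by push_cast; linarith only [p1, h1, hXu, hXl]), (by push_cast; linarith only [p1, h1, hXu, hXl])⟩,
        ⟨(by push_cast; linarith only [hI1, hI2]), (by push_cast; linarith only [hI1, hI2])⟩, (by push_cast; linarith only [p0, h0, hIa, haH, hI1, hI2]), (by push_cast; linarith only [p0, h0, hIa, haH, hI1, hI2])⟩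

theorem midExitA_end_s1 {a b I X : ℝ} (hP : MidPlace a I X) (hb : b = 1 - 2 * I - a)
    (hI : 1 / 20 ≤ I ∧ I ≤ 1 / 12) (hX : 1000 ≤ X * midBracket midExitA I a (199 / 200)) (p0 : (9 / 50) ≤ a) :
    allEn a b (199 / 200) (2 * I * X) (midBandG midLowA a b (199 / 200) (2 * I * X)) < 0 := by
  rcases lt_or_ge X (331 / 100) with h | h
  · exact midExitA_end_s2 hP hb hI hX p0 h
  · exact midExitA_end_s3 hP hb hI hX p0 h

theorem midExitA_end {a b I X : ℝ} (hP : MidPlace a I X) (hb : b = 1 - 2 * I - a)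
    (hI : 1 / 20 ≤ I ∧ I ≤ 1 / 12) (hX : 1000 ≤ X * midBracket midExitA I a (199 / 200)) :
    allEn a b (199 / 200) (2 * I * X) (midBandG midLowA a b (199 / 200) (2 * I * X)) < 0 := by
  rcases lt_or_ge a (9 / 50) with h | h
  · exact midExitA_end_s0 hP hb hI hX  h
  · exact midExitA_end_s1 hP hb hI hX  h

theorem midExitB_bracket {a I X u : ℝ} (hP : MidPlace a I X) (hI : 1 / 12 ≤ I ∧ I < 27 / 250) (hu : 0 < u)
    (hu1 : u ≤ (199 / 200)) : 0 < midBracket midExitB I a u ∧ 0 ≤ midBracketDl midExitB I a u := by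
  obtain ⟨hI1, hI2⟩ := hI
  have hIa := hP.I_le_a
  have haH := hP.a_le
  exact mid_bracket_box midExitB midExitB_pos midExitB_dl
    ⟨⟨(by push_cast; linarith only [hu, hu1]), (by push_cast; linarith only [hu, hu1])⟩, ⟨by norm_num, by norm_num⟩,
        ⟨(by push_cast; linarith only [hI1, hI2]), (by push_cast; linarith only [hI1, hI2])⟩, (by push_cast; linarith only [hIa, haH, hI1, hI2]), (by push_cast; linarith only [hIa, haH, hI1, hI2])⟩

theorem midExitB_sign_s0 {a b I X u : ℝ} (hP : MidPlace a I X) (hb : b = 1 - 2 * I - a)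
    (hI : 1 / 12 ≤ I ∧ I < 27 / 250) (hu : 0 < u) (hu1 : u ≤ (199 / 200))
    (hV : 2 * I * X * midBracket midExitB I a u = 2000 * I)
    (hen : 0 < allEn a b u (2 * I * X) (midBandG midLowB a b u (2 * I * X))) (p0 : I < (19 / 200)) :
    allDot a b u (2 * I * X) (midBandG midLowB a b u (2 * I * X))
      (2 * I * X * midBracketDl midExitB I a u) (-midBracket midExitB I a u) 0 < 0 := by
  have hE := (midExitB_bracket hP hI hu hu1).1
  obtain ⟨hI1, hI2⟩ := hI
  have hIa := hP.I_le_a
  have haH := hP.a_le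
  rcases lt_or_ge u (249 / 500) with h0 | h0
  · exact mid_exit_box hP hb hu (by linarith only [hu1]) rfl hV hE hen (by decide) midExitB_sign0
      ⟨⟨(by push_cast; linarith only [hu, hu1, h0]), (by push_cast; linarith only [hu, hu1, h0])⟩, ⟨by norm_num, by norm_num⟩,
        ⟨(by push_cast; linarith only [p0, hI1, hI2]), (by push_cast; linarith only [p0, hI1, hI2])⟩, (by push_cast; linarith only [hIa, haH, hI1, p0, hI2]), (by push_cast; linarith only [hIa, haH, hI1, p0, hI2])⟩
  · rcases lt_or_ge I (89 / 1000) with h1 | h1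
    · exact mid_exit_box hP hb hu (by linarith only [hu1]) rfl hV hE hen (by decide) midExitB_sign1
        ⟨⟨(by push_cast; linarith only [hu, hu1, h0]), (by push_cast; linarith only [hu, hu1, h0])⟩, ⟨by norm_num, by norm_num⟩,
        ⟨(by push_cast; linarith only [p0, hI1, hI2, h1]), (by push_cast; linarith only [p0, hI1, hI2, h1])⟩, (by push_cast; linarith only [hIa, haH, hI1, h1, p0, hI2]), (by push_cast; linarith only [hIa, haH, hI1, h1, p0, hI2])⟩
    · exact mid_exit_box hP hb hu (by linarith only [hu1]) rfl hV hE hen (by decide) midExitB_sign2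
        ⟨⟨(by push_cast; linarith only [hu, hu1, h0]), (by push_cast; linarith only [hu, hu1, h0])⟩, ⟨by norm_num, by norm_num⟩,
        ⟨(by push_cast; linarith only [p0, hI1, hI2, h1]), (by push_cast; linarith only [p0, hI1, hI2, h1])⟩, (by push_cast; linarith only [hIa, haH, hI1, h1, p0, hI2]), (by push_cast; linarith only [hIa, haH, hI1, h1, p0, hI2])⟩

theorem midExitB_sign_s2 {a b I X u : ℝ} (hP : MidPlace a I X) (hb : b = 1 - 2 * I - a)
    (hI : 1 / 12 ≤ I ∧ I < 27 / 250) (hu : 0 < u) (hu1 : u ≤ (199 / 200))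
    (hV : 2 * I * X * midBracket midExitB I a u = 2000 * I)
    (hen : 0 < allEn a b u (2 * I * X) (midBandG midLowB a b u (2 * I * X))) (p0 : (19 / 200) ≤ I) (p1 : I < (101 / 1000)) :
    allDot a b u (2 * I * X) (midBandG midLowB a b u (2 * I * X))
      (2 * I * X * midBracketDl midExitB I a u) (-midBracket midExitB I a u) 0 < 0 := by
  have hE := (midExitB_bracket hP hI hu hu1).1
  obtain ⟨hI1, hI2⟩ := hI
  have hIa := hP.I_le_a
  have haH := hP.a_le
  rcases lt_or_ge u (249 / 500) with h0 | h0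
  · exact mid_exit_box hP hb hu (by linarith only [hu1]) rfl hV hE hen (by decide) midExitB_sign3
      ⟨⟨(by push_cast; linarith only [hu, hu1, h0]), (by push_cast; linarith only [hu, hu1, h0])⟩, ⟨by norm_num, by norm_num⟩,
        ⟨(by push_cast; linarith only [p0, p1, hI1, hI2]), (by push_cast; linarith only [p0, p1, hI1, hI2])⟩, (by push_cast; linarith only [hIa, haH, hI1, p0, p1, hI2]), (by push_cast; linarith only [hIa, haH, hI1, p0, p1, hI2])⟩
  · rcases lt_or_ge u (747 / 1000) with h1 | h1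
    · exact mid_exit_box hP hb hu (by linarith only [hu1]) rfl hV hE hen (by decide) midExitB_sign4
        ⟨⟨(by push_cast; linarith only [hu, hu1, h0, h1]), (by push_cast; linarith only [hu, hu1, h0, h1])⟩, ⟨by norm_num, by norm_num⟩,
        ⟨(by push_cast; linarith only [p0, p1, hI1, hI2]), (by push_cast; linarith only [p0, p1, hI1, hI2])⟩, (by push_cast; linarith only [hIa, haH, hI1, p0, p1, hI2]), (by push_cast; linarith only [hIa, haH, hI1, p0, p1, hI2])⟩
    · exact mid_exit_box hP hb hu (by linarith only [hu1]) rfl hV hE hen (by decide) midExitB_sign5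
        ⟨⟨(by push_cast; linarith only [hu, hu1, h0, h1]), (by push_cast; linarith only [hu, hu1, h0, h1])⟩, ⟨by norm_num, by norm_num⟩,
        ⟨(by push_cast; linarith only [p0, p1, hI1, hI2]), (by push_cast; linarith only [p0, p1, hI1, hI2])⟩, (by push_cast; linarith only [hIa, haH, hI1, p0, p1, hI2]), (by push_cast; linarith only [hIa, haH, hI1, p0, p1, hI2])⟩

theorem midExitB_sign_s3 {a b I X u : ℝ} (hP : MidPlace a I X) (hb : b = 1 - 2 * I - a)
    (hI : 1 / 12 ≤ I ∧ I < 27 / 250) (hu : 0 < u) (hu1 : u ≤ (199 / 200))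
    (hV : 2 * I * X * midBracket midExitB I a u = 2000 * I)
    (hen : 0 < allEn a b u (2 * I * X) (midBandG midLowB a b u (2 * I * X))) (p0 : (19 / 200) ≤ I) (p1 : (101 / 1000) ≤ I) :
    allDot a b u (2 * I * X) (midBandG midLowB a b u (2 * I * X))
      (2 * I * X * midBracketDl midExitB I a u) (-midBracket midExitB I a u) 0 < 0 := by
  have hE := (midExitB_bracket hP hI hu hu1).1
  obtain ⟨hI1, hI2⟩ := hI
  have hIa := hP.I_le_a
  have haH := hP.a_le
  rcases lt_or_ge a (103 / 500) with h0 | h0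
  · rcases lt_or_ge u (249 / 500) with h1 | h1
    · exact mid_exit_box hP hb hu (by linarith only [hu1]) rfl hV hE hen (by decide) midExitB_sign6
        ⟨⟨(by push_cast; linarith only [hu, hu1, h1]), (by push_cast; linarith only [hu, hu1, h1])⟩, ⟨by norm_num, by norm_num⟩,
        ⟨(by push_cast; linarith only [p0, p1, hI1, hI2]), (by push_cast; linarith only [p0, p1, hI1, hI2])⟩, (by push_cast; linarith only [h0, hIa, haH, hI1, p0, p1, hI2]), (by push_cast; linarith only [h0, hIa, haH, hI1, p0, p1, hI2])⟩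
    · exact mid_exit_box hP hb hu (by linarith only [hu1]) rfl hV hE hen (by decide) midExitB_sign7
        ⟨⟨(by push_cast; linarith only [hu, hu1, h1]), (by push_cast; linarith only [hu, hu1, h1])⟩, ⟨by norm_num, by norm_num⟩,
        ⟨(by push_cast; linarith only [p0, p1, hI1, hI2]), (by push_cast; linarith only [p0, p1, hI1, hI2])⟩, (by push_cast; linarith only [h0, hIa, haH, hI1, p0, p1, hI2]), (by push_cast; linarith only [h0, hIa, haH, hI1, p0, p1, hI2])⟩
  · exact mid_exit_box hP hb hu (by linarith only [hu1]) rfl hV hE hen (by decide) midExitB_sign8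
      ⟨⟨(by push_cast; linarith only [hu, hu1]), (by push_cast; linarith only [hu, hu1])⟩, ⟨by norm_num, by norm_num⟩,
        ⟨(by push_cast; linarith only [p0, p1, hI1, hI2]), (by push_cast; linarith only [p0, p1, hI1, hI2])⟩, (by push_cast; linarith only [h0, hIa, haH, hI1, p0, p1, hI2]), (by push_cast; linarith only [h0, hIa, haH, hI1, p0, p1, hI2])⟩

theorem midExitB_sign_s1 {a b I X u : ℝ} (hP : MidPlace a I X) (hb : b = 1 - 2 * I - a)
    (hI : 1 / 12 ≤ I ∧ I < 27 / 250) (hu : 0 < u) (hu1 : u ≤ (199 / 200))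
    (hV : 2 * I * X * midBracket midExitB I a u = 2000 * I)
    (hen : 0 < allEn a b u (2 * I * X) (midBandG midLowB a b u (2 * I * X))) (p0 : (19 / 200) ≤ I) :
    allDot a b u (2 * I * X) (midBandG midLowB a b u (2 * I * X))
      (2 * I * X * midBracketDl midExitB I a u) (-midBracket midExitB I a u) 0 < 0 := by
  rcases lt_or_ge I (101 / 1000) with h | h
  · exact midExitB_sign_s2 hP hb hI hu hu1 hV hen p0 h
  · exact midExitB_sign_s3 hP hb hI hu hu1 hV hen p0 h

theorem midExitB_sign {a b I X u : ℝ} (hP : MidPlace a I X) (hb : b = 1 - 2 * I - a)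
    (hI : 1 / 12 ≤ I ∧ I < 27 / 250) (hu : 0 < u) (hu1 : u ≤ (199 / 200))
    (hV : 2 * I * X * midBracket midExitB I a u = 2000 * I)
    (hen : 0 < allEn a b u (2 * I * X) (midBandG midLowB a b u (2 * I * X))) :
    allDot a b u (2 * I * X) (midBandG midLowB a b u (2 * I * X))
      (2 * I * X * midBracketDl midExitB I a u) (-midBracket midExitB I a u) 0 < 0 := by
  rcases lt_or_ge I (19 / 200) with h | h
  · exact midExitB_sign_s0 hP hb hI hu hu1 hV hen  h
  · exact midExitB_sign_s1 hP hb hI hu hu1 hV hen  h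

theorem midExitB_end_s0 {a b I X : ℝ} (hP : MidPlace a I X) (hb : b = 1 - 2 * I - a)
    (hI : 1 / 12 ≤ I ∧ I < 27 / 250) (hX : 1000 ≤ X * midBracket midExitB I a (199 / 200)) (p0 : a < (197 / 1000)) :
    allEn a b (199 / 200) (2 * I * X) (midBandG midLowB a b (199 / 200) (2 * I * X)) < 0 := by
  obtain ⟨hI1, hI2⟩ := hI
  have hIa := hP.I_le_a
  have haH := hP.a_le
  rcases lt_or_ge X (211 / 100) with h0 | h0
  · have hXu := hP.X_lt (197 / 1000) (27 / 250) (82 / 25) (by linarith only [p0, hIa, haH, hI1, hI2]) (by linarith only [hI1, hI2]) (by norm_num) (by norm_num) (by norm_num)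
    have hXl := hP.le_X (197 / 1000) (27 / 250) (19 / 20) (by linarith only [p0, hIa, haH, hI1, hI2]) (by linarith only [hI1, hI2]) (by norm_num)
    exact mid_end_box hP hb (by norm_num) hX (by decide) midExitB_end0
      ⟨⟨by norm_num, by norm_num⟩, ⟨(by push_cast; linarith only [h0, hXu, hXl]), (by push_cast; linarith only [h0, hXu, hXl])⟩,
        ⟨(by push_cast; linarith only [hI1, hI2]), (by push_cast; linarith only [hI1, hI2])⟩, (by push_cast; linarith only [p0, hIa, haH, hI1, hI2]), (by push_cast; linarith only [p0, hIa, haH, hI1, hI2])⟩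
  · rcases lt_or_ge X (269 / 100) with h1 | h1
    · have hXu := hP.X_lt (197 / 1000) (27 / 250) (82 / 25) (by linarith only [p0, hIa, haH, hI1, hI2]) (by linarith only [hI1, hI2]) (by norm_num) (by norm_num) (by norm_num)
      have hXl := hP.le_X (197 / 1000) (27 / 250) (19 / 20) (by linarith only [p0, hIa, haH, hI1, hI2]) (by linarith only [hI1, hI2]) (by norm_num)
      exact mid_end_box hP hb (by norm_num) hX (by decide) midExitB_end1
        ⟨⟨by norm_num, by norm_num⟩, ⟨(by push_cast; linarith only [h0, h1, hXu, hXl]), (by push_cast; linarith only [h0, h1, hXu, hXl])⟩,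
        ⟨(by push_cast; linarith only [hI1, hI2]), (by push_cast; linarith only [hI1, hI2])⟩, (by push_cast; linarith only [p0, hIa, haH, hI1, hI2]), (by push_cast; linarith only [p0, hIa, haH, hI1, hI2])⟩
    · have hXu := hP.X_lt (197 / 1000) (27 / 250) (82 / 25) (by linarith only [p0, hIa, haH, hI1, hI2]) (by linarith only [hI1, hI2]) (by norm_num) (by norm_num) (by norm_num)
      have hXl := hP.le_X (197 / 1000) (27 / 250) (19 / 20) (by linarith only [p0, hIa, haH, hI1, hI2]) (by linarith only [hI1, hI2]) (by norm_num)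
      exact mid_end_box hP hb (by norm_num) hX (by decide) midExitB_end2
        ⟨⟨by norm_num, by norm_num⟩, ⟨(by push_cast; linarith only [h0, h1, hXu, hXl]), (by push_cast; linarith only [h0, h1, hXu, hXl])⟩,
        ⟨(by push_cast; linarith only [hI1, hI2]), (by push_cast; linarith only [hI1, hI2])⟩, (by push_cast; linarith only [p0, hIa, haH, hI1, hI2]), (by push_cast; linarith only [p0, hIa, haH, hI1, hI2])⟩

theorem midExitB_end_s3 {a b I X : ℝ} (hP : MidPlace a I X) (hb : b = 1 - 2 * I - a)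
    (hI : 1 / 12 ≤ I ∧ I < 27 / 250) (hX : 1000 ≤ X * midBracket midExitB I a (199 / 200)) (p0 : (197 / 1000) ≤ a) (p1 : X < (87 / 20)) (p2 : a < (127 / 500)) :
    allEn a b (199 / 200) (2 * I * X) (midBandG midLowB a b (199 / 200) (2 * I * X)) < 0 := by
  obtain ⟨hI1, hI2⟩ := hI
  have hIa := hP.I_le_a
  have haH := hP.a_le
  rcases lt_or_ge a (9 / 40) with h0 | h0
  · rcases lt_or_ge X (119 / 50) with h1 | h1
    · have hXu := hP.X_lt (9 / 40) (27 / 250) (191 / 50) (by linarith only [p0, p2, h0, hIa, haH, hI1, hI2]) (by linarith only [hI1, hI2]) (by norm_num) (by norm_num) (by norm_num)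
      have hXl := hP.le_X (9 / 40) (27 / 250) (19 / 20) (by linarith only [p0, p2, h0, hIa, haH, hI1, hI2]) (by linarith only [hI1, hI2]) (by norm_num)
      exact mid_end_box hP hb (by norm_num) hX (by decide) midExitB_end3
        ⟨⟨by norm_num, by norm_num⟩, ⟨(by push_cast; linarith only [p1, h1, hXu, hXl]), (by push_cast; linarith only [p1, h1, hXu, hXl])⟩,
        ⟨(by push_cast; linarith only [hI1, hI2]), (by push_cast; linarith only [hI1, hI2])⟩, (by push_cast; linarith only [p0, p2, h0, hIa, haH, hI1, hI2]), (by push_cast; linarith only [p0, p2, h0, hIa, haH, hI1, hI2])⟩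
    · have hXu := hP.X_lt (9 / 40) (27 / 250) (191 / 50) (by linarith only [p0, p2, h0, hIa, haH, hI1, hI2]) (by linarith only [hI1, hI2]) (by norm_num) (by norm_num) (by norm_num)
      have hXl := hP.le_X (9 / 40) (27 / 250) (19 / 20) (by linarith only [p0, p2, h0, hIa, haH, hI1, hI2]) (by linarith only [hI1, hI2]) (by norm_num)
      exact mid_end_box hP hb (by norm_num) hX (by decide) midExitB_end4
        ⟨⟨by norm_num, by norm_num⟩, ⟨(by push_cast; linarith only [p1, h1, hXu, hXl]), (by push_cast; linarith only [p1, h1, hXu, hXl])⟩,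
        ⟨(by push_cast; linarith only [hI1, hI2]), (by push_cast; linarith only [hI1, hI2])⟩, (by push_cast; linarith only [p0, p2, h0, hIa, haH, hI1, hI2]), (by push_cast; linarith only [p0, p2, h0, hIa, haH, hI1, hI2])⟩
  · rcases lt_or_ge X (66 / 25) with h2 | h2
    · have hXu := hP.X_lt (127 / 500) (27 / 250) (463 / 100) (by linarith only [p0, p2, h0, hIa, haH, hI1, hI2]) (by linarith only [hI1, hI2]) (by norm_num) (by norm_num) (by norm_num)
      have hXl := hP.le_X (127 / 500) (27 / 250) (47 / 50) (by linarith only [p0, p2, h0, hIa, haH, hI1, hI2]) (by linarith only [hI1, hI2]) (by norm_num)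
      exact mid_end_box hP hb (by norm_num) hX (by decide) midExitB_end5
        ⟨⟨by norm_num, by norm_num⟩, ⟨(by push_cast; linarith only [p1, h2, hXu, hXl]), (by push_cast; linarith only [p1, h2, hXu, hXl])⟩,
        ⟨(by push_cast; linarith only [hI1, hI2]), (by push_cast; linarith only [hI1, hI2])⟩, (by push_cast; linarith only [p0, p2, h0, hIa, haH, hI1, hI2]), (by push_cast; linarith only [p0, p2, h0, hIa, haH, hI1, hI2])⟩
    · rcases lt_or_ge X (349 / 100) with h3 | h3
      · have hXu := hP.X_lt (127 / 500) (27 / 250) (463 / 100) (by linarith only [p0, p2, h0, hIa, haH, hI1, hI2]) (by linarith only [hI1, hI2]) (by norm_num) (by norm_num) (by norm_num)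
        have hXl := hP.le_X (127 / 500) (27 / 250) (47 / 50) (by linarith only [p0, p2, h0, hIa, haH, hI1, hI2]) (by linarith only [hI1, hI2]) (by norm_num)
        exact mid_end_box hP hb (by norm_num) hX (by decide) midExitB_end6
          ⟨⟨by norm_num, by norm_num⟩, ⟨(by push_cast; linarith only [p1, h2, h3, hXu, hXl]), (by push_cast; linarith only [p1, h2, h3, hXu, hXl])⟩,
        ⟨(by push_cast; linarith only [hI1, hI2]), (by push_cast; linarith only [hI1, hI2])⟩, (by push_cast; linarith only [p0, p2, h0, hIa, haH, hI1, hI2]), (by push_cast; linarith only [p0, p2, h0, hIa, haH, hI1, hI2])⟩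
      · have hXu := hP.X_lt (127 / 500) (27 / 250) (463 / 100) (by linarith only [p0, p2, h0, hIa, haH, hI1, hI2]) (by linarith only [hI1, hI2]) (by norm_num) (by norm_num) (by norm_num)
        have hXl := hP.le_X (127 / 500) (27 / 250) (47 / 50) (by linarith only [p0, p2, h0, hIa, haH, hI1, hI2]) (by linarith only [hI1, hI2]) (by norm_num)
        exact mid_end_box hP hb (by norm_num) hX (by decide) midExitB_end7
          ⟨⟨by norm_num, by norm_num⟩, ⟨(by push_cast; linarith only [p1, h2, h3, hXu, hXl]), (by push_cast; linarith only [p1, h2, h3, hXu, hXl])⟩,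
        ⟨(by push_cast; linarith only [hI1, hI2]), (by push_cast; linarith only [hI1, hI2])⟩, (by push_cast; linarith only [p0, p2, h0, hIa, haH, hI1, hI2]), (by push_cast; linarith only [p0, p2, h0, hIa, haH, hI1, hI2])⟩

theorem midExitB_end_s4 {a b I X : ℝ} (hP : MidPlace a I X) (hb : b = 1 - 2 * I - a)
    (hI : 1 / 12 ≤ I ∧ I < 27 / 250) (hX : 1000 ≤ X * midBracket midExitB I a (199 / 200)) (p0 : (197 / 1000) ≤ a) (p1 : X < (87 / 20)) (p2 : (127 / 500) ≤ a) :
    allEn a b (199 / 200) (2 * I * X) (midBandG midLowB a b (199 / 200) (2 * I * X)) < 0 := by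
  obtain ⟨hI1, hI2⟩ := hI
  have hIa := hP.I_le_a
  have haH := hP.a_le
  have hXu := hP.X_lt (31 / 100) (27 / 250) (389 / 50) (by linarith only [p0, p2, hIa, haH, hI1, hI2]) (by linarith only [hI1, hI2]) (by norm_num) (by norm_num) (by norm_num)
  have hXl := hP.le_X (31 / 100) (27 / 250) (93 / 100) (by linarith only [p0, p2, hIa, haH, hI1, hI2]) (by linarith only [hI1, hI2]) (by norm_num)
  exact mid_end_box hP hb (by norm_num) hX (by decide) midExitB_end8
    ⟨⟨by norm_num, by norm_num⟩, ⟨(by push_cast; linarith only [p1, hXu, hXl]), (by push_cast; linarith only [p1, hXu, hXl])⟩,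
        ⟨(by push_cast; linarith only [hI1, hI2]), (by push_cast; linarith only [hI1, hI2])⟩, (by push_cast; linarith only [p0, p2, hIa, haH, hI1, hI2]), (by push_cast; linarith only [p0, p2, hIa, haH, hI1, hI2])⟩

theorem midExitB_end_s2 {a b I X : ℝ} (hP : MidPlace a I X) (hb : b = 1 - 2 * I - a)
    (hI : 1 / 12 ≤ I ∧ I < 27 / 250) (hX : 1000 ≤ X * midBracket midExitB I a (199 / 200)) (p0 : (197 / 1000) ≤ a) (p1 : X < (87 / 20)) :
    allEn a b (199 / 200) (2 * I * X) (midBandG midLowB a b (199 / 200) (2 * I * X)) < 0 := by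
  rcases lt_or_ge a (127 / 500) with h | h
  · exact midExitB_end_s3 hP hb hI hX p0 p1 h
  · exact midExitB_end_s4 hP hb hI hX p0 p1 h

theorem midExitB_end_s6 {a b I X : ℝ} (hP : MidPlace a I X) (hb : b = 1 - 2 * I - a)
    (hI : 1 / 12 ≤ I ∧ I < 27 / 250) (hX : 1000 ≤ X * midBracket midExitB I a (199 / 200)) (p0 : (197 / 1000) ≤ a) (p1 : (87 / 20) ≤ X) (p2 : a < (127 / 500)) :
    allEn a b (199 / 200) (2 * I * X) (midBandG midLowB a b (199 / 200) (2 * I * X)) < 0 := by
  obtain ⟨hI1, hI2⟩ := hI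
  have hIa := hP.I_le_a
  have haH := hP.a_le
  have hXu := hP.X_lt (127 / 500) (27 / 250) (463 / 100) (by linarith only [p0, p2, hIa, haH, hI1, hI2]) (by linarith only [hI1, hI2]) (by norm_num) (by norm_num) (by norm_num)
  have hXl := hP.le_X (127 / 500) (27 / 250) (47 / 50) (by linarith only [p0, p2, hIa, haH, hI1, hI2]) (by linarith only [hI1, hI2]) (by norm_num)
  exact mid_end_box hP hb (by norm_num) hX (by decide) midExitB_end9
    ⟨⟨by norm_num, by norm_num⟩, ⟨(by push_cast; linarith only [p1, hXu, hXl]), (by push_cast; linarith only [p1, hXu, hXl])⟩,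
        ⟨(by push_cast; linarith only [hI1, hI2]), (by push_cast; linarith only [hI1, hI2])⟩, (by push_cast; linarith only [p0, p2, hIa, haH, hI1, hI2]), (by push_cast; linarith only [p0, p2, hIa, haH, hI1, hI2])⟩

theorem midExitB_end_s9 {a b I X : ℝ} (hP : MidPlace a I X) (hb : b = 1 - 2 * I - a)
    (hI : 1 / 12 ≤ I ∧ I < 27 / 250) (hX : 1000 ≤ X * midBracket midExitB I a (199 / 200)) (p0 : (197 / 1000) ≤ a) (p1 : (87 / 20) ≤ X) (p2 : (127 / 500) ≤ a) (p3 : X < (303 / 50)) (p4 : a < (141 / 500)) :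
    allEn a b (199 / 200) (2 * I * X) (midBandG midLowB a b (199 / 200) (2 * I * X)) < 0 := by
  obtain ⟨hI1, hI2⟩ := hI
  have hIa := hP.I_le_a
  have haH := hP.a_le
  rcases lt_or_ge X (507 / 100) with h0 | h0
  · rcases lt_or_ge a (67 / 250) with h1 | h1
    · have hXu := hP.X_lt (67 / 250) (27 / 250) (103 / 20) (by linarith only [p0, p2, p4, h1, hIa, haH, hI1, hI2]) (by linarith only [hI1, hI2]) (by norm_num) (by norm_num) (by norm_num)
      have hXl := hP.le_X (67 / 250) (27 / 250) (47 / 50) (by linarith only [p0, p2, p4, h1, hIa, haH, hI1, hI2]) (by linarith only [hI1, hI2]) (by norm_num)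
      exact mid_end_box hP hb (by norm_num) hX (by decide) midExitB_end10
        ⟨⟨by norm_num, by norm_num⟩, ⟨(by push_cast; linarith only [p1, p3, h0, hXu, hXl]), (by push_cast; linarith only [p1, p3, h0, hXu, hXl])⟩,
        ⟨(by push_cast; linarith only [hI1, hI2]), (by push_cast; linarith only [hI1, hI2])⟩, (by push_cast; linarith only [p0, p2, p4, h1, hIa, haH, hI1, hI2]), (by push_cast; linarith only [p0, p2, p4, h1, hIa, haH, hI1, hI2])⟩
    · have hXu := hP.X_lt (141 / 500) (27 / 250) (29 / 5) (by linarith only [p0, p2, p4, h1, hIa, haH, hI1, hI2]) (by linarith only [hI1, hI2]) (by norm_num) (by norm_num) (by norm_num)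
      have hXl := hP.le_X (141 / 500) (27 / 250) (47 / 50) (by linarith only [p0, p2, p4, h1, hIa, haH, hI1, hI2]) (by linarith only [hI1, hI2]) (by norm_num)
      exact mid_end_box hP hb (by norm_num) hX (by decide) midExitB_end11
        ⟨⟨by norm_num, by norm_num⟩, ⟨(by push_cast; linarith only [p1, p3, h0, hXu, hXl]), (by push_cast; linarith only [p1, p3, h0, hXu, hXl])⟩,
        ⟨(by push_cast; linarith only [hI1, hI2]), (by push_cast; linarith only [hI1, hI2])⟩, (by push_cast; linarith only [p0, p2, p4, h1, hIa, haH, hI1, hI2]), (by push_cast; linarith only [p0, p2, p4, h1, hIa, haH, hI1, hI2])⟩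
  · rcases lt_or_ge X (543 / 100) with h2 | h2
    · have hXu := hP.X_lt (141 / 500) (27 / 250) (29 / 5) (by linarith only [p0, p2, p4, hIa, haH, hI1, hI2]) (by linarith only [hI1, hI2]) (by norm_num) (by norm_num) (by norm_num)
      have hXl := hP.le_X (141 / 500) (27 / 250) (47 / 50) (by linarith only [p0, p2, p4, hIa, haH, hI1, hI2]) (by linarith only [hI1, hI2]) (by norm_num)
      exact mid_end_box hP hb (by norm_num) hX (by decide) midExitB_end12
        ⟨⟨by norm_num, by norm_num⟩, ⟨(by push_cast; linarith only [p1, p3, h0, h2, hXu, hXl]), (by push_cast; linarith only [p1, p3, h0, h2, hXu, hXl])⟩,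
        ⟨(by push_cast; linarith only [hI1, hI2]), (by push_cast; linarith only [hI1, hI2])⟩, (by push_cast; linarith only [p0, p2, p4, hIa, haH, hI1, hI2]), (by push_cast; linarith only [p0, p2, p4, hIa, haH, hI1, hI2])⟩
    · have hXu := hP.X_lt (141 / 500) (27 / 250) (29 / 5) (by linarith only [p0, p2, p4, hIa, haH, hI1, hI2]) (by linarith only [hI1, hI2]) (by norm_num) (by norm_num) (by norm_num)
      have hXl := hP.le_X (141 / 500) (27 / 250) (47 / 50) (by linarith only [p0, p2, p4, hIa, haH, hI1, hI2]) (by linarith only [hI1, hI2]) (by norm_num)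
      exact mid_end_box hP hb (by norm_num) hX (by decide) midExitB_end13
        ⟨⟨by norm_num, by norm_num⟩, ⟨(by push_cast; linarith only [p1, p3, h0, h2, hXu, hXl]), (by push_cast; linarith only [p1, p3, h0, h2, hXu, hXl])⟩,
        ⟨(by push_cast; linarith only [hI1, hI2]), (by push_cast; linarith only [hI1, hI2])⟩, (by push_cast; linarith only [p0, p2, p4, hIa, haH, hI1, hI2]), (by push_cast; linarith only [p0, p2, p4, hIa, haH, hI1, hI2])⟩

theorem midExitB_end_s10 {a b I X : ℝ} (hP : MidPlace a I X) (hb : b = 1 - 2 * I - a)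
    (hI : 1 / 12 ≤ I ∧ I < 27 / 250) (hX : 1000 ≤ X * midBracket midExitB I a (199 / 200)) (p0 : (197 / 1000) ≤ a) (p1 : (87 / 20) ≤ X) (p2 : (127 / 500) ≤ a) (p3 : X < (303 / 50)) (p4 : (141 / 500) ≤ a) :
    allEn a b (199 / 200) (2 * I * X) (midBandG midLowB a b (199 / 200) (2 * I * X)) < 0 := by
  obtain ⟨hI1, hI2⟩ := hI
  have hIa := hP.I_le_a
  have haH := hP.a_le
  rcases lt_or_ge X (26 / 5) with h0 | h0
  · have hXu := hP.X_lt (31 / 100) (27 / 250) (389 / 50) (by linarith only [p0, p2, p4, hIa, haH, hI1, hI2]) (by linarith only [hI1, hI2]) (by norm_num) (by norm_num) (by norm_num)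
    have hXl := hP.le_X (31 / 100) (27 / 250) (93 / 100) (by linarith only [p0, p2, p4, hIa, haH, hI1, hI2]) (by linarith only [hI1, hI2]) (by norm_num)
    exact mid_end_box hP hb (by norm_num) hX (by decide) midExitB_end14
      ⟨⟨by norm_num, by norm_num⟩, ⟨(by push_cast; linarith only [p1, p3, h0, hXu, hXl]), (by push_cast; linarith only [p1, p3, h0, hXu, hXl])⟩,
        ⟨(by push_cast; linarith only [hI1, hI2]), (by push_cast; linarith only [hI1, hI2])⟩, (by push_cast; linarith only [p0, p2, p4, hIa, haH, hI1, hI2]), (by push_cast; linarith only [p0, p2, p4, hIa, haH, hI1, hI2])⟩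
  · rcases lt_or_ge a (37 / 125) with h1 | h1
    · rcases lt_or_ge X (563 / 100) with h2 | h2
      · have hXu := hP.X_lt (37 / 125) (27 / 250) (133 / 20) (by linarith only [p0, p2, p4, h1, hIa, haH, hI1, hI2]) (by linarith only [hI1, hI2]) (by norm_num) (by norm_num) (by norm_num)
        have hXl := hP.le_X (37 / 125) (27 / 250) (93 / 100) (by linarith only [p0, p2, p4, h1, hIa, haH, hI1, hI2]) (by linarith only [hI1, hI2]) (by norm_num)
        exact mid_end_box hP hb (by norm_num) hX (by decide) midExitB_end15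
          ⟨⟨by norm_num, by norm_num⟩, ⟨(by push_cast; linarith only [p1, p3, h0, h2, hXu, hXl]), (by push_cast; linarith only [p1, p3, h0, h2, hXu, hXl])⟩,
        ⟨(by push_cast; linarith only [hI1, hI2]), (by push_cast; linarith only [hI1, hI2])⟩, (by push_cast; linarith only [p0, p2, p4, h1, hIa, haH, hI1, hI2]), (by push_cast; linarith only [p0, p2, p4, h1, hIa, haH, hI1, hI2])⟩
      · have hXu := hP.X_lt (37 / 125) (27 / 250) (133 / 20) (by linarith only [p0, p2, p4, h1, hIa, haH, hI1, hI2]) (by linarith only [hI1, hI2]) (by norm_num) (by norm_num) (by norm_num)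
        have hXl := hP.le_X (37 / 125) (27 / 250) (93 / 100) (by linarith only [p0, p2, p4, h1, hIa, haH, hI1, hI2]) (by linarith only [hI1, hI2]) (by norm_num)
        exact mid_end_box hP hb (by norm_num) hX (by decide) midExitB_end16
          ⟨⟨by norm_num, by norm_num⟩, ⟨(by push_cast; linarith only [p1, p3, h0, h2, hXu, hXl]), (by push_cast; linarith only [p1, p3, h0, h2, hXu, hXl])⟩,
        ⟨(by push_cast; linarith only [hI1, hI2]), (by push_cast; linarith only [hI1, hI2])⟩, (by push_cast; linarith only [p0, p2, p4, h1, hIa, haH, hI1, hI2]), (by push_cast; linarith only [p0, p2, p4, h1, hIa, haH, hI1, hI2])⟩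
    · rcases lt_or_ge X (563 / 100) with h3 | h3
      · have hXu := hP.X_lt (31 / 100) (27 / 250) (389 / 50) (by linarith only [p0, p2, p4, h1, hIa, haH, hI1, hI2]) (by linarith only [hI1, hI2]) (by norm_num) (by norm_num) (by norm_num)
        have hXl := hP.le_X (31 / 100) (27 / 250) (93 / 100) (by linarith only [p0, p2, p4, h1, hIa, haH, hI1, hI2]) (by linarith only [hI1, hI2]) (by norm_num)
        exact mid_end_box hP hb (by norm_num) hX (by decide) midExitB_end17
          ⟨⟨by norm_num, by norm_num⟩, ⟨(by push_cast; linarith only [p1, p3, h0, h3, hXu, hXl]), (by push_cast; linarith only [p1, p3, h0, h3, hXu, hXl])⟩,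
        ⟨(by push_cast; linarith only [hI1, hI2]), (by push_cast; linarith only [hI1, hI2])⟩, (by push_cast; linarith only [p0, p2, p4, h1, hIa, haH, hI1, hI2]), (by push_cast; linarith only [p0, p2, p4, h1, hIa, haH, hI1, hI2])⟩
      · have hXu := hP.X_lt (31 / 100) (27 / 250) (389 / 50) (by linarith only [p0, p2, p4, h1, hIa, haH, hI1, hI2]) (by linarith only [hI1, hI2]) (by norm_num) (by norm_num) (by norm_num)
        have hXl := hP.le_X (31 / 100) (27 / 250) (93 / 100) (by linarith only [p0, p2, p4, h1, hIa, haH, hI1, hI2]) (by linarith only [hI1, hI2]) (by norm_num)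
        exact mid_end_box hP hb (by norm_num) hX (by decide) midExitB_end18
          ⟨⟨by norm_num, by norm_num⟩, ⟨(by push_cast; linarith only [p1, p3, h0, h3, hXu, hXl]), (by push_cast; linarith only [p1, p3, h0, h3, hXu, hXl])⟩,
        ⟨(by push_cast; linarith only [hI1, hI2]), (by push_cast; linarith only [hI1, hI2])⟩, (by push_cast; linarith only [p0, p2, p4, h1, hIa, haH, hI1, hI2]), (by push_cast; linarith only [p0, p2, p4, h1, hIa, haH, hI1, hI2])⟩

theorem midExitB_end_s8 {a b I X : ℝ} (hP : MidPlace a I X) (hb : b = 1 - 2 * I - a)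
    (hI : 1 / 12 ≤ I ∧ I < 27 / 250) (hX : 1000 ≤ X * midBracket midExitB I a (199 / 200)) (p0 : (197 / 1000) ≤ a) (p1 : (87 / 20) ≤ X) (p2 : (127 / 500) ≤ a) (p3 : X < (303 / 50)) :
    allEn a b (199 / 200) (2 * I * X) (midBandG midLowB a b (199 / 200) (2 * I * X)) < 0 := by
  rcases lt_or_ge a (141 / 500) with h | h
  · exact midExitB_end_s9 hP hb hI hX p0 p1 p2 p3 h
  · exact midExitB_end_s10 hP hb hI hX p0 p1 p2 p3 h

theorem midExitB_end_s11 {a b I X : ℝ} (hP : MidPlace a I X) (hb : b = 1 - 2 * I - a)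
    (hI : 1 / 12 ≤ I ∧ I < 27 / 250) (hX : 1000 ≤ X * midBracket midExitB I a (199 / 200)) (p0 : (197 / 1000) ≤ a) (p1 : (87 / 20) ≤ X) (p2 : (127 / 500) ≤ a) (p3 : (303 / 50) ≤ X) :
    allEn a b (199 / 200) (2 * I * X) (midBandG midLowB a b (199 / 200) (2 * I * X)) < 0 := by
  obtain ⟨hI1, hI2⟩ := hI
  have hIa := hP.I_le_a
  have haH := hP.a_le
  rcases lt_or_ge a (141 / 500) with h0 | h0
  · have hXu := hP.X_lt (141 / 500) (27 / 250) (29 / 5) (by linarith only [p0, p2, h0, hIa, haH, hI1, hI2]) (by linarith only [hI1, hI2]) (by norm_num) (by norm_num) (by norm_num)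
    have hXl := hP.le_X (141 / 500) (27 / 250) (47 / 50) (by linarith only [p0, p2, h0, hIa, haH, hI1, hI2]) (by linarith only [hI1, hI2]) (by norm_num)
    exfalso; linarith
  · rcases lt_or_ge X (173 / 25) with h1 | h1
    · rcases lt_or_ge X (649 / 100) with h2 | h2
      · have hXu := hP.X_lt (31 / 100) (27 / 250) (389 / 50) (by linarith only [p0, p2, h0, hIa, haH, hI1, hI2]) (by linarith only [hI1, hI2]) (by norm_num) (by norm_num) (by norm_num)
        have hXl := hP.le_X (31 / 100) (27 / 250) (93 / 100) (by linarith only [p0, p2, h0, hIa, haH, hI1, hI2]) (by linarith only [hI1, hI2]) (by norm_num)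
        exact mid_end_box hP hb (by norm_num) hX (by decide) midExitB_end19
          ⟨⟨by norm_num, by norm_num⟩, ⟨(by push_cast; linarith only [p1, p3, h1, h2, hXu, hXl]), (by push_cast; linarith only [p1, p3, h1, h2, hXu, hXl])⟩,
        ⟨(by push_cast; linarith only [hI1, hI2]), (by push_cast; linarith only [hI1, hI2])⟩, (by push_cast; linarith only [p0, p2, h0, hIa, haH, hI1, hI2]), (by push_cast; linarith only [p0, p2, h0, hIa, haH, hI1, hI2])⟩
      · have hXu := hP.X_lt (31 / 100) (27 / 250) (389 / 50) (by linarith only [p0, p2, h0, hIa, haH, hI1, hI2]) (by linarith only [hI1, hI2]) (by norm_num) (by norm_num) (by norm_num)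
        have hXl := hP.le_X (31 / 100) (27 / 250) (93 / 100) (by linarith only [p0, p2, h0, hIa, haH, hI1, hI2]) (by linarith only [hI1, hI2]) (by norm_num)
        exact mid_end_box hP hb (by norm_num) hX (by decide) midExitB_end20
          ⟨⟨by norm_num, by norm_num⟩, ⟨(by push_cast; linarith only [p1, p3, h1, h2, hXu, hXl]), (by push_cast; linarith only [p1, p3, h1, h2, hXu, hXl])⟩,
        ⟨(by push_cast; linarith only [hI1, hI2]), (by push_cast; linarith only [hI1, hI2])⟩, (by push_cast; linarith only [p0, p2, h0, hIa, haH, hI1, hI2]), (by push_cast; linarith only [p0, p2, h0, hIa, haH, hI1, hI2])⟩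
    · have hXu := hP.X_lt (31 / 100) (27 / 250) (389 / 50) (by linarith only [p0, p2, h0, hIa, haH, hI1, hI2]) (by linarith only [hI1, hI2]) (by norm_num) (by norm_num) (by norm_num)
      have hXl := hP.le_X (31 / 100) (27 / 250) (93 / 100) (by linarith only [p0, p2, h0, hIa, haH, hI1, hI2]) (by linarith only [hI1, hI2]) (by norm_num)
      exact mid_end_box hP hb (by norm_num) hX (by decide) midExitB_end21
        ⟨⟨by norm_num, by norm_num⟩, ⟨(by push_cast; linarith only [p1, p3, h1, hXu, hXl]), (by push_cast; linarith only [p1, p3, h1, hXu, hXl])⟩,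
        ⟨(by push_cast; linarith only [hI1, hI2]), (by push_cast; linarith only [hI1, hI2])⟩, (by push_cast; linarith only [p0, p2, h0, hIa, haH, hI1, hI2]), (by push_cast; linarith only [p0, p2, h0, hIa, haH, hI1, hI2])⟩

theorem midExitB_end_s7 {a b I X : ℝ} (hP : MidPlace a I X) (hb : b = 1 - 2 * I - a)
    (hI : 1 / 12 ≤ I ∧ I < 27 / 250) (hX : 1000 ≤ X * midBracket midExitB I a (199 / 200)) (p0 : (197 / 1000) ≤ a) (p1 : (87 / 20) ≤ X) (p2 : (127 / 500) ≤ a) :
    allEn a b (199 / 200) (2 * I * X) (midBandG midLowB a b (199 / 200) (2 * I * X)) < 0 := by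
  rcases lt_or_ge X (303 / 50) with h | h
  · exact midExitB_end_s8 hP hb hI hX p0 p1 p2 h
  · exact midExitB_end_s11 hP hb hI hX p0 p1 p2 h

theorem midExitB_end_s5 {a b I X : ℝ} (hP : MidPlace a I X) (hb : b = 1 - 2 * I - a)
    (hI : 1 / 12 ≤ I ∧ I < 27 / 250) (hX : 1000 ≤ X * midBracket midExitB I a (199 / 200)) (p0 : (197 / 1000) ≤ a) (p1 : (87 / 20) ≤ X) :
    allEn a b (199 / 200) (2 * I * X) (midBandG midLowB a b (199 / 200) (2 * I * X)) < 0 := by
  rcases lt_or_ge a (127 / 500) with h | h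
  · exact midExitB_end_s6 hP hb hI hX p0 p1 h
  · exact midExitB_end_s7 hP hb hI hX p0 p1 h

theorem midExitB_end_s1 {a b I X : ℝ} (hP : MidPlace a I X) (hb : b = 1 - 2 * I - a)
    (hI : 1 / 12 ≤ I ∧ I < 27 / 250) (hX : 1000 ≤ X * midBracket midExitB I a (199 / 200)) (p0 : (197 / 1000) ≤ a) :
    allEn a b (199 / 200) (2 * I * X) (midBandG midLowB a b (199 / 200) (2 * I * X)) < 0 := by
  rcases lt_or_ge X (87 / 20) with h | h
  · exact midExitB_end_s2 hP hb hI hX p0 h
  · exact midExitB_end_s5 hP hb hI hX p0 h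

theorem midExitB_end {a b I X : ℝ} (hP : MidPlace a I X) (hb : b = 1 - 2 * I - a)
    (hI : 1 / 12 ≤ I ∧ I < 27 / 250) (hX : 1000 ≤ X * midBracket midExitB I a (199 / 200)) :
    allEn a b (199 / 200) (2 * I * X) (midBandG midLowB a b (199 / 200) (2 * I * X)) < 0 := by
  rcases lt_or_ge a (197 / 1000) with h | h
  · exact midExitB_end_s0 hP hb hI hX  h
  · exact midExitB_end_s1 hP hb hI hX  h

theorem midExitC_bracket {a I X u : ℝ} (hP : MidPlace a I X) (hI : 27 / 250 ≤ I ∧ I ≤ 1 / 7) (hu : 0 < u)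
    (hu1 : u ≤ (199 / 200)) : 0 < midBracket midExitC I a u ∧ 0 ≤ midBracketDl midExitC I a u := by
  obtain ⟨hI1, hI2⟩ := hI
  have hIa := hP.I_le_a
  have haH := hP.a_le
  exact mid_bracket_box midExitC midExitC_pos midExitC_dl
    ⟨⟨(by push_cast; linarith only [hu, hu1]), (by push_cast; linarith only [hu, hu1])⟩, ⟨by norm_num, by norm_num⟩,
        ⟨(by push_cast; linarith only [hI1, hI2]), (by push_cast; linarith only [hI1, hI2])⟩, (by push_cast; linarith only [hIa, haH, hI1, hI2]), (by push_cast; linarith only [hIa, haH, hI1, hI2])⟩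

theorem midExitC_sign {a b I X u : ℝ} (hP : MidPlace a I X) (hb : b = 1 - 2 * I - a)
    (hI : 27 / 250 ≤ I ∧ I ≤ 1 / 7) (hu : 0 < u) (hu1 : u ≤ (199 / 200))
    (hV : 2 * I * X * midBracket midExitC I a u = 2000 * I)
    (hen : 0 < allEn a b u (2 * I * X) (midBandG midLowC a b u (2 * I * X))) :
    allDot a b u (2 * I * X) (midBandG midLowC a b u (2 * I * X))
      (2 * I * X * midBracketDl midExitC I a u) (-midBracket midExitC I a u) 0 < 0 := by
  have hE := (midExitC_bracket hP hI hu hu1).1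
  obtain ⟨hI1, hI2⟩ := hI
  have hIa := hP.I_le_a
  have haH := hP.a_le
  rcases lt_or_ge u (249 / 500) with h0 | h0
  · exact mid_exit_box hP hb hu (by linarith only [hu1]) rfl hV hE hen (by decide) midExitC_sign0
      ⟨⟨(by push_cast; linarith only [hu, hu1, h0]), (by push_cast; linarith only [hu, hu1, h0])⟩, ⟨by norm_num, by norm_num⟩,
        ⟨(by push_cast; linarith only [hI1, hI2]), (by push_cast; linarith only [hI1, hI2])⟩, (by push_cast; linarith only [hIa, haH, hI1, hI2]), (by push_cast; linarith only [hIa, haH, hI1, hI2])⟩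
  · rcases lt_or_ge a (209 / 1000) with h1 | h1
    · exact mid_exit_box hP hb hu (by linarith only [hu1]) rfl hV hE hen (by decide) midExitC_sign1
        ⟨⟨(by push_cast; linarith only [hu, hu1, h0]), (by push_cast; linarith only [hu, hu1, h0])⟩, ⟨by norm_num, by norm_num⟩,
        ⟨(by push_cast; linarith only [hI1, hI2]), (by push_cast; linarith only [hI1, hI2])⟩, (by push_cast; linarith only [h1, hIa, haH, hI1, hI2]), (by push_cast; linarith only [h1, hIa, haH, hI1, hI2])⟩
    · exact mid_exit_box hP hb hu (by linarith only [hu1]) rfl hV hE hen (by decide) midExitC_sign2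
        ⟨⟨(by push_cast; linarith only [hu, hu1, h0]), (by push_cast; linarith only [hu, hu1, h0])⟩, ⟨by norm_num, by norm_num⟩,
        ⟨(by push_cast; linarith only [hI1, hI2]), (by push_cast; linarith only [hI1, hI2])⟩, (by push_cast; linarith only [h1, hIa, haH, hI1, hI2]), (by push_cast; linarith only [h1, hIa, haH, hI1, hI2])⟩

theorem midExitC_end_s0 {a b I X : ℝ} (hP : MidPlace a I X) (hb : b = 1 - 2 * I - a)
    (hI : 27 / 250 ≤ I ∧ I ≤ 1 / 7) (hX : 1000 ≤ X * midBracket midExitC I a (199 / 200)) (p0 : a < (209 / 1000)) :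
    allEn a b (199 / 200) (2 * I * X) (midBandG midLowC a b (199 / 200) (2 * I * X)) < 0 := by
  obtain ⟨hI1, hI2⟩ := hI
  have hIa := hP.I_le_a
  have haH := hP.a_le
  rcases lt_or_ge X (71 / 25) with h0 | h0
  · have hXu := hP.X_lt (209 / 1000) (143 / 1000) (237 / 50) (by linarith only [p0, hIa, haH, hI1, hI2]) (by linarith only [hI1, hI2]) (by norm_num) (by norm_num) (by norm_num)
    have hXl := hP.le_X (209 / 1000) (143 / 1000) (47 / 50) (by linarith only [p0, hIa, haH, hI1, hI2]) (by linarith only [hI1, hI2]) (by norm_num)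
    exact mid_end_box hP hb (by norm_num) hX (by decide) midExitC_end0
      ⟨⟨by norm_num, by norm_num⟩, ⟨(by push_cast; linarith only [h0, hXu, hXl]), (by push_cast; linarith only [h0, hXu, hXl])⟩,
        ⟨(by push_cast; linarith only [hI1, hI2]), (by push_cast; linarith only [hI1, hI2])⟩, (by push_cast; linarith only [p0, hIa, haH, hI1, hI2]), (by push_cast; linarith only [p0, hIa, haH, hI1, hI2])⟩
  · rcases lt_or_ge X (379 / 100) with h1 | h1
    · have hXu := hP.X_lt (209 / 1000) (143 / 1000) (237 / 50) (by linarith only [p0, hIa, haH, hI1, hI2]) (by linarith only [hI1, hI2]) (by norm_num) (by norm_num) (by norm_num)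
      have hXl := hP.le_X (209 / 1000) (143 / 1000) (47 / 50) (by linarith only [p0, hIa, haH, hI1, hI2]) (by linarith only [hI1, hI2]) (by norm_num)
      exact mid_end_box hP hb (by norm_num) hX (by decide) midExitC_end1
        ⟨⟨by norm_num, by norm_num⟩, ⟨(by push_cast; linarith only [h0, h1, hXu, hXl]), (by push_cast; linarith only [h0, h1, hXu, hXl])⟩,
        ⟨(by push_cast; linarith only [hI1, hI2]), (by push_cast; linarith only [hI1, hI2])⟩, (by push_cast; linarith only [p0, hIa, haH, hI1, hI2]), (by push_cast; linarith only [p0, hIa, haH, hI1, hI2])⟩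
    · have hXu := hP.X_lt (209 / 1000) (143 / 1000) (237 / 50) (by linarith only [p0, hIa, haH, hI1, hI2]) (by linarith only [hI1, hI2]) (by norm_num) (by norm_num) (by norm_num)
      have hXl := hP.le_X (209 / 1000) (143 / 1000) (47 / 50) (by linarith only [p0, hIa, haH, hI1, hI2]) (by linarith only [hI1, hI2]) (by norm_num)
      exact mid_end_box hP hb (by norm_num) hX (by decide) midExitC_end2
        ⟨⟨by norm_num, by norm_num⟩, ⟨(by push_cast; linarith only [h0, h1, hXu, hXl]), (by push_cast; linarith only [h0, h1, hXu, hXl])⟩,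
        ⟨(by push_cast; linarith only [hI1, hI2]), (by push_cast; linarith only [hI1, hI2])⟩, (by push_cast; linarith only [p0, hIa, haH, hI1, hI2]), (by push_cast; linarith only [p0, hIa, haH, hI1, hI2])⟩

theorem midExitC_end_s3 {a b I X : ℝ} (hP : MidPlace a I X) (hb : b = 1 - 2 * I - a)
    (hI : 27 / 250 ≤ I ∧ I ≤ 1 / 7) (hX : 1000 ≤ X * midBracket midExitC I a (199 / 200)) (p0 : (209 / 1000) ≤ a) (p1 : X < (79 / 10)) (p2 : X < (22 / 5)) :
    allEn a b (199 / 200) (2 * I * X) (midBandG midLowC a b (199 / 200) (2 * I * X)) < 0 := by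
  obtain ⟨hI1, hI2⟩ := hI
  have hIa := hP.I_le_a
  have haH := hP.a_le
  have hXu := hP.X_lt (31 / 100) (143 / 1000) (149 / 10) (by linarith only [p0, hIa, haH, hI1, hI2]) (by linarith only [hI1, hI2]) (by norm_num) (by norm_num) (by norm_num)
  have hXl := hP.le_X (31 / 100) (143 / 1000) (91 / 100) (by linarith only [p0, hIa, haH, hI1, hI2]) (by linarith only [hI1, hI2]) (by norm_num)
  exact mid_end_box hP hb (by norm_num) hX (by decide) midExitC_end3
    ⟨⟨by norm_num, by norm_num⟩, ⟨(by push_cast; linarith only [p1, p2, hXu, hXl]), (by push_cast; linarith only [p1, p2, hXu, hXl])⟩,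
        ⟨(by push_cast; linarith only [hI1, hI2]), (by push_cast; linarith only [hI1, hI2])⟩, (by push_cast; linarith only [p0, hIa, haH, hI1, hI2]), (by push_cast; linarith only [p0, hIa, haH, hI1, hI2])⟩

theorem midExitC_end_s5 {a b I X : ℝ} (hP : MidPlace a I X) (hb : b = 1 - 2 * I - a)
    (hI : 27 / 250 ≤ I ∧ I ≤ 1 / 7) (hX : 1000 ≤ X * midBracket midExitC I a (199 / 200)) (p0 : (209 / 1000) ≤ a) (p1 : X < (79 / 10)) (p2 : (22 / 5) ≤ X) (p3 : a < (13 / 50)) :
    allEn a b (199 / 200) (2 * I * X) (midBandG midLowC a b (199 / 200) (2 * I * X)) < 0 := by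
  obtain ⟨hI1, hI2⟩ := hI
  have hIa := hP.I_le_a
  have haH := hP.a_le
  rcases lt_or_ge X (581 / 100) with h0 | h0
  · have hXu := hP.X_lt (13 / 50) (143 / 1000) (361 / 50) (by linarith only [p0, p3, hIa, haH, hI1, hI2]) (by linarith only [hI1, hI2]) (by norm_num) (by norm_num) (by norm_num)
    have hXl := hP.le_X (13 / 50) (143 / 1000) (93 / 100) (by linarith only [p0, p3, hIa, haH, hI1, hI2]) (by linarith only [hI1, hI2]) (by norm_num)
    exact mid_end_box hP hb (by norm_num) hX (by decide) midExitC_end4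
      ⟨⟨by norm_num, by norm_num⟩, ⟨(by push_cast; linarith only [p1, p2, h0, hXu, hXl]), (by push_cast; linarith only [p1, p2, h0, hXu, hXl])⟩,
        ⟨(by push_cast; linarith only [hI1, hI2]), (by push_cast; linarith only [hI1, hI2])⟩, (by push_cast; linarith only [p0, p3, hIa, haH, hI1, hI2]), (by push_cast; linarith only [p0, p3, hIa, haH, hI1, hI2])⟩
  · rcases lt_or_ge a (117 / 500) with h1 | h1
    · have hXu := hP.X_lt (117 / 500) (143 / 1000) (57 / 10) (by linarith only [p0, p3, h1, hIa, haH, hI1, hI2]) (by linarith only [hI1, hI2]) (by norm_num) (by norm_num) (by norm_num)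
      have hXl := hP.le_X (117 / 500) (143 / 1000) (93 / 100) (by linarith only [p0, p3, h1, hIa, haH, hI1, hI2]) (by linarith only [hI1, hI2]) (by norm_num)
      exfalso; linarith
    · rcases lt_or_ge X (651 / 100) with h2 | h2
      · have hXu := hP.X_lt (13 / 50) (143 / 1000) (361 / 50) (by linarith only [p0, p3, h1, hIa, haH, hI1, hI2]) (by linarith only [hI1, hI2]) (by norm_num) (by norm_num) (by norm_num)
        have hXl := hP.le_X (13 / 50) (143 / 1000) (93 / 100) (by linarith only [p0, p3, h1, hIa, haH, hI1, hI2]) (by linarith only [hI1, hI2]) (by norm_num)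
        exact mid_end_box hP hb (by norm_num) hX (by decide) midExitC_end5
          ⟨⟨by norm_num, by norm_num⟩, ⟨(by push_cast; linarith only [p1, p2, h0, h2, hXu, hXl]), (by push_cast; linarith only [p1, p2, h0, h2, hXu, hXl])⟩,
        ⟨(by push_cast; linarith only [hI1, hI2]), (by push_cast; linarith only [hI1, hI2])⟩, (by push_cast; linarith only [p0, p3, h1, hIa, haH, hI1, hI2]), (by push_cast; linarith only [p0, p3, h1, hIa, haH, hI1, hI2])⟩
      · have hXu := hP.X_lt (13 / 50) (143 / 1000) (361 / 50) (by linarith only [p0, p3, h1, hIa, haH, hI1, hI2]) (by linarith only [hI1, hI2]) (by norm_num) (by norm_num) (by norm_num)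
        have hXl := hP.le_X (13 / 50) (143 / 1000) (93 / 100) (by linarith only [p0, p3, h1, hIa, haH, hI1, hI2]) (by linarith only [hI1, hI2]) (by norm_num)
        exact mid_end_box hP hb (by norm_num) hX (by decide) midExitC_end6
          ⟨⟨by norm_num, by norm_num⟩, ⟨(by push_cast; linarith only [p1, p2, h0, h2, hXu, hXl]), (by push_cast; linarith only [p1, p2, h0, h2, hXu, hXl])⟩,
        ⟨(by push_cast; linarith only [hI1, hI2]), (by push_cast; linarith only [hI1, hI2])⟩, (by push_cast; linarith only [p0, p3, h1, hIa, haH, hI1, hI2]), (by push_cast; linarith only [p0, p3, h1, hIa, haH, hI1, hI2])⟩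

theorem midExitC_end_s7 {a b I X : ℝ} (hP : MidPlace a I X) (hb : b = 1 - 2 * I - a)
    (hI : 27 / 250 ≤ I ∧ I ≤ 1 / 7) (hX : 1000 ≤ X * midBracket midExitC I a (199 / 200)) (p0 : (209 / 1000) ≤ a) (p1 : X < (79 / 10)) (p2 : (22 / 5) ≤ X) (p3 : (13 / 50) ≤ a) (p4 : X < (123 / 20)) :
    allEn a b (199 / 200) (2 * I * X) (midBandG midLowC a b (199 / 200) (2 * I * X)) < 0 := by
  obtain ⟨hI1, hI2⟩ := hI
  have hIa := hP.I_le_a
  have haH := hP.a_le
  have hXu := hP.X_lt (31 / 100) (143 / 1000) (149 / 10) (by linarith only [p0, p3, hIa, haH, hI1, hI2]) (by linarith only [hI1, hI2]) (by norm_num) (by norm_num) (by norm_num)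
  have hXl := hP.le_X (31 / 100) (143 / 1000) (91 / 100) (by linarith only [p0, p3, hIa, haH, hI1, hI2]) (by linarith only [hI1, hI2]) (by norm_num)
  exact mid_end_box hP hb (by norm_num) hX (by decide) midExitC_end7
    ⟨⟨by norm_num, by norm_num⟩, ⟨(by push_cast; linarith only [p1, p2, p4, hXu, hXl]), (by push_cast; linarith only [p1, p2, p4, hXu, hXl])⟩,
        ⟨(by push_cast; linarith only [hI1, hI2]), (by push_cast; linarith only [hI1, hI2])⟩, (by push_cast; linarith only [p0, p3, hIa, haH, hI1, hI2]), (by push_cast; linarith only [p0, p3, hIa, haH, hI1, hI2])⟩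

theorem midExitC_end_s8 {a b I X : ℝ} (hP : MidPlace a I X) (hb : b = 1 - 2 * I - a)
    (hI : 27 / 250 ≤ I ∧ I ≤ 1 / 7) (hX : 1000 ≤ X * midBracket midExitC I a (199 / 200)) (p0 : (209 / 1000) ≤ a) (p1 : X < (79 / 10)) (p2 : (22 / 5) ≤ X) (p3 : (13 / 50) ≤ a) (p4 : (123 / 20) ≤ X) :
    allEn a b (199 / 200) (2 * I * X) (midBandG midLowC a b (199 / 200) (2 * I * X)) < 0 := by
  obtain ⟨hI1, hI2⟩ := hI
  have hIa := hP.I_le_a
  have haH := hP.a_le
  rcases lt_or_ge a (57 / 200) with h0 | h0
  · rcases lt_or_ge X (351 / 50) with h1 | h1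
    · have hXu := hP.X_lt (57 / 200) (143 / 1000) (973 / 100) (by linarith only [p0, p3, h0, hIa, haH, hI1, hI2]) (by linarith only [hI1, hI2]) (by norm_num) (by norm_num) (by norm_num)
      have hXl := hP.le_X (57 / 200) (143 / 1000) (23 / 25) (by linarith only [p0, p3, h0, hIa, haH, hI1, hI2]) (by linarith only [hI1, hI2]) (by norm_num)
      exact mid_end_box hP hb (by norm_num) hX (by decide) midExitC_end8
        ⟨⟨by norm_num, by norm_num⟩, ⟨(by push_cast; linarith only [p1, p2, p4, h1, hXu, hXl]), (by push_cast; linarith only [p1, p2, p4, h1, hXu, hXl])⟩,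
        ⟨(by push_cast; linarith only [hI1, hI2]), (by push_cast; linarith only [hI1, hI2])⟩, (by push_cast; linarith only [p0, p3, h0, hIa, haH, hI1, hI2]), (by push_cast; linarith only [p0, p3, h0, hIa, haH, hI1, hI2])⟩
    · rcases lt_or_ge I (1 / 8) with h2 | h2
      · have hXu := hP.X_lt (57 / 200) (1 / 8) (741 / 100) (by linarith only [p0, p3, h0, hIa, haH, hI1, h2, hI2]) (by linarith only [hI1, hI2, h2]) (by norm_num) (by norm_num) (by norm_num)
        have hXl := hP.le_X (57 / 200) (1 / 8) (93 / 100) (by linarith only [p0, p3, h0, hIa, haH, hI1, h2, hI2]) (by linarith only [hI1, hI2, h2]) (by norm_num)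
        exact mid_end_box hP hb (by norm_num) hX (by decide) midExitC_end9
          ⟨⟨by norm_num, by norm_num⟩, ⟨(by push_cast; linarith only [p1, p2, p4, h1, hXu, hXl]), (by push_cast; linarith only [p1, p2, p4, h1, hXu, hXl])⟩,
        ⟨(by push_cast; linarith only [hI1, hI2, h2]), (by push_cast; linarith only [hI1, hI2, h2])⟩, (by push_cast; linarith only [p0, p3, h0, hIa, haH, hI1, h2, hI2]), (by push_cast; linarith only [p0, p3, h0, hIa, haH, hI1, h2, hI2])⟩
      · have hXu := hP.X_lt (57 / 200) (143 / 1000) (973 / 100) (by linarith only [p0, p3, h0, hIa, haH, hI1, h2, hI2]) (by linarith only [hI1, hI2, h2]) (by norm_num) (by norm_num) (by norm_num)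
        have hXl := hP.le_X (57 / 200) (143 / 1000) (23 / 25) (by linarith only [p0, p3, h0, hIa, haH, hI1, h2, hI2]) (by linarith only [hI1, hI2, h2]) (by norm_num)
        exact mid_end_box hP hb (by norm_num) hX (by decide) midExitC_end10
          ⟨⟨by norm_num, by norm_num⟩, ⟨(by push_cast; linarith only [p1, p2, p4, h1, hXu, hXl]), (by push_cast; linarith only [p1, p2, p4, h1, hXu, hXl])⟩,
        ⟨(by push_cast; linarith only [hI1, hI2, h2]), (by push_cast; linarith only [hI1, hI2, h2])⟩, (by push_cast; linarith only [p0, p3, h0, hIa, haH, hI1, h2, hI2]), (by push_cast; linarith only [p0, p3, h0, hIa, haH, hI1, h2, hI2])⟩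
  · rcases lt_or_ge I (1 / 8) with h3 | h3
    · have hXu := hP.X_lt (31 / 100) (1 / 8) (513 / 50) (by linarith only [p0, p3, h0, hIa, haH, hI1, h3, hI2]) (by linarith only [hI1, hI2, h3]) (by norm_num) (by norm_num) (by norm_num)
      have hXl := hP.le_X (31 / 100) (1 / 8) (23 / 25) (by linarith only [p0, p3, h0, hIa, haH, hI1, h3, hI2]) (by linarith only [hI1, hI2, h3]) (by norm_num)
      exact mid_end_box hP hb (by norm_num) hX (by decide) midExitC_end11
        ⟨⟨by norm_num, by norm_num⟩, ⟨(by push_cast; linarith only [p1, p2, p4, hXu, hXl]), (by push_cast; linarith only [p1, p2, p4, hXu, hXl])⟩,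
        ⟨(by push_cast; linarith only [hI1, hI2, h3]), (by push_cast; linarith only [hI1, hI2, h3])⟩, (by push_cast; linarith only [p0, p3, h0, hIa, haH, hI1, h3, hI2]), (by push_cast; linarith only [p0, p3, h0, hIa, haH, hI1, h3, hI2])⟩
    · have hXu := hP.X_lt_av (57 / 200) (1 / 8) (351 / 25) (by linarith only [p0, p3, h0, hIa, haH, hI1, h3, hI2]) (by linarith only [hI1, hI2, h3]) (by norm_num) (by norm_num) (by norm_num)
      have hXl := hP.le_X (31 / 100) (143 / 1000) (91 / 100) (by linarith only [p0, p3, h0, hIa, haH, hI1, h3, hI2]) (by linarith only [hI1, hI2, h3]) (by norm_num)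
      exact mid_end_box hP hb (by norm_num) hX (by decide) midExitC_end12
        ⟨⟨by norm_num, by norm_num⟩, ⟨(by push_cast; linarith only [p1, p2, p4, hXu, hXl]), (by push_cast; linarith only [p1, p2, p4, hXu, hXl])⟩,
        ⟨(by push_cast; linarith only [hI1, hI2, h3]), (by push_cast; linarith only [hI1, hI2, h3])⟩, (by push_cast; linarith only [p0, p3, h0, hIa, haH, hI1, h3, hI2]), (by push_cast; linarith only [p0, p3, h0, hIa, haH, hI1, h3, hI2])⟩

theorem midExitC_end_s6 {a b I X : ℝ} (hP : MidPlace a I X) (hb : b = 1 - 2 * I - a)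
    (hI : 27 / 250 ≤ I ∧ I ≤ 1 / 7) (hX : 1000 ≤ X * midBracket midExitC I a (199 / 200)) (p0 : (209 / 1000) ≤ a) (p1 : X < (79 / 10)) (p2 : (22 / 5) ≤ X) (p3 : (13 / 50) ≤ a) :
    allEn a b (199 / 200) (2 * I * X) (midBandG midLowC a b (199 / 200) (2 * I * X)) < 0 := by
  rcases lt_or_ge X (123 / 20) with h | h
  · exact midExitC_end_s7 hP hb hI hX p0 p1 p2 p3 h
  · exact midExitC_end_s8 hP hb hI hX p0 p1 p2 p3 h

theorem midExitC_end_s4 {a b I X : ℝ} (hP : MidPlace a I X) (hb : b = 1 - 2 * I - a)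
    (hI : 27 / 250 ≤ I ∧ I ≤ 1 / 7) (hX : 1000 ≤ X * midBracket midExitC I a (199 / 200)) (p0 : (209 / 1000) ≤ a) (p1 : X < (79 / 10)) (p2 : (22 / 5) ≤ X) :
    allEn a b (199 / 200) (2 * I * X) (midBandG midLowC a b (199 / 200) (2 * I * X)) < 0 := by
  rcases lt_or_ge a (13 / 50) with h | h
  · exact midExitC_end_s5 hP hb hI hX p0 p1 p2 h
  · exact midExitC_end_s6 hP hb hI hX p0 p1 p2 h

theorem midExitC_end_s2 {a b I X : ℝ} (hP : MidPlace a I X) (hb : b = 1 - 2 * I - a)
    (hI : 27 / 250 ≤ I ∧ I ≤ 1 / 7) (hX : 1000 ≤ X * midBracket midExitC I a (199 / 200)) (p0 : (209 / 1000) ≤ a) (p1 : X < (79 / 10)) :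
    allEn a b (199 / 200) (2 * I * X) (midBandG midLowC a b (199 / 200) (2 * I * X)) < 0 := by
  rcases lt_or_ge X (22 / 5) with h | h
  · exact midExitC_end_s3 hP hb hI hX p0 p1 h
  · exact midExitC_end_s4 hP hb hI hX p0 p1 h

theorem midExitC_end_s10 {a b I X : ℝ} (hP : MidPlace a I X) (hb : b = 1 - 2 * I - a)
    (hI : 27 / 250 ≤ I ∧ I ≤ 1 / 7) (hX : 1000 ≤ X * midBracket midExitC I a (199 / 200)) (p0 : (209 / 1000) ≤ a) (p1 : (79 / 10) ≤ X) (p2 : a < (13 / 50)) :
    allEn a b (199 / 200) (2 * I * X) (midBandG midLowC a b (199 / 200) (2 * I * X)) < 0 := by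
  obtain ⟨hI1, hI2⟩ := hI
  have hIa := hP.I_le_a
  have haH := hP.a_le
  have hXu := hP.X_lt (13 / 50) (143 / 1000) (361 / 50) (by linarith only [p0, p2, hIa, haH, hI1, hI2]) (by linarith only [hI1, hI2]) (by norm_num) (by norm_num) (by norm_num)
  have hXl := hP.le_X (13 / 50) (143 / 1000) (93 / 100) (by linarith only [p0, p2, hIa, haH, hI1, hI2]) (by linarith only [hI1, hI2]) (by norm_num)
  exfalso; linarith

theorem midExitC_end_s14 {a b I X : ℝ} (hP : MidPlace a I X) (hb : b = 1 - 2 * I - a)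
    (hI : 27 / 250 ≤ I ∧ I ≤ 1 / 7) (hX : 1000 ≤ X * midBracket midExitC I a (199 / 200)) (p0 : (209 / 1000) ≤ a) (p1 : (79 / 10) ≤ X) (p2 : (13 / 50) ≤ a) (p3 : X < (57 / 5)) (p4 : X < (193 / 20)) (p5 : a < (57 / 200)) :
    allEn a b (199 / 200) (2 * I * X) (midBandG midLowC a b (199 / 200) (2 * I * X)) < 0 := by
  obtain ⟨hI1, hI2⟩ := hI
  have hIa := hP.I_le_a
  have haH := hP.a_le
  rcases lt_or_ge X (877 / 100) with h0 | h0
  · have hXu := hP.X_lt (57 / 200) (143 / 1000) (973 / 100) (by linarith only [p0, p2, p5, hIa, haH, hI1, hI2]) (by linarith only [hI1, hI2]) (by norm_num) (by norm_num) (by norm_num)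
    have hXl := hP.le_X (57 / 200) (143 / 1000) (23 / 25) (by linarith only [p0, p2, p5, hIa, haH, hI1, hI2]) (by linarith only [hI1, hI2]) (by norm_num)
    exact mid_end_box hP hb (by norm_num) hX (by decide) midExitC_end13
      ⟨⟨by norm_num, by norm_num⟩, ⟨(by push_cast; linarith only [p1, p3, p4, h0, hXu, hXl]), (by push_cast; linarith only [p1, p3, p4, h0, hXu, hXl])⟩,
        ⟨(by push_cast; linarith only [hI1, hI2]), (by push_cast; linarith only [hI1, hI2])⟩, (by push_cast; linarith only [p0, p2, p5, hIa, haH, hI1, hI2]), (by push_cast; linarith only [p0, p2, p5, hIa, haH, hI1, hI2])⟩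
  · have hXu := hP.X_lt (57 / 200) (143 / 1000) (973 / 100) (by linarith only [p0, p2, p5, hIa, haH, hI1, hI2]) (by linarith only [hI1, hI2]) (by norm_num) (by norm_num) (by norm_num)
    have hXl := hP.le_X (57 / 200) (143 / 1000) (23 / 25) (by linarith only [p0, p2, p5, hIa, haH, hI1, hI2]) (by linarith only [hI1, hI2]) (by norm_num)
    exact mid_end_box hP hb (by norm_num) hX (by decide) midExitC_end14
      ⟨⟨by norm_num, by norm_num⟩, ⟨(by push_cast; linarith only [p1, p3, p4, h0, hXu, hXl]), (by push_cast; linarith only [p1, p3, p4, h0, hXu, hXl])⟩,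
        ⟨(by push_cast; linarith only [hI1, hI2]), (by push_cast; linarith only [hI1, hI2])⟩, (by push_cast; linarith only [p0, p2, p5, hIa, haH, hI1, hI2]), (by push_cast; linarith only [p0, p2, p5, hIa, haH, hI1, hI2])⟩

theorem midExitC_end_s15 {a b I X : ℝ} (hP : MidPlace a I X) (hb : b = 1 - 2 * I - a)
    (hI : 27 / 250 ≤ I ∧ I ≤ 1 / 7) (hX : 1000 ≤ X * midBracket midExitC I a (199 / 200)) (p0 : (209 / 1000) ≤ a) (p1 : (79 / 10) ≤ X) (p2 : (13 / 50) ≤ a) (p3 : X < (57 / 5)) (p4 : X < (193 / 20)) (p5 : (57 / 200) ≤ a) :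
    allEn a b (199 / 200) (2 * I * X) (midBandG midLowC a b (199 / 200) (2 * I * X)) < 0 := by
  obtain ⟨hI1, hI2⟩ := hI
  have hIa := hP.I_le_a
  have haH := hP.a_le
  rcases lt_or_ge I (1 / 8) with h0 | h0
  · rcases lt_or_ge X (877 / 100) with h1 | h1
    · have hXu := hP.X_lt (31 / 100) (1 / 8) (513 / 50) (by linarith only [p0, p2, p5, hIa, haH, hI1, h0, hI2]) (by linarith only [hI1, hI2, h0]) (by norm_num) (by norm_num) (by norm_num)
      have hXl := hP.le_X (31 / 100) (1 / 8) (23 / 25) (by linarith only [p0, p2, p5, hIa, haH, hI1, h0, hI2]) (by linarith only [hI1, hI2, h0]) (by norm_num)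
      exact mid_end_box hP hb (by norm_num) hX (by decide) midExitC_end15
        ⟨⟨by norm_num, by norm_num⟩, ⟨(by push_cast; linarith only [p1, p3, p4, h1, hXu, hXl]), (by push_cast; linarith only [p1, p3, p4, h1, hXu, hXl])⟩,
        ⟨(by push_cast; linarith only [hI1, hI2, h0]), (by push_cast; linarith only [hI1, hI2, h0])⟩, (by push_cast; linarith only [p0, p2, p5, hIa, haH, hI1, h0, hI2]), (by push_cast; linarith only [p0, p2, p5, hIa, haH, hI1, h0, hI2])⟩
    · have hXu := hP.X_lt (31 / 100) (1 / 8) (513 / 50) (by linarith only [p0, p2, p5, hIa, haH, hI1, h0, hI2]) (by linarith only [hI1, hI2, h0]) (by norm_num) (by norm_num) (by norm_num)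
      have hXl := hP.le_X (31 / 100) (1 / 8) (23 / 25) (by linarith only [p0, p2, p5, hIa, haH, hI1, h0, hI2]) (by linarith only [hI1, hI2, h0]) (by norm_num)
      exact mid_end_box hP hb (by norm_num) hX (by decide) midExitC_end16
        ⟨⟨by norm_num, by norm_num⟩, ⟨(by push_cast; linarith only [p1, p3, p4, h1, hXu, hXl]), (by push_cast; linarith only [p1, p3, p4, h1, hXu, hXl])⟩,
        ⟨(by push_cast; linarith only [hI1, hI2, h0]), (by push_cast; linarith only [hI1, hI2, h0])⟩, (by push_cast; linarith only [p0, p2, p5, hIa, haH, hI1, h0, hI2]), (by push_cast; linarith only [p0, p2, p5, hIa, haH, hI1, h0, hI2])⟩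
  · rcases lt_or_ge X (877 / 100) with h2 | h2
    · have hXu := hP.X_lt_av (57 / 200) (1 / 8) (351 / 25) (by linarith only [p0, p2, p5, hIa, haH, hI1, h0, hI2]) (by linarith only [hI1, hI2, h0]) (by norm_num) (by norm_num) (by norm_num)
      have hXl := hP.le_X (31 / 100) (143 / 1000) (91 / 100) (by linarith only [p0, p2, p5, hIa, haH, hI1, h0, hI2]) (by linarith only [hI1, hI2, h0]) (by norm_num)
      exact mid_end_box hP hb (by norm_num) hX (by decide) midExitC_end17
        ⟨⟨by norm_num, by norm_num⟩, ⟨(by push_cast; linarith only [p1, p3, p4, h2, hXu, hXl]), (by push_cast; linarith only [p1, p3, p4, h2, hXu, hXl])⟩,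
        ⟨(by push_cast; linarith only [hI1, hI2, h0]), (by push_cast; linarith only [hI1, hI2, h0])⟩, (by push_cast; linarith only [p0, p2, p5, hIa, haH, hI1, h0, hI2]), (by push_cast; linarith only [p0, p2, p5, hIa, haH, hI1, h0, hI2])⟩
    · have hXu := hP.X_lt_av (57 / 200) (1 / 8) (351 / 25) (by linarith only [p0, p2, p5, hIa, haH, hI1, h0, hI2]) (by linarith only [hI1, hI2, h0]) (by norm_num) (by norm_num) (by norm_num)
      have hXl := hP.le_X (31 / 100) (143 / 1000) (91 / 100) (by linarith only [p0, p2, p5, hIa, haH, hI1, h0, hI2]) (by linarith only [hI1, hI2, h0]) (by norm_num)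
      exact mid_end_box hP hb (by norm_num) hX (by decide) midExitC_end18
        ⟨⟨by norm_num, by norm_num⟩, ⟨(by push_cast; linarith only [p1, p3, p4, h2, hXu, hXl]), (by push_cast; linarith only [p1, p3, p4, h2, hXu, hXl])⟩,
        ⟨(by push_cast; linarith only [hI1, hI2, h0]), (by push_cast; linarith only [hI1, hI2, h0])⟩, (by push_cast; linarith only [p0, p2, p5, hIa, haH, hI1, h0, hI2]), (by push_cast; linarith only [p0, p2, p5, hIa, haH, hI1, h0, hI2])⟩

theorem midExitC_end_s13 {a b I X : ℝ} (hP : MidPlace a I X) (hb : b = 1 - 2 * I - a)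
    (hI : 27 / 250 ≤ I ∧ I ≤ 1 / 7) (hX : 1000 ≤ X * midBracket midExitC I a (199 / 200)) (p0 : (209 / 1000) ≤ a) (p1 : (79 / 10) ≤ X) (p2 : (13 / 50) ≤ a) (p3 : X < (57 / 5)) (p4 : X < (193 / 20)) :
    allEn a b (199 / 200) (2 * I * X) (midBandG midLowC a b (199 / 200) (2 * I * X)) < 0 := by
  rcases lt_or_ge a (57 / 200) with h | h
  · exact midExitC_end_s14 hP hb hI hX p0 p1 p2 p3 p4 h
  · exact midExitC_end_s15 hP hb hI hX p0 p1 p2 p3 p4 h

theorem midExitC_end_s16 {a b I X : ℝ} (hP : MidPlace a I X) (hb : b = 1 - 2 * I - a)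
    (hI : 27 / 250 ≤ I ∧ I ≤ 1 / 7) (hX : 1000 ≤ X * midBracket midExitC I a (199 / 200)) (p0 : (209 / 1000) ≤ a) (p1 : (79 / 10) ≤ X) (p2 : (13 / 50) ≤ a) (p3 : X < (57 / 5)) (p4 : (193 / 20) ≤ X) :
    allEn a b (199 / 200) (2 * I * X) (midBandG midLowC a b (199 / 200) (2 * I * X)) < 0 := by
  obtain ⟨hI1, hI2⟩ := hI
  have hIa := hP.I_le_a
  have haH := hP.a_le
  rcases lt_or_ge a (57 / 200) with h0 | h0
  · have hXu := hP.X_lt (57 / 200) (143 / 1000) (973 / 100) (by linarith only [p0, p2, h0, hIa, haH, hI1, hI2]) (by linarith only [hI1, hI2]) (by norm_num) (by norm_num) (by norm_num)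
    have hXl := hP.le_X (57 / 200) (143 / 1000) (23 / 25) (by linarith only [p0, p2, h0, hIa, haH, hI1, hI2]) (by linarith only [hI1, hI2]) (by norm_num)
    exact mid_end_box hP hb (by norm_num) hX (by decide) midExitC_end19
      ⟨⟨by norm_num, by norm_num⟩, ⟨(by push_cast; linarith only [p1, p3, p4, hXu, hXl]), (by push_cast; linarith only [p1, p3, p4, hXu, hXl])⟩,
        ⟨(by push_cast; linarith only [hI1, hI2]), (by push_cast; linarith only [hI1, hI2])⟩, (by push_cast; linarith only [p0, p2, h0, hIa, haH, hI1, hI2]), (by push_cast; linarith only [p0, p2, h0, hIa, haH, hI1, hI2])⟩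
  · have hXu := hP.X_lt (31 / 100) (143 / 1000) (149 / 10) (by linarith only [p0, p2, h0, hIa, haH, hI1, hI2]) (by linarith only [hI1, hI2]) (by norm_num) (by norm_num) (by norm_num)
    have hXl := hP.le_X (31 / 100) (143 / 1000) (91 / 100) (by linarith only [p0, p2, h0, hIa, haH, hI1, hI2]) (by linarith only [hI1, hI2]) (by norm_num)
    exact mid_end_box hP hb (by norm_num) hX (by decide) midExitC_end20
      ⟨⟨by norm_num, by norm_num⟩, ⟨(by push_cast; linarith only [p1, p3, p4, hXu, hXl]), (by push_cast; linarith only [p1, p3, p4, hXu, hXl])⟩,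
        ⟨(by push_cast; linarith only [hI1, hI2]), (by push_cast; linarith only [hI1, hI2])⟩, (by push_cast; linarith only [p0, p2, h0, hIa, haH, hI1, hI2]), (by push_cast; linarith only [p0, p2, h0, hIa, haH, hI1, hI2])⟩

theorem midExitC_end_s12 {a b I X : ℝ} (hP : MidPlace a I X) (hb : b = 1 - 2 * I - a)
    (hI : 27 / 250 ≤ I ∧ I ≤ 1 / 7) (hX : 1000 ≤ X * midBracket midExitC I a (199 / 200)) (p0 : (209 / 1000) ≤ a) (p1 : (79 / 10) ≤ X) (p2 : (13 / 50) ≤ a) (p3 : X < (57 / 5)) :
    allEn a b (199 / 200) (2 * I * X) (midBandG midLowC a b (199 / 200) (2 * I * X)) < 0 := by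
  rcases lt_or_ge X (193 / 20) with h | h
  · exact midExitC_end_s13 hP hb hI hX p0 p1 p2 p3 h
  · exact midExitC_end_s16 hP hb hI hX p0 p1 p2 p3 h

theorem midExitC_end_s17 {a b I X : ℝ} (hP : MidPlace a I X) (hb : b = 1 - 2 * I - a)
    (hI : 27 / 250 ≤ I ∧ I ≤ 1 / 7) (hX : 1000 ≤ X * midBracket midExitC I a (199 / 200)) (p0 : (209 / 1000) ≤ a) (p1 : (79 / 10) ≤ X) (p2 : (13 / 50) ≤ a) (p3 : (57 / 5) ≤ X) :
    allEn a b (199 / 200) (2 * I * X) (midBandG midLowC a b (199 / 200) (2 * I * X)) < 0 := by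
  obtain ⟨hI1, hI2⟩ := hI
  have hIa := hP.I_le_a
  have haH := hP.a_le
  rcases lt_or_ge X (263 / 20) with h0 | h0
  · have hXu := hP.X_lt (31 / 100) (143 / 1000) (149 / 10) (by linarith only [p0, p2, hIa, haH, hI1, hI2]) (by linarith only [hI1, hI2]) (by norm_num) (by norm_num) (by norm_num)
    have hXl := hP.le_X (31 / 100) (143 / 1000) (91 / 100) (by linarith only [p0, p2, hIa, haH, hI1, hI2]) (by linarith only [hI1, hI2]) (by norm_num)
    exact mid_end_box hP hb (by norm_num) hX (by decide) midExitC_end21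
      ⟨⟨by norm_num, by norm_num⟩, ⟨(by push_cast; linarith only [p1, p3, h0, hXu, hXl]), (by push_cast; linarith only [p1, p3, h0, hXu, hXl])⟩,
        ⟨(by push_cast; linarith only [hI1, hI2]), (by push_cast; linarith only [hI1, hI2])⟩, (by push_cast; linarith only [p0, p2, hIa, haH, hI1, hI2]), (by push_cast; linarith only [p0, p2, hIa, haH, hI1, hI2])⟩
  · have hXu := hP.X_lt (31 / 100) (143 / 1000) (149 / 10) (by linarith only [p0, p2, hIa, haH, hI1, hI2]) (by linarith only [hI1, hI2]) (by norm_num) (by norm_num) (by norm_num)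
    have hXl := hP.le_X (31 / 100) (143 / 1000) (91 / 100) (by linarith only [p0, p2, hIa, haH, hI1, hI2]) (by linarith only [hI1, hI2]) (by norm_num)
    exact mid_end_box hP hb (by norm_num) hX (by decide) midExitC_end22
      ⟨⟨by norm_num, by norm_num⟩, ⟨(by push_cast; linarith only [p1, p3, h0, hXu, hXl]), (by push_cast; linarith only [p1, p3, h0, hXu, hXl])⟩,
        ⟨(by push_cast; linarith only [hI1, hI2]), (by push_cast; linarith only [hI1, hI2])⟩, (by push_cast; linarith only [p0, p2, hIa, haH, hI1, hI2]), (by push_cast; linarith only [p0, p2, hIa, haH, hI1, hI2])⟩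

theorem midExitC_end_s11 {a b I X : ℝ} (hP : MidPlace a I X) (hb : b = 1 - 2 * I - a)
    (hI : 27 / 250 ≤ I ∧ I ≤ 1 / 7) (hX : 1000 ≤ X * midBracket midExitC I a (199 / 200)) (p0 : (209 / 1000) ≤ a) (p1 : (79 / 10) ≤ X) (p2 : (13 / 50) ≤ a) :
    allEn a b (199 / 200) (2 * I * X) (midBandG midLowC a b (199 / 200) (2 * I * X)) < 0 := by
  rcases lt_or_ge X (57 / 5) with h | h
  · exact midExitC_end_s12 hP hb hI hX p0 p1 p2 h
  · exact midExitC_end_s17 hP hb hI hX p0 p1 p2 h

theorem midExitC_end_s9 {a b I X : ℝ} (hP : MidPlace a I X) (hb : b = 1 - 2 * I - a)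
    (hI : 27 / 250 ≤ I ∧ I ≤ 1 / 7) (hX : 1000 ≤ X * midBracket midExitC I a (199 / 200)) (p0 : (209 / 1000) ≤ a) (p1 : (79 / 10) ≤ X) :
    allEn a b (199 / 200) (2 * I * X) (midBandG midLowC a b (199 / 200) (2 * I * X)) < 0 := by
  rcases lt_or_ge a (13 / 50) with h | h
  · exact midExitC_end_s10 hP hb hI hX p0 p1 h
  · exact midExitC_end_s11 hP hb hI hX p0 p1 h

theorem midExitC_end_s1 {a b I X : ℝ} (hP : MidPlace a I X) (hb : b = 1 - 2 * I - a)
    (hI : 27 / 250 ≤ I ∧ I ≤ 1 / 7) (hX : 1000 ≤ X * midBracket midExitC I a (199 / 200)) (p0 : (209 / 1000) ≤ a) :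
    allEn a b (199 / 200) (2 * I * X) (midBandG midLowC a b (199 / 200) (2 * I * X)) < 0 := by
  rcases lt_or_ge X (79 / 10) with h | h
  · exact midExitC_end_s2 hP hb hI hX p0 h
  · exact midExitC_end_s9 hP hb hI hX p0 h

theorem midExitC_end {a b I X : ℝ} (hP : MidPlace a I X) (hb : b = 1 - 2 * I - a)
    (hI : 27 / 250 ≤ I ∧ I ≤ 1 / 7) (hX : 1000 ≤ X * midBracket midExitC I a (199 / 200)) :
    allEn a b (199 / 200) (2 * I * X) (midBandG midLowC a b (199 / 200) (2 * I * X)) < 0 := by
  rcases lt_or_ge a (209 / 1000) with h | h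
  · exact midExitC_end_s0 hP hb hI hX  h
  · exact midExitC_end_s1 hP hb hI hX  h

theorem midExitD_bracket {a I X u : ℝ} (hP : MidPlace a I X) (hI : 27 / 250 ≤ I ∧ I ≤ 1 / 7) (hu : 0 < u)
    (hu1 : u ≤ (39 / 40)) : 0 < midBracket midExitD I a u ∧ 0 ≤ midBracketDl midExitD I a u := by
  obtain ⟨hI1, hI2⟩ := hI
  have hIa := hP.I_le_a
  have haH := hP.a_le
  exact mid_bracket_box midExitD midExitD_pos midExitD_dl
    ⟨⟨(by push_cast; linarith only [hu, hu1]), (by push_cast; linarith only [hu, hu1])⟩, ⟨by norm_num, by norm_num⟩,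
        ⟨(by push_cast; linarith only [hI1, hI2]), (by push_cast; linarith only [hI1, hI2])⟩, (by push_cast; linarith only [hIa, haH, hI1, hI2]), (by push_cast; linarith only [hIa, haH, hI1, hI2])⟩

theorem midExitD_sign {a b I X u : ℝ} (hP : MidPlace a I X) (hb : b = 1 - 2 * I - a)
    (hI : 27 / 250 ≤ I ∧ I ≤ 1 / 7) (hu : 0 < u) (hu1 : u ≤ (39 / 40))
    (hV : 2 * I * X * midBracket midExitD I a u = 2000 * I)
    (hen : 0 < allEn a b u (2 * I * X) (midBandG midLowC a b u (2 * I * X))) :
    allDot a b u (2 * I * X) (midBandG midLowC a b u (2 * I * X))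
      (2 * I * X * midBracketDl midExitD I a u) (-midBracket midExitD I a u) 0 < 0 := by
  have hE := (midExitD_bracket hP hI hu hu1).1
  obtain ⟨hI1, hI2⟩ := hI
  have hIa := hP.I_le_a
  have haH := hP.a_le
  rcases lt_or_ge u (61 / 125) with h0 | h0
  · exact mid_exit_box hP hb hu (by linarith only [hu1]) rfl hV hE hen (by decide) midExitD_sign0
      ⟨⟨(by push_cast; linarith only [hu, hu1, h0]), (by push_cast; linarith only [hu, hu1, h0])⟩, ⟨by norm_num, by norm_num⟩,
        ⟨(by push_cast; linarith only [hI1, hI2]), (by push_cast; linarith only [hI1, hI2])⟩, (by push_cast; linarith only [hIa, haH, hI1, hI2]), (by push_cast; linarith only [hIa, haH, hI1, hI2])⟩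
  · rcases lt_or_ge u (183 / 250) with h1 | h1
    · exact mid_exit_box hP hb hu (by linarith only [hu1]) rfl hV hE hen (by decide) midExitD_sign1
        ⟨⟨(by push_cast; linarith only [hu, hu1, h0, h1]), (by push_cast; linarith only [hu, hu1, h0, h1])⟩, ⟨by norm_num, by norm_num⟩,
        ⟨(by push_cast; linarith only [hI1, hI2]), (by push_cast; linarith only [hI1, hI2])⟩, (by push_cast; linarith only [hIa, haH, hI1, hI2]), (by push_cast; linarith only [hIa, haH, hI1, hI2])⟩
    · rcases lt_or_ge a (209 / 1000) with h2 | h2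
      · exact mid_exit_box hP hb hu (by linarith only [hu1]) rfl hV hE hen (by decide) midExitD_sign2
          ⟨⟨(by push_cast; linarith only [hu, hu1, h0, h1]), (by push_cast; linarith only [hu, hu1, h0, h1])⟩, ⟨by norm_num, by norm_num⟩,
        ⟨(by push_cast; linarith only [hI1, hI2]), (by push_cast; linarith only [hI1, hI2])⟩, (by push_cast; linarith only [h2, hIa, haH, hI1, hI2]), (by push_cast; linarith only [h2, hIa, haH, hI1, hI2])⟩
      · rcases lt_or_ge u (427 / 500) with h3 | h3
        · exact mid_exit_box hP hb hu (by linarith only [hu1]) rfl hV hE hen (by decide) midExitD_sign3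
            ⟨⟨(by push_cast; linarith only [hu, hu1, h0, h1, h3]), (by push_cast; linarith only [hu, hu1, h0, h1, h3])⟩, ⟨by norm_num, by norm_num⟩,
        ⟨(by push_cast; linarith only [hI1, hI2]), (by push_cast; linarith only [hI1, hI2])⟩, (by push_cast; linarith only [h2, hIa, haH, hI1, hI2]), (by push_cast; linarith only [h2, hIa, haH, hI1, hI2])⟩
        · exact mid_exit_box hP hb hu (by linarith only [hu1]) rfl hV hE hen (by decide) midExitD_sign4
            ⟨⟨(by push_cast; linarith only [hu, hu1, h0, h1, h3]), (by push_cast; linarith only [hu, hu1, h0, h1, h3])⟩, ⟨by norm_num, by norm_num⟩,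
        ⟨(by push_cast; linarith only [hI1, hI2]), (by push_cast; linarith only [hI1, hI2])⟩, (by push_cast; linarith only [h2, hIa, haH, hI1, hI2]), (by push_cast; linarith only [h2, hIa, haH, hI1, hI2])⟩

theorem midExitD_end_s0 {a b I X : ℝ} (hP : MidPlace a I X) (hb : b = 1 - 2 * I - a)
    (hI : 27 / 250 ≤ I ∧ I ≤ 1 / 7) (hX : 1000 ≤ X * midBracket midExitD I a (39 / 40)) (p0 : a < (209 / 1000)) :
    allEn a b (39 / 40) (2 * I * X) (midBandG midLowC a b (39 / 40) (2 * I * X)) < 0 := by
  obtain ⟨hI1, hI2⟩ := hI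
  have hIa := hP.I_le_a
  have haH := hP.a_le
  rcases lt_or_ge X (71 / 25) with h0 | h0
  · have hXu := hP.X_lt (209 / 1000) (143 / 1000) (237 / 50) (by linarith only [p0, hIa, haH, hI1, hI2]) (by linarith only [hI1, hI2]) (by norm_num) (by norm_num) (by norm_num)
    have hXl := hP.le_X (209 / 1000) (143 / 1000) (47 / 50) (by linarith only [p0, hIa, haH, hI1, hI2]) (by linarith only [hI1, hI2]) (by norm_num)
    exact mid_end_box hP hb (by norm_num) hX (by decide) midExitD_end0
      ⟨⟨by norm_num, by norm_num⟩, ⟨(by push_cast; linarith only [h0, hXu, hXl]), (by push_cast; linarith only [h0, hXu, hXl])⟩,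
        ⟨(by push_cast; linarith only [hI1, hI2]), (by push_cast; linarith only [hI1, hI2])⟩, (by push_cast; linarith only [p0, hIa, haH, hI1, hI2]), (by push_cast; linarith only [p0, hIa, haH, hI1, hI2])⟩
  · have hXu := hP.X_lt (209 / 1000) (143 / 1000) (237 / 50) (by linarith only [p0, hIa, haH, hI1, hI2]) (by linarith only [hI1, hI2]) (by norm_num) (by norm_num) (by norm_num)
    have hXl := hP.le_X (209 / 1000) (143 / 1000) (47 / 50) (by linarith only [p0, hIa, haH, hI1, hI2]) (by linarith only [hI1, hI2]) (by norm_num)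
    exact mid_end_box hP hb (by norm_num) hX (by decide) midExitD_end1
      ⟨⟨by norm_num, by norm_num⟩, ⟨(by push_cast; linarith only [h0, hXu, hXl]), (by push_cast; linarith only [h0, hXu, hXl])⟩,
        ⟨(by push_cast; linarith only [hI1, hI2]), (by push_cast; linarith only [hI1, hI2])⟩, (by push_cast; linarith only [p0, hIa, haH, hI1, hI2]), (by push_cast; linarith only [p0, hIa, haH, hI1, hI2])⟩

theorem midExitD_end_s3 {a b I X : ℝ} (hP : MidPlace a I X) (hb : b = 1 - 2 * I - a)
    (hI : 27 / 250 ≤ I ∧ I ≤ 1 / 7) (hX : 1000 ≤ X * midBracket midExitD I a (39 / 40)) (p0 : (209 / 1000) ≤ a) (p1 : X < (79 / 10)) (p2 : X < (22 / 5)) :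
    allEn a b (39 / 40) (2 * I * X) (midBandG midLowC a b (39 / 40) (2 * I * X)) < 0 := by
  obtain ⟨hI1, hI2⟩ := hI
  have hIa := hP.I_le_a
  have haH := hP.a_le
  have hXu := hP.X_lt (31 / 100) (143 / 1000) (149 / 10) (by linarith only [p0, hIa, haH, hI1, hI2]) (by linarith only [hI1, hI2]) (by norm_num) (by norm_num) (by norm_num)
  have hXl := hP.le_X (31 / 100) (143 / 1000) (91 / 100) (by linarith only [p0, hIa, haH, hI1, hI2]) (by linarith only [hI1, hI2]) (by norm_num)
  exact mid_end_box hP hb (by norm_num) hX (by decide) midExitD_end2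
    ⟨⟨by norm_num, by norm_num⟩, ⟨(by push_cast; linarith only [p1, p2, hXu, hXl]), (by push_cast; linarith only [p1, p2, hXu, hXl])⟩,
        ⟨(by push_cast; linarith only [hI1, hI2]), (by push_cast; linarith only [hI1, hI2])⟩, (by push_cast; linarith only [p0, hIa, haH, hI1, hI2]), (by push_cast; linarith only [p0, hIa, haH, hI1, hI2])⟩

theorem midExitD_end_s5 {a b I X : ℝ} (hP : MidPlace a I X) (hb : b = 1 - 2 * I - a)
    (hI : 27 / 250 ≤ I ∧ I ≤ 1 / 7) (hX : 1000 ≤ X * midBracket midExitD I a (39 / 40)) (p0 : (209 / 1000) ≤ a) (p1 : X < (79 / 10)) (p2 : (22 / 5) ≤ X) (p3 : a < (13 / 50)) :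
    allEn a b (39 / 40) (2 * I * X) (midBandG midLowC a b (39 / 40) (2 * I * X)) < 0 := by
  obtain ⟨hI1, hI2⟩ := hI
  have hIa := hP.I_le_a
  have haH := hP.a_le
  rcases lt_or_ge X (581 / 100) with h0 | h0
  · have hXu := hP.X_lt (13 / 50) (143 / 1000) (361 / 50) (by linarith only [p0, p3, hIa, haH, hI1, hI2]) (by linarith only [hI1, hI2]) (by norm_num) (by norm_num) (by norm_num)
    have hXl := hP.le_X (13 / 50) (143 / 1000) (93 / 100) (by linarith only [p0, p3, hIa, haH, hI1, hI2]) (by linarith only [hI1, hI2]) (by norm_num)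
    exact mid_end_box hP hb (by norm_num) hX (by decide) midExitD_end3
      ⟨⟨by norm_num, by norm_num⟩, ⟨(by push_cast; linarith only [p1, p2, h0, hXu, hXl]), (by push_cast; linarith only [p1, p2, h0, hXu, hXl])⟩,
        ⟨(by push_cast; linarith only [hI1, hI2]), (by push_cast; linarith only [hI1, hI2])⟩, (by push_cast; linarith only [p0, p3, hIa, haH, hI1, hI2]), (by push_cast; linarith only [p0, p3, hIa, haH, hI1, hI2])⟩
  · have hXu := hP.X_lt (13 / 50) (143 / 1000) (361 / 50) (by linarith only [p0, p3, hIa, haH, hI1, hI2]) (by linarith only [hI1, hI2]) (by norm_num) (by norm_num) (by norm_num)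
    have hXl := hP.le_X (13 / 50) (143 / 1000) (93 / 100) (by linarith only [p0, p3, hIa, haH, hI1, hI2]) (by linarith only [hI1, hI2]) (by norm_num)
    exact mid_end_box hP hb (by norm_num) hX (by decide) midExitD_end4
      ⟨⟨by norm_num, by norm_num⟩, ⟨(by push_cast; linarith only [p1, p2, h0, hXu, hXl]), (by push_cast; linarith only [p1, p2, h0, hXu, hXl])⟩,
        ⟨(by push_cast; linarith only [hI1, hI2]), (by push_cast; linarith only [hI1, hI2])⟩, (by push_cast; linarith only [p0, p3, hIa, haH, hI1, hI2]), (by push_cast; linarith only [p0, p3, hIa, haH, hI1, hI2])⟩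

theorem midExitD_end_s7 {a b I X : ℝ} (hP : MidPlace a I X) (hb : b = 1 - 2 * I - a)
    (hI : 27 / 250 ≤ I ∧ I ≤ 1 / 7) (hX : 1000 ≤ X * midBracket midExitD I a (39 / 40)) (p0 : (209 / 1000) ≤ a) (p1 : X < (79 / 10)) (p2 : (22 / 5) ≤ X) (p3 : (13 / 50) ≤ a) (p4 : X < (123 / 20)) :
    allEn a b (39 / 40) (2 * I * X) (midBandG midLowC a b (39 / 40) (2 * I * X)) < 0 := by
  obtain ⟨hI1, hI2⟩ := hI
  have hIa := hP.I_le_a
  have haH := hP.a_le
  have hXu := hP.X_lt (31 / 100) (143 / 1000) (149 / 10) (by linarith only [p0, p3, hIa, haH, hI1, hI2]) (by linarith only [hI1, hI2]) (by norm_num) (by norm_num) (by norm_num)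
  have hXl := hP.le_X (31 / 100) (143 / 1000) (91 / 100) (by linarith only [p0, p3, hIa, haH, hI1, hI2]) (by linarith only [hI1, hI2]) (by norm_num)
  exact mid_end_box hP hb (by norm_num) hX (by decide) midExitD_end5
    ⟨⟨by norm_num, by norm_num⟩, ⟨(by push_cast; linarith only [p1, p2, p4, hXu, hXl]), (by push_cast; linarith only [p1, p2, p4, hXu, hXl])⟩,
        ⟨(by push_cast; linarith only [hI1, hI2]), (by push_cast; linarith only [hI1, hI2])⟩, (by push_cast; linarith only [p0, p3, hIa, haH, hI1, hI2]), (by push_cast; linarith only [p0, p3, hIa, haH, hI1, hI2])⟩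

theorem midExitD_end_s9 {a b I X : ℝ} (hP : MidPlace a I X) (hb : b = 1 - 2 * I - a)
    (hI : 27 / 250 ≤ I ∧ I ≤ 1 / 7) (hX : 1000 ≤ X * midBracket midExitD I a (39 / 40)) (p0 : (209 / 1000) ≤ a) (p1 : X < (79 / 10)) (p2 : (22 / 5) ≤ X) (p3 : (13 / 50) ≤ a) (p4 : (123 / 20) ≤ X) (p5 : a < (57 / 200)) :
    allEn a b (39 / 40) (2 * I * X) (midBandG midLowC a b (39 / 40) (2 * I * X)) < 0 := by
  obtain ⟨hI1, hI2⟩ := hI
  have hIa := hP.I_le_a
  have haH := hP.a_le
  rcases lt_or_ge X (351 / 50) with h0 | h0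
  · have hXu := hP.X_lt (57 / 200) (143 / 1000) (973 / 100) (by linarith only [p0, p3, p5, hIa, haH, hI1, hI2]) (by linarith only [hI1, hI2]) (by norm_num) (by norm_num) (by norm_num)
    have hXl := hP.le_X (57 / 200) (143 / 1000) (23 / 25) (by linarith only [p0, p3, p5, hIa, haH, hI1, hI2]) (by linarith only [hI1, hI2]) (by norm_num)
    exact mid_end_box hP hb (by norm_num) hX (by decide) midExitD_end6
      ⟨⟨by norm_num, by norm_num⟩, ⟨(by push_cast; linarith only [p1, p2, p4, h0, hXu, hXl]), (by push_cast; linarith only [p1, p2, p4, h0, hXu, hXl])⟩,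
        ⟨(by push_cast; linarith only [hI1, hI2]), (by push_cast; linarith only [hI1, hI2])⟩, (by push_cast; linarith only [p0, p3, p5, hIa, haH, hI1, hI2]), (by push_cast; linarith only [p0, p3, p5, hIa, haH, hI1, hI2])⟩
  · have hXu := hP.X_lt (57 / 200) (143 / 1000) (973 / 100) (by linarith only [p0, p3, p5, hIa, haH, hI1, hI2]) (by linarith only [hI1, hI2]) (by norm_num) (by norm_num) (by norm_num)
    have hXl := hP.le_X (57 / 200) (143 / 1000) (23 / 25) (by linarith only [p0, p3, p5, hIa, haH, hI1, hI2]) (by linarith only [hI1, hI2]) (by norm_num)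
    exact mid_end_box hP hb (by norm_num) hX (by decide) midExitD_end7
      ⟨⟨by norm_num, by norm_num⟩, ⟨(by push_cast; linarith only [p1, p2, p4, h0, hXu, hXl]), (by push_cast; linarith only [p1, p2, p4, h0, hXu, hXl])⟩,
        ⟨(by push_cast; linarith only [hI1, hI2]), (by push_cast; linarith only [hI1, hI2])⟩, (by push_cast; linarith only [p0, p3, p5, hIa, haH, hI1, hI2]), (by push_cast; linarith only [p0, p3, p5, hIa, haH, hI1, hI2])⟩

theorem midExitD_end_s10 {a b I X : ℝ} (hP : MidPlace a I X) (hb : b = 1 - 2 * I - a)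
    (hI : 27 / 250 ≤ I ∧ I ≤ 1 / 7) (hX : 1000 ≤ X * midBracket midExitD I a (39 / 40)) (p0 : (209 / 1000) ≤ a) (p1 : X < (79 / 10)) (p2 : (22 / 5) ≤ X) (p3 : (13 / 50) ≤ a) (p4 : (123 / 20) ≤ X) (p5 : (57 / 200) ≤ a) :
    allEn a b (39 / 40) (2 * I * X) (midBandG midLowC a b (39 / 40) (2 * I * X)) < 0 := by
  obtain ⟨hI1, hI2⟩ := hI
  have hIa := hP.I_le_a
  have haH := hP.a_le
  rcases lt_or_ge I (1 / 8) with h0 | h0
  · rcases lt_or_ge X (351 / 50) with h1 | h1
    · have hXu := hP.X_lt (31 / 100) (1 / 8) (513 / 50) (by linarith only [p0, p3, p5, hIa, haH, hI1, h0, hI2]) (by linarith only [hI1, hI2, h0]) (by norm_num) (by norm_num) (by norm_num)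
      have hXl := hP.le_X (31 / 100) (1 / 8) (23 / 25) (by linarith only [p0, p3, p5, hIa, haH, hI1, h0, hI2]) (by linarith only [hI1, hI2, h0]) (by norm_num)
      exact mid_end_box hP hb (by norm_num) hX (by decide) midExitD_end8
        ⟨⟨by norm_num, by norm_num⟩, ⟨(by push_cast; linarith only [p1, p2, p4, h1, hXu, hXl]), (by push_cast; linarith only [p1, p2, p4, h1, hXu, hXl])⟩,
        ⟨(by push_cast; linarith only [hI1, hI2, h0]), (by push_cast; linarith only [hI1, hI2, h0])⟩, (by push_cast; linarith only [p0, p3, p5, hIa, haH, hI1, h0, hI2]), (by push_cast; linarith only [p0, p3, p5, hIa, haH, hI1, h0, hI2])⟩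
    · have hXu := hP.X_lt (31 / 100) (1 / 8) (513 / 50) (by linarith only [p0, p3, p5, hIa, haH, hI1, h0, hI2]) (by linarith only [hI1, hI2, h0]) (by norm_num) (by norm_num) (by norm_num)
      have hXl := hP.le_X (31 / 100) (1 / 8) (23 / 25) (by linarith only [p0, p3, p5, hIa, haH, hI1, h0, hI2]) (by linarith only [hI1, hI2, h0]) (by norm_num)
      exact mid_end_box hP hb (by norm_num) hX (by decide) midExitD_end9
        ⟨⟨by norm_num, by norm_num⟩, ⟨(by push_cast; linarith only [p1, p2, p4, h1, hXu, hXl]), (by push_cast; linarith only [p1, p2, p4, h1, hXu, hXl])⟩,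
        ⟨(by push_cast; linarith only [hI1, hI2, h0]), (by push_cast; linarith only [hI1, hI2, h0])⟩, (by push_cast; linarith only [p0, p3, p5, hIa, haH, hI1, h0, hI2]), (by push_cast; linarith only [p0, p3, p5, hIa, haH, hI1, h0, hI2])⟩
  · rcases lt_or_ge X (351 / 50) with h2 | h2
    · have hXu := hP.X_lt_av (57 / 200) (1 / 8) (351 / 25) (by linarith only [p0, p3, p5, hIa, haH, hI1, h0, hI2]) (by linarith only [hI1, hI2, h0]) (by norm_num) (by norm_num) (by norm_num)
      have hXl := hP.le_X (31 / 100) (143 / 1000) (91 / 100) (by linarith only [p0, p3, p5, hIa, haH, hI1, h0, hI2]) (by linarith only [hI1, hI2, h0]) (by norm_num)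
      exact mid_end_box hP hb (by norm_num) hX (by decide) midExitD_end10
        ⟨⟨by norm_num, by norm_num⟩, ⟨(by push_cast; linarith only [p1, p2, p4, h2, hXu, hXl]), (by push_cast; linarith only [p1, p2, p4, h2, hXu, hXl])⟩,
        ⟨(by push_cast; linarith only [hI1, hI2, h0]), (by push_cast; linarith only [hI1, hI2, h0])⟩, (by push_cast; linarith only [p0, p3, p5, hIa, haH, hI1, h0, hI2]), (by push_cast; linarith only [p0, p3, p5, hIa, haH, hI1, h0, hI2])⟩
    · have hXu := hP.X_lt_av (57 / 200) (1 / 8) (351 / 25) (by linarith only [p0, p3, p5, hIa, haH, hI1, h0, hI2]) (by linarith only [hI1, hI2, h0]) (by norm_num) (by norm_num) (by norm_num)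
      have hXl := hP.le_X (31 / 100) (143 / 1000) (91 / 100) (by linarith only [p0, p3, p5, hIa, haH, hI1, h0, hI2]) (by linarith only [hI1, hI2, h0]) (by norm_num)
      exact mid_end_box hP hb (by norm_num) hX (by decide) midExitD_end11
        ⟨⟨by norm_num, by norm_num⟩, ⟨(by push_cast; linarith only [p1, p2, p4, h2, hXu, hXl]), (by push_cast; linarith only [p1, p2, p4, h2, hXu, hXl])⟩,
        ⟨(by push_cast; linarith only [hI1, hI2, h0]), (by push_cast; linarith only [hI1, hI2, h0])⟩, (by push_cast; linarith only [p0, p3, p5, hIa, haH, hI1, h0, hI2]), (by push_cast; linarith only [p0, p3, p5, hIa, haH, hI1, h0, hI2])⟩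

theorem midExitD_end_s8 {a b I X : ℝ} (hP : MidPlace a I X) (hb : b = 1 - 2 * I - a)
    (hI : 27 / 250 ≤ I ∧ I ≤ 1 / 7) (hX : 1000 ≤ X * midBracket midExitD I a (39 / 40)) (p0 : (209 / 1000) ≤ a) (p1 : X < (79 / 10)) (p2 : (22 / 5) ≤ X) (p3 : (13 / 50) ≤ a) (p4 : (123 / 20) ≤ X) :
    allEn a b (39 / 40) (2 * I * X) (midBandG midLowC a b (39 / 40) (2 * I * X)) < 0 := by
  rcases lt_or_ge a (57 / 200) with h | h
  · exact midExitD_end_s9 hP hb hI hX p0 p1 p2 p3 p4 h
  · exact midExitD_end_s10 hP hb hI hX p0 p1 p2 p3 p4 h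

theorem midExitD_end_s6 {a b I X : ℝ} (hP : MidPlace a I X) (hb : b = 1 - 2 * I - a)
    (hI : 27 / 250 ≤ I ∧ I ≤ 1 / 7) (hX : 1000 ≤ X * midBracket midExitD I a (39 / 40)) (p0 : (209 / 1000) ≤ a) (p1 : X < (79 / 10)) (p2 : (22 / 5) ≤ X) (p3 : (13 / 50) ≤ a) :
    allEn a b (39 / 40) (2 * I * X) (midBandG midLowC a b (39 / 40) (2 * I * X)) < 0 := by
  rcases lt_or_ge X (123 / 20) with h | h
  · exact midExitD_end_s7 hP hb hI hX p0 p1 p2 p3 h
  · exact midExitD_end_s8 hP hb hI hX p0 p1 p2 p3 h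

theorem midExitD_end_s4 {a b I X : ℝ} (hP : MidPlace a I X) (hb : b = 1 - 2 * I - a)
    (hI : 27 / 250 ≤ I ∧ I ≤ 1 / 7) (hX : 1000 ≤ X * midBracket midExitD I a (39 / 40)) (p0 : (209 / 1000) ≤ a) (p1 : X < (79 / 10)) (p2 : (22 / 5) ≤ X) :
    allEn a b (39 / 40) (2 * I * X) (midBandG midLowC a b (39 / 40) (2 * I * X)) < 0 := by
  rcases lt_or_ge a (13 / 50) with h | h
  · exact midExitD_end_s5 hP hb hI hX p0 p1 p2 h
  · exact midExitD_end_s6 hP hb hI hX p0 p1 p2 h

theorem midExitD_end_s2 {a b I X : ℝ} (hP : MidPlace a I X) (hb : b = 1 - 2 * I - a)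
    (hI : 27 / 250 ≤ I ∧ I ≤ 1 / 7) (hX : 1000 ≤ X * midBracket midExitD I a (39 / 40)) (p0 : (209 / 1000) ≤ a) (p1 : X < (79 / 10)) :
    allEn a b (39 / 40) (2 * I * X) (midBandG midLowC a b (39 / 40) (2 * I * X)) < 0 := by
  rcases lt_or_ge X (22 / 5) with h | h
  · exact midExitD_end_s3 hP hb hI hX p0 p1 h
  · exact midExitD_end_s4 hP hb hI hX p0 p1 h

theorem midExitD_end_s11 {a b I X : ℝ} (hP : MidPlace a I X) (hb : b = 1 - 2 * I - a)
    (hI : 27 / 250 ≤ I ∧ I ≤ 1 / 7) (hX : 1000 ≤ X * midBracket midExitD I a (39 / 40)) (p0 : (209 / 1000) ≤ a) (p1 : (79 / 10) ≤ X) :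
    allEn a b (39 / 40) (2 * I * X) (midBandG midLowC a b (39 / 40) (2 * I * X)) < 0 := by
  obtain ⟨hI1, hI2⟩ := hI
  have hIa := hP.I_le_a
  have haH := hP.a_le
  rcases lt_or_ge a (13 / 50) with h0 | h0
  · have hXu := hP.X_lt (13 / 50) (143 / 1000) (361 / 50) (by linarith only [p0, h0, hIa, haH, hI1, hI2]) (by linarith only [hI1, hI2]) (by norm_num) (by norm_num) (by norm_num)
    have hXl := hP.le_X (13 / 50) (143 / 1000) (93 / 100) (by linarith only [p0, h0, hIa, haH, hI1, hI2]) (by linarith only [hI1, hI2]) (by norm_num)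
    exfalso; linarith
  · rcases lt_or_ge X (57 / 5) with h1 | h1
    · rcases lt_or_ge a (57 / 200) with h2 | h2
      · have hXu := hP.X_lt (57 / 200) (143 / 1000) (973 / 100) (by linarith only [p0, h0, h2, hIa, haH, hI1, hI2]) (by linarith only [hI1, hI2]) (by norm_num) (by norm_num) (by norm_num)
        have hXl := hP.le_X (57 / 200) (143 / 1000) (23 / 25) (by linarith only [p0, h0, h2, hIa, haH, hI1, hI2]) (by linarith only [hI1, hI2]) (by norm_num)
        exact mid_end_box hP hb (by norm_num) hX (by decide) midExitD_end12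
          ⟨⟨by norm_num, by norm_num⟩, ⟨(by push_cast; linarith only [p1, h1, hXu, hXl]), (by push_cast; linarith only [p1, h1, hXu, hXl])⟩,
        ⟨(by push_cast; linarith only [hI1, hI2]), (by push_cast; linarith only [hI1, hI2])⟩, (by push_cast; linarith only [p0, h0, h2, hIa, haH, hI1, hI2]), (by push_cast; linarith only [p0, h0, h2, hIa, haH, hI1, hI2])⟩
      · have hXu := hP.X_lt (31 / 100) (143 / 1000) (149 / 10) (by linarith only [p0, h0, h2, hIa, haH, hI1, hI2]) (by linarith only [hI1, hI2]) (by norm_num) (by norm_num) (by norm_num)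
        have hXl := hP.le_X (31 / 100) (143 / 1000) (91 / 100) (by linarith only [p0, h0, h2, hIa, haH, hI1, hI2]) (by linarith only [hI1, hI2]) (by norm_num)
        exact mid_end_box hP hb (by norm_num) hX (by decide) midExitD_end13
          ⟨⟨by norm_num, by norm_num⟩, ⟨(by push_cast; linarith only [p1, h1, hXu, hXl]), (by push_cast; linarith only [p1, h1, hXu, hXl])⟩,
        ⟨(by push_cast; linarith only [hI1, hI2]), (by push_cast; linarith only [hI1, hI2])⟩, (by push_cast; linarith only [p0, h0, h2, hIa, haH, hI1, hI2]), (by push_cast; linarith only [p0, h0, h2, hIa, haH, hI1, hI2])⟩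
    · have hXu := hP.X_lt (31 / 100) (143 / 1000) (149 / 10) (by linarith only [p0, h0, hIa, haH, hI1, hI2]) (by linarith only [hI1, hI2]) (by norm_num) (by norm_num) (by norm_num)
      have hXl := hP.le_X (31 / 100) (143 / 1000) (91 / 100) (by linarith only [p0, h0, hIa, haH, hI1, hI2]) (by linarith only [hI1, hI2]) (by norm_num)
      exact mid_end_box hP hb (by norm_num) hX (by decide) midExitD_end14
        ⟨⟨by norm_num, by norm_num⟩, ⟨(by push_cast; linarith only [p1, h1, hXu, hXl]), (by push_cast; linarith only [p1, h1, hXu, hXl])⟩,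
        ⟨(by push_cast; linarith only [hI1, hI2]), (by push_cast; linarith only [hI1, hI2])⟩, (by push_cast; linarith only [p0, h0, hIa, haH, hI1, hI2]), (by push_cast; linarith only [p0, h0, hIa, haH, hI1, hI2])⟩

theorem midExitD_end_s1 {a b I X : ℝ} (hP : MidPlace a I X) (hb : b = 1 - 2 * I - a)
    (hI : 27 / 250 ≤ I ∧ I ≤ 1 / 7) (hX : 1000 ≤ X * midBracket midExitD I a (39 / 40)) (p0 : (209 / 1000) ≤ a) :
    allEn a b (39 / 40) (2 * I * X) (midBandG midLowC a b (39 / 40) (2 * I * X)) < 0 := by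
  rcases lt_or_ge X (79 / 10) with h | h
  · exact midExitD_end_s2 hP hb hI hX p0 h
  · exact midExitD_end_s11 hP hb hI hX p0 h

theorem midExitD_end {a b I X : ℝ} (hP : MidPlace a I X) (hb : b = 1 - 2 * I - a)
    (hI : 27 / 250 ≤ I ∧ I ≤ 1 / 7) (hX : 1000 ≤ X * midBracket midExitD I a (39 / 40)) :
    allEn a b (39 / 40) (2 * I * X) (midBandG midLowC a b (39 / 40) (2 * I * X)) < 0 := by
  rcases lt_or_ge a (209 / 1000) with h | h
  · exact midExitD_end_s0 hP hb hI hX  h
  · exact midExitD_end_s1 hP hb hI hX  h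

end AllLow

variable {N p q : ℝ} {S : Set ℝ} {R x y s dx dy : ℝ → ℝ}

/-- **The exit curve** of piece `A` up to `u = 199 / 200`. -/
theorem orbit_midExitA (hf : IsOrbitFns N p q S R x y s dx dy)
    (hb : SlabBoxAll N (1 / (p + 1)) (1 / (q + 1))) (h12 : 12 ≤ N) (h20 : N ≤ 20)
    (ha : 1 / (p + 1) ≤ 31 / 100) {w : ℝ} (hw : w ∈ S) (hw0 : 0 < R w)
    (hwu : uOf N (R w) (x w) ≤ 199 / 200) :
    let al := 1 / (p + 1)
    let I := allStabI al (1 / (q + 1))
    vOf al (1 / (q + 1)) (y w / x w) * midBracket midExitA I al (uOf N (R w) (x w)) <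
      2000 * I := by
  have hJ : (fun I : ℝ => 1 / 20 ≤ I ∧ I ≤ 1 / 12) (1 / N) := ⟨one_div_le_one_div_of_le (by linarith) h20, one_div_le_one_div_of_le (by norm_num) h12⟩
  exact orbit_mid_exit hf hb (by linarith) h20 ha midLowA midExitA (by norm_num) (J := fun I => 1 / 20 ≤ I ∧ I ≤ 1 / 12) hJ
    (fun z hz hz0 => (orbit_midA hf hb h12 h20 ha hz hz0).1)
    (fun _ _ _ _ hP hI hu hu1 => AllLow.midExitA_bracket hP hI hu hu1)
    (fun _ _ _ _ _ hP hb' hI hu hu1 hV hen => AllLow.midExitA_sign hP hb' hI hu hu1 hV hen)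
    (fun _ _ _ _ hP hb' hI _ hX => AllLow.midExitA_end hP hb' hI hX) hw hw0 hwu

/-- **The exit curve** of piece `B` up to `u = 199 / 200`. -/
theorem orbit_midExitB (hf : IsOrbitFns N p q S R x y s dx dy)
    (hb : SlabBoxAll N (1 / (p + 1)) (1 / (q + 1))) (h9 : 250 / 27 < N) (h12 : N ≤ 12)
    (ha : 1 / (p + 1) ≤ 31 / 100) {w : ℝ} (hw : w ∈ S) (hw0 : 0 < R w)
    (hwu : uOf N (R w) (x w) ≤ 199 / 200) :
    let al := 1 / (p + 1)
    let I := allStabI al (1 / (q + 1))
    vOf al (1 / (q + 1)) (y w / x w) * midBracket midExitB I al (uOf N (R w) (x w)) <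
      2000 * I := by
  have hJ : (fun I : ℝ => 1 / 12 ≤ I ∧ I < 27 / 250) (1 / N) := ⟨one_div_le_one_div_of_le (by linarith) h12, by rw [div_lt_iff₀ (by linarith)]; linarith⟩
  exact orbit_mid_exit hf hb (by linarith) (by linarith) ha midLowB midExitB (by norm_num) (J := fun I => 1 / 12 ≤ I ∧ I < 27 / 250) hJ
    (fun z hz hz0 => (orbit_midB hf hb h9 h12 ha hz hz0).1)
    (fun _ _ _ _ hP hI hu hu1 => AllLow.midExitB_bracket hP hI hu hu1)
    (fun _ _ _ _ _ hP hb' hI hu hu1 hV hen => AllLow.midExitB_sign hP hb' hI hu hu1 hV hen)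
    (fun _ _ _ _ hP hb' hI _ hX => AllLow.midExitB_end hP hb' hI hX) hw hw0 hwu

/-- **The exit curve** of piece `C` up to `u = 199 / 200`. -/
theorem orbit_midExitC (hf : IsOrbitFns N p q S R x y s dx dy)
    (hb : SlabBoxAll N (1 / (p + 1)) (1 / (q + 1))) (h7 : 7 ≤ N) (h9 : N ≤ 250 / 27)
    (ha : 1 / (p + 1) ≤ 31 / 100) {w : ℝ} (hw : w ∈ S) (hw0 : 0 < R w)
    (hwu : uOf N (R w) (x w) ≤ 199 / 200) :
    let al := 1 / (p + 1)
    let I := allStabI al (1 / (q + 1))
    vOf al (1 / (q + 1)) (y w / x w) * midBracket midExitC I al (uOf N (R w) (x w)) <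
      2000 * I := by
  have hJ : (fun I : ℝ => 27 / 250 ≤ I ∧ I ≤ 1 / 7) (1 / N) := ⟨by rw [le_div_iff₀ (by linarith)]; linarith, one_div_le_one_div_of_le (by norm_num) h7⟩
  exact orbit_mid_exit hf hb h7 (by linarith) ha midLowC midExitC (by norm_num) (J := fun I => 27 / 250 ≤ I ∧ I ≤ 1 / 7) hJ
    (fun z hz hz0 => (orbit_midC hf hb h7 h9 ha hz hz0).1)
    (fun _ _ _ _ hP hI hu hu1 => AllLow.midExitC_bracket hP hI hu hu1)
    (fun _ _ _ _ _ hP hb' hI hu hu1 hV hen => AllLow.midExitC_sign hP hb' hI hu hu1 hV hen)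
    (fun _ _ _ _ hP hb' hI _ hX => AllLow.midExitC_end hP hb' hI hX) hw hw0 hwu

/-- **The exit curve** of piece `C` up to `u = 39 / 40`. -/
theorem orbit_midExitD (hf : IsOrbitFns N p q S R x y s dx dy)
    (hb : SlabBoxAll N (1 / (p + 1)) (1 / (q + 1))) (h7 : 7 ≤ N) (h9 : N ≤ 250 / 27)
    (ha : 1 / (p + 1) ≤ 31 / 100) {w : ℝ} (hw : w ∈ S) (hw0 : 0 < R w)
    (hwu : uOf N (R w) (x w) ≤ 39 / 40) :
    let al := 1 / (p + 1)
    let I := allStabI al (1 / (q + 1))
    vOf al (1 / (q + 1)) (y w / x w) * midBracket midExitD I al (uOf N (R w) (x w)) <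
      2000 * I := by
  have hJ : (fun I : ℝ => 27 / 250 ≤ I ∧ I ≤ 1 / 7) (1 / N) := ⟨by rw [le_div_iff₀ (by linarith)]; linarith, one_div_le_one_div_of_le (by norm_num) h7⟩
  exact orbit_mid_exit hf hb h7 (by linarith) ha midLowC midExitD (by norm_num) (J := fun I => 27 / 250 ≤ I ∧ I ≤ 1 / 7) hJ
    (fun z hz hz0 => (orbit_midC hf hb h7 h9 ha hz hz0).1)
    (fun _ _ _ _ hP hI hu hu1 => AllLow.midExitD_bracket hP hI hu hu1)
    (fun _ _ _ _ _ hP hb' hI hu hu1 hV hen => AllLow.midExitD_sign hP hb' hI hu hu1 hV hen)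
    (fun _ _ _ _ hP hb' hI _ hX => AllLow.midExitD_end hP hb' hI hX) hw hw0 hwu

end Vale.Agent.P100.Calib.Band
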