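import Vale.Agent.P100.Calib.SlabMidNegBand
import Vale.Agent.P100.Calib.SlabMidExit

/-!
# The conditions at and below the crossing on orbits, `7 ≤ N < 20`

The exit curves on `u > 0` give `v < 2 I (103/100 + 9/10 I)` at the crossing, so for
`al ≤ 31/100` the conditions `midNeg` hold on every orbit at and below the crossing.
-/

open Set Filter Topology

namespace Vale.Agent.P100.Calib.Band

open Vale.Agent.P100.Bubble Chart

variable {N p q : ℝ} {S : Set ℝ} {R x y s dx dy : ℝ → ℝ}

/-- The conditions in the chart, `7 ≤ N < 20`. -/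
def midNeg (d S u v t : ℝ) : Prop :=
  (midNegP ((S - d) / 2) ((S + d) / 2)).Holds d S u v t

/-- At the crossing `v` is below the upper end. -/
theorem midNeg_high (hf : IsOrbitFns N p q S R x y s dx dy)
    (hb : SlabBoxAll N (1 / (p + 1)) (1 / (q + 1))) (h7 : 7 ≤ N) (h20 : N < 20)
    (ha : 1 / (p + 1) ≤ 31 / 100) {z₀ : ℝ} (hz₀ : z₀ ∈ S) (hR₀ : R z₀ = 0) :
    vOf (1 / (p + 1)) (1 / (q + 1)) (y z₀ / x z₀) <
      (midNegP (1 / (p + 1)) (1 / (q + 1))).V₁ := by
  set al := 1 / (p + 1) with hal
  set be := 1 / (q + 1) with hbe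
  obtain ⟨hI, hI1, hIa, -⟩ := MidNeg.box_facts hb h7 h20
  set I := allStabI al be with hId
  have hN : 0 < N := by linarith
  have hIN : N * I = 1 := by
    rw [hId, allStabI, mul_div_assoc', hb.sum]; norm_num
  have cR := hf.smooth.1.continuousOn.continuousAt (hf.isOpen.mem_nhds hz₀)
  have cx := hf.smooth.2.1.continuousOn.continuousAt (hf.isOpen.mem_nhds hz₀)
  have cy := hf.smooth.2.2.1.continuousOn.continuousAt (hf.isOpen.mem_nhds hz₀)
  have hx0 := hf.x_pos z₀ hz₀
  have tu : Tendsto (fun z => uOf N (R z) (x z)) (𝓝[<] z₀) (𝓝 0) := by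
    have hc : ContinuousAt (fun z => uOf N (R z) (x z)) z₀ := by
      simp only [uOf]
      exact ((cR.const_mul 2).mul cx).div_const _
    have := hc.tendsto.mono_left (nhdsWithin_le_nhds (s := Iio z₀))
    simpa [uOf, hR₀] using this
  have tv : Tendsto (fun z => vOf al be (y z / x z)) (𝓝[<] z₀)
      (𝓝 (vOf al be (y z₀ / x z₀))) := by
    have hc : ContinuousAt (fun z => vOf al be (y z / x z)) z₀ := by
      simp only [vOf]
      exact (((cy.div cx hx0.ne').const_mul (be / al)).sub continuousAt_const).div_const _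
    exact hc.tendsto.mono_left (nhdsWithin_le_nhds (s := Iio z₀))
  -- a bracket bounds `v` at the crossing
  have key : ∀ (e : MidExit) (m : ℝ), 0 < m →
      (∀ w ∈ S, 0 < R w → uOf N (R w) (x w) ≤ 1 / 2 →
        vOf al be (y w / x w) * midBracket e I al (uOf N (R w) (x w)) < 2000 * I) →
      1000 < (103 / 100 + 9 / 10 * I) * midFour e.e0 I al → m = midFour e.e0 I al →
      vOf al be (y z₀ / x z₀) < 2 * I * (103 / 100 + 9 / 10 * I) := by
    intro e m hm hcurve hmar hme
    have hb0 : Tendsto (fun z => midBracket e I al (uOf N (R z) (x z))) (𝓝[<] z₀) (𝓝 m) := by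
      have hc : Continuous fun u => midBracket e I al u := by
        simp only [midBracket]; fun_prop
      have := (hc.tendsto 0).comp tu
      simpa [midBracket, hme, Function.comp_def] using this
    have hev : ∀ᶠ z in 𝓝[<] z₀,
        vOf al be (y z / x z) * midBracket e I al (uOf N (R z) (x z)) ≤ 2000 * I := by
      filter_upwards [mem_nhdsWithin_of_mem_nhds (hf.isOpen.mem_nhds hz₀), self_mem_nhdsWithin,
        tu.eventually (Iio_mem_nhds (show (0 : ℝ) < 1 / 2 by norm_num))] with z hz hlt hu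
      exact (hcurve z hz (hR₀ ▸ hf.anti hz hz₀ hlt) hu.le).le
    have hle := le_of_tendsto (tv.mul hb0) hev
    refine lt_of_mul_lt_mul_right (lt_of_le_of_lt hle ?_) hm.le
    rw [hme]
    linarith [mul_lt_mul_of_pos_left hmar (show 0 < 2 * I by linarith)]
  show _ < 2 * I * (103 / 100 + 9 / 10 * I)
  have hpI : al * I ≤ 31 / 100 * I := mul_le_mul_of_nonneg_right ha (by linarith)
  have ha0 : 0 < al := by linarith
  rcases le_or_gt 12 N with h12 | h12
  · have hI12 : I ≤ 1 / 12 := by linarith [mul_le_mul_of_nonneg_right h12 (show 0 ≤ I by linarith)]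
    have hm : (900 : ℝ) < midFour midExitA.e0 I al := by
      simp only [midFour, midExitA]; norm_num; linarith
    refine key midExitA _ (by linarith) (fun w hw hw0 hwu => ?_) ?_ rfl
    · exact orbit_midExitA hf hb h12 h20.le ha hw hw0 (hwu.trans (by norm_num))
    · simp only [midFour, midExitA]; norm_num
      nlinarith [mul_le_mul_of_nonneg_left hpI (show 0 ≤ I by linarith),
        mul_le_mul_of_nonneg_left hI12 (show 0 ≤ I by linarith),
        mul_le_mul_of_nonneg_left hI.le ha0.le]
  rcases lt_or_ge (250 / 27) N with h9 | h9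
  · have hI9 : I ≤ 27 / 250 := by
      linarith [mul_le_mul_of_nonneg_right h9.le (show 0 ≤ I by linarith)]
    have hI12 : 1 / 12 ≤ I := by linarith [mul_le_mul_of_nonneg_right h12.le (show 0 ≤ I by linarith)]
    have hm : (850 : ℝ) < midFour midExitB.e0 I al := by
      simp only [midFour, midExitB]; norm_num; linarith
    refine key midExitB _ (by linarith) (fun w hw hw0 hwu => ?_) ?_ rfl
    · exact orbit_midExitB hf hb h9 h12.le ha hw hw0 (hwu.trans (by norm_num))
    · simp only [midFour, midExitB]; norm_num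
      nlinarith [mul_le_mul_of_nonneg_left hpI (show 0 ≤ I by linarith),
        mul_le_mul_of_nonneg_left hI9 (show 0 ≤ I by linarith),
        mul_le_mul_of_nonneg_left hI12 ha0.le]
  · have hI9 : 27 / 250 ≤ I := by
      linarith [mul_le_mul_of_nonneg_right h9 (show 0 ≤ I by linarith)]
    have hm : (800 : ℝ) < midFour midExitC.e0 I al := by
      simp only [midFour, midExitC]; norm_num; linarith
    refine key midExitC _ (by linarith) (fun w hw hw0 hwu => ?_) ?_ rfl
    · exact orbit_midExitC hf hb h7 h9 ha hw hw0 (hwu.trans (by norm_num))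
    · simp only [midFour, midExitC]; norm_num
      nlinarith [mul_le_mul_of_nonneg_left hpI (show 0 ≤ I by linarith),
        mul_le_mul_of_nonneg_left hI1 (show 0 ≤ I by linarith),
        mul_le_mul_of_nonneg_left hI9 ha0.le]

/-- **The conditions in the chart at and below the crossing**, `7 ≤ N < 20`. -/
theorem orbit_midNeg (hc : IsCrit N p q) (hf : IsOrbitFns N p q S R x y s dx dy)
    (hb : SlabBoxAll N (1 / (p + 1)) (1 / (q + 1))) (h7 : 7 ≤ N) (h20 : N < 20)
    (ha : 1 / (p + 1) ≤ 31 / 100)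
    {z : ℝ} (hz : z ∈ S) (hR : R z ≤ 0) (hκ : z ≤ 1 / (q + 1) / (1 / (p + 1))) :
    midNeg (1 / (q + 1) - 1 / (p + 1)) (1 / (p + 1) + 1 / (q + 1)) (uOf N (R z) (x z))
      (vOf (1 / (p + 1)) (1 / (q + 1)) (y z / x z)) (slopeAt N p q R x y dx dy z) := by
  have := NegPar.orbit_holds hc hf hb (MidNeg.cert hb h7 h20 ha)
    (fun z₀ h₀ h₁ => midNeg_high hf hb h7 h20 ha h₀ h₁) hz hR hκ
  simp only [midNeg,
    show (1 / (p + 1) + 1 / (q + 1) - (1 / (q + 1) - 1 / (p + 1))) / 2 = 1 / (p + 1) by ring,
    show (1 / (p + 1) + 1 / (q + 1) + (1 / (q + 1) - 1 / (p + 1))) / 2 = 1 / (q + 1) by ring]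
  exact this

end Vale.Agent.P100.Calib.Band
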