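import Vale.Agent.P100.Calib.SlabSignsMidNegBox

/-!
# Checks below the crossing, piece AB
-/

set_option linter.defProp false

namespace Vale.Agent.P100.Calib.Closed.All.SgnNeg

open BoxPos

def gyAB0000 :
    Ex.checkNonneg (cGY 6 false (mpE false) (mgE false) (mtE false) eK1) boxMAB 481 ⟨3, 8, 29, 16⟩ = true := by decide +kernel

def gyAB0001 :
    Ex.checkNonneg (cGY 6 false (mpE false) (mgE false) (mtE true) eK1) boxMAB 481 ⟨3, 8, 29, 16⟩ = true := by decide +kernel

def gyAB0010 :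
    Ex.checkNonneg (cGY 6 false (mpE false) (mgE true) (mtE false) eK1) boxMAB 481 ⟨3, 8, 29, 16⟩ = true := by decide +kernel

def gyAB0011 :
    Ex.checkNonneg (cGY 6 false (mpE false) (mgE true) (mtE true) eK1) boxMAB 481 ⟨3, 8, 29, 16⟩ = true := by decide +kernel

def gyAB0100 :
    Ex.checkNonneg (cGY 6 false (mpE true) (mgE false) (mtE false) eK1) boxMAB 481 ⟨3, 8, 29, 16⟩ = true := by decide +kernel

def gyAB0101 :
    Ex.checkNonneg (cGY 6 false (mpE true) (mgE false) (mtE true) eK1) boxMAB 481 ⟨3, 8, 29, 16⟩ = true := by decide +kernel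

def gyAB0110 :
    Ex.checkNonneg (cGY 6 false (mpE true) (mgE true) (mtE false) eK1) boxMAB 481 ⟨3, 8, 29, 16⟩ = true := by decide +kernel

def gyAB0111 :
    Ex.checkNonneg (cGY 6 false (mpE true) (mgE true) (mtE true) eK1) boxMAB 481 ⟨3, 8, 29, 16⟩ = true := by decide +kernel

def gyAB1000 :
    Ex.checkNonneg (cGY 6 true (mpE false) (mgE false) (mtE false) eK1) boxMAB 481 ⟨3, 8, 29, 16⟩ = true := by decide +kernel

def gyAB1001 :
    Ex.checkNonneg (cGY 6 true (mpE false) (mgE false) (mtE true) eK1) boxMAB 481 ⟨3, 8, 29, 16⟩ = true := by decide +kernel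

def gyAB1010 :
    Ex.checkNonneg (cGY 6 true (mpE false) (mgE true) (mtE false) eK1) boxMAB 481 ⟨3, 8, 29, 16⟩ = true := by decide +kernel

def gyAB1011 :
    Ex.checkNonneg (cGY 6 true (mpE false) (mgE true) (mtE true) eK1) boxMAB 481 ⟨3, 8, 29, 16⟩ = true := by decide +kernel

def gyAB1100 :
    Ex.checkNonneg (cGY 6 true (mpE true) (mgE false) (mtE false) eK1) boxMAB 481 ⟨3, 8, 29, 16⟩ = true := by decide +kernel

def gyAB1101 :
    Ex.checkNonneg (cGY 6 true (mpE true) (mgE false) (mtE true) eK1) boxMAB 481 ⟨3, 8, 29, 16⟩ = true := by decide +kernel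

def gyAB1110 :
    Ex.checkNonneg (cGY 6 true (mpE true) (mgE true) (mtE false) eK1) boxMAB 481 ⟨3, 8, 29, 16⟩ = true := by decide +kernel

def gyAB1111 :
    Ex.checkNonneg (cGY 6 true (mpE true) (mgE true) (mtE true) eK1) boxMAB 481 ⟨3, 8, 29, 16⟩ = true := by decide +kernel

theorem gyAB : ∀ s i j l : Bool,
    Ex.checkNonneg (cGY 6 s (mpE i) (mgE j) (mtE l) eK1) boxMAB 481 ⟨3, 8, 29, 16⟩ = true
  | false, false, false, false => gyAB0000
  | false, false, false, true => gyAB0001
  | false, false, true, false => gyAB0010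
  | false, false, true, true => gyAB0011
  | false, true, false, false => gyAB0100
  | false, true, false, true => gyAB0101
  | false, true, true, false => gyAB0110
  | false, true, true, true => gyAB0111
  | true, false, false, false => gyAB1000
  | true, false, false, true => gyAB1001
  | true, false, true, false => gyAB1010
  | true, false, true, true => gyAB1011
  | true, true, false, false => gyAB1100
  | true, true, false, true => gyAB1101
  | true, true, true, false => gyAB1110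
  | true, true, true, true => gyAB1111

def lgAB00 :
    Ex.checkNonneg (fLG (mtE false) (mtE false) eK1) boxMAB 288 ⟨2, 5, 16, 10⟩ = true := by decide +kernel

def lgAB01 :
    Ex.checkNonneg (fLG (mtE false) (mtE true) eK1) boxMAB 288 ⟨2, 5, 16, 10⟩ = true := by decide +kernel

def lgAB10 :
    Ex.checkNonneg (fLG (mtE true) (mtE false) eK1) boxMAB 288 ⟨2, 5, 16, 10⟩ = true := by decide +kernel

def lgAB11 :
    Ex.checkNonneg (fLG (mtE true) (mtE true) eK1) boxMAB 288 ⟨2, 5, 16, 10⟩ = true := by decide +kernel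

theorem lgAB : ∀ i l : Bool,
    Ex.checkNonneg (fLG (mtE i) (mtE l) eK1) boxMAB 288 ⟨2, 5, 16, 10⟩ = true
  | false, false => lgAB00
  | false, true => lgAB01
  | true, false => lgAB10
  | true, true => lgAB11

def dgyAB0 :
    Ex.checkNonneg (dGY 6 false) boxMAB 305 ⟨0, 5, 21, 11⟩ = true := by decide +kernel

def dgyAB1 :
    Ex.checkNonneg (dGY 6 true) boxMAB 305 ⟨0, 5, 21, 11⟩ = true := by decide +kernel

theorem dgyAB : ∀ s : Bool,
    Ex.checkNonneg (dGY 6 s) boxMAB 305 ⟨0, 5, 21, 11⟩ = true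
  | false => dgyAB0
  | true => dgyAB1

def dlAB0 :
    Ex.checkNonneg (dL 6 false) boxMAB 305 ⟨0, 5, 20, 12⟩ = true := by decide +kernel

def dlAB1 :
    Ex.checkNonneg (dL 6 true) boxMAB 305 ⟨0, 5, 20, 12⟩ = true := by decide +kernel

theorem dlAB : ∀ s : Bool,
    Ex.checkNonneg (dL 6 s) boxMAB 305 ⟨0, 5, 20, 12⟩ = true
  | false => dlAB0
  | true => dlAB1

def dggAB :
    Ex.checkNonneg (dGG) boxMAB 204 ⟨0, 5, 15, 5⟩ = true := by decide +kernel

def dteAB :
    Ex.checkNonneg (dTE) boxMAB 187 ⟨0, 4, 13, 6⟩ = true := by decide +kernel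

def dneAB :
    Ex.checkNonneg (dNE) boxMAB 177 ⟨0, 4, 12, 6⟩ = true := by decide +kernel

def dnpAB :
    Ex.checkNonneg (dNP) boxMAB 277 ⟨0, 5, 18, 11⟩ = true := by decide +kernel

def dtwAB :
    Ex.checkNonneg (dTW) boxMAB 81 ⟨0, 2, 5, 2⟩ = true := by decide +kernel

def dnwAB :
    Ex.checkNonneg (dNW) boxMAB 72 ⟨0, 2, 4, 2⟩ = true := by decide +kernel

def dxwAB :
    Ex.checkNonneg (dXW) boxMAB 45 ⟨0, 1, 3, 1⟩ = true := by decide +kernel

def eplAB :
    Ex.checkNonneg (envPL midEncl) boxMAB 194 ⟨3, 2, 10, 8⟩ = true := by decide +kernel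

def ephAB :
    Ex.checkNonneg (envPH midEncl) boxMAB 185 ⟨3, 2, 10, 7⟩ = true := by decide +kernel

def eghAB :
    Ex.checkNonneg (envGH midEncl) boxMAB 209 ⟨3, 1, 10, 10⟩ = true := by decide +kernel

def eglAB :
    Ex.checkNonneg (envGL midEncl) boxMAB 198 ⟨3, 1, 10, 9⟩ = true := by decide +kernel

def etlAB :
    Ex.checkNonneg (envTL midEncl) boxMAB 138 ⟨2, 1, 7, 6⟩ = true := by decide +kernel

def ethAB :
    Ex.checkNonneg (envTH midEncl) boxMAB 139 ⟨2, 1, 7, 6⟩ = true := by decide +kernel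

end Vale.Agent.P100.Calib.Closed.All.SgnNeg
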