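import Vale.Agent.P100.Calib.SlabSignsMidNegBox

/-!
# Checks below the crossing, piece AB
-/

set_option linter.defProp false

namespace Vale.Agent.P100.Calib.Closed.All.SgnNeg

open BoxPos

def arAB0000 :
    Ex.checkNonneg (cL 6 false (mpE false) (mgE false) (mtE false) (mwE false) eK1) boxMAB 503 ⟨4, 7, 27, 19⟩ = true := by decide +kernel

def arAB0001 :
    Ex.checkNonneg (cL 6 false (mpE false) (mgE false) (mtE true) (mwE false) eK1) boxMAB 503 ⟨4, 7, 27, 19⟩ = true := by decide +kernel

def arAB0010 :
    Ex.checkNonneg (cL 6 false (mpE false) (mgE true) (mtE false) (mwE false) eK1) boxMAB 503 ⟨4, 7, 27, 19⟩ = true := by decide +kernel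

def arAB0011 :
    Ex.checkNonneg (cL 6 false (mpE false) (mgE true) (mtE true) (mwE false) eK1) boxMAB 503 ⟨4, 7, 27, 19⟩ = true := by decide +kernel

def arAB0100 :
    Ex.checkNonneg (cL 6 false (mpE true) (mgE false) (mtE false) (mwE false) eK1) boxMAB 503 ⟨4, 7, 27, 19⟩ = true := by decide +kernel

def arAB0101 :
    Ex.checkNonneg (cL 6 false (mpE true) (mgE false) (mtE true) (mwE false) eK1) boxMAB 503 ⟨4, 7, 27, 19⟩ = true := by decide +kernel

def arAB0110 :
    Ex.checkNonneg (cL 6 false (mpE true) (mgE true) (mtE false) (mwE false) eK1) boxMAB 503 ⟨4, 7, 27, 19⟩ = true := by decide +kernel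

def arAB0111 :
    Ex.checkNonneg (cL 6 false (mpE true) (mgE true) (mtE true) (mwE false) eK1) boxMAB 503 ⟨4, 7, 27, 19⟩ = true := by decide +kernel

def arAB1000 :
    Ex.checkNonneg (cL 6 true (mpE false) (mgE false) (mtE false) (mwE false) eK1) boxMAB 503 ⟨4, 7, 27, 19⟩ = true := by decide +kernel

def arAB1001 :
    Ex.checkNonneg (cL 6 true (mpE false) (mgE false) (mtE true) (mwE false) eK1) boxMAB 503 ⟨4, 7, 27, 19⟩ = true := by decide +kernel

def arAB1010 :
    Ex.checkNonneg (cL 6 true (mpE false) (mgE true) (mtE false) (mwE false) eK1) boxMAB 503 ⟨4, 7, 27, 19⟩ = true := by decide +kernel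

def arAB1011 :
    Ex.checkNonneg (cL 6 true (mpE false) (mgE true) (mtE true) (mwE false) eK1) boxMAB 503 ⟨4, 7, 27, 19⟩ = true := by decide +kernel

def arAB1100 :
    Ex.checkNonneg (cL 6 true (mpE true) (mgE false) (mtE false) (mwE false) eK1) boxMAB 503 ⟨4, 7, 27, 19⟩ = true := by decide +kernel

def arAB1101 :
    Ex.checkNonneg (cL 6 true (mpE true) (mgE false) (mtE true) (mwE false) eK1) boxMAB 503 ⟨4, 7, 27, 19⟩ = true := by decide +kernel

def arAB1110 :
    Ex.checkNonneg (cL 6 true (mpE true) (mgE true) (mtE false) (mwE false) eK1) boxMAB 503 ⟨4, 7, 27, 19⟩ = true := by decide +kernel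

def arAB1111 :
    Ex.checkNonneg (cL 6 true (mpE true) (mgE true) (mtE true) (mwE false) eK1) boxMAB 503 ⟨4, 7, 27, 19⟩ = true := by decide +kernel

theorem arAB : ∀ s i j l : Bool,
    Ex.checkNonneg (cL 6 s (mpE i) (mgE j) (mtE l) (mwE false) eK1) boxMAB 503 ⟨4, 7, 27, 19⟩ = true
  | false, false, false, false => arAB0000
  | false, false, false, true => arAB0001
  | false, false, true, false => arAB0010
  | false, false, true, true => arAB0011
  | false, true, false, false => arAB0100
  | false, true, false, true => arAB0101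
  | false, true, true, false => arAB0110
  | false, true, true, true => arAB0111
  | true, false, false, false => arAB1000
  | true, false, false, true => arAB1001
  | true, false, true, false => arAB1010
  | true, false, true, true => arAB1011
  | true, true, false, false => arAB1100
  | true, true, false, true => arAB1101
  | true, true, true, false => arAB1110
  | true, true, true, true => arAB1111

end Vale.Agent.P100.Calib.Closed.All.SgnNeg
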