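import Vale.Agent.P100.Calib.SlabSignsMidNegBox

/-!
# Checks below the crossing, piece AB
-/

set_option linter.defProp false

namespace Vale.Agent.P100.Calib.Closed.All.SgnNeg

open BoxPos

def xbFAB000 :
    Ex.checkNonneg (cX false (mpE false) (mgE false) (mtE false) (mwE false)) boxMAB 300 ⟨3, 4, 15, 12⟩ = true := by decide +kernel

def xbFAB001 :
    Ex.checkNonneg (cX false (mpE false) (mgE false) (mtE true) (mwE false)) boxMAB 300 ⟨3, 4, 15, 12⟩ = true := by decide +kernel

def xbFAB010 :
    Ex.checkNonneg (cX false (mpE false) (mgE true) (mtE false) (mwE false)) boxMAB 300 ⟨3, 4, 15, 12⟩ = true := by decide +kernel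

def xbFAB011 :
    Ex.checkNonneg (cX false (mpE false) (mgE true) (mtE true) (mwE false)) boxMAB 300 ⟨3, 4, 15, 12⟩ = true := by decide +kernel

def xbFAB100 :
    Ex.checkNonneg (cX false (mpE true) (mgE false) (mtE false) (mwE false)) boxMAB 300 ⟨3, 4, 15, 12⟩ = true := by decide +kernel

def xbFAB101 :
    Ex.checkNonneg (cX false (mpE true) (mgE false) (mtE true) (mwE false)) boxMAB 300 ⟨3, 4, 15, 12⟩ = true := by decide +kernel

def xbFAB110 :
    Ex.checkNonneg (cX false (mpE true) (mgE true) (mtE false) (mwE false)) boxMAB 300 ⟨3, 4, 15, 12⟩ = true := by decide +kernel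

def xbFAB111 :
    Ex.checkNonneg (cX false (mpE true) (mgE true) (mtE true) (mwE false)) boxMAB 300 ⟨3, 4, 15, 12⟩ = true := by decide +kernel

theorem xbFAB : ∀ i j l : Bool,
    Ex.checkNonneg (cX false (mpE i) (mgE j) (mtE l) (mwE false)) boxMAB 300 ⟨3, 4, 15, 12⟩ = true
  | false, false, false => xbFAB000
  | false, false, true => xbFAB001
  | false, true, false => xbFAB010
  | false, true, true => xbFAB011
  | true, false, false => xbFAB100
  | true, false, true => xbFAB101
  | true, true, false => xbFAB110
  | true, true, true => xbFAB111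

def xbTAB000 :
    Ex.checkNonneg (cX true (mpE false) (mgE false) (mtE false) (mwE true)) boxMAB 308 ⟨3, 4, 15, 13⟩ = true := by decide +kernel

def xbTAB001 :
    Ex.checkNonneg (cX true (mpE false) (mgE false) (mtE true) (mwE true)) boxMAB 308 ⟨3, 4, 15, 13⟩ = true := by decide +kernel

def xbTAB010 :
    Ex.checkNonneg (cX true (mpE false) (mgE true) (mtE false) (mwE true)) boxMAB 308 ⟨3, 4, 15, 13⟩ = true := by decide +kernel

def xbTAB011 :
    Ex.checkNonneg (cX true (mpE false) (mgE true) (mtE true) (mwE true)) boxMAB 308 ⟨3, 4, 15, 13⟩ = true := by decide +kernel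

def xbTAB100 :
    Ex.checkNonneg (cX true (mpE true) (mgE false) (mtE false) (mwE true)) boxMAB 308 ⟨3, 4, 15, 13⟩ = true := by decide +kernel

def xbTAB101 :
    Ex.checkNonneg (cX true (mpE true) (mgE false) (mtE true) (mwE true)) boxMAB 308 ⟨3, 4, 15, 13⟩ = true := by decide +kernel

def xbTAB110 :
    Ex.checkNonneg (cX true (mpE true) (mgE true) (mtE false) (mwE true)) boxMAB 308 ⟨3, 4, 15, 13⟩ = true := by decide +kernel

def xbTAB111 :
    Ex.checkNonneg (cX true (mpE true) (mgE true) (mtE true) (mwE true)) boxMAB 308 ⟨3, 4, 15, 13⟩ = true := by decide +kernel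

theorem xbTAB : ∀ i j l : Bool,
    Ex.checkNonneg (cX true (mpE i) (mgE j) (mtE l) (mwE true)) boxMAB 308 ⟨3, 4, 15, 13⟩ = true
  | false, false, false => xbTAB000
  | false, false, true => xbTAB001
  | false, true, false => xbTAB010
  | false, true, true => xbTAB011
  | true, false, false => xbTAB100
  | true, false, true => xbTAB101
  | true, true, false => xbTAB110
  | true, true, true => xbTAB111

end Vale.Agent.P100.Calib.Closed.All.SgnNeg
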