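import Vale.Agent.P100.Calib.SlabSignsAllNegSound
import Vale.Agent.P100.Calib.SlabSignsMidNegABGY
import Vale.Agent.P100.Calib.SlabSignsMidNegABX
import Vale.Agent.P100.Calib.SlabSignsMidNegABL
import Vale.Agent.P100.Calib.SlabSignsMidNegABN

/-!
# The points of piece AB are good
-/

namespace Vale.Agent.P100.Calib.Closed.All.SgnNeg

open BoxPos

theorem goodAB {x : ℕ → ℝ} (hx : ∀ i < 4, ∃ t : ℝ, 0 ≤ t ∧ 0 < ((boxMAB i).c : ℝ) + (boxMAB i).d * t ∧
    ((boxMAB i).a : ℝ) + (boxMAB i).b * t = x i * (((boxMAB i).c : ℝ) + (boxMAB i).d * t)) :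
    Good midEncl eK1 x 6 where
  gy s i j l := Ex.nonneg_of_checkNonneg (gyAB s i j l) hx
  xb s i j l := by
    cases s
    · exact Ex.nonneg_of_checkNonneg (xbFAB i j l) hx
    · exact Ex.nonneg_of_checkNonneg (xbTAB i j l) hx
  arrow s i j l := Ex.nonneg_of_checkNonneg (arAB s i j l) hx
  mg i j l := Ex.nonneg_of_checkNonneg (mgAB i j l) hx
  lg i l := Ex.nonneg_of_checkNonneg (lgAB i l) hx
  cgy s := Ex.nonneg_of_checkNonneg (dgyAB s) hx
  cl s := Ex.nonneg_of_checkNonneg (dlAB s) hx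
  cgg := Ex.nonneg_of_checkNonneg dggAB hx
  cte := Ex.nonneg_of_checkNonneg dteAB hx
  cne := Ex.nonneg_of_checkNonneg dneAB hx
  cnp := Ex.nonneg_of_checkNonneg dnpAB hx
  tw := Ex.nonneg_of_checkNonneg dtwAB hx
  nw := Ex.nonneg_of_checkNonneg dnwAB hx
  xw := Ex.nonneg_of_checkNonneg dxwAB hx
  pl := Ex.nonneg_of_checkNonneg eplAB hx
  ph := Ex.nonneg_of_checkNonneg ephAB hx
  gh := Ex.nonneg_of_checkNonneg eghAB hx
  gl := Ex.nonneg_of_checkNonneg eglAB hx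
  tl := Ex.nonneg_of_checkNonneg etlAB hx
  th := Ex.nonneg_of_checkNonneg ethAB hx

end Vale.Agent.P100.Calib.Closed.All.SgnNeg
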