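import Vale.Agent.P100.Calib.SlabSignsMidNegBox

/-!
# Checks below the crossing, piece CI
-/

set_option linter.defProp false

namespace Vale.Agent.P100.Calib.Closed.All.SgnNeg

open BoxPos

def gyCI0000 :
    Ex.checkNonneg (cGY 9 false (mpE false) (mgE false) (mtE false) eK1) boxMCI 430 ⟨3, 8, 29, 16⟩ = true := by decide +kernel

def gyCI0001 :
    Ex.checkNonneg (cGY 9 false (mpE false) (mgE false) (mtE true) eK1) boxMCI 430 ⟨3, 8, 29, 16⟩ = true := by decide +kernel

def gyCI0010 :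
    Ex.checkNonneg (cGY 9 false (mpE false) (mgE true) (mtE false) eK1) boxMCI 430 ⟨3, 8, 29, 16⟩ = true := by decide +kernel

def gyCI0011 :
    Ex.checkNonneg (cGY 9 false (mpE false) (mgE true) (mtE true) eK1) boxMCI 430 ⟨3, 8, 29, 16⟩ = true := by decide +kernel

def gyCI0100 :
    Ex.checkNonneg (cGY 9 false (mpE true) (mgE false) (mtE false) eK1) boxMCI 430 ⟨3, 8, 29, 16⟩ = true := by decide +kernel

def gyCI0101 :
    Ex.checkNonneg (cGY 9 false (mpE true) (mgE false) (mtE true) eK1) boxMCI 430 ⟨3, 8, 29, 16⟩ = true := by decide +kernel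

def gyCI0110 :
    Ex.checkNonneg (cGY 9 false (mpE true) (mgE true) (mtE false) eK1) boxMCI 430 ⟨3, 8, 29, 16⟩ = true := by decide +kernel

def gyCI0111 :
    Ex.checkNonneg (cGY 9 false (mpE true) (mgE true) (mtE true) eK1) boxMCI 430 ⟨3, 8, 29, 16⟩ = true := by decide +kernel

def gyCI1000 :
    Ex.checkNonneg (cGY 9 true (mpE false) (mgE false) (mtE false) eK1) boxMCI 430 ⟨3, 8, 29, 16⟩ = true := by decide +kernel

def gyCI1001 :
    Ex.checkNonneg (cGY 9 true (mpE false) (mgE false) (mtE true) eK1) boxMCI 430 ⟨3, 8, 29, 16⟩ = true := by decide +kernel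

def gyCI1010 :
    Ex.checkNonneg (cGY 9 true (mpE false) (mgE true) (mtE false) eK1) boxMCI 430 ⟨3, 8, 29, 16⟩ = true := by decide +kernel

def gyCI1011 :
    Ex.checkNonneg (cGY 9 true (mpE false) (mgE true) (mtE true) eK1) boxMCI 430 ⟨3, 8, 29, 16⟩ = true := by decide +kernel

def gyCI1100 :
    Ex.checkNonneg (cGY 9 true (mpE true) (mgE false) (mtE false) eK1) boxMCI 430 ⟨3, 8, 29, 16⟩ = true := by decide +kernel

def gyCI1101 :
    Ex.checkNonneg (cGY 9 true (mpE true) (mgE false) (mtE true) eK1) boxMCI 430 ⟨3, 8, 29, 16⟩ = true := by decide +kernel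

def gyCI1110 :
    Ex.checkNonneg (cGY 9 true (mpE true) (mgE true) (mtE false) eK1) boxMCI 430 ⟨3, 8, 29, 16⟩ = true := by decide +kernel

def gyCI1111 :
    Ex.checkNonneg (cGY 9 true (mpE true) (mgE true) (mtE true) eK1) boxMCI 430 ⟨3, 8, 29, 16⟩ = true := by decide +kernel

theorem gyCI : ∀ s i j l : Bool,
    Ex.checkNonneg (cGY 9 s (mpE i) (mgE j) (mtE l) eK1) boxMCI 430 ⟨3, 8, 29, 16⟩ = true
  | false, false, false, false => gyCI0000
  | false, false, false, true => gyCI0001
  | false, false, true, false => gyCI0010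
  | false, false, true, true => gyCI0011
  | false, true, false, false => gyCI0100
  | false, true, false, true => gyCI0101
  | false, true, true, false => gyCI0110
  | false, true, true, true => gyCI0111
  | true, false, false, false => gyCI1000
  | true, false, false, true => gyCI1001
  | true, false, true, false => gyCI1010
  | true, false, true, true => gyCI1011
  | true, true, false, false => gyCI1100
  | true, true, false, true => gyCI1101
  | true, true, true, false => gyCI1110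
  | true, true, true, true => gyCI1111

def lgCI00 :
    Ex.checkNonneg (fLG (mtE false) (mtE false) eK1) boxMCI 259 ⟨2, 5, 16, 10⟩ = true := by decide +kernel

def lgCI01 :
    Ex.checkNonneg (fLG (mtE false) (mtE true) eK1) boxMCI 259 ⟨2, 5, 16, 10⟩ = true := by decide +kernel

def lgCI10 :
    Ex.checkNonneg (fLG (mtE true) (mtE false) eK1) boxMCI 259 ⟨2, 5, 16, 10⟩ = true := by decide +kernel

def lgCI11 :
    Ex.checkNonneg (fLG (mtE true) (mtE true) eK1) boxMCI 259 ⟨2, 5, 16, 10⟩ = true := by decide +kernel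

theorem lgCI : ∀ i l : Bool,
    Ex.checkNonneg (fLG (mtE i) (mtE l) eK1) boxMCI 259 ⟨2, 5, 16, 10⟩ = true
  | false, false => lgCI00
  | false, true => lgCI01
  | true, false => lgCI10
  | true, true => lgCI11

def dgyCI0 :
    Ex.checkNonneg (dGY 9 false) boxMCI 270 ⟨0, 5, 21, 11⟩ = true := by decide +kernel

def dgyCI1 :
    Ex.checkNonneg (dGY 9 true) boxMCI 270 ⟨0, 5, 21, 11⟩ = true := by decide +kernel

theorem dgyCI : ∀ s : Bool,
    Ex.checkNonneg (dGY 9 s) boxMCI 270 ⟨0, 5, 21, 11⟩ = true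
  | false => dgyCI0
  | true => dgyCI1

def dlCI0 :
    Ex.checkNonneg (dL 9 false) boxMCI 271 ⟨0, 5, 20, 12⟩ = true := by decide +kernel

def dlCI1 :
    Ex.checkNonneg (dL 9 true) boxMCI 271 ⟨0, 5, 20, 12⟩ = true := by decide +kernel

theorem dlCI : ∀ s : Bool,
    Ex.checkNonneg (dL 9 s) boxMCI 271 ⟨0, 5, 20, 12⟩ = true
  | false => dlCI0
  | true => dlCI1

def dggCI :
    Ex.checkNonneg (dGG) boxMCI 177 ⟨0, 5, 15, 5⟩ = true := by decide +kernel

def dteCI :
    Ex.checkNonneg (dTE) boxMCI 164 ⟨0, 4, 13, 6⟩ = true := by decide +kernel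

def dneCI :
    Ex.checkNonneg (dNE) boxMCI 156 ⟨0, 4, 12, 6⟩ = true := by decide +kernel

def dnpCI :
    Ex.checkNonneg (dNP) boxMCI 245 ⟨0, 5, 18, 11⟩ = true := by decide +kernel

def dtwCI :
    Ex.checkNonneg (dTW) boxMCI 71 ⟨0, 2, 5, 2⟩ = true := by decide +kernel

def dnwCI :
    Ex.checkNonneg (dNW) boxMCI 64 ⟨0, 2, 4, 2⟩ = true := by decide +kernel

def dxwCI :
    Ex.checkNonneg (dXW) boxMCI 40 ⟨0, 1, 3, 1⟩ = true := by decide +kernel

def eplCI :
    Ex.checkNonneg (envPL midEncl) boxMCI 177 ⟨3, 2, 10, 8⟩ = true := by decide +kernel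

def ephCI :
    Ex.checkNonneg (envPH midEncl) boxMCI 168 ⟨3, 2, 10, 7⟩ = true := by decide +kernel

def eghCI :
    Ex.checkNonneg (envGH midEncl) boxMCI 193 ⟨3, 1, 10, 10⟩ = true := by decide +kernel

def eglCI :
    Ex.checkNonneg (envGL midEncl) boxMCI 182 ⟨3, 1, 10, 9⟩ = true := by decide +kernel

def etlCI :
    Ex.checkNonneg (envTL midEncl) boxMCI 126 ⟨2, 1, 7, 6⟩ = true := by decide +kernel

def ethCI :
    Ex.checkNonneg (envTH midEncl) boxMCI 127 ⟨2, 1, 7, 6⟩ = true := by decide +kernel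

end Vale.Agent.P100.Calib.Closed.All.SgnNeg
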