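import Vale.Agent.P100.Calib.SlabSignsMidNegBox

/-!
# Checks below the crossing, piece CI
-/

set_option linter.defProp false

namespace Vale.Agent.P100.Calib.Closed.All.SgnNeg

open BoxPos

def arCI0000 :
    Ex.checkNonneg (cL 9 false (mpE false) (mgE false) (mtE false) (mwE false) eK1) boxMCI 456 ⟨4, 7, 27, 19⟩ = true := by decide +kernel

def arCI0001 :
    Ex.checkNonneg (cL 9 false (mpE false) (mgE false) (mtE true) (mwE false) eK1) boxMCI 456 ⟨4, 7, 27, 19⟩ = true := by decide +kernel

def arCI0010 :
    Ex.checkNonneg (cL 9 false (mpE false) (mgE true) (mtE false) (mwE false) eK1) boxMCI 456 ⟨4, 7, 27, 19⟩ = true := by decide +kernel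

def arCI0011 :
    Ex.checkNonneg (cL 9 false (mpE false) (mgE true) (mtE true) (mwE false) eK1) boxMCI 456 ⟨4, 7, 27, 19⟩ = true := by decide +kernel

def arCI0100 :
    Ex.checkNonneg (cL 9 false (mpE true) (mgE false) (mtE false) (mwE false) eK1) boxMCI 456 ⟨4, 7, 27, 19⟩ = true := by decide +kernel

def arCI0101 :
    Ex.checkNonneg (cL 9 false (mpE true) (mgE false) (mtE true) (mwE false) eK1) boxMCI 456 ⟨4, 7, 27, 19⟩ = true := by decide +kernel

def arCI0110 :
    Ex.checkNonneg (cL 9 false (mpE true) (mgE true) (mtE false) (mwE false) eK1) boxMCI 456 ⟨4, 7, 27, 19⟩ = true := by decide +kernel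

def arCI0111 :
    Ex.checkNonneg (cL 9 false (mpE true) (mgE true) (mtE true) (mwE false) eK1) boxMCI 456 ⟨4, 7, 27, 19⟩ = true := by decide +kernel

def arCI1000 :
    Ex.checkNonneg (cL 9 true (mpE false) (mgE false) (mtE false) (mwE false) eK1) boxMCI 456 ⟨4, 7, 27, 19⟩ = true := by decide +kernel

def arCI1001 :
    Ex.checkNonneg (cL 9 true (mpE false) (mgE false) (mtE true) (mwE false) eK1) boxMCI 456 ⟨4, 7, 27, 19⟩ = true := by decide +kernel

def arCI1010 :
    Ex.checkNonneg (cL 9 true (mpE false) (mgE true) (mtE false) (mwE false) eK1) boxMCI 456 ⟨4, 7, 27, 19⟩ = true := by decide +kernel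

def arCI1011 :
    Ex.checkNonneg (cL 9 true (mpE false) (mgE true) (mtE true) (mwE false) eK1) boxMCI 456 ⟨4, 7, 27, 19⟩ = true := by decide +kernel

def arCI1100 :
    Ex.checkNonneg (cL 9 true (mpE true) (mgE false) (mtE false) (mwE false) eK1) boxMCI 456 ⟨4, 7, 27, 19⟩ = true := by decide +kernel

def arCI1101 :
    Ex.checkNonneg (cL 9 true (mpE true) (mgE false) (mtE true) (mwE false) eK1) boxMCI 456 ⟨4, 7, 27, 19⟩ = true := by decide +kernel

def arCI1110 :
    Ex.checkNonneg (cL 9 true (mpE true) (mgE true) (mtE false) (mwE false) eK1) boxMCI 456 ⟨4, 7, 27, 19⟩ = true := by decide +kernel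

def arCI1111 :
    Ex.checkNonneg (cL 9 true (mpE true) (mgE true) (mtE true) (mwE false) eK1) boxMCI 456 ⟨4, 7, 27, 19⟩ = true := by decide +kernel

theorem arCI : ∀ s i j l : Bool,
    Ex.checkNonneg (cL 9 s (mpE i) (mgE j) (mtE l) (mwE false) eK1) boxMCI 456 ⟨4, 7, 27, 19⟩ = true
  | false, false, false, false => arCI0000
  | false, false, false, true => arCI0001
  | false, false, true, false => arCI0010
  | false, false, true, true => arCI0011
  | false, true, false, false => arCI0100
  | false, true, false, true => arCI0101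
  | false, true, true, false => arCI0110
  | false, true, true, true => arCI0111
  | true, false, false, false => arCI1000
  | true, false, false, true => arCI1001
  | true, false, true, false => arCI1010
  | true, false, true, true => arCI1011
  | true, true, false, false => arCI1100
  | true, true, false, true => arCI1101
  | true, true, true, false => arCI1110
  | true, true, true, true => arCI1111

end Vale.Agent.P100.Calib.Closed.All.SgnNeg
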