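import Vale.Agent.P100.Calib.SlabSignsMidNegBox

/-!
# Checks below the crossing, piece CI
-/

set_option linter.defProp false

namespace Vale.Agent.P100.Calib.Closed.All.SgnNeg

open BoxPos

def mgCI000 :
    Ex.checkNonneg (fN (mpE false) (mgE false) (mtE false) (mwE true) eK1) boxMCI 423 ⟨4, 7, 24, 18⟩ = true := by decide +kernel

def mgCI001 :
    Ex.checkNonneg (fN (mpE false) (mgE false) (mtE true) (mwE true) eK1) boxMCI 423 ⟨4, 7, 24, 18⟩ = true := by decide +kernel

def mgCI010 :
    Ex.checkNonneg (fN (mpE false) (mgE true) (mtE false) (mwE true) eK1) boxMCI 423 ⟨4, 7, 24, 18⟩ = true := by decide +kernel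

def mgCI011 :
    Ex.checkNonneg (fN (mpE false) (mgE true) (mtE true) (mwE true) eK1) boxMCI 423 ⟨4, 7, 24, 18⟩ = true := by decide +kernel

def mgCI100 :
    Ex.checkNonneg (fN (mpE true) (mgE false) (mtE false) (mwE true) eK1) boxMCI 423 ⟨4, 7, 24, 18⟩ = true := by decide +kernel

def mgCI101 :
    Ex.checkNonneg (fN (mpE true) (mgE false) (mtE true) (mwE true) eK1) boxMCI 423 ⟨4, 7, 24, 18⟩ = true := by decide +kernel

def mgCI110 :
    Ex.checkNonneg (fN (mpE true) (mgE true) (mtE false) (mwE true) eK1) boxMCI 423 ⟨4, 7, 24, 18⟩ = true := by decide +kernel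

def mgCI111 :
    Ex.checkNonneg (fN (mpE true) (mgE true) (mtE true) (mwE true) eK1) boxMCI 423 ⟨4, 7, 24, 18⟩ = true := by decide +kernel

theorem mgCI : ∀ i j l : Bool,
    Ex.checkNonneg (fN (mpE i) (mgE j) (mtE l) (mwE true) eK1) boxMCI 423 ⟨4, 7, 24, 18⟩ = true
  | false, false, false => mgCI000
  | false, false, true => mgCI001
  | false, true, false => mgCI010
  | false, true, true => mgCI011
  | true, false, false => mgCI100
  | true, false, true => mgCI101
  | true, true, false => mgCI110
  | true, true, true => mgCI111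

end Vale.Agent.P100.Calib.Closed.All.SgnNeg
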