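import Vale.Agent.P100.Calib.SlabSignsMidNegBox

/-!
# Checks below the crossing, piece CI
-/

set_option linter.defProp false

namespace Vale.Agent.P100.Calib.Closed.All.SgnNeg

open BoxPos

def xbFCI000 :
    Ex.checkNonneg (cX false (mpE false) (mgE false) (mtE false) (mwE false)) boxMCI 274 ⟨3, 4, 15, 12⟩ = true := by decide +kernel

def xbFCI001 :
    Ex.checkNonneg (cX false (mpE false) (mgE false) (mtE true) (mwE false)) boxMCI 274 ⟨3, 4, 15, 12⟩ = true := by decide +kernel

def xbFCI010 :
    Ex.checkNonneg (cX false (mpE false) (mgE true) (mtE false) (mwE false)) boxMCI 274 ⟨3, 4, 15, 12⟩ = true := by decide +kernel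

def xbFCI011 :
    Ex.checkNonneg (cX false (mpE false) (mgE true) (mtE true) (mwE false)) boxMCI 274 ⟨3, 4, 15, 12⟩ = true := by decide +kernel

def xbFCI100 :
    Ex.checkNonneg (cX false (mpE true) (mgE false) (mtE false) (mwE false)) boxMCI 274 ⟨3, 4, 15, 12⟩ = true := by decide +kernel

def xbFCI101 :
    Ex.checkNonneg (cX false (mpE true) (mgE false) (mtE true) (mwE false)) boxMCI 274 ⟨3, 4, 15, 12⟩ = true := by decide +kernel

def xbFCI110 :
    Ex.checkNonneg (cX false (mpE true) (mgE true) (mtE false) (mwE false)) boxMCI 274 ⟨3, 4, 15, 12⟩ = true := by decide +kernel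

def xbFCI111 :
    Ex.checkNonneg (cX false (mpE true) (mgE true) (mtE true) (mwE false)) boxMCI 274 ⟨3, 4, 15, 12⟩ = true := by decide +kernel

theorem xbFCI : ∀ i j l : Bool,
    Ex.checkNonneg (cX false (mpE i) (mgE j) (mtE l) (mwE false)) boxMCI 274 ⟨3, 4, 15, 12⟩ = true
  | false, false, false => xbFCI000
  | false, false, true => xbFCI001
  | false, true, false => xbFCI010
  | false, true, true => xbFCI011
  | true, false, false => xbFCI100
  | true, false, true => xbFCI101
  | true, true, false => xbFCI110
  | true, true, true => xbFCI111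

def xbTCI000 :
    Ex.checkNonneg (cX true (mpE false) (mgE false) (mtE false) (mwE true)) boxMCI 281 ⟨3, 4, 15, 13⟩ = true := by decide +kernel

def xbTCI001 :
    Ex.checkNonneg (cX true (mpE false) (mgE false) (mtE true) (mwE true)) boxMCI 281 ⟨3, 4, 15, 13⟩ = true := by decide +kernel

def xbTCI010 :
    Ex.checkNonneg (cX true (mpE false) (mgE true) (mtE false) (mwE true)) boxMCI 281 ⟨3, 4, 15, 13⟩ = true := by decide +kernel

def xbTCI011 :
    Ex.checkNonneg (cX true (mpE false) (mgE true) (mtE true) (mwE true)) boxMCI 281 ⟨3, 4, 15, 13⟩ = true := by decide +kernel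

def xbTCI100 :
    Ex.checkNonneg (cX true (mpE true) (mgE false) (mtE false) (mwE true)) boxMCI 281 ⟨3, 4, 15, 13⟩ = true := by decide +kernel

def xbTCI101 :
    Ex.checkNonneg (cX true (mpE true) (mgE false) (mtE true) (mwE true)) boxMCI 281 ⟨3, 4, 15, 13⟩ = true := by decide +kernel

def xbTCI110 :
    Ex.checkNonneg (cX true (mpE true) (mgE true) (mtE false) (mwE true)) boxMCI 281 ⟨3, 4, 15, 13⟩ = true := by decide +kernel

def xbTCI111 :
    Ex.checkNonneg (cX true (mpE true) (mgE true) (mtE true) (mwE true)) boxMCI 281 ⟨3, 4, 15, 13⟩ = true := by decide +kernel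

theorem xbTCI : ∀ i j l : Bool,
    Ex.checkNonneg (cX true (mpE i) (mgE j) (mtE l) (mwE true)) boxMCI 281 ⟨3, 4, 15, 13⟩ = true
  | false, false, false => xbTCI000
  | false, false, true => xbTCI001
  | false, true, false => xbTCI010
  | false, true, true => xbTCI011
  | true, false, false => xbTCI100
  | true, false, true => xbTCI101
  | true, true, false => xbTCI110
  | true, true, true => xbTCI111

end Vale.Agent.P100.Calib.Closed.All.SgnNeg
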