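import Vale.Agent.P100.Calib.SlabSignsAllNegSound
import Vale.Agent.P100.Calib.SlabSignsMidNegCIGY
import Vale.Agent.P100.Calib.SlabSignsMidNegCIX
import Vale.Agent.P100.Calib.SlabSignsMidNegCIL
import Vale.Agent.P100.Calib.SlabSignsMidNegCIN

/-!
# The points of piece CI are good
-/

namespace Vale.Agent.P100.Calib.Closed.All.SgnNeg

open BoxPos

theorem goodCI {x : ℕ → ℝ} (hx : ∀ i < 4, ∃ t : ℝ, 0 ≤ t ∧ 0 < ((boxMCI i).c : ℝ) + (boxMCI i).d * t ∧
    ((boxMCI i).a : ℝ) + (boxMCI i).b * t = x i * (((boxMCI i).c : ℝ) + (boxMCI i).d * t)) :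
    Good midEncl eK1 x 9 where
  gy s i j l := Ex.nonneg_of_checkNonneg (gyCI s i j l) hx
  xb s i j l := by
    cases s
    · exact Ex.nonneg_of_checkNonneg (xbFCI i j l) hx
    · exact Ex.nonneg_of_checkNonneg (xbTCI i j l) hx
  arrow s i j l := Ex.nonneg_of_checkNonneg (arCI s i j l) hx
  mg i j l := Ex.nonneg_of_checkNonneg (mgCI i j l) hx
  lg i l := Ex.nonneg_of_checkNonneg (lgCI i l) hx
  cgy s := Ex.nonneg_of_checkNonneg (dgyCI s) hx
  cl s := Ex.nonneg_of_checkNonneg (dlCI s) hx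
  cgg := Ex.nonneg_of_checkNonneg dggCI hx
  cte := Ex.nonneg_of_checkNonneg dteCI hx
  cne := Ex.nonneg_of_checkNonneg dneCI hx
  cnp := Ex.nonneg_of_checkNonneg dnpCI hx
  tw := Ex.nonneg_of_checkNonneg dtwCI hx
  nw := Ex.nonneg_of_checkNonneg dnwCI hx
  xw := Ex.nonneg_of_checkNonneg dxwCI hx
  pl := Ex.nonneg_of_checkNonneg eplCI hx
  ph := Ex.nonneg_of_checkNonneg ephCI hx
  gh := Ex.nonneg_of_checkNonneg eghCI hx
  gl := Ex.nonneg_of_checkNonneg eglCI hx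
  tl := Ex.nonneg_of_checkNonneg etlCI hx
  th := Ex.nonneg_of_checkNonneg ethCI hx

end Vale.Agent.P100.Calib.Closed.All.SgnNeg
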