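import Vale.Agent.P100.Calib.SlabSignsMidNegBox

/-!
# Checks below the crossing, piece CII
-/

set_option linter.defProp false

namespace Vale.Agent.P100.Calib.Closed.All.SgnNeg

open BoxPos

def gyCII0000 :
    Ex.checkNonneg (cGY 2 false (mpE false) (mgE false) (mtE false) eK1) boxMCII 441 ⟨3, 8, 29, 16⟩ = true := by decide +kernel

def gyCII0001 :
    Ex.checkNonneg (cGY 2 false (mpE false) (mgE false) (mtE true) eK1) boxMCII 441 ⟨3, 8, 29, 16⟩ = true := by decide +kernel

def gyCII0010 :
    Ex.checkNonneg (cGY 2 false (mpE false) (mgE true) (mtE false) eK1) boxMCII 441 ⟨3, 8, 29, 16⟩ = true := by decide +kernel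

def gyCII0011 :
    Ex.checkNonneg (cGY 2 false (mpE false) (mgE true) (mtE true) eK1) boxMCII 441 ⟨3, 8, 29, 16⟩ = true := by decide +kernel

def gyCII0100 :
    Ex.checkNonneg (cGY 2 false (mpE true) (mgE false) (mtE false) eK1) boxMCII 441 ⟨3, 8, 29, 16⟩ = true := by decide +kernel

def gyCII0101 :
    Ex.checkNonneg (cGY 2 false (mpE true) (mgE false) (mtE true) eK1) boxMCII 441 ⟨3, 8, 29, 16⟩ = true := by decide +kernel

def gyCII0110 :
    Ex.checkNonneg (cGY 2 false (mpE true) (mgE true) (mtE false) eK1) boxMCII 441 ⟨3, 8, 29, 16⟩ = true := by decide +kernel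

def gyCII0111 :
    Ex.checkNonneg (cGY 2 false (mpE true) (mgE true) (mtE true) eK1) boxMCII 441 ⟨3, 8, 29, 16⟩ = true := by decide +kernel

def gyCII1000 :
    Ex.checkNonneg (cGY 2 true (mpE false) (mgE false) (mtE false) eK1) boxMCII 441 ⟨3, 8, 29, 16⟩ = true := by decide +kernel

def gyCII1001 :
    Ex.checkNonneg (cGY 2 true (mpE false) (mgE false) (mtE true) eK1) boxMCII 441 ⟨3, 8, 29, 16⟩ = true := by decide +kernel

def gyCII1010 :
    Ex.checkNonneg (cGY 2 true (mpE false) (mgE true) (mtE false) eK1) boxMCII 441 ⟨3, 8, 29, 16⟩ = true := by decide +kernel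

def gyCII1011 :
    Ex.checkNonneg (cGY 2 true (mpE false) (mgE true) (mtE true) eK1) boxMCII 441 ⟨3, 8, 29, 16⟩ = true := by decide +kernel

def gyCII1100 :
    Ex.checkNonneg (cGY 2 true (mpE true) (mgE false) (mtE false) eK1) boxMCII 441 ⟨3, 8, 29, 16⟩ = true := by decide +kernel

def gyCII1101 :
    Ex.checkNonneg (cGY 2 true (mpE true) (mgE false) (mtE true) eK1) boxMCII 441 ⟨3, 8, 29, 16⟩ = true := by decide +kernel

def gyCII1110 :
    Ex.checkNonneg (cGY 2 true (mpE true) (mgE true) (mtE false) eK1) boxMCII 441 ⟨3, 8, 29, 16⟩ = true := by decide +kernel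

def gyCII1111 :
    Ex.checkNonneg (cGY 2 true (mpE true) (mgE true) (mtE true) eK1) boxMCII 441 ⟨3, 8, 29, 16⟩ = true := by decide +kernel

theorem gyCII : ∀ s i j l : Bool,
    Ex.checkNonneg (cGY 2 s (mpE i) (mgE j) (mtE l) eK1) boxMCII 441 ⟨3, 8, 29, 16⟩ = true
  | false, false, false, false => gyCII0000
  | false, false, false, true => gyCII0001
  | false, false, true, false => gyCII0010
  | false, false, true, true => gyCII0011
  | false, true, false, false => gyCII0100
  | false, true, false, true => gyCII0101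
  | false, true, true, false => gyCII0110
  | false, true, true, true => gyCII0111
  | true, false, false, false => gyCII1000
  | true, false, false, true => gyCII1001
  | true, false, true, false => gyCII1010
  | true, false, true, true => gyCII1011
  | true, true, false, false => gyCII1100
  | true, true, false, true => gyCII1101
  | true, true, true, false => gyCII1110
  | true, true, true, true => gyCII1111

def lgCII00 :
    Ex.checkNonneg (fLG (mtE false) (mtE false) eK1) boxMCII 267 ⟨2, 5, 16, 10⟩ = true := by decide +kernel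

def lgCII01 :
    Ex.checkNonneg (fLG (mtE false) (mtE true) eK1) boxMCII 267 ⟨2, 5, 16, 10⟩ = true := by decide +kernel

def lgCII10 :
    Ex.checkNonneg (fLG (mtE true) (mtE false) eK1) boxMCII 267 ⟨2, 5, 16, 10⟩ = true := by decide +kernel

def lgCII11 :
    Ex.checkNonneg (fLG (mtE true) (mtE true) eK1) boxMCII 267 ⟨2, 5, 16, 10⟩ = true := by decide +kernel

theorem lgCII : ∀ i l : Bool,
    Ex.checkNonneg (fLG (mtE i) (mtE l) eK1) boxMCII 267 ⟨2, 5, 16, 10⟩ = true
  | false, false => lgCII00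
  | false, true => lgCII01
  | true, false => lgCII10
  | true, true => lgCII11

def dgyCII0 :
    Ex.checkNonneg (dGY 2 false) boxMCII 276 ⟨0, 5, 21, 11⟩ = true := by decide +kernel

def dgyCII1 :
    Ex.checkNonneg (dGY 2 true) boxMCII 276 ⟨0, 5, 21, 11⟩ = true := by decide +kernel

theorem dgyCII : ∀ s : Bool,
    Ex.checkNonneg (dGY 2 s) boxMCII 276 ⟨0, 5, 21, 11⟩ = true
  | false => dgyCII0
  | true => dgyCII1

def dlCII0 :
    Ex.checkNonneg (dL 2 false) boxMCII 279 ⟨0, 5, 20, 12⟩ = true := by decide +kernel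

def dlCII1 :
    Ex.checkNonneg (dL 2 true) boxMCII 279 ⟨0, 5, 20, 12⟩ = true := by decide +kernel

theorem dlCII : ∀ s : Bool,
    Ex.checkNonneg (dL 2 s) boxMCII 279 ⟨0, 5, 20, 12⟩ = true
  | false => dlCII0
  | true => dlCII1

def dggCII :
    Ex.checkNonneg (dGG) boxMCII 186 ⟨0, 5, 15, 5⟩ = true := by decide +kernel

def dteCII :
    Ex.checkNonneg (dTE) boxMCII 171 ⟨0, 4, 13, 6⟩ = true := by decide +kernel

def dneCII :
    Ex.checkNonneg (dNE) boxMCII 163 ⟨0, 4, 12, 6⟩ = true := by decide +kernel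

def dnpCII :
    Ex.checkNonneg (dNP) boxMCII 253 ⟨0, 5, 18, 11⟩ = true := by decide +kernel

def dtwCII :
    Ex.checkNonneg (dTW) boxMCII 74 ⟨0, 2, 5, 2⟩ = true := by decide +kernel

def dnwCII :
    Ex.checkNonneg (dNW) boxMCII 67 ⟨0, 2, 4, 2⟩ = true := by decide +kernel

def dxwCII :
    Ex.checkNonneg (dXW) boxMCII 41 ⟨0, 1, 3, 1⟩ = true := by decide +kernel

def eplCII :
    Ex.checkNonneg (envPL midEncl) boxMCII 180 ⟨3, 2, 10, 8⟩ = true := by decide +kernel

def ephCII :
    Ex.checkNonneg (envPH midEncl) boxMCII 171 ⟨3, 2, 10, 7⟩ = true := by decide +kernel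

def eghCII :
    Ex.checkNonneg (envGH midEncl) boxMCII 195 ⟨3, 1, 10, 10⟩ = true := by decide +kernel

def eglCII :
    Ex.checkNonneg (envGL midEncl) boxMCII 184 ⟨3, 1, 10, 9⟩ = true := by decide +kernel

def etlCII :
    Ex.checkNonneg (envTL midEncl) boxMCII 128 ⟨2, 1, 7, 6⟩ = true := by decide +kernel

def ethCII :
    Ex.checkNonneg (envTH midEncl) boxMCII 129 ⟨2, 1, 7, 6⟩ = true := by decide +kernel

end Vale.Agent.P100.Calib.Closed.All.SgnNeg
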