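import Vale.Agent.P100.Calib.SlabSignsMidNegBox

/-!
# Checks below the crossing, piece CII
-/

set_option linter.defProp false

namespace Vale.Agent.P100.Calib.Closed.All.SgnNeg

open BoxPos

def arCII0000 :
    Ex.checkNonneg (cL 2 false (mpE false) (mgE false) (mtE false) (mwE false) eK1) boxMCII 467 ⟨4, 7, 27, 19⟩ = true := by decide +kernel

def arCII0001 :
    Ex.checkNonneg (cL 2 false (mpE false) (mgE false) (mtE true) (mwE false) eK1) boxMCII 467 ⟨4, 7, 27, 19⟩ = true := by decide +kernel

def arCII0010 :
    Ex.checkNonneg (cL 2 false (mpE false) (mgE true) (mtE false) (mwE false) eK1) boxMCII 467 ⟨4, 7, 27, 19⟩ = true := by decide +kernel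

def arCII0011 :
    Ex.checkNonneg (cL 2 false (mpE false) (mgE true) (mtE true) (mwE false) eK1) boxMCII 467 ⟨4, 7, 27, 19⟩ = true := by decide +kernel

def arCII0100 :
    Ex.checkNonneg (cL 2 false (mpE true) (mgE false) (mtE false) (mwE false) eK1) boxMCII 467 ⟨4, 7, 27, 19⟩ = true := by decide +kernel

def arCII0101 :
    Ex.checkNonneg (cL 2 false (mpE true) (mgE false) (mtE true) (mwE false) eK1) boxMCII 467 ⟨4, 7, 27, 19⟩ = true := by decide +kernel

def arCII0110 :
    Ex.checkNonneg (cL 2 false (mpE true) (mgE true) (mtE false) (mwE false) eK1) boxMCII 467 ⟨4, 7, 27, 19⟩ = true := by decide +kernel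

def arCII0111 :
    Ex.checkNonneg (cL 2 false (mpE true) (mgE true) (mtE true) (mwE false) eK1) boxMCII 467 ⟨4, 7, 27, 19⟩ = true := by decide +kernel

def arCII1000 :
    Ex.checkNonneg (cL 2 true (mpE false) (mgE false) (mtE false) (mwE false) eK1) boxMCII 467 ⟨4, 7, 27, 19⟩ = true := by decide +kernel

def arCII1001 :
    Ex.checkNonneg (cL 2 true (mpE false) (mgE false) (mtE true) (mwE false) eK1) boxMCII 467 ⟨4, 7, 27, 19⟩ = true := by decide +kernel

def arCII1010 :
    Ex.checkNonneg (cL 2 true (mpE false) (mgE true) (mtE false) (mwE false) eK1) boxMCII 467 ⟨4, 7, 27, 19⟩ = true := by decide +kernel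

def arCII1011 :
    Ex.checkNonneg (cL 2 true (mpE false) (mgE true) (mtE true) (mwE false) eK1) boxMCII 467 ⟨4, 7, 27, 19⟩ = true := by decide +kernel

def arCII1100 :
    Ex.checkNonneg (cL 2 true (mpE true) (mgE false) (mtE false) (mwE false) eK1) boxMCII 467 ⟨4, 7, 27, 19⟩ = true := by decide +kernel

def arCII1101 :
    Ex.checkNonneg (cL 2 true (mpE true) (mgE false) (mtE true) (mwE false) eK1) boxMCII 467 ⟨4, 7, 27, 19⟩ = true := by decide +kernel

def arCII1110 :
    Ex.checkNonneg (cL 2 true (mpE true) (mgE true) (mtE false) (mwE false) eK1) boxMCII 467 ⟨4, 7, 27, 19⟩ = true := by decide +kernel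

def arCII1111 :
    Ex.checkNonneg (cL 2 true (mpE true) (mgE true) (mtE true) (mwE false) eK1) boxMCII 467 ⟨4, 7, 27, 19⟩ = true := by decide +kernel

theorem arCII : ∀ s i j l : Bool,
    Ex.checkNonneg (cL 2 s (mpE i) (mgE j) (mtE l) (mwE false) eK1) boxMCII 467 ⟨4, 7, 27, 19⟩ = true
  | false, false, false, false => arCII0000
  | false, false, false, true => arCII0001
  | false, false, true, false => arCII0010
  | false, false, true, true => arCII0011
  | false, true, false, false => arCII0100
  | false, true, false, true => arCII0101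
  | false, true, true, false => arCII0110
  | false, true, true, true => arCII0111
  | true, false, false, false => arCII1000
  | true, false, false, true => arCII1001
  | true, false, true, false => arCII1010
  | true, false, true, true => arCII1011
  | true, true, false, false => arCII1100
  | true, true, false, true => arCII1101
  | true, true, true, false => arCII1110
  | true, true, true, true => arCII1111

end Vale.Agent.P100.Calib.Closed.All.SgnNeg
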