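import Vale.Agent.P100.Calib.SlabSignsMidNegBox

/-!
# Checks below the crossing, piece CII
-/

set_option linter.defProp false

namespace Vale.Agent.P100.Calib.Closed.All.SgnNeg

open BoxPos

def mgCII000 :
    Ex.checkNonneg (fN (mpE false) (mgE false) (mtE false) (mwE true) eK1) boxMCII 434 ⟨4, 7, 24, 18⟩ = true := by decide +kernel

def mgCII001 :
    Ex.checkNonneg (fN (mpE false) (mgE false) (mtE true) (mwE true) eK1) boxMCII 434 ⟨4, 7, 24, 18⟩ = true := by decide +kernel

def mgCII010 :
    Ex.checkNonneg (fN (mpE false) (mgE true) (mtE false) (mwE true) eK1) boxMCII 434 ⟨4, 7, 24, 18⟩ = true := by decide +kernel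

def mgCII011 :
    Ex.checkNonneg (fN (mpE false) (mgE true) (mtE true) (mwE true) eK1) boxMCII 434 ⟨4, 7, 24, 18⟩ = true := by decide +kernel

def mgCII100 :
    Ex.checkNonneg (fN (mpE true) (mgE false) (mtE false) (mwE true) eK1) boxMCII 434 ⟨4, 7, 24, 18⟩ = true := by decide +kernel

def mgCII101 :
    Ex.checkNonneg (fN (mpE true) (mgE false) (mtE true) (mwE true) eK1) boxMCII 434 ⟨4, 7, 24, 18⟩ = true := by decide +kernel

def mgCII110 :
    Ex.checkNonneg (fN (mpE true) (mgE true) (mtE false) (mwE true) eK1) boxMCII 434 ⟨4, 7, 24, 18⟩ = true := by decide +kernel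

def mgCII111 :
    Ex.checkNonneg (fN (mpE true) (mgE true) (mtE true) (mwE true) eK1) boxMCII 434 ⟨4, 7, 24, 18⟩ = true := by decide +kernel

theorem mgCII : ∀ i j l : Bool,
    Ex.checkNonneg (fN (mpE i) (mgE j) (mtE l) (mwE true) eK1) boxMCII 434 ⟨4, 7, 24, 18⟩ = true
  | false, false, false => mgCII000
  | false, false, true => mgCII001
  | false, true, false => mgCII010
  | false, true, true => mgCII011
  | true, false, false => mgCII100
  | true, false, true => mgCII101
  | true, true, false => mgCII110
  | true, true, true => mgCII111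

end Vale.Agent.P100.Calib.Closed.All.SgnNeg
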