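import Vale.Agent.P100.Calib.SlabSignsMidNegBox

/-!
# Checks below the crossing, piece CII
-/

set_option linter.defProp false

namespace Vale.Agent.P100.Calib.Closed.All.SgnNeg

open BoxPos

def xbFCII000 :
    Ex.checkNonneg (cX false (mpE false) (mgE false) (mtE false) (mwE false)) boxMCII 280 ⟨3, 4, 15, 12⟩ = true := by decide +kernel

def xbFCII001 :
    Ex.checkNonneg (cX false (mpE false) (mgE false) (mtE true) (mwE false)) boxMCII 280 ⟨3, 4, 15, 12⟩ = true := by decide +kernel

def xbFCII010 :
    Ex.checkNonneg (cX false (mpE false) (mgE true) (mtE false) (mwE false)) boxMCII 280 ⟨3, 4, 15, 12⟩ = true := by decide +kernel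

def xbFCII011 :
    Ex.checkNonneg (cX false (mpE false) (mgE true) (mtE true) (mwE false)) boxMCII 280 ⟨3, 4, 15, 12⟩ = true := by decide +kernel

def xbFCII100 :
    Ex.checkNonneg (cX false (mpE true) (mgE false) (mtE false) (mwE false)) boxMCII 280 ⟨3, 4, 15, 12⟩ = true := by decide +kernel

def xbFCII101 :
    Ex.checkNonneg (cX false (mpE true) (mgE false) (mtE true) (mwE false)) boxMCII 280 ⟨3, 4, 15, 12⟩ = true := by decide +kernel

def xbFCII110 :
    Ex.checkNonneg (cX false (mpE true) (mgE true) (mtE false) (mwE false)) boxMCII 280 ⟨3, 4, 15, 12⟩ = true := by decide +kernel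

def xbFCII111 :
    Ex.checkNonneg (cX false (mpE true) (mgE true) (mtE true) (mwE false)) boxMCII 280 ⟨3, 4, 15, 12⟩ = true := by decide +kernel

theorem xbFCII : ∀ i j l : Bool,
    Ex.checkNonneg (cX false (mpE i) (mgE j) (mtE l) (mwE false)) boxMCII 280 ⟨3, 4, 15, 12⟩ = true
  | false, false, false => xbFCII000
  | false, false, true => xbFCII001
  | false, true, false => xbFCII010
  | false, true, true => xbFCII011
  | true, false, false => xbFCII100
  | true, false, true => xbFCII101
  | true, true, false => xbFCII110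
  | true, true, true => xbFCII111

def xbTCII000 :
    Ex.checkNonneg (cX true (mpE false) (mgE false) (mtE false) (mwE true)) boxMCII 288 ⟨3, 4, 15, 13⟩ = true := by decide +kernel

def xbTCII001 :
    Ex.checkNonneg (cX true (mpE false) (mgE false) (mtE true) (mwE true)) boxMCII 288 ⟨3, 4, 15, 13⟩ = true := by decide +kernel

def xbTCII010 :
    Ex.checkNonneg (cX true (mpE false) (mgE true) (mtE false) (mwE true)) boxMCII 288 ⟨3, 4, 15, 13⟩ = true := by decide +kernel

def xbTCII011 :
    Ex.checkNonneg (cX true (mpE false) (mgE true) (mtE true) (mwE true)) boxMCII 288 ⟨3, 4, 15, 13⟩ = true := by decide +kernel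

def xbTCII100 :
    Ex.checkNonneg (cX true (mpE true) (mgE false) (mtE false) (mwE true)) boxMCII 288 ⟨3, 4, 15, 13⟩ = true := by decide +kernel

def xbTCII101 :
    Ex.checkNonneg (cX true (mpE true) (mgE false) (mtE true) (mwE true)) boxMCII 288 ⟨3, 4, 15, 13⟩ = true := by decide +kernel

def xbTCII110 :
    Ex.checkNonneg (cX true (mpE true) (mgE true) (mtE false) (mwE true)) boxMCII 288 ⟨3, 4, 15, 13⟩ = true := by decide +kernel

def xbTCII111 :
    Ex.checkNonneg (cX true (mpE true) (mgE true) (mtE true) (mwE true)) boxMCII 288 ⟨3, 4, 15, 13⟩ = true := by decide +kernel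

theorem xbTCII : ∀ i j l : Bool,
    Ex.checkNonneg (cX true (mpE i) (mgE j) (mtE l) (mwE true)) boxMCII 288 ⟨3, 4, 15, 13⟩ = true
  | false, false, false => xbTCII000
  | false, false, true => xbTCII001
  | false, true, false => xbTCII010
  | false, true, true => xbTCII011
  | true, false, false => xbTCII100
  | true, false, true => xbTCII101
  | true, true, false => xbTCII110
  | true, true, true => xbTCII111

end Vale.Agent.P100.Calib.Closed.All.SgnNeg
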