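import Vale.Agent.P100.Calib.SlabSignsAllNegSound
import Vale.Agent.P100.Calib.SlabSignsMidNegCIIGY
import Vale.Agent.P100.Calib.SlabSignsMidNegCIIX
import Vale.Agent.P100.Calib.SlabSignsMidNegCIIL
import Vale.Agent.P100.Calib.SlabSignsMidNegCIIN

/-!
# The points of piece CII are good
-/

namespace Vale.Agent.P100.Calib.Closed.All.SgnNeg

open BoxPos

theorem goodCII {x : ℕ → ℝ} (hx : ∀ i < 4, ∃ t : ℝ, 0 ≤ t ∧ 0 < ((boxMCII i).c : ℝ) + (boxMCII i).d * t ∧
    ((boxMCII i).a : ℝ) + (boxMCII i).b * t = x i * (((boxMCII i).c : ℝ) + (boxMCII i).d * t)) :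
    Good midEncl eK1 x 2 where
  gy s i j l := Ex.nonneg_of_checkNonneg (gyCII s i j l) hx
  xb s i j l := by
    cases s
    · exact Ex.nonneg_of_checkNonneg (xbFCII i j l) hx
    · exact Ex.nonneg_of_checkNonneg (xbTCII i j l) hx
  arrow s i j l := Ex.nonneg_of_checkNonneg (arCII s i j l) hx
  mg i j l := Ex.nonneg_of_checkNonneg (mgCII i j l) hx
  lg i l := Ex.nonneg_of_checkNonneg (lgCII i l) hx
  cgy s := Ex.nonneg_of_checkNonneg (dgyCII s) hx
  cl s := Ex.nonneg_of_checkNonneg (dlCII s) hx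
  cgg := Ex.nonneg_of_checkNonneg dggCII hx
  cte := Ex.nonneg_of_checkNonneg dteCII hx
  cne := Ex.nonneg_of_checkNonneg dneCII hx
  cnp := Ex.nonneg_of_checkNonneg dnpCII hx
  tw := Ex.nonneg_of_checkNonneg dtwCII hx
  nw := Ex.nonneg_of_checkNonneg dnwCII hx
  xw := Ex.nonneg_of_checkNonneg dxwCII hx
  pl := Ex.nonneg_of_checkNonneg eplCII hx
  ph := Ex.nonneg_of_checkNonneg ephCII hx
  gh := Ex.nonneg_of_checkNonneg eghCII hx
  gl := Ex.nonneg_of_checkNonneg eglCII hx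
  tl := Ex.nonneg_of_checkNonneg etlCII hx
  th := Ex.nonneg_of_checkNonneg ethCII hx

end Vale.Agent.P100.Calib.Closed.All.SgnNeg
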