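import Vale.Agent.P100.Calib.SlabSignsMidNegBox

/-!
# Checks below the crossing, piece D
-/

set_option linter.defProp false

namespace Vale.Agent.P100.Calib.Closed.All.SgnNeg

open BoxPos

def gyD0000 :
    Ex.checkNonneg (cGY 14 false (mpE false) (mgE false) (mtE false) eK1) boxMD 440 ⟨3, 8, 29, 16⟩ = true := by decide +kernel

def gyD0001 :
    Ex.checkNonneg (cGY 14 false (mpE false) (mgE false) (mtE true) eK1) boxMD 440 ⟨3, 8, 29, 16⟩ = true := by decide +kernel

def gyD0010 :
    Ex.checkNonneg (cGY 14 false (mpE false) (mgE true) (mtE false) eK1) boxMD 440 ⟨3, 8, 29, 16⟩ = true := by decide +kernel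

def gyD0011 :
    Ex.checkNonneg (cGY 14 false (mpE false) (mgE true) (mtE true) eK1) boxMD 440 ⟨3, 8, 29, 16⟩ = true := by decide +kernel

def gyD0100 :
    Ex.checkNonneg (cGY 14 false (mpE true) (mgE false) (mtE false) eK1) boxMD 440 ⟨3, 8, 29, 16⟩ = true := by decide +kernel

def gyD0101 :
    Ex.checkNonneg (cGY 14 false (mpE true) (mgE false) (mtE true) eK1) boxMD 440 ⟨3, 8, 29, 16⟩ = true := by decide +kernel

def gyD0110 :
    Ex.checkNonneg (cGY 14 false (mpE true) (mgE true) (mtE false) eK1) boxMD 440 ⟨3, 8, 29, 16⟩ = true := by decide +kernel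

def gyD0111 :
    Ex.checkNonneg (cGY 14 false (mpE true) (mgE true) (mtE true) eK1) boxMD 440 ⟨3, 8, 29, 16⟩ = true := by decide +kernel

def gyD1000 :
    Ex.checkNonneg (cGY 14 true (mpE false) (mgE false) (mtE false) eK1) boxMD 440 ⟨3, 8, 29, 16⟩ = true := by decide +kernel

def gyD1001 :
    Ex.checkNonneg (cGY 14 true (mpE false) (mgE false) (mtE true) eK1) boxMD 440 ⟨3, 8, 29, 16⟩ = true := by decide +kernel

def gyD1010 :
    Ex.checkNonneg (cGY 14 true (mpE false) (mgE true) (mtE false) eK1) boxMD 440 ⟨3, 8, 29, 16⟩ = true := by decide +kernel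

def gyD1011 :
    Ex.checkNonneg (cGY 14 true (mpE false) (mgE true) (mtE true) eK1) boxMD 440 ⟨3, 8, 29, 16⟩ = true := by decide +kernel

def gyD1100 :
    Ex.checkNonneg (cGY 14 true (mpE true) (mgE false) (mtE false) eK1) boxMD 440 ⟨3, 8, 29, 16⟩ = true := by decide +kernel

def gyD1101 :
    Ex.checkNonneg (cGY 14 true (mpE true) (mgE false) (mtE true) eK1) boxMD 440 ⟨3, 8, 29, 16⟩ = true := by decide +kernel

def gyD1110 :
    Ex.checkNonneg (cGY 14 true (mpE true) (mgE true) (mtE false) eK1) boxMD 440 ⟨3, 8, 29, 16⟩ = true := by decide +kernel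

def gyD1111 :
    Ex.checkNonneg (cGY 14 true (mpE true) (mgE true) (mtE true) eK1) boxMD 440 ⟨3, 8, 29, 16⟩ = true := by decide +kernel

theorem gyD : ∀ s i j l : Bool,
    Ex.checkNonneg (cGY 14 s (mpE i) (mgE j) (mtE l) eK1) boxMD 440 ⟨3, 8, 29, 16⟩ = true
  | false, false, false, false => gyD0000
  | false, false, false, true => gyD0001
  | false, false, true, false => gyD0010
  | false, false, true, true => gyD0011
  | false, true, false, false => gyD0100
  | false, true, false, true => gyD0101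
  | false, true, true, false => gyD0110
  | false, true, true, true => gyD0111
  | true, false, false, false => gyD1000
  | true, false, false, true => gyD1001
  | true, false, true, false => gyD1010
  | true, false, true, true => gyD1011
  | true, true, false, false => gyD1100
  | true, true, false, true => gyD1101
  | true, true, true, false => gyD1110
  | true, true, true, true => gyD1111

def lgD00 :
    Ex.checkNonneg (fLG (mtE false) (mtE false) eK1) boxMD 265 ⟨2, 5, 16, 10⟩ = true := by decide +kernel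

def lgD01 :
    Ex.checkNonneg (fLG (mtE false) (mtE true) eK1) boxMD 265 ⟨2, 5, 16, 10⟩ = true := by decide +kernel

def lgD10 :
    Ex.checkNonneg (fLG (mtE true) (mtE false) eK1) boxMD 265 ⟨2, 5, 16, 10⟩ = true := by decide +kernel

def lgD11 :
    Ex.checkNonneg (fLG (mtE true) (mtE true) eK1) boxMD 265 ⟨2, 5, 16, 10⟩ = true := by decide +kernel

theorem lgD : ∀ i l : Bool,
    Ex.checkNonneg (fLG (mtE i) (mtE l) eK1) boxMD 265 ⟨2, 5, 16, 10⟩ = true
  | false, false => lgD00
  | false, true => lgD01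
  | true, false => lgD10
  | true, true => lgD11

def dgyD0 :
    Ex.checkNonneg (dGY 14 false) boxMD 277 ⟨0, 5, 21, 11⟩ = true := by decide +kernel

def dgyD1 :
    Ex.checkNonneg (dGY 14 true) boxMD 277 ⟨0, 5, 21, 11⟩ = true := by decide +kernel

theorem dgyD : ∀ s : Bool,
    Ex.checkNonneg (dGY 14 s) boxMD 277 ⟨0, 5, 21, 11⟩ = true
  | false => dgyD0
  | true => dgyD1

def dlD0 :
    Ex.checkNonneg (dL 14 false) boxMD 277 ⟨0, 5, 20, 12⟩ = true := by decide +kernel

def dlD1 :
    Ex.checkNonneg (dL 14 true) boxMD 277 ⟨0, 5, 20, 12⟩ = true := by decide +kernel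

theorem dlD : ∀ s : Bool,
    Ex.checkNonneg (dL 14 s) boxMD 277 ⟨0, 5, 20, 12⟩ = true
  | false => dlD0
  | true => dlD1

def dggD :
    Ex.checkNonneg (dGG) boxMD 183 ⟨0, 5, 15, 5⟩ = true := by decide +kernel

def dteD :
    Ex.checkNonneg (dTE) boxMD 169 ⟨0, 4, 13, 6⟩ = true := by decide +kernel

def dneD :
    Ex.checkNonneg (dNE) boxMD 161 ⟨0, 4, 12, 6⟩ = true := by decide +kernel

def dnpD :
    Ex.checkNonneg (dNP) boxMD 252 ⟨0, 5, 18, 11⟩ = true := by decide +kernel

def dtwD :
    Ex.checkNonneg (dTW) boxMD 73 ⟨0, 2, 5, 2⟩ = true := by decide +kernel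

def dnwD :
    Ex.checkNonneg (dNW) boxMD 66 ⟨0, 2, 4, 2⟩ = true := by decide +kernel

def dxwD :
    Ex.checkNonneg (dXW) boxMD 41 ⟨0, 1, 3, 1⟩ = true := by decide +kernel

def eplD :
    Ex.checkNonneg (envPL midEncl) boxMD 179 ⟨3, 2, 10, 8⟩ = true := by decide +kernel

def ephD :
    Ex.checkNonneg (envPH midEncl) boxMD 171 ⟨3, 2, 10, 7⟩ = true := by decide +kernel

def eghD :
    Ex.checkNonneg (envGH midEncl) boxMD 195 ⟨3, 1, 10, 10⟩ = true := by decide +kernel

def eglD :
    Ex.checkNonneg (envGL midEncl) boxMD 184 ⟨3, 1, 10, 9⟩ = true := by decide +kernel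

def etlD :
    Ex.checkNonneg (envTL midEncl) boxMD 128 ⟨2, 1, 7, 6⟩ = true := by decide +kernel

def ethD :
    Ex.checkNonneg (envTH midEncl) boxMD 129 ⟨2, 1, 7, 6⟩ = true := by decide +kernel

end Vale.Agent.P100.Calib.Closed.All.SgnNeg
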