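import Vale.Agent.P100.Calib.SlabSignsMidNegBox

/-!
# Checks below the crossing, piece D
-/

set_option linter.defProp false

namespace Vale.Agent.P100.Calib.Closed.All.SgnNeg

open BoxPos

def arD0000 :
    Ex.checkNonneg (cL 14 false (mpE false) (mgE false) (mtE false) (mwE false) eK1) boxMD 465 ⟨4, 7, 27, 19⟩ = true := by decide +kernel

def arD0001 :
    Ex.checkNonneg (cL 14 false (mpE false) (mgE false) (mtE true) (mwE false) eK1) boxMD 465 ⟨4, 7, 27, 19⟩ = true := by decide +kernel

def arD0010 :
    Ex.checkNonneg (cL 14 false (mpE false) (mgE true) (mtE false) (mwE false) eK1) boxMD 465 ⟨4, 7, 27, 19⟩ = true := by decide +kernel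

def arD0011 :
    Ex.checkNonneg (cL 14 false (mpE false) (mgE true) (mtE true) (mwE false) eK1) boxMD 465 ⟨4, 7, 27, 19⟩ = true := by decide +kernel

def arD0100 :
    Ex.checkNonneg (cL 14 false (mpE true) (mgE false) (mtE false) (mwE false) eK1) boxMD 465 ⟨4, 7, 27, 19⟩ = true := by decide +kernel

def arD0101 :
    Ex.checkNonneg (cL 14 false (mpE true) (mgE false) (mtE true) (mwE false) eK1) boxMD 465 ⟨4, 7, 27, 19⟩ = true := by decide +kernel

def arD0110 :
    Ex.checkNonneg (cL 14 false (mpE true) (mgE true) (mtE false) (mwE false) eK1) boxMD 465 ⟨4, 7, 27, 19⟩ = true := by decide +kernel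

def arD0111 :
    Ex.checkNonneg (cL 14 false (mpE true) (mgE true) (mtE true) (mwE false) eK1) boxMD 465 ⟨4, 7, 27, 19⟩ = true := by decide +kernel

def arD1000 :
    Ex.checkNonneg (cL 14 true (mpE false) (mgE false) (mtE false) (mwE false) eK1) boxMD 465 ⟨4, 7, 27, 19⟩ = true := by decide +kernel

def arD1001 :
    Ex.checkNonneg (cL 14 true (mpE false) (mgE false) (mtE true) (mwE false) eK1) boxMD 465 ⟨4, 7, 27, 19⟩ = true := by decide +kernel

def arD1010 :
    Ex.checkNonneg (cL 14 true (mpE false) (mgE true) (mtE false) (mwE false) eK1) boxMD 465 ⟨4, 7, 27, 19⟩ = true := by decide +kernel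

def arD1011 :
    Ex.checkNonneg (cL 14 true (mpE false) (mgE true) (mtE true) (mwE false) eK1) boxMD 465 ⟨4, 7, 27, 19⟩ = true := by decide +kernel

def arD1100 :
    Ex.checkNonneg (cL 14 true (mpE true) (mgE false) (mtE false) (mwE false) eK1) boxMD 465 ⟨4, 7, 27, 19⟩ = true := by decide +kernel

def arD1101 :
    Ex.checkNonneg (cL 14 true (mpE true) (mgE false) (mtE true) (mwE false) eK1) boxMD 465 ⟨4, 7, 27, 19⟩ = true := by decide +kernel

def arD1110 :
    Ex.checkNonneg (cL 14 true (mpE true) (mgE true) (mtE false) (mwE false) eK1) boxMD 465 ⟨4, 7, 27, 19⟩ = true := by decide +kernel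

def arD1111 :
    Ex.checkNonneg (cL 14 true (mpE true) (mgE true) (mtE true) (mwE false) eK1) boxMD 465 ⟨4, 7, 27, 19⟩ = true := by decide +kernel

theorem arD : ∀ s i j l : Bool,
    Ex.checkNonneg (cL 14 s (mpE i) (mgE j) (mtE l) (mwE false) eK1) boxMD 465 ⟨4, 7, 27, 19⟩ = true
  | false, false, false, false => arD0000
  | false, false, false, true => arD0001
  | false, false, true, false => arD0010
  | false, false, true, true => arD0011
  | false, true, false, false => arD0100
  | false, true, false, true => arD0101
  | false, true, true, false => arD0110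
  | false, true, true, true => arD0111
  | true, false, false, false => arD1000
  | true, false, false, true => arD1001
  | true, false, true, false => arD1010
  | true, false, true, true => arD1011
  | true, true, false, false => arD1100
  | true, true, false, true => arD1101
  | true, true, true, false => arD1110
  | true, true, true, true => arD1111

end Vale.Agent.P100.Calib.Closed.All.SgnNeg
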