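import Vale.Agent.P100.Calib.SlabSignsMidNegBox

/-!
# Checks below the crossing, piece D
-/

set_option linter.defProp false

namespace Vale.Agent.P100.Calib.Closed.All.SgnNeg

open BoxPos

def xbFD000 :
    Ex.checkNonneg (cX false (mpE false) (mgE false) (mtE false) (mwE false)) boxMD 279 ⟨3, 4, 15, 12⟩ = true := by decide +kernel

def xbFD001 :
    Ex.checkNonneg (cX false (mpE false) (mgE false) (mtE true) (mwE false)) boxMD 279 ⟨3, 4, 15, 12⟩ = true := by decide +kernel

def xbFD010 :
    Ex.checkNonneg (cX false (mpE false) (mgE true) (mtE false) (mwE false)) boxMD 279 ⟨3, 4, 15, 12⟩ = true := by decide +kernel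

def xbFD011 :
    Ex.checkNonneg (cX false (mpE false) (mgE true) (mtE true) (mwE false)) boxMD 279 ⟨3, 4, 15, 12⟩ = true := by decide +kernel

def xbFD100 :
    Ex.checkNonneg (cX false (mpE true) (mgE false) (mtE false) (mwE false)) boxMD 279 ⟨3, 4, 15, 12⟩ = true := by decide +kernel

def xbFD101 :
    Ex.checkNonneg (cX false (mpE true) (mgE false) (mtE true) (mwE false)) boxMD 279 ⟨3, 4, 15, 12⟩ = true := by decide +kernel

def xbFD110 :
    Ex.checkNonneg (cX false (mpE true) (mgE true) (mtE false) (mwE false)) boxMD 279 ⟨3, 4, 15, 12⟩ = true := by decide +kernel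

def xbFD111 :
    Ex.checkNonneg (cX false (mpE true) (mgE true) (mtE true) (mwE false)) boxMD 279 ⟨3, 4, 15, 12⟩ = true := by decide +kernel

theorem xbFD : ∀ i j l : Bool,
    Ex.checkNonneg (cX false (mpE i) (mgE j) (mtE l) (mwE false)) boxMD 279 ⟨3, 4, 15, 12⟩ = true
  | false, false, false => xbFD000
  | false, false, true => xbFD001
  | false, true, false => xbFD010
  | false, true, true => xbFD011
  | true, false, false => xbFD100
  | true, false, true => xbFD101
  | true, true, false => xbFD110
  | true, true, true => xbFD111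

def xbTD000 :
    Ex.checkNonneg (cX true (mpE false) (mgE false) (mtE false) (mwE true)) boxMD 286 ⟨3, 4, 15, 13⟩ = true := by decide +kernel

def xbTD001 :
    Ex.checkNonneg (cX true (mpE false) (mgE false) (mtE true) (mwE true)) boxMD 286 ⟨3, 4, 15, 13⟩ = true := by decide +kernel

def xbTD010 :
    Ex.checkNonneg (cX true (mpE false) (mgE true) (mtE false) (mwE true)) boxMD 286 ⟨3, 4, 15, 13⟩ = true := by decide +kernel

def xbTD011 :
    Ex.checkNonneg (cX true (mpE false) (mgE true) (mtE true) (mwE true)) boxMD 286 ⟨3, 4, 15, 13⟩ = true := by decide +kernel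

def xbTD100 :
    Ex.checkNonneg (cX true (mpE true) (mgE false) (mtE false) (mwE true)) boxMD 286 ⟨3, 4, 15, 13⟩ = true := by decide +kernel

def xbTD101 :
    Ex.checkNonneg (cX true (mpE true) (mgE false) (mtE true) (mwE true)) boxMD 286 ⟨3, 4, 15, 13⟩ = true := by decide +kernel

def xbTD110 :
    Ex.checkNonneg (cX true (mpE true) (mgE true) (mtE false) (mwE true)) boxMD 286 ⟨3, 4, 15, 13⟩ = true := by decide +kernel

def xbTD111 :
    Ex.checkNonneg (cX true (mpE true) (mgE true) (mtE true) (mwE true)) boxMD 286 ⟨3, 4, 15, 13⟩ = true := by decide +kernel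

theorem xbTD : ∀ i j l : Bool,
    Ex.checkNonneg (cX true (mpE i) (mgE j) (mtE l) (mwE true)) boxMD 286 ⟨3, 4, 15, 13⟩ = true
  | false, false, false => xbTD000
  | false, false, true => xbTD001
  | false, true, false => xbTD010
  | false, true, true => xbTD011
  | true, false, false => xbTD100
  | true, false, true => xbTD101
  | true, true, false => xbTD110
  | true, true, true => xbTD111

end Vale.Agent.P100.Calib.Closed.All.SgnNeg
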