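import Vale.Agent.P100.Calib.SlabSignsAllNegSound
import Vale.Agent.P100.Calib.SlabSignsMidNegDGY
import Vale.Agent.P100.Calib.SlabSignsMidNegDX
import Vale.Agent.P100.Calib.SlabSignsMidNegDL
import Vale.Agent.P100.Calib.SlabSignsMidNegDN

/-!
# The points of piece D are good
-/

namespace Vale.Agent.P100.Calib.Closed.All.SgnNeg

open BoxPos

theorem goodD {x : ℕ → ℝ} (hx : ∀ i < 4, ∃ t : ℝ, 0 ≤ t ∧ 0 < ((boxMD i).c : ℝ) + (boxMD i).d * t ∧
    ((boxMD i).a : ℝ) + (boxMD i).b * t = x i * (((boxMD i).c : ℝ) + (boxMD i).d * t)) :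
    Good midEncl eK1 x 14 where
  gy s i j l := Ex.nonneg_of_checkNonneg (gyD s i j l) hx
  xb s i j l := by
    cases s
    · exact Ex.nonneg_of_checkNonneg (xbFD i j l) hx
    · exact Ex.nonneg_of_checkNonneg (xbTD i j l) hx
  arrow s i j l := Ex.nonneg_of_checkNonneg (arD s i j l) hx
  mg i j l := Ex.nonneg_of_checkNonneg (mgD i j l) hx
  lg i l := Ex.nonneg_of_checkNonneg (lgD i l) hx
  cgy s := Ex.nonneg_of_checkNonneg (dgyD s) hx
  cl s := Ex.nonneg_of_checkNonneg (dlD s) hx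
  cgg := Ex.nonneg_of_checkNonneg dggD hx
  cte := Ex.nonneg_of_checkNonneg dteD hx
  cne := Ex.nonneg_of_checkNonneg dneD hx
  cnp := Ex.nonneg_of_checkNonneg dnpD hx
  tw := Ex.nonneg_of_checkNonneg dtwD hx
  nw := Ex.nonneg_of_checkNonneg dnwD hx
  xw := Ex.nonneg_of_checkNonneg dxwD hx
  pl := Ex.nonneg_of_checkNonneg eplD hx
  ph := Ex.nonneg_of_checkNonneg ephD hx
  gh := Ex.nonneg_of_checkNonneg eghD hx
  gl := Ex.nonneg_of_checkNonneg eglD hx
  tl := Ex.nonneg_of_checkNonneg etlD hx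
  th := Ex.nonneg_of_checkNonneg ethD hx

end Vale.Agent.P100.Calib.Closed.All.SgnNeg
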