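import Vale.Agent.P100.Calib.SlabSignsMidNegBox

/-!
# Checks below the crossing, piece DZ
-/

set_option linter.defProp false

namespace Vale.Agent.P100.Calib.Closed.All.SgnNeg

open BoxPos

def gyDZ0000 :
    Ex.checkNonneg (cGY 14 false (mpE false) (mgE false) (mtE false) (nC 0)) boxMDZ 436 ⟨3, 8, 29, 16⟩ = true := by decide +kernel

def gyDZ0001 :
    Ex.checkNonneg (cGY 14 false (mpE false) (mgE false) (mtE true) (nC 0)) boxMDZ 436 ⟨3, 8, 29, 16⟩ = true := by decide +kernel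

def gyDZ0010 :
    Ex.checkNonneg (cGY 14 false (mpE false) (mgE true) (mtE false) (nC 0)) boxMDZ 436 ⟨3, 8, 29, 16⟩ = true := by decide +kernel

def gyDZ0011 :
    Ex.checkNonneg (cGY 14 false (mpE false) (mgE true) (mtE true) (nC 0)) boxMDZ 436 ⟨3, 8, 29, 16⟩ = true := by decide +kernel

def gyDZ0100 :
    Ex.checkNonneg (cGY 14 false (mpE true) (mgE false) (mtE false) (nC 0)) boxMDZ 436 ⟨3, 8, 29, 16⟩ = true := by decide +kernel

def gyDZ0101 :
    Ex.checkNonneg (cGY 14 false (mpE true) (mgE false) (mtE true) (nC 0)) boxMDZ 436 ⟨3, 8, 29, 16⟩ = true := by decide +kernel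

def gyDZ0110 :
    Ex.checkNonneg (cGY 14 false (mpE true) (mgE true) (mtE false) (nC 0)) boxMDZ 436 ⟨3, 8, 29, 16⟩ = true := by decide +kernel

def gyDZ0111 :
    Ex.checkNonneg (cGY 14 false (mpE true) (mgE true) (mtE true) (nC 0)) boxMDZ 436 ⟨3, 8, 29, 16⟩ = true := by decide +kernel

def gyDZ1000 :
    Ex.checkNonneg (cGY 14 true (mpE false) (mgE false) (mtE false) (nC 0)) boxMDZ 436 ⟨3, 8, 29, 16⟩ = true := by decide +kernel

def gyDZ1001 :
    Ex.checkNonneg (cGY 14 true (mpE false) (mgE false) (mtE true) (nC 0)) boxMDZ 436 ⟨3, 8, 29, 16⟩ = true := by decide +kernel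

def gyDZ1010 :
    Ex.checkNonneg (cGY 14 true (mpE false) (mgE true) (mtE false) (nC 0)) boxMDZ 436 ⟨3, 8, 29, 16⟩ = true := by decide +kernel

def gyDZ1011 :
    Ex.checkNonneg (cGY 14 true (mpE false) (mgE true) (mtE true) (nC 0)) boxMDZ 436 ⟨3, 8, 29, 16⟩ = true := by decide +kernel

def gyDZ1100 :
    Ex.checkNonneg (cGY 14 true (mpE true) (mgE false) (mtE false) (nC 0)) boxMDZ 436 ⟨3, 8, 29, 16⟩ = true := by decide +kernel

def gyDZ1101 :
    Ex.checkNonneg (cGY 14 true (mpE true) (mgE false) (mtE true) (nC 0)) boxMDZ 436 ⟨3, 8, 29, 16⟩ = true := by decide +kernel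

def gyDZ1110 :
    Ex.checkNonneg (cGY 14 true (mpE true) (mgE true) (mtE false) (nC 0)) boxMDZ 436 ⟨3, 8, 29, 16⟩ = true := by decide +kernel

def gyDZ1111 :
    Ex.checkNonneg (cGY 14 true (mpE true) (mgE true) (mtE true) (nC 0)) boxMDZ 436 ⟨3, 8, 29, 16⟩ = true := by decide +kernel

theorem gyDZ : ∀ s i j l : Bool,
    Ex.checkNonneg (cGY 14 s (mpE i) (mgE j) (mtE l) (nC 0)) boxMDZ 436 ⟨3, 8, 29, 16⟩ = true
  | false, false, false, false => gyDZ0000
  | false, false, false, true => gyDZ0001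
  | false, false, true, false => gyDZ0010
  | false, false, true, true => gyDZ0011
  | false, true, false, false => gyDZ0100
  | false, true, false, true => gyDZ0101
  | false, true, true, false => gyDZ0110
  | false, true, true, true => gyDZ0111
  | true, false, false, false => gyDZ1000
  | true, false, false, true => gyDZ1001
  | true, false, true, false => gyDZ1010
  | true, false, true, true => gyDZ1011
  | true, true, false, false => gyDZ1100
  | true, true, false, true => gyDZ1101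
  | true, true, true, false => gyDZ1110
  | true, true, true, true => gyDZ1111

def lgDZ00 :
    Ex.checkNonneg (fLG (mtE false) (mtE false) (nC 0)) boxMDZ 263 ⟨2, 5, 16, 10⟩ = true := by decide +kernel

def lgDZ01 :
    Ex.checkNonneg (fLG (mtE false) (mtE true) (nC 0)) boxMDZ 263 ⟨2, 5, 16, 10⟩ = true := by decide +kernel

def lgDZ10 :
    Ex.checkNonneg (fLG (mtE true) (mtE false) (nC 0)) boxMDZ 263 ⟨2, 5, 16, 10⟩ = true := by decide +kernel

def lgDZ11 :
    Ex.checkNonneg (fLG (mtE true) (mtE true) (nC 0)) boxMDZ 263 ⟨2, 5, 16, 10⟩ = true := by decide +kernel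

theorem lgDZ : ∀ i l : Bool,
    Ex.checkNonneg (fLG (mtE i) (mtE l) (nC 0)) boxMDZ 263 ⟨2, 5, 16, 10⟩ = true
  | false, false => lgDZ00
  | false, true => lgDZ01
  | true, false => lgDZ10
  | true, true => lgDZ11

def dgyDZ0 :
    Ex.checkNonneg (dGY 14 false) boxMDZ 274 ⟨0, 5, 21, 11⟩ = true := by decide +kernel

def dgyDZ1 :
    Ex.checkNonneg (dGY 14 true) boxMDZ 274 ⟨0, 5, 21, 11⟩ = true := by decide +kernel

theorem dgyDZ : ∀ s : Bool,
    Ex.checkNonneg (dGY 14 s) boxMDZ 274 ⟨0, 5, 21, 11⟩ = true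
  | false => dgyDZ0
  | true => dgyDZ1

def dlDZ0 :
    Ex.checkNonneg (dL 14 false) boxMDZ 274 ⟨0, 5, 20, 12⟩ = true := by decide +kernel

def dlDZ1 :
    Ex.checkNonneg (dL 14 true) boxMDZ 274 ⟨0, 5, 20, 12⟩ = true := by decide +kernel

theorem dlDZ : ∀ s : Bool,
    Ex.checkNonneg (dL 14 s) boxMDZ 274 ⟨0, 5, 20, 12⟩ = true
  | false => dlDZ0
  | true => dlDZ1

def dggDZ :
    Ex.checkNonneg (dGG) boxMDZ 181 ⟨0, 5, 15, 5⟩ = true := by decide +kernel

def dteDZ :
    Ex.checkNonneg (dTE) boxMDZ 168 ⟨0, 4, 13, 6⟩ = true := by decide +kernel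

def dneDZ :
    Ex.checkNonneg (dNE) boxMDZ 160 ⟨0, 4, 12, 6⟩ = true := by decide +kernel

def dnpDZ :
    Ex.checkNonneg (dNP) boxMDZ 249 ⟨0, 5, 18, 11⟩ = true := by decide +kernel

def dtwDZ :
    Ex.checkNonneg (dTW) boxMDZ 73 ⟨0, 2, 5, 2⟩ = true := by decide +kernel

def dnwDZ :
    Ex.checkNonneg (dNW) boxMDZ 66 ⟨0, 2, 4, 2⟩ = true := by decide +kernel

def dxwDZ :
    Ex.checkNonneg (dXW) boxMDZ 40 ⟨0, 1, 3, 1⟩ = true := by decide +kernel

def eplDZ :
    Ex.checkNonneg (envPL midEncl) boxMDZ 178 ⟨3, 2, 10, 8⟩ = true := by decide +kernel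

def ephDZ :
    Ex.checkNonneg (envPH midEncl) boxMDZ 169 ⟨3, 2, 10, 7⟩ = true := by decide +kernel

def eghDZ :
    Ex.checkNonneg (envGH midEncl) boxMDZ 194 ⟨3, 1, 10, 10⟩ = true := by decide +kernel

def eglDZ :
    Ex.checkNonneg (envGL midEncl) boxMDZ 183 ⟨3, 1, 10, 9⟩ = true := by decide +kernel

def etlDZ :
    Ex.checkNonneg (envTL midEncl) boxMDZ 126 ⟨2, 1, 7, 6⟩ = true := by decide +kernel

def ethDZ :
    Ex.checkNonneg (envTH midEncl) boxMDZ 127 ⟨2, 1, 7, 6⟩ = true := by decide +kernel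

end Vale.Agent.P100.Calib.Closed.All.SgnNeg
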