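import Vale.Agent.P100.Calib.SlabSignsMidNegBox

/-!
# Checks below the crossing, piece DZ
-/

set_option linter.defProp false

namespace Vale.Agent.P100.Calib.Closed.All.SgnNeg

open BoxPos

def arDZ0000 :
    Ex.checkNonneg (cL 14 false (mpE false) (mgE false) (mtE false) (mwE false) (nC 0)) boxMDZ 461 ⟨4, 7, 27, 19⟩ = true := by decide +kernel

def arDZ0001 :
    Ex.checkNonneg (cL 14 false (mpE false) (mgE false) (mtE true) (mwE false) (nC 0)) boxMDZ 461 ⟨4, 7, 27, 19⟩ = true := by decide +kernel

def arDZ0010 :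
    Ex.checkNonneg (cL 14 false (mpE false) (mgE true) (mtE false) (mwE false) (nC 0)) boxMDZ 461 ⟨4, 7, 27, 19⟩ = true := by decide +kernel

def arDZ0011 :
    Ex.checkNonneg (cL 14 false (mpE false) (mgE true) (mtE true) (mwE false) (nC 0)) boxMDZ 461 ⟨4, 7, 27, 19⟩ = true := by decide +kernel

def arDZ0100 :
    Ex.checkNonneg (cL 14 false (mpE true) (mgE false) (mtE false) (mwE false) (nC 0)) boxMDZ 461 ⟨4, 7, 27, 19⟩ = true := by decide +kernel

def arDZ0101 :
    Ex.checkNonneg (cL 14 false (mpE true) (mgE false) (mtE true) (mwE false) (nC 0)) boxMDZ 461 ⟨4, 7, 27, 19⟩ = true := by decide +kernel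

def arDZ0110 :
    Ex.checkNonneg (cL 14 false (mpE true) (mgE true) (mtE false) (mwE false) (nC 0)) boxMDZ 461 ⟨4, 7, 27, 19⟩ = true := by decide +kernel

def arDZ0111 :
    Ex.checkNonneg (cL 14 false (mpE true) (mgE true) (mtE true) (mwE false) (nC 0)) boxMDZ 461 ⟨4, 7, 27, 19⟩ = true := by decide +kernel

def arDZ1000 :
    Ex.checkNonneg (cL 14 true (mpE false) (mgE false) (mtE false) (mwE false) (nC 0)) boxMDZ 461 ⟨4, 7, 27, 19⟩ = true := by decide +kernel

def arDZ1001 :
    Ex.checkNonneg (cL 14 true (mpE false) (mgE false) (mtE true) (mwE false) (nC 0)) boxMDZ 461 ⟨4, 7, 27, 19⟩ = true := by decide +kernel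

def arDZ1010 :
    Ex.checkNonneg (cL 14 true (mpE false) (mgE true) (mtE false) (mwE false) (nC 0)) boxMDZ 461 ⟨4, 7, 27, 19⟩ = true := by decide +kernel

def arDZ1011 :
    Ex.checkNonneg (cL 14 true (mpE false) (mgE true) (mtE true) (mwE false) (nC 0)) boxMDZ 461 ⟨4, 7, 27, 19⟩ = true := by decide +kernel

def arDZ1100 :
    Ex.checkNonneg (cL 14 true (mpE true) (mgE false) (mtE false) (mwE false) (nC 0)) boxMDZ 461 ⟨4, 7, 27, 19⟩ = true := by decide +kernel

def arDZ1101 :
    Ex.checkNonneg (cL 14 true (mpE true) (mgE false) (mtE true) (mwE false) (nC 0)) boxMDZ 461 ⟨4, 7, 27, 19⟩ = true := by decide +kernel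

def arDZ1110 :
    Ex.checkNonneg (cL 14 true (mpE true) (mgE true) (mtE false) (mwE false) (nC 0)) boxMDZ 461 ⟨4, 7, 27, 19⟩ = true := by decide +kernel

def arDZ1111 :
    Ex.checkNonneg (cL 14 true (mpE true) (mgE true) (mtE true) (mwE false) (nC 0)) boxMDZ 461 ⟨4, 7, 27, 19⟩ = true := by decide +kernel

theorem arDZ : ∀ s i j l : Bool,
    Ex.checkNonneg (cL 14 s (mpE i) (mgE j) (mtE l) (mwE false) (nC 0)) boxMDZ 461 ⟨4, 7, 27, 19⟩ = true
  | false, false, false, false => arDZ0000
  | false, false, false, true => arDZ0001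
  | false, false, true, false => arDZ0010
  | false, false, true, true => arDZ0011
  | false, true, false, false => arDZ0100
  | false, true, false, true => arDZ0101
  | false, true, true, false => arDZ0110
  | false, true, true, true => arDZ0111
  | true, false, false, false => arDZ1000
  | true, false, false, true => arDZ1001
  | true, false, true, false => arDZ1010
  | true, false, true, true => arDZ1011
  | true, true, false, false => arDZ1100
  | true, true, false, true => arDZ1101
  | true, true, true, false => arDZ1110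
  | true, true, true, true => arDZ1111

end Vale.Agent.P100.Calib.Closed.All.SgnNeg
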