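import Vale.Agent.P100.Calib.SlabSignsMidNegBox

/-!
# Checks below the crossing, piece DZ
-/

set_option linter.defProp false

namespace Vale.Agent.P100.Calib.Closed.All.SgnNeg

open BoxPos

def mgDZ000 :
    Ex.checkNonneg (fN (mpE false) (mgE false) (mtE false) (mwE true) (nC 0)) boxMDZ 428 ⟨4, 7, 24, 18⟩ = true := by decide +kernel

def mgDZ001 :
    Ex.checkNonneg (fN (mpE false) (mgE false) (mtE true) (mwE true) (nC 0)) boxMDZ 428 ⟨4, 7, 24, 18⟩ = true := by decide +kernel

def mgDZ010 :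
    Ex.checkNonneg (fN (mpE false) (mgE true) (mtE false) (mwE true) (nC 0)) boxMDZ 428 ⟨4, 7, 24, 18⟩ = true := by decide +kernel

def mgDZ011 :
    Ex.checkNonneg (fN (mpE false) (mgE true) (mtE true) (mwE true) (nC 0)) boxMDZ 428 ⟨4, 7, 24, 18⟩ = true := by decide +kernel

def mgDZ100 :
    Ex.checkNonneg (fN (mpE true) (mgE false) (mtE false) (mwE true) (nC 0)) boxMDZ 428 ⟨4, 7, 24, 18⟩ = true := by decide +kernel

def mgDZ101 :
    Ex.checkNonneg (fN (mpE true) (mgE false) (mtE true) (mwE true) (nC 0)) boxMDZ 428 ⟨4, 7, 24, 18⟩ = true := by decide +kernel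

def mgDZ110 :
    Ex.checkNonneg (fN (mpE true) (mgE true) (mtE false) (mwE true) (nC 0)) boxMDZ 428 ⟨4, 7, 24, 18⟩ = true := by decide +kernel

def mgDZ111 :
    Ex.checkNonneg (fN (mpE true) (mgE true) (mtE true) (mwE true) (nC 0)) boxMDZ 428 ⟨4, 7, 24, 18⟩ = true := by decide +kernel

theorem mgDZ : ∀ i j l : Bool,
    Ex.checkNonneg (fN (mpE i) (mgE j) (mtE l) (mwE true) (nC 0)) boxMDZ 428 ⟨4, 7, 24, 18⟩ = true
  | false, false, false => mgDZ000
  | false, false, true => mgDZ001
  | false, true, false => mgDZ010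
  | false, true, true => mgDZ011
  | true, false, false => mgDZ100
  | true, false, true => mgDZ101
  | true, true, false => mgDZ110
  | true, true, true => mgDZ111

end Vale.Agent.P100.Calib.Closed.All.SgnNeg
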