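import Vale.Agent.P100.Calib.SlabSignsMidNegBox

/-!
# Checks below the crossing, piece DZ
-/

set_option linter.defProp false

namespace Vale.Agent.P100.Calib.Closed.All.SgnNeg

open BoxPos

def xbFDZ000 :
    Ex.checkNonneg (cX false (mpE false) (mgE false) (mtE false) (mwE false)) boxMDZ 277 ⟨3, 4, 15, 12⟩ = true := by decide +kernel

def xbFDZ001 :
    Ex.checkNonneg (cX false (mpE false) (mgE false) (mtE true) (mwE false)) boxMDZ 277 ⟨3, 4, 15, 12⟩ = true := by decide +kernel

def xbFDZ010 :
    Ex.checkNonneg (cX false (mpE false) (mgE true) (mtE false) (mwE false)) boxMDZ 277 ⟨3, 4, 15, 12⟩ = true := by decide +kernel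

def xbFDZ011 :
    Ex.checkNonneg (cX false (mpE false) (mgE true) (mtE true) (mwE false)) boxMDZ 277 ⟨3, 4, 15, 12⟩ = true := by decide +kernel

def xbFDZ100 :
    Ex.checkNonneg (cX false (mpE true) (mgE false) (mtE false) (mwE false)) boxMDZ 277 ⟨3, 4, 15, 12⟩ = true := by decide +kernel

def xbFDZ101 :
    Ex.checkNonneg (cX false (mpE true) (mgE false) (mtE true) (mwE false)) boxMDZ 277 ⟨3, 4, 15, 12⟩ = true := by decide +kernel

def xbFDZ110 :
    Ex.checkNonneg (cX false (mpE true) (mgE true) (mtE false) (mwE false)) boxMDZ 277 ⟨3, 4, 15, 12⟩ = true := by decide +kernel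

def xbFDZ111 :
    Ex.checkNonneg (cX false (mpE true) (mgE true) (mtE true) (mwE false)) boxMDZ 277 ⟨3, 4, 15, 12⟩ = true := by decide +kernel

theorem xbFDZ : ∀ i j l : Bool,
    Ex.checkNonneg (cX false (mpE i) (mgE j) (mtE l) (mwE false)) boxMDZ 277 ⟨3, 4, 15, 12⟩ = true
  | false, false, false => xbFDZ000
  | false, false, true => xbFDZ001
  | false, true, false => xbFDZ010
  | false, true, true => xbFDZ011
  | true, false, false => xbFDZ100
  | true, false, true => xbFDZ101
  | true, true, false => xbFDZ110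
  | true, true, true => xbFDZ111

def xbTDZ000 :
    Ex.checkNonneg (cX true (mpE false) (mgE false) (mtE false) (mwE true)) boxMDZ 284 ⟨3, 4, 15, 13⟩ = true := by decide +kernel

def xbTDZ001 :
    Ex.checkNonneg (cX true (mpE false) (mgE false) (mtE true) (mwE true)) boxMDZ 284 ⟨3, 4, 15, 13⟩ = true := by decide +kernel

def xbTDZ010 :
    Ex.checkNonneg (cX true (mpE false) (mgE true) (mtE false) (mwE true)) boxMDZ 284 ⟨3, 4, 15, 13⟩ = true := by decide +kernel

def xbTDZ011 :
    Ex.checkNonneg (cX true (mpE false) (mgE true) (mtE true) (mwE true)) boxMDZ 284 ⟨3, 4, 15, 13⟩ = true := by decide +kernel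

def xbTDZ100 :
    Ex.checkNonneg (cX true (mpE true) (mgE false) (mtE false) (mwE true)) boxMDZ 284 ⟨3, 4, 15, 13⟩ = true := by decide +kernel

def xbTDZ101 :
    Ex.checkNonneg (cX true (mpE true) (mgE false) (mtE true) (mwE true)) boxMDZ 284 ⟨3, 4, 15, 13⟩ = true := by decide +kernel

def xbTDZ110 :
    Ex.checkNonneg (cX true (mpE true) (mgE true) (mtE false) (mwE true)) boxMDZ 284 ⟨3, 4, 15, 13⟩ = true := by decide +kernel

def xbTDZ111 :
    Ex.checkNonneg (cX true (mpE true) (mgE true) (mtE true) (mwE true)) boxMDZ 284 ⟨3, 4, 15, 13⟩ = true := by decide +kernel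

theorem xbTDZ : ∀ i j l : Bool,
    Ex.checkNonneg (cX true (mpE i) (mgE j) (mtE l) (mwE true)) boxMDZ 284 ⟨3, 4, 15, 13⟩ = true
  | false, false, false => xbTDZ000
  | false, false, true => xbTDZ001
  | false, true, false => xbTDZ010
  | false, true, true => xbTDZ011
  | true, false, false => xbTDZ100
  | true, false, true => xbTDZ101
  | true, true, false => xbTDZ110
  | true, true, true => xbTDZ111

end Vale.Agent.P100.Calib.Closed.All.SgnNeg
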