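import Vale.Agent.P100.Calib.SlabSignsAllNegSound
import Vale.Agent.P100.Calib.SlabSignsMidNegDZGY
import Vale.Agent.P100.Calib.SlabSignsMidNegDZX
import Vale.Agent.P100.Calib.SlabSignsMidNegDZL
import Vale.Agent.P100.Calib.SlabSignsMidNegDZN

/-!
# The points of piece DZ are good
-/

namespace Vale.Agent.P100.Calib.Closed.All.SgnNeg

open BoxPos

theorem goodDZ {x : ℕ → ℝ} (hx : ∀ i < 4, ∃ t : ℝ, 0 ≤ t ∧ 0 < ((boxMDZ i).c : ℝ) + (boxMDZ i).d * t ∧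
    ((boxMDZ i).a : ℝ) + (boxMDZ i).b * t = x i * (((boxMDZ i).c : ℝ) + (boxMDZ i).d * t)) :
    Good midEncl (nC 0) x 14 where
  gy s i j l := Ex.nonneg_of_checkNonneg (gyDZ s i j l) hx
  xb s i j l := by
    cases s
    · exact Ex.nonneg_of_checkNonneg (xbFDZ i j l) hx
    · exact Ex.nonneg_of_checkNonneg (xbTDZ i j l) hx
  arrow s i j l := Ex.nonneg_of_checkNonneg (arDZ s i j l) hx
  mg i j l := Ex.nonneg_of_checkNonneg (mgDZ i j l) hx
  lg i l := Ex.nonneg_of_checkNonneg (lgDZ i l) hx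
  cgy s := Ex.nonneg_of_checkNonneg (dgyDZ s) hx
  cl s := Ex.nonneg_of_checkNonneg (dlDZ s) hx
  cgg := Ex.nonneg_of_checkNonneg dggDZ hx
  cte := Ex.nonneg_of_checkNonneg dteDZ hx
  cne := Ex.nonneg_of_checkNonneg dneDZ hx
  cnp := Ex.nonneg_of_checkNonneg dnpDZ hx
  tw := Ex.nonneg_of_checkNonneg dtwDZ hx
  nw := Ex.nonneg_of_checkNonneg dnwDZ hx
  xw := Ex.nonneg_of_checkNonneg dxwDZ hx
  pl := Ex.nonneg_of_checkNonneg eplDZ hx
  ph := Ex.nonneg_of_checkNonneg ephDZ hx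
  gh := Ex.nonneg_of_checkNonneg eghDZ hx
  gl := Ex.nonneg_of_checkNonneg eglDZ hx
  tl := Ex.nonneg_of_checkNonneg etlDZ hx
  th := Ex.nonneg_of_checkNonneg ethDZ hx

end Vale.Agent.P100.Calib.Closed.All.SgnNeg
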