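import Vale.Agent.P100.Calib.SlabSignsAllNegChart
import Vale.Agent.P100.Calib.SlabSignsMidNegAB
import Vale.Agent.P100.Calib.SlabSignsMidNegCI
import Vale.Agent.P100.Calib.SlabSignsMidNegCII
import Vale.Agent.P100.Calib.SlabSignsMidNegD
import Vale.Agent.P100.Calib.SlabSignsMidNegDZ
import Vale.Agent.P100.Calib.SlabMidNeg

/-!
# The closed signs below the crossing for the dimensions from seven to twenty

On `midNeg`, at `u ≤ 0`, for `7 ≤ n < 20` and `(S - d)/2 ≤ 31/100`, the closed signs hold.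
-/

set_option linter.unusedSimpArgs false
set_option linter.unusedVariables false

namespace Vale.Agent.P100.Calib.Closed.All

open SgnNeg

/-- The enclosures fit on `U ≤ 121/100`, `X ∈ [5/7, 7/6]`, `I ≤ 1/7`, `a ≤ 31/100`. -/
theorem midEncl_ok {x : ℕ → ℝ} (h : Box x) (hU1 : x 0 ≤ 121 / 100) (hX : 5 / 7 ≤ x 1)
    (hX1 : x 1 ≤ 7 / 6) (ha : x 3 ≤ 31 / 100) : midEncl.Ok x := by
  obtain ⟨ha0, -⟩ := h.pos
  obtain ⟨hU, -, hI, hI1, hIa, -⟩ := h
  have hII : x 2 * x 2 ≤ 1 / 49 := by nlinarith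
  have hIU : 0 ≤ x 2 * x 0 := mul_nonneg hI.le hU
  have hIIU : 0 ≤ x 2 * x 2 * x 0 := mul_nonneg (mul_self_nonneg _) hU
  have key : 1 ≤ ev x (mpE false) ∧ 1 ≤ ev x (mgE false) ∧ 1 / 2 ≤ ev x (mtE false) := by
    simp only [mpE, mgE, mtE, pM, SgnNeg.gM, tM, ev_add, ev_sub, ev_mul, ev_nC, ev_x₀, ev_x₁, ev_x₂,
      ev_x₃]
    push_cast
    refine ⟨?_, ?_, ?_⟩
    · have h1 : -8 ≤ 8 * (1 - x 3) * x 1 - 8 := by
        nlinarith [mul_nonneg (by linarith : (0 : ℝ) ≤ 1 - x 3) (by linarith : 0 ≤ x 1)]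
      have h2 : -30 ≤ 14 - 5 * x 3 - 14 * x 1 + 21 * x 3 * x 1 + 20 * x 3 * x 0 +
          27 * x 3 * x 3 * x 0 := by
        nlinarith [mul_nonneg ha0.le (by linarith : 0 ≤ x 1), mul_nonneg ha0.le hU,
          mul_nonneg (mul_self_nonneg (x 3)) hU]
      nlinarith [mul_le_mul_of_nonneg_left h1 hI.le,
        mul_le_mul_of_nonneg_left h2 (mul_self_nonneg (x 2))]
    · have h1 : 0 ≤ x 2 * x 0 * x 3 * (1 + x 3 + x 3 * x 3) :=
        mul_nonneg (mul_nonneg hIU ha0.le) (by nlinarith)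
      have h2 : 0 ≤ 8 - 13 * x 3 + 75 * (x 3 * x 3) := by nlinarith
      nlinarith [mul_nonneg hIIU h2]
    · have h1 : 0 ≤ x 2 * x 0 * (1 - 2 * x 2 - x 3 - x 3 * x 3 - x 3 * x 3 * x 3) :=
        mul_nonneg hIU (by nlinarith [mul_nonneg ha0.le (mul_self_nonneg (x 3))])
      have h2 : -6 ≤ 7 / 2 * x 1 - 7 / 2 - 8 * (x 3 * x 1) := by
        nlinarith [mul_le_mul ha hX1 (by linarith : 0 ≤ x 1) (by norm_num : (0:ℝ) ≤ 31 / 100)]
      have h3 : x 2 * x 2 * x 0 ≤ 121 / 4900 := by nlinarith [mul_self_nonneg (x 2)]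
      nlinarith [mul_le_mul_of_nonneg_left h2 hIIU]
  obtain ⟨k1, k2, k3⟩ := key
  simp only [mpE, mgE, mtE, ev_add, ev_mul, ev_nC, ev_x₂] at k1 k2 k3 ⊢
  push_cast at k1 k2 k3
  constructor <;> simp only [midEncl, mpE, mgE, mtE, ev_add, ev_mul, ev_nC, ev_x₂] <;> push_cast
  · linarith
  · linarith
  · linarith
  · exact ⟨by nlinarith, by linarith, by linarith⟩

/-- `D₂ ≥ 0` off the corner. -/
theorem mid_k1 {I a : ℝ} (hI : I ≤ 1 / 7) (ha : a ≤ 31 / 100) (h : I ≤ 1 / 9 ∨ a ≤ 11 / 50) :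
    0 ≤ (1 - 2 * I) ^ 2 - 2 * a * (1 - I) := by
  rcases h with h | h
  · nlinarith [mul_le_mul_of_nonneg_right ha (show 0 ≤ 1 - I by linarith)]
  · nlinarith [mul_le_mul_of_nonneg_right h (show 0 ≤ 1 - I by linarith)]

/-- `D₂ < 0` only in the corner. -/
theorem mid_k1_neg {I a : ℝ} (hI : I ≤ 1 / 7) (ha : a ≤ 31 / 100)
    (h : (1 - 2 * I) ^ 2 - 2 * a * (1 - I) < 0) : 1 / 8 < I ∧ 7 / 25 < a := by
  constructor
  · by_contra hh
    nlinarith [mul_le_mul_of_nonneg_right ha (show 0 ≤ 1 - I by linarith)]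
  · by_contra hh
    nlinarith [mul_le_mul_of_nonneg_right (not_lt.1 hh) (show 0 ≤ 1 - I by linarith)]

/-- The points of piece AB. -/
theorem mid_pieceAB {x : ℕ → ℝ} (hU0 : 0 ≤ x 0) (hU : x 0 < 121 / 100) (hIl : 1 / 20 < x 2)
    (hI1 : x 2 ≤ 1 / 7) (hI : x 2 ≤ 1 / 9) (hl : 7 / 9 ≤ x 1) (hh : x 1 < 17 / 15) (ha : 1 / 20 < x 3) (ha1 : x 3 ≤ 31 / 100) :
    Good midEncl eK1 x 6 := by
  refine goodAB fun i hi => ?_
  interval_cases i <;> simp only [boxMAB] <;> (first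
    | exact chart_up (by norm_num) (by push_cast; linarith) (by push_cast; linarith)
    | exact chart_down (by norm_num) (by push_cast; linarith) (by push_cast; linarith))

/-- The points of piece CI. -/
theorem mid_pieceCI {x : ℕ → ℝ} (hU0 : 0 ≤ x 0) (hU : x 0 < 121 / 100) (hIl : 1 / 20 < x 2)
    (hI1 : x 2 ≤ 1 / 7) (hI : 1 / 9 < x 2) (hl : 14 / 20 < x 1) (hh : x 1 ≤ 19 / 20) (ha : 11 / 100 < x 3 ∧ x 3 ≤ 22 / 100) (ha1 : x 3 ≤ 31 / 100) :
    Good midEncl eK1 x 9 := by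
  refine goodCI fun i hi => ?_
  interval_cases i <;> simp only [boxMCI] <;> (first
    | exact chart_up (by norm_num) (by push_cast; linarith) (by push_cast; linarith)
    | exact chart_down (by norm_num) (by push_cast; linarith) (by push_cast; linarith))

/-- The points of piece CII. -/
theorem mid_pieceCII {x : ℕ → ℝ} (hU0 : 0 ≤ x 0) (hU : x 0 < 121 / 100) (hIl : 1 / 20 < x 2)
    (hI1 : x 2 ≤ 1 / 7) (hI : 1 / 9 < x 2) (hl : 19 / 20 < x 1) (hh : x 1 ≤ 7 / 6) (ha : 11 / 100 < x 3 ∧ x 3 ≤ 22 / 100) (ha1 : x 3 ≤ 31 / 100) :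
    Good midEncl eK1 x 2 := by
  refine goodCII fun i hi => ?_
  interval_cases i <;> simp only [boxMCII] <;> (first
    | exact chart_up (by norm_num) (by push_cast; linarith) (by push_cast; linarith)
    | exact chart_down (by norm_num) (by push_cast; linarith) (by push_cast; linarith))

/-- The points of piece D. -/
theorem mid_pieceD {x : ℕ → ℝ} (hU0 : 0 ≤ x 0) (hU : x 0 < 121 / 100) (hIl : 1 / 20 < x 2)
    (hI1 : x 2 ≤ 1 / 7) (hI : 1 / 9 < x 2) (hl : 5 / 7 ≤ x 1) (hh : x 1 < 7 / 6) (ha : 22 / 100 < x 3) (ha1 : x 3 ≤ 31 / 100) :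
    Good midEncl eK1 x 14 := by
  refine goodD fun i hi => ?_
  interval_cases i <;> simp only [boxMD] <;> (first
    | exact chart_up (by norm_num) (by push_cast; linarith) (by push_cast; linarith)
    | exact chart_down (by norm_num) (by push_cast; linarith) (by push_cast; linarith))

/-- The points of piece DZ. -/
theorem mid_pieceDZ {x : ℕ → ℝ} (hU0 : 0 ≤ x 0) (hU : x 0 < 121 / 100) (hIl : 1 / 20 < x 2)
    (hI1 : x 2 ≤ 1 / 7) (hI : 1 / 8 < x 2) (hl : 5 / 7 ≤ x 1) (hh : x 1 < 7 / 6) (ha : 28 / 100 < x 3) (ha1 : x 3 ≤ 31 / 100) :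
    Good midEncl (nC 0) x 14 := by
  refine goodDZ fun i hi => ?_
  interval_cases i <;> simp only [boxMDZ] <;> (first
    | exact chart_up (by norm_num) (by push_cast; linarith) (by push_cast; linarith)
    | exact chart_down (by norm_num) (by push_cast; linarith) (by push_cast; linarith))

/-- The closed signs below the crossing for the dimensions from seven to twenty. -/
theorem signsNeg_mid {n : ℕ} {d S u v t : ℝ} (hn : 7 ≤ n) (hn' : n < 20) (hb : ChartBox n d S)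
    (ha : (S - d) / 2 ≤ 31 / 100) (hu : u ≤ 0) (hN : Band.midNeg d S u v t) :
    ChartSigns d S u v t := by
  have hn7 : (7 : ℝ) ≤ n := by exact_mod_cast hn
  have hn20 : (n : ℝ) + 1 ≤ 20 := by exact_mod_cast hn'
  have hS1 : 0 < 1 - S := by linarith [hb.S_lt]
  have hI1 : (1 - S) / 2 < 1 / 7 := by
    have := hb.dim_low
    rw [lt_div_iff₀ hS1] at this
    nlinarith
  have hI0 : 1 / 20 < (1 - S) / 2 := by
    have := hb.dim_high hn'
    rw [div_lt_iff₀ hS1] at this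
    nlinarith
  have hIa : (1 - S) / 2 ≤ (S - d) / 2 := by linarith [hb.one]
  have hIS : Band.allStabI ((S - d) / 2) ((S + d) / 2) = (1 - S) / 2 := by
    rw [Band.allStabI]; ring
  obtain ⟨h₀, h₁, h₂, h₃, h₄⟩ := hN
  simp only [Band.midNegP, hIS] at h₀ h₁ h₂ h₃ h₄
  set I := (1 - S) / 2 with hId
  set a := (S - d) / 2 with hA
  have eI : 1 - S = 2 * I := by linarith
  have hX₀ : 1 - 2 * I ≤ v / (1 - S) := by
    rw [le_div_iff₀ hS1, eI]; linarith
  have hX₁ : v / (1 - S) ≤ 103 / 100 + 9 / 10 * I := by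
    rw [div_le_iff₀ hS1, eI]; linarith
  have hv : 0 ≤ v := le_trans (mul_nonneg (by linarith) (by linarith)) h₀
  have hK : (1 - a) * (1 + 3 / 5 * I) + 3 * I ^ 2 ≤ 1 + 3 / 100 * I := by
    nlinarith [mul_le_mul_of_nonneg_left hI1.le (show 0 ≤ I by linarith)]
  have hU : -u / (1 - S) < 121 / 100 := by
    rw [div_lt_iff₀ hS1, eI]
    have hd0 : 0 ≤ 1 + 3 / 100 * I := by linarith
    have := mul_le_mul hK h₁ hv hd0
    nlinarith
  have h : Box (pt d S u v) := ⟨div_nonneg (by linarith) hS1.le,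
    (by linarith : (0 : ℝ) ≤ 1 - 2 * I).trans hX₀, by show 0 < I; linarith,
    by show I ≤ 1 / 7; linarith, hIa,
    by show 0 < 1 - 2 * I - 2 * a; linarith [hb.pos]⟩
  have hX : 0 < pt d S u v 1 := by show 0 < v / (1 - S); linarith
  have hE : midEncl.Ok (pt d S u v) := midEncl_ok h hU.le
    (by show 5 / 7 ≤ v / (1 - S); linarith) (by show v / (1 - S) ≤ 7 / 6; linarith) ha
  set x := pt d S u v with hx
  have x0e : x 0 = -u / (1 - S) := rfl
  have hU0 : 0 ≤ x 0 := h.U₀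
  have x1e : x 1 = v / (1 - S) := rfl
  have x2e : x 2 = I := rfl
  have x3e : x 3 = a := rfl
  have w₀ : ev x (midEncl.w false) = 7 / 5 - 21 / 5 * I - 3 / 5 * a := by
    simp only [midEncl, mwE, ev_sub, ev_mul, ev_nC, ev_x₂, ev_x₃, x2e, x3e]; push_cast; ring
  have w₁ : ev x (midEncl.w true) = 8 / 5 + (2 + 100 * I) * a ^ 2 := by
    simp only [midEncl, mwE, ev_add, ev_mul, ev_nC, ev_x₂, ev_x₃, x2e, x3e]; push_cast; ring
  have h₃' : Band.allNegS a ((S + d) / 2) (ev x (midEncl.w false)) ≤ t := by rw [w₀]; exact h₃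
  have h₄' : t ≤ Band.allNegS a ((S + d) / 2) (ev x (midEncl.w true)) := by rw [w₁]; exact h₄
  have hK1 : ev x eK1 = rK1 x := (ev_base x).2.2.2.2.2.2.2
  have hKe : rK1 x = (1 - 2 * I) ^ 2 - 2 * a * (1 - I) := rfl
  have hsq : I * I ≥ 0 := mul_self_nonneg I
  have hUx : x 0 < 121 / 100 := hU
  have hIx : 1 / 20 < x 2 := hI0
  have hIy : x 2 ≤ 1 / 7 := hI1.le
  have hax : x 3 ≤ 31 / 100 := ha
  have hX9 : I ≤ 1 / 9 → 7 / 9 ≤ x 1 ∧ x 1 < 17 / 15 := fun hh => by constructor <;> linarith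
  have hX7 : 5 / 7 ≤ x 1 ∧ x 1 < 7 / 6 := by constructor <;> linarith
  have hax' : 1 / 20 < x 3 := by linarith
  rcases le_or_gt I (1 / 9) with hI9 | hI9
  · have hK0 : 0 ≤ rK1 x := hKe ▸ mid_k1 hI1.le ha (Or.inl hI9)
    have hg := mid_pieceAB hU0 hUx hIx hIy hI9 (hX9 hI9).1 (hX9 hI9).2 hax' hax
    exact signs_of_good (by norm_num) hb h hX hE (hK1.trans (max_eq_right hK0).symm) hg h₃' h₄'
  rcases le_or_gt a (11 / 50) with ha22 | ha22
  · have hz : ev x eK1 = max 0 (rK1 x) :=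
      hK1.trans (max_eq_right (hKe ▸ mid_k1 hI1.le ha (Or.inr ha22))).symm
    have hab : 11 / 100 < x 3 ∧ x 3 ≤ 22 / 100 := by constructor <;> linarith
    rcases le_or_gt (x 1) (19 / 20) with hX' | hX'
    · have hg := mid_pieceCI hU0 hUx hIx hIy hI9 (by linarith) hX' hab hax
      exact signs_of_good (by norm_num) hb h hX hE hz hg h₃' h₄'
    · have hg := mid_pieceCII hU0 hUx hIx hIy hI9 hX' hX7.2.le hab hax
      exact signs_of_good (by norm_num) hb h hX hE hz hg h₃' h₄'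
  rcases le_or_gt 0 (rK1 x) with hK0 | hK0
  · have hg := mid_pieceD hU0 hUx hIx hIy hI9 hX7.1 hX7.2 (by linarith) hax
    exact signs_of_good (by norm_num) hb h hX hE (hK1.trans (max_eq_right hK0).symm) hg h₃' h₄'
  · rw [hKe] at hK0
    obtain ⟨hI8, ha28⟩ := mid_k1_neg hI1.le ha hK0
    have hz : ev x (nC 0) = max 0 (rK1 x) := by
      rw [max_eq_left (by linarith), ev_nC]; simp
    have hg := mid_pieceDZ hU0 hUx hIx hIy hI8 hX7.1 hX7.2 (by linarith) hax
    exact signs_of_good (by norm_num) hb h hX hE hz hg h₃' h₄'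

end Vale.Agent.P100.Calib.Closed.All
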