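import Vale.Agent.P100.Calib.SlabStripMidSevWindow

/-!
# The checks of piece 0 below 153/200 for `N` between seven and twenty
-/

set_option linter.defProp false

namespace Vale.Agent.P100.Calib.StripMid

open Pack

/-- The numbers of piece 0. -/
def pcS0 : Piece := ⟨.A, (1, 10), (1, 4), (29, 50), (-93, 100), (89, 20), (747, 500), (229, 125), (977, 1000), (494, -525, 500), (1007, -300, 1000), 209, (239,1250,1200,5), (747, 500), (93, 50), (2, 5), (2, 5), (2, 5)⟩

/-- The ranges of piece 0. -/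
def boxS0 : Box := ⟨(50, 143, 1000), (0, 237, 250), (-27, 130, 100), (-93, 445, 100), (2, 5, 20)⟩

def grpS0_0 : ([bound pcS0 false .l0,
    bound pcS0 false .l1,
    bound pcS0 false .r,
    bound pcS0 true .l0,
    bound pcS0 true .l1,
    bound pcS0 true .r].all
    (checkFour (boxS0.cC) 293 14 9 2 3)) = true := by decide +kernel
def chkS0_0 : Chk (boxS0.cC) (bound pcS0 false .l0) :=
  ⟨293, 14, 9, 2, 3, List.all_eq_true.1 grpS0_0 _ (.head _)⟩
def chkS0_1 : Chk (boxS0.cC) (bound pcS0 false .l1) :=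
  ⟨293, 14, 9, 2, 3, List.all_eq_true.1 grpS0_0 _ (.tail _ (.head _))⟩
def chkS0_2 : Chk (boxS0.cC) (bound pcS0 false .r) :=
  ⟨293, 14, 9, 2, 3, List.all_eq_true.1 grpS0_0 _ (.tail _ (.tail _ (.head _)))⟩
def chkS0_9 : Chk (boxS0.cC) (bound pcS0 true .l0) :=
  ⟨293, 14, 9, 2, 3, List.all_eq_true.1 grpS0_0 _ (.tail _ (.tail _ (.tail _ (.head _))))⟩
def chkS0_10 : Chk (boxS0.cC) (bound pcS0 true .l1) :=
  ⟨293, 14, 9, 2, 3, List.all_eq_true.1 grpS0_0 _ (.tail _ (.tail _ (.tail _ (.tail _ (.head _)))))⟩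
def chkS0_11 : Chk (boxS0.cC) (bound pcS0 true .r) :=
  ⟨293, 14, 9, 2, 3, List.all_eq_true.1 grpS0_0 _ (.tail _ (.tail _ (.tail _ (.tail _ (.tail _ (.head _))))))⟩
def grpS0_1 : ([bound pcS0 false .g0,
    bound pcS0 false .g1,
    bound pcS0 true .g0,
    bound pcS0 true .g1].all
    (checkFour (boxS0.cC) 120 5 3 1 2)) = true := by decide +kernel
def chkS0_3 : Chk (boxS0.cC) (bound pcS0 false .g0) :=
  ⟨120, 5, 3, 1, 2, List.all_eq_true.1 grpS0_1 _ (.head _)⟩
def chkS0_4 : Chk (boxS0.cC) (bound pcS0 false .g1) :=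
  ⟨120, 5, 3, 1, 2, List.all_eq_true.1 grpS0_1 _ (.tail _ (.head _))⟩
def chkS0_12 : Chk (boxS0.cC) (bound pcS0 true .g0) :=
  ⟨120, 5, 3, 1, 2, List.all_eq_true.1 grpS0_1 _ (.tail _ (.tail _ (.head _)))⟩
def chkS0_13 : Chk (boxS0.cC) (bound pcS0 true .g1) :=
  ⟨120, 5, 3, 1, 2, List.all_eq_true.1 grpS0_1 _ (.tail _ (.tail _ (.tail _ (.head _))))⟩
def grpS0_2 : ([bound pcS0 false .t0,
    bound pcS0 false .t1,
    bound pcS0 true .t0,
    bound pcS0 true .t1].all
    (checkFour (boxS0.cC) 204 9 6 2 3)) = true := by decide +kernel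
def chkS0_5 : Chk (boxS0.cC) (bound pcS0 false .t0) :=
  ⟨204, 9, 6, 2, 3, List.all_eq_true.1 grpS0_2 _ (.head _)⟩
def chkS0_6 : Chk (boxS0.cC) (bound pcS0 false .t1) :=
  ⟨204, 9, 6, 2, 3, List.all_eq_true.1 grpS0_2 _ (.tail _ (.head _))⟩
def chkS0_14 : Chk (boxS0.cC) (bound pcS0 true .t0) :=
  ⟨204, 9, 6, 2, 3, List.all_eq_true.1 grpS0_2 _ (.tail _ (.tail _ (.head _)))⟩
def chkS0_15 : Chk (boxS0.cC) (bound pcS0 true .t1) :=
  ⟨204, 9, 6, 2, 3, List.all_eq_true.1 grpS0_2 _ (.tail _ (.tail _ (.tail _ (.head _))))⟩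
def grpS0_3 : ([bound pcS0 false .w0,
    bound pcS0 false .w1,
    bound pcS0 true .w0,
    bound pcS0 true .w1].all
    (checkFour (boxS0.cC) 256 12 7 3 4)) = true := by decide +kernel
def chkS0_7 : Chk (boxS0.cC) (bound pcS0 false .w0) :=
  ⟨256, 12, 7, 3, 4, List.all_eq_true.1 grpS0_3 _ (.head _)⟩
def chkS0_8 : Chk (boxS0.cC) (bound pcS0 false .w1) :=
  ⟨256, 12, 7, 3, 4, List.all_eq_true.1 grpS0_3 _ (.tail _ (.head _))⟩
def chkS0_16 : Chk (boxS0.cC) (bound pcS0 true .w0) :=
  ⟨256, 12, 7, 3, 4, List.all_eq_true.1 grpS0_3 _ (.tail _ (.tail _ (.head _)))⟩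
def chkS0_17 : Chk (boxS0.cC) (bound pcS0 true .w1) :=
  ⟨256, 12, 7, 3, 4, List.all_eq_true.1 grpS0_3 _ (.tail _ (.tail _ (.tail _ (.head _))))⟩
def grpS0_4 : ([subst (sub pcS0 ⟨false, false, true, true, false⟩) (condX),
    subst (sub pcS0 ⟨false, true, true, true, false⟩) (condX),
    subst (sub pcS0 ⟨true, false, true, true, false⟩) (condX),
    subst (sub pcS0 ⟨true, true, true, true, false⟩) (condX)].all
    (checkFour (boxS0.vC) 332 15 10 4 0)) = true := by decide +kernel
def chkS0_18 : Chk (boxS0.vC) (subst (sub pcS0 ⟨false, false, true, true, false⟩) (condX)) :=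
  ⟨332, 15, 10, 4, 0, List.all_eq_true.1 grpS0_4 _ (.head _)⟩
def chkS0_19 : Chk (boxS0.vC) (subst (sub pcS0 ⟨false, true, true, true, false⟩) (condX)) :=
  ⟨332, 15, 10, 4, 0, List.all_eq_true.1 grpS0_4 _ (.tail _ (.head _))⟩
def chkS0_20 : Chk (boxS0.vC) (subst (sub pcS0 ⟨true, false, true, true, false⟩) (condX)) :=
  ⟨332, 15, 10, 4, 0, List.all_eq_true.1 grpS0_4 _ (.tail _ (.tail _ (.head _)))⟩
def chkS0_21 : Chk (boxS0.vC) (subst (sub pcS0 ⟨true, true, true, true, false⟩) (condX)) :=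
  ⟨332, 15, 10, 4, 0, List.all_eq_true.1 grpS0_4 _ (.tail _ (.tail _ (.tail _ (.head _))))⟩
def grpS0_5 : ([subst (sub pcS0 ⟨false, false, true, false, false⟩) (tplMG),
    subst (sub pcS0 ⟨false, true, true, false, false⟩) (tplMG),
    subst (sub pcS0 ⟨true, false, true, false, false⟩) (tplMG),
    subst (sub pcS0 ⟨true, true, true, false, false⟩) (tplMG)].all
    (checkFour (boxS0.vC) 581 26 18 6 0)) = true := by decide +kernel
def chkS0_22 : Chk (boxS0.vC) (subst (sub pcS0 ⟨false, false, true, false, false⟩) (tplMG)) :=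
  ⟨581, 26, 18, 6, 0, List.all_eq_true.1 grpS0_5 _ (.head _)⟩
def chkS0_23 : Chk (boxS0.vC) (subst (sub pcS0 ⟨false, true, true, false, false⟩) (tplMG)) :=
  ⟨581, 26, 18, 6, 0, List.all_eq_true.1 grpS0_5 _ (.tail _ (.head _))⟩
def chkS0_24 : Chk (boxS0.vC) (subst (sub pcS0 ⟨true, false, true, false, false⟩) (tplMG)) :=
  ⟨581, 26, 18, 6, 0, List.all_eq_true.1 grpS0_5 _ (.tail _ (.tail _ (.head _)))⟩
def chkS0_25 : Chk (boxS0.vC) (subst (sub pcS0 ⟨true, true, true, false, false⟩) (tplMG)) :=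
  ⟨581, 26, 18, 6, 0, List.all_eq_true.1 grpS0_5 _ (.tail _ (.tail _ (.tail _ (.head _))))⟩
def grpS0_6 : ([subst (sub pcS0 ⟨false, false, false, false, false⟩) (pcS0.m1),
    subst (sub pcS0 ⟨false, true, false, false, false⟩) (pcS0.m1),
    subst (sub pcS0 ⟨true, false, false, false, false⟩) (pcS0.m1),
    subst (sub pcS0 ⟨true, true, false, false, false⟩) (pcS0.m1)].all
    (checkFour (boxS0.vC) 423 19 14 4 0)) = true := by decide +kernel
def chkS0_26 : Chk (boxS0.vC) (subst (sub pcS0 ⟨false, false, false, false, false⟩) (pcS0.m1)) :=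
  ⟨423, 19, 14, 4, 0, List.all_eq_true.1 grpS0_6 _ (.head _)⟩
def chkS0_27 : Chk (boxS0.vC) (subst (sub pcS0 ⟨false, true, false, false, false⟩) (pcS0.m1)) :=
  ⟨423, 19, 14, 4, 0, List.all_eq_true.1 grpS0_6 _ (.tail _ (.head _))⟩
def chkS0_28 : Chk (boxS0.vC) (subst (sub pcS0 ⟨true, false, false, false, false⟩) (pcS0.m1)) :=
  ⟨423, 19, 14, 4, 0, List.all_eq_true.1 grpS0_6 _ (.tail _ (.tail _ (.head _)))⟩
def chkS0_29 : Chk (boxS0.vC) (subst (sub pcS0 ⟨true, true, false, false, false⟩) (pcS0.m1)) :=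
  ⟨423, 19, 14, 4, 0, List.all_eq_true.1 grpS0_6 _ (.tail _ (.tail _ (.tail _ (.head _))))⟩
def chkS0_30 : Chk (boxS0.vC) (subst (sub pcS0 ⟨false, false, true, false, false⟩) (strict (pcS0.m2 false))) :=
  ⟨604, 24, 17, 6, 0, by decide +kernel⟩
def chkS0_31 : Chk (boxS0.vC) (subst (sub pcS0 ⟨false, false, true, false, true⟩) (strict (pcS0.m2 false))) :=
  ⟨606, 24, 17, 6, 0, by decide +kernel⟩
def chkS0_32 : Chk (boxS0.vC) (subst (sub pcS0 ⟨true, false, true, false, false⟩) (strict (pcS0.m2 false))) :=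
  ⟨604, 24, 17, 6, 0, by decide +kernel⟩
def chkS0_33 : Chk (boxS0.vC) (subst (sub pcS0 ⟨true, false, true, false, true⟩) (strict (pcS0.m2 false))) :=
  ⟨606, 24, 17, 6, 0, by decide +kernel⟩
def chkS0_34 : Chk (boxS0.vC) (subst (sub pcS0 ⟨false, true, true, false, false⟩) (strict (pcS0.m2 true))) :=
  ⟨602, 24, 17, 6, 0, by decide +kernel⟩
def chkS0_35 : Chk (boxS0.vC) (subst (sub pcS0 ⟨false, true, true, false, true⟩) (strict (pcS0.m2 true))) :=
  ⟨604, 24, 17, 6, 0, by decide +kernel⟩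
def chkS0_36 : Chk (boxS0.vC) (subst (sub pcS0 ⟨true, true, true, false, false⟩) (strict (pcS0.m2 true))) :=
  ⟨602, 24, 17, 6, 0, by decide +kernel⟩
def chkS0_37 : Chk (boxS0.vC) (subst (sub pcS0 ⟨true, true, true, false, true⟩) (strict (pcS0.m2 true))) :=
  ⟨604, 24, 17, 6, 0, by decide +kernel⟩
def grpS0_15 : ([subst (sub pcS0 ⟨false, false, true, true, false⟩) (strict (pcS0.m3 false)),
    subst (sub pcS0 ⟨false, false, true, true, true⟩) (strict (pcS0.m3 false)),
    subst (sub pcS0 ⟨false, false, true, true, false⟩) (strict (pcS0.m3 true)),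
    subst (sub pcS0 ⟨false, false, true, true, true⟩) (strict (pcS0.m3 true))].all
    (checkFour (boxS0.vC) 762 31 23 6 0)) = true := by decide +kernel
def chkS0_38 : Chk (boxS0.vC) (subst (sub pcS0 ⟨false, false, true, true, false⟩) (strict (pcS0.m3 false))) :=
  ⟨762, 31, 23, 6, 0, List.all_eq_true.1 grpS0_15 _ (.head _)⟩
def chkS0_39 : Chk (boxS0.vC) (subst (sub pcS0 ⟨false, false, true, true, true⟩) (strict (pcS0.m3 false))) :=
  ⟨762, 31, 23, 6, 0, List.all_eq_true.1 grpS0_15 _ (.tail _ (.head _))⟩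
def chkS0_46 : Chk (boxS0.vC) (subst (sub pcS0 ⟨false, false, true, true, false⟩) (strict (pcS0.m3 true))) :=
  ⟨762, 31, 23, 6, 0, List.all_eq_true.1 grpS0_15 _ (.tail _ (.tail _ (.head _)))⟩
def chkS0_47 : Chk (boxS0.vC) (subst (sub pcS0 ⟨false, false, true, true, true⟩) (strict (pcS0.m3 true))) :=
  ⟨762, 31, 23, 6, 0, List.all_eq_true.1 grpS0_15 _ (.tail _ (.tail _ (.tail _ (.head _))))⟩
def grpS0_16 : ([subst (sub pcS0 ⟨false, true, true, true, false⟩) (strict (pcS0.m3 false)),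
    subst (sub pcS0 ⟨false, true, true, true, true⟩) (strict (pcS0.m3 false)),
    subst (sub pcS0 ⟨false, true, true, true, false⟩) (strict (pcS0.m3 true)),
    subst (sub pcS0 ⟨false, true, true, true, true⟩) (strict (pcS0.m3 true))].all
    (checkFour (boxS0.vC) 758 31 23 6 0)) = true := by decide +kernel
def chkS0_40 : Chk (boxS0.vC) (subst (sub pcS0 ⟨false, true, true, true, false⟩) (strict (pcS0.m3 false))) :=
  ⟨758, 31, 23, 6, 0, List.all_eq_true.1 grpS0_16 _ (.head _)⟩
def chkS0_41 : Chk (boxS0.vC) (subst (sub pcS0 ⟨false, true, true, true, true⟩) (strict (pcS0.m3 false))) :=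
  ⟨758, 31, 23, 6, 0, List.all_eq_true.1 grpS0_16 _ (.tail _ (.head _))⟩
def chkS0_48 : Chk (boxS0.vC) (subst (sub pcS0 ⟨false, true, true, true, false⟩) (strict (pcS0.m3 true))) :=
  ⟨758, 31, 23, 6, 0, List.all_eq_true.1 grpS0_16 _ (.tail _ (.tail _ (.head _)))⟩
def chkS0_49 : Chk (boxS0.vC) (subst (sub pcS0 ⟨false, true, true, true, true⟩) (strict (pcS0.m3 true))) :=
  ⟨758, 31, 23, 6, 0, List.all_eq_true.1 grpS0_16 _ (.tail _ (.tail _ (.tail _ (.head _))))⟩
def grpS0_17 : ([subst (sub pcS0 ⟨true, false, true, true, false⟩) (strict (pcS0.m3 false)),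
    subst (sub pcS0 ⟨true, false, true, true, true⟩) (strict (pcS0.m3 false)),
    subst (sub pcS0 ⟨true, false, true, true, false⟩) (strict (pcS0.m3 true)),
    subst (sub pcS0 ⟨true, false, true, true, true⟩) (strict (pcS0.m3 true))].all
    (checkFour (boxS0.vC) 762 31 23 6 0)) = true := by decide +kernel
def chkS0_42 : Chk (boxS0.vC) (subst (sub pcS0 ⟨true, false, true, true, false⟩) (strict (pcS0.m3 false))) :=
  ⟨762, 31, 23, 6, 0, List.all_eq_true.1 grpS0_17 _ (.head _)⟩
def chkS0_43 : Chk (boxS0.vC) (subst (sub pcS0 ⟨true, false, true, true, true⟩) (strict (pcS0.m3 false))) :=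
  ⟨762, 31, 23, 6, 0, List.all_eq_true.1 grpS0_17 _ (.tail _ (.head _))⟩
def chkS0_50 : Chk (boxS0.vC) (subst (sub pcS0 ⟨true, false, true, true, false⟩) (strict (pcS0.m3 true))) :=
  ⟨762, 31, 23, 6, 0, List.all_eq_true.1 grpS0_17 _ (.tail _ (.tail _ (.head _)))⟩
def chkS0_51 : Chk (boxS0.vC) (subst (sub pcS0 ⟨true, false, true, true, true⟩) (strict (pcS0.m3 true))) :=
  ⟨762, 31, 23, 6, 0, List.all_eq_true.1 grpS0_17 _ (.tail _ (.tail _ (.tail _ (.head _))))⟩
def grpS0_18 : ([subst (sub pcS0 ⟨true, true, true, true, false⟩) (strict (pcS0.m3 false)),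
    subst (sub pcS0 ⟨true, true, true, true, true⟩) (strict (pcS0.m3 false)),
    subst (sub pcS0 ⟨true, true, true, true, false⟩) (strict (pcS0.m3 true)),
    subst (sub pcS0 ⟨true, true, true, true, true⟩) (strict (pcS0.m3 true))].all
    (checkFour (boxS0.vC) 758 31 23 6 0)) = true := by decide +kernel
def chkS0_44 : Chk (boxS0.vC) (subst (sub pcS0 ⟨true, true, true, true, false⟩) (strict (pcS0.m3 false))) :=
  ⟨758, 31, 23, 6, 0, List.all_eq_true.1 grpS0_18 _ (.head _)⟩
def chkS0_45 : Chk (boxS0.vC) (subst (sub pcS0 ⟨true, true, true, true, true⟩) (strict (pcS0.m3 false))) :=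
  ⟨758, 31, 23, 6, 0, List.all_eq_true.1 grpS0_18 _ (.tail _ (.head _))⟩
def chkS0_52 : Chk (boxS0.vC) (subst (sub pcS0 ⟨true, true, true, true, false⟩) (strict (pcS0.m3 true))) :=
  ⟨758, 31, 23, 6, 0, List.all_eq_true.1 grpS0_18 _ (.tail _ (.tail _ (.head _)))⟩
def chkS0_53 : Chk (boxS0.vC) (subst (sub pcS0 ⟨true, true, true, true, true⟩) (strict (pcS0.m3 true))) :=
  ⟨758, 31, 23, 6, 0, List.all_eq_true.1 grpS0_18 _ (.tail _ (.tail _ (.tail _ (.head _))))⟩
def chkS0_54 : Chk (boxS0.vC) (subst (sub pcS0 ⟨false, false, true, true, false⟩) (negEx coMG12)) :=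
  ⟨169, 8, 5, 4, 0, by decide +kernel⟩
def grpS0_20 : ([subst (sub pcS0 ⟨false, false, true, true, false⟩) (negEx (pcS0.curve2 false)),
    subst (sub pcS0 ⟨false, false, true, true, false⟩) (negEx (pcS0.curve2 true))].all
    (checkFour (boxS0.vC) 184 9 5 4 0)) = true := by decide +kernel
def chkS0_55 : Chk (boxS0.vC) (subst (sub pcS0 ⟨false, false, true, true, false⟩) (negEx (pcS0.curve2 false))) :=
  ⟨184, 9, 5, 4, 0, List.all_eq_true.1 grpS0_20 _ (.head _)⟩
def chkS0_56 : Chk (boxS0.vC) (subst (sub pcS0 ⟨false, false, true, true, false⟩) (negEx (pcS0.curve2 true))) :=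
  ⟨184, 9, 5, 4, 0, List.all_eq_true.1 grpS0_20 _ (.tail _ (.head _))⟩
def grpS0_21 : ([subst (sub pcS0 ⟨false, false, true, true, false⟩) (negEx (pcS0.curve3 false)),
    subst (sub pcS0 ⟨false, false, true, true, false⟩) (negEx (pcS0.curve3 true))].all
    (checkFour (boxS0.vC) 192 9 6 4 0)) = true := by decide +kernel
def chkS0_57 : Chk (boxS0.vC) (subst (sub pcS0 ⟨false, false, true, true, false⟩) (negEx (pcS0.curve3 false))) :=
  ⟨192, 9, 6, 4, 0, List.all_eq_true.1 grpS0_21 _ (.head _)⟩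
def chkS0_58 : Chk (boxS0.vC) (subst (sub pcS0 ⟨false, false, true, true, false⟩) (negEx (pcS0.curve3 true))) :=
  ⟨192, 9, 6, 4, 0, List.all_eq_true.1 grpS0_21 _ (.tail _ (.head _))⟩
def grpS0_22 : ([subst (sub pcS0 ⟨false, false, true, true, false⟩) (slopeT),
    subst (sub pcS0 ⟨true, false, true, true, false⟩) (slopeT)].all
    (checkFour (boxS0.vC) 206 10 6 4 0)) = true := by decide +kernel
def chkS0_59 : Chk (boxS0.vC) (subst (sub pcS0 ⟨false, false, true, true, false⟩) (slopeT)) :=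
  ⟨206, 10, 6, 4, 0, List.all_eq_true.1 grpS0_22 _ (.head _)⟩
def chkS0_60 : Chk (boxS0.vC) (subst (sub pcS0 ⟨true, false, true, true, false⟩) (slopeT)) :=
  ⟨206, 10, 6, 4, 0, List.all_eq_true.1 grpS0_22 _ (.tail _ (.head _))⟩
def grpS0_23 : ([subst (gapSub pcS0 true false false) tplL,
    subst (gapSub pcS0 true false true) tplL,
    subst (gapSub pcS0 true true false) tplL,
    subst (gapSub pcS0 true true true) tplL].all
    (checkFour (boxS0.gC true) 503 25 16 5 2)) = true := by decide +kernel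
def chkS0_61 : Chk (boxS0.gC true) (subst (gapSub pcS0 true false false) tplL) :=
  ⟨503, 25, 16, 5, 2, List.all_eq_true.1 grpS0_23 _ (.head _)⟩
def chkS0_62 : Chk (boxS0.gC true) (subst (gapSub pcS0 true false true) tplL) :=
  ⟨503, 25, 16, 5, 2, List.all_eq_true.1 grpS0_23 _ (.tail _ (.head _))⟩
def chkS0_63 : Chk (boxS0.gC true) (subst (gapSub pcS0 true true false) tplL) :=
  ⟨503, 25, 16, 5, 2, List.all_eq_true.1 grpS0_23 _ (.tail _ (.tail _ (.head _)))⟩
def chkS0_64 : Chk (boxS0.gC true) (subst (gapSub pcS0 true true true) tplL) :=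
  ⟨503, 25, 16, 5, 2, List.all_eq_true.1 grpS0_23 _ (.tail _ (.tail _ (.tail _ (.head _))))⟩

/-- Piece 0 passes. -/
theorem certS0 : Cert pcS0 boxS0 true where
  pos := by
    refine ⟨⟨⟨?_, ?_, ?_, ?_, ?_, ?_, ?_⟩, ?_, ?_, ?_, ?_, ?_, ?_, ?_, ?_, ?_, ?_, ?_⟩, ?_, ?_⟩ <;>
      norm_num [fr, pcS0]
  gX := fun p l => match p, l with
    | false, false => chkS0_18
    | false, true => chkS0_19
    | true, false => chkS0_20
    | true, true => chkS0_21
  gMG := fun p l => match p, l with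
    | false, false => chkS0_22
    | false, true => chkS0_23
    | true, false => chkS0_24
    | true, true => chkS0_25
  g1 := fun p l => match p, l with
    | false, false => chkS0_26
    | false, true => chkS0_27
    | true, false => chkS0_28
    | true, true => chkS0_29
  g2 := fun s p t => match s, p, t with
    | false, false, false => chkS0_30
    | false, false, true => chkS0_31
    | false, true, false => chkS0_32
    | false, true, true => chkS0_33
    | true, false, false => chkS0_34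
    | true, false, true => chkS0_35
    | true, true, false => chkS0_36
    | true, true, true => chkS0_37
  g3 := fun s p l t => match s, p, l, t with
    | false, false, false, false => chkS0_38
    | false, false, false, true => chkS0_39
    | false, false, true, false => chkS0_40
    | false, false, true, true => chkS0_41
    | false, true, false, false => chkS0_42
    | false, true, false, true => chkS0_43
    | false, true, true, false => chkS0_44
    | false, true, true, true => chkS0_45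
    | true, false, false, false => chkS0_46
    | true, false, false, true => chkS0_47
    | true, false, true, false => chkS0_48
    | true, false, true, true => chkS0_49
    | true, true, false, false => chkS0_50
    | true, true, false, true => chkS0_51
    | true, true, true, false => chkS0_52
    | true, true, true, true => chkS0_53
  cMG := chkS0_54
  c2 := fun s => match s with
    | false => chkS0_55
    | true => chkS0_56
  c3 := fun s => match s with
    | false => chkS0_57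
    | true => chkS0_58
  sT := fun p => match p with
    | false => chkS0_59
    | true => chkS0_60
  bnd := fun ze b => match ze, b with
    | false, .l0 => chkS0_0
    | false, .l1 => chkS0_1
    | false, .r => chkS0_2
    | false, .g0 => chkS0_3
    | false, .g1 => chkS0_4
    | false, .t0 => chkS0_5
    | false, .t1 => chkS0_6
    | false, .w0 => chkS0_7
    | false, .w1 => chkS0_8
    | true, .l0 => chkS0_9
    | true, .l1 => chkS0_10
    | true, .r => chkS0_11
    | true, .g0 => chkS0_12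
    | true, .g1 => chkS0_13
    | true, .t0 => chkS0_14
    | true, .t1 => chkS0_15
    | true, .w0 => chkS0_16
    | true, .w1 => chkS0_17
  gap := fun ze t => match ze, t with
    | false, false => chkS0_61
    | false, true => chkS0_62
    | true, false => chkS0_63
    | true, true => chkS0_64

/-- A window of piece 0. -/
def winS0L : Win := ⟨.A, (50, 143, 1000), (0, 237, 250), (-143, -93, 100), (-93, 445, 100), (89, 9460, 20), (2, 5, 20), false, false, (98, -100), (542, 1000)⟩

/-- The window passes. -/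
theorem winS0L_ok : winS0L.Cert where
  fits := ⟨by norm_num [winS0L], by norm_num [winS0L, qLo], by norm_num [winS0L, qLo, qHi],
    by norm_num [winS0L, qLo, qHi], by norm_num [winS0L, qLo], by norm_num [winS0L, qHi]⟩
  cross := ⟨264, 9, 6, 2, 7, by decide +kernel⟩
  exit := ⟨278, 12, 7, 3, 8, by decide +kernel⟩
  mix := ⟨363, 14, 9, 3, 11, by decide +kernel⟩

end Vale.Agent.P100.Calib.StripMid
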