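import Vale.Agent.P100.Calib.SlabStripMidSevWindow

/-!
# The checks of piece 1 below 153/200 for `N` between seven and twenty
-/

set_option linter.defProp false

namespace Vale.Agent.P100.Calib.StripMid

open Pack

/-- The numbers of piece 1. -/
def pcS1 : Piece := ⟨.A, (1, 4), (9, 20), (13, 20), (47, 100), (311, 100), (1097, 1000), (773, 500), (241, 250), (489, -825, 500), (1009, -750, 1000), 101, (239,330,1200,10), (219, 200), (409, 250), (2, 5), (2, 5), (1, 4)⟩

/-- The ranges of piece 1. -/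
def boxS1 : Box := ⟨(50, 143, 1000), (0, 237, 250), (2, 53, 25), (47, 311, 100), (5, 9, 20)⟩

def grpS1_0 : ([bound pcS1 false .l0,
    bound pcS1 false .l1,
    bound pcS1 false .r,
    bound pcS1 true .l0,
    bound pcS1 true .l1,
    bound pcS1 true .r].all
    (checkFour (boxS1.cC) 293 14 9 2 3)) = true := by decide +kernel
def chkS1_0 : Chk (boxS1.cC) (bound pcS1 false .l0) :=
  ⟨293, 14, 9, 2, 3, List.all_eq_true.1 grpS1_0 _ (.head _)⟩
def chkS1_1 : Chk (boxS1.cC) (bound pcS1 false .l1) :=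
  ⟨293, 14, 9, 2, 3, List.all_eq_true.1 grpS1_0 _ (.tail _ (.head _))⟩
def chkS1_2 : Chk (boxS1.cC) (bound pcS1 false .r) :=
  ⟨293, 14, 9, 2, 3, List.all_eq_true.1 grpS1_0 _ (.tail _ (.tail _ (.head _)))⟩
def chkS1_9 : Chk (boxS1.cC) (bound pcS1 true .l0) :=
  ⟨293, 14, 9, 2, 3, List.all_eq_true.1 grpS1_0 _ (.tail _ (.tail _ (.tail _ (.head _))))⟩
def chkS1_10 : Chk (boxS1.cC) (bound pcS1 true .l1) :=
  ⟨293, 14, 9, 2, 3, List.all_eq_true.1 grpS1_0 _ (.tail _ (.tail _ (.tail _ (.tail _ (.head _)))))⟩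
def chkS1_11 : Chk (boxS1.cC) (bound pcS1 true .r) :=
  ⟨293, 14, 9, 2, 3, List.all_eq_true.1 grpS1_0 _ (.tail _ (.tail _ (.tail _ (.tail _ (.tail _ (.head _))))))⟩
def grpS1_1 : ([bound pcS1 false .g0,
    bound pcS1 false .g1,
    bound pcS1 true .g0,
    bound pcS1 true .g1].all
    (checkFour (boxS1.cC) 118 5 3 1 2)) = true := by decide +kernel
def chkS1_3 : Chk (boxS1.cC) (bound pcS1 false .g0) :=
  ⟨118, 5, 3, 1, 2, List.all_eq_true.1 grpS1_1 _ (.head _)⟩
def chkS1_4 : Chk (boxS1.cC) (bound pcS1 false .g1) :=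
  ⟨118, 5, 3, 1, 2, List.all_eq_true.1 grpS1_1 _ (.tail _ (.head _))⟩
def chkS1_12 : Chk (boxS1.cC) (bound pcS1 true .g0) :=
  ⟨118, 5, 3, 1, 2, List.all_eq_true.1 grpS1_1 _ (.tail _ (.tail _ (.head _)))⟩
def chkS1_13 : Chk (boxS1.cC) (bound pcS1 true .g1) :=
  ⟨118, 5, 3, 1, 2, List.all_eq_true.1 grpS1_1 _ (.tail _ (.tail _ (.tail _ (.head _))))⟩
def grpS1_2 : ([bound pcS1 false .t0,
    bound pcS1 false .t1,
    bound pcS1 true .t0,
    bound pcS1 true .t1].all
    (checkFour (boxS1.cC) 203 9 6 2 3)) = true := by decide +kernel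
def chkS1_5 : Chk (boxS1.cC) (bound pcS1 false .t0) :=
  ⟨203, 9, 6, 2, 3, List.all_eq_true.1 grpS1_2 _ (.head _)⟩
def chkS1_6 : Chk (boxS1.cC) (bound pcS1 false .t1) :=
  ⟨203, 9, 6, 2, 3, List.all_eq_true.1 grpS1_2 _ (.tail _ (.head _))⟩
def chkS1_14 : Chk (boxS1.cC) (bound pcS1 true .t0) :=
  ⟨203, 9, 6, 2, 3, List.all_eq_true.1 grpS1_2 _ (.tail _ (.tail _ (.head _)))⟩
def chkS1_15 : Chk (boxS1.cC) (bound pcS1 true .t1) :=
  ⟨203, 9, 6, 2, 3, List.all_eq_true.1 grpS1_2 _ (.tail _ (.tail _ (.tail _ (.head _))))⟩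
def grpS1_3 : ([bound pcS1 false .w0,
    bound pcS1 false .w1,
    bound pcS1 true .w0,
    bound pcS1 true .w1].all
    (checkFour (boxS1.cC) 257 12 7 3 4)) = true := by decide +kernel
def chkS1_7 : Chk (boxS1.cC) (bound pcS1 false .w0) :=
  ⟨257, 12, 7, 3, 4, List.all_eq_true.1 grpS1_3 _ (.head _)⟩
def chkS1_8 : Chk (boxS1.cC) (bound pcS1 false .w1) :=
  ⟨257, 12, 7, 3, 4, List.all_eq_true.1 grpS1_3 _ (.tail _ (.head _))⟩
def chkS1_16 : Chk (boxS1.cC) (bound pcS1 true .w0) :=
  ⟨257, 12, 7, 3, 4, List.all_eq_true.1 grpS1_3 _ (.tail _ (.tail _ (.head _)))⟩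
def chkS1_17 : Chk (boxS1.cC) (bound pcS1 true .w1) :=
  ⟨257, 12, 7, 3, 4, List.all_eq_true.1 grpS1_3 _ (.tail _ (.tail _ (.tail _ (.head _))))⟩
def grpS1_4 : ([subst (sub pcS1 ⟨false, false, true, true, false⟩) (condX),
    subst (sub pcS1 ⟨false, true, true, true, false⟩) (condX),
    subst (sub pcS1 ⟨true, false, true, true, false⟩) (condX),
    subst (sub pcS1 ⟨true, true, true, true, false⟩) (condX)].all
    (checkFour (boxS1.vC) 323 15 10 4 0)) = true := by decide +kernel
def chkS1_18 : Chk (boxS1.vC) (subst (sub pcS1 ⟨false, false, true, true, false⟩) (condX)) :=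
  ⟨323, 15, 10, 4, 0, List.all_eq_true.1 grpS1_4 _ (.head _)⟩
def chkS1_19 : Chk (boxS1.vC) (subst (sub pcS1 ⟨false, true, true, true, false⟩) (condX)) :=
  ⟨323, 15, 10, 4, 0, List.all_eq_true.1 grpS1_4 _ (.tail _ (.head _))⟩
def chkS1_20 : Chk (boxS1.vC) (subst (sub pcS1 ⟨true, false, true, true, false⟩) (condX)) :=
  ⟨323, 15, 10, 4, 0, List.all_eq_true.1 grpS1_4 _ (.tail _ (.tail _ (.head _)))⟩
def chkS1_21 : Chk (boxS1.vC) (subst (sub pcS1 ⟨true, true, true, true, false⟩) (condX)) :=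
  ⟨323, 15, 10, 4, 0, List.all_eq_true.1 grpS1_4 _ (.tail _ (.tail _ (.tail _ (.head _))))⟩
def grpS1_5 : ([subst (sub pcS1 ⟨false, false, true, false, false⟩) (tplMG),
    subst (sub pcS1 ⟨false, true, true, false, false⟩) (tplMG),
    subst (sub pcS1 ⟨true, false, true, false, false⟩) (tplMG),
    subst (sub pcS1 ⟨true, true, true, false, false⟩) (tplMG)].all
    (checkFour (boxS1.vC) 565 26 18 6 0)) = true := by decide +kernel
def chkS1_22 : Chk (boxS1.vC) (subst (sub pcS1 ⟨false, false, true, false, false⟩) (tplMG)) :=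
  ⟨565, 26, 18, 6, 0, List.all_eq_true.1 grpS1_5 _ (.head _)⟩
def chkS1_23 : Chk (boxS1.vC) (subst (sub pcS1 ⟨false, true, true, false, false⟩) (tplMG)) :=
  ⟨565, 26, 18, 6, 0, List.all_eq_true.1 grpS1_5 _ (.tail _ (.head _))⟩
def chkS1_24 : Chk (boxS1.vC) (subst (sub pcS1 ⟨true, false, true, false, false⟩) (tplMG)) :=
  ⟨565, 26, 18, 6, 0, List.all_eq_true.1 grpS1_5 _ (.tail _ (.tail _ (.head _)))⟩
def chkS1_25 : Chk (boxS1.vC) (subst (sub pcS1 ⟨true, true, true, false, false⟩) (tplMG)) :=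
  ⟨565, 26, 18, 6, 0, List.all_eq_true.1 grpS1_5 _ (.tail _ (.tail _ (.tail _ (.head _))))⟩
def grpS1_6 : ([subst (sub pcS1 ⟨false, false, false, false, false⟩) (pcS1.m1),
    subst (sub pcS1 ⟨false, true, false, false, false⟩) (pcS1.m1),
    subst (sub pcS1 ⟨true, false, false, false, false⟩) (pcS1.m1),
    subst (sub pcS1 ⟨true, true, false, false, false⟩) (pcS1.m1)].all
    (checkFour (boxS1.vC) 415 19 14 4 0)) = true := by decide +kernel
def chkS1_26 : Chk (boxS1.vC) (subst (sub pcS1 ⟨false, false, false, false, false⟩) (pcS1.m1)) :=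
  ⟨415, 19, 14, 4, 0, List.all_eq_true.1 grpS1_6 _ (.head _)⟩
def chkS1_27 : Chk (boxS1.vC) (subst (sub pcS1 ⟨false, true, false, false, false⟩) (pcS1.m1)) :=
  ⟨415, 19, 14, 4, 0, List.all_eq_true.1 grpS1_6 _ (.tail _ (.head _))⟩
def chkS1_28 : Chk (boxS1.vC) (subst (sub pcS1 ⟨true, false, false, false, false⟩) (pcS1.m1)) :=
  ⟨415, 19, 14, 4, 0, List.all_eq_true.1 grpS1_6 _ (.tail _ (.tail _ (.head _)))⟩
def chkS1_29 : Chk (boxS1.vC) (subst (sub pcS1 ⟨true, true, false, false, false⟩) (pcS1.m1)) :=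
  ⟨415, 19, 14, 4, 0, List.all_eq_true.1 grpS1_6 _ (.tail _ (.tail _ (.tail _ (.head _))))⟩
def chkS1_30 : Chk (boxS1.vC) (subst (sub pcS1 ⟨false, false, true, false, false⟩) (strict (pcS1.m2 false))) :=
  ⟨588, 24, 17, 6, 0, by decide +kernel⟩
def chkS1_31 : Chk (boxS1.vC) (subst (sub pcS1 ⟨false, false, true, false, true⟩) (strict (pcS1.m2 false))) :=
  ⟨590, 24, 17, 6, 0, by decide +kernel⟩
def chkS1_32 : Chk (boxS1.vC) (subst (sub pcS1 ⟨true, false, true, false, false⟩) (strict (pcS1.m2 false))) :=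
  ⟨588, 24, 17, 6, 0, by decide +kernel⟩
def chkS1_33 : Chk (boxS1.vC) (subst (sub pcS1 ⟨true, false, true, false, true⟩) (strict (pcS1.m2 false))) :=
  ⟨590, 24, 17, 6, 0, by decide +kernel⟩
def chkS1_34 : Chk (boxS1.vC) (subst (sub pcS1 ⟨false, true, true, false, false⟩) (strict (pcS1.m2 true))) :=
  ⟨588, 24, 17, 6, 0, by decide +kernel⟩
def chkS1_35 : Chk (boxS1.vC) (subst (sub pcS1 ⟨false, true, true, false, true⟩) (strict (pcS1.m2 true))) :=
  ⟨590, 24, 17, 6, 0, by decide +kernel⟩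
def chkS1_36 : Chk (boxS1.vC) (subst (sub pcS1 ⟨true, true, true, false, false⟩) (strict (pcS1.m2 true))) :=
  ⟨588, 24, 17, 6, 0, by decide +kernel⟩
def chkS1_37 : Chk (boxS1.vC) (subst (sub pcS1 ⟨true, true, true, false, true⟩) (strict (pcS1.m2 true))) :=
  ⟨590, 24, 17, 6, 0, by decide +kernel⟩
def grpS1_15 : ([subst (sub pcS1 ⟨false, false, true, true, false⟩) (strict (pcS1.m3 false)),
    subst (sub pcS1 ⟨false, false, true, true, true⟩) (strict (pcS1.m3 false)),
    subst (sub pcS1 ⟨false, false, true, true, false⟩) (strict (pcS1.m3 true)),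
    subst (sub pcS1 ⟨false, false, true, true, true⟩) (strict (pcS1.m3 true))].all
    (checkFour (boxS1.vC) 744 31 23 6 0)) = true := by decide +kernel
def chkS1_38 : Chk (boxS1.vC) (subst (sub pcS1 ⟨false, false, true, true, false⟩) (strict (pcS1.m3 false))) :=
  ⟨744, 31, 23, 6, 0, List.all_eq_true.1 grpS1_15 _ (.head _)⟩
def chkS1_39 : Chk (boxS1.vC) (subst (sub pcS1 ⟨false, false, true, true, true⟩) (strict (pcS1.m3 false))) :=
  ⟨744, 31, 23, 6, 0, List.all_eq_true.1 grpS1_15 _ (.tail _ (.head _))⟩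
def chkS1_46 : Chk (boxS1.vC) (subst (sub pcS1 ⟨false, false, true, true, false⟩) (strict (pcS1.m3 true))) :=
  ⟨744, 31, 23, 6, 0, List.all_eq_true.1 grpS1_15 _ (.tail _ (.tail _ (.head _)))⟩
def chkS1_47 : Chk (boxS1.vC) (subst (sub pcS1 ⟨false, false, true, true, true⟩) (strict (pcS1.m3 true))) :=
  ⟨744, 31, 23, 6, 0, List.all_eq_true.1 grpS1_15 _ (.tail _ (.tail _ (.tail _ (.head _))))⟩
def grpS1_16 : ([subst (sub pcS1 ⟨false, true, true, true, false⟩) (strict (pcS1.m3 false)),
    subst (sub pcS1 ⟨false, true, true, true, true⟩) (strict (pcS1.m3 false)),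
    subst (sub pcS1 ⟨false, true, true, true, false⟩) (strict (pcS1.m3 true)),
    subst (sub pcS1 ⟨false, true, true, true, true⟩) (strict (pcS1.m3 true))].all
    (checkFour (boxS1.vC) 743 31 23 6 0)) = true := by decide +kernel
def chkS1_40 : Chk (boxS1.vC) (subst (sub pcS1 ⟨false, true, true, true, false⟩) (strict (pcS1.m3 false))) :=
  ⟨743, 31, 23, 6, 0, List.all_eq_true.1 grpS1_16 _ (.head _)⟩
def chkS1_41 : Chk (boxS1.vC) (subst (sub pcS1 ⟨false, true, true, true, true⟩) (strict (pcS1.m3 false))) :=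
  ⟨743, 31, 23, 6, 0, List.all_eq_true.1 grpS1_16 _ (.tail _ (.head _))⟩
def chkS1_48 : Chk (boxS1.vC) (subst (sub pcS1 ⟨false, true, true, true, false⟩) (strict (pcS1.m3 true))) :=
  ⟨743, 31, 23, 6, 0, List.all_eq_true.1 grpS1_16 _ (.tail _ (.tail _ (.head _)))⟩
def chkS1_49 : Chk (boxS1.vC) (subst (sub pcS1 ⟨false, true, true, true, true⟩) (strict (pcS1.m3 true))) :=
  ⟨743, 31, 23, 6, 0, List.all_eq_true.1 grpS1_16 _ (.tail _ (.tail _ (.tail _ (.head _))))⟩
def grpS1_17 : ([subst (sub pcS1 ⟨true, false, true, true, false⟩) (strict (pcS1.m3 false)),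
    subst (sub pcS1 ⟨true, false, true, true, true⟩) (strict (pcS1.m3 false)),
    subst (sub pcS1 ⟨true, false, true, true, false⟩) (strict (pcS1.m3 true)),
    subst (sub pcS1 ⟨true, false, true, true, true⟩) (strict (pcS1.m3 true))].all
    (checkFour (boxS1.vC) 744 31 23 6 0)) = true := by decide +kernel
def chkS1_42 : Chk (boxS1.vC) (subst (sub pcS1 ⟨true, false, true, true, false⟩) (strict (pcS1.m3 false))) :=
  ⟨744, 31, 23, 6, 0, List.all_eq_true.1 grpS1_17 _ (.head _)⟩
def chkS1_43 : Chk (boxS1.vC) (subst (sub pcS1 ⟨true, false, true, true, true⟩) (strict (pcS1.m3 false))) :=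
  ⟨744, 31, 23, 6, 0, List.all_eq_true.1 grpS1_17 _ (.tail _ (.head _))⟩
def chkS1_50 : Chk (boxS1.vC) (subst (sub pcS1 ⟨true, false, true, true, false⟩) (strict (pcS1.m3 true))) :=
  ⟨744, 31, 23, 6, 0, List.all_eq_true.1 grpS1_17 _ (.tail _ (.tail _ (.head _)))⟩
def chkS1_51 : Chk (boxS1.vC) (subst (sub pcS1 ⟨true, false, true, true, true⟩) (strict (pcS1.m3 true))) :=
  ⟨744, 31, 23, 6, 0, List.all_eq_true.1 grpS1_17 _ (.tail _ (.tail _ (.tail _ (.head _))))⟩
def grpS1_18 : ([subst (sub pcS1 ⟨true, true, true, true, false⟩) (strict (pcS1.m3 false)),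
    subst (sub pcS1 ⟨true, true, true, true, true⟩) (strict (pcS1.m3 false)),
    subst (sub pcS1 ⟨true, true, true, true, false⟩) (strict (pcS1.m3 true)),
    subst (sub pcS1 ⟨true, true, true, true, true⟩) (strict (pcS1.m3 true))].all
    (checkFour (boxS1.vC) 743 31 23 6 0)) = true := by decide +kernel
def chkS1_44 : Chk (boxS1.vC) (subst (sub pcS1 ⟨true, true, true, true, false⟩) (strict (pcS1.m3 false))) :=
  ⟨743, 31, 23, 6, 0, List.all_eq_true.1 grpS1_18 _ (.head _)⟩
def chkS1_45 : Chk (boxS1.vC) (subst (sub pcS1 ⟨true, true, true, true, true⟩) (strict (pcS1.m3 false))) :=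
  ⟨743, 31, 23, 6, 0, List.all_eq_true.1 grpS1_18 _ (.tail _ (.head _))⟩
def chkS1_52 : Chk (boxS1.vC) (subst (sub pcS1 ⟨true, true, true, true, false⟩) (strict (pcS1.m3 true))) :=
  ⟨743, 31, 23, 6, 0, List.all_eq_true.1 grpS1_18 _ (.tail _ (.tail _ (.head _)))⟩
def chkS1_53 : Chk (boxS1.vC) (subst (sub pcS1 ⟨true, true, true, true, true⟩) (strict (pcS1.m3 true))) :=
  ⟨743, 31, 23, 6, 0, List.all_eq_true.1 grpS1_18 _ (.tail _ (.tail _ (.tail _ (.head _))))⟩
def chkS1_54 : Chk (boxS1.vC) (subst (sub pcS1 ⟨false, false, true, true, false⟩) (negEx coMG12)) :=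
  ⟨161, 8, 5, 4, 0, by decide +kernel⟩
def grpS1_20 : ([subst (sub pcS1 ⟨false, false, true, true, false⟩) (negEx (pcS1.curve2 false)),
    subst (sub pcS1 ⟨false, false, true, true, false⟩) (negEx (pcS1.curve2 true))].all
    (checkFour (boxS1.vC) 176 9 5 4 0)) = true := by decide +kernel
def chkS1_55 : Chk (boxS1.vC) (subst (sub pcS1 ⟨false, false, true, true, false⟩) (negEx (pcS1.curve2 false))) :=
  ⟨176, 9, 5, 4, 0, List.all_eq_true.1 grpS1_20 _ (.head _)⟩
def chkS1_56 : Chk (boxS1.vC) (subst (sub pcS1 ⟨false, false, true, true, false⟩) (negEx (pcS1.curve2 true))) :=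
  ⟨176, 9, 5, 4, 0, List.all_eq_true.1 grpS1_20 _ (.tail _ (.head _))⟩
def grpS1_21 : ([subst (sub pcS1 ⟨false, false, true, true, false⟩) (negEx (pcS1.curve3 false)),
    subst (sub pcS1 ⟨false, false, true, true, false⟩) (negEx (pcS1.curve3 true))].all
    (checkFour (boxS1.vC) 184 9 6 4 0)) = true := by decide +kernel
def chkS1_57 : Chk (boxS1.vC) (subst (sub pcS1 ⟨false, false, true, true, false⟩) (negEx (pcS1.curve3 false))) :=
  ⟨184, 9, 6, 4, 0, List.all_eq_true.1 grpS1_21 _ (.head _)⟩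
def chkS1_58 : Chk (boxS1.vC) (subst (sub pcS1 ⟨false, false, true, true, false⟩) (negEx (pcS1.curve3 true))) :=
  ⟨184, 9, 6, 4, 0, List.all_eq_true.1 grpS1_21 _ (.tail _ (.head _))⟩
def grpS1_22 : ([subst (sub pcS1 ⟨false, false, true, true, false⟩) (slopeT),
    subst (sub pcS1 ⟨true, false, true, true, false⟩) (slopeT)].all
    (checkFour (boxS1.vC) 197 10 6 4 0)) = true := by decide +kernel
def chkS1_59 : Chk (boxS1.vC) (subst (sub pcS1 ⟨false, false, true, true, false⟩) (slopeT)) :=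
  ⟨197, 10, 6, 4, 0, List.all_eq_true.1 grpS1_22 _ (.head _)⟩
def chkS1_60 : Chk (boxS1.vC) (subst (sub pcS1 ⟨true, false, true, true, false⟩) (slopeT)) :=
  ⟨197, 10, 6, 4, 0, List.all_eq_true.1 grpS1_22 _ (.tail _ (.head _))⟩
def grpS1_23 : ([subst (gapSub pcS1 true false false) tplL,
    subst (gapSub pcS1 true false true) tplL,
    subst (gapSub pcS1 true true false) tplL,
    subst (gapSub pcS1 true true true) tplL].all
    (checkFour (boxS1.gC true) 493 25 16 5 2)) = true := by decide +kernel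
def chkS1_61 : Chk (boxS1.gC true) (subst (gapSub pcS1 true false false) tplL) :=
  ⟨493, 25, 16, 5, 2, List.all_eq_true.1 grpS1_23 _ (.head _)⟩
def chkS1_62 : Chk (boxS1.gC true) (subst (gapSub pcS1 true false true) tplL) :=
  ⟨493, 25, 16, 5, 2, List.all_eq_true.1 grpS1_23 _ (.tail _ (.head _))⟩
def chkS1_63 : Chk (boxS1.gC true) (subst (gapSub pcS1 true true false) tplL) :=
  ⟨493, 25, 16, 5, 2, List.all_eq_true.1 grpS1_23 _ (.tail _ (.tail _ (.head _)))⟩
def chkS1_64 : Chk (boxS1.gC true) (subst (gapSub pcS1 true true true) tplL) :=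
  ⟨493, 25, 16, 5, 2, List.all_eq_true.1 grpS1_23 _ (.tail _ (.tail _ (.tail _ (.head _))))⟩

/-- Piece 1 passes. -/
theorem certS1 : Cert pcS1 boxS1 true where
  pos := by
    refine ⟨⟨⟨?_, ?_, ?_, ?_, ?_, ?_, ?_⟩, ?_, ?_, ?_, ?_, ?_, ?_, ?_, ?_, ?_, ?_, ?_⟩, ?_, ?_⟩ <;>
      norm_num [fr, pcS1]
  gX := fun p l => match p, l with
    | false, false => chkS1_18
    | false, true => chkS1_19
    | true, false => chkS1_20
    | true, true => chkS1_21
  gMG := fun p l => match p, l with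
    | false, false => chkS1_22
    | false, true => chkS1_23
    | true, false => chkS1_24
    | true, true => chkS1_25
  g1 := fun p l => match p, l with
    | false, false => chkS1_26
    | false, true => chkS1_27
    | true, false => chkS1_28
    | true, true => chkS1_29
  g2 := fun s p t => match s, p, t with
    | false, false, false => chkS1_30
    | false, false, true => chkS1_31
    | false, true, false => chkS1_32
    | false, true, true => chkS1_33
    | true, false, false => chkS1_34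
    | true, false, true => chkS1_35
    | true, true, false => chkS1_36
    | true, true, true => chkS1_37
  g3 := fun s p l t => match s, p, l, t with
    | false, false, false, false => chkS1_38
    | false, false, false, true => chkS1_39
    | false, false, true, false => chkS1_40
    | false, false, true, true => chkS1_41
    | false, true, false, false => chkS1_42
    | false, true, false, true => chkS1_43
    | false, true, true, false => chkS1_44
    | false, true, true, true => chkS1_45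
    | true, false, false, false => chkS1_46
    | true, false, false, true => chkS1_47
    | true, false, true, false => chkS1_48
    | true, false, true, true => chkS1_49
    | true, true, false, false => chkS1_50
    | true, true, false, true => chkS1_51
    | true, true, true, false => chkS1_52
    | true, true, true, true => chkS1_53
  cMG := chkS1_54
  c2 := fun s => match s with
    | false => chkS1_55
    | true => chkS1_56
  c3 := fun s => match s with
    | false => chkS1_57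
    | true => chkS1_58
  sT := fun p => match p with
    | false => chkS1_59
    | true => chkS1_60
  bnd := fun ze b => match ze, b with
    | false, .l0 => chkS1_0
    | false, .l1 => chkS1_1
    | false, .r => chkS1_2
    | false, .g0 => chkS1_3
    | false, .g1 => chkS1_4
    | false, .t0 => chkS1_5
    | false, .t1 => chkS1_6
    | false, .w0 => chkS1_7
    | false, .w1 => chkS1_8
    | true, .l0 => chkS1_9
    | true, .l1 => chkS1_10
    | true, .r => chkS1_11
    | true, .g0 => chkS1_12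
    | true, .g1 => chkS1_13
    | true, .t0 => chkS1_14
    | true, .t1 => chkS1_15
    | true, .w0 => chkS1_16
    | true, .w1 => chkS1_17
  gap := fun ze t => match ze, t with
    | false, false => chkS1_61
    | false, true => chkS1_62
    | true, false => chkS1_63
    | true, true => chkS1_64

/-- A window of piece 1. -/
def winS1L : Win := ⟨.A, (50, 143, 1000), (0, 237, 250), (-58, 47, 100), (47, 311, 100), (311, 17100, 100), (5, 9, 20), false, false, (82, -50), (607, 1000)⟩

/-- The window passes. -/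
theorem winS1L_ok : winS1L.Cert where
  fits := ⟨by norm_num [winS1L], by norm_num [winS1L, qLo], by norm_num [winS1L, qLo, qHi],
    by norm_num [winS1L, qLo, qHi], by norm_num [winS1L, qLo], by norm_num [winS1L, qHi]⟩
  cross := ⟨265, 9, 6, 2, 7, by decide +kernel⟩
  exit := ⟨286, 12, 7, 3, 8, by decide +kernel⟩
  mix := ⟨365, 14, 9, 3, 11, by decide +kernel⟩

/-- The tight band is crossed one way on piece 1. -/
theorem bandS1 : Chk (winS1L.chart (44, 45, 100) winS1L.qc) (sBand winS1L.kind) :=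
  ⟨489, 17, 11, 3, 14, by decide +kernel⟩

end Vale.Agent.P100.Calib.StripMid
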