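import Vale.Agent.P100.Calib.SlabStripMidSevWindow

/-!
# The checks of piece 10 below 153/200 for `N` between seven and twenty
-/

set_option linter.defProp false

namespace Vale.Agent.P100.Calib.StripMid

open Pack

/-- The numbers of piece 10. -/
def pcS10 : Piece := ⟨.D, (1, 10), (1, 4), (53, 100), (-24, 25), (467, 100), (751, 500), (917, 500), (122, 125), (943, -600, 1000), (254, -75, 250), 152, (313,475,900,5), (1593, 1000), (1881, 1000), (7, 20), (3, 5), (3, 2)⟩

/-- The ranges of piece 10. -/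
def boxS10 : Box := ⟨(5, 13, 100), (12, 21, 100), (-12, 57, 50), (-96, 467, 100), (2, 5, 20)⟩

def grpS10_0 : ([bound pcS10 false .l0,
    bound pcS10 false .l1,
    bound pcS10 false .r,
    bound pcS10 true .l0,
    bound pcS10 true .l1,
    bound pcS10 true .r].all
    (checkFour (boxS10.cC) 228 13 9 2 3)) = true := by decide +kernel
def chkS10_0 : Chk (boxS10.cC) (bound pcS10 false .l0) :=
  ⟨228, 13, 9, 2, 3, List.all_eq_true.1 grpS10_0 _ (.head _)⟩
def chkS10_1 : Chk (boxS10.cC) (bound pcS10 false .l1) :=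
  ⟨228, 13, 9, 2, 3, List.all_eq_true.1 grpS10_0 _ (.tail _ (.head _))⟩
def chkS10_2 : Chk (boxS10.cC) (bound pcS10 false .r) :=
  ⟨228, 13, 9, 2, 3, List.all_eq_true.1 grpS10_0 _ (.tail _ (.tail _ (.head _)))⟩
def chkS10_9 : Chk (boxS10.cC) (bound pcS10 true .l0) :=
  ⟨228, 13, 9, 2, 3, List.all_eq_true.1 grpS10_0 _ (.tail _ (.tail _ (.tail _ (.head _))))⟩
def chkS10_10 : Chk (boxS10.cC) (bound pcS10 true .l1) :=
  ⟨228, 13, 9, 2, 3, List.all_eq_true.1 grpS10_0 _ (.tail _ (.tail _ (.tail _ (.tail _ (.head _)))))⟩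
def chkS10_11 : Chk (boxS10.cC) (bound pcS10 true .r) :=
  ⟨228, 13, 9, 2, 3, List.all_eq_true.1 grpS10_0 _ (.tail _ (.tail _ (.tail _ (.tail _ (.tail _ (.head _))))))⟩
def grpS10_1 : ([bound pcS10 false .g0,
    bound pcS10 false .g1,
    bound pcS10 true .g0,
    bound pcS10 true .g1].all
    (checkFour (boxS10.cC) 94 4 3 1 2)) = true := by decide +kernel
def chkS10_3 : Chk (boxS10.cC) (bound pcS10 false .g0) :=
  ⟨94, 4, 3, 1, 2, List.all_eq_true.1 grpS10_1 _ (.head _)⟩
def chkS10_4 : Chk (boxS10.cC) (bound pcS10 false .g1) :=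
  ⟨94, 4, 3, 1, 2, List.all_eq_true.1 grpS10_1 _ (.tail _ (.head _))⟩
def chkS10_12 : Chk (boxS10.cC) (bound pcS10 true .g0) :=
  ⟨94, 4, 3, 1, 2, List.all_eq_true.1 grpS10_1 _ (.tail _ (.tail _ (.head _)))⟩
def chkS10_13 : Chk (boxS10.cC) (bound pcS10 true .g1) :=
  ⟨94, 4, 3, 1, 2, List.all_eq_true.1 grpS10_1 _ (.tail _ (.tail _ (.tail _ (.head _))))⟩
def grpS10_2 : ([bound pcS10 false .t0,
    bound pcS10 false .t1,
    bound pcS10 true .t0,
    bound pcS10 true .t1].all
    (checkFour (boxS10.cC) 145 6 6 2 3)) = true := by decide +kernel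
def chkS10_5 : Chk (boxS10.cC) (bound pcS10 false .t0) :=
  ⟨145, 6, 6, 2, 3, List.all_eq_true.1 grpS10_2 _ (.head _)⟩
def chkS10_6 : Chk (boxS10.cC) (bound pcS10 false .t1) :=
  ⟨145, 6, 6, 2, 3, List.all_eq_true.1 grpS10_2 _ (.tail _ (.head _))⟩
def chkS10_14 : Chk (boxS10.cC) (bound pcS10 true .t0) :=
  ⟨145, 6, 6, 2, 3, List.all_eq_true.1 grpS10_2 _ (.tail _ (.tail _ (.head _)))⟩
def chkS10_15 : Chk (boxS10.cC) (bound pcS10 true .t1) :=
  ⟨145, 6, 6, 2, 3, List.all_eq_true.1 grpS10_2 _ (.tail _ (.tail _ (.tail _ (.head _))))⟩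
def grpS10_3 : ([bound pcS10 false .w0,
    bound pcS10 false .w1,
    bound pcS10 true .w0,
    bound pcS10 true .w1].all
    (checkFour (boxS10.cC) 193 10 7 3 4)) = true := by decide +kernel
def chkS10_7 : Chk (boxS10.cC) (bound pcS10 false .w0) :=
  ⟨193, 10, 7, 3, 4, List.all_eq_true.1 grpS10_3 _ (.head _)⟩
def chkS10_8 : Chk (boxS10.cC) (bound pcS10 false .w1) :=
  ⟨193, 10, 7, 3, 4, List.all_eq_true.1 grpS10_3 _ (.tail _ (.head _))⟩
def chkS10_16 : Chk (boxS10.cC) (bound pcS10 true .w0) :=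
  ⟨193, 10, 7, 3, 4, List.all_eq_true.1 grpS10_3 _ (.tail _ (.tail _ (.head _)))⟩
def chkS10_17 : Chk (boxS10.cC) (bound pcS10 true .w1) :=
  ⟨193, 10, 7, 3, 4, List.all_eq_true.1 grpS10_3 _ (.tail _ (.tail _ (.tail _ (.head _))))⟩
def grpS10_4 : ([subst (sub pcS10 ⟨false, false, true, true, false⟩) (condX),
    subst (sub pcS10 ⟨false, true, true, true, false⟩) (condX),
    subst (sub pcS10 ⟨true, false, true, true, false⟩) (condX),
    subst (sub pcS10 ⟨true, true, true, true, false⟩) (condX)].all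
    (checkFour (boxS10.vC) 249 13 10 4 0)) = true := by decide +kernel
def chkS10_18 : Chk (boxS10.vC) (subst (sub pcS10 ⟨false, false, true, true, false⟩) (condX)) :=
  ⟨249, 13, 10, 4, 0, List.all_eq_true.1 grpS10_4 _ (.head _)⟩
def chkS10_19 : Chk (boxS10.vC) (subst (sub pcS10 ⟨false, true, true, true, false⟩) (condX)) :=
  ⟨249, 13, 10, 4, 0, List.all_eq_true.1 grpS10_4 _ (.tail _ (.head _))⟩
def chkS10_20 : Chk (boxS10.vC) (subst (sub pcS10 ⟨true, false, true, true, false⟩) (condX)) :=
  ⟨249, 13, 10, 4, 0, List.all_eq_true.1 grpS10_4 _ (.tail _ (.tail _ (.head _)))⟩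
def chkS10_21 : Chk (boxS10.vC) (subst (sub pcS10 ⟨true, true, true, true, false⟩) (condX)) :=
  ⟨249, 13, 10, 4, 0, List.all_eq_true.1 grpS10_4 _ (.tail _ (.tail _ (.tail _ (.head _))))⟩
def grpS10_5 : ([subst (sub pcS10 ⟨false, false, true, false, false⟩) (tplMG),
    subst (sub pcS10 ⟨false, true, true, false, false⟩) (tplMG),
    subst (sub pcS10 ⟨true, false, true, false, false⟩) (tplMG),
    subst (sub pcS10 ⟨true, true, true, false, false⟩) (tplMG)].all
    (checkFour (boxS10.vC) 476 26 20 6 0)) = true := by decide +kernel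
def chkS10_22 : Chk (boxS10.vC) (subst (sub pcS10 ⟨false, false, true, false, false⟩) (tplMG)) :=
  ⟨476, 26, 20, 6, 0, List.all_eq_true.1 grpS10_5 _ (.head _)⟩
def chkS10_23 : Chk (boxS10.vC) (subst (sub pcS10 ⟨false, true, true, false, false⟩) (tplMG)) :=
  ⟨476, 26, 20, 6, 0, List.all_eq_true.1 grpS10_5 _ (.tail _ (.head _))⟩
def chkS10_24 : Chk (boxS10.vC) (subst (sub pcS10 ⟨true, false, true, false, false⟩) (tplMG)) :=
  ⟨476, 26, 20, 6, 0, List.all_eq_true.1 grpS10_5 _ (.tail _ (.tail _ (.head _)))⟩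
def chkS10_25 : Chk (boxS10.vC) (subst (sub pcS10 ⟨true, true, true, false, false⟩) (tplMG)) :=
  ⟨476, 26, 20, 6, 0, List.all_eq_true.1 grpS10_5 _ (.tail _ (.tail _ (.tail _ (.head _))))⟩
def grpS10_6 : ([subst (sub pcS10 ⟨false, false, false, false, false⟩) (pcS10.m1),
    subst (sub pcS10 ⟨false, true, false, false, false⟩) (pcS10.m1),
    subst (sub pcS10 ⟨true, false, false, false, false⟩) (pcS10.m1),
    subst (sub pcS10 ⟨true, true, false, false, false⟩) (pcS10.m1)].all
    (checkFour (boxS10.vC) 328 17 14 4 0)) = true := by decide +kernel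
def chkS10_26 : Chk (boxS10.vC) (subst (sub pcS10 ⟨false, false, false, false, false⟩) (pcS10.m1)) :=
  ⟨328, 17, 14, 4, 0, List.all_eq_true.1 grpS10_6 _ (.head _)⟩
def chkS10_27 : Chk (boxS10.vC) (subst (sub pcS10 ⟨false, true, false, false, false⟩) (pcS10.m1)) :=
  ⟨328, 17, 14, 4, 0, List.all_eq_true.1 grpS10_6 _ (.tail _ (.head _))⟩
def chkS10_28 : Chk (boxS10.vC) (subst (sub pcS10 ⟨true, false, false, false, false⟩) (pcS10.m1)) :=
  ⟨328, 17, 14, 4, 0, List.all_eq_true.1 grpS10_6 _ (.tail _ (.tail _ (.head _)))⟩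
def chkS10_29 : Chk (boxS10.vC) (subst (sub pcS10 ⟨true, true, false, false, false⟩) (pcS10.m1)) :=
  ⟨328, 17, 14, 4, 0, List.all_eq_true.1 grpS10_6 _ (.tail _ (.tail _ (.tail _ (.head _))))⟩
def chkS10_30 : Chk (boxS10.vC) (subst (sub pcS10 ⟨false, false, true, false, false⟩) (strict (pcS10.m2 false))) :=
  ⟨511, 24, 19, 6, 0, by decide +kernel⟩
def chkS10_31 : Chk (boxS10.vC) (subst (sub pcS10 ⟨false, false, true, false, true⟩) (strict (pcS10.m2 false))) :=
  ⟨507, 24, 19, 6, 0, by decide +kernel⟩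
def chkS10_32 : Chk (boxS10.vC) (subst (sub pcS10 ⟨true, false, true, false, false⟩) (strict (pcS10.m2 false))) :=
  ⟨511, 24, 19, 6, 0, by decide +kernel⟩
def chkS10_33 : Chk (boxS10.vC) (subst (sub pcS10 ⟨true, false, true, false, true⟩) (strict (pcS10.m2 false))) :=
  ⟨507, 24, 19, 6, 0, by decide +kernel⟩
def chkS10_34 : Chk (boxS10.vC) (subst (sub pcS10 ⟨false, true, true, false, false⟩) (strict (pcS10.m2 true))) :=
  ⟨512, 24, 19, 6, 0, by decide +kernel⟩
def chkS10_35 : Chk (boxS10.vC) (subst (sub pcS10 ⟨false, true, true, false, true⟩) (strict (pcS10.m2 true))) :=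
  ⟨508, 24, 19, 6, 0, by decide +kernel⟩
def chkS10_36 : Chk (boxS10.vC) (subst (sub pcS10 ⟨true, true, true, false, false⟩) (strict (pcS10.m2 true))) :=
  ⟨512, 24, 19, 6, 0, by decide +kernel⟩
def chkS10_37 : Chk (boxS10.vC) (subst (sub pcS10 ⟨true, true, true, false, true⟩) (strict (pcS10.m2 true))) :=
  ⟨508, 24, 19, 6, 0, by decide +kernel⟩
def grpS10_15 : ([subst (sub pcS10 ⟨false, false, true, true, false⟩) (strict (pcS10.m3 false)),
    subst (sub pcS10 ⟨false, false, true, true, true⟩) (strict (pcS10.m3 false)),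
    subst (sub pcS10 ⟨false, false, true, true, false⟩) (strict (pcS10.m3 true)),
    subst (sub pcS10 ⟨false, false, true, true, true⟩) (strict (pcS10.m3 true))].all
    (checkFour (boxS10.vC) 636 31 25 6 0)) = true := by decide +kernel
def chkS10_38 : Chk (boxS10.vC) (subst (sub pcS10 ⟨false, false, true, true, false⟩) (strict (pcS10.m3 false))) :=
  ⟨636, 31, 25, 6, 0, List.all_eq_true.1 grpS10_15 _ (.head _)⟩
def chkS10_39 : Chk (boxS10.vC) (subst (sub pcS10 ⟨false, false, true, true, true⟩) (strict (pcS10.m3 false))) :=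
  ⟨636, 31, 25, 6, 0, List.all_eq_true.1 grpS10_15 _ (.tail _ (.head _))⟩
def chkS10_46 : Chk (boxS10.vC) (subst (sub pcS10 ⟨false, false, true, true, false⟩) (strict (pcS10.m3 true))) :=
  ⟨636, 31, 25, 6, 0, List.all_eq_true.1 grpS10_15 _ (.tail _ (.tail _ (.head _)))⟩
def chkS10_47 : Chk (boxS10.vC) (subst (sub pcS10 ⟨false, false, true, true, true⟩) (strict (pcS10.m3 true))) :=
  ⟨636, 31, 25, 6, 0, List.all_eq_true.1 grpS10_15 _ (.tail _ (.tail _ (.tail _ (.head _))))⟩
def grpS10_16 : ([subst (sub pcS10 ⟨false, true, true, true, false⟩) (strict (pcS10.m3 false)),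
    subst (sub pcS10 ⟨false, true, true, true, true⟩) (strict (pcS10.m3 false)),
    subst (sub pcS10 ⟨false, true, true, true, false⟩) (strict (pcS10.m3 true)),
    subst (sub pcS10 ⟨false, true, true, true, true⟩) (strict (pcS10.m3 true))].all
    (checkFour (boxS10.vC) 637 31 25 6 0)) = true := by decide +kernel
def chkS10_40 : Chk (boxS10.vC) (subst (sub pcS10 ⟨false, true, true, true, false⟩) (strict (pcS10.m3 false))) :=
  ⟨637, 31, 25, 6, 0, List.all_eq_true.1 grpS10_16 _ (.head _)⟩
def chkS10_41 : Chk (boxS10.vC) (subst (sub pcS10 ⟨false, true, true, true, true⟩) (strict (pcS10.m3 false))) :=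
  ⟨637, 31, 25, 6, 0, List.all_eq_true.1 grpS10_16 _ (.tail _ (.head _))⟩
def chkS10_48 : Chk (boxS10.vC) (subst (sub pcS10 ⟨false, true, true, true, false⟩) (strict (pcS10.m3 true))) :=
  ⟨637, 31, 25, 6, 0, List.all_eq_true.1 grpS10_16 _ (.tail _ (.tail _ (.head _)))⟩
def chkS10_49 : Chk (boxS10.vC) (subst (sub pcS10 ⟨false, true, true, true, true⟩) (strict (pcS10.m3 true))) :=
  ⟨637, 31, 25, 6, 0, List.all_eq_true.1 grpS10_16 _ (.tail _ (.tail _ (.tail _ (.head _))))⟩
def grpS10_17 : ([subst (sub pcS10 ⟨true, false, true, true, false⟩) (strict (pcS10.m3 false)),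
    subst (sub pcS10 ⟨true, false, true, true, true⟩) (strict (pcS10.m3 false)),
    subst (sub pcS10 ⟨true, false, true, true, false⟩) (strict (pcS10.m3 true)),
    subst (sub pcS10 ⟨true, false, true, true, true⟩) (strict (pcS10.m3 true))].all
    (checkFour (boxS10.vC) 636 31 25 6 0)) = true := by decide +kernel
def chkS10_42 : Chk (boxS10.vC) (subst (sub pcS10 ⟨true, false, true, true, false⟩) (strict (pcS10.m3 false))) :=
  ⟨636, 31, 25, 6, 0, List.all_eq_true.1 grpS10_17 _ (.head _)⟩
def chkS10_43 : Chk (boxS10.vC) (subst (sub pcS10 ⟨true, false, true, true, true⟩) (strict (pcS10.m3 false))) :=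
  ⟨636, 31, 25, 6, 0, List.all_eq_true.1 grpS10_17 _ (.tail _ (.head _))⟩
def chkS10_50 : Chk (boxS10.vC) (subst (sub pcS10 ⟨true, false, true, true, false⟩) (strict (pcS10.m3 true))) :=
  ⟨636, 31, 25, 6, 0, List.all_eq_true.1 grpS10_17 _ (.tail _ (.tail _ (.head _)))⟩
def chkS10_51 : Chk (boxS10.vC) (subst (sub pcS10 ⟨true, false, true, true, true⟩) (strict (pcS10.m3 true))) :=
  ⟨636, 31, 25, 6, 0, List.all_eq_true.1 grpS10_17 _ (.tail _ (.tail _ (.tail _ (.head _))))⟩
def grpS10_18 : ([subst (sub pcS10 ⟨true, true, true, true, false⟩) (strict (pcS10.m3 false)),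
    subst (sub pcS10 ⟨true, true, true, true, true⟩) (strict (pcS10.m3 false)),
    subst (sub pcS10 ⟨true, true, true, true, false⟩) (strict (pcS10.m3 true)),
    subst (sub pcS10 ⟨true, true, true, true, true⟩) (strict (pcS10.m3 true))].all
    (checkFour (boxS10.vC) 637 31 25 6 0)) = true := by decide +kernel
def chkS10_44 : Chk (boxS10.vC) (subst (sub pcS10 ⟨true, true, true, true, false⟩) (strict (pcS10.m3 false))) :=
  ⟨637, 31, 25, 6, 0, List.all_eq_true.1 grpS10_18 _ (.head _)⟩
def chkS10_45 : Chk (boxS10.vC) (subst (sub pcS10 ⟨true, true, true, true, true⟩) (strict (pcS10.m3 false))) :=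
  ⟨637, 31, 25, 6, 0, List.all_eq_true.1 grpS10_18 _ (.tail _ (.head _))⟩
def chkS10_52 : Chk (boxS10.vC) (subst (sub pcS10 ⟨true, true, true, true, false⟩) (strict (pcS10.m3 true))) :=
  ⟨637, 31, 25, 6, 0, List.all_eq_true.1 grpS10_18 _ (.tail _ (.tail _ (.head _)))⟩
def chkS10_53 : Chk (boxS10.vC) (subst (sub pcS10 ⟨true, true, true, true, true⟩) (strict (pcS10.m3 true))) :=
  ⟨637, 31, 25, 6, 0, List.all_eq_true.1 grpS10_18 _ (.tail _ (.tail _ (.tail _ (.head _))))⟩
def grpS10_19 : ([subst (sub pcS10 ⟨false, false, true, true, false⟩) (negEx coMG12),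
    subst (sub pcS10 ⟨false, false, true, true, false⟩) (negEx (pcS10.curve2 false)),
    subst (sub pcS10 ⟨false, false, true, true, false⟩) (negEx (pcS10.curve2 true))].all
    (checkFour (boxS10.vC) 114 5 5 4 0)) = true := by decide +kernel
def chkS10_54 : Chk (boxS10.vC) (subst (sub pcS10 ⟨false, false, true, true, false⟩) (negEx coMG12)) :=
  ⟨114, 5, 5, 4, 0, List.all_eq_true.1 grpS10_19 _ (.head _)⟩
def chkS10_55 : Chk (boxS10.vC) (subst (sub pcS10 ⟨false, false, true, true, false⟩) (negEx (pcS10.curve2 false))) :=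
  ⟨114, 5, 5, 4, 0, List.all_eq_true.1 grpS10_19 _ (.tail _ (.head _))⟩
def chkS10_56 : Chk (boxS10.vC) (subst (sub pcS10 ⟨false, false, true, true, false⟩) (negEx (pcS10.curve2 true))) :=
  ⟨114, 5, 5, 4, 0, List.all_eq_true.1 grpS10_19 _ (.tail _ (.tail _ (.head _)))⟩
def grpS10_20 : ([subst (sub pcS10 ⟨false, false, true, true, false⟩) (negEx (pcS10.curve3 false)),
    subst (sub pcS10 ⟨false, false, true, true, false⟩) (negEx (pcS10.curve3 true))].all
    (checkFour (boxS10.vC) 128 6 6 4 0)) = true := by decide +kernel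
def chkS10_57 : Chk (boxS10.vC) (subst (sub pcS10 ⟨false, false, true, true, false⟩) (negEx (pcS10.curve3 false))) :=
  ⟨128, 6, 6, 4, 0, List.all_eq_true.1 grpS10_20 _ (.head _)⟩
def chkS10_58 : Chk (boxS10.vC) (subst (sub pcS10 ⟨false, false, true, true, false⟩) (negEx (pcS10.curve3 true))) :=
  ⟨128, 6, 6, 4, 0, List.all_eq_true.1 grpS10_20 _ (.tail _ (.head _))⟩
def grpS10_21 : ([subst (sub pcS10 ⟨false, false, true, true, false⟩) (slopeT),
    subst (sub pcS10 ⟨true, false, true, true, false⟩) (slopeT)].all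
    (checkFour (boxS10.vC) 141 7 6 4 0)) = true := by decide +kernel
def chkS10_59 : Chk (boxS10.vC) (subst (sub pcS10 ⟨false, false, true, true, false⟩) (slopeT)) :=
  ⟨141, 7, 6, 4, 0, List.all_eq_true.1 grpS10_21 _ (.head _)⟩
def chkS10_60 : Chk (boxS10.vC) (subst (sub pcS10 ⟨true, false, true, true, false⟩) (slopeT)) :=
  ⟨141, 7, 6, 4, 0, List.all_eq_true.1 grpS10_21 _ (.tail _ (.head _))⟩
def grpS10_22 : ([subst (gapSub pcS10 true false false) tplL,
    subst (gapSub pcS10 true false true) tplL,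
    subst (gapSub pcS10 true true false) tplL,
    subst (gapSub pcS10 true true true) tplL].all
    (checkFour (boxS10.gC true) 379 22 17 5 2)) = true := by decide +kernel
def chkS10_61 : Chk (boxS10.gC true) (subst (gapSub pcS10 true false false) tplL) :=
  ⟨379, 22, 17, 5, 2, List.all_eq_true.1 grpS10_22 _ (.head _)⟩
def chkS10_62 : Chk (boxS10.gC true) (subst (gapSub pcS10 true false true) tplL) :=
  ⟨379, 22, 17, 5, 2, List.all_eq_true.1 grpS10_22 _ (.tail _ (.head _))⟩
def chkS10_63 : Chk (boxS10.gC true) (subst (gapSub pcS10 true true false) tplL) :=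
  ⟨379, 22, 17, 5, 2, List.all_eq_true.1 grpS10_22 _ (.tail _ (.tail _ (.head _)))⟩
def chkS10_64 : Chk (boxS10.gC true) (subst (gapSub pcS10 true true true) tplL) :=
  ⟨379, 22, 17, 5, 2, List.all_eq_true.1 grpS10_22 _ (.tail _ (.tail _ (.tail _ (.head _))))⟩

/-- Piece 10 passes. -/
theorem certS10 : Cert pcS10 boxS10 true where
  pos := by
    refine ⟨⟨⟨?_, ?_, ?_, ?_, ?_, ?_, ?_⟩, ?_, ?_, ?_, ?_, ?_, ?_, ?_, ?_, ?_, ?_, ?_⟩, ?_, ?_⟩ <;>
      norm_num [fr, pcS10]
  gX := fun p l => match p, l with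
    | false, false => chkS10_18
    | false, true => chkS10_19
    | true, false => chkS10_20
    | true, true => chkS10_21
  gMG := fun p l => match p, l with
    | false, false => chkS10_22
    | false, true => chkS10_23
    | true, false => chkS10_24
    | true, true => chkS10_25
  g1 := fun p l => match p, l with
    | false, false => chkS10_26
    | false, true => chkS10_27
    | true, false => chkS10_28
    | true, true => chkS10_29
  g2 := fun s p t => match s, p, t with
    | false, false, false => chkS10_30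
    | false, false, true => chkS10_31
    | false, true, false => chkS10_32
    | false, true, true => chkS10_33
    | true, false, false => chkS10_34
    | true, false, true => chkS10_35
    | true, true, false => chkS10_36
    | true, true, true => chkS10_37
  g3 := fun s p l t => match s, p, l, t with
    | false, false, false, false => chkS10_38
    | false, false, false, true => chkS10_39
    | false, false, true, false => chkS10_40
    | false, false, true, true => chkS10_41
    | false, true, false, false => chkS10_42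
    | false, true, false, true => chkS10_43
    | false, true, true, false => chkS10_44
    | false, true, true, true => chkS10_45
    | true, false, false, false => chkS10_46
    | true, false, false, true => chkS10_47
    | true, false, true, false => chkS10_48
    | true, false, true, true => chkS10_49
    | true, true, false, false => chkS10_50
    | true, true, false, true => chkS10_51
    | true, true, true, false => chkS10_52
    | true, true, true, true => chkS10_53
  cMG := chkS10_54
  c2 := fun s => match s with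
    | false => chkS10_55
    | true => chkS10_56
  c3 := fun s => match s with
    | false => chkS10_57
    | true => chkS10_58
  sT := fun p => match p with
    | false => chkS10_59
    | true => chkS10_60
  bnd := fun ze b => match ze, b with
    | false, .l0 => chkS10_0
    | false, .l1 => chkS10_1
    | false, .r => chkS10_2
    | false, .g0 => chkS10_3
    | false, .g1 => chkS10_4
    | false, .t0 => chkS10_5
    | false, .t1 => chkS10_6
    | false, .w0 => chkS10_7
    | false, .w1 => chkS10_8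
    | true, .l0 => chkS10_9
    | true, .l1 => chkS10_10
    | true, .r => chkS10_11
    | true, .g0 => chkS10_12
    | true, .g1 => chkS10_13
    | true, .t0 => chkS10_14
    | true, .t1 => chkS10_15
    | true, .w0 => chkS10_16
    | true, .w1 => chkS10_17
  gap := fun ze t => match ze, t with
    | false, false => chkS10_61
    | false, true => chkS10_62
    | true, false => chkS10_63
    | true, true => chkS10_64

/-- A window of piece 10. -/
def winS10L : Win := ⟨.D, (5, 13, 100), (12, 21, 100), (-143, -96, 100), (-96, 467, 100), (467, 47300, 100), (2, 5, 20), false, false, (98, -100), (495, 1000)⟩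

/-- The window passes. -/
theorem winS10L_ok : winS10L.Cert where
  fits := ⟨by norm_num [winS10L], by norm_num [winS10L, qLo], by norm_num [winS10L, qLo, qHi],
    by norm_num [winS10L, qLo, qHi], by norm_num [winS10L, qLo], by norm_num [winS10L, qHi]⟩
  cross := ⟨218, 8, 6, 2, 7, by decide +kernel⟩
  exit := ⟨221, 10, 7, 3, 8, by decide +kernel⟩
  mix := ⟨289, 12, 9, 3, 11, by decide +kernel⟩

end Vale.Agent.P100.Calib.StripMid
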