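import Vale.Agent.P100.Calib.SlabStripMidSevWindow

/-!
# The checks of piece 11 below 153/200 for `N` between seven and twenty
-/

set_option linter.defProp false

namespace Vale.Agent.P100.Calib.StripMid

open Pack

/-- The numbers of piece 11. -/
def pcS11 : Piece := ⟨.D, (1, 10), (1, 4), (47, 100), (-18, 25), (103, 25), (301, 200), (1827, 1000), (49, 50), (933, -450, 1000), (492, -75, 500), 92, (487,330,1200,10), (331, 200), (237, 125), (3, 10), (2, 5), (7, 5)⟩

/-- The ranges of piece 11. -/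
def boxS11 : Box := ⟨(10, 17, 200), (21, 28, 100), (-8, 43, 50), (-18, 103, 25), (2, 5, 20)⟩

def grpS11_0 : ([bound pcS11 false .l0,
    bound pcS11 false .l1,
    bound pcS11 false .r,
    bound pcS11 true .l0,
    bound pcS11 true .l1,
    bound pcS11 true .r].all
    (checkFour (boxS11.cC) 238 13 9 2 3)) = true := by decide +kernel
def chkS11_0 : Chk (boxS11.cC) (bound pcS11 false .l0) :=
  ⟨238, 13, 9, 2, 3, List.all_eq_true.1 grpS11_0 _ (.head _)⟩
def chkS11_1 : Chk (boxS11.cC) (bound pcS11 false .l1) :=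
  ⟨238, 13, 9, 2, 3, List.all_eq_true.1 grpS11_0 _ (.tail _ (.head _))⟩
def chkS11_2 : Chk (boxS11.cC) (bound pcS11 false .r) :=
  ⟨238, 13, 9, 2, 3, List.all_eq_true.1 grpS11_0 _ (.tail _ (.tail _ (.head _)))⟩
def chkS11_9 : Chk (boxS11.cC) (bound pcS11 true .l0) :=
  ⟨238, 13, 9, 2, 3, List.all_eq_true.1 grpS11_0 _ (.tail _ (.tail _ (.tail _ (.head _))))⟩
def chkS11_10 : Chk (boxS11.cC) (bound pcS11 true .l1) :=
  ⟨238, 13, 9, 2, 3, List.all_eq_true.1 grpS11_0 _ (.tail _ (.tail _ (.tail _ (.tail _ (.head _)))))⟩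
def chkS11_11 : Chk (boxS11.cC) (bound pcS11 true .r) :=
  ⟨238, 13, 9, 2, 3, List.all_eq_true.1 grpS11_0 _ (.tail _ (.tail _ (.tail _ (.tail _ (.tail _ (.head _))))))⟩
def grpS11_1 : ([bound pcS11 false .g0,
    bound pcS11 false .g1,
    bound pcS11 true .g0,
    bound pcS11 true .g1].all
    (checkFour (boxS11.cC) 93 4 3 1 2)) = true := by decide +kernel
def chkS11_3 : Chk (boxS11.cC) (bound pcS11 false .g0) :=
  ⟨93, 4, 3, 1, 2, List.all_eq_true.1 grpS11_1 _ (.head _)⟩
def chkS11_4 : Chk (boxS11.cC) (bound pcS11 false .g1) :=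
  ⟨93, 4, 3, 1, 2, List.all_eq_true.1 grpS11_1 _ (.tail _ (.head _))⟩
def chkS11_12 : Chk (boxS11.cC) (bound pcS11 true .g0) :=
  ⟨93, 4, 3, 1, 2, List.all_eq_true.1 grpS11_1 _ (.tail _ (.tail _ (.head _)))⟩
def chkS11_13 : Chk (boxS11.cC) (bound pcS11 true .g1) :=
  ⟨93, 4, 3, 1, 2, List.all_eq_true.1 grpS11_1 _ (.tail _ (.tail _ (.tail _ (.head _))))⟩
def grpS11_2 : ([bound pcS11 false .t0,
    bound pcS11 false .t1,
    bound pcS11 true .t0,
    bound pcS11 true .t1].all
    (checkFour (boxS11.cC) 147 6 6 2 3)) = true := by decide +kernel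
def chkS11_5 : Chk (boxS11.cC) (bound pcS11 false .t0) :=
  ⟨147, 6, 6, 2, 3, List.all_eq_true.1 grpS11_2 _ (.head _)⟩
def chkS11_6 : Chk (boxS11.cC) (bound pcS11 false .t1) :=
  ⟨147, 6, 6, 2, 3, List.all_eq_true.1 grpS11_2 _ (.tail _ (.head _))⟩
def chkS11_14 : Chk (boxS11.cC) (bound pcS11 true .t0) :=
  ⟨147, 6, 6, 2, 3, List.all_eq_true.1 grpS11_2 _ (.tail _ (.tail _ (.head _)))⟩
def chkS11_15 : Chk (boxS11.cC) (bound pcS11 true .t1) :=
  ⟨147, 6, 6, 2, 3, List.all_eq_true.1 grpS11_2 _ (.tail _ (.tail _ (.tail _ (.head _))))⟩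
def grpS11_3 : ([bound pcS11 false .w0,
    bound pcS11 false .w1,
    bound pcS11 true .w0,
    bound pcS11 true .w1].all
    (checkFour (boxS11.cC) 198 10 7 3 4)) = true := by decide +kernel
def chkS11_7 : Chk (boxS11.cC) (bound pcS11 false .w0) :=
  ⟨198, 10, 7, 3, 4, List.all_eq_true.1 grpS11_3 _ (.head _)⟩
def chkS11_8 : Chk (boxS11.cC) (bound pcS11 false .w1) :=
  ⟨198, 10, 7, 3, 4, List.all_eq_true.1 grpS11_3 _ (.tail _ (.head _))⟩
def chkS11_16 : Chk (boxS11.cC) (bound pcS11 true .w0) :=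
  ⟨198, 10, 7, 3, 4, List.all_eq_true.1 grpS11_3 _ (.tail _ (.tail _ (.head _)))⟩
def chkS11_17 : Chk (boxS11.cC) (bound pcS11 true .w1) :=
  ⟨198, 10, 7, 3, 4, List.all_eq_true.1 grpS11_3 _ (.tail _ (.tail _ (.tail _ (.head _))))⟩
def grpS11_4 : ([subst (sub pcS11 ⟨false, false, true, true, false⟩) (condX),
    subst (sub pcS11 ⟨false, true, true, true, false⟩) (condX),
    subst (sub pcS11 ⟨true, false, true, true, false⟩) (condX),
    subst (sub pcS11 ⟨true, true, true, true, false⟩) (condX)].all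
    (checkFour (boxS11.vC) 262 13 10 4 0)) = true := by decide +kernel
def chkS11_18 : Chk (boxS11.vC) (subst (sub pcS11 ⟨false, false, true, true, false⟩) (condX)) :=
  ⟨262, 13, 10, 4, 0, List.all_eq_true.1 grpS11_4 _ (.head _)⟩
def chkS11_19 : Chk (boxS11.vC) (subst (sub pcS11 ⟨false, true, true, true, false⟩) (condX)) :=
  ⟨262, 13, 10, 4, 0, List.all_eq_true.1 grpS11_4 _ (.tail _ (.head _))⟩
def chkS11_20 : Chk (boxS11.vC) (subst (sub pcS11 ⟨true, false, true, true, false⟩) (condX)) :=
  ⟨262, 13, 10, 4, 0, List.all_eq_true.1 grpS11_4 _ (.tail _ (.tail _ (.head _)))⟩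
def chkS11_21 : Chk (boxS11.vC) (subst (sub pcS11 ⟨true, true, true, true, false⟩) (condX)) :=
  ⟨262, 13, 10, 4, 0, List.all_eq_true.1 grpS11_4 _ (.tail _ (.tail _ (.tail _ (.head _))))⟩
def grpS11_5 : ([subst (sub pcS11 ⟨false, false, true, false, false⟩) (tplMG),
    subst (sub pcS11 ⟨false, true, true, false, false⟩) (tplMG),
    subst (sub pcS11 ⟨true, false, true, false, false⟩) (tplMG),
    subst (sub pcS11 ⟨true, true, true, false, false⟩) (tplMG)].all
    (checkFour (boxS11.vC) 503 26 20 6 0)) = true := by decide +kernel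
def chkS11_22 : Chk (boxS11.vC) (subst (sub pcS11 ⟨false, false, true, false, false⟩) (tplMG)) :=
  ⟨503, 26, 20, 6, 0, List.all_eq_true.1 grpS11_5 _ (.head _)⟩
def chkS11_23 : Chk (boxS11.vC) (subst (sub pcS11 ⟨false, true, true, false, false⟩) (tplMG)) :=
  ⟨503, 26, 20, 6, 0, List.all_eq_true.1 grpS11_5 _ (.tail _ (.head _))⟩
def chkS11_24 : Chk (boxS11.vC) (subst (sub pcS11 ⟨true, false, true, false, false⟩) (tplMG)) :=
  ⟨503, 26, 20, 6, 0, List.all_eq_true.1 grpS11_5 _ (.tail _ (.tail _ (.head _)))⟩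
def chkS11_25 : Chk (boxS11.vC) (subst (sub pcS11 ⟨true, true, true, false, false⟩) (tplMG)) :=
  ⟨503, 26, 20, 6, 0, List.all_eq_true.1 grpS11_5 _ (.tail _ (.tail _ (.tail _ (.head _))))⟩
def grpS11_6 : ([subst (sub pcS11 ⟨false, false, false, false, false⟩) (pcS11.m1),
    subst (sub pcS11 ⟨false, true, false, false, false⟩) (pcS11.m1),
    subst (sub pcS11 ⟨true, false, false, false, false⟩) (pcS11.m1),
    subst (sub pcS11 ⟨true, true, false, false, false⟩) (pcS11.m1)].all
    (checkFour (boxS11.vC) 342 17 14 4 0)) = true := by decide +kernel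
def chkS11_26 : Chk (boxS11.vC) (subst (sub pcS11 ⟨false, false, false, false, false⟩) (pcS11.m1)) :=
  ⟨342, 17, 14, 4, 0, List.all_eq_true.1 grpS11_6 _ (.head _)⟩
def chkS11_27 : Chk (boxS11.vC) (subst (sub pcS11 ⟨false, true, false, false, false⟩) (pcS11.m1)) :=
  ⟨342, 17, 14, 4, 0, List.all_eq_true.1 grpS11_6 _ (.tail _ (.head _))⟩
def chkS11_28 : Chk (boxS11.vC) (subst (sub pcS11 ⟨true, false, false, false, false⟩) (pcS11.m1)) :=
  ⟨342, 17, 14, 4, 0, List.all_eq_true.1 grpS11_6 _ (.tail _ (.tail _ (.head _)))⟩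
def chkS11_29 : Chk (boxS11.vC) (subst (sub pcS11 ⟨true, true, false, false, false⟩) (pcS11.m1)) :=
  ⟨342, 17, 14, 4, 0, List.all_eq_true.1 grpS11_6 _ (.tail _ (.tail _ (.tail _ (.head _))))⟩
def chkS11_30 : Chk (boxS11.vC) (subst (sub pcS11 ⟨false, false, true, false, false⟩) (strict (pcS11.m2 false))) :=
  ⟨535, 24, 19, 6, 0, by decide +kernel⟩
def chkS11_31 : Chk (boxS11.vC) (subst (sub pcS11 ⟨false, false, true, false, true⟩) (strict (pcS11.m2 false))) :=
  ⟨533, 24, 19, 6, 0, by decide +kernel⟩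
def chkS11_32 : Chk (boxS11.vC) (subst (sub pcS11 ⟨true, false, true, false, false⟩) (strict (pcS11.m2 false))) :=
  ⟨535, 24, 19, 6, 0, by decide +kernel⟩
def chkS11_33 : Chk (boxS11.vC) (subst (sub pcS11 ⟨true, false, true, false, true⟩) (strict (pcS11.m2 false))) :=
  ⟨533, 24, 19, 6, 0, by decide +kernel⟩
def chkS11_34 : Chk (boxS11.vC) (subst (sub pcS11 ⟨false, true, true, false, false⟩) (strict (pcS11.m2 true))) :=
  ⟨537, 24, 19, 6, 0, by decide +kernel⟩
def chkS11_35 : Chk (boxS11.vC) (subst (sub pcS11 ⟨false, true, true, false, true⟩) (strict (pcS11.m2 true))) :=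
  ⟨535, 24, 19, 6, 0, by decide +kernel⟩
def chkS11_36 : Chk (boxS11.vC) (subst (sub pcS11 ⟨true, true, true, false, false⟩) (strict (pcS11.m2 true))) :=
  ⟨537, 24, 19, 6, 0, by decide +kernel⟩
def chkS11_37 : Chk (boxS11.vC) (subst (sub pcS11 ⟨true, true, true, false, true⟩) (strict (pcS11.m2 true))) :=
  ⟨535, 24, 19, 6, 0, by decide +kernel⟩
def grpS11_15 : ([subst (sub pcS11 ⟨false, false, true, true, false⟩) (strict (pcS11.m3 false)),
    subst (sub pcS11 ⟨false, false, true, true, true⟩) (strict (pcS11.m3 false)),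
    subst (sub pcS11 ⟨false, false, true, true, false⟩) (strict (pcS11.m3 true)),
    subst (sub pcS11 ⟨false, false, true, true, true⟩) (strict (pcS11.m3 true))].all
    (checkFour (boxS11.vC) 662 31 25 6 0)) = true := by decide +kernel
def chkS11_38 : Chk (boxS11.vC) (subst (sub pcS11 ⟨false, false, true, true, false⟩) (strict (pcS11.m3 false))) :=
  ⟨662, 31, 25, 6, 0, List.all_eq_true.1 grpS11_15 _ (.head _)⟩
def chkS11_39 : Chk (boxS11.vC) (subst (sub pcS11 ⟨false, false, true, true, true⟩) (strict (pcS11.m3 false))) :=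
  ⟨662, 31, 25, 6, 0, List.all_eq_true.1 grpS11_15 _ (.tail _ (.head _))⟩
def chkS11_46 : Chk (boxS11.vC) (subst (sub pcS11 ⟨false, false, true, true, false⟩) (strict (pcS11.m3 true))) :=
  ⟨662, 31, 25, 6, 0, List.all_eq_true.1 grpS11_15 _ (.tail _ (.tail _ (.head _)))⟩
def chkS11_47 : Chk (boxS11.vC) (subst (sub pcS11 ⟨false, false, true, true, true⟩) (strict (pcS11.m3 true))) :=
  ⟨662, 31, 25, 6, 0, List.all_eq_true.1 grpS11_15 _ (.tail _ (.tail _ (.tail _ (.head _))))⟩
def grpS11_16 : ([subst (sub pcS11 ⟨false, true, true, true, false⟩) (strict (pcS11.m3 false)),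
    subst (sub pcS11 ⟨false, true, true, true, true⟩) (strict (pcS11.m3 false)),
    subst (sub pcS11 ⟨false, true, true, true, false⟩) (strict (pcS11.m3 true)),
    subst (sub pcS11 ⟨false, true, true, true, true⟩) (strict (pcS11.m3 true))].all
    (checkFour (boxS11.vC) 667 31 25 6 0)) = true := by decide +kernel
def chkS11_40 : Chk (boxS11.vC) (subst (sub pcS11 ⟨false, true, true, true, false⟩) (strict (pcS11.m3 false))) :=
  ⟨667, 31, 25, 6, 0, List.all_eq_true.1 grpS11_16 _ (.head _)⟩
def chkS11_41 : Chk (boxS11.vC) (subst (sub pcS11 ⟨false, true, true, true, true⟩) (strict (pcS11.m3 false))) :=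
  ⟨667, 31, 25, 6, 0, List.all_eq_true.1 grpS11_16 _ (.tail _ (.head _))⟩
def chkS11_48 : Chk (boxS11.vC) (subst (sub pcS11 ⟨false, true, true, true, false⟩) (strict (pcS11.m3 true))) :=
  ⟨667, 31, 25, 6, 0, List.all_eq_true.1 grpS11_16 _ (.tail _ (.tail _ (.head _)))⟩
def chkS11_49 : Chk (boxS11.vC) (subst (sub pcS11 ⟨false, true, true, true, true⟩) (strict (pcS11.m3 true))) :=
  ⟨667, 31, 25, 6, 0, List.all_eq_true.1 grpS11_16 _ (.tail _ (.tail _ (.tail _ (.head _))))⟩
def grpS11_17 : ([subst (sub pcS11 ⟨true, false, true, true, false⟩) (strict (pcS11.m3 false)),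
    subst (sub pcS11 ⟨true, false, true, true, true⟩) (strict (pcS11.m3 false)),
    subst (sub pcS11 ⟨true, false, true, true, false⟩) (strict (pcS11.m3 true)),
    subst (sub pcS11 ⟨true, false, true, true, true⟩) (strict (pcS11.m3 true))].all
    (checkFour (boxS11.vC) 662 31 25 6 0)) = true := by decide +kernel
def chkS11_42 : Chk (boxS11.vC) (subst (sub pcS11 ⟨true, false, true, true, false⟩) (strict (pcS11.m3 false))) :=
  ⟨662, 31, 25, 6, 0, List.all_eq_true.1 grpS11_17 _ (.head _)⟩
def chkS11_43 : Chk (boxS11.vC) (subst (sub pcS11 ⟨true, false, true, true, true⟩) (strict (pcS11.m3 false))) :=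
  ⟨662, 31, 25, 6, 0, List.all_eq_true.1 grpS11_17 _ (.tail _ (.head _))⟩
def chkS11_50 : Chk (boxS11.vC) (subst (sub pcS11 ⟨true, false, true, true, false⟩) (strict (pcS11.m3 true))) :=
  ⟨662, 31, 25, 6, 0, List.all_eq_true.1 grpS11_17 _ (.tail _ (.tail _ (.head _)))⟩
def chkS11_51 : Chk (boxS11.vC) (subst (sub pcS11 ⟨true, false, true, true, true⟩) (strict (pcS11.m3 true))) :=
  ⟨662, 31, 25, 6, 0, List.all_eq_true.1 grpS11_17 _ (.tail _ (.tail _ (.tail _ (.head _))))⟩
def grpS11_18 : ([subst (sub pcS11 ⟨true, true, true, true, false⟩) (strict (pcS11.m3 false)),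
    subst (sub pcS11 ⟨true, true, true, true, true⟩) (strict (pcS11.m3 false)),
    subst (sub pcS11 ⟨true, true, true, true, false⟩) (strict (pcS11.m3 true)),
    subst (sub pcS11 ⟨true, true, true, true, true⟩) (strict (pcS11.m3 true))].all
    (checkFour (boxS11.vC) 667 31 25 6 0)) = true := by decide +kernel
def chkS11_44 : Chk (boxS11.vC) (subst (sub pcS11 ⟨true, true, true, true, false⟩) (strict (pcS11.m3 false))) :=
  ⟨667, 31, 25, 6, 0, List.all_eq_true.1 grpS11_18 _ (.head _)⟩
def chkS11_45 : Chk (boxS11.vC) (subst (sub pcS11 ⟨true, true, true, true, true⟩) (strict (pcS11.m3 false))) :=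
  ⟨667, 31, 25, 6, 0, List.all_eq_true.1 grpS11_18 _ (.tail _ (.head _))⟩
def chkS11_52 : Chk (boxS11.vC) (subst (sub pcS11 ⟨true, true, true, true, false⟩) (strict (pcS11.m3 true))) :=
  ⟨667, 31, 25, 6, 0, List.all_eq_true.1 grpS11_18 _ (.tail _ (.tail _ (.head _)))⟩
def chkS11_53 : Chk (boxS11.vC) (subst (sub pcS11 ⟨true, true, true, true, true⟩) (strict (pcS11.m3 true))) :=
  ⟨667, 31, 25, 6, 0, List.all_eq_true.1 grpS11_18 _ (.tail _ (.tail _ (.tail _ (.head _))))⟩
def grpS11_19 : ([subst (sub pcS11 ⟨false, false, true, true, false⟩) (negEx coMG12),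
    subst (sub pcS11 ⟨false, false, true, true, false⟩) (negEx (pcS11.curve2 false)),
    subst (sub pcS11 ⟨false, false, true, true, false⟩) (negEx (pcS11.curve2 true))].all
    (checkFour (boxS11.vC) 120 5 5 4 0)) = true := by decide +kernel
def chkS11_54 : Chk (boxS11.vC) (subst (sub pcS11 ⟨false, false, true, true, false⟩) (negEx coMG12)) :=
  ⟨120, 5, 5, 4, 0, List.all_eq_true.1 grpS11_19 _ (.head _)⟩
def chkS11_55 : Chk (boxS11.vC) (subst (sub pcS11 ⟨false, false, true, true, false⟩) (negEx (pcS11.curve2 false))) :=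
  ⟨120, 5, 5, 4, 0, List.all_eq_true.1 grpS11_19 _ (.tail _ (.head _))⟩
def chkS11_56 : Chk (boxS11.vC) (subst (sub pcS11 ⟨false, false, true, true, false⟩) (negEx (pcS11.curve2 true))) :=
  ⟨120, 5, 5, 4, 0, List.all_eq_true.1 grpS11_19 _ (.tail _ (.tail _ (.head _)))⟩
def grpS11_20 : ([subst (sub pcS11 ⟨false, false, true, true, false⟩) (negEx (pcS11.curve3 false)),
    subst (sub pcS11 ⟨false, false, true, true, false⟩) (negEx (pcS11.curve3 true))].all
    (checkFour (boxS11.vC) 134 6 6 4 0)) = true := by decide +kernel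
def chkS11_57 : Chk (boxS11.vC) (subst (sub pcS11 ⟨false, false, true, true, false⟩) (negEx (pcS11.curve3 false))) :=
  ⟨134, 6, 6, 4, 0, List.all_eq_true.1 grpS11_20 _ (.head _)⟩
def chkS11_58 : Chk (boxS11.vC) (subst (sub pcS11 ⟨false, false, true, true, false⟩) (negEx (pcS11.curve3 true))) :=
  ⟨134, 6, 6, 4, 0, List.all_eq_true.1 grpS11_20 _ (.tail _ (.head _))⟩
def grpS11_21 : ([subst (sub pcS11 ⟨false, false, true, true, false⟩) (slopeT),
    subst (sub pcS11 ⟨true, false, true, true, false⟩) (slopeT)].all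
    (checkFour (boxS11.vC) 148 7 6 4 0)) = true := by decide +kernel
def chkS11_59 : Chk (boxS11.vC) (subst (sub pcS11 ⟨false, false, true, true, false⟩) (slopeT)) :=
  ⟨148, 7, 6, 4, 0, List.all_eq_true.1 grpS11_21 _ (.head _)⟩
def chkS11_60 : Chk (boxS11.vC) (subst (sub pcS11 ⟨true, false, true, true, false⟩) (slopeT)) :=
  ⟨148, 7, 6, 4, 0, List.all_eq_true.1 grpS11_21 _ (.tail _ (.head _))⟩
def grpS11_22 : ([subst (gapSub pcS11 true false false) tplL,
    subst (gapSub pcS11 true false true) tplL,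
    subst (gapSub pcS11 true true false) tplL,
    subst (gapSub pcS11 true true true) tplL].all
    (checkFour (boxS11.gC true) 402 22 17 5 2)) = true := by decide +kernel
def chkS11_61 : Chk (boxS11.gC true) (subst (gapSub pcS11 true false false) tplL) :=
  ⟨402, 22, 17, 5, 2, List.all_eq_true.1 grpS11_22 _ (.head _)⟩
def chkS11_62 : Chk (boxS11.gC true) (subst (gapSub pcS11 true false true) tplL) :=
  ⟨402, 22, 17, 5, 2, List.all_eq_true.1 grpS11_22 _ (.tail _ (.head _))⟩
def chkS11_63 : Chk (boxS11.gC true) (subst (gapSub pcS11 true true false) tplL) :=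
  ⟨402, 22, 17, 5, 2, List.all_eq_true.1 grpS11_22 _ (.tail _ (.tail _ (.head _)))⟩
def chkS11_64 : Chk (boxS11.gC true) (subst (gapSub pcS11 true true true) tplL) :=
  ⟨402, 22, 17, 5, 2, List.all_eq_true.1 grpS11_22 _ (.tail _ (.tail _ (.tail _ (.head _))))⟩

/-- Piece 11 passes. -/
theorem certS11 : Cert pcS11 boxS11 true where
  pos := by
    refine ⟨⟨⟨?_, ?_, ?_, ?_, ?_, ?_, ?_⟩, ?_, ?_, ?_, ?_, ?_, ?_, ?_, ?_, ?_, ?_, ?_⟩, ?_, ?_⟩ <;>
      norm_num [fr, pcS11]
  gX := fun p l => match p, l with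
    | false, false => chkS11_18
    | false, true => chkS11_19
    | true, false => chkS11_20
    | true, true => chkS11_21
  gMG := fun p l => match p, l with
    | false, false => chkS11_22
    | false, true => chkS11_23
    | true, false => chkS11_24
    | true, true => chkS11_25
  g1 := fun p l => match p, l with
    | false, false => chkS11_26
    | false, true => chkS11_27
    | true, false => chkS11_28
    | true, true => chkS11_29
  g2 := fun s p t => match s, p, t with
    | false, false, false => chkS11_30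
    | false, false, true => chkS11_31
    | false, true, false => chkS11_32
    | false, true, true => chkS11_33
    | true, false, false => chkS11_34
    | true, false, true => chkS11_35
    | true, true, false => chkS11_36
    | true, true, true => chkS11_37
  g3 := fun s p l t => match s, p, l, t with
    | false, false, false, false => chkS11_38
    | false, false, false, true => chkS11_39
    | false, false, true, false => chkS11_40
    | false, false, true, true => chkS11_41
    | false, true, false, false => chkS11_42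
    | false, true, false, true => chkS11_43
    | false, true, true, false => chkS11_44
    | false, true, true, true => chkS11_45
    | true, false, false, false => chkS11_46
    | true, false, false, true => chkS11_47
    | true, false, true, false => chkS11_48
    | true, false, true, true => chkS11_49
    | true, true, false, false => chkS11_50
    | true, true, false, true => chkS11_51
    | true, true, true, false => chkS11_52
    | true, true, true, true => chkS11_53
  cMG := chkS11_54
  c2 := fun s => match s with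
    | false => chkS11_55
    | true => chkS11_56
  c3 := fun s => match s with
    | false => chkS11_57
    | true => chkS11_58
  sT := fun p => match p with
    | false => chkS11_59
    | true => chkS11_60
  bnd := fun ze b => match ze, b with
    | false, .l0 => chkS11_0
    | false, .l1 => chkS11_1
    | false, .r => chkS11_2
    | false, .g0 => chkS11_3
    | false, .g1 => chkS11_4
    | false, .t0 => chkS11_5
    | false, .t1 => chkS11_6
    | false, .w0 => chkS11_7
    | false, .w1 => chkS11_8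
    | true, .l0 => chkS11_9
    | true, .l1 => chkS11_10
    | true, .r => chkS11_11
    | true, .g0 => chkS11_12
    | true, .g1 => chkS11_13
    | true, .t0 => chkS11_14
    | true, .t1 => chkS11_15
    | true, .w0 => chkS11_16
    | true, .w1 => chkS11_17
  gap := fun ze t => match ze, t with
    | false, false => chkS11_61
    | false, true => chkS11_62
    | true, false => chkS11_63
    | true, true => chkS11_64

/-- A window of piece 11. -/
def winS11L : Win := ⟨.D, (10, 17, 200), (21, 28, 100), (-143, -72, 100), (-18, 103, 25), (103, 11825, 25), (2, 5, 20), false, false, (98, -100), (439, 1000)⟩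

/-- The window passes. -/
theorem winS11L_ok : winS11L.Cert where
  fits := ⟨by norm_num [winS11L], by norm_num [winS11L, qLo], by norm_num [winS11L, qLo, qHi],
    by norm_num [winS11L, qLo, qHi], by norm_num [winS11L, qLo], by norm_num [winS11L, qHi]⟩
  cross := ⟨226, 8, 6, 2, 7, by decide +kernel⟩
  exit := ⟨225, 10, 7, 3, 8, by decide +kernel⟩
  mix := ⟨295, 12, 9, 3, 11, by decide +kernel⟩

end Vale.Agent.P100.Calib.StripMid
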