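import Vale.Agent.P100.Calib.SlabStripMidSevWindow

/-!
# The checks of piece 12 below 153/200 for `N` between seven and twenty
-/

set_option linter.defProp false

namespace Vale.Agent.P100.Calib.StripMid

open Pack

/-- The numbers of piece 12. -/
def pcS12 : Piece := ⟨.B, (1, 4), (27, 50), (69, 100), (49, 100), (283, 100), (23, 25), (77, 50), (24, 25), (979, -1950, 1000), (251, -150, 250), 85, (89,10,300,5), (1, 1), (807, 500), (9, 20), (2, 5), (3, 5)⟩

/-- The ranges of piece 12. -/
def boxS12 : Box := ⟨(93, 220, 2000), (9, 24, 20), (9, 268, 100), (49, 283, 100), (25, 54, 100)⟩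

def grpS12_0 : ([bound pcS12 false .l0,
    bound pcS12 false .l1,
    bound pcS12 false .r,
    bound pcS12 true .l0,
    bound pcS12 true .l1,
    bound pcS12 true .r].all
    (checkFour (boxS12.cC) 300 14 13 2 3)) = true := by decide +kernel
def chkS12_0 : Chk (boxS12.cC) (bound pcS12 false .l0) :=
  ⟨300, 14, 13, 2, 3, List.all_eq_true.1 grpS12_0 _ (.head _)⟩
def chkS12_1 : Chk (boxS12.cC) (bound pcS12 false .l1) :=
  ⟨300, 14, 13, 2, 3, List.all_eq_true.1 grpS12_0 _ (.tail _ (.head _))⟩
def chkS12_2 : Chk (boxS12.cC) (bound pcS12 false .r) :=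
  ⟨300, 14, 13, 2, 3, List.all_eq_true.1 grpS12_0 _ (.tail _ (.tail _ (.head _)))⟩
def chkS12_9 : Chk (boxS12.cC) (bound pcS12 true .l0) :=
  ⟨300, 14, 13, 2, 3, List.all_eq_true.1 grpS12_0 _ (.tail _ (.tail _ (.tail _ (.head _))))⟩
def chkS12_10 : Chk (boxS12.cC) (bound pcS12 true .l1) :=
  ⟨300, 14, 13, 2, 3, List.all_eq_true.1 grpS12_0 _ (.tail _ (.tail _ (.tail _ (.tail _ (.head _)))))⟩
def chkS12_11 : Chk (boxS12.cC) (bound pcS12 true .r) :=
  ⟨300, 14, 13, 2, 3, List.all_eq_true.1 grpS12_0 _ (.tail _ (.tail _ (.tail _ (.tail _ (.tail _ (.head _))))))⟩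
def grpS12_1 : ([bound pcS12 false .g0,
    bound pcS12 false .g1,
    bound pcS12 true .g0,
    bound pcS12 true .g1].all
    (checkFour (boxS12.cC) 125 5 4 1 2)) = true := by decide +kernel
def chkS12_3 : Chk (boxS12.cC) (bound pcS12 false .g0) :=
  ⟨125, 5, 4, 1, 2, List.all_eq_true.1 grpS12_1 _ (.head _)⟩
def chkS12_4 : Chk (boxS12.cC) (bound pcS12 false .g1) :=
  ⟨125, 5, 4, 1, 2, List.all_eq_true.1 grpS12_1 _ (.tail _ (.head _))⟩
def chkS12_12 : Chk (boxS12.cC) (bound pcS12 true .g0) :=
  ⟨125, 5, 4, 1, 2, List.all_eq_true.1 grpS12_1 _ (.tail _ (.tail _ (.head _)))⟩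
def chkS12_13 : Chk (boxS12.cC) (bound pcS12 true .g1) :=
  ⟨125, 5, 4, 1, 2, List.all_eq_true.1 grpS12_1 _ (.tail _ (.tail _ (.tail _ (.head _))))⟩
def grpS12_2 : ([bound pcS12 false .t0,
    bound pcS12 false .t1,
    bound pcS12 true .t0,
    bound pcS12 true .t1].all
    (checkFour (boxS12.cC) 200 9 6 2 3)) = true := by decide +kernel
def chkS12_5 : Chk (boxS12.cC) (bound pcS12 false .t0) :=
  ⟨200, 9, 6, 2, 3, List.all_eq_true.1 grpS12_2 _ (.head _)⟩
def chkS12_6 : Chk (boxS12.cC) (bound pcS12 false .t1) :=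
  ⟨200, 9, 6, 2, 3, List.all_eq_true.1 grpS12_2 _ (.tail _ (.head _))⟩
def chkS12_14 : Chk (boxS12.cC) (bound pcS12 true .t0) :=
  ⟨200, 9, 6, 2, 3, List.all_eq_true.1 grpS12_2 _ (.tail _ (.tail _ (.head _)))⟩
def chkS12_15 : Chk (boxS12.cC) (bound pcS12 true .t1) :=
  ⟨200, 9, 6, 2, 3, List.all_eq_true.1 grpS12_2 _ (.tail _ (.tail _ (.tail _ (.head _))))⟩
def grpS12_3 : ([bound pcS12 false .w0,
    bound pcS12 false .w1,
    bound pcS12 true .w0,
    bound pcS12 true .w1].all
    (checkFour (boxS12.cC) 270 12 10 3 4)) = true := by decide +kernel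
def chkS12_7 : Chk (boxS12.cC) (bound pcS12 false .w0) :=
  ⟨270, 12, 10, 3, 4, List.all_eq_true.1 grpS12_3 _ (.head _)⟩
def chkS12_8 : Chk (boxS12.cC) (bound pcS12 false .w1) :=
  ⟨270, 12, 10, 3, 4, List.all_eq_true.1 grpS12_3 _ (.tail _ (.head _))⟩
def chkS12_16 : Chk (boxS12.cC) (bound pcS12 true .w0) :=
  ⟨270, 12, 10, 3, 4, List.all_eq_true.1 grpS12_3 _ (.tail _ (.tail _ (.head _)))⟩
def chkS12_17 : Chk (boxS12.cC) (bound pcS12 true .w1) :=
  ⟨270, 12, 10, 3, 4, List.all_eq_true.1 grpS12_3 _ (.tail _ (.tail _ (.tail _ (.head _))))⟩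
def grpS12_4 : ([subst (sub pcS12 ⟨false, false, true, true, false⟩) (condX),
    subst (sub pcS12 ⟨false, true, true, true, false⟩) (condX),
    subst (sub pcS12 ⟨true, false, true, true, false⟩) (condX),
    subst (sub pcS12 ⟨true, true, true, true, false⟩) (condX)].all
    (checkFour (boxS12.vC) 319 15 13 4 0)) = true := by decide +kernel
def chkS12_18 : Chk (boxS12.vC) (subst (sub pcS12 ⟨false, false, true, true, false⟩) (condX)) :=
  ⟨319, 15, 13, 4, 0, List.all_eq_true.1 grpS12_4 _ (.head _)⟩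
def chkS12_19 : Chk (boxS12.vC) (subst (sub pcS12 ⟨false, true, true, true, false⟩) (condX)) :=
  ⟨319, 15, 13, 4, 0, List.all_eq_true.1 grpS12_4 _ (.tail _ (.head _))⟩
def chkS12_20 : Chk (boxS12.vC) (subst (sub pcS12 ⟨true, false, true, true, false⟩) (condX)) :=
  ⟨319, 15, 13, 4, 0, List.all_eq_true.1 grpS12_4 _ (.tail _ (.tail _ (.head _)))⟩
def chkS12_21 : Chk (boxS12.vC) (subst (sub pcS12 ⟨true, true, true, true, false⟩) (condX)) :=
  ⟨319, 15, 13, 4, 0, List.all_eq_true.1 grpS12_4 _ (.tail _ (.tail _ (.tail _ (.head _))))⟩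
def grpS12_5 : ([subst (sub pcS12 ⟨false, false, true, false, false⟩) (tplMG),
    subst (sub pcS12 ⟨false, true, true, false, false⟩) (tplMG),
    subst (sub pcS12 ⟨true, false, true, false, false⟩) (tplMG),
    subst (sub pcS12 ⟨true, true, true, false, false⟩) (tplMG)].all
    (checkFour (boxS12.vC) 618 30 26 6 0)) = true := by decide +kernel
def chkS12_22 : Chk (boxS12.vC) (subst (sub pcS12 ⟨false, false, true, false, false⟩) (tplMG)) :=
  ⟨618, 30, 26, 6, 0, List.all_eq_true.1 grpS12_5 _ (.head _)⟩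
def chkS12_23 : Chk (boxS12.vC) (subst (sub pcS12 ⟨false, true, true, false, false⟩) (tplMG)) :=
  ⟨618, 30, 26, 6, 0, List.all_eq_true.1 grpS12_5 _ (.tail _ (.head _))⟩
def chkS12_24 : Chk (boxS12.vC) (subst (sub pcS12 ⟨true, false, true, false, false⟩) (tplMG)) :=
  ⟨618, 30, 26, 6, 0, List.all_eq_true.1 grpS12_5 _ (.tail _ (.tail _ (.head _)))⟩
def chkS12_25 : Chk (boxS12.vC) (subst (sub pcS12 ⟨true, true, true, false, false⟩) (tplMG)) :=
  ⟨618, 30, 26, 6, 0, List.all_eq_true.1 grpS12_5 _ (.tail _ (.tail _ (.tail _ (.head _))))⟩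
def grpS12_6 : ([subst (sub pcS12 ⟨false, false, false, false, false⟩) (pcS12.m1),
    subst (sub pcS12 ⟨false, true, false, false, false⟩) (pcS12.m1),
    subst (sub pcS12 ⟨true, false, false, false, false⟩) (pcS12.m1),
    subst (sub pcS12 ⟨true, true, false, false, false⟩) (pcS12.m1)].all
    (checkFour (boxS12.vC) 404 19 17 4 0)) = true := by decide +kernel
def chkS12_26 : Chk (boxS12.vC) (subst (sub pcS12 ⟨false, false, false, false, false⟩) (pcS12.m1)) :=
  ⟨404, 19, 17, 4, 0, List.all_eq_true.1 grpS12_6 _ (.head _)⟩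
def chkS12_27 : Chk (boxS12.vC) (subst (sub pcS12 ⟨false, true, false, false, false⟩) (pcS12.m1)) :=
  ⟨404, 19, 17, 4, 0, List.all_eq_true.1 grpS12_6 _ (.tail _ (.head _))⟩
def chkS12_28 : Chk (boxS12.vC) (subst (sub pcS12 ⟨true, false, false, false, false⟩) (pcS12.m1)) :=
  ⟨404, 19, 17, 4, 0, List.all_eq_true.1 grpS12_6 _ (.tail _ (.tail _ (.head _)))⟩
def chkS12_29 : Chk (boxS12.vC) (subst (sub pcS12 ⟨true, true, false, false, false⟩) (pcS12.m1)) :=
  ⟨404, 19, 17, 4, 0, List.all_eq_true.1 grpS12_6 _ (.tail _ (.tail _ (.tail _ (.head _))))⟩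
def chkS12_30 : Chk (boxS12.vC) (subst (sub pcS12 ⟨false, false, true, false, false⟩) (strict (pcS12.m2 false))) :=
  ⟨648, 28, 24, 6, 0, by decide +kernel⟩
def chkS12_31 : Chk (boxS12.vC) (subst (sub pcS12 ⟨false, false, true, false, true⟩) (strict (pcS12.m2 false))) :=
  ⟨644, 28, 24, 6, 0, by decide +kernel⟩
def chkS12_32 : Chk (boxS12.vC) (subst (sub pcS12 ⟨true, false, true, false, false⟩) (strict (pcS12.m2 false))) :=
  ⟨648, 28, 24, 6, 0, by decide +kernel⟩
def chkS12_33 : Chk (boxS12.vC) (subst (sub pcS12 ⟨true, false, true, false, true⟩) (strict (pcS12.m2 false))) :=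
  ⟨644, 28, 24, 6, 0, by decide +kernel⟩
def chkS12_34 : Chk (boxS12.vC) (subst (sub pcS12 ⟨false, true, true, false, false⟩) (strict (pcS12.m2 true))) :=
  ⟨649, 28, 24, 6, 0, by decide +kernel⟩
def chkS12_35 : Chk (boxS12.vC) (subst (sub pcS12 ⟨false, true, true, false, true⟩) (strict (pcS12.m2 true))) :=
  ⟨645, 28, 24, 6, 0, by decide +kernel⟩
def chkS12_36 : Chk (boxS12.vC) (subst (sub pcS12 ⟨true, true, true, false, false⟩) (strict (pcS12.m2 true))) :=
  ⟨649, 28, 24, 6, 0, by decide +kernel⟩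
def chkS12_37 : Chk (boxS12.vC) (subst (sub pcS12 ⟨true, true, true, false, true⟩) (strict (pcS12.m2 true))) :=
  ⟨645, 28, 24, 6, 0, by decide +kernel⟩
def grpS12_15 : ([subst (sub pcS12 ⟨false, false, true, true, false⟩) (strict (pcS12.m3 false)),
    subst (sub pcS12 ⟨false, false, true, true, true⟩) (strict (pcS12.m3 false)),
    subst (sub pcS12 ⟨false, false, true, true, false⟩) (strict (pcS12.m3 true)),
    subst (sub pcS12 ⟨false, false, true, true, true⟩) (strict (pcS12.m3 true))].all
    (checkFour (boxS12.vC) 775 35 31 6 0)) = true := by decide +kernel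
def chkS12_38 : Chk (boxS12.vC) (subst (sub pcS12 ⟨false, false, true, true, false⟩) (strict (pcS12.m3 false))) :=
  ⟨775, 35, 31, 6, 0, List.all_eq_true.1 grpS12_15 _ (.head _)⟩
def chkS12_39 : Chk (boxS12.vC) (subst (sub pcS12 ⟨false, false, true, true, true⟩) (strict (pcS12.m3 false))) :=
  ⟨775, 35, 31, 6, 0, List.all_eq_true.1 grpS12_15 _ (.tail _ (.head _))⟩
def chkS12_46 : Chk (boxS12.vC) (subst (sub pcS12 ⟨false, false, true, true, false⟩) (strict (pcS12.m3 true))) :=
  ⟨775, 35, 31, 6, 0, List.all_eq_true.1 grpS12_15 _ (.tail _ (.tail _ (.head _)))⟩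
def chkS12_47 : Chk (boxS12.vC) (subst (sub pcS12 ⟨false, false, true, true, true⟩) (strict (pcS12.m3 true))) :=
  ⟨775, 35, 31, 6, 0, List.all_eq_true.1 grpS12_15 _ (.tail _ (.tail _ (.tail _ (.head _))))⟩
def grpS12_16 : ([subst (sub pcS12 ⟨false, true, true, true, false⟩) (strict (pcS12.m3 false)),
    subst (sub pcS12 ⟨false, true, true, true, true⟩) (strict (pcS12.m3 false)),
    subst (sub pcS12 ⟨false, true, true, true, false⟩) (strict (pcS12.m3 true)),
    subst (sub pcS12 ⟨false, true, true, true, true⟩) (strict (pcS12.m3 true))].all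
    (checkFour (boxS12.vC) 778 35 31 6 0)) = true := by decide +kernel
def chkS12_40 : Chk (boxS12.vC) (subst (sub pcS12 ⟨false, true, true, true, false⟩) (strict (pcS12.m3 false))) :=
  ⟨778, 35, 31, 6, 0, List.all_eq_true.1 grpS12_16 _ (.head _)⟩
def chkS12_41 : Chk (boxS12.vC) (subst (sub pcS12 ⟨false, true, true, true, true⟩) (strict (pcS12.m3 false))) :=
  ⟨778, 35, 31, 6, 0, List.all_eq_true.1 grpS12_16 _ (.tail _ (.head _))⟩
def chkS12_48 : Chk (boxS12.vC) (subst (sub pcS12 ⟨false, true, true, true, false⟩) (strict (pcS12.m3 true))) :=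
  ⟨778, 35, 31, 6, 0, List.all_eq_true.1 grpS12_16 _ (.tail _ (.tail _ (.head _)))⟩
def chkS12_49 : Chk (boxS12.vC) (subst (sub pcS12 ⟨false, true, true, true, true⟩) (strict (pcS12.m3 true))) :=
  ⟨778, 35, 31, 6, 0, List.all_eq_true.1 grpS12_16 _ (.tail _ (.tail _ (.tail _ (.head _))))⟩
def grpS12_17 : ([subst (sub pcS12 ⟨true, false, true, true, false⟩) (strict (pcS12.m3 false)),
    subst (sub pcS12 ⟨true, false, true, true, true⟩) (strict (pcS12.m3 false)),
    subst (sub pcS12 ⟨true, false, true, true, false⟩) (strict (pcS12.m3 true)),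
    subst (sub pcS12 ⟨true, false, true, true, true⟩) (strict (pcS12.m3 true))].all
    (checkFour (boxS12.vC) 775 35 31 6 0)) = true := by decide +kernel
def chkS12_42 : Chk (boxS12.vC) (subst (sub pcS12 ⟨true, false, true, true, false⟩) (strict (pcS12.m3 false))) :=
  ⟨775, 35, 31, 6, 0, List.all_eq_true.1 grpS12_17 _ (.head _)⟩
def chkS12_43 : Chk (boxS12.vC) (subst (sub pcS12 ⟨true, false, true, true, true⟩) (strict (pcS12.m3 false))) :=
  ⟨775, 35, 31, 6, 0, List.all_eq_true.1 grpS12_17 _ (.tail _ (.head _))⟩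
def chkS12_50 : Chk (boxS12.vC) (subst (sub pcS12 ⟨true, false, true, true, false⟩) (strict (pcS12.m3 true))) :=
  ⟨775, 35, 31, 6, 0, List.all_eq_true.1 grpS12_17 _ (.tail _ (.tail _ (.head _)))⟩
def chkS12_51 : Chk (boxS12.vC) (subst (sub pcS12 ⟨true, false, true, true, true⟩) (strict (pcS12.m3 true))) :=
  ⟨775, 35, 31, 6, 0, List.all_eq_true.1 grpS12_17 _ (.tail _ (.tail _ (.tail _ (.head _))))⟩
def grpS12_18 : ([subst (sub pcS12 ⟨true, true, true, true, false⟩) (strict (pcS12.m3 false)),
    subst (sub pcS12 ⟨true, true, true, true, true⟩) (strict (pcS12.m3 false)),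
    subst (sub pcS12 ⟨true, true, true, true, false⟩) (strict (pcS12.m3 true)),
    subst (sub pcS12 ⟨true, true, true, true, true⟩) (strict (pcS12.m3 true))].all
    (checkFour (boxS12.vC) 778 35 31 6 0)) = true := by decide +kernel
def chkS12_44 : Chk (boxS12.vC) (subst (sub pcS12 ⟨true, true, true, true, false⟩) (strict (pcS12.m3 false))) :=
  ⟨778, 35, 31, 6, 0, List.all_eq_true.1 grpS12_18 _ (.head _)⟩
def chkS12_45 : Chk (boxS12.vC) (subst (sub pcS12 ⟨true, true, true, true, true⟩) (strict (pcS12.m3 false))) :=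
  ⟨778, 35, 31, 6, 0, List.all_eq_true.1 grpS12_18 _ (.tail _ (.head _))⟩
def chkS12_52 : Chk (boxS12.vC) (subst (sub pcS12 ⟨true, true, true, true, false⟩) (strict (pcS12.m3 true))) :=
  ⟨778, 35, 31, 6, 0, List.all_eq_true.1 grpS12_18 _ (.tail _ (.tail _ (.head _)))⟩
def chkS12_53 : Chk (boxS12.vC) (subst (sub pcS12 ⟨true, true, true, true, true⟩) (strict (pcS12.m3 true))) :=
  ⟨778, 35, 31, 6, 0, List.all_eq_true.1 grpS12_18 _ (.tail _ (.tail _ (.tail _ (.head _))))⟩
def chkS12_54 : Chk (boxS12.vC) (subst (sub pcS12 ⟨false, false, true, true, false⟩) (negEx coMG12)) :=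
  ⟨158, 8, 5, 4, 0, by decide +kernel⟩
def grpS12_20 : ([subst (sub pcS12 ⟨false, false, true, true, false⟩) (negEx (pcS12.curve2 false)),
    subst (sub pcS12 ⟨false, false, true, true, false⟩) (negEx (pcS12.curve2 true))].all
    (checkFour (boxS12.vC) 175 9 5 4 0)) = true := by decide +kernel
def chkS12_55 : Chk (boxS12.vC) (subst (sub pcS12 ⟨false, false, true, true, false⟩) (negEx (pcS12.curve2 false))) :=
  ⟨175, 9, 5, 4, 0, List.all_eq_true.1 grpS12_20 _ (.head _)⟩
def chkS12_56 : Chk (boxS12.vC) (subst (sub pcS12 ⟨false, false, true, true, false⟩) (negEx (pcS12.curve2 true))) :=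
  ⟨175, 9, 5, 4, 0, List.all_eq_true.1 grpS12_20 _ (.tail _ (.head _))⟩
def grpS12_21 : ([subst (sub pcS12 ⟨false, false, true, true, false⟩) (negEx (pcS12.curve3 false)),
    subst (sub pcS12 ⟨false, false, true, true, false⟩) (negEx (pcS12.curve3 true))].all
    (checkFour (boxS12.vC) 179 9 6 4 0)) = true := by decide +kernel
def chkS12_57 : Chk (boxS12.vC) (subst (sub pcS12 ⟨false, false, true, true, false⟩) (negEx (pcS12.curve3 false))) :=
  ⟨179, 9, 6, 4, 0, List.all_eq_true.1 grpS12_21 _ (.head _)⟩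
def chkS12_58 : Chk (boxS12.vC) (subst (sub pcS12 ⟨false, false, true, true, false⟩) (negEx (pcS12.curve3 true))) :=
  ⟨179, 9, 6, 4, 0, List.all_eq_true.1 grpS12_21 _ (.tail _ (.head _))⟩
def grpS12_22 : ([subst (sub pcS12 ⟨false, false, true, true, false⟩) (slopeT),
    subst (sub pcS12 ⟨true, false, true, true, false⟩) (slopeT)].all
    (checkFour (boxS12.vC) 201 10 7 4 0)) = true := by decide +kernel
def chkS12_59 : Chk (boxS12.vC) (subst (sub pcS12 ⟨false, false, true, true, false⟩) (slopeT)) :=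
  ⟨201, 10, 7, 4, 0, List.all_eq_true.1 grpS12_22 _ (.head _)⟩
def chkS12_60 : Chk (boxS12.vC) (subst (sub pcS12 ⟨true, false, true, true, false⟩) (slopeT)) :=
  ⟨201, 10, 7, 4, 0, List.all_eq_true.1 grpS12_22 _ (.tail _ (.head _))⟩
def grpS12_23 : ([subst (gapSub pcS12 true false false) tplL,
    subst (gapSub pcS12 true false true) tplL,
    subst (gapSub pcS12 true true false) tplL,
    subst (gapSub pcS12 true true true) tplL].all
    (checkFour (boxS12.gC true) 521 26 22 5 2)) = true := by decide +kernel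
def chkS12_61 : Chk (boxS12.gC true) (subst (gapSub pcS12 true false false) tplL) :=
  ⟨521, 26, 22, 5, 2, List.all_eq_true.1 grpS12_23 _ (.head _)⟩
def chkS12_62 : Chk (boxS12.gC true) (subst (gapSub pcS12 true false true) tplL) :=
  ⟨521, 26, 22, 5, 2, List.all_eq_true.1 grpS12_23 _ (.tail _ (.head _))⟩
def chkS12_63 : Chk (boxS12.gC true) (subst (gapSub pcS12 true true false) tplL) :=
  ⟨521, 26, 22, 5, 2, List.all_eq_true.1 grpS12_23 _ (.tail _ (.tail _ (.head _)))⟩
def chkS12_64 : Chk (boxS12.gC true) (subst (gapSub pcS12 true true true) tplL) :=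
  ⟨521, 26, 22, 5, 2, List.all_eq_true.1 grpS12_23 _ (.tail _ (.tail _ (.tail _ (.head _))))⟩

/-- Piece 12 passes. -/
theorem certS12 : Cert pcS12 boxS12 true where
  pos := by
    refine ⟨⟨⟨?_, ?_, ?_, ?_, ?_, ?_, ?_⟩, ?_, ?_, ?_, ?_, ?_, ?_, ?_, ?_, ?_, ?_, ?_⟩, ?_, ?_⟩ <;>
      norm_num [fr, pcS12]
  gX := fun p l => match p, l with
    | false, false => chkS12_18
    | false, true => chkS12_19
    | true, false => chkS12_20
    | true, true => chkS12_21
  gMG := fun p l => match p, l with
    | false, false => chkS12_22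
    | false, true => chkS12_23
    | true, false => chkS12_24
    | true, true => chkS12_25
  g1 := fun p l => match p, l with
    | false, false => chkS12_26
    | false, true => chkS12_27
    | true, false => chkS12_28
    | true, true => chkS12_29
  g2 := fun s p t => match s, p, t with
    | false, false, false => chkS12_30
    | false, false, true => chkS12_31
    | false, true, false => chkS12_32
    | false, true, true => chkS12_33
    | true, false, false => chkS12_34
    | true, false, true => chkS12_35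
    | true, true, false => chkS12_36
    | true, true, true => chkS12_37
  g3 := fun s p l t => match s, p, l, t with
    | false, false, false, false => chkS12_38
    | false, false, false, true => chkS12_39
    | false, false, true, false => chkS12_40
    | false, false, true, true => chkS12_41
    | false, true, false, false => chkS12_42
    | false, true, false, true => chkS12_43
    | false, true, true, false => chkS12_44
    | false, true, true, true => chkS12_45
    | true, false, false, false => chkS12_46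
    | true, false, false, true => chkS12_47
    | true, false, true, false => chkS12_48
    | true, false, true, true => chkS12_49
    | true, true, false, false => chkS12_50
    | true, true, false, true => chkS12_51
    | true, true, true, false => chkS12_52
    | true, true, true, true => chkS12_53
  cMG := chkS12_54
  c2 := fun s => match s with
    | false => chkS12_55
    | true => chkS12_56
  c3 := fun s => match s with
    | false => chkS12_57
    | true => chkS12_58
  sT := fun p => match p with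
    | false => chkS12_59
    | true => chkS12_60
  bnd := fun ze b => match ze, b with
    | false, .l0 => chkS12_0
    | false, .l1 => chkS12_1
    | false, .r => chkS12_2
    | false, .g0 => chkS12_3
    | false, .g1 => chkS12_4
    | false, .t0 => chkS12_5
    | false, .t1 => chkS12_6
    | false, .w0 => chkS12_7
    | false, .w1 => chkS12_8
    | true, .l0 => chkS12_9
    | true, .l1 => chkS12_10
    | true, .r => chkS12_11
    | true, .g0 => chkS12_12
    | true, .g1 => chkS12_13
    | true, .t0 => chkS12_14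
    | true, .t1 => chkS12_15
    | true, .w0 => chkS12_16
    | true, .w1 => chkS12_17
  gap := fun ze t => match ze, t with
    | false, false => chkS12_61
    | false, true => chkS12_62
    | true, false => chkS12_63
    | true, true => chkS12_64

/-- A window of piece 12. -/
def winS12L : Win := ⟨.B, (93, 220, 2000), (9, 24, 20), (-58, 49, 100), (49, 283, 100), (283, 17100, 100), (25, 54, 100), false, false, (80, -52), (645, 1000)⟩

/-- The window passes. -/
theorem winS12L_ok : winS12L.Cert where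
  fits := ⟨by norm_num [winS12L], by norm_num [winS12L, qLo], by norm_num [winS12L, qLo, qHi],
    by norm_num [winS12L, qLo, qHi], by norm_num [winS12L, qLo], by norm_num [winS12L, qHi]⟩
  cross := ⟨279, 9, 8, 2, 7, by decide +kernel⟩
  exit := ⟨307, 12, 10, 3, 8, by decide +kernel⟩
  mix := ⟨388, 14, 12, 3, 11, by decide +kernel⟩

/-- The tight band is crossed one way on piece 12. -/
theorem bandS12 : Chk (winS12L.chart (22, 27, 50) winS12L.qc) (sBand winS12L.kind) :=
  ⟨473, 17, 15, 3, 14, by decide +kernel⟩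

end Vale.Agent.P100.Calib.StripMid
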