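import Vale.Agent.P100.Calib.SlabStripMidSevWindow

/-!
# The checks of piece 13 below 153/200 for `N` between seven and twenty
-/

set_option linter.defProp false

namespace Vale.Agent.P100.Calib.StripMid

open Pack

/-- The numbers of piece 13. -/
def pcS13 : Piece := ⟨.D, (1, 4), (27, 50), (16, 25), (1, 2), (303, 100), (93, 100), (773, 500), (239, 250), (911, -1350, 1000), (493, -220, 500), 83, (259,-270,900,10), (1099, 1000), (823, 500), (9, 20), (2, 5), (3, 5)⟩

/-- The ranges of piece 13. -/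
def boxS13 : Box := ⟨(10, 27, 200), (11, 15, 100), (9, 226, 100), (50, 303, 100), (25, 54, 100)⟩

def grpS13_0 : ([bound pcS13 false .l0,
    bound pcS13 false .l1,
    bound pcS13 false .r,
    bound pcS13 true .l0,
    bound pcS13 true .l1,
    bound pcS13 true .r].all
    (checkFour (boxS13.cC) 247 13 9 2 3)) = true := by decide +kernel
def chkS13_0 : Chk (boxS13.cC) (bound pcS13 false .l0) :=
  ⟨247, 13, 9, 2, 3, List.all_eq_true.1 grpS13_0 _ (.head _)⟩
def chkS13_1 : Chk (boxS13.cC) (bound pcS13 false .l1) :=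
  ⟨247, 13, 9, 2, 3, List.all_eq_true.1 grpS13_0 _ (.tail _ (.head _))⟩
def chkS13_2 : Chk (boxS13.cC) (bound pcS13 false .r) :=
  ⟨247, 13, 9, 2, 3, List.all_eq_true.1 grpS13_0 _ (.tail _ (.tail _ (.head _)))⟩
def chkS13_9 : Chk (boxS13.cC) (bound pcS13 true .l0) :=
  ⟨247, 13, 9, 2, 3, List.all_eq_true.1 grpS13_0 _ (.tail _ (.tail _ (.tail _ (.head _))))⟩
def chkS13_10 : Chk (boxS13.cC) (bound pcS13 true .l1) :=
  ⟨247, 13, 9, 2, 3, List.all_eq_true.1 grpS13_0 _ (.tail _ (.tail _ (.tail _ (.tail _ (.head _)))))⟩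
def chkS13_11 : Chk (boxS13.cC) (bound pcS13 true .r) :=
  ⟨247, 13, 9, 2, 3, List.all_eq_true.1 grpS13_0 _ (.tail _ (.tail _ (.tail _ (.tail _ (.tail _ (.head _))))))⟩
def grpS13_1 : ([bound pcS13 false .g0,
    bound pcS13 false .g1,
    bound pcS13 true .g0,
    bound pcS13 true .g1].all
    (checkFour (boxS13.cC) 101 4 3 1 2)) = true := by decide +kernel
def chkS13_3 : Chk (boxS13.cC) (bound pcS13 false .g0) :=
  ⟨101, 4, 3, 1, 2, List.all_eq_true.1 grpS13_1 _ (.head _)⟩
def chkS13_4 : Chk (boxS13.cC) (bound pcS13 false .g1) :=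
  ⟨101, 4, 3, 1, 2, List.all_eq_true.1 grpS13_1 _ (.tail _ (.head _))⟩
def chkS13_12 : Chk (boxS13.cC) (bound pcS13 true .g0) :=
  ⟨101, 4, 3, 1, 2, List.all_eq_true.1 grpS13_1 _ (.tail _ (.tail _ (.head _)))⟩
def chkS13_13 : Chk (boxS13.cC) (bound pcS13 true .g1) :=
  ⟨101, 4, 3, 1, 2, List.all_eq_true.1 grpS13_1 _ (.tail _ (.tail _ (.tail _ (.head _))))⟩
def grpS13_2 : ([bound pcS13 false .t0,
    bound pcS13 false .t1,
    bound pcS13 true .t0,
    bound pcS13 true .t1].all
    (checkFour (boxS13.cC) 156 6 6 2 3)) = true := by decide +kernel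
def chkS13_5 : Chk (boxS13.cC) (bound pcS13 false .t0) :=
  ⟨156, 6, 6, 2, 3, List.all_eq_true.1 grpS13_2 _ (.head _)⟩
def chkS13_6 : Chk (boxS13.cC) (bound pcS13 false .t1) :=
  ⟨156, 6, 6, 2, 3, List.all_eq_true.1 grpS13_2 _ (.tail _ (.head _))⟩
def chkS13_14 : Chk (boxS13.cC) (bound pcS13 true .t0) :=
  ⟨156, 6, 6, 2, 3, List.all_eq_true.1 grpS13_2 _ (.tail _ (.tail _ (.head _)))⟩
def chkS13_15 : Chk (boxS13.cC) (bound pcS13 true .t1) :=
  ⟨156, 6, 6, 2, 3, List.all_eq_true.1 grpS13_2 _ (.tail _ (.tail _ (.tail _ (.head _))))⟩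
def grpS13_3 : ([bound pcS13 false .w0,
    bound pcS13 false .w1,
    bound pcS13 true .w0,
    bound pcS13 true .w1].all
    (checkFour (boxS13.cC) 212 10 7 3 4)) = true := by decide +kernel
def chkS13_7 : Chk (boxS13.cC) (bound pcS13 false .w0) :=
  ⟨212, 10, 7, 3, 4, List.all_eq_true.1 grpS13_3 _ (.head _)⟩
def chkS13_8 : Chk (boxS13.cC) (bound pcS13 false .w1) :=
  ⟨212, 10, 7, 3, 4, List.all_eq_true.1 grpS13_3 _ (.tail _ (.head _))⟩
def chkS13_16 : Chk (boxS13.cC) (bound pcS13 true .w0) :=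
  ⟨212, 10, 7, 3, 4, List.all_eq_true.1 grpS13_3 _ (.tail _ (.tail _ (.head _)))⟩
def chkS13_17 : Chk (boxS13.cC) (bound pcS13 true .w1) :=
  ⟨212, 10, 7, 3, 4, List.all_eq_true.1 grpS13_3 _ (.tail _ (.tail _ (.tail _ (.head _))))⟩
def grpS13_4 : ([subst (sub pcS13 ⟨false, false, true, true, false⟩) (condX),
    subst (sub pcS13 ⟨false, true, true, true, false⟩) (condX),
    subst (sub pcS13 ⟨true, false, true, true, false⟩) (condX),
    subst (sub pcS13 ⟨true, true, true, true, false⟩) (condX)].all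
    (checkFour (boxS13.vC) 266 13 10 4 0)) = true := by decide +kernel
def chkS13_18 : Chk (boxS13.vC) (subst (sub pcS13 ⟨false, false, true, true, false⟩) (condX)) :=
  ⟨266, 13, 10, 4, 0, List.all_eq_true.1 grpS13_4 _ (.head _)⟩
def chkS13_19 : Chk (boxS13.vC) (subst (sub pcS13 ⟨false, true, true, true, false⟩) (condX)) :=
  ⟨266, 13, 10, 4, 0, List.all_eq_true.1 grpS13_4 _ (.tail _ (.head _))⟩
def chkS13_20 : Chk (boxS13.vC) (subst (sub pcS13 ⟨true, false, true, true, false⟩) (condX)) :=
  ⟨266, 13, 10, 4, 0, List.all_eq_true.1 grpS13_4 _ (.tail _ (.tail _ (.head _)))⟩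
def chkS13_21 : Chk (boxS13.vC) (subst (sub pcS13 ⟨true, true, true, true, false⟩) (condX)) :=
  ⟨266, 13, 10, 4, 0, List.all_eq_true.1 grpS13_4 _ (.tail _ (.tail _ (.tail _ (.head _))))⟩
def grpS13_5 : ([subst (sub pcS13 ⟨false, false, true, false, false⟩) (tplMG),
    subst (sub pcS13 ⟨false, true, true, false, false⟩) (tplMG),
    subst (sub pcS13 ⟨true, false, true, false, false⟩) (tplMG),
    subst (sub pcS13 ⟨true, true, true, false, false⟩) (tplMG)].all
    (checkFour (boxS13.vC) 506 26 20 6 0)) = true := by decide +kernel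
def chkS13_22 : Chk (boxS13.vC) (subst (sub pcS13 ⟨false, false, true, false, false⟩) (tplMG)) :=
  ⟨506, 26, 20, 6, 0, List.all_eq_true.1 grpS13_5 _ (.head _)⟩
def chkS13_23 : Chk (boxS13.vC) (subst (sub pcS13 ⟨false, true, true, false, false⟩) (tplMG)) :=
  ⟨506, 26, 20, 6, 0, List.all_eq_true.1 grpS13_5 _ (.tail _ (.head _))⟩
def chkS13_24 : Chk (boxS13.vC) (subst (sub pcS13 ⟨true, false, true, false, false⟩) (tplMG)) :=
  ⟨506, 26, 20, 6, 0, List.all_eq_true.1 grpS13_5 _ (.tail _ (.tail _ (.head _)))⟩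
def chkS13_25 : Chk (boxS13.vC) (subst (sub pcS13 ⟨true, true, true, false, false⟩) (tplMG)) :=
  ⟨506, 26, 20, 6, 0, List.all_eq_true.1 grpS13_5 _ (.tail _ (.tail _ (.tail _ (.head _))))⟩
def grpS13_6 : ([subst (sub pcS13 ⟨false, false, false, false, false⟩) (pcS13.m1),
    subst (sub pcS13 ⟨false, true, false, false, false⟩) (pcS13.m1),
    subst (sub pcS13 ⟨true, false, false, false, false⟩) (pcS13.m1),
    subst (sub pcS13 ⟨true, true, false, false, false⟩) (pcS13.m1)].all
    (checkFour (boxS13.vC) 347 17 14 4 0)) = true := by decide +kernel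
def chkS13_26 : Chk (boxS13.vC) (subst (sub pcS13 ⟨false, false, false, false, false⟩) (pcS13.m1)) :=
  ⟨347, 17, 14, 4, 0, List.all_eq_true.1 grpS13_6 _ (.head _)⟩
def chkS13_27 : Chk (boxS13.vC) (subst (sub pcS13 ⟨false, true, false, false, false⟩) (pcS13.m1)) :=
  ⟨347, 17, 14, 4, 0, List.all_eq_true.1 grpS13_6 _ (.tail _ (.head _))⟩
def chkS13_28 : Chk (boxS13.vC) (subst (sub pcS13 ⟨true, false, false, false, false⟩) (pcS13.m1)) :=
  ⟨347, 17, 14, 4, 0, List.all_eq_true.1 grpS13_6 _ (.tail _ (.tail _ (.head _)))⟩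
def chkS13_29 : Chk (boxS13.vC) (subst (sub pcS13 ⟨true, true, false, false, false⟩) (pcS13.m1)) :=
  ⟨347, 17, 14, 4, 0, List.all_eq_true.1 grpS13_6 _ (.tail _ (.tail _ (.tail _ (.head _))))⟩
def chkS13_30 : Chk (boxS13.vC) (subst (sub pcS13 ⟨false, false, true, false, false⟩) (strict (pcS13.m2 false))) :=
  ⟨536, 24, 19, 6, 0, by decide +kernel⟩
def chkS13_31 : Chk (boxS13.vC) (subst (sub pcS13 ⟨false, false, true, false, true⟩) (strict (pcS13.m2 false))) :=
  ⟨534, 24, 19, 6, 0, by decide +kernel⟩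
def chkS13_32 : Chk (boxS13.vC) (subst (sub pcS13 ⟨true, false, true, false, false⟩) (strict (pcS13.m2 false))) :=
  ⟨536, 24, 19, 6, 0, by decide +kernel⟩
def chkS13_33 : Chk (boxS13.vC) (subst (sub pcS13 ⟨true, false, true, false, true⟩) (strict (pcS13.m2 false))) :=
  ⟨534, 24, 19, 6, 0, by decide +kernel⟩
def chkS13_34 : Chk (boxS13.vC) (subst (sub pcS13 ⟨false, true, true, false, false⟩) (strict (pcS13.m2 true))) :=
  ⟨538, 24, 19, 6, 0, by decide +kernel⟩
def chkS13_35 : Chk (boxS13.vC) (subst (sub pcS13 ⟨false, true, true, false, true⟩) (strict (pcS13.m2 true))) :=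
  ⟨536, 24, 19, 6, 0, by decide +kernel⟩
def chkS13_36 : Chk (boxS13.vC) (subst (sub pcS13 ⟨true, true, true, false, false⟩) (strict (pcS13.m2 true))) :=
  ⟨538, 24, 19, 6, 0, by decide +kernel⟩
def chkS13_37 : Chk (boxS13.vC) (subst (sub pcS13 ⟨true, true, true, false, true⟩) (strict (pcS13.m2 true))) :=
  ⟨536, 24, 19, 6, 0, by decide +kernel⟩
def grpS13_15 : ([subst (sub pcS13 ⟨false, false, true, true, false⟩) (strict (pcS13.m3 false)),
    subst (sub pcS13 ⟨false, false, true, true, true⟩) (strict (pcS13.m3 false)),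
    subst (sub pcS13 ⟨false, false, true, true, false⟩) (strict (pcS13.m3 true)),
    subst (sub pcS13 ⟨false, false, true, true, true⟩) (strict (pcS13.m3 true))].all
    (checkFour (boxS13.vC) 666 31 25 6 0)) = true := by decide +kernel
def chkS13_38 : Chk (boxS13.vC) (subst (sub pcS13 ⟨false, false, true, true, false⟩) (strict (pcS13.m3 false))) :=
  ⟨666, 31, 25, 6, 0, List.all_eq_true.1 grpS13_15 _ (.head _)⟩
def chkS13_39 : Chk (boxS13.vC) (subst (sub pcS13 ⟨false, false, true, true, true⟩) (strict (pcS13.m3 false))) :=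
  ⟨666, 31, 25, 6, 0, List.all_eq_true.1 grpS13_15 _ (.tail _ (.head _))⟩
def chkS13_46 : Chk (boxS13.vC) (subst (sub pcS13 ⟨false, false, true, true, false⟩) (strict (pcS13.m3 true))) :=
  ⟨666, 31, 25, 6, 0, List.all_eq_true.1 grpS13_15 _ (.tail _ (.tail _ (.head _)))⟩
def chkS13_47 : Chk (boxS13.vC) (subst (sub pcS13 ⟨false, false, true, true, true⟩) (strict (pcS13.m3 true))) :=
  ⟨666, 31, 25, 6, 0, List.all_eq_true.1 grpS13_15 _ (.tail _ (.tail _ (.tail _ (.head _))))⟩
def grpS13_16 : ([subst (sub pcS13 ⟨false, true, true, true, false⟩) (strict (pcS13.m3 false)),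
    subst (sub pcS13 ⟨false, true, true, true, true⟩) (strict (pcS13.m3 false)),
    subst (sub pcS13 ⟨false, true, true, true, false⟩) (strict (pcS13.m3 true)),
    subst (sub pcS13 ⟨false, true, true, true, true⟩) (strict (pcS13.m3 true))].all
    (checkFour (boxS13.vC) 671 31 25 6 0)) = true := by decide +kernel
def chkS13_40 : Chk (boxS13.vC) (subst (sub pcS13 ⟨false, true, true, true, false⟩) (strict (pcS13.m3 false))) :=
  ⟨671, 31, 25, 6, 0, List.all_eq_true.1 grpS13_16 _ (.head _)⟩
def chkS13_41 : Chk (boxS13.vC) (subst (sub pcS13 ⟨false, true, true, true, true⟩) (strict (pcS13.m3 false))) :=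
  ⟨671, 31, 25, 6, 0, List.all_eq_true.1 grpS13_16 _ (.tail _ (.head _))⟩
def chkS13_48 : Chk (boxS13.vC) (subst (sub pcS13 ⟨false, true, true, true, false⟩) (strict (pcS13.m3 true))) :=
  ⟨671, 31, 25, 6, 0, List.all_eq_true.1 grpS13_16 _ (.tail _ (.tail _ (.head _)))⟩
def chkS13_49 : Chk (boxS13.vC) (subst (sub pcS13 ⟨false, true, true, true, true⟩) (strict (pcS13.m3 true))) :=
  ⟨671, 31, 25, 6, 0, List.all_eq_true.1 grpS13_16 _ (.tail _ (.tail _ (.tail _ (.head _))))⟩
def grpS13_17 : ([subst (sub pcS13 ⟨true, false, true, true, false⟩) (strict (pcS13.m3 false)),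
    subst (sub pcS13 ⟨true, false, true, true, true⟩) (strict (pcS13.m3 false)),
    subst (sub pcS13 ⟨true, false, true, true, false⟩) (strict (pcS13.m3 true)),
    subst (sub pcS13 ⟨true, false, true, true, true⟩) (strict (pcS13.m3 true))].all
    (checkFour (boxS13.vC) 666 31 25 6 0)) = true := by decide +kernel
def chkS13_42 : Chk (boxS13.vC) (subst (sub pcS13 ⟨true, false, true, true, false⟩) (strict (pcS13.m3 false))) :=
  ⟨666, 31, 25, 6, 0, List.all_eq_true.1 grpS13_17 _ (.head _)⟩
def chkS13_43 : Chk (boxS13.vC) (subst (sub pcS13 ⟨true, false, true, true, true⟩) (strict (pcS13.m3 false))) :=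
  ⟨666, 31, 25, 6, 0, List.all_eq_true.1 grpS13_17 _ (.tail _ (.head _))⟩
def chkS13_50 : Chk (boxS13.vC) (subst (sub pcS13 ⟨true, false, true, true, false⟩) (strict (pcS13.m3 true))) :=
  ⟨666, 31, 25, 6, 0, List.all_eq_true.1 grpS13_17 _ (.tail _ (.tail _ (.head _)))⟩
def chkS13_51 : Chk (boxS13.vC) (subst (sub pcS13 ⟨true, false, true, true, true⟩) (strict (pcS13.m3 true))) :=
  ⟨666, 31, 25, 6, 0, List.all_eq_true.1 grpS13_17 _ (.tail _ (.tail _ (.tail _ (.head _))))⟩
def grpS13_18 : ([subst (sub pcS13 ⟨true, true, true, true, false⟩) (strict (pcS13.m3 false)),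
    subst (sub pcS13 ⟨true, true, true, true, true⟩) (strict (pcS13.m3 false)),
    subst (sub pcS13 ⟨true, true, true, true, false⟩) (strict (pcS13.m3 true)),
    subst (sub pcS13 ⟨true, true, true, true, true⟩) (strict (pcS13.m3 true))].all
    (checkFour (boxS13.vC) 671 31 25 6 0)) = true := by decide +kernel
def chkS13_44 : Chk (boxS13.vC) (subst (sub pcS13 ⟨true, true, true, true, false⟩) (strict (pcS13.m3 false))) :=
  ⟨671, 31, 25, 6, 0, List.all_eq_true.1 grpS13_18 _ (.head _)⟩
def chkS13_45 : Chk (boxS13.vC) (subst (sub pcS13 ⟨true, true, true, true, true⟩) (strict (pcS13.m3 false))) :=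
  ⟨671, 31, 25, 6, 0, List.all_eq_true.1 grpS13_18 _ (.tail _ (.head _))⟩
def chkS13_52 : Chk (boxS13.vC) (subst (sub pcS13 ⟨true, true, true, true, false⟩) (strict (pcS13.m3 true))) :=
  ⟨671, 31, 25, 6, 0, List.all_eq_true.1 grpS13_18 _ (.tail _ (.tail _ (.head _)))⟩
def chkS13_53 : Chk (boxS13.vC) (subst (sub pcS13 ⟨true, true, true, true, true⟩) (strict (pcS13.m3 true))) :=
  ⟨671, 31, 25, 6, 0, List.all_eq_true.1 grpS13_18 _ (.tail _ (.tail _ (.tail _ (.head _))))⟩
def grpS13_19 : ([subst (sub pcS13 ⟨false, false, true, true, false⟩) (negEx coMG12),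
    subst (sub pcS13 ⟨false, false, true, true, false⟩) (negEx (pcS13.curve2 false)),
    subst (sub pcS13 ⟨false, false, true, true, false⟩) (negEx (pcS13.curve2 true))].all
    (checkFour (boxS13.vC) 123 5 5 4 0)) = true := by decide +kernel
def chkS13_54 : Chk (boxS13.vC) (subst (sub pcS13 ⟨false, false, true, true, false⟩) (negEx coMG12)) :=
  ⟨123, 5, 5, 4, 0, List.all_eq_true.1 grpS13_19 _ (.head _)⟩
def chkS13_55 : Chk (boxS13.vC) (subst (sub pcS13 ⟨false, false, true, true, false⟩) (negEx (pcS13.curve2 false))) :=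
  ⟨123, 5, 5, 4, 0, List.all_eq_true.1 grpS13_19 _ (.tail _ (.head _))⟩
def chkS13_56 : Chk (boxS13.vC) (subst (sub pcS13 ⟨false, false, true, true, false⟩) (negEx (pcS13.curve2 true))) :=
  ⟨123, 5, 5, 4, 0, List.all_eq_true.1 grpS13_19 _ (.tail _ (.tail _ (.head _)))⟩
def grpS13_20 : ([subst (sub pcS13 ⟨false, false, true, true, false⟩) (negEx (pcS13.curve3 false)),
    subst (sub pcS13 ⟨false, false, true, true, false⟩) (negEx (pcS13.curve3 true))].all
    (checkFour (boxS13.vC) 138 6 6 4 0)) = true := by decide +kernel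
def chkS13_57 : Chk (boxS13.vC) (subst (sub pcS13 ⟨false, false, true, true, false⟩) (negEx (pcS13.curve3 false))) :=
  ⟨138, 6, 6, 4, 0, List.all_eq_true.1 grpS13_20 _ (.head _)⟩
def chkS13_58 : Chk (boxS13.vC) (subst (sub pcS13 ⟨false, false, true, true, false⟩) (negEx (pcS13.curve3 true))) :=
  ⟨138, 6, 6, 4, 0, List.all_eq_true.1 grpS13_20 _ (.tail _ (.head _))⟩
def grpS13_21 : ([subst (sub pcS13 ⟨false, false, true, true, false⟩) (slopeT),
    subst (sub pcS13 ⟨true, false, true, true, false⟩) (slopeT)].all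
    (checkFour (boxS13.vC) 150 7 6 4 0)) = true := by decide +kernel
def chkS13_59 : Chk (boxS13.vC) (subst (sub pcS13 ⟨false, false, true, true, false⟩) (slopeT)) :=
  ⟨150, 7, 6, 4, 0, List.all_eq_true.1 grpS13_21 _ (.head _)⟩
def chkS13_60 : Chk (boxS13.vC) (subst (sub pcS13 ⟨true, false, true, true, false⟩) (slopeT)) :=
  ⟨150, 7, 6, 4, 0, List.all_eq_true.1 grpS13_21 _ (.tail _ (.head _))⟩
def grpS13_22 : ([subst (gapSub pcS13 true false false) tplL,
    subst (gapSub pcS13 true false true) tplL,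
    subst (gapSub pcS13 true true false) tplL,
    subst (gapSub pcS13 true true true) tplL].all
    (checkFour (boxS13.gC true) 409 22 17 5 2)) = true := by decide +kernel
def chkS13_61 : Chk (boxS13.gC true) (subst (gapSub pcS13 true false false) tplL) :=
  ⟨409, 22, 17, 5, 2, List.all_eq_true.1 grpS13_22 _ (.head _)⟩
def chkS13_62 : Chk (boxS13.gC true) (subst (gapSub pcS13 true false true) tplL) :=
  ⟨409, 22, 17, 5, 2, List.all_eq_true.1 grpS13_22 _ (.tail _ (.head _))⟩
def chkS13_63 : Chk (boxS13.gC true) (subst (gapSub pcS13 true true false) tplL) :=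
  ⟨409, 22, 17, 5, 2, List.all_eq_true.1 grpS13_22 _ (.tail _ (.tail _ (.head _)))⟩
def chkS13_64 : Chk (boxS13.gC true) (subst (gapSub pcS13 true true true) tplL) :=
  ⟨409, 22, 17, 5, 2, List.all_eq_true.1 grpS13_22 _ (.tail _ (.tail _ (.tail _ (.head _))))⟩

/-- Piece 13 passes. -/
theorem certS13 : Cert pcS13 boxS13 true where
  pos := by
    refine ⟨⟨⟨?_, ?_, ?_, ?_, ?_, ?_, ?_⟩, ?_, ?_, ?_, ?_, ?_, ?_, ?_, ?_, ?_, ?_, ?_⟩, ?_, ?_⟩ <;>
      norm_num [fr, pcS13]
  gX := fun p l => match p, l with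
    | false, false => chkS13_18
    | false, true => chkS13_19
    | true, false => chkS13_20
    | true, true => chkS13_21
  gMG := fun p l => match p, l with
    | false, false => chkS13_22
    | false, true => chkS13_23
    | true, false => chkS13_24
    | true, true => chkS13_25
  g1 := fun p l => match p, l with
    | false, false => chkS13_26
    | false, true => chkS13_27
    | true, false => chkS13_28
    | true, true => chkS13_29
  g2 := fun s p t => match s, p, t with
    | false, false, false => chkS13_30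
    | false, false, true => chkS13_31
    | false, true, false => chkS13_32
    | false, true, true => chkS13_33
    | true, false, false => chkS13_34
    | true, false, true => chkS13_35
    | true, true, false => chkS13_36
    | true, true, true => chkS13_37
  g3 := fun s p l t => match s, p, l, t with
    | false, false, false, false => chkS13_38
    | false, false, false, true => chkS13_39
    | false, false, true, false => chkS13_40
    | false, false, true, true => chkS13_41
    | false, true, false, false => chkS13_42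
    | false, true, false, true => chkS13_43
    | false, true, true, false => chkS13_44
    | false, true, true, true => chkS13_45
    | true, false, false, false => chkS13_46
    | true, false, false, true => chkS13_47
    | true, false, true, false => chkS13_48
    | true, false, true, true => chkS13_49
    | true, true, false, false => chkS13_50
    | true, true, false, true => chkS13_51
    | true, true, true, false => chkS13_52
    | true, true, true, true => chkS13_53
  cMG := chkS13_54
  c2 := fun s => match s with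
    | false => chkS13_55
    | true => chkS13_56
  c3 := fun s => match s with
    | false => chkS13_57
    | true => chkS13_58
  sT := fun p => match p with
    | false => chkS13_59
    | true => chkS13_60
  bnd := fun ze b => match ze, b with
    | false, .l0 => chkS13_0
    | false, .l1 => chkS13_1
    | false, .r => chkS13_2
    | false, .g0 => chkS13_3
    | false, .g1 => chkS13_4
    | false, .t0 => chkS13_5
    | false, .t1 => chkS13_6
    | false, .w0 => chkS13_7
    | false, .w1 => chkS13_8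
    | true, .l0 => chkS13_9
    | true, .l1 => chkS13_10
    | true, .r => chkS13_11
    | true, .g0 => chkS13_12
    | true, .g1 => chkS13_13
    | true, .t0 => chkS13_14
    | true, .t1 => chkS13_15
    | true, .w0 => chkS13_16
    | true, .w1 => chkS13_17
  gap := fun ze t => match ze, t with
    | false, false => chkS13_61
    | false, true => chkS13_62
    | true, false => chkS13_63
    | true, true => chkS13_64

/-- A window of piece 13. -/
def winS13L : Win := ⟨.D, (10, 27, 200), (11, 15, 100), (-29, 25, 50), (50, 303, 100), (303, 17100, 100), (25, 54, 100), false, false, (83, -52), (598, 1000)⟩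

/-- The window passes. -/
theorem winS13L_ok : winS13L.Cert where
  fits := ⟨by norm_num [winS13L], by norm_num [winS13L, qLo], by norm_num [winS13L, qLo, qHi],
    by norm_num [winS13L, qLo, qHi], by norm_num [winS13L, qLo], by norm_num [winS13L, qHi]⟩
  cross := ⟨242, 8, 6, 2, 7, by decide +kernel⟩
  exit := ⟨251, 10, 7, 3, 8, by decide +kernel⟩
  mix := ⟨330, 12, 9, 3, 11, by decide +kernel⟩

/-- The tight band is crossed one way on piece 13. -/
theorem bandS13 : Chk (winS13L.chart (22, 27, 50) winS13L.qc) (sBand winS13L.kind) :=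
  ⟨405, 15, 11, 3, 14, by decide +kernel⟩

end Vale.Agent.P100.Calib.StripMid
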