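import Vale.Agent.P100.Calib.SlabStripMidSevWindow

/-!
# The checks of piece 14 below 153/200 for `N` between seven and twenty
-/

set_option linter.defProp false

namespace Vale.Agent.P100.Calib.StripMid

open Pack

/-- The numbers of piece 14. -/
def pcS14 : Piece := ⟨.D, (1, 4), (27, 50), (31, 50), (51, 100), (327, 100), (931, 1000), (1551, 1000), (19, 20), (839, -900, 1000), (493, -220, 500), 68, (162,-280,450,5), (289, 250), (1731, 1000), (9, 20), (3, 5), (7, 5)⟩

/-- The ranges of piece 14. -/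
def boxS14 : Box := ⟨(10, 23, 200), (15, 28, 100), (9, 223, 100), (51, 327, 100), (25, 54, 100)⟩

def grpS14_0 : ([bound pcS14 false .l0,
    bound pcS14 false .l1,
    bound pcS14 false .r,
    bound pcS14 true .l0,
    bound pcS14 true .l1,
    bound pcS14 true .r].all
    (checkFour (boxS14.cC) 249 13 9 2 3)) = true := by decide +kernel
def chkS14_0 : Chk (boxS14.cC) (bound pcS14 false .l0) :=
  ⟨249, 13, 9, 2, 3, List.all_eq_true.1 grpS14_0 _ (.head _)⟩
def chkS14_1 : Chk (boxS14.cC) (bound pcS14 false .l1) :=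
  ⟨249, 13, 9, 2, 3, List.all_eq_true.1 grpS14_0 _ (.tail _ (.head _))⟩
def chkS14_2 : Chk (boxS14.cC) (bound pcS14 false .r) :=
  ⟨249, 13, 9, 2, 3, List.all_eq_true.1 grpS14_0 _ (.tail _ (.tail _ (.head _)))⟩
def chkS14_9 : Chk (boxS14.cC) (bound pcS14 true .l0) :=
  ⟨249, 13, 9, 2, 3, List.all_eq_true.1 grpS14_0 _ (.tail _ (.tail _ (.tail _ (.head _))))⟩
def chkS14_10 : Chk (boxS14.cC) (bound pcS14 true .l1) :=
  ⟨249, 13, 9, 2, 3, List.all_eq_true.1 grpS14_0 _ (.tail _ (.tail _ (.tail _ (.tail _ (.head _)))))⟩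
def chkS14_11 : Chk (boxS14.cC) (bound pcS14 true .r) :=
  ⟨249, 13, 9, 2, 3, List.all_eq_true.1 grpS14_0 _ (.tail _ (.tail _ (.tail _ (.tail _ (.tail _ (.head _))))))⟩
def grpS14_1 : ([bound pcS14 false .g0,
    bound pcS14 false .g1,
    bound pcS14 true .g0,
    bound pcS14 true .g1].all
    (checkFour (boxS14.cC) 102 4 3 1 2)) = true := by decide +kernel
def chkS14_3 : Chk (boxS14.cC) (bound pcS14 false .g0) :=
  ⟨102, 4, 3, 1, 2, List.all_eq_true.1 grpS14_1 _ (.head _)⟩
def chkS14_4 : Chk (boxS14.cC) (bound pcS14 false .g1) :=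
  ⟨102, 4, 3, 1, 2, List.all_eq_true.1 grpS14_1 _ (.tail _ (.head _))⟩
def chkS14_12 : Chk (boxS14.cC) (bound pcS14 true .g0) :=
  ⟨102, 4, 3, 1, 2, List.all_eq_true.1 grpS14_1 _ (.tail _ (.tail _ (.head _)))⟩
def chkS14_13 : Chk (boxS14.cC) (bound pcS14 true .g1) :=
  ⟨102, 4, 3, 1, 2, List.all_eq_true.1 grpS14_1 _ (.tail _ (.tail _ (.tail _ (.head _))))⟩
def grpS14_2 : ([bound pcS14 false .t0,
    bound pcS14 false .t1,
    bound pcS14 true .t0,
    bound pcS14 true .t1].all
    (checkFour (boxS14.cC) 157 6 6 2 3)) = true := by decide +kernel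
def chkS14_5 : Chk (boxS14.cC) (bound pcS14 false .t0) :=
  ⟨157, 6, 6, 2, 3, List.all_eq_true.1 grpS14_2 _ (.head _)⟩
def chkS14_6 : Chk (boxS14.cC) (bound pcS14 false .t1) :=
  ⟨157, 6, 6, 2, 3, List.all_eq_true.1 grpS14_2 _ (.tail _ (.head _))⟩
def chkS14_14 : Chk (boxS14.cC) (bound pcS14 true .t0) :=
  ⟨157, 6, 6, 2, 3, List.all_eq_true.1 grpS14_2 _ (.tail _ (.tail _ (.head _)))⟩
def chkS14_15 : Chk (boxS14.cC) (bound pcS14 true .t1) :=
  ⟨157, 6, 6, 2, 3, List.all_eq_true.1 grpS14_2 _ (.tail _ (.tail _ (.tail _ (.head _))))⟩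
def grpS14_3 : ([bound pcS14 false .w0,
    bound pcS14 false .w1,
    bound pcS14 true .w0,
    bound pcS14 true .w1].all
    (checkFour (boxS14.cC) 212 10 7 3 4)) = true := by decide +kernel
def chkS14_7 : Chk (boxS14.cC) (bound pcS14 false .w0) :=
  ⟨212, 10, 7, 3, 4, List.all_eq_true.1 grpS14_3 _ (.head _)⟩
def chkS14_8 : Chk (boxS14.cC) (bound pcS14 false .w1) :=
  ⟨212, 10, 7, 3, 4, List.all_eq_true.1 grpS14_3 _ (.tail _ (.head _))⟩
def chkS14_16 : Chk (boxS14.cC) (bound pcS14 true .w0) :=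
  ⟨212, 10, 7, 3, 4, List.all_eq_true.1 grpS14_3 _ (.tail _ (.tail _ (.head _)))⟩
def chkS14_17 : Chk (boxS14.cC) (bound pcS14 true .w1) :=
  ⟨212, 10, 7, 3, 4, List.all_eq_true.1 grpS14_3 _ (.tail _ (.tail _ (.tail _ (.head _))))⟩
def grpS14_4 : ([subst (sub pcS14 ⟨false, false, true, true, false⟩) (condX),
    subst (sub pcS14 ⟨false, true, true, true, false⟩) (condX),
    subst (sub pcS14 ⟨true, false, true, true, false⟩) (condX),
    subst (sub pcS14 ⟨true, true, true, true, false⟩) (condX)].all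
    (checkFour (boxS14.vC) 263 13 10 4 0)) = true := by decide +kernel
def chkS14_18 : Chk (boxS14.vC) (subst (sub pcS14 ⟨false, false, true, true, false⟩) (condX)) :=
  ⟨263, 13, 10, 4, 0, List.all_eq_true.1 grpS14_4 _ (.head _)⟩
def chkS14_19 : Chk (boxS14.vC) (subst (sub pcS14 ⟨false, true, true, true, false⟩) (condX)) :=
  ⟨263, 13, 10, 4, 0, List.all_eq_true.1 grpS14_4 _ (.tail _ (.head _))⟩
def chkS14_20 : Chk (boxS14.vC) (subst (sub pcS14 ⟨true, false, true, true, false⟩) (condX)) :=
  ⟨263, 13, 10, 4, 0, List.all_eq_true.1 grpS14_4 _ (.tail _ (.tail _ (.head _)))⟩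
def chkS14_21 : Chk (boxS14.vC) (subst (sub pcS14 ⟨true, true, true, true, false⟩) (condX)) :=
  ⟨263, 13, 10, 4, 0, List.all_eq_true.1 grpS14_4 _ (.tail _ (.tail _ (.tail _ (.head _))))⟩
def grpS14_5 : ([subst (sub pcS14 ⟨false, false, true, false, false⟩) (tplMG),
    subst (sub pcS14 ⟨false, true, true, false, false⟩) (tplMG),
    subst (sub pcS14 ⟨true, false, true, false, false⟩) (tplMG),
    subst (sub pcS14 ⟨true, true, true, false, false⟩) (tplMG)].all
    (checkFour (boxS14.vC) 504 26 20 6 0)) = true := by decide +kernel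
def chkS14_22 : Chk (boxS14.vC) (subst (sub pcS14 ⟨false, false, true, false, false⟩) (tplMG)) :=
  ⟨504, 26, 20, 6, 0, List.all_eq_true.1 grpS14_5 _ (.head _)⟩
def chkS14_23 : Chk (boxS14.vC) (subst (sub pcS14 ⟨false, true, true, false, false⟩) (tplMG)) :=
  ⟨504, 26, 20, 6, 0, List.all_eq_true.1 grpS14_5 _ (.tail _ (.head _))⟩
def chkS14_24 : Chk (boxS14.vC) (subst (sub pcS14 ⟨true, false, true, false, false⟩) (tplMG)) :=
  ⟨504, 26, 20, 6, 0, List.all_eq_true.1 grpS14_5 _ (.tail _ (.tail _ (.head _)))⟩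
def chkS14_25 : Chk (boxS14.vC) (subst (sub pcS14 ⟨true, true, true, false, false⟩) (tplMG)) :=
  ⟨504, 26, 20, 6, 0, List.all_eq_true.1 grpS14_5 _ (.tail _ (.tail _ (.tail _ (.head _))))⟩
def grpS14_6 : ([subst (sub pcS14 ⟨false, false, false, false, false⟩) (pcS14.m1),
    subst (sub pcS14 ⟨false, true, false, false, false⟩) (pcS14.m1),
    subst (sub pcS14 ⟨true, false, false, false, false⟩) (pcS14.m1),
    subst (sub pcS14 ⟨true, true, false, false, false⟩) (pcS14.m1)].all
    (checkFour (boxS14.vC) 346 17 14 4 0)) = true := by decide +kernel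
def chkS14_26 : Chk (boxS14.vC) (subst (sub pcS14 ⟨false, false, false, false, false⟩) (pcS14.m1)) :=
  ⟨346, 17, 14, 4, 0, List.all_eq_true.1 grpS14_6 _ (.head _)⟩
def chkS14_27 : Chk (boxS14.vC) (subst (sub pcS14 ⟨false, true, false, false, false⟩) (pcS14.m1)) :=
  ⟨346, 17, 14, 4, 0, List.all_eq_true.1 grpS14_6 _ (.tail _ (.head _))⟩
def chkS14_28 : Chk (boxS14.vC) (subst (sub pcS14 ⟨true, false, false, false, false⟩) (pcS14.m1)) :=
  ⟨346, 17, 14, 4, 0, List.all_eq_true.1 grpS14_6 _ (.tail _ (.tail _ (.head _)))⟩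
def chkS14_29 : Chk (boxS14.vC) (subst (sub pcS14 ⟨true, true, false, false, false⟩) (pcS14.m1)) :=
  ⟨346, 17, 14, 4, 0, List.all_eq_true.1 grpS14_6 _ (.tail _ (.tail _ (.tail _ (.head _))))⟩
def chkS14_30 : Chk (boxS14.vC) (subst (sub pcS14 ⟨false, false, true, false, false⟩) (strict (pcS14.m2 false))) :=
  ⟨540, 24, 19, 6, 0, by decide +kernel⟩
def chkS14_31 : Chk (boxS14.vC) (subst (sub pcS14 ⟨false, false, true, false, true⟩) (strict (pcS14.m2 false))) :=
  ⟨538, 24, 19, 6, 0, by decide +kernel⟩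
def chkS14_32 : Chk (boxS14.vC) (subst (sub pcS14 ⟨true, false, true, false, false⟩) (strict (pcS14.m2 false))) :=
  ⟨540, 24, 19, 6, 0, by decide +kernel⟩
def chkS14_33 : Chk (boxS14.vC) (subst (sub pcS14 ⟨true, false, true, false, true⟩) (strict (pcS14.m2 false))) :=
  ⟨538, 24, 19, 6, 0, by decide +kernel⟩
def chkS14_34 : Chk (boxS14.vC) (subst (sub pcS14 ⟨false, true, true, false, false⟩) (strict (pcS14.m2 true))) :=
  ⟨540, 24, 19, 6, 0, by decide +kernel⟩
def chkS14_35 : Chk (boxS14.vC) (subst (sub pcS14 ⟨false, true, true, false, true⟩) (strict (pcS14.m2 true))) :=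
  ⟨538, 24, 19, 6, 0, by decide +kernel⟩
def chkS14_36 : Chk (boxS14.vC) (subst (sub pcS14 ⟨true, true, true, false, false⟩) (strict (pcS14.m2 true))) :=
  ⟨540, 24, 19, 6, 0, by decide +kernel⟩
def chkS14_37 : Chk (boxS14.vC) (subst (sub pcS14 ⟨true, true, true, false, true⟩) (strict (pcS14.m2 true))) :=
  ⟨538, 24, 19, 6, 0, by decide +kernel⟩
def grpS14_15 : ([subst (sub pcS14 ⟨false, false, true, true, false⟩) (strict (pcS14.m3 false)),
    subst (sub pcS14 ⟨false, false, true, true, true⟩) (strict (pcS14.m3 false)),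
    subst (sub pcS14 ⟨false, false, true, true, false⟩) (strict (pcS14.m3 true)),
    subst (sub pcS14 ⟨false, false, true, true, true⟩) (strict (pcS14.m3 true))].all
    (checkFour (boxS14.vC) 668 31 25 6 0)) = true := by decide +kernel
def chkS14_38 : Chk (boxS14.vC) (subst (sub pcS14 ⟨false, false, true, true, false⟩) (strict (pcS14.m3 false))) :=
  ⟨668, 31, 25, 6, 0, List.all_eq_true.1 grpS14_15 _ (.head _)⟩
def chkS14_39 : Chk (boxS14.vC) (subst (sub pcS14 ⟨false, false, true, true, true⟩) (strict (pcS14.m3 false))) :=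
  ⟨668, 31, 25, 6, 0, List.all_eq_true.1 grpS14_15 _ (.tail _ (.head _))⟩
def chkS14_46 : Chk (boxS14.vC) (subst (sub pcS14 ⟨false, false, true, true, false⟩) (strict (pcS14.m3 true))) :=
  ⟨668, 31, 25, 6, 0, List.all_eq_true.1 grpS14_15 _ (.tail _ (.tail _ (.head _)))⟩
def chkS14_47 : Chk (boxS14.vC) (subst (sub pcS14 ⟨false, false, true, true, true⟩) (strict (pcS14.m3 true))) :=
  ⟨668, 31, 25, 6, 0, List.all_eq_true.1 grpS14_15 _ (.tail _ (.tail _ (.tail _ (.head _))))⟩
def grpS14_16 : ([subst (sub pcS14 ⟨false, true, true, true, false⟩) (strict (pcS14.m3 false)),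
    subst (sub pcS14 ⟨false, true, true, true, true⟩) (strict (pcS14.m3 false)),
    subst (sub pcS14 ⟨false, true, true, true, false⟩) (strict (pcS14.m3 true)),
    subst (sub pcS14 ⟨false, true, true, true, true⟩) (strict (pcS14.m3 true))].all
    (checkFour (boxS14.vC) 668 31 25 6 0)) = true := by decide +kernel
def chkS14_40 : Chk (boxS14.vC) (subst (sub pcS14 ⟨false, true, true, true, false⟩) (strict (pcS14.m3 false))) :=
  ⟨668, 31, 25, 6, 0, List.all_eq_true.1 grpS14_16 _ (.head _)⟩
def chkS14_41 : Chk (boxS14.vC) (subst (sub pcS14 ⟨false, true, true, true, true⟩) (strict (pcS14.m3 false))) :=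
  ⟨668, 31, 25, 6, 0, List.all_eq_true.1 grpS14_16 _ (.tail _ (.head _))⟩
def chkS14_48 : Chk (boxS14.vC) (subst (sub pcS14 ⟨false, true, true, true, false⟩) (strict (pcS14.m3 true))) :=
  ⟨668, 31, 25, 6, 0, List.all_eq_true.1 grpS14_16 _ (.tail _ (.tail _ (.head _)))⟩
def chkS14_49 : Chk (boxS14.vC) (subst (sub pcS14 ⟨false, true, true, true, true⟩) (strict (pcS14.m3 true))) :=
  ⟨668, 31, 25, 6, 0, List.all_eq_true.1 grpS14_16 _ (.tail _ (.tail _ (.tail _ (.head _))))⟩
def grpS14_17 : ([subst (sub pcS14 ⟨true, false, true, true, false⟩) (strict (pcS14.m3 false)),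
    subst (sub pcS14 ⟨true, false, true, true, true⟩) (strict (pcS14.m3 false)),
    subst (sub pcS14 ⟨true, false, true, true, false⟩) (strict (pcS14.m3 true)),
    subst (sub pcS14 ⟨true, false, true, true, true⟩) (strict (pcS14.m3 true))].all
    (checkFour (boxS14.vC) 668 31 25 6 0)) = true := by decide +kernel
def chkS14_42 : Chk (boxS14.vC) (subst (sub pcS14 ⟨true, false, true, true, false⟩) (strict (pcS14.m3 false))) :=
  ⟨668, 31, 25, 6, 0, List.all_eq_true.1 grpS14_17 _ (.head _)⟩
def chkS14_43 : Chk (boxS14.vC) (subst (sub pcS14 ⟨true, false, true, true, true⟩) (strict (pcS14.m3 false))) :=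
  ⟨668, 31, 25, 6, 0, List.all_eq_true.1 grpS14_17 _ (.tail _ (.head _))⟩
def chkS14_50 : Chk (boxS14.vC) (subst (sub pcS14 ⟨true, false, true, true, false⟩) (strict (pcS14.m3 true))) :=
  ⟨668, 31, 25, 6, 0, List.all_eq_true.1 grpS14_17 _ (.tail _ (.tail _ (.head _)))⟩
def chkS14_51 : Chk (boxS14.vC) (subst (sub pcS14 ⟨true, false, true, true, true⟩) (strict (pcS14.m3 true))) :=
  ⟨668, 31, 25, 6, 0, List.all_eq_true.1 grpS14_17 _ (.tail _ (.tail _ (.tail _ (.head _))))⟩
def grpS14_18 : ([subst (sub pcS14 ⟨true, true, true, true, false⟩) (strict (pcS14.m3 false)),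
    subst (sub pcS14 ⟨true, true, true, true, true⟩) (strict (pcS14.m3 false)),
    subst (sub pcS14 ⟨true, true, true, true, false⟩) (strict (pcS14.m3 true)),
    subst (sub pcS14 ⟨true, true, true, true, true⟩) (strict (pcS14.m3 true))].all
    (checkFour (boxS14.vC) 668 31 25 6 0)) = true := by decide +kernel
def chkS14_44 : Chk (boxS14.vC) (subst (sub pcS14 ⟨true, true, true, true, false⟩) (strict (pcS14.m3 false))) :=
  ⟨668, 31, 25, 6, 0, List.all_eq_true.1 grpS14_18 _ (.head _)⟩
def chkS14_45 : Chk (boxS14.vC) (subst (sub pcS14 ⟨true, true, true, true, true⟩) (strict (pcS14.m3 false))) :=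
  ⟨668, 31, 25, 6, 0, List.all_eq_true.1 grpS14_18 _ (.tail _ (.head _))⟩
def chkS14_52 : Chk (boxS14.vC) (subst (sub pcS14 ⟨true, true, true, true, false⟩) (strict (pcS14.m3 true))) :=
  ⟨668, 31, 25, 6, 0, List.all_eq_true.1 grpS14_18 _ (.tail _ (.tail _ (.head _)))⟩
def chkS14_53 : Chk (boxS14.vC) (subst (sub pcS14 ⟨true, true, true, true, true⟩) (strict (pcS14.m3 true))) :=
  ⟨668, 31, 25, 6, 0, List.all_eq_true.1 grpS14_18 _ (.tail _ (.tail _ (.tail _ (.head _))))⟩
def grpS14_19 : ([subst (sub pcS14 ⟨false, false, true, true, false⟩) (negEx coMG12),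
    subst (sub pcS14 ⟨false, false, true, true, false⟩) (negEx (pcS14.curve2 false)),
    subst (sub pcS14 ⟨false, false, true, true, false⟩) (negEx (pcS14.curve2 true))].all
    (checkFour (boxS14.vC) 124 5 5 4 0)) = true := by decide +kernel
def chkS14_54 : Chk (boxS14.vC) (subst (sub pcS14 ⟨false, false, true, true, false⟩) (negEx coMG12)) :=
  ⟨124, 5, 5, 4, 0, List.all_eq_true.1 grpS14_19 _ (.head _)⟩
def chkS14_55 : Chk (boxS14.vC) (subst (sub pcS14 ⟨false, false, true, true, false⟩) (negEx (pcS14.curve2 false))) :=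
  ⟨124, 5, 5, 4, 0, List.all_eq_true.1 grpS14_19 _ (.tail _ (.head _))⟩
def chkS14_56 : Chk (boxS14.vC) (subst (sub pcS14 ⟨false, false, true, true, false⟩) (negEx (pcS14.curve2 true))) :=
  ⟨124, 5, 5, 4, 0, List.all_eq_true.1 grpS14_19 _ (.tail _ (.tail _ (.head _)))⟩
def grpS14_20 : ([subst (sub pcS14 ⟨false, false, true, true, false⟩) (negEx (pcS14.curve3 false)),
    subst (sub pcS14 ⟨false, false, true, true, false⟩) (negEx (pcS14.curve3 true))].all
    (checkFour (boxS14.vC) 138 6 6 4 0)) = true := by decide +kernel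
def chkS14_57 : Chk (boxS14.vC) (subst (sub pcS14 ⟨false, false, true, true, false⟩) (negEx (pcS14.curve3 false))) :=
  ⟨138, 6, 6, 4, 0, List.all_eq_true.1 grpS14_20 _ (.head _)⟩
def chkS14_58 : Chk (boxS14.vC) (subst (sub pcS14 ⟨false, false, true, true, false⟩) (negEx (pcS14.curve3 true))) :=
  ⟨138, 6, 6, 4, 0, List.all_eq_true.1 grpS14_20 _ (.tail _ (.head _))⟩
def grpS14_21 : ([subst (sub pcS14 ⟨false, false, true, true, false⟩) (slopeT),
    subst (sub pcS14 ⟨true, false, true, true, false⟩) (slopeT)].all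
    (checkFour (boxS14.vC) 152 7 6 4 0)) = true := by decide +kernel
def chkS14_59 : Chk (boxS14.vC) (subst (sub pcS14 ⟨false, false, true, true, false⟩) (slopeT)) :=
  ⟨152, 7, 6, 4, 0, List.all_eq_true.1 grpS14_21 _ (.head _)⟩
def chkS14_60 : Chk (boxS14.vC) (subst (sub pcS14 ⟨true, false, true, true, false⟩) (slopeT)) :=
  ⟨152, 7, 6, 4, 0, List.all_eq_true.1 grpS14_21 _ (.tail _ (.head _))⟩
def grpS14_22 : ([subst (gapSub pcS14 true false false) tplL,
    subst (gapSub pcS14 true false true) tplL,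
    subst (gapSub pcS14 true true false) tplL,
    subst (gapSub pcS14 true true true) tplL].all
    (checkFour (boxS14.gC true) 412 22 17 5 2)) = true := by decide +kernel
def chkS14_61 : Chk (boxS14.gC true) (subst (gapSub pcS14 true false false) tplL) :=
  ⟨412, 22, 17, 5, 2, List.all_eq_true.1 grpS14_22 _ (.head _)⟩
def chkS14_62 : Chk (boxS14.gC true) (subst (gapSub pcS14 true false true) tplL) :=
  ⟨412, 22, 17, 5, 2, List.all_eq_true.1 grpS14_22 _ (.tail _ (.head _))⟩
def chkS14_63 : Chk (boxS14.gC true) (subst (gapSub pcS14 true true false) tplL) :=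
  ⟨412, 22, 17, 5, 2, List.all_eq_true.1 grpS14_22 _ (.tail _ (.tail _ (.head _)))⟩
def chkS14_64 : Chk (boxS14.gC true) (subst (gapSub pcS14 true true true) tplL) :=
  ⟨412, 22, 17, 5, 2, List.all_eq_true.1 grpS14_22 _ (.tail _ (.tail _ (.tail _ (.head _))))⟩

/-- Piece 14 passes. -/
theorem certS14 : Cert pcS14 boxS14 true where
  pos := by
    refine ⟨⟨⟨?_, ?_, ?_, ?_, ?_, ?_, ?_⟩, ?_, ?_, ?_, ?_, ?_, ?_, ?_, ?_, ?_, ?_, ?_⟩, ?_, ?_⟩ <;>
      norm_num [fr, pcS14]
  gX := fun p l => match p, l with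
    | false, false => chkS14_18
    | false, true => chkS14_19
    | true, false => chkS14_20
    | true, true => chkS14_21
  gMG := fun p l => match p, l with
    | false, false => chkS14_22
    | false, true => chkS14_23
    | true, false => chkS14_24
    | true, true => chkS14_25
  g1 := fun p l => match p, l with
    | false, false => chkS14_26
    | false, true => chkS14_27
    | true, false => chkS14_28
    | true, true => chkS14_29
  g2 := fun s p t => match s, p, t with
    | false, false, false => chkS14_30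
    | false, false, true => chkS14_31
    | false, true, false => chkS14_32
    | false, true, true => chkS14_33
    | true, false, false => chkS14_34
    | true, false, true => chkS14_35
    | true, true, false => chkS14_36
    | true, true, true => chkS14_37
  g3 := fun s p l t => match s, p, l, t with
    | false, false, false, false => chkS14_38
    | false, false, false, true => chkS14_39
    | false, false, true, false => chkS14_40
    | false, false, true, true => chkS14_41
    | false, true, false, false => chkS14_42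
    | false, true, false, true => chkS14_43
    | false, true, true, false => chkS14_44
    | false, true, true, true => chkS14_45
    | true, false, false, false => chkS14_46
    | true, false, false, true => chkS14_47
    | true, false, true, false => chkS14_48
    | true, false, true, true => chkS14_49
    | true, true, false, false => chkS14_50
    | true, true, false, true => chkS14_51
    | true, true, true, false => chkS14_52
    | true, true, true, true => chkS14_53
  cMG := chkS14_54
  c2 := fun s => match s with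
    | false => chkS14_55
    | true => chkS14_56
  c3 := fun s => match s with
    | false => chkS14_57
    | true => chkS14_58
  sT := fun p => match p with
    | false => chkS14_59
    | true => chkS14_60
  bnd := fun ze b => match ze, b with
    | false, .l0 => chkS14_0
    | false, .l1 => chkS14_1
    | false, .r => chkS14_2
    | false, .g0 => chkS14_3
    | false, .g1 => chkS14_4
    | false, .t0 => chkS14_5
    | false, .t1 => chkS14_6
    | false, .w0 => chkS14_7
    | false, .w1 => chkS14_8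
    | true, .l0 => chkS14_9
    | true, .l1 => chkS14_10
    | true, .r => chkS14_11
    | true, .g0 => chkS14_12
    | true, .g1 => chkS14_13
    | true, .t0 => chkS14_14
    | true, .t1 => chkS14_15
    | true, .w0 => chkS14_16
    | true, .w1 => chkS14_17
  gap := fun ze t => match ze, t with
    | false, false => chkS14_61
    | false, true => chkS14_62
    | true, false => chkS14_63
    | true, true => chkS14_64

/-- A window of piece 14. -/
def winS14L : Win := ⟨.D, (10, 23, 200), (15, 28, 100), (-58, 51, 100), (51, 327, 100), (327, 17100, 100), (25, 54, 100), false, false, (83, -52), (579, 1000)⟩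

/-- The window passes. -/
theorem winS14L_ok : winS14L.Cert where
  fits := ⟨by norm_num [winS14L], by norm_num [winS14L, qLo], by norm_num [winS14L, qLo, qHi],
    by norm_num [winS14L, qLo, qHi], by norm_num [winS14L, qLo], by norm_num [winS14L, qHi]⟩
  cross := ⟨244, 8, 6, 2, 7, by decide +kernel⟩
  exit := ⟨252, 10, 7, 3, 8, by decide +kernel⟩
  mix := ⟨330, 12, 9, 3, 11, by decide +kernel⟩

/-- The tight band is crossed one way on piece 14. -/
theorem bandS14 : Chk (winS14L.chart (22, 27, 50) winS14L.qc) (sBand winS14L.kind) :=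
  ⟨406, 15, 11, 3, 14, by decide +kernel⟩

end Vale.Agent.P100.Calib.StripMid
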