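import Vale.Agent.P100.Calib.SlabStripMidSevWindow

/-!
# The checks of piece 15 below 153/200 for `N` between seven and twenty
-/

set_option linter.defProp false

namespace Vale.Agent.P100.Calib.StripMid

open Pack

/-- The numbers of piece 15. -/
def pcS15 : Piece := ⟨.B, (27, 50), (153, 200), (3, 5), (17, 20), (193, 100), (19, 40), (191, 200), (19, 20), (907, -3000, 1000), (989, -1650, 1000), 38, (2,-56,60,1), (579, 1000), (43, 40), (11, 20), (2, 5), (2, 5)⟩

/-- The ranges of piece 15. -/
def boxS15 : Box := ⟨(93, 150, 2000), (33, 60, 50), (57, 415, 100), (85, 193, 100), (108, 153, 200)⟩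

def grpS15_0 : ([bound pcS15 false .l0,
    bound pcS15 false .l1,
    bound pcS15 false .r,
    bound pcS15 true .l0,
    bound pcS15 true .l1,
    bound pcS15 true .r].all
    (checkFour (boxS15.cC) 319 14 13 2 3)) = true := by decide +kernel
def chkS15_0 : Chk (boxS15.cC) (bound pcS15 false .l0) :=
  ⟨319, 14, 13, 2, 3, List.all_eq_true.1 grpS15_0 _ (.head _)⟩
def chkS15_1 : Chk (boxS15.cC) (bound pcS15 false .l1) :=
  ⟨319, 14, 13, 2, 3, List.all_eq_true.1 grpS15_0 _ (.tail _ (.head _))⟩
def chkS15_2 : Chk (boxS15.cC) (bound pcS15 false .r) :=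
  ⟨319, 14, 13, 2, 3, List.all_eq_true.1 grpS15_0 _ (.tail _ (.tail _ (.head _)))⟩
def chkS15_9 : Chk (boxS15.cC) (bound pcS15 true .l0) :=
  ⟨319, 14, 13, 2, 3, List.all_eq_true.1 grpS15_0 _ (.tail _ (.tail _ (.tail _ (.head _))))⟩
def chkS15_10 : Chk (boxS15.cC) (bound pcS15 true .l1) :=
  ⟨319, 14, 13, 2, 3, List.all_eq_true.1 grpS15_0 _ (.tail _ (.tail _ (.tail _ (.tail _ (.head _)))))⟩
def chkS15_11 : Chk (boxS15.cC) (bound pcS15 true .r) :=
  ⟨319, 14, 13, 2, 3, List.all_eq_true.1 grpS15_0 _ (.tail _ (.tail _ (.tail _ (.tail _ (.tail _ (.head _))))))⟩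
def grpS15_1 : ([bound pcS15 false .g0,
    bound pcS15 false .g1,
    bound pcS15 true .g0,
    bound pcS15 true .g1].all
    (checkFour (boxS15.cC) 129 5 4 1 2)) = true := by decide +kernel
def chkS15_3 : Chk (boxS15.cC) (bound pcS15 false .g0) :=
  ⟨129, 5, 4, 1, 2, List.all_eq_true.1 grpS15_1 _ (.head _)⟩
def chkS15_4 : Chk (boxS15.cC) (bound pcS15 false .g1) :=
  ⟨129, 5, 4, 1, 2, List.all_eq_true.1 grpS15_1 _ (.tail _ (.head _))⟩
def chkS15_12 : Chk (boxS15.cC) (bound pcS15 true .g0) :=
  ⟨129, 5, 4, 1, 2, List.all_eq_true.1 grpS15_1 _ (.tail _ (.tail _ (.head _)))⟩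
def chkS15_13 : Chk (boxS15.cC) (bound pcS15 true .g1) :=
  ⟨129, 5, 4, 1, 2, List.all_eq_true.1 grpS15_1 _ (.tail _ (.tail _ (.tail _ (.head _))))⟩
def grpS15_2 : ([bound pcS15 false .t0,
    bound pcS15 false .t1,
    bound pcS15 true .t0,
    bound pcS15 true .t1].all
    (checkFour (boxS15.cC) 207 9 6 2 3)) = true := by decide +kernel
def chkS15_5 : Chk (boxS15.cC) (bound pcS15 false .t0) :=
  ⟨207, 9, 6, 2, 3, List.all_eq_true.1 grpS15_2 _ (.head _)⟩
def chkS15_6 : Chk (boxS15.cC) (bound pcS15 false .t1) :=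
  ⟨207, 9, 6, 2, 3, List.all_eq_true.1 grpS15_2 _ (.tail _ (.head _))⟩
def chkS15_14 : Chk (boxS15.cC) (bound pcS15 true .t0) :=
  ⟨207, 9, 6, 2, 3, List.all_eq_true.1 grpS15_2 _ (.tail _ (.tail _ (.head _)))⟩
def chkS15_15 : Chk (boxS15.cC) (bound pcS15 true .t1) :=
  ⟨207, 9, 6, 2, 3, List.all_eq_true.1 grpS15_2 _ (.tail _ (.tail _ (.tail _ (.head _))))⟩
def grpS15_3 : ([bound pcS15 false .w0,
    bound pcS15 false .w1,
    bound pcS15 true .w0,
    bound pcS15 true .w1].all
    (checkFour (boxS15.cC) 281 12 10 3 4)) = true := by decide +kernel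
def chkS15_7 : Chk (boxS15.cC) (bound pcS15 false .w0) :=
  ⟨281, 12, 10, 3, 4, List.all_eq_true.1 grpS15_3 _ (.head _)⟩
def chkS15_8 : Chk (boxS15.cC) (bound pcS15 false .w1) :=
  ⟨281, 12, 10, 3, 4, List.all_eq_true.1 grpS15_3 _ (.tail _ (.head _))⟩
def chkS15_16 : Chk (boxS15.cC) (bound pcS15 true .w0) :=
  ⟨281, 12, 10, 3, 4, List.all_eq_true.1 grpS15_3 _ (.tail _ (.tail _ (.head _)))⟩
def chkS15_17 : Chk (boxS15.cC) (bound pcS15 true .w1) :=
  ⟨281, 12, 10, 3, 4, List.all_eq_true.1 grpS15_3 _ (.tail _ (.tail _ (.tail _ (.head _))))⟩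
def grpS15_4 : ([subst (sub pcS15 ⟨false, false, true, true, false⟩) (condX),
    subst (sub pcS15 ⟨false, true, true, true, false⟩) (condX),
    subst (sub pcS15 ⟨true, false, true, true, false⟩) (condX),
    subst (sub pcS15 ⟨true, true, true, true, false⟩) (condX)].all
    (checkFour (boxS15.vC) 331 15 13 4 0)) = true := by decide +kernel
def chkS15_18 : Chk (boxS15.vC) (subst (sub pcS15 ⟨false, false, true, true, false⟩) (condX)) :=
  ⟨331, 15, 13, 4, 0, List.all_eq_true.1 grpS15_4 _ (.head _)⟩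
def chkS15_19 : Chk (boxS15.vC) (subst (sub pcS15 ⟨false, true, true, true, false⟩) (condX)) :=
  ⟨331, 15, 13, 4, 0, List.all_eq_true.1 grpS15_4 _ (.tail _ (.head _))⟩
def chkS15_20 : Chk (boxS15.vC) (subst (sub pcS15 ⟨true, false, true, true, false⟩) (condX)) :=
  ⟨331, 15, 13, 4, 0, List.all_eq_true.1 grpS15_4 _ (.tail _ (.tail _ (.head _)))⟩
def chkS15_21 : Chk (boxS15.vC) (subst (sub pcS15 ⟨true, true, true, true, false⟩) (condX)) :=
  ⟨331, 15, 13, 4, 0, List.all_eq_true.1 grpS15_4 _ (.tail _ (.tail _ (.tail _ (.head _))))⟩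
def grpS15_5 : ([subst (sub pcS15 ⟨false, false, true, false, false⟩) (tplMG),
    subst (sub pcS15 ⟨false, true, true, false, false⟩) (tplMG),
    subst (sub pcS15 ⟨true, false, true, false, false⟩) (tplMG),
    subst (sub pcS15 ⟨true, true, true, false, false⟩) (tplMG)].all
    (checkFour (boxS15.vC) 644 30 26 6 0)) = true := by decide +kernel
def chkS15_22 : Chk (boxS15.vC) (subst (sub pcS15 ⟨false, false, true, false, false⟩) (tplMG)) :=
  ⟨644, 30, 26, 6, 0, List.all_eq_true.1 grpS15_5 _ (.head _)⟩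
def chkS15_23 : Chk (boxS15.vC) (subst (sub pcS15 ⟨false, true, true, false, false⟩) (tplMG)) :=
  ⟨644, 30, 26, 6, 0, List.all_eq_true.1 grpS15_5 _ (.tail _ (.head _))⟩
def chkS15_24 : Chk (boxS15.vC) (subst (sub pcS15 ⟨true, false, true, false, false⟩) (tplMG)) :=
  ⟨644, 30, 26, 6, 0, List.all_eq_true.1 grpS15_5 _ (.tail _ (.tail _ (.head _)))⟩
def chkS15_25 : Chk (boxS15.vC) (subst (sub pcS15 ⟨true, true, true, false, false⟩) (tplMG)) :=
  ⟨644, 30, 26, 6, 0, List.all_eq_true.1 grpS15_5 _ (.tail _ (.tail _ (.tail _ (.head _))))⟩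
def grpS15_6 : ([subst (sub pcS15 ⟨false, false, false, false, false⟩) (pcS15.m1),
    subst (sub pcS15 ⟨false, true, false, false, false⟩) (pcS15.m1),
    subst (sub pcS15 ⟨true, false, false, false, false⟩) (pcS15.m1),
    subst (sub pcS15 ⟨true, true, false, false, false⟩) (pcS15.m1)].all
    (checkFour (boxS15.vC) 417 19 17 4 0)) = true := by decide +kernel
def chkS15_26 : Chk (boxS15.vC) (subst (sub pcS15 ⟨false, false, false, false, false⟩) (pcS15.m1)) :=
  ⟨417, 19, 17, 4, 0, List.all_eq_true.1 grpS15_6 _ (.head _)⟩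
def chkS15_27 : Chk (boxS15.vC) (subst (sub pcS15 ⟨false, true, false, false, false⟩) (pcS15.m1)) :=
  ⟨417, 19, 17, 4, 0, List.all_eq_true.1 grpS15_6 _ (.tail _ (.head _))⟩
def chkS15_28 : Chk (boxS15.vC) (subst (sub pcS15 ⟨true, false, false, false, false⟩) (pcS15.m1)) :=
  ⟨417, 19, 17, 4, 0, List.all_eq_true.1 grpS15_6 _ (.tail _ (.tail _ (.head _)))⟩
def chkS15_29 : Chk (boxS15.vC) (subst (sub pcS15 ⟨true, true, false, false, false⟩) (pcS15.m1)) :=
  ⟨417, 19, 17, 4, 0, List.all_eq_true.1 grpS15_6 _ (.tail _ (.tail _ (.tail _ (.head _))))⟩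
def chkS15_30 : Chk (boxS15.vC) (subst (sub pcS15 ⟨false, false, true, false, false⟩) (strict (pcS15.m2 false))) :=
  ⟨670, 28, 24, 6, 0, by decide +kernel⟩
def chkS15_31 : Chk (boxS15.vC) (subst (sub pcS15 ⟨false, false, true, false, true⟩) (strict (pcS15.m2 false))) :=
  ⟨670, 28, 24, 6, 0, by decide +kernel⟩
def chkS15_32 : Chk (boxS15.vC) (subst (sub pcS15 ⟨true, false, true, false, false⟩) (strict (pcS15.m2 false))) :=
  ⟨670, 28, 24, 6, 0, by decide +kernel⟩
def chkS15_33 : Chk (boxS15.vC) (subst (sub pcS15 ⟨true, false, true, false, true⟩) (strict (pcS15.m2 false))) :=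
  ⟨670, 28, 24, 6, 0, by decide +kernel⟩
def chkS15_34 : Chk (boxS15.vC) (subst (sub pcS15 ⟨false, true, true, false, false⟩) (strict (pcS15.m2 true))) :=
  ⟨673, 28, 24, 6, 0, by decide +kernel⟩
def chkS15_35 : Chk (boxS15.vC) (subst (sub pcS15 ⟨false, true, true, false, true⟩) (strict (pcS15.m2 true))) :=
  ⟨673, 28, 24, 6, 0, by decide +kernel⟩
def chkS15_36 : Chk (boxS15.vC) (subst (sub pcS15 ⟨true, true, true, false, false⟩) (strict (pcS15.m2 true))) :=
  ⟨673, 28, 24, 6, 0, by decide +kernel⟩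
def chkS15_37 : Chk (boxS15.vC) (subst (sub pcS15 ⟨true, true, true, false, true⟩) (strict (pcS15.m2 true))) :=
  ⟨673, 28, 24, 6, 0, by decide +kernel⟩
def grpS15_15 : ([subst (sub pcS15 ⟨false, false, true, true, false⟩) (strict (pcS15.m3 false)),
    subst (sub pcS15 ⟨false, false, true, true, true⟩) (strict (pcS15.m3 false)),
    subst (sub pcS15 ⟨false, false, true, true, false⟩) (strict (pcS15.m3 true)),
    subst (sub pcS15 ⟨false, false, true, true, true⟩) (strict (pcS15.m3 true))].all
    (checkFour (boxS15.vC) 814 35 31 6 0)) = true := by decide +kernel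
def chkS15_38 : Chk (boxS15.vC) (subst (sub pcS15 ⟨false, false, true, true, false⟩) (strict (pcS15.m3 false))) :=
  ⟨814, 35, 31, 6, 0, List.all_eq_true.1 grpS15_15 _ (.head _)⟩
def chkS15_39 : Chk (boxS15.vC) (subst (sub pcS15 ⟨false, false, true, true, true⟩) (strict (pcS15.m3 false))) :=
  ⟨814, 35, 31, 6, 0, List.all_eq_true.1 grpS15_15 _ (.tail _ (.head _))⟩
def chkS15_46 : Chk (boxS15.vC) (subst (sub pcS15 ⟨false, false, true, true, false⟩) (strict (pcS15.m3 true))) :=
  ⟨814, 35, 31, 6, 0, List.all_eq_true.1 grpS15_15 _ (.tail _ (.tail _ (.head _)))⟩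
def chkS15_47 : Chk (boxS15.vC) (subst (sub pcS15 ⟨false, false, true, true, true⟩) (strict (pcS15.m3 true))) :=
  ⟨814, 35, 31, 6, 0, List.all_eq_true.1 grpS15_15 _ (.tail _ (.tail _ (.tail _ (.head _))))⟩
def grpS15_16 : ([subst (sub pcS15 ⟨false, true, true, true, false⟩) (strict (pcS15.m3 false)),
    subst (sub pcS15 ⟨false, true, true, true, true⟩) (strict (pcS15.m3 false)),
    subst (sub pcS15 ⟨false, true, true, true, false⟩) (strict (pcS15.m3 true)),
    subst (sub pcS15 ⟨false, true, true, true, true⟩) (strict (pcS15.m3 true))].all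
    (checkFour (boxS15.vC) 820 35 31 6 0)) = true := by decide +kernel
def chkS15_40 : Chk (boxS15.vC) (subst (sub pcS15 ⟨false, true, true, true, false⟩) (strict (pcS15.m3 false))) :=
  ⟨820, 35, 31, 6, 0, List.all_eq_true.1 grpS15_16 _ (.head _)⟩
def chkS15_41 : Chk (boxS15.vC) (subst (sub pcS15 ⟨false, true, true, true, true⟩) (strict (pcS15.m3 false))) :=
  ⟨820, 35, 31, 6, 0, List.all_eq_true.1 grpS15_16 _ (.tail _ (.head _))⟩
def chkS15_48 : Chk (boxS15.vC) (subst (sub pcS15 ⟨false, true, true, true, false⟩) (strict (pcS15.m3 true))) :=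
  ⟨820, 35, 31, 6, 0, List.all_eq_true.1 grpS15_16 _ (.tail _ (.tail _ (.head _)))⟩
def chkS15_49 : Chk (boxS15.vC) (subst (sub pcS15 ⟨false, true, true, true, true⟩) (strict (pcS15.m3 true))) :=
  ⟨820, 35, 31, 6, 0, List.all_eq_true.1 grpS15_16 _ (.tail _ (.tail _ (.tail _ (.head _))))⟩
def grpS15_17 : ([subst (sub pcS15 ⟨true, false, true, true, false⟩) (strict (pcS15.m3 false)),
    subst (sub pcS15 ⟨true, false, true, true, true⟩) (strict (pcS15.m3 false)),
    subst (sub pcS15 ⟨true, false, true, true, false⟩) (strict (pcS15.m3 true)),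
    subst (sub pcS15 ⟨true, false, true, true, true⟩) (strict (pcS15.m3 true))].all
    (checkFour (boxS15.vC) 814 35 31 6 0)) = true := by decide +kernel
def chkS15_42 : Chk (boxS15.vC) (subst (sub pcS15 ⟨true, false, true, true, false⟩) (strict (pcS15.m3 false))) :=
  ⟨814, 35, 31, 6, 0, List.all_eq_true.1 grpS15_17 _ (.head _)⟩
def chkS15_43 : Chk (boxS15.vC) (subst (sub pcS15 ⟨true, false, true, true, true⟩) (strict (pcS15.m3 false))) :=
  ⟨814, 35, 31, 6, 0, List.all_eq_true.1 grpS15_17 _ (.tail _ (.head _))⟩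
def chkS15_50 : Chk (boxS15.vC) (subst (sub pcS15 ⟨true, false, true, true, false⟩) (strict (pcS15.m3 true))) :=
  ⟨814, 35, 31, 6, 0, List.all_eq_true.1 grpS15_17 _ (.tail _ (.tail _ (.head _)))⟩
def chkS15_51 : Chk (boxS15.vC) (subst (sub pcS15 ⟨true, false, true, true, true⟩) (strict (pcS15.m3 true))) :=
  ⟨814, 35, 31, 6, 0, List.all_eq_true.1 grpS15_17 _ (.tail _ (.tail _ (.tail _ (.head _))))⟩
def grpS15_18 : ([subst (sub pcS15 ⟨true, true, true, true, false⟩) (strict (pcS15.m3 false)),
    subst (sub pcS15 ⟨true, true, true, true, true⟩) (strict (pcS15.m3 false)),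
    subst (sub pcS15 ⟨true, true, true, true, false⟩) (strict (pcS15.m3 true)),
    subst (sub pcS15 ⟨true, true, true, true, true⟩) (strict (pcS15.m3 true))].all
    (checkFour (boxS15.vC) 820 35 31 6 0)) = true := by decide +kernel
def chkS15_44 : Chk (boxS15.vC) (subst (sub pcS15 ⟨true, true, true, true, false⟩) (strict (pcS15.m3 false))) :=
  ⟨820, 35, 31, 6, 0, List.all_eq_true.1 grpS15_18 _ (.head _)⟩
def chkS15_45 : Chk (boxS15.vC) (subst (sub pcS15 ⟨true, true, true, true, true⟩) (strict (pcS15.m3 false))) :=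
  ⟨820, 35, 31, 6, 0, List.all_eq_true.1 grpS15_18 _ (.tail _ (.head _))⟩
def chkS15_52 : Chk (boxS15.vC) (subst (sub pcS15 ⟨true, true, true, true, false⟩) (strict (pcS15.m3 true))) :=
  ⟨820, 35, 31, 6, 0, List.all_eq_true.1 grpS15_18 _ (.tail _ (.tail _ (.head _)))⟩
def chkS15_53 : Chk (boxS15.vC) (subst (sub pcS15 ⟨true, true, true, true, true⟩) (strict (pcS15.m3 true))) :=
  ⟨820, 35, 31, 6, 0, List.all_eq_true.1 grpS15_18 _ (.tail _ (.tail _ (.tail _ (.head _))))⟩
def chkS15_54 : Chk (boxS15.vC) (subst (sub pcS15 ⟨false, false, true, true, false⟩) (negEx coMG12)) :=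
  ⟨165, 8, 5, 4, 0, by decide +kernel⟩
def grpS15_20 : ([subst (sub pcS15 ⟨false, false, true, true, false⟩) (negEx (pcS15.curve2 false)),
    subst (sub pcS15 ⟨false, false, true, true, false⟩) (negEx (pcS15.curve2 true))].all
    (checkFour (boxS15.vC) 181 9 5 4 0)) = true := by decide +kernel
def chkS15_55 : Chk (boxS15.vC) (subst (sub pcS15 ⟨false, false, true, true, false⟩) (negEx (pcS15.curve2 false))) :=
  ⟨181, 9, 5, 4, 0, List.all_eq_true.1 grpS15_20 _ (.head _)⟩
def chkS15_56 : Chk (boxS15.vC) (subst (sub pcS15 ⟨false, false, true, true, false⟩) (negEx (pcS15.curve2 true))) :=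
  ⟨181, 9, 5, 4, 0, List.all_eq_true.1 grpS15_20 _ (.tail _ (.head _))⟩
def grpS15_21 : ([subst (sub pcS15 ⟨false, false, true, true, false⟩) (negEx (pcS15.curve3 false)),
    subst (sub pcS15 ⟨false, false, true, true, false⟩) (negEx (pcS15.curve3 true))].all
    (checkFour (boxS15.vC) 187 9 6 4 0)) = true := by decide +kernel
def chkS15_57 : Chk (boxS15.vC) (subst (sub pcS15 ⟨false, false, true, true, false⟩) (negEx (pcS15.curve3 false))) :=
  ⟨187, 9, 6, 4, 0, List.all_eq_true.1 grpS15_21 _ (.head _)⟩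
def chkS15_58 : Chk (boxS15.vC) (subst (sub pcS15 ⟨false, false, true, true, false⟩) (negEx (pcS15.curve3 true))) :=
  ⟨187, 9, 6, 4, 0, List.all_eq_true.1 grpS15_21 _ (.tail _ (.head _))⟩
def grpS15_22 : ([subst (sub pcS15 ⟨false, false, true, true, false⟩) (slopeT),
    subst (sub pcS15 ⟨true, false, true, true, false⟩) (slopeT)].all
    (checkFour (boxS15.vC) 206 10 7 4 0)) = true := by decide +kernel
def chkS15_59 : Chk (boxS15.vC) (subst (sub pcS15 ⟨false, false, true, true, false⟩) (slopeT)) :=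
  ⟨206, 10, 7, 4, 0, List.all_eq_true.1 grpS15_22 _ (.head _)⟩
def chkS15_60 : Chk (boxS15.vC) (subst (sub pcS15 ⟨true, false, true, true, false⟩) (slopeT)) :=
  ⟨206, 10, 7, 4, 0, List.all_eq_true.1 grpS15_22 _ (.tail _ (.head _))⟩
def grpS15_23 : ([subst (gapSub pcS15 true false false) tplL,
    subst (gapSub pcS15 true false true) tplL,
    subst (gapSub pcS15 true true false) tplL,
    subst (gapSub pcS15 true true true) tplL].all
    (checkFour (boxS15.gC true) 548 26 22 5 2)) = true := by decide +kernel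
def chkS15_61 : Chk (boxS15.gC true) (subst (gapSub pcS15 true false false) tplL) :=
  ⟨548, 26, 22, 5, 2, List.all_eq_true.1 grpS15_23 _ (.head _)⟩
def chkS15_62 : Chk (boxS15.gC true) (subst (gapSub pcS15 true false true) tplL) :=
  ⟨548, 26, 22, 5, 2, List.all_eq_true.1 grpS15_23 _ (.tail _ (.head _))⟩
def chkS15_63 : Chk (boxS15.gC true) (subst (gapSub pcS15 true true false) tplL) :=
  ⟨548, 26, 22, 5, 2, List.all_eq_true.1 grpS15_23 _ (.tail _ (.tail _ (.head _)))⟩
def chkS15_64 : Chk (boxS15.gC true) (subst (gapSub pcS15 true true true) tplL) :=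
  ⟨548, 26, 22, 5, 2, List.all_eq_true.1 grpS15_23 _ (.tail _ (.tail _ (.tail _ (.head _))))⟩

/-- Piece 15 passes. -/
theorem certS15 : Cert pcS15 boxS15 true where
  pos := by
    refine ⟨⟨⟨?_, ?_, ?_, ?_, ?_, ?_, ?_⟩, ?_, ?_, ?_, ?_, ?_, ?_, ?_, ?_, ?_, ?_, ?_⟩, ?_, ?_⟩ <;>
      norm_num [fr, pcS15]
  gX := fun p l => match p, l with
    | false, false => chkS15_18
    | false, true => chkS15_19
    | true, false => chkS15_20
    | true, true => chkS15_21
  gMG := fun p l => match p, l with
    | false, false => chkS15_22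
    | false, true => chkS15_23
    | true, false => chkS15_24
    | true, true => chkS15_25
  g1 := fun p l => match p, l with
    | false, false => chkS15_26
    | false, true => chkS15_27
    | true, false => chkS15_28
    | true, true => chkS15_29
  g2 := fun s p t => match s, p, t with
    | false, false, false => chkS15_30
    | false, false, true => chkS15_31
    | false, true, false => chkS15_32
    | false, true, true => chkS15_33
    | true, false, false => chkS15_34
    | true, false, true => chkS15_35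
    | true, true, false => chkS15_36
    | true, true, true => chkS15_37
  g3 := fun s p l t => match s, p, l, t with
    | false, false, false, false => chkS15_38
    | false, false, false, true => chkS15_39
    | false, false, true, false => chkS15_40
    | false, false, true, true => chkS15_41
    | false, true, false, false => chkS15_42
    | false, true, false, true => chkS15_43
    | false, true, true, false => chkS15_44
    | false, true, true, true => chkS15_45
    | true, false, false, false => chkS15_46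
    | true, false, false, true => chkS15_47
    | true, false, true, false => chkS15_48
    | true, false, true, true => chkS15_49
    | true, true, false, false => chkS15_50
    | true, true, false, true => chkS15_51
    | true, true, true, false => chkS15_52
    | true, true, true, true => chkS15_53
  cMG := chkS15_54
  c2 := fun s => match s with
    | false => chkS15_55
    | true => chkS15_56
  c3 := fun s => match s with
    | false => chkS15_57
    | true => chkS15_58
  sT := fun p => match p with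
    | false => chkS15_59
    | true => chkS15_60
  bnd := fun ze b => match ze, b with
    | false, .l0 => chkS15_0
    | false, .l1 => chkS15_1
    | false, .r => chkS15_2
    | false, .g0 => chkS15_3
    | false, .g1 => chkS15_4
    | false, .t0 => chkS15_5
    | false, .t1 => chkS15_6
    | false, .w0 => chkS15_7
    | false, .w1 => chkS15_8
    | true, .l0 => chkS15_9
    | true, .l1 => chkS15_10
    | true, .r => chkS15_11
    | true, .g0 => chkS15_12
    | true, .g1 => chkS15_13
    | true, .t0 => chkS15_14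
    | true, .t1 => chkS15_15
    | true, .w0 => chkS15_16
    | true, .w1 => chkS15_17
  gap := fun ze t => match ze, t with
    | false, false => chkS15_61
    | false, true => chkS15_62
    | true, false => chkS15_63
    | true, true => chkS15_64

/-- A window of piece 15. -/
def winS15L : Win := ⟨.B, (93, 150, 2000), (33, 60, 50), (-27, 85, 100), (85, 193, 100), (193, 6300, 100), (54, 67, 100), true, false, (114, -115), (561, 1000)⟩

/-- The window passes. -/
theorem winS15L_ok : winS15L.Cert where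
  fits := ⟨by norm_num [winS15L], by norm_num [winS15L, qLo], by norm_num [winS15L, qLo, qHi],
    by norm_num [winS15L, qLo, qHi], by norm_num [winS15L, qLo], by norm_num [winS15L, qHi]⟩
  cross := ⟨290, 9, 8, 2, 7, by decide +kernel⟩
  exit := ⟨320, 12, 10, 3, 8, by decide +kernel⟩
  mix := ⟨406, 14, 12, 3, 11, by decide +kernel⟩

/-- A window of piece 15. -/
def winS15T : Win := ⟨.B, (93, 150, 2000), (33, 60, 50), (-27, 85, 100), (85, 193, 100), (193, 4400, 100), (134, 153, 200), true, true, (72, -53), (561, 1000)⟩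

/-- The window passes. -/
theorem winS15T_ok : winS15T.Cert where
  fits := ⟨by norm_num [winS15T], by norm_num [winS15T, qLo], by norm_num [winS15T, qLo, qHi],
    by norm_num [winS15T, qLo, qHi], by norm_num [winS15T, qLo], by norm_num [winS15T, qHi]⟩
  cross := ⟨298, 9, 8, 2, 7, by decide +kernel⟩
  exit := ⟨300, 12, 10, 3, 6, by decide +kernel⟩
  mix := ⟨398, 14, 12, 3, 10, by decide +kernel⟩

/-- The tight band is crossed one way on piece 15. -/
theorem bandS15 : Chk (winS15L.chart (108, 153, 200) winS15L.qc) (sBand winS15L.kind) :=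
  ⟨522, 17, 15, 3, 14, by decide +kernel⟩

end Vale.Agent.P100.Calib.StripMid
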