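import Vale.Agent.P100.Calib.SlabStripMidSevWindow

/-!
# The checks of piece 16 below 153/200 for `N` between seven and twenty
-/

set_option linter.defProp false

namespace Vale.Agent.P100.Calib.StripMid

open Pack

/-- The numbers of piece 16. -/
def pcS16 : Piece := ⟨.B, (27, 50), (69, 100), (31, 50), (17, 20), (257, 100), (313, 500), (49, 50), (941, 1000), (929, -2400, 1000), (967, -1350, 1000), 50, (167,-850,900,10), (771, 1000), (1147, 1000), (9, 20), (2, 5), (2, 5)⟩

/-- The ranges of piece 16. -/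
def boxS16 : Box := ⟨(15, 22, 200), (9, 24, 20), (43, 373, 100), (85, 257, 100), (54, 69, 100)⟩

def grpS16_0 : ([bound pcS16 false .l0,
    bound pcS16 false .l1,
    bound pcS16 false .r,
    bound pcS16 true .l0,
    bound pcS16 true .l1,
    bound pcS16 true .r].all
    (checkFour (boxS16.cC) 258 14 13 2 3)) = true := by decide +kernel
def chkS16_0 : Chk (boxS16.cC) (bound pcS16 false .l0) :=
  ⟨258, 14, 13, 2, 3, List.all_eq_true.1 grpS16_0 _ (.head _)⟩
def chkS16_1 : Chk (boxS16.cC) (bound pcS16 false .l1) :=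
  ⟨258, 14, 13, 2, 3, List.all_eq_true.1 grpS16_0 _ (.tail _ (.head _))⟩
def chkS16_2 : Chk (boxS16.cC) (bound pcS16 false .r) :=
  ⟨258, 14, 13, 2, 3, List.all_eq_true.1 grpS16_0 _ (.tail _ (.tail _ (.head _)))⟩
def chkS16_9 : Chk (boxS16.cC) (bound pcS16 true .l0) :=
  ⟨258, 14, 13, 2, 3, List.all_eq_true.1 grpS16_0 _ (.tail _ (.tail _ (.tail _ (.head _))))⟩
def chkS16_10 : Chk (boxS16.cC) (bound pcS16 true .l1) :=
  ⟨258, 14, 13, 2, 3, List.all_eq_true.1 grpS16_0 _ (.tail _ (.tail _ (.tail _ (.tail _ (.head _)))))⟩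
def chkS16_11 : Chk (boxS16.cC) (bound pcS16 true .r) :=
  ⟨258, 14, 13, 2, 3, List.all_eq_true.1 grpS16_0 _ (.tail _ (.tail _ (.tail _ (.tail _ (.tail _ (.head _))))))⟩
def grpS16_1 : ([bound pcS16 false .g0,
    bound pcS16 false .g1,
    bound pcS16 true .g0,
    bound pcS16 true .g1].all
    (checkFour (boxS16.cC) 109 5 4 1 2)) = true := by decide +kernel
def chkS16_3 : Chk (boxS16.cC) (bound pcS16 false .g0) :=
  ⟨109, 5, 4, 1, 2, List.all_eq_true.1 grpS16_1 _ (.head _)⟩
def chkS16_4 : Chk (boxS16.cC) (bound pcS16 false .g1) :=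
  ⟨109, 5, 4, 1, 2, List.all_eq_true.1 grpS16_1 _ (.tail _ (.head _))⟩
def chkS16_12 : Chk (boxS16.cC) (bound pcS16 true .g0) :=
  ⟨109, 5, 4, 1, 2, List.all_eq_true.1 grpS16_1 _ (.tail _ (.tail _ (.head _)))⟩
def chkS16_13 : Chk (boxS16.cC) (bound pcS16 true .g1) :=
  ⟨109, 5, 4, 1, 2, List.all_eq_true.1 grpS16_1 _ (.tail _ (.tail _ (.tail _ (.head _))))⟩
def grpS16_2 : ([bound pcS16 false .t0,
    bound pcS16 false .t1,
    bound pcS16 true .t0,
    bound pcS16 true .t1].all
    (checkFour (boxS16.cC) 170 9 6 2 3)) = true := by decide +kernel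
def chkS16_5 : Chk (boxS16.cC) (bound pcS16 false .t0) :=
  ⟨170, 9, 6, 2, 3, List.all_eq_true.1 grpS16_2 _ (.head _)⟩
def chkS16_6 : Chk (boxS16.cC) (bound pcS16 false .t1) :=
  ⟨170, 9, 6, 2, 3, List.all_eq_true.1 grpS16_2 _ (.tail _ (.head _))⟩
def chkS16_14 : Chk (boxS16.cC) (bound pcS16 true .t0) :=
  ⟨170, 9, 6, 2, 3, List.all_eq_true.1 grpS16_2 _ (.tail _ (.tail _ (.head _)))⟩
def chkS16_15 : Chk (boxS16.cC) (bound pcS16 true .t1) :=
  ⟨170, 9, 6, 2, 3, List.all_eq_true.1 grpS16_2 _ (.tail _ (.tail _ (.tail _ (.head _))))⟩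
def grpS16_3 : ([bound pcS16 false .w0,
    bound pcS16 false .w1,
    bound pcS16 true .w0,
    bound pcS16 true .w1].all
    (checkFour (boxS16.cC) 231 12 10 3 4)) = true := by decide +kernel
def chkS16_7 : Chk (boxS16.cC) (bound pcS16 false .w0) :=
  ⟨231, 12, 10, 3, 4, List.all_eq_true.1 grpS16_3 _ (.head _)⟩
def chkS16_8 : Chk (boxS16.cC) (bound pcS16 false .w1) :=
  ⟨231, 12, 10, 3, 4, List.all_eq_true.1 grpS16_3 _ (.tail _ (.head _))⟩
def chkS16_16 : Chk (boxS16.cC) (bound pcS16 true .w0) :=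
  ⟨231, 12, 10, 3, 4, List.all_eq_true.1 grpS16_3 _ (.tail _ (.tail _ (.head _)))⟩
def chkS16_17 : Chk (boxS16.cC) (bound pcS16 true .w1) :=
  ⟨231, 12, 10, 3, 4, List.all_eq_true.1 grpS16_3 _ (.tail _ (.tail _ (.tail _ (.head _))))⟩
def grpS16_4 : ([subst (sub pcS16 ⟨false, false, true, true, false⟩) (condX),
    subst (sub pcS16 ⟨false, true, true, true, false⟩) (condX),
    subst (sub pcS16 ⟨true, false, true, true, false⟩) (condX),
    subst (sub pcS16 ⟨true, true, true, true, false⟩) (condX)].all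
    (checkFour (boxS16.vC) 277 15 13 4 0)) = true := by decide +kernel
def chkS16_18 : Chk (boxS16.vC) (subst (sub pcS16 ⟨false, false, true, true, false⟩) (condX)) :=
  ⟨277, 15, 13, 4, 0, List.all_eq_true.1 grpS16_4 _ (.head _)⟩
def chkS16_19 : Chk (boxS16.vC) (subst (sub pcS16 ⟨false, true, true, true, false⟩) (condX)) :=
  ⟨277, 15, 13, 4, 0, List.all_eq_true.1 grpS16_4 _ (.tail _ (.head _))⟩
def chkS16_20 : Chk (boxS16.vC) (subst (sub pcS16 ⟨true, false, true, true, false⟩) (condX)) :=
  ⟨277, 15, 13, 4, 0, List.all_eq_true.1 grpS16_4 _ (.tail _ (.tail _ (.head _)))⟩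
def chkS16_21 : Chk (boxS16.vC) (subst (sub pcS16 ⟨true, true, true, true, false⟩) (condX)) :=
  ⟨277, 15, 13, 4, 0, List.all_eq_true.1 grpS16_4 _ (.tail _ (.tail _ (.tail _ (.head _))))⟩
def grpS16_5 : ([subst (sub pcS16 ⟨false, false, true, false, false⟩) (tplMG),
    subst (sub pcS16 ⟨false, true, true, false, false⟩) (tplMG),
    subst (sub pcS16 ⟨true, false, true, false, false⟩) (tplMG),
    subst (sub pcS16 ⟨true, true, true, false, false⟩) (tplMG)].all
    (checkFour (boxS16.vC) 535 30 26 6 0)) = true := by decide +kernel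
def chkS16_22 : Chk (boxS16.vC) (subst (sub pcS16 ⟨false, false, true, false, false⟩) (tplMG)) :=
  ⟨535, 30, 26, 6, 0, List.all_eq_true.1 grpS16_5 _ (.head _)⟩
def chkS16_23 : Chk (boxS16.vC) (subst (sub pcS16 ⟨false, true, true, false, false⟩) (tplMG)) :=
  ⟨535, 30, 26, 6, 0, List.all_eq_true.1 grpS16_5 _ (.tail _ (.head _))⟩
def chkS16_24 : Chk (boxS16.vC) (subst (sub pcS16 ⟨true, false, true, false, false⟩) (tplMG)) :=
  ⟨535, 30, 26, 6, 0, List.all_eq_true.1 grpS16_5 _ (.tail _ (.tail _ (.head _)))⟩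
def chkS16_25 : Chk (boxS16.vC) (subst (sub pcS16 ⟨true, true, true, false, false⟩) (tplMG)) :=
  ⟨535, 30, 26, 6, 0, List.all_eq_true.1 grpS16_5 _ (.tail _ (.tail _ (.tail _ (.head _))))⟩
def grpS16_6 : ([subst (sub pcS16 ⟨false, false, false, false, false⟩) (pcS16.m1),
    subst (sub pcS16 ⟨false, true, false, false, false⟩) (pcS16.m1),
    subst (sub pcS16 ⟨true, false, false, false, false⟩) (pcS16.m1),
    subst (sub pcS16 ⟨true, true, false, false, false⟩) (pcS16.m1)].all
    (checkFour (boxS16.vC) 350 19 17 4 0)) = true := by decide +kernel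
def chkS16_26 : Chk (boxS16.vC) (subst (sub pcS16 ⟨false, false, false, false, false⟩) (pcS16.m1)) :=
  ⟨350, 19, 17, 4, 0, List.all_eq_true.1 grpS16_6 _ (.head _)⟩
def chkS16_27 : Chk (boxS16.vC) (subst (sub pcS16 ⟨false, true, false, false, false⟩) (pcS16.m1)) :=
  ⟨350, 19, 17, 4, 0, List.all_eq_true.1 grpS16_6 _ (.tail _ (.head _))⟩
def chkS16_28 : Chk (boxS16.vC) (subst (sub pcS16 ⟨true, false, false, false, false⟩) (pcS16.m1)) :=
  ⟨350, 19, 17, 4, 0, List.all_eq_true.1 grpS16_6 _ (.tail _ (.tail _ (.head _)))⟩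
def chkS16_29 : Chk (boxS16.vC) (subst (sub pcS16 ⟨true, true, false, false, false⟩) (pcS16.m1)) :=
  ⟨350, 19, 17, 4, 0, List.all_eq_true.1 grpS16_6 _ (.tail _ (.tail _ (.tail _ (.head _))))⟩
def chkS16_30 : Chk (boxS16.vC) (subst (sub pcS16 ⟨false, false, true, false, false⟩) (strict (pcS16.m2 false))) :=
  ⟨563, 28, 24, 6, 0, by decide +kernel⟩
def chkS16_31 : Chk (boxS16.vC) (subst (sub pcS16 ⟨false, false, true, false, true⟩) (strict (pcS16.m2 false))) :=
  ⟨563, 28, 24, 6, 0, by decide +kernel⟩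
def chkS16_32 : Chk (boxS16.vC) (subst (sub pcS16 ⟨true, false, true, false, false⟩) (strict (pcS16.m2 false))) :=
  ⟨564, 28, 24, 6, 0, by decide +kernel⟩
def chkS16_33 : Chk (boxS16.vC) (subst (sub pcS16 ⟨true, false, true, false, true⟩) (strict (pcS16.m2 false))) :=
  ⟨564, 28, 24, 6, 0, by decide +kernel⟩
def chkS16_34 : Chk (boxS16.vC) (subst (sub pcS16 ⟨false, true, true, false, false⟩) (strict (pcS16.m2 true))) :=
  ⟨560, 28, 24, 6, 0, by decide +kernel⟩
def chkS16_35 : Chk (boxS16.vC) (subst (sub pcS16 ⟨false, true, true, false, true⟩) (strict (pcS16.m2 true))) :=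
  ⟨560, 28, 24, 6, 0, by decide +kernel⟩
def chkS16_36 : Chk (boxS16.vC) (subst (sub pcS16 ⟨true, true, true, false, false⟩) (strict (pcS16.m2 true))) :=
  ⟨560, 28, 24, 6, 0, by decide +kernel⟩
def chkS16_37 : Chk (boxS16.vC) (subst (sub pcS16 ⟨true, true, true, false, true⟩) (strict (pcS16.m2 true))) :=
  ⟨560, 28, 24, 6, 0, by decide +kernel⟩
def grpS16_15 : ([subst (sub pcS16 ⟨false, false, true, true, false⟩) (strict (pcS16.m3 false)),
    subst (sub pcS16 ⟨false, false, true, true, true⟩) (strict (pcS16.m3 false)),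
    subst (sub pcS16 ⟨false, false, true, true, false⟩) (strict (pcS16.m3 true)),
    subst (sub pcS16 ⟨false, false, true, true, true⟩) (strict (pcS16.m3 true))].all
    (checkFour (boxS16.vC) 688 35 31 6 0)) = true := by decide +kernel
def chkS16_38 : Chk (boxS16.vC) (subst (sub pcS16 ⟨false, false, true, true, false⟩) (strict (pcS16.m3 false))) :=
  ⟨688, 35, 31, 6, 0, List.all_eq_true.1 grpS16_15 _ (.head _)⟩
def chkS16_39 : Chk (boxS16.vC) (subst (sub pcS16 ⟨false, false, true, true, true⟩) (strict (pcS16.m3 false))) :=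
  ⟨688, 35, 31, 6, 0, List.all_eq_true.1 grpS16_15 _ (.tail _ (.head _))⟩
def chkS16_46 : Chk (boxS16.vC) (subst (sub pcS16 ⟨false, false, true, true, false⟩) (strict (pcS16.m3 true))) :=
  ⟨688, 35, 31, 6, 0, List.all_eq_true.1 grpS16_15 _ (.tail _ (.tail _ (.head _)))⟩
def chkS16_47 : Chk (boxS16.vC) (subst (sub pcS16 ⟨false, false, true, true, true⟩) (strict (pcS16.m3 true))) :=
  ⟨688, 35, 31, 6, 0, List.all_eq_true.1 grpS16_15 _ (.tail _ (.tail _ (.tail _ (.head _))))⟩
def grpS16_16 : ([subst (sub pcS16 ⟨false, true, true, true, false⟩) (strict (pcS16.m3 false)),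
    subst (sub pcS16 ⟨false, true, true, true, true⟩) (strict (pcS16.m3 false)),
    subst (sub pcS16 ⟨false, true, true, true, false⟩) (strict (pcS16.m3 true)),
    subst (sub pcS16 ⟨false, true, true, true, true⟩) (strict (pcS16.m3 true))].all
    (checkFour (boxS16.vC) 682 35 31 6 0)) = true := by decide +kernel
def chkS16_40 : Chk (boxS16.vC) (subst (sub pcS16 ⟨false, true, true, true, false⟩) (strict (pcS16.m3 false))) :=
  ⟨682, 35, 31, 6, 0, List.all_eq_true.1 grpS16_16 _ (.head _)⟩
def chkS16_41 : Chk (boxS16.vC) (subst (sub pcS16 ⟨false, true, true, true, true⟩) (strict (pcS16.m3 false))) :=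
  ⟨682, 35, 31, 6, 0, List.all_eq_true.1 grpS16_16 _ (.tail _ (.head _))⟩
def chkS16_48 : Chk (boxS16.vC) (subst (sub pcS16 ⟨false, true, true, true, false⟩) (strict (pcS16.m3 true))) :=
  ⟨682, 35, 31, 6, 0, List.all_eq_true.1 grpS16_16 _ (.tail _ (.tail _ (.head _)))⟩
def chkS16_49 : Chk (boxS16.vC) (subst (sub pcS16 ⟨false, true, true, true, true⟩) (strict (pcS16.m3 true))) :=
  ⟨682, 35, 31, 6, 0, List.all_eq_true.1 grpS16_16 _ (.tail _ (.tail _ (.tail _ (.head _))))⟩
def grpS16_17 : ([subst (sub pcS16 ⟨true, false, true, true, false⟩) (strict (pcS16.m3 false)),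
    subst (sub pcS16 ⟨true, false, true, true, true⟩) (strict (pcS16.m3 false)),
    subst (sub pcS16 ⟨true, false, true, true, false⟩) (strict (pcS16.m3 true)),
    subst (sub pcS16 ⟨true, false, true, true, true⟩) (strict (pcS16.m3 true))].all
    (checkFour (boxS16.vC) 688 35 31 6 0)) = true := by decide +kernel
def chkS16_42 : Chk (boxS16.vC) (subst (sub pcS16 ⟨true, false, true, true, false⟩) (strict (pcS16.m3 false))) :=
  ⟨688, 35, 31, 6, 0, List.all_eq_true.1 grpS16_17 _ (.head _)⟩
def chkS16_43 : Chk (boxS16.vC) (subst (sub pcS16 ⟨true, false, true, true, true⟩) (strict (pcS16.m3 false))) :=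
  ⟨688, 35, 31, 6, 0, List.all_eq_true.1 grpS16_17 _ (.tail _ (.head _))⟩
def chkS16_50 : Chk (boxS16.vC) (subst (sub pcS16 ⟨true, false, true, true, false⟩) (strict (pcS16.m3 true))) :=
  ⟨688, 35, 31, 6, 0, List.all_eq_true.1 grpS16_17 _ (.tail _ (.tail _ (.head _)))⟩
def chkS16_51 : Chk (boxS16.vC) (subst (sub pcS16 ⟨true, false, true, true, true⟩) (strict (pcS16.m3 true))) :=
  ⟨688, 35, 31, 6, 0, List.all_eq_true.1 grpS16_17 _ (.tail _ (.tail _ (.tail _ (.head _))))⟩
def grpS16_18 : ([subst (sub pcS16 ⟨true, true, true, true, false⟩) (strict (pcS16.m3 false)),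
    subst (sub pcS16 ⟨true, true, true, true, true⟩) (strict (pcS16.m3 false)),
    subst (sub pcS16 ⟨true, true, true, true, false⟩) (strict (pcS16.m3 true)),
    subst (sub pcS16 ⟨true, true, true, true, true⟩) (strict (pcS16.m3 true))].all
    (checkFour (boxS16.vC) 682 35 31 6 0)) = true := by decide +kernel
def chkS16_44 : Chk (boxS16.vC) (subst (sub pcS16 ⟨true, true, true, true, false⟩) (strict (pcS16.m3 false))) :=
  ⟨682, 35, 31, 6, 0, List.all_eq_true.1 grpS16_18 _ (.head _)⟩
def chkS16_45 : Chk (boxS16.vC) (subst (sub pcS16 ⟨true, true, true, true, true⟩) (strict (pcS16.m3 false))) :=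
  ⟨682, 35, 31, 6, 0, List.all_eq_true.1 grpS16_18 _ (.tail _ (.head _))⟩
def chkS16_52 : Chk (boxS16.vC) (subst (sub pcS16 ⟨true, true, true, true, false⟩) (strict (pcS16.m3 true))) :=
  ⟨682, 35, 31, 6, 0, List.all_eq_true.1 grpS16_18 _ (.tail _ (.tail _ (.head _)))⟩
def chkS16_53 : Chk (boxS16.vC) (subst (sub pcS16 ⟨true, true, true, true, true⟩) (strict (pcS16.m3 true))) :=
  ⟨682, 35, 31, 6, 0, List.all_eq_true.1 grpS16_18 _ (.tail _ (.tail _ (.tail _ (.head _))))⟩
def chkS16_54 : Chk (boxS16.vC) (subst (sub pcS16 ⟨false, false, true, true, false⟩) (negEx coMG12)) :=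
  ⟨132, 8, 5, 4, 0, by decide +kernel⟩
def grpS16_20 : ([subst (sub pcS16 ⟨false, false, true, true, false⟩) (negEx (pcS16.curve2 false)),
    subst (sub pcS16 ⟨false, false, true, true, false⟩) (negEx (pcS16.curve2 true))].all
    (checkFour (boxS16.vC) 145 9 5 4 0)) = true := by decide +kernel
def chkS16_55 : Chk (boxS16.vC) (subst (sub pcS16 ⟨false, false, true, true, false⟩) (negEx (pcS16.curve2 false))) :=
  ⟨145, 9, 5, 4, 0, List.all_eq_true.1 grpS16_20 _ (.head _)⟩
def chkS16_56 : Chk (boxS16.vC) (subst (sub pcS16 ⟨false, false, true, true, false⟩) (negEx (pcS16.curve2 true))) :=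
  ⟨145, 9, 5, 4, 0, List.all_eq_true.1 grpS16_20 _ (.tail _ (.head _))⟩
def grpS16_21 : ([subst (sub pcS16 ⟨false, false, true, true, false⟩) (negEx (pcS16.curve3 false)),
    subst (sub pcS16 ⟨false, false, true, true, false⟩) (negEx (pcS16.curve3 true))].all
    (checkFour (boxS16.vC) 149 9 6 4 0)) = true := by decide +kernel
def chkS16_57 : Chk (boxS16.vC) (subst (sub pcS16 ⟨false, false, true, true, false⟩) (negEx (pcS16.curve3 false))) :=
  ⟨149, 9, 6, 4, 0, List.all_eq_true.1 grpS16_21 _ (.head _)⟩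
def chkS16_58 : Chk (boxS16.vC) (subst (sub pcS16 ⟨false, false, true, true, false⟩) (negEx (pcS16.curve3 true))) :=
  ⟨149, 9, 6, 4, 0, List.all_eq_true.1 grpS16_21 _ (.tail _ (.head _))⟩
def grpS16_22 : ([subst (sub pcS16 ⟨false, false, true, true, false⟩) (slopeT),
    subst (sub pcS16 ⟨true, false, true, true, false⟩) (slopeT)].all
    (checkFour (boxS16.vC) 168 10 7 4 0)) = true := by decide +kernel
def chkS16_59 : Chk (boxS16.vC) (subst (sub pcS16 ⟨false, false, true, true, false⟩) (slopeT)) :=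
  ⟨168, 10, 7, 4, 0, List.all_eq_true.1 grpS16_22 _ (.head _)⟩
def chkS16_60 : Chk (boxS16.vC) (subst (sub pcS16 ⟨true, false, true, true, false⟩) (slopeT)) :=
  ⟨168, 10, 7, 4, 0, List.all_eq_true.1 grpS16_22 _ (.tail _ (.head _))⟩
def grpS16_23 : ([subst (gapSub pcS16 true false false) tplL,
    subst (gapSub pcS16 true false true) tplL,
    subst (gapSub pcS16 true true false) tplL,
    subst (gapSub pcS16 true true true) tplL].all
    (checkFour (boxS16.gC true) 435 26 22 5 2)) = true := by decide +kernel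
def chkS16_61 : Chk (boxS16.gC true) (subst (gapSub pcS16 true false false) tplL) :=
  ⟨435, 26, 22, 5, 2, List.all_eq_true.1 grpS16_23 _ (.head _)⟩
def chkS16_62 : Chk (boxS16.gC true) (subst (gapSub pcS16 true false true) tplL) :=
  ⟨435, 26, 22, 5, 2, List.all_eq_true.1 grpS16_23 _ (.tail _ (.head _))⟩
def chkS16_63 : Chk (boxS16.gC true) (subst (gapSub pcS16 true true false) tplL) :=
  ⟨435, 26, 22, 5, 2, List.all_eq_true.1 grpS16_23 _ (.tail _ (.tail _ (.head _)))⟩
def chkS16_64 : Chk (boxS16.gC true) (subst (gapSub pcS16 true true true) tplL) :=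
  ⟨435, 26, 22, 5, 2, List.all_eq_true.1 grpS16_23 _ (.tail _ (.tail _ (.tail _ (.head _))))⟩

/-- Piece 16 passes. -/
theorem certS16 : Cert pcS16 boxS16 true where
  pos := by
    refine ⟨⟨⟨?_, ?_, ?_, ?_, ?_, ?_, ?_⟩, ?_, ?_, ?_, ?_, ?_, ?_, ?_, ?_, ?_, ?_, ?_⟩, ?_, ?_⟩ <;>
      norm_num [fr, pcS16]
  gX := fun p l => match p, l with
    | false, false => chkS16_18
    | false, true => chkS16_19
    | true, false => chkS16_20
    | true, true => chkS16_21
  gMG := fun p l => match p, l with
    | false, false => chkS16_22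
    | false, true => chkS16_23
    | true, false => chkS16_24
    | true, true => chkS16_25
  g1 := fun p l => match p, l with
    | false, false => chkS16_26
    | false, true => chkS16_27
    | true, false => chkS16_28
    | true, true => chkS16_29
  g2 := fun s p t => match s, p, t with
    | false, false, false => chkS16_30
    | false, false, true => chkS16_31
    | false, true, false => chkS16_32
    | false, true, true => chkS16_33
    | true, false, false => chkS16_34
    | true, false, true => chkS16_35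
    | true, true, false => chkS16_36
    | true, true, true => chkS16_37
  g3 := fun s p l t => match s, p, l, t with
    | false, false, false, false => chkS16_38
    | false, false, false, true => chkS16_39
    | false, false, true, false => chkS16_40
    | false, false, true, true => chkS16_41
    | false, true, false, false => chkS16_42
    | false, true, false, true => chkS16_43
    | false, true, true, false => chkS16_44
    | false, true, true, true => chkS16_45
    | true, false, false, false => chkS16_46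
    | true, false, false, true => chkS16_47
    | true, false, true, false => chkS16_48
    | true, false, true, true => chkS16_49
    | true, true, false, false => chkS16_50
    | true, true, false, true => chkS16_51
    | true, true, true, false => chkS16_52
    | true, true, true, true => chkS16_53
  cMG := chkS16_54
  c2 := fun s => match s with
    | false => chkS16_55
    | true => chkS16_56
  c3 := fun s => match s with
    | false => chkS16_57
    | true => chkS16_58
  sT := fun p => match p with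
    | false => chkS16_59
    | true => chkS16_60
  bnd := fun ze b => match ze, b with
    | false, .l0 => chkS16_0
    | false, .l1 => chkS16_1
    | false, .r => chkS16_2
    | false, .g0 => chkS16_3
    | false, .g1 => chkS16_4
    | false, .t0 => chkS16_5
    | false, .t1 => chkS16_6
    | false, .w0 => chkS16_7
    | false, .w1 => chkS16_8
    | true, .l0 => chkS16_9
    | true, .l1 => chkS16_10
    | true, .r => chkS16_11
    | true, .g0 => chkS16_12
    | true, .g1 => chkS16_13
    | true, .t0 => chkS16_14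
    | true, .t1 => chkS16_15
    | true, .w0 => chkS16_16
    | true, .w1 => chkS16_17
  gap := fun ze t => match ze, t with
    | false, false => chkS16_61
    | false, true => chkS16_62
    | true, false => chkS16_63
    | true, true => chkS16_64

/-- A window of piece 16. -/
def winS16L : Win := ⟨.B, (15, 22, 200), (9, 24, 20), (-27, 85, 100), (85, 257, 100), (257, 6300, 100), (54, 67, 100), true, false, (94, -77), (579, 1000)⟩

/-- The window passes. -/
theorem winS16L_ok : winS16L.Cert where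
  fits := ⟨by norm_num [winS16L], by norm_num [winS16L, qLo], by norm_num [winS16L, qLo, qHi],
    by norm_num [winS16L, qLo, qHi], by norm_num [winS16L, qLo], by norm_num [winS16L, qHi]⟩
  cross := ⟨250, 9, 8, 2, 7, by decide +kernel⟩
  exit := ⟨268, 12, 10, 3, 8, by decide +kernel⟩
  mix := ⟨344, 14, 12, 3, 11, by decide +kernel⟩

/-- A window of piece 16. -/
def winS16T : Win := ⟨.B, (15, 22, 200), (9, 24, 20), (-27, 85, 100), (85, 257, 100), (257, 4400, 100), (67, 69, 100), true, true, (40, 0), (579, 1000)⟩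

/-- The window passes. -/
theorem winS16T_ok : winS16T.Cert where
  fits := ⟨by norm_num [winS16T], by norm_num [winS16T, qLo], by norm_num [winS16T, qLo, qHi],
    by norm_num [winS16T, qLo, qHi], by norm_num [winS16T, qLo], by norm_num [winS16T, qHi]⟩
  cross := ⟨251, 9, 8, 2, 7, by decide +kernel⟩
  exit := ⟨242, 12, 10, 3, 6, by decide +kernel⟩
  mix := ⟨325, 14, 12, 3, 10, by decide +kernel⟩

/-- The tight band is crossed one way on piece 16. -/
theorem bandS16 : Chk (winS16L.chart (54, 69, 100) winS16L.qc) (sBand winS16L.kind) :=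
  ⟨433, 17, 15, 3, 14, by decide +kernel⟩

end Vale.Agent.P100.Calib.StripMid
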