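import Vale.Agent.P100.Calib.SlabStripMidSevWindow

/-!
# The checks of piece 17 below 153/200 for `N` between seven and twenty
-/

set_option linter.defProp false

namespace Vale.Agent.P100.Calib.StripMid

open Pack

/-- The numbers of piece 17. -/
def pcS17 : Piece := ⟨.B, (69, 100), (153, 200), (63, 100), (93, 100), (259, 100), (119, 250), (689, 1000), (231, 250), (871, -2550, 1000), (93, -195, 100), 46, (131,-850,900,10), (313, 500), (9, 10), (9, 20), (1, 4), (2, 5)⟩

/-- The ranges of piece 17. -/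
def boxS17 : Box := ⟨(15, 22, 200), (9, 24, 20), (35, 247, 50), (93, 259, 100), (138, 153, 200)⟩

def grpS17_0 : ([bound pcS17 false .l0,
    bound pcS17 false .l1,
    bound pcS17 false .r,
    bound pcS17 true .l0,
    bound pcS17 true .l1,
    bound pcS17 true .r].all
    (checkFour (boxS17.cC) 262 14 13 2 3)) = true := by decide +kernel
def chkS17_0 : Chk (boxS17.cC) (bound pcS17 false .l0) :=
  ⟨262, 14, 13, 2, 3, List.all_eq_true.1 grpS17_0 _ (.head _)⟩
def chkS17_1 : Chk (boxS17.cC) (bound pcS17 false .l1) :=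
  ⟨262, 14, 13, 2, 3, List.all_eq_true.1 grpS17_0 _ (.tail _ (.head _))⟩
def chkS17_2 : Chk (boxS17.cC) (bound pcS17 false .r) :=
  ⟨262, 14, 13, 2, 3, List.all_eq_true.1 grpS17_0 _ (.tail _ (.tail _ (.head _)))⟩
def chkS17_9 : Chk (boxS17.cC) (bound pcS17 true .l0) :=
  ⟨262, 14, 13, 2, 3, List.all_eq_true.1 grpS17_0 _ (.tail _ (.tail _ (.tail _ (.head _))))⟩
def chkS17_10 : Chk (boxS17.cC) (bound pcS17 true .l1) :=
  ⟨262, 14, 13, 2, 3, List.all_eq_true.1 grpS17_0 _ (.tail _ (.tail _ (.tail _ (.tail _ (.head _)))))⟩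
def chkS17_11 : Chk (boxS17.cC) (bound pcS17 true .r) :=
  ⟨262, 14, 13, 2, 3, List.all_eq_true.1 grpS17_0 _ (.tail _ (.tail _ (.tail _ (.tail _ (.tail _ (.head _))))))⟩
def grpS17_1 : ([bound pcS17 false .g0,
    bound pcS17 false .g1,
    bound pcS17 true .g0,
    bound pcS17 true .g1].all
    (checkFour (boxS17.cC) 111 5 4 1 2)) = true := by decide +kernel
def chkS17_3 : Chk (boxS17.cC) (bound pcS17 false .g0) :=
  ⟨111, 5, 4, 1, 2, List.all_eq_true.1 grpS17_1 _ (.head _)⟩
def chkS17_4 : Chk (boxS17.cC) (bound pcS17 false .g1) :=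
  ⟨111, 5, 4, 1, 2, List.all_eq_true.1 grpS17_1 _ (.tail _ (.head _))⟩
def chkS17_12 : Chk (boxS17.cC) (bound pcS17 true .g0) :=
  ⟨111, 5, 4, 1, 2, List.all_eq_true.1 grpS17_1 _ (.tail _ (.tail _ (.head _)))⟩
def chkS17_13 : Chk (boxS17.cC) (bound pcS17 true .g1) :=
  ⟨111, 5, 4, 1, 2, List.all_eq_true.1 grpS17_1 _ (.tail _ (.tail _ (.tail _ (.head _))))⟩
def grpS17_2 : ([bound pcS17 false .t0,
    bound pcS17 false .t1,
    bound pcS17 true .t0,
    bound pcS17 true .t1].all
    (checkFour (boxS17.cC) 174 9 6 2 3)) = true := by decide +kernel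
def chkS17_5 : Chk (boxS17.cC) (bound pcS17 false .t0) :=
  ⟨174, 9, 6, 2, 3, List.all_eq_true.1 grpS17_2 _ (.head _)⟩
def chkS17_6 : Chk (boxS17.cC) (bound pcS17 false .t1) :=
  ⟨174, 9, 6, 2, 3, List.all_eq_true.1 grpS17_2 _ (.tail _ (.head _))⟩
def chkS17_14 : Chk (boxS17.cC) (bound pcS17 true .t0) :=
  ⟨174, 9, 6, 2, 3, List.all_eq_true.1 grpS17_2 _ (.tail _ (.tail _ (.head _)))⟩
def chkS17_15 : Chk (boxS17.cC) (bound pcS17 true .t1) :=
  ⟨174, 9, 6, 2, 3, List.all_eq_true.1 grpS17_2 _ (.tail _ (.tail _ (.tail _ (.head _))))⟩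
def grpS17_3 : ([bound pcS17 false .w0,
    bound pcS17 false .w1,
    bound pcS17 true .w0,
    bound pcS17 true .w1].all
    (checkFour (boxS17.cC) 236 12 10 3 4)) = true := by decide +kernel
def chkS17_7 : Chk (boxS17.cC) (bound pcS17 false .w0) :=
  ⟨236, 12, 10, 3, 4, List.all_eq_true.1 grpS17_3 _ (.head _)⟩
def chkS17_8 : Chk (boxS17.cC) (bound pcS17 false .w1) :=
  ⟨236, 12, 10, 3, 4, List.all_eq_true.1 grpS17_3 _ (.tail _ (.head _))⟩
def chkS17_16 : Chk (boxS17.cC) (bound pcS17 true .w0) :=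
  ⟨236, 12, 10, 3, 4, List.all_eq_true.1 grpS17_3 _ (.tail _ (.tail _ (.head _)))⟩
def chkS17_17 : Chk (boxS17.cC) (bound pcS17 true .w1) :=
  ⟨236, 12, 10, 3, 4, List.all_eq_true.1 grpS17_3 _ (.tail _ (.tail _ (.tail _ (.head _))))⟩
def grpS17_4 : ([subst (sub pcS17 ⟨false, false, true, true, false⟩) (condX),
    subst (sub pcS17 ⟨false, true, true, true, false⟩) (condX),
    subst (sub pcS17 ⟨true, false, true, true, false⟩) (condX),
    subst (sub pcS17 ⟨true, true, true, true, false⟩) (condX)].all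
    (checkFour (boxS17.vC) 273 15 13 4 0)) = true := by decide +kernel
def chkS17_18 : Chk (boxS17.vC) (subst (sub pcS17 ⟨false, false, true, true, false⟩) (condX)) :=
  ⟨273, 15, 13, 4, 0, List.all_eq_true.1 grpS17_4 _ (.head _)⟩
def chkS17_19 : Chk (boxS17.vC) (subst (sub pcS17 ⟨false, true, true, true, false⟩) (condX)) :=
  ⟨273, 15, 13, 4, 0, List.all_eq_true.1 grpS17_4 _ (.tail _ (.head _))⟩
def chkS17_20 : Chk (boxS17.vC) (subst (sub pcS17 ⟨true, false, true, true, false⟩) (condX)) :=
  ⟨273, 15, 13, 4, 0, List.all_eq_true.1 grpS17_4 _ (.tail _ (.tail _ (.head _)))⟩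
def chkS17_21 : Chk (boxS17.vC) (subst (sub pcS17 ⟨true, true, true, true, false⟩) (condX)) :=
  ⟨273, 15, 13, 4, 0, List.all_eq_true.1 grpS17_4 _ (.tail _ (.tail _ (.tail _ (.head _))))⟩
def grpS17_5 : ([subst (sub pcS17 ⟨false, false, true, false, false⟩) (tplMG),
    subst (sub pcS17 ⟨false, true, true, false, false⟩) (tplMG),
    subst (sub pcS17 ⟨true, false, true, false, false⟩) (tplMG),
    subst (sub pcS17 ⟨true, true, true, false, false⟩) (tplMG)].all
    (checkFour (boxS17.vC) 530 30 26 6 0)) = true := by decide +kernel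
def chkS17_22 : Chk (boxS17.vC) (subst (sub pcS17 ⟨false, false, true, false, false⟩) (tplMG)) :=
  ⟨530, 30, 26, 6, 0, List.all_eq_true.1 grpS17_5 _ (.head _)⟩
def chkS17_23 : Chk (boxS17.vC) (subst (sub pcS17 ⟨false, true, true, false, false⟩) (tplMG)) :=
  ⟨530, 30, 26, 6, 0, List.all_eq_true.1 grpS17_5 _ (.tail _ (.head _))⟩
def chkS17_24 : Chk (boxS17.vC) (subst (sub pcS17 ⟨true, false, true, false, false⟩) (tplMG)) :=
  ⟨530, 30, 26, 6, 0, List.all_eq_true.1 grpS17_5 _ (.tail _ (.tail _ (.head _)))⟩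
def chkS17_25 : Chk (boxS17.vC) (subst (sub pcS17 ⟨true, true, true, false, false⟩) (tplMG)) :=
  ⟨530, 30, 26, 6, 0, List.all_eq_true.1 grpS17_5 _ (.tail _ (.tail _ (.tail _ (.head _))))⟩
def grpS17_6 : ([subst (sub pcS17 ⟨false, false, false, false, false⟩) (pcS17.m1),
    subst (sub pcS17 ⟨false, true, false, false, false⟩) (pcS17.m1),
    subst (sub pcS17 ⟨true, false, false, false, false⟩) (pcS17.m1),
    subst (sub pcS17 ⟨true, true, false, false, false⟩) (pcS17.m1)].all
    (checkFour (boxS17.vC) 339 19 17 4 0)) = true := by decide +kernel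
def chkS17_26 : Chk (boxS17.vC) (subst (sub pcS17 ⟨false, false, false, false, false⟩) (pcS17.m1)) :=
  ⟨339, 19, 17, 4, 0, List.all_eq_true.1 grpS17_6 _ (.head _)⟩
def chkS17_27 : Chk (boxS17.vC) (subst (sub pcS17 ⟨false, true, false, false, false⟩) (pcS17.m1)) :=
  ⟨339, 19, 17, 4, 0, List.all_eq_true.1 grpS17_6 _ (.tail _ (.head _))⟩
def chkS17_28 : Chk (boxS17.vC) (subst (sub pcS17 ⟨true, false, false, false, false⟩) (pcS17.m1)) :=
  ⟨339, 19, 17, 4, 0, List.all_eq_true.1 grpS17_6 _ (.tail _ (.tail _ (.head _)))⟩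
def chkS17_29 : Chk (boxS17.vC) (subst (sub pcS17 ⟨true, true, false, false, false⟩) (pcS17.m1)) :=
  ⟨339, 19, 17, 4, 0, List.all_eq_true.1 grpS17_6 _ (.tail _ (.tail _ (.tail _ (.head _))))⟩
def chkS17_30 : Chk (boxS17.vC) (subst (sub pcS17 ⟨false, false, true, false, false⟩) (strict (pcS17.m2 false))) :=
  ⟨557, 28, 24, 6, 0, by decide +kernel⟩
def chkS17_31 : Chk (boxS17.vC) (subst (sub pcS17 ⟨false, false, true, false, true⟩) (strict (pcS17.m2 false))) :=
  ⟨550, 28, 24, 6, 0, by decide +kernel⟩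
def chkS17_32 : Chk (boxS17.vC) (subst (sub pcS17 ⟨true, false, true, false, false⟩) (strict (pcS17.m2 false))) :=
  ⟨557, 28, 24, 6, 0, by decide +kernel⟩
def chkS17_33 : Chk (boxS17.vC) (subst (sub pcS17 ⟨true, false, true, false, true⟩) (strict (pcS17.m2 false))) :=
  ⟨550, 28, 24, 6, 0, by decide +kernel⟩
def chkS17_34 : Chk (boxS17.vC) (subst (sub pcS17 ⟨false, true, true, false, false⟩) (strict (pcS17.m2 true))) :=
  ⟨558, 28, 24, 6, 0, by decide +kernel⟩
def chkS17_35 : Chk (boxS17.vC) (subst (sub pcS17 ⟨false, true, true, false, true⟩) (strict (pcS17.m2 true))) :=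
  ⟨552, 28, 24, 6, 0, by decide +kernel⟩
def chkS17_36 : Chk (boxS17.vC) (subst (sub pcS17 ⟨true, true, true, false, false⟩) (strict (pcS17.m2 true))) :=
  ⟨558, 28, 24, 6, 0, by decide +kernel⟩
def chkS17_37 : Chk (boxS17.vC) (subst (sub pcS17 ⟨true, true, true, false, true⟩) (strict (pcS17.m2 true))) :=
  ⟨552, 28, 24, 6, 0, by decide +kernel⟩
def grpS17_15 : ([subst (sub pcS17 ⟨false, false, true, true, false⟩) (strict (pcS17.m3 false)),
    subst (sub pcS17 ⟨false, false, true, true, true⟩) (strict (pcS17.m3 false)),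
    subst (sub pcS17 ⟨false, false, true, true, false⟩) (strict (pcS17.m3 true)),
    subst (sub pcS17 ⟨false, false, true, true, true⟩) (strict (pcS17.m3 true))].all
    (checkFour (boxS17.vC) 677 35 31 6 0)) = true := by decide +kernel
def chkS17_38 : Chk (boxS17.vC) (subst (sub pcS17 ⟨false, false, true, true, false⟩) (strict (pcS17.m3 false))) :=
  ⟨677, 35, 31, 6, 0, List.all_eq_true.1 grpS17_15 _ (.head _)⟩
def chkS17_39 : Chk (boxS17.vC) (subst (sub pcS17 ⟨false, false, true, true, true⟩) (strict (pcS17.m3 false))) :=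
  ⟨677, 35, 31, 6, 0, List.all_eq_true.1 grpS17_15 _ (.tail _ (.head _))⟩
def chkS17_46 : Chk (boxS17.vC) (subst (sub pcS17 ⟨false, false, true, true, false⟩) (strict (pcS17.m3 true))) :=
  ⟨677, 35, 31, 6, 0, List.all_eq_true.1 grpS17_15 _ (.tail _ (.tail _ (.head _)))⟩
def chkS17_47 : Chk (boxS17.vC) (subst (sub pcS17 ⟨false, false, true, true, true⟩) (strict (pcS17.m3 true))) :=
  ⟨677, 35, 31, 6, 0, List.all_eq_true.1 grpS17_15 _ (.tail _ (.tail _ (.tail _ (.head _))))⟩
def grpS17_16 : ([subst (sub pcS17 ⟨false, true, true, true, false⟩) (strict (pcS17.m3 false)),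
    subst (sub pcS17 ⟨false, true, true, true, true⟩) (strict (pcS17.m3 false)),
    subst (sub pcS17 ⟨false, true, true, true, false⟩) (strict (pcS17.m3 true)),
    subst (sub pcS17 ⟨false, true, true, true, true⟩) (strict (pcS17.m3 true))].all
    (checkFour (boxS17.vC) 681 35 31 6 0)) = true := by decide +kernel
def chkS17_40 : Chk (boxS17.vC) (subst (sub pcS17 ⟨false, true, true, true, false⟩) (strict (pcS17.m3 false))) :=
  ⟨681, 35, 31, 6, 0, List.all_eq_true.1 grpS17_16 _ (.head _)⟩
def chkS17_41 : Chk (boxS17.vC) (subst (sub pcS17 ⟨false, true, true, true, true⟩) (strict (pcS17.m3 false))) :=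
  ⟨681, 35, 31, 6, 0, List.all_eq_true.1 grpS17_16 _ (.tail _ (.head _))⟩
def chkS17_48 : Chk (boxS17.vC) (subst (sub pcS17 ⟨false, true, true, true, false⟩) (strict (pcS17.m3 true))) :=
  ⟨681, 35, 31, 6, 0, List.all_eq_true.1 grpS17_16 _ (.tail _ (.tail _ (.head _)))⟩
def chkS17_49 : Chk (boxS17.vC) (subst (sub pcS17 ⟨false, true, true, true, true⟩) (strict (pcS17.m3 true))) :=
  ⟨681, 35, 31, 6, 0, List.all_eq_true.1 grpS17_16 _ (.tail _ (.tail _ (.tail _ (.head _))))⟩
def grpS17_17 : ([subst (sub pcS17 ⟨true, false, true, true, false⟩) (strict (pcS17.m3 false)),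
    subst (sub pcS17 ⟨true, false, true, true, true⟩) (strict (pcS17.m3 false)),
    subst (sub pcS17 ⟨true, false, true, true, false⟩) (strict (pcS17.m3 true)),
    subst (sub pcS17 ⟨true, false, true, true, true⟩) (strict (pcS17.m3 true))].all
    (checkFour (boxS17.vC) 677 35 31 6 0)) = true := by decide +kernel
def chkS17_42 : Chk (boxS17.vC) (subst (sub pcS17 ⟨true, false, true, true, false⟩) (strict (pcS17.m3 false))) :=
  ⟨677, 35, 31, 6, 0, List.all_eq_true.1 grpS17_17 _ (.head _)⟩
def chkS17_43 : Chk (boxS17.vC) (subst (sub pcS17 ⟨true, false, true, true, true⟩) (strict (pcS17.m3 false))) :=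
  ⟨677, 35, 31, 6, 0, List.all_eq_true.1 grpS17_17 _ (.tail _ (.head _))⟩
def chkS17_50 : Chk (boxS17.vC) (subst (sub pcS17 ⟨true, false, true, true, false⟩) (strict (pcS17.m3 true))) :=
  ⟨677, 35, 31, 6, 0, List.all_eq_true.1 grpS17_17 _ (.tail _ (.tail _ (.head _)))⟩
def chkS17_51 : Chk (boxS17.vC) (subst (sub pcS17 ⟨true, false, true, true, true⟩) (strict (pcS17.m3 true))) :=
  ⟨677, 35, 31, 6, 0, List.all_eq_true.1 grpS17_17 _ (.tail _ (.tail _ (.tail _ (.head _))))⟩
def grpS17_18 : ([subst (sub pcS17 ⟨true, true, true, true, false⟩) (strict (pcS17.m3 false)),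
    subst (sub pcS17 ⟨true, true, true, true, true⟩) (strict (pcS17.m3 false)),
    subst (sub pcS17 ⟨true, true, true, true, false⟩) (strict (pcS17.m3 true)),
    subst (sub pcS17 ⟨true, true, true, true, true⟩) (strict (pcS17.m3 true))].all
    (checkFour (boxS17.vC) 681 35 31 6 0)) = true := by decide +kernel
def chkS17_44 : Chk (boxS17.vC) (subst (sub pcS17 ⟨true, true, true, true, false⟩) (strict (pcS17.m3 false))) :=
  ⟨681, 35, 31, 6, 0, List.all_eq_true.1 grpS17_18 _ (.head _)⟩
def chkS17_45 : Chk (boxS17.vC) (subst (sub pcS17 ⟨true, true, true, true, true⟩) (strict (pcS17.m3 false))) :=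
  ⟨681, 35, 31, 6, 0, List.all_eq_true.1 grpS17_18 _ (.tail _ (.head _))⟩
def chkS17_52 : Chk (boxS17.vC) (subst (sub pcS17 ⟨true, true, true, true, false⟩) (strict (pcS17.m3 true))) :=
  ⟨681, 35, 31, 6, 0, List.all_eq_true.1 grpS17_18 _ (.tail _ (.tail _ (.head _)))⟩
def chkS17_53 : Chk (boxS17.vC) (subst (sub pcS17 ⟨true, true, true, true, true⟩) (strict (pcS17.m3 true))) :=
  ⟨681, 35, 31, 6, 0, List.all_eq_true.1 grpS17_18 _ (.tail _ (.tail _ (.tail _ (.head _))))⟩
def chkS17_54 : Chk (boxS17.vC) (subst (sub pcS17 ⟨false, false, true, true, false⟩) (negEx coMG12)) :=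
  ⟨128, 8, 5, 4, 0, by decide +kernel⟩
def grpS17_20 : ([subst (sub pcS17 ⟨false, false, true, true, false⟩) (negEx (pcS17.curve2 false)),
    subst (sub pcS17 ⟨false, false, true, true, false⟩) (negEx (pcS17.curve2 true))].all
    (checkFour (boxS17.vC) 141 9 5 4 0)) = true := by decide +kernel
def chkS17_55 : Chk (boxS17.vC) (subst (sub pcS17 ⟨false, false, true, true, false⟩) (negEx (pcS17.curve2 false))) :=
  ⟨141, 9, 5, 4, 0, List.all_eq_true.1 grpS17_20 _ (.head _)⟩
def chkS17_56 : Chk (boxS17.vC) (subst (sub pcS17 ⟨false, false, true, true, false⟩) (negEx (pcS17.curve2 true))) :=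
  ⟨141, 9, 5, 4, 0, List.all_eq_true.1 grpS17_20 _ (.tail _ (.head _))⟩
def grpS17_21 : ([subst (sub pcS17 ⟨false, false, true, true, false⟩) (negEx (pcS17.curve3 false)),
    subst (sub pcS17 ⟨false, false, true, true, false⟩) (negEx (pcS17.curve3 true))].all
    (checkFour (boxS17.vC) 146 9 6 4 0)) = true := by decide +kernel
def chkS17_57 : Chk (boxS17.vC) (subst (sub pcS17 ⟨false, false, true, true, false⟩) (negEx (pcS17.curve3 false))) :=
  ⟨146, 9, 6, 4, 0, List.all_eq_true.1 grpS17_21 _ (.head _)⟩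
def chkS17_58 : Chk (boxS17.vC) (subst (sub pcS17 ⟨false, false, true, true, false⟩) (negEx (pcS17.curve3 true))) :=
  ⟨146, 9, 6, 4, 0, List.all_eq_true.1 grpS17_21 _ (.tail _ (.head _))⟩
def grpS17_22 : ([subst (sub pcS17 ⟨false, false, true, true, false⟩) (slopeT),
    subst (sub pcS17 ⟨true, false, true, true, false⟩) (slopeT)].all
    (checkFour (boxS17.vC) 166 10 7 4 0)) = true := by decide +kernel
def chkS17_59 : Chk (boxS17.vC) (subst (sub pcS17 ⟨false, false, true, true, false⟩) (slopeT)) :=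
  ⟨166, 10, 7, 4, 0, List.all_eq_true.1 grpS17_22 _ (.head _)⟩
def chkS17_60 : Chk (boxS17.vC) (subst (sub pcS17 ⟨true, false, true, true, false⟩) (slopeT)) :=
  ⟨166, 10, 7, 4, 0, List.all_eq_true.1 grpS17_22 _ (.tail _ (.head _))⟩
def grpS17_23 : ([subst (gapSub pcS17 true false false) tplL,
    subst (gapSub pcS17 true false true) tplL,
    subst (gapSub pcS17 true true false) tplL,
    subst (gapSub pcS17 true true true) tplL].all
    (checkFour (boxS17.gC true) 433 26 22 5 2)) = true := by decide +kernel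
def chkS17_61 : Chk (boxS17.gC true) (subst (gapSub pcS17 true false false) tplL) :=
  ⟨433, 26, 22, 5, 2, List.all_eq_true.1 grpS17_23 _ (.head _)⟩
def chkS17_62 : Chk (boxS17.gC true) (subst (gapSub pcS17 true false true) tplL) :=
  ⟨433, 26, 22, 5, 2, List.all_eq_true.1 grpS17_23 _ (.tail _ (.head _))⟩
def chkS17_63 : Chk (boxS17.gC true) (subst (gapSub pcS17 true true false) tplL) :=
  ⟨433, 26, 22, 5, 2, List.all_eq_true.1 grpS17_23 _ (.tail _ (.tail _ (.head _)))⟩
def chkS17_64 : Chk (boxS17.gC true) (subst (gapSub pcS17 true true true) tplL) :=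
  ⟨433, 26, 22, 5, 2, List.all_eq_true.1 grpS17_23 _ (.tail _ (.tail _ (.tail _ (.head _))))⟩

/-- Piece 17 passes. -/
theorem certS17 : Cert pcS17 boxS17 true where
  pos := by
    refine ⟨⟨⟨?_, ?_, ?_, ?_, ?_, ?_, ?_⟩, ?_, ?_, ?_, ?_, ?_, ?_, ?_, ?_, ?_, ?_, ?_⟩, ?_, ?_⟩ <;>
      norm_num [fr, pcS17]
  gX := fun p l => match p, l with
    | false, false => chkS17_18
    | false, true => chkS17_19
    | true, false => chkS17_20
    | true, true => chkS17_21
  gMG := fun p l => match p, l with
    | false, false => chkS17_22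
    | false, true => chkS17_23
    | true, false => chkS17_24
    | true, true => chkS17_25
  g1 := fun p l => match p, l with
    | false, false => chkS17_26
    | false, true => chkS17_27
    | true, false => chkS17_28
    | true, true => chkS17_29
  g2 := fun s p t => match s, p, t with
    | false, false, false => chkS17_30
    | false, false, true => chkS17_31
    | false, true, false => chkS17_32
    | false, true, true => chkS17_33
    | true, false, false => chkS17_34
    | true, false, true => chkS17_35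
    | true, true, false => chkS17_36
    | true, true, true => chkS17_37
  g3 := fun s p l t => match s, p, l, t with
    | false, false, false, false => chkS17_38
    | false, false, false, true => chkS17_39
    | false, false, true, false => chkS17_40
    | false, false, true, true => chkS17_41
    | false, true, false, false => chkS17_42
    | false, true, false, true => chkS17_43
    | false, true, true, false => chkS17_44
    | false, true, true, true => chkS17_45
    | true, false, false, false => chkS17_46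
    | true, false, false, true => chkS17_47
    | true, false, true, false => chkS17_48
    | true, false, true, true => chkS17_49
    | true, true, false, false => chkS17_50
    | true, true, false, true => chkS17_51
    | true, true, true, false => chkS17_52
    | true, true, true, true => chkS17_53
  cMG := chkS17_54
  c2 := fun s => match s with
    | false => chkS17_55
    | true => chkS17_56
  c3 := fun s => match s with
    | false => chkS17_57
    | true => chkS17_58
  sT := fun p => match p with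
    | false => chkS17_59
    | true => chkS17_60
  bnd := fun ze b => match ze, b with
    | false, .l0 => chkS17_0
    | false, .l1 => chkS17_1
    | false, .r => chkS17_2
    | false, .g0 => chkS17_3
    | false, .g1 => chkS17_4
    | false, .t0 => chkS17_5
    | false, .t1 => chkS17_6
    | false, .w0 => chkS17_7
    | false, .w1 => chkS17_8
    | true, .l0 => chkS17_9
    | true, .l1 => chkS17_10
    | true, .r => chkS17_11
    | true, .g0 => chkS17_12
    | true, .g1 => chkS17_13
    | true, .t0 => chkS17_14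
    | true, .t1 => chkS17_15
    | true, .w0 => chkS17_16
    | true, .w1 => chkS17_17
  gap := fun ze t => match ze, t with
    | false, false => chkS17_61
    | false, true => chkS17_62
    | true, false => chkS17_63
    | true, true => chkS17_64

/-- A window of piece 17. -/
def winS17T : Win := ⟨.B, (15, 22, 200), (9, 24, 20), (-21, 93, 100), (93, 259, 100), (259, 4200, 100), (138, 153, 200), true, true, (86, -67), (589, 1000)⟩

/-- The window passes. -/
theorem winS17T_ok : winS17T.Cert where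
  fits := ⟨by norm_num [winS17T], by norm_num [winS17T, qLo], by norm_num [winS17T, qLo, qHi],
    by norm_num [winS17T, qLo, qHi], by norm_num [winS17T, qLo], by norm_num [winS17T, qHi]⟩
  cross := ⟨258, 9, 8, 2, 7, by decide +kernel⟩
  exit := ⟨248, 12, 10, 3, 6, by decide +kernel⟩
  mix := ⟨337, 14, 12, 3, 10, by decide +kernel⟩

/-- The tight band is crossed one way on piece 17. -/
theorem bandS17 : Chk (winS17T.chart (138, 153, 200) winS17T.qc) (sBand winS17T.kind) :=
  ⟨448, 17, 15, 3, 14, by decide +kernel⟩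

end Vale.Agent.P100.Calib.StripMid
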