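import Vale.Agent.P100.Calib.SlabStripMidSevWindow

/-!
# The checks of piece 19 below 153/200 for `N` between seven and twenty
-/

set_option linter.defProp false

namespace Vale.Agent.P100.Calib.StripMid

open Pack

/-- The numbers of piece 19. -/
def pcS19 : Piece := ⟨.D, (69, 100), (153, 200), (3, 5), (24, 25), (141, 50), (241, 500), (71, 100), (909, 1000), (153, -330, 200), (883, -1500, 1000), 46, (93,-570,450,5), (173, 250), (1037, 1000), (9, 20), (1, 4), (3, 5)⟩

/-- The ranges of piece 19. -/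
def boxS19 : Box := ⟨(10, 27, 200), (22, 35, 200), (71, 431, 100), (48, 141, 50), (138, 153, 200)⟩

def grpS19_0 : ([bound pcS19 false .l0,
    bound pcS19 false .l1,
    bound pcS19 false .r,
    bound pcS19 true .l0,
    bound pcS19 true .l1,
    bound pcS19 true .r].all
    (checkFour (boxS19.cC) 256 13 9 2 3)) = true := by decide +kernel
def chkS19_0 : Chk (boxS19.cC) (bound pcS19 false .l0) :=
  ⟨256, 13, 9, 2, 3, List.all_eq_true.1 grpS19_0 _ (.head _)⟩
def chkS19_1 : Chk (boxS19.cC) (bound pcS19 false .l1) :=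
  ⟨256, 13, 9, 2, 3, List.all_eq_true.1 grpS19_0 _ (.tail _ (.head _))⟩
def chkS19_2 : Chk (boxS19.cC) (bound pcS19 false .r) :=
  ⟨256, 13, 9, 2, 3, List.all_eq_true.1 grpS19_0 _ (.tail _ (.tail _ (.head _)))⟩
def chkS19_9 : Chk (boxS19.cC) (bound pcS19 true .l0) :=
  ⟨256, 13, 9, 2, 3, List.all_eq_true.1 grpS19_0 _ (.tail _ (.tail _ (.tail _ (.head _))))⟩
def chkS19_10 : Chk (boxS19.cC) (bound pcS19 true .l1) :=
  ⟨256, 13, 9, 2, 3, List.all_eq_true.1 grpS19_0 _ (.tail _ (.tail _ (.tail _ (.tail _ (.head _)))))⟩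
def chkS19_11 : Chk (boxS19.cC) (bound pcS19 true .r) :=
  ⟨256, 13, 9, 2, 3, List.all_eq_true.1 grpS19_0 _ (.tail _ (.tail _ (.tail _ (.tail _ (.tail _ (.head _))))))⟩
def grpS19_1 : ([bound pcS19 false .g0,
    bound pcS19 false .g1,
    bound pcS19 true .g0,
    bound pcS19 true .g1].all
    (checkFour (boxS19.cC) 103 4 3 1 2)) = true := by decide +kernel
def chkS19_3 : Chk (boxS19.cC) (bound pcS19 false .g0) :=
  ⟨103, 4, 3, 1, 2, List.all_eq_true.1 grpS19_1 _ (.head _)⟩
def chkS19_4 : Chk (boxS19.cC) (bound pcS19 false .g1) :=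
  ⟨103, 4, 3, 1, 2, List.all_eq_true.1 grpS19_1 _ (.tail _ (.head _))⟩
def chkS19_12 : Chk (boxS19.cC) (bound pcS19 true .g0) :=
  ⟨103, 4, 3, 1, 2, List.all_eq_true.1 grpS19_1 _ (.tail _ (.tail _ (.head _)))⟩
def chkS19_13 : Chk (boxS19.cC) (bound pcS19 true .g1) :=
  ⟨103, 4, 3, 1, 2, List.all_eq_true.1 grpS19_1 _ (.tail _ (.tail _ (.tail _ (.head _))))⟩
def grpS19_2 : ([bound pcS19 false .t0,
    bound pcS19 false .t1,
    bound pcS19 true .t0,
    bound pcS19 true .t1].all
    (checkFour (boxS19.cC) 162 6 6 2 3)) = true := by decide +kernel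
def chkS19_5 : Chk (boxS19.cC) (bound pcS19 false .t0) :=
  ⟨162, 6, 6, 2, 3, List.all_eq_true.1 grpS19_2 _ (.head _)⟩
def chkS19_6 : Chk (boxS19.cC) (bound pcS19 false .t1) :=
  ⟨162, 6, 6, 2, 3, List.all_eq_true.1 grpS19_2 _ (.tail _ (.head _))⟩
def chkS19_14 : Chk (boxS19.cC) (bound pcS19 true .t0) :=
  ⟨162, 6, 6, 2, 3, List.all_eq_true.1 grpS19_2 _ (.tail _ (.tail _ (.head _)))⟩
def chkS19_15 : Chk (boxS19.cC) (bound pcS19 true .t1) :=
  ⟨162, 6, 6, 2, 3, List.all_eq_true.1 grpS19_2 _ (.tail _ (.tail _ (.tail _ (.head _))))⟩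
def grpS19_3 : ([bound pcS19 false .w0,
    bound pcS19 false .w1,
    bound pcS19 true .w0,
    bound pcS19 true .w1].all
    (checkFour (boxS19.cC) 218 10 7 3 4)) = true := by decide +kernel
def chkS19_7 : Chk (boxS19.cC) (bound pcS19 false .w0) :=
  ⟨218, 10, 7, 3, 4, List.all_eq_true.1 grpS19_3 _ (.head _)⟩
def chkS19_8 : Chk (boxS19.cC) (bound pcS19 false .w1) :=
  ⟨218, 10, 7, 3, 4, List.all_eq_true.1 grpS19_3 _ (.tail _ (.head _))⟩
def chkS19_16 : Chk (boxS19.cC) (bound pcS19 true .w0) :=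
  ⟨218, 10, 7, 3, 4, List.all_eq_true.1 grpS19_3 _ (.tail _ (.tail _ (.head _)))⟩
def chkS19_17 : Chk (boxS19.cC) (bound pcS19 true .w1) :=
  ⟨218, 10, 7, 3, 4, List.all_eq_true.1 grpS19_3 _ (.tail _ (.tail _ (.tail _ (.head _))))⟩
def grpS19_4 : ([subst (sub pcS19 ⟨false, false, true, true, false⟩) (condX),
    subst (sub pcS19 ⟨false, true, true, true, false⟩) (condX),
    subst (sub pcS19 ⟨true, false, true, true, false⟩) (condX),
    subst (sub pcS19 ⟨true, true, true, true, false⟩) (condX)].all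
    (checkFour (boxS19.vC) 273 13 10 4 0)) = true := by decide +kernel
def chkS19_18 : Chk (boxS19.vC) (subst (sub pcS19 ⟨false, false, true, true, false⟩) (condX)) :=
  ⟨273, 13, 10, 4, 0, List.all_eq_true.1 grpS19_4 _ (.head _)⟩
def chkS19_19 : Chk (boxS19.vC) (subst (sub pcS19 ⟨false, true, true, true, false⟩) (condX)) :=
  ⟨273, 13, 10, 4, 0, List.all_eq_true.1 grpS19_4 _ (.tail _ (.head _))⟩
def chkS19_20 : Chk (boxS19.vC) (subst (sub pcS19 ⟨true, false, true, true, false⟩) (condX)) :=
  ⟨273, 13, 10, 4, 0, List.all_eq_true.1 grpS19_4 _ (.tail _ (.tail _ (.head _)))⟩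
def chkS19_21 : Chk (boxS19.vC) (subst (sub pcS19 ⟨true, true, true, true, false⟩) (condX)) :=
  ⟨273, 13, 10, 4, 0, List.all_eq_true.1 grpS19_4 _ (.tail _ (.tail _ (.tail _ (.head _))))⟩
def grpS19_5 : ([subst (sub pcS19 ⟨false, false, true, false, false⟩) (tplMG),
    subst (sub pcS19 ⟨false, true, true, false, false⟩) (tplMG),
    subst (sub pcS19 ⟨true, false, true, false, false⟩) (tplMG),
    subst (sub pcS19 ⟨true, true, true, false, false⟩) (tplMG)].all
    (checkFour (boxS19.vC) 522 26 20 6 0)) = true := by decide +kernel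
def chkS19_22 : Chk (boxS19.vC) (subst (sub pcS19 ⟨false, false, true, false, false⟩) (tplMG)) :=
  ⟨522, 26, 20, 6, 0, List.all_eq_true.1 grpS19_5 _ (.head _)⟩
def chkS19_23 : Chk (boxS19.vC) (subst (sub pcS19 ⟨false, true, true, false, false⟩) (tplMG)) :=
  ⟨522, 26, 20, 6, 0, List.all_eq_true.1 grpS19_5 _ (.tail _ (.head _))⟩
def chkS19_24 : Chk (boxS19.vC) (subst (sub pcS19 ⟨true, false, true, false, false⟩) (tplMG)) :=
  ⟨522, 26, 20, 6, 0, List.all_eq_true.1 grpS19_5 _ (.tail _ (.tail _ (.head _)))⟩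
def chkS19_25 : Chk (boxS19.vC) (subst (sub pcS19 ⟨true, true, true, false, false⟩) (tplMG)) :=
  ⟨522, 26, 20, 6, 0, List.all_eq_true.1 grpS19_5 _ (.tail _ (.tail _ (.tail _ (.head _))))⟩
def grpS19_6 : ([subst (sub pcS19 ⟨false, false, false, false, false⟩) (pcS19.m1),
    subst (sub pcS19 ⟨false, true, false, false, false⟩) (pcS19.m1),
    subst (sub pcS19 ⟨true, false, false, false, false⟩) (pcS19.m1),
    subst (sub pcS19 ⟨true, true, false, false, false⟩) (pcS19.m1)].all
    (checkFour (boxS19.vC) 359 17 14 4 0)) = true := by decide +kernel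
def chkS19_26 : Chk (boxS19.vC) (subst (sub pcS19 ⟨false, false, false, false, false⟩) (pcS19.m1)) :=
  ⟨359, 17, 14, 4, 0, List.all_eq_true.1 grpS19_6 _ (.head _)⟩
def chkS19_27 : Chk (boxS19.vC) (subst (sub pcS19 ⟨false, true, false, false, false⟩) (pcS19.m1)) :=
  ⟨359, 17, 14, 4, 0, List.all_eq_true.1 grpS19_6 _ (.tail _ (.head _))⟩
def chkS19_28 : Chk (boxS19.vC) (subst (sub pcS19 ⟨true, false, false, false, false⟩) (pcS19.m1)) :=
  ⟨359, 17, 14, 4, 0, List.all_eq_true.1 grpS19_6 _ (.tail _ (.tail _ (.head _)))⟩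
def chkS19_29 : Chk (boxS19.vC) (subst (sub pcS19 ⟨true, true, false, false, false⟩) (pcS19.m1)) :=
  ⟨359, 17, 14, 4, 0, List.all_eq_true.1 grpS19_6 _ (.tail _ (.tail _ (.tail _ (.head _))))⟩
def chkS19_30 : Chk (boxS19.vC) (subst (sub pcS19 ⟨false, false, true, false, false⟩) (strict (pcS19.m2 false))) :=
  ⟨551, 24, 19, 6, 0, by decide +kernel⟩
def chkS19_31 : Chk (boxS19.vC) (subst (sub pcS19 ⟨false, false, true, false, true⟩) (strict (pcS19.m2 false))) :=
  ⟨555, 24, 19, 6, 0, by decide +kernel⟩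
def chkS19_32 : Chk (boxS19.vC) (subst (sub pcS19 ⟨true, false, true, false, false⟩) (strict (pcS19.m2 false))) :=
  ⟨551, 24, 19, 6, 0, by decide +kernel⟩
def chkS19_33 : Chk (boxS19.vC) (subst (sub pcS19 ⟨true, false, true, false, true⟩) (strict (pcS19.m2 false))) :=
  ⟨555, 24, 19, 6, 0, by decide +kernel⟩
def chkS19_34 : Chk (boxS19.vC) (subst (sub pcS19 ⟨false, true, true, false, false⟩) (strict (pcS19.m2 true))) :=
  ⟨548, 24, 19, 6, 0, by decide +kernel⟩
def chkS19_35 : Chk (boxS19.vC) (subst (sub pcS19 ⟨false, true, true, false, true⟩) (strict (pcS19.m2 true))) :=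
  ⟨553, 24, 19, 6, 0, by decide +kernel⟩
def chkS19_36 : Chk (boxS19.vC) (subst (sub pcS19 ⟨true, true, true, false, false⟩) (strict (pcS19.m2 true))) :=
  ⟨548, 24, 19, 6, 0, by decide +kernel⟩
def chkS19_37 : Chk (boxS19.vC) (subst (sub pcS19 ⟨true, true, true, false, true⟩) (strict (pcS19.m2 true))) :=
  ⟨553, 24, 19, 6, 0, by decide +kernel⟩
def grpS19_15 : ([subst (sub pcS19 ⟨false, false, true, true, false⟩) (strict (pcS19.m3 false)),
    subst (sub pcS19 ⟨false, false, true, true, true⟩) (strict (pcS19.m3 false)),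
    subst (sub pcS19 ⟨false, false, true, true, false⟩) (strict (pcS19.m3 true)),
    subst (sub pcS19 ⟨false, false, true, true, true⟩) (strict (pcS19.m3 true))].all
    (checkFour (boxS19.vC) 692 31 25 6 0)) = true := by decide +kernel
def chkS19_38 : Chk (boxS19.vC) (subst (sub pcS19 ⟨false, false, true, true, false⟩) (strict (pcS19.m3 false))) :=
  ⟨692, 31, 25, 6, 0, List.all_eq_true.1 grpS19_15 _ (.head _)⟩
def chkS19_39 : Chk (boxS19.vC) (subst (sub pcS19 ⟨false, false, true, true, true⟩) (strict (pcS19.m3 false))) :=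
  ⟨692, 31, 25, 6, 0, List.all_eq_true.1 grpS19_15 _ (.tail _ (.head _))⟩
def chkS19_46 : Chk (boxS19.vC) (subst (sub pcS19 ⟨false, false, true, true, false⟩) (strict (pcS19.m3 true))) :=
  ⟨692, 31, 25, 6, 0, List.all_eq_true.1 grpS19_15 _ (.tail _ (.tail _ (.head _)))⟩
def chkS19_47 : Chk (boxS19.vC) (subst (sub pcS19 ⟨false, false, true, true, true⟩) (strict (pcS19.m3 true))) :=
  ⟨692, 31, 25, 6, 0, List.all_eq_true.1 grpS19_15 _ (.tail _ (.tail _ (.tail _ (.head _))))⟩
def grpS19_16 : ([subst (sub pcS19 ⟨false, true, true, true, false⟩) (strict (pcS19.m3 false)),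
    subst (sub pcS19 ⟨false, true, true, true, true⟩) (strict (pcS19.m3 false)),
    subst (sub pcS19 ⟨false, true, true, true, false⟩) (strict (pcS19.m3 true)),
    subst (sub pcS19 ⟨false, true, true, true, true⟩) (strict (pcS19.m3 true))].all
    (checkFour (boxS19.vC) 688 31 25 6 0)) = true := by decide +kernel
def chkS19_40 : Chk (boxS19.vC) (subst (sub pcS19 ⟨false, true, true, true, false⟩) (strict (pcS19.m3 false))) :=
  ⟨688, 31, 25, 6, 0, List.all_eq_true.1 grpS19_16 _ (.head _)⟩
def chkS19_41 : Chk (boxS19.vC) (subst (sub pcS19 ⟨false, true, true, true, true⟩) (strict (pcS19.m3 false))) :=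
  ⟨688, 31, 25, 6, 0, List.all_eq_true.1 grpS19_16 _ (.tail _ (.head _))⟩
def chkS19_48 : Chk (boxS19.vC) (subst (sub pcS19 ⟨false, true, true, true, false⟩) (strict (pcS19.m3 true))) :=
  ⟨688, 31, 25, 6, 0, List.all_eq_true.1 grpS19_16 _ (.tail _ (.tail _ (.head _)))⟩
def chkS19_49 : Chk (boxS19.vC) (subst (sub pcS19 ⟨false, true, true, true, true⟩) (strict (pcS19.m3 true))) :=
  ⟨688, 31, 25, 6, 0, List.all_eq_true.1 grpS19_16 _ (.tail _ (.tail _ (.tail _ (.head _))))⟩
def grpS19_17 : ([subst (sub pcS19 ⟨true, false, true, true, false⟩) (strict (pcS19.m3 false)),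
    subst (sub pcS19 ⟨true, false, true, true, true⟩) (strict (pcS19.m3 false)),
    subst (sub pcS19 ⟨true, false, true, true, false⟩) (strict (pcS19.m3 true)),
    subst (sub pcS19 ⟨true, false, true, true, true⟩) (strict (pcS19.m3 true))].all
    (checkFour (boxS19.vC) 692 31 25 6 0)) = true := by decide +kernel
def chkS19_42 : Chk (boxS19.vC) (subst (sub pcS19 ⟨true, false, true, true, false⟩) (strict (pcS19.m3 false))) :=
  ⟨692, 31, 25, 6, 0, List.all_eq_true.1 grpS19_17 _ (.head _)⟩
def chkS19_43 : Chk (boxS19.vC) (subst (sub pcS19 ⟨true, false, true, true, true⟩) (strict (pcS19.m3 false))) :=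
  ⟨692, 31, 25, 6, 0, List.all_eq_true.1 grpS19_17 _ (.tail _ (.head _))⟩
def chkS19_50 : Chk (boxS19.vC) (subst (sub pcS19 ⟨true, false, true, true, false⟩) (strict (pcS19.m3 true))) :=
  ⟨692, 31, 25, 6, 0, List.all_eq_true.1 grpS19_17 _ (.tail _ (.tail _ (.head _)))⟩
def chkS19_51 : Chk (boxS19.vC) (subst (sub pcS19 ⟨true, false, true, true, true⟩) (strict (pcS19.m3 true))) :=
  ⟨692, 31, 25, 6, 0, List.all_eq_true.1 grpS19_17 _ (.tail _ (.tail _ (.tail _ (.head _))))⟩
def grpS19_18 : ([subst (sub pcS19 ⟨true, true, true, true, false⟩) (strict (pcS19.m3 false)),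
    subst (sub pcS19 ⟨true, true, true, true, true⟩) (strict (pcS19.m3 false)),
    subst (sub pcS19 ⟨true, true, true, true, false⟩) (strict (pcS19.m3 true)),
    subst (sub pcS19 ⟨true, true, true, true, true⟩) (strict (pcS19.m3 true))].all
    (checkFour (boxS19.vC) 688 31 25 6 0)) = true := by decide +kernel
def chkS19_44 : Chk (boxS19.vC) (subst (sub pcS19 ⟨true, true, true, true, false⟩) (strict (pcS19.m3 false))) :=
  ⟨688, 31, 25, 6, 0, List.all_eq_true.1 grpS19_18 _ (.head _)⟩
def chkS19_45 : Chk (boxS19.vC) (subst (sub pcS19 ⟨true, true, true, true, true⟩) (strict (pcS19.m3 false))) :=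
  ⟨688, 31, 25, 6, 0, List.all_eq_true.1 grpS19_18 _ (.tail _ (.head _))⟩
def chkS19_52 : Chk (boxS19.vC) (subst (sub pcS19 ⟨true, true, true, true, false⟩) (strict (pcS19.m3 true))) :=
  ⟨688, 31, 25, 6, 0, List.all_eq_true.1 grpS19_18 _ (.tail _ (.tail _ (.head _)))⟩
def chkS19_53 : Chk (boxS19.vC) (subst (sub pcS19 ⟨true, true, true, true, true⟩) (strict (pcS19.m3 true))) :=
  ⟨688, 31, 25, 6, 0, List.all_eq_true.1 grpS19_18 _ (.tail _ (.tail _ (.tail _ (.head _))))⟩
def grpS19_19 : ([subst (sub pcS19 ⟨false, false, true, true, false⟩) (negEx coMG12),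
    subst (sub pcS19 ⟨false, false, true, true, false⟩) (negEx (pcS19.curve2 false)),
    subst (sub pcS19 ⟨false, false, true, true, false⟩) (negEx (pcS19.curve2 true))].all
    (checkFour (boxS19.vC) 128 5 5 4 0)) = true := by decide +kernel
def chkS19_54 : Chk (boxS19.vC) (subst (sub pcS19 ⟨false, false, true, true, false⟩) (negEx coMG12)) :=
  ⟨128, 5, 5, 4, 0, List.all_eq_true.1 grpS19_19 _ (.head _)⟩
def chkS19_55 : Chk (boxS19.vC) (subst (sub pcS19 ⟨false, false, true, true, false⟩) (negEx (pcS19.curve2 false))) :=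
  ⟨128, 5, 5, 4, 0, List.all_eq_true.1 grpS19_19 _ (.tail _ (.head _))⟩
def chkS19_56 : Chk (boxS19.vC) (subst (sub pcS19 ⟨false, false, true, true, false⟩) (negEx (pcS19.curve2 true))) :=
  ⟨128, 5, 5, 4, 0, List.all_eq_true.1 grpS19_19 _ (.tail _ (.tail _ (.head _)))⟩
def grpS19_20 : ([subst (sub pcS19 ⟨false, false, true, true, false⟩) (negEx (pcS19.curve3 false)),
    subst (sub pcS19 ⟨false, false, true, true, false⟩) (negEx (pcS19.curve3 true))].all
    (checkFour (boxS19.vC) 144 6 6 4 0)) = true := by decide +kernel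
def chkS19_57 : Chk (boxS19.vC) (subst (sub pcS19 ⟨false, false, true, true, false⟩) (negEx (pcS19.curve3 false))) :=
  ⟨144, 6, 6, 4, 0, List.all_eq_true.1 grpS19_20 _ (.head _)⟩
def chkS19_58 : Chk (boxS19.vC) (subst (sub pcS19 ⟨false, false, true, true, false⟩) (negEx (pcS19.curve3 true))) :=
  ⟨144, 6, 6, 4, 0, List.all_eq_true.1 grpS19_20 _ (.tail _ (.head _))⟩
def grpS19_21 : ([subst (sub pcS19 ⟨false, false, true, true, false⟩) (slopeT),
    subst (sub pcS19 ⟨true, false, true, true, false⟩) (slopeT)].all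
    (checkFour (boxS19.vC) 155 7 6 4 0)) = true := by decide +kernel
def chkS19_59 : Chk (boxS19.vC) (subst (sub pcS19 ⟨false, false, true, true, false⟩) (slopeT)) :=
  ⟨155, 7, 6, 4, 0, List.all_eq_true.1 grpS19_21 _ (.head _)⟩
def chkS19_60 : Chk (boxS19.vC) (subst (sub pcS19 ⟨true, false, true, true, false⟩) (slopeT)) :=
  ⟨155, 7, 6, 4, 0, List.all_eq_true.1 grpS19_21 _ (.tail _ (.head _))⟩
def grpS19_22 : ([subst (gapSub pcS19 true false false) tplL,
    subst (gapSub pcS19 true false true) tplL,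
    subst (gapSub pcS19 true true false) tplL,
    subst (gapSub pcS19 true true true) tplL].all
    (checkFour (boxS19.gC true) 428 22 17 5 2)) = true := by decide +kernel
def chkS19_61 : Chk (boxS19.gC true) (subst (gapSub pcS19 true false false) tplL) :=
  ⟨428, 22, 17, 5, 2, List.all_eq_true.1 grpS19_22 _ (.head _)⟩
def chkS19_62 : Chk (boxS19.gC true) (subst (gapSub pcS19 true false true) tplL) :=
  ⟨428, 22, 17, 5, 2, List.all_eq_true.1 grpS19_22 _ (.tail _ (.head _))⟩
def chkS19_63 : Chk (boxS19.gC true) (subst (gapSub pcS19 true true false) tplL) :=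
  ⟨428, 22, 17, 5, 2, List.all_eq_true.1 grpS19_22 _ (.tail _ (.tail _ (.head _)))⟩
def chkS19_64 : Chk (boxS19.gC true) (subst (gapSub pcS19 true true true) tplL) :=
  ⟨428, 22, 17, 5, 2, List.all_eq_true.1 grpS19_22 _ (.tail _ (.tail _ (.tail _ (.head _))))⟩

/-- Piece 19 passes. -/
theorem certS19 : Cert pcS19 boxS19 true where
  pos := by
    refine ⟨⟨⟨?_, ?_, ?_, ?_, ?_, ?_, ?_⟩, ?_, ?_, ?_, ?_, ?_, ?_, ?_, ?_, ?_, ?_, ?_⟩, ?_, ?_⟩ <;>
      norm_num [fr, pcS19]
  gX := fun p l => match p, l with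
    | false, false => chkS19_18
    | false, true => chkS19_19
    | true, false => chkS19_20
    | true, true => chkS19_21
  gMG := fun p l => match p, l with
    | false, false => chkS19_22
    | false, true => chkS19_23
    | true, false => chkS19_24
    | true, true => chkS19_25
  g1 := fun p l => match p, l with
    | false, false => chkS19_26
    | false, true => chkS19_27
    | true, false => chkS19_28
    | true, true => chkS19_29
  g2 := fun s p t => match s, p, t with
    | false, false, false => chkS19_30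
    | false, false, true => chkS19_31
    | false, true, false => chkS19_32
    | false, true, true => chkS19_33
    | true, false, false => chkS19_34
    | true, false, true => chkS19_35
    | true, true, false => chkS19_36
    | true, true, true => chkS19_37
  g3 := fun s p l t => match s, p, l, t with
    | false, false, false, false => chkS19_38
    | false, false, false, true => chkS19_39
    | false, false, true, false => chkS19_40
    | false, false, true, true => chkS19_41
    | false, true, false, false => chkS19_42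
    | false, true, false, true => chkS19_43
    | false, true, true, false => chkS19_44
    | false, true, true, true => chkS19_45
    | true, false, false, false => chkS19_46
    | true, false, false, true => chkS19_47
    | true, false, true, false => chkS19_48
    | true, false, true, true => chkS19_49
    | true, true, false, false => chkS19_50
    | true, true, false, true => chkS19_51
    | true, true, true, false => chkS19_52
    | true, true, true, true => chkS19_53
  cMG := chkS19_54
  c2 := fun s => match s with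
    | false => chkS19_55
    | true => chkS19_56
  c3 := fun s => match s with
    | false => chkS19_57
    | true => chkS19_58
  sT := fun p => match p with
    | false => chkS19_59
    | true => chkS19_60
  bnd := fun ze b => match ze, b with
    | false, .l0 => chkS19_0
    | false, .l1 => chkS19_1
    | false, .r => chkS19_2
    | false, .g0 => chkS19_3
    | false, .g1 => chkS19_4
    | false, .t0 => chkS19_5
    | false, .t1 => chkS19_6
    | false, .w0 => chkS19_7
    | false, .w1 => chkS19_8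
    | true, .l0 => chkS19_9
    | true, .l1 => chkS19_10
    | true, .r => chkS19_11
    | true, .g0 => chkS19_12
    | true, .g1 => chkS19_13
    | true, .t0 => chkS19_14
    | true, .t1 => chkS19_15
    | true, .w0 => chkS19_16
    | true, .w1 => chkS19_17
  gap := fun ze t => match ze, t with
    | false, false => chkS19_61
    | false, true => chkS19_62
    | true, false => chkS19_63
    | true, true => chkS19_64

/-- A window of piece 19. -/
def winS19T : Win := ⟨.D, (10, 27, 200), (22, 35, 200), (-21, 96, 100), (48, 141, 50), (141, 2100, 50), (138, 153, 200), true, true, (89, -67), (561, 1000)⟩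

/-- The window passes. -/
theorem winS19T_ok : winS19T.Cert where
  fits := ⟨by norm_num [winS19T], by norm_num [winS19T, qLo], by norm_num [winS19T, qLo, qHi],
    by norm_num [winS19T, qLo, qHi], by norm_num [winS19T, qLo], by norm_num [winS19T, qHi]⟩
  cross := ⟨259, 8, 6, 2, 7, by decide +kernel⟩
  exit := ⟨236, 10, 7, 3, 6, by decide +kernel⟩
  mix := ⟨331, 12, 9, 3, 10, by decide +kernel⟩

/-- The tight band is crossed one way on piece 19. -/
theorem bandS19 : Chk (winS19T.chart (138, 153, 200) winS19T.qc) (sBand winS19T.kind) :=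
  ⟨444, 15, 11, 3, 14, by decide +kernel⟩

end Vale.Agent.P100.Calib.StripMid
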