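import Vale.Agent.P100.Calib.SlabStripMidSevWindow

/-!
# The checks of piece 2 below 153/200 for `N` between seven and twenty
-/

set_option linter.defProp false

namespace Vale.Agent.P100.Calib.StripMid

open Pack

/-- The numbers of piece 2. -/
def pcS2 : Piece := ⟨.A, (9, 20), (29, 50), (13, 20), (77, 100), (281, 100), (419, 500), (233, 200), (951, 1000), (122, -300, 125), (101, -135, 100), 68, (113,-280,600,5), (209, 250), (667, 500), (19, 50), (2, 5), (1, 4)⟩

/-- The ranges of piece 2. -/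
def boxS2 : Box := ⟨(50, 143, 1000), (0, 237, 250), (29, 307, 100), (77, 281, 100), (45, 58, 100)⟩

def grpS2_0 : ([bound pcS2 false .l0,
    bound pcS2 false .l1,
    bound pcS2 false .r,
    bound pcS2 true .l0,
    bound pcS2 true .l1,
    bound pcS2 true .r].all
    (checkFour (boxS2.cC) 300 14 9 2 3)) = true := by decide +kernel
def chkS2_0 : Chk (boxS2.cC) (bound pcS2 false .l0) :=
  ⟨300, 14, 9, 2, 3, List.all_eq_true.1 grpS2_0 _ (.head _)⟩
def chkS2_1 : Chk (boxS2.cC) (bound pcS2 false .l1) :=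
  ⟨300, 14, 9, 2, 3, List.all_eq_true.1 grpS2_0 _ (.tail _ (.head _))⟩
def chkS2_2 : Chk (boxS2.cC) (bound pcS2 false .r) :=
  ⟨300, 14, 9, 2, 3, List.all_eq_true.1 grpS2_0 _ (.tail _ (.tail _ (.head _)))⟩
def chkS2_9 : Chk (boxS2.cC) (bound pcS2 true .l0) :=
  ⟨300, 14, 9, 2, 3, List.all_eq_true.1 grpS2_0 _ (.tail _ (.tail _ (.tail _ (.head _))))⟩
def chkS2_10 : Chk (boxS2.cC) (bound pcS2 true .l1) :=
  ⟨300, 14, 9, 2, 3, List.all_eq_true.1 grpS2_0 _ (.tail _ (.tail _ (.tail _ (.tail _ (.head _)))))⟩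
def chkS2_11 : Chk (boxS2.cC) (bound pcS2 true .r) :=
  ⟨300, 14, 9, 2, 3, List.all_eq_true.1 grpS2_0 _ (.tail _ (.tail _ (.tail _ (.tail _ (.tail _ (.head _))))))⟩
def grpS2_1 : ([bound pcS2 false .g0,
    bound pcS2 false .g1,
    bound pcS2 true .g0,
    bound pcS2 true .g1].all
    (checkFour (boxS2.cC) 124 5 3 1 2)) = true := by decide +kernel
def chkS2_3 : Chk (boxS2.cC) (bound pcS2 false .g0) :=
  ⟨124, 5, 3, 1, 2, List.all_eq_true.1 grpS2_1 _ (.head _)⟩
def chkS2_4 : Chk (boxS2.cC) (bound pcS2 false .g1) :=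
  ⟨124, 5, 3, 1, 2, List.all_eq_true.1 grpS2_1 _ (.tail _ (.head _))⟩
def chkS2_12 : Chk (boxS2.cC) (bound pcS2 true .g0) :=
  ⟨124, 5, 3, 1, 2, List.all_eq_true.1 grpS2_1 _ (.tail _ (.tail _ (.head _)))⟩
def chkS2_13 : Chk (boxS2.cC) (bound pcS2 true .g1) :=
  ⟨124, 5, 3, 1, 2, List.all_eq_true.1 grpS2_1 _ (.tail _ (.tail _ (.tail _ (.head _))))⟩
def grpS2_2 : ([bound pcS2 false .t0,
    bound pcS2 false .t1,
    bound pcS2 true .t0,
    bound pcS2 true .t1].all
    (checkFour (boxS2.cC) 208 9 6 2 3)) = true := by decide +kernel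
def chkS2_5 : Chk (boxS2.cC) (bound pcS2 false .t0) :=
  ⟨208, 9, 6, 2, 3, List.all_eq_true.1 grpS2_2 _ (.head _)⟩
def chkS2_6 : Chk (boxS2.cC) (bound pcS2 false .t1) :=
  ⟨208, 9, 6, 2, 3, List.all_eq_true.1 grpS2_2 _ (.tail _ (.head _))⟩
def chkS2_14 : Chk (boxS2.cC) (bound pcS2 true .t0) :=
  ⟨208, 9, 6, 2, 3, List.all_eq_true.1 grpS2_2 _ (.tail _ (.tail _ (.head _)))⟩
def chkS2_15 : Chk (boxS2.cC) (bound pcS2 true .t1) :=
  ⟨208, 9, 6, 2, 3, List.all_eq_true.1 grpS2_2 _ (.tail _ (.tail _ (.tail _ (.head _))))⟩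
def grpS2_3 : ([bound pcS2 false .w0,
    bound pcS2 false .w1,
    bound pcS2 true .w0,
    bound pcS2 true .w1].all
    (checkFour (boxS2.cC) 266 12 7 3 4)) = true := by decide +kernel
def chkS2_7 : Chk (boxS2.cC) (bound pcS2 false .w0) :=
  ⟨266, 12, 7, 3, 4, List.all_eq_true.1 grpS2_3 _ (.head _)⟩
def chkS2_8 : Chk (boxS2.cC) (bound pcS2 false .w1) :=
  ⟨266, 12, 7, 3, 4, List.all_eq_true.1 grpS2_3 _ (.tail _ (.head _))⟩
def chkS2_16 : Chk (boxS2.cC) (bound pcS2 true .w0) :=
  ⟨266, 12, 7, 3, 4, List.all_eq_true.1 grpS2_3 _ (.tail _ (.tail _ (.head _)))⟩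
def chkS2_17 : Chk (boxS2.cC) (bound pcS2 true .w1) :=
  ⟨266, 12, 7, 3, 4, List.all_eq_true.1 grpS2_3 _ (.tail _ (.tail _ (.tail _ (.head _))))⟩
def grpS2_4 : ([subst (sub pcS2 ⟨false, false, true, true, false⟩) (condX),
    subst (sub pcS2 ⟨false, true, true, true, false⟩) (condX),
    subst (sub pcS2 ⟨true, false, true, true, false⟩) (condX),
    subst (sub pcS2 ⟨true, true, true, true, false⟩) (condX)].all
    (checkFour (boxS2.vC) 331 15 10 4 0)) = true := by decide +kernel
def chkS2_18 : Chk (boxS2.vC) (subst (sub pcS2 ⟨false, false, true, true, false⟩) (condX)) :=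
  ⟨331, 15, 10, 4, 0, List.all_eq_true.1 grpS2_4 _ (.head _)⟩
def chkS2_19 : Chk (boxS2.vC) (subst (sub pcS2 ⟨false, true, true, true, false⟩) (condX)) :=
  ⟨331, 15, 10, 4, 0, List.all_eq_true.1 grpS2_4 _ (.tail _ (.head _))⟩
def chkS2_20 : Chk (boxS2.vC) (subst (sub pcS2 ⟨true, false, true, true, false⟩) (condX)) :=
  ⟨331, 15, 10, 4, 0, List.all_eq_true.1 grpS2_4 _ (.tail _ (.tail _ (.head _)))⟩
def chkS2_21 : Chk (boxS2.vC) (subst (sub pcS2 ⟨true, true, true, true, false⟩) (condX)) :=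
  ⟨331, 15, 10, 4, 0, List.all_eq_true.1 grpS2_4 _ (.tail _ (.tail _ (.tail _ (.head _))))⟩
def grpS2_5 : ([subst (sub pcS2 ⟨false, false, true, false, false⟩) (tplMG),
    subst (sub pcS2 ⟨false, true, true, false, false⟩) (tplMG),
    subst (sub pcS2 ⟨true, false, true, false, false⟩) (tplMG),
    subst (sub pcS2 ⟨true, true, true, false, false⟩) (tplMG)].all
    (checkFour (boxS2.vC) 576 26 18 6 0)) = true := by decide +kernel
def chkS2_22 : Chk (boxS2.vC) (subst (sub pcS2 ⟨false, false, true, false, false⟩) (tplMG)) :=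
  ⟨576, 26, 18, 6, 0, List.all_eq_true.1 grpS2_5 _ (.head _)⟩
def chkS2_23 : Chk (boxS2.vC) (subst (sub pcS2 ⟨false, true, true, false, false⟩) (tplMG)) :=
  ⟨576, 26, 18, 6, 0, List.all_eq_true.1 grpS2_5 _ (.tail _ (.head _))⟩
def chkS2_24 : Chk (boxS2.vC) (subst (sub pcS2 ⟨true, false, true, false, false⟩) (tplMG)) :=
  ⟨576, 26, 18, 6, 0, List.all_eq_true.1 grpS2_5 _ (.tail _ (.tail _ (.head _)))⟩
def chkS2_25 : Chk (boxS2.vC) (subst (sub pcS2 ⟨true, true, true, false, false⟩) (tplMG)) :=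
  ⟨576, 26, 18, 6, 0, List.all_eq_true.1 grpS2_5 _ (.tail _ (.tail _ (.tail _ (.head _))))⟩
def grpS2_6 : ([subst (sub pcS2 ⟨false, false, false, false, false⟩) (pcS2.m1),
    subst (sub pcS2 ⟨false, true, false, false, false⟩) (pcS2.m1),
    subst (sub pcS2 ⟨true, false, false, false, false⟩) (pcS2.m1),
    subst (sub pcS2 ⟨true, true, false, false, false⟩) (pcS2.m1)].all
    (checkFour (boxS2.vC) 427 19 14 4 0)) = true := by decide +kernel
def chkS2_26 : Chk (boxS2.vC) (subst (sub pcS2 ⟨false, false, false, false, false⟩) (pcS2.m1)) :=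
  ⟨427, 19, 14, 4, 0, List.all_eq_true.1 grpS2_6 _ (.head _)⟩
def chkS2_27 : Chk (boxS2.vC) (subst (sub pcS2 ⟨false, true, false, false, false⟩) (pcS2.m1)) :=
  ⟨427, 19, 14, 4, 0, List.all_eq_true.1 grpS2_6 _ (.tail _ (.head _))⟩
def chkS2_28 : Chk (boxS2.vC) (subst (sub pcS2 ⟨true, false, false, false, false⟩) (pcS2.m1)) :=
  ⟨427, 19, 14, 4, 0, List.all_eq_true.1 grpS2_6 _ (.tail _ (.tail _ (.head _)))⟩
def chkS2_29 : Chk (boxS2.vC) (subst (sub pcS2 ⟨true, true, false, false, false⟩) (pcS2.m1)) :=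
  ⟨427, 19, 14, 4, 0, List.all_eq_true.1 grpS2_6 _ (.tail _ (.tail _ (.tail _ (.head _))))⟩
def chkS2_30 : Chk (boxS2.vC) (subst (sub pcS2 ⟨false, false, true, false, false⟩) (strict (pcS2.m2 false))) :=
  ⟨597, 24, 17, 6, 0, by decide +kernel⟩
def chkS2_31 : Chk (boxS2.vC) (subst (sub pcS2 ⟨false, false, true, false, true⟩) (strict (pcS2.m2 false))) :=
  ⟨597, 24, 17, 6, 0, by decide +kernel⟩
def chkS2_32 : Chk (boxS2.vC) (subst (sub pcS2 ⟨true, false, true, false, false⟩) (strict (pcS2.m2 false))) :=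
  ⟨597, 24, 17, 6, 0, by decide +kernel⟩
def chkS2_33 : Chk (boxS2.vC) (subst (sub pcS2 ⟨true, false, true, false, true⟩) (strict (pcS2.m2 false))) :=
  ⟨597, 24, 17, 6, 0, by decide +kernel⟩
def chkS2_34 : Chk (boxS2.vC) (subst (sub pcS2 ⟨false, true, true, false, false⟩) (strict (pcS2.m2 true))) :=
  ⟨597, 24, 17, 6, 0, by decide +kernel⟩
def chkS2_35 : Chk (boxS2.vC) (subst (sub pcS2 ⟨false, true, true, false, true⟩) (strict (pcS2.m2 true))) :=
  ⟨596, 24, 17, 6, 0, by decide +kernel⟩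
def chkS2_36 : Chk (boxS2.vC) (subst (sub pcS2 ⟨true, true, true, false, false⟩) (strict (pcS2.m2 true))) :=
  ⟨597, 24, 17, 6, 0, by decide +kernel⟩
def chkS2_37 : Chk (boxS2.vC) (subst (sub pcS2 ⟨true, true, true, false, true⟩) (strict (pcS2.m2 true))) :=
  ⟨596, 24, 17, 6, 0, by decide +kernel⟩
def grpS2_15 : ([subst (sub pcS2 ⟨false, false, true, true, false⟩) (strict (pcS2.m3 false)),
    subst (sub pcS2 ⟨false, false, true, true, true⟩) (strict (pcS2.m3 false)),
    subst (sub pcS2 ⟨false, false, true, true, false⟩) (strict (pcS2.m3 true)),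
    subst (sub pcS2 ⟨false, false, true, true, true⟩) (strict (pcS2.m3 true))].all
    (checkFour (boxS2.vC) 758 31 23 6 0)) = true := by decide +kernel
def chkS2_38 : Chk (boxS2.vC) (subst (sub pcS2 ⟨false, false, true, true, false⟩) (strict (pcS2.m3 false))) :=
  ⟨758, 31, 23, 6, 0, List.all_eq_true.1 grpS2_15 _ (.head _)⟩
def chkS2_39 : Chk (boxS2.vC) (subst (sub pcS2 ⟨false, false, true, true, true⟩) (strict (pcS2.m3 false))) :=
  ⟨758, 31, 23, 6, 0, List.all_eq_true.1 grpS2_15 _ (.tail _ (.head _))⟩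
def chkS2_46 : Chk (boxS2.vC) (subst (sub pcS2 ⟨false, false, true, true, false⟩) (strict (pcS2.m3 true))) :=
  ⟨758, 31, 23, 6, 0, List.all_eq_true.1 grpS2_15 _ (.tail _ (.tail _ (.head _)))⟩
def chkS2_47 : Chk (boxS2.vC) (subst (sub pcS2 ⟨false, false, true, true, true⟩) (strict (pcS2.m3 true))) :=
  ⟨758, 31, 23, 6, 0, List.all_eq_true.1 grpS2_15 _ (.tail _ (.tail _ (.tail _ (.head _))))⟩
def grpS2_16 : ([subst (sub pcS2 ⟨false, true, true, true, false⟩) (strict (pcS2.m3 false)),
    subst (sub pcS2 ⟨false, true, true, true, true⟩) (strict (pcS2.m3 false)),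
    subst (sub pcS2 ⟨false, true, true, true, false⟩) (strict (pcS2.m3 true)),
    subst (sub pcS2 ⟨false, true, true, true, true⟩) (strict (pcS2.m3 true))].all
    (checkFour (boxS2.vC) 756 31 23 6 0)) = true := by decide +kernel
def chkS2_40 : Chk (boxS2.vC) (subst (sub pcS2 ⟨false, true, true, true, false⟩) (strict (pcS2.m3 false))) :=
  ⟨756, 31, 23, 6, 0, List.all_eq_true.1 grpS2_16 _ (.head _)⟩
def chkS2_41 : Chk (boxS2.vC) (subst (sub pcS2 ⟨false, true, true, true, true⟩) (strict (pcS2.m3 false))) :=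
  ⟨756, 31, 23, 6, 0, List.all_eq_true.1 grpS2_16 _ (.tail _ (.head _))⟩
def chkS2_48 : Chk (boxS2.vC) (subst (sub pcS2 ⟨false, true, true, true, false⟩) (strict (pcS2.m3 true))) :=
  ⟨756, 31, 23, 6, 0, List.all_eq_true.1 grpS2_16 _ (.tail _ (.tail _ (.head _)))⟩
def chkS2_49 : Chk (boxS2.vC) (subst (sub pcS2 ⟨false, true, true, true, true⟩) (strict (pcS2.m3 true))) :=
  ⟨756, 31, 23, 6, 0, List.all_eq_true.1 grpS2_16 _ (.tail _ (.tail _ (.tail _ (.head _))))⟩
def grpS2_17 : ([subst (sub pcS2 ⟨true, false, true, true, false⟩) (strict (pcS2.m3 false)),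
    subst (sub pcS2 ⟨true, false, true, true, true⟩) (strict (pcS2.m3 false)),
    subst (sub pcS2 ⟨true, false, true, true, false⟩) (strict (pcS2.m3 true)),
    subst (sub pcS2 ⟨true, false, true, true, true⟩) (strict (pcS2.m3 true))].all
    (checkFour (boxS2.vC) 758 31 23 6 0)) = true := by decide +kernel
def chkS2_42 : Chk (boxS2.vC) (subst (sub pcS2 ⟨true, false, true, true, false⟩) (strict (pcS2.m3 false))) :=
  ⟨758, 31, 23, 6, 0, List.all_eq_true.1 grpS2_17 _ (.head _)⟩
def chkS2_43 : Chk (boxS2.vC) (subst (sub pcS2 ⟨true, false, true, true, true⟩) (strict (pcS2.m3 false))) :=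
  ⟨758, 31, 23, 6, 0, List.all_eq_true.1 grpS2_17 _ (.tail _ (.head _))⟩
def chkS2_50 : Chk (boxS2.vC) (subst (sub pcS2 ⟨true, false, true, true, false⟩) (strict (pcS2.m3 true))) :=
  ⟨758, 31, 23, 6, 0, List.all_eq_true.1 grpS2_17 _ (.tail _ (.tail _ (.head _)))⟩
def chkS2_51 : Chk (boxS2.vC) (subst (sub pcS2 ⟨true, false, true, true, true⟩) (strict (pcS2.m3 true))) :=
  ⟨758, 31, 23, 6, 0, List.all_eq_true.1 grpS2_17 _ (.tail _ (.tail _ (.tail _ (.head _))))⟩
def grpS2_18 : ([subst (sub pcS2 ⟨true, true, true, true, false⟩) (strict (pcS2.m3 false)),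
    subst (sub pcS2 ⟨true, true, true, true, true⟩) (strict (pcS2.m3 false)),
    subst (sub pcS2 ⟨true, true, true, true, false⟩) (strict (pcS2.m3 true)),
    subst (sub pcS2 ⟨true, true, true, true, true⟩) (strict (pcS2.m3 true))].all
    (checkFour (boxS2.vC) 756 31 23 6 0)) = true := by decide +kernel
def chkS2_44 : Chk (boxS2.vC) (subst (sub pcS2 ⟨true, true, true, true, false⟩) (strict (pcS2.m3 false))) :=
  ⟨756, 31, 23, 6, 0, List.all_eq_true.1 grpS2_18 _ (.head _)⟩
def chkS2_45 : Chk (boxS2.vC) (subst (sub pcS2 ⟨true, true, true, true, true⟩) (strict (pcS2.m3 false))) :=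
  ⟨756, 31, 23, 6, 0, List.all_eq_true.1 grpS2_18 _ (.tail _ (.head _))⟩
def chkS2_52 : Chk (boxS2.vC) (subst (sub pcS2 ⟨true, true, true, true, false⟩) (strict (pcS2.m3 true))) :=
  ⟨756, 31, 23, 6, 0, List.all_eq_true.1 grpS2_18 _ (.tail _ (.tail _ (.head _)))⟩
def chkS2_53 : Chk (boxS2.vC) (subst (sub pcS2 ⟨true, true, true, true, true⟩) (strict (pcS2.m3 true))) :=
  ⟨756, 31, 23, 6, 0, List.all_eq_true.1 grpS2_18 _ (.tail _ (.tail _ (.tail _ (.head _))))⟩
def chkS2_54 : Chk (boxS2.vC) (subst (sub pcS2 ⟨false, false, true, true, false⟩) (negEx coMG12)) :=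
  ⟨169, 8, 5, 4, 0, by decide +kernel⟩
def grpS2_20 : ([subst (sub pcS2 ⟨false, false, true, true, false⟩) (negEx (pcS2.curve2 false)),
    subst (sub pcS2 ⟨false, false, true, true, false⟩) (negEx (pcS2.curve2 true))].all
    (checkFour (boxS2.vC) 184 9 5 4 0)) = true := by decide +kernel
def chkS2_55 : Chk (boxS2.vC) (subst (sub pcS2 ⟨false, false, true, true, false⟩) (negEx (pcS2.curve2 false))) :=
  ⟨184, 9, 5, 4, 0, List.all_eq_true.1 grpS2_20 _ (.head _)⟩
def chkS2_56 : Chk (boxS2.vC) (subst (sub pcS2 ⟨false, false, true, true, false⟩) (negEx (pcS2.curve2 true))) :=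
  ⟨184, 9, 5, 4, 0, List.all_eq_true.1 grpS2_20 _ (.tail _ (.head _))⟩
def grpS2_21 : ([subst (sub pcS2 ⟨false, false, true, true, false⟩) (negEx (pcS2.curve3 false)),
    subst (sub pcS2 ⟨false, false, true, true, false⟩) (negEx (pcS2.curve3 true))].all
    (checkFour (boxS2.vC) 192 9 6 4 0)) = true := by decide +kernel
def chkS2_57 : Chk (boxS2.vC) (subst (sub pcS2 ⟨false, false, true, true, false⟩) (negEx (pcS2.curve3 false))) :=
  ⟨192, 9, 6, 4, 0, List.all_eq_true.1 grpS2_21 _ (.head _)⟩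
def chkS2_58 : Chk (boxS2.vC) (subst (sub pcS2 ⟨false, false, true, true, false⟩) (negEx (pcS2.curve3 true))) :=
  ⟨192, 9, 6, 4, 0, List.all_eq_true.1 grpS2_21 _ (.tail _ (.head _))⟩
def grpS2_22 : ([subst (sub pcS2 ⟨false, false, true, true, false⟩) (slopeT),
    subst (sub pcS2 ⟨true, false, true, true, false⟩) (slopeT)].all
    (checkFour (boxS2.vC) 206 10 6 4 0)) = true := by decide +kernel
def chkS2_59 : Chk (boxS2.vC) (subst (sub pcS2 ⟨false, false, true, true, false⟩) (slopeT)) :=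
  ⟨206, 10, 6, 4, 0, List.all_eq_true.1 grpS2_22 _ (.head _)⟩
def chkS2_60 : Chk (boxS2.vC) (subst (sub pcS2 ⟨true, false, true, true, false⟩) (slopeT)) :=
  ⟨206, 10, 6, 4, 0, List.all_eq_true.1 grpS2_22 _ (.tail _ (.head _))⟩
def grpS2_23 : ([subst (gapSub pcS2 true false false) tplL,
    subst (gapSub pcS2 true false true) tplL,
    subst (gapSub pcS2 true true false) tplL,
    subst (gapSub pcS2 true true true) tplL].all
    (checkFour (boxS2.gC true) 505 25 16 5 2)) = true := by decide +kernel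
def chkS2_61 : Chk (boxS2.gC true) (subst (gapSub pcS2 true false false) tplL) :=
  ⟨505, 25, 16, 5, 2, List.all_eq_true.1 grpS2_23 _ (.head _)⟩
def chkS2_62 : Chk (boxS2.gC true) (subst (gapSub pcS2 true false true) tplL) :=
  ⟨505, 25, 16, 5, 2, List.all_eq_true.1 grpS2_23 _ (.tail _ (.head _))⟩
def chkS2_63 : Chk (boxS2.gC true) (subst (gapSub pcS2 true true false) tplL) :=
  ⟨505, 25, 16, 5, 2, List.all_eq_true.1 grpS2_23 _ (.tail _ (.tail _ (.head _)))⟩
def chkS2_64 : Chk (boxS2.gC true) (subst (gapSub pcS2 true true true) tplL) :=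
  ⟨505, 25, 16, 5, 2, List.all_eq_true.1 grpS2_23 _ (.tail _ (.tail _ (.tail _ (.head _))))⟩

/-- Piece 2 passes. -/
theorem certS2 : Cert pcS2 boxS2 true where
  pos := by
    refine ⟨⟨⟨?_, ?_, ?_, ?_, ?_, ?_, ?_⟩, ?_, ?_, ?_, ?_, ?_, ?_, ?_, ?_, ?_, ?_, ?_⟩, ?_, ?_⟩ <;>
      norm_num [fr, pcS2]
  gX := fun p l => match p, l with
    | false, false => chkS2_18
    | false, true => chkS2_19
    | true, false => chkS2_20
    | true, true => chkS2_21
  gMG := fun p l => match p, l with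
    | false, false => chkS2_22
    | false, true => chkS2_23
    | true, false => chkS2_24
    | true, true => chkS2_25
  g1 := fun p l => match p, l with
    | false, false => chkS2_26
    | false, true => chkS2_27
    | true, false => chkS2_28
    | true, true => chkS2_29
  g2 := fun s p t => match s, p, t with
    | false, false, false => chkS2_30
    | false, false, true => chkS2_31
    | false, true, false => chkS2_32
    | false, true, true => chkS2_33
    | true, false, false => chkS2_34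
    | true, false, true => chkS2_35
    | true, true, false => chkS2_36
    | true, true, true => chkS2_37
  g3 := fun s p l t => match s, p, l, t with
    | false, false, false, false => chkS2_38
    | false, false, false, true => chkS2_39
    | false, false, true, false => chkS2_40
    | false, false, true, true => chkS2_41
    | false, true, false, false => chkS2_42
    | false, true, false, true => chkS2_43
    | false, true, true, false => chkS2_44
    | false, true, true, true => chkS2_45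
    | true, false, false, false => chkS2_46
    | true, false, false, true => chkS2_47
    | true, false, true, false => chkS2_48
    | true, false, true, true => chkS2_49
    | true, true, false, false => chkS2_50
    | true, true, false, true => chkS2_51
    | true, true, true, false => chkS2_52
    | true, true, true, true => chkS2_53
  cMG := chkS2_54
  c2 := fun s => match s with
    | false => chkS2_55
    | true => chkS2_56
  c3 := fun s => match s with
    | false => chkS2_57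
    | true => chkS2_58
  sT := fun p => match p with
    | false => chkS2_59
    | true => chkS2_60
  bnd := fun ze b => match ze, b with
    | false, .l0 => chkS2_0
    | false, .l1 => chkS2_1
    | false, .r => chkS2_2
    | false, .g0 => chkS2_3
    | false, .g1 => chkS2_4
    | false, .t0 => chkS2_5
    | false, .t1 => chkS2_6
    | false, .w0 => chkS2_7
    | false, .w1 => chkS2_8
    | true, .l0 => chkS2_9
    | true, .l1 => chkS2_10
    | true, .r => chkS2_11
    | true, .g0 => chkS2_12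
    | true, .g1 => chkS2_13
    | true, .t0 => chkS2_14
    | true, .t1 => chkS2_15
    | true, .w0 => chkS2_16
    | true, .w1 => chkS2_17
  gap := fun ze t => match ze, t with
    | false, false => chkS2_61
    | false, true => chkS2_62
    | true, false => chkS2_63
    | true, true => chkS2_64

/-- A window of piece 2. -/
def winS2L : Win := ⟨.A, (50, 143, 1000), (0, 237, 250), (-32, 77, 100), (77, 281, 100), (281, 8100, 100), (45, 58, 100), true, false, (93, -77), (607, 1000)⟩

/-- The window passes. -/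
theorem winS2L_ok : winS2L.Cert where
  fits := ⟨by norm_num [winS2L], by norm_num [winS2L, qLo], by norm_num [winS2L, qLo, qHi],
    by norm_num [winS2L, qLo, qHi], by norm_num [winS2L, qLo], by norm_num [winS2L, qHi]⟩
  cross := ⟨282, 9, 6, 2, 7, by decide +kernel⟩
  exit := ⟨305, 12, 7, 3, 8, by decide +kernel⟩
  mix := ⟨392, 14, 9, 3, 11, by decide +kernel⟩

/-- The tight band is crossed one way on piece 2. -/
theorem bandS2 : Chk (winS2L.chart (45, 58, 100) winS2L.qc) (sBand winS2L.kind) :=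
  ⟨490, 17, 11, 3, 14, by decide +kernel⟩

end Vale.Agent.P100.Calib.StripMid
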