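import Vale.Agent.P100.Calib.SlabStripMidSevWindow

/-!
# The checks of piece 20 below 153/200 for `N` between seven and twenty
-/

set_option linter.defProp false

namespace Vale.Agent.P100.Calib.StripMid

open Pack

/-- The numbers of piece 20. -/
def pcS20 : Piece := ⟨.D, (27, 50), (67, 100), (27, 50), (21, 25), (127, 50), (97, 200), (199, 200), (113, 125), (332, -525, 500), (7, -6, 8), 38, (13,-85,60,1), (209, 250), (1393, 1000), (9, 20), (3, 5), (7, 5)⟩

/-- The ranges of piece 20. -/
def boxS20 : Box := ⟨(50, 103, 1000), (35, 56, 200), (21, 120, 50), (42, 127, 50), (54, 67, 100)⟩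

def grpS20_0 : ([bound pcS20 false .l0,
    bound pcS20 false .l1,
    bound pcS20 false .r,
    bound pcS20 true .l0,
    bound pcS20 true .l1,
    bound pcS20 true .r].all
    (checkFour (boxS20.cC) 284 13 9 2 3)) = true := by decide +kernel
def chkS20_0 : Chk (boxS20.cC) (bound pcS20 false .l0) :=
  ⟨284, 13, 9, 2, 3, List.all_eq_true.1 grpS20_0 _ (.head _)⟩
def chkS20_1 : Chk (boxS20.cC) (bound pcS20 false .l1) :=
  ⟨284, 13, 9, 2, 3, List.all_eq_true.1 grpS20_0 _ (.tail _ (.head _))⟩
def chkS20_2 : Chk (boxS20.cC) (bound pcS20 false .r) :=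
  ⟨284, 13, 9, 2, 3, List.all_eq_true.1 grpS20_0 _ (.tail _ (.tail _ (.head _)))⟩
def chkS20_9 : Chk (boxS20.cC) (bound pcS20 true .l0) :=
  ⟨284, 13, 9, 2, 3, List.all_eq_true.1 grpS20_0 _ (.tail _ (.tail _ (.tail _ (.head _))))⟩
def chkS20_10 : Chk (boxS20.cC) (bound pcS20 true .l1) :=
  ⟨284, 13, 9, 2, 3, List.all_eq_true.1 grpS20_0 _ (.tail _ (.tail _ (.tail _ (.tail _ (.head _)))))⟩
def chkS20_11 : Chk (boxS20.cC) (bound pcS20 true .r) :=
  ⟨284, 13, 9, 2, 3, List.all_eq_true.1 grpS20_0 _ (.tail _ (.tail _ (.tail _ (.tail _ (.tail _ (.head _))))))⟩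
def grpS20_1 : ([bound pcS20 false .g0,
    bound pcS20 false .g1,
    bound pcS20 true .g0,
    bound pcS20 true .g1].all
    (checkFour (boxS20.cC) 113 4 3 1 2)) = true := by decide +kernel
def chkS20_3 : Chk (boxS20.cC) (bound pcS20 false .g0) :=
  ⟨113, 4, 3, 1, 2, List.all_eq_true.1 grpS20_1 _ (.head _)⟩
def chkS20_4 : Chk (boxS20.cC) (bound pcS20 false .g1) :=
  ⟨113, 4, 3, 1, 2, List.all_eq_true.1 grpS20_1 _ (.tail _ (.head _))⟩
def chkS20_12 : Chk (boxS20.cC) (bound pcS20 true .g0) :=
  ⟨113, 4, 3, 1, 2, List.all_eq_true.1 grpS20_1 _ (.tail _ (.tail _ (.head _)))⟩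
def chkS20_13 : Chk (boxS20.cC) (bound pcS20 true .g1) :=
  ⟨113, 4, 3, 1, 2, List.all_eq_true.1 grpS20_1 _ (.tail _ (.tail _ (.tail _ (.head _))))⟩
def grpS20_2 : ([bound pcS20 false .t0,
    bound pcS20 false .t1,
    bound pcS20 true .t0,
    bound pcS20 true .t1].all
    (checkFour (boxS20.cC) 175 6 6 2 3)) = true := by decide +kernel
def chkS20_5 : Chk (boxS20.cC) (bound pcS20 false .t0) :=
  ⟨175, 6, 6, 2, 3, List.all_eq_true.1 grpS20_2 _ (.head _)⟩
def chkS20_6 : Chk (boxS20.cC) (bound pcS20 false .t1) :=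
  ⟨175, 6, 6, 2, 3, List.all_eq_true.1 grpS20_2 _ (.tail _ (.head _))⟩
def chkS20_14 : Chk (boxS20.cC) (bound pcS20 true .t0) :=
  ⟨175, 6, 6, 2, 3, List.all_eq_true.1 grpS20_2 _ (.tail _ (.tail _ (.head _)))⟩
def chkS20_15 : Chk (boxS20.cC) (bound pcS20 true .t1) :=
  ⟨175, 6, 6, 2, 3, List.all_eq_true.1 grpS20_2 _ (.tail _ (.tail _ (.tail _ (.head _))))⟩
def grpS20_3 : ([bound pcS20 false .w0,
    bound pcS20 false .w1,
    bound pcS20 true .w0,
    bound pcS20 true .w1].all
    (checkFour (boxS20.cC) 238 10 7 3 4)) = true := by decide +kernel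
def chkS20_7 : Chk (boxS20.cC) (bound pcS20 false .w0) :=
  ⟨238, 10, 7, 3, 4, List.all_eq_true.1 grpS20_3 _ (.head _)⟩
def chkS20_8 : Chk (boxS20.cC) (bound pcS20 false .w1) :=
  ⟨238, 10, 7, 3, 4, List.all_eq_true.1 grpS20_3 _ (.tail _ (.head _))⟩
def chkS20_16 : Chk (boxS20.cC) (bound pcS20 true .w0) :=
  ⟨238, 10, 7, 3, 4, List.all_eq_true.1 grpS20_3 _ (.tail _ (.tail _ (.head _)))⟩
def chkS20_17 : Chk (boxS20.cC) (bound pcS20 true .w1) :=
  ⟨238, 10, 7, 3, 4, List.all_eq_true.1 grpS20_3 _ (.tail _ (.tail _ (.tail _ (.head _))))⟩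
def grpS20_4 : ([subst (sub pcS20 ⟨false, false, true, true, false⟩) (condX),
    subst (sub pcS20 ⟨false, true, true, true, false⟩) (condX),
    subst (sub pcS20 ⟨true, false, true, true, false⟩) (condX),
    subst (sub pcS20 ⟨true, true, true, true, false⟩) (condX)].all
    (checkFour (boxS20.vC) 297 13 10 4 0)) = true := by decide +kernel
def chkS20_18 : Chk (boxS20.vC) (subst (sub pcS20 ⟨false, false, true, true, false⟩) (condX)) :=
  ⟨297, 13, 10, 4, 0, List.all_eq_true.1 grpS20_4 _ (.head _)⟩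
def chkS20_19 : Chk (boxS20.vC) (subst (sub pcS20 ⟨false, true, true, true, false⟩) (condX)) :=
  ⟨297, 13, 10, 4, 0, List.all_eq_true.1 grpS20_4 _ (.tail _ (.head _))⟩
def chkS20_20 : Chk (boxS20.vC) (subst (sub pcS20 ⟨true, false, true, true, false⟩) (condX)) :=
  ⟨297, 13, 10, 4, 0, List.all_eq_true.1 grpS20_4 _ (.tail _ (.tail _ (.head _)))⟩
def chkS20_21 : Chk (boxS20.vC) (subst (sub pcS20 ⟨true, true, true, true, false⟩) (condX)) :=
  ⟨297, 13, 10, 4, 0, List.all_eq_true.1 grpS20_4 _ (.tail _ (.tail _ (.tail _ (.head _))))⟩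
def grpS20_5 : ([subst (sub pcS20 ⟨false, false, true, false, false⟩) (tplMG),
    subst (sub pcS20 ⟨false, true, true, false, false⟩) (tplMG),
    subst (sub pcS20 ⟨true, false, true, false, false⟩) (tplMG),
    subst (sub pcS20 ⟨true, true, true, false, false⟩) (tplMG)].all
    (checkFour (boxS20.vC) 575 26 20 6 0)) = true := by decide +kernel
def chkS20_22 : Chk (boxS20.vC) (subst (sub pcS20 ⟨false, false, true, false, false⟩) (tplMG)) :=
  ⟨575, 26, 20, 6, 0, List.all_eq_true.1 grpS20_5 _ (.head _)⟩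
def chkS20_23 : Chk (boxS20.vC) (subst (sub pcS20 ⟨false, true, true, false, false⟩) (tplMG)) :=
  ⟨575, 26, 20, 6, 0, List.all_eq_true.1 grpS20_5 _ (.tail _ (.head _))⟩
def chkS20_24 : Chk (boxS20.vC) (subst (sub pcS20 ⟨true, false, true, false, false⟩) (tplMG)) :=
  ⟨575, 26, 20, 6, 0, List.all_eq_true.1 grpS20_5 _ (.tail _ (.tail _ (.head _)))⟩
def chkS20_25 : Chk (boxS20.vC) (subst (sub pcS20 ⟨true, true, true, false, false⟩) (tplMG)) :=
  ⟨575, 26, 20, 6, 0, List.all_eq_true.1 grpS20_5 _ (.tail _ (.tail _ (.tail _ (.head _))))⟩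
def grpS20_6 : ([subst (sub pcS20 ⟨false, false, false, false, false⟩) (pcS20.m1),
    subst (sub pcS20 ⟨false, true, false, false, false⟩) (pcS20.m1),
    subst (sub pcS20 ⟨true, false, false, false, false⟩) (pcS20.m1),
    subst (sub pcS20 ⟨true, true, false, false, false⟩) (pcS20.m1)].all
    (checkFour (boxS20.vC) 393 17 14 4 0)) = true := by decide +kernel
def chkS20_26 : Chk (boxS20.vC) (subst (sub pcS20 ⟨false, false, false, false, false⟩) (pcS20.m1)) :=
  ⟨393, 17, 14, 4, 0, List.all_eq_true.1 grpS20_6 _ (.head _)⟩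
def chkS20_27 : Chk (boxS20.vC) (subst (sub pcS20 ⟨false, true, false, false, false⟩) (pcS20.m1)) :=
  ⟨393, 17, 14, 4, 0, List.all_eq_true.1 grpS20_6 _ (.tail _ (.head _))⟩
def chkS20_28 : Chk (boxS20.vC) (subst (sub pcS20 ⟨true, false, false, false, false⟩) (pcS20.m1)) :=
  ⟨393, 17, 14, 4, 0, List.all_eq_true.1 grpS20_6 _ (.tail _ (.tail _ (.head _)))⟩
def chkS20_29 : Chk (boxS20.vC) (subst (sub pcS20 ⟨true, true, false, false, false⟩) (pcS20.m1)) :=
  ⟨393, 17, 14, 4, 0, List.all_eq_true.1 grpS20_6 _ (.tail _ (.tail _ (.tail _ (.head _))))⟩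
def chkS20_30 : Chk (boxS20.vC) (subst (sub pcS20 ⟨false, false, true, false, false⟩) (strict (pcS20.m2 false))) :=
  ⟨607, 24, 19, 6, 0, by decide +kernel⟩
def chkS20_31 : Chk (boxS20.vC) (subst (sub pcS20 ⟨false, false, true, false, true⟩) (strict (pcS20.m2 false))) :=
  ⟨595, 24, 19, 6, 0, by decide +kernel⟩
def chkS20_32 : Chk (boxS20.vC) (subst (sub pcS20 ⟨true, false, true, false, false⟩) (strict (pcS20.m2 false))) :=
  ⟨607, 24, 19, 6, 0, by decide +kernel⟩
def chkS20_33 : Chk (boxS20.vC) (subst (sub pcS20 ⟨true, false, true, false, true⟩) (strict (pcS20.m2 false))) :=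
  ⟨595, 24, 19, 6, 0, by decide +kernel⟩
def chkS20_34 : Chk (boxS20.vC) (subst (sub pcS20 ⟨false, true, true, false, false⟩) (strict (pcS20.m2 true))) :=
  ⟨607, 24, 19, 6, 0, by decide +kernel⟩
def chkS20_35 : Chk (boxS20.vC) (subst (sub pcS20 ⟨false, true, true, false, true⟩) (strict (pcS20.m2 true))) :=
  ⟨595, 24, 19, 6, 0, by decide +kernel⟩
def chkS20_36 : Chk (boxS20.vC) (subst (sub pcS20 ⟨true, true, true, false, false⟩) (strict (pcS20.m2 true))) :=
  ⟨607, 24, 19, 6, 0, by decide +kernel⟩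
def chkS20_37 : Chk (boxS20.vC) (subst (sub pcS20 ⟨true, true, true, false, true⟩) (strict (pcS20.m2 true))) :=
  ⟨595, 24, 19, 6, 0, by decide +kernel⟩
def grpS20_15 : ([subst (sub pcS20 ⟨false, false, true, true, false⟩) (strict (pcS20.m3 false)),
    subst (sub pcS20 ⟨false, false, true, true, true⟩) (strict (pcS20.m3 false)),
    subst (sub pcS20 ⟨false, false, true, true, false⟩) (strict (pcS20.m3 true)),
    subst (sub pcS20 ⟨false, false, true, true, true⟩) (strict (pcS20.m3 true))].all
    (checkFour (boxS20.vC) 756 31 25 6 0)) = true := by decide +kernel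
def chkS20_38 : Chk (boxS20.vC) (subst (sub pcS20 ⟨false, false, true, true, false⟩) (strict (pcS20.m3 false))) :=
  ⟨756, 31, 25, 6, 0, List.all_eq_true.1 grpS20_15 _ (.head _)⟩
def chkS20_39 : Chk (boxS20.vC) (subst (sub pcS20 ⟨false, false, true, true, true⟩) (strict (pcS20.m3 false))) :=
  ⟨756, 31, 25, 6, 0, List.all_eq_true.1 grpS20_15 _ (.tail _ (.head _))⟩
def chkS20_46 : Chk (boxS20.vC) (subst (sub pcS20 ⟨false, false, true, true, false⟩) (strict (pcS20.m3 true))) :=
  ⟨756, 31, 25, 6, 0, List.all_eq_true.1 grpS20_15 _ (.tail _ (.tail _ (.head _)))⟩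
def chkS20_47 : Chk (boxS20.vC) (subst (sub pcS20 ⟨false, false, true, true, true⟩) (strict (pcS20.m3 true))) :=
  ⟨756, 31, 25, 6, 0, List.all_eq_true.1 grpS20_15 _ (.tail _ (.tail _ (.tail _ (.head _))))⟩
def grpS20_16 : ([subst (sub pcS20 ⟨false, true, true, true, false⟩) (strict (pcS20.m3 false)),
    subst (sub pcS20 ⟨false, true, true, true, true⟩) (strict (pcS20.m3 false)),
    subst (sub pcS20 ⟨false, true, true, true, false⟩) (strict (pcS20.m3 true)),
    subst (sub pcS20 ⟨false, true, true, true, true⟩) (strict (pcS20.m3 true))].all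
    (checkFour (boxS20.vC) 756 31 25 6 0)) = true := by decide +kernel
def chkS20_40 : Chk (boxS20.vC) (subst (sub pcS20 ⟨false, true, true, true, false⟩) (strict (pcS20.m3 false))) :=
  ⟨756, 31, 25, 6, 0, List.all_eq_true.1 grpS20_16 _ (.head _)⟩
def chkS20_41 : Chk (boxS20.vC) (subst (sub pcS20 ⟨false, true, true, true, true⟩) (strict (pcS20.m3 false))) :=
  ⟨756, 31, 25, 6, 0, List.all_eq_true.1 grpS20_16 _ (.tail _ (.head _))⟩
def chkS20_48 : Chk (boxS20.vC) (subst (sub pcS20 ⟨false, true, true, true, false⟩) (strict (pcS20.m3 true))) :=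
  ⟨756, 31, 25, 6, 0, List.all_eq_true.1 grpS20_16 _ (.tail _ (.tail _ (.head _)))⟩
def chkS20_49 : Chk (boxS20.vC) (subst (sub pcS20 ⟨false, true, true, true, true⟩) (strict (pcS20.m3 true))) :=
  ⟨756, 31, 25, 6, 0, List.all_eq_true.1 grpS20_16 _ (.tail _ (.tail _ (.tail _ (.head _))))⟩
def grpS20_17 : ([subst (sub pcS20 ⟨true, false, true, true, false⟩) (strict (pcS20.m3 false)),
    subst (sub pcS20 ⟨true, false, true, true, true⟩) (strict (pcS20.m3 false)),
    subst (sub pcS20 ⟨true, false, true, true, false⟩) (strict (pcS20.m3 true)),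
    subst (sub pcS20 ⟨true, false, true, true, true⟩) (strict (pcS20.m3 true))].all
    (checkFour (boxS20.vC) 756 31 25 6 0)) = true := by decide +kernel
def chkS20_42 : Chk (boxS20.vC) (subst (sub pcS20 ⟨true, false, true, true, false⟩) (strict (pcS20.m3 false))) :=
  ⟨756, 31, 25, 6, 0, List.all_eq_true.1 grpS20_17 _ (.head _)⟩
def chkS20_43 : Chk (boxS20.vC) (subst (sub pcS20 ⟨true, false, true, true, true⟩) (strict (pcS20.m3 false))) :=
  ⟨756, 31, 25, 6, 0, List.all_eq_true.1 grpS20_17 _ (.tail _ (.head _))⟩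
def chkS20_50 : Chk (boxS20.vC) (subst (sub pcS20 ⟨true, false, true, true, false⟩) (strict (pcS20.m3 true))) :=
  ⟨756, 31, 25, 6, 0, List.all_eq_true.1 grpS20_17 _ (.tail _ (.tail _ (.head _)))⟩
def chkS20_51 : Chk (boxS20.vC) (subst (sub pcS20 ⟨true, false, true, true, true⟩) (strict (pcS20.m3 true))) :=
  ⟨756, 31, 25, 6, 0, List.all_eq_true.1 grpS20_17 _ (.tail _ (.tail _ (.tail _ (.head _))))⟩
def grpS20_18 : ([subst (sub pcS20 ⟨true, true, true, true, false⟩) (strict (pcS20.m3 false)),
    subst (sub pcS20 ⟨true, true, true, true, true⟩) (strict (pcS20.m3 false)),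
    subst (sub pcS20 ⟨true, true, true, true, false⟩) (strict (pcS20.m3 true)),
    subst (sub pcS20 ⟨true, true, true, true, true⟩) (strict (pcS20.m3 true))].all
    (checkFour (boxS20.vC) 756 31 25 6 0)) = true := by decide +kernel
def chkS20_44 : Chk (boxS20.vC) (subst (sub pcS20 ⟨true, true, true, true, false⟩) (strict (pcS20.m3 false))) :=
  ⟨756, 31, 25, 6, 0, List.all_eq_true.1 grpS20_18 _ (.head _)⟩
def chkS20_45 : Chk (boxS20.vC) (subst (sub pcS20 ⟨true, true, true, true, true⟩) (strict (pcS20.m3 false))) :=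
  ⟨756, 31, 25, 6, 0, List.all_eq_true.1 grpS20_18 _ (.tail _ (.head _))⟩
def chkS20_52 : Chk (boxS20.vC) (subst (sub pcS20 ⟨true, true, true, true, false⟩) (strict (pcS20.m3 true))) :=
  ⟨756, 31, 25, 6, 0, List.all_eq_true.1 grpS20_18 _ (.tail _ (.tail _ (.head _)))⟩
def chkS20_53 : Chk (boxS20.vC) (subst (sub pcS20 ⟨true, true, true, true, true⟩) (strict (pcS20.m3 true))) :=
  ⟨756, 31, 25, 6, 0, List.all_eq_true.1 grpS20_18 _ (.tail _ (.tail _ (.tail _ (.head _))))⟩
def grpS20_19 : ([subst (sub pcS20 ⟨false, false, true, true, false⟩) (negEx coMG12),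
    subst (sub pcS20 ⟨false, false, true, true, false⟩) (negEx (pcS20.curve2 false)),
    subst (sub pcS20 ⟨false, false, true, true, false⟩) (negEx (pcS20.curve2 true))].all
    (checkFour (boxS20.vC) 137 5 5 4 0)) = true := by decide +kernel
def chkS20_54 : Chk (boxS20.vC) (subst (sub pcS20 ⟨false, false, true, true, false⟩) (negEx coMG12)) :=
  ⟨137, 5, 5, 4, 0, List.all_eq_true.1 grpS20_19 _ (.head _)⟩
def chkS20_55 : Chk (boxS20.vC) (subst (sub pcS20 ⟨false, false, true, true, false⟩) (negEx (pcS20.curve2 false))) :=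
  ⟨137, 5, 5, 4, 0, List.all_eq_true.1 grpS20_19 _ (.tail _ (.head _))⟩
def chkS20_56 : Chk (boxS20.vC) (subst (sub pcS20 ⟨false, false, true, true, false⟩) (negEx (pcS20.curve2 true))) :=
  ⟨137, 5, 5, 4, 0, List.all_eq_true.1 grpS20_19 _ (.tail _ (.tail _ (.head _)))⟩
def grpS20_20 : ([subst (sub pcS20 ⟨false, false, true, true, false⟩) (negEx (pcS20.curve3 false)),
    subst (sub pcS20 ⟨false, false, true, true, false⟩) (negEx (pcS20.curve3 true))].all
    (checkFour (boxS20.vC) 154 6 6 4 0)) = true := by decide +kernel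
def chkS20_57 : Chk (boxS20.vC) (subst (sub pcS20 ⟨false, false, true, true, false⟩) (negEx (pcS20.curve3 false))) :=
  ⟨154, 6, 6, 4, 0, List.all_eq_true.1 grpS20_20 _ (.head _)⟩
def chkS20_58 : Chk (boxS20.vC) (subst (sub pcS20 ⟨false, false, true, true, false⟩) (negEx (pcS20.curve3 true))) :=
  ⟨154, 6, 6, 4, 0, List.all_eq_true.1 grpS20_20 _ (.tail _ (.head _))⟩
def grpS20_21 : ([subst (sub pcS20 ⟨false, false, true, true, false⟩) (slopeT),
    subst (sub pcS20 ⟨true, false, true, true, false⟩) (slopeT)].all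
    (checkFour (boxS20.vC) 170 7 6 4 0)) = true := by decide +kernel
def chkS20_59 : Chk (boxS20.vC) (subst (sub pcS20 ⟨false, false, true, true, false⟩) (slopeT)) :=
  ⟨170, 7, 6, 4, 0, List.all_eq_true.1 grpS20_21 _ (.head _)⟩
def chkS20_60 : Chk (boxS20.vC) (subst (sub pcS20 ⟨true, false, true, true, false⟩) (slopeT)) :=
  ⟨170, 7, 6, 4, 0, List.all_eq_true.1 grpS20_21 _ (.tail _ (.head _))⟩
def grpS20_22 : ([subst (gapSub pcS20 true false false) tplL,
    subst (gapSub pcS20 true false true) tplL,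
    subst (gapSub pcS20 true true false) tplL,
    subst (gapSub pcS20 true true true) tplL].all
    (checkFour (boxS20.gC true) 475 22 17 5 2)) = true := by decide +kernel
def chkS20_61 : Chk (boxS20.gC true) (subst (gapSub pcS20 true false false) tplL) :=
  ⟨475, 22, 17, 5, 2, List.all_eq_true.1 grpS20_22 _ (.head _)⟩
def chkS20_62 : Chk (boxS20.gC true) (subst (gapSub pcS20 true false true) tplL) :=
  ⟨475, 22, 17, 5, 2, List.all_eq_true.1 grpS20_22 _ (.tail _ (.head _))⟩
def chkS20_63 : Chk (boxS20.gC true) (subst (gapSub pcS20 true true false) tplL) :=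
  ⟨475, 22, 17, 5, 2, List.all_eq_true.1 grpS20_22 _ (.tail _ (.tail _ (.head _)))⟩
def chkS20_64 : Chk (boxS20.gC true) (subst (gapSub pcS20 true true true) tplL) :=
  ⟨475, 22, 17, 5, 2, List.all_eq_true.1 grpS20_22 _ (.tail _ (.tail _ (.tail _ (.head _))))⟩

/-- Piece 20 passes. -/
theorem certS20 : Cert pcS20 boxS20 true where
  pos := by
    refine ⟨⟨⟨?_, ?_, ?_, ?_, ?_, ?_, ?_⟩, ?_, ?_, ?_, ?_, ?_, ?_, ?_, ?_, ?_, ?_, ?_⟩, ?_, ?_⟩ <;>
      norm_num [fr, pcS20]
  gX := fun p l => match p, l with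
    | false, false => chkS20_18
    | false, true => chkS20_19
    | true, false => chkS20_20
    | true, true => chkS20_21
  gMG := fun p l => match p, l with
    | false, false => chkS20_22
    | false, true => chkS20_23
    | true, false => chkS20_24
    | true, true => chkS20_25
  g1 := fun p l => match p, l with
    | false, false => chkS20_26
    | false, true => chkS20_27
    | true, false => chkS20_28
    | true, true => chkS20_29
  g2 := fun s p t => match s, p, t with
    | false, false, false => chkS20_30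
    | false, false, true => chkS20_31
    | false, true, false => chkS20_32
    | false, true, true => chkS20_33
    | true, false, false => chkS20_34
    | true, false, true => chkS20_35
    | true, true, false => chkS20_36
    | true, true, true => chkS20_37
  g3 := fun s p l t => match s, p, l, t with
    | false, false, false, false => chkS20_38
    | false, false, false, true => chkS20_39
    | false, false, true, false => chkS20_40
    | false, false, true, true => chkS20_41
    | false, true, false, false => chkS20_42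
    | false, true, false, true => chkS20_43
    | false, true, true, false => chkS20_44
    | false, true, true, true => chkS20_45
    | true, false, false, false => chkS20_46
    | true, false, false, true => chkS20_47
    | true, false, true, false => chkS20_48
    | true, false, true, true => chkS20_49
    | true, true, false, false => chkS20_50
    | true, true, false, true => chkS20_51
    | true, true, true, false => chkS20_52
    | true, true, true, true => chkS20_53
  cMG := chkS20_54
  c2 := fun s => match s with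
    | false => chkS20_55
    | true => chkS20_56
  c3 := fun s => match s with
    | false => chkS20_57
    | true => chkS20_58
  sT := fun p => match p with
    | false => chkS20_59
    | true => chkS20_60
  bnd := fun ze b => match ze, b with
    | false, .l0 => chkS20_0
    | false, .l1 => chkS20_1
    | false, .r => chkS20_2
    | false, .g0 => chkS20_3
    | false, .g1 => chkS20_4
    | false, .t0 => chkS20_5
    | false, .t1 => chkS20_6
    | false, .w0 => chkS20_7
    | false, .w1 => chkS20_8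
    | true, .l0 => chkS20_9
    | true, .l1 => chkS20_10
    | true, .r => chkS20_11
    | true, .g0 => chkS20_12
    | true, .g1 => chkS20_13
    | true, .t0 => chkS20_14
    | true, .t1 => chkS20_15
    | true, .w0 => chkS20_16
    | true, .w1 => chkS20_17
  gap := fun ze t => match ze, t with
    | false, false => chkS20_61
    | false, true => chkS20_62
    | true, false => chkS20_63
    | true, true => chkS20_64

/-- A window of piece 20. -/
def winS20L : Win := ⟨.D, (50, 103, 1000), (35, 56, 200), (-27, 84, 100), (42, 127, 50), (127, 3150, 50), (54, 67, 100), true, false, (97, -77), (504, 1000)⟩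

/-- The window passes. -/
theorem winS20L_ok : winS20L.Cert where
  fits := ⟨by norm_num [winS20L], by norm_num [winS20L, qLo], by norm_num [winS20L, qLo, qHi],
    by norm_num [winS20L, qLo, qHi], by norm_num [winS20L, qLo], by norm_num [winS20L, qHi]⟩
  cross := ⟨270, 8, 6, 2, 7, by decide +kernel⟩
  exit := ⟨279, 10, 7, 3, 8, by decide +kernel⟩
  mix := ⟨366, 12, 9, 3, 11, by decide +kernel⟩

/-- The tight band is crossed one way on piece 20. -/
theorem bandS20 : Chk (winS20L.chart (54, 67, 100) winS20L.qc) (sBand winS20L.kind) :=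
  ⟨464, 15, 11, 3, 14, by decide +kernel⟩

end Vale.Agent.P100.Calib.StripMid
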