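import Vale.Agent.P100.Calib.SlabStripMidSevWindow

/-!
# The checks of piece 21 below 153/200 for `N` between seven and twenty
-/

set_option linter.defProp false

namespace Vale.Agent.P100.Calib.StripMid

open Pack

/-- The numbers of piece 21. -/
def pcS21 : Piece := ⟨.D, (67, 100), (153, 200), (27, 50), (21, 25), (23, 10), (97, 200), (199, 200), (113, 125), (332, -525, 500), (7, -6, 8), 38, (13,-85,60,1), (209, 250), (1393, 1000), (9, 20), (3, 5), (7, 5)⟩

/-- The ranges of piece 21. -/
def boxS21 : Box := ⟨(50, 103, 1000), (35, 44, 200), (59, 287, 100), (42, 115, 50), (134, 153, 200)⟩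

def grpS21_0 : ([bound pcS21 false .l0,
    bound pcS21 false .l1,
    bound pcS21 false .r,
    bound pcS21 true .l0,
    bound pcS21 true .l1,
    bound pcS21 true .r].all
    (checkFour (boxS21.cC) 288 13 9 2 3)) = true := by decide +kernel
def chkS21_0 : Chk (boxS21.cC) (bound pcS21 false .l0) :=
  ⟨288, 13, 9, 2, 3, List.all_eq_true.1 grpS21_0 _ (.head _)⟩
def chkS21_1 : Chk (boxS21.cC) (bound pcS21 false .l1) :=
  ⟨288, 13, 9, 2, 3, List.all_eq_true.1 grpS21_0 _ (.tail _ (.head _))⟩
def chkS21_2 : Chk (boxS21.cC) (bound pcS21 false .r) :=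
  ⟨288, 13, 9, 2, 3, List.all_eq_true.1 grpS21_0 _ (.tail _ (.tail _ (.head _)))⟩
def chkS21_9 : Chk (boxS21.cC) (bound pcS21 true .l0) :=
  ⟨288, 13, 9, 2, 3, List.all_eq_true.1 grpS21_0 _ (.tail _ (.tail _ (.tail _ (.head _))))⟩
def chkS21_10 : Chk (boxS21.cC) (bound pcS21 true .l1) :=
  ⟨288, 13, 9, 2, 3, List.all_eq_true.1 grpS21_0 _ (.tail _ (.tail _ (.tail _ (.tail _ (.head _)))))⟩
def chkS21_11 : Chk (boxS21.cC) (bound pcS21 true .r) :=
  ⟨288, 13, 9, 2, 3, List.all_eq_true.1 grpS21_0 _ (.tail _ (.tail _ (.tail _ (.tail _ (.tail _ (.head _))))))⟩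
def grpS21_1 : ([bound pcS21 false .g0,
    bound pcS21 false .g1,
    bound pcS21 true .g0,
    bound pcS21 true .g1].all
    (checkFour (boxS21.cC) 116 4 3 1 2)) = true := by decide +kernel
def chkS21_3 : Chk (boxS21.cC) (bound pcS21 false .g0) :=
  ⟨116, 4, 3, 1, 2, List.all_eq_true.1 grpS21_1 _ (.head _)⟩
def chkS21_4 : Chk (boxS21.cC) (bound pcS21 false .g1) :=
  ⟨116, 4, 3, 1, 2, List.all_eq_true.1 grpS21_1 _ (.tail _ (.head _))⟩
def chkS21_12 : Chk (boxS21.cC) (bound pcS21 true .g0) :=
  ⟨116, 4, 3, 1, 2, List.all_eq_true.1 grpS21_1 _ (.tail _ (.tail _ (.head _)))⟩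
def chkS21_13 : Chk (boxS21.cC) (bound pcS21 true .g1) :=
  ⟨116, 4, 3, 1, 2, List.all_eq_true.1 grpS21_1 _ (.tail _ (.tail _ (.tail _ (.head _))))⟩
def grpS21_2 : ([bound pcS21 false .t0,
    bound pcS21 false .t1,
    bound pcS21 true .t0,
    bound pcS21 true .t1].all
    (checkFour (boxS21.cC) 178 6 6 2 3)) = true := by decide +kernel
def chkS21_5 : Chk (boxS21.cC) (bound pcS21 false .t0) :=
  ⟨178, 6, 6, 2, 3, List.all_eq_true.1 grpS21_2 _ (.head _)⟩
def chkS21_6 : Chk (boxS21.cC) (bound pcS21 false .t1) :=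
  ⟨178, 6, 6, 2, 3, List.all_eq_true.1 grpS21_2 _ (.tail _ (.head _))⟩
def chkS21_14 : Chk (boxS21.cC) (bound pcS21 true .t0) :=
  ⟨178, 6, 6, 2, 3, List.all_eq_true.1 grpS21_2 _ (.tail _ (.tail _ (.head _)))⟩
def chkS21_15 : Chk (boxS21.cC) (bound pcS21 true .t1) :=
  ⟨178, 6, 6, 2, 3, List.all_eq_true.1 grpS21_2 _ (.tail _ (.tail _ (.tail _ (.head _))))⟩
def grpS21_3 : ([bound pcS21 false .w0,
    bound pcS21 false .w1,
    bound pcS21 true .w0,
    bound pcS21 true .w1].all
    (checkFour (boxS21.cC) 242 10 7 3 4)) = true := by decide +kernel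
def chkS21_7 : Chk (boxS21.cC) (bound pcS21 false .w0) :=
  ⟨242, 10, 7, 3, 4, List.all_eq_true.1 grpS21_3 _ (.head _)⟩
def chkS21_8 : Chk (boxS21.cC) (bound pcS21 false .w1) :=
  ⟨242, 10, 7, 3, 4, List.all_eq_true.1 grpS21_3 _ (.tail _ (.head _))⟩
def chkS21_16 : Chk (boxS21.cC) (bound pcS21 true .w0) :=
  ⟨242, 10, 7, 3, 4, List.all_eq_true.1 grpS21_3 _ (.tail _ (.tail _ (.head _)))⟩
def chkS21_17 : Chk (boxS21.cC) (bound pcS21 true .w1) :=
  ⟨242, 10, 7, 3, 4, List.all_eq_true.1 grpS21_3 _ (.tail _ (.tail _ (.tail _ (.head _))))⟩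
def grpS21_4 : ([subst (sub pcS21 ⟨false, false, true, true, false⟩) (condX),
    subst (sub pcS21 ⟨false, true, true, true, false⟩) (condX),
    subst (sub pcS21 ⟨true, false, true, true, false⟩) (condX),
    subst (sub pcS21 ⟨true, true, true, true, false⟩) (condX)].all
    (checkFour (boxS21.vC) 301 13 10 4 0)) = true := by decide +kernel
def chkS21_18 : Chk (boxS21.vC) (subst (sub pcS21 ⟨false, false, true, true, false⟩) (condX)) :=
  ⟨301, 13, 10, 4, 0, List.all_eq_true.1 grpS21_4 _ (.head _)⟩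
def chkS21_19 : Chk (boxS21.vC) (subst (sub pcS21 ⟨false, true, true, true, false⟩) (condX)) :=
  ⟨301, 13, 10, 4, 0, List.all_eq_true.1 grpS21_4 _ (.tail _ (.head _))⟩
def chkS21_20 : Chk (boxS21.vC) (subst (sub pcS21 ⟨true, false, true, true, false⟩) (condX)) :=
  ⟨301, 13, 10, 4, 0, List.all_eq_true.1 grpS21_4 _ (.tail _ (.tail _ (.head _)))⟩
def chkS21_21 : Chk (boxS21.vC) (subst (sub pcS21 ⟨true, true, true, true, false⟩) (condX)) :=
  ⟨301, 13, 10, 4, 0, List.all_eq_true.1 grpS21_4 _ (.tail _ (.tail _ (.tail _ (.head _))))⟩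
def grpS21_5 : ([subst (sub pcS21 ⟨false, false, true, false, false⟩) (tplMG),
    subst (sub pcS21 ⟨false, true, true, false, false⟩) (tplMG),
    subst (sub pcS21 ⟨true, false, true, false, false⟩) (tplMG),
    subst (sub pcS21 ⟨true, true, true, false, false⟩) (tplMG)].all
    (checkFour (boxS21.vC) 581 26 20 6 0)) = true := by decide +kernel
def chkS21_22 : Chk (boxS21.vC) (subst (sub pcS21 ⟨false, false, true, false, false⟩) (tplMG)) :=
  ⟨581, 26, 20, 6, 0, List.all_eq_true.1 grpS21_5 _ (.head _)⟩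
def chkS21_23 : Chk (boxS21.vC) (subst (sub pcS21 ⟨false, true, true, false, false⟩) (tplMG)) :=
  ⟨581, 26, 20, 6, 0, List.all_eq_true.1 grpS21_5 _ (.tail _ (.head _))⟩
def chkS21_24 : Chk (boxS21.vC) (subst (sub pcS21 ⟨true, false, true, false, false⟩) (tplMG)) :=
  ⟨581, 26, 20, 6, 0, List.all_eq_true.1 grpS21_5 _ (.tail _ (.tail _ (.head _)))⟩
def chkS21_25 : Chk (boxS21.vC) (subst (sub pcS21 ⟨true, true, true, false, false⟩) (tplMG)) :=
  ⟨581, 26, 20, 6, 0, List.all_eq_true.1 grpS21_5 _ (.tail _ (.tail _ (.tail _ (.head _))))⟩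
def grpS21_6 : ([subst (sub pcS21 ⟨false, false, false, false, false⟩) (pcS21.m1),
    subst (sub pcS21 ⟨false, true, false, false, false⟩) (pcS21.m1),
    subst (sub pcS21 ⟨true, false, false, false, false⟩) (pcS21.m1),
    subst (sub pcS21 ⟨true, true, false, false, false⟩) (pcS21.m1)].all
    (checkFour (boxS21.vC) 397 17 14 4 0)) = true := by decide +kernel
def chkS21_26 : Chk (boxS21.vC) (subst (sub pcS21 ⟨false, false, false, false, false⟩) (pcS21.m1)) :=
  ⟨397, 17, 14, 4, 0, List.all_eq_true.1 grpS21_6 _ (.head _)⟩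
def chkS21_27 : Chk (boxS21.vC) (subst (sub pcS21 ⟨false, true, false, false, false⟩) (pcS21.m1)) :=
  ⟨397, 17, 14, 4, 0, List.all_eq_true.1 grpS21_6 _ (.tail _ (.head _))⟩
def chkS21_28 : Chk (boxS21.vC) (subst (sub pcS21 ⟨true, false, false, false, false⟩) (pcS21.m1)) :=
  ⟨397, 17, 14, 4, 0, List.all_eq_true.1 grpS21_6 _ (.tail _ (.tail _ (.head _)))⟩
def chkS21_29 : Chk (boxS21.vC) (subst (sub pcS21 ⟨true, true, false, false, false⟩) (pcS21.m1)) :=
  ⟨397, 17, 14, 4, 0, List.all_eq_true.1 grpS21_6 _ (.tail _ (.tail _ (.tail _ (.head _))))⟩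
def chkS21_30 : Chk (boxS21.vC) (subst (sub pcS21 ⟨false, false, true, false, false⟩) (strict (pcS21.m2 false))) :=
  ⟨613, 24, 19, 6, 0, by decide +kernel⟩
def chkS21_31 : Chk (boxS21.vC) (subst (sub pcS21 ⟨false, false, true, false, true⟩) (strict (pcS21.m2 false))) :=
  ⟨601, 24, 19, 6, 0, by decide +kernel⟩
def chkS21_32 : Chk (boxS21.vC) (subst (sub pcS21 ⟨true, false, true, false, false⟩) (strict (pcS21.m2 false))) :=
  ⟨613, 24, 19, 6, 0, by decide +kernel⟩
def chkS21_33 : Chk (boxS21.vC) (subst (sub pcS21 ⟨true, false, true, false, true⟩) (strict (pcS21.m2 false))) :=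
  ⟨601, 24, 19, 6, 0, by decide +kernel⟩
def chkS21_34 : Chk (boxS21.vC) (subst (sub pcS21 ⟨false, true, true, false, false⟩) (strict (pcS21.m2 true))) :=
  ⟨612, 24, 19, 6, 0, by decide +kernel⟩
def chkS21_35 : Chk (boxS21.vC) (subst (sub pcS21 ⟨false, true, true, false, true⟩) (strict (pcS21.m2 true))) :=
  ⟨600, 24, 19, 6, 0, by decide +kernel⟩
def chkS21_36 : Chk (boxS21.vC) (subst (sub pcS21 ⟨true, true, true, false, false⟩) (strict (pcS21.m2 true))) :=
  ⟨612, 24, 19, 6, 0, by decide +kernel⟩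
def chkS21_37 : Chk (boxS21.vC) (subst (sub pcS21 ⟨true, true, true, false, true⟩) (strict (pcS21.m2 true))) :=
  ⟨600, 24, 19, 6, 0, by decide +kernel⟩
def grpS21_15 : ([subst (sub pcS21 ⟨false, false, true, true, false⟩) (strict (pcS21.m3 false)),
    subst (sub pcS21 ⟨false, false, true, true, true⟩) (strict (pcS21.m3 false)),
    subst (sub pcS21 ⟨false, false, true, true, false⟩) (strict (pcS21.m3 true)),
    subst (sub pcS21 ⟨false, false, true, true, true⟩) (strict (pcS21.m3 true))].all
    (checkFour (boxS21.vC) 760 31 25 6 0)) = true := by decide +kernel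
def chkS21_38 : Chk (boxS21.vC) (subst (sub pcS21 ⟨false, false, true, true, false⟩) (strict (pcS21.m3 false))) :=
  ⟨760, 31, 25, 6, 0, List.all_eq_true.1 grpS21_15 _ (.head _)⟩
def chkS21_39 : Chk (boxS21.vC) (subst (sub pcS21 ⟨false, false, true, true, true⟩) (strict (pcS21.m3 false))) :=
  ⟨760, 31, 25, 6, 0, List.all_eq_true.1 grpS21_15 _ (.tail _ (.head _))⟩
def chkS21_46 : Chk (boxS21.vC) (subst (sub pcS21 ⟨false, false, true, true, false⟩) (strict (pcS21.m3 true))) :=
  ⟨760, 31, 25, 6, 0, List.all_eq_true.1 grpS21_15 _ (.tail _ (.tail _ (.head _)))⟩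
def chkS21_47 : Chk (boxS21.vC) (subst (sub pcS21 ⟨false, false, true, true, true⟩) (strict (pcS21.m3 true))) :=
  ⟨760, 31, 25, 6, 0, List.all_eq_true.1 grpS21_15 _ (.tail _ (.tail _ (.tail _ (.head _))))⟩
def grpS21_16 : ([subst (sub pcS21 ⟨false, true, true, true, false⟩) (strict (pcS21.m3 false)),
    subst (sub pcS21 ⟨false, true, true, true, true⟩) (strict (pcS21.m3 false)),
    subst (sub pcS21 ⟨false, true, true, true, false⟩) (strict (pcS21.m3 true)),
    subst (sub pcS21 ⟨false, true, true, true, true⟩) (strict (pcS21.m3 true))].all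
    (checkFour (boxS21.vC) 761 31 25 6 0)) = true := by decide +kernel
def chkS21_40 : Chk (boxS21.vC) (subst (sub pcS21 ⟨false, true, true, true, false⟩) (strict (pcS21.m3 false))) :=
  ⟨761, 31, 25, 6, 0, List.all_eq_true.1 grpS21_16 _ (.head _)⟩
def chkS21_41 : Chk (boxS21.vC) (subst (sub pcS21 ⟨false, true, true, true, true⟩) (strict (pcS21.m3 false))) :=
  ⟨761, 31, 25, 6, 0, List.all_eq_true.1 grpS21_16 _ (.tail _ (.head _))⟩
def chkS21_48 : Chk (boxS21.vC) (subst (sub pcS21 ⟨false, true, true, true, false⟩) (strict (pcS21.m3 true))) :=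
  ⟨761, 31, 25, 6, 0, List.all_eq_true.1 grpS21_16 _ (.tail _ (.tail _ (.head _)))⟩
def chkS21_49 : Chk (boxS21.vC) (subst (sub pcS21 ⟨false, true, true, true, true⟩) (strict (pcS21.m3 true))) :=
  ⟨761, 31, 25, 6, 0, List.all_eq_true.1 grpS21_16 _ (.tail _ (.tail _ (.tail _ (.head _))))⟩
def grpS21_17 : ([subst (sub pcS21 ⟨true, false, true, true, false⟩) (strict (pcS21.m3 false)),
    subst (sub pcS21 ⟨true, false, true, true, true⟩) (strict (pcS21.m3 false)),
    subst (sub pcS21 ⟨true, false, true, true, false⟩) (strict (pcS21.m3 true)),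
    subst (sub pcS21 ⟨true, false, true, true, true⟩) (strict (pcS21.m3 true))].all
    (checkFour (boxS21.vC) 761 31 25 6 0)) = true := by decide +kernel
def chkS21_42 : Chk (boxS21.vC) (subst (sub pcS21 ⟨true, false, true, true, false⟩) (strict (pcS21.m3 false))) :=
  ⟨761, 31, 25, 6, 0, List.all_eq_true.1 grpS21_17 _ (.head _)⟩
def chkS21_43 : Chk (boxS21.vC) (subst (sub pcS21 ⟨true, false, true, true, true⟩) (strict (pcS21.m3 false))) :=
  ⟨761, 31, 25, 6, 0, List.all_eq_true.1 grpS21_17 _ (.tail _ (.head _))⟩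
def chkS21_50 : Chk (boxS21.vC) (subst (sub pcS21 ⟨true, false, true, true, false⟩) (strict (pcS21.m3 true))) :=
  ⟨761, 31, 25, 6, 0, List.all_eq_true.1 grpS21_17 _ (.tail _ (.tail _ (.head _)))⟩
def chkS21_51 : Chk (boxS21.vC) (subst (sub pcS21 ⟨true, false, true, true, true⟩) (strict (pcS21.m3 true))) :=
  ⟨761, 31, 25, 6, 0, List.all_eq_true.1 grpS21_17 _ (.tail _ (.tail _ (.tail _ (.head _))))⟩
def grpS21_18 : ([subst (sub pcS21 ⟨true, true, true, true, false⟩) (strict (pcS21.m3 false)),
    subst (sub pcS21 ⟨true, true, true, true, true⟩) (strict (pcS21.m3 false)),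
    subst (sub pcS21 ⟨true, true, true, true, false⟩) (strict (pcS21.m3 true)),
    subst (sub pcS21 ⟨true, true, true, true, true⟩) (strict (pcS21.m3 true))].all
    (checkFour (boxS21.vC) 761 31 25 6 0)) = true := by decide +kernel
def chkS21_44 : Chk (boxS21.vC) (subst (sub pcS21 ⟨true, true, true, true, false⟩) (strict (pcS21.m3 false))) :=
  ⟨761, 31, 25, 6, 0, List.all_eq_true.1 grpS21_18 _ (.head _)⟩
def chkS21_45 : Chk (boxS21.vC) (subst (sub pcS21 ⟨true, true, true, true, true⟩) (strict (pcS21.m3 false))) :=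
  ⟨761, 31, 25, 6, 0, List.all_eq_true.1 grpS21_18 _ (.tail _ (.head _))⟩
def chkS21_52 : Chk (boxS21.vC) (subst (sub pcS21 ⟨true, true, true, true, false⟩) (strict (pcS21.m3 true))) :=
  ⟨761, 31, 25, 6, 0, List.all_eq_true.1 grpS21_18 _ (.tail _ (.tail _ (.head _)))⟩
def chkS21_53 : Chk (boxS21.vC) (subst (sub pcS21 ⟨true, true, true, true, true⟩) (strict (pcS21.m3 true))) :=
  ⟨761, 31, 25, 6, 0, List.all_eq_true.1 grpS21_18 _ (.tail _ (.tail _ (.tail _ (.head _))))⟩
def grpS21_19 : ([subst (sub pcS21 ⟨false, false, true, true, false⟩) (negEx coMG12),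
    subst (sub pcS21 ⟨false, false, true, true, false⟩) (negEx (pcS21.curve2 false)),
    subst (sub pcS21 ⟨false, false, true, true, false⟩) (negEx (pcS21.curve2 true))].all
    (checkFour (boxS21.vC) 141 5 5 4 0)) = true := by decide +kernel
def chkS21_54 : Chk (boxS21.vC) (subst (sub pcS21 ⟨false, false, true, true, false⟩) (negEx coMG12)) :=
  ⟨141, 5, 5, 4, 0, List.all_eq_true.1 grpS21_19 _ (.head _)⟩
def chkS21_55 : Chk (boxS21.vC) (subst (sub pcS21 ⟨false, false, true, true, false⟩) (negEx (pcS21.curve2 false))) :=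
  ⟨141, 5, 5, 4, 0, List.all_eq_true.1 grpS21_19 _ (.tail _ (.head _))⟩
def chkS21_56 : Chk (boxS21.vC) (subst (sub pcS21 ⟨false, false, true, true, false⟩) (negEx (pcS21.curve2 true))) :=
  ⟨141, 5, 5, 4, 0, List.all_eq_true.1 grpS21_19 _ (.tail _ (.tail _ (.head _)))⟩
def grpS21_20 : ([subst (sub pcS21 ⟨false, false, true, true, false⟩) (negEx (pcS21.curve3 false)),
    subst (sub pcS21 ⟨false, false, true, true, false⟩) (negEx (pcS21.curve3 true))].all
    (checkFour (boxS21.vC) 158 6 6 4 0)) = true := by decide +kernel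
def chkS21_57 : Chk (boxS21.vC) (subst (sub pcS21 ⟨false, false, true, true, false⟩) (negEx (pcS21.curve3 false))) :=
  ⟨158, 6, 6, 4, 0, List.all_eq_true.1 grpS21_20 _ (.head _)⟩
def chkS21_58 : Chk (boxS21.vC) (subst (sub pcS21 ⟨false, false, true, true, false⟩) (negEx (pcS21.curve3 true))) :=
  ⟨158, 6, 6, 4, 0, List.all_eq_true.1 grpS21_20 _ (.tail _ (.head _))⟩
def grpS21_21 : ([subst (sub pcS21 ⟨false, false, true, true, false⟩) (slopeT),
    subst (sub pcS21 ⟨true, false, true, true, false⟩) (slopeT)].all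
    (checkFour (boxS21.vC) 174 7 6 4 0)) = true := by decide +kernel
def chkS21_59 : Chk (boxS21.vC) (subst (sub pcS21 ⟨false, false, true, true, false⟩) (slopeT)) :=
  ⟨174, 7, 6, 4, 0, List.all_eq_true.1 grpS21_21 _ (.head _)⟩
def chkS21_60 : Chk (boxS21.vC) (subst (sub pcS21 ⟨true, false, true, true, false⟩) (slopeT)) :=
  ⟨174, 7, 6, 4, 0, List.all_eq_true.1 grpS21_21 _ (.tail _ (.head _))⟩
def grpS21_22 : ([subst (gapSub pcS21 true false false) tplL,
    subst (gapSub pcS21 true false true) tplL,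
    subst (gapSub pcS21 true true false) tplL,
    subst (gapSub pcS21 true true true) tplL].all
    (checkFour (boxS21.gC true) 482 22 17 5 2)) = true := by decide +kernel
def chkS21_61 : Chk (boxS21.gC true) (subst (gapSub pcS21 true false false) tplL) :=
  ⟨482, 22, 17, 5, 2, List.all_eq_true.1 grpS21_22 _ (.head _)⟩
def chkS21_62 : Chk (boxS21.gC true) (subst (gapSub pcS21 true false true) tplL) :=
  ⟨482, 22, 17, 5, 2, List.all_eq_true.1 grpS21_22 _ (.tail _ (.head _))⟩
def chkS21_63 : Chk (boxS21.gC true) (subst (gapSub pcS21 true true false) tplL) :=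
  ⟨482, 22, 17, 5, 2, List.all_eq_true.1 grpS21_22 _ (.tail _ (.tail _ (.head _)))⟩
def chkS21_64 : Chk (boxS21.gC true) (subst (gapSub pcS21 true true true) tplL) :=
  ⟨482, 22, 17, 5, 2, List.all_eq_true.1 grpS21_22 _ (.tail _ (.tail _ (.tail _ (.head _))))⟩

/-- Piece 21 passes. -/
theorem certS21 : Cert pcS21 boxS21 true where
  pos := by
    refine ⟨⟨⟨?_, ?_, ?_, ?_, ?_, ?_, ?_⟩, ?_, ?_, ?_, ?_, ?_, ?_, ?_, ?_, ?_, ?_, ?_⟩, ?_, ?_⟩ <;>
      norm_num [fr, pcS21]
  gX := fun p l => match p, l with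
    | false, false => chkS21_18
    | false, true => chkS21_19
    | true, false => chkS21_20
    | true, true => chkS21_21
  gMG := fun p l => match p, l with
    | false, false => chkS21_22
    | false, true => chkS21_23
    | true, false => chkS21_24
    | true, true => chkS21_25
  g1 := fun p l => match p, l with
    | false, false => chkS21_26
    | false, true => chkS21_27
    | true, false => chkS21_28
    | true, true => chkS21_29
  g2 := fun s p t => match s, p, t with
    | false, false, false => chkS21_30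
    | false, false, true => chkS21_31
    | false, true, false => chkS21_32
    | false, true, true => chkS21_33
    | true, false, false => chkS21_34
    | true, false, true => chkS21_35
    | true, true, false => chkS21_36
    | true, true, true => chkS21_37
  g3 := fun s p l t => match s, p, l, t with
    | false, false, false, false => chkS21_38
    | false, false, false, true => chkS21_39
    | false, false, true, false => chkS21_40
    | false, false, true, true => chkS21_41
    | false, true, false, false => chkS21_42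
    | false, true, false, true => chkS21_43
    | false, true, true, false => chkS21_44
    | false, true, true, true => chkS21_45
    | true, false, false, false => chkS21_46
    | true, false, false, true => chkS21_47
    | true, false, true, false => chkS21_48
    | true, false, true, true => chkS21_49
    | true, true, false, false => chkS21_50
    | true, true, false, true => chkS21_51
    | true, true, true, false => chkS21_52
    | true, true, true, true => chkS21_53
  cMG := chkS21_54
  c2 := fun s => match s with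
    | false => chkS21_55
    | true => chkS21_56
  c3 := fun s => match s with
    | false => chkS21_57
    | true => chkS21_58
  sT := fun p => match p with
    | false => chkS21_59
    | true => chkS21_60
  bnd := fun ze b => match ze, b with
    | false, .l0 => chkS21_0
    | false, .l1 => chkS21_1
    | false, .r => chkS21_2
    | false, .g0 => chkS21_3
    | false, .g1 => chkS21_4
    | false, .t0 => chkS21_5
    | false, .t1 => chkS21_6
    | false, .w0 => chkS21_7
    | false, .w1 => chkS21_8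
    | true, .l0 => chkS21_9
    | true, .l1 => chkS21_10
    | true, .r => chkS21_11
    | true, .g0 => chkS21_12
    | true, .g1 => chkS21_13
    | true, .t0 => chkS21_14
    | true, .t1 => chkS21_15
    | true, .w0 => chkS21_16
    | true, .w1 => chkS21_17
  gap := fun ze t => match ze, t with
    | false, false => chkS21_61
    | false, true => chkS21_62
    | true, false => chkS21_63
    | true, true => chkS21_64

/-- A window of piece 21. -/
def winS21T : Win := ⟨.D, (50, 103, 1000), (35, 44, 200), (-11, 42, 50), (42, 115, 50), (23, 440, 10), (134, 153, 200), true, true, (81, -53), (504, 1000)⟩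

/-- The window passes. -/
theorem winS21T_ok : winS21T.Cert where
  fits := ⟨by norm_num [winS21T], by norm_num [winS21T, qLo], by norm_num [winS21T, qLo, qHi],
    by norm_num [winS21T, qLo, qHi], by norm_num [winS21T, qLo], by norm_num [winS21T, qHi]⟩
  cross := ⟨276, 8, 6, 2, 7, by decide +kernel⟩
  exit := ⟨252, 10, 7, 3, 6, by decide +kernel⟩
  mix := ⟨358, 12, 9, 3, 10, by decide +kernel⟩

/-- The tight band is crossed one way on piece 21. -/
theorem bandS21 : Chk (winS21T.chart (134, 153, 200) winS21T.qc) (sBand winS21T.kind) :=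
  ⟨479, 15, 11, 3, 14, by decide +kernel⟩

end Vale.Agent.P100.Calib.StripMid
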