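import Vale.Agent.P100.Calib.SlabStripMidSevWindow

/-!
# The checks of piece 22 below 153/200 for `N` between seven and twenty
-/

set_option linter.defProp false

namespace Vale.Agent.P100.Calib.StripMid

open Pack

/-- The numbers of piece 22. -/
def pcS22 : Piece := ⟨.D, (67, 100), (153, 200), (27, 50), (21, 25), (41, 20), (97, 200), (199, 200), (113, 125), (332, -525, 500), (7, -6, 8), 38, (13,-85,60,1), (209, 250), (1393, 1000), (9, 20), (3, 5), (7, 5)⟩

/-- The ranges of piece 22. -/
def boxS22 : Box := ⟨(5, 8, 100), (11, 14, 50), (59, 223, 100), (84, 205, 100), (134, 153, 200)⟩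

def grpS22_0 : ([bound pcS22 false .l0,
    bound pcS22 false .l1,
    bound pcS22 false .r,
    bound pcS22 true .l0,
    bound pcS22 true .l1,
    bound pcS22 true .r].all
    (checkFour (boxS22.cC) 229 13 9 2 3)) = true := by decide +kernel
def chkS22_0 : Chk (boxS22.cC) (bound pcS22 false .l0) :=
  ⟨229, 13, 9, 2, 3, List.all_eq_true.1 grpS22_0 _ (.head _)⟩
def chkS22_1 : Chk (boxS22.cC) (bound pcS22 false .l1) :=
  ⟨229, 13, 9, 2, 3, List.all_eq_true.1 grpS22_0 _ (.tail _ (.head _))⟩
def chkS22_2 : Chk (boxS22.cC) (bound pcS22 false .r) :=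
  ⟨229, 13, 9, 2, 3, List.all_eq_true.1 grpS22_0 _ (.tail _ (.tail _ (.head _)))⟩
def chkS22_9 : Chk (boxS22.cC) (bound pcS22 true .l0) :=
  ⟨229, 13, 9, 2, 3, List.all_eq_true.1 grpS22_0 _ (.tail _ (.tail _ (.tail _ (.head _))))⟩
def chkS22_10 : Chk (boxS22.cC) (bound pcS22 true .l1) :=
  ⟨229, 13, 9, 2, 3, List.all_eq_true.1 grpS22_0 _ (.tail _ (.tail _ (.tail _ (.tail _ (.head _)))))⟩
def chkS22_11 : Chk (boxS22.cC) (bound pcS22 true .r) :=
  ⟨229, 13, 9, 2, 3, List.all_eq_true.1 grpS22_0 _ (.tail _ (.tail _ (.tail _ (.tail _ (.tail _ (.head _))))))⟩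
def grpS22_1 : ([bound pcS22 false .g0,
    bound pcS22 false .g1,
    bound pcS22 true .g0,
    bound pcS22 true .g1].all
    (checkFour (boxS22.cC) 97 4 3 1 2)) = true := by decide +kernel
def chkS22_3 : Chk (boxS22.cC) (bound pcS22 false .g0) :=
  ⟨97, 4, 3, 1, 2, List.all_eq_true.1 grpS22_1 _ (.head _)⟩
def chkS22_4 : Chk (boxS22.cC) (bound pcS22 false .g1) :=
  ⟨97, 4, 3, 1, 2, List.all_eq_true.1 grpS22_1 _ (.tail _ (.head _))⟩
def chkS22_12 : Chk (boxS22.cC) (bound pcS22 true .g0) :=
  ⟨97, 4, 3, 1, 2, List.all_eq_true.1 grpS22_1 _ (.tail _ (.tail _ (.head _)))⟩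
def chkS22_13 : Chk (boxS22.cC) (bound pcS22 true .g1) :=
  ⟨97, 4, 3, 1, 2, List.all_eq_true.1 grpS22_1 _ (.tail _ (.tail _ (.tail _ (.head _))))⟩
def grpS22_2 : ([bound pcS22 false .t0,
    bound pcS22 false .t1,
    bound pcS22 true .t0,
    bound pcS22 true .t1].all
    (checkFour (boxS22.cC) 148 6 6 2 3)) = true := by decide +kernel
def chkS22_5 : Chk (boxS22.cC) (bound pcS22 false .t0) :=
  ⟨148, 6, 6, 2, 3, List.all_eq_true.1 grpS22_2 _ (.head _)⟩
def chkS22_6 : Chk (boxS22.cC) (bound pcS22 false .t1) :=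
  ⟨148, 6, 6, 2, 3, List.all_eq_true.1 grpS22_2 _ (.tail _ (.head _))⟩
def chkS22_14 : Chk (boxS22.cC) (bound pcS22 true .t0) :=
  ⟨148, 6, 6, 2, 3, List.all_eq_true.1 grpS22_2 _ (.tail _ (.tail _ (.head _)))⟩
def chkS22_15 : Chk (boxS22.cC) (bound pcS22 true .t1) :=
  ⟨148, 6, 6, 2, 3, List.all_eq_true.1 grpS22_2 _ (.tail _ (.tail _ (.tail _ (.head _))))⟩
def grpS22_3 : ([bound pcS22 false .w0,
    bound pcS22 false .w1,
    bound pcS22 true .w0,
    bound pcS22 true .w1].all
    (checkFour (boxS22.cC) 198 10 7 3 4)) = true := by decide +kernel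
def chkS22_7 : Chk (boxS22.cC) (bound pcS22 false .w0) :=
  ⟨198, 10, 7, 3, 4, List.all_eq_true.1 grpS22_3 _ (.head _)⟩
def chkS22_8 : Chk (boxS22.cC) (bound pcS22 false .w1) :=
  ⟨198, 10, 7, 3, 4, List.all_eq_true.1 grpS22_3 _ (.tail _ (.head _))⟩
def chkS22_16 : Chk (boxS22.cC) (bound pcS22 true .w0) :=
  ⟨198, 10, 7, 3, 4, List.all_eq_true.1 grpS22_3 _ (.tail _ (.tail _ (.head _)))⟩
def chkS22_17 : Chk (boxS22.cC) (bound pcS22 true .w1) :=
  ⟨198, 10, 7, 3, 4, List.all_eq_true.1 grpS22_3 _ (.tail _ (.tail _ (.tail _ (.head _))))⟩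
def grpS22_4 : ([subst (sub pcS22 ⟨false, false, true, true, false⟩) (condX),
    subst (sub pcS22 ⟨false, true, true, true, false⟩) (condX),
    subst (sub pcS22 ⟨true, false, true, true, false⟩) (condX),
    subst (sub pcS22 ⟨true, true, true, true, false⟩) (condX)].all
    (checkFour (boxS22.vC) 237 13 10 4 0)) = true := by decide +kernel
def chkS22_18 : Chk (boxS22.vC) (subst (sub pcS22 ⟨false, false, true, true, false⟩) (condX)) :=
  ⟨237, 13, 10, 4, 0, List.all_eq_true.1 grpS22_4 _ (.head _)⟩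
def chkS22_19 : Chk (boxS22.vC) (subst (sub pcS22 ⟨false, true, true, true, false⟩) (condX)) :=
  ⟨237, 13, 10, 4, 0, List.all_eq_true.1 grpS22_4 _ (.tail _ (.head _))⟩
def chkS22_20 : Chk (boxS22.vC) (subst (sub pcS22 ⟨true, false, true, true, false⟩) (condX)) :=
  ⟨237, 13, 10, 4, 0, List.all_eq_true.1 grpS22_4 _ (.tail _ (.tail _ (.head _)))⟩
def chkS22_21 : Chk (boxS22.vC) (subst (sub pcS22 ⟨true, true, true, true, false⟩) (condX)) :=
  ⟨237, 13, 10, 4, 0, List.all_eq_true.1 grpS22_4 _ (.tail _ (.tail _ (.tail _ (.head _))))⟩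
def grpS22_5 : ([subst (sub pcS22 ⟨false, false, true, false, false⟩) (tplMG),
    subst (sub pcS22 ⟨false, true, true, false, false⟩) (tplMG),
    subst (sub pcS22 ⟨true, false, true, false, false⟩) (tplMG),
    subst (sub pcS22 ⟨true, true, true, false, false⟩) (tplMG)].all
    (checkFour (boxS22.vC) 455 26 20 6 0)) = true := by decide +kernel
def chkS22_22 : Chk (boxS22.vC) (subst (sub pcS22 ⟨false, false, true, false, false⟩) (tplMG)) :=
  ⟨455, 26, 20, 6, 0, List.all_eq_true.1 grpS22_5 _ (.head _)⟩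
def chkS22_23 : Chk (boxS22.vC) (subst (sub pcS22 ⟨false, true, true, false, false⟩) (tplMG)) :=
  ⟨455, 26, 20, 6, 0, List.all_eq_true.1 grpS22_5 _ (.tail _ (.head _))⟩
def chkS22_24 : Chk (boxS22.vC) (subst (sub pcS22 ⟨true, false, true, false, false⟩) (tplMG)) :=
  ⟨455, 26, 20, 6, 0, List.all_eq_true.1 grpS22_5 _ (.tail _ (.tail _ (.head _)))⟩
def chkS22_25 : Chk (boxS22.vC) (subst (sub pcS22 ⟨true, true, true, false, false⟩) (tplMG)) :=
  ⟨455, 26, 20, 6, 0, List.all_eq_true.1 grpS22_5 _ (.tail _ (.tail _ (.tail _ (.head _))))⟩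
def grpS22_6 : ([subst (sub pcS22 ⟨false, false, false, false, false⟩) (pcS22.m1),
    subst (sub pcS22 ⟨false, true, false, false, false⟩) (pcS22.m1),
    subst (sub pcS22 ⟨true, false, false, false, false⟩) (pcS22.m1),
    subst (sub pcS22 ⟨true, true, false, false, false⟩) (pcS22.m1)].all
    (checkFour (boxS22.vC) 312 17 14 4 0)) = true := by decide +kernel
def chkS22_26 : Chk (boxS22.vC) (subst (sub pcS22 ⟨false, false, false, false, false⟩) (pcS22.m1)) :=
  ⟨312, 17, 14, 4, 0, List.all_eq_true.1 grpS22_6 _ (.head _)⟩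
def chkS22_27 : Chk (boxS22.vC) (subst (sub pcS22 ⟨false, true, false, false, false⟩) (pcS22.m1)) :=
  ⟨312, 17, 14, 4, 0, List.all_eq_true.1 grpS22_6 _ (.tail _ (.head _))⟩
def chkS22_28 : Chk (boxS22.vC) (subst (sub pcS22 ⟨true, false, false, false, false⟩) (pcS22.m1)) :=
  ⟨312, 17, 14, 4, 0, List.all_eq_true.1 grpS22_6 _ (.tail _ (.tail _ (.head _)))⟩
def chkS22_29 : Chk (boxS22.vC) (subst (sub pcS22 ⟨true, true, false, false, false⟩) (pcS22.m1)) :=
  ⟨312, 17, 14, 4, 0, List.all_eq_true.1 grpS22_6 _ (.tail _ (.tail _ (.tail _ (.head _))))⟩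
def chkS22_30 : Chk (boxS22.vC) (subst (sub pcS22 ⟨false, false, true, false, false⟩) (strict (pcS22.m2 false))) :=
  ⟨496, 24, 19, 6, 0, by decide +kernel⟩
def chkS22_31 : Chk (boxS22.vC) (subst (sub pcS22 ⟨false, false, true, false, true⟩) (strict (pcS22.m2 false))) :=
  ⟨484, 24, 19, 6, 0, by decide +kernel⟩
def chkS22_32 : Chk (boxS22.vC) (subst (sub pcS22 ⟨true, false, true, false, false⟩) (strict (pcS22.m2 false))) :=
  ⟨496, 24, 19, 6, 0, by decide +kernel⟩
def chkS22_33 : Chk (boxS22.vC) (subst (sub pcS22 ⟨true, false, true, false, true⟩) (strict (pcS22.m2 false))) :=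
  ⟨484, 24, 19, 6, 0, by decide +kernel⟩
def chkS22_34 : Chk (boxS22.vC) (subst (sub pcS22 ⟨false, true, true, false, false⟩) (strict (pcS22.m2 true))) :=
  ⟨495, 24, 19, 6, 0, by decide +kernel⟩
def chkS22_35 : Chk (boxS22.vC) (subst (sub pcS22 ⟨false, true, true, false, true⟩) (strict (pcS22.m2 true))) :=
  ⟨483, 24, 19, 6, 0, by decide +kernel⟩
def chkS22_36 : Chk (boxS22.vC) (subst (sub pcS22 ⟨true, true, true, false, false⟩) (strict (pcS22.m2 true))) :=
  ⟨495, 24, 19, 6, 0, by decide +kernel⟩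
def chkS22_37 : Chk (boxS22.vC) (subst (sub pcS22 ⟨true, true, true, false, true⟩) (strict (pcS22.m2 true))) :=
  ⟨483, 24, 19, 6, 0, by decide +kernel⟩
def grpS22_15 : ([subst (sub pcS22 ⟨false, false, true, true, false⟩) (strict (pcS22.m3 false)),
    subst (sub pcS22 ⟨false, false, true, true, true⟩) (strict (pcS22.m3 false)),
    subst (sub pcS22 ⟨false, false, true, true, false⟩) (strict (pcS22.m3 true)),
    subst (sub pcS22 ⟨false, false, true, true, true⟩) (strict (pcS22.m3 true))].all
    (checkFour (boxS22.vC) 609 31 25 6 0)) = true := by decide +kernel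
def chkS22_38 : Chk (boxS22.vC) (subst (sub pcS22 ⟨false, false, true, true, false⟩) (strict (pcS22.m3 false))) :=
  ⟨609, 31, 25, 6, 0, List.all_eq_true.1 grpS22_15 _ (.head _)⟩
def chkS22_39 : Chk (boxS22.vC) (subst (sub pcS22 ⟨false, false, true, true, true⟩) (strict (pcS22.m3 false))) :=
  ⟨609, 31, 25, 6, 0, List.all_eq_true.1 grpS22_15 _ (.tail _ (.head _))⟩
def chkS22_46 : Chk (boxS22.vC) (subst (sub pcS22 ⟨false, false, true, true, false⟩) (strict (pcS22.m3 true))) :=
  ⟨609, 31, 25, 6, 0, List.all_eq_true.1 grpS22_15 _ (.tail _ (.tail _ (.head _)))⟩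
def chkS22_47 : Chk (boxS22.vC) (subst (sub pcS22 ⟨false, false, true, true, true⟩) (strict (pcS22.m3 true))) :=
  ⟨609, 31, 25, 6, 0, List.all_eq_true.1 grpS22_15 _ (.tail _ (.tail _ (.tail _ (.head _))))⟩
def grpS22_16 : ([subst (sub pcS22 ⟨false, true, true, true, false⟩) (strict (pcS22.m3 false)),
    subst (sub pcS22 ⟨false, true, true, true, true⟩) (strict (pcS22.m3 false)),
    subst (sub pcS22 ⟨false, true, true, true, false⟩) (strict (pcS22.m3 true)),
    subst (sub pcS22 ⟨false, true, true, true, true⟩) (strict (pcS22.m3 true))].all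
    (checkFour (boxS22.vC) 609 31 25 6 0)) = true := by decide +kernel
def chkS22_40 : Chk (boxS22.vC) (subst (sub pcS22 ⟨false, true, true, true, false⟩) (strict (pcS22.m3 false))) :=
  ⟨609, 31, 25, 6, 0, List.all_eq_true.1 grpS22_16 _ (.head _)⟩
def chkS22_41 : Chk (boxS22.vC) (subst (sub pcS22 ⟨false, true, true, true, true⟩) (strict (pcS22.m3 false))) :=
  ⟨609, 31, 25, 6, 0, List.all_eq_true.1 grpS22_16 _ (.tail _ (.head _))⟩
def chkS22_48 : Chk (boxS22.vC) (subst (sub pcS22 ⟨false, true, true, true, false⟩) (strict (pcS22.m3 true))) :=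
  ⟨609, 31, 25, 6, 0, List.all_eq_true.1 grpS22_16 _ (.tail _ (.tail _ (.head _)))⟩
def chkS22_49 : Chk (boxS22.vC) (subst (sub pcS22 ⟨false, true, true, true, true⟩) (strict (pcS22.m3 true))) :=
  ⟨609, 31, 25, 6, 0, List.all_eq_true.1 grpS22_16 _ (.tail _ (.tail _ (.tail _ (.head _))))⟩
def grpS22_17 : ([subst (sub pcS22 ⟨true, false, true, true, false⟩) (strict (pcS22.m3 false)),
    subst (sub pcS22 ⟨true, false, true, true, true⟩) (strict (pcS22.m3 false)),
    subst (sub pcS22 ⟨true, false, true, true, false⟩) (strict (pcS22.m3 true)),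
    subst (sub pcS22 ⟨true, false, true, true, true⟩) (strict (pcS22.m3 true))].all
    (checkFour (boxS22.vC) 609 31 25 6 0)) = true := by decide +kernel
def chkS22_42 : Chk (boxS22.vC) (subst (sub pcS22 ⟨true, false, true, true, false⟩) (strict (pcS22.m3 false))) :=
  ⟨609, 31, 25, 6, 0, List.all_eq_true.1 grpS22_17 _ (.head _)⟩
def chkS22_43 : Chk (boxS22.vC) (subst (sub pcS22 ⟨true, false, true, true, true⟩) (strict (pcS22.m3 false))) :=
  ⟨609, 31, 25, 6, 0, List.all_eq_true.1 grpS22_17 _ (.tail _ (.head _))⟩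
def chkS22_50 : Chk (boxS22.vC) (subst (sub pcS22 ⟨true, false, true, true, false⟩) (strict (pcS22.m3 true))) :=
  ⟨609, 31, 25, 6, 0, List.all_eq_true.1 grpS22_17 _ (.tail _ (.tail _ (.head _)))⟩
def chkS22_51 : Chk (boxS22.vC) (subst (sub pcS22 ⟨true, false, true, true, true⟩) (strict (pcS22.m3 true))) :=
  ⟨609, 31, 25, 6, 0, List.all_eq_true.1 grpS22_17 _ (.tail _ (.tail _ (.tail _ (.head _))))⟩
def grpS22_18 : ([subst (sub pcS22 ⟨true, true, true, true, false⟩) (strict (pcS22.m3 false)),
    subst (sub pcS22 ⟨true, true, true, true, true⟩) (strict (pcS22.m3 false)),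
    subst (sub pcS22 ⟨true, true, true, true, false⟩) (strict (pcS22.m3 true)),
    subst (sub pcS22 ⟨true, true, true, true, true⟩) (strict (pcS22.m3 true))].all
    (checkFour (boxS22.vC) 609 31 25 6 0)) = true := by decide +kernel
def chkS22_44 : Chk (boxS22.vC) (subst (sub pcS22 ⟨true, true, true, true, false⟩) (strict (pcS22.m3 false))) :=
  ⟨609, 31, 25, 6, 0, List.all_eq_true.1 grpS22_18 _ (.head _)⟩
def chkS22_45 : Chk (boxS22.vC) (subst (sub pcS22 ⟨true, true, true, true, true⟩) (strict (pcS22.m3 false))) :=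
  ⟨609, 31, 25, 6, 0, List.all_eq_true.1 grpS22_18 _ (.tail _ (.head _))⟩
def chkS22_52 : Chk (boxS22.vC) (subst (sub pcS22 ⟨true, true, true, true, false⟩) (strict (pcS22.m3 true))) :=
  ⟨609, 31, 25, 6, 0, List.all_eq_true.1 grpS22_18 _ (.tail _ (.tail _ (.head _)))⟩
def chkS22_53 : Chk (boxS22.vC) (subst (sub pcS22 ⟨true, true, true, true, true⟩) (strict (pcS22.m3 true))) :=
  ⟨609, 31, 25, 6, 0, List.all_eq_true.1 grpS22_18 _ (.tail _ (.tail _ (.tail _ (.head _))))⟩
def grpS22_19 : ([subst (sub pcS22 ⟨false, false, true, true, false⟩) (negEx coMG12),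
    subst (sub pcS22 ⟨false, false, true, true, false⟩) (negEx (pcS22.curve2 false)),
    subst (sub pcS22 ⟨false, false, true, true, false⟩) (negEx (pcS22.curve2 true))].all
    (checkFour (boxS22.vC) 114 5 5 4 0)) = true := by decide +kernel
def chkS22_54 : Chk (boxS22.vC) (subst (sub pcS22 ⟨false, false, true, true, false⟩) (negEx coMG12)) :=
  ⟨114, 5, 5, 4, 0, List.all_eq_true.1 grpS22_19 _ (.head _)⟩
def chkS22_55 : Chk (boxS22.vC) (subst (sub pcS22 ⟨false, false, true, true, false⟩) (negEx (pcS22.curve2 false))) :=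
  ⟨114, 5, 5, 4, 0, List.all_eq_true.1 grpS22_19 _ (.tail _ (.head _))⟩
def chkS22_56 : Chk (boxS22.vC) (subst (sub pcS22 ⟨false, false, true, true, false⟩) (negEx (pcS22.curve2 true))) :=
  ⟨114, 5, 5, 4, 0, List.all_eq_true.1 grpS22_19 _ (.tail _ (.tail _ (.head _)))⟩
def grpS22_20 : ([subst (sub pcS22 ⟨false, false, true, true, false⟩) (negEx (pcS22.curve3 false)),
    subst (sub pcS22 ⟨false, false, true, true, false⟩) (negEx (pcS22.curve3 true))].all
    (checkFour (boxS22.vC) 126 6 6 4 0)) = true := by decide +kernel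
def chkS22_57 : Chk (boxS22.vC) (subst (sub pcS22 ⟨false, false, true, true, false⟩) (negEx (pcS22.curve3 false))) :=
  ⟨126, 6, 6, 4, 0, List.all_eq_true.1 grpS22_20 _ (.head _)⟩
def chkS22_58 : Chk (boxS22.vC) (subst (sub pcS22 ⟨false, false, true, true, false⟩) (negEx (pcS22.curve3 true))) :=
  ⟨126, 6, 6, 4, 0, List.all_eq_true.1 grpS22_20 _ (.tail _ (.head _))⟩
def grpS22_21 : ([subst (sub pcS22 ⟨false, false, true, true, false⟩) (slopeT),
    subst (sub pcS22 ⟨true, false, true, true, false⟩) (slopeT)].all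
    (checkFour (boxS22.vC) 139 7 6 4 0)) = true := by decide +kernel
def chkS22_59 : Chk (boxS22.vC) (subst (sub pcS22 ⟨false, false, true, true, false⟩) (slopeT)) :=
  ⟨139, 7, 6, 4, 0, List.all_eq_true.1 grpS22_21 _ (.head _)⟩
def chkS22_60 : Chk (boxS22.vC) (subst (sub pcS22 ⟨true, false, true, true, false⟩) (slopeT)) :=
  ⟨139, 7, 6, 4, 0, List.all_eq_true.1 grpS22_21 _ (.tail _ (.head _))⟩
def grpS22_22 : ([subst (gapSub pcS22 true false false) tplL,
    subst (gapSub pcS22 true false true) tplL,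
    subst (gapSub pcS22 true true false) tplL,
    subst (gapSub pcS22 true true true) tplL].all
    (checkFour (boxS22.gC true) 375 22 17 5 2)) = true := by decide +kernel
def chkS22_61 : Chk (boxS22.gC true) (subst (gapSub pcS22 true false false) tplL) :=
  ⟨375, 22, 17, 5, 2, List.all_eq_true.1 grpS22_22 _ (.head _)⟩
def chkS22_62 : Chk (boxS22.gC true) (subst (gapSub pcS22 true false true) tplL) :=
  ⟨375, 22, 17, 5, 2, List.all_eq_true.1 grpS22_22 _ (.tail _ (.head _))⟩
def chkS22_63 : Chk (boxS22.gC true) (subst (gapSub pcS22 true true false) tplL) :=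
  ⟨375, 22, 17, 5, 2, List.all_eq_true.1 grpS22_22 _ (.tail _ (.tail _ (.head _)))⟩
def chkS22_64 : Chk (boxS22.gC true) (subst (gapSub pcS22 true true true) tplL) :=
  ⟨375, 22, 17, 5, 2, List.all_eq_true.1 grpS22_22 _ (.tail _ (.tail _ (.tail _ (.head _))))⟩

/-- Piece 22 passes. -/
theorem certS22 : Cert pcS22 boxS22 true where
  pos := by
    refine ⟨⟨⟨?_, ?_, ?_, ?_, ?_, ?_, ?_⟩, ?_, ?_, ?_, ?_, ?_, ?_, ?_, ?_, ?_, ?_, ?_⟩, ?_, ?_⟩ <;>
      norm_num [fr, pcS22]
  gX := fun p l => match p, l with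
    | false, false => chkS22_18
    | false, true => chkS22_19
    | true, false => chkS22_20
    | true, true => chkS22_21
  gMG := fun p l => match p, l with
    | false, false => chkS22_22
    | false, true => chkS22_23
    | true, false => chkS22_24
    | true, true => chkS22_25
  g1 := fun p l => match p, l with
    | false, false => chkS22_26
    | false, true => chkS22_27
    | true, false => chkS22_28
    | true, true => chkS22_29
  g2 := fun s p t => match s, p, t with
    | false, false, false => chkS22_30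
    | false, false, true => chkS22_31
    | false, true, false => chkS22_32
    | false, true, true => chkS22_33
    | true, false, false => chkS22_34
    | true, false, true => chkS22_35
    | true, true, false => chkS22_36
    | true, true, true => chkS22_37
  g3 := fun s p l t => match s, p, l, t with
    | false, false, false, false => chkS22_38
    | false, false, false, true => chkS22_39
    | false, false, true, false => chkS22_40
    | false, false, true, true => chkS22_41
    | false, true, false, false => chkS22_42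
    | false, true, false, true => chkS22_43
    | false, true, true, false => chkS22_44
    | false, true, true, true => chkS22_45
    | true, false, false, false => chkS22_46
    | true, false, false, true => chkS22_47
    | true, false, true, false => chkS22_48
    | true, false, true, true => chkS22_49
    | true, true, false, false => chkS22_50
    | true, true, false, true => chkS22_51
    | true, true, true, false => chkS22_52
    | true, true, true, true => chkS22_53
  cMG := chkS22_54
  c2 := fun s => match s with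
    | false => chkS22_55
    | true => chkS22_56
  c3 := fun s => match s with
    | false => chkS22_57
    | true => chkS22_58
  sT := fun p => match p with
    | false => chkS22_59
    | true => chkS22_60
  bnd := fun ze b => match ze, b with
    | false, .l0 => chkS22_0
    | false, .l1 => chkS22_1
    | false, .r => chkS22_2
    | false, .g0 => chkS22_3
    | false, .g1 => chkS22_4
    | false, .t0 => chkS22_5
    | false, .t1 => chkS22_6
    | false, .w0 => chkS22_7
    | false, .w1 => chkS22_8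
    | true, .l0 => chkS22_9
    | true, .l1 => chkS22_10
    | true, .r => chkS22_11
    | true, .g0 => chkS22_12
    | true, .g1 => chkS22_13
    | true, .t0 => chkS22_14
    | true, .t1 => chkS22_15
    | true, .w0 => chkS22_16
    | true, .w1 => chkS22_17
  gap := fun ze t => match ze, t with
    | false, false => chkS22_61
    | false, true => chkS22_62
    | true, false => chkS22_63
    | true, true => chkS22_64

/-- A window of piece 22. -/
def winS22T : Win := ⟨.D, (5, 8, 100), (11, 14, 50), (-11, 42, 50), (84, 205, 100), (41, 880, 20), (134, 153, 200), true, true, (81, -53), (504, 1000)⟩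

/-- The window passes. -/
theorem winS22T_ok : winS22T.Cert where
  fits := ⟨by norm_num [winS22T], by norm_num [winS22T, qLo], by norm_num [winS22T, qLo, qHi],
    by norm_num [winS22T, qLo, qHi], by norm_num [winS22T, qLo], by norm_num [winS22T, qHi]⟩
  cross := ⟨237, 8, 6, 2, 7, by decide +kernel⟩
  exit := ⟨208, 10, 7, 3, 6, by decide +kernel⟩
  mix := ⟨304, 12, 9, 3, 10, by decide +kernel⟩

/-- The tight band is crossed one way on piece 22. -/
theorem bandS22 : Chk (winS22T.chart (134, 153, 200) winS22T.qc) (sBand winS22T.kind) :=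
  ⟨410, 15, 11, 3, 14, by decide +kernel⟩

end Vale.Agent.P100.Calib.StripMid
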