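import Vale.Agent.P100.Calib.SlabStripMidSevWindow

/-!
# The checks of piece 3 below 153/200 for `N` between seven and twenty
-/

set_option linter.defProp false

namespace Vale.Agent.P100.Calib.StripMid

open Pack

/-- The numbers of piece 3. -/
def pcS3 : Piece := ⟨.A, (29, 50), (17, 25), (33, 50), (87, 100), (229, 100), (639, 1000), (447, 500), (949, 1000), (483, -1500, 500), (503, -975, 500), 46, (89,-560,900,10), (637, 1000), (269, 250), (2, 5), (2, 5), (3, 20)⟩

/-- The ranges of piece 3. -/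
def boxS3 : Box := ⟨(10, 23, 200), (0, 237, 250), (27, 181, 50), (87, 229, 100), (29, 34, 50)⟩

def grpS3_0 : ([bound pcS3 false .l0,
    bound pcS3 false .l1,
    bound pcS3 false .r,
    bound pcS3 true .l0,
    bound pcS3 true .l1,
    bound pcS3 true .r].all
    (checkFour (boxS3.cC) 266 14 9 2 3)) = true := by decide +kernel
def chkS3_0 : Chk (boxS3.cC) (bound pcS3 false .l0) :=
  ⟨266, 14, 9, 2, 3, List.all_eq_true.1 grpS3_0 _ (.head _)⟩
def chkS3_1 : Chk (boxS3.cC) (bound pcS3 false .l1) :=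
  ⟨266, 14, 9, 2, 3, List.all_eq_true.1 grpS3_0 _ (.tail _ (.head _))⟩
def chkS3_2 : Chk (boxS3.cC) (bound pcS3 false .r) :=
  ⟨266, 14, 9, 2, 3, List.all_eq_true.1 grpS3_0 _ (.tail _ (.tail _ (.head _)))⟩
def chkS3_9 : Chk (boxS3.cC) (bound pcS3 true .l0) :=
  ⟨266, 14, 9, 2, 3, List.all_eq_true.1 grpS3_0 _ (.tail _ (.tail _ (.tail _ (.head _))))⟩
def chkS3_10 : Chk (boxS3.cC) (bound pcS3 true .l1) :=
  ⟨266, 14, 9, 2, 3, List.all_eq_true.1 grpS3_0 _ (.tail _ (.tail _ (.tail _ (.tail _ (.head _)))))⟩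
def chkS3_11 : Chk (boxS3.cC) (bound pcS3 true .r) :=
  ⟨266, 14, 9, 2, 3, List.all_eq_true.1 grpS3_0 _ (.tail _ (.tail _ (.tail _ (.tail _ (.tail _ (.head _))))))⟩
def grpS3_1 : ([bound pcS3 false .g0,
    bound pcS3 false .g1,
    bound pcS3 true .g0,
    bound pcS3 true .g1].all
    (checkFour (boxS3.cC) 112 5 3 1 2)) = true := by decide +kernel
def chkS3_3 : Chk (boxS3.cC) (bound pcS3 false .g0) :=
  ⟨112, 5, 3, 1, 2, List.all_eq_true.1 grpS3_1 _ (.head _)⟩
def chkS3_4 : Chk (boxS3.cC) (bound pcS3 false .g1) :=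
  ⟨112, 5, 3, 1, 2, List.all_eq_true.1 grpS3_1 _ (.tail _ (.head _))⟩
def chkS3_12 : Chk (boxS3.cC) (bound pcS3 true .g0) :=
  ⟨112, 5, 3, 1, 2, List.all_eq_true.1 grpS3_1 _ (.tail _ (.tail _ (.head _)))⟩
def chkS3_13 : Chk (boxS3.cC) (bound pcS3 true .g1) :=
  ⟨112, 5, 3, 1, 2, List.all_eq_true.1 grpS3_1 _ (.tail _ (.tail _ (.tail _ (.head _))))⟩
def grpS3_2 : ([bound pcS3 false .t0,
    bound pcS3 false .t1,
    bound pcS3 true .t0,
    bound pcS3 true .t1].all
    (checkFour (boxS3.cC) 188 9 6 2 3)) = true := by decide +kernel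
def chkS3_5 : Chk (boxS3.cC) (bound pcS3 false .t0) :=
  ⟨188, 9, 6, 2, 3, List.all_eq_true.1 grpS3_2 _ (.head _)⟩
def chkS3_6 : Chk (boxS3.cC) (bound pcS3 false .t1) :=
  ⟨188, 9, 6, 2, 3, List.all_eq_true.1 grpS3_2 _ (.tail _ (.head _))⟩
def chkS3_14 : Chk (boxS3.cC) (bound pcS3 true .t0) :=
  ⟨188, 9, 6, 2, 3, List.all_eq_true.1 grpS3_2 _ (.tail _ (.tail _ (.head _)))⟩
def chkS3_15 : Chk (boxS3.cC) (bound pcS3 true .t1) :=
  ⟨188, 9, 6, 2, 3, List.all_eq_true.1 grpS3_2 _ (.tail _ (.tail _ (.tail _ (.head _))))⟩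
def grpS3_3 : ([bound pcS3 false .w0,
    bound pcS3 false .w1,
    bound pcS3 true .w0,
    bound pcS3 true .w1].all
    (checkFour (boxS3.cC) 236 12 7 3 4)) = true := by decide +kernel
def chkS3_7 : Chk (boxS3.cC) (bound pcS3 false .w0) :=
  ⟨236, 12, 7, 3, 4, List.all_eq_true.1 grpS3_3 _ (.head _)⟩
def chkS3_8 : Chk (boxS3.cC) (bound pcS3 false .w1) :=
  ⟨236, 12, 7, 3, 4, List.all_eq_true.1 grpS3_3 _ (.tail _ (.head _))⟩
def chkS3_16 : Chk (boxS3.cC) (bound pcS3 true .w0) :=
  ⟨236, 12, 7, 3, 4, List.all_eq_true.1 grpS3_3 _ (.tail _ (.tail _ (.head _)))⟩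
def chkS3_17 : Chk (boxS3.cC) (bound pcS3 true .w1) :=
  ⟨236, 12, 7, 3, 4, List.all_eq_true.1 grpS3_3 _ (.tail _ (.tail _ (.tail _ (.head _))))⟩
def grpS3_4 : ([subst (sub pcS3 ⟨false, false, true, true, false⟩) (condX),
    subst (sub pcS3 ⟨false, true, true, true, false⟩) (condX),
    subst (sub pcS3 ⟨true, false, true, true, false⟩) (condX),
    subst (sub pcS3 ⟨true, true, true, true, false⟩) (condX)].all
    (checkFour (boxS3.vC) 294 15 10 4 0)) = true := by decide +kernel
def chkS3_18 : Chk (boxS3.vC) (subst (sub pcS3 ⟨false, false, true, true, false⟩) (condX)) :=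
  ⟨294, 15, 10, 4, 0, List.all_eq_true.1 grpS3_4 _ (.head _)⟩
def chkS3_19 : Chk (boxS3.vC) (subst (sub pcS3 ⟨false, true, true, true, false⟩) (condX)) :=
  ⟨294, 15, 10, 4, 0, List.all_eq_true.1 grpS3_4 _ (.tail _ (.head _))⟩
def chkS3_20 : Chk (boxS3.vC) (subst (sub pcS3 ⟨true, false, true, true, false⟩) (condX)) :=
  ⟨294, 15, 10, 4, 0, List.all_eq_true.1 grpS3_4 _ (.tail _ (.tail _ (.head _)))⟩
def chkS3_21 : Chk (boxS3.vC) (subst (sub pcS3 ⟨true, true, true, true, false⟩) (condX)) :=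
  ⟨294, 15, 10, 4, 0, List.all_eq_true.1 grpS3_4 _ (.tail _ (.tail _ (.tail _ (.head _))))⟩
def grpS3_5 : ([subst (sub pcS3 ⟨false, false, true, false, false⟩) (tplMG),
    subst (sub pcS3 ⟨false, true, true, false, false⟩) (tplMG),
    subst (sub pcS3 ⟨true, false, true, false, false⟩) (tplMG),
    subst (sub pcS3 ⟨true, true, true, false, false⟩) (tplMG)].all
    (checkFour (boxS3.vC) 516 26 18 6 0)) = true := by decide +kernel
def chkS3_22 : Chk (boxS3.vC) (subst (sub pcS3 ⟨false, false, true, false, false⟩) (tplMG)) :=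
  ⟨516, 26, 18, 6, 0, List.all_eq_true.1 grpS3_5 _ (.head _)⟩
def chkS3_23 : Chk (boxS3.vC) (subst (sub pcS3 ⟨false, true, true, false, false⟩) (tplMG)) :=
  ⟨516, 26, 18, 6, 0, List.all_eq_true.1 grpS3_5 _ (.tail _ (.head _))⟩
def chkS3_24 : Chk (boxS3.vC) (subst (sub pcS3 ⟨true, false, true, false, false⟩) (tplMG)) :=
  ⟨516, 26, 18, 6, 0, List.all_eq_true.1 grpS3_5 _ (.tail _ (.tail _ (.head _)))⟩
def chkS3_25 : Chk (boxS3.vC) (subst (sub pcS3 ⟨true, true, true, false, false⟩) (tplMG)) :=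
  ⟨516, 26, 18, 6, 0, List.all_eq_true.1 grpS3_5 _ (.tail _ (.tail _ (.tail _ (.head _))))⟩
def grpS3_6 : ([subst (sub pcS3 ⟨false, false, false, false, false⟩) (pcS3.m1),
    subst (sub pcS3 ⟨false, true, false, false, false⟩) (pcS3.m1),
    subst (sub pcS3 ⟨true, false, false, false, false⟩) (pcS3.m1),
    subst (sub pcS3 ⟨true, true, false, false, false⟩) (pcS3.m1)].all
    (checkFour (boxS3.vC) 377 19 14 4 0)) = true := by decide +kernel
def chkS3_26 : Chk (boxS3.vC) (subst (sub pcS3 ⟨false, false, false, false, false⟩) (pcS3.m1)) :=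
  ⟨377, 19, 14, 4, 0, List.all_eq_true.1 grpS3_6 _ (.head _)⟩
def chkS3_27 : Chk (boxS3.vC) (subst (sub pcS3 ⟨false, true, false, false, false⟩) (pcS3.m1)) :=
  ⟨377, 19, 14, 4, 0, List.all_eq_true.1 grpS3_6 _ (.tail _ (.head _))⟩
def chkS3_28 : Chk (boxS3.vC) (subst (sub pcS3 ⟨true, false, false, false, false⟩) (pcS3.m1)) :=
  ⟨377, 19, 14, 4, 0, List.all_eq_true.1 grpS3_6 _ (.tail _ (.tail _ (.head _)))⟩
def chkS3_29 : Chk (boxS3.vC) (subst (sub pcS3 ⟨true, true, false, false, false⟩) (pcS3.m1)) :=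
  ⟨377, 19, 14, 4, 0, List.all_eq_true.1 grpS3_6 _ (.tail _ (.tail _ (.tail _ (.head _))))⟩
def chkS3_30 : Chk (boxS3.vC) (subst (sub pcS3 ⟨false, false, true, false, false⟩) (strict (pcS3.m2 false))) :=
  ⟨545, 24, 17, 6, 0, by decide +kernel⟩
def chkS3_31 : Chk (boxS3.vC) (subst (sub pcS3 ⟨false, false, true, false, true⟩) (strict (pcS3.m2 false))) :=
  ⟨545, 24, 17, 6, 0, by decide +kernel⟩
def chkS3_32 : Chk (boxS3.vC) (subst (sub pcS3 ⟨true, false, true, false, false⟩) (strict (pcS3.m2 false))) :=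
  ⟨545, 24, 17, 6, 0, by decide +kernel⟩
def chkS3_33 : Chk (boxS3.vC) (subst (sub pcS3 ⟨true, false, true, false, true⟩) (strict (pcS3.m2 false))) :=
  ⟨545, 24, 17, 6, 0, by decide +kernel⟩
def chkS3_34 : Chk (boxS3.vC) (subst (sub pcS3 ⟨false, true, true, false, false⟩) (strict (pcS3.m2 true))) :=
  ⟨542, 24, 17, 6, 0, by decide +kernel⟩
def chkS3_35 : Chk (boxS3.vC) (subst (sub pcS3 ⟨false, true, true, false, true⟩) (strict (pcS3.m2 true))) :=
  ⟨542, 24, 17, 6, 0, by decide +kernel⟩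
def chkS3_36 : Chk (boxS3.vC) (subst (sub pcS3 ⟨true, true, true, false, false⟩) (strict (pcS3.m2 true))) :=
  ⟨542, 24, 17, 6, 0, by decide +kernel⟩
def chkS3_37 : Chk (boxS3.vC) (subst (sub pcS3 ⟨true, true, true, false, true⟩) (strict (pcS3.m2 true))) :=
  ⟨542, 24, 17, 6, 0, by decide +kernel⟩
def grpS3_15 : ([subst (sub pcS3 ⟨false, false, true, true, false⟩) (strict (pcS3.m3 false)),
    subst (sub pcS3 ⟨false, false, true, true, true⟩) (strict (pcS3.m3 false)),
    subst (sub pcS3 ⟨false, false, true, true, false⟩) (strict (pcS3.m3 true)),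
    subst (sub pcS3 ⟨false, false, true, true, true⟩) (strict (pcS3.m3 true))].all
    (checkFour (boxS3.vC) 687 31 23 6 0)) = true := by decide +kernel
def chkS3_38 : Chk (boxS3.vC) (subst (sub pcS3 ⟨false, false, true, true, false⟩) (strict (pcS3.m3 false))) :=
  ⟨687, 31, 23, 6, 0, List.all_eq_true.1 grpS3_15 _ (.head _)⟩
def chkS3_39 : Chk (boxS3.vC) (subst (sub pcS3 ⟨false, false, true, true, true⟩) (strict (pcS3.m3 false))) :=
  ⟨687, 31, 23, 6, 0, List.all_eq_true.1 grpS3_15 _ (.tail _ (.head _))⟩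
def chkS3_46 : Chk (boxS3.vC) (subst (sub pcS3 ⟨false, false, true, true, false⟩) (strict (pcS3.m3 true))) :=
  ⟨687, 31, 23, 6, 0, List.all_eq_true.1 grpS3_15 _ (.tail _ (.tail _ (.head _)))⟩
def chkS3_47 : Chk (boxS3.vC) (subst (sub pcS3 ⟨false, false, true, true, true⟩) (strict (pcS3.m3 true))) :=
  ⟨687, 31, 23, 6, 0, List.all_eq_true.1 grpS3_15 _ (.tail _ (.tail _ (.tail _ (.head _))))⟩
def grpS3_16 : ([subst (sub pcS3 ⟨false, true, true, true, false⟩) (strict (pcS3.m3 false)),
    subst (sub pcS3 ⟨false, true, true, true, true⟩) (strict (pcS3.m3 false)),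
    subst (sub pcS3 ⟨false, true, true, true, false⟩) (strict (pcS3.m3 true)),
    subst (sub pcS3 ⟨false, true, true, true, true⟩) (strict (pcS3.m3 true))].all
    (checkFour (boxS3.vC) 685 31 23 6 0)) = true := by decide +kernel
def chkS3_40 : Chk (boxS3.vC) (subst (sub pcS3 ⟨false, true, true, true, false⟩) (strict (pcS3.m3 false))) :=
  ⟨685, 31, 23, 6, 0, List.all_eq_true.1 grpS3_16 _ (.head _)⟩
def chkS3_41 : Chk (boxS3.vC) (subst (sub pcS3 ⟨false, true, true, true, true⟩) (strict (pcS3.m3 false))) :=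
  ⟨685, 31, 23, 6, 0, List.all_eq_true.1 grpS3_16 _ (.tail _ (.head _))⟩
def chkS3_48 : Chk (boxS3.vC) (subst (sub pcS3 ⟨false, true, true, true, false⟩) (strict (pcS3.m3 true))) :=
  ⟨685, 31, 23, 6, 0, List.all_eq_true.1 grpS3_16 _ (.tail _ (.tail _ (.head _)))⟩
def chkS3_49 : Chk (boxS3.vC) (subst (sub pcS3 ⟨false, true, true, true, true⟩) (strict (pcS3.m3 true))) :=
  ⟨685, 31, 23, 6, 0, List.all_eq_true.1 grpS3_16 _ (.tail _ (.tail _ (.tail _ (.head _))))⟩
def grpS3_17 : ([subst (sub pcS3 ⟨true, false, true, true, false⟩) (strict (pcS3.m3 false)),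
    subst (sub pcS3 ⟨true, false, true, true, true⟩) (strict (pcS3.m3 false)),
    subst (sub pcS3 ⟨true, false, true, true, false⟩) (strict (pcS3.m3 true)),
    subst (sub pcS3 ⟨true, false, true, true, true⟩) (strict (pcS3.m3 true))].all
    (checkFour (boxS3.vC) 687 31 23 6 0)) = true := by decide +kernel
def chkS3_42 : Chk (boxS3.vC) (subst (sub pcS3 ⟨true, false, true, true, false⟩) (strict (pcS3.m3 false))) :=
  ⟨687, 31, 23, 6, 0, List.all_eq_true.1 grpS3_17 _ (.head _)⟩
def chkS3_43 : Chk (boxS3.vC) (subst (sub pcS3 ⟨true, false, true, true, true⟩) (strict (pcS3.m3 false))) :=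
  ⟨687, 31, 23, 6, 0, List.all_eq_true.1 grpS3_17 _ (.tail _ (.head _))⟩
def chkS3_50 : Chk (boxS3.vC) (subst (sub pcS3 ⟨true, false, true, true, false⟩) (strict (pcS3.m3 true))) :=
  ⟨687, 31, 23, 6, 0, List.all_eq_true.1 grpS3_17 _ (.tail _ (.tail _ (.head _)))⟩
def chkS3_51 : Chk (boxS3.vC) (subst (sub pcS3 ⟨true, false, true, true, true⟩) (strict (pcS3.m3 true))) :=
  ⟨687, 31, 23, 6, 0, List.all_eq_true.1 grpS3_17 _ (.tail _ (.tail _ (.tail _ (.head _))))⟩
def grpS3_18 : ([subst (sub pcS3 ⟨true, true, true, true, false⟩) (strict (pcS3.m3 false)),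
    subst (sub pcS3 ⟨true, true, true, true, true⟩) (strict (pcS3.m3 false)),
    subst (sub pcS3 ⟨true, true, true, true, false⟩) (strict (pcS3.m3 true)),
    subst (sub pcS3 ⟨true, true, true, true, true⟩) (strict (pcS3.m3 true))].all
    (checkFour (boxS3.vC) 685 31 23 6 0)) = true := by decide +kernel
def chkS3_44 : Chk (boxS3.vC) (subst (sub pcS3 ⟨true, true, true, true, false⟩) (strict (pcS3.m3 false))) :=
  ⟨685, 31, 23, 6, 0, List.all_eq_true.1 grpS3_18 _ (.head _)⟩
def chkS3_45 : Chk (boxS3.vC) (subst (sub pcS3 ⟨true, true, true, true, true⟩) (strict (pcS3.m3 false))) :=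
  ⟨685, 31, 23, 6, 0, List.all_eq_true.1 grpS3_18 _ (.tail _ (.head _))⟩
def chkS3_52 : Chk (boxS3.vC) (subst (sub pcS3 ⟨true, true, true, true, false⟩) (strict (pcS3.m3 true))) :=
  ⟨685, 31, 23, 6, 0, List.all_eq_true.1 grpS3_18 _ (.tail _ (.tail _ (.head _)))⟩
def chkS3_53 : Chk (boxS3.vC) (subst (sub pcS3 ⟨true, true, true, true, true⟩) (strict (pcS3.m3 true))) :=
  ⟨685, 31, 23, 6, 0, List.all_eq_true.1 grpS3_18 _ (.tail _ (.tail _ (.tail _ (.head _))))⟩
def chkS3_54 : Chk (boxS3.vC) (subst (sub pcS3 ⟨false, false, true, true, false⟩) (negEx coMG12)) :=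
  ⟨146, 8, 5, 4, 0, by decide +kernel⟩
def grpS3_20 : ([subst (sub pcS3 ⟨false, false, true, true, false⟩) (negEx (pcS3.curve2 false)),
    subst (sub pcS3 ⟨false, false, true, true, false⟩) (negEx (pcS3.curve2 true))].all
    (checkFour (boxS3.vC) 160 9 5 4 0)) = true := by decide +kernel
def chkS3_55 : Chk (boxS3.vC) (subst (sub pcS3 ⟨false, false, true, true, false⟩) (negEx (pcS3.curve2 false))) :=
  ⟨160, 9, 5, 4, 0, List.all_eq_true.1 grpS3_20 _ (.head _)⟩
def chkS3_56 : Chk (boxS3.vC) (subst (sub pcS3 ⟨false, false, true, true, false⟩) (negEx (pcS3.curve2 true))) :=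
  ⟨160, 9, 5, 4, 0, List.all_eq_true.1 grpS3_20 _ (.tail _ (.head _))⟩
def grpS3_21 : ([subst (sub pcS3 ⟨false, false, true, true, false⟩) (negEx (pcS3.curve3 false)),
    subst (sub pcS3 ⟨false, false, true, true, false⟩) (negEx (pcS3.curve3 true))].all
    (checkFour (boxS3.vC) 169 9 6 4 0)) = true := by decide +kernel
def chkS3_57 : Chk (boxS3.vC) (subst (sub pcS3 ⟨false, false, true, true, false⟩) (negEx (pcS3.curve3 false))) :=
  ⟨169, 9, 6, 4, 0, List.all_eq_true.1 grpS3_21 _ (.head _)⟩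
def chkS3_58 : Chk (boxS3.vC) (subst (sub pcS3 ⟨false, false, true, true, false⟩) (negEx (pcS3.curve3 true))) :=
  ⟨169, 9, 6, 4, 0, List.all_eq_true.1 grpS3_21 _ (.tail _ (.head _))⟩
def grpS3_22 : ([subst (sub pcS3 ⟨false, false, true, true, false⟩) (slopeT),
    subst (sub pcS3 ⟨true, false, true, true, false⟩) (slopeT)].all
    (checkFour (boxS3.vC) 180 10 6 4 0)) = true := by decide +kernel
def chkS3_59 : Chk (boxS3.vC) (subst (sub pcS3 ⟨false, false, true, true, false⟩) (slopeT)) :=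
  ⟨180, 10, 6, 4, 0, List.all_eq_true.1 grpS3_22 _ (.head _)⟩
def chkS3_60 : Chk (boxS3.vC) (subst (sub pcS3 ⟨true, false, true, true, false⟩) (slopeT)) :=
  ⟨180, 10, 6, 4, 0, List.all_eq_true.1 grpS3_22 _ (.tail _ (.head _))⟩
def grpS3_23 : ([subst (gapSub pcS3 true false false) tplL,
    subst (gapSub pcS3 true false true) tplL,
    subst (gapSub pcS3 true true false) tplL,
    subst (gapSub pcS3 true true true) tplL].all
    (checkFour (boxS3.gC true) 444 25 16 5 2)) = true := by decide +kernel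
def chkS3_61 : Chk (boxS3.gC true) (subst (gapSub pcS3 true false false) tplL) :=
  ⟨444, 25, 16, 5, 2, List.all_eq_true.1 grpS3_23 _ (.head _)⟩
def chkS3_62 : Chk (boxS3.gC true) (subst (gapSub pcS3 true false true) tplL) :=
  ⟨444, 25, 16, 5, 2, List.all_eq_true.1 grpS3_23 _ (.tail _ (.head _))⟩
def chkS3_63 : Chk (boxS3.gC true) (subst (gapSub pcS3 true true false) tplL) :=
  ⟨444, 25, 16, 5, 2, List.all_eq_true.1 grpS3_23 _ (.tail _ (.tail _ (.head _)))⟩
def chkS3_64 : Chk (boxS3.gC true) (subst (gapSub pcS3 true true true) tplL) :=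
  ⟨444, 25, 16, 5, 2, List.all_eq_true.1 grpS3_23 _ (.tail _ (.tail _ (.tail _ (.head _))))⟩

/-- Piece 3 passes. -/
theorem certS3 : Cert pcS3 boxS3 true where
  pos := by
    refine ⟨⟨⟨?_, ?_, ?_, ?_, ?_, ?_, ?_⟩, ?_, ?_, ?_, ?_, ?_, ?_, ?_, ?_, ?_, ?_, ?_⟩, ?_, ?_⟩ <;>
      norm_num [fr, pcS3]
  gX := fun p l => match p, l with
    | false, false => chkS3_18
    | false, true => chkS3_19
    | true, false => chkS3_20
    | true, true => chkS3_21
  gMG := fun p l => match p, l with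
    | false, false => chkS3_22
    | false, true => chkS3_23
    | true, false => chkS3_24
    | true, true => chkS3_25
  g1 := fun p l => match p, l with
    | false, false => chkS3_26
    | false, true => chkS3_27
    | true, false => chkS3_28
    | true, true => chkS3_29
  g2 := fun s p t => match s, p, t with
    | false, false, false => chkS3_30
    | false, false, true => chkS3_31
    | false, true, false => chkS3_32
    | false, true, true => chkS3_33
    | true, false, false => chkS3_34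
    | true, false, true => chkS3_35
    | true, true, false => chkS3_36
    | true, true, true => chkS3_37
  g3 := fun s p l t => match s, p, l, t with
    | false, false, false, false => chkS3_38
    | false, false, false, true => chkS3_39
    | false, false, true, false => chkS3_40
    | false, false, true, true => chkS3_41
    | false, true, false, false => chkS3_42
    | false, true, false, true => chkS3_43
    | false, true, true, false => chkS3_44
    | false, true, true, true => chkS3_45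
    | true, false, false, false => chkS3_46
    | true, false, false, true => chkS3_47
    | true, false, true, false => chkS3_48
    | true, false, true, true => chkS3_49
    | true, true, false, false => chkS3_50
    | true, true, false, true => chkS3_51
    | true, true, true, false => chkS3_52
    | true, true, true, true => chkS3_53
  cMG := chkS3_54
  c2 := fun s => match s with
    | false => chkS3_55
    | true => chkS3_56
  c3 := fun s => match s with
    | false => chkS3_57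
    | true => chkS3_58
  sT := fun p => match p with
    | false => chkS3_59
    | true => chkS3_60
  bnd := fun ze b => match ze, b with
    | false, .l0 => chkS3_0
    | false, .l1 => chkS3_1
    | false, .r => chkS3_2
    | false, .g0 => chkS3_3
    | false, .g1 => chkS3_4
    | false, .t0 => chkS3_5
    | false, .t1 => chkS3_6
    | false, .w0 => chkS3_7
    | false, .w1 => chkS3_8
    | true, .l0 => chkS3_9
    | true, .l1 => chkS3_10
    | true, .r => chkS3_11
    | true, .g0 => chkS3_12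
    | true, .g1 => chkS3_13
    | true, .t0 => chkS3_14
    | true, .t1 => chkS3_15
    | true, .w0 => chkS3_16
    | true, .w1 => chkS3_17
  gap := fun ze t => match ze, t with
    | false, false => chkS3_61
    | false, true => chkS3_62
    | true, false => chkS3_63
    | true, true => chkS3_64

/-- A window of piece 3. -/
def winS3L : Win := ⟨.A, (10, 23, 200), (0, 237, 250), (-25, 87, 100), (87, 229, 100), (229, 5600, 100), (58, 67, 100), true, false, (75, -56), (617, 1000)⟩

/-- The window passes. -/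
theorem winS3L_ok : winS3L.Cert where
  fits := ⟨by norm_num [winS3L], by norm_num [winS3L, qLo], by norm_num [winS3L, qLo, qHi],
    by norm_num [winS3L, qLo, qHi], by norm_num [winS3L, qLo], by norm_num [winS3L, qHi]⟩
  cross := ⟨262, 9, 6, 2, 7, by decide +kernel⟩
  exit := ⟨277, 12, 7, 3, 8, by decide +kernel⟩
  mix := ⟨360, 14, 9, 3, 11, by decide +kernel⟩

/-- A window of piece 3. -/
def winS3T : Win := ⟨.A, (10, 23, 200), (0, 237, 250), (-25, 87, 100), (87, 229, 100), (229, 4400, 100), (67, 68, 100), true, true, (37, 0), (617, 1000)⟩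

/-- The window passes. -/
theorem winS3T_ok : winS3T.Cert where
  fits := ⟨by norm_num [winS3T], by norm_num [winS3T, qLo], by norm_num [winS3T, qLo, qHi],
    by norm_num [winS3T, qLo, qHi], by norm_num [winS3T, qLo], by norm_num [winS3T, qHi]⟩
  cross := ⟨262, 9, 6, 2, 7, by decide +kernel⟩
  exit := ⟨251, 12, 7, 3, 6, by decide +kernel⟩
  mix := ⟨342, 14, 9, 3, 10, by decide +kernel⟩

/-- The tight band is crossed one way on piece 3. -/
theorem bandS3 : Chk (winS3L.chart (29, 34, 50) winS3L.qc) (sBand winS3L.kind) :=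
  ⟨437, 17, 11, 3, 14, by decide +kernel⟩

end Vale.Agent.P100.Calib.StripMid
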