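import Vale.Agent.P100.Calib.SlabStripMidSevWindow

/-!
# The checks of piece 4 below 153/200 for `N` between seven and twenty
-/

set_option linter.defProp false

namespace Vale.Agent.P100.Calib.StripMid

open Pack

/-- The numbers of piece 4. -/
def pcS4 : Piece := ⟨.A, (29, 50), (17, 25), (63, 100), (26, 25), (281, 100), (131, 200), (114, 125), (937, 1000), (473, -1350, 500), (1011, -1950, 1000), 54, (259,-1140,1200,10), (637, 1000), (111, 100), (3, 10), (1, 4), (3, 20)⟩

/-- The ranges of piece 4. -/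
def boxS4 : Box := ⟨(115, 143, 1000), (0, 871, 1000), (58, 309, 100), (104, 281, 100), (29, 34, 50)⟩

def grpS4_0 : ([bound pcS4 false .l0,
    bound pcS4 false .l1,
    bound pcS4 false .r,
    bound pcS4 true .l0,
    bound pcS4 true .l1,
    bound pcS4 true .r].all
    (checkFour (boxS4.cC) 318 14 9 2 3)) = true := by decide +kernel
def chkS4_0 : Chk (boxS4.cC) (bound pcS4 false .l0) :=
  ⟨318, 14, 9, 2, 3, List.all_eq_true.1 grpS4_0 _ (.head _)⟩
def chkS4_1 : Chk (boxS4.cC) (bound pcS4 false .l1) :=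
  ⟨318, 14, 9, 2, 3, List.all_eq_true.1 grpS4_0 _ (.tail _ (.head _))⟩
def chkS4_2 : Chk (boxS4.cC) (bound pcS4 false .r) :=
  ⟨318, 14, 9, 2, 3, List.all_eq_true.1 grpS4_0 _ (.tail _ (.tail _ (.head _)))⟩
def chkS4_9 : Chk (boxS4.cC) (bound pcS4 true .l0) :=
  ⟨318, 14, 9, 2, 3, List.all_eq_true.1 grpS4_0 _ (.tail _ (.tail _ (.tail _ (.head _))))⟩
def chkS4_10 : Chk (boxS4.cC) (bound pcS4 true .l1) :=
  ⟨318, 14, 9, 2, 3, List.all_eq_true.1 grpS4_0 _ (.tail _ (.tail _ (.tail _ (.tail _ (.head _)))))⟩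
def chkS4_11 : Chk (boxS4.cC) (bound pcS4 true .r) :=
  ⟨318, 14, 9, 2, 3, List.all_eq_true.1 grpS4_0 _ (.tail _ (.tail _ (.tail _ (.tail _ (.tail _ (.head _))))))⟩
def grpS4_1 : ([bound pcS4 false .g0,
    bound pcS4 false .g1,
    bound pcS4 true .g0,
    bound pcS4 true .g1].all
    (checkFour (boxS4.cC) 131 5 3 1 2)) = true := by decide +kernel
def chkS4_3 : Chk (boxS4.cC) (bound pcS4 false .g0) :=
  ⟨131, 5, 3, 1, 2, List.all_eq_true.1 grpS4_1 _ (.head _)⟩
def chkS4_4 : Chk (boxS4.cC) (bound pcS4 false .g1) :=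
  ⟨131, 5, 3, 1, 2, List.all_eq_true.1 grpS4_1 _ (.tail _ (.head _))⟩
def chkS4_12 : Chk (boxS4.cC) (bound pcS4 true .g0) :=
  ⟨131, 5, 3, 1, 2, List.all_eq_true.1 grpS4_1 _ (.tail _ (.tail _ (.head _)))⟩
def chkS4_13 : Chk (boxS4.cC) (bound pcS4 true .g1) :=
  ⟨131, 5, 3, 1, 2, List.all_eq_true.1 grpS4_1 _ (.tail _ (.tail _ (.tail _ (.head _))))⟩
def grpS4_2 : ([bound pcS4 false .t0,
    bound pcS4 false .t1,
    bound pcS4 true .t0,
    bound pcS4 true .t1].all
    (checkFour (boxS4.cC) 223 9 6 2 3)) = true := by decide +kernel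
def chkS4_5 : Chk (boxS4.cC) (bound pcS4 false .t0) :=
  ⟨223, 9, 6, 2, 3, List.all_eq_true.1 grpS4_2 _ (.head _)⟩
def chkS4_6 : Chk (boxS4.cC) (bound pcS4 false .t1) :=
  ⟨223, 9, 6, 2, 3, List.all_eq_true.1 grpS4_2 _ (.tail _ (.head _))⟩
def chkS4_14 : Chk (boxS4.cC) (bound pcS4 true .t0) :=
  ⟨223, 9, 6, 2, 3, List.all_eq_true.1 grpS4_2 _ (.tail _ (.tail _ (.head _)))⟩
def chkS4_15 : Chk (boxS4.cC) (bound pcS4 true .t1) :=
  ⟨223, 9, 6, 2, 3, List.all_eq_true.1 grpS4_2 _ (.tail _ (.tail _ (.tail _ (.head _))))⟩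
def grpS4_3 : ([bound pcS4 false .w0,
    bound pcS4 false .w1,
    bound pcS4 true .w0,
    bound pcS4 true .w1].all
    (checkFour (boxS4.cC) 280 12 7 3 4)) = true := by decide +kernel
def chkS4_7 : Chk (boxS4.cC) (bound pcS4 false .w0) :=
  ⟨280, 12, 7, 3, 4, List.all_eq_true.1 grpS4_3 _ (.head _)⟩
def chkS4_8 : Chk (boxS4.cC) (bound pcS4 false .w1) :=
  ⟨280, 12, 7, 3, 4, List.all_eq_true.1 grpS4_3 _ (.tail _ (.head _))⟩
def chkS4_16 : Chk (boxS4.cC) (bound pcS4 true .w0) :=
  ⟨280, 12, 7, 3, 4, List.all_eq_true.1 grpS4_3 _ (.tail _ (.tail _ (.head _)))⟩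
def chkS4_17 : Chk (boxS4.cC) (bound pcS4 true .w1) :=
  ⟨280, 12, 7, 3, 4, List.all_eq_true.1 grpS4_3 _ (.tail _ (.tail _ (.tail _ (.head _))))⟩
def grpS4_4 : ([subst (sub pcS4 ⟨false, false, true, true, false⟩) (condX),
    subst (sub pcS4 ⟨false, true, true, true, false⟩) (condX),
    subst (sub pcS4 ⟨true, false, true, true, false⟩) (condX),
    subst (sub pcS4 ⟨true, true, true, true, false⟩) (condX)].all
    (checkFour (boxS4.vC) 353 15 10 4 0)) = true := by decide +kernel
def chkS4_18 : Chk (boxS4.vC) (subst (sub pcS4 ⟨false, false, true, true, false⟩) (condX)) :=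
  ⟨353, 15, 10, 4, 0, List.all_eq_true.1 grpS4_4 _ (.head _)⟩
def chkS4_19 : Chk (boxS4.vC) (subst (sub pcS4 ⟨false, true, true, true, false⟩) (condX)) :=
  ⟨353, 15, 10, 4, 0, List.all_eq_true.1 grpS4_4 _ (.tail _ (.head _))⟩
def chkS4_20 : Chk (boxS4.vC) (subst (sub pcS4 ⟨true, false, true, true, false⟩) (condX)) :=
  ⟨353, 15, 10, 4, 0, List.all_eq_true.1 grpS4_4 _ (.tail _ (.tail _ (.head _)))⟩
def chkS4_21 : Chk (boxS4.vC) (subst (sub pcS4 ⟨true, true, true, true, false⟩) (condX)) :=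
  ⟨353, 15, 10, 4, 0, List.all_eq_true.1 grpS4_4 _ (.tail _ (.tail _ (.tail _ (.head _))))⟩
def grpS4_5 : ([subst (sub pcS4 ⟨false, false, true, false, false⟩) (tplMG),
    subst (sub pcS4 ⟨false, true, true, false, false⟩) (tplMG),
    subst (sub pcS4 ⟨true, false, true, false, false⟩) (tplMG),
    subst (sub pcS4 ⟨true, true, true, false, false⟩) (tplMG)].all
    (checkFour (boxS4.vC) 619 26 18 6 0)) = true := by decide +kernel
def chkS4_22 : Chk (boxS4.vC) (subst (sub pcS4 ⟨false, false, true, false, false⟩) (tplMG)) :=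
  ⟨619, 26, 18, 6, 0, List.all_eq_true.1 grpS4_5 _ (.head _)⟩
def chkS4_23 : Chk (boxS4.vC) (subst (sub pcS4 ⟨false, true, true, false, false⟩) (tplMG)) :=
  ⟨619, 26, 18, 6, 0, List.all_eq_true.1 grpS4_5 _ (.tail _ (.head _))⟩
def chkS4_24 : Chk (boxS4.vC) (subst (sub pcS4 ⟨true, false, true, false, false⟩) (tplMG)) :=
  ⟨619, 26, 18, 6, 0, List.all_eq_true.1 grpS4_5 _ (.tail _ (.tail _ (.head _)))⟩
def chkS4_25 : Chk (boxS4.vC) (subst (sub pcS4 ⟨true, true, true, false, false⟩) (tplMG)) :=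
  ⟨619, 26, 18, 6, 0, List.all_eq_true.1 grpS4_5 _ (.tail _ (.tail _ (.tail _ (.head _))))⟩
def grpS4_6 : ([subst (sub pcS4 ⟨false, false, false, false, false⟩) (pcS4.m1),
    subst (sub pcS4 ⟨false, true, false, false, false⟩) (pcS4.m1),
    subst (sub pcS4 ⟨true, false, false, false, false⟩) (pcS4.m1),
    subst (sub pcS4 ⟨true, true, false, false, false⟩) (pcS4.m1)].all
    (checkFour (boxS4.vC) 453 19 14 4 0)) = true := by decide +kernel
def chkS4_26 : Chk (boxS4.vC) (subst (sub pcS4 ⟨false, false, false, false, false⟩) (pcS4.m1)) :=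
  ⟨453, 19, 14, 4, 0, List.all_eq_true.1 grpS4_6 _ (.head _)⟩
def chkS4_27 : Chk (boxS4.vC) (subst (sub pcS4 ⟨false, true, false, false, false⟩) (pcS4.m1)) :=
  ⟨453, 19, 14, 4, 0, List.all_eq_true.1 grpS4_6 _ (.tail _ (.head _))⟩
def chkS4_28 : Chk (boxS4.vC) (subst (sub pcS4 ⟨true, false, false, false, false⟩) (pcS4.m1)) :=
  ⟨453, 19, 14, 4, 0, List.all_eq_true.1 grpS4_6 _ (.tail _ (.tail _ (.head _)))⟩
def chkS4_29 : Chk (boxS4.vC) (subst (sub pcS4 ⟨true, true, false, false, false⟩) (pcS4.m1)) :=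
  ⟨453, 19, 14, 4, 0, List.all_eq_true.1 grpS4_6 _ (.tail _ (.tail _ (.tail _ (.head _))))⟩
def chkS4_30 : Chk (boxS4.vC) (subst (sub pcS4 ⟨false, false, true, false, false⟩) (strict (pcS4.m2 false))) :=
  ⟨643, 24, 17, 6, 0, by decide +kernel⟩
def chkS4_31 : Chk (boxS4.vC) (subst (sub pcS4 ⟨false, false, true, false, true⟩) (strict (pcS4.m2 false))) :=
  ⟨645, 24, 17, 6, 0, by decide +kernel⟩
def chkS4_32 : Chk (boxS4.vC) (subst (sub pcS4 ⟨true, false, true, false, false⟩) (strict (pcS4.m2 false))) :=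
  ⟨643, 24, 17, 6, 0, by decide +kernel⟩
def chkS4_33 : Chk (boxS4.vC) (subst (sub pcS4 ⟨true, false, true, false, true⟩) (strict (pcS4.m2 false))) :=
  ⟨645, 24, 17, 6, 0, by decide +kernel⟩
def chkS4_34 : Chk (boxS4.vC) (subst (sub pcS4 ⟨false, true, true, false, false⟩) (strict (pcS4.m2 true))) :=
  ⟨640, 24, 17, 6, 0, by decide +kernel⟩
def chkS4_35 : Chk (boxS4.vC) (subst (sub pcS4 ⟨false, true, true, false, true⟩) (strict (pcS4.m2 true))) :=
  ⟨642, 24, 17, 6, 0, by decide +kernel⟩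
def chkS4_36 : Chk (boxS4.vC) (subst (sub pcS4 ⟨true, true, true, false, false⟩) (strict (pcS4.m2 true))) :=
  ⟨640, 24, 17, 6, 0, by decide +kernel⟩
def chkS4_37 : Chk (boxS4.vC) (subst (sub pcS4 ⟨true, true, true, false, true⟩) (strict (pcS4.m2 true))) :=
  ⟨642, 24, 17, 6, 0, by decide +kernel⟩
def grpS4_15 : ([subst (sub pcS4 ⟨false, false, true, true, false⟩) (strict (pcS4.m3 false)),
    subst (sub pcS4 ⟨false, false, true, true, true⟩) (strict (pcS4.m3 false)),
    subst (sub pcS4 ⟨false, false, true, true, false⟩) (strict (pcS4.m3 true)),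
    subst (sub pcS4 ⟨false, false, true, true, true⟩) (strict (pcS4.m3 true))].all
    (checkFour (boxS4.vC) 813 31 23 6 0)) = true := by decide +kernel
def chkS4_38 : Chk (boxS4.vC) (subst (sub pcS4 ⟨false, false, true, true, false⟩) (strict (pcS4.m3 false))) :=
  ⟨813, 31, 23, 6, 0, List.all_eq_true.1 grpS4_15 _ (.head _)⟩
def chkS4_39 : Chk (boxS4.vC) (subst (sub pcS4 ⟨false, false, true, true, true⟩) (strict (pcS4.m3 false))) :=
  ⟨813, 31, 23, 6, 0, List.all_eq_true.1 grpS4_15 _ (.tail _ (.head _))⟩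
def chkS4_46 : Chk (boxS4.vC) (subst (sub pcS4 ⟨false, false, true, true, false⟩) (strict (pcS4.m3 true))) :=
  ⟨813, 31, 23, 6, 0, List.all_eq_true.1 grpS4_15 _ (.tail _ (.tail _ (.head _)))⟩
def chkS4_47 : Chk (boxS4.vC) (subst (sub pcS4 ⟨false, false, true, true, true⟩) (strict (pcS4.m3 true))) :=
  ⟨813, 31, 23, 6, 0, List.all_eq_true.1 grpS4_15 _ (.tail _ (.tail _ (.tail _ (.head _))))⟩
def grpS4_16 : ([subst (sub pcS4 ⟨false, true, true, true, false⟩) (strict (pcS4.m3 false)),
    subst (sub pcS4 ⟨false, true, true, true, true⟩) (strict (pcS4.m3 false)),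
    subst (sub pcS4 ⟨false, true, true, true, false⟩) (strict (pcS4.m3 true)),
    subst (sub pcS4 ⟨false, true, true, true, true⟩) (strict (pcS4.m3 true))].all
    (checkFour (boxS4.vC) 812 31 23 6 0)) = true := by decide +kernel
def chkS4_40 : Chk (boxS4.vC) (subst (sub pcS4 ⟨false, true, true, true, false⟩) (strict (pcS4.m3 false))) :=
  ⟨812, 31, 23, 6, 0, List.all_eq_true.1 grpS4_16 _ (.head _)⟩
def chkS4_41 : Chk (boxS4.vC) (subst (sub pcS4 ⟨false, true, true, true, true⟩) (strict (pcS4.m3 false))) :=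
  ⟨812, 31, 23, 6, 0, List.all_eq_true.1 grpS4_16 _ (.tail _ (.head _))⟩
def chkS4_48 : Chk (boxS4.vC) (subst (sub pcS4 ⟨false, true, true, true, false⟩) (strict (pcS4.m3 true))) :=
  ⟨812, 31, 23, 6, 0, List.all_eq_true.1 grpS4_16 _ (.tail _ (.tail _ (.head _)))⟩
def chkS4_49 : Chk (boxS4.vC) (subst (sub pcS4 ⟨false, true, true, true, true⟩) (strict (pcS4.m3 true))) :=
  ⟨812, 31, 23, 6, 0, List.all_eq_true.1 grpS4_16 _ (.tail _ (.tail _ (.tail _ (.head _))))⟩
def grpS4_17 : ([subst (sub pcS4 ⟨true, false, true, true, false⟩) (strict (pcS4.m3 false)),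
    subst (sub pcS4 ⟨true, false, true, true, true⟩) (strict (pcS4.m3 false)),
    subst (sub pcS4 ⟨true, false, true, true, false⟩) (strict (pcS4.m3 true)),
    subst (sub pcS4 ⟨true, false, true, true, true⟩) (strict (pcS4.m3 true))].all
    (checkFour (boxS4.vC) 813 31 23 6 0)) = true := by decide +kernel
def chkS4_42 : Chk (boxS4.vC) (subst (sub pcS4 ⟨true, false, true, true, false⟩) (strict (pcS4.m3 false))) :=
  ⟨813, 31, 23, 6, 0, List.all_eq_true.1 grpS4_17 _ (.head _)⟩
def chkS4_43 : Chk (boxS4.vC) (subst (sub pcS4 ⟨true, false, true, true, true⟩) (strict (pcS4.m3 false))) :=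
  ⟨813, 31, 23, 6, 0, List.all_eq_true.1 grpS4_17 _ (.tail _ (.head _))⟩
def chkS4_50 : Chk (boxS4.vC) (subst (sub pcS4 ⟨true, false, true, true, false⟩) (strict (pcS4.m3 true))) :=
  ⟨813, 31, 23, 6, 0, List.all_eq_true.1 grpS4_17 _ (.tail _ (.tail _ (.head _)))⟩
def chkS4_51 : Chk (boxS4.vC) (subst (sub pcS4 ⟨true, false, true, true, true⟩) (strict (pcS4.m3 true))) :=
  ⟨813, 31, 23, 6, 0, List.all_eq_true.1 grpS4_17 _ (.tail _ (.tail _ (.tail _ (.head _))))⟩
def grpS4_18 : ([subst (sub pcS4 ⟨true, true, true, true, false⟩) (strict (pcS4.m3 false)),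
    subst (sub pcS4 ⟨true, true, true, true, true⟩) (strict (pcS4.m3 false)),
    subst (sub pcS4 ⟨true, true, true, true, false⟩) (strict (pcS4.m3 true)),
    subst (sub pcS4 ⟨true, true, true, true, true⟩) (strict (pcS4.m3 true))].all
    (checkFour (boxS4.vC) 812 31 23 6 0)) = true := by decide +kernel
def chkS4_44 : Chk (boxS4.vC) (subst (sub pcS4 ⟨true, true, true, true, false⟩) (strict (pcS4.m3 false))) :=
  ⟨812, 31, 23, 6, 0, List.all_eq_true.1 grpS4_18 _ (.head _)⟩
def chkS4_45 : Chk (boxS4.vC) (subst (sub pcS4 ⟨true, true, true, true, true⟩) (strict (pcS4.m3 false))) :=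
  ⟨812, 31, 23, 6, 0, List.all_eq_true.1 grpS4_18 _ (.tail _ (.head _))⟩
def chkS4_52 : Chk (boxS4.vC) (subst (sub pcS4 ⟨true, true, true, true, false⟩) (strict (pcS4.m3 true))) :=
  ⟨812, 31, 23, 6, 0, List.all_eq_true.1 grpS4_18 _ (.tail _ (.tail _ (.head _)))⟩
def chkS4_53 : Chk (boxS4.vC) (subst (sub pcS4 ⟨true, true, true, true, true⟩) (strict (pcS4.m3 true))) :=
  ⟨812, 31, 23, 6, 0, List.all_eq_true.1 grpS4_18 _ (.tail _ (.tail _ (.tail _ (.head _))))⟩
def chkS4_54 : Chk (boxS4.vC) (subst (sub pcS4 ⟨false, false, true, true, false⟩) (negEx coMG12)) :=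
  ⟨179, 8, 5, 4, 0, by decide +kernel⟩
def grpS4_20 : ([subst (sub pcS4 ⟨false, false, true, true, false⟩) (negEx (pcS4.curve2 false)),
    subst (sub pcS4 ⟨false, false, true, true, false⟩) (negEx (pcS4.curve2 true))].all
    (checkFour (boxS4.vC) 195 9 5 4 0)) = true := by decide +kernel
def chkS4_55 : Chk (boxS4.vC) (subst (sub pcS4 ⟨false, false, true, true, false⟩) (negEx (pcS4.curve2 false))) :=
  ⟨195, 9, 5, 4, 0, List.all_eq_true.1 grpS4_20 _ (.head _)⟩
def chkS4_56 : Chk (boxS4.vC) (subst (sub pcS4 ⟨false, false, true, true, false⟩) (negEx (pcS4.curve2 true))) :=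
  ⟨195, 9, 5, 4, 0, List.all_eq_true.1 grpS4_20 _ (.tail _ (.head _))⟩
def grpS4_21 : ([subst (sub pcS4 ⟨false, false, true, true, false⟩) (negEx (pcS4.curve3 false)),
    subst (sub pcS4 ⟨false, false, true, true, false⟩) (negEx (pcS4.curve3 true))].all
    (checkFour (boxS4.vC) 206 9 6 4 0)) = true := by decide +kernel
def chkS4_57 : Chk (boxS4.vC) (subst (sub pcS4 ⟨false, false, true, true, false⟩) (negEx (pcS4.curve3 false))) :=
  ⟨206, 9, 6, 4, 0, List.all_eq_true.1 grpS4_21 _ (.head _)⟩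
def chkS4_58 : Chk (boxS4.vC) (subst (sub pcS4 ⟨false, false, true, true, false⟩) (negEx (pcS4.curve3 true))) :=
  ⟨206, 9, 6, 4, 0, List.all_eq_true.1 grpS4_21 _ (.tail _ (.head _))⟩
def grpS4_22 : ([subst (sub pcS4 ⟨false, false, true, true, false⟩) (slopeT),
    subst (sub pcS4 ⟨true, false, true, true, false⟩) (slopeT)].all
    (checkFour (boxS4.vC) 221 10 6 4 0)) = true := by decide +kernel
def chkS4_59 : Chk (boxS4.vC) (subst (sub pcS4 ⟨false, false, true, true, false⟩) (slopeT)) :=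
  ⟨221, 10, 6, 4, 0, List.all_eq_true.1 grpS4_22 _ (.head _)⟩
def chkS4_60 : Chk (boxS4.vC) (subst (sub pcS4 ⟨true, false, true, true, false⟩) (slopeT)) :=
  ⟨221, 10, 6, 4, 0, List.all_eq_true.1 grpS4_22 _ (.tail _ (.head _))⟩
def grpS4_23 : ([subst (gapSub pcS4 true false false) tplL,
    subst (gapSub pcS4 true false true) tplL,
    subst (gapSub pcS4 true true false) tplL,
    subst (gapSub pcS4 true true true) tplL].all
    (checkFour (boxS4.gC true) 542 25 16 5 2)) = true := by decide +kernel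
def chkS4_61 : Chk (boxS4.gC true) (subst (gapSub pcS4 true false false) tplL) :=
  ⟨542, 25, 16, 5, 2, List.all_eq_true.1 grpS4_23 _ (.head _)⟩
def chkS4_62 : Chk (boxS4.gC true) (subst (gapSub pcS4 true false true) tplL) :=
  ⟨542, 25, 16, 5, 2, List.all_eq_true.1 grpS4_23 _ (.tail _ (.head _))⟩
def chkS4_63 : Chk (boxS4.gC true) (subst (gapSub pcS4 true true false) tplL) :=
  ⟨542, 25, 16, 5, 2, List.all_eq_true.1 grpS4_23 _ (.tail _ (.tail _ (.head _)))⟩
def chkS4_64 : Chk (boxS4.gC true) (subst (gapSub pcS4 true true true) tplL) :=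
  ⟨542, 25, 16, 5, 2, List.all_eq_true.1 grpS4_23 _ (.tail _ (.tail _ (.tail _ (.head _))))⟩

/-- Piece 4 passes. -/
theorem certS4 : Cert pcS4 boxS4 true where
  pos := by
    refine ⟨⟨⟨?_, ?_, ?_, ?_, ?_, ?_, ?_⟩, ?_, ?_, ?_, ?_, ?_, ?_, ?_, ?_, ?_, ?_, ?_⟩, ?_, ?_⟩ <;>
      norm_num [fr, pcS4]
  gX := fun p l => match p, l with
    | false, false => chkS4_18
    | false, true => chkS4_19
    | true, false => chkS4_20
    | true, true => chkS4_21
  gMG := fun p l => match p, l with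
    | false, false => chkS4_22
    | false, true => chkS4_23
    | true, false => chkS4_24
    | true, true => chkS4_25
  g1 := fun p l => match p, l with
    | false, false => chkS4_26
    | false, true => chkS4_27
    | true, false => chkS4_28
    | true, true => chkS4_29
  g2 := fun s p t => match s, p, t with
    | false, false, false => chkS4_30
    | false, false, true => chkS4_31
    | false, true, false => chkS4_32
    | false, true, true => chkS4_33
    | true, false, false => chkS4_34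
    | true, false, true => chkS4_35
    | true, true, false => chkS4_36
    | true, true, true => chkS4_37
  g3 := fun s p l t => match s, p, l, t with
    | false, false, false, false => chkS4_38
    | false, false, false, true => chkS4_39
    | false, false, true, false => chkS4_40
    | false, false, true, true => chkS4_41
    | false, true, false, false => chkS4_42
    | false, true, false, true => chkS4_43
    | false, true, true, false => chkS4_44
    | false, true, true, true => chkS4_45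
    | true, false, false, false => chkS4_46
    | true, false, false, true => chkS4_47
    | true, false, true, false => chkS4_48
    | true, false, true, true => chkS4_49
    | true, true, false, false => chkS4_50
    | true, true, false, true => chkS4_51
    | true, true, true, false => chkS4_52
    | true, true, true, true => chkS4_53
  cMG := chkS4_54
  c2 := fun s => match s with
    | false => chkS4_55
    | true => chkS4_56
  c3 := fun s => match s with
    | false => chkS4_57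
    | true => chkS4_58
  sT := fun p => match p with
    | false => chkS4_59
    | true => chkS4_60
  bnd := fun ze b => match ze, b with
    | false, .l0 => chkS4_0
    | false, .l1 => chkS4_1
    | false, .r => chkS4_2
    | false, .g0 => chkS4_3
    | false, .g1 => chkS4_4
    | false, .t0 => chkS4_5
    | false, .t1 => chkS4_6
    | false, .w0 => chkS4_7
    | false, .w1 => chkS4_8
    | true, .l0 => chkS4_9
    | true, .l1 => chkS4_10
    | true, .r => chkS4_11
    | true, .g0 => chkS4_12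
    | true, .g1 => chkS4_13
    | true, .t0 => chkS4_14
    | true, .t1 => chkS4_15
    | true, .w0 => chkS4_16
    | true, .w1 => chkS4_17
  gap := fun ze t => match ze, t with
    | false, false => chkS4_61
    | false, true => chkS4_62
    | true, false => chkS4_63
    | true, true => chkS4_64

/-- A window of piece 4. -/
def winS4L : Win := ⟨.A, (115, 143, 1000), (0, 871, 1000), (-25, 104, 100), (104, 281, 100), (281, 5600, 100), (58, 67, 100), true, false, (116, -111), (589, 1000)⟩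

/-- The window passes. -/
theorem winS4L_ok : winS4L.Cert where
  fits := ⟨by norm_num [winS4L], by norm_num [winS4L, qLo], by norm_num [winS4L, qLo, qHi],
    by norm_num [winS4L, qLo, qHi], by norm_num [winS4L, qLo], by norm_num [winS4L, qHi]⟩
  cross := ⟨296, 9, 6, 2, 7, by decide +kernel⟩
  exit := ⟨320, 12, 7, 3, 8, by decide +kernel⟩
  mix := ⟨413, 14, 9, 3, 11, by decide +kernel⟩

/-- A window of piece 4. -/
def winS4T : Win := ⟨.A, (115, 143, 1000), (0, 871, 1000), (-25, 104, 100), (104, 281, 100), (281, 4400, 100), (67, 68, 100), true, true, (43, 0), (589, 1000)⟩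

/-- The window passes. -/
theorem winS4T_ok : winS4T.Cert where
  fits := ⟨by norm_num [winS4T], by norm_num [winS4T, qLo], by norm_num [winS4T, qLo, qHi],
    by norm_num [winS4T, qLo, qHi], by norm_num [winS4T, qLo], by norm_num [winS4T, qHi]⟩
  cross := ⟨296, 9, 6, 2, 7, by decide +kernel⟩
  exit := ⟨294, 12, 7, 3, 6, by decide +kernel⟩
  mix := ⟨393, 14, 9, 3, 10, by decide +kernel⟩

/-- The tight band is crossed one way on piece 4. -/
theorem bandS4 : Chk (winS4L.chart (29, 34, 50) winS4L.qc) (sBand winS4L.kind) :=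
  ⟨501, 17, 11, 3, 14, by decide +kernel⟩

end Vale.Agent.P100.Calib.StripMid
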