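import Vale.Agent.P100.Calib.SlabStripMidSevWindow

/-!
# The checks of piece 5 below 153/200 for `N` between seven and twenty
-/

set_option linter.defProp false

namespace Vale.Agent.P100.Calib.StripMid

open Pack

/-- The numbers of piece 5. -/
def pcS5 : Piece := ⟨.A, (17, 25), (153, 200), (71, 100), (17, 20), (52, 25), (47, 100), (689, 1000), (47, 50), (959, -4200, 1000), (503, -1350, 500), 41, (19,-280,450,5), (117, 250), (879, 1000), (2, 5), (1, 4), (3, 20)⟩

/-- The ranges of piece 5. -/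
def boxS5 : Box := ⟨(50, 101, 1000), (0, 237, 250), (77, 460, 100), (85, 208, 100), (136, 153, 200)⟩

def grpS5_0 : ([bound pcS5 false .l0,
    bound pcS5 false .l1,
    bound pcS5 false .r,
    bound pcS5 true .l0,
    bound pcS5 true .l1,
    bound pcS5 true .r].all
    (checkFour (boxS5.cC) 306 14 9 2 3)) = true := by decide +kernel
def chkS5_0 : Chk (boxS5.cC) (bound pcS5 false .l0) :=
  ⟨306, 14, 9, 2, 3, List.all_eq_true.1 grpS5_0 _ (.head _)⟩
def chkS5_1 : Chk (boxS5.cC) (bound pcS5 false .l1) :=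
  ⟨306, 14, 9, 2, 3, List.all_eq_true.1 grpS5_0 _ (.tail _ (.head _))⟩
def chkS5_2 : Chk (boxS5.cC) (bound pcS5 false .r) :=
  ⟨306, 14, 9, 2, 3, List.all_eq_true.1 grpS5_0 _ (.tail _ (.tail _ (.head _)))⟩
def chkS5_9 : Chk (boxS5.cC) (bound pcS5 true .l0) :=
  ⟨306, 14, 9, 2, 3, List.all_eq_true.1 grpS5_0 _ (.tail _ (.tail _ (.tail _ (.head _))))⟩
def chkS5_10 : Chk (boxS5.cC) (bound pcS5 true .l1) :=
  ⟨306, 14, 9, 2, 3, List.all_eq_true.1 grpS5_0 _ (.tail _ (.tail _ (.tail _ (.tail _ (.head _)))))⟩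
def chkS5_11 : Chk (boxS5.cC) (bound pcS5 true .r) :=
  ⟨306, 14, 9, 2, 3, List.all_eq_true.1 grpS5_0 _ (.tail _ (.tail _ (.tail _ (.tail _ (.tail _ (.head _))))))⟩
def grpS5_1 : ([bound pcS5 false .g0,
    bound pcS5 false .g1,
    bound pcS5 true .g0,
    bound pcS5 true .g1].all
    (checkFour (boxS5.cC) 129 5 3 1 2)) = true := by decide +kernel
def chkS5_3 : Chk (boxS5.cC) (bound pcS5 false .g0) :=
  ⟨129, 5, 3, 1, 2, List.all_eq_true.1 grpS5_1 _ (.head _)⟩
def chkS5_4 : Chk (boxS5.cC) (bound pcS5 false .g1) :=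
  ⟨129, 5, 3, 1, 2, List.all_eq_true.1 grpS5_1 _ (.tail _ (.head _))⟩
def chkS5_12 : Chk (boxS5.cC) (bound pcS5 true .g0) :=
  ⟨129, 5, 3, 1, 2, List.all_eq_true.1 grpS5_1 _ (.tail _ (.tail _ (.head _)))⟩
def chkS5_13 : Chk (boxS5.cC) (bound pcS5 true .g1) :=
  ⟨129, 5, 3, 1, 2, List.all_eq_true.1 grpS5_1 _ (.tail _ (.tail _ (.tail _ (.head _))))⟩
def grpS5_2 : ([bound pcS5 false .t0,
    bound pcS5 false .t1,
    bound pcS5 true .t0,
    bound pcS5 true .t1].all
    (checkFour (boxS5.cC) 217 9 6 2 3)) = true := by decide +kernel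
def chkS5_5 : Chk (boxS5.cC) (bound pcS5 false .t0) :=
  ⟨217, 9, 6, 2, 3, List.all_eq_true.1 grpS5_2 _ (.head _)⟩
def chkS5_6 : Chk (boxS5.cC) (bound pcS5 false .t1) :=
  ⟨217, 9, 6, 2, 3, List.all_eq_true.1 grpS5_2 _ (.tail _ (.head _))⟩
def chkS5_14 : Chk (boxS5.cC) (bound pcS5 true .t0) :=
  ⟨217, 9, 6, 2, 3, List.all_eq_true.1 grpS5_2 _ (.tail _ (.tail _ (.head _)))⟩
def chkS5_15 : Chk (boxS5.cC) (bound pcS5 true .t1) :=
  ⟨217, 9, 6, 2, 3, List.all_eq_true.1 grpS5_2 _ (.tail _ (.tail _ (.tail _ (.head _))))⟩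
def grpS5_3 : ([bound pcS5 false .w0,
    bound pcS5 false .w1,
    bound pcS5 true .w0,
    bound pcS5 true .w1].all
    (checkFour (boxS5.cC) 272 12 7 3 4)) = true := by decide +kernel
def chkS5_7 : Chk (boxS5.cC) (bound pcS5 false .w0) :=
  ⟨272, 12, 7, 3, 4, List.all_eq_true.1 grpS5_3 _ (.head _)⟩
def chkS5_8 : Chk (boxS5.cC) (bound pcS5 false .w1) :=
  ⟨272, 12, 7, 3, 4, List.all_eq_true.1 grpS5_3 _ (.tail _ (.head _))⟩
def chkS5_16 : Chk (boxS5.cC) (bound pcS5 true .w0) :=
  ⟨272, 12, 7, 3, 4, List.all_eq_true.1 grpS5_3 _ (.tail _ (.tail _ (.head _)))⟩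
def chkS5_17 : Chk (boxS5.cC) (bound pcS5 true .w1) :=
  ⟨272, 12, 7, 3, 4, List.all_eq_true.1 grpS5_3 _ (.tail _ (.tail _ (.tail _ (.head _))))⟩
def grpS5_4 : ([subst (sub pcS5 ⟨false, false, true, true, false⟩) (condX),
    subst (sub pcS5 ⟨false, true, true, true, false⟩) (condX),
    subst (sub pcS5 ⟨true, false, true, true, false⟩) (condX),
    subst (sub pcS5 ⟨true, true, true, true, false⟩) (condX)].all
    (checkFour (boxS5.vC) 329 15 10 4 0)) = true := by decide +kernel
def chkS5_18 : Chk (boxS5.vC) (subst (sub pcS5 ⟨false, false, true, true, false⟩) (condX)) :=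
  ⟨329, 15, 10, 4, 0, List.all_eq_true.1 grpS5_4 _ (.head _)⟩
def chkS5_19 : Chk (boxS5.vC) (subst (sub pcS5 ⟨false, true, true, true, false⟩) (condX)) :=
  ⟨329, 15, 10, 4, 0, List.all_eq_true.1 grpS5_4 _ (.tail _ (.head _))⟩
def chkS5_20 : Chk (boxS5.vC) (subst (sub pcS5 ⟨true, false, true, true, false⟩) (condX)) :=
  ⟨329, 15, 10, 4, 0, List.all_eq_true.1 grpS5_4 _ (.tail _ (.tail _ (.head _)))⟩
def chkS5_21 : Chk (boxS5.vC) (subst (sub pcS5 ⟨true, true, true, true, false⟩) (condX)) :=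
  ⟨329, 15, 10, 4, 0, List.all_eq_true.1 grpS5_4 _ (.tail _ (.tail _ (.tail _ (.head _))))⟩
def grpS5_5 : ([subst (sub pcS5 ⟨false, false, true, false, false⟩) (tplMG),
    subst (sub pcS5 ⟨false, true, true, false, false⟩) (tplMG),
    subst (sub pcS5 ⟨true, false, true, false, false⟩) (tplMG),
    subst (sub pcS5 ⟨true, true, true, false, false⟩) (tplMG)].all
    (checkFour (boxS5.vC) 576 26 18 6 0)) = true := by decide +kernel
def chkS5_22 : Chk (boxS5.vC) (subst (sub pcS5 ⟨false, false, true, false, false⟩) (tplMG)) :=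
  ⟨576, 26, 18, 6, 0, List.all_eq_true.1 grpS5_5 _ (.head _)⟩
def chkS5_23 : Chk (boxS5.vC) (subst (sub pcS5 ⟨false, true, true, false, false⟩) (tplMG)) :=
  ⟨576, 26, 18, 6, 0, List.all_eq_true.1 grpS5_5 _ (.tail _ (.head _))⟩
def chkS5_24 : Chk (boxS5.vC) (subst (sub pcS5 ⟨true, false, true, false, false⟩) (tplMG)) :=
  ⟨576, 26, 18, 6, 0, List.all_eq_true.1 grpS5_5 _ (.tail _ (.tail _ (.head _)))⟩
def chkS5_25 : Chk (boxS5.vC) (subst (sub pcS5 ⟨true, true, true, false, false⟩) (tplMG)) :=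
  ⟨576, 26, 18, 6, 0, List.all_eq_true.1 grpS5_5 _ (.tail _ (.tail _ (.tail _ (.head _))))⟩
def grpS5_6 : ([subst (sub pcS5 ⟨false, false, false, false, false⟩) (pcS5.m1),
    subst (sub pcS5 ⟨false, true, false, false, false⟩) (pcS5.m1),
    subst (sub pcS5 ⟨true, false, false, false, false⟩) (pcS5.m1),
    subst (sub pcS5 ⟨true, true, false, false, false⟩) (pcS5.m1)].all
    (checkFour (boxS5.vC) 423 19 14 4 0)) = true := by decide +kernel
def chkS5_26 : Chk (boxS5.vC) (subst (sub pcS5 ⟨false, false, false, false, false⟩) (pcS5.m1)) :=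
  ⟨423, 19, 14, 4, 0, List.all_eq_true.1 grpS5_6 _ (.head _)⟩
def chkS5_27 : Chk (boxS5.vC) (subst (sub pcS5 ⟨false, true, false, false, false⟩) (pcS5.m1)) :=
  ⟨423, 19, 14, 4, 0, List.all_eq_true.1 grpS5_6 _ (.tail _ (.head _))⟩
def chkS5_28 : Chk (boxS5.vC) (subst (sub pcS5 ⟨true, false, false, false, false⟩) (pcS5.m1)) :=
  ⟨423, 19, 14, 4, 0, List.all_eq_true.1 grpS5_6 _ (.tail _ (.tail _ (.head _)))⟩
def chkS5_29 : Chk (boxS5.vC) (subst (sub pcS5 ⟨true, true, false, false, false⟩) (pcS5.m1)) :=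
  ⟨423, 19, 14, 4, 0, List.all_eq_true.1 grpS5_6 _ (.tail _ (.tail _ (.tail _ (.head _))))⟩
def chkS5_30 : Chk (boxS5.vC) (subst (sub pcS5 ⟨false, false, true, false, false⟩) (strict (pcS5.m2 false))) :=
  ⟨602, 24, 17, 6, 0, by decide +kernel⟩
def chkS5_31 : Chk (boxS5.vC) (subst (sub pcS5 ⟨false, false, true, false, true⟩) (strict (pcS5.m2 false))) :=
  ⟨600, 24, 17, 6, 0, by decide +kernel⟩
def chkS5_32 : Chk (boxS5.vC) (subst (sub pcS5 ⟨true, false, true, false, false⟩) (strict (pcS5.m2 false))) :=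
  ⟨602, 24, 17, 6, 0, by decide +kernel⟩
def chkS5_33 : Chk (boxS5.vC) (subst (sub pcS5 ⟨true, false, true, false, true⟩) (strict (pcS5.m2 false))) :=
  ⟨600, 24, 17, 6, 0, by decide +kernel⟩
def chkS5_34 : Chk (boxS5.vC) (subst (sub pcS5 ⟨false, true, true, false, false⟩) (strict (pcS5.m2 true))) :=
  ⟨604, 24, 17, 6, 0, by decide +kernel⟩
def chkS5_35 : Chk (boxS5.vC) (subst (sub pcS5 ⟨false, true, true, false, true⟩) (strict (pcS5.m2 true))) :=
  ⟨602, 24, 17, 6, 0, by decide +kernel⟩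
def chkS5_36 : Chk (boxS5.vC) (subst (sub pcS5 ⟨true, true, true, false, false⟩) (strict (pcS5.m2 true))) :=
  ⟨604, 24, 17, 6, 0, by decide +kernel⟩
def chkS5_37 : Chk (boxS5.vC) (subst (sub pcS5 ⟨true, true, true, false, true⟩) (strict (pcS5.m2 true))) :=
  ⟨602, 24, 17, 6, 0, by decide +kernel⟩
def grpS5_15 : ([subst (sub pcS5 ⟨false, false, true, true, false⟩) (strict (pcS5.m3 false)),
    subst (sub pcS5 ⟨false, false, true, true, true⟩) (strict (pcS5.m3 false)),
    subst (sub pcS5 ⟨false, false, true, true, false⟩) (strict (pcS5.m3 true)),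
    subst (sub pcS5 ⟨false, false, true, true, true⟩) (strict (pcS5.m3 true))].all
    (checkFour (boxS5.vC) 748 31 23 6 0)) = true := by decide +kernel
def chkS5_38 : Chk (boxS5.vC) (subst (sub pcS5 ⟨false, false, true, true, false⟩) (strict (pcS5.m3 false))) :=
  ⟨748, 31, 23, 6, 0, List.all_eq_true.1 grpS5_15 _ (.head _)⟩
def chkS5_39 : Chk (boxS5.vC) (subst (sub pcS5 ⟨false, false, true, true, true⟩) (strict (pcS5.m3 false))) :=
  ⟨748, 31, 23, 6, 0, List.all_eq_true.1 grpS5_15 _ (.tail _ (.head _))⟩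
def chkS5_46 : Chk (boxS5.vC) (subst (sub pcS5 ⟨false, false, true, true, false⟩) (strict (pcS5.m3 true))) :=
  ⟨748, 31, 23, 6, 0, List.all_eq_true.1 grpS5_15 _ (.tail _ (.tail _ (.head _)))⟩
def chkS5_47 : Chk (boxS5.vC) (subst (sub pcS5 ⟨false, false, true, true, true⟩) (strict (pcS5.m3 true))) :=
  ⟨748, 31, 23, 6, 0, List.all_eq_true.1 grpS5_15 _ (.tail _ (.tail _ (.tail _ (.head _))))⟩
def grpS5_16 : ([subst (sub pcS5 ⟨false, true, true, true, false⟩) (strict (pcS5.m3 false)),
    subst (sub pcS5 ⟨false, true, true, true, true⟩) (strict (pcS5.m3 false)),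
    subst (sub pcS5 ⟨false, true, true, true, false⟩) (strict (pcS5.m3 true)),
    subst (sub pcS5 ⟨false, true, true, true, true⟩) (strict (pcS5.m3 true))].all
    (checkFour (boxS5.vC) 756 31 23 6 0)) = true := by decide +kernel
def chkS5_40 : Chk (boxS5.vC) (subst (sub pcS5 ⟨false, true, true, true, false⟩) (strict (pcS5.m3 false))) :=
  ⟨756, 31, 23, 6, 0, List.all_eq_true.1 grpS5_16 _ (.head _)⟩
def chkS5_41 : Chk (boxS5.vC) (subst (sub pcS5 ⟨false, true, true, true, true⟩) (strict (pcS5.m3 false))) :=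
  ⟨756, 31, 23, 6, 0, List.all_eq_true.1 grpS5_16 _ (.tail _ (.head _))⟩
def chkS5_48 : Chk (boxS5.vC) (subst (sub pcS5 ⟨false, true, true, true, false⟩) (strict (pcS5.m3 true))) :=
  ⟨756, 31, 23, 6, 0, List.all_eq_true.1 grpS5_16 _ (.tail _ (.tail _ (.head _)))⟩
def chkS5_49 : Chk (boxS5.vC) (subst (sub pcS5 ⟨false, true, true, true, true⟩) (strict (pcS5.m3 true))) :=
  ⟨756, 31, 23, 6, 0, List.all_eq_true.1 grpS5_16 _ (.tail _ (.tail _ (.tail _ (.head _))))⟩
def grpS5_17 : ([subst (sub pcS5 ⟨true, false, true, true, false⟩) (strict (pcS5.m3 false)),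
    subst (sub pcS5 ⟨true, false, true, true, true⟩) (strict (pcS5.m3 false)),
    subst (sub pcS5 ⟨true, false, true, true, false⟩) (strict (pcS5.m3 true)),
    subst (sub pcS5 ⟨true, false, true, true, true⟩) (strict (pcS5.m3 true))].all
    (checkFour (boxS5.vC) 749 31 23 6 0)) = true := by decide +kernel
def chkS5_42 : Chk (boxS5.vC) (subst (sub pcS5 ⟨true, false, true, true, false⟩) (strict (pcS5.m3 false))) :=
  ⟨749, 31, 23, 6, 0, List.all_eq_true.1 grpS5_17 _ (.head _)⟩
def chkS5_43 : Chk (boxS5.vC) (subst (sub pcS5 ⟨true, false, true, true, true⟩) (strict (pcS5.m3 false))) :=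
  ⟨749, 31, 23, 6, 0, List.all_eq_true.1 grpS5_17 _ (.tail _ (.head _))⟩
def chkS5_50 : Chk (boxS5.vC) (subst (sub pcS5 ⟨true, false, true, true, false⟩) (strict (pcS5.m3 true))) :=
  ⟨749, 31, 23, 6, 0, List.all_eq_true.1 grpS5_17 _ (.tail _ (.tail _ (.head _)))⟩
def chkS5_51 : Chk (boxS5.vC) (subst (sub pcS5 ⟨true, false, true, true, true⟩) (strict (pcS5.m3 true))) :=
  ⟨749, 31, 23, 6, 0, List.all_eq_true.1 grpS5_17 _ (.tail _ (.tail _ (.tail _ (.head _))))⟩
def grpS5_18 : ([subst (sub pcS5 ⟨true, true, true, true, false⟩) (strict (pcS5.m3 false)),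
    subst (sub pcS5 ⟨true, true, true, true, true⟩) (strict (pcS5.m3 false)),
    subst (sub pcS5 ⟨true, true, true, true, false⟩) (strict (pcS5.m3 true)),
    subst (sub pcS5 ⟨true, true, true, true, true⟩) (strict (pcS5.m3 true))].all
    (checkFour (boxS5.vC) 756 31 23 6 0)) = true := by decide +kernel
def chkS5_44 : Chk (boxS5.vC) (subst (sub pcS5 ⟨true, true, true, true, false⟩) (strict (pcS5.m3 false))) :=
  ⟨756, 31, 23, 6, 0, List.all_eq_true.1 grpS5_18 _ (.head _)⟩
def chkS5_45 : Chk (boxS5.vC) (subst (sub pcS5 ⟨true, true, true, true, true⟩) (strict (pcS5.m3 false))) :=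
  ⟨756, 31, 23, 6, 0, List.all_eq_true.1 grpS5_18 _ (.tail _ (.head _))⟩
def chkS5_52 : Chk (boxS5.vC) (subst (sub pcS5 ⟨true, true, true, true, false⟩) (strict (pcS5.m3 true))) :=
  ⟨756, 31, 23, 6, 0, List.all_eq_true.1 grpS5_18 _ (.tail _ (.tail _ (.head _)))⟩
def chkS5_53 : Chk (boxS5.vC) (subst (sub pcS5 ⟨true, true, true, true, true⟩) (strict (pcS5.m3 true))) :=
  ⟨756, 31, 23, 6, 0, List.all_eq_true.1 grpS5_18 _ (.tail _ (.tail _ (.tail _ (.head _))))⟩
def chkS5_54 : Chk (boxS5.vC) (subst (sub pcS5 ⟨false, false, true, true, false⟩) (negEx coMG12)) :=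
  ⟨169, 8, 5, 4, 0, by decide +kernel⟩
def grpS5_20 : ([subst (sub pcS5 ⟨false, false, true, true, false⟩) (negEx (pcS5.curve2 false)),
    subst (sub pcS5 ⟨false, false, true, true, false⟩) (negEx (pcS5.curve2 true))].all
    (checkFour (boxS5.vC) 184 9 5 4 0)) = true := by decide +kernel
def chkS5_55 : Chk (boxS5.vC) (subst (sub pcS5 ⟨false, false, true, true, false⟩) (negEx (pcS5.curve2 false))) :=
  ⟨184, 9, 5, 4, 0, List.all_eq_true.1 grpS5_20 _ (.head _)⟩
def chkS5_56 : Chk (boxS5.vC) (subst (sub pcS5 ⟨false, false, true, true, false⟩) (negEx (pcS5.curve2 true))) :=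
  ⟨184, 9, 5, 4, 0, List.all_eq_true.1 grpS5_20 _ (.tail _ (.head _))⟩
def grpS5_21 : ([subst (sub pcS5 ⟨false, false, true, true, false⟩) (negEx (pcS5.curve3 false)),
    subst (sub pcS5 ⟨false, false, true, true, false⟩) (negEx (pcS5.curve3 true))].all
    (checkFour (boxS5.vC) 194 9 6 4 0)) = true := by decide +kernel
def chkS5_57 : Chk (boxS5.vC) (subst (sub pcS5 ⟨false, false, true, true, false⟩) (negEx (pcS5.curve3 false))) :=
  ⟨194, 9, 6, 4, 0, List.all_eq_true.1 grpS5_21 _ (.head _)⟩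
def chkS5_58 : Chk (boxS5.vC) (subst (sub pcS5 ⟨false, false, true, true, false⟩) (negEx (pcS5.curve3 true))) :=
  ⟨194, 9, 6, 4, 0, List.all_eq_true.1 grpS5_21 _ (.tail _ (.head _))⟩
def grpS5_22 : ([subst (sub pcS5 ⟨false, false, true, true, false⟩) (slopeT),
    subst (sub pcS5 ⟨true, false, true, true, false⟩) (slopeT)].all
    (checkFour (boxS5.vC) 208 10 6 4 0)) = true := by decide +kernel
def chkS5_59 : Chk (boxS5.vC) (subst (sub pcS5 ⟨false, false, true, true, false⟩) (slopeT)) :=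
  ⟨208, 10, 6, 4, 0, List.all_eq_true.1 grpS5_22 _ (.head _)⟩
def chkS5_60 : Chk (boxS5.vC) (subst (sub pcS5 ⟨true, false, true, true, false⟩) (slopeT)) :=
  ⟨208, 10, 6, 4, 0, List.all_eq_true.1 grpS5_22 _ (.tail _ (.head _))⟩
def grpS5_23 : ([subst (gapSub pcS5 true false false) tplL,
    subst (gapSub pcS5 true false true) tplL,
    subst (gapSub pcS5 true true false) tplL,
    subst (gapSub pcS5 true true true) tplL].all
    (checkFour (boxS5.gC true) 513 25 16 5 2)) = true := by decide +kernel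
def chkS5_61 : Chk (boxS5.gC true) (subst (gapSub pcS5 true false false) tplL) :=
  ⟨513, 25, 16, 5, 2, List.all_eq_true.1 grpS5_23 _ (.head _)⟩
def chkS5_62 : Chk (boxS5.gC true) (subst (gapSub pcS5 true false true) tplL) :=
  ⟨513, 25, 16, 5, 2, List.all_eq_true.1 grpS5_23 _ (.tail _ (.head _))⟩
def chkS5_63 : Chk (boxS5.gC true) (subst (gapSub pcS5 true true false) tplL) :=
  ⟨513, 25, 16, 5, 2, List.all_eq_true.1 grpS5_23 _ (.tail _ (.tail _ (.head _)))⟩
def chkS5_64 : Chk (boxS5.gC true) (subst (gapSub pcS5 true true true) tplL) :=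
  ⟨513, 25, 16, 5, 2, List.all_eq_true.1 grpS5_23 _ (.tail _ (.tail _ (.tail _ (.head _))))⟩

/-- Piece 5 passes. -/
theorem certS5 : Cert pcS5 boxS5 true where
  pos := by
    refine ⟨⟨⟨?_, ?_, ?_, ?_, ?_, ?_, ?_⟩, ?_, ?_, ?_, ?_, ?_, ?_, ?_, ?_, ?_, ?_, ?_⟩, ?_, ?_⟩ <;>
      norm_num [fr, pcS5]
  gX := fun p l => match p, l with
    | false, false => chkS5_18
    | false, true => chkS5_19
    | true, false => chkS5_20
    | true, true => chkS5_21
  gMG := fun p l => match p, l with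
    | false, false => chkS5_22
    | false, true => chkS5_23
    | true, false => chkS5_24
    | true, true => chkS5_25
  g1 := fun p l => match p, l with
    | false, false => chkS5_26
    | false, true => chkS5_27
    | true, false => chkS5_28
    | true, true => chkS5_29
  g2 := fun s p t => match s, p, t with
    | false, false, false => chkS5_30
    | false, false, true => chkS5_31
    | false, true, false => chkS5_32
    | false, true, true => chkS5_33
    | true, false, false => chkS5_34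
    | true, false, true => chkS5_35
    | true, true, false => chkS5_36
    | true, true, true => chkS5_37
  g3 := fun s p l t => match s, p, l, t with
    | false, false, false, false => chkS5_38
    | false, false, false, true => chkS5_39
    | false, false, true, false => chkS5_40
    | false, false, true, true => chkS5_41
    | false, true, false, false => chkS5_42
    | false, true, false, true => chkS5_43
    | false, true, true, false => chkS5_44
    | false, true, true, true => chkS5_45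
    | true, false, false, false => chkS5_46
    | true, false, false, true => chkS5_47
    | true, false, true, false => chkS5_48
    | true, false, true, true => chkS5_49
    | true, true, false, false => chkS5_50
    | true, true, false, true => chkS5_51
    | true, true, true, false => chkS5_52
    | true, true, true, true => chkS5_53
  cMG := chkS5_54
  c2 := fun s => match s with
    | false => chkS5_55
    | true => chkS5_56
  c3 := fun s => match s with
    | false => chkS5_57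
    | true => chkS5_58
  sT := fun p => match p with
    | false => chkS5_59
    | true => chkS5_60
  bnd := fun ze b => match ze, b with
    | false, .l0 => chkS5_0
    | false, .l1 => chkS5_1
    | false, .r => chkS5_2
    | false, .g0 => chkS5_3
    | false, .g1 => chkS5_4
    | false, .t0 => chkS5_5
    | false, .t1 => chkS5_6
    | false, .w0 => chkS5_7
    | false, .w1 => chkS5_8
    | true, .l0 => chkS5_9
    | true, .l1 => chkS5_10
    | true, .r => chkS5_11
    | true, .g0 => chkS5_12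
    | true, .g1 => chkS5_13
    | true, .t0 => chkS5_14
    | true, .t1 => chkS5_15
    | true, .w0 => chkS5_16
    | true, .w1 => chkS5_17
  gap := fun ze t => match ze, t with
    | false, false => chkS5_61
    | false, true => chkS5_62
    | true, false => chkS5_63
    | true, true => chkS5_64

/-- A window of piece 5. -/
def winS5T : Win := ⟨.A, (50, 101, 1000), (0, 237, 250), (-22, 85, 100), (85, 208, 100), (52, 1075, 25), (136, 153, 200), true, true, (120, -118), (663, 1000)⟩

/-- The window passes. -/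
theorem winS5T_ok : winS5T.Cert where
  fits := ⟨by norm_num [winS5T], by norm_num [winS5T, qLo], by norm_num [winS5T, qLo, qHi],
    by norm_num [winS5T, qLo, qHi], by norm_num [winS5T, qLo], by norm_num [winS5T, qHi]⟩
  cross := ⟨290, 9, 6, 2, 7, by decide +kernel⟩
  exit := ⟨279, 12, 7, 3, 6, by decide +kernel⟩
  mix := ⟨386, 14, 9, 3, 10, by decide +kernel⟩

/-- The tight band is crossed one way on piece 5. -/
theorem bandS5 : Chk (winS5T.chart (136, 153, 200) winS5T.qc) (sBand winS5T.kind) :=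
  ⟨506, 17, 11, 3, 14, by decide +kernel⟩

end Vale.Agent.P100.Calib.StripMid
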