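import Vale.Agent.P100.Calib.SlabStripMidSevWindow

/-!
# The checks of piece 6 below 153/200 for `N` between seven and twenty
-/

set_option linter.defProp false

namespace Vale.Agent.P100.Calib.StripMid

open Pack

/-- The numbers of piece 6. -/
def pcS6 : Piece := ⟨.A, (17, 25), (153, 200), (17, 25), (107, 100), (241, 100), (12, 25), (351, 500), (116, 125), (37, -138, 40), (503, -1270, 500), 43, (153,-1140,900,10), (117, 250), (907, 1000), (7, 20), (1, 4), (3, 20)⟩

/-- The ranges of piece 6. -/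
def boxS6 : Box := ⟨(101, 122, 1000), (0, 111, 125), (42, 189, 50), (107, 241, 100), (136, 153, 200)⟩

def grpS6_0 : ([bound pcS6 false .l0,
    bound pcS6 false .l1,
    bound pcS6 false .r,
    bound pcS6 true .l0,
    bound pcS6 true .l1,
    bound pcS6 true .r].all
    (checkFour (boxS6.cC) 294 14 9 2 3)) = true := by decide +kernel
def chkS6_0 : Chk (boxS6.cC) (bound pcS6 false .l0) :=
  ⟨294, 14, 9, 2, 3, List.all_eq_true.1 grpS6_0 _ (.head _)⟩
def chkS6_1 : Chk (boxS6.cC) (bound pcS6 false .l1) :=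
  ⟨294, 14, 9, 2, 3, List.all_eq_true.1 grpS6_0 _ (.tail _ (.head _))⟩
def chkS6_2 : Chk (boxS6.cC) (bound pcS6 false .r) :=
  ⟨294, 14, 9, 2, 3, List.all_eq_true.1 grpS6_0 _ (.tail _ (.tail _ (.head _)))⟩
def chkS6_9 : Chk (boxS6.cC) (bound pcS6 true .l0) :=
  ⟨294, 14, 9, 2, 3, List.all_eq_true.1 grpS6_0 _ (.tail _ (.tail _ (.tail _ (.head _))))⟩
def chkS6_10 : Chk (boxS6.cC) (bound pcS6 true .l1) :=
  ⟨294, 14, 9, 2, 3, List.all_eq_true.1 grpS6_0 _ (.tail _ (.tail _ (.tail _ (.tail _ (.head _)))))⟩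
def chkS6_11 : Chk (boxS6.cC) (bound pcS6 true .r) :=
  ⟨294, 14, 9, 2, 3, List.all_eq_true.1 grpS6_0 _ (.tail _ (.tail _ (.tail _ (.tail _ (.tail _ (.head _))))))⟩
def grpS6_1 : ([bound pcS6 false .g0,
    bound pcS6 false .g1,
    bound pcS6 true .g0,
    bound pcS6 true .g1].all
    (checkFour (boxS6.cC) 124 5 3 1 2)) = true := by decide +kernel
def chkS6_3 : Chk (boxS6.cC) (bound pcS6 false .g0) :=
  ⟨124, 5, 3, 1, 2, List.all_eq_true.1 grpS6_1 _ (.head _)⟩
def chkS6_4 : Chk (boxS6.cC) (bound pcS6 false .g1) :=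
  ⟨124, 5, 3, 1, 2, List.all_eq_true.1 grpS6_1 _ (.tail _ (.head _))⟩
def chkS6_12 : Chk (boxS6.cC) (bound pcS6 true .g0) :=
  ⟨124, 5, 3, 1, 2, List.all_eq_true.1 grpS6_1 _ (.tail _ (.tail _ (.head _)))⟩
def chkS6_13 : Chk (boxS6.cC) (bound pcS6 true .g1) :=
  ⟨124, 5, 3, 1, 2, List.all_eq_true.1 grpS6_1 _ (.tail _ (.tail _ (.tail _ (.head _))))⟩
def grpS6_2 : ([bound pcS6 false .t0,
    bound pcS6 false .t1,
    bound pcS6 true .t0,
    bound pcS6 true .t1].all
    (checkFour (boxS6.cC) 208 9 6 2 3)) = true := by decide +kernel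
def chkS6_5 : Chk (boxS6.cC) (bound pcS6 false .t0) :=
  ⟨208, 9, 6, 2, 3, List.all_eq_true.1 grpS6_2 _ (.head _)⟩
def chkS6_6 : Chk (boxS6.cC) (bound pcS6 false .t1) :=
  ⟨208, 9, 6, 2, 3, List.all_eq_true.1 grpS6_2 _ (.tail _ (.head _))⟩
def chkS6_14 : Chk (boxS6.cC) (bound pcS6 true .t0) :=
  ⟨208, 9, 6, 2, 3, List.all_eq_true.1 grpS6_2 _ (.tail _ (.tail _ (.head _)))⟩
def chkS6_15 : Chk (boxS6.cC) (bound pcS6 true .t1) :=
  ⟨208, 9, 6, 2, 3, List.all_eq_true.1 grpS6_2 _ (.tail _ (.tail _ (.tail _ (.head _))))⟩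
def grpS6_3 : ([bound pcS6 false .w0,
    bound pcS6 false .w1,
    bound pcS6 true .w0,
    bound pcS6 true .w1].all
    (checkFour (boxS6.cC) 265 12 7 3 4)) = true := by decide +kernel
def chkS6_7 : Chk (boxS6.cC) (bound pcS6 false .w0) :=
  ⟨265, 12, 7, 3, 4, List.all_eq_true.1 grpS6_3 _ (.head _)⟩
def chkS6_8 : Chk (boxS6.cC) (bound pcS6 false .w1) :=
  ⟨265, 12, 7, 3, 4, List.all_eq_true.1 grpS6_3 _ (.tail _ (.head _))⟩
def chkS6_16 : Chk (boxS6.cC) (bound pcS6 true .w0) :=
  ⟨265, 12, 7, 3, 4, List.all_eq_true.1 grpS6_3 _ (.tail _ (.tail _ (.head _)))⟩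
def chkS6_17 : Chk (boxS6.cC) (bound pcS6 true .w1) :=
  ⟨265, 12, 7, 3, 4, List.all_eq_true.1 grpS6_3 _ (.tail _ (.tail _ (.tail _ (.head _))))⟩
def grpS6_4 : ([subst (sub pcS6 ⟨false, false, true, true, false⟩) (condX),
    subst (sub pcS6 ⟨false, true, true, true, false⟩) (condX),
    subst (sub pcS6 ⟨true, false, true, true, false⟩) (condX),
    subst (sub pcS6 ⟨true, true, true, true, false⟩) (condX)].all
    (checkFour (boxS6.vC) 315 15 10 4 0)) = true := by decide +kernel
def chkS6_18 : Chk (boxS6.vC) (subst (sub pcS6 ⟨false, false, true, true, false⟩) (condX)) :=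
  ⟨315, 15, 10, 4, 0, List.all_eq_true.1 grpS6_4 _ (.head _)⟩
def chkS6_19 : Chk (boxS6.vC) (subst (sub pcS6 ⟨false, true, true, true, false⟩) (condX)) :=
  ⟨315, 15, 10, 4, 0, List.all_eq_true.1 grpS6_4 _ (.tail _ (.head _))⟩
def chkS6_20 : Chk (boxS6.vC) (subst (sub pcS6 ⟨true, false, true, true, false⟩) (condX)) :=
  ⟨315, 15, 10, 4, 0, List.all_eq_true.1 grpS6_4 _ (.tail _ (.tail _ (.head _)))⟩
def chkS6_21 : Chk (boxS6.vC) (subst (sub pcS6 ⟨true, true, true, true, false⟩) (condX)) :=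
  ⟨315, 15, 10, 4, 0, List.all_eq_true.1 grpS6_4 _ (.tail _ (.tail _ (.tail _ (.head _))))⟩
def grpS6_5 : ([subst (sub pcS6 ⟨false, false, true, false, false⟩) (tplMG),
    subst (sub pcS6 ⟨false, true, true, false, false⟩) (tplMG),
    subst (sub pcS6 ⟨true, false, true, false, false⟩) (tplMG),
    subst (sub pcS6 ⟨true, true, true, false, false⟩) (tplMG)].all
    (checkFour (boxS6.vC) 547 26 18 6 0)) = true := by decide +kernel
def chkS6_22 : Chk (boxS6.vC) (subst (sub pcS6 ⟨false, false, true, false, false⟩) (tplMG)) :=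
  ⟨547, 26, 18, 6, 0, List.all_eq_true.1 grpS6_5 _ (.head _)⟩
def chkS6_23 : Chk (boxS6.vC) (subst (sub pcS6 ⟨false, true, true, false, false⟩) (tplMG)) :=
  ⟨547, 26, 18, 6, 0, List.all_eq_true.1 grpS6_5 _ (.tail _ (.head _))⟩
def chkS6_24 : Chk (boxS6.vC) (subst (sub pcS6 ⟨true, false, true, false, false⟩) (tplMG)) :=
  ⟨547, 26, 18, 6, 0, List.all_eq_true.1 grpS6_5 _ (.tail _ (.tail _ (.head _)))⟩
def chkS6_25 : Chk (boxS6.vC) (subst (sub pcS6 ⟨true, true, true, false, false⟩) (tplMG)) :=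
  ⟨547, 26, 18, 6, 0, List.all_eq_true.1 grpS6_5 _ (.tail _ (.tail _ (.tail _ (.head _))))⟩
def grpS6_6 : ([subst (sub pcS6 ⟨false, false, false, false, false⟩) (pcS6.m1),
    subst (sub pcS6 ⟨false, true, false, false, false⟩) (pcS6.m1),
    subst (sub pcS6 ⟨true, false, false, false, false⟩) (pcS6.m1),
    subst (sub pcS6 ⟨true, true, false, false, false⟩) (pcS6.m1)].all
    (checkFour (boxS6.vC) 407 19 14 4 0)) = true := by decide +kernel
def chkS6_26 : Chk (boxS6.vC) (subst (sub pcS6 ⟨false, false, false, false, false⟩) (pcS6.m1)) :=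
  ⟨407, 19, 14, 4, 0, List.all_eq_true.1 grpS6_6 _ (.head _)⟩
def chkS6_27 : Chk (boxS6.vC) (subst (sub pcS6 ⟨false, true, false, false, false⟩) (pcS6.m1)) :=
  ⟨407, 19, 14, 4, 0, List.all_eq_true.1 grpS6_6 _ (.tail _ (.head _))⟩
def chkS6_28 : Chk (boxS6.vC) (subst (sub pcS6 ⟨true, false, false, false, false⟩) (pcS6.m1)) :=
  ⟨407, 19, 14, 4, 0, List.all_eq_true.1 grpS6_6 _ (.tail _ (.tail _ (.head _)))⟩
def chkS6_29 : Chk (boxS6.vC) (subst (sub pcS6 ⟨true, true, false, false, false⟩) (pcS6.m1)) :=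
  ⟨407, 19, 14, 4, 0, List.all_eq_true.1 grpS6_6 _ (.tail _ (.tail _ (.tail _ (.head _))))⟩
def chkS6_30 : Chk (boxS6.vC) (subst (sub pcS6 ⟨false, false, true, false, false⟩) (strict (pcS6.m2 false))) :=
  ⟨568, 24, 17, 6, 0, by decide +kernel⟩
def chkS6_31 : Chk (boxS6.vC) (subst (sub pcS6 ⟨false, false, true, false, true⟩) (strict (pcS6.m2 false))) :=
  ⟨575, 24, 17, 6, 0, by decide +kernel⟩
def chkS6_32 : Chk (boxS6.vC) (subst (sub pcS6 ⟨true, false, true, false, false⟩) (strict (pcS6.m2 false))) :=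
  ⟨568, 24, 17, 6, 0, by decide +kernel⟩
def chkS6_33 : Chk (boxS6.vC) (subst (sub pcS6 ⟨true, false, true, false, true⟩) (strict (pcS6.m2 false))) :=
  ⟨575, 24, 17, 6, 0, by decide +kernel⟩
def chkS6_34 : Chk (boxS6.vC) (subst (sub pcS6 ⟨false, true, true, false, false⟩) (strict (pcS6.m2 true))) :=
  ⟨570, 24, 17, 6, 0, by decide +kernel⟩
def chkS6_35 : Chk (boxS6.vC) (subst (sub pcS6 ⟨false, true, true, false, true⟩) (strict (pcS6.m2 true))) :=
  ⟨577, 24, 17, 6, 0, by decide +kernel⟩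
def chkS6_36 : Chk (boxS6.vC) (subst (sub pcS6 ⟨true, true, true, false, false⟩) (strict (pcS6.m2 true))) :=
  ⟨570, 24, 17, 6, 0, by decide +kernel⟩
def chkS6_37 : Chk (boxS6.vC) (subst (sub pcS6 ⟨true, true, true, false, true⟩) (strict (pcS6.m2 true))) :=
  ⟨577, 24, 17, 6, 0, by decide +kernel⟩
def grpS6_15 : ([subst (sub pcS6 ⟨false, false, true, true, false⟩) (strict (pcS6.m3 false)),
    subst (sub pcS6 ⟨false, false, true, true, true⟩) (strict (pcS6.m3 false)),
    subst (sub pcS6 ⟨false, false, true, true, false⟩) (strict (pcS6.m3 true)),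
    subst (sub pcS6 ⟨false, false, true, true, true⟩) (strict (pcS6.m3 true))].all
    (checkFour (boxS6.vC) 718 31 23 6 0)) = true := by decide +kernel
def chkS6_38 : Chk (boxS6.vC) (subst (sub pcS6 ⟨false, false, true, true, false⟩) (strict (pcS6.m3 false))) :=
  ⟨718, 31, 23, 6, 0, List.all_eq_true.1 grpS6_15 _ (.head _)⟩
def chkS6_39 : Chk (boxS6.vC) (subst (sub pcS6 ⟨false, false, true, true, true⟩) (strict (pcS6.m3 false))) :=
  ⟨718, 31, 23, 6, 0, List.all_eq_true.1 grpS6_15 _ (.tail _ (.head _))⟩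
def chkS6_46 : Chk (boxS6.vC) (subst (sub pcS6 ⟨false, false, true, true, false⟩) (strict (pcS6.m3 true))) :=
  ⟨718, 31, 23, 6, 0, List.all_eq_true.1 grpS6_15 _ (.tail _ (.tail _ (.head _)))⟩
def chkS6_47 : Chk (boxS6.vC) (subst (sub pcS6 ⟨false, false, true, true, true⟩) (strict (pcS6.m3 true))) :=
  ⟨718, 31, 23, 6, 0, List.all_eq_true.1 grpS6_15 _ (.tail _ (.tail _ (.tail _ (.head _))))⟩
def grpS6_16 : ([subst (sub pcS6 ⟨false, true, true, true, false⟩) (strict (pcS6.m3 false)),
    subst (sub pcS6 ⟨false, true, true, true, true⟩) (strict (pcS6.m3 false)),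
    subst (sub pcS6 ⟨false, true, true, true, false⟩) (strict (pcS6.m3 true)),
    subst (sub pcS6 ⟨false, true, true, true, true⟩) (strict (pcS6.m3 true))].all
    (checkFour (boxS6.vC) 727 31 23 6 0)) = true := by decide +kernel
def chkS6_40 : Chk (boxS6.vC) (subst (sub pcS6 ⟨false, true, true, true, false⟩) (strict (pcS6.m3 false))) :=
  ⟨727, 31, 23, 6, 0, List.all_eq_true.1 grpS6_16 _ (.head _)⟩
def chkS6_41 : Chk (boxS6.vC) (subst (sub pcS6 ⟨false, true, true, true, true⟩) (strict (pcS6.m3 false))) :=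
  ⟨727, 31, 23, 6, 0, List.all_eq_true.1 grpS6_16 _ (.tail _ (.head _))⟩
def chkS6_48 : Chk (boxS6.vC) (subst (sub pcS6 ⟨false, true, true, true, false⟩) (strict (pcS6.m3 true))) :=
  ⟨727, 31, 23, 6, 0, List.all_eq_true.1 grpS6_16 _ (.tail _ (.tail _ (.head _)))⟩
def chkS6_49 : Chk (boxS6.vC) (subst (sub pcS6 ⟨false, true, true, true, true⟩) (strict (pcS6.m3 true))) :=
  ⟨727, 31, 23, 6, 0, List.all_eq_true.1 grpS6_16 _ (.tail _ (.tail _ (.tail _ (.head _))))⟩
def grpS6_17 : ([subst (sub pcS6 ⟨true, false, true, true, false⟩) (strict (pcS6.m3 false)),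
    subst (sub pcS6 ⟨true, false, true, true, true⟩) (strict (pcS6.m3 false)),
    subst (sub pcS6 ⟨true, false, true, true, false⟩) (strict (pcS6.m3 true)),
    subst (sub pcS6 ⟨true, false, true, true, true⟩) (strict (pcS6.m3 true))].all
    (checkFour (boxS6.vC) 719 31 23 6 0)) = true := by decide +kernel
def chkS6_42 : Chk (boxS6.vC) (subst (sub pcS6 ⟨true, false, true, true, false⟩) (strict (pcS6.m3 false))) :=
  ⟨719, 31, 23, 6, 0, List.all_eq_true.1 grpS6_17 _ (.head _)⟩
def chkS6_43 : Chk (boxS6.vC) (subst (sub pcS6 ⟨true, false, true, true, true⟩) (strict (pcS6.m3 false))) :=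
  ⟨719, 31, 23, 6, 0, List.all_eq_true.1 grpS6_17 _ (.tail _ (.head _))⟩
def chkS6_50 : Chk (boxS6.vC) (subst (sub pcS6 ⟨true, false, true, true, false⟩) (strict (pcS6.m3 true))) :=
  ⟨719, 31, 23, 6, 0, List.all_eq_true.1 grpS6_17 _ (.tail _ (.tail _ (.head _)))⟩
def chkS6_51 : Chk (boxS6.vC) (subst (sub pcS6 ⟨true, false, true, true, true⟩) (strict (pcS6.m3 true))) :=
  ⟨719, 31, 23, 6, 0, List.all_eq_true.1 grpS6_17 _ (.tail _ (.tail _ (.tail _ (.head _))))⟩
def grpS6_18 : ([subst (sub pcS6 ⟨true, true, true, true, false⟩) (strict (pcS6.m3 false)),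
    subst (sub pcS6 ⟨true, true, true, true, true⟩) (strict (pcS6.m3 false)),
    subst (sub pcS6 ⟨true, true, true, true, false⟩) (strict (pcS6.m3 true)),
    subst (sub pcS6 ⟨true, true, true, true, true⟩) (strict (pcS6.m3 true))].all
    (checkFour (boxS6.vC) 728 31 23 6 0)) = true := by decide +kernel
def chkS6_44 : Chk (boxS6.vC) (subst (sub pcS6 ⟨true, true, true, true, false⟩) (strict (pcS6.m3 false))) :=
  ⟨728, 31, 23, 6, 0, List.all_eq_true.1 grpS6_18 _ (.head _)⟩
def chkS6_45 : Chk (boxS6.vC) (subst (sub pcS6 ⟨true, true, true, true, true⟩) (strict (pcS6.m3 false))) :=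
  ⟨728, 31, 23, 6, 0, List.all_eq_true.1 grpS6_18 _ (.tail _ (.head _))⟩
def chkS6_52 : Chk (boxS6.vC) (subst (sub pcS6 ⟨true, true, true, true, false⟩) (strict (pcS6.m3 true))) :=
  ⟨728, 31, 23, 6, 0, List.all_eq_true.1 grpS6_18 _ (.tail _ (.tail _ (.head _)))⟩
def chkS6_53 : Chk (boxS6.vC) (subst (sub pcS6 ⟨true, true, true, true, true⟩) (strict (pcS6.m3 true))) :=
  ⟨728, 31, 23, 6, 0, List.all_eq_true.1 grpS6_18 _ (.tail _ (.tail _ (.tail _ (.head _))))⟩
def chkS6_54 : Chk (boxS6.vC) (subst (sub pcS6 ⟨false, false, true, true, false⟩) (negEx coMG12)) :=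
  ⟨160, 8, 5, 4, 0, by decide +kernel⟩
def grpS6_20 : ([subst (sub pcS6 ⟨false, false, true, true, false⟩) (negEx (pcS6.curve2 false)),
    subst (sub pcS6 ⟨false, false, true, true, false⟩) (negEx (pcS6.curve2 true))].all
    (checkFour (boxS6.vC) 176 9 5 4 0)) = true := by decide +kernel
def chkS6_55 : Chk (boxS6.vC) (subst (sub pcS6 ⟨false, false, true, true, false⟩) (negEx (pcS6.curve2 false))) :=
  ⟨176, 9, 5, 4, 0, List.all_eq_true.1 grpS6_20 _ (.head _)⟩
def chkS6_56 : Chk (boxS6.vC) (subst (sub pcS6 ⟨false, false, true, true, false⟩) (negEx (pcS6.curve2 true))) :=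
  ⟨176, 9, 5, 4, 0, List.all_eq_true.1 grpS6_20 _ (.tail _ (.head _))⟩
def grpS6_21 : ([subst (sub pcS6 ⟨false, false, true, true, false⟩) (negEx (pcS6.curve3 false)),
    subst (sub pcS6 ⟨false, false, true, true, false⟩) (negEx (pcS6.curve3 true))].all
    (checkFour (boxS6.vC) 184 9 6 4 0)) = true := by decide +kernel
def chkS6_57 : Chk (boxS6.vC) (subst (sub pcS6 ⟨false, false, true, true, false⟩) (negEx (pcS6.curve3 false))) :=
  ⟨184, 9, 6, 4, 0, List.all_eq_true.1 grpS6_21 _ (.head _)⟩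
def chkS6_58 : Chk (boxS6.vC) (subst (sub pcS6 ⟨false, false, true, true, false⟩) (negEx (pcS6.curve3 true))) :=
  ⟨184, 9, 6, 4, 0, List.all_eq_true.1 grpS6_21 _ (.tail _ (.head _))⟩
def grpS6_22 : ([subst (sub pcS6 ⟨false, false, true, true, false⟩) (slopeT),
    subst (sub pcS6 ⟨true, false, true, true, false⟩) (slopeT)].all
    (checkFour (boxS6.vC) 197 10 6 4 0)) = true := by decide +kernel
def chkS6_59 : Chk (boxS6.vC) (subst (sub pcS6 ⟨false, false, true, true, false⟩) (slopeT)) :=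
  ⟨197, 10, 6, 4, 0, List.all_eq_true.1 grpS6_22 _ (.head _)⟩
def chkS6_60 : Chk (boxS6.vC) (subst (sub pcS6 ⟨true, false, true, true, false⟩) (slopeT)) :=
  ⟨197, 10, 6, 4, 0, List.all_eq_true.1 grpS6_22 _ (.tail _ (.head _))⟩
def grpS6_23 : ([subst (gapSub pcS6 true false false) tplL,
    subst (gapSub pcS6 true false true) tplL,
    subst (gapSub pcS6 true true false) tplL,
    subst (gapSub pcS6 true true true) tplL].all
    (checkFour (boxS6.gC true) 490 25 16 5 2)) = true := by decide +kernel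
def chkS6_61 : Chk (boxS6.gC true) (subst (gapSub pcS6 true false false) tplL) :=
  ⟨490, 25, 16, 5, 2, List.all_eq_true.1 grpS6_23 _ (.head _)⟩
def chkS6_62 : Chk (boxS6.gC true) (subst (gapSub pcS6 true false true) tplL) :=
  ⟨490, 25, 16, 5, 2, List.all_eq_true.1 grpS6_23 _ (.tail _ (.head _))⟩
def chkS6_63 : Chk (boxS6.gC true) (subst (gapSub pcS6 true true false) tplL) :=
  ⟨490, 25, 16, 5, 2, List.all_eq_true.1 grpS6_23 _ (.tail _ (.tail _ (.head _)))⟩
def chkS6_64 : Chk (boxS6.gC true) (subst (gapSub pcS6 true true true) tplL) :=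
  ⟨490, 25, 16, 5, 2, List.all_eq_true.1 grpS6_23 _ (.tail _ (.tail _ (.tail _ (.head _))))⟩

/-- Piece 6 passes. -/
theorem certS6 : Cert pcS6 boxS6 true where
  pos := by
    refine ⟨⟨⟨?_, ?_, ?_, ?_, ?_, ?_, ?_⟩, ?_, ?_, ?_, ?_, ?_, ?_, ?_, ?_, ?_, ?_, ?_⟩, ?_, ?_⟩ <;>
      norm_num [fr, pcS6]
  gX := fun p l => match p, l with
    | false, false => chkS6_18
    | false, true => chkS6_19
    | true, false => chkS6_20
    | true, true => chkS6_21
  gMG := fun p l => match p, l with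
    | false, false => chkS6_22
    | false, true => chkS6_23
    | true, false => chkS6_24
    | true, true => chkS6_25
  g1 := fun p l => match p, l with
    | false, false => chkS6_26
    | false, true => chkS6_27
    | true, false => chkS6_28
    | true, true => chkS6_29
  g2 := fun s p t => match s, p, t with
    | false, false, false => chkS6_30
    | false, false, true => chkS6_31
    | false, true, false => chkS6_32
    | false, true, true => chkS6_33
    | true, false, false => chkS6_34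
    | true, false, true => chkS6_35
    | true, true, false => chkS6_36
    | true, true, true => chkS6_37
  g3 := fun s p l t => match s, p, l, t with
    | false, false, false, false => chkS6_38
    | false, false, false, true => chkS6_39
    | false, false, true, false => chkS6_40
    | false, false, true, true => chkS6_41
    | false, true, false, false => chkS6_42
    | false, true, false, true => chkS6_43
    | false, true, true, false => chkS6_44
    | false, true, true, true => chkS6_45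
    | true, false, false, false => chkS6_46
    | true, false, false, true => chkS6_47
    | true, false, true, false => chkS6_48
    | true, false, true, true => chkS6_49
    | true, true, false, false => chkS6_50
    | true, true, false, true => chkS6_51
    | true, true, true, false => chkS6_52
    | true, true, true, true => chkS6_53
  cMG := chkS6_54
  c2 := fun s => match s with
    | false => chkS6_55
    | true => chkS6_56
  c3 := fun s => match s with
    | false => chkS6_57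
    | true => chkS6_58
  sT := fun p => match p with
    | false => chkS6_59
    | true => chkS6_60
  bnd := fun ze b => match ze, b with
    | false, .l0 => chkS6_0
    | false, .l1 => chkS6_1
    | false, .r => chkS6_2
    | false, .g0 => chkS6_3
    | false, .g1 => chkS6_4
    | false, .t0 => chkS6_5
    | false, .t1 => chkS6_6
    | false, .w0 => chkS6_7
    | false, .w1 => chkS6_8
    | true, .l0 => chkS6_9
    | true, .l1 => chkS6_10
    | true, .r => chkS6_11
    | true, .g0 => chkS6_12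
    | true, .g1 => chkS6_13
    | true, .t0 => chkS6_14
    | true, .t1 => chkS6_15
    | true, .w0 => chkS6_16
    | true, .w1 => chkS6_17
  gap := fun ze t => match ze, t with
    | false, false => chkS6_61
    | false, true => chkS6_62
    | true, false => chkS6_63
    | true, true => chkS6_64

/-- A window of piece 6. -/
def winS6T : Win := ⟨.A, (101, 122, 1000), (0, 111, 125), (-22, 107, 100), (107, 241, 100), (241, 4300, 100), (136, 153, 200), true, true, (80, -59), (635, 1000)⟩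

/-- The window passes. -/
theorem winS6T_ok : winS6T.Cert where
  fits := ⟨by norm_num [winS6T], by norm_num [winS6T, qLo], by norm_num [winS6T, qLo, qHi],
    by norm_num [winS6T, qLo, qHi], by norm_num [winS6T, qLo], by norm_num [winS6T, qHi]⟩
  cross := ⟨285, 9, 6, 2, 7, by decide +kernel⟩
  exit := ⟨279, 12, 7, 3, 6, by decide +kernel⟩
  mix := ⟨377, 14, 9, 3, 10, by decide +kernel⟩

/-- The tight band is crossed one way on piece 6. -/
theorem bandS6 : Chk (winS6T.chart (136, 153, 200) winS6T.qc) (sBand winS6T.kind) :=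
  ⟨496, 17, 11, 3, 14, by decide +kernel⟩

end Vale.Agent.P100.Calib.StripMid
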