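import Vale.Agent.P100.Calib.SlabStripMidSevWindow

/-!
# The checks of piece 7 below 153/200 for `N` between seven and twenty
-/

set_option linter.defProp false

namespace Vale.Agent.P100.Calib.StripMid

open Pack

/-- The numbers of piece 7. -/
def pcS7 : Piece := ⟨.A, (17, 25), (153, 200), (67, 100), (117, 100), (13, 5), (61, 125), (69, 100), (229, 250), (973, -4800, 1000), (503, -1575, 500), 49, (227,-1430,1200,10), (117, 250), (189, 250), (11, 50), (3, 20), (3, 20)⟩

/-- The ranges of piece 7. -/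
def boxS7 : Box := ⟨(122, 143, 1000), (0, 3, 10), (98, 357, 100), (117, 260, 100), (136, 153, 200)⟩

def grpS7_0 : ([bound pcS7 false .l0,
    bound pcS7 false .l1,
    bound pcS7 false .r,
    bound pcS7 true .l0,
    bound pcS7 true .l1,
    bound pcS7 true .r].all
    (checkFour (boxS7.cC) 262 14 9 2 3)) = true := by decide +kernel
def chkS7_0 : Chk (boxS7.cC) (bound pcS7 false .l0) :=
  ⟨262, 14, 9, 2, 3, List.all_eq_true.1 grpS7_0 _ (.head _)⟩
def chkS7_1 : Chk (boxS7.cC) (bound pcS7 false .l1) :=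
  ⟨262, 14, 9, 2, 3, List.all_eq_true.1 grpS7_0 _ (.tail _ (.head _))⟩
def chkS7_2 : Chk (boxS7.cC) (bound pcS7 false .r) :=
  ⟨262, 14, 9, 2, 3, List.all_eq_true.1 grpS7_0 _ (.tail _ (.tail _ (.head _)))⟩
def chkS7_9 : Chk (boxS7.cC) (bound pcS7 true .l0) :=
  ⟨262, 14, 9, 2, 3, List.all_eq_true.1 grpS7_0 _ (.tail _ (.tail _ (.tail _ (.head _))))⟩
def chkS7_10 : Chk (boxS7.cC) (bound pcS7 true .l1) :=
  ⟨262, 14, 9, 2, 3, List.all_eq_true.1 grpS7_0 _ (.tail _ (.tail _ (.tail _ (.tail _ (.head _)))))⟩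
def chkS7_11 : Chk (boxS7.cC) (bound pcS7 true .r) :=
  ⟨262, 14, 9, 2, 3, List.all_eq_true.1 grpS7_0 _ (.tail _ (.tail _ (.tail _ (.tail _ (.tail _ (.head _))))))⟩
def grpS7_1 : ([bound pcS7 false .g0,
    bound pcS7 false .g1,
    bound pcS7 true .g0,
    bound pcS7 true .g1].all
    (checkFour (boxS7.cC) 113 5 3 1 2)) = true := by decide +kernel
def chkS7_3 : Chk (boxS7.cC) (bound pcS7 false .g0) :=
  ⟨113, 5, 3, 1, 2, List.all_eq_true.1 grpS7_1 _ (.head _)⟩
def chkS7_4 : Chk (boxS7.cC) (bound pcS7 false .g1) :=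
  ⟨113, 5, 3, 1, 2, List.all_eq_true.1 grpS7_1 _ (.tail _ (.head _))⟩
def chkS7_12 : Chk (boxS7.cC) (bound pcS7 true .g0) :=
  ⟨113, 5, 3, 1, 2, List.all_eq_true.1 grpS7_1 _ (.tail _ (.tail _ (.head _)))⟩
def chkS7_13 : Chk (boxS7.cC) (bound pcS7 true .g1) :=
  ⟨113, 5, 3, 1, 2, List.all_eq_true.1 grpS7_1 _ (.tail _ (.tail _ (.tail _ (.head _))))⟩
def grpS7_2 : ([bound pcS7 false .t0,
    bound pcS7 false .t1,
    bound pcS7 true .t0,
    bound pcS7 true .t1].all
    (checkFour (boxS7.cC) 189 9 6 2 3)) = true := by decide +kernel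
def chkS7_5 : Chk (boxS7.cC) (bound pcS7 false .t0) :=
  ⟨189, 9, 6, 2, 3, List.all_eq_true.1 grpS7_2 _ (.head _)⟩
def chkS7_6 : Chk (boxS7.cC) (bound pcS7 false .t1) :=
  ⟨189, 9, 6, 2, 3, List.all_eq_true.1 grpS7_2 _ (.tail _ (.head _))⟩
def chkS7_14 : Chk (boxS7.cC) (bound pcS7 true .t0) :=
  ⟨189, 9, 6, 2, 3, List.all_eq_true.1 grpS7_2 _ (.tail _ (.tail _ (.head _)))⟩
def chkS7_15 : Chk (boxS7.cC) (bound pcS7 true .t1) :=
  ⟨189, 9, 6, 2, 3, List.all_eq_true.1 grpS7_2 _ (.tail _ (.tail _ (.tail _ (.head _))))⟩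
def grpS7_3 : ([bound pcS7 false .w0,
    bound pcS7 false .w1,
    bound pcS7 true .w0,
    bound pcS7 true .w1].all
    (checkFour (boxS7.cC) 242 12 7 3 4)) = true := by decide +kernel
def chkS7_7 : Chk (boxS7.cC) (bound pcS7 false .w0) :=
  ⟨242, 12, 7, 3, 4, List.all_eq_true.1 grpS7_3 _ (.head _)⟩
def chkS7_8 : Chk (boxS7.cC) (bound pcS7 false .w1) :=
  ⟨242, 12, 7, 3, 4, List.all_eq_true.1 grpS7_3 _ (.tail _ (.head _))⟩
def chkS7_16 : Chk (boxS7.cC) (bound pcS7 true .w0) :=
  ⟨242, 12, 7, 3, 4, List.all_eq_true.1 grpS7_3 _ (.tail _ (.tail _ (.head _)))⟩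
def chkS7_17 : Chk (boxS7.cC) (bound pcS7 true .w1) :=
  ⟨242, 12, 7, 3, 4, List.all_eq_true.1 grpS7_3 _ (.tail _ (.tail _ (.tail _ (.head _))))⟩
def grpS7_4 : ([subst (sub pcS7 ⟨false, false, true, true, false⟩) (condX),
    subst (sub pcS7 ⟨false, true, true, true, false⟩) (condX),
    subst (sub pcS7 ⟨true, false, true, true, false⟩) (condX),
    subst (sub pcS7 ⟨true, true, true, true, false⟩) (condX)].all
    (checkFour (boxS7.vC) 283 15 10 4 0)) = true := by decide +kernel
def chkS7_18 : Chk (boxS7.vC) (subst (sub pcS7 ⟨false, false, true, true, false⟩) (condX)) :=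
  ⟨283, 15, 10, 4, 0, List.all_eq_true.1 grpS7_4 _ (.head _)⟩
def chkS7_19 : Chk (boxS7.vC) (subst (sub pcS7 ⟨false, true, true, true, false⟩) (condX)) :=
  ⟨283, 15, 10, 4, 0, List.all_eq_true.1 grpS7_4 _ (.tail _ (.head _))⟩
def chkS7_20 : Chk (boxS7.vC) (subst (sub pcS7 ⟨true, false, true, true, false⟩) (condX)) :=
  ⟨283, 15, 10, 4, 0, List.all_eq_true.1 grpS7_4 _ (.tail _ (.tail _ (.head _)))⟩
def chkS7_21 : Chk (boxS7.vC) (subst (sub pcS7 ⟨true, true, true, true, false⟩) (condX)) :=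
  ⟨283, 15, 10, 4, 0, List.all_eq_true.1 grpS7_4 _ (.tail _ (.tail _ (.tail _ (.head _))))⟩
def grpS7_5 : ([subst (sub pcS7 ⟨false, false, true, false, false⟩) (tplMG),
    subst (sub pcS7 ⟨false, true, true, false, false⟩) (tplMG),
    subst (sub pcS7 ⟨true, false, true, false, false⟩) (tplMG),
    subst (sub pcS7 ⟨true, true, true, false, false⟩) (tplMG)].all
    (checkFour (boxS7.vC) 494 26 18 6 0)) = true := by decide +kernel
def chkS7_22 : Chk (boxS7.vC) (subst (sub pcS7 ⟨false, false, true, false, false⟩) (tplMG)) :=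
  ⟨494, 26, 18, 6, 0, List.all_eq_true.1 grpS7_5 _ (.head _)⟩
def chkS7_23 : Chk (boxS7.vC) (subst (sub pcS7 ⟨false, true, true, false, false⟩) (tplMG)) :=
  ⟨494, 26, 18, 6, 0, List.all_eq_true.1 grpS7_5 _ (.tail _ (.head _))⟩
def chkS7_24 : Chk (boxS7.vC) (subst (sub pcS7 ⟨true, false, true, false, false⟩) (tplMG)) :=
  ⟨494, 26, 18, 6, 0, List.all_eq_true.1 grpS7_5 _ (.tail _ (.tail _ (.head _)))⟩
def chkS7_25 : Chk (boxS7.vC) (subst (sub pcS7 ⟨true, true, true, false, false⟩) (tplMG)) :=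
  ⟨494, 26, 18, 6, 0, List.all_eq_true.1 grpS7_5 _ (.tail _ (.tail _ (.tail _ (.head _))))⟩
def grpS7_6 : ([subst (sub pcS7 ⟨false, false, false, false, false⟩) (pcS7.m1),
    subst (sub pcS7 ⟨false, true, false, false, false⟩) (pcS7.m1),
    subst (sub pcS7 ⟨true, false, false, false, false⟩) (pcS7.m1),
    subst (sub pcS7 ⟨true, true, false, false, false⟩) (pcS7.m1)].all
    (checkFour (boxS7.vC) 359 19 14 4 0)) = true := by decide +kernel
def chkS7_26 : Chk (boxS7.vC) (subst (sub pcS7 ⟨false, false, false, false, false⟩) (pcS7.m1)) :=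
  ⟨359, 19, 14, 4, 0, List.all_eq_true.1 grpS7_6 _ (.head _)⟩
def chkS7_27 : Chk (boxS7.vC) (subst (sub pcS7 ⟨false, true, false, false, false⟩) (pcS7.m1)) :=
  ⟨359, 19, 14, 4, 0, List.all_eq_true.1 grpS7_6 _ (.tail _ (.head _))⟩
def chkS7_28 : Chk (boxS7.vC) (subst (sub pcS7 ⟨true, false, false, false, false⟩) (pcS7.m1)) :=
  ⟨359, 19, 14, 4, 0, List.all_eq_true.1 grpS7_6 _ (.tail _ (.tail _ (.head _)))⟩
def chkS7_29 : Chk (boxS7.vC) (subst (sub pcS7 ⟨true, true, false, false, false⟩) (pcS7.m1)) :=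
  ⟨359, 19, 14, 4, 0, List.all_eq_true.1 grpS7_6 _ (.tail _ (.tail _ (.tail _ (.head _))))⟩
def chkS7_30 : Chk (boxS7.vC) (subst (sub pcS7 ⟨false, false, true, false, false⟩) (strict (pcS7.m2 false))) :=
  ⟨528, 24, 17, 6, 0, by decide +kernel⟩
def chkS7_31 : Chk (boxS7.vC) (subst (sub pcS7 ⟨false, false, true, false, true⟩) (strict (pcS7.m2 false))) :=
  ⟨526, 24, 17, 6, 0, by decide +kernel⟩
def chkS7_32 : Chk (boxS7.vC) (subst (sub pcS7 ⟨true, false, true, false, false⟩) (strict (pcS7.m2 false))) :=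
  ⟨528, 24, 17, 6, 0, by decide +kernel⟩
def chkS7_33 : Chk (boxS7.vC) (subst (sub pcS7 ⟨true, false, true, false, true⟩) (strict (pcS7.m2 false))) :=
  ⟨526, 24, 17, 6, 0, by decide +kernel⟩
def chkS7_34 : Chk (boxS7.vC) (subst (sub pcS7 ⟨false, true, true, false, false⟩) (strict (pcS7.m2 true))) :=
  ⟨528, 24, 17, 6, 0, by decide +kernel⟩
def chkS7_35 : Chk (boxS7.vC) (subst (sub pcS7 ⟨false, true, true, false, true⟩) (strict (pcS7.m2 true))) :=
  ⟨526, 24, 17, 6, 0, by decide +kernel⟩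
def chkS7_36 : Chk (boxS7.vC) (subst (sub pcS7 ⟨true, true, true, false, false⟩) (strict (pcS7.m2 true))) :=
  ⟨528, 24, 17, 6, 0, by decide +kernel⟩
def chkS7_37 : Chk (boxS7.vC) (subst (sub pcS7 ⟨true, true, true, false, true⟩) (strict (pcS7.m2 true))) :=
  ⟨526, 24, 17, 6, 0, by decide +kernel⟩
def grpS7_15 : ([subst (sub pcS7 ⟨false, false, true, true, false⟩) (strict (pcS7.m3 false)),
    subst (sub pcS7 ⟨false, false, true, true, true⟩) (strict (pcS7.m3 false)),
    subst (sub pcS7 ⟨false, false, true, true, false⟩) (strict (pcS7.m3 true)),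
    subst (sub pcS7 ⟨false, false, true, true, true⟩) (strict (pcS7.m3 true))].all
    (checkFour (boxS7.vC) 653 31 23 6 0)) = true := by decide +kernel
def chkS7_38 : Chk (boxS7.vC) (subst (sub pcS7 ⟨false, false, true, true, false⟩) (strict (pcS7.m3 false))) :=
  ⟨653, 31, 23, 6, 0, List.all_eq_true.1 grpS7_15 _ (.head _)⟩
def chkS7_39 : Chk (boxS7.vC) (subst (sub pcS7 ⟨false, false, true, true, true⟩) (strict (pcS7.m3 false))) :=
  ⟨653, 31, 23, 6, 0, List.all_eq_true.1 grpS7_15 _ (.tail _ (.head _))⟩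
def chkS7_46 : Chk (boxS7.vC) (subst (sub pcS7 ⟨false, false, true, true, false⟩) (strict (pcS7.m3 true))) :=
  ⟨653, 31, 23, 6, 0, List.all_eq_true.1 grpS7_15 _ (.tail _ (.tail _ (.head _)))⟩
def chkS7_47 : Chk (boxS7.vC) (subst (sub pcS7 ⟨false, false, true, true, true⟩) (strict (pcS7.m3 true))) :=
  ⟨653, 31, 23, 6, 0, List.all_eq_true.1 grpS7_15 _ (.tail _ (.tail _ (.tail _ (.head _))))⟩
def grpS7_16 : ([subst (sub pcS7 ⟨false, true, true, true, false⟩) (strict (pcS7.m3 false)),
    subst (sub pcS7 ⟨false, true, true, true, true⟩) (strict (pcS7.m3 false)),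
    subst (sub pcS7 ⟨false, true, true, true, false⟩) (strict (pcS7.m3 true)),
    subst (sub pcS7 ⟨false, true, true, true, true⟩) (strict (pcS7.m3 true))].all
    (checkFour (boxS7.vC) 653 31 23 6 0)) = true := by decide +kernel
def chkS7_40 : Chk (boxS7.vC) (subst (sub pcS7 ⟨false, true, true, true, false⟩) (strict (pcS7.m3 false))) :=
  ⟨653, 31, 23, 6, 0, List.all_eq_true.1 grpS7_16 _ (.head _)⟩
def chkS7_41 : Chk (boxS7.vC) (subst (sub pcS7 ⟨false, true, true, true, true⟩) (strict (pcS7.m3 false))) :=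
  ⟨653, 31, 23, 6, 0, List.all_eq_true.1 grpS7_16 _ (.tail _ (.head _))⟩
def chkS7_48 : Chk (boxS7.vC) (subst (sub pcS7 ⟨false, true, true, true, false⟩) (strict (pcS7.m3 true))) :=
  ⟨653, 31, 23, 6, 0, List.all_eq_true.1 grpS7_16 _ (.tail _ (.tail _ (.head _)))⟩
def chkS7_49 : Chk (boxS7.vC) (subst (sub pcS7 ⟨false, true, true, true, true⟩) (strict (pcS7.m3 true))) :=
  ⟨653, 31, 23, 6, 0, List.all_eq_true.1 grpS7_16 _ (.tail _ (.tail _ (.tail _ (.head _))))⟩
def grpS7_17 : ([subst (sub pcS7 ⟨true, false, true, true, false⟩) (strict (pcS7.m3 false)),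
    subst (sub pcS7 ⟨true, false, true, true, true⟩) (strict (pcS7.m3 false)),
    subst (sub pcS7 ⟨true, false, true, true, false⟩) (strict (pcS7.m3 true)),
    subst (sub pcS7 ⟨true, false, true, true, true⟩) (strict (pcS7.m3 true))].all
    (checkFour (boxS7.vC) 653 31 23 6 0)) = true := by decide +kernel
def chkS7_42 : Chk (boxS7.vC) (subst (sub pcS7 ⟨true, false, true, true, false⟩) (strict (pcS7.m3 false))) :=
  ⟨653, 31, 23, 6, 0, List.all_eq_true.1 grpS7_17 _ (.head _)⟩
def chkS7_43 : Chk (boxS7.vC) (subst (sub pcS7 ⟨true, false, true, true, true⟩) (strict (pcS7.m3 false))) :=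
  ⟨653, 31, 23, 6, 0, List.all_eq_true.1 grpS7_17 _ (.tail _ (.head _))⟩
def chkS7_50 : Chk (boxS7.vC) (subst (sub pcS7 ⟨true, false, true, true, false⟩) (strict (pcS7.m3 true))) :=
  ⟨653, 31, 23, 6, 0, List.all_eq_true.1 grpS7_17 _ (.tail _ (.tail _ (.head _)))⟩
def chkS7_51 : Chk (boxS7.vC) (subst (sub pcS7 ⟨true, false, true, true, true⟩) (strict (pcS7.m3 true))) :=
  ⟨653, 31, 23, 6, 0, List.all_eq_true.1 grpS7_17 _ (.tail _ (.tail _ (.tail _ (.head _))))⟩
def grpS7_18 : ([subst (sub pcS7 ⟨true, true, true, true, false⟩) (strict (pcS7.m3 false)),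
    subst (sub pcS7 ⟨true, true, true, true, true⟩) (strict (pcS7.m3 false)),
    subst (sub pcS7 ⟨true, true, true, true, false⟩) (strict (pcS7.m3 true)),
    subst (sub pcS7 ⟨true, true, true, true, true⟩) (strict (pcS7.m3 true))].all
    (checkFour (boxS7.vC) 653 31 23 6 0)) = true := by decide +kernel
def chkS7_44 : Chk (boxS7.vC) (subst (sub pcS7 ⟨true, true, true, true, false⟩) (strict (pcS7.m3 false))) :=
  ⟨653, 31, 23, 6, 0, List.all_eq_true.1 grpS7_18 _ (.head _)⟩
def chkS7_45 : Chk (boxS7.vC) (subst (sub pcS7 ⟨true, true, true, true, true⟩) (strict (pcS7.m3 false))) :=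
  ⟨653, 31, 23, 6, 0, List.all_eq_true.1 grpS7_18 _ (.tail _ (.head _))⟩
def chkS7_52 : Chk (boxS7.vC) (subst (sub pcS7 ⟨true, true, true, true, false⟩) (strict (pcS7.m3 true))) :=
  ⟨653, 31, 23, 6, 0, List.all_eq_true.1 grpS7_18 _ (.tail _ (.tail _ (.head _)))⟩
def chkS7_53 : Chk (boxS7.vC) (subst (sub pcS7 ⟨true, true, true, true, true⟩) (strict (pcS7.m3 true))) :=
  ⟨653, 31, 23, 6, 0, List.all_eq_true.1 grpS7_18 _ (.tail _ (.tail _ (.tail _ (.head _))))⟩
def chkS7_54 : Chk (boxS7.vC) (subst (sub pcS7 ⟨false, false, true, true, false⟩) (negEx coMG12)) :=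
  ⟨145, 8, 5, 4, 0, by decide +kernel⟩
def grpS7_20 : ([subst (sub pcS7 ⟨false, false, true, true, false⟩) (negEx (pcS7.curve2 false)),
    subst (sub pcS7 ⟨false, false, true, true, false⟩) (negEx (pcS7.curve2 true))].all
    (checkFour (boxS7.vC) 161 9 5 4 0)) = true := by decide +kernel
def chkS7_55 : Chk (boxS7.vC) (subst (sub pcS7 ⟨false, false, true, true, false⟩) (negEx (pcS7.curve2 false))) :=
  ⟨161, 9, 5, 4, 0, List.all_eq_true.1 grpS7_20 _ (.head _)⟩
def chkS7_56 : Chk (boxS7.vC) (subst (sub pcS7 ⟨false, false, true, true, false⟩) (negEx (pcS7.curve2 true))) :=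
  ⟨161, 9, 5, 4, 0, List.all_eq_true.1 grpS7_20 _ (.tail _ (.head _))⟩
def grpS7_21 : ([subst (sub pcS7 ⟨false, false, true, true, false⟩) (negEx (pcS7.curve3 false)),
    subst (sub pcS7 ⟨false, false, true, true, false⟩) (negEx (pcS7.curve3 true))].all
    (checkFour (boxS7.vC) 166 9 6 4 0)) = true := by decide +kernel
def chkS7_57 : Chk (boxS7.vC) (subst (sub pcS7 ⟨false, false, true, true, false⟩) (negEx (pcS7.curve3 false))) :=
  ⟨166, 9, 6, 4, 0, List.all_eq_true.1 grpS7_21 _ (.head _)⟩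
def chkS7_58 : Chk (boxS7.vC) (subst (sub pcS7 ⟨false, false, true, true, false⟩) (negEx (pcS7.curve3 true))) :=
  ⟨166, 9, 6, 4, 0, List.all_eq_true.1 grpS7_21 _ (.tail _ (.head _))⟩
def grpS7_22 : ([subst (sub pcS7 ⟨false, false, true, true, false⟩) (slopeT),
    subst (sub pcS7 ⟨true, false, true, true, false⟩) (slopeT)].all
    (checkFour (boxS7.vC) 180 10 6 4 0)) = true := by decide +kernel
def chkS7_59 : Chk (boxS7.vC) (subst (sub pcS7 ⟨false, false, true, true, false⟩) (slopeT)) :=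
  ⟨180, 10, 6, 4, 0, List.all_eq_true.1 grpS7_22 _ (.head _)⟩
def chkS7_60 : Chk (boxS7.vC) (subst (sub pcS7 ⟨true, false, true, true, false⟩) (slopeT)) :=
  ⟨180, 10, 6, 4, 0, List.all_eq_true.1 grpS7_22 _ (.tail _ (.head _))⟩
def grpS7_23 : ([subst (gapSub pcS7 true false false) tplL,
    subst (gapSub pcS7 true false true) tplL,
    subst (gapSub pcS7 true true false) tplL,
    subst (gapSub pcS7 true true true) tplL].all
    (checkFour (boxS7.gC true) 440 25 16 5 2)) = true := by decide +kernel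
def chkS7_61 : Chk (boxS7.gC true) (subst (gapSub pcS7 true false false) tplL) :=
  ⟨440, 25, 16, 5, 2, List.all_eq_true.1 grpS7_23 _ (.head _)⟩
def chkS7_62 : Chk (boxS7.gC true) (subst (gapSub pcS7 true false true) tplL) :=
  ⟨440, 25, 16, 5, 2, List.all_eq_true.1 grpS7_23 _ (.tail _ (.head _))⟩
def chkS7_63 : Chk (boxS7.gC true) (subst (gapSub pcS7 true true false) tplL) :=
  ⟨440, 25, 16, 5, 2, List.all_eq_true.1 grpS7_23 _ (.tail _ (.tail _ (.head _)))⟩
def chkS7_64 : Chk (boxS7.gC true) (subst (gapSub pcS7 true true true) tplL) :=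
  ⟨440, 25, 16, 5, 2, List.all_eq_true.1 grpS7_23 _ (.tail _ (.tail _ (.tail _ (.head _))))⟩

/-- Piece 7 passes. -/
theorem certS7 : Cert pcS7 boxS7 true where
  pos := by
    refine ⟨⟨⟨?_, ?_, ?_, ?_, ?_, ?_, ?_⟩, ?_, ?_, ?_, ?_, ?_, ?_, ?_, ?_, ?_, ?_, ?_⟩, ?_, ?_⟩ <;>
      norm_num [fr, pcS7]
  gX := fun p l => match p, l with
    | false, false => chkS7_18
    | false, true => chkS7_19
    | true, false => chkS7_20
    | true, true => chkS7_21
  gMG := fun p l => match p, l with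
    | false, false => chkS7_22
    | false, true => chkS7_23
    | true, false => chkS7_24
    | true, true => chkS7_25
  g1 := fun p l => match p, l with
    | false, false => chkS7_26
    | false, true => chkS7_27
    | true, false => chkS7_28
    | true, true => chkS7_29
  g2 := fun s p t => match s, p, t with
    | false, false, false => chkS7_30
    | false, false, true => chkS7_31
    | false, true, false => chkS7_32
    | false, true, true => chkS7_33
    | true, false, false => chkS7_34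
    | true, false, true => chkS7_35
    | true, true, false => chkS7_36
    | true, true, true => chkS7_37
  g3 := fun s p l t => match s, p, l, t with
    | false, false, false, false => chkS7_38
    | false, false, false, true => chkS7_39
    | false, false, true, false => chkS7_40
    | false, false, true, true => chkS7_41
    | false, true, false, false => chkS7_42
    | false, true, false, true => chkS7_43
    | false, true, true, false => chkS7_44
    | false, true, true, true => chkS7_45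
    | true, false, false, false => chkS7_46
    | true, false, false, true => chkS7_47
    | true, false, true, false => chkS7_48
    | true, false, true, true => chkS7_49
    | true, true, false, false => chkS7_50
    | true, true, false, true => chkS7_51
    | true, true, true, false => chkS7_52
    | true, true, true, true => chkS7_53
  cMG := chkS7_54
  c2 := fun s => match s with
    | false => chkS7_55
    | true => chkS7_56
  c3 := fun s => match s with
    | false => chkS7_57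
    | true => chkS7_58
  sT := fun p => match p with
    | false => chkS7_59
    | true => chkS7_60
  bnd := fun ze b => match ze, b with
    | false, .l0 => chkS7_0
    | false, .l1 => chkS7_1
    | false, .r => chkS7_2
    | false, .g0 => chkS7_3
    | false, .g1 => chkS7_4
    | false, .t0 => chkS7_5
    | false, .t1 => chkS7_6
    | false, .w0 => chkS7_7
    | false, .w1 => chkS7_8
    | true, .l0 => chkS7_9
    | true, .l1 => chkS7_10
    | true, .r => chkS7_11
    | true, .g0 => chkS7_12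
    | true, .g1 => chkS7_13
    | true, .t0 => chkS7_14
    | true, .t1 => chkS7_15
    | true, .w0 => chkS7_16
    | true, .w1 => chkS7_17
  gap := fun ze t => match ze, t with
    | false, false => chkS7_61
    | false, true => chkS7_62
    | true, false => chkS7_63
    | true, true => chkS7_64

/-- A window of piece 7. -/
def winS7T : Win := ⟨.A, (122, 143, 1000), (0, 3, 10), (-22, 117, 100), (117, 260, 100), (13, 215, 5), (136, 153, 200), true, true, (83, -59), (626, 1000)⟩

/-- The window passes. -/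
theorem winS7T_ok : winS7T.Cert where
  fits := ⟨by norm_num [winS7T], by norm_num [winS7T, qLo], by norm_num [winS7T, qLo, qHi],
    by norm_num [winS7T, qLo, qHi], by norm_num [winS7T, qLo], by norm_num [winS7T, qHi]⟩
  cross := ⟨263, 9, 6, 2, 7, by decide +kernel⟩
  exit := ⟨240, 12, 7, 3, 6, by decide +kernel⟩
  mix := ⟨345, 14, 9, 3, 10, by decide +kernel⟩

/-- The tight band is crossed one way on piece 7. -/
theorem bandS7 : Chk (winS7T.chart (136, 153, 200) winS7T.qc) (sBand winS7T.kind) :=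
  ⟨456, 17, 11, 3, 14, by decide +kernel⟩

end Vale.Agent.P100.Calib.StripMid
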