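import Vale.Agent.P100.Calib.SlabStripMidSevWindow

/-!
# The checks of piece 9 below 153/200 for `N` between seven and twenty
-/

set_option linter.defProp false

namespace Vale.Agent.P100.Calib.StripMid

open Pack

/-- The numbers of piece 9. -/
def pcS9 : Piece := ⟨.B, (1, 10), (1, 4), (14, 25), (-23, 25), (109, 25), (299, 200), (1831, 1000), (977, 1000), (20, -21, 20), (101, -30, 100), 176, (50,157,180,1), (307, 200), (371, 200), (2, 5), (2, 5), (7, 5)⟩

/-- The ranges of piece 9. -/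
def boxS9 : Box := ⟨(93, 240, 2000), (41, 120, 100), (-27, 127, 100), (-23, 109, 25), (2, 5, 20)⟩

def grpS9_0 : ([bound pcS9 false .l0,
    bound pcS9 false .l1,
    bound pcS9 false .r,
    bound pcS9 true .l0,
    bound pcS9 true .l1,
    bound pcS9 true .r].all
    (checkFour (boxS9.cC) 321 14 13 2 3)) = true := by decide +kernel
def chkS9_0 : Chk (boxS9.cC) (bound pcS9 false .l0) :=
  ⟨321, 14, 13, 2, 3, List.all_eq_true.1 grpS9_0 _ (.head _)⟩
def chkS9_1 : Chk (boxS9.cC) (bound pcS9 false .l1) :=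
  ⟨321, 14, 13, 2, 3, List.all_eq_true.1 grpS9_0 _ (.tail _ (.head _))⟩
def chkS9_2 : Chk (boxS9.cC) (bound pcS9 false .r) :=
  ⟨321, 14, 13, 2, 3, List.all_eq_true.1 grpS9_0 _ (.tail _ (.tail _ (.head _)))⟩
def chkS9_9 : Chk (boxS9.cC) (bound pcS9 true .l0) :=
  ⟨321, 14, 13, 2, 3, List.all_eq_true.1 grpS9_0 _ (.tail _ (.tail _ (.tail _ (.head _))))⟩
def chkS9_10 : Chk (boxS9.cC) (bound pcS9 true .l1) :=
  ⟨321, 14, 13, 2, 3, List.all_eq_true.1 grpS9_0 _ (.tail _ (.tail _ (.tail _ (.tail _ (.head _)))))⟩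
def chkS9_11 : Chk (boxS9.cC) (bound pcS9 true .r) :=
  ⟨321, 14, 13, 2, 3, List.all_eq_true.1 grpS9_0 _ (.tail _ (.tail _ (.tail _ (.tail _ (.tail _ (.head _))))))⟩
def grpS9_1 : ([bound pcS9 false .g0,
    bound pcS9 false .g1,
    bound pcS9 true .g0,
    bound pcS9 true .g1].all
    (checkFour (boxS9.cC) 124 5 4 1 2)) = true := by decide +kernel
def chkS9_3 : Chk (boxS9.cC) (bound pcS9 false .g0) :=
  ⟨124, 5, 4, 1, 2, List.all_eq_true.1 grpS9_1 _ (.head _)⟩
def chkS9_4 : Chk (boxS9.cC) (bound pcS9 false .g1) :=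
  ⟨124, 5, 4, 1, 2, List.all_eq_true.1 grpS9_1 _ (.tail _ (.head _))⟩
def chkS9_12 : Chk (boxS9.cC) (bound pcS9 true .g0) :=
  ⟨124, 5, 4, 1, 2, List.all_eq_true.1 grpS9_1 _ (.tail _ (.tail _ (.head _)))⟩
def chkS9_13 : Chk (boxS9.cC) (bound pcS9 true .g1) :=
  ⟨124, 5, 4, 1, 2, List.all_eq_true.1 grpS9_1 _ (.tail _ (.tail _ (.tail _ (.head _))))⟩
def grpS9_2 : ([bound pcS9 false .t0,
    bound pcS9 false .t1,
    bound pcS9 true .t0,
    bound pcS9 true .t1].all
    (checkFour (boxS9.cC) 197 9 6 2 3)) = true := by decide +kernel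
def chkS9_5 : Chk (boxS9.cC) (bound pcS9 false .t0) :=
  ⟨197, 9, 6, 2, 3, List.all_eq_true.1 grpS9_2 _ (.head _)⟩
def chkS9_6 : Chk (boxS9.cC) (bound pcS9 false .t1) :=
  ⟨197, 9, 6, 2, 3, List.all_eq_true.1 grpS9_2 _ (.tail _ (.head _))⟩
def chkS9_14 : Chk (boxS9.cC) (bound pcS9 true .t0) :=
  ⟨197, 9, 6, 2, 3, List.all_eq_true.1 grpS9_2 _ (.tail _ (.tail _ (.head _)))⟩
def chkS9_15 : Chk (boxS9.cC) (bound pcS9 true .t1) :=
  ⟨197, 9, 6, 2, 3, List.all_eq_true.1 grpS9_2 _ (.tail _ (.tail _ (.tail _ (.head _))))⟩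
def grpS9_3 : ([bound pcS9 false .w0,
    bound pcS9 false .w1,
    bound pcS9 true .w0,
    bound pcS9 true .w1].all
    (checkFour (boxS9.cC) 272 12 10 3 4)) = true := by decide +kernel
def chkS9_7 : Chk (boxS9.cC) (bound pcS9 false .w0) :=
  ⟨272, 12, 10, 3, 4, List.all_eq_true.1 grpS9_3 _ (.head _)⟩
def chkS9_8 : Chk (boxS9.cC) (bound pcS9 false .w1) :=
  ⟨272, 12, 10, 3, 4, List.all_eq_true.1 grpS9_3 _ (.tail _ (.head _))⟩
def chkS9_16 : Chk (boxS9.cC) (bound pcS9 true .w0) :=
  ⟨272, 12, 10, 3, 4, List.all_eq_true.1 grpS9_3 _ (.tail _ (.tail _ (.head _)))⟩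
def chkS9_17 : Chk (boxS9.cC) (bound pcS9 true .w1) :=
  ⟨272, 12, 10, 3, 4, List.all_eq_true.1 grpS9_3 _ (.tail _ (.tail _ (.tail _ (.head _))))⟩
def grpS9_4 : ([subst (sub pcS9 ⟨false, false, true, true, false⟩) (condX),
    subst (sub pcS9 ⟨false, true, true, true, false⟩) (condX),
    subst (sub pcS9 ⟨true, false, true, true, false⟩) (condX),
    subst (sub pcS9 ⟨true, true, true, true, false⟩) (condX)].all
    (checkFour (boxS9.vC) 355 15 13 4 0)) = true := by decide +kernel
def chkS9_18 : Chk (boxS9.vC) (subst (sub pcS9 ⟨false, false, true, true, false⟩) (condX)) :=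
  ⟨355, 15, 13, 4, 0, List.all_eq_true.1 grpS9_4 _ (.head _)⟩
def chkS9_19 : Chk (boxS9.vC) (subst (sub pcS9 ⟨false, true, true, true, false⟩) (condX)) :=
  ⟨355, 15, 13, 4, 0, List.all_eq_true.1 grpS9_4 _ (.tail _ (.head _))⟩
def chkS9_20 : Chk (boxS9.vC) (subst (sub pcS9 ⟨true, false, true, true, false⟩) (condX)) :=
  ⟨355, 15, 13, 4, 0, List.all_eq_true.1 grpS9_4 _ (.tail _ (.tail _ (.head _)))⟩
def chkS9_21 : Chk (boxS9.vC) (subst (sub pcS9 ⟨true, true, true, true, false⟩) (condX)) :=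
  ⟨355, 15, 13, 4, 0, List.all_eq_true.1 grpS9_4 _ (.tail _ (.tail _ (.tail _ (.head _))))⟩
def grpS9_5 : ([subst (sub pcS9 ⟨false, false, true, false, false⟩) (tplMG),
    subst (sub pcS9 ⟨false, true, true, false, false⟩) (tplMG),
    subst (sub pcS9 ⟨true, false, true, false, false⟩) (tplMG),
    subst (sub pcS9 ⟨true, true, true, false, false⟩) (tplMG)].all
    (checkFour (boxS9.vC) 686 30 26 6 0)) = true := by decide +kernel
def chkS9_22 : Chk (boxS9.vC) (subst (sub pcS9 ⟨false, false, true, false, false⟩) (tplMG)) :=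
  ⟨686, 30, 26, 6, 0, List.all_eq_true.1 grpS9_5 _ (.head _)⟩
def chkS9_23 : Chk (boxS9.vC) (subst (sub pcS9 ⟨false, true, true, false, false⟩) (tplMG)) :=
  ⟨686, 30, 26, 6, 0, List.all_eq_true.1 grpS9_5 _ (.tail _ (.head _))⟩
def chkS9_24 : Chk (boxS9.vC) (subst (sub pcS9 ⟨true, false, true, false, false⟩) (tplMG)) :=
  ⟨686, 30, 26, 6, 0, List.all_eq_true.1 grpS9_5 _ (.tail _ (.tail _ (.head _)))⟩
def chkS9_25 : Chk (boxS9.vC) (subst (sub pcS9 ⟨true, true, true, false, false⟩) (tplMG)) :=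
  ⟨686, 30, 26, 6, 0, List.all_eq_true.1 grpS9_5 _ (.tail _ (.tail _ (.tail _ (.head _))))⟩
def grpS9_6 : ([subst (sub pcS9 ⟨false, false, false, false, false⟩) (pcS9.m1),
    subst (sub pcS9 ⟨false, true, false, false, false⟩) (pcS9.m1),
    subst (sub pcS9 ⟨true, false, false, false, false⟩) (pcS9.m1),
    subst (sub pcS9 ⟨true, true, false, false, false⟩) (pcS9.m1)].all
    (checkFour (boxS9.vC) 446 19 17 4 0)) = true := by decide +kernel
def chkS9_26 : Chk (boxS9.vC) (subst (sub pcS9 ⟨false, false, false, false, false⟩) (pcS9.m1)) :=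
  ⟨446, 19, 17, 4, 0, List.all_eq_true.1 grpS9_6 _ (.head _)⟩
def chkS9_27 : Chk (boxS9.vC) (subst (sub pcS9 ⟨false, true, false, false, false⟩) (pcS9.m1)) :=
  ⟨446, 19, 17, 4, 0, List.all_eq_true.1 grpS9_6 _ (.tail _ (.head _))⟩
def chkS9_28 : Chk (boxS9.vC) (subst (sub pcS9 ⟨true, false, false, false, false⟩) (pcS9.m1)) :=
  ⟨446, 19, 17, 4, 0, List.all_eq_true.1 grpS9_6 _ (.tail _ (.tail _ (.head _)))⟩
def chkS9_29 : Chk (boxS9.vC) (subst (sub pcS9 ⟨true, true, false, false, false⟩) (pcS9.m1)) :=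
  ⟨446, 19, 17, 4, 0, List.all_eq_true.1 grpS9_6 _ (.tail _ (.tail _ (.tail _ (.head _))))⟩
def chkS9_30 : Chk (boxS9.vC) (subst (sub pcS9 ⟨false, false, true, false, false⟩) (strict (pcS9.m2 false))) :=
  ⟨697, 28, 24, 6, 0, by decide +kernel⟩
def chkS9_31 : Chk (boxS9.vC) (subst (sub pcS9 ⟨false, false, true, false, true⟩) (strict (pcS9.m2 false))) :=
  ⟨702, 28, 24, 6, 0, by decide +kernel⟩
def chkS9_32 : Chk (boxS9.vC) (subst (sub pcS9 ⟨true, false, true, false, false⟩) (strict (pcS9.m2 false))) :=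
  ⟨697, 28, 24, 6, 0, by decide +kernel⟩
def chkS9_33 : Chk (boxS9.vC) (subst (sub pcS9 ⟨true, false, true, false, true⟩) (strict (pcS9.m2 false))) :=
  ⟨702, 28, 24, 6, 0, by decide +kernel⟩
def chkS9_34 : Chk (boxS9.vC) (subst (sub pcS9 ⟨false, true, true, false, false⟩) (strict (pcS9.m2 true))) :=
  ⟨699, 28, 24, 6, 0, by decide +kernel⟩
def chkS9_35 : Chk (boxS9.vC) (subst (sub pcS9 ⟨false, true, true, false, true⟩) (strict (pcS9.m2 true))) :=
  ⟨703, 28, 24, 6, 0, by decide +kernel⟩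
def chkS9_36 : Chk (boxS9.vC) (subst (sub pcS9 ⟨true, true, true, false, false⟩) (strict (pcS9.m2 true))) :=
  ⟨699, 28, 24, 6, 0, by decide +kernel⟩
def chkS9_37 : Chk (boxS9.vC) (subst (sub pcS9 ⟨true, true, true, false, true⟩) (strict (pcS9.m2 true))) :=
  ⟨703, 28, 24, 6, 0, by decide +kernel⟩
def grpS9_15 : ([subst (sub pcS9 ⟨false, false, true, true, false⟩) (strict (pcS9.m3 false)),
    subst (sub pcS9 ⟨false, false, true, true, true⟩) (strict (pcS9.m3 false)),
    subst (sub pcS9 ⟨false, false, true, true, false⟩) (strict (pcS9.m3 true)),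
    subst (sub pcS9 ⟨false, false, true, true, true⟩) (strict (pcS9.m3 true))].all
    (checkFour (boxS9.vC) 861 35 31 6 0)) = true := by decide +kernel
def chkS9_38 : Chk (boxS9.vC) (subst (sub pcS9 ⟨false, false, true, true, false⟩) (strict (pcS9.m3 false))) :=
  ⟨861, 35, 31, 6, 0, List.all_eq_true.1 grpS9_15 _ (.head _)⟩
def chkS9_39 : Chk (boxS9.vC) (subst (sub pcS9 ⟨false, false, true, true, true⟩) (strict (pcS9.m3 false))) :=
  ⟨861, 35, 31, 6, 0, List.all_eq_true.1 grpS9_15 _ (.tail _ (.head _))⟩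
def chkS9_46 : Chk (boxS9.vC) (subst (sub pcS9 ⟨false, false, true, true, false⟩) (strict (pcS9.m3 true))) :=
  ⟨861, 35, 31, 6, 0, List.all_eq_true.1 grpS9_15 _ (.tail _ (.tail _ (.head _)))⟩
def chkS9_47 : Chk (boxS9.vC) (subst (sub pcS9 ⟨false, false, true, true, true⟩) (strict (pcS9.m3 true))) :=
  ⟨861, 35, 31, 6, 0, List.all_eq_true.1 grpS9_15 _ (.tail _ (.tail _ (.tail _ (.head _))))⟩
def grpS9_16 : ([subst (sub pcS9 ⟨false, true, true, true, false⟩) (strict (pcS9.m3 false)),
    subst (sub pcS9 ⟨false, true, true, true, true⟩) (strict (pcS9.m3 false)),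
    subst (sub pcS9 ⟨false, true, true, true, false⟩) (strict (pcS9.m3 true)),
    subst (sub pcS9 ⟨false, true, true, true, true⟩) (strict (pcS9.m3 true))].all
    (checkFour (boxS9.vC) 866 35 31 6 0)) = true := by decide +kernel
def chkS9_40 : Chk (boxS9.vC) (subst (sub pcS9 ⟨false, true, true, true, false⟩) (strict (pcS9.m3 false))) :=
  ⟨866, 35, 31, 6, 0, List.all_eq_true.1 grpS9_16 _ (.head _)⟩
def chkS9_41 : Chk (boxS9.vC) (subst (sub pcS9 ⟨false, true, true, true, true⟩) (strict (pcS9.m3 false))) :=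
  ⟨866, 35, 31, 6, 0, List.all_eq_true.1 grpS9_16 _ (.tail _ (.head _))⟩
def chkS9_48 : Chk (boxS9.vC) (subst (sub pcS9 ⟨false, true, true, true, false⟩) (strict (pcS9.m3 true))) :=
  ⟨866, 35, 31, 6, 0, List.all_eq_true.1 grpS9_16 _ (.tail _ (.tail _ (.head _)))⟩
def chkS9_49 : Chk (boxS9.vC) (subst (sub pcS9 ⟨false, true, true, true, true⟩) (strict (pcS9.m3 true))) :=
  ⟨866, 35, 31, 6, 0, List.all_eq_true.1 grpS9_16 _ (.tail _ (.tail _ (.tail _ (.head _))))⟩
def grpS9_17 : ([subst (sub pcS9 ⟨true, false, true, true, false⟩) (strict (pcS9.m3 false)),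
    subst (sub pcS9 ⟨true, false, true, true, true⟩) (strict (pcS9.m3 false)),
    subst (sub pcS9 ⟨true, false, true, true, false⟩) (strict (pcS9.m3 true)),
    subst (sub pcS9 ⟨true, false, true, true, true⟩) (strict (pcS9.m3 true))].all
    (checkFour (boxS9.vC) 861 35 31 6 0)) = true := by decide +kernel
def chkS9_42 : Chk (boxS9.vC) (subst (sub pcS9 ⟨true, false, true, true, false⟩) (strict (pcS9.m3 false))) :=
  ⟨861, 35, 31, 6, 0, List.all_eq_true.1 grpS9_17 _ (.head _)⟩
def chkS9_43 : Chk (boxS9.vC) (subst (sub pcS9 ⟨true, false, true, true, true⟩) (strict (pcS9.m3 false))) :=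
  ⟨861, 35, 31, 6, 0, List.all_eq_true.1 grpS9_17 _ (.tail _ (.head _))⟩
def chkS9_50 : Chk (boxS9.vC) (subst (sub pcS9 ⟨true, false, true, true, false⟩) (strict (pcS9.m3 true))) :=
  ⟨861, 35, 31, 6, 0, List.all_eq_true.1 grpS9_17 _ (.tail _ (.tail _ (.head _)))⟩
def chkS9_51 : Chk (boxS9.vC) (subst (sub pcS9 ⟨true, false, true, true, true⟩) (strict (pcS9.m3 true))) :=
  ⟨861, 35, 31, 6, 0, List.all_eq_true.1 grpS9_17 _ (.tail _ (.tail _ (.tail _ (.head _))))⟩
def grpS9_18 : ([subst (sub pcS9 ⟨true, true, true, true, false⟩) (strict (pcS9.m3 false)),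
    subst (sub pcS9 ⟨true, true, true, true, true⟩) (strict (pcS9.m3 false)),
    subst (sub pcS9 ⟨true, true, true, true, false⟩) (strict (pcS9.m3 true)),
    subst (sub pcS9 ⟨true, true, true, true, true⟩) (strict (pcS9.m3 true))].all
    (checkFour (boxS9.vC) 866 35 31 6 0)) = true := by decide +kernel
def chkS9_44 : Chk (boxS9.vC) (subst (sub pcS9 ⟨true, true, true, true, false⟩) (strict (pcS9.m3 false))) :=
  ⟨866, 35, 31, 6, 0, List.all_eq_true.1 grpS9_18 _ (.head _)⟩
def chkS9_45 : Chk (boxS9.vC) (subst (sub pcS9 ⟨true, true, true, true, true⟩) (strict (pcS9.m3 false))) :=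
  ⟨866, 35, 31, 6, 0, List.all_eq_true.1 grpS9_18 _ (.tail _ (.head _))⟩
def chkS9_52 : Chk (boxS9.vC) (subst (sub pcS9 ⟨true, true, true, true, false⟩) (strict (pcS9.m3 true))) :=
  ⟨866, 35, 31, 6, 0, List.all_eq_true.1 grpS9_18 _ (.tail _ (.tail _ (.head _)))⟩
def chkS9_53 : Chk (boxS9.vC) (subst (sub pcS9 ⟨true, true, true, true, true⟩) (strict (pcS9.m3 true))) :=
  ⟨866, 35, 31, 6, 0, List.all_eq_true.1 grpS9_18 _ (.tail _ (.tail _ (.tail _ (.head _))))⟩
def chkS9_54 : Chk (boxS9.vC) (subst (sub pcS9 ⟨false, false, true, true, false⟩) (negEx coMG12)) :=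
  ⟨170, 8, 5, 4, 0, by decide +kernel⟩
def grpS9_20 : ([subst (sub pcS9 ⟨false, false, true, true, false⟩) (negEx (pcS9.curve2 false)),
    subst (sub pcS9 ⟨false, false, true, true, false⟩) (negEx (pcS9.curve2 true))].all
    (checkFour (boxS9.vC) 188 9 5 4 0)) = true := by decide +kernel
def chkS9_55 : Chk (boxS9.vC) (subst (sub pcS9 ⟨false, false, true, true, false⟩) (negEx (pcS9.curve2 false))) :=
  ⟨188, 9, 5, 4, 0, List.all_eq_true.1 grpS9_20 _ (.head _)⟩
def chkS9_56 : Chk (boxS9.vC) (subst (sub pcS9 ⟨false, false, true, true, false⟩) (negEx (pcS9.curve2 true))) :=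
  ⟨188, 9, 5, 4, 0, List.all_eq_true.1 grpS9_20 _ (.tail _ (.head _))⟩
def grpS9_21 : ([subst (sub pcS9 ⟨false, false, true, true, false⟩) (negEx (pcS9.curve3 false)),
    subst (sub pcS9 ⟨false, false, true, true, false⟩) (negEx (pcS9.curve3 true))].all
    (checkFour (boxS9.vC) 193 9 6 4 0)) = true := by decide +kernel
def chkS9_57 : Chk (boxS9.vC) (subst (sub pcS9 ⟨false, false, true, true, false⟩) (negEx (pcS9.curve3 false))) :=
  ⟨193, 9, 6, 4, 0, List.all_eq_true.1 grpS9_21 _ (.head _)⟩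
def chkS9_58 : Chk (boxS9.vC) (subst (sub pcS9 ⟨false, false, true, true, false⟩) (negEx (pcS9.curve3 true))) :=
  ⟨193, 9, 6, 4, 0, List.all_eq_true.1 grpS9_21 _ (.tail _ (.head _))⟩
def grpS9_22 : ([subst (sub pcS9 ⟨false, false, true, true, false⟩) (slopeT),
    subst (sub pcS9 ⟨true, false, true, true, false⟩) (slopeT)].all
    (checkFour (boxS9.vC) 215 10 7 4 0)) = true := by decide +kernel
def chkS9_59 : Chk (boxS9.vC) (subst (sub pcS9 ⟨false, false, true, true, false⟩) (slopeT)) :=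
  ⟨215, 10, 7, 4, 0, List.all_eq_true.1 grpS9_22 _ (.head _)⟩
def chkS9_60 : Chk (boxS9.vC) (subst (sub pcS9 ⟨true, false, true, true, false⟩) (slopeT)) :=
  ⟨215, 10, 7, 4, 0, List.all_eq_true.1 grpS9_22 _ (.tail _ (.head _))⟩
def grpS9_23 : ([subst (gapSub pcS9 true false false) tplL,
    subst (gapSub pcS9 true false true) tplL,
    subst (gapSub pcS9 true true false) tplL,
    subst (gapSub pcS9 true true true) tplL].all
    (checkFour (boxS9.gC true) 561 26 22 5 2)) = true := by decide +kernel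
def chkS9_61 : Chk (boxS9.gC true) (subst (gapSub pcS9 true false false) tplL) :=
  ⟨561, 26, 22, 5, 2, List.all_eq_true.1 grpS9_23 _ (.head _)⟩
def chkS9_62 : Chk (boxS9.gC true) (subst (gapSub pcS9 true false true) tplL) :=
  ⟨561, 26, 22, 5, 2, List.all_eq_true.1 grpS9_23 _ (.tail _ (.head _))⟩
def chkS9_63 : Chk (boxS9.gC true) (subst (gapSub pcS9 true true false) tplL) :=
  ⟨561, 26, 22, 5, 2, List.all_eq_true.1 grpS9_23 _ (.tail _ (.tail _ (.head _)))⟩
def chkS9_64 : Chk (boxS9.gC true) (subst (gapSub pcS9 true true true) tplL) :=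
  ⟨561, 26, 22, 5, 2, List.all_eq_true.1 grpS9_23 _ (.tail _ (.tail _ (.tail _ (.head _))))⟩

/-- Piece 9 passes. -/
theorem certS9 : Cert pcS9 boxS9 true where
  pos := by
    refine ⟨⟨⟨?_, ?_, ?_, ?_, ?_, ?_, ?_⟩, ?_, ?_, ?_, ?_, ?_, ?_, ?_, ?_, ?_, ?_, ?_⟩, ?_, ?_⟩ <;>
      norm_num [fr, pcS9]
  gX := fun p l => match p, l with
    | false, false => chkS9_18
    | false, true => chkS9_19
    | true, false => chkS9_20
    | true, true => chkS9_21
  gMG := fun p l => match p, l with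
    | false, false => chkS9_22
    | false, true => chkS9_23
    | true, false => chkS9_24
    | true, true => chkS9_25
  g1 := fun p l => match p, l with
    | false, false => chkS9_26
    | false, true => chkS9_27
    | true, false => chkS9_28
    | true, true => chkS9_29
  g2 := fun s p t => match s, p, t with
    | false, false, false => chkS9_30
    | false, false, true => chkS9_31
    | false, true, false => chkS9_32
    | false, true, true => chkS9_33
    | true, false, false => chkS9_34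
    | true, false, true => chkS9_35
    | true, true, false => chkS9_36
    | true, true, true => chkS9_37
  g3 := fun s p l t => match s, p, l, t with
    | false, false, false, false => chkS9_38
    | false, false, false, true => chkS9_39
    | false, false, true, false => chkS9_40
    | false, false, true, true => chkS9_41
    | false, true, false, false => chkS9_42
    | false, true, false, true => chkS9_43
    | false, true, true, false => chkS9_44
    | false, true, true, true => chkS9_45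
    | true, false, false, false => chkS9_46
    | true, false, false, true => chkS9_47
    | true, false, true, false => chkS9_48
    | true, false, true, true => chkS9_49
    | true, true, false, false => chkS9_50
    | true, true, false, true => chkS9_51
    | true, true, true, false => chkS9_52
    | true, true, true, true => chkS9_53
  cMG := chkS9_54
  c2 := fun s => match s with
    | false => chkS9_55
    | true => chkS9_56
  c3 := fun s => match s with
    | false => chkS9_57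
    | true => chkS9_58
  sT := fun p => match p with
    | false => chkS9_59
    | true => chkS9_60
  bnd := fun ze b => match ze, b with
    | false, .l0 => chkS9_0
    | false, .l1 => chkS9_1
    | false, .r => chkS9_2
    | false, .g0 => chkS9_3
    | false, .g1 => chkS9_4
    | false, .t0 => chkS9_5
    | false, .t1 => chkS9_6
    | false, .w0 => chkS9_7
    | false, .w1 => chkS9_8
    | true, .l0 => chkS9_9
    | true, .l1 => chkS9_10
    | true, .r => chkS9_11
    | true, .g0 => chkS9_12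
    | true, .g1 => chkS9_13
    | true, .t0 => chkS9_14
    | true, .t1 => chkS9_15
    | true, .w0 => chkS9_16
    | true, .w1 => chkS9_17
  gap := fun ze t => match ze, t with
    | false, false => chkS9_61
    | false, true => chkS9_62
    | true, false => chkS9_63
    | true, true => chkS9_64

/-- A window of piece 9. -/
def winS9L : Win := ⟨.B, (93, 240, 2000), (41, 120, 100), (-143, -92, 100), (-23, 109, 25), (109, 11825, 25), (2, 5, 20), false, false, (98, -100), (523, 1000)⟩

/-- The window passes. -/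
theorem winS9L_ok : winS9L.Cert where
  fits := ⟨by norm_num [winS9L], by norm_num [winS9L, qLo], by norm_num [winS9L, qLo, qHi],
    by norm_num [winS9L, qLo, qHi], by norm_num [winS9L, qLo], by norm_num [winS9L, qHi]⟩
  cross := ⟨280, 9, 8, 2, 7, by decide +kernel⟩
  exit := ⟨304, 12, 10, 3, 8, by decide +kernel⟩
  mix := ⟨381, 14, 12, 3, 11, by decide +kernel⟩

end Vale.Agent.P100.Calib.StripMid
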