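import Vale.Agent.P100.Calib.SlabStripMidSevPoint
import Vale.Agent.P100.Calib.SlabStripMidSevCheck0
import Vale.Agent.P100.Calib.SlabStripMidSevCheck1
import Vale.Agent.P100.Calib.SlabStripMidSevCheck2
import Vale.Agent.P100.Calib.SlabStripMidSevCheck3
import Vale.Agent.P100.Calib.SlabStripMidSevCheck4
import Vale.Agent.P100.Calib.SlabStripMidSevCheck5
import Vale.Agent.P100.Calib.SlabStripMidSevCheck6
import Vale.Agent.P100.Calib.SlabStripMidSevCheck7
import Vale.Agent.P100.Calib.SlabStripMidSevCheck8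
import Vale.Agent.P100.Calib.SlabStripMidSevCheck9
import Vale.Agent.P100.Calib.SlabStripMidSevCheck10
import Vale.Agent.P100.Calib.SlabStripMidSevCheck11
import Vale.Agent.P100.Calib.SlabStripMidSevCheck12
import Vale.Agent.P100.Calib.SlabStripMidSevCheck13
import Vale.Agent.P100.Calib.SlabStripMidSevCheck14
import Vale.Agent.P100.Calib.SlabStripMidSevCheck15
import Vale.Agent.P100.Calib.SlabStripMidSevCheck16
import Vale.Agent.P100.Calib.SlabStripMidSevCheck17
import Vale.Agent.P100.Calib.SlabStripMidSevCheck18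
import Vale.Agent.P100.Calib.SlabStripMidSevCheck19
import Vale.Agent.P100.Calib.SlabStripMidSevCheck20
import Vale.Agent.P100.Calib.SlabStripMidSevCheck21
import Vale.Agent.P100.Calib.SlabStripMidSevCheck22

/-!
# Every point of the band for `N` between seven and twenty has a cell
-/

set_option linter.unusedVariables false

namespace Vale.Agent.P100.Calib.StripMid

open Pack Band Bubble Chart

theorem ratio_A {d I c l : ℝ} (hk : d * (1 - I) ≤ (1 - 2 * I) * I) (hl : l ≤ I) (hI0 : 0 < I)
    (hI1 : I < 1) (hc2 : c ≤ 2) (hc : 1 - 2 * l < c * (1 - l)) : d / I < c := by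
  rw [div_lt_iff₀ hI0]
  refine lt_of_mul_lt_mul_right (a := 1 - I) ?_ (by linarith)
  have h1 := mul_le_mul_of_nonneg_left hl (show 0 ≤ 2 - c by linarith)
  have h2 := mul_lt_mul_of_pos_right (show 1 - 2 * I < c * (1 - I) by linarith) hI0
  linarith

theorem ratio_B {d I : ℝ} (hk : (1 - 2 * I) * I < d * (1 - I)) (hI0 : 0 < I) (hI7 : I ≤ 1 / 7)
    (hd : 0 < d) : I / d < 6 / 5 := by
  rw [div_lt_iff₀ hd]
  have h1 := mul_le_mul_of_nonneg_left (show 5 / 6 * (1 - I) ≤ 1 - 2 * I by linarith) hI0.le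
  refine lt_of_mul_lt_mul_right (a := 5 / 6 * (1 - I)) ?_ (by linarith)
  linarith

theorem d_low {d I : ℝ} (hk : (1 - 2 * I) * I < d * (1 - I)) (hI : 1 / 20 < I) (hI7 : I ≤ 1 / 7) :
    93 / 2000 ≤ d := by
  refine le_of_mul_le_mul_right (a := 1 - I) ?_ (by linarith)
  linarith [mul_nonneg (sub_nonneg.2 hI.le) (sub_nonneg.2 hI7)]

theorem cellS0L {a b u : ℝ} (ha : 31 / 100 < a) (hd : 0 < b - a) (hI : 1 / 20 < allStabI a b)
    (hI7 : allStabI a b ≤ 1 / 7) (hu0 : (1 / 10 : ℝ) < u) (hu1 : u ≤ (1 / 4 : ℝ))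
    (h00 : (1 / 20 : ℝ) ≤ allStabI a b) (h01 : allStabI a b < (143 / 1000 : ℝ))
    (h10 : (0 : ℝ) ≤ (b - a) / (allStabI a b)) (h11 : (b - a) / (allStabI a b) < (237 / 250 : ℝ))
    (hk : (b - a) * (1 - allStabI a b) ≤ (a + b) * allStabI a b) : Cell a b u := by
  have hI0 : 0 < allStabI a b := by linarith
  have e : a + b = 1 - 2 * allStabI a b := by simp only [allStabI]; ring
  have hxl := (le_div_iff₀ hI0).1 h10
  have hxh := (div_lt_iff₀ hI0).1 h11
  exact ⟨pcS0, boxS0, winS0L, (31 / 50 : ℝ), (9 / 10 : ℝ), certS0, winS0L_ok,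
    ⟨rfl, rfl, rfl, rfl, by norm_num [fr, winS0L, pcS0], by norm_num [fr, pcS0], by norm_num [boxS0],
      by norm_num [fr, pcS0]⟩,
    { r₀ := ⟨by norm_num [boxS0], by norm_num [mkPt, pcS0, boxS0] <;> linarith, by norm_num [mkPt, pcS0, boxS0] <;> linarith⟩
      r₁ := ⟨by norm_num [boxS0], by norm_num [mkPt, pcS0, boxS0] <;> linarith, by norm_num [mkPt, pcS0, boxS0] <;> linarith⟩
      ru := ⟨by norm_num [boxS0], by norm_num [boxS0] <;> linarith, by norm_num [boxS0] <;> linarith⟩
      rw' := ⟨by norm_num [winS0L], by norm_num [winS0L] <;> linarith, by norm_num [winS0L] <;> linarith⟩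
      kap := hk
      low := ⟨by norm_num, by linarith⟩
      high := by linarith
      y₀ := by norm_num [qLo, qHi, boxS0]
      y₁ := by norm_num [qLo, qHi, boxS0]
      tight := fun h => absurd h (by simp [winS0L])
      exit := by show u ≤ 67 / 100; linarith
      band := fun h => absurd h (by linarith) }⟩

theorem cellS1L {a b u : ℝ} (ha : 31 / 100 < a) (hd : 0 < b - a) (hI : 1 / 20 < allStabI a b)
    (hI7 : allStabI a b ≤ 1 / 7) (hu0 : (1 / 4 : ℝ) < u) (hu1 : u ≤ (9 / 20 : ℝ))
    (h00 : (1 / 20 : ℝ) ≤ allStabI a b) (h01 : allStabI a b < (143 / 1000 : ℝ))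
    (h10 : (0 : ℝ) ≤ (b - a) / (allStabI a b)) (h11 : (b - a) / (allStabI a b) < (237 / 250 : ℝ))
    (hk : (b - a) * (1 - allStabI a b) ≤ (a + b) * allStabI a b) : Cell a b u := by
  have hI0 : 0 < allStabI a b := by linarith
  have e : a + b = 1 - 2 * allStabI a b := by simp only [allStabI]; ring
  have hxl := (le_div_iff₀ hI0).1 h10
  have hxh := (div_lt_iff₀ hI0).1 h11
  exact ⟨pcS1, boxS1, winS1L, (31 / 50 : ℝ), (9 / 10 : ℝ), certS1, winS1L_ok,
    ⟨rfl, rfl, rfl, rfl, by norm_num [fr, winS1L, pcS1], by norm_num [fr, pcS1], by norm_num [boxS1],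
      by norm_num [fr, pcS1]⟩,
    { r₀ := ⟨by norm_num [boxS1], by norm_num [mkPt, pcS1, boxS1] <;> linarith, by norm_num [mkPt, pcS1, boxS1] <;> linarith⟩
      r₁ := ⟨by norm_num [boxS1], by norm_num [mkPt, pcS1, boxS1] <;> linarith, by norm_num [mkPt, pcS1, boxS1] <;> linarith⟩
      ru := ⟨by norm_num [boxS1], by norm_num [boxS1] <;> linarith, by norm_num [boxS1] <;> linarith⟩
      rw' := ⟨by norm_num [winS1L], by norm_num [winS1L] <;> linarith, by norm_num [winS1L] <;> linarith⟩
      kap := hk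
      low := ⟨by norm_num, by linarith⟩
      high := by linarith
      y₀ := by norm_num [qLo, qHi, boxS1]
      y₁ := by norm_num [qLo, qHi, boxS1]
      tight := fun h => absurd h (by simp [winS1L])
      exit := by show u ≤ 67 / 100; linarith
      band := fun h => ⟨(44, 45, 100), ⟨by norm_num, (show _ < u by norm_num <;> linarith), (show u ≤ _ by norm_num <;> linarith)⟩, bandS1⟩ }⟩

theorem cellS2L {a b u : ℝ} (ha : 31 / 100 < a) (hd : 0 < b - a) (hI : 1 / 20 < allStabI a b)
    (hI7 : allStabI a b ≤ 1 / 7) (hu0 : (9 / 20 : ℝ) < u) (hu1 : u ≤ (29 / 50 : ℝ))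
    (h00 : (1 / 20 : ℝ) ≤ allStabI a b) (h01 : allStabI a b < (143 / 1000 : ℝ))
    (h10 : (0 : ℝ) ≤ (b - a) / (allStabI a b)) (h11 : (b - a) / (allStabI a b) < (237 / 250 : ℝ))
    (hk : (b - a) * (1 - allStabI a b) ≤ (a + b) * allStabI a b) : Cell a b u := by
  have hI0 : 0 < allStabI a b := by linarith
  have e : a + b = 1 - 2 * allStabI a b := by simp only [allStabI]; ring
  have hxl := (le_div_iff₀ hI0).1 h10
  have hxh := (div_lt_iff₀ hI0).1 h11
  exact ⟨pcS2, boxS2, winS2L, (31 / 50 : ℝ), (9 / 10 : ℝ), certS2, winS2L_ok,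
    ⟨rfl, rfl, rfl, rfl, by norm_num [fr, winS2L, pcS2], by norm_num [fr, pcS2], by norm_num [boxS2],
      by norm_num [fr, pcS2]⟩,
    { r₀ := ⟨by norm_num [boxS2], by norm_num [mkPt, pcS2, boxS2] <;> linarith, by norm_num [mkPt, pcS2, boxS2] <;> linarith⟩
      r₁ := ⟨by norm_num [boxS2], by norm_num [mkPt, pcS2, boxS2] <;> linarith, by norm_num [mkPt, pcS2, boxS2] <;> linarith⟩
      ru := ⟨by norm_num [boxS2], by norm_num [boxS2] <;> linarith, by norm_num [boxS2] <;> linarith⟩
      rw' := ⟨by norm_num [winS2L], by norm_num [winS2L] <;> linarith, by norm_num [winS2L] <;> linarith⟩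
      kap := hk
      low := ⟨by norm_num, by linarith⟩
      high := by linarith
      y₀ := by norm_num [qLo, qHi, boxS2]
      y₁ := by norm_num [qLo, qHi, boxS2]
      tight := fun _ => (by linarith)
      exit := by show u ≤ 67 / 100; linarith
      band := fun h => ⟨(45, 58, 100), ⟨by norm_num, (show _ < u by norm_num <;> linarith), (show u ≤ _ by norm_num <;> linarith)⟩, bandS2⟩ }⟩

theorem cellS3L {a b u : ℝ} (ha : 31 / 100 < a) (hd : 0 < b - a) (hI : 1 / 20 < allStabI a b)
    (hI7 : allStabI a b ≤ 1 / 7) (hu0 : (29 / 50 : ℝ) < u) (hu1 : u ≤ (67 / 100 : ℝ))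
    (h00 : (1 / 20 : ℝ) ≤ allStabI a b) (h01 : allStabI a b < (23 / 200 : ℝ))
    (h10 : (0 : ℝ) ≤ (b - a) / (allStabI a b)) (h11 : (b - a) / (allStabI a b) < (237 / 250 : ℝ))
    (hk : (b - a) * (1 - allStabI a b) ≤ (a + b) * allStabI a b) : Cell a b u := by
  have hI0 : 0 < allStabI a b := by linarith
  have e : a + b = 1 - 2 * allStabI a b := by simp only [allStabI]; ring
  have hxl := (le_div_iff₀ hI0).1 h10
  have hxh := (div_lt_iff₀ hI0).1 h11
  exact ⟨pcS3, boxS3, winS3L, (33049 / 50000 : ℝ), (9 / 10 : ℝ), certS3, winS3L_ok,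
    ⟨rfl, rfl, rfl, rfl, by norm_num [fr, winS3L, pcS3], by norm_num [fr, pcS3], by norm_num [boxS3],
      by norm_num [fr, pcS3]⟩,
    { r₀ := ⟨by norm_num [boxS3], by norm_num [mkPt, pcS3, boxS3] <;> linarith, by norm_num [mkPt, pcS3, boxS3] <;> linarith⟩
      r₁ := ⟨by norm_num [boxS3], by norm_num [mkPt, pcS3, boxS3] <;> linarith, by norm_num [mkPt, pcS3, boxS3] <;> linarith⟩
      ru := ⟨by norm_num [boxS3], by norm_num [boxS3] <;> linarith, by norm_num [boxS3] <;> linarith⟩
      rw' := ⟨by norm_num [winS3L], by norm_num [winS3L] <;> linarith, by norm_num [winS3L] <;> linarith⟩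
      kap := hk
      low := ⟨by norm_num, by linarith⟩
      high := by linarith
      y₀ := by norm_num [qLo, qHi, boxS3]
      y₁ := by norm_num [qLo, qHi, boxS3]
      tight := fun _ => (by linarith)
      exit := by show u ≤ 67 / 100; linarith
      band := fun h => ⟨(29, 34, 50), ⟨by norm_num, (show _ < u by norm_num <;> linarith), (show u ≤ _ by norm_num <;> linarith)⟩, bandS3⟩ }⟩

theorem cellS3T {a b u : ℝ} (ha : 31 / 100 < a) (hd : 0 < b - a) (hI : 1 / 20 < allStabI a b)
    (hI7 : allStabI a b ≤ 1 / 7) (hu0 : (67 / 100 : ℝ) < u) (hu1 : u ≤ (17 / 25 : ℝ))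
    (h00 : (1 / 20 : ℝ) ≤ allStabI a b) (h01 : allStabI a b < (23 / 200 : ℝ))
    (h10 : (0 : ℝ) ≤ (b - a) / (allStabI a b)) (h11 : (b - a) / (allStabI a b) < (237 / 250 : ℝ))
    (hk : (b - a) * (1 - allStabI a b) ≤ (a + b) * allStabI a b) : Cell a b u := by
  have hI0 : 0 < allStabI a b := by linarith
  have e : a + b = 1 - 2 * allStabI a b := by simp only [allStabI]; ring
  have hxl := (le_div_iff₀ hI0).1 h10
  have hxh := (div_lt_iff₀ hI0).1 h11
  exact ⟨pcS3, boxS3, winS3T, (33049 / 50000 : ℝ), (9 / 10 : ℝ), certS3, winS3T_ok,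
    ⟨rfl, rfl, rfl, rfl, by norm_num [fr, winS3T, pcS3], by norm_num [fr, pcS3], by norm_num [boxS3],
      by norm_num [fr, pcS3]⟩,
    { r₀ := ⟨by norm_num [boxS3], by norm_num [mkPt, pcS3, boxS3] <;> linarith, by norm_num [mkPt, pcS3, boxS3] <;> linarith⟩
      r₁ := ⟨by norm_num [boxS3], by norm_num [mkPt, pcS3, boxS3] <;> linarith, by norm_num [mkPt, pcS3, boxS3] <;> linarith⟩
      ru := ⟨by norm_num [boxS3], by norm_num [boxS3] <;> linarith, by norm_num [boxS3] <;> linarith⟩
      rw' := ⟨by norm_num [winS3T], by norm_num [winS3T] <;> linarith, by norm_num [winS3T] <;> linarith⟩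
      kap := hk
      low := ⟨by norm_num, by linarith⟩
      high := by linarith
      y₀ := by norm_num [qLo, qHi, boxS3]
      y₁ := by norm_num [qLo, qHi, boxS3]
      tight := fun _ => (by linarith)
      exit := by show 67 / 100 ≤ u; linarith
      band := fun h => ⟨(29, 34, 50), ⟨by norm_num, (show _ < u by norm_num <;> linarith), (show u ≤ _ by norm_num <;> linarith)⟩, bandS3⟩ }⟩

theorem cellS4L {a b u : ℝ} (ha : 31 / 100 < a) (hd : 0 < b - a) (hI : 1 / 20 < allStabI a b)
    (hI7 : allStabI a b ≤ 1 / 7) (hu0 : (29 / 50 : ℝ) < u) (hu1 : u ≤ (67 / 100 : ℝ))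
    (h00 : (23 / 200 : ℝ) ≤ allStabI a b) (h01 : allStabI a b < (143 / 1000 : ℝ))
    (h10 : (0 : ℝ) ≤ (b - a) / (allStabI a b)) (h11 : (b - a) / (allStabI a b) < (871 / 1000 : ℝ))
    (hk : (b - a) * (1 - allStabI a b) ≤ (a + b) * allStabI a b) : Cell a b u := by
  have hI0 : 0 < allStabI a b := by linarith
  have e : a + b = 1 - 2 * allStabI a b := by simp only [allStabI]; ring
  have hxl := (le_div_iff₀ hI0).1 h10
  have hxh := (div_lt_iff₀ hI0).1 h11
  exact ⟨pcS4, boxS4, winS4L, (31 / 50 : ℝ), (77 / 100 : ℝ), certS4, winS4L_ok,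
    ⟨rfl, rfl, rfl, rfl, by norm_num [fr, winS4L, pcS4], by norm_num [fr, pcS4], by norm_num [boxS4],
      by norm_num [fr, pcS4]⟩,
    { r₀ := ⟨by norm_num [boxS4], by norm_num [mkPt, pcS4, boxS4] <;> linarith, by norm_num [mkPt, pcS4, boxS4] <;> linarith⟩
      r₁ := ⟨by norm_num [boxS4], by norm_num [mkPt, pcS4, boxS4] <;> linarith, by norm_num [mkPt, pcS4, boxS4] <;> linarith⟩
      ru := ⟨by norm_num [boxS4], by norm_num [boxS4] <;> linarith, by norm_num [boxS4] <;> linarith⟩
      rw' := ⟨by norm_num [winS4L], by norm_num [winS4L] <;> linarith, by norm_num [winS4L] <;> linarith⟩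
      kap := hk
      low := ⟨by norm_num, by linarith⟩
      high := by linarith
      y₀ := by norm_num [qLo, qHi, boxS4]
      y₁ := by norm_num [qLo, qHi, boxS4]
      tight := fun _ => (by linarith)
      exit := by show u ≤ 67 / 100; linarith
      band := fun h => ⟨(29, 34, 50), ⟨by norm_num, (show _ < u by norm_num <;> linarith), (show u ≤ _ by norm_num <;> linarith)⟩, bandS4⟩ }⟩

theorem cellS4T {a b u : ℝ} (ha : 31 / 100 < a) (hd : 0 < b - a) (hI : 1 / 20 < allStabI a b)
    (hI7 : allStabI a b ≤ 1 / 7) (hu0 : (67 / 100 : ℝ) < u) (hu1 : u ≤ (17 / 25 : ℝ))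
    (h00 : (23 / 200 : ℝ) ≤ allStabI a b) (h01 : allStabI a b < (143 / 1000 : ℝ))
    (h10 : (0 : ℝ) ≤ (b - a) / (allStabI a b)) (h11 : (b - a) / (allStabI a b) < (871 / 1000 : ℝ))
    (hk : (b - a) * (1 - allStabI a b) ≤ (a + b) * allStabI a b) : Cell a b u := by
  have hI0 : 0 < allStabI a b := by linarith
  have e : a + b = 1 - 2 * allStabI a b := by simp only [allStabI]; ring
  have hxl := (le_div_iff₀ hI0).1 h10
  have hxh := (div_lt_iff₀ hI0).1 h11
  exact ⟨pcS4, boxS4, winS4T, (31 / 50 : ℝ), (77 / 100 : ℝ), certS4, winS4T_ok,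
    ⟨rfl, rfl, rfl, rfl, by norm_num [fr, winS4T, pcS4], by norm_num [fr, pcS4], by norm_num [boxS4],
      by norm_num [fr, pcS4]⟩,
    { r₀ := ⟨by norm_num [boxS4], by norm_num [mkPt, pcS4, boxS4] <;> linarith, by norm_num [mkPt, pcS4, boxS4] <;> linarith⟩
      r₁ := ⟨by norm_num [boxS4], by norm_num [mkPt, pcS4, boxS4] <;> linarith, by norm_num [mkPt, pcS4, boxS4] <;> linarith⟩
      ru := ⟨by norm_num [boxS4], by norm_num [boxS4] <;> linarith, by norm_num [boxS4] <;> linarith⟩
      rw' := ⟨by norm_num [winS4T], by norm_num [winS4T] <;> linarith, by norm_num [winS4T] <;> linarith⟩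
      kap := hk
      low := ⟨by norm_num, by linarith⟩
      high := by linarith
      y₀ := by norm_num [qLo, qHi, boxS4]
      y₁ := by norm_num [qLo, qHi, boxS4]
      tight := fun _ => (by linarith)
      exit := by show 67 / 100 ≤ u; linarith
      band := fun h => ⟨(29, 34, 50), ⟨by norm_num, (show _ < u by norm_num <;> linarith), (show u ≤ _ by norm_num <;> linarith)⟩, bandS4⟩ }⟩

theorem cellS5T {a b u : ℝ} (ha : 31 / 100 < a) (hd : 0 < b - a) (hI : 1 / 20 < allStabI a b)
    (hI7 : allStabI a b ≤ 1 / 7) (hu0 : (17 / 25 : ℝ) < u) (hu1 : u ≤ (153 / 200 : ℝ))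
    (h00 : (1 / 20 : ℝ) ≤ allStabI a b) (h01 : allStabI a b < (101 / 1000 : ℝ))
    (h10 : (0 : ℝ) ≤ (b - a) / (allStabI a b)) (h11 : (b - a) / (allStabI a b) < (237 / 250 : ℝ))
    (hk : (b - a) * (1 - allStabI a b) ≤ (a + b) * allStabI a b) : Cell a b u := by
  have hI0 : 0 < allStabI a b := by linarith
  have e : a + b = 1 - 2 * allStabI a b := by simp only [allStabI]; ring
  have hxl := (le_div_iff₀ hI0).1 h10
  have hxh := (div_lt_iff₀ hI0).1 h11
  exact ⟨pcS5, boxS5, winS5T, (175563 / 250000 : ℝ), (9 / 10 : ℝ), certS5, winS5T_ok,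
    ⟨rfl, rfl, rfl, rfl, by norm_num [fr, winS5T, pcS5], by norm_num [fr, pcS5], by norm_num [boxS5],
      by norm_num [fr, pcS5]⟩,
    { r₀ := ⟨by norm_num [boxS5], by norm_num [mkPt, pcS5, boxS5] <;> linarith, by norm_num [mkPt, pcS5, boxS5] <;> linarith⟩
      r₁ := ⟨by norm_num [boxS5], by norm_num [mkPt, pcS5, boxS5] <;> linarith, by norm_num [mkPt, pcS5, boxS5] <;> linarith⟩
      ru := ⟨by norm_num [boxS5], by norm_num [boxS5] <;> linarith, by norm_num [boxS5] <;> linarith⟩
      rw' := ⟨by norm_num [winS5T], by norm_num [winS5T] <;> linarith, by norm_num [winS5T] <;> linarith⟩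
      kap := hk
      low := ⟨by norm_num, by linarith⟩
      high := by linarith
      y₀ := by norm_num [qLo, qHi, boxS5]
      y₁ := by norm_num [qLo, qHi, boxS5]
      tight := fun _ => (by linarith)
      exit := by show 67 / 100 ≤ u; linarith
      band := fun h => ⟨(136, 153, 200), ⟨by norm_num, (show _ < u by norm_num <;> linarith), (show u ≤ _ by norm_num <;> linarith)⟩, bandS5⟩ }⟩

theorem cellS6T {a b u : ℝ} (ha : 31 / 100 < a) (hd : 0 < b - a) (hI : 1 / 20 < allStabI a b)
    (hI7 : allStabI a b ≤ 1 / 7) (hu0 : (17 / 25 : ℝ) < u) (hu1 : u ≤ (153 / 200 : ℝ))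
    (h00 : (101 / 1000 : ℝ) ≤ allStabI a b) (h01 : allStabI a b < (61 / 500 : ℝ))
    (h10 : (0 : ℝ) ≤ (b - a) / (allStabI a b)) (h11 : (b - a) / (allStabI a b) < (111 / 125 : ℝ))
    (hk : (b - a) * (1 - allStabI a b) ≤ (a + b) * allStabI a b) : Cell a b u := by
  have hI0 : 0 < allStabI a b := by linarith
  have e : a + b = 1 - 2 * allStabI a b := by simp only [allStabI]; ring
  have hxl := (le_div_iff₀ hI0).1 h10
  have hxh := (div_lt_iff₀ hI0).1 h11
  exact ⟨pcS6, boxS6, winS6T, (40479 / 62500 : ℝ), (399 / 500 : ℝ), certS6, winS6T_ok,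
    ⟨rfl, rfl, rfl, rfl, by norm_num [fr, winS6T, pcS6], by norm_num [fr, pcS6], by norm_num [boxS6],
      by norm_num [fr, pcS6]⟩,
    { r₀ := ⟨by norm_num [boxS6], by norm_num [mkPt, pcS6, boxS6] <;> linarith, by norm_num [mkPt, pcS6, boxS6] <;> linarith⟩
      r₁ := ⟨by norm_num [boxS6], by norm_num [mkPt, pcS6, boxS6] <;> linarith, by norm_num [mkPt, pcS6, boxS6] <;> linarith⟩
      ru := ⟨by norm_num [boxS6], by norm_num [boxS6] <;> linarith, by norm_num [boxS6] <;> linarith⟩
      rw' := ⟨by norm_num [winS6T], by norm_num [winS6T] <;> linarith, by norm_num [winS6T] <;> linarith⟩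
      kap := hk
      low := ⟨by norm_num, by linarith⟩
      high := by linarith
      y₀ := by norm_num [qLo, qHi, boxS6]
      y₁ := by norm_num [qLo, qHi, boxS6]
      tight := fun _ => (by linarith)
      exit := by show 67 / 100 ≤ u; linarith
      band := fun h => ⟨(136, 153, 200), ⟨by norm_num, (show _ < u by norm_num <;> linarith), (show u ≤ _ by norm_num <;> linarith)⟩, bandS6⟩ }⟩

theorem cellS7T {a b u : ℝ} (ha : 31 / 100 < a) (hd : 0 < b - a) (hI : 1 / 20 < allStabI a b)
    (hI7 : allStabI a b ≤ 1 / 7) (hu0 : (17 / 25 : ℝ) < u) (hu1 : u ≤ (153 / 200 : ℝ))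
    (h00 : (61 / 500 : ℝ) ≤ allStabI a b) (h01 : allStabI a b < (143 / 1000 : ℝ))
    (h10 : (0 : ℝ) ≤ (b - a) / (allStabI a b)) (h11 : (b - a) / (allStabI a b) < (3 / 10 : ℝ))
    (hk : (b - a) * (1 - allStabI a b) ≤ (a + b) * allStabI a b) : Cell a b u := by
  have hI0 : 0 < allStabI a b := by linarith
  have e : a + b = 1 - 2 * allStabI a b := by simp only [allStabI]; ring
  have hxl := (le_div_iff₀ hI0).1 h10
  have hxh := (div_lt_iff₀ hI0).1 h11
  exact ⟨pcS7, boxS7, winS7T, (6711 / 10000 : ℝ), (189 / 250 : ℝ), certS7, winS7T_ok,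
    ⟨rfl, rfl, rfl, rfl, by norm_num [fr, winS7T, pcS7], by norm_num [fr, pcS7], by norm_num [boxS7],
      by norm_num [fr, pcS7]⟩,
    { r₀ := ⟨by norm_num [boxS7], by norm_num [mkPt, pcS7, boxS7] <;> linarith, by norm_num [mkPt, pcS7, boxS7] <;> linarith⟩
      r₁ := ⟨by norm_num [boxS7], by norm_num [mkPt, pcS7, boxS7] <;> linarith, by norm_num [mkPt, pcS7, boxS7] <;> linarith⟩
      ru := ⟨by norm_num [boxS7], by norm_num [boxS7] <;> linarith, by norm_num [boxS7] <;> linarith⟩
      rw' := ⟨by norm_num [winS7T], by norm_num [winS7T] <;> linarith, by norm_num [winS7T] <;> linarith⟩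
      kap := hk
      low := ⟨by norm_num, by linarith⟩
      high := by linarith
      y₀ := by norm_num [qLo, qHi, boxS7]
      y₁ := by norm_num [qLo, qHi, boxS7]
      tight := fun _ => (by linarith)
      exit := by show 67 / 100 ≤ u; linarith
      band := fun h => ⟨(136, 153, 200), ⟨by norm_num, (show _ < u by norm_num <;> linarith), (show u ≤ _ by norm_num <;> linarith)⟩, bandS7⟩ }⟩

theorem cellS8T {a b u : ℝ} (ha : 31 / 100 < a) (hd : 0 < b - a) (hI : 1 / 20 < allStabI a b)
    (hI7 : allStabI a b ≤ 1 / 7) (hu0 : (17 / 25 : ℝ) < u) (hu1 : u ≤ (153 / 200 : ℝ))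
    (h00 : (61 / 500 : ℝ) ≤ allStabI a b) (h01 : allStabI a b < (143 / 1000 : ℝ))
    (h10 : (3 / 10 : ℝ) ≤ (b - a) / (allStabI a b)) (h11 : (b - a) / (allStabI a b) < (431 / 500 : ℝ))
    (hk : (b - a) * (1 - allStabI a b) ≤ (a + b) * allStabI a b) : Cell a b u := by
  have hI0 : 0 < allStabI a b := by linarith
  have e : a + b = 1 - 2 * allStabI a b := by simp only [allStabI]; ring
  have hxl := (le_div_iff₀ hI0).1 h10
  have hxh := (div_lt_iff₀ hI0).1 h11
  exact ⟨pcS8, boxS8, winS8T, (31 / 50 : ℝ), (3597 / 5000 : ℝ), certS8, winS8T_ok,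
    ⟨rfl, rfl, rfl, rfl, by norm_num [fr, winS8T, pcS8], by norm_num [fr, pcS8], by norm_num [boxS8],
      by norm_num [fr, pcS8]⟩,
    { r₀ := ⟨by norm_num [boxS8], by norm_num [mkPt, pcS8, boxS8] <;> linarith, by norm_num [mkPt, pcS8, boxS8] <;> linarith⟩
      r₁ := ⟨by norm_num [boxS8], by norm_num [mkPt, pcS8, boxS8] <;> linarith, by norm_num [mkPt, pcS8, boxS8] <;> linarith⟩
      ru := ⟨by norm_num [boxS8], by norm_num [boxS8] <;> linarith, by norm_num [boxS8] <;> linarith⟩
      rw' := ⟨by norm_num [winS8T], by norm_num [winS8T] <;> linarith, by norm_num [winS8T] <;> linarith⟩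
      kap := hk
      low := ⟨by norm_num, by linarith⟩
      high := by linarith
      y₀ := by norm_num [qLo, qHi, boxS8]
      y₁ := by norm_num [qLo, qHi, boxS8]
      tight := fun _ => (by linarith)
      exit := by show 67 / 100 ≤ u; linarith
      band := fun h => ⟨(136, 153, 200), ⟨by norm_num, (show _ < u by norm_num <;> linarith), (show u ≤ _ by norm_num <;> linarith)⟩, bandS8⟩ }⟩

theorem cellS9L {a b u : ℝ} (ha : 31 / 100 < a) (hd : 0 < b - a) (hI : 1 / 20 < allStabI a b)
    (hI7 : allStabI a b ≤ 1 / 7) (hu0 : (1 / 10 : ℝ) < u) (hu1 : u ≤ (1 / 4 : ℝ))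
    (h00 : (93 / 2000 : ℝ) ≤ (b - a)) (h01 : (b - a) < (3 / 25 : ℝ))
    (h10 : (41 / 100 : ℝ) ≤ allStabI a b / (b - a)) (h11 : allStabI a b / (b - a) < (6 / 5 : ℝ))
    (hk : (a + b) * allStabI a b ≤ (b - a) * (1 - allStabI a b)) : Cell a b u := by
  have hI0 : 0 < allStabI a b := by linarith
  have e : a + b = 1 - 2 * allStabI a b := by simp only [allStabI]; ring
  have hxl := (le_div_iff₀ hd).1 h10
  have hxh := (div_lt_iff₀ hd).1 h11
  exact ⟨pcS9, boxS9, winS9L, (31 / 50 : ℝ), (9 / 10 : ℝ), certS9, winS9L_ok,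
    ⟨rfl, rfl, rfl, rfl, by norm_num [fr, winS9L, pcS9], by norm_num [fr, pcS9], by norm_num [boxS9],
      by norm_num [fr, pcS9]⟩,
    { r₀ := ⟨by norm_num [boxS9], by norm_num [mkPt, pcS9, boxS9] <;> linarith, by norm_num [mkPt, pcS9, boxS9] <;> linarith⟩
      r₁ := ⟨by norm_num [boxS9], by norm_num [mkPt, pcS9, boxS9] <;> linarith, by norm_num [mkPt, pcS9, boxS9] <;> linarith⟩
      ru := ⟨by norm_num [boxS9], by norm_num [boxS9] <;> linarith, by norm_num [boxS9] <;> linarith⟩
      rw' := ⟨by norm_num [winS9L], by norm_num [winS9L] <;> linarith, by norm_num [winS9L] <;> linarith⟩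
      kap := hk
      low := ⟨by norm_num, by linarith⟩
      high := by linarith
      y₀ := by norm_num [qLo, qHi, boxS9]
      y₁ := by norm_num [qLo, qHi, boxS9]
      tight := fun h => absurd h (by simp [winS9L])
      exit := by show u ≤ 67 / 100; linarith
      band := fun h => absurd h (by linarith) }⟩

theorem cellS10L {a b u : ℝ} (ha : 31 / 100 < a) (hd : 0 < b - a) (hI : 1 / 20 < allStabI a b)
    (hI7 : allStabI a b ≤ 1 / 7) (hu0 : (1 / 10 : ℝ) < u) (hu1 : u ≤ (1 / 4 : ℝ))
    (h00 : (1 / 20 : ℝ) ≤ allStabI a b) (h01 : allStabI a b < (13 / 100 : ℝ))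
    (h10 : (3 / 25 : ℝ) ≤ (b - a)) (h11 : (b - a) < (21 / 100 : ℝ))
    (hk : (a + b) * allStabI a b ≤ (b - a) * (1 - allStabI a b)) : Cell a b u := by
  have hI0 : 0 < allStabI a b := by linarith
  have e : a + b = 1 - 2 * allStabI a b := by simp only [allStabI]; ring
  exact ⟨pcS10, boxS10, winS10L, (31 / 50 : ℝ), (39 / 50 : ℝ), certS10, winS10L_ok,
    ⟨rfl, rfl, rfl, rfl, by norm_num [fr, winS10L, pcS10], by norm_num [fr, pcS10], by norm_num [boxS10],
      by norm_num [fr, pcS10]⟩,
    { r₀ := ⟨by norm_num [boxS10], by norm_num [mkPt, pcS10, boxS10] <;> linarith, by norm_num [mkPt, pcS10, boxS10] <;> linarith⟩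
      r₁ := ⟨by norm_num [boxS10], by norm_num [mkPt, pcS10, boxS10] <;> linarith, by norm_num [mkPt, pcS10, boxS10] <;> linarith⟩
      ru := ⟨by norm_num [boxS10], by norm_num [boxS10] <;> linarith, by norm_num [boxS10] <;> linarith⟩
      rw' := ⟨by norm_num [winS10L], by norm_num [winS10L] <;> linarith, by norm_num [winS10L] <;> linarith⟩
      kap := hk
      low := ⟨by norm_num, by linarith⟩
      high := by linarith
      y₀ := by norm_num [qLo, qHi, boxS10]
      y₁ := by norm_num [qLo, qHi, boxS10]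
      tight := fun h => absurd h (by simp [winS10L])
      exit := by show u ≤ 67 / 100; linarith
      band := fun h => absurd h (by linarith) }⟩

theorem cellS11L {a b u : ℝ} (ha : 31 / 100 < a) (hd : 0 < b - a) (hI : 1 / 20 < allStabI a b)
    (hI7 : allStabI a b ≤ 1 / 7) (hu0 : (1 / 10 : ℝ) < u) (hu1 : u ≤ (1 / 4 : ℝ))
    (h00 : (1 / 20 : ℝ) ≤ allStabI a b) (h01 : allStabI a b < (17 / 200 : ℝ))
    (h10 : (21 / 100 : ℝ) ≤ (b - a)) (h11 : (b - a) < (7 / 25 : ℝ))
    (hk : (a + b) * allStabI a b ≤ (b - a) * (1 - allStabI a b)) : Cell a b u := by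
  have hI0 : 0 < allStabI a b := by linarith
  have e : a + b = 1 - 2 * allStabI a b := by simp only [allStabI]; ring
  exact ⟨pcS11, boxS11, winS11L, (31 / 50 : ℝ), (69 / 100 : ℝ), certS11, winS11L_ok,
    ⟨rfl, rfl, rfl, rfl, by norm_num [fr, winS11L, pcS11], by norm_num [fr, pcS11], by norm_num [boxS11],
      by norm_num [fr, pcS11]⟩,
    { r₀ := ⟨by norm_num [boxS11], by norm_num [mkPt, pcS11, boxS11] <;> linarith, by norm_num [mkPt, pcS11, boxS11] <;> linarith⟩
      r₁ := ⟨by norm_num [boxS11], by norm_num [mkPt, pcS11, boxS11] <;> linarith, by norm_num [mkPt, pcS11, boxS11] <;> linarith⟩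
      ru := ⟨by norm_num [boxS11], by norm_num [boxS11] <;> linarith, by norm_num [boxS11] <;> linarith⟩
      rw' := ⟨by norm_num [winS11L], by norm_num [winS11L] <;> linarith, by norm_num [winS11L] <;> linarith⟩
      kap := hk
      low := ⟨by norm_num, by linarith⟩
      high := by linarith
      y₀ := by norm_num [qLo, qHi, boxS11]
      y₁ := by norm_num [qLo, qHi, boxS11]
      tight := fun h => absurd h (by simp [winS11L])
      exit := by show u ≤ 67 / 100; linarith
      band := fun h => absurd h (by linarith) }⟩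

theorem cellS12L {a b u : ℝ} (ha : 31 / 100 < a) (hd : 0 < b - a) (hI : 1 / 20 < allStabI a b)
    (hI7 : allStabI a b ≤ 1 / 7) (hu0 : (1 / 4 : ℝ) < u) (hu1 : u ≤ (27 / 50 : ℝ))
    (h00 : (93 / 2000 : ℝ) ≤ (b - a)) (h01 : (b - a) < (11 / 100 : ℝ))
    (h10 : (9 / 20 : ℝ) ≤ allStabI a b / (b - a)) (h11 : allStabI a b / (b - a) < (6 / 5 : ℝ))
    (hk : (a + b) * allStabI a b ≤ (b - a) * (1 - allStabI a b)) : Cell a b u := by
  have hI0 : 0 < allStabI a b := by linarith
  have e : a + b = 1 - 2 * allStabI a b := by simp only [allStabI]; ring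
  have hxl := (le_div_iff₀ hd).1 h10
  have hxh := (div_lt_iff₀ hd).1 h11
  exact ⟨pcS12, boxS12, winS12L, (313 / 500 : ℝ), (9 / 10 : ℝ), certS12, winS12L_ok,
    ⟨rfl, rfl, rfl, rfl, by norm_num [fr, winS12L, pcS12], by norm_num [fr, pcS12], by norm_num [boxS12],
      by norm_num [fr, pcS12]⟩,
    { r₀ := ⟨by norm_num [boxS12], by norm_num [mkPt, pcS12, boxS12] <;> linarith, by norm_num [mkPt, pcS12, boxS12] <;> linarith⟩
      r₁ := ⟨by norm_num [boxS12], by norm_num [mkPt, pcS12, boxS12] <;> linarith, by norm_num [mkPt, pcS12, boxS12] <;> linarith⟩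
      ru := ⟨by norm_num [boxS12], by norm_num [boxS12] <;> linarith, by norm_num [boxS12] <;> linarith⟩
      rw' := ⟨by norm_num [winS12L], by norm_num [winS12L] <;> linarith, by norm_num [winS12L] <;> linarith⟩
      kap := hk
      low := ⟨by norm_num, by linarith⟩
      high := by linarith
      y₀ := by norm_num [qLo, qHi, boxS12]
      y₁ := by norm_num [qLo, qHi, boxS12]
      tight := fun h => absurd h (by simp [winS12L])
      exit := by show u ≤ 67 / 100; linarith
      band := fun h => ⟨(22, 27, 50), ⟨by norm_num, (show _ < u by norm_num <;> linarith), (show u ≤ _ by norm_num <;> linarith)⟩, bandS12⟩ }⟩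

theorem cellS13L {a b u : ℝ} (ha : 31 / 100 < a) (hd : 0 < b - a) (hI : 1 / 20 < allStabI a b)
    (hI7 : allStabI a b ≤ 1 / 7) (hu0 : (1 / 4 : ℝ) < u) (hu1 : u ≤ (27 / 50 : ℝ))
    (h00 : (1 / 20 : ℝ) ≤ allStabI a b) (h01 : allStabI a b < (27 / 200 : ℝ))
    (h10 : (11 / 100 : ℝ) ≤ (b - a)) (h11 : (b - a) < (3 / 20 : ℝ))
    (hk : (a + b) * allStabI a b ≤ (b - a) * (1 - allStabI a b)) : Cell a b u := by
  have hI0 : 0 < allStabI a b := by linarith
  have e : a + b = 1 - 2 * allStabI a b := by simp only [allStabI]; ring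
  exact ⟨pcS13, boxS13, winS13L, (31 / 50 : ℝ), (79 / 100 : ℝ), certS13, winS13L_ok,
    ⟨rfl, rfl, rfl, rfl, by norm_num [fr, winS13L, pcS13], by norm_num [fr, pcS13], by norm_num [boxS13],
      by norm_num [fr, pcS13]⟩,
    { r₀ := ⟨by norm_num [boxS13], by norm_num [mkPt, pcS13, boxS13] <;> linarith, by norm_num [mkPt, pcS13, boxS13] <;> linarith⟩
      r₁ := ⟨by norm_num [boxS13], by norm_num [mkPt, pcS13, boxS13] <;> linarith, by norm_num [mkPt, pcS13, boxS13] <;> linarith⟩
      ru := ⟨by norm_num [boxS13], by norm_num [boxS13] <;> linarith, by norm_num [boxS13] <;> linarith⟩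
      rw' := ⟨by norm_num [winS13L], by norm_num [winS13L] <;> linarith, by norm_num [winS13L] <;> linarith⟩
      kap := hk
      low := ⟨by norm_num, by linarith⟩
      high := by linarith
      y₀ := by norm_num [qLo, qHi, boxS13]
      y₁ := by norm_num [qLo, qHi, boxS13]
      tight := fun h => absurd h (by simp [winS13L])
      exit := by show u ≤ 67 / 100; linarith
      band := fun h => ⟨(22, 27, 50), ⟨by norm_num, (show _ < u by norm_num <;> linarith), (show u ≤ _ by norm_num <;> linarith)⟩, bandS13⟩ }⟩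

theorem cellS14L {a b u : ℝ} (ha : 31 / 100 < a) (hd : 0 < b - a) (hI : 1 / 20 < allStabI a b)
    (hI7 : allStabI a b ≤ 1 / 7) (hu0 : (1 / 4 : ℝ) < u) (hu1 : u ≤ (27 / 50 : ℝ))
    (h00 : (1 / 20 : ℝ) ≤ allStabI a b) (h01 : allStabI a b < (23 / 200 : ℝ))
    (h10 : (3 / 20 : ℝ) ≤ (b - a)) (h11 : (b - a) < (7 / 25 : ℝ))
    (hk : (a + b) * allStabI a b ≤ (b - a) * (1 - allStabI a b)) : Cell a b u := by
  have hI0 : 0 < allStabI a b := by linarith
  have e : a + b = 1 - 2 * allStabI a b := by simp only [allStabI]; ring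
  exact ⟨pcS14, boxS14, winS14L, (31 / 50 : ℝ), (3 / 4 : ℝ), certS14, winS14L_ok,
    ⟨rfl, rfl, rfl, rfl, by norm_num [fr, winS14L, pcS14], by norm_num [fr, pcS14], by norm_num [boxS14],
      by norm_num [fr, pcS14]⟩,
    { r₀ := ⟨by norm_num [boxS14], by norm_num [mkPt, pcS14, boxS14] <;> linarith, by norm_num [mkPt, pcS14, boxS14] <;> linarith⟩
      r₁ := ⟨by norm_num [boxS14], by norm_num [mkPt, pcS14, boxS14] <;> linarith, by norm_num [mkPt, pcS14, boxS14] <;> linarith⟩
      ru := ⟨by norm_num [boxS14], by norm_num [boxS14] <;> linarith, by norm_num [boxS14] <;> linarith⟩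
      rw' := ⟨by norm_num [winS14L], by norm_num [winS14L] <;> linarith, by norm_num [winS14L] <;> linarith⟩
      kap := hk
      low := ⟨by norm_num, by linarith⟩
      high := by linarith
      y₀ := by norm_num [qLo, qHi, boxS14]
      y₁ := by norm_num [qLo, qHi, boxS14]
      tight := fun h => absurd h (by simp [winS14L])
      exit := by show u ≤ 67 / 100; linarith
      band := fun h => ⟨(22, 27, 50), ⟨by norm_num, (show _ < u by norm_num <;> linarith), (show u ≤ _ by norm_num <;> linarith)⟩, bandS14⟩ }⟩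

theorem cellS15L {a b u : ℝ} (ha : 31 / 100 < a) (hd : 0 < b - a) (hI : 1 / 20 < allStabI a b)
    (hI7 : allStabI a b ≤ 1 / 7) (hu0 : (27 / 50 : ℝ) < u) (hu1 : u ≤ (67 / 100 : ℝ))
    (h00 : (93 / 2000 : ℝ) ≤ (b - a)) (h01 : (b - a) < (3 / 40 : ℝ))
    (h10 : (33 / 50 : ℝ) ≤ allStabI a b / (b - a)) (h11 : allStabI a b / (b - a) < (6 / 5 : ℝ))
    (hk : (a + b) * allStabI a b ≤ (b - a) * (1 - allStabI a b)) : Cell a b u := by
  have hI0 : 0 < allStabI a b := by linarith
  have e : a + b = 1 - 2 * allStabI a b := by simp only [allStabI]; ring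
  have hxl := (le_div_iff₀ hd).1 h10
  have hxh := (div_lt_iff₀ hd).1 h11
  exact ⟨pcS15, boxS15, winS15L, (149 / 200 : ℝ), (22303 / 25000 : ℝ), certS15, winS15L_ok,
    ⟨rfl, rfl, rfl, rfl, by norm_num [fr, winS15L, pcS15], by norm_num [fr, pcS15], by norm_num [boxS15],
      by norm_num [fr, pcS15]⟩,
    { r₀ := ⟨by norm_num [boxS15], by norm_num [mkPt, pcS15, boxS15] <;> linarith, by norm_num [mkPt, pcS15, boxS15] <;> linarith⟩
      r₁ := ⟨by norm_num [boxS15], by norm_num [mkPt, pcS15, boxS15] <;> linarith, by norm_num [mkPt, pcS15, boxS15] <;> linarith⟩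
      ru := ⟨by norm_num [boxS15], by norm_num [boxS15] <;> linarith, by norm_num [boxS15] <;> linarith⟩
      rw' := ⟨by norm_num [winS15L], by norm_num [winS15L] <;> linarith, by norm_num [winS15L] <;> linarith⟩
      kap := hk
      low := ⟨by norm_num, by linarith⟩
      high := by linarith
      y₀ := by norm_num [qLo, qHi, boxS15]
      y₁ := by norm_num [qLo, qHi, boxS15]
      tight := fun _ => (by linarith)
      exit := by show u ≤ 67 / 100; linarith
      band := fun h => ⟨(108, 153, 200), ⟨by norm_num, (show _ < u by norm_num <;> linarith), (show u ≤ _ by norm_num <;> linarith)⟩, bandS15⟩ }⟩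

theorem cellS15T {a b u : ℝ} (ha : 31 / 100 < a) (hd : 0 < b - a) (hI : 1 / 20 < allStabI a b)
    (hI7 : allStabI a b ≤ 1 / 7) (hu0 : (67 / 100 : ℝ) < u) (hu1 : u ≤ (153 / 200 : ℝ))
    (h00 : (93 / 2000 : ℝ) ≤ (b - a)) (h01 : (b - a) < (3 / 40 : ℝ))
    (h10 : (33 / 50 : ℝ) ≤ allStabI a b / (b - a)) (h11 : allStabI a b / (b - a) < (6 / 5 : ℝ))
    (hk : (a + b) * allStabI a b ≤ (b - a) * (1 - allStabI a b)) : Cell a b u := by
  have hI0 : 0 < allStabI a b := by linarith
  have e : a + b = 1 - 2 * allStabI a b := by simp only [allStabI]; ring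
  have hxl := (le_div_iff₀ hd).1 h10
  have hxh := (div_lt_iff₀ hd).1 h11
  exact ⟨pcS15, boxS15, winS15T, (149 / 200 : ℝ), (22303 / 25000 : ℝ), certS15, winS15T_ok,
    ⟨rfl, rfl, rfl, rfl, by norm_num [fr, winS15T, pcS15], by norm_num [fr, pcS15], by norm_num [boxS15],
      by norm_num [fr, pcS15]⟩,
    { r₀ := ⟨by norm_num [boxS15], by norm_num [mkPt, pcS15, boxS15] <;> linarith, by norm_num [mkPt, pcS15, boxS15] <;> linarith⟩
      r₁ := ⟨by norm_num [boxS15], by norm_num [mkPt, pcS15, boxS15] <;> linarith, by norm_num [mkPt, pcS15, boxS15] <;> linarith⟩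
      ru := ⟨by norm_num [boxS15], by norm_num [boxS15] <;> linarith, by norm_num [boxS15] <;> linarith⟩
      rw' := ⟨by norm_num [winS15T], by norm_num [winS15T] <;> linarith, by norm_num [winS15T] <;> linarith⟩
      kap := hk
      low := ⟨by norm_num, by linarith⟩
      high := by linarith
      y₀ := by norm_num [qLo, qHi, boxS15]
      y₁ := by norm_num [qLo, qHi, boxS15]
      tight := fun _ => (by linarith)
      exit := by show 67 / 100 ≤ u; linarith
      band := fun h => ⟨(108, 153, 200), ⟨by norm_num, (show _ < u by norm_num <;> linarith), (show u ≤ _ by norm_num <;> linarith)⟩, bandS15⟩ }⟩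

theorem cellS16L {a b u : ℝ} (ha : 31 / 100 < a) (hd : 0 < b - a) (hI : 1 / 20 < allStabI a b)
    (hI7 : allStabI a b ≤ 1 / 7) (hu0 : (27 / 50 : ℝ) < u) (hu1 : u ≤ (67 / 100 : ℝ))
    (h00 : (3 / 40 : ℝ) ≤ (b - a)) (h01 : (b - a) < (11 / 100 : ℝ))
    (h10 : (9 / 20 : ℝ) ≤ allStabI a b / (b - a)) (h11 : allStabI a b / (b - a) < (6 / 5 : ℝ))
    (hk : (a + b) * allStabI a b ≤ (b - a) * (1 - allStabI a b)) : Cell a b u := by
  have hI0 : 0 < allStabI a b := by linarith
  have e : a + b = 1 - 2 * allStabI a b := by simp only [allStabI]; ring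
  have hxl := (le_div_iff₀ hd).1 h10
  have hxh := (div_lt_iff₀ hd).1 h11
  exact ⟨pcS16, boxS16, winS16L, (313 / 500 : ℝ), (343 / 400 : ℝ), certS16, winS16L_ok,
    ⟨rfl, rfl, rfl, rfl, by norm_num [fr, winS16L, pcS16], by norm_num [fr, pcS16], by norm_num [boxS16],
      by norm_num [fr, pcS16]⟩,
    { r₀ := ⟨by norm_num [boxS16], by norm_num [mkPt, pcS16, boxS16] <;> linarith, by norm_num [mkPt, pcS16, boxS16] <;> linarith⟩
      r₁ := ⟨by norm_num [boxS16], by norm_num [mkPt, pcS16, boxS16] <;> linarith, by norm_num [mkPt, pcS16, boxS16] <;> linarith⟩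
      ru := ⟨by norm_num [boxS16], by norm_num [boxS16] <;> linarith, by norm_num [boxS16] <;> linarith⟩
      rw' := ⟨by norm_num [winS16L], by norm_num [winS16L] <;> linarith, by norm_num [winS16L] <;> linarith⟩
      kap := hk
      low := ⟨by norm_num, by linarith⟩
      high := by linarith
      y₀ := by norm_num [qLo, qHi, boxS16]
      y₁ := by norm_num [qLo, qHi, boxS16]
      tight := fun _ => (by linarith)
      exit := by show u ≤ 67 / 100; linarith
      band := fun h => ⟨(54, 69, 100), ⟨by norm_num, (show _ < u by norm_num <;> linarith), (show u ≤ _ by norm_num <;> linarith)⟩, bandS16⟩ }⟩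

theorem cellS16T {a b u : ℝ} (ha : 31 / 100 < a) (hd : 0 < b - a) (hI : 1 / 20 < allStabI a b)
    (hI7 : allStabI a b ≤ 1 / 7) (hu0 : (67 / 100 : ℝ) < u) (hu1 : u ≤ (69 / 100 : ℝ))
    (h00 : (3 / 40 : ℝ) ≤ (b - a)) (h01 : (b - a) < (11 / 100 : ℝ))
    (h10 : (9 / 20 : ℝ) ≤ allStabI a b / (b - a)) (h11 : allStabI a b / (b - a) < (6 / 5 : ℝ))
    (hk : (a + b) * allStabI a b ≤ (b - a) * (1 - allStabI a b)) : Cell a b u := by
  have hI0 : 0 < allStabI a b := by linarith
  have e : a + b = 1 - 2 * allStabI a b := by simp only [allStabI]; ring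
  have hxl := (le_div_iff₀ hd).1 h10
  have hxh := (div_lt_iff₀ hd).1 h11
  exact ⟨pcS16, boxS16, winS16T, (313 / 500 : ℝ), (343 / 400 : ℝ), certS16, winS16T_ok,
    ⟨rfl, rfl, rfl, rfl, by norm_num [fr, winS16T, pcS16], by norm_num [fr, pcS16], by norm_num [boxS16],
      by norm_num [fr, pcS16]⟩,
    { r₀ := ⟨by norm_num [boxS16], by norm_num [mkPt, pcS16, boxS16] <;> linarith, by norm_num [mkPt, pcS16, boxS16] <;> linarith⟩
      r₁ := ⟨by norm_num [boxS16], by norm_num [mkPt, pcS16, boxS16] <;> linarith, by norm_num [mkPt, pcS16, boxS16] <;> linarith⟩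
      ru := ⟨by norm_num [boxS16], by norm_num [boxS16] <;> linarith, by norm_num [boxS16] <;> linarith⟩
      rw' := ⟨by norm_num [winS16T], by norm_num [winS16T] <;> linarith, by norm_num [winS16T] <;> linarith⟩
      kap := hk
      low := ⟨by norm_num, by linarith⟩
      high := by linarith
      y₀ := by norm_num [qLo, qHi, boxS16]
      y₁ := by norm_num [qLo, qHi, boxS16]
      tight := fun _ => (by linarith)
      exit := by show 67 / 100 ≤ u; linarith
      band := fun h => ⟨(54, 69, 100), ⟨by norm_num, (show _ < u by norm_num <;> linarith), (show u ≤ _ by norm_num <;> linarith)⟩, bandS16⟩ }⟩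

theorem cellS17T {a b u : ℝ} (ha : 31 / 100 < a) (hd : 0 < b - a) (hI : 1 / 20 < allStabI a b)
    (hI7 : allStabI a b ≤ 1 / 7) (hu0 : (69 / 100 : ℝ) < u) (hu1 : u ≤ (153 / 200 : ℝ))
    (h00 : (3 / 40 : ℝ) ≤ (b - a)) (h01 : (b - a) < (11 / 100 : ℝ))
    (h10 : (9 / 20 : ℝ) ≤ allStabI a b / (b - a)) (h11 : allStabI a b / (b - a) < (6 / 5 : ℝ))
    (hk : (a + b) * allStabI a b ≤ (b - a) * (1 - allStabI a b)) : Cell a b u := by
  have hI0 : 0 < allStabI a b := by linarith
  have e : a + b = 1 - 2 * allStabI a b := by simp only [allStabI]; ring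
  have hxl := (le_div_iff₀ hd).1 h10
  have hxh := (div_lt_iff₀ hd).1 h11
  exact ⟨pcS17, boxS17, winS17T, (313 / 500 : ℝ), (343 / 400 : ℝ), certS17, winS17T_ok,
    ⟨rfl, rfl, rfl, rfl, by norm_num [fr, winS17T, pcS17], by norm_num [fr, pcS17], by norm_num [boxS17],
      by norm_num [fr, pcS17]⟩,
    { r₀ := ⟨by norm_num [boxS17], by norm_num [mkPt, pcS17, boxS17] <;> linarith, by norm_num [mkPt, pcS17, boxS17] <;> linarith⟩
      r₁ := ⟨by norm_num [boxS17], by norm_num [mkPt, pcS17, boxS17] <;> linarith, by norm_num [mkPt, pcS17, boxS17] <;> linarith⟩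
      ru := ⟨by norm_num [boxS17], by norm_num [boxS17] <;> linarith, by norm_num [boxS17] <;> linarith⟩
      rw' := ⟨by norm_num [winS17T], by norm_num [winS17T] <;> linarith, by norm_num [winS17T] <;> linarith⟩
      kap := hk
      low := ⟨by norm_num, by linarith⟩
      high := by linarith
      y₀ := by norm_num [qLo, qHi, boxS17]
      y₁ := by norm_num [qLo, qHi, boxS17]
      tight := fun _ => (by linarith)
      exit := by show 67 / 100 ≤ u; linarith
      band := fun h => ⟨(138, 153, 200), ⟨by norm_num, (show _ < u by norm_num <;> linarith), (show u ≤ _ by norm_num <;> linarith)⟩, bandS17⟩ }⟩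

theorem cellS18L {a b u : ℝ} (ha : 31 / 100 < a) (hd : 0 < b - a) (hI : 1 / 20 < allStabI a b)
    (hI7 : allStabI a b ≤ 1 / 7) (hu0 : (27 / 50 : ℝ) < u) (hu1 : u ≤ (67 / 100 : ℝ))
    (h00 : (1 / 20 : ℝ) ≤ allStabI a b) (h01 : allStabI a b < (27 / 200 : ℝ))
    (h10 : (11 / 100 : ℝ) ≤ (b - a)) (h11 : (b - a) < (7 / 40 : ℝ))
    (hk : (a + b) * allStabI a b ≤ (b - a) * (1 - allStabI a b)) : Cell a b u := by
  have hI0 : 0 < allStabI a b := by linarith
  have e : a + b = 1 - 2 * allStabI a b := by simp only [allStabI]; ring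
  exact ⟨pcS18, boxS18, winS18L, (31 / 50 : ℝ), (79 / 100 : ℝ), certS18, winS18L_ok,
    ⟨rfl, rfl, rfl, rfl, by norm_num [fr, winS18L, pcS18], by norm_num [fr, pcS18], by norm_num [boxS18],
      by norm_num [fr, pcS18]⟩,
    { r₀ := ⟨by norm_num [boxS18], by norm_num [mkPt, pcS18, boxS18] <;> linarith, by norm_num [mkPt, pcS18, boxS18] <;> linarith⟩
      r₁ := ⟨by norm_num [boxS18], by norm_num [mkPt, pcS18, boxS18] <;> linarith, by norm_num [mkPt, pcS18, boxS18] <;> linarith⟩
      ru := ⟨by norm_num [boxS18], by norm_num [boxS18] <;> linarith, by norm_num [boxS18] <;> linarith⟩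
      rw' := ⟨by norm_num [winS18L], by norm_num [winS18L] <;> linarith, by norm_num [winS18L] <;> linarith⟩
      kap := hk
      low := ⟨by norm_num, by linarith⟩
      high := by linarith
      y₀ := by norm_num [qLo, qHi, boxS18]
      y₁ := by norm_num [qLo, qHi, boxS18]
      tight := fun _ => (by linarith)
      exit := by show u ≤ 67 / 100; linarith
      band := fun h => ⟨(54, 69, 100), ⟨by norm_num, (show _ < u by norm_num <;> linarith), (show u ≤ _ by norm_num <;> linarith)⟩, bandS18⟩ }⟩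

theorem cellS18T {a b u : ℝ} (ha : 31 / 100 < a) (hd : 0 < b - a) (hI : 1 / 20 < allStabI a b)
    (hI7 : allStabI a b ≤ 1 / 7) (hu0 : (67 / 100 : ℝ) < u) (hu1 : u ≤ (69 / 100 : ℝ))
    (h00 : (1 / 20 : ℝ) ≤ allStabI a b) (h01 : allStabI a b < (27 / 200 : ℝ))
    (h10 : (11 / 100 : ℝ) ≤ (b - a)) (h11 : (b - a) < (7 / 40 : ℝ))
    (hk : (a + b) * allStabI a b ≤ (b - a) * (1 - allStabI a b)) : Cell a b u := by
  have hI0 : 0 < allStabI a b := by linarith
  have e : a + b = 1 - 2 * allStabI a b := by simp only [allStabI]; ring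
  exact ⟨pcS18, boxS18, winS18T, (31 / 50 : ℝ), (79 / 100 : ℝ), certS18, winS18T_ok,
    ⟨rfl, rfl, rfl, rfl, by norm_num [fr, winS18T, pcS18], by norm_num [fr, pcS18], by norm_num [boxS18],
      by norm_num [fr, pcS18]⟩,
    { r₀ := ⟨by norm_num [boxS18], by norm_num [mkPt, pcS18, boxS18] <;> linarith, by norm_num [mkPt, pcS18, boxS18] <;> linarith⟩
      r₁ := ⟨by norm_num [boxS18], by norm_num [mkPt, pcS18, boxS18] <;> linarith, by norm_num [mkPt, pcS18, boxS18] <;> linarith⟩
      ru := ⟨by norm_num [boxS18], by norm_num [boxS18] <;> linarith, by norm_num [boxS18] <;> linarith⟩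
      rw' := ⟨by norm_num [winS18T], by norm_num [winS18T] <;> linarith, by norm_num [winS18T] <;> linarith⟩
      kap := hk
      low := ⟨by norm_num, by linarith⟩
      high := by linarith
      y₀ := by norm_num [qLo, qHi, boxS18]
      y₁ := by norm_num [qLo, qHi, boxS18]
      tight := fun _ => (by linarith)
      exit := by show 67 / 100 ≤ u; linarith
      band := fun h => ⟨(54, 69, 100), ⟨by norm_num, (show _ < u by norm_num <;> linarith), (show u ≤ _ by norm_num <;> linarith)⟩, bandS18⟩ }⟩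

theorem cellS19T {a b u : ℝ} (ha : 31 / 100 < a) (hd : 0 < b - a) (hI : 1 / 20 < allStabI a b)
    (hI7 : allStabI a b ≤ 1 / 7) (hu0 : (69 / 100 : ℝ) < u) (hu1 : u ≤ (153 / 200 : ℝ))
    (h00 : (1 / 20 : ℝ) ≤ allStabI a b) (h01 : allStabI a b < (27 / 200 : ℝ))
    (h10 : (11 / 100 : ℝ) ≤ (b - a)) (h11 : (b - a) < (7 / 40 : ℝ))
    (hk : (a + b) * allStabI a b ≤ (b - a) * (1 - allStabI a b)) : Cell a b u := by
  have hI0 : 0 < allStabI a b := by linarith
  have e : a + b = 1 - 2 * allStabI a b := by simp only [allStabI]; ring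
  exact ⟨pcS19, boxS19, winS19T, (31 / 50 : ℝ), (79 / 100 : ℝ), certS19, winS19T_ok,
    ⟨rfl, rfl, rfl, rfl, by norm_num [fr, winS19T, pcS19], by norm_num [fr, pcS19], by norm_num [boxS19],
      by norm_num [fr, pcS19]⟩,
    { r₀ := ⟨by norm_num [boxS19], by norm_num [mkPt, pcS19, boxS19] <;> linarith, by norm_num [mkPt, pcS19, boxS19] <;> linarith⟩
      r₁ := ⟨by norm_num [boxS19], by norm_num [mkPt, pcS19, boxS19] <;> linarith, by norm_num [mkPt, pcS19, boxS19] <;> linarith⟩
      ru := ⟨by norm_num [boxS19], by norm_num [boxS19] <;> linarith, by norm_num [boxS19] <;> linarith⟩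
      rw' := ⟨by norm_num [winS19T], by norm_num [winS19T] <;> linarith, by norm_num [winS19T] <;> linarith⟩
      kap := hk
      low := ⟨by norm_num, by linarith⟩
      high := by linarith
      y₀ := by norm_num [qLo, qHi, boxS19]
      y₁ := by norm_num [qLo, qHi, boxS19]
      tight := fun _ => (by linarith)
      exit := by show 67 / 100 ≤ u; linarith
      band := fun h => ⟨(138, 153, 200), ⟨by norm_num, (show _ < u by norm_num <;> linarith), (show u ≤ _ by norm_num <;> linarith)⟩, bandS19⟩ }⟩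

theorem cellS20L {a b u : ℝ} (ha : 31 / 100 < a) (hd : 0 < b - a) (hI : 1 / 20 < allStabI a b)
    (hI7 : allStabI a b ≤ 1 / 7) (hu0 : (27 / 50 : ℝ) < u) (hu1 : u ≤ (67 / 100 : ℝ))
    (h00 : (1 / 20 : ℝ) ≤ allStabI a b) (h01 : allStabI a b < (103 / 1000 : ℝ))
    (h10 : (7 / 40 : ℝ) ≤ (b - a)) (h11 : (b - a) < (7 / 25 : ℝ))
    (hk : (a + b) * allStabI a b ≤ (b - a) * (1 - allStabI a b)) : Cell a b u := by
  have hI0 : 0 < allStabI a b := by linarith
  have e : a + b = 1 - 2 * allStabI a b := by simp only [allStabI]; ring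
  exact ⟨pcS20, boxS20, winS20L, (31 / 50 : ℝ), (29 / 40 : ℝ), certS20, winS20L_ok,
    ⟨rfl, rfl, rfl, rfl, by norm_num [fr, winS20L, pcS20], by norm_num [fr, pcS20], by norm_num [boxS20],
      by norm_num [fr, pcS20]⟩,
    { r₀ := ⟨by norm_num [boxS20], by norm_num [mkPt, pcS20, boxS20] <;> linarith, by norm_num [mkPt, pcS20, boxS20] <;> linarith⟩
      r₁ := ⟨by norm_num [boxS20], by norm_num [mkPt, pcS20, boxS20] <;> linarith, by norm_num [mkPt, pcS20, boxS20] <;> linarith⟩
      ru := ⟨by norm_num [boxS20], by norm_num [boxS20] <;> linarith, by norm_num [boxS20] <;> linarith⟩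
      rw' := ⟨by norm_num [winS20L], by norm_num [winS20L] <;> linarith, by norm_num [winS20L] <;> linarith⟩
      kap := hk
      low := ⟨by norm_num, by linarith⟩
      high := by linarith
      y₀ := by norm_num [qLo, qHi, boxS20]
      y₁ := by norm_num [qLo, qHi, boxS20]
      tight := fun _ => (by linarith)
      exit := by show u ≤ 67 / 100; linarith
      band := fun h => ⟨(54, 67, 100), ⟨by norm_num, (show _ < u by norm_num <;> linarith), (show u ≤ _ by norm_num <;> linarith)⟩, bandS20⟩ }⟩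

theorem cellS21T {a b u : ℝ} (ha : 31 / 100 < a) (hd : 0 < b - a) (hI : 1 / 20 < allStabI a b)
    (hI7 : allStabI a b ≤ 1 / 7) (hu0 : (67 / 100 : ℝ) < u) (hu1 : u ≤ (153 / 200 : ℝ))
    (h00 : (1 / 20 : ℝ) ≤ allStabI a b) (h01 : allStabI a b < (103 / 1000 : ℝ))
    (h10 : (7 / 40 : ℝ) ≤ (b - a)) (h11 : (b - a) < (11 / 50 : ℝ))
    (hk : (a + b) * allStabI a b ≤ (b - a) * (1 - allStabI a b)) : Cell a b u := by
  have hI0 : 0 < allStabI a b := by linarith
  have e : a + b = 1 - 2 * allStabI a b := by simp only [allStabI]; ring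
  exact ⟨pcS21, boxS21, winS21T, (31 / 50 : ℝ), (29 / 40 : ℝ), certS21, winS21T_ok,
    ⟨rfl, rfl, rfl, rfl, by norm_num [fr, winS21T, pcS21], by norm_num [fr, pcS21], by norm_num [boxS21],
      by norm_num [fr, pcS21]⟩,
    { r₀ := ⟨by norm_num [boxS21], by norm_num [mkPt, pcS21, boxS21] <;> linarith, by norm_num [mkPt, pcS21, boxS21] <;> linarith⟩
      r₁ := ⟨by norm_num [boxS21], by norm_num [mkPt, pcS21, boxS21] <;> linarith, by norm_num [mkPt, pcS21, boxS21] <;> linarith⟩
      ru := ⟨by norm_num [boxS21], by norm_num [boxS21] <;> linarith, by norm_num [boxS21] <;> linarith⟩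
      rw' := ⟨by norm_num [winS21T], by norm_num [winS21T] <;> linarith, by norm_num [winS21T] <;> linarith⟩
      kap := hk
      low := ⟨by norm_num, by linarith⟩
      high := by linarith
      y₀ := by norm_num [qLo, qHi, boxS21]
      y₁ := by norm_num [qLo, qHi, boxS21]
      tight := fun _ => (by linarith)
      exit := by show 67 / 100 ≤ u; linarith
      band := fun h => ⟨(134, 153, 200), ⟨by norm_num, (show _ < u by norm_num <;> linarith), (show u ≤ _ by norm_num <;> linarith)⟩, bandS21⟩ }⟩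

theorem cellS22T {a b u : ℝ} (ha : 31 / 100 < a) (hd : 0 < b - a) (hI : 1 / 20 < allStabI a b)
    (hI7 : allStabI a b ≤ 1 / 7) (hu0 : (67 / 100 : ℝ) < u) (hu1 : u ≤ (153 / 200 : ℝ))
    (h00 : (1 / 20 : ℝ) ≤ allStabI a b) (h01 : allStabI a b < (2 / 25 : ℝ))
    (h10 : (11 / 50 : ℝ) ≤ (b - a)) (h11 : (b - a) < (7 / 25 : ℝ))
    (hk : (a + b) * allStabI a b ≤ (b - a) * (1 - allStabI a b)) : Cell a b u := by
  have hI0 : 0 < allStabI a b := by linarith
  have e : a + b = 1 - 2 * allStabI a b := by simp only [allStabI]; ring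
  exact ⟨pcS22, boxS22, winS22T, (31 / 50 : ℝ), (17 / 25 : ℝ), certS22, winS22T_ok,
    ⟨rfl, rfl, rfl, rfl, by norm_num [fr, winS22T, pcS22], by norm_num [fr, pcS22], by norm_num [boxS22],
      by norm_num [fr, pcS22]⟩,
    { r₀ := ⟨by norm_num [boxS22], by norm_num [mkPt, pcS22, boxS22] <;> linarith, by norm_num [mkPt, pcS22, boxS22] <;> linarith⟩
      r₁ := ⟨by norm_num [boxS22], by norm_num [mkPt, pcS22, boxS22] <;> linarith, by norm_num [mkPt, pcS22, boxS22] <;> linarith⟩
      ru := ⟨by norm_num [boxS22], by norm_num [boxS22] <;> linarith, by norm_num [boxS22] <;> linarith⟩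
      rw' := ⟨by norm_num [winS22T], by norm_num [winS22T] <;> linarith, by norm_num [winS22T] <;> linarith⟩
      kap := hk
      low := ⟨by norm_num, by linarith⟩
      high := by linarith
      y₀ := by norm_num [qLo, qHi, boxS22]
      y₁ := by norm_num [qLo, qHi, boxS22]
      tight := fun _ => (by linarith)
      exit := by show 67 / 100 ≤ u; linarith
      band := fun h => ⟨(134, 153, 200), ⟨by norm_num, (show _ < u by norm_num <;> linarith), (show u ≤ _ by norm_num <;> linarith)⟩, bandS22⟩ }⟩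

theorem cover_A {a b u : ℝ} (ha : 31 / 100 < a) (hd : 0 < b - a) (hI : 1 / 20 < allStabI a b)
    (hI7 : allStabI a b ≤ 1 / 7) (hu0 : 1 / 10 < u) (hu1 : u ≤ 153 / 200) (hk : (b - a) * (1 - allStabI a b) ≤ (a + b) * allStabI a b) : Cell a b u := by
  have hI0 : 0 < allStabI a b := by linarith
  have e : a + b = 1 - 2 * allStabI a b := by simp only [allStabI]; ring
  have hkA : (b - a) * (1 - allStabI a b) ≤ (1 - 2 * allStabI a b) * allStabI a b := e ▸ hk
  rcases le_or_gt u (1 / 4 : ℝ) with g2 | g2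
  · exact cellS0L ha hd hI hI7 (by linarith) (by linarith) (by linarith) (by linarith) (div_nonneg hd.le hI0.le) (ratio_A hkA (l := (1 / 20 : ℝ)) (by linarith) hI0 (by linarith) (by norm_num) (by norm_num)) hk
  · rcases le_or_gt u (9 / 20 : ℝ) with g4 | g4
    · exact cellS1L ha hd hI hI7 (by linarith) (by linarith) (by linarith) (by linarith) (div_nonneg hd.le hI0.le) (ratio_A hkA (l := (1 / 20 : ℝ)) (by linarith) hI0 (by linarith) (by norm_num) (by norm_num)) hk
    · rcases le_or_gt u (29 / 50 : ℝ) with g6 | g6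
      · exact cellS2L ha hd hI hI7 (by linarith) (by linarith) (by linarith) (by linarith) (div_nonneg hd.le hI0.le) (ratio_A hkA (l := (1 / 20 : ℝ)) (by linarith) hI0 (by linarith) (by norm_num) (by norm_num)) hk
      · rcases le_or_gt u (17 / 25 : ℝ) with g8 | g8
        · rcases lt_or_ge (allStabI a b) (23 / 200 : ℝ) with g10 | g10
          · rcases le_or_gt u (67 / 100) with g' | g'
            · exact cellS3L ha hd hI hI7 (by linarith) (by linarith) (by linarith) (by linarith) (div_nonneg hd.le hI0.le) (ratio_A hkA (l := (1 / 20 : ℝ)) (by linarith) hI0 (by linarith) (by norm_num) (by norm_num)) hk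
            · exact cellS3T ha hd hI hI7 (by linarith) (by linarith) (by linarith) (by linarith) (div_nonneg hd.le hI0.le) (ratio_A hkA (l := (1 / 20 : ℝ)) (by linarith) hI0 (by linarith) (by norm_num) (by norm_num)) hk
          · rcases le_or_gt u (67 / 100) with g' | g'
            · exact cellS4L ha hd hI hI7 (by linarith) (by linarith) (by linarith) (by linarith) (div_nonneg hd.le hI0.le) (ratio_A hkA (l := (23 / 200 : ℝ)) (by linarith) hI0 (by linarith) (by norm_num) (by norm_num)) hk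
            · exact cellS4T ha hd hI hI7 (by linarith) (by linarith) (by linarith) (by linarith) (div_nonneg hd.le hI0.le) (ratio_A hkA (l := (23 / 200 : ℝ)) (by linarith) hI0 (by linarith) (by norm_num) (by norm_num)) hk
        · rcases lt_or_ge (allStabI a b) (101 / 1000 : ℝ) with g10 | g10
          · exact cellS5T ha hd hI hI7 (by linarith) (by linarith) (by linarith) (by linarith) (div_nonneg hd.le hI0.le) (ratio_A hkA (l := (1 / 20 : ℝ)) (by linarith) hI0 (by linarith) (by norm_num) (by norm_num)) hk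
          · rcases lt_or_ge (allStabI a b) (61 / 500 : ℝ) with g12 | g12
            · exact cellS6T ha hd hI hI7 (by linarith) (by linarith) (by linarith) (by linarith) (div_nonneg hd.le hI0.le) (ratio_A hkA (l := (101 / 1000 : ℝ)) (by linarith) hI0 (by linarith) (by norm_num) (by norm_num)) hk
            · rcases lt_or_ge ((b - a) / allStabI a b) (3 / 10) with gx | gx
              · exact cellS7T ha hd hI hI7 (by linarith) (by linarith) (by linarith) (by linarith) (div_nonneg hd.le hI0.le) gx hk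
              · exact cellS8T ha hd hI hI7 (by linarith) (by linarith) (by linarith) (by linarith) (by linarith) (ratio_A hkA (l := (61 / 500 : ℝ)) (by linarith) hI0 (by linarith) (by norm_num) (by norm_num)) hk

theorem cover_B0 {a b u : ℝ} (ha : 31 / 100 < a) (hd : 0 < b - a) (hI : 1 / 20 < allStabI a b)
    (hI7 : allStabI a b ≤ 1 / 7) (hu0 : 1 / 10 < u) (hu1 : u ≤ 153 / 200) (hk : (a + b) * allStabI a b < (b - a) * (1 - allStabI a b)) (hv : u ≤ 1 / 4) : Cell a b u := by
  have hI0 : 0 < allStabI a b := by linarith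
  have e : a + b = 1 - 2 * allStabI a b := by simp only [allStabI]; ring
  have hkB : (1 - 2 * allStabI a b) * allStabI a b < (b - a) * (1 - allStabI a b) := e ▸ hk
  have hdl := d_low hkB hI hI7
  rcases lt_or_ge (b - a) (3 / 25 : ℝ) with g2 | g2
  · exact cellS9L ha hd hI hI7 (by linarith) (by linarith) (by linarith) (by linarith) (by rw [le_div_iff₀ hd]; linarith) (ratio_B hkB hI0 hI7 hd) hk.le
  · rcases lt_or_ge (b - a) (21 / 100 : ℝ) with g4 | g4
    · exact cellS10L ha hd hI hI7 (by linarith) (by linarith) (by linarith) (by linarith) (by linarith) (by linarith) hk.le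
    · exact cellS11L ha hd hI hI7 (by linarith) (by linarith) (by linarith) (by linarith) (by linarith) (by linarith) hk.le

theorem cover_B1 {a b u : ℝ} (ha : 31 / 100 < a) (hd : 0 < b - a) (hI : 1 / 20 < allStabI a b)
    (hI7 : allStabI a b ≤ 1 / 7) (hu0 : 1 / 10 < u) (hu1 : u ≤ 153 / 200) (hk : (a + b) * allStabI a b < (b - a) * (1 - allStabI a b)) (hw : 1 / 4 < u) (hv : u ≤ 27 / 50) : Cell a b u := by
  have hI0 : 0 < allStabI a b := by linarith
  have e : a + b = 1 - 2 * allStabI a b := by simp only [allStabI]; ring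
  have hkB : (1 - 2 * allStabI a b) * allStabI a b < (b - a) * (1 - allStabI a b) := e ▸ hk
  have hdl := d_low hkB hI hI7
  rcases lt_or_ge (b - a) (11 / 100 : ℝ) with g2 | g2
  · exact cellS12L ha hd hI hI7 (by linarith) (by linarith) (by linarith) (by linarith) (by rw [le_div_iff₀ hd]; linarith) (ratio_B hkB hI0 hI7 hd) hk.le
  · rcases lt_or_ge (b - a) (3 / 20 : ℝ) with g4 | g4
    · exact cellS13L ha hd hI hI7 (by linarith) (by linarith) (by linarith) (by linarith) (by linarith) (by linarith) hk.le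
    · exact cellS14L ha hd hI hI7 (by linarith) (by linarith) (by linarith) (by linarith) (by linarith) (by linarith) hk.le

theorem cover_B2 {a b u : ℝ} (ha : 31 / 100 < a) (hd : 0 < b - a) (hI : 1 / 20 < allStabI a b)
    (hI7 : allStabI a b ≤ 1 / 7) (hu0 : 1 / 10 < u) (hu1 : u ≤ 153 / 200) (hk : (a + b) * allStabI a b < (b - a) * (1 - allStabI a b)) (hw : 27 / 50 < u) : Cell a b u := by
  have hI0 : 0 < allStabI a b := by linarith
  have e : a + b = 1 - 2 * allStabI a b := by simp only [allStabI]; ring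
  have hkB : (1 - 2 * allStabI a b) * allStabI a b < (b - a) * (1 - allStabI a b) := e ▸ hk
  have hdl := d_low hkB hI hI7
  rcases lt_or_ge (b - a) (3 / 40 : ℝ) with g2 | g2
  · rcases le_or_gt u (67 / 100) with g' | g'
    · exact cellS15L ha hd hI hI7 (by linarith) (by linarith) (by linarith) (by linarith) (by rw [le_div_iff₀ hd]; linarith) (ratio_B hkB hI0 hI7 hd) hk.le
    · exact cellS15T ha hd hI hI7 (by linarith) (by linarith) (by linarith) (by linarith) (by rw [le_div_iff₀ hd]; linarith) (ratio_B hkB hI0 hI7 hd) hk.le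
  · rcases lt_or_ge (b - a) (11 / 100 : ℝ) with g4 | g4
    · rcases le_or_gt u (69 / 100 : ℝ) with g6 | g6
      · rcases le_or_gt u (67 / 100) with g' | g'
        · exact cellS16L ha hd hI hI7 (by linarith) (by linarith) (by linarith) (by linarith) (by rw [le_div_iff₀ hd]; linarith) (ratio_B hkB hI0 hI7 hd) hk.le
        · exact cellS16T ha hd hI hI7 (by linarith) (by linarith) (by linarith) (by linarith) (by rw [le_div_iff₀ hd]; linarith) (ratio_B hkB hI0 hI7 hd) hk.le
      · exact cellS17T ha hd hI hI7 (by linarith) (by linarith) (by linarith) (by linarith) (by rw [le_div_iff₀ hd]; linarith) (ratio_B hkB hI0 hI7 hd) hk.le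
    · rcases lt_or_ge (b - a) (7 / 40 : ℝ) with g6 | g6
      · rcases le_or_gt u (69 / 100 : ℝ) with g8 | g8
        · rcases le_or_gt u (67 / 100) with g' | g'
          · exact cellS18L ha hd hI hI7 (by linarith) (by linarith) (by linarith) (by linarith) (by linarith) (by linarith) hk.le
          · exact cellS18T ha hd hI hI7 (by linarith) (by linarith) (by linarith) (by linarith) (by linarith) (by linarith) hk.le
        · exact cellS19T ha hd hI hI7 (by linarith) (by linarith) (by linarith) (by linarith) (by linarith) (by linarith) hk.le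
      · rcases le_or_gt u (67 / 100 : ℝ) with g8 | g8
        · exact cellS20L ha hd hI hI7 (by linarith) (by linarith) (by linarith) (by linarith) (by linarith) (by linarith) hk.le
        · rcases lt_or_ge (b - a) (11 / 50 : ℝ) with g10 | g10
          · exact cellS21T ha hd hI hI7 (by linarith) (by linarith) (by linarith) (by linarith) (by linarith) (by linarith) hk.le
          · exact cellS22T ha hd hI hI7 (by linarith) (by linarith) (by linarith) (by linarith) (by linarith) (by linarith) hk.le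

/-- **Every point of the band has a cell.** -/
theorem cellsCover : CellsCover (153 / 200) := by
  intro a b u ha hd hI hI7 hu0 hu1
  rcases le_or_gt ((b - a) * (1 - allStabI a b)) ((a + b) * allStabI a b) with hk | hk
  · exact cover_A ha hd hI hI7 hu0 hu1 hk
  · rcases le_or_gt u (1 / 4) with h | h
    · exact cover_B0 ha hd hI hI7 hu0 hu1 hk h
    · rcases le_or_gt u (27 / 50) with g | g
      · exact cover_B1 ha hd hI hI7 hu0 hu1 hk h g
      · exact cover_B2 ha hd hI hI7 hu0 hu1 hk g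

end Vale.Agent.P100.Calib.StripMid
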