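import Vale.Agent.P100.Calib.SlabMainThree
import Vale.Agent.P100.Calib.SlabSignsMidNeg
import Vale.Agent.P100.Calib.SlabMidSignsZone
import Vale.Agent.P100.Calib.SlabMainStrip
import Vale.Agent.P100.Calib.SlabStripMidSevCells
import Vale.Agent.P100.Calib.SlabStripMidSevFarOrbit

/-!
# The conjecture in the dimensions from seven to twenty from the pending regions
-/

set_option linter.unusedVariables false

open Set Laplacian

namespace Vale.Agent.P100.Calib.Band

open Vale.Agent.P100.Bubble Chart Closed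

variable {n : ℕ}

/-- The signs at and below the crossing for the dimensions from seven to twenty. -/
theorem orbit_signs_mid_neg (hn : 7 ≤ n) (hn' : n < 20) : OrbitSignsSlope n ZoneNeg := by
  intro N p q S R x y s dx dy hc hf hb hcb ha z hz hκ hR
  have hd := hb.dim_eq
  have h7 : 7 ≤ N := by
    have h := hcb.dim_low
    rw [← hd] at h
    have : (7 : ℝ) ≤ n := by exact_mod_cast hn
    linarith
  have h20 : N < 20 := by
    have h := hcb.dim_high hn'
    rw [← hd] at h
    exact h
  exact All.signsNeg_mid hn hn' hcb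
    (by rw [show (1 / (p + 1) + 1 / (q + 1) - (1 / (q + 1) - 1 / (p + 1))) / 2 = 1 / (p + 1) by
      ring]; exact ha)
    (div_nonpos_of_nonpos_of_nonneg
      (mul_nonpos_of_nonpos_of_nonneg (mul_nonpos_of_nonneg_of_nonpos two_pos.le hR)
        (hf.x_pos z hz).le) (by linarith [hb.six]))
    (orbit_midNeg hc hf hb h7 h20 ha hz hR hκ)

/-- The signs of the strip on `1/10 < u ≤ 153/200` for the dimensions from seven to twenty. -/
theorem orbit_signs_strip_mid_low (hn : 7 ≤ n) (hn' : n < 20) :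
    OrbitSignsStrip n ZoneStripMid := by
  intro N p q R₀ R x y s dx dy hc hf hb hcb ha z hz hκ hZ
  obtain ⟨hR, hu0, hu1⟩ := hZ
  have hn7 : (7 : ℝ) ≤ n := by exact_mod_cast hn
  have hn19 : (n : ℝ) ≤ 19 := by exact_mod_cast (show n ≤ 19 by omega)
  have hlo := hcb.dim_low
  have hhi := hcb.dim_high (by omega)
  rw [← hb.dim_eq] at hlo hhi
  exact StripMid.orbit_signs_sev (by norm_num) StripMid.cellsCover hc hf hb (by linarith)
    (by linarith) ha hcb hz hR hu0 hu1

/-- **The conjecture in the dimensions from seven to twenty** from the pending regions. -/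
theorem lane_emden_seven_to_twenty_of (hn : 7 ≤ n) (hn' : n < 20)
    (mB : OrbitSignsSlope n (ZoneBetween (3 / 5) (39 / 40)))
    (mE : OrbitSignsSlope n (ZoneFrom (39 / 40)))
    (sF : OrbitSignsStrip n (ZoneFrom (4 / 5)))
    {p q : ℝ} (hp : 0 < p) (hq : 0 < q)
    (hsub : ((n : ℝ) - 2) / n < 1 / (p + 1) + 1 / (q + 1)) :
    ¬ ∃ u v : EuclideanSpace ℝ (Fin n) → ℝ,
      Continuous u ∧ Continuous v ∧ ContDiffOn ℝ 2 u {0}ᶜ ∧ ContDiffOn ℝ 2 v {0}ᶜ ∧
      (∀ x, 0 < u x) ∧ (∀ x, 0 < v x) ∧ (∀ x, x ≠ 0 → Δ u x = -(v x) ^ p) ∧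
      (∀ x, x ≠ 0 → Δ v x = -(u x) ^ q) := by
  exact lane_emden_of_orbit_signs (by omega)
    (orbit_signs_slope_three (orbit_signs_mid_neg hn hn')
      ((orbit_signs_zone_low_mid hn hn').mono mB fun r u h => (le_or_gt u (3 / 5)).imp (fun e => ⟨h.1, e⟩)
        fun e => ⟨h.1, e.le, h.2⟩) mE)
    (orbit_signs_strip_all hn (orbit_signs_strip_mid_low hn hn')
      (orbit_signs_strip_from (orbit_signs_strip_mid_low hn hn')
        (StripMid.orbit_signs_strip_far7 hn hn') sF)) hp hq hsub

end Vale.Agent.P100.Calib.Band
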