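import Vale.Agent.P100.Calib.SlabAllRungs

/-!
# Exit barriers up to the end of the tail

`exit_end_all` is the exit barrier whose end condition is only asked near `u = 1`, `u h = 1`,
and only up to an error; the conclusion is weak.
-/

open Set Filter Topology

namespace Vale.Agent.P100.Calib.Band

open Vale.Agent.P100.Bubble Chart

variable {N p q : ℝ} {S : Set ℝ} {R x y s dx dy : ℝ → ℝ}

/-- Near the end `u` is close to one and so is `u h`. -/
theorem orbit_end_near (hf : IsOrbitFns N p q S R x y s dx dy)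
    (hb : SlabBoxAll N (1 / (p + 1)) (1 / (q + 1))) {z δ : ℝ} (hz : z ∈ S) (hz0 : 0 < R z)
    (hδ : 0 < δ) : ∃ u₁, uOf N (R z) (x z) ≤ u₁ ∧ u₁ < 1 ∧ 1 - δ < u₁ ∧
      ∀ t ∈ S, 0 < R t → uOf N (R t) (x t) = u₁ →
        1 - uOf N (R t) (x t) * hOf N (R t) (x t) (y t) t < δ := by
  obtain ⟨z₀, hz₀, hR⟩ := hf.crossing
  have hS0 : z₀ ∈ S := hf.cover ⟨hz₀.1, hz₀.2.le⟩
  have hlt : ∀ t ∈ S, 0 < R t → t < z₀ := fun t ht ht0 => by
    refine not_le.1 fun h => ?_
    have := hf.anti.antitoneOn hS0 ht h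
    linarith
  have hlo : 0 < min δ z := lt_min hδ (hf.pos hz)
  have hsub : Icc (min δ z) z₀ ⊆ S := fun t ht =>
    hf.cover ⟨lt_of_lt_of_le hlo ht.1, ht.2.trans hz₀.2.le⟩
  have hc : ContinuousOn (fun t => uOf N (R t) (x t)) (Icc (min δ z) z₀) := by
    simp only [uOf]
    exact (((continuousOn_const.mul hf.smooth.1.continuousOn).mul
      hf.smooth.2.1.continuousOn).div_const _).mono hsub
  obtain ⟨m, hm, hmax⟩ := (isCompact_Icc (a := min δ z) (b := z₀)).exists_isMaxOn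
    ⟨z, min_le_right _ _, (hlt z hz hz0).le⟩ hc
  have hm1 : uOf N (R m) (x m) < 1 := by
    have h0 : 0 ≤ R m := hR ▸ hf.anti.antitoneOn (hsub hm) hS0 hm.2
    rcases h0.eq_or_lt with h | h
    · simp [uOf, ← h]
    · exact (orbit_point_all hf hb (hsub hm) h).1.u_lt
  obtain ⟨u₁, h1, h2⟩ := exists_between (show max (max (uOf N (R m) (x m)) (1 - δ))
    (uOf N (R z) (x z)) < 1 from
      max_lt (max_lt hm1 (by linarith)) (orbit_point_all hf hb hz hz0).1.u_lt)
  simp only [max_lt_iff] at h1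
  refine ⟨u₁, h1.2.le, h2, h1.1.2, fun t ht ht0 htu => ?_⟩
  have htd : t < δ := by
    refine not_le.1 fun h => ?_
    have h' : uOf N (R t) (x t) ≤ uOf N (R m) (x m) :=
      hmax ⟨(min_le_left _ _).trans h, (hlt t ht ht0).le⟩
    linarith [h1.1.1]
  have hx := hf.x_pos t ht
  have hyx := ((hf.band t ht).2.1 ht0).2
  have hN : N - 2 ≠ 0 := by linarith [hb.five]
  have e : uOf N (R t) (x t) * hOf N (R t) (x t) (y t) t = 1 - t * (y t / x t) := by
    simp only [uOf, hOf]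
    field_simp
  have h3 : t * (y t / x t) ≤ t :=
    mul_le_of_le_one_right (hf.pos ht).le ((div_le_one hx).2 hyx.le)
  rw [e]
  linarith

/-- **An exit barrier up to the end**: before `u₀ - η` nothing but `F > -M` is asked. -/
theorem exit_end_all (hf : IsOrbitFns N p q S R x y s dx dy)
    (hb : SlabBoxAll N (1 / (p + 1)) (1 / (q + 1))) {u₀ η M : ℝ} (hη : 0 < η) (hM : 0 ≤ M)
    {F Fu Fv Fh : ℝ → ℝ → ℝ → ℝ} (hF : HasGrad F Fu Fv Fh) (E : ℝ → ℝ → ℝ → Prop)
    (hE : ∀ w ∈ S, 0 < R w →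
      E (uOf N (R w) (x w)) (vOf (1 / (p + 1)) (1 / (q + 1)) (y w / x w))
        (hOf N (R w) (x w) (y w) w / (1 / (q + 1) - 1 / (p + 1))))
    (hlow : ∀ u v H, AllPoint N (1 / (p + 1)) (1 / (q + 1)) u v H → u ≤ u₀ - η → E u v H →
      -M < F u v H)
    (hend : ∀ ε : ℝ, 0 < ε → ∃ δ, 0 < δ ∧ ∀ u v H,
      AllPoint N (1 / (p + 1)) (1 / (q + 1)) u v H → E u v H → 1 - δ < u →
      1 - u * ((1 / (q + 1) - 1 / (p + 1)) * H) < δ → -ε < F u v H)
    (hsign : ∀ u v H, AllPoint N (1 / (p + 1)) (1 / (q + 1)) u v H →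
      0 < allEn (1 / (p + 1)) (1 / (q + 1)) u v H → u₀ - η < u → E u v H → F u v H ≤ 0 →
      allDot (1 / (p + 1)) (1 / (q + 1)) u v H (Fu u v H) (Fv u v H) (Fh u v H) < 0)
    {w : ℝ} (hw : w ∈ S) (hw0 : 0 < R w) (hwu : u₀ ≤ uOf N (R w) (x w)) :
    0 ≤ F (uOf N (R w) (x w)) (vOf (1 / (p + 1)) (1 / (q + 1)) (y w / x w))
      (hOf N (R w) (x w) (y w) w / (1 / (q + 1) - 1 / (p + 1))) := by
  obtain ⟨ha, hb', hd, -⟩ := hb.facts
  refine le_of_forall_pos_lt_add fun ε hε => ?_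
  obtain ⟨δ, hδ, hδ'⟩ := hend ε hε
  obtain ⟨u₁, h1, h2, h3, h4⟩ := orbit_end_near hf hb hw hw0 hδ
  set K := M / η ^ 2 with hK
  have hK0 : 0 ≤ K := by positivity
  have key := exit_step_all hf hb h2
    (F := fun u v H => F u v H + K * max 0 (u₀ - u) ^ 2 + ε)
    (Fu := fun u v H => Fu u v H + K * (-(2 * max 0 (u₀ - u)))) (Fv := Fv) (Fh := Fh)
    (fun u v H du dv dh t hu hv hh => (((hF u v H du dv dh t hu hv hh).fun_add
      (((hasDerivAt_max_sq (u₀ - u t)).comp t (hu.const_sub u₀)).const_mul K)).add_const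
        ε).congr_deriv (by ring))
    (fun u v H => E u v H ∧
      (u = u₁ → 1 - u * ((1 / (q + 1) - 1 / (p + 1)) * H) < δ))
    (fun z hz hz0 _ => ⟨hE z hz hz0, fun hzu => by
      rw [mul_div_cancel₀ _ hd.ne']; exact h4 z hz hz0 hzu⟩)
    (fun v H hP _ hE' => ?_) (fun u v H hP he hu hE' hG => ?_) hw hw0 h1
  · rw [max_eq_left (sub_nonpos.2 hwu), zero_pow two_ne_zero, mul_zero, add_zero] at key
    exact key
  · have := hδ' u₁ v H hP hE'.1 h3 (hE'.2 rfl)
    have : 0 ≤ K * max 0 (u₀ - u₁) ^ 2 := by positivity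
    linarith
  · have hsq : 0 ≤ K * max 0 (u₀ - u) ^ 2 := by positivity
    have hu0 : u₀ - η < u := by
      refine not_le.1 fun h => ?_
      have hl := hlow u v H hP h hE'.1
      have hm : K * η ^ 2 ≤ K * max 0 (u₀ - u) ^ 2 :=
        mul_le_mul_of_nonneg_left (pow_le_pow_left₀ hη.le
          (le_trans (by linarith) (le_max_right 0 (u₀ - u))) 2) hK0
      rw [hK, div_mul_cancel₀ _ (pow_ne_zero 2 hη.ne')] at hm
      linarith
    have hs := hsign u v H hP he hu0 hE'.1 (by linarith)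
    have hneg : 0 ≤ K * (2 * max 0 (u₀ - u)) * (u * allEn (1 / (p + 1)) (1 / (q + 1)) u v H) :=
      mul_nonneg (mul_nonneg hK0 (mul_nonneg two_pos.le (le_max_left _ _)))
        (mul_nonneg hP.u_pos.le he.le)
    simp only [allDot] at hs ⊢
    linarith

end Vale.Agent.P100.Calib.Band
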