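import Vale.Agent.P100.Calib.SlabMidRungExpr

/-!
# Packed signs for the rungs in the dimensions from thirteen to twenty
-/

namespace Vale.Agent.P100.Calib.Band.AllLow

open Pack

set_option linter.defProp false

/-- The exit condition at its zero, part 0. -/
def rung_top0 :
    checkFour (midBox 930 1000 98 164 50 63 50 75) 560 5 2 9 7 (eRungTop 9) = true := by
  decide +kernel

/-- The exit condition at its zero, part 1. -/
def rung_top1 :
    checkFour (midBox 930 1000 98 164 63 77 62 75) 560 5 2 9 7 (eRungTop 6) = true := by
  decide +kernel

/-- The exit condition at its zero, part 2. -/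
def rung_top2 :
    checkFour (midBox 930 1000 164 193 50 77 50 75) 560 5 2 9 7 (eRungTop 11) = true := by
  decide +kernel

/-- The exit condition at its zero, part 3. -/
def rung_top3 :
    checkFour (midBox 930 1000 98 164 50 77 75 88) 560 5 2 9 7 (eRungTop 5) = true := by
  decide +kernel

/-- The exit condition at its zero, part 4. -/
def rung_top4 :
    checkFour (midBox 930 1000 164 193 50 77 75 88) 560 5 2 9 7 (eRungTop 8) = true := by
  decide +kernel

/-- The exit condition at its zero, part 5. -/
def rung_top5 :
    checkFour (midBox 930 1000 98 172 50 77 88 101) 560 5 2 9 7 (eRungTop 5) = true := by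
  decide +kernel

/-- The exit condition at its zero, part 6. -/
def rung_top6 :
    checkFour (midBox 930 1000 172 193 50 77 88 101) 560 5 2 9 7 (eRungTop 7) = true := by
  decide +kernel

/-- The exit condition at its zero, part 7. -/
def rung_top7 :
    checkFour (midBox 930 1000 98 180 50 77 100 117) 560 5 2 9 7 (eRungTop 5) = true := by
  decide +kernel

/-- The exit condition at its zero, part 8. -/
def rung_top8 :
    checkFour (midBox 930 1000 180 193 50 77 100 117) 560 5 2 9 7 (eRungTop 6) = true := by
  decide +kernel

/-- The exit condition at its zero, part 9. -/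
def rung_top9 :
    checkFour (midBox 930 1000 98 180 50 77 116 123) 560 5 2 9 7 (eRungTop 3) = true := by
  decide +kernel

/-- The exit condition at its zero, part 10. -/
def rung_top10 :
    checkFour (midBox 930 1000 180 197 50 77 116 123) 560 5 2 9 7 (eRungTop 5) = true := by
  decide +kernel

/-- The exit condition at the lower band. -/
def rung_bot :
    checkFour (midBox 930 1000 98 197 50 77 50 123) 900 9 2 12 9 eRungBot = true := by
  decide +kernel

/-- The slope of the lower band. -/
def rung_K_pos :
    checkFour (midBox 930 1000 100 101 50 77 50 123) 200 2 0 2 1 eRungK = true := by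
  decide +kernel

/-- The entry, `X` below `71/50`. -/
def rung_entry0 :
    checkFour (midBox 930 941 98 142 50 77 50 123) 560 4 2 6 4 (eRungEntry 0) = true := by
  decide +kernel

/-- The entry, `X` above `71/50`. -/
def rung_entry1 :
    checkFour (midBox 930 941 142 197 50 77 50 123) 560 4 2 6 4 (eRungEntry 11) = true := by
  decide +kernel

/-- The forward condition at its zero. -/
def rung_fwd :
    checkFour (midBox 940 1000 100 101 50 77 50 123) 900 5 0 12 8 eRungFwd = true := by
  decide +kernel

end Vale.Agent.P100.Calib.Band.AllLow
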