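import Vale.Agent.P100.Calib.SlabMidBands
import Vale.Agent.P100.Calib.SlabAllEndExit
import Vale.Agent.P100.Calib.SlabMidRungCert

/-!
# The rungs at the end of the tail in the dimensions from thirteen to twenty

For `1/(p+1) ≤ 61/500` and `47/50 ≤ u < 1`, with `I = 1/N`, `d = b - a` and `w = 1 - u`, orbits have
`1 - I w (5/2 + 6 a)/d ≤ H (b - u a)` and `(1 - (1 - 2 I) d X) d < 7 (a + 2 I) w`.
-/

open Set Filter Topology

namespace Vale.Agent.P100.Calib.Band

open Vale.Agent.P100.Bubble Chart

/-- **The exit function.** -/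
noncomputable def midRungLow (a b u H : ℝ) : ℝ :=
  H * (b - u * a) - 1 + allStabI a b / (2 * (b - a)) * ((1 - u) * (5 + 12 * a))

/-- Its derivative in `u`. -/
noncomputable def midRungLowU (a b H : ℝ) : ℝ :=
  -(a * H) - allStabI a b / (2 * (b - a)) * (5 + 12 * a)

/-- **The forward function.** -/
noncomputable def midRungF (a b u v : ℝ) : ℝ :=
  (a + b) * (b - a) ^ 2 * v - 2 * allStabI a b * (b - a) +
    14 * allStabI a b * ((a + 2 * allStabI a b) * (1 - u))

theorem hasGrad_midRungLow (a b : ℝ) :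
    HasGrad (fun u _ H => midRungLow a b u H) (fun _ _ H => midRungLowU a b H)
      (fun _ _ _ => 0) (fun u _ _ => b - u * a) := by
  intro u v H du dv dh t hu _ hh
  refine (((hh.fun_mul ((hu.mul_const a).const_sub b)).sub_const 1).fun_add
    (((hu.const_sub 1).mul_const (5 + 12 * a)).const_mul
      (allStabI a b / (2 * (b - a))))).congr_deriv ?_
  simp only [midRungLowU]
  ring

theorem hasGrad_midRungF (a b : ℝ) :
    HasGrad (fun u v _ => midRungF a b u v)
      (fun _ _ _ => -(14 * allStabI a b * (a + 2 * allStabI a b)))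
      (fun _ _ _ => (a + b) * (b - a) ^ 2) (fun _ _ _ => 0) := by
  intro u v H du dv dh t hu hv _
  refine (((hv.const_mul ((a + b) * (b - a) ^ 2)).sub_const _).fun_add
    (((hu.const_sub 1).const_mul (a + 2 * allStabI a b)).const_mul
      (14 * allStabI a b))).congr_deriv ?_
  ring

theorem continuous_midRungF (a b : ℝ) :
    Continuous fun w : ℝ × ℝ × ℝ => midRungF a b w.1 w.2.1 := by
  simp only [midRungF]
  fun_prop

namespace AllLow

open Pack

local instance rungUseAdd : Add Pack.Ex := ⟨Ex.add⟩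
local instance rungUseSub : Sub Pack.Ex := ⟨Ex.sub⟩
local instance rungUseMul : Mul Pack.Ex := ⟨Ex.mul⟩

/-- The exit condition. -/
noncomputable def rungT (a b u v H : ℝ) : ℝ :=
  allDot a b u v H (midRungLowU a b H) 0 (b - u * a)

/-- The exit condition is convex in `H`. -/
theorem rungT_convex {a b u v H A B : ℝ} (ha : 0 ≤ a) (hd : 0 ≤ b - a) (hS : a + b ≤ 2)
    (hv : 0 ≤ v) (hav : a * v ≤ 1) (hu : 0 ≤ u) (hu1 : u ≤ 1) (hA : A < H) (hB : H ≤ B)
    (tA : rungT a b u v A < 0) (tB : rungT a b u v B < 0) : rungT a b u v H < 0 := by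
  simp only [rungT, midRungLowU] at tA tB ⊢
  generalize allStabI a b / (2 * (b - a)) * (5 + 12 * a) = C at tA tB ⊢
  have hb : 0 ≤ b := by linarith
  have hdv : 0 ≤ (b - a) * v := by positivity
  have hw : 0 ≤ b - u * a := by linarith [mul_le_mul_of_nonneg_right hu1 ha]
  have key : 0 ≤ allQn a b u v - (a + b) * (1 - u) * b := by
    have e : allQn a b u v - (a + b) * (1 - u) * b =
        (1 - u) * ((2 - (a + b)) * b + b * ((b - a) * v)) + u * ((b - a) * (1 - a * v)) := by
      simp only [allQn]; ring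
    rw [e]
    exact add_nonneg (mul_nonneg (by linarith) (add_nonneg (mul_nonneg (by linarith) hb)
      (mul_nonneg hb hdv))) (mul_nonneg hu (mul_nonneg hd (by linarith)))
  have hq : 0 ≤ allQn a b u v := by
    linarith [mul_nonneg (mul_nonneg (show 0 ≤ a + b by linarith)
      (show (0 : ℝ) ≤ 1 - u by linarith)) hb]
  set e₁ := u * (b - a) * (allQn a b u v - (a + b) * (1 - u) * b) with he
  set f₁ := allQn a b u v + (a + b) * (1 - a * v) * (u * (b - a)) +
    (a + b) * v * (u * (b - a)) with hf
  set T : ℝ → ℝ := fun K => allDot a b u v K (-(a * K) - C) 0 (b - u * a) with hT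
  have e : (B - A) * T H = (B - H) * T A + (H - A) * T B -
      (a * u * e₁ + (b - u * a) * (u * (b - a) * f₁ + e₁)) * ((H - A) * (B - H) * (B - A)) := by
    simp only [hT, he, hf, allDot, allEn, allFlow, allFh, allDen]
    ring
  have h0 : 0 ≤ e₁ := by rw [he]; positivity
  have h1 : 0 ≤ 1 - a * v := by linarith
  have h2 : 0 ≤ f₁ := by rw [hf]; positivity
  have h3 : 0 ≤ (a * u * e₁ + (b - u * a) * (u * (b - a) * f₁ + e₁)) *
      ((H - A) * (B - H) * (B - A)) :=
    mul_nonneg (by positivity) (mul_nonneg (mul_nonneg (by linarith) (by linarith)) (by linarith))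
  have h4 : (B - H) * T A ≤ 0 := mul_nonpos_of_nonneg_of_nonpos (by linarith) tA.le
  have h5 : (H - A) * T B < 0 := mul_neg_of_pos_of_neg (by linarith) tB
  show T H < 0
  exact neg_of_mul_neg_right (a := B - A) (by rw [e]; linarith) (by linarith)

/-- The speed rises with `H`. -/
theorem allFlow_mono {a b u v H G : ℝ} (ha : 0 ≤ a) (hd : 0 ≤ b - a) (hu : 0 ≤ u)
    (hav : a * v ≤ 1) (hQ : 0 ≤ allQn a b u v) (hH : G ≤ H) :
    allFlow a b u v G ≤ allFlow a b u v H := by
  have e : allFlow a b u v H - allFlow a b u v G =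
      (H - G) * (allQn a b u v + (a + b) * (1 - a * v) * (u * (b - a))) := by
    simp only [allFlow, allDen]; ring
  have h1 : 0 ≤ 1 - a * v := by linarith
  have h2 : 0 ≤ H - G := by linarith
  have h3 : 0 ≤ a + b := by linarith
  rw [← sub_nonneg, e]
  positivity

theorem allQn_nonneg {a b u v : ℝ} (ha : 0 ≤ a) (hd : 0 ≤ b - a) (hS : a + b ≤ 2)
    (hv : 0 ≤ v) (hav : a * v ≤ 1) (hu : 0 ≤ u) (hu1 : u ≤ 1) : 0 ≤ allQn a b u v := by
  have e' : allQn a b u v = (1 - u) * (b * (2 + (b - a) * v)) + u * ((b - a) * (1 - a * v)) := by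
    simp only [allQn]; ring
  have hb : 0 ≤ b := by linarith
  have h1 : 0 ≤ 1 - a * v := by linarith
  have h2 : 0 ≤ 1 - u := by linarith
  rw [e']; positivity

section eval

variable {a b I u X : ℝ}

/-- The values of the forms at `n/g`. -/
theorem eval_rung_at {tN tG : Pack.Ex} {n g : ℝ} (hb : b = 1 - 2 * I - a)
    (hn : tN.eval (stabPt u X I a) = n) (hg : tG.eval (stabPt u X I a) = g) (hg0 : g ≠ 0) :
    (eEndEn tN tG eMI eMA).eval (stabPt u X I a) = allEn a b u (2 * I * X) (n / g) * g ∧
      (eEndFh tN tG eMI eMA).eval (stabPt u X I a) =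
        allFh a b u (2 * I * X) (n / g) * g ^ 2 := by
  obtain ⟨vU, vI, vA, vS, vB, vD, vV, -, -, -, -, -⟩ :=
    eval_mid_base (u := u) (X := X) midLowA hb
  have vw : eEndW.eval (stabPt u X I a) = 1 - u := by
    simp only [eEndW, eval_sub', eval_num', vU]; norm_num
  have vQn : (eQn eMI eMA).eval (stabPt u X I a) = allQn a b u (2 * I * X) := by
    simp only [eQn, eDV, allQn, eval_add', eval_sub', eval_mul', eval_num', vS, vB, vD, vV, vU]
    push_cast; ring
  constructor <;>
    simp only [eEndEn, eEndFh, eEndFlow, eEndDen, eDV, eval_add', eval_sub', eval_mul', eval_num',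
      vU, vS, vB, vD, vV, vA, vw, vQn, hn, hg, allEn, allFh, allFlow, allDen] <;>
    generalize allQn a b u (2 * I * X) = Q <;> push_cast <;> field_simp <;> ring

/-- The upper end from a box. -/
theorem rung_top_box (hP : MidPlace a I X) (hb : b = 1 - 2 * I - a) (hu1 : u < 1)
    {u₀ u₁ X₀ X₁ I₀ I₁ a₀ a₁ l : ℤ} (hl : 0 ≤ l)
    (h : checkFour (midBox u₀ u₁ X₀ X₁ I₀ I₁ a₀ a₁) 560 5 2 9 7 (eRungTop l) = true)
    (g : ((u₀ : ℝ) ≤ u * 1000 ∧ u * 1000 < u₁) ∧ ((X₀ : ℝ) ≤ X * 100 ∧ X * 100 < X₁) ∧
      ((I₀ : ℝ) ≤ I * 1000 ∧ I * 1000 < I₁) ∧ ((a₀ : ℝ) ≤ a * 1000 ∧ a * 1000 < a₁)) :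
    rungT a b u (2 * I * X)
      ((2 * (b - a) - I * (1 - u) * (5 + 12 * a)) / (2 * (b - a) * (b - u * a))) < 0 := by
  obtain ⟨⟨g1, g2⟩, ⟨g3, g4⟩, ⟨g5, g6⟩, g7, g8⟩ := g
  have h1 := nonneg_of_checkFour h (mid_point g1 g2 g3 g4 g5 g6 g7 g8)
  have ha0 := hP.a_pos
  have hI0 := hP.I_pos
  have hd : 0 < b - a := by linarith [hP.d_pos]
  have hW : 0 < b - u * a := by linarith [mul_le_mul_of_nonneg_right hu1.le ha0.le]
  have hG : 0 < 2 * (b - a) * (b - u * a) := by positivity
  obtain ⟨vU, vI, vA, vS, vB, vD, vV, -, -, -, -, -⟩ :=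
    eval_mid_base (u := u) (X := X) midLowA hb
  obtain ⟨vGu, -, -⟩ := eval_mid_range (u := u) (X := X) (I := I) (a := a)
  have vW : (eW eMI eMA).eval (stabPt u X I a) = b - u * a := by
    simp only [eW, eval_sub', eval_mul', vB, vU, vA]
  have vw : eEndW.eval (stabPt u X I a) = 1 - u := by
    simp only [eEndW, eval_sub', eval_num', vU]; norm_num
  have vC : eRungC.eval (stabPt u X I a) = 5 + 12 * a := by
    simp only [eRungC, eval_add', eval_mul', eval_num', vA]; norm_num
  have vN : eRungN.eval (stabPt u X I a) = 2 * (b - a) - I * (1 - u) * (5 + 12 * a) := by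
    simp only [eRungN, eval_sub', eval_mul', eval_num', vD, vI, vw, vC]; norm_num
  have vG : eRungG.eval (stabPt u X I a) = 2 * (b - a) * (b - u * a) := by
    simp only [eRungG, eval_mul', eval_num', vD, vW]; norm_num
  obtain ⟨vEn, vFh⟩ := eval_rung_at hb vN vG hG.ne'
  simp only [eRungTop, eval_add', eval_sub', eval_mul', eval_num', vU, vI, vA, vW, vw, vC, vN,
    vEn, vFh, vGu] at h1
  push_cast at h1
  set n := 2 * (b - a) - I * (1 - u) * (5 + 12 * a)
  set G := 2 * (b - a) * (b - u * a) with hGdef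
  have eI : allStabI a b = I := by rw [allStabI, hb]; ring
  have e : rungT a b u (2 * I * X) (n / G) * G ^ 2 =
      (0 - a * n - I * (5 + 12 * a) * (b - u * a)) * u *
          (allEn a b u (2 * I * X) (n / G) * G) +
        (b - u * a) * (allFh a b u (2 * I * X) (n / G) * G ^ 2) := by
    simp only [rungT, allDot, midRungLowU, eI]
    generalize allEn a b u (2 * I * X) (n / G) = En
    generalize allFh a b u (2 * I * X) (n / G) = F
    clear_value n
    simp only [hGdef]
    generalize b - u * a = W at hW ⊢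
    generalize b - a = d at hd ⊢
    field_simp
    ring
  have h2 : 0 ≤ (l : ℝ) * ((1 - u) * I * (1 - (1 - 2 * I) * (1 - 2 * I - 2 * a) * X)) :=
    mul_nonneg (by exact_mod_cast hl) (mul_nonneg (mul_nonneg (by linarith) hI0.le)
      (by linarith [hP.guard]))
  have h3 : 0 < I * I * I * (1 - u) := mul_pos (by positivity) (by linarith)
  refine neg_of_mul_neg_left (b := G ^ 2) ?_ (by positivity)
  rw [e]
  linarith

/-- The lower end from a box. -/
theorem rung_bot_box (hP : MidPlace a I X) (hb : b = 1 - 2 * I - a) (hu1 : u < 1)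
    {u₀ u₁ X₀ X₁ I₀ I₁ a₀ a₁ : ℤ}
    (h : checkFour (midBox u₀ u₁ X₀ X₁ I₀ I₁ a₀ a₁) 900 9 2 12 9 eRungBot = true)
    (g : ((u₀ : ℝ) ≤ u * 1000 ∧ u * 1000 < u₁) ∧ ((X₀ : ℝ) ≤ X * 100 ∧ X * 100 < X₁) ∧
      ((I₀ : ℝ) ≤ I * 1000 ∧ I * 1000 < I₁) ∧ ((a₀ : ℝ) ≤ a * 1000 ∧ a * 1000 < a₁)) :
    rungT a b u (2 * I * X) (midBandG midLowA a b u (2 * I * (49 / 50))) < 0 := by
  obtain ⟨⟨g1, g2⟩, ⟨g3, g4⟩, ⟨g5, g6⟩, g7, g8⟩ := g
  have h1 := nonneg_of_checkFour h (mid_point g1 g2 g3 g4 g5 g6 g7 g8)
  have ha0 := hP.a_pos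
  have hI0 := hP.I_pos
  have hd : 0 < b - a := by linarith [hP.d_pos]
  have hW : 0 < b - u * a := by linarith [mul_le_mul_of_nonneg_right hu1.le ha0.le]
  obtain ⟨vU, vI, vA, vS, vB, vD, vV, vP, vK, -, -, -⟩ :=
    eval_mid_base (u := u) (X := X) midLowA hb
  have vW : (eW eMI eMA).eval (stabPt u X I a) = b - u * a := by
    simp only [eW, eval_sub', eval_mul', vB, vU, vA]
  have vw : eEndW.eval (stabPt u X I a) = 1 - u := by
    simp only [eEndW, eval_sub', eval_num', vU]; norm_num
  have vC : eRungC.eval (stabPt u X I a) = 5 + 12 * a := by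
    simp only [eRungC, eval_add', eval_mul', eval_num', vA]; norm_num
  have vN : eRungLow.eval (stabPt u X I a) =
      50 * midN midLowA I a b u (2 * I * (49 / 50)) := by
    simp only [eRungLow, midN, eval_add', eval_mul', eval_num', vK, vI, vP]; push_cast; ring
  have vG : eRungLowG.eval (stabPt u X I a) = 50000 * (b - u * a) := by
    simp only [eRungLowG, eval_mul', eval_num', vW]; norm_num
  obtain ⟨vEn, vFh⟩ := eval_rung_at hb vN vG (by positivity)
  simp only [eRungBot, eval_add', eval_sub', eval_mul', eval_num', vU, vI, vA, vD, vW, vw, vC, vN,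
    vEn, vFh] at h1
  push_cast at h1
  have eI : allStabI a b = I := by rw [allStabI, hb]; ring
  have eA : midBandG midLowA a b u (2 * I * (49 / 50)) =
      50 * midN midLowA I a b u (2 * I * (49 / 50)) / (50000 * (b - u * a)) := by
    rw [midBandG_eq midLowA hb hu1.le, show (50000 : ℝ) * (b - u * a) =
      50 * (1000 * (b - u * a)) by ring, mul_div_mul_left _ _ (by norm_num : (50 : ℝ) ≠ 0)]
  rw [eA]
  set n := 50 * midN midLowA I a b u (2 * I * (49 / 50))
  set G := 50000 * (b - u * a) with hGdef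
  have e : rungT a b u (2 * I * X) (n / G) * (G ^ 2 * (2 * (b - a))) =
      (0 - 2 * (a * (b - a) * n) - 50000 * ((b - u * a) * I * (5 + 12 * a))) * u *
          (allEn a b u (2 * I * X) (n / G) * G) +
        2 * (b - a) * (b - u * a) * (allFh a b u (2 * I * X) (n / G) * G ^ 2) := by
    simp only [rungT, allDot, midRungLowU, eI]
    generalize allEn a b u (2 * I * X) (n / G) = En
    generalize allFh a b u (2 * I * X) (n / G) = F
    clear_value n
    simp only [hGdef]
    generalize b - u * a = W at hW ⊢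
    generalize b - a = d at hd ⊢
    field_simp
    ring
  have h3 : 0 < I * I * (1 - u) := mul_pos (by positivity) (by linarith)
  refine neg_of_mul_neg_left (b := G ^ 2 * (2 * (b - a))) ?_ (by positivity)
  rw [e]
  linarith

/-- The slope of the lower band is positive. -/
theorem rung_K (hP : MidPlace a I X) (hb : b = 1 - 2 * I - a) (hu0 : 93 / 100 ≤ u) (hu1 : u < 1)
    (hI : I ≤ 1 / 13) (ha : a ≤ 61 / 500) : 0 ≤ midK midLowA I a b u := by
  have h0 := hP.I_lo
  have h1 := hP.I_le_a
  have h := nonneg_of_checkFour rung_K_pos (mid_point (u := u) (X := 1) (I := I) (a := a)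
    (by push_cast; linarith) (by push_cast; linarith) (by norm_num) (by norm_num)
    (by push_cast; linarith) (by push_cast; linarith) (by push_cast; linarith)
    (by push_cast; linarith))
  obtain ⟨-, -, -, -, -, -, -, -, vK, -, -, -⟩ := eval_mid_base (u := u) (X := 1) midLowA hb
  simp only [eRungK, eval_sub', eval_num', vK] at h
  push_cast at h
  linarith

/-- The sign of the exit condition. -/
theorem rung_low_sign {H : ℝ} (hP : MidPlace a I X) (hb : b = 1 - 2 * I - a) (hI : I ≤ 1 / 13)
    (ha : a ≤ 61 / 500) (hu0 : 93 / 100 ≤ u) (hu1 : u < 1)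
    (hH : midBandG midLowA a b u (2 * I * X) < H) (hF : midRungLow a b u H ≤ 0) :
    allDot a b u (2 * I * X) H (midRungLowU a b H) 0 (b - u * a) < 0 := by
  have h0 := hP.I_lo
  have h1 := hP.I_le_a
  have ha0 := hP.a_pos
  have hI0 := hP.I_pos
  have hd : 0 < b - a := by linarith [hP.d_pos]
  have hW : 0 < b - u * a := by linarith [mul_le_mul_of_nonneg_right hu1.le ha0.le]
  have hX := hP.X_lt (61 / 500) (1 / 13) (197 / 100) ha hI (by norm_num) (by norm_num) (by norm_num)
  have hX0 := hP.le_X (61 / 500) (1 / 13) (49 / 50) ha hI (by norm_num)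
  have eI : allStabI a b = I := by rw [allStabI, hb]; ring
  have hA : midBandG midLowA a b u (2 * I * (49 / 50)) < H := by
    refine lt_of_le_of_lt ?_ hH
    rw [midBandG_eq midLowA hb hu1.le, midBandG_eq midLowA hb hu1.le]
    refine div_le_div_of_nonneg_right ?_ (by positivity)
    simp only [midN]
    linarith [mul_le_mul_of_nonneg_left (mul_le_mul_of_nonneg_left hX0 (mul_pos two_pos hI0).le)
      (rung_K hP hb hu0 hu1 hI ha)]
  have hB : H ≤ (2 * (b - a) - I * (1 - u) * (5 + 12 * a)) / (2 * (b - a) * (b - u * a)) := by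
    rw [le_div_iff₀ (by positivity)]
    simp only [midRungLow, eI] at hF
    have := mul_le_mul_of_nonneg_left hF (mul_pos two_pos hd).le
    rw [mul_add, ← mul_assoc (2 * (b - a)) (I / (2 * (b - a))),
      mul_div_cancel₀ I (mul_pos two_pos hd).ne', mul_zero] at this
    linarith
  have tA := rung_bot_box hP hb hu1 rung_bot
    ⟨⟨(by push_cast; linarith), (by push_cast; linarith)⟩, ⟨(by push_cast; linarith),
      (by push_cast; linarith)⟩, ⟨(by push_cast; linarith), (by push_cast; linarith)⟩,
      (by push_cast; linarith), (by push_cast; linarith)⟩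
  have tB : rungT a b u (2 * I * X)
      ((2 * (b - a) - I * (1 - u) * (5 + 12 * a)) / (2 * (b - a) * (b - u * a))) < 0 := by
    rcases lt_or_ge (29 / 250) a with k0 | k0
    · rcases lt_or_ge X (9 / 5) with kX | kX
      · exact rung_top_box hP hb hu1 (by norm_num) rung_top9
          ⟨⟨(by push_cast; linarith), (by push_cast; linarith)⟩, ⟨(by push_cast; linarith),
            (by push_cast; linarith)⟩, ⟨(by push_cast; linarith), (by push_cast; linarith)⟩,
            (by push_cast; linarith), (by push_cast; linarith)⟩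
      · exact rung_top_box hP hb hu1 (by norm_num) rung_top10
          ⟨⟨(by push_cast; linarith), (by push_cast; linarith)⟩, ⟨(by push_cast; linarith),
            (by push_cast; linarith)⟩, ⟨(by push_cast; linarith), (by push_cast; linarith)⟩,
            (by push_cast; linarith), (by push_cast; linarith)⟩
    have hX' := hP.X_lt (29 / 250) (1 / 13) (193 / 100) k0 hI (by norm_num) (by norm_num)
      (by norm_num)
    rcases lt_or_ge a (3 / 40) with k | k
    · rcases lt_or_ge X (41 / 25) with kX | kX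
      · rcases lt_or_ge I (63 / 1000) with kI | kI
        · exact rung_top_box hP hb hu1 (by norm_num) rung_top0
            ⟨⟨(by push_cast; linarith), (by push_cast; linarith)⟩, ⟨(by push_cast; linarith),
              (by push_cast; linarith)⟩, ⟨(by push_cast; linarith), (by push_cast; linarith)⟩,
              (by push_cast; linarith), (by push_cast; linarith)⟩
        · exact rung_top_box hP hb hu1 (by norm_num) rung_top1
            ⟨⟨(by push_cast; linarith), (by push_cast; linarith)⟩, ⟨(by push_cast; linarith),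
              (by push_cast; linarith)⟩, ⟨(by push_cast; linarith), (by push_cast; linarith)⟩,
              (by push_cast; linarith), (by push_cast; linarith)⟩
      · exact rung_top_box hP hb hu1 (by norm_num) rung_top2
          ⟨⟨(by push_cast; linarith), (by push_cast; linarith)⟩, ⟨(by push_cast; linarith),
            (by push_cast; linarith)⟩, ⟨(by push_cast; linarith), (by push_cast; linarith)⟩,
            (by push_cast; linarith), (by push_cast; linarith)⟩
    · rcases lt_or_ge a (11 / 125) with k' | k'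
      · rcases lt_or_ge X (41 / 25) with kX | kX
        · exact rung_top_box hP hb hu1 (by norm_num) rung_top3
            ⟨⟨(by push_cast; linarith), (by push_cast; linarith)⟩, ⟨(by push_cast; linarith),
              (by push_cast; linarith)⟩, ⟨(by push_cast; linarith), (by push_cast; linarith)⟩,
              (by push_cast; linarith), (by push_cast; linarith)⟩
        · exact rung_top_box hP hb hu1 (by norm_num) rung_top4
            ⟨⟨(by push_cast; linarith), (by push_cast; linarith)⟩, ⟨(by push_cast; linarith),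
              (by push_cast; linarith)⟩, ⟨(by push_cast; linarith), (by push_cast; linarith)⟩,
              (by push_cast; linarith), (by push_cast; linarith)⟩
      · rcases lt_or_ge a (1 / 10) with ka | ka
        on_goal 2 =>
          rcases lt_or_ge X (9 / 5) with kX | kX
          · exact rung_top_box hP hb hu1 (by norm_num) rung_top7
              ⟨⟨(by push_cast; linarith), (by push_cast; linarith)⟩, ⟨(by push_cast; linarith),
                (by push_cast; linarith)⟩, ⟨(by push_cast; linarith), (by push_cast; linarith)⟩,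
                (by push_cast; linarith), (by push_cast; linarith)⟩
          · exact rung_top_box hP hb hu1 (by norm_num) rung_top8
              ⟨⟨(by push_cast; linarith), (by push_cast; linarith)⟩, ⟨(by push_cast; linarith),
                (by push_cast; linarith)⟩, ⟨(by push_cast; linarith), (by push_cast; linarith)⟩,
                (by push_cast; linarith), (by push_cast; linarith)⟩
        rcases lt_or_ge X (43 / 25) with kX | kX
        · exact rung_top_box hP hb hu1 (by norm_num) rung_top5
            ⟨⟨(by push_cast; linarith), (by push_cast; linarith)⟩, ⟨(by push_cast; linarith),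
              (by push_cast; linarith)⟩, ⟨(by push_cast; linarith), (by push_cast; linarith)⟩,
              (by push_cast; linarith), (by push_cast; linarith)⟩
        · exact rung_top_box hP hb hu1 (by norm_num) rung_top6
            ⟨⟨(by push_cast; linarith), (by push_cast; linarith)⟩, ⟨(by push_cast; linarith),
              (by push_cast; linarith)⟩, ⟨(by push_cast; linarith), (by push_cast; linarith)⟩,
              (by push_cast; linarith), (by push_cast; linarith)⟩
  exact rungT_convex ha0.le hd.le (by linarith) (mul_pos (mul_pos two_pos hI0) hP.X_pos).le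
    (by linarith [hP.av]) (by linarith) hu1.le hA hB tA tB

/-- The values at the zero of the forward function. -/
theorem eval_rung_fwd {v B : ℝ} (hb : b = 1 - 2 * I - a) (hu1 : u ≤ 1) (hd : 0 < b - a)
    (hP0 : 0 < a + b) (hW : 0 < b - u * a)
    (hv : (a + b) * (b - a) ^ 2 * v = 2 * I * ((b - a) - 7 * ((a + 2 * I) * (1 - u))))
    (hB : B = (2 * (b - a) - I * (1 - u) * (5 + 12 * a)) / (2 * (b - a) * (b - u * a))) :
    eRungFwd.eval (stabPt u 1 I a) =
      5000 * (2 * (b - a) * (b - u * a)) * ((a + b) * (b - a) ^ 2) ^ 2 *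
          allDot a b u v B (-(14 * I * (a + 2 * I))) ((a + b) * (b - a) ^ 2) 0 -
        8000 * (1 - u) * (2 * (b - a) * (b - u * a)) * ((a + b) * (b - a) ^ 2) ^ 2 *
          (midBandG midUpA a b u v - B) - I * I * (1 - u) := by
  obtain ⟨vU, vI, vA, vS, vB, vD, -, vPs, vK, -, -, -⟩ :=
    eval_mid_base (u := u) (X := 1) midUpA hb
  have vW : (eW eMI eMA).eval (stabPt u 1 I a) = b - u * a := by
    simp only [eW, eval_sub', eval_mul', vB, vU, vA]
  have vw : eEndW.eval (stabPt u 1 I a) = 1 - u := by
    simp only [eEndW, eval_sub', eval_num', vU]; norm_num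
  set g := (a + b) * (b - a) ^ 2 with hg
  have hg0 : 0 < g := by positivity
  have vP : eRungP.eval (stabPt u 1 I a) = g := by
    simp only [eRungP, eval_mul', vS, vD, hg]; ring
  have vM : eRungM.eval (stabPt u 1 I a) = g * v := by
    rw [hv]
    simp only [eRungM, eval_add', eval_sub', eval_mul', eval_num', vI, vA, vD, vw]; norm_num
  have vN : eRungN.eval (stabPt u 1 I a) = 2 * (b - a) - I * (1 - u) * (5 + 12 * a) := by
    simp only [eRungN, eRungC, eval_add', eval_sub', eval_mul', eval_num', vD, vI, vA, vw]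
    norm_num
  have vG : eRungG.eval (stabPt u 1 I a) = 2 * (b - a) * (b - u * a) := by
    simp only [eRungG, eval_mul', eval_num', vD, vW]; norm_num
  simp only [eRungFwd, eRungGap, eRungFlow, eRungEn, eRungDen, eRungQn, eval_add', eval_sub',
    eval_mul', eval_num', vU, vI, vA, vS, vB, vD, vw, vPs, vK, vP, vM, vN, vG]
  rw [midBandG_eq midUpA hb hu1, hB]
  simp only [midN, allDot, allEn, allFlow, allDen, allQn]
  clear_value g
  generalize midK midUpA I a b u = K
  generalize midPsi midUpA I a u = ps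
  generalize b - u * a = W at hW ⊢
  generalize 2 * (b - a) - I * (1 - u) * (5 + 12 * a) = n
  field_simp
  push_cast
  ring

/-- The sign of the forward condition. -/
theorem rung_fwd_sign {v H : ℝ} (hb : b = 1 - 2 * I - a) (hI0 : 1 / 20 ≤ I) (hI : I ≤ 1 / 13)
    (hIa : I ≤ a) (ha : a ≤ 61 / 500) (hu0 : 47 / 50 ≤ u) (hu1 : u < 1) (hv : 0 ≤ v)
    (hav : a * v ≤ 1) (hF : midRungF a b u v = 0) (hL : 0 ≤ midRungLow a b u H)
    (hU : H < midBandG midUpA a b u v) :
    0 < allDot a b u v H (-(14 * I * (a + 2 * I))) ((a + b) * (b - a) ^ 2) 0 := by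
  have hI1 : 0 < I := by linarith
  have ha0 : 0 < a := by linarith
  have hd : 0 < b - a := by linarith
  have hS : 0 < a + b := by linarith
  have hW : 0 < b - u * a := by linarith [mul_le_mul_of_nonneg_right hu1.le ha0.le]
  have eI : allStabI a b = I := by rw [allStabI, hb]; ring
  obtain ⟨B, hB⟩ : ∃ B, B = (2 * (b - a) - I * (1 - u) * (5 + 12 * a)) /
      (2 * (b - a) * (b - u * a)) := ⟨_, rfl⟩
  have hBH : B ≤ H := by
    rw [hB, div_le_iff₀ (by positivity)]
    simp only [midRungLow, eI] at hL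
    have := mul_le_mul_of_nonneg_left hL (mul_pos two_pos hd).le
    rw [mul_add, ← mul_assoc (2 * (b - a)) (I / (2 * (b - a))),
      mul_div_cancel₀ I (mul_pos two_pos hd).ne', mul_zero] at this
    linarith
  have h1 := nonneg_of_checkFour rung_fwd (mid_point (u := u) (X := 1) (I := I) (a := a)
    (by push_cast; linarith) (by push_cast; linarith) (by norm_num) (by norm_num)
    (by push_cast; linarith) (by push_cast; linarith) (by push_cast; linarith)
    (by push_cast; linarith))
  rw [eval_rung_fwd (v := v) hb hu1.le hd hS hW (by simp only [midRungF, eI] at hF; linarith) hB] at h1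
  set g := (a + b) * (b - a) ^ 2 with hg
  set G := 2 * (b - a) * (b - u * a) with hG
  have hg0 : 0 < g := by positivity
  have hG0 : 0 < G := by positivity
  have h2 : 0 < 8000 * (1 - u) * G * g ^ 2 * (midBandG midUpA a b u v - B) :=
    mul_pos (mul_pos (mul_pos (by linarith) hG0) (pow_pos hg0 2)) (by linarith)
  have h3 : 0 ≤ I * I * (1 - u) := mul_nonneg (mul_self_nonneg I) (by linarith)
  have hT : 0 < allDot a b u v B (-(14 * I * (a + 2 * I))) g 0 :=
    pos_of_mul_pos_right (a := 5000 * G * g ^ 2) (by linarith) (by positivity)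
  refine hT.trans_le ?_
  have hen := allEn_anti ha0.le hd.le (by linarith) hv hav (by linarith) hu1.le hBH
  have hfl := allFlow_mono ha0.le hd.le (u := u) (by linarith) hav
    (allQn_nonneg ha0.le hd.le (by linarith) hv hav (by linarith) hu1.le) hBH
  simp only [allDot]
  have hu : 0 ≤ u := by linarith
  linarith [mul_le_mul_of_nonneg_left hen (show 0 ≤ 14 * I * (a + 2 * I) * u by positivity),
    mul_le_mul_of_nonneg_left hfl (show 0 ≤ g * (1 + (b - a) * v) * u by positivity)]

/-- At the entry the forward function is positive. -/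
theorem rung_entry {H : ℝ} (hP : MidPlace a I X) (hb : b = 1 - 2 * I - a) (hI : I ≤ 1 / 13)
    (ha : a ≤ 61 / 500) (hu0 : 93 / 100 ≤ u) (hu1 : u ≤ 47 / 50)
    (hU : H < midBandG midUpA a b u (2 * I * X))
    (hfl : 0 < allFlow a b u (2 * I * X) H) : 0 < midRungF a b u (2 * I * X) := by
  have h0 := hP.I_lo
  have h1 := hP.I_le_a
  have ha0 := hP.a_pos
  have hI0 := hP.I_pos
  have hd : 0 < b - a := by linarith [hP.d_pos]
  have hW : 0 < b - u * a := by
    linarith [mul_le_mul_of_nonneg_right (show u ≤ 1 by linarith) ha0.le]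
  have hX := hP.X_lt (61 / 500) (1 / 13) (197 / 100) ha hI (by norm_num) (by norm_num) (by norm_num)
  have hX0 := hP.le_X (61 / 500) (1 / 13) (49 / 50) ha hI (by norm_num)
  have eI : allStabI a b = I := by rw [allStabI, hb]; ring
  obtain ⟨vU, vI, vA, vS, vB, vD, vV, -, -, vN, -, vGd⟩ :=
    eval_mid_base (u := u) (X := X) midUpA hb
  obtain ⟨vGu, -, -⟩ := eval_mid_range (u := u) (X := X) (I := I) (a := a)
  have vW : (eW eMI eMA).eval (stabPt u X I a) = b - u * a := by
    simp only [eW, eval_sub', eval_mul', vB, vU, vA]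
  have vF : eRungF.eval (stabPt u X I a) * (2 * I) = midRungF a b u (2 * I * X) := by
    simp only [eRungF, eEndW, midRungF, eI, eval_add', eval_sub', eval_mul', eval_num', vI, vA, vD,
      vS, vU]
    simp only [Ex.eval, stabPt]
    push_cast; ring
  have vFl : (eMidFlow midUpA).eval (stabPt u X I a) =
      allFlow a b u (2 * I * X) (midBandG midUpA a b u (2 * I * X)) * (1000 * (b - u * a)) := by
    have vQn : (eQn eMI eMA).eval (stabPt u X I a) = allQn a b u (2 * I * X) := by
      simp only [eQn, eDV, allQn, eval_add', eval_sub', eval_mul', eval_num', vS, vB, vD, vV, vU]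
      push_cast; ring
    rw [midBandG_eq midUpA hb (by linarith)]
    simp only [eMidFlow, eMidDen, eDV, eval_add', eval_sub', eval_mul', eval_num', vS, vA, vV, vD,
      vU, vN, vGd, vQn, allFlow, allDen]
    generalize allQn a b u (2 * I * X) = Q
    generalize midN midUpA I a b u (2 * I * X) = n
    generalize b - u * a = W at hW ⊢
    field_simp
    push_cast
    ring
  have key : ∀ l : ℤ, 0 ≤ l → 0 ≤ (eRungEntry l).eval (stabPt u X I a) →
      0 < midRungF a b u (2 * I * X) := fun l hl h => by
    simp only [eRungEntry, eval_add', eval_sub', eval_mul', eval_num', vI, vA, vW, vFl, vGu] at h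
    push_cast at h
    refine not_le.1 fun hn => ?_
    have hF : eRungF.eval (stabPt u X I a) ≤ 0 := by
      rw [← vF] at hn
      exact nonpos_of_mul_nonpos_left hn (mul_pos two_pos hI0)
    have h2 : 900 * ((a + 2 * I) * (b - u * a)) * eRungF.eval (stabPt u X I a) ≤ 0 :=
      mul_nonpos_of_nonneg_of_nonpos (by positivity) hF
    have h3 : 0 < allFlow a b u (2 * I * X) (midBandG midUpA a b u (2 * I * X)) :=
      hfl.trans_le (allFlow_mono ha0.le hd.le (by linarith) (by linarith [hP.av])
        (allQn_nonneg ha0.le hd.le (by linarith) (mul_pos (mul_pos two_pos hI0) hP.X_pos).le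
          (by linarith [hP.av]) (by linarith) (by linarith)) hU.le)
    have h4 : 0 ≤ (l : ℝ) * (1 - (1 - 2 * I) * (1 - 2 * I - 2 * a) * X) :=
      mul_nonneg (by exact_mod_cast hl) (by linarith [hP.guard])
    linarith [mul_pos h3 (mul_pos (by norm_num : (0 : ℝ) < 1000) hW), mul_self_nonneg I]
  rcases lt_or_ge X (71 / 50) with k | k
  · exact key 0 le_rfl (nonneg_of_checkFour rung_entry0 (mid_point (by push_cast; linarith)
      (by push_cast; linarith) (by push_cast; linarith) (by push_cast; linarith)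
      (by push_cast; linarith) (by push_cast; linarith) (by push_cast; linarith)
      (by push_cast; linarith)))
  · exact key 11 (by norm_num) (nonneg_of_checkFour rung_entry1 (mid_point (by push_cast; linarith)
      (by push_cast; linarith) (by push_cast; linarith) (by push_cast; linarith)
      (by push_cast; linarith) (by push_cast; linarith) (by push_cast; linarith)
      (by push_cast; linarith)))

end eval

end AllLow

variable {N p q : ℝ} {S : Set ℝ} {R x y s dx dy : ℝ → ℝ}

/-- **The exit rung** for real `13 ≤ N ≤ 20` and `1/(p+1) ≤ 61/500`. -/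
theorem orbit_midRung_low (hf : IsOrbitFns N p q S R x y s dx dy)
    (hb : SlabBoxAll N (1 / (p + 1)) (1 / (q + 1))) (h13 : 13 ≤ N) (h20 : N ≤ 20)
    (ha : 1 / (p + 1) ≤ 61 / 500) {w : ℝ} (hw : w ∈ S) (hw0 : 0 < R w)
    (hwu : 47 / 50 ≤ uOf N (R w) (x w)) :
    0 ≤ midRungLow (1 / (p + 1)) (1 / (q + 1)) (uOf N (R w) (x w))
      (hOf N (R w) (x w) (y w) w / (1 / (q + 1) - 1 / (p + 1))) := by
  obtain ⟨ha0, hb0, hd, -⟩ := hb.facts
  have hI : (1 : ℝ) / N ≤ 1 / 13 := one_div_le_one_div_of_le (by norm_num) h13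
  have eI : allStabI (1 / (p + 1)) (1 / (q + 1)) = 1 / N := by
    have := hb.dim
    simp only [allStabI]
    field_simp at this ⊢
    linarith
  have hC : 0 ≤ allStabI (1 / (p + 1)) (1 / (q + 1)) / (2 * (1 / (q + 1) - 1 / (p + 1))) := by
    rw [eI]
    exact div_nonneg (one_div_nonneg.2 (by linarith)) (by linarith)
  refine exit_end_all hf hb (u₀ := 47 / 50) (η := 1 / 100) (M := 1) (by norm_num) (by norm_num)
    (hasGrad_midRungLow _ _)
    (fun u v H => midBandG midLowA (1 / (p + 1)) (1 / (q + 1)) u v < H)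
    (fun z hz hz0 => (orbit_midA hf hb (by linarith) h20 (by linarith) hz hz0).1)
    (fun u v H hP _ _ => ?_) (fun ε hε => ⟨ε, hε, fun u v H hP _ hu hh => ?_⟩)
    (fun u v H hP _ hu hE hF => ?_) hw hw0 hwu
  · have h1 : 0 ≤ (1 - u) * (5 + 12 * (1 / (p + 1))) :=
      mul_nonneg (by linarith [hP.u_lt]) (by linarith)
    have h2 : 0 < 1 / (q + 1) - u * (1 / (p + 1)) := by
      linarith [mul_le_mul_of_nonneg_right hP.u_lt.le ha0.le]
    simp only [midRungLow]
    linarith [mul_pos hP.H_pos h2, mul_nonneg hC h1]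
  · have h1 : 0 ≤ (1 - u) * (5 + 12 * (1 / (p + 1))) :=
      mul_nonneg (by linarith [hP.u_lt]) (by linarith)
    have h7 : (1 / (q + 1) - 1 / (p + 1)) * H ≤ H * (1 / (q + 1) - u * (1 / (p + 1))) := by
      linarith [mul_le_mul_of_nonneg_left (mul_le_mul_of_nonneg_right hP.u_lt.le ha0.le)
        hP.H_pos.le]
    have h8 : u * ((1 / (q + 1) - 1 / (p + 1)) * H) ≤ (1 / (q + 1) - 1 / (p + 1)) * H :=
      mul_le_of_le_one_left (mul_pos hd hP.H_pos).le hP.u_lt.le
    simp only [midRungLow]
    linarith [mul_nonneg hC h1]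
  · obtain ⟨I, X, rfl, hbI, hIN, hM⟩ := AllLow.midPlace_of hb (by linarith) h20 (by linarith)
      hP.low.le hP.high hP.av
    exact AllLow.rung_low_sign hM hbI (hIN ▸ hI) ha (by linarith) hP.u_lt hE hF

/-- **The forward rung** for real `13 ≤ N ≤ 20` and `1/(p+1) ≤ 61/500`. -/
theorem orbit_midRung_fwd (hf : IsOrbitFns N p q S R x y s dx dy)
    (hb : SlabBoxAll N (1 / (p + 1)) (1 / (q + 1))) (h13 : 13 ≤ N) (h20 : N ≤ 20)
    (ha : 1 / (p + 1) ≤ 61 / 500) {w : ℝ} (hw : w ∈ S) (hw0 : 0 < R w)
    (hwu : 47 / 50 ≤ uOf N (R w) (x w)) :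
    0 < midRungF (1 / (p + 1)) (1 / (q + 1)) (uOf N (R w) (x w))
      (vOf (1 / (p + 1)) (1 / (q + 1)) (y w / x w)) := by
  obtain ⟨ha0, hb0, hd, -⟩ := hb.facts
  have hI : (1 : ℝ) / N ≤ 1 / 13 := one_div_le_one_div_of_le (by norm_num) h13
  have low : ∀ u v, 0 ≤ v → u ≤ 1 → -1 < midRungF (1 / (p + 1)) (1 / (q + 1)) u v := by
    intro u v hv hu
    have eI : allStabI (1 / (p + 1)) (1 / (q + 1)) = 1 / N := by
      have := hb.dim
      simp only [allStabI]
      field_simp at this ⊢
      linarith
    have h0 : 0 ≤ 1 / N := one_div_nonneg.2 (by linarith)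
    have h1 : 0 ≤ (1 / (p + 1) + 1 / (q + 1)) * (1 / (q + 1) - 1 / (p + 1)) ^ 2 * v := by
      positivity
    have h2 : 0 ≤ 14 * (1 / N) * ((1 / (p + 1) + 2 * (1 / N)) * (1 - u)) :=
      mul_nonneg (by positivity) (mul_nonneg (by positivity) (by linarith))
    have h3 : 1 / N * (1 / (q + 1) - 1 / (p + 1)) ≤ 1 / 13 * 1 :=
      mul_le_mul hI (by linarith [hb.S_lt]) hd.le (by norm_num)
    simp only [midRungF, eI]
    linarith
  refine forward_step_all hf hb (u₁ := 1) (K := 100000) (by norm_num)
    (hasGrad_midRungF _ _) (continuous_midRungF _ _)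
    (fun u v H => H < midBandG midUpA (1 / (p + 1)) (1 / (q + 1)) u v ∧
      (47 / 50 ≤ u → 0 ≤ midRungLow (1 / (p + 1)) (1 / (q + 1)) u H))
    (fun z hz hz0 _ => ⟨(orbit_midA hf hb (by linarith) h20 (by linarith) hz hz0).2,
      orbit_midRung_low hf hb h13 h20 ha hz hz0⟩) (fun v h1 h2 h3 => ?_)
    (fun u v H hP _ hu hE => ?_) (fun u v H hP _ hu _ hE hF => ?_) hw hw0 hwu
    (orbit_point_all hf hb hw hw0).1.u_lt.le
  · linarith [low 0 v (nonneg_of_mul_nonneg_right (by linarith : 0 ≤ (N + 2 * (1 / (p + 1))) * v)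
      (by linarith : 0 < N + 2 * (1 / (p + 1)))) zero_le_one]
  · obtain ⟨I, X, rfl, hbI, hIN, hM⟩ := AllLow.midPlace_of hb (by linarith) h20 (by linarith)
      hP.low.le hP.high hP.av
    rcases le_or_gt u (93 / 100) with h | h
    · have : (1 / 100 : ℝ) ^ 2 ≤ (47 / 50 - u) ^ 2 :=
        pow_le_pow_left₀ (by norm_num) (by linarith) 2
      linarith [low u (2 * I * X) (mul_pos (mul_pos two_pos hM.I_pos) hM.X_pos).le hP.u_lt.le]
    · linarith [AllLow.rung_entry hM hbI (hIN ▸ hI) ha h.le hu hE.1 hP.flow_pos,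
        sq_nonneg (47 / 50 - u)]
  · obtain ⟨I, X, rfl, hbI, hIN, hM⟩ := AllLow.midPlace_of hb (by linarith) h20 (by linarith)
      hP.low.le hP.high hP.av
    have eI : allStabI (1 / (p + 1)) (1 / (q + 1)) = I := by rw [allStabI, hbI]; ring
    simp only [eI]
    exact AllLow.rung_fwd_sign hbI hM.I_lo (hIN ▸ hI) hM.I_le_a ha hu hP.u_lt
      (mul_pos (mul_pos two_pos hM.I_pos) hM.X_pos).le hP.av.le hF (hE.2 hu) hE.1

end Vale.Agent.P100.Calib.Band
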