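import Vale.Agent.P100.Calib.SlabLowEndExprs
import Vale.Agent.P100.Calib.SlabMidRung

/-!
# The facts at a point near `u = 1` as polynomials

The orbit's facts in the coordinates `(a, I, w, X, η)`: the kappa inequality, the radial speed, the
sign of `ev`, the two bands of the piece, and the two rungs on `a ≤ 29/250`, `I ≤ 1/13`.
-/

set_option linter.unusedVariables false
set_option linter.unusedSectionVars false

namespace Vale.Agent.P100.Calib.LowEnd

open Pack Band

/-- What is known at a place of the chart with the pieces `L`, `U`. -/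
structure LowPlace (L U : MidBand) (d S u v t : ℝ) : Prop where
  pt : Pt (ptOf5 d S u v t)
  kap : S * (1 + d * v) < 1
  eta : d * Closed.chH d S u v t < 1
  drift : 2 * S * (1 - (S - d) / 2 * v) / ((1 - S) * ((S + d) / 2)) <
    Closed.chG d S u v t * Closed.chH d S u v t / 2
  ev : 0 < (1 - d * u * Closed.chH d S u v t) * Closed.chG d S u v t / 2 +
    2 * S / (1 - S) * (u - 1)
  low : midBandG L ((S - d) / 2) ((S + d) / 2) u v < Closed.chH d S u v t
  up : Closed.chH d S u v t < midBandG U ((S - d) / 2) ((S + d) / 2) u v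

/-- The two rungs. -/
structure RungPlace (d S u v t : ℝ) : Prop where
  low : 0 ≤ midRungLow ((S - d) / 2) ((S + d) / 2) u (Closed.chH d S u v t)
  fwd : 0 < midRungF ((S - d) / 2) ((S + d) / 2) u v

variable {L U : MidBand} {d S u v t : ℝ}

theorem pole_eq {a b u : ℝ} (hu : u ≤ 1) : allPole a b u = b - u * a := by
  simp [allPole, max_eq_left (sub_nonpos.2 hu)]

set_option maxRecDepth 8000 in
theorem band_val (h : Pt (ptOf5 d S u v t)) (c : MidBand) :
    (eBand c).eval (ptOf5 d S u v t) = 1000 * d * ((S + d) / 2 - u * ((S - d) / 2)) *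
      (midBandG c ((S - d) / 2) ((S + d) / 2) u v - Closed.chH d S u v t) := by
  have hu1 : u ≤ 1 := by
    have := h.w_nonneg; simp [ptOf5] at this; linarith
  have hp : (0 : ℝ) < (S + d) / 2 - u * ((S - d) / 2) := by
    have ha := h.a_pos; have hd := h.d_pos
    simp [ptOf5, vD, vB, vS] at ha hd
    linarith [mul_le_mul_of_nonneg_right hu1 (show 0 ≤ (S - d) / 2 by linarith)]
  have eI : allStabI ((S - d) / 2) ((S + d) / 2) = (1 - S) / 2 := by simp [allStabI]; ring
  have key : ∀ P N H : ℝ, P ≠ 0 → 1000 * d * P * (N / (1000 * P) - H) = d * N - 1000 * d * P * H := by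
    intro P N H hP; field_simp
  rw [midBandG, pole_eq hu1, eI, key _ _ _ hp.ne']
  simp only [eBand, eSix, eFour, eB, eD, eS, eU, Ex.eval, ptOf5, midN, midK, midPsi, midSix,
    midFour, OfNat.ofNat_ne_zero, one_ne_zero, ↓reduceIte,
    show (2 : ℕ) ≠ 1 by norm_num, show (3 : ℕ) ≠ 1 by norm_num, show (4 : ℕ) ≠ 1 by norm_num,
    show (3 : ℕ) ≠ 2 by norm_num, show (4 : ℕ) ≠ 2 by norm_num, show (4 : ℕ) ≠ 3 by norm_num]
  push_cast
  ring

theorem LowPlace.d_pos (h : LowPlace L U d S u v t) : 0 < d := by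
  have := h.pt.d_pos; simp [ptOf5, vD, vB, vS] at this; linarith

theorem LowPlace.pole_pos (h : LowPlace L U d S u v t) :
    0 < (S + d) / 2 - u * ((S - d) / 2) := by
  have hu := h.pt.w_nonneg; have ha := h.pt.a_pos; have hd := h.d_pos
  simp [ptOf5] at hu ha
  linarith [mul_le_mul_of_nonneg_right (show u ≤ 1 by linarith)
    (show 0 ≤ (S - d) / 2 by linarith)]

theorem LowPlace.up_nonneg (h : LowPlace L U d S u v t) :
    0 ≤ (eUp U).eval (ptOf5 d S u v t) := by
  rw [eUp, band_val h.pt]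
  have := h.d_pos; have := h.pole_pos; have := sub_pos.2 h.up
  positivity

theorem LowPlace.low_nonneg (h : LowPlace L U d S u v t) :
    0 ≤ (eLow L).eval (ptOf5 d S u v t) := by
  have e := band_val h.pt L
  have := h.d_pos; have := h.pole_pos; have := sub_pos.2 h.low
  have h2 : 0 ≤ 1000 * d * ((S + d) / 2 - u * ((S - d) / 2)) *
      (Closed.chH d S u v t - midBandG L ((S - d) / 2) ((S + d) / 2) u v) := by positivity
  simp only [eLow, Ex.eval, e]
  push_cast
  linarith

theorem LowPlace.tau_nonneg (h : LowPlace L U d S u v t) :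
    0 ≤ eTau.eval (ptOf5 d S u v t) := by
  have := h.kap
  simp [eTau, eS, Ex.eval, ptOf5]
  linarith

theorem LowPlace.signs (h : LowPlace L U d S u v t) :
    0 ≤ eFlow.eval (ptOf5 d S u v t) ∧ 0 ≤ eEv.eval (ptOf5 d S u v t) := by
  have ha := h.pt.a_pos; have hI := h.pt.I_pos; have hb := h.pt.b_pos; have hD := h.pt.den_pos
  have hd := h.d_pos
  simp [ptOf5, vB, vS, vDen] at ha hI hb hD
  have f1 := h.drift; have f2 := h.ev
  simp only [Closed.chG] at f1 f2
  set H := Closed.chH d S u v t with hH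
  have hb' : 0 < (S + d) / 2 := by linarith
  have hI' : 0 < 1 - S := by linarith
  have hDe : 0 < 2 + d * v - d * u * H := by linarith
  have key1 : ∀ M B D Qn Z : ℝ, M ≠ 0 → B ≠ 0 → D ≠ 0 →
      2 / (M * B * D) / d * (Qn * (d * H) - S * (d * Z) * D) =
        4 * Qn / (M * B * D) * H / 2 - 2 * S * Z / (M * B) := by
    intro M B D Qn Z hM hB hD; field_simp; ring
  have key2 : ∀ M B D Qn Y : ℝ, M ≠ 0 → B ≠ 0 → D ≠ 0 →
      2 / (M * B * D) * (Y * Qn - S * B * (1 - u) * D) =
        Y * (4 * Qn / (M * B * D)) / 2 + 2 * S / M * (u - 1) := by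
    intro M B D Qn Y hM hB hD; field_simp; ring
  constructor
  · refine le_of_mul_le_mul_left ?_
      (show (0 : ℝ) < 2 / ((1 - S) * ((S + d) / 2) * (2 + d * v - d * u * H)) / d by positivity)
    rw [mul_zero]
    refine (sub_nonneg.2 f1.le).trans_eq ?_
    rw [← key1 _ _ _ _ _ hI'.ne' hb'.ne' hDe.ne']
    simp [eFlow, eQn, eQ, eDen, eB, eD, eS, eU, Ex.eval, ptOf5, ← hH]
    left; ring
  · refine le_of_mul_le_mul_left ?_
      (show (0 : ℝ) < 2 / ((1 - S) * ((S + d) / 2) * (2 + d * v - d * u * H)) by positivity)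
    rw [mul_zero]
    refine f2.le.trans_eq ?_
    rw [← key2 _ _ _ _ _ hI'.ne' hb'.ne' hDe.ne']
    simp [eEv, eQn, eQ, eDen, eB, eD, eS, eU, Ex.eval, ptOf5, ← hH]
    left; ring

theorem RungPlace.signs (h : RungPlace d S u v t) (hd : 0 < d) :
    0 ≤ eX1.eval (ptOf5 d S u v t) ∧ 0 ≤ eT.eval (ptOf5 d S u v t) := by
  have eI : allStabI ((S - d) / 2) ((S + d) / 2) = (1 - S) / 2 := by simp [allStabI]; ring
  obtain ⟨h1, h2⟩ := h
  simp only [midRungLow, midRungF, eI] at h1 h2
  have hd0 := hd.ne'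
  constructor
  · refine (mul_nonneg (mul_pos two_pos hd).le h1).trans_eq ?_
    simp only [eX1, eB, eD, eS, eU, Ex.eval, ptOf5, OfNat.ofNat_ne_zero, one_ne_zero, ↓reduceIte,
      show (2 : ℕ) ≠ 1 by norm_num, show (4 : ℕ) ≠ 1 by norm_num, show (4 : ℕ) ≠ 2 by norm_num,
      show (4 : ℕ) ≠ 3 by norm_num]
    push_cast
    rw [show (S + d) / 2 - (S - d) / 2 = d by ring]
    field_simp
    ring
  · refine h2.le.trans_eq ?_
    simp [eT, eB, eD, eS, eU, Ex.eval, ptOf5]
    ring

end Vale.Agent.P100.Calib.LowEnd
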