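import Vale.Agent.P100.Calib.SlabMidData

/-!
# The corner `N ≤ 50/7`, `al ≥ 3/10`: a second lower band and a cubic exit curve

The band uses that the radial speed is positive at the upper band; the curve is used only where
it lies below the exit curve of piece `C`.
-/

namespace Vale.Agent.P100.Calib.Band

/-- The coefficients of a cubic bracket. -/
structure MidCubic where
  e0 : MidFour
  e1 : MidFour
  e2 : MidFour
  e3 : MidFour

/-- The lower band of the corner. -/
def midLowD : MidBand :=
  ⟨⟨-3213, -996, 7047, -1635, -714, -13441⟩,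
  ⟨1652, -2143, 20, -7360, -1826, -28858⟩,
  ⟨-2298, 4869, 10601, -8622, -12022, -4952⟩,
  ⟨646, 12528, 3235, -20811, -32282, -12638⟩,
  ⟨2800, -3680, -6530, 1170⟩, ⟨-310, 16640, -1210, -91930⟩, ⟨290, -7160, 4750, 45010⟩⟩

/-- The exit curve of the corner, up to `u = 197/200`. -/
def midExitE : MidCubic :=
  ⟨⟨-773, -1460, -1159, 971⟩, ⟨1548, 1686, 916, 1748⟩, ⟨1218, 882, 831, 73⟩, ⟨-1629, -1707, -1734, -1490⟩⟩

namespace AllLow

open Pack

set_option linter.defProp false

local instance midCornerAdd : Add Pack.Ex := ⟨Ex.add⟩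
local instance midCornerSub : Sub Pack.Ex := ⟨Ex.sub⟩
local instance midCornerMul : Mul Pack.Ex := ⟨Ex.mul⟩

/-- A thousand times the bracket of a cubic curve. -/
def eCubE (e : MidCubic) : Pack.Ex :=
  eFour e.e0 + eU * (eFour e.e1 + eU * (eFour e.e2 + eU * eFour e.e3))

/-- Its derivative with the sign changed. -/
def eCubDl (e : MidCubic) : Pack.Ex :=
  eN (-1) * (eFour e.e1 + eU * (eN 2 * eFour e.e2 + eN 3 * (eU * eFour e.e3)))

/-- The band times a bracket. -/
def eCubNe (c : MidBand) (E : Pack.Ex) : Pack.Ex :=
  (eN 1000 + eMI * eMidPsi c) * E + eMidK c * eMidW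

/-- `qn` times a bracket. -/
def eCubQe (E : Pack.Ex) : Pack.Ex :=
  eB eMI eMA * (eN 2 * E + eD eMI eMA * eMidW) - eS eMI * eU * (E + eD eMI eMA * eMidW)

/-- The denominator of `qv`, cleared. -/
def eCubBig (c : MidBand) (E : Pack.Ex) : Pack.Ex :=
  (eN 2 * E + eD eMI eMA * eMidW) * eMidGd - eU * eD eMI eMA * eCubNe c E

/-- The numerator of `ev`, cleared. -/
def eCubEn (c : MidBand) (E : Pack.Ex) : Pack.Ex :=
  (eMidGd * E - eU * eD eMI eMA * eCubNe c E) * eCubQe E -
    eS eMI * (eN 1 - eU) * eB eMI eMA * eCubBig c E * E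

/-- The exit condition, cleared. -/
def eCubExit (c : MidBand) (E dl : Pack.Ex) : Pack.Ex :=
  (eCubQe E * eCubNe c E - eS eMI * (E - eMA * eMidW) * eCubBig c E) *
      (E + eD eMI eMA * eMidW) * E - eMidW * dl * eCubEn c E

/-- How far the cubic is above the bracket of piece `C`. -/
def eCubGap : Pack.Ex := eCubE midExitE - eMidE midExitC

/-- The flow at the band less multiples of the range conditions and of the radial speed. -/
def eCornerLow (l m n k : ℤ) : Pack.Ex :=
  eMidLow midLowD l m n - eN k * eMidFlow midUpC

/-- The exit condition less multiples of the conditions. -/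
def eCornerExit (k₀ k₁ k₂ k₃ k₄ : ℤ) : Pack.Ex :=
  eCubExit midLowD (eCubE midExitE) (eCubDl midExitE) - eN 1000 * (eMI * eMA) -
    eN k₀ * eCubGap - eN k₁ * eCubEn midLowD (eCubE midExitE) -
    eN k₂ * (eCubE midExitE - eN 1000 * (eS eMI * eD eMI eMA)) -
    eN k₃ * (eN 1000 * (eN 1 + eN 2 * eMI * eMA) - eCubE midExitE) -
    eN k₄ * (eCubGap * eCubGap * eCubGap)

/-- The opposite of the slope less a multiple of the gap. -/
def eCornerDl (k : ℤ) : Pack.Ex := eCubDl midExitE - eN k * eCubGap

/-- The condition at the end. -/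
def eCornerEnd (l m : ℤ) : Pack.Ex :=
  eN (-1000) * eMidEn midLowD - eMI - eN l * (.var 1 * eCubE midExitE - eN 1000) -
    eN m * eMidGuard

def midCorner_low_num0 :
    checkFour (midBox 0 493 91 1191 140 143 300 311) 560 9 3 11 8 (eCornerLow 0 0 0 0) = true := by
  decide +kernel

def midCorner_low_num1 :
    checkFour (midBox 493 739 91 228 140 143 300 311) 560 9 3 11 8 (eCornerLow 0 0 0 10359) = true := by
  decide +kernel

def midCorner_low_num2 :
    checkFour (midBox 739 862 91 228 140 143 300 305) 560 9 3 11 8 (eCornerLow 0 0 0 16691) = true := by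
  decide +kernel

def midCorner_low_num3 :
    checkFour (midBox 739 862 91 159 140 143 305 311) 560 9 3 11 8 (eCornerLow 0 0 0 2251799810153686) = true := by
  decide +kernel

def midCorner_low_num4 :
    checkFour (midBox 739 862 159 228 140 143 305 311) 560 9 3 11 8 (eCornerLow 0 0 0 12754) = true := by
  decide +kernel

def midCorner_low_num5 :
    checkFour (midBox 862 986 91 228 140 143 300 311) 560 9 3 11 8 (eCornerLow 0 0 0 2251799810153686) = true := by
  decide +kernel

def midCorner_low_num6 :
    checkFour (midBox 493 739 228 297 140 143 300 311) 560 9 3 11 8 (eCornerLow 0 0 0 0) = true := by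
  decide +kernel

def midCorner_low_num7 :
    checkFour (midBox 739 862 228 297 140 143 300 311) 560 9 3 11 8 (eCornerLow 0 0 0 9759) = true := by
  decide +kernel

def midCorner_low_num8 :
    checkFour (midBox 862 924 228 297 140 143 300 311) 560 9 3 11 8 (eCornerLow 0 0 0 10528) = true := by
  decide +kernel

def midCorner_low_num9 :
    checkFour (midBox 924 986 228 297 140 143 300 311) 560 9 3 11 8 (eCornerLow 0 0 0 13193) = true := by
  decide +kernel

def midCorner_low_num10 :
    checkFour (midBox 493 986 297 366 140 143 300 311) 560 9 3 11 8 (eCornerLow 0 0 0 7208) = true := by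
  decide +kernel

def midCorner_low_num11 :
    checkFour (midBox 493 986 366 641 140 143 300 311) 560 9 3 11 8 (eCornerLow 0 0 0 0) = true := by
  decide +kernel

def midCorner_low_num12 :
    checkFour (midBox 493 739 641 1191 140 143 300 311) 560 9 3 11 8 (eCornerLow 0 0 0 0) = true := by
  decide +kernel

def midCorner_low_num13 :
    checkFour (midBox 739 986 641 1191 140 143 300 311) 560 9 3 11 8 (eCornerLow 0 0 0 0) = true := by
  decide +kernel

def midCorner_low_den0 :
    checkFour (midBox 0 986 91 1191 140 143 300 311) 560 4 1 4 3 (eMidDenOne midLowD) = true := by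
  decide +kernel

def midCorner_low_start0 :
    checkFour (midBox 0 1 91 1191 140 143 300 311) 560 0 1 3 2 (eMidStartLow midLowD 0 0) = true := by
  decide +kernel

def midCorner_exit_sign0 :
    checkFour (midBox 0 493 100 101 140 143 300 311) 900 16 0 10 7 (eCornerExit 0 0 0 0 2251799810153686) = true := by
  decide +kernel

def midCorner_exit_sign1 :
    checkFour (midBox 493 739 100 101 140 143 300 311) 900 16 0 10 7 (eCornerExit 0 0 0 0 2251799810153686) = true := by
  decide +kernel

def midCorner_exit_sign2 :
    checkFour (midBox 739 986 100 101 140 143 300 311) 900 16 0 10 7 (eCornerExit 0 0 0 0 0) = true := by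
  decide +kernel

def midCorner_exit_dl0 :
    checkFour (midBox 0 493 100 101 140 143 300 311) 200 3 0 1 1 (eCornerDl 2251799810153686) = true := by
  decide +kernel

def midCorner_exit_dl1 :
    checkFour (midBox 493 739 100 101 140 143 300 311) 200 3 0 1 1 (eCornerDl 2251799810153686) = true := by
  decide +kernel

def midCorner_exit_dl2 :
    checkFour (midBox 739 800 100 101 140 143 300 311) 200 3 0 1 1 (eCornerDl 2251799810153686) = true := by
  decide +kernel

def midCorner_exit_dl3 :
    checkFour (midBox 800 815 100 101 140 143 300 311) 200 3 0 1 1 (eCornerDl 10) = true := by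
  decide +kernel

def midCorner_exit_dl4 :
    checkFour (midBox 815 831 100 101 140 143 300 311) 200 3 0 1 1 (eCornerDl 0) = true := by
  decide +kernel

def midCorner_exit_dl5 :
    checkFour (midBox 831 862 100 101 140 143 300 311) 200 3 0 1 1 (eCornerDl 0) = true := by
  decide +kernel

def midCorner_exit_dl6 :
    checkFour (midBox 862 986 100 101 140 143 300 311) 200 3 0 1 1 (eCornerDl 0) = true := by
  decide +kernel

def midCorner_exit_end0 :
    checkFour (midBox 985 986 91 641 140 143 300 311) 560 5 2 7 5 (eCornerEnd 2251799810153686 0) = true := by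
  decide +kernel

def midCorner_exit_end1 :
    checkFour (midBox 985 986 641 916 140 143 300 311) 560 5 2 7 5 (eCornerEnd 2251799810153686 0) = true := by
  decide +kernel

def midCorner_exit_end2 :
    checkFour (midBox 985 986 916 1191 140 143 300 311) 560 5 2 7 5 (eCornerEnd 0 0) = true := by
  decide +kernel

end AllLow

end Vale.Agent.P100.Calib.Band
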