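import Vale.Agent.P100.Calib.SlabMidBands
import Vale.Agent.P100.Calib.SlabMidExit
import Vale.Agent.P100.Calib.SlabMidCornerExpr

/-!
# The corner `N ≤ 50/7`, `al ≥ 3/10`

A lower band sharper near `u = 1` and a cubic exit curve below the one of piece `C`.
-/

open Set Filter Topology

namespace Vale.Agent.P100.Calib.Band

open Vale.Agent.P100.Bubble Chart

/-- A thousand times the bracket of a cubic curve. -/
def cubBracket (e : MidCubic) (I a u : ℝ) : ℝ :=
  midFour e.e0 I a + u * (midFour e.e1 I a + u * (midFour e.e2 I a + u * midFour e.e3 I a))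

/-- Its derivative with the sign changed. -/
def cubBracketDl (e : MidCubic) (I a u : ℝ) : ℝ :=
  -(midFour e.e1 I a + u * (2 * midFour e.e2 I a + 3 * (u * midFour e.e3 I a)))

theorem hasGrad_cub (a b : ℝ) (e : MidCubic) :
    HasGrad (fun u v _ => 2000 * allStabI a b - v * cubBracket e (allStabI a b) a u)
      (fun u v _ => v * cubBracketDl e (allStabI a b) a u)
      (fun u _ _ => -cubBracket e (allStabI a b) a u) (fun _ _ _ => 0) := by
  intro u v H du dv dh t hu hv _
  refine ((hv.fun_mul ((hu.fun_mul ((hu.fun_mul ((hu.mul_const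
    (midFour e.e3 (allStabI a b) a)).const_add (midFour e.e2 (allStabI a b) a))).const_add
      (midFour e.e1 (allStabI a b) a))).const_add (midFour e.e0 (allStabI a b) a))).const_sub
        (2000 * allStabI a b)).congr_deriv ?_
  simp only [cubBracket, cubBracketDl]
  ring

namespace AllLow

open Pack

local instance midCornerSoundAdd : Add Pack.Ex := ⟨Ex.add⟩
local instance midCornerSoundSub : Sub Pack.Ex := ⟨Ex.sub⟩
local instance midCornerSoundMul : Mul Pack.Ex := ⟨Ex.mul⟩

variable {a b I u X : ℝ}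

theorem eval_eCubE (e : MidCubic) :
    (eCubE e).eval (stabPt u X I a) = cubBracket e I a u := by
  have vU : eU.eval (stabPt u X I a) = u := by simp [eU, Ex.eval, stabPt]
  simp only [eCubE, cubBracket, eval_add', eval_mul', eval_midFour, vU]

theorem eval_eCubDl (e : MidCubic) :
    (eCubDl e).eval (stabPt u X I a) = cubBracketDl e I a u := by
  have vU : eU.eval (stabPt u X I a) = u := by simp [eU, Ex.eval, stabPt]
  simp only [eCubDl, cubBracketDl, eval_add', eval_mul', eval_num', eval_midFour, vU]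
  push_cast; ring

theorem eval_eCubGap :
    eCubGap.eval (stabPt u X I a) =
      cubBracket midExitE I a u - midBracket midExitC I a u := by
  have vU : eU.eval (stabPt u X I a) = u := by simp [eU, Ex.eval, stabPt]
  simp only [eCubGap, eMidE, midBracket, eval_sub', eval_eCubE, eval_add', eval_mul', eval_midFour,
    vU]

/-- The radial speed increases with `H`. -/
theorem allFlow_mono_corner {a b u v H G : ℝ} (ha : 0 ≤ a) (hd : 0 ≤ b - a) (hS : a + b ≤ 2) (hv : 0 ≤ v)
    (hav : a * v ≤ 1) (hu : 0 ≤ u) (hu1 : u ≤ 1) (hH : G ≤ H) :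
    allFlow a b u v G ≤ allFlow a b u v H := by
  have hb : 0 ≤ b := by linarith
  have hdv : 0 ≤ (b - a) * v := by positivity
  have key : 0 ≤ allQn a b u v - (a + b) * (1 - u) * b := by
    have e : allQn a b u v - (a + b) * (1 - u) * b =
        (1 - u) * ((2 - (a + b)) * b + b * ((b - a) * v)) + u * ((b - a) * (1 - a * v)) := by
      simp only [allQn]; ring
    rw [e]
    exact add_nonneg (mul_nonneg (by linarith) (add_nonneg (mul_nonneg (by linarith) hb)
      (mul_nonneg hb hdv))) (mul_nonneg hu (mul_nonneg hd (by linarith)))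
  have hq : 0 ≤ allQn a b u v := by
    linarith [mul_nonneg (mul_nonneg (show 0 ≤ a + b by linarith) (show (0 : ℝ) ≤ 1 - u by linarith))
      hb]
  have e : allFlow a b u v H - allFlow a b u v G =
      (H - G) * (allQn a b u v + (a + b) * ((1 - a * v) * (u * (b - a)))) := by
    simp only [allFlow, allDen]; ring
  have h1 : 0 ≤ 1 - a * v := by linarith
  have h2 : 0 ≤ H - G := by linarith
  have : 0 ≤ a + b := by linarith
  rw [← sub_nonneg, e]
  positivity

/-- The radial speed at a band. -/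
theorem eval_mid_flow (c : MidBand) (hb : b = 1 - 2 * I - a) (hu1 : u ≤ 1) (ha0 : 0 < a)
    (hd : 0 < b - a) :
    allFlow a b u (2 * I * X) (midBandG c a b u (2 * I * X)) * (1000 * (b - u * a)) =
      (eMidFlow c).eval (stabPt u X I a) := by
  obtain ⟨vU, vI, vA, vS, vB, vD, vV, -, -, vN, -, vGd⟩ :=
    eval_mid_base (u := u) (X := X) c hb
  have hw : 0 < b - u * a := by linarith [mul_le_mul_of_nonneg_right hu1 ha0.le]
  rw [midBandG_eq c hb hu1]
  simp only [eMidFlow, eMidDen, eQn, eDV, eval_add', eval_sub', eval_mul', eval_num', vU, vA, vS,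
    vB, vD, vV, vN, vGd, allFlow, allDen, allQn]
  generalize midN c I a b u (2 * I * X) = n
  obtain ⟨g, hg⟩ : ∃ g, g = 1000 * (b - u * a) := ⟨_, rfl⟩
  have hg0 : g ≠ 0 := by rw [hg]; positivity
  rw [← hg]
  push_cast
  field_simp

theorem mid_corner_low_box (hP : MidPlace a I X) {u₀ u₁ X₀ X₁ I₀ I₁ a₀ a₁ l m n k : ℤ}
    (hl : 0 ≤ l ∧ 0 ≤ m ∧ 0 ≤ n ∧ 0 ≤ k)
    (hfl : 0 ≤ (eMidFlow midUpC).eval (stabPt u X I a))
    (h : checkFour (midBox u₀ u₁ X₀ X₁ I₀ I₁ a₀ a₁) 560 9 3 11 8 (eCornerLow l m n k) = true)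
    (g : ((u₀ : ℝ) ≤ u * 1000 ∧ u * 1000 < u₁) ∧ ((X₀ : ℝ) ≤ X * 100 ∧ X * 100 < X₁) ∧
      ((I₀ : ℝ) ≤ I * 1000 ∧ I * 1000 < I₁) ∧ ((a₀ : ℝ) ≤ a * 1000 ∧ a * 1000 < a₁)) :
    0 < (eMidNum midLowD).eval (stabPt u X I a) := by
  obtain ⟨⟨g1, g2⟩, ⟨g3, g4⟩, ⟨g5, g6⟩, g7, g8⟩ := g
  have h1 := nonneg_of_checkFour h (mid_point g1 g2 g3 g4 g5 g6 g7 g8)
  obtain ⟨r1, r2, -⟩ := eval_mid_range (u := u) (a := a) (I := I) (X := X)
  have vI : eMI.eval (stabPt u X I a) = I := by simp [eMI, Ex.eval, stabPt]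
  have vX : (Ex.var 1).eval (stabPt u X I a) = X := by simp [Ex.eval, stabPt]
  simp only [eCornerLow, eMidLow, eval_sub', eval_mul', eval_num', r1, r2, vI, vX] at h1
  push_cast at h1
  have hg : 0 ≤ 1 - (1 - 2 * I) * (1 - 2 * I - 2 * a) * X := by linarith [hP.guard]
  have hf : 0 ≤ X * (1 + 2 * I * a) - 1 := by linarith [hP.floor]
  have := hP.I_pos
  linarith [mul_nonneg (show (0 : ℝ) ≤ l by exact_mod_cast hl.1) hg,
    mul_nonneg (show (0 : ℝ) ≤ m by exact_mod_cast hl.2.1) (mul_nonneg hg (mul_self_nonneg X)),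
    mul_nonneg (show (0 : ℝ) ≤ n by exact_mod_cast hl.2.2.1) hf,
    mul_nonneg (show (0 : ℝ) ≤ k by exact_mod_cast hl.2.2.2) hfl]

theorem mid_corner_dl_box {u₀ u₁ X₀ X₁ I₀ I₁ a₀ a₁ k : ℤ}
    (hgap : midBracket midExitC I a u ≤ cubBracket midExitE I a u) (hl : 0 ≤ k)
    (h : checkFour (midBox u₀ u₁ X₀ X₁ I₀ I₁ a₀ a₁) 200 3 0 1 1 (eCornerDl k) = true)
    (g : ((u₀ : ℝ) ≤ u * 1000 ∧ u * 1000 < u₁) ∧ ((X₀ : ℝ) = 100 ∧ (X₁ : ℝ) = 101) ∧
      ((I₀ : ℝ) ≤ I * 1000 ∧ I * 1000 < I₁) ∧ ((a₀ : ℝ) ≤ a * 1000 ∧ a * 1000 < a₁)) :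
    0 ≤ cubBracketDl midExitE I a u := by
  obtain ⟨⟨g1, g2⟩, ⟨g3, g4⟩, ⟨g5, g6⟩, g7, g8⟩ := g
  have h1 := nonneg_of_checkFour h
    (mid_point (X := 1) g1 g2 (by linarith) (by linarith) g5 g6 g7 g8)
  simp only [eCornerDl, eval_sub', eval_mul', eval_num', eval_eCubDl, eval_eCubGap] at h1
  linarith [mul_nonneg (show (0 : ℝ) ≤ k by exact_mod_cast hl) (sub_nonneg.2 hgap)]

theorem eval_cub_exit {v : ℝ} (c : MidBand) (e : MidCubic) (hb : b = 1 - 2 * I - a) (hu1 : u ≤ 1)
    (ha0 : 0 < a) (hd : 0 < b - a) (hV : v * cubBracket e I a u = 2000 * I) :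
    let x := stabPt u X I a
    let E := cubBracket e I a u
    let G := 1000 * (b - u * a)
    0 < G ∧ allEn a b u v (midBandG c a b u v) * G * E ^ 2 = (eCubEn c (eCubE e)).eval x ∧
      (eCubExit c (eCubE e) (eCubDl e)).eval x * u =
        -allDot a b u v (midBandG c a b u v) (v * cubBracketDl e I a u) (-E) 0 *
          (E ^ 2 * G) * E := by
  intro x E G
  have hw : 0 < b - u * a := by linarith [mul_le_mul_of_nonneg_right hu1 ha0.le]
  have hG : 0 < G := by positivity
  obtain ⟨vU, vI, vA, vS, vB, vD, -, vP, vK, -, -, vGd⟩ := eval_mid_base (u := u) (X := X) c hb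
  have vE : (eCubE e).eval x = E := eval_eCubE e
  have vL : (eCubDl e).eval x = cubBracketDl e I a u := eval_eCubDl e
  have vW : eMidW.eval x = v * E := by
    rw [hV]; simp only [eMidW, eval_mul', eval_num', x, vI]; push_cast; ring
  have vNe : (eCubNe c (eCubE e)).eval x = midN c I a b u v * E := by
    simp only [eCubNe, midN, eval_add', eval_mul', eval_num', vE, vW, x, vK, vP, vI]
    push_cast; ring
  have vQn : (eCubQe (eCubE e)).eval x = allQn a b u v * E := by
    simp only [eCubQe, allQn, eval_add', eval_sub', eval_mul', eval_num', vE, vW]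
    simp only [x, vS, vB, vD, vU]
    push_cast; ring
  have vBig : (eCubBig c (eCubE e)).eval x =
      E * ((2 + (b - a) * v) * G - u * (b - a) * midN c I a b u v) := by
    simp only [eCubBig, eval_add', eval_sub', eval_mul', eval_num', vE, vW, vNe]
    simp only [x, vD, vGd, vU, G]
    push_cast; ring
  have eG : midBandG c a b u v = midN c I a b u v / G := midBandG_eq c hb hu1 v
  have vEn : allEn a b u v (midBandG c a b u v) * G * E ^ 2 =
      (eCubEn c (eCubE e)).eval x := by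
    rw [eG]
    simp only [eCubEn, eval_sub', eval_mul', eval_num', vE, vQn, vBig, vNe, allEn, allDen]
    simp only [x, vS, vB, vD, vU, vGd]
    generalize midN c I a b u v = n
    generalize allQn a b u v = Q
    field_simp
    push_cast
    ring
  refine ⟨hG, vEn, ?_⟩
  simp only [eCubExit, eval_add', eval_sub', eval_mul', ← vEn, vE, vL, vW, vQn,
    vNe, vBig, allDot, allFlow, allDen]
  simp only [x, vS, vD, vA, eG]
  generalize allEn a b u v (midN c I a b u v / G) = En
  generalize allQn a b u v = Q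
  generalize midN c I a b u v = n
  field_simp
  ring

theorem mid_corner_exit_box {v : ℝ} (hP : MidPlace a I X) (hb : b = 1 - 2 * I - a) (hu : 0 < u)
    (hu1 : u ≤ 1) (hv : v = 2 * I * X) (hV : v * cubBracket midExitE I a u = 2000 * I)
    (hE : 0 < cubBracket midExitE I a u)
    (hgap : midBracket midExitC I a u ≤ cubBracket midExitE I a u)
    (hen : 0 < allEn a b u v (midBandG midLowD a b u v))
    {u₀ u₁ X₀ X₁ I₀ I₁ a₀ a₁ k₀ k₁ k₂ k₃ k₄ : ℤ}
    (hl : 0 ≤ k₀ ∧ 0 ≤ k₁ ∧ 0 ≤ k₂ ∧ 0 ≤ k₃ ∧ 0 ≤ k₄)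
    (h : checkFour (midBox u₀ u₁ X₀ X₁ I₀ I₁ a₀ a₁) 900 16 0 10 7
      (eCornerExit k₀ k₁ k₂ k₃ k₄) = true)
    (g : ((u₀ : ℝ) ≤ u * 1000 ∧ u * 1000 < u₁) ∧ ((X₀ : ℝ) = 100 ∧ (X₁ : ℝ) = 101) ∧
      ((I₀ : ℝ) ≤ I * 1000 ∧ I * 1000 < I₁) ∧ ((a₀ : ℝ) ≤ a * 1000 ∧ a * 1000 < a₁)) :
    allDot a b u v (midBandG midLowD a b u v) (v * cubBracketDl midExitE I a u)
      (-cubBracket midExitE I a u) 0 < 0 := by
  obtain ⟨⟨g1, g2⟩, ⟨g3, g4⟩, ⟨g5, g6⟩, g7, g8⟩ := g
  have ha0 := hP.a_pos
  have hI0 := hP.I_pos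
  have hd : 0 < b - a := by linarith [hP.d_pos]
  have h1 := nonneg_of_checkFour h
    (mid_point (X := 1) g1 g2 (by linarith) (by linarith) g5 g6 g7 g8)
  obtain ⟨hG, vEn, k2⟩ := eval_cub_exit (X := 1) midLowD midExitE hb hu1 ha0 hd hV
  obtain ⟨-, vI, vA, vS, -, vD, -⟩ := eval_mid_base (u := u) (X := 1) midLowD hb
  set E := cubBracket midExitE I a u with hEdef
  have hXE : X * E = 1000 := mul_left_cancel₀ (mul_pos two_pos hI0).ne'
    (by rw [← mul_assoc, ← hv, hV]; ring)
  have c1 : 0 ≤ E - 1000 * ((a + b) * (b - a)) := by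
    rw [show (a + b) * (b - a) = (1 - 2 * I) * (1 - 2 * I - 2 * a) by rw [hb]; ring]
    have := mul_le_mul_of_nonneg_right hP.guard.le hE.le
    rw [mul_assoc, hXE] at this
    linarith
  have c3 : 0 ≤ 1000 * (1 + 2 * I * a) - E := by
    have := mul_le_mul_of_nonneg_left hP.floor hE.le
    rw [← mul_assoc, mul_comm E X, hXE] at this
    linarith
  have c0 : 0 ≤ E - midBracket midExitC I a u := sub_nonneg.2 hgap
  have ce : 0 ≤ (eCubEn midLowD (eCubE midExitE)).eval (stabPt u 1 I a) := by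
    rw [← vEn]; positivity
  simp only [eCornerExit, eval_add', eval_sub', eval_mul', eval_num', eval_eCubE, eval_eCubGap,
    ← hEdef, vI, vA, vS, vD] at h1
  push_cast at h1
  rw [← neg_pos]
  refine pos_of_mul_pos_left (b := E ^ 2 * (1000 * (b - u * a))) ?_ (by positivity)
  refine pos_of_mul_pos_left (b := E) ?_ hE.le
  rw [← k2]
  refine mul_pos ?_ hu
  linarith [mul_nonneg (show (0 : ℝ) ≤ k₀ by exact_mod_cast hl.1) c0,
    mul_nonneg (show (0 : ℝ) ≤ k₁ by exact_mod_cast hl.2.1) ce,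
    mul_nonneg (show (0 : ℝ) ≤ k₂ by exact_mod_cast hl.2.2.1) c1,
    mul_nonneg (show (0 : ℝ) ≤ k₃ by exact_mod_cast hl.2.2.2.1) c3,
    mul_nonneg (show (0 : ℝ) ≤ k₄ by exact_mod_cast hl.2.2.2.2)
      (mul_nonneg (mul_nonneg c0 c0) c0), mul_pos hI0 ha0]

theorem mid_corner_end_box (hP : MidPlace a I X) (hb : b = 1 - 2 * I - a) (hu1 : u ≤ 1)
    (hX : 1000 ≤ X * cubBracket midExitE I a u) {u₀ u₁ X₀ X₁ I₀ I₁ a₀ a₁ l m : ℤ}
    (hl : 0 ≤ l ∧ 0 ≤ m)
    (h : checkFour (midBox u₀ u₁ X₀ X₁ I₀ I₁ a₀ a₁) 560 5 2 7 5 (eCornerEnd l m) = true)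
    (g : ((u₀ : ℝ) ≤ u * 1000 ∧ u * 1000 < u₁) ∧ ((X₀ : ℝ) ≤ X * 100 ∧ X * 100 < X₁) ∧
      ((I₀ : ℝ) ≤ I * 1000 ∧ I * 1000 < I₁) ∧ ((a₀ : ℝ) ≤ a * 1000 ∧ a * 1000 < a₁)) :
    allEn a b u (2 * I * X) (midBandG midLowD a b u (2 * I * X)) < 0 := by
  obtain ⟨⟨g1, g2⟩, ⟨g3, g4⟩, ⟨g5, g6⟩, g7, g8⟩ := g
  have hd : 0 < b - a := by linarith [hP.d_pos]
  have h1 := nonneg_of_checkFour h (mid_point g1 g2 g3 g4 g5 g6 g7 g8)
  obtain ⟨hG, -, k, -⟩ := eval_mid_num (c := midLowD) (X := X) hb hu1 hP.a_pos hd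
  obtain ⟨r1, -, -⟩ := eval_mid_range (u := u) (a := a) (I := I) (X := X)
  obtain ⟨-, vI, -⟩ := eval_mid_base (u := u) (X := X) midLowD hb
  have vX : (Ex.var 1).eval (stabPt u X I a) = X := by simp [Ex.eval, stabPt]
  simp only [eCornerEnd, eval_sub', eval_mul', eval_num', r1, vI, vX, eval_eCubE, ← k] at h1
  push_cast at h1
  refine neg_of_mul_neg_left (b := 1000 * (b - u * a)) ?_ hG.le
  linarith [mul_nonneg (show (0 : ℝ) ≤ l by exact_mod_cast hl.1) (sub_nonneg.2 hX),
    mul_nonneg (show (0 : ℝ) ≤ m by exact_mod_cast hl.2)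
      (show 0 ≤ 1 - (1 - 2 * I) * (1 - 2 * I - 2 * a) * X by linarith [hP.guard]), hP.I_pos]

theorem midCorner_low_num_s0 {a I X u : ℝ} (hP : MidPlace a I X) (hI : 7 / 50 ≤ I ∧ I ≤ 1 / 7) (ha3 : 3 / 10 ≤ a) (hu : 0 < u) (hu1 : u ≤ 197 / 200)
    (hfl : 0 ≤ (eMidFlow midUpC).eval (stabPt u X I a)) (p0 : u < (493 / 1000)) :
    0 < (eMidNum midLowD).eval (stabPt u X I a) := by
  obtain ⟨hI1, hI2⟩ := hI
  have := hP.I_le_a
  have := hP.a_le
  have := hP.X_lt_av (3 / 10) (7 / 50) (1191 / 100) (by linarith) (by linarith) (by norm_num) (by norm_num) (by norm_num)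
  have := hP.le_X (31 / 100) (143 / 1000) (91 / 100) (by linarith) (by linarith) (by norm_num)
  exact mid_corner_low_box hP (by decide) hfl midCorner_low_num0
    ⟨⟨(by push_cast; linarith), (by push_cast; linarith)⟩, ⟨(by push_cast; linarith), (by push_cast; linarith)⟩,
        ⟨(by push_cast; linarith), (by push_cast; linarith)⟩, (by push_cast; linarith), (by push_cast; linarith)⟩

theorem midCorner_low_num_s4 {a I X u : ℝ} (hP : MidPlace a I X) (hI : 7 / 50 ≤ I ∧ I ≤ 1 / 7) (ha3 : 3 / 10 ≤ a) (hu : 0 < u) (hu1 : u ≤ 197 / 200)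
    (hfl : 0 ≤ (eMidFlow midUpC).eval (stabPt u X I a)) (p0 : (493 / 1000) ≤ u) (p1 : X < (641 / 100)) (p2 : X < (183 / 50)) (p3 : X < (57 / 25)) :
    0 < (eMidNum midLowD).eval (stabPt u X I a) := by
  obtain ⟨hI1, hI2⟩ := hI
  have := hP.I_le_a
  have := hP.a_le
  rcases lt_or_ge u (739 / 1000) with h0 | h0
  · have := hP.X_lt_av (3 / 10) (7 / 50) (1191 / 100) (by linarith) (by linarith) (by norm_num) (by norm_num) (by norm_num)
    have := hP.le_X (31 / 100) (143 / 1000) (91 / 100) (by linarith) (by linarith) (by norm_num)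
    exact mid_corner_low_box hP (by decide) hfl midCorner_low_num1
      ⟨⟨(by push_cast; linarith), (by push_cast; linarith)⟩, ⟨(by push_cast; linarith), (by push_cast; linarith)⟩,
        ⟨(by push_cast; linarith), (by push_cast; linarith)⟩, (by push_cast; linarith), (by push_cast; linarith)⟩
  · rcases lt_or_ge u (431 / 500) with h1 | h1
    · rcases lt_or_ge a (61 / 200) with h2 | h2
      · have := hP.X_lt_av (3 / 10) (7 / 50) (1191 / 100) (by linarith) (by linarith) (by norm_num) (by norm_num) (by norm_num)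
        have := hP.le_X (61 / 200) (143 / 1000) (91 / 100) (by linarith) (by linarith) (by norm_num)
        exact mid_corner_low_box hP (by decide) hfl midCorner_low_num2
          ⟨⟨(by push_cast; linarith), (by push_cast; linarith)⟩, ⟨(by push_cast; linarith), (by push_cast; linarith)⟩,
        ⟨(by push_cast; linarith), (by push_cast; linarith)⟩, (by push_cast; linarith), (by push_cast; linarith)⟩
      · rcases lt_or_ge X (159 / 100) with h3 | h3
        · have := hP.X_lt_av (61 / 200) (7 / 50) (1171 / 100) (by linarith) (by linarith) (by norm_num) (by norm_num) (by norm_num)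
          have := hP.le_X (31 / 100) (143 / 1000) (91 / 100) (by linarith) (by linarith) (by norm_num)
          exact mid_corner_low_box hP (by decide) hfl midCorner_low_num3
            ⟨⟨(by push_cast; linarith), (by push_cast; linarith)⟩, ⟨(by push_cast; linarith), (by push_cast; linarith)⟩,
        ⟨(by push_cast; linarith), (by push_cast; linarith)⟩, (by push_cast; linarith), (by push_cast; linarith)⟩
        · have := hP.X_lt_av (61 / 200) (7 / 50) (1171 / 100) (by linarith) (by linarith) (by norm_num) (by norm_num) (by norm_num)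
          have := hP.le_X (31 / 100) (143 / 1000) (91 / 100) (by linarith) (by linarith) (by norm_num)
          exact mid_corner_low_box hP (by decide) hfl midCorner_low_num4
            ⟨⟨(by push_cast; linarith), (by push_cast; linarith)⟩, ⟨(by push_cast; linarith), (by push_cast; linarith)⟩,
        ⟨(by push_cast; linarith), (by push_cast; linarith)⟩, (by push_cast; linarith), (by push_cast; linarith)⟩
    · have := hP.X_lt_av (3 / 10) (7 / 50) (1191 / 100) (by linarith) (by linarith) (by norm_num) (by norm_num) (by norm_num)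
      have := hP.le_X (31 / 100) (143 / 1000) (91 / 100) (by linarith) (by linarith) (by norm_num)
      exact mid_corner_low_box hP (by decide) hfl midCorner_low_num5
        ⟨⟨(by push_cast; linarith), (by push_cast; linarith)⟩, ⟨(by push_cast; linarith), (by push_cast; linarith)⟩,
        ⟨(by push_cast; linarith), (by push_cast; linarith)⟩, (by push_cast; linarith), (by push_cast; linarith)⟩

theorem midCorner_low_num_s5 {a I X u : ℝ} (hP : MidPlace a I X) (hI : 7 / 50 ≤ I ∧ I ≤ 1 / 7) (ha3 : 3 / 10 ≤ a) (hu : 0 < u) (hu1 : u ≤ 197 / 200)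
    (hfl : 0 ≤ (eMidFlow midUpC).eval (stabPt u X I a)) (p0 : (493 / 1000) ≤ u) (p1 : X < (641 / 100)) (p2 : X < (183 / 50)) (p3 : (57 / 25) ≤ X) :
    0 < (eMidNum midLowD).eval (stabPt u X I a) := by
  obtain ⟨hI1, hI2⟩ := hI
  have := hP.I_le_a
  have := hP.a_le
  rcases lt_or_ge X (297 / 100) with h0 | h0
  · rcases lt_or_ge u (739 / 1000) with h1 | h1
    · have := hP.X_lt_av (3 / 10) (7 / 50) (1191 / 100) (by linarith) (by linarith) (by norm_num) (by norm_num) (by norm_num)
      have := hP.le_X (31 / 100) (143 / 1000) (91 / 100) (by linarith) (by linarith) (by norm_num)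
      exact mid_corner_low_box hP (by decide) hfl midCorner_low_num6
        ⟨⟨(by push_cast; linarith), (by push_cast; linarith)⟩, ⟨(by push_cast; linarith), (by push_cast; linarith)⟩,
        ⟨(by push_cast; linarith), (by push_cast; linarith)⟩, (by push_cast; linarith), (by push_cast; linarith)⟩
    · rcases lt_or_ge u (431 / 500) with h2 | h2
      · have := hP.X_lt_av (3 / 10) (7 / 50) (1191 / 100) (by linarith) (by linarith) (by norm_num) (by norm_num) (by norm_num)
        have := hP.le_X (31 / 100) (143 / 1000) (91 / 100) (by linarith) (by linarith) (by norm_num)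
        exact mid_corner_low_box hP (by decide) hfl midCorner_low_num7
          ⟨⟨(by push_cast; linarith), (by push_cast; linarith)⟩, ⟨(by push_cast; linarith), (by push_cast; linarith)⟩,
        ⟨(by push_cast; linarith), (by push_cast; linarith)⟩, (by push_cast; linarith), (by push_cast; linarith)⟩
      · rcases lt_or_ge u (231 / 250) with h3 | h3
        · have := hP.X_lt_av (3 / 10) (7 / 50) (1191 / 100) (by linarith) (by linarith) (by norm_num) (by norm_num) (by norm_num)
          have := hP.le_X (31 / 100) (143 / 1000) (91 / 100) (by linarith) (by linarith) (by norm_num)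
          exact mid_corner_low_box hP (by decide) hfl midCorner_low_num8
            ⟨⟨(by push_cast; linarith), (by push_cast; linarith)⟩, ⟨(by push_cast; linarith), (by push_cast; linarith)⟩,
        ⟨(by push_cast; linarith), (by push_cast; linarith)⟩, (by push_cast; linarith), (by push_cast; linarith)⟩
        · have := hP.X_lt_av (3 / 10) (7 / 50) (1191 / 100) (by linarith) (by linarith) (by norm_num) (by norm_num) (by norm_num)
          have := hP.le_X (31 / 100) (143 / 1000) (91 / 100) (by linarith) (by linarith) (by norm_num)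
          exact mid_corner_low_box hP (by decide) hfl midCorner_low_num9
            ⟨⟨(by push_cast; linarith), (by push_cast; linarith)⟩, ⟨(by push_cast; linarith), (by push_cast; linarith)⟩,
        ⟨(by push_cast; linarith), (by push_cast; linarith)⟩, (by push_cast; linarith), (by push_cast; linarith)⟩
  · have := hP.X_lt_av (3 / 10) (7 / 50) (1191 / 100) (by linarith) (by linarith) (by norm_num) (by norm_num) (by norm_num)
    have := hP.le_X (31 / 100) (143 / 1000) (91 / 100) (by linarith) (by linarith) (by norm_num)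
    exact mid_corner_low_box hP (by decide) hfl midCorner_low_num10
      ⟨⟨(by push_cast; linarith), (by push_cast; linarith)⟩, ⟨(by push_cast; linarith), (by push_cast; linarith)⟩,
        ⟨(by push_cast; linarith), (by push_cast; linarith)⟩, (by push_cast; linarith), (by push_cast; linarith)⟩

theorem midCorner_low_num_s3 {a I X u : ℝ} (hP : MidPlace a I X) (hI : 7 / 50 ≤ I ∧ I ≤ 1 / 7) (ha3 : 3 / 10 ≤ a) (hu : 0 < u) (hu1 : u ≤ 197 / 200)
    (hfl : 0 ≤ (eMidFlow midUpC).eval (stabPt u X I a)) (p0 : (493 / 1000) ≤ u) (p1 : X < (641 / 100)) (p2 : X < (183 / 50)) :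
    0 < (eMidNum midLowD).eval (stabPt u X I a) := by
  rcases lt_or_ge X (57 / 25) with h | h
  · exact midCorner_low_num_s4 hP hI ha3 hu hu1 hfl p0 p1 p2 h
  · exact midCorner_low_num_s5 hP hI ha3 hu hu1 hfl p0 p1 p2 h

theorem midCorner_low_num_s6 {a I X u : ℝ} (hP : MidPlace a I X) (hI : 7 / 50 ≤ I ∧ I ≤ 1 / 7) (ha3 : 3 / 10 ≤ a) (hu : 0 < u) (hu1 : u ≤ 197 / 200)
    (hfl : 0 ≤ (eMidFlow midUpC).eval (stabPt u X I a)) (p0 : (493 / 1000) ≤ u) (p1 : X < (641 / 100)) (p2 : (183 / 50) ≤ X) :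
    0 < (eMidNum midLowD).eval (stabPt u X I a) := by
  obtain ⟨hI1, hI2⟩ := hI
  have := hP.I_le_a
  have := hP.a_le
  have := hP.X_lt_av (3 / 10) (7 / 50) (1191 / 100) (by linarith) (by linarith) (by norm_num) (by norm_num) (by norm_num)
  have := hP.le_X (31 / 100) (143 / 1000) (91 / 100) (by linarith) (by linarith) (by norm_num)
  exact mid_corner_low_box hP (by decide) hfl midCorner_low_num11
    ⟨⟨(by push_cast; linarith), (by push_cast; linarith)⟩, ⟨(by push_cast; linarith), (by push_cast; linarith)⟩,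
        ⟨(by push_cast; linarith), (by push_cast; linarith)⟩, (by push_cast; linarith), (by push_cast; linarith)⟩

theorem midCorner_low_num_s2 {a I X u : ℝ} (hP : MidPlace a I X) (hI : 7 / 50 ≤ I ∧ I ≤ 1 / 7) (ha3 : 3 / 10 ≤ a) (hu : 0 < u) (hu1 : u ≤ 197 / 200)
    (hfl : 0 ≤ (eMidFlow midUpC).eval (stabPt u X I a)) (p0 : (493 / 1000) ≤ u) (p1 : X < (641 / 100)) :
    0 < (eMidNum midLowD).eval (stabPt u X I a) := by
  rcases lt_or_ge X (183 / 50) with h | h
  · exact midCorner_low_num_s3 hP hI ha3 hu hu1 hfl p0 p1 h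
  · exact midCorner_low_num_s6 hP hI ha3 hu hu1 hfl p0 p1 h

theorem midCorner_low_num_s7 {a I X u : ℝ} (hP : MidPlace a I X) (hI : 7 / 50 ≤ I ∧ I ≤ 1 / 7) (ha3 : 3 / 10 ≤ a) (hu : 0 < u) (hu1 : u ≤ 197 / 200)
    (hfl : 0 ≤ (eMidFlow midUpC).eval (stabPt u X I a)) (p0 : (493 / 1000) ≤ u) (p1 : (641 / 100) ≤ X) :
    0 < (eMidNum midLowD).eval (stabPt u X I a) := by
  obtain ⟨hI1, hI2⟩ := hI
  have := hP.I_le_a
  have := hP.a_le
  rcases lt_or_ge u (739 / 1000) with h0 | h0
  · have := hP.X_lt_av (3 / 10) (7 / 50) (1191 / 100) (by linarith) (by linarith) (by norm_num) (by norm_num) (by norm_num)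
    have := hP.le_X (31 / 100) (143 / 1000) (91 / 100) (by linarith) (by linarith) (by norm_num)
    exact mid_corner_low_box hP (by decide) hfl midCorner_low_num12
      ⟨⟨(by push_cast; linarith), (by push_cast; linarith)⟩, ⟨(by push_cast; linarith), (by push_cast; linarith)⟩,
        ⟨(by push_cast; linarith), (by push_cast; linarith)⟩, (by push_cast; linarith), (by push_cast; linarith)⟩
  · have := hP.X_lt_av (3 / 10) (7 / 50) (1191 / 100) (by linarith) (by linarith) (by norm_num) (by norm_num) (by norm_num)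
    have := hP.le_X (31 / 100) (143 / 1000) (91 / 100) (by linarith) (by linarith) (by norm_num)
    exact mid_corner_low_box hP (by decide) hfl midCorner_low_num13
      ⟨⟨(by push_cast; linarith), (by push_cast; linarith)⟩, ⟨(by push_cast; linarith), (by push_cast; linarith)⟩,
        ⟨(by push_cast; linarith), (by push_cast; linarith)⟩, (by push_cast; linarith), (by push_cast; linarith)⟩

theorem midCorner_low_num_s1 {a I X u : ℝ} (hP : MidPlace a I X) (hI : 7 / 50 ≤ I ∧ I ≤ 1 / 7) (ha3 : 3 / 10 ≤ a) (hu : 0 < u) (hu1 : u ≤ 197 / 200)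
    (hfl : 0 ≤ (eMidFlow midUpC).eval (stabPt u X I a)) (p0 : (493 / 1000) ≤ u) :
    0 < (eMidNum midLowD).eval (stabPt u X I a) := by
  rcases lt_or_ge X (641 / 100) with h | h
  · exact midCorner_low_num_s2 hP hI ha3 hu hu1 hfl p0 h
  · exact midCorner_low_num_s7 hP hI ha3 hu hu1 hfl p0 h

theorem midCorner_low_num {a I X u : ℝ} (hP : MidPlace a I X) (hI : 7 / 50 ≤ I ∧ I ≤ 1 / 7) (ha3 : 3 / 10 ≤ a) (hu : 0 < u) (hu1 : u ≤ 197 / 200)
    (hfl : 0 ≤ (eMidFlow midUpC).eval (stabPt u X I a)) :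
    0 < (eMidNum midLowD).eval (stabPt u X I a) := by
  rcases lt_or_ge u (493 / 1000) with h | h
  · exact midCorner_low_num_s0 hP hI ha3 hu hu1 hfl  h
  · exact midCorner_low_num_s1 hP hI ha3 hu hu1 hfl  h

theorem midCorner_low_den {a I X u : ℝ} (hP : MidPlace a I X) (hI : 7 / 50 ≤ I ∧ I ≤ 1 / 7) (ha3 : 3 / 10 ≤ a) (hu : 0 < u) (hu1 : u ≤ 197 / 200) :
    0 < (eMidDen midLowD).eval (stabPt u X I a) := by
  obtain ⟨hI1, hI2⟩ := hI
  have := hP.I_le_a
  have := hP.a_le
  have := hP.X_lt_av (3 / 10) (7 / 50) (1191 / 100) (by linarith) (by linarith) (by norm_num) (by norm_num) (by norm_num)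
  have := hP.le_X (31 / 100) (143 / 1000) (91 / 100) (by linarith) (by linarith) (by norm_num)
  exact mid_den_box midCorner_low_den0
    ⟨⟨(by push_cast; linarith), (by push_cast; linarith)⟩, ⟨(by push_cast; linarith), (by push_cast; linarith)⟩,
        ⟨(by push_cast; linarith), (by push_cast; linarith)⟩, (by push_cast; linarith), (by push_cast; linarith)⟩

theorem midCorner_low_start {a I X : ℝ} (hP : MidPlace a I X) (hI : 7 / 50 ≤ I ∧ I ≤ 1 / 7) (ha3 : 3 / 10 ≤ a) :
    0 ≤ (eMidStart midLowD).eval (stabPt 0 X I a) := by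
  obtain ⟨hI1, hI2⟩ := hI
  have := hP.I_le_a
  have := hP.a_le
  have := hP.X_lt_av (3 / 10) (7 / 50) (1191 / 100) (by linarith) (by linarith) (by norm_num) (by norm_num) (by norm_num)
  have := hP.le_X (31 / 100) (143 / 1000) (91 / 100) (by linarith) (by linarith) (by norm_num)
  exact mid_start_low_box hP (by decide) midCorner_low_start0
    ⟨⟨by norm_num, by norm_num⟩, ⟨(by push_cast; linarith), (by push_cast; linarith)⟩,
        ⟨(by push_cast; linarith), (by push_cast; linarith)⟩, (by push_cast; linarith), (by push_cast; linarith)⟩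

theorem midCorner_exit_sign {a b I X u : ℝ} (hP : MidPlace a I X) (hb : b = 1 - 2 * I - a) (hI : 7 / 50 ≤ I ∧ I ≤ 1 / 7) (ha3 : 3 / 10 ≤ a) (hu : 0 < u) (hu1 : u ≤ 197 / 200)
    (hV : 2 * I * X * cubBracket midExitE I a u = 2000 * I) (hE : 0 < cubBracket midExitE I a u)
    (hgap : midBracket midExitC I a u ≤ cubBracket midExitE I a u)
    (hen : 0 < allEn a b u (2 * I * X) (midBandG midLowD a b u (2 * I * X))) :
    allDot a b u (2 * I * X) (midBandG midLowD a b u (2 * I * X))
      (2 * I * X * cubBracketDl midExitE I a u) (-cubBracket midExitE I a u) 0 < 0 := by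
  obtain ⟨hI1, hI2⟩ := hI
  have := hP.I_le_a
  have := hP.a_le
  rcases lt_or_ge u (493 / 1000) with h0 | h0
  · exact mid_corner_exit_box hP hb hu (by linarith) rfl hV hE hgap hen (by decide) midCorner_exit_sign0
      ⟨⟨(by push_cast; linarith), (by push_cast; linarith)⟩, ⟨by norm_num, by norm_num⟩,
        ⟨(by push_cast; linarith), (by push_cast; linarith)⟩, (by push_cast; linarith), (by push_cast; linarith)⟩
  · rcases lt_or_ge u (739 / 1000) with h1 | h1
    · exact mid_corner_exit_box hP hb hu (by linarith) rfl hV hE hgap hen (by decide) midCorner_exit_sign1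
        ⟨⟨(by push_cast; linarith), (by push_cast; linarith)⟩, ⟨by norm_num, by norm_num⟩,
        ⟨(by push_cast; linarith), (by push_cast; linarith)⟩, (by push_cast; linarith), (by push_cast; linarith)⟩
    · exact mid_corner_exit_box hP hb hu (by linarith) rfl hV hE hgap hen (by decide) midCorner_exit_sign2
        ⟨⟨(by push_cast; linarith), (by push_cast; linarith)⟩, ⟨by norm_num, by norm_num⟩,
        ⟨(by push_cast; linarith), (by push_cast; linarith)⟩, (by push_cast; linarith), (by push_cast; linarith)⟩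

theorem midCorner_exit_dl_s0 {a I X u : ℝ} (hP : MidPlace a I X) (hI : 7 / 50 ≤ I ∧ I ≤ 1 / 7) (ha3 : 3 / 10 ≤ a) (hu : 0 < u) (hu1 : u ≤ 197 / 200)
    (hgap : midBracket midExitC I a u ≤ cubBracket midExitE I a u) (p0 : u < (493 / 1000)) :
    0 ≤ cubBracketDl midExitE I a u := by
  obtain ⟨hI1, hI2⟩ := hI
  have := hP.I_le_a
  have := hP.a_le
  exact mid_corner_dl_box hgap (by decide) midCorner_exit_dl0
    ⟨⟨(by push_cast; linarith), (by push_cast; linarith)⟩, ⟨by norm_num, by norm_num⟩,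
        ⟨(by push_cast; linarith), (by push_cast; linarith)⟩, (by push_cast; linarith), (by push_cast; linarith)⟩

theorem midCorner_exit_dl_s2 {a I X u : ℝ} (hP : MidPlace a I X) (hI : 7 / 50 ≤ I ∧ I ≤ 1 / 7) (ha3 : 3 / 10 ≤ a) (hu : 0 < u) (hu1 : u ≤ 197 / 200)
    (hgap : midBracket midExitC I a u ≤ cubBracket midExitE I a u) (p0 : (493 / 1000) ≤ u) (p1 : u < (739 / 1000)) :
    0 ≤ cubBracketDl midExitE I a u := by
  obtain ⟨hI1, hI2⟩ := hI
  have := hP.I_le_a
  have := hP.a_le
  exact mid_corner_dl_box hgap (by decide) midCorner_exit_dl1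
    ⟨⟨(by push_cast; linarith), (by push_cast; linarith)⟩, ⟨by norm_num, by norm_num⟩,
        ⟨(by push_cast; linarith), (by push_cast; linarith)⟩, (by push_cast; linarith), (by push_cast; linarith)⟩

theorem midCorner_exit_dl_s3 {a I X u : ℝ} (hP : MidPlace a I X) (hI : 7 / 50 ≤ I ∧ I ≤ 1 / 7) (ha3 : 3 / 10 ≤ a) (hu : 0 < u) (hu1 : u ≤ 197 / 200)
    (hgap : midBracket midExitC I a u ≤ cubBracket midExitE I a u) (p0 : (493 / 1000) ≤ u) (p1 : (739 / 1000) ≤ u) :
    0 ≤ cubBracketDl midExitE I a u := by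
  obtain ⟨hI1, hI2⟩ := hI
  have := hP.I_le_a
  have := hP.a_le
  rcases lt_or_ge u (431 / 500) with h0 | h0
  · rcases lt_or_ge u (4 / 5) with h1 | h1
    · exact mid_corner_dl_box hgap (by decide) midCorner_exit_dl2
        ⟨⟨(by push_cast; linarith), (by push_cast; linarith)⟩, ⟨by norm_num, by norm_num⟩,
        ⟨(by push_cast; linarith), (by push_cast; linarith)⟩, (by push_cast; linarith), (by push_cast; linarith)⟩
    · rcases lt_or_ge u (831 / 1000) with h2 | h2
      · rcases lt_or_ge u (163 / 200) with h3 | h3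
        · exact mid_corner_dl_box hgap (by decide) midCorner_exit_dl3
            ⟨⟨(by push_cast; linarith), (by push_cast; linarith)⟩, ⟨by norm_num, by norm_num⟩,
        ⟨(by push_cast; linarith), (by push_cast; linarith)⟩, (by push_cast; linarith), (by push_cast; linarith)⟩
        · exact mid_corner_dl_box hgap (by decide) midCorner_exit_dl4
            ⟨⟨(by push_cast; linarith), (by push_cast; linarith)⟩, ⟨by norm_num, by norm_num⟩,
        ⟨(by push_cast; linarith), (by push_cast; linarith)⟩, (by push_cast; linarith), (by push_cast; linarith)⟩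
      · exact mid_corner_dl_box hgap (by decide) midCorner_exit_dl5
          ⟨⟨(by push_cast; linarith), (by push_cast; linarith)⟩, ⟨by norm_num, by norm_num⟩,
        ⟨(by push_cast; linarith), (by push_cast; linarith)⟩, (by push_cast; linarith), (by push_cast; linarith)⟩
  · exact mid_corner_dl_box hgap (by decide) midCorner_exit_dl6
      ⟨⟨(by push_cast; linarith), (by push_cast; linarith)⟩, ⟨by norm_num, by norm_num⟩,
        ⟨(by push_cast; linarith), (by push_cast; linarith)⟩, (by push_cast; linarith), (by push_cast; linarith)⟩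

theorem midCorner_exit_dl_s1 {a I X u : ℝ} (hP : MidPlace a I X) (hI : 7 / 50 ≤ I ∧ I ≤ 1 / 7) (ha3 : 3 / 10 ≤ a) (hu : 0 < u) (hu1 : u ≤ 197 / 200)
    (hgap : midBracket midExitC I a u ≤ cubBracket midExitE I a u) (p0 : (493 / 1000) ≤ u) :
    0 ≤ cubBracketDl midExitE I a u := by
  rcases lt_or_ge u (739 / 1000) with h | h
  · exact midCorner_exit_dl_s2 hP hI ha3 hu hu1 hgap p0 h
  · exact midCorner_exit_dl_s3 hP hI ha3 hu hu1 hgap p0 h

theorem midCorner_exit_dl {a I X u : ℝ} (hP : MidPlace a I X) (hI : 7 / 50 ≤ I ∧ I ≤ 1 / 7) (ha3 : 3 / 10 ≤ a) (hu : 0 < u) (hu1 : u ≤ 197 / 200)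
    (hgap : midBracket midExitC I a u ≤ cubBracket midExitE I a u) :
    0 ≤ cubBracketDl midExitE I a u := by
  rcases lt_or_ge u (493 / 1000) with h | h
  · exact midCorner_exit_dl_s0 hP hI ha3 hu hu1 hgap  h
  · exact midCorner_exit_dl_s1 hP hI ha3 hu hu1 hgap  h

theorem midCorner_exit_end {a b I X : ℝ} (hP : MidPlace a I X) (hb : b = 1 - 2 * I - a) (hI : 7 / 50 ≤ I ∧ I ≤ 1 / 7) (ha3 : 3 / 10 ≤ a)
    (hX : 1000 ≤ X * cubBracket midExitE I a (197 / 200)) :
    allEn a b (197 / 200) (2 * I * X) (midBandG midLowD a b (197 / 200) (2 * I * X)) < 0 := by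
  obtain ⟨hI1, hI2⟩ := hI
  have := hP.I_le_a
  have := hP.a_le
  rcases lt_or_ge X (641 / 100) with h0 | h0
  · have := hP.X_lt_av (3 / 10) (7 / 50) (1191 / 100) (by linarith) (by linarith) (by norm_num) (by norm_num) (by norm_num)
    have := hP.le_X (31 / 100) (143 / 1000) (91 / 100) (by linarith) (by linarith) (by norm_num)
    exact mid_corner_end_box hP hb (by norm_num) hX (by decide) midCorner_exit_end0
      ⟨⟨by norm_num, by norm_num⟩, ⟨(by push_cast; linarith), (by push_cast; linarith)⟩,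
        ⟨(by push_cast; linarith), (by push_cast; linarith)⟩, (by push_cast; linarith), (by push_cast; linarith)⟩
  · rcases lt_or_ge X (229 / 25) with h1 | h1
    · have := hP.X_lt_av (3 / 10) (7 / 50) (1191 / 100) (by linarith) (by linarith) (by norm_num) (by norm_num) (by norm_num)
      have := hP.le_X (31 / 100) (143 / 1000) (91 / 100) (by linarith) (by linarith) (by norm_num)
      exact mid_corner_end_box hP hb (by norm_num) hX (by decide) midCorner_exit_end1
        ⟨⟨by norm_num, by norm_num⟩, ⟨(by push_cast; linarith), (by push_cast; linarith)⟩,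
        ⟨(by push_cast; linarith), (by push_cast; linarith)⟩, (by push_cast; linarith), (by push_cast; linarith)⟩
    · have := hP.X_lt_av (3 / 10) (7 / 50) (1191 / 100) (by linarith) (by linarith) (by norm_num) (by norm_num) (by norm_num)
      have := hP.le_X (31 / 100) (143 / 1000) (91 / 100) (by linarith) (by linarith) (by norm_num)
      exact mid_corner_end_box hP hb (by norm_num) hX (by decide) midCorner_exit_end2
        ⟨⟨by norm_num, by norm_num⟩, ⟨(by push_cast; linarith), (by push_cast; linarith)⟩,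
        ⟨(by push_cast; linarith), (by push_cast; linarith)⟩, (by push_cast; linarith), (by push_cast; linarith)⟩

end AllLow

variable {N p q : ℝ} {S : Set ℝ} {R x y s dx dy : ℝ → ℝ}

/-- **The sharper lower band of the corner** up to `u = 197/200`. -/
theorem orbit_midCorner_low (hf : IsOrbitFns N p q S R x y s dx dy)
    (hb : SlabBoxAll N (1 / (p + 1)) (1 / (q + 1))) (h7 : 7 ≤ N) (hN : N ≤ 50 / 7)
    (ha3 : 3 / 10 ≤ 1 / (p + 1)) (ha : 1 / (p + 1) ≤ 31 / 100) {w : ℝ} (hw : w ∈ S)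
    (hw0 : 0 < R w) (hwu : uOf N (R w) (x w) ≤ 197 / 200) :
    midBandG midLowD (1 / (p + 1)) (1 / (q + 1)) (uOf N (R w) (x w))
        (vOf (1 / (p + 1)) (1 / (q + 1)) (y w / x w)) <
      hOf N (R w) (x w) (y w) w / (1 / (q + 1) - 1 / (p + 1)) := by
  obtain ⟨ha0, hb0, hd, -⟩ := hb.facts
  have hJ : ∀ {I : ℝ}, I = 1 / N → 7 / 50 ≤ I ∧ I ≤ 1 / 7 := fun hI => by
    subst hI
    exact ⟨by rw [le_div_iff₀ (by linarith)]; linarith,
      one_div_le_one_div_of_le (by norm_num) h7⟩
  obtain ⟨c1, c2, c3⟩ := continuous_mid ha0 hd midLowD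
  have hS : 1 / (p + 1) + 1 / (q + 1) ≤ 2 := by linarith [hb.S_lt]
  have key := band_step_all hf hb (u₁ := 197 / 200) (one_mul 1) (hasGradTwo_mid ha0 hd midLowD)
    c1 c2 c3
    (fun u v => 0 < allFlow (1 / (p + 1)) (1 / (q + 1)) u v
      (midBandG midUpC (1 / (p + 1)) (1 / (q + 1)) u v))
    (fun z hz hz0 _ => ?_) (fun v h1 h2 h3 => ?_) (fun u v hu hu' hu1 hv hE => ?_) hw hw0 hwu
  · linarith
  · obtain ⟨hP, -⟩ := orbit_point_all hf hb hz hz0
    have hv0 : 0 ≤ vOf (1 / (p + 1)) (1 / (q + 1)) (y z / x z) := by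
      refine (pos_of_mul_pos_right (lt_trans two_pos hP.low) ?_).le
      linarith [hb.six]
    exact hP.flow_pos.trans_le (AllLow.allFlow_mono_corner ha0.le hd.le hS hv0 hP.av.le hP.u_pos.le
      hP.u_lt.le (orbit_midC hf hb h7 (by linarith) ha hz hz0).2.le)
  · obtain ⟨I, X, rfl, hbI, hI, hP⟩ := AllLow.midPlace_of hb h7 (by linarith) ha h1 h2 h3
    have k := AllLow.eval_mid_start (c := midLowD) (X := X) hbI hP.I_pos hb0
    rw [one_mul]
    refine nonneg_of_mul_nonneg_left (b := 1000 * (1 / (q + 1)) * (1 + 2 * I)) ?_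
      (by have := hP.I_pos; positivity)
    rw [k]
    exact mul_nonneg hP.I_pos.le (AllLow.midCorner_low_start hP (hJ hI) ha3)
  · obtain ⟨I, X, rfl, hbI, hI, hP⟩ :=
      AllLow.midPlace_of hb h7 (by linarith) ha hv.low.le hv.high hv.av
    obtain ⟨hG, k1, -, k2⟩ := AllLow.eval_mid_num (c := midLowD) (X := X) hbI hu'.le ha0 hd
    have hfl : 0 ≤ (AllLow.eMidFlow midUpC).eval (AllLow.stabPt u X I (1 / (p + 1))) := by
      rw [← AllLow.eval_mid_flow midUpC hbI hu'.le ha0 hd]
      exact (mul_pos hE hG).le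
    rw [one_mul]
    exact ⟨pos_of_mul_pos_left (k1 ▸ AllLow.midCorner_low_den hP (hJ hI) ha3 hu hu1) hG.le,
      pos_of_mul_pos_left (k2 ▸ AllLow.midCorner_low_num hP (hJ hI) ha3 hu hu1 hfl)
        (pow_pos hG 3).le⟩

/-- **The exit curve of the corner** up to `u = 197/200`. -/
theorem orbit_midExitE (hf : IsOrbitFns N p q S R x y s dx dy)
    (hb : SlabBoxAll N (1 / (p + 1)) (1 / (q + 1))) (h7 : 7 ≤ N) (hN : N ≤ 50 / 7)
    (ha3 : 3 / 10 ≤ 1 / (p + 1)) (ha : 1 / (p + 1) ≤ 31 / 100) {w : ℝ} (hw : w ∈ S)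
    (hw0 : 0 < R w) (hwu : uOf N (R w) (x w) ≤ 197 / 200) :
    let al := 1 / (p + 1)
    let I := allStabI al (1 / (q + 1))
    vOf al (1 / (q + 1)) (y w / x w) * cubBracket midExitE I al (uOf N (R w) (x w)) <
      2000 * I := by
  obtain ⟨ha0, hb0, hd, -⟩ := hb.facts
  have hJ : ∀ {I : ℝ}, I = 1 / N → 7 / 50 ≤ I ∧ I ≤ 1 / 7 := fun hI => by
    subst hI
    exact ⟨by rw [le_div_iff₀ (by linarith)]; linarith,
      one_div_le_one_div_of_le (by norm_num) h7⟩
  refine sub_pos.1 (exit_step_all hf hb (u₁ := 197 / 200) (by norm_num) (hasGrad_cub _ _ midExitE)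
    (fun u v H => midBandG midLowD (1 / (p + 1)) (1 / (q + 1)) u v < H ∧
      v * midBracket midExitC (allStabI (1 / (p + 1)) (1 / (q + 1))) (1 / (p + 1)) u <
        2000 * allStabI (1 / (p + 1)) (1 / (q + 1)))
    (fun z hz hz0 hu => ⟨orbit_midCorner_low hf hb h7 hN ha3 ha hz hz0 hu,
      orbit_midExitC hf hb h7 (by linarith) ha hz hz0 (by linarith)⟩)
    (fun v H hP hen hE => ?_) (fun u v H hP hen hu hE hF => ?_) hw hw0 hwu)
  · obtain ⟨I, X, rfl, hbI, hI, hM⟩ :=
      AllLow.midPlace_of hb h7 (by linarith) ha hP.low.le hP.high hP.av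
    have eI : allStabI (1 / (p + 1)) (1 / (q + 1)) = I := by rw [allStabI, hbI]; ring
    simp only [eI]
    by_contra hn
    have h1 : 1000 ≤ X * cubBracket midExitE I (1 / (p + 1)) (197 / 200) := by
      refine le_of_mul_le_mul_left (a := 2 * I) ?_ (mul_pos two_pos hM.I_pos)
      linarith [not_lt.1 hn]
    have h2 := AllLow.midCorner_exit_end hM hbI (hJ hI) ha3 h1
    have h3 := AllLow.allEn_anti (u := 197 / 200) ha0.le hd.le (by linarith [hM.I_pos])
      (mul_nonneg (mul_nonneg zero_le_two hM.I_pos.le) hM.X_pos.le) hP.av.le hP.u_pos.le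
      hP.u_lt.le hE.1.le
    linarith
  · obtain ⟨I, X, rfl, hbI, hI, hM⟩ :=
      AllLow.midPlace_of hb h7 (by linarith) ha hP.low.le hP.high hP.av
    have eI : allStabI (1 / (p + 1)) (1 / (q + 1)) = I := by rw [allStabI, hbI]; ring
    simp only [eI] at hF hE ⊢
    have hv0 : 0 < 2 * I * X := mul_pos (mul_pos two_pos hM.I_pos) hM.X_pos
    have hgap : midBracket midExitC I (1 / (p + 1)) u ≤
        cubBracket midExitE I (1 / (p + 1)) u := by
      refine (le_of_mul_le_mul_left ?_ hv0 : _)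
      linarith [hE.2]
    have hD : 0 < cubBracket midExitE I (1 / (p + 1)) u :=
      lt_of_lt_of_le (AllLow.midExitC_bracket hM ⟨by linarith [(hJ hI).1], (hJ hI).2⟩
        hP.u_pos (by linarith)).1 hgap
    have hDl := AllLow.midCorner_exit_dl hM (hJ hI) ha3 hP.u_pos hu hgap
    have hS : 1 / (p + 1) + 1 / (q + 1) ≤ 2 := by linarith [hM.I_pos]
    have hen' := lt_of_lt_of_le hen
      (AllLow.allEn_anti ha0.le hd.le hS hv0.le hP.av.le hP.u_pos.le hP.u_lt.le hE.1.le)
    exact (AllLow.exit_affine (dl := cubBracketDl midExitE I (1 / (p + 1)) u)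
      (den := cubBracket midExitE I (1 / (p + 1)) u) ha0.le hd.le hS hv0.le hP.av.le hP.u_pos.le
      hP.u_lt.le hDl hD.le hE.1.le).trans_lt
      (AllLow.midCorner_exit_sign hM hbI (hJ hI) ha3 hP.u_pos hu (by linarith) hD hgap hen')

end Vale.Agent.P100.Calib.Band
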