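import Vale.Agent.P100.Calib.SlabLowEndCornerRoots
import Vale.Agent.P100.Calib.SlabLowEndFacts
import Vale.Agent.P100.Calib.SlabMainOrbit
import Vale.Agent.P100.Calib.SlabMidBands
import Vale.Agent.P100.Calib.SlabMidCorner

/-!
# The signs at the end of the orbit in the corner `a` near `3/10`, `N` near `7`

The corner is `29/100 ≤ a ≤ 31/100`, `7 < N ≤ 8`. Off the clip four roots cover it; in the clip
three, the last with the corner's lower band where `w ≥ 19 · 26/32768`.
-/

set_option linter.unusedVariables false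

open Set Filter Topology

namespace Vale.Agent.P100.Calib.Band

open Vale.Agent.P100.Bubble Chart Closed

/-- In the clip `a` is large and `I` follows it. -/
theorem corner_clip {a I : ℝ} (h : (1 - 2 * I) ^ 2 ≤ 2 * a * (1 - I)) (ha : a ≤ 31 / 100)
    (hI : I * 3000 < 429) :
    892 ≤ a * 3000 ∧ (a * 3000 < 912 → 414 ≤ I * 3000) ∧ 400 ≤ I * 3000 := by
  refine ⟨le_of_not_gt fun h' => ?_, fun h' => le_of_not_gt fun h'' => ?_,
    le_of_not_gt fun h'' => ?_⟩
  · nlinarith [mul_le_mul_of_nonneg_right h'.le (show 0 ≤ 1 - I by linarith),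
      sq_nonneg (I - 143 / 1000)]
  · nlinarith [mul_le_mul_of_nonneg_right h'.le (show 0 ≤ 1 - I by linarith),
      sq_nonneg (I - 138 / 1000)]
  · nlinarith [mul_le_mul_of_nonneg_right ha (show 0 ≤ 1 - I by linarith),
      sq_nonneg (I - 2 / 15)]

variable {N p q : ℝ} {S : Set ℝ} {R x y s dx dy : ℝ → ℝ}

/-- **The closed signs on orbits at `39/40 ≤ u` in the corner** `29/100 ≤ a`, `N ≤ 8`. -/
theorem orbit_signs_end_corner {n : ℕ} (h7 : 7 ≤ n) (hc : IsCrit N p q)
    (hf : IsOrbitFns N p q S R x y s dx dy)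
    (hb : SlabBoxAll N (1 / (p + 1)) (1 / (q + 1)))
    (hcb : All.ChartBox n (1 / (q + 1) - 1 / (p + 1)) (1 / (p + 1) + 1 / (q + 1)))
    (ha : 1 / (p + 1) ≤ 31 / 100) (ha' : 29 / 100 ≤ 1 / (p + 1)) (hN8 : N ≤ 8) {z : ℝ}
    (hz : z ∈ S) (hR : 0 < R z) (hu : 39 / 40 ≤ uOf N (R z) (x z)) :
    All.ChartSigns (1 / (q + 1) - 1 / (p + 1)) (1 / (p + 1) + 1 / (q + 1)) (uOf N (R z) (x z))
      (vOf (1 / (p + 1)) (1 / (q + 1)) (y z / x z)) (slopeAt N p q R x y dx dy z) := by
  have hlo := hcb.dim_low
  rw [← hb.dim_eq] at hlo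
  have n7 : (7 : ℝ) ≤ n := by exact_mod_cast h7
  have N7 : 7 < N := by linarith
  have hN : 0 < N := by linarith
  have F := chartFacts_orbit_all hc hf hb hz hR
  obtain ⟨-, eH⟩ := slopeAt_eq_all hc hf hb hz hR.ne'
  obtain ⟨ha0, -, hd, -⟩ := hb.facts
  have hC := orbit_midC hf hb N7.le (by linarith) ha hz hR
  have hD := fun g1 g2 g3 => orbit_midCorner_low hf hb N7.le g1 g2 ha hz hR g3
  set al := 1 / (p + 1) with hal
  set be := 1 / (q + 1) with hbe
  set u := uOf N (R z) (x z) with hu'
  set v := vOf al be (y z / x z) with hv'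
  set t := slopeAt N p q R x y dx dy z with ht
  have e1 : (al + be - (be - al)) / 2 = al := by ring
  have e2 : (al + be + (be - al)) / 2 = be := by ring
  have eI : (1 - (al + be)) / 2 = 1 / N := by
    rw [div_eq_div_iff two_ne_zero hN.ne']
    linarith [hb.sum]
  have eq : chH (be - al) (al + be) u v t = hOf N (R z) (x z) (y z) z / (be - al) := by
    rw [eq_div_iff hd.ne', mul_comm]
    exact eH
  have hI0 : (0 : ℝ) < 1 / N := one_div_pos.2 hN
  have hIlo : 375 ≤ 1 / N * 3000 := by
    rw [one_div_mul_eq_div, le_div_iff₀ hN]; linarith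
  have hIhi : 1 / N * 3000 < 429 := by
    rw [one_div_mul_eq_div, div_lt_iff₀ hN]; linarith
  have hv0 : 0 < v := by
    refine pos_of_mul_pos_left ((mul_pos two_pos (sub_pos.2 hcb.S_lt)).trans F.v_crit) ?_
    have := mul_nonneg (show 0 ≤ al + be - (be - al) by linarith) (sub_pos.2 hcb.S_lt).le
    linarith
  set X := LowEnd.ptOf5 (be - al) (al + be) u v t with hX
  have x0 : X 0 = al := by simp only [hX, LowEnd.ptOf5, if_true]; exact e1
  have x1 : X 1 = 1 / N := by
    simp only [hX, LowEnd.ptOf5, one_ne_zero, if_false, if_true]; exact eI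
  have x2 : X 2 = 1 - u := by simp [hX, LowEnd.ptOf5]
  have x3 : X 3 = (be - al) * v := by simp [hX, LowEnd.ptOf5]
  have x4 : X 4 = 1 - (be - al) * chH (be - al) (al + be) u v t := by simp [hX, LowEnd.ptOf5]
  have eD : LowEnd.vD (X 0) (X 1) = be - al := by
    simp only [x0, x1, LowEnd.vD, LowEnd.vB, LowEnd.vS]; linarith
  have hp : LowEnd.Pt X := by
    refine ⟨by rw [x0]; exact ha0, by rw [x1]; exact hI0, by rw [eD]; exact hd,
      by rw [x2]; linarith, by rw [x3]; exact mul_pos hd hv0, by rw [x4]; linarith [F.h_lt],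
      by rw [x2]; linarith [F.u_lt]⟩
  have haX : X 0 * X 3 < LowEnd.vD (X 0) (X 1) := by
    rw [eD, x0, x3]
    have := mul_lt_mul_of_pos_left (show al * v < 1 by linarith [F.r_lt]) hd
    linarith
  have place : ∀ {L U : MidBand},
      midBandG L al be u v < hOf N (R z) (x z) (y z) z / (be - al) →
      hOf N (R z) (x z) (y z) z / (be - al) < midBandG U al be u v →
      LowEnd.LowPlace L U (be - al) (al + be) u v t := by
    intro L U g1 g2
    refine ⟨hp, F.kap, F.h_lt, F.drift, F.ev_pos, ?_, ?_⟩ <;> rw [e1, e2, eq]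
    · exact g1
    · exact g2
  have hP := place hC.1 hC.2
  have hF : LowEnd.CornerFacts X := by
    refine ⟨hp, ?_, by rw [x4]; linarith [mul_pos hd F.H_pos], hP.up_nonneg, hP.low_nonneg,
      hP.signs.1, hP.signs.2, haX⟩
    have := F.kap
    simp [LowEnd.eTau, LowEnd.eS, Pack.Ex.eval, hX, LowEnd.ptOf5]
    linarith
  suffices hs : LowEnd.CornerSigns X from LowEnd.chartSigns_of hp hs
  have hw : 0 ≤ X 2 ∧ X 2 * 1024 < 26 := by
    rw [x2]; constructor <;> linarith [F.u_lt]
  have range : ∀ (P : LowEnd.Par), P.diag = false → (P.a0 : ℝ) ≤ al * 3000 → al * 3000 < P.a1 →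
      (P.i0 : ℝ) ≤ 1 / N * 3000 → 1 / N * 3000 < P.i1 → P.Range X := by
    intro P hg r1 r2 r3 r4
    refine ⟨?_, ?_, by rw [x1]; exact r3, by rw [x1]; exact r4, hw.1, hw.2⟩ <;>
      simp only [hg, cond_false, sub_zero, x0] <;> assumption
  rcases le_total 0 (LowEnd.vK (X 0) (X 1)) with hk | hk
  · rcases lt_or_ge (al * 3000) 900 with a1 | a1
    · rcases lt_or_ge (1 / N * 3000) 402 with i1 | i1
      · exact LowEnd.c0_signs (range _ rfl (by simp only [LowEnd.c0P]; push_cast; linarith)
          (by simp only [LowEnd.c0P]; push_cast; linarith) (by simp only [LowEnd.c0P]; push_cast; linarith)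
          (by simp only [LowEnd.c0P]; push_cast; linarith)) hF hk
      · exact LowEnd.c2_signs (range _ rfl (by simp only [LowEnd.c2P]; push_cast; linarith)
          (by simp only [LowEnd.c2P]; push_cast; linarith) (by simp only [LowEnd.c2P]; push_cast; linarith)
          (by simp only [LowEnd.c2P]; push_cast; linarith)) hF hk
    · rcases lt_or_ge (1 / N * 3000) 402 with i1 | i1
      · exact LowEnd.c1_signs (range _ rfl (by simp only [LowEnd.c1P]; push_cast; linarith)
          (by simp only [LowEnd.c1P]; push_cast; linarith) (by simp only [LowEnd.c1P]; push_cast; linarith)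
          (by simp only [LowEnd.c1P]; push_cast; linarith)) hF hk
      · exact LowEnd.c3_signs (range _ rfl (by simp only [LowEnd.c3P]; push_cast; linarith)
          (by simp only [LowEnd.c3P]; push_cast; linarith) (by simp only [LowEnd.c3P]; push_cast; linarith)
          (by simp only [LowEnd.c3P]; push_cast; linarith)) hF hk
  · have hclip : (1 - 2 * (1 / N)) ^ 2 ≤ 2 * al * (1 - 1 / N) := by
      have := LowEnd.eKNeg_nonneg hp hk
      simp [LowEnd.eKNeg, LowEnd.eS, Pack.Ex.eval, x0, x1] at this
      simp only [one_div]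
      linarith
    obtain ⟨c892, c414, c400⟩ := corner_clip hclip ha hIhi
    rcases lt_or_ge (al * 3000) 912 with a1 | a1
    · have := c414 a1
      exact LowEnd.c4_signs (range _ rfl (by simp only [LowEnd.c4P]; push_cast; linarith)
        (by simp only [LowEnd.c4P]; push_cast; linarith) (by simp only [LowEnd.c4P]; push_cast; linarith)
        (by simp only [LowEnd.c4P]; push_cast; linarith)) hF hk
    · rcases lt_or_ge (1 / N * 3000) 420 with i1 | i1
      · exact LowEnd.c5_signs (range _ rfl (by simp only [LowEnd.c5P]; push_cast; linarith)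
          (by simp only [LowEnd.c5P]; push_cast; linarith) (by simp only [LowEnd.c5P]; push_cast; linarith)
          (by simp only [LowEnd.c5P]; push_cast; linarith)) hF hk
      · have hr : LowEnd.c6P.Range X := range _ rfl (by simp only [LowEnd.c6P]; push_cast; linarith)
          (by simp only [LowEnd.c6P]; push_cast; linarith) (by simp only [LowEnd.c6P]; push_cast; linarith)
          (by simp only [LowEnd.c6P]; push_cast; linarith)
        rcases lt_or_ge (X 2 * 32768) 494 with hsmall | hbig
        · exact LowEnd.c6lo_signs hr hF hk hsmall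
        · refine LowEnd.c6hi_signs hr hF hk hbig (LowEnd.LowPlace.low_nonneg (place ?_ hC.2))
          refine hD ?_ (by linarith) (by rw [x2] at hbig; linarith)
          rw [one_div_mul_eq_div, le_div_iff₀ hN] at i1
          linarith

end Vale.Agent.P100.Calib.Band
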