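import Vale.Agent.P100.Calib.SlabLowEndOrbit
import Vale.Agent.P100.Calib.SlabLowEndCornerOrbit

/-!
# The zone `39/40 ≤ u` in the dimensions from seven to nineteen
-/

namespace Vale.Agent.P100.Calib.Band

open Vale.Agent.P100.Bubble Chart Closed

/-- **The signs on `39/40 ≤ u`** for all `7 ≤ n < 20`, the corner included. -/
theorem orbit_signs_zone_end_low_all {n : ℕ} (h7 : 7 ≤ n) (h20 : n < 20) :
    OrbitSignsSlope n (ZoneFrom (39 / 40)) :=
  orbit_signs_zone_end_low_of h7 h20 fun _ _ _ _ _ _ _ _ _ _ hc hf hb hcb ha ha' hN8 _ hz hR hu =>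
    orbit_signs_end_corner h7 hc hf hb hcb ha ha' hN8 hz hR hu

end Vale.Agent.P100.Calib.Band
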