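import Vale.Agent.P100.Calib.SlabMidTailPieces

/-!
# The signs on a box of the middle tail

`u, I, a` lie in the box of `root`; the surrogates and leaves are checked by the kernel.
-/

namespace Vale.Agent.P100.Calib.MidTail.BoxII1U2b

open Pack EndAll Band

/-- A surrogate. -/
def root_s0 : List (List (List (List (List ℤ)))) :=
  [[[[[8913589841,(-349918300),1987660,(-4026),(-5)],[(-659223477),13244543,(-39786),(-137),1],[14540478,(-134059),(-812),13],[(-92470),(-1485),44],[(-1199),61,(-1)],[31,(-1)]],[[(-565803391),500778,455,15],[11066861,48808,162,(-2)],[177431,(-1979),(-13)],[(-7962),26],[122],[(-1)]],[[(-9534724),186064,(-803),3],[478016,(-7024),33],[(-8938),117,(-1)],[57,(-1)]],[[286869,1200,(-7)],[(-5268),(-79)],[(-41),2],[3]],[[4492,(-27)],[(-182),1],[2]],[[(-37)],[1]],[[(-1)]]],[[[5317112213,(-280639597),1480692,(-3693),1],[(-476926216),10736866,(-36939),(-29)],[11539657,(-136332),(-147),4],[(-102223),65,15],[(-71),16],[8]],[[(-502567253),(-2121428),195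15,(-52)],[6986874,200529,(-981),1],[300260,(-6340),13],[(-10753),75],[127]],[[(-7777220),132076,(-364),1],[347159,(-3468),14],[(-3398),36],[(-29)]],[[359562,613,(-6)],[(-10443),(-35)],[89]],[[5366,(-32)],[(-176)]],[[(-43)]]],[[[118756939,(-67131196),264916,(-654),1],[(-78046991),2494750,(-6822),(-4)],[2354598,(-34646),(-9)],[(-25638),124],[56]],[[(-160591658),(-1311736),9212,(-14)],[2187207,89805,(-313)],[90646,(-1824)],[(-2582)]],[[(-2560444),34622,(-68)],[110776,(-889)],[(-444)]],[[131534,64],[(-4735)]],[[1735]]],[[[(-229664808),(-8168920),23171,(-25)],[(-563443),294677,(-405)],[136346,(-3147)],[(-1038)]],[[(-29432315),(-198481),1110],[616614,9714],[6671]],[[(-269786),3962],[46]],[[25226]]],[[[(-42057695),(-459755),824],[1128497,12353],[(-12499)]],[[(-2606648),(-8887)],[40225]],[[23947]]],[[[(-2506486),(-5885)],[77142]],[[(-55576)]]],[[[(-35086)]]]],[[[[4617376842,(-158798050),473622,2393,(-25)],[(-332594087),5145943,10705,(-305),1],[7098127,(-17918),(-1182),9]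,[(-39376),(-1573),27],[(-677),33],[14]],[[(-219773327),(-4949010),24067,(-42)],[469753,208094,(-658),(-2)],[156705,(-3533),(-6)],[(-3309),2],[12]],[[(-14959740),5019,103,1],[462925,612,4],[(-5083)],[(-5)]],[[(-175788),1455],[7725,(-35)],[(-60)]],[[1861,16],[(-63)]],[[45]]],[[[2992539558,(-140700284),554771,(-521),(-8)],[(-266465381),5396570,(-13261),(-66)],[6926459,(-78384),(-112)],[(-82668),256],[381]],[[(-229244285),(-5689638),30010,(-74)],[163844,257963,(-980)],[185336,(-4143)],[(-3605)]],[[(-16594158),(-17194),273],[538286,1134],[(-4369)]],[[(-231675),1483],[7054]],[[1904]]],[[[202691984,(-37842819),133972,(-347)],[(-52201364),1504333,(-4749)],[1675268,(-23896)],[(-22422)]],[[(-108852579),(-1747450),7191],[1724652,65975],[23049]],[[(-6429529),(-2885)],[187881]],[[(-68533)]]],[[[(-105224369),(-5050206),15888],[(-1854097),185493],[132403]],[[(-26034369),(-183019)],[647085]],[[(-1005326)]]],[[[(-23258775),(-278758)],[525316]],[[(-2609888)]]],[[[(-1383303)]]]],[[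[[236408844,(-4450904),(-117091),1257,(-7)],[(-11979040),(-242081),9698,(-82)],[(-64590),18884,(-325)],[10920,(-508)],[(-272)]],[[5489964,(-1047039),1758,8],[(-1580823),42342,(-2)],[54483,(-521)],[(-701)]],[[(-1585960),(-33230),79],[26019,1179],[542]],[[(-80867),(-315)],[2094]],[[(-1126)]]],[[[193105520,(-8030962),(-2141),(-2)],[(-16703006),263877,(-20)],[425139,(-3550)],[(-5130)]],[[(-5635668),(-857916),1204],[(-786984),28338],[29771]],[[(-1869853),(-23834)],[31703]],[[(-66758)]]],[[[5477567,(-1939198),(-4385)],[(-2508252),55812],[76711]],[[(-6116453),(-226355)],[(-46825)]],[[(-682960)]]],[[[(-5015552),(-326272)],[(-166353)]],[[(-1806994)]]],[[[(-1435102)]]]],[[[[(-4150416),151535,(-1073),2],[306267,(-6903),24],[(-8231),83],[75]],[[179759,5845,(-44)],[(-852),(-228)],[(-125)]],[[20844,2],[(-551)]],[[397]]],[[[(-3436671),157546,(-907)],[285298,(-5741)],[(-6608)]],[[285280,4633],[(-2476)]],[[18757]]],[[[(-270046),42424],[59742]],[[127640]]],[[[219505]]]]]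

/-- A surrogate. -/
def root_s1 : List (List (List (List (List ℤ)))) :=
  [[[[[27681180554,(-224149832),(-15727),6102,(-36)],[(-1302376754),7172292,33720,(-509),3],[23830013,(-30609),(-2099),20],[(-179815),(-2813),64],[(-948),91,(-1)],[50,(-1)],[(-1)]],[[(-608564298),8936253,(-44053),113],[35994406,(-473272),2481,(-3)],[(-922643),12446,(-55)],[15331,(-197)],[(-189),2],[1]],[[(-7390900),22079,21,(-1)],[307258,(-1100),(-7)],[(-6968),10],[95],[(-1)]],[[32605,105],[(-488),(-5)],[(-3)]],[[(-107)],[4]]],[[[35981461777,(-286608467),264782,3752,(-25)],[(-1671778902),9968934,6869,(-294),1],[30880593,(-121262),(-899),7],[(-283311),(-376),21],[655,28],[16]],[[(-816934709),8774314,(-26018),54],[42707118,(-366613),1298,(-2)],[(-886641),7552,(-25)],[10905,(-90)],[(-88)]],[[(-2595565),(-20506),(-5)],[24418,323,(-2)],[(-486),2],[29]],[[36431,146],[(-489),(-5)],[(-4)]],[[(-155)],[4]]],[[[16184285317,(-126105322),175757,893,(-5)],[(-737343019),4495060,(-3085),(-50)],[13493035,(-6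3959),(-88)],[(-126514),192],[339]],[[(-382390766),3423508,(-6453),7],[18664853,(-123678),257],[(-349614),1881],[3192]],[[14592,(-14702),(-2)],[(-44163),349],[868]],[[12094,57],[(-149)]],[[(-57)]]],[[[3086881422,(-23722536),44838,64],[(-136925851),868943,(-1110)],[2471822,(-10525)],[(-18087)]],[[(-75029869),578631,(-857)],[3399709,(-18666)],[(-57012)]],[[129220,(-2533)],[(-10945)]],[[1231]]],[[[291892766,(-2260884),4664],[(-12609858),69501],[180199]],[[(-7185854),49433],[306793]],[[16173]]],[[[14283286,(-95153)],[(-489381)]],[[(-370673)]]],[[[275418]]]],[[[[13699543870,(-124971943),(-361860),7353,(-40)],[(-696092507),2607184,52503,(-545),2],[11931793,63532,(-2315),13],[(-45118),(-3516),43],[(-1622),60],[32]],[[59289649,2432353,(-17362),47],[3361886,(-125912),682,(-1)],[(-164310),2715,(-10)],[2927,(-32)],[(-29)]],[[1899830,(-17309),(-1),1],[(-127242),739,3],[3421,(-8)],[(-52)]],[[(-16083),(-103)],[135,3],[5]],[[144],[(-4)]]],[[[17603865813,(-166013736),93428,2721,(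-14)],[(-894345438),5441645,10240,(-168)],[17009679,(-53531),(-583)],[(-152572),(-487)],[151]],[[143081956,974629,(-6625),25],[(-1527998),(-48582),313],[(-38432),1198],[1206]],[[(-705796),2983,12],[19595,180],[607]],[[(-17561),(-100)],[60]],[[144]]],[[[7799021061,(-68827211),88126,302],[(-381465152),2359858,(-934)],[7146650,(-26115)],[(-55714)]],[[65804409,143785,(-1228)],[(-1301458),(-10256)],[(-5680)]],[[(-681482),3760],[28404]],[[(-5376)]]],[[[1465696159,(-11535426),14042],[(-67338631),340674],[1061409]],[[11544164,5539],[(-217054)]],[[(-126682)]]],[[[136121877,(-871600)],[(-5429900)]],[[981070]]],[[[6339512]]]],[[[[373088661,(-10416804),(-228328),2651,(-12)],[(-49218884),(-361743),19038,(-144)],[633730,33905,(-585)],[10851,(-919)],[(-481)]],[[56286873,(-1046099),7259,(-17)],[(-3574989),60936,(-302)],[107432,(-1314)],[(-1526)]],[[201033,4944,(-3)],[10402,(-182)],[(-545)]],[[(-600),22],[106]],[[(-49)]]],[[[711258315,(-23676802),(-9913),624],[(-82721934),714635,3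182],[1988101,(-2614)],[(-14640)]],[[51959868,(-661462),2864],[(-2896345),26953],[55915]],[[587196,2717],[(-2944)]],[[(-1354)]]],[[[350704010,(-9381240),9542],[(-34035234),278373],[714536]],[[19661036,(-172862)],[(-927384)]],[[227037]]],[[[76043619,(-1234894)],[(-5180682)]],[[2857329]]],[[[6596061]]]],[[[[(-202306925),(-856357),1352],[2860147,32886,(-20)],[16137,(-331)],[(-422)]],[[(-5402957),(-39116),39],[43031,1074],[1469]],[[11620,(-415)],[(-1879)]],[[1246]]],[[[(-225182738),(-1016497),1184],[3004549,28809],[18557]],[[(-5959168),(-34132)],[16945]],[[23584]]],[[[(-74095870),(-337542)],[760849]],[[(-1637145)]]],[[[(-6053073)]]]],[[[[(-14172744)],[420198],[(-3591)]],[[(-886003)],[19170]],[[(-15093)]]],[[[(-15632656)],[358789]],[[(-753086)]]],[[[(-4682717)]]]]]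

/-- A surrogate. -/
def root_s3 : List (List (List (List (List ℤ)))) :=
  [[[[[1038697120,(-127903110),1073954,(-5644),26],[(-206123550),7599221,(-58067),334,(-1)],[8389382,(-191407),1505,(-9)],[(-158790),2967,(-27)],[1847,(-37)],[(-18)]],[[267809427,(-1242932),16741,(-125)],[(-8966261),69981,(-1151),6],[159906,(-2899),34],[(-3225),71],[62,(-1)],[(-1)]],[[567779,3641,10],[(-58496),(-176)],[1560,4],[(-17)]],[[(-111315),268],[4132,(-8)],[(-83)],[1]],[[(-978),5],[60],[(-1)]]],[[[207775441,(-121026154),1076487,(-5648),25],[(-154526163),7149419,(-57080),325,(-1)],[6927366,(-179535),1450,(-7)],[(-133779),2752,(-19)],[1536,(-26)],[(-11)]],[[174536484,(-832438),15987,(-121)],[(-5372602),56428,(-1087),4],[96727,(-2567),22],[(-2453),43],[37]],[[1119838,4980,2],[(-65545),(-158)],[1339,4],[(-6)]],[[(-85257),232,1],[3484,(-5)],[(-69)]],[[(-962),4],[49]]],[[[(-665989996),(-34737380),356338,(-1908),7],[(-13028634),2098343,(-18556),89],[1372051,(-53382),393],[(-30687),691],[316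]],[[20945789,(-113150),5155,(-33)],[(-267906),13421,(-258)],[3659,(-435)],[(-249)]],[[658835,1684,(-8)],[(-25091),(-110)],[190]],[[(-18697),67],[933]],[[(-296)]]],[[[(-349022718),(-3105278),48726,(-262)],[9919029,225364,(-2314)],[(-48974),(-5536)],[(-1520)]],[[(-90546),(-2349),564],[134146,143],[(-3238)]],[[142966,295],[(-3845)]],[[(-2260)]]],[[[(-53371636),26678,2551],[2051446,5480],[(-24293)]],[[(-244443),1611],[14485]],[[15133]]],[[[(-3365577),14042],[116734]],[[(-999)]]],[[[(-65403)]]]],[[[[1531221520,(-110809691),703892,(-2885),16],[(-184659356),5277114,(-27809),149,(-1)],[5929054,(-101414),556,(-3)],[(-87634),1132,(-7)],[715,(-8)],[(-4)]],[[90387335,(-1485416),9442,(-49)],[(-5255492),92572,(-596),2],[153334,(-2594),11],[(-2895),28],[24]],[[4512454,7624,(-129)],[(-138922),(-596),3],[1911,13],[(-10)]],[[71837,(-2),(-2)],[(-3209),(-7)],[45]],[[378,(-1)],[(-19)]]],[[[222327652,(-83771648),537263,(-2115),11],[(-100250865),3974672,(-20593),96],[3675899,(-74270),3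47],[(-54001),666],[356]],[[54419141,(-1356139),8891,(-33)],[(-3598110),81800,(-371)],[117292,(-1538)],[(-1716)]],[[3613156,2579,(-100)],[(-121598),(-500)],[1472]],[[66107,(-14)],[(-2497)]],[[302]]],[[[(-627422977),(-15881137),109382,(-356)],[7845117,762468,(-3398)],[201888,(-11543)],[(-3724)]],[[(-812409),(-375419),1970],[(-364024),16935],[20164]],[[837700,(-421)],[(-33141)]],[[18510]]],[[[(-228390787),(-775952),7900],[7816479,43092],[(-86391)]],[[(-3799492),(-32779)],[50260]],[[100251]]],[[[(-28198262),38729],[955973]],[[(-505576)]]],[[[(-1456658)]]]],[[[[743526241,(-33897221),152502,(-76)],[(-64667998),1357932,(-3461),1],[1704310,(-20006),11],[(-20151),84],[81]],[[(-10700855),(-1018977),5847,(-2)],[(-992790),52023,(-128)],[50977,(-774)],[(-756)]],[[(-584712),(-10003),51],[11917,493],[261]],[[(-3139),(-32)],[95]],[[26]]],[[[250420700,(-23436219),109708,(-23)],[(-34744257),954442,(-1949)],[1011790,(-11780)],[(-10894)]],[[(-19432123),(-740183),3629],[(-239699),322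33],[27432]],[[(-662745),(-6420)],[10684]],[[(-2436)]]],[[[(-124826077),(-3528787),17553],[897905,143504],[66221]],[[(-10699194),(-120213)],[179723]],[[(-211323)]]],[[[(-38559284),(-138927)],[1143936]],[[(-1936445)]]],[[[(-3313430)]]]],[[[[66853783,(-2849141),18476,(-28)],[(-5623852),130223,(-504)],[156040,(-2005)],[(-1882)]],[[(-1748118),(-96520),694],[(-40640),4323],[3250]],[[(-155613),(-670)],[3764]],[[(-2091)]]],[[[21452633,(-1709932),11084],[(-2638154),75610],[81876]],[[(-2444367),(-52447)],[13623]],[[(-111157)]]],[[[(-9159678),(-140195)],[161170]],[[(-915187)]]],[[[(-1676387)]]]]]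

/-- A surrogate. -/
def root_s5 : List (List (List (List (List ℤ)))) :=
  [[[[[10557323558,(-353162861),1652595,(-1076),(-8)],[(-730571062),11951192,(-19093),(-148),1],[14583597,(-69359),(-980),8],[(-47885),(-2496),35],[(-2163),63],[40,(-1)]],[[(-984242349),8465870,(-31654),80],[39557835,(-305317),1289,(-4)],[(-599569),4894,(-30)],[4017,(-61)],[(-15),1]],[[895382,117586,(-535),1],[174140,(-5260),16],[(-8012),97],[136,(-1)],[(-1)]],[[307222,(-1205),1],[(-10536),32],[145]],[[(-229),(-7)],[5]],[[(-25)],[1]]],[[[7705989875,(-315478821),1389425,(-867),(-5)],[(-621014161),11136605,(-19336),(-108)],[14022498,(-94750),(-628),4],[(-92149),(-1302),16],[(-1003),29],[18]],[[(-922100569),6497011,(-18246),46],[36620485,(-209561),666,(-2)],[(-545160),2781,(-11)],[3355,(-21)],[(-2)]],[[2371734,101322,(-421)],[73830,(-4077),11],[(-4197),59],[66]],[[345295,(-1348)],[(-12729),32],[154]],[[(-314),(-9)],[11]],[[(-25)]]],[[[1088440828,(-91122948),347141,119,(-2)],[(-150997850),338566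8,(-4010),(-36)],[4208843,(-36027),(-162)],[(-41430),(-183)],[(-57)]],[[(-294247394),1677111,(-3621),11],[12000987,(-54439),148],[(-194355),828],[1465]],[[1203657,30621,(-115)],[(-3974),(-1069)],[(-146)]],[[123626,(-464)],[(-4465)]],[[(-209)]]],[[[(-135937027),(-12493372),45530,69],[(-10943680),496993,(-331)],[480123,(-4897)],[(-4879)]],[[(-45660680),235721,(-571)],[1915928,(-8841)],[(-28543)]],[[362501,2819],[(-16336)]],[[18839]]],[[[(-42751842),(-834718),2893],[564253,30026],[11970]],[[(-3492200),17399],[114433]],[[61608]]],[[[(-3114479),(-21782)],[72586]],[[(-81712)]]],[[[(-58497)]]]],[[[[5072240200,(-170143061),689065,249,(-9)],[(-349505942),5358325,363,(-162),1],[6671781,(-10639),(-878),5],[(-8745),(-1844),20],[(-1354),33],[20]],[[(-365475327),(-807839),1880,44],[10084619,26229,257,(-3)],[(-81275),108,(-12)],[(-14),(-19)],[(-2)]],[[(-10259105),38730,(-20),1],[355104,(-941),3],[(-4760),6],[3]],[[(-18952),683],[1310,(-15)],[(-11)]],[[1720,2],[(-50)]],[[11]]],[[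[3550131029,(-153173174),646313,(-689),(-2)],[(-296580589),5458558,(-10630),(-44)],[6922041,(-53229),(-243)],[(-53948),(-477)],[(-336)]],[[(-358378641),(-1790217),8781,15],[9231334,76921,(-57)],[(-56306),(-754)],[(-522)]],[[(-11586310),34714,63],[423298,(-629)],[(-4378)]],[[(-34380),722],[1173]],[[1627]]],[[[400100559,(-43794846),157844,(-63)],[(-68723805),1674408,(-2780)],[2050061,(-19079)],[(-21385)]],[[(-138034572),(-717226),3242],[3954950,26115],[(-30008)]],[[(-4373120),11578],[139764]],[[(-6375)]]],[[[(-94009526),(-6158529),21910],[(-4174361),233496],[213130]],[[(-28011509),(-70967)],[835649]],[[(-637976)]]],[[[(-25359117),(-367635)],[455230]],[[(-2615158)]]],[[[(-1723972)]]]],[[[[299492212,(-7927906),(-40824),654,(-4)],[(-17388130),14999,5234,(-45)],[118861,11020,(-197)],[7534,(-350)],[(-220)]],[[(-8485446),(-651007),1880],[(-610537),26394,(-32)],[28494,(-314)],[(-393)]],[[(-1463855),(-11286),25],[42032,379],[(-132)]],[[(-42443),(-46)],[1140]],[[(-344)]]],[[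[222036571,(-9182010),18408,(-41)],[(-18440789),299284,(-194)],[423149,(-2170)],[(-2750)]],[[(-14962173),(-528450),723],[(-97661),15679],[12602]],[[(-1564257),(-9054)],[35847]],[[(-34848)]]],[[[14043813,(-2309625),78],[(-3437861),71573],[101096]],[[(-7567721),(-151574)],[73955]],[[(-530267)]]],[[[(-5529303),(-356011)],[(-223119)]],[[(-1800051)]]],[[[(-1550767)]]]],[[[[(-4426638),161759,(-1144),2],[326846,(-7356),25],[(-8772),88],[80]],[[251233,3766,(-33)],[(-5680),(-158)],[(-34)]],[[17878,(-40)],[(-518)]],[[219]]],[[[(-3664937),167941,(-962)],[304213,(-6090)],[(-7011)]],[[350288,2905],[(-6278)]],[[15756]]],[[[(-289337),45008],[63410]],[[139940]]],[[[232742]]]]]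

/-- A surrogate. -/
def root_s11 : List (List (List (List (List ℤ)))) :=
  [[[[[7166591342,(-55050676),109637,19],[(-264657410),1466725,(-1682),(-1)],[3628268,(-12071),2],[(-19641),2],[(-15)],[1]],[[(-25556282),118700,(-27)],[942508,(-3542),4],[(-16908),76],[222,(-1)],[(-2)]],[[(-2800179),20267,(-37)],[103368,(-548),1],[(-1485),5],[9]],[[2904,(-17)],[(-114),1],[3]],[[199,(-1)],[(-7)]],[[(-1)]]],[[[903833243,(-7211535),15087,4],[(-33382445),190805,(-220)],[443799,(-1411)],[(-1957),(-4)],[(-10)]],[[2562663,(-33048),100],[(-94905),792,(-1)],[552,2],[20]],[[(-324297),2336,(-4)],[12057,(-61)],[(-169),1],[1]],[[(-1463),9],[45]],[[17],[(-1)]]],[[[32245558,(-279077),641],[(-1191339),7282,(-8)],[14721,(-40)],[(-25)],[(-1)]],[[340911,(-3555),9],[(-12619),81],[102],[1]],[[(-8105),59],[321,(-2)],[(-6)]],[[(-95),1],[4]]],[[[227981,(-2667),8],[(-8434),66],[68],[1]],[[6079,(-71)],[(-225),2],[2]],[[41,(-1)],[(-2)]]]],[[[[2270827829,(-15988262),27919,(-1)],[(-83836157),433265,(-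487)],[1224535,(-4400),3],[(-8989),21],[35]],[[105006566,(-760200),1385],[(-3877249),20429,(-23)],[55396,(-191)],[(-368),1],[1]],[[537069,(-4105),8],[(-19544),105],[256]],[[(-16243),113],[591,(-4)],[(-10)]],[[(-75)],[2]],[[1]]],[[[177909112,(-1183439),1864],[(-6567104),32462,(-35)],[99535,(-365)],[(-823),3],[5]],[[12161618,(-86996),153],[(-449131),2309,(-3)],[6378,(-24)],[(-46)]],[[162415,(-1174),2],[(-5841),28],[73]],[[(-510),6],[32]],[[(-14)]]],[[[1669568,(-3164),(-20)],[(-61481),129],[1333,(-9)],[(-28)]],[[303995,(-2026),4],[(-11207),68],[201]],[[7217,(-58)],[(-295)]],[[49]]],[[[(-56995),667,(-2)],[2109,(-17)],[(-17)]],[[(-1520),18],[56]],[[(-10)]]]],[[[[(-416728442),3129406,(-6038),(-1)],[15388213,(-83719),97],[(-214621),741],[1298]],[[3057610,(-17047),13],[(-112969),433,(-1)],[1738,(-16)],[(-36)]],[[454116,(-3174),6],[(-16553),93],[259]],[[4951,(-31)],[(-160)]],[[(-24)]]],[[[(-69537103),519527,(-997)],[2567852,(-13943),14],[(-36034),110],[193]],[[(-1524447),1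1736,(-18)],[56478,(-232)],[(-555)]],[[13154,(-146)],[(-791)]],[[574]]],[[[(-2432729),18240,(-36)],[89858,(-496)],[(-1273)]],[[(-97340),736],[3623]],[[(-1300)]]]],[[[[(-123291396),888749,(-1616)],[4552340,(-24017),26],[(-65550),217],[422]],[[(-5166131),37435,(-61)],[191141,(-901)],[(-2441)]],[[(-56523),301],[1505]],[[541]]],[[[(-7857378),56800,(-106)],[290253,(-1563)],[(-4247)]],[[(-419218),3072],[15686]],[[(-8445)]]]],[[[[(-6607714),47130,(-86)],[244144,(-1307)],[(-3626)]],[[(-440712),3203],[16580]],[[(-11901)]]]]]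

/-- A surrogate. -/
def root_s12 : List (List (List (List (List ℤ)))) :=
  [[[[[(-800719039),(-20183010),194562,(-448)],[(-10152260),1486636,(-8930),14],[1570521,(-38077),147],[(-37007),449,(-1)],[382,(-2)],[(-2)]],[[117848019,(-636800),45,3],[(-4683465),16028,17],[70748,(-86)],[(-429),(-1)]],[[550121,4946,(-62)],[(-6483),(-469),3],[(-476),13],[14]],[[(-42925),221],[1732,(-6)],[(-28)]],[[(-206)],[6]],[[2]]],[[[(-761982027),(-3609745),65287,(-184)],[17930041,377779,(-2953),6],[125887,(-10697),50],[(-8123),136],[105,(-1)]],[[32567996,(-227854),443,(-1)],[(-1371513),7267,(-15)],[22680,(-95)],[(-179)]],[[447380,(-288),(-15)],[(-13717),(-72),1],[61,3],[3]],[[(-9995),65],[423,(-2)],[(-8)]],[[(-72)],[2]],[[1]]],[[[(-195230582),169595,8142,(-29)],[6413109,27198,(-383),1],[(-57541),(-1075),5],[(-290),12],[7]],[[3185190,(-27691),98],[(-140713),996,(-2)],[2336,(-10)],[(-19)]],[[107353,(-420),(-1)],[(-3762),2],[37]],[[(-625),7],[39]],[[(-11)]]],[[[(-20684092),71266,433,(-2)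],[765502,(-432),(-20)],[(-10510),(-35)],[35]],[[112580,(-1225),6],[(-4458),62],[148]],[[10210,(-56)],[(-400)]],[[1]]],[[[(-961285),4800,9],[38298,(-79)],[(-488)]],[[(-1107),(-44)],[(-183)]],[[487]]],[[[(-16195),82],[580]],[[8]]]],[[[[(-38886740),(-27373644),209829,(-429)],[(-38280238),1522874,(-7848),11],[1727255,(-32208),111],[(-30838),334,(-1)],[278,(-1)],[(-1)]],[[12819769,(-416755),2792,(-6)],[(-1117933),24405,(-125)],[37557,(-573),1],[(-652),4],[4]],[[1452704,(-2188),(-36)],[(-51964),(-20),2],[734,3],[(-3)]],[[22061,(-54)],[(-786)],[8]],[[(-58)],[4]],[[(-2)]]],[[[(-488034182),(-3455440),48713,(-126)],[10759891,273409,(-1960),3],[80912,(-6860),26],[(-4654),70],[51]],[[(-6831030),(-72328),900,(-2)],[98551,5748,(-30)],[3934,(-121)],[(-119)]],[[389932,(-1854),(-3)],[(-15515),45],[271]],[[7253,(-26)],[(-258)]],[[(-8)]]],[[[(-127231701),250250,3811,(-13)],[4460719,7381,(-160)],[(-52359),(-405)],[51]],[[(-3040270),6963,73],[108014,194],[(-815)]],[[22945,(-227)],[(-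1453)]],[[907]]],[[[(-12105729),58436,88],[474987,(-1073)],[(-6552)]],[[(-367187),1583],[12535]],[[(-510)]]],[[[(-487294),2857],[19317]],[[(-16472)]]],[[[(-7029)]]]],[[[[129303752,(-8985054),60528,(-112)],[(-16079459),435870,(-2016),2],[527984,(-8224),23],[(-8006),72],[61]],[[(-6021521),(-254617),2107,(-4)],[(-143151),13888,(-65)],[12006,(-254)],[(-219)]],[[(-205788),(-1374),14],[4874,83],[27]],[[1223,4],[(-70)]],[[71]]],[[[(-85976703),(-868248),10046,(-22)],[1706262,55545,(-343)],[16362,(-1189)],[(-768)]],[[(-5935536),(-15781),335],[176219,1567],[(-859)]],[[(-109440),7],[2882]],[[196]]],[[[(-19212393),46840,456],[698896,358],[(-8636)]],[[(-1049731),3321],[36792]],[[(-17071)]]],[[[(-1225345),6637],[48785]],[[(-63972)]]],[[[(-24298)]]]],[[[[12560210,(-646485),4165,(-7)],[(-1238706),29894,(-131)],[36968,(-538)],[(-533)]],[[(-402289),(-29575),227],[(-23103),1491],[1356]],[[(-44507),(-436)],[869]],[[(-995)]]],[[[(-5145032),(-31843),446],[133006,2225],[(-272)]],[[(-498078),(-460)],[15897]],[[(-17036)]]],[[[(-748590),3361],[29611]],[[(-54591)]]],[[[(-21000)]]]]]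

/-- A surrogate. -/
def root_s13 : List (List (List (List (List ℤ)))) :=
  [[[[[(-54616492),1081130,21391,(-187)],[3634279,(-7030),(-731),2],[(-86166),425,(-4)],[1818,(-37)],[(-39),1],[1]],[[3399449,143230,(-1876),8],[(-35700),(-5712),47],[1282,21],[(-112),2],[3]],[[287238,(-7613),49],[(-14419),271,(-1)],[212,(-3)],[1]],[[(-10746),106],[444,(-4)],[(-7)]],[[48],[(-2)]]],[[[(-74120899),2655780,4308,(-117)],[5928303,(-83093),(-220),1],[(-151728),1525,(-6)],[2413,(-35)],[(-35)]],[[8676215,34972,(-1123),5],[(-316496),(-1664),28],[6508,(-20)],[(-136),1],[2]],[[122097,(-5566),40],[(-7672),208,(-1)],[114,(-2)],[1]],[[(-9806),98],[425,(-3)],[(-6)]],[[49],[(-2)]]],[[[(-20020368),1399365,(-5053),(-12)],[2334250,(-54577),121],[(-67030),901,(-2)],[951,(-8)],[(-7)]],[[4817664,(-29656),(-76),1],[(-211331),1007,1],[4123,(-22)],[(-46)]],[[(-29241),(-973),9],[470,36],[(-15)]],[[(-2877),27],[120]],[[15]]],[[[3145045,189358,(-1070)],[107228,(-8290),21],[(-6365),106],[82]],[[763962,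(-6580),16],[(-35518),240],[582]],[[(-11579),(-28)],[534]],[[(-372)]]],[[[825449,9501,(-57)],[(-19507),(-371)],[29]],[[52681,(-450)],[(-1799)]],[[(-1543)]]],[[[51634,115],[(-1425)]],[[812]]],[[[706]]]],[[[[(-43500747),1201202,4711,(-78)],[3286904,(-41395),(-148),1],[(-90797),977,(-4)],[1618,(-25)],[(-25)]],[[1774091,95555,(-756),2],[7419,(-3673),21],[(-617),42],[(-21)],[1]],[[229466,(-1372)],[(-9116),50],[164,(-1)],[(-1)]],[[835,(-19)],[(-39),1]],[[(-29)],[1]]],[[[(-52313671),2064422,(-4564),(-44)],[4492955,(-84816),144,1],[(-128448),1680,(-4)],[2028,(-19)],[(-18)]],[[4482014,66830,(-678),1],[(-114951),(-2861),16],[1438,30],[(-20)]],[[240796,(-1632),1],[(-10235),48],[141]],[[502,(-12)],[(-14)]],[[(-23)]]],[[[(-12841024),952809,(-4998),(-1)],[1588504,(-42763),133],[(-50066),687],[673]],[[2768583,8973,(-163)],[(-97888),(-496)],[1210]],[[85746,(-555)],[(-3247)]],[[(-16)]]],[[[2188670,121318,(-811)],[56177,(-5544)],[(-4131)]],[[588013,(-461)],[(-20962)]],[[11766]]],[[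[550920,5403],[(-13870)]],[[52489]]],[[[33802]]]],[[[[(-2438315),59336,565,(-6)],[191869,(-2093),(-11)],[(-5821),89],[140,(-2)],[(-2)]],[[(-21493),9884,(-61)],[8996,(-420),1],[(-237),5],[2]],[[19281,81,(-1)],[(-797),(-4)],[9]],[[588,(-2)],[(-20)]],[[3]]],[[[(-3093460),119784,(-193),(-3)],[274213,(-5457),5],[(-8480),101],[128]],[[158750,8702,(-54)],[448,(-337)],[(-135)]],[[24635,27],[(-792)]],[[478]]],[[[(-716167),55709,(-293)],[90791,(-2562)],[(-3009)]],[[149310,1969],[(-3531)]],[[9170]]],[[[165931,5450],[(-473)]],[[35886]]],[[[29142]]]],[[[[138332,(-5055),36],[(-10214),230,(-1)],[274,(-3)],[(-3)]],[[(-7851),(-118),1],[177,5],[1]],[[(-559),1],[16]],[[(-7)]]],[[[114529,(-5248),30],[(-9507),190],[219]],[[(-10947),(-91)],[196]],[[(-492)]]],[[[9042,(-1406)],[(-1982)]],[[(-4373)]]],[[[(-7273)]]]]]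

/-- A surrogate. -/
def root_s14 : List (List (List (List (List ℤ)))) :=
  [[[[[(-51202957),1013564,20054,(-175)],[3407131,(-6592),(-685),2],[(-80784),398,(-4)],[1704,(-34)],[(-37),1]],[[2504333,147790,(-1490),5],[11965,(-5437),35],[128,27],[(-80),1],[2]],[[311757,(-5351),22],[(-13955),181,(-1)],[218,(-2)],[(-1)]],[[(-6502),3],[229],[(-5)]],[[(-90),1],[4]],[[1]]],[[[(-69488275),2489800,4040,(-110)],[5557809,(-77892),(-207),1],[(-142240),1430,(-6)],[2262,(-33)],[(-33)]],[[7207436,65968,(-1002),4],[(-222562),(-2620),24],[4186,1],[(-97),1],[1]],[[222782,(-4781),24],[(-11223),175,(-1)],[191,(-2)],[(-1)]],[[(-7626),23],[308,(-1)],[(-5)]],[[(-77),1],[3]],[[1]]],[[[(-18769144),1311889,(-4737),(-11)],[2188389,(-51163),114],[(-62835),846,(-2)],[893,(-8)],[(-7)]],[[4265990,(-10282),(-135),1],[(-169004),255,2],[3026,(-12)],[(-35)]],[[33069,(-1278),8],[(-2210),47],[29]],[[(-3055),16],[129]],[[(-19)]]],[[[2948347,177515,(-1005)],[100493,(-7780),19],[(-5970),100],[78]],[[7556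91,(-3791),5],[(-32024),147],[486]],[[(-1191),(-103)],[156]],[[(-528)]]],[[[773894,8914,(-54)],[(-18325),(-350)],[27]],[[59937,(-329)],[(-1885)]],[[(-1008)]]],[[[48466,108],[(-1344)]],[[1286]]],[[[666]]]],[[[[(-40781912),1126122,4418,(-73)],[3081471,(-38799),(-139),1],[(-85117),915,(-4)],[1516,(-23)],[(-23)]],[[1119426,104597,(-652),1],[48119,(-3979),19],[(-1739),56],[5]],[[237206,(-80),(-10)],[(-8479),(-1)],[155],[(-1)]],[[3708,(-39)],[(-170),1],[2]],[[(-17)],[1]]],[[[(-49044196),1935377,(-4277),(-41)],[4212240,(-79501),135,1],[(-120410),1576,(-4)],[1902,(-18)],[(-17)]],[[3547608,88524,(-700),1],[(-51517),(-3787),16],[(-279),45],[3]],[[282104,(-708),(-6)],[(-11237),14],[148]],[[3563,(-29)],[(-120)]],[[(-19)]]],[[[(-12038819),893255,(-4689),(-1)],[1489260,(-40116),125],[(-46952),648],[634]],[[2435141,20356,(-209)],[(-72245),(-946)],[575]],[[115596,(-429)],[(-4149)]],[[907]]],[[[2051992,113773,(-764)],[52523,(-5225)],[(-3892)]],[[579498,982],[(-19062)]],[[17815]]],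[[[516961,5092],[(-13086)]],[[56057]]],[[[31874]]]],[[[[(-2285898),55621,531,(-6)],[179887,(-1956),(-10)],[(-5450),83],[132,(-2)],[(-2)]],[[(-50717),10002,(-52)],[10848,(-437),1],[(-315),6],[3]],[[17771,213,(-2)],[(-660),(-8)],[6]],[[854,(-1)],[(-27)]],[[9]]],[[[(-2900267),112278,(-182),(-3)],[257079,(-5122),5],[(-7955),95],[120]],[[109941,9716,(-53)],[3835,(-377)],[(-221)]],[[25466,126],[(-736)]],[[728]]],[[[(-671531),52246,(-276)],[85095,(-2416)],[(-2836)]],[[131568,2536],[(-2203)]],[[10410]]],[[[155785,5137],[(-454)]],[[35919]]],[[[27485]]]],[[[[129701,(-4735),34],[(-9571),216,(-1)],[257,(-3)],[(-2)]],[[(-5617),(-183),1],[27,7],[4]],[[(-651)],[17]],[[(-12)]]],[[[107396,(-4923),28],[(-8916),179],[207]],[[(-8915),(-145)],[77]],[[(-586)]]],[[[8439,(-1326)],[(-1867)]],[[(-3989)]]],[[[(-6860)]]]]]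

/-- A surrogate. -/
def root_s15 : List (List (List (List (List ℤ)))) :=
  [[[[[(-4196277108),(-40287958),459046,(-859),(-1)],[110760173,1097028,(-5350),(-5)],[(-2173325),13429,(-123)],[52880,(-631),2],[(-802),6],[6]],[[(-121964708),3080601,(-18247),34],[3881135,(-71114),266],[19171,(-242),2],[(-2063),19],[31]],[[8887756,(-84871),275],[(-298510),2085,(-5)],[2802,(-9)],[12]],[[(-82092),668,(-2)],[2789,(-17)],[(-31)]],[[206,(-2)],[(-8)]]],[[[(-4739408709),14291990,73308,(-161)],[164676002,(-373732),(-479),(-4)],[(-2563240),10231,(-42)],[29580,(-212),1],[(-308),2],[2]],[[55170908,171425,(-3998),12],[(-2267696),(-3763),83],[48212,(-94)],[(-676),3],[6]],[[3121125,(-28673),92],[(-116821),827,(-2)],[1555,(-7)],[(-6)]],[[(-31426),259,(-1)],[1215,(-8)],[(-18)]],[[82,(-1)],[(-4)]]],[[[(-963673281),4672135,1136,(-6)],[35338742,(-129984),101,(-1)],[(-558430),2218,(-6)],[5944,(-26)],[(-42)]],[[15553915,(-53977),(-349),1],[(-616206),1119,8],[9579,(-25)],[(-105)]],[[469918,(-4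034),12],[(-18365),119],[259]],[[(-3986),35],[174]],[[9]]],[[[(-79313341),436721,(-398),1],[3017317,(-13186),15],[(-50997),157],[426]],[[1356048,(-6415),(-8)],[(-51217),236],[1005]],[[35385,(-285)],[(-1392)]],[[(-233)]]],[[[(-2868639),16602,(-19)],[114535,(-389)],[(-1580)]],[[49732,(-397)],[(-2557)]],[[1376]]],[[[(-32857),110],[1017]],[[1012]]],[[[229]]]],[[[[(-3763404016),(-9998426),232675,(-588)],[129456718,169247,(-3090),4],[(-2436445),11508,(-44)],[38543,(-331),1],[(-452),3],[3]],[[(-188932464),1538971,(-3890),3],[6298408,(-38102),73],[(-65516),247],[(-12),2],[6]],[[1205545,(-3136),(-26)],[(-42152),115],[700,(-3)],[(-6)]],[[28938,(-253),1],[(-989),6],[9]],[[(-164),1],[6]]],[[[(-3709372320),18374049,20587,(-179)],[143288710,(-565476),(-288),2],[(-2358573),8997,(-7)],[23114,(-88)],[(-138)]],[[(-81173293),639004,(-1574),2],[3029780,(-18942),34],[(-43777),166],[202]],[[717655,(-4198),3],[(-28749),160],[536]],[[10857,(-83)],[(-367)]],[[(-64)]]],[[[(-716905202),4474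024,(-2831),(-20)],[28672750,(-137300),36],[(-475001),1585],[3835]],[[(-14125868),109851,(-223)],[564316,(-2901)],[(-7394)]],[[81936,(-678)],[(-4256)]],[[1452]]],[[[(-56928536),385883,(-414)],[2337733,(-11178)],[(-36614)]],[[(-1198709),8151],[43477]],[[3267]]],[[[(-2049095),14012],[83061]],[[(-45887)]]],[[[(-27840)]]]],[[[[(-522793177),(-1543983),34174,(-93)],[19077237,18501,(-474),1],[(-380488),1858,(-5)],[6128,(-43)],[(-60)]],[[(-41925455),212320,129,(-1)],[1453921,(-6124)],[(-20603),70],[115]],[[(-613546),4857,(-10)],[21349,(-105)],[(-191)]],[[1137,(-6)],[(-61)]],[[41]]],[[[(-502374266),2735215,1665,(-25)],[20318345,(-89184),(-36)],[(-348267),1221],[3076]],[[(-23136336),157739,(-185)],[912339,(-4426)],[(-13097)]],[[(-266815),1773],[8548]],[[789]]],[[[(-80051660),532520,(-435)],[3337150,(-16271)],[(-54513)]],[[(-3350704),23080],[130068]],[[(-35503)]]],[[[(-4604157),32241],[193116]],[[(-185183)]]],[[[(-90701)]]]],[[[[(-8181317),(-170858),1678,(-4)],[364438,2827,(-24)],[(-12223),59],[227]],[[(-1860500),5342,42],[69991,(-164)],[(-1009)]],[[(-67359),363],[2207]],[[(-806)]]],[[[(-12093437),63342,101],[571604,(-2655)],[(-11250)]],[[(-1067071),7214],[45381]],[[(-29661)]]],[[[(-1689802),12044],[79629]],[[(-116540)]]],[[[(-59336)]]]],[[[[1065831,(-7697),13],[(-36329),168],[410]],[[57548,(-375)],[(-1768)]],[[1045]]],[[[577931,(-4140)],[(-19526)]],[[30754]]],[[[22628]]]]]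

/-- A root. -/
def root : Root where
  cl := true
  box := fun i => match i with
    | 0 => ⟨7, 13, 100, 50⟩
    | 1 => ⟨93, 191, 100, 200⟩
    | 2 => ⟨2, 11, 15, 80⟩
    | _ => ⟨307, 310001, 1000, 1000000⟩
  De := 400
  e0 := 45
  e1 := 183
  p := fun i => match i with
    | 0 => 11
    | 1 => 80
    | 2 => 480
    | 3 => 666
    | _ => 6
  q := fun i => match i with
    | 0 => 2
    | 1 => 75
    | 2 => 65
    | 3 => 205
    | _ => 2
  den := 17179869184
  sur := fun k => match k with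
    | 0 => root_s0
    | 1 => root_s1
    | 3 => root_s3
    | 5 => root_s5
    | 11 => root_s11
    | 12 => root_s12
    | 13 => root_s13
    | 14 => root_s14
    | 15 => root_s15
    | _ => []
  eps := fun k => match k with
    | 0 => 285378
    | 1 => 779916
    | 3 => 327152
    | 5 => 281012
    | 11 => 1025
    | 12 => 8591
    | 13 => 6022
    | 14 => 6554
    | 15 => 13046
    | _ => 0

/-- A leaf. -/
def leaf0 : Leaf :=
  ⟨⟨93, 749, 100, 800⟩, ⟨2, 11, 15, 80⟩, ⟨307, 310001, 1000, 1000000⟩,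
    16384, (5536, -27934, -20184, 7906), (-4722, -38776, -3830, 21929), 16384, (38817, 54531, 57499, -62585), (-38581, 10150, 921, 35773), (6313, 68888, 85750, -35112), (4182, 7407, 796, -7694),
    true, 0, 1, 3718, (-205), 3420, 3830, (-4096), 2424⟩

/-- A tile. -/
def tile0 : Tile :=
  ⟨⟨93, 749, 100, 800⟩, ⟨2, 11, 15, 80⟩, ⟨307, 310001, 1000, 1000000⟩, 16384, (5536, -27934, -20184, 7906), (-4722, -38776, -3830, 21929), 6554,
    (1024, 0), (7, 1024), 0, 3, (leaf0, ⟨(1024, 133), (1024, 480)⟩),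
    []⟩

/-- A leaf. -/
def leaf1 : Leaf :=
  ⟨⟨749, 377, 800, 400⟩, ⟨2, 11, 15, 80⟩, ⟨307, 310001, 1000, 1000000⟩,
    16384, (5025, -28647, -20652, 8754), (-804, -34060, -11757, 16407), 16384, (14177, 59564, 73233, -39475), (15071, -3091, -20801, -13394), (10448, 68475, 82313, -39450), (-3332, 4736, 9662, 950),
    true, 0, 1, 3323, (-275), 1808, 4096, (-2747), 1766⟩

/-- A leaf. -/
def leaf2 : Leaf :=
  ⟨⟨749, 377, 800, 400⟩, ⟨2, 11, 15, 80⟩, ⟨307, 310001, 1000, 1000000⟩,
    16384, (-804, -34060, -11757, 16407), (-6632, -39474, -2862, 24060), 16384, (33980, 52501, 45472, -56322), (-56131, 15114, 26709, 50472), (10061, 66095, 84320, -38486), (9154, 919, -10953, -9510),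
    true, 0, 1, 3244, (-311), 4011, 4096, (-3634), 2853⟩

/-- A tile. -/
def tile1 : Tile :=
  ⟨⟨749, 377, 800, 400⟩, ⟨2, 11, 15, 80⟩, ⟨307, 310001, 1000, 1000000⟩, 16384, (5025, -28647, -20652, 8754), (-6632, -39474, -2862, 24060), 6554,
    (1024, 0), (12, 1024), 0, 3, (leaf1, ⟨(1024, 0), (204, 1024)⟩),
    [(leaf2, ⟨(880, 1024), (1024, 0)⟩)]⟩

/-- A leaf. -/
def leaf3 : Leaf :=
  ⟨⟨377, 1513, 400, 1600⟩, ⟨2, 13, 15, 96⟩, ⟨307, 310001, 1000, 1000000⟩,
    16384, (4241, -28787, -20387, 9596), (-8522, -39032, -1020, 25656), 16384, (24671, 52138, 59780, -47296), (-46257, 11590, 10638, 42036), (11739, 64983, 83671, -39316), (5906, 7288, -69, -9361),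
    true, 0, 1, 4096, (-139), 3130, 3118, (-3070), 2101⟩

/-- A tile. -/
def tile2 : Tile :=
  ⟨⟨377, 1513, 400, 1600⟩, ⟨2, 13, 15, 96⟩, ⟨307, 310001, 1000, 1000000⟩, 16384, (4241, -28787, -20387, 9596), (-8522, -39032, -1020, 25656), 6431,
    (1024, 0), (17, 1024), 0, 3, (leaf3, ⟨(1024, 513), (1024, 528)⟩),
    []⟩

/-- A leaf. -/
def leaf4 : Leaf :=
  ⟨⟨377, 1513, 400, 1600⟩, ⟨13, 11, 96, 80⟩, ⟨307, 310001, 1000, 1000000⟩,
    16384, (4820, -29534, -21618, 9404), (-1630, -35181, -12326, 17734), 16384, (16201, 59443, 73329, -41599), (16846, -3714, -22797, -14781), (12793, 66896, 82806, -41494), (-3735, 6256, 10428, 768),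
    true, 0, 1, 3624, (-304), 2088, 4096, (-3073), 1934⟩

/-- A leaf. -/
def leaf5 : Leaf :=
  ⟨⟨377, 1513, 400, 1600⟩, ⟨13, 11, 96, 80⟩, ⟨307, 310001, 1000, 1000000⟩,
    16384, (-1630, -35181, -12326, 17734), (-8081, -40828, -3033, 26065), 16384, (39037, 52094, 42421, -61206), (-68435, 17336, 37538, 61212), (12089, 66109, 84563, -40680), (10169, 678, -11784, -10385),
    true, 0, 1, 3098, (-299), 4096, 3965, (-3541), 2780⟩

/-- A tile. -/
def tile3 : Tile :=
  ⟨⟨377, 1513, 400, 1600⟩, ⟨13, 11, 96, 80⟩, ⟨307, 310001, 1000, 1000000⟩, 16384, (4820, -29534, -21618, 9404), (-8081, -40828, -3033, 26065), 6554,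
    (1024, 0), (22, 1024), 0, 3, (leaf4, ⟨(1024, 0), (213, 1024)⟩),
    [(leaf5, ⟨(518, 1024), (1024, 1)⟩)]⟩

/-- A leaf. -/
def leaf6 : Leaf :=
  ⟨⟨1513, 759, 1600, 800⟩, ⟨2, 13, 15, 96⟩, ⟨307, 310001, 1000, 1000000⟩,
    16384, (3886, -29140, -20583, 10115), (-9743, -39335, -365, 26953), 16384, (37062, 50096, 54792, -59106), (-47890, 14097, 14396, 42399), (13305, 64572, 83578, -40816), (6523, 7162, -454, -9918),
    true, 0, 1, 3953, (-278), 3665, 4096, (-3829), 2553⟩

/-- A tile. -/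
def tile4 : Tile :=
  ⟨⟨1513, 759, 1600, 800⟩, ⟨2, 13, 15, 96⟩, ⟨307, 310001, 1000, 1000000⟩, 16384, (3886, -29140, -20583, 10115), (-9743, -39335, -365, 26953), 6431,
    (1024, 0), (21, 1024), 0, 3, (leaf6, ⟨(1024, 627), (1024, 538)⟩),
    []⟩

/-- A leaf. -/
def leaf7 : Leaf :=
  ⟨⟨1513, 759, 1600, 800⟩, ⟨13, 11, 96, 80⟩, ⟨307, 310001, 1000, 1000000⟩,
    16384, (4473, -29928, -21869, 9935), (-2428, -35548, -12134, 18670), 16384, (17894, 58578, 72640, -43007), (17936, -4311, -23967, -15571), (14431, 66485, 82709, -43077), (-3708, 6305, 10473, 718),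
    true, 0, 1, 3582, (-293), 2164, 4096, (-3130), 1985⟩

/-- A leaf. -/
def leaf8 : Leaf :=
  ⟨⟨1513, 759, 1600, 800⟩, ⟨13, 11, 96, 80⟩, ⟨307, 310001, 1000, 1000000⟩,
    16384, (-2428, -35548, -12134, 18670), (-9330, -41167, -2398, 27405), 16384, (44748, 50222, 39139, -66081), (-66559, 21233, 42042, 57304), (13816, 65334, 84039, -42178), (10847, 398, -12384, -10925),
    true, 0, 1, 3008, (-364), 4096, 4041, (-3436), 2751⟩

/-- A tile. -/
def tile5 : Tile :=
  ⟨⟨1513, 759, 1600, 800⟩, ⟨13, 11, 96, 80⟩, ⟨307, 310001, 1000, 1000000⟩, 16384, (4473, -29928, -21869, 9935), (-9330, -41167, -2398, 27405), 6554,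
    (1024, 0), (28, 1024), 0, 3, (leaf7, ⟨(1024, 0), (216, 1024)⟩),
    [(leaf8, ⟨(403, 1024), (1024, 0)⟩)]⟩

/-- A leaf. -/
def leaf9 : Leaf :=
  ⟨⟨759, 1523, 800, 1600⟩, ⟨2, 13, 15, 96⟩, ⟨307, 310001, 1000, 1000000⟩,
    16384, (3419, -29520, -20860, 10770), (-11078, -39623, 357, 28351), 16384, (41760, 47808, 51522, -62929), (-46231, 17416, 18109, 39044), (15058, 64106, 83408, -42414), (7207, 7042, -835, -10545),
    true, 0, 1, 4096, (-235), 3578, 3784, (-3435), 2344⟩

/-- A tile. -/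
def tile6 : Tile :=
  ⟨⟨759, 1523, 800, 1600⟩, ⟨2, 13, 15, 96⟩, ⟨307, 310001, 1000, 1000000⟩, 16384, (3419, -29520, -20860, 10770), (-11078, -39623, 357, 28351), 6431,
    (1024, 0), (20, 1024), 0, 3, (leaf9, ⟨(1024, 764), (1024, 536)⟩),
    []⟩

/-- A leaf. -/
def leaf10 : Leaf :=
  ⟨⟨759, 1523, 800, 1600⟩, ⟨13, 11, 96, 80⟩, ⟨307, 310001, 1000, 1000000⟩,
    16384, (4027, -30329, -22173, 10580), (-3336, -35911, -11934, 19716), 16384, (19805, 57619, 71968, -44614), (19057, -4920, -25271, -16366), (16617, 65292, 81550, -44828), (-3924, 6684, 11088, 738),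
    true, 0, 1, 3364, (-303), 2165, 4096, (-3076), 1998⟩

/-- A leaf. -/
def leaf11 : Leaf :=
  ⟨⟨759, 1523, 800, 1600⟩, ⟨13, 11, 96, 80⟩, ⟨307, 310001, 1000, 1000000⟩,
    16384, (-3336, -35911, -11934, 19716), (-10698, -41493, -1694, 28851), 16384, (30119, 50013, 42058, -50947), (-70645, 25210, 48300, 59408), (15707, 64497, 83482, -43818), (11545, 84, -13049, -11463),
    true, 0, 1, 2935, (-321), 4096, 3930, (-3345), 2734⟩

/-- A tile. -/
def tile7 : Tile :=
  ⟨⟨759, 1523, 800, 1600⟩, ⟨13, 11, 96, 80⟩, ⟨307, 310001, 1000, 1000000⟩, 16384, (4027, -30329, -22173, 10580), (-10698, -41493, -1694, 28851), 6554,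
    (1024, 0), (28, 1024), 0, 3, (leaf10, ⟨(1024, 0), (219, 1024)⟩),
    [(leaf11, ⟨(278, 1024), (1024, 0)⟩)]⟩

/-- A leaf. -/
def leaf12 : Leaf :=
  ⟨⟨1523, 191, 1600, 200⟩, ⟨2, 11, 15, 80⟩, ⟨307, 310001, 1000, 1000000⟩,
    16384, (3229, -30281, -21765, 11342), (-4553, -35586, -10818, 20729), 16384, (22112, 55430, 70154, -46065), (19780, -5582, -26063, -16802), (18415, 66153, 80816, -46887), (-3379, 4701, 10252, 927),
    true, 0, 1, 3377, (-320), 2175, 4096, (-2940), 1960⟩

/-- A leaf. -/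
def leaf13 : Leaf :=
  ⟨⟨1523, 191, 1600, 200⟩, ⟨2, 11, 15, 80⟩, ⟨307, 310001, 1000, 1000000⟩,
    16384, (-4553, -35586, -10818, 20729), (-12335, -40892, 130, 30116), 16384, (28422, 48127, 43179, -48741), (-70096, 28717, 51965, 57182), (17977, 62492, 81974, -45337), (12099, -335, -13635, -11827),
    true, 0, 1, 2983, (-366), 4096, 3917, (-3204), 2735⟩

/-- A tile. -/
def tile8 : Tile :=
  ⟨⟨1523, 191, 1600, 200⟩, ⟨2, 11, 15, 80⟩, ⟨307, 310001, 1000, 1000000⟩, 16384, (3229, -30281, -21765, 11342), (-12335, -40892, 130, 30116), 6554,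
    (1024, 0), (34, 1024), 0, 3, (leaf12, ⟨(1024, 0), (218, 1024)⟩),
    [(leaf13, ⟨(170, 1024), (1024, 0)⟩)]⟩

/-- The subdivision. -/
def tree : Tree :=
  (.node 0 377 400
    (.node 0 749 800
    (.tile tile0)
    (.tile tile1))
    (.node 0 759 800
    (.node 0 1513 1600
    (.node 1 13 96
    (.tile tile2)
    (.tile tile3))
    (.node 1 13 96
    (.tile tile4)
    (.tile tile5)))
    (.node 0 1523 1600
    (.node 1 13 96
    (.tile tile6)
    (.tile tile7))
    (.tile tile8))))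

def tree_ok : tree.ok pieceC 448 ⟨93, 191, 100, 200⟩ ⟨2, 11, 15, 80⟩ ⟨307, 310001, 1000, 1000000⟩ = true := by
  decide +kernel

def root_ok0 : root.okEnt 576 0 = true := by decide +kernel

def root_ok1 : root.okEnt 576 1 = true := by decide +kernel

def root_ok3 : root.okEnt 576 3 = true := by decide +kernel

def root_ok5 : root.okEnt 576 5 = true := by decide +kernel

def root_ok11 : root.okEnt 576 11 = true := by decide +kernel

def root_ok12 : root.okEnt 576 12 = true := by decide +kernel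

def root_ok13 : root.okEnt 576 13 = true := by decide +kernel

def root_ok14 : root.okEnt 576 14 = true := by decide +kernel

def root_ok15 : root.okEnt 576 15 = true := by decide +kernel

def leaf0_ok : leaf0.okLeaf root 640 = true := by decide +kernel

def leaf1_ok : leaf1.okLeaf root 640 = true := by decide +kernel

def leaf2_ok : leaf2.okLeaf root 640 = true := by decide +kernel

def leaf3_ok : leaf3.okLeaf root 640 = true := by decide +kernel

def leaf4_ok : leaf4.okLeaf root 640 = true := by decide +kernel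

def leaf5_ok : leaf5.okLeaf root 640 = true := by decide +kernel

def leaf6_ok : leaf6.okLeaf root 640 = true := by decide +kernel

def leaf7_ok : leaf7.okLeaf root 640 = true := by decide +kernel

def leaf8_ok : leaf8.okLeaf root 640 = true := by decide +kernel

def leaf9_ok : leaf9.okLeaf root 640 = true := by decide +kernel

def leaf10_ok : leaf10.okLeaf root 640 = true := by decide +kernel

def leaf11_ok : leaf11.okLeaf root 640 = true := by decide +kernel

def leaf12_ok : leaf12.okLeaf root 640 = true := by decide +kernel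

def leaf13_ok : leaf13.okLeaf root 640 = true := by decide +kernel

theorem leaves_eq : tree.leaves =
    [leaf0, leaf1, leaf2, leaf3, leaf4, leaf5, leaf6, leaf7,
    leaf8, leaf9, leaf10, leaf11, leaf12, leaf13] := rfl

theorem leaves_ok : ∀ F ∈ tree.leaves, Leaf.okLeaf F root 640 = true := by
  rw [leaves_eq]
  exact all'_cons leaf0_ok (all'_cons leaf1_ok (all'_cons leaf2_ok (all'_cons leaf3_ok (
    all'_cons leaf4_ok (all'_cons leaf5_ok (all'_cons leaf6_ok (all'_cons leaf7_ok (
    all'_cons leaf8_ok (all'_cons leaf9_ok (all'_cons leaf10_ok (all'_cons leaf11_ok (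
    all'_cons leaf12_ok (all'_cons leaf13_ok ((fun F hF => absurd hF List.not_mem_nil)))))))))))))))

theorem root_ok : ∀ k ∈ [0, 1, 3, 5, 11, 12, 13, 14, 15], root.okEnt 576 k = true := by
  intro k hk
  simp only [List.mem_cons, List.not_mem_nil, or_false] at hk
  rcases hk with rfl | rfl | rfl | rfl | rfl | rfl | rfl | rfl | rfl
  · exact root_ok0
  · exact root_ok1
  · exact root_ok3
  · exact root_ok5
  · exact root_ok11
  · exact root_ok12
  · exact root_ok13
  · exact root_ok14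
  · exact root_ok15

theorem used_ok : ∀ F ∈ tree.leaves, ∀ k ∈ Leaf.used F, root.okEnt 576 k = true := by
  intro F hF k hk
  refine root_ok k ?_
  rw [leaves_eq] at hF
  have h : ([leaf0, leaf1, leaf2, leaf3, leaf4, leaf5, leaf6, leaf7,
    leaf8, leaf9, leaf10, leaf11, leaf12, leaf13]).all (fun G => G.used.all fun j => [0, 1, 3, 5, 11, 12, 13, 14, 15].any (Nat.beq j)) = true := by
    decide +kernel
  simp only [List.all_eq_true, List.any_eq_true] at h
  obtain ⟨j, hj, e⟩ := h F hF k hk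
  exact Nat.eq_of_beq_eq_true e ▸ hj

/-- **The signs on the box.** -/
theorem signs {a I u X η : ℝ} (hf : Facts pieceC a I u X η) (hu : In1 ⟨93, 191, 100, 200⟩ u)
    (hI : In1 ⟨2, 11, 15, 80⟩ I) (ha : In1 ⟨307, 310001, 1000, 1000000⟩ a) :
    ClosedGen.SignsMult a (rd (mk4 X u I a)) (rv (mk4 X u I a)) (rg (mk4 X u I a) η)
      (rW (mk4 X u I a) η) (rW1 (mk4 X u I a) η) (rR (mk4 X u I a))
      (rNum true (mk4 X u I a) η) :=
  Tree.signs (T := tree) (R := root) tree_ok leaves_ok used_ok hf hu hI ha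

end Vale.Agent.P100.Calib.MidTail.BoxII1U2b
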