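import Vale.Agent.P100.Calib.SlabMidTailPieces

/-!
# The signs on a box of the middle tail

`u, I, a` lie in the box of `root`; the surrogates and leaves are checked by the kernel.
-/

namespace Vale.Agent.P100.Calib.MidTail.BoxII1U2c

open Pack EndAll Band

/-- A surrogate. -/
def root_s0 : List (List (List (List (List ℤ)))) :=
  [[[[[8810381109,(-384429220),2216684,(-4983),(-3)],[(-422645154),8977418,(-29879),(-63),1],[5896108,(-60813),(-231),4],[(-26130),(-239),9],[(-127),7],[2]],[[(-652308835),164664,4736,2],[7954117,49719,(-43),(-1)],[70280,(-1130),(-3)],[(-2024),9],[18]],[[(-10331859),201840,(-826),3],[312840,(-4408),20],[(-3333),41],[11]],[[352328,1157,(-8)],[(-4644),(-47)],[(-5),1],[1]],[[5261,(-31)],[(-124)],[1]],[[(-43)],[1]]],[[[5009573366,(-319037797),1678495,(-4388),2],[(-309565625),7452755,(-26401),(-9)],[4735697,(-59245),(-26),2],[(-26762),56,3],[4,2],[1]],[[(-612587059),(-2542209),23718,(-62)],[5890065,142657,(-697),1],[112675,(-2633),5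],[(-2573),17],[17]],[[(-9045647),153359,(-402),1],[249037,(-2411),8],[(-1530),13],[(-6)]],[[434347,616,(-6)],[(-7724),(-22)],[32]],[[6175,(-31)],[(-110)]],[[(-41)]]],[[[(-179296699),(-82233426),323620,(-828),1],[(-51199196),1857546,(-5157),(-1)],[1006076,(-15621),2],[(-6781),38],[12]],[[(-211233781),(-1560562),11122,(-18)],[2057724,64496,(-226)],[34942,(-773)],[(-629)]],[[(-3076469),42416,(-67)],[80419,(-596)],[(-295)]],[[165102,112],[(-3065)]],[[1979]]],[[[(-350649102),(-10733001),30442,(-41)],[600694,233763,(-365)],[57861,(-1576)],[(-364)]],[[(-40565870),(-250953),1448],[536877,7571],[2381]],[[(-334378),5086],[2671]],[[30116]]],[[[(-62504068),(-649500),1295],[1018224,11228],[(-6102)]],[[(-3773774),(-12440)],[41810]],[[22234]]],[[[(-3874818),(-9830)],[73349]],[[(-101456)]]],[[[(-59607)]]]],[[[[4623995400,(-178527126),599987,1793,(-24)],[(-216643196),3700668,2497,(-170),1],[2978311,(-15021),(-380),3],[(-13106),(-277),5],[(-61),4],[1]],[[(-268776444),(-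5753510),29180,(-61)],[701792,149727,(-520),(-1)],[63517,(-1548),(-2)],[(-837),1],[2]],[[(-17648931),3296,155,1],[337063,476,2],[(-2178),(-1)],[(-1)]],[[(-210377),1672],[5331,(-19)],[(-22)]],[[2104,14],[(-32)]],[[41]]],[[[2881211348,(-161756485),644962,(-852),(-8)],[(-174163157),3791977,(-10175),(-38)],[2844069,(-34039),(-34)],[(-20995),65],[53]],[[(-301495258),(-6563394),33941,(-80)],[1016243,176800,(-621)],[68889,(-1570)],[(-809)]],[[(-20161465),(-17729),280],[392657,737],[(-1710)]],[[(-268919),1484],[4547]],[[1796]]],[[[64234861,(-46490598),162666,(-428)],[(-34654713),1109217,(-3319)],[712364,(-9927)],[(-5567)]],[[(-147270303),(-2104295),7995],[1578711,45323],[8838]],[[(-8075959),(-4320)],[130980]],[[(-80981)]]],[[[(-168238627),(-6599693),19244],[(-815665),139855],[58900]],[[(-35844561),(-234102)],[499914]],[[(-1279851)]]],[[[(-34719483),(-389103)],[450513]],[[(-3652973)]]],[[[(-2126284)]]]],[[[[250645029,(-6391139),(-102823),1125,(-7)],[(-9162882),(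-78267),5197,(-45)],[25289,5696,(-107)],[1788,(-100)],[(-32)]],[[1467793,(-1157602),1931,6],[(-934363),27493,(-6)],[20278,(-182)],[(-143)]],[[(-1948855),(-35781),71],[20536,654],[164]],[[(-90023),(-294)],[1192]],[[(-1048)]]],[[[184149729,(-9249900),(-4620),(-14)],[(-10772634),179816,(-46)],[169443,(-1356)],[(-1149)]],[[(-10515420),(-987554),1162],[(-464746),17410],[10777]],[[(-2285288),(-24472)],[20495]],[[(-68724)]]],[[[(-2312736),(-2470246),(-5742)],[(-1714265),36941],[30398]],[[(-8754210),(-259222)],[(-26730)]],[[(-784254)]]],[[[(-8502780),(-416641)],[(-122050)]],[[(-2310952)]]],[[[(-2027806)]]]],[[[[(-4283191),173303,(-1206),1],[202795,(-4623),14],[(-3268),29],[16]],[[241910,6292,(-41)],[(-1135),(-128)],[(-40)]],[[23450,(-1)],[(-314)]],[[368]]],[[[(-3340554),179830,(-941)],[187653,(-3561)],[(-2444)]],[[362699,4652],[(-1767)]],[[19235]]],[[[(-64807),47894],[39649]],[[147243]]],[[[279401]]]]]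

/-- A surrogate. -/
def root_s1 : List (List (List (List (List ℤ)))) :=
  [[[[[32959544077,(-271895117),95027,6043,(-38)],[(-942816203),5487873,16941,(-306),2],[10580295,(-25133),(-718),7],[(-53027),(-505),14],[(-57),11],[4]],[[(-718166615),9987523,(-45272),117],[25133212,(-305162),1535,(-2)],[(-372069),4682,(-20)],[3531,(-44)],[(-25)]],[[(-7431464),15749,9,(-1)],[173159,(-593),(-4)],[(-2365),4],[21]],[[39416,131],[(-357),(-3)],[(-1)]],[[(-138)],[3]]],[[[43728866976,(-353477031),382037,4030,(-28)],[(-1233547867),7526206,1898,(-189),1],[13858433,(-58945),(-322),3],[(-78543),(-20),5],[137,4],[1]],[[(-990906395),10521471,(-29046),58],[31263423,(-258396),857,(-1)],[(-385963),3071,(-9)],[2723,(-20)],[(-12)]],[[(-2818108),(-28514),(-10)],[2981,296,(-1)],[(-28),1],[6]],[[44484,175],[(-367),(-3)],[(-1)]],[[(-188)],[3]]],[[[20363424103,(-160996591),239038,1017,(-6)],[(-563201746),3495134,(-2934),(-34)],[6262701,(-30175),(-33)],[(-35360),58],[59]],[[(-480122866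),4314184,(-7803),9],[14189185,(-92353),175],[(-158532),772],[790]],[[32212,(-18725),(-2)],[(-34396),240],[353]],[[15173,61],[(-109)]],[[(-62)]]],[[[4122926596,(-32130278),61790,79],[(-111066901),708262,(-879)],[1207769,(-5021)],[(-5258)]],[[(-100011577),774928,(-1063)],[2737159,(-14048)],[(-25765)]],[[167876,(-3121)],[(-7844)]],[[1547]]],[[[418734820,(-3268961),6528],[(-10937842),59798],[94590]],[[(-10278153),67633],[250805]],[[20468]]],[[[22099033,(-149293)],[(-468171)]],[[(-547339)]]],[[[482393]]]],[[[[16158666116,(-154833234),(-258248),7023,(-39)],[(-504832527),2361704,28250,(-317),1],[5488978,12695,(-788),5],[(-18898),(-682),9],[(-167),7],[2]],[[95028352,2421426,(-17671),50],[1476902,(-76640),427],[(-57338),1006,(-3)],[642,(-6)],[(-3)]],[[1542660,(-15391),6],[(-66483),446,2],[1183,(-3)],[(-10)]],[[(-19419),(-115)],[98,2],[1]],[[165],[(-2)]]],[[[21192565026,(-203370322),159230,2781,(-14)],[(-655237810),4105265,5123,(-104)],[7588619,(-26263),(-211)],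[(-41156),(-95)],[30]],[[184231830,1050295,(-7283),25],[(-1432056),(-32082),182],[(-13582),412],[243]],[[(-1043527),4995,13],[20361,101],[203]],[[(-21234),(-98)],[58]],[[142]]],[[[9746164699,(-87024066),114418,331],[(-289412972),1789211,(-769)],[3249706,(-11255)],[(-14319)]],[[85324775,158640,(-1287)],[(-1035041),(-6229)],[(-997)]],[[(-848417),4436],[19093]],[[(-6436)]]],[[[1949861804,(-15451732),18184],[(-54103221),263600],[491495]],[[15677071,1917],[(-182737)]],[[(-149685)]]],[[[194496995,(-1223212)],[(-4543283)]],[[1395069]]],[[[9576957]]]],[[[[425236377,(-15804727),(-199992),2528,(-11)],[(-38283677),(-62371),10616,(-80)],[397837,10372,(-193)],[1050,(-180)],[(-56)]],[[61150389,(-1086113),7284,(-17)],[(-2308338),36960,(-170)],[39668,(-441)],[(-306)]],[[341563,5124,(-3)],[4776,(-102)],[(-178)]],[[(-642),20],[53]],[[(-45)]]],[[[782888568,(-28913230),(-1216),618],[(-59364986),534412,1831],[861879,(-1238)],[(-3425)]],[[60668920,(-748004),2902],[(-2003650)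,16525],[20578]],[[727048,2658],[(-2477)]],[[(-990)]]],[[[412215034,(-11620920),11523],[(-25012806),194130],[294257]],[[23678187,(-197456)],[(-623924)]],[[265344]]],[[[96261750,(-1560730)],[(-3830456)]],[[3431945]]],[[[8674268]]]],[[[[(-244827797),(-1020377),1548],[2113321,22365,(-12)],[6074,(-114)],[(-86)]],[[(-6545826),(-43684),38],[32420,608],[462]],[[11526,(-387)],[(-960)]],[[1125]]],[[[(-275044979),(-1202609),1243],[2237785,17964],[5952]],[[(-7242027),(-34968)],[17982]],[[17320]]],[[[(-92272816),(-384432)],[593912]],[[(-2046718)]]],[[[(-8053515)]]]],[[[[(-16798378)],[286439],[(-1240)]],[[(-997120)],[10939]],[[(-14229)]]],[[[(-18486674)],[225431]],[[(-781763)]]],[[[(-5409760)]]]]]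

/-- A surrogate. -/
def root_s3 : List (List (List (List (List ℤ)))) :=
  [[[[[695191649,(-139510953),1195920,(-6242),29],[(-124451328),5043500,(-38834),223,(-1)],[3227225,(-76752),603,(-4)],[(-37467),712,(-6)],[262,(-5)],[(-1)]],[[287930869,(-1289758),18064,(-141)],[(-5702292),43007,(-761),4],[58720,(-1112),13],[(-719),16],[8]],[[710065,4321,14],[(-40480),(-103)],[629,1],[(-4)]],[[(-121458),304,1],[2779,(-5)],[(-33)]],[[(-1090),5],[39]]],[[[(-370937296),(-135263583),1238233,(-6478),29],[(-89547963),4881748,(-39512),220,(-1)],[2690612,(-74346),591,(-2)],[(-32350),673,(-4)],[223,(-3)],[(-1)]],[[191853104,(-868803),18013,(-139)],[(-3414374),35854,(-732),3],[34426,(-1004),8],[(-549),10],[5]],[[1409641,5557,4],[(-46828),(-98)],[549,1],[(-2)]],[[(-96371),269],[2389,(-3)],[(-24)]],[[(-1086),4],[29]]],[[[(-1083768787),(-40129313),430362,(-2294),8],[(-1819171),1497145,(-13443),60],[519267,(-23128),159],[(-7711),170],[47]],[[24789136,(-118355),6127,(-37)],[(-1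28505),8903,(-177)],[121,(-183)],[(-62)]],[[841645,1867,(-9)],[(-18698),(-70)],[99]],[[(-22727),74],[591]],[[(-317)]]],[[[(-498891183),(-3634751),62362,(-320)],[9098477,168842,(-1717)],[(-36108),(-2491)],[(-393)]],[[(-149819),(-590),709],[112008,183],[(-1467)]],[[190312,301],[(-3127)]],[[(-2568)]]],[[[(-78243824),71580,3452],[1828844,4323],[(-12809)]],[[(-334328),2079],[12785]],[[20888]]],[[[(-5216604),22070],[110887]],[[(-5347)]]],[[[(-114282)]]]],[[[[1238492990,(-118730706),766204,(-3076),17],[(-110231919),3444511,(-18123),94],[2236210,(-39942),212,(-1)],[(-20229),261,(-1)],[98,(-1)]],[[92067197,(-1607530),10296,(-52)],[(-3270260),60440,(-379),1],[58701,(-992),4],[(-660),6],[3]],[[5011627,7181,(-142)],[(-95129),(-384),1],[764,4],[(-2)]],[[80551,(-18),(-2)],[(-2106),(-4)],[15]],[[398,(-1)],[(-10)]]],[[[(-221573562),(-91923498),602952,(-2298),11],[(-55803220),2665998,(-13733),58],[1380711,(-29963),128],[(-12682),152],[50]],[[52697326,(-1510587),9935,(-3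3)],[(-2215016),54573,(-235)],[45492,(-597)],[(-394)]],[[4128510,1959,(-99)],[(-84306),(-273)],[556]],[[75216,(-26)],[(-1524)]],[[298]]],[[[(-908388811),(-18283161),131244,(-395)],[9585222,543305,(-2369)],[58183,(-4963)],[(-1032)]],[[(-4442763),(-435961),2333],[(-185833),11973],[8008]],[[1012172,(-760)],[(-21863)]],[[20359]]],[[[(-316783916),(-892966),10303],[6579338,33760],[(-39910)]],[[(-5399424),(-40229)],[48834]],[[116406]]],[[[(-40860758),56659],[810395]],[[(-730311)]]],[[[(-2221846)]]]],[[[[678591496,(-36301266),169004,(-80)],[(-39373683),890957,(-2293)],[649401,(-7888),4],[(-4694),19],[11]],[[(-16580191),(-1083578),6321,(-2)],[(-517057),33232,(-76)],[18679,(-269)],[(-155)]],[[(-703643),(-10259),50],[9130,276],[76]],[[(-3427),(-28)],[62]],[[23]]],[[[157776991,(-25610217),124278,(-31)],[(-20461284),638730,(-1315)],[388028,(-4638)],[(-2565)]],[[(-26571452),(-800040),3890],[(-48313),20257],[9983]],[[(-793083),(-6401)],[7602]],[[(-2754)]]],[[[(-176781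115),(-4073483),20845],[1269224,100355],[27362]],[[(-13838888),(-133479)],[135323]],[[(-247283)]]],[[[(-52004221),(-168377)],[880917]],[[(-2453931)]]],[[[(-4566573)]]]],[[[[61347869,(-2975273),19720,(-27)],[(-3366290),82573,(-287)],[58183,(-682)],[(-382)]],[[(-2348254),(-98685),650],[(-15478),2405],[1055]],[[(-170217),(-586)],[2181]],[[(-1943)]]],[[[14978190,(-1804483),11535],[(-1529474),46954],[30281]],[[(-3030249),(-52891)],[11004]],[[(-115018)]]],[[[(-11872760),(-156167)],[116138]],[[(-1041100)]]],[[[(-2088702)]]]]]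

/-- A surrogate. -/
def root_s5 : List (List (List (List (List ℤ)))) :=
  [[[[[10808118866,(-397335328),1905095,(-1490),(-8)],[(-483158810),8406230,(-15812),(-88)],[6191560,(-36705),(-341),3],[(-17719),(-511),8],[(-265),8],[3]],[[(-1106808421),9290394,(-33236),83],[27073643,(-199462),801,(-3)],[(-249882),1873,(-11)],[1009,(-13)],[(-2)]],[[1704654,129692,(-597),1],[96825,(-3467),11],[(-2918),37],[30]],[[360948,(-1456),1],[(-7668),23],[62]],[[(-336),(-8)],[5]],[[(-28)]]],[[[7778373984,(-367020139),1648622,(-1090),(-6)],[(-417852506),8047307,(-15169),(-70)],[6030686,(-45792),(-234),1],[(-27358),(-272),4],[(-120),4],[1]],[[(-1078354461),7514331,(-20551),51],[26190698,(-146961),446,(-1)],[(-240432),1168,(-4)],[924,(-5)]],[[3294274,116961,(-489)],[36776,(-2813),7],[(-1585),22],[15]],[[410669,(-1613)],[(-9085),20],[57]],[[(-435),(-9)],[5]],[[(-25)]]],[[[914557822,(-112562925),444895,102,(-2)],[(-104095552),2587317,(-3528),(-24)],[1866696,(-17449),(-62)],[(-1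1704),(-36)],[(-4)]],[[(-365398375),2088593,(-4465),12],[9077286,(-40968),97],[(-88622),326],[363]],[[1705595,36519,(-128)],[(-9183),(-737)],[(-116)]],[[152112,(-505)],[(-3006)]],[[(-191)]]],[[[(-248826708),(-16440101),62646,75],[(-7145450),400879,(-356)],[220852,(-2476)],[(-1459)]],[[(-60356593),311625,(-647)],[1523764,(-6403)],[(-13294)]],[[507456,3696],[(-10744)]],[[23160]]],[[[(-65666051),(-1172395),4347],[598534,26228],[5857]],[[(-4924459),23693],[101016]],[[77940]]],[[[(-4905622),(-33220)],[72613]],[[(-138346)]]],[[[(-102421)]]]],[[[[5159666776,(-192213523),819836,(-140),(-8)],[(-231443011),3862450,(-2778),(-90)],[2889411,(-11106),(-292),2],[(-6283),(-364),4],[(-160),4],[1]],[[(-423783685),(-1129437),4177,41],[7080047,25547,119,(-1)],[(-34101),(-52),(-4)],[(-25),(-4)]],[[(-12070412),44944,(-6)],[257630,(-629),1],[(-2027),2],[1]],[[(-22820),792],[904,(-8)],[(-4)]],[[1934,2],[(-27)]],[[10]]],[[[3518247829,(-177941532),762275,(-882),(-2)],[(-19812898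0),3934255,(-8314),(-25)],[2956312,(-24970),(-81)],[(-15284),(-94)],[(-39)]],[[(-439818045),(-2140394),10830,13],[7068396,55363,(-47)],[(-28195),(-305)],[(-119)]],[[(-13926375),41773,64],[304158,(-386)],[(-1690)]],[[(-37963),732],[809]],[[1613]]],[[[277183086,(-54118871),199922,(-105)],[(-46681752),1262639,(-2087)],[895162,(-8234)],[(-5474)]],[[(-179630184),(-860450),3717],[3143618,18292],[(-12756)]],[[(-5430367),12726],[97200]],[[(-9066)]]],[[[(-160486540),(-8040777),27681],[(-2477852),177359],[95153]],[[(-38026574),(-91640)],[639087]],[[(-810565)]]],[[[(-38395025),(-504633)],[405683]],[[(-3634609)]]],[[[(-2645911)]]]],[[[[311040521,(-9711038),(-29226),572,(-3)],[(-12302203),66483,2734,(-25)],[86695,3197,(-65)],[1200,(-68)],[(-26)]],[[(-12727989),(-719863),1951,(-1)],[(-319083),16987,(-21)],[10366,(-111)],[(-81)]],[[(-1732342),(-12372),22],[29144,211],[(-55)]],[[(-47091),(-43)],[648]],[[(-321)]]],[[[215970767,(-10607222),19745,(-53)],[(-12143933),21004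4,(-174)],[176412,(-914)],[(-672)]],[[(-20170357),(-615506),740],[(-16642),9753],[4551]],[[(-1874123),(-9306)],[22647]],[[(-35795)]]],[[[5855927,(-2897907),(-190)],[(-2342824),48642],[40757]],[[(-10247459),(-173256)],[54618]],[[(-604745)]]],[[[(-9403381),(-447362)],[(-155874)]],[[(-2279139)]]],[[[(-2178048)]]]],[[[[(-4568141),184942,(-1284),2],[216387,(-4923),14],[(-3481),30],[16]],[[318776,4011,(-31)],[(-4258),(-89)],[(-10)]],[[19944,(-39)],[(-293)]],[[203]]],[[[(-3563136),191593,(-998)],[200016,(-3777)],[(-2593)]],[[431681,2897],[(-4063)]],[[16090]]],[[[(-71715),50811],[42084]],[[160413]]],[[[296253]]]]]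

/-- A surrogate. -/
def root_s11 : List (List (List (List (List ℤ)))) :=
  [[[[[6923873988,(-54127499),109924,18],[(-155783599),879395,(-1031)],[1303641,(-4444),1],[(-4347),1],[(-2)]],[[(-23595364),106725,(-1)],[522569,(-1888),2],[(-5668),26],[46]],[[(-2699939),19851,(-37)],[60595,(-326)],[(-529),2],[2]],[[2467,(-15)],[(-60),1],[1]],[[190,(-1)],[(-4)]],[[(-1)]]],[[[950098514,(-7718936),16485,4],[(-21407990),124818,(-148)],[174268,(-572)],[(-481),(-1)],[(-1)]],[[2795779,(-36426),113],[(-64492),547,(-1)],[271,1],[4]],[[(-339494),2483,(-4)],[7671,(-40)],[(-66)]],[[(-1553),10],[28]],[[18]]],[[[36911991,(-325581),764],[(-834476),5217,(-6)],[6367,(-18)],[(-8)]],[[392638,(-4178),11],[(-8963),59],[45]],[[(-9215),68],[224,(-1)],[(-2)]],[[(-109),1],[3]]],[[[285720,(-3409),10],[(-6554),53],[35]],[[7619,(-91)],[(-175),1],[1]],[[51,(-1)],[(-1)]]]],[[[[2173381366,(-15532877),27507,(-1)],[(-48743826),255351,(-291)],[432367,(-1573),1],[(-1928),5],[5]],[[101247269,(-7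44652),1378],[(-2273102),12159,(-14)],[19750,(-69)],[(-79)]],[[536883,(-4163),8],[(-11909),64],[94]],[[(-15393),109],[340,(-2)],[(-3)]],[[(-72)],[1]],[[1]]],[[[185104183,(-1246943),1979],[(-4143356),20681,(-22)],[38050,(-140)],[(-190),1],[1]],[[12731425,(-92482),164],[(-285785),1484,(-2)],[2456,(-9)],[(-11)]],[[171333,(-1249),2],[(-3723),19],[29]],[[(-521),6],[18]],[[(-14)]]],[[[1866200,(-3129),(-26)],[(-40754),72],[531,(-3)],[(-6)]],[[345603,(-2335),5],[(-7730),45],[81]],[[8221,(-66)],[(-199)]],[[55]]],[[[(-71430),852,(-3)],[1639,(-13)],[(-9)]],[[(-1905),23],[44]],[[(-13)]]]],[[[[(-405847126),3097500,(-6081),(-1)],[9123220,(-50465),60],[(-77585),274],[289]],[[2590923,(-14035),7],[(-57759),202,(-1)],[525,(-5)],[(-7)]],[[430388,(-3038),6],[(-9478),53],[88]],[[4721,(-31)],[(-94)]],[[(-20)]]],[[[(-73080502),555010,(-1084)],[1642588,(-9066),10],[(-14043),44],[47]],[[(-1620222),12665,(-21)],[36541,(-162)],[(-235)]],[[13110,(-138)],[(-451)]],[[576]]],[[[(-2773545),21137,(-42)],[62360,(-350)],[(-539)]],[[(-110959),853],[2514]],[[(-1482)]]]],[[[[(-117654481),861846,(-1593)],[2641067,(-14146),15],[(-23113),78],[91]],[[(-4946736),36411,(-61)],[111243,(-540)],[(-876)]],[[(-54796),314],[941]],[[463]]],[[[(-8144147),59821,(-113)],[182906,(-1000)],[(-1627)]],[[(-434445),3235],[9885]],[[(-8751)]]]],[[[[(-6226353),45120,(-84)],[139805,(-760)],[(-1261)]],[[(-415205),3066],[9494]],[[(-11212)]]]]]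

/-- A surrogate. -/
def root_s12 : List (List (List (List (List ℤ)))) :=
  [[[[[(-967254607),(-18497536),193081,(-462)],[(-897277),862810,(-5427),9],[509018,(-13689),55],[(-7803),100],[50]],[[116740021,(-655713),163,2],[(-2835600),10331,7],[26350,(-41)],[(-102)]],[[627963,4116,(-60)],[(-6467),(-264),2],[(-141),4],[3]],[[(-42115),224],[1035,(-4)],[(-10)]],[[(-208),1],[4]],[[2]]],[[[(-890360266),(-3233284),70140,(-205)],[13761950,233699,(-1948),4],[25191,(-4153),20],[(-1800),33],[15]],[[34793964,(-249743),513,(-1)],[(-893332),4886,(-11)],[9011,(-40)],[(-44)]],[[513573,(-630),(-16)],[(-9857),(-40)],[34,1],[1]],[[(-10524),70],[272,(-1)],[(-3)]],[[(-78)],[2]],[[1]]],[[[(-238400557),307368,9436,(-35)],[4847000,17110,(-274),1],[(-28398),(-448),2],[(-55),3],[1]],[[3662660,(-32416),119],[(-98124),713,(-1)],[990,(-5)],[(-5)]],[[129246,(-530),(-1)],[(-2746),2],[17]],[[(-706),7],[25]],[[(-12)]]],[[[(-26903943),98947,540,(-2)],[609065,(-495),(-15)],[(-5135),(-15)]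,[11]],[[137277,(-1522),8],[(-3255),45],[60]],[[13090,(-71)],[(-300)]],[[6]]],[[[(-1342990),6920,11],[32570,(-74)],[(-261)]],[[(-1707),(-48)],[(-103)]],[[648]]],[[[(-24400),133],[553]],[[(-23)]]]],[[[[(-194864612),(-25614250),206834,(-437)],[(-18368100),883811,(-4730),7],[573524,(-11507),41],[(-6473),73],[36]],[[9675275,(-391519),2776,(-6)],[(-585465),14245,(-76)],[12682,(-206),1],[(-139),1],[1]],[[1445079,(-2607),(-34)],[(-31626),(-1),1],[275,1],[(-1)]],[[22214,(-60)],[(-480)],[3]],[[(-57)],[2]],[[(-2)]]],[[[(-572107049),(-3216076),51802,(-139)],[8420392,167923,(-1275),2],[14998,(-2633),10],[(-1015),16],[7]],[[(-8642129),(-66525),959,(-2)],[101468,3539,(-20)],[1166,(-48)],[(-27)]],[[411198,(-2027),(-3)],[(-9957),30],[101]],[[7816,(-28)],[(-162)]],[[(-6)]]],[[[(-153860448),357760,4340,(-15)],[3318607,3913,(-112)],[(-24309),(-167)],[19]],[[(-3730236),9894,84],[81191,116],[(-388)]],[[24999,(-245)],[(-918)]],[[1009]]],[[[(-15616294),78148,105],[373170,(-87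4)],[(-3084)]],[[(-475284),2097],[9805]],[[(-878)]]],[[[(-677366),4028],[16206]],[[(-22801)]]],[[[(-10585)]]]],[[[[87521557,(-8462845),59294,(-113)],[(-8443044),252335,(-1202),1],[177376,(-2911),8],[(-1672),15],[8]],[[(-7393874),(-235618),2056,(-4)],[(-42016),7972,(-38)],[3843,(-89)],[(-46)]],[[(-219614),(-1198),14],[3328,49],[8]],[[1177,4],[(-36)]],[[65]]],[[[(-99653911),(-839018),10617,(-23)],[1338400,34170,(-219)],[3708,(-451)],[(-171)]],[[(-6667447),(-13140),352],[123202,965],[(-376)]],[[(-121265),34],[1919]],[[132]]],[[[(-22765784),61653,517],[506375,169],[(-3701)]],[[(-1238580),3989],[25747]],[[(-19740)]]],[[[(-1552339),8492],[37084]],[[(-79978)]]],[[[(-33263)]]]],[[[[9656497,(-605541),4042,(-7)],[(-657703),17174,(-76)],[12385,(-185)],[(-109)]],[[(-534384),(-27315),215],[(-9540),840],[449]],[[(-46237),(-396)],[524]],[[(-939)]]],[[[(-5740267),(-29877),463],[94397,1369],[(-139)]],[[(-542382),(-384)],[10075]],[[(-17597)]]],[[[(-864653),3914],[20409]],[[(-61803)]]],[[[(-26135)]]]]]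

/-- A surrogate. -/
def root_s13 : List (List (List (List (List ℤ)))) :=
  [[[[[(-62648209),1630113,20799,(-206)],[2729870,(-14248),(-471),2],[(-39121),206,(-1)],[445,(-8)],[(-5)]],[[5167501,139401,(-2019),8],[(-59984),(-3560),32],[768,9],[(-26)]],[[285414,(-8274),55],[(-9108),182,(-1)],[85,(-1)]],[[(-12000),121],[305,(-3)],[(-3)]],[[55],[(-2)]]],[[[(-78291796),3381037,2046,(-132)],[4171991,(-66152),(-125),1],[(-65948),682,(-2)],[611,(-8)],[(-5)]],[[11075048,22340,(-1216),6],[(-250994),(-866),19],[2974,(-8)],[(-33)]],[[107302,(-6158),46],[(-4642),142,(-1)],[45,(-1)]],[[(-11274),113],[295,(-2)],[(-2)]],[[56],[(-1)]]],[[[(-17277235),1721255,(-6654),(-14)],[1578909,(-41110),92],[(-28829),401,(-1)],[248,(-2)],[(-1)]],[[5963399,(-38555),(-80),1],[(-158951),776,1],[1839,(-8)],[(-11)]],[[(-42667),(-1119),10],[517,26],[(-4)]],[[(-3467),30],[81]],[[16]]],[[[5267052,244400,(-1432)],[57216,(-6526),17],[(-2800),52],[24]],[[996796,(-8697),18],[(-27865),178],[273]]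,[[(-15837),(-41)],[367]],[[(-454)]]],[[[1236123,13010,(-87)],[(-18323),(-328)],[21]],[[73084,(-631)],[(-1617)]],[[(-1985)]]],[[[80054,173],[(-1408)]],[[1496]]],[[[1267]]]],[[[[(-47955048),1560323,3387,(-84)],[2331333,(-33683),(-75),1],[(-39325),439,(-1)],[407,(-6)],[(-3)]],[[2753707,102623,(-862),2],[(-12549),(-2468),14],[(-130),17],[(-4)]],[[263862,(-1640)],[(-6445),35],[67]],[[853,(-21)],[(-24)]],[[(-31)],[1]]],[[[(-54259007),2531519,(-7005),(-47)],[3085681,(-63734),119,1],[(-54761),728,(-1)],[511,(-4)],[(-2)]],[[5959808,72018,(-783),1],[(-99762),(-1939),10],[714,12],[(-4)]],[[284342,(-1933),1],[(-7226),29],[53]],[[514,(-12)],[(-10)]],[[(-23)]]],[[[(-10807939),1155482,(-6323),(-2)],[1056718,(-31573),92],[(-21272),285],[167]],[[3582909,9412,(-189)],[(-76685),(-349)],[498]],[[104711,(-630)],[(-2236)]],[[9]]],[[[3601119,154368,(-1027)],[25394,(-4176)],[(-1821)]],[[787225,(-625)],[(-15906)]],[[14721]]],[[[819184,7218],[(-12051)]],[[72063]]],[[[51365]]]],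[[[[(-2703042),80598,490,(-7)],[136259,(-1819),(-6)],[(-2511),36],[33]],[[30430,11008,(-69)],[4830,(-280),1],[(-91),2]],[[23379,79,(-1)],[(-550),(-2)],[3]],[[642,(-2)],[(-11)]],[[3]]],[[[(-3174360),146249,(-320),(-4)],[185337,(-3994),2],[(-3532),36],[27]],[[244708,9726,(-55)],[(-900),(-207)],[(-50)]],[[29300,27],[(-486)]],[[482]]],[[[(-569347),66041,(-330)],[58643,(-1724)],[(-1203)]],[[197498,2180],[(-2446)]],[[10224]]],[[[248743,6631],[(-641)]],[[44335]]],[[[39973]]]],[[[[142754,(-5779),40],[(-6762),154],[109,(-1)],[(-1)]],[[(-9962),(-125),1],[133,3]],[[(-623),1],[9]],[[(-6)]]],[[[111348,(-5987),31],[(-6251),118],[81]],[[(-13490),(-91)],[127]],[[(-503)]]],[[[2241,(-1588)],[(-1315)]],[[(-5013)]]],[[[(-9258)]]]]]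

/-- A surrogate. -/
def root_s14 : List (List (List (List (List ℤ)))) :=
  [[[[[(-58732680),1528236,19499,(-193)],[2559252,(-13358),(-441),2],[(-36677),193,(-1)],[417,(-8)],[(-5)]],[[4061481,151060,(-1632),5],[(-22107),(-3514),24],[232,12],[(-19)]],[[332129,(-6019),26],[(-9289),126],[90,(-1)]],[[(-7697),9],[170],[(-2)]],[[(-99),1],[3]],[[1]]],[[[(-73398498),3169722,1919,(-124)],[3911258,(-62012),(-118),1],[(-61823),639,(-2)],[573,(-8)],[(-5)]],[[9404095,63199,(-1117),4],[(-183142),(-1652),16],[1957,1],[(-24)]],[[238974,(-5490),28],[(-7526),122],[79,(-1)]],[[(-9183),31],[222],[(-2)]],[[(-87),1],[2]],[[1]]],[[[(-16197537),1613652,(-6239),(-13)],[1480232,(-38540),86],[(-27024),376,(-1)],[232,(-2)],[(-1)]],[[5374476,(-14593),(-158),1],[(-129327),215,2],[1366,(-4)],[(-8)]],[[34863,(-1519),9],[(-1476),32],[14]],[[(-3772),17],[85]],[[(-21)]]],[[[4937697,229115,(-1344)],[53600,(-6124),16],[(-2625),49],[22]],[[1000680,(-5097),3],[(-25426),104],[228]],[[(-2374)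,(-134)],[73]],[[(-632)]]],[[[1158932,12202,(-82)],[(-17212),(-309)],[20]],[[84159,(-458)],[(-1700)]],[[(-1197)]]],[[[75127,163],[(-1327)]],[[2255]]],[[[1194]]]],[[[[(-44957858),1462795,3177,(-79)],[2185635,(-31571),(-71),1],[(-36865),411,(-1)],[381,(-5)],[(-3)]],[[1982081,115727,(-768),1],[17425,(-2748),13],[(-622),23],[2]],[[281787,(-250),(-11)],[(-6235),1],[64]],[[4156,(-43)],[(-112),1],[1]],[[(-20)]]],[[[(-50868065),2373286,(-6567),(-44)],[2892886,(-59749),112],[(-51337),683,(-1)],[480,(-4)],[(-2)]],[[4908867,99217,(-825),1],[(-55003),(-2625),10],[(-11),18],[1]],[[341548,(-932),(-6)],[(-8099),8],[55]],[[4049,(-30)],[(-77)]],[[(-18)]]],[[[(-10132632),1083290,(-5935),(-2)],[990620,(-29629),87],[(-19953),269],[157]],[[3224551,23213,(-242)],[(-58934),(-657)],[239]],[[143072,(-487)],[(-2854)]],[[1056]]],[[[3376748,144788,(-968)],[23638,(-3936)],[(-1715)]],[[783895,1157],[(-14550)]],[[22286]]],[[[768888,6801],[(-11369)]],[[77162]]],[[[48434]]]],[[[[(-2534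118),75551,460,(-7)],[127748,(-1703),(-6)],[(-2352),34],[31]],[[(-5373),11336,(-60)],[6238,(-293),1],[(-122),2],[1]],[[22347,221,(-2)],[(-469),(-5)],[2]],[[942,(-1)],[(-15)]],[[9]]],[[[(-2976146),137103,(-302),(-3)],[173751,(-3752),2],[(-3316),34],[26]],[[189804,10994,(-54)],[1452,(-231)],[(-80)]],[[30836,127],[(-453)]],[[736]]],[[[(-533671),61957,(-311)],[54958,(-1625)],[(-1134)]],[[178696,2806],[(-1577)]],[[11634]]],[[[233673,6250],[(-610)]],[[44480]]],[[[37700]]]],[[[[133850,(-5416),38],[(-6337),144],[102,(-1)]],[[(-7560),(-197),1],[35,4],[1]],[[(-733)],[10]],[[(-11)]]],[[[104392,(-5620),29],[(-5864),111],[76]],[[(-11334),(-145)],[55]],[[(-601)]]],[[[2025,(-1497)],[(-1239)]],[[(-4601)]]],[[[(-8731)]]]]]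

/-- A surrogate. -/
def root_s15 : List (List (List (List (List ℤ)))) :=
  [[[[[(-4957831124),(-35574969),464718,(-900),(-1)],[82142430,637108,(-3507),(-3)],[(-877654),4478,(-43)],[11595,(-137),1],[(-106),1]],[[(-104786204),2996968,(-18604),36],[2087047,(-43515),173],[6870,(-61),1],[(-432),4],[4]],[[9023213,(-87191),286],[(-187538),1331,(-3)],[1140,(-4)],[2]],[[(-83758),692,(-2)],[1758,(-11)],[(-13)]],[[212,(-2)],[(-5)]]],[[[(-5340306381),17112925,80194,(-187)],[112515349,(-259760),(-379),(-2)],[(-1047380),4009,(-16)],[7137,(-50)],[(-44)]],[[63423549,158346,(-4403),13],[(-1555238),(-2427),57],[19234,(-33)],[(-158),1],[1]],[[3429517,(-31780),102],[(-78419),556,(-1)],[637,(-3)],[(-1)]],[[(-34139),285,(-1)],[804,(-5)],[(-7)]],[[89,(-1)],[(-2)]]],[[[(-1154276199),5715911,1270,(-9)],[25658422,(-95145),66,(-1)],[(-244473),952,(-2)],[1547,(-7)],[(-7)]],[[18589483,(-67131),(-412),2],[(-444958),827,6],[4149,(-9)],[(-25)]],[[556945,(-4802),14],[(-13157),83],[11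0]],[[(-4663),39],[116]],[[9]]],[[[(-102193276),571620,(-517),1],[2355411,(-10341),11],[(-23962),76],[123]],[[1741920,(-8439),(-12)],[(-39863),164],[432]],[[45138,(-358)],[(-1052)]],[[(-280)]]],[[[(-3987287),23339,(-28)],[96199,(-354)],[(-844)]],[[69134,(-513)],[(-1993)]],[[1860]]],[[[(-49066),191],[1006]],[[1430]]],[[[381]]]],[[[[(-4286885539),(-6028114),231529,(-618)],[90141131,54314,(-1970),3],[(-981914),4232,(-15)],[8716,(-71)],[(-59)]],[[(-194846048),1605110,(-4088),4],[4014695,(-24657),47],[(-26754),104],[15],[1]],[[1276842,(-3802),(-25)],[(-27412),80],[273,(-1)],[(-1)]],[[29472,(-258),1],[(-614),3],[3]],[[(-167),1],[3]]],[[[(-4137534928),21164888,20841,(-201)],[97062525,(-390532),(-196),1],[(-965125),3630,(-3)],[5623,(-20)],[(-19)]],[[(-90064989),717448,(-1762),2],[2054579,(-12856),22],[(-18036),67],[51]],[[773569,(-4600),2],[(-18809),95],[194]],[[11768,(-87)],[(-233)]],[[(-63)]]],[[[(-852644576),5424376,(-3649),(-23)],[20718170,(-100445),25],[(-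207521),675],[981]],[[(-16858543),132232,(-264)],[408053,(-2091)],[(-3219)]],[[93893,(-723)],[(-2748)]],[[1636]]],[[[(-72983519),502818,(-544)],[1819148,(-8674)],[(-16985)]],[[(-1539237),10530],[33691]],[[3587]]],[[[(-2841648),19604],[69438]],[[(-63440)]]],[[[(-41848)]]]],[[[[(-590393553),(-969811),33703,(-97)],[13128987,3701,(-298)],[(-151811),677,(-2)],[1366,(-9)],[(-7)]],[[(-44124754),234089,94,(-1)],[942047,(-4040)],[(-8102),24],[24]],[[(-632049),5015,(-10)],[13379,(-62)],[(-70)]],[[1197,(-4)],[(-31)]],[[38]]],[[[(-551326793),3083266,1577,(-27)],[13544127,(-60277),(-25)],[(-140016),463],[704]],[[(-25293270),174753,(-195)],[604743,(-2818)],[(-5015)]],[[(-290766),1899],[5519]],[[725]]],[[[(-93730387),634348,(-516)],[2372791,(-11361)],[(-22783)]],[[(-3918741),26637],[89901]],[[(-40818)]]],[[[(-5811179),40789],[146034]],[[(-230709)]]],[[[(-123813)]]]],[[[[(-9930521),(-153423),1660,(-4)],[264227,1512,(-14)],[(-4762),17],[45]],[[(-1959849),6404,42],[45038,(-85)],[(-337)]],[[(-69179),340],[1247]],[[(-752)]]],[[[(-13030496),70204,110],[373866,(-1625)],[(-4175)]],[[(-1143632),7392],[27942]],[[(-30210)]]],[[[(-1936980),13652],[54082]],[[(-130488)]]],[[[(-73256)]]]],[[[[1119907,(-8207),12],[(-23209),97],[142]],[[60347,(-355)],[(-1004)]],[[974]]],[[[611547,(-4373)],[(-12359)]],[[31970]]],[[[25930]]]]]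

/-- A root. -/
def root : Root where
  cl := true
  box := fun i => match i with
    | 0 => ⟨13, 13, 200, 50⟩
    | 1 => ⟨93, 191, 100, 200⟩
    | 2 => ⟨11, 7, 80, 50⟩
    | _ => ⟨307, 310001, 1000, 1000000⟩
  De := 400
  e0 := 49
  e1 := 190
  p := fun i => match i with
    | 0 => 10
    | 1 => 80
    | 2 => 800
    | 3 => 666
    | _ => 6
  q := fun i => match i with
    | 0 => 2
    | 1 => 75
    | 2 => 111
    | 3 => 205
    | _ => 2
  den := 17179869184
  sur := fun k => match k with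
    | 0 => root_s0
    | 1 => root_s1
    | 3 => root_s3
    | 5 => root_s5
    | 11 => root_s11
    | 12 => root_s12
    | 13 => root_s13
    | 14 => root_s14
    | 15 => root_s15
    | _ => []
  eps := fun k => match k with
    | 0 => 290424
    | 1 => 722692
    | 3 => 311092
    | 5 => 267023
    | 11 => 637
    | 12 => 7057
    | 13 => 5395
    | 14 => 5732
    | 15 => 9827
    | _ => 0

/-- A leaf. -/
def leaf0 : Leaf :=
  ⟨⟨93, 1493, 100, 1600⟩, ⟨11, 7, 80, 50⟩, ⟨307, 310001, 1000, 1000000⟩,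
    16384, (6472, -28809, -21817, 7433), (1538, -35066, -14542, 14644), 16384, (9525, 65255, 78094, -37091), (13923, -1760, -19523, -12789), (5955, 71947, 86746, -36466), (-3772, 5596, 9373, 1180),
    true, 0, 1, 2651, (-251), 1398, 4096, (-2220), 1366⟩

/-- A leaf. -/
def leaf1 : Leaf :=
  ⟨⟨93, 1493, 100, 1600⟩, ⟨11, 7, 80, 50⟩, ⟨307, 310001, 1000, 1000000⟩,
    16384, (1538, -35066, -14542, 14644), (-3397, -41324, -7268, 21855), 16384, (27401, 61220, 52187, -52949), (-53970, 6858, 19497, 51937), (5361, 71385, 88199, -35776), (8162, 1845, -9858, -8911),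
    true, 0, 1, 3051, (-287), 4096, 3747, (-3999), 2786⟩

/-- A tile. -/
def tile0 : Tile :=
  ⟨⟨93, 1493, 100, 1600⟩, ⟨11, 7, 80, 50⟩, ⟨307, 310001, 1000, 1000000⟩, 16384, (6472, -28809, -21817, 7433), (-3397, -41324, -7268, 21855), 6718,
    (1024, 0), (10, 1024), 0, 3, (leaf0, ⟨(1024, 0), (352, 1024)⟩),
    [(leaf1, ⟨(1024, 483), (1024, 1)⟩)]⟩

/-- A leaf. -/
def leaf2 : Leaf :=
  ⟨⟨1493, 2991, 1600, 3200⟩, ⟨11, 7, 80, 50⟩, ⟨307, 310001, 1000, 1000000⟩,
    16384, (6291, -29067, -22025, 7743), (1115, -35346, -14504, 15184), 16384, (10568, 64706, 77725, -37973), (14522, -2049, -20230, -13231), (6677, 71974, 86946, -37276), (-3690, 5589, 9410, 1090),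
    true, 0, 1, 3152, (-236), 1699, 4096, (-2649), 1627⟩

/-- A leaf. -/
def leaf3 : Leaf :=
  ⟨⟨1493, 2991, 1600, 3200⟩, ⟨11, 7, 80, 50⟩, ⟨307, 310001, 1000, 1000000⟩,
    16384, (1115, -35346, -14504, 15184), (-4061, -41625, -6982, 22624), 16384, (43519, 59736, 45988, -68845), (-59474, 8284, 23368, 56785), (6371, 70938, 87961, -36676), (8534, 1705, -10203, -9214),
    true, 0, 1, 2992, (-287), 4096, 3665, (-3910), 2727⟩

/-- A tile. -/
def tile1 : Tile :=
  ⟨⟨1493, 2991, 1600, 3200⟩, ⟨11, 7, 80, 50⟩, ⟨307, 310001, 1000, 1000000⟩, 16384, (6291, -29067, -22025, 7743), (-4061, -41625, -6982, 22624), 6718,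
    (1024, 0), (15, 1024), 0, 3, (leaf2, ⟨(1024, 0), (345, 1024)⟩),
    [(leaf3, ⟨(1024, 600), (1024, 0)⟩)]⟩

/-- A leaf. -/
def leaf4 : Leaf :=
  ⟨⟨2991, 749, 3200, 800⟩, ⟨11, 7, 80, 50⟩, ⟨307, 310001, 1000, 1000000⟩,
    16384, (6224, -29253, -22152, 7896), (848, -35542, -14462, 15528), 16384, (11203, 64330, 77435, -38487), (14995, -2258, -20704, -13595), (7269, 71934, 87051, -37910), (-3707, 5579, 9404, 1112),
    true, 0, 1, 3174, (-251), 1739, 4096, (-2726), 1659⟩

/-- A leaf. -/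
def leaf5 : Leaf :=
  ⟨⟨2991, 749, 3200, 800⟩, ⟨11, 7, 80, 50⟩, ⟨307, 310001, 1000, 1000000⟩,
    16384, (848, -35542, -14462, 15528), (-4529, -41830, -6773, 23161), 16384, (43612, 59020, 45317, -68651), (-59157, 9338, 24986, 55854), (7038, 70636, 87777, -37262), (8830, 1609, -10438, -9463),
    true, 0, 1, 2987, (-287), 4096, 3601, (-3843), 2692⟩

/-- A tile. -/
def tile2 : Tile :=
  ⟨⟨2991, 749, 3200, 800⟩, ⟨11, 7, 80, 50⟩, ⟨307, 310001, 1000, 1000000⟩, 16384, (6224, -29253, -22152, 7896), (-4529, -41830, -6773, 23161), 6718,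
    (1024, 0), (14, 1024), 0, 3, (leaf4, ⟨(1024, 0), (344, 1024)⟩),
    [(leaf5, ⟨(1024, 735), (1024, 0)⟩)]⟩

/-- A leaf. -/
def leaf6 : Leaf :=
  ⟨⟨749, 3001, 800, 3200⟩, ⟨11, 7, 80, 50⟩, ⟨307, 310001, 1000, 1000000⟩,
    16384, (6053, -29427, -22284, 8155), (518, -35730, -14418, 15936), 16384, (11990, 63941, 77156, -39156), (15429, -2492, -21216, -13907), (7785, 71923, 87172, -38474), (-3616, 5574, 9418, 1015),
    true, 0, 1, 3214, (-262), 1803, 4096, (-2821), 1697⟩

/-- A leaf. -/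
def leaf7 : Leaf :=
  ⟨⟨749, 3001, 800, 3200⟩, ⟨11, 7, 80, 50⟩, ⟨307, 310001, 1000, 1000000⟩,
    16384, (518, -35730, -14418, 15936), (-5017, -42033, -6553, 23717), 16384, (50370, 56644, 40899, -74391), (-60149, 13709, 28146, 54995), (7784, 70311, 87584, -37924), (9083, 1512, -10686, -9665),
    true, 0, 1, 3059, (-242), 4096, 3318, (-3826), 2521⟩

/-- A tile. -/
def tile3 : Tile :=
  ⟨⟨749, 3001, 800, 3200⟩, ⟨11, 7, 80, 50⟩, ⟨307, 310001, 1000, 1000000⟩, 16384, (6053, -29427, -22284, 8155), (-5017, -42033, -6553, 23717), 6718,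
    (1024, 0), (17, 1024), 0, 3, (leaf6, ⟨(1024, 0), (341, 1024)⟩),
    [(leaf7, ⟨(1024, 897), (1024, 0)⟩)]⟩

/-- A leaf. -/
def leaf8 : Leaf :=
  ⟨⟨3001, 1503, 3200, 1600⟩, ⟨11, 7, 80, 50⟩, ⟨307, 310001, 1000, 1000000⟩,
    16384, (5924, -29636, -22453, 8386), (198, -35936, -14387, 16340), 16384, (12731, 63583, 76916, -39793), (15914, -2747, -21767, -14259), (8609, 71340, 86671, -39086), (-3741, 5939, 9857, 966),
    true, 0, 1, 3289, (-271), 1881, 4096, (-2914), 1742⟩

/-- A leaf. -/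
def leaf9 : Leaf :=
  ⟨⟨3001, 1503, 3200, 1600⟩, ⟨11, 7, 80, 50⟩, ⟨307, 310001, 1000, 1000000⟩,
    16384, (198, -35936, -14387, 16340), (-5528, -42236, -6321, 24293), 16384, (44463, 56643, 42600, -68369), (-61741, 14938, 30661, 55911), (8530, 69999, 87396, -38588), (9363, 1402, -10955, -9887),
    true, 0, 1, 3089, (-222), 4096, 3256, (-3744), 2477⟩

/-- A tile. -/
def tile4 : Tile :=
  ⟨⟨3001, 1503, 3200, 1600⟩, ⟨11, 7, 80, 50⟩, ⟨307, 310001, 1000, 1000000⟩, 16384, (5924, -29636, -22453, 8386), (-5528, -42236, -6321, 24293), 6718,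
    (1024, 0), (10, 1024), 0, 3, (leaf8, ⟨(1024, 0), (337, 1024)⟩),
    [(leaf9, ⟨(960, 1024), (1024, 0)⟩)]⟩

/-- A leaf. -/
def leaf10 : Leaf :=
  ⟨⟨1503, 3011, 1600, 3200⟩, ⟨11, 7, 80, 50⟩, ⟨307, 310001, 1000, 1000000⟩,
    16384, (5795, -29819, -22575, 8602), (-133, -36128, -14326, 16746), 16384, (13492, 63159, 76585, -40415), (16412, -2985, -22287, -14632), (9239, 71362, 86843, -39788), (-3709, 5908, 9827, 946),
    true, 0, 1, 3570, (-242), 2081, 4096, (-3211), 1901⟩

/-- A leaf. -/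
def leaf11 : Leaf :=
  ⟨⟨1503, 3011, 1600, 3200⟩, ⟨11, 7, 80, 50⟩, ⟨307, 310001, 1000, 1000000⟩,
    16384, (-133, -36128, -14326, 16746), (-6061, -42438, -6076, 24891), 16384, (23322, 57420, 50556, -47354), (-61215, 15062, 32218, 55081), (9295, 69655, 87172, -39255), (9673, 1290, -11218, -10142),
    true, 0, 1, 3085, (-211), 4096, 3200, (-3655), 2437⟩

/-- A tile. -/
def tile5 : Tile :=
  ⟨⟨1503, 3011, 1600, 3200⟩, ⟨11, 7, 80, 50⟩, ⟨307, 310001, 1000, 1000000⟩, 16384, (5795, -29819, -22575, 8602), (-6061, -42438, -6076, 24891), 6718,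
    (1024, 0), (13, 1024), 0, 3, (leaf10, ⟨(1024, 0), (336, 1024)⟩),
    [(leaf11, ⟨(738, 1024), (1024, 1)⟩)]⟩

/-- A leaf. -/
def leaf12 : Leaf :=
  ⟨⟨3011, 377, 3200, 400⟩, ⟨11, 7, 80, 50⟩, ⟨307, 310001, 1000, 1000000⟩,
    16384, (5682, -30024, -22734, 8812), (-468, -36330, -14276, 17162), 16384, (14234, 62768, 76308, -41034), (16970, -3285, -22885, -15041), (9950, 71162, 86791, -40467), (-3718, 5964, 9902, 926),
    true, 0, 1, 3607, (-253), 2178, 4096, (-3352), 1973⟩

/-- A leaf. -/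
def leaf13 : Leaf :=
  ⟨⟨3011, 377, 3200, 400⟩, ⟨11, 7, 80, 50⟩, ⟨307, 310001, 1000, 1000000⟩,
    16384, (-468, -36330, -14276, 17162), (-6618, -42637, -5818, 25511), 16384, (21629, 56993, 51627, -45560), (-62581, 16914, 34989, 55517), (10080, 69299, 86951, -39941), (10006, 1166, -11507, -10412),
    true, 0, 1, 2936, (-260), 4096, 3202, (-3622), 2416⟩

/-- A tile. -/
def tile6 : Tile :=
  ⟨⟨3011, 377, 3200, 400⟩, ⟨11, 7, 80, 50⟩, ⟨307, 310001, 1000, 1000000⟩, 16384, (5682, -30024, -22734, 8812), (-6618, -42637, -5818, 25511), 6718,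
    (1024, 0), (21, 1024), 0, 3, (leaf12, ⟨(1024, 0), (335, 1024)⟩),
    [(leaf13, ⟨(622, 1024), (1024, 1)⟩)]⟩

/-- A leaf. -/
def leaf14 : Leaf :=
  ⟨⟨377, 3021, 400, 3200⟩, ⟨11, 7, 80, 50⟩, ⟨307, 310001, 1000, 1000000⟩,
    16384, (5503, -30183, -22832, 9069), (-849, -36509, -14188, 17612), 16384, (15098, 62275, 75913, -41732), (17489, -3531, -23434, -15430), (10666, 71096, 86884, -41218), (-3657, 5916, 9854, 883),
    true, 0, 1, 3610, (-300), 2148, 4096, (-3220), 1912⟩

/-- A leaf. -/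
def leaf15 : Leaf :=
  ⟨⟨377, 3021, 400, 3200⟩, ⟨11, 7, 80, 50⟩, ⟨307, 310001, 1000, 1000000⟩,
    16384, (-849, -36509, -14188, 17612), (-7201, -42835, -5545, 26154), 16384, (38027, 54850, 44647, -61369), (-75383, 20419, 43037, 66764), (10923, 68908, 86683, -40669), (10320, 1062, -11773, -10672),
    true, 0, 1, 2989, (-229), 4096, 3088, (-3425), 2350⟩

/-- A tile. -/
def tile7 : Tile :=
  ⟨⟨377, 3021, 400, 3200⟩, ⟨11, 7, 80, 50⟩, ⟨307, 310001, 1000, 1000000⟩, 16384, (5503, -30183, -22832, 9069), (-7201, -42835, -5545, 26154), 6718,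
    (1024, 0), (21, 1024), 0, 3, (leaf14, ⟨(1024, 0), (337, 1024)⟩),
    [(leaf15, ⟨(493, 1024), (1024, 0)⟩)]⟩

/-- A leaf. -/
def leaf16 : Leaf :=
  ⟨⟨3021, 1513, 3200, 1600⟩, ⟨11, 7, 80, 50⟩, ⟨307, 310001, 1000, 1000000⟩,
    16384, (5337, -30404, -23022, 9345), (-1237, -36718, -14140, 18083), 16384, (15954, 61861, 75645, -42464), (18043, -3831, -24057, -15826), (11428, 70913, 86837, -41958), (-3625, 5950, 9915, 830),
    true, 0, 1, 3751, (-293), 2296, 4096, (-3397), 1997⟩

/-- A leaf. -/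
def leaf17 : Leaf :=
  ⟨⟨3021, 1513, 3200, 1600⟩, ⟨11, 7, 80, 50⟩, ⟨307, 310001, 1000, 1000000⟩,
    16384, (-1237, -36718, -14140, 18083), (-7811, -43031, -5257, 26821), 16384, (52569, 52469, 37575, -74835), (-73794, 23938, 46040, 63483), (11781, 68544, 86454, -41424), (10662, 915, -12104, -10938),
    true, 0, 1, 2898, (-225), 4096, 2748, (-3277), 2282⟩

/-- A tile. -/
def tile8 : Tile :=
  ⟨⟨3021, 1513, 3200, 1600⟩, ⟨11, 7, 80, 50⟩, ⟨307, 310001, 1000, 1000000⟩, 16384, (5337, -30404, -23022, 9345), (-7811, -43031, -5257, 26821), 6718,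
    (1024, 0), (15, 1024), 0, 3, (leaf16, ⟨(1024, 0), (334, 1024)⟩),
    [(leaf17, ⟨(486, 1024), (1024, 0)⟩)]⟩

/-- A leaf. -/
def leaf18 : Leaf :=
  ⟨⟨1513, 3031, 1600, 3200⟩, ⟨11, 7, 80, 50⟩, ⟨307, 310001, 1000, 1000000⟩,
    16384, (5158, -30658, -23183, 9640), (-1646, -36941, -14068, 18578), 16384, (16839, 61488, 75328, -43230), (18637, -4197, -24710, -16240), (12252, 70695, 86814, -42721), (-3589, 6027, 9958, 762),
    true, 0, 1, 3688, (-293), 2321, 4096, (-3433), 2016⟩

/-- A leaf. -/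
def leaf19 : Leaf :=
  ⟨⟨1513, 3031, 1600, 3200⟩, ⟨11, 7, 80, 50⟩, ⟨307, 310001, 1000, 1000000⟩,
    16384, (-1646, -36941, -14068, 18578), (-8449, -43224, -4953, 27515), 16384, (55036, 51280, 35491, -76776), (-72148, 25523, 47972, 60947), (12679, 68170, 86189, -42213), (11016, 742, -12430, -11209),
    true, 0, 1, 2872, (-190), 4096, 2667, (-3224), 2249⟩

/-- A tile. -/
def tile9 : Tile :=
  ⟨⟨1513, 3031, 1600, 3200⟩, ⟨11, 7, 80, 50⟩, ⟨307, 310001, 1000, 1000000⟩, 16384, (5158, -30658, -23183, 9640), (-8449, -43224, -4953, 27515), 6718,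
    (1024, 0), (26, 1024), 0, 3, (leaf18, ⟨(1024, 0), (264, 1024)⟩),
    [(leaf19, ⟨(390, 1024), (1024, 0)⟩)]⟩

/-- A leaf. -/
def leaf20 : Leaf :=
  ⟨⟨3031, 759, 3200, 800⟩, ⟨11, 7, 80, 50⟩, ⟨307, 310001, 1000, 1000000⟩,
    16384, (4986, -30839, -23327, 9902), (-2067, -37126, -13980, 19070), 16384, (17739, 60971, 74957, -43958), (19255, -4500, -25359, -16698), (13092, 70581, 86843, -43572), (-3567, 5987, 9944, 752),
    true, 0, 1, 3622, (-311), 2321, 4096, (-3361), 1995⟩

/-- A leaf. -/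
def leaf21 : Leaf :=
  ⟨⟨3031, 759, 3200, 800⟩, ⟨11, 7, 80, 50⟩, ⟨307, 310001, 1000, 1000000⟩,
    16384, (-2067, -37126, -13980, 19070), (-9120, -43413, -4633, 28238), 16384, (38260, 52294, 40985, -60107), (-76117, 28208, 52111, 63646), (13602, 67739, 85897, -43004), (11395, 609, -12756, -11517),
    true, 0, 1, 2778, (-228), 4096, 2552, (-3111), 2226⟩

/-- A tile. -/
def tile10 : Tile :=
  ⟨⟨3031, 759, 3200, 800⟩, ⟨11, 7, 80, 50⟩, ⟨307, 310001, 1000, 1000000⟩, 16384, (4986, -30839, -23327, 9902), (-9120, -43413, -4633, 28238), 6718,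
    (1024, 0), (29, 1024), 0, 3, (leaf20, ⟨(1024, 0), (268, 1024)⟩),
    [(leaf21, ⟨(336, 1024), (1024, 1)⟩)]⟩

/-- A leaf. -/
def leaf22 : Leaf :=
  ⟨⟨759, 3041, 800, 3200⟩, ⟨11, 7, 80, 50⟩, ⟨307, 310001, 1000, 1000000⟩,
    16384, (4735, -31076, -23502, 10269), (-2542, -37338, -13898, 19628), 16384, (18770, 60525, 74622, -44850), (19852, -4870, -26065, -17106), (13914, 70401, 86833, -44377), (-3476, 6012, 9967, 645),
    true, 0, 1, 3505, (-301), 2324, 4096, (-3373), 2023⟩

/-- A leaf. -/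
def leaf23 : Leaf :=
  ⟨⟨759, 3041, 800, 3200⟩, ⟨11, 7, 80, 50⟩, ⟨307, 310001, 1000, 1000000⟩,
    16384, (-2542, -37338, -13898, 19628), (-9820, -43600, -4294, 28987), 16384, (26768, 52870, 46152, -48947), (-77563, 29392, 55661, 64272), (14599, 67319, 85603, -43877), (11747, 439, -13112, -11781),
    true, 0, 1, 2601, (-231), 4096, 2505, (-3038), 2194⟩

/-- A tile. -/
def tile11 : Tile :=
  ⟨⟨759, 3041, 800, 3200⟩, ⟨11, 7, 80, 50⟩, ⟨307, 310001, 1000, 1000000⟩, 16384, (4735, -31076, -23502, 10269), (-9820, -43600, -4294, 28987), 6718,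
    (1024, 0), (32, 1024), 0, 3, (leaf22, ⟨(1024, 0), (270, 1024)⟩),
    [(leaf23, ⟨(261, 1024), (1024, 0)⟩)]⟩

/-- A leaf. -/
def leaf24 : Leaf :=
  ⟨⟨3041, 1523, 3200, 1600⟩, ⟨11, 7, 80, 50⟩, ⟨307, 310001, 1000, 1000000⟩,
    16384, (4528, -31251, -23636, 10563), (-3013, -37516, -13786, 20164), 16384, (19754, 59964, 74208, -45643), (20507, -5190, -26747, -17589), (15418, 69238, 85626, -45409), (-3826, 6461, 10618, 779),
    true, 0, 1, 3603, (-300), 2388, 4096, (-3336), 2009⟩

/-- A leaf. -/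
def leaf25 : Leaf :=
  ⟨⟨3041, 1523, 3200, 1600⟩, ⟨11, 7, 80, 50⟩, ⟨307, 310001, 1000, 1000000⟩,
    16384, (-3013, -37516, -13786, 20164), (-10554, -43782, -3936, 29766), 16384, (25640, 52600, 46732, -47807), (-76942, 32036, 58856, 62295), (15601, 66853, 85271, -44729), (12150, 289, -13461, -12106),
    true, 0, 1, 2383, (-193), 4096, 2112, (-2917), 2156⟩

/-- A tile. -/
def tile12 : Tile :=
  ⟨⟨3041, 1523, 3200, 1600⟩, ⟨11, 7, 80, 50⟩, ⟨307, 310001, 1000, 1000000⟩, 16384, (4528, -31251, -23636, 10563), (-10554, -43782, -3936, 29766), 6718,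
    (1024, 0), (35, 1024), 0, 3, (leaf24, ⟨(1024, 0), (267, 1024)⟩),
    [(leaf25, ⟨(185, 1024), (1024, 1)⟩)]⟩

/-- A leaf. -/
def leaf26 : Leaf :=
  ⟨⟨1523, 3051, 1600, 3200⟩, ⟨11, 111, 80, 800⟩, ⟨307, 310001, 1000, 1000000⟩,
    16384, (4081, -31226, -23376, 10988), (-3697, -37274, -13122, 20708), 16384, (21007, 58668, 73053, -46374), (20782, -5489, -27100, -17728), (17107, 67007, 84137, -46261), (-3943, 7065, 10976, 652),
    true, 0, 1, 3478, (-313), 2355, 4096, (-3264), 2028⟩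

/-- A leaf. -/
def leaf27 : Leaf :=
  ⟨⟨1523, 3051, 1600, 3200⟩, ⟨11, 111, 80, 800⟩, ⟨307, 310001, 1000, 1000000⟩,
    16384, (-3697, -37274, -13122, 20708), (-11475, -43321, -2869, 30428), 16384, (27251, 51147, 45296, -48796), (-78183, 33194, 61122, 62890), (16835, 65649, 84369, -45506), (12401, 45, -13727, -12251),
    true, 0, 1, 2645, (-324), 4096, 3471, (-3150), 2529⟩

/-- A tile. -/
def tile13 : Tile :=
  ⟨⟨1523, 3051, 1600, 3200⟩, ⟨11, 111, 80, 800⟩, ⟨307, 310001, 1000, 1000000⟩, 16384, (4081, -31226, -23376, 10988), (-11475, -43321, -2869, 30428), 6636,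
    (1024, 0), (27, 1024), 0, 3, (leaf26, ⟨(1024, 0), (251, 1024)⟩),
    [(leaf27, ⟨(163, 1024), (1024, 0)⟩)]⟩

/-- A leaf. -/
def leaf28 : Leaf :=
  ⟨⟨1523, 3051, 1600, 3200⟩, ⟨111, 7, 800, 50⟩, ⟨307, 310001, 1000, 1000000⟩,
    16384, (4542, -31720, -24174, 10780), (-3326, -38148, -14210, 20760), 16384, (20536, 60185, 74464, -46576), (21548, -5590, -27809, -18396), (15814, 69780, 87558, -46281), (-3695, 6762, 10158, 605),
    true, 0, 1, 3525, (-322), 2477, 4096, (-3486), 2097⟩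

/-- A leaf. -/
def leaf29 : Leaf :=
  ⟨⟨1523, 3051, 1600, 3200⟩, ⟨111, 7, 800, 50⟩, ⟨307, 310001, 1000, 1000000⟩,
    16384, (-3326, -38148, -14210, 20760), (-7259, -41361, -9227, 25749), 16384, (39821, 52864, 43495, -61988), (-60932, 13293, 29157, 55156), (16462, 67105, 85448, -45743), (6361, 85, -6952, -6302),
    true, 0, 1, 2574, (-218), 3701, 4096, (-3569), 2488⟩

/-- A leaf. -/
def leaf30 : Leaf :=
  ⟨⟨1523, 3051, 1600, 3200⟩, ⟨111, 7, 800, 50⟩, ⟨307, 310001, 1000, 1000000⟩,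
    16384, (-7259, -41361, -9227, 25749), (-11193, -44575, -4245, 30739), 16384, (-18927, 67853, 75581, -9750), (-26183, 24002, 39239, 14725), (22823, 67191, 78497, -52044), (6358, 88, -6945, -6300),
    true, 0, 1, 1485, (-55), 4096, 1129, (-2808), 2114⟩

/-- A tile. -/
def tile14 : Tile :=
  ⟨⟨1523, 3051, 1600, 3200⟩, ⟨111, 7, 800, 50⟩, ⟨307, 310001, 1000, 1000000⟩, 16384, (4542, -31720, -24174, 10780), (-11193, -44575, -4245, 30739), 6718,
    (1024, 0), (44, 1024), 0, 3, (leaf28, ⟨(1024, 0), (277, 1024)⟩),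
    [(leaf29, ⟨(764, 1024), (1024, 0)⟩), (leaf30, ⟨(1, 1024), (1024, 0)⟩)]⟩

/-- A leaf. -/
def leaf31 : Leaf :=
  ⟨⟨3051, 191, 3200, 200⟩, ⟨11, 111, 80, 800⟩, ⟨307, 310001, 1000, 1000000⟩,
    16384, (3884, -31460, -23547, 11295), (-4195, -37474, -13004, 21278), 16384, (22003, 58159, 72666, -47197), (21511, -5895, -27852, -18252), (18195, 66747, 84064, -47307), (-3983, 7100, 11002, 679),
    true, 0, 1, 3395, (-315), 2403, 4096, (-3231), 2040⟩

/-- A leaf. -/
def leaf32 : Leaf :=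
  ⟨⟨3051, 191, 3200, 200⟩, ⟨11, 111, 80, 800⟩, ⟨307, 310001, 1000, 1000000⟩,
    16384, (-4195, -37474, -13004, 21278), (-12274, -43487, -2461, 31262), 16384, (37156, 49519, 41227, -58052), (-88649, 37416, 69195, 71335), (17890, 65174, 84021, -46408), (12853, -157, -14126, -12603),
    true, 0, 1, 2606, (-325), 4096, 3418, (-3075), 2507⟩

/-- A tile. -/
def tile15 : Tile :=
  ⟨⟨3051, 191, 3200, 200⟩, ⟨11, 111, 80, 800⟩, ⟨307, 310001, 1000, 1000000⟩, 16384, (3884, -31460, -23547, 11295), (-12274, -43487, -2461, 31262), 6636,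
    (1024, 0), (74, 1024), 0, 3, (leaf31, ⟨(1024, 0), (252, 1024)⟩),
    [(leaf32, ⟨(132, 1024), (1024, 0)⟩)]⟩

/-- A leaf. -/
def leaf33 : Leaf :=
  ⟨⟨3051, 6107, 3200, 6400⟩, ⟨111, 7, 800, 50⟩, ⟨307, 310001, 1000, 1000000⟩,
    16384, (4310, -31898, -24318, 11102), (-3744, -38304, -14134, 21238), 16384, (21411, 59794, 74193, -47327), (22057, -5888, -28443, -18742), (17021, 68887, 86363, -47087), (-3967, 7136, 10807, 680),
    true, 0, 1, 3456, (-313), 2507, 4096, (-3406), 2058⟩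

/-- A leaf. -/
def leaf34 : Leaf :=
  ⟨⟨3051, 6107, 3200, 6400⟩, ⟨111, 7, 800, 50⟩, ⟨307, 310001, 1000, 1000000⟩,
    16384, (-3744, -38304, -14134, 21238), (-7771, -41506, -9043, 26306), 16384, (31292, 53581, 47472, -53906), (-60983, 14217, 30430, 54725), (17302, 66742, 85190, -46469), (6512, 13, -7104, -6414),
    true, 0, 1, 2563, (-196), 3711, 4096, (-3531), 2483⟩

/-- A leaf. -/
def leaf35 : Leaf :=
  ⟨⟨3051, 6107, 3200, 6400⟩, ⟨111, 7, 800, 50⟩, ⟨307, 310001, 1000, 1000000⟩,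
    16384, (-7771, -41506, -9043, 26306), (-11798, -44709, -3951, 31374), 16384, (-19098, 68591, 76937, -10009), (-27894, 25122, 41347, 15848), (23816, 66755, 78086, -52885), (6513, 14, -7104, -6415),
    true, 0, 1, 1355, (-52), 4096, 906, (-2743), 2099⟩

/-- A tile. -/
def tile16 : Tile :=
  ⟨⟨3051, 6107, 3200, 6400⟩, ⟨111, 7, 800, 50⟩, ⟨307, 310001, 1000, 1000000⟩, 16384, (4310, -31898, -24318, 11102), (-11798, -44709, -3951, 31374), 6718,
    (1024, 0), (67, 1024), 0, 3, (leaf33, ⟨(1024, 0), (277, 1024)⟩),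
    [(leaf34, ⟨(581, 1024), (1024, 1)⟩), (leaf35, ⟨(1, 1024), (1024, 1)⟩)]⟩

/-- A leaf. -/
def leaf36 : Leaf :=
  ⟨⟨6107, 191, 6400, 200⟩, ⟨111, 223, 800, 1600⟩, ⟨307, 310001, 1000, 1000000⟩,
    16384, (4083, -31857, -24220, 11313), (-4104, -38164, -13804, 21522), 16384, (22081, 59073, 73641, -47716), (22194, -6025, -28666, -18807), (17853, 68007, 85662, -47581), (-3997, 7261, 10945, 650),
    true, 0, 1, 3415, (-322), 2453, 4096, (-3371), 2058⟩

/-- A leaf. -/
def leaf37 : Leaf :=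
  ⟨⟨6107, 191, 6400, 200⟩, ⟨111, 223, 800, 1600⟩, ⟨307, 310001, 1000, 1000000⟩,
    16384, (-4104, -38164, -13804, 21522), (-12290, -44471, -3387, 31730), 16384, (39216, 50027, 40750, -60289), (-96142, 41381, 76369, 76854), (17959, 66101, 84736, -46884), (13157, -81, -14375, -12907),
    true, 0, 1, 2730, (-207), 4096, 2453, (-2801), 2187⟩

/-- A tile. -/
def tile17 : Tile :=
  ⟨⟨6107, 191, 6400, 200⟩, ⟨111, 223, 800, 1600⟩, ⟨307, 310001, 1000, 1000000⟩, 16384, (4083, -31857, -24220, 11313), (-12290, -44471, -3387, 31730), 6677,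
    (1024, 0), (65, 1024), 0, 3, (leaf36, ⟨(1024, 0), (267, 1024)⟩),
    [(leaf37, ⟨(105, 1024), (1024, 1)⟩)]⟩

/-- A leaf. -/
def leaf38 : Leaf :=
  ⟨⟨6107, 191, 6400, 200⟩, ⟨223, 7, 1600, 50⟩, ⟨307, 617001, 1000, 2000000⟩,
    16384, (4081, -31928, -24299, 11350), (-4210, -38270, -13804, 21668), 16384, (22062, 58874, 73385, -47595), (22385, -6090, -28937, -18947), (18007, 67575, 84611, -47458), (-4136, 7505, 11355, 656),
    true, 0, 1, 3310, (-315), 2470, 4096, (-3419), 2117⟩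

/-- A leaf. -/
def leaf39 : Leaf :=
  ⟨⟨6107, 191, 6400, 200⟩, ⟨223, 7, 1600, 50⟩, ⟨307, 617001, 1000, 2000000⟩,
    16384, (-4210, -38270, -13804, 21668), (-12500, -44612, -3308, 31985), 16384, (40544, 49603, 39746, -61394), (-97564, 42105, 77342, 77968), (17951, 65978, 84373, -46785), (13253, -84, -14532, -12984),
    true, 0, 1, 2382, (-278), 4096, 3129, (-2979), 2422⟩

/-- A tile. -/
def tile18 : Tile :=
  ⟨⟨6107, 191, 6400, 200⟩, ⟨223, 7, 1600, 50⟩, ⟨307, 617001, 1000, 2000000⟩, 16384, (4081, -31928, -24299, 11350), (-12500, -44612, -3308, 31985), 6718,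
    (1024, 0), (117, 1024), 0, 3, (leaf38, ⟨(1024, 0), (263, 1024)⟩),
    [(leaf39, ⟨(102, 1024), (1024, 1)⟩)]⟩

/-- A leaf. -/
def leaf40 : Leaf :=
  ⟨⟨6107, 191, 6400, 200⟩, ⟨223, 7, 1600, 50⟩, ⟨617001, 310001, 2000000, 1000000⟩,
    16384, (4514, -32296, -24872, 11099), (-3646, -38958, -14875, 21456), 16384, (21679, 60810, 75203, -48086), (22812, -6107, -29056, -19371), (17155, 70030, 87224, -47725), (-4160, 7381, 11365, 721),
    true, 0, 1, 3336, (-308), 2533, 4096, (-3602), 2091⟩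

/-- A leaf. -/
def leaf41 : Leaf :=
  ⟨⟨6107, 191, 6400, 200⟩, ⟨223, 7, 1600, 50⟩, ⟨617001, 310001, 2000000, 1000000⟩,
    16384, (-3646, -38958, -14875, 21456), (-7725, -42290, -9876, 26634), 16384, (48145, 52270, 41115, -70217), (-67900, 16978, 35549, 60334), (17629, 67685, 86131, -47257), (6693, 22, -7178, -6596),
    true, 0, 1, 2399, (-199), 3863, 4096, (-3679), 2546⟩

/-- A leaf. -/
def leaf42 : Leaf :=
  ⟨⟨6107, 191, 6400, 200⟩, ⟨223, 7, 1600, 50⟩, ⟨617001, 310001, 2000000, 1000000⟩,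
    16384, (-7725, -42290, -9876, 26634), (-9765, -43955, -7377, 29223), 16384, (-21489, 71421, 80822, -8937), (-13046, 12168, 19762, 7210), (24322, 67707, 78954, -53853), (3346, 12, -3588, -3297),
    true, 0, 1, 1563, (-114), 4096, 2594, (-3288), 2392⟩

/-- A leaf. -/
def leaf43 : Leaf :=
  ⟨⟨6107, 191, 6400, 200⟩, ⟨223, 7, 1600, 50⟩, ⟨617001, 310001, 2000000, 1000000⟩,
    16384, (-9765, -43955, -7377, 29223), (-11805, -45621, -4878, 31812), 16384, (-34496, 83601, 100599, -1777), (-17504, 15268, 25236, 10133), (27669, 67718, 75366, -57150), (3346, 14, -3588, -3298),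
    true, 0, 1, 754, (-48), 4096, 912, (-2692), 2083⟩

/-- A tile. -/
def tile19 : Tile :=
  ⟨⟨6107, 191, 6400, 200⟩, ⟨223, 7, 1600, 50⟩, ⟨617001, 310001, 2000000, 1000000⟩, 16384, (4514, -32296, -24872, 11099), (-11805, -45621, -4878, 31812), 6718,
    (1024, 0), (110, 1024), 0, 3, (leaf40, ⟨(1024, 0), (283, 1024)⟩),
    [(leaf41, ⟨(509, 1024), (1024, 0)⟩), (leaf42, ⟨(0, 1024), (1024, 0)⟩), (leaf43, ⟨(0, 1024), (1024, 0)⟩)]⟩

/-- The subdivision. -/
def tree : Tree :=
  (.node 0 377 400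
    (.node 0 749 800
    (.node 0 1493 1600
    (.tile tile0)
    (.node 0 2991 3200
    (.tile tile1)
    (.tile tile2)))
    (.node 0 1503 1600
    (.node 0 3001 3200
    (.tile tile3)
    (.tile tile4))
    (.node 0 3011 3200
    (.tile tile5)
    (.tile tile6))))
    (.node 0 759 800
    (.node 0 1513 1600
    (.node 0 3021 3200
    (.tile tile7)
    (.tile tile8))
    (.node 0 3031 3200
    (.tile tile9)
    (.tile tile10)))
    (.node 0 1523 1600
    (.node 0 3041 3200
    (.tile tile11)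
    (.tile tile12))
    (.node 0 3051 3200
    (.node 1 111 800
    (.tile tile13)
    (.tile tile14))
    (.node 1 111 800
    (.tile tile15)
    (.node 0 6107 6400
    (.tile tile16)
    (.node 1 223 1600
    (.tile tile17)
    (.node 2 617001 2000000
    (.tile tile18)
    (.tile tile19)))))))))

def tree_ok : tree.ok pieceC 448 ⟨93, 191, 100, 200⟩ ⟨11, 7, 80, 50⟩ ⟨307, 310001, 1000, 1000000⟩ = true := by
  decide +kernel

def root_ok0 : root.okEnt 576 0 = true := by decide +kernel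

def root_ok1 : root.okEnt 576 1 = true := by decide +kernel

def root_ok3 : root.okEnt 576 3 = true := by decide +kernel

def root_ok5 : root.okEnt 576 5 = true := by decide +kernel

def root_ok11 : root.okEnt 576 11 = true := by decide +kernel

def root_ok12 : root.okEnt 576 12 = true := by decide +kernel

def root_ok13 : root.okEnt 576 13 = true := by decide +kernel

def root_ok14 : root.okEnt 576 14 = true := by decide +kernel

def root_ok15 : root.okEnt 576 15 = true := by decide +kernel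

def leaf0_ok : leaf0.okLeaf root 640 = true := by decide +kernel

def leaf1_ok : leaf1.okLeaf root 640 = true := by decide +kernel

def leaf2_ok : leaf2.okLeaf root 640 = true := by decide +kernel

def leaf3_ok : leaf3.okLeaf root 640 = true := by decide +kernel

def leaf4_ok : leaf4.okLeaf root 640 = true := by decide +kernel

def leaf5_ok : leaf5.okLeaf root 640 = true := by decide +kernel

def leaf6_ok : leaf6.okLeaf root 640 = true := by decide +kernel

def leaf7_ok : leaf7.okLeaf root 640 = true := by decide +kernel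

def leaf8_ok : leaf8.okLeaf root 640 = true := by decide +kernel

def leaf9_ok : leaf9.okLeaf root 640 = true := by decide +kernel

def leaf10_ok : leaf10.okLeaf root 640 = true := by decide +kernel

def leaf11_ok : leaf11.okLeaf root 640 = true := by decide +kernel

def leaf12_ok : leaf12.okLeaf root 640 = true := by decide +kernel

def leaf13_ok : leaf13.okLeaf root 640 = true := by decide +kernel

def leaf14_ok : leaf14.okLeaf root 640 = true := by decide +kernel

def leaf15_ok : leaf15.okLeaf root 640 = true := by decide +kernel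

def leaf16_ok : leaf16.okLeaf root 640 = true := by decide +kernel

def leaf17_ok : leaf17.okLeaf root 640 = true := by decide +kernel

def leaf18_ok : leaf18.okLeaf root 640 = true := by decide +kernel

def leaf19_ok : leaf19.okLeaf root 640 = true := by decide +kernel

def leaf20_ok : leaf20.okLeaf root 640 = true := by decide +kernel

def leaf21_ok : leaf21.okLeaf root 640 = true := by decide +kernel

def leaf22_ok : leaf22.okLeaf root 640 = true := by decide +kernel

def leaf23_ok : leaf23.okLeaf root 640 = true := by decide +kernel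

def leaf24_ok : leaf24.okLeaf root 640 = true := by decide +kernel

def leaf25_ok : leaf25.okLeaf root 640 = true := by decide +kernel

def leaf26_ok : leaf26.okLeaf root 640 = true := by decide +kernel

def leaf27_ok : leaf27.okLeaf root 640 = true := by decide +kernel

def leaf28_ok : leaf28.okLeaf root 640 = true := by decide +kernel

def leaf29_ok : leaf29.okLeaf root 640 = true := by decide +kernel

def leaf30_ok : leaf30.okLeaf root 640 = true := by decide +kernel

def leaf31_ok : leaf31.okLeaf root 640 = true := by decide +kernel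

def leaf32_ok : leaf32.okLeaf root 640 = true := by decide +kernel

def leaf33_ok : leaf33.okLeaf root 640 = true := by decide +kernel

def leaf34_ok : leaf34.okLeaf root 640 = true := by decide +kernel

def leaf35_ok : leaf35.okLeaf root 640 = true := by decide +kernel

def leaf36_ok : leaf36.okLeaf root 640 = true := by decide +kernel

def leaf37_ok : leaf37.okLeaf root 640 = true := by decide +kernel

def leaf38_ok : leaf38.okLeaf root 640 = true := by decide +kernel

def leaf39_ok : leaf39.okLeaf root 640 = true := by decide +kernel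

def leaf40_ok : leaf40.okLeaf root 640 = true := by decide +kernel

def leaf41_ok : leaf41.okLeaf root 640 = true := by decide +kernel

def leaf42_ok : leaf42.okLeaf root 640 = true := by decide +kernel

def leaf43_ok : leaf43.okLeaf root 640 = true := by decide +kernel

theorem leaves_eq : tree.leaves =
    [leaf0, leaf1, leaf2, leaf3, leaf4, leaf5, leaf6, leaf7,
    leaf8, leaf9, leaf10, leaf11, leaf12, leaf13, leaf14, leaf15,
    leaf16, leaf17, leaf18, leaf19, leaf20, leaf21, leaf22, leaf23,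
    leaf24, leaf25, leaf26, leaf27, leaf28, leaf29, leaf30, leaf31,
    leaf32, leaf33, leaf34, leaf35, leaf36, leaf37, leaf38, leaf39,
    leaf40, leaf41, leaf42, leaf43] := rfl

theorem leaves_ok : ∀ F ∈ tree.leaves, Leaf.okLeaf F root 640 = true := by
  rw [leaves_eq]
  exact all'_cons leaf0_ok (all'_cons leaf1_ok (all'_cons leaf2_ok (all'_cons leaf3_ok (
    all'_cons leaf4_ok (all'_cons leaf5_ok (all'_cons leaf6_ok (all'_cons leaf7_ok (
    all'_cons leaf8_ok (all'_cons leaf9_ok (all'_cons leaf10_ok (all'_cons leaf11_ok (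
    all'_cons leaf12_ok (all'_cons leaf13_ok (all'_cons leaf14_ok (all'_cons leaf15_ok (
    all'_cons leaf16_ok (all'_cons leaf17_ok (all'_cons leaf18_ok (all'_cons leaf19_ok (
    all'_cons leaf20_ok (all'_cons leaf21_ok (all'_cons leaf22_ok (all'_cons leaf23_ok (
    all'_cons leaf24_ok (all'_cons leaf25_ok (all'_cons leaf26_ok (all'_cons leaf27_ok (
    all'_cons leaf28_ok (all'_cons leaf29_ok (all'_cons leaf30_ok (all'_cons leaf31_ok (
    all'_cons leaf32_ok (all'_cons leaf33_ok (all'_cons leaf34_ok (all'_cons leaf35_ok (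
    all'_cons leaf36_ok (all'_cons leaf37_ok (all'_cons leaf38_ok (all'_cons leaf39_ok (
    all'_cons leaf40_ok (all'_cons leaf41_ok (all'_cons leaf42_ok (all'_cons leaf43_ok (
    (fun F hF => absurd hF List.not_mem_nil)))))))))))))))))))))))))))))))))))))))))))))

theorem root_ok : ∀ k ∈ [0, 1, 3, 5, 11, 12, 13, 14, 15], root.okEnt 576 k = true := by
  intro k hk
  simp only [List.mem_cons, List.not_mem_nil, or_false] at hk
  rcases hk with rfl | rfl | rfl | rfl | rfl | rfl | rfl | rfl | rfl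
  · exact root_ok0
  · exact root_ok1
  · exact root_ok3
  · exact root_ok5
  · exact root_ok11
  · exact root_ok12
  · exact root_ok13
  · exact root_ok14
  · exact root_ok15

theorem used_ok : ∀ F ∈ tree.leaves, ∀ k ∈ Leaf.used F, root.okEnt 576 k = true := by
  intro F hF k hk
  refine root_ok k ?_
  rw [leaves_eq] at hF
  have h : ([leaf0, leaf1, leaf2, leaf3, leaf4, leaf5, leaf6, leaf7,
    leaf8, leaf9, leaf10, leaf11, leaf12, leaf13, leaf14, leaf15,
    leaf16, leaf17, leaf18, leaf19, leaf20, leaf21, leaf22, leaf23,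
    leaf24, leaf25, leaf26, leaf27, leaf28, leaf29, leaf30, leaf31,
    leaf32, leaf33, leaf34, leaf35, leaf36, leaf37, leaf38, leaf39,
    leaf40, leaf41, leaf42, leaf43]).all (fun G => G.used.all fun j => [0, 1, 3, 5, 11, 12, 13, 14, 15].any (Nat.beq j)) = true := by
    decide +kernel
  simp only [List.all_eq_true, List.any_eq_true] at h
  obtain ⟨j, hj, e⟩ := h F hF k hk
  exact Nat.eq_of_beq_eq_true e ▸ hj

/-- **The signs on the box.** -/
theorem signs {a I u X η : ℝ} (hf : Facts pieceC a I u X η) (hu : In1 ⟨93, 191, 100, 200⟩ u)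
    (hI : In1 ⟨11, 7, 80, 50⟩ I) (ha : In1 ⟨307, 310001, 1000, 1000000⟩ a) :
    ClosedGen.SignsMult a (rd (mk4 X u I a)) (rv (mk4 X u I a)) (rg (mk4 X u I a) η)
      (rW (mk4 X u I a) η) (rW1 (mk4 X u I a) η) (rR (mk4 X u I a))
      (rNum true (mk4 X u I a) η) :=
  Tree.signs (T := tree) (R := root) tree_ok leaves_ok used_ok hf hu hI ha

end Vale.Agent.P100.Calib.MidTail.BoxII1U2c
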