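import Vale.Agent.P100.Calib.SlabMidTailPieces

/-!
# The signs on a box of the middle tail

`u, I, a` lie in the box of `root`; the surrogates and leaves are checked by the kernel.
-/

namespace Vale.Agent.P100.Calib.MidTail.BoxII1U3b

open Pack EndAll Band

/-- A surrogate. -/
def root_s0 : List (List (List (List (List ℤ)))) :=
  [[[[[4044424237,(-212603416),1520859,(-5614),15],[(-359077818),8664723,(-43479),90],[8676941,(-108461),10,5],[(-65019),(-398),22],[(-569),32,(-1)],[17,(-1)]],[[(-288840851),4672975,(-22660),63],[8013051,(-128788),777,(-1)],[69805,938,(-8)],[(-5239),22],[106],[(-1)]],[[5933993,108942,(-650),1],[(-67116),(-4881),23],[(-1812),89],[45,(-1)]],[[265320,(-645),(-5)],[(-7878),(-14)],[47,1],[1]],[[363,(-26)],[(-44)],[1]],[[(-41)],[1]]],[[[1927545080,(-168160134),1045828,(-3550),10],[(-246455520),6557994,(-26830),36],[6383367,(-78873),(-52),4],[(-51225),(-63),14],[(-187),15],[7]],[[(-217816526),3087308,(-10938),23],[4258435,(-39972),47,1],[1640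97,(-2080),9],[(-7344),62],[116]],[[9282116,90703,(-570),1],[(-252383),(-3513),14],[2518,41],[(-22)]],[[359403,(-1078),(-5)],[(-12613),(-9)],[103]],[[1016,(-23)],[(-78)]],[[(-29)]]],[[[(-352688356),(-39432789),163224,(-389),1],[(-33008520),1413705,(-2939),(-5)],[1161466,(-17486),(-23)],[(-10884),122],[58]],[[(-36378222),377697,1065,(-7)],[(-279555),20489,(-223)],[81435,(-1464)],[(-2483)]],[[4194364,25079,(-108)],[(-121458),(-861)],[772]],[[140706,(-216)],[(-4372)]],[[666]]],[[[(-204597620),(-4812561),10774,(-7)],[1693694,170371,(-310)],[34420,(-3297)],[(-774)]],[[(-254495),(-15377),864],[(-212199),7754],[10869]],[[884833,2778],[(-17761)]],[[21810]]],[[[(-30339235),(-302825),846],[887938,14333],[(-17026)]],[[466337,(-7916)],[1196]],[[64242]]],[[[(-1834950),(-7830)],[99995]],[[(-6810)]]],[[[(-51218)]]]],[[[[3837438722,(-184731661),888023,(-387),(-11)],[(-341967228),7057037,(-13275),(-150),1],[8631904,(-77528),(-526),8],[(-81951),(-416),25],[22,29],[12]],[[(-283095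153),(-2609538),20718,(-50)],[5413838,123093,(-672)],[31744,(-2615),(-1)],[(-1987),10],[16]],[[(-9391277),61475,28,1],[338889,(-1486),4],[(-5203),8],[5]],[[9335,1553,1],[1619,(-30)],[(-31)]],[[2592,10],[(-52)]],[[23]]],[[[2073681746,(-164674342),767020,(-870),(-8)],[(-265062519),6603755,(-19797),(-62)],[7685506,(-101933),(-51)],[(-99446),479],[561]],[[(-297574756),(-3742193),29342,(-63)],[4739382,200264,(-945)],[84761,(-3915)],[(-3167)]],[[(-10929229),40602,253],[424139,341],[(-4281)]],[[(-34687),1288],[3576]],[[1699]]],[[[(-236680553),(-48386566),215835,(-441)],[(-49400467),2028231,(-6761)],[1951521,(-33295)],[(-29432)]],[[(-134993063),(-1260042),8481],[3233989,65710],[6674]],[[(-4534857),6970],[168096]],[[(-28949)]]],[[[(-240057913),(-6593039),26425],[1266927,271253],[150132]],[[(-31061185),(-164884)],[897753]],[[(-862721)]]],[[[(-41693374),(-400711)],[1067429]],[[(-3346199)]]],[[[(-2506983)]]]],[[[[283188704,(-10155390),(-107266),1238,(-8)],[(-20812642),(-313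00),9436,(-86)],[210893,15608,(-334)],[6964,(-499)],[(-251)]],[[(-7193353),(-1150150),1944,2],[(-1221630),46505,(-36)],[51232,(-603)],[(-715)]],[[(-1789338),(-28097),49],[39897,935],[228]],[[(-61152),(-225)],[1552]],[[(-639)]]],[[[181914210,(-13249307),971,(-79)],[(-22498189),438349,(-401)],[621431,(-5852)],[(-7472)]],[[(-19604901),(-1007096),863],[(-458687),30457],[27574]],[[(-2105050),(-21486)],[37413]],[[(-50730)]]],[[[(-27769691),(-3655274),(-7527)],[(-3275158),90116],[107490]],[[(-12210676),(-280728)],[44152]],[[(-743081)]]],[[[(-17680343),(-568547)],[(-92004)]],[[(-2830817)]]],[[[(-2973778)]]]],[[[[(-4071774),201530,(-1479),2],[360027,(-9248),32],[(-10292),113],[99]],[[294104,5588,(-47)],[(-5138),(-233)],[(-92)]],[[19748,(-9)],[(-528)]],[[280]]],[[[(-2752512),208050,(-1243)],[321248,(-7678)],[(-8294)]],[[421184,4486],[(-5747)]],[[17551]]],[[[362488,54838],[60065]],[[169107]]],[[[368745]]]]]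

/-- A surrogate. -/
def root_s1 : List (List (List (List (List ℤ)))) :=
  [[[[[16612489967,(-121522082),92945,1879,(-11)],[(-744727277),4389302,4500,(-145),1],[13753922,(-49744),(-567),9],[(-120289),(-651),28],[(-139),43,(-1)],[27,(-1)],[(-1)]],[[(-682244349),5818922,(-18419),36],[32315452,(-289754),1310,(-2)],[(-709102),7858,(-37)],[10955,(-143)],[(-144),1],[1]],[[(-5698241),26806,9,(-1)],[282247,(-1324),(-7)],[(-7198),13],[103],[(-1)]],[[27983,143],[(-269),(-6)],[(-7)]],[[(-148)],[4]]],[[[22227602255,(-164529600),169317,2174,(-15)],[(-990133625),5898282,1773,(-171),1],[18035359,(-75287),(-479),7],[(-162067),(-124),21],[361,28],[18]],[[(-957052821),7346808,(-16500),21],[43343177,(-295935),901,(-1)],[(-825070),6143,(-22)],[9783,(-84)],[(-84)]],[[(-340079),(-18415),(-17)],[(-23385),165,(-1)],[(-454),2],[24]],[[31562,169],[(-267),(-4)],[(-5)]],[[(-166)],[3]]],[[[10441068970,(-79674942),123220,785,(-6)],[(-462835318),2933484,(-2531),(-56)],[8424225,(-46072),(-93)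],[(-84850),194],[316]],[[(-458021350),3246835,(-5423),6],[20164567,(-117490),254],[(-359705),1936],[3369]],[[950889,(-15305),(-3)],[(-66723),314],[865]],[[10762,47],[(-88)]],[[(-39)]]],[[[2133822191,(-17284394),42837,77],[(-93986520),699052,(-1436)],[1806337,(-12399)],[(-20134)]],[[(-94661600),631908,(-964)],[4028116,(-21102)],[(-65568)]],[[257241,(-2520)],[(-11858)]],[[984]]],[[[216925248,(-1951704),6504],[(-9717906),88042],[214335]],[[(-9875327),61383],[388240]],[[19459]]],[[[11361683,(-127900)],[(-613021)]],[[(-518237)]]],[[[358174]]]],[[[[15654494300,(-120722734),36640,2597,(-17)],[(-719307333),3650193,18783,(-281),2],[12589282,(-970),(-1258),12],[(-78391),(-1837),39],[(-710),55],[30]],[[(-43419316),3770688,(-27334),76],[8503948,(-206418),1156,(-1)],[(-302137),4666,(-12)],[4997,(-38)],[(-33)]],[[697631,(-19379),7],[(-96492),792,2],[3057,(-7)],[(-40)]],[[(-5526),(-98)],[(-127),3],[5]],[[131],[(-2)]]],[[[20413699354,(-150803035),122651,1814,(-14)],[(-92511882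1),5024528,5058,(-168)],[16549735,(-58601),(-576)],[(-152881),(-422)],[243]],[[19204718,2088626,(-11644),31],[4155699,(-97015),384],[(-143098),1501],[1549]],[[(-1674154),(-1958),12],[27963,182],[449]],[[(-7189),(-77)],[(-38)]],[[94]]],[[[9387820913,(-66957242),86957,343],[(-416815205),2352233,(-1261)],[7550053,(-31785)],[(-68218)]],[[17945062,511690,(-1597)],[753475,(-15135)],[(-18119)]],[[(-998146),2816],[27039]],[[(-3084)]]],[[[1877606938,(-12826101),18229],[(-81457562),446874],[1420316]],[[5588591,25611],[(-131074)]],[[(-136565)]]],[[[191744448,(-1261267)],[(-8052281)]],[[1012808]]],[[[10445633]]]],[[[[1388927957,(-15004205),(-215198),2738,(-13)],[(-85445199),(-170082),18858,(-153)],[1243141,29967,(-605)],[3377,(-915)],[(-449)]],[[65756987,(-808241),6232,(-16)],[(-3266864),50126,(-269)],[90637,(-1151)],[(-1326)]],[[80726,4786,(-3)],[12091,(-150)],[(-426)]],[[(-3529),16],[102]],[[(-30)]]],[[[1893251209,(-28212152),(-1411),698],[(-124239107),903760,3238],[26633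80,(-5441)],[(-20735)]],[[68555485,(-530978),2687],[(-2951135),25004],[54194]],[[381557,2571],[(-999)]],[[(-1979)]]],[[[813039086,(-11564307),13555],[(-51276456),371242],[982703]],[[26592418,(-167857)],[(-1003909)]],[[181501]]],[[[144613421,(-1746915)],[(-7764835)]],[[3545466]]],[[[10960084]]]],[[[[(-186954446),(-1183743),1842],[1394285,45245,(-28)],[47092,(-458)],[(-630)]],[[(-1638918),(-41695),42],[(-55224),1161],[1960]],[[70388,(-351)],[(-2139)]],[[966]]],[[[(-212367049),(-1413388),1629],[1747975,39916],[35155]],[[(-2527353),(-36972)],[(-18627)]],[[41291]]],[[[(-74312690),(-471293)],[743093]],[[(-1305412)]]],[[[(-8088390)]]]],[[[[(-20112678)],[589495],[(-5009)]],[[(-962642)],[20895]],[[(-12854)]]],[[[(-22129921)],[499486]],[[(-819250)]]],[[[(-6513776)]]]]]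

/-- A surrogate. -/
def root_s3 : List (List (List (List (List ℤ)))) :=
  [[[[[674848725,(-62774684),682497,(-3837),14],[(-110864789),4497126,(-43712),245,(-1)],[5035170,(-136458),1254,(-8)],[(-111929),2476,(-26)],[1563,(-37)],[(-18)]],[[127282596,(-618827),12591,(-77)],[(-3479274),24315,(-684),4],[41541,(-1117),21],[(-1035),40],[35,(-1)]],[[(-4318245),(-7238),149],[108951,632,(-2)],[(-827),(-8)],[3]],[[(-118829),183,1],[4887,(-1)],[(-91)],[1]],[[(-649),3],[40],[(-1)]]],[[[428340782,(-75307707),858779,(-4899),19],[(-108194719),5152105,(-51439),301,(-1)],[5146600,(-150922),1452,(-8)],[(-113904),2726,(-23)],[1552,(-31)],[(-14)]],[[77439409,(-99625),11175,(-88)],[(-1250958),6681,(-728),4],[(-3140),(-1081),19],[(-693),35],[29]],[[(-3208422),(-608),92],[88177,283],[(-788),2],[4]],[[(-103646),191,1],[4245,(-3)],[(-58)]],[[(-654),2],[28]]],[[[(-272182060),(-28183998),361099,(-2174),8],[(-20560148),1910014,(-20873),114],[1458797,(-55914),510],[(-34545),885],[413]],[[1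0070090,169107,3541,(-32)],[395495,(-3124),(-236)],[(-19208),(-285)],[(-70)]],[[(-540206),2183,(-2)],[17441,(-98)],[(-90)]],[[(-27932),59],[883]],[[(-181)]]],[[[(-233764647),(-3176838),59026,(-373)],[5802293,247742,(-3216)],[16108,(-7331)],[(-2093)]],[[2299857,35773,519],[101939,(-815)],[(-4142)]],[[6977,431],[(-1749)]],[[(-2444)]]],[[[(-43270589),7818,3730],[1775042,7120],[(-32247)]],[[371432,2410],[8233]],[[13435]]],[[[(-3092011),20994],[160867]],[[21469]]],[[[(-89395)]]]],[[[[551328722,(-59501778),527062,(-3386),18],[(-91359838),3438330,(-26917),179,(-1)],[3575075,(-81189),654,(-3)],[(-63939),1182,(-8)],[676,(-10)],[(-4)]],[[126692955,318464,(-757),(-45)],[(-4028011),(-2087),(-310),2],[67132,(-890),10],[(-1343),23],[20]],[[4396239,18589,(-182)],[(-133770),(-1218),3],[1442,16],[(-6)]],[[45774,27,(-1)],[(-2224),(-5)],[32]],[[163,(-1)],[(-10)]]],[[[(-129898614),(-50512657),425150,(-2581),13],[(-49651281),2790912,(-20992),119],[2325343,(-64023),424],[(-41073),776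],[390]],[[106612498,(-6011),1301,(-32)],[(-3731250),15186,(-294)],[71032,(-1103)],[(-1388)]],[[4035226,11189,(-105)],[(-130791),(-584)],[1356]],[[46932,(-10)],[(-1760)]],[[157]]],[[[(-543136233),(-12000046),99506,(-469)],[9425280,639154,(-4207)],[93250,(-13582)],[(-3898)]],[[24442171,(-142433),1437],[(-943379),13053],[21407]],[[1183061,89],[(-35470)]],[[13903]]],[[[(-230819570),(-719940),10160],[8240880,54323],[(-116192)]],[[639493,(-33318)],[(-225)]],[[125334]]],[[[(-34972894),56297],[1400376]],[[(-481551)]]],[[[(-2399730)]]]],[[[[553231191,(-31408368),123764,21,1],[(-55508806),1231660,(-2503)],[1514123,(-18091),8],[(-18280),91],[89]],[[(-7354270),(-717536),3694],[(-742803),38384,(-108)],[38240,(-699)],[(-679)]],[[(-100999),(-6248),33],[1275,350],[189]],[[1952,(-22)],[24]],[[16]]],[[[110167184,(-23365251),100394,(-1)],[(-29907276),949890,(-2105)],[937830,(-13621)],[(-12169)]],[[(-15301543),(-586170),3236],[(-148779),29715],[23742]],[[(-283603),(-4831)],[7543]]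,[[(-811)]]],[[[(-172579621),(-4252083),22464],[1939556,185414],[70362]],[[(-9787549),(-122363)],[209009]],[[(-168921)]]],[[[(-55099368),(-195092)],[1746945]],[[(-2250754)]]],[[[(-5377336)]]]],[[[[63730988,(-3479167),23242,(-36)],[(-6239889),160704,(-631)],[181837,(-2480)],[(-2255)]],[[(-2561387),(-89150),677],[(-2879),4114],[2715]],[[(-131322),(-453)],[3296]],[[(-1317)]]],[[[10439312,(-2097786),13833],[(-2682980),92347],[92778]],[[(-3133456),(-47966)],[37212]],[[(-93923)]]],[[[(-15753497),(-172134)],[322480]],[[(-1062970)]]],[[[(-2607207)]]]]]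

/-- A surrogate. -/
def root_s5 : List (List (List (List (List ℤ)))) :=
  [[[[[4832652865,(-200301154),983938,(-593),(-3)],[(-382391623),6913585,(-13075),(-50)],[8072509,(-43469),(-432),4],[(-28369),(-1298),20],[(-1210),37],[24]],[[(-542968765),8507421,(-32016),34],[26670244,(-309006),979,(-2)],[(-487570),4539,(-16)],[4117,(-43)],[(-21)]],[[9628439,40309,(-372)],[(-197777),(-2698),11],[(-1353),65],[88,(-1)],[(-1)]],[[169966,(-1258)],[(-6516),34],[104]],[[(-1310),(-5)],[39]],[[(-15)]]],[[[3386982740,(-186278852),838952,(-60),(-4)],[(-331354180),6507752,(-7936),(-89)],[7757177,(-43920),(-531),4],[(-41274),(-1099),17],[(-838),30],[19]],[[(-495981526),7913581,(-28185),30],[25046219,(-283595),782,(-1)],[(-470724),3889,(-10)],[4270,(-24)],[(-10)]],[[12356092,32222,(-401)],[(-347670),(-2329),9],[1935,47],[41]],[[208790,(-1484)],[(-8644),27],[110]],[[(-1364),(-6)],[20]],[[(-13)]]],[[[305977149,(-57307449),221201,306,(-2)],[(-82609930),2067473,(-665),(-45)],[2393425,(-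18131),(-206)],[(-20467),(-257)],[(-116)]],[[(-138916844),2431562,(-8274),11],[7532803,(-89444),198],[(-162624),1113],[1637]],[[5214206,9067,(-116)],[(-162149),(-759)],[921]],[[80498,(-426)],[(-3154)]],[[(-306)]]],[[[(-143838215),(-8288193),28929,110],[(-5714496),330088,(-130)],[285529,(-4824)],[(-4481)]],[[(-14957343),340246,(-951)],[980189,(-11732)],[(-26732)]],[[1038541,1189],[(-27311)]],[[13254]]],[[[(-32027067),(-646240),3325],[422305,35402],[11194]],[[(-451922),21266],[84084]],[[85949]]],[[[(-2367516),(-30208)],[93369]],[[(-32801)]]],[[[(-84233)]]]],[[[[3945125764,(-180907890),892883,(-1048),(-2)],[(-330989588),6284838,(-11220),(-87),1],[7267019,(-40500),(-562),5],[(-31781),(-1264),20],[(-958),33],[20]],[[(-371408097),574942,(-654),43],[12078440,(-21780),260,(-2)],[(-143436),540,(-10)],[691,(-15)],[(-1)]],[[(-5427894),50264,(-23)],[211252,(-1420),2],[(-3674),8],[8]],[[52073,559],[(-1073),(-12)],[(-1)]],[[1359,2],[(-32)]],[[5]]],[[[2398469951,(-167790506),7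64249,(-600),(-3)],[(-277896204),6162811,(-12860),(-54)],[7195151,(-65238),(-274)],[(-63833),(-479)],[(-299)]],[[(-378004161),(-492881),8432,19],[11465362,41886,(-65)],[(-113125),(-688)],[(-260)]],[[(-6569964),49740,66],[285637,(-759)],[(-3699)]],[[40940,553],[45]],[[1065]]],[[[(-79600807),(-52467062),221720,(-47)],[(-62685061),2095502,(-3890)],[2233233,(-26057)],[(-27366)]],[[(-150866580),(-312917),3846],[4935282,23539],[(-44600)]],[[(-2708038),14130],[114452]],[[5957]]],[[[(-229684649),(-7735607),33246],[(-1181846),327653],[248867]],[[(-31183757),(-47049)],[1046427]],[[(-513096)]]],[[[(-44979973),(-525771)],[990221]],[[(-3257442)]]],[[[(-3109184)]]]],[[[[313452169,(-12530702),(-27277),627,(-4)],[(-23657206),180612,4954,(-48)],[315363,8921,(-205)],[5113,(-358)],[(-220)]],[[(-18599701),(-669282),1784,(-2)],[(-268186),26971,(-37)],[23871,(-323)],[(-376)]],[[(-1428330),(-9312),15],[43255,299],[(-201)]],[[(-30134),(-37)],[800]],[[(-190)]]],[[[192668474,(-13552753),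25707,(-73)],[(-22738844),445249,(-372)],[578433,(-3558)],[(-4296)]],[[(-26107794),(-592012),587],[209411,16740],[10498]],[[(-1579848),(-8053)],[35574]],[[(-25222)]]],[[[(-20755964),(-3822114),(-121)],[(-4033618),108507],[135406]],[[(-12426902),(-178525)],[163204]],[[(-535714)]]],[[[(-18078257),(-567110)],[(-128879)]],[[(-2588624)]]],[[[(-3043155)]]]],[[[[(-4197609),207618,(-1526),2],[370997,(-9540),34],[(-10617),117],[103]],[[345278,3331,(-35)],[(-9453),(-156)]],[[15930,(-40)],[(-468)]],[[149]]],[[[(-2839131),214570,(-1288)],[331330,(-7956)],[(-8594)]],[[461122,2628],[(-9203)]],[[14080]]],[[[373905,56821],[62265]],[[173743]]],[[[381952]]]]]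

/-- A surrogate. -/
def root_s11 : List (List (List (List (List ℤ)))) :=
  [[[[[4385498449,(-35570868),75920,20],[(-161984727),938328,(-1087),(-1)],[2123478,(-6633),(-2)],[(-8422),(-26)],[(-61),1],[1]],[[(-111741146),759072,(-1244)],[4124861,(-20711),23],[(-61653),226],[493,(-1)],[(-2)]],[[(-1752847),12942,(-24)],[64710,(-347)],[(-912),3],[5]],[[13342,(-92)],[(-489),3],[8]],[[95,(-1)],[(-3)]],[[(-1)]]],[[[708894010,(-6032097),13596,5],[(-26188688),157795,(-185)],[328763,(-962),(-1)],[(-828),(-8)],[(-18)]],[[(-11604998),70515,(-89)],[428198,(-1954),2],[(-6782),27],[67]],[[(-333692),2415,(-4)],[12262,(-63)],[(-170),1],[1]],[[(-62)],[(-3)]],[[15]]],[[[33945717,(-315898),778],[(-1254511),8137,(-9)],[14341,(-33)],[16,(-1)],[(-1)]],[[(-140412),(-211),3],[5182,(-8)],[(-156)],[2]],[[(-13723),99],[520,(-2)],[(-6)]],[[(-91),1],[3]]],[[[406058,(-4751),14],[(-15022),118],[122],[2]],[[8372,(-98)],[(-310),2],[2]],[[43],[(-1)]]]],[[[[3044877695,(-21840224),39321,1],[(-112419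576),589647,(-668)],[1621243,(-5757),4],[(-11321),23],[36]],[[68010572,(-502291),949],[(-2511444),13529,(-15)],[35597,(-122)],[(-223)],[1]],[[(-425821),2775,(-4)],[15537,(-76)],[(-234)],[1]],[[(-12778),90],[465,(-2)],[(-6)]],[[(-1)]]],[[[366915372,(-2574629),4469],[(-13545922),69795,(-78)],[198247,(-707)],[(-1456),3],[6]],[[12947925,(-94136),171],[(-477967),2505,(-3)],[6748,(-23)],[(-44)]],[[70987,(-535),1],[(-2548),17],[44]],[[(-1069),5],[29]],[[(-7)]]],[[[9513294,(-59015),79],[(-351097),1635,(-1)],[5520,(-17)],[(-44)]],[[532302,(-3730),5],[(-19617),85],[245]],[[7937,(-52)],[(-262)]],[[33]]],[[[(-81212),950,(-3)],[3004,(-23)],[(-24)]],[[(-1675),19],[61]],[[(-9)]]]],[[[[(-50727468),503818,(-1312),(-1)],[1875188,(-12872),17],[(-19866),52],[(-56),1],[2]],[[15063660,(-104737),176],[(-555984),2803,(-2)],[8072,(-22)],[(-47)]],[[373284,(-2652),4],[(-13688),67],[186]],[[1372,(-13)],[(-67)]],[[(-16)]]],[[[(-52211415),398356,(-789)],[1928013,(-10668),14],[(-26686),108],[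185]],[[(-82914),1307,(-10)],[3358,(-117)],[(-249)]],[[30641,(-162)],[(-862)]],[[380]]],[[[(-3260501),24442,(-46)],[120411,(-644)],[(-1654)]],[[(-100863),747],[3677]],[[(-1031)]]]],[[[[(-107556749),778173,(-1424)],[3971093,(-21026),26],[(-57070),217],[419]],[[(-2819689),20665,(-45)],[104580,(-654)],[(-1763)]],[[(-2188),107],[518]],[[426]]],[[[(-9905541),71585,(-128)],[365797,(-1889)],[(-5135)]],[[(-408563),2902],[14818]],[[(-6233)]]]],[[[[(-7835431),55863,(-97)],[289367,(-1471)],[(-4080)]],[[(-403969),2816],[14578]],[[(-8176)]]]]]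

/-- A surrogate. -/
def root_s12 : List (List (List (List (List ℤ)))) :=
  [[[[[(-451293475),(-2547624),44122,(-127)],[5243318,411529,(-3029),6],[460641,(-13908),61],[(-14404),186],[162,(-1)],[(-1)]],[[79609073,(-352546),(-768),4],[(-2913360),2044,68],[32400,232,(-1)],[76,(-4)],[(-4)]],[[(-1016167),5639,(-8)],[45097,(-280),1],[(-978),6],[13]],[[(-34242),153],[1331,(-3)],[(-20)]],[[(-13)]],[[1]]],[[[(-326749391),(-1615809),30542,(-92)],[6865868,191293,(-1525),3],[114209,(-5734),29],[(-4964),78],[62]],[[31419847,(-153163),(-155),1],[(-1199095),2414,13],[15695,27],[(-43),(-1)],[(-1)]],[[(-103683),1584,(-9)],[6619,(-94)],[(-208),2],[3]],[[(-10324),55],[410,(-1)],[(-6)]],[[(-24)],[1]]],[[[(-94049075),(-135748),6124,(-21)],[2706230,27551,(-288),1],[(-8990),(-868),5],[(-461),13],[8]],[[5647510,(-32903),25],[(-226522),813],[3209,(-6)],[(-19)]],[[47275,(-102),(-1)],[(-1456),(-1)],[21]],[[(-1059),5],[34]],[[(-6)]]],[[[(-11974573),17377,489,(-2)],[407155,1068,(-24)],[(-4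882),(-48)],[27]],[[517287,(-3311),6],[(-20274),86],[255]],[[9060,(-49)],[(-356)]],[[(-13)]]],[[[(-677702),2565,14],[26401,(-71)],[(-550)]],[[21421,(-108)],[(-586)]],[[525]]],[[[(-13978),104],[756]],[[183]]]],[[[[(-253832002),(-11719489),105176,(-240)],[(-11042506),777990,(-4463),7],[843515,(-18501),70],[(-17715),211,(-1)],[176,(-1)],[(-1)]],[[27408049,(-9388),(-809),1],[(-1025597),634,5],[18114,(-61),1],[(-217),2],[3]],[[1264565,(-1033),(-40)],[(-43529),(-97),1],[525,3],[(-2)]],[[7944,(-33)],[(-300)],[4]],[[(-103)],[3]],[[(-1)]]],[[[(-392790588),(-2050871),34938,(-98)],[9248137,196886,(-1524),3],[54273,(-5369),27],[(-3752),72],[53]],[[5482694,(-46307),207,(-1)],[(-272511),2622,(-19)],[6319,(-86)],[(-103)]],[[446237,(-1537),(-4)],[(-16725),29],[226]],[[3786,(-15)],[(-146)]],[[(-10)]]],[[[(-120809123),235899,3756,(-15)],[4201673,8066,(-189)],[(-48020),(-478)],[56]],[[(-903976),(-442),62],[28835,223],[(-439)]],[[49993,(-235)],[(-1634)]],[[619]]],[[[(-14268810),675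10,119],[558419,(-1434)],[(-8779)]],[[(-263917),1488],[11989]],[[416]]],[[[(-712324),4361],[29488]],[[(-19164)]]],[[[(-12169)]]]],[[[[61407903,(-7637347),53672,(-103)],[(-12182075),381457,(-1832),2],[441052,(-7398),24],[(-7019),74],[62]],[[(-4869772),(-135226),1210,(-3)],[(-29848),7903,(-49)],[6266,(-191)],[(-161)]],[[(-29633),(-21),6],[944,35],[14]],[[2767,2],[(-67)]],[[37]]],[[[(-99412463),(-871702),10666,(-25)],[2129098,58040,(-394)],[12719,(-1347)],[(-831)]],[[(-4502629),(-11743),290],[134550,1330],[(-873)]],[[(-41030),(-10)],[1691]],[[330]]],[[[(-24407856),59503,580],[887634,304],[(-11648)]],[[(-972163),3403],[37274]],[[(-12803)]]],[[[(-1799341),9745],[71342]],[[(-72478)]]],[[[(-39151)]]]],[[[[9851761,(-732956),4888,(-8)],[(-1257045),34397,(-149)],[40240,(-603)],[(-582)]],[[(-618518),(-25478),200],[(-10773),1284],[1063]],[[(-36473),(-277)],[771]],[[(-580)]]],[[[(-7613476),(-34152),540],[212399,2567],[(-907)]],[[(-544201),(-174)],[16970]],[[(-13612)]]],[[[(-1106131),4824],[41609]],[[(-59497)]]],[[[(-31492)]]]]]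

/-- A surrogate. -/
def root_s13 : List (List (List (List (List ℤ)))) :=
  [[[[[(-12166144),197772,15965,(-114)],[691951,26485,(-594),1],[(-1058),(-537),(-1)],[171,(-12)],[(-14)]],[[2079426,14537,(-796),5],[(-78400),(-794),18],[2372,(-29)],[(-81),2],[2]],[[(-28013),(-3752),33],[(-921),136,(-1)],[(-6),(-1)],[2]],[[(-6216),71],[263,(-3)],[(-5)]],[[39],[(-2)]]],[[[(-16998877),881151,8296,(-79)],[1582667,(-5595),(-377),1],[(-26945),(-142),(-2)],[342,(-14)],[(-14)]],[[3812872,(-50521),(-224),3],[(-196883),1986,4],[5007,(-63)],[(-108),1],[2]],[[(-155981),(-2219),27],[4899,95,(-1)],[(-84),(-1)],[1]],[[(-5719),66],[257,(-2)],[(-4)]],[[38],[(-1)]]],[[[(-2367647),534184,(-196),(-12)],[690573,(-14006),(-24)],[(-16723),181,(-2)],[216,(-7)],[(-6)]],[[1591290,(-40386),145],[(-96991),1704,(-3)],[2655,(-29)],[(-44)]],[[(-111054),(-108),7],[4149,18],[(-43)]],[[(-1753),18],[78]],[[9]]],[[[2332031,80447,(-255)],[20607,(-2884),15],[(-1617),87],[60]],[[75611,(-6557),30],[(-10203),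285],[475]],[[(-23959),23],[754]],[[(-259)]]],[[[442867,4704,(-50)],[(-10731),(-347)],[115]],[[(-14666),(-452)],[(-879)]],[[(-2003)]]],[[[26201,124],[(-1652)]],[[(-485)]]],[[[752]]]],[[[[(-39177774),1672902,736,(-68)],[3551734,(-60965),(-48),1],[(-100822),1188,(-5)],[1632,(-26)],[(-24)]],[[3128783,60357,(-587),2],[(-68452),(-2353),17],[814,26],[(-31)],[1]],[[144501,(-1272),3],[(-5885),50],[117,(-1)],[(-1)]],[[(-434),(-7)],[13]],[[(-18)],[1]]],[[[(-38681356),2505430,(-8249),(-36)],[4420815,(-103903),258,1],[(-134593),2013,(-5)],[2150,(-24)],[(-21)]],[[5544669,36234,(-535),1],[(-178261),(-1731),15],[2821,24],[(-27)]],[[149146,(-1412),2],[(-6861),43],[113]],[[(-533),(-5)],[6]],[[(-13)]]],[[[(-2965444),1104233,(-6400)],[1388218,(-50520),184],[(-50891),891],[807]],[[3047047,1255,(-153)],[(-116674),(-345)],[1597]],[[55211,(-473)],[(-2562)]],[[(-122)]]],[[[4997478,149556,(-1153)],[(-17748),(-7501)],[(-4419)]],[[653851,(-1025)],[(-25397)]],[[9801]]],[[[976410,7446],[(-2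7311)]],[[66260]]],[[[61972]]]],[[[[(-3258401),135953,202,(-7)],[303104,(-5332),1],[(-9194),150],[192,(-2)],[(-2)]],[[156709,9993,(-71)],[2529,(-440),2],[(-143),5],[1]],[[20314,31,(-1)],[(-853),(-2)],[10]],[[408,(-2)],[(-14)]],[[2]]],[[[(-3111400),204261,(-682),(-4)],[364045,(-9192),16],[(-11812),153],[171]],[[375668,8665,(-60)],[(-7350),(-347)],[(-59)]],[[25061],[(-787)]],[[331]]],[[[(-82647),83122,(-451)],[96915,(-3641)],[(-3752)]],[[239582,1884],[(-5986)]],[[8814]]],[[[435119,7572],[(-5997)]],[[48167]]],[[[53396]]]],[[[[131175,(-6488),48],[(-11594),298,(-1)],[332,(-4)],[(-3)]],[[(-10790),(-104),1],[295,5]],[[(-498),1],[15]],[[(-5)]]],[[[88723,(-6705),40],[(-10354),249],[269]],[[(-14410),(-82)],[288]],[[(-440)]]],[[[(-11685),(-1776)],[(-1946)]],[[(-5429)]]],[[[(-11936)]]]]]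

/-- A surrogate. -/
def root_s14 : List (List (List (List (List ℤ)))) :=
  [[[[[(-11801144),191838,15487,(-111)],[671178,25695,(-576),1],[(-1021),(-522),(-1)],[166,(-12)],[(-13)]],[[1895413,16073,(-611),4],[(-69121),(-494),11],[2298,(-35)],[(-79),1],[2]],[[(-6402),(-3496),24],[(-1646),125,(-1)],[15,(-2)],[1]],[[(-6328),32],[251,(-1)],[(-5)]],[[(-24)],[1]]],[[[(-16488857),854700,8048,(-76)],[1535190,(-5420),(-366),1],[(-26134),(-137),(-2)],[333,(-14)],[(-14)]],[[3528285,(-40221),(-132),2],[(-175048),1885,1],[4598,(-60)],[(-99),1],[1]],[[(-113409),(-2655),24],[2840,112,(-1)],[(-26),(-2)]],[[(-7131),41],[297,(-1)],[(-4)]],[[(-22)],[1]]],[[[(-2296722),518155,(-192),(-11)],[669919,(-13600),(-23)],[(-16234),177,(-2)],[211,(-7)],[(-6)]],[[1519452,(-33836),134],[(-87156),1480,(-2)],[2390,(-23)],[(-37)]],[[(-91899),(-510),7],[2963,32],[(-11)]],[[(-2778),14],[103]],[[(-8)]]],[[[2261920,78059,(-249)],[19976,(-2809),15],[(-1576),84],[58]],[[96873,(-5506),22],[(-9866),219]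,[423]],[[(-22085),(-44)],[530]],[[(-438)]]],[[[429682,4575,(-48)],[(-10451),(-335)],[111]],[[(-9183),(-361)],[(-1042)]],[[(-1811)]]],[[[25519,120],[(-1594)]],[[21]]],[[[725]]]],[[[[(-38002397),1622710,714,(-66)],[3445202,(-59133),(-46),1],[(-97797),1155,(-5)],[1585,(-25)],[(-23)]],[[2643059,75253,(-562),1],[(-30853),(-2890),17],[(-204),42],[(-9)]],[[171315,(-642),(-4)],[(-6419),23],[129],[(-1)]],[[1002,(-21)],[(-60),1],[1]],[[(-22)],[1]]],[[[(-37521022),2430262,(-8006),(-35)],[4288229,(-100816),250,1],[(-130574),1952,(-5)],[2085,(-23)],[(-20)]],[[4991234,60187,(-610),1],[(-128919),(-2780),16],[1346,41],[(-6)]],[[200191,(-1008),(-3)],[(-8629),22],[131]],[[1068,(-18)],[(-61)]],[[(-15)]]],[[[(-2876715),1071146,(-6208)],[1346428,(-49001),178],[(-49361),860],[778]],[[2926640,12367,(-209)],[(-99498),(-828)],[1021]],[[84803,(-422)],[(-3545)]],[[456]]],[[[4847978,145067,(-1113)],[(-17242),(-7239)],[(-4263)]],[[685008,512],[(-24478)]],[[15857]]],[[[947273,7185],[(-26371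)]],[[73350]]],[[[59823]]]],[[[[(-3160702),131882,195,(-7)],[294027,(-5181),1],[(-8928),146],[186,(-2)],[(-2)]],[[119458,11082,(-69)],[5468,(-498),1],[(-249),6],[3]],[[21417,139,(-2)],[(-830),(-6)],[8]],[[641,(-1)],[(-20)]],[[5]]],[[[(-3018035),198158,(-661),(-4)],[353096,(-8911),15],[(-11451),147],[165]],[[333839,10488,(-63)],[(-3525),(-412)],[(-160)]],[[28350,79],[(-806)]],[[534]]],[[[(-79877),80604,(-435)],[93981,(-3514)],[(-3621)]],[[231740,2582],[(-4791)]],[[10546]]],[[[422002,7308],[(-5797)]],[[50181]]],[[[51550]]]],[[[[127243,(-6298),46],[(-11251),289,(-1)],[322,(-4)],[(-3)]],[[(-9191),(-175),1],[161,7],[3]],[[(-617)],[17]],[[(-9)]]],[[[86016,(-6502),39],[(-10039),240],[259]],[[(-13162),(-140)],[180]],[[(-548)]]],[[[(-11328),(-1714)],[(-1877)]],[[(-5285)]]],[[[(-11523)]]]]]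

/-- A surrogate. -/
def root_s15 : List (List (List (List (List ℤ)))) :=
  [[[[[(-1082025210),(-28094834),233445,(-283),(-1)],[1855675,881984,(-2257),(-10)],[6681,2961,(-85)],[16835,(-324),2],[(-381),4],[3]],[[70387891,1018264,(-10589),23],[(-2561856),(-21299),142],[73675,(-400),2],[(-1607),14],[20]],[[4278409,(-47642),185],[(-142791),1158,(-3)],[1142,(-4)],[12]],[[(-57883),485,(-1)],[1983,(-13)],[(-22)]],[[181,(-1)],[(-7)]]],[[[(-1444012216),(-2472624),54333,26,(-1)],[35205151,151935,(-93),(-7)],[(-405586),2148,(-40)],[8778,(-135),1],[(-184),2],[2]],[[119953967,(-433963),(-1933),8],[(-4639946),13886,36],[79908,(-265)],[(-821),3],[6]],[[1391541,(-14984),60],[(-50941),432,(-1)],[623,(-4)],[(-3)]],[[(-23709),196],[905,(-5)],[(-12)]],[[71],[(-2)]]],[[[(-322535130),432428,4001,21],[9049454,2080,104,(-1)],[(-119321),706,(-7)],[2356,(-27)],[(-44)]],[[28759397,(-161496),(-68),1],[(-1142165),4519,5],[17941,(-44)],[(-135)]],[[254216,(-2397),9],[(-9879),85],[178]],[[(-3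407),25],[123]],[[6]]],[[[(-28057165),58404,14,2],[843285,(-1638),19],[(-15572),144],[411]],[[2782317,(-17222),1],[(-109433),398],[1470]],[[25794,(-234)],[(-1130)]],[[(-183)]]],[[[(-954922),1594,(-17)],[33128,(-310)],[(-1482)]],[[121477,(-666)],[(-4093)]],[[1315]]],[[[(-1356),33],[799]],[[1763]]],[[[414]]]],[[[[(-3610046077),(-1593836),161581,(-423)],[123844595,(-15512),(-2059),2],[(-2142942),9624,(-36)],[29856,(-256),1],[(-344),3],[2]],[[(-84420894),903973,(-3424),6],[2735374,(-21273),62],[(-20124),83],[(-213),2],[5]],[[1701335,(-9655),2],[(-59888),269],[829,(-3)],[(-5)]],[[11904,(-118)],[(-418),3],[4]],[[(-111),1],[3]]],[[[(-3380430654),16983248,14843,(-142)],[128782441,(-511240),(-132),2],[(-2080788),8186,(-9)],[20508,(-96)],[(-149)]],[[(-30705994),288872,(-1086),2],[1068488,(-8605),29],[(-14153),117],[117]],[[910448,(-6092),5],[(-35358),155],[481]],[[4851,(-45)],[(-194)]],[[(-35)]]],[[[(-740049464),4609754,(-3260),(-22)],[29316998,(-141433),58],[(-484872),19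28],[4606]],[[(-7203769),60652,(-198)],[286067,(-2378)],[(-5832)]],[[128835,(-737)],[(-4388)]],[[899]]],[[[(-68683429),466327,(-578)],[2810085,(-15031)],[(-48927)]],[[(-886095),7854],[41478]],[[4517]]],[[[(-2938889),21072],[124509]],[[(-51927)]]],[[[(-47091)]]]],[[[[(-694524834),51063,29357,(-89)],[25317987,(-22429),(-401),1],[(-456924),2146,(-5)],[6426,(-45)],[(-62)]],[[(-33834546),193525,(-75),(-1)],[1175695,(-5618),2],[(-16791),64],[104]],[[(-261721),2476,(-7)],[9500,(-66)],[(-115)]],[[2311,(-8)],[(-58)]],[[20]]],[[[(-603756725),3416540,739,(-28)],[24114597,(-109176),(-25)],[(-406979),1506],[3704]],[[(-19282513),134112,(-184)],[757229,(-4110)],[(-11999)]],[[(-124439),1139],[5371]],[[722]]],[[[(-103832927),696749,(-632)],[4297042,(-21614)],[(-71568)]],[[(-3171471),23283],[130470]],[[(-26206)]]],[[[(-6639134),46491],[277062]],[[(-205581)]]],[[[(-143089)]]]],[[[[(-21996050),(-99211),1738,(-5)],[883372,696,(-25)],[(-20260),82],[281]],[[(-2202961),8887,31],[82098,(-223)],[(-1083)]],[[(-55089),294],[1736]],[[(-474)]]],[[[(-20422467),118562,78],[905325,(-3833)],[(-15230)]],[[(-1246756),7723],[47420]],[[(-23748)]]],[[[(-2600068),17235],[111917]],[[(-127122)]]],[[[(-87899)]]]],[[[[1355427,(-9753),16],[(-46032),209],[511]],[[56443,(-364)],[(-1719)]],[[794]]],[[[739121,(-5090)],[(-24010)]],[[29551]]],[[[30089]]]]]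

/-- A root. -/
def root : Root where
  cl := true
  box := fun i => match i with
    | 0 => ⟨33, 23, 400, 80⟩
    | 1 => ⟨191, 9751, 200, 10000⟩
    | 2 => ⟨2, 11, 15, 80⟩
    | _ => ⟨307, 310001, 1000, 1000000⟩
  De := 400
  e0 := 24
  e1 := 158
  p := fun i => match i with
    | 0 => 10
    | 1 => 100
    | 2 => 480
    | 3 => 666
    | _ => 6
  q := fun i => match i with
    | 0 => 2
    | 1 => 97
    | 2 => 65
    | 3 => 205
    | _ => 1
  den := 17179869184
  sur := fun k => match k with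
    | 0 => root_s0
    | 1 => root_s1
    | 3 => root_s3
    | 5 => root_s5
    | 11 => root_s11
    | 12 => root_s12
    | 13 => root_s13
    | 14 => root_s14
    | 15 => root_s15
    | _ => []
  eps := fun k => match k with
    | 0 => 383661
    | 1 => 866020
    | 3 => 409355
    | 5 => 359782
    | 11 => 741
    | 12 => 9304
    | 13 => 7624
    | 14 => 8315
    | 15 => 14765
    | _ => 0

/-- A leaf. -/
def leaf0 : Leaf :=
  ⟨⟨191, 76601, 200, 80000⟩, ⟨2, 13, 15, 96⟩, ⟨307, 310001, 1000, 1000000⟩,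
    16384, (2413, -30239, -21282, 12117), (-13973, -40117, 1942, 31325), 16384, (47370, 43530, 46376, -66735), (-49825, 24903, 29045, 38864), (18805, 63162, 83087, -45979), (8628, 6718, -1751, -11802),
    true, 0, 1, 4096, (-296), 3691, 3892, (-3071), 2240⟩

/-- A tile. -/
def tile0 : Tile :=
  ⟨⟨191, 76601, 200, 80000⟩, ⟨2, 13, 15, 96⟩, ⟨307, 310001, 1000, 1000000⟩, 16384, (2413, -30239, -21282, 12117), (-13973, -40117, 1942, 31325), 6431,
    (1024, 0), (65, 1024), 0, 3, (leaf0, ⟨(917, 1024), (1024, 561)⟩),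
    []⟩

/-- A leaf. -/
def leaf1 : Leaf :=
  ⟨⟨191, 76601, 200, 80000⟩, ⟨13, 11, 96, 80⟩, ⟨307, 310001, 1000, 1000000⟩,
    16384, (3039, -31084, -22649, 11928), (-5317, -36572, -11394, 21930), 16384, (23820, 55592, 70365, -47939), (21492, -6279, -27929, -18100), (20560, 64425, 81281, -48646), (-3865, 6614, 11030, 707),
    true, 0, 1, 3255, (-323), 2267, 4096, (-3020), 2011⟩

/-- A leaf. -/
def leaf2 : Leaf :=
  ⟨⟨191, 76601, 200, 80000⟩, ⟨13, 11, 96, 80⟩, ⟨307, 310001, 1000, 1000000⟩,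
    16384, (-5317, -36572, -11394, 21930), (-13673, -42060, -138, 31932), 16384, (44394, 46089, 37016, -63891), (-89262, 37291, 68861, 72063), (19732, 62683, 82158, -47264), (13050, -578, -14416, -12632),
    true, 0, 1, 2810, (-358), 4096, 3842, (-3050), 2647⟩

/-- A tile. -/
def tile1 : Tile :=
  ⟨⟨191, 76601, 200, 80000⟩, ⟨13, 11, 96, 80⟩, ⟨307, 310001, 1000, 1000000⟩, 16384, (3039, -31084, -22649, 11928), (-13673, -42060, -138, 31932), 6554,
    (1024, 0), (63, 1024), 0, 3, (leaf1, ⟨(1024, 1), (226, 1024)⟩),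
    [(leaf2, ⟨(116, 1024), (1024, 0)⟩)]⟩

/-- A leaf. -/
def leaf3 : Leaf :=
  ⟨⟨76601, 38401, 80000, 40000⟩, ⟨2, 13, 15, 96⟩, ⟨307, 310001, 1000, 1000000⟩,
    16384, (1898, -30583, -21463, 12791), (-14604, -41027, 2305, 32227), 16384, (44838, 41459, 44459, -63188), (-56554, 29907, 36968, 43155), (20931, 62420, 82736, -47906), (8463, 7343, -1756, -11831),
    true, 0, 1, 4016, (-356), 3966, 4096, (-3096), 2318⟩

/-- A tile. -/
def tile2 : Tile :=
  ⟨⟨76601, 38401, 80000, 40000⟩, ⟨2, 13, 15, 96⟩, ⟨307, 310001, 1000, 1000000⟩, 16384, (1898, -30583, -21463, 12791), (-14604, -41027, 2305, 32227), 6431,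
    (1024, 0), (108, 1024), 0, 3, (leaf3, ⟨(782, 1024), (1024, 574)⟩),
    []⟩

/-- A leaf. -/
def leaf4 : Leaf :=
  ⟨⟨76601, 38401, 80000, 40000⟩, ⟨13, 11, 96, 80⟩, ⟨307, 310001, 1000, 1000000⟩,
    16384, (2497, -31413, -22948, 12643), (-1745, -39295, -14718, 19558), 16384, (25795, 54639, 69748, -49607), (15796, -3289, -23965, -13690), (25574, 62007, 78296, -52673), (-8763, 9483, 15178, 4299),
    true, 0, 1, 3220, (-317), 2308, 4096, (-2934), 2020⟩

/-- A leaf. -/
def leaf5 : Leaf :=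
  ⟨⟨76601, 38401, 80000, 40000⟩, ⟨13, 11, 96, 80⟩, ⟨307, 310001, 1000, 1000000⟩,
    16384, (-1745, -39295, -14718, 19558), (-5987, -47177, -6488, 26474), 16384, (34715, 48735, 41285, -55153), (-67854, 31919, 59615, 52778), (16564, 64554, 85538, -45048), (8632, 1828, -11139, -9269),
    true, 0, 1, 2790, (-379), 4096, 3843, (-2939), 2626⟩

/-- A tile. -/
def tile3 : Tile :=
  ⟨⟨76601, 38401, 80000, 40000⟩, ⟨13, 11, 96, 80⟩, ⟨307, 310001, 1000, 1000000⟩, 16384, (2497, -31413, -22948, 12643), (-5987, -47177, -6488, 26474), 6554,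
    (1024, 0), (1024, 382), 0, 3, (leaf4, ⟨(1024, 1), (223, 1024)⟩),
    [(leaf5, ⟨(67, 1024), (1024, 0)⟩)]⟩

/-- A leaf. -/
def leaf6 : Leaf :=
  ⟨⟨38401, 77003, 40000, 80000⟩, ⟨2, 13, 15, 96⟩, ⟨307, 310001, 1000, 1000000⟩,
    16384, (1315, -30888, -21672, 13525), (-3131, -45951, -5628, 22984), 16384, (28512, 42115, 49498, -47220), (-41085, 26732, 30508, 28982), (27783, 59973, 79075, -53738), (-4885, 12416, 7312, -842),
    true, 0, 1, 2392, (-203), 3577, 3978, (-4096), 3134⟩

/-- A tile. -/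
def tile4 : Tile :=
  ⟨⟨38401, 77003, 40000, 80000⟩, ⟨2, 13, 15, 96⟩, ⟨307, 310001, 1000, 1000000⟩, 16384, (1315, -30888, -21672, 13525), (-3131, -45951, -5628, 22984), 6431,
    (1024, 0), (1024, 156), 0, 3, (leaf6, ⟨(674, 1024), (1024, 595)⟩),
    []⟩

/-- A leaf. -/
def leaf7 : Leaf :=
  ⟨⟨38401, 77003, 40000, 80000⟩, ⟨13, 11, 96, 80⟩, ⟨307, 310001, 1000, 1000000⟩,
    16384, (1911, -31791, -23088, 13395), (5190, -41224, -18450, 13484), 16384, (27894, 53698, 68832, -51361), (4755, -1285, -18864, -3557), (32605, 59969, 75282, -58928), (-17023, 11507, 19364, 11657),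
    true, 0, 1, 3042, (-312), 2271, 4096, (-2782), 1966⟩

/-- A leaf. -/
def leaf8 : Leaf :=
  ⟨⟨38401, 77003, 40000, 80000⟩, ⟨13, 11, 96, 80⟩, ⟨307, 310001, 1000, 1000000⟩,
    16384, (5190, -41224, -18450, 13484), (8470, -50658, -13813, 13572), 16384, (25383, 48773, 45547, -46000), (-36284, 28198, 48537, 22654), (9547, 65636, 89417, -38637), (277, 3444, -7166, -1647),
    true, 0, 1, 2815, (-416), 4096, 4058, (-2905), 2619⟩

/-- A tile. -/
def tile5 : Tile :=
  ⟨⟨38401, 77003, 40000, 80000⟩, ⟨13, 11, 96, 80⟩, ⟨307, 310001, 1000, 1000000⟩, 16384, (1911, -31791, -23088, 13395), (8470, -50658, -13813, 13572), 6554,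
    (1024, 0), (1024, 13), 0, 3, (leaf7, ⟨(1024, 1), (204, 1024)⟩),
    [(leaf8, ⟨(28, 1024), (1024, 1)⟩)]⟩

/-- A leaf. -/
def leaf9 : Leaf :=
  ⟨⟨77003, 19301, 80000, 20000⟩, ⟨2, 11, 15, 80⟩, ⟨307, 310001, 1000, 1000000⟩,
    16384, (984, -31690, -22568, 14250), (5620, -42140, -19329, 13451), 16384, (30259, 51558, 67027, -52874), (2510, 492, -16225, -2166), (41694, 58853, 71265, -67413), (-25552, 10254, 21671, 20604),
    true, 0, 1, 2789, (-323), 2162, 4096, (-2639), 1926⟩

/-- A leaf. -/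
def leaf10 : Leaf :=
  ⟨⟨77003, 19301, 80000, 20000⟩, ⟨2, 11, 15, 80⟩, ⟨307, 310001, 1000, 1000000⟩,
    16384, (5620, -42140, -19329, 13451), (10255, -52591, -16090, 12652), 16384, (26939, 48191, 45491, -47401), (-30495, 26052, 39681, 18569), (9750, 65331, 90291, -38869), (-1312, 4691, -5292, -658),
    true, 0, 1, 3071, (-356), 3960, 4096, (-2760), 2552⟩

/-- A tile. -/
def tile6 : Tile :=
  ⟨⟨77003, 19301, 80000, 20000⟩, ⟨2, 11, 15, 80⟩, ⟨307, 310001, 1000, 1000000⟩, 16384, (984, -31690, -22568, 14250), (10255, -52591, -16090, 12652), 6554,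
    (1024, 0), (1024, 0), 0, 3, (leaf9, ⟨(1024, 1), (102, 1024)⟩),
    [(leaf10, ⟨(14, 1024), (1024, 0)⟩)]⟩

/-- A leaf. -/
def leaf11 : Leaf :=
  ⟨⟨19301, 15481, 20000, 16000⟩, ⟨2, 11, 15, 80⟩, ⟨307, 310001, 1000, 1000000⟩,
    16384, (260, -32038, -22757, 15138), (5108, -43121, -20305, 14431), 16384, (32663, 50437, 66131, -54881), (2273, 1334, -15220, -2329), (49997, 55629, 67107, -74426), (-31621, 14571, 26955, 24757),
    true, 0, 1, 2613, (-332), 2167, 4096, (-2498), 1900⟩

/-- A leaf. -/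
def leaf12 : Leaf :=
  ⟨⟨19301, 15481, 20000, 16000⟩, ⟨2, 11, 15, 80⟩, ⟨307, 310001, 1000, 1000000⟩,
    16384, (5108, -43121, -20305, 14431), (9957, -54204, -17853, 13724), 16384, (29295, 47663, 45309, -49628), (-30200, 25406, 38281, 18659), (11081, 65369, 91097, -40372), (-1507, 5328, -4440, -781),
    true, 0, 1, 2970, (-353), 3776, 4096, (-2566), 2444⟩

/-- A tile. -/
def tile7 : Tile :=
  ⟨⟨19301, 15481, 20000, 16000⟩, ⟨2, 11, 15, 80⟩, ⟨307, 310001, 1000, 1000000⟩, 16384, (260, -32038, -22757, 15138), (9957, -54204, -17853, 13724), 6554,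
    (1024, 0), (1024, 1), 0, 3, (leaf11, ⟨(1024, 1), (66, 1024)⟩),
    [(leaf12, ⟨(3, 1024), (1024, 0)⟩)]⟩

/-- A leaf. -/
def leaf13 : Leaf :=
  ⟨⟨15481, 38803, 16000, 40000⟩, ⟨2, 13, 15, 96⟩, ⟨307, 310001, 1000, 1000000⟩,
    16384, (-954, -31886, -22162, 16263), (7667, -53217, -15916, 15506), 16384, (36172, 41072, 49645, -54805), (-23886, 20822, 21788, 14210), (37712, 52372, 71016, -60418), (-25918, 18806, 20027, 17183),
    true, 0, 1, 3308, (-313), 3254, 4096, (-2559), 2026⟩

/-- A tile. -/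
def tile8 : Tile :=
  ⟨⟨15481, 38803, 16000, 40000⟩, ⟨2, 13, 15, 96⟩, ⟨307, 310001, 1000, 1000000⟩, 16384, (-954, -31886, -22162, 16263), (7667, -53217, -15916, 15506), 6431,
    (1024, 0), (1024, 1), 0, 3, (leaf13, ⟨(567, 1024), (1024, 729)⟩),
    []⟩

/-- A leaf. -/
def leaf14 : Leaf :=
  ⟨⟨15481, 38803, 16000, 40000⟩, ⟨13, 11, 96, 80⟩, ⟨307, 310001, 1000, 1000000⟩,
    16384, (-266, -32903, -23707, 16093), (4811, -44772, -22318, 15548), 16384, (35199, 50387, 66074, -57481), (2323, 2030, -14483, -2702), (39453, 50679, 64345, -61648), (-11415, 18485, 28480, 2406),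
    true, 0, 1, 2406, (-346), 2140, 4096, (-2317), 1818⟩

/-- A leaf. -/
def leaf15 : Leaf :=
  ⟨⟨15481, 38803, 16000, 40000⟩, ⟨13, 11, 96, 80⟩, ⟨307, 310001, 1000, 1000000⟩,
    16384, (4811, -44772, -22318, 15548), (9888, -56640, -20929, 15004), 16384, (31773, 47385, 45288, -52093), (-29365, 22190, 41008, 18419), (14070, 66715, 92662, -44107), (-4058, 4904, -3611, 1875),
    true, 0, 1, 2636, (-347), 3682, 4096, (-2467), 2421⟩

/-- A tile. -/
def tile9 : Tile :=
  ⟨⟨15481, 38803, 16000, 40000⟩, ⟨13, 11, 96, 80⟩, ⟨307, 310001, 1000, 1000000⟩, 16384, (-266, -32903, -23707, 16093), (9888, -56640, -20929, 15004), 6554,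
    (1024, 0), (1024, 0), 0, 3, (leaf14, ⟨(1024, 1), (24, 1024)⟩),
    [(leaf15, ⟨(1, 1024), (1024, 1)⟩)]⟩

/-- A leaf. -/
def leaf16 : Leaf :=
  ⟨⟨38803, 77807, 40000, 80000⟩, ⟨2, 13, 15, 96⟩, ⟨307, 310001, 1000, 1000000⟩,
    16384, (-1939, -32203, -22252, 17391), (6203, -53974, -16441, 17328), 16384, (39385, 39847, 48459, -57544), (-24484, 21598, 23206, 14381), (34610, 49241, 69328, -55993), (-23250, 20651, 21730, 13611),
    true, 0, 1, 3657, (-292), 3288, 4096, (-2334), 1966⟩

/-- A tile. -/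
def tile10 : Tile :=
  ⟨⟨38803, 77807, 40000, 80000⟩, ⟨2, 13, 15, 96⟩, ⟨307, 310001, 1000, 1000000⟩, 16384, (-1939, -32203, -22252, 17391), (6203, -53974, -16441, 17328), 6431,
    (1024, 0), (1024, 0), 0, 3, (leaf16, ⟨(524, 1024), (1024, 788)⟩),
    []⟩

/-- A leaf. -/
def leaf17 : Leaf :=
  ⟨⟨38803, 77807, 40000, 80000⟩, ⟨13, 11, 96, 80⟩, ⟨307, 310001, 1000, 1000000⟩,
    16384, (-1254, -33228, -23942, 17247), (3644, -45361, -22800, 17006), 16384, (38179, 49054, 65069, -59985), (2727, 2255, -14303, -3217), (39114, 48659, 64078, -60678), (149, 26191, 32236, -12485),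
    true, 0, 1, 2597, (-354), 2202, 4096, (-2114), 1832⟩

/-- A leaf. -/
def leaf18 : Leaf :=
  ⟨⟨38803, 77807, 40000, 80000⟩, ⟨13, 11, 96, 80⟩, ⟨307, 310001, 1000, 1000000⟩,
    16384, (3644, -45361, -22800, 17006), (8542, -57494, -21659, 16766), 16384, (35168, 46443, 44540, -55198), (-30503, 23164, 42438, 19076), (31458, 68958, 92658, -62692), (-30157, -555, -3360, 30462),
    true, 0, 1, 2319, (-357), 3354, 4096, (-2224), 2231⟩

/-- A tile. -/
def tile11 : Tile :=
  ⟨⟨38803, 77807, 40000, 80000⟩, ⟨13, 11, 96, 80⟩, ⟨307, 310001, 1000, 1000000⟩, 16384, (-1254, -33228, -23942, 17247), (8542, -57494, -21659, 16766), 6554,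
    (1024, 0), (1024, 0), 0, 3, (leaf17, ⟨(1024, 0), (1, 1024)⟩),
    [(leaf18, ⟨(3, 1024), (1024, 10)⟩)]⟩

/-- A leaf. -/
def leaf19 : Leaf :=
  ⟨⟨77807, 9751, 80000, 10000⟩, ⟨2, 11, 15, 80⟩, ⟨307, 310001, 1000, 1000000⟩,
    16384, (-2711, -33087, -23295, 18608), (1540, -44827, -21483, 18816), 16384, (41509, 46568, 63021, -62333), (3548, 1879, -14912, -3861), (41956, 46485, 62735, -62720), (2524, 27452, 29375, -14921),
    true, 0, 1, 2400, (-382), 2049, 4096, (-1807), 1715⟩

/-- A leaf. -/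
def leaf20 : Leaf :=
  ⟨⟨77807, 9751, 80000, 10000⟩, ⟨2, 11, 15, 80⟩, ⟨307, 310001, 1000, 1000000⟩,
    16384, (1540, -44827, -21483, 18816), (5791, -56567, -19671, 19023), 16384, (39838, 43578, 41717, -58728), (-28347, 24501, 42198, 16483), (35296, 66632, 90808, -65593), (-29839, -370, -3275, 30061),
    true, 0, 1, 1880, (-470), 2811, 4096, (-1804), 1835⟩

/-- A tile. -/
def tile12 : Tile :=
  ⟨⟨77807, 9751, 80000, 10000⟩, ⟨2, 11, 15, 80⟩, ⟨307, 310001, 1000, 1000000⟩, 16384, (-2711, -33087, -23295, 18608), (5791, -56567, -19671, 19023), 6554,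
    (1024, 0), (1024, 0), 0, 3, (leaf19, ⟨(1024, 1), (1, 1024)⟩),
    [(leaf20, ⟨(11, 1024), (1024, 36)⟩)]⟩

/-- The subdivision. -/
def tree : Tree :=
  (.node 0 19301 20000
    (.node 0 38401 40000
    (.node 0 76601 80000
    (.node 1 13 96
    (.tile tile0)
    (.tile tile1))
    (.node 1 13 96
    (.tile tile2)
    (.tile tile3)))
    (.node 0 77003 80000
    (.node 1 13 96
    (.tile tile4)
    (.tile tile5))
    (.tile tile6)))
    (.node 0 38803 40000
    (.node 0 15481 16000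
    (.tile tile7)
    (.node 1 13 96
    (.tile tile8)
    (.tile tile9)))
    (.node 0 77807 80000
    (.node 1 13 96
    (.tile tile10)
    (.tile tile11))
    (.tile tile12))))

def tree_ok : tree.ok pieceC 448 ⟨191, 9751, 200, 10000⟩ ⟨2, 11, 15, 80⟩ ⟨307, 310001, 1000, 1000000⟩ = true := by
  decide +kernel

def root_ok0 : root.okEnt 576 0 = true := by decide +kernel

def root_ok1 : root.okEnt 576 1 = true := by decide +kernel

def root_ok3 : root.okEnt 576 3 = true := by decide +kernel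

def root_ok5 : root.okEnt 576 5 = true := by decide +kernel

def root_ok11 : root.okEnt 576 11 = true := by decide +kernel

def root_ok12 : root.okEnt 576 12 = true := by decide +kernel

def root_ok13 : root.okEnt 576 13 = true := by decide +kernel

def root_ok14 : root.okEnt 576 14 = true := by decide +kernel

def root_ok15 : root.okEnt 576 15 = true := by decide +kernel

def leaf0_ok : leaf0.okLeaf root 640 = true := by decide +kernel

def leaf1_ok : leaf1.okLeaf root 640 = true := by decide +kernel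

def leaf2_ok : leaf2.okLeaf root 640 = true := by decide +kernel

def leaf3_ok : leaf3.okLeaf root 640 = true := by decide +kernel

def leaf4_ok : leaf4.okLeaf root 640 = true := by decide +kernel

def leaf5_ok : leaf5.okLeaf root 640 = true := by decide +kernel

def leaf6_ok : leaf6.okLeaf root 640 = true := by decide +kernel

def leaf7_ok : leaf7.okLeaf root 640 = true := by decide +kernel

def leaf8_ok : leaf8.okLeaf root 640 = true := by decide +kernel

def leaf9_ok : leaf9.okLeaf root 640 = true := by decide +kernel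

def leaf10_ok : leaf10.okLeaf root 640 = true := by decide +kernel

def leaf11_ok : leaf11.okLeaf root 640 = true := by decide +kernel

def leaf12_ok : leaf12.okLeaf root 640 = true := by decide +kernel

def leaf13_ok : leaf13.okLeaf root 640 = true := by decide +kernel

def leaf14_ok : leaf14.okLeaf root 640 = true := by decide +kernel

def leaf15_ok : leaf15.okLeaf root 640 = true := by decide +kernel

def leaf16_ok : leaf16.okLeaf root 640 = true := by decide +kernel

def leaf17_ok : leaf17.okLeaf root 640 = true := by decide +kernel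

def leaf18_ok : leaf18.okLeaf root 640 = true := by decide +kernel

def leaf19_ok : leaf19.okLeaf root 640 = true := by decide +kernel

def leaf20_ok : leaf20.okLeaf root 640 = true := by decide +kernel

theorem leaves_eq : tree.leaves =
    [leaf0, leaf1, leaf2, leaf3, leaf4, leaf5, leaf6, leaf7,
    leaf8, leaf9, leaf10, leaf11, leaf12, leaf13, leaf14, leaf15,
    leaf16, leaf17, leaf18, leaf19, leaf20] := rfl

theorem leaves_ok : ∀ F ∈ tree.leaves, Leaf.okLeaf F root 640 = true := by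
  rw [leaves_eq]
  exact all'_cons leaf0_ok (all'_cons leaf1_ok (all'_cons leaf2_ok (all'_cons leaf3_ok (
    all'_cons leaf4_ok (all'_cons leaf5_ok (all'_cons leaf6_ok (all'_cons leaf7_ok (
    all'_cons leaf8_ok (all'_cons leaf9_ok (all'_cons leaf10_ok (all'_cons leaf11_ok (
    all'_cons leaf12_ok (all'_cons leaf13_ok (all'_cons leaf14_ok (all'_cons leaf15_ok (
    all'_cons leaf16_ok (all'_cons leaf17_ok (all'_cons leaf18_ok (all'_cons leaf19_ok (
    all'_cons leaf20_ok ((fun F hF => absurd hF List.not_mem_nil))))))))))))))))))))))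

theorem root_ok : ∀ k ∈ [0, 1, 3, 5, 11, 12, 13, 14, 15], root.okEnt 576 k = true := by
  intro k hk
  simp only [List.mem_cons, List.not_mem_nil, or_false] at hk
  rcases hk with rfl | rfl | rfl | rfl | rfl | rfl | rfl | rfl | rfl
  · exact root_ok0
  · exact root_ok1
  · exact root_ok3
  · exact root_ok5
  · exact root_ok11
  · exact root_ok12
  · exact root_ok13
  · exact root_ok14
  · exact root_ok15

theorem used_ok : ∀ F ∈ tree.leaves, ∀ k ∈ Leaf.used F, root.okEnt 576 k = true := by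
  intro F hF k hk
  refine root_ok k ?_
  rw [leaves_eq] at hF
  have h : ([leaf0, leaf1, leaf2, leaf3, leaf4, leaf5, leaf6, leaf7,
    leaf8, leaf9, leaf10, leaf11, leaf12, leaf13, leaf14, leaf15,
    leaf16, leaf17, leaf18, leaf19, leaf20]).all (fun G => G.used.all fun j => [0, 1, 3, 5, 11, 12, 13, 14, 15].any (Nat.beq j)) = true := by
    decide +kernel
  simp only [List.all_eq_true, List.any_eq_true] at h
  obtain ⟨j, hj, e⟩ := h F hF k hk
  exact Nat.eq_of_beq_eq_true e ▸ hj

/-- **The signs on the box.** -/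
theorem signs {a I u X η : ℝ} (hf : Facts pieceC a I u X η) (hu : In1 ⟨191, 9751, 200, 10000⟩ u)
    (hI : In1 ⟨2, 11, 15, 80⟩ I) (ha : In1 ⟨307, 310001, 1000, 1000000⟩ a) :
    ClosedGen.SignsMult a (rd (mk4 X u I a)) (rv (mk4 X u I a)) (rg (mk4 X u I a) η)
      (rW (mk4 X u I a) η) (rW1 (mk4 X u I a) η) (rR (mk4 X u I a))
      (rNum true (mk4 X u I a) η) :=
  Tree.signs (T := tree) (R := root) tree_ok leaves_ok used_ok hf hu hI ha

end Vale.Agent.P100.Calib.MidTail.BoxII1U3b
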