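import Vale.Agent.P100.Calib.SlabMidTailPieces

/-!
# The signs on a box of the middle tail

`u, I, a` lie in the box of `root`; the surrogates and leaves are checked by the kernel.
-/

namespace Vale.Agent.P100.Calib.MidTail.BoxII1U3c

open Pack EndAll Band

/-- A surrogate. -/
def root_s0 : List (List (List (List (List ℤ)))) :=
  [[[[[6458797617,(-330229140),2027569,(-5362),4],[(-347002968),7917080,(-29923),(-18),1],[5135968,(-57194),(-133),3],[(-25428),(-151),7],[(-81),6],[2]],[[(-189143734),775506,(-2112),9],[2691017,(-2289),54],[14060,(-178),(-1)],[(-558),2],[6]],[[(-328994),20564,(-91)],[18953,(-485),2],[(-287),5],[2]],[[14259,18],[(-220),(-1)],[1]],[[46],[(-1)]]],[[[3243887036,(-274432131),1518087,(-4181),5],[(-250274180),6541501,(-24339),5],[4101492,(-53294),(-7),1],[(-24944),66,3],[19,2]],[[(-171161249),(-54615),4021,(-8)],[1908898,26437,(-143)],[28747,(-648),1],[(-745),5],[6]],[[(-60791),16429,(-56)],[8745,(-301),1],[(-59),2],[(-1)]],[[1815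8,(-5)],[(-357)],[2]],[[57],[(-1)]]],[[[(-505098848),(-70719502),293635,(-699),1],[(-38458570),1628660,(-4494),(-1)],[860191,(-13848),(-1)],[(-6178),33],[11]],[[(-54578387),(-251736),2719,(-3)],[543701,14992,(-58)],[10306,(-212)],[(-197)]],[[37751,4742,(-12)],[1139,(-78)],[15]],[[7098,(-6)],[(-143)]],[[19]]],[[[(-357292660),(-9132359),27771,(-21)],[1496121,203732,(-276)],[45238,(-1351)],[(-271)]],[[(-9453860),(-48001),387],[115110,1902],[1099]],[[31795,509],[(-1004)]],[[1246]]],[[[(-57149263),(-547440),1107],[937004,9532],[(-5853)]],[[(-780048),(-2849)],[5391]],[[7555]]],[[[(-3382344),(-8296)],[62951]],[[(-12936)]]],[[[(-52076)]]]],[[[[3377194609,(-157636339),607339,887,(-17)],[(-178339378),3414595,(-1117),(-124),1],[2614853,(-17690),(-270),2],[(-13217),(-178),4],[(-30),3],[1]],[[(-90660606),(-1369694),7714,(-17)],[665895,36852,(-143)],[12326,(-404)],[(-207),1],[1]],[[(-1521810),2684,12],[30468,(-9)],[(-224)]],[[(-4087),60],[121,(-1)],[(-1)]],[[31],[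(-1)]]],[[[1869555207,(-143338023),606348,(-860),(-6)],[(-140967806),3419369,(-9915),(-29)],[2447450,(-31604),(-13)],[(-18898),81],[57]],[[(-100199093),(-1646951),9634,(-21)],[733586,46637,(-180)],[14533,(-450)],[(-220)]],[[(-1760782),952,30],[36448,38],[(-190)]],[[(-5742),58],[118]],[[28]]],[[[(-184708898),(-41656359),158075,(-381)],[(-26007491),1012919,(-3208)],[602643,(-9461)],[(-5079)]],[[(-46768198),(-532915),2549],[601750,12683],[1041]],[[(-708585),499],[12803]],[[(-1760)]]],[[[(-197025422),(-5809094),19692],[326062,129082],[44709]],[[(-10859276),(-56986)],[168553]],[[(-113197)]]],[[[(-34863233),(-330214)],[500175]],[[(-1077716)]]],[[[(-2006532)]]]],[[[[183478465,(-6412153),(-71744),821,(-5)],[(-8048922),(-18364),3762,(-34)],[47085,3798,(-81)],[1043,(-73)],[(-22)]],[[(-1537005),(-301203),511,1],[(-201752),7277,(-6)],[4933,(-56)],[(-40)]],[[(-182028),(-2933),5],[2319,57],[9]],[[(-2497),(-9)],[37]],[[(-10)]]],[[[117550702,(-8266573),(-1989),(-49)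],[(-8599589),162837,(-151)],[142351,(-1353)],[(-1047)]],[[(-4622928),(-262789),239],[(-82644),4748],[2628]],[[(-213704),(-2197)],[2258]],[[(-2054)]]],[[[(-15438742),(-2273707),(-5378)],[(-1270788),34200],[25198]],[[(-2981603),(-73643)],[4702]],[[(-76436)]]],[[[(-10326260),(-378210)],[(-50319)]],[[(-734602)]]],[[[(-1961278)]]]],[[[[(-2383163),115812,(-840),1],[126525,(-3167),11],[(-2147),22],[12]],[[64452,1283,(-10)],[(-596),(-30)],[(-8)]],[[1739,(-1)],[(-27)]],[[9]]],[[[(-1657614),119725,(-697)],[113805,(-2591)],[(-1696)]],[[92943,1003],[(-721)]],[[1527]]],[[[171490,31767],[21737]],[[37763]]],[[[211567]]]]]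

/-- A surrogate. -/
def root_s1 : List (List (List (List (List ℤ)))) :=
  [[[[[27025648437,(-212286207),81393,4428,(-27)],[(-757015041),4303320,12250,(-224),1],[8405777,(-20173),(-539),5],[(-41668),(-395),11],[(-54),9],[3]],[[(-245746231),2970509,(-12663),32],[8065177,(-90423),446,(-1)],[(-115745),1409,(-6)],[1095,(-14)],[(-8)]],[[(-778703),2201,1],[19515,(-76)],[(-280)],[2]],[[1430,5],[(-12)]],[[(-2)]]],[[[35867338813,(-279531552),288097,3368,(-23)],[(-994595157),5951875,2063,(-155),1],[11076863,(-45971),(-266),2],[(-62029),(-29),4],[100,3],[1]],[[(-334962944),3217060,(-8614),16],[10078847,(-79310),264],[(-122262),970,(-3)],[879,(-7)],[(-4)]],[[(-224837),(-2945),(-1)],[(-417),29],[(-4)],[1]],[[1611,7],[(-12)]],[[(-2)]]],[[[16711059641,(-129460807),192827,918,(-6)],[(-456614676),2825539,(-2358),(-31)],[5054967,(-24761),(-29)],[(-28780),50],[49]],[[(-160462551),1340603,(-2441),2],[4585791,(-29244),57],[(-51211),260],[271]],[[38137,(-2058)],[(-4207),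28],[44]],[[548,2],[(-4)]],[[(-1)]]],[[[3386448745,(-26385115),53797,72],[(-90677746),592245,(-841)],[992313,(-4498)],[(-4536)]],[[(-33174770),247675,(-357)],[896568,(-4718)],[(-8768)]],[[22093,(-360)],[(-960)]],[[57]]],[[[344165859,(-2741069),6204],[(-8991227),52925],[80267]],[[(-3428005),22703],[85435]],[[2518]]],[[[18104026,(-129311)],[(-387434)]],[[(-187045)]]],[[[386129]]]],[[[[13685989926,(-120571290),(-156563),4883,(-28)],[(-409415706),1912353,19825,(-231),1],[4393436,7552,(-582),4],[(-15685),(-502),7],[(-120),6],[2]],[[17358788,811747,(-5945),17],[698133,(-26018),150],[(-20230),353,(-1)],[221,(-2)],[(-1)]],[[110152,(-1657),1],[(-6111),46],[113],[(-1)]],[[(-502),(-4)],[1]],[[2]]],[[[17949217630,(-158132390),123618,2113,(-11)],[(-532468845),3197460,3769,(-82)],[6047584,(-21173),(-166)],[(-33191),(-67)],[31]],[[39057048,405686,(-2502),9],[(-61060),(-11822),65],[(-7476),151],[92]],[[(-137402),267,2],[2147,12],[18]],[[(-561),(-3)]],[[2]]],[[[82402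15720,(-68516340),89859,269],[(-236687503),1422580,(-693)],[2638069,(-9583)],[(-12266)]],[[18557238,84932,(-452)],[(-153733),(-2505)],[(-1429)]],[[(-93341),382],[1979]],[[(-177)]]],[[[1643469262,(-12441640),15188],[(-44820114),221899],[420594]],[[3591067,5730],[(-34890)]],[[(-15913)]]],[[[164907215,(-1034637)],[(-3920637)]],[[348818]]],[[[8344137]]]],[[[[548790015,(-12336634),(-138526),1836,(-8)],[(-32374637),(-13330),7550,(-61)],[335744,6952,(-144)],[256,(-131)],[(-39)]],[[15829360,(-242684),1711,(-4)],[(-541514),8519,(-43)],[9195,(-109)],[(-75)]],[[24054,434],[445,(-9)],[(-15)]],[[(-55),1],[2]]],[[[831296176,(-21419261),2848,457],[(-47603185),409826,1256],[671154,(-1368)],[(-3001)]],[[16247538,(-166361),710],[(-486483),3998],[5155]],[[54188,251],[(-148)]],[[(-60)]]],[[[393854526,(-8607923),9479],[(-19884073),152654],[237534]],[[6342462,(-46135)],[(-159966)]],[[20713]]],[[[81512222,(-1197812)],[(-3084654)]],[[915778]]],[[[7056440]]]],[[[[(-148174872),(-686385),1061],[1163539,15446,(-9)],[5954,(-89)],[(-71)]],[[(-1089396),(-9444),9],[2251,148],[135]],[[2699,(-30)],[(-97)]],[[31]]],[[[(-167031042),(-815540),918],[1238081,13352],[5923]],[[(-1233813),(-8161)],[240]],[[2814]]],[[[(-56530524),(-269461)],[328777]],[[(-361604)]]],[[[(-5104475)]]]],[[[[(-9971239)],[172875],[(-836)]],[[(-188373)],[2315]],[[(-945)]]],[[[(-10980396)],[144876]],[[(-157732)]]],[[[(-3254025)]]]]]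

/-- A surrogate. -/
def root_s3 : List (List (List (List (List ℤ)))) :=
  [[[[[860518695,(-110126971),1018958,(-5595),24],[(-104761524),4182714,(-35025),203,(-1)],[2719072,(-67515),563,(-3)],[(-33039),662,(-6)],[246,(-5)],[(-1)]],[[81947265,(-291023),5091,(-40)],[(-1541443),9191,(-210),1],[14283,(-269),4],[(-176),4],[2]],[[(-162106),319,6],[670,(-2)],[24]],[[(-5025),11],[118],[(-1)]],[[(-12)]]],[[[19088837,(-111934134),1103391,(-6056),26],[(-80282389),4208201,(-36801),210,(-1)],[2367388,(-67333),574,(-3)],[(-29575),648,(-4)],[217,(-4)],[(-1)]],[[55704961,(-153851),4930,(-41)],[(-908272),6636,(-205),1],[7444,(-237),3],[(-126),3],[1]],[[(-50313),652,2],[(-780),(-11)],[20]],[[(-4124),11],[103],[(-1)]],[[(-13)]]],[[[(-791951931),(-35227424),403124,(-2264),8],[(-4653191),1354302,(-13067),63],[502718,(-21793),167],[(-7470),175],[49]],[[8533647,2614,1637,(-12)],[(-39750),1179,(-53)],[(-653),(-41)],[(-9)]],[[39949,307,(-1)],[(-976),(-9)],[1]],[[(-1028),3],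[27]],[[(-4)]]],[[[(-409612191),(-3370370),60268,(-336)],[7368520,157535,(-1763)],[(-24618),(-2460)],[(-412)]],[[609870,4440,195],[21826,(-126)],[(-500)]],[[15735,52],[(-243)]],[[(-121)]]],[[[(-66795805),55167,3435],[1575414,3975],[(-11662)]],[[11242,766],[2115]],[[2149]]],[[[(-4508683),20593],[98078]],[[5458]]],[[[(-95063)]]]],[[[[913133479,(-86140707),588187,(-2671),15],[(-80776971),2596728,(-14940),83],[1686968,(-31740),187,(-1)],[(-15956),224,(-1)],[83,(-1)]],[[33207762,(-265104),1725,(-14)],[(-919353),11101,(-87)],[13928,(-215),1],[(-155),2],[1]],[[510218,1115,(-17)],[(-9665),(-54)],[75,1]],[[2367],[(-65)],[1]],[[4]]],[[[(-147492290),(-68252069),468990,(-2014),10],[(-41767026),2044197,(-11438),54],[1061240,(-24113),118],[(-10101),135],[43]],[[23119711,(-286584),1887,(-10)],[(-691588),11020,(-58)],[11549,(-138)],[(-100)]],[[436844,511,(-12)],[(-8957),(-38)],[60]],[[2291,(-1)],[(-51)]],[[3]]],[[[(-686019171),(-14262539),105142,(-360)],[7102492,432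270,(-2052)],[48963,(-4153)],[(-815)]],[[2116627,(-98763),512],[(-104800),2759],[2371]],[[115851,(-29)],[(-2506)]],[[664]]],[[[(-252069355),(-746805),8602],[5261076,27936],[(-34055)]],[[(-924073),(-10711)],[4920]],[[14211]]],[[[(-33913222),47660],[692860]],[[(-171681)]]],[[[(-1937299)]]]],[[[[439328341,(-26139201),119385,(-41)],[(-27467762),643631,(-1607)],[464289,(-5777),3],[(-3428),15],[8]],[[(-3895341),(-242921),1401],[(-112444),7614,(-18)],[4228,(-68)],[(-39)]],[[(-42901),(-752),4],[574,22],[6]],[[(-33),(-1)],[1]]],[[[73254207,(-18691113),89678,(-10)],[(-14141358),469323,(-955)],[278243,(-3530)],[(-1911)]],[[(-6223500),(-183644),916],[(-4293),4896],[2308]],[[(-53568),(-502)],[560]],[[(-45)]]],[[[(-140106842),(-3078828),15977],[1112403,77489],[18463]],[[(-3293091),(-32538)],[35934]],[[(-18880)]]],[[[(-40566036),(-129385)],[717018]],[[(-615091)]]],[[[(-3635300)]]]],[[[[35657748,(-1986320),13411,(-20)],[(-2141315),55597,(-212)],[38014,(-501)],[(-275)]],[[(-592892),(-20419),150],[(-640),548],[220]],[[(-12006),(-39)],[174]],[[(-46)]]],[[[5787502,(-1198413),7998],[(-927112),32046],[19573]],[[(-716648),(-10977)],[4803]],[[(-8472)]]],[[[(-8865350),(-99704)],[106872]],[[(-240971)]]],[[[(-1486261)]]]]]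

/-- A surrogate. -/
def root_s5 : List (List (List (List (List ℤ)))) :=
  [[[[[7601558632,(-325658167),1604835,(-1276),(-6)],[(-372950978),6929480,(-13408),(-68)],[4935620,(-29863),(-279),2],[(-13979),(-432),6],[(-223),7],[3]],[[(-308890788),3184104,(-11632),23],[8015575,(-69333),255,(-1)],[(-79152),638,(-3)],[358,(-4)],[(-1)]],[[710122,10926,(-59)],[(-1553),(-325),1],[(-217),4],[3]],[[11659,(-55)],[(-255),1],[2]],[[(-11)]]],[[[5098383151,(-302197680),1388763,(-746),(-5)],[(-318932988),6640009,(-11975),(-65)],[4780065,(-36409),(-218),1],[(-21281),(-255),3],[(-111),4],[1]],[[(-295925201),2700424,(-8081),16],[7649552,(-55065),162],[(-75452),453,(-1)],[335,(-2)]],[[960423,9835,(-53)],[(-10190),(-267),1],[(-51),2],[1]],[[13637,(-64)],[(-316),1],[2]],[[(-13)]]],[[[280323719,(-93025151),377822,174,(-2)],[(-76394210),2140007,(-2610),(-24)],[1459501,(-13958),(-64)],[(-9085),(-42)],[(-8)]],[[(-96510157),784711,(-1989),4],[2557976,(-16233),40],[(-26934),137]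,[130]],[[421968,3072,(-16)],[(-6601),(-72)],[31]],[[5163,(-22)],[(-111)]],[[(-5)]]],[[[(-290118194),(-13515012),52802,88],[(-4127091),331468,(-218)],[166511,(-2005)],[(-1119)]],[[(-14842810),114946,(-301)],[401514,(-2487)],[(-3869)]],[[96019,260],[(-2071)]],[[799]]],[[[(-61215473),(-970547),3690],[635729,22253],[4000]],[[(-1090480),8039],[23367]],[[11524]]],[[[(-4319162),(-29335)],[62602]],[[(-22530)]]],[[[(-89054)]]]],[[[[3596043261,(-160918089),721013,(-341),(-6)],[(-180439120),3298740,(-3484),(-68)],[2368089,(-10981),(-225),1],[(-5946),(-282),3],[(-123),3],[1]],[[(-125133244),(-144725),782,12],[2227044,3741,37],[(-12623),5,(-1)],[10,(-1)]],[[(-967600),4805,(-1)],[21389,(-75)],[(-184)]],[[417,25],[5]],[[21]]],[[[2212773238,(-149915212),659320,(-699),(-2)],[(-152163541),3343884,(-7233),(-23)],[2397154,(-21825),(-71)],[(-13055),(-74)],[(-28)]],[[(-130152764),(-444177),3023,5],[2225956,13086,(-14)],[(-11023),(-84)],[(-22)]],[[(-1135084),4791,7],[2613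7,(-51)],[(-167)]],[[76,26],[9]],[[19]]],[[[(-47344706),(-46094774),179730,(-73)],[(-33774581),1092686,(-1971)],[718440,(-7668)],[(-4861)]],[[(-52696155),(-188941),1184],[973743,4741],[(-4845)]],[[(-447210),1607],[8855]],[[123]]],[[[(-191947325),(-6800184),26155],[(-866007),157871],[73396]],[[(-10944022),(-18075)],[198347]],[[(-68067)]]],[[[(-37912160),(-424425)],[471162]],[[(-1045621)]]],[[[(-2482281)]]]],[[[[209866382,(-8226576),(-17978),413,(-3)],[(-9531218),73324,1955,(-19)],[78874,2110,(-49)],[718,(-51)],[(-19)]],[[(-4616252),(-179031),481],[(-50626),4305,(-6)],[2365,(-31)],[(-21)]],[[(-148808),(-987),2],[2647,18],[(-7)]],[[(-1250),(-1)],[19]],[[(-3)]]],[[[129318968,(-8743086),16025,(-53)],[(-9019111),174237,(-178)],[138703,(-882)],[(-630)]],[[(-6482660),(-157524),166],[24481,2632],[1022]],[[(-163542),(-824)],[2185]],[[(-1029)]]],[[[(-10928036),(-2446283),(-269)],[(-1613244),42443],[32349]],[[(-3114524),(-47205)],[24082]],[[(-55578)]]],[[[(-10822059),(-378265)],[(-62087)]],[[(-676750)]]],[[[(-2016086)]]]],[[[[(-2482402),120651,(-875),1],[131806,(-3298),11],[(-2236),23],[12]],[[77401,778,(-7)],[(-1207),(-20)]],[[1421,(-3)],[(-24)]],[[5]]],[[[(-1726580),124696,(-726)],[118537,(-2696)],[(-1765)]],[[103461,592],[(-1192)]],[[1232]]],[[[178407,33056],[22620]],[[39101]]],[[[220139]]]]]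

/-- A surrogate. -/
def root_s11 : List (List (List (List (List ℤ)))) :=
  [[[[[6169439151,(-48817893),100772,19],[(-138872246),791932,(-932)],[1152262,(-3886),1],[(-3645),(-1)],[(-3)]],[[(-19924860),125401,(-170)],[445045,(-2098),2],[(-4232),17],[24]],[[(-284059),2100,(-4)],[6377,(-34)],[(-55)]],[[285,(-2)],[(-6)]],[[2]]],[[[888438647,(-7325821),15932,4],[(-20030186),118245,(-141)],[161240,(-522)],[(-409),(-1)],[(-2)]],[[(-758535),393,14],[16473,(-20)],[(-235),1],[3]],[[(-40357),296,(-1)],[909,(-5)],[(-8)]],[[(-40)],[1]]],[[[36626504,(-328880),786],[(-828639),5257,(-6)],[6221,(-18)],[(-6)]],[[77308,(-1004),3],[(-1782),14],[6]],[[(-1264),9],[30]],[[(-4)]]],[[[320999,(-3830),11],[(-7364),60],[39]],[[2675,(-32)],[(-61),1]],[[6]]]],[[[[2190281052,(-15782826),28339],[(-49136629),259157,(-296)],[433655,(-1570),1],[(-1894),4],[4]],[[27269683,(-201660),377],[(-612321),3294,(-4)],[5307,(-19)],[(-21)]],[[15822,(-142)],[(-350),2],[2]],[[(-519),4],[11]],[[(-1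)]]],[[[214097522,(-1484019),2488],[(-4796761),24499,(-27)],[43323,(-159)],[(-206),1],[1]],[[3874226,(-28319),51],[(-86958),458,(-1)],[750,(-3)],[(-3)]],[[13792,(-102)],[(-302),2],[2]],[[(-26)],[1]]],[[[3614569,(-17573),6],[(-80180),307],[850,(-4)],[(-7)]],[[121286,(-841),2],[(-2718),15],[27]],[[823,(-6)],[(-20)]],[[2]]],[[[(-64200),766,(-2)],[1473,(-12)],[(-8)]],[[(-535),6],[12]],[[(-1)]]]],[[[[(-216416015),1683248,(-3394),(-1)],[4868322,(-27364),32],[(-40882),142],[142]],[[1967535,(-13222),20],[(-44039),213],[394,(-2)],[(-2)]],[[37283,(-266)],[(-827),4],[7]],[[103,(-1)],[(-2)]]],[[[(-50161770),382832,(-752)],[1127624,(-6240),7],[(-9594),30],[31]],[[(-274590),2198,(-4)],[6184,(-27)],[(-36)]],[[1794,(-16)],[(-50)]],[[16]]],[[[(-2187974),16671,(-33)],[49184,(-272)],[(-420)]],[[(-27353),208],[615]],[[(-114)]]]],[[[[(-74763638),548201,(-1013)],[1678268,(-8983),10],[(-14656),49],[57]],[[(-930741),6855,(-12)],[20899,(-101)],[(-164)]],[[(-2532),14],[41]],[[14]]],[[[(-5639055),41406,(-77)],[126599,(-680)],[(-1107)]],[[(-93996),691],[2111]],[[(-587)]]]],[[[[(-3783982),27405,(-50)],[84914,(-452)],[(-750)]],[[(-78844),572],[1772]],[[(-657)]]]]]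

/-- A surrogate. -/
def root_s12 : List (List (List (List (List ℤ)))) :=
  [[[[[(-700209228),(-12851338),137736,(-339)],[(-1115427),642020,(-4120),7],[399946,(-10598),43],[(-6193),79],[40]],[[36359528,(-173712),(-206),1],[(-847865),1894,10],[7077,9],[(-17)]],[[(-6800),624,(-5)],[949,(-28)],[(-28)]],[[(-1626),8],[39]],[[(-2)]]],[[[(-667609390),(-2799004),56616,(-167)],[9800824,195425,(-1601),3],[36868,(-3467),17],[(-1587),27],[12]],[[12158864,(-73996),66],[(-298971),1204],[2778,(-6)],[(-11)]],[[32369,38,(-2)],[(-525),(-6)],[(-1)]],[[(-437),3],[11]],[[(-1)]]],[[[(-187561479),145342,8389,(-30)],[3715139,17301,(-240)],[(-19428),(-406),2],[(-75),3],[1]],[[1617660,(-11759),27],[(-41320),226],[398,(-1)],[(-2)]],[[11810,(-45)],[(-252)],[1]],[[(-35)],[1]]],[[[(-22041697),72752,525,(-2)],[491482,(-106),(-14)],[(-3994),(-16)],[8]],[[101719,(-818),2],[(-2517),18],[31]],[[1413,(-8)],[(-33)]]],[[[(-1139756),5579,12],[27357,(-54)],[(-216)]],[[2519,(-33)],[(-102)]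],[[75]]],[[[(-21343),112],[477]],[[43]]]],[[[[(-182188309),(-18349535),151512,(-326)],[(-12711120),652701,(-3557),5],[424415,(-8699),31],[(-4920),56],[28]],[[5372238,(-74432),408,(-1)],[(-188834),2669,(-13)],[3170,(-40)],[(-31)]],[[146795,(-204),(-4)],[(-3147),(-3)],[26]],[[580,(-2)],[(-13)]],[[(-1)]]],[[[(-449070314),(-2449304),40429,(-110)],[6600157,132137,(-1011),2],[13573,(-2100),8],[(-827),13],[6]],[[(-869860),(-18353),201],[(-2536),847,(-4)],[509,(-11)],[(-7)]],[[45579,(-198)],[(-1080),2],[10]],[[220,(-1)],[(-5)]]],[[[(-125486996),287797,3593,(-12)],[2698351,3468,(-94)],[(-19546),(-141)],[15]],[[(-792889),1753,21],[16898,38],[(-72)]],[[3812,(-28)],[(-113)]],[[31]]],[[[(-13293524),66114,91],[317060,(-750)],[(-2655)]],[[(-118256),523],[2476]],[[11]]],[[[(-600496),3572],[14371]],[[(-6225)]]],[[[(-9626)]]]],[[[[48628995,(-6119032),43519,(-83)],[(-5827460),184282,(-887),1],[127163,(-2143),6],[(-1219),11],[6]],[[(-1777880),(-50612),451,(-1)],[(-5653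),1743,(-9)],[816,(-20)],[(-10)]],[[(-12652),(-63),1],[195,3],[1]],[[62],[(-1)]],[[1]]],[[[(-78053086),(-614603),7986,(-18)],[1079400,25491,(-166)],[2144,(-340)],[(-125)]],[[(-1547346),(-2956),82],[28676,221],[(-97)]],[[(-7886),1],[126]],[[11]]],[[[(-17797201),48678,395],[395787,83],[(-2955)]],[[(-296397),978],[6267]],[[(-1448)]]],[[[(-1234245),6748],[29382]],[[(-19760)]]],[[[(-26431)]]]],[[[[5378391,(-413208),2803,(-5)],[(-424294),11800,(-53)],[8282,(-128)],[(-74)]],[[(-142812),(-5782),47],[(-1416),180],[89]],[[(-3355),(-25)],[43]],[[(-21)]]],[[[(-4266718),(-18983),315],[72390,898],[(-188)]],[[(-123273),(-36)],[2358]],[[(-1252)]]],[[[(-618286),2822],[14486]],[[(-13696)]]],[[[(-18144)]]]]]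

/-- A surrogate. -/
def root_s13 : List (List (List (List (List ℤ)))) :=
  [[[[[(-40663915),1366263,16835,(-169)],[1952082,(-9449),(-402),1],[(-26461),91,(-1)],[290,(-6)],[(-4)]],[[1609706,26916,(-508),2],[(-25460),(-732),8],[325],[(-8)]],[[15117,(-731),5],[(-584),16],[5]],[[(-384),4],[10]],[[1]]],[[[(-46115530),2656986,2377,(-109)],[2897871,(-48435),(-133),1],[(-45543),453,(-2)],[410,(-6)],[(-4)]],[[3003933,(-5282),(-266),2],[(-73310),46,4],[914,(-5)],[(-10)]],[[(-3268),(-511),4],[(-104),12],[1]],[[(-360),4],[10]],[[1]]],[[[(-5568282),1319711,(-4851),(-12)],[1040166,(-30448),60],[(-19807),286,(-1)],[169,(-2)],[(-1)]],[[1491424,(-14124),8],[(-42081),318],[521,(-3)],[(-4)]],[[(-9337),(-74),1],[189,2],[(-2)]],[[(-111),1],[3]]],[[[5579552,185259,(-1059)],[10841,(-4847),12],[(-1756),37],[16]],[[221760,(-2740),10],[(-6650),62],[72]],[[(-2427),1],[59]],[[(-15)]]],[[[1087596,9709,(-61)],[(-16985),(-239)],[43]],[[13369,(-180)],[(-299)]],[[(-269)]]],[[[6658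9,127],[(-1136)]],[[34]]],[[[919]]]],[[[[(-34834994),1440548,1411,(-66)],[1889562,(-31414),(-41),1],[(-32450),383,(-1)],[327,(-5)],[(-3)]],[[998112,24725,(-226),1],[(-10219),(-604),4],[35,4],[(-2)]],[[22160,(-156)],[(-548),3],[6]],[[9]]],[[[(-35212739),2194229,(-6992),(-36)],[2381637,(-55391),123],[(-43963),632,(-1)],[417,(-4)],[(-2)]],[[1859636,16305,(-204)],[(-34021),(-457),3],[281,3],[(-2)]],[[23577,(-179)],[(-616),3],[5]],[[(-1)]]],[[[(-3361151),968554,(-5597)],[754152,(-26785),87],[(-16594),256],[141]],[[1049169,1480,(-50)],[(-23325),(-75)],[173]],[[8656,(-59)],[(-198)]],[[(-4)]]],[[[4182836,127555,(-924)],[(-6687),(-3613)],[(-1310)]],[[225204,(-305)],[(-4809)]],[[1266]]],[[[803872,5873],[(-12984)]],[[20928]]],[[[48801]]]],[[[[(-1965093),77695,253,(-5)],[109609,(-1768),(-2)],[(-2020),31],[26]],[[30446,2676,(-18)],[690,(-70)],[(-17)]],[[2033,4],[(-50)]],[[17]]],[[[(-1993607),124211,(-362),(-3)],[137908,(-3395),5],[(-2720),34],[23]],[[86118,2321,(-16)],[(-871),(-55)],[(-8)]],[[2525,1],[(-47)]],[[13]]],[[[(-126646),52591,(-292)],[38719,(-1433)],[(-906)]],[[58446,507],[(-887)]],[[905]]],[[[257431,5035],[(-2157)]],[[12485]]],[[[35088]]]],[[[[77575,(-3770),27],[(-4119),103],[70,(-1)]],[[(-2419),(-24)],[38,1]],[[(-44)],[1]]],[[[53956,(-3897),23],[(-3704),84],[55]],[[(-3233),(-18)],[37]],[[(-39)]]],[[[(-5575),(-1033)],[(-707)]],[[(-1222)]]],[[[(-6879)]]]]]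

/-- A surrogate. -/
def root_s14 : List (List (List (List (List ℤ)))) :=
  [[[[[(-39037358),1311613,16161,(-162)],[1873999,(-9072),(-385),1],[(-25403),88,(-1)],[278,(-6)],[(-4)]],[[1382667,31303,(-420),2],[(-16632),(-740),6],[206,1],[(-6)]],[[20948,(-594),3],[(-662),13],[7]],[[(-309),1],[7]],[[(-1)]]],[[[(-44270900),2550707,2282,(-104)],[2781958,(-46497),(-128),1],[(-43721),434,(-2)],[393,(-6)],[(-3)]],[[2699291,5555,(-247),1],[(-58785),(-153),3],[694,(-3)],[(-8)]],[[8872,(-512),3],[(-396),12],[5]],[[(-358),2],[9]],[[(-1)]]],[[[(-5345558),1266920,(-4657),(-12)],[998562,(-29230),58],[(-19015),275,(-1)],[163,(-2)],[(-1)]],[[1409463,(-8271),(-11)],[(-36249),183],[421,(-3)],[(-3)]],[[(-2972),(-127),1],[14,3]],[[(-144),1],[3]]],[[[5356345,177847,(-1017)],[10404,(-4654),11],[(-1686),35],[15]],[[235288,(-1886),6],[(-6341),45],[63]],[[(-1437),(-9)],[36]],[[(-24)]]],[[[1044095,9321,(-59)],[(-16310),(-230)],[41]],[[17214,(-140)],[(-340)]],[[(-224)]]],[[[6393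8,122],[(-1091)]],[[252]]],[[[883]]]],[[[[(-33441592),1382925,1355,(-64)],[1813980,(-30157),(-40),1],[(-31151),368,(-1)],[314,(-5)],[(-3)]],[[818837,29500,(-212)],[(-2246),(-709),4],[(-98),6]],[[25265,(-51),(-1)],[(-570),1],[6]],[[98,(-1)],[(-3)]]],[[[(-33804250),2106457,(-6712),(-34)],[2286381,(-53174),118],[(-42204),607,(-1)],[400,(-4)],[(-2)]],[[1644388,24444,(-225)],[(-23149),(-666),3],[93,5]],[[30114,(-108)],[(-737),1],[6]],[[96,(-1)],[(-2)]]],[[[(-3226759),929811,(-5374)],[723989,(-25717),84],[(-15931),246],[136]],[[993896,5297,(-68)],[(-19419),(-166)],[106]],[[12541,(-51)],[(-269)]],[[25]]],[[[4015553,122461,(-888)],[(-6441),(-3472)],[(-1259)]],[[233033,183],[(-4606)]],[[2018]]],[[[771827,5644],[(-12479)]],[[23067]]],[[[46900]]]],[[[[(-1886489),74586,243,(-5)],[105226,(-1697),(-2)],[(-1939),30],[25]],[[21353,2882,(-17)],[1101,(-77)],[(-26),1]],[[2078,16],[(-47)]],[[26]]],[[[(-1913885),119241,(-348),(-3)],[132392,(-3260),5],[(-2612),32],[22]],[[74724,2737,(-16)],[(-290),(-64)],[(-17)]],[[2798,9],[(-47)]],[[21]]],[[[(-121593),50492,(-281)],[37167,(-1377)],[(-870)]],[[55718,686],[(-693)]],[[1074]]],[[[247184,4839],[(-2073)]],[[12934]]],[[[33722]]]],[[[[74474,(-3619),26],[(-3954),99],[67,(-1)]],[[(-2014),(-40)],[19,1]],[[(-54)],[1]]],[[[51800,(-3741),22],[(-3556),81],[53]],[[(-2904),(-31)],[23]],[[(-48)]]],[[[(-5359),(-993)],[(-679)]],[[(-1180)]]],[[[(-6611)]]]]]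

/-- A surrogate. -/
def root_s15 : List (List (List (List (List ℤ)))) :=
  [[[[[(-3848415490),(-29597986),370827,(-670),(-1)],[58715424,559599,(-2691),(-4)],[(-581410),3155,(-38)],[8447,(-110)],[(-83),1]],[[(-7222732),722050,(-5248),11],[125471,(-10321),48],[5592,(-33)],[(-137),1],[1]],[[831115,(-8354),29],[(-17227),127],[102]],[[(-2956),25],[62]],[[3]]],[[[(-4035937888),11161243,67665,(-109),(-1)],[81882890,(-149291),(-241),(-3)],[(-737523),2876,(-16)],[5233,(-42)],[(-36)]],[[31431247,(-44442),(-1135),4],[(-751058),959,14],[8388,(-23)],[(-60)]],[[305659,(-2938),10],[(-6966),52],[56]],[[(-1205),10],[28]],[[1]]],[[[(-875030103),4016168,1765,2],[18888294,(-63855),68,(-1)],[(-176316),703,(-2)],[1167,(-6)],[(-6)]],[[7981078,(-38360),(-86),1],[(-192244),614,1],[1856,(-5)],[(-10)]],[[51179,(-456),1],[(-1222),8],[10]],[[(-167),1],[4]]],[[[(-77770158),407576,(-359),2],[1748391,(-7209),11],[(-17646),57],[95]],[[744221,(-4277),(-1)],[(-17723),81],[185]],[[44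29,(-36)],[(-105)]],[[(-10)]]],[[[(-3017690),16366,(-20)],[71187,(-234)],[(-615)]],[[30669,(-226)],[(-842)]],[[195]]],[[[(-34300),86],[639]],[[592]]],[[[388]]]],[[[[(-3645301526),(-2470093),175873,(-476)],[76173338,10900,(-1473),2],[(-801645),3436,(-12)],[6811,(-56)],[(-46)]],[[(-44985939),396851,(-1152),1],[920765,(-6029),13],[(-5802),23],[(-2)]],[[155504,(-695),(-1)],[(-3322),13],[30]],[[768,(-7)],[(-16)]],[[(-2)]]],[[[(-3393652711),17584389,14597,(-155)],[79222833,(-322315),(-118),1],[(-781796),2982,(-3)],[4538,(-17)],[(-16)]],[[(-19864524),163817,(-446),1],[447570,(-2927),6],[(-3852),15],[10]],[[87282,(-561),1],[(-2103),11],[21]],[[309,(-2)],[(-6)]],[[(-1)]]],[[[(-707597558),4518317,(-3294),(-19)],[17143776,(-83666),27],[(-171419),579],[833]],[[(-3895078),31026,(-67)],[93882,(-503)],[(-754)]],[[11336,(-86)],[(-310)]],[[46]]],[[[(-61881515),427376,(-483)],[1539877,(-7488)],[(-14588)]],[[(-380955),2670],[8480]],[[493]]],[[[(-2475047),17171],[60661]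],[[(-16937)]]],[[[(-37342)]]]],[[[[(-484547566),(-305936),23787,(-70)],[10692995,(-3456),(-208)],[(-118749),529,(-1)],[1020,(-7)],[(-6)]],[[(-10451750),57672,4],[222592,(-995)],[(-1908),6],[6]],[[(-42316),351,(-1)],[903,(-5)],[(-5)]],[[54],[(-1)]]],[[[(-429387140),2446609,783,(-20)],[10491574,(-47478),(-13)],[(-107706),371],[553]],[[(-5934728),41352,(-50)],[141633,(-689)],[(-1212)]],[[(-19554),133],[381]],[[27]]],[[[(-72768499),495124,(-438)],[1836236,(-8977)],[(-17833)]],[[(-931428),6461],[21707]],[[(-2955)]]],[[[(-4539908),31947],[113917]],[[(-56058)]]],[[[(-96705)]]]],[[[[(-9503483),(-82579),1079,(-3)],[237006,697,(-9)],[(-3651),14],[33]],[[(-460688),1708,8],[10502,(-26)],[(-85)]],[[(-4865),26],[93]],[[(-17)]]],[[[(-10047416),56889,54],[280034,(-1273)],[(-3097)]],[[(-262141),1740],[6444]],[[(-2153)]]],[[[(-1395007),9839],[38403]],[[(-28933)]]],[[[(-50364)]]]],[[[[664686,(-4860),8],[(-13743),62],[90]],[[11181,(-71)],[(-200)]],[[61]]],[[[362609,(-2580)],[(-7292)]],[[5922]]],[[[15121]]]]]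

/-- A root. -/
def root : Root where
  cl := true
  box := fun i => match i with
    | 0 => ⟨2, 109, 25, 400⟩
    | 1 => ⟨957, 193, 1000, 200⟩
    | 2 => ⟨11, 7, 80, 50⟩
    | _ => ⟨307, 310001, 1000, 1000000⟩
  De := 400
  e0 := 44
  e1 := 159
  p := fun i => match i with
    | 0 => 10
    | 1 => 250
    | 2 => 800
    | 3 => 666
    | _ => 7
  q := fun i => match i with
    | 0 => 2
    | 1 => 240
    | 2 => 111
    | 3 => 205
    | _ => 2
  den := 17179869184
  sur := fun k => match k with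
    | 0 => root_s0
    | 1 => root_s1
    | 3 => root_s3
    | 5 => root_s5
    | 11 => root_s11
    | 12 => root_s12
    | 13 => root_s13
    | 14 => root_s14
    | 15 => root_s15
    | _ => []
  eps := fun k => match k with
    | 0 => 103394
    | 1 => 262751
    | 3 => 125311
    | 5 => 99624
    | 11 => 77
    | 12 => 1966
    | 13 => 1950
    | 14 => 2026
    | 15 => 3542
    | _ => 0

/-- A leaf. -/
def leaf0 : Leaf :=
  ⟨⟨957, 479, 1000, 500⟩, ⟨11, 111, 80, 800⟩, ⟨307, 310001, 1000, 1000000⟩,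
    16384, (3238, -31920, -23878, 12167), (-1617, -39529, -15698, 19642), 16384, (24505, 56963, 71760, -49297), (17264, -4278, -25102, -14742), (23254, 64956, 81633, -51664), (-8063, 8988, 14383, 3840),
    true, 0, 1, 3278, (-318), 2460, 4096, (-3181), 2048⟩

/-- A leaf. -/
def leaf1 : Leaf :=
  ⟨⟨957, 479, 1000, 500⟩, ⟨11, 111, 80, 800⟩, ⟨307, 310001, 1000, 1000000⟩,
    16384, (-1617, -39529, -15698, 19642), (-6472, -47138, -7518, 27116), 16384, (43510, 49304, 40202, -64381), (-75108, 38175, 67491, 57205), (16091, 65928, 86554, -45145), (9488, 1281, -11643, -9912),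
    true, 0, 1, 2604, (-341), 4096, 3369, (-2859), 2435⟩

/-- A tile. -/
def tile0 : Tile :=
  ⟨⟨957, 479, 1000, 500⟩, ⟨11, 111, 80, 800⟩, ⟨307, 310001, 1000, 1000000⟩, 16384, (3238, -31920, -23878, 12167), (-6472, -47138, -7518, 27116), 6636,
    (1024, 0), (1024, 791), 0, 3, (leaf0, ⟨(1024, 0), (257, 1024)⟩),
    [(leaf1, ⟨(62, 1024), (1024, 0)⟩)]⟩

/-- A leaf. -/
def leaf2 : Leaf :=
  ⟨⟨479, 959, 500, 1000⟩, ⟨11, 111, 80, 800⟩, ⟨307, 310001, 1000, 1000000⟩,
    16384, (3062, -32086, -23964, 12416), (2751, -41400, -18404, 16075), 16384, (25252, 56622, 71447, -49921), (10521, -1864, -21316, -9026), (27507, 63339, 79326, -55256), (-13336, 11004, 17556, 8238),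
    true, 0, 1, 3160, (-314), 2405, 4096, (-3149), 2040⟩

/-- A leaf. -/
def leaf3 : Leaf :=
  ⟨⟨479, 959, 500, 1000⟩, ⟨11, 111, 80, 800⟩, ⟨307, 310001, 1000, 1000000⟩,
    16384, (2751, -41400, -18404, 16075), (2440, -50713, -12843, 19734), 16384, (25230, 50940, 46555, -46713), (-56376, 31620, 57908, 41146), (11502, 67583, 89455, -41306), (4446, 3110, -8742, -5658),
    true, 0, 1, 2574, (-348), 4096, 3420, (-2857), 2444⟩

/-- A tile. -/
def tile1 : Tile :=
  ⟨⟨479, 959, 500, 1000⟩, ⟨11, 111, 80, 800⟩, ⟨307, 310001, 1000, 1000000⟩, 16384, (3062, -32086, -23964, 12416), (2440, -50713, -12843, 19734), 6636,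
    (1024, 0), (1024, 111), 0, 3, (leaf2, ⟨(1024, 0), (247, 1024)⟩),
    [(leaf3, ⟨(42, 1024), (1024, 1)⟩)]⟩

/-- A leaf. -/
def leaf4 : Leaf :=
  ⟨⟨957, 479, 1000, 500⟩, ⟨111, 7, 800, 50⟩, ⟨307, 310001, 1000, 1000000⟩,
    16384, (3616, -32424, -24645, 12045), (3962, -42344, -19936, 15336), 16384, (24233, 58437, 73057, -49675), (9915, -1391, -20950, -8599), (26327, 65446, 81410, -54990), (-13822, 11204, 17655, 8668),
    true, 0, 1, 3286, (-305), 2530, 4096, (-3379), 2075⟩

/-- A leaf. -/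
def leaf5 : Leaf :=
  ⟨⟨957, 479, 1000, 500⟩, ⟨111, 7, 800, 50⟩, ⟨307, 310001, 1000, 1000000⟩,
    16384, (3962, -42344, -19936, 15336), (4136, -47304, -17582, 16982), 16384, (30893, 54828, 48549, -54026), (-37327, 7762, 18711, 33810), (9873, 69550, 91133, -40481), (1929, 1788, -4126, -2634),
    true, 0, 1, 2502, (-198), 3810, 4096, (-3530), 2528⟩

/-- A leaf. -/
def leaf6 : Leaf :=
  ⟨⟨957, 479, 1000, 500⟩, ⟨111, 7, 800, 50⟩, ⟨307, 310001, 1000, 1000000⟩,
    16384, (4136, -47304, -17582, 16982), (4309, -52264, -15227, 18628), 16384, (-3070, 64612, 70380, -24553), (-19032, 24152, 38997, 7247), (11803, 71338, 87006, -43115), (1925, 1793, -4123, -2631),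
    true, 0, 1, 1828, (-87), 4096, 1261, (-2551), 2036⟩

/-- A tile. -/
def tile2 : Tile :=
  ⟨⟨957, 479, 1000, 500⟩, ⟨111, 7, 800, 50⟩, ⟨307, 310001, 1000, 1000000⟩, 16384, (3616, -32424, -24645, 12045), (4309, -52264, -15227, 18628), 6718,
    (1024, 0), (1024, 103), 0, 3, (leaf4, ⟨(1024, 0), (273, 1024)⟩),
    [(leaf5, ⟨(344, 1024), (1024, 1)⟩), (leaf6, ⟨(5, 1024), (1024, 1)⟩)]⟩

/-- A leaf. -/
def leaf7 : Leaf :=
  ⟨⟨479, 959, 500, 1000⟩, ⟨111, 7, 800, 50⟩, ⟨307, 310001, 1000, 1000000⟩,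
    16384, (3515, -32584, -24784, 12223), (8624, -44108, -22860, 11462), 16384, (24895, 58054, 72793, -50205), (2698, 989, -16786, -2434), (30965, 63844, 78855, -58955), (-19516, 13090, 21059, 13510),
    true, 0, 1, 3247, (-305), 2530, 4096, (-3338), 2067⟩

/-- A leaf. -/
def leaf8 : Leaf :=
  ⟨⟨479, 959, 500, 1000⟩, ⟨111, 7, 800, 50⟩, ⟨307, 310001, 1000, 1000000⟩,
    16384, (8624, -44108, -22860, 11462), (13732, -55632, -20936, 10702), 16384, (21752, 53535, 49636, -44376), (-33940, 25465, 46938, 21291), (4921, 71117, 94294, -36275), (-1493, 5371, -5124, -710),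
    true, 0, 1, 1241, (-129), 4096, 2120, (-3150), 2512⟩

/-- A tile. -/
def tile3 : Tile :=
  ⟨⟨479, 959, 500, 1000⟩, ⟨111, 7, 800, 50⟩, ⟨307, 310001, 1000, 1000000⟩, 16384, (3515, -32584, -24784, 12223), (13732, -55632, -20936, 10702), 6718,
    (1024, 0), (1024, 12), 0, 3, (leaf7, ⟨(1024, 0), (259, 1024)⟩),
    [(leaf8, ⟨(39, 1024), (1024, 0)⟩)]⟩

/-- A leaf. -/
def leaf9 : Leaf :=
  ⟨⟨959, 24, 1000, 25⟩, ⟨11, 111, 80, 800⟩, ⟨307, 310001, 1000, 1000000⟩,
    16384, (2844, -32219, -24076, 12703), (7416, -43068, -21129, 12138), 16384, (26083, 56202, 71151, -50611), (3176, 397, -17443, -2649), (31878, 61813, 77033, -59006), (-18865, 12805, 20675, 12976),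
    true, 0, 1, 3035, (-304), 2414, 4096, (-3147), 2029⟩

/-- A leaf. -/
def leaf10 : Leaf :=
  ⟨⟨959, 24, 1000, 25⟩, ⟨11, 111, 80, 800⟩, ⟨307, 310001, 1000, 1000000⟩,
    16384, (7416, -43068, -21129, 12138), (11987, -53917, -18182, 11574), 16384, (23079, 51543, 47953, -44856), (-33706, 25427, 46997, 21059), (6551, 69043, 92394, -37035), (-1023, 4811, -5818, -921),
    true, 0, 1, 2684, (-362), 4096, 3469, (-2833), 2440⟩

/-- A tile. -/
def tile4 : Tile :=
  ⟨⟨959, 24, 1000, 25⟩, ⟨11, 111, 80, 800⟩, ⟨307, 310001, 1000, 1000000⟩, 16384, (2844, -32219, -24076, 12703), (11987, -53917, -18182, 11574), 6636,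
    (1024, 0), (1024, 11), 0, 3, (leaf9, ⟨(1024, 0), (237, 1024)⟩),
    [(leaf10, ⟨(35, 1024), (1024, 0)⟩)]⟩

/-- A leaf. -/
def leaf11 : Leaf :=
  ⟨⟨24, 961, 25, 1000⟩, ⟨11, 111, 80, 800⟩, ⟨307, 310001, 1000, 1000000⟩,
    16384, (2693, -32379, -24153, 12922), (8721, -44526, -23340, 11562), 16384, (26808, 55835, 70810, -51198), (984, 2346, -14249, -1448), (33496, 60239, 75141, -59932), (-20331, 14537, 23157, 13594),
    true, 0, 1, 2978, (-312), 2350, 4096, (-3042), 1993⟩

/-- A leaf. -/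
def leaf12 : Leaf :=
  ⟨⟨24, 961, 25, 1000⟩, ⟨11, 111, 80, 800⟩, ⟨307, 310001, 1000, 1000000⟩,
    16384, (8721, -44526, -23340, 11562), (14749, -56672, -22526, 10203), 16384, (22982, 52012, 49035, -45056), (-26780, 19737, 37813, 16982), (5361, 70294, 94768, -36535), (-2652, 6252, -3427, -30),
    true, 0, 1, 2631, (-380), 4096, 3554, (-2889), 2473⟩

/-- A tile. -/
def tile5 : Tile :=
  ⟨⟨24, 961, 25, 1000⟩, ⟨11, 111, 80, 800⟩, ⟨307, 310001, 1000, 1000000⟩, 16384, (2693, -32379, -24153, 12922), (14749, -56672, -22526, 10203), 6636,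
    (1024, 0), (1024, 2), 0, 3, (leaf11, ⟨(1024, 0), (216, 1024)⟩),
    [(leaf12, ⟨(34, 1024), (1024, 0)⟩)]⟩

/-- A leaf. -/
def leaf13 : Leaf :=
  ⟨⟨959, 24, 1000, 25⟩, ⟨111, 7, 800, 50⟩, ⟨307, 310001, 1000, 1000000⟩,
    16384, (3225, -32742, -24901, 12593), (9800, -45498, -24932, 10981), 16384, (25846, 57672, 72499, -51031), (468, 2859, -13832, -1136), (32702, 62387, 76991, -60045), (-21052, 14657, 23430, 14266),
    true, 0, 1, 3162, (-301), 2498, 4096, (-3282), 2039⟩

/-- A leaf. -/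
def leaf14 : Leaf :=
  ⟨⟨959, 24, 1000, 25⟩, ⟨111, 7, 800, 50⟩, ⟨307, 310001, 1000, 1000000⟩,
    16384, (9800, -45498, -24932, 10981), (16376, -58255, -24963, 9369), 16384, (21718, 53963, 50628, -44617), (-27150, 19812, 38059, 17306), (3876, 72290, 96510, -35882), (-3142, 6750, -2926, 249),
    true, 0, 1, 2516, (-200), 4096, 2111, (-2493), 2032⟩

/-- A tile. -/
def tile6 : Tile :=
  ⟨⟨959, 24, 1000, 25⟩, ⟨111, 7, 800, 50⟩, ⟨307, 310001, 1000, 1000000⟩, 16384, (3225, -32742, -24901, 12593), (16376, -58255, -24963, 9369), 6718,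
    (1024, 0), (1024, 2), 0, 3, (leaf13, ⟨(1024, 0), (242, 1024)⟩),
    [(leaf14, ⟨(38, 1024), (1024, 0)⟩)]⟩

/-- A leaf. -/
def leaf15 : Leaf :=
  ⟨⟨24, 961, 25, 1000⟩, ⟨111, 7, 800, 50⟩, ⟨307, 310001, 1000, 1000000⟩,
    16384, (3043, -32891, -24965, 12839), (9572, -45721, -25122, 11318), 16384, (26637, 57271, 72119, -51670), (582, 2908, -13714, -1289), (33337, 61848, 76704, -60503), (-20930, 14937, 23623, 14022),
    true, 0, 1, 3003, (-299), 2447, 4096, (-3222), 2009⟩

/-- A leaf. -/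
def leaf16 : Leaf :=
  ⟨⟨24, 961, 25, 1000⟩, ⟨111, 7, 800, 50⟩, ⟨307, 310001, 1000, 1000000⟩,
    16384, (9572, -45721, -25122, 11318), (16101, -58551, -25278, 9797), 16384, (22582, 53622, 50397, -45367), (-27549, 20177, 38632, 17522), (4430, 72122, 96594, -36417), (-3075, 6809, -2796, 140),
    true, 0, 1, 2587, (-237), 4096, 2458, (-2601), 2101⟩

/-- A tile. -/
def tile7 : Tile :=
  ⟨⟨24, 961, 25, 1000⟩, ⟨111, 7, 800, 50⟩, ⟨307, 310001, 1000, 1000000⟩, 16384, (3043, -32891, -24965, 12839), (16101, -58551, -25278, 9797), 6718,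
    (1024, 0), (1024, 2), 0, 3, (leaf15, ⟨(1024, 0), (225, 1024)⟩),
    [(leaf16, ⟨(31, 1024), (1024, 0)⟩)]⟩

/-- A leaf. -/
def leaf17 : Leaf :=
  ⟨⟨961, 481, 1000, 500⟩, ⟨11, 111, 80, 800⟩, ⟨307, 310001, 1000, 1000000⟩,
    16384, (2405, -32527, -24238, 13282), (8499, -44764, -23523, 11897), 16384, (27764, 55418, 70455, -52008), (925, 2421, -14171, -1423), (34461, 59819, 74757, -60756), (-20531, 14711, 23456, 13701),
    true, 0, 1, 2990, (-313), 2409, 4096, (-2997), 1993⟩

/-- A leaf. -/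
def leaf18 : Leaf :=
  ⟨⟨961, 481, 1000, 500⟩, ⟨11, 111, 80, 800⟩, ⟨307, 310001, 1000, 1000000⟩,
    16384, (8499, -44764, -23523, 11897), (14593, -57002, -22808, 10512), 16384, (23846, 51686, 48806, -45809), (-26869, 19972, 38373, 16920), (5910, 70138, 94848, -37068), (-2717, 6341, -3323, -4),
    true, 0, 1, 2671, (-381), 4096, 3607, (-2854), 2471⟩

/-- A tile. -/
def tile8 : Tile :=
  ⟨⟨961, 481, 1000, 500⟩, ⟨11, 111, 80, 800⟩, ⟨307, 310001, 1000, 1000000⟩, 16384, (2405, -32527, -24238, 13282), (14593, -57002, -22808, 10512), 6636,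
    (1024, 0), (1024, 1), 0, 3, (leaf17, ⟨(1024, 0), (205, 1024)⟩),
    [(leaf18, ⟨(27, 1024), (1024, 1)⟩)]⟩

/-- A leaf. -/
def leaf19 : Leaf :=
  ⟨⟨481, 963, 500, 1000⟩, ⟨11, 111, 80, 800⟩, ⟨307, 310001, 1000, 1000000⟩,
    16384, (2170, -32705, -24470, 13616), (8184, -44992, -23774, 12334), 16384, (28638, 55053, 70330, -52781), (1093, 2429, -14219, -1595), (36035, 59530, 74336, -62184), (-21216, 14727, 23791, 14359),
    true, 0, 1, 2932, (-311), 2354, 4096, (-2994), 1988⟩

/-- A leaf. -/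
def leaf20 : Leaf :=
  ⟨⟨481, 963, 500, 1000⟩, ⟨11, 111, 80, 800⟩, ⟨307, 310001, 1000, 1000000⟩,
    16384, (8184, -44992, -23774, 12334), (14197, -57280, -23079, 11052), 16384, (24795, 51338, 48596, -46645), (-27453, 20328, 38869, 17341), (6565, 69969, 95004, -37719), (-2613, 6376, -3311, -126),
    true, 0, 1, 2585, (-346), 4096, 3625, (-2895), 2499⟩

/-- A tile. -/
def tile9 : Tile :=
  ⟨⟨481, 963, 500, 1000⟩, ⟨11, 111, 80, 800⟩, ⟨307, 310001, 1000, 1000000⟩, 16384, (2170, -32705, -24470, 13616), (14197, -57280, -23079, 11052), 6636,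
    (1024, 0), (1024, 1), 0, 3, (leaf19, ⟨(1024, 0), (130, 1024)⟩),
    [(leaf20, ⟨(21, 1024), (1024, 0)⟩)]⟩

/-- A leaf. -/
def leaf21 : Leaf :=
  ⟨⟨961, 481, 1000, 500⟩, ⟨111, 7, 800, 50⟩, ⟨307, 310001, 1000, 1000000⟩,
    16384, (2802, -33043, -25113, 13160), (9314, -45952, -25342, 11692), 16384, (27536, 56853, 71850, -52432), (639, 2985, -13662, -1380), (34360, 61409, 76244, -61374), (-21162, 15104, 23987, 14157),
    true, 0, 1, 2944, (-301), 2447, 4096, (-3188), 2004⟩

/-- A leaf. -/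
def leaf22 : Leaf :=
  ⟨⟨961, 481, 1000, 500⟩, ⟨111, 7, 800, 50⟩, ⟨307, 310001, 1000, 1000000⟩,
    16384, (9314, -45952, -25342, 11692), (15827, -58861, -25570, 10224), 16384, (23484, 53275, 50168, -46152), (-27927, 20479, 39168, 17738), (5020, 71962, 96712, -36996), (-3041, 6873, -2726, 75),
    true, 0, 1, 2648, (-232), 4096, 2575, (-2630), 2125⟩

/-- A tile. -/
def tile10 : Tile :=
  ⟨⟨961, 481, 1000, 500⟩, ⟨111, 7, 800, 50⟩, ⟨307, 310001, 1000, 1000000⟩, 16384, (2802, -33043, -25113, 13160), (15827, -58861, -25570, 10224), 6718,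
    (1024, 0), (1024, 1), 0, 3, (leaf21, ⟨(1024, 0), (214, 1024)⟩),
    [(leaf22, ⟨(26, 1024), (1024, 1)⟩)]⟩

/-- A leaf. -/
def leaf23 : Leaf :=
  ⟨⟨481, 963, 500, 1000⟩, ⟨111, 7, 800, 50⟩, ⟨307, 310001, 1000, 1000000⟩,
    16384, (2674, -33246, -25231, 13376), (9126, -46208, -25550, 12001), 16384, (28279, 56490, 71516, -53040), (773, 3005, -13596, -1536), (36109, 61151, 75959, -63011), (-22062, 15107, 24183, 15061),
    true, 0, 1, 2814, (-319), 2421, 4096, (-3119), 1943⟩

/-- A leaf. -/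
def leaf24 : Leaf :=
  ⟨⟨481, 963, 500, 1000⟩, ⟨111, 7, 800, 50⟩, ⟨307, 310001, 1000, 1000000⟩,
    16384, (9126, -46208, -25550, 12001), (15577, -59171, -25868, 10626), 16384, (24378, 52942, 49938, -46932), (-28116, 20765, 39736, 17761), (5544, 71809, 96808, -37507), (-2965, 6924, -2629, -33),
    true, 0, 1, 2402, (-247), 4096, 2746, (-2699), 2191⟩

/-- A tile. -/
def tile11 : Tile :=
  ⟨⟨481, 963, 500, 1000⟩, ⟨111, 7, 800, 50⟩, ⟨307, 310001, 1000, 1000000⟩, 16384, (2674, -33246, -25231, 13376), (15577, -59171, -25868, 10626), 6718,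
    (1024, 0), (1024, 1), 0, 3, (leaf23, ⟨(1024, 0), (131, 1024)⟩),
    [(leaf24, ⟨(19, 1024), (1024, 1)⟩)]⟩

/-- A leaf. -/
def leaf25 : Leaf :=
  ⟨⟨963, 241, 1000, 250⟩, ⟨11, 111, 80, 800⟩, ⟨307, 310001, 1000, 1000000⟩,
    16384, (1957, -32867, -24493, 13893), (7931, -45228, -23928, 12694), 16384, (29501, 54632, 69861, -53476), (1183, 2504, -14073, -1732), (40656, 59518, 73440, -66871), (-26060, 13942, 24103, 19608),
    true, 0, 1, 2781, (-332), 2321, 4096, (-2913), 1955⟩

/-- A leaf. -/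
def leaf26 : Leaf :=
  ⟨⟨963, 241, 1000, 250⟩, ⟨11, 111, 80, 800⟩, ⟨307, 310001, 1000, 1000000⟩,
    16384, (7931, -45228, -23928, 12694), (13905, -57589, -23363, 11495), 16384, (25731, 50981, 48321, -47455), (-27706, 20616, 39494, 17421), (7154, 69808, 95049, -38284), (-2553, 6432, -3176, -225),
    true, 0, 1, 2580, (-387), 4096, 3757, (-2865), 2496⟩

/-- A tile. -/
def tile12 : Tile :=
  ⟨⟨963, 241, 1000, 250⟩, ⟨11, 111, 80, 800⟩, ⟨307, 310001, 1000, 1000000⟩, 16384, (1957, -32867, -24493, 13893), (13905, -57589, -23363, 11495), 6636,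
    (1024, 0), (1024, 1), 0, 3, (leaf25, ⟨(1024, 0), (109, 1024)⟩),
    [(leaf26, ⟨(15, 1024), (1024, 1)⟩)]⟩

/-- A leaf. -/
def leaf27 : Leaf :=
  ⟨⟨241, 193, 250, 200⟩, ⟨11, 111, 80, 800⟩, ⟨307, 310001, 1000, 1000000⟩,
    16384, (1624, -32967, -24646, 14292), (7597, -45442, -24151, 13141), 16384, (30549, 54118, 69592, -54360), (1227, 2616, -14036, -1819), (43380, 61224, 75632, -70563), (-26838, 12975, 23275, 20832),
    true, 0, 1, 2761, (-310), 2368, 4096, (-2889), 1967⟩

/-- A leaf. -/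
def leaf28 : Leaf :=
  ⟨⟨241, 193, 250, 200⟩, ⟨11, 111, 80, 800⟩, ⟨307, 310001, 1000, 1000000⟩,
    16384, (7597, -45442, -24151, 13141), (13570, -57917, -23656, 11990), 16384, (26745, 50603, 48072, -48341), (-28123, 20977, 40063, 17656), (7842, 69610, 95168, -38952), (-2537, 6535, -3108, -286),
    true, 0, 1, 2581, (-393), 4096, 3816, (-2848), 2503⟩

/-- A tile. -/
def tile13 : Tile :=
  ⟨⟨241, 193, 250, 200⟩, ⟨11, 111, 80, 800⟩, ⟨307, 310001, 1000, 1000000⟩, 16384, (1624, -32967, -24646, 14292), (13570, -57917, -23656, 11990), 6636,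
    (1024, 0), (1024, 1), 0, 3, (leaf27, ⟨(1024, 0), (94, 1024)⟩),
    [(leaf28, ⟨(8, 1024), (1024, 0)⟩)]⟩

/-- A leaf. -/
def leaf29 : Leaf :=
  ⟨⟨963, 241, 1000, 250⟩, ⟨111, 7, 800, 50⟩, ⟨307, 310001, 1000, 1000000⟩,
    16384, (2294, -33385, -25252, 13818), (8756, -46444, -25735, 12488), 16384, (29413, 56029, 71033, -54000), (800, 3092, -13415, -1619), (40482, 61068, 75027, -67411), (-26601, 14390, 24535, 19965),
    true, 0, 1, 2746, (-322), 2404, 4096, (-3056), 1918⟩

/-- A leaf. -/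
def leaf30 : Leaf :=
  ⟨⟨963, 241, 1000, 250⟩, ⟨111, 7, 800, 50⟩, ⟨307, 310001, 1000, 1000000⟩,
    16384, (8756, -46444, -25735, 12488), (15217, -59503, -26218, 11158), 16384, (25403, 52578, 49675, -47833), (-28780, 21166, 40390, 18229), (6276, 71633, 96877, -38221), (-2960, 7005, -2454, -91),
    true, 0, 1, 2378, (-257), 4096, 2993, (-2748), 2242⟩

/-- A tile. -/
def tile14 : Tile :=
  ⟨⟨963, 241, 1000, 250⟩, ⟨111, 7, 800, 50⟩, ⟨307, 310001, 1000, 1000000⟩, 16384, (2294, -33385, -25252, 13818), (15217, -59503, -26218, 11158), 6718,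
    (1024, 0), (1024, 1), 0, 3, (leaf29, ⟨(1024, 0), (111, 1024)⟩),
    [(leaf30, ⟨(13, 1024), (1024, 0)⟩)]⟩

/-- A leaf. -/
def leaf31 : Leaf :=
  ⟨⟨241, 193, 250, 200⟩, ⟨111, 7, 800, 50⟩, ⟨307, 310001, 1000, 1000000⟩,
    16384, (2017, -33579, -25495, 14202), (8462, -46715, -26000, 12916), 16384, (30395, 55644, 70886, -54874), (852, 3180, -13430, -1696), (43598, 62787, 77177, -71516), (-27818, 13423, 23780, 21638),
    true, 0, 1, 2811, (-304), 2465, 4096, (-3036), 1962⟩

/-- A leaf. -/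
def leaf32 : Leaf :=
  ⟨⟨241, 193, 250, 200⟩, ⟨111, 7, 800, 50⟩, ⟨307, 310001, 1000, 1000000⟩,
    16384, (8462, -46715, -26000, 12916), (14908, -59851, -26506, 11631), 16384, (26406, 52216, 49430, -48715), (-29114, 21373, 40907, 18429), (6919, 71505, 97040, -38869), (-2924, 7059, -2441, -149),
    true, 0, 1, 2449, (-323), 4096, 3233, (-2790), 2351⟩

/-- A tile. -/
def tile15 : Tile :=
  ⟨⟨241, 193, 250, 200⟩, ⟨111, 7, 800, 50⟩, ⟨307, 310001, 1000, 1000000⟩, 16384, (2017, -33579, -25495, 14202), (14908, -59851, -26506, 11631), 6718,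
    (1024, 0), (1024, 1), 0, 3, (leaf31, ⟨(1024, 0), (92, 1024)⟩),
    [(leaf32, ⟨(7, 1024), (1024, 0)⟩)]⟩

/-- The subdivision. -/
def tree : Tree :=
  (.node 0 961 1000
    (.node 0 959 1000
    (.node 1 111 800
    (.node 0 479 500
    (.tile tile0)
    (.tile tile1))
    (.node 0 479 500
    (.tile tile2)
    (.tile tile3)))
    (.node 1 111 800
    (.node 0 24 25
    (.tile tile4)
    (.tile tile5))
    (.node 0 24 25
    (.tile tile6)
    (.tile tile7))))
    (.node 0 963 1000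
    (.node 1 111 800
    (.node 0 481 500
    (.tile tile8)
    (.tile tile9))
    (.node 0 481 500
    (.tile tile10)
    (.tile tile11)))
    (.node 1 111 800
    (.node 0 241 250
    (.tile tile12)
    (.tile tile13))
    (.node 0 241 250
    (.tile tile14)
    (.tile tile15)))))

def tree_ok : tree.ok pieceC 448 ⟨957, 193, 1000, 200⟩ ⟨11, 7, 80, 50⟩ ⟨307, 310001, 1000, 1000000⟩ = true := by
  decide +kernel

def root_ok0 : root.okEnt 576 0 = true := by decide +kernel

def root_ok1 : root.okEnt 576 1 = true := by decide +kernel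

def root_ok3 : root.okEnt 576 3 = true := by decide +kernel

def root_ok5 : root.okEnt 576 5 = true := by decide +kernel

def root_ok11 : root.okEnt 576 11 = true := by decide +kernel

def root_ok12 : root.okEnt 576 12 = true := by decide +kernel

def root_ok13 : root.okEnt 576 13 = true := by decide +kernel

def root_ok14 : root.okEnt 576 14 = true := by decide +kernel

def root_ok15 : root.okEnt 576 15 = true := by decide +kernel

def leaf0_ok : leaf0.okLeaf root 640 = true := by decide +kernel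

def leaf1_ok : leaf1.okLeaf root 640 = true := by decide +kernel

def leaf2_ok : leaf2.okLeaf root 640 = true := by decide +kernel

def leaf3_ok : leaf3.okLeaf root 640 = true := by decide +kernel

def leaf4_ok : leaf4.okLeaf root 640 = true := by decide +kernel

def leaf5_ok : leaf5.okLeaf root 640 = true := by decide +kernel

def leaf6_ok : leaf6.okLeaf root 640 = true := by decide +kernel

def leaf7_ok : leaf7.okLeaf root 640 = true := by decide +kernel

def leaf8_ok : leaf8.okLeaf root 640 = true := by decide +kernel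

def leaf9_ok : leaf9.okLeaf root 640 = true := by decide +kernel

def leaf10_ok : leaf10.okLeaf root 640 = true := by decide +kernel

def leaf11_ok : leaf11.okLeaf root 640 = true := by decide +kernel

def leaf12_ok : leaf12.okLeaf root 640 = true := by decide +kernel

def leaf13_ok : leaf13.okLeaf root 640 = true := by decide +kernel

def leaf14_ok : leaf14.okLeaf root 640 = true := by decide +kernel

def leaf15_ok : leaf15.okLeaf root 640 = true := by decide +kernel

def leaf16_ok : leaf16.okLeaf root 640 = true := by decide +kernel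

def leaf17_ok : leaf17.okLeaf root 640 = true := by decide +kernel

def leaf18_ok : leaf18.okLeaf root 640 = true := by decide +kernel

def leaf19_ok : leaf19.okLeaf root 640 = true := by decide +kernel

def leaf20_ok : leaf20.okLeaf root 640 = true := by decide +kernel

def leaf21_ok : leaf21.okLeaf root 640 = true := by decide +kernel

def leaf22_ok : leaf22.okLeaf root 640 = true := by decide +kernel

def leaf23_ok : leaf23.okLeaf root 640 = true := by decide +kernel

def leaf24_ok : leaf24.okLeaf root 640 = true := by decide +kernel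

def leaf25_ok : leaf25.okLeaf root 640 = true := by decide +kernel

def leaf26_ok : leaf26.okLeaf root 640 = true := by decide +kernel

def leaf27_ok : leaf27.okLeaf root 640 = true := by decide +kernel

def leaf28_ok : leaf28.okLeaf root 640 = true := by decide +kernel

def leaf29_ok : leaf29.okLeaf root 640 = true := by decide +kernel

def leaf30_ok : leaf30.okLeaf root 640 = true := by decide +kernel

def leaf31_ok : leaf31.okLeaf root 640 = true := by decide +kernel

def leaf32_ok : leaf32.okLeaf root 640 = true := by decide +kernel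

theorem leaves_eq : tree.leaves =
    [leaf0, leaf1, leaf2, leaf3, leaf4, leaf5, leaf6, leaf7,
    leaf8, leaf9, leaf10, leaf11, leaf12, leaf13, leaf14, leaf15,
    leaf16, leaf17, leaf18, leaf19, leaf20, leaf21, leaf22, leaf23,
    leaf24, leaf25, leaf26, leaf27, leaf28, leaf29, leaf30, leaf31,
    leaf32] := rfl

theorem leaves_ok : ∀ F ∈ tree.leaves, Leaf.okLeaf F root 640 = true := by
  rw [leaves_eq]
  exact all'_cons leaf0_ok (all'_cons leaf1_ok (all'_cons leaf2_ok (all'_cons leaf3_ok (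
    all'_cons leaf4_ok (all'_cons leaf5_ok (all'_cons leaf6_ok (all'_cons leaf7_ok (
    all'_cons leaf8_ok (all'_cons leaf9_ok (all'_cons leaf10_ok (all'_cons leaf11_ok (
    all'_cons leaf12_ok (all'_cons leaf13_ok (all'_cons leaf14_ok (all'_cons leaf15_ok (
    all'_cons leaf16_ok (all'_cons leaf17_ok (all'_cons leaf18_ok (all'_cons leaf19_ok (
    all'_cons leaf20_ok (all'_cons leaf21_ok (all'_cons leaf22_ok (all'_cons leaf23_ok (
    all'_cons leaf24_ok (all'_cons leaf25_ok (all'_cons leaf26_ok (all'_cons leaf27_ok (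
    all'_cons leaf28_ok (all'_cons leaf29_ok (all'_cons leaf30_ok (all'_cons leaf31_ok (
    all'_cons leaf32_ok ((fun F hF => absurd hF List.not_mem_nil))))))))))))))))))))))))))))))))))

theorem root_ok : ∀ k ∈ [0, 1, 3, 5, 11, 12, 13, 14, 15], root.okEnt 576 k = true := by
  intro k hk
  simp only [List.mem_cons, List.not_mem_nil, or_false] at hk
  rcases hk with rfl | rfl | rfl | rfl | rfl | rfl | rfl | rfl | rfl
  · exact root_ok0
  · exact root_ok1
  · exact root_ok3
  · exact root_ok5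
  · exact root_ok11
  · exact root_ok12
  · exact root_ok13
  · exact root_ok14
  · exact root_ok15

theorem used_ok : ∀ F ∈ tree.leaves, ∀ k ∈ Leaf.used F, root.okEnt 576 k = true := by
  intro F hF k hk
  refine root_ok k ?_
  rw [leaves_eq] at hF
  have h : ([leaf0, leaf1, leaf2, leaf3, leaf4, leaf5, leaf6, leaf7,
    leaf8, leaf9, leaf10, leaf11, leaf12, leaf13, leaf14, leaf15,
    leaf16, leaf17, leaf18, leaf19, leaf20, leaf21, leaf22, leaf23,
    leaf24, leaf25, leaf26, leaf27, leaf28, leaf29, leaf30, leaf31,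
    leaf32]).all (fun G => G.used.all fun j => [0, 1, 3, 5, 11, 12, 13, 14, 15].any (Nat.beq j)) = true := by
    decide +kernel
  simp only [List.all_eq_true, List.any_eq_true] at h
  obtain ⟨j, hj, e⟩ := h F hF k hk
  exact Nat.eq_of_beq_eq_true e ▸ hj

/-- **The signs on the box.** -/
theorem signs {a I u X η : ℝ} (hf : Facts pieceC a I u X η) (hu : In1 ⟨957, 193, 1000, 200⟩ u)
    (hI : In1 ⟨11, 7, 80, 50⟩ I) (ha : In1 ⟨307, 310001, 1000, 1000000⟩ a) :
    ClosedGen.SignsMult a (rd (mk4 X u I a)) (rv (mk4 X u I a)) (rg (mk4 X u I a) η)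
      (rW (mk4 X u I a) η) (rW1 (mk4 X u I a) η) (rR (mk4 X u I a))
      (rNum true (mk4 X u I a) η) :=
  Tree.signs (T := tree) (R := root) tree_ok leaves_ok used_ok hf hu hI ha

end Vale.Agent.P100.Calib.MidTail.BoxII1U3c
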