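import Vale.Agent.P100.Calib.SlabMidTailPieces

/-!
# The signs on a box of the middle tail

`u, I, a` lie in the box of `root`; the surrogates and leaves are checked by the kernel.
-/

namespace Vale.Agent.P100.Calib.MidTail.BoxII1U3d

open Pack EndAll Band

/-- A surrogate. -/
def root_s0 : List (List (List (List (List ℤ)))) :=
  [[[[[5998538675,(-328231056),2021722,(-5338),4],[(-340369021),7909008,(-29771),(-19),1],[5168783,(-57576),(-133),3],[(-26763),(-141),7],[(-66),6],[2]],[[(-240520886),1103920,(-3235),13],[3508905,(-5852),76],[16037,(-208),(-1)],[(-696),3],[7]],[[(-358770),32931,(-145)],[27673,(-790),4],[(-474),8],[3]],[[29501,38,(-1)],[(-455),(-2)],[2]],[[116,(-1)],[(-3)]],[[(-1)]]],[[[2828799466,(-274476693),1527505,(-4198),5],[(-245602976),6603061,(-24731),6],[4170864,(-54962),(-3),1],[(-26764),81,3],[33,2]],[[(-216098909),32152,4838,(-8)],[2454441,31566,(-171)],[35615,(-797),1],[(-944),6],[7]],[[117574,26450,(-94)],[10260,(-499),2],[(-58),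4],[(-1)]],[[37837,(-19),(-1)],[(-769)],[5]],[[141,(-1)],[(-3)]],[[(-1)]]],[[[(-637116363),(-71290033),301025,(-698),1],[(-37145656),1664493,(-4639),(-1)],[883536,(-14372),(-4)],[(-6648),28],[9]],[[(-68484405),(-283919),3383,(-3)],[694808,18204,(-60)],[13087,(-237)],[(-246)]],[[148137,7688,(-27)],[(-465),(-131)],[76]],[[15024,(-29)],[(-333)]],[[39]]],[[[(-379874928),(-9226193),29068,(-9)],[1779606,208294,(-196)],[47281,(-1157)],[(-207)]],[[(-11671184),(-54974),398],[137832,2024],[1782]],[[70521,693],[(-2875)]],[[2715]]],[[[(-58908545),(-550787),889],[955491,8321],[(-5341)]],[[(-926035),(-3169)],[(-348)]],[[16726]]],[[[(-3420429),(-7566)],[54640]],[[(-597)]]],[[[(-46159)]]]],[[[[3148404411,(-160935518),625901,837,(-17)],[(-176546723),3502565,(-1426),(-124),1],[2643886,(-18599),(-268),2],[(-13722),(-171),4],[(-26),3],[1]],[[(-123860914),(-1711404),9709,(-21)],[1025273,46705,(-185)],[14541,(-521)],[(-264),1],[1]],[[(-2469754),4514,21],[50008,(-25)],[(-379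),1]],[[(-8087),129],[238,(-2)],[(-1)]],[[89,1],[(-2)]],[[1]]],[[[1616308470,(-147318012),628754,(-928),(-6)],[(-139006738),3532669,(-10499),(-26)],[2483720,(-33084),(-5)],[(-19572),94],[62]],[[(-137373292),(-2079539),12467,(-26)],[1147319,59437,(-233)],[16673,(-575)],[(-273)]],[[(-2880753),2431,53],[60401,28],[(-337)]],[[(-10942),138],[213]],[[94]]],[[[(-302143920),(-42969221),165330,(-379)],[(-24482663),1049286,(-3401)],[602903,(-9929)],[(-5199)]],[[(-63485479),(-669934),3507],[858793,15950],[267]],[[(-1157521),1788],[21217]],[[(-2688)]]],[[[(-224196742),(-5963120),21697],[817627,133080],[40875]],[[(-14521351),(-64340)],[232338]],[[(-176554)]]],[[[(-37766393),(-322334)],[559159]],[[(-1391326)]]],[[[(-2086988)]]]],[[[[178641315,(-7152283),(-70314),815,(-5)],[(-8528876),(-1846),3732,(-35)],[58608,3603,(-81)],[913,(-72)],[(-21)]],[[(-3087230),(-395636),662],[(-242859),9693,(-10)],[6297,(-80)],[(-55)]],[[(-314503),(-4902),8],[4354,98],[10]],[[(-5389),(-2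0)],[85]],[[(-29)]]],[[[105189534,(-8898639),(-1810),(-71)],[(-8799021),176526,(-215)],[149381,(-1560)],[(-1160)]],[[(-7127499),(-350186),270],[(-85601),6490],[3353]],[[(-373157),(-3850)],[4334]],[[(-4632)]]],[[[(-22998760),(-2485237),(-6059)],[(-1237384),38429],[26581]],[[(-4342504),(-102295)],[15258]],[[(-138496)]]],[[[(-12418500),(-419447)],[(-22090)]],[[(-1070631)]]],[[[(-2237153)]]]],[[[[(-2220578),118663,(-885),1],[125569,(-3305),12],[(-2192),25],[13]],[[90431,1630,(-14)],[(-1011),(-42)],[(-9)]],[[2973,(-2)],[(-49)]],[[21]]],[[[(-1431623),122581,(-758)],[110917,(-2786)],[(-1775)]],[[129812,1305],[(-1205)]],[[2708]]],[[[279855,32535],[19630]],[[53473]]],[[[231220]]]]]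

/-- A surrogate. -/
def root_s1 : List (List (List (List (List ℤ)))) :=
  [[[[[26425343426,(-205073466),50756,4506,(-27)],[(-737354897),4084000,13329,(-226),1],[8124162,(-16804),(-554),5],[(-39068),(-424),11],[(-70),9],[3]],[[(-315016355),3764234,(-15978),40],[10301542,(-114583),563,(-1)],[(-147756),1787,(-8)],[1400,(-18)],[(-10)]],[[(-1224932),3574,1],[30979,(-123),(-1)],[(-449),1],[4]],[[2841,10],[(-24)]],[[(-4)]]],[[[35054046389,(-271753429),267207,3408,(-22)],[(-970180460),5760599,2692,(-154),1],[10782081,(-43732),(-270),2],[(-60070),(-44),4],[89,3],[1]],[[(-424263622),4043576,(-10906),21],[12722042,(-100092),336],[(-154551),1239,(-4)],[1128,(-9)],[(-5)]],[[(-340056),(-4612),(-2)],[(-680),47],[(-3)],[1]],[[3206,14],[(-25)]],[[(-6)]]],[[[16322336226,(-126220826),186782,918,(-5)],[(-445514122),2754681,(-2218),(-30)],[4932207,(-23932),(-27)],[(-27845),45],[43]],[[(-202369412),1680955,(-3115),3],[5768412,(-37045),72],[(-64919),333],[351]],[[66071,(-3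281),(-1)],[(-6774),47],[78]],[[1093,6],[(-7)]],[[(-2)]]],[[[3306086010,(-25778493),52702,69],[(-88489089),576475,(-818)],[963144,(-4188)],[(-4105)]],[[(-41775989),312317,(-457)],[1132869,(-6065)],[(-11368)]],[[35507,(-616)],[(-1711)]],[[125]]],[[[335793624,(-2669681),6010],[(-8730732),48852],[71638]],[[(-4330139),29273],[111216]],[[4531]]],[[[17584304,(-117359)],[(-338300)]],[[(-244744)]]],[[[327089]]]],[[[[13728691250,(-118611861),(-170984),4932,(-28)],[(-407748462),1849804,20175,(-232),1],[4344447,8196,(-584),3],[(-15397),(-505),6],[(-121),6],[2]],[[22580629,1013763,(-7463),23],[843175,(-32285),192],[(-24369),449,(-2)],[276,(-3)],[(-2)]],[[170297,(-2655),1],[(-9787),73],[179,(-1)],[(-2)]],[[(-997),(-8)],[2]],[[5]]],[[[18043021849,(-157147719),117998,2132,(-10)],[(-532582989),3174161,3889,(-77)],[6038438,(-20969),(-156)],[(-33170),(-59)],[33]],[[48456324,511650,(-3173),13],[(-74274),(-15079),96],[(-9588),223],[138]],[[(-224453),415,3],[3604,23],[31]]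,[[(-1123),(-8)],[(-2)]],[[5]]],[[[8284634581,(-68327127),88890,259],[(-237134492),1417778,(-703)],[2640945,(-9456)],[(-12152)]],[[22900496,112389,(-652)],[(-179275),(-3790)],[(-2771)]],[[(-152508),586],[3426]],[[(-338)]]],[[[1652338188,(-12430857),14842],[(-44992703),217968],[417103]],[[4456154,11279],[(-30854)]],[[(-28188)]]],[[[166027510,(-1020498)],[(-3913056)]],[[409076]]],[[[8388452]]]],[[[[587272668,(-12916245),(-134456),1828,(-9)],[(-33650732),7158,7434,(-62)],[356066,6588,(-146)],[(-39),(-130)],[(-37)]],[[20103288,(-304919),2169,(-6)],[(-680226),10777,(-56)],[11665,(-143)],[(-98)]],[[38446,708,(-1)],[704,(-16)],[(-27)]],[[(-123),1],[5]],[[(-1)]]],[[[870856039,(-21823616),4925,459],[(-48745328),423651,1209],[691468,(-1611)],[(-3265)]],[[20833269,(-209341),915],[(-622821),5102],[6702]],[[87505,456],[(-150)]],[[(-178)]]],[[[409284927,(-8752229),9974],[(-20416397),157407],[248758]],[[8231164,(-57537)],[(-210331)]],[[32982]]],[[[84171026,(-1220465)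],[(-3231815)]],[[1233301]]],[[[7446610]]]],[[[[(-150751297),(-705243),1112],[1190586,16231,(-10)],[6575,(-100)],[(-83)]],[[(-1389214),(-12408),13],[1968,209],[211]],[[4898,(-52)],[(-195)]],[[74]]],[[[(-170146012),(-843533),998],[1238759,14559],[7452]],[[(-1540597),(-11133)],[(-2949)]],[[6395]]],[[[(-57576388),(-284664)],[291954]],[[(-407262)]]],[[[(-5064873)]]]],[[[[(-10374290)],[182926],[(-946)]],[[(-249189)],[3278]],[[(-1674)]]],[[[(-11458559)],[158377]],[[(-215681)]]],[[[(-3435559)]]]]]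

/-- A surrogate. -/
def root_s3 : List (List (List (List (List ℤ)))) :=
  [[[[[1058153282,(-110830942),1031398,(-5691),25],[(-108489677),4205347,(-35530),206,(-1)],[2753823,(-68164),573,(-4)],[(-33460),673,(-6)],[251,(-5)],[(-1)]],[[102361124,(-365381),6475,(-51)],[(-1939042),11633,(-267),1],[18150,(-340),5],[(-225),5],[3]],[[(-317548),637,9],[2482,(-7)],[28]],[[(-10358),24],[241],[(-3)]],[[(-31)],[1]]],[[[153741476,(-112303736),1115203,(-6157),26],[(-82481163),4223574,(-37285),213,(-1)],[2385204,(-67850),584,(-3)],[(-29833),657,(-5)],[221,(-4)],[(-1)]],[[69928077,(-189889),6226,(-52)],[(-1149040),8234,(-256),1],[9538,(-286),3],[(-152),3],[2]],[[(-128786),1170,3],[(-207),(-24)],[17]],[[(-8502),23],[217],[(-3)]],[[(-32)],[1]]],[[[(-771063893),(-35217035),406792,(-2303),8],[(-4764834),1355702,(-13209),63],[500867,(-21836),170],[(-7471),178],[51]],[[11003539,5691,2017,(-15)],[(-57875),1210,(-64)],[(-829),(-40)],[(-2)]],[[52885,554,(-1)],[(-1325),(-15)],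[(-9)]],[[(-2147),8],[65]],[[(-11)]]],[[[(-407964232),(-3357367),60640,(-344)],[7404369,156649,(-1783)],[(-25158),(-2436)],[(-422)]],[[881541,6154,227],[23107,(-287)],[(-692)]],[[24655,105],[(-253)]],[[(-299)]]],[[[(-66690205),55896,3413],[1568837,3765],[(-10907)]],[[39971,1087],[1538]],[[3252]]],[[[(-4477547),19610],[89650]],[[11950]]],[[[(-82438)]]]],[[[[996658973,(-86776875),592274,(-2699),15],[(-83064229),2623220,(-15154),85],[1721113,(-32324),191,(-1)],[(-16340),229,(-1)],[85,(-1)]],[[45105099,(-327900),2123,(-18)],[(-1220446),13921,(-108),1],[18007,(-267),1],[(-198),2],[1]],[[840324,1742,(-29)],[(-15977),(-90)],[129,1]],[[4806,(-1)],[(-137)],[1]],[[9]]],[[[(-88835673),(-68942123),473543,(-2039),10],[(-43502109),2071079,(-11565),57],[1088197,(-24412),123],[(-10301),137],[42]],[[31914009,(-359109),2257,(-13)],[(-924786),13523,(-67)],[14992,(-151)],[(-118)]],[[721419,811,(-23)],[(-15157),(-74)],[106]],[[4742,(-2)],[(-111)]],[[8]]],[[[(-680129794),(-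14501414),106314,(-373)],[6849828,438959,(-2048)],[54147,(-4031)],[(-758)]],[[3380097,(-124987),536],[(-151175),3016],[3129]],[[195133,(-1)],[(-4558)]],[[1444]]],[[[(-254255213),(-774587),8334],[5284502,26861],[(-33484)]],[[(-1067500),(-13144)],[(-1108)]],[[26578]]],[[[(-34403251),46633],[683378]],[[(-190810)]]],[[[(-1940131)]]]],[[[[429642840,(-26731690),122909,(-41)],[(-27746568),662232,(-1669)],[474694,(-6006),2],[(-3544),15],[9]],[[(-5173798),(-311199),1810],[(-137692),9840,(-23)],[5371,(-88)],[(-51)]],[[(-69529),(-1218),6],[968,36],[11]],[[(-64),(-2)],[1]],[[1]]],[[[57939530,(-19137577),92395,(-1)],[(-14150011),483257,(-928)],[283337,(-3552)],[(-1900)]],[[(-8192245),(-235496),1143],[1276,6225],[2878]],[[(-86917),(-819)],[846]],[[(-58)]]],[[[(-148204502),(-3160378),16190],[1243657,79070],[17487]],[[(-4309615),(-41841)],[47357]],[[(-29878)]]],[[[(-42281211),(-132625)],[750510]],[[(-797251)]]],[[[(-3773866)]]]],[[[[34166765,(-2035851),13898,(-22)],[(-2147738),57324,(-231)],[38584,(-542)],[(-294)]],[[(-816620),(-26078),204],[883,738],[280]],[[(-19988),(-63)],[310]],[[(-100)]]],[[[4038528,(-1225532),8397],[(-905236),33355],[19743]],[[(-968437),(-14037)],[8007]],[[(-14459)]]],[[[(-9526944),(-100014)],[126349]],[[(-325951)]]],[[[(-1578757)]]]]]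

/-- A surrogate. -/
def root_s5 : List (List (List (List (List ℤ)))) :=
  [[[[[6857072514,(-317877347),1576184,(-1220),(-6)],[(-353529549),6759731,(-12788),(-70)],[4742784,(-28313),(-287),2],[(-13118),(-440),7],[(-224),7],[3]],[[(-385413546),4085172,(-15047),30],[10105709,(-89458),326,(-1)],[(-101201),823,(-4)],[471,(-6)],[(-1)]],[[1265432,16765,(-93)],[(-5328),(-514),2],[(-337),6],[5]],[[23217,(-109)],[(-512),2],[5]],[[(-27)],[1]]],[[[4386782364,(-295600231),1368925,(-706),(-5)],[(-300454303),6505089,(-11641),(-66)],[4597595,(-35497),(-222),1],[(-20561),(-260),3],[(-113),3],[1]],[[(-367476706),3468490,(-10463),21],[9588856,(-71140),212],[(-95908),599,(-2)],[439,(-3)],[(-1)]],[[1688412,15135,(-86)],[(-19581),(-419),1],[(-40),4],[2]],[[27354,(-134)],[(-643),2],[5]],[[(-36)],[1]]],[[[48886866,(-91099352),373599,192,(-2)],[(-70245647),2100984,(-2485),(-24)],[1393417,(-13524),(-65)],[(-8667),(-46)],[(-12)]],[[(-119137687),1012187,(-2623),5],[3190988,(-21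209),58],[(-33822),197],[171]],[[735090,4682,(-28)],[(-12368),(-108)],[94]],[[10438,(-53)],[(-232)]],[[(-20)]]],[[[(-325417269),(-13222355),52072,95],[(-3157408),323958,(-123)],[155282,(-1691)],[(-923)]],[[(-18108339),148433,(-462)],[491370,(-3418)],[(-4469)]],[[166368,253],[(-4196)]],[[1598]]],[[[(-63725998),(-946115),3217],[698628,19780],[3398]],[[(-1290704),10158],[21992]],[[21372]]],[[[(-4379906),(-27272)],[53809]],[[(-11373)]]],[[[(-78737)]]]],[[[[3287002954,(-161237193),722718,(-318),(-6)],[(-174916487),3306521,(-3383),(-69)],[2337115,(-10962),(-229),1],[(-5959),(-284),3],[(-121),3],[1]],[[(-163899107),(-153004),945,16],[2939599,4501,46],[(-16802),4,(-1)],[16,(-1)]],[[(-1535957),7741,(-1)],[34381,(-127)],[(-303),1]],[[994,53],[2,(-1)]],[[57],[(-1)]]],[[[1890648046,(-150961132),666146,(-687),(-2)],[(-146647464),3376428,(-7345),(-23)],[2372368,(-22292),(-70)],[(-13206),(-70)],[(-25)]],[[(-171251089),(-535729),3923,7],[2968892,16243,(-19)],[(-15476)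,(-103)],[(-18)]],[[(-1814305),8101,14],[42164,(-101)],[(-281)]],[[639,58],[(-5)]],[[57]]],[[[(-177590017),(-46561313),183615,(-61)],[(-31373261),1108430,(-2072)],[703731,(-7966)],[(-4915)]],[[(-69313760),(-227240),1622],[1299347,5654],[(-7066)]],[[(-713771),3072],[14161]],[[785]]],[[[(-219000506),(-6851405),27552],[(-299780),160087],[68459]],[[(-14312671),(-16666)],[263980]],[[(-103244)]]],[[[(-40718256),(-415975)],[533375]],[[(-1337841)]]],[[[(-2579310)]]]],[[[[197776067,(-8661851),(-16818),410,(-3)],[(-9643672),82621,1932,(-19)],[84241,1996,(-49)],[641,(-51)],[(-19)]],[[(-6751735),(-230811),613,(-1)],[(-50205),5634,(-9)],[2926,(-43)],[(-29)]],[[(-249065),(-1636),2],[4598,31],[(-15)]],[[(-2647),(-3)],[43]],[[(-8)]]],[[[112732642,(-9117889),16345,(-62)],[(-8962401),182559,(-208)],[141692,(-1011)],[(-710)]],[[(-9163014),(-206407),202],[48829,3583],[1233]],[[(-277488),(-1433)],[3966]],[[(-2277)]]],[[[(-18695391),(-2582025),(-321)],[(-1529590),46379],[33486]],[[(-4348439),(-64245)],[39308]],[[(-98027)]]],[[[(-12715302),(-405724)],[(-28163)]],[[(-956995)]]],[[[(-2251911)]]]],[[[[(-2289896),122377,(-912),1],[129496,(-3408),12],[(-2261),26],[13]],[[105097,963,(-10)],[(-1764),(-28)],[1]],[[2388,(-6)],[(-43)]],[[11]]],[[[(-1476333),126405,(-781)],[114385,(-2872)],[(-1830)]],[[140707,747],[(-1796)]],[[2147]]],[[[288414,33539],[20238]],[[54126]]],[[[238336]]]]]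

/-- A surrogate. -/
def root_s11 : List (List (List (List (List ℤ)))) :=
  [[[[[6119471189,(-48501574),100335,19],[(-137755957),786641,(-926)],[1141675,(-3844)],[(-3584),(-1)],[(-4)]],[[(-26890122),171150,(-239)],[600828,(-2861),3],[(-5683),22],[32]],[[(-449436),3326,(-6)],[10093,(-54)],[(-88)]],[[614,(-4)],[(-14)]],[[5]]],[[[886362037,(-7323132),15964,4],[(-19984916),118173,(-140)],[160634,(-519)],[(-402),(-1)],[(-2)]],[[(-1205669),2309,15],[26366,(-56)],[(-347),2],[4]],[[(-64787),476,(-1)],[1460,(-8)],[(-13)]],[[(-77),1],[1]],[[1]]],[[[36806433,(-331262),793],[(-832792),5293,(-6)],[6239,(-18)],[(-6)]],[[89789,(-1214),4],[(-2075),17],[6]],[[(-2060),15],[48],[(-1)]],[[(-8)]]],[[[327517,(-3907),12],[(-7513),61],[40]],[[3412,(-41)],[(-78),1]],[[9]]]],[[[[2256474946,(-16272495),29257],[(-50622982),267168,(-305)],[446557,(-1616),1],[(-1946),4],[4]],[[34516711,(-255422),478],[(-775061),4170,(-5)],[6712,(-24)],[(-27)]],[[19187,(-182)],[(-419),3],[3]],[[(-1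056),8],[24]],[[(-1)]]],[[[223570265,(-1553281),2615],[(-5009377),25633,(-29)],[45181,(-167)],[(-215),1],[1]],[[4975562,(-36393),67],[(-111679),594,(-1)],[972,(-4)],[(-4)]],[[21691,(-163)],[(-483),2],[3]],[[(-53),1],[2]]],[[[3913454,(-19648),10],[(-86875),342,(-1)],[911,(-5)],[(-8)]],[[158207,(-1100),2],[(-3546),22],[38]],[[1330,(-11)],[(-33)]],[[3]]],[[[(-65503),782,(-2)],[1503,(-12)],[(-8)]],[[(-682),8],[16]],[[(-2)]]]],[[[[(-211425656),1649606,(-3341),(-1)],[4756625,(-26808),31],[(-39859),136],[134]],[[2714807,(-18359),29],[(-60775),305,(-1)],[559,(-3)],[(-4)]],[[60640,(-439),1],[(-1363),7],[12]],[[207,(-1)],[(-4)]],[[(-1)]]],[[[(-50816676),388089,(-763)],[1142385,(-6324),6],[(-9713),28],[29]],[[(-335408),2696,(-3)],[7548,(-24)],[(-30)]],[[3034,(-30)],[(-96)]],[[34]]],[[[(-2254949),17182,(-34)],[50691,(-280)],[(-431)]],[[(-35237),268],[791]],[[(-183)]]]],[[[[(-77034674),564931,(-1044)],[1729271,(-9255),10],[(-15097),49],[56]],[[(-1190439),8768,(-14)],[26722,(-121)],[(-194)]],[[(-3899),15],[44]],[[34]]],[[[(-5870374),43105,(-80)],[131796,(-706)],[(-1149)]],[[(-122315),897],[2742]],[[(-953)]]]],[[[[(-3978994),28819,(-52)],[89295,(-473)],[(-786)]],[[(-103635),750],[2323]],[[(-1077)]]]]]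

/-- A surrogate. -/
def root_s12 : List (List (List (List (List ℤ)))) :=
  [[[[[(-612128198),(-13268643),137208,(-336)],[(-3164563),646437,(-4094),7],[416911,(-10572),43],[(-6231),78],[40]],[[45830445,(-215330),(-291),2],[(-1063832),2212,13],[8750,14],[(-19)]],[[(-29789),1088,(-8)],[1971,(-47)],[(-50),1],[1]],[[(-3307),16],[80],[(-1)]],[[(-4)]]],[[[(-637949754),(-2978085),56761,(-166)],[9073248,198301,(-1600),3],[43621,(-3477),16],[(-1611),27],[12]],[[15540390,(-93138),72],[(-380496),1481],[3501,(-6)],[(-13)]],[[46491,91,(-3)],[(-710),(-10)],[(-3)]],[[(-897),5],[23]],[[(-2)]]],[[[(-183570781),116443,8450,(-30)],[3612909,17854,(-239)],[(-18400),(-408),2],[(-81),3],[1]],[[2114351,(-15138),33],[(-53799),288],[524,(-1)],[(-2)]],[[18428,(-70)],[(-399)],[2]],[[(-73),1],[3]]],[[[(-21785898),70607,531,(-2)],[484691,(-46),(-14)],[(-3882),(-16)],[5]],[[137412,(-1104),3],[(-3480),26],[47]],[[2279,(-12)],[(-52)]],[[(-2)]]],[[[(-1132826),5487,13],[27068,(-40)],[(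-186)]],[[3719,(-55)],[(-180)]],[[127]]],[[[(-21288),98],[424]],[[94]]]],[[[[(-168294005),(-18531175),152473,(-329)],[(-13187487),659143,(-3588),5],[432259,(-8793),31],[(-4993),57],[28]],[[7694501,(-95257),489,(-1)],[(-257954),3342,(-16)],[4145,(-49)],[(-39)]],[[240672,(-342),(-7)],[(-5155),(-6)],[42]],[[1149,(-3)],[(-25)]],[[(-3)]]],[[[(-450907755),(-2495086),40907,(-110)],[6587038,134177,(-1021),2],[14841,(-2126),8],[(-844),13],[6]],[[(-814059),(-24381),249],[(-9891),1081,(-5)],[715,(-13)],[(-9)]],[[75228,(-328),(-1)],[(-1801),4],[17]],[[447,(-2)],[(-9)]],[[(-1)]]],[[[(-127385191),291845,3647,(-12)],[2738495,3556,(-92)],[(-19757),(-138)],[13]],[[(-976862),2016,25],[20532,54],[(-62)]],[[6532,(-50)],[(-210)]],[[64]]],[[[(-13580285),67535,92],[323709,(-739)],[(-2631)]],[[(-149376),612],[2926]],[[104]]],[[[(-616475),3612],[14541]],[[(-7780)]]],[[[(-9906)]]]],[[[[44245871,(-6242194),44618,(-86)],[(-5840472),188532,(-911),1],[129157,(-2197),6],[(-1245),11]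,[6]],[[(-2320551),(-64280),575,(-1)],[(-5916),2220,(-10)],[1029,(-24)],[(-12)]],[[(-19482),(-100),1],[297,4],[1]],[[136],[(-4)]],[[2]]],[[[(-81849571),(-621797),8197,(-18)],[1149650,26027,(-168)],[1800,(-342)],[(-123)]],[[(-2001917),(-3688),102],[37214,273],[(-124)]],[[(-12500)],[179]],[[31]]],[[[(-18525033),51395,402],[412550,65],[(-3059)]],[[(-384143),1246],[7984]],[[(-2246)]]],[[[(-1284403),6995],[30423]],[[(-25493)]]],[[[(-27456)]]]],[[[[5012576,(-427444),2921,(-5)],[(-427772),12245,(-55)],[8485,(-133)],[(-77)]],[[(-201054),(-7449),61],[(-1458),233],[112]],[[(-5626),(-40)],[77]],[[(-45)]]],[[[(-4572810),(-18972),328],[78662,914],[(-246)]],[[(-163840),(-14)],[3204]],[[(-2096)]]],[[[(-652819),3016],[15364]],[[(-18116)]]],[[[(-19025)]]]]]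

/-- A surrogate. -/
def root_s13 : List (List (List (List (List ℤ)))) :=
  [[[[[(-36678206),1427275,15634,(-163)],[1887001,(-11138),(-383),1],[(-25648),93,(-1)],[272,(-6)],[(-4)]],[[2116570,29603,(-609),3],[(-35513),(-828),10],[441],[(-10)]],[[19695,(-1119),8],[(-820),25],[8]],[[(-760),8],[20]],[[2]]],[[[(-38856992),2641261,1757,(-105)],[2719648,(-48261),(-121),1],[(-43342),445,(-2)],[388,(-6)],[(-3)]],[[3765057,(-9710),(-310),2],[(-92985),134,4],[1168,(-7)],[(-13)]],[[(-9338),(-774),7],[(-61),18]],[[(-713),8],[19]],[[2]]],[[[(-2009020),1285076,(-4829),(-12)],[939616,(-29667),58],[(-18526),273],[157,(-1)],[(-1)]],[[1823247,(-18290),19],[(-51987),419,(-1)],[645,(-5)],[(-4)]],[[(-16184),(-103),2],[347,2],[(-4)]],[[(-222),2],[6]],[[1]]],[[[6101244,178563,(-1026)],[(-5009),(-4649),8],[(-1544),28],[11]],[[264595,(-3456),15],[(-7944),81],[76]],[[(-4112),7],[113]],[[(-31)]]],[[[1117956,9200,(-45)],[(-17792),(-186)],[44]],[[14970,(-206)],[(-198)]],[[(-489)]]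],[[[66841,108],[(-913)]],[[(-314)]]],[[[670]]]],[[[[(-32284868),1499546,872,(-65)],[1861637,(-32848),(-32),1],[(-32354),395,(-1)],[325,(-5)],[(-3)]],[[1395929,30267,(-286),1],[(-16193),(-749),5],[75,5],[(-2)]],[[35401,(-255)],[(-884),6],[10]],[[14,(-1)]],[[(-1)]]],[[[(-30566962),2232780,(-7491),(-34)],[2296334,(-56529),133],[(-43321),646,(-1)],[414,(-4)],[(-2)]],[[2491802,19521,(-256),1],[(-46728),(-553),4],[401,4],[(-2)]],[[37652,(-292)],[(-988),5],[8]],[[(-7),(-1)]],[[(-1)]]],[[[(-769277),971930,(-5750)],[696542,(-27025),91],[(-16071),261],[139]],[[1378093,1438,(-62)],[(-31001),(-79)],[243]],[[13799,(-97)],[(-312)]],[[(-14)]]],[[[4737661,126659,(-942)],[(-20335),(-3612)],[(-1171)]],[[293559,(-472)],[(-6321)]],[[1968]]],[[[859671,5693],[(-14308)]],[[27033]]],[[[51159]]]],[[[[(-1878979),84198,218,(-5)],[111142,(-1909),(-1)],[(-2059),34],[27]],[[51049,3408,(-24)],[634,(-90)],[(-18),1]],[[3397,6],[(-87)],[1]],[[35],[(-1)]]],[[[(-1771186),129810,(-413),(-3)],[135994,(-3571),6],[(-2738),38],[25]],[[123786,2930,(-21)],[(-1505),(-73)],[(-6)]],[[4243,(-1)],[(-85)]],[[29]]],[[[18773,53872,(-321)],[35835,(-1525)],[(-910)]],[[80361,633],[(-1356)]],[[1569]]],[[[290989,5103],[(-3169)]],[[17237]]],[[[38258]]]],[[[[71559,(-3824),29],[(-4047),106],[71,(-1)]],[[(-3284),(-30)],[55,1]],[[(-75)],[1]]],[[[46135,(-3950),24],[(-3575),90],[57]],[[(-4397),(-23)],[56]],[[(-67)]]],[[[(-9013),(-1048)],[(-632)]],[[(-1691)]]],[[[(-7448)]]]]]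

/-- A surrogate. -/
def root_s14 : List (List (List (List (List ℤ)))) :=
  [[[[[(-35566742),1384025,15160,(-158)],[1829819,(-10800),(-371),1],[(-24871),90,(-1)],[263,(-6)],[(-4)]],[[1867193,35913,(-511),2],[(-24903),(-859),8],[299,1],[(-8)]],[[29781,(-936),5],[(-975),20],[10]],[[(-638),2],[15]],[[(-2)]]],[[[(-37679503),2561223,1704,(-101)],[2637240,(-46798),(-118),1],[(-42029),431,(-2)],[376,(-6)],[(-3)]],[[3454681,3923,(-293),1],[(-76432),(-120),4],[912,(-5)],[(-10)]],[[9957,(-800),5],[(-538),19],[6]],[[(-736),4],[19]],[[(-2)]]],[[[(-1948169),1246133,(-4682),(-11)],[911144,(-28768),57],[(-17965),265],[153,(-1)],[(-1)]],[[1757836,(-11233),(-6)],[(-45697),257,(-1)],[532,(-4)],[(-4)]],[[(-6427),(-192),2],[77,4],[(-1)]],[[(-298),2],[8]]],[[[5916350,173152,(-995)],[(-4864),(-4508),7],[(-1497),27],[11]],[[287532,(-2450),11],[(-7724),64],[69]],[[(-2659),(-8)],[84]],[[(-53)]]],[[[1084107,8921,(-44)],[(-17256),(-181)],[43]],[[20159,(-166)],[(-249)]],[[(-455)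]]],[[[64824,105],[(-886)]],[[(-78)]]],[[[650]]]],[[[[(-31306535),1454104,846,(-63)],[1805226,(-31852),(-31),1],[(-31374),383,(-1)],[316,(-5)],[(-3)]],[[1190547,36925,(-274)],[(-6291),(-898),5],[(-93),8]],[[41374,(-93),(-1)],[(-945),2],[10]],[[197,(-2)],[(-6)]],[[(-1)]]],[[[(-29640734),2165120,(-7264),(-33)],[2226760,(-54816),129],[(-42008),627,(-1)],[401,(-4)],[(-2)]],[[2261892,30232,(-289)],[(-33738),(-832),4],[168,6],[(-1)]],[[49184,(-187),(-1)],[(-1214),3],[10]],[[188,(-2)],[(-4)]],[[(-1)]]],[[[(-746025),942478,(-5577)],[675429,(-26208),88],[(-15583),253],[135]],[[1332704,6312,(-85)],[(-26608),(-197)],[162]],[[20418,(-89)],[(-439)]],[[45]]],[[[4594164,122822,(-914)],[(-19740),(-3503)],[(-1136)]],[[308768,137],[(-6185)]],[[3231]]],[[[833719,5522],[(-13881)]],[[30218]]],[[[49630]]]],[[[[(-1822040),81645,211,(-5)],[107776,(-1851),(-1)],[(-1996),33],[26]],[[39987,3731,(-23)],[1175,(-101)],[(-30),1]],[[3556,24],[(-84),(-1)],[1]],[[55],[(-1)]]],[[[(-1717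545),125875,(-401),(-2)],[131873,(-3463),6],[(-2656),37],[24]],[[111100,3515,(-23)],[(-783),(-87)],[(-18)]],[[4800,13],[(-89)]],[[48]]],[[[18202,52241,(-311)],[34745,(-1479)],[(-883)]],[[78211,879],[(-1127)]],[[1898]]],[[[282220,4950],[(-3075)]],[[18130]]],[[[37116]]]],[[[[69393,(-3708),28],[(-3924),103],[69,(-1)]],[[(-2826),(-51)],[32,1]],[[(-93)],[2]],[[(-1)]]],[[[44738,(-3831),24],[(-3466),87],[55]],[[(-4057),(-41)],[38]],[[(-85)]]],[[[(-8745),(-1017)],[(-613)]],[[(-1671)]]],[[[(-7226)]]]]]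

/-- A surrogate. -/
def root_s15 : List (List (List (List (List ℤ)))) :=
  [[[[[(-3861082905),(-27896180),358270,(-645),(-1)],[58919681,535277,(-2577),(-4)],[(-567339),3075,(-38)],[8119,(-107)],[(-80),1]],[[(-4097453),861100,(-6451),13],[54394,(-12267),58],[7663,(-43)],[(-171),2],[1]],[[1290878,(-13034),45],[(-26744),199],[158,(-1)]],[[(-5897),49],[124,(-1)],[(-1)]],[[7]]],[[[(-3957962689),11036515,64980,(-100),(-1)],[80022040,(-146595),(-207),(-3)],[(-716751),2818,(-16)],[5086,(-41)],[(-35)]],[[41530212,(-73896),(-1371),5],[(-990387),1532,17],[10943,(-32)],[(-78)]],[[473380,(-4569),16],[(-10785),81],[88]],[[(-2406),20],[57],[(-1)]],[[3]]],[[[(-855383401),3920034,1575,4],[18413485,(-62193),72,(-1)],[(-171530),681,(-2)],[1126,(-5)],[(-5)]],[[10387344,(-51281),(-97),1],[(-250405),855,1],[2459,(-8)],[(-15)]],[[79688,(-715),2],[(-1916),12],[15]],[[(-334),3],[9]]],[[[(-75937797),396554,(-356),2],[1703283,(-6928),10],[(-17024),45],[79]],[[967269,(-5715),1]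,[(-23337),121],[265]],[[6993,(-56)],[(-162)]],[[(-22)]]],[[[(-2941073),15747,(-15)],[68869,(-158)],[(-470)]],[[40174,(-331)],[(-1209)]],[[313]]],[[[(-32974),18],[402]],[[851]]],[[[392]]]],[[[[(-3753434055),(-1512161),173078,(-473)],[78385936,(-3599),(-1442),2],[(-815474),3498,(-12)],[6818,(-56)],[(-45)]],[[(-55831749),496687,(-1465),2],[1141975,(-7563),17],[(-7190),28],[(-4)]],[[256662,(-1182),(-2)],[(-5464),22],[51]],[[1515,(-14)],[(-32)]],[[(-4)]]],[[[(-3441291399),17977814,13514,(-153)],[80294147,(-329416),(-101),1],[(-791147),3026,(-3)],[4568,(-17)],[(-16)]],[[(-24539994),203418,(-560),1],[552309,(-3610),7],[(-4696),17],[10]],[[142715,(-938),1],[(-3477),20],[37]],[[617,(-5)],[(-12)]],[[(-2)]]],[[[(-716970435),4593033,(-3477),(-18)],[17369517,(-85024),29],[(-173447),573],[819]],[[(-4847332),38563,(-81)],[116292,(-576)],[(-844)]],[[18805,(-157)],[(-557)]],[[92]]],[[[(-62802404),434412,(-487)],[1562212,(-7450)],[(-14482)]],[[(-477911),3181],[10049]],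[[957]]],[[[(-2518355),17278],[60964]],[[(-20929)]]],[[[(-38075)]]]],[[[[(-510132251),(-164426),23799,(-71)],[11236706,(-5851),(-207)],[(-123345),551,(-1)],[1044,(-7)],[(-6)]],[[(-13453929),75001,(-1)],[286721,(-1298)],[(-2461),8],[8]],[[(-66949),557,(-1)],[1429,(-7)],[(-7)]],[[116,(-1)],[(-3)]],[[1]]],[[[(-443886841),2547640,636,(-20)],[10837236,(-49440),(-11)],[(-111163),386],[570]],[[(-7613079),53235,(-66)],[181805,(-879)],[(-1539)]],[[(-30956),200],[564]],[[66]]],[[[(-75045482),512154,(-467)],[1893494,(-9272)],[(-18337)]],[[(-1196309),8242],[27624]],[[(-4563)]]],[[[(-4681528),32909],[117109]],[[(-71762)]]],[[[(-99612)]]]],[[[[(-10648377),(-78558),1097,(-3)],[262106,599,(-10)],[(-3924),16],[36]],[[(-611141),2358,10],[13974,(-41)],[(-120)]],[[(-7999),46],[161]],[[(-36)]]],[[[(-10694536),61410,45],[296808,(-1419)],[(-3367)]],[[(-344990),2378],[8721]],[[(-3617)]]],[[[(-1467593),10524],[40783]],[[(-38335)]]],[[[(-52553)]]]],[[[[691968,(-5064),8],[(-14320),67],[98]],[[14565,(-96)],[(-272)]],[[104]]],[[[377478,(-2696)],[(-7619)]],[[7740]]],[[[15699]]]]]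

/-- A root. -/
def root : Root where
  cl := true
  box := fun i => match i with
    | 0 => ⟨17, 113, 200, 400⟩
    | 1 => ⟨193, 9751, 200, 10000⟩
    | 2 => ⟨11, 7, 80, 50⟩
    | _ => ⟨307, 310001, 1000, 1000000⟩
  De := 400
  e0 := 32
  e1 := 148
  p := fun i => match i with
    | 0 => 10
    | 1 => 198
    | 2 => 800
    | 3 => 666
    | _ => 7
  q := fun i => match i with
    | 0 => 2
    | 1 => 192
    | 2 => 111
    | 3 => 205
    | _ => 2
  den := 17179869184
  sur := fun k => match k with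
    | 0 => root_s0
    | 1 => root_s1
    | 3 => root_s3
    | 5 => root_s5
    | 11 => root_s11
    | 12 => root_s12
    | 13 => root_s13
    | 14 => root_s14
    | 15 => root_s15
    | _ => []
  eps := fun k => match k with
    | 0 => 143894
    | 1 => 316396
    | 3 => 157917
    | 5 => 134523
    | 11 => 94
    | 12 => 2577
    | 13 => 2590
    | 14 => 2754
    | 15 => 4448
    | _ => 0

/-- A leaf. -/
def leaf0 : Leaf :=
  ⟨⟨193, 77301, 200, 80000⟩, ⟨11, 111, 80, 800⟩, ⟨307, 310001, 1000, 1000000⟩,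
    16384, (1286, -33152, -24723, 14712), (7224, -45722, -24370, 13647), 16384, (31692, 53632, 69124, -55321), (1321, 2700, -13861, -1968), (45877, 61214, 75290, -73113), (-28483, 12760, 23633, 22558),
    true, 0, 1, 2673, (-310), 2289, 4096, (-2803), 1929⟩

/-- A leaf. -/
def leaf1 : Leaf :=
  ⟨⟨193, 77301, 200, 80000⟩, ⟨11, 111, 80, 800⟩, ⟨307, 310001, 1000, 1000000⟩,
    16384, (7224, -45722, -24370, 13647), (13163, -58291, -24018, 12582), 16384, (27900, 50207, 47778, -49362), (-28497, 21162, 40539, 17911), (8622, 69430, 95262, -39715), (-2486, 6613, -2957, -385),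
    true, 0, 1, 2587, (-412), 4096, 3931, (-2840), 2509⟩

/-- A tile. -/
def tile0 : Tile :=
  ⟨⟨193, 77301, 200, 80000⟩, ⟨11, 111, 80, 800⟩, ⟨307, 310001, 1000, 1000000⟩, 16384, (1286, -33152, -24723, 14712), (13163, -58291, -24018, 12582), 6636,
    (1024, 0), (1024, 0), 0, 3, (leaf0, ⟨(1024, 0), (73, 1024)⟩),
    [(leaf1, ⟨(4, 1024), (1024, 0)⟩)]⟩

/-- A leaf. -/
def leaf2 : Leaf :=
  ⟨⟨77301, 38701, 80000, 40000⟩, ⟨11, 111, 80, 800⟩, ⟨307, 310001, 1000, 1000000⟩,
    16384, (960, -33374, -24800, 15132), (6777, -46040, -24594, 14244), 16384, (32914, 53074, 68562, -56328), (1567, 2767, -13715, -2264), (54719, 59187, 70689, -80970), (-37000, 14489, 28298, 30151),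
    true, 0, 1, 2550, (-329), 2255, 4096, (-2681), 1872⟩

/-- A leaf. -/
def leaf3 : Leaf :=
  ⟨⟨77301, 38701, 80000, 40000⟩, ⟨11, 111, 80, 800⟩, ⟨307, 310001, 1000, 1000000⟩,
    16384, (6777, -46040, -24594, 14244), (12594, -58707, -24388, 13357), 16384, (29308, 49732, 47407, -50603), (-29139, 21619, 41445, 18302), (9540, 69206, 95336, -40605), (-2331, 6695, -2803, -594),
    true, 0, 1, 2693, (-331), 4096, 3943, (-2840), 2543⟩

/-- A tile. -/
def tile1 : Tile :=
  ⟨⟨77301, 38701, 80000, 40000⟩, ⟨11, 111, 80, 800⟩, ⟨307, 310001, 1000, 1000000⟩, 16384, (960, -33374, -24800, 15132), (12594, -58707, -24388, 13357), 6636,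
    (1024, 0), (1024, 1), 0, 3, (leaf2, ⟨(1024, 0), (55, 1024)⟩),
    [(leaf3, ⟨(0, 1024), (1024, 0)⟩)]⟩

/-- A leaf. -/
def leaf4 : Leaf :=
  ⟨⟨193, 77301, 200, 80000⟩, ⟨111, 7, 800, 50⟩, ⟨307, 310001, 1000, 1000000⟩,
    16384, (1720, -33699, -25576, 14560), (8118, -46986, -26224, 13392), 16384, (31507, 55027, 70393, -55758), (973, 3336, -13273, -1895), (45937, 62802, 76882, -73913), (-29280, 13198, 24109, 23178),
    true, 0, 1, 2659, (-325), 2373, 4096, (-2945), 1908⟩

/-- A leaf. -/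
def leaf5 : Leaf :=
  ⟨⟨193, 77301, 200, 80000⟩, ⟨111, 7, 800, 50⟩, ⟨307, 310001, 1000, 1000000⟩,
    16384, (8118, -46986, -26224, 13392), (14515, -60272, -26871, 12225), 16384, (27578, 51815, 49137, -49750), (-29532, 21635, 41546, 18685), (7684, 71290, 97124, -39606), (-2861, 7211, -2288, -283),
    true, 0, 1, 2455, (-333), 4096, 3321, (-2785), 2362⟩

/-- A tile. -/
def tile2 : Tile :=
  ⟨⟨193, 77301, 200, 80000⟩, ⟨111, 7, 800, 50⟩, ⟨307, 310001, 1000, 1000000⟩, 16384, (1720, -33699, -25576, 14560), (14515, -60272, -26871, 12225), 6718,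
    (1024, 0), (1024, 1), 0, 3, (leaf4, ⟨(1024, 0), (74, 1024)⟩),
    [(leaf5, ⟨(3, 1024), (1024, 0)⟩)]⟩

/-- A leaf. -/
def leaf6 : Leaf :=
  ⟨⟨77301, 38701, 80000, 40000⟩, ⟨111, 7, 800, 50⟩, ⟨307, 310001, 1000, 1000000⟩,
    16384, (1308, -33914, -25727, 15077), (7662, -47292, -26503, 14003), 16384, (32887, 54442, 69923, -56932), (1108, 3383, -13165, -2067), (55487, 60812, 71573, -82408), (-38904, 14550, 29222, 31969),
    true, 0, 1, 2577, (-322), 2349, 4096, (-2853), 1880⟩

/-- A leaf. -/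
def leaf7 : Leaf :=
  ⟨⟨77301, 38701, 80000, 40000⟩, ⟨111, 7, 800, 50⟩, ⟨307, 310001, 1000, 1000000⟩,
    16384, (7662, -47292, -26503, 14003), (14015, -60671, -27279, 12929), 16384, (29003, 51322, 48785, -51021), (-30173, 22239, 42432, 19028), (8625, 71038, 97247, -40518), (-2797, 7291, -2151, -395),
    true, 0, 1, 2516, (-348), 4096, 3465, (-2735), 2348⟩

/-- A tile. -/
def tile3 : Tile :=
  ⟨⟨77301, 38701, 80000, 40000⟩, ⟨111, 7, 800, 50⟩, ⟨307, 310001, 1000, 1000000⟩, 16384, (1308, -33914, -25727, 15077), (14015, -60671, -27279, 12929), 6718,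
    (1024, 0), (1024, 1), 0, 3, (leaf6, ⟨(1024, 0), (55, 1024)⟩),
    [(leaf7, ⟨(3, 1024), (1024, 0)⟩)]⟩

/-- A leaf. -/
def leaf8 : Leaf :=
  ⟨⟨38701, 77503, 40000, 80000⟩, ⟨11, 111, 80, 800⟩, ⟨307, 310001, 1000, 1000000⟩,
    16384, (480, -33543, -24944, 15702), (6278, -46368, -24871, 14904), 16384, (34380, 52430, 68100, -57572), (1663, 2920, -13602, -2429), (36148, 52471, 67139, -59205), (-5524, 22647, 31035, -5375),
    true, 0, 1, 2454, (-324), 2233, 4096, (-2577), 1856⟩

/-- A leaf. -/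
def leaf9 : Leaf :=
  ⟨⟨38701, 77503, 40000, 80000⟩, ⟨11, 111, 80, 800⟩, ⟨307, 310001, 1000, 1000000⟩,
    16384, (6278, -46368, -24871, 14904), (12075, -59193, -24798, 14107), 16384, (30797, 49248, 47040, -51940), (-29653, 21976, 42229, 18605), (10525, 68986, 95466, -41571), (-2289, 6842, -2665, -703),
    true, 0, 1, 2602, (-327), 4050, 4096, (-2827), 2553⟩

/-- A tile. -/
def tile4 : Tile :=
  ⟨⟨38701, 77503, 40000, 80000⟩, ⟨11, 111, 80, 800⟩, ⟨307, 310001, 1000, 1000000⟩, 16384, (480, -33543, -24944, 15702), (12075, -59193, -24798, 14107), 6636,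
    (1024, 0), (1024, 0), 0, 3, (leaf8, ⟨(1024, 1), (9, 1024)⟩),
    [(leaf9, ⟨(1, 1024), (1024, 1)⟩)]⟩

/-- A leaf. -/
def leaf10 : Leaf :=
  ⟨⟨77503, 19401, 80000, 20000⟩, ⟨11, 111, 80, 800⟩, ⟨307, 310001, 1000, 1000000⟩,
    16384, (57, -33735, -25055, 16216), (5746, -46662, -25102, 15580), 16384, (35789, 51784, 67558, -58743), (1891, 3002, -13521, -2702), (41698, 52507, 65780, -64745), (-21745, 17334, 28845, 13367),
    true, 0, 1, 2418, (-321), 2230, 4096, (-2515), 1852⟩

/-- A leaf. -/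
def leaf11 : Leaf :=
  ⟨⟨77503, 19401, 80000, 20000⟩, ⟨11, 111, 80, 800⟩, ⟨307, 310001, 1000, 1000000⟩,
    16384, (5746, -46662, -25102, 15580), (11435, -59588, -25149, 14944), 16384, (32397, 48721, 46615, -53384), (-30311, 22631, 43288, 18924), (11560, 68711, 95538, -42562), (-2144, 6920, -2543, -895),
    true, 0, 1, 2592, (-329), 3955, 4096, (-2713), 2495⟩

/-- A tile. -/
def tile5 : Tile :=
  ⟨⟨77503, 19401, 80000, 20000⟩, ⟨11, 111, 80, 800⟩, ⟨307, 310001, 1000, 1000000⟩, 16384, (57, -33735, -25055, 16216), (11435, -59588, -25149, 14944), 6636,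
    (1024, 0), (1024, 1), 0, 3, (leaf10, ⟨(1024, 0), (22, 1024)⟩),
    [(leaf11, ⟨(6, 1024), (1024, 1)⟩)]⟩

/-- A leaf. -/
def leaf12 : Leaf :=
  ⟨⟨38701, 77503, 40000, 80000⟩, ⟨111, 7, 800, 50⟩, ⟨307, 310001, 1000, 1000000⟩,
    16384, (940, -34109, -25840, 15536), (7207, -47628, -26809, 14624), 16384, (34219, 53802, 69375, -58026), (1298, 3531, -12936, -2342), (36738, 53880, 68481, -60453), (-7292, 24250, 32843, -4322),
    true, 0, 1, 2512, (-319), 2334, 4096, (-2732), 1865⟩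

/-- A leaf. -/
def leaf13 : Leaf :=
  ⟨⟨38701, 77503, 40000, 80000⟩, ⟨111, 7, 800, 50⟩, ⟨307, 310001, 1000, 1000000⟩,
    16384, (7207, -47628, -26809, 14624), (13474, -61147, -27778, 13712), 16384, (30486, 50823, 48420, -52364), (-30767, 22695, 43160, 19390), (9570, 70818, 97398, -41445), (-2677, 7414, -1946, -587),
    true, 0, 1, 2628, (-287), 4096, 3531, (-2716), 2353⟩

/-- A tile. -/
def tile6 : Tile :=
  ⟨⟨38701, 77503, 40000, 80000⟩, ⟨111, 7, 800, 50⟩, ⟨307, 310001, 1000, 1000000⟩, 16384, (940, -34109, -25840, 15536), (13474, -61147, -27778, 13712), 6718,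
    (1024, 0), (1024, 1), 0, 3, (leaf12, ⟨(1024, 0), (44, 1024)⟩),
    [(leaf13, ⟨(8, 1024), (1024, 1)⟩)]⟩

/-- A leaf. -/
def leaf14 : Leaf :=
  ⟨⟨77503, 19401, 80000, 20000⟩, ⟨111, 7, 800, 50⟩, ⟨307, 310001, 1000, 1000000⟩,
    16384, (479, -34313, -25997, 16099), (6711, -47988, -27096, 15292), 16384, (35711, 53161, 68884, -59291), (1421, 3681, -12823, -2534), (41098, 53834, 67108, -64670), (-19814, 18150, 29764, 10985),
    true, 0, 1, 2411, (-324), 2295, 4096, (-2675), 1827⟩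

/-- A leaf. -/
def leaf15 : Leaf :=
  ⟨⟨77503, 19401, 80000, 20000⟩, ⟨111, 7, 800, 50⟩, ⟨307, 310001, 1000, 1000000⟩,
    16384, (6711, -47988, -27096, 15292), (12943, -61663, -28194, 14484), 16384, (32122, 50329, 48018, -53825), (-31282, 23090, 44116, 19656), (10575, 70606, 97521, -42433), (-2619, 7560, -1811, -713),
    true, 0, 1, 2579, (-301), 4096, 3690, (-2710), 2382⟩

/-- A tile. -/
def tile7 : Tile :=
  ⟨⟨77503, 19401, 80000, 20000⟩, ⟨111, 7, 800, 50⟩, ⟨307, 310001, 1000, 1000000⟩, 16384, (479, -34313, -25997, 16099), (12943, -61663, -28194, 14484), 6718,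
    (1024, 0), (1024, 0), 0, 3, (leaf14, ⟨(1024, 1), (48, 1024)⟩),
    [(leaf15, ⟨(4, 1024), (1024, 1)⟩)]⟩

/-- A leaf. -/
def leaf16 : Leaf :=
  ⟨⟨19401, 15541, 20000, 16000⟩, ⟨11, 111, 80, 800⟩, ⟨307, 310001, 1000, 1000000⟩,
    16384, (-434, -33930, -25193, 16803), (5224, -47018, -25414, 16274), 16384, (37313, 51133, 67056, -60035), (1986, 3194, -13361, -2883), (39506, 50660, 65854, -61960), (-4794, 25574, 32516, -7238),
    true, 0, 1, 2284, (-339), 2181, 4096, (-2389), 1815⟩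

/-- A leaf. -/
def leaf17 : Leaf :=
  ⟨⟨19401, 15541, 20000, 16000⟩, ⟨11, 111, 80, 800⟩, ⟨307, 310001, 1000, 1000000⟩,
    16384, (5224, -47018, -25414, 16274), (10883, -60106, -25635, 15746), 16384, (34110, 48216, 46210, -54920), (-30631, 22918, 43925, 19067), (27268, 72310, 96030, -59942), (-24737, -34, -3470, 24731),
    true, 0, 1, 2516, (-334), 3911, 4096, (-2592), 2460⟩

/-- A tile. -/
def tile8 : Tile :=
  ⟨⟨19401, 15541, 20000, 16000⟩, ⟨11, 111, 80, 800⟩, ⟨307, 310001, 1000, 1000000⟩, 16384, (-434, -33930, -25193, 16803), (10883, -60106, -25635, 15746), 6636,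
    (1024, 0), (1024, 0), 0, 3, (leaf16, ⟨(1024, 1), (4, 1024)⟩),
    [(leaf17, ⟨(2, 1024), (1024, 4)⟩)]⟩

/-- A leaf. -/
def leaf18 : Leaf :=
  ⟨⟨15541, 38903, 16000, 40000⟩, ⟨11, 111, 80, 800⟩, ⟨307, 310001, 1000, 1000000⟩,
    16384, (-938, -34135, -25304, 17403), (4580, -47332, -25670, 17074), 16384, (38892, 50457, 66473, -61363), (2277, 3266, -13239, -3223), (39437, 49782, 65354, -61548), (1480, 27313, 34094, -14476),
    true, 0, 1, 2376, (-339), 2301, 4096, (-2339), 1880⟩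

/-- A leaf. -/
def leaf19 : Leaf :=
  ⟨⟨15541, 38903, 16000, 40000⟩, ⟨11, 111, 80, 800⟩, ⟨307, 310001, 1000, 1000000⟩,
    16384, (4580, -47332, -25670, 17074), (10099, -60530, -26037, 16745), 16384, (36057, 47690, 45748, -56745), (-31481, 23598, 44992, 19573), (30845, 71879, 95512, -63389), (-30886, -87, -2312, 30911),
    true, 0, 1, 2261, (-338), 3574, 4096, (-2366), 2232⟩

/-- A tile. -/
def tile9 : Tile :=
  ⟨⟨15541, 38903, 16000, 40000⟩, ⟨11, 111, 80, 800⟩, ⟨307, 310001, 1000, 1000000⟩, 16384, (-938, -34135, -25304, 17403), (10099, -60530, -26037, 16745), 6636,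
    (1024, 0), (1024, 0), 0, 3, (leaf18, ⟨(1024, 0), (1, 1024)⟩),
    [(leaf19, ⟨(14, 1024), (1024, 14)⟩)]⟩

/-- A leaf. -/
def leaf20 : Leaf :=
  ⟨⟨19401, 15541, 20000, 16000⟩, ⟨111, 7, 800, 50⟩, ⟨307, 310001, 1000, 1000000⟩,
    16384, (6, -34510, -26147, 16671), (6196, -48330, -27430, 15980), 16384, (37251, 52472, 68355, -60583), (1550, 3827, -12647, -2739), (40603, 52320, 67129, -63776), (-9067, 24446, 31743, -2368),
    true, 0, 1, 2337, (-320), 2282, 4096, (-2566), 1818⟩

/-- A leaf. -/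
def leaf21 : Leaf :=
  ⟨⟨19401, 15541, 20000, 16000⟩, ⟨111, 7, 800, 50⟩, ⟨307, 310001, 1000, 1000000⟩,
    16384, (6196, -48330, -27430, 15980), (12385, -62150, -28712, 15289), 16384, (33906, 49809, 47617, -55430), (-31794, 23698, 44972, 19866), (22275, 73753, 98297, -55584), (-17921, 1609, -3068, 17130),
    true, 0, 1, 2596, (-300), 4096, 3753, (-2676), 2380⟩

/-- A tile. -/
def tile10 : Tile :=
  ⟨⟨19401, 15541, 20000, 16000⟩, ⟨111, 7, 800, 50⟩, ⟨307, 310001, 1000, 1000000⟩, 16384, (6, -34510, -26147, 16671), (12385, -62150, -28712, 15289), 6718,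
    (1024, 0), (1024, 0), 0, 3, (leaf20, ⟨(1024, 0), (12, 1024)⟩),
    [(leaf21, ⟨(1, 1024), (1024, 4)⟩)]⟩

/-- A leaf. -/
def leaf22 : Leaf :=
  ⟨⟨15541, 38903, 16000, 40000⟩, ⟨111, 7, 800, 50⟩, ⟨307, 310001, 1000, 1000000⟩,
    16384, (-547, -34722, -26266, 17325), (5593, -48706, -27732, 16763), 16384, (38943, 51775, 67756, -62018), (1679, 4024, -12472, -2958), (39630, 51129, 66644, -62355), (470, 28113, 34939, -13812),
    true, 0, 1, 2282, (-329), 2264, 4096, (-2456), 1806⟩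

/-- A leaf. -/
def leaf23 : Leaf :=
  ⟨⟨15541, 38903, 16000, 40000⟩, ⟨111, 7, 800, 50⟩, ⟨307, 310001, 1000, 1000000⟩,
    16384, (5593, -48706, -27732, 16763), (11733, -62690, -29197, 16201), 16384, (35836, 49303, 47164, -57244), (-32485, 24148, 45944, 20292), (30431, 73820, 97600, -63877), (-32442, 434, -1688, 32251),
    true, 0, 1, 2534, (-328), 4089, 4096, (-2678), 2380⟩

/-- A tile. -/
def tile11 : Tile :=
  ⟨⟨15541, 38903, 16000, 40000⟩, ⟨111, 7, 800, 50⟩, ⟨307, 310001, 1000, 1000000⟩, 16384, (-547, -34722, -26266, 17325), (11733, -62690, -29197, 16201), 6718,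
    (1024, 0), (1024, 0), 0, 3, (leaf22, ⟨(1024, 0), (1, 1024)⟩),
    [(leaf23, ⟨(12, 1024), (1024, 12)⟩)]⟩

/-- A leaf. -/
def leaf24 : Leaf :=
  ⟨⟨38903, 77907, 40000, 80000⟩, ⟨11, 111, 80, 800⟩, ⟨307, 310001, 1000, 1000000⟩,
    16384, (-1450, -34326, -25462, 18013), (4006, -47684, -25978, 17821), 16384, (40512, 49728, 65937, -62722), (2457, 3405, -13101, -3473), (41146, 49080, 64752, -62996), (2126, 27279, 33909, -15102),
    true, 0, 1, 2475, (-345), 2248, 4096, (-2200), 1807⟩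

/-- A leaf. -/
def leaf25 : Leaf :=
  ⟨⟨38903, 77907, 40000, 80000⟩, ⟨11, 111, 80, 800⟩, ⟨307, 310001, 1000, 1000000⟩,
    16384, (4006, -47684, -25978, 17821), (9461, -61043, -26495, 17629), 16384, (38294, 47213, 45296, -58815), (-31991, 24163, 46031, 19771), (32404, 71871, 95551, -64964), (-31478, -167, -1898, 31482),
    true, 0, 1, 2154, (-350), 3491, 4096, (-2269), 2174⟩

/-- A tile. -/
def tile12 : Tile :=
  ⟨⟨38903, 77907, 40000, 80000⟩, ⟨11, 111, 80, 800⟩, ⟨307, 310001, 1000, 1000000⟩, 16384, (-1450, -34326, -25462, 18013), (9461, -61043, -26495, 17629), 6636,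
    (1024, 0), (1024, 0), 0, 3, (leaf24, ⟨(1024, 0), (1, 1024)⟩),
    [(leaf25, ⟨(10, 1024), (1024, 28)⟩)]⟩

/-- A leaf. -/
def leaf26 : Leaf :=
  ⟨⟨77907, 9751, 80000, 10000⟩, ⟨11, 111, 80, 800⟩, ⟨307, 310001, 1000, 1000000⟩,
    16384, (-2033, -34570, -25470, 18690), (3283, -48070, -26224, 18720), 16384, (42260, 49061, 65154, -64195), (2739, 3546, -12841, -3844), (42945, 48324, 64155, -64518), (2778, 27159, 33639, -15696),
    true, 0, 1, 2503, (-368), 2240, 4096, (-2048), 1755⟩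

/-- A leaf. -/
def leaf27 : Leaf :=
  ⟨⟨77907, 9751, 80000, 10000⟩, ⟨11, 111, 80, 800⟩, ⟨307, 310001, 1000, 1000000⟩,
    16384, (3283, -48070, -26224, 18720), (8599, -61569, -26979, 18749), 16384, (40877, 46768, 44770, -61241), (-33103, 24593, 47129, 20616), (34201, 71661, 95587, -66730), (-31938, 107, -1493, 31810),
    true, 0, 1, 1902, (-439), 3216, 4096, (-2108), 2008⟩

/-- A tile. -/
def tile13 : Tile :=
  ⟨⟨77907, 9751, 80000, 10000⟩, ⟨11, 111, 80, 800⟩, ⟨307, 310001, 1000, 1000000⟩, 16384, (-2033, -34570, -25470, 18690), (8599, -61569, -26979, 18749), 6636,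
    (1024, 0), (1024, 0), 0, 3, (leaf26, ⟨(1024, 1), (1, 1024)⟩),
    [(leaf27, ⟨(7, 1024), (1024, 40)⟩)]⟩

/-- A leaf. -/
def leaf28 : Leaf :=
  ⟨⟨38903, 77907, 40000, 80000⟩, ⟨111, 7, 800, 50⟩, ⟨307, 310001, 1000, 1000000⟩,
    16384, (-1067, -34981, -26346, 17953), (4982, -49090, -28038, 17558), 16384, (40603, 51134, 67074, -63424), (1905, 4108, -12233, -3254), (41141, 50371, 66013, -63578), (1897, 28219, 35022, -15324),
    true, 0, 1, 2185, (-338), 2219, 4096, (-2332), 1763⟩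

/-- A leaf. -/
def leaf29 : Leaf :=
  ⟨⟨38903, 77907, 40000, 80000⟩, ⟨111, 7, 800, 50⟩, ⟨307, 310001, 1000, 1000000⟩,
    16384, (4982, -49090, -28038, 17558), (11030, -63200, -29730, 17162), 16384, (38118, 48824, 46698, -59358), (-33299, 24764, 47010, 20779), (31993, 73876, 97641, -65474), (-32942, 288, -1210, 32739),
    true, 0, 1, 2495, (-346), 4062, 4096, (-2580), 2330⟩

/-- A tile. -/
def tile14 : Tile :=
  ⟨⟨38903, 77907, 40000, 80000⟩, ⟨111, 7, 800, 50⟩, ⟨307, 310001, 1000, 1000000⟩, 16384, (-1067, -34981, -26346, 17953), (11030, -63200, -29730, 17162), 6718,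
    (1024, 0), (1024, 0), 0, 3, (leaf28, ⟨(1024, 1), (1, 1024)⟩),
    [(leaf29, ⟨(8, 1024), (1024, 26)⟩)]⟩

/-- A leaf. -/
def leaf30 : Leaf :=
  ⟨⟨77907, 9751, 80000, 10000⟩, ⟨111, 7, 800, 50⟩, ⟨307, 310001, 1000, 1000000⟩,
    16384, (-1679, -35176, -26562, 18674), (4258, -49466, -28409, 18473), 16384, (42439, 50360, 66579, -64993), (2154, 4300, -12065, -3593), (42965, 49622, 65356, -65120), (2552, 28109, 34732, -15921),
    true, 0, 1, 2618, (-359), 2350, 4096, (-2188), 1754⟩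

/-- A leaf. -/
def leaf31 : Leaf :=
  ⟨⟨77907, 9751, 80000, 10000⟩, ⟨111, 7, 800, 50⟩, ⟨307, 310001, 1000, 1000000⟩,
    16384, (4258, -49466, -28409, 18473), (10194, -63757, -30256, 18272), 16384, (40715, 48346, 46236, -61796), (-34527, 25317, 48038, 21714), (33767, 73715, 97710, -67236), (-33386, 495, -734, 33061),
    true, 0, 1, 2279, (-347), 3802, 4096, (-2434), 2205⟩

/-- A tile. -/
def tile15 : Tile :=
  ⟨⟨77907, 9751, 80000, 10000⟩, ⟨111, 7, 800, 50⟩, ⟨307, 310001, 1000, 1000000⟩, 16384, (-1679, -35176, -26562, 18674), (10194, -63757, -30256, 18272), 6718,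
    (1024, 0), (1024, 0), 0, 3, (leaf30, ⟨(1024, 1), (1, 1024)⟩),
    [(leaf31, ⟨(5, 1024), (1024, 38)⟩)]⟩

/-- The subdivision. -/
def tree : Tree :=
  (.node 0 19401 20000
    (.node 0 38701 40000
    (.node 1 111 800
    (.node 0 77301 80000
    (.tile tile0)
    (.tile tile1))
    (.node 0 77301 80000
    (.tile tile2)
    (.tile tile3)))
    (.node 1 111 800
    (.node 0 77503 80000
    (.tile tile4)
    (.tile tile5))
    (.node 0 77503 80000
    (.tile tile6)
    (.tile tile7))))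
    (.node 0 38903 40000
    (.node 1 111 800
    (.node 0 15541 16000
    (.tile tile8)
    (.tile tile9))
    (.node 0 15541 16000
    (.tile tile10)
    (.tile tile11)))
    (.node 1 111 800
    (.node 0 77907 80000
    (.tile tile12)
    (.tile tile13))
    (.node 0 77907 80000
    (.tile tile14)
    (.tile tile15)))))

def tree_ok : tree.ok pieceC 448 ⟨193, 9751, 200, 10000⟩ ⟨11, 7, 80, 50⟩ ⟨307, 310001, 1000, 1000000⟩ = true := by
  decide +kernel

def root_ok0 : root.okEnt 576 0 = true := by decide +kernel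

def root_ok1 : root.okEnt 576 1 = true := by decide +kernel

def root_ok3 : root.okEnt 576 3 = true := by decide +kernel

def root_ok5 : root.okEnt 576 5 = true := by decide +kernel

def root_ok11 : root.okEnt 576 11 = true := by decide +kernel

def root_ok12 : root.okEnt 576 12 = true := by decide +kernel

def root_ok13 : root.okEnt 576 13 = true := by decide +kernel

def root_ok14 : root.okEnt 576 14 = true := by decide +kernel

def root_ok15 : root.okEnt 576 15 = true := by decide +kernel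

def leaf0_ok : leaf0.okLeaf root 640 = true := by decide +kernel

def leaf1_ok : leaf1.okLeaf root 640 = true := by decide +kernel

def leaf2_ok : leaf2.okLeaf root 640 = true := by decide +kernel

def leaf3_ok : leaf3.okLeaf root 640 = true := by decide +kernel

def leaf4_ok : leaf4.okLeaf root 640 = true := by decide +kernel

def leaf5_ok : leaf5.okLeaf root 640 = true := by decide +kernel

def leaf6_ok : leaf6.okLeaf root 640 = true := by decide +kernel

def leaf7_ok : leaf7.okLeaf root 640 = true := by decide +kernel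

def leaf8_ok : leaf8.okLeaf root 640 = true := by decide +kernel

def leaf9_ok : leaf9.okLeaf root 640 = true := by decide +kernel

def leaf10_ok : leaf10.okLeaf root 640 = true := by decide +kernel

def leaf11_ok : leaf11.okLeaf root 640 = true := by decide +kernel

def leaf12_ok : leaf12.okLeaf root 640 = true := by decide +kernel

def leaf13_ok : leaf13.okLeaf root 640 = true := by decide +kernel

def leaf14_ok : leaf14.okLeaf root 640 = true := by decide +kernel

def leaf15_ok : leaf15.okLeaf root 640 = true := by decide +kernel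

def leaf16_ok : leaf16.okLeaf root 640 = true := by decide +kernel

def leaf17_ok : leaf17.okLeaf root 640 = true := by decide +kernel

def leaf18_ok : leaf18.okLeaf root 640 = true := by decide +kernel

def leaf19_ok : leaf19.okLeaf root 640 = true := by decide +kernel

def leaf20_ok : leaf20.okLeaf root 640 = true := by decide +kernel

def leaf21_ok : leaf21.okLeaf root 640 = true := by decide +kernel

def leaf22_ok : leaf22.okLeaf root 640 = true := by decide +kernel

def leaf23_ok : leaf23.okLeaf root 640 = true := by decide +kernel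

def leaf24_ok : leaf24.okLeaf root 640 = true := by decide +kernel

def leaf25_ok : leaf25.okLeaf root 640 = true := by decide +kernel

def leaf26_ok : leaf26.okLeaf root 640 = true := by decide +kernel

def leaf27_ok : leaf27.okLeaf root 640 = true := by decide +kernel

def leaf28_ok : leaf28.okLeaf root 640 = true := by decide +kernel

def leaf29_ok : leaf29.okLeaf root 640 = true := by decide +kernel

def leaf30_ok : leaf30.okLeaf root 640 = true := by decide +kernel

def leaf31_ok : leaf31.okLeaf root 640 = true := by decide +kernel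

theorem leaves_eq : tree.leaves =
    [leaf0, leaf1, leaf2, leaf3, leaf4, leaf5, leaf6, leaf7,
    leaf8, leaf9, leaf10, leaf11, leaf12, leaf13, leaf14, leaf15,
    leaf16, leaf17, leaf18, leaf19, leaf20, leaf21, leaf22, leaf23,
    leaf24, leaf25, leaf26, leaf27, leaf28, leaf29, leaf30, leaf31] := rfl

theorem leaves_ok : ∀ F ∈ tree.leaves, Leaf.okLeaf F root 640 = true := by
  rw [leaves_eq]
  exact all'_cons leaf0_ok (all'_cons leaf1_ok (all'_cons leaf2_ok (all'_cons leaf3_ok (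
    all'_cons leaf4_ok (all'_cons leaf5_ok (all'_cons leaf6_ok (all'_cons leaf7_ok (
    all'_cons leaf8_ok (all'_cons leaf9_ok (all'_cons leaf10_ok (all'_cons leaf11_ok (
    all'_cons leaf12_ok (all'_cons leaf13_ok (all'_cons leaf14_ok (all'_cons leaf15_ok (
    all'_cons leaf16_ok (all'_cons leaf17_ok (all'_cons leaf18_ok (all'_cons leaf19_ok (
    all'_cons leaf20_ok (all'_cons leaf21_ok (all'_cons leaf22_ok (all'_cons leaf23_ok (
    all'_cons leaf24_ok (all'_cons leaf25_ok (all'_cons leaf26_ok (all'_cons leaf27_ok (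
    all'_cons leaf28_ok (all'_cons leaf29_ok (all'_cons leaf30_ok (all'_cons leaf31_ok (
    (fun F hF => absurd hF List.not_mem_nil)))))))))))))))))))))))))))))))))

theorem root_ok : ∀ k ∈ [0, 1, 3, 5, 11, 12, 13, 14, 15], root.okEnt 576 k = true := by
  intro k hk
  simp only [List.mem_cons, List.not_mem_nil, or_false] at hk
  rcases hk with rfl | rfl | rfl | rfl | rfl | rfl | rfl | rfl | rfl
  · exact root_ok0
  · exact root_ok1
  · exact root_ok3
  · exact root_ok5
  · exact root_ok11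
  · exact root_ok12
  · exact root_ok13
  · exact root_ok14
  · exact root_ok15

theorem used_ok : ∀ F ∈ tree.leaves, ∀ k ∈ Leaf.used F, root.okEnt 576 k = true := by
  intro F hF k hk
  refine root_ok k ?_
  rw [leaves_eq] at hF
  have h : ([leaf0, leaf1, leaf2, leaf3, leaf4, leaf5, leaf6, leaf7,
    leaf8, leaf9, leaf10, leaf11, leaf12, leaf13, leaf14, leaf15,
    leaf16, leaf17, leaf18, leaf19, leaf20, leaf21, leaf22, leaf23,
    leaf24, leaf25, leaf26, leaf27, leaf28, leaf29, leaf30, leaf31]).all (fun G => G.used.all fun j => [0, 1, 3, 5, 11, 12, 13, 14, 15].any (Nat.beq j)) = true := by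
    decide +kernel
  simp only [List.all_eq_true, List.any_eq_true] at h
  obtain ⟨j, hj, e⟩ := h F hF k hk
  exact Nat.eq_of_beq_eq_true e ▸ hj

/-- **The signs on the box.** -/
theorem signs {a I u X η : ℝ} (hf : Facts pieceC a I u X η) (hu : In1 ⟨193, 9751, 200, 10000⟩ u)
    (hI : In1 ⟨11, 7, 80, 50⟩ I) (ha : In1 ⟨307, 310001, 1000, 1000000⟩ a) :
    ClosedGen.SignsMult a (rd (mk4 X u I a)) (rv (mk4 X u I a)) (rg (mk4 X u I a) η)
      (rW (mk4 X u I a) η) (rW1 (mk4 X u I a) η) (rR (mk4 X u I a))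
      (rNum true (mk4 X u I a) η) :=
  Tree.signs (T := tree) (R := root) tree_ok leaves_ok used_ok hf hu hI ha

end Vale.Agent.P100.Calib.MidTail.BoxII1U3d
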