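import Vale.Agent.P100.Calib.SlabMidTailPieces

/-!
# The signs on a box of the middle tail

`u, I, a` lie in the box of `root`; the surrogates and leaves are checked by the kernel.
-/

namespace Vale.Agent.P100.Calib.MidTail.BoxII1U3f

open Pack EndAll Band

/-- A surrogate. -/
def root_s0 : List (List (List (List (List ℤ)))) :=
  [[[[[5736985570,(-184835391),772400,(-1374),1],[(-59449949),892779,(-2301),(-1)],[174104,(-1287),(-2)],[(-168),(-1)]],[[(-39285429),122787,(-280),1],[116983,(-192),2],[87],[(-1)]],[[(-20813),720,(-2)],[218,(-4)],[(-1)]],[[170]]],[[[3024006711,(-148054677),561023,(-1051),1],[(-42025706),710370,(-1823)],[134876,(-1155)],[(-160)]],[[(-34237300),2964,307],[79483,630,(-2)],[216,(-3)],[(-1)]],[[(-6290),547,(-1)],[100,(-2)]],[[216],[(-1)]]],[[[(-257073824),(-35421552),99798,(-166)],[(-6291794),163409,(-312)],[26766,(-280)],[(-38)]],[[(-10177166),(-31000),226],[20412,376,(-1)],[76,(-1)]],[[191,152],[21,(-1)]],[[80]]]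,[[[(-231738371),(-4273207),8733,(-6)],[124211,19186,(-20)],[1439,(-28)],[(-2)]],[[(-1667342),(-5624),34],[4248,49],[7]],[[1066,17],[(-6)]],[[14]]],[[[(-36044425),(-239702),353],[117137,894],[(-159)]],[[(-131125),(-329)],[257]],[[265]]],[[[(-2011606),(-3498)],[8000]],[[(-2731)]]],[[[(-29842)]]]],[[[[2966554994,(-86227385),220405,279,(-3)],[(-30055296),370029,16,(-7)],[86178,(-335),(-5)],[(-80),(-1)]],[[(-17802647),(-177955),665,(-1)],[26187,943,(-2)],[95,(-2)]],[[(-74799),104],[297]],[[(-47)]]],[[[1709638334,(-75541713),216055,(-193),(-1)],[(-23288528),360582,(-688),(-2)],[79056,(-662)],[(-120)]],[[(-18419773),(-215449),852,(-1)],[22826,1238,(-4)],[128,(-3)]],[[(-83749),25,1],[349]],[[(-72)]]],[[[(-57304566),(-20518180),52016,(-91)],[(-4218457),100337,(-225)],[18639,(-200)],[(-33)]],[[(-8155112),(-67432),221],[19931,342],[11]],[[(-32404),9],[127]],[[(-24)]]],[[[(-122677467),(-2698387),6153],[(-19824),12483],[1374]],[[(-1819334),(-7262)]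,[5928]],[[(-5216)]]],[[[(-21544969),(-148333)],[63066]],[[(-177394)]]],[[[(-1192271)]]]],[[[[156647258,(-3188000),(-30521),238,(-1)],[(-1262713),(-5959),325,(-2)],[863,105,(-1)],[10]],[[(-171876),(-41197),52],[(-9059),204],[43]],[[(-8787),(-100)],[22]],[[(-31)]]],[[[107586345,(-4325253),(-74),(-10)],[(-1422488),17312,(-10)],[4643,(-30)],[(-7)]],[[(-769364),(-34241),25],[(-3856),136],[23]],[[(-10018),(-78)],[23]],[[(-27)]]],[[[(-7495076),(-1080054),(-1853)],[(-199444),3470],[794]],[[(-499876),(-9485)],[56]],[[(-3623)]]],[[[(-6190080),(-176483)],[(-9300)]],[[(-125611)]]],[[[(-1226862)]]]],[[[[(-2028525),61332,(-301)],[20721,(-343),1],[(-71),1]],[[11692,176,(-1)],[(-20),(-1)]],[[86]]],[[[(-1518639),63426,(-266)],[18891,(-298)],[(-59)]],[[17015,147],[(-27)]],[[80]]],[[[31366,16981],[3684]],[[7221]]],[[[149161]]]]]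

/-- A surrogate. -/
def root_s1 : List (List (List (List (List ℤ)))) :=
  [[[[[20731388686,(-110085859),25025,1080,(-4)],[(-117217455),448529,937,(-11)],[262704,(-397),(-8)],[(-260),(-2)]],[[(-45790729),392898,(-1203),2],[309075,(-2487),9],[(-922),8],[2]],[[(-45279),108],[238,(-1)],[(-1)]],[[18]]],[[[26997512830,(-141482254),94406,781,(-4)],[(-150938842),604537,174,(-7)],[338613,(-930),(-4)],[(-381)]],[[(-61881170),408835,(-762),1],[378209,(-2050),5],[(-932),5],[1]],[[(-13643),(-85)],[11]],[[20]]],[[[12175080613,(-63171403),60796,206,(-1)],[(-67021397),275648,(-146),(-2)],[149098,(-492)],[(-174)]],[[(-28855610),164005,(-201)],[167064,(-722),1],[(-378),1]],[[1149,(-63)],[(-37)]],[[7]]],[[[2330839867,(-12119077),16272,16],[(-12556327),54983,(-56)],[27908,(-91)],[(-28)]],[[(-5649773),28489,(-29)],[30835,(-115)],[(-64)]],[[905,(-11)],[(-8)]],[[1]]],[[[221300003,(-1180826),1866],[(-1170335),4892],[2262]],[[(-544881),2518],[2836]],[[99]]],[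[[10862847,(-54610)],[(-49940)]],[[(-28080)]]],[[[228429]]]],[[[[10407975582,(-62380205),(-68332),1273,(-5)],[(-63053918),189557,1600,(-12)],[135046,254,(-9)],[(-85),(-2)]],[[2808999,120459,(-600),1],[34163,(-786),3],[(-188),2]],[[8004,(-69)],[(-78)]],[[(-6)]]],[[[13367970524,(-80303425),39749,518,(-2)],[(-80413908),325163,297,(-4)],[184217,(-432),(-3)],[(-207)]],[[7478185,55516,(-231),1],[(-940),(-324),1],[(-62),1]],[[(-5841),5],[16]],[[(-7)]]],[[[5936159846,(-33557726),29777,65],[(-34532015),141303,(-51)],[78353,(-209)],[(-80)]],[[3456511,10911,(-39)],[(-5735),(-63)],[(-9)]],[[(-4253),13],[19]],[[(-2)]]],[[[1118186967,(-5748122),5022],[(-6181757),22002],[12486]],[[624243,553],[(-1446)]],[[(-699)]]],[[[104833939,(-464819)],[(-526541)]],[[60222]]],[[[5065169]]]],[[[[377040451,(-5736134),(-59330),502,(-2)],[(-4714901),(-10141),631,(-3)],[8753,188,(-2)],[7,(-1)]],[[3165656,(-34660),170],[(-22345),251,(-1)],[80,(-1)]],[[960,16],[6]],[[(-1)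]]],[[[588956309,(-10894715),(-130),120],[(-7154829),41828,100],[20636,(-30)],[(-21)]],[[3091621,(-22048),69],[(-18899),117],[45]],[[2626,9],[(-2)]],[[(-1)]]],[[[272648140,(-4272377),3342],[(-2907672),16279],[7552]],[[1167273,(-6237)],[(-6360)]],[[1055]]],[[[54693254,(-583074)],[(-444505)]],[[163373]]],[[[4582083]]]],[[[[(-118121750),(-354866),379],[189332,1647,(-1)],[177,(-2)],[(-1)]],[[(-217771),(-1259),1],[127,5],[1]],[[125,(-1)],[(-1)]]],[[[(-131876206),(-420389),350],[204084,1523],[186]],[[(-249892),(-1165)],[62]],[[129]]],[[[(-43817499),(-141885)],[56715]],[[(-77176)]]],[[[(-3802964)]]]],[[[[(-7862035)],[27901],[(-31)]],[[(-38071)],[106]],[[(-54)]]],[[[(-8627841)],[24836]],[[(-33887)]]],[[[(-2579172)]]]]]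

/-- A surrogate. -/
def root_s3 : List (List (List (List (List ℤ)))) :=
  [[[[[680031573,(-58423751),356057,(-1298),4],[(-16987918),447244,(-2467),9],[88785,(-1449),8],[(-216),3]],[[17815451,(-42602),454,(-2)],[(-67893),255,(-4)],[125,(-1)]],[[(-8648),7],[7]],[[(-65)]]],[[[129798232,(-58197544),375513,(-1363),4],[(-13294443),438791,(-2515),10],[76490,(-1404),8],[(-190),3]],[[11830881,(-22668),423,(-2)],[(-39872),177,(-4)],[66,(-1)]],[[(-2999),19],[(-7)]],[[(-52)]]],[[[(-495940801),(-17770469),131728,(-490),1],[(-1212550),135804,(-860),3],[16351,(-438),2],[(-47),1]],[[1671400,103,135,(-1)],[(-2040),32,(-1)],[(-4)]],[[1736,9],[(-9)]],[[(-12)]]],[[[(-269411101),(-1637809),18644,(-72)],[937574,15031,(-114)],[(-496),(-49)],[(-2)]],[[109462,480,16],[750,(-2)],[(-4)]],[[668,1],[(-3)]],[[(-1)]]],[[[(-42090099),17918,1021],[199524,365],[(-319)]],[[834,79],[81]],[[92]]],[[[(-2679429),8496],[12355]],[[599]]],[[[(-55575)]]]],[[[[824065823,(-48009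838),219130,(-663),2],[(-13912915),290908,(-1116),4],[57883,(-714),3],[(-110),1]],[[6893482,(-35103),150,(-1)],[(-38038),297,(-2)],[115,(-1)]],[[26392,41],[(-99)]],[[30]]],[[[12895997,(-37109456),169732,(-489),2],[(-7512831),223047,(-838),3],[36504,(-534),2],[(-69),1]],[[4757365,(-37021),167,(-1)],[(-28215),295,(-1)],[93,(-1)]],[[21845,19],[(-88)]],[[28]]],[[[(-459326852),(-7376210),35889,(-85)],[766592,44706,(-148)],[2105,(-91)],[(-6)]],[[471159,(-12383),49],[(-4109),78],[19]],[[5382,(-1)],[(-24)]],[[8]]],[[[(-168015079),(-373255),2850],[702908,2787],[(-1006)]],[[(-152548),(-1317)],[267]],[[608]]],[[[(-21404085),21600],[93197]],[[(-30011)]]],[[[(-1175250)]]]],[[[[402085749,(-14762639),44941,(-11)],[(-4805458),72781,(-124)],[16106,(-132)],[(-24)]],[[(-729706),(-33980),132],[(-5224),216],[37]],[[(-2089),(-26)],[6]]],[[[101537136,(-10322306),33008,(-4)],[(-2538286),51969,(-77)],[9619,(-84)],[(-14)]],[[(-1145126),(-25167),91],[(-723),144],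[21]],[[(-2587),(-18)],[6]],[[(-1)]]],[[[(-95611316),(-1601339),5725],[116398,8305],[620]],[[(-594740),(-4336)],[1421]],[[(-951)]]],[[[(-27551681),(-62591)],[103211]],[[(-111458)]]],[[[(-2385249)]]]],[[[[33009383,(-1140469),5125,(-6)],[(-380658),6411,(-18)],[1340,(-13)],[(-2)]],[[(-114565),(-2968),16],[(-88),17],[2]],[[(-628),(-2)],[2]],[[(-1)]]],[[[7753814,(-680396),3100],[(-170817),3745],[698]],[[(-137746),(-1618)],[183]],[[(-456)]]],[[[(-6387015),(-53693)],[15874]],[[(-47148)]]],[[[(-1061079)]]]]]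

/-- A surrogate. -/
def root_s5 : List (List (List (List (List ℤ)))) :=
  [[[[[6652817579,(-180754074),605398,(-355),(-1)],[(-63352067),773588,(-1059),(-3)],[166002,(-672),(-4)],[(-91),(-2)]],[[(-63398589),441314,(-1102),1],[329677,(-1942),5],[(-651),4],[1]],[[32679,380,(-1)],[5,(-2)]],[[144],[(-1)]]],[[[4510996758,(-161683303),505868,(-230),(-1)],[(-52854018),713203,(-926),(-3)],[155751,(-786),(-3)],[(-136),(-1)]],[[(-58677580),358350,(-725),1],[302927,(-1462),3],[(-592),2],[1]],[[44044,327,(-1)],[(-84),(-2)]],[[165,(-1)],[(-1)]]],[[[367488938,(-46733049),128046,24],[(-12214179),215425,(-193),(-1)],[45360,(-288),(-1)],[(-57)]],[[(-18060940),96945,(-161)],[95535,(-399),1],[(-202),1]],[[18249,101],[(-53),(-1)]],[[60]]],[[[(-179105232),(-6339721),16696,18],[(-698332),31370,(-18)],[4949,(-42)],[(-7)]],[[(-2615108),13320,(-22)],[14283,(-59)],[(-29)]],[[3939,9],[(-17)]],[[9]]],[[[(-38241493),(-423331),1161],[75996,2085],[119]],[[(-181684),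896],[862]],[[449]]],[[[(-2562683),(-12235)],[8001]],[[(-4257)]]],[[[(-51333)]]]],[[[[3155322634,(-88405248),268197,(-81),(-1)],[(-30447534),361265,(-234),(-4)],[78234,(-213),(-4)],[(-33),(-1)]],[[(-25038372),(-12810),37,1],[90209,55,1],[(-106)]],[[(-47717),164],[208,(-1)]],[[6]]],[[[1994606780,(-79279979),237504,(-187)],[(-25099275),353609,(-531),(-1)],[77157,(-459),(-1)],[(-82)]],[[(-24701193),(-56678),256],[83513,339],[(-80),(-1)]],[[(-54540),154],[254]]],[[[53169519,(-22816263),59482,(-20)],[(-5425720),108560,(-141)],[22159,(-164)],[(-32)]],[[(-9396784),(-24414),103],[34517,131],[(-37)]],[[(-20707),50],[89]]],[[[(-118009504),(-3167461),8382],[(-193174),15423],[2237]],[[(-1851953),(-2457)],[7112]],[[(-3179)]]],[[[(-23374368),(-190544)],[59138]],[[(-173107)]]],[[[(-1477409)]]]],[[[[182373517,(-4353791),(-8703),121,(-1)],[(-1559223),5893,170,(-1)],[2208,58,(-1)],[6]],[[(-840905),(-24649),49],[(-2673),123],[21]],[[(-7341),(-33)],[27]],[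[(-16)]]],[[[118078795,(-4622761),6391,(-13)],[(-1495323),18640,(-14)],[4506,(-20)],[(-4)]],[[(-1175488),(-20527),17],[558,76],[9]],[[(-7802),(-29)],[23]],[[(-14)]]],[[[(-3638677),(-1185560),(-91)],[(-256248),4398],[1033]],[[(-538940),(-6150)],[848]],[[(-2675)]]],[[[(-6581640),(-179451)],[(-11328)]],[[(-117659)]]],[[[(-1275396)]]]],[[[[(-2121886),64155,(-315)],[21675,(-358),1],[(-74),1]],[[14437,108,(-1)],[(-45),(-1)]],[[71]]],[[[(-1588534),66345,(-278)],[19760,(-312)],[(-62)]],[[19346,88],[(-48)]],[[66]]],[[[32806,17763],[3854]],[[7569]]],[[[156026]]]]]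

/-- A surrogate. -/
def root_s11 : List (List (List (List (List ℤ)))) :=
  [[[[[5914770919,(-31288283),43180,5],[(-26759730),102077,(-81)],[44727,(-101)],[(-29)]],[[(-4718418),19904,(-18)],[21140,(-67)],[(-40)]],[[(-17026),84],[77]],[[4]]],[[[781175394,(-4304989),6260,1],[(-3541288),13985,(-11)],[5751,(-13)],[(-3)]],[[(-157855),25,1],[681],[(-2)]],[[(-2218),11],[10]],[[(-1)]]],[[[29486636,(-176926),283],[(-134263),570],[204]],[[15868,(-136)],[(-74)]],[[(-64)]]],[[[234435,(-1875),4],[(-1087),6],[1]],[[490,(-4)],[(-2)]]]],[[[[2085115726,(-10063239),12104],[(-9393900),33166,(-25)],[16642,(-40)],[(-15)]],[[6510702,(-32238),40],[(-29366),106],[51]],[[912,(-6)],[(-4)]],[[(-8)]]],[[[186416962,(-865789),973],[(-838460),2866,(-2)],[1518,(-4)],[(-1)]],[[848109,(-4152),5],[(-3823),13],[7]],[[756,(-4)],[(-3)]]],[[[2863281,(-9310),2],[(-12715),32],[27]],[[24318,(-113)],[(-109)]],[[41]]],[[[(-46887),375,(-1)],[217,(-1)]],[[(-98),1]]]],[[[[(-2053999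95),1069349,(-1444)],[928570,(-3495),3],[(-1569),4],[1]],[[476689,(-2149),2],[(-2141),7],[4]],[[2248,(-11)],[(-10)]],[[2]]],[[[(-43795797),223765,(-294)],[197818,(-733),1],[(-338),1]],[[(-59816),321],[271,(-1)]],[[100,(-1)],[(-1)]]],[[[(-1752122),8939,(-12)],[7914,(-29)],[(-14)]],[[(-5498),28],[25]],[[(-6)]]]],[[[[(-71460991),350812,(-434)],[322190,(-1154),1],[(-565),1]],[[(-222926),1099,(-1)],[1005,(-3)],[(-2)]],[[(-151),1],[1]]],[[[(-4946922),24319,(-30)],[22305,(-80)],[(-39)]],[[(-20699),102],[93]],[[(-32)]]]],[[[[(-3636361),17631,(-21)],[16386,(-58)],[(-29)]],[[(-19019),92],[86]],[[(-40)]]]]]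

/-- A surrogate. -/
def root_s12 : List (List (List (List (List ℤ)))) :=
  [[[[[(-621944055),(-7770182),55337,(-90)],[(-259983),78393,(-335)],[14831,(-261),1],[(-46)]],[[8391988,(-26725),(-22)],[(-39301),58],[66]],[[(-429),24],[11]],[[(-24)]]],[[[(-551273211),(-1582238),21089,(-41)],[1612226,22081,(-120)],[1338,(-79)],[(-11)]],[[2565766,(-10440),6],[(-12677),34],[24]],[[1653,2],[(-5)]],[[(-6)]]],[[[(-144227449),73519,2892,(-7)],[572911,1811,(-17)],[(-593),(-9)]],[[311472,(-1521),2],[(-1604),6],[3]],[[566,(-1)],[(-2)]]],[[[(-15727033),34861,167],[70387,(-11),(-1)],[(-115)]],[[17830,(-96)],[(-88)]],[[63]]],[[[(-752046),2477,4],[3630,(-5)],[(-6)]],[[390,(-3)],[(-3)]],[[3]]],[[[(-12989),48],[61]],[[5]]]],[[[[(-122836732),(-11516719),62594,(-89)],[(-2580115),81554,(-294)],[16237,(-217),1],[(-37)]],[[1269247,(-11423),41],[(-8840),82],[30]],[[8416,(-7)],[(-36)]],[[8]]],[[[(-363524210),(-1462898),15377,(-28)],[1037136,15320,(-77)],[642,(-48)]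,[(-6)]],[[(-156400),(-2705),19],[(-247),24],[5]],[[2427,(-7)],[(-11)]],[[3]]],[[[(-95529044),140328,1260,(-3)],[410733,397,(-7)],[(-593),(-3)]],[[(-149751),212,2],[643,1],[(-1)]],[[188,(-1)],[(-1)]]],[[[(-9389709),31171,30],[44970,(-75)],[(-79)]],[[(-20918),66],[94]],[[(-1)]]],[[[(-391505),1588],[1916]],[[(-1045)]]],[[[(-5777)]]]],[[[[58270985,(-3865575),18162,(-23)],[(-1155676),23239,(-74)],[4909,(-54)],[(-9)]],[[(-374542),(-8068),47],[(-472),55],[8]],[[(-707),(-3)],[2]],[[1]]],[[[(-63286399),(-367064),3070,(-5)],[167454,2985,(-13)],[110,(-8)],[(-1)]],[[(-319710),(-474),8],[1177,7],[(-1)]],[[(-412)],[1]]],[[[(-13672463),24254,141],[60871,9],[(-95)]],[[(-57260),132],[253]],[[(-74)]]],[[[(-879593),3263],[4263]],[[(-3596)]]],[[[(-17356)]]]],[[[[5858410,(-262465),1178,(-1)],[(-84068),1498,(-4)],[322,(-3)],[(-1)]],[[(-29280),(-928),5],[(-89),6],[1]],[[(-189),(-1)]]],[[[(-3525425),(-11625),123],[11733,106],[(-6)]],[[(-25884),(-7)],[102]],[[(-68)]]],[[[(-481865),1480],[2285]],[[(-2709)]]],[[[(-13037)]]]]]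

/-- A surrogate. -/
def root_s13 : List (List (List (List (List ℤ)))) :=
  [[[[[(-32310417),600152,7252,(-44)],[288472,(-126),(-34)],[(-738)],[2]],[[268378,4660,(-51)],[(-609),(-25)],[2]],[[990,(-27)],[(-7)]],[[(-5)]]],[[[(-39754834),1311536,1668,(-28)],[456878,(-4512),(-13)],[(-1395),8],[3]],[[553685,64,(-27)],[(-2600),(-3)],[6]],[[37,(-18)],[(-2)]],[[(-4)]]],[[[(-7259184),665871,(-1558),(-3)],[171113,(-3049),4],[(-625),6],[1]],[[280342,(-1690)],[(-1570),8],[4]],[[(-395),(-3)],[2]],[[(-1)]]],[[[3487400,88503,(-336)],[3854,(-466),1],[(-55),1]],[[39657,(-319),1],[(-240),2],[1]],[[(-101)]]],[[[685449,4345,(-20)],[(-2106),(-23)],[1]],[[2294,(-21)],[(-12)]],[[(-11)]]],[[[39838,56],[(-148)]],[[23]]],[[[561]]]],[[[[(-27938155),688927,1160,(-18)],[288739,(-2835),(-6)],[(-974),7],[2]],[[164168,3595,(-21)],[(-201),(-17)]],[[1111,(-5)],[(-5)]]],[[[(-30147473),1090633,(-1943),(-10)],[375654,(-5416),7],[(-1356),13],[3]],[[327570,2366,(-18)],[(-11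25),(-13)],[2]],[[1142,(-6)],[(-6)]]],[[[(-4698551),483011,(-1816)],[123393,(-2669),6],[(-518),5],[1]],[[185763,234,(-5)],[(-823),(-2)],[1]],[[401,(-2)],[(-2)]]],[[[2575858,60231,(-299)],[815,(-355)],[(-41)]],[[38130,(-33)],[(-173)]],[[59]]],[[[497182,2654],[(-1652)]],[[3450]]],[[[28923]]]],[[[[(-1549716),35788,139,(-1)],[16478,(-150)],[(-60),1]],[[3620,369,(-2)],[41,(-2)]],[[97]]],[[[(-1705694),61302,(-94),(-1)],[21763,(-332)],[(-84),1]],[[14128,316,(-1)],[(-20),(-2)]],[[119]]],[[[(-223642),26477,(-100)],[6492,(-150)],[(-29)]],[[10130,69],[(-32)]],[[44]]],[[[164085,2449],[(-250)]],[[2193]]],[[[22426]]]],[[[[66309,(-2005),10],[(-677),11],[2]],[[(-451),(-3)],[1]],[[(-2)]]],[[[49642,(-2073),9],[(-618),10],[2]],[[(-605),(-3)],[2]],[[(-2)]]],[[[(-1025),(-555)],[(-120)]],[[(-237)]]],[[[(-4876)]]]]]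

/-- A surrogate. -/
def root_s14 : List (List (List (List (List ℤ)))) :=
  [[[[[(-30888759),573745,6933,(-42)],[275780,(-121),(-32)],[(-706)],[2]],[[224260,5055,(-42)],[(-293),(-24)],[1]],[[1214,(-21)],[(-7)]],[[(-4)]]],[[[(-38005621),1253829,1594,(-27)],[436775,(-4314),(-12)],[(-1333),8],[2]],[[489565,1372,(-25)],[(-2029),(-7)],[5]],[[589,(-17)],[(-5)]],[[(-4)]]],[[[(-6939780),636573,(-1489),(-3)],[163584,(-2915),4],[(-597),6],[1]],[[260740,(-949),(-2)],[(-1330),4],[3]],[[(-96),(-4)]],[[(-2)]]],[[[3333954,84609,(-321)],[3684,(-445),1],[(-52),1]],[[41408,(-216)],[(-226),1]],[[(-56)]]],[[[655289,4154,(-19)],[(-2013),(-22)],[1]],[[2888,(-16)],[(-13)]],[[(-8)]]],[[[38085,53],[(-141)]],[[57]]],[[[536]]]],[[[[(-26708876),658614,1109,(-17)],[276034,(-2710),(-5)],[(-931),7],[2]],[[129005,4126,(-19)],[97,(-19)],[(-1)]],[[1226,(-1)],[(-5)]],[[1]]],[[[(-28820985),1042645,(-1857),(-9)],[359125,(-5178),6],[(-1297),12],[2]],[[283006,3354,(-20)],[(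-700),(-18)]],[[1420,(-3)],[(-7)]],[[1]]],[[[(-4491816),461758,(-1736)],[117963,(-2552),6],[(-496),5],[1]],[[172906,709,(-6)],[(-665),(-5)],[1]],[[572,(-2)],[(-3)]]],[[[2462522,57581,(-286)],[779,(-340)],[(-39)]],[[39055,27],[(-164)]],[[92]]],[[[475308,2538],[(-1579)]],[[3774]]],[[[27650]]]],[[[[(-1481529),34214,133,(-1)],[15753,(-143)],[(-57),1]],[[1909,388,(-1)],[56,(-2)]],[[96,1]]],[[[(-1630644),58605,(-90),(-1)],[20805,(-318)],[(-81),1]],[[11803,365,(-1)],[2,(-2)]],[[130]]],[[[(-213801),25312,(-96)],[6206,(-144)],[(-28)]],[[9482,92],[(-24)]],[[52]]],[[[156866,2342],[(-239)]],[[2254]]],[[[21439]]]],[[[[63391,(-1917),9],[(-648),11],[2]],[[(-365),(-6)],[1]],[[(-3)]]],[[[47457,(-1982),8],[(-590),9],[2]],[[(-532),(-5)],[1]],[[(-3)]]],[[[(-980),(-531)],[(-115)]],[[(-226)]]],[[[(-4661)]]]]]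

/-- A surrogate. -/
def root_s15 : List (List (List (List (List ℤ)))) :=
  [[[[[(-3098624883),(-21087801),160226,(-196)],[8705908,79748,(-244)],[(-17544),65,(-1)],[59,(-1)]],[[(-3478426),122331,(-561),1],[14628,(-358),1],[36]],[[48223,(-325),1],[(-200),1]],[[(-42)]]],[[[(-3356549871),5864270,27347,(-31)],[13593156,(-14951),(-24)],[(-24403),62],[35]],[[6247727,(-3794),(-112)],[(-29883),19],[68]],[[16210,(-105)],[(-74)]],[[(-16)]]],[[[(-682525385),2083583,764],[2951388,(-6555),4],[(-5487),15],[7]],[[1515502,(-4778),(-8)],[(-7330),15],[14]],[[2494,(-15)],[(-12)]],[[(-2)]]],[[[(-56269364),197386,(-110)],[253474,(-699),1],[(-513),1],[1]],[[131280,(-499)],[(-625),2],[1]],[[198,(-1)],[(-1)]]],[[[(-2021022),7377,(-7)],[9572,(-24)],[(-18)]],[[4974,(-24)],[(-27)]],[[8]]],[[[(-21451),46],[89]],[[85]]],[[[214]]]],[[[[(-2961633893),(-3853045),76660,(-132)],[12089218,10174,(-131)],[(-25817),74],[47]],[[(-10264052),60707,(-118)],[41972,(-183)],[(-52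)]],[[8466,(-24)],[(-36)]],[[11]]],[[[(-2785575544),9447680,6450,(-40)],[13008848,(-34587),(-11)],[(-25711),65],[30]],[[(-4159065),22942,(-42)],[18736,(-83)],[(-32)]],[[4584,(-19)],[(-22)]],[[4]]],[[[(-543154803),2309477,(-1076),(-5)],[2637962,(-8583),2],[(-5299),13],[5]],[[(-751713),4022,(-6)],[3649,(-14)],[(-6)]],[[552,(-3)],[(-3)]],[[1]]],[[[(-43948351),202944,(-158)],[219562,(-739)],[(-433)]],[[(-67932),336],[321]],[[21]]],[[[(-1620172),7651],[8119]],[[(-2859)]]],[[[(-22518)]]]],[[[[(-392733619),(-515244),10387,(-19)],[1698959,840,(-18)],[(-3841),12],[7]],[[(-2290935),8171,2],[9662,(-28)],[(-16)]],[[(-2393),13],[10]],[[1]]],[[[(-354374741),1330256,396,(-5)],[1734442,(-5184),(-1)],[(-3578),9],[4]],[[(-1239739),5762,(-5)],[5936,(-20)],[(-11)]],[[(-1032),5],[4]]],[[[(-56170924),255136,(-153)],[284505,(-957)],[(-573)]],[[(-180931),869],[877]],[[(-152)]]],[[[(-3243928),15478],[16588]],[[(-10245)]]],[[[(-63761)]]]],[[[[(-7183726),(-61732),467,(-1)],[34865,132,(-1)],[(-116)]],[[(-99557),217,1],[448,(-1)],[(-1)]],[[(-271),1],[1]]],[[[(-8259052),30638,24],[46286,(-143)],[(-106)]],[[(-54999),249],[278]],[[(-117)]]],[[[(-1080692),5137],[6046]],[[(-5717)]]],[[[(-36209)]]]],[[[[579198,(-2836),3],[(-2407),8],[3]],[[2448,(-11)],[(-10)]],[[4]]],[[[313735,(-1509)],[(-1281)]],[[1302]]],[[[12067]]]]]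

/-- A root. -/
def root : Root where
  cl := true
  box := fun i => match i with
    | 0 => ⟨33, 21, 400, 80⟩
    | 1 => ⟨191, 957, 200, 1000⟩
    | 2 => ⟨279, 7, 2000, 50⟩
    | _ => ⟨307, 309, 1000, 1000⟩
  De := 400
  e0 := 51
  e1 := 161
  p := fun i => match i with
    | 0 => 11
    | 1 => 1000
    | 2 => 4000
    | 3 => 1000
    | _ => 7
  q := fun i => match i with
    | 0 => 2
    | 1 => 956
    | 2 => 559
    | 3 => 308
    | _ => 2
  den := 17179869184
  sur := fun k => match k with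
    | 0 => root_s0
    | 1 => root_s1
    | 3 => root_s3
    | 5 => root_s5
    | 11 => root_s11
    | 12 => root_s12
    | 13 => root_s13
    | 14 => root_s14
    | 15 => root_s15
    | _ => []
  eps := fun k => match k with
    | 0 => 33179
    | 1 => 114157
    | 3 => 48201
    | 5 => 33122
    | 11 => 13
    | 12 => 289
    | 13 => 563
    | 14 => 556
    | 15 => 488
    | _ => 0

/-- A leaf. -/
def leaf0 : Leaf :=
  ⟨⟨191, 1911, 200, 2000⟩, ⟨279, 559, 2000, 4000⟩, ⟨307, 77, 1000, 250⟩,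
    16384, (3878, -31934, -24198, 11549), (-4550, -38192, -13499, 21953), 16384, (22594, 58269, 72804, -47872), (22564, -6237, -29181, -19050), (18698, 66798, 83816, -47827), (-4169, 7633, 11484, 633),
    true, 0, 1, 3423, (-307), 2488, 4096, (-3342), 2099⟩

/-- A leaf. -/
def leaf1 : Leaf :=
  ⟨⟨191, 1911, 200, 2000⟩, ⟨279, 559, 2000, 4000⟩, ⟨307, 77, 1000, 250⟩,
    16384, (-4550, -38192, -13499, 21953), (-12977, -44449, -2800, 32357), 16384, (44007, 48528, 37829, -64375), (-99964, 43105, 79252, 79871), (18478, 65431, 83859, -47084), (13397, -197, -14704, -13074),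
    true, 0, 1, 2396, (-297), 4096, 3340, (-2986), 2485⟩

/-- A tile. -/
def tile0 : Tile :=
  ⟨⟨191, 1911, 200, 2000⟩, ⟨279, 559, 2000, 4000⟩, ⟨307, 77, 1000, 250⟩, 16384, (3878, -31934, -24198, 11549), (-12977, -44449, -2800, 32357), 6718,
    (1024, 0), (113, 1024), 0, 3, (leaf0, ⟨(1024, 1), (249, 1024)⟩),
    [(leaf1, ⟨(87, 1024), (1024, 1)⟩)]⟩

/-- A leaf. -/
def leaf2 : Leaf :=
  ⟨⟨191, 1911, 200, 2000⟩, ⟨559, 7, 4000, 50⟩, ⟨307, 77, 1000, 250⟩,
    16384, (3955, -32048, -24378, 11532), (-4485, -38378, -13728, 21979), 16384, (22538, 58578, 73102, -47956), (22718, -6275, -29352, -19175), (18513, 67230, 84291, -47837), (-4164, 7638, 11443, 631),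
    true, 0, 1, 3222, (-304), 2510, 4096, (-3437), 2126⟩

/-- A leaf. -/
def leaf3 : Leaf :=
  ⟨⟨191, 1911, 200, 2000⟩, ⟨559, 7, 4000, 50⟩, ⟨307, 77, 1000, 250⟩,
    16384, (-4485, -38378, -13728, 21979), (-12925, -44707, -3079, 32426), 16384, (44707, 48682, 37652, -65131), (-101958, 43951, 80850, 81450), (18423, 65720, 84074, -47152), (13454, -173, -14751, -13134),
    true, 0, 1, 2415, (-280), 4096, 3182, (-2943), 2431⟩

/-- A tile. -/
def tile1 : Tile :=
  ⟨⟨191, 1911, 200, 2000⟩, ⟨559, 7, 4000, 50⟩, ⟨307, 77, 1000, 250⟩, 16384, (3955, -32048, -24378, 11532), (-12925, -44707, -3079, 32426), 6718,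
    (1024, 0), (99, 1024), 0, 3, (leaf2, ⟨(1024, 0), (255, 1024)⟩),
    [(leaf3, ⟨(83, 1024), (1024, 0)⟩)]⟩

/-- A leaf. -/
def leaf4 : Leaf :=
  ⟨⟨191, 1911, 200, 2000⟩, ⟨279, 559, 2000, 4000⟩, ⟨77, 309, 250, 1000⟩,
    16384, (4169, -32191, -24577, 11383), (-4177, -38654, -14207, 21816), 16384, (22357, 59533, 73972, -48202), (22861, -6273, -29273, -19337), (18143, 68427, 85562, -48013), (-4183, 7547, 11479, 674),
    true, 0, 1, 3442, (-313), 2574, 4096, (-3423), 2107⟩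

/-- A leaf. -/
def leaf5 : Leaf :=
  ⟨⟨191, 1911, 200, 2000⟩, ⟨279, 559, 2000, 4000⟩, ⟨77, 309, 250, 1000⟩,
    16384, (-4177, -38654, -14207, 21816), (-12523, -45117, -3837, 32249), 16384, (45161, 49510, 38314, -65972), (-104420, 45210, 83103, 83294), (18281, 66538, 85001, -47403), (13490, -116, -14586, -13214),
    true, 0, 1, 2430, (-260), 4096, 2934, (-2892), 2330⟩

/-- A tile. -/
def tile2 : Tile :=
  ⟨⟨191, 1911, 200, 2000⟩, ⟨279, 559, 2000, 4000⟩, ⟨77, 309, 250, 1000⟩, 16384, (4169, -32191, -24577, 11383), (-12523, -45117, -3837, 32249), 6718,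
    (1024, 0), (158, 1024), 0, 3, (leaf4, ⟨(1024, 0), (266, 1024)⟩),
    [(leaf5, ⟨(80, 1024), (1024, 0)⟩)]⟩

/-- A leaf. -/
def leaf6 : Leaf :=
  ⟨⟨191, 1911, 200, 2000⟩, ⟨559, 7, 4000, 50⟩, ⟨77, 309, 250, 1000⟩,
    16384, (4240, -32288, -24809, 11374), (-4113, -38834, -14466, 21845), 16384, (22302, 59836, 74366, -48301), (23011, -6294, -29482, -19457), (17948, 68866, 85985, -48010), (-4173, 7547, 11499, 662),
    true, 0, 1, 3288, (-311), 2527, 4096, (-3545), 2115⟩

/-- A leaf. -/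
def leaf7 : Leaf :=
  ⟨⟨191, 1911, 200, 2000⟩, ⟨559, 7, 4000, 50⟩, ⟨77, 309, 250, 1000⟩,
    16384, (-4113, -38834, -14466, 21845), (-12466, -45380, -4123, 32316), 16384, (46460, 49604, 37947, -67308), (-106447, 46188, 84814, 84850), (18225, 66832, 85254, -47476), (13546, -87, -14664, -13271),
    true, 0, 1, 2200, (-220), 4096, 2834, (-2891), 2319⟩

/-- A tile. -/
def tile3 : Tile :=
  ⟨⟨191, 1911, 200, 2000⟩, ⟨559, 7, 4000, 50⟩, ⟨77, 309, 250, 1000⟩, 16384, (4240, -32288, -24809, 11374), (-12466, -45380, -4123, 32316), 6718,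
    (1024, 0), (167, 1024), 0, 3, (leaf6, ⟨(1024, 1), (270, 1024)⟩),
    [(leaf7, ⟨(77, 1024), (1024, 0)⟩)]⟩

/-- A leaf. -/
def leaf8 : Leaf :=
  ⟨⟨1911, 239, 2000, 250⟩, ⟨279, 559, 2000, 4000⟩, ⟨307, 77, 1000, 250⟩,
    16384, (3805, -32037, -24311, 11676), (-4726, -38269, -13486, 22161), 16384, (22946, 58123, 72746, -48186), (22813, -6396, -29488, -19215), (19057, 66723, 83769, -48170), (-4174, 7649, 11535, 624),
    true, 0, 1, 3380, (-320), 2499, 4096, (-3357), 2142⟩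

/-- A leaf. -/
def leaf9 : Leaf :=
  ⟨⟨1911, 239, 2000, 250⟩, ⟨279, 559, 2000, 4000⟩, ⟨307, 77, 1000, 250⟩,
    16384, (-4726, -38269, -13486, 22161), (-13256, -44501, -2660, 32646), 16384, (50369, 47510, 35120, -70308), (-103595, 44585, 82040, 82785), (18843, 65277, 83766, -47404), (13549, -278, -14872, -13183),
    true, 0, 1, 2471, (-330), 4096, 3344, (-2931), 2468⟩

/-- A tile. -/
def tile4 : Tile :=
  ⟨⟨1911, 239, 2000, 250⟩, ⟨279, 559, 2000, 4000⟩, ⟨307, 77, 1000, 250⟩, 16384, (3805, -32037, -24311, 11676), (-13256, -44501, -2660, 32646), 6718,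
    (1024, 0), (184, 1024), 0, 3, (leaf8, ⟨(1024, 0), (252, 1024)⟩),
    [(leaf9, ⟨(62, 1024), (1024, 0)⟩)]⟩

/-- A leaf. -/
def leaf10 : Leaf :=
  ⟨⟨1911, 239, 2000, 250⟩, ⟨559, 7, 4000, 50⟩, ⟨307, 77, 1000, 250⟩,
    16384, (3808, -32118, -24466, 11721), (-4698, -38439, -13702, 22218), 16384, (22993, 58397, 73018, -48362), (22917, -6416, -29650, -19295), (18818, 67148, 84234, -48121), (-4101, 7649, 11490, 554),
    true, 0, 1, 3218, (-311), 2457, 4096, (-3419), 2118⟩

/-- A leaf. -/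
def leaf11 : Leaf :=
  ⟨⟨1911, 239, 2000, 250⟩, ⟨559, 7, 4000, 50⟩, ⟨307, 77, 1000, 250⟩,
    16384, (-4698, -38439, -13702, 22218), (-13205, -44760, -2939, 32716), 16384, (51869, 47558, 34626, -71824), (-105042, 45469, 83539, 83795), (18828, 65552, 83966, -47506), (13568, -237, -14906, -13210),
    true, 0, 1, 2351, (-325), 4096, 3248, (-2945), 2443⟩

/-- A tile. -/
def tile5 : Tile :=
  ⟨⟨1911, 239, 2000, 250⟩, ⟨559, 7, 4000, 50⟩, ⟨307, 77, 1000, 250⟩, 16384, (3808, -32118, -24466, 11721), (-13205, -44760, -2939, 32716), 6718,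
    (1024, 0), (151, 1024), 0, 3, (leaf10, ⟨(1024, 0), (257, 1024)⟩),
    [(leaf11, ⟨(53, 1024), (1024, 0)⟩)]⟩

/-- A leaf. -/
def leaf12 : Leaf :=
  ⟨⟨1911, 239, 2000, 250⟩, ⟨279, 559, 2000, 4000⟩, ⟨77, 309, 250, 1000⟩,
    16384, (4053, -32276, -24618, 11538), (-4374, -38724, -14159, 22038), 16384, (22775, 59365, 73808, -48562), (23083, -6420, -29532, -19484), (18471, 68343, 85557, -48329), (-4146, 7563, 11471, 632),
    true, 0, 1, 3226, (-311), 2478, 4096, (-3459), 2084⟩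

/-- A leaf. -/
def leaf13 : Leaf :=
  ⟨⟨1911, 239, 2000, 250⟩, ⟨279, 559, 2000, 4000⟩, ⟨77, 309, 250, 1000⟩,
    16384, (-4374, -38724, -14159, 22038), (-12802, -45173, -3700, 32538), 16384, (52253, 48394, 35270, -72592), (-107246, 46639, 85708, 85406), (18674, 66375, 84865, -47742), (13617, -179, -14711, -13307),
    true, 0, 1, 2393, (-261), 4096, 2923, (-2866), 2324⟩

/-- A tile. -/
def tile6 : Tile :=
  ⟨⟨1911, 239, 2000, 250⟩, ⟨279, 559, 2000, 4000⟩, ⟨77, 309, 250, 1000⟩, 16384, (4053, -32276, -24618, 11538), (-12802, -45173, -3700, 32538), 6718,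
    (1024, 0), (119, 1024), 0, 3, (leaf12, ⟨(1024, 0), (267, 1024)⟩),
    [(leaf13, ⟨(49, 1024), (1024, 0)⟩)]⟩

/-- A leaf. -/
def leaf14 : Leaf :=
  ⟨⟨1911, 239, 2000, 250⟩, ⟨559, 7, 4000, 50⟩, ⟨77, 309, 250, 1000⟩,
    16384, (4144, -32370, -24821, 11503), (-4301, -38904, -14404, 22055), 16384, (22693, 59660, 74155, -48622), (23245, -6429, -29713, -19623), (18295, 68781, 86005, -48349), (-4158, 7560, 11458, 647),
    true, 0, 1, 3241, (-308), 2506, 4096, (-3495), 2090⟩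

/-- A leaf. -/
def leaf15 : Leaf :=
  ⟨⟨1911, 239, 2000, 250⟩, ⟨559, 7, 4000, 50⟩, ⟨77, 309, 250, 1000⟩,
    16384, (-4301, -38904, -14404, 22055), (-12746, -45437, -3987, 32607), 16384, (53535, 48472, 34867, -73902), (-108529, 47593, 87230, 86217), (18607, 66671, 85102, -47802), (13689, -156, -14776, -13381),
    true, 0, 1, 2219, (-281), 4096, 2979, (-2849), 2303⟩

/-- A tile. -/
def tile7 : Tile :=
  ⟨⟨1911, 239, 2000, 250⟩, ⟨559, 7, 4000, 50⟩, ⟨77, 309, 250, 1000⟩, 16384, (4144, -32370, -24821, 11503), (-12746, -45437, -3987, 32607), 6718,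
    (1024, 0), (172, 1024), 0, 3, (leaf14, ⟨(1024, 0), (274, 1024)⟩),
    [(leaf15, ⟨(40, 1024), (1024, 0)⟩)]⟩

/-- A leaf. -/
def leaf16 : Leaf :=
  ⟨⟨239, 1913, 250, 2000⟩, ⟨279, 559, 2000, 4000⟩, ⟨307, 77, 1000, 250⟩,
    16384, (3736, -32101, -24321, 11770), (-4902, -38327, -13419, 22354), 16384, (23284, 57931, 72544, -48448), (23072, -6529, -29727, -19408), (19438, 66639, 83771, -48542), (-4191, 7655, 11505, 644),
    true, 0, 1, 3402, (-312), 2495, 4096, (-3254), 2082⟩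

/-- A leaf. -/
def leaf17 : Leaf :=
  ⟨⟨239, 1913, 250, 2000⟩, ⟨279, 559, 2000, 4000⟩, ⟨307, 77, 1000, 250⟩,
    16384, (-4902, -38327, -13419, 22354), (-13540, -44553, -2517, 32938), 16384, (56572, 46475, 32409, -76006), (-102166, 45632, 83122, 80795), (19206, 65107, 83614, -47707), (13705, -333, -14982, -13311),
    true, 0, 1, 2415, (-334), 4096, 3362, (-2933), 2477⟩

/-- A tile. -/
def tile8 : Tile :=
  ⟨⟨239, 1913, 250, 2000⟩, ⟨279, 559, 2000, 4000⟩, ⟨307, 77, 1000, 250⟩, 16384, (3736, -32101, -24321, 11770), (-13540, -44553, -2517, 32938), 6718,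
    (1024, 0), (163, 1024), 0, 3, (leaf16, ⟨(1024, 0), (253, 1024)⟩),
    [(leaf17, ⟨(83, 1024), (1024, 0)⟩)]⟩

/-- A leaf. -/
def leaf18 : Leaf :=
  ⟨⟨239, 1913, 250, 2000⟩, ⟨559, 7, 4000, 50⟩, ⟨307, 77, 1000, 250⟩,
    16384, (3806, -32201, -24457, 11749), (-4842, -38506, -13627, 22380), 16384, (23238, 58222, 72777, -48528), (23231, -6566, -29874, -19542), (19246, 67080, 84282, -48553), (-4178, 7653, 11427, 642),
    true, 0, 1, 3133, (-312), 2442, 4096, (-3357), 2088⟩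

/-- A leaf. -/
def leaf19 : Leaf :=
  ⟨⟨239, 1913, 250, 2000⟩, ⟨559, 7, 4000, 50⟩, ⟨307, 77, 1000, 250⟩,
    16384, (-4842, -38506, -13627, 22380), (-13490, -44812, -2797, 33010), 16384, (57804, 46528, 31955, -77250), (-102212, 46446, 84209, 80424), (19160, 65385, 83802, -47776), (13761, -303, -15006, -13376),
    true, 0, 1, 2431, (-316), 4096, 3177, (-2879), 2409⟩

/-- A tile. -/
def tile9 : Tile :=
  ⟨⟨239, 1913, 250, 2000⟩, ⟨559, 7, 4000, 50⟩, ⟨307, 77, 1000, 250⟩, 16384, (3806, -32201, -24457, 11749), (-13490, -44812, -2797, 33010), 6718,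
    (1024, 0), (192, 1024), 0, 3, (leaf18, ⟨(1024, 1), (258, 1024)⟩),
    [(leaf19, ⟨(77, 1024), (1024, 0)⟩)]⟩

/-- A leaf. -/
def leaf20 : Leaf :=
  ⟨⟨239, 1913, 250, 2000⟩, ⟨279, 559, 2000, 4000⟩, ⟨77, 309, 250, 1000⟩,
    16384, (3968, -32334, -24666, 11653), (-4558, -38782, -14114, 22242), 16384, (23151, 59150, 73651, -48863), (23324, -6532, -29786, -19661), (18839, 68272, 85538, -48689), (-4146, 7552, 11466, 637),
    true, 0, 1, 3196, (-313), 2493, 4096, (-3461), 2090⟩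

/-- A leaf. -/
def leaf21 : Leaf :=
  ⟨⟨239, 1913, 250, 2000⟩, ⟨279, 559, 2000, 4000⟩, ⟨77, 309, 250, 1000⟩,
    16384, (-4558, -38782, -14114, 22242), (-13085, -45229, -3561, 32832), 16384, (57864, 47392, 32781, -77713), (-104896, 47710, 86532, 82481), (19051, 66203, 84734, -48060), (13771, -243, -14848, -13429),
    true, 0, 1, 2380, (-261), 4096, 2963, (-2828), 2321⟩

/-- A tile. -/
def tile10 : Tile :=
  ⟨⟨239, 1913, 250, 2000⟩, ⟨279, 559, 2000, 4000⟩, ⟨77, 309, 250, 1000⟩, 16384, (3968, -32334, -24666, 11653), (-13085, -45229, -3561, 32832), 6718,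
    (1024, 0), (187, 1024), 0, 3, (leaf20, ⟨(1024, 0), (266, 1024)⟩),
    [(leaf21, ⟨(76, 1024), (1024, 1)⟩)]⟩

/-- A leaf. -/
def leaf22 : Leaf :=
  ⟨⟨239, 1913, 250, 2000⟩, ⟨559, 7, 4000, 50⟩, ⟨77, 309, 250, 1000⟩,
    16384, (4085, -32449, -24877, 11598), (-4279, -39180, -14706, 22166), 16384, (23023, 59487, 74018, -48891), (23232, -6272, -29477, -19697), (18819, 68545, 85733, -48781), (-4389, 7806, 11847, 752),
    true, 0, 1, 3245, (-309), 2574, 4096, (-3508), 2109⟩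

/-- A leaf. -/
def leaf23 : Leaf :=
  ⟨⟨239, 1913, 250, 2000⟩, ⟨559, 7, 4000, 50⟩, ⟨77, 309, 250, 1000⟩,
    16384, (-4279, -39180, -14706, 22166), (-12643, -45910, -4536, 32733), 16384, (58561, 47922, 33160, -78672), (-103735, 47500, 85804, 81444), (18759, 66733, 85356, -48018), (13638, 8, -14528, -13418),
    true, 0, 1, 2090, (-219), 4096, 2854, (-2838), 2318⟩

/-- A tile. -/
def tile11 : Tile :=
  ⟨⟨239, 1913, 250, 2000⟩, ⟨559, 7, 4000, 50⟩, ⟨77, 309, 250, 1000⟩, 16384, (4085, -32449, -24877, 11598), (-12643, -45910, -4536, 32733), 6718,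
    (1024, 0), (398, 1024), 0, 3, (leaf22, ⟨(1024, 0), (276, 1024)⟩),
    [(leaf23, ⟨(69, 1024), (1024, 0)⟩)]⟩

/-- A leaf. -/
def leaf24 : Leaf :=
  ⟨⟨1913, 957, 2000, 1000⟩, ⟨279, 559, 2000, 4000⟩, ⟨307, 77, 1000, 250⟩,
    16384, (3600, -32188, -24388, 11949), (-5114, -38396, -13380, 22592), 16384, (23719, 57782, 72435, -48838), (23290, -6690, -30017, -19544), (19775, 66517, 83708, -48847), (-4147, 7699, 11544, 579),
    true, 0, 1, 3235, (-312), 2471, 4096, (-3306), 2098⟩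

/-- A leaf. -/
def leaf25 : Leaf :=
  ⟨⟨1913, 957, 2000, 1000⟩, ⟨279, 559, 2000, 4000⟩, ⟨307, 77, 1000, 250⟩,
    16384, (-5114, -38396, -13380, 22592), (-13828, -44603, -2372, 33234), 16384, (60071, 45716, 30736, -79180), (-97169, 46320, 82823, 75392), (19611, 64947, 83493, -48061), (13829, -409, -15128, -13395),
    true, 0, 1, 2379, (-332), 4096, 3399, (-2889), 2472⟩

/-- A tile. -/
def tile12 : Tile :=
  ⟨⟨1913, 957, 2000, 1000⟩, ⟨279, 559, 2000, 4000⟩, ⟨307, 77, 1000, 250⟩, 16384, (3600, -32188, -24388, 11949), (-13828, -44603, -2372, 33234), 6718,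
    (1024, 0), (225, 1024), 0, 3, (leaf24, ⟨(1024, 1), (253, 1024)⟩),
    [(leaf25, ⟨(60, 1024), (1024, 0)⟩)]⟩

/-- A leaf. -/
def leaf26 : Leaf :=
  ⟨⟨1913, 957, 2000, 1000⟩, ⟨559, 7, 4000, 50⟩, ⟨307, 77, 1000, 250⟩,
    16384, (3658, -32269, -24525, 11935), (-4862, -38776, -13934, 22532), 16384, (23697, 58038, 72662, -48930), (23133, -6383, -29634, -19534), (19715, 66826, 83973, -48918), (-4336, 7898, 11831, 670),
    true, 0, 1, 3235, (-312), 2489, 4096, (-3338), 2099⟩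

/-- A leaf. -/
def leaf27 : Leaf :=
  ⟨⟨1913, 957, 2000, 1000⟩, ⟨559, 7, 4000, 50⟩, ⟨307, 77, 1000, 250⟩,
    16384, (-4862, -38776, -13934, 22532), (-13382, -45284, -3343, 33129), 16384, (60208, 46292, 31297, -79593), (-96301, 46169, 82286, 74614), (19349, 65452, 84067, -48034), (13660, -138, -14769, -13359),
    true, 0, 1, 2368, (-314), 4096, 3244, (-2849), 2410⟩

/-- A tile. -/
def tile13 : Tile :=
  ⟨⟨1913, 957, 2000, 1000⟩, ⟨559, 7, 4000, 50⟩, ⟨307, 77, 1000, 250⟩, 16384, (3658, -32269, -24525, 11935), (-13382, -45284, -3343, 33129), 6718,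
    (1024, 0), (366, 1024), 0, 3, (leaf26, ⟨(1024, 0), (258, 1024)⟩),
    [(leaf27, ⟨(51, 1024), (1024, 0)⟩)]⟩

/-- A leaf. -/
def leaf28 : Leaf :=
  ⟨⟨1913, 957, 2000, 1000⟩, ⟨279, 559, 2000, 4000⟩, ⟨77, 309, 250, 1000⟩,
    16384, (3912, -32422, -24815, 11761), (-990, -40459, -17918, 19610), 16384, (23475, 58993, 73659, -49151), (17913, -4262, -24364, -15532), (21942, 67010, 82666, -51105), (-8219, 9327, 15701, 3702),
    true, 0, 1, 3384, (-315), 2615, 4096, (-3427), 2126⟩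

/-- A leaf. -/
def leaf29 : Leaf :=
  ⟨⟨1913, 957, 2000, 1000⟩, ⟨279, 559, 2000, 4000⟩, ⟨77, 309, 250, 1000⟩,
    16384, (-990, -40459, -17918, 19610), (-5893, -48496, -11020, 27460), 16384, (52573, 50238, 39833, -74103), (-80708, 40759, 67598, 62210), (15218, 67835, 88923, -45194), (9741, 1477, -10770, -10369),
    true, 0, 1, 2445, (-291), 4096, 2920, (-2772), 2292⟩

/-- A tile. -/
def tile14 : Tile :=
  ⟨⟨1913, 957, 2000, 1000⟩, ⟨279, 559, 2000, 4000⟩, ⟨77, 309, 250, 1000⟩, 16384, (3912, -32422, -24815, 11761), (-5893, -48496, -11020, 27460), 6718,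
    (1024, 0), (1024, 469), 0, 3, (leaf28, ⟨(1024, 0), (268, 1024)⟩),
    [(leaf29, ⟨(61, 1024), (1024, 0)⟩)]⟩

/-- A leaf. -/
def leaf30 : Leaf :=
  ⟨⟨1913, 957, 2000, 1000⟩, ⟨559, 7, 4000, 50⟩, ⟨77, 309, 250, 1000⟩,
    16384, (3964, -32522, -24939, 11757), (2001, -41773, -19386, 17122), 16384, (23454, 59298, 73885, -49260), (13542, -2539, -22544, -11786), (23894, 66599, 82227, -52946), (-11373, 10561, 16984, 6413),
    true, 0, 1, 3164, (-309), 2515, 4096, (-3493), 2093⟩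

/-- A leaf. -/
def leaf31 : Leaf :=
  ⟨⟨1913, 957, 2000, 1000⟩, ⟨559, 7, 4000, 50⟩, ⟨77, 309, 250, 1000⟩,
    16384, (2001, -41773, -19386, 17122), (38, -51024, -13834, 22487), 16384, (46180, 53036, 42670, -68739), (-67277, 35962, 62619, 50445), (11867, 69408, 90537, -42434), (6475, 2787, -9360, -7583),
    true, 0, 1, 2316, (-256), 4096, 2822, (-2753), 2261⟩

/-- A tile. -/
def tile15 : Tile :=
  ⟨⟨1913, 957, 2000, 1000⟩, ⟨559, 7, 4000, 50⟩, ⟨77, 309, 250, 1000⟩, 16384, (3964, -32522, -24939, 11757), (38, -51024, -13834, 22487), 6718,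
    (1024, 0), (1024, 224), 0, 3, (leaf30, ⟨(1024, 0), (273, 1024)⟩),
    [(leaf31, ⟨(57, 1024), (1024, 0)⟩)]⟩

/-- The subdivision. -/
def tree : Tree :=
  (.node 0 239 250
    (.node 0 1911 2000
    (.node 2 77 250
    (.node 1 559 4000
    (.tile tile0)
    (.tile tile1))
    (.node 1 559 4000
    (.tile tile2)
    (.tile tile3)))
    (.node 2 77 250
    (.node 1 559 4000
    (.tile tile4)
    (.tile tile5))
    (.node 1 559 4000
    (.tile tile6)
    (.tile tile7))))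
    (.node 0 1913 2000
    (.node 2 77 250
    (.node 1 559 4000
    (.tile tile8)
    (.tile tile9))
    (.node 1 559 4000
    (.tile tile10)
    (.tile tile11)))
    (.node 2 77 250
    (.node 1 559 4000
    (.tile tile12)
    (.tile tile13))
    (.node 1 559 4000
    (.tile tile14)
    (.tile tile15)))))

def tree_ok : tree.ok pieceC 448 ⟨191, 957, 200, 1000⟩ ⟨279, 7, 2000, 50⟩ ⟨307, 309, 1000, 1000⟩ = true := by
  decide +kernel

def root_ok0 : root.okEnt 576 0 = true := by decide +kernel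

def root_ok1 : root.okEnt 576 1 = true := by decide +kernel

def root_ok3 : root.okEnt 576 3 = true := by decide +kernel

def root_ok5 : root.okEnt 576 5 = true := by decide +kernel

def root_ok11 : root.okEnt 576 11 = true := by decide +kernel

def root_ok12 : root.okEnt 576 12 = true := by decide +kernel

def root_ok13 : root.okEnt 576 13 = true := by decide +kernel

def root_ok14 : root.okEnt 576 14 = true := by decide +kernel

def root_ok15 : root.okEnt 576 15 = true := by decide +kernel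

def leaf0_ok : leaf0.okLeaf root 640 = true := by decide +kernel

def leaf1_ok : leaf1.okLeaf root 640 = true := by decide +kernel

def leaf2_ok : leaf2.okLeaf root 640 = true := by decide +kernel

def leaf3_ok : leaf3.okLeaf root 640 = true := by decide +kernel

def leaf4_ok : leaf4.okLeaf root 640 = true := by decide +kernel

def leaf5_ok : leaf5.okLeaf root 640 = true := by decide +kernel

def leaf6_ok : leaf6.okLeaf root 640 = true := by decide +kernel

def leaf7_ok : leaf7.okLeaf root 640 = true := by decide +kernel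

def leaf8_ok : leaf8.okLeaf root 640 = true := by decide +kernel

def leaf9_ok : leaf9.okLeaf root 640 = true := by decide +kernel

def leaf10_ok : leaf10.okLeaf root 640 = true := by decide +kernel

def leaf11_ok : leaf11.okLeaf root 640 = true := by decide +kernel

def leaf12_ok : leaf12.okLeaf root 640 = true := by decide +kernel

def leaf13_ok : leaf13.okLeaf root 640 = true := by decide +kernel

def leaf14_ok : leaf14.okLeaf root 640 = true := by decide +kernel

def leaf15_ok : leaf15.okLeaf root 640 = true := by decide +kernel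

def leaf16_ok : leaf16.okLeaf root 640 = true := by decide +kernel

def leaf17_ok : leaf17.okLeaf root 640 = true := by decide +kernel

def leaf18_ok : leaf18.okLeaf root 640 = true := by decide +kernel

def leaf19_ok : leaf19.okLeaf root 640 = true := by decide +kernel

def leaf20_ok : leaf20.okLeaf root 640 = true := by decide +kernel

def leaf21_ok : leaf21.okLeaf root 640 = true := by decide +kernel

def leaf22_ok : leaf22.okLeaf root 640 = true := by decide +kernel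

def leaf23_ok : leaf23.okLeaf root 640 = true := by decide +kernel

def leaf24_ok : leaf24.okLeaf root 640 = true := by decide +kernel

def leaf25_ok : leaf25.okLeaf root 640 = true := by decide +kernel

def leaf26_ok : leaf26.okLeaf root 640 = true := by decide +kernel

def leaf27_ok : leaf27.okLeaf root 640 = true := by decide +kernel

def leaf28_ok : leaf28.okLeaf root 640 = true := by decide +kernel

def leaf29_ok : leaf29.okLeaf root 640 = true := by decide +kernel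

def leaf30_ok : leaf30.okLeaf root 640 = true := by decide +kernel

def leaf31_ok : leaf31.okLeaf root 640 = true := by decide +kernel

theorem leaves_eq : tree.leaves =
    [leaf0, leaf1, leaf2, leaf3, leaf4, leaf5, leaf6, leaf7,
    leaf8, leaf9, leaf10, leaf11, leaf12, leaf13, leaf14, leaf15,
    leaf16, leaf17, leaf18, leaf19, leaf20, leaf21, leaf22, leaf23,
    leaf24, leaf25, leaf26, leaf27, leaf28, leaf29, leaf30, leaf31] := rfl

theorem leaves_ok : ∀ F ∈ tree.leaves, Leaf.okLeaf F root 640 = true := by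
  rw [leaves_eq]
  exact all'_cons leaf0_ok (all'_cons leaf1_ok (all'_cons leaf2_ok (all'_cons leaf3_ok (
    all'_cons leaf4_ok (all'_cons leaf5_ok (all'_cons leaf6_ok (all'_cons leaf7_ok (
    all'_cons leaf8_ok (all'_cons leaf9_ok (all'_cons leaf10_ok (all'_cons leaf11_ok (
    all'_cons leaf12_ok (all'_cons leaf13_ok (all'_cons leaf14_ok (all'_cons leaf15_ok (
    all'_cons leaf16_ok (all'_cons leaf17_ok (all'_cons leaf18_ok (all'_cons leaf19_ok (
    all'_cons leaf20_ok (all'_cons leaf21_ok (all'_cons leaf22_ok (all'_cons leaf23_ok (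
    all'_cons leaf24_ok (all'_cons leaf25_ok (all'_cons leaf26_ok (all'_cons leaf27_ok (
    all'_cons leaf28_ok (all'_cons leaf29_ok (all'_cons leaf30_ok (all'_cons leaf31_ok (
    (fun F hF => absurd hF List.not_mem_nil)))))))))))))))))))))))))))))))))

theorem root_ok : ∀ k ∈ [0, 1, 3, 5, 11, 12, 13, 14, 15], root.okEnt 576 k = true := by
  intro k hk
  simp only [List.mem_cons, List.not_mem_nil, or_false] at hk
  rcases hk with rfl | rfl | rfl | rfl | rfl | rfl | rfl | rfl | rfl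
  · exact root_ok0
  · exact root_ok1
  · exact root_ok3
  · exact root_ok5
  · exact root_ok11
  · exact root_ok12
  · exact root_ok13
  · exact root_ok14
  · exact root_ok15

theorem used_ok : ∀ F ∈ tree.leaves, ∀ k ∈ Leaf.used F, root.okEnt 576 k = true := by
  intro F hF k hk
  refine root_ok k ?_
  rw [leaves_eq] at hF
  have h : ([leaf0, leaf1, leaf2, leaf3, leaf4, leaf5, leaf6, leaf7,
    leaf8, leaf9, leaf10, leaf11, leaf12, leaf13, leaf14, leaf15,
    leaf16, leaf17, leaf18, leaf19, leaf20, leaf21, leaf22, leaf23,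
    leaf24, leaf25, leaf26, leaf27, leaf28, leaf29, leaf30, leaf31]).all (fun G => G.used.all fun j => [0, 1, 3, 5, 11, 12, 13, 14, 15].any (Nat.beq j)) = true := by
    decide +kernel
  simp only [List.all_eq_true, List.any_eq_true] at h
  obtain ⟨j, hj, e⟩ := h F hF k hk
  exact Nat.eq_of_beq_eq_true e ▸ hj

/-- **The signs on the box.** -/
theorem signs {a I u X η : ℝ} (hf : Facts pieceC a I u X η) (hu : In1 ⟨191, 957, 200, 1000⟩ u)
    (hI : In1 ⟨279, 7, 2000, 50⟩ I) (ha : In1 ⟨307, 309, 1000, 1000⟩ a) :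
    ClosedGen.SignsMult a (rd (mk4 X u I a)) (rv (mk4 X u I a)) (rg (mk4 X u I a) η)
      (rW (mk4 X u I a) η) (rW1 (mk4 X u I a) η) (rR (mk4 X u I a))
      (rNum true (mk4 X u I a) η) :=
  Tree.signs (T := tree) (R := root) tree_ok leaves_ok used_ok hf hu hI ha

end Vale.Agent.P100.Calib.MidTail.BoxII1U3f
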