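import Vale.Agent.P100.Calib.SlabMidTailPieces

/-!
# The signs on a box of the middle tail

`u, I, a` lie in the box of `root`; the surrogates and leaves are checked by the kernel.
-/

namespace Vale.Agent.P100.Calib.MidTail.BoxII1U3g

open Pack EndAll Band

/-- A surrogate. -/
def root_s0 : List (List (List (List (List ℤ)))) :=
  [[[[[4792349025,(-80887185),177801,(-178)],[(-50971986),397357,(-572)],[151042,(-601)],[(-148)]],[[(-34630662),81849,(-110)],[109341,(-204),1],[66],[(-1)]],[[(-1776),340,(-1)],[141,(-2)],[(-1)]],[[180],[(-1)]]],[[[2434734723,(-64123407),126010,(-125)],[(-35481892),308815,(-413)],[114108,(-496)],[(-130)]],[[(-29609683),27442,24],[73975,163],[182,(-1)],[(-1)]],[[14672,266],[11,(-1)]],[[232],[(-1)]]],[[[(-282827706),(-15082401),21577,(-18)],[(-5068539),69010,(-64)],[21864,(-115)],[(-30)]],[[(-8189893),(-7156),43],[15777,143],[71,(-1)]],[[8276,76],[(-11)]],[[87]]],[[[(-206176789),(-1796946),1812,(-1)],[149217,8014,(-5)],[1060,(-14)],[(-2)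]],[[(-1224316),(-1810),9],[2828,25],[7]],[[2432,8],[(-5)]],[[14]]],[[[(-30990491),(-100511),93],[102380,457],[(-160)]],[[(-86304),(-161)],[285]],[[253]]],[[[(-1713202),(-1776)],[8145]],[[(-2981)]]],[[[(-30232)]]]],[[[[2430276887,(-36788593),51775,16],[(-25315449),163148,(-37),(-1)],[74567,(-174),(-1)],[(-75)]],[[(-15679556),(-68167),140],[27842,366,(-1)],[63,(-1)]],[[(-61418),68],[250]],[[(-27)]]],[[[1364884600,(-31883011),47207,(-21)],[(-19349870),153344,(-151)],[66413,(-283)],[(-102)]],[[(-16004005),(-85890),182],[22971,508,(-1)],[99,(-1)]],[[(-68807),28],[295]],[[(-50)]]],[[[(-69663462),(-8687462),11513,(-10)],[(-3491279),42898,(-49)],[15734,(-86)],[(-28)]],[[(-6986816),(-27209),47],[17765,148],[10]],[[(-26745),3],[110]],[[(-21)]]],[[[(-107584898),(-1135944),1317],[868,5404],[1176]],[[(-1545010),(-3178)],[5181]],[[(-4560)]]],[[[(-18484542),(-64752)],[55660]],[[(-155577)]]],[[[(-1048209)]]]],[[[[117815044,(-1269247),(-5628),22],[(-983962),(-1855),61],[810,39]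,[7]],[[(-179748),(-15785),10],[(-6731),78],[33]],[[(-6870),(-38)],[17]],[[(-24)]]],[[[78860497,(-1675300),19,(-1)],[(-1082610),6695,(-2)],[3554,(-11)],[(-5)]],[[(-632477),(-13105),5],[(-2807),51],[17]],[[(-7765),(-29)],[17]],[[(-20)]]],[[[(-6843021),(-420280),(-362)],[(-151377),1301],[593]],[[(-395793),(-3600)],[57]],[[(-2756)]]],[[[(-5002387),(-67634)],[(-6912)]],[[(-96506)]]],[[[(-948333)]]]],[[[[(-1305426),20342,(-50)],[13619,(-113)],[(-47)]],[[7981,58],[(-13)]],[[57]]],[[[(-962206),21008,(-44)],[12396,(-98)],[(-39)]],[[11483,48],[(-18)]],[[53]]],[[[35592,5600],[2408]],[[4801]]],[[[99898]]]]]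

/-- A surrogate. -/
def root_s1 : List (List (List (List (List ℤ)))) :=
  [[[[[18030665683,(-47416717),10392,97],[(-101225805),201173,136,(-1)],[228880,(-233),(-1)],[(-241),(-1)]],[[(-45821454),179141,(-259)],[296178,(-1128),2],[(-860),4],[2]],[[(-47056),63],[257],[(-1)]],[[20]]],[[[23534656971,(-60988808),21807,81],[(-130595741),263389,21,(-1)],[292839,(-416),(-1)],[(-331)]],[[(-63039985),196050,(-174)],[374642,(-976),1],[(-907),2],[1]],[[(-12123),(-43)],[7]],[[22]]],[[[10636747785,(-27482137),13598,23],[(-58258178),120630,(-35)],[129437,(-220)],[(-153)]],[[(-29434476),80269,(-48)],[167173,(-353)],[(-374),1]],[[2193,(-33)],[(-41)]],[[7]]],[[[2040782655,(-5345550),3765,2],[(-10976169),24615,(-14)],[24604,(-46)],[(-28)]],[[(-5758070),14175,(-7)],[31084,(-57)],[(-63)]],[[1052,(-5)],[(-8)]],[[1]]],[[[194019131,(-529225),466],[(-1030813),2446],[2268]],[[(-557098),1248],[2797]],[[95]]],[[[9520689,(-27387)],[(-50229)]],[[(-27660)]]],[[[230612]]]],[[[[8854763389,(-26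133634),(-7585),110],[(-52854087),86846,273,(-1)],[114551,61,(-2)],[(-80),(-1)]],[[1195602,59448,(-149)],[38653,(-395),1],[(-196),1]],[[6520,(-34)],[(-70)]],[[(-5)]]],[[[11332333126,(-32771035),9128,49],[(-66850807),133656,51],[151752,(-185),(-1)],[(-172)]],[[5226371,28750,(-58)],[7033,(-166)],[(-73)]],[[(-6244)],[15]],[[(-6)]]],[[[5031814896,(-13740671),6208,7],[(-28784988),58194,(-12)],[64956,(-91)],[(-70)]],[[2517635,6104,(-8)],[(-2337),(-26)],[(-7)]],[[(-4161),6],[17]],[[(-2)]]],[[[947674644,(-2382722),1103],[(-5188295),9594],[10841]],[[476679,219],[(-1302)]],[[(-594)]]],[[[89196593,(-202882)],[(-457233)]],[[52808]]],[[[4395715]]]],[[[[348674743,(-2155124),(-11062),47],[(-3721032),(-3726),118],[6800,70],[5]],[[2503549,(-12757),32],[(-16928),94],[59]],[[663,6],[5]],[[(-1)]]],[[[513554108,(-4054831),11,11],[(-5549932),15645,19],[15612,(-12)],[(-16)]],[[2480977,(-8028),13],[(-14352),44],[34]],[[1948,3],[(-2)]]],[[[229051135,(-1591910),644],[(-2240460),6182],[5689]],[[931912,(-2361)],[(-4775)]],[[805]]],[[[43460443,(-221807)],[(-334671)]],[[122461]]],[[[3435138]]]],[[[[(-74174521),(-118791),63],[109119,545],[134,(-1)]],[[(-121034),(-416)],[20,1],[1]],[[117],[(-1)]]],[[[(-82919692),(-140289),57],[121708,499],[117]],[[(-145916),(-381)],[55]],[[80]]],[[[(-27758247),(-46987)],[39066]],[[(-52644)]]],[[[(-2570127)]]]],[[[[(-4610026)],[16194],[(-17)]],[[(-22096)],[60]],[[(-31)]]],[[[(-5051286)],[14291]],[[(-19500)]]],[[[(-1503265)]]]]]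

/-- A surrogate. -/
def root_s3 : List (List (List (List (List ℤ)))) :=
  [[[[[437183560,(-23291247),75046,(-140)],[(-13311800),186812,(-542),1],[73634,(-631),2],[(-187),1]],[[16002109,(-17411),105],[(-58450),94,(-1)],[97,(-1)]],[[(-15374),(-2)],[32]],[[(-73)]]],[[[68491697,(-24365924),82737,(-153)],[(-11070249),190314,(-570),1],[66287,(-629),2],[(-170),1]],[[10553096,(-6994),95],[(-32693),52,(-1)],[43,(-1)]],[[(-8610),7],[15]],[[(-59)]]],[[[(-407755413),(-7860586),30387,(-58)],[(-1233729),61584,(-203)],[15335,(-204),1],[(-44)]],[[1520361,1609,30],[(-925),4],[(-8)]],[[344,5],[(-4)]],[[(-14)]]],[[[(-231119598),(-751968),4412,(-9)],[786661,7008,(-28)],[(-299),(-24)],[(-2)]],[[141795,431,4],[647,(-1)],[(-3)]],[[531,1],[(-3)]],[[(-1)]]],[[[(-36873343),7491,250],[176009,175],[(-323)]],[[9053,40],[82]],[[93]]],[[[(-2369940),4279],[12434]],[[532]]],[[[(-56085)]]]],[[[[504066163,(-17661089),42761,(-71)],[(-9842315),110795,(-228)],[43078,(-282),1],[(-85)]],[[6310935,(-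8078),18],[(-30780),83],[84]],[[23959,23],[(-90)]],[[26]]],[[[(-68382427),(-13871823),33302,(-52)],[(-5265277),85712,(-172)],[27297,(-213)],[(-54)]],[[4612404,(-10712),26],[(-24114),96],[72]],[[20210,12],[(-80)]],[[25]]],[[[(-368632072),(-2846828),7157,(-9)],[668370,17582,(-32)],[1477,(-40)],[(-5)]],[[653326,(-4420),11],[(-4146),34],[16]],[[5127,(-1)],[(-21)]],[[7]]],[[[(-135526975),(-146747),624],[572323,1222],[(-878)]],[[(-85807),(-571)],[260]],[[518]]],[[[(-17654685),9489],[81508]],[[(-26576)]]],[[[(-1025052)]]]],[[[[275005504,(-5287941),7875,(-1)],[(-3392467),25942,(-21)],[11445,(-47)],[(-17)]],[[(-524649),(-12059),23],[(-3762),77],[27]],[[(-1261),(-9)],[3]]],[[[63488706,(-3729498),5881],[(-1796374),18758,(-15)],[6887,(-32)],[(-11)]],[[(-821446),(-9084),17],[(-527),55],[16]],[[(-1733),(-7)],[5]],[[(-1)]]],[[[(-71097634),(-592515),1099],[87806,3166],[469]],[[(-432258),(-1634)],[1106]],[[(-729)]]],[[[(-20541351),(-23562)],[78990]],[[(-85178)]]],[[[(-1817762)]]]],[[[[21118414,(-378074),854],[(-249529),2129,(-3)],[886,(-4)],[(-1)]],[[(-79355),(-980),3],[(-48),6],[1]],[[(-419),(-1)],[1]]],[[[4599220,(-225369),514],[(-111286),1238],[460]],[[(-93482),(-531)],[125]],[[(-302)]]],[[[(-4322230),(-17675)],[10705]],[[(-31344)]]],[[[(-706011)]]]]]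

/-- A surrogate. -/
def root_s5 : List (List (List (List (List ℤ)))) :=
  [[[[[5668257486,(-78838384),134397,(-41)],[(-54944599),340860,(-250)],[145768,(-312),(-1)],[(-85),(-1)]],[[(-56613548),220258,(-276)],[304422,(-968),1],[(-619),2],[1]],[[44584,166],[(-48),(-1)]],[[140],[(-1)]]],[[[3834393941,(-70562562),111761,(-24)],[(-45854370),312271,(-201)],[135866,(-340),(-1)],[(-117)]],[[(-52091785),184740,(-197)],[280089,(-768),1],[(-568),1],[1]],[[57532,142],[(-149),(-1)]],[[164],[(-1)]]],[[[300337797,(-20424365),28375,3],[(-10626980),94169,(-41)],[39573,(-124)],[(-49)]],[[(-15612440),51137,(-46)],[86380,(-215)],[(-192)]],[[23379,44],[(-76)]],[[60]]],[[[(-157275522),(-2763257),3682,2],[(-615427),13737,(-5)],[4331,(-22)],[(-7)]],[[(-2140722),6975,(-5)],[12418,(-29)],[(-29)]],[[4772,5],[(-16)]],[[9]]],[[[(-32959238),(-186189),298],[63749,1053],[115]],[[(-136544),446],[877]],[[440]]],[[[(-2204932),(-6087)],[8278]],[[(-4465)]]],[[[(-52524)]]]],[[[[2582406065,(-374451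80),59604,(-16)],[(-25545811),156525,(-72)],[67194,(-110),(-1)],[(-33),(-1)]],[[(-21538848),(-186),3],[80098,(-2)],[(-102)]],[[(-38324),79],[170]],[[13]]],[[[1605545489,(-33433908),51198,(-20)],[(-20910792),150180,(-115)],[65039,(-197)],[(-70)]],[[(-21149055),(-20037),54],[73167,132],[(-74)]],[[(-44108),74],[211]],[[6]]],[[[22752202,(-9663480),13018,(-2)],[(-4514145),46382,(-31)],[18744,(-71)],[(-27)]],[[(-8009376),(-9238),22],[29934,57],[(-31)]],[[(-16885),21],[77]]],[[[(-103859525),(-1337959),1817],[(-146514),6688],[1924]],[[(-1571391),(-1081)],[6189]],[[(-2774)]]],[[[(-20111882),(-82675)],[52599]],[[(-151307)]]],[[[(-1297841)]]]],[[[[136423274,(-1695141),(-1531),11],[(-1199847),2536,32],[1796,21],[5]],[[(-676936),(-9429),10],[(-1904),47],[16]],[[(-5694),(-12)],[20]],[[(-12)]]],[[[86641123,(-1783976),1255,(-1)],[(-1137702),7200,(-3)],[3459,(-8)],[(-3)]],[[(-931357),(-7853),3],[519,28],[7]],[[(-6018),(-11)],[17]],[[(-10)]]],[[[(-3997670),(-459070),(-23)],[(-193998),1655],[775]],[[(-422514),(-2330)],[648]],[[(-2027)]]],[[[(-5307485),(-68357)],[(-8261)]],[[(-89976)]]],[[[(-982742)]]]],[[[[(-1365507),21278,(-52)],[14246,(-118)],[(-49)]],[[9768,35],[(-30)]],[[47]]],[[[(-1006492),21975,(-46)],[12966,(-102)],[(-41)]],[[12993,28],[(-32)]],[[43]]],[[[37227,5858],[2519]],[[5024]]],[[[104496]]]]]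

/-- A surrogate. -/
def root_s11 : List (List (List (List (List ℤ)))) :=
  [[[[[5344233919,(-14317365),10043,1],[(-24235785),46742,(-19)],[40357,(-46)],[(-25)]],[[(-6276525),13883,(-7)],[28211,(-46)],[(-53)]],[[(-17000),42],[77]],[[6]]],[[[726586145,(-2031643),1504],[(-3302362),6605,(-3)],[5336,(-6)],[(-3)]],[[(-371881),541],[1647,(-2)],[(-4)]],[[(-2385),6],[11]]],[[[28433919,(-86738),71],[(-129857),280],[196]],[[9307,(-53)],[(-45)]],[[(-74)]]],[[[243585,(-980),1],[(-1133),3],[1]],[[510,(-2)],[(-2)]]]],[[[[1890765313,(-4598287),2794],[(-8534234),15166,(-6)],[15109,(-18)],[(-13)]],[[5417364,(-13515),9],[(-24481),44],[43]],[[(-208)],[1]],[[(-7)]]],[[[180350729,(-424885),244],[(-812855),1406,(-1)],[1466,(-2)],[(-1)]],[[759958,(-1874),1],[(-3432),6],[6]],[[609,(-2)],[(-3)]]],[[[3256150,(-6025),2],[(-14534),21],[29]],[[23538,(-55)],[(-106)]],[[39]]],[[[(-40598),163],[189,(-1)]],[[(-85)]]]],[[[[(-116455807),310351,(-216)],[527979,(-1014)],[(-882),1],[1]],[[484572,(-1123),1],[(-2182),4],[4]],[[1785,(-4)],[(-8)]],[[1]]],[[[(-30484871),78484,(-52)],[137972,(-257)],[(-236)]],[[(-33666),93],[153]],[[94]]],[[[(-1332523),3414,(-2)],[6029,(-11)],[(-10)]],[[(-4182),11],[19]],[[(-4)]]]],[[[[(-45145433),111352,(-69)],[203905,(-367)],[(-358)]],[[(-135720),336],[613,(-1)],[(-1)]],[[(-74)]]],[[[(-3292755),8127,(-5)],[14873,(-27)],[(-26)]],[[(-13777),34],[62]],[[(-22)]]]],[[[[(-2118058),5156,(-3)],[9561,(-17)],[(-17)]],[[(-11078),27],[50]],[[(-23)]]]]]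

/-- A surrogate. -/
def root_s12 : List (List (List (List (List ℤ)))) :=
  [[[[[(-594329476),(-2513516),10153,(-9)],[391489,29398,(-66)],[10799,(-104)],[(-37)]],[[8019782,(-12230),(-7)],[(-37065),21],[59]],[[(-2541),13],[20]],[[(-26)]]],[[[(-465885250),(-597495),4333,(-4)],[1387184,9094,(-25)],[1096,(-33)],[(-9)]],[[2572476,(-4899)],[(-12504),14],[23]],[[1026,2],[(-2)]],[[(-7)]]],[[[(-121135436),23362,642,(-1)],[476222,838,(-4)],[(-461),(-4)],[(-1)]],[[343319,(-781)],[(-1741),3],[3]],[[513,(-1)],[(-2)]],[[(-1)]]],[[[(-13398407),13857,39],[59427,3],[(-95)]],[[22678,(-56)],[(-112)]],[[63]]],[[[(-652580),1043,1],[3139,(-3)],[(-6)]],[[651,(-2)],[(-3)]],[[3]]],[[[(-11486),24],[62]],[[4]]]],[[[[(-142970269),(-4157273),11711,(-9)],[(-1685731),30455,(-56)],[11894,(-83)],[(-28)]],[[1261017,(-3291),4],[(-7479),24],[22]],[[7635,(-3)],[(-32)]],[[7]]],[[[(-292421676),(-545391),3017,(-3)],[851923,5984,(-15)],[463,(-19)],[(-5)]],[[(-4036),(-1064),3],[(-690),9],[4]],[[2285,(-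3)],[(-11)]],[[2]]],[[[(-77536305),57622,258],[333584,164,(-1)],[(-480),(-1)]],[[(-106269),66],[452],[(-1)]],[[196],[(-1)]]],[[[(-7799526),12967,6],[37392,(-33)],[(-69)]],[[(-16650),29],[82]],[[(-1)]]],[[[(-333161),696],[1672]],[[(-911)]]],[[[(-5020)]]]],[[[[37594689,(-1388545),3297,(-2)],[(-814463),8404,(-14)],[3522,(-20)],[(-7)]],[[(-277279),(-2782),8],[(-259),19],[6]],[[(-434),(-1)],[1]],[[1]]],[[[(-46784605),(-134337),568],[124374,1101,(-3)],[80,(-3)],[(-1)]],[[(-230386),(-172),2],[849,3],[(-1)]],[[(-276)],[1]]],[[[(-10167988),9008,27],[45296,3],[(-73)]],[[(-42149),51],[193]],[[(-57)]]],[[[(-662667),1249],[3250]],[[(-2736)]]],[[[(-13198)]]]],[[[[3695805,(-86972),197],[(-55008),498,(-1)],[213,(-1)]],[[(-20429),(-307),1],[(-55),2],[1]],[[(-127)]]],[[[(-2371857),(-3791),20],[7949,35],[(-4)]],[[(-17341),(-2)],[68]],[[(-45)]]],[[[(-321494),496],[1523]],[[(-1802)]]],[[[(-8675)]]]]]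

/-- A surrogate. -/
def root_s13 : List (List (List (List (List ℤ)))) :=
  [[[[[(-24848667),224341,1707,(-5)],[218024,244,(-8)],[(-501),(-1)],[1]],[[232444,1834,(-11)],[(-583),(-10)],[2]],[[685,(-12)],[(-6)]],[[(-5)]]],[[[(-30956480),524633,512,(-3)],[360138,(-1611),(-4)],[(-1054),3],[2]],[[471981,(-284),(-6)],[(-2320)],[6]],[[(-262),(-8)],[(-1)]],[[(-4)]]],[[[(-5384478),272205,(-281)],[137538,(-1194),1],[(-492),2],[1]],[[232270,(-871)],[(-1356),4],[4]],[[(-495),(-1)],[2]],[[(-1)]]],[[[2949763,36506,(-65)],[3156,(-187)],[(-44)]],[[29855,(-155)],[(-194),1],[1]],[[(-115)]]],[[[567311,1818,(-5)],[(-1717),(-12)],[1]],[[1399,(-10)],[(-12)]],[[(-10)]]],[[[32648,28],[(-152)]],[[27]]],[[[582]]]],[[[[(-22987067),294918,225,(-2)],[242157,(-1214),(-1)],[(-818),3],[2]],[[145865,1470,(-4)],[(-213),(-7)]],[[923,(-2)],[(-5)]]],[[[(-24413595),461844,(-423),(-1)],[313070,(-2292),1],[(-1136),5],[2]],[[282849,947,(-4)],[(-989),(-5)],[2]],[[940,(-3)],[(-5)]]],[[[(-3478112),203684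,(-387)],[102164,(-1128),1],[(-435),2],[1]],[[158306,82,(-1)],[(-707),(-1)],[1]],[[330,(-1)],[(-2)]]],[[[2248430,25492,(-65)],[420,(-154)],[(-35)]],[[32356,(-15)],[(-150)]],[[51]]],[[[428224,1135],[(-1461)]],[[3001]]],[[[25298]]]],[[[[(-1187019),14421,24],[12846,(-61)],[(-47)]],[[3404,141],[29,(-1)]],[[76]]],[[[(-1271519),23997,(-20)],[16686,(-129)],[(-65)]],[[11485,120],[(-17),(-1)]],[[92]]],[[[(-143817),10197,(-19)],[4890,(-57)],[(-22)]],[[7947,26],[(-25)]],[[33]]],[[[130809,920],[(-200)]],[[1663]]],[[[17129]]]],[[[[42672,(-665),2],[(-445),4],[2]],[[(-305),(-1)],[1]],[[(-1)]]],[[[31453,(-687),1],[(-405),3],[1]],[[(-406),(-1)],[1]],[[(-1)]]],[[[(-1163),(-183)],[(-79)]],[[(-157)]]],[[[(-3265)]]]]]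

/-- A surrogate. -/
def root_s14 : List (List (List (List (List ℤ)))) :=
  [[[[[(-23755326),214470,1632,(-5)],[208430,234,(-8)],[(-479),(-1)],[1]],[[197368,1978,(-9)],[(-340),(-10)],[1]],[[888,(-10)],[(-6)]],[[(-4)]]],[[[(-29594394),501549,490,(-3)],[344292,(-1540),(-3)],[(-1008),2],[2]],[[420256,253,(-5)],[(-1858),(-1)],[5]],[[221,(-8)],[(-3)]],[[(-5)]]],[[[(-5147561),260228,(-269)],[131486,(-1142),1],[(-470),2],[1]],[[216657,(-560)],[(-1158),3],[3]],[[(-241),(-2)],[1]],[[(-2)]]],[[[2819973,34899,(-63)],[3017,(-179)],[(-42)]],[[31492,(-111)],[(-183),1]],[[(-79)]]],[[[542349,1738,(-5)],[(-1641),(-11)],[1]],[[1916,(-8)],[(-14)]],[[(-8)]]],[[[31211,26],[(-146)]],[[62]]],[[[556]]]],[[[[(-21975636),281942,215,(-2)],[231502,(-1161),(-1)],[(-782),3],[2]],[[116460,1701,(-4)],[39,(-8)],[(-1)]],[[1028,(-1)],[(-5)]],[[1]]],[[[(-23339397),441523,(-405),(-1)],[299295,(-2191),1],[(-1086),5],[2]],[[245985,1367,(-4)],[(-633),(-7)]],[[1182,(-1)],[(-6)]],[[1]]],[[[(-3325076),1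94722,(-370)],[97669,(-1079),1],[(-415),2],[1]],[[147867,283,(-1)],[(-575),(-2)],[1]],[[476,(-1)],[(-2)]]],[[[2149500,24370,(-62)],[401,(-147)],[(-33)]],[[33207,11],[(-143)]],[[80]]],[[[409384,1085],[(-1396)]],[[3287]]],[[[24185]]]],[[[[(-1134791),13787,23],[12280,(-59)],[(-45)]],[[2065,149],[41,(-1)]],[[76]]],[[[(-1215573),22941,(-19)],[15952,(-124)],[(-62)]],[[9713,139],[0,(-1)]],[[101]]],[[[(-137489),9748,(-18)],[4675,(-54)],[(-21)]],[[7467,34],[(-19)]],[[39]]],[[[125054,879],[(-191)]],[[1711]]],[[[16376]]]],[[[[40795,(-636),2],[(-426),4],[1]],[[(-249),(-2)]],[[(-2)]]],[[[30069,(-656),1],[(-387),3],[1]],[[(-359),(-1)],[1]],[[(-2)]]],[[[(-1112),(-175)],[(-75)]],[[(-150)]]],[[[(-3122)]]]]]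

/-- A surrogate. -/
def root_s15 : List (List (List (List (List ℤ)))) :=
  [[[[[(-2408795385),(-9902689),35335,(-21)],[5890017,38388,(-53)],[(-11266),23],[47]],[[(-913976),53189,(-132)],[4322,(-156)],[48]],[[45547,(-158)],[(-189)]],[[(-45)]]],[[[(-2677436124),1827995,6431,(-3)],[10439876,(-3347),(-6)],[(-18139),23],[27]],[[7198713,(-4722),(-25)],[(-34146),19],[75]],[[14871,(-49)],[(-68)]],[[(-17)]]],[[[(-548235603),763161,258],[2303772,(-2232),1],[(-4184),6],[6]],[[1684678,(-2875),(-2)],[(-8161),9],[16]],[[2327,(-7)],[(-11)]],[[(-2)]]],[[[(-45291337),73801,(-17)],[198991,(-255)],[(-401),1],[1]],[[146824,(-293)],[(-706),1],[1]],[[192,(-1)],[(-1)]]],[[[(-1613040),2718,(-2)],[7496,(-12)],[(-18)]],[[5669,(-12)],[(-26)]],[[8]]],[[[(-15783),25],[93]],[[83]]],[[[213]]]],[[[[(-2424843989),(-1497785),15578,(-13)],[9851629,4142,(-27)],[(-20852),30],[38]],[[(-7930476),24680,(-26)],[32381,(-74)],[(-38)]],[[8375,(-13)],[(-36)]],[[9]]],[[[(-2273633953),3855872,1340,(-4)],[1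0594907,(-14035),(-2)],[(-20880),27],[25]],[[(-3082930),8761,(-9)],[13761,(-32)],[(-24)]],[[4418,(-10)],[(-21)]],[[3]]],[[[(-448364366),954818,(-223),(-1)],[2175514,(-3546)],[(-4370),6],[5]],[[(-575474),1563,(-1)],[2791,(-6)],[(-6)]],[[547,(-1)],[(-3)]],[[1]]],[[[(-36818489),85299,(-35)],[183999,(-323)],[(-378)]],[[(-54569),147],[281]],[[17]]],[[[(-1381020),3344],[7072]],[[(-2489)]]],[[[(-19557)]]]],[[[[(-296853348),(-170070),1911,(-2)],[1280775,267,(-3)],[(-2863),4],[5]],[[(-1688097),3068],[7112,(-10)],[(-12)]],[[(-1663),5],[7]],[[1]]],[[[(-265175198),501106,68,(-1)],[1295943,(-1946)],[(-2669),3],[3]],[[(-911675),2131,(-1)],[4364,(-8)],[(-8)]],[[(-718),2],[3]]],[[[(-42130452),96130,(-30)],[213374,(-365)],[(-436)]],[[(-134366),331],[667]],[[(-115)]]],[[[(-2447258),5909],[12619]],[[(-7780)]]],[[[(-48454)]]]],[[[[(-5251707),(-19339),77],[25091,41],[(-79)]],[[(-68150),77],[305],[(-1)]],[[(-182)],[1]]],[[[(-5714996),10793,4],[31724,(-47)],[(-70)]],[[(-37481),82],[184]],[[(-77)]]],[[[(-727474),1711],[4012]],[[(-3787)]]],[[[(-24075)]]]],[[[[337366,(-829)],[(-1404),2],[2]],[[1425,(-3)],[(-5)]],[[2]]],[[[182738,(-440)],[(-745)]],[[756]]],[[[7022]]]]]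

/-- A root. -/
def root : Root where
  cl := true
  box := fun i => match i with
    | 0 => ⟨33, 103, 400, 400⟩
    | 1 => ⟨191, 957, 200, 1000⟩
    | 2 => ⟨279, 7, 2000, 50⟩
    | _ => ⟨309, 310001, 1000, 1000000⟩
  De := 400
  e0 := 57
  e1 := 159
  p := fun i => match i with
    | 0 => 11
    | 1 => 1000
    | 2 => 4000
    | 3 => 1998
    | _ => 8
  q := fun i => match i with
    | 0 => 2
    | 1 => 956
    | 2 => 559
    | 3 => 618
    | _ => 2
  den := 17179869184
  sur := fun k => match k with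
    | 0 => root_s0
    | 1 => root_s1
    | 3 => root_s3
    | 5 => root_s5
    | 11 => root_s11
    | 12 => root_s12
    | 13 => root_s13
    | 14 => root_s14
    | 15 => root_s15
    | _ => []
  eps := fun k => match k with
    | 0 => 23163
    | 1 => 77513
    | 3 => 34752
    | 5 => 23365
    | 11 => 19
    | 12 => 179
    | 13 => 434
    | 14 => 424
    | 15 => 299
    | _ => 0

/-- A leaf. -/
def leaf0 : Leaf :=
  ⟨⟨191, 3821, 200, 4000⟩, ⟨279, 559, 2000, 4000⟩, ⟨309, 310001, 1000, 1000000⟩,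
    131072, (35601, -259458, -199818, 89803), (-30142, -312870, -119636, 173142), 131072, (176504, 487217, 602289, -388223), (184370, -49903, -234394, -156294), (139674, 560707, 698429, -384652), (-33436, 59770, 92058, 5541),
    true, 0, 1, 3326, (-308), 2553, 4096, (-3618), 2105⟩

/-- A leaf. -/
def leaf1 : Leaf :=
  ⟨⟨191, 3821, 200, 4000⟩, ⟨279, 559, 2000, 4000⟩, ⟨309, 310001, 1000, 1000000⟩,
    131072, (-30142, -312870, -119636, 173142), (-95884, -366283, -39454, 256482), 131072, (355482, 406991, 317599, -526849), (-859917, 373998, 687412, 684724), (143923, 541962, 689946, -381371), (108119, -91, -115552, -106351),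
    true, 0, 1, 1183, (-74), 4096, 2220, (-3294), 2550⟩

/-- A tile. -/
def tile0 : Tile :=
  ⟨⟨191, 3821, 200, 4000⟩, ⟨279, 559, 2000, 4000⟩, ⟨309, 310001, 1000, 1000000⟩, 131072, (35601, -259458, -199818, 89803), (-95884, -366283, -39454, 256482), 53740,
    (1024, 0), (19, 1024), 0, 3, (leaf0, ⟨(1024, 0), (282, 1024)⟩),
    [(leaf1, ⟨(76, 1024), (1024, 0)⟩)]⟩

/-- A leaf. -/
def leaf2 : Leaf :=
  ⟨⟨3821, 1911, 4000, 2000⟩, ⟨279, 559, 2000, 4000⟩, ⟨309, 310001, 1000, 1000000⟩,
    131072, (34964, -259297, -199653, 90393), (-31012, -312910, -119290, 174016), 131072, (178462, 485775, 601127, -389634), (185145, -50125, -235200, -156918), (140808, 560812, 698719, -385913), (-33096, 59342, 91700, 5377),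
    true, 0, 1, 3327, (-305), 2600, 4096, (-3614), 2111⟩

/-- A leaf. -/
def leaf3 : Leaf :=
  ⟨⟨3821, 1911, 4000, 2000⟩, ⟨279, 559, 2000, 4000⟩, ⟨309, 310001, 1000, 1000000⟩,
    131072, (-31012, -312910, -119290, 174016), (-96987, -366524, -38928, 257638), 131072, (381069, 402540, 306311, -550524), (-878336, 381035, 700864, 699742), (145613, 541018, 689206, -382727), (108543, -88, -115873, -106749),
    true, 0, 1, 2379, (-210), 4096, 2429, (-2753), 2153⟩

/-- A tile. -/
def tile1 : Tile :=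
  ⟨⟨3821, 1911, 4000, 2000⟩, ⟨279, 559, 2000, 4000⟩, ⟨309, 310001, 1000, 1000000⟩, 131072, (34964, -259297, -199653, 90393), (-96987, -366524, -38928, 257638), 53740,
    (1024, 0), (25, 1024), 0, 3, (leaf2, ⟨(1024, 0), (282, 1024)⟩),
    [(leaf3, ⟨(66, 1024), (1024, 0)⟩)]⟩

/-- A leaf. -/
def leaf4 : Leaf :=
  ⟨⟨191, 3821, 200, 4000⟩, ⟨559, 7, 4000, 50⟩, ⟨309, 619001, 1000, 2000000⟩,
    131072, (35723, -259559, -200289, 89777), (-30297, -313307, -119957, 173494), 131072, (176319, 486778, 602065, -387854), (185192, -49953, -235473, -156982), (139535, 560824, 697971, -384494), (-33617, 59926, 92088, 5676),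
    true, 0, 1, 3317, (-309), 2558, 4096, (-3620), 2108⟩

/-- A leaf. -/
def leaf5 : Leaf :=
  ⟨⟨191, 3821, 200, 4000⟩, ⟨559, 7, 4000, 50⟩, ⟨309, 619001, 1000, 2000000⟩,
    131072, (-30297, -313307, -119957, 173494), (-96317, -367055, -39625, 257211), 131072, (363153, 405576, 313334, -533789), (-867419, 377713, 693530, 690480), (143774, 541920, 689253, -381101), (108497, 88, -116123, -106721),
    true, 0, 1, 2327, (-223), 4096, 2544, (-2773), 2186⟩

/-- A tile. -/
def tile2 : Tile :=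
  ⟨⟨191, 3821, 200, 4000⟩, ⟨559, 7, 4000, 50⟩, ⟨309, 619001, 1000, 2000000⟩, 131072, (35723, -259559, -200289, 89777), (-96317, -367055, -39625, 257211), 53740,
    (1024, 0), (29, 1024), 0, 3, (leaf4, ⟨(1024, 0), (281, 1024)⟩),
    [(leaf5, ⟨(74, 1024), (1024, 0)⟩)]⟩

/-- A leaf. -/
def leaf6 : Leaf :=
  ⟨⟨191, 3821, 200, 4000⟩, ⟨559, 7, 4000, 50⟩, ⟨619001, 310001, 2000000, 1000000⟩,
    131072, (36827, -260466, -201582, 89104), (-28777, -315154, -122765, 172912), 131072, (175344, 492057, 606766, -389232), (186320, -49925, -235605, -158153), (137037, 567737, 705486, -385174), (-33598, 59492, 91837, 5834),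
    true, 0, 1, 3341, (-305), 2625, 4096, (-3671), 2104⟩

/-- A leaf. -/
def leaf7 : Leaf :=
  ⟨⟨191, 3821, 200, 4000⟩, ⟨559, 7, 4000, 50⟩, ⟨619001, 310001, 2000000, 1000000⟩,
    131072, (-28777, -315154, -122765, 172912), (-61579, -342497, -83356, 214815), 131072, (411033, 419391, 321826, -587663), (-561080, 146559, 303275, 495118), (142930, 546612, 693972, -382429), (54380, 261, -57735, -53616),
    true, 0, 1, 2320, (-176), 3880, 4096, (-3806), 2551⟩

/-- A leaf. -/
def leaf8 : Leaf :=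
  ⟨⟨191, 3821, 200, 4000⟩, ⟨559, 7, 4000, 50⟩, ⟨619001, 310001, 2000000, 1000000⟩,
    131072, (-61579, -342497, -83356, 214815), (-94381, -369841, -43948, 256719), 131072, (-175665, 579998, 656475, -72218), (-261668, 232734, 381297, 149397), (197332, 546861, 636260, -436068), (54411, 258, -57763, -53643),
    true, 0, 1, 1482, (-81), 4096, 1437, (-2661), 2065⟩

/-- A tile. -/
def tile3 : Tile :=
  ⟨⟨191, 3821, 200, 4000⟩, ⟨559, 7, 4000, 50⟩, ⟨619001, 310001, 2000000, 1000000⟩, 131072, (36827, -260466, -201582, 89104), (-94381, -369841, -43948, 256719), 53740,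
    (1024, 0), (22, 1024), 0, 3, (leaf6, ⟨(1024, 0), (288, 1024)⟩),
    [(leaf7, ⟨(492, 1024), (1024, 0)⟩), (leaf8, ⟨(0, 1024), (1024, 0)⟩)]⟩

/-- A leaf. -/
def leaf9 : Leaf :=
  ⟨⟨3821, 1911, 4000, 2000⟩, ⟨559, 7, 4000, 50⟩, ⟨309, 310001, 1000, 1000000⟩,
    131072, (35923, -260304, -201388, 89969), (-30286, -314492, -121338, 174067), 131072, (177396, 488662, 604201, -389902), (186654, -50454, -236772, -158159), (139518, 564212, 702300, -386161), (-33420, 59597, 91760, 5625),
    true, 0, 1, 3321, (-305), 2620, 4096, (-3645), 2108⟩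

/-- A leaf. -/
def leaf10 : Leaf :=
  ⟨⟨3821, 1911, 4000, 2000⟩, ⟨559, 7, 4000, 50⟩, ⟨309, 310001, 1000, 1000000⟩,
    131072, (-30286, -314492, -121338, 174067), (-63390, -341585, -81313, 216116), 131072, (419348, 414543, 315431, -593905), (-560669, 147916, 304594, 494054), (144935, 543579, 691233, -383142), (54578, 17, -58223, -53673),
    true, 0, 1, 2341, (-201), 3917, 4096, (-3753), 2563⟩

/-- A leaf. -/
def leaf11 : Leaf :=
  ⟨⟨3821, 1911, 4000, 2000⟩, ⟨559, 7, 4000, 50⟩, ⟨309, 310001, 1000, 1000000⟩,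
    131072, (-63390, -341585, -81313, 216116), (-96494, -368679, -41288, 258165), 131072, (-174116, 578416, 656919, -73391), (-262467, 233321, 383462, 149725), (199571, 543587, 633017, -436874), (54606, 16, -58242, -53700),
    true, 0, 1, 1438, (-85), 4096, 1271, (-2650), 2066⟩

/-- A tile. -/
def tile4 : Tile :=
  ⟨⟨3821, 1911, 4000, 2000⟩, ⟨559, 7, 4000, 50⟩, ⟨309, 310001, 1000, 1000000⟩, 131072, (35923, -260304, -201388, 89969), (-96494, -368679, -41288, 258165), 53740,
    (1024, 0), (25, 1024), 0, 3, (leaf9, ⟨(1024, 0), (287, 1024)⟩),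
    [(leaf10, ⟨(469, 1024), (1024, 0)⟩), (leaf11, ⟨(0, 1024), (1024, 0)⟩)]⟩

/-- A leaf. -/
def leaf12 : Leaf :=
  ⟨⟨1911, 3823, 2000, 4000⟩, ⟨279, 559, 2000, 4000⟩, ⟨309, 310001, 1000, 1000000⟩,
    131072, (35084, -259875, -200840, 90629), (-31508, -313320, -119619, 174716), 131072, (179274, 485441, 602020, -390507), (186488, -50883, -237018, -157811), (142642, 560268, 697802, -387521), (-33546, 59649, 92717, 5599),
    true, 0, 1, 3311, (-305), 2607, 4096, (-3616), 2114⟩

/-- A leaf. -/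
def leaf13 : Leaf :=
  ⟨⟨1911, 3823, 2000, 4000⟩, ⟨279, 559, 2000, 4000⟩, ⟨309, 310001, 1000, 1000000⟩,
    131072, (-31508, -313320, -119619, 174716), (-98099, -366764, -38398, 258802), 131072, (412930, 397696, 293181, -580416), (-887901, 387279, 710835, 706272), (146882, 540494, 689229, -383888), (109403, -510, -116964, -107353),
    true, 0, 1, 2334, (-202), 4096, 2270, (-2675), 2088⟩

/-- A tile. -/
def tile5 : Tile :=
  ⟨⟨1911, 3823, 2000, 4000⟩, ⟨279, 559, 2000, 4000⟩, ⟨309, 310001, 1000, 1000000⟩, 131072, (35084, -259875, -200840, 90629), (-98099, -366764, -38398, 258802), 53740,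
    (1024, 0), (29, 1024), 0, 3, (leaf12, ⟨(1024, 0), (282, 1024)⟩),
    [(leaf13, ⟨(45, 1024), (1024, 0)⟩)]⟩

/-- A leaf. -/
def leaf14 : Leaf :=
  ⟨⟨3823, 239, 4000, 250⟩, ⟨279, 559, 2000, 4000⟩, ⟨309, 310001, 1000, 1000000⟩,
    131072, (35063, -260156, -200465, 90686), (-32078, -313580, -119164, 175330), 131072, (180286, 484678, 600535, -391101), (187751, -51447, -237671, -158856), (144375, 559936, 698242, -389292), (-33862, 59698, 92157, 5995),
    true, 0, 1, 3337, (-307), 2620, 4096, (-3604), 2113⟩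

/-- A leaf. -/
def leaf15 : Leaf :=
  ⟨⟨3823, 239, 4000, 250⟩, ⟨279, 559, 2000, 4000⟩, ⟨309, 310001, 1000, 1000000⟩,
    131072, (-32078, -313580, -119164, 175330), (-99219, -367003, -37862, 259973), 131072, (440220, 393089, 280744, -605688), (-885345, 392493, 717610, 700919), (148236, 539797, 688364, -384953), (110192, -766, -117177, -108064),
    true, 0, 1, 2370, (-232), 4096, 2266, (-2663), 2086⟩

/-- A tile. -/
def tile6 : Tile :=
  ⟨⟨3823, 239, 4000, 250⟩, ⟨279, 559, 2000, 4000⟩, ⟨309, 310001, 1000, 1000000⟩, 131072, (35063, -260156, -200465, 90686), (-99219, -367003, -37862, 259973), 53740,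
    (1024, 0), (39, 1024), 0, 3, (leaf14, ⟨(1024, 0), (283, 1024)⟩),
    [(leaf15, ⟨(19, 1024), (1024, 0)⟩)]⟩

/-- A leaf. -/
def leaf16 : Leaf :=
  ⟨⟨1911, 3823, 2000, 4000⟩, ⟨559, 7, 4000, 50⟩, ⟨309, 310001, 1000, 1000000⟩,
    131072, (35894, -260602, -201510, 90114), (-30858, -314762, -121134, 174724), 131072, (178436, 487902, 603459, -390637), (187906, -51024, -237801, -159135), (141212, 563927, 702358, -387848), (-33713, 59623, 91678, 5934),
    true, 0, 1, 3314, (-306), 2627, 4096, (-3645), 2110⟩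

/-- A leaf. -/
def leaf17 : Leaf :=
  ⟨⟨1911, 3823, 2000, 4000⟩, ⟨559, 7, 4000, 50⟩, ⟨309, 310001, 1000, 1000000⟩,
    131072, (-30858, -314762, -121134, 174724), (-64233, -341843, -80947, 217029), 131072, (504377, 400578, 276530, -672692), (-522643, 145881, 293488, 456548), (146297, 542886, 690645, -384257), (54967, -113, -58468, -54003),
    true, 0, 1, 2341, (-200), 3925, 4096, (-3744), 2564⟩

/-- A leaf. -/
def leaf18 : Leaf :=
  ⟨⟨1911, 3823, 2000, 4000⟩, ⟨559, 7, 4000, 50⟩, ⟨309, 310001, 1000, 1000000⟩,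
    131072, (-64233, -341843, -80947, 217029), (-97609, -368923, -40759, 259334), 131072, (-174830, 580074, 659856, -73880), (-265866, 236124, 387864, 151730), (201321, 542764, 632185, -438319), (54996, -115, -58487, -54029),
    true, 0, 1, 1138, (-306), 4096, 981, (-2615), 2048⟩

/-- A tile. -/
def tile7 : Tile :=
  ⟨⟨1911, 3823, 2000, 4000⟩, ⟨559, 7, 4000, 50⟩, ⟨309, 310001, 1000, 1000000⟩, 131072, (35894, -260602, -201510, 90114), (-97609, -368923, -40759, 259334), 53740,
    (1024, 0), (41, 1024), 0, 3, (leaf16, ⟨(1024, 0), (288, 1024)⟩),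
    [(leaf17, ⟨(452, 1024), (1024, 0)⟩), (leaf18, ⟨(5, 1024), (1024, 0)⟩)]⟩

/-- A leaf. -/
def leaf19 : Leaf :=
  ⟨⟨3823, 239, 4000, 250⟩, ⟨559, 7, 4000, 50⟩, ⟨309, 619001, 1000, 2000000⟩,
    131072, (34664, -260416, -200774, 91233), (-32500, -314095, -119400, 175972), 131072, (180901, 484480, 600057, -391610), (188166, -51598, -238608, -159102), (143775, 559886, 697899, -388618), (-33510, 60025, 92019, 5543),
    true, 0, 1, 3306, (-307), 2557, 4096, (-3562), 2089⟩

/-- A leaf. -/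
def leaf20 : Leaf :=
  ⟨⟨3823, 239, 4000, 250⟩, ⟨559, 7, 4000, 50⟩, ⟨309, 619001, 1000, 2000000⟩,
    131072, (-32500, -314095, -119400, 175972), (-99664, -367774, -38027, 260712), 131072, (446841, 391818, 276772, -611622), (-885337, 395134, 720423, 699642), (148373, 539858, 687581, -385002), (110286, -685, -117666, -108118),
    true, 0, 1, 2292, (-219), 4096, 2500, (-2725), 2167⟩

/-- A tile. -/
def tile8 : Tile :=
  ⟨⟨3823, 239, 4000, 250⟩, ⟨559, 7, 4000, 50⟩, ⟨309, 619001, 1000, 2000000⟩, 131072, (34664, -260416, -200774, 91233), (-99664, -367774, -38027, 260712), 53740,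
    (1024, 0), (41, 1024), 0, 3, (leaf19, ⟨(1024, 0), (282, 1024)⟩),
    [(leaf20, ⟨(12, 1024), (1024, 0)⟩)]⟩

/-- A leaf. -/
def leaf21 : Leaf :=
  ⟨⟨3823, 239, 4000, 250⟩, ⟨559, 1119, 4000, 8000⟩, ⟨619001, 310001, 2000000, 1000000⟩,
    131072, (35550, -261340, -201962, 90780), (-31158, -315688, -121844, 175443), 131072, (180183, 489420, 604469, -393106), (189031, -51760, -238650, -159950), (141646, 565693, 704044, -389136), (-33452, 59811, 92328, 5504),
    true, 0, 1, 3311, (-306), 2631, 4096, (-3643), 2102⟩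

/-- A leaf. -/
def leaf22 : Leaf :=
  ⟨⟨3823, 239, 4000, 250⟩, ⟨559, 1119, 4000, 8000⟩, ⟨619001, 310001, 2000000, 1000000⟩,
    131072, (-31158, -315688, -121844, 175443), (-97866, -370037, -41726, 260106), 131072, (451432, 395588, 278625, -617932), (-895824, 401829, 732131, 706736), (147753, 544074, 691894, -386351), (110461, -528, -117082, -108436),
    true, 0, 1, 1042, (-84), 4096, 1918, (-3163), 2481⟩

/-- A tile. -/
def tile9 : Tile :=
  ⟨⟨3823, 239, 4000, 250⟩, ⟨559, 1119, 4000, 8000⟩, ⟨619001, 310001, 2000000, 1000000⟩, 131072, (35550, -261340, -201962, 90780), (-97866, -370037, -41726, 260106), 53740,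
    (1024, 0), (87, 1024), 0, 3, (leaf21, ⟨(1024, 0), (288, 1024)⟩),
    [(leaf22, ⟨(3, 1024), (1024, 0)⟩)]⟩

/-- A leaf. -/
def leaf23 : Leaf :=
  ⟨⟨3823, 239, 4000, 250⟩, ⟨1119, 7, 8000, 50⟩, ⟨619001, 310001, 2000000, 1000000⟩,
    131072, (35952, -261566, -202697, 90539), (-25800, -320080, -130458, 172523), 131072, (179762, 490464, 605832, -393201), (181983, -45979, -227568, -156076), (144671, 564873, 700260, -391466), (-38977, 63717, 100522, 8818),
    true, 0, 1, 3296, (-307), 2640, 4096, (-3663), 2101⟩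

/-- A leaf. -/
def leaf24 : Leaf :=
  ⟨⟨3823, 239, 4000, 250⟩, ⟨1119, 7, 8000, 50⟩, ⟨619001, 310001, 2000000, 1000000⟩,
    131072, (-25800, -320080, -130458, 172523), (-56677, -349338, -94339, 213515), 131072, (493543, 410817, 295422, -667470), (-512065, 138317, 275445, 450580), (141783, 549419, 701454, -383238), (52479, 1938, -54235, -52684),
    true, 0, 1, 2322, (-184), 3951, 4096, (-3798), 2581⟩

/-- A leaf. -/
def leaf25 : Leaf :=
  ⟨⟨3823, 239, 4000, 250⟩, ⟨1119, 7, 8000, 50⟩, ⟨619001, 310001, 2000000, 1000000⟩,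
    131072, (-56677, -349338, -94339, 213515), (-87553, -378595, -58220, 254507), 131072, (-169276, 579110, 652145, -78251), (-265407, 236542, 384572, 151602), (194285, 551410, 647221, -435963), (52535, 1935, -54331, -52728),
    true, 0, 1, 982, (-91), 4096, 973, (-2615), 2053⟩

/-- A tile. -/
def tile10 : Tile :=
  ⟨⟨3823, 239, 4000, 250⟩, ⟨1119, 7, 8000, 50⟩, ⟨619001, 310001, 2000000, 1000000⟩, 131072, (35952, -261566, -202697, 90539), (-87553, -378595, -58220, 254507), 53740,
    (1024, 0), (273, 1024), 0, 3, (leaf23, ⟨(1024, 0), (290, 1024)⟩),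
    [(leaf24, ⟨(417, 1024), (1024, 0)⟩), (leaf25, ⟨(5, 1024), (1024, 0)⟩)]⟩

/-- A leaf. -/
def leaf26 : Leaf :=
  ⟨⟨239, 153, 250, 160⟩, ⟨279, 559, 2000, 4000⟩, ⟨309, 310001, 1000, 1000000⟩,
    131072, (33941, -260541, -200717, 92022), (-25566, -317844, -126148, 170922), 131072, (183018, 484037, 599982, -393672), (176434, -46020, -227855, -150212), (150765, 556659, 692880, -394129), (-41304, 64088, 99951, 11216),
    true, 0, 1, 3313, (-308), 2559, 4096, (-3560), 2079⟩

/-- A leaf. -/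
def leaf27 : Leaf :=
  ⟨⟨239, 153, 250, 160⟩, ⟨279, 559, 2000, 4000⟩, ⟨309, 310001, 1000, 1000000⟩,
    131072, (-25566, -317844, -126148, 170922), (-85073, -375146, -51578, 249822), 131072, (447574, 397475, 285855, -615040), (-830135, 375297, 680891, 654116), (141598, 543604, 695900, -380346), (101736, 3369, -109696, -101654),
    true, 0, 1, 2407, (-122), 3433, 4096, (-3606), 2863⟩

/-- A tile. -/
def tile11 : Tile :=
  ⟨⟨239, 153, 250, 160⟩, ⟨279, 559, 2000, 4000⟩, ⟨309, 310001, 1000, 1000000⟩, 131072, (33941, -260541, -200717, 92022), (-85073, -375146, -51578, 249822), 53740,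
    (1024, 0), (288, 1024), 0, 3, (leaf26, ⟨(1024, 0), (284, 1024)⟩),
    [(leaf27, ⟨(68, 1024), (1024, 0)⟩)]⟩

/-- A leaf. -/
def leaf28 : Leaf :=
  ⟨⟨153, 1913, 160, 2000⟩, ⟨279, 559, 2000, 4000⟩, ⟨309, 310001, 1000, 1000000⟩,
    131072, (33836, -260559, -200641, 92126), (8946, -328904, -151100, 142062), 131072, (184182, 482845, 598938, -394350), (123577, -29582, -189888, -105814), (178468, 548464, 674256, -417724), (-79622, 75728, 127152, 43540),
    true, 0, 1, 3513, (-309), 2636, 4096, (-3496), 2087⟩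

/-- A leaf. -/
def leaf29 : Leaf :=
  ⟨⟨153, 1913, 160, 2000⟩, ⟨279, 559, 2000, 4000⟩, ⟨309, 310001, 1000, 1000000⟩,
    131072, (8946, -328904, -151100, 142062), (-15943, -397248, -101560, 191998), 131072, (383776, 418635, 335271, -562418), (-625019, 322445, 549006, 476023), (103297, 555093, 723758, -348088), (62756, 15601, -81522, -68975),
    true, 0, 1, 2342, (-214), 4096, 2234, (-2645), 2075⟩

/-- A tile. -/
def tile12 : Tile :=
  ⟨⟨153, 1913, 160, 2000⟩, ⟨279, 559, 2000, 4000⟩, ⟨309, 310001, 1000, 1000000⟩, 131072, (33836, -260559, -200641, 92126), (-15943, -397248, -101560, 191998), 53740,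
    (1024, 0), (1024, 359), 0, 3, (leaf28, ⟨(1024, 0), (283, 1024)⟩),
    [(leaf29, ⟨(50, 1024), (1024, 0)⟩)]⟩

/-- A leaf. -/
def leaf30 : Leaf :=
  ⟨⟨239, 153, 250, 160⟩, ⟨559, 7, 4000, 50⟩, ⟨309, 619001, 1000, 2000000⟩,
    131072, (34416, -260835, -201386, 91718), (-28313, -317699, -123839, 173410), 131072, (182283, 483898, 600062, -392869), (181768, -47240, -233262, -154605), (148902, 557078, 694255, -392537), (-38859, 63717, 97215, 9181),
    true, 0, 1, 3527, (-307), 2636, 4096, (-3499), 2087⟩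

/-- A leaf. -/
def leaf31 : Leaf :=
  ⟨⟨239, 153, 250, 160⟩, ⟨559, 7, 4000, 50⟩, ⟨309, 619001, 1000, 2000000⟩,
    131072, (-28313, -317699, -123839, 173410), (-91042, -374563, -46292, 255103), 131072, (457478, 395065, 277091, -623339), (-842191, 381300, 697161, 662400), (144365, 542919, 692235, -382483), (105446, 2669, -113470, -104757),
    true, 0, 1, 2323, (-250), 4096, 2503, (-2698), 2155⟩

/-- A tile. -/
def tile13 : Tile :=
  ⟨⟨239, 153, 250, 160⟩, ⟨559, 7, 4000, 50⟩, ⟨309, 619001, 1000, 2000000⟩, 131072, (34416, -260835, -201386, 91718), (-91042, -374563, -46292, 255103), 53740,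
    (1024, 0), (240, 1024), 0, 3, (leaf30, ⟨(1024, 0), (282, 1024)⟩),
    [(leaf31, ⟨(66, 1024), (1024, 0)⟩)]⟩

/-- A leaf. -/
def leaf32 : Leaf :=
  ⟨⟨239, 153, 250, 160⟩, ⟨559, 1119, 4000, 8000⟩, ⟨619001, 310001, 2000000, 1000000⟩,
    131072, (35128, -261566, -202549, 91380), (2430, -330068, -153207, 149561), 131072, (181849, 488535, 604454, -394558), (136897, -30441, -191682, -119203), (168687, 554880, 680263, -410436), (-70587, 75128, 126698, 34353),
    true, 0, 1, 3286, (-306), 2626, 4096, (-3630), 2096⟩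

/-- A leaf. -/
def leaf33 : Leaf :=
  ⟨⟨239, 153, 250, 160⟩, ⟨559, 1119, 4000, 8000⟩, ⟨619001, 310001, 2000000, 1000000⟩,
    131072, (2430, -330068, -153207, 149561), (-30268, -398570, -103865, 207742), 131072, (396050, 422891, 338955, -577166), (-691343, 329245, 562535, 541199), (110449, 559338, 727037, -357422), (72082, 15248, -82306, -78497),
    true, 0, 1, 1499, (-70), 4096, 2349, (-3474), 2746⟩

/-- A tile. -/
def tile14 : Tile :=
  ⟨⟨239, 153, 250, 160⟩, ⟨559, 1119, 4000, 8000⟩, ⟨619001, 310001, 2000000, 1000000⟩, 131072, (35128, -261566, -202549, 91380), (-30268, -398570, -103865, 207742), 53740,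
    (1024, 0), (1024, 410), 0, 3, (leaf32, ⟨(1024, 0), (287, 1024)⟩),
    [(leaf33, ⟨(60, 1024), (1024, 0)⟩)]⟩

/-- A leaf. -/
def leaf34 : Leaf :=
  ⟨⟨239, 153, 250, 160⟩, ⟨1119, 7, 8000, 50⟩, ⟨619001, 310001, 2000000, 1000000⟩,
    131072, (35535, -261831, -202761, 91071), (26584, -340360, -161258, 128813), 131072, (181444, 489620, 604980, -394563), (100668, -15514, -180498, -87787), (185910, 549546, 677071, -426239), (-96511, 85451, 134010, 57050),
    true, 0, 1, 3299, (-308), 2646, 4096, (-3663), 2103⟩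

/-- A leaf. -/
def leaf35 : Leaf :=
  ⟨⟨239, 153, 250, 160⟩, ⟨1119, 7, 8000, 50⟩, ⟨619001, 310001, 2000000, 1000000⟩,
    131072, (26584, -340360, -161258, 128813), (22108, -379624, -140507, 147684), 131072, (364975, 457938, 369200, -558814), (-341760, 74269, 177443, 307554), (83157, 571399, 735975, -334095), (22617, 13155, -36846, -27631),
    true, 0, 1, 2318, (-196), 3955, 4096, (-3789), 2580⟩

/-- A leaf. -/
def leaf36 : Leaf :=
  ⟨⟨239, 153, 250, 160⟩, ⟨1119, 7, 8000, 50⟩, ⟨619001, 310001, 2000000, 1000000⟩,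
    131072, (22108, -379624, -140507, 147684), (17632, -418889, -119756, 166555), 131072, (-67367, 542161, 595214, -164535), (-182927, 207007, 338815, 81600), (105811, 584617, 699100, -361780), (22682, 13157, -36941, -27686),
    true, 0, 1, 836, (-41), 4096, 843, (-2612), 2058⟩

/-- A tile. -/
def tile15 : Tile :=
  ⟨⟨239, 153, 250, 160⟩, ⟨1119, 7, 8000, 50⟩, ⟨619001, 310001, 2000000, 1000000⟩, 131072, (35535, -261831, -202761, 91071), (17632, -418889, -119756, 166555), 53740,
    (1024, 0), (1024, 171), 0, 3, (leaf34, ⟨(1024, 0), (289, 1024)⟩),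
    [(leaf35, ⟨(412, 1024), (1024, 0)⟩), (leaf36, ⟨(5, 1024), (1024, 0)⟩)]⟩

/-- A leaf. -/
def leaf37 : Leaf :=
  ⟨⟨153, 1913, 160, 2000⟩, ⟨559, 7, 4000, 50⟩, ⟨309, 310001, 1000, 1000000⟩,
    131072, (34117, -261511, -201960, 92333), (34274, -343714, -167407, 122756), 131072, (184197, 485620, 601344, -395614), (85898, -9274, -168670, -76092), (195402, 541827, 667070, -432214), (-106339, 90354, 142542, 64492),
    true, 0, 1, 3287, (-309), 2636, 4096, (-3628), 2106⟩

/-- A leaf. -/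
def leaf38 : Leaf :=
  ⟨⟨153, 1913, 160, 2000⟩, ⟨559, 7, 4000, 50⟩, ⟨309, 310001, 1000, 1000000⟩,
    131072, (34274, -343714, -167407, 122756), (34352, -384816, -150130, 137968), 131072, (343793, 463748, 384668, -540820), (-312091, 60115, 151260, 284940), (74738, 572662, 741939, -326571), (17342, 15420, -32721, -23452),
    true, 0, 1, 2324, (-192), 3921, 4096, (-3733), 2577⟩

/-- A leaf. -/
def leaf39 : Leaf :=
  ⟨⟨153, 1913, 160, 2000⟩, ⟨559, 7, 4000, 50⟩, ⟨309, 310001, 1000, 1000000⟩,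
    131072, (34352, -384816, -150130, 137968), (34431, -425917, -132854, 153179), 131072, (-46039, 530099, 576254, -180159), (-165980, 199269, 324437, 68488), (92148, 588070, 709227, -350091), (17364, 15415, -32736, -23471),
    true, 0, 1, 519, (-52), 4096, 924, (-2868), 2259⟩

/-- A tile. -/
def tile16 : Tile :=
  ⟨⟨153, 1913, 160, 2000⟩, ⟨559, 7, 4000, 50⟩, ⟨309, 310001, 1000, 1000000⟩, 131072, (34117, -261511, -201960, 92333), (34431, -425917, -132854, 153179), 53740,
    (1024, 0), (1024, 119), 0, 3, (leaf37, ⟨(1024, 0), (287, 1024)⟩),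
    [(leaf38, ⟨(398, 1024), (1024, 0)⟩), (leaf39, ⟨(5, 1024), (1024, 0)⟩)]⟩

/-- A leaf. -/
def leaf40 : Leaf :=
  ⟨⟨1913, 3827, 2000, 4000⟩, ⟨279, 559, 2000, 4000⟩, ⟨309, 310001, 1000, 1000000⟩,
    131072, (33686, -261196, -201233, 92576), (37795, -343670, -171554, 119667), 131072, (185430, 482584, 598904, -395566), (79190, -8166, -159676, -70750), (202083, 536997, 658378, -436397), (-111904, 91743, 149853, 68792),
    true, 0, 1, 3203, (-302), 2571, 4096, (-3535), 2071⟩

/-- A leaf. -/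
def leaf41 : Leaf :=
  ⟨⟨1913, 3827, 2000, 4000⟩, ⟨279, 559, 2000, 4000⟩, ⟨309, 310001, 1000, 1000000⟩,
    131072, (37795, -343670, -171554, 119667), (41904, -426145, -141875, 146758), 131072, (322859, 449896, 378993, -515236), (-463761, 252749, 447373, 344827), (71331, 570864, 746581, -323106), (30058, 31443, -59140, -43182),
    true, 0, 1, 1877, (-195), 4096, 2127, (-2671), 2122⟩

/-- A tile. -/
def tile17 : Tile :=
  ⟨⟨1913, 3827, 2000, 4000⟩, ⟨279, 559, 2000, 4000⟩, ⟨309, 310001, 1000, 1000000⟩, 131072, (33686, -261196, -201233, 92576), (41904, -426145, -141875, 146758), 53740,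
    (1024, 0), (1024, 101), 0, 3, (leaf40, ⟨(1024, 0), (282, 1024)⟩),
    [(leaf41, ⟨(37, 1024), (1024, 0)⟩)]⟩

/-- A leaf. -/
def leaf42 : Leaf :=
  ⟨⟨3827, 957, 4000, 1000⟩, ⟨279, 559, 2000, 4000⟩, ⟨309, 310001, 1000, 1000000⟩,
    131072, (32664, -261266, -200724, 93592), (69142, -357988, -188620, 94018), 131072, (188017, 481460, 597185, -397655), (29417, 13678, -132768, -29710), (227251, 525857, 645291, -457223), (-146650, 107127, 168433, 97429),
    true, 0, 1, 3221, (-302), 2591, 4096, (-3554), 2085⟩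

/-- A leaf. -/
def leaf43 : Leaf :=
  ⟨⟨3827, 957, 4000, 1000⟩, ⟨279, 559, 2000, 4000⟩, ⟨309, 310001, 1000, 1000000⟩,
    131072, (69142, -357988, -188620, 94018), (105621, -454710, -176515, 94445), 131072, (252360, 481184, 416860, -457178), (-298545, 183819, 362551, 206786), (36456, 586244, 765630, -294401), (-6513, 47500, -39307, -13042),
    true, 0, 1, 2194, (-226), 4096, 2421, (-2655), 2107⟩

/-- A tile. -/
def tile18 : Tile :=
  ⟨⟨3827, 957, 4000, 1000⟩, ⟨279, 559, 2000, 4000⟩, ⟨309, 310001, 1000, 1000000⟩, 131072, (32664, -261266, -200724, 93592), (105621, -454710, -176515, 94445), 53740,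
    (1024, 0), (1024, 15), 0, 3, (leaf42, ⟨(1024, 0), (278, 1024)⟩),
    [(leaf43, ⟨(33, 1024), (1024, 0)⟩)]⟩

/-- A leaf. -/
def leaf44 : Leaf :=
  ⟨⟨1913, 3827, 2000, 4000⟩, ⟨559, 7, 4000, 50⟩, ⟨309, 310001, 1000, 1000000⟩,
    131072, (34395, -261823, -202352, 92201), (68238, -357174, -189190, 94784), 131072, (184790, 484855, 601000, -395937), (34043, 10864, -135871, -33184), (223283, 531233, 650027, -455470), (-144492, 104872, 166627, 96166),
    true, 0, 1, 3256, (-307), 2622, 4096, (-3600), 2093⟩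

/-- A leaf. -/
def leaf45 : Leaf :=
  ⟨⟨1913, 3827, 2000, 4000⟩, ⟨559, 7, 4000, 50⟩, ⟨309, 310001, 1000, 1000000⟩,
    131072, (68238, -357174, -189190, 94784), (102081, -452526, -176028, 97366), 131072, (255228, 479814, 415943, -459610), (-318962, 193245, 372596, 223609), (36899, 587051, 766323, -295228), (-3319, 45647, -41267, -15493),
    true, 0, 1, 2155, (-196), 4096, 2136, (-2606), 2049⟩

/-- A tile. -/
def tile19 : Tile :=
  ⟨⟨1913, 3827, 2000, 4000⟩, ⟨559, 7, 4000, 50⟩, ⟨309, 310001, 1000, 1000000⟩, 131072, (34395, -261823, -202352, 92201), (102081, -452526, -176028, 97366), 53740,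
    (1024, 0), (1024, 26), 0, 3, (leaf44, ⟨(1024, 0), (284, 1024)⟩),
    [(leaf45, ⟨(41, 1024), (1024, 0)⟩)]⟩

/-- A leaf. -/
def leaf46 : Leaf :=
  ⟨⟨3827, 957, 4000, 1000⟩, ⟨559, 7, 4000, 50⟩, ⟨309, 310001, 1000, 1000000⟩,
    131072, (33881, -262209, -202519, 92887), (90240, -367138, -208288, 77796), 131072, (186599, 484214, 600316, -397520), (-688, 25622, -106735, -5907), (241934, 523043, 634964, -470150), (-169424, 115717, 187761, 115633),
    true, 0, 1, 3252, (-308), 2625, 4096, (-3596), 2093⟩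

/-- A leaf. -/
def leaf47 : Leaf :=
  ⟨⟨3827, 957, 4000, 1000⟩, ⟨559, 7, 4000, 50⟩, ⟨309, 310001, 1000, 1000000⟩,
    131072, (90240, -367138, -208288, 77796), (146598, -472068, -214058, 62705), 131072, (205827, 501226, 458503, -421102), (-202070, 145199, 276744, 130954), (12556, 597546, 787700, -276296), (-28792, 56481, -19852, 4504),
    true, 0, 1, 2114, (-177), 4096, 1992, (-2610), 2040⟩

/-- A tile. -/
def tile20 : Tile :=
  ⟨⟨3827, 957, 4000, 1000⟩, ⟨559, 7, 4000, 50⟩, ⟨309, 310001, 1000, 1000000⟩, 131072, (33881, -262209, -202519, 92887), (146598, -472068, -214058, 62705), 53740,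
    (1024, 0), (1024, 2), 0, 3, (leaf46, ⟨(1024, 0), (280, 1024)⟩),
    [(leaf47, ⟨(41, 1024), (1024, 0)⟩)]⟩

/-- The subdivision. -/
def tree : Tree :=
  (.node 0 239 250
    (.node 0 1911 2000
    (.node 1 559 4000
    (.node 0 3821 4000
    (.tile tile0)
    (.tile tile1))
    (.node 0 3821 4000
    (.node 2 619001 2000000
    (.tile tile2)
    (.tile tile3))
    (.tile tile4)))
    (.node 1 559 4000
    (.node 0 3823 4000
    (.tile tile5)
    (.tile tile6))
    (.node 0 3823 4000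
    (.tile tile7)
    (.node 2 619001 2000000
    (.tile tile8)
    (.node 1 1119 8000
    (.tile tile9)
    (.tile tile10))))))
    (.node 0 1913 2000
    (.node 1 559 4000
    (.node 0 153 160
    (.tile tile11)
    (.tile tile12))
    (.node 0 153 160
    (.node 2 619001 2000000
    (.tile tile13)
    (.node 1 1119 8000
    (.tile tile14)
    (.tile tile15)))
    (.tile tile16)))
    (.node 1 559 4000
    (.node 0 3827 4000
    (.tile tile17)
    (.tile tile18))
    (.node 0 3827 4000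
    (.tile tile19)
    (.tile tile20)))))

def tree_ok : tree.ok pieceC 448 ⟨191, 957, 200, 1000⟩ ⟨279, 7, 2000, 50⟩ ⟨309, 310001, 1000, 1000000⟩ = true := by
  decide +kernel

def root_ok0 : root.okEnt 576 0 = true := by decide +kernel

def root_ok1 : root.okEnt 576 1 = true := by decide +kernel

def root_ok3 : root.okEnt 576 3 = true := by decide +kernel

def root_ok5 : root.okEnt 576 5 = true := by decide +kernel

def root_ok11 : root.okEnt 576 11 = true := by decide +kernel

def root_ok12 : root.okEnt 576 12 = true := by decide +kernel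

def root_ok13 : root.okEnt 576 13 = true := by decide +kernel

def root_ok14 : root.okEnt 576 14 = true := by decide +kernel

def root_ok15 : root.okEnt 576 15 = true := by decide +kernel

def leaf0_ok : leaf0.okLeaf root 704 = true := by decide +kernel

def leaf1_ok : leaf1.okLeaf root 704 = true := by decide +kernel

def leaf2_ok : leaf2.okLeaf root 704 = true := by decide +kernel

def leaf3_ok : leaf3.okLeaf root 704 = true := by decide +kernel

def leaf4_ok : leaf4.okLeaf root 704 = true := by decide +kernel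

def leaf5_ok : leaf5.okLeaf root 704 = true := by decide +kernel

def leaf6_ok : leaf6.okLeaf root 704 = true := by decide +kernel

def leaf7_ok : leaf7.okLeaf root 704 = true := by decide +kernel

def leaf8_ok : leaf8.okLeaf root 704 = true := by decide +kernel

def leaf9_ok : leaf9.okLeaf root 704 = true := by decide +kernel

def leaf10_ok : leaf10.okLeaf root 704 = true := by decide +kernel

def leaf11_ok : leaf11.okLeaf root 704 = true := by decide +kernel

def leaf12_ok : leaf12.okLeaf root 704 = true := by decide +kernel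

def leaf13_ok : leaf13.okLeaf root 704 = true := by decide +kernel

def leaf14_ok : leaf14.okLeaf root 704 = true := by decide +kernel

def leaf15_ok : leaf15.okLeaf root 704 = true := by decide +kernel

def leaf16_ok : leaf16.okLeaf root 704 = true := by decide +kernel

def leaf17_ok : leaf17.okLeaf root 704 = true := by decide +kernel

def leaf18_ok : leaf18.okLeaf root 704 = true := by decide +kernel

def leaf19_ok : leaf19.okLeaf root 704 = true := by decide +kernel

def leaf20_ok : leaf20.okLeaf root 704 = true := by decide +kernel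

def leaf21_ok : leaf21.okLeaf root 704 = true := by decide +kernel

def leaf22_ok : leaf22.okLeaf root 704 = true := by decide +kernel

def leaf23_ok : leaf23.okLeaf root 704 = true := by decide +kernel

def leaf24_ok : leaf24.okLeaf root 704 = true := by decide +kernel

def leaf25_ok : leaf25.okLeaf root 704 = true := by decide +kernel

def leaf26_ok : leaf26.okLeaf root 704 = true := by decide +kernel

def leaf27_ok : leaf27.okLeaf root 704 = true := by decide +kernel

def leaf28_ok : leaf28.okLeaf root 704 = true := by decide +kernel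

def leaf29_ok : leaf29.okLeaf root 704 = true := by decide +kernel

def leaf30_ok : leaf30.okLeaf root 704 = true := by decide +kernel

def leaf31_ok : leaf31.okLeaf root 704 = true := by decide +kernel

def leaf32_ok : leaf32.okLeaf root 704 = true := by decide +kernel

def leaf33_ok : leaf33.okLeaf root 704 = true := by decide +kernel

def leaf34_ok : leaf34.okLeaf root 704 = true := by decide +kernel

def leaf35_ok : leaf35.okLeaf root 704 = true := by decide +kernel

def leaf36_ok : leaf36.okLeaf root 704 = true := by decide +kernel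

def leaf37_ok : leaf37.okLeaf root 704 = true := by decide +kernel

def leaf38_ok : leaf38.okLeaf root 704 = true := by decide +kernel

def leaf39_ok : leaf39.okLeaf root 704 = true := by decide +kernel

def leaf40_ok : leaf40.okLeaf root 704 = true := by decide +kernel

def leaf41_ok : leaf41.okLeaf root 704 = true := by decide +kernel

def leaf42_ok : leaf42.okLeaf root 704 = true := by decide +kernel

def leaf43_ok : leaf43.okLeaf root 704 = true := by decide +kernel

def leaf44_ok : leaf44.okLeaf root 704 = true := by decide +kernel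

def leaf45_ok : leaf45.okLeaf root 704 = true := by decide +kernel

def leaf46_ok : leaf46.okLeaf root 704 = true := by decide +kernel

def leaf47_ok : leaf47.okLeaf root 704 = true := by decide +kernel

theorem leaves_eq : tree.leaves =
    [leaf0, leaf1, leaf2, leaf3, leaf4, leaf5, leaf6, leaf7,
    leaf8, leaf9, leaf10, leaf11, leaf12, leaf13, leaf14, leaf15,
    leaf16, leaf17, leaf18, leaf19, leaf20, leaf21, leaf22, leaf23,
    leaf24, leaf25, leaf26, leaf27, leaf28, leaf29, leaf30, leaf31,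
    leaf32, leaf33, leaf34, leaf35, leaf36, leaf37, leaf38, leaf39,
    leaf40, leaf41, leaf42, leaf43, leaf44, leaf45, leaf46, leaf47] := rfl

theorem leaves_ok : ∀ F ∈ tree.leaves, Leaf.okLeaf F root 704 = true := by
  rw [leaves_eq]
  exact all'_cons leaf0_ok (all'_cons leaf1_ok (all'_cons leaf2_ok (all'_cons leaf3_ok (
    all'_cons leaf4_ok (all'_cons leaf5_ok (all'_cons leaf6_ok (all'_cons leaf7_ok (
    all'_cons leaf8_ok (all'_cons leaf9_ok (all'_cons leaf10_ok (all'_cons leaf11_ok (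
    all'_cons leaf12_ok (all'_cons leaf13_ok (all'_cons leaf14_ok (all'_cons leaf15_ok (
    all'_cons leaf16_ok (all'_cons leaf17_ok (all'_cons leaf18_ok (all'_cons leaf19_ok (
    all'_cons leaf20_ok (all'_cons leaf21_ok (all'_cons leaf22_ok (all'_cons leaf23_ok (
    all'_cons leaf24_ok (all'_cons leaf25_ok (all'_cons leaf26_ok (all'_cons leaf27_ok (
    all'_cons leaf28_ok (all'_cons leaf29_ok (all'_cons leaf30_ok (all'_cons leaf31_ok (
    all'_cons leaf32_ok (all'_cons leaf33_ok (all'_cons leaf34_ok (all'_cons leaf35_ok (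
    all'_cons leaf36_ok (all'_cons leaf37_ok (all'_cons leaf38_ok (all'_cons leaf39_ok (
    all'_cons leaf40_ok (all'_cons leaf41_ok (all'_cons leaf42_ok (all'_cons leaf43_ok (
    all'_cons leaf44_ok (all'_cons leaf45_ok (all'_cons leaf46_ok (all'_cons leaf47_ok (
    (fun F hF => absurd hF List.not_mem_nil)))))))))))))))))))))))))))))))))))))))))))))))))

theorem root_ok : ∀ k ∈ [0, 1, 3, 5, 11, 12, 13, 14, 15], root.okEnt 576 k = true := by
  intro k hk
  simp only [List.mem_cons, List.not_mem_nil, or_false] at hk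
  rcases hk with rfl | rfl | rfl | rfl | rfl | rfl | rfl | rfl | rfl
  · exact root_ok0
  · exact root_ok1
  · exact root_ok3
  · exact root_ok5
  · exact root_ok11
  · exact root_ok12
  · exact root_ok13
  · exact root_ok14
  · exact root_ok15

theorem used_ok : ∀ F ∈ tree.leaves, ∀ k ∈ Leaf.used F, root.okEnt 576 k = true := by
  intro F hF k hk
  refine root_ok k ?_
  rw [leaves_eq] at hF
  have h : ([leaf0, leaf1, leaf2, leaf3, leaf4, leaf5, leaf6, leaf7,
    leaf8, leaf9, leaf10, leaf11, leaf12, leaf13, leaf14, leaf15,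
    leaf16, leaf17, leaf18, leaf19, leaf20, leaf21, leaf22, leaf23,
    leaf24, leaf25, leaf26, leaf27, leaf28, leaf29, leaf30, leaf31,
    leaf32, leaf33, leaf34, leaf35, leaf36, leaf37, leaf38, leaf39,
    leaf40, leaf41, leaf42, leaf43, leaf44, leaf45, leaf46, leaf47]).all (fun G => G.used.all fun j => [0, 1, 3, 5, 11, 12, 13, 14, 15].any (Nat.beq j)) = true := by
    decide +kernel
  simp only [List.all_eq_true, List.any_eq_true] at h
  obtain ⟨j, hj, e⟩ := h F hF k hk
  exact Nat.eq_of_beq_eq_true e ▸ hj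

/-- **The signs on the box.** -/
theorem signs {a I u X η : ℝ} (hf : Facts pieceC a I u X η) (hu : In1 ⟨191, 957, 200, 1000⟩ u)
    (hI : In1 ⟨279, 7, 2000, 50⟩ I) (ha : In1 ⟨309, 310001, 1000, 1000000⟩ a) :
    ClosedGen.SignsMult a (rd (mk4 X u I a)) (rv (mk4 X u I a)) (rg (mk4 X u I a) η)
      (rW (mk4 X u I a) η) (rW1 (mk4 X u I a) η) (rR (mk4 X u I a))
      (rNum true (mk4 X u I a) η) :=
  Tree.signs (T := tree) (R := root) tree_ok leaves_ok used_ok hf hu hI ha

end Vale.Agent.P100.Calib.MidTail.BoxII1U3g
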