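import Vale.Agent.P100.Calib.SlabMidTailPieces

/-!
# The signs on a box of the middle tail

`u, I, a` lie in the box of `root`; the surrogates and leaves are checked by the kernel.
-/

namespace Vale.Agent.P100.Calib.MidTail.BoxIII1U0

open Pack EndAll Band

/-- A surrogate. -/
def root_s0 : List (List (List (List (List ℤ)))) :=
  [[[[[13145341277,(-248831043),959318,224,(-12)],[(-487429214),5793496,(-3077),(-144),1],[5689260,(-17313),(-556),5],[(-1916),(-864),13],[(-583),16],[7]],[[(-1311519766),(-24781602),94616,(-1),(-1)],[(-13146630),757998,(-459),(-18)],[963523,(-6978),(-67),1],[(-13109),(-40),1],[68,1]],[[(-777477925),3842415,(-16554),43],[18764973,(-89355),442,(-1)],[(-141606),698,(-7)],[(-373),(-9)],[4]],[[(-24814141),398817,(-1334),3],[1274308,(-13284),37],[(-26383),168],[221]],[[5824291,(-6243),17],[(-121942),(-64)],[227]],[[150857,(-667)],[(-4066)]],[[(-16052)]]],[[[8712810463,(-174725952),716787,(-1058),(-3)],[(-333700148),4292550,(-9836),(-37)],[4174671,(-28783),(-135),1],[(-12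359),(-202),4],[(-196),4],[2]],[[(-894775724),(-30561583),141185,(-396)],[(-25604425),1074707,(-4070),4],[1221555,(-16428),30],[(-18271),102],[111]],[[(-686137120),1129040,(-200),2],[14735964,14499,(-45)],[(-51602),(-635)],[(-1110)]],[[(-27709232),291874,(-587)],[1161386,(-6440)],[(-13303)]],[[6030937,(-5251)],[(-106530)]],[[148419]]],[[[1200539732,(-30331758),92897,(-215)],[(-51936469),718485,(-1474),(-4)],[695426,(-5504),(-14)],[(-2907),(-15)],[(-22)]],[[(-236454031),(-9901037),34359,(-90)],[(-7451546),318909,(-922)],[327102,(-3874)],[(-3915)]],[[(-214403966),(-111704),1163],[4550055,10869],[(-15945)]],[[(-12779055),89462],[392012]],[[1776401]]],[[[56116148,(-3111956),5521,(-12)],[(-3703148),69118,(-59)],[53483,(-385)],[(-127)]],[[(-68712993),(-1145485),3102],[264467,31054],[22906]],[[(-30178649),(-14490)],[570991]],[[(-1366613)]]],[[[(-5984060),(-154428),122],[64854,2529],[(-296)]],[[(-7515227),(-49652)],[88712]],[[(-1703293)]]],[[[(-556988),(-1840)],[11927]],[[(-247102)]]],[[[(-7324)]]]]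,[[[[5725910711,(-80813381),(-96880),3741,(-19)],[(-196008190),830199,22590,(-204),1],[1673572,35343,(-722),3],[16335,(-993),9],[(-474),10],[4]],[[448859796,(-31663560),97862,168,(-2)],[(-42502331),811064,(-36),(-24)],[819280,(-5191),(-78)],[(-5676),(-92)],[(-36)]],[[(-451719432),(-1896379),7548,(-4)],[7704311,72112,(-61)],[1045,(-512)],[(-502)]],[[(-79533656),97690,(-483)],[1906570,(-1012)],[(-7500)]],[[(-3327339),5931],[47998]],[[166795]]],[[[3931685323,(-68787710),173569,444,(-5)],[(-154428277),1630257,311,(-45)],[2143648,(-9587),(-129)],[(-11659),(-125)],[(-36)]],[[450656563,(-30094093),121848,(-256)],[(-42185898),888663,(-2577)],[921644,(-8861)],[(-7538)]],[[(-407190438),(-2645276),8260],[6028297,65795],[17472]],[[(-85934711),53077],[1462922]],[[(-3134111)]]],[[[609125175,(-13498124),36480,(-58)],[(-27893417),369073,(-663)],[465297,(-3191)],[(-3104)]],[[15847421,(-7055001),16926],[(-7615512),161014],[169002]],[[(-126755695),(-785446)],[1244459]],[[(-22990008)]]],[[[44462074,(-1635549),2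738],[(-2536282),34863],[41779]],[[(-27250424),(-669339)],[(-331009)]],[[(-16744833)]]],[[[(-2026475),(-79510)],[(-51750)]],[[(-3162633)]]],[[[(-182386)]]]],[[[[46807496,7530260,(-180681),1347,(-5)],[10127374,(-649317),9169,(-49)],[(-558888),18699,(-177)],[11944,(-264)],[(-139)]],[[240259481,(-4955528),(-2464),192],[(-11374446),104409,965],[183575,805],[(-371)]],[[(-5616946),(-1411257),4469],[(-1483882),36180],[38305]],[[(-16549018),(-72909)],[189041]],[[(-1797988)]]],[[[188154256,(-2181809),(-12367),150],[(-6744088),24960,885],[82426,1176],[276]],[[129699145,(-3376999),7736],[(-6635052),76964],[102264]],[[(-12763842),(-657642)],[(-600791)]],[[(-9042699)]]],[[[10554603,(-221215),(-811)],[(-661726),5080],[10908]],[[17192176,(-407181)],[(-826546)]],[[(-1572595)]]],[[[2764627,(-36583)],[(-98306)]],[[1079616]]],[[[(-20096)]]]],[[[[(-9320114),168855,(-822),1],[362646,(-4796),9],[(-5660),30],[25]],[[(-948588),60175,(-218)],[80915,(-1146)],[(-1081)]],[[747752,3434],[(-6098)]],[[125719]]],[[[(-8999188),171988,(-564)],[356498,(-3306)],[(-3937)]],[[(-667571),43005],[60880]],[[496879]]],[[[(-2037512),42518],[86217]],[[(-114464)]]],[[[44949]]]]]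

/-- A surrogate. -/
def root_s1 : List (List (List (List (List ℤ)))) :=
  [[[[[22258449161,(-191371113),(-194740),6271,(-31)],[(-821439594),3899472,31910,(-347),1],[10960270,8976,(-1166),9],[(-52168),(-1320),22],[(-401),25],[10]],[[(-1293631210),36627189,(-193998),441],[86800008,(-1464973),7147,(-8)],[(-1944945),27245,(-98)],[25166,(-280)],[(-210),2],[1]],[[(-214489574),498093,468,(-16)],[5835259,(-15368),(-91)],[(-83390),87,2],[781,2],[(-3)]],[[3890919,8158,(-9)],[(-49889),(-280)],[28,2],[2]],[[(-61384)],[1858],[(-10)]]],[[[27797135946,(-226936983),172316,2290,(-14)],[(-999883154),5542111,4173,(-130)],[13676431,(-47268),(-334),2],[(-92134),(-114),6],[188,5],[2]],[[(-1809410852),28721470,(-83712),166],[90703651,(-861380),2754,(-4)],[(-1498414),12102,(-37)],[13196,(-102)],[(-75)]],[[(-106650107),(-308501),32,(-4)],[1295645,3462,(-20)],[(-11621),7],[188]],[[4407017,11755,(-7)],[(-58567),(-228)],[21]],[[(-100109)],[1501]]],[[[11637079570,(-87622032),97101,380,(-2)],[(-401627072),2165126,(-112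5),(-16)],[5356127,(-21400),(-23)],[(-36261),60],[92]],[[(-871539533),9690961,(-15138),20],[36823534,(-235864),430],[(-513177),2472],[3300]],[[(-18426720),(-214647),23],[(-245754),3631],[5142]],[[1538670,3782],[(-17779)]],[[(-30337)]]],[[[1935213825,(-13235357),17805,24],[(-62903507),330951,(-303)],[812347,(-2945)],[(-4648)]],[[(-162627051),1277096,(-1526)],[5674984,(-28512)],[(-68779)]],[[399411,(-28614)],[(-72292)]],[[116855]]],[[[153164213,(-991231),1426],[(-4760409),22503],[54001]],[[(-13247259),84848],[411395]],[[110341]]],[[[6208680,(-36695)],[(-175079)]],[[(-546326)]]],[[[119936]]]],[[[[9045139526,(-84112412),(-761987),8598,(-36)],[(-383203727),(-270416),54588,(-403),1],[3953062,84052,(-1451),7],[20761,(-1983),18],[(-880),21],[9]],[[330832491,5135996,(-23823),7],[5103725,(-142916),35,2],[(-221352),336,10],[1575,17]],[[162262568,(-609742),(-360),14],[(-5138044),17127,79],[80576,(-92)],[(-683)]],[[(-4874727),(-14172),8],[59927,245],[42]],[[147510],[(-1959)]]],[[[11162478542,(-129473253)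,(-10201),2275,(-10)],[(-494893642),2792756,9500,(-99)],[7118886,(-11788),(-305)],[(-42655),(-296)],[(-42)]],[[1083501429,(-1717899),(-3370),8],[(-22693128),38631,(-11)],[189383,(-218)],[(-137)]],[[48638641,173876,53],[(-597524),1341],[14641]],[[(-5331177),(-11383)],[47330]],[[118734]]],[[[4643462380,(-48454466),48503,201],[(-191370563),1144025,(-45)],[2700170,(-8326)],[(-15097)]],[[483806202,(-1507991),(-162)],[(-11716654),23633],[92340]],[[(-104159),140173],[302409]],[[(-1621310)]]],[[[795798187,(-6501604),6687],[(-28333822),134750],[328195]],[[70801379,(-252111)],[(-1680134)]],[[(-1159964)]]],[[[61991839,(-379770)],[(-1811475)]],[[5066580]]],[[[2268534]]]],[[[[(-1179067588),9397923,(-400731),3029,(-10)],[17829640,(-1246011),20305,(-107)],[(-835402),39338,(-393)],[22501,(-590)],[(-309)]],[[391579218,(-11213135),61253,(-97)],[(-27208749),441176,(-1598)],[629237,(-6230)],[(-6459)]],[[(-7928342),234265,45],[875880,(-5636)],[(-19001)]],[[1552876,4767],[(-7133)]],[[(-72482)]]],[[[(-525425033),(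-17177474),(-50271),624],[(-33216694),229747,3629],[648239,4319],[(-303)]],[[160950562,(-5781287),19789],[(-14349814),159887],[243063]],[[22028145,55363],[(-67776)]],[[1208198]]],[[[(-70137080),(-7055596),1417],[(-14800086),120561],[235178]],[[51134922,(-1311621)],[(-3574480)]],[[9225825]]],[[[26972236,(-731137)],[(-2009408)]],[[8832272]]],[[[2731762]]]],[[[[(-343362348),(-882850),1126],[4212102,21488,(-9)],[(-5472),(-114)],[(-83)]],[[(-97270256),(-301943),211],[1151957,4533],[413]],[[(-7047863),(-21491)],[31263]],[[202419]]],[[[(-372642082),(-975034),808],[4336077,15318],[(-3336)]],[[(-103150098),(-220655)],[815372]],[[(-5188248)]]],[[[(-114756690),(-272047)],[1099953]],[[(-27844815)]]],[[[(-6868700)]]]],[[[[(-23435346)],[447289],[(-1980)]],[[(-11074558)],[127490]],[[(-1235689)]]],[[[(-24572571)],[305350]],[[(-7727883)]]],[[[(-6171408)]]]]]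

/-- A surrogate. -/
def root_s2 : List (List (List (List (List ℤ)))) :=
  [[[[[10590561560,(-66664420),107561,11],[(-273694595),1253806,(-1213)],[2687280,(-7824),3],[(-11497),11],[10]],[[(-1304841710),7987072,(-12362),(-1)],[33673756,(-150552),144],[(-336251),996],[1571,(-2)],[(-3)]],[[46582042,(-281783),426],[(-1203242),5301,(-6)],[12071,(-44)],[(-71)]],[[(-512847),2985,(-8)],[12837,(-95)],[(-219),1],[1]]],[[[925547654,(-6010033),10115,2],[(-23957603),112655,(-110)],[230410,(-654)],[(-874)],[(-1)]],[[(-87411590),541259,(-852)],[2257293,(-10191),10],[(-22380),68],[104]],[[1655579,(-9978),20],[(-42359),247],[558,(-2)],[(-3)]]],[[[22335751,(-155755),286],[(-580388),2897,(-3)],[5298,(-13)],[(-12)]],[[(-1386490),8734,(-16)],[35805,(-181)],[(-386),1],[2]]],[[[89817,(-878),2],[(-2386),16],[15]]]],[[[[576500497,(-2610377),1879,(-3)],[(-14687836),50977,(-42)],[170399,(-566),1],[(-1314),5],[7]],[[885618997,(-5454294),8510,1],[(-22858731),102597,(-94)],[227051,(-639)],[(-992),1],[2]],[[(-62919311),3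80365,(-581)],[1622820,(-7213),7],[(-16396),52],[84]],[[1024825,(-7081),12],[(-30460),149],[344]]],[[[(-69421896),569176,(-1226),(-1)],[1820258,(-10514),12],[(-14586),39],[(-4)],[1]],[[72512965,(-450347),693],[(-1871300),8228,(-8)],[17950,(-54)],[(-82)]],[[(-2481935),15813,(-26)],[67139,(-323)],[(-729)]]],[[[(-4928616),38544,(-79)],[128938,(-709),1],[(-1068),2]],[[1386497,(-8738),15],[(-35824),171],[367]]],[[[(-44909),439,(-1)],[1193,(-8)],[(-8)]]]],[[[[(-1992632321),12272423,(-19201),(-1)],[51433253,(-231511),223],[(-512366),1515,(-1)],[2355,(-3)],[(-4)]],[[61732917,(-345905),410],[(-1578828),5889,(-6)],[14955,(-49)],[(-91)]],[[24487402,(-144257),225],[(-613816),2784],[6309]],[[(-796897),5181],[22299]]],[[[(-163151751),1014223,(-1599)],[4214361,(-19006),17],[(-41503),116],[177]],[[(-6953552),44621,(-72)],[179224,(-806)],[(-1667)]],[[1241243,(-7889)],[(-33515)]]],[[[(-3119638),19673,(-31)],[80652,(-359)],[(-768)]],[[(-346656),2203],[9033]]]],[[[[(-424682919),2567788,(-3894)],[10955481,(-48410),43],[(-110106),304],[493]],[[(-73517032),443729,(-643)],[1888680,(-7964)],[(-18056)]],[[(-598353),3349],[13304]],[[270193]]],[[[(-16761360),102395,(-147)],[434780,(-1814)],[(-4097)]],[[(-3726657),22027],[93573]],[[(-209219)]]]],[[[[(-23476012),142801,(-194)],[614347,(-2454)],[(-5656)]],[[(-7845125),44208],[190286]],[[(-848666)]]]]]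

/-- A surrogate. -/
def root_s3 : List (List (List (List (List ℤ)))) :=
  [[[[[857034192,(-123445991),704961,(-2526),11],[(-160171189),4451110,(-21804),100],[4164420,(-64876),342,(-2)],[(-46350),567,(-4)],[293,(-4)],[(-1)]],[[1344778364,(-14821713),99486,(-434),1],[(-41689472),566914,(-4005),15],[706393,(-11427),71],[(-9539),142],[98,(-1)]],[[167389287,(-115116),257,(-8)],[(-4753044),5448,(-81)],[62332,(-304),1],[(-690),3],[4]],[[(-6104797),32046,(-187),1],[114267,(-1042),8],[(-1278),23],[17]],[[(-1043622),3978,5],[41510,(-69)],[(-481)]]],[[[244818454,(-97800237),578948,(-2094),9],[(-110614166),3543684,(-18102),81],[3024165,(-52322),279,(-1)],[(-34028),448,(-2)],[204,(-2)],[(-1)]],[[736035325,(-10867728),85082,(-367),1],[(-23262092),444545,(-3387),9],[443539,(-9340),44],[(-7038),84],[56]],[[128211341,(-103209),1163,(-5)],[(-3513048),9333,(-51)],[48994,(-177)],[(-415)]],[[(-2699960),16080,(-121)],[46467,(-525)],[(-263)]],[[(-910798),2779],[28339]]],[[[(-369746240),(-20858082),139551,(-515),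2],[(-10830197),783152,(-4400),16],[475475,(-11814),56],[(-5824),83],[26]],[[(-2648284),(-1984773),22207,(-77)],[(-46789),96490,(-668)],[37253,(-1601)],[(-880)]],[[27070257,(-41162),205],[(-667235),1077],[7973]],[[263697,370],[(-18859)]],[[(-217806)]]],[[[(-178959584),(-1417365),14154,(-51)],[3239631,63982,(-402)],[(-7351),(-931)],[(-197)]],[[(-22631020),(-126224),2062],[751950,6310],[(-5501)]],[[2594644,(-3505)],[(-61308)]],[[127664]]],[[[(-22216222),5390,549],[564255,1382],[(-4303)]],[[(-2922663),1202],[82642]],[[156451]]],[[[(-1127936),3632],[27555]],[[(-123370)]]],[[[(-21284)]]]],[[[[3533261893,(-126703198),601803,(-1610),7],[(-204715764),3797911,(-14032),52],[3840253,(-44247),158,(-1)],[(-33737),270,(-1)],[149,(-1)]],[[287524117,(-20479173),103872,(-227),1],[(-31626644),761268,(-2983),5],[819457,(-11609),26],[(-10022),65],[47]],[[78287027,(-473482),2267,(-5)],[(-2121348),23975,(-84)],[35916,(-362)],[(-343)]],[[16931950,4955,(-231)],[(-398069),(-1037)],[2169]],[[819217,(-2060)],[(-23703)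]]],[[[1618454395,(-85776212),412661,(-1078),4],[(-116406094),2573379,(-9336),29],[2294220,(-29025),85],[(-19489),136],[64]],[[43011304,(-14940990),78574,(-133)],[(-18058227),560648,(-1733)],[540009,(-6683)],[(-5576)]],[[42395193,(-425650),1500],[(-1182120),14416],[18845]],[[12248799,4627],[(-237123)]],[[559078]]],[[[(-273209917),(-12144657),62155,(-135)],[(-2491669),365724,(-1094)],[144852,(-3147)],[(-896)]],[[(-98260539),(-2650152),13081],[(-280495),88413],[59592]],[[(-582920),(-85154)],[(-38824)]],[[2162357]]],[[[(-121942842),(-428951),2981],[2824302,13131],[(-22593)]],[[(-28743346),(-145362)],[443219]],[[(-1109296)]]],[[[(-12069954),17327],[277205]],[[(-2452181)]]],[[[(-451327)]]]],[[[[1727713184,(-39654431),150942,(-110)],[(-77499294),1071547,(-2388),1],[1241999,(-10192),7],[(-9064),24],[18]],[[72802771,(-9904221),45873,(-26)],[(-12504966),318956,(-622)],[309479,(-2684)],[(-2326)]],[[(-49821980),(-730533),3243],[350799,22034],[13751]],[[(-4314200),(-9106)],[76104]],[[6854]]],[[[89490685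8,(-25300066),97013,(-51)],[(-43814519),681548,(-1189)],[723208,(-5133)],[(-4391)]],[[(-33451626),(-6443700),25096],[(-6186637),174170],[162678]],[[(-44039846),(-418185)],[265627]],[[(-2789981)]]],[[[(-19290457),(-2913833),10200],[(-1843252),68693],[45842]],[[(-50692452),(-744801)],[79816]],[[(-10085901)]]],[[[(-20262307),(-79733)],[335126]],[[(-7801716)]]],[[[(-1339257)]]]],[[[[184199630,(-3967825),19087,(-19)],[(-8163780),118944,(-283)],[138663,(-986)],[(-869)]],[[14126939,(-1162086),4848],[(-1470721),27881],[26335]],[[(-9025991),(-74356)],[60806]],[[(-1111159)]]],[[[91934224,(-2355000),9837],[(-4390444),60929],[69893]],[[(-998536),(-606364)],[(-724997)]],[[(-5230674)]]],[[[(-2206911),(-172615)],[(-151770)]],[[(-3910680)]]],[[[(-931805)]]]]]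

/-- A surrogate. -/
def root_s4 : List (List (List (List (List ℤ)))) :=
  [[[[[(-1206503176),(-38934677),285274,(-510)],[(-23312544),1727599,(-8146),10],[1469462,(-28214),87],[(-22111),222],[155,(-1)],[(-1)]],[[812780484,(-3761534),530,11],[(-22817387),69237,49],[248650,(-345)],[(-1198),1],[3]],[[22026855,282441,(-2407),4],[(-108988),(-14005),62],[(-10181),221,(-1)],[182,(-2)],[(-1)]],[[(-7529136),18439,85],[190769,(-67),(-3)],[(-1777),(-6)],[5]],[[169838,(-788),(-1)],[(-5969),10],[63]]],[[[(-1033172614),(-4046270),59847,(-137)],[17824353,277085,(-1812),3],[42470,(-5357),21],[(-3111),48],[30]],[[163964962,(-945630),1243],[(-4814624),20318,(-29)],[55174,(-190)],[(-311)]],[[12973015,7668,(-382),1],[(-270014),(-1571),11],[618,34],[19]],[[(-1690949),6448,9],[46135,(-86)],[(-477)]],[[36400,(-175)],[(-1082)]]],[[[(-195173175),249995,4818,(-15)],[4649027,10791,(-161)],[(-34013),(-358),2],[(-30),3],[2]],[[9703217,(-63396),141],[(-284348),1370,(-2)],[2766,(-10)],[(-15)]],[[2281096,(-6726),(-17)],[(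-53378),53],[483]],[[(-150918),742],[4416]],[[2090]]],[[[(-15148654),51085,166,(-1)],[401660,(-457),(-6)],[(-3981),(-7)],[13]],[[38775,(-129),2],[1819,6],[(-15)]],[[154690,(-756)],[(-4387)]],[[(-6323)]]],[[[(-519019),2308,2],[14477,(-35)],[(-148)]],[[(-13870),75],[405]],[[5239]]],[[[(-6429),31],[179]],[[(-273)]]]],[[[[942277371,(-51064716),292669,(-468)],[(-79605344),1801720,(-7172),8],[1867496,(-24757),66],[(-20438),169],[119]],[[(-138137618),(-3188521),24223,(-43)],[(-971255),142922,(-693),1],[112015,(-2391),6],[(-1840),16],[12]],[[45549112,16277,(-1152),2],[(-1056250),(-2594),28],[8982,60],[(-15)]],[[5515348,(-17350),(-39)],[(-138878),140],[1276]],[[(-266789),936],[7245]]],[[[(-483155692),(-5074598),47860,(-98)],[5217524,233842,(-1274),2],[99919,(-3770),12],[(-2267),26],[16]],[[(-105577781),(-176205),4286,(-8)],[2152925,17802,(-112)],[(-6551),(-332)],[(-164)]],[[10436943,(-35084),(-62)],[(-274112),497],[2855]],[[1234165,(-4605)],[(-32615)]],[[(-45630)]]],[[[(-109222561),130274,2633,(-7)],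[2635639,5379,(-75)],[(-20620),(-164)],[1]],[[(-19563158),56737,210],[509853,(-196)],[(-4193)]],[[523021,(-2942)],[(-15927)]],[[118018]]],[[[(-7753186),30614,46],[210953,(-353)],[(-1949)]],[[(-1449831),6147],[37662]],[[(-11095)]]],[[[(-225351),1037],[5898]],[[(-44083)]]],[[[(-2166)]]]],[[[[590501392,(-16062558),81871,(-121)],[(-30895959),514270,(-1845),2],[589479,(-6466),14],[(-5640),36],[27]],[[(-48509288),(-2591610),17100,(-24)],[(-1702064),95032,(-367)],[72991,(-1213)],[(-902)]],[[(-22030419),(-23030),693],[473579,2670],[(-1918)]],[[97762,3814],[2201]],[[124281]]],[[[(-64004224),(-1352759),10430,(-17)],[42552,52623,(-230)],[30030,(-699)],[(-463)]],[[(-48428021),(-117534),1957],[986994,7884],[(-2457)]],[[(-6436226),10429],[143138]],[[(-16237)]]],[[[(-16835351),22497,349],[418143,682],[(-2841)]],[[(-6440980),16095],[149073]],[[(-650763)]]],[[[(-877021),3401],[21602]],[[(-274582)]]],[[[(-12139)]]]],[[[[54574683,(-1247692),6136,(-8)],[(-2568557),38834,(-116)],[46124,(-416)],[(-381)]],[[2641732,(-358987),1898],[(-433716),11151],[10868]],[[(-3136427),(-28508)],[25528]],[[(-438118)]]],[[[(-4104982),(-68127),497],[31832,2489],[1416]],[[(-4008981),(-11808)],[62719]],[[(-883671)]]],[[[(-812853),2110],[18334]],[[(-353758)]]],[[[(-17112)]]]]]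

/-- A surrogate. -/
def root_s5 : List (List (List (List (List ℤ)))) :=
  [[[[[18078580720,(-309704584),1148410,(-416),(-6)],[(-670272117),7108901,(-8316),(-79)],[8021359,(-25700),(-382),3],[(-11309),(-794),9],[(-622),13],[7]],[[(-4731031209),18518339,(-68783),314,(-1)],[114024211,(-507030),3331,(-17)],[(-991509),8377,(-80)],[3626,(-120),1],[(-17),1]],[[(-539758924),4765234,(-15993),19],[17177049,(-124033),305],[(-217710),1190,(-1)],[1319,(-4)],[(-2)]],[[48843870,(-158452),395,(-1)],[(-1062497),2191,(-5)],[5960,10],[49]],[[1465323,(-3261),(-9)],[(-45074),52],[433]],[[(-142302)],[2469]]],[[[13713612159,(-244229867),905487,(-964),(-1)],[(-536603599),5941954,(-11290),(-22)],[7138477,(-36906),(-128),1],[(-28127),(-287),3],[(-243),5],[3]],[[(-3958600598),7587622,(-11905),94],[91575185,(-124069),797,(-5)],[(-689247),1070,(-21)],[208,(-20)],[18]],[[(-492880604),3369436,(-8394),9],[14795793,(-77324),127],[(-171270),512],[637]],[[43559179,(-100718),192],[(-969219),1298],[5397]],[[1949531,(-3834)],[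(-41878)]],[[(-116095)]]],[[[2751215138,(-56011503),171941,(-88)],[(-122809946),1431527,(-1967),(-6)],[1909653,(-11096),(-26)],[(-12258),(-25)],[(-3)]],[[(-1088913697),35655,1538,19],[25788875,13867,67],[(-216500),(-146)],[377]],[[(-153317191),780577,(-1149)],[4471464,(-15930)],[(-45136)]],[[11345045,(-4963)],[(-228899)]],[[776569]]],[[[207779351,(-6519830),18106,4],[(-11958597),176506,(-190)],[219609,(-1453)],[(-1656)]],[[(-167742006),8384,355],[4183704,1295],[(-34571)]],[[(-18840093),85671],[508581]],[[1498079]]],[[[(-1063905),(-366649),1031],[(-342867),9909],[9929]],[[(-12867240),8085],[299874]],[[(-962537)]]],[[[(-613224),(-8555)],[3515]],[[(-410733)]]],[[[(-11412)]]]],[[[[8108159792,(-129842767),342762,1066,(-8)],[(-288486473),2421923,6983,(-103)],[2928388,13093,(-442),2],[10848,(-777),6],[(-495),8],[4]],[[(-1004351850),(-11345791),18505,221,(-1)],[10587496,212278,1224,(-12)],[36243,1077,(-45)],[(-31),(-66)],[(-29)]],[[(-464678836),639280,(-126),3],[10151137,145,9],[(-61506),(-135)],[(-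277)]],[[(-31323266),111014,(-103)],[855990,(-1061)],[(-4018)]],[[1053841,1201],[(-13216)]],[[90679]]],[[[5946885209,(-105492753),393575,(-517),(-1)],[(-233294505),2565184,(-4576),(-12)],[3102039,(-14662),(-72)],[(-11649),(-159)],[(-126)]],[[(-738529227),(-13847837),37631,11],[2333069,340154,(-177)],[204391,(-1655)],[(-1740)]],[[(-444765425),82774,832],[9699779,4951],[(-45025)]],[[(-37753407),88555],[725294]],[[618157]]],[[[1105022822,(-22558568),66215,(-65)],[(-50065459),587488,(-782)],[797756,(-3920)],[(-4409)]],[[(-250344605),(-4278296),6767],[1606836,87817],[55429]],[[(-137471634),(-129352)],[2370884]],[[(-11286768)]]],[[[85006735,(-2709861),6264],[(-4881381),65014],[86963]],[[(-56656457),(-469531)],[532117]],[[(-17377304)]]],[[[(-1390510),(-141505)],[(-157689)]],[[(-4753930)]]],[[[(-230553)]]]],[[[[347339872,(-601878),(-89980),783,(-3)],[(-4741841),(-293276),5428,(-31)],[(-244972),11555,(-115)],[7999,(-181)],[(-102)]],[[140552442,(-4383955),10977,48],[(-8101320),113428,123],[148947,(-41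6)],[(-776)]],[[(-41187548),(-539537),2077],[315997,14463],[10320]],[[(-12337388),(-1949)],[193805]],[[(-684954)]]],[[[350125729,(-5568309),12315,23],[(-13220083),117458,190],[159715,296],[207]],[[55888822,(-2586751),5989],[(-3929941),52851],[62357]],[[(-33977542),(-279163)],[213923]],[[(-7297573)]]],[[[42624225,(-823983),591],[(-2093570),16852],[29717]],[[5255438,(-415356)],[(-638227)]],[[(-6161399)]]],[[[4612107,(-102475)],[(-239488)]],[[(-339681)]]],[[[(-33230)]]]],[[[[(-11392617),205283,(-1001),1],[441613,(-5852),12],[(-6932),37],[32]],[[84099,49471,(-200)],[47033,(-1002)],[(-830)]],[[920338,349],[(-12220)]],[[92663]]],[[[(-11017756),209548,(-702)],[436758,(-4126)],[(-4936)]],[[381181,36401],[38275]],[[644465]]],[[[(-2502457),53157],[108691]],[[153497]]],[[[51184]]]]]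

/-- A surrogate. -/
def root_s6 : List (List (List (List (List ℤ)))) :=
  [[[[[(-233640961),(-62619919),397874,(-631)],[(-14483425),639580,(-722),(-4)],[(-525919),8745,(-42)],[13441,(-112)],[(-84)]],[[(-2283298054),19181763,(-54912),59],[34638737,(-168994),177],[(-4455),(-924),3],[(-2276),11],[11]],[[183207734,(-1167113),2060,(-1)],[(-2849068),11031,(-9)],[7129,10],[85],[(-1)]]],[[[(-3094209019),10732364,22178,(-81)],[55037543,(-115994),(-86)],[(-390469),1252,(-4)],[2081,(-12)],[(-10)]],[[(-378610957),3220027,(-10432),17],[7117624,(-43593),103],[(-38408),141],[11]],[[54383343,(-367177),740],[(-1065765),5074,(-6)],[6981,(-19)],[(-12)]]],[[[(-301357547),1492551,(-795),(-3)],[5766217,(-17792),2],[(-40947),90],[166],[(-1)]],[[(-19495777),166881,(-608),1],[432532,(-2976),9],[(-3839),22],[20]],[[4055983,(-27847),58],[(-87332),436],[687]]],[[[(-7019264),36933,(-42)],[144274,(-510)],[(-1183),3],[6]],[[(-285185),2429,(-11)],[7354,(-59)],[(-95)]],[[89932,(-639)],[(-2133)]]],[[[16807,(-125)],[(-321),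1]],[[1795,(-12)],[(-35)]]]],[[[[(-479399967),(-16178162),117811,(-225)],[8141810,130949,(-319)],[(-278447),2659,(-9)],[4226,(-29)],[(-24)]],[[(-901170459),3595213,3602,(-22)],[14090312,(-36370),6],[(-64601),250,(-1)],[87,(-2)]],[[(-94211394),599236,(-1065)],[1465208,(-5734),3],[(-3858),(-9)],[(-45)]]],[[[(-1263114211),5738252,4352,(-48)],[25753053,(-79994),(-78)],[(-199002),463],[753,(-1)],[(-1)]],[[(-397588172),2364900,(-2928),(-4)],[7851905,(-32158),17],[(-53999),126],[127]],[[(-28582413),192093,(-360)],[555031,(-2436)],[(-3301)]]],[[[(-131911621),750994,(-561),(-3)],[2751602,(-10112),(-4)],[(-20373),30],[51]],[[(-33300835),210610,(-296)],[703314,(-2862)],[(-4985)]],[[(-2072134),13880],[43312]]],[[[(-3351222),20222,(-20)],[72597,(-260)],[(-518)]],[[(-777502),4824],[16685]],[[(-45414)]]]],[[[[105611550,(-632874),950],[(-1640080),5483,(-2)],[6636,(-2)],[4]],[[23469198,(-140674),210],[(-364553),1215],[1471],[1]],[[1303801,(-7867),9],[(-20387),54],[65]]],[[[56326101,(-337583),507],[(-874839),2930,(-1)],[3545,(-1)],[2]],[[12517013,(-74960),106],[(-194254),611],[738]],[[695518,(-4076)],[(-10560)]]],[[[1760139,(-10602),15],[(-27475),86],[104]],[[391252,(-2272)],[(-5885)]],[[21873]]]]]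

/-- A surrogate. -/
def root_s7 : List (List (List (List (List ℤ)))) :=
  [[[[[2825967,(-93373),712],[(-128857),2292,(-4)],[1537,(-4)],[3]],[[(-382358),1463,140],[6734,253,(-1)],[115,(-2)],[(-1)]],[[(-165088),3265,5],[5431,(-24)],[(-27)]],[[(-7019),159],[250,(-2)],[(-2)]],[[303,(-7)],[(-11)]]],[[[1377839,(-48457),409],[(-65635),1265,(-2)],[834,(-3)],[1]],[[(-292104),2333,81],[6309,132],[53,(-1)],[(-1)]],[[(-102136),2022,3],[3361,(-15)],[(-16)]],[[(-4318),97],[153,(-1)],[(-1)]],[[171,(-4)],[(-6)]]],[[[(-23816),(-800),28],[(-434),61],[33]],[[(-54261),871,6],[1591,2],[(-3)]],[[(-10409),206],[342,(-1)],[(-2)]],[[(-434),9],[15]],[[10]]],[[[(-3122),43],[85]],[[(-1899),35],[60]],[[(-307),6],[10]],[[(-15)]]]],[[[[333400,(-11016),84],[(-15203),270],[181]],[[676,(-1340),28],[(-1293),67],[38]],[[(-24470),370,3],[697,2],[(-1)]],[[(-3636),71],[119]],[[(-154),3],[4]]],[[[148819,(-5263),45],[(-7117),138],[91]],[[(-12527),(-441),15],[(-246),33],[18]],[[(-15202),241,2],[442,1]],[[(-2095),37],[62]],[[(-83)]]],[[[(-8940),123,1],[243,1]],[[(-6434),115],[201],[(-1)]],[[(-1485),26],[44]],[[(-136)]]]]]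

/-- A surrogate. -/
def root_s8 : List (List (List (List (List ℤ)))) :=
  [[[[[228201902,(-4817419)],[(-6882797),28572],[17835,316],[526,(-3)],[(-4)]],[[(-11965643),252599],[360896,(-1498)],[(-935),(-17)],[(-28)]],[[156853,(-3311)],[(-4731),20],[12]]],[[[18803153,(-396941)],[(-567122),2354],[1470,26],[43]],[[(-492967),10407],[14868,(-62)],[(-39),(-1)],[(-1)]]],[[[387331,(-8177)],[(-11682),48],[30,1],[1]]]],[[[[53845393,(-1136694)],[(-1624031),6742],[4208,75],[124,(-1)],[(-1)]],[[4571144,(-96498)],[(-137870),572],[357,6],[11]],[[(-156853),3311],[4731,(-20)],[(-12)]]],[[[2218350,(-46830)],[(-66908),278],[173,3],[5]],[[246483,(-5203)],[(-7434),31],[19],[1]]]],[[[[3176273,(-67052)],[(-95800),398],[248,4],[7]],[[705838,(-14900)],[(-21289),88],[55,1],[2]],[[39213,(-828)],[(-1183),5],[3]]]]]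

/-- A surrogate. -/
def root_s9 : List (List (List (List (List ℤ)))) :=
  [[[[[121186005,(-2558277)],[(-2683660),(-5334)],[(-13988),166],[210]],[[13465112,(-284253)],[(-298184),(-593)],[(-1554),18],[23]]]]]

/-- A surrogate. -/
def root_s10 : List (List (List (List (List ℤ)))) :=
  [[[[[3453960,(-114122),870],[(-157492),2801,(-5)],[1878,(-5)],[4]],[[(-851100),14469,74],[25730,(-2)],[(-68),(-1)],[(-2)]],[[(-107207),2383,(-3)],[3778,(-29)],[(-25)]],[[3333,(-70)],[(-114),1],[1]]],[[[1684026,(-59226),500],[(-80221),1546,(-3)],[1019,(-3)],[2]],[[(-544130),9432,43],[16624,(-11)],[(-49),(-1)],[(-1)]],[[(-64374),1423,(-1)],[2261,(-17)],[(-15)]],[[1875,(-40)],[(-64)]]],[[[(-29109),(-978),34],[(-531),74],[40]],[[(-63085),1173,3],[2003,(-5)],[(-8)]],[[(-5713),123],[197,(-1)],[(-1)]],[[104,(-2)],[(-4)]]],[[[(-3816),52,1],[103,1]],[[(-1897),37],[62]],[[(-164),3],[6]]]],[[[[407490,(-13464),103],[(-18581),330,(-1)],[222,(-1)]],[[(-44451),(-142),23],[484,45],[22]],[[(-24970),467,1],[796,(-2)],[(-3)]],[[(-1666),36],[58]]],[[[181889,(-6432),55],[(-8699),169],[111]],[[(-35520),174,12],[662,22],[10]],[[(-14631),276,1],[468,(-1)],[(-2)]],[[(-938),19],[31]]],[[[(-10928),150,2],[296,2]],[[(-6647),123],[211],[(-1)]],[[(-1073),21],[34]],[[(-53)]]]]]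

/-- A root. -/
def root : Root where
  cl := true
  box := fun i => match i with
    | 0 => ⟨1, 3, 25, 16⟩
    | 1 => ⟨7, 22, 10, 25⟩
    | 2 => ⟨7, 14287, 50, 100000⟩
    | _ => ⟨119, 3, 400, 10⟩
  De := 400
  e0 := 103
  e1 := 281
  p := fun i => match i with
    | 0 => 14
    | 1 => 11
    | 2 => 697
    | 3 => 800
    | _ => 4
  q := fun i => match i with
    | 0 => 2
    | 1 => 9
    | 2 => 99
    | 3 => 239
    | _ => 2
  den := 17179869184
  sur := fun k => match k with
    | 0 => root_s0
    | 1 => root_s1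
    | 2 => root_s2
    | 3 => root_s3
    | 4 => root_s4
    | 5 => root_s5
    | 6 => root_s6
    | 7 => root_s7
    | 8 => root_s8
    | 9 => root_s9
    | 10 => root_s10
    | _ => []
  eps := fun k => match k with
    | 0 => 1981384
    | 1 => 2965496
    | 2 => 58881
    | 3 => 1719932
    | 4 => 133912
    | 5 => 1412599
    | 6 => 2155
    | 7 => 27
    | 8 => 18
    | 9 => 8
    | 10 => 21
    | _ => 0

/-- A leaf. -/
def leaf0 : Leaf :=
  ⟨⟨7, 79, 10, 100⟩, ⟨7, 14287, 50, 100000⟩, ⟨119, 3, 400, 10⟩,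
    16384, (6784, -17690, -12254, 1701), (6969, -24874, -7446, 4365), 16384, (-11780, 67264, 74307, -12726), (1582, 4992, -8406, -3558), (-12093, 67588, 77228, -12522), (-862, 3361, -1056, -329),
    false, 0, 64, 2362, (-201), 726, 4096, (-57), 839⟩

/-- A tile. -/
def tile0 : Tile :=
  ⟨⟨7, 79, 10, 100⟩, ⟨7, 14287, 50, 100000⟩, ⟨119, 3, 400, 10⟩, 16384, (6784, -17690, -12254, 1701), (6969, -24874, -7446, 4365), 6923,
    (1024, 0), (2, 1024), 0, 3, (leaf0, ⟨(1024, 0), (1024, 286)⟩),
    []⟩

/-- A leaf. -/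
def leaf1 : Leaf :=
  ⟨⟨79, 167, 100, 200⟩, ⟨7, 14287, 50, 100000⟩, ⟨119, 3, 400, 10⟩,
    16384, (7148, -20098, -14194, 2505), (6050, -28514, -7475, 6909), 16384, (-8638, 67188, 75655, -16922), (4422, 4724, -12790, -6261), (-9142, 67150, 78520, -16271), (-1131, 4929, -105, -769),
    false, 676, 64, 2108, (-200), 884, 4096, (-754), 990⟩

/-- A tile. -/
def tile1 : Tile :=
  ⟨⟨79, 167, 100, 200⟩, ⟨7, 14287, 50, 100000⟩, ⟨119, 3, 400, 10⟩, 16384, (7148, -20098, -14194, 2505), (6050, -28514, -7475, 6909), 6923,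
    (1024, 0), (2, 1024), 0, 3, (leaf1, ⟨(1024, 0), (1024, 360)⟩),
    []⟩

/-- A leaf. -/
def leaf2 : Leaf :=
  ⟨⟨167, 22, 200, 25⟩, ⟨7, 14287, 50, 100000⟩, ⟨119, 3, 400, 10⟩,
    16384, (7190, -22395, -15995, 3574), (5742, -27210, -11427, 6870), 16384, (-4443, 65594, 75407, -21326), (4290, 1836, -9316, -4942), (-4558, 65714, 76801, -21198), (-3246, 4258, 6215, 1537),
    false, 1218, 64, 1567, (-195), 755, 4096, (-1373), 871⟩

/-- A leaf. -/
def leaf3 : Leaf :=
  ⟨⟨167, 22, 200, 25⟩, ⟨7, 14287, 50, 100000⟩, ⟨119, 3, 400, 10⟩,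
    16384, (5742, -27210, -11427, 6870), (4294, -32025, -6859, 10166), 16384, (-157, 67429, 66093, -26268), (4286, 1851, -9331, -4941), (-7708, 70082, 81154, -19764), (2466, 2871, -5501, -3643),
    false, 3557, 64, 1348, (-147), 2011, 4096, (-3956), 1675⟩

/-- A tile. -/
def tile2 : Tile :=
  ⟨⟨167, 22, 200, 25⟩, ⟨7, 14287, 50, 100000⟩, ⟨119, 3, 400, 10⟩, 16384, (7190, -22395, -15995, 3574), (4294, -32025, -6859, 10166), 6923,
    (1024, 0), (3, 1024), 0, 3, (leaf2, ⟨(1024, 0), (224, 1024)⟩),
    [(leaf3, ⟨(1024, 0), (1024, 1)⟩)]⟩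

/-- The subdivision. -/
def tree : Tree :=
  (.node 0 79 100
    (.tile tile0)
    (.node 0 167 200
    (.tile tile1)
    (.tile tile2)))

def tree_ok : tree.ok pieceC 448 ⟨7, 22, 10, 25⟩ ⟨7, 14287, 50, 100000⟩ ⟨119, 3, 400, 10⟩ = true := by
  decide +kernel

def root_ok0 : root.okEnt 576 0 = true := by decide +kernel

def root_ok1 : root.okEnt 576 1 = true := by decide +kernel

def root_ok2 : root.okEnt 576 2 = true := by decide +kernel

def root_ok3 : root.okEnt 576 3 = true := by decide +kernel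

def root_ok4 : root.okEnt 576 4 = true := by decide +kernel

def root_ok5 : root.okEnt 576 5 = true := by decide +kernel

def root_ok6 : root.okEnt 576 6 = true := by decide +kernel

def root_ok7 : root.okEnt 576 7 = true := by decide +kernel

def root_ok8 : root.okEnt 576 8 = true := by decide +kernel

def root_ok9 : root.okEnt 576 9 = true := by decide +kernel

def root_ok10 : root.okEnt 576 10 = true := by decide +kernel

def leaf0_ok : leaf0.okLeaf root 640 = true := by decide +kernel

def leaf1_ok : leaf1.okLeaf root 640 = true := by decide +kernel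

def leaf2_ok : leaf2.okLeaf root 640 = true := by decide +kernel

def leaf3_ok : leaf3.okLeaf root 640 = true := by decide +kernel

theorem leaves_eq : tree.leaves =
    [leaf0, leaf1, leaf2, leaf3] := rfl

theorem leaves_ok : ∀ F ∈ tree.leaves, Leaf.okLeaf F root 640 = true := by
  rw [leaves_eq]
  exact all'_cons leaf0_ok (all'_cons leaf1_ok (all'_cons leaf2_ok (all'_cons leaf3_ok (
    (fun F hF => absurd hF List.not_mem_nil)))))

theorem root_ok : ∀ k ∈ [0, 1, 2, 3, 4, 5, 6, 7, 8, 9, 10], root.okEnt 576 k = true := by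
  intro k hk
  simp only [List.mem_cons, List.not_mem_nil, or_false] at hk
  rcases hk with rfl | rfl | rfl | rfl | rfl | rfl | rfl | rfl | rfl | rfl | rfl
  · exact root_ok0
  · exact root_ok1
  · exact root_ok2
  · exact root_ok3
  · exact root_ok4
  · exact root_ok5
  · exact root_ok6
  · exact root_ok7
  · exact root_ok8
  · exact root_ok9
  · exact root_ok10

theorem used_ok : ∀ F ∈ tree.leaves, ∀ k ∈ Leaf.used F, root.okEnt 576 k = true := by
  intro F hF k hk
  refine root_ok k ?_
  rw [leaves_eq] at hF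
  have h : ([leaf0, leaf1, leaf2, leaf3]).all (fun G => G.used.all fun j => [0, 1, 2, 3, 4, 5, 6, 7, 8, 9, 10].any (Nat.beq j)) = true := by
    decide +kernel
  simp only [List.all_eq_true, List.any_eq_true] at h
  obtain ⟨j, hj, e⟩ := h F hF k hk
  exact Nat.eq_of_beq_eq_true e ▸ hj

/-- **The signs on the box.** -/
theorem signs {a I u X η : ℝ} (hf : Facts pieceC a I u X η) (hu : In1 ⟨7, 22, 10, 25⟩ u)
    (hI : In1 ⟨7, 14287, 50, 100000⟩ I) (ha : In1 ⟨119, 3, 400, 10⟩ a) :
    ClosedGen.SignsMult a (rd (mk4 X u I a)) (rv (mk4 X u I a)) (rg (mk4 X u I a) η)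
      (rW (mk4 X u I a) η) (rW1 (mk4 X u I a) η) (rR (mk4 X u I a))
      (rNum true (mk4 X u I a) η) :=
  Tree.signs (T := tree) (R := root) tree_ok leaves_ok used_ok hf hu hI ha

end Vale.Agent.P100.Calib.MidTail.BoxIII1U0
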