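import Vale.Agent.P100.Calib.SlabMidTailPieces

/-!
# The signs on a box of the middle tail

`u, I, a` lie in the box of `root`; the surrogates and leaves are checked by the kernel.
-/

namespace Vale.Agent.P100.Calib.MidTail.BoxIII1U1

open Pack EndAll Band

/-- A surrogate. -/
def root_s0 : List (List (List (List (List ℤ)))) :=
  [[[[[12421297766,(-321753809),1430481,(-1892),(-6)],[(-553708277),8245587,(-17641),(-84),1],[7839303,(-53053),(-357),4],[(-28873),(-546),12],[(-383),14],[6]],[[(-1029211382),(-3907587),20158,(-25)],[10593347,179546,(-274),(-2)],[230343,(-2784),(-8)],[(-5450),14],[49]],[[(-64829587),532196,(-1855),5],[1815697,(-12815),53],[(-18190),132,(-1)],[39,(-1)]],[[1098025,9977,(-35)],[(-3217),(-367),1],[(-350),5],[7]],[[70780,(-210)],[(-1848),2],[10]],[[(-383),(-3)],[8]],[[(-21)]]],[[[8194036733,(-254047305),1075918,(-2159),(-1)],[(-405918854),6625076,(-18304),(-19)],[6199970,(-56024),(-70),1],[(-33680),(-40),4],[(-77),4],[2]],[[(-917450427),(-7703879),41330,(-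106)],[5648267,332097,(-1282),1],[335931,(-5878),10],[(-7075),40],[51]],[[(-61963038),337453,(-575),3],[1592491,(-4911),17],[(-10414),22],[(-40)]],[[1294737,7665,(-23)],[(-19479),(-188)],[52]],[[82349,(-245)],[(-1706)]],[[(-548)]]],[[[875742609,(-59100243),187440,(-431)],[(-72167697),1492900,(-3406),(-2)],[1275370,(-13699),(-5)],[(-8467),22],[3]],[[(-307675321),(-3348702),14825,(-24)],[2156799,126601,(-339)],[97064,(-1543)],[(-1622)]],[[(-21958965),77593,(-56)],[547218,(-1216)],[(-2714)]],[[447634,2034],[(-11818)]],[[27300]]],[[[(-118067036),(-7222580),15789,(-23)],[(-3090945),174648,(-202)],[90735,(-1210)],[(-417)]],[[(-63132578),(-468743),1638],[879208,13070],[5305]],[[(-3183730),11005],[47805]],[[116644]]],[[[(-34934556),(-412734),545],[595316,7351],[(-4315)]],[[(-6155652),(-19583)],[81099]],[[(-81737)]]],[[[(-2335742),(-5359)],[50436]],[[(-172157)]]],[[[(-33680)]]]],[[[[6136640715,(-135406170),252624,2133,(-15)],[(-265012863),2798185,10043,(-157)],[3527545,2214,(-519),3],[(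-8027),(-627),7],[(-256),8],[3]],[[(-244156339),(-10518088),39673,(-47)],[(-5632858),298620,(-670),(-2)],[231805,(-3179),(-7)],[(-2627),(-4)],[3]],[[(-61784840),(-85994),473,1],[1261937,4061,4],[(-7698),(-16)],[(-15)]],[[(-2039677),7170,(-8)],[55014,(-113)],[(-270)]],[[5552,144],[(-241)]],[[1027]]],[[[4308505671,(-119040646),366617,(-159),(-5)],[(-215561650),3103230,(-5248),(-34)],[3572081,(-29087),(-70)],[(-27172),14],[57]],[[(-263394850),(-11207782),45100,(-99)],[(-5688620),339029,(-997)],[254500,(-3494)],[(-2677)]],[[(-66220427),(-165191),710],[1380193,4148],[(-6154)]],[[(-2455741),6854],[45708]],[[8867]]],[[[605579890,(-30916232),85949,(-195)],[(-45054800),845992,(-2066)],[883680,(-8864)],[(-7482)]],[[(-152272631),(-3332420),9392],[445009,81242],[43704]],[[(-25231051),(-45572)],[454907]],[[(-723558)]]],[[[(-28443750),(-4207141),9655],[(-3129611),103967],[82354]],[[(-42361299),(-366544)],[580783]],[[(-3978609)]]],[[[(-16793472),(-245996)],[180923]],[[(-4575245)]]],[[[(-11571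60)]]]],[[[[272309273,(-1276756),(-114912),963,(-4)],[(-6040786),(-280460),6291,(-41)],[(-149693),11140,(-142)],[5993,(-194)],[(-91)]],[[38729638,(-1911739),2370,22],[(-3023308),51455,59],[62951,(-317)],[(-454)]],[[(-5047422),(-125526),293],[13237,3024],[1834]],[[(-635652),(-2079)],[10162]],[[(-17221)]]],[[[261109956,(-6027615),(-5329),51],[(-12604645),131940,263],[205907,(-847)],[(-1446)]],[[12115067,(-1514662),2409],[(-1768392),35091],[36313]],[[(-6038818),(-82206)],[43151]],[[(-489209)]]],[[[24024172,(-1319601),(-2467)],[(-1978217),28392],[39276]],[[(-4887819),(-356771)],[(-238761)]],[[(-2097139)]]],[[[(-60621),(-230841)],[(-214455)]],[[(-2273249)]]],[[[(-957437)]]]],[[[[(-7623495),185138,(-1016),1],[342592,(-5604),14],[(-5934),41],[33]],[[242901,15414,(-77)],[7318,(-355)],[(-223)]],[[99642,100],[(-1537)]],[[3759]]],[[[(-6866096),194029,(-821)],[332544,(-4486)],[(-4647)]],[[483476,12016],[3601]],[[85451]]],[[[(-1085396),53098],[78932]],[[238567]]],[[[230565]]]]]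

/-- A surrogate. -/
def root_s1 : List (List (List (List (List ℤ)))) :=
  [[[[[31453857284,(-228795531),(-36842),4666,(-23)],[(-1073162465),5087336,21214,(-264),1],[14002199,(-15645),(-875),7],[(-76650),(-920),18],[(-206),20],[9]],[[(-967460293),14444961,(-61119),134],[44628965,(-528900),2319,(-3)],[(-827449),9461,(-34)],[9509,(-100)],[(-78),1]],[[(-24565457),41654,47,(-2)],[641656,(-1596),(-10)],[(-9477),10],[92]],[[202404,468,(-1)],[(-2339),(-16)],[(-5)]],[[(-1063)],[32]]],[[[40947731671,(-289426446),225849,2529,(-14)],[(-1373445343),7052776,3375,(-136)],[18075137,(-61690),(-337),2],[(-118819),(-72),5],[238,5],[2]],[[(-1321245856),13870819,(-34466),61],[52626853,(-401007),1163,(-1)],[(-787403),5573,(-15)],[6636,(-44)],[(-35)]],[[(-11331015),(-62542),(-4),(-1)],[77800,847,(-3)],[(-372),1],[28]],[[227974,686,(-1)],[(-2498),(-16)],[(-8)]],[[(-1690)],[33]]],[[[18465244588,(-125205603),140781,564,(-3)],[(-603090409),3105740,(-1740),(-21)],[7816104,(-30437),(-30)],[(-51110),68],[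103]],[[(-632754501),5337087,(-8203),8],[23017362,(-132799),219],[(-307687),1339],[1888]],[[(-1223309),(-40625),(-2)],[(-83880),686],[1315]],[[77528,274],[(-793)]],[[(-657)]]],[[[3535960888,(-22996767),33063,42],[(-111330041),576559,(-523)],[1401783,(-4606)],[(-6957)]],[[(-127097768),878941,(-1029)],[4176677,(-19279)],[(-48785)]],[[283895,(-6873)],[(-22812)]],[[8087]]],[[[335238949,(-2136274),3170],[(-10177646),43917],[100063]],[[(-12246540),72936],[372881]],[[46861]]],[[[16508366,(-88150)],[(-398478)]],[[(-638341)]]],[[[332914]]]],[[[[14599428373,(-124776433),(-388184),5877,(-26)],[(-556507210),1617593,34894,(-288),1],[6765520,37859,(-1013),5],[(-15427),(-1289),12],[(-501),14],[6]],[[198923633,3085476,(-18328),39],[1775784,(-107554),456],[(-109785),1509,(-4)],[1438,(-12)],[(-11)]],[[9223635,(-45553),(-9),1],[(-345579),1453,7],[6135,(-11)],[(-64)]],[[(-150091),(-594)],[1355,12],[11]],[[1897],[(-31)]]],[[[18841915851,(-169180867),67246,2036,(-8)],[(-718509610),3844421,6769,(-83)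],[9855511,(-24717),(-242)],[(-61065),(-181)],[30]],[[404530432,773226,(-6779),24],[(-5904332),(-33265),237],[7401,741],[618]],[[(-450144),20023,22],[44862,261],[1056]],[[(-165356),(-565)],[873]],[[1894]]],[[[8416291166,(-69465115),72250,215],[(-305163902),1644702,(-412)],[4076139,(-11882)],[(-21313)]],[[183024588,(-67638),(-1428)],[(-3359259),(-7181)],[6605]],[[(-1893608),14765],[72817]],[[(-50788)]]],[[[1605965871,(-11359089),11016],[(-53399319),225406],[578338]],[[31057452,(-24615)],[(-483501)]],[[(-433576)]]],[[[149347771,(-817574)],[(-4164724)]],[[2456558]]],[[[6839360]]]],[[[[(-125418317),(-8270818),(-232733),2092,(-7)],[(-29734249),(-408976),12918,(-76)],[195501,20707,(-264)],[7462,(-361)],[(-166)]],[[125607292,(-2416352),13112,(-24)],[(-6511551),94073,(-357)],[138374,(-1326)],[(-1314)]],[[1097916,17873,(-5)],[29234,(-448)],[(-1169)]],[[12260,151],[375]],[[(-763)]]],[[[312115078,(-24723838),(-18971),506],[(-63087686),483613,2404],[1126616,96],[(-4813)]],[[105267608,(-154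5370),5102],[(-5025004),40950],[68838]],[[3041733,8768],[(-15617)]],[[2007]]],[[[246964816,(-9970144),6678],[(-26922212),192664],[403554]],[[40246973,(-391329)],[(-1551013)]],[[1157093]]],[[[76436102,(-1274285)],[(-4190745)]],[[6353837]]],[[[7489459]]]],[[[[(-331223474),(-1008142),1307],[3668448,25762,(-12)],[4160,(-160)],[(-155)]],[[(-20943179),(-90560),69],[179900,1535],[1284]],[[(-143223),(-1758)],[(-4075)]],[[10717]]],[[[(-367517961),(-1184390),1085],[3822627,21421],[6691]],[[(-22579565),(-75187)],[103426]],[[(-26851)]]],[[[(-119738806),(-382351)],[964520]],[[(-6025608)]]],[[[(-9327363)]]]],[[[[(-23053213)],[459657],[(-2424)]],[[(-2877113)],[38479]],[[(-90167)]]],[[[(-25338592)],[373804]],[[(-2332817)]]],[[[(-7463340)]]]]]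

/-- A surrogate. -/
def root_s3 : List (List (List (List (List ℤ)))) :=
  [[[[[1076935663,(-131220571),848925,(-3442),14],[(-171779577),5142856,(-29672),139],[4724183,(-83959),505,(-3)],[(-58321),832,(-6)],[428,(-7)],[(-2)]],[[532051109,(-3197791),27454,(-152)],[(-13563975),124153,(-1243),5],[189113,(-2988),23],[(-2590),43],[30]],[[10208232,8389,(-40)],[(-334305),(-378)],[4595],[(-39)]],[[(-529940),1354,(-1)],[12812,(-32)],[(-179)],[2]],[[(-11776),47],[491,(-1)],[(-7)]]],[[[100400517,(-118115127),807348,(-3289),13],[(-124073386),4639214,(-28061),128],[3760728,(-76160),468,(-2)],[(-47571),746,(-4)],[345,(-4)],[(-2)]],[[333549545,(-2435714),26348,(-143)],[(-8075896),105135,(-1146),3],[119891,(-2599),15],[(-1978),25],[17]],[[10200186,8308,(-13)],[(-308048),(-144)],[3945,2],[(-21)]],[[(-374492),1056],[10366,(-17)],[(-149)]],[[(-11545),39],[396]]],[[[(-783313406),(-31625119),249853,(-1043),3],[(-9293526),1284017,(-8638),32],[696997,(-21556),118],[(-10403),176],[67]],[[27964735,(-4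91670),8387,(-36)],[(-272632),26748,(-258)],[8705,(-456)],[(-236)]],[[3559927,1287,(-15)],[(-92286),(-144)],[719]],[[(-68925),262],[2712]],[[(-3534)]]],[[[(-382101232),(-2687477),32744,(-135)],[7505681,133343,(-1028)],[(-24603),(-2175)],[(-557)]],[[(-4786585),(-36875),902],[262992,1388],[(-2717)]],[[588066,305],[(-12100)]],[[(-8637)]]],[[[(-56731356),22603,1700],[1486202,3642],[(-10998)]],[[(-1069366),1229],[29313]],[[53279]]],[[[(-3541716),11230],[83066]],[[(-33750)]]],[[[(-73305)]]]],[[[[2429477353,(-122828915),626040,(-1904),9],[(-177581196),3917593,(-16004),65],[3726655,(-49512),202,(-1)],[(-36039),347,(-1)],[185,(-1)],[(-1)]],[[134132798,(-4212196),22154,(-66)],[(-8243526),169671,(-758),2],[196804,(-2846),8],[(-2503),18],[13]],[[14623418,1068,(-195)],[(-322119),(-290),2],[3422,6],[(-15)]],[[550868,(-11),(-9)],[(-15891),(-32)],[133]],[[6078,(-15)],[(-189)]]],[[[642619790,(-90620265),469435,(-1386),5],[(-98092939),2893891,(-11663),41],[2302219,(-35572),123],[(-22125),199],[9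2]],[[52844872,(-3520268),18963,(-42)],[(-5075253),139158,(-450)],[141575,(-1622)],[(-1397)]],[[10923512,(-8476),(-177)],[(-263156),(-571)],[2267]],[[488175,(-20)],[(-11828)]],[[4576]]],[[[(-688534749),(-16209291),91287,(-229)],[4620135,528604,(-1850)],[140857,(-5269)],[(-1594)]],[[(-25461404),(-840141),3738],[(-180087),25746],[20366]],[[2146634,(-3073)],[(-64772)]],[[129278]]],[[[(-256610618),(-733271),6207],[6051081,28025],[(-43435)]],[[(-11845037),(-62356)],[138022]],[[242969]]],[[[(-30742888),36998],[706522]],[[(-1262339)]]],[[[(-1515667)]]]],[[[[1212480827,(-37959054),146256,(-85)],[(-64656270),1052611,(-2333),1],[1131122,(-10520),6],[(-8940),28],[22]],[[(-17070245),(-2360238),11279,(-4)],[(-2178257),80572,(-157)],[69057,(-744)],[(-616)]],[[(-3560516),(-44959),186],[43429,1403],[687]],[[(-52185),(-221)],[853]],[[408]]],[[[510199852,(-25850762),102398,(-34)],[(-35715986),724390,(-1252)],[676038,(-5889)],[(-4695)]],[[(-42021132),(-1672279),6582],[(-754534),47481],[36905]],[[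(-3660376),(-27323)],[34016]],[[(-32509)]]],[[[(-120392848),(-3728004),14946],[(-111257),101180],[49022]],[[(-25234013),(-253987)],[225724]],[[(-1025508)]]],[[[(-43499209),(-143636)],[840555]],[[(-4407873)]]],[[[(-3706586)]]]],[[[[119275692,(-3458013),18101,(-21)],[(-6165986),108261,(-315)],[114069,(-1059)],[(-861)]],[[(-2360755),(-248096),1303],[(-168654),6981],[5112]],[[(-805647),(-3674)],[11211]],[[(-22015)]]],[[[48511863,(-2096128),10716],[(-3093753),62593],[61570]],[[(-5052760),(-137350)],[(-42192)]],[[(-559973)]]],[[[(-9564037),(-185068)],[40124]],[[(-2216682)]]],[[[(-2085230)]]]]]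

/-- A surrogate. -/
def root_s5 : List (List (List (List (List ℤ)))) :=
  [[[[[15478186860,(-351614189),1355448,(-856),(-4)],[(-667101709),8382653,(-12485),(-66)],[8999393,(-39361),(-346),3],[(-24802),(-730),9],[(-545),13],[7]],[[(-2034741228),11225461,(-34391),93],[54016423,(-281101),1132,(-4)],[(-535980),3339,(-21)],[2245,(-33)],[(-5)]],[[(-22495724),433549,(-1463),1],[1045629,(-12202),30],[(-18488),138],[161,(-1)],[(-1)]],[[2138888,(-6231),9],[(-50135),112],[448]],[[6325,(-64)],[(-183),1],[2]],[[(-573)],[12]]],[[[11959141677,(-308876038),1132748,(-874),(-2)],[(-569628085),7676699,(-13018),(-38)],[8555498,(-50093),(-189),1],[(-41460),(-337),4],[(-229),6],[3]],[[(-1908873125),7785098,(-16247),48],[49877068,(-166076),498,(-1)],[(-480444),1533,(-7)],[1721,(-9)],[2]],[[(-20177356),369079,(-1025),1],[889217,(-9360),17],[(-13279),80],[85]],[[2289426,(-6134),2],[(-57456),98],[446]],[[7151,(-77)],[(-106)]],[[(-558)]]],[[[2271224901,(-87207038),274872,(-25),(-1)],[(-143459243),22685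60,(-2769),(-12)],[2562093,(-17617),(-47)],[(-17579),(-40)],[(-4)]],[[(-621254957),1747375,(-2433),11],[16609982,(-36958),96],[(-172887),410],[772]],[[(-6407470),109375,(-241)],[253298,(-2404)],[(-2437)]],[[798825,(-1859)],[(-19533)]],[[1456]]],[[[26257219,(-11945953),35427,27],[(-12956524),328342,(-249)],[309251,(-2302)],[(-2124)]],[[(-102584218),254369,(-414)],[2809725,(-6884)],[(-27064)]],[[(-451774),11887],[(-165)]],[[126569]]],[[[(-32882420),(-795121),2179],[49661,19402],[10126]],[[(-8458705),23230],[190438]],[[98025]]],[[[(-2860166),(-20031)],[43344]],[[(-242873)]]],[[[(-55595)]]]],[[[[7345353216,(-163244144),535804,252,(-6)],[(-310967072),3558255,605,(-78)],[3925979,(-4445),(-347),2],[(-3315),(-609),5],[(-380),7],[4]],[[(-656124324),(-2811604),6098,51],[11382183,63068,238,(-2)],[(-45767),(-53),(-9)],[(-147),(-13)],[(-3)]],[[(-48244611),104582,(-41),1],[1135000,(-1444),5],[(-9553),5]],[[(-523229),4201,1],[15605,(-53)],[(-79)]],[[20860,23],[(-389)]],[[281]]],[[[5497869526,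(-144188174),512221,(-574),(-1)],[(-265150632),3598011,(-6307),(-16)],[4049676,(-24572),(-82)],[(-21068),(-147)],[(-97)]],[[(-630191186),(-4289657),13742,13],[9959963,115153,(-58)],[(-16219),(-658)],[(-465)]],[[(-52589864),77494,130],[1273955,(-843)],[(-8114)]],[[(-671382),4075],[12596]],[[19235]]],[[[955191270,(-39686210),116475,(-66)],[(-64012479),1050690,(-1408)],[1190499,(-7813)],[(-7765)]],[[(-244712851),(-1601254),4144],[4405644,35527],[(-14496)]],[[(-19402787),21735],[395781]],[[(-177010)]]],[[[(-4957195),(-5590419),14950],[(-5528923),141861],[133199]],[[(-51895923),(-176212)],[974607]],[[(-2820331)]]],[[[(-18561905),(-342768)],[93691]],[[(-4962738)]]],[[[(-1468347)]]]],[[[[424422844,(-6605991),(-42559),504,(-2)],[(-14229325),(-38901),3395,(-24)],[27513,6361,(-86)],[3881,(-129)],[(-70)]],[[1582768,(-1310187),3248,3],[(-1475795),35821,(-24)],[36556,(-256)],[(-289)]],[[(-5901284),(-44665),100],[104856,1006],[8]],[[(-368630),(-259)],[6281]],[[(-5616)]]],[[[344597645,(-84005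55),15674,(-18)],[(-16333953),192494,(-65)],[243926,(-754)],[(-834)]],[[(-15047637),(-1009691),1468],[(-606662),20389],[17180]],[[(-6087042),(-32406)],[85438]],[[(-282680)]]],[[[43153784,(-1948249),463],[(-3190209),42469],[57689]],[[(-10446025),(-263148)],[(-33314)]],[[(-1924136)]]],[[[(-136276),(-301979)],[(-314804)]],[[(-2817681)]]],[[[(-1157112)]]]],[[[[(-8468575),205808,(-1126),1],[380831,(-6213),15],[(-6583),46],[36]],[[504328,10780,(-61)],[(-3307),(-263)],[(-108)]],[[93204,(-115)],[(-1633)]],[[2221]]],[[[(-7630390),215264,(-906)],[369303,(-4953)],[(-5133)]],[[743516,8273],[(-4748)]],[[78343]]],[[[(-1212177),58639],[87278]],[[303001]]],[[[253934]]]]]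

/-- A surrogate. -/
def root_s11 : List (List (List (List (List ℤ)))) :=
  [[[[[7374722668,(-47077529),77457,10],[(-190723583),884175,(-859)],[1855690,(-5352),1],[(-7553),5],[2]],[[59358008,(-463200),953],[(-1552587),8548,(-8)],[12945,(-28)],[2],[(-1)]],[[(-9218493),55702,(-85)],[237741,(-1061),1],[(-2414),7],[11]],[[(-35297),232],[885,(-2)],[(-3)]],[[2572,(-15)],[(-65)],[1]],[[(-18)],[1]]],[[[875395111,(-5787065),9971,2],[(-22680738),108327,(-106)],[215570,(-604)],[(-755)],[(-1)]],[[16223671,(-120349),233],[(-423207),2195,(-2)],[3610,(-8)],[(-3)]],[[(-901804),5433,(-8)],[23568,(-101)],[(-236),1],[1]],[[(-12849),70],[285,(-1)],[(-2)]],[[195,(-2)],[(-7)]]],[[[29111466,(-207862),392],[(-757476),3866,(-4)],[6810,(-17)],[(-13)]],[[896919,(-7018),14],[(-23510),119],[173]],[[(-17517),107],[512,(-3)],[(-8)]],[[(-578),4],[18]]],[[[179983,(-1758),4],[(-4781),32],[31]],[[9999,(-98)],[(-265),2],[2]],[[139,(-2)],[(-4)]]]],[[[[1745944474,(-10134149),14395,(-1)],[(-44943621),192242,(-181)]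,[463429,(-1415),1],[(-2486),5],[8]],[[221243240,(-1337071),2022],[(-5706748),25159,(-23)],[57256,(-167)],[(-272)],[1]],[[4343769,(-26884),42],[(-111008),490],[1059,(-2)],[(-3)]],[[(-98479),578,(-1)],[2520,(-15)],[(-34)]],[[(-1621),9],[36]],[[27]]],[[[97115618,(-485310),496],[(-2483797),9380,(-8)],[27673,(-88)],[(-189),1],[1]],[[21649083,(-128645),186],[(-558233),2384,(-3)],[5567,(-19)],[(-31)]],[[755342,(-4562),7],[(-19055),81],[176]],[[(-160),20],[96]],[[(-216)]]],[[[(-1059045),14799,(-43)],[29105,(-266)],[(-83),(-2)],[(-7)]],[[421404,(-2189),4],[(-10727),62],[160]],[[25796,(-186)],[(-787)]],[[413]]],[[[(-59994),586,(-1)],[1594,(-11)],[(-10)]],[[(-3333),33],[90]],[[(-47)]]]],[[[[(-745474052),4643406,(-7380),(-1)],[19255082,(-87431),85],[(-190336),562],[850,(-1)],[(-1)]],[[(-15236635),103012,(-187)],[394887,(-1982)],[(-3826),(-2)],[(-8)]],[[1750368,(-10199),18],[(-44557),236],[550]],[[56155,(-314)],[(-1338)]],[[(-246)]]],[[[(-97521239),609765,(-977)],[2519969,(-11510),10],[(-2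4928),64],[96]],[[(-5450943),34713,(-45)],[141642,(-506)],[(-1054)]],[[(-3786),(-268)],[(-1299)]],[[5094]]],[[[(-2881537),18184,(-30)],[74545,(-350)],[(-748)]],[[(-240163),1543],[6329]],[[(-6781)]]]],[[[[(-187542704),1135736,(-1736)],[4838630,(-21524),19],[(-48852),136],[219]],[[(-17384688),105836,(-144)],[450063,(-1774)],[(-4007)]],[[(-487366),2278],[9587]],[[3152]]],[[[(-10705061),65173,(-103)],[276720,(-1265)],[(-2858)]],[[(-1189963),7411],[31484]],[[(-50673)]]]],[[[[(-10364803),62328,(-97)],[268125,(-1219)],[(-2809)]],[[(-1440839),8902],[38316]],[[(-82248)]]]]]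

/-- A surrogate. -/
def root_s12 : List (List (List (List (List ℤ)))) :=
  [[[[[(-1018050861),(-22451894),177921,(-336)],[(-8387100),1093102,(-5427),7],[917363,(-18922),61],[(-14919),154],[108,(-1)]],[[208680172,(-1318070),2479,(-2)],[(-6326662),33036,(-59)],[79156,(-339),1],[(-508),2],[2]],[[5036945,5395,(-179)],[(-99703),(-829),5],[90,17],[12]],[[(-226826),1180,(-1)],[6697,(-28)],[(-84)],[1]],[[(-3496),7],[78]],[[53],[(-2)]]],[[[(-947537071),(-3255227),52952,(-124)],[16582902,245538,(-1650),3],[37791,(-4885),19],[(-2891),44],[27]],[[46029001,(-385775),1227,(-2)],[(-1506876),10855,(-34)],[20504,(-137)],[(-154)]],[[2338882,(-4644),(-34)],[(-55878),(-58),1],[369,4],[2]],[[(-45213),308],[1461,(-8)],[(-23)]],[[(-1086),3],[27]],[[14]]],[[[(-229537521),266973,5955,(-18)],[5418086,14250,(-198)],[(-38047),(-448),2],[(-59),4],[2]],[[2056295,(-32583),180],[(-83586),1087,(-3)],[1271,(-11)],[(-12)]],[[418147,(-1536),(-2)],[(-10438),12],[82]],[[(-1399),28],[123]],[[(-152)]]],[[[(-2314026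9),73854,287,(-1)],[607467,(-546),(-9)],[(-5965),(-13)],[15]],[[(-185059),(-144),9],[5176,44],[41]],[[32987,(-163)],[(-947)]],[[144]]],[[[(-1029543),4493,5],[28823,(-55)],[(-259)]],[[(-19188),10],[185]],[[1495]]],[[[(-16711),73],[423]],[[(-223)]]]],[[[[118451434,(-30369962),189073,(-317)],[(-38203425),1139322,(-4821),5],[1091571,(-16411),46],[(-13081),117],[81]],[[3234100,(-1117453),7137,(-12)],[(-1512691),45558,(-202)],[46605,(-720),1],[(-611),4],[3]],[[4597890,(-10734),(-46)],[(-122321),206,2],[1421,2],[(-6)]],[[195117,(-370),(-3)],[(-4859),(-3)],[37]],[[138],[17]],[[(-54)]]],[[[(-557332555),(-3624739),41025,(-88)],[8395073,191062,(-1133),1],[47922,(-3284),10],[(-1833),23],[14]],[[(-28835925),(-136647),1803,(-3)],[473002,8592,(-40)],[1984,(-127)],[(-88)]],[[1003903,(-5624),(-1)],[(-30463),120],[452]],[[59968,(-190)],[(-1527)]],[[76]]],[[[(-142374298),235705,3001,(-8)],[3500448,4680,(-87)],[(-28965),(-182)],[19]],[[(-8541695),19247,123],[215430,190],[(-1258)]],[[1294,(-516)],[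(-2252)]],[[7072]]],[[[(-12929098),52753,67],[355138,(-655)],[(-3352)]],[[(-883572),3199],[20810]],[[(-6839)]]],[[[(-495149),2425],[13669]],[[(-35742)]]],[[[(-6897)]]]],[[[[231366803,(-9923947),54441,(-84)],[(-16056692),329821,(-1255),1],[344549,(-4287),10],[(-3537),25],[18]],[[(-11539162),(-620505),4136,(-6)],[(-412566),22959,(-86)],[17614,(-283)],[(-208)]],[[(-1309361),(-8635),68],[20201,337],[97]],[[(-6088),48],[(-104)]],[[1158]]],[[[(-93325010),(-961724),8795,(-16)],[1130410,41277,(-206)],[13400,(-602)],[(-343)]],[[(-14860374),(-38736),618],[302868,2488],[(-773)]],[[(-650178),50],[11811]],[[(-1927)]]],[[[(-22059377),42839,393],[559945,395],[(-4610)]],[[(-2590581),6521],[61943]],[[(-90851)]]],[[[(-1390737),6245],[38540]],[[(-152610)]]],[[[(-27496)]]]],[[[[22602073,(-752536),3944,(-6)],[(-1312132),23942,(-86)],[25782,(-297)],[(-253)]],[[(-345693),(-72655),446],[(-66027),2509],[2127]],[[(-216056),(-2370)],[2046]],[[(-10597)]]],[[[(-5806392),(-41250),431],[95057,1905],[258]],[[(-1245253),(-2059)],[25955]],[[(-89884)]]],[[[(-941683),3396],[25877]],[[(-144160)]]],[[[(-27415)]]]]]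

/-- A surrogate. -/
def root_s13 : List (List (List (List (List ℤ)))) :=
  [[[[[(-71293152),497811,21880,(-140)],[2846249,9020,(-503),1],[(-48271),114,(-1)],[792,(-12)],[(-12)]],[[941620,391309,(-3383),10],[186751,(-10740),61],[(-1960),57],[(-60),1],[1]],[[1843001,(-28874),137],[(-60093),712,(-3)],[647,(-5)]],[[(-80341),637,(-2)],[2318,(-16)],[(-27)]],[[572,(-4)],[(-20)]]],[[[(-116569583),2367697,6067,(-89)],[5498525,(-51907),(-175),1],[(-95816),718,(-2)],[1080,(-12)],[(-10)]],[[14930721,179604,(-2259),7],[(-306874),(-5429),42],[4074,21],[(-76),1],[1]],[[1208199,(-22348),113],[(-42551),571,(-2)],[475,(-4)]],[[(-73301),590,(-2)],[2208,(-13)],[(-21)]],[[591,(-4)],[(-17)]]],[[[(-42205370),1417854,(-3995),(-10)],[2425467,(-39022),65],[(-45210),450,(-1)],[435,(-3)],[(-2)]],[[10411457,(-23007),(-300),1],[(-297317),296,4],[3702,(-8)],[(-27)]],[[137094,(-4613),25],[(-6250),111],[55]],[[(-21446),159],[615]],[[183]]],[[[333106,199521,(-895)],[181781,(-6058),12],[(-4890),54],[41]],[[185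9380,(-8921),1],[(-56284),203],[596]],[[(-7255),(-291)],[373]],[[(-2740)]]],[[[699775,10514,(-51)],[(-8052),(-284)],[(-73)]],[[143360,(-743)],[(-3459)]],[[(-3259)]]],[[[50340,151],[(-936)]],[[3508]]],[[[788]]]],[[[[(-52329515),743464,6910,(-60)],[2416717,(-15830),(-149),1],[(-45998),340,(-1)],[613,(-7)],[(-7)]],[[(-224103),213016,(-1236),2],[136433,(-5642),24],[(-2201),47],[(-3)]],[[1017566,(-3941),(-8)],[(-27732),92],[330,(-1)],[(-1)]],[[13593,(-175),1],[(-420),3],[3]],[[(-442),2],[10]]],[[[(-74503912),1709012,(-1195),(-36)],[3773380,(-48223),22],[(-71607),677,(-1)],[782,(-5)],[(-5)]],[[5913898,159751,(-1122),1],[(-52584),(-4615),17],[(-179),33],[(-4)]],[[1087270,(-5111),(-1)],[(-31301),92],[274]],[[10326,(-109)],[(-224)]],[[(-347)]]],[[[(-24978896),880058,(-3420),(-3)],[1504436,(-27024),57],[(-30009),286],[260]],[[4858152,28268,(-271)],[(-108358),(-904)],[699]],[[391379,(-1827)],[(-9797)]],[[1450]]],[[[322238,116783,(-572)],[101707,(-3545)],[(-2859)]],[[1120058,612],[(-25737)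]],[[52548]]],[[[420495,5584],[(-4909)]],[[100693]]],[[[28673]]]],[[[[(-2468779),16827,781,(-5)],[122165,(-252),(-14)],[(-2741),28],[52]],[[(-416589),20547,(-87)],[24248,(-585),1],[(-399),4],[2]],[[72482,520,(-4)],[(-1860),(-13)],[11]],[[5360,(-15)],[(-111)]],[[59]]],[[[(-4235605),90821,83,(-3)],[224446,(-2921),(-3)],[(-4747),36],[47]],[[(-13144),18811,(-77)],[12379,(-460)],[(-270)]],[[97162,266],[(-1858)]],[[4175]]],[[[(-1467264),52275,(-189)],[90036,(-1617)],[(-1865)]],[[216081,4586],[(-1233)]],[[36577]]],[[[66405,5742],[3828]],[[65124]]],[[[25439]]]],[[[[264643,(-6432),35],[(-11901),194],[206,(-1)],[(-1)]],[[(-15760),(-337),2],[103,8],[3]],[[(-2913),4],[51]],[[(-69)]]],[[[238450,(-6727),28],[(-11541),155],[160]],[[(-23235),(-259)],[148]],[[(-2448)]]],[[[37881,(-1832)],[(-2727)]],[[(-9469)]]],[[[(-7935)]]]]]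

/-- A surrogate. -/
def root_s14 : List (List (List (List (List ℤ)))) :=
  [[[[[(-64163784),448038,19692,(-126)],[2561631,8119,(-453),1],[(-43447),103,(-1)],[712,(-11)],[(-11)]],[[(-934769),364625,(-2497),5],[239265,(-9438),43],[(-2968),55],[(-33),1],[1]],[[1682140,(-16218),38],[(-49428),369,(-1)],[536,(-3)],[(-2)]],[[(-26305),(-155),2],[549,4],[(-8)]],[[(-1491),13],[45]],[[17]]],[[[(-104912559),2130923,5461,(-80)],[4948745,(-46712),(-158),1],[(-86231),646,(-2)],[971,(-10)],[(-9)]],[[10523078,220806,(-1884),4],[(-138753),(-6206),33],[1252,36],[(-42)],[1]],[[1460472,(-15605),46],[(-46103),382,(-1)],[531,(-3)],[(-2)]],[[(-35421),(-19),1],[960],[(-11)]],[[(-1297),10],[32]],[[15]]],[[[(-37985268),1276041,(-3597),(-9)],[2182879,(-35121),59],[(-40680),406,(-1)],[391,(-2)],[(-2)]],[[8314886,14777,(-368),1],[(-207054),(-703),5],[2209,1],[(-17)]],[[384584,(-4701),17],[(-12948),111],[124]],[[(-15940),51],[474]],[[(-318)]]],[[[299751,179557,(-807)],[163440,(-5457),11],[(-4397),49],[37]]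,[[1682419,(-3036),(-16)],[(-46123),69],[443]],[[39864,(-472)],[(-769)]],[[(-3003)]]],[[[630220,9462,(-46)],[(-7315),(-257)],[(-65)]],[[146745,(-459)],[(-3271)]],[[(-276)]]],[[[45414,136],[(-849)]],[[4202]]],[[[713]]]],[[[[(-47096553),669102,6221,(-54)],[2175091,(-14239),(-134),1],[(-41398),306,(-1)],[551,(-7)],[(-6)]],[[(-1510251),210313,(-942)],[183315,(-5494),18],[(-3154),53],[14]],[[910081,1813,(-40)],[(-21625),(-64),1],[251],[(-1)]],[[38088,(-274)],[(-1154),5],[9]],[[(-67),(-1)],[3]],[[(-9)]]],[[[(-67054198),1538114,(-1077),(-32)],[3396209,(-43407),20],[(-64443),611,(-1)],[704,(-5)],[(-4)]],[[3459409,186581,(-1045)],[46936,(-5386),15],[(-1957),42],[11]],[[1127730,(-656),(-24)],[(-29837),(-11)],[239]],[[36731,(-204)],[(-808)]],[[(-148)]]],[[[(-22481396),792099,(-3085),(-2)],[1353751,(-24355),52],[(-27015),259],[235]],[[3749469,47428,(-316)],[(-60369),(-1393)],[(-24)]],[[474730,(-1040)],[(-11047)]],[[9389]]],[[[291782,105157,(-518)],[91154,(-3210)],[(-2584)]],[[1018087,3244]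,[(-20729)]],[[72110]]],[[[380023,5052],[(-4478)]],[[100677]]],[[[26008]]]],[[[[(-2221939),15123,703,(-5)],[109962,(-224),(-12)],[(-2464),25],[47]],[[(-437021),18902,(-61)],[24857,(-550),1],[(-446),4],[3]],[[54852,1028,(-5)],[(-1088),(-23)],[2]],[[7014,(-3)],[(-135)]],[[158]]],[[[(-3812551),81747,73,(-3)],[201988,(-2639),(-3)],[(-4281),33],[42]],[[(-117516),19321,(-65)],[16810,(-470)],[(-339)]],[[88278,651],[(-1369)]],[[5756]]],[[[(-1320178),47118,(-172)],[80999,(-1466)],[(-1688)]],[[159270,5400],[1132]],[[37534]]],[[[60709,5200],[3444]],[[60284]]],[[[23099]]]],[[[[238234,(-5786),32],[(-10706),175],[185,(-1)],[(-1)]],[[(-7591),(-482),2],[(-229),11],[7]],[[(-3114),(-3)],[48]],[[(-117)]]],[[[214566,(-6063),26],[(-10392),140],[145]],[[(-15109),(-375)],[(-113)]],[[(-2670)]]],[[[33919,(-1659)],[(-2467)]],[[(-7455)]]],[[[(-7205)]]]]]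

/-- A surrogate. -/
def root_s15 : List (List (List (List (List ℤ)))) :=
  [[[[[(-4328896097),(-49160290),426893,(-698)],[79430995,943440,(-4015)],[(-1216848),5035,(-42)],[21864,(-207),1],[(-230),2],[1]],[[(-519009821),6973490,(-29118),42],[12319742,(-119497),322],[(-45279),77,1],[(-1170),10],[15]],[[37582061,(-288763),737,(-1)],[(-898168),5078,(-9)],[6441,(-19)],[8]],[[(-543635),3680,(-8)],[13078,(-69)],[(-108)]],[[2256,(-17)],[(-66)],[1]]],[[[(-5754440085),14661701,68114,(-158)],[143123139,(-272522),(-546),(-1)],[(-1583297),4796,(-13)],[12329,(-65)],[(-82)]],[[(-11778897),1072866,(-7079),14],[123427,(-21439),108],[11568,69],[(-272),1],[3]],[[13492542,(-100412),252],[(-356702),2032,(-4)],[3402,(-12)],[(-10)]],[[(-205455),1430,(-3)],[5638,(-32)],[(-61)]],[[922,(-8)],[(-32)]]],[[[(-1176923418),4949123,1336,(-12)],[30721415,(-97082),21],[(-341108),1048,(-2)],[2388,(-7)],[(-10)]],[[10844555,39132,(-719),2],[(-290249),(-1562),12],[2876,1],[(-40)]],[[1948578,(-13696),32],[(-53223)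,282],[528]],[[(-25579),196],[814]],[[108]]],[[[(-96087719),460925,(-309)],[2588972,(-9607),6],[(-30158),73],[164]],[[1112308,(-575),(-27)],[(-25422),76],[511]],[[136475,(-924)],[(-3798)]],[[(-1536)]]],[[[(-3452687),17498,(-15)],[96801,(-292)],[(-929)]],[[38503,(-316)],[(-1978)]],[[5034]]],[[[(-41055),145],[935]],[[1194]]],[[[208]]]],[[[[(-3652010436),(-18516845),225710,(-456)],[86880810,293624,(-2315),2],[(-1237170),4373,(-15)],[15260,(-109)],[(-130),1],[1]],[[(-510887061),3212535,(-5552),2],[12121113,(-57064),76],[(-96441),305],[138,1],[3]],[[1671074,13698,(-133)],[(-41721),(-161),1],[804,(-3)],[(-9)]],[[279813,(-1987),4],[(-6735),31],[42]],[[(-2407),17],[62]]],[[[(-4156774217),16206940,24267,(-137)],[112729806,(-348937),(-310),1],[(-1308639),3937,(-2)],[9001,(-27)],[(-37)]],[[(-228911169),1455085,(-2634),2],[6061573,(-30208),39],[(-62399),185],[215]],[[1665803,(-5600),(-8)],[(-49258),242],[821]],[[103800,(-660)],[(-2479)]],[[(-969)]]],[[[(-800525146),4114448,(-1519),(-14)],[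22431470,(-87741),4],[(-259672),679],[1417]],[[(-37842189),241896,(-375)],[1059747,(-4372)],[(-9587)]],[[153606,(-1378)],[(-8383)]],[[13185]]],[[[(-62018776),349242,(-276)],[1781072,(-6904)],[(-19144)]],[[(-2969505),16566],[74400]],[[4464]]],[[[(-2155241),12239],[60918]],[[(-104592)]]],[[[(-28435)]]]],[[[[(-498244981),(-3165259),35408,(-75)],[12736963,44802,(-374)],[(-198171),729,(-2)],[2508,(-15)],[(-18)]],[[(-105880127),402238,553,(-2)],[2581821,(-8063),(-4)],[(-25812),64],[99]],[[(-3725727),23409,(-35)],[90354,(-340)],[(-556)]],[[(-3306),32],[(-122)]],[[789]]],[[[(-581366494),2482216,2669,(-20)],[16575998,(-57265),(-42)],[(-201076),544],[1223]],[[(-59659759),333791,(-272)],[1651095,(-6354)],[(-16153)]],[[(-1605416),8641],[35542]],[[3290]]],[[[(-94351433),517127,(-263)],[2763023,(-10836)],[(-31139)]],[[(-8524645),48084],[228713]],[[(-198955)]]],[[[(-5400523),31368],[158530]],[[(-460975)]]],[[[(-106242)]]]],[[[[(-376449),(-285587),1871,(-3)],[78194,4067,(-19)],[(-5649),19],[94]],[[(-4363443),4970,107],[116292,(-89)],[(-1111)]],[[(-370800),1475],[8043]],[[(-9269)]]],[[[(-12660407),45327,163],[450127,(-1560)],[(-6485)]],[[(-2674448),14528],[80511]],[[(-163041)]]],[[[(-2076816),12185],[70140]],[[(-311556)]]],[[[(-78156)]]]],[[[[1760103,(-10701),14],[(-42048),151],[308]],[[198003,(-1005)],[(-3950)]],[[6967]]],[[[956020,(-5750)],[(-22596)]],[[106145]]],[[[37951]]]]]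

/-- A root. -/
def root : Root where
  cl := true
  box := fun i => match i with
    | 0 => ⟨13, 6, 200, 25⟩
    | 1 => ⟨22, 93, 25, 100⟩
    | 2 => ⟨7, 14287, 50, 100000⟩
    | _ => ⟨119, 3, 400, 10⟩
  De := 400
  e0 := 57
  e1 := 213
  p := fun i => match i with
    | 0 => 11
    | 1 => 40
    | 2 => 697
    | 3 => 800
    | _ => 5
  q := fun i => match i with
    | 0 => 2
    | 1 => 36
    | 2 => 99
    | 3 => 239
    | _ => 2
  den := 17179869184
  sur := fun k => match k with
    | 0 => root_s0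
    | 1 => root_s1
    | 3 => root_s3
    | 5 => root_s5
    | 11 => root_s11
    | 12 => root_s12
    | 13 => root_s13
    | 14 => root_s14
    | 15 => root_s15
    | _ => []
  eps := fun k => match k with
    | 0 => 320815
    | 1 => 1113658
    | 3 => 360721
    | 5 => 300786
    | 11 => 3626
    | 12 => 11347
    | 13 => 6680
    | 14 => 7251
    | 15 => 19237
    | _ => 0

/-- A leaf. -/
def leaf0 : Leaf :=
  ⟨⟨22, 181, 25, 200⟩, ⟨7, 14287, 50, 100000⟩, ⟨119, 3, 400, 10⟩,
    16384, (6817, -24577, -17697, 5019), (1291, -35096, -5597, 14418), 16384, (1022, 62619, 73928, -26298), (14416, 1688, -26018, -14648), (-1396, 66364, 81165, -25286), (501, 7522, 328, -3649),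
    true, 0, 1, 1322, (-187), 962, 4096, (-1156), 902⟩

/-- A tile. -/
def tile0 : Tile :=
  ⟨⟨22, 181, 25, 200⟩, ⟨7, 14287, 50, 100000⟩, ⟨119, 3, 400, 10⟩, 16384, (6817, -24577, -17697, 5019), (1291, -35096, -5597, 14418), 6923,
    (1024, 0), (4, 1024), 0, 3, (leaf0, ⟨(1024, 1), (1024, 461)⟩),
    []⟩

/-- A leaf. -/
def leaf1 : Leaf :=
  ⟨⟨181, 93, 200, 100⟩, ⟨7, 14287, 50, 100000⟩, ⟨119, 3, 400, 10⟩,
    16384, (6027, -26656, -19217, 6812), (-2833, -37536, -3559, 19463), 16384, (17229, 52464, 62553, -39383), (-3875, 4307, -16060, 2966), (3972, 64648, 81053, -30519), (2465, 7809, -303, -5822),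
    true, 0, 1, 2681, (-183), 2448, 4096, (-2661), 1876⟩

/-- A tile. -/
def tile1 : Tile :=
  ⟨⟨181, 93, 200, 100⟩, ⟨7, 14287, 50, 100000⟩, ⟨119, 3, 400, 10⟩, 16384, (6027, -26656, -19217, 6812), (-2833, -37536, -3559, 19463), 6923,
    (1024, 0), (5, 1024), 0, 3, (leaf1, ⟨(1024, 44), (1024, 497)⟩),
    []⟩

/-- The subdivision. -/
def tree : Tree :=
  (.node 0 181 200
    (.tile tile0)
    (.tile tile1))

def tree_ok : tree.ok pieceC 448 ⟨22, 93, 25, 100⟩ ⟨7, 14287, 50, 100000⟩ ⟨119, 3, 400, 10⟩ = true := by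
  decide +kernel

def root_ok0 : root.okEnt 576 0 = true := by decide +kernel

def root_ok1 : root.okEnt 576 1 = true := by decide +kernel

def root_ok3 : root.okEnt 576 3 = true := by decide +kernel

def root_ok5 : root.okEnt 576 5 = true := by decide +kernel

def root_ok11 : root.okEnt 576 11 = true := by decide +kernel

def root_ok12 : root.okEnt 576 12 = true := by decide +kernel

def root_ok13 : root.okEnt 576 13 = true := by decide +kernel

def root_ok14 : root.okEnt 576 14 = true := by decide +kernel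

def root_ok15 : root.okEnt 576 15 = true := by decide +kernel

def leaf0_ok : leaf0.okLeaf root 640 = true := by decide +kernel

def leaf1_ok : leaf1.okLeaf root 640 = true := by decide +kernel

theorem leaves_eq : tree.leaves =
    [leaf0, leaf1] := rfl

theorem leaves_ok : ∀ F ∈ tree.leaves, Leaf.okLeaf F root 640 = true := by
  rw [leaves_eq]
  exact all'_cons leaf0_ok (all'_cons leaf1_ok ((fun F hF => absurd hF List.not_mem_nil)))

theorem root_ok : ∀ k ∈ [0, 1, 3, 5, 11, 12, 13, 14, 15], root.okEnt 576 k = true := by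
  intro k hk
  simp only [List.mem_cons, List.not_mem_nil, or_false] at hk
  rcases hk with rfl | rfl | rfl | rfl | rfl | rfl | rfl | rfl | rfl
  · exact root_ok0
  · exact root_ok1
  · exact root_ok3
  · exact root_ok5
  · exact root_ok11
  · exact root_ok12
  · exact root_ok13
  · exact root_ok14
  · exact root_ok15

theorem used_ok : ∀ F ∈ tree.leaves, ∀ k ∈ Leaf.used F, root.okEnt 576 k = true := by
  intro F hF k hk
  refine root_ok k ?_
  rw [leaves_eq] at hF
  have h : ([leaf0, leaf1]).all (fun G => G.used.all fun j => [0, 1, 3, 5, 11, 12, 13, 14, 15].any (Nat.beq j)) = true := by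
    decide +kernel
  simp only [List.all_eq_true, List.any_eq_true] at h
  obtain ⟨j, hj, e⟩ := h F hF k hk
  exact Nat.eq_of_beq_eq_true e ▸ hj

/-- **The signs on the box.** -/
theorem signs {a I u X η : ℝ} (hf : Facts pieceC a I u X η) (hu : In1 ⟨22, 93, 25, 100⟩ u)
    (hI : In1 ⟨7, 14287, 50, 100000⟩ I) (ha : In1 ⟨119, 3, 400, 10⟩ a) :
    ClosedGen.SignsMult a (rd (mk4 X u I a)) (rv (mk4 X u I a)) (rg (mk4 X u I a) η)
      (rW (mk4 X u I a) η) (rW1 (mk4 X u I a) η) (rR (mk4 X u I a))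
      (rNum true (mk4 X u I a) η) :=
  Tree.signs (T := tree) (R := root) tree_ok leaves_ok used_ok hf hu hI ha

end Vale.Agent.P100.Calib.MidTail.BoxIII1U1
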