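import Vale.Agent.P100.Calib.SlabMidTailPieces

/-!
# The signs on a box of the middle tail

`u, I, a` lie in the box of `root`; the surrogates and leaves are checked by the kernel.
-/

namespace Vale.Agent.P100.Calib.MidTail.BoxIII1U2

open Pack EndAll Band

/-- A surrogate. -/
def root_s0 : List (List (List (List (List ℤ)))) :=
  [[[[[9997254518,(-322661099),1544945,(-2940),(-1)],[(-511333145),8619819,(-23880),(-38)],[7977273,(-65797),(-211),3],[(-39302),(-327),10],[(-239),11],[5]],[[(-632504210),193566,3186,(-2)],[9195066,42394,(-48)],[80467,(-1172),(-2)],[(-2866),12],[32]],[[(-10701515),166725,(-556),2],[369591,(-4245),16],[(-4788),48],[19]],[[333342,1050,(-6)],[(-4826),(-47)],[1,1],[1]],[[5327,(-27)],[(-159)],[1]],[[(-41)],[1]],[[(-1)]]],[[[6096093366,(-266181739),1170448,(-2574),1],[(-377928772),7129301,(-21087),(-5)],[6425999,(-64428),(-30),1],[(-40968),46,3],[(-6),3],[1]],[[(-582319374),(-2045590),16172,(-37)],[6465633,131451,(-557),1],[141254,(-2849),5],[(-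3815),23],[31]],[[(-9317354),128162,(-281),1],[298100,(-2424),8],[(-2234),19],[(-8)]],[[412509,593,(-5)],[(-8874),(-21)],[64]],[[6400,(-34)],[(-147)]],[[(-54)]]],[[[171715833,(-67680765),225829,(-484),1],[(-65358271),1757208,(-4067),(-1)],[1375396,(-16829),(-5)],[(-10397),32],[10]],[[(-196874259),(-1265424),7683,(-9)],[2150353,60575,(-170)],[46027,(-820)],[(-970)]],[[(-3122464),35887,(-67)],[93697,(-674)],[(-189)]],[[160724,8],[(-4289)]],[[2060]]],[[[(-286584724),(-8736366),21283,(-18)],[(-533645),219737,(-215)],[85628,(-1464)],[(-379)]],[[(-37752478),(-203091),923],[569575,6672],[4118]],[[(-333828),4249],[(-2526)]],[[33529]]],[[[(-56181529),(-525441),711],[1043034,9201],[(-7707)]],[[(-3524526),(-9429)],[31542]],[[41788]]],[[[(-3598538),(-6911)],[73633]],[[(-67510)]]],[[[(-53084)]]]],[[[[5115184018,(-146536126),397831,1094,(-12)],[(-255973790),3430445,2821,(-114)],[3901498,(-13838),(-360),2],[(-18178),(-373),6],[(-120),6],[2]],[[(-233053083),(-4755264),19859,(-38)],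[168197,141658,(-438)],[87292,(-1786)],[(-1316),3],[4]],[[(-16802134),313,122],[372420,526,1],[(-3102),(-1)],[1]],[[(-212456),1438],[6699,(-25)],[(-41)]],[[1974,16],[(-50)]],[[54]]],[[[3382296365,(-132843710),438295,(-446),(-4)],[(-208664904),3568172,(-7792),(-26)],[3795145,(-36902),(-31)],[(-31987),93],[103]],[[(-260369587),(-5428138),23769,(-49)],[375653,171151,(-542)],[95891,(-1894)],[(-1318)]],[[(-19083313),(-16793),230],[443585,689],[(-2713)]],[[(-272265),1526],[5764]],[[2336]]],[[[246812842,(-37923499),113009,(-241)],[(-43044606),1054453,(-2780)],[965938,(-11629)],[(-9033)]],[[(-130916373),(-1740117),6179],[1548122,45786],[11667]],[[(-7722038),(-1317)],[159134]],[[(-79141)]]],[[[(-131832801),(-5379760),14781],[(-1588536),139305],[82446]],[[(-32968754),(-190573)],[577490]],[[(-1259943)]]],[[[(-31038626),(-318775)],[483931]],[[(-3495896)]]],[[[(-1982243)]]]],[[[[262852641,(-4461414),(-76216),667,(-3)],[(-9774466),(-107540),4329,(-32)],[4279,6748,(-104)],[3049,(-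134)],[(-59)]],[[5780242,(-923042),1187,3],[(-1132639),26091,(-7)],[27241,(-231)],[(-248)]],[[(-1694199),(-30502),51],[21149,734],[250]],[[(-89364),(-312)],[1638]],[[(-1284)]]],[[[209812731,(-7271139),(-3197),(-15)],[(-12558290),166594,(-37)],[223467,(-1619)],[(-1915)]],[[(-6011833),(-801213),774],[(-592427),18316],[15847]],[[(-2097523),(-23135)],[25212]],[[(-76455)]]],[[[7335503,(-1909708),(-3816)],[(-2036348),38802],[44363]],[[(-7198293),(-226340)],[(-37533)]],[[(-809765)]]],[[[(-6221919),(-342402)],[(-144294)]],[[(-2241531)]]],[[[(-1874347)]]]],[[[[(-4787460),145383,(-873),1],[243362,(-4660),14],[(-4588),40],[30]],[[201897,5661,(-36)],[(-789),(-157)],[(-70)]],[[23966,3],[(-451)]],[[466]]],[[[(-3924809),152475,(-749)],[226822,(-3941)],[(-3746)]],[[331938,4591],[(-2073)]],[[21995]]],[[[(-261770),42117],[48171]],[[153021]]],[[[271106]]]]]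

/-- A surrogate. -/
def root_s1 : List (List (List (List (List ℤ)))) :=
  [[[[[32110217832,(-215338415),21803,3531,(-17)],[(-1055933587),4923476,14784,(-201),1],[13582137,(-22539),(-665),5],[(-76350),(-674),14],[(-122),17],[8]],[[(-711687091),8097992,(-30052),63],[28686405,(-285643),1179,(-1)],[(-490244),5058,(-18)],[5363,(-56)],[(-45)]],[[(-7077739),11788,12,(-1)],[189027,(-505),(-3)],[(-2964),3],[29]],[[37672,96],[(-405),(-3)],[(-2)]],[[(-117)],[3]]],[[[42607953182,(-281656585),218425,2404,(-13)],[(-1383966442),6871657,2737,(-127)],[17895142,(-60800),(-305),2],[(-116550),(-44),5],[233,5],[3]],[[(-971767359),8487447,(-19413),32],[35339677,(-242405),676,(-1)],[(-506392),3420,(-9)],[4268,(-28)],[(-23)]],[[(-2646984),(-22928),(-4)],[3182,322,(-1)],[77],[9]],[[42546,139],[(-418),(-4)],[(-3)]],[[(-174)],[4]]],[[[19850313652,(-128780217),147714,627,(-3)],[(-632610774),3219004,(-1968),(-24)],[8115158,(-32309),(-31)],[(-53425),74],[103]],[[(-468812605),3475320,(-5297),4]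,[15998462,(-87971),144],[(-210996),921],[1338]],[[40287,(-15160),(-2)],[(-38863),264],[574]],[[14524,59],[(-129)]],[[(-72)]]],[[[4023857714,(-25802989),40000,51],[(-124996262),660498,(-692)],[1578097,(-5501)],[(-7894)]],[[(-97574723),631000,(-764)],[3116054,(-14318)],[(-37000)]],[[160878,(-2824)],[(-10417)]],[[1649]]],[[[409456804,(-2644794),4449],[(-12385475),55846],[120642]],[[(-10075805),58773],[307519]],[[23516]]],[[[21744976,(-118668)],[(-507488)]],[[(-576438)]]],[[[445171]]]],[[[[15756508053,(-121168013),(-214660),4116,(-19)],[(-562387901),1995489,23688,(-214),1],[6923514,18131,(-745),4],[(-25370),(-903),9],[(-310),11],[5]],[[84498955,2023894,(-11972),28],[1879951,(-71892),335],[(-74201),1100,(-4)],[973,(-10)],[(-7)]],[[1465982,(-11742),2],[(-73183),371,2],[1412,(-3)],[(-17)]],[[(-18882),(-98)],[126,2],[3]],[[164],[(-3)]]],[[[20689680510,(-161951249),85301,1677,(-7)],[(-734395225),3737458,4794,(-70)],[9789815,(-27402),(-200)],[(-62564),(-120)],[62]],[[1742304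56,870585,(-5049),17],[(-1555049),(-30630),178],[(-17469),575],[489]],[[(-1007549),4725,9],[26204,86],[192]],[[(-21157),(-101)],[44]],[[176]]],[[[9507890666,(-69710667),73501,205],[(-325020674),1671670,(-557)],[4268381,(-12771)],[(-22992)]],[[81870485,131499,(-1100)],[(-1188082),(-7701)],[(-4146)]],[[(-833342),3937],[25693]],[[(-6507)]]],[[[1900578449,(-12479093),12289],[(-61259726),254920],[671285]],[[15389993,8405],[(-189486)]],[[(-170538)]]],[[[190309628,(-1012164)],[(-5320599)]],[[1366600]]],[[[9659788]]]],[[[[416489670,(-11272964),(-150607),1506,(-6)],[(-40958154),(-128308),8855,(-58)],[448135,12226,(-194)],[1890,(-250)],[(-105)]],[[61468430,(-898766),5029,(-10)],[(-2655136),36083,(-147)],[54965,(-537)],[(-529)]],[[330185,4115,(-2)],[4114,(-111)],[(-255)]],[[(-489),22],[92]],[[(-59)]]],[[[798238740,(-22897644),(-5344),398],[(-66525367),491591,1668],[1135744,(-1440)],[(-5957)]],[[59859468,(-626723),2173],[(-2352055),17511],[31452]],[[727332,2546],[(-3417)]],[[(-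1778)]]],[[[415561469,(-9397729),7760],[(-28568545),194139],[422494]],[[23619859,(-172840)],[(-792425)]],[[276168]]],[[[96288696,(-1322696)],[(-4699363)]],[[3750589]]],[[[9261242]]]],[[[[(-233372024),(-814470),1114],[2366645,22219,(-12)],[8770,(-159)],[(-172)]],[[(-6360022),(-37558),33],[37481,734],[861]],[[10840,(-404)],[(-1594)]],[[1487]]],[[[(-262462322),(-984613),990],[2482713,19801],[11179]],[[(-7034750),(-33422)],[10741]],[[30801]]],[[[(-88255430),(-337197)],[605567]],[[(-1888309)]]],[[[(-7620455)]]]],[[[[(-16058020)],[336222],[(-2037)]],[[(-1011990)],[15551]],[[(-17501)]]],[[[(-17899425)],[290827]],[[(-872533)]]],[[[(-5476484)]]]]]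

/-- A surrogate. -/
def root_s3 : List (List (List (List (List ℤ)))) :=
  [[[[[1195493065,(-117095603),836132,(-3653),14],[(-158005229),4881804,(-31526),150,(-1)],[4471367,(-85920),564,(-3)],[(-58923),920,(-7)],[471,(-8)],[(-3)]],[[281091336,(-1160609),12856,(-80)],[(-6500341),44059,(-605),3],[78527,(-1241),12],[(-1095),21],[15]],[[586255,3266,6],[(-41962),(-123)],[797,3],[(-6)]],[[(-116050),238],[2947,(-5)],[(-42)]],[[(-1007),4],[44],[(-1)]]],[[[195924561,(-114330648),867162,(-3797),14],[(-120066445),4746011,(-32083),152],[3796033,(-83385),567,(-2)],[(-51348),888,(-5)],[409,(-6)],[(-2)]],[[188448750,(-822886),12795,(-81)],[(-3960347),36997,(-592),2],[47287,(-1117),8],[(-824),13],[9]],[[1257041,4614,(-3)],[(-50831),(-135)],[702,2],[(-2)]],[[(-91016),219],[2602,(-3)],[(-38)]],[[(-1046),4],[39]]],[[[(-850903583),(-34437373),302379,(-1364),4],[(-9211229),1467953,(-11034),44],[785993,(-26215),163],[(-12575),238],[93]],[[25218491,(-137977),4375,(-23)],[(-211996),9352,(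-150)],[1103,(-196)],[(-71)]],[[789713,1663,(-6)],[(-21570),(-77)],[91]],[[(-21239),70],[800]],[[(-355)]]],[[[(-453739247),(-3278910),44239,(-202)],[9066829,169021,(-1491)],[(-29825),(-2963)],[(-761)]],[[169152,(-7871),523],[107030,132],[(-2040)]],[[188747,323],[(-3296)]],[[(-3059)]]],[[[(-73921527),32382,2561],[1972829,4805],[(-15270)]],[[(-273026),1272],[11328]],[[20941]]],[[[(-5034837),17107],[118125]],[[5710]]],[[[(-104947)]]]],[[[[1653789829,(-99032077),537086,(-1858),9],[(-136676589),3301287,(-14848),66],[3051389,(-44388),206,(-1)],[(-31355),343,(-2)],[175,(-2)],[(-1)]],[[93011959,(-1308293),7166,(-32)],[(-3805346),57661,(-315),1],[78036,(-1128),4],[(-1040),8],[6]],[[4718225,6293,(-97)],[(-101178),(-365),1],[1004,6],[(-3)]],[[75042,(-10),(-1)],[(-2405),(-5)],[24]],[[402,(-1)],[(-14)]]],[[[175656452,(-76760575),421997,(-1408),6],[(-73944999),2556214,(-11315),45],[1920433,(-33368),134],[(-19672),207],[88]],[[55752297,(-1237659),6897,(-22)],[(-2625739),52312,(-19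7)],[61272,(-663)],[(-615)]],[[3890113,1889,(-81)],[(-93225),(-347)],[789]],[[72593,(-14)],[(-1945)]],[[333]]],[[[(-776328920),(-15345511),91598,(-262)],[7690900,521415,(-2016)],[103426,(-5512)],[(-1453)]],[[(-2414883),(-363008),1561],[(-257928),11082],[11173]],[[971587,(-322)],[(-27806)]],[[21983]]],[[[(-294611838),(-773825),7059],[7074571,31089],[(-53189)]],[[(-4980734),(-33547)],[40826]],[[132859]]],[[[(-39041731),47715],[915455]],[[(-672739)]]],[[[(-2180930)]]]],[[[[790605256,(-29957831),114416,(-53)],[(-47362159),839401,(-1850)],[868108,(-8725),4],[(-7188),25],[20]],[[(-11567235),(-891827),4384,(-1)],[(-694357),32118,(-66)],[25557,(-331)],[(-267)]],[[(-632812),(-8713),37],[9700,301],[131]],[[(-3489),(-29)],[63]],[[30]]],[[[255579662,(-21160111),84456,(-16)],[(-25478382),604702,(-1029)],[521819,(-5137)],[(-3876)]],[[(-22062132),(-665222),2725],[(-132324),20163],[13982]],[[(-743009),(-5766)],[8135]],[[(-2454)]]],[[[(-149590312),(-3383078),14225],[940190,96437],[35749]],[[(-12699642),(-115603)],[148150]],[[(-242471)]]],[[[(-48666234),(-143300)],[1005197]],[[(-2419824)]]],[[[(-4519671)]]]],[[[[70257590,(-2489426),13630,(-18)],[(-4072410),79642,(-263)],[78656,(-868)],[(-672)]],[[(-1808326),(-84317),519],[(-26766),2682],[1651]],[[(-164314),(-595)],[2826]],[[(-2237)]]],[[[21720580,(-1516542),8384],[(-1895503),47421],[42171]],[[(-2693973),(-47127)],[12370]],[[(-121129)]]],[[[(-10614652),(-135951)],[131609]],[[(-1061732)]]],[[[(-2091189)]]]]]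

/-- A surrogate. -/
def root_s5 : List (List (List (List (List ℤ)))) :=
  [[[[[11913207336,(-331440676),1310273,(-888),(-3)],[(-575133260),8031469,(-12776),(-55)],[8266006,(-40248),(-302),2],[(-26382),(-641),8],[(-467),12],[7]],[[(-1091422002),7628404,(-22589),46],[30932441,(-190273),623,(-2)],[(-333338),2058,(-10)],[1612,(-18)],[(-4)]],[[1193285,106423,(-396)],[117556,(-3284),9],[(-3967),42],[46]],[[349658,(-1125),1],[(-8583),23],[91]],[[(-146),(-7)],[2]],[[(-29)],[1]]],[[[8867798080,(-304446770),1128921,(-657),(-3)],[(-498544321),7635202,(-12131),(-46)],[8022140,(-49821),(-216),1],[(-41015),(-352),4],[(-217),6],[3]],[[(-1054857823),6139837,(-13942),30],[29629416,(-139651),361,(-1)],[(-317669),1340,(-4)],[1510,(-7)],[(-2)]],[[2695214,97269,(-334)],[54575,(-2723),6],[(-2110),28],[23]],[[398919,(-1305)],[(-10560),23],[94]],[[(-295),(-9)],[11]],[[(-31)]]],[[[1308121982,(-92514239),301268,58,(-1)],[(-125897735),2426903,(-2692),(-17)],[2473979,(-18671),(-63)],[(-17475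),(-57)],[(-14)]],[[(-354320116),1698525,(-3072),8],[10184407,(-39221),93],[(-116743),438],[632]],[[1469534,30742,(-101)],[(-7518),(-738)],[72]],[[150188,(-500)],[(-3874)]],[[(-301)]]],[[[(-171081823),(-13436281),41844,51],[(-9588398),374749,(-194)],[297064,(-2450)],[(-2027)]],[[(-58277843),254932,(-567)],[1709831,(-6929)],[(-17477)]],[[472526,2829],[(-16760)]],[[24458]]],[[[(-57319278),(-961052),2657],[518164,23279],[8224]],[[(-4749865),20322],[102938]],[[90482]]],[[[(-4472697),(-26870)],[67277]],[[(-107275)]]],[[[(-86703)]]]],[[[[5699199229,(-159798370),565014,(-109),(-4)],[(-274813733),3666667,(-2167),(-60)],[3828096,(-11557),(-272),1],[(-8781),(-469),4],[(-285),6],[3]],[[(-398815139),(-925870),2567,24],[7748230,23373,92,(-1)],[(-44326),(-72),(-4)],[(-3),(-5)]],[[(-11668069),35207],[289721,(-621),1],[(-2917),3],[4]],[[(-28489),690],[1227,(-11)],[(-8)]],[[1953,3],[(-42)]],[[13]]],[[[4056623097,(-147181207),524230,(-519),(-1)],[(-236586357),3731374,(-6709),(-18)],[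3934878,(-27821),(-80)],[(-23495),(-121)],[(-67)]],[[(-409028175),(-1776115),7418,10],[7571204,53219,(-41)],[(-37460),(-364)],[(-142)]],[[(-13416691),33575,56],[349433,(-470)],[(-2631)]],[[(-42287),736],[904]],[[1957]]],[[[474289573,(-44302869),137047,(-53)],[(-56816095),1198004,(-1771)],[1197467,(-9763)],[(-8892)]],[[(-166503325),(-718177),2823],[3422444,18032],[(-19578)]],[[(-5278769),12480],[118315]],[[(-5896)]]],[[[(-119766156),(-6593395),20192],[(-3559602),175935],[131385]],[[(-35712390),(-72561)],[751916]],[[(-804886)]]],[[[(-34076352),(-424196)],[419599]],[[(-3540849)]]],[[[(-2479699)]]]],[[[[335798864,(-7646983),(-22641),338,(-2)],[(-14032201),46909,2257,(-18)],[99631,3691,(-63)],[1947,(-93)],[(-49)]],[[(-9347070),(-581417),1304,(-1)],[(-418543),16420,(-18)],[13919,(-137)],[(-136)]],[[(-1585582),(-10726),16],[33300,241],[(-98)]],[[(-47566),(-52)],[910]],[[(-399)]]],[[[246637027,(-8572784),14105,(-35)],[(-14307766),200442,(-153)],[235442,(-1167)],[(-1196)]],[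[(-16630152),(-503352),512],[(-57455),10448],[6603]],[[(-1775815),(-8978)],[29191]],[[(-40402)]]],[[[16557902,(-2302815),172],[(-2788013),51159],[58948]],[[(-9021195),(-152528)],[66935]],[[(-635627)]]],[[[(-7004262),(-376758)],[(-191280)]],[[(-2261524)]]],[[[(-2043150)]]]],[[[[(-5105928),155201,(-930),1],[259724,(-4966),14],[(-4890),42],[32]],[[283694,3649,(-28)],[(-4656),(-109)],[(-18)]],[[20564,(-39)],[(-425)]],[[258]]],[[[(-4185434),162551,(-794)],[241896,(-4181)],[(-3974)]],[[406503,2884],[(-5186)]],[[18497]]],[[[(-280984),44682],[51130]],[[167458]]],[[[287452]]]]]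

/-- A surrogate. -/
def root_s11 : List (List (List (List (List ℤ)))) :=
  [[[[[6839780797,(-44236703),74077,12],[(-177008309),829752,(-809)],[1707442,(-4877),1],[(-6605),2],[(-2)]],[[(-22874290),84836,(-1)],[578863,(-1704),1],[(-7204),27],[67]],[[(-2660143),16190,(-25)],[68633,(-306)],[(-690),2],[3]],[[2387,(-12)],[(-65)],[1]],[[188,(-1)],[(-5)]],[[(-1)]]],[[[940188510,(-6317380),11106,2],[(-24380545),118069,(-116)],[229098,(-633)],[(-741),(-1)],[(-2)]],[[2843179,(-30225),76],[(-76108),531,(-1)],[398],[6]],[[(-334275),2025,(-3)],[8686,(-37)],[(-86)]],[[(-1541),9],[34]],[[17],[(-1)]]],[[[36670577,(-267220),515],[(-955252),4960,(-5)],[8447,(-21)],[(-13)]],[[394034,(-3450),7],[(-10404),58],[67],[1]],[[(-9041),54],[246,(-1)],[(-4)]],[[(-106),1],[3]]],[[[288818,(-2822),7],[(-7673),51],[49]],[[7702,(-75)],[(-204),1],[1]],[[51,(-1)],[(-1)]]]],[[[[2138838094,(-12649831),18550,(-1)],[(-55105682),239460,(-227)],[562069,(-1700),1],[(-2884),6],[8]],[[99755422,(-607160),929],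[(-2573903),11425,(-11)],[25732,(-76)],[(-121)]],[[530597,(-3403),6],[(-13539),63],[128]],[[(-15155),89],[387,(-2)],[(-5)]],[[(-74)],[1]],[[1]]],[[[181737466,(-1012940),1335],[(-4669481),19306,(-18)],[49247,(-152)],[(-285),1],[1]],[[12537173,(-75360),112],[(-323350),1409,(-1)],[3234,(-10)],[(-17)]],[[168991,(-1040),1],[(-4308),17],[37]],[[(-477),6],[25]],[[(-15)]]],[[[1779501,(-2206),(-17)],[(-44115),53],[655,(-4)],[(-11)]],[[339377,(-1889),3],[(-8681),47],[115]],[[8083,(-57)],[(-241)]],[[57]]],[[[(-72204),705,(-2)],[1918,(-13)],[(-12)]],[[(-1925),19],[52]],[[(-13)]]]],[[[[(-400497671),2529200,(-4099)],[10351882,(-47548),46],[(-101418),297],[433]],[[2524349,(-11254),6],[(-64334),205,(-1)],[717,(-7)],[(-12)]],[[423577,(-2513),4],[(-10883),53],[122]],[[4759,(-25)],[(-105)]],[[(-25)]]],[[[(-72101636),453089,(-732)],[1863235,(-8552),7],[(-18381),46],[67]],[[(-1600277),10397,(-12)],[41728,(-134)],[(-265)]],[[12678,(-136)],[(-610)]],[[611]]],[[[(-2736773),17255,(-28)],[70737,(-331)],[(-709)]],[[(-109470),703],[2883]],[[(-1484)]]]],[[[[(-115901491),702579,(-1075)],[2989767,(-13303),12],[(-30141),83],[134]],[[(-4873502),29749,(-40)],[126240,(-489)],[(-1100)]],[[(-54352),225],[933]],[[544]]],[[[(-8023541),48760,(-77)],[207032,(-946)],[(-2136)]],[[(-427909),2663],[11314]],[[(-8746)]]]],[[[[(-6130633),36755,(-57)],[158115,(-718)],[(-1654)]],[[(-408694),2523],[10859]],[[(-11197)]]]]]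

/-- A surrogate. -/
def root_s12 : List (List (List (List (List ℤ)))) :=
  [[[[[(-861157543),(-15427317),129716,(-255)],[(-3845279),817795,(-4214),6],[697443,(-14871),49],[(-11899),125],[88]],[[113262696,(-525140),94,1],[(-3167895),9578,6],[33966,(-44)],[(-151)]],[[587226,3457,(-41)],[(-6454),(-248),1],[(-189),5],[5]],[[(-40755),178],[1150,(-4)],[(-13)]],[[(-202)],[5]],[[2]]],[[[(-835645067),(-2875832),47623,(-114)],[14356485,224697,(-1520),2],[47171,(-4533),18],[(-2779),41],[26]],[[33954771,(-202317),343],[(-1004688),4583,(-8)],[11727,(-42)],[(-66)]],[[491691,(-457),(-11)],[(-10877),(-39)],[46,1],[1]],[[(-10218),56],[303,(-1)],[(-4)]],[[(-78)],[2]],[[1]]],[[[(-227633063),200110,6477,(-20)],[5277291,17207,(-215)],[(-34466),(-494),2],[(-98),4],[2]],[[3599473,(-26586),80],[(-111625),683,(-1)],[1339,(-5)],[(-8)]],[[125359,(-436),(-1)],[(-3160),2],[22]],[[(-663),7],[33]],[[(-13)]]],[[[(-25907677),76056,377,(-1)],[671912,(-348),(-12)],[(-6453),(-18)],[14]],[[137650,(-1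312),5],[(-3998),48],[102]],[[12952,(-61)],[(-359)]]],[[[(-1299622),5451,9],[36197,(-57)],[(-307)]],[[(-1483),(-61)],[(-230)]],[[688]]],[[[(-23772),97],[574]],[[49]]]],[[[[(-91173896),(-21447632),140190,(-243)],[(-23672826),840869,(-3690),4],[779036,(-12522),37],[(-9869),92],[63]],[[10460908,(-322325),1864,(-3)],[(-692778),13426,(-59)],[16823,(-222)],[(-208),1],[1]],[[1378061,(-1821),(-24)],[(-34549),(-9),1],[348,1],[(-1)]],[[21317,(-46)],[(-543)],[4]],[[(-49)],[3]],[[(-2)]]],[[[(-531236717),(-2824070),35306,(-78)],[8611168,161785,(-1000),1],[29840,(-2880),9],[(-1571),20],[12]],[[(-7987547),(-57049),649,(-1)],[99894,3366,(-14)],[1652,(-49)],[(-40)]],[[396974,(-1610),(-3)],[(-11172),26],[140]],[[7673,(-24)],[(-191)]],[[(-9)]]],[[[(-147364045),263651,2991,(-8)],[3637496,4245,(-88)],[(-30445),(-182)],[25]],[[(-3578748),7527,56],[89695,117],[(-454)]],[[24497,(-222)],[(-1207)]],[[1056]]],[[[(-15110402),61963,76],[415472,(-788)],[(-3969)]],[[(-461779),1642],[10794]],[[(-5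12)]]],[[[(-658902),3253],[18304]],[[(-22354)]]],[[[(-10472)]]]],[[[[115752259,(-7083742),40314,(-63)],[(-10351273),240220,(-942),1],[239183,(-3178),8],[(-2547),19],[13]],[[(-6107717),(-199035),1403,(-2)],[(-79026),7627,(-30)],[5297,(-96)],[(-68)]],[[(-204408),(-1039),9],[3557,42],[9]],[[1047,4],[(-50)]],[[70]]],[[[(-91202765),(-729096),7258,(-13)],[1325566,32927,(-173)],[6671,(-497)],[(-262)]],[[(-6269806),(-12405),240],[132683,923],[(-474)]],[[(-116708),16],[2086]],[[238]]],[[[(-21815581),46419,361],[557570,210],[(-4811)]],[[(-1194908),3186],[29191]],[[(-19325)]]],[[[(-1505563),6896],[42183]],[[(-79345)]]],[[[(-32909)]]]],[[[[11540200,(-506760),2751,(-4)],[(-797964),16341,(-61)],[16623,(-208)],[(-170)]],[[(-397233),(-23036),152],[(-13925),824],[616]],[[(-42581),(-345)],[592]],[[(-953)]]],[[[(-5317705),(-26516),323],[98004,1332],[(-167)]],[[(-513380),(-380)],[11572]],[[(-17707)]]],[[[(-834281),3181],[23321]],[[(-61680)]]],[[[(-25856)]]]]]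

/-- A surrogate. -/
def root_s13 : List (List (List (List (List ℤ)))) :=
  [[[[[(-64590666),1111953,16137,(-121)],[2979281,(-7065),(-405),1],[(-48399),169,(-1)],[661,(-11)],[(-10)]],[[4157355,128544,(-1446),5],[(-39128),(-3718),27],[661,14],[(-38),1],[1]],[[311078,(-7040),39],[(-11192),180,(-1)],[126,(-1)]],[[(-11919),99],[350,(-3)],[(-4)]],[[52],[(-2)]]],[[[(-87049421),2644777,2835,(-78)],[4833148,(-58238),(-122),1],[(-85755),710,(-2)],[922,(-11)],[(-9)]],[[10270444,28862,(-884),4],[(-263924),(-1080),16],[3668,(-7)],[(-50)]],[[131968,(-5293),33],[(-6082),142,(-1)],[67,(-1)]],[[(-11209),95],[347,(-2)],[(-4)]],[[55],[(-2)]]],[[[(-23298524),1408255,(-4272),(-9)],[1917492,(-38315),69],[(-38517),435,(-1)],[378,(-3)],[(-2)]],[[5776142,(-29663),(-64),1],[(-176925),698],[2390,(-11)],[(-18)]],[[(-34646),(-986),7],[417,25],[(-11)]],[[(-3488),28],[104]],[[19]]],[[[3976662,203321,(-958)],[93048,(-6185),12],[(-3897),51],[33]],[[975966,(-7015),16],[(-31487),182],[346]],[[(-147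78),(-26)],[518]],[[(-488)]]],[[[1112422,11071,(-51)],[(-18179),(-281)],[13]],[[72136,(-513)],[(-1569)]],[[(-2241)]]],[[[74804,144],[(-1334)]],[[935]]],[[[1014]]]],[[[[(-50850790),1188146,3268,(-50)],[2662332,(-29009),(-78),1],[(-50912),451,(-1)],[613,(-8)],[(-6)]],[[2108589,88521,(-595),1],[1774,(-2443),12],[(-358),21],[(-6)]],[[256610,(-1290)],[(-7267),34],[96]],[[958,(-18)],[(-31)]],[[(-32)],[1]]],[[[(-61037739),2034889,(-4052),(-29)],[3642548,(-58577),86],[(-72532),801,(-1)],[793,(-6)],[(-5)]],[[5270262,63512,(-550),1],[(-97006),(-1948),9],[842,15],[(-7)]],[[277407,(-1585),1],[(-8379),33],[82]],[[594,(-11)],[(-9)]],[[(-27)]]],[[[(-14874192),955184,(-4215),(-1)],[1300130,(-30029),77],[(-28818),336],[272]],[[3326910,9176,(-138)],[(-83035),(-351)],[722]],[[103563,(-562)],[(-2738)]],[[(-33)]]],[[[2753198,130239,(-728)],[48617,(-4169)],[(-2575)]],[[748976,(-437)],[(-18679)]],[[15053]]],[[[740410,6450],[(-12747)]],[[71754]]],[[[49172]]]],[[[[(-2801719),57950,419,(-4)]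,[153063,(-1440),(-6)],[(-3192),41],[53,(-1)]],[[(-21906),9167,(-49)],[6884,(-281),1],[(-132),2],[1]],[[21322,74,(-1)],[(-644),(-2)],[5]],[[660,(-2)],[(-16)]],[[4]]],[[[(-3541311),115768,(-176),(-2)],[218189,(-3725),3],[(-4724),49],[50]],[[184024,8289,(-44)],[20,(-231)],[(-75)]],[[28246,25],[(-655)]],[[555]]],[[[(-805966),54618,(-244)],[72329,(-1791)],[(-1732)]],[[177541,1990],[(-3020)]],[[11024]]],[[[205082,5863],[(-324)]],[[45259]]],[[[38752]]]],[[[[159560,(-4850),29],[(-8116),155],[153,(-1)],[(-1)]],[[(-8865),(-114),1],[146,3],[1]],[[(-643),1],[13]],[[(-8)]]],[[[130795,(-5080),25],[(-7559),131],[124]],[[(-12703),(-90)],[162]],[[(-578)]]],[[[8781,(-1396)],[(-1598)]],[[(-5233)]]],[[[(-8983)]]]]]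

/-- A surrogate. -/
def root_s14 : List (List (List (List (List ℤ)))) :=
  [[[[[(-60553740),1042459,15128,(-114)],[2793069,(-6625),(-380),1],[(-45377),158,(-1)],[620,(-10)],[(-9)]],[[3090209,134409,(-1154),3],[573,(-3570),20],[17,17],[(-26)],[1]],[[343561,(-4997),18],[(-10974),122],[129,(-1)]],[[(-7303),3],[181],[(-3)]],[[(-101),1],[3]],[[1]]],[[[(-81608742),2479487,2659,(-73)],[4531112,(-54591),(-114),1],[(-80392),665,(-2)],[864,(-10)],[(-8)]],[[8540362,60098,(-797),2],[(-186984),(-1759),14],[2355,3],[(-35)]],[[251947,(-4602),20],[(-9080),121],[111,(-1)]],[[(-8795),24],[256,(-1)],[(-3)]],[[(-90),1],[2]],[[1]]],[[[(-21842473),1320223,(-4005),(-8)],[1797683,(-35919),65],[(-36107),408,(-1)],[355,(-2)],[(-2)]],[[5123501,(-10172),(-114)],[(-141979),172,1],[1760,(-7)],[(-14)]],[[40141,(-1293),7],[(-1825),33],[14]],[[(-3712),17],[114]],[[(-23)]]],[[[3727934,190604,(-900)],[87186,(-5806),11],[(-3656),48],[31]],[[965019,(-4020),6],[(-28399),116],[290]],[[(-1548),(-107)],[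195]],[[(-704)]]],[[[1042995,10389,(-48)],[(-17083),(-265)],[12]],[[81827,(-377)],[(-1641)]],[[(-1563)]]],[[[70233,136],[(-1258)]],[[1590]]],[[[956]]]],[[[[(-47672553),1113886,3065,(-47)],[2495941,(-27189),(-73),1],[(-47728),422,(-1)],[574,(-7)],[(-6)]],[[1341135,97829,(-518)],[34993,(-2666),11],[(-987),28],[3]],[[266787,(-91),(-8)],[(-6813)],[90]],[[4178,(-37)],[(-137),1],[1]],[[(-19)],[1]]],[[[(-57223034),1907691,(-3797),(-27)],[3414986,(-54904),81],[(-67991),752,(-1)],[744,(-6)],[(-5)]],[[4177404,85039,(-573)],[(-45361),(-2595),9],[(-135),22],[2]],[[326372,(-703),(-5)],[(-9252),11],[87]],[[4140,(-28)],[(-97)]],[[(-24)]]],[[[(-13945100),895468,(-3955),(-1)],[1218891,(-28170),73],[(-27024),317],[256]],[[2933218,20610,(-177)],[(-61842),(-668)],[353]],[[139546,(-434)],[(-3504)]],[[1078]]],[[[2581221,122133,(-686)],[45430,(-3929)],[(-2426)]],[[737794,1126],[(-16950)]],[[22757]]],[[[694800,6078],[(-12027)]],[[76422]]],[[[46367]]]],[[[[(-2626571),54325,394,(-4)],[143513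,(-1345),(-5)],[(-2988),39],[50]],[[(-55680),9303,(-42)],[8361,(-294),1],[(-175),3],[1]],[[19660,197,(-2)],[(-539),(-5)],[4]],[[961,(-1)],[(-22)]],[[11]]],[[[(-3320174),108509,(-166),(-2)],[204552,(-3496),3],[(-4431),46],[47]],[[127988,9286,(-43)],[2744,(-260)],[(-125)]],[[29270,121],[(-612)]],[[848]]],[[[(-755788),51217,(-230)],[67776,(-1688)],[(-1632)]],[[157088,2558],[(-1916)]],[[12510]]],[[[192549,5527],[(-313)]],[[45238]]],[[[36549]]]],[[[[149608,(-4543),27],[(-7605),146],[143,(-1)],[(-1)]],[[(-6309),(-177),1],[25,5],[2]],[[(-749)],[14]],[[(-15)]]],[[[122650,(-4765),23],[(-7088),123],[117]],[[(-10373),(-143)],[65]],[[(-687)]]],[[[8180,(-1316)],[(-1505)]],[[(-4782)]]],[[[(-8472)]]]]]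

/-- A surrogate. -/
def root_s15 : List (List (List (List (List ℤ)))) :=
  [[[[[(-4526583249),(-32851692),326762,(-513)],[84539955,671336,(-2925),(-2)],[(-1070601),4305,(-38)],[17088,(-168),1],[(-182),1],[1]],[[(-117312609),2584845,(-13023),21],[2737327,(-43858),143],[5055,(-40)],[(-628),5],[7]],[[9053204,(-72524),197],[(-217549),1290,(-2)],[1565,(-5)],[2]],[[(-83267),568,(-1)],[2016,(-11)],[(-17)]],[[206,(-2)],[(-6)]]],[[[(-5147878933),12888490,57155,(-105)],[124627229,(-224018),(-333),(-2)],[(-1337540),4181,(-15)],[10534,(-62)],[(-75)]],[[58389784,170276,(-3110),8],[(-1652692),(-3092),47],[24107,(-31)],[(-238),1],[2]],[[3414643,(-26304),71],[(-90242),541,(-1)],[867,(-3)],[(-2)]],[[(-33723),234,(-1)],[920,(-5)],[(-10)]],[[85,(-1)],[(-3)]]],[[[(-1121419537),4540819,1091,(-4)],[28639112,(-86938),50],[(-313378),1006,(-2)],[2278,(-8)],[(-11)]],[[17824117,(-50100),(-294),1],[(-492537),734,5],[5443,(-13)],[(-44)]],[[551934,(-4002),10],[(-15249),82],[149]],[[(-4583),35]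,[146]],[[11]]],[[[(-99470147),458882,(-343),1],[2631069,(-9523),9],[(-30656),73],[166]],[[1688387,(-6723),(-7)],[(-45108),189],[659]],[[44980,(-305)],[(-1239)]],[[(-303)]]],[[[(-3877241),18818,(-17)],[107371,(-277)],[(-950)]],[[67480,(-487)],[(-2614)]],[[1917]]],[[[(-47694),112],[910]],[[1612]]],[[[384]]]],[[[[(-4012761615),(-7204414),164480,(-355)],[97130483,95585,(-1664),2],[(-1236077),4239,(-12)],[12911,(-88)],[(-103),1]],[[(-193913813),1323113,(-2798),2],[4615823,(-23658),39],[(-36089),122],[36],[1]],[[1227160,(-2711),(-18)],[(-30216),71],[361,(-1)],[(-2)]],[[29459,(-218)],[(-727),4],[5]],[[(-165),1],[4]]],[[[(-4009697896),16563670,16551,(-116)],[108277859,(-352908),(-191),1],[(-1242031),3849,(-2)],[8424,(-26)],[(-34)]],[[(-88975325),587029,(-1204),1],[2338956,(-12247),18],[(-23912),73],[75]],[[751592,(-3687),2],[(-21289),104],[291]],[[11861,(-76)],[(-281)]],[[(-71)]]],[[[(-830860102),4333823,(-2161),(-13)],[23222176,(-92791),17],[(-268807),733],[1491]],[[(-165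81990),108079,(-180)],[463921,(-1941)],[(-4113)]],[[91475,(-684)],[(-3574)]],[[1709]]],[[[(-71231685),404561,(-351)],[2044913,(-8121)],[(-22237)]],[[(-1514271),8497],[37749]],[[4362]]],[[[(-2776283),15954],[78939]],[[(-62573)]]],[[[(-41512)]]]],[[[[(-549909149),(-1134776),23995,(-56)],[14122111,10236,(-252)],[(-191217),696,(-1)],[2059,(-11)],[(-13)]],[[(-43046843),185373,81,(-1)],[1060913,(-3812)],[(-10842),30],[44]],[[(-627925),4191,(-7)],[15651,(-64)],[(-101)]],[[1103,(-6)],[(-48)]],[[43]]],[[[(-534264675),2419962,1405,(-16)],[15115770,(-55047),(-23)],[(-181366),519],[1112]],[[(-24753300),141599,(-136)],[686078,(-2768)],[(-6876)]],[[(-289646),1584],[6388]],[[890]]],[[[(-91309426),507889,(-328)],[2664214,(-10855)],[(-30511)]],[[(-3844553),22201],[104624]],[[(-40927)]]],[[[(-5669267),33489],[167742]],[[(-231243)]]],[[[(-122748)]]]],[[[[(-8307927),(-140978),1176,(-2)],[263260,1692,(-12)],[(-6016),21],[76]],[[(-1878089),4761,29],[50611,(-105)],[(-529)]],[[(-68272),317],[1621]],[[(-831)]]],[[[(-12469095),53538,83],[414336,(-1618)],[(-5826)]],[[(-1113159),6410],[33877]],[[(-31778)]]],[[[(-1874000),11333],[63039]],[[(-132842)]]],[[[(-72353)]]]],[[[[1108013,(-6741),9],[(-26485),104],[212]],[[59960,(-333)],[(-1308)]],[[1108]]],[[[605009,(-3675)],[(-14442)]],[[32614]]],[[[26005]]]]]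

/-- A root. -/
def root : Root where
  cl := true
  box := fun i => match i with
    | 0 => ⟨31, 23, 400, 80⟩
    | 1 => ⟨93, 191, 100, 200⟩
    | 2 => ⟨7, 14287, 50, 100000⟩
    | _ => ⟨119, 3, 400, 10⟩
  De := 400
  e0 := 41
  e1 := 176
  p := fun i => match i with
    | 0 => 10
    | 1 => 80
    | 2 => 697
    | 3 => 800
    | _ => 6
  q := fun i => match i with
    | 0 => 2
    | 1 => 75
    | 2 => 99
    | 3 => 239
    | _ => 2
  den := 17179869184
  sur := fun k => match k with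
    | 0 => root_s0
    | 1 => root_s1
    | 3 => root_s3
    | 5 => root_s5
    | 11 => root_s11
    | 12 => root_s12
    | 13 => root_s13
    | 14 => root_s14
    | 15 => root_s15
    | _ => []
  eps := fun k => match k with
    | 0 => 343656
    | 1 => 790704
    | 3 => 377332
    | 5 => 336853
    | 11 => 613
    | 12 => 8206
    | 13 => 7059
    | 14 => 7707
    | 15 => 12454
    | _ => 0

/-- A leaf. -/
def leaf0 : Leaf :=
  ⟨⟨93, 377, 100, 400⟩, ⟨7, 14287, 50, 100000⟩, ⟨119, 3, 400, 10⟩,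
    16384, (4758, -28373, -20464, 8923), (-7847, -39322, -919, 25025), 16384, (19865, 49490, 59256, -41286), (-38557, 12123, 6386, 34330), (9169, 63101, 80965, -35499), (4999, 8168, -1766, -8441),
    true, 0, 1, 3364, (-274), 3859, 4096, (-3914), 2734⟩

/-- A tile. -/
def tile0 : Tile :=
  ⟨⟨93, 377, 100, 400⟩, ⟨7, 14287, 50, 100000⟩, ⟨119, 3, 400, 10⟩, 16384, (4758, -28373, -20464, 8923), (-7847, -39322, -919, 25025), 6923,
    (1024, 0), (8, 1024), 0, 3, (leaf0, ⟨(1024, 440), (1024, 521)⟩),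
    []⟩

/-- A leaf. -/
def leaf1 : Leaf :=
  ⟨⟨377, 759, 400, 800⟩, ⟨7, 14287, 50, 100000⟩, ⟨119, 3, 400, 10⟩,
    16384, (3743, -29403, -21166, 10434), (-3812, -34797, -10054, 19586), 16384, (17927, 53495, 67728, -40691), (17799, -4293, -25226, -15250), (15406, 60435, 75799, -41171), (-3898, 7066, 9894, 759),
    true, 0, 1, 3469, (-304), 2140, 4096, (-2939), 2149⟩

/-- A leaf. -/
def leaf2 : Leaf :=
  ⟨⟨377, 759, 400, 800⟩, ⟨7, 14287, 50, 100000⟩, ⟨119, 3, 400, 10⟩,
    16384, (-3812, -34797, -10054, 19586), (-11367, -40191, 1058, 28738), 16384, (44395, 45581, 33733, -63572), (-64425, 19110, 38652, 56239), (13738, 61325, 78028, -39927), (10870, 332, -13591, -10753),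
    true, 0, 1, 2830, (-338), 3847, 4096, (-3061), 2884⟩

/-- A tile. -/
def tile1 : Tile :=
  ⟨⟨377, 759, 400, 800⟩, ⟨7, 14287, 50, 100000⟩, ⟨119, 3, 400, 10⟩, 16384, (3743, -29403, -21166, 10434), (-11367, -40191, 1058, 28738), 6923,
    (1024, 0), (15, 1024), 0, 3, (leaf1, ⟨(1024, 0), (172, 1024)⟩),
    [(leaf2, ⟨(371, 1024), (1024, 0)⟩)]⟩

/-- A leaf. -/
def leaf3 : Leaf :=
  ⟨⟨759, 191, 800, 200⟩, ⟨7, 14287, 50, 100000⟩, ⟨119, 3, 400, 10⟩,
    16384, (2771, -30039, -21647, 11730), (-5780, -35348, -9456, 21744), 16384, (21479, 51593, 66425, -43642), (20005, -5428, -27818, -16832), (18657, 59850, 75574, -44383), (-3622, 6852, 9749, 558),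
    true, 0, 1, 3159, (-295), 2216, 4096, (-2985), 2213⟩

/-- A leaf. -/
def leaf4 : Leaf :=
  ⟨⟨759, 191, 800, 200⟩, ⟨7, 14287, 50, 100000⟩, ⟨119, 3, 400, 10⟩,
    16384, (-5780, -35348, -9456, 21744), (-14330, -40657, 2736, 31758), 16384, (28143, 45180, 38283, -46817), (-67239, 23506, 46219, 56672), (17289, 59772, 76879, -43008), (12261, -314, -14854, -11829),
    true, 0, 1, 2751, (-383), 3959, 4096, (-2994), 2930⟩

/-- A tile. -/
def tile2 : Tile :=
  ⟨⟨759, 191, 800, 200⟩, ⟨7, 14287, 50, 100000⟩, ⟨119, 3, 400, 10⟩, 16384, (2771, -30039, -21647, 11730), (-14330, -40657, 2736, 31758), 6923,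
    (1024, 0), (22, 1024), 0, 3, (leaf3, ⟨(1024, 1), (178, 1024)⟩),
    [(leaf4, ⟨(191, 1024), (1024, 0)⟩)]⟩

/-- The subdivision. -/
def tree : Tree :=
  (.node 0 377 400
    (.tile tile0)
    (.node 0 759 800
    (.tile tile1)
    (.tile tile2)))

def tree_ok : tree.ok pieceC 448 ⟨93, 191, 100, 200⟩ ⟨7, 14287, 50, 100000⟩ ⟨119, 3, 400, 10⟩ = true := by
  decide +kernel

def root_ok0 : root.okEnt 576 0 = true := by decide +kernel

def root_ok1 : root.okEnt 576 1 = true := by decide +kernel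

def root_ok3 : root.okEnt 576 3 = true := by decide +kernel

def root_ok5 : root.okEnt 576 5 = true := by decide +kernel

def root_ok11 : root.okEnt 576 11 = true := by decide +kernel

def root_ok12 : root.okEnt 576 12 = true := by decide +kernel

def root_ok13 : root.okEnt 576 13 = true := by decide +kernel

def root_ok14 : root.okEnt 576 14 = true := by decide +kernel

def root_ok15 : root.okEnt 576 15 = true := by decide +kernel

def leaf0_ok : leaf0.okLeaf root 640 = true := by decide +kernel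

def leaf1_ok : leaf1.okLeaf root 640 = true := by decide +kernel

def leaf2_ok : leaf2.okLeaf root 640 = true := by decide +kernel

def leaf3_ok : leaf3.okLeaf root 640 = true := by decide +kernel

def leaf4_ok : leaf4.okLeaf root 640 = true := by decide +kernel

theorem leaves_eq : tree.leaves =
    [leaf0, leaf1, leaf2, leaf3, leaf4] := rfl

theorem leaves_ok : ∀ F ∈ tree.leaves, Leaf.okLeaf F root 640 = true := by
  rw [leaves_eq]
  exact all'_cons leaf0_ok (all'_cons leaf1_ok (all'_cons leaf2_ok (all'_cons leaf3_ok (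
    all'_cons leaf4_ok ((fun F hF => absurd hF List.not_mem_nil))))))

theorem root_ok : ∀ k ∈ [0, 1, 3, 5, 11, 12, 13, 14, 15], root.okEnt 576 k = true := by
  intro k hk
  simp only [List.mem_cons, List.not_mem_nil, or_false] at hk
  rcases hk with rfl | rfl | rfl | rfl | rfl | rfl | rfl | rfl | rfl
  · exact root_ok0
  · exact root_ok1
  · exact root_ok3
  · exact root_ok5
  · exact root_ok11
  · exact root_ok12
  · exact root_ok13
  · exact root_ok14
  · exact root_ok15

theorem used_ok : ∀ F ∈ tree.leaves, ∀ k ∈ Leaf.used F, root.okEnt 576 k = true := by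
  intro F hF k hk
  refine root_ok k ?_
  rw [leaves_eq] at hF
  have h : ([leaf0, leaf1, leaf2, leaf3, leaf4]).all (fun G => G.used.all fun j => [0, 1, 3, 5, 11, 12, 13, 14, 15].any (Nat.beq j)) = true := by
    decide +kernel
  simp only [List.all_eq_true, List.any_eq_true] at h
  obtain ⟨j, hj, e⟩ := h F hF k hk
  exact Nat.eq_of_beq_eq_true e ▸ hj

/-- **The signs on the box.** -/
theorem signs {a I u X η : ℝ} (hf : Facts pieceC a I u X η) (hu : In1 ⟨93, 191, 100, 200⟩ u)
    (hI : In1 ⟨7, 14287, 50, 100000⟩ I) (ha : In1 ⟨119, 3, 400, 10⟩ a) :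
    ClosedGen.SignsMult a (rd (mk4 X u I a)) (rv (mk4 X u I a)) (rg (mk4 X u I a) η)
      (rW (mk4 X u I a) η) (rW1 (mk4 X u I a) η) (rR (mk4 X u I a))
      (rNum true (mk4 X u I a) η) :=
  Tree.signs (T := tree) (R := root) tree_ok leaves_ok used_ok hf hu hI ha

end Vale.Agent.P100.Calib.MidTail.BoxIII1U2
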