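import Vale.Agent.P100.Calib.SlabMidTailPieces

/-!
# The signs on a box of the middle tail

`u, I, a` lie in the box of `root`; the surrogates and leaves are checked by the kernel.
-/

namespace Vale.Agent.P100.Calib.MidTail.BoxIII1U3

open Pack EndAll Band

/-- A surrogate. -/
def root_s0 : List (List (List (List (List ℤ)))) :=
  [[[[[4624880567,(-200552948),1190834,(-3742),9],[(-283528771),5722830,(-24422),49],[4823919,(-51566),39,1],[(-26806),(-71),5],[(-119),6],[3]],[[(-340408117),4355949,(-16465),37],[7074326,(-81750),364],[22153,321,(-2)],[(-1845),9],[28]],[[7097071,101759,(-506),1],[(-73098),(-3104),12],[(-588),38],[12]],[[325082,(-726),(-4)],[(-7248),(-5)],[47]],[[634,(-27)],[(-43)],[1]],[[(-48)],[1]]],[[[2231129755,(-163898844),845115,(-2456),6],[(-198880777),4461795,(-15445),23],[3627406,(-37982),(-5),1],[(-20994),(-7),3],[(-45),3],[1]],[[(-264831587),3018671,(-8237),14],[4135171,(-28732),10],[75363,(-929),3],[(-2653),19],[29]],[[10863654,90344,(-4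68),1],[(-207568),(-2438),8],[1495,20],[(-8)]],[[431515,(-1117),(-4)],[(-10885),(-4)],[69]],[[1304,(-24)],[(-66)]],[[(-35)]]],[[[(-433905362),(-41156506),144075,(-310),1],[(-28141934),1027241,(-1825),(-1)],[693661,(-8598),(-12)],[(-4403),29],[9]],[[(-48723642),427823,806,(-4)],[(-29175),12959,(-121)],[44151,(-665)],[(-962)]],[[5215187,25884,(-101)],[(-107692),(-643)],[550]],[[176085,(-263)],[(-3947)]],[[801]]],[[[(-269589011),(-5349721),10097,(-5)],[1588762,130056,(-146)],[21859,(-1536)],[(-264)]],[[(-756723),(-11097),717],[(-180619),5419],[7089]],[[1176058,2995],[(-18562)]],[[29529]]],[[[(-42697663),(-358061),707],[859737,10968],[(-10776)]],[[657151,(-8799)],[(-6810)]],[[99183]]],[[[(-2765050),(-9614)],[99223]],[[6418]]],[[[(-81568)]]]],[[[[4331959465,(-174542227),709956,(-459),(-5)],[(-267871885),4707354,(-8845),(-55)],[4768109,(-39006),(-145),2],[(-33299),(-51),5],[44,5],[2]],[[(-315656189),(-2746506),18177,(-38)],[4096804,91787,(-439)],[21830,(-1394),1],[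(-837),5],[5]],[[(-11092488),55029,73,1],[284531,(-845),1],[(-3130),3],[4]],[[(-2308),1551,1],[1716,(-21)],[(-22)]],[[2910,11],[(-42)]],[[27]]],[[[2359556593,(-161003849),628169,(-686),(-4)],[(-212373542),4519413,(-11779),(-24)],[4325018,(-49352),(-8)],[(-39470),166],[153]],[[(-353784796),(-3709917),24352,(-42)],[4236362,137662,(-534)],[40670,(-1821)],[(-1165)]],[[(-13141668),40299,218],[362224,174],[(-2639)]],[[(-46593),1319],[2965]],[[2044]]],[[[(-316395637),(-50209525),188629,(-315)],[(-41080940),1470069,(-4066)],[1150766,(-16606)],[(-12119)]],[[(-169689939),(-1291778),7442],[2952717,46616],[1954]],[[(-5677724),8413],[145544]],[[(-33857)]]],[[[(-319108467),(-7311080),25234],[1373798,210399],[96363]],[[(-41248960),(-177013)],[828001]],[[(-1120789)]]],[[[(-58833602),(-479241)],[1035289]],[[(-4693432)]]],[[[(-3798049)]]]],[[[[318122516,(-9866045),(-69454),643,(-4)],[(-16663141),29954,4163,(-33)],[152169,5244,(-107)],[1578,(-131)],[(-54)]],[[(-8405274),(-10472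41),1295,(-1)],[(-872906),29210,(-23)],[25839,(-264)],[(-252)]],[[(-1991144),(-26414),30],[32270,585],[93]],[[(-68962),(-220)],[1209]],[[(-723)]]],[[[198112151,(-12477224),(-1986),(-68)],[(-17291558),285785,(-240)],[334453,(-2681)],[(-2816)]],[[(-22774137),(-971582),511],[(-333421),20011],[14790]],[[(-2444990),(-21062)],[30203]],[[(-58709)]]],[[[(-34406437),(-3738774),(-6657)],[(-2698650),64093],[63283]],[[(-15018327),(-286800)],[40108]],[[(-901043)]]],[[[(-23107721),(-616578)],[(-79880)]],[[(-3634617)]]],[[[(-4064695)]]]],[[[[(-4763723),197653,(-1218),1],[290761,(-6321),19],[(-5797),54],[39]],[[343892,5477,(-38)],[(-4327),(-158)],[(-51)]],[[23018,(-8)],[(-427)]],[[324]]],[[[(-3107543),205796,(-1033)],[258769,(-5305)],[(-4725)]],[[504110,4478],[(-4793)]],[[20720]]],[[[553182,55621],[48928]],[[206899]]],[[[471370]]]]]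

/-- A surrogate. -/
def root_s1 : List (List (List (List (List ℤ)))) :=
  [[[[[20003819992,(-121443354),75698,1254,(-6)],[(-626937545),3076639,1887,(-62)],[8105282,(-26238),(-183),2],[(-50995),(-130),7],[21,8],[4]],[[(-831017754),5643922,(-12846),18],[27189977,(-185068),630,(-1)],[(-399952),3300,(-13)],[4001,(-41)],[(-35)]],[[(-5034023),15040,3,(-1)],[163727,(-628),(-3)],[(-3007),5],[32]],[[33492,137],[(-240),(-4)],[(-4)]],[[(-171)],[4]]],[[[27399930837,(-169118439),144838,1509,(-9)],[(-854249215),4266344,362,(-78)],[10915986,(-39916),(-164),2],[(-70277),22,5],[151,5],[3]],[[(-1182777840),7431809,(-12644),11],[37370650,(-204255),476,(-1)],[(-491316),2862,(-8)],[3948,(-26)],[(-22)]],[[106254,(-22613),(-13)],[(-43068),235,(-1)],[161],[7]],[[38303,166],[(-240),(-3)],[(-3)]],[[(-196)],[3]]],[[[13383537636,(-85384896),110360,576,(-4)],[(-415338774),2215095,(-1809),(-27)],[5310636,(-24861),(-32)],[(-37931),80],[101]],[[(-586571150),3447699,(-4577),3],[18067021,(-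86806),146],[(-225480),972],[1447]],[[1227295,(-16456),(-3)],[(-61040),243],[580]],[[13410,50],[(-79)]],[[(-49)]]],[[[2918288143,(-19756411),40461,64],[(-89963100),560466,(-936)],[1211396,(-6744)],[(-9116)]],[[(-129242620),719944,(-888)],[3857841,(-16737)],[(-43960)]],[[343395,(-2886)],[(-11539)]],[[1349]]],[[[320926060,(-2409100),6502],[(-10047917),74075],[149812]],[[(-14569104),76082],[405342]],[[29150]]],[[[18330124,(-168489)],[(-669477)]],[[(-846286)]]],[[[616125]]]],[[[[18695069272,(-119491414),52886,1459,(-8)],[(-600599162),2612499,8071,(-111)],[7425817,(-6719),(-403),3],[(-36404),(-451),9],[(-106),10],[5]],[[(-33944398),3255551,(-19147),46],[6019574,(-121925),570],[(-149708),1919,(-4)],[1721,(-11)],[(-8)]],[[122371,(-14369),8],[(-51198),429,1],[1294,(-3)],[(-13)]],[[(-7075),(-95)],[(-93),2],[3]],[[152],[(-2)]]],[[[24995146960,(-153232522),111108,1128,(-7)],[(-791593784),3591292,2028,(-71)],[9917923,(-30841),(-200)],[(-65005),(-100)],[90]],[[31343718,19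83439,(-9017),21],[3173236,(-63557),216],[(-78537),710],[622]],[[(-2232357),(-161),10],[33712,94],[132]],[[(-9080),(-77)],[(-33)]],[[114]]],[[[11961455850,(-70884067),75869,239],[(-371217796),1740887,(-767)],[4704822,(-15976)],[(-28938)]],[[25963805,514110,(-1423)],[559386,(-11237)],[(-11541)]],[[(-1260311),3055],[24807]],[[(-3832)]]],[[[2555512921,(-14544816),16523],[(-77609044),346970],[931789]],[[8157054,30261],[(-118616)]],[[(-187781)]]],[[[282168166,(-1533085)],[(-8253850)]],[[1482263]]],[[[16788666]]]],[[[[1625835352,(-16027563),(-141795),1570,(-6)],[(-71940463),1692,8819,(-61)],[810932,10526,(-201)],[(-998),(-248)],[(-97)]],[[75639523,(-703517),4368,(-9)],[(-2529356),29982,(-131)],[47285,(-472)],[(-461)]],[[180499,4199,(-3)],[6796,(-92)],[(-204)]],[[(-3988),15],[85]],[[(-35)]]],[[[2244175128,(-28145183),1760,451],[(-103586061),636896,1717],[1562813,(-2787)],[(-8452)]],[[82227399,(-516625),2064],[(-2470980),16459],[30901]],[[492560,2442],[(-1588)]],[[(-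2425)]]],[[[1004229149,(-12012008),11317],[(-44547338),265420],[594763]],[[32961684,(-172480)],[(-876852)]],[[226165]]],[[[191108674,(-1936664)],[(-7272350)]],[[4783840]]],[[[16014138]]]],[[[[(-223161439),(-1156804),1537],[1261049,30970,(-16)],[26346,(-217)],[(-252)]],[[(-2157729),(-40561),35],[(-41374),783],[1121]],[[79298,(-337)],[(-1757)]],[[1127]]],[[[(-256697626),(-1404692),1371],[1536624,27615],[20816]],[[(-3202624),(-36441)],[(-17455)]],[[50221]]],[[[(-92040647),(-481240)],[605892]],[[(-1551823)]]],[[[(-10550841)]]]],[[[[(-23344316)],[477691],[(-2807)]],[[(-1113547)],[16742]],[[(-14721)]]],[[[(-25944505)],[407492]],[[(-955331)]]],[[[(-7784983)]]]]]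

/-- A surrogate. -/
def root_s3 : List (List (List (List (List ℤ)))) :=
  [[[[[796627767,(-61270778),558629,(-2588),7],[(-89795432),3052272,(-24754),114],[2829082,(-64140),488,(-3)],[(-43534),798,(-7)],[415,(-8)],[(-3)]],[[137380824,(-603896),9906,(-50)],[(-2516812),15449,(-369),2],[17690,(-475),8],[(-311),12],[8]],[[(-4617298),(-5883),111],[82188,374,(-1)],[(-450),(-3)],[1]],[[(-127057),172,1],[3636,(-1)],[(-48)]],[[(-691),3],[30]]],[[[460678621,(-75486012),725850,(-3435),11],[(-88320387),3603350,(-30156),146],[2960523,(-73319),588,(-2)],[(-45670),914,(-6)],[430,(-7)],[(-3)]],[[88102112,(-137784),9261,(-61)],[(-900109),4649,(-411),2],[(-5927),(-474),7],[(-183),10],[7]],[[(-3507011),137,69],[67867,157],[(-440),1],[2]],[[(-115030),188,1],[3300,(-2)],[(-32)]],[[(-732),2],[23]]],[[[(-394579981),(-29333203),318967,(-1606),5],[(-16174174),1394451,(-12856),58],[864704,(-28504),217],[(-14546),313],[123]],[[14826788,139827,3186,(-23)],[294709,(-1790),(-141)],[(-120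36),(-130)],[(-2)]],[[(-609132),2272,(-2)],[13615,(-71)],[(-64)]],[[(-33253),62],[760]],[[(-220)]]],[[[(-320517144),(-3539994),55897,(-298)],[5658001,194208,(-2143)],[9021,(-4063)],[(-1067)]],[[3703276,31664,508],[77074,(-552)],[(-2654)]],[[17825,481],[(-1546)]],[[(-3308)]]],[[[(-62899222),7666,3923],[1791673,6640],[(-21108)]],[[614436,2082],[5119]],[[19421]]],[[[(-4868613),26823],[171106]],[[42839]]],[[[(-152599)]]]],[[[[586059765,(-55000817),414197,(-2211),10],[(-69018377),2217063,(-14636),81],[1884787,(-36345),246,(-1)],[(-23325),364,(-2)],[169,(-2)],[(-1)]],[[134953740,266338,(-436),(-29)],[(-3038688),(-281),(-169),1],[36005,(-407),4],[(-503),7],[5]],[[4744511,16049,(-137)],[(-101575),(-751),2],[788,7],[(-2)]],[[49363,18,(-1)],[(-1691),(-3)],[17]],[[176,(-1)],[(-7)]]],[[[(-252386667),(-48066673),345967,(-1753),7],[(-36236739),1860282,(-11860),56],[1241806,(-29719),166],[(-15381),245],[98]],[[117068608,(-35400),1210,(-22)],[(-2891971),11067,(-160)],[39058,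(-485)],[(-510)]],[[4523422,9744,(-84)],[(-103487),(-391)],[743]],[[52942,(-11)],[(-1385)]],[[175]]],[[[(-731093947),(-11960010),86881,(-352)],[9946600,453411,(-2563)],[35951,(-6670)],[(-1564)]],[[27946512,(-146833),1176],[(-753363),8801],[12250]],[[1416566,105],[(-30192)]],[[16812]]],[[[(-317138598),(-717197),9422],[7957018,40548],[(-74599)]],[[483849,(-35462)],[(-2063)]],[[167603]]],[[[(-51276612),73239],[1406771]],[[(-673434)]]],[[[(-3793970)]]]],[[[[588782393,(-28363239),95719,6],[(-41170334),779444,(-1393)],[784107,(-8065),3],[(-6626),27],[22]],[[(-8762600),(-641546),2839],[(-515930),24125,(-56)],[19365,(-299)],[(-240)]],[[(-129915),(-5533),24],[1699,214],[95]],[[1959,(-20)],[14]],[[18]]],[[[89289059,(-21648268),79826,(-3)],[(-21957485),617795,(-1137)],[490373,(-6051)],[(-4403)]],[[(-18501456),(-539829),2477],[(-58367),18910],[12257]],[[(-341549),(-4417)],[5890]],[[(-818)]]],[[[(-218644802),(-4170700),18671],[2062252,127569],[38045]],[[(-12186555),(-120326)],[177882]],[[(-199533)]]],[[[(-72766054),(-206300)],[1593120]],[[(-2914842)]]],[[[(-7655735)]]]],[[[[66947980,(-3081755),17371,(-22)],[(-4546777),99489,(-328)],[92497,(-1069)],[(-802)]],[[(-2758932),(-78698),504],[1805,2541],[1368]],[[(-140946),(-400)],[2462]],[[(-1403)]]],[[[8480353,(-1889289),10585],[(-1910347),58564],[48173]],[[(-3546873),(-43529)],[30761]],[[(-103664)]]],[[[(-18925154),(-170150)],[269766]],[[(-1262155)]]],[[[(-3359490)]]]]]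

/-- A surrogate. -/
def root_s5 : List (List (List (List (List ℤ)))) :=
  [[[[[5593378248,(-193153925),791972,(-404),(-2)],[(-308411966),4751245,(-8069),(-21)],[4676279,(-24358),(-144),1],[(-15203),(-357),5],[(-277),8],[4]],[[(-619525263),8055937,(-24835),21],[21389072,(-204420),518,(-1)],[(-276859),2073,(-6)],[1671,(-13)],[(-6)]],[[11497833,36289,(-297)],[(-186100),(-1688),6],[(-163),29],[27]],[[203811,(-1244)],[(-5577),25],[65]],[[(-1464),(-6)],[31]],[[(-18)]]],[[[3993233378,(-185735938),702801,(-65),(-2)],[(-273575319),4611134,(-5289),(-41)],[4577993,(-24537),(-197),1],[(-19682),(-324),4],[(-199),6],[3]],[[(-582440211),7783927,(-23035),20],[20684080,(-196391),450,(-1)],[(-276385),1922,(-4)],[1831,(-8)],[(-4)]],[[14814234,31218,(-334)],[(-302288),(-1555),5],[1503,22],[13]],[[251230,(-1496)],[(-7366),20],[67]],[[(-1599),(-6)],[18]],[[(-15)]]],[[[367611172,(-60414426),199009,208,(-1)],[(-71119058),1540523,(-635),(-22)],[1460785,(-9963),(-83)],[(-9136),(-86)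],[(-32)]],[[(-171910606),2536478,(-7307),8],[6522611,(-65648),125],[(-98872),589],[706]],[[6562595,8818,(-102)],[(-146466),(-527)],[696]],[[100921,(-460)],[(-2781)]],[[(-402)]]],[[[(-191273370),(-9325690),27805,85],[(-5212315),260224,(-60)],[185116,(-2464)],[(-1919)]],[[(-19765255),378714,(-942)],[896787,(-9346)],[(-16723)]],[[1390055,1122],[(-27053)]],[[17729]]],[[[(-45201476),(-779745),3148],[406584,28586],[8440]],[[(-637315),25723],[76369]],[[128030]]],[[[(-3572593),(-39348)],[89472]],[[(-35648)]]],[[[(-131460)]]]],[[[[4527460826,(-174249368),727081,(-808),(-1)],[(-265421447),4340830,(-7756),(-32)],[4202946,(-24219),(-172),1],[(-16865),(-314),5],[(-196),6],[3]],[[(-420016098),332363,978,26],[9557296,(-6724),98,(-1)],[(-79130),127,(-3)],[261,(-4)]],[[(-6514679),47992,(-1)],[180539,(-944),1],[(-2255),4],[5]],[[55056,574],[(-752),(-8)],[(-1)]],[[1570,2],[(-27)]],[[6]]],[[[2770554648,(-166800049),641456,(-465),(-1)],[(-226919467),4354169,(-8271),(-23)],[41961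19,(-34758),(-92)],[(-28139),(-119)],[(-56)]],[[(-448892273),(-553015),7541,12],[9714722,30752,(-47)],[(-71438),(-336)],[(-39)]],[[(-7951541),49827,59],[243982,(-556)],[(-2227)]],[[46541,564],[7]],[[1279]]],[[[(-135385367),(-55008439),198883,(-45)],[(-52547424),1551121,(-2522)],[1338106,(-13599)],[(-11595)]],[[(-189728169),(-321059),3413],[4419646,16575],[(-28891)]],[[(-3408010),15193],[99126]],[[8299]]],[[[(-309731364),(-8627333),31594],[(-734589),255216],[157911]],[[(-41649279),(-48697)],[973146]],[[(-671336)]]],[[[(-63987721),(-634100)],[965635]],[[(-4615959)]]],[[[(-4727711)]]]],[[[[356511603,(-12166351),(-12090),315,(-2)],[(-19126492),160116,2087,(-18)],[209684,2674,(-66)],[1007,(-95)],[(-48)]],[[(-21118586),(-617785),1246,(-2)],[(-153938),17143,(-19)],[11581,(-141)],[(-129)]],[[(-1603887),(-9044),9],[34841,192],[(-129)]],[[(-34402),(-39)],[635]],[[(-218)]]],[[[214366845,(-13068287),19906,(-58)],[(-17950798),305318,(-260)],[327064,(-1857)],[(-1820)]],[[(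-30462382),(-581240),412],[200660,11299],[5426]],[[(-1851547),(-8037)],[29269]],[[(-29513)]]],[[[(-27666198),(-3941922),12],[(-3302630),78943],[80135]],[[(-15401540),(-183486)],[145922]],[[(-656050)]]],[[[(-23927371),(-619739)],[(-107657)]],[[(-3360403)]]],[[[(-4193460)]]]],[[[[(-4911118),203625,(-1257),2],[299622,(-6520),19],[(-5980),56],[40]],[[403426,3266,(-28)],[(-7817),(-106)],[1]],[[18569,(-38)],[(-378)]],[[173]]],[[[(-3205369),212239,(-1071)],[266865,(-5496)],[(-4896)]],[[550152,2629],[(-7638)]],[[16638]]],[[[570979,57632],[50721]],[[212292]]],[[[488250]]]]]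

/-- A surrogate. -/
def root_s11 : List (List (List (List (List ℤ)))) :=
  [[[[[4240409536,(-28979010),51987,13],[(-110061426),540717,(-536)],[1021652,(-2791)],[(-3015),(-6)],[(-13)]],[[(-105862606),602895,(-827)],[2722645,(-11453),11],[(-28357),87],[158],[(-1)]],[[(-1698162),10537,(-17)],[43841,(-198)],[(-434),1],[2]],[[12350,(-72)],[(-316),1],[3]],[[92,(-1)],[(-2)]],[[(-1)]]],[[[752315733,(-5393432),10207,3],[(-19579006),100201,(-101)],[175275,(-458)],[(-361),(-2)],[(-4)]],[[(-11952343),60503,(-63)],[305816,(-1157),1],[(-3363),11],[23]],[[(-350578),2135,(-3)],[9015,(-39)],[(-88)]],[[(-113)],[(-1)]],[[15]]],[[[39679988,(-310799),641],[(-1038150),5729,(-6)],[8615,(-19)],[1]],[[(-146398),(-327),3],[3527,(-1)],[(-78)],[1]],[[(-15668),95],[416,(-2)],[(-4)]],[[(-104),1],[2]]],[[[530161,(-5180),13],[(-14084),94],[91],[1]],[[10931,(-107)],[(-290),2],[2]],[[56,(-1)],[(-1)]]]],[[[[2901816240,(-17491986),26452],[(-74831684),330444,(-316)],[754706,(-2263),1],[(-3694)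,6],[8]],[[65888646,(-408985),648],[(-1701632),7724,(-7)],[16904,(-49)],[(-75)]],[[(-378909),2064,(-3)],[9633,(-39)],[(-102)]],[[(-12083),71],[306,(-1)],[(-3)]],[[(-2)]]],[[[382338237,(-2252515),3281],[(-9848893),42646,(-40)],[100657,(-302)],[(-516),1],[1]],[[13602344,(-83121),127],[(-350974),1546,(-1)],[3461,(-10)],[(-16)]],[[77111,(-484),1],[(-1923),11],[22]],[[(-1092),5],[22]],[[(-8)]]],[[[10776294,(-55810),62],[(-276009),1070,(-1)],[3016,(-8)],[(-17)]],[[608027,(-3582),4],[(-15661),59],[141]],[[9106,(-52)],[(-217)]],[[39]]],[[[(-106032),1036,(-2)],[2817,(-19)],[(-18)]],[[(-2187),21],[58]],[[(-11)]]]],[[[[(-58757144),468625,(-983)],[1538946,(-8637),10],[(-12584),34],[4]],[[13939983,(-81363),114],[(-358875),1512,(-1)],[3621,(-9)],[(-16)]],[[352695,(-2097),3],[(-8992),38],[87]],[[1340,(-10)],[(-44)]],[[(-16)]]],[[[(-55474597),355839,(-591)],[1434954,(-6694),7],[(-13947),46],[66]],[[(-135646),1422,(-7)],[3683,(-68)],[(-118)]],[[31187,(-147)],[(-650)]],[[405]]],[[[(-3742460),23599,(-38)],[96746,(-439)],[(-939)]],[[(-115769),728],[2986]],[[(-1200)]]]],[[[[(-101896175),619936,(-953)],[2628777,(-11718),12],[(-26404),83],[134]],[[(-2702877),16615,(-29)],[69894,(-357)],[(-799)]],[[(-3206),79],[316]],[[414]]],[[[(-10217143),62099,(-94)],[263672,(-1155)],[(-2609)]],[[(-421433),2541],[10795]],[[(-6520)]]]],[[[[(-7269674),43587,(-64)],[187510,(-808)],[(-1861)]],[[(-374842),2218],[9548]],[[(-7693)]]]]]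

/-- A surrogate. -/
def root_s12 : List (List (List (List (List ℤ)))) :=
  [[[[[(-491051771),(-1767910),30123,(-75)],[4983027,229982,(-1469),2],[204321,(-5572),21],[(-4748),53],[38]],[[79355534,(-308152),(-461),2],[(-2054216),1844,31],[16697,83],[12,(-1)],[(-1)]],[[(-929734),4317,(-5)],[28913,(-153)],[(-443),3],[4]],[[(-33196),127],[905,(-2)],[(-10)]],[[(-18)]],[[1]]],[[[(-373300177),(-1330110),23123,(-59)],[5825576,118013,(-813),1],[51390,(-2517),11],[(-1765),24],[16]],[[34441110,(-145993),(-90),1],[(-927927),1793,6],[8727,8],[(-21)]],[[(-80170),1238,(-6)],[4002,(-54)],[(-96),1],[1]],[[(-10902),49],[303,(-1)],[(-3)]],[[(-27)],[1]]],[[[(-114101207),(-114554),5077,(-15)],[2334785,18580,(-168)],[(-6691),(-416),2],[(-174),4],[2]],[[6748142,(-33633),25],[(-190192),599],[1913,(-3)],[(-8)]],[[60358,(-134),(-1)],[(-1348)],[13]],[[(-1210),5],[29]],[[(-7)]]],[[[(-15618842),19837,444,(-2)],[372769,785,(-15)],[(-3151),(-26)],[10]],[[672124,(-3650),6],[(-18495),69],[17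3]],[[11952,(-55)],[(-329)]],[[(-17)]]],[[[(-956760),3015,14],[25937,(-50)],[(-357)]],[[30447,(-141)],[(-642)]],[[767]]],[[[(-21345),127],[784]],[[329]]]],[[[[(-304676270),(-9122528),71329,(-139)],[(-5712066),433823,(-2138),3],[377747,(-7312),24],[(-5738),59],[41]],[[25394718,(-6185),(-529),1],[(-670043),443,2],[8436,(-27)],[(-73),1],[1]],[[1230401,(-1003),(-26)],[(-29823),(-48),1],[257,1],[(-1)]],[[8027,(-29)],[(-213)],[2]],[[(-97)],[2]],[[(-1)]]],[[[(-448320361),(-1616470),25832,(-62)],[7830184,117668,(-795),1],[15552,(-2295),10],[(-1270),21],[13]],[[5022921,(-37579),154,(-1)],[(-179671),1559,(-9)],[2999,(-35)],[(-35)]],[[471245,(-1392),(-3)],[(-12368),18],[118]],[[4106,(-13)],[(-110)]],[[(-11)]]],[[[(-145924839),267228,3012,(-10)],[3583474,4564,(-106)],[(-29532),(-220)],[30]],[[(-1213452),555,49],[28371,140],[(-259)]],[[56850,(-233)],[(-1359)]],[[734]]],[[[(-18574797),74887,105],[509053,(-1095)],[(-5513)]],[[(-348900),1607],[10731]],[[600]]],[[[(-1006601),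5183],[29166]],[[(-27173)]]],[[[(-19063)]]]],[[[[47242305,(-6049836),36086,(-58)],[(-7726949),211717,(-864),1],[199754,(-2878),8],[(-2240),20],[14]],[[(-5128343),(-105933),814,(-2)],[(-4878),4356,(-23)],[2692,(-73)],[(-50)]],[[(-35971),11,3],[856,18],[5]],[[2587,2],[(-46)]],[[36]]],[[[(-108898724),(-732066),7813,(-16)],[1719720,34683,(-201)],[4127,(-570)],[(-285)]],[[(-4925221),(-8867),211],[105405,791],[(-491)]],[[(-46540)],[1255]],[[360]]],[[[(-28583666),61505,468],[730358,160],[(-6658)]],[[(-1141038),3358],[30340]],[[(-14894)]]],[[[(-2287451),10459],[63699]],[[(-92844)]]],[[[(-55200)]]]],[[[[8651427,(-575036),3243,(-5)],[(-800856),18853,(-69)],[18046,(-233)],[(-186)]],[[(-619550),(-19832),134],[(-5485),710],[480]],[[(-35328),(-218)],[525]],[[(-556)]]],[[[(-8026683),(-28232),395],[159555,1550],[(-506)]],[[(-571284),(-127)],[12507]],[[(-14319)]]],[[[(-1262830),4664],[33469]],[[(-68650)]]],[[[(-39962)]]]]]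

/-- A surrogate. -/
def root_s13 : List (List (List (List (List ℤ)))) :=
  [[[[[(-15055728),241389,12464,(-76)],[609153,16591,(-337),1],[(-1056),(-273)],[45,(-3)],[(-3)]],[[2606239,8303,(-605),3],[(-71035),(-425),10],[1366,(-12)],[(-30),1]],[[(-43486),(-3502),26],[(-441),92,(-1)],[(-2),(-1)],[1]],[[(-7081),67],[212,(-2)],[(-3)]],[[43],[(-1)]]],[[[(-20355236),923338,6486,(-53)],[1337918,(-5169),(-219)],[(-15909),(-79),(-1)],[121,(-4)],[(-3)]],[[4649840,(-54752),(-155),2],[(-167627),1472,2],[2906,(-30)],[(-42)]],[[(-195079),(-2116),22],[4350,65],[(-50),(-1)]],[[(-6750),65],[215,(-1)],[(-2)]],[[44],[(-1)]]],[[[(-2345788),559692,(-202),(-9)],[581025,(-10237),(-16)],[(-9853),86,(-1)],[84,(-2)],[(-1)]],[[1946212,(-42177),129],[(-82532),1239,(-2)],[1567,(-14)],[(-18)]],[[(-139270),(-111),6],[3671,13],[(-28)]],[[(-2204),19],[69]],[[12]]],[[[3146261,89746,(-235)],[16859,(-2205),8],[(-989),41],[24]],[[99158,(-7334),29],[(-9116),222],[287]],[[(-32056),29],[732]],[[(-3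52)]]],[[[630736,5570,(-44)],[(-10558),(-267)],[66]],[[(-21235),(-540)],[(-700)]],[[(-2984)]]],[[[39390,161],[(-1578)]],[[(-1082)]]],[[[1077]]]],[[[[(-46777305),1694679,(-47),(-45)],[2947487,(-43857),(-18),1],[(-58384),578,(-2)],[644,(-8)],[(-6)]],[[3783347,56644,(-472),1],[(-61470),(-1592),10],[493,14],[(-11)]],[[166521,(-1226),2],[(-4826),34],[69]],[[(-481),(-6)],[10]],[[(-20)]]],[[[(-45567776),2550004,(-7406),(-24)],[3669231,(-74267),159],[(-78267),995,(-2)],[868,(-8)],[(-6)]],[[6759151,34809,(-445),1],[(-154585),(-1204),9],[1699,12],[(-10)]],[[178011,(-1407),2],[(-5785),30],[66]],[[(-614),(-5)],[6]],[[(-15)]]],[[[(-2483321),1149358,(-5623)],[1152800,(-36818),111],[(-30088),448],[334]],[[3823265,1368,(-133)],[(-103001),(-252)],[973]],[[69545,(-490)],[(-2217)]],[[(-155)]]],[[[6704001,167012,(-1072)],[(-21945),(-5842)],[(-2845)]],[[872954,(-1072)],[(-23459)]],[[13020]]],[[[1388389,9313],[(-26538)]],[[94763]]],[[[95210]]]],[[[[(-3810489),134921,113,(-5)],[246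522,(-3741),1],[(-5193),71],[74,(-1)],[(-1)]],[[187698,9471,(-58)],[1589,(-298),1],[(-78),3],[1]],[[23239,27,(-1)],[(-698),(-2)],[6]],[[465,(-2)],[(-11)]],[[2]]],[[[(-3568482),202790,(-598),(-2)],[294406,(-6434),9],[(-6731),74],[68]],[[451521,8435,(-50)],[(-6622),(-241)],[(-32)]],[[29566,(-1)],[(-654)]],[[388]]],[[[6707,84073,(-384)],[77261,(-2599)],[(-2198)]],[[295863,1947],[(-5196)]],[[10821]]],[[[565451,8423],[(-5333)]],[[62739]]],[[[74163]]]],[[[[153472,(-6363),39],[(-9363),204,(-1)],[187,(-2)],[(-1)]],[[(-12607),(-102),1],[244,3]],[[(-580),1],[12]],[[(-5)]]],[[[100168,(-6632),33],[(-8340),172],[153]],[[(-17192),(-82)],[239]],[[(-520)]]],[[[(-17843),(-1801)],[(-1585)]],[[(-6634)]]],[[[(-15258)]]]]]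

/-- A surrogate. -/
def root_s14 : List (List (List (List (List ℤ)))) :=
  [[[[[(-14604036),234148,12090,(-73)],[590872,16096,(-327),1],[(-1021),(-265)],[43,(-3)],[(-3)]],[[2377531,10465,(-461),2],[(-62797),(-239),6],[1318,(-15)],[(-29)]],[[(-16146),(-3315),20],[(-1115),85],[10,(-1)]],[[(-7322),31],[206,(-1)],[(-3)]],[[(-28)],[1]]],[[[(-19744528),895624,6293,(-52)],[1297789,(-5010),(-212)],[(-15431),(-76),(-1)],[118,(-4)],[(-3)]],[[4306536,(-43899),(-84),2],[(-149133),1385],[2666,(-28)],[(-39)]],[[(-142990),(-2597),20],[2584,79],[(-16),(-1)]],[[(-8522),41],[252,(-1)],[(-2)]],[[(-26)],[1]]],[[[(-2275555),542895,(-197),(-8)],[563630,(-9939),(-16)],[(-9563),84,(-1)],[82,(-2)],[(-1)]],[[1863859,(-35327),119],[(-74264),1078,(-1)],[1412,(-12)],[(-15)]],[[(-115724),(-531),6],[2660,23],[(-9)]],[[(-3497),15],[92]],[[(-10)]]],[[[3051713,87077,(-229)],[16331,(-2146),8],[(-964),40],[23]],[[127942,(-6171),23],[(-8839),175],[256]],[[(-29622),(-46)],[539]],[[(-598)]]],[[[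611964,5416,(-43)],[(-10272),(-257)],[64]],[[(-13486),(-435)],[(-846)]],[[(-2761)]]],[[[38338,156],[(-1522)]],[[(-359)]]],[[[1039]]]],[[[[(-45373937),1643835,(-45),(-43)],[2859083,(-42539),(-17),1],[(-56632),561,(-2)],[625,(-8)],[(-6)]],[[3201965,71872,(-458),1],[(-30124),(-1982),10],[(-96),21],[(-3)]],[[199195,(-634),(-3)],[(-5322),16],[76]],[[1177,(-21)],[(-50)],[1]],[[(-25)]]],[[[(-44200908),2473492,(-7187),(-23)],[3559156,(-72060),154],[(-75931),964,(-2)],[841,(-7)],[(-5)]],[[6100343,59236,(-514),1],[(-113505),(-1956),10],[838,21],[(-2)]],[[240388,(-1018),(-2)],[(-7323),16],[77]],[[1298,(-17)],[(-50)]],[[(-18)]]],[[[(-2409060),1114923,(-5454)],[1118085,(-35709),107],[(-29184),432],[322]],[[3684748,12941,(-181)],[(-88550),(-601)],[630]],[[106700,(-436)],[(-3070)]],[[558]]],[[[6503514,162005,(-1035)],[(-21268),(-5638)],[(-2745)]],[[914870,654],[(-22575)]],[[21017]]],[[[1346871,8986],[(-25625)]],[[104642]]],[[[91908]]]],[[[[(-3696235),130877,109,(-4)],[23913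0,(-3635),1],[(-5042),69],[72,(-1)],[(-1)]],[[144002,10558,(-57)],[3975,(-339),1],[(-138),3],[1]],[[24588,131,(-1)],[(-683),(-4)],[5]],[[733,(-1)],[(-16)]],[[6]]],[[[(-3461383),196735,(-579),(-2)],[285556,(-6237),9],[(-6525),71],[66]],[[403000,10259,(-52)],[(-3494),(-286)],[(-90)]],[[33544,77],[(-671)]],[[627]]],[[[6873,81532,(-371)],[74940,(-2509)],[(-2121)]],[[287258,2663],[(-4186)]],[[12943]]],[[[548372,8129],[(-5155)]],[[65284]]],[[[71599]]]],[[[[148866,(-6177),38],[(-9086),198,(-1)],[181,(-2)],[(-1)]],[[(-10747),(-171),1],[135,5],[2]],[[(-719)],[13]],[[(-10)]]],[[[97111,(-6431),32],[(-8087),166],[148]],[[(-15753),(-140)],[150]],[[(-648)]]],[[[(-17287),(-1738)],[(-1529)]],[[(-6466)]]],[[[(-14730)]]]]]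

/-- A surrogate. -/
def root_s15 : List (List (List (List (List ℤ)))) :=
  [[[[[(-1223611761),(-23798727),168400,(-164)],[3023423,550905,(-1264),(-4)],[29341,511,(-28)],[5140,(-88)],[(-88),1],[1]],[[82240353,817291,(-7602),14],[(-2057107),(-12856),78],[37257,(-139)],[(-533),4],[4]],[[4414064,(-41158),134],[(-105782),727,(-2)],[673,(-2)],[3]],[[(-59604),419,(-1)],[1458,(-8)],[(-12)]],[[184,(-1)],[(-5)]]],[[[(-1620206174),(-2252926),42511,18],[27311778,106470,(-90),(-3)],[(-203810),731,(-15)],[2996,(-40)],[(-46)]],[[133686319,(-404456),(-1540),6],[(-3607464),8775,22],[43039,(-113)],[(-305),1],[1]],[[1588284,(-14224),47],[(-41254),292,(-1)],[369,(-2)],[(-1)]],[[(-26086),181],[702,(-3)],[(-7)]],[[77],[(-2)]]],[[[(-388802326),444074,3349,15],[7516107,2641,57,(-1)],[(-65759),306,(-3)],[887,(-9)],[(-11)]],[[34475542,(-161637),(-65),1],[(-956948),3151,3],[10515,(-22)],[(-56)]],[[313226,(-2465),8],[(-8543),60],[105]],[[(-4043),25],[105]],[[7]]],[[[(-36512822),64146,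6,2],[748655,(-1086),12],[(-9182),67],[162]],[[3623304,(-18792),1],[(-99828),317],[973]],[[34116,(-259)],[(-1040)]],[[(-243)]]],[[[(-1328611),1697,(-16)],[30332,(-212)],[(-887)]],[[172737,(-830)],[(-4256)]],[[1907]]],[[[(-72),5],[646]],[[2885]]],[[[739]]]],[[[[(-3941590669),112777,114949,(-259)],[95428367,(-24360),(-1123),1],[(-1127073),3739,(-11)],[10333,(-70)],[(-80)]],[[(-87904002),782787,(-2474),3],[2044719,(-13414),33],[(-12235),50],[(-47)],[1]],[[1764954,(-8457),2],[(-44082),168],[440,(-1)],[(-2)]],[[12368,(-103)],[(-310),2],[2]],[[(-114),1],[2]]],[[[(-3771562495),15897437,11933,(-95)],[100541220,(-331465),(-102),1],[(-1132252),3621,(-3)],[7707,(-28)],[(-37)]],[[(-35730398),278812,(-860),1],[885203,(-5896),16],[(-8530),53],[45]],[[989097,(-5531),4],[(-26928),101],[262]],[[5456,(-42)],[(-151)]],[[(-39)]]],[[[(-888399518),4632737,(-2642),(-15)],[24601223,(-99109),29],[(-284062),916],[1839]],[[(-8941565),62820,(-165)],[248645,(-1639)],[(-3343)]],[[150082,(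-746)],[(-3709)]],[[1082]]],[[[(-89442205),508547,(-509)],[2555314,(-11312)],[(-30770)]],[[(-1171868),8499],[37388]],[[6001]]],[[[(-4161591),25044],[123502]],[[(-74007)]]],[[[(-73838)]]]],[[[[(-744336829),305410,20651,(-54)],[19135092,(-16365),(-215)],[(-236862),846,(-1)],[2221,(-12)],[(-14)]],[[(-35412999),171717,(-64),(-1)],[874575,(-3547),1],[(-8992),28],[40]],[[(-274202),2163,(-5)],[7105,(-40)],[(-61)]],[[2348,(-8)],[(-44)]],[[21]]],[[[(-658535827),3113351,690,(-19)],[18410213,(-69325),(-18)],[(-217254),652],[1360]],[[(-21184002),123490,(-138)],[583770,(-2611)],[(-6399)]],[[(-140209),1037],[4093]],[[798]]],[[[(-121973644),684530,(-493)],[3530798,(-14772)],[(-41018)]],[[(-3746392),22948],[107523]],[[(-31023)]]],[[[(-8462883),49872],[248502]],[[(-265157)]]],[[[(-201607)]]]],[[[[(-22936071),(-76473),1219,(-3)],[652948,345,(-13)],[(-10284),31],[95]],[[(-2264925),7956,21],[60196,(-140)],[(-564)]],[[(-56608),256],[1271]],[[(-489)]]],[[[(-21554831),103937,68],[671582,(-2369)],[(-7976)]],[[(-1326467),6935],[35758]],[[(-25697)]]],[[[(-2963584),16574],[90485]],[[(-147927)]]],[[[(-110512)]]]],[[[[1425930,(-8638),12],[(-33938),129],[263]],[[59472,(-322)],[(-1266)]],[[838]]],[[[784353,(-4568)],[(-17952)]],[[31679]]],[[[35282]]]]]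

/-- A root. -/
def root : Root where
  cl := true
  box := fun i => match i with
    | 0 => ⟨37, 63, 400, 200⟩
    | 1 => ⟨191, 9751, 200, 10000⟩
    | 2 => ⟨7, 14287, 50, 100000⟩
    | _ => ⟨119, 3, 400, 10⟩
  De := 400
  e0 := 22
  e1 := 151
  p := fun i => match i with
    | 0 => 9
    | 1 => 100
    | 2 => 697
    | 3 => 800
    | _ => 6
  q := fun i => match i with
    | 0 => 2
    | 1 => 97
    | 2 => 99
    | 3 => 239
    | _ => 1
  den := 17179869184
  sur := fun k => match k with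
    | 0 => root_s0
    | 1 => root_s1
    | 3 => root_s3
    | 5 => root_s5
    | 11 => root_s11
    | 12 => root_s12
    | 13 => root_s13
    | 14 => root_s14
    | 15 => root_s15
    | _ => []
  eps := fun k => match k with
    | 0 => 417674
    | 1 => 792874
    | 3 => 424637
    | 5 => 389007
    | 11 => 400
    | 12 => 7993
    | 13 => 8051
    | 14 => 8877
    | 15 => 12765
    | _ => 0

/-- A leaf. -/
def leaf0 : Leaf :=
  ⟨⟨191, 38401, 200, 40000⟩, ⟨7, 14287, 50, 100000⟩, ⟨119, 3, 400, 10⟩,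
    16384, (1676, -30743, -22039, 13155), (-5622, -38170, -11486, 22772), 16384, (25185, 49851, 64982, -46763), (19093, -3543, -26625, -16657), (23697, 57342, 73377, -48547), (-5814, 9411, 12601, 1619),
    true, 0, 1, 2942, (-313), 2237, 4096, (-2747), 2178⟩

/-- A leaf. -/
def leaf1 : Leaf :=
  ⟨⟨191, 38401, 200, 40000⟩, ⟨7, 14287, 50, 100000⟩, ⟨119, 3, 400, 10⟩,
    16384, (-5622, -38170, -11486, 22772), (-12919, -45596, -933, 32388), 16384, (42173, 44196, 34173, -60552), (-72500, 27517, 54774, 59699), (18573, 60616, 78540, -44874), (11253, 1470, -13328, -11567),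
    true, 0, 1, 2740, (-337), 3936, 4096, (-2715), 2840⟩

/-- A tile. -/
def tile0 : Tile :=
  ⟨⟨191, 38401, 200, 40000⟩, ⟨7, 14287, 50, 100000⟩, ⟨119, 3, 400, 10⟩, 16384, (1676, -30743, -22039, 13155), (-12919, -45596, -933, 32388), 6923,
    (1024, 0), (689, 1024), 0, 3, (leaf0, ⟨(1024, 1), (180, 1024)⟩),
    [(leaf1, ⟨(62, 1024), (1024, 0)⟩)]⟩

/-- A leaf. -/
def leaf2 : Leaf :=
  ⟨⟨38401, 77003, 40000, 80000⟩, ⟨7, 28287, 50, 200000⟩, ⟨119, 3, 400, 10⟩,
    16384, (628, -30931, -21857, 14280), (-529, -38862, -13518, 17982), 16384, (27966, 48020, 63281, -48840), (10529, -3065, -23488, -8344), (33768, 54961, 70046, -57838), (-16104, 9187, 15029, 12055),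
    true, 0, 1, 2748, (-323), 2162, 4096, (-2465), 2147⟩

/-- A leaf. -/
def leaf3 : Leaf :=
  ⟨⟨38401, 77003, 40000, 80000⟩, ⟨7, 28287, 50, 200000⟩, ⟨119, 3, 400, 10⟩,
    16384, (-529, -38862, -13518, 17982), (-1686, -46794, -5178, 21683), 16384, (27985, 42340, 37590, -45518), (-47015, 28410, 50156, 33536), (14032, 59727, 80580, -40169), (4720, 2005, -10875, -5285),
    true, 0, 1, 2450, (-351), 3485, 4096, (-2425), 2655⟩

/-- A tile. -/
def tile1 : Tile :=
  ⟨⟨38401, 77003, 40000, 80000⟩, ⟨7, 28287, 50, 200000⟩, ⟨119, 3, 400, 10⟩, 16384, (628, -30931, -21857, 14280), (-1686, -46794, -5178, 21683), 6800,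
    (1024, 0), (1024, 89), 0, 3, (leaf2, ⟨(1024, 0), (137, 1024)⟩),
    [(leaf3, ⟨(1, 1024), (1024, 1)⟩)]⟩

/-- A leaf. -/
def leaf4 : Leaf :=
  ⟨⟨38401, 77003, 40000, 80000⟩, ⟨28287, 14287, 200000, 100000⟩, ⟨119, 3, 400, 10⟩,
    16384, (1008, -31479, -22811, 14196), (4301, -40978, -17102, 14138), 16384, (27884, 49208, 64461, -49299), (4614, -1373, -20812, -3103), (36937, 56068, 70306, -61450), (-22086, 10464, 17672, 17502),
    true, 0, 1, 2649, (-322), 2205, 4096, (-2648), 2123⟩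

/-- A leaf. -/
def leaf5 : Leaf :=
  ⟨⟨38401, 77003, 40000, 80000⟩, ⟨28287, 14287, 200000, 100000⟩, ⟨119, 3, 400, 10⟩,
    16384, (4301, -40978, -17102, 14138), (7594, -50477, -11394, 14080), 16384, (25365, 44223, 39726, -43681), (-33163, 27317, 46545, 19979), (8899, 62340, 84100, -36154), (101, 3443, -8556, -1265),
    true, 0, 1, 2578, (-426), 3857, 4096, (-2634), 2771⟩

/-- A tile. -/
def tile2 : Tile :=
  ⟨⟨38401, 77003, 40000, 80000⟩, ⟨28287, 14287, 200000, 100000⟩, ⟨119, 3, 400, 10⟩, 16384, (1008, -31479, -22811, 14196), (7594, -50477, -11394, 14080), 6923,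
    (1024, 0), (1024, 8), 0, 3, (leaf4, ⟨(1024, 1), (104, 1024)⟩),
    [(leaf5, ⟨(19, 1024), (1024, 0)⟩)]⟩

/-- A leaf. -/
def leaf6 : Leaf :=
  ⟨⟨77003, 19301, 80000, 20000⟩, ⟨7, 14287, 50, 100000⟩, ⟨119, 3, 400, 10⟩,
    16384, (137, -31504, -22516, 15064), (4830, -42533, -19106, 14363), 16384, (30031, 47601, 63141, -50835), (2485, 978, -17160, -2157), (49612, 53266, 64976, -72985), (-33845, 13490, 23815, 27862),
    true, 0, 1, 2430, (-348), 2099, 4096, (-2418), 2029⟩

/-- A leaf. -/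
def leaf7 : Leaf :=
  ⟨⟨77003, 19301, 80000, 20000⟩, ⟨7, 14287, 50, 100000⟩, ⟨119, 3, 400, 10⟩,
    16384, (4830, -42533, -19106, 14363), (9522, -53562, -15695, 13662), 16384, (26678, 44063, 40305, -45060), (-27344, 22390, 36554, 16924), (8889, 62971, 86232, -36651), (-1444, 5148, -5862, -582),
    true, 0, 1, 2604, (-345), 3653, 4096, (-2474), 2681⟩

/-- A tile. -/
def tile3 : Tile :=
  ⟨⟨77003, 19301, 80000, 20000⟩, ⟨7, 14287, 50, 100000⟩, ⟨119, 3, 400, 10⟩, 16384, (137, -31504, -22516, 15064), (9522, -53562, -15695, 13662), 6923,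
    (1024, 0), (1024, 0), 0, 3, (leaf6, ⟨(1024, 1), (64, 1024)⟩),
    [(leaf7, ⟨(6, 1024), (1024, 0)⟩)]⟩

/-- A leaf. -/
def leaf8 : Leaf :=
  ⟨⟨19301, 15481, 20000, 16000⟩, ⟨7, 28287, 50, 200000⟩, ⟨119, 3, 400, 10⟩,
    16384, (-876, -31452, -22184, 16050), (7674, -53025, -14459, 15231), 16384, (30022, 36488, 44939, -46349), (-21975, 21695, 18860, 12361), (35031, 50200, 68657, -56620), (-25758, 19346, 16960, 17284),
    true, 0, 1, 3379, (-319), 3345, 4096, (-2466), 2200⟩

/-- A tile. -/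
def tile4 : Tile :=
  ⟨⟨19301, 15481, 20000, 16000⟩, ⟨7, 28287, 50, 200000⟩, ⟨119, 3, 400, 10⟩, 16384, (-876, -31452, -22184, 16050), (7674, -53025, -14459, 15231), 6800,
    (1024, 0), (1024, 1), 0, 3, (leaf8, ⟨(590, 1024), (1024, 722)⟩),
    []⟩

/-- A leaf. -/
def leaf9 : Leaf :=
  ⟨⟨19301, 15481, 20000, 16000⟩, ⟨28287, 14287, 200000, 100000⟩, ⟨119, 3, 400, 10⟩,
    16384, (-445, -32168, -23211, 15975), (4354, -43784, -20552, 15457), 16384, (32253, 47302, 62878, -53006), (2638, 1407, -16746, -2509), (34850, 47761, 61663, -55587), (-6791, 16523, 25387, -1339),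
    true, 0, 1, 2596, (-341), 2239, 4096, (-2266), 2043⟩

/-- A leaf. -/
def leaf10 : Leaf :=
  ⟨⟨19301, 15481, 20000, 16000⟩, ⟨28287, 14287, 200000, 100000⟩, ⟨119, 3, 400, 10⟩,
    16384, (4354, -43784, -20552, 15457), (9152, -55401, -17893, 14939), 16384, (28897, 43746, 40220, -47228), (-27458, 21435, 38117, 17103), (10069, 63532, 87389, -38218), (-1460, 5622, -5304, -795),
    true, 0, 1, 2364, (-349), 3518, 4096, (-2381), 2601⟩

/-- A tile. -/
def tile5 : Tile :=
  ⟨⟨19301, 15481, 20000, 16000⟩, ⟨28287, 14287, 200000, 100000⟩, ⟨119, 3, 400, 10⟩, 16384, (-445, -32168, -23211, 15975), (9152, -55401, -17893, 14939), 6923,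
    (1024, 0), (1024, 1), 0, 3, (leaf9, ⟨(1024, 1), (25, 1024)⟩),
    [(leaf10, ⟨(0, 1024), (1024, 1)⟩)]⟩

/-- A leaf. -/
def leaf11 : Leaf :=
  ⟨⟨15481, 38803, 16000, 40000⟩, ⟨7, 14287, 50, 100000⟩, ⟨119, 3, 400, 10⟩,
    16384, (-1528, -32127, -22921, 17038), (2772, -43508, -19814, 16897), 16384, (34776, 45486, 61521, -54852), (3261, 1206, -17082, -3042), (35924, 45359, 60378, -55823), (-700, 25232, 29578, -10922),
    true, 0, 1, 2075, (-369), 1994, 4096, (-2053), 1941⟩

/-- A leaf. -/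
def leaf12 : Leaf :=
  ⟨⟨15481, 38803, 16000, 40000⟩, ⟨7, 14287, 50, 100000⟩, ⟨119, 3, 400, 10⟩,
    16384, (2772, -43508, -19814, 16897), (7073, -54889, -16707, 16756), 16384, (31940, 42373, 39013, -49798), (-29249, 24492, 39010, 17880), (28852, 64802, 86994, -57911), (-28684, -325, -6545, 29337),
    true, 0, 1, 2076, (-373), 3119, 4096, (-2038), 2341⟩

/-- A tile. -/
def tile6 : Tile :=
  ⟨⟨15481, 38803, 16000, 40000⟩, ⟨7, 14287, 50, 100000⟩, ⟨119, 3, 400, 10⟩, 16384, (-1528, -32127, -22921, 17038), (7073, -54889, -16707, 16756), 6923,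
    (1024, 0), (1024, 1), 0, 3, (leaf11, ⟨(1024, 0), (3, 1024)⟩),
    [(leaf12, ⟨(5, 1024), (1024, 8)⟩)]⟩

/-- A leaf. -/
def leaf13 : Leaf :=
  ⟨⟨38803, 77807, 40000, 80000⟩, ⟨7, 14287, 50, 100000⟩, ⟨119, 3, 400, 10⟩,
    16384, (-2556, -32394, -23054, 18200), (1527, -44017, -20178, 18391), 16384, (37534, 44242, 60508, -57167), (3697, 1395, -16938, -3570), (37913, 44153, 59654, -57400), (2487, 25894, 29160, -14351),
    true, 0, 1, 2008, (-402), 1951, 4096, (-1865), 1895⟩

/-- A leaf. -/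
def leaf14 : Leaf :=
  ⟨⟨38803, 77807, 40000, 80000⟩, ⟨7, 14287, 50, 100000⟩, ⟨119, 3, 400, 10⟩,
    16384, (1527, -44017, -20178, 18391), (5610, -55640, -17302, 18582), 16384, (35501, 41494, 38296, -53134), (-30349, 25688, 40195, 18468), (31297, 64677, 87000, -60345), (-28463, -589, -6074, 29117),
    true, 0, 1, 1683, (-380), 2702, 4096, (-1778), 2049⟩

/-- A tile. -/
def tile7 : Tile :=
  ⟨⟨38803, 77807, 40000, 80000⟩, ⟨7, 14287, 50, 100000⟩, ⟨119, 3, 400, 10⟩, 16384, (-2556, -32394, -23054, 18200), (5610, -55640, -17302, 18582), 6923,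
    (1024, 0), (1024, 0), 0, 3, (leaf13, ⟨(1024, 1), (0, 1024)⟩),
    [(leaf14, ⟨(14, 1024), (1024, 31)⟩)]⟩

/-- A leaf. -/
def leaf15 : Leaf :=
  ⟨⟨77807, 31163, 80000, 32000⟩, ⟨7, 28287, 50, 200000⟩, ⟨119, 3, 400, 10⟩,
    16384, (-3592, -32292, -22585, 19167), (3503, -54885, -15856, 20306), 16384, (41290, 35634, 44522, -57618), (-24643, 23365, 22183, 14138), (34003, 44743, 65271, -53368), (-21831, 23205, 21205, 11426),
    true, 0, 1, 3372, (-325), 3265, 4096, (-2067), 2087⟩

/-- A tile. -/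
def tile8 : Tile :=
  ⟨⟨77807, 31163, 80000, 32000⟩, ⟨7, 28287, 50, 200000⟩, ⟨119, 3, 400, 10⟩, 16384, (-3592, -32292, -22585, 19167), (3503, -54885, -15856, 20306), 6800,
    (1024, 0), (1024, 0), 0, 3, (leaf15, ⟨(474, 1024), (1024, 910)⟩),
    []⟩

/-- A leaf. -/
def leaf16 : Leaf :=
  ⟨⟨31163, 9751, 32000, 10000⟩, ⟨7, 56287, 50, 400000⟩, ⟨119, 3, 400, 10⟩,
    16384, (-4375, -32221, -22409, 19924), (2019, -54541, -15101, 21616), 16384, (39894, 32953, 41993, -55213), (-23974, 22909, 21601, 13644), (36128, 43993, 64632, -55229), (-21965, 23114, 21262, 11582),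
    true, 0, 1, 1882, (-376), 2274, 4096, (-1702), 1804⟩

/-- A tile. -/
def tile9 : Tile :=
  ⟨⟨31163, 9751, 32000, 10000⟩, ⟨7, 56287, 50, 400000⟩, ⟨119, 3, 400, 10⟩, 16384, (-4375, -32221, -22409, 19924), (2019, -54541, -15101, 21616), 6759,
    (1024, 0), (1024, 0), 0, 3, (leaf16, ⟨(415, 1024), (1024, 963)⟩),
    []⟩

/-- A leaf. -/
def leaf17 : Leaf :=
  ⟨⟨31163, 9751, 32000, 10000⟩, ⟨56287, 28287, 400000, 200000⟩, ⟨119, 3, 400, 10⟩,
    16384, (-4107, -32635, -22992, 19860), (2931, -55928, -16999, 21379), 16384, (39826, 33212, 42074, -55248), (-24393, 23700, 22741, 13666), (36072, 44592, 65227, -55437), (-22823, 24019, 22268, 12040),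
    true, 0, 1, 1904, (-365), 2322, 4096, (-1812), 1801⟩

/-- A tile. -/
def tile10 : Tile :=
  ⟨⟨31163, 9751, 32000, 10000⟩, ⟨56287, 28287, 400000, 200000⟩, ⟨119, 3, 400, 10⟩, 16384, (-4107, -32635, -22992, 19860), (2931, -55928, -16999, 21379), 6800,
    (1024, 0), (1024, 0), 0, 3, (leaf17, ⟨(412, 1024), (1024, 955)⟩),
    []⟩

/-- A leaf. -/
def leaf18 : Leaf :=
  ⟨⟨77807, 9751, 80000, 10000⟩, ⟨28287, 14287, 200000, 100000⟩, ⟨119, 3, 400, 10⟩,
    16384, (-3451, -33106, -23788, 19447), (4634, -57705, -19784, 20581), 16384, (38850, 33672, 42315, -54453), (-25419, 25509, 24317, 13935), (34959, 45690, 66271, -54774), (-23614, 25025, 23519, 12362),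
    true, 0, 1, 2808, (-311), 3165, 4096, (-2045), 1869⟩

/-- A tile. -/
def tile11 : Tile :=
  ⟨⟨77807, 9751, 80000, 10000⟩, ⟨28287, 14287, 200000, 100000⟩, ⟨119, 3, 400, 10⟩, 16384, (-3451, -33106, -23788, 19447), (4634, -57705, -19784, 20581), 6923,
    (1024, 0), (1024, 0), 0, 3, (leaf18, ⟨(416, 1024), (1024, 906)⟩),
    []⟩

/-- The subdivision. -/
def tree : Tree :=
  (.node 0 19301 20000
    (.node 0 38401 40000
    (.tile tile0)
    (.node 0 77003 80000
    (.node 1 28287 200000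
    (.tile tile1)
    (.tile tile2))
    (.tile tile3)))
    (.node 0 38803 40000
    (.node 0 15481 16000
    (.node 1 28287 200000
    (.tile tile4)
    (.tile tile5))
    (.tile tile6))
    (.node 0 77807 80000
    (.tile tile7)
    (.node 1 28287 200000
    (.node 0 31163 32000
    (.tile tile8)
    (.node 1 56287 400000
    (.tile tile9)
    (.tile tile10)))
    (.tile tile11)))))

def tree_ok : tree.ok pieceC 448 ⟨191, 9751, 200, 10000⟩ ⟨7, 14287, 50, 100000⟩ ⟨119, 3, 400, 10⟩ = true := by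
  decide +kernel

def root_ok0 : root.okEnt 576 0 = true := by decide +kernel

def root_ok1 : root.okEnt 576 1 = true := by decide +kernel

def root_ok3 : root.okEnt 576 3 = true := by decide +kernel

def root_ok5 : root.okEnt 576 5 = true := by decide +kernel

def root_ok11 : root.okEnt 576 11 = true := by decide +kernel

def root_ok12 : root.okEnt 576 12 = true := by decide +kernel

def root_ok13 : root.okEnt 576 13 = true := by decide +kernel

def root_ok14 : root.okEnt 576 14 = true := by decide +kernel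

def root_ok15 : root.okEnt 576 15 = true := by decide +kernel

def leaf0_ok : leaf0.okLeaf root 640 = true := by decide +kernel

def leaf1_ok : leaf1.okLeaf root 640 = true := by decide +kernel

def leaf2_ok : leaf2.okLeaf root 640 = true := by decide +kernel

def leaf3_ok : leaf3.okLeaf root 640 = true := by decide +kernel

def leaf4_ok : leaf4.okLeaf root 640 = true := by decide +kernel

def leaf5_ok : leaf5.okLeaf root 640 = true := by decide +kernel

def leaf6_ok : leaf6.okLeaf root 640 = true := by decide +kernel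

def leaf7_ok : leaf7.okLeaf root 640 = true := by decide +kernel

def leaf8_ok : leaf8.okLeaf root 640 = true := by decide +kernel

def leaf9_ok : leaf9.okLeaf root 640 = true := by decide +kernel

def leaf10_ok : leaf10.okLeaf root 640 = true := by decide +kernel

def leaf11_ok : leaf11.okLeaf root 640 = true := by decide +kernel

def leaf12_ok : leaf12.okLeaf root 640 = true := by decide +kernel

def leaf13_ok : leaf13.okLeaf root 640 = true := by decide +kernel

def leaf14_ok : leaf14.okLeaf root 640 = true := by decide +kernel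

def leaf15_ok : leaf15.okLeaf root 640 = true := by decide +kernel

def leaf16_ok : leaf16.okLeaf root 640 = true := by decide +kernel

def leaf17_ok : leaf17.okLeaf root 640 = true := by decide +kernel

def leaf18_ok : leaf18.okLeaf root 640 = true := by decide +kernel

theorem leaves_eq : tree.leaves =
    [leaf0, leaf1, leaf2, leaf3, leaf4, leaf5, leaf6, leaf7,
    leaf8, leaf9, leaf10, leaf11, leaf12, leaf13, leaf14, leaf15,
    leaf16, leaf17, leaf18] := rfl

theorem leaves_ok : ∀ F ∈ tree.leaves, Leaf.okLeaf F root 640 = true := by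
  rw [leaves_eq]
  exact all'_cons leaf0_ok (all'_cons leaf1_ok (all'_cons leaf2_ok (all'_cons leaf3_ok (
    all'_cons leaf4_ok (all'_cons leaf5_ok (all'_cons leaf6_ok (all'_cons leaf7_ok (
    all'_cons leaf8_ok (all'_cons leaf9_ok (all'_cons leaf10_ok (all'_cons leaf11_ok (
    all'_cons leaf12_ok (all'_cons leaf13_ok (all'_cons leaf14_ok (all'_cons leaf15_ok (
    all'_cons leaf16_ok (all'_cons leaf17_ok (all'_cons leaf18_ok ((fun F hF => absurd hF List.not_mem_nil))))))))))))))))))))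

theorem root_ok : ∀ k ∈ [0, 1, 3, 5, 11, 12, 13, 14, 15], root.okEnt 576 k = true := by
  intro k hk
  simp only [List.mem_cons, List.not_mem_nil, or_false] at hk
  rcases hk with rfl | rfl | rfl | rfl | rfl | rfl | rfl | rfl | rfl
  · exact root_ok0
  · exact root_ok1
  · exact root_ok3
  · exact root_ok5
  · exact root_ok11
  · exact root_ok12
  · exact root_ok13
  · exact root_ok14
  · exact root_ok15

theorem used_ok : ∀ F ∈ tree.leaves, ∀ k ∈ Leaf.used F, root.okEnt 576 k = true := by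
  intro F hF k hk
  refine root_ok k ?_
  rw [leaves_eq] at hF
  have h : ([leaf0, leaf1, leaf2, leaf3, leaf4, leaf5, leaf6, leaf7,
    leaf8, leaf9, leaf10, leaf11, leaf12, leaf13, leaf14, leaf15,
    leaf16, leaf17, leaf18]).all (fun G => G.used.all fun j => [0, 1, 3, 5, 11, 12, 13, 14, 15].any (Nat.beq j)) = true := by
    decide +kernel
  simp only [List.all_eq_true, List.any_eq_true] at h
  obtain ⟨j, hj, e⟩ := h F hF k hk
  exact Nat.eq_of_beq_eq_true e ▸ hj

/-- **The signs on the box.** -/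
theorem signs {a I u X η : ℝ} (hf : Facts pieceC a I u X η) (hu : In1 ⟨191, 9751, 200, 10000⟩ u)
    (hI : In1 ⟨7, 14287, 50, 100000⟩ I) (ha : In1 ⟨119, 3, 400, 10⟩ a) :
    ClosedGen.SignsMult a (rd (mk4 X u I a)) (rv (mk4 X u I a)) (rg (mk4 X u I a) η)
      (rW (mk4 X u I a) η) (rW1 (mk4 X u I a) η) (rR (mk4 X u I a))
      (rNum true (mk4 X u I a) η) :=
  Tree.signs (T := tree) (R := root) tree_ok leaves_ok used_ok hf hu hI ha

end Vale.Agent.P100.Calib.MidTail.BoxIII1U3
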