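import Vale.Agent.P100.Calib.SlabMidTailPieces

/-!
# The signs on a box of the middle tail

`u, I, a` lie in the box of `root`; the surrogates and leaves are checked by the kernel.
-/

namespace Vale.Agent.P100.Calib.MidTail.BoxIV0U1

open Pack EndAll Band

/-- A surrogate. -/
def root_s0 : List (List (List (List (List ℤ)))) :=
  [[[[[8744101826,(-973260027),16205419,32417,(-3966),44],[(-412505356),23718694,(-76368),(-8015),150,(-1)],[5625673,(-105560),(-6309),217,(-2)],[(-14056),(-2076),140,(-2)],[(-320),39,(-1)],[4]],[[(-782375490),(-6438199),55484,4959,(-131),1],[9728901,315846,5226,(-296),3],[125173,(-3900),(-223),5],[(-3448),2,4],[33,1]],[[(-45613074),1668641,(-26036),261],[1324430,(-42350),666,(-5)],[(-13764),423,(-9)],[35,(-4)]],[[761580,25501,(-332)],[(-1996),(-1046),9],[(-325),16],[6]],[[45556,(-541),(-1)],[(-1135),3],[5]],[[(-276),(-7)],[4]],[[(-12)]]],[[[5522043530,(-727894434),12915973,(-73448),(-1148),13],[(-288943973),19118715,(-184740),(-2148),48],[4444681,(-147905),(-144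1),70],[(-22071),(-279),43],[(-72),10],[1]],[[(-653961313),(-18150095),404068,(-3355),(-6)],[5082242,845690,(-12987),30],[221185,(-16072),110],[(-5018),121],[39]],[[(-40580078),946909,(-7282),104],[1046218,(-12766),137],[(-6678),5],[(-41)]],[[896625,17310,(-187)],[(-11908),(-497)],[(-20)]],[[51572,(-559)],[(-1071)]],[[(-262)]]],[[[499335299,(-150868321),2126663,(-18278),(-95)],[(-46464596),3944489,(-37198),(-187)],[858019,(-36343),(-73)],[(-5840),65],[5]],[[(-191366580),(-8091119),148330,(-1089)],[1367470,321743,(-3914)],[62887,(-4431)],[(-1137)]],[[(-13448042),184847,(-99)],[348309,(-2133)],[(-2028)]],[[247212,5770],[(-4948)]],[[16686]]],[[[(-67881585),(-16634502),177147,(-1420)],[(-2051965),429889,(-3054)],[63131,(-3669)],[(-433)]],[[(-35103034),(-1052301),16887],[500568,33956],[3066]],[[(-1823044),22691],[36606]],[[51586]]],[[[(-17175923),(-868968),7945],[265844,19800],[(-1127)]],[[(-3069632),(-45115)],[49308]],[[(-72097)]]],[[[(-1001667),(-13121)],[22450]],[[(-91490)]]],[[[(-13028)]]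]],[[[[4349423254,(-411474349),3414820,122616,(-3593),27],[(-197483890),8466053,151411,(-8867),115],[2611898,23551,(-7336),168],[(-2995),(-2272),106],[(-242),29],[3]],[[(-211821192),(-27865243),416184,(-72),(-100)],[(-2638389),781466,(-4439),(-233)],[143234,(-7449),(-176)],[(-1636),(-37)]],[[(-43804366),(-60127),898,98],[925368,7157,132],[(-5762),(-25)],[(-17)]],[[(-1307084),20221,(-151)],[35951,(-273)],[(-156)]],[[5146,294],[(-153)]],[[634]]],[[[2893595133,(-338948613),4924668,(-18806),(-880)],[(-151483461),9169163,(-72279),(-1689)],[2567144,(-84929),(-920)],[(-19136),(-15)],[32]],[[(-191082284),(-29503324),514793,(-4934)],[(-3503397),930178,(-11794)],[176139,(-10190)],[(-1995)]],[[(-44311327),(-361289),6477],[941663,11382],[(-3953)]],[[(-1608960),16961],[31641]],[[2919]]],[[[348344086,(-76645225),970907,(-11465)],[(-27829384),2173424,(-24500)],[564211,(-23734)],[(-4940)]],[[(-93261585),(-8130216),93115],[244306,209386],[30022]],[[(-15420827),(-130303)],[285089]],[[(-482605)]]],[[[(-171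89164),(-9287227),88876],[(-1749067),238529],[48220]],[[(-23283812),(-851330)],[319716]],[[(-2284311)]]],[[[(-8333852),(-495044)],[90756]],[[(-2307182)]]],[[[(-513093)]]]],[[[[192399619,(-3455946),(-1515019),54528,(-968)],[(-4170313),(-973875),88643,(-2390)],[(-143423),40009,(-2049)],[5551,(-705)],[(-84)]],[[27224330,(-5852711),36591,1430],[(-2298135),162095,1039],[49370,(-909)],[(-356)]],[[(-3900266),(-357508),4081],[14448,9337],[1443]],[[(-460496),(-5004)],[7629]],[[(-11964)]]],[[[185202394,(-18592975),28076,1635],[(-9416793),441015,1938],[158429,(-2848)],[(-1082)]],[[6788091,(-4220738),36293],[(-1218380),104119],[26462]],[[(-4240744),(-213703)],[34205]],[[(-331786)]]],[[[12685145,(-3277891),(-18840)],[(-1202947),73652],[24807]],[[(-3151545),(-882468)],[(-148726)]],[[(-1302654)]]],[[[(-10483),(-523177)],[(-125476)]],[[(-1269918)]]],[[[(-487642)]]]],[[[[(-4977827),498644,(-11213),47],[229780,(-15398),151],[(-4080),113],[22]],[[176534,41624,(-837)],[4884,(-964)],[(-152)]],[[67565,253],[(-1034)]],[[2508]]],[[[(-4514727),519255,(-8842)],[223527,(-12038)],[(-3131)]],[[319518,31791],[2533]],[[56010]]],[[[(-748103),140200],[53401]],[[147419]]],[[[137098]]]]]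

/-- A surrogate. -/
def root_s1 : List (List (List (List (List ℤ)))) :=
  [[[[[19648051988,(-684384150),(-588560),323465,(-6868),66],[(-718558353),12771616,379458,(-15346),229,(-1)],[8876207,25217,(-11580),323,(-3)],[(-39505),(-2907),204,(-3)],[(-158),56,(-2)],[6,(-1)]],[[(-557427189),46617320,(-955247),7654,60,(-1)],[30746805,(-1716960),31623,(-141),(-2)],[(-600727),30196,(-458)],[7118,(-326),3],[(-61),2]],[[(-21012778),162274,2347,(-123)],[574577,(-6004),(-162),3],[(-8809),50,4],[88,1]],[[141727,1504,(-11)],[(-1593),(-46)],[(-3)]],[[(-793)],[22]]],[[[24869480524,(-779904430),3647669,99922,(-2665),19],[(-869410135),18301545,45277,(-6070),74],[11304068,(-143680),(-3759),102],[(-71430),(-204),59],[166,14],[1]],[[(-766972535),40064699,(-543087),4938,1],[33817298,(-1177337),15694,(-90)],[(-519997),15834,(-192)],[4333,(-128)],[(-24)]],[[(-9103022),(-183809),1537,(-48)],[81049,2478,(-53)],[(-809),5],[23]],[[157359,1945,(-8)],[(-1687),(-39)],[(-3)]],[[(-1160)],[19]]],[[[10637184326,(-3016601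25),1465561,19133,(-394)],[(-354780124),7265840,(-12514),(-848)],[4559523,(-68604),(-326)],[(-29716),181],[72]],[[(-356415160),13717958,(-112998),830],[13747416,(-342346),2799],[(-185282),3477],[1148]],[[(-1130764),(-107460),315],[(-47941),1825],[738]],[[51661,631],[(-508)]],[[(-370)]]],[[[1840926573,(-48329854),256775,1581],[(-58440853),1186451,(-3511)],[736378,(-9710)],[(-3888)]],[[(-65567725),1950666,(-12091)],[2208197,(-43638)],[(-26093)]],[[129185,(-14968)],[(-11126)]],[[4285]]],[[[154331357,(-3904280),19998],[(-4721764),82041],[49379]],[[(-5574608),139091],[170195]],[[18651]]],[[[6679802,(-145962)],[(-173506)]],[[(-246671)]]],[[[127710]]]],[[[[9105473849,(-365571681),(-5614752),364371,(-6704),45],[(-372783669),2979860,536697,(-17134),183],[4154361,177295,(-14506),268],[1705,(-4596),173],[(-460),49],[5]],[[103683419,9994532,(-229403),1728,13],[2518283,(-358445),5540,2],[(-102894),4846,(-32)],[1216,(-28)],[(-7)]],[[8988124,(-163857),(-1243),71],[(-325818),5073,95],[5745,(-40)],[(-55)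]],[[(-104779),(-1772),8],[903,31],[6]],[[1299],[(-19)]]],[[[11354177760,(-461457406),744871,115656,(-2091)],[(-458686877),9800177,113776,(-4857)],[6204848,(-43821),(-3490)],[(-35943),(-724)]],[[256832812,2006603,(-48641),400],[(-3633560),(-72767),1451],[5793,1307],[278]],[[527186,59344,(-604)],[8090,383],[939]],[[(-111789),(-1464)],[665]],[[1111]]],[[[4806996396,(-172700782),728502,12961],[(-181498945),3986986,2065],[2436547,(-27286)],[(-12994)]],[[111016708,(-249778),(-5404)],[(-2054468),(-5896)],[8706]],[[(-1029465),41719],[41203]],[[(-33349)]]],[[[834131439,(-25002770),98955],[(-28470514),507462],[321846]],[[16481532,(-99173)],[(-302393)]],[[(-202036)]]],[[[68763605,(-1626444)],[(-2010205)]],[[1216376]]],[[[2808585]]]],[[[[(-220821624),(-20542178),(-3151627),119042,(-1745)],[(-17412201),(-1710000),184272,(-4400)],[(-14287),77863,(-3772)],[8559,(-1288)],[(-151)]],[[86876302,(-7825154),183153,(-1251)],[(-4911476),307435,(-4815)],[107096,(-4409)],[(-1066)]],[[348052,57356,25],[35433,(-1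393)],[(-1012)]],[[9366,435],[190]],[[(-475)]]],[[[67458729,(-68909746),(-182946),25679],[(-40521473),1271489,31439],[718815,2986],[(-2682)]],[[64181405,(-4409416),65277],[(-3291285),119781],[46904]],[[1915006,21729],[(-8781)]],[[5255]]],[[[97589413,(-25520744),81266],[(-15947331),498803],[248380]],[[22810634,(-1046914)],[(-940025)]],[[734162]]],[[[36677884,(-2942343)],[(-2249527)]],[[3180784]]],[[[3334587]]]],[[[[(-233154793),(-3028686),22371,(-38)],[2495034,74389,(-126)],[1933,(-383)],[(-83)]],[[(-14610795),(-272312),1287],[128790,4418],[726]],[[(-117840),(-5319)],[(-2147)]],[[6599]]],[[[(-254859025),(-3342086),16346],[2682495,59094],[2617]],[[(-15878629),(-213744)],[89933]],[[(-66184)]]],[[[(-80602966),(-1007155)],[731189]],[[(-4448135)]]],[[[(-5786728)]]]],[[[[(-16081354)],[322423],[(-1679)]],[[(-2018057)],[26657]],[[(-62465)]]],[[[(-17477745)],[255480]],[[(-1594388)]]],[[[(-5036354)]]]]]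

/-- A surrogate. -/
def root_s3 : List (List (List (List (List ℤ)))) :=
  [[[[[662289894,(-260570143),(-2326869),257820,(-3995),27],[(-77259594),4574104,272684,(-8164),66],[1206019,39238,(-4823),35],[(-721),(-714),(-15),1],[4,(-16),1],[(-3)]],[[436957356,3270502,(-328794),4625,(-47)],[(-6123815),(-272580),5258,(-28)],[(-5793),1117,88,(-1)],[(-340),88,(-2)],[22,(-1)]],[[7634148,187613,(-4866),(-45),1],[(-188345),(-6292),(-25),3],[1986,(-5),2],[(-29),1]],[[(-419997),1438,105],[9307,31,(-1)],[(-103)],[1]],[[(-8617),137,1],[352,(-3)],[(-4)]]],[[[117406771,(-230089314),1661860,66464,(-772),2],[(-51723945),6340591,8816,(-1030),(-6)],[1195407,(-62518),326,(-27)],[(-11110),719,(-30)],[124,(-13)],[(-2)]],[[264288406,(-1907327),20438,(-960),(-3)],[(-4568702),34434,(-4231),57],[30477,(-3324),107],[(-813),63],[13]],[[6977305,60824,(-510),(-29)],[(-198035),(-751),(-29)],[2596,(-10)],[(-19)]],[[(-285548),2249,26],[7403,(-25)],[(-86)]],[[(-7773),101],[254]]],[[[(-404829982),(-58330213),986157,300,30]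,[(-76360),1859107,(-23546),249],[156028,(-25150),432],[(-2305),243],[26]],[[22173960,(-390680),38738,(-641)],[4515,26536,(-1422)],[(-3034),(-684)],[(-90)]],[[2155225,4958,(-138)],[(-53827),(-306)],[520]],[[(-46531),531],[1387]],[[(-2029)]]],[[[(-196255870),(-3880815),137155,(-992)],[4589861,160515,(-3519)],[(-41820),(-2298)],[99]],[[(-2209502),(-8335),4687],[169454,484],[(-2225)]],[[300818,369],[(-6976)]],[[(-3522)]]],[[[(-26196914),148697,5391],[742663,34],[(-7385)]],[[(-525468),5829],[17856]],[[24766]]],[[[(-1446427),22676],[38320]],[[(-20497)]]],[[[(-28259)]]]],[[[[1787662279,(-309554620),175422,180434,(-2820),18],[(-110773476),6040291,161617,(-5188),35],[1674353,(-1589),(-2803),16],[(-7532),(-273),(-7)],[36,(-7)],[(-1)]],[[99263217,(-13025313),161805,2819,(-63)],[(-6366453),441676,(-1727),(-102)],[138948,(-5655),(-26)],[(-1515),22],[6]],[[11464399,7217,(-1886),(-37)],[(-253314),(-513),(-17)],[2605,(-6)],[(-14)]],[[418650,1676,(-170)],[(-11060),(-160)],[77]],[[4220,(-45)],[(-134)]]],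[[[540223286,(-239170054),3021258,21741,(-217)],[(-65638778),6465202,(-23177),(-432)],[1335827,(-57353),(-26)],[(-10454),239],[46]],[[42810765,(-9699741),170838,(-31)],[(-3681235),364796,(-3084)],[96102,(-4132)],[(-967)]],[[8175803,(-22228),(-1665)],[(-188289),(-853)],[1667]],[[340000,200],[(-7968)]],[[3071]]],[[[(-385469546),(-39116065),634312,879],[2431755,1130847,(-6274)],[60101,(-8964)],[(-492)]],[[(-13568215),(-2077827),35468],[(-126331),67478],[12698]],[[1367980,(-11313)],[(-37313)]],[[77862]]],[[[(-135407084),(-1536281),40040],[3272385,53353],[(-27114)]],[[(-6336494),(-142214)],[92920]],[[104890]]],[[[(-14410940),76672],[352443]],[[(-657641)]]],[[[(-639411)]]]],[[[[903906681,(-111763840),1167918,20779,(-340)],[(-47654773),2760238,2099,(-652)],[781837,(-20306),(-328)],[(-5428),(-3)],[12]],[[(-15697967),(-7248868),118722,923],[(-1658884),235640,(-723)],[51575,(-1880)],[(-431)]],[[(-2701535),(-151419),2770],[27782,4888],[639]],[[(-37402),(-904)],[666]],[[277]]],[[[387938487,(-7568330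0),1089493,3523],[(-26793706),2063644,(-9706)],[497662,(-16277)],[(-3525)]],[[(-29744501),(-4905665),79320],[(-597760),144883],[28589]],[[(-2597067),(-85033)],[26057]],[[(-26545)]]],[[[(-71500601),(-9775153),155535],[(-281680),270519],[34588]],[[(-15827322),(-677752)],[149465]],[[(-694406)]]],[[[(-23922272),(-332400)],[478472]],[[(-2540614)]]],[[[(-1819853)]]]],[[[[89679587,(-10764254),229213,(-1078)],[(-4778200),340898,(-3979)],[90027,(-3338)],[(-681)]],[[(-2046050),(-770255),16353],[(-131086),21784],[4016]],[[(-626305),(-11193)],[8682]],[[(-16926)]]],[[[37281708,(-6369187),132415],[(-2400490),193040],[48145]],[[(-3604545),(-420138)],[(-38551)]],[[(-414685)]]],[[[(-6083943),(-497110)],[19184]],[[(-1446083)]]],[[[(-1192117)]]]]]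

/-- A surrogate. -/
def root_s5 : List (List (List (List (List ℤ)))) :=
  [[[[[10606495221,(-1094167623),23619161,(-191546),(-28),9],[(-503545826),29897422,(-358587),(-518),38],[7493335,(-199628),(-2370),107,(-1)],[(-27780),(-1838),110,(-1)],[(-406),45,(-1)],[6]],[[(-1447994969),43270778,(-711037),6908,(-42)],[42156824,(-1147070),18388,(-203),1],[(-452700),12186,(-252),2],[1766,(-85),2],[3,1]],[[(-15316341),1213123,(-21292),170],[731602,(-37849),485,(-1)],[(-13691),464,(-2)],[130,(-2)],[(-1)]],[[1468848,(-26286),349,(-3)],[(-36969),540,(-5)],[330,(-1)]],[[2645,(-64),(-3)],[(-68),1],[1]],[[(-375)],[7]]],[[[7801014607,(-891503457),18983762,(-197272),1066,(-3)],[(-402487627),25584192,(-351988),1418,1],[6644717,(-218037),(-246),36],[(-37704),(-602),47],[(-159),21],[3]],[[(-1279029645),28653671,(-371842),2973,(-11)],[35912456,(-654264),7287,(-63)],[(-361288),4599,(-67)],[990,(-8)],[7]],[[(-12680832),943242,(-13801),108],[566556,(-26259),262],[(-9316),243],[64]],[[1508235,(-22338),188],[(-38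893),389],[303]],[[3929,(-117)],[(-72)]],[[(-325)]]],[[[1315905286,(-219035351),3949358,(-36396),196],[(-89628740),6436564,(-73085),106],[1737076,(-62214),(-107)],[(-13435),(-17)],[4]],[[(-373491289),5450677,(-52294),514],[10425752,(-116001),1018],[(-110863),841],[422]],[[(-3960574),259198,(-2532)],[165103,(-6081)],[(-1964)]],[[472261,(-4803)],[(-11529)]],[[1594]]],[[[5384697,(-26205733),425613,(-2323)],[(-7099755),802171,(-6787)],[185302,(-7406)],[(-1553)]],[[(-55198963),637987,(-4434)],[1567182,(-14897)],[(-15901)]],[[(-305510),26936],[7399]],[[65909]]],[[[(-16579637),(-1525725),24224],[39491,44807],[5884]],[[(-4069542),46315],[103403]],[[25688]]],[[[(-1241222),(-35402)],[21486]],[[(-119439)]]],[[[(-22580)]]]],[[[[5094790169,(-506924150),9716045,(-53468),(-682),8],[(-234935965),12785580,(-75556),(-2993),48],[3276110,(-42666),(-3923),92],[(-5370),(-1906),74],[(-316),26],[3]],[[(-488393566),(-3504920),72345,595,(-28)],[9943709,111820,1435,(-102)],[(-55008),(-323),(-110)],[(-141),(-36)],[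(-1)]],[[(-33208935),511670,(-6079),74],[840738,(-9812),115],[(-7581),31],[(-5)]],[[(-301809),10752,(-21)],[9668,(-130)],[(-48)]],[[14227,4],[(-257)]],[[176]]],[[[3623618527,(-414450495),8408341,(-90845),329],[(-186998618),11760151,(-152720),196],[3095136,(-98428),(-455)],[(-17834),(-378)],[(-80)]],[[(-428802107),(-8543190),168099,(-1148)],[7650284,286698,(-2381)],[(-17481),(-2490)],[(-468)]],[[(-34604150),353019,(-1780)],[889111,(-5075)],[(-6050)]],[[(-432913),10027],[9104]],[[11473]]],[[[555243120,(-97708532),1549585,(-13515)],[(-39358881),2840054,(-27113)],[778270,(-24609)],[(-5549)]],[[(-147283271),(-3396649),41082],[2801616,87445],[(-8827)]],[[(-11771104),64201],[255640]],[[(-130113)]]],[[[(-5366428),(-12037070),155630],[(-2963931),331586],[77315]],[[(-28095320),(-370747)],[551671]],[[(-1610676)]]],[[[(-9209419),(-658381)],[57373]],[[(-2457001)]]],[[[(-645296)]]]],[[[[296534056,(-21215203),(-347997),23322,(-498)],[(-10895280),(-24603),40817,(-1285)],[32301,19963,(-1183)],[3178,(-452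)],[(-61)]],[[395051,(-3850428),59631,(-149)],[(-1091672),119946,(-747)],[29882,(-1011)],[(-262)]],[[(-4391303),(-97744),1327],[87380,2733],[(-69)]],[[(-261827),268],[4770]],[[(-3800)]]],[[[236533467,(-25591613),400623,(-5126)],[(-12077553),695720,(-6383)],[197712,(-4237)],[(-813)]],[[(-11433392),(-2625893),27972],[(-364217),61672],[12547]],[[(-4168299),(-66513)],[65169]],[[(-188973)]]],[[[24396891,(-4775054),25242],[(-1946297),116970],[37605]],[[(-6403571),(-616430)],[(-13250)]],[[(-1183343)]]],[[[(-90657),(-662461)],[(-174959)]],[[(-1553864)]]],[[[(-583013)]]]],[[[[(-5529583),554337,(-12429),52],[255440,(-17072),166],[(-4526),125],[25]],[[349208,29043,(-668)],[(-2305),(-712)],[(-74)]],[[62993,(-321)],[(-1096)]],[[1479]]],[[[(-5017362),576057,(-9760)],[248217,(-13292)],[(-3458)]],[[490896,21873],[(-2996)]],[[51307]]],[[[(-835105),154831],[59042]],[[189746]]],[[[151006]]]]]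

/-- A surrogate. -/
def root_s11 : List (List (List (List (List ℤ)))) :=
  [[[[[6883400410,(-178286196),1193016,554,(-13)],[(-179581077),3371681,(-13289),(-16)],[1764198,(-20614),23],[(-7298),19],[3]],[[52338474,(-1671921),14203,20],[(-1385382),31230,(-127),(-1)],[11724,(-104),(-1)],[1,(-1)],[(-1)]],[[(-8674525),212778,(-1322)],[225353,(-4067),14],[(-2299),25],[10]],[[(-30188),821,(-2)],[774,(-4)],[(-1)]],[[2424,(-58)],[(-61),1],[1]],[[(-18),1],[1]]],[[[701865048,(-18825929),132093,90,(-2)],[(-18352042),355088,(-1415),(-3)],[176351,(-2006),1],[(-634),(-1)],[(-1)]],[[12776989,(-385076),3064,4],[(-336832),7132,(-26)],[2940,(-24)],[(-2)]],[[(-731722),17839,(-107)],[19186,(-336),1],[(-193),3],[1]],[[(-10187),218,(-1)],[218,(-4)],[(-2)]],[[165,(-5)],[(-5)]]],[[[19992826,(-579527),4464,5],[(-525527),10880,(-43)],[4792,(-48)],[(-10)]],[[611070,(-19440),150],[(-16211),323,(-1)],[116,(-1)]],[[(-12294),320,(-2)],[376,(-8)],[(-5)]],[[(-406),11],[12]]],[[[103776,(-4158),42],[(-2801),76],[19]],[[57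65,(-231),2],[(-156),4],[1]],[[80,(-3)],[(-2)]]]],[[[[1666403408,(-39364500),227580,(-61),1],[(-43234500),750196,(-2849),2],[447980,(-5521),14],[(-2403),21],[7]],[[208183300,(-5111799),31485,2],[(-5413937),96879,(-355)],[54781,(-629),1],[(-254),2],[1]],[[3985814,(-100605),614],[(-103099),1779,(-6)],[954,(-9)],[(-3)]],[[(-95226),2260,(-16)],[2445,(-50)],[(-29)]],[[(-1456),34],[35]],[[22]]],[[[80631839,(-1655425),7010,(-16)],[(-2076457),32032,(-104)],[23091,(-285),1],[(-151),2],[1]],[[17564223,(-424582),2446],[(-456746),7758,(-32)],[4497,(-58)],[(-24)]],[[606738,(-14546),91],[(-15075),268],[146]],[[(-573),40],[49]],[[(-160)]]],[[[(-668351),39633,(-477),(-1)],[18867,(-718),2],[(-50),(-3)],[(-4)]],[[295963,(-6310),39],[(-7617),149],[98]],[[17971,(-484)],[(-509)]],[[271]]],[[[(-34592),1386,(-14)],[934,(-26)],[(-6)]],[[(-1922),78],[52]],[[(-27)]]]],[[[[(-693629784),17546206,(-113425),(-34),1],[18068796,(-332344),1316,1],[(-180001),2167,(-3)],[818,(-3)],[(-1)]],[[(-13122612),362840,(-2850),(-2)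],[342853,(-7437),15],[(-3571),14],[1]],[[1700507,(-39087),262],[(-42361),835],[486]],[[51860,(-1233)],[(-1305)]],[[(-145)]]],[[[(-78506006),1993368,(-12977),(-4)],[2045829,(-37813),141],[(-20374),228],[85]],[[(-4346076),112149,(-667)],[113602,(-1887)],[(-989)]],[[902,(-438)],[(-590)]],[[3809]]],[[[(-1998603),51233,(-345)],[52156,(-991)],[(-528)]],[[(-166588),4348],[4428]],[[(-4704)]]]],[[[[(-178714555),4394326,(-27250),(-2)],[4648183,(-83656),315],[(-47215),554],[223]],[[(-16505653),407355,(-2401)],[430072,(-7341)],[(-4129)]],[[(-456293),9994],[10472]],[[1770]]],[[[(-8785042),217208,(-1389)],[228975,(-4241)],[(-2382)]],[[(-976608),24701],[26053]],[[(-41591)]]]],[[[[(-10056535),245578,(-1544)],[262271,(-4829)],[(-2767)]],[[(-1398087),35075],[37481]],[[(-79814)]]]]]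

/-- A surrogate. -/
def root_s12 : List (List (List (List (List ℤ)))) :=
  [[[[[(-850686041),(-79310886),2523202,(-19091),9],[(-8022310),3879878,(-77542),395],[816351,(-67665),872,(-3)],[(-13338),555,(-4)],[97,(-2)]],[[188758595,(-4725034),33741,(-64)],[(-5723295),117316,(-790),4],[71485,(-1182),12],[(-456),8],[2]],[[4385182,19990,(-2615),20],[(-87326),(-3043),73],[57,60,(-1)],[10,(-1)]],[[(-207741),4336,(-17)],[6146,(-101)],[(-76),1]],[[(-3101),26,1],[67]],[[49,(-1)],[(-1)]]],[[[(-701047844),(-9862358),645396,(-6109),10],[12322187,749630,(-20263),132],[31191,(-15036),243,(-1)],[(-2243),138,(-1)],[22]],[[36311693,(-1200316),14872,(-108)],[(-1187220),33559,(-452),1],[16132,(-443),3],[(-122),2]],[[1751413,(-13700),(-402),5],[(-42070),(-176),15],[266,11],[1]],[[(-36320),980,(-7)],[1172,(-25)],[(-17)]],[[(-811),10],[20]],[[9]]],[[[(-148642896),736089,62344,(-783),2],[3538801,36857,(-2121),14],[(-24969),(-1193),22],[(-38),11],[1]],[[1473073,(-87850),1942,(-12)],[(-58767),2868,(-41)],[806,(-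34)],[(-8)]],[[271939,(-3892),(-22)],[(-6570),36],[56]],[[(-1189),64],[65]],[[(-95)]]],[[[(-13049161),172404,2558,(-41)],[345413,(-1408),(-91)],[(-3461),(-29)],[11]],[[(-99605),(-61),82],[3217,79]],[[18073,(-360)],[(-513)]],[[103]]],[[[(-503422),9071,36],[14258,(-130)],[(-143)]],[[(-9515),88],[182]],[[664]]],[[[(-7052),138],[195]],[[(-137)]]]],[[[[135044536,(-109953018),2757934,(-18600),5],[(-35171747),4146200,(-70518),316],[998102,(-59981),684,(-2)],[(-11983),430,(-2)],[75,(-1)]],[[6119797,(-4034044),102869,(-741)],[(-1427743),164587,(-2986),11],[42683,(-2660),25],[(-564),17],[3]],[[4241908,(-38506),(-647),9],[(-112641),782,21],[1287,2],[(-6)]],[[175573,(-1355),(-42)],[(-4308),(-12)],[34]],[[16],[9]],[[(-45)]]],[[[(-415577002),(-11403302),514106,(-4433),6],[6138047,600423,(-14295),73],[41711,(-10374),135],[(-1465),76],[12]],[[(-20750692),(-442696),22733,(-163)],[327874,27228,(-574)],[1826,(-451)],[(-75)]],[[823847,(-17805),45],[(-23962),428],[339]],[[45592,(-596)],[(-1176)]],[[104]]],[[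[(-92865722),621691,32199,(-368)],[2294588,12632,(-981)],[(-19095),(-512)],[14]],[[(-5487684),50081,1433],[140315,505],[(-949)]],[[4522,(-1183)],[(-1069)]],[[4500]]],[[[(-7316311),121997,602],[202564,(-1632)],[(-2018)]],[[(-496937),7928],[12674]],[[(-4858)]]],[[[(-242059),4954],[6889]],[[(-17982)]]],[[[(-2910)]]]],[[[[211197688,(-36449070),809621,(-5016),1],[(-14795693),1221610,(-18738),69],[319825,(-15968),153],[(-3300),98],[18]],[[(-10153002),(-2277152),61419,(-368)],[(-391860),84969,(-1365)],[16449,(-1119)],[(-206)]],[[(-1158035),(-31455),1157],[17858,1421],[111]],[[(-4623),142],[(-10)]],[[977]]],[[[(-71808387),(-3053146),112486,(-837)],[843887,131927,(-2724)],[11327,(-1986)],[(-285)]],[[(-11431967),(-124208),8241],[232573,8247],[(-617)]],[[(-497760),238],[9976]],[[(-2477)]]],[[[(-14748785),116840,4336],[376159,1001],[(-3221)]],[[(-1726708),18595],[43115]],[[(-63531)]]],[[[(-803521),14952],[22733]],[[(-89416)]]],[[[(-13708)]]]],[[[[20696795,(-2807493),59698,(-349)],[(-1223742),90209,(-1310)],[24329,(-1128)],[(-240)]],[[(-328684),(-271377),6780],[(-62542),9485],[2017]],[[(-198580),(-8856)],[1883]],[[(-9823)]]],[[[(-4606764),(-132723),5627],[74718,6196],[228]],[[(-987020),(-6549)],[20750]],[[(-71642)]]],[[[(-644913),9545],[17890]],[[(-98895)]]],[[[(-16153)]]]]]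

/-- A surrogate. -/
def root_s13 : List (List (List (List (List ℤ)))) :=
  [[[[[(-34520609),3760078,(-101358),1257,(-9)],[2781665,(-216088),3322,(-8)],[(-77006),3603,(-27)],[921,(-25)],[(-5)]],[[(-1890184),639442,(-22903),314,(-2)],[(-7626),(-15778),469,(-5)],[1945,77,(-1)],[(-49),2],[1]],[[1378336,(-82281),1802,(-18)],[(-43839),2169,(-36)],[478,(-17)]],[[(-56742),2312,(-37)],[1819,(-60)],[(-22)]],[[410,(-17)],[(-16)]]],[[[(-67127395),7377689,(-171886),1625,(-9)],[4028276,(-297392),4488,(-15)],[(-91549),4241,(-33)],[985,(-26)],[(-5)]],[[7836866,141255,(-13041),225,(-1)],[(-302784),(-3941),301,(-3)],[5117,5,(-1)],[(-55),1]],[[872803,(-60223),1390,(-12)],[(-29587),1656,(-24)],[347,(-11)]],[[(-48824),1929,(-25)],[1587,(-42)],[(-16)]],[[393,(-13)],[(-12)]]],[[[(-25674990),3490270,(-79587),655,(-3)],[1512698,(-121311),1855,(-6)],[(-31995),1574,(-10)],[326,(-7)],[(-1)]],[[6112629,(-136840),(-603),31],[(-208098),3054,23],[2844,(-26)],[(-18)]],[[88327,(-11009),266],[(-4010),297],[47]],[[(-1275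7),440],[390]],[[102]]],[[[229685,403697,(-10626),77],[88592,(-14710),213],[(-2829),169],[30]],[[987880,(-27370),170],[(-33602),629],[401]],[[(-3086),(-667)],[68]],[[(-1436)]]],[[[341524,16903,(-519)],[(-5221),(-628)],[(-32)]],[[67830,(-1840)],[(-2020)]],[[(-1186)]]],[[[21355,160],[(-493)]],[[1777]]],[[[329]]]],[[[[(-27829614),3041903,(-78756),630,2],[1980329,(-150956),2311],[(-50845),2409,(-19)],[591,(-18)],[(-4)]],[[(-1044470),438994,(-15258),196,(-1)],[52378,(-14881),375,(-2)],[(-1056),171,(-1)],[3]],[[692458,(-21344),177],[(-22759),541,(-1)],[298,(-3)],[(-1)]],[[9607,(-526),8],[(-315),10],[3]],[[(-307),9],[8]]],[[[(-43650967),4921809,(-116583),808,2],[2621848,(-196428),2995,(-1)],[(-59264),2824,(-16)],[640,(-13)],[(-3)]],[[3123488,295485,(-12609),128],[(-67838),(-11285),251],[286,114],[1]],[[701719,(-21286),141],[(-23339),411],[226]],[[7151,(-322)],[(-183)]],[[(-221)]]],[[[(-15175107),2140378,(-50332),278],[927525,(-76688),1029],[(-20163),896],[187]],[[2827711,34483,(-2664)],[(-76131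),(-1943)],[543]],[[233918,(-5937)],[(-6669)]],[[1151]]],[[[208083,238545,(-6102)],[50065,(-8378)],[(-1636)]],[[597563,(-2175)],[(-15516)]],[[29214]]],[[[205207,9405],[(-3027)]],[[48762]]],[[[12298]]]],[[[[(-1126757),137099,(-4447),45],[114667,(-9892),190],[(-3562),207,(-1)],[51,(-1)]],[[(-330962),48417,(-1677),15],[14406,(-1954),32],[(-305),19],[2]],[[47561,10,(-40)],[(-1766),(-19)],[13]],[[3690,(-80)],[(-90)]],[[41]]],[[[(-2446850),277596,(-7375),40],[161510,(-13300),168],[(-4127),170],[40]],[[(-50696),41478,(-1195)],[6043,(-1377)],[(-189)]],[[61492,(-194)],[(-1512)]],[[2736]]],[[[(-917758),127147,(-2906)],[55982,(-4636)],[(-1261)]],[[122926,9017],[(-1372)]],[[21945]]],[[[36717,11624],[1785]],[[35305]]],[[[12542]]]],[[[[172799,(-17323),388,(-2)],[(-7983),533,(-5)],[141,(-4)],[(-1)]],[[(-10913),(-908),21],[72,22],[2]],[[(-1969),10],[34]],[[(-46)]]],[[[156793,(-18002),305],[(-7757),415],[108]],[[(-15340),(-684)],[94]],[[(-1603)]]],[[[26097,(-4838)],[(-1845)]],[[(-5930)]]],[[[(-4719)]]]]]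

/-- A surrogate. -/
def root_s14 : List (List (List (List (List ℤ)))) :=
  [[[[[(-31068518),3384095,(-91222),1131,(-8)],[2503496,(-194481),2989,(-8)],[(-69308),3242,(-24)],[829,(-22)],[(-5)]],[[(-2564086),669504,(-23134),315,(-2)],[62689,(-19583),508,(-4)],[(-170),162,(-2)],[(-21),1]],[[1193205,(-58109),1041,(-8)],[(-39641),1552,(-21)],[481,(-14)],[(-2)]],[[(-16707),10,14],[524,2],[(-8)]],[[(-1045),46,(-1)],[34,(-1)]],[[12]]],[[[(-60414550),6639916,(-154686),1462,(-8)],[3625478,(-267639),4039,(-14)],[(-82392),3817,(-30)],[886,(-24)],[(-5)]],[[5374862,311477,(-16066),244,(-1)],[(-171803),(-11031),385,(-3)],[2305,112,(-1)],[(-25)]],[[981190,(-50621),920,(-6)],[(-34249),1388,(-15)],[442,(-10)],[(-1)]],[[(-21927),236,7],[689,(-3)],[(-7)]],[[(-853),31],[23]],[[9]]],[[[(-23107697),3141173,(-71625),590,(-2)],[1361432,(-109167),1672,(-6)],[(-28788),1418,(-10)],[293,(-7)],[(-1)]],[[4859168,(-35826),(-2552),42],[(-149489),(-315),59],[1753,8],[(-9)]],[[232709,(-13241),232],[(-8805),339],[103]],[[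(-9121),163],[278]],[[(-196)]]],[[[206523,363273,(-9569),70],[79676,(-13240),193],[(-2542),153],[27]],[[894973,(-14454),(-76)],[(-28029),251],[300]],[[22197,(-1230)],[(-666)]],[[(-1454)]]],[[[307443,15196,(-470)],[(-4732),(-568)],[(-28)]],[[69742,(-1283)],[(-1937)]],[[395]]],[[[19253,144],[(-447)]],[[2098]]],[[[298]]]],[[[[(-25046647),2737699,(-70862),567,2],[1782325,(-135843),2079],[(-45762),2167,(-18)],[532,(-16)],[(-3)]],[[(-1635867),471197,(-15726),195,(-1)],[96725,(-17207),406,(-2)],[(-2233),223,(-2)],[19]],[[597023,(-8201),(-245),4],[(-19220),101,6],[249,1],[(-1)]],[[26136,(-1068),11],[(-917),20],[8]],[[(-32),(-2)],[1]],[[(-6)]]],[[[(-39286137),4429654,(-104938),730,2],[2359772,(-176791),2703,(-1)],[(-53333),2547,(-15)],[576,(-12)],[(-2)]],[[1719568,389030,(-14332),132],[4426,(-15147),285],[(-1230),158],[13]],[[710118,(-11890),(-136)],[(-22931),134],[206]],[[24231,(-730)],[(-632)]],[[(-61)]]],[[[(-13657830),1926354,(-45367),252],[834621,(-69090),932],[(-18147),811],[169]],[[2166091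,84463,(-3517)],[(-45613),(-3458)],[35]],[[281917,(-4554)],[(-7609)]],[[6082]]],[[[188020,214719,(-5526)],[44830,(-7583)],[(-1478)]],[[543968,3669],[(-12748)]],[[39932]]],[[[185404,8505],[(-2758)]],[[48940]]],[[[11154]]]],[[[[(-1014122),123341,(-3999),40],[103211,(-8897),172],[(-3204),187,(-1)],[46,(-1)]],[[(-326249),46992,(-1655),14],[15825,(-2058),32],[(-377),21],[3]],[[34570,1312,(-69)],[(-1250),(-55)],[6]],[[4753,(-72)],[(-115)]],[[108]]],[[[(-2202441),249858,(-6662),36],[145348,(-12003),152],[(-3720),154],[36]],[[(-106643),44505,(-1227)],[9490,(-1514)],[(-255)]],[[54732,726],[(-1207)]],[[3711]]],[[[(-825720),114578,(-2634)],[50357,(-4200)],[(-1142)]],[[88472,11180],[146]],[[22325]]],[[[33568,10524],[1603]],[[32665]]],[[[11388]]]],[[[[155557,(-15583),350,(-1)],[(-7181),481,(-5)],[128,(-4)],[(-1)]],[[(-5517),(-1301),26],[(-153),30],[5]],[[(-2111),(-8)],[32]],[[(-78)]]],[[[141085,(-16227),276],[(-6985),376],[98]],[[(-9985),(-993)],[(-79)]],[[(-1750)]]],[[[23378,(-4381)],[(-1669)]],[[(-4607)]]],[[[(-4284)]]]]]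

/-- A surrogate. -/
def root_s15 : List (List (List (List (List ℤ)))) :=
  [[[[[(-2557196469),84063315,(-1116554),8433,(-34)],[148267840,(-2832938),6249,64,1],[(-2353345),24660,69],[15155,(-93),1],[(-42),1]],[[(-489204628),19835144,(-285700),1597,(-1)],[9575352,(-310405),3382,(-13)],[(-16370),(-3),7],[(-1021),29],[11]],[[32076803,(-1206781),15480,(-70)],[(-844387),22158,(-165)],[6435,(-66)],[12,(-1)]],[[(-461302),17034,(-215),1],[12738,(-331),2],[(-111),1]],[[1946,(-84),1],[(-65),2],[1]]],[[[(-4140156383),109381114,(-937734),4226,(-19)],[130009300,(-2381364),8954,(-2)],[(-1539324),16448,17],[8412,(-38)],[(-22)]],[[(-12423029),2267928,(-62836),591,(-1)],[(-228547),(-42794),1149,(-7)],[14134,183,(-4)],[(-199),3],[2]],[[9982316,(-352713),4247,(-20)],[(-284573),7147,(-55)],[2749,(-40)],[(-7)]],[[(-154340),5151,(-58)],[4541,(-110)],[(-48)]],[[722,(-25)],[(-23)]]],[[[(-755858228),19485535,(-161593),699,(-3)],[22425413,(-411504),1813,(-4)],[(-258948),3008,(-1)],[1505,(-6)],[(-4)]],[[7082577,2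6395,(-6430),70],[(-219564),(-3201),121],[1968,16],[(-20)]],[[1251795,(-39944),450],[(-35718),851],[377]],[[(-16762),541],[520]],[[63]]],[[[(-53924318),1371704,(-11845),57],[1587599,(-30164),135],[(-19163),200],[101]],[[637504,(-2330),(-254)],[(-14087),70],[215]],[[75103,(-2306)],[(-2223)]],[[(-801)]]],[[[(-1683644),42983,(-365)],[50916,(-867)],[(-567)]],[[18379,(-414)],[(-709)]],[[2372]]],[[[(-17378),395],[499]],[[381]]],[[[74]]]],[[[[(-2346751637),77930601,(-743607),(-64),29],[116633341,(-2332686),2211,149],[(-1764231),19522,96,(-1)],[11199,(-58)],[(-29)]],[[(-423984371),15680331,(-198472),904],[11881349,(-302153),2117,(-2)],[(-103756),1139,6],[24,11],[5]],[[1131844,(-30781),56,1],[(-61142),1062,(-1)],[1011,(-12)],[(-6)]],[[237491,(-8658),98],[(-6359),145],[44]],[[(-2047),74],[56]]],[[[(-3010548623),82629930,(-588309),(-1011),17],[96017355,(-1846882),4180,64],[(-1162643),13295,39],[6493,(-20)],[(-12)]],[[(-167654861),5543775,(-63122),246],[4925531,(-119392),732],[(-53255),649],[170]],[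[1290781,(-28211),160],[(-40955),867],[609]],[[76606,(-2391)],[(-2031)]],[[(-672)]]],[[[(-515565101),13837575,(-94349),(-172)],[15738827,(-303260),717],[(-187313),2012],[960]],[[(-24228885),751577,(-6963)],[732940,(-14984)],[(-7454)]],[[104791,(-3181)],[(-4642)]],[[8533]]],[[[(-34813715),927318,(-5900)],[1057876,(-19408)],[(-12025)]],[[(-1657342),45259],[46680]],[[621]]],[[[(-1047455),27356],[31481]],[[(-52280)]]],[[[(-11942)]]]],[[[[(-313387577),11455588,(-107356),(-340),6],[17759309,(-368219),132,26],[(-282251),3285,16],[1894,(-8)],[(-4)]],[[(-84412449),3067910,(-36478),110],[2748503,(-66670),293],[(-30354),267],[64]],[[(-3103540),113931,(-1217)],[88585,(-1875)],[(-643)]],[[(-3438),10],[(-77)]],[[638]]],[[[(-428837929),12062397,(-81992),(-315)],[14137915,(-279991),454],[(-177213),1893],[925]],[[(-44439068),1357402,(-11521)],[1371942,(-27500)],[(-14440)]],[[(-1196819),34498],[31100]],[[1275]]],[[[(-61898788),1693437,(-10606)],[1947281,(-36766)],[(-22864)]],[[(-5589139),154812],[164104]]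,[[(-135970)]]],[[[(-3089310),82901],[95903]],[[(-266909)]]],[[[(-52720)]]]],[[[[3483658,113510,(-2581),(-18)],[431604,(-11390),(-25)],[(-10531),103],[69]],[[(-3396209),143439,(-1640)],[141932,(-3083)],[(-1557)]],[[(-305247),10320],[8656]],[[(-7761)]]],[[[(-9272207),305461,(-2085)],[403302,(-8519)],[(-5823)]],[[(-2024433),62845],[67919]],[[(-123284)]]],[[[(-1387300),40747],[50047]],[[(-207611)]]],[[[(-45794)]]]],[[[[1426566,(-35212),180],[(-34374),496],[251]],[[160445,(-3271)],[(-3194)]],[[5584]]],[[[766311,(-18753)],[(-18311)]],[[85267]]],[[[26368]]]]]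

/-- A root. -/
def root : Root where
  cl := false
  box := fun i => match i with
    | 0 => ⟨1, 41, 20, 200⟩
    | 1 => ⟨22, 93, 25, 100⟩
    | 2 => ⟨7, 14287, 50, 100000⟩
    | _ => ⟨3, 310001, 10, 1000000⟩
  De := 400
  e0 := 69
  e1 := 229
  p := fun i => match i with
    | 0 => 13
    | 1 => 40
    | 2 => 697
    | 3 => 200
    | _ => 5
  q := fun i => match i with
    | 0 => 2
    | 1 => 36
    | 2 => 99
    | 3 => 61
    | _ => 2
  den := 17179869184
  sur := fun k => match k with
    | 0 => root_s0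
    | 1 => root_s1
    | 3 => root_s3
    | 5 => root_s5
    | 11 => root_s11
    | 12 => root_s12
    | 13 => root_s13
    | 14 => root_s14
    | 15 => root_s15
    | _ => []
  eps := fun k => match k with
    | 0 => 249384
    | 1 => 922794
    | 3 => 266893
    | 5 => 224917
    | 11 => 5657
    | 12 => 11316
    | 13 => 4457
    | 14 => 4732
    | 15 => 24112
    | _ => 0

/-- A leaf. -/
def leaf0 : Leaf :=
  ⟨⟨22, 181, 25, 200⟩, ⟨7, 14287, 50, 100000⟩, ⟨3, 310001, 10, 1000000⟩,
    16384, (7689, -25341, -19071, 4514), (10633, -40487, -21860, 7994), 16384, (-1605, 70160, 80576, -26962), (2411, 10252, -5512, -6880), (-3635, 73186, 88256, -26428), (-5976, 13748, 12410, -453),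
    true, 0, 1, 966, (-223), 870, 4096, 2358, 897⟩

/-- A tile. -/
def tile0 : Tile :=
  ⟨⟨22, 181, 25, 200⟩, ⟨7, 14287, 50, 100000⟩, ⟨3, 310001, 10, 1000000⟩, 16384, (7689, -25341, -19071, 4514), (10633, -40487, -21860, 7994), 6923,
    (1024, 0), (5, 1024), 0, 4, (leaf0, ⟨(1024, 1), (1024, 312)⟩),
    []⟩

/-- A leaf. -/
def leaf1 : Leaf :=
  ⟨⟨181, 93, 200, 100⟩, ⟨7, 14287, 50, 100000⟩, ⟨3, 310001, 10, 1000000⟩,
    16384, (7104, -27607, -20834, 6196), (7164, -44368, -22848, 13294), 16384, (4811, 66801, 78599, -32608), (8382, 10137, -9381, -12845), (2856, 69488, 86501, -32014), (-4590, 14672, 14161, -2574),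
    true, 0, 1, 1316, (-262), 906, 4096, (-1076), 760⟩

/-- A tile. -/
def tile1 : Tile :=
  ⟨⟨181, 93, 200, 100⟩, ⟨7, 14287, 50, 100000⟩, ⟨3, 310001, 10, 1000000⟩, 16384, (7104, -27607, -20834, 6196), (7164, -44368, -22848, 13294), 6923,
    (1024, 0), (6, 1024), 0, 4, (leaf1, ⟨(1024, 1), (1024, 368)⟩),
    []⟩

/-- The subdivision. -/
def tree : Tree :=
  (.node 0 181 200
    (.tile tile0)
    (.tile tile1))

def tree_ok : tree.ok pieceCor 448 ⟨22, 93, 25, 100⟩ ⟨7, 14287, 50, 100000⟩ ⟨3, 310001, 10, 1000000⟩ = true := by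
  decide +kernel

def root_ok0 : root.okEnt 544 0 = true := by decide +kernel

def root_ok1 : root.okEnt 544 1 = true := by decide +kernel

def root_ok3 : root.okEnt 544 3 = true := by decide +kernel

def root_ok5 : root.okEnt 544 5 = true := by decide +kernel

def root_ok11 : root.okEnt 544 11 = true := by decide +kernel

def root_ok12 : root.okEnt 544 12 = true := by decide +kernel

def root_ok13 : root.okEnt 544 13 = true := by decide +kernel

def root_ok14 : root.okEnt 544 14 = true := by decide +kernel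

def root_ok15 : root.okEnt 544 15 = true := by decide +kernel

def leaf0_ok : leaf0.okLeaf root 640 = true := by decide +kernel

def leaf1_ok : leaf1.okLeaf root 640 = true := by decide +kernel

theorem leaves_eq : tree.leaves =
    [leaf0, leaf1] := rfl

theorem leaves_ok : ∀ F ∈ tree.leaves, Leaf.okLeaf F root 640 = true := by
  rw [leaves_eq]
  exact all'_cons leaf0_ok (all'_cons leaf1_ok ((fun F hF => absurd hF List.not_mem_nil)))

theorem root_ok : ∀ k ∈ [0, 1, 3, 5, 11, 12, 13, 14, 15], root.okEnt 544 k = true := by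
  intro k hk
  simp only [List.mem_cons, List.not_mem_nil, or_false] at hk
  rcases hk with rfl | rfl | rfl | rfl | rfl | rfl | rfl | rfl | rfl
  · exact root_ok0
  · exact root_ok1
  · exact root_ok3
  · exact root_ok5
  · exact root_ok11
  · exact root_ok12
  · exact root_ok13
  · exact root_ok14
  · exact root_ok15

theorem used_ok : ∀ F ∈ tree.leaves, ∀ k ∈ Leaf.used F, root.okEnt 544 k = true := by
  intro F hF k hk
  refine root_ok k ?_
  rw [leaves_eq] at hF
  have h : ([leaf0, leaf1]).all (fun G => G.used.all fun j => [0, 1, 3, 5, 11, 12, 13, 14, 15].any (Nat.beq j)) = true := by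
    decide +kernel
  simp only [List.all_eq_true, List.any_eq_true] at h
  obtain ⟨j, hj, e⟩ := h F hF k hk
  exact Nat.eq_of_beq_eq_true e ▸ hj

/-- **The signs on the box.** -/
theorem signs {a I u X η : ℝ} (hf : Facts pieceCor a I u X η) (hu : In1 ⟨22, 93, 25, 100⟩ u)
    (hI : In1 ⟨7, 14287, 50, 100000⟩ I) (ha : In1 ⟨3, 310001, 10, 1000000⟩ a) :
    ClosedGen.SignsMult a (rd (mk4 X u I a)) (rv (mk4 X u I a)) (rg (mk4 X u I a) η)
      (rW (mk4 X u I a) η) (rW1 (mk4 X u I a) η) (rR (mk4 X u I a))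
      (rNum false (mk4 X u I a) η) :=
  Tree.signs (T := tree) (R := root) tree_ok leaves_ok used_ok hf hu hI ha

end Vale.Agent.P100.Calib.MidTail.BoxIV0U1
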