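import Vale.Agent.P100.Calib.SlabMidTailPieces

/-!
# The signs on a box of the middle tail

`u, I, a` lie in the box of `root`; the surrogates and leaves are checked by the kernel.
-/

namespace Vale.Agent.P100.Calib.MidTail.BoxIV0U2

open Pack EndAll Band

/-- A surrogate. -/
def root_s0 : List (List (List (List (List ℤ)))) :=
  [[[[[4546113821,(-693713428),13788077,(-45135),(-1550),23],[(-255313038),17805822,(-165502),(-1989),55],[3733304,(-114160),(-1463),79,(-2)],[(-12192),(-596),55,(-2)],[(-149),15,(-1)],[2]],[[(-361882301),11711597,(-212757),3777,(-29)],[7007311,(-215830),6065,(-65),1],[18868,983,(-42),1],[(-1606),28,1],[23]],[[1475231,452539,(-7450),43],[63207,(-13016),162,(-1)],[(-1741),141,(-2)],[16,(-1)]],[[345175,(-1405),(-48)],[(-6969),(-86),1],[7,2],[1]],[[2022,(-109)],[(-78),1],[1]],[[(-61)],[1]]],[[[2507876614,(-537951192),10407021,(-64948),(-440),13],[(-176360832),14088551,(-142426),(-899),45],[2859187,(-99384),(-822),69],[(-11610),(-214),42],[(-75),9],[1]],[[(-3050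73024),6100904,(-54016),1044,(-3)],[4881647,7690,(-1065),10],[57200,(-4383),57],[(-2256),72],[25]],[[3883720,371846,(-5266),39],[(-41498),(-8523),76],[(-114),39],[(-8)]],[[449072,(-2203),(-45)],[(-9977),(-59)],[35]],[[3335,(-85)],[(-98)]],[[(-34)]]],[[[(-94613883),(-122130289),1826072,(-10868),(-87)],[(-25756956),3098709,(-23029),(-241)],[547168,(-25428),(-94)],[(-3160),108],[12]],[[(-74468676),(-88672),36269,(-443)],[730406,78820,(-2239)],[27297,(-2678)],[(-758)]],[[1891672,106478,(-584)],[(-19128),(-1697)],[(-298)]],[[162338,147],[(-2667)]],[[1452]]],[[[(-140117372),(-14408117),169881,(-1670)],[76943,380446,(-4408)],[31539,(-5592)],[(-583)]],[[(-9481833),(-158489),11935],[104324,21484],[2612]],[[445603,11396],[2177]],[[20709]]],[[[(-22037922),(-842563),14920],[400738,34112],[(-3162)]],[[(-555686),(-28964)],[29615]],[[13987]]],[[[(-1243598),(-25607)],[46332]],[[(-58832)]]],[[[(-31363)]]]],[[[[4258890956,(-557134583),9061471,614,(-1878),25],[(-234458595),14732103,(-67930),(-4496),10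9],[3888756,(-98268),(-3347),160],[(-22572),(-736),99],[(-40),26],[2]],[[(-254552230),(-11149810),249687,(-1916),(-28)],[2772854,344672,(-5128),(-69)],[29266,(-4602),(-47)],[(-776),(-1)],[3]],[[(-13376889),227691,(-996),43],[333022,(-3571),50],[(-3252),7],[(-1)]],[[(-51474),6680,(-10)],[3331,(-75)],[(-27)]],[[3646,43],[(-41)]],[[41]]],[[[2617820549,(-464016882),7609285,(-42175),(-924)],[(-176395201),13102809,(-135463),(-1602)],[3330509,(-135816),(-578)],[(-27964),268],[84]],[[(-247576802),(-14766348),333194,(-3013)],[1707936,524931,(-7877)],[65644,(-6873)],[(-1251)]],[[(-14663954),88978,2560],[377409,2332],[(-2224)]],[[(-136983),4847],[4986]],[[1755]]],[[[134215110,(-124643753),1860980,(-18513)],[(-34439884),3669175,(-43489)],[820737,(-42105)],[(-8190)]],[[(-109184993),(-4831861),83313],[1500587,161028],[12290]],[[(-5757970),(-9698)],[136063]],[[(-72456)]]],[[[(-112222010),(-16245262),199968],[(-974634),470994],[72723]],[[(-25156125),(-650649)],[470391]],[[(-1057774)]]],[[[(-2285010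4),(-1014530)],[379964]],[[(-2772965)]]],[[[(-1487778)]]]],[[[[308825277,(-25219849),(-1372263),54424,(-1105)],[(-12783756),(-411826),87177,(-2624)],[26031,34340,(-2180)],[3971,(-712)],[(-80)]],[[3363115,(-4509843),31192,394],[(-1302596),127999,(-15)],[32959,(-996)],[(-280)]],[[(-2198105),(-132564),1061],[27632,3134],[290]],[[(-101560),(-1064)],[1688]],[[(-1245)]]],[[[235972071,(-36981507),91543,(-2073)],[(-15326949),895364,(-2460)],[281632,(-7771)],[(-2187)]],[[(-10340552),(-3661704),19969],[(-632296),81678],[17726]],[[(-2478267),(-91486)],[27441]],[[(-78430)]]],[[[2430597,(-8816423),(-52777)],[(-2271703),165178],[47036]],[[(-8654550),(-923481)],[(-42040)]],[[(-825456)]]],[[[(-7751277),(-1376566)],[(-157405)]],[[(-2222973)]]],[[[(-1814280)]]]],[[[[(-6049024),784359,(-18502),82],[322724,(-24596),256],[(-6066),188],[36]],[[299380,29311,(-675)],[(-1079),(-732)],[(-85)]],[[31145,12],[(-515)]],[[530]]],[[[(-4913809),816663,(-15002)],[302854,(-19715)],[(-4729)]],[[451956,22707],[(-2246)]],[[26639]]],[[[(-299125),221101],[66284]],[[188854]]],[[[340890]]]]]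

/-- A surrogate. -/
def root_s1 : List (List (List (List (List ℤ)))) :=
  [[[[[14887488098,(-432114436),1889233,91349,(-2150),27],[(-498388756),9858252,50600,(-3531),73,(-1)],[6228643,(-74608),(-1803),100,(-2)],[(-38666),67,63,(-3)],[119,17,(-2)],[2]],[[(-530984812),22047157,(-351684),2790,22,(-1)],[20266319,(-749676),12716,(-79),(-1)],[(-321388),13287,(-230)],[3430,(-165),2],[(-32),1]],[[(-7678413),77581,1078,(-58)],[234292,(-2988),(-75),1],[(-4024),25,1],[41]],[[42421,668,(-4)],[(-348),(-16)],[(-3)]],[[(-234)],[4]]],[[[19686917431,(-521352820),3077962,26941,(-1056),17],[(-633869329),12861126,(-28795),(-2454),67],[7993323,(-122849),(-1122),96],[(-51696),398,57],[180,14],[1]],[[(-778218390),25484661,(-295657),2739],[27097088,(-724281),9054,(-57)],[(-371773),9867,(-123)],[2955,(-84)],[(-16)]],[[(-1642971),(-94174),701,(-19)],[(-8988),1081,(-20)],[(-224),1],[8]],[[47251,707,(-2)],[(-359),(-10)],[(-2)]],[[(-245)],[3]]],[[[8974661183,(-225570746),1152693,13159,(-449)],[(-280699600),55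76802,(-17871),(-983)],[3504637,(-60667),(-351)],[(-24674),228],[84]],[[(-368618279),10267359,(-81236),606],[12110918,(-260028),2129],[(-153422),2717],[925]],[[531196,(-59172),130],[(-42924),818],[382]],[[15521,167],[(-98)]],[[(-51)]]],[[[1734894792,(-43518503),270268,2369],[(-53017072),1155572,(-5306)],[690818,(-13670)],[(-5287)]],[[(-72389903),1791018,(-11001)],[2237628,(-39754)],[(-24362)]],[[191380,(-7799)],[(-6595)]],[[1133]]],[[[166043754,(-4394363),34234],[(-5102706),132451],[77043]],[[(-7001046),148904],[187360]],[[13346]]],[[[8276311,(-270832)],[(-310688)]],[[(-322164)]]],[[[261469]]]],[[[[13270902945,(-429909886),269802,158192,(-3661),40],[(-467562697),8160263,213299,(-9512),164],[5705064,23972,(-7917),241],[(-22104),(-2252),155],[(-166),44],[5]],[[(-23886360),13937712,(-332906),2662,11],[6275595,(-527809),9014,(-9)],[(-162990),7819,(-46)],[1808,(-34)],[(-7)]],[[1505334,(-76912),(-339),23],[(-96542),2209,29],[2066,(-14)],[(-18)]],[[(-15269),(-515),2],[(-8),7],[2]],[[230],[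(-2)]]],[[[16789432814,(-490431106),1523715,86579,(-2263)],[(-570677044),10876869,67663,(-5246)],[7217282,(-73418),(-3677)],[(-44866),(-660)],[32]],[[66421414,6863879,(-119998),622],[2035612,(-209974),1944],[(-59311),1684],[359]],[[(-1800259),7622,(-172)],[24437,196],[255]],[[(-18067),(-346)],[54]],[[143]]],[[[7457906778,(-200421396),871921,17035],[(-244027719),4761885,1078],[3129654,(-39605)],[(-18920)]],[[37449058,1441259,(-10377)],[27945,(-20577)],[(-1329)]],[[(-1108517),15180],[20816]],[[(-5976)]]],[[[1406302334,(-34928745),160036],[(-44290561),832630],[543695]],[[7945955,6434],[(-172323)]],[[(-126924)]]],[[[133184541,(-3156969)],[(-4041412)]],[[1059303]]],[[[6750102]]]],[[[[933523875,(-48517577),(-2995576),127147,(-1936)],[(-52117392),(-996280),187342,(-4773)],[432752,70177,(-3966)],[4964,(-1288)],[(-140)]],[[81737815,(-4092124),103511,(-761)],[(-3181612),169614,(-2802)],[61901,(-2514)],[(-601)]],[[227026,24154,(-16)],[11433,(-479)],[(-306)]],[[(-4004),91],[80]],[[(-55)]]],[[[1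383793482,(-97633730),(-63112),31193],[(-79596464),2007808,34431],[1208090,(-2501)],[(-5410)]],[[80187760,(-2570387),42407],[(-2620835),77847],[32628]],[[736615,10248],[(-3103)]],[[(-1288)]]],[[[602590979,(-38161824),149564],[(-31763339),818504],[427831]],[[29747323,(-749577)],[(-799846)]],[[293325]]],[[[109389410,(-5370827)],[(-4498592)]],[[3469183]]],[[[8008993]]]],[[[[(-259866546),(-4915948),34878,(-53)],[1776880,122007,(-213)],[18443,(-664)],[(-167)]],[[(-4565297),(-213464),980],[(-10887),3568],[912]],[[80694,(-2051)],[(-1709)]],[[1659]]],[[[(-290302892),(-5573836),26599],[2277944,100503],[11305]],[[(-6261729),(-174005)],[25095]],[[26336]]],[[[(-98272448),(-1753033)],[915459]],[[(-2732646)]]],[[[(-10002969)]]]],[[[[(-27131913)],[543476],[(-2903)]],[[(-1635178)],[22159]],[[(-24938)]]],[[[(-29796784)],[443432]],[[(-1330375)]]],[[[(-8789642)]]]]]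

/-- A surrogate. -/
def root_s3 : List (List (List (List (List ℤ)))) :=
  [[[[[224281433,(-60976621),(-2253792),120106,(-1714),11],[(-15813828),867921,131332,(-3723),29],[183491,21474,(-1986),5],[1420,(-128),(-25),1],[41,(-17),1],[(-3)]],[[184455041,5641169,(-206293),1176,6],[(-659588),(-288649),2758,47],[(-56726),2454,77,(-1)],[361,43,(-1)],[10,(-1)]],[[(-3085583),11433,551,(-3)],[53488,203,(-17),1],[(-229),(-11),1],[(-3)]],[[(-151237),135,44],[3926,24],[(-42)]],[[(-1062),16],[43]]],[[[162770733,(-89624302),(-104674),53931,(-660),2],[(-15896902),2597530,6956,(-343),(-11)],[386294,(-38983),1053,(-41)],[(-6316),903,(-43)],[143,(-19)],[(-3)]],[[116132000,2447192,(-35288),(-850),2],[(-630628),(-124317),(-1379),45],[(-28155),171,69],[47,35],[7]],[[(-2002769),6332,781,(-7)],[30099,424,(-9)],[37,(-1)],[(-3)]],[[(-123630),549,11],[3241,(-3)],[(-25)]],[[(-1001),11],[27]]],[[[(-212688116),(-41321368),876262,(-4177),62],[1632,1469063,(-32822),497],[119288,(-27015),766],[(-2611),391],[44]],[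[16106030,845703,7692,(-511)],[249510,(-26936),(-880)],[(-12152),(-217)],[(-7)]],[[(-149795),6212,(-40)],[1318,(-181)],[88]],[[(-29260),173],[531]],[[(-240)]]],[[[(-167352023),(-3862466),183079,(-2244)],[4140835,173191,(-6450)],[(-43883),(-3649)],[170]],[[1896567,116485,2763],[74510,(-2048)],[(-1986)]],[[52563,768],[(-2289)]],[[(-1908)]]],[[[(-28930885),227693,10171],[894935,(-1968)],[(-13643)]],[[158044,6816],[10315]],[[12851]]],[[[(-1952235),49168],[77337]],[[(-2520)]]],[[[(-61949)]]]],[[[[450585040,(-161318270),(-1008180),141012,(-2188),17],[(-43790429),2785902,140630,(-3914),29],[658460,15036,(-2026),9],[(-1383),(-134),(-12)],[33,(-9)],[(-2)]],[[111378085,(-184035),(-21548),228,(-23)],[(-2822163),16451,(-474),(-32)],[35514,(-1168)],[(-436),14],[4]],[[5609959,86730,(-2659),(-11)],[(-111571),(-3585),14],[679,18],[(-3)]],[[76811,447,(-30)],[(-2275),(-27)],[18]],[[314,(-4)],[(-12)]]],[[[(-197803236),(-147552382),1803697,15219,(-172)],[(-24849075),4147511,(-15337),(-331)],[651849,(-4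0787),100],[(-5473),320],[53]],[[86412152,(-739595),9679,(-147)],[(-2277765),53027,(-1509)],[32507,(-1959)],[(-508)]],[[4815918,45590,(-1203)],[(-101948),(-1217)],[686]],[[72440,14],[(-1673)]],[[279]]],[[[(-480647773),(-32430499),544726,702],[6962203,971183,(-8848)],[(-26613),(-12075)],[(-424)]],[[15358120,(-580466),18238],[(-433439),37564],[9229]],[[1241674,(-1486)],[(-23071)]],[[18459]]],[[[(-180970965),(-1522936),63792],[4643002,83897],[(-47938)]],[[(-837713),(-110309)],[41743]],[[101040]]],[[[(-24402275),153258],[713217]],[[(-541902)]]],[[[(-1557348)]]]],[[[[696875743,(-111030430),865963,28628,(-395)],[(-42619834),2608387,12624,(-792)],[714875,(-17822),(-407)],[(-5000),1],[15]],[[(-11063369),(-3381791),49762,566],[(-728767),117098,(-459)],[25185,(-1206)],[(-268)]],[[(-301473),(-38901),767],[1810,1455],[181]],[[2605,(-160)],[55]],[[34]]],[[[216360998,(-81626875),1048983,6025],[(-24043841),2205803,(-11024)],[481257,(-21109)],[(-4360)]],[[(-19366073),(-2590629),48859],[(-183445),92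204],[16509]],[[(-523170),(-26922)],[8723]],[[(-2657)]]],[[[(-137933353),(-13487907),240535],[659172,421033],[43005]],[[(-11219417),(-506287)],[153040]],[[(-260991)]]],[[[(-44528530),(-595852)],[996926]],[[(-2432615)]]],[[[(-4212978)]]]],[[[[95300941,(-14546433),322227,(-1567)],[(-5835603),468034,(-5727)],[115830,(-4722)],[(-924)]],[[(-3010046),(-487809),11243],[(-38051),14489],[2293]],[[(-238694),(-3171)],[3684]],[[(-2938)]]],[[[28516670,(-8731920),190894],[(-2731215),270118],[61550]],[[(-3901813),(-267342)],[10099]],[[(-163889)]]],[[[(-14411523),(-730409)],[154524]],[[(-1365903)]]],[[[(-2544641)]]]]]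

/-- A surrogate. -/
def root_s5 : List (List (List (List (List ℤ)))) :=
  [[[[[5621314418,(-722842475),16476218,(-146615),409,1],[(-306700756),20605733,(-292808),1454,(-3)],[4984394,(-165058),161,34,(-1)],[(-24221),(-581),56,(-1)],[(-182),26,(-1)],[4]],[[(-614030098),29372453,(-487006),3957,(-13)],[20787189,(-790870),10598,(-68)],[(-261125),7915,(-91),1],[1334,(-35),1]],[[7641568,151314,(-4254),22],[(-98323),(-7242),110],[(-1145),131,(-1)],[38,(-1)]],[[263946,(-6469),47,(-1)],[(-7298),126,(-1)],[74]],[[(-1651),(-14)],[31]],[[(-28)]]],[[[4121621078,(-636215618),14121882,(-143867),982,(-4)],[(-257255164),18693992,(-262240),1357,(-1)],[4610646,(-162668),(-23),40],[(-27832),(-355),53],[(-97),22],[3]],[[(-566930340),25203981,(-373357),2808,(-8)],[19165468,(-653669),7098,(-40)],[(-241648),5658,(-44)],[1254,(-11)],[2]],[[9695781,134104,(-4183),28],[(-183281),(-6319),87],[40,86],[19]],[[310403,(-6507),25],[(-8702),86],[67]],[[(-1400),(-17)],[8]],[[(-20)]]],[[[576980237,(-179753693),355845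2,(-32975),265],[(-61792772),5405269,(-66043),98],[1325967,(-54687),(-179)],[(-10917),(-29)],[3]],[[(-165068200),6870511,(-83663),508],[5680012,(-174131),1205],[(-79063),1174],[421]],[[3905837,49168,(-1083)],[(-75069),(-2032)],[(-86)]],[[112649,(-1470)],[(-2665)]],[[(-160)]]],[[[(-74032129),(-23910651),449252,(-3077)],[(-4679586),777709,(-9458)],[154361,(-10263)],[(-1947)]],[[(-21306627),903915,(-6989)],[798760,(-18949)],[(-12698)]],[[758869,7487],[(-8869)]],[[15963]]],[[[(-21982043),(-1641900),40616],[153835,71918],[6759]],[[(-1257190),53665],[75307]],[[49542]]],[[[(-1581304),(-66942)],[46998]],[[(-79862)]]],[[[(-53798)]]]],[[[[4632084356,(-600230820),13306048,(-128138),460,5],[(-250583645),16765008,(-205431),(-418),40],[4055877,(-114841),(-1793),88],[(-17520),(-1123),75],[(-208),27],[4]],[[(-378969384),2776231,(-14563),728,(-9)],[9219554,(-62306),1490,(-46)],[(-80135),620,(-53)],[186,(-16)],[1]],[[(-8451494),244634,(-2154),30],[235949,(-5197),41],[(-2735),19],[2]],[[52868,2289,3],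[(-435),(-29)],[(-4)]],[[2296,3],[(-33)]],[[10]]],[[[3137416236,(-514778586),10580951,(-105745),436],[(-201847207),14906404,(-194697),247],[3689555,(-134986),(-495)],[(-24872),(-363)],[(-70)]],[[(-361627727),(-1653264),89962,(-378)],[7917955,109810,(-1379)],[(-51111),(-1578)],[(-217)]],[[(-9692092),207354,(-312)],[288671,(-2477)],[(-2402)]],[[20565,2232],[818]],[[1556]]],[[[312723033,(-143634359),2488533,(-19168)],[(-45137701),4320928,(-43405)],[1037001,(-40750)],[(-8656)]],[[(-135634359),(-1278109),36507],[3089890,58787],[(-16653)]],[[(-3776329),46306],[103538]],[[(-8004)]]],[[[(-102880624),(-19582686),301764],[(-2361911),600341],[112939]],[[(-26983473),(-210605)],[623069]],[[(-670964)]]],[[[(-25119979),(-1280094)],[346768]],[[(-2758275)]]],[[[(-1840972)]]]],[[[[383390345,(-41255633),(-36406),19345,(-528)],[(-18168373),538319,34635,(-1344)],[178756,14488,(-1236)],[1977,(-466)],[(-62)]],[[(-13691834),(-2681238),37580,(-255)],[(-409126),82742,(-628)],[17040,(-740)],[(-174)]],[[(-1979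691),(-35874),285],[42695,871],[(-128)]],[[(-53287),(-31)],[951]],[[(-380)]]],[[[272093697,(-43063838),585857,(-8670)],[(-17401749),1158554,(-10753)],[312984,(-7982)],[(-1612)]],[[(-21698403),(-2148655),15966],[10904,46424],[7307]],[[(-2056700),(-28902)],[32525]],[[(-41058)]]],[[[11941263,(-10298520),34987],[(-3027677),226584],[63496]],[[(-10392622),(-589106)],[73334]],[[(-643517)]]],[[[(-8617443),(-1465991)],[(-190326)]],[[(-2217960)]]],[[[(-1954614)]]]],[[[[(-6451459),837132,(-19707),87],[344388,(-26199),272],[(-6462),200],[38]],[[405167,18829,(-516)],[(-6097),(-509)],[(-24)]],[[26645,(-180)],[(-485)]],[[293]]],[[[(-5241104),870302,(-15913)],[322877,(-20915)],[(-5018)]],[[548829,14280],[(-6111)]],[[22419]]],[[[(-322155),234566],[70352]],[[208345]]],[[[361448]]]]]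

/-- A surrogate. -/
def root_s11 : List (List (List (List (List ℤ)))) :=
  [[[[[4635357814,(-125372763),889132,646,(-15)],[(-121268661),2363139,(-9456),(-19)],[1158918,(-13124),3],[(-4018),(-10)],[(-8)]],[[(-94584961),2142136,(-11428),8],[2448125,(-40971),151],[(-25931),323,(-1)],[150,(-2)],[(-1)]],[[(-2624964),65716,(-416)],[68342,(-1240),5],[(-682),8],[3]],[[16910,(-394),2],[(-435),8],[5]],[[219,(-5)],[(-5)]],[[(-1)]]],[[[650093171,(-18383295),137602,132,(-3)],[(-17058219),345339,(-1407),(-4)],[158131,(-1735),(-2)],[(-432),(-5)],[(-3)]],[[(-7119164),129629,(-330),2],[182340,(-2475),9],[(-2094),30],[17]],[[(-397532),9770,(-60)],[10280,(-182),1],[(-102),1]],[[(-618),13],[11]],[[26]]],[[[26492757,(-818167),6724,9],[(-699537),15285,(-62)],[6071,(-58)],[(-5)]],[[33374,(-4594),60],[(-1121),65,(-1)],[(-20)]],[[(-13234),326,(-1)],[355,(-4)],[(-3)]],[[(-122),2],[3]]],[[[247826,(-9929),100],[(-6688),183,(-1)],[44]],[[6609,(-265),2],[(-179),4],[1]],[[44,(-2)],[(-1)]]]],[[[[2932307560,(-715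08217),436518,8],[(-76219500),1358819,(-5246)],[775828,(-9430),21],[(-3865),28],[9]],[[98436409,(-2463986),15744,3],[(-2562395),46915,(-181)],[25802,(-306),1],[(-118),1]],[[(-295290),5645,(-21)],[7330,(-109),(-1)],[(-82),(-1)]],[[(-24955),603,(-3)],[643,(-9)],[(-5)]],[[(-39),2],[2]],[[1]]],[[[296007573,(-7024937),40949,(-9)],[(-7681872),133817,(-508)],[79391,(-975),2],[(-421),3],[1]],[[14905295,(-368556),2288],[(-387788),6958,(-24)],[3896,(-42)],[(-17)]],[[135309,(-3461),26],[(-3481),74],[40]],[[(-1552),21],[23]],[[(-15)]]],[[[5997459,(-118671),459,(-2)],[(-154150),2331,(-3)],[1756,(-15)],[(-9)]],[[496490,(-11841),50],[(-12944),171],[105]],[[10068,(-213)],[(-223)]],[[53]]],[[[(-61956),2482,(-25)],[1672,(-46)],[(-11)]],[[(-1652),67],[45]],[[(-11)]]]],[[[[(-189764500),5225486,(-37898),(-31),1],[4970479,(-98365),389,1],[(-46939),510,(-1)],[143,(-1)]],[[17836155,(-418272),2414,(-1)],[(-462453),8064,(-13)],[4862,(-30)],[(-14)]],[[705230,(-17274),90],[(-18429),283],[163]],[[4730,(-140)],[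(-147)]],[[(-30)]]],[[[(-65735322),1698579,(-11261),(-5)],[1714624,(-31915),156],[(-16746),250],[91]],[[(-673485),19157,(-283)],[17143,(-766)],[(-384)]],[[43569,(-613)],[(-687)]],[[739]]],[[[(-3155148),80809,(-543)],[82265,(-1563)],[(-832)]],[[(-126215),3293],[3354]],[[(-1711)]]]],[[[[(-158917476),3920955,(-24299),(-3)],[4133397,(-74125),330],[(-41612),579],[232]],[[(-5844172),144051,(-1129)],[150934,(-3436)],[(-1924)]],[[(-28119),1686],[1744]],[[808]]],[[[(-12224263),301700,(-1928)],[318044,(-5886)],[(-3306)]],[[(-651989),16480],[17382]],[[(-13326)]]]],[[[[(-12334395),300297,(-1887)],[320709,(-5899)],[(-3379)]],[[(-822322),20612],[22026]],[[(-22532)]]]]]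

/-- A surrogate. -/
def root_s12 : List (List (List (List (List ℤ)))) :=
  [[[[[(-650060089),(-7910085),582971,(-5623),6],[8769134,1012910,(-26373),162],[182313,(-24384),363,(-1)],[(-4945),233,(-2)],[42,(-1)]],[[92937221,(-1438024),(-8513),176],[(-2464790),12683,508,(-3)],[22127,270,(-6)],[(-28),(-4)],[(-1)]],[[(-619791),16536,(-223),2],[22223,(-785),11],[(-430),14],[5]],[[(-52722),823,3],[1450,(-13)],[(-15)]],[[(-101),1],[2]],[[3]]],[[[(-388850129),(-3105452),312349,(-3246),6],[7135078,374093,(-11085),81],[18419,(-8462),148,(-1)],[(-1390),84,(-1)],[14]],[[30717033,(-559375),(-357),25],[(-850566),8414,47],[8589,(-12)],[(-29)]],[[73124,3075,(-121),1],[(-92),(-206),5],[(-59),4],[1]],[[(-13879),259,(-1)],[389,(-4)],[(-3)]],[[(-58),1],[1]]],[[[(-95264404),137122,52413,(-652),2],[2133419,41024,(-1788),17],[(-10937),(-1068),26],[(-85),13],[2]],[[4413253,(-95068),435,(-3)],[(-127641),1807,(-15)],[1301,(-17)],[(-6)]],[[70010,(-764),(-11)],[(-1631),6],[16]],[[(-1195),19],[23]],[[(-9)]]],[[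[(-10551882),95927,3523,(-62)],[265029,565,(-140)],[(-2445),(-50)],[12]],[[323534,(-7407),64],[(-8873),124],[58]],[[9341,(-167)],[(-243)]],[[2]]],[[[(-522801),7874,83],[14381,(-182)],[(-224)]],[[10637,(-110)],[(-85)]],[[423]]],[[[(-9312),261],[377]],[[(-8)]]]],[[[[(-285544058),(-48067863),1430852,(-10726),5],[(-8979182),2141519,(-40967),208],[464801,(-34758),439,(-2)],[(-6749),272,(-2)],[46,(-1)]],[[22814965,(-203738),(-2574),(-7)],[(-676043),11450,(-173),3],[10504,(-284),8],[(-107),6],[1]],[[1826187,(-4316),(-694),4],[(-44230),(-358),12],[370,5],[(-1)]],[[19536,(-235),(-5)],[(-512),(-1)],[4]],[[(-183),1],[3]],[[(-2)]]],[[[(-396642891),(-6738054),395332,(-3710),6],[6796823,450688,(-11836),84],[18118,(-8516),153],[(-1173),86],[13]],[[1625642,(-157658),4161,(-70)],[(-103532),7606,(-257)],[2509,(-216)],[(-43)]],[[568523,(-6834),(-33)],[(-15009),115],[138]],[[7394,(-95)],[(-189)]],[[(-8)]]],[[[(-105443848),760252,35929,(-513)],[2602514,13906,(-1359)],[(-21453),(-704)],[23]],[[(-1585879)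,8653,880],[38611,450],[(-455)]],[[53140,(-788)],[(-1031)]],[[948]]],[[[(-10880083),178222,1019],[299380,(-2838)],[(-3484)]],[[(-282501),5883],[9532]],[[(-643)]]],[[[(-476837),10517],[14611]],[[(-17760)]]],[[[(-7588)]]]],[[[[106203158,(-31239940),732318,(-4701),1],[(-11029757),1082946,(-17365),77],[266304,(-14563),167],[(-2900),106],[19]],[[(-7133300),(-758081),22482,(-180)],[(-51982),30314,(-664)],[5084,(-538)],[(-96)]],[[(-130942),(-979),206],[2816,253],[16]],[[4620,19],[(-58)]],[[88]]],[[[(-97673631),(-3225842),129300,(-1085)],[1384639,147020,(-3504)],[8491,(-2509)],[(-335)]],[[(-6185290),(-54637),4886],[129781,4700],[(-552)]],[[(-89245),71],[2623]],[[210]]],[[[(-22431430),183684,6605],[572076,920],[(-5474)]],[[(-1179875),14680],[33148]],[[(-21962)]]],[[[(-1501539),29237],[44131]],[[(-82403)]]],[[[(-31476)]]]],[[[[17344937,(-3284494),72833,(-433)],[(-1270962),107359,(-1607)],[27153,(-1361)],[(-280)]],[[(-723275),(-149106),3967],[(-21425),5377],[1018]],[[(-70321),(-2236)],[916]],[[(-1507)]]],[[[(-8088415),(-154503),7822],[150688,8067],[(-196)]],[[(-774106),(-2318)],[17008]],[[(-26019)]]],[[[(-1150491),17732],[32047]],[[(-84150)]]],[[[(-32644)]]]]]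

/-- A surrogate. -/
def root_s13 : List (List (List (List (List ℤ)))) :=
  [[[[[(-15942575),2198283,(-64896),1247,(-17)],[1314344,(-119686),2057,(-17)],[(-37371),1863,(-14)],[433,(-10)],[(-2)]],[[1431481,(-8920),(-1894),51,(-1)],[(-103052),2871,8,(-1)],[2625,(-84)],[(-34),1]],[[109645,(-15015),450,(-6)],[(-3364),416,(-10)],[22,(-4)]],[[(-9755),428,(-7)],[317,(-11)],[(-4)]],[[64,(-2)],[(-2)]]],[[[(-27492410),4080064,(-100692),1453,(-18)],[1834525,(-160201),2583,(-24)],[(-43513),2143,(-23)],[458,(-15)],[(-3)]],[[4319299,(-207433),2319,30,(-1)],[(-198514),7810,(-43),(-1)],[3746,(-113)],[(-40),1]],[[(-42996),(-9112),365,(-4)],[1143,311,(-7)],[(-8),(-3)]],[[(-8703),371,(-5)],[289,(-8)],[(-3)]],[[58,(-1)],[(-1)]]],[[[(-8132588),1935799,(-45564),597,(-5)],[649986,(-65894),1195,(-10)],[(-15061),925,(-13)],[172,(-8)],[(-1)]],[[2310129,(-139450),2261,7],[(-95487),4358,(-19)],[1694,(-38)],[(-14)]],[[(-79849),(-769),84],[2107,69],[(-6)]],[[(-2486),87],[75]],[[12]]],[[[1459424,243784,(-6896),1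11],[19261,(-9258),269],[(-1306),203],[31]],[[270839,(-21881),312],[(-13039),639],[289]],[[(-18091),(-37)],[315]],[[(-315)]]],[[[364388,10805,(-700)],[(-7414),(-806)],[27]],[[9474,(-1623)],[(-1285)]],[[(-1268)]]],[[[21924,115],[(-1015)]],[[845]]],[[[664]]]],[[[[(-37196287),5101263,(-134578),1121,1],[2578060,(-219893),3516,(-6)],[(-63625),3190,(-29)],[701,(-23)],[(-4)]],[[1801334,163458,(-7310),108],[(-48889),(-5898),197,(-1)],[440,77,(-1)],[(-5)]],[[208199,(-7779),106],[(-6808),220,(-1)],[98,(-1)]],[[(-94),(-41),1],[(-3),1]],[[(-34),1],[1]]],[[[(-45299160),7132947,(-179306),1387,1],[3097741,(-274681),4590,(-6)],[(-72777),3940,(-27)],[808,(-20)],[(-4)]],[[4383389,85058,(-6476),83],[(-124075),(-4344),157],[1343,64],[(-4)]],[[210934,(-7930),71],[(-7431),168],[83]],[[(-219),(-36)],[(-10)]],[[(-22)]]],[[[(-10816219),2955928,(-76358),501],[992478,(-108817),1715],[(-24698),1405],[267]],[[2654444,(-6731),(-1727)],[(-78749),(-843)],[714]],[[74697,(-2390)],[(-2508)]],[[4]]],[[[2215217,364589,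(-11068)],[23947,(-14233)],[(-2139)]],[[559016,(-4738)],[(-16284)]],[[12176]]],[[[542803,16399],[(-11164)]],[[54691]]],[[[35735]]]],[[[[(-3058999),430366,(-12505),117],[232728,(-21360),408],[(-6318),379,(-2)],[83,(-2)]],[[(-4001),33568,(-1303),11],[3839,(-1412),25],[(-144),14],[1]],[[25949,(-240),(-13)],[(-924),(-3)],[7]],[[736,(-16)],[(-18)]],[[4]]],[[[(-3838763),607650,(-16341),94],[272179,(-25797),340],[(-6864),306],[64]],[[236424,28589,(-944)],[(-3325),(-1003)],[(-74)]],[[31987,(-252)],[(-775)]],[[558]]],[[[(-813835),236597,(-5578)],[77018,(-8238)],[(-1924)]],[[201626,5895],[(-3658)]],[[10963]]],[[[241399,20438],[(-1110)]],[[43746]]],[[[36395]]]],[[[[201608,(-26160),616,(-3)],[(-10762),819,(-8)],[202,(-6)],[(-1)]],[[(-12661),(-588),16],[191,16],[1]],[[(-833),6],[15]],[[(-9)]]],[[[163785,(-27197),497],[(-10090),654],[157]],[[(-17151),(-446)],[191]],[[(-701)]]],[[[10067,(-7330)],[(-2198)]],[[(-6511)]]],[[[(-11295)]]]]]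

/-- A surrogate. -/
def root_s14 : List (List (List (List (List ℤ)))) :=
  [[[[[(-14946165),2060893,(-60849),1169,(-16)],[1232190,(-112216),1930,(-16)],[(-35036),1748,(-13)],[407,(-9)],[(-2)]],[[1142745,19111,(-2572),62,(-1)],[(-80199),1217,30,(-1)],[1998,(-58)],[(-27),1]],[[120701,(-14194),402,(-4)],[(-4427),428,(-9)],[52,(-5)]],[[(-7797),218,(-1)],[261,(-5)],[(-3)]],[[(-62),3],[2]],[[1]]],[[[(-25774052),3825075,(-94403),1361,(-17)],[1719839,(-150196),2417,(-23)],[(-40796),2006,(-22)],[429,(-14)],[(-3)]],[[3705782,(-143532),938,48,(-1)],[(-163164),5343,(-1),(-1)],[2968,(-72)],[(-31)]],[[13526,(-11111),364,(-3)],[(-1368),386,(-6)],[42,(-4)]],[[(-8718),225],[277,(-3)],[(-2)]],[[(-54),2],[2]],[[1]]],[[[(-7624214),1814820,(-42680),559,(-5)],[609393,(-61731),1117,(-10)],[(-14115),864,(-12)],[161,(-7)],[(-1)]],[[2063955,(-106526),1484,16],[(-81303),3171,4],[1383,(-18)],[(-10)]],[[(-46108),(-2469),94],[698,108],[17]],[[(-3249),59],[80]],[[(-16)]]],[[[1368014,228492,(-6440),105],[18131,(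-8646),253],[(-1218),191],[29]],[[271839,(-17309),153],[(-12015),415],[244]],[[(-13182),(-315)],[56]],[[(-437)]]],[[[341330,10085,(-660)],[(-6932),(-760)],[26]],[[13586,(-1302)],[(-1358)]],[[(-770)]]],[[[20467,108],[(-957)]],[[1279]]],[[[626]]]],[[[[(-34871479),4782468,(-126164),1050,1],[2416930,(-206152),3293,(-6)],[(-59652),2987,(-28)],[656,(-21)],[(-4)]],[[1223896,216987,(-8522),118],[(-13584),(-8261),238,(-1)],[(-380),120,(-1)],[6]],[[217609,(-5276),(-3),1],[(-6995),125,1],[101]],[[2484,(-148),2],[(-102),3],[1]],[[(-32)],[1]]],[[[(-42467867),6687162,(-168056),1302,1],[2904206,(-257454),4307,(-6)],[(-68216),3697,(-26)],[758,(-19)],[(-3)]],[[3542946,168825,(-8418),94],[(-77581),(-7644),198],[327,103],[5]],[[252410,(-6371),(-12)],[(-8648),99],[90]],[[2572,(-119)],[(-94)]],[[(-18)]]],[[[(-10140532),2771009,(-71613),472],[930442,(-102038),1617],[(-23149),1325],[252]],[[2352833,30870,(-2539)],[(-61592),(-2108)],[366]],[[104005,(-2231)],[(-3237)]],[[942]]],[[[2076521,341749,(-10433)],[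22304,(-13414)],[(-2015)]],[[552630,135],[(-14950)]],[[18353]]],[[[509184,15451],[(-10533)]],[[58415]]],[[[33696]]]],[[[[(-2867865),403425,(-11714),110],[218188,(-20011),383],[(-5920),356,(-2)],[78,(-2)]],[[(-42072),36913,(-1405),12],[6527,(-1631),27],[(-223),17],[2]],[[24358,221,(-25)],[(-838),(-16)],[5]],[[1068,(-17)],[(-26)]],[[10]]],[[[(-3599036),569665,(-15345),89],[255167,(-24219),321],[(-6442),288],[61]],[[173805,34497,(-1049)],[243,(-1201)],[(-139)]],[[33224,69],[(-747)]],[[841]]],[[[(-762774),221966,(-5259)],[72184,(-7766)],[(-1814)]],[[179309,8217],[(-2511)]],[[12358]]],[[[226834,19263],[(-1054)]],[[43713]]],[[[34326]]]],[[[[189032,(-24511),578,(-3)],[(-10085),769,(-8)],[190,(-6)],[(-1)]],[[(-9356),(-916),21],[34,23],[3]],[[(-973)],[16]],[[(-17)]]],[[[153557,(-25521),469],[(-9464),616],[148]],[[(-14124),(-710)],[70]],[[(-832)]]],[[[9348,(-6909)],[(-2071)]],[[(-5902)]]],[[[(-10653)]]]]]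

/-- A surrogate. -/
def root_s15 : List (List (List (List (List ℤ)))) :=
  [[[[[(-1214761773),39277286,(-799311),11328,(-71)],[63932751,(-1201666),8458,(-101),1],[(-942340),8596,(-16),1],[5250,(-23),1],[(-11)]],[[(-6758940),1460034,(-40552),354],[(-1710270),4550,608,(-6)],[47449,(-600)],[(-528),8],[3]],[[6903110,(-264461),3537,(-18)],[(-172748),4770,(-41)],[1182,(-14)],[4]],[[(-93768),3423,(-42)],[2573,(-65)],[(-22)]],[[327,(-12)],[(-9)]]],[[[(-1842664440),46924220,(-585485),7183,(-49)],[55579324,(-963296),7765,(-96),1],[(-620630),5837,(-34),1],[3123,(-19)],[(-12)]],[[92221208,(-1956659),833,186,(-1)],[(-3017062),45055,180,(-4)],[39015,(-344),(-2)],[(-238),2],[1]],[[2152946,(-82802),1146,(-6)],[(-59994),1717,(-16)],[566,(-11)],[(-2)]],[[(-35285),1160,(-10)],[1014,(-20)],[(-9)]],[[119,(-3)],[(-2)]]],[[[(-392235543),9597689,(-115294),1417,(-7)],[11075183,(-190358),1800,(-15)],[(-121057),1463,(-6)],[773,(-8)],[(-4)]],[[21855207,(-511295),1117,40],[(-661503),9815,46],[7341,(-35)],[(-3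0)]],[[339753,(-11848),155],[(-9865),281],[120]],[[(-4554),115],[111]],[[8]]],[[[(-32680039),776904,(-10375),119],[915145,(-17281),211],[(-11307),244],[125]],[[1943781,(-44785),(-13)],[(-55544),538],[434]],[[28832,(-939)],[(-894)]],[[(-203)]]],[[[(-1141513),27012,(-595)],[33702,(-1202)],[(-791)]],[[76449,(-1204)],[(-1547)]],[[1210]]],[[[(-8928),565],[746]],[[869]]],[[[210]]]],[[[[(-2993294870),94675294,(-917416),1523,19],[120317786,(-2436279),5580,109],[(-1633677),17846,78,(-1)],[9222,(-37)],[(-20)]],[[(-137125773),5154421,(-68481),378],[3482516,(-92883),837,(-2)],[(-24562),329,2],[(-54),5],[2]],[[2177766,(-75017),794,(-1)],[(-68970),1555,(-4)],[734,(-6)],[(-2)]],[[27814,(-1048),13],[(-750),19],[6]],[[(-245),6],[5]]],[[[(-3094545668),85450841,(-649641),(-115),18],[96800388,(-1877380),5530,67],[(-1148157),13552,40],[6378,(-24)],[(-14)]],[[(-49855741),1793895,(-24727),150],[1394322,(-39066),403],[(-14556),317],[73]],[[1153644,(-33038),172],[(-34538),513],[299]],[[10280,(-350)],[(-293)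]],[[(-66)]]],[[[(-628122180),16937953,(-122026),(-151)],[19005959,(-370711),1191],[(-225255),2931],[1366]],[[(-9593716),317359,(-4391)],[289117,(-8957)],[(-4312)]],[[146592,(-2674)],[(-3168)]],[[1530]]],[[[(-52707837),1409613,(-10461)],[1592820,(-33356)],[(-20454)]],[[(-957659),33884],[34507]],[[3240]]],[[[(-2016389),56496],[64667]],[[(-49381)]]],[[[(-29943)]]]],[[[[(-604221074),19921469,(-181487),(-223),8],[25436936,(-527349),940,30],[(-354491),4240,20],[2183,(-6)],[(-4)]],[[(-47465505),1657489,(-19452),63],[1468213,(-36076),181],[(-16225),168],[42]],[[(-582815),21984,(-293)],[16636,(-455)],[(-156)]],[[3820,(-67)],[(-66)]],[[51]]],[[[(-595442354),16735670,(-119468),(-346)],[19042285,(-381260),842],[(-233910),2722],[1281]],[[(-26091598),801043,(-7568)],[797851,(-17817)],[(-9261)]],[[(-252109),9464],[8403]],[[937]]],[[[(-96325288),2642078,(-17937)],[2994535,(-59906)],[(-36731)]],[[(-3909938),116796],[123019]],[[(-45620)]]],[[[(-5660051),156728],[180061]],[[(-237482)]]],[[[(-116850)]]]],[[[[(-15165611),700513,(-7771),(-18)],[1047218,(-24527),6],[(-17887),170],[98]],[[(-3061896),114123,(-1160)],[111673,(-2263)],[(-1131)]],[[(-107677),3362],[2876]],[[(-1194)]]],[[[(-20730195),633163,(-4040)],[765468,(-14670)],[(-9535)]],[[(-1767588),49357],[52635]],[[(-44757)]]],[[[(-2647425),74259],[89427]],[[(-176821)]]],[[[(-90836)]]]],[[[[2010141,(-49561),258],[(-48381),712],[361]],[[108550,(-2256)],[(-2203)]],[[1850]]],[[[1090210,(-26631)],[(-26004)]],[[58211]]],[[[43246]]]]]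

/-- A root. -/
def root : Root where
  cl := false
  box := fun i => match i with
    | 0 => ⟨13, 97, 200, 400⟩
    | 1 => ⟨93, 191, 100, 200⟩
    | 2 => ⟨7, 14287, 50, 100000⟩
    | _ => ⟨3, 310001, 10, 1000000⟩
  De := 400
  e0 := 42
  e1 := 194
  p := fun i => match i with
    | 0 => 11
    | 1 => 80
    | 2 => 697
    | 3 => 200
    | _ => 5
  q := fun i => match i with
    | 0 => 2
    | 1 => 75
    | 2 => 99
    | 3 => 61
    | _ => 1
  den := 17179869184
  sur := fun k => match k with
    | 0 => root_s0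
    | 1 => root_s1
    | 3 => root_s3
    | 5 => root_s5
    | 11 => root_s11
    | 12 => root_s12
    | 13 => root_s13
    | 14 => root_s14
    | 15 => root_s15
    | _ => []
  eps := fun k => match k with
    | 0 => 279702
    | 1 => 799152
    | 3 => 269574
    | 5 => 248752
    | 11 => 1645
    | 12 => 8729
    | 13 => 4511
    | 14 => 4773
    | 15 => 14763
    | _ => 0

/-- A leaf. -/
def leaf0 : Leaf :=
  ⟨⟨93, 191, 100, 200⟩, ⟨7, 14287, 50, 100000⟩, ⟨3, 310001, 10, 1000000⟩,
    16384, (5450, -30445, -23047, 9233), (114, -50677, -24106, 23143), 16384, (29570, 56938, 68539, -54737), (-4418, -387, -18086, 5514), (13316, 63230, 82788, -40540), (-1665, 16091, 16549, -6564),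
    true, 0, 1, 1860, (-268), 1895, 4096, (-2011), 1320⟩

/-- A tile. -/
def tile0 : Tile :=
  ⟨⟨93, 191, 100, 200⟩, ⟨7, 14287, 50, 100000⟩, ⟨3, 310001, 10, 1000000⟩, 16384, (5450, -30445, -23047, 9233), (114, -50677, -24106, 23143), 6923,
    (1024, 0), (8, 1024), 0, 4, (leaf0, ⟨(1024, 46), (1024, 415)⟩),
    []⟩

/-- The subdivision. -/
def tree : Tree :=
  (.tile tile0)

def tree_ok : tree.ok pieceCor 448 ⟨93, 191, 100, 200⟩ ⟨7, 14287, 50, 100000⟩ ⟨3, 310001, 10, 1000000⟩ = true := by
  decide +kernel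

def root_ok0 : root.okEnt 544 0 = true := by decide +kernel

def root_ok1 : root.okEnt 544 1 = true := by decide +kernel

def root_ok3 : root.okEnt 544 3 = true := by decide +kernel

def root_ok5 : root.okEnt 544 5 = true := by decide +kernel

def root_ok11 : root.okEnt 544 11 = true := by decide +kernel

def root_ok12 : root.okEnt 544 12 = true := by decide +kernel

def root_ok13 : root.okEnt 544 13 = true := by decide +kernel

def root_ok14 : root.okEnt 544 14 = true := by decide +kernel

def root_ok15 : root.okEnt 544 15 = true := by decide +kernel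

def leaf0_ok : leaf0.okLeaf root 640 = true := by decide +kernel

theorem leaves_eq : tree.leaves =
    [leaf0] := rfl

theorem leaves_ok : ∀ F ∈ tree.leaves, Leaf.okLeaf F root 640 = true := by
  rw [leaves_eq]
  exact all'_cons leaf0_ok ((fun F hF => absurd hF List.not_mem_nil))

theorem root_ok : ∀ k ∈ [0, 1, 3, 5, 11, 12, 13, 14, 15], root.okEnt 544 k = true := by
  intro k hk
  simp only [List.mem_cons, List.not_mem_nil, or_false] at hk
  rcases hk with rfl | rfl | rfl | rfl | rfl | rfl | rfl | rfl | rfl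
  · exact root_ok0
  · exact root_ok1
  · exact root_ok3
  · exact root_ok5
  · exact root_ok11
  · exact root_ok12
  · exact root_ok13
  · exact root_ok14
  · exact root_ok15

theorem used_ok : ∀ F ∈ tree.leaves, ∀ k ∈ Leaf.used F, root.okEnt 544 k = true := by
  intro F hF k hk
  refine root_ok k ?_
  rw [leaves_eq] at hF
  have h : ([leaf0]).all (fun G => G.used.all fun j => [0, 1, 3, 5, 11, 12, 13, 14, 15].any (Nat.beq j)) = true := by
    decide +kernel
  simp only [List.all_eq_true, List.any_eq_true] at h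
  obtain ⟨j, hj, e⟩ := h F hF k hk
  exact Nat.eq_of_beq_eq_true e ▸ hj

/-- **The signs on the box.** -/
theorem signs {a I u X η : ℝ} (hf : Facts pieceCor a I u X η) (hu : In1 ⟨93, 191, 100, 200⟩ u)
    (hI : In1 ⟨7, 14287, 50, 100000⟩ I) (ha : In1 ⟨3, 310001, 10, 1000000⟩ a) :
    ClosedGen.SignsMult a (rd (mk4 X u I a)) (rv (mk4 X u I a)) (rg (mk4 X u I a) η)
      (rW (mk4 X u I a) η) (rW1 (mk4 X u I a) η) (rR (mk4 X u I a))
      (rNum false (mk4 X u I a) η) :=
  Tree.signs (T := tree) (R := root) tree_ok leaves_ok used_ok hf hu hI ha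

end Vale.Agent.P100.Calib.MidTail.BoxIV0U2
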