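import Vale.Agent.P100.Calib.SlabMidTailPieces

/-!
# The signs on a box of the middle tail

`u, I, a` lie in the box of `root`; the surrogates and leaves are checked by the kernel.
-/

namespace Vale.Agent.P100.Calib.MidTail.BoxIV0U3

open Pack EndAll Band

/-- A surrogate. -/
def root_s0 : List (List (List (List (List ℤ)))) :=
  [[[[[3626359144,(-778877022),15780671,(-57371),(-1489),24],[(-264079209),20287938,(-188446),(-1891),56],[4295331,(-133044),(-1545),86,(-1)],[(-18140),(-563),61,(-2)],[(-115),15,(-1)],[2]],[[(-319631558),16272223,(-279480),4101,(-27)],[6512492,(-308278),6611,(-59)],[29277,964,(-29),1],[(-1942),42],[28]],[[7560090,357865,(-7075),27],[(-100069),(-10975),145,(-1)],[(-145),126,(-2)],[9,(-1)]],[[321078,(-3504),(-57)],[(-7438),(-16),1],[42,1]],[[496,(-99)],[(-40),1]],[[(-44)],[1]]],[[[1397354275,(-650942470),12585679,(-72458),(-463),13],[(-187279111),17314877,(-160565),(-1254),46],[3526679,(-125574),(-1181),76],[(-18418),(-157),47],[(-45),9],[1]],[[(-250739071)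,11100460,(-129149),1646,(-3)],[3774587,(-87535),(-175),4],[79965,(-4421),51],[(-2718),74],[27]],[[11270274,314026,(-6373),34],[(-226172),(-8517),90],[1446,56],[(-8)]],[[423063,(-4499),(-49)],[(-10435),(-14)],[53]],[[1255,(-77)],[(-56)]],[[(-28)]]],[[[(-654026573),(-172706860),2612897,(-12702),(-91)],[(-27988233),4540196,(-30498),(-408)],[784986,(-40017),(-219)],[(-5579),138],[15]],[[(-47001402),1400354,23454,(-262)],[(-49754),67744,(-2171)],[43120,(-2833)],[(-932)]],[[5284283,93196,(-1193)],[(-101978),(-2124)],[327]],[[169701,(-832)],[(-3330)]],[[746]]],[[[(-299952364),(-23937491),295819,(-1801)],[1237749,678033,(-6185)],[50105,(-8794)],[(-793)]],[[(-1032488),(-100265),14068],[(-129725),24901],[6001]],[[1128935,11294],[(-13042)]],[[26044]]],[[[(-44955207),(-1755105),29369],[837628,65582],[(-6902)]],[[467442,(-40498)],[10602]],[[78540]]],[[[(-2877345),(-61341)],[102883]],[[(-31178)]]],[[[(-87330)]]]],[[[[3463412569,(-679775050),11932682,(-37243),(-1515),20],[(-248379949),18918662,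(-155075),(-3409),89],[4646218,(-162067),(-2070),130],[(-33582),(-99),78],[56,19],[2]],[[(-328312808),(-9773964),272988,(-1961),(-5)],[4739642,345139,(-6233),(-17)],[13594,(-5290),(-1)],[(-820),13],[4]],[[(-10802757),233301,672,36],[286935,(-3281),26],[(-3008),9],[2]],[[3757,5759,6],[1673,(-64)],[(-17)]],[[2724,31],[(-33)]],[[21]]],[[[1560391200,(-625699622),10739923,(-65798),(-852)],[(-192579797),18251091,(-208726),(-1316)],[4202273,(-201709),(-97)],[(-39210),570],[131]],[[(-371258540),(-13499004),369581,(-2517)],[5076646,528093,(-7554)],[33718,(-6505)],[(-1072)]],[[(-12970109),164427,2588],[362459,635],[(-2275)]],[[(-47169),4323],[2663]],[[1639]]],[[[(-564680475),(-194654854),3143174,(-25502)],[(-34299463),5885734,(-66143)],[1109697,(-63243)],[(-11475)]],[[(-175923967),(-4837406),105335],[3178129,172073],[2480]],[[(-5662277),27139],[134453]],[[(-34224)]]],[[[(-355090569),(-28374138),387365],[2334600,808064],[93811]],[[(-42091849),(-682475)],[792832]],[[(-1082118)]]],[[[(-6116913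6),(-1870694)],[1032329]],[[(-4632556)]]],[[[(-3837830)]]]],[[[[265893685,(-42887526),(-849770),34482,(-848)],[(-16740551),356305,56591,(-1922)],[190787,16492,(-1552)],[981,(-479)],[(-50)]],[[(-13551989),(-4091033),22095,(-42)],[(-717745),113142,(-327)],[24085,(-914)],[(-218)]],[[(-2114462),(-97641),410],[34363,1930],[64]],[[(-67062),(-672)],[1025]],[[(-592)]]],[[[135159695,(-50330356),42737,(-5809)],[(-16034927),1174173,(-5798)],[327628,(-10382)],[(-2591)]],[[(-27442723),(-3752487),9629],[(-227318),71330],[12971]],[[(-2487482),(-70696)],[27744]],[[(-51102)]]],[[[(-53046133),(-15063712),(-91946)],[(-2383332),238010],[57912]],[[(-16202804),(-1043040)],[44067]],[[(-830957)]]],[[[(-26127978),(-2376818)],[(-73686)]],[[(-3521530)]]],[[[(-4113627)]]]],[[[[(-3797875),749406,(-18512),79],[262948,(-23784),242],[(-5392),174],[32]],[[370680,19863,(-493)],[(-4695),(-506)],[(-39)]],[[21999,(-35)],[(-348)]],[[260]]],[[[(-2113557),776082,(-14307)],[233524,(-18244)],[(-4052)]],[[513142,14963],[(-4301)]],[[17744]]],[[[802482,205910],[45701]],[[190882]]],[[[462843]]]]]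

/-- A surrogate. -/
def root_s1 : List (List (List (List (List ℤ)))) :=
  [[[[[19356405364,(-515188326),2123259,84949,(-1890),26],[(-625265525),11784883,38518,(-3138),73,(-1)],[7676209,(-92226),(-1552),104,(-2)],[(-46217),142,67,(-2)],[126,19,(-1)],[2]],[[(-797704761),26196765,(-340529),2542,15],[27843746,(-827149),11881,(-77),(-1)],[(-407937),13460,(-216)],[3879,(-160),2],[(-32),1]],[[(-5001522),28131,925,(-49)],[148127,(-1823),(-60),1],[(-2802),19,1],[32]],[[34146,606,(-3)],[(-230),(-15)],[(-3)]],[[(-174)],[3]]],[[[26554122027,(-671984737),3614586,38375,(-1296),16],[(-835045823),16546097,(-36883),(-3128),68],[10387595,(-160661),(-1371),100],[(-66915),532,60],[222,15],[2]],[[(-1141344243),32758507,(-338968),2895,(-1)],[37690532,(-908363),10195,(-61)],[(-500559),11963,(-132)],[3841,(-93)],[(-19)]],[[(-37971),(-116906),661,(-19)],[(-52123),1538,(-19)],[241],[7]],[[38954,674,(-2)],[(-241),(-10)],[(-2)]],[[(-189)],[2]]],[[[12977165516,(-322724123),1671908,22150,(-589)],[(-399654460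),8113612,(-28476),(-1290)],[4984280,(-91723),(-388)],[(-35884),341],[111]],[[(-568097443),14564619,(-111970),761],[17978915,(-369060),2802],[(-224158),3684],[1288]],[[1141758,(-71002),143],[(-60248),983],[510]],[[13538,177],[(-76)]],[[(-44)]]],[[[2827622724,(-72349680),489193,4015],[(-85767758),1989500,(-9747)],[1140232,(-22657)],[(-8318)]],[[(-125324904),2951466,(-17817)],[3785660,(-64537)],[(-40267)]],[[320627,(-11043)],[(-10202)]],[[1268]]],[[[311062527,(-8703645),70872],[(-9656764),255806],[141810]],[[(-14073383),290647],[373110]],[[25157]]],[[[18032214,(-613904)],[(-669869)]],[[(-778639)]]],[[[657370]]]],[[[[18059184456,(-507569931),840113,134352,(-3184),32],[(-599894321),10152115,172257,(-8282),130],[7220667,(-9171),(-6747),191],[(-33128),(-1745),123],[(-85),34],[4]],[[(-18024998),12415911,(-289973),2504,9],[5496158,(-458845),8124,(-15)],[(-138799),6900,(-53)],[1535,(-36)],[(-7)]],[[62498,(-47088),(-189),15],[(-44788),1427,19],[1212,(-10)],[(-12)]],[[(-7521),(-384),1],[(-77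),6],[2]],[[142],[(-2)]]],[[[24200130802,(-633103583),1979418,94170,(-2216)],[(-783431785),14126349,64616,(-5132)],[9688271,(-104024),(-3503)],[(-60287),(-517)],[66]],[[41066432,7645976,(-126860),814],[2871452,(-227607),2434],[(-68272),2102],[457]],[[(-2221678),8386,(-102)],[35263,169],[124]],[[(-9771),(-270)],[(-14)]],[[93]]],[[[11601755056,(-286604550),1212215,21027],[(-365450549),6802968,(-276)],[4586539,(-52867)],[(-25373)]],[[28734745,1926380,(-15921)],[420024,(-34307)],[(-7703)]],[[(-1215266),13009],[21990]],[[(-3775)]]],[[[2484048124,(-58303685),244518],[(-76250291),1296398],[866408]],[[8595320,86308],[(-138552)]],[[(-163858)]]],[[[274794255,(-5954872)],[(-7830906)]],[[1454821]]],[[[15984951]]]],[[[[1533905494,(-75891891),(-1875578),97565,(-1511)],[(-74296950),339732,134523,(-3649)],[864936,39570,(-2944)],[(-917),(-905)],[(-90)]],[[72046252,(-2794237),70191,(-522)],[(-2460919),115824,(-1852)],[44574,(-1642)],[(-393)]],[[204172,15875,(-23)],[5944,(-301)],[(-173)]],[[(-3493),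53],[64]],[[(-27)]]],[[[2096994156,(-117919844),179512,27747],[(-102720170),2586710,27564],[1517876,(-7601)],[(-6793)]],[[79772050,(-2100705),32228],[(-2399955),59759],[26715]],[[509084,8053],[(-1688)]],[[(-1755)]]],[[[943753193,(-48745558),191098],[(-43333387),985601],[533662]],[[31789381,(-659382)],[(-787908)]],[[213516]]],[[[180150124,(-7462922)],[(-6663420)]],[[4280968]]],[[[14474277]]]],[[[[(-229256171),(-4976746),33525,(-42)],[1241932,123635,(-205)],[23812,(-651)],[(-180)]],[[(-2346067),(-166897),690],[(-34702),2666],[857]],[[70292,(-1191)],[(-1348)]],[[885]]],[[[(-264070622),(-5763244),25042],[1676676,98123],[16006]],[[(-3609377),(-132363)],[(-7152)]],[[36780]]],[[[(-95130110),(-1819177)],[679602]],[[(-1660387)]]],[[[(-10835588)]]]],[[[[(-23395466)],[462782],[(-2318)]],[[(-1079702)],[13824]],[[(-12155)]]],[[[(-25735703)],[358971]],[[(-841576)]]],[[[(-7452409)]]]]]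

/-- A surrogate. -/
def root_s3 : List (List (List (List (List ℤ)))) :=
  [[[[[732101922,(-56587400),(-2606898),120792,(-1616),9],[(-14982023),715104,111333,(-2932),16],[33724,6438,(-769),(-27),1],[(-176),484,(-54),1],[136,(-28),1],[(-4)]],[[144597440,5500666,(-167132),546,8],[289133,(-279756),1642,64],[(-66274),2220,91,(-1)],[402,45,(-1)],[10,(-1)]],[[(-4618400),693,1298,(-3)],[91452,897,(-24)],[(-620),(-16)]],[[(-126852),315,33],[3495,13],[(-41)]],[[(-682),11],[28]]],[[[320346034,(-113282170),437972,52213,(-689),2],[(-12840142),3434840,(-33098),543,(-19)],[316948,(-67560),2559,(-64)],[(-8957),1643,(-65)],[243,(-27)],[(-4)]],[[92422932,3377148,(-23483),(-1343),4],[414925,(-156295),(-1956),56],[(-47532),436,76],[188,34],[7]],[[(-3497464),8945,1075,(-5)],[70753,554,(-10)],[(-408),(-2)]],[[(-114236),613,11],[3123,(-3)],[(-26)]],[[(-697),8],[19]]],[[[(-467151832),(-56620083),1566893,(-14278),136],[8080189,2126402,(-64413),992],[37683,(-44649),1402],[(-3390),660],[73]],[[16566611,13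94963,10650,(-710)],[554131,(-45515),(-1013)],[(-20625),(-14)],[60]],[[(-599065),9335],[12663,(-220)],[(-25)]],[[(-32119),204],[646]],[[(-190)]]],[[[(-327460301),(-5122186),357223,(-5108)],[9151862,263055,(-12759)],[(-114012),(-6261)],[418]],[[3910828,223996,3007],[110847,(-5969)],[(-3397)]],[[21210,1609],[(-1696)]],[[(-2863)]]],[[[(-62260805),709454,20988],[2058331,(-9972)],[(-29609)]],[[588501,14397],[9797]],[[18382]]],[[[(-4802048),128972],[184953]],[[30091]]],[[[(-162162)]]]],[[[[398321769,(-151591034),(-536379),113186,(-1709),12],[(-38805027),3003083,105944,(-2983),18],[629655,1264,(-1388),(-2)],[(-2363),53,(-15)],[45,(-9)],[(-1)]],[[136285066,1008112,(-39695),(-214),(-9)],[(-3055988),(-24870),(-477),(-8)],[31334,(-703),9],[(-362),12],[3]],[[4836693,68912,(-2311),(-7)],[(-102037),(-3058),20],[719,23],[(-2)]],[[49946,198,(-17)],[(-1585),(-15)],[13]],[[167,(-2)],[(-6)]]],[[[(-442269628),(-149888397),1929424,11340,(-74)],[(-16504041),4364247,(-23348),(-136)],[546680,(-46912),230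],[(-4971),352],[49]],[[117107548,(-3448),(-6013),(-247)],[(-2796385),25417,(-1065)],[33397,(-1299)],[(-394)]],[[4571920,37226,(-1227)],[(-101738),(-1354)],[640]],[[51834,(-13)],[(-1188)]],[[148]]],[[[(-780300427),(-38538193),699047,377],[14426282,1217930,(-10562)],[(-104042),(-13915)],[(-21)]],[[27172619,(-525110),13006],[(-675168),30241],[10165]],[[1389760,(-118)],[(-26681)]],[[14984]]],[[[(-320066050),(-1946083),90350],[8409681,115068],[(-80219)]],[[173928,(-129460)],[13340]],[[148160]]],[[[(-51001151),307102],[1376043]],[[(-691766)]]],[[[(-3685941)]]]],[[[[455237408,(-105792813),916924,25001,(-312)],[(-35853152),2601349,8154,(-660)],[655123,(-19674),(-348)],[(-4873),4],[12]],[[(-11994972),(-2545937),39095,385],[(-429735),91016,(-343)],[17732,(-876)],[(-186)]],[[(-161204),(-23853),404],[1849,807],[91]],[[1651,(-80)],[13]],[[15]]],[[[(-15354881),(-82353875),1089754,6798],[(-18465355),2285177,(-8987)],[435937,(-19577)],[(-3798)]],[[(-21234820),(-2090453),35660],[20556,68812],[110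03]],[[(-368256),(-16368)],[5677]],[[(-858)]]],[[[(-239097475),(-15833487),270919],[2692926,474299],[35419]],[[(-12754724),(-446994)],[172953]],[[(-191198)]]],[[[(-73604969),(-775779)],[1526738]],[[(-2799214)]]],[[[(-7378791)]]]],[[[[51922818,(-11666193),269470,(-1255)],[(-4066629),380992,(-4545)],[86844,(-3684)],[(-690)]],[[(-3147702),(-292667),6929],[11682,8641],[1135]],[[(-139777),(-1279)],[2156]],[[(-1199)]]],[[[(-723013),(-7126213),157475],[(-1643734),216659],[44824]],[[(-3701307),(-158307)],[28176]],[[(-94517)]]],[[[(-19585334),(-634888)],[253221]],[[(-1181209)]]],[[[(-3206565)]]]]]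

/-- A surrogate. -/
def root_s5 : List (List (List (List (List ℤ)))) :=
  [[[[[4572385653,(-792714107),18625925,(-172736),729,(-1)],[(-304613273),23076398,(-334114),1895,(-8)],[5377070,(-188054),129,44,(-1)],[(-28237),(-687),70,(-1)],[(-198),32,(-1)],[5]],[[(-576342094),33811137,(-563322),4257,(-13)],[21347562,(-929235),11855,(-65)],[(-293032),9419,(-92),1],[1753,(-41),1],[(-3)]],[[11574540,53379,(-3653),11],[(-224430),(-4860),98],[482,111,(-1)],[27,(-1)]],[[196644,(-5604),24],[(-5711),113],[66]],[[(-1502),(-15)],[31]],[[(-17)]]],[[[3020495988,(-755857483),17278118,(-176671),1354,(-6)],[(-266321707),22675908,(-316148),1499,(-3)],[5291549,(-199378),(-387),51],[(-33901),(-522),66],[(-122),27],[4]],[[(-541495786),32084516,(-495819),3448,(-9)],[20414928,(-866608),9528,(-41)],[(-287783),8161,(-51)],[1834,(-20)],[(-1)]],[[14875706,42402,(-4325),20],[(-333029),(-4783),83],[1718,79],[13]],[[242335,(-6238),12],[(-7258),81],[59]],[[(-1514),(-15)],[15]],[[(-12)]]],[[[54452338,(-244004031),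5074074,(-46373),393],[(-67355410),7527035,(-92443),63],[1673617,(-77439),(-348)],[(-14435),(-75)],[(-5)]],[[(-158967710),10175957,(-138893),758],[6359752,(-272286),2077],[(-101631),2087],[625]],[[6548988,16105,(-1316)],[(-147056),(-1751)],[538]],[[97335,(-1702)],[(-2483)]],[[(-322)]]],[[[(-239522603),(-37658390),756183,(-4530)],[(-4411621),1278914,(-14601)],[215470,(-15977)],[(-2801)]],[[(-18032427),1494533,(-15058)],[909134,(-34991)],[(-16894)]],[[1351023,3494],[(-22865)]],[[16138]]],[[[(-49324935),(-3168913),78803],[538606,136545],[10642]],[[(-656320),100129],[88833]],[[111773]]],[[[(-3831561),(-160032)],[105906]],[[(-66594)]]],[[[(-148298)]]]],[[[[3640421066,(-689899179),15396005,(-150073),718,1],[(-252428818),19805127,(-255679),15,29],[4567469,(-154377),(-1393),75],[(-24978),(-889),68],[(-160),25],[3]],[[(-415834343),3335168,6418,801,(-4)],[10247410,(-54292),788,(-32)],[(-89721),146,(-35)],[187,(-9)],[1]],[[(-6240760),215419,(-987),24],[186521,(-4423),26],[(-2359),18],[4]],[[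57357,1940,5],[(-755),(-23)]],[[1473,3],[(-21)]],[[5]]],[[[1934926033,(-651438294),13366478,(-121254),482],[(-209317615),19296074,(-246083),220],[4404742,(-184575),(-466)],[(-34023),(-268)],[(-44)]],[[(-449320278),(-198965),108424,(-80)],[10521509,96136,(-1329)],[(-79651),(-1463)],[(-103)]],[[(-7711723),214082,76],[247723,(-2485)],[(-2065)]],[[44160,1760],[46]],[[1051]]],[[[(-404743694),(-210653180),3841948,(-24445)],[(-44424300),6518928,(-62770)],[1339116,(-59817)],[(-11955)]],[[(-190782104),(-709327),46519],[4642216,55838],[(-27526)]],[[(-3356671),58364],[92998]],[[5572]]],[[[(-351206937),(-32556479),533178],[717402,990039],[150560]],[[(-41775786),(-135383)],[937660]],[[(-643357)]]],[[[(-66913092),(-2338859)],[1006879]],[[(-4482767)]]],[[[(-4742856)]]]],[[[[292489283,(-50888509),254061,8283,(-381)],[(-18994276),982711,17218,(-957)],[269395,3767,(-886)],[46,(-329)],[(-43)]],[[(-23992564),(-2257827),24874,(-270)],[(-11393),67061,(-500)],[10452,(-578)],[(-124)]],[[(-1643795),(-2758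1),85],[36627,542],[(-137)]],[[(-33077),(-63)],[545]],[[(-177)]]],[[[148462941,(-52004433),565691,(-9779)],[(-16686772),1363360,(-11847)],[342211,(-9678)],[(-1980)]],[[(-33107715),(-2108053),9748],[298338,40168],[4525]],[[(-1843445),(-22913)],[27174]],[[(-25427)]]],[[[(-46841040),(-15324971),33759],[(-2821627),304259],[74528]],[[(-16033259),(-630517)],[146819]],[[(-597601)]]],[[[(-26779758),(-2295857)],[(-73186)]],[[(-3204230)]]],[[[(-4189402)]]]],[[[[(-3915665),772151,(-19108),81],[270981,(-24551),251],[(-5566),181],[33]],[[420618,11678,(-367)],[(-7857),(-338)],[3]],[[17640,(-129)],[(-307)]],[[138]]],[[[(-2180090),800768,(-14823)],[240928,(-18902)],[(-4198)]],[[551121,8701],[(-6683)]],[[14195]]],[[[829230,213356],[47376]],[[195556]]],[[[479421]]]]]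

/-- A surrogate. -/
def root_s11 : List (List (List (List (List ℤ)))) :=
  [[[[[4096815683,(-113832902),834673,727,(-17)],[(-107371278),2141345,(-8652),(-21)],[1007695,(-11177),(-5)],[(-3044),(-23)],[(-12)]],[[(-102868804),2378511,(-13206),6],[2665623,(-45378),169],[(-27917),346,(-1)],[156,(-1)],[(-1)]],[[(-1645879),41480,(-266)],[42852,(-783),3],[(-426),5],[2]],[[11991,(-282),2],[(-309),6],[3]],[[89,(-2)],[(-2)]],[[(-1)]]],[[[725604101,(-21164545),164026,180,(-4)],[(-19080530),396761,(-1631),(-5)],[172987,(-1843),(-3)],[(-372),(-9)],[(-4)]],[[(-11651422),239460,(-998),2],[300007,(-4573),17],[(-3300),43],[23]],[[(-339949),8395,(-51)],[8801,(-154),1],[(-86),1]],[[(-103),1],[(-1)]],[[15]]],[[[38142065,(-1217479),10312,15],[(-1009648),22676,(-93)],[8513,(-77)],[0,(-1)]],[[(-147947),(-1170),47],[3546,(-7)],[(-77),1],[1]],[[(-15210),376,(-2)],[407,(-6)],[(-3)]],[[(-101),2],[2]]],[[[504576,(-20215),203],[(-13617),371,(-1)],[90],[1]],[[10404,(-417),4],[(-281),7],[2]],[[54,(-2)],[(-1)]]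]],[[[[2815017586,(-68909749),423326,21],[(-73187367),1309167,(-5058),(-1)],[743438,(-9010),19],[(-3664),25],[8]],[[63859912,(-1610081),10395,3],[(-1663325),30631,(-118)],[16675,(-196)],[(-75)]],[[(-368538),8112,(-41)],[9397,(-153)],[(-99)]],[[(-11707),281,(-1)],[299,(-5)],[(-3)]],[[(-2)]]],[[[371157742,(-8878836),52463,(-8)],[(-9636635),168967,(-635)],[99135,(-1198),3],[(-511),4],[1]],[[13189916,(-327351),2027],[(-343179),6125,(-22)],[3411,(-38)],[(-15)]],[[74627,(-1910),15],[(-1886),43],[23]],[[(-1058),18],[19]],[[(-7)]]],[[[10498825,(-220751),989,(-2)],[(-270680),4238,(-9)],[2965,(-29)],[(-16)]],[[590255,(-14119),67],[(-15322),221],[132]],[[8830,(-196)],[(-204)]],[[37]]],[[[(-100915),4043,(-40)],[2724,(-74)],[(-18)]],[[(-2081),84],[56]],[[(-11)]]]],[[[[(-56438544),1835105,(-15818),(-24),1],[1496031,(-34185),159,1],[(-12436),140],[6]],[[13536028,(-320805),1826,(-1)],[(-351223),5993,(-15)],[3567,(-31)],[(-14)]],[[342184,(-8283),46],[(-8818),144],[83]],[[1314,(-43)],[(-44)]],[[(-1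4)]]],[[[(-53710038),1399729,(-9474),(-5)],[1401682,(-26533),123],[(-13758),192],[69]],[[(-128638),5570,(-129)],[3580,(-323)],[(-147)]],[[30278,(-532)],[(-584)]],[[377]]],[[[(-3625452),92868,(-605)],[94541,(-1740)],[(-926)]],[[(-112159),2865],[2918]],[[(-1163)]]]],[[[[(-98820140),2441658,(-15257),(-2)],[2570521,(-46443),193],[(-26024),337],[135]],[[(-2620537),65468,(-484)],[68381,(-1465)],[(-816)]],[[(-3099),375],[378]],[[371]]],[[[(-9909149),244592,(-1498)],[257848,(-4575)],[(-2570)]],[[(-408759),10010],[10558]],[[(-6325)]]]],[[[[(-7053491),171737,(-1024)],[183416,(-3200)],[(-1834)]],[[(-363721),8740],[9340]],[[(-7465)]]]]]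

/-- A surrogate. -/
def root_s12 : List (List (List (List (List ℤ)))) :=
  [[[[[(-499147823),(-5889303),463963,(-4760),7],[6096375,861801,(-22919),152],[176993,(-21444),331,(-1)],[(-4483),209,(-2)],[37,(-1)]],[[77803597,(-1250278),(-6818),154],[(-2044350),8570,483,(-3)],[17095,311,(-6)],[6,(-4)],[(-1)]],[[(-908184),17082,(-80)],[28149,(-601),5],[(-430),10],[4]],[[(-32550),512,2],[894,(-8)],[(-9)]],[[(-17)]],[[1]]],[[[(-379379745),(-4413367),355794,(-3764),8],[6394909,439896,(-12707),97],[39045,(-9681),174,(-1)],[(-1650),97,(-1)],[16]],[[33710149,(-587304),(-1246),36],[(-918841),7462,86,(-1)],[8758,22,(-1)],[(-23),(-1)]],[[(-74016),4696,(-94),1],[3729,(-206),4],[(-89),4],[1]],[[(-10638),193],[295,(-3)],[(-3)]],[[(-26)],[1]]],[[[(-114547865),(-259314),77782,(-964),2],[2423845,67738,(-2634),23],[(-8868),(-1592),35],[(-149),17],[2]],[[6580598,(-133381),417],[(-186667),2361,(-7)],[1854,(-14)],[(-8)]],[[59467,(-563),(-12)],[(-1338)],[13]],[[(-1168),20],[26]],[[(-6)]]],[[[(-15508961),9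7138,6735,(-106)],[377417,2408,(-241)],[(-3423),(-96)],[14]],[[652469,(-14106),90],[(-17727),245],[147]],[[11570,(-208)],[(-307)]],[[(-14)]]],[[[(-942060),12898,208],[26149,(-267)],[(-394)]],[[29182,(-466)],[(-513)]],[[706]]],[[[(-20885),565],[841]],[[244]]]],[[[[(-348522835),(-33678663),1107916,(-8871),6],[(-3596458),1650521,(-33561),185],[341755,(-28338),383,(-1)],[(-5453),235,(-2)],[40,(-1)]],[[25351421,(-45634),(-8272),36],[(-667835),1931,15,1],[8328,(-113),3],[(-71),3],[1]],[[1224783,(-5096),(-407),3],[(-30084),(-167),9],[261,4],[(-1)]],[[7895,(-117),(-2)],[(-214)],[2]],[[(-94),1],[2]],[[(-1)]]],[[[(-455763388),(-5450759),398718,(-3966),7],[8399068,439453,(-12488),84],[4191,(-8860),151],[(-1172),85],[13]],[[4839031,(-144227),2429,(-41)],[(-171400),5943,(-160)],[2779,(-146)],[(-35)]],[[463879,(-5644),(-42)],[(-12154),74],[110]],[[4034,(-52)],[(-103)]],[[(-9)]]],[[[(-144514793),1187277,45959,(-635)],[3605768,14103,(-1671)],[(-30738),(-853)],[34]],[[(-1212893),4540,780],[30069,5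13],[(-298)]],[[54969,(-856)],[(-1217)]],[[681]]],[[[(-18200074),303962,1559],[504333,(-4486)],[(-5458)]],[[(-342995),6549],[10725]],[[349]]],[[[(-981170),20577],[28574]],[[(-26513)]]],[[[(-18537)]]]],[[[[17888737,(-22773033),563572,(-3741),1],[(-6689542),812898,(-13627),57],[185584,(-11229),123],[(-2150),77],[13]],[[(-5637721),(-391801),12747,(-98)],[16644,16674,(-358)],[2369,(-287)],[(-49)]],[[(-36139),120,61],[975,77],[5]],[[2540,5],[(-40)]],[[32]]],[[[(-112366390),(-2620203),121376,(-981)],[1889551,130975,(-3139)],[1415,(-2208)],[(-275)]],[[(-4967817),(-27412),3297],[109352,3046],[(-492)]],[[(-47126),31],[1274]],[[298]]],[[[(-28267269),264050,7190],[730412,388],[(-6523)]],[[(-1124596),13392],[29508]],[[(-14495)]]],[[[(-2234292),41323],[62041]],[[(-89746)]]],[[[(-53677)]]]],[[[[5856057,(-2172030),50688,(-291)],[(-708202),72582,(-1068)],[16911,(-891)],[(-177)]],[[(-716055),(-74064),2044],[(-2223),2692],[451]],[[(-36146),(-807)],[508]],[[(-526)]]],[[[(-8158536),(-97569),6106],[166325,5925],[(-499)]],[[(-569902),(-314)],[12028]],[[(-13645)]]],[[[(-1237912),18414],[32484]],[[(-66081)]]],[[[(-38859)]]]]]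

/-- A surrogate. -/
def root_s13 : List (List (List (List (List ℤ)))) :=
  [[[[[(-11886911),2426613,(-74118),1756,(-29)],[1083714,(-119452),2198,(-30)],[(-31777),1678,(-13)],[351,(-6)],[(-1)]],[[2358210,(-192124),3453,(-2),(-1)],[(-148439),8747,(-111),(-1)],[3421,(-148),1],[(-39),1]],[[(-54148),(-8015),334,(-5)],[1843,243,(-8)],[(-37),(-3)],[1]],[[(-6695),300,(-5)],[219,(-8)],[(-3)]],[[42,(-2)],[(-1)]]],[[[(-15086175),4077055,(-104102),2029,(-33)],[1389029,(-154346),2689,(-41)],[(-35941),1963,(-27)],[377,(-15)],[(-3)]],[[4159978,(-379594),7815,(-20),(-1)],[(-218185),13858,(-168),(-1)],[4449,(-189),1],[(-49),1]],[[(-199731),(-3342),288,(-3)],[6186,170,(-6)],[(-70),(-2)]],[[(-6384),281,(-4)],[217,(-6)],[(-2)]],[[41,(-1)],[(-1)]]],[[[97949,1899205,(-45629),868,(-11)],[415107,(-63986),1362,(-16)],[(-11896),981,(-15)],[159,(-9)],[(-2)]],[[1693740,(-196629),4302,(-7)],[(-89722),6645,(-58)],[1948,(-64)],[(-18)]],[[(-137618),778,74],[3945,37],[(-26)]],[[(-2082),75],[64]],[[10]]],[[[3478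118,255739,(-7769),171],[(-29383),(-10361),354],[(-712),262],[36]],[[62542,(-32033),647],[(-10622),1029],[343]],[[(-30845),189],[657]],[[(-314)]]],[[[648340,10994,(-996)],[(-16597),(-1155)],[126]],[[(-20881),(-2483)],[(-1124)]],[[(-2615)]]],[[[40974,24],[(-2126)]],[[(-438)]]],[[[1379]]]],[[[[(-37028696),7528080,(-206475),1778],[3036850,(-308287),5261,(-14)],[(-78106),4372,(-44)],[868,(-30)],[(-5)]],[[3893455,81838,(-5986),98],[(-115469),(-3722),173,(-1)],[1300,58,(-1)],[(-10)]],[[158337,(-6336),97],[(-5269),188,(-1)],[79,(-1)]],[[(-496),(-11),1],[13,1]],[[(-18)]]],[[[(-32657788),9984751,(-269356),2177,1],[3355409,(-384362),6832,(-12)],[(-88154),5505,(-38)],[1028,(-26)],[(-4)]],[[6779581,9411,(-5680),76],[(-202315),(-2470),140],[2352,49],[(-8)]],[[170129,(-6831),67],[(-6129),143],[67]],[[(-562),(-12)],[5]],[[(-13)]]],[[[2850400,4120043,(-117238),757],[883355,(-157097),2489],[(-29482),1958],[344]],[[3789588,(-31974),(-1647)],[(-115462),(-407)],[1033]],[[67022,(-2152)],[(-2155)]],[[(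-116)]]],[[[7432758,559003,(-18272)],[(-72852),(-22340)],[(-2509)]],[[859829,(-8682)],[(-23551)]],[[12089]]],[[[1421657,27669],[(-28769)]],[[90018]]],[[[93649]]]],[[[[(-3007778),618060,(-18340),170],[257858,(-28045),555],[(-7133),472,(-3)],[94,(-2)]],[[221565,25114,(-1150),10],[(-3743),(-1152),21],[(-40),12],[1]],[[23083,(-320),(-8)],[(-815),1],[6]],[[433,(-9)],[(-10)]],[[2]]],[[[(-2542020),791539,(-22530),127],[266651,(-32880),433],[(-7541),366],[71]],[[480137,21274,(-828)],[(-10956),(-817)],[(-6)]],[[28417,(-267)],[(-647)]],[[326]]],[[[385309,293658,(-7306)],[56476,(-10207)],[(-2054)]],[[296463,4348],[(-5565)]],[[9579]]],[[[595091,26535],[(-6886)]],[[58157]]],[[[71939]]]],[[[[122365,(-24130),597,(-3)],[(-8468),767,(-8)],[174,(-6)],[(-1)]],[[(-13144),(-365),11],[246,11]],[[(-551),4],[10]],[[(-4)]]],[[[68128,(-25024),463],[(-7529),591],[131]],[[(-17223),(-272)],[209]],[[(-444)]]],[[[(-25913),(-6667)],[(-1481)]],[[(-6111)]]],[[[(-14982)]]]]]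

/-- A surrogate. -/
def root_s14 : List (List (List (List (List ℤ)))) :=
  [[[[[(-11530284),2353807,(-71883),1703,(-28)],[1051197,(-115852),2130,(-29)],[(-30821),1627,(-13)],[341,(-6)],[(-1)]],[[2168564,(-162104),2639,15,(-1)],[(-133110),7326,(-88),(-1)],[3004,(-129),1],[(-35),1]],[[(-29016),(-9687),362,(-5)],[340,325,(-9)],[(-2),(-4)]],[[(-7060),215,(-1)],[236,(-5)],[(-3)]],[[(-26),2],[1]]],[[[(-14633594),3954692,(-100973),1969,(-32)],[1347385,(-149711),2614,(-40)],[(-34863),1908,(-26)],[366,(-14)],[(-3)]],[[3883874,(-327517),6543,5,(-1)],[(-197657),11907,(-125),(-1)],[3962,(-154)],[(-42),1]],[[(-152429),(-7034),352,(-3)],[3831,304,(-7)],[(-18),(-3)]],[[(-8200),231,(-1)],[266,(-4)],[(-2)]],[[(-25),1],[1]]],[[[94811,1842257,(-44311),842,(-10)],[402680,(-62133),1324,(-16)],[(-11549),954,(-15)],[154,(-9)],[(-1)]],[[1643670,(-171736),3592,4],[(-83036),5654,(-35)],[1754,(-46)],[(-14)]],[[(-116334),(-1263),100],[2774,90],[(-4)]],[[(-3311),68],[84]],[[(-9)]]],[[[3373743,248194,(-7566)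,165],[(-28569),(-10088),342],[(-696),252],[35]],[[96571,(-28280),477],[(-10894),801],[309]],[[(-28423),(-147)],[433]],[[(-521)]]],[[[629219,10721,(-961)],[(-16140),(-1114)],[122]],[[(-12430),(-2150)],[(-1333)]],[[(-2305)]]],[[[39923,23],[(-2052)]],[[374]]],[[[1330]]]],[[[[(-35917809),7302220,(-200284),1726],[2945761,(-299041),5109,(-14)],[(-75762),4245,(-42)],[843,(-29)],[(-5)]],[[3406214,154571,(-7890),116],[(-81650),(-6705),231,(-1)],[487,109,(-1)],[1]],[[192377,(-5376),25,1],[(-6310),140],[94,(-1)]],[[1093,(-84),1],[(-51),2],[1]],[[(-22)]]],[[[(-31678243),9685205,(-261334),2110,1],[3254712,(-372906),6621,(-11)],[(-85520),5335,(-37)],[996,(-25)],[(-4)]],[[6249585,108952,(-8319),91],[(-162963),(-6400),189],[1369,92],[1]],[[233195,(-6524),11],[(-8086),107],[80]],[[1272,(-68)],[(-48)]],[[(-14)]]],[[[2764906,3996587,(-113668),731],[856749,(-152321),2402],[(-28592),1889],[332]],[[3705707,10680,(-2638)],[(-103108),(-1834)],[701]],[[103693,(-2246)],[(-3025)]],[[526]]],[[[7210385,54217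2,(-17635)],[(-70561),(-21559)],[(-2420)]],[[908633,(-2806)],[(-22981)]],[[19500]]],[[[1378822,26696],[(-27777)]],[[99768]]],[[[90401]]]],[[[[(-2917572),599551,(-17803),165],[250122,(-27222),538],[(-6923),457,(-3)],[91,(-2)]],[[185026,30635,(-1322),11],[(-1085),(-1433),24],[(-118),15],[2]],[[24806,(-41),(-16)],[(-844),(-8)],[5]],[[685,(-11)],[(-15)]],[[5]]],[[[(-2465605),767839,(-21830),122],[258629,(-31859),418],[(-7307),353],[69]],[[440906,28600,(-966)],[(-7945),(-1038)],[(-66)]],[[32448,(-73)],[(-686)]],[[525]]],[[[373935,284700,(-7052)],[54792,(-9852)],[(-1982)]],[[290757,6792],[(-4710)]],[[11454]]],[[[576858,25607],[(-6654)]],[[60630]]],[[[69453]]]],[[[[118684,(-23419),578,(-2)],[(-8217),743,(-8)],[169,(-5)],[(-1)]],[[(-11584),(-621),15],[147,16],[1]],[[(-687),1],[11]],[[(-8)]]],[[[66049,(-24253),447],[(-7298),570],[127]],[[(-16036),(-468)],[134]],[[(-554)]]],[[[(-25078),(-6435)],[(-1428)]],[[(-5965)]]],[[[(-14464)]]]]]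

/-- A surrogate. -/
def root_s15 : List (List (List (List (List ℤ)))) :=
  [[[[[(-1174432183),37108119,(-929795),15395,(-101)],[52820757,(-982280),11962,(-188),2],[(-698050),5192,(-50),2],[3152,(-4),1],[(-5)]],[[80329839,(-1499552),(-6138),211],[(-3788741),56180,229,(-5)],[61979,(-740)],[(-493),6],[2]],[[4205844,(-163940),2257,(-12)],[(-103933),2967,(-28)],[690,(-10)],[3]],[[(-56978),2055,(-25)],[1574,(-40)],[(-14)]],[[177,(-6)],[(-5)]]],[[[(-1570055917),38881708,(-666309),10976,(-76)],[45160794,(-745898),10401,(-167),1],[(-469884),3911,(-66),1],[2215,(-19)],[(-13)]],[[129755113,(-3120960),12433,149,(-1)],[(-4102182),69191,40,(-3)],[50470,(-497),(-2)],[(-287),2],[1]],[[1511751,(-60259),883,(-5)],[(-41755),1268,(-13)],[393,(-8)],[(-1)]],[[(-25004),820,(-8)],[720,(-15)],[(-6)]],[[73,(-2)],[(-2)]]],[[[(-377519892),8774116,(-150114),2547,(-14)],[10105345,(-165220),2796,(-32)],[(-105726),1449,(-14)],[801,(-10)],[(-6)]],[[33432025,(-828140),3303,40],[(-1006360),16350,23],[11165,(-81)]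,[(-49)]],[[299048,(-10705),147],[(-8696),258],[107]],[[(-3866),102],[98]],[[6]]],[[[(-35505031),783792,(-16464),250],[944899,(-19110),360],[(-12855),316],[166]],[[3510796,(-84445),185],[(-100739),1292],[907]],[[32640,(-1087)],[(-1022)]],[[(-220)]]],[[[(-1294601),29289,(-1099)],[39602,(-1774)],[(-1199)]],[[166612,(-3194)],[(-3883)]],[[1784]]],[[[(-203),752],[1120]],[[2594]]],[[[716]]]],[[[[(-3792710823),116781105,(-1112195),2210,18],[137061821,(-2793387),8395,98],[(-1746130),19433,73,(-1)],[9309,(-30)],[(-17)]],[[(-83816839),3209792,(-44660),279],[2044249,(-57221),598,(-2)],[(-13109),216,1],[(-44),3],[1]],[[1692607,(-57156),601,(-1)],[(-52021),1185,(-4)],[552,(-5)],[(-1)]],[[11815,(-451),6],[(-322),8],[3]],[[(-107),3],[2]]],[[[(-3643346674),101264180,(-796553),323,17],[112792925,(-2215299),7411,63],[(-1327973),16086,36],[7368,(-27)],[(-15)]],[[(-34088444),1287483,(-19582),127],[935547,(-28887),315],[(-9919),221],[44]],[[953094,(-27525),175],[(-28241),467],[259]],[[5243,(-182)],[(-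150)]],[[(-34)]]],[[[(-858943612),23311271,(-173703),(-118)],[25941181,(-513405),1646],[(-308600),3779],[1740]],[[(-8580425),294867,(-4044)],[262419,(-7859)],[(-3667)]],[[143980,(-3060)],[(-3453)]],[[1001]]],[[[(-86508758),2332562,(-16657)],[2621600,(-52178)],[(-31813)]],[[(-1131955),38262],[38576]],[[5241]]],[[[(-4026550),108791],[124138]],[[(-71696)]]],[[[(-71474)]]]],[[[[(-715461795),22674148,(-202538),(-138),7],[26756838,(-557897),1372,25],[(-350478),4261,17],[2047,(-5)],[(-3)]],[[(-33941991),1155693,(-13281),39],[1034534,(-25371),121],[(-11575),117],[31]],[[(-262454),10050,(-128)],[7603,(-200)],[(-69)]],[[2187,(-47)],[(-44)]],[[18]]],[[[(-635847269),17945218,(-131576),(-288)],[20111392,(-406035),930],[(-244876),2690],[1241]],[[(-20401941),626617,(-5585)],[623039,(-13093)],[(-6782)]],[[(-135755),4866],[4266]],[[681]]],[[[(-117884480),3247191,(-21136)],[3653712,(-69270)],[(-42158)]],[[(-3616380),102830],[107972]],[[(-29583)]]],[[[(-8183825),216923],[248265]],[[(-253507)]]],[[[(-195115)]]]],[[[[(-21878647),828712,(-8282),(-13)],[1061071,(-24195),24],[(-16083),146],[77]],[[(-2168939),76858,(-695)],[75335,(-1412)],[(-711)]],[[(-53825),1553],[1357]],[[(-428)]]],[[[(-20766524),623098,(-3851)],[733599,(-13335)],[(-8461)]],[[(-1275087),33991],[36069]],[[(-23577)]]],[[[(-2859947),76095],[90707]],[[(-139359)]]],[[[(-106859)]]]],[[[[1383567,(-33913),166],[(-33106),459],[232]],[[57547,(-1136)],[(-1109)]],[[728]]],[[[760953,(-17699)],[(-17282)]],[[30231]]],[[[34238]]]]]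

/-- A root. -/
def root : Root where
  cl := false
  box := fun i => match i with
    | 0 => ⟨29, 59, 400, 200⟩
    | 1 => ⟨191, 9751, 200, 10000⟩
    | 2 => ⟨7, 14287, 50, 100000⟩
    | _ => ⟨3, 310001, 10, 1000000⟩
  De := 400
  e0 := 23
  e1 := 167
  p := fun i => match i with
    | 0 => 9
    | 1 => 100
    | 2 => 697
    | 3 => 200
    | _ => 6
  q := fun i => match i with
    | 0 => 2
    | 1 => 97
    | 2 => 99
    | 3 => 61
    | _ => 1
  den := 17179869184
  sur := fun k => match k with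
    | 0 => root_s0
    | 1 => root_s1
    | 3 => root_s3
    | 5 => root_s5
    | 11 => root_s11
    | 12 => root_s12
    | 13 => root_s13
    | 14 => root_s14
    | 15 => root_s15
    | _ => []
  eps := fun k => match k with
    | 0 => 658514
    | 1 => 1300038
    | 3 => 553758
    | 5 => 575557
    | 11 => 1182
    | 12 => 13701
    | 13 => 9940
    | 14 => 10827
    | 15 => 24279
    | _ => 0

/-- A leaf. -/
def leaf0 : Leaf :=
  ⟨⟨191, 19301, 200, 20000⟩, ⟨7, 14287, 50, 100000⟩, ⟨3, 310001, 10, 1000000⟩,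
    16384, (2819, -32786, -24821, 13010), (-9602, -57110, -24634, 35443), 16384, (46621, 53302, 60996, -70914), (-51044, 5435, -319, 49814), (22173, 59437, 79487, -48074), (2665, 20180, 18964, -12765),
    true, 0, 1, 2723, (-393), 2990, 4096, (-2879), 1870⟩

/-- A tile. -/
def tile0 : Tile :=
  ⟨⟨191, 19301, 200, 20000⟩, ⟨7, 14287, 50, 100000⟩, ⟨3, 310001, 10, 1000000⟩, 16384, (2819, -32786, -24821, 13010), (-9602, -57110, -24634, 35443), 6923,
    (1024, 0), (14, 1024), 0, 4, (leaf0, ⟨(1024, 453), (1024, 458)⟩),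
    []⟩

/-- A leaf. -/
def leaf1 : Leaf :=
  ⟨⟨19301, 38803, 20000, 40000⟩, ⟨7, 14287, 50, 100000⟩, ⟨3, 310001, 10, 1000000⟩,
    16384, (758, -33918, -25691, 15633), (-16734, -60705, -24997, 44021), 16384, (65087, 50825, 55857, -88408), (-57897, 11571, 9632, 53517), (28397, 56653, 77526, -53362), (6018, 21645, 20169, -16872),
    true, 0, 1, 3165, (-413), 4013, 4096, (-3050), 2143⟩

/-- A tile. -/
def tile1 : Tile :=
  ⟨⟨19301, 38803, 20000, 40000⟩, ⟨7, 14287, 50, 100000⟩, ⟨3, 310001, 10, 1000000⟩, 16384, (758, -33918, -25691, 15633), (-16734, -60705, -24997, 44021), 6923,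
    (1024, 0), (42, 1024), 0, 4, (leaf1, ⟨(1024, 995), (1024, 499)⟩),
    []⟩

/-- A leaf. -/
def leaf2 : Leaf :=
  ⟨⟨38803, 9751, 40000, 10000⟩, ⟨7, 14287, 50, 100000⟩, ⟨3, 310001, 10, 1000000⟩,
    16384, (-1190, -34719, -26245, 17973), (-4238, -47585, -24942, 26014), 16384, (39723, 50118, 66014, -62039), (15352, 3233, -15680, -16166), (37310, 52792, 71926, -60886), (-12896, 15352, 22267, 5311),
    true, 0, 1, 3163, (-437), 2194, 4096, (-2052), 1710⟩

/-- A leaf. -/
def leaf3 : Leaf :=
  ⟨⟨38803, 9751, 40000, 10000⟩, ⟨7, 14287, 50, 100000⟩, ⟨3, 310001, 10, 1000000⟩,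
    16384, (-4238, -47585, -24942, 26014), (-7286, -60451, -23640, 34056), 16384, (53353, 52488, 45369, -76029), (-83925, 9037, 51219, 76771), (24975, 66791, 91391, -55687), (6757, 3099, -4281, -8363),
    true, 0, 1, 2586, (-445), 3456, 4096, (-1875), 1997⟩

/-- A tile. -/
def tile2 : Tile :=
  ⟨⟨38803, 9751, 40000, 10000⟩, ⟨7, 14287, 50, 100000⟩, ⟨3, 310001, 10, 1000000⟩, 16384, (-1190, -34719, -26245, 17973), (-7286, -60451, -23640, 34056), 6923,
    (1024, 0), (1024, 96), 0, 4, (leaf2, ⟨(1024, 0), (395, 1024)⟩),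
    [(leaf3, ⟨(27, 1024), (1024, 0)⟩)]⟩

/-- The subdivision. -/
def tree : Tree :=
  (.node 0 19301 20000
    (.tile tile0)
    (.node 0 38803 40000
    (.tile tile1)
    (.tile tile2)))

def tree_ok : tree.ok pieceCor 448 ⟨191, 9751, 200, 10000⟩ ⟨7, 14287, 50, 100000⟩ ⟨3, 310001, 10, 1000000⟩ = true := by
  decide +kernel

def root_ok0 : root.okEnt 576 0 = true := by decide +kernel

def root_ok1 : root.okEnt 576 1 = true := by decide +kernel

def root_ok3 : root.okEnt 576 3 = true := by decide +kernel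

def root_ok5 : root.okEnt 576 5 = true := by decide +kernel

def root_ok11 : root.okEnt 576 11 = true := by decide +kernel

def root_ok12 : root.okEnt 576 12 = true := by decide +kernel

def root_ok13 : root.okEnt 576 13 = true := by decide +kernel

def root_ok14 : root.okEnt 576 14 = true := by decide +kernel

def root_ok15 : root.okEnt 576 15 = true := by decide +kernel

def leaf0_ok : leaf0.okLeaf root 672 = true := by decide +kernel

def leaf1_ok : leaf1.okLeaf root 672 = true := by decide +kernel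

def leaf2_ok : leaf2.okLeaf root 672 = true := by decide +kernel

def leaf3_ok : leaf3.okLeaf root 672 = true := by decide +kernel

theorem leaves_eq : tree.leaves =
    [leaf0, leaf1, leaf2, leaf3] := rfl

theorem leaves_ok : ∀ F ∈ tree.leaves, Leaf.okLeaf F root 672 = true := by
  rw [leaves_eq]
  exact all'_cons leaf0_ok (all'_cons leaf1_ok (all'_cons leaf2_ok (all'_cons leaf3_ok (
    (fun F hF => absurd hF List.not_mem_nil)))))

theorem root_ok : ∀ k ∈ [0, 1, 3, 5, 11, 12, 13, 14, 15], root.okEnt 576 k = true := by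
  intro k hk
  simp only [List.mem_cons, List.not_mem_nil, or_false] at hk
  rcases hk with rfl | rfl | rfl | rfl | rfl | rfl | rfl | rfl | rfl
  · exact root_ok0
  · exact root_ok1
  · exact root_ok3
  · exact root_ok5
  · exact root_ok11
  · exact root_ok12
  · exact root_ok13
  · exact root_ok14
  · exact root_ok15

theorem used_ok : ∀ F ∈ tree.leaves, ∀ k ∈ Leaf.used F, root.okEnt 576 k = true := by
  intro F hF k hk
  refine root_ok k ?_
  rw [leaves_eq] at hF
  have h : ([leaf0, leaf1, leaf2, leaf3]).all (fun G => G.used.all fun j => [0, 1, 3, 5, 11, 12, 13, 14, 15].any (Nat.beq j)) = true := by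
    decide +kernel
  simp only [List.all_eq_true, List.any_eq_true] at h
  obtain ⟨j, hj, e⟩ := h F hF k hk
  exact Nat.eq_of_beq_eq_true e ▸ hj

/-- **The signs on the box.** -/
theorem signs {a I u X η : ℝ} (hf : Facts pieceCor a I u X η) (hu : In1 ⟨191, 9751, 200, 10000⟩ u)
    (hI : In1 ⟨7, 14287, 50, 100000⟩ I) (ha : In1 ⟨3, 310001, 10, 1000000⟩ a) :
    ClosedGen.SignsMult a (rd (mk4 X u I a)) (rv (mk4 X u I a)) (rg (mk4 X u I a) η)
      (rW (mk4 X u I a) η) (rW1 (mk4 X u I a) η) (rR (mk4 X u I a))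
      (rNum false (mk4 X u I a) η) :=
  Tree.signs (T := tree) (R := root) tree_ok leaves_ok used_ok hf hu hI ha

end Vale.Agent.P100.Calib.MidTail.BoxIV0U3
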