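import Vale.Agent.P100.Calib.SlabMidTailPieces

/-!
# The signs on a box of the middle tail

`u, I, a` lie in the box of `root`; the surrogates and leaves are checked by the kernel.
-/

namespace Vale.Agent.P100.Calib.MidTail.BoxIV1U1

open Pack EndAll Band

/-- A surrogate. -/
def root_s0 : List (List (List (List (List ℤ)))) :=
  [[[[[8768985200,(-951617313),17549850,(-87940),(-1290),20],[(-404152634),24855576,(-215225),(-4489),124,(-1)],[5855008,(-161155),(-4664),220,(-2)],[(-21803),(-1780),155,(-3)],[(-307),45,(-1)],[5]],[[(-783222921),(-6993159),142910,307,(-30)],[9491954,362328,972,(-180),2],[130813,(-4877),(-189),5],[(-3453),(-1),4],[31,1]],[[(-45612641),1669010,(-26172),282,(-1)],[1323206,(-43475),736,(-6)],[(-14161),475,(-10)],[46,(-5)]],[[764898,27991,(-410),1],[(-1054),(-1107),10],[(-337),16],[6]],[[45591,(-515),(-1)],[(-1125),3],[5]],[[(-277),(-8)],[4]],[[(-12)]]],[[[5543215046,(-711337669),12677815,(-103977),(-217),5],[(-282676235),18928520,(-222800),(-760),36],[4400915,(-163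846),(-642),66],[(-24319),(-70),44],[(-51),11],[1]],[[(-654409003),(-18479988),422183,(-4662),26],[4932654,840855,(-13754),67],[217173,(-15859),119],[(-4891),119],[38]],[[(-40576438),949515,(-7207),110],[1046188,(-13467),174],[(-6948),34],[(-35)]],[[899074,19095,(-230)],[(-11232),(-530)],[(-27)]],[[51595,(-544)],[(-1065)]],[[(-262)]]],[[[505859648,(-145959967),1910502,(-18787),10],[(-44663163),3735241,(-36816),(-37)],[808228,(-35633),12],[(-5639),90],[8]],[[(-191322765),(-8061932),143948,(-1153)],[1371361,312985,(-3803)],[60253,(-4272)],[(-1094)]],[[(-13445879),186060,(-142)],[348568,(-2307)],[(-2088)]],[[247664,6116],[(-4817)]],[[16690]]],[[[(-66944431),(-15938230),139644,(-1102)],[(-1800324),392089,(-2423)],[53983,(-3292)],[(-360)]],[[(-35080346),(-1036164),15772],[505746,32433],[2648]],[[(-1822685),23068],[36732]],[[51623]]],[[[(-17104875),(-816161),5206],[284854,16977],[(-1820)]],[[(-3067226),(-43296)],[49943]],[[(-72064)]]],[[[(-998793),(-10954)],[23236]],[[(-91385)]]],[[[(-12974)]]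]],[[[[4364998352,(-399817247),2852119,121671,(-3347),24],[(-192986609),8101879,149539,(-8630),114],[2549406,21771,(-7236),171],[(-3484),(-2248),109],[(-239),30],[3]],[[(-212574250),(-28443934),429958,(-1044),(-73)],[(-2850000),797896,(-5667),(-200)],[147784,(-7876),(-164)],[(-1677),(-37)],[(-1)]],[[(-43895152),(-129546),3208,55],[899098,8934,86],[(-5384),(-35)],[(-17)]],[[(-1308521),19090,(-126)],[35514,(-259)],[(-154)]],[[5167,309],[(-147)]],[[634]]],[[[2903687521,(-331769111),4279729,(-6383),(-922)],[(-148722196),8710732,(-59479),(-1759)],[2482870,(-80740),(-925)],[(-18728),1],[36]],[[(-191723818),(-30022990),507155,(-4782)],[(-3696007),927607,(-11748)],[176534,(-10148)],[(-1979)]],[[(-44380266),(-414719),7611],[921411,12233],[(-3771)]],[[(-1610015),16306],[31388]],[[2932]]],[[[349788618,(-75662726),844464,(-8783)],[(-27456948),2077518,(-21502)],[545657,(-22571)],[(-4784)]],[[(-93412798),(-8253275),91232],[197926,208120],[29870]],[[(-15434476),(-139946)],[281423]],[[(-482774)]]],[[[(-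17107113),(-9235564),78910],[(-1730048),230516],[46602]],[[(-23299552),(-863204)],[315190]],[[(-2285349)]]],[[[(-8332190),(-494001)],[91110]],[[(-2307877)]]],[[[(-513091)]]]],[[[[193827303,(-2424798),(-1594525),56015,(-969)],[(-3772558),(-1028652),90261,(-2400)],[(-153249),40538,(-2055)],[5597,(-706)],[(-84)]],[[27192400,(-5882206),33355,1454],[(-2307920),160743,1045],[49337,(-911)],[(-356)]],[[(-3912866),(-367839),4245],[10609,9511],[1489]],[[(-461091),(-5386)],[7485]],[[(-11972)]]],[[[186011478,(-18034769),(-36554),3131],[(-9200856),395380,3533],[150157,(-2299)],[(-1024)]],[[6745625,(-4259381),33283],[(-1232130),102469],[26283]],[[(-4250195),(-220510)],[31663]],[[(-332120)]]],[[[12738049,(-3247394),(-27101)],[(-1190815),67786],[23757]],[[(-3166762),(-894157)],[(-153062)]],[[(-1304201)]]],[[[(-12488),(-525017)],[(-126150)]],[[(-1271267)]]],[[[(-487818)]]]],[[[[(-4977827),498644,(-11213),47],[229780,(-15398),151],[(-4080),113],[22]],[[176534,41624,(-837)],[4884,(-964)],[(-152)]],[[67565,253],[(-1034)]],[[2508]]],[[[(-4514727),519255,(-8842)],[223527,(-12038)],[(-3131)]],[[319518,31791],[2533]],[[56010]]],[[[(-748103),140200],[53401]],[[147419]]],[[[137098]]]]]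

/-- A surrogate. -/
def root_s1 : List (List (List (List (List ℤ)))) :=
  [[[[[19746150749,(-606371644),(-600371),228608,(-4701),47],[(-688047047),13512298,268772,(-13397),231,(-1)],[9120949,(-27643),(-11238),361,(-3)],[(-49132),(-3048),237,(-4)],[(-196),67,(-2)],[7,(-1)]],[[(-565233873),40625957,(-791758),7447,30,(-1)],[28480665,(-1590289),30814,(-152),(-2)],[(-573598),30069,(-453)],[7174,(-326),3],[(-62),2]],[[(-20923658),230392,342,(-107),1],[600413,(-7506),(-142),4],[(-9121),53,4],[87,1]],[[141494,1321,(-6)],[(-1664),(-43)],[(-3)]],[[(-793)],[22]]],[[[24928627193,(-734495150),2432913,107232,(-2589),18],[(-851299722),18074893,36348,(-6192),82],[11369001,(-159714),(-3861),116],[(-76127),(-238),68],[162,17],[2]],[[(-772804935),35634409,(-386829),3000,8],[32141648,(-1056546),13243,(-69)],[(-494739),15077,(-180)],[4292,(-128)],[(-25)]],[[(-9038424),(-134478),(-168),(-30)],[99747,1182,(-31)],[(-1078),10],[23]],[[157197,1802,(-5)],[(-1742),(-37)],[(-3)]],[[(-1160)],[19]]],[[[10642025902,(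-297942063),1369662,21522,(-451)],[(-353070556),7422262,(-17523),(-910)],[4629615,(-74746),(-327)],[(-31292),186],[72]],[[(-357600186),12822034,(-79614),376],[13408353,(-316661),2251],[(-179959),3307],[1137]],[[(-1118795),(-98085),(-9)],[(-44392),1576],[687]],[[51634,609],[(-516)]],[[(-370)]]],[[[1840114840,(-48935084),286961,1478],[(-58621609),1246456,(-4822)],[754825,(-10781)],[(-4125)]],[[(-65680065),1867067,(-8954)],[2176514,(-41250)],[(-25604)]],[[130193,(-14173)],[(-10825)]],[[4283]]],[[[154166630,(-4027491),25099],[(-4764183),88952],[51299]],[[(-5580246),134816],[168571]],[[18690]]],[[[6668229,(-154493)],[(-176554)]],[[(-246816)]]],[[[127349]]]],[[[[9148998469,(-330441481),(-5226385),308660,(-5564),37],[(-359066678),3583020,464135,(-15551),175],[4310636,141922,(-13688),270],[(-4451),(-4420),179],[(-447),52],[6]],[[104612440,10695113,(-258073),2079,15],[2777518,(-384723),6247,(-3)],[(-109021),5206,(-40)],[1272,(-31)],[(-7)]],[[8937030,(-202831),(-3),65],[(-340553),6042,87],[5952,(-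42)],[(-55)]],[[(-104544),(-1577),4],[979,29],[6]],[[1299],[(-19)]]],[[[11384638794,(-437276122),716139,92638,(-1682)],[(-449202380),10020395,77693,(-4195)],[6280855,(-64196),(-3070)],[(-39844),(-606)],[12]],[[257573961,2558549,(-78424),915],[(-3428728),(-98549),2197],[71,1643],[328]],[[489907,30951,276],[(-2642),1074],[1085]],[[(-111628),(-1341)],[712]],[[1111]]],[[[4812291410,(-168474404),740794,8971],[(-179821775),4053514,(-4672)],[2457922,(-31189)],[(-13745)]],[[111193397,(-116851),(-11354)],[(-2004707),(-10900)],[7620]],[[(-1036359),36638],[39281]],[[(-33328)]]],[[[834527446,(-24681858),103691],[(-28340596),517035],[324650]],[[16500656,(-86375)],[(-297569)]],[[(-202539)]]],[[[68777690,(-1615790)],[(-2005731)]],[[1217300]]],[[[2808743]]]],[[[[(-213579085),(-14817967),(-3177592),114298,(-1659)],[(-15188723),(-1688680),177247,(-4269)],[(-5185),73911,(-3693)],[7793,(-1267)],[(-148)]],[[87333858,(-7469635),175946,(-1341)],[(-4775736),302775,(-4930)],[106201,(-4481)],[(-1083)]],[[352402,6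0801,(-60)],[36709,(-1478)],[(-1033)]],[[9288,383],[170]],[[(-475)]]],[[[72608928,(-64867324),(-223082),23696],[(-38951055),1270289,28086],[722228,907],[(-3108)]],[[64514621,(-4151285),59845],[(-3192771),116117],[46200]],[[1918268,23795],[(-8015)]],[[5212]]],[[[98499572,(-24806282),74517],[(-15669995),498488],[248936]],[[22872133,(-1002906)],[(-923242)]],[[734732]]],[[[36749411,(-2888701)],[(-2228751)]],[[3185101]]],[[[3337085]]]],[[[[(-232752157),(-2718826),14334,2],[2614794,70145,(-134)],[1327,(-433)],[(-99)]],[[(-14577121),(-245451),750],[139167,4137],[687]],[[(-116906),(-4720)],[(-1916)]],[[6606]]],[[[(-254587810),(-3132034),11535],[2763656,56577],[2266]],[[(-15856392),(-197657)],[96140]],[[(-65687)]]],[[[(-80564089),(-977934)],[742463]],[[(-4445431)]]],[[[(-5784752)]]]],[[[[(-16081354)],[322423],[(-1679)]],[[(-2018057)],[26657]],[[(-62465)]]],[[[(-17477745)],[255480]],[[(-1594388)]]],[[[(-5036354)]]]]]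

/-- A surrogate. -/
def root_s3 : List (List (List (List (List ℤ)))) :=
  [[[[[508819803,(-366979782),9388624,(-149180),2454,(-23)],[(-116061175),14486430,(-326034),6094,(-93)],[3329427,(-235978),5546,(-117),1],[(-41683),2326,(-67),1],[308,(-19)],[(-2)]],[[420242977,(-9190323),297395,(-6869),58],[(-10657062),344327,(-13938),236,(-1)],[142763,(-8421),276,(-2)],[(-1881),128,(-2)],[23,(-1)]],[[7417257,21035,(-326),(-15),(-1)],[(-248894),(-846),(-20),(-1)],[3455,(-15)],[(-33)]],[[(-416409),4153,(-8),1],[10293,(-88),2],[(-134),2],[1]],[[(-8617),137,1],[352,(-3)],[(-4)]]],[[[(-377475),(-314712661),8449564,(-134626),2153,(-15)],[(-82519738),12403352,(-291899),5368,(-60)],[2552825,(-203099),4900,(-77)],[(-32540),1999,(-44)],[239,(-12)],[(-1)]],[[258008961,(-6568958),270539,(-6154),38],[(-6265355),276461,(-12547),154],[88056,(-7366),176],[(-1454),78],[14]],[[6925153,20412,218,(-9)],[(-212751),250,(-7)],[2884,(-3)],[(-18)]],[[(-284668),2948,(-2)],[7658,(-54)],[(-94)]],[[(-7773),101],[254]]],[[[(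-431024923),(-77305700),2379989,(-38805),499],[(-6979714),3125767,(-82215),1271],[443422,(-52710),1155],[(-6540),439],[42]],[[21179782,(-1125681),80879,(-1453)],[(-263111),66661,(-2704)],[6404,(-1302)],[(-187)]],[[2150655,1500,(-134)],[(-55087),(-267)],[535]],[[(-46450),597],[1411]],[[(-2029)]]],[[[(-198958342),(-5842020),278899,(-4566)],[3876079,289702,(-8877)],[(-12429),(-4813)],[(-288)]],[[(-2293985),(-70739),8202],[146684,3802],[(-1449)]],[[300661,243],[(-7022)]],[[(-3520)]]],[[[(-26342425),42829,12888],[704004,6831],[(-5844)]],[[(-529394),2928],[16791]],[[24765]]],[[[(-1450254),19792],[37258]],[[(-20581)]]],[[[(-28291)]]]],[[[[1703564748,(-366654487),7496403,(-88467),1605,(-12)],[(-132046994),11819018,(-190569),3027,(-37)],[2841422,(-150312),2408,(-38)],[(-28066),1071,(-18)],[151,(-5)]],[[100152262,(-12192953),254812,(-3076),36],[(-6073587),493359,(-9076),84],[145073,(-8629),98],[(-1900),58],[10]],[[11467993,9426,(-2400),(-12)],[(-252390),(-833),6],[2556,1],[(-14)]],[[416259,(-154),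(-101)],[(-11726),(-87)],[96]],[[4220,(-45)],[(-134)]]],[[[510151836,(-259931352),5383053,(-61729),995],[(-73318712),8383227,(-134568),1844],[1733205,(-105277),1431],[(-17219),615],[78]],[[42736876,(-9700283),214667,(-1911)],[(-3683971),395651,(-5533)],[101567,(-5168)],[(-1110)]],[[8176038,(-22083),(-1641)],[(-188209),(-803)],[1683]],[[339429,(-239)],[(-8129)]],[[3071]]],[[[(-389667546),(-42043275),943535,(-9024)],[1353850,1387478,(-19700)],[114291,(-14824)],[(-1332)]],[[(-13618363),(-2108677),42316],[(-137906),72777],[13740]],[[1367946,(-11439)],[(-37357)]],[[77818]]],[[[(-135695474),(-1739474),60032],[3197530,70178],[(-23522)]],[[(-6341793),(-145930)],[91539]],[[104883]]],[[[(-14420485),69577],[349818]],[[(-657862)]]],[[[(-639532)]]]],[[[[896436042,(-116808569),1838731,(-4381),46],[(-49544689),3281470,(-30026),37],[885602,(-33590),92],[(-7224),101],[20]],[[(-15597160),(-7139033),140977,(-253)],[(-1622051),248608,(-2116)],[53299,(-2417)],[(-497)]],[[(-2678621),(-133462),2463],[34271,442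4],[502]],[[(-37012),(-619)],[770]],[[277]]],[[[386314582,(-76768944),1243931,(-2096)],[(-27200236),2183559,(-16901)],[521501,(-19265)],[(-3931)]],[[(-29709189),(-4871295),84004],[(-585949),147542],[28921]],[[(-2591433),(-80773)],[27610]],[[(-26466)]]],[[[(-71630878),(-9861392),168766],[(-314109),280778],[36620]],[[(-15823171),(-674177)],[150728]],[[(-693967)]]],[[[(-23926726),(-335559)],[477281]],[[(-2540468)]]],[[[(-1819920)]]]],[[[[89679587,(-10764254),229213,(-1078)],[(-4778200),340898,(-3979)],[90027,(-3338)],[(-681)]],[[(-2046050),(-770255),16353],[(-131086),21784],[4016]],[[(-626305),(-11193)],[8682]],[[(-16926)]]],[[[37281708,(-6369187),132415],[(-2400490),193040],[48145]],[[(-3604545),(-420138)],[(-38551)]],[[(-414685)]]],[[[(-6083943),(-497110)],[19184]],[[(-1446083)]]],[[[(-1192117)]]]]]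

/-- A surrogate. -/
def root_s5 : List (List (List (List (List ℤ)))) :=
  [[[[[10715691620,(-1016868990),16360037,(-42558),(-941),9],[(-474134039),24536581,(-152636),(-3295),62],[6464697,(-113605),(-4258),131,(-1)],[(-16705),(-2268),113,(-1)],[(-427),42,(-1)],[6]],[[(-1459073096),34802610,(-455081),4851,(-42)],[39024613,(-893132),15120,(-211),1],[(-389669),11036,(-281),3],[1663,(-111),3],[(-4),1]],[[(-15248201),1271232,(-18646),80,1],[752157,(-36979),382],[(-13754),426,(-2)],[126,(-2)],[(-1)]],[[1478498,(-18962),124,(-1)],[(-34264),315,(-2)],[274],[1]],[[2556,(-140),(-1)],[(-96),2],[1]],[[(-375)],[7]]],[[[7872900354,(-842211770),13004114,(-47790),(-360),1],[(-383683469),21179939,(-159144),(-1478),18],[5808434,(-139573),(-1920),46],[(-27580),(-932),44],[(-170),17],[2]],[[(-1287145480),22436095,(-195530),2045,(-15)],[33612498,(-476515),5561,(-72)],[(-316625),4032,(-86)],[954,(-24)],[3]],[[(-12624877),989532,(-11655),42],[582999,(-25447),191],[(-9327),217],[61]],[[1515303,(-17098),46],[(-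36956),247],[268]],[[3864,(-166)],[(-90)]],[[(-325)]]],[[[1326062451,(-212503370),2775290,(-3160),(-109)],[(-87108972),5587812,(-30815),(-480)],[1580289,(-44881),(-446)],[(-11145),(-89)]],[[(-375017396),4275224,(-22890),421],[9990927,(-85228),819],[(-102923),793],[424]],[[(-3947664),268715,(-2252)],[168488,(-6050)],[(-1996)]],[[473563,(-3863)],[(-11180)]],[[1584]]],[[[6010708,(-25850203),317288,711],[(-6959930),724674,(-2935)],[171254,(-5803)],[(-1335)]],[[(-55330589),534747,(-2376)],[1528953,(-12738)],[(-15340)]],[[(-304320),28136],[7834]],[[66007]]],[[[(-16554827),(-1513251),18966],[44468,40979],[5181]],[[(-4075420),42165],[101858]],[[25749]]],[[[(-1240360),(-34810)],[21711]],[[(-119547)]]],[[[(-22557)]]]],[[[[5141515512,(-474238537),6312936,20895,(-1275),9],[(-222492858),10267570,22004,(-4292),54],[2793994,(-2912),(-4671),97],[(-293),(-2039),73],[(-317),25],[3]],[[(-492073755),(-6458930),48968,2767,(-41)],[8873089,132901,3739,(-133)],[(-42618),577,(-134)],[(-29),(-46)],[(-3)]],[[(-334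30246),341013,(-1474),47],[777891,(-4850),66],[(-6290),10],[(-7)]],[[(-302017),10650,(-3)],[9625,(-121)],[(-47)]],[[14287,43],[(-243)]],[[176]]],[[[3651317351,(-395697209),5918061,(-29600),(-157)],[(-179810712),9947017,(-75365),(-719)],[2755634,(-67393),(-940)],[(-13880),(-456)],[(-79)]],[[(-431794160),(-10945943),149672,432],[6777652,302763,(-743)],[(-7883),(-1861)],[(-389)]],[[(-34769804),224847,1033],[841860,(-2056)],[(-5266)]],[[(-433080),10059],[9112]],[[11506]]],[[[557378989,(-96529864),1153556,(-3434)],[(-38876336),2569673,(-14670)],[731770,(-19633)],[(-4913)]],[[(-147986963),(-3957930),40177],[2597014,92520],[(-6589)]],[[(-11803420),41480],[247232]],[[(-130144)]]],[[[(-5453626),(-12141161),130051],[(-2998408),315800],[75014]],[[(-28167536),(-424709)],[531850]],[[(-1613117)]]],[[[(-9224202),(-670369)],[53068]],[[(-2460157)]]],[[[(-645753)]]]],[[[[300387312,(-18530681),(-637296),30027,(-539)],[(-9873195),(-238749),49452,(-1370)],[(-8668),23449,(-1230)],[3621,(-459)],[(-61)]],[[2149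93,(-4011053),46168,199],[(-1147857),113677,(-339)],[29486,(-851)],[(-243)]],[[(-4423064),(-124029),1487],[77777,3085],[50]],[[(-262843),(-386)],[4529]],[[(-3807)]]],[[[238609907,(-24196007),206084,(-733)],[(-11541169),555049,(-875)],[171591,(-2043)],[(-536)]],[[(-11612890),(-2781682),19871],[(-419627),58084],[12390]],[[(-4191680),(-83334)],[58991]],[[(-189536)]]],[[[24448501,(-4766173),2191],[(-1939602),101902],[35174]],[[(-6457369),(-657327)],[(-28134)]],[[(-1187097)]]],[[[(-107132),(-675971)],[(-179778)]],[[(-1558369)]]],[[[(-583896)]]]],[[[[(-5529583),554337,(-12429),52],[255440,(-17072),166],[(-4526),125],[25]],[[349208,29043,(-668)],[(-2305),(-712)],[(-74)]],[[62993,(-321)],[(-1096)]],[[1479]]],[[[(-5017362),576057,(-9760)],[248217,(-13292)],[(-3458)]],[[490896,21873],[(-2996)]],[[51307]]],[[[(-835105),154831],[59042]],[[189746]]],[[[151006]]]]]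

/-- A surrogate. -/
def root_s11 : List (List (List (List (List ℤ)))) :=
  [[[[[6883400410,(-178286196),1193016,554,(-13)],[(-179581077),3371681,(-13289),(-16)],[1764198,(-20614),23],[(-7298),19],[3]],[[52338474,(-1671921),14203,20],[(-1385382),31230,(-127),(-1)],[11724,(-104),(-1)],[1,(-1)],[(-1)]],[[(-8674525),212778,(-1322)],[225353,(-4067),14],[(-2299),25],[10]],[[(-30188),821,(-2)],[774,(-4)],[(-1)]],[[2424,(-58)],[(-61),1],[1]],[[(-18),1],[1]]],[[[701865048,(-18825929),132093,90,(-2)],[(-18352042),355088,(-1415),(-3)],[176351,(-2006),1],[(-634),(-1)],[(-1)]],[[12776989,(-385076),3064,4],[(-336832),7132,(-26)],[2940,(-24)],[(-2)]],[[(-731722),17839,(-107)],[19186,(-336),1],[(-193),3],[1]],[[(-10187),218,(-1)],[218,(-4)],[(-2)]],[[165,(-5)],[(-5)]]],[[[19992826,(-579527),4464,5],[(-525527),10880,(-43)],[4792,(-48)],[(-10)]],[[611070,(-19440),150],[(-16211),323,(-1)],[116,(-1)]],[[(-12294),320,(-2)],[376,(-8)],[(-5)]],[[(-406),11],[12]]],[[[103776,(-4158),42],[(-2801),76],[19]],[[57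65,(-231),2],[(-156),4],[1]],[[80,(-3)],[(-2)]]]],[[[[1666403408,(-39364500),227580,(-61),1],[(-43234500),750196,(-2849),2],[447980,(-5521),14],[(-2403),21],[7]],[[208183300,(-5111799),31485,2],[(-5413937),96879,(-355)],[54781,(-629),1],[(-254),2],[1]],[[3985814,(-100605),614],[(-103099),1779,(-6)],[954,(-9)],[(-3)]],[[(-95226),2260,(-16)],[2445,(-50)],[(-29)]],[[(-1456),34],[35]],[[22]]],[[[80631839,(-1655425),7010,(-16)],[(-2076457),32032,(-104)],[23091,(-285),1],[(-151),2],[1]],[[17564223,(-424582),2446],[(-456746),7758,(-32)],[4497,(-58)],[(-24)]],[[606738,(-14546),91],[(-15075),268],[146]],[[(-573),40],[49]],[[(-160)]]],[[[(-668351),39633,(-477),(-1)],[18867,(-718),2],[(-50),(-3)],[(-4)]],[[295963,(-6310),39],[(-7617),149],[98]],[[17971,(-484)],[(-509)]],[[271]]],[[[(-34592),1386,(-14)],[934,(-26)],[(-6)]],[[(-1922),78],[52]],[[(-27)]]]],[[[[(-693629784),17546206,(-113425),(-34),1],[18068796,(-332344),1316,1],[(-180001),2167,(-3)],[818,(-3)],[(-1)]],[[(-13122612),362840,(-2850),(-2)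],[342853,(-7437),15],[(-3571),14],[1]],[[1700507,(-39087),262],[(-42361),835],[486]],[[51860,(-1233)],[(-1305)]],[[(-145)]]],[[[(-78506006),1993368,(-12977),(-4)],[2045829,(-37813),141],[(-20374),228],[85]],[[(-4346076),112149,(-667)],[113602,(-1887)],[(-989)]],[[902,(-438)],[(-590)]],[[3809]]],[[[(-1998603),51233,(-345)],[52156,(-991)],[(-528)]],[[(-166588),4348],[4428]],[[(-4704)]]]],[[[[(-178714555),4394326,(-27250),(-2)],[4648183,(-83656),315],[(-47215),554],[223]],[[(-16505653),407355,(-2401)],[430072,(-7341)],[(-4129)]],[[(-456293),9994],[10472]],[[1770]]],[[[(-8785042),217208,(-1389)],[228975,(-4241)],[(-2382)]],[[(-976608),24701],[26053]],[[(-41591)]]]],[[[[(-10056535),245578,(-1544)],[262271,(-4829)],[(-2767)]],[[(-1398087),35075],[37481]],[[(-79814)]]]]]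

/-- A surrogate. -/
def root_s12 : List (List (List (List (List ℤ)))) :=
  [[[[[(-850686041),(-79310886),2523202,(-19091),9],[(-8022310),3879878,(-77542),395],[816351,(-67665),872,(-3)],[(-13338),555,(-4)],[97,(-2)]],[[188758595,(-4725034),33741,(-64)],[(-5723295),117316,(-790),4],[71485,(-1182),12],[(-456),8],[2]],[[4385182,19990,(-2615),20],[(-87326),(-3043),73],[57,60,(-1)],[10,(-1)]],[[(-207741),4336,(-17)],[6146,(-101)],[(-76),1]],[[(-3101),26,1],[67]],[[49,(-1)],[(-1)]]],[[[(-701047844),(-9862358),645396,(-6109),10],[12322187,749630,(-20263),132],[31191,(-15036),243,(-1)],[(-2243),138,(-1)],[22]],[[36311693,(-1200316),14872,(-108)],[(-1187220),33559,(-452),1],[16132,(-443),3],[(-122),2]],[[1751413,(-13700),(-402),5],[(-42070),(-176),15],[266,11],[1]],[[(-36320),980,(-7)],[1172,(-25)],[(-17)]],[[(-811),10],[20]],[[9]]],[[[(-148642896),736089,62344,(-783),2],[3538801,36857,(-2121),14],[(-24969),(-1193),22],[(-38),11],[1]],[[1473073,(-87850),1942,(-12)],[(-58767),2868,(-41)],[806,(-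34)],[(-8)]],[[271939,(-3892),(-22)],[(-6570),36],[56]],[[(-1189),64],[65]],[[(-95)]]],[[[(-13049161),172404,2558,(-41)],[345413,(-1408),(-91)],[(-3461),(-29)],[11]],[[(-99605),(-61),82],[3217,79]],[[18073,(-360)],[(-513)]],[[103]]],[[[(-503422),9071,36],[14258,(-130)],[(-143)]],[[(-9515),88],[182]],[[664]]],[[[(-7052),138],[195]],[[(-137)]]]],[[[[135044536,(-109953018),2757934,(-18600),5],[(-35171747),4146200,(-70518),316],[998102,(-59981),684,(-2)],[(-11983),430,(-2)],[75,(-1)]],[[6119797,(-4034044),102869,(-741)],[(-1427743),164587,(-2986),11],[42683,(-2660),25],[(-564),17],[3]],[[4241908,(-38506),(-647),9],[(-112641),782,21],[1287,2],[(-6)]],[[175573,(-1355),(-42)],[(-4308),(-12)],[34]],[[16],[9]],[[(-45)]]],[[[(-415577002),(-11403302),514106,(-4433),6],[6138047,600423,(-14295),73],[41711,(-10374),135],[(-1465),76],[12]],[[(-20750692),(-442696),22733,(-163)],[327874,27228,(-574)],[1826,(-451)],[(-75)]],[[823847,(-17805),45],[(-23962),428],[339]],[[45592,(-596)],[(-1176)]],[[104]]],[[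[(-92865722),621691,32199,(-368)],[2294588,12632,(-981)],[(-19095),(-512)],[14]],[[(-5487684),50081,1433],[140315,505],[(-949)]],[[4522,(-1183)],[(-1069)]],[[4500]]],[[[(-7316311),121997,602],[202564,(-1632)],[(-2018)]],[[(-496937),7928],[12674]],[[(-4858)]]],[[[(-242059),4954],[6889]],[[(-17982)]]],[[[(-2910)]]]],[[[[211197688,(-36449070),809621,(-5016),1],[(-14795693),1221610,(-18738),69],[319825,(-15968),153],[(-3300),98],[18]],[[(-10153002),(-2277152),61419,(-368)],[(-391860),84969,(-1365)],[16449,(-1119)],[(-206)]],[[(-1158035),(-31455),1157],[17858,1421],[111]],[[(-4623),142],[(-10)]],[[977]]],[[[(-71808387),(-3053146),112486,(-837)],[843887,131927,(-2724)],[11327,(-1986)],[(-285)]],[[(-11431967),(-124208),8241],[232573,8247],[(-617)]],[[(-497760),238],[9976]],[[(-2477)]]],[[[(-14748785),116840,4336],[376159,1001],[(-3221)]],[[(-1726708),18595],[43115]],[[(-63531)]]],[[[(-803521),14952],[22733]],[[(-89416)]]],[[[(-13708)]]]],[[[[20696795,(-2807493),59698,(-349)],[(-1223742),90209,(-1310)],[24329,(-1128)],[(-240)]],[[(-328684),(-271377),6780],[(-62542),9485],[2017]],[[(-198580),(-8856)],[1883]],[[(-9823)]]],[[[(-4606764),(-132723),5627],[74718,6196],[228]],[[(-987020),(-6549)],[20750]],[[(-71642)]]],[[[(-644913),9545],[17890]],[[(-98895)]]],[[[(-16153)]]]]]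

/-- A surrogate. -/
def root_s13 : List (List (List (List (List ℤ)))) :=
  [[[[[(-39458310),343865,287666,(-7073),43],[1475219,68611,(-6796),76],[(-23225),(-263),(-3),1],[460,(-32),1],[(-8),1]],[[(-1116367),1229795,(-41663),485,(-2)],[210515,(-34312),758,(-5)],[(-2631),193,(-1)],[(-36),3],[1]],[[1374450,(-85631),1625,(-12)],[(-45028),2096,(-30)],[477,(-15)]],[[(-57357),1845,(-22)],[1646,(-46)],[(-18)]],[[416,(-13)],[(-14)]]],[[[(-69920194),5506901,95321,(-4378),29],[3304280,(-107239),(-2705),47],[(-56833),1502,(-15)],[658,(-31),1],[(-7)]],[[8410684,579165,(-26799),343,(-1)],[(-140980),(-17592),505,(-3)],[1736,86,(-1)],[(-46),2],[1]],[[869545,(-62911),1269,(-8)],[(-30544),1608,(-20)],[348,(-10)]],[[(-49274),1594,(-16)],[1464,(-33)],[(-14)]],[[397,(-9)],[(-10)]]],[[[(-25784936),3456665,(-38292),(-426),4],[1493938,(-94823),610,4],[(-27826),1104,(-7)],[270,(-7)],[(-2)]],[[6224645,(-51148),(-3205),52],[(-176438),440,58],[2191,(-13)],[(-16)]],[[87533,(-11590),253],[(-4217),297],[50]],[[(-128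40),380],[368]],[[103]]],[[[262118,432884,(-8007),(-1)],[98822,(-13384),128],[(-2711),137],[26]],[[998123,(-19433),(-46)],[(-30667),416],[348]],[[(-3162),(-743)],[40]],[[(-1442)]]],[[[344993,19768,(-453)],[(-4187),(-615)],[(-37)]],[[68328,(-1487)],[(-1889)]],[[(-1190)]]],[[[21485,260],[(-457)]],[[1788]]],[[[331]]]],[[[[(-30120167),1454409,99800,(-3048),24],[1374105,(-19750),(-2251),38],[(-25959),630,(-7)],[374,(-20)],[(-5)]],[[(-805338),630131,(-14352),80],[121873,(-16509),268,(-1)],[(-1874),132,(-1)],[(-2)]],[[706346,(-10633),(-110),2],[(-18814),232,2],[217,(-1)],[(-1)]],[[9629,(-513),7],[(-310),9],[2]],[[(-310),6],[7]]],[[[(-44908730),4078425,3257,(-1771),15],[2295881,(-110930),(-162),21],[(-43616),1597,(-9)],[490,(-15)],[(-3)]],[[3318234,450573,(-12399),61],[(-11374),(-12946),191],[(-431),93],[(-2)]],[[712121,(-13238),(-37)],[(-20372),220],[177]],[[7167,(-320)],[(-182)]],[[(-223)]]],[[[(-15206023),2138161,(-33203),(-113)],[924033,(-65839),569],[(-18490),719],[165]],[[2874002,71117,(-2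819)],[(-62750),(-2418)],[373]],[[235952,(-4507)],[(-6139)]],[[1153]]],[[[223329,251971,(-5164)],[54801,(-7925)],[(-1602)]],[[602332,1376],[(-14210)]],[[29368]]],[[[206579,10483],[(-2636)]],[[48971]]],[[[12335]]]],[[[[(-1320817),2497,10629,(-273),2],[63292,1198,(-205),3],[(-1456),52],[32,(-1)]],[[(-318837),59001,(-952),(-4)],[18147,(-1630),11],[(-290),11],[1]],[[49485,1604,(-49)],[(-1183),(-39)],[6]],[[3752,(-40)],[(-75)]],[[42]]],[[[(-2546075),211243,2204,(-149)],[135846,(-6486),(-65)],[(-2885),79],[29]],[[(-38978),51465,(-798)],[9616,(-1224)],[(-191)]],[[62911,825],[(-1138)]],[[2770]]],[[[(-916582),129600,(-1841)],[56700,(-3983)],[(-1166)]],[[126348,11606],[(-427)]],[[22175]]],[[[37993,12646],[2153]],[[35589]]],[[[12603]]]],[[[[172799,(-17323),388,(-2)],[(-7983),533,(-5)],[141,(-4)],[(-1)]],[[(-10913),(-908),21],[72,22],[2]],[[(-1969),10],[34]],[[(-46)]]],[[[156793,(-18002),305],[(-7757),415],[108]],[[(-15340),(-684)],[94]],[[(-1603)]]],[[[26097,(-4838)],[(-1845)]],[[(-5930)]]],[[[(-4719)]]]]]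

/-- A surrogate. -/
def root_s14 : List (List (List (List (List ℤ)))) :=
  [[[[[(-35512448),309509,258901,(-6366),38],[1327697,61749,(-6117),69],[(-20904),(-237),(-3),1],[414,(-29),1],[(-7)]],[[(-1991090),1115415,(-30297),259,(-1)],[226355,(-29149),513,(-3)],[(-2944),169,(-1)],[(-20),2],[1]],[[1209052,(-46380),412,1],[(-35263),1021,(-8)],[365,(-9)],[(-1)]],[[(-17358),(-488),23],[342,13],[(-4)]],[[(-1055),38],[32,(-1)]],[[12]]],[[[(-62928068),4956194,85798,(-3939),26],[2973877,(-96502),(-2434),43],[(-51148),1352,(-14)],[592,(-27),1],[(-6)]],[[5821470,658810,(-21760),198,(-1)],[(-44285),(-18558),386,(-2)],[131,116,(-1)],[(-25),1]],[[992603,(-42066),469],[(-31056),1005,(-8)],[358,(-7)],[(-1)]],[[(-22411),(-124),13],[557,5],[(-5)]],[[(-860),26],[22]],[[9]]],[[[(-23206649),3110912,(-34465),(-383),3],[1344542,(-85332),551,3],[(-25036),995,(-7)],[243,(-7)],[(-1)]],[[4957226,40464,(-3852),37],[(-121463),(-2000),63],[1270,11],[(-9)]],[[234798,(-11595),161],[(-8190),281],[91]],[[(-9214),91],[251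]],[[(-197)]]],[[[235714,389549,(-7213),(-1)],[88885,(-12050),116],[(-2437),124],[23]],[[905009,(-6568),(-211)],[(-25127),88],[255]],[[22381,(-1123)],[(-625)]],[[(-1462)]]],[[[310566,17781,(-410)],[(-3799),(-556)],[(-33)]],[[70278,(-898)],[(-1795)]],[[401]]],[[[19371,234],[(-414)]],[[2111]]],[[[299]]]],[[[[(-27108148),1308945,89839,(-2743),22],[1236719,(-17756),(-2026),34],[(-23364),566,(-6)],[336,(-18)],[(-4)]],[[(-1477919),603522,(-10441),(-5),1],[144112,(-15389),191],[(-2345),142,(-1)],[9]],[[615505,6235,(-484),3],[(-13927),(-224),6],[154,1],[(-1)]],[[26504,(-776),4],[(-809),13],[6]],[[(-35),(-4)],[1]],[[(-6)]]],[[[(-40418128),3670589,2917,(-1593),14],[2066395,(-99846),(-141),19],[(-39251),1441,(-8)],[441,(-13)],[(-3)]],[[1863395,507542,(-11142),14],[47098,(-14506),161],[(-1486),112],[8]],[[724359,(-725),(-292)],[(-18832),(-74)],[146]],[[24498,(-556)],[(-568)]],[[(-63)]]],[[[(-13685650),1924403,(-29948),(-102)],[831494,(-59329),516],[(-16644),651],[149]],[[2207010,117429,(-3257)],[(-3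3640),(-3631)],[(-79)]],[[284891,(-2432)],[(-6826)]],[[6124]]],[[[201751,226857,(-4677)],[49112,(-7174)],[(-1448)]],[[548658,7188],[(-11457)]],[[40169]]],[[[186643,9482],[(-2403)]],[[49158]]],[[[11188]]]],[[[[(-1188778),2184,9569,(-246),2],[56969,1084,(-185),3],[(-1309),47],[29,(-1)]],[[(-320196),53154,(-613),(-9)],[17907,(-1483),5],[(-310),11],[2]],[[36613,3042,(-62)],[(-621),(-67)]],[[4858,(-4)],[(-90)]],[[110]]],[[[(-2291748),190156,1966,(-135)],[122256,(-5867),(-59)],[(-2602),71],[26]],[[(-98563),51871,(-642)],[12076,(-1214)],[(-227)]],[[56308,1862],[(-791)]],[[3770]]],[[[(-824656),116825,(-1670)],[51017,(-3609)],[(-1056)]],[[91603,13566],[1013]],[[22603]]],[[[34721,11452],[1938]],[[32950]]],[[[11443]]]],[[[[155557,(-15583),350,(-1)],[(-7181),481,(-5)],[128,(-4)],[(-1)]],[[(-5517),(-1301),26],[(-153),30],[5]],[[(-2111),(-8)],[32]],[[(-78)]]],[[[141085,(-16227),276],[(-6985),376],[98]],[[(-9985),(-993)],[(-79)]],[[(-1750)]]],[[[23378,(-4381)],[(-1669)]],[[(-4607)]]],[[[(-4284)]]]]]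

/-- A surrogate. -/
def root_s15 : List (List (List (List (List ℤ)))) :=
  [[[[[(-2922967687),(-196818148),6340489,(-41910),(-57),1],[43222661,3919795,(-61585),(-10),1],[(-743561),13158,(-586),5],[17382,(-728),9],[(-199),6],[1]],[[(-481825417),25518562,(-423176),2387,(-1)],[11695636,(-440916),4586,(-13)],[(-48442),273,14],[(-1036),37],[14]],[[32332757,(-1009976),10419,(-39)],[(-770831),17521,(-122)],[5321,(-59)],[11,(-1)]],[[(-466798),12795,(-110)],[11155,(-234),1],[(-87),1]],[[1973,(-61)],[(-56),1]]],[[[(-4227963378),41987166,879022,(-8318),(-26)],[104794367,(-748505),(-7664),(-23),1],[(-1152029),13777,(-154),1],[9006,(-200),2],[(-62),1]],[[(-11047033),3329159,(-87398),702,(-1)],[167037,(-66543),1332,(-7)],[8233,232,(-2)],[(-199),4],[2]],[[10046548,(-303500),3049,(-13)],[(-266175),6051,(-46)],[2486,(-38)],[(-8)]],[[(-155373),4357,(-37)],[4244,(-91)],[(-43)]],[[726,(-21)],[(-22)]]],[[[(-764279295),13027144,16389,(-584),(-4)],[20007596,(-253197),151,(-7)],[(-221666),2762,(-17)],[1571,(-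21)],[(-7)]],[[7173276,96436,(-7653),78],[(-193503),(-4470),135],[1640,20],[(-20)]],[[1258016,(-35371),339],[(-34008),750],[353]],[[(-16833),483],[499]],[[63]]],[[[(-54332867),1058781,(-2844),(-4)],[1470344,(-22277),59],[(-17325),191],[105]],[[639679,(-920),(-290)],[(-13569),28],[203]],[[75386,(-2089)],[(-2142)]],[[(-803)]]],[[[(-1693990),35023,(-140)],[47928,(-675)],[(-523)]],[[18369,(-404)],[(-706)]],[[2377]]],[[[(-17499),303],[464]],[[380]]],[[[74]]]],[[[[(-2557224924),(-83896888),3390325,(-26455),23],[56175122,1483052,(-35049),126],[(-843056),12312,(-227),1],[12123,(-392),4],[(-114),3]],[[(-430127433),10959703,(-75969),88],[10117075,(-189883),987,(-3)],[(-76778),932,(-3)],[56,3],[3]],[[1244305,55673,(-1994),14],[(-28871),(-867),18],[540,(-8)],[(-7)]],[[239901,(-6853),57],[(-5684),107],[35]],[[(-2074),52],[48]]],[[[(-3056330562),47434233,314481,(-6829),16],[82866986,(-1015230),(-3988),59],[(-962130),11743,(-27)],[6705,(-88)],[(-29)]],[[(-169198676),4357315,(-32014),70],[4482086,(-9091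1),490],[(-46418),607],[178]],[[1306319,(-16666),(-161)],[(-36649),564],[535]],[[77100,(-2025)],[(-1894)]],[[(-675)]]],[[[(-519463001),10841433,(-16981),(-642)],[14619214,(-232164),65],[(-170204),1896],[980]],[[(-24379611),635084,(-4218)],[689378,(-12482)],[(-6855)]],[[105231,(-2688)],[(-4458)]],[[8566]]],[[[(-34976496),801999,(-2765)],[1011027,(-16541)],[(-11339)]],[[(-1664379),40041],[44723]],[[607]]],[[[(-1050758),24795],[30520]],[[(-52420)]]],[[[(-11966)]]]],[[[[(-346687217),(-14160553),536609,(-4367),6],[8193274,231050,(-5672),23],[(-136816),2106,(-28)],[2020,(-55)],[(-16)]],[[(-86786761),1241436,9716,(-154)],[2066399,(-23724),(-85)],[(-19941),194],[74]],[[(-3147190),80162,(-474)],[75965,(-1188)],[(-477)]],[[(-3218),221],[2]],[[646]]],[[[(-434837167),7447413,34396,(-1008)],[12414442,(-171759),(-537)],[(-150964),1702],[950]],[[(-44883430),1014864,(-3374)],[1243973,(-19946)],[(-12613)]],[[(-1205887),27962],[28652]],[[1283]]],[[[(-62293238),1389468,(-3105)],[1833732,(-29810)],[(-21183)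]],[[(-5619135),131980],[155551]],[[(-136552)]]],[[[(-3100481),74154],[92626]],[[(-267686)]]],[[[(-52825)]]]],[[[[1880278,(-1120180),28326,(-202)],[(-28992),17500,(-292)],[(-3501),50],[76]],[[(-3574382),5809,1696],[90535,28],[(-802)]],[[(-312577),4741],[6566]],[[(-7876)]]],[[[(-9493699),134536,2153],[339475,(-4566)],[(-4864)]],[[(-2048752),43965],[60849]],[[(-124157)]]],[[[(-1396905),33150],[47202]],[[(-208546)]]],[[[(-45915)]]]],[[[[1426566,(-35212),180],[(-34374),496],[251]],[[160445,(-3271)],[(-3194)]],[[5584]]],[[[766311,(-18753)],[(-18311)]],[[85267]]],[[[26368]]]]]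

/-- A root. -/
def root : Root where
  cl := true
  box := fun i => match i with
    | 0 => ⟨1, 41, 20, 200⟩
    | 1 => ⟨22, 93, 25, 100⟩
    | 2 => ⟨7, 14287, 50, 100000⟩
    | _ => ⟨3, 310001, 10, 1000000⟩
  De := 400
  e0 := 69
  e1 := 229
  p := fun i => match i with
    | 0 => 13
    | 1 => 40
    | 2 => 697
    | 3 => 200
    | _ => 5
  q := fun i => match i with
    | 0 => 2
    | 1 => 36
    | 2 => 99
    | 3 => 61
    | _ => 2
  den := 17179869184
  sur := fun k => match k with
    | 0 => root_s0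
    | 1 => root_s1
    | 3 => root_s3
    | 5 => root_s5
    | 11 => root_s11
    | 12 => root_s12
    | 13 => root_s13
    | 14 => root_s14
    | 15 => root_s15
    | _ => []
  eps := fun k => match k with
    | 0 => 249669
    | 1 => 920555
    | 3 => 266886
    | 5 => 226268
    | 11 => 5657
    | 12 => 11316
    | 13 => 4552
    | 14 => 4850
    | 15 => 23092
    | _ => 0

/-- A leaf. -/
def leaf0 : Leaf :=
  ⟨⟨22, 181, 25, 200⟩, ⟨7, 14287, 50, 100000⟩, ⟨3, 310001, 10, 1000000⟩,
    16384, (7689, -25341, -19071, 4514), (10633, -40487, -21860, 7994), 16384, (-1605, 70160, 80576, -26962), (2411, 10252, -5512, -6880), (-3635, 73186, 88256, -26428), (-5976, 13748, 12410, -453),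
    true, 0, 1, 882, (-160), 625, 4096, (-855), 654⟩

/-- A tile. -/
def tile0 : Tile :=
  ⟨⟨22, 181, 25, 200⟩, ⟨7, 14287, 50, 100000⟩, ⟨3, 310001, 10, 1000000⟩, 16384, (7689, -25341, -19071, 4514), (10633, -40487, -21860, 7994), 6923,
    (1024, 0), (5, 1024), 0, 4, (leaf0, ⟨(1024, 1), (1024, 312)⟩),
    []⟩

/-- A leaf. -/
def leaf1 : Leaf :=
  ⟨⟨181, 93, 200, 100⟩, ⟨7, 14287, 50, 100000⟩, ⟨3, 310001, 10, 1000000⟩,
    16384, (7104, -27607, -20834, 6196), (7164, -44368, -22848, 13294), 16384, (4811, 66801, 78599, -32608), (8382, 10137, -9381, -12845), (2856, 69488, 86501, -32014), (-4590, 14672, 14161, -2574),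
    true, 0, 1, 2060, (-204), 1353, 4096, (-1704), 1067⟩

/-- A tile. -/
def tile1 : Tile :=
  ⟨⟨181, 93, 200, 100⟩, ⟨7, 14287, 50, 100000⟩, ⟨3, 310001, 10, 1000000⟩, 16384, (7104, -27607, -20834, 6196), (7164, -44368, -22848, 13294), 6923,
    (1024, 0), (6, 1024), 0, 4, (leaf1, ⟨(1024, 1), (1024, 368)⟩),
    []⟩

/-- The subdivision. -/
def tree : Tree :=
  (.node 0 181 200
    (.tile tile0)
    (.tile tile1))

def tree_ok : tree.ok pieceCor 448 ⟨22, 93, 25, 100⟩ ⟨7, 14287, 50, 100000⟩ ⟨3, 310001, 10, 1000000⟩ = true := by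
  decide +kernel

def root_ok0 : root.okEnt 576 0 = true := by decide +kernel

def root_ok1 : root.okEnt 576 1 = true := by decide +kernel

def root_ok3 : root.okEnt 576 3 = true := by decide +kernel

def root_ok5 : root.okEnt 576 5 = true := by decide +kernel

def root_ok11 : root.okEnt 576 11 = true := by decide +kernel

def root_ok12 : root.okEnt 576 12 = true := by decide +kernel

def root_ok13 : root.okEnt 576 13 = true := by decide +kernel

def root_ok14 : root.okEnt 576 14 = true := by decide +kernel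

def root_ok15 : root.okEnt 576 15 = true := by decide +kernel

def leaf0_ok : leaf0.okLeaf root 640 = true := by decide +kernel

def leaf1_ok : leaf1.okLeaf root 640 = true := by decide +kernel

theorem leaves_eq : tree.leaves =
    [leaf0, leaf1] := rfl

theorem leaves_ok : ∀ F ∈ tree.leaves, Leaf.okLeaf F root 640 = true := by
  rw [leaves_eq]
  exact all'_cons leaf0_ok (all'_cons leaf1_ok ((fun F hF => absurd hF List.not_mem_nil)))

theorem root_ok : ∀ k ∈ [0, 1, 3, 5, 11, 12, 13, 14, 15], root.okEnt 576 k = true := by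
  intro k hk
  simp only [List.mem_cons, List.not_mem_nil, or_false] at hk
  rcases hk with rfl | rfl | rfl | rfl | rfl | rfl | rfl | rfl | rfl
  · exact root_ok0
  · exact root_ok1
  · exact root_ok3
  · exact root_ok5
  · exact root_ok11
  · exact root_ok12
  · exact root_ok13
  · exact root_ok14
  · exact root_ok15

theorem used_ok : ∀ F ∈ tree.leaves, ∀ k ∈ Leaf.used F, root.okEnt 576 k = true := by
  intro F hF k hk
  refine root_ok k ?_
  rw [leaves_eq] at hF
  have h : ([leaf0, leaf1]).all (fun G => G.used.all fun j => [0, 1, 3, 5, 11, 12, 13, 14, 15].any (Nat.beq j)) = true := by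
    decide +kernel
  simp only [List.all_eq_true, List.any_eq_true] at h
  obtain ⟨j, hj, e⟩ := h F hF k hk
  exact Nat.eq_of_beq_eq_true e ▸ hj

/-- **The signs on the box.** -/
theorem signs {a I u X η : ℝ} (hf : Facts pieceCor a I u X η) (hu : In1 ⟨22, 93, 25, 100⟩ u)
    (hI : In1 ⟨7, 14287, 50, 100000⟩ I) (ha : In1 ⟨3, 310001, 10, 1000000⟩ a) :
    ClosedGen.SignsMult a (rd (mk4 X u I a)) (rv (mk4 X u I a)) (rg (mk4 X u I a) η)
      (rW (mk4 X u I a) η) (rW1 (mk4 X u I a) η) (rR (mk4 X u I a))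
      (rNum true (mk4 X u I a) η) :=
  Tree.signs (T := tree) (R := root) tree_ok leaves_ok used_ok hf hu hI ha

end Vale.Agent.P100.Calib.MidTail.BoxIV1U1
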