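import Vale.Agent.P100.Calib.SlabMidTailPieces

/-!
# The signs on a box of the middle tail

`u, I, a` lie in the box of `root`; the surrogates and leaves are checked by the kernel.
-/

namespace Vale.Agent.P100.Calib.MidTail.BoxIV1U2

open Pack EndAll Band

/-- A surrogate. -/
def root_s0 : List (List (List (List (List ℤ)))) :=
  [[[[[4562076411,(-678233893),15836820,(-184691),1371,(-3)],[(-249462431),19347365,(-323782),1977,23,(-1)],[4018860,(-175171),410,78,(-2)],[(-20193),(-259),68,(-2)],[(-135),21,(-1)],[3]],[[(-361731657),11878179,(-177966),1796,12],[7045845,(-207941),4626,(-21)],[16987,853,(-34),1],[(-1548),25,1],[22]],[[1507211,476946,(-8269),63],[72041,(-13948),198,(-2)],[(-1986),160,(-3)],[19,(-1)]],[[345853,(-886),(-64)],[(-6771),(-97),1],[5,2],[1]],[[2022,(-109)],[(-78),1],[1]],[[(-61),(-1)],[1]]],[[[2527492757,(-521862933),10746609,(-119400),883,1],[(-170432858),14212196,(-204003),1043,29],[2852861,(-122271),219,63],[(-14365),30,44],[(-54),11],[1]],[[(-304751067),637015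3,(-44521),184,17],[4961789,(-1640),(-1379),31],[52352,(-4145),60],[(-2161),70],[24]],[[3910548,392561,(-5731),44],[(-33971),(-9119),91],[(-281),49],[(-6)]],[[449615,(-1798),(-54)],[(-9822),(-65)],[33]],[[3335,(-85)],[(-98)]],[[(-34)]]],[[[(-85546345),(-115163737),1636325,(-15245),88],[(-23235193),2863965,(-25607)],[483454,(-25155),31],[(-2891),141],[16]],[[(-74275736),60733,32992,(-500)],[780722,71545,(-2139)],[24995,(-2547)],[(-724)]],[[1898398,111463,(-648)],[(-17310),(-1798)],[(-328)]],[[162459,227],[(-2637)]],[[1452]]],[[[(-138426306),(-13135091),114786,(-1194)],[535139,320140,(-3299)],[16216,(-4887)],[(-443)]],[[(-9442694),(-129208),10893],[114541,20046],[2213]],[[446360,11803],[2324]],[[20719]]],[[[(-21881687),(-725671),9155],[442816,28052],[(-4665)]],[[(-552106),(-26624)],[30443]],[[14020]]],[[[(-1236148),(-20013)],[48361]],[[(-58689)]]],[[[(-31201)]]]],[[[[4273318198,(-546398875),8489678,(-1352),(-1598),22],[(-230304676),14365122,(-71353),(-4204),108],[3827099,(-100552),(-3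212),163],[(-23088),(-703),102],[(-36),27],[2]],[[(-255135080),(-11594704),262948,(-2495),(-13)],[2606897,356768,(-5828),(-50)],[32181,(-4815),(-39)],[(-788),(-1)],[2]],[[(-13398396),211568,(-371),31],[326857,(-3137),39],[(-3168),6],[(-1)]],[[(-51477),6661,(-8)],[3322,(-74)],[(-27)]],[[3650,45],[(-40)]],[[41]]],[[[2627719323,(-457073454),6900223,(-28675),(-969)],[(-173723443),12595588,(-121577),(-1678)],[3237249,(-131036),(-579)],[(-27431),287],[88]],[[(-248064108),(-15151670),333902,(-2964)],[1563187,526432,(-7884)],[66322,(-6838)],[(-1235)]],[[(-14681350),75230,2942],[372158,2602],[(-2169)]],[[(-137015),4788],[4963]],[[1756]]],[[[135898830,(-123528768),1689232,(-14467)],[(-34019980),3536837,(-38930)],[794895,(-40266)],[(-7929)]],[[(-109303721),(-4928289),82478],[1463998,160412],[12228]],[[(-5762136),(-13187)],[134733]],[[(-72477)]]],[[[(-112112600),(-16180916),182658],[(-951479),456925],[69872]],[[(-25170407),(-662676)],[465800]],[[(-1058220)]]],[[[(-22848495),(-1014252)],[379975]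],[[(-2773788)]]],[[[(-1487835)]]]],[[[[310440893,(-24079394),(-1482330),56734,(-1111)],[(-12340141),(-486367),89625,(-2643)],[13050,35155,(-2190)],[4049,(-714)],[(-80)]],[[3311507,(-4553257),29305,422],[(-1318031),127373,(-2)],[33014,(-993)],[(-279)]],[[(-2203095),(-136673),1124],[26101,3199],[307]],[[(-101667),(-1133)],[1662]],[[(-1246)]]],[[[236847009,(-36403698),1594,103],[(-15100464),832900,(-171)],[270609,(-6975)],[(-2098)]],[[(-10393910),(-3707194),18221],[(-648858),80831],[17674]],[[(-2482148),(-94274)],[26397]],[[(-78492)]]],[[[2459837,(-8810577),(-65580)],[(-2268375),156246],[45488]],[[(-8671005),(-936003)],[(-46706)]],[[(-826152)]]],[[[(-7759671),(-1383586)],[(-160016)]],[[(-2224500)]]],[[[(-1814813)]]]],[[[[(-6049024),784359,(-18502),82],[322724,(-24596),256],[(-6066),188],[36]],[[299380,29311,(-675)],[(-1079),(-732)],[(-85)]],[[31145,12],[(-515)]],[[530]]],[[[(-4913809),816663,(-15002)],[302854,(-19715)],[(-4729)]],[[451956,22707],[(-2246)]],[[26639]]],[[[(-299125),221101],[66284]],[[188854]]],[[[340890]]]]]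

/-- A surrogate. -/
def root_s1 : List (List (List (List (List ℤ)))) :=
  [[[[[14945365819,(-386743789),1388058,56307,(-1215),18],[(-480320481),10173236,10206,(-3330),89,(-1)],[6396302,(-96896),(-2371),140,(-3)],[(-43514),(-281),92,(-3)],[63,26,(-2)],[3]],[[(-536094539),18145677,(-229791),2021,10],[18794984,(-652233),11322,(-72),(-1)],[(-300286),12798,(-219)],[3401,(-163),1],[(-32),1]],[[(-7633107),112175,(-4),(-49)],[247380,(-3824),(-63),1],[(-4200),28,1],[41]],[[42334,600,(-2)],[(-375),(-15)],[(-3)]],[[(-234)],[4]]],[[[19713812268,(-501524552),1913806,60910,(-1535),18],[(-625389748),12724943,(-6176),(-3462),80],[8095727,(-124751),(-1758),114],[(-54131),209,68],[157,18],[2]],[[(-782299208),22397142,(-176626),1046,6],[25932307,(-630191),6860,(-39)],[(-351874),9107,(-113)],[2889,(-84)],[(-17)]],[[(-1608175),(-67664),(-198),(-11)],[1038,384,(-11)],[(-370),4],[8]],[[47190,659,(-1)],[(-377),(-10)],[(-1)]],[[(-245)],[3]]],[[[8970342028,(-229046308),1126466,20883,(-574)],[(-281624499),5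856301,(-18798),(-1132)],[3613982,(-65858),(-387)],[(-26214),222],[82]],[[(-369584251),9538202,(-52044),224],[11835432,(-237259),1666],[(-148672),2568],[914]],[[538579,(-53573),(-20)],[(-40808),701],[358]],[[15511,162],[(-100)]],[[(-51)]]],[[[1732231525,(-45551345),335351,2213],[(-53710408),1263988,(-7554)],[723071,(-15480)],[(-5681)]],[[(-72498800),1709567,(-8088)],[2206779,(-37531)],[(-23907)]],[[192067,(-7376)],[(-6435)]],[[1132]]],[[[165635175,(-4703056),45674],[(-5211486),147325],[81122]],[[(-7007579),144334],[185624]],[[13370]]],[[[8246422,(-292674)],[(-318528)]],[[(-322348)]]],[[[260432]]]],[[[[13309364560,(-398787109),671251,105822,(-2555),31],[(-455381157),8760773,145169,(-7975),155],[5860323,(-8999),(-7124),243],[(-27797),(-2082),162],[(-154),47],[5]],[[(-23907240),13908560,(-341938),3035,9],[6259880,(-538120),9638,(-16)],[(-165566),8152,(-52)],[1866,(-36)],[(-7)]],[[1487536,(-90550),126,20],[(-101671),2589,25],[2150,(-15)],[(-18)]],[[(-15203),(-465),1],[11,7],[2]],[[230],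[(-2)]]],[[[16817639849,(-467960101),1556846,61876,(-1769)],[(-561820580),11158753,28898,(-4443)],[7308487,(-95086),(-3166)],[(-48971),(-518)],[47]],[[66448751,6870488,(-131060),958],[2034735,(-220885),2437],[(-61860),1918],[396]],[[(-1814205),(-3005),145],[20436,450],[310]],[[(-18024),(-320)],[64]],[[143]]],[[[7463448688,(-195970989),907052,11448],[(-242243101),4863020,(-8457)],[3160644,(-45142)],[(-19985)]],[[37481056,1465031,(-13908)],[36388,(-23644)],[(-2003)]],[[(-1111536),13134],[20043]],[[(-5971)]]],[[[1406773808,(-34538610),168354],[(-44129448),849122],[548521]],[[7953369,14102],[(-169442)]],[[(-127162)]]],[[[133204379,(-3137109)],[(-4033011)]],[[1060035]]],[[[6750470]]]],[[[[941938282,(-41857434),(-3017685),121197,(-1828)],[(-49532353),(-967130),178630,(-4606)],[443856,65346,(-3863)],[4039,(-1259)],[(-137)]],[[81970870,(-3912277),99531,(-805)],[(-3113277),166777,(-2858)],[61311,(-2551)],[(-609)]],[[227422,24551,(-39)],[11568,(-505)],[(-313)]],[[(-4020),81],[77]],[[(-55)]]],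[[[1390178197,(-92618560),(-108774),28522],[(-77649902),2008318,29945],[1212470,(-5277)],[(-5978)]],[[80372143,(-2425813),38838],[(-2565878),75335],[32128]],[[737118,10737],[(-2925)]],[[(-1295)]]],[[[603925419,(-37110881),137982],[(-31355867),816849],[428403]],[[29789060,(-717072)],[(-787470)]],[[293502]]],[[[109516485,(-5270727)],[(-4459883)]],[[3472949]]],[[[8014504]]]],[[[[(-259293892),(-4475287),23400,4],[1947195,115944,(-225)],[17576,(-736)],[(-190)]],[[(-4542288),(-195034),605],[(-3767),3371],[884]],[[81002,(-1850)],[(-1632)]],[[1660]]],[[[(-289901095),(-5262525),19488],[2398229,96783],[10786]],[[(-6245903),(-162580)],[29503]],[[26505]]],[[[(-98207102),(-1704043)],[934362]],[[(-2730468)]]],[[[(-9999150)]]]],[[[[(-27131913)],[543476],[(-2903)]],[[(-1635178)],[22159]],[[(-24938)]]],[[[(-29796784)],[443432]],[[(-1330375)]]],[[[(-8789642)]]]]]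

/-- A surrogate. -/
def root_s3 : List (List (List (List (List ℤ)))) :=
  [[[[[81635141,(-163962713),5594524,(-104082),1377,(-15)],[(-52873445),8217215,(-248310),4740,(-75)],[1883502,(-168488),4904,(-110),1],[(-28880),2027,(-69),1],[264,(-20),1],[(-2)]],[[174218592,(-2068488),118971,(-2852),14],[(-3460939),49423,(-5021),98],[27493,(-1697),116,(-1)],[(-352),46,(-1)],[8]],[[(-3131543),(-23793),1565,1],[40640,1364,(-15)],[78,(-12)],[(-4)]],[[(-150368),794,18],[4166,(-3)],[(-49)]],[[(-1062),16],[43]]],[[[24675030,(-190343082),6734172,(-124745),1776,(-16)],[(-52401507),8997154,(-277841),5475,(-72)],[1868682,(-177579),5416,(-99)],[(-28181),2149,(-59)],[254,(-16)],[(-2)]],[[111981511,(-665623),106265,(-3106),20],[(-1762483),19160,(-5335),92],[7040,(-1846),102],[(-287),42],[7]],[[(-2015267),(-3422),905],[26537,622],[97,2],[(-3)]],[[(-123387),735,5],[3309,(-9)],[(-27)]],[[(-1001),11],[27]]],[[[(-249598855),(-68268422),2683494,(-51760),717],[(-9784406),3151914,(-106494),1948],[507931,(-6232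7),1800],[(-8134),671],[66]],[[15379263,303655,34870,(-1045)],[52320,(-129),(-1743)],[(-5690),(-638)],[(-74)]],[[(-151040),5238,(-50)],[962,(-177)],[91]],[[(-29236),188],[536]],[[(-240)]]],[[[(-171888441),(-7168086),410445,(-8376)],[2938991,383089,(-15702)],[4327,(-8009)],[(-502)]],[[1826484,64395,5664],[55520,720],[(-1333)]],[[52515,724],[(-2305)]],[[(-1907)]]],[[[(-29221239),16424,25557],[817838,12011],[(-10470)]],[[154282,3936],[9257]],[[12851]]],[[[(-1961264),42232],[74782]],[[(-2616)]]],[[[(-62036)]]]],[[[[371964720,(-214681068),5849701,(-110718),2024,(-15)],[(-63640295),8219988,(-191632),3999,(-49)],[1759455,(-126212),3053,(-50)],[(-21014),1195,(-24)],[149,(-6)],[(-1)]],[[111610236,43265,9987,(-1776),23],[(-2741214),35766,(-3111),56],[38282,(-2287),59],[(-589),31],[6]],[[5594437,74548,(-2496),(-3)],[(-115946),(-3278),19],[776,19],[(-3)]],[[76378,117,(-19)],[(-2395),(-16)],[20]],[[314,(-4)],[(-12)]]],[[[(-233390648),(-172184900),4550754,(-81741),1360],[(-33945109),6393197,(-145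752),2564],[1119723,(-97273),1963],[(-13500),804],[95]],[[86275817,(-816600),33439,(-1244)],[(-2306489),71099,(-2966)],[36003,(-2585)],[(-595)]],[[4811315,42076,(-1144)],[(-103218),(-1141)],[707]],[[72323,(-63)],[(-1702)]],[[279]]],[[[(-486723465),(-36675690),985459,(-14150)],[5401143,1338988,(-29040)],[51415,(-20910)],[(-1694)]],[[15310104,(-612216),23285],[(-445188),41548],[10028]],[[1241212,(-1717)],[(-23155)]],[[18450]]],[[[(-181471606),(-1875575),99217],[4513181,113717],[(-41572)]],[[(-842759),(-113735)],[40473]],[[101028]]],[[[(-24421874),138594],[707790]],[[(-542127)]]],[[[(-1557642)]]]],[[[[689026384,(-116251980),1629474,(-880),62],[(-44583442),3194012,(-24868),23],[829924,(-33264),90],[(-7078),124],[25]],[[(-10967287),(-3290079),61250,(-90)],[(-697155),123259,(-1228)],[25863,(-1500)],[(-303)]],[[(-294717),(-33604),670],[3726,1314],[140]],[[2658,(-121)],[69]],[[34]]],[[[214411482,(-82906301),1252442,(-1570)],[(-24524920),2361710,(-20705)],[511832,(-25117)],[(-4903)]],[[(-193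32266),(-2560002),51635],[(-172747),93640],[16649]],[[(-521258),(-25481)],[9249]],[[(-2645)]]],[[[(-138112420),(-13604016),260715],[615288,436477],[46022]],[[(-11215241),(-502796)],[154284]],[[(-260820)]]],[[[(-44535615),(-600786)],[995056]],[[(-2432452)]]],[[[(-4213114)]]]],[[[[95300941,(-14546433),322227,(-1567)],[(-5835603),468034,(-5727)],[115830,(-4722)],[(-924)]],[[(-3010046),(-487809),11243],[(-38051),14489],[2293]],[[(-238694),(-3171)],[3684]],[[(-2938)]]],[[[28516670,(-8731920),190894],[(-2731215),270118],[61550]],[[(-3901813),(-267342)],[10099]],[[(-163889)]]],[[[(-14411523),(-730409)],[154524]],[[(-1365903)]]],[[[(-2544641)]]]]]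

/-- A surrogate. -/
def root_s5 : List (List (List (List (List ℤ)))) :=
  [[[[[5691917467,(-673390703),11382630,(-35793),(-289),2],[(-287820539),16894304,(-137446),(-827),20],[4283263,(-99100),(-1490),59,(-1)],[(-15565),(-1007),60,(-1)],[(-214),24,(-1)],[3]],[[(-618302530),26192727,(-321972),1453,(-3)],[19596825,(-654743),7327,(-51)],[(-231767),6733,(-94),1],[1215,(-44),1],[(-3)]],[[7737666,226750,(-5104),5],[(-70768),(-8704),99],[(-1606),128],[38,(-1)]],[[265230,(-5500),12],[(-6939),92],[66]],[[(-1663),(-23)],[27]],[[(-28)]]],[[[4173635079,(-601066727),9407649,(-18650),(-347),1],[(-243828273),15232322,(-99066),(-1416),20],[3956929,(-95231),(-1713),54],[(-18939),(-735),50],[(-121),19],[3]],[[(-570017960),22909084,(-252430),1102,(-5)],[18305383,(-554739),4871,(-37)],[(-220446),4882,(-51)],[1183,(-20)]],[[9773519,195209,(-4686),11],[(-160948),(-7323),71],[(-289),80],[19]],[[311423,(-5738),2],[(-8417),63],[61]],[[(-1409),(-22)],[7]],[[(-20)]]],[[[587527093,(-172927975),2375422,2766,(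-158)],[(-59183437),4533560,(-20022),(-721)],[1161791,(-35486),(-664)],[(-8317),(-140)],[(-5)]],[[(-165626038),6456016,(-61701),331],[5524175,(-156252),954],[(-75228),1102],[419]],[[3924099,63013,(-1104)],[(-70004),(-2156)],[(-133)]],[[112879,(-1301)],[(-2602)]],[[(-161)]]],[[[(-72936466),(-23227690),305628,1784],[(-4419821),670828,(-3255)],[134116,(-7656)],[(-1588)]],[[(-21351101),868739,(-5273)],[785516,(-17386)],[(-12327)]],[[760737,8555],[(-8478)]],[[15985]]],[[[(-21908070),(-1596292),30646],[171109,64541],[5380]],[[(-1259233),50896],[74269]],[[49609]]],[[[(-1578228),(-65333)],[47604]],[[(-79942)]]],[[[(-53731)]]]],[[[[4672940020,(-572494837),9685277,(-44609),(-274),6],[(-239916918),14161034,(-97340),(-1976),48],[3574004,(-70927),(-2693),93],[(-11911),(-1298),73],[(-213),25],[3]],[[(-381447507),819552,(-5455),1617,(-17)],[8505891,(-33545),2326,(-65)],[(-69820),943,(-67)],[227,(-22)],[(-1)]],[[(-8499684),208429,(-792),20],[222558,(-3874),24],[(-2412),12],[1]],[[53230,2559,3],[(-3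36),(-30)],[(-5)]],[[2302,6],[(-32)]],[[10]]],[[[3161119102,(-499591716),7792428,(-32644),(-216)],[(-195920614),12939497,(-103255),(-975)],[3335554,(-98313),(-1152)],[(-20191),(-481)],[(-72)]],[[(-363692112),(-3285613),94964,499],[7322242,132049,(-523)],[(-42779),(-1251)],[(-175)]],[[(-9730629),176981,610],[277445,(-1532)],[(-2163)]],[[20790,2333],[854]],[[1559]]],[[[313983599,(-143314891),1964508,(-3978)],[(-44952943),3976592,(-24843)],[981028,(-33332)],[(-7704)]],[[(-136155484),(-1694235),37577],[2937891,64098],[(-14639)]],[[(-3785462),38637],[100698]],[[(-7989)]]],[[[(-103178236),(-19875253),259553],[(-2463143),575911],[109811]],[[(-27045642),(-260977)],[604548]],[[(-671947)]]],[[[(-25157766),(-1312425)],[335078]],[[(-2761712)]]],[[[(-1842320)]]]],[[[[387529908,(-38471402),(-423311),28855,(-590)],[(-17095369),260937,46683,(-1468)],[127676,19323,(-1304)],[2589,(-477)],[(-62)]],[[(-13883540),(-2843945),29665,(-13)],[(-467011),79914,(-352)],[17159,(-633)],[(-161)]],[[(-1991457),(-45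638),359],[39125,1012],[(-82)]],[[(-53460),(-144)],[909]],[[(-381)]]],[[[274120299,(-41800905),319295,(-2343)],[(-16903262),973369,(-2923)],[280296,(-4876)],[(-1221)]],[[(-21880193),(-2301582),11205],[(-44023),44950],[7474]],[[(-2065734),(-35389)],[30140]],[[(-41157)]]],[[[11847454,(-10420950),(-112)],[(-3067010),205112],[60397]],[[(-10445220),(-628870)],[58821]],[[(-645118)]]],[[[(-8661995),(-1501788)],[(-203224)]],[[(-2222706)]]],[[[(-1956953)]]]],[[[[(-6451459),837132,(-19707),87],[344388,(-26199),272],[(-6462),200],[38]],[[405167,18829,(-516)],[(-6097),(-509)],[(-24)]],[[26645,(-180)],[(-485)]],[[293]]],[[[(-5241104),870302,(-15913)],[322877,(-20915)],[(-5018)]],[[548829,14280],[(-6111)]],[[22419]]],[[[(-322155),234566],[70352]],[[208345]]],[[[361448]]]]]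

/-- A surrogate. -/
def root_s11 : List (List (List (List (List ℤ)))) :=
  [[[[[4635357814,(-125372763),889132,646,(-15)],[(-121268661),2363139,(-9456),(-19)],[1158918,(-13124),3],[(-4018),(-10)],[(-8)]],[[(-94584961),2142136,(-11428),8],[2448125,(-40971),151],[(-25931),323,(-1)],[150,(-2)],[(-1)]],[[(-2624964),65716,(-416)],[68342,(-1240),5],[(-682),8],[3]],[[16910,(-394),2],[(-435),8],[5]],[[219,(-5)],[(-5)]],[[(-1)]]],[[[650093171,(-18383295),137602,132,(-3)],[(-17058219),345339,(-1407),(-4)],[158131,(-1735),(-2)],[(-432),(-5)],[(-3)]],[[(-7119164),129629,(-330),2],[182340,(-2475),9],[(-2094),30],[17]],[[(-397532),9770,(-60)],[10280,(-182),1],[(-102),1]],[[(-618),13],[11]],[[26]]],[[[26492757,(-818167),6724,9],[(-699537),15285,(-62)],[6071,(-58)],[(-5)]],[[33374,(-4594),60],[(-1121),65,(-1)],[(-20)]],[[(-13234),326,(-1)],[355,(-4)],[(-3)]],[[(-122),2],[3]]],[[[247826,(-9929),100],[(-6688),183,(-1)],[44]],[[6609,(-265),2],[(-179),4],[1]],[[44,(-2)],[(-1)]]]],[[[[2932307560,(-715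08217),436518,8],[(-76219500),1358819,(-5246)],[775828,(-9430),21],[(-3865),28],[9]],[[98436409,(-2463986),15744,3],[(-2562395),46915,(-181)],[25802,(-306),1],[(-118),1]],[[(-295290),5645,(-21)],[7330,(-109),(-1)],[(-82),(-1)]],[[(-24955),603,(-3)],[643,(-9)],[(-5)]],[[(-39),2],[2]],[[1]]],[[[296007573,(-7024937),40949,(-9)],[(-7681872),133817,(-508)],[79391,(-975),2],[(-421),3],[1]],[[14905295,(-368556),2288],[(-387788),6958,(-24)],[3896,(-42)],[(-17)]],[[135309,(-3461),26],[(-3481),74],[40]],[[(-1552),21],[23]],[[(-15)]]],[[[5997459,(-118671),459,(-2)],[(-154150),2331,(-3)],[1756,(-15)],[(-9)]],[[496490,(-11841),50],[(-12944),171],[105]],[[10068,(-213)],[(-223)]],[[53]]],[[[(-61956),2482,(-25)],[1672,(-46)],[(-11)]],[[(-1652),67],[45]],[[(-11)]]]],[[[[(-189764500),5225486,(-37898),(-31),1],[4970479,(-98365),389,1],[(-46939),510,(-1)],[143,(-1)]],[[17836155,(-418272),2414,(-1)],[(-462453),8064,(-13)],[4862,(-30)],[(-14)]],[[705230,(-17274),90],[(-18429),283],[163]],[[4730,(-140)],[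(-147)]],[[(-30)]]],[[[(-65735322),1698579,(-11261),(-5)],[1714624,(-31915),156],[(-16746),250],[91]],[[(-673485),19157,(-283)],[17143,(-766)],[(-384)]],[[43569,(-613)],[(-687)]],[[739]]],[[[(-3155148),80809,(-543)],[82265,(-1563)],[(-832)]],[[(-126215),3293],[3354]],[[(-1711)]]]],[[[[(-158917476),3920955,(-24299),(-3)],[4133397,(-74125),330],[(-41612),579],[232]],[[(-5844172),144051,(-1129)],[150934,(-3436)],[(-1924)]],[[(-28119),1686],[1744]],[[808]]],[[[(-12224263),301700,(-1928)],[318044,(-5886)],[(-3306)]],[[(-651989),16480],[17382]],[[(-13326)]]]],[[[[(-12334395),300297,(-1887)],[320709,(-5899)],[(-3379)]],[[(-822322),20612],[22026]],[[(-22532)]]]]]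

/-- A surrogate. -/
def root_s12 : List (List (List (List (List ℤ)))) :=
  [[[[[(-650060089),(-7910085),582971,(-5623),6],[8769134,1012910,(-26373),162],[182313,(-24384),363,(-1)],[(-4945),233,(-2)],[42,(-1)]],[[92937221,(-1438024),(-8513),176],[(-2464790),12683,508,(-3)],[22127,270,(-6)],[(-28),(-4)],[(-1)]],[[(-619791),16536,(-223),2],[22223,(-785),11],[(-430),14],[5]],[[(-52722),823,3],[1450,(-13)],[(-15)]],[[(-101),1],[2]],[[3]]],[[[(-388850129),(-3105452),312349,(-3246),6],[7135078,374093,(-11085),81],[18419,(-8462),148,(-1)],[(-1390),84,(-1)],[14]],[[30717033,(-559375),(-357),25],[(-850566),8414,47],[8589,(-12)],[(-29)]],[[73124,3075,(-121),1],[(-92),(-206),5],[(-59),4],[1]],[[(-13879),259,(-1)],[389,(-4)],[(-3)]],[[(-58),1],[1]]],[[[(-95264404),137122,52413,(-652),2],[2133419,41024,(-1788),17],[(-10937),(-1068),26],[(-85),13],[2]],[[4413253,(-95068),435,(-3)],[(-127641),1807,(-15)],[1301,(-17)],[(-6)]],[[70010,(-764),(-11)],[(-1631),6],[16]],[[(-1195),19],[23]],[[(-9)]]],[[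[(-10551882),95927,3523,(-62)],[265029,565,(-140)],[(-2445),(-50)],[12]],[[323534,(-7407),64],[(-8873),124],[58]],[[9341,(-167)],[(-243)]],[[2]]],[[[(-522801),7874,83],[14381,(-182)],[(-224)]],[[10637,(-110)],[(-85)]],[[423]]],[[[(-9312),261],[377]],[[(-8)]]]],[[[[(-285544058),(-48067863),1430852,(-10726),5],[(-8979182),2141519,(-40967),208],[464801,(-34758),439,(-2)],[(-6749),272,(-2)],[46,(-1)]],[[22814965,(-203738),(-2574),(-7)],[(-676043),11450,(-173),3],[10504,(-284),8],[(-107),6],[1]],[[1826187,(-4316),(-694),4],[(-44230),(-358),12],[370,5],[(-1)]],[[19536,(-235),(-5)],[(-512),(-1)],[4]],[[(-183),1],[3]],[[(-2)]]],[[[(-396642891),(-6738054),395332,(-3710),6],[6796823,450688,(-11836),84],[18118,(-8516),153],[(-1173),86],[13]],[[1625642,(-157658),4161,(-70)],[(-103532),7606,(-257)],[2509,(-216)],[(-43)]],[[568523,(-6834),(-33)],[(-15009),115],[138]],[[7394,(-95)],[(-189)]],[[(-8)]]],[[[(-105443848),760252,35929,(-513)],[2602514,13906,(-1359)],[(-21453),(-704)],[23]],[[(-1585879)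,8653,880],[38611,450],[(-455)]],[[53140,(-788)],[(-1031)]],[[948]]],[[[(-10880083),178222,1019],[299380,(-2838)],[(-3484)]],[[(-282501),5883],[9532]],[[(-643)]]],[[[(-476837),10517],[14611]],[[(-17760)]]],[[[(-7588)]]]],[[[[106203158,(-31239940),732318,(-4701),1],[(-11029757),1082946,(-17365),77],[266304,(-14563),167],[(-2900),106],[19]],[[(-7133300),(-758081),22482,(-180)],[(-51982),30314,(-664)],[5084,(-538)],[(-96)]],[[(-130942),(-979),206],[2816,253],[16]],[[4620,19],[(-58)]],[[88]]],[[[(-97673631),(-3225842),129300,(-1085)],[1384639,147020,(-3504)],[8491,(-2509)],[(-335)]],[[(-6185290),(-54637),4886],[129781,4700],[(-552)]],[[(-89245),71],[2623]],[[210]]],[[[(-22431430),183684,6605],[572076,920],[(-5474)]],[[(-1179875),14680],[33148]],[[(-21962)]]],[[[(-1501539),29237],[44131]],[[(-82403)]]],[[[(-31476)]]]],[[[[17344937,(-3284494),72833,(-433)],[(-1270962),107359,(-1607)],[27153,(-1361)],[(-280)]],[[(-723275),(-149106),3967],[(-21425),5377],[1018]],[[(-70321),(-2236)],[916]],[[(-1507)]]],[[[(-8088415),(-154503),7822],[150688,8067],[(-196)]],[[(-774106),(-2318)],[17008]],[[(-26019)]]],[[[(-1150491),17732],[32047]],[[(-84150)]]],[[[(-32644)]]]]]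

/-- A surrogate. -/
def root_s13 : List (List (List (List (List ℤ)))) :=
  [[[[[(-18388817),580789,185143,(-4612),22],[684922,56504,(-4834),43],[(-5594),(-721),3,1],[131,(-14),1],[(-4)]],[[1747257,226522,(-13761),226,(-1)],[(-15326),(-7259),249,(-3)],[385,10],[(-23),2]],[[103686,(-19693),503,(-5)],[(-5075),505,(-10)],[50,(-4)]],[[(-9839),365,(-5)],[294,(-9)],[(-3)]],[[65,(-2)],[(-2)]]],[[[(-28735309),3328533,80190,(-3050),14],[1531837,(-37393),(-2629),26],[(-22451),193,(-9),1],[229,(-18),1],[(-4)]],[[4554129,(-32509),(-6585),157,(-1)],[(-133305),242,134,(-2)],[2078,(-45)],[(-32),1]],[[(-47835),(-12908),402,(-3)],[(-246),376,(-7)],[13,(-3)]],[[(-8769),321,(-3)],[271,(-6)],[(-3)]],[[59,(-1)],[(-1)]]],[[[(-8061845),2034249,(-13184),(-389),3],[680790,(-46484),100,2],[(-12358),517,(-9)],[124,(-8)],[(-1)]],[[2356412,(-105034),453,27],[(-82644),2819,11],[1354,(-26)],[(-13)]],[[(-80998),(-1638),87],[1789,78],[(-3)]],[[(-2501),76],[71]],[[13]]],[[[1509458,286602,(-4509),(-1)],[34516,(-8234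),151],[(-1276),159],[26]],[[275211,(-18499),135],[(-11778),477],[251]],[[(-18209),(-105)],[290]],[[(-317)]]],[[[369714,15186,(-617)],[(-5829),(-813)],[11]],[[9725,(-1357)],[(-1186)]],[[(-1272)]]],[[[22169,348],[(-929)]],[[854]]],[[[669]]]],[[[[(-39034984),3881387,50590,(-2887),27],[2104705,(-88732),(-1376),37],[(-39835),1290,(-15)],[469,(-24)],[(-5)]],[[1961667,289671,(-8185),65],[(-2766),(-7891),166,(-1)],[(-237),66,(-1)],[(-6)]],[[211284,(-5459),20,1],[(-5950),136],[77,(-1)]],[[(-115),(-57),1],[(-8),1]],[[(-35),1],[1]]],[[[(-46192904),6592483,(-48927),(-1639),19],[2880493,(-185971),955,24],[(-57523),2534,(-17)],[636,(-21)],[(-4)]],[[4517704,190606,(-7310),48],[(-85493),(-6112),131],[751,54],[(-5)]],[[213399,(-5988),12],[(-6714),108],[68]],[[(-232),(-42)],[(-12)]],[[(-23)]]],[[[(-10744075),3041261,(-54692),(-80)],[1020192,(-96123),1044],[(-23005),1148],[236]],[[2688813,20511,(-1951)],[(-68782),(-1294)],[566]],[[75280,(-1904)],[(-2328)]],[[3]]],[[[2250978,394997,(-9619)],[34792,(-1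3666)],[(-2142)]],[[563130,(-1428)],[(-15066)]],[[12239]]],[[[546093,19111],[(-10176)]],[[54918]]],[[[35841]]]],[[[[(-3257839),298336,7458,(-327),2],[181531,(-7206),(-136),4],[(-3748),166,(-1)],[57,(-2)]],[[8393,43961,(-890),(-1)],[7558,(-1282),11],[(-158),9],[1]],[[26663,353,(-17)],[(-707),(-11)],[4]],[[747,(-9)],[(-15)]],[[4]]],[[[(-3924545),556404,(-3318),(-178)],[251481,(-16984),10],[(-5361),177],[49]],[[248024,38237,(-720)],[155,(-958)],[(-92)]],[[32536,142],[(-630)]],[[564]]],[[[(-801285),248784,(-3983)],[81196,(-7351)],[(-1819)]],[[204944,8394],[(-2744)]],[[11061]]],[[[244613,22983],[(-187)]],[[44045]]],[[[36553]]]],[[[[201608,(-26160),616,(-3)],[(-10762),819,(-8)],[202,(-6)],[(-1)]],[[(-12661),(-588),16],[191,16],[1]],[[(-833),6],[15]],[[(-9)]]],[[[163785,(-27197),497],[(-10090),654],[157]],[[(-17151),(-446)],[191]],[[(-701)]]],[[[10067,(-7330)],[(-2198)]],[[(-6511)]]],[[[(-11295)]]]]]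

/-- A surrogate. -/
def root_s14 : List (List (List (List (List ℤ)))) :=
  [[[[[(-17239517),544496,173564,(-4324),20],[642108,52963,(-4531),40],[(-5245),(-675),2,1],[123,(-14),1],[(-3)]],[[1408210,219622,(-10576),154,(-1)],[(-5823),(-6080),171,(-2)],[296,(-2)],[(-21),1]],[[119060,(-15641),303,(-1)],[(-4936),385,(-6)],[51,(-3)]],[[(-7950),100,2],[217,(-2)],[(-2)]],[[(-62),3],[2]],[[1]]],[[[(-26939269),3120520,75175,(-2859),14],[1436070,(-35062),(-2467),25],[(-21050),178,(-8),1],[214,(-17),1],[(-4)]],[[3910398,11060,(-5150),108,(-1)],[(-105815),(-216),96,(-1)],[1668,(-34)],[(-26),1]],[[11924,(-12489),287,(-1)],[(-1857),351,(-4)],[41,(-3)]],[[(-8840),133,1],[243,(-1)],[(-2)]],[[(-55),2],[2]],[[1]]],[[[(-7557891),1907105,(-12328),(-365),3],[638268,(-43536),92,2],[(-11580),483,(-8)],[115,(-7)],[(-1)]],[[2108220,(-73046),205,20],[(-68884),1976,17],[1098,(-13)],[(-9)]],[[(-46604),(-2832),75],[568,96],[15]],[[(-3276),42],[73]],[[(-16)]]],[[[1414919,268616,(-4206)],[32426,(-7689),142],[(-1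190),150],[24]],[[276560,(-13589),22],[(-10638),278],[209]],[[(-13235),(-321)],[54]],[[(-439)]]],[[[346322,14187,(-582)],[(-5447),(-766)],[10]],[[13890,(-983)],[(-1240)]],[[(-770)]]],[[[20697,328],[(-876)]],[[1292]]],[[[631]]]],[[[[(-36595258),3638838,47433,(-2706),25],[1973162,(-83186),(-1292),35],[(-37348),1207,(-14)],[439,(-23)],[(-5)]],[[1351228,320061,(-7034),24],[23740,(-8493),143],[(-718),85,(-1)],[2]],[[222504,(-1532),(-95),1],[(-5618),19,2],[72]],[[2503,(-130),1],[(-96),2],[1]],[[(-32)]]],[[[(-43305749),6180463,(-45836),(-1536),18],[2700531,(-174293),899,22],[(-53916),2379,(-16)],[597,(-20)],[(-4)]],[[3657682,260996,(-7553),24],[(-44137),(-8186),128],[(-37),77],[2]],[[256402,(-3195),(-74)],[(-7480),24],[69]],[[2592,(-99)],[(-86)]],[[(-18)]]],[[[(-10072898),2850994,(-51305),(-75)],[956418,(-90142),985],[(-21564),1083],[222]],[[2385958,57519,(-2474)],[(-51887),(-2369)],[248]],[[104983,(-1433)],[(-2942)]],[[948]]],[[[2110045,370277,(-9067)],[32479,(-12880)],[(-2018)]],[[556949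,3637],[(-13664)]],[[18458]]],[[[512272,18008],[(-9601)]],[[58665]]],[[[33796]]]],[[[[(-3054278),279639,6998,(-307),2],[170188,(-6744),(-128),3],[(-3511),156,(-1)],[53,(-2)]],[[(-32944),45004,(-760),(-4)],[9372,(-1327),9],[(-204),10],[1]],[[25185,920,(-24)],[(-583),(-23)],[3]],[[1087,(-5)],[(-21)]],[[11]]],[[[(-3679460),521623,(-3131),(-168)],[235764,(-15954),10],[(-5033),167],[46]],[[183616,42926,(-684)],[3254,(-1053)],[(-138)]],[[33886,546],[(-572)]],[[852]]],[[[(-751008),233417,(-3756)],[76109,(-6930)],[(-1715)]],[[182589,10703],[(-1604)]],[[12485]]],[[[229852,21664],[(-183)]],[[44029]]],[[[34474]]]],[[[[189032,(-24511),578,(-3)],[(-10085),769,(-8)],[190,(-6)],[(-1)]],[[(-9356),(-916),21],[34,23],[3]],[[(-973)],[16]],[[(-17)]]],[[[153557,(-25521),469],[(-9464),616],[148]],[[(-14124),(-710)],[70]],[[(-832)]]],[[[9348,(-6909)],[(-2071)]],[[(-5902)]]],[[[(-10653)]]]]]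

/-- A surrogate. -/
def root_s15 : List (List (List (List (List ℤ)))) :=
  [[[[[(-1401156164),(-103644203),3166941,(-17069),(-91),1],[10416040,2313480,(-28007),(-160),2],[(-116583),3356,(-408),4],[6764,(-381),6],[(-97),3],[1]],[[(-470260),6298629,(-161414),1100],[96326,(-108309),1693,(-5)],[20000,(-375),9],[(-550),17],[5]],[[6924821,(-247802),3062,(-15)],[(-166507),4352,(-37)],[1084,(-14)],[4]],[[(-94737),2680,(-24)],[2296,(-48)],[(-18)]],[[331,(-9)],[(-8)]]],[[[(-1898676466),4007938,631303,(-1759),(-56)],[39499381,104054,(-3478),(-117),1],[(-371694),4350,(-166),2],[3632,(-138),2],[(-40),1]],[[93863874,(-692224),(-30446),364,(-1)],[(-2545083),15693,444,(-4)],[31851,(-287)],[(-243),3],[1]],[[2163947,(-74329),924,(-4)],[(-56823),1518,(-14)],[519,(-11)],[(-2)]],[[(-35513),986,(-7)],[949,(-17)],[(-8)]],[[119,(-2)],[(-2)]]],[[[(-399008529),4413651,35937,236,(-8)],[9131164,(-59492),347,(-18)],[(-90828),1287,(-26)],[844,(-26)],[(-9)]],[[22020968,(-383446),(-1833),51],[(-613798),7013,64],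[6653,(-30)],[(-30)]],[[341492,(-10550),119],[(-9379),248],[113]],[[(-4573),103],[106]],[[8]]],[[[(-33098645),457178,(-513),28],[795110,(-8890),101],[(-9393),233],[131]],[[1951659,(-38846),(-99)],[(-53329),451],[412]],[[28949,(-850)],[(-860)]],[[(-204)]]],[[[(-1155321),16474,(-199)],[29739,(-869)],[(-717)]],[[76604,(-1131)],[(-1520)]],[[1213]]],[[[(-9151),370],[672]],[[869]]],[[[209]]]],[[[[(-3157805742),(-31780427),2339153,(-19488),14],[73064241,557525,(-23786),88],[(-912827),12311,(-187),1],[9999,(-306),3],[(-88),2]],[[(-137939621),4530728,(-51003),238],[3248850,(-77531),657,(-2)],[(-20977),302,(-1)],[(-47),2],[1]],[[2226876,(-37166),(-141),3],[(-54838),682,2],[522,(-4)],[(-2)]],[[27999,(-904),8],[(-697),15],[5]],[[(-248),5],[4]]],[[[(-3139347617),51016265,239893,(-5939),16],[83931842,(-1060989),(-2581),60],[(-951796),12035,(-39)],[6596,(-105)],[(-34)]],[[(-50268221),1477808,(-15935),67],[1276070,(-31162),291],[(-12680),299],[77]],[[1163788,(-25280),26],[(-31640),375],[266]],[[103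46,(-298)],[(-274)]],[[(-67)]]],[[[(-632924769),13247696,(-26058),(-820)],[17626762,(-282782),268],[(-204131),2768],[1395]],[[(-9659308),266853,(-2736)],[270237,(-7455)],[(-3954)]],[[147232,(-2315)],[(-3034)]],[[1536]]],[[[(-52961506),1214823,(-5105)],[1520010,(-28464)],[(-19283)]],[[(-962256),29889],[33009]],[[3242]]],[[[(-2022933),51213],[62686]],[[(-49516)]]],[[[(-30003)]]]],[[[[(-637717945),(-5845220),467128,(-4311),7],[15814209,75686,(-4941),28],[(-208226),3046,(-30)],[2311,(-59)],[(-17)]],[[(-48488034),871594,670,(-72)],[1174705,(-17396),(-11)],[(-11699),131],[47]],[[(-588025),17880,(-144)],[15104,(-318)],[(-123)]],[[3904,(-19)],[(-48)]],[[51]]],[[[(-602776835),11094713,23086,(-1258)],[16935606,(-248779),(-460)],[(-201790),2471],[1314]],[[(-26334338),613965,(-2583)],[727979,(-13198)],[(-8145)]],[[(-254019),7737],[7756]],[[942]]],[[[(-96913461),2189603,(-6235)],[2825530,(-49057)],[(-34109)]],[[(-3930733),99988],[116723]],[[(-45816)]]],[[[(-5680361),140516],[173987]],[[(-238169)]]],[[[(-117081)]]]],[[[[(-17149670),(-826011),30435,(-245)],[477291,11186,(-324)],[(-9197),104],[105]],[[(-3167726),32347,816],[81134,(-420)],[(-684)]],[[(-109767),1775],[2282]],[[(-1209)]]],[[[(-21048172),388114,2021],[673960,(-9016)],[(-8162)]],[[(-1784341),36375],[47773]],[[(-45045)]]],[[[(-2663432),61618],[84693]],[[(-177569)]]],[[[(-91071)]]]],[[[[2010141,(-49561),258],[(-48381),712],[361]],[[108550,(-2256)],[(-2203)]],[[1850]]],[[[1090210,(-26631)],[(-26004)]],[[58211]]],[[[43246]]]]]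

/-- A root. -/
def root : Root where
  cl := true
  box := fun i => match i with
    | 0 => ⟨13, 97, 200, 400⟩
    | 1 => ⟨93, 191, 100, 200⟩
    | 2 => ⟨7, 14287, 50, 100000⟩
    | _ => ⟨3, 310001, 10, 1000000⟩
  De := 400
  e0 := 42
  e1 := 194
  p := fun i => match i with
    | 0 => 11
    | 1 => 80
    | 2 => 697
    | 3 => 200
    | _ => 5
  q := fun i => match i with
    | 0 => 2
    | 1 => 75
    | 2 => 99
    | 3 => 61
    | _ => 1
  den := 17179869184
  sur := fun k => match k with
    | 0 => root_s0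
    | 1 => root_s1
    | 3 => root_s3
    | 5 => root_s5
    | 11 => root_s11
    | 12 => root_s12
    | 13 => root_s13
    | 14 => root_s14
    | 15 => root_s15
    | _ => []
  eps := fun k => match k with
    | 0 => 280129
    | 1 => 797267
    | 3 => 270605
    | 5 => 250299
    | 11 => 1645
    | 12 => 8729
    | 13 => 4569
    | 14 => 4835
    | 15 => 14112
    | _ => 0

/-- A leaf. -/
def leaf0 : Leaf :=
  ⟨⟨93, 191, 100, 200⟩, ⟨7, 14287, 50, 100000⟩, ⟨3, 310001, 10, 1000000⟩,
    16384, (5450, -30445, -23047, 9233), (114, -50677, -24106, 23143), 16384, (29570, 56938, 68539, -54737), (-4418, -387, -18086, 5514), (13316, 63230, 82788, -40540), (-1665, 16091, 16549, -6564),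
    true, 0, 1, 4096, (-263), 3877, 4038, (-4067), 2339⟩

/-- A tile. -/
def tile0 : Tile :=
  ⟨⟨93, 191, 100, 200⟩, ⟨7, 14287, 50, 100000⟩, ⟨3, 310001, 10, 1000000⟩, 16384, (5450, -30445, -23047, 9233), (114, -50677, -24106, 23143), 6923,
    (1024, 0), (8, 1024), 0, 4, (leaf0, ⟨(1024, 46), (1024, 415)⟩),
    []⟩

/-- The subdivision. -/
def tree : Tree :=
  (.tile tile0)

def tree_ok : tree.ok pieceCor 448 ⟨93, 191, 100, 200⟩ ⟨7, 14287, 50, 100000⟩ ⟨3, 310001, 10, 1000000⟩ = true := by
  decide +kernel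

def root_ok0 : root.okEnt 576 0 = true := by decide +kernel

def root_ok1 : root.okEnt 576 1 = true := by decide +kernel

def root_ok3 : root.okEnt 576 3 = true := by decide +kernel

def root_ok5 : root.okEnt 576 5 = true := by decide +kernel

def root_ok11 : root.okEnt 576 11 = true := by decide +kernel

def root_ok12 : root.okEnt 576 12 = true := by decide +kernel

def root_ok13 : root.okEnt 576 13 = true := by decide +kernel

def root_ok14 : root.okEnt 576 14 = true := by decide +kernel

def root_ok15 : root.okEnt 576 15 = true := by decide +kernel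

def leaf0_ok : leaf0.okLeaf root 640 = true := by decide +kernel

theorem leaves_eq : tree.leaves =
    [leaf0] := rfl

theorem leaves_ok : ∀ F ∈ tree.leaves, Leaf.okLeaf F root 640 = true := by
  rw [leaves_eq]
  exact all'_cons leaf0_ok ((fun F hF => absurd hF List.not_mem_nil))

theorem root_ok : ∀ k ∈ [0, 1, 3, 5, 11, 12, 13, 14, 15], root.okEnt 576 k = true := by
  intro k hk
  simp only [List.mem_cons, List.not_mem_nil, or_false] at hk
  rcases hk with rfl | rfl | rfl | rfl | rfl | rfl | rfl | rfl | rfl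
  · exact root_ok0
  · exact root_ok1
  · exact root_ok3
  · exact root_ok5
  · exact root_ok11
  · exact root_ok12
  · exact root_ok13
  · exact root_ok14
  · exact root_ok15

theorem used_ok : ∀ F ∈ tree.leaves, ∀ k ∈ Leaf.used F, root.okEnt 576 k = true := by
  intro F hF k hk
  refine root_ok k ?_
  rw [leaves_eq] at hF
  have h : ([leaf0]).all (fun G => G.used.all fun j => [0, 1, 3, 5, 11, 12, 13, 14, 15].any (Nat.beq j)) = true := by
    decide +kernel
  simp only [List.all_eq_true, List.any_eq_true] at h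
  obtain ⟨j, hj, e⟩ := h F hF k hk
  exact Nat.eq_of_beq_eq_true e ▸ hj

/-- **The signs on the box.** -/
theorem signs {a I u X η : ℝ} (hf : Facts pieceCor a I u X η) (hu : In1 ⟨93, 191, 100, 200⟩ u)
    (hI : In1 ⟨7, 14287, 50, 100000⟩ I) (ha : In1 ⟨3, 310001, 10, 1000000⟩ a) :
    ClosedGen.SignsMult a (rd (mk4 X u I a)) (rv (mk4 X u I a)) (rg (mk4 X u I a) η)
      (rW (mk4 X u I a) η) (rW1 (mk4 X u I a) η) (rR (mk4 X u I a))
      (rNum true (mk4 X u I a) η) :=
  Tree.signs (T := tree) (R := root) tree_ok leaves_ok used_ok hf hu hI ha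

end Vale.Agent.P100.Calib.MidTail.BoxIV1U2
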