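import Vale.Agent.P100.Calib.SlabMidTailPieces

/-!
# The signs on a box of the middle tail

`u, I, a` lie in the box of `root`; the surrogates and leaves are checked by the kernel.
-/

namespace Vale.Agent.P100.Calib.MidTail.BoxIV1U3

open Pack EndAll Band

/-- A surrogate. -/
def root_s0 : List (List (List (List (List ℤ)))) :=
  [[[[[3651425729,(-755686744),18172543,(-228550),2139,(-9)],[(-255521565),21923976,(-378608),3078,13],[4566135,(-203942),814,80,(-2)],[(-26969),(-129),74,(-2)],[(-94),22,(-1)],[2]],[[(-319031278),16781436,(-255893),2383,10],[6674253,(-313902),5656,(-23)],[23757,1086,(-26),1],[(-1843),38,1],[27]],[[7596891,386062,(-7942),45],[(-89730),(-11893),178,(-1)],[(-380),141,(-2)],[11,(-1)]],[[321558,(-3138),(-68)],[(-7297),(-23),1],[40,1]],[[495,(-99)],[(-41),1]],[[(-44)],[1]]],[[[1432446535,(-622511680),12940315,(-150082),1463,(-3)],[(-176958454),17231755,(-242269),1508,23],[3436887,(-152948),242,67],[(-21160),164,49],[(-17),11],[1]],[[(-249935931),11742643,(-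127003),784,17],[3988411,(-108223),(-253),23],[71742,(-3999),52],[(-2585),71],[26]],[[11303162,339329,(-6953),39],[(-216873),(-9178),105],[1269,65],[(-6)]],[[423479,(-4187),(-56)],[(-10315),(-19)],[52]],[[1255,(-77)],[(-56)]],[[(-28)]]],[[[(-636132313),(-158960779),2238735,(-19762),208],[(-23037154),4058797,(-32756),(-10)],[652379,(-37976),(-25)],[(-4791),187],[21]],[[(-46617950),1696116,16893,(-334)],[52786,55513,(-2012)],[39368,(-2648)],[(-886)]],[[5293672,100154,(-1299)],[(-99416),(-2258)],[290]],[[169811,(-758)],[(-3302)]],[[746]]],[[[(-296119822),(-21048343),175011,(-946)],[2276208,543354,(-3946)],[15552,(-7327)],[(-498)]],[[(-953385),(-41261),12276],[(-108885),22467],[5325]],[[1130169,12028],[(-12772)]],[[26055]]],[[[(-44542767),(-1446523),15435],[948711,50761],[(-10606)]],[[475387,(-35274)],[12467]],[[78606]]],[[[(-2854323),(-44544)],[108977]],[[(-30820)]]],[[[(-86752)]]]],[[[[3476943512,(-669906271),11241883,(-35608),(-1266),17],[(-244553064),18462225,(-154749),(-3151)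,88],[4568371,(-162694),(-1941),132],[(-33815),(-64),80],[60,20],[2]],[[(-328940425),(-10255734),285204,(-2395),6],[4558559,355552,(-6749),(-3)],[16045,(-5415),4],[(-817),13],[4]],[[(-10817319),222333,1103,28],[282721,(-2997),20],[(-2955),9],[3]],[[3795,5779,7],[1679,(-64)],[(-17)]],[[2726,32],[(-32)]],[[21]]],[[[1570092133,(-619094004),9891370,(-48805),(-903)],[(-190039471),17635439,(-190874),(-1400)],[4088385,(-195073),(-102)],[(-38352),589],[135]],[[(-371813322),(-13936826),371936,(-2494)],[4911209,530249,(-7565)],[34440,(-6459)],[(-1053)]],[[(-12982947),154172,2864],[358527,819],[(-2239)]],[[(-47160),4311],[2658]],[[1640]]],[[[(-562872462),(-193531646),2902512,(-20013)],[(-33880572),5697959,(-59884)],[1072849,(-60637)],[(-11088)]],[[(-176079141),(-4962891),104776],[3130368,171562],[2428]],[[(-5665926),24275],[133359]],[[(-34233)]]],[[[(-354979070),(-28322464),359568],[2351779,785230],[89159]],[[(-42113484),(-699126)],[786468]],[[(-1082566)]]],[[[(-61170618),(-1872505)],[10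31444]],[[(-4633933)]]],[[[(-3838064)]]]],[[[[267113195,(-42062656),(-960212),37085,(-859)],[(-16415024),282615,59301,(-1944)],[178333,17417,(-1563)],[1079,(-480)],[(-50)]],[[(-13617230),(-4144934),20823,(-12)],[(-737324),112845,(-308)],[24181,(-908)],[(-217)]],[[(-2118070),(-100607),451],[33255,1971],[75]],[[(-67118),(-707)],[1012]],[[(-593)]]],[[[135740091,(-49988540),(-48260),(-3603)],[(-15896394),1111989,(-3494)],[316971,(-9569)],[(-2497)]],[[(-27507548),(-3805792),8463],[(-246935),70839],[12971]],[[(-2490395),(-72653)],[27010]],[[(-51134)]]],[[[(-53085415),(-15113321),(-106315)],[(-2400617),228107],[56238]],[[(-16222523),(-1056796)],[38929]],[[(-831515)]]],[[[(-26146561),(-2390179)],[(-78675)]],[[(-3523429)]]],[[[(-4114687)]]]],[[[[(-3797875),749406,(-18512),79],[262948,(-23784),242],[(-5392),174],[32]],[[370680,19863,(-493)],[(-4695),(-506)],[(-39)]],[[21999,(-35)],[(-348)]],[[260]]],[[[(-2113557),776082,(-14307)],[233524,(-18244)],[(-4052)]],[[513142,14963],[(-4301)]],[[17744]]],[[[802482,205910],[45701]],[[190882]]],[[[462843]]]]]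

/-- A surrogate. -/
def root_s1 : List (List (List (List (List ℤ)))) :=
  [[[[[19398708403,(-482373686),1498971,72912,(-1455),21],[(-611505220),12353294,15681,(-3721),100,(-1)],[7960843,(-111636),(-2557),154,(-2)],[(-51385),(-330),101,(-3)],[53,30,(-2)],[4]],[[(-803122589),22074115,(-200639),1224,12],[26289842,(-715106),9839,(-58),(-1)],[(-383792),12719,(-199)],[3819,(-158),1],[(-33),1]],[[(-4959665),60040,(-112),(-39)],[160189,(-2632),(-47),1],[(-2974),22,1],[32]],[[34079,553,(-2)],[(-250),(-14)],[(-3)]],[[(-174)],[3]]],[[[26558084404,(-670118305),2663956,87657,(-2184),20],[(-832739190),17057614,(-10723),(-4731),90],[10709579,(-167441),(-2312),126],[(-71074),250,75],[183,20],[2]],[[(-1146018033),29227379,(-198772),775,9],[36358777,(-797384),7467,(-36)],[(-477108),11005,(-119)],[3754,(-93)],[(-19)]],[[(-3506),(-90654),(-248),(-11)],[(-42202),827,(-9)],[91,3],[7]],[[38904,635,(-1)],[(-256),(-10)],[(-2)]],[[(-189)],[2]]],[[[12958882578,(-336965482),1904336,33141,(-841)],[(-404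321678),8846926,(-34451),(-1587)],[5231544,(-102683),(-476)],[(-38815),321],[106]],[[(-569386919),13592759,(-72154),220],[17611751,(-338011),2146],[(-217690),3469],[1272]],[[1150265,(-64549),(-38)],[(-57810),841],[481]],[[13529,172],[(-78)]],[[(-44)]]],[[[2820597035,(-77704676),664631,3634],[(-87632087),2249163,(-14329)],[1214971,(-26251)],[(-9088)]],[[(-125497759),2822187,(-13076)],[3736689,(-60918)],[(-39526)]],[[321567,(-10441)],[(-9974)]],[[1267]]],[[[309942001,(-9550156),100271],[(-9957121),292930],[151890]],[[(-14085854),281813],[369753]],[[25198]]],[[[17940040,(-679770)],[(-693578)]],[[(-779072)]]],[[[653715]]]],[[[[18099111124,(-475365005),1180745,83891,(-2096),23],[(-587260222),10737844,104530,(-6726),121],[7378447,(-42831),(-5909),193],[(-39050),(-1554),129],[(-69),37],[4]],[[(-18181285),12282562,(-296122),2886,6],[5441587,(-466497),8730,(-23)],[(-140740),7221,(-59)],[1592,(-38)],[(-7)]],[[49633,(-56921),170,13],[(-48479),1725,15],[1278,(-11)],[(-12)]],[[(-7481),(-35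3),1],[(-65),5],[2]],[[142],[(-2)]]],[[[24231457789,(-608115707),2041009,65516,(-1680)],[(-773546435),14486533,18763,(-4249)],[9803692,(-129849),(-2936)],[(-65191),(-359)],[83]],[[40983849,7569223,(-135358),1127],[2839284,(-236353),2893],[(-70335),2327],[494]],[[(-2232553),86,150],[32142,373],[168]],[[(-9743),(-252)],[(-7)]],[[93]]],[[[11608895456,(-280849521),1269553,13673],[(-363129849),6952980,(-12929)],[4632132,(-60209)],[(-26780)]],[[28742620,1932596,(-19075)],[421790,(-37122)],[(-8327)]],[[(-1218014),11147],[21288]],[[(-3771)]]],[[[2484770289,(-57699649),259294],[(-75999039),1324061],[874430]],[[8601842,93204],[(-135972)]],[[(-164118)]]],[[[274831081,(-5920417)],[(-7816144)]],[[1455744]]],[[[15985731]]]],[[[[1542202765,(-69342126),(-1910755),92226,(-1416)],[(-71758122),355675,126560,(-3500)],[872965,35071,(-2850)],[(-1790),(-878)],[(-86)]],[[72218565,(-2661204),66933,(-546)],[(-2410480),113404,(-1881)],[44061,(-1662)],[(-398)]],[[204289,16021,(-35)],[5989,(-316)],[(-177)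]],[[(-3501),49],[62]],[[(-27)]]],[[[2103765529,(-112603492),125963,25140],[(-100659779),2581162,23208],[1520968,(-10290)],[(-7343)]],[[79919818,(-1984515),29480],[(-2355862),57764],[26308]],[[509332,8279],[(-1607)]],[[(-1759)]]],[[[945410448,(-47442063),177176],[(-42828777),982953],[534121]],[[31828404,(-630499)],[(-776925)]],[[213627]]],[[[180336813,(-7323247)],[(-6609457)]],[[4285011]]],[[[14483592]]]],[[[[(-228765752),(-4598628),23676,5],[1388074,118436,(-215)],[23070,(-710)],[(-199)]],[[(-2330809),(-154640),453],[(-29967),2542],[840]],[[70450,(-1091)],[(-1310)]],[[885]]],[[[(-263707755),(-5482494),18986],[1785144,94955],[15564]],[[(-3598391),(-124761)],[(-4219)]],[[36868]]],[[[(-95062250),(-1770457)],[698400]],[[(-1658695)]]],[[[(-10831075)]]]],[[[[(-23395466)],[462782],[(-2318)]],[[(-1079702)],[13824]],[[(-12155)]]],[[[(-25735703)],[358971]],[[(-841576)]]],[[[(-7452409)]]]]]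

/-- A surrogate. -/
def root_s3 : List (List (List (List (List ℤ)))) :=
  [[[[[503910454,(-223501078),8333512,(-155984),1855,(-18)],[(-75142981),11248879,(-369093),6944,(-103),1],[2519727,(-237492),7346,(-159),1],[(-39664),2984,(-102),1],[383,(-30),1],[(-3)]],[[134608716,(-2027903),146156,(-3193),13],[(-2446794),46906,(-5644),105],[15270,(-1684),123,(-1)],[(-270),46,(-1)],[8]],[[(-4644190),(-19169),1797,4],[84194,1488,(-17)],[(-461),(-13)],[1]],[[(-126306),730,17],[3646,(-4)],[(-45)]],[[(-682),11],[28]]],[[[101012133,(-273905863),10811513,(-207352),2733,(-20)],[(-71056624),13246624,(-451163),8810,(-96)],[2607460,(-272323),8772,(-138)],[(-41467),3397,(-85)],[394,(-24)],[(-2)]],[[87662885,(-196861),135849,(-3788),19],[(-884691),6024,(-6291),97],[(-7582),(-1785),105],[(-181),39],[6]],[[(-3505652),2487,1092,2],[68390,634,(-1)],[(-378),2],[1]],[[(-114055),752,7],[3174,(-7)],[(-27)]],[[(-697),8],[19]]],[[[(-533352167),(-105041372),4740979,(-96250),1150],[(-9503856),5096450,(-19188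8),3265],[726106,(-105906),3031],[(-12993),1100],[108]],[[15585191,661994,46667,(-1343)],[287461,(-9811),(-2053)],[(-11990),(-527)],[(-22)]],[[(-600011),8580,(-20)],[12387,(-227)],[(-24)]],[[(-32098),218],[651]],[[(-190)]]],[[[(-336917776),(-12020804),826936,(-16926)],[6643292,697447,(-30665)],[(-14103),(-14722)],[(-889)]],[[3799373,140931,7357],[80560,(-1787)],[(-2407)]],[[21169,1565],[(-1712)]],[[(-2863)]]],[[[(-62970525),192033,57137],[1869449,22906],[(-22139)]],[[581463,9108],[7855]],[[18383]]],[[[(-4827913),109451],[177761]],[[29883]]],[[[(-162446)]]]],[[[[321166173,(-204060652),6118105,(-130303),2394,(-17)],[(-58293027),8301416,(-217062),4771,(-54)],[1707690,(-136693),3615,(-56)],[(-21636),1368,(-27)],[160,(-7)],[(-1)]],[[136290929,1049020,(-12764),(-1706),20],[(-3041824),(-5951),(-2507),51],[34661,(-1589),49],[(-487),24],[4]],[[4823773,58855,(-2117),(-3)],[(-105661),(-2768),22],[804,22],[(-2)]],[[49728,31,(-12)],[(-1646),(-9)],[14]],[[167,(-2)],[(-6)]]],[[[(-484165990),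(-178913124),5145067,(-102089),1613],[(-27212058),7001668,(-176476),3067],[1097685,(-113453),2301],[(-14460),892],[96]],[[116921951,(-120600),17072,(-1171)],[(-2839519),43618,(-2314)],[37048,(-1843)],[(-472)]],[[4567463,33845,(-1158)],[(-102962),(-1268)],[663]],[[51765,(-60)],[(-1205)]],[[148]]],[[[(-788836497),(-44503311),1318708,(-19523)],[12233487,1735746,(-37695)],[5916,(-25815)],[(-1735)]],[[27112738,(-565416),18443],[(-690037),34608],[11056]],[[1389233,(-423)],[(-26792)]],[[14977]]],[[[(-320902610),(-2535818),147929],[8192569,163565],[(-69861)]],[[166990,(-134125)],[11612]],[[148141]]],[[[(-51040077),278529],[1365466]],[[(-692116)]]],[[[(-3686629)]]]],[[[[449398558,(-109609595),1535048,411,56],[(-37294618),3069654,(-22964),(-5)],[745938,(-32452),53],[(-6586),104],[21]],[[(-11910025),(-2469255),45908,(-23)],[(-402955),94343,(-818)],[18003,(-1056)],[(-207)]],[[(-157586),(-21012),351],[2877,733],[70]],[[1672,(-65)],[19]],[[15]]],[[[(-17053856),(-83444744),1285395,(-421)],[(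-18877575),2433263,(-18165)],[464600,(-23369)],[(-4311)]],[[(-21201656),(-2061541),37603],[30748,69749],[11074]],[[(-367055),(-15493)],[5997]],[[(-852)]]],[[[(-239280760),(-15949701),293461],[2648748,491404],[38730]],[[(-12750175),(-443476)],[174211]],[[(-191075)]]],[[[(-73613671),(-781836)],[1524435]],[[(-2799022)]]],[[[(-7379011)]]]],[[[[51922818,(-11666193),269470,(-1255)],[(-4066629),380992,(-4545)],[86844,(-3684)],[(-690)]],[[(-3147702),(-292667),6929],[11682,8641],[1135]],[[(-139777),(-1279)],[2156]],[[(-1199)]]],[[[(-723013),(-7126213),157475],[(-1643734),216659],[44824]],[[(-3701307),(-158307)],[28176]],[[(-94517)]]],[[[(-19585334),(-634888)],[253221]],[[(-1181209)]]],[[[(-3206565)]]]]]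

/-- A surrogate. -/
def root_s5 : List (List (List (List (List ℤ)))) :=
  [[[[[4647361190,(-741060254),12568683,(-27901),(-407),2],[(-284863766),18670302,(-133792),(-1314),25],[4549511,(-102606),(-2143),76,(-1)],[(-16816),(-1286),76,(-1)],[(-247),29,(-1)],[4]],[[(-579857682),31240147,(-392986),1342],[20376988,(-797711),8191,(-41)],[(-266379),8111,(-91),1],[1623,(-49),1],[(-5)]],[[11675540,132361,(-4794),(-1)],[(-195520),(-6529),94],[(-16),111],[27,(-1)]],[[197420,(-5023)],[(-5495),91],[61]],[[(-1510),(-21)],[29]],[[(-17)]]],[[[3082140408,(-714827861),11219694,(-6592),(-574),1],[(-250653449),18216237,(-93728),(-2504),26],[4449489,(-106332),(-2874),70],[(-21381),(-1114),64],[(-165),23],[3]],[[(-544067405),30214640,(-363749),1293,(-3)],[19706662,(-766413),6844,(-32)],[(-267816),7242,(-56)],[1753,(-28)],[(-3)]],[[14963183,110723,(-5135),7],[(-308014),(-6063),74],[1325,76],[13]],[[243009,(-5729),(-4)],[(-7068),65],[55]],[[(-1520),(-18)],[14]],[[(-12)]]],[[[70536727,(-233638348),3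238795,11351,(-261)],[(-63412329),6160240,(-17740),(-1207)],[1413765,(-45924),(-1115)],[(-10095),(-257)],[(-18)]],[[(-159439327),9834831,(-111392),446],[6229239,(-251960),1681],[(-97666),1971],[620]],[[6572654,34006,(-1428)],[(-140498),(-1978)],[464]],[[97518,(-1567)],[(-2433)]],[[(-323)]]],[[[(-237301426),(-36255768),482424,4359],[(-3882589),1072177,(-3176)],[175751,(-11130)],[(-2124)]],[[(-18066822),1465515,(-12621)],[897901,(-33056)],[(-16484)]],[[1353901,5283],[(-22208)]],[[16159]]],[[[(-49133634),(-3049815),56398],[583325,119602],[7397]],[[(-657751),97169],[87707]],[[111908]]],[[[(-3821986),(-154544)],[107958]],[[(-66686)]]],[[[(-148053)]]]],[[[[3674309171,(-668137158),11441140,(-52298),(-201),3],[(-243901728),17046842,(-131265),(-1859),39],[4076945,(-104041),(-2469),81],[(-18545),(-1110),65],[(-171),23],[3]],[[(-418313825),1386981,22471,1531,(-11)],[9535391,(-21437),1419,(-48)],[(-78837),387,(-47)],[219,(-14)]],[[(-6271210),192609,(-20),15],[178068,(-3514),13],[(-2143),1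3],[4]],[[57635,2153,4],[(-677),(-25)],[(-1)]],[[1476,5],[(-21)]],[[5]]],[[[1952481691,(-641684087),10158657,(-32012),(-278)],[(-205318698),17117116,(-135640),(-1199)],[4032136,(-140325),(-1238)],[(-28363),(-418)],[(-51)]],[[(-451526372),(-1938075),119997,626],[9885765,123729,(-676)],[(-70183),(-1214)],[(-70)]],[[(-7738317),192895,741],[239879,(-1827)],[(-1902)]],[[44349,1861],[83]],[[1052]]],[[[(-405644578),(-212286256),3140985,(-3997)],[(-44929767),6080331,(-37954)],[1273351,(-49899)],[(-10680)]],[[(-191417873),(-1216223),48866],[4456763,62546],[(-25145)]],[[(-3364204),52347],[90767]],[[5593]]],[[[(-352016336),(-33286566),468114],[459344,954232],[146506]],[[(-41863906),(-202553)],[912948]],[[(-644305)]]],[[[(-67006947),(-2411436)],[980561]],[[(-4488286)]]],[[[(-4746395)]]]],[[[[295383999,(-49076420),(-119357),18038,(-444)],[(-18277877),724948,29377,(-1079)],[224195,8619,(-952)],[658,(-341)],[(-43)]],[[(-24199317),(-2430164),19556,(-86)],[(-73236),65921,(-295)],[10844,(-500)]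,[(-115)]],[[(-1651872),(-34281),138],[34174,636],[(-107)]],[[(-33165),(-118)],[524]],[[(-177)]]],[[[149513929,(-51517675),299915,(-3425)],[(-16471100),1187416,(-4066)],[313190,(-6601)],[(-1593)]],[[(-33306088),(-2270997),6538],[239462,39633],[4827]],[[(-1849931),(-27318)],[25554]],[[(-25478)]]],[[[(-47180589),(-15644682),(-5145)],[(-2932284),281836],[71660]],[[(-16092322),(-672153)],[131600]],[[(-598845)]]],[[[(-26862218),(-2355933)],[(-94922)]],[[(-3209909)]]],[[[(-4193761)]]]],[[[[(-3915665),772151,(-19108),81],[270981,(-24551),251],[(-5566),181],[33]],[[420618,11678,(-367)],[(-7857),(-338)],[3]],[[17640,(-129)],[(-307)]],[[138]]],[[[(-2180090),800768,(-14823)],[240928,(-18902)],[(-4198)]],[[551121,8701],[(-6683)]],[[14195]]],[[[829230,213356],[47376]],[[195556]]],[[[479421]]]]]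

/-- A surrogate. -/
def root_s11 : List (List (List (List (List ℤ)))) :=
  [[[[[4096815683,(-113832902),834673,727,(-17)],[(-107371278),2141345,(-8652),(-21)],[1007695,(-11177),(-5)],[(-3044),(-23)],[(-12)]],[[(-102868804),2378511,(-13206),6],[2665623,(-45378),169],[(-27917),346,(-1)],[156,(-1)],[(-1)]],[[(-1645879),41480,(-266)],[42852,(-783),3],[(-426),5],[2]],[[11991,(-282),2],[(-309),6],[3]],[[89,(-2)],[(-2)]],[[(-1)]]],[[[725604101,(-21164545),164026,180,(-4)],[(-19080530),396761,(-1631),(-5)],[172987,(-1843),(-3)],[(-372),(-9)],[(-4)]],[[(-11651422),239460,(-998),2],[300007,(-4573),17],[(-3300),43],[23]],[[(-339949),8395,(-51)],[8801,(-154),1],[(-86),1]],[[(-103),1],[(-1)]],[[15]]],[[[38142065,(-1217479),10312,15],[(-1009648),22676,(-93)],[8513,(-77)],[0,(-1)]],[[(-147947),(-1170),47],[3546,(-7)],[(-77),1],[1]],[[(-15210),376,(-2)],[407,(-6)],[(-3)]],[[(-101),2],[2]]],[[[504576,(-20215),203],[(-13617),371,(-1)],[90],[1]],[[10404,(-417),4],[(-281),7],[2]],[[54,(-2)],[(-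1)]]]],[[[[2815017586,(-68909749),423326,21],[(-73187367),1309167,(-5058),(-1)],[743438,(-9010),19],[(-3664),25],[8]],[[63859912,(-1610081),10395,3],[(-1663325),30631,(-118)],[16675,(-196)],[(-75)]],[[(-368538),8112,(-41)],[9397,(-153)],[(-99)]],[[(-11707),281,(-1)],[299,(-5)],[(-3)]],[[(-2)]]],[[[371157742,(-8878836),52463,(-8)],[(-9636635),168967,(-635)],[99135,(-1198),3],[(-511),4],[1]],[[13189916,(-327351),2027],[(-343179),6125,(-22)],[3411,(-38)],[(-15)]],[[74627,(-1910),15],[(-1886),43],[23]],[[(-1058),18],[19]],[[(-7)]]],[[[10498825,(-220751),989,(-2)],[(-270680),4238,(-9)],[2965,(-29)],[(-16)]],[[590255,(-14119),67],[(-15322),221],[132]],[[8830,(-196)],[(-204)]],[[37]]],[[[(-100915),4043,(-40)],[2724,(-74)],[(-18)]],[[(-2081),84],[56]],[[(-11)]]]],[[[[(-56438544),1835105,(-15818),(-24),1],[1496031,(-34185),159,1],[(-12436),140],[6]],[[13536028,(-320805),1826,(-1)],[(-351223),5993,(-15)],[3567,(-31)],[(-14)]],[[342184,(-8283),46],[(-8818),144],[83]],[[1314,(-43)],[(-44)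]],[[(-14)]]],[[[(-53710038),1399729,(-9474),(-5)],[1401682,(-26533),123],[(-13758),192],[69]],[[(-128638),5570,(-129)],[3580,(-323)],[(-147)]],[[30278,(-532)],[(-584)]],[[377]]],[[[(-3625452),92868,(-605)],[94541,(-1740)],[(-926)]],[[(-112159),2865],[2918]],[[(-1163)]]]],[[[[(-98820140),2441658,(-15257),(-2)],[2570521,(-46443),193],[(-26024),337],[135]],[[(-2620537),65468,(-484)],[68381,(-1465)],[(-816)]],[[(-3099),375],[378]],[[371]]],[[[(-9909149),244592,(-1498)],[257848,(-4575)],[(-2570)]],[[(-408759),10010],[10558]],[[(-6325)]]]],[[[[(-7053491),171737,(-1024)],[183416,(-3200)],[(-1834)]],[[(-363721),8740],[9340]],[[(-7465)]]]]]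

/-- A surrogate. -/
def root_s12 : List (List (List (List (List ℤ)))) :=
  [[[[[(-499147823),(-5889303),463963,(-4760),7],[6096375,861801,(-22919),152],[176993,(-21444),331,(-1)],[(-4483),209,(-2)],[37,(-1)]],[[77803597,(-1250278),(-6818),154],[(-2044350),8570,483,(-3)],[17095,311,(-6)],[6,(-4)],[(-1)]],[[(-908184),17082,(-80)],[28149,(-601),5],[(-430),10],[4]],[[(-32550),512,2],[894,(-8)],[(-9)]],[[(-17)]],[[1]]],[[[(-379379745),(-4413367),355794,(-3764),8],[6394909,439896,(-12707),97],[39045,(-9681),174,(-1)],[(-1650),97,(-1)],[16]],[[33710149,(-587304),(-1246),36],[(-918841),7462,86,(-1)],[8758,22,(-1)],[(-23),(-1)]],[[(-74016),4696,(-94),1],[3729,(-206),4],[(-89),4],[1]],[[(-10638),193],[295,(-3)],[(-3)]],[[(-26)],[1]]],[[[(-114547865),(-259314),77782,(-964),2],[2423845,67738,(-2634),23],[(-8868),(-1592),35],[(-149),17],[2]],[[6580598,(-133381),417],[(-186667),2361,(-7)],[1854,(-14)],[(-8)]],[[59467,(-563),(-12)],[(-1338)],[13]],[[(-1168),20],[26]],[[(-6)]]],[[[(-1550896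1),97138,6735,(-106)],[377417,2408,(-241)],[(-3423),(-96)],[14]],[[652469,(-14106),90],[(-17727),245],[147]],[[11570,(-208)],[(-307)]],[[(-14)]]],[[[(-942060),12898,208],[26149,(-267)],[(-394)]],[[29182,(-466)],[(-513)]],[[706]]],[[[(-20885),565],[841]],[[244]]]],[[[[(-348522835),(-33678663),1107916,(-8871),6],[(-3596458),1650521,(-33561),185],[341755,(-28338),383,(-1)],[(-5453),235,(-2)],[40,(-1)]],[[25351421,(-45634),(-8272),36],[(-667835),1931,15,1],[8328,(-113),3],[(-71),3],[1]],[[1224783,(-5096),(-407),3],[(-30084),(-167),9],[261,4],[(-1)]],[[7895,(-117),(-2)],[(-214)],[2]],[[(-94),1],[2]],[[(-1)]]],[[[(-455763388),(-5450759),398718,(-3966),7],[8399068,439453,(-12488),84],[4191,(-8860),151],[(-1172),85],[13]],[[4839031,(-144227),2429,(-41)],[(-171400),5943,(-160)],[2779,(-146)],[(-35)]],[[463879,(-5644),(-42)],[(-12154),74],[110]],[[4034,(-52)],[(-103)]],[[(-9)]]],[[[(-144514793),1187277,45959,(-635)],[3605768,14103,(-1671)],[(-30738),(-853)],[34]],[[(-1212893),4540,780],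[30069,513],[(-298)]],[[54969,(-856)],[(-1217)]],[[681]]],[[[(-18200074),303962,1559],[504333,(-4486)],[(-5458)]],[[(-342995),6549],[10725]],[[349]]],[[[(-981170),20577],[28574]],[[(-26513)]]],[[[(-18537)]]]],[[[[17888737,(-22773033),563572,(-3741),1],[(-6689542),812898,(-13627),57],[185584,(-11229),123],[(-2150),77],[13]],[[(-5637721),(-391801),12747,(-98)],[16644,16674,(-358)],[2369,(-287)],[(-49)]],[[(-36139),120,61],[975,77],[5]],[[2540,5],[(-40)]],[[32]]],[[[(-112366390),(-2620203),121376,(-981)],[1889551,130975,(-3139)],[1415,(-2208)],[(-275)]],[[(-4967817),(-27412),3297],[109352,3046],[(-492)]],[[(-47126),31],[1274]],[[298]]],[[[(-28267269),264050,7190],[730412,388],[(-6523)]],[[(-1124596),13392],[29508]],[[(-14495)]]],[[[(-2234292),41323],[62041]],[[(-89746)]]],[[[(-53677)]]]],[[[[5856057,(-2172030),50688,(-291)],[(-708202),72582,(-1068)],[16911,(-891)],[(-177)]],[[(-716055),(-74064),2044],[(-2223),2692],[451]],[[(-36146),(-807)],[508]],[[(-526)]]],[[[(-8158536),(-97569),6106],[166325,5925],[(-499)]],[[(-569902),(-314)],[12028]],[[(-13645)]]],[[[(-1237912),18414],[32484]],[[(-66081)]]],[[[(-38859)]]]]]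

/-- A surrogate. -/
def root_s13 : List (List (List (List (List ℤ)))) :=
  [[[[[(-13546691),1441534,181527,(-4754),17],[683905,53224,(-5270),39,1],[(-2380),(-1098),6,1],[27,(-11),1],[(-3)]],[[2632728,9877,(-8898),200,(-1)],[(-72797),(-1283),156,(-2)],[1299,(-46),1],[(-28),2]],[[(-60462),(-12949),407,(-4)],[36,347,(-8)],[(-6),(-3)]],[[(-6746),261,(-4)],[205,(-7)],[(-3)]],[[42,(-1)],[(-1)]]],[[[(-15584542),3935974,91154,(-3370),10],[1306724,(-29138),(-3382),22],[(-16263),(-290),(-8),1],[111,(-16),1],[(-3)]],[[4371315,(-224578),(-2020),137,(-1)],[(-160059),5945,42,(-2)],[2789,(-109),1],[(-40),1]],[[(-205216),(-7619),346,(-3)],[4619,254,(-6)],[(-44),(-2)]],[[(-6428),248,(-3)],[205,(-5)],[(-2)]],[[41,(-1)],[(-1)]]],[[[445652,2227535,(-5795),(-538),1],[528664,(-42364),(-153),1],[(-9513),419,(-10)],[91,(-9)],[(-2)]],[[1739066,(-163466),1998,23],[(-77251),4800,(-16)],[1561,(-48)],[(-16)]],[[(-139113),(-350),83],[3531,52],[(-21)]],[[(-2093),66],[61]],[[10]]],[[[3592308,351011,(-4480)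,(-12)],[4891,(-9367),166],[(-845),192],[27]],[[67274,(-28292),390],[(-9214),810],[295]],[[(-31027),76],[616]],[[(-315)]]],[[[661270,21688,(-874)],[(-12707),(-1205)],[85]],[[(-20557),(-2125)],[(-989)]],[[(-2624)]]],[[[41669,640],[(-1900)]],[[(-422)]]],[[[1394]]]],[[[[(-38311338),6763026,(-11226),(-2712),30],[2727638,(-175950),(-128),36],[(-55474),2287,(-26)],[615,(-31)],[(-6)]],[[4054168,207690,(-7346),67],[(-69404),(-6026),157,(-1)],[574,54,(-1)],[(-10)]],[[160309,(-4856),36],[(-4721),129],[65,(-1)]],[[(-513),(-24),1],[8,1]],[[(-19)]]],[[[(-33006195),9896229,(-124583),(-1444),22],[3300583,(-291762),2565,22],[(-73645),3861,(-26)],[828,(-26)],[(-5)]],[[6923462,122185,(-6936),50],[(-161035),(-4592),123],[1683,44],[(-8)]],[[171847,(-5464),24],[(-5624),101],[56]],[[(-573),(-18)],[3]],[[(-13)]]],[[[3128508,4377029,(-89635),(-13)],[972695,(-142612),1612],[(-28021),1623],[303]],[[3831513,1225,(-1964)],[(-103299),(-956)],[859]],[[67505,(-1768)],[(-2012)]],[[(-117)]]],[[[7512925,625574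,(-16167)],[(-48917),(-21688)],[(-2584)]],[[865653,(-4267)],[(-21925)]],[[12149]]],[[[1429414,33576],[(-26612)]],[[90383]]],[[[93923]]]],[[[[(-3132738),543503,655,(-277),2],[227745,(-15182),15,3],[(-4936),262,(-1)],[68,(-2)]],[[234696,35964,(-885)],[166,(-1120),12],[(-70),8],[1]],[[23574,88,(-11)],[(-665),(-5)],[4]],[[439,(-5)],[(-9)]],[[2]]],[[[(-2567213),788306,(-9706),(-146)],[263473,(-24734),107],[(-6279),240],[56]],[[492654,31476,(-684)],[(-7259),(-820)],[(-30)]],[[28812],[(-548)]],[[330]]],[[[414190,318808,(-5568)],[65358,(-9330)],[(-1976)]],[[300170,6956],[(-4610)]],[[9655]]],[[[600823,30699],[(-5372)]],[[58513]]],[[[72230]]]],[[[[122365,(-24130),597,(-3)],[(-8468),767,(-8)],[174,(-6)],[(-1)]],[[(-13144),(-365),11],[246,11]],[[(-551),4],[10]],[[(-4)]]],[[[68128,(-25024),463],[(-7529),591],[131]],[[(-17223),(-272)],[209]],[[(-444)]]],[[[(-25913),(-6667)],[(-1481)]],[[(-6111)]]],[[[(-14982)]]]]]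

/-- A surrogate. -/
def root_s14 : List (List (List (List (List ℤ)))) :=
  [[[[[(-13140270),1398280,176092,(-4612),17],[663383,51643,(-5113),38,1],[(-2306),(-1066),6,1],[26,(-10),1],[(-3)]],[[2418248,23973,(-6790),146,(-1)],[(-63740),(-677),97,(-2)],[1241,(-57),1],[(-27),2]],[[(-32397),(-12462),310,(-2)],[(-660),327,(-6)],[7,(-3)]],[[(-7172),128,1],[204,(-3)],[(-3)]],[[(-26),2],[1]]],[[[(-15117012),3817836,88425,(-3269),9],[1267547,(-28259),(-3278),22],[(-15776),(-278),(-8),1],[108,(-16),1],[(-3)]],[[4083883,(-178578),(-1046),99,(-1)],[(-142102),5481,13,(-1)],[2547,(-101),1],[(-36),1]],[[(-155636),(-9629),308,(-1)],[2893,303,(-5)],[(-11),(-3)]],[[(-8297),158,1],[239,(-2)],[(-2)]],[[(-25),1],[1]]],[[[432078,2160739,(-5664),(-522),1],[512830,(-41155),(-145),1],[(-9237),409,(-9)],[89,(-8)],[(-1)]],[[1691112,(-136234),1772,17],[(-69785),4086,(-12)],[1402,(-37)],[(-14)]],[[(-117323),(-1990),87],[2511,86],[(-3)]],[[(-3337),51],[78]],[[(-9)]]],[[[3484508,340627,(-4373),(-12)],[4684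,(-9122),160],[(-826),185],[26]],[[102313,(-23631),271],[(-9163),606],[262]],[[(-28548),(-203)],[412]],[[(-523)]]],[[[641763,21102,(-843)],[(-12364),(-1163)],[82]],[[(-11979),(-1684)],[(-1159)]],[[(-2309)]]],[[[40597,617],[(-1833)]],[[397]]],[[[1345]]]],[[[[(-37161971),6560114,(-10893),(-2631),29],[2645824,(-170676),(-121),35],[(-53810),2222,(-25)],[597,(-30)],[(-6)]],[[3549280,268990,(-7261),37],[(-40060),(-7621),157],[8,82,(-1)],[(-2)]],[[195896,(-2679),(-48),1],[(-5317),59,1],[72]],[[1097,(-79),1],[(-49),2],[1]],[[(-23)]]],[[[(-32016203),9599338,(-120895),(-1401),21],[3201529,(-283080),2483,22],[(-71446),3741,(-25)],[802,(-25)],[(-5)]],[[6385660,217510,(-8066),32],[(-123452),(-7519),134],[867,72],[(-1)]],[[236304,(-4036),(-39)],[(-7170),50],[65]],[[1279,(-60)],[(-45)]],[[(-14)]]],[[[3034676,4245892,(-86895),(-13)],[943418,(-138270),1556],[(-27174),1566],[293]],[[3749165,45480,(-2669)],[(-90406),(-2213)],[550]],[[104578,(-1568)],[(-2774)]],[[529]]],[[[7288153,606734,(-15604)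],[(-47348),(-20930)],[(-2492)]],[[915082,2050],[(-21196)]],[[19607]]],[[[1386342,32398],[(-25695)]],[[100184]]],[[[90665]]]],[[[[(-3038786),527233,626,(-269),2],[220914,(-14743),14,3],[(-4792),254,(-1)],[66,(-2)]],[[196513,40433,(-869),(-2)],[2412,(-1269),11],[(-124),10],[1]],[[25416,471,(-17)],[(-657),(-13)],[4]],[[695,(-4)],[(-13)]],[[5]]],[[[(-2490037),764714,(-9396),(-141)],[255551,(-23960),103],[(-6083),231],[54]],[[452805,38458,(-710)],[(-4393),(-964)],[(-77)]],[[32954,267],[(-562)]],[[531]]],[[[401953,309081,(-5375)],[63402,(-9005)],[(-1907)]],[[294637,9500],[(-3720)]],[[11556]]],[[[582415,29626],[(-5192)]],[[61019]]],[[[69733]]]],[[[[118684,(-23419),578,(-2)],[(-8217),743,(-8)],[169,(-5)],[(-1)]],[[(-11584),(-621),15],[147,16],[1]],[[(-687),1],[11]],[[(-8)]]],[[[66049,(-24253),447],[(-7298),570],[127]],[[(-16036),(-468)],[134]],[[(-554)]]],[[[(-25078),(-6435)],[(-1428)]],[[(-5965)]]],[[[(-14464)]]]]]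

/-- A surrogate. -/
def root_s15 : List (List (List (List (List ℤ)))) :=
  [[[[[(-1338417148),(-88509484),2653728,(-11134),(-123),1],[5745770,2152105,(-21184),(-251),2],[31478,934,(-430),5],[4698,(-340),6],[(-85),3],[1]],[[86138033,2968855,(-118218),906],[(-2120197),(-48273),1234,(-5)],[36606,(-534),7],[(-514),14],[4]],[[4211852,(-159340),2102,(-11)],[(-102200),2840,(-27)],[662,(-10)],[3]],[[(-57519),1639,(-15)],[1418,(-31)],[(-12)]],[[179,(-5)],[(-5)]]],[[[(-1630406058),(-7308209),683541,676,(-86)],[27838701,421353,(-2191),(-195),1],[(-200420),2444,(-225),2],[2852,(-158),2],[(-46),1]],[[131629777,(-1678038),(-23371),356,(-1)],[(-3563507),35665,344,(-3)],[42302,(-433)],[(-293),4],[1]],[[1518613,(-54986),741,(-4)],[(-39781),1142,(-11)],[364,(-8)],[(-1)]],[[(-25161),701,(-5)],[675,(-12)],[(-6)]],[[74,(-2)],[(-2)]]],[[[(-386492217),1915348,57010,851,(-16)],[7530715,11304,765,(-37)],[(-65402),1236,(-43)],[911,(-34)],[(-11)]],[[33667077,(-647101),(-912),60],[(-938795),12362,53],[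10187,(-74)],[(-50)]],[[300588,(-9558),115],[(-8267),228],[100]],[[(-3882),92],[94]],[[6]]],[[[(-36190893),260407,416,98],[748188,(-4962),179],[(-9664),300],[177]],[[3524814,(-73907),(-1)],[(-96808),1110],[862]],[[32776,(-982)],[(-983)]],[[(-221)]]],[[[(-1322855),7611,(-287)],[31440,(-1102)],[(-1049)]],[[166973,(-2983)],[(-3804)]],[[1789]]],[[[(-784),257],[933]],[[2595]]],[[[712]]]],[[[[(-3938185607),4970340,1776963,(-16545),13],[95276928,(-141892),(-17708),78],[(-1108414),14566,(-167),1],[10018,(-273),3],[(-78),2]],[[(-84049655),3032689,(-38789),214],[1977539,(-52454),523,(-2)],[(-12059),209,(-1)],[(-40),2],[1]],[[1722939,(-33788),24,2],[(-43295),647],[421,(-4)],[(-2)]],[[11877,(-402),4],[(-304),7],[2]],[[(-108),2],[2]]],[[[(-3691784492),64039212,168372,(-6056),15],[98880493,(-1331026),(-1437),56],[(-1115491),14452,(-45)],[7614,(-109)],[(-35)]],[[(-34354750),1083537,(-13551),72],[859193,(-23533),241],[(-8659),210],[47]],[[960870,(-21610),54],[(-26031),354],[231]],[[5276,(-156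)],[(-140)]],[[(-35)]]],[[[(-865301091),18426149,(-45939),(-964)],[24115296,(-396491),482],[(-280538),3576],[1778]],[[(-8640684),247996,(-2579)],[244890,(-6535)],[(-3353)]],[[144605,(-2667)],[(-3306)]],[[1005]]],[[[(-86920040),2016002,(-8316)],[2503252,(-44569)],[(-29993)]],[[(-1137447),33666],[36852]],[[5249]]],[[[(-4039509),98625],[120327]],[[(-71895)]]],[[[(-71615)]]]],[[[[(-742297691),2032061,317701,(-3432),6],[19047800,(-74383),(-3361),23],[(-233229),3306,(-21)],[2151,(-45)],[(-13)]],[[(-34553799),685357,(-1137),(-38)],[858873,(-14106),11],[(-8847),96],[34]],[[(-264284),8561,(-74)],[7047,(-151)],[(-57)]],[[2225,(-23)],[(-35)]],[[18]]],[[[(-642954024),12478853,6794,(-1124)],[18069875,(-277492),(-263)],[(-213720),2460],[1272]],[[(-20580201),488810,(-2099)],[571560,(-9864)],[(-6002)]],[[(-136749),4006],[3944]],[[684]]],[[[(-118574042),2716065,(-8052)],[3455300,(-57143)],[(-39227)]],[[(-3634976),88340],[102544]],[[(-29711)]]],[[[(-8212513),194811],[239981]],[[(-254235)]]],[[[(-195500)]]]],[[[[(-23290388),(-257674),18876,(-166)],[655464,1187,(-198)],[(-9907),101],[82]],[[(-2227137),31871,343],[58532,(-444)],[(-476)]],[[(-54711),902],[1113]],[[(-433)]]],[[[(-21035852),415617,1024],[656109,(-8788)],[(-7358)]],[[(-1286002),25832],[33013]],[[(-23719)]]],[[[(-2876047),63887],[86136]],[[(-139923)]]],[[[(-107132)]]]],[[[[1383567,(-33913),166],[(-33106),459],[232]],[[57547,(-1136)],[(-1109)]],[[728]]],[[[760953,(-17699)],[(-17282)]],[[30231]]],[[[34238]]]]]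

/-- A root. -/
def root : Root where
  cl := true
  box := fun i => match i with
    | 0 => ⟨29, 59, 400, 200⟩
    | 1 => ⟨191, 9751, 200, 10000⟩
    | 2 => ⟨7, 14287, 50, 100000⟩
    | _ => ⟨3, 310001, 10, 1000000⟩
  De := 400
  e0 := 23
  e1 := 167
  p := fun i => match i with
    | 0 => 9
    | 1 => 100
    | 2 => 697
    | 3 => 200
    | _ => 6
  q := fun i => match i with
    | 0 => 2
    | 1 => 97
    | 2 => 99
    | 3 => 61
    | _ => 1
  den := 17179869184
  sur := fun k => match k with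
    | 0 => root_s0
    | 1 => root_s1
    | 3 => root_s3
    | 5 => root_s5
    | 11 => root_s11
    | 12 => root_s12
    | 13 => root_s13
    | 14 => root_s14
    | 15 => root_s15
    | _ => []
  eps := fun k => match k with
    | 0 => 659540
    | 1 => 1296203
    | 3 => 556294
    | 5 => 578907
    | 11 => 1182
    | 12 => 13701
    | 13 => 9955
    | 14 => 10767
    | 15 => 22860
    | _ => 0

/-- A leaf. -/
def leaf0 : Leaf :=
  ⟨⟨191, 38401, 200, 40000⟩, ⟨7, 14287, 50, 100000⟩, ⟨3, 310001, 10, 1000000⟩,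
    16384, (3346, -32389, -24611, 12304), (-7675, -55839, -25097, 33080), 16384, (38584, 53936, 63515, -62652), (-39099, -1912, -12165, 41440), (20030, 60811, 80604, -46488), (1959, 19816, 19055, -11907),
    true, 0, 1, 3127, (-254), 3434, 4096, (-3838), 2163⟩

/-- A tile. -/
def tile0 : Tile :=
  ⟨⟨191, 38401, 200, 40000⟩, ⟨7, 14287, 50, 100000⟩, ⟨3, 310001, 10, 1000000⟩, 16384, (3346, -32389, -24611, 12304), (-7675, -55839, -25097, 33080), 6923,
    (1024, 0), (11, 1024), 0, 4, (leaf0, ⟨(1024, 406), (1024, 468)⟩),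
    []⟩

/-- A leaf. -/
def leaf1 : Leaf :=
  ⟨⟨38401, 19301, 40000, 20000⟩, ⟨7, 14287, 50, 100000⟩, ⟨3, 310001, 10, 1000000⟩,
    16384, (2219, -33135, -25141, 13792), (-11743, -58129, -25218, 38065), 16384, (49957, 55416, 62853, -75045), (-53802, 2059, -3933, 54266), (23847, 58775, 79026, -49562), (3778, 20705, 19792, -14198),
    true, 0, 1, 3264, (-363), 4096, 3868, (-3660), 2221⟩

/-- A tile. -/
def tile1 : Tile :=
  ⟨⟨38401, 19301, 40000, 20000⟩, ⟨7, 14287, 50, 100000⟩, ⟨3, 310001, 10, 1000000⟩, 16384, (2219, -33135, -25141, 13792), (-11743, -58129, -25218, 38065), 6923,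
    (1024, 0), (22, 1024), 0, 4, (leaf1, ⟨(1024, 646), (1024, 481)⟩),
    []⟩

/-- A leaf. -/
def leaf2 : Leaf :=
  ⟨⟨19301, 38803, 20000, 40000⟩, ⟨7, 14287, 50, 100000⟩, ⟨3, 310001, 10, 1000000⟩,
    16384, (758, -33918, -25691, 15633), (-7988, -47312, -25344, 29827), 16384, (33581, 52747, 68091, -56839), (22959, 5642, -12726, -25156), (32086, 54527, 72713, -56171), (-5891, 16862, 23464, -2539),
    true, 0, 1, 3212, (-318), 2145, 4096, (-2553), 1683⟩

/-- A leaf. -/
def leaf3 : Leaf :=
  ⟨⟨19301, 38803, 20000, 40000⟩, ⟨7, 14287, 50, 100000⟩, ⟨3, 310001, 10, 1000000⟩,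
    16384, (-7988, -47312, -25344, 29827), (-16734, -60705, -24997, 44021), 16384, (51471, 56545, 49320, -76147), (-92148, -4506, 21499, 93774), (26585, 70082, 93027, -58594), (12172, 4575, -3224, -14537),
    true, 0, 1, 2848, (-324), 3714, 4096, (-2344), 2130⟩

/-- A tile. -/
def tile2 : Tile :=
  ⟨⟨19301, 38803, 20000, 40000⟩, ⟨7, 14287, 50, 100000⟩, ⟨3, 310001, 10, 1000000⟩, 16384, (758, -33918, -25691, 15633), (-16734, -60705, -24997, 44021), 6923,
    (1024, 0), (42, 1024), 0, 4, (leaf2, ⟨(1024, 0), (273, 1024)⟩),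
    [(leaf3, ⟨(138, 1024), (1024, 0)⟩)]⟩

/-- A leaf. -/
def leaf4 : Leaf :=
  ⟨⟨38803, 77807, 40000, 80000⟩, ⟨7, 14287, 50, 100000⟩, ⟨3, 610001, 10, 2000000⟩,
    16384, (-1419, -33668, -24886, 17688), (-22597, -59539, -18650, 48781), 16384, (55500, 41953, 47466, -74494), (-63976, 14669, 18703, 57502), (32115, 52258, 73031, -55176), (6892, 20895, 18192, -17248),
    true, 0, 1, 2715, (-392), 2990, 4096, (-2333), 1929⟩

/-- A tile. -/
def tile3 : Tile :=
  ⟨⟨38803, 77807, 40000, 80000⟩, ⟨7, 14287, 50, 100000⟩, ⟨3, 610001, 10, 2000000⟩, 16384, (-1419, -33668, -24886, 17688), (-22597, -59539, -18650, 48781), 6923,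
    (1024, 0), (687, 1024), 0, 4, (leaf4, ⟨(694, 1024), (1024, 518)⟩),
    []⟩

/-- A leaf. -/
def leaf5 : Leaf :=
  ⟨⟨38803, 77807, 40000, 80000⟩, ⟨7, 14287, 50, 100000⟩, ⟨610001, 310001, 2000000, 1000000⟩,
    16384, (219, -35305, -27280, 16865), (-9710, -49480, -27480, 32600), 16384, (37915, 53416, 69189, -61686), (26422, 5704, -13926, -28560), (35603, 55434, 73630, -60286), (-6134, 16860, 24253, -2402),
    true, 0, 1, 3003, (-381), 2257, 4096, (-2473), 1689⟩

/-- A leaf. -/
def leaf6 : Leaf :=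
  ⟨⟨38803, 77807, 40000, 80000⟩, ⟨7, 14287, 50, 100000⟩, ⟨610001, 310001, 2000000, 1000000⟩,
    16384, (-9710, -49480, -27480, 32600), (-19639, -63656, -27681, 48334), 16384, (64154, 55202, 48892, -88521), (-111031, 5227, 32177, 108541), (31007, 71004, 94866, -63727), (14044, 4637, -3245, -16475),
    true, 0, 1, 2763, (-319), 3809, 4096, (-2418), 2167⟩

/-- A tile. -/
def tile4 : Tile :=
  ⟨⟨38803, 77807, 40000, 80000⟩, ⟨7, 14287, 50, 100000⟩, ⟨610001, 310001, 2000000, 1000000⟩, 16384, (219, -35305, -27280, 16865), (-19639, -63656, -27681, 48334), 6923,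
    (1024, 0), (118, 1024), 0, 4, (leaf5, ⟨(1024, 1), (402, 1024)⟩),
    [(leaf6, ⟨(89, 1024), (1024, 1)⟩)]⟩

/-- A leaf. -/
def leaf7 : Leaf :=
  ⟨⟨77807, 9751, 80000, 10000⟩, ⟨7, 14287, 50, 100000⟩, ⟨3, 610001, 10, 2000000⟩,
    16384, (-2547, -34059, -25078, 18997), (5348, -57948, -20166, 19769), 16384, (39762, 37386, 45725, -56752), (-26101, 20323, 21721, 16350), (40009, 51632, 71283, -62829), (-22444, 18979, 20118, 13238),
    true, 0, 1, 2046, (-458), 2559, 4096, (-2052), 1789⟩

/-- A tile. -/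
def tile5 : Tile :=
  ⟨⟨77807, 9751, 80000, 10000⟩, ⟨7, 14287, 50, 100000⟩, ⟨3, 610001, 10, 2000000⟩, 16384, (-2547, -34059, -25078, 18997), (5348, -57948, -20166, 19769), 6923,
    (1024, 0), (1024, 2), 0, 4, (leaf7, ⟨(605, 1024), (1024, 547)⟩),
    []⟩

/-- A leaf. -/
def leaf8 : Leaf :=
  ⟨⟨77807, 9751, 80000, 10000⟩, ⟨7, 14287, 50, 100000⟩, ⟨610001, 310001, 2000000, 1000000⟩,
    16384, (-919, -35746, -27610, 18222), (2969, -49590, -28406, 19740), 16384, (41463, 51971, 68022, -64705), (4988, 4444, -13546, -6191), (39626, 53710, 71107, -63442), (-21511, 17134, 26607, 12976),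
    true, 0, 1, 2478, (-353), 2220, 4096, (-2440), 1710⟩

/-- A leaf. -/
def leaf9 : Leaf :=
  ⟨⟨77807, 9751, 80000, 10000⟩, ⟨7, 14287, 50, 100000⟩, ⟨610001, 310001, 2000000, 1000000⟩,
    16384, (2969, -49590, -28406, 19740), (6857, -63435, -29201, 21257), 16384, (40236, 50897, 47597, -62259), (-44000, 16565, 42328, 34570), (19115, 69245, 95135, -50991), (-41, 3944, -2756, -1852),
    true, 0, 1, 2637, (-328), 3596, 4096, (-2216), 2021⟩

/-- A tile. -/
def tile6 : Tile :=
  ⟨⟨77807, 9751, 80000, 10000⟩, ⟨7, 14287, 50, 100000⟩, ⟨610001, 310001, 2000000, 1000000⟩, 16384, (-919, -35746, -27610, 18222), (6857, -63435, -29201, 21257), 6923,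
    (1024, 0), (1024, 15), 0, 4, (leaf8, ⟨(1024, 0), (265, 1024)⟩),
    [(leaf9, ⟨(20, 1024), (1024, 1)⟩)]⟩

/-- The subdivision. -/
def tree : Tree :=
  (.node 0 19301 20000
    (.node 0 38401 40000
    (.tile tile0)
    (.tile tile1))
    (.node 0 38803 40000
    (.tile tile2)
    (.node 0 77807 80000
    (.node 2 610001 2000000
    (.tile tile3)
    (.tile tile4))
    (.node 2 610001 2000000
    (.tile tile5)
    (.tile tile6)))))

def tree_ok : tree.ok pieceCor 448 ⟨191, 9751, 200, 10000⟩ ⟨7, 14287, 50, 100000⟩ ⟨3, 310001, 10, 1000000⟩ = true := by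
  decide +kernel

def root_ok0 : root.okEnt 576 0 = true := by decide +kernel

def root_ok1 : root.okEnt 576 1 = true := by decide +kernel

def root_ok3 : root.okEnt 576 3 = true := by decide +kernel

def root_ok5 : root.okEnt 576 5 = true := by decide +kernel

def root_ok11 : root.okEnt 576 11 = true := by decide +kernel

def root_ok12 : root.okEnt 576 12 = true := by decide +kernel

def root_ok13 : root.okEnt 576 13 = true := by decide +kernel

def root_ok14 : root.okEnt 576 14 = true := by decide +kernel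

def root_ok15 : root.okEnt 576 15 = true := by decide +kernel

def leaf0_ok : leaf0.okLeaf root 704 = true := by decide +kernel

def leaf1_ok : leaf1.okLeaf root 704 = true := by decide +kernel

def leaf2_ok : leaf2.okLeaf root 704 = true := by decide +kernel

def leaf3_ok : leaf3.okLeaf root 704 = true := by decide +kernel

def leaf4_ok : leaf4.okLeaf root 704 = true := by decide +kernel

def leaf5_ok : leaf5.okLeaf root 704 = true := by decide +kernel

def leaf6_ok : leaf6.okLeaf root 704 = true := by decide +kernel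

def leaf7_ok : leaf7.okLeaf root 704 = true := by decide +kernel

def leaf8_ok : leaf8.okLeaf root 704 = true := by decide +kernel

def leaf9_ok : leaf9.okLeaf root 704 = true := by decide +kernel

theorem leaves_eq : tree.leaves =
    [leaf0, leaf1, leaf2, leaf3, leaf4, leaf5, leaf6, leaf7,
    leaf8, leaf9] := rfl

theorem leaves_ok : ∀ F ∈ tree.leaves, Leaf.okLeaf F root 704 = true := by
  rw [leaves_eq]
  exact all'_cons leaf0_ok (all'_cons leaf1_ok (all'_cons leaf2_ok (all'_cons leaf3_ok (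
    all'_cons leaf4_ok (all'_cons leaf5_ok (all'_cons leaf6_ok (all'_cons leaf7_ok (
    all'_cons leaf8_ok (all'_cons leaf9_ok ((fun F hF => absurd hF List.not_mem_nil)))))))))))

theorem root_ok : ∀ k ∈ [0, 1, 3, 5, 11, 12, 13, 14, 15], root.okEnt 576 k = true := by
  intro k hk
  simp only [List.mem_cons, List.not_mem_nil, or_false] at hk
  rcases hk with rfl | rfl | rfl | rfl | rfl | rfl | rfl | rfl | rfl
  · exact root_ok0
  · exact root_ok1
  · exact root_ok3
  · exact root_ok5
  · exact root_ok11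
  · exact root_ok12
  · exact root_ok13
  · exact root_ok14
  · exact root_ok15

theorem used_ok : ∀ F ∈ tree.leaves, ∀ k ∈ Leaf.used F, root.okEnt 576 k = true := by
  intro F hF k hk
  refine root_ok k ?_
  rw [leaves_eq] at hF
  have h : ([leaf0, leaf1, leaf2, leaf3, leaf4, leaf5, leaf6, leaf7,
    leaf8, leaf9]).all (fun G => G.used.all fun j => [0, 1, 3, 5, 11, 12, 13, 14, 15].any (Nat.beq j)) = true := by
    decide +kernel
  simp only [List.all_eq_true, List.any_eq_true] at h
  obtain ⟨j, hj, e⟩ := h F hF k hk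
  exact Nat.eq_of_beq_eq_true e ▸ hj

/-- **The signs on the box.** -/
theorem signs {a I u X η : ℝ} (hf : Facts pieceCor a I u X η) (hu : In1 ⟨191, 9751, 200, 10000⟩ u)
    (hI : In1 ⟨7, 14287, 50, 100000⟩ I) (ha : In1 ⟨3, 310001, 10, 1000000⟩ a) :
    ClosedGen.SignsMult a (rd (mk4 X u I a)) (rv (mk4 X u I a)) (rg (mk4 X u I a) η)
      (rW (mk4 X u I a) η) (rW1 (mk4 X u I a) η) (rR (mk4 X u I a))
      (rNum true (mk4 X u I a) η) :=
  Tree.signs (T := tree) (R := root) tree_ok leaves_ok used_ok hf hu hI ha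

end Vale.Agent.P100.Calib.MidTail.BoxIV1U3
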