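import Vale.Agent.P100.Calib.SlabMidTailFacts
import Vale.Agent.P100.Calib.SlabMidTailBoxA0U0
import Vale.Agent.P100.Calib.SlabMidTailBoxA1U0
import Vale.Agent.P100.Calib.SlabMidTailBoxB0U0
import Vale.Agent.P100.Calib.SlabMidTailBoxB1U0
import Vale.Agent.P100.Calib.SlabMidTailBoxC0U0
import Vale.Agent.P100.Calib.SlabMidTailBoxC1U0
import Vale.Agent.P100.Calib.SlabMidTailBoxDU0
import Vale.Agent.P100.Calib.SlabMidTailBoxII0U0
import Vale.Agent.P100.Calib.SlabMidTailBoxII1U0
import Vale.Agent.P100.Calib.SlabMidTailBoxIII0U0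
import Vale.Agent.P100.Calib.SlabMidTailBoxIII1U0
import Vale.Agent.P100.Calib.SlabMidTailBoxIV0U0
import Vale.Agent.P100.Calib.SlabMidTailBoxIV1U0
import Vale.Agent.P100.Calib.SlabMidTailBoxA0U1
import Vale.Agent.P100.Calib.SlabMidTailBoxA1U1
import Vale.Agent.P100.Calib.SlabMidTailBoxB0U1
import Vale.Agent.P100.Calib.SlabMidTailBoxB1U1
import Vale.Agent.P100.Calib.SlabMidTailBoxC0U1
import Vale.Agent.P100.Calib.SlabMidTailBoxC1U1
import Vale.Agent.P100.Calib.SlabMidTailBoxDU1
import Vale.Agent.P100.Calib.SlabMidTailBoxII0U1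
import Vale.Agent.P100.Calib.SlabMidTailBoxII1U1
import Vale.Agent.P100.Calib.SlabMidTailBoxIII0U1
import Vale.Agent.P100.Calib.SlabMidTailBoxIII1U1
import Vale.Agent.P100.Calib.SlabMidTailBoxIV0U1
import Vale.Agent.P100.Calib.SlabMidTailBoxIV1U1
import Vale.Agent.P100.Calib.SlabMidTailBoxA0U2
import Vale.Agent.P100.Calib.SlabMidTailBoxA1U2
import Vale.Agent.P100.Calib.SlabMidTailBoxB0U2
import Vale.Agent.P100.Calib.SlabMidTailBoxB1U2
import Vale.Agent.P100.Calib.SlabMidTailBoxC0U2
import Vale.Agent.P100.Calib.SlabMidTailBoxC1U2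
import Vale.Agent.P100.Calib.SlabMidTailBoxDU2
import Vale.Agent.P100.Calib.SlabMidTailBoxII0U2
import Vale.Agent.P100.Calib.SlabMidTailBoxIII0U2
import Vale.Agent.P100.Calib.SlabMidTailBoxIII1U2
import Vale.Agent.P100.Calib.SlabMidTailBoxIV0U2
import Vale.Agent.P100.Calib.SlabMidTailBoxIV1U2
import Vale.Agent.P100.Calib.SlabMidTailBoxA0U3
import Vale.Agent.P100.Calib.SlabMidTailBoxA1U3
import Vale.Agent.P100.Calib.SlabMidTailBoxB0U3
import Vale.Agent.P100.Calib.SlabMidTailBoxB1U3
import Vale.Agent.P100.Calib.SlabMidTailBoxC0U3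
import Vale.Agent.P100.Calib.SlabMidTailBoxC1U3
import Vale.Agent.P100.Calib.SlabMidTailBoxDU3
import Vale.Agent.P100.Calib.SlabMidTailBoxII0U3
import Vale.Agent.P100.Calib.SlabMidTailBoxIII0U3
import Vale.Agent.P100.Calib.SlabMidTailBoxIII1U3
import Vale.Agent.P100.Calib.SlabMidTailBoxIV0U3
import Vale.Agent.P100.Calib.SlabMidTailBoxIV1U3
import Vale.Agent.P100.Calib.SlabMidTailBoxII1U3a
import Vale.Agent.P100.Calib.SlabMidTailBoxII1U3b
import Vale.Agent.P100.Calib.SlabMidTailBoxII1U3c
import Vale.Agent.P100.Calib.SlabMidTailBoxII1U3e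
import Vale.Agent.P100.Calib.SlabMidTailBoxII1U3f
import Vale.Agent.P100.Calib.SlabMidTailBoxII1U3g
import Vale.Agent.P100.Calib.SlabMidTailBoxII1U3d
import Vale.Agent.P100.Calib.SlabMidTailBoxII1U2a
import Vale.Agent.P100.Calib.SlabMidTailBoxII1U2b
import Vale.Agent.P100.Calib.SlabMidTailBoxII1U2c
import Vale.Agent.P100.Calib.SlabChartOrbitAll
import Vale.Agent.P100.Calib.SlabMainOrbit

/-!
# The closed signs on `7/10 ≤ u ≤ 39/40`, dimensions from seven to twenty

The hypothesis `1/(p + 1) ≤ 31/100` holds throughout.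
-/

set_option linter.unusedVariables false

open Set Filter Topology

namespace Vale.Agent.P100.Calib.MidTail

open Pack EndAll Band

section

variable {d S u v t : ℝ}

theorem clip_small (hI0 : 0 ≤ (1 - S) / 2) (hI : (1 - S) / 2 ≤ 2 / 15)
    (ha : (S - d) / 2 ≤ 31 / 100) : ClipAt false (chartPt d S u v) := by
  show 2 * ((S - d) / 2) * (1 - (1 - S) / 2) ≤ (1 - 2 * ((1 - S) / 2)) ^ 2
  have h1 := mul_le_mul_of_nonneg_right ha (show 0 ≤ 1 - (1 - S) / 2 by linarith)
  have h2 := mul_nonneg (sub_nonneg.2 hI)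
    (show 0 ≤ 169 / 50 - 8 / 15 - 4 * ((1 - S) / 2) by linarith)
  linarith

theorem clip_low (hI0 : 0 ≤ (1 - S) / 2) (hI : (1 - S) / 2 ≤ 1 / 7)
    (ha : (S - d) / 2 ≤ 7 / 25) : ClipAt false (chartPt d S u v) := by
  show 2 * ((S - d) / 2) * (1 - (1 - S) / 2) ≤ (1 - 2 * ((1 - S) / 2)) ^ 2
  have h1 := mul_le_mul_of_nonneg_right ha (show 0 ≤ 1 - (1 - S) / 2 by linarith)
  have h2 := mul_nonneg (sub_nonneg.2 hI)
    (show 0 ≤ 86 / 25 - 4 / 7 - 4 * ((1 - S) / 2) by linarith)
  linarith

theorem clip_edge (hI0 : 0 ≤ (1 - S) / 2) (hI : (1 - S) / 2 ≤ 1 / 7)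
    (h : ClipAt true (chartPt d S u v)) : 119 / 400 ≤ (S - d) / 2 := by
  have h' : (1 - 2 * ((1 - S) / 2)) ^ 2 ≤ 2 * ((S - d) / 2) * (1 - (1 - S) / 2) := h
  by_contra hn
  have h1 := mul_lt_mul_of_pos_right (not_le.1 hn) (show 0 < 1 - (1 - S) / 2 by linarith)
  have h2 := mul_nonneg (sub_nonneg.2 hI)
    (show 0 ≤ 681 / 200 - 4 / 7 - 4 * ((1 - S) / 2) by linarith)
  linarith

theorem signs_A (h : ChartFactsP pieceA d S u v t) (hu0 : 7 / 10 ≤ u) (hu1 : u ≤ 39 / 40)
    (hI0 : 1 / 20 ≤ ((1 - S) / 2)) (hI1 : ((1 - S) / 2) < 1 / 12)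
    (ha0 : 1 / 20 ≤ ((S - d) / 2)) (ha1 : ((S - d) / 2) ≤ 31 / 100) : Closed.All.ChartSigns d S u v t := by
  have hc : ClipAt false (chartPt d S u v) := clip_small (by linarith) (by linarith) ha1
  rcases lt_or_ge u (22 / 25 : ℝ) with hu | hu
  · rcases lt_or_ge ((S - d) / 2) (9 / 50 : ℝ) with hs | hs
    · exact chart_of_box h (BoxA0U0.signs h ⟨by norm_num, by norm_num; linarith, by norm_num; linarith⟩ ⟨by norm_num, by norm_num; linarith, by norm_num; linarith⟩
        ⟨by norm_num, by norm_num; linarith, by norm_num; linarith⟩) hc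
    · exact chart_of_box h (BoxA1U0.signs h ⟨by norm_num, by norm_num; linarith, by norm_num; linarith⟩ ⟨by norm_num, by norm_num; linarith, by norm_num; linarith⟩
        ⟨by norm_num, by norm_num; linarith, by norm_num; linarith⟩) hc
  · rcases lt_or_ge u (93 / 100 : ℝ) with hu | hu
    · rcases lt_or_ge ((S - d) / 2) (9 / 50 : ℝ) with hs | hs
      · exact chart_of_box h (BoxA0U1.signs h ⟨by norm_num, by norm_num; linarith, by norm_num; linarith⟩ ⟨by norm_num, by norm_num; linarith, by norm_num; linarith⟩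
          ⟨by norm_num, by norm_num; linarith, by norm_num; linarith⟩) hc
      · exact chart_of_box h (BoxA1U1.signs h ⟨by norm_num, by norm_num; linarith, by norm_num; linarith⟩ ⟨by norm_num, by norm_num; linarith, by norm_num; linarith⟩
          ⟨by norm_num, by norm_num; linarith, by norm_num; linarith⟩) hc
    · rcases lt_or_ge u (191 / 200 : ℝ) with hu | hu
      · rcases lt_or_ge ((S - d) / 2) (9 / 50 : ℝ) with hs | hs
        · exact chart_of_box h (BoxA0U2.signs h ⟨by norm_num, by norm_num; linarith, by norm_num; linarith⟩ ⟨by norm_num, by norm_num; linarith, by norm_num; linarith⟩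
            ⟨by norm_num, by norm_num; linarith, by norm_num; linarith⟩) hc
        · exact chart_of_box h (BoxA1U2.signs h ⟨by norm_num, by norm_num; linarith, by norm_num; linarith⟩ ⟨by norm_num, by norm_num; linarith, by norm_num; linarith⟩
            ⟨by norm_num, by norm_num; linarith, by norm_num; linarith⟩) hc
      · rcases lt_or_ge ((S - d) / 2) (9 / 50 : ℝ) with hs | hs
        · exact chart_of_box h (BoxA0U3.signs h ⟨by norm_num, by norm_num; linarith, by norm_num; linarith⟩ ⟨by norm_num, by norm_num; linarith, by norm_num; linarith⟩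
            ⟨by norm_num, by norm_num; linarith, by norm_num; linarith⟩) hc
        · exact chart_of_box h (BoxA1U3.signs h ⟨by norm_num, by norm_num; linarith, by norm_num; linarith⟩ ⟨by norm_num, by norm_num; linarith, by norm_num; linarith⟩
            ⟨by norm_num, by norm_num; linarith, by norm_num; linarith⟩) hc

theorem signs_B (h : ChartFactsP pieceB d S u v t) (hu0 : 7 / 10 ≤ u) (hu1 : u ≤ 39 / 40)
    (hI0 : 1 / 12 ≤ ((1 - S) / 2)) (hI1 : ((1 - S) / 2) < 27 / 250)
    (ha0 : 1 / 12 ≤ ((S - d) / 2)) (ha1 : ((S - d) / 2) ≤ 31 / 100) : Closed.All.ChartSigns d S u v t := by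
  have hc : ClipAt false (chartPt d S u v) := clip_small (by linarith) (by linarith) ha1
  rcases lt_or_ge u (22 / 25 : ℝ) with hu | hu
  · rcases lt_or_ge ((S - d) / 2) (1 / 5 : ℝ) with hs | hs
    · exact chart_of_box h (BoxB0U0.signs h ⟨by norm_num, by norm_num; linarith, by norm_num; linarith⟩ ⟨by norm_num, by norm_num; linarith, by norm_num; linarith⟩
        ⟨by norm_num, by norm_num; linarith, by norm_num; linarith⟩) hc
    · exact chart_of_box h (BoxB1U0.signs h ⟨by norm_num, by norm_num; linarith, by norm_num; linarith⟩ ⟨by norm_num, by norm_num; linarith, by norm_num; linarith⟩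
        ⟨by norm_num, by norm_num; linarith, by norm_num; linarith⟩) hc
  · rcases lt_or_ge u (93 / 100 : ℝ) with hu | hu
    · rcases lt_or_ge ((S - d) / 2) (1 / 5 : ℝ) with hs | hs
      · exact chart_of_box h (BoxB0U1.signs h ⟨by norm_num, by norm_num; linarith, by norm_num; linarith⟩ ⟨by norm_num, by norm_num; linarith, by norm_num; linarith⟩
          ⟨by norm_num, by norm_num; linarith, by norm_num; linarith⟩) hc
      · exact chart_of_box h (BoxB1U1.signs h ⟨by norm_num, by norm_num; linarith, by norm_num; linarith⟩ ⟨by norm_num, by norm_num; linarith, by norm_num; linarith⟩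
          ⟨by norm_num, by norm_num; linarith, by norm_num; linarith⟩) hc
    · rcases lt_or_ge u (191 / 200 : ℝ) with hu | hu
      · rcases lt_or_ge ((S - d) / 2) (1 / 5 : ℝ) with hs | hs
        · exact chart_of_box h (BoxB0U2.signs h ⟨by norm_num, by norm_num; linarith, by norm_num; linarith⟩ ⟨by norm_num, by norm_num; linarith, by norm_num; linarith⟩
            ⟨by norm_num, by norm_num; linarith, by norm_num; linarith⟩) hc
        · exact chart_of_box h (BoxB1U2.signs h ⟨by norm_num, by norm_num; linarith, by norm_num; linarith⟩ ⟨by norm_num, by norm_num; linarith, by norm_num; linarith⟩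
            ⟨by norm_num, by norm_num; linarith, by norm_num; linarith⟩) hc
      · rcases lt_or_ge ((S - d) / 2) (1 / 5 : ℝ) with hs | hs
        · exact chart_of_box h (BoxB0U3.signs h ⟨by norm_num, by norm_num; linarith, by norm_num; linarith⟩ ⟨by norm_num, by norm_num; linarith, by norm_num; linarith⟩
            ⟨by norm_num, by norm_num; linarith, by norm_num; linarith⟩) hc
        · exact chart_of_box h (BoxB1U3.signs h ⟨by norm_num, by norm_num; linarith, by norm_num; linarith⟩ ⟨by norm_num, by norm_num; linarith, by norm_num; linarith⟩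
            ⟨by norm_num, by norm_num; linarith, by norm_num; linarith⟩) hc

theorem signs_C (h : ChartFactsP pieceC d S u v t) (hu0 : 7 / 10 ≤ u) (hu1 : u ≤ 39 / 40)
    (hI0 : 27 / 250 ≤ ((1 - S) / 2)) (hI1 : ((1 - S) / 2) ≤ 1 / 7)
    (ha0 : 27 / 250 ≤ ((S - d) / 2)) (ha1 : ((S - d) / 2) < 7 / 25) : Closed.All.ChartSigns d S u v t := by
  have hc : ClipAt false (chartPt d S u v) := clip_low (by linarith) hI1 ha1.le
  rcases lt_or_ge u (22 / 25 : ℝ) with hu | hu
  · rcases lt_or_ge ((S - d) / 2) (1 / 5 : ℝ) with hs | hs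
    · exact chart_of_box h (BoxC0U0.signs h ⟨by norm_num, by norm_num; linarith, by norm_num; linarith⟩ ⟨by norm_num, by norm_num; linarith, by norm_num; linarith⟩
        ⟨by norm_num, by norm_num; linarith, by norm_num; linarith⟩) hc
    · exact chart_of_box h (BoxC1U0.signs h ⟨by norm_num, by norm_num; linarith, by norm_num; linarith⟩ ⟨by norm_num, by norm_num; linarith, by norm_num; linarith⟩
        ⟨by norm_num, by norm_num; linarith, by norm_num; linarith⟩) hc
  · rcases lt_or_ge u (93 / 100 : ℝ) with hu | hu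
    · rcases lt_or_ge ((S - d) / 2) (1 / 5 : ℝ) with hs | hs
      · exact chart_of_box h (BoxC0U1.signs h ⟨by norm_num, by norm_num; linarith, by norm_num; linarith⟩ ⟨by norm_num, by norm_num; linarith, by norm_num; linarith⟩
          ⟨by norm_num, by norm_num; linarith, by norm_num; linarith⟩) hc
      · exact chart_of_box h (BoxC1U1.signs h ⟨by norm_num, by norm_num; linarith, by norm_num; linarith⟩ ⟨by norm_num, by norm_num; linarith, by norm_num; linarith⟩
          ⟨by norm_num, by norm_num; linarith, by norm_num; linarith⟩) hc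
    · rcases lt_or_ge u (191 / 200 : ℝ) with hu | hu
      · rcases lt_or_ge ((S - d) / 2) (1 / 5 : ℝ) with hs | hs
        · exact chart_of_box h (BoxC0U2.signs h ⟨by norm_num, by norm_num; linarith, by norm_num; linarith⟩ ⟨by norm_num, by norm_num; linarith, by norm_num; linarith⟩
            ⟨by norm_num, by norm_num; linarith, by norm_num; linarith⟩) hc
        · exact chart_of_box h (BoxC1U2.signs h ⟨by norm_num, by norm_num; linarith, by norm_num; linarith⟩ ⟨by norm_num, by norm_num; linarith, by norm_num; linarith⟩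
            ⟨by norm_num, by norm_num; linarith, by norm_num; linarith⟩) hc
      · rcases lt_or_ge ((S - d) / 2) (1 / 5 : ℝ) with hs | hs
        · exact chart_of_box h (BoxC0U3.signs h ⟨by norm_num, by norm_num; linarith, by norm_num; linarith⟩ ⟨by norm_num, by norm_num; linarith, by norm_num; linarith⟩
            ⟨by norm_num, by norm_num; linarith, by norm_num; linarith⟩) hc
        · exact chart_of_box h (BoxC1U3.signs h ⟨by norm_num, by norm_num; linarith, by norm_num; linarith⟩ ⟨by norm_num, by norm_num; linarith, by norm_num; linarith⟩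
            ⟨by norm_num, by norm_num; linarith, by norm_num; linarith⟩) hc

theorem signs_D (h : ChartFactsP pieceC d S u v t) (hu0 : 7 / 10 ≤ u) (hu1 : u ≤ 39 / 40)
    (hI0 : 27 / 250 ≤ ((1 - S) / 2)) (hI1 : ((1 - S) / 2) < 2 / 15)
    (ha0 : 7 / 25 ≤ ((S - d) / 2)) (ha1 : ((S - d) / 2) ≤ 31 / 100) : Closed.All.ChartSigns d S u v t := by
  have hc : ClipAt false (chartPt d S u v) := clip_small (by linarith) hI1.le ha1
  rcases lt_or_ge u (22 / 25 : ℝ) with hu | hu
  · exact chart_of_box h (BoxDU0.signs h ⟨by norm_num, by norm_num; linarith, by norm_num; linarith⟩ ⟨by norm_num, by norm_num; linarith, by norm_num; linarith⟩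
      ⟨by norm_num, by norm_num; linarith, by norm_num; linarith⟩) hc
  · rcases lt_or_ge u (93 / 100 : ℝ) with hu | hu
    · exact chart_of_box h (BoxDU1.signs h ⟨by norm_num, by norm_num; linarith, by norm_num; linarith⟩ ⟨by norm_num, by norm_num; linarith, by norm_num; linarith⟩
        ⟨by norm_num, by norm_num; linarith, by norm_num; linarith⟩) hc
    · rcases lt_or_ge u (191 / 200 : ℝ) with hu | hu
      · exact chart_of_box h (BoxDU2.signs h ⟨by norm_num, by norm_num; linarith, by norm_num; linarith⟩ ⟨by norm_num, by norm_num; linarith, by norm_num; linarith⟩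
          ⟨by norm_num, by norm_num; linarith, by norm_num; linarith⟩) hc
      · exact chart_of_box h (BoxDU3.signs h ⟨by norm_num, by norm_num; linarith, by norm_num; linarith⟩ ⟨by norm_num, by norm_num; linarith, by norm_num; linarith⟩
          ⟨by norm_num, by norm_num; linarith, by norm_num; linarith⟩) hc

theorem signs_IIf (h : ChartFactsP pieceC d S u v t) (hu0 : 7 / 10 ≤ u) (hu1 : u ≤ 39 / 40)
    (hc : ClipAt false (chartPt d S u v))
    (hI0 : 2 / 15 ≤ ((1 - S) / 2)) (hI1 : ((1 - S) / 2) < 7 / 50)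
    (ha0 : 7 / 25 ≤ ((S - d) / 2)) (ha1 : ((S - d) / 2) ≤ 31 / 100) : Closed.All.ChartSigns d S u v t := by
  rcases lt_or_ge u (22 / 25 : ℝ) with hu | hu
  · exact chart_of_box h (BoxII0U0.signs h ⟨by norm_num, by norm_num; linarith, by norm_num; linarith⟩ ⟨by norm_num, by norm_num; linarith, by norm_num; linarith⟩
      ⟨by norm_num, by norm_num; linarith, by norm_num; linarith⟩) hc
  · rcases lt_or_ge u (93 / 100 : ℝ) with hu | hu
    · exact chart_of_box h (BoxII0U1.signs h ⟨by norm_num, by norm_num; linarith, by norm_num; linarith⟩ ⟨by norm_num, by norm_num; linarith, by norm_num; linarith⟩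
        ⟨by norm_num, by norm_num; linarith, by norm_num; linarith⟩) hc
    · rcases lt_or_ge u (191 / 200 : ℝ) with hu | hu
      · exact chart_of_box h (BoxII0U2.signs h ⟨by norm_num, by norm_num; linarith, by norm_num; linarith⟩ ⟨by norm_num, by norm_num; linarith, by norm_num; linarith⟩
          ⟨by norm_num, by norm_num; linarith, by norm_num; linarith⟩) hc
      · exact chart_of_box h (BoxII0U3.signs h ⟨by norm_num, by norm_num; linarith, by norm_num; linarith⟩ ⟨by norm_num, by norm_num; linarith, by norm_num; linarith⟩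
          ⟨by norm_num, by norm_num; linarith, by norm_num; linarith⟩) hc

theorem signs_IIt2 (h : ChartFactsP pieceC d S u v t) (hu0 : 7 / 10 ≤ u) (hu1 : u ≤ 39 / 40)
    (hc : ClipAt true (chartPt d S u v)) (ha : 119 / 400 ≤ ((S - d) / 2))
    (hI0 : 2 / 15 ≤ ((1 - S) / 2)) (hI1 : ((1 - S) / 2) < 7 / 50)
    (ha0 : 7 / 25 ≤ ((S - d) / 2)) (ha1 : ((S - d) / 2) ≤ 31 / 100) (hu2 : 93 / 100 ≤ u) (hu3 : u < 191 / 200) : Closed.All.ChartSigns d S u v t := by
  rcases lt_or_ge ((S - d) / 2) (307 / 1000 : ℝ) with ht | ht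
  · exact chart_of_box h (BoxII1U2a.signs h ⟨by norm_num, by norm_num; linarith, by norm_num; linarith⟩ ⟨by norm_num, by norm_num; linarith, by norm_num; linarith⟩
      ⟨by norm_num, by norm_num; linarith, by norm_num; linarith⟩) hc
  · rcases lt_or_ge ((1 - S) / 2) (11 / 80 : ℝ) with hs | hs
    · exact chart_of_box h (BoxII1U2b.signs h ⟨by norm_num, by norm_num; linarith, by norm_num; linarith⟩ ⟨by norm_num, by norm_num; linarith, by norm_num; linarith⟩
        ⟨by norm_num, by norm_num; linarith, by norm_num; linarith⟩) hc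
    · exact chart_of_box h (BoxII1U2c.signs h ⟨by norm_num, by norm_num; linarith, by norm_num; linarith⟩ ⟨by norm_num, by norm_num; linarith, by norm_num; linarith⟩
        ⟨by norm_num, by norm_num; linarith, by norm_num; linarith⟩) hc

theorem signs_IIt3 (h : ChartFactsP pieceC d S u v t) (hu0 : 7 / 10 ≤ u) (hu1 : u ≤ 39 / 40)
    (hc : ClipAt true (chartPt d S u v)) (ha : 119 / 400 ≤ ((S - d) / 2))
    (hI0 : 2 / 15 ≤ ((1 - S) / 2)) (hI1 : ((1 - S) / 2) < 7 / 50)
    (ha0 : 7 / 25 ≤ ((S - d) / 2)) (ha1 : ((S - d) / 2) ≤ 31 / 100) (hu2 : 191 / 200 ≤ u) : Closed.All.ChartSigns d S u v t := by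
  rcases lt_or_ge ((S - d) / 2) (307 / 1000 : ℝ) with ht | ht
  · exact chart_of_box h (BoxII1U3a.signs h ⟨by norm_num, by norm_num; linarith, by norm_num; linarith⟩ ⟨by norm_num, by norm_num; linarith, by norm_num; linarith⟩
      ⟨by norm_num, by norm_num; linarith, by norm_num; linarith⟩) hc
  · rcases lt_or_ge ((1 - S) / 2) (11 / 80 : ℝ) with hs | hs
    · exact chart_of_box h (BoxII1U3b.signs h ⟨by norm_num, by norm_num; linarith, by norm_num; linarith⟩ ⟨by norm_num, by norm_num; linarith, by norm_num; linarith⟩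
        ⟨by norm_num, by norm_num; linarith, by norm_num; linarith⟩) hc
    · rcases lt_or_ge u (957 / 1000 : ℝ) with hp | hp
      · rcases lt_or_ge ((1 - S) / 2) (279 / 2000 : ℝ) with hq | hq
        · exact chart_of_box h (BoxII1U3e.signs h ⟨by norm_num, by norm_num; linarith, by norm_num; linarith⟩ ⟨by norm_num, by norm_num; linarith, by norm_num; linarith⟩
            ⟨by norm_num, by norm_num; linarith, by norm_num; linarith⟩) hc
        · rcases lt_or_ge ((S - d) / 2) (309 / 1000 : ℝ) with hr | hr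
          · exact chart_of_box h (BoxII1U3f.signs h ⟨by norm_num, by norm_num; linarith, by norm_num; linarith⟩ ⟨by norm_num, by norm_num; linarith, by norm_num; linarith⟩
              ⟨by norm_num, by norm_num; linarith, by norm_num; linarith⟩) hc
          · exact chart_of_box h (BoxII1U3g.signs h ⟨by norm_num, by norm_num; linarith, by norm_num; linarith⟩ ⟨by norm_num, by norm_num; linarith, by norm_num; linarith⟩
              ⟨by norm_num, by norm_num; linarith, by norm_num; linarith⟩) hc
      · rcases lt_or_ge u (193 / 200 : ℝ) with hq | hq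
        · exact chart_of_box h (BoxII1U3c.signs h ⟨by norm_num, by norm_num; linarith, by norm_num; linarith⟩ ⟨by norm_num, by norm_num; linarith, by norm_num; linarith⟩
            ⟨by norm_num, by norm_num; linarith, by norm_num; linarith⟩) hc
        · exact chart_of_box h (BoxII1U3d.signs h ⟨by norm_num, by norm_num; linarith, by norm_num; linarith⟩ ⟨by norm_num, by norm_num; linarith, by norm_num; linarith⟩
            ⟨by norm_num, by norm_num; linarith, by norm_num; linarith⟩) hc

theorem signs_IIt (h : ChartFactsP pieceC d S u v t) (hu0 : 7 / 10 ≤ u) (hu1 : u ≤ 39 / 40)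
    (hc : ClipAt true (chartPt d S u v)) (ha : 119 / 400 ≤ ((S - d) / 2))
    (hI0 : 2 / 15 ≤ ((1 - S) / 2)) (hI1 : ((1 - S) / 2) < 7 / 50)
    (ha0 : 7 / 25 ≤ ((S - d) / 2)) (ha1 : ((S - d) / 2) ≤ 31 / 100) : Closed.All.ChartSigns d S u v t := by
  rcases lt_or_ge u (22 / 25 : ℝ) with hu | hu
  · exact chart_of_box h (BoxII1U0.signs h ⟨by norm_num, by norm_num; linarith, by norm_num; linarith⟩ ⟨by norm_num, by norm_num; linarith, by norm_num; linarith⟩
      ⟨by norm_num, by norm_num; linarith, by norm_num; linarith⟩) hc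
  · rcases lt_or_ge u (93 / 100 : ℝ) with hu | hu
    · exact chart_of_box h (BoxII1U1.signs h ⟨by norm_num, by norm_num; linarith, by norm_num; linarith⟩ ⟨by norm_num, by norm_num; linarith, by norm_num; linarith⟩
        ⟨by norm_num, by norm_num; linarith, by norm_num; linarith⟩) hc
    · rcases lt_or_ge u (191 / 200 : ℝ) with hu | hu
      · exact signs_IIt2 h hu0 hu1 hc ha hI0 hI1 ha0 ha1 (by linarith) hu
      · exact signs_IIt3 h hu0 hu1 hc ha hI0 hI1 ha0 ha1 hu

theorem signs_II (h : ChartFactsP pieceC d S u v t) (hu0 : 7 / 10 ≤ u) (hu1 : u ≤ 39 / 40)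
    (hI0 : 2 / 15 ≤ ((1 - S) / 2)) (hI1 : ((1 - S) / 2) < 7 / 50)
    (ha0 : 7 / 25 ≤ ((S - d) / 2)) (ha1 : ((S - d) / 2) ≤ 31 / 100) : Closed.All.ChartSigns d S u v t := by
  rcases le_total (2 * ((S - d) / 2) * (1 - (1 - S) / 2)) ((1 - 2 * ((1 - S) / 2)) ^ 2) with hc | hc
  · exact signs_IIf h hu0 hu1 hc hI0 hI1 ha0 ha1
  · have ha := clip_edge (u := u) (v := v) (by linarith) (by linarith) hc
    exact signs_IIt h hu0 hu1 hc ha hI0 hI1 ha0 ha1

theorem signs_III (h : ChartFactsP pieceC d S u v t) (hu0 : 7 / 10 ≤ u) (hu1 : u ≤ 39 / 40)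
    (hI0 : 7 / 50 ≤ ((1 - S) / 2)) (hI1 : ((1 - S) / 2) ≤ 1 / 7)
    (ha0 : 7 / 25 ≤ ((S - d) / 2)) (ha1 : ((S - d) / 2) < 3 / 10) : Closed.All.ChartSigns d S u v t := by
  rcases le_total (2 * ((S - d) / 2) * (1 - (1 - S) / 2)) ((1 - 2 * ((1 - S) / 2)) ^ 2) with hc | hc
  · rcases lt_or_ge u (22 / 25 : ℝ) with hu | hu
    · exact chart_of_box h (BoxIII0U0.signs h ⟨by norm_num, by norm_num; linarith, by norm_num; linarith⟩ ⟨by norm_num, by norm_num; linarith, by norm_num; linarith⟩
        ⟨by norm_num, by norm_num; linarith, by norm_num; linarith⟩) hc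
    · rcases lt_or_ge u (93 / 100 : ℝ) with hu | hu
      · exact chart_of_box h (BoxIII0U1.signs h ⟨by norm_num, by norm_num; linarith, by norm_num; linarith⟩ ⟨by norm_num, by norm_num; linarith, by norm_num; linarith⟩
          ⟨by norm_num, by norm_num; linarith, by norm_num; linarith⟩) hc
      · rcases lt_or_ge u (191 / 200 : ℝ) with hu | hu
        · exact chart_of_box h (BoxIII0U2.signs h ⟨by norm_num, by norm_num; linarith, by norm_num; linarith⟩ ⟨by norm_num, by norm_num; linarith, by norm_num; linarith⟩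
            ⟨by norm_num, by norm_num; linarith, by norm_num; linarith⟩) hc
        · exact chart_of_box h (BoxIII0U3.signs h ⟨by norm_num, by norm_num; linarith, by norm_num; linarith⟩ ⟨by norm_num, by norm_num; linarith, by norm_num; linarith⟩
            ⟨by norm_num, by norm_num; linarith, by norm_num; linarith⟩) hc
  · have ha := clip_edge (u := u) (v := v) (by linarith) hI1 hc
    rcases lt_or_ge u (22 / 25 : ℝ) with hu | hu
    · exact chart_of_box h (BoxIII1U0.signs h ⟨by norm_num, by norm_num; linarith, by norm_num; linarith⟩ ⟨by norm_num, by norm_num; linarith, by norm_num; linarith⟩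
        ⟨by norm_num, by norm_num; linarith, by norm_num; linarith⟩) hc
    · rcases lt_or_ge u (93 / 100 : ℝ) with hu | hu
      · exact chart_of_box h (BoxIII1U1.signs h ⟨by norm_num, by norm_num; linarith, by norm_num; linarith⟩ ⟨by norm_num, by norm_num; linarith, by norm_num; linarith⟩
          ⟨by norm_num, by norm_num; linarith, by norm_num; linarith⟩) hc
      · rcases lt_or_ge u (191 / 200 : ℝ) with hu | hu
        · exact chart_of_box h (BoxIII1U2.signs h ⟨by norm_num, by norm_num; linarith, by norm_num; linarith⟩ ⟨by norm_num, by norm_num; linarith, by norm_num; linarith⟩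
            ⟨by norm_num, by norm_num; linarith, by norm_num; linarith⟩) hc
        · exact chart_of_box h (BoxIII1U3.signs h ⟨by norm_num, by norm_num; linarith, by norm_num; linarith⟩ ⟨by norm_num, by norm_num; linarith, by norm_num; linarith⟩
            ⟨by norm_num, by norm_num; linarith, by norm_num; linarith⟩) hc

theorem signs_IV (h : ChartFactsP pieceCor d S u v t) (hu0 : 7 / 10 ≤ u) (hu1 : u ≤ 39 / 40)
    (hI0 : 7 / 50 ≤ ((1 - S) / 2)) (hI1 : ((1 - S) / 2) ≤ 1 / 7)
    (ha0 : 3 / 10 ≤ ((S - d) / 2)) (ha1 : ((S - d) / 2) ≤ 31 / 100) : Closed.All.ChartSigns d S u v t := by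
  rcases le_total (2 * ((S - d) / 2) * (1 - (1 - S) / 2)) ((1 - 2 * ((1 - S) / 2)) ^ 2) with hc | hc
  · rcases lt_or_ge u (22 / 25 : ℝ) with hu | hu
    · exact chart_of_box h (BoxIV0U0.signs h ⟨by norm_num, by norm_num; linarith, by norm_num; linarith⟩ ⟨by norm_num, by norm_num; linarith, by norm_num; linarith⟩
        ⟨by norm_num, by norm_num; linarith, by norm_num; linarith⟩) hc
    · rcases lt_or_ge u (93 / 100 : ℝ) with hu | hu
      · exact chart_of_box h (BoxIV0U1.signs h ⟨by norm_num, by norm_num; linarith, by norm_num; linarith⟩ ⟨by norm_num, by norm_num; linarith, by norm_num; linarith⟩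
          ⟨by norm_num, by norm_num; linarith, by norm_num; linarith⟩) hc
      · rcases lt_or_ge u (191 / 200 : ℝ) with hu | hu
        · exact chart_of_box h (BoxIV0U2.signs h ⟨by norm_num, by norm_num; linarith, by norm_num; linarith⟩ ⟨by norm_num, by norm_num; linarith, by norm_num; linarith⟩
            ⟨by norm_num, by norm_num; linarith, by norm_num; linarith⟩) hc
        · exact chart_of_box h (BoxIV0U3.signs h ⟨by norm_num, by norm_num; linarith, by norm_num; linarith⟩ ⟨by norm_num, by norm_num; linarith, by norm_num; linarith⟩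
            ⟨by norm_num, by norm_num; linarith, by norm_num; linarith⟩) hc
  · rcases lt_or_ge u (22 / 25 : ℝ) with hu | hu
    · exact chart_of_box h (BoxIV1U0.signs h ⟨by norm_num, by norm_num; linarith, by norm_num; linarith⟩ ⟨by norm_num, by norm_num; linarith, by norm_num; linarith⟩
        ⟨by norm_num, by norm_num; linarith, by norm_num; linarith⟩) hc
    · rcases lt_or_ge u (93 / 100 : ℝ) with hu | hu
      · exact chart_of_box h (BoxIV1U1.signs h ⟨by norm_num, by norm_num; linarith, by norm_num; linarith⟩ ⟨by norm_num, by norm_num; linarith, by norm_num; linarith⟩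
          ⟨by norm_num, by norm_num; linarith, by norm_num; linarith⟩) hc
      · rcases lt_or_ge u (191 / 200 : ℝ) with hu | hu
        · exact chart_of_box h (BoxIV1U2.signs h ⟨by norm_num, by norm_num; linarith, by norm_num; linarith⟩ ⟨by norm_num, by norm_num; linarith, by norm_num; linarith⟩
            ⟨by norm_num, by norm_num; linarith, by norm_num; linarith⟩) hc
        · exact chart_of_box h (BoxIV1U3.signs h ⟨by norm_num, by norm_num; linarith, by norm_num; linarith⟩ ⟨by norm_num, by norm_num; linarith, by norm_num; linarith⟩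
            ⟨by norm_num, by norm_num; linarith, by norm_num; linarith⟩) hc

end

end Vale.Agent.P100.Calib.MidTail

namespace Vale.Agent.P100.Calib.Band

open Vale.Agent.P100.Bubble Chart Closed

variable {N p q : ℝ} {S : Set ℝ} {R x y s dx dy : ℝ → ℝ}

/-- **The closed signs on orbits at `7/10 ≤ u ≤ 39/40`** in the dimensions from seven to twenty. -/
theorem orbit_signs_tail_point {n : ℕ} (h7 : 7 ≤ n) (h20 : n < 20) (hc : IsCrit N p q)
    (hf : IsOrbitFns N p q S R x y s dx dy)
    (hb : SlabBoxAll N (1 / (p + 1)) (1 / (q + 1)))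
    (hcb : All.ChartBox n (1 / (q + 1) - 1 / (p + 1)) (1 / (p + 1) + 1 / (q + 1)))
    (ha : 1 / (p + 1) ≤ 31 / 100) {z : ℝ} (hz : z ∈ S) (hR : 0 < R z)
    (hu0 : 7 / 10 ≤ uOf N (R z) (x z)) (hu : uOf N (R z) (x z) ≤ 39 / 40) :
    All.ChartSigns (1 / (q + 1) - 1 / (p + 1)) (1 / (p + 1) + 1 / (q + 1)) (uOf N (R z) (x z))
      (vOf (1 / (p + 1)) (1 / (q + 1)) (y z / x z)) (slopeAt N p q R x y dx dy z) := by
  have hlo := hcb.dim_low
  have hhi := hcb.dim_high (by omega)
  rw [← hb.dim_eq] at hlo hhi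
  have n7 : (7 : ℝ) ≤ n := by exact_mod_cast h7
  have n19 : (n : ℝ) ≤ 19 := by
    have : n ≤ 19 := by omega
    exact_mod_cast this
  have N7 : 7 ≤ N := by linarith
  have N20 : N ≤ 20 := by linarith
  have hN : 0 < N := by linarith
  obtain ⟨-, -, hd, -⟩ := hb.facts
  obtain ⟨-, eH⟩ := slopeAt_eq_all hc hf hb hz hR.ne'
  have hF := chartFacts_orbit_all hc hf hb hz hR
  have eI : (1 - (1 / (p + 1) + 1 / (q + 1))) / 2 = 1 / N := by
    rw [div_eq_div_iff two_ne_zero hN.ne']
    linarith [hb.sum]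
  have e1 : (1 / (p + 1) + 1 / (q + 1) - (1 / (q + 1) - 1 / (p + 1))) / 2 = 1 / (p + 1) := by ring
  have e2 : (1 / (p + 1) + 1 / (q + 1) + (1 / (q + 1) - 1 / (p + 1))) / 2 = 1 / (q + 1) := by ring
  have eq : chH (1 / (q + 1) - 1 / (p + 1)) (1 / (p + 1) + 1 / (q + 1)) (uOf N (R z) (x z))
      (vOf (1 / (p + 1)) (1 / (q + 1)) (y z / x z)) (slopeAt N p q R x y dx dy z) =
      hOf N (R z) (x z) (y z) z / (1 / (q + 1) - 1 / (p + 1)) := by
    rw [eq_div_iff hd.ne', mul_comm]
    exact eH
  have hI0 : 1 / 20 ≤ (1 - (1 / (p + 1) + 1 / (q + 1))) / 2 := by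
    rw [eI]; exact one_div_le_one_div_of_le hN N20
  have hI7 : (1 - (1 / (p + 1) + 1 / (q + 1))) / 2 ≤ 1 / 7 := by
    rw [eI]; exact one_div_le_one_div_of_le (by norm_num) N7
  have hIa : (1 - (1 / (p + 1) + 1 / (q + 1))) / 2 ≤ 1 / (p + 1) := by linarith [hcb.one]
  rcases lt_or_ge ((1 - (1 / (p + 1) + 1 / (q + 1))) / 2) (1 / 12) with g | g
  · have h12 : 12 ≤ N := le_of_one_div_le_one_div hN (eI ▸ g.le)
    refine MidTail.signs_A (MidTail.facts_of hcb hF ?_ ?_) hu0 hu hI0 g ?_ ?_
    · rw [e1, e2, eq]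
      exact orbit_midA hf hb h12 N20 ha hz hR
    · simp only [MidTail.pieceA, List.mem_cons, List.not_mem_nil, or_false, forall_eq,
        MidTail.brV_exitL, e1]
      have hx := orbit_midExitA hf hb h12 N20 ha hz hR (by linarith)
      simp only [allStabI] at hx
      exact hx
    all_goals linarith
  have g12 : N ≤ 12 := by
    rw [eI, le_div_iff₀ hN] at g
    linarith
  rcases lt_or_ge ((1 - (1 / (p + 1) + 1 / (q + 1))) / 2) (27 / 250) with f | f
  · have g9 : 250 / 27 < N := by
      rw [eI, div_lt_iff₀ hN] at f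
      linarith
    refine MidTail.signs_B (MidTail.facts_of hcb hF ?_ ?_) hu0 hu g f ?_ ?_
    · rw [e1, e2, eq]
      exact orbit_midB hf hb g9 g12 ha hz hR
    · simp only [MidTail.pieceB, List.mem_cons, List.not_mem_nil, or_false, forall_eq,
        MidTail.brV_exitL, e1]
      have hx := orbit_midExitB hf hb g9 g12 ha hz hR (by linarith)
      simp only [allStabI] at hx
      exact hx
    all_goals linarith
  have g9 : N ≤ 250 / 27 := by
    rw [eI, le_div_iff₀ hN] at f
    linarith
  have hx1 := orbit_midExitC hf hb N7 g9 ha hz hR (by linarith)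
  have hx2 := orbit_midExitD hf hb N7 g9 ha hz hR hu
  simp only [allStabI] at hx1 hx2
  have hC : MidTail.ChartFactsP MidTail.pieceC (1 / (q + 1) - 1 / (p + 1))
      (1 / (p + 1) + 1 / (q + 1)) (uOf N (R z) (x z))
      (vOf (1 / (p + 1)) (1 / (q + 1)) (y z / x z)) (slopeAt N p q R x y dx dy z) := by
    refine MidTail.facts_of hcb hF ?_ ?_
    · rw [e1, e2, eq]
      exact orbit_midC hf hb N7 g9 ha hz hR
    · simp only [MidTail.pieceC, List.mem_cons, List.not_mem_nil, or_false, forall_eq_or_imp,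
        forall_eq, MidTail.brV_exitL, e1]
      exact ⟨hx1, hx2⟩
  rcases lt_or_ge (1 / (p + 1)) (7 / 25) with a1 | a1
  · refine MidTail.signs_C hC hu0 hu f hI7 ?_ ?_ <;> linarith
  rcases lt_or_ge ((1 - (1 / (p + 1) + 1 / (q + 1))) / 2) (2 / 15) with i1 | i1
  · refine MidTail.signs_D hC hu0 hu f i1 ?_ ?_ <;> linarith
  rcases lt_or_ge ((1 - (1 / (p + 1) + 1 / (q + 1))) / 2) (7 / 50) with i2 | i2
  · refine MidTail.signs_II hC hu0 hu i1 i2 ?_ ?_ <;> linarith
  rcases lt_or_ge (1 / (p + 1)) (3 / 10) with a2 | a2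
  · refine MidTail.signs_III hC hu0 hu i2 hI7 ?_ ?_ <;> linarith
  have g7 : N ≤ 50 / 7 := by
    rw [eI, le_div_iff₀ hN] at i2
    linarith
  have hu2 : uOf N (R z) (x z) ≤ 197 / 200 := by linarith
  have hx3 := orbit_midExitE hf hb N7 g7 a2 ha hz hR hu2
  simp only [allStabI] at hx3
  refine MidTail.signs_IV (MidTail.facts_of hcb hF ?_ ?_) hu0 hu i2 hI7 ?_ ?_
  · rw [e1, e2, eq]
    exact ⟨orbit_midCorner_low hf hb N7 g7 a2 ha hz hR hu2, (orbit_midC hf hb N7 g9 ha hz hR).2⟩
  · simp only [MidTail.pieceCor, List.mem_cons, List.not_mem_nil, or_false, forall_eq_or_imp,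
      forall_eq, MidTail.brV_exitL, MidTail.brV_cubicL, e1]
    exact ⟨hx1, hx2, hx3⟩
  all_goals linarith

/-- **The closed signs on the region `7/10 ≤ u ≤ 39/40`** in the dimensions from seven to twenty. -/
theorem orbit_signs_tail_mid {n : ℕ} (h7 : 7 ≤ n) (h20 : n < 20) :
    OrbitSignsSlope n (ZoneBetween (7 / 10) (39 / 40)) :=
  fun _ _ _ _ _ _ _ _ _ _ hc hf hb hcb ha _ hz _ hZ =>
    orbit_signs_tail_point h7 h20 hc hf hb hcb ha hz hZ.1 hZ.2.1 hZ.2.2

end Vale.Agent.P100.Calib.Band
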