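import Vale.Agent.P100.Calib.SlabMainThree
import Vale.Agent.P100.Calib.SlabSignsMidNeg
import Vale.Agent.P100.Calib.SlabMidSignsZone
import Vale.Agent.P100.Calib.SlabMidUpZone
import Vale.Agent.P100.Calib.SlabMidTailOrbit
import Vale.Agent.P100.Calib.SlabLowEndZone

/-!
# The dimensions from seven to twenty for one exponent at least `69/31`
-/

set_option linter.unusedVariables false

open Set Laplacian

namespace Vale.Agent.P100.Calib.Band

open Vale.Agent.P100.Bubble Chart Closed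

variable {n : ℕ}

/-- The signs at and below the crossing for the dimensions from seven to twenty (slope side only). -/
theorem orbit_signs_below_mid_neg (hn : 7 ≤ n) (hn' : n < 20) : OrbitSignsSlope n ZoneNeg := by
  intro N p q S R x y s dx dy hc hf hb hcb ha z hz hκ hR
  have hd := hb.dim_eq
  have h7 : 7 ≤ N := by
    have h := hcb.dim_low
    rw [← hd] at h
    have : (7 : ℝ) ≤ n := by exact_mod_cast hn
    linarith
  have h20 : N < 20 := by
    have h := hcb.dim_high hn'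
    rw [← hd] at h
    exact h
  exact All.signsNeg_mid hn hn' hcb
    (by rw [show (1 / (p + 1) + 1 / (q + 1) - (1 / (q + 1) - 1 / (p + 1))) / 2 = 1 / (p + 1) by
      ring]; exact ha)
    (div_nonpos_of_nonpos_of_nonneg
      (mul_nonpos_of_nonpos_of_nonneg (mul_nonpos_of_nonneg_of_nonpos two_pos.le hR)
        (hf.x_pos z hz).le) (by linarith [hb.six]))
    (orbit_midNeg hc hf hb h7 h20 ha hz hR hκ)

/-- The signs on the whole of `0 < u ≤ 39/40` for the dimensions from seven to twenty. -/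
theorem orbit_signs_below_mid_upto (hn : 7 ≤ n) (hn' : n < 20) :
    OrbitSignsSlope n (ZoneUpTo (39 / 40)) :=
  (orbit_signs_zone_low_mid hn hn').mono
    ((orbit_signs_zone_up_mid hn hn').mono (orbit_signs_tail_mid hn hn')
      fun r u (h : ZoneBetween (3 / 5) (39 / 40) r u) =>
        (le_or_gt u (7 / 10)).imp (fun e => ⟨h.1, h.2.1, e⟩) fun e => ⟨h.1, e.le, h.2.2⟩)
    fun r u h => (le_or_gt u (3 / 5)).imp (fun e => ⟨h.1, e⟩) fun e => ⟨h.1, e.le, h.2⟩

/-- **The conjecture for `7 ≤ n < 20` and `min (1/(p+1)) (1/(q+1)) ≤ 31/100`.** -/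
theorem lane_emden_seven_to_twenty_below (hn : 7 ≤ n) (hn' : n < 20) {p q : ℝ} (hp : 0 < p)
    (hq : 0 < q) (ha : min (1 / (p + 1)) (1 / (q + 1)) ≤ 31 / 100)
    (hsub : ((n : ℝ) - 2) / n < 1 / (p + 1) + 1 / (q + 1)) :
    ¬ ∃ u v : EuclideanSpace ℝ (Fin n) → ℝ,
      Continuous u ∧ Continuous v ∧ ContDiffOn ℝ 2 u {0}ᶜ ∧ ContDiffOn ℝ 2 v {0}ᶜ ∧
      (∀ x, 0 < u x) ∧ (∀ x, 0 < v x) ∧ (∀ x, x ≠ 0 → Δ u x = -(v x) ^ p) ∧
      (∀ x, x ≠ 0 → Δ v x = -(u x) ^ q) :=
  lane_emden_below_of_orbit_signs (by omega)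
    (orbit_signs_slope_three (orbit_signs_below_mid_neg hn hn')
      (orbit_signs_below_mid_upto hn hn') (orbit_signs_zone_end_low_all hn hn')) hp hq ha hsub

end Vale.Agent.P100.Calib.Band
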