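import Vale.Agent.P100.Calib.SlabStripEndSigns
import Vale.Agent.P100.Calib.SlabStripMidSevFarOrbit

/-!
# The zone `4/5 ≤ u` of the strip from seven to twenty, from the statements for the single charts
-/

namespace Vale.Agent.P100.Calib.Band

open Bubble Chart

/-- The zone `4/5 ≤ u` from seven to twenty. -/
theorem orbit_signs_strip_last7 {n : ℕ} (hn : 7 ≤ n) (hn' : n < 20) (hZ : StripEnd.CertsIZ7 n)
    (hC : StripEnd.CertsC7 n) (hD : StripEnd.CertsD7 n) :
    OrbitSignsStrip n (ZoneFrom (4 / 5)) :=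
  (StripMid.orbit_signs_strip_far7 hn hn').mono
    (StripEnd.orbit_signs_strip_end7_of hn hn' hZ hC hD)
    fun r u h => (lt_or_eq_of_le h.2).symm.imp (fun e => ⟨h.1, by linarith, e.ge⟩) fun e => ⟨h.1, e⟩

end Vale.Agent.P100.Calib.Band
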