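import Vale.Agent.P100.Calib.ConeMainOrbit
import Vale.Agent.P100.Calib.SlabMainMidBelow
import Vale.Agent.P100.Calib.SlabMainMid
import Vale.Agent.P100.Calib.SlabStripEndZoneSev

/-!
# The system with a common weight for `7 ≤ ν ≤ 159/8` from the charts of the end of the strip
-/

set_option linter.unusedVariables false

open Set Laplacian

namespace Vale.Agent.P100.Calib.Band

open Closed

/-- The signs of the strip in dimension seven from the charts of its end. -/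
theorem orbit_signs_strip_seven (hZ : StripEnd.CertsIZ7 7) (hC : StripEnd.CertsC7 7)
    (hD : StripEnd.CertsD7 7) : OrbitSignsStrip 7 ZoneAll :=
  orbit_signs_strip_all le_rfl (orbit_signs_strip_mid_low le_rfl (by norm_num))
    (orbit_signs_strip_from (orbit_signs_strip_mid_low le_rfl (by norm_num))
      (StripMid.orbit_signs_strip_far7 le_rfl (by norm_num))
      (orbit_signs_strip_last7 le_rfl (by norm_num) hZ hC hD))

/-- **No solution for `7 ≤ ν = 2 (n + w) / (2 + w) ≤ 159/8` and subcritical `p, q`**, from the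
charts of the end of the strip. -/
theorem henon_lane_emden_low_of_certs (hZ : StripEnd.CertsIZ7 7) (hC : StripEnd.CertsC7 7)
    (hD : StripEnd.CertsD7 7) {n : ℕ} (hn : 3 ≤ n) {w : ℝ} (hw0 : w ≤ 0)
    (hlo : 5 * w ≤ 2 * (n : ℝ) - 14) (hhi : 16 * (n : ℝ) - 318 ≤ 143 * w) {p q : ℝ} (hp : 0 < p)
    (hq : 0 < q) (hsub : (n : ℝ) - 2 < ((n : ℝ) + w) / (p + 1) + ((n : ℝ) + w) / (q + 1)) :
    ¬ ∃ u v : EuclideanSpace ℝ (Fin n) → ℝ,
      Continuous u ∧ Continuous v ∧ ContDiffOn ℝ 2 u {0}ᶜ ∧ ContDiffOn ℝ 2 v {0}ᶜ ∧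
      (∀ x, 0 < u x) ∧ (∀ x, 0 < v x) ∧ (∀ x, x ≠ 0 → Δ u x = -(‖x‖ ^ w * v x ^ p)) ∧
      (∀ x, x ≠ 0 → Δ v x = -(‖x‖ ^ w * u x ^ q)) :=
  henon_lane_emden_low_of
    (orbit_signs_slope_three (orbit_signs_below_mid_neg le_rfl (by norm_num))
      (orbit_signs_below_mid_upto le_rfl (by norm_num))
      (orbit_signs_zone_end_low_all le_rfl (by norm_num)))
    (orbit_signs_strip_seven hZ hC hD) hn hw0 hlo hhi hp hq hsub

/-- **The Lane–Emden conjecture in the dimensions from seven to nineteen**, from the same charts. -/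
theorem lane_emden_seven_to_twenty_of_certs (hZ : StripEnd.CertsIZ7 7) (hC : StripEnd.CertsC7 7)
    (hD : StripEnd.CertsD7 7) {n : ℕ} (hn : 7 ≤ n) (hn2 : n < 20) {p q : ℝ} (hp : 0 < p)
    (hq : 0 < q) (hsub : ((n : ℝ) - 2) / n < 1 / (p + 1) + 1 / (q + 1)) :
    ¬ ∃ u v : EuclideanSpace ℝ (Fin n) → ℝ,
      Continuous u ∧ Continuous v ∧ ContDiffOn ℝ 2 u {0}ᶜ ∧ ContDiffOn ℝ 2 v {0}ᶜ ∧
      (∀ x, 0 < u x) ∧ (∀ x, 0 < v x) ∧ (∀ x, x ≠ 0 → Δ u x = -(v x) ^ p) ∧
      (∀ x, x ≠ 0 → Δ v x = -(u x) ^ q) := by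
  have hn' : (7 : ℝ) ≤ n := by exact_mod_cast hn
  have hn2' : (n : ℝ) ≤ 19 := by exact_mod_cast (show n ≤ 19 by omega)
  have h := henon_lane_emden_low_of_certs hZ hC hD (n := n) (by omega) (le_refl (0 : ℝ))
    (by linarith) (by linarith) hp hq (by
      rw [div_lt_iff₀ (by linarith)] at hsub
      rw [add_zero, div_eq_mul_one_div (n : ℝ) (p + 1), div_eq_mul_one_div (n : ℝ) (q + 1)]
      linarith)
  simpa [Real.rpow_zero] using h

end Vale.Agent.P100.Calib.Band
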