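import Vale.Agent.P100.Calib.ConeFinalLarge
import Vale.Agent.P100.Calib.ConeFinalLow

/-!
# The conjecture from dimension seven on, from the charts of the end of the strip
-/

set_option linter.unusedVariables false

open Set Laplacian

namespace Vale.Agent.P100.Calib.Band

/-- **No solution for `7 ≤ ν ≤ 159/8` or `20 ≤ ν` and subcritical `p, q`.** -/
theorem henon_lane_emden_seven_up_of_certs (hZ : StripEnd.CertsIZ 20) (hC : StripEnd.CertsC 20)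
    (hD : StripEnd.CertsD 20) (hZ7 : StripEnd.CertsIZ7 7) (hC7 : StripEnd.CertsC7 7)
    (hD7 : StripEnd.CertsD7 7) {n : ℕ} (hn : 3 ≤ n) {w : ℝ} (hw0 : w ≤ 0)
    (hdim : (5 * w ≤ 2 * (n : ℝ) - 14 ∧ 16 * (n : ℝ) - 318 ≤ 143 * w) ∨ 9 * w ≤ (n : ℝ) - 20)
    {p q : ℝ} (hp : 0 < p) (hq : 0 < q)
    (hsub : (n : ℝ) - 2 < ((n : ℝ) + w) / (p + 1) + ((n : ℝ) + w) / (q + 1)) :
    ¬ ∃ u v : EuclideanSpace ℝ (Fin n) → ℝ,
      Continuous u ∧ Continuous v ∧ ContDiffOn ℝ 2 u {0}ᶜ ∧ ContDiffOn ℝ 2 v {0}ᶜ ∧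
      (∀ x, 0 < u x) ∧ (∀ x, 0 < v x) ∧ (∀ x, x ≠ 0 → Δ u x = -(‖x‖ ^ w * v x ^ p)) ∧
      (∀ x, x ≠ 0 → Δ v x = -(‖x‖ ^ w * u x ^ q)) :=
  hdim.elim (fun h => henon_lane_emden_low_of_certs hZ7 hC7 hD7 hn hw0 h.1 h.2 hp hq hsub)
    fun h => henon_lane_emden_large_of_certs hZ hC hD hn hw0 h hp hq hsub

/-- **The Lane–Emden conjecture in every dimension from seven on.** -/
theorem lane_emden_seven_up_of_certs (hZ : StripEnd.CertsIZ 20) (hC : StripEnd.CertsC 20)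
    (hD : StripEnd.CertsD 20) (hZ7 : StripEnd.CertsIZ7 7) (hC7 : StripEnd.CertsC7 7)
    (hD7 : StripEnd.CertsD7 7) {n : ℕ} (hn : 7 ≤ n) {p q : ℝ} (hp : 0 < p) (hq : 0 < q)
    (hsub : ((n : ℝ) - 2) / n < 1 / (p + 1) + 1 / (q + 1)) :
    ¬ ∃ u v : EuclideanSpace ℝ (Fin n) → ℝ,
      Continuous u ∧ Continuous v ∧ ContDiffOn ℝ 2 u {0}ᶜ ∧ ContDiffOn ℝ 2 v {0}ᶜ ∧
      (∀ x, 0 < u x) ∧ (∀ x, 0 < v x) ∧ (∀ x, x ≠ 0 → Δ u x = -(v x) ^ p) ∧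
      (∀ x, x ≠ 0 → Δ v x = -(u x) ^ q) :=
  (lt_or_ge n 20).elim (fun h => lane_emden_seven_to_twenty_of_certs hZ7 hC7 hD7 hn h hp hq hsub)
    fun h => lane_emden_large_of_certs hZ hC hD h hp hq hsub

end Vale.Agent.P100.Calib.Band
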