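import Vale.Agent.P100.Calib.SlabBandExpr
import Vale.Agent.P100.Calib.SlabBandsOrbit

/-!
# The band signs on the dimension five slab
-/

namespace Vale.Agent.P100.Calib.Band

open BoxPos Bubble Chart

/-- The packing. -/
def bandCfg : Cfg := ⟨250, ⟨7, 3, 7, 6⟩⟩

theorem low_check : eLow.check bandCfg (boxUV 0 601 4451) = true := by decide +kernel

theorem exit_check : eExit.check bandCfg (boxUV 0 601 331) = true := by decide +kernel

theorem lower_check₁ : eLower.check bandCfg (boxUV 0 201 1581) = true := by decide +kernel

theorem lower_check₂ : eLower.check bandCfg (boxUV 200 451 2801) = true := by decide +kernel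

theorem lower_check₃ : eLower.check bandCfg (boxUV 450 521 3421) = true := by decide +kernel

theorem lower_check₄ : eLower.check bandCfg (boxUV 520 561 3911) = true := by decide +kernel

theorem lower_check₅ : eLower.check bandCfg (boxUV 560 601 4451) = true := by decide +kernel

theorem upper_check : eUpper.check bandCfg (boxUV 0 601 4451) = true := by decide +kernel

theorem val_lie (c₁ c₂ c₃ : Ex) (u v d S : ℝ) :
    (eLie c₁ c₂ c₃).val u v d S =
      lieT S d u v (c₁.val u v d S) (c₂.val u v d S) (c₃.val u v d S) := by
  simp only [eLie, eB, eA, val_add, val_sub, val_mul, Ex.val, lieT, bandB, bandK, bandD, bandQ]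
  push_cast
  ring

theorem val_exit (u v d S : ℝ) : eExit.val u v d S = exitT S d u := by
  simp only [eExit, eB, eA, val_add, val_sub, val_mul, Ex.val, exitT, bandB]
  push_cast
  ring

/-- **The band signs.** -/
theorem bandSigns {S d : ℝ} (hd : 0 ≤ d) (hd1 : d ≤ 1 / 5) (hS : 3 / 5 ≤ S)
    (hS1 : S ≤ 307 / 507) : BandSigns S d := by
  have mD : sideD.Mem d := by
    refine ⟨?_, ?_⟩ <;> norm_num [sideD] <;> linarith
  have mS : sideS.Mem S := by
    refine ⟨?_, ?_⟩ <;> norm_num [sideS] <;> linarith
  have cast : ∀ {a b : ℤ} {x : ℝ}, (a : ℝ) / 1000 ≤ x → x < (b : ℝ) / 1000 →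
      (⟨a, b, 1000⟩ : Side).Mem x := fun h1 h2 => by
    refine ⟨?_, ?_⟩ <;> push_cast <;> assumption
  refine ⟨fun u v hu hu1 hv hv1 => ?_, fun u hu hu1 => ?_,
    fun u v hu hu1 hv hv1 h1 h2 h3 h4 => ?_, fun u v hu hu1 hv hv1 => ?_⟩
  · have := Ex.pos_of_check low_check (cast (x := u) (by push_cast; linarith) (by push_cast; linarith))
      (cast (x := v) (by push_cast; linarith) (by push_cast; linarith)) mD mS
    rw [eLow, val_lie] at this
    simpa [val_add, val_sub, val_mul, Ex.val] using this
  · have := Ex.pos_of_check exit_check (cast (x := u) (by push_cast; linarith) (by push_cast; linarith))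
      (cast (x := 33 / 100) (by norm_num) (by norm_num)) mD mS
    rwa [val_exit] at this
  · have key : 0 < eLower.val u v d S := by
      rcases le_or_gt u (1 / 5) with g1 | g1
      · exact Ex.pos_of_check lower_check₁
          (cast (by push_cast; linarith) (by push_cast; linarith))
          (cast (by push_cast; linarith) (by push_cast; linarith [h1 g1])) mD mS
      rcases le_or_gt u (9 / 20) with g2 | g2
      · exact Ex.pos_of_check lower_check₂
          (cast (by push_cast; linarith) (by push_cast; linarith))
          (cast (by push_cast; linarith) (by push_cast; linarith [h2 g2])) mD mS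
      rcases le_or_gt u (13 / 25) with g3 | g3
      · exact Ex.pos_of_check lower_check₃
          (cast (by push_cast; linarith) (by push_cast; linarith))
          (cast (by push_cast; linarith) (by push_cast; linarith [h3 g3])) mD mS
      rcases le_or_gt u (14 / 25) with g4 | g4
      · exact Ex.pos_of_check lower_check₄
          (cast (by push_cast; linarith) (by push_cast; linarith))
          (cast (by push_cast; linarith) (by push_cast; linarith [h4 g4])) mD mS
      exact Ex.pos_of_check lower_check₅
        (cast (by push_cast; linarith) (by push_cast; linarith))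
        (cast (by push_cast; linarith) (by push_cast; linarith)) mD mS
    rw [eLower, val_lie] at key
    simpa [val_add, val_sub, val_mul, Ex.val] using key
  · have := Ex.pos_of_check upper_check
      (cast (x := u) (by push_cast; linarith) (by push_cast; linarith))
      (cast (x := v) (by push_cast; linarith) (by push_cast; linarith)) mD mS
    rw [eUpper, val_sub, val_lie] at this
    simpa [val_add, val_sub, val_mul, Ex.val] using this

/-- The slab of dimension five lies in the box. -/
theorem slabBox_five {N al be σ : ℝ} (hσ : σ = al + be) (hN : N * (1 - σ) = 2) (h5 : 5 < N)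
    (hσ1 : 3 / 5 < σ) (hσ2 : σ < 307 / 507) (hlay : 2 * σ - 1 ≤ al) (hal : 1 / 5 < al)
    (hlt : al < be) : SlabBox N al be where
  five := h5.le
  sum := by rw [← hσ]; exact hN
  low := by
    have := mul_le_mul h5.le hal.le (by norm_num) (by linarith)
    linarith
  lt := hlt
  diff := by linarith
  S_low := by linarith
  S_high := by linarith

/-- **The bands of an orbit**, without sign hypotheses. -/
theorem orbit_bands_five {N p q : ℝ} {S : Set ℝ} {R x y s dx dy : ℝ → ℝ}
    (hf : IsOrbitFns N p q S R x y s dx dy) (hb : SlabBox N (1 / (p + 1)) (1 / (q + 1)))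
    {w : ℝ} (hw : w ∈ S) (hw0 : 0 < R w) (hwu : uOf N (R w) (x w) ≤ 3 / 5) :
    let al := 1 / (p + 1)
    let be := 1 / (q + 1)
    let u := uOf N (R w) (x w)
    let r := y w / x w
    vOf al be r < phiB u ∧
      bandL N al be (be - al) (1 - 7 / 2 * (be - al)) (-6 / 5 - 3 * (be - al)) 0 u r <
        hOf N (R w) (x w) (y w) w ∧
      hOf N (R w) (x w) (y w) w < bandL N al be (be - al) (8 / 5 - 4 * (be - al)) 3 6 u r :=
  orbit_bands hf hb (bandSigns hb.facts.2.2.1.le hb.diff hb.S_low hb.S_high) hw hw0 hwu

end Vale.Agent.P100.Calib.Band
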