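import Vale.Agent.P100.Calib.SlabRungChecks
import Vale.Agent.P100.Calib.SlabLadder
import Vale.Agent.P100.Calib.SlabBandSigns

/-!
# The first rungs of the ladder up to `u = 9/10`

On every orbit of the dimension five slab, for `0 < R` and `u ≤ 9/10`, with
`d = be - al`, `v = (be r / al - 1) / d`:
`h > hc - d (1/2 + 3 d) u`, `v < 1 + (77/50) u / (13/10 - u)`,
`h > hc + d u (23/20 - 15 d/4 + (17/10 - 211 d/25) u)` and `v < 701/1000 + (5/8) u / (21/20 - u)`.
-/

namespace Vale.Agent.P100.Calib.Band

open BoxPos Bubble Chart

variable {N p q : ℝ} {S : Set ℝ} {R x y s dx dy : ℝ → ℝ}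

/-- `φ₁ u = 1 + (77/50) u / (13/10 - u)`. -/
noncomputable def phiOne (u : ℝ) : ℝ := phiG 1 (77 / 65) (77 / 65) (13 / 10) u

/-- `φ₂ u = 701/1000 + (5/8) u / (21/20 - u)`. -/
noncomputable def phiTwo (u : ℝ) : ℝ := phiG (701 / 1000) (25 / 42) (25 / 42) (21 / 20) u

theorem phiOne_eq {u : ℝ} (hu : u < 13 / 10) : phiOne u = 1 + 77 / 50 * u / (13 / 10 - u) := by
  have : (13 : ℝ) / 10 - u ≠ 0 := by linarith
  unfold phiOne phiG
  generalize hG : (13 : ℝ) / 10 - u = G at this ⊢
  field_simp
  subst hG
  ring

theorem phiTwo_eq {u : ℝ} (hu : u < 21 / 20) : phiTwo u = 701 / 1000 + 5 / 8 * u / (21 / 20 - u) := by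
  have : (21 : ℝ) / 20 - u ≠ 0 := by linarith
  unfold phiTwo phiG
  generalize hG : (21 : ℝ) / 20 - u = G at this ⊢
  field_simp
  subst hG
  ring

theorem phiOne_mono {u b : ℝ} (hub : u ≤ b) (hb : b < 13 / 10) : phiOne u ≤ phiOne b := by
  rw [phiOne_eq (lt_of_le_of_lt hub hb), phiOne_eq hb]
  have h1 : 0 < (13 : ℝ) / 10 - b := by linarith
  have h2 : 0 < (13 : ℝ) / 10 - u := by linarith
  rw [add_le_add_iff_left, div_le_div_iff₀ h2 h1]
  linarith

theorem phiG_mono {a b k c u w : ℝ} (hb : 0 ≤ b) (hk : 0 ≤ k) (hu : 0 ≤ u) (huw : u ≤ w)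
    (hw : w < c) : phiG a b k c u ≤ phiG a b k c w := by
  unfold phiG
  gcongr <;> linarith

theorem phiTwo_mono {u w : ℝ} (hu : 0 ≤ u) (huw : u ≤ w) (hw : w < 21 / 20) :
    phiTwo u ≤ phiTwo w :=
  phiG_mono (by norm_num) (by norm_num) hu huw hw

theorem side_mem {a b : ℤ} {x : ℝ} (h1 : (a : ℝ) / 1000 ≤ x) (h2 : x < (b : ℝ) / 1000) :
    (⟨a, b, 1000⟩ : Side).Mem x := by
  refine ⟨?_, ?_⟩ <;> push_cast <;> assumption

theorem sideS_mem {N al be : ℝ} (h : SlabBox N al be) : sideS.Mem (al + be) := by
  have := h.S_low
  have := h.S_high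
  refine ⟨?_, ?_⟩ <;> norm_num [sideS] <;> linarith

theorem dv_lt {N al be r : ℝ} (h : SlabBox N al be) (hk : (N - 2) * be * r < N * al) :
    (be - al) * vOf al be r < 2 / 3 := by
  obtain ⟨hal, hbe, hd, -⟩ := h.facts
  have hr : (be - al) * vOf al be r = be / al * r - 1 := by
    unfold vOf; field_simp
  have e : N - 2 = N * (al + be) := by linarith [h.sum]
  rw [hr, sub_lt_iff_lt_add]
  rw [e] at hk
  have h1 : (al + be) * (be / al * r) < 1 := by
    refine lt_of_mul_lt_mul_left (a := N * al) ?_ (mul_nonneg (by linarith [h.five]) hal.le)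
    have : N * al * ((al + be) * (be / al * r)) = N * (al + be) * be * r := by field_simp
    linarith
  have h2 : 3 / 5 * (be / al * r) ≤ (al + be) * (be / al * r) ∨ be / al * r ≤ 0 := by
    rcases le_total 0 (be / al * r) with h0 | h0
    · exact Or.inl (mul_le_mul_of_nonneg_right h.S_low h0)
    · exact Or.inr h0
  rcases h2 with h2 | h2 <;> linarith

/-- **The crude lower band** up to `u = 9/10`. -/
theorem orbit_low_nine (hf : IsOrbitFns N p q S R x y s dx dy)
    (hb : SlabBox N (1 / (p + 1)) (1 / (q + 1)))
    {w : ℝ} (hw : w ∈ S) (hw0 : 0 < R w) (hwu : uOf N (R w) (x w) ≤ 9 / 10) :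
    let al := 1 / (p + 1)
    let be := 1 / (q + 1)
    bandL N al be (be - al) (-1 / 2 - 3 * (be - al)) 0 0 (uOf N (R w) (x w)) (y w / x w) <
      hOf N (R w) (x w) (y w) w := by
  intro al be
  have hd : 0 ≤ be - al := hb.facts.2.2.1.le
  have hd1 : be - al ≤ 1 / 5 := hb.diff
  have := band_step hf hb (one_mul 1) le_rfl (-1 / 2 - 3 * (be - al)) 0 0 (fun _ _ => True)
    (fun _ _ _ _ => trivial) (bd := 0) (by norm_num)
    (fun u _ _ => by linarith) (fun u r hu hu1 _ hv hv1 => ?_) hw hw0 hwu
  · linarith
  · rw [one_mul]
    have key := Ex.pos_of_check low₀_check (y₀ := u) (y₁ := vOf al be r) (y₂ := be - al)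
      (y₃ := al + be) (side_mem (by push_cast; linarith) (by push_cast; linarith))
      (side_mem (by push_cast; linarith) (by push_cast; linarith))
      (side_mem (by push_cast; linarith) (by push_cast; linarith)) (sideS_mem hb)
    rw [eLow₀, val_lie] at key
    simpa [al, be, cL₀, Ex.val] using key

/-- **The first exit curve** up to `u = 9/10`. -/
theorem orbit_phiOne (hf : IsOrbitFns N p q S R x y s dx dy)
    (hb : SlabBox N (1 / (p + 1)) (1 / (q + 1)))
    {w : ℝ} (hw : w ∈ S) (hw0 : 0 < R w) (hwu : uOf N (R w) (x w) ≤ 9 / 10) :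
    vOf (1 / (p + 1)) (1 / (q + 1)) (y w / x w) < phiOne (uOf N (R w) (x w)) := by
  have hd : 0 ≤ 1 / (q + 1) - 1 / (p + 1) := hb.facts.2.2.1.le
  have hd1 : 1 / (q + 1) - 1 / (p + 1) ≤ 1 / 5 := hb.diff
  refine exit_step (a := 1) (b := 77 / 65) (k := 77 / 65) (c := 13 / 10) hf hb le_rfl
    (by norm_num) one_pos (by norm_num) (by norm_num)
    (by norm_num [phiG]) (fun w hw hw0 hwu => orbit_low_nine hf hb hw hw0 hwu) (bd := 0)
    (by norm_num) (fun u _ _ => by linarith) (fun u hu hu1 _ _ => ?_) (fun u hu hu1 => ?_)
    hw hw0 hwu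
  · have key : 0 < eExit₁.val u (33 / 100) (1 / (q + 1) - 1 / (p + 1))
        (1 / (p + 1) + 1 / (q + 1)) := by
      rcases lt_or_ge u (7 / 10) with g | g
      · exact Ex.pos_of_check exit₁_check_0
          (side_mem (by push_cast; linarith) (by push_cast; linarith))
          (side_mem (by norm_num) (by norm_num))
          (side_mem (by push_cast; linarith) (by push_cast; linarith)) (sideS_mem hb)
      · exact Ex.pos_of_check exit₁_check_1
          (side_mem (by push_cast; linarith) (by push_cast; linarith))
          (side_mem (by norm_num) (by norm_num))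
          (side_mem (by push_cast; linarith) (by push_cast; linarith)) (sideS_mem hb)
    rw [eExit₁, val_exitG] at key
    simpa [cL₀, Ex.val] using key
  · have key := Ex.pos_of_check slope₁_check (y₀ := u) (y₁ := 33 / 100)
      (y₂ := 1 / (q + 1) - 1 / (p + 1)) (y₃ := 1 / (p + 1) + 1 / (q + 1))
      (side_mem (by push_cast; linarith) (by push_cast; linarith))
      (side_mem (by norm_num) (by norm_num))
      (side_mem (by push_cast; linarith) (by push_cast; linarith)) (sideS_mem hb)
    rw [eSlope₁, val_slope] at key
    exact le_of_lt (by simpa [Ex.val] using key)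

theorem lower₁_sign_700 {u v d S' : ℝ} (hu : 700 / 1000 ≤ u) (hu1 : u < 800 / 1000)
    (hv : 33 / 100 ≤ v) (hv1 : v < 3466 / 1000) (hd : 0 ≤ d) (hd1 : d ≤ 1 / 5) (hdv : d * v < 2 / 3)
    (hS : sideS.Mem S') : 0 < eLower₁.val u v d S' := by
  rcases lt_or_ge d (150 / 1000) with k0 | k0
  · exact Ex.pos_of_check lower₁_check_700_0 (side_mem (by push_cast; linarith) (by push_cast; linarith))
      (side_mem (by push_cast; linarith) (by push_cast; linarith))
      (side_mem (by push_cast; linarith) (by push_cast; linarith)) hS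
  rcases lt_or_ge d (162 / 1000) with k1 | k1
  · exact Ex.pos_of_check lower₁_check_700_150 (side_mem (by push_cast; linarith) (by push_cast; linarith))
      (side_mem (by push_cast; linarith) (by push_cast; linarith))
      (side_mem (by push_cast; linarith) (by push_cast; linarith)) hS
  rcases lt_or_ge d (171 / 1000) with k2 | k2
  · exact Ex.pos_of_check lower₁_check_700_162 (side_mem (by push_cast; linarith) (by push_cast; linarith))
      (side_mem (by push_cast; linarith) (by push_cast; linarith))
      (side_mem (by push_cast; linarith) (by push_cast; linarith)) hS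
  rcases lt_or_ge d (180 / 1000) with k3 | k3
  · exact Ex.pos_of_check lower₁_check_700_171 (side_mem (by push_cast; linarith) (by push_cast; linarith))
      (side_mem (by push_cast; linarith) (by push_cast; linarith))
      (side_mem (by push_cast; linarith) (by push_cast; linarith)) hS
  exact Ex.pos_of_check lower₁_check_700_180 (side_mem (by push_cast; linarith) (by push_cast; linarith))
    (side_mem (by push_cast; linarith) (by push_cast; linarith))
    (side_mem (by push_cast; linarith) (by push_cast; linarith)) hS

theorem lower₁_sign_800 {u v d S' : ℝ} (hu : 800 / 1000 ≤ u) (hu1 : u < 850 / 1000)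
    (hv : 33 / 100 ≤ v) (hv1 : v < 3910 / 1000) (hd : 0 ≤ d) (hd1 : d ≤ 1 / 5) (hdv : d * v < 2 / 3)
    (hS : sideS.Mem S') : 0 < eLower₁.val u v d S' := by
  rcases lt_or_ge d (150 / 1000) with k0 | k0
  · exact Ex.pos_of_check lower₁_check_800_0 (side_mem (by push_cast; linarith) (by push_cast; linarith))
      (side_mem (by push_cast; linarith) (by push_cast; linarith))
      (side_mem (by push_cast; linarith) (by push_cast; linarith)) hS
  rcases lt_or_ge d (162 / 1000) with k1 | k1
  · exact Ex.pos_of_check lower₁_check_800_150 (side_mem (by push_cast; linarith) (by push_cast; linarith))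
      (side_mem (by push_cast; linarith) (by push_cast; linarith))
      (side_mem (by push_cast; linarith) (by push_cast; linarith)) hS
  rcases lt_or_ge d (171 / 1000) with k2 | k2
  · exact Ex.pos_of_check lower₁_check_800_162 (side_mem (by push_cast; linarith) (by push_cast; linarith))
      (side_mem (by push_cast; linarith) (by push_cast; linarith))
      (side_mem (by push_cast; linarith) (by push_cast; linarith)) hS
  rcases lt_or_ge d (180 / 1000) with k3 | k3
  · have hc : v < 3899 / 1000 := by
      have := mul_le_mul_of_nonneg_right (show 171 / 1000 ≤ d by linarith) (show 0 ≤ v by linarith)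
      linarith
    exact Ex.pos_of_check lower₁_check_800_171 (side_mem (by push_cast; linarith) (by push_cast; linarith))
      (side_mem (by push_cast; linarith) (by push_cast; linarith))
      (side_mem (by push_cast; linarith) (by push_cast; linarith)) hS
  have hc : v < 3705 / 1000 := by
    have := mul_le_mul_of_nonneg_right (show 180 / 1000 ≤ d by linarith) (show 0 ≤ v by linarith)
    linarith
  exact Ex.pos_of_check lower₁_check_800_180 (side_mem (by push_cast; linarith) (by push_cast; linarith))
    (side_mem (by push_cast; linarith) (by push_cast; linarith))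
    (side_mem (by push_cast; linarith) (by push_cast; linarith)) hS

theorem lower₁_sign_850 {u v d S' : ℝ} (hu : 850 / 1000 ≤ u) (hu1 : u < 875 / 1000)
    (hv : 33 / 100 ≤ v) (hv1 : v < 4172 / 1000) (hd : 0 ≤ d) (hd1 : d ≤ 1 / 5) (hdv : d * v < 2 / 3)
    (hS : sideS.Mem S') : 0 < eLower₁.val u v d S' := by
  rcases lt_or_ge d (150 / 1000) with k0 | k0
  · exact Ex.pos_of_check lower₁_check_850_0 (side_mem (by push_cast; linarith) (by push_cast; linarith))
      (side_mem (by push_cast; linarith) (by push_cast; linarith))
      (side_mem (by push_cast; linarith) (by push_cast; linarith)) hS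
  rcases lt_or_ge d (162 / 1000) with k1 | k1
  · exact Ex.pos_of_check lower₁_check_850_150 (side_mem (by push_cast; linarith) (by push_cast; linarith))
      (side_mem (by push_cast; linarith) (by push_cast; linarith))
      (side_mem (by push_cast; linarith) (by push_cast; linarith)) hS
  rcases lt_or_ge d (171 / 1000) with k2 | k2
  · have hc : v < 4116 / 1000 := by
      have := mul_le_mul_of_nonneg_right (show 162 / 1000 ≤ d by linarith) (show 0 ≤ v by linarith)
      linarith
    exact Ex.pos_of_check lower₁_check_850_162 (side_mem (by push_cast; linarith) (by push_cast; linarith))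
      (side_mem (by push_cast; linarith) (by push_cast; linarith))
      (side_mem (by push_cast; linarith) (by push_cast; linarith)) hS
  rcases lt_or_ge d (180 / 1000) with k3 | k3
  · have hc : v < 3899 / 1000 := by
      have := mul_le_mul_of_nonneg_right (show 171 / 1000 ≤ d by linarith) (show 0 ≤ v by linarith)
      linarith
    exact Ex.pos_of_check lower₁_check_850_171 (side_mem (by push_cast; linarith) (by push_cast; linarith))
      (side_mem (by push_cast; linarith) (by push_cast; linarith))
      (side_mem (by push_cast; linarith) (by push_cast; linarith)) hS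
  have hc : v < 3705 / 1000 := by
    have := mul_le_mul_of_nonneg_right (show 180 / 1000 ≤ d by linarith) (show 0 ≤ v by linarith)
    linarith
  exact Ex.pos_of_check lower₁_check_850_180 (side_mem (by push_cast; linarith) (by push_cast; linarith))
    (side_mem (by push_cast; linarith) (by push_cast; linarith))
    (side_mem (by push_cast; linarith) (by push_cast; linarith)) hS

theorem lower₁_sign_875 {u v d S' : ℝ} (hu : 875 / 1000 ≤ u) (hu1 : u < 901 / 1000)
    (hv : 33 / 100 ≤ v) (hv1 : v < 4451 / 1000) (hd : 0 ≤ d) (hd1 : d ≤ 1 / 5) (hdv : d * v < 2 / 3)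
    (hS : sideS.Mem S') : 0 < eLower₁.val u v d S' := by
  rcases lt_or_ge d (150 / 1000) with k0 | k0
  · exact Ex.pos_of_check lower₁_check_875_0 (side_mem (by push_cast; linarith) (by push_cast; linarith))
      (side_mem (by push_cast; linarith) (by push_cast; linarith))
      (side_mem (by push_cast; linarith) (by push_cast; linarith)) hS
  rcases lt_or_ge d (162 / 1000) with k1 | k1
  · have hc : v < 4445 / 1000 := by
      have := mul_le_mul_of_nonneg_right (show 150 / 1000 ≤ d by linarith) (show 0 ≤ v by linarith)
      linarith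
    exact Ex.pos_of_check lower₁_check_875_150 (side_mem (by push_cast; linarith) (by push_cast; linarith))
      (side_mem (by push_cast; linarith) (by push_cast; linarith))
      (side_mem (by push_cast; linarith) (by push_cast; linarith)) hS
  rcases lt_or_ge d (171 / 1000) with k2 | k2
  · have hc : v < 4116 / 1000 := by
      have := mul_le_mul_of_nonneg_right (show 162 / 1000 ≤ d by linarith) (show 0 ≤ v by linarith)
      linarith
    exact Ex.pos_of_check lower₁_check_875_162 (side_mem (by push_cast; linarith) (by push_cast; linarith))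
      (side_mem (by push_cast; linarith) (by push_cast; linarith))
      (side_mem (by push_cast; linarith) (by push_cast; linarith)) hS
  rcases lt_or_ge d (180 / 1000) with k3 | k3
  · have hc : v < 3899 / 1000 := by
      have := mul_le_mul_of_nonneg_right (show 171 / 1000 ≤ d by linarith) (show 0 ≤ v by linarith)
      linarith
    exact Ex.pos_of_check lower₁_check_875_171 (side_mem (by push_cast; linarith) (by push_cast; linarith))
      (side_mem (by push_cast; linarith) (by push_cast; linarith))
      (side_mem (by push_cast; linarith) (by push_cast; linarith)) hS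
  have hc : v < 3705 / 1000 := by
    have := mul_le_mul_of_nonneg_right (show 180 / 1000 ≤ d by linarith) (show 0 ≤ v by linarith)
    linarith
  exact Ex.pos_of_check lower₁_check_875_180 (side_mem (by push_cast; linarith) (by push_cast; linarith))
    (side_mem (by push_cast; linarith) (by push_cast; linarith))
    (side_mem (by push_cast; linarith) (by push_cast; linarith)) hS

theorem lower₁_sign {u v d S' : ℝ} (hu : 0 ≤ u) (hu1 : u ≤ 9 / 10) (hv : 33 / 100 ≤ v)
    (hv1 : v ≤ 89 / 20) (hphi : v < phiOne u) (hd : 0 ≤ d) (hd1 : d ≤ 1 / 5) (hdv : d * v < 2 / 3)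
    (hS : sideS.Mem S') : 0 < eLower₁.val u v d S' := by
  have hstep : ∀ b c : ℝ, u ≤ b → b < 13 / 10 → phiOne b ≤ c → v < c := fun b c h1 h2 h3 =>
    lt_of_lt_of_le (hphi.trans_le (phiOne_mono h1 h2)) h3
  rcases lt_or_ge u (200 / 1000) with g0 | g0
  · have hvb : v < 1287 / 1000 :=
      hstep (200 / 1000) _ g0.le (by norm_num) (by rw [phiOne_eq (by norm_num)]; norm_num)
    exact Ex.pos_of_check lower₁_check_0_0 (side_mem (by push_cast; linarith) (by push_cast; linarith))
      (side_mem (by push_cast; linarith) (by push_cast; linarith))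
      (side_mem (by push_cast; linarith) (by push_cast; linarith)) hS
  rcases lt_or_ge u (350 / 1000) with g1 | g1
  · have hvb : v < 1568 / 1000 :=
      hstep (350 / 1000) _ g1.le (by norm_num) (by rw [phiOne_eq (by norm_num)]; norm_num)
    exact Ex.pos_of_check lower₁_check_200_0 (side_mem (by push_cast; linarith) (by push_cast; linarith))
      (side_mem (by push_cast; linarith) (by push_cast; linarith))
      (side_mem (by push_cast; linarith) (by push_cast; linarith)) hS
  rcases lt_or_ge u (500 / 1000) with g2 | g2
  · have hvb : v < 1963 / 1000 :=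
      hstep (500 / 1000) _ g2.le (by norm_num) (by rw [phiOne_eq (by norm_num)]; norm_num)
    exact Ex.pos_of_check lower₁_check_350_0 (side_mem (by push_cast; linarith) (by push_cast; linarith))
      (side_mem (by push_cast; linarith) (by push_cast; linarith))
      (side_mem (by push_cast; linarith) (by push_cast; linarith)) hS
  rcases lt_or_ge u (700 / 1000) with g3 | g3
  · have hvb : v < 2800 / 1000 :=
      hstep (700 / 1000) _ g3.le (by norm_num) (by rw [phiOne_eq (by norm_num)]; norm_num)
    exact Ex.pos_of_check lower₁_check_500_0 (side_mem (by push_cast; linarith) (by push_cast; linarith))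
      (side_mem (by push_cast; linarith) (by push_cast; linarith))
      (side_mem (by push_cast; linarith) (by push_cast; linarith)) hS
  rcases lt_or_ge u (800 / 1000) with g4 | g4
  · have hvb : v < 3466 / 1000 :=
      hstep (800 / 1000) _ g4.le (by norm_num) (by rw [phiOne_eq (by norm_num)]; norm_num)
    exact lower₁_sign_700 g3 g4 hv hvb hd hd1 hdv hS
  rcases lt_or_ge u (850 / 1000) with g5 | g5
  · have hvb : v < 3910 / 1000 :=
      hstep (850 / 1000) _ g5.le (by norm_num) (by rw [phiOne_eq (by norm_num)]; norm_num)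
    exact lower₁_sign_800 g4 g5 hv hvb hd hd1 hdv hS
  rcases lt_or_ge u (875 / 1000) with g6 | g6
  · have hvb : v < 4172 / 1000 :=
      hstep (875 / 1000) _ g6.le (by norm_num) (by rw [phiOne_eq (by norm_num)]; norm_num)
    exact lower₁_sign_850 g5 g6 hv hvb hd hd1 hdv hS
  exact lower₁_sign_875 g6 (by linarith) hv (by linarith) hd hd1 hdv hS

/-- **The first lower band** up to `u = 9/10`. -/
theorem orbit_lower_one (hf : IsOrbitFns N p q S R x y s dx dy)
    (hb : SlabBox N (1 / (p + 1)) (1 / (q + 1)))
    {w : ℝ} (hw : w ∈ S) (hw0 : 0 < R w) (hwu : uOf N (R w) (x w) ≤ 9 / 10) :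
    let al := 1 / (p + 1)
    let be := 1 / (q + 1)
    bandL N al be (be - al) (23 / 20 - 15 / 4 * (be - al)) (17 / 10 - 211 / 25 * (be - al)) 0
      (uOf N (R w) (x w)) (y w / x w) < hOf N (R w) (x w) (y w) w := by
  intro al be
  have hd : 0 ≤ be - al := hb.facts.2.2.1.le
  have hd1 : be - al ≤ 1 / 5 := hb.diff
  have := band_step hf hb (one_mul 1) le_rfl (23 / 20 - 15 / 4 * (be - al))
    (17 / 10 - 211 / 25 * (be - al)) 0 (fun u r => vOf al be r < phiOne u ∧ (N - 2) * be * r < N * al)
    (fun w hw hw0 hwu => ⟨orbit_phiOne hf hb hw hw0 hwu, (hf.chart hb.five hb.low w hw hw0).2.2.2.2.2.2.2.2.1⟩) (bd := 3)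
    (by linarith)
    (fun u hu hu1 => by nlinarith) (fun u r hu hu1 hE hv hv1 => ?_) hw hw0 hwu
  · linarith
  · rw [one_mul]
    have key := lower₁_sign (d := be - al) hu hu1 hv hv1 hE.1 hd hd1 (dv_lt hb hE.2) (sideS_mem hb)
    rw [eLower₁, val_lie] at key
    simpa [al, be, cA₁, cB₁, Ex.val] using key

/-- **The second exit curve** up to `u = 9/10`. -/
theorem orbit_phiTwo (hf : IsOrbitFns N p q S R x y s dx dy)
    (hb : SlabBox N (1 / (p + 1)) (1 / (q + 1)))
    {w : ℝ} (hw : w ∈ S) (hw0 : 0 < R w) (hwu : uOf N (R w) (x w) ≤ 9 / 10) :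
    vOf (1 / (p + 1)) (1 / (q + 1)) (y w / x w) < phiTwo (uOf N (R w) (x w)) := by
  have hd : 0 ≤ 1 / (q + 1) - 1 / (p + 1) := hb.facts.2.2.1.le
  have hd1 : 1 / (q + 1) - 1 / (p + 1) ≤ 1 / 5 := hb.diff
  refine exit_step (a := 701 / 1000) (b := 25 / 42) (k := 25 / 42) (c := 21 / 20) hf hb le_rfl
    (by norm_num) (by norm_num) (by norm_num) (by norm_num)
    (by norm_num [phiG]) (fun w hw hw0 hwu => orbit_lower_one hf hb hw hw0 hwu) (bd := 3)
    (by linarith) (fun u hu hu1 => by nlinarith) (fun u hu hu1 _ _ => ?_)
    (fun u hu hu1 => ?_) hw hw0 hwu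
  · have key : 0 < eExit₂.val u (33 / 100) (1 / (q + 1) - 1 / (p + 1))
        (1 / (p + 1) + 1 / (q + 1)) := by
      rcases lt_or_ge u (450 / 1000) with g0 | g0
      · exact Ex.pos_of_check exit₂_check_0 (side_mem (by push_cast; linarith) (by push_cast; linarith))
          (side_mem (by norm_num) (by norm_num))
          (side_mem (by push_cast; linarith) (by push_cast; linarith)) (sideS_mem hb)
      rcases lt_or_ge u (700 / 1000) with g1 | g1
      · exact Ex.pos_of_check exit₂_check_1 (side_mem (by push_cast; linarith) (by push_cast; linarith))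
          (side_mem (by norm_num) (by norm_num))
          (side_mem (by push_cast; linarith) (by push_cast; linarith)) (sideS_mem hb)
      rcases lt_or_ge u (750 / 1000) with g2 | g2
      · exact Ex.pos_of_check exit₂_check_2 (side_mem (by push_cast; linarith) (by push_cast; linarith))
          (side_mem (by norm_num) (by norm_num))
          (side_mem (by push_cast; linarith) (by push_cast; linarith)) (sideS_mem hb)
      rcases lt_or_ge u (800 / 1000) with g3 | g3
      · exact Ex.pos_of_check exit₂_check_3 (side_mem (by push_cast; linarith) (by push_cast; linarith))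
          (side_mem (by norm_num) (by norm_num))
          (side_mem (by push_cast; linarith) (by push_cast; linarith)) (sideS_mem hb)
      exact Ex.pos_of_check exit₂_check_4 (side_mem (by push_cast; linarith) (by push_cast; linarith))
        (side_mem (by norm_num) (by norm_num))
        (side_mem (by push_cast; linarith) (by push_cast; linarith)) (sideS_mem hb)
    rw [eExit₂, val_exitG] at key
    simpa [cA₁, cB₁, Ex.val] using key
  · have key := Ex.pos_of_check slope₂_check (y₀ := u) (y₁ := 33 / 100)
      (y₂ := 1 / (q + 1) - 1 / (p + 1)) (y₃ := 1 / (p + 1) + 1 / (q + 1))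
      (side_mem (by push_cast; linarith) (by push_cast; linarith))
      (side_mem (by norm_num) (by norm_num))
      (side_mem (by push_cast; linarith) (by push_cast; linarith)) (sideS_mem hb)
    rw [eSlope₂, val_slope] at key
    exact le_of_lt (by simpa [Ex.val] using key)

end Vale.Agent.P100.Calib.Band
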