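import Vale.Agent.P100.Calib.SlabLargeChecks
import Vale.Agent.P100.Calib.SlabRungs

/-!
# The bands up to `u = 3/5`, large difference of the exponents

With `d = be - al` in `[3 / 25, 1 / 5]`: `L < (h - hc r)/(d u) < U` and `v < φ`.
-/

namespace Vale.Agent.P100.Calib.Band

open BoxPos Bubble Chart

variable {N p q : ℝ} {S : Set ℝ} {R x y s dx dy : ℝ → ℝ}

/-- The exit curve. -/
noncomputable def phiLarge (d u : ℝ) : ℝ :=
  phiG (67 / 100 - 29 / 100 * d) (18 / 25 - 3 / 25 * d) (13 / 50 + 3 / 100 * d) (483 / 500) u

theorem large_lie_sign_800 {u v d S' : ℝ} (hu : 800 / 1000 ≤ u) (hu1 : u < 830 / 1000)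
    (hv : 33 / 100 ≤ v) (hv1 : v < 3060 / 1000) (hd : 3 / 25 ≤ d) (hd1 : d ≤ 1 / 5)
    (hdv : d * v < 2 / 3) (hS : sideS.Mem S') : 0 < largeLie.val u v d S' := by
  rcases lt_or_ge d (150 / 1000) with k0 | k0
  · exact Ex.pos_of_check large_lie_800_120 (side_mem (by push_cast; linarith) (by push_cast; linarith))
      (side_mem (by push_cast; linarith) (by push_cast; linarith))
      (side_mem (by push_cast; linarith) (by push_cast; linarith)) hS
  rcases lt_or_ge d (171 / 1000) with k1 | k1
  · exact Ex.pos_of_check large_lie_800_150 (side_mem (by push_cast; linarith) (by push_cast; linarith))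
      (side_mem (by push_cast; linarith) (by push_cast; linarith))
      (side_mem (by push_cast; linarith) (by push_cast; linarith)) hS
  exact Ex.pos_of_check large_lie_800_171 (side_mem (by push_cast; linarith) (by push_cast; linarith))
    (side_mem (by push_cast; linarith) (by push_cast; linarith))
    (side_mem (by push_cast; linarith) (by push_cast; linarith)) hS

theorem large_lie_sign_830 {u v d S' : ℝ} (hu : 830 / 1000 ≤ u) (hu1 : u < 850 / 1000)
    (hv : 33 / 100 ≤ v) (hv1 : v < 3359 / 1000) (hd : 3 / 25 ≤ d) (hd1 : d ≤ 1 / 5)
    (hdv : d * v < 2 / 3) (hS : sideS.Mem S') : 0 < largeLie.val u v d S' := by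
  rcases lt_or_ge d (150 / 1000) with k0 | k0
  · exact Ex.pos_of_check large_lie_830_120 (side_mem (by push_cast; linarith) (by push_cast; linarith))
      (side_mem (by push_cast; linarith) (by push_cast; linarith))
      (side_mem (by push_cast; linarith) (by push_cast; linarith)) hS
  rcases lt_or_ge d (171 / 1000) with k1 | k1
  · exact Ex.pos_of_check large_lie_830_150 (side_mem (by push_cast; linarith) (by push_cast; linarith))
      (side_mem (by push_cast; linarith) (by push_cast; linarith))
      (side_mem (by push_cast; linarith) (by push_cast; linarith)) hS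
  exact Ex.pos_of_check large_lie_830_171 (side_mem (by push_cast; linarith) (by push_cast; linarith))
    (side_mem (by push_cast; linarith) (by push_cast; linarith))
    (side_mem (by push_cast; linarith) (by push_cast; linarith)) hS

theorem large_lie_sign_850 {u v d S' : ℝ} (hu : 850 / 1000 ≤ u) (hu1 : u < 860 / 1000)
    (hv : 33 / 100 ≤ v) (hv1 : v < 3531 / 1000) (hd : 3 / 25 ≤ d) (hd1 : d ≤ 1 / 5)
    (hdv : d * v < 2 / 3) (hS : sideS.Mem S') : 0 < largeLie.val u v d S' := by
  rcases lt_or_ge d (150 / 1000) with k0 | k0
  · exact Ex.pos_of_check large_lie_850_120 (side_mem (by push_cast; linarith) (by push_cast; linarith))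
      (side_mem (by push_cast; linarith) (by push_cast; linarith))
      (side_mem (by push_cast; linarith) (by push_cast; linarith)) hS
  rcases lt_or_ge d (156 / 1000) with k1 | k1
  · exact Ex.pos_of_check large_lie_850_150 (side_mem (by push_cast; linarith) (by push_cast; linarith))
      (side_mem (by push_cast; linarith) (by push_cast; linarith))
      (side_mem (by push_cast; linarith) (by push_cast; linarith)) hS
  rcases lt_or_ge d (162 / 1000) with k2 | k2
  · exact Ex.pos_of_check large_lie_850_156 (side_mem (by push_cast; linarith) (by push_cast; linarith))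
      (side_mem (by push_cast; linarith) (by push_cast; linarith))
      (side_mem (by push_cast; linarith) (by push_cast; linarith)) hS
  rcases lt_or_ge d (171 / 1000) with k3 | k3
  · exact Ex.pos_of_check large_lie_850_162 (side_mem (by push_cast; linarith) (by push_cast; linarith))
      (side_mem (by push_cast; linarith) (by push_cast; linarith))
      (side_mem (by push_cast; linarith) (by push_cast; linarith)) hS
  rcases lt_or_ge d (180 / 1000) with k4 | k4
  · exact Ex.pos_of_check large_lie_850_171 (side_mem (by push_cast; linarith) (by push_cast; linarith))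
      (side_mem (by push_cast; linarith) (by push_cast; linarith))
      (side_mem (by push_cast; linarith) (by push_cast; linarith)) hS
  rcases lt_or_ge d (190 / 1000) with k5 | k5
  · exact Ex.pos_of_check large_lie_850_180 (side_mem (by push_cast; linarith) (by push_cast; linarith))
      (side_mem (by push_cast; linarith) (by push_cast; linarith))
      (side_mem (by push_cast; linarith) (by push_cast; linarith)) hS
  have hc : v < 3510 / 1000 := by
    have := mul_le_mul_of_nonneg_right (show 190 / 1000 ≤ d by linarith) (show 0 ≤ v by linarith)
    linarith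
  exact Ex.pos_of_check large_lie_850_190 (side_mem (by push_cast; linarith) (by push_cast; linarith))
    (side_mem (by push_cast; linarith) (by push_cast; linarith))
    (side_mem (by push_cast; linarith) (by push_cast; linarith)) hS

theorem large_lie_sign_860 {u v d S' : ℝ} (hu : 860 / 1000 ≤ u) (hu1 : u < 870 / 1000)
    (hv : 33 / 100 ≤ v) (hv1 : v < 3723 / 1000) (hd : 3 / 25 ≤ d) (hd1 : d ≤ 1 / 5)
    (hdv : d * v < 2 / 3) (hS : sideS.Mem S') : 0 < largeLie.val u v d S' := by
  rcases lt_or_ge d (150 / 1000) with k0 | k0
  · exact Ex.pos_of_check large_lie_860_120 (side_mem (by push_cast; linarith) (by push_cast; linarith))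
      (side_mem (by push_cast; linarith) (by push_cast; linarith))
      (side_mem (by push_cast; linarith) (by push_cast; linarith)) hS
  rcases lt_or_ge d (156 / 1000) with k1 | k1
  · exact Ex.pos_of_check large_lie_860_150 (side_mem (by push_cast; linarith) (by push_cast; linarith))
      (side_mem (by push_cast; linarith) (by push_cast; linarith))
      (side_mem (by push_cast; linarith) (by push_cast; linarith)) hS
  rcases lt_or_ge d (162 / 1000) with k2 | k2
  · exact Ex.pos_of_check large_lie_860_156 (side_mem (by push_cast; linarith) (by push_cast; linarith))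
      (side_mem (by push_cast; linarith) (by push_cast; linarith))
      (side_mem (by push_cast; linarith) (by push_cast; linarith)) hS
  rcases lt_or_ge d (171 / 1000) with k3 | k3
  · exact Ex.pos_of_check large_lie_860_162 (side_mem (by push_cast; linarith) (by push_cast; linarith))
      (side_mem (by push_cast; linarith) (by push_cast; linarith))
      (side_mem (by push_cast; linarith) (by push_cast; linarith)) hS
  rcases lt_or_ge d (180 / 1000) with k4 | k4
  · exact Ex.pos_of_check large_lie_860_171 (side_mem (by push_cast; linarith) (by push_cast; linarith))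
      (side_mem (by push_cast; linarith) (by push_cast; linarith))
      (side_mem (by push_cast; linarith) (by push_cast; linarith)) hS
  rcases lt_or_ge d (190 / 1000) with k5 | k5
  · have hc : v < 3705 / 1000 := by
      have := mul_le_mul_of_nonneg_right (show 180 / 1000 ≤ d by linarith) (show 0 ≤ v by linarith)
      linarith
    exact Ex.pos_of_check large_lie_860_180 (side_mem (by push_cast; linarith) (by push_cast; linarith))
      (side_mem (by push_cast; linarith) (by push_cast; linarith))
      (side_mem (by push_cast; linarith) (by push_cast; linarith)) hS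
  have hc : v < 3510 / 1000 := by
    have := mul_le_mul_of_nonneg_right (show 190 / 1000 ≤ d by linarith) (show 0 ≤ v by linarith)
    linarith
  exact Ex.pos_of_check large_lie_860_190 (side_mem (by push_cast; linarith) (by push_cast; linarith))
    (side_mem (by push_cast; linarith) (by push_cast; linarith))
    (side_mem (by push_cast; linarith) (by push_cast; linarith)) hS

theorem large_lie_sign_870 {u v d S' : ℝ} (hu : 870 / 1000 ≤ u) (hu1 : u < 880 / 1000)
    (hv : 33 / 100 ≤ v) (hv1 : v < 3938 / 1000) (hd : 3 / 25 ≤ d) (hd1 : d ≤ 1 / 5)
    (hdv : d * v < 2 / 3) (hS : sideS.Mem S') : 0 < largeLie.val u v d S' := by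
  rcases lt_or_ge d (150 / 1000) with k0 | k0
  · exact Ex.pos_of_check large_lie_870_120 (side_mem (by push_cast; linarith) (by push_cast; linarith))
      (side_mem (by push_cast; linarith) (by push_cast; linarith))
      (side_mem (by push_cast; linarith) (by push_cast; linarith)) hS
  rcases lt_or_ge d (156 / 1000) with k1 | k1
  · exact Ex.pos_of_check large_lie_870_150 (side_mem (by push_cast; linarith) (by push_cast; linarith))
      (side_mem (by push_cast; linarith) (by push_cast; linarith))
      (side_mem (by push_cast; linarith) (by push_cast; linarith)) hS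
  rcases lt_or_ge d (162 / 1000) with k2 | k2
  · exact Ex.pos_of_check large_lie_870_156 (side_mem (by push_cast; linarith) (by push_cast; linarith))
      (side_mem (by push_cast; linarith) (by push_cast; linarith))
      (side_mem (by push_cast; linarith) (by push_cast; linarith)) hS
  rcases lt_or_ge d (171 / 1000) with k3 | k3
  · exact Ex.pos_of_check large_lie_870_162 (side_mem (by push_cast; linarith) (by push_cast; linarith))
      (side_mem (by push_cast; linarith) (by push_cast; linarith))
      (side_mem (by push_cast; linarith) (by push_cast; linarith)) hS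
  rcases lt_or_ge d (180 / 1000) with k4 | k4
  · have hc : v < 3899 / 1000 := by
      have := mul_le_mul_of_nonneg_right (show 171 / 1000 ≤ d by linarith) (show 0 ≤ v by linarith)
      linarith
    exact Ex.pos_of_check large_lie_870_171 (side_mem (by push_cast; linarith) (by push_cast; linarith))
      (side_mem (by push_cast; linarith) (by push_cast; linarith))
      (side_mem (by push_cast; linarith) (by push_cast; linarith)) hS
  rcases lt_or_ge d (190 / 1000) with k5 | k5
  · have hc : v < 3705 / 1000 := by
      have := mul_le_mul_of_nonneg_right (show 180 / 1000 ≤ d by linarith) (show 0 ≤ v by linarith)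
      linarith
    exact Ex.pos_of_check large_lie_870_180 (side_mem (by push_cast; linarith) (by push_cast; linarith))
      (side_mem (by push_cast; linarith) (by push_cast; linarith))
      (side_mem (by push_cast; linarith) (by push_cast; linarith)) hS
  have hc : v < 3510 / 1000 := by
    have := mul_le_mul_of_nonneg_right (show 190 / 1000 ≤ d by linarith) (show 0 ≤ v by linarith)
    linarith
  exact Ex.pos_of_check large_lie_870_190 (side_mem (by push_cast; linarith) (by push_cast; linarith))
    (side_mem (by push_cast; linarith) (by push_cast; linarith))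
    (side_mem (by push_cast; linarith) (by push_cast; linarith)) hS

theorem large_lie_sign_880 {u v d S' : ℝ} (hu : 880 / 1000 ≤ u) (hu1 : u < 888 / 1000)
    (hv : 33 / 100 ≤ v) (hv1 : v < 4128 / 1000) (hd : 3 / 25 ≤ d) (hd1 : d ≤ 1 / 5)
    (hdv : d * v < 2 / 3) (hS : sideS.Mem S') : 0 < largeLie.val u v d S' := by
  rcases lt_or_ge d (150 / 1000) with k0 | k0
  · exact Ex.pos_of_check large_lie_880_120 (side_mem (by push_cast; linarith) (by push_cast; linarith))
      (side_mem (by push_cast; linarith) (by push_cast; linarith))
      (side_mem (by push_cast; linarith) (by push_cast; linarith)) hS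
  rcases lt_or_ge d (156 / 1000) with k1 | k1
  · exact Ex.pos_of_check large_lie_880_150 (side_mem (by push_cast; linarith) (by push_cast; linarith))
      (side_mem (by push_cast; linarith) (by push_cast; linarith))
      (side_mem (by push_cast; linarith) (by push_cast; linarith)) hS
  rcases lt_or_ge d (162 / 1000) with k2 | k2
  · exact Ex.pos_of_check large_lie_880_156 (side_mem (by push_cast; linarith) (by push_cast; linarith))
      (side_mem (by push_cast; linarith) (by push_cast; linarith))
      (side_mem (by push_cast; linarith) (by push_cast; linarith)) hS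
  rcases lt_or_ge d (171 / 1000) with k3 | k3
  · have hc : v < 4116 / 1000 := by
      have := mul_le_mul_of_nonneg_right (show 162 / 1000 ≤ d by linarith) (show 0 ≤ v by linarith)
      linarith
    exact Ex.pos_of_check large_lie_880_162 (side_mem (by push_cast; linarith) (by push_cast; linarith))
      (side_mem (by push_cast; linarith) (by push_cast; linarith))
      (side_mem (by push_cast; linarith) (by push_cast; linarith)) hS
  rcases lt_or_ge d (180 / 1000) with k4 | k4
  · have hc : v < 3899 / 1000 := by
      have := mul_le_mul_of_nonneg_right (show 171 / 1000 ≤ d by linarith) (show 0 ≤ v by linarith)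
      linarith
    exact Ex.pos_of_check large_lie_880_171 (side_mem (by push_cast; linarith) (by push_cast; linarith))
      (side_mem (by push_cast; linarith) (by push_cast; linarith))
      (side_mem (by push_cast; linarith) (by push_cast; linarith)) hS
  rcases lt_or_ge d (190 / 1000) with k5 | k5
  · have hc : v < 3705 / 1000 := by
      have := mul_le_mul_of_nonneg_right (show 180 / 1000 ≤ d by linarith) (show 0 ≤ v by linarith)
      linarith
    exact Ex.pos_of_check large_lie_880_180 (side_mem (by push_cast; linarith) (by push_cast; linarith))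
      (side_mem (by push_cast; linarith) (by push_cast; linarith))
      (side_mem (by push_cast; linarith) (by push_cast; linarith)) hS
  have hc : v < 3510 / 1000 := by
    have := mul_le_mul_of_nonneg_right (show 190 / 1000 ≤ d by linarith) (show 0 ≤ v by linarith)
    linarith
  exact Ex.pos_of_check large_lie_880_190 (side_mem (by push_cast; linarith) (by push_cast; linarith))
    (side_mem (by push_cast; linarith) (by push_cast; linarith))
    (side_mem (by push_cast; linarith) (by push_cast; linarith)) hS

theorem large_lie_sign_888 {u v d S' : ℝ} (hu : 888 / 1000 ≤ u) (hu1 : u < 895 / 1000)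
    (hv : 33 / 100 ≤ v) (hv1 : v < 4311 / 1000) (hd : 3 / 25 ≤ d) (hd1 : d ≤ 1 / 5)
    (hdv : d * v < 2 / 3) (hS : sideS.Mem S') : 0 < largeLie.val u v d S' := by
  rcases lt_or_ge d (150 / 1000) with k0 | k0
  · exact Ex.pos_of_check large_lie_888_120 (side_mem (by push_cast; linarith) (by push_cast; linarith))
      (side_mem (by push_cast; linarith) (by push_cast; linarith))
      (side_mem (by push_cast; linarith) (by push_cast; linarith)) hS
  rcases lt_or_ge d (156 / 1000) with k1 | k1
  · exact Ex.pos_of_check large_lie_888_150 (side_mem (by push_cast; linarith) (by push_cast; linarith))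
      (side_mem (by push_cast; linarith) (by push_cast; linarith))
      (side_mem (by push_cast; linarith) (by push_cast; linarith)) hS
  rcases lt_or_ge d (162 / 1000) with k2 | k2
  · have hc : v < 4275 / 1000 := by
      have := mul_le_mul_of_nonneg_right (show 156 / 1000 ≤ d by linarith) (show 0 ≤ v by linarith)
      linarith
    exact Ex.pos_of_check large_lie_888_156 (side_mem (by push_cast; linarith) (by push_cast; linarith))
      (side_mem (by push_cast; linarith) (by push_cast; linarith))
      (side_mem (by push_cast; linarith) (by push_cast; linarith)) hS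
  rcases lt_or_ge d (171 / 1000) with k3 | k3
  · have hc : v < 4116 / 1000 := by
      have := mul_le_mul_of_nonneg_right (show 162 / 1000 ≤ d by linarith) (show 0 ≤ v by linarith)
      linarith
    exact Ex.pos_of_check large_lie_888_162 (side_mem (by push_cast; linarith) (by push_cast; linarith))
      (side_mem (by push_cast; linarith) (by push_cast; linarith))
      (side_mem (by push_cast; linarith) (by push_cast; linarith)) hS
  rcases lt_or_ge d (180 / 1000) with k4 | k4
  · have hc : v < 3899 / 1000 := by
      have := mul_le_mul_of_nonneg_right (show 171 / 1000 ≤ d by linarith) (show 0 ≤ v by linarith)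
      linarith
    exact Ex.pos_of_check large_lie_888_171 (side_mem (by push_cast; linarith) (by push_cast; linarith))
      (side_mem (by push_cast; linarith) (by push_cast; linarith))
      (side_mem (by push_cast; linarith) (by push_cast; linarith)) hS
  rcases lt_or_ge d (190 / 1000) with k5 | k5
  · have hc : v < 3705 / 1000 := by
      have := mul_le_mul_of_nonneg_right (show 180 / 1000 ≤ d by linarith) (show 0 ≤ v by linarith)
      linarith
    exact Ex.pos_of_check large_lie_888_180 (side_mem (by push_cast; linarith) (by push_cast; linarith))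
      (side_mem (by push_cast; linarith) (by push_cast; linarith))
      (side_mem (by push_cast; linarith) (by push_cast; linarith)) hS
  have hc : v < 3510 / 1000 := by
    have := mul_le_mul_of_nonneg_right (show 190 / 1000 ≤ d by linarith) (show 0 ≤ v by linarith)
    linarith
  exact Ex.pos_of_check large_lie_888_190 (side_mem (by push_cast; linarith) (by push_cast; linarith))
    (side_mem (by push_cast; linarith) (by push_cast; linarith))
    (side_mem (by push_cast; linarith) (by push_cast; linarith)) hS

theorem large_lie_sign_895 {u v d S' : ℝ} (hu : 895 / 1000 ≤ u) (hu1 : u < 901 / 1000)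
    (hv : 33 / 100 ≤ v) (hv1 : v < 4451 / 1000) (hd : 3 / 25 ≤ d) (hd1 : d ≤ 1 / 5)
    (hdv : d * v < 2 / 3) (hS : sideS.Mem S') : 0 < largeLie.val u v d S' := by
  rcases lt_or_ge d (150 / 1000) with k0 | k0
  · exact Ex.pos_of_check large_lie_895_120 (side_mem (by push_cast; linarith) (by push_cast; linarith))
      (side_mem (by push_cast; linarith) (by push_cast; linarith))
      (side_mem (by push_cast; linarith) (by push_cast; linarith)) hS
  rcases lt_or_ge d (156 / 1000) with k1 | k1
  · have hc : v < 4445 / 1000 := by
      have := mul_le_mul_of_nonneg_right (show 150 / 1000 ≤ d by linarith) (show 0 ≤ v by linarith)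
      linarith
    exact Ex.pos_of_check large_lie_895_150 (side_mem (by push_cast; linarith) (by push_cast; linarith))
      (side_mem (by push_cast; linarith) (by push_cast; linarith))
      (side_mem (by push_cast; linarith) (by push_cast; linarith)) hS
  rcases lt_or_ge d (162 / 1000) with k2 | k2
  · have hc : v < 4275 / 1000 := by
      have := mul_le_mul_of_nonneg_right (show 156 / 1000 ≤ d by linarith) (show 0 ≤ v by linarith)
      linarith
    exact Ex.pos_of_check large_lie_895_156 (side_mem (by push_cast; linarith) (by push_cast; linarith))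
      (side_mem (by push_cast; linarith) (by push_cast; linarith))
      (side_mem (by push_cast; linarith) (by push_cast; linarith)) hS
  rcases lt_or_ge d (171 / 1000) with k3 | k3
  · have hc : v < 4116 / 1000 := by
      have := mul_le_mul_of_nonneg_right (show 162 / 1000 ≤ d by linarith) (show 0 ≤ v by linarith)
      linarith
    exact Ex.pos_of_check large_lie_895_162 (side_mem (by push_cast; linarith) (by push_cast; linarith))
      (side_mem (by push_cast; linarith) (by push_cast; linarith))
      (side_mem (by push_cast; linarith) (by push_cast; linarith)) hS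
  rcases lt_or_ge d (180 / 1000) with k4 | k4
  · have hc : v < 3899 / 1000 := by
      have := mul_le_mul_of_nonneg_right (show 171 / 1000 ≤ d by linarith) (show 0 ≤ v by linarith)
      linarith
    exact Ex.pos_of_check large_lie_895_171 (side_mem (by push_cast; linarith) (by push_cast; linarith))
      (side_mem (by push_cast; linarith) (by push_cast; linarith))
      (side_mem (by push_cast; linarith) (by push_cast; linarith)) hS
  rcases lt_or_ge d (190 / 1000) with k5 | k5
  · have hc : v < 3705 / 1000 := by
      have := mul_le_mul_of_nonneg_right (show 180 / 1000 ≤ d by linarith) (show 0 ≤ v by linarith)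
      linarith
    exact Ex.pos_of_check large_lie_895_180 (side_mem (by push_cast; linarith) (by push_cast; linarith))
      (side_mem (by push_cast; linarith) (by push_cast; linarith))
      (side_mem (by push_cast; linarith) (by push_cast; linarith)) hS
  have hc : v < 3510 / 1000 := by
    have := mul_le_mul_of_nonneg_right (show 190 / 1000 ≤ d by linarith) (show 0 ≤ v by linarith)
    linarith
  exact Ex.pos_of_check large_lie_895_190 (side_mem (by push_cast; linarith) (by push_cast; linarith))
    (side_mem (by push_cast; linarith) (by push_cast; linarith))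
    (side_mem (by push_cast; linarith) (by push_cast; linarith)) hS

theorem large_lie_sign {u v d S' : ℝ} (hu : 0 ≤ u) (hu1 : u ≤ 9 / 10) (hv : 33 / 100 ≤ v)
    (hv1 : v ≤ 89 / 20) (hphi : v < phiTwo u) (hd : 3 / 25 ≤ d) (hd1 : d ≤ 1 / 5) (hdv : d * v < 2 / 3)
    (hS : sideS.Mem S') : 0 < largeLie.val u v d S' := by
  have hstep : ∀ b c : ℝ, u ≤ b → b < 21 / 20 → phiTwo b ≤ c → v < c := fun b c h1 h2 h3 =>
    lt_of_lt_of_le (hphi.trans_le (phiTwo_mono hu h1 h2)) h3
  rcases lt_or_ge u (150 / 1000) with g0 | g0
  · have hvb : v < 807 / 1000 :=
      hstep (150 / 1000) _ g0.le (by norm_num) (by norm_num [phiTwo, phiG])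
    exact Ex.pos_of_check large_lie_0_120 (side_mem (by push_cast; linarith) (by push_cast; linarith))
      (side_mem (by push_cast; linarith) (by push_cast; linarith))
      (side_mem (by push_cast; linarith) (by push_cast; linarith)) hS
  rcases lt_or_ge u (225 / 1000) with g1 | g1
  · have hvb : v < 873 / 1000 :=
      hstep (225 / 1000) _ g1.le (by norm_num) (by norm_num [phiTwo, phiG])
    exact Ex.pos_of_check large_lie_150_120 (side_mem (by push_cast; linarith) (by push_cast; linarith))
      (side_mem (by push_cast; linarith) (by push_cast; linarith))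
      (side_mem (by push_cast; linarith) (by push_cast; linarith)) hS
  rcases lt_or_ge u (300 / 1000) with g2 | g2
  · have hvb : v < 953 / 1000 :=
      hstep (300 / 1000) _ g2.le (by norm_num) (by norm_num [phiTwo, phiG])
    exact Ex.pos_of_check large_lie_225_120 (side_mem (by push_cast; linarith) (by push_cast; linarith))
      (side_mem (by push_cast; linarith) (by push_cast; linarith))
      (side_mem (by push_cast; linarith) (by push_cast; linarith)) hS
  rcases lt_or_ge u (450 / 1000) with g3 | g3
  · have hvb : v < 1171 / 1000 :=
      hstep (450 / 1000) _ g3.le (by norm_num) (by norm_num [phiTwo, phiG])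
    exact Ex.pos_of_check large_lie_300_120 (side_mem (by push_cast; linarith) (by push_cast; linarith))
      (side_mem (by push_cast; linarith) (by push_cast; linarith))
      (side_mem (by push_cast; linarith) (by push_cast; linarith)) hS
  rcases lt_or_ge u (600 / 1000) with g4 | g4
  · have hvb : v < 1536 / 1000 :=
      hstep (600 / 1000) _ g4.le (by norm_num) (by norm_num [phiTwo, phiG])
    exact Ex.pos_of_check large_lie_450_120 (side_mem (by push_cast; linarith) (by push_cast; linarith))
      (side_mem (by push_cast; linarith) (by push_cast; linarith))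
      (side_mem (by push_cast; linarith) (by push_cast; linarith)) hS
  rcases lt_or_ge u (700 / 1000) with g5 | g5
  · have hvb : v < 1953 / 1000 :=
      hstep (700 / 1000) _ g5.le (by norm_num) (by norm_num [phiTwo, phiG])
    exact Ex.pos_of_check large_lie_600_120 (side_mem (by push_cast; linarith) (by push_cast; linarith))
      (side_mem (by push_cast; linarith) (by push_cast; linarith))
      (side_mem (by push_cast; linarith) (by push_cast; linarith)) hS
  rcases lt_or_ge u (800 / 1000) with g6 | g6
  · have hvb : v < 2703 / 1000 :=
      hstep (800 / 1000) _ g6.le (by norm_num) (by norm_num [phiTwo, phiG])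
    exact Ex.pos_of_check large_lie_700_120 (side_mem (by push_cast; linarith) (by push_cast; linarith))
      (side_mem (by push_cast; linarith) (by push_cast; linarith))
      (side_mem (by push_cast; linarith) (by push_cast; linarith)) hS
  rcases lt_or_ge u (830 / 1000) with g7 | g7
  · have hvb : v < 3060 / 1000 :=
      hstep (830 / 1000) _ g7.le (by norm_num) (by norm_num [phiTwo, phiG])
    exact large_lie_sign_800 g6 g7 hv hvb hd hd1 hdv hS
  rcases lt_or_ge u (850 / 1000) with g8 | g8
  · have hvb : v < 3359 / 1000 :=
      hstep (850 / 1000) _ g8.le (by norm_num) (by norm_num [phiTwo, phiG])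
    exact large_lie_sign_830 g7 g8 hv hvb hd hd1 hdv hS
  rcases lt_or_ge u (860 / 1000) with g9 | g9
  · have hvb : v < 3531 / 1000 :=
      hstep (860 / 1000) _ g9.le (by norm_num) (by norm_num [phiTwo, phiG])
    exact large_lie_sign_850 g8 g9 hv hvb hd hd1 hdv hS
  rcases lt_or_ge u (870 / 1000) with g10 | g10
  · have hvb : v < 3723 / 1000 :=
      hstep (870 / 1000) _ g10.le (by norm_num) (by norm_num [phiTwo, phiG])
    exact large_lie_sign_860 g9 g10 hv hvb hd hd1 hdv hS
  rcases lt_or_ge u (880 / 1000) with g11 | g11
  · have hvb : v < 3938 / 1000 :=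
      hstep (880 / 1000) _ g11.le (by norm_num) (by norm_num [phiTwo, phiG])
    exact large_lie_sign_870 g10 g11 hv hvb hd hd1 hdv hS
  rcases lt_or_ge u (888 / 1000) with g12 | g12
  · have hvb : v < 4128 / 1000 :=
      hstep (888 / 1000) _ g12.le (by norm_num) (by norm_num [phiTwo, phiG])
    exact large_lie_sign_880 g11 g12 hv hvb hd hd1 hdv hS
  rcases lt_or_ge u (895 / 1000) with g13 | g13
  · have hvb : v < 4311 / 1000 :=
      hstep (895 / 1000) _ g13.le (by norm_num) (by norm_num [phiTwo, phiG])
    exact large_lie_sign_888 g12 g13 hv hvb hd hd1 hdv hS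
  have hvb : v < 4451 / 1000 := by linarith
  exact large_lie_sign_895 g13 (by linarith) hv hvb hd hd1 hdv hS

/-- **The lower band.** -/
theorem orbit_lower_large (hf : IsOrbitFns N p q S R x y s dx dy)
    (hb : SlabBox N (1 / (p + 1)) (1 / (q + 1))) (h0 : 3 / 25 ≤ 1 / (q + 1) - 1 / (p + 1))
    (h1 : 1 / (q + 1) - 1 / (p + 1) ≤ 1 / 5)
    {w : ℝ} (hw : w ∈ S) (hw0 : 0 < R w) (hwu : uOf N (R w) (x w) ≤ 9 / 10) :
    let al := 1 / (p + 1)
    let be := 1 / (q + 1)
    bandL N al be (be - al) (4 / 5 - 31 / 25 * (be - al)) (42 / 25 - 29 / 5 * (be - al)) (1 / 4 - 9 / 2 * (be - al))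
      (uOf N (R w) (x w)) (y w / x w) < hOf N (R w) (x w) (y w) w := by
  intro al be
  have := band_step hf hb (one_mul 1) (u₁ := 9 / 10) (by norm_num) (4 / 5 - 31 / 25 * (be - al)) (42 / 25 - 29 / 5 * (be - al)) (1 / 4 - 9 / 2 * (be - al))
    (fun u r => vOf al be r < phiTwo u ∧ (N - 2) * be * r < N * al)
    (fun w hw hw0 hwu => ⟨orbit_phiTwo hf hb hw hw0 (hwu.trans (by norm_num)), (hf.chart hb.five hb.low w hw hw0).2.2.2.2.2.2.2.2.1⟩)
    (bd := 3) (by linarith) (fun u hu hu1 => by nlinarith) (fun u r hu hu1 hE hv hv1 => ?_) hw hw0 hwu
  · linarith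
  · rw [one_mul]
    have key := large_lie_sign (d := be - al) hu hu1 hv hv1 hE.1 h0 h1 (dv_lt hb hE.2) (sideS_mem hb)
    rw [largeLie, val_lie] at key
    simpa [al, be, largeL₁, largeL₂, largeL₃, Ex.val, sub_eq_add_neg, neg_div] using key

/-- **The exit curve.** -/
theorem orbit_phi_large (hf : IsOrbitFns N p q S R x y s dx dy)
    (hb : SlabBox N (1 / (p + 1)) (1 / (q + 1))) (h0 : 3 / 25 ≤ 1 / (q + 1) - 1 / (p + 1))
    (h1 : 1 / (q + 1) - 1 / (p + 1) ≤ 1 / 5)
    {w : ℝ} (hw : w ∈ S) (hw0 : 0 < R w) (hwu : uOf N (R w) (x w) ≤ 9 / 10) :
    vOf (1 / (p + 1)) (1 / (q + 1)) (y w / x w) <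
      phiLarge (1 / (q + 1) - 1 / (p + 1)) (uOf N (R w) (x w)) := by
  set d := 1 / (q + 1) - 1 / (p + 1) with hdd
  refine exit_step_of (a := (67 / 100 - 29 / 100 * d)) (b := (18 / 25 - 3 / 25 * d))
    (k := (13 / 50 + 3 / 100 * d)) (c := 483 / 500) hf hb (u₁ := 9 / 10) (by norm_num) (by norm_num) (by linarith)
    (by linarith) phiTwo (fun w hw hw0 hwu => orbit_phiTwo hf hb hw hw0 (hwu.trans (by norm_num)))
    (by norm_num [phiTwo, phiG]; linarith) (fun w hw hw0 hwu => orbit_lower_large hf hb h0 h1 hw hw0 hwu)
    (bd := 3) (by linarith) (fun u hu hu1 => by nlinarith) (fun u hu hu1 _ _ => ?_)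
    (fun u hu hu1 _ _ => ?_) hw hw0 hwu
  · have key : 0 < largeExit.val u (33 / 100) d (1 / (p + 1) + 1 / (q + 1)) := by
      rcases lt_or_ge u (400 / 1000) with g0 | g0
      · exact Ex.pos_of_check large_exit_0 (side_mem (by push_cast; linarith) (by push_cast; linarith))
          (side_mem (by norm_num) (by norm_num))
          (side_mem (by push_cast; linarith) (by push_cast; linarith)) (sideS_mem hb)
      rcases lt_or_ge u (600 / 1000) with g1 | g1
      · exact Ex.pos_of_check large_exit_400 (side_mem (by push_cast; linarith) (by push_cast; linarith))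
          (side_mem (by norm_num) (by norm_num))
          (side_mem (by push_cast; linarith) (by push_cast; linarith)) (sideS_mem hb)
      rcases lt_or_ge u (700 / 1000) with g2 | g2
      · exact Ex.pos_of_check large_exit_600 (side_mem (by push_cast; linarith) (by push_cast; linarith))
          (side_mem (by norm_num) (by norm_num))
          (side_mem (by push_cast; linarith) (by push_cast; linarith)) (sideS_mem hb)
      rcases lt_or_ge u (800 / 1000) with g3 | g3
      · exact Ex.pos_of_check large_exit_700 (side_mem (by push_cast; linarith) (by push_cast; linarith))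
          (side_mem (by norm_num) (by norm_num))
          (side_mem (by push_cast; linarith) (by push_cast; linarith)) (sideS_mem hb)
      exact Ex.pos_of_check large_exit_800 (side_mem (by push_cast; linarith) (by push_cast; linarith))
        (side_mem (by norm_num) (by norm_num))
        (side_mem (by push_cast; linarith) (by push_cast; linarith)) (sideS_mem hb)
    rw [largeExit, val_exitG] at key
    simpa [largeA, largeB, largeK, largeL₁, largeL₂, largeL₃, Ex.val, d, sub_eq_add_neg, neg_div] using key
  · have key : 0 < largeSlope.val u (33 / 100) d (1 / (p + 1) + 1 / (q + 1)) := by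
      rcases lt_or_ge u (400 / 1000) with g0 | g0
      · exact Ex.pos_of_check large_slope_0 (side_mem (by push_cast; linarith) (by push_cast; linarith))
          (side_mem (by norm_num) (by norm_num))
          (side_mem (by push_cast; linarith) (by push_cast; linarith)) (sideS_mem hb)
      rcases lt_or_ge u (600 / 1000) with g1 | g1
      · exact Ex.pos_of_check large_slope_400 (side_mem (by push_cast; linarith) (by push_cast; linarith))
          (side_mem (by norm_num) (by norm_num))
          (side_mem (by push_cast; linarith) (by push_cast; linarith)) (sideS_mem hb)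
      rcases lt_or_ge u (700 / 1000) with g2 | g2
      · exact Ex.pos_of_check large_slope_600 (side_mem (by push_cast; linarith) (by push_cast; linarith))
          (side_mem (by norm_num) (by norm_num))
          (side_mem (by push_cast; linarith) (by push_cast; linarith)) (sideS_mem hb)
      rcases lt_or_ge u (800 / 1000) with g3 | g3
      · exact Ex.pos_of_check large_slope_700 (side_mem (by push_cast; linarith) (by push_cast; linarith))
          (side_mem (by norm_num) (by norm_num))
          (side_mem (by push_cast; linarith) (by push_cast; linarith)) (sideS_mem hb)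
      exact Ex.pos_of_check large_slope_800 (side_mem (by push_cast; linarith) (by push_cast; linarith))
        (side_mem (by norm_num) (by norm_num))
        (side_mem (by push_cast; linarith) (by push_cast; linarith)) (sideS_mem hb)
    rw [largeSlope, val_slopeB] at key
    exact le_of_lt (by simpa [largeA, largeB, largeK, largeL₁, largeL₂, largeL₃, Ex.val, d, sub_eq_add_neg, neg_div] using key)

theorem large_upper_sign {u v d S' : ℝ} (hu : 0 ≤ u) (hu1 : u ≤ 3 / 5) (hv : 33 / 100 ≤ v)
    (hphi : v < phiLarge d u) (hd : 3 / 25 ≤ d) (hd1 : d ≤ 1 / 5) (hS : sideS.Mem S') :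
    0 < largeUpper.val u v d S' := by
  have hstep : ∀ b c : ℝ, u ≤ b → b < 483 / 500 → phiLarge d b ≤ c → v < c := fun b c h1 h2 h3 =>
    lt_of_lt_of_le (hphi.trans_le (phiG_mono (by linarith) (by linarith) hu h1 h2)) h3
  rcases lt_or_ge u (150 / 1000) with g0 | g0
  · have hvb : v < 750 / 1000 :=
      hstep (150 / 1000) _ g0.le (by norm_num) (by norm_num [phiLarge, phiG]; linarith)
    exact Ex.pos_of_check large_upper_0 (side_mem (by push_cast; linarith) (by push_cast; linarith))
      (side_mem (by push_cast; linarith) (by push_cast; linarith))
      (side_mem (by push_cast; linarith) (by push_cast; linarith)) hS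
  rcases lt_or_ge u (300 / 1000) with g1 | g1
  · have hvb : v < 884 / 1000 :=
      hstep (300 / 1000) _ g1.le (by norm_num) (by norm_num [phiLarge, phiG]; linarith)
    exact Ex.pos_of_check large_upper_150 (side_mem (by push_cast; linarith) (by push_cast; linarith))
      (side_mem (by push_cast; linarith) (by push_cast; linarith))
      (side_mem (by push_cast; linarith) (by push_cast; linarith)) hS
  rcases lt_or_ge u (400 / 1000) with g2 | g2
  · have hvb : v < 993 / 1000 :=
      hstep (400 / 1000) _ g2.le (by norm_num) (by norm_num [phiLarge, phiG]; linarith)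
    exact Ex.pos_of_check large_upper_300 (side_mem (by push_cast; linarith) (by push_cast; linarith))
      (side_mem (by push_cast; linarith) (by push_cast; linarith))
      (side_mem (by push_cast; linarith) (by push_cast; linarith)) hS
  rcases lt_or_ge u (500 / 1000) with g3 | g3
  · have hvb : v < 1131 / 1000 :=
      hstep (500 / 1000) _ g3.le (by norm_num) (by norm_num [phiLarge, phiG]; linarith)
    exact Ex.pos_of_check large_upper_400 (side_mem (by push_cast; linarith) (by push_cast; linarith))
      (side_mem (by push_cast; linarith) (by push_cast; linarith))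
      (side_mem (by push_cast; linarith) (by push_cast; linarith)) hS
  rcases lt_or_ge u (550 / 1000) with g4 | g4
  · have hvb : v < 1216 / 1000 :=
      hstep (550 / 1000) _ g4.le (by norm_num) (by norm_num [phiLarge, phiG]; linarith)
    exact Ex.pos_of_check large_upper_500 (side_mem (by push_cast; linarith) (by push_cast; linarith))
      (side_mem (by push_cast; linarith) (by push_cast; linarith))
      (side_mem (by push_cast; linarith) (by push_cast; linarith)) hS
  have hvb : v < 1322 / 1000 :=
    hstep (3 / 5) _ hu1 (by norm_num) (by norm_num [phiLarge, phiG]; linarith)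
  exact Ex.pos_of_check large_upper_550 (side_mem (by push_cast; linarith) (by push_cast; linarith))
    (side_mem (by push_cast; linarith) (by push_cast; linarith))
    (side_mem (by push_cast; linarith) (by push_cast; linarith)) hS

/-- **The bands** for `u ≤ 3/5`. -/
theorem orbit_band_large (hf : IsOrbitFns N p q S R x y s dx dy)
    (hb : SlabBox N (1 / (p + 1)) (1 / (q + 1))) (h0 : 3 / 25 ≤ 1 / (q + 1) - 1 / (p + 1))
    (h1 : 1 / (q + 1) - 1 / (p + 1) ≤ 1 / 5)
    {w : ℝ} (hw : w ∈ S) (hw0 : 0 < R w) (hwu : uOf N (R w) (x w) ≤ 3 / 5) :
    let al := 1 / (p + 1)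
    let be := 1 / (q + 1)
    let u := uOf N (R w) (x w)
    let r := y w / x w
    vOf al be r < phiLarge (be - al) u ∧
      bandL N al be (be - al) (4 / 5 - 31 / 25 * (be - al)) (42 / 25 - 29 / 5 * (be - al)) (1 / 4 - 9 / 2 * (be - al)) u r <
        hOf N (R w) (x w) (y w) w ∧
      hOf N (R w) (x w) (y w) w <
        bandL N al be (be - al) (141 / 100 - 16 / 5 * (be - al)) (1 / 2 - 63 / 20 * (be - al)) (27 / 10 - 31 / 4 * (be - al)) u r := by
  intro al be u r
  refine ⟨orbit_phi_large hf hb h0 h1 hw hw0 (hwu.trans (by norm_num)),
    orbit_lower_large hf hb h0 h1 hw hw0 (hwu.trans (by norm_num)), ?_⟩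
  have := band_step hf hb (e := -1) (by norm_num) (u₁ := 3 / 5) (by norm_num) (141 / 100 - 16 / 5 * (be - al)) (1 / 2 - 63 / 20 * (be - al)) (27 / 10 - 31 / 4 * (be - al))
    (fun u r => vOf al be r < phiLarge (be - al) u)
    (fun w hw hw0 hwu => orbit_phi_large hf hb h0 h1 hw hw0 (hwu.trans (by norm_num)))
    (bd := 4) (by linarith) (fun u hu hu1 => by nlinarith) (fun u r hu hu1 hE hv _ => ?_) hw hw0 hwu
  · linarith
  · have key := large_upper_sign (d := be - al) hu hu1 hv hE h0 h1 (sideS_mem hb)
    rw [largeUpper, Ex.val, val_lie] at key
    simpa [al, be, largeU₁, largeU₂, largeU₃, Ex.val, sub_eq_add_neg, neg_div] using key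

end Vale.Agent.P100.Calib.Band
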