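import Vale.Agent.P100.Calib.SlabNegChecks

/-!
# The signs of the bands for `u < 0`, as inequalities
-/

namespace Vale.Agent.P100.Calib.Band

open BoxPos

/-- The lower end of `v - (9/50) u`. -/
noncomputable def negW₀ (S d : ℝ) : ℝ := 89 / 250 + 1 / 16 * d - (S - 3 / 5)

/-- The upper end of `v - (9/50) u`. -/
noncomputable def negW₁ (d : ℝ) : ℝ := 14 / 25 - 1 / 20 * d

/-- The bound of `-u`. -/
noncomputable def negUm (d w : ℝ) : ℝ := 1 / 500 + 7 / 40 * d + (5 / 8 + 1 / 5 * d) * w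

/-- The slope of the lower band. -/
noncomputable def negCl (d : ℝ) : ℝ := 143 / 100 - 5 * d + 25 / 4 * (d * d)

/-- The constant of the upper band. -/
noncomputable def negCu (d : ℝ) : ℝ := 131 / 100 - 26 / 5 * d + 43 / 5 * (d * d)

/-- The slope in `u` of the upper band. -/
noncomputable def negSu (d : ℝ) : ℝ := 93 / 100 - 9 / 2 * d + 7 * (d * d)

theorem negW₀_lt_negW₁ {S d : ℝ} (hd1 : d ≤ 1 / 5) (hS : 3 / 5 ≤ S) :
    negW₀ S d < negW₁ d := by
  simp only [negW₀, negW₁]; linarith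

section
variable (a o d S : ℝ)

theorem val_nB : nB.val a o d S = bandB S d := by
  simp only [nB, val_sub, val_mul, Ex.val, bandB]; push_cast; ring

theorem val_eA : eA.val a o d S = (S - d) / 2 := by
  simp only [eA, val_sub, val_mul, Ex.val]; push_cast; ring

theorem val_nW₀ : nW₀.val a o d S = negW₀ S d := by
  simp only [nW₀, val_sub, Ex.val, negW₀]; push_cast; ring

theorem val_nW₁ : nW₁.val a o d S = negW₁ d := by
  simp only [nW₁, val_sub, Ex.val, negW₁]; push_cast; ring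

theorem val_nW : nW.val a o d S = negW₀ S d + o * (negW₁ d - negW₀ S d) := by
  simp only [nW, val_add, val_sub, Ex.val, val_nW₀, val_nW₁]

theorem val_nUm (w : Ex) : (nUm w).val a o d S = negUm d (w.val a o d S) := by
  simp only [nUm, val_add, Ex.val, negUm]; push_cast; ring

theorem val_nU : nU.val a o d S = -a := by
  simp only [nU, val_mul, Ex.val]; push_cast; ring

theorem val_nV (u w : Ex) :
    (nV u w).val a o d S = w.val a o d S + 9 / 50 * u.val a o d S := by
  simp only [nV, val_add, Ex.val]; push_cast; ring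

theorem val_nCl : nCl.val a o d S = negCl d := by
  simp only [nCl, val_add, val_sub, Ex.val, negCl]; push_cast; ring

theorem val_nCu : nCu.val a o d S = negCu d := by
  simp only [nCu, val_add, val_sub, Ex.val, negCu]; push_cast; ring

theorem val_nSu : nSu.val a o d S = negSu d := by
  simp only [nSu, val_add, val_sub, Ex.val, negSu]; push_cast; ring

theorem val_nK (u v t : Ex) : (nK u v t).val a o d S =
    bandK S d (u.val a o d S) (v.val a o d S) (t.val a o d S) 0 0 := by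
  simp only [nK, val_add, val_sub, Ex.val, val_nB, val_eA, bandK]; push_cast; ring

theorem val_nLie (u v c₁ c₂ : Ex) : (nLie u v c₁ c₂).val a o d S =
    lieT S d (u.val a o d S) (v.val a o d S) (c₁.val a o d S) (c₂.val a o d S) 0 := by
  simp only [nLie, val_sub, Ex.val, val_nB, val_eA, lieT, bandK, bandD, bandQ]
  push_cast
  ring

theorem val_nExit (u v t : Ex) : (nExit u v t).val a o d S =
    exitP S d (u.val a o d S) (v.val a o d S) (t.val a o d S) 1 (9 / 50) := by
  simp only [nExit, val_sub, Ex.val, val_nK, val_nB, val_eA, exitP, bandD, bandQ]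
  push_cast
  ring

end

/-- The signs of the two bands. -/
theorem neg_band_signs {S d u v : ℝ} (hd : 0 ≤ d) (hd1 : d ≤ 1 / 5) (hS : 3 / 5 ≤ S)
    (hS1 : S ≤ 307 / 507) (hu : u ≤ 0) (hu1 : -(81 / 200) ≤ u)
    (hw : negW₀ S d ≤ v - 9 / 50 * u) (hw1 : v - 9 / 50 * u ≤ negW₁ d) :
    lieT S d u v (negCl d) 0 0 < 0 ∧ 0 < lieT S d u v (negCu d) (negSu d) 0 := by
  have hlt := negW₀_lt_negW₁ hd1 hS
  obtain ⟨o, ho, ho1, hov⟩ : ∃ o, 0 ≤ o ∧ o ≤ 1 ∧
      negW₀ S d + o * (negW₁ d - negW₀ S d) = v - 9 / 50 * u :=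
    ⟨(v - 9 / 50 * u - negW₀ S d) / (negW₁ d - negW₀ S d),
      div_nonneg (by linarith) (by linarith), (div_le_one (by linarith)).2 (by linarith),
      by rw [div_mul_cancel₀ _ (by linarith)]; ring⟩
  have mo : (⟨0, 1001, 1000⟩ : Side).Mem o := by
    refine ⟨?_, ?_⟩ <;> push_cast <;> linarith
  have md : sideD.Mem d := by
    refine ⟨?_, ?_⟩ <;> norm_num [sideD] <;> linarith
  have mS : sideS.Mem S := by
    refine ⟨?_, ?_⟩ <;> norm_num [sideS] <;> linarith
  have key : ∀ c₁ c₂ : Ex, (nLie nU (nV nU nW) c₁ c₂).val (-u) o d S =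
      lieT S d u v (c₁.val (-u) o d S) (c₂.val (-u) o d S) 0 := by
    intro c₁ c₂
    rw [val_nLie, val_nV, val_nU, val_nW, hov, neg_neg, sub_add_cancel]
  constructor
  · have h := Ex.pos_of_check negL_check (y₀ := -u) (y₁ := o) (y₂ := d) (y₃ := S)
      (by refine ⟨?_, ?_⟩ <;> push_cast [nBox] <;> linarith) mo md mS
    simp only [negL, val_sub, key, val_nCl, Ex.val] at h
    push_cast at h
    norm_num at h
    linarith
  · have h : 0 < negU.val (-u) o d S := by
      rcases lt_or_ge (-u) (250 / 1000) with g | g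
      · exact Ex.pos_of_check negU_check₁ (by refine ⟨?_, ?_⟩ <;> push_cast [nBox] <;> linarith)
          mo md mS
      · exact Ex.pos_of_check negU_check₂ (by refine ⟨?_, ?_⟩ <;> push_cast [nBox] <;> linarith)
          mo md mS
    simpa [negU, key, val_nCu, val_nSu] using h

/-- An affine function negative at two ends is negative between. -/
theorem affine_neg {f : ℝ → ℝ} {a b t : ℝ} (hf : ∀ x, f x = f 0 + x * (f 1 - f 0))
    (ha : f a < 0) (hb : f b < 0) (h1 : a ≤ t) (h2 : t ≤ b) : f t < 0 := by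
  rcases le_total 0 (f 1 - f 0) with h | h
  · have := mul_le_mul_of_nonneg_right h2 h
    rw [hf] at hb ⊢
    linarith
  · have := mul_le_mul_of_nonpos_right h1 h
    rw [hf] at ha ⊢
    linarith

theorem exitP_affine (S d u v x : ℝ) : exitP S d u v x 1 (9 / 50) =
    exitP S d u v 0 1 (9 / 50) + x * (exitP S d u v 1 1 (9 / 50) - exitP S d u v 0 1 (9 / 50)) := by
  simp only [exitP, bandD, bandK, bandQ]
  ring

/-- The signs of the two lines. -/
theorem neg_line_signs {S d u t : ℝ} (hd : 0 ≤ d) (hd1 : d ≤ 1 / 5) (hS : 3 / 5 ≤ S)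
    (hS1 : S ≤ 307 / 507) (hu : u ≤ 0) (hu1 : -(81 / 200) ≤ u)
    (ht : negCu d + negSu d * u ≤ t) (ht1 : t ≤ negCl d) :
    exitP S d u (negW₀ S d + 9 / 50 * u) t 1 (9 / 50) < 0 ∧
      0 < exitP S d u (negW₁ d + 9 / 50 * u) t 1 (9 / 50) := by
  have mo : (⟨0, 1001, 1000⟩ : Side).Mem (0 : ℝ) := by
    refine ⟨?_, ?_⟩ <;> norm_num
  have mu : (⟨0, 406, 1000⟩ : Side).Mem (-u) := by
    refine ⟨?_, ?_⟩ <;> push_cast <;> linarith
  have md : sideD.Mem d := by
    refine ⟨?_, ?_⟩ <;> norm_num [sideD] <;> linarith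
  have mS : sideS.Mem S := by
    refine ⟨?_, ?_⟩ <;> norm_num [sideS] <;> linarith
  have a1 := Ex.pos_of_check negLoU_check mu mo md mS
  have a2 := Ex.pos_of_check negLoL_check mu mo md mS
  have b1 := Ex.pos_of_check negHiU_check mu mo md mS
  have b2 := Ex.pos_of_check negHiL_check mu mo md mS
  simp only [negLoU, negLoL, negHiU, negHiL, val_sub, val_nExit, val_nV, val_nU, val_nW₀, val_nW₁,
    val_nCl, val_nCu, val_nSu, Ex.val, neg_neg] at a1 a2 b1 b2
  push_cast at a1 a2
  norm_num at a1 a2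
  refine ⟨affine_neg (f := fun x => exitP S d u (negW₀ S d + 9 / 50 * u) x 1 (9 / 50))
    (fun x => exitP_affine _ _ _ _ x) a1 a2 ht ht1, ?_⟩
  have := affine_neg (f := fun x => -exitP S d u (negW₁ d + 9 / 50 * u) x 1 (9 / 50))
    (fun x => by rw [exitP_affine _ _ _ _ x]; ring) (by linarith) (by linarith) ht ht1
  linarith

/-- The end of the range of `u`. -/
theorem neg_end_sign {S d w : ℝ} (hd : 0 ≤ d) (hd1 : d ≤ 1 / 5) (hS : 3 / 5 ≤ S)
    (hS1 : S ≤ 307 / 507) (hw : negW₀ S d ≤ w) (hw1 : w ≤ negW₁ d) :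
    bandB S d * (w + 9 / 50 * -negUm d w) <
      negUm d w * bandK S d (-negUm d w) (w + 9 / 50 * -negUm d w) (negCl d) 0 0 := by
  have hlt := negW₀_lt_negW₁ hd1 hS
  obtain ⟨o, ho, ho1, hov⟩ : ∃ o, 0 ≤ o ∧ o ≤ 1 ∧
      negW₀ S d + o * (negW₁ d - negW₀ S d) = w :=
    ⟨(w - negW₀ S d) / (negW₁ d - negW₀ S d), div_nonneg (by linarith) (by linarith),
      (div_le_one (by linarith)).2 (by linarith), by rw [div_mul_cancel₀ _ (by linarith)]; ring⟩
  have h := Ex.pos_of_check negEnd_check (y₀ := 0) (y₁ := o) (y₂ := d) (y₃ := S)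
    (by refine ⟨?_, ?_⟩ <;> norm_num [nBox])
    (by refine ⟨?_, ?_⟩ <;> push_cast [nBox] <;> linarith)
    (by refine ⟨?_, ?_⟩ <;> norm_num [nBox, sideD] <;> linarith)
    (by refine ⟨?_, ?_⟩ <;> norm_num [nBox, sideS] <;> linarith)
  simp only [negEnd, val_sub, val_nK, val_nV, val_nUm, val_nW, val_nB, val_nCl, Ex.val,
    hov] at h
  push_cast at h
  norm_num at h
  norm_num
  linarith

end Vale.Agent.P100.Calib.Band
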