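import Vale.Agent.P100.Calib.SlabCentre
import Vale.Agent.P100.Calib.SlabNegSigns

/-!
# The bands past the crossing

On every orbit of the slab, for `R z < 0` and `z ≤ (p + 1)/(q + 1)`, with `d = be - al`,
`v = vOf al be (y/x)` and `w = v - (9/50) u`:
`w₀ ≤ w ≤ w₁`, `-um d w ≤ u < 0` and `hc + d cl u ≤ h ≤ hc + d (cu u + su u²)`.
-/

open Set Filter Topology

namespace Vale.Agent.P100.Calib.Band

open Vale.Agent.P100.Bubble Chart

variable {N p q : ℝ} {S : Set ℝ} {R x y s dx dy : ℝ → ℝ}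

/-- The chart conditions past the crossing. -/
structure NegAt (N al be u r h : ℝ) : Prop where
  low : negW₀ (al + be) (be - al) ≤ vOf al be r - 9 / 50 * u
  high : vOf al be r - 9 / 50 * u ≤ negW₁ (be - al)
  left : -negUm (be - al) (vOf al be r - 9 / 50 * u) ≤ u
  lower : bandL N al be (be - al) (negCl (be - al)) 0 0 u r ≤ h
  upper : h ≤ bandL N al be (be - al) (negCu (be - al)) (negSu (be - al)) 0 u r

section
variable {al be u r h : ℝ}

/-- The least of the five gaps. -/
noncomputable def negGap (N al be u r h : ℝ) : ℝ :=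
  min (min (vOf al be r - 9 / 50 * u - negW₀ (al + be) (be - al))
      (negW₁ (be - al) - (vOf al be r - 9 / 50 * u)))
    (min (u + negUm (be - al) (vOf al be r - 9 / 50 * u))
      (min (h - bandL N al be (be - al) (negCl (be - al)) 0 0 u r)
        (bandL N al be (be - al) (negCu (be - al)) (negSu (be - al)) 0 u r - h)))

theorem negGap_pos : 0 < negGap N al be u r h ↔
    negW₀ (al + be) (be - al) < vOf al be r - 9 / 50 * u ∧
      vOf al be r - 9 / 50 * u < negW₁ (be - al) ∧
      -negUm (be - al) (vOf al be r - 9 / 50 * u) < u ∧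
      bandL N al be (be - al) (negCl (be - al)) 0 0 u r < h ∧
      h < bandL N al be (be - al) (negCu (be - al)) (negSu (be - al)) 0 u r := by
  simp only [negGap, lt_min_iff, sub_pos]
  constructor
  · rintro ⟨⟨a1, a2⟩, a3, a4, a5⟩
    exact ⟨a1, a2, by linarith, a4, a5⟩
  · rintro ⟨a1, a2, a3, a4, a5⟩
    exact ⟨⟨a1, a2⟩, by linarith, a4, a5⟩

theorem negAt_of_gap (hg : 0 ≤ negGap N al be u r h) : NegAt N al be u r h := by
  simp only [negGap, le_min_iff, sub_nonneg] at hg
  obtain ⟨⟨a1, a2⟩, a3, a4, a5⟩ := hg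
  exact ⟨a1, a2, by linarith, a4, a5⟩

theorem continuous_negGap :
    Continuous fun w : ℝ × ℝ × ℝ => negGap N al be w.1 w.2.1 w.2.2 := by
  unfold negGap negUm bandL hc vOf
  fun_prop

theorem negUm_le {d w : ℝ} (hd : 0 ≤ d) (hd1 : d ≤ 1 / 5) (hw : w ≤ negW₁ d) :
    negUm d w ≤ 81 / 200 := by
  have := mul_le_mul_of_nonneg_left hw (show 0 ≤ 5 / 8 + 1 / 5 * d by linarith)
  simp only [negUm, negW₁] at this ⊢
  linarith [mul_self_nonneg d]

theorem SlabBox.d_ends (hb : SlabBox N al be) :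
    0 ≤ be - al ∧ be - al ≤ 1 / 5 ∧ 3 / 5 ≤ al + be ∧ al + be ≤ 307 / 507 :=
  ⟨by linarith [hb.lt], hb.diff, hb.S_low, hb.S_high⟩

theorem SlabBox.negW₀_lt (hb : SlabBox N al be) :
    negW₀ (al + be) (be - al) < 2 / (N + 2 * al) := by
  obtain ⟨h0, h1, h2, h3⟩ := hb.d_ends
  obtain ⟨hal, -, -, -, -, -, hal2⟩ := hb.facts
  have hN : 0 < N + 2 * al := by linarith [hb.five]
  rw [lt_div_iff₀ hN]
  refine lt_of_mul_lt_mul_left (a := 1 - (al + be)) ?_ (by linarith)
  rw [show (1 - (al + be)) * (negW₀ (al + be) (be - al) * (N + 2 * al)) =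
    negW₀ (al + be) (be - al) * (N * (1 - (al + be)) + 2 * al * (1 - (al + be))) by ring, hb.sum]
  have hw : negW₀ (al + be) (be - al) ≤ 89 / 250 + 1 / 16 * (be - al) := by
    simp only [negW₀]; linarith
  have h4 : 0 ≤ al * (1 - (al + be)) := mul_nonneg hal.le (by linarith)
  have h5 : al * (1 - (al + be)) ≤ (307 / 507 - (be - al)) / 2 * (2 / 5) :=
    mul_le_mul (by linarith) (by linarith) (by linarith) (by linarith)
  have h6 := mul_le_mul_of_nonneg_left h5 (show (0 : ℝ) ≤ 89 / 250 + 1 / 16 * (be - al) by linarith)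
  have h7 := mul_le_mul_of_nonneg_right hw h4
  simp only [negW₀] at h7 ⊢
  nlinarith

/-- The bracket of the flow on a band. -/
theorem neg_lie_sign (hb : SlabBox N al be) {c₁ c₂ e : ℝ} (hu : u < 0)
    (hu1 : -(81 / 200) ≤ u) (hw : negW₀ (al + be) (be - al) ≤ vOf al be r - 9 / 50 * u)
    (hc : 0 ≤ c₁ + c₂ * u) (hc1 : c₁ + c₂ * u ≤ 8 / 5)
    (hT : e * lieT (al + be) (be - al) u (vOf al be r) c₁ c₂ 0 < 0) :
    0 < e * lie N al be (fun u _ => bandLu (be - al) c₁ c₂ 0 u) (fun _ _ => bandLr N al) u r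
      (bandL N al be (be - al) c₁ c₂ 0 u r) := by
  obtain ⟨hal, hbe, hd, hS1, hS2, hal1, hal2⟩ := hb.facts
  obtain ⟨h0, h1, h2, h3⟩ := hb.d_ends
  have hv : 1 / 4 ≤ vOf al be r := by
    have : (1 / 4 : ℝ) ≤ negW₀ (al + be) (be - al) + 9 / 50 * u := by
      simp only [negW₀]; linarith
    linarith
  have hB : 0 < bandB (al + be) (be - al) := by
    unfold bandB; exact mul_pos (by linarith) (by linarith)
  have hB1 : bandB (al + be) (be - al) ≤ 3 / 5 := by
    unfold bandB
    have := mul_le_mul (show (al + be + (be - al)) / 2 ≤ 41 / 100 by linarith)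
      (show 2 - (al + be) ≤ 7 / 5 by linarith) (by linarith) (by norm_num)
    linarith
  have hD : 0 < bandD (al + be) (be - al) u (vOf al be r)
      (bandK (al + be) (be - al) u (vOf al be r) c₁ c₂ 0) := by
    have e1 : (al + be - (be - al)) / 2 = al := by ring
    have hK : 0 ≤ bandK (al + be) (be - al) u (vOf al be r) c₁ c₂ 0 := by
      simp only [bandK, e1, zero_mul, add_zero]
      have h4 : 3 / 5 * 1 ≤ (al + be) * (1 + (1 - al) * vOf al be r) :=
        mul_le_mul h2 (le_add_of_nonneg_right (mul_nonneg (by linarith) (by linarith)))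
          zero_le_one (by linarith)
      have h5 : bandB (al + be) (be - al) * (-u) * (c₁ + c₂ * u) ≤ 3 / 5 * (81 / 200) * (8 / 5) :=
        mul_le_mul (mul_le_mul hB1 (by linarith) (by linarith) (by norm_num)) hc1 hc
          (by norm_num)
      linarith
    simp only [bandD]
    have h4 := mul_nonneg (mul_nonneg hd.le (neg_nonneg.2 hu.le)) hK
    have h5 := mul_pos hB (show 0 < 2 + (be - al) * vOf al be r by
      linarith [mul_nonneg hd.le (show (0 : ℝ) ≤ vOf al be r by linarith)])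
    linarith
  have key := lie_band (u := u) (v := vOf al be r) (c₁ := c₁) (c₂ := c₂) (c₃ := 0)
    hb.sum rfl rfl hal.ne' hbe.ne' hS1 hS2 hD.ne'
  rw [show al / be * (1 + (be - al) * vOf al be r) = r from hb.r_eq r] at key
  set X := (1 - (al + be)) * bandB (al + be) (be - al) * be *
    bandD (al + be) (be - al) u (vOf al be r)
      (bandK (al + be) (be - al) u (vOf al be r) c₁ c₂ 0)
  have hX : 0 < X := mul_pos (mul_pos (mul_pos (by linarith) hB) hbe) hD
  refine pos_of_mul_pos_left (b := X) ?_ hX.le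
  rw [mul_assoc, key]
  have := mul_pos_of_neg_of_neg (mul_neg_of_pos_of_neg hd hu) hT
  linarith

theorem hasDeriv_line {W : ℝ} :
    HasGrad (fun a b _ => vOf al be b - 9 / 50 * a - W)
      (fun _ _ _ => -(9 / 50)) (fun _ _ _ => be / al / (be - al)) (fun _ _ _ => 0) := by
  intro a b c da db dc t ha hb' _
  refine ((((hb'.const_mul (be / al)).sub_const 1).div_const (be - al)).fun_sub
    (ha.const_mul (9 / 50))).sub_const W |>.congr_deriv ?_
  ring

/-- The drift of `v - (9/50) u` in the chart. -/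
theorem line_drift (hb : SlabBox N al be) (hu : u < 0) (hh : 0 < h) (hN : NegAt N al be u r h) :
    ∃ t X, 0 < X ∧ negCu (be - al) + negSu (be - al) * u ≤ t ∧ t ≤ negCl (be - al) ∧
      (-(9 / 50) * (u * ev N al be u r h) + be / al / (be - al) * (r * dv N al be u r h)) * X =
        u * exitP (al + be) (be - al) u (vOf al be r) t 1 (9 / 50) := by
  obtain ⟨hal, hbe, hd, hS1, hS2, -, -⟩ := hb.facts
  obtain ⟨h0, h1, h2, h3⟩ := hb.d_ends
  set d := be - al with hdd
  set v := vOf al be r with hvd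
  have hr : al / be * (1 + d * v) = r := hb.r_eq r
  set t := (h - hc N al be r) / (d * u) with htd
  have hdu : d * u ≠ 0 := mul_ne_zero hd.ne' hu.ne
  have het : h = bandL N al be d t 0 0 u r := by
    have : t * (d * u) = h - hc N al be r := by rw [htd, div_mul_cancel₀ _ hdu]
    simp only [bandL]
    linarith
  have hv : 0 < v := by
    have h4 := hN.low
    have h5 := negUm_le h0 h1 hN.high
    have h6 := hN.left
    simp only [negW₀] at h4
    linarith
  have hB : 0 < bandB (al + be) d := by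
    unfold bandB; exact mul_pos (by linarith) (by linarith)
  have hbv := band_value (u := u) (v := v) (c₁ := t) (c₂ := 0) (c₃ := 0)
    hb.sum rfl rfl hal.ne' hbe.ne' hS1 hS2
  rw [hr, ← het] at hbv
  have hD : 0 < denV (al + be) d u v t := by
    have e : denV (al + be) d u v t = bandB (al + be) d * (2 + d * v - u * h) := by
      rw [hbv]
      simp only [denV, bandD]
      simp only [← hdd]
      generalize bandK (al + be) d u v t 0 0 = K
      generalize bandB (al + be) d = B at hB ⊢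
      field_simp
    rw [e]
    exact mul_pos hB (by linarith [mul_neg_of_neg_of_pos hu hh, mul_pos hd hv])
  have hX : 0 < (1 - (al + be)) * be * denV (al + be) d u v t :=
    mul_pos (mul_pos (by linarith) hbe) hD
  refine ⟨t, _, hX, ?_, ?_, ?_⟩
  · rw [htd, le_div_iff_of_neg (mul_neg_of_pos_of_neg hd hu)]
    have := hN.upper
    simp only [bandL] at this
    linarith
  · rw [htd, div_le_iff_of_neg (mul_neg_of_pos_of_neg hd hu)]
    have := hN.lower
    simp only [bandL] at this
    linarith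
  · have kp := exitP_band (N := N) (u := u) (v := v) (t := t) (W := 1) (g := 9 / 50)
      hb.sum rfl rfl hal.ne' hbe.ne' hS1 hS2 hD.ne'
    rw [hr, ← hbv] at kp
    have hr'' : r * (be / al) = 1 + d * v := by rw [← hr]; field_simp
    have edv : be / al / d * (r * dv N al be u r h) =
        u / d * (1 + d * v) * (qv N al be u r h * h - (N - 2) * (1 - r)) := by
      simp only [dv]
      rw [← hr'']
      ring
    rw [edv]
    have hk : d * (u / d) = u := mul_div_cancel₀ _ hd.ne'
    generalize exitP (al + be) d u v t 1 (9 / 50) = P at kp ⊢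
    generalize (1 - (al + be)) * be * denV (al + be) d u v t = X at kp ⊢
    generalize u / d = k at hk ⊢
    subst hk
    linear_combination k * kp

end

/-- The bands, given the range of `v` and `u`. -/
theorem neg_bands (hf : IsOrbitFns N p q S R x y s dx dy)
    (hb : SlabBox N (1 / (p + 1)) (1 / (q + 1)))
    {z₂ : ℝ} (hz₂ : z₂ ∈ S) (hE : ∀ z ∈ S, z ≤ z₂ → R z < 0 →
      negW₀ (1 / (p + 1) + 1 / (q + 1)) (1 / (q + 1) - 1 / (p + 1)) ≤
        vOf (1 / (p + 1)) (1 / (q + 1)) (y z / x z) - 9 / 50 * uOf N (R z) (x z) ∧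
      vOf (1 / (p + 1)) (1 / (q + 1)) (y z / x z) - 9 / 50 * uOf N (R z) (x z) ≤
        negW₁ (1 / (q + 1) - 1 / (p + 1)) ∧ -(81 / 200) ≤ uOf N (R z) (x z))
    {z : ℝ} (hz : z ∈ S) (hle : z ≤ z₂) (hzR : R z < 0) :
    let al := 1 / (p + 1)
    let be := 1 / (q + 1)
    bandL N al be (be - al) (negCl (be - al)) 0 0 (uOf N (R z) (x z)) (y z / x z) <
        hOf N (R z) (x z) (y z) z ∧
      hOf N (R z) (x z) (y z) z < bandL N al be (be - al) (negCu (be - al)) (negSu (be - al)) 0
        (uOf N (R z) (x z)) (y z / x z) := by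
  intro al' be'
  obtain ⟨hal, hbe, hd, -⟩ := hb.facts
  obtain ⟨hd0, hd1, hS0, hS1⟩ := hb.d_ends
  have h5 := hb.five
  have hlow : 1 ≤ N * (1 / (p + 1)) := hb.low
  set al := 1 / (p + 1) with hald
  set be := 1 / (q + 1) with hbed
  set d := be - al with hdd
  have hcont := fun c₁ c₂ : ℝ => continuous_band (N := N) (al := al) (be := be) (d := d)
    (c₁ := c₁) (c₂ := c₂) (c₃ := (0 : ℝ))
  have key : ∀ e c₁ c₂ : ℝ, e * e = 1 →
      (∀ a, a < 0 → -(81 / 200) ≤ a → 0 ≤ c₁ + c₂ * a ∧ c₁ + c₂ * a ≤ 8 / 5) →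
      (∀ a b, a < 0 → -(81 / 200) ≤ a → negW₀ (al + be) d ≤ vOf al be b - 9 / 50 * a →
        vOf al be b - 9 / 50 * a ≤ negW₁ d → e * lieT (al + be) d a (vOf al be b) c₁ c₂ 0 < 0) →
      0 < e * (hOf N (R z) (x z) (y z) z - bandL N al be d c₁ c₂ 0 (uOf N (R z) (x z)) (y z / x z)) := by
    intro e c₁ c₂ he hP hT
    refine hf.band_barrier_neg h5 hlow e he _ _ _
      (fun a b => negW₀ (al + be) d ≤ vOf al be b - 9 / 50 * a ∧
        vOf al be b - 9 / 50 * a ≤ negW₁ d ∧ -(81 / 200) ≤ a)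
      (hasGradTwo_band (N := N) (al := al) (be := be) (d := d) (c₁ := c₁) (c₂ := c₂) (c₃ := 0))
      (fun r' => ⟨(hcont c₁ c₂).1.continuousAt, (hcont c₁ c₂).2.1.continuousAt,
        continuous_const.continuousAt⟩)
      (fun r' _ _ _ => le_of_eq (by simp [bandL, al, be])) z₂ hz₂ hE
      (fun a b ha _ _ hab => ?_) z hz hle hzR
    exact neg_lie_sign hb ha hab.2.2 hab.1 (hP a ha hab.2.2).1 (hP a ha hab.2.2).2
      (hT a b ha hab.2.2 hab.1 hab.2.1)
  have k1 := key 1 (negCl d) 0 (one_mul 1)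
    (fun a _ _ => by simp only [negCl, zero_mul, add_zero]; constructor <;> nlinarith)
    (fun a b ha ha1 hw hw1 => by
      rw [one_mul]; exact (neg_band_signs hd0 hd1 hS0 hS1 ha.le ha1 hw hw1).1)
  have k2 := key (-1) (negCu d) (negSu d) (by norm_num)
    (fun a ha ha1 => by
      have hs : 0 ≤ negSu d ∧ negSu d ≤ 1 := by
        simp only [negSu]; constructor <;> nlinarith
      have h6 := mul_nonneg hs.1 (neg_nonneg.2 ha.le)
      have h7 : negSu d * (-a) ≤ negSu d * (81 / 200) :=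
        mul_le_mul_of_nonneg_left (by linarith) hs.1
      simp only [negCu, negSu] at h6 h7 ⊢
      constructor <;> nlinarith)
    (fun a b ha ha1 hw hw1 => by
      have := (neg_band_signs hd0 hd1 hS0 hS1 ha.le ha1 hw hw1).2
      linarith)
  constructor <;> linarith

section
variable {c : ℝ} (hcS : c ∈ S) (hcR : R c < 0)
  (hweak : ∀ z ∈ S, z ≤ c → R z < 0 → NegAt N (1 / (p + 1)) (1 / (q + 1))
    (uOf N (R z) (x z)) (y z / x z) (hOf N (R z) (x z) (y z) z))
include hcS hcR hweak

/-- The lower line is not reached. -/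
theorem neg_low (hf : IsOrbitFns N p q S R x y s dx dy)
    (hb : SlabBox N (1 / (p + 1)) (1 / (q + 1))) :
    let al := 1 / (p + 1)
    let be := 1 / (q + 1)
    negW₀ (al + be) (be - al) < vOf al be (y c / x c) - 9 / 50 * uOf N (R c) (x c) := by
  intro al' be'
  obtain ⟨hal, hbe, hd, -⟩ := hb.facts
  obtain ⟨hd0, hd1, hS0, hS1⟩ := hb.d_ends
  have h5 := hb.five
  have hlow : 1 ≤ N * (1 / (p + 1)) := hb.low
  set al := 1 / (p + 1) with hald
  set be := 1 / (q + 1) with hbed
  set d := be - al with hdd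
  have key := hf.barrier_neg h5 hlow _ _ _ _
    (fun a b w => NegAt N al be a b w) (hasDeriv_line (al := al) (be := be) (W := negW₀ (al + be) d))
    (fun r' => by simp only [vOf]; fun_prop) (fun r' hc' _ _ => ?_) c hcS hweak
    (fun a b w ha hw _ _ hab hG => ?_) c hcS le_rfl hcR
  · linarith
  · have hlt := hb.negW₀_lt
    simp only [Trap.c0p, ← hald, ← hbed] at hc'
    have hvc : 2 / (N + 2 * al) ≤ vOf al be r' := by
      simp only [vOf]
      rw [div_le_div_iff₀ (by linarith) hd,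
        show (be / al * r' - 1) * (N + 2 * al) =
          (be * (N + 2 * al) * r' - al * (N + 2 * al)) / al by field_simp, le_div_iff₀ hal]
      linarith
    simp only [mul_zero, sub_zero]
    linarith
  · obtain ⟨t, X, hX, ht, ht1, he⟩ := line_drift hb ha hw hab
    have hsg := (neg_line_signs (u := a) hd0 hd1 hS0 hS1 ha.le
      (by linarith [hab.left, negUm_le hd0 hd1 hab.high]) ht ht1).1
    rw [show negW₀ (al + be) d + 9 / 50 * a = vOf al be b by linarith] at hsg
    simp only [zero_mul, add_zero]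
    refine pos_of_mul_pos_left (b := X) ?_ hX.le
    rw [he]
    exact mul_pos_of_neg_of_neg ha hsg

/-- The upper line is not reached. -/
theorem neg_high (hf : IsOrbitFns N p q S R x y s dx dy)
    (hb : SlabBox N (1 / (p + 1)) (1 / (q + 1)))
    (huc : uOf N (R c) (x c) < 0) :
    let al := 1 / (p + 1)
    let be := 1 / (q + 1)
    vOf al be (y c / x c) - 9 / 50 * uOf N (R c) (x c) < negW₁ (be - al) := by
  intro al' be'
  obtain ⟨hal, hbe, hd, -⟩ := hb.facts
  obtain ⟨hd0, hd1, hS0, hS1⟩ := hb.d_ends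
  have h5 := hb.five
  have hlow : 1 ≤ N * (1 / (p + 1)) := hb.low
  set al := 1 / (p + 1) with hald
  set be := 1 / (q + 1) with hbed
  set d := be - al with hdd
  set η := -(uOf N (R c) (x c)) with hη
  have hη0 : 0 < η := by linarith
  have key := hf.barrier_neg h5 hlow
    (fun a b _ => negW₁ d - (vOf al be b - 9 / 50 * a) + 6 * (1 + a / η) ^ 2)
    (fun a _ _ => 9 / 50 + 12 * (1 + a / η) / η) (fun _ _ _ => -(be / al / d))
    (fun _ _ _ => 0) (fun a b w => NegAt N al be a b w) ?_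
    (fun r' => by simp only [vOf]; fun_prop) (fun r' _ hr' _ => ?_) c hcS hweak
    (fun a b w ha hw _ _ hab hG => ?_) c hcS le_rfl hcR
  · rw [show uOf N (R c) (x c) / η = -1 by
      rw [hη, div_neg, div_self huc.ne]] at key
    norm_num at key
    linarith
  · intro a b w da db dc t ha hb' _
    refine ((((((hb'.const_mul (be / al)).sub_const 1).div_const (be - al)).fun_sub
      (ha.const_mul (9 / 50))).const_sub (negW₁ d)).fun_add
      ((((ha.div_const η).const_add 1).fun_pow 2).const_mul 6)).congr_deriv ?_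
    simp only [d]
    ring
  · simp only [zero_div, add_zero, one_pow, mul_one, mul_zero, sub_zero]
    have h4 : vOf al be r' ≤ 5 := by
      simp only [vOf]
      rw [div_le_iff₀ hd, sub_le_iff_le_add]
      obtain ⟨-, -, -, -, -, hal1, -⟩ := hb.facts
      have h6 : be / al * r' ≤ be / al * 1 :=
        mul_le_mul_of_nonneg_left hr'.le (div_nonneg hbe.le hal.le)
      have h7 : be / al ≤ 5 * d + 1 := by
        rw [div_le_iff₀ hal]
        linarith [mul_le_mul_of_nonneg_left hal1 hd0]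
      linarith
    simp only [negW₁]
    linarith
  · have h6 : 0 ≤ negW₁ d - (vOf al be b - 9 / 50 * a) := sub_nonneg.2 hab.high
    have h7 : (1 + a / η) ^ 2 = 0 := le_antisymm (by linarith) (sq_nonneg _)
    have h8 : 1 + a / η = 0 := (pow_eq_zero_iff two_ne_zero).1 h7
    rw [h7, mul_zero, add_zero] at hG
    obtain ⟨t, X, hX, ht, ht1, he⟩ := line_drift hb ha hw hab
    have hsg := (neg_line_signs (u := a) hd0 hd1 hS0 hS1 ha.le
      (by linarith [hab.left, negUm_le hd0 hd1 hab.high]) ht ht1).2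
    rw [show negW₁ d + 9 / 50 * a = vOf al be b by linarith] at hsg
    simp only [h8, mul_zero, zero_div, add_zero, zero_mul]
    refine pos_of_mul_pos_left (b := X) ?_ hX.le
    linarith [mul_neg_of_neg_of_pos ha hsg]

/-- The end of the range of `u` is not reached. -/
theorem neg_left (hf : IsOrbitFns N p q S R x y s dx dy)
    (hb : SlabBox N (1 / (p + 1)) (1 / (q + 1)))
    (huc : uOf N (R c) (x c) < 0) (hκ : c ≤ 1 / (q + 1) / (1 / (p + 1))) :
    let al := 1 / (p + 1)
    let be := 1 / (q + 1)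
    (-negUm (be - al) (vOf al be (y c / x c) - 9 / 50 * uOf N (R c) (x c))) <
      uOf N (R c) (x c) := by
  intro al' be'
  obtain ⟨hal, hbe, hd, -⟩ := hb.facts
  obtain ⟨hd0, hd1, hS0, hS1⟩ := hb.d_ends
  have h5 := hb.five
  have hlow : 1 ≤ N * (1 / (p + 1)) := hb.low
  set al := 1 / (p + 1) with hald
  set be := 1 / (q + 1) with hbed
  set d := be - al with hdd
  set u : ℝ → ℝ := fun z => uOf N (R z) (x z) with hud
  set v : ℝ → ℝ := fun z => vOf al be (y z / x z) with hvd
  set h : ℝ → ℝ := fun z => hOf N (R z) (x z) (y z) z with hhd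
  have hwk : NegAt N al be (u c) (y c / x c) (h c) := hweak c hcS le_rfl hcR
  show -negUm d (v c - 9 / 50 * u c) < u c
  refine lt_of_le_of_ne hwk.left fun he => ?_
  have hk := neg_end_sign hd0 hd1 hS0 hS1 hwk.low hwk.high
  have e1 : vOf al be (y c / x c) - 9 / 50 * u c + 9 / 50 * -negUm d (v c - 9 / 50 * u c) =
      v c := by rw [he]; ring
  have hbv := band_value (u := u c) (v := v c) (c₁ := negCl d) (c₂ := 0) (c₃ := 0)
    hb.sum rfl rfl hal.ne' hbe.ne' (by linarith) (by linarith)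
  rw [show al / be * (1 + d * v c) = y c / x c from hb.r_eq _] at hbv
  have hzv : -(u c * h c) ≤ d * v c := by
    have hx := hf.x_pos c hcS
    have e : u c * h c = 1 - c * (y c / x c) := by
      simp only [u, h, uOf, hOf]
      field_simp
      exact mul_div_cancel_left₀ _ (mul_ne_zero hcR.ne (by linarith))
    have e' : be / al * (y c / x c) = 1 + d * v c := by
      simp only [v, vOf, ← hdd]
      rw [mul_div_cancel₀ _ hd.ne']
      ring
    have hcle : c * (y c / x c) ≤ be / al * (y c / x c) :=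
      mul_le_mul_of_nonneg_right (hκ) (div_nonneg (hf.y_pos c hcS).le hx.le)
    linarith
  have hB : 0 < bandB (al + be) d := by
    unfold bandB; exact mul_pos (by linarith) (by linarith)
  have h6 : -u c * (d * bandK (al + be) d (u c) (v c) (negCl d) 0 0 / bandB (al + be) d) ≤
      d * v c := by
    rw [← hbv]
    exact le_trans (mul_le_mul_of_nonneg_left hwk.lower (by linarith)) (by linarith)
  rw [mul_div_assoc', div_le_iff₀ hB] at h6
  change bandB (al + be) d * (v c - 9 / 50 * u c + _) < _ at hk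
  change v c - 9 / 50 * u c + _ = v c at e1
  rw [e1, show -negUm d (v c - 9 / 50 * u c) = u c from he] at hk
  rw [show negUm d (v c - 9 / 50 * u c) = -u c by linarith] at hk
  exact absurd (mul_lt_mul_of_pos_left hk hd) (by linarith)

end

/-- The chart conditions hold near the crossing and propagate up to `(p + 1)/(q + 1)`. -/
theorem orbit_neg (hf : IsOrbitFns N p q S R x y s dx dy)
    (hb : SlabBox N (1 / (p + 1)) (1 / (q + 1))) {z₁ : ℝ} (hz₁ : z₁ ∈ S) (hR₁ : R z₁ < 0)
    (hκ : z₁ ≤ 1 / (q + 1) / (1 / (p + 1))) :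
    uOf N (R z₁) (x z₁) < 0 ∧
      NegAt N (1 / (p + 1)) (1 / (q + 1)) (uOf N (R z₁) (x z₁)) (y z₁ / x z₁)
        (hOf N (R z₁) (x z₁) (y z₁) z₁) := by
  obtain ⟨hal, hbe, hd, -⟩ := hb.facts
  obtain ⟨hd0, hd1, hS0, hS1⟩ := hb.d_ends
  have h5 := hb.five
  have hlow : 1 ≤ N * (1 / (p + 1)) := hb.low
  have hκ' : 1 / (q + 1) / (1 / (p + 1)) = (p + 1) / (q + 1) := by
    rw [div_div_eq_mul_div, div_one, one_div_mul_eq_div]
  set al := 1 / (p + 1) with hald
  set be := 1 / (q + 1) with hbed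
  set d := be - al with hdd
  set u : ℝ → ℝ := fun z => uOf N (R z) (x z) with hud
  set v : ℝ → ℝ := fun z => vOf al be (y z / x z) with hvd
  set h : ℝ → ℝ := fun z => hOf N (R z) (x z) (y z) z with hhd
  obtain ⟨z₀, hz₀, hR₀⟩ := hf.crossing
  have hz₀S : z₀ ∈ S := hf.cover ⟨hz₀.1, hz₀.2.le⟩
  have hgt : ∀ z ∈ S, R z < 0 → z₀ < z := fun z hz hzR => by
    by_contra hn
    rcases (not_lt.1 hn).lt_or_eq with h' | h'
    · have := hf.anti hz hz₀S h'
      linarith
    · rw [h', hR₀] at hzR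
      exact lt_irrefl _ hzR
  have hneg : ∀ z ∈ S, z₀ < z → R z < 0 := fun z hz hlt => hR₀ ▸ hf.anti hz₀S hz hlt
  have h01 : z₀ < z₁ := hgt z₁ hz₁ hR₁
  have hIS : ∀ z, z₀ < z → z ≤ z₁ → z ∈ S := fun z hz hz' =>
    hf.cover ⟨hz₀.1.trans hz, hκ' ▸ hz'.trans hκ⟩
  have hM : 0 < N - 2 := by linarith
  have hu0 : ∀ z ∈ S, R z < 0 → u z < 0 := fun z hz hzR =>
    div_neg_of_neg_of_pos (mul_neg_of_neg_of_pos (by linarith) (hf.x_pos z hz)) hM
  have cR : ∀ z ∈ S, ContinuousAt R z := fun z hz =>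
    hf.smooth.1.continuousOn.continuousAt (hf.isOpen.mem_nhds hz)
  have cx : ∀ z ∈ S, ContinuousAt x z := fun z hz =>
    hf.smooth.2.1.continuousOn.continuousAt (hf.isOpen.mem_nhds hz)
  have cy : ∀ z ∈ S, ContinuousAt y z := fun z hz =>
    hf.smooth.2.2.1.continuousOn.continuousAt (hf.isOpen.mem_nhds hz)
  have cu : ∀ z ∈ S, ContinuousAt u z := fun z hz => by
    simp only [u, uOf]
    exact (((cR z hz).const_mul 2).mul (cx z hz)).div_const _
  have cv : ∀ z ∈ S, ContinuousAt v z := fun z hz => by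
    simp only [v, vOf]
    exact ((((cy z hz).div (cx z hz) (hf.x_pos z hz).ne').const_mul (be / al)).sub
      continuousAt_const).div_const _
  have ch : ∀ z ∈ S, R z < 0 → ContinuousAt h z := fun z hz hzR => by
    simp only [h, hOf]
    exact ((((cx z hz).sub (continuousAt_id.mul (cy z hz))).const_mul _).div
      (((cR z hz).const_mul 2).mul ((cx z hz).pow 2))
      (mul_ne_zero (mul_ne_zero two_ne_zero hzR.ne) (pow_ne_zero 2 (hf.x_pos z hz).ne')))
  -- near the crossing
  obtain ⟨hc0, hc1⟩ := orbit_centre hf hb hz₀S hR₀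
  have hstart : ∀ᶠ z in 𝓝[>] z₀, negW₀ (al + be) d < v z - 9 / 50 * u z ∧
      v z - 9 / 50 * u z < negW₁ d ∧ -(1 / 100) < u z := by
    have e0 : u z₀ = 0 := by simp [u, uOf, hR₀]
    have t1 : Tendsto (fun z => v z - 9 / 50 * u z) (𝓝[>] z₀) (𝓝 (v z₀)) := by
      have := ((cv z₀ hz₀S).sub ((cu z₀ hz₀S).const_mul (9 / 50))).tendsto.mono_left
        (nhdsWithin_le_nhds (s := Ioi z₀))
      simpa [e0, Pi.sub_def] using this
    have t2 : Tendsto u (𝓝[>] z₀) (𝓝 0) := e0 ▸ (cu z₀ hz₀S).tendsto.mono_left nhdsWithin_le_nhds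
    refine (t1.eventually (Ioi_mem_nhds (hb.negW₀_lt.trans_le hc0))).and
      ((t1.eventually (Iio_mem_nhds (lt_of_le_of_lt hc1 ?_))).and
        (t2.eventually (Ioi_mem_nhds (by norm_num))))
    simp only [negW₁, d]
    linarith
  obtain ⟨b, hb0, hbI⟩ := mem_nhdsGT_iff_exists_Ioc_subset.1 hstart
  set δ := min b z₁ with hδ
  have hδ0 : z₀ < δ := lt_min hb0 h01
  have hδS : δ ∈ S := hIS δ hδ0 (min_le_right _ _)
  have near : ∀ z ∈ S, z ≤ δ → R z < 0 → negW₀ (al + be) d < v z - 9 / 50 * u z ∧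
      v z - 9 / 50 * u z < negW₁ d ∧ -(1 / 100) < u z := fun z hz hzd hzR =>
    hbI ⟨hgt z hz hzR, hzd.trans (min_le_left _ _)⟩
  -- the two bands from a weak knowledge of `v` and `u`
  have bands : ∀ z₂ ∈ S, (∀ z ∈ S, z ≤ z₂ → R z < 0 → negW₀ (al + be) d ≤ v z - 9 / 50 * u z ∧
      v z - 9 / 50 * u z ≤ negW₁ d ∧ -(81 / 200) ≤ u z) →
      ∀ z ∈ S, z ≤ z₂ → R z < 0 →
        bandL N al be d (negCl d) 0 0 (u z) (y z / x z) < h z ∧
          h z < bandL N al be d (negCu d) (negSu d) 0 (u z) (y z / x z) := by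
    intro z₂ hz₂ hE z hz hle hzR
    exact neg_bands hf hb hz₂ hE hz hle hzR
  -- the strict conditions
  set P : ℝ → Prop := fun z => negW₀ (al + be) d < v z - 9 / 50 * u z ∧
    v z - 9 / 50 * u z < negW₁ d ∧ -negUm d (v z - 9 / 50 * u z) < u z ∧
    bandL N al be d (negCl d) 0 0 (u z) (y z / x z) < h z ∧
    h z < bandL N al be d (negCu d) (negSu d) 0 (u z) (y z / x z) with hP
  have hPnear : ∀ z ∈ S, z ≤ δ → R z < 0 → P z := fun z hz hzd hzR => by
    obtain ⟨n1, n2, n3⟩ := near z hz hzd hzR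
    obtain ⟨b1, b2⟩ := bands δ hδS (fun w hw hwd hwR => by
      obtain ⟨m1, m2, m3⟩ := near w hw hwd hwR
      exact ⟨m1.le, m2.le, by linarith⟩) z hz hzd hzR
    refine ⟨n1, n2, ?_, b1, b2⟩
    have hW : (1 / 4 : ℝ) ≤ negW₀ (al + be) d := by simp only [negW₀]; linarith
    have := mul_nonneg (show (0 : ℝ) ≤ 5 / 8 + 1 / 5 * d by linarith)
      (show (0 : ℝ) ≤ v z - 9 / 50 * u z - 1 / 4 by linarith)
    simp only [negUm]
    linarith
  have hall : ∀ z ∈ Icc δ z₁, P z := by
    by_contra hbad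
    have hcR : ∀ z ∈ Icc δ z₁, z ∈ S ∧ R z < 0 := fun z hz =>
      ⟨hIS z (hδ0.trans_le hz.1) hz.2, hneg z (hIS z (hδ0.trans_le hz.1) hz.2) (hδ0.trans_le hz.1)⟩
    set g : ℝ → ℝ := fun z => negGap N al be (u z) (y z / x z) (h z) with hg
    have gP : ∀ z, 0 < g z ↔ P z := fun z => negGap_pos
    have cg : ContinuousOn g (Icc δ z₁) := fun z hz =>
      ((continuous_negGap (N := N) (al := al) (be := be)).continuousAt.comp
        ((cu z (hcR z hz).1).prodMk
          (((cy z (hcR z hz).1).div (cx z (hcR z hz).1) (hf.x_pos z (hcR z hz).1).ne').prodMk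
            (ch z (hcR z hz).1 (hcR z hz).2)))).continuousWithinAt
    obtain ⟨z', hz', hz'P⟩ : ∃ z ∈ Icc δ z₁, ¬ P z := by
      simpa only [not_forall, exists_prop] using hbad
    have hcl : IsCompact (Icc δ z₁ ∩ g ⁻¹' Iic 0) := isCompact_Icc.of_isClosed_subset
      (cg.preimage_isClosed_of_isClosed isClosed_Icc isClosed_Iic) inter_subset_left
    obtain ⟨c, ⟨hcI, hcg⟩, hmin⟩ := hcl.exists_isLeast
      ⟨z', hz', show g z' ≤ 0 from not_lt.1 fun hh => hz'P ((gP z').1 hh)⟩
    obtain ⟨hcS, hcR'⟩ := hcR c hcI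
    have hδc : δ < c := lt_of_le_of_ne hcI.1 fun e =>
      not_lt.2 (show g c ≤ 0 from hcg) ((gP c).2 (e ▸ hPnear δ hδS le_rfl (hneg δ hδS hδ0)))
    have before : ∀ z ∈ S, z < c → R z < 0 → P z := fun z hz hzc hzR => by
      rcases le_or_gt z δ with hd' | hd'
      · exact hPnear z hz hd' hzR
      · exact (gP z).1 (not_le.1 fun hgz =>
          not_lt.2 (hmin ⟨⟨hd'.le, hzc.le.trans hcI.2⟩, hgz⟩) hzc)
    have g0 : 0 ≤ g c := by
      refine ge_of_tendsto ((cg c hcI).mono_of_mem_nhdsWithin ?_).tendsto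
        (show ∀ᶠ z in 𝓝[<] c, 0 ≤ g z from ?_)
      · exact Filter.mem_of_superset (Ioo_mem_nhdsLT hδc)
          fun z hz => ⟨hz.1.le, hz.2.le.trans hcI.2⟩
      · filter_upwards [Ioo_mem_nhdsLT hδc] with z hz
        obtain ⟨hzS, hzR⟩ := hcR z ⟨hz.1.le, hz.2.le.trans hcI.2⟩
        exact ((gP z).2 (before z hzS hz.2 hzR)).le
    have weak : ∀ z ∈ S, z ≤ c → R z < 0 →
        NegAt N al be (u z) (y z / x z) (h z) := fun z hz hzc hzR => by
      rcases hzc.lt_or_eq with h' | h'
      · obtain ⟨a1, a2, a3, a4, a5⟩ := before z hz h' hzR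
        exact ⟨a1.le, a2.le, a3.le, a4.le, a5.le⟩
      · subst h'
        exact negAt_of_gap g0
    have hwk := weak c hcS le_rfl hcR'
    -- each condition is strict at `c`
    obtain ⟨c4, c5⟩ := bands c hcS (fun z hz hzc hzR => by
      have hw := weak z hz hzc hzR
      exact ⟨hw.low, hw.high, by
        have := negUm_le hd0 hd1 hw.high
        linarith [hw.left]⟩) c hcS le_rfl hcR'
    have huc := hu0 c hcS hcR'
    have c1 := neg_low hcS hcR' weak hf hb
    have c2 := neg_high hcS hcR' weak hf hb huc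
    have c3 := neg_left hcS hcR' weak hf hb huc (hcI.2.trans hκ)
    exact not_lt.2 (show g c ≤ 0 from hcg) ((gP c).2 ⟨c1, c2, c3, c4, c5⟩)
  obtain ⟨a1, a2, a3, a4, a5⟩ := hall z₁ ⟨min_le_right _ _, le_rfl⟩
  exact ⟨hu0 z₁ hz₁ hR₁, ⟨a1.le, a2.le, a3.le, a4.le, a5.le⟩⟩

end Vale.Agent.P100.Calib.Band
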