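import Vale.Agent.P100.Calib.SlabSmallChecks
import Vale.Agent.P100.Calib.SlabRungs

/-!
# The bands up to `u = 3/5`, small difference of the exponents

With `d = be - al` in `[0, 3 / 25]`: `L < (h - hc r)/(d u) < U` and `v < φ`.
-/

namespace Vale.Agent.P100.Calib.Band

open BoxPos Bubble Chart

variable {N p q : ℝ} {S : Set ℝ} {R x y s dx dy : ℝ → ℝ}

/-- The exit curve. -/
noncomputable def phiSmall (d u : ℝ) : ℝ :=
  phiG (5 / 8 - 13 / 50 * d) (33 / 50 - 4 / 5 * d) (5 / 8 + 9 / 25 * d) (21 / 20) u

theorem small_lie_sign {u v d S' : ℝ} (hu : 0 ≤ u) (hu1 : u ≤ 4 / 5) (hv : 33 / 100 ≤ v)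
    (hv1 : v ≤ 89 / 20) (hphi : v < phiTwo u) (hd : 0 ≤ d) (hd1 : d ≤ 3 / 25)
    (hS : sideS.Mem S') : 0 < smallLie.val u v d S' := by
  have hstep : ∀ b c : ℝ, u ≤ b → b < 21 / 20 → phiTwo b ≤ c → v < c := fun b c h1 h2 h3 =>
    lt_of_lt_of_le (hphi.trans_le (phiTwo_mono hu h1 h2)) h3
  rcases lt_or_ge u (150 / 1000) with g0 | g0
  · have hvb : v < 807 / 1000 :=
      hstep (150 / 1000) _ g0.le (by norm_num) (by norm_num [phiTwo, phiG])
    exact Ex.pos_of_check small_lie_0_0 (side_mem (by push_cast; linarith) (by push_cast; linarith))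
      (side_mem (by push_cast; linarith) (by push_cast; linarith))
      (side_mem (by push_cast; linarith) (by push_cast; linarith)) hS
  rcases lt_or_ge u (300 / 1000) with g1 | g1
  · have hvb : v < 953 / 1000 :=
      hstep (300 / 1000) _ g1.le (by norm_num) (by norm_num [phiTwo, phiG])
    exact Ex.pos_of_check small_lie_150_0 (side_mem (by push_cast; linarith) (by push_cast; linarith))
      (side_mem (by push_cast; linarith) (by push_cast; linarith))
      (side_mem (by push_cast; linarith) (by push_cast; linarith)) hS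
  rcases lt_or_ge u (450 / 1000) with g2 | g2
  · have hvb : v < 1171 / 1000 :=
      hstep (450 / 1000) _ g2.le (by norm_num) (by norm_num [phiTwo, phiG])
    exact Ex.pos_of_check small_lie_300_0 (side_mem (by push_cast; linarith) (by push_cast; linarith))
      (side_mem (by push_cast; linarith) (by push_cast; linarith))
      (side_mem (by push_cast; linarith) (by push_cast; linarith)) hS
  rcases lt_or_ge u (600 / 1000) with g3 | g3
  · have hvb : v < 1536 / 1000 :=
      hstep (600 / 1000) _ g3.le (by norm_num) (by norm_num [phiTwo, phiG])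
    exact Ex.pos_of_check small_lie_450_0 (side_mem (by push_cast; linarith) (by push_cast; linarith))
      (side_mem (by push_cast; linarith) (by push_cast; linarith))
      (side_mem (by push_cast; linarith) (by push_cast; linarith)) hS
  rcases lt_or_ge u (700 / 1000) with g4 | g4
  · have hvb : v < 1953 / 1000 :=
      hstep (700 / 1000) _ g4.le (by norm_num) (by norm_num [phiTwo, phiG])
    exact Ex.pos_of_check small_lie_600_0 (side_mem (by push_cast; linarith) (by push_cast; linarith))
      (side_mem (by push_cast; linarith) (by push_cast; linarith))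
      (side_mem (by push_cast; linarith) (by push_cast; linarith)) hS
  rcases lt_or_ge u (750 / 1000) with g5 | g5
  · have hvb : v < 2265 / 1000 :=
      hstep (750 / 1000) _ g5.le (by norm_num) (by norm_num [phiTwo, phiG])
    exact Ex.pos_of_check small_lie_700_0 (side_mem (by push_cast; linarith) (by push_cast; linarith))
      (side_mem (by push_cast; linarith) (by push_cast; linarith))
      (side_mem (by push_cast; linarith) (by push_cast; linarith)) hS
  have hvb : v < 2703 / 1000 :=
    hstep (4 / 5) _ hu1 (by norm_num) (by norm_num [phiTwo, phiG])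
  exact Ex.pos_of_check small_lie_750_0 (side_mem (by push_cast; linarith) (by push_cast; linarith))
    (side_mem (by push_cast; linarith) (by push_cast; linarith))
    (side_mem (by push_cast; linarith) (by push_cast; linarith)) hS

/-- **The lower band.** -/
theorem orbit_lower_small (hf : IsOrbitFns N p q S R x y s dx dy)
    (hb : SlabBox N (1 / (p + 1)) (1 / (q + 1))) (h0 : 0 ≤ 1 / (q + 1) - 1 / (p + 1))
    (h1 : 1 / (q + 1) - 1 / (p + 1) ≤ 3 / 25)
    {w : ℝ} (hw : w ∈ S) (hw0 : 0 < R w) (hwu : uOf N (R w) (x w) ≤ 4 / 5) :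
    let al := 1 / (p + 1)
    let be := 1 / (q + 1)
    bandL N al be (be - al) (119 / 100 - 67 / 20 * (be - al)) (31 / 20 - 69 / 10 * (be - al)) (11 / 20 + 2 / 5 * (be - al))
      (uOf N (R w) (x w)) (y w / x w) < hOf N (R w) (x w) (y w) w := by
  intro al be
  have := band_step hf hb (one_mul 1) (u₁ := 4 / 5) (by norm_num) (119 / 100 - 67 / 20 * (be - al)) (31 / 20 - 69 / 10 * (be - al)) (11 / 20 + 2 / 5 * (be - al))
    (fun u r => vOf al be r < phiTwo u ∧ (N - 2) * be * r < N * al)
    (fun w hw hw0 hwu => ⟨orbit_phiTwo hf hb hw hw0 (hwu.trans (by norm_num)), (hf.chart hb.five hb.low w hw hw0).2.2.2.2.2.2.2.2.1⟩)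
    (bd := 3) (by linarith) (fun u hu hu1 => by nlinarith) (fun u r hu hu1 hE hv hv1 => ?_) hw hw0 hwu
  · linarith
  · rw [one_mul]
    have key := small_lie_sign (d := be - al) hu hu1 hv hv1 hE.1 h0 h1 (sideS_mem hb)
    rw [smallLie, val_lie] at key
    simpa [al, be, smallL₁, smallL₂, smallL₃, Ex.val, sub_eq_add_neg, neg_div] using key

/-- **The exit curve.** -/
theorem orbit_phi_small (hf : IsOrbitFns N p q S R x y s dx dy)
    (hb : SlabBox N (1 / (p + 1)) (1 / (q + 1))) (h0 : 0 ≤ 1 / (q + 1) - 1 / (p + 1))
    (h1 : 1 / (q + 1) - 1 / (p + 1) ≤ 3 / 25)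
    {w : ℝ} (hw : w ∈ S) (hw0 : 0 < R w) (hwu : uOf N (R w) (x w) ≤ 4 / 5) :
    vOf (1 / (p + 1)) (1 / (q + 1)) (y w / x w) <
      phiSmall (1 / (q + 1) - 1 / (p + 1)) (uOf N (R w) (x w)) := by
  set d := 1 / (q + 1) - 1 / (p + 1) with hdd
  refine exit_step_of (a := (5 / 8 - 13 / 50 * d)) (b := (33 / 50 - 4 / 5 * d))
    (k := (5 / 8 + 9 / 25 * d)) (c := 21 / 20) hf hb (u₁ := 4 / 5) (by norm_num) (by norm_num) (by linarith)
    (by linarith) phiTwo (fun w hw hw0 hwu => orbit_phiTwo hf hb hw hw0 (hwu.trans (by norm_num)))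
    (by norm_num [phiTwo, phiG]; linarith) (fun w hw hw0 hwu => orbit_lower_small hf hb h0 h1 hw hw0 hwu)
    (bd := 3) (by linarith) (fun u hu hu1 => by nlinarith) (fun u hu hu1 _ _ => ?_)
    (fun u hu hu1 _ _ => ?_) hw hw0 hwu
  · have key : 0 < smallExit.val u (33 / 100) d (1 / (p + 1) + 1 / (q + 1)) := by
      exact Ex.pos_of_check small_exit_0 (side_mem (by push_cast; linarith) (by push_cast; linarith))
        (side_mem (by norm_num) (by norm_num))
        (side_mem (by push_cast; linarith) (by push_cast; linarith)) (sideS_mem hb)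
    rw [smallExit, val_exitG] at key
    simpa [smallA, smallB, smallK, smallL₁, smallL₂, smallL₃, Ex.val, d, sub_eq_add_neg, neg_div] using key
  · have key : 0 < smallSlope.val u (33 / 100) d (1 / (p + 1) + 1 / (q + 1)) := by
      exact Ex.pos_of_check small_slope_0 (side_mem (by push_cast; linarith) (by push_cast; linarith))
        (side_mem (by norm_num) (by norm_num))
        (side_mem (by push_cast; linarith) (by push_cast; linarith)) (sideS_mem hb)
    rw [smallSlope, val_slopeB] at key
    exact le_of_lt (by simpa [smallA, smallB, smallK, smallL₁, smallL₂, smallL₃, Ex.val, d, sub_eq_add_neg, neg_div] using key)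

theorem small_upper_sign {u v d S' : ℝ} (hu : 0 ≤ u) (hu1 : u ≤ 3 / 5) (hv : 33 / 100 ≤ v)
    (hphi : v < phiSmall d u) (hd : 0 ≤ d) (hd1 : d ≤ 3 / 25) (hS : sideS.Mem S') :
    0 < smallUpper.val u v d S' := by
  have hstep : ∀ b c : ℝ, u ≤ b → b < 21 / 20 → phiSmall d b ≤ c → v < c := fun b c h1 h2 h3 =>
    lt_of_lt_of_le (hphi.trans_le (phiG_mono (by linarith) (by linarith) hu h1 h2)) h3
  rcases lt_or_ge u (150 / 1000) with g0 | g0
  · have hvb : v < 741 / 1000 :=
      hstep (150 / 1000) _ g0.le (by norm_num) (by norm_num [phiSmall, phiG]; linarith)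
    exact Ex.pos_of_check small_upper_0 (side_mem (by push_cast; linarith) (by push_cast; linarith))
      (side_mem (by push_cast; linarith) (by push_cast; linarith))
      (side_mem (by push_cast; linarith) (by push_cast; linarith)) hS
  rcases lt_or_ge u (300 / 1000) with g1 | g1
  · have hvb : v < 900 / 1000 :=
      hstep (300 / 1000) _ g1.le (by norm_num) (by norm_num [phiSmall, phiG]; linarith)
    exact Ex.pos_of_check small_upper_150 (side_mem (by push_cast; linarith) (by push_cast; linarith))
      (side_mem (by push_cast; linarith) (by push_cast; linarith))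
      (side_mem (by push_cast; linarith) (by push_cast; linarith)) hS
  rcases lt_or_ge u (400 / 1000) with g2 | g2
  · have hvb : v < 1044 / 1000 :=
      hstep (400 / 1000) _ g2.le (by norm_num) (by norm_num [phiSmall, phiG]; linarith)
    exact Ex.pos_of_check small_upper_300 (side_mem (by push_cast; linarith) (by push_cast; linarith))
      (side_mem (by push_cast; linarith) (by push_cast; linarith))
      (side_mem (by push_cast; linarith) (by push_cast; linarith)) hS
  rcases lt_or_ge u (500 / 1000) with g3 | g3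
  · have hvb : v < 1241 / 1000 :=
      hstep (500 / 1000) _ g3.le (by norm_num) (by norm_num [phiSmall, phiG]; linarith)
    exact Ex.pos_of_check small_upper_400 (side_mem (by push_cast; linarith) (by push_cast; linarith))
      (side_mem (by push_cast; linarith) (by push_cast; linarith))
      (side_mem (by push_cast; linarith) (by push_cast; linarith)) hS
  rcases lt_or_ge u (550 / 1000) with g4 | g4
  · have hvb : v < 1368 / 1000 :=
      hstep (550 / 1000) _ g4.le (by norm_num) (by norm_num [phiSmall, phiG]; linarith)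
    exact Ex.pos_of_check small_upper_500 (side_mem (by push_cast; linarith) (by push_cast; linarith))
      (side_mem (by push_cast; linarith) (by push_cast; linarith))
      (side_mem (by push_cast; linarith) (by push_cast; linarith)) hS
  have hvb : v < 1526 / 1000 :=
    hstep (3 / 5) _ hu1 (by norm_num) (by norm_num [phiSmall, phiG]; linarith)
  exact Ex.pos_of_check small_upper_550 (side_mem (by push_cast; linarith) (by push_cast; linarith))
    (side_mem (by push_cast; linarith) (by push_cast; linarith))
    (side_mem (by push_cast; linarith) (by push_cast; linarith)) hS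

/-- **The bands** for `u ≤ 3/5`. -/
theorem orbit_band_small (hf : IsOrbitFns N p q S R x y s dx dy)
    (hb : SlabBox N (1 / (p + 1)) (1 / (q + 1))) (h0 : 0 ≤ 1 / (q + 1) - 1 / (p + 1))
    (h1 : 1 / (q + 1) - 1 / (p + 1) ≤ 3 / 25)
    {w : ℝ} (hw : w ∈ S) (hw0 : 0 < R w) (hwu : uOf N (R w) (x w) ≤ 3 / 5) :
    let al := 1 / (p + 1)
    let be := 1 / (q + 1)
    let u := uOf N (R w) (x w)
    let r := y w / x w
    vOf al be r < phiSmall (be - al) u ∧
      bandL N al be (be - al) (119 / 100 - 67 / 20 * (be - al)) (31 / 20 - 69 / 10 * (be - al)) (11 / 20 + 2 / 5 * (be - al)) u r <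
        hOf N (R w) (x w) (y w) w ∧
      hOf N (R w) (x w) (y w) w <
        bandL N al be (be - al) (161 / 100 - 28 / 5 * (be - al)) (7 / 10 - 4 * (be - al)) (89 / 20 - 45 / 2 * (be - al)) u r := by
  intro al be u r
  refine ⟨orbit_phi_small hf hb h0 h1 hw hw0 (hwu.trans (by norm_num)),
    orbit_lower_small hf hb h0 h1 hw hw0 (hwu.trans (by norm_num)), ?_⟩
  have := band_step hf hb (e := -1) (by norm_num) (u₁ := 3 / 5) (by norm_num) (161 / 100 - 28 / 5 * (be - al)) (7 / 10 - 4 * (be - al)) (89 / 20 - 45 / 2 * (be - al))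
    (fun u r => vOf al be r < phiSmall (be - al) u)
    (fun w hw hw0 hwu => orbit_phi_small hf hb h0 h1 hw hw0 (hwu.trans (by norm_num)))
    (bd := 4) (by linarith) (fun u hu hu1 => by nlinarith) (fun u r hu hu1 hE hv _ => ?_) hw hw0 hwu
  · linarith
  · have key := small_upper_sign (d := be - al) hu hu1 hv hE h0 h1 (sideS_mem hb)
    rw [smallUpper, Ex.val, val_lie] at key
    simpa [al, be, smallU₁, smallU₂, smallU₃, Ex.val, sub_eq_add_neg, neg_div] using key

end Vale.Agent.P100.Calib.Band
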