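import Mathlib
import Vale.Agent.P100.Calib.SlabChartOrbit
import Vale.Agent.P100.Calib.SlabSmallBands
import Vale.Agent.P100.Calib.SlabLargeBands
import Vale.Agent.P100.Calib.SlabNeg

/-!
# The closed signs along the orbit from the signs on the regions of the chart
-/

open Set Filter Topology

namespace Vale.Agent.P100.Calib.Band

open Vale.Agent.P100.Bubble Chart Closed

/-- The closed signs along the orbit beyond `u = 3/5`. -/
def SignsHighFive : Prop :=
  ∀ (N p q : ℝ) (S : Set ℝ) (R x y s dx dy : ℝ → ℝ), IsCrit N p q →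
    IsOrbitFns N p q S R x y s dx dy → SlabBox N (1 / (p + 1)) (1 / (q + 1)) →
    ChartBox (1 / (q + 1) - 1 / (p + 1)) (1 / (p + 1) + 1 / (q + 1)) →
    ∀ z ∈ S, 0 < R z → 3 / 5 < uOf N (R z) (x z) →
      ChartSigns (1 / (q + 1) - 1 / (p + 1)) (1 / (p + 1) + 1 / (q + 1)) (uOf N (R z) (x z))
        (vOf (1 / (p + 1)) (1 / (q + 1)) (y z / x z)) (slopeAt N p q R x y dx dy z)

section
variable {N p q : ℝ} {S : Set ℝ} {R x y s dx dy : ℝ → ℝ}

/-- Off the crossing the slope is `tauOf`. -/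
theorem slopeAt_tauOf (hc : IsCrit N p q) (h : IsOrbitFns N p q S R x y s dx dy)
    (hb : SlabBox N (1 / (p + 1)) (1 / (q + 1))) {z : ℝ} (hz : z ∈ S) (hR : R z ≠ 0) :
    slopeAt N p q R x y dx dy z = tauOf N (1 / (p + 1)) (1 / (q + 1))
      (1 / (q + 1) - 1 / (p + 1)) (uOf N (R z) (x z)) (y z / x z)
      (hOf N (R z) (x z) (y z) z) := by
  have hM : N - 2 ≠ 0 := by linarith [hb.five]
  have hu : uOf N (R z) (x z) ≠ 0 :=
    div_ne_zero (mul_ne_zero (mul_ne_zero two_ne_zero hR) (h.x_pos z hz).ne') hM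
  rw [tauOf, ← (slopeAt_eq hc h hb hz hR).1,
    mul_div_cancel_left₀ _ (mul_ne_zero (sub_pos.2 hb.lt).ne' hu)]

/-- The slope past the crossing and at it. -/
theorem neg_tau (hc : IsCrit N p q) (h : IsOrbitFns N p q S R x y s dx dy)
    (hb : SlabBox N (1 / (p + 1)) (1 / (q + 1))) {z : ℝ} (hz : z ∈ S) (hR : R z ≤ 0)
    (hκ : z ≤ 1 / (q + 1) / (1 / (p + 1))) :
    let d := 1 / (q + 1) - 1 / (p + 1)
    negCu d + negSu d * uOf N (R z) (x z) ≤ slopeAt N p q R x y dx dy z ∧
      slopeAt N p q R x y dx dy z ≤ negCl d := by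
  intro d
  have hd : 0 < d := sub_pos.2 hb.lt
  have key : ∀ t ∈ S, R t < 0 → t ≤ 1 / (q + 1) / (1 / (p + 1)) →
      negCu d + negSu d * uOf N (R t) (x t) ≤ slopeAt N p q R x y dx dy t ∧
        slopeAt N p q R x y dx dy t ≤ negCl d := by
    intro t ht htR htκ
    obtain ⟨hu, hn⟩ := orbit_neg h hb ht htR htκ
    have e := (slopeAt_eq hc h hb ht htR.ne).1
    have hdu : d * uOf N (R t) (x t) < 0 := mul_neg_of_pos_of_neg hd hu
    have h1 := hn.lower
    have h2 := hn.upper
    simp only [bandL] at h1 h2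
    constructor
    · refine (mul_le_mul_left_of_neg hdu).1 ?_
      linarith
    · refine (mul_le_mul_left_of_neg hdu).1 ?_
      linarith
  rcases hR.lt_or_eq with hlt | h0
  · exact key z hz hlt hκ
  obtain ⟨z₀, hz₀, hR₀⟩ := h.crossing
  have hz₀S : z₀ ∈ S := h.cover ⟨hz₀.1, hz₀.2.le⟩
  obtain rfl : z = z₀ := h.anti.injOn hz hz₀S (h0.trans hR₀.symm)
  have hκ' : z < 1 / (q + 1) / (1 / (p + 1)) := by
    rw [div_div_eq_mul_div, div_one, one_div_mul_eq_div]; exact hz₀.2
  have ev : ∀ᶠ t in 𝓝[>] z, negCu d + negSu d * uOf N (R t) (x t) ≤ slopeAt N p q R x y dx dy t ∧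
      slopeAt N p q R x y dx dy t ≤ negCl d := by
    filter_upwards [mem_nhdsWithin_of_mem_nhds (h.isOpen.mem_nhds hz),
      Ioo_mem_nhdsGT hκ'] with t ht htI
    exact key t ht (h0 ▸ h.anti hz ht htI.1) htI.2.le
  have ct := ((continuousOn_slopeAt hc h hb).continuousAt (h.isOpen.mem_nhds hz)).tendsto.mono_left
    (nhdsWithin_le_nhds (s := Ioi z))
  have cu : ContinuousAt (fun t => negCu d + negSu d * uOf N (R t) (x t)) z := by
    have cR := h.smooth.1.continuousOn.continuousAt (h.isOpen.mem_nhds hz)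
    have cx := h.smooth.2.1.continuousOn.continuousAt (h.isOpen.mem_nhds hz)
    simp only [uOf]
    fun_prop
  exact ⟨le_of_tendsto_of_tendsto (cu.tendsto.mono_left nhdsWithin_le_nhds) ct
    (ev.mono fun t ht => ht.1), le_of_tendsto ct (ev.mono fun t ht => ht.2)⟩

/-- Up to `z = be/al` one has `0 ≤ v + u h/d`. -/
theorem neg_cut (hc : IsCrit N p q) (h : IsOrbitFns N p q S R x y s dx dy)
    (hb : SlabBox N (1 / (p + 1)) (1 / (q + 1))) {z : ℝ} (hz : z ∈ S)
    (hκ : z ≤ 1 / (q + 1) / (1 / (p + 1))) :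
    let al := 1 / (p + 1)
    let be := 1 / (q + 1)
    let v := vOf al be (y z / x z)
    0 ≤ v + uOf N (R z) (x z) * chH (be - al) (al + be) (uOf N (R z) (x z)) v
      (slopeAt N p q R x y dx dy z) := by
  intro al be v
  obtain ⟨-, eH, -⟩ := chart_point hb (h.x_pos z hz) (h.y_pos z hz) (h.pos hz)
    (wFun_eq hc h hz) (wFun₁_eq hc h hz) (h.quad z hz)
  obtain ⟨hal, hbe, hd, hS1, -⟩ := hb.facts
  have hx := h.x_pos z hz
  refine nonneg_of_mul_nonneg_right (a := be - al) ?_ hd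
  rw [mul_add, mul_left_comm]
  change 0 ≤ (be - al) * v + uOf N (R z) (x z) * ((be - al) * _)
  simp only [slopeAt, al, be, v]
  rw [eH]
  have hM : N - 2 = 2 * (al + be) / (1 - (al + be)) := by
    rw [eq_div_iff hS1]; linear_combination hb.sum
  have eu : uOf N (R z) (x z) * ((al + be) / (1 - (al + be)) * (wFun N x y dx dy z / x z ^ 2)) =
      1 - z * y z / x z := by
    have hw := wFun_eq hc h hz
    simp only [uOf]
    rw [hM]
    have : al + be ≠ 0 := by linarith [hb.S_low]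
    generalize al + be = σ at *
    field_simp
    linear_combination hw
  rw [eu]
  have hv : (be - al) * vOf al be (y z / x z) = be / al * (y z / x z) - 1 := by
    simp only [vOf]; rw [mul_div_cancel₀ _ hd.ne']
  rw [hv]
  have := mul_le_mul_of_nonneg_right hκ (div_nonneg (h.y_pos z hz).le hx.le)
  rw [mul_div_assoc z]
  simp only [al, be]
  linarith

/-- The range of `(u, v)` past the crossing and at it. -/
theorem neg_range (h : IsOrbitFns N p q S R x y s dx dy)
    (hb : SlabBox N (1 / (p + 1)) (1 / (q + 1))) {z : ℝ} (hz : z ∈ S) (hR : R z ≤ 0)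
    (hκ : z ≤ 1 / (q + 1) / (1 / (p + 1))) :
    let al := 1 / (p + 1)
    let be := 1 / (q + 1)
    let u := uOf N (R z) (x z)
    let w := vOf al be (y z / x z) - 9 / 50 * u
    u ≤ 0 ∧ negW₀ (al + be) (be - al) ≤ w ∧ w ≤ negW₁ (be - al) ∧ -negUm (be - al) w ≤ u := by
  intro al be u w
  rcases hR.lt_or_eq with hlt | h0
  · obtain ⟨hu, hn⟩ := orbit_neg h hb hz hlt hκ
    exact ⟨hu.le, hn.low, hn.high, hn.left⟩
  obtain ⟨c0, c1⟩ := orbit_centre h hb hz h0
  have e0 : u = 0 := by simp [u, uOf, h0]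
  have hw : w = vOf al be (y z / x z) := by simp [w, e0]
  obtain ⟨d0, d1, hS0, hS1⟩ := hb.d_ends
  have h5 := hb.negW₀_lt
  rw [hw, e0]
  refine ⟨le_rfl, (h5.le.trans c0), c1.trans ?_, ?_⟩
  · simp only [negW₁, al, be]; linarith
  · have h6 : 0 ≤ vOf al be (y z / x z) := by
      refine le_trans ?_ c0
      have : 0 < N + 2 * (1 / (p + 1)) := by linarith [hb.five, hb.facts.1]
      positivity
    have h7 := mul_nonneg (show 0 ≤ 5 / 8 + 1 / 5 * (be - al) by simp only [al, be]; linarith) h6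
    simp only [negUm, al, be] at h7 ⊢
    linarith

end

/-- **The closed signs of the slab from the regions.** -/
theorem slabClosedFive_of (hn : SignsNeg) (hs : SignsSmall) (hl : SignsLarge)
    (hh : SignsHighFive) : SlabClosedFive := by
  intro p q N al be σ hq hqp hpq hc hal hbe hσ hN h1 h2 h3 h4 h5 h6 h7 h8 h9 h10
    S R x y s dx dy h z hz
  subst hσ
  have htri : be - al ≤ 2 - 3 * (al + be) := by linarith
  have hb : SlabBox N al be := by
    refine ⟨h1.le, hN, ?_, h7, by linarith, h3.le, h4.le⟩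
    have := mul_le_mul_of_nonneg_left h5 (show 0 ≤ N by linarith)
    linarith
  have hcb : ChartBox (be - al) (al + be) :=
    ⟨sub_pos.2 h7, htri, by linarith, h3, h4, by
      rw [show al + be - (be - al) = 2 * al by ring]; linarith⟩
  subst hal hbe
  have hzS : z ∈ S := h.cover hz
  refine closedSigns_of_chart hc h hb hzS ?_
  rcases le_or_gt (R z) 0 with hR | hR
  · have hκ : z ≤ 1 / (q + 1) / (1 / (p + 1)) := by
      rw [div_div_eq_mul_div, div_one, one_div_mul_eq_div]; exact hz.2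
    obtain ⟨a1, a2, a3, a4⟩ := neg_range h hb hzS hR hκ
    obtain ⟨t1, t2⟩ := neg_tau hc h hb hzS hR hκ
    simp only [negW₀, negW₁, negUm] at a2 a3 a4
    simp only [negCu, negSu, negCl] at t1 t2
    exact hn _ _ _ _ _ hcb a1 a2 a3 a4 t1 t2 (neg_cut hc h hb hzS hκ)
  have hf := chartFacts_orbit hc h hb hzS hR
  rcases le_or_gt (uOf N (R z) (x z)) (3 / 5) with hu | hu
  swap
  · exact hh N p q S R x y s dx dy hc h hb hcb z hzS hR hu
  rcases le_total (1 / (q + 1) - 1 / (p + 1)) (3 / 25) with hd | hd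
  · obtain ⟨b1, b2, b3⟩ := orbit_band_small h hb hcb.pos.le hd hzS hR hu
    simp only [phiSmall, phiG] at b1
    exact hs _ _ _ _ _ hcb hd hf.u_pos hu hf b1 ((tau_band hc h hb hzS hR _ _ _).1.1 b2)
      ((tau_band hc h hb hzS hR _ _ _).2.1 b3)
  · obtain ⟨b1, b2, b3⟩ := orbit_band_large h hb hd hcb.diff hzS hR hu
    simp only [phiLarge, phiG] at b1
    exact hl _ _ _ _ _ hcb hd hf.u_pos hu hf b1 ((tau_band hc h hb hzS hR _ _ _).1.1 b2)
      ((tau_band hc h hb hzS hR _ _ _).2.1 b3)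

/-- **The five signs of the slab from the regions.** -/
theorem slabSignsFive_of_regions (hn : SignsNeg) (hs : SignsSmall) (hl : SignsLarge)
    (hh : SignsHighFive) : SlabSignsFive :=
  slabSignsFive_of_closed (slabClosedFive_of hn hs hl hh)

end Vale.Agent.P100.Calib.Band
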