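import Vale.Agent.P100.Calib.SlabUpperTopSigns
import Vale.Agent.P100.Calib.SlabLargeBands

/-!
Top The tilted upper band on `[3/5, 39/40]`, `d` in `[3 / 25, 1 / 5]`
-/

namespace Vale.Agent.P100.Calib.Band

open BoxPos Bubble Chart

variable {N p q : ℝ} {S : Set ℝ} {R x y s dx dy : ℝ → ℝ}

/-- **The tilted upper band on `[3/5, 39/40]`.** -/
theorem orbit_upper_tail_top (hf : IsOrbitFns N p q S R x y s dx dy)
    (hb : SlabBox N (1 / (p + 1)) (1 / (q + 1))) (h0 : 3 / 25 ≤ 1 / (q + 1) - 1 / (p + 1))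
    (h1 : 1 / (q + 1) - 1 / (p + 1) ≤ 1 / 5)
    {w : ℝ} (hw : w ∈ S) (hw0 : 0 < R w) (hu : 3 / 5 ≤ uOf N (R w) (x w))
    (hwu : uOf N (R w) (x w) ≤ 39 / 40) :
    hOf N (R w) (x w) (y w) w < bandT N (1 / (p + 1)) (1 / (q + 1)) (1 / (q + 1) - 1 / (p + 1))
        (upTailTop (1 / (q + 1) - 1 / (p + 1))) (uOf N (R w) (x w)) (y w / x w) +
      (1 / (q + 1) - 1 / (p + 1)) * uOf N (R w) (x w) *
        (tiltTop (1 / (q + 1) - 1 / (p + 1)) * vOf (1 / (p + 1)) (1 / (q + 1)) (y w / x w)) := by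
  set al := 1 / (p + 1) with hald
  set be := 1 / (q + 1) with hbed
  set d := be - al with hdd
  have hd : 0 ≤ d := by linarith
  have hden := top_up_den hd (by linarith)
  have hT : ∀ u, HasDerivAt (tangentExt (upTailTop d) (upD (6546 / 10000) (1 + 139779 / 10000 * d + -118 / 10000 * (d * d)) (8235 / 10000 * d) (1779 / 10000) (-2055 / 10000 + 10384 / 10000 * d)) (39 / 40))
      (if u ≤ 39 / 40 then upD (6546 / 10000) (1 + 139779 / 10000 * d + -118 / 10000 * (d * d)) (8235 / 10000 * d) (1779 / 10000) (-2055 / 10000 + 10384 / 10000 * d) u else upD (6546 / 10000) (1 + 139779 / 10000 * d + -118 / 10000 * (d * d)) (8235 / 10000 * d) (1779 / 10000) (-2055 / 10000 + 10384 / 10000 * d) (39 / 40)) u :=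
    hasDerivAt_tangentExt fun u hu => hasDerivAt_up hden (by linarith) (by linarith)
  have key := forwardU_step hf hb (u₀ := 3 / 5) (u₁ := 39 / 40) (K := 50) (b := tiltTop d)
    (by norm_num) (by norm_num) (by unfold tiltTop; linarith) hT
    (U₀ := fun u => (141 / 100 - 16 / 5 * d + (1 / 2 - 63 / 20 * d) * u + (27 / 10 - 31 / 4 * d) * u ^ 2))
    (fun u r => (u ≤ 19 / 20 → vOf al be r < phiFarTop d u) ∧ (N - 2) * be * r < N * al)
    (fun w hw hw0 _ => ⟨fun h => orbit_phi_far_top hf hb h0 h1 hw hw0 h,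
      (hf.chart hb.five hb.low w hw hw0).2.2.2.2.2.2.2.2.1⟩)
    (fun w hw hw0 hwu => ?_) (fun u hu0 hu => ?_) (fun u r hu hu' _ hr hE hv hv1 he hp => ?_)
    hw hw0 hu hwu
  · refine lt_of_lt_of_eq key ?_
    simp only [bandT, tangentExt, if_pos hwu]; rfl
  · refine lt_of_lt_of_eq (orbit_band_large hf hb h0 h1 hw hw0 hwu).2.2 ?_
    simp only [bandT, bandL, ← hald, ← hbed, ← hdd]
    ring
  · have := top_up_start hu0.le hu h0 h1 (sideS_mem hb)
    rw [tangentExt, if_pos (show u ≤ 39 / 40 by linarith)]; exact this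
  · have hA := (al_v_lt hb hr).resolve_right (by linarith)
    have hD := dv_lt hb hE.2
    obtain ⟨i, j, hc⟩ := top_up_sign (d := d) (S' := al + be) hu hu' hv hv1 hE.1 hA hD h0 h1
      (sideS_mem hb)
    have e1 : tangentExt (upTailTop d) (upD (6546 / 10000) (1 + 139779 / 10000 * d + -118 / 10000 * (d * d)) (8235 / 10000 * d) (1779 / 10000) (-2055 / 10000 + 10384 / 10000 * d)) (39 / 40) u = upTailTop d u := if_pos hu'
    rw [e1] at he hp ⊢
    rw [if_pos hu']
    obtain ⟨eN, eG, eM, eb⟩ := top_up_val (u := u) (v := vOf al be r) (d := d) (S' := al + be)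
    rw [topUpCond] at hc
    refine upperV_pos_of_cond u (vOf al be r) d (al + be) hc ?_ ?_ ?_ eb he hp
    · rw [eG]
      exact upG_pos hden (by linarith) (by linarith)
    · rw [eN, eG]
      exact upN_eq hden (by linarith) (by linarith)
    · rw [eM, eG]
      exact upM_eq hden (by linarith) (by linarith)

end Vale.Agent.P100.Calib.Band
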