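import Vale.Agent.P100.Calib.SlabPsiMid
import Vale.Agent.P100.Calib.SlabPsiTop

/-!
# The threshold `psi` from `u = 39/40` on

`y/x` grows along the outer orbit, so a bound from below at one value of `u` holds at every later
point.
-/

namespace Vale.Agent.P100.Calib.Band

open Vale.Agent.P100.Bubble Chart Set

variable {N p q : ℝ} {S : Set ℝ} {R x y s dx dy : ℝ → ℝ}

/-- **An earlier point at a given value of `u`, with a smaller `y/x`.** -/
theorem orbit_exists_earlier (hf : IsOrbitFns N p q S R x y s dx dy) (h5 : 5 ≤ N)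
    (hb : 1 ≤ N * (1 / (p + 1))) (hal : 0 < 1 / (p + 1)) (hbe : 0 < 1 / (q + 1)) {c : ℝ}
    (hc : 0 < c) {w : ℝ} (hw : w ∈ S) (hw0 : 0 < R w) (hu : c ≤ uOf N (R w) (x w)) :
    ∃ z ∈ S, 0 < R z ∧ uOf N (R z) (x z) = c ∧ y z / x z ≤ y w / x w := by
  obtain ⟨z₀, hz₀, hR0⟩ := hf.crossing
  have hz₀S : z₀ ∈ S := hf.cover ⟨hz₀.1, hz₀.2.le⟩
  have hwz : w < z₀ := by
    by_contra hn
    have := hf.anti.antitoneOn hz₀S hw (not_lt.1 hn)
    linarith
  have hwpos : 0 < w := hf.pos hw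
  have hsub : Icc w z₀ ⊆ S := fun z hz => hf.cover ⟨hwpos.trans_le hz.1, hz.2.trans hz₀.2.le⟩
  have hcu : ContinuousOn (fun z => uOf N (R z) (x z)) (Icc w z₀) := fun z hz => by
    simp only [uOf]
    exact (((continuousAt_const.mul (hf.dR z (hsub hz)).continuousAt).mul
      (hf.deriv_x z (hsub hz)).continuousAt).div_const _).continuousWithinAt
  have h0 : uOf N (R z₀) (x z₀) = 0 := by simp [uOf, hR0]
  obtain ⟨z, hz, hzu⟩ := intermediate_value_Icc' hwz.le hcu (show c ∈ Icc (uOf N (R z₀) (x z₀))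
    (uOf N (R w) (x w)) from ⟨by rw [h0]; exact hc.le, hu⟩)
  have hzlt : z < z₀ := lt_of_le_of_ne hz.2 fun e => by
    simp only [e, h0] at hzu
    linarith
  have hRpos : ∀ t ∈ Icc w z, 0 < R t := fun t ht => by
    have := hf.anti (hsub ⟨ht.1, ht.2.trans hz.2⟩) hz₀S (ht.2.trans_lt hzlt)
    linarith
  refine ⟨z, hsub hz, hRpos z ⟨hz.1, le_rfl⟩, hzu, ?_⟩
  have hsub' : Icc w z ⊆ S := fun t ht => hsub ⟨ht.1, ht.2.trans hz.2⟩
  have hd : ∀ t ∈ Icc w z, ∃ e, e ≤ 0 ∧ HasDerivAt (fun t => y t / x t) e t := fun t ht => by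
    have hx := hf.x_pos t (hsub' ht)
    have hy := hf.y_pos t (hsub' ht)
    have hR := hRpos t ht
    have h5' := (hf.trap h5 hb t (hsub' ht) hR).2.2.2.2
    have hW := hf.W_pos t (hsub' ht)
    have ht0 : 0 < t := hf.pos (hsub' ht)
    have hnum : 0 < dy t * x t - y t * dx t := by
      refine pos_of_mul_pos_right (a := R t) ?_ hR.le
      have e1 := congrArg (· * x t) (hf.ode_y t (hsub' ht))
      have e2 := congrArg (· * y t) (hf.ode_x t (hsub' ht))
      linarith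
    refine ⟨_, ?_, (hf.deriv_y t (hsub' ht)).fun_div (hf.deriv_x t (hsub' ht)) hx.ne'⟩
    have hk : -(1 / (p + 1) * (1 / (q + 1))) /
        (t * (1 / (q + 1) * y t - 1 / (p + 1) * x t)) ≤ 0 :=
      div_nonpos_of_nonpos_of_nonneg (neg_nonpos.2 (mul_pos hal hbe).le) (mul_pos ht0 hW).le
    refine div_nonpos_of_nonpos_of_nonneg ?_ (sq_nonneg _)
    have := mul_nonpos_of_nonneg_of_nonpos hnum.le hk
    linarith
  choose! e he hed using hd
  exact antitoneOn_of_hasDerivWithinAt_nonpos (convex_Icc w z)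
    (fun t ht => (hed t ht).continuousAt.continuousWithinAt)
    (fun t ht => (hed t (interior_subset ht)).hasDerivWithinAt)
    (fun t ht => he t (interior_subset ht)) (left_mem_Icc.2 hz.1) (right_mem_Icc.2 hz.1) hz.1

/-- **`vCrit + psiTwo < v` wherever `39/40 ≤ u`.** -/
theorem orbit_psi_past (hf : IsOrbitFns N p q S R x y s dx dy)
    (hb : SlabBox N (1 / (p + 1)) (1 / (q + 1))) (h0 : 1 / 20 ≤ 1 / (q + 1) - 1 / (p + 1))
    (h1 : 1 / (q + 1) - 1 / (p + 1) ≤ 1 / 5)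
    {w : ℝ} (hw : w ∈ S) (hw0 : 0 < R w) (hu : 39 / 40 ≤ uOf N (R w) (x w)) :
    vCrit (1 / (p + 1) + 1 / (q + 1)) (1 / (q + 1) - 1 / (p + 1)) +
        psiTwo (1 / (q + 1) - 1 / (p + 1)) <
      vOf (1 / (p + 1)) (1 / (q + 1)) (y w / x w) := by
  obtain ⟨hal, hbe, hd, -⟩ := hb.facts
  obtain ⟨z, hz, hz0, hzu, hzr⟩ :=
    orbit_exists_earlier hf hb.five hb.low hal hbe (by norm_num) hw hw0 hu
  have key : vCrit (1 / (p + 1) + 1 / (q + 1)) (1 / (q + 1) - 1 / (p + 1)) +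
      psiTwo (1 / (q + 1) - 1 / (p + 1)) < vOf (1 / (p + 1)) (1 / (q + 1)) (y z / x z) := by
    rcases le_total (1 / (q + 1) - 1 / (p + 1)) (3 / 25) with h | h
    · exact orbit_psi_mid hf hb h0 h hz hz0 hzu
    · exact orbit_psi_top hf hb h h1 hz hz0 hzu
  refine key.trans_le ?_
  simp only [vOf]
  exact div_le_div_of_nonneg_right
    (sub_le_sub_right (mul_le_mul_of_nonneg_left hzr (div_pos hbe hal).le) 1) hd.le

end Vale.Agent.P100.Calib.Band
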