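import Mathlib
import Vale.Agent.P100.Calib.SlabLadder

/-!
# General band and exit barriers on the dimension five slab

A band `hc r + d u T u` and an exit function
`G = A u - W u * v - m u * (h - hc r - d u T u)`, with `v = (be r / al - 1) / d`, for arbitrary
differentiable `T, A, W, m`. Each barrier follows from one sign, polynomial in
`(u, v, d, S)` and in the values and derivatives of these functions.
-/

open Set Filter Topology

namespace Vale.Agent.P100.Calib.Band

open Vale.Agent.P100.Bubble Chart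

variable {N al be r u : ℝ} {p q : ℝ} {S : Set ℝ} {R x y s dx dy : ℝ → ℝ}

/-- The band `hc r + d u T u`. -/
noncomputable def bandT (N al be d : ℝ) (T : ℝ → ℝ) (u r : ℝ) : ℝ :=
  hc N al be r + d * (u * T u)

/-- The value `(h - hc r)/(d u)`. -/
noncomputable def tauOf (N al be d u r h : ℝ) : ℝ := (h - hc N al be r) / (d * u)

/-- The band numerator at the value `t` and derivative `t'` of `T`. -/
noncomputable def lieV (Sg d u v t t' : ℝ) : ℝ := lieT Sg d u v (t - u * t') t' 0

/-- The denominator at the value `t` of `(h - hc r)/(d u)`. -/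
noncomputable def denV (Sg d u v t : ℝ) : ℝ := bandD Sg d u v (bandK Sg d u v t 0 0)

theorem bandT_eq (N al be d : ℝ) (T : ℝ → ℝ) (u r t' : ℝ) :
    bandT N al be d T u r = bandL N al be d (T u - u * t') t' 0 u r := by
  simp only [bandT, bandL]
  ring

/-- **A general band rung.** -/
theorem bandT_step (hf : IsOrbitFns N p q S R x y s dx dy)
    (hb : SlabBox N (1 / (p + 1)) (1 / (q + 1))) {e u₁ : ℝ} (he : e * e = 1)
    {T T' : ℝ → ℝ} (hT : ∀ u, HasDerivAt T (T' u) u) (hT' : Continuous T')
    (E : ℝ → ℝ → Prop)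
    (hE : ∀ w ∈ S, 0 < R w → uOf N (R w) (x w) ≤ u₁ → E (uOf N (R w) (x w)) (y w / x w))
    (hsign : ∀ u r, 0 < u → u < 1 → u ≤ u₁ → E u r → r < 1 →
      33 / 100 ≤ vOf (1 / (p + 1)) (1 / (q + 1)) r →
      vOf (1 / (p + 1)) (1 / (q + 1)) r ≤ 89 / 20 →
      0 < denV (1 / (p + 1) + 1 / (q + 1)) (1 / (q + 1) - 1 / (p + 1)) u
          (vOf (1 / (p + 1)) (1 / (q + 1)) r) (T u) ∧
        0 < e * lieV (1 / (p + 1) + 1 / (q + 1)) (1 / (q + 1) - 1 / (p + 1)) u
          (vOf (1 / (p + 1)) (1 / (q + 1)) r) (T u) (T' u))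
    {w : ℝ} (hw : w ∈ S) (hw0 : 0 < R w) (hwu : uOf N (R w) (x w) ≤ u₁) :
    0 < e * (hOf N (R w) (x w) (y w) w - bandT N (1 / (p + 1)) (1 / (q + 1))
      (1 / (q + 1) - 1 / (p + 1)) T (uOf N (R w) (x w)) (y w / x w)) := by
  obtain ⟨hal, hbe, hd, hS1, hS2, -, -⟩ := hb.facts
  have hlow : 1 ≤ N * (1 / (p + 1)) := hb.low
  set al := 1 / (p + 1) with hald
  set be := 1 / (q + 1) with hbed
  set d := be - al with hdd
  have cT : Continuous T := continuous_iff_continuousAt.2 fun a => (hT a).continuousAt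
  have grad : HasGradTwo (bandT N al be d T) (fun a _ => d * (T a + a * T' a))
      (fun _ _ => bandLr N al) := by
    intro a b da db t ha hb'
    refine ((((((hb'.div_const al).sub_const (1 / be)).add_const 1).fun_sub hb').const_mul
      (N - 2)).div_const (N + 2)).fun_add ((ha.fun_mul ((hT (a t)).comp t ha)).const_mul d)
      |>.congr_deriv ?_
    simp only [bandLr, Function.comp_apply]
    ring
  have c1 : Continuous fun w : ℝ × ℝ => bandT N al be d T w.1 w.2 := by
    unfold bandT hc; fun_prop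
  have c2 : Continuous fun w : ℝ × ℝ => d * (T w.1 + w.1 * T' w.1) := by fun_prop
  refine hf.band_barrier hb.five hlow e u₁ he _ _ _ E grad
    (fun r' => ⟨c1.continuousAt, c2.continuousAt, continuous_const.continuousAt⟩)
    (fun r' _ _ _ => le_of_eq (by simp [bandT, al, be])) hE
    (fun u r hu hu' hu1 _ hr1 _ hc hk hEur => ?_) w hw hw0 hwu
  obtain ⟨hv, hv1⟩ := hb.v_mem hc hr1 hk
  obtain ⟨hD, hsgn⟩ := hsign u r hu hu' hu1 hEur hr1 hv hv1
  have key := lie_band (u := u) (c₁ := T u - u * T' u) (c₂ := T' u) (c₃ := 0) (v := vOf al be r)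
    hb.sum rfl rfl hal.ne' hbe.ne' hS1 hS2
    (by
      have : bandD (al + be) d u (vOf al be r)
          (bandK (al + be) d u (vOf al be r) (T u - u * T' u) (T' u) 0) =
          denV (al + be) d u (vOf al be r) (T u) := by
        simp only [denV, bandK]; ring_nf
      rw [this]; exact hD.ne')
  have hr : al / be * (1 + d * vOf al be r) = r := hb.r_eq r
  rw [hr, ← bandT_eq] at key
  have hlie : lie N al be (fun u _ => bandLu d (T u - u * T' u) (T' u) 0 u) (fun _ _ => bandLr N al) u r
      (bandT N al be d T u r) = lie N al be (fun a _ => d * (T a + a * T' a)) (fun _ _ => bandLr N al)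
      u r (bandT N al be d T u r) := by
    simp only [lie, bandLu]
    ring
  have hlie' : lie N al be (fun a _ => bandLu d (T u - u * T' u) (T' u) 0 a)
      (fun _ _ => bandLr N al) u r (bandT N al be d T u r) =
      lie N al be (fun a _ => d * (T a + a * T' a)) (fun _ _ => bandLr N al)
      u r (bandT N al be d T u r) := by
    simp only [lie, bandLu]
    ring
  rw [hlie'] at key
  have hX : 0 < (1 - (al + be)) * bandB (al + be) d * be * denV (al + be) d u (vOf al be r) (T u) := by
    refine mul_pos (mul_pos (mul_pos (by linarith [hb.S_high]) ?_) hbe) hD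
    unfold bandB
    exact mul_pos (by linarith) (by linarith [hb.S_high])
  have eD : bandD (al + be) d u (vOf al be r)
      (bandK (al + be) d u (vOf al be r) (T u - u * T' u) (T' u) 0) =
      denV (al + be) d u (vOf al be r) (T u) := by
    simp only [denV, bandK]; ring_nf
  rw [eD] at key
  refine pos_of_mul_pos_left (b := (1 - (al + be)) * bandB (al + be) d * be *
    denV (al + be) d u (vOf al be r) (T u)) ?_ hX.le
  rw [mul_assoc, key]
  have := mul_pos (mul_pos hd hu) hsgn
  simp only [lieV] at this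
  linarith

/-- The exit numerator at a point `(u, v)`, `(h - hc r)/(d u) = t`: `W` the coefficient of `v`,
`g` the derivative along `u`. -/
noncomputable def exitP (Sg d u v t W g : ℝ) : ℝ :=
  let B := bandB Sg d;
  let K := bandK Sg d u v t 0 0;
  let D := bandD Sg d u v K;
  W * (1 + d * v) * (bandQ Sg d u v * K - 2 * Sg * (1 - (Sg - d) / 2 * v) * D) -
    g * ((B - u * d * K) * bandQ Sg d u v + 2 * Sg * (u - 1) * ((Sg + d) / 2) * D)

/-- The cleared condition for a general exit function. -/
noncomputable def exitM (Sg d u v t W g m : ℝ) : ℝ :=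
  bandB Sg d * exitP Sg d u v t W g + m * d * lieT Sg d u v t 0 0

theorem exitP_band {Sg d v t W g : ℝ} (hN : N * (1 - Sg) = 2) (hS : al + be = Sg)
    (hd : be - al = d) (hal : al ≠ 0) (hbe : be ≠ 0) (hS1 : 1 - Sg ≠ 0) (hS2 : 2 - Sg ≠ 0)
    (hD : denV Sg d u v t ≠ 0) :
    (W * (1 + d * v) * (qv N al be u (al / be * (1 + d * v)) (d * bandK Sg d u v t 0 0 / bandB Sg d) *
          (d * bandK Sg d u v t 0 0 / bandB Sg d) - (N - 2) * (1 - al / be * (1 + d * v))) -
      d * g * ev N al be u (al / be * (1 + d * v)) (d * bandK Sg d u v t 0 0 / bandB Sg d)) *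
      ((1 - Sg) * be * denV Sg d u v t) = d * exitP Sg d u v t W g := by
  have hNv : N = 2 / (1 - Sg) := by rw [eq_div_iff hS1]; exact hN
  have e1 : (Sg + d) / 2 = be := by linarith
  have e2 : (Sg - d) / 2 = al := by linarith
  simp only [denV] at hD ⊢
  simp only [ev]
  rw [qv_band hN hS hd hal hbe hS1 hS2 hD]
  rw [hNv]
  generalize hDv : bandD Sg d u v (bandK Sg d u v t 0 0) = D at hD ⊢
  simp only [exitP, hDv]
  simp only [bandD, bandK, bandB, bandQ, e1, e2] at hDv ⊢
  field_simp
  rw [← hDv]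
  subst hd hS
  field_simp
  ring

/-- **A general exit rung.** -/
theorem exitT_step (hf : IsOrbitFns N p q S R x y s dx dy)
    (hb : SlabBox N (1 / (p + 1)) (1 / (q + 1))) {u₁ : ℝ} (hu₁ : u₁ < 1)
    {T T' A A' W W' m m' : ℝ → ℝ} (hT : ∀ u, HasDerivAt T (T' u) u)
    (hA : ∀ u, HasDerivAt A (A' u) u) (hW : ∀ u, HasDerivAt W (W' u) u)
    (hm : ∀ u, HasDerivAt m (m' u) u)
    (E : ℝ → ℝ → ℝ → Prop)
    (hE : ∀ w ∈ S, 0 < R w → uOf N (R w) (x w) ≤ u₁ →
      E (uOf N (R w) (x w)) (y w / x w) (hOf N (R w) (x w) (y w) w))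
    (hend : ∀ r h, InChart N (1 / (p + 1)) (1 / (q + 1)) u₁ r h → E u₁ r h →
      33 / 100 ≤ vOf (1 / (p + 1)) (1 / (q + 1)) r →
      vOf (1 / (p + 1)) (1 / (q + 1)) r ≤ 89 / 20 →
      0 < A u₁ - W u₁ * vOf (1 / (p + 1)) (1 / (q + 1)) r - m u₁ *
        ((1 / (q + 1) - 1 / (p + 1)) * u₁ * (tauOf N (1 / (p + 1)) (1 / (q + 1))
          (1 / (q + 1) - 1 / (p + 1)) u₁ r h - T u₁)))
    (hsign : ∀ u r h, InChart N (1 / (p + 1)) (1 / (q + 1)) u r h → u ≤ u₁ → E u r h →
      33 / 100 ≤ vOf (1 / (p + 1)) (1 / (q + 1)) r →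
      vOf (1 / (p + 1)) (1 / (q + 1)) r ≤ 89 / 20 →
      A u - W u * vOf (1 / (p + 1)) (1 / (q + 1)) r - m u *
        ((1 / (q + 1) - 1 / (p + 1)) * u * (tauOf N (1 / (p + 1)) (1 / (q + 1))
          (1 / (q + 1) - 1 / (p + 1)) u r h - T u)) = 0 →
      0 < exitM (1 / (p + 1) + 1 / (q + 1)) (1 / (q + 1) - 1 / (p + 1)) u
        (vOf (1 / (p + 1)) (1 / (q + 1)) r)
        (tauOf N (1 / (p + 1)) (1 / (q + 1)) (1 / (q + 1) - 1 / (p + 1)) u r h) (W u)
        (A' u - W' u * vOf (1 / (p + 1)) (1 / (q + 1)) r - m' u *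
            ((1 / (q + 1) - 1 / (p + 1)) * u * (tauOf N (1 / (p + 1)) (1 / (q + 1))
              (1 / (q + 1) - 1 / (p + 1)) u r h - T u)) +
          m u * (1 / (q + 1) - 1 / (p + 1)) * (T u + u * T' u -
            tauOf N (1 / (p + 1)) (1 / (q + 1)) (1 / (q + 1) - 1 / (p + 1)) u r h))
        (m u))
    {w : ℝ} (hw : w ∈ S) (hw0 : 0 < R w) (hwu : uOf N (R w) (x w) ≤ u₁) :
    0 < A (uOf N (R w) (x w)) - W (uOf N (R w) (x w)) *
        vOf (1 / (p + 1)) (1 / (q + 1)) (y w / x w) -
      m (uOf N (R w) (x w)) * (hOf N (R w) (x w) (y w) w - bandT N (1 / (p + 1)) (1 / (q + 1))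
        (1 / (q + 1) - 1 / (p + 1)) T (uOf N (R w) (x w)) (y w / x w)) := by
  obtain ⟨hal, hbe, hd, hS1, hS2, -, -⟩ := hb.facts
  have hlow : 1 ≤ N * (1 / (p + 1)) := hb.low
  set al := 1 / (p + 1) with hald
  set be := 1 / (q + 1) with hbed
  set d := be - al with hdd
  set G : ℝ → ℝ → ℝ → ℝ := fun a b c => A a - W a * vOf al be b - m a * (c - bandT N al be d T a b)
    with hGdef
  have hG : HasGrad G
      (fun a b c => A' a - W' a * vOf al be b - m' a * (c - bandT N al be d T a b) +
        m a * (d * (T a + a * T' a)))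
      (fun a _ _ => -(W a * (be / al / d)) + m a * bandLr N al) (fun a _ _ => -m a) := by
    intro a b c da db dc t ha hb' hc'
    refine ((((hA (a t)).comp t ha).fun_sub (((hW (a t)).comp t ha).fun_mul
      (((hb'.const_mul (be / al)).sub_const 1).div_const (be - al)))).fun_sub
      (((hm (a t)).comp t ha).fun_mul (hc'.fun_sub
        (((((((hb'.div_const al).sub_const (1 / be)).add_const 1).fun_sub hb').const_mul
          (N - 2)).div_const (N + 2)).fun_add
          ((ha.fun_mul ((hT (a t)).comp t ha)).const_mul d))))).congr_deriv ?_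
    simp only [vOf, bandT, bandLr, hc, Function.comp_apply, d]
    ring
  have et : ∀ u' r' h', 0 < u' → h' - bandT N al be d T u' r' =
      d * u' * (tauOf N al be d u' r' h' - T u') := by
    intro u' r' h' hu'
    simp only [tauOf, bandT]
    field_simp
    ring
  refine hf.exit_barrier hb.five hlow u₁ hu₁ G _ _ _ E hG (fun w' hw' hw'0 hw'u => hE w' hw' hw'0 hw'u)
    (fun r' w' hI hE' => ?_) (fun u' r' w' hI hu' hE' hG0 => ?_) w hw hw0 hwu
  · have hI' := hI
    obtain ⟨hu0, -, -, hr1, -, -, -, hc0, hk, -⟩ := hI'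
    obtain ⟨hv, hv1⟩ := hb.v_mem hc0 hr1 hk
    have := hend r' w' hI hE' hv hv1
    simp only [G]
    rw [et _ _ _ hu0]
    exact this
  · have hI' := hI
    obtain ⟨hu0, hu1', hr0, hr1, hh0, hh1, hr2, hc0, hk, -⟩ := hI'
    simp only [G] at hG0
    rw [et _ _ _ hu0] at hG0
    obtain ⟨hv', hv1'⟩ := hb.v_mem hc0 hr1 hk
    have hv : 33 / 100 ≤ vOf al be r' := hv'
    have hv1 : vOf al be r' ≤ 89 / 20 := hv1'
    have hs := hsign u' r' w' hI hu' hE' hv hv1 hG0
    generalize htd : tauOf N al be d u' r' w' = t at hs hG0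
    generalize hvd : vOf al be r' = v at hs hG0 hv hv1
    have hr' : al / be * (1 + d * v) = r' := by rw [← hvd]; exact hb.r_eq r'
    have hw' : w' = bandL N al be d t 0 0 u' r' := by
      rw [← htd]
      simp only [tauOf, bandL]
      field_simp
      ring
    have hB : 0 < bandB (al + be) d := by
      unfold bandB; exact mul_pos (by linarith) (by linarith [hb.S_high])
    have hbv := band_value (u := u') (v := v) (c₁ := t) (c₂ := 0) (c₃ := 0)
      hb.sum rfl rfl hal.ne' hbe.ne' hS1 hS2
    rw [hr', ← hw'] at hbv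
    have hD : 0 < denV (al + be) d u' v t := by
      have h1 : u' * w' < 1 := lt_of_le_of_lt (mul_le_of_le_one_right hu0.le hh1.le) hu1'
      have h2 : 0 < d * v := mul_pos hd (lt_of_lt_of_le (by norm_num : (0 : ℝ) < 33 / 100) hv)
      have e : denV (al + be) d u' v t = bandB (al + be) d * (2 + d * v - u' * w') := by
        rw [hbv]
        simp only [denV, bandD, d]
        generalize bandK (al + be) (be - al) u' v t 0 0 = K
        simp only [d] at hB
        field_simp
      rw [e]
      exact mul_pos hB (by linarith)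
    have kl := lie_band (u := u') (v := v) (c₁ := t) (c₂ := 0) (c₃ := 0) hb.sum rfl rfl hal.ne'
      hbe.ne' hS1 hS2 hD.ne'
    have kp := exitP_band (u := u') (v := v) (t := t) (W := W u')
      (g := A' u' - W' u' * v - m' u' * (d * u' * (t - T u')) +
        m u' * d * (T u' + u' * T' u' - t)) hb.sum rfl rfl hal.ne' hbe.ne' hS1 hS2 hD.ne'
    rw [← hbv, hr'] at kp
    rw [hr', ← hw'] at kl
    change 0 < exitM (al + be) d u' v t (W u') _ (m u') at hs
    simp only [exitM] at hs
    change _ * _ = d * u' * lieT (al + be) d u' v t 0 0 at kl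
    have hX : 0 < (1 - (al + be)) * bandB (al + be) d * be * denV (al + be) d u' v t :=
      mul_pos (mul_pos (mul_pos (by linarith [hb.S_high]) hB) hbe) hD
    refine neg_of_mul_neg_left (b := (1 - (al + be)) * bandB (al + be) d * be *
      denV (al + be) d u' v t) ?_ hX.le
    refine lt_of_eq_of_lt (b := -(u' * (bandB (al + be) d *
      exitP (al + be) d u' v t (W u') (A' u' - W' u' * v - m' u' * (d * u' * (t - T u')) +
        m u' * d * (T u' + u' * T' u' - t)) + m u' * d * lieT (al + be) d u' v t 0 0))) ?_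
      (neg_neg_of_pos (mul_pos hu0 hs))
    have hr'' : r' * (be / al) = 1 + d * v := by rw [← hr']; field_simp
    have edv : r' * dv N al be u' r' w' * (be / al / d) =
        u' / d * (1 + d * v) * (qv N al be u' r' w' * w' - (N - 2) * (1 - r')) := by
      simp only [dv]
      rw [← hr'']
      ring
    simp only [lie, bandLu, denV] at kl
    rw [et _ _ _ hu0, htd]
    simp only [← hald, ← hbed]
    have e3 : (A' u' - W' u' * v - m' u' * (d * u' * (t - T u')) + m u' * (d * (T u' + u' * T' u'))) *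
        (u' * ev N al be u' r' w') + (-(W u' * (be / al / d)) + m u' * bandLr N al) *
        (r' * dv N al be u' r' w') + -m u' * fh N al be u' r' w' =
        (A' u' - W' u' * v - m' u' * (d * u' * (t - T u')) + m u' * (d * (T u' + u' * T' u'))) *
          (u' * ev N al be u' r' w') - W u' * (r' * dv N al be u' r' w' * (be / al / d)) +
          m u' * (bandLr N al * (r' * dv N al be u' r' w') - fh N al be u' r' w') := by ring
    simp only [denV] at hX kp ⊢
    rw [e3, edv]
    generalize bandD (al + be) d u' v (bandK (al + be) d u' v t 0 0) = D at kl kp hX ⊢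
    generalize exitP (al + be) d u' v t (W u') _ = P at kp ⊢
    generalize lieT (al + be) d u' v t 0 0 = L at kl ⊢
    have hk' : d * (u' / d) = u' := mul_div_cancel₀ _ hd.ne'
    generalize u' / d = k' at hk' ⊢
    subst hk'
    linear_combination (-(k' * bandB (al + be) d)) * kp - m (d * k') * kl

end Vale.Agent.P100.Calib.Band
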