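import Mathlib
import Vale.Agent.P100.Calib.SlabLadder

/-!
# Exit rungs resting on an earlier rung

As `exit_step`, but the end value comes from an earlier bound on `v`, and the slope condition is
taken at the lower band.
-/

open Set Filter Topology

namespace Vale.Agent.P100.Calib.Band

open Vale.Agent.P100.Bubble Chart

variable {N al be r u : ℝ} {p q : ℝ} {S : Set ℝ} {R x y s dx dy : ℝ → ℝ}

/-- The slope condition at a band, cleared. -/
noncomputable def slopeB (S d u a b k c c₁ c₂ c₃ : ℝ) : ℝ :=
  let G := c - u;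
  let Vn := (a + b * u) * G + k * u ^ 2;
  let dN := b * G ^ 2 + k * (2 * c * u - u ^ 2);
  let B := bandB S d;
  let K := S * (G + (1 - (S - d) / 2) * Vn) + B * (c₁ + c₂ * u + c₃ * u ^ 2) * u * G;
  G * ((G + d * Vn) * (B * (2 * G + d * Vn) - u * d * K) * G - d * u * dN * (B * G - u * d * K))

/-- `exitV` increases in `h`, with the slope bound at the lower value. -/
theorem exitV_mono_band {d v vp h g : ℝ} (hh : g ≤ h) (hal : 0 < al) (hbe : 0 < be) (hd0 : 0 < d)
    (hu0 : 0 ≤ u) (hh0 : 0 ≤ h) (huh : u * h ≤ 1) (hv0 : 0 < v) (hvp : 0 ≤ vp)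
    (hsl : d * u * vp * (1 - u * g) ≤ (1 + d * v) * (2 + d * v - u * g))
    (hgd : 0 < 2 + d * v - u * g) (hq : 0 ≤ N * (al + al * (1 + d * v)) -
      (N - 2) * u * (al / be * (1 + d * v))) :
    exitV N al be d v vp u g ≤ exitV N al be d v vp u h := by
  set r := al / be * (1 + d * v) with hr
  have hA : al + be * r = al + al * (1 + d * v) := by rw [hr]; field_simp
  have hdv : 0 < d * v := mul_pos hd0 hv0
  have hDg : 0 < al + be * r - al * u * g := by
    rw [hA]
    have := mul_pos hal hgd
    linarith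
  have hDh : 0 < al + be * r - al * u * h := by
    rw [hA]
    have := mul_le_mul_of_nonneg_left huh hal.le
    have := mul_pos hal hdv
    linarith
  set k := qv N al be u r h * al * u / (al + be * r - al * u * g) with hk
  have hqe : qv N al be u r h = qv N al be u r g + (h - g) * k := by
    simp only [k, qv]
    generalize hA' : N * (al + be * r) - (N - 2) * u * r = A
    generalize hD : al + be * r - al * u * h = D at hDh ⊢
    generalize hE : al + be * r - al * u * g = E at hDg ⊢
    field_simp
    subst hD hE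
    ring
  have hqh : 0 ≤ qv N al be u r h := div_nonneg (by rw [hA]; exact hq) hDh.le
  have hk0 : 0 ≤ k := div_nonneg (mul_nonneg (mul_nonneg hqh hal.le) hu0) hDg.le
  have hqg : qv N al be u r g = qv N al be u r h * (al + be * r - al * u * h) /
      (al + be * r - al * u * g) := by
    simp only [qv]
    field_simp
  have hslope : d * vp * ((1 - u * h) * k - u * qv N al be u r g) ≤
      (1 + d * v) * (k * h + qv N al be u r g) := by
    have h1 : d * vp * u * (1 - u * h) * al ≤ (1 + d * v) * (al + be * r - al * u * h) := by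
      have hug : u * g ≤ u * h := mul_le_mul_of_nonneg_left hh hu0
      have h4 : d * u * vp * (1 - u * h) ≤ (1 + d * v) * (2 + d * v - u * h) := by
        rcases (hug.trans huh).eq_or_lt with e | e
        · have : u * h = 1 := le_antisymm huh (e ▸ hug)
          rw [this, sub_self, mul_zero]
          exact mul_nonneg (by linarith) (by linarith)
        · refine le_of_mul_le_mul_right ?_ (sub_pos.2 e)
          have h3 := mul_le_mul_of_nonneg_left hsl (sub_nonneg.2 huh)
          have h6 := mul_nonneg (sub_nonneg.2 hug) (mul_self_nonneg (1 + d * v))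
          linarith
      have h3 := mul_le_mul_of_nonneg_right h4 hal.le
      rw [hA]
      linarith
    have h5 := mul_le_mul_of_nonneg_left h1 (div_nonneg hqh hDg.le)
    have e1 : qv N al be u r h / (al + be * r - al * u * g) *
        (d * vp * u * (1 - u * h) * al) = d * vp * ((1 - u * h) * k) := by
      simp only [k]; ring
    have e2 : qv N al be u r h / (al + be * r - al * u * g) *
        ((1 + d * v) * (al + be * r - al * u * h)) = (1 + d * v) * qv N al be u r g := by
      rw [hqg]; ring
    rw [e1, e2] at h5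
    have h6 : 0 ≤ d * vp * (u * qv N al be u r g) := by
      refine mul_nonneg (mul_nonneg hd0.le hvp) (mul_nonneg hu0 ?_)
      rw [hqg]
      exact div_nonneg (mul_nonneg hqh hDh.le) hDg.le
    have h7 := mul_nonneg (add_nonneg zero_le_one hdv.le) (mul_nonneg hk0 hh0)
    linarith
  have key := mul_le_mul_of_nonneg_left hslope (sub_nonneg.2 hh)
  simp only [exitV, ev, ← hr]
  rw [hqe]
  linarith

/-- **An exit rung** from an earlier bound on `v`: below the curve `φ = a + b u + k u²/(c - u)`. -/
theorem exit_step_of (hf : IsOrbitFns N p q S R x y s dx dy)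
    (hb : SlabBox N (1 / (p + 1)) (1 / (q + 1))) {u₁ : ℝ} (hu₁ : u₁ ≤ 9 / 10)
    {a b k c c₁ c₂ c₃ : ℝ} (hc : u₁ < c) (hb0 : 0 ≤ b) (hk0 : 0 ≤ k) (prev : ℝ → ℝ)
    (hprev : ∀ w ∈ S, 0 < R w → uOf N (R w) (x w) ≤ u₁ →
      vOf (1 / (p + 1)) (1 / (q + 1)) (y w / x w) < prev (uOf N (R w) (x w)))
    (hend : prev u₁ ≤ phiG a b k c u₁)
    (hlow : ∀ w ∈ S, 0 < R w → uOf N (R w) (x w) ≤ u₁ →
      bandL N (1 / (p + 1)) (1 / (q + 1)) (1 / (q + 1) - 1 / (p + 1)) c₁ c₂ c₃
        (uOf N (R w) (x w)) (y w / x w) < hOf N (R w) (x w) (y w) w)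
    {bd : ℝ} (hbd : (1 / (q + 1) - 1 / (p + 1)) * bd ≤ 9 / 10)
    (hP : ∀ u, 0 ≤ u → u ≤ u₁ → c₁ + c₂ * u + c₃ * u ^ 2 ≤ bd)
    (hsign : ∀ u, 0 ≤ u → u ≤ u₁ → 33 / 100 ≤ phiG a b k c u → phiG a b k c u ≤ 89 / 20 →
      0 < exitG (1 / (p + 1) + 1 / (q + 1)) (1 / (q + 1) - 1 / (p + 1)) u a b k c c₁ c₂ c₃)
    (hslope : ∀ u, 0 ≤ u → u ≤ u₁ → 33 / 100 ≤ phiG a b k c u → phiG a b k c u ≤ 89 / 20 →
      0 ≤ slopeB (1 / (p + 1) + 1 / (q + 1)) (1 / (q + 1) - 1 / (p + 1)) u a b k c c₁ c₂ c₃)
    {w : ℝ} (hw : w ∈ S) (hw0 : 0 < R w) (hwu : uOf N (R w) (x w) ≤ u₁) :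
    vOf (1 / (p + 1)) (1 / (q + 1)) (y w / x w) < phiG a b k c (uOf N (R w) (x w)) := by
  obtain ⟨hal', hbe', hd', hS1, hS2, hal1', hal2'⟩ := hb.facts
  set al := 1 / (p + 1) with hald
  set be := 1 / (q + 1) with hbed
  have h5 := hb.five
  have hlow1 : 1 ≤ N * al := hb.low
  set d := be - al with hdd
  set G : ℝ → ℝ → ℝ → ℝ := fun u' r' _ =>
    (a + b * u') * (c - u') + k * u' ^ 2 - (c - u') * vOf al be r' with hGdef
  have hG : HasGrad G (fun u' r' _ => b * (c - u') - (a + b * u') + 2 * k * u' + vOf al be r')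
      (fun u' _ _ => -((c - u') * (be / al / d))) (fun _ _ _ => 0) := by
    intro a' b' c' da db dc t ha hb' hc'
    refine ((((((ha.const_mul b).const_add a).fun_mul (ha.const_sub c)).fun_add
      ((ha.fun_pow 2).const_mul k)).fun_sub ((ha.const_sub c).fun_mul
        (((hb'.const_mul (be / al)).sub_const 1).div_const (be - al))))).congr_deriv ?_
    simp only [vOf, d]
    ring
  have key := hf.exit_barrier h5 hlow1 u₁ (by linarith) G _ _ _
    (fun u' r' h' => u' ≤ u₁ → bandL N al be d c₁ c₂ c₃ u' r' < h' ∧ vOf al be r' < prev u') hG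
    (fun w' hw' hw'0 hw'u _ => ⟨hlow w' hw' hw'0 hw'u, hprev w' hw' hw'0 hw'u⟩)
    (fun r' w' hI hE => ?_) (fun u' r' w' hI hu' hE hG0 => ?_) w hw hw0 hwu
  · have hg : 0 < c - uOf N (R w) (x w) := by linarith
    simp only [G] at key
    rw [← sub_pos]
    have e : phiG a b k c (uOf N (R w) (x w)) - vOf al be (y w / x w) =
        ((a + b * uOf N (R w) (x w)) * (c - uOf N (R w) (x w)) + k * uOf N (R w) (x w) ^ 2 -
          (c - uOf N (R w) (x w)) * vOf al be (y w / x w)) / (c - uOf N (R w) (x w)) := by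
      unfold phiG
      generalize c - uOf N (R w) (x w) = g at hg ⊢
      field_simp
    rw [e]
    exact div_pos key hg
  · obtain ⟨-, -, -, hr1, -, -, -, hc0, hk, -⟩ := hI
    obtain ⟨-, hv1⟩ := hb.v_mem hc0 hr1 hk
    have hv1' : vOf al be r' ≤ 89 / 20 := hv1
    have hg : 0 < c - u₁ := by linarith
    simp only [G]
    have e : (a + b * u₁) * (c - u₁) + k * u₁ ^ 2 = (c - u₁) * phiG a b k c u₁ := by
      unfold phiG
      generalize c - u₁ = g at hg ⊢
      field_simp
    rw [e, ← mul_sub]
    exact mul_pos hg (by linarith [(hE le_rfl).2])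
  · obtain ⟨hu0, hu1, hr0, hr1, hh0, hh1, hr2, hc0, hk, -⟩ := hI
    simp only [G] at hG0
    have hgap : 0 < c - u' := by linarith
    have hvphi : vOf al be r' = phiG a b k c u' := by
      refine mul_left_cancel₀ hgap.ne' ?_
      have e : (c - u') * phiG a b k c u' = (a + b * u') * (c - u') + k * u' ^ 2 := by
        unfold phiG
        generalize c - u' = g at hgap ⊢
        field_simp
      linarith
    obtain ⟨hv0, hv2⟩ := hb.v_mem hc0 hr1 hk
    have hv : 33 / 100 ≤ phiG a b k c u' := hvphi ▸ (show 33 / 100 ≤ vOf al be r' from hv0)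
    have hv1 : phiG a b k c u' ≤ 89 / 20 := hvphi ▸ (show vOf al be r' ≤ 89 / 20 from hv2)
    have hr' : al / be * (1 + d * phiG a b k c u') = r' := by rw [← hvphi]; exact hb.r_eq r'
    have hu9 : u' ≤ 9 / 10 := hu'.trans hu₁
    have hD := hb.bandD_pos_le (v := phiG a b k c u') (c₁ := c₁) (c₂ := c₂) (c₃ := c₃) hu0.le hu9
      hv hv1 hbd (hP u' hu0.le hu')
    have hbv := band_value (u := u') (v := phiG a b k c u') (c₁ := c₁) (c₂ := c₂) (c₃ := c₃)
      hb.sum rfl rfl hal'.ne' hbe'.ne' hS1 hS2
    rw [hr'] at hbv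
    have hband := exitV_band (u := u') (a := a) (b := b) (k := k) (c := c) (c₁ := c₁) (c₂ := c₂)
      (c₃ := c₃) hb.sum rfl rfl hal'.ne' hbe'.ne' hS1 hS2 hgap.ne' hD.ne'
    have hB : 0 < bandB (al + be) d := by
      unfold bandB; exact mul_pos (by linarith) (by linarith [hb.S_high])
    have hpos : 0 < exitV N al be d (phiG a b k c u') (phiG' b k c u') u'
        (d * bandK (al + be) d u' (phiG a b k c u') c₁ c₂ c₃ / bandB (al + be) d) := by
      refine pos_of_mul_pos_left (hband.symm ▸ mul_pos hd' (hsign u' hu0.le hu' hv hv1)) ?_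
      exact mul_nonneg (mul_nonneg (mul_nonneg (by linarith [hb.S_high]) hbe'.le) hD.le)
        (by positivity)
    rw [← hbv] at hpos
    have hcu : 0 ≤ 2 * c * u' - u' ^ 2 := by nlinarith
    have hvp : 0 ≤ phiG' b k c u' := by
      unfold phiG'
      exact add_nonneg hb0 (div_nonneg (mul_nonneg hk0 hcu) (sq_nonneg _))
    have hdv := mul_pos hd' (lt_of_lt_of_le (by norm_num) hv : 0 < phiG a b k c u')
    have hsl : d * u' * phiG' b k c u' * (1 - u' * bandL N al be d c₁ c₂ c₃ u' r') ≤
        (1 + d * phiG a b k c u') *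
          (2 + d * phiG a b k c u' - u' * bandL N al be d c₁ c₂ c₃ u' r') := by
      have h1 := hslope u' hu0.le hu' hv hv1
      rw [hbv, ← sub_nonneg]
      refine nonneg_of_mul_nonneg_left (b := (c - u') ^ 4 * bandB (al + be) d) (le_of_le_of_eq h1 ?_)
        (by positivity)
      simp only [slopeB, bandK]
      unfold phiG phiG'
      generalize bandB (al + be) d = B at hB ⊢
      generalize c - u' = g at hgap ⊢
      field_simp
      ring
    have hmono := exitV_mono_band (N := N) (al := al) (be := be) (d := d) (u := u')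
      (v := phiG a b k c u') (vp := phiG' b k c u')
      (g := bandL N al be d c₁ c₂ c₃ u' r') (h := w') (hE hu').1.le hal' hbe' hd'
      hu0.le hh0.le ((mul_le_of_le_one_right hu0.le hh1.le).trans hu1.le)
      (lt_of_lt_of_le (by norm_num) hv) hvp hsl ?_ ?_
    · have hf' := hpos.trans_le hmono
      simp only [exitV, hr'] at hf'
      have e : (b * (c - u') - (a + b * u') + 2 * k * u' + vOf al be r') *
            (u' * ev N al be u' r' w') +
          -((c - u') * (be / al / d)) * (r' * dv N al be u' r' w') + 0 * fh N al be u' r' w' =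
          -(u' * (c - u') / d) * ((1 + d * phiG a b k c u') *
            (qv N al be u' r' w' * w' - (N - 2) * (1 - r')) -
            d * phiG' b k c u' * ev N al be u' r' w') := by
        rw [hvphi]
        have hr'' : r' * (be / al) = 1 + d * phiG a b k c u' := by rw [← hr']; field_simp
        simp only [dv]
        rw [show -((c - u') * (be / al / d)) *
            (r' * (u' * (qv N al be u' r' w' * w' - (N - 2) * (1 - r')))) =
            -((c - u') / d) * (r' * (be / al)) *
              (u' * (qv N al be u' r' w' * w' - (N - 2) * (1 - r'))) by ring, hr'']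
        unfold phiG phiG'
        generalize hG' : c - u' = G' at hgap ⊢
        field_simp
        subst hG'
        ring
      rw [e]
      exact mul_neg_of_neg_of_pos (neg_neg_of_pos (div_pos (mul_pos hu0 hgap) hd')) hf'
    · have h2 : u' * bandL N al be d c₁ c₂ c₃ u' r' ≤ u' * w' :=
        mul_le_mul_of_nonneg_left (hE hu').1.le hu0.le
      have h3 : u' * w' < 1 := lt_of_le_of_lt (mul_le_of_le_one_right hu0.le hh1.le) hu1
      linarith
    · set v := phiG a b k c u'
      have hS := hb.S_low
      have hS' := hb.S_high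
      have key' : u' * (al + be) * (1 + d * v) ≤ be * (2 + d * v) := by
        have h1 := mul_le_mul_of_nonneg_right hu9
          (mul_nonneg (show 0 ≤ al + be by linarith) (show 0 ≤ 1 + d * v by linarith))
        have h2 : d * d * v ≥ 0 := mul_nonneg (mul_self_nonneg d) (by linarith)
        have h3 : (al + be) * v ≤ 307 / 507 * (89 / 20) := mul_le_mul hS' hv1 (by linarith) (by norm_num)
        have h4 := mul_le_mul_of_nonneg_left h3 hd'.le
        have h6 : d ≤ 1 / 5 := hb.diff
        linarith
      have eN : N - 2 = N * (al + be) := by linarith [hb.sum]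
      have e : N * (al + al * (1 + d * v)) - (N - 2) * u' * (al / be * (1 + d * v)) =
          N * al / be * (be * (2 + d * v) - u' * (al + be) * (1 + d * v)) := by
        rw [eN]; field_simp; ring
      rw [e]
      exact mul_nonneg (div_nonneg (mul_nonneg (by linarith) hal'.le) hbe'.le) (sub_nonneg.2 key')

end Vale.Agent.P100.Calib.Band
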