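import Mathlib
import Vale.Agent.P100.Calib.SlabGeneric
import Vale.Agent.P100.Calib.SlabLadderTwo

/-!
# A general exit curve above a lower band

`W u * v < A u` for `u ≤ u₁ < 1`, from the value at `u₁` and the sign of `exitP` at a lower band
`L`, where `exitV` increases in `h`.
-/

open Set Filter Topology

namespace Vale.Agent.P100.Calib.Band

open Vale.Agent.P100.Bubble Chart

variable {N : ℝ} {p q : ℝ} {S : Set ℝ} {R x y s dx dy : ℝ → ℝ}

/-- **An exit rung** `W u * v < A u` above the band `L`. -/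
theorem exitF_step (hf : IsOrbitFns N p q S R x y s dx dy)
    (hb : SlabBox N (1 / (p + 1)) (1 / (q + 1))) {u₁ : ℝ} (hu₁ : u₁ < 1)
    {A A' W W' : ℝ → ℝ} (hA : ∀ u, HasDerivAt A (A' u) u) (hW : ∀ u, HasDerivAt W (W' u) u)
    (hWpos : ∀ u, 0 ≤ u → u ≤ u₁ → 0 < W u) (L : ℝ → ℝ) (E : ℝ → ℝ → Prop)
    (hE : ∀ w ∈ S, 0 < R w → uOf N (R w) (x w) ≤ u₁ → E (uOf N (R w) (x w)) (y w / x w))
    (hlow : ∀ w ∈ S, 0 < R w → uOf N (R w) (x w) ≤ u₁ →
      bandT N (1 / (p + 1)) (1 / (q + 1)) (1 / (q + 1) - 1 / (p + 1)) L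
        (uOf N (R w) (x w)) (y w / x w) < hOf N (R w) (x w) (y w) w)
    (hend : ∀ r, r < 1 → E u₁ r → 33 / 100 ≤ vOf (1 / (p + 1)) (1 / (q + 1)) r →
      vOf (1 / (p + 1)) (1 / (q + 1)) r ≤ 89 / 20 →
      W u₁ * vOf (1 / (p + 1)) (1 / (q + 1)) r < A u₁)
    (hsign : ∀ u r, 0 < u → u ≤ u₁ → r < 1 → E u r →
      33 / 100 ≤ vOf (1 / (p + 1)) (1 / (q + 1)) r →
      vOf (1 / (p + 1)) (1 / (q + 1)) r ≤ 89 / 20 →
      W u * vOf (1 / (p + 1)) (1 / (q + 1)) r = A u →
      0 < exitP (1 / (p + 1) + 1 / (q + 1)) (1 / (q + 1) - 1 / (p + 1)) u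
          (vOf (1 / (p + 1)) (1 / (q + 1)) r) (L u) (W u)
          (A' u - W' u * vOf (1 / (p + 1)) (1 / (q + 1)) r) ∧
        0 ≤ A' u - W' u * vOf (1 / (p + 1)) (1 / (q + 1)) r ∧
        (1 / (q + 1) - 1 / (p + 1)) * u *
            (A' u - W' u * vOf (1 / (p + 1)) (1 / (q + 1)) r) *
            (bandB (1 / (p + 1) + 1 / (q + 1)) (1 / (q + 1) - 1 / (p + 1)) -
              u * (1 / (q + 1) - 1 / (p + 1)) *
                bandK (1 / (p + 1) + 1 / (q + 1)) (1 / (q + 1) - 1 / (p + 1)) u
                  (vOf (1 / (p + 1)) (1 / (q + 1)) r) (L u) 0 0) ≤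
          W u * (1 + (1 / (q + 1) - 1 / (p + 1)) * vOf (1 / (p + 1)) (1 / (q + 1)) r) *
            denV (1 / (p + 1) + 1 / (q + 1)) (1 / (q + 1) - 1 / (p + 1)) u
              (vOf (1 / (p + 1)) (1 / (q + 1)) r) (L u))
    {w : ℝ} (hw : w ∈ S) (hw0 : 0 < R w) (hwu : uOf N (R w) (x w) ≤ u₁) :
    W (uOf N (R w) (x w)) * vOf (1 / (p + 1)) (1 / (q + 1)) (y w / x w) <
      A (uOf N (R w) (x w)) := by
  obtain ⟨hal, hbe, hd, hS1, hS2, -, -⟩ := hb.facts
  set al := 1 / (p + 1) with hald
  set be := 1 / (q + 1) with hbed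
  set d := be - al with hdd
  have key := exitT_step hf hb hu₁ (T := fun _ => 0) (T' := fun _ => 0) (m := fun _ => 0)
    (m' := fun _ => 0) (fun u => hasDerivAt_const u 0) hA hW (fun u => hasDerivAt_const u 0)
    (fun u r h => bandT N al be d L u r < h ∧ E u r)
    (fun w' hw' hw'0 hw'u => ⟨hlow w' hw' hw'0 hw'u, hE w' hw' hw'0 hw'u⟩)
    (fun r h hI hE' hv hv1 => ?_) (fun u r h hI hu hE' hv hv1 hG => ?_) hw hw0 hwu
  · simp only [zero_mul, sub_zero] at key
    linarith
  · simp only [zero_mul, sub_zero]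
    exact sub_pos.2 (hend r hI.2.2.2.1 hE'.2 hv hv1)
  obtain ⟨hu0, hu1, -, hr1, hh0, hh1, -, -, -, -⟩ := hI
  simp only [zero_mul, sub_zero] at hG
  obtain ⟨hs, hg0, hsl⟩ := hsign u r hu0 hu hr1 hE'.2 hv hv1 (by linarith)
  simp only [zero_mul, sub_zero, add_zero, ← hald, ← hbed, ← hdd, exitM]
  set v := vOf al be r with hvd
  set g := A' u - W' u * v with hgd
  set t := tauOf N al be d u r h with htd
  have hr : al / be * (1 + d * v) = r := hb.r_eq r
  have hB : 0 < bandB (al + be) d := by
    unfold bandB; exact mul_pos (by linarith) (by linarith [hb.S_high])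
  have hW0 := hWpos u hu0.le hu
  have hh : h = bandT N al be d (fun _ => t) u r := by
    simp only [htd, tauOf, bandT]
    field_simp
    ring
  have hbv : ∀ t' : ℝ, bandT N al be d (fun _ => t') u r =
      d * bandK (al + be) d u v t' 0 0 / bandB (al + be) d := fun t' => by
    have := band_value (u := u) (v := v) (c₁ := t') (c₂ := 0) (c₃ := 0)
      hb.sum rfl rfl hal.ne' hbe.ne' hS1 hS2
    rw [hr] at this
    rw [← this]
    simp only [bandT, bandL]
    ring
  have hLt : bandT N al be d L u r = bandT N al be d (fun _ => L u) u r := rfl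
  have huh : u * h < 1 := lt_of_le_of_lt (mul_le_of_le_one_right hu0.le hh1.le) hu1
  have hdv : 0 < d * v := mul_pos hd (lt_of_lt_of_le (by norm_num) hv)
  have hden : ∀ t', bandT N al be d (fun _ => t') u r ≤ h →
      0 < denV (al + be) d u v t' := fun t' ht' => by
    have e : denV (al + be) d u v t' =
        bandB (al + be) d * (2 + d * v - u * bandT N al be d (fun _ => t') u r) := by
      rw [hbv]
      simp only [denV, bandD]
      generalize bandK (al + be) d u v t' 0 0 = K
      field_simp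
    rw [e]
    have := mul_le_mul_of_nonneg_left ht' hu0.le
    exact mul_pos hB (by linarith)
  have hDL := hden (L u) (hLt ▸ hE'.1.le)
  have hDt := hden t hh.ge
  have hband : ∀ t', 0 < denV (al + be) d u v t' →
      W u * exitV N al be d v (g / W u) u (bandT N al be d (fun _ => t') u r) *
        ((1 - (al + be)) * be * denV (al + be) d u v t') =
      d * exitP (al + be) d u v t' (W u) g := fun t' ht' => by
    have := exitP_band (u := u) (v := v) (t := t') (W := W u) (g := g)
      hb.sum rfl rfl hal.ne' hbe.ne' hS1 hS2 ht'.ne'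
    rw [← hbv t', hr] at this
    rw [← this, exitV, hr]
    field_simp
    simp only [hdd]
    ring
  have hX : ∀ t', 0 < denV (al + be) d u v t' →
      0 < (1 - (al + be)) * be * denV (al + be) d u v t' := fun t' ht' =>
    mul_pos (mul_pos (by linarith [hb.S_high]) hbe) ht'
  have hpos : 0 < exitV N al be d v (g / W u) u (bandT N al be d L u r) := by
    refine pos_of_mul_pos_right (a := W u) ?_ hW0.le
    refine pos_of_mul_pos_left (b := (1 - (al + be)) * be * denV (al + be) d u v (L u)) ?_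
      (hX _ hDL).le
    rw [hLt, hband _ hDL]
    exact mul_pos hd hs
  have halv : al * v < 1 := by
    rw [← hr, div_mul_eq_mul_div, div_lt_one hbe] at hr1
    have : d * (al * v) < d * 1 := by rw [mul_one, hdd]; linarith
    exact lt_of_mul_lt_mul_left this hd.le
  have hmono : exitV N al be d v (g / W u) u (bandT N al be d L u r) ≤
      exitV N al be d v (g / W u) u h := by
    refine exitV_mono_band hE'.1.le hal hbe hd hu0.le hh0.le huh.le
      (lt_of_lt_of_le (by norm_num) hv) (div_nonneg hg0 hW0.le) ?_ ?_ ?_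
    · refine le_of_mul_le_mul_right ?_ (mul_pos hW0 hB)
      rw [hLt, hbv (L u)]
      refine le_of_eq_of_le ?_ (le_of_le_of_eq hsl ?_)
      · field_simp
      · simp only [denV, bandD]
        field_simp
    · have := mul_le_mul_of_nonneg_left hE'.1.le hu0.le
      linarith
    · have eN : N - 2 = N * (al + be) := by linarith [hb.sum]
      have e : N * (al + al * (1 + d * v)) - (N - 2) * u * (al / be * (1 + d * v)) =
          N * al / be * (d * (1 - al * v) + (1 - u) * (al + be) * (1 + d * v)) := by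
        rw [eN, hdd]; field_simp; ring
      rw [e]
      exact mul_nonneg (div_nonneg (mul_nonneg (by linarith [hb.five]) hal.le) hbe.le)
        (add_nonneg (mul_nonneg hd.le (by linarith))
          (mul_nonneg (mul_nonneg (by linarith) (by linarith)) (by linarith)))
  have hfin : 0 < W u * exitV N al be d v (g / W u) u h := mul_pos hW0 (hpos.trans_le hmono)
  have e := hband t hDt
  rw [← hh] at e
  refine mul_pos hB (pos_of_mul_pos_right ?_ hd.le)
  rw [← e]
  exact mul_pos hfin (hX t hDt)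

end Vale.Agent.P100.Calib.Band
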