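import Mathlib
import Vale.Agent.P100.Calib.SlabExitFun

/-!
# Exit curves `a + b u + k u²/(c - u)` above a lower band, up to any `u₁ < 1`
-/

open Set Filter Topology

namespace Vale.Agent.P100.Calib.Band

open Vale.Agent.P100.Bubble Chart

variable {N : ℝ} {p q : ℝ} {S : Set ℝ} {R x y s dx dy : ℝ → ℝ}

theorem exitG_exitP {Sg d u v a b k c t : ℝ}
    (h : (c - u) * v = (a + b * u) * (c - u) + k * u ^ 2) :
    exitG Sg d u a b k c t 0 0 = (c - u) ^ 3 * exitP Sg d u v t (c - u)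
      (b * (c - u) - (a + b * u) + 2 * k * u + v) := by
  simp only [exitG, exitP, bandD, bandK, bandQ]
  rw [← h, show b * (c - u) ^ 2 + k * (2 * c * u - u ^ 2) =
    (c - u) * (b * (c - u) - (a + b * u) + 2 * k * u + v) by linear_combination -h]
  generalize b * (c - u) - (a + b * u) + 2 * k * u + v = g
  generalize bandB Sg d = B
  generalize c - u = G
  ring

theorem slopeB_denV {Sg d u v a b k c t : ℝ}
    (h : (c - u) * v = (a + b * u) * (c - u) + k * u ^ 2) :
    slopeB Sg d u a b k c t 0 0 = (c - u) ^ 3 * ((c - u) * (1 + d * v) * denV Sg d u v t -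
      d * u * (b * (c - u) - (a + b * u) + 2 * k * u + v) *
        (bandB Sg d - u * d * bandK Sg d u v t 0 0)) := by
  simp only [slopeB, denV, bandD, bandK]
  rw [← h, show b * (c - u) ^ 2 + k * (2 * c * u - u ^ 2) =
    (c - u) * (b * (c - u) - (a + b * u) + 2 * k * u + v) by linear_combination -h]
  ring

/-- **An exit curve** above the band `L`. -/
theorem exitC_step (hf : IsOrbitFns N p q S R x y s dx dy)
    (hb : SlabBox N (1 / (p + 1)) (1 / (q + 1))) {u₁ : ℝ} (hu₁ : u₁ < 1)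
    {a b k c : ℝ} (hc : u₁ < c) (hb0 : 0 ≤ b) (hk0 : 0 ≤ k) (L : ℝ → ℝ) (E : ℝ → ℝ → Prop)
    (hE : ∀ w ∈ S, 0 < R w → uOf N (R w) (x w) ≤ u₁ → E (uOf N (R w) (x w)) (y w / x w))
    (hlow : ∀ w ∈ S, 0 < R w → uOf N (R w) (x w) ≤ u₁ →
      bandT N (1 / (p + 1)) (1 / (q + 1)) (1 / (q + 1) - 1 / (p + 1)) L
        (uOf N (R w) (x w)) (y w / x w) < hOf N (R w) (x w) (y w) w)
    (hend : ∀ r, r < 1 → E u₁ r → 33 / 100 ≤ vOf (1 / (p + 1)) (1 / (q + 1)) r →
      vOf (1 / (p + 1)) (1 / (q + 1)) r ≤ 89 / 20 →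
      vOf (1 / (p + 1)) (1 / (q + 1)) r < phiG a b k c u₁)
    (hsign : ∀ u r, 0 < u → u ≤ u₁ → r < 1 → E u r →
      33 / 100 ≤ vOf (1 / (p + 1)) (1 / (q + 1)) r →
      vOf (1 / (p + 1)) (1 / (q + 1)) r ≤ 89 / 20 →
      vOf (1 / (p + 1)) (1 / (q + 1)) r = phiG a b k c u →
      0 < exitG (1 / (p + 1) + 1 / (q + 1)) (1 / (q + 1) - 1 / (p + 1)) u a b k c (L u) 0 0 ∧
        0 ≤ slopeB (1 / (p + 1) + 1 / (q + 1)) (1 / (q + 1) - 1 / (p + 1)) u a b k c (L u) 0 0)
    {w : ℝ} (hw : w ∈ S) (hw0 : 0 < R w) (hwu : uOf N (R w) (x w) ≤ u₁) :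
    vOf (1 / (p + 1)) (1 / (q + 1)) (y w / x w) < phiG a b k c (uOf N (R w) (x w)) := by
  have hA : ∀ u : ℝ, HasDerivAt (fun u => (a + b * u) * (c - u) + k * u ^ 2)
      (b * (c - u) - (a + b * u) + 2 * k * u) u := fun u => by
    refine ((((hasDerivAt_id u).const_mul b).const_add a).fun_mul
      ((hasDerivAt_id u).const_sub c)).fun_add (((hasDerivAt_id u).fun_pow 2).const_mul k)
      |>.congr_deriv ?_
    simp only [id_eq, mul_one, Nat.cast_ofNat]
    ring
  have hpg : ∀ u, u ≤ u₁ → ∀ v, (c - u) * v = (a + b * u) * (c - u) + k * u ^ 2 →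
      v = phiG a b k c u := fun u hu v h => by
    have hg : c - u ≠ 0 := by linarith
    refine mul_left_cancel₀ hg ?_
    rw [h, phiG]
    generalize c - u = g at hg ⊢
    field_simp
  have key := exitF_step hf hb hu₁ hA (W := fun u => c - u) (W' := fun _ => -1)
    (fun u => by simpa using (hasDerivAt_id u).const_sub c)
    (fun u _ hu => by linarith) L E hE hlow
    (fun r hr hE' hv hv1 => ?_) (fun u r hu0 hu hr hE' hv hv1 hG => ?_) hw hw0 hwu
  · have hg : 0 < c - uOf N (R w) (x w) := by linarith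
    refine lt_of_mul_lt_mul_left (key.trans_le (le_of_eq ?_)) hg.le
    unfold phiG
    generalize c - uOf N (R w) (x w) = g at hg ⊢
    field_simp
  · have hg : 0 < c - u₁ := by linarith
    refine (mul_lt_mul_of_pos_left (hend r hr hE' hv hv1) hg).trans_le (le_of_eq ?_)
    unfold phiG
    generalize c - u₁ = g at hg ⊢
    field_simp
  · set v := vOf (1 / (p + 1)) (1 / (q + 1)) r
    obtain ⟨h1, h2⟩ := hsign u r hu0 hu hr hE' hv hv1 (hpg u hu v hG)
    have hg : 0 < c - u := by linarith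
    rw [exitG_exitP (v := v) hG] at h1
    rw [slopeB_denV (v := v) hG] at h2
    have hg' : (c - u) * (b * (c - u) - (a + b * u) + 2 * k * u + v) =
        b * (c - u) ^ 2 + k * (u * (2 * c - u)) := by
      linear_combination hG
    have hcu : 0 ≤ u * (2 * c - u) := mul_nonneg hu0.le (by linarith)
    have e : b * (c - u) - (a + b * u) + 2 * k * u - -1 * v =
        b * (c - u) - (a + b * u) + 2 * k * u + v := by ring
    rw [e]
    refine ⟨pos_of_mul_pos_right h1 (pow_nonneg hg.le 3), nonneg_of_mul_nonneg_right ?_ hg,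
      sub_nonneg.1 (nonneg_of_mul_nonneg_right h2 (pow_pos hg 3))⟩
    rw [hg']
    exact add_nonneg (mul_nonneg hb0 (sq_nonneg _)) (mul_nonneg hk0 hcu)

end Vale.Agent.P100.Calib.Band
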