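import Vale.Agent.P100.Calib.SlabBandExpr
import Vale.Agent.P100.Calib.SlabGeneric

/-!
# The band denominator as an expression
-/

namespace Vale.Agent.P100.Calib.Band

open BoxPos

local instance denAdd : Add Ex := ⟨Ex.add⟩
local instance denSub : Sub Ex := ⟨Ex.sub⟩
local instance denMul : Mul Ex := ⟨Ex.mul⟩

/-- `denV`, in `(u, v, d, S)`, at the value `P` of `(h - hc r)/(d u)`. -/
def eDen (P : Ex) : Ex :=
  let B := eB
  let K := eS * (eC 1 + (eC 1 - eA) * eV) + B * eU * P
  B * (eC 2 + eD * eV) - eD * eU * K

theorem val_addD (a b : Ex) (u v d S : ℝ) :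
    (a + b).val u v d S = a.val u v d S + b.val u v d S := rfl

theorem val_subD (a b : Ex) (u v d S : ℝ) :
    (a - b).val u v d S = a.val u v d S - b.val u v d S := rfl

theorem val_mulD (a b : Ex) (u v d S : ℝ) :
    (a * b).val u v d S = a.val u v d S * b.val u v d S := rfl

theorem val_den (P : Ex) (u v d S : ℝ) :
    (eDen P).val u v d S = denV S d u v (P.val u v d S) := by
  have hB : eB.val u v d S = bandB S d := by
    simp only [eB, val_add, val_sub, val_mul, Ex.val, bandB]
    push_cast
    ring
  have hA : eA.val u v d S = (S - d) / 2 := by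
    simp only [eA, val_sub, val_mul, Ex.val]
    push_cast
    ring
  simp only [eDen, val_addD, val_subD, val_mulD, Ex.val, hB, hA, denV, bandD, bandK, Int.cast_one,
    Int.cast_ofNat, Nat.cast_one, div_one, zero_mul, add_zero]

end Vale.Agent.P100.Calib.Band
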