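import Vale.Agent.P100.Calib.SlabRungs
import Vale.Agent.P100.Calib.SlabDenExpr

/-!
# The first lower band up to `u = 39/40`

`h > hc + d u (23/20 - 15 d/4 + (17/10 - 211 d/25) u)` on every orbit of the dimension five slab.
-/

namespace Vale.Agent.P100.Calib.Band

open BoxPos Bubble Chart

variable {N p q : ℝ} {S : Set ℝ} {R x y s dx dy : ℝ → ℝ}

/-- The denominator at the first lower band. -/
def eDen₁ : Ex := eDen (Ex.add cA₁ (Ex.mul cB₁ eU))

theorem den₁_check : eDen₁.check lieCfg (rBox 0 976 4451 0 201) = true := by decide +kernel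

theorem lower₁_far_0 : eLower₁.check lieCfg (rBox 875 976 4451 0 150) = true := by decide +kernel

theorem lower₁_far_150 : eLower₁.check lieCfg (rBox 875 976 4445 150 162) = true := by decide +kernel

theorem lower₁_far_162 : eLower₁.check lieCfg (rBox 875 976 4116 162 171) = true := by decide +kernel

theorem lower₁_far_171 : eLower₁.check lieCfg (rBox 875 976 3899 171 180) = true := by decide +kernel

theorem lower₁_far_180 : eLower₁.check lieCfg (rBox 875 976 3705 180 201) = true := by decide +kernel

theorem lower₁_far_sign {u v d S' : ℝ} (hu : 875 / 1000 ≤ u) (hu1 : u < 976 / 1000)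
    (hv : 33 / 100 ≤ v) (hv1 : v ≤ 89 / 20) (hd : 0 ≤ d) (hd1 : d ≤ 1 / 5) (hdv : d * v < 2 / 3)
    (hS : sideS.Mem S') : 0 < eLower₁.val u v d S' := by
  rcases lt_or_ge d (150 / 1000) with k0 | k0
  · exact Ex.pos_of_check lower₁_far_0 (side_mem (by push_cast; linarith) (by push_cast; linarith))
      (side_mem (by push_cast; linarith) (by push_cast; linarith))
      (side_mem (by push_cast; linarith) (by push_cast; linarith)) hS
  have hc : ∀ x c : ℝ, 0 < x → x ≤ d → 2 / 3 ≤ x * c → v < c := fun x c hx hxd hxc => by
    by_contra h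
    have h1 := mul_le_mul hxd (not_lt.1 h)
      (le_of_not_gt fun hc => by linarith [mul_neg_of_pos_of_neg hx hc]) hd
    linarith
  rcases lt_or_ge d (162 / 1000) with k1 | k1
  · have := hc (150 / 1000) (4445 / 1000) (by norm_num) k0 (by norm_num)
    exact Ex.pos_of_check lower₁_far_150 (side_mem (by push_cast; linarith) (by push_cast; linarith))
      (side_mem (by push_cast; linarith) (by push_cast; linarith))
      (side_mem (by push_cast; linarith) (by push_cast; linarith)) hS
  rcases lt_or_ge d (171 / 1000) with k2 | k2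
  · have := hc (162 / 1000) (4116 / 1000) (by norm_num) k1 (by norm_num)
    exact Ex.pos_of_check lower₁_far_162 (side_mem (by push_cast; linarith) (by push_cast; linarith))
      (side_mem (by push_cast; linarith) (by push_cast; linarith))
      (side_mem (by push_cast; linarith) (by push_cast; linarith)) hS
  rcases lt_or_ge d (180 / 1000) with k3 | k3
  · have := hc (171 / 1000) (3899 / 1000) (by norm_num) k2 (by norm_num)
    exact Ex.pos_of_check lower₁_far_171 (side_mem (by push_cast; linarith) (by push_cast; linarith))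
      (side_mem (by push_cast; linarith) (by push_cast; linarith))
      (side_mem (by push_cast; linarith) (by push_cast; linarith)) hS
  have := hc (180 / 1000) (3705 / 1000) (by norm_num) k3 (by norm_num)
  exact Ex.pos_of_check lower₁_far_180 (side_mem (by push_cast; linarith) (by push_cast; linarith))
    (side_mem (by push_cast; linarith) (by push_cast; linarith))
    (side_mem (by push_cast; linarith) (by push_cast; linarith)) hS

/-- **The first lower band** up to `u = 39/40`. -/
theorem orbit_lower_one_far (hf : IsOrbitFns N p q S R x y s dx dy)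
    (hb : SlabBox N (1 / (p + 1)) (1 / (q + 1)))
    {w : ℝ} (hw : w ∈ S) (hw0 : 0 < R w) (hwu : uOf N (R w) (x w) ≤ 39 / 40) :
    let al := 1 / (p + 1)
    let be := 1 / (q + 1)
    bandL N al be (be - al) (23 / 20 - 15 / 4 * (be - al)) (17 / 10 - 211 / 25 * (be - al)) 0
      (uOf N (R w) (x w)) (y w / x w) < hOf N (R w) (x w) (y w) w := by
  intro al be
  have hd : 0 ≤ be - al := hb.facts.2.2.1.le
  have hd1 : be - al ≤ 1 / 5 := hb.diff
  set d := be - al with hdd
  set c₁ := 23 / 20 - 15 / 4 * d with hc1
  set c₂ := 17 / 10 - 211 / 25 * d with hc2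
  have hT : ∀ u : ℝ, HasDerivAt (fun u => c₁ + c₂ * u) c₂ u := fun u => by
    simpa using ((hasDerivAt_id u).const_mul c₂).const_add c₁
  have := bandT_step hf hb (one_mul 1) (u₁ := 39 / 40) hT continuous_const
    (fun u r => (u ≤ 9 / 10 → vOf al be r < phiOne u) ∧ (N - 2) * be * r < N * al)
    (fun w hw hw0 _ => ⟨fun h => orbit_phiOne hf hb hw hw0 h,
      (hf.chart hb.five hb.low w hw hw0).2.2.2.2.2.2.2.2.1⟩)
    (fun u r hu _ hu1 hE _ hv hv1 => ?_) hw hw0 hwu
  · rw [one_mul, sub_pos] at this
    refine lt_of_eq_of_lt ?_ this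
    simp only [bandT, bandL, hdd, hc1, hc2, al, be]
    ring
  · have hdv := dv_lt hb hE.2
    have hden := Ex.pos_of_check den₁_check (y₀ := u) (y₁ := vOf al be r) (y₂ := d) (y₃ := al + be)
      (side_mem (by push_cast; linarith) (by push_cast; linarith))
      (side_mem (by push_cast; linarith) (by push_cast; linarith))
      (side_mem (by push_cast; linarith) (by push_cast; linarith)) (sideS_mem hb)
    rw [eDen₁, val_den] at hden
    have key : 0 < eLower₁.val u (vOf al be r) d (al + be) := by
      rcases le_or_gt u (9 / 10) with g | g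
      · exact lower₁_sign hu.le g hv hv1 (hE.1 g) hd hd1 hdv (sideS_mem hb)
      · exact lower₁_far_sign (by linarith) (by linarith) hv hv1 hd hd1 hdv (sideS_mem hb)
    rw [eLower₁, val_lie] at key
    refine ⟨by simpa [al, be, d, c₁, c₂, cA₁, cB₁, Ex.val, sub_eq_add_neg, mul_assoc] using hden,
      ?_⟩
    rw [one_mul, lieV]
    refine lt_of_lt_of_eq key ?_
    simp only [cA₁, cB₁, Ex.val, c₁, c₂, d, al, be]
    push_cast
    congr 1 <;> ring

end Vale.Agent.P100.Calib.Band
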