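import Vale.Agent.P100.Calib.SlabFarChecks
import Vale.Agent.P100.Calib.SlabRungsFar
import Vale.Agent.P100.Calib.SlabExitCurve

/-!
# Exit curves from `u = 19/20`

With `d = be - al` in `[0, 3/50]`, `[3/50, 3/25]`, `[3/25, 1/5]`: `v < φ u` for `u ≤ 19/20`.
-/

namespace Vale.Agent.P100.Calib.Band

open BoxPos Bubble Chart

variable {N p q : ℝ} {S : Set ℝ} {R x y s dx dy : ℝ → ℝ}

theorem exitG_lin (S d u a b k c c₁ c₂ : ℝ) :
    exitG S d u a b k c (c₁ + c₂ * u) 0 0 = exitG S d u a b k c c₁ c₂ 0 := by
  simp only [exitG, zero_mul, add_zero]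

theorem slopeB_lin (S d u a b k c c₁ c₂ : ℝ) :
    slopeB S d u a b k c (c₁ + c₂ * u) 0 0 = slopeB S d u a b k c c₁ c₂ 0 := by
  simp only [slopeB, zero_mul, add_zero]

theorem al_v_lt {N al be r : ℝ} (h : SlabBox N al be) (hr : r < 1) :
    (3 / 5 - (be - al)) * vOf al be r < 2 ∨ vOf al be r < 0 := by
  obtain ⟨hal, hbe, hd, -⟩ := h.facts
  rcases lt_or_ge (vOf al be r) 0 with h0 | h0
  · exact Or.inr h0
  · refine Or.inl ?_
    have e : (be - al) * (al * vOf al be r) = be * r - al := by
      unfold vOf; field_simp
    have h1 : al * vOf al be r < 1 := by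
      refine lt_of_mul_lt_mul_left (a := be - al) ?_ hd.le
      have := mul_lt_mul_of_pos_left hr hbe
      linarith
    have h2 : (3 / 5 - (be - al)) * vOf al be r ≤ 2 * al * vOf al be r :=
      mul_le_mul_of_nonneg_right (by linarith [h.S_low]) h0
    linarith

theorem low_far_sign {u d S' : ℝ} (hu : 0 ≤ u) (hu1 : u ≤ 19 / 20) (h0 : 0 ≤ d)
    (h1 : d ≤ 3 / 50) (hS : sideS.Mem S') :
    0 < lowFarExit.val u (33 / 100) d S' ∧ 0 < lowFarSlope.val u (33 / 100) d S' := by
  have hv : (⟨330, 331, 1000⟩ : Side).Mem (33 / 100) := side_mem (by norm_num) (by norm_num)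
  rcases lt_or_ge u (600 / 1000) with g0 | g0
  · exact ⟨Ex.pos_of_check low_far_exit_0_0
        (side_mem (by push_cast; linarith) (by push_cast; linarith)) hv
        (side_mem (by push_cast; linarith) (by push_cast; linarith)) hS,
      Ex.pos_of_check low_far_slope_0_0
        (side_mem (by push_cast; linarith) (by push_cast; linarith)) hv
        (side_mem (by push_cast; linarith) (by push_cast; linarith)) hS⟩
  rcases lt_or_ge u (800 / 1000) with g1 | g1
  · exact ⟨Ex.pos_of_check low_far_exit_600_0
        (side_mem (by push_cast; linarith) (by push_cast; linarith)) hv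
        (side_mem (by push_cast; linarith) (by push_cast; linarith)) hS,
      Ex.pos_of_check low_far_slope_600_0
        (side_mem (by push_cast; linarith) (by push_cast; linarith)) hv
        (side_mem (by push_cast; linarith) (by push_cast; linarith)) hS⟩
  rcases lt_or_ge u (900 / 1000) with g2 | g2
  · exact ⟨Ex.pos_of_check low_far_exit_800_0
        (side_mem (by push_cast; linarith) (by push_cast; linarith)) hv
        (side_mem (by push_cast; linarith) (by push_cast; linarith)) hS,
      Ex.pos_of_check low_far_slope_800_0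
        (side_mem (by push_cast; linarith) (by push_cast; linarith)) hv
        (side_mem (by push_cast; linarith) (by push_cast; linarith)) hS⟩
  rcases lt_or_ge u (940 / 1000) with g3 | g3
  · exact ⟨Ex.pos_of_check low_far_exit_900_0
        (side_mem (by push_cast; linarith) (by push_cast; linarith)) hv
        (side_mem (by push_cast; linarith) (by push_cast; linarith)) hS,
      Ex.pos_of_check low_far_slope_900_0
        (side_mem (by push_cast; linarith) (by push_cast; linarith)) hv
        (side_mem (by push_cast; linarith) (by push_cast; linarith)) hS⟩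
  exact ⟨Ex.pos_of_check low_far_exit_940_0
      (side_mem (by push_cast; linarith) (by push_cast; linarith)) hv
      (side_mem (by push_cast; linarith) (by push_cast; linarith)) hS,
    Ex.pos_of_check low_far_slope_940_0
      (side_mem (by push_cast; linarith) (by push_cast; linarith)) hv
      (side_mem (by push_cast; linarith) (by push_cast; linarith)) hS⟩

/-- An exit curve. -/
noncomputable def phiFarLow (d u : ℝ) : ℝ :=
  phiG (1205 / 1000 + 62 / 1000 * d) (586 / 1000 - 1622 / 1000 * d) (251 / 1000 + 944 / 1000 * d) (1085 / 1000) u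

/-- **An exit curve** up to `u = 19/20`. -/
theorem orbit_phi_far_low (hf : IsOrbitFns N p q S R x y s dx dy)
    (hb : SlabBox N (1 / (p + 1)) (1 / (q + 1))) (h0 : 0 ≤ 1 / (q + 1) - 1 / (p + 1))
    (h1 : 1 / (q + 1) - 1 / (p + 1) ≤ 3 / 50)
    {w : ℝ} (hw : w ∈ S) (hw0 : 0 < R w) (hwu : uOf N (R w) (x w) ≤ 19 / 20) :
    vOf (1 / (p + 1)) (1 / (q + 1)) (y w / x w) <
      phiFarLow (1 / (q + 1) - 1 / (p + 1)) (uOf N (R w) (x w)) := by
  set d := 1 / (q + 1) - 1 / (p + 1) with hdd
  refine exitC_step (a := (1205 / 1000 + 62 / 1000 * d)) (b := (586 / 1000 - 1622 / 1000 * d)) (k := (251 / 1000 + 944 / 1000 * d)) (c := 1085 / 1000) hf hb (u₁ := 19 / 20)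
    (by norm_num) (by norm_num) (by linarith) (by linarith)
    (fun u => (23 / 20 - 15 / 4 * d) + (17 / 10 - 211 / 25 * d) * u)
    (fun _ r => (N - 2) * (1 / (q + 1)) * r < N * (1 / (p + 1)))
    (fun w hw hw0 _ => (hf.chart hb.five hb.low w hw hw0).2.2.2.2.2.2.2.2.1)
    (fun w hw hw0 hwu => ?_) (fun r hr hE hv _ => ?_) (fun u r hu hu1 _ _ _ _ _ => ?_) hw hw0 hwu
  · refine lt_of_eq_of_lt ?_ (orbit_lower_one_far hf hb hw hw0 (hwu.trans (by norm_num)))
    simp only [bandT, bandL, ← hdd]
    ring
  · have h3 := (al_v_lt hb hr).resolve_right (by linarith)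
    have h4 := dv_lt hb hE
    rw [← hdd] at h3 h4
    set v := vOf (1 / (p + 1)) (1 / (q + 1)) r
    by_contra hcon
    have hle := not_lt.1 hcon
    unfold phiG at hle
    norm_num at hle
    nlinarith [mul_le_mul_of_nonneg_left hle (show 0 ≤ 3 / 5 - d by linarith)]
  · set S' := 1 / (p + 1) + 1 / (q + 1)
    have key := low_far_sign hu.le hu1 h0 h1 (show sideS.Mem S' from sideS_mem hb)
    obtain ⟨k1, k2⟩ := key
    rw [lowFarExit, val_exitG] at k1
    rw [lowFarSlope, val_slopeB] at k2
    simp only [lowFarA, lowFarB, lowFarK, cA₁, cB₁, Ex.val] at k1 k2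
    push_cast at k1 k2
    refine ⟨lt_of_lt_of_eq k1 ?_, (lt_of_lt_of_eq k2 ?_).le⟩
    · rw [exitG_lin]
      congr 1 <;> ring
    · rw [slopeB_lin]
      congr 1 <;> ring

theorem mid_far_sign {u d S' : ℝ} (hu : 0 ≤ u) (hu1 : u ≤ 19 / 20) (h0 : 3 / 50 ≤ d)
    (h1 : d ≤ 3 / 25) (hS : sideS.Mem S') :
    0 < midFarExit.val u (33 / 100) d S' ∧ 0 < midFarSlope.val u (33 / 100) d S' := by
  have hv : (⟨330, 331, 1000⟩ : Side).Mem (33 / 100) := side_mem (by norm_num) (by norm_num)
  rcases lt_or_ge u (600 / 1000) with g0 | g0
  · exact ⟨Ex.pos_of_check mid_far_exit_0_60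
        (side_mem (by push_cast; linarith) (by push_cast; linarith)) hv
        (side_mem (by push_cast; linarith) (by push_cast; linarith)) hS,
      Ex.pos_of_check mid_far_slope_0_60
        (side_mem (by push_cast; linarith) (by push_cast; linarith)) hv
        (side_mem (by push_cast; linarith) (by push_cast; linarith)) hS⟩
  rcases lt_or_ge u (800 / 1000) with g1 | g1
  · exact ⟨Ex.pos_of_check mid_far_exit_600_60
        (side_mem (by push_cast; linarith) (by push_cast; linarith)) hv
        (side_mem (by push_cast; linarith) (by push_cast; linarith)) hS,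
      Ex.pos_of_check mid_far_slope_600_60
        (side_mem (by push_cast; linarith) (by push_cast; linarith)) hv
        (side_mem (by push_cast; linarith) (by push_cast; linarith)) hS⟩
  rcases lt_or_ge u (900 / 1000) with g2 | g2
  · exact ⟨Ex.pos_of_check mid_far_exit_800_60
        (side_mem (by push_cast; linarith) (by push_cast; linarith)) hv
        (side_mem (by push_cast; linarith) (by push_cast; linarith)) hS,
      Ex.pos_of_check mid_far_slope_800_60
        (side_mem (by push_cast; linarith) (by push_cast; linarith)) hv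
        (side_mem (by push_cast; linarith) (by push_cast; linarith)) hS⟩
  rcases lt_or_ge u (940 / 1000) with g3 | g3
  · exact ⟨Ex.pos_of_check mid_far_exit_900_60
        (side_mem (by push_cast; linarith) (by push_cast; linarith)) hv
        (side_mem (by push_cast; linarith) (by push_cast; linarith)) hS,
      Ex.pos_of_check mid_far_slope_900_60
        (side_mem (by push_cast; linarith) (by push_cast; linarith)) hv
        (side_mem (by push_cast; linarith) (by push_cast; linarith)) hS⟩
  exact ⟨Ex.pos_of_check mid_far_exit_940_60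
      (side_mem (by push_cast; linarith) (by push_cast; linarith)) hv
      (side_mem (by push_cast; linarith) (by push_cast; linarith)) hS,
    Ex.pos_of_check mid_far_slope_940_60
      (side_mem (by push_cast; linarith) (by push_cast; linarith)) hv
      (side_mem (by push_cast; linarith) (by push_cast; linarith)) hS⟩

/-- An exit curve. -/
noncomputable def phiFarMid (d u : ℝ) : ℝ :=
  phiG (1408 / 1000 - 817 / 1000 * d) (620 / 1000 + 313 / 1000 * d) (103 / 1000 + 70 / 1000 * d) (995 / 1000) u

/-- **An exit curve** up to `u = 19/20`. -/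
theorem orbit_phi_far_mid (hf : IsOrbitFns N p q S R x y s dx dy)
    (hb : SlabBox N (1 / (p + 1)) (1 / (q + 1))) (h0 : 3 / 50 ≤ 1 / (q + 1) - 1 / (p + 1))
    (h1 : 1 / (q + 1) - 1 / (p + 1) ≤ 3 / 25)
    {w : ℝ} (hw : w ∈ S) (hw0 : 0 < R w) (hwu : uOf N (R w) (x w) ≤ 19 / 20) :
    vOf (1 / (p + 1)) (1 / (q + 1)) (y w / x w) <
      phiFarMid (1 / (q + 1) - 1 / (p + 1)) (uOf N (R w) (x w)) := by
  set d := 1 / (q + 1) - 1 / (p + 1) with hdd
  refine exitC_step (a := (1408 / 1000 - 817 / 1000 * d)) (b := (620 / 1000 + 313 / 1000 * d)) (k := (103 / 1000 + 70 / 1000 * d)) (c := 995 / 1000) hf hb (u₁ := 19 / 20)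
    (by norm_num) (by norm_num) (by linarith) (by linarith)
    (fun u => (23 / 20 - 15 / 4 * d) + (17 / 10 - 211 / 25 * d) * u)
    (fun _ r => (N - 2) * (1 / (q + 1)) * r < N * (1 / (p + 1)))
    (fun w hw hw0 _ => (hf.chart hb.five hb.low w hw hw0).2.2.2.2.2.2.2.2.1)
    (fun w hw hw0 hwu => ?_) (fun r hr hE hv _ => ?_) (fun u r hu hu1 _ _ _ _ _ => ?_) hw hw0 hwu
  · refine lt_of_eq_of_lt ?_ (orbit_lower_one_far hf hb hw hw0 (hwu.trans (by norm_num)))
    simp only [bandT, bandL, ← hdd]
    ring
  · have h3 := (al_v_lt hb hr).resolve_right (by linarith)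
    have h4 := dv_lt hb hE
    rw [← hdd] at h3 h4
    set v := vOf (1 / (p + 1)) (1 / (q + 1)) r
    by_contra hcon
    have hle := not_lt.1 hcon
    unfold phiG at hle
    norm_num at hle
    nlinarith [mul_le_mul_of_nonneg_left hle (show 0 ≤ 3 / 5 - d by linarith)]
  · set S' := 1 / (p + 1) + 1 / (q + 1)
    have key := mid_far_sign hu.le hu1 h0 h1 (show sideS.Mem S' from sideS_mem hb)
    obtain ⟨k1, k2⟩ := key
    rw [midFarExit, val_exitG] at k1
    rw [midFarSlope, val_slopeB] at k2
    simp only [midFarA, midFarB, midFarK, cA₁, cB₁, Ex.val] at k1 k2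
    push_cast at k1 k2
    refine ⟨lt_of_lt_of_eq k1 ?_, (lt_of_lt_of_eq k2 ?_).le⟩
    · rw [exitG_lin]
      congr 1 <;> ring
    · rw [slopeB_lin]
      congr 1 <;> ring

theorem top_far_sign {u d S' : ℝ} (hu : 0 ≤ u) (hu1 : u ≤ 19 / 20) (h0 : 3 / 25 ≤ d)
    (h1 : d ≤ 1 / 5) (hS : sideS.Mem S') :
    0 < topFarExit.val u (33 / 100) d S' ∧ 0 < topFarSlope.val u (33 / 100) d S' := by
  have hv : (⟨330, 331, 1000⟩ : Side).Mem (33 / 100) := side_mem (by norm_num) (by norm_num)
  rcases lt_or_ge u (600 / 1000) with g0 | g0
  · rcases lt_or_ge d (150 / 1000) with k0 | k0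
    · exact ⟨Ex.pos_of_check top_far_exit_0_120
          (side_mem (by push_cast; linarith) (by push_cast; linarith)) hv
          (side_mem (by push_cast; linarith) (by push_cast; linarith)) hS,
        Ex.pos_of_check top_far_slope_0_120
          (side_mem (by push_cast; linarith) (by push_cast; linarith)) hv
          (side_mem (by push_cast; linarith) (by push_cast; linarith)) hS⟩
    rcases lt_or_ge d (175 / 1000) with k1 | k1
    · exact ⟨Ex.pos_of_check top_far_exit_0_150
          (side_mem (by push_cast; linarith) (by push_cast; linarith)) hv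
          (side_mem (by push_cast; linarith) (by push_cast; linarith)) hS,
        Ex.pos_of_check top_far_slope_0_150
          (side_mem (by push_cast; linarith) (by push_cast; linarith)) hv
          (side_mem (by push_cast; linarith) (by push_cast; linarith)) hS⟩
    exact ⟨Ex.pos_of_check top_far_exit_0_175
        (side_mem (by push_cast; linarith) (by push_cast; linarith)) hv
        (side_mem (by push_cast; linarith) (by push_cast; linarith)) hS,
      Ex.pos_of_check top_far_slope_0_175
        (side_mem (by push_cast; linarith) (by push_cast; linarith)) hv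
        (side_mem (by push_cast; linarith) (by push_cast; linarith)) hS⟩
  rcases lt_or_ge u (800 / 1000) with g1 | g1
  · rcases lt_or_ge d (150 / 1000) with k0 | k0
    · exact ⟨Ex.pos_of_check top_far_exit_600_120
          (side_mem (by push_cast; linarith) (by push_cast; linarith)) hv
          (side_mem (by push_cast; linarith) (by push_cast; linarith)) hS,
        Ex.pos_of_check top_far_slope_600_120
          (side_mem (by push_cast; linarith) (by push_cast; linarith)) hv
          (side_mem (by push_cast; linarith) (by push_cast; linarith)) hS⟩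
    rcases lt_or_ge d (175 / 1000) with k1 | k1
    · exact ⟨Ex.pos_of_check top_far_exit_600_150
          (side_mem (by push_cast; linarith) (by push_cast; linarith)) hv
          (side_mem (by push_cast; linarith) (by push_cast; linarith)) hS,
        Ex.pos_of_check top_far_slope_600_150
          (side_mem (by push_cast; linarith) (by push_cast; linarith)) hv
          (side_mem (by push_cast; linarith) (by push_cast; linarith)) hS⟩
    exact ⟨Ex.pos_of_check top_far_exit_600_175
        (side_mem (by push_cast; linarith) (by push_cast; linarith)) hv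
        (side_mem (by push_cast; linarith) (by push_cast; linarith)) hS,
      Ex.pos_of_check top_far_slope_600_175
        (side_mem (by push_cast; linarith) (by push_cast; linarith)) hv
        (side_mem (by push_cast; linarith) (by push_cast; linarith)) hS⟩
  rcases lt_or_ge u (900 / 1000) with g2 | g2
  · rcases lt_or_ge d (150 / 1000) with k0 | k0
    · exact ⟨Ex.pos_of_check top_far_exit_800_120
          (side_mem (by push_cast; linarith) (by push_cast; linarith)) hv
          (side_mem (by push_cast; linarith) (by push_cast; linarith)) hS,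
        Ex.pos_of_check top_far_slope_800_120
          (side_mem (by push_cast; linarith) (by push_cast; linarith)) hv
          (side_mem (by push_cast; linarith) (by push_cast; linarith)) hS⟩
    rcases lt_or_ge d (175 / 1000) with k1 | k1
    · exact ⟨Ex.pos_of_check top_far_exit_800_150
          (side_mem (by push_cast; linarith) (by push_cast; linarith)) hv
          (side_mem (by push_cast; linarith) (by push_cast; linarith)) hS,
        Ex.pos_of_check top_far_slope_800_150
          (side_mem (by push_cast; linarith) (by push_cast; linarith)) hv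
          (side_mem (by push_cast; linarith) (by push_cast; linarith)) hS⟩
    exact ⟨Ex.pos_of_check top_far_exit_800_175
        (side_mem (by push_cast; linarith) (by push_cast; linarith)) hv
        (side_mem (by push_cast; linarith) (by push_cast; linarith)) hS,
      Ex.pos_of_check top_far_slope_800_175
        (side_mem (by push_cast; linarith) (by push_cast; linarith)) hv
        (side_mem (by push_cast; linarith) (by push_cast; linarith)) hS⟩
  rcases lt_or_ge u (920 / 1000) with g3 | g3
  · rcases lt_or_ge d (150 / 1000) with k0 | k0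
    · exact ⟨Ex.pos_of_check top_far_exit_900_120
          (side_mem (by push_cast; linarith) (by push_cast; linarith)) hv
          (side_mem (by push_cast; linarith) (by push_cast; linarith)) hS,
        Ex.pos_of_check top_far_slope_900_120
          (side_mem (by push_cast; linarith) (by push_cast; linarith)) hv
          (side_mem (by push_cast; linarith) (by push_cast; linarith)) hS⟩
    rcases lt_or_ge d (175 / 1000) with k1 | k1
    · exact ⟨Ex.pos_of_check top_far_exit_900_150
          (side_mem (by push_cast; linarith) (by push_cast; linarith)) hv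
          (side_mem (by push_cast; linarith) (by push_cast; linarith)) hS,
        Ex.pos_of_check top_far_slope_900_150
          (side_mem (by push_cast; linarith) (by push_cast; linarith)) hv
          (side_mem (by push_cast; linarith) (by push_cast; linarith)) hS⟩
    exact ⟨Ex.pos_of_check top_far_exit_900_175
        (side_mem (by push_cast; linarith) (by push_cast; linarith)) hv
        (side_mem (by push_cast; linarith) (by push_cast; linarith)) hS,
      Ex.pos_of_check top_far_slope_900_175
        (side_mem (by push_cast; linarith) (by push_cast; linarith)) hv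
        (side_mem (by push_cast; linarith) (by push_cast; linarith)) hS⟩
  rcases lt_or_ge u (940 / 1000) with g4 | g4
  · rcases lt_or_ge d (150 / 1000) with k0 | k0
    · exact ⟨Ex.pos_of_check top_far_exit_920_120
          (side_mem (by push_cast; linarith) (by push_cast; linarith)) hv
          (side_mem (by push_cast; linarith) (by push_cast; linarith)) hS,
        Ex.pos_of_check top_far_slope_920_120
          (side_mem (by push_cast; linarith) (by push_cast; linarith)) hv
          (side_mem (by push_cast; linarith) (by push_cast; linarith)) hS⟩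
    rcases lt_or_ge d (175 / 1000) with k1 | k1
    · exact ⟨Ex.pos_of_check top_far_exit_920_150
          (side_mem (by push_cast; linarith) (by push_cast; linarith)) hv
          (side_mem (by push_cast; linarith) (by push_cast; linarith)) hS,
        Ex.pos_of_check top_far_slope_920_150
          (side_mem (by push_cast; linarith) (by push_cast; linarith)) hv
          (side_mem (by push_cast; linarith) (by push_cast; linarith)) hS⟩
    exact ⟨Ex.pos_of_check top_far_exit_920_175
        (side_mem (by push_cast; linarith) (by push_cast; linarith)) hv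
        (side_mem (by push_cast; linarith) (by push_cast; linarith)) hS,
      Ex.pos_of_check top_far_slope_920_175
        (side_mem (by push_cast; linarith) (by push_cast; linarith)) hv
        (side_mem (by push_cast; linarith) (by push_cast; linarith)) hS⟩
  rcases lt_or_ge d (150 / 1000) with k0 | k0
  · exact ⟨Ex.pos_of_check top_far_exit_940_120
        (side_mem (by push_cast; linarith) (by push_cast; linarith)) hv
        (side_mem (by push_cast; linarith) (by push_cast; linarith)) hS,
      Ex.pos_of_check top_far_slope_940_120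
        (side_mem (by push_cast; linarith) (by push_cast; linarith)) hv
        (side_mem (by push_cast; linarith) (by push_cast; linarith)) hS⟩
  rcases lt_or_ge d (175 / 1000) with k1 | k1
  · exact ⟨Ex.pos_of_check top_far_exit_940_150
        (side_mem (by push_cast; linarith) (by push_cast; linarith)) hv
        (side_mem (by push_cast; linarith) (by push_cast; linarith)) hS,
      Ex.pos_of_check top_far_slope_940_150
        (side_mem (by push_cast; linarith) (by push_cast; linarith)) hv
        (side_mem (by push_cast; linarith) (by push_cast; linarith)) hS⟩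
  exact ⟨Ex.pos_of_check top_far_exit_940_175
      (side_mem (by push_cast; linarith) (by push_cast; linarith)) hv
      (side_mem (by push_cast; linarith) (by push_cast; linarith)) hS,
    Ex.pos_of_check top_far_slope_940_175
      (side_mem (by push_cast; linarith) (by push_cast; linarith)) hv
      (side_mem (by push_cast; linarith) (by push_cast; linarith)) hS⟩

/-- An exit curve. -/
noncomputable def phiFarTop (d u : ℝ) : ℝ :=
  phiG (1480 / 1000 - 812 / 1000 * d) (787 / 1000 - 773 / 1000 * d) (70 / 1000 + 80 / 1000 * d) (980 / 1000) u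

/-- **An exit curve** up to `u = 19/20`. -/
theorem orbit_phi_far_top (hf : IsOrbitFns N p q S R x y s dx dy)
    (hb : SlabBox N (1 / (p + 1)) (1 / (q + 1))) (h0 : 3 / 25 ≤ 1 / (q + 1) - 1 / (p + 1))
    (h1 : 1 / (q + 1) - 1 / (p + 1) ≤ 1 / 5)
    {w : ℝ} (hw : w ∈ S) (hw0 : 0 < R w) (hwu : uOf N (R w) (x w) ≤ 19 / 20) :
    vOf (1 / (p + 1)) (1 / (q + 1)) (y w / x w) <
      phiFarTop (1 / (q + 1) - 1 / (p + 1)) (uOf N (R w) (x w)) := by
  set d := 1 / (q + 1) - 1 / (p + 1) with hdd
  refine exitC_step (a := (1480 / 1000 - 812 / 1000 * d)) (b := (787 / 1000 - 773 / 1000 * d)) (k := (70 / 1000 + 80 / 1000 * d)) (c := 980 / 1000) hf hb (u₁ := 19 / 20)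
    (by norm_num) (by norm_num) (by linarith) (by linarith)
    (fun u => (23 / 20 - 15 / 4 * d) + (17 / 10 - 211 / 25 * d) * u)
    (fun _ r => (N - 2) * (1 / (q + 1)) * r < N * (1 / (p + 1)))
    (fun w hw hw0 _ => (hf.chart hb.five hb.low w hw hw0).2.2.2.2.2.2.2.2.1)
    (fun w hw hw0 hwu => ?_) (fun r hr hE hv _ => ?_) (fun u r hu hu1 _ _ _ _ _ => ?_) hw hw0 hwu
  · refine lt_of_eq_of_lt ?_ (orbit_lower_one_far hf hb hw hw0 (hwu.trans (by norm_num)))
    simp only [bandT, bandL, ← hdd]
    ring
  · have h3 := (al_v_lt hb hr).resolve_right (by linarith)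
    have h4 := dv_lt hb hE
    rw [← hdd] at h3 h4
    set v := vOf (1 / (p + 1)) (1 / (q + 1)) r
    by_contra hcon
    have hle := not_lt.1 hcon
    unfold phiG at hle
    norm_num at hle
    rcases le_total d (3 / 20) with g | g
    · nlinarith [mul_le_mul_of_nonneg_left hle (show 0 ≤ 3 / 5 - d by linarith)]
    · nlinarith [mul_le_mul_of_nonneg_left hle (show 0 ≤ d by linarith)]
  · set S' := 1 / (p + 1) + 1 / (q + 1)
    have key := top_far_sign hu.le hu1 h0 h1 (show sideS.Mem S' from sideS_mem hb)
    obtain ⟨k1, k2⟩ := key
    rw [topFarExit, val_exitG] at k1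
    rw [topFarSlope, val_slopeB] at k2
    simp only [topFarA, topFarB, topFarK, cA₁, cB₁, Ex.val] at k1 k2
    push_cast at k1 k2
    refine ⟨lt_of_lt_of_eq k1 ?_, (lt_of_lt_of_eq k2 ?_).le⟩
    · rw [exitG_lin]
      congr 1 <;> ring
    · rw [slopeB_lin]
      congr 1 <;> ring

theorem phiFarMid_mono {d u b : ℝ} (h0 : 0 ≤ d) (h1 : d ≤ 1 / 5) (hu : 0 ≤ u) (hub : u ≤ b)
    (hb : b ≤ 19 / 20) : phiFarMid d u ≤ phiFarMid d b :=
  phiG_mono (by linarith) (by linarith) hu hub (by linarith)

theorem phiFarTop_mono {d u b : ℝ} (h0 : 0 ≤ d) (h1 : d ≤ 1 / 5) (hu : 0 ≤ u) (hub : u ≤ b)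
    (hb : b ≤ 19 / 20) : phiFarTop d u ≤ phiFarTop d b :=
  phiG_mono (by linarith) (by linarith) hu hub (by linarith)

end Vale.Agent.P100.Calib.Band
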