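import Vale.Agent.P100.Calib.SlabBandExpr
import Vale.Agent.P100.Calib.SlabGeneric

/-!
# Band and exit numerators at a rational value `n / G`

`lieH = G ^ 3 * lieV` at `t = n / G`, `t + u t' = m / G ^ 2`; `exitH = G ^ 2 * exitM` at `t = n / G`.
-/

namespace Vale.Agent.P100.Calib.Band

open BoxPos

local instance ratAdd : Add Ex := ⟨Ex.add⟩
local instance ratSub : Sub Ex := ⟨Ex.sub⟩
local instance ratMul : Mul Ex := ⟨Ex.mul⟩

/-- `G² · lieT` without the derivative term, at `t = n / G`. -/
noncomputable def lieA (S d u v n G : ℝ) : ℝ :=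
  let B := bandB S d;
  let c := 1 + (1 - (S - d) / 2) * v;
  let K := S * c * G + B * u * n;
  let D := B * (2 + d * v) * G - d * u * K;
  let Qn := bandQ S d u v;
  -2 * B * B * B * (2 + d * v) * n * G +
    B * (2 * (2 * S * (1 + d * v)) - 2 * S * c * d) * K * G -
    d * K * (2 * S * c * D - 2 * Qn * K) - 2 * S * ((S + d) / 2) * d * K * K -
    2 * S * ((S + d) / 2) * K * D -
    S * (1 - (S - d) / 2) * (1 + d * v) * G * (Qn * K - 2 * S * (1 - (S - d) / 2 * v) * D)

/-- `G ·` the coefficient of `- (t + u t') B` in `lieT`. -/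
noncomputable def lieE (S d u v n G : ℝ) : ℝ :=
  let B := bandB S d;
  let K := S * (1 + (1 - (S - d) / 2) * v) * G + B * u * n;
  let D := B * (2 + d * v) * G - d * u * K;
  (B * G - u * d * K) * bandQ S d u v + 2 * S * (u - 1) * ((S + d) / 2) * D

/-- The band numerator at `n / G`, with derivative part `m`. -/
noncomputable def lieH (S d u v n G m : ℝ) : ℝ :=
  G * lieA S d u v n G - m * bandB S d * lieE S d u v n G

/-- The exit numerator at `n / G`. -/
noncomputable def exitH (S d u v n G W g m : ℝ) : ℝ :=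
  let B := bandB S d;
  let K := S * (1 + (1 - (S - d) / 2) * v) * G + B * u * n;
  let D := B * (2 + d * v) * G - d * u * K;
  B * G * (W * (1 + d * v) * (bandQ S d u v * K - 2 * S * (1 - (S - d) / 2 * v) * D) -
      g * lieE S d u v n G) +
    m * d * (lieA S d u v n G - n * B * lieE S d u v n G)

theorem lieH_eq {S d u v t t' n G m : ℝ} (hn : n = t * G) (hm : m = (t + u * t') * G ^ 2) :
    lieH S d u v n G m = G ^ 3 * lieV S d u v t t' := by
  subst hn hm
  simp only [lieH, lieA, lieE, lieV, lieT, bandK, bandD]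
  generalize bandB S d = B
  generalize bandQ S d u v = Q
  ring

theorem exitH_eq {S d u v t W g m n G : ℝ} (hn : n = t * G) :
    exitH S d u v n G W g m = G ^ 2 * exitM S d u v t W g m := by
  subst hn
  simp only [exitH, lieA, lieE, exitM, exitP, lieT, bandK, bandD]
  generalize bandB S d = B
  generalize bandQ S d u v = Q
  ring

/-- `bandQ`. -/
def eQ : Ex := (eS + eD) * (eC 2 + eD * eV) - eC 2 * eS * eU * (eC 1 + eD * eV)

/-- `lieA`. -/
def eLieA (n G : Ex) : Ex :=
  let B := eB
  let c := eC 1 + (eC 1 - eA) * eV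
  let K := eS * c * G + B * eU * n
  let D := B * (eC 2 + eD * eV) * G - eD * eU * K
  let be := eC 1 2 * (eS + eD)
  eC (-2) * B * B * B * (eC 2 + eD * eV) * n * G +
    B * (eC 4 * eS * (eC 1 + eD * eV) - eC 2 * eS * c * eD) * K * G -
    eD * K * (eC 2 * eS * c * D - eC 2 * eQ * K) - eC 2 * eS * be * eD * K * K -
    eC 2 * eS * be * K * D -
    eS * (eC 1 - eA) * (eC 1 + eD * eV) * G * (eQ * K - eC 2 * eS * (eC 1 - eA * eV) * D)

/-- `lieE`. -/
def eLieE (n G : Ex) : Ex :=
  let B := eB
  let K := eS * (eC 1 + (eC 1 - eA) * eV) * G + B * eU * n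
  let D := B * (eC 2 + eD * eV) * G - eD * eU * K
  (B * G - eU * eD * K) * eQ + eC 2 * eS * (eU - eC 1) * (eC 1 2 * (eS + eD)) * D

/-- `lieH`. -/
def eLieH (n G m : Ex) : Ex := G * eLieA n G - m * eB * eLieE n G

/-- `exitH`. -/
def eExitH (n G W g m : Ex) : Ex :=
  let B := eB
  let K := eS * (eC 1 + (eC 1 - eA) * eV) * G + B * eU * n
  let D := B * (eC 2 + eD * eV) * G - eD * eU * K
  B * G * (W * (eC 1 + eD * eV) * (eQ * K - eC 2 * eS * (eC 1 - eA * eV) * D) -
      g * eLieE n G) +
    m * eD * (eLieA n G - n * B * eLieE n G)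

theorem val_addR (a b : Ex) (u v d S : ℝ) :
    (a + b).val u v d S = a.val u v d S + b.val u v d S := rfl

theorem val_subR (a b : Ex) (u v d S : ℝ) :
    (a - b).val u v d S = a.val u v d S - b.val u v d S := rfl

theorem val_mulR (a b : Ex) (u v d S : ℝ) :
    (a * b).val u v d S = a.val u v d S * b.val u v d S := rfl

theorem val_rat_parts (u v d S : ℝ) :
    eB.val u v d S = bandB S d ∧ eA.val u v d S = (S - d) / 2 ∧
      eQ.val u v d S = bandQ S d u v := by
  refine ⟨?_, ?_, ?_⟩
  · simp only [eB, val_add, val_sub, val_mul, Ex.val, bandB]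
    push_cast
    ring
  · simp only [eA, val_sub, val_mul, Ex.val]
    push_cast
    ring
  · simp only [eQ, val_addR, val_subR, val_mulR, Ex.val, bandQ]
    push_cast
    ring

theorem val_lieA (n G : Ex) (u v d S : ℝ) :
    (eLieA n G).val u v d S = lieA S d u v (n.val u v d S) (G.val u v d S) := by
  obtain ⟨hB, hA, hQ⟩ := val_rat_parts u v d S
  simp only [eLieA, val_addR, val_subR, val_mulR, Ex.val, hB, hA, hQ, lieA]
  push_cast
  ring

theorem val_lieE (n G : Ex) (u v d S : ℝ) :
    (eLieE n G).val u v d S = lieE S d u v (n.val u v d S) (G.val u v d S) := by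
  obtain ⟨hB, hA, hQ⟩ := val_rat_parts u v d S
  simp only [eLieE, val_addR, val_subR, val_mulR, Ex.val, hB, hA, hQ, lieE]
  push_cast
  ring

theorem val_lieH (n G m : Ex) (u v d S : ℝ) :
    (eLieH n G m).val u v d S =
      lieH S d u v (n.val u v d S) (G.val u v d S) (m.val u v d S) := by
  simp only [eLieH, val_subR, val_mulR, val_lieA, val_lieE, (val_rat_parts u v d S).1, lieH]

theorem val_exitH (n G W g m : Ex) (u v d S : ℝ) :
    (eExitH n G W g m).val u v d S = exitH S d u v (n.val u v d S) (G.val u v d S)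
      (W.val u v d S) (g.val u v d S) (m.val u v d S) := by
  obtain ⟨hB, hA, hQ⟩ := val_rat_parts u v d S
  simp only [eExitH, val_addR, val_subR, val_mulR, val_lieA, val_lieE, Ex.val, hB, hA, hQ, exitH]
  push_cast
  ring

end Vale.Agent.P100.Calib.Band
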