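import Vale.Agent.P100.Calib.SlabTailLowDefs
import Vale.Agent.P100.Calib.BoxPosFast

/-!
# Certificates of the band past 3/5, low piece, part 0
-/

namespace Vale.Agent.P100.Calib.Band

open BoxPos

theorem low_tail_0 : (lowTailCond 0 239).checkQuick lowTailCfg
    (lowTailBox 6000 8000 3300 22819 0 501) = true := by decide +kernel

theorem low_tail_1 : (lowTailCond 0 473).checkQuick lowTailCfg
    (lowTailBox 8000 8586 3300 16493 0 250) = true := by decide +kernel

theorem low_tail_2 : (lowTailCond 0 567).checkQuick lowTailCfg
    (lowTailBox 8000 8586 3300 16493 250 501) = true := by decide +kernel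

theorem low_tail_3 : (lowTailCond 0 685).checkQuick lowTailCfg
    (lowTailBox 8586 9000 3300 16493 0 250) = true := by decide +kernel

theorem low_tail_4 : (lowTailCond 0 5125).checkQuick lowTailCfg
    (lowTailBox 8586 9000 3300 9896 250 501) = true := by decide +kernel

theorem low_tail_5 : (lowTailCond 0 736).checkQuick lowTailCfg
    (lowTailBox 8586 9000 9896 16493 250 501) = true := by decide +kernel

theorem low_tail_6 : (lowTailCond 0 0).checkQuick lowTailCfg
    (lowTailBox 8000 9000 16493 29686 0 501) = true := by decide +kernel

theorem low_tail_7 : (lowTailCond 0 951).checkQuick lowTailCfg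
    (lowTailBox 9000 9293 3300 19836 0 250) = true := by decide +kernel

theorem low_tail_8 : (lowTailCond 0 6682).checkQuick lowTailCfg
    (lowTailBox 9000 9293 3300 11568 250 501) = true := by decide +kernel

theorem low_tail_9 : (lowTailCond 0 843).checkQuick lowTailCfg
    (lowTailBox 9000 9159 11568 19836 250 501) = true := by decide +kernel

theorem low_tail_10 : (lowTailCond 0 779).checkQuick lowTailCfg
    (lowTailBox 9159 9293 11568 19836 250 375) = true := by decide +kernel

theorem low_tail_11 : (lowTailCond 0 923).checkQuick lowTailCfg
    (lowTailBox 9159 9293 11568 19836 375 501) = true := by decide +kernel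

theorem low_tail_12 : (lowTailCond 0 1440).checkQuick lowTailCfg
    (lowTailBox 9293 9500 3300 19836 0 250) = true := by decide +kernel

theorem low_tail_13 : (lowTailCond 0 8033).checkQuick lowTailCfg
    (lowTailBox 9293 9500 3300 11568 250 501) = true := by decide +kernel

theorem low_tail_14 : (lowTailCond 0 901).checkQuick lowTailCfg
    (lowTailBox 9293 9405 11568 19836 250 375) = true := by decide +kernel

theorem low_tail_15 : (lowTailCond 0 2423).checkQuick lowTailCfg
    (lowTailBox 9293 9405 11568 15702 375 501) = true := by decide +kernel

theorem low_tail_16 : (lowTailCond 0 0).checkQuick lowTailCfg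
    (lowTailBox 9293 9405 15702 19836 375 501) = true := by decide +kernel

theorem low_tail_17 : (lowTailCond 0 1101).checkQuick lowTailCfg
    (lowTailBox 9405 9500 11568 19836 250 375) = true := by decide +kernel

theorem low_tail_18 : (lowTailCond 0 7283).checkQuick lowTailCfg
    (lowTailBox 9405 9500 11568 15702 375 501) = true := by decide +kernel

theorem low_tail_19 : (lowTailCond 0 709).checkQuick lowTailCfg
    (lowTailBox 9405 9500 15702 19836 375 501) = true := by decide +kernel

theorem low_tail_20 : (lowTailCond 0 0).checkQuick lowTailCfg
    (lowTailBox 9000 9500 19836 36372 0 501) = true := by decide +kernel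

theorem low_tail_21 : (lowTailCond 0 2428).checkQuick lowTailCfg
    (lowTailBox 9500 9646 3300 19836 0 250) = true := by decide +kernel

theorem low_tail_22 : (lowTailCond 0 9227).checkQuick lowTailCfg
    (lowTailBox 9500 9646 3300 11568 250 501) = true := by decide +kernel

theorem low_tail_23 : (lowTailCond 0 1359).checkQuick lowTailCfg
    (lowTailBox 9500 9579 11568 19836 250 501) = true := by decide +kernel

theorem low_tail_24 : (lowTailCond 0 1704).checkQuick lowTailCfg
    (lowTailBox 9579 9646 11568 19836 250 501) = true := by decide +kernel

theorem low_tail_25 : (lowTailCond 0 2690).checkQuick lowTailCfg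
    (lowTailBox 9646 9750 3300 19836 0 501) = true := by decide +kernel

theorem low_tail_26 : (lowTailCond 0 0).checkQuick lowTailCfg
    (lowTailBox 9500 9750 19836 36372 0 501) = true := by decide +kernel

theorem low_tail_27 : (lowTailCond 0 8690).checkQuick lowTailCfg
    (lowTailBox 9750 9900 3300 19836 0 501) = true := by decide +kernel

theorem low_tail_28 : (lowTailCond 0 1330).checkQuick lowTailCfg
    (lowTailBox 9750 9900 19836 36372 0 501) = true := by decide +kernel

theorem low_tail_29 : (lowTailCond 0 10464).checkQuick lowTailCfg
    (lowTailBox 9900 10001 3300 19836 0 501) = true := by decide +kernel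

theorem low_tail_30 : (lowTailCond 0 2178).checkQuick lowTailCfg
    (lowTailBox 9900 10001 19836 36372 0 501) = true := by decide +kernel

end Vale.Agent.P100.Calib.Band
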