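import Vale.Agent.P100.Calib.BoxPos

/-!
# Sides in ten-thousandths
-/

namespace Vale.Agent.P100.Calib.Band

open BoxPos

theorem side_mem_four {a b : ℤ} {x : ℝ} (h1 : (a : ℝ) / 10000 ≤ x) (h2 : x < (b : ℝ) / 10000) :
    (⟨a, b, 10000⟩ : Side).Mem x := by
  refine ⟨?_, ?_⟩ <;> push_cast <;> assumption

end Vale.Agent.P100.Calib.Band
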