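import Vale.Agent.P100.Calib.SlabTailLowStart
import Vale.Agent.P100.Calib.SlabTailLowChecksA
import Vale.Agent.P100.Calib.SlabTailSide
import Vale.Agent.P100.Calib.SlabFarBands
import Vale.Agent.P100.Calib.SlabSmallBands
import Vale.Agent.P100.Calib.SlabForwardLower

/-!
# The lower band on `[3/5, 79/80]`, `d` in `[0, 1 / 20]`
-/

namespace Vale.Agent.P100.Calib.Band

open BoxPos Bubble Chart

variable {N p q : ℝ} {S : Set ℝ} {R x y s dx dy : ℝ → ℝ}

theorem phiFarLow_mono {d u b : ℝ} (h0 : 0 ≤ d) (h1 : d ≤ 1 / 5) (hu : 0 ≤ u) (hub : u ≤ b)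
    (hb : b ≤ 19 / 20) : phiFarLow d u ≤ phiFarLow d b :=
  phiG_mono (by linarith) (by linarith) hu hub (by linarith)

theorem low_tail_sign_0 {u v d S' : ℝ} (hu : 6000 / 10000 ≤ u) (hu1 : u < 8000 / 10000)
    (hv : 33 / 100 ≤ v) (hv1 : v ≤ 89 / 20) (hphi : u ≤ 19 / 20 → v < phiFarLow d u)
    (hA : (3 / 5 - d) * v < 2) (hD : d * v < 2 / 3) (h0 : 0 ≤ d) (h1 : d ≤ 1 / 20)
    (hS : sideS.Mem S') : ∃ i j : ℕ, 0 < (lowTailCond i j).val u v d S' := by
  have hb22819 : v < 22819 / 10000 := by
    refine ((hphi (by linarith)).trans_le (phiFarLow_mono (b := 8000 / 10000) (by linarith) (by linarith) (by linarith) (by linarith) (by norm_num))).trans_le ?_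
    norm_num [phiFarLow, phiG]
    linarith
  exact ⟨0, 239, Ex.pos_of_checkQuick low_tail_0 (side_mem_four (by push_cast; linarith) (by push_cast; linarith))
    (side_mem_four (by push_cast; linarith) (by push_cast; linarith))
    (side_mem_four (by push_cast; linarith) (by push_cast; linarith)) hS⟩

theorem low_tail_sign_1 {u v d S' : ℝ} (hu : 8000 / 10000 ≤ u) (hu1 : u < 9000 / 10000)
    (hv : 33 / 100 ≤ v) (hv1 : v ≤ 89 / 20) (hphi : u ≤ 19 / 20 → v < phiFarLow d u)
    (hA : (3 / 5 - d) * v < 2) (hD : d * v < 2 / 3) (h0 : 0 ≤ d) (h1 : d ≤ 1 / 20)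
    (hS : sideS.Mem S') : ∃ i j : ℕ, 0 < (lowTailCond i j).val u v d S' := by
  have hb29686 : v < 29686 / 10000 := by
    refine ((hphi (by linarith)).trans_le (phiFarLow_mono (b := 9000 / 10000) (by linarith) (by linarith) (by linarith) (by linarith) (by norm_num))).trans_le ?_
    norm_num [phiFarLow, phiG]
    linarith
  rcases lt_or_ge v (16493 / 10000) with g2 | g2
  · rcases lt_or_ge u (8586 / 10000) with g4 | g4
    · rcases lt_or_ge d (250 / 10000) with g6 | g6
      · exact ⟨0, 473, Ex.pos_of_checkQuick low_tail_1 (side_mem_four (by push_cast; linarith) (by push_cast; linarith))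
          (side_mem_four (by push_cast; linarith) (by push_cast; linarith))
          (side_mem_four (by push_cast; linarith) (by push_cast; linarith)) hS⟩
      · exact ⟨0, 567, Ex.pos_of_checkQuick low_tail_2 (side_mem_four (by push_cast; linarith) (by push_cast; linarith))
          (side_mem_four (by push_cast; linarith) (by push_cast; linarith))
          (side_mem_four (by push_cast; linarith) (by push_cast; linarith)) hS⟩
    · rcases lt_or_ge d (250 / 10000) with g6 | g6
      · exact ⟨0, 685, Ex.pos_of_checkQuick low_tail_3 (side_mem_four (by push_cast; linarith) (by push_cast; linarith))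
          (side_mem_four (by push_cast; linarith) (by push_cast; linarith))
          (side_mem_four (by push_cast; linarith) (by push_cast; linarith)) hS⟩
      · rcases lt_or_ge v (9896 / 10000) with g8 | g8
        · exact ⟨0, 5125, Ex.pos_of_checkQuick low_tail_4 (side_mem_four (by push_cast; linarith) (by push_cast; linarith))
            (side_mem_four (by push_cast; linarith) (by push_cast; linarith))
            (side_mem_four (by push_cast; linarith) (by push_cast; linarith)) hS⟩
        · exact ⟨0, 736, Ex.pos_of_checkQuick low_tail_5 (side_mem_four (by push_cast; linarith) (by push_cast; linarith))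
            (side_mem_four (by push_cast; linarith) (by push_cast; linarith))
            (side_mem_four (by push_cast; linarith) (by push_cast; linarith)) hS⟩
  · exact ⟨0, 0, Ex.pos_of_checkQuick low_tail_6 (side_mem_four (by push_cast; linarith) (by push_cast; linarith))
      (side_mem_four (by push_cast; linarith) (by push_cast; linarith))
      (side_mem_four (by push_cast; linarith) (by push_cast; linarith)) hS⟩

theorem low_tail_part_3 {u v d S' : ℝ} (hu : 9000 / 10000 ≤ u) (hu1 : u < 9500 / 10000)
    (hv : 33 / 100 ≤ v) (hv1 : v ≤ 89 / 20) (hphi : u ≤ 19 / 20 → v < phiFarLow d u)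
    (hA : (3 / 5 - d) * v < 2) (hD : d * v < 2 / 3) (h0 : 0 ≤ d) (h1 : d ≤ 1 / 20)
    (e0 : v < 36372 / 10000)
    (e1 : v < 19836 / 10000)
    (e2 : 9293 / 10000 ≤ u)
    (e3 : 250 / 10000 ≤ d)
    (e4 : 11568 / 10000 ≤ v)
    (hS : sideS.Mem S') : ∃ i j : ℕ, 0 < (lowTailCond i j).val u v d S' := by
  rcases lt_or_ge u (9405 / 10000) with g2 | g2
  · rcases lt_or_ge d (375 / 10000) with g4 | g4
    · exact ⟨0, 901, Ex.pos_of_checkQuick low_tail_14 (side_mem_four (by push_cast; linarith) (by push_cast; linarith))
        (side_mem_four (by push_cast; linarith) (by push_cast; linarith))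
        (side_mem_four (by push_cast; linarith) (by push_cast; linarith)) hS⟩
    · rcases lt_or_ge v (15702 / 10000) with g6 | g6
      · exact ⟨0, 2423, Ex.pos_of_checkQuick low_tail_15 (side_mem_four (by push_cast; linarith) (by push_cast; linarith))
          (side_mem_four (by push_cast; linarith) (by push_cast; linarith))
          (side_mem_four (by push_cast; linarith) (by push_cast; linarith)) hS⟩
      · exact ⟨0, 0, Ex.pos_of_checkQuick low_tail_16 (side_mem_four (by push_cast; linarith) (by push_cast; linarith))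
          (side_mem_four (by push_cast; linarith) (by push_cast; linarith))
          (side_mem_four (by push_cast; linarith) (by push_cast; linarith)) hS⟩
  · rcases lt_or_ge d (375 / 10000) with g4 | g4
    · exact ⟨0, 1101, Ex.pos_of_checkQuick low_tail_17 (side_mem_four (by push_cast; linarith) (by push_cast; linarith))
        (side_mem_four (by push_cast; linarith) (by push_cast; linarith))
        (side_mem_four (by push_cast; linarith) (by push_cast; linarith)) hS⟩
    · rcases lt_or_ge v (15702 / 10000) with g6 | g6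
      · exact ⟨0, 7283, Ex.pos_of_checkQuick low_tail_18 (side_mem_four (by push_cast; linarith) (by push_cast; linarith))
          (side_mem_four (by push_cast; linarith) (by push_cast; linarith))
          (side_mem_four (by push_cast; linarith) (by push_cast; linarith)) hS⟩
      · exact ⟨0, 709, Ex.pos_of_checkQuick low_tail_19 (side_mem_four (by push_cast; linarith) (by push_cast; linarith))
          (side_mem_four (by push_cast; linarith) (by push_cast; linarith))
          (side_mem_four (by push_cast; linarith) (by push_cast; linarith)) hS⟩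

theorem low_tail_part_2 {u v d S' : ℝ} (hu : 9000 / 10000 ≤ u) (hu1 : u < 9500 / 10000)
    (hv : 33 / 100 ≤ v) (hv1 : v ≤ 89 / 20) (hphi : u ≤ 19 / 20 → v < phiFarLow d u)
    (hA : (3 / 5 - d) * v < 2) (hD : d * v < 2 / 3) (h0 : 0 ≤ d) (h1 : d ≤ 1 / 20)
    (e0 : v < 36372 / 10000)
    (e1 : v < 19836 / 10000)
    (e2 : 9293 / 10000 ≤ u)
    (e3 : 250 / 10000 ≤ d)
    (hS : sideS.Mem S') : ∃ i j : ℕ, 0 < (lowTailCond i j).val u v d S' := by
  rcases lt_or_ge v (11568 / 10000) with g2 | g2
  · exact ⟨0, 8033, Ex.pos_of_checkQuick low_tail_13 (side_mem_four (by push_cast; linarith) (by push_cast; linarith))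
      (side_mem_four (by push_cast; linarith) (by push_cast; linarith))
      (side_mem_four (by push_cast; linarith) (by push_cast; linarith)) hS⟩
  · exact low_tail_part_3 hu hu1 hv hv1 hphi hA hD h0 h1 (by linarith) (by linarith) (by linarith) (by linarith) (by linarith) hS

theorem low_tail_part_1 {u v d S' : ℝ} (hu : 9000 / 10000 ≤ u) (hu1 : u < 9500 / 10000)
    (hv : 33 / 100 ≤ v) (hv1 : v ≤ 89 / 20) (hphi : u ≤ 19 / 20 → v < phiFarLow d u)
    (hA : (3 / 5 - d) * v < 2) (hD : d * v < 2 / 3) (h0 : 0 ≤ d) (h1 : d ≤ 1 / 20)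
    (e0 : v < 36372 / 10000)
    (e1 : v < 19836 / 10000)
    (e2 : 9293 / 10000 ≤ u)
    (hS : sideS.Mem S') : ∃ i j : ℕ, 0 < (lowTailCond i j).val u v d S' := by
  rcases lt_or_ge d (250 / 10000) with g2 | g2
  · exact ⟨0, 1440, Ex.pos_of_checkQuick low_tail_12 (side_mem_four (by push_cast; linarith) (by push_cast; linarith))
      (side_mem_four (by push_cast; linarith) (by push_cast; linarith))
      (side_mem_four (by push_cast; linarith) (by push_cast; linarith)) hS⟩
  · exact low_tail_part_2 hu hu1 hv hv1 hphi hA hD h0 h1 (by linarith) (by linarith) (by linarith) (by linarith) hS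

theorem low_tail_part_0 {u v d S' : ℝ} (hu : 9000 / 10000 ≤ u) (hu1 : u < 9500 / 10000)
    (hv : 33 / 100 ≤ v) (hv1 : v ≤ 89 / 20) (hphi : u ≤ 19 / 20 → v < phiFarLow d u)
    (hA : (3 / 5 - d) * v < 2) (hD : d * v < 2 / 3) (h0 : 0 ≤ d) (h1 : d ≤ 1 / 20)
    (e0 : v < 36372 / 10000)
    (e1 : v < 19836 / 10000)
    (hS : sideS.Mem S') : ∃ i j : ℕ, 0 < (lowTailCond i j).val u v d S' := by
  rcases lt_or_ge u (9293 / 10000) with g2 | g2
  · rcases lt_or_ge d (250 / 10000) with g4 | g4
    · exact ⟨0, 951, Ex.pos_of_checkQuick low_tail_7 (side_mem_four (by push_cast; linarith) (by push_cast; linarith))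
        (side_mem_four (by push_cast; linarith) (by push_cast; linarith))
        (side_mem_four (by push_cast; linarith) (by push_cast; linarith)) hS⟩
    · rcases lt_or_ge v (11568 / 10000) with g6 | g6
      · exact ⟨0, 6682, Ex.pos_of_checkQuick low_tail_8 (side_mem_four (by push_cast; linarith) (by push_cast; linarith))
          (side_mem_four (by push_cast; linarith) (by push_cast; linarith))
          (side_mem_four (by push_cast; linarith) (by push_cast; linarith)) hS⟩
      · rcases lt_or_ge u (9159 / 10000) with g8 | g8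
        · exact ⟨0, 843, Ex.pos_of_checkQuick low_tail_9 (side_mem_four (by push_cast; linarith) (by push_cast; linarith))
            (side_mem_four (by push_cast; linarith) (by push_cast; linarith))
            (side_mem_four (by push_cast; linarith) (by push_cast; linarith)) hS⟩
        · rcases lt_or_ge d (375 / 10000) with g10 | g10
          · exact ⟨0, 779, Ex.pos_of_checkQuick low_tail_10 (side_mem_four (by push_cast; linarith) (by push_cast; linarith))
              (side_mem_four (by push_cast; linarith) (by push_cast; linarith))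
              (side_mem_four (by push_cast; linarith) (by push_cast; linarith)) hS⟩
          · exact ⟨0, 923, Ex.pos_of_checkQuick low_tail_11 (side_mem_four (by push_cast; linarith) (by push_cast; linarith))
              (side_mem_four (by push_cast; linarith) (by push_cast; linarith))
              (side_mem_four (by push_cast; linarith) (by push_cast; linarith)) hS⟩
  · exact low_tail_part_1 hu hu1 hv hv1 hphi hA hD h0 h1 (by linarith) (by linarith) (by linarith) hS

theorem low_tail_sign_2 {u v d S' : ℝ} (hu : 9000 / 10000 ≤ u) (hu1 : u < 9500 / 10000)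
    (hv : 33 / 100 ≤ v) (hv1 : v ≤ 89 / 20) (hphi : u ≤ 19 / 20 → v < phiFarLow d u)
    (hA : (3 / 5 - d) * v < 2) (hD : d * v < 2 / 3) (h0 : 0 ≤ d) (h1 : d ≤ 1 / 20)
    (hS : sideS.Mem S') : ∃ i j : ℕ, 0 < (lowTailCond i j).val u v d S' := by
  have hb36372 : v < 36372 / 10000 := by
    have := mul_le_mul_of_nonneg_right (show 3 / 5 - (501 : ℝ) / 10000 ≤ 3 / 5 - d by linarith) (show 0 ≤ v by linarith)
    linarith
  rcases lt_or_ge v (19836 / 10000) with g2 | g2
  · exact low_tail_part_0 hu hu1 hv hv1 hphi hA hD h0 h1 (by linarith) (by linarith) hS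
  · exact ⟨0, 0, Ex.pos_of_checkQuick low_tail_20 (side_mem_four (by push_cast; linarith) (by push_cast; linarith))
      (side_mem_four (by push_cast; linarith) (by push_cast; linarith))
      (side_mem_four (by push_cast; linarith) (by push_cast; linarith)) hS⟩

theorem low_tail_sign_3 {u v d S' : ℝ} (hu : 9500 / 10000 ≤ u) (hu1 : u < 9750 / 10000)
    (hv : 33 / 100 ≤ v) (hv1 : v ≤ 89 / 20) (hphi : u ≤ 19 / 20 → v < phiFarLow d u)
    (hA : (3 / 5 - d) * v < 2) (hD : d * v < 2 / 3) (h0 : 0 ≤ d) (h1 : d ≤ 1 / 20)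
    (hS : sideS.Mem S') : ∃ i j : ℕ, 0 < (lowTailCond i j).val u v d S' := by
  have hb36372 : v < 36372 / 10000 := by
    have := mul_le_mul_of_nonneg_right (show 3 / 5 - (501 : ℝ) / 10000 ≤ 3 / 5 - d by linarith) (show 0 ≤ v by linarith)
    linarith
  rcases lt_or_ge v (19836 / 10000) with g2 | g2
  · rcases lt_or_ge u (9646 / 10000) with g4 | g4
    · rcases lt_or_ge d (250 / 10000) with g6 | g6
      · exact ⟨0, 2428, Ex.pos_of_checkQuick low_tail_21 (side_mem_four (by push_cast; linarith) (by push_cast; linarith))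
          (side_mem_four (by push_cast; linarith) (by push_cast; linarith))
          (side_mem_four (by push_cast; linarith) (by push_cast; linarith)) hS⟩
      · rcases lt_or_ge v (11568 / 10000) with g8 | g8
        · exact ⟨0, 9227, Ex.pos_of_checkQuick low_tail_22 (side_mem_four (by push_cast; linarith) (by push_cast; linarith))
            (side_mem_four (by push_cast; linarith) (by push_cast; linarith))
            (side_mem_four (by push_cast; linarith) (by push_cast; linarith)) hS⟩
        · rcases lt_or_ge u (9579 / 10000) with g10 | g10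
          · exact ⟨0, 1359, Ex.pos_of_checkQuick low_tail_23 (side_mem_four (by push_cast; linarith) (by push_cast; linarith))
              (side_mem_four (by push_cast; linarith) (by push_cast; linarith))
              (side_mem_four (by push_cast; linarith) (by push_cast; linarith)) hS⟩
          · exact ⟨0, 1704, Ex.pos_of_checkQuick low_tail_24 (side_mem_four (by push_cast; linarith) (by push_cast; linarith))
              (side_mem_four (by push_cast; linarith) (by push_cast; linarith))
              (side_mem_four (by push_cast; linarith) (by push_cast; linarith)) hS⟩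
    · exact ⟨0, 2690, Ex.pos_of_checkQuick low_tail_25 (side_mem_four (by push_cast; linarith) (by push_cast; linarith))
        (side_mem_four (by push_cast; linarith) (by push_cast; linarith))
        (side_mem_four (by push_cast; linarith) (by push_cast; linarith)) hS⟩
  · exact ⟨0, 0, Ex.pos_of_checkQuick low_tail_26 (side_mem_four (by push_cast; linarith) (by push_cast; linarith))
      (side_mem_four (by push_cast; linarith) (by push_cast; linarith))
      (side_mem_four (by push_cast; linarith) (by push_cast; linarith)) hS⟩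

theorem low_tail_sign_4 {u v d S' : ℝ} (hu : 9750 / 10000 ≤ u) (hu1 : u < 9900 / 10000)
    (hv : 33 / 100 ≤ v) (hv1 : v ≤ 89 / 20) (hphi : u ≤ 19 / 20 → v < phiFarLow d u)
    (hA : (3 / 5 - d) * v < 2) (hD : d * v < 2 / 3) (h0 : 0 ≤ d) (h1 : d ≤ 1 / 20)
    (hS : sideS.Mem S') : ∃ i j : ℕ, 0 < (lowTailCond i j).val u v d S' := by
  have hb36372 : v < 36372 / 10000 := by
    have := mul_le_mul_of_nonneg_right (show 3 / 5 - (501 : ℝ) / 10000 ≤ 3 / 5 - d by linarith) (show 0 ≤ v by linarith)
    linarith
  rcases lt_or_ge v (19836 / 10000) with g2 | g2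
  · exact ⟨0, 8690, Ex.pos_of_checkQuick low_tail_27 (side_mem_four (by push_cast; linarith) (by push_cast; linarith))
      (side_mem_four (by push_cast; linarith) (by push_cast; linarith))
      (side_mem_four (by push_cast; linarith) (by push_cast; linarith)) hS⟩
  · exact ⟨0, 1330, Ex.pos_of_checkQuick low_tail_28 (side_mem_four (by push_cast; linarith) (by push_cast; linarith))
      (side_mem_four (by push_cast; linarith) (by push_cast; linarith))
      (side_mem_four (by push_cast; linarith) (by push_cast; linarith)) hS⟩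

theorem low_tail_sign_5 {u v d S' : ℝ} (hu : 9900 / 10000 ≤ u) (hu1 : u < 10001 / 10000)
    (hv : 33 / 100 ≤ v) (hv1 : v ≤ 89 / 20) (hphi : u ≤ 19 / 20 → v < phiFarLow d u)
    (hA : (3 / 5 - d) * v < 2) (hD : d * v < 2 / 3) (h0 : 0 ≤ d) (h1 : d ≤ 1 / 20)
    (hS : sideS.Mem S') : ∃ i j : ℕ, 0 < (lowTailCond i j).val u v d S' := by
  have hb36372 : v < 36372 / 10000 := by
    have := mul_le_mul_of_nonneg_right (show 3 / 5 - (501 : ℝ) / 10000 ≤ 3 / 5 - d by linarith) (show 0 ≤ v by linarith)
    linarith
  rcases lt_or_ge v (19836 / 10000) with g2 | g2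
  · exact ⟨0, 10464, Ex.pos_of_checkQuick low_tail_29 (side_mem_four (by push_cast; linarith) (by push_cast; linarith))
      (side_mem_four (by push_cast; linarith) (by push_cast; linarith))
      (side_mem_four (by push_cast; linarith) (by push_cast; linarith)) hS⟩
  · exact ⟨0, 2178, Ex.pos_of_checkQuick low_tail_30 (side_mem_four (by push_cast; linarith) (by push_cast; linarith))
      (side_mem_four (by push_cast; linarith) (by push_cast; linarith))
      (side_mem_four (by push_cast; linarith) (by push_cast; linarith)) hS⟩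

/-- The band. -/
noncomputable def lowTailLow (d : ℝ) : ℝ → ℝ :=
  tailL (19540 / 10000 + 227422 / 10000 * d + 113009 / 10000 * (d * d)) (37400 / 10000 + 114342 / 10000 * d - 2421164 / 10000 * (d * d)) (6793 / 10000 - 125600 / 10000 * d + 1039934 / 10000 * (d * d)) (1373 / 10000) (362 / 10000) d

theorem low_tail_sign {u v d S' : ℝ} (hu : 3 / 5 ≤ u) (hu1 : u ≤ 1)
    (hv : 33 / 100 ≤ v) (hv1 : v ≤ 89 / 20) (hphi : u ≤ 19 / 20 → v < phiFarLow d u)
    (hA : (3 / 5 - d) * v < 2) (hD : d * v < 2 / 3) (h0 : 0 ≤ d) (h1 : d ≤ 1 / 20)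
    (hS : sideS.Mem S') : ∃ i j : ℕ, 0 < (lowTailCond i j).val u v d S' := by
  rcases lt_or_ge u (8000 / 10000) with g0 | g0
  · exact low_tail_sign_0 (by linarith) g0 hv hv1 hphi hA hD h0 h1 hS
  rcases lt_or_ge u (9000 / 10000) with g1 | g1
  · exact low_tail_sign_1 (by linarith) g1 hv hv1 hphi hA hD h0 h1 hS
  rcases lt_or_ge u (9500 / 10000) with g2 | g2
  · exact low_tail_sign_2 (by linarith) g2 hv hv1 hphi hA hD h0 h1 hS
  rcases lt_or_ge u (9750 / 10000) with g3 | g3
  · exact low_tail_sign_3 (by linarith) g3 hv hv1 hphi hA hD h0 h1 hS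
  rcases lt_or_ge u (9900 / 10000) with g4 | g4
  · exact low_tail_sign_4 (by linarith) g4 hv hv1 hphi hA hD h0 h1 hS
  exact low_tail_sign_5 (by linarith) (by linarith) hv hv1 hphi hA hD h0 h1 hS

theorem low_tail_val {u v d S' : ℝ} :
    lowTailN.val u v d S' = tailN (19540 / 10000 + 227422 / 10000 * d + 113009 / 10000 * (d * d)) (37400 / 10000 + 114342 / 10000 * d - 2421164 / 10000 * (d * d)) (6793 / 10000 - 125600 / 10000 * d + 1039934 / 10000 * (d * d)) (1373 / 10000) (362 / 10000) u ∧
      lowTailG.val u v d S' = tailG (1373 / 10000) (362 / 10000) d u ∧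
      lowTailM.val u v d S' = tailM (19540 / 10000 + 227422 / 10000 * d + 113009 / 10000 * (d * d)) (37400 / 10000 + 114342 / 10000 * d - 2421164 / 10000 * (d * d)) (6793 / 10000 - 125600 / 10000 * d + 1039934 / 10000 * (d * d)) (1373 / 10000) (362 / 10000) d u := by
  refine ⟨?_, ?_, ?_⟩ <;>
    simp only [lowTailN, lowTailG, lowTailM, val_tailN, val_tailG, val_tailM, lowTailA0, lowTailA1,
      lowTailA2, lowTailPa, lowTailPb, Ex.val] <;>
    push_cast <;> ring_nf

theorem low_tail_before {u d : ℝ} (hu : 0 ≤ u) (hu1 : u ≤ 3 / 5) (h0 : 0 ≤ d) (h1 : d ≤ 1 / 20)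
    {S' : ℝ} (hS : sideS.Mem S') :
    d * (u * (lowTailLow d u - ((119 / 100 - 67 / 20 * d) + (31 / 20 - 69 / 10 * d) * u + (11 / 20 + 2 / 5 * d) * u ^ 2))) ≤ (3 / 5 - u) ^ 2 := by
  have hd : 0 ≤ d := by linarith
  rcases lt_or_ge u (5500 / 10000) with g | g
  swap
  · have key := Ex.pos_of_checkQuick low_tail_gap_check (y₀ := u) (y₁ := 33 / 100) (y₂ := d)
      (y₃ := S') (side_mem_four (by push_cast; linarith) (by push_cast; linarith))
      (side_mem_four (by norm_num) (by norm_num)) (side_mem_four (by push_cast; linarith) (by push_cast; linarith)) hS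
    have hG := tailG_pos (a := 1373 / 10000) (b := 362 / 10000) hd (u := u) (by linarith) (by linarith)
    rw [lowTailGap] at key
    simp only [Ex.val, low_tail_val.1, low_tail_val.2.1] at key
    rw [tailN_eq (d := d) hd (show u < 1 + 1373 / 10000 by linarith) (show u < 1 + 362 / 10000 by linarith)] at key
    refine le_trans (mul_nonpos_of_nonneg_of_nonpos hd (mul_nonpos_of_nonneg_of_nonpos hu ?_)) (sq_nonneg _)
    refine nonpos_of_mul_nonpos_left ?_ hG
    simp only [lowTailLow]
    push_cast at key
    linarith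
  have key := Ex.pos_of_checkQuick low_tail_before_check (y₀ := u) (y₁ := 33 / 100) (y₂ := d)
    (y₃ := S') (side_mem_four (by push_cast; linarith) (by push_cast; linarith))
    (side_mem_four (by norm_num) (by norm_num)) (side_mem_four (by push_cast; linarith) (by push_cast; linarith)) hS
  have hG := tailG_pos (a := 1373 / 10000) (b := 362 / 10000) hd (u := u) (by linarith) (by linarith)
  rw [lowTailBefore] at key
  simp only [Ex.val, low_tail_val.1, low_tail_val.2.1] at key
  rw [tailN_eq (d := d) hd (show u < 1 + 1373 / 10000 by linarith) (show u < 1 + 362 / 10000 by linarith)] at key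
  refine le_of_mul_le_mul_right ?_ hG
  simp only [lowTailLow]
  push_cast at key
  linarith

/-- **The lower band past `3/5`.** -/
theorem orbit_lower_tail_low (hf : IsOrbitFns N p q S R x y s dx dy)
    (hb : SlabBox N (1 / (p + 1)) (1 / (q + 1))) (h0 : 0 ≤ 1 / (q + 1) - 1 / (p + 1))
    (h1 : 1 / (q + 1) - 1 / (p + 1) ≤ 1 / 20)
    {w : ℝ} (hw : w ∈ S) (hw0 : 0 < R w) (hu : 3 / 5 ≤ uOf N (R w) (x w))
    (hwu : uOf N (R w) (x w) ≤ 1) :
    bandT N (1 / (p + 1)) (1 / (q + 1)) (1 / (q + 1) - 1 / (p + 1)) (lowTailLow (1 / (q + 1) - 1 / (p + 1)))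
      (uOf N (R w) (x w)) (y w / x w) < hOf N (R w) (x w) (y w) w := by
  set al := 1 / (p + 1) with hald
  set be := 1 / (q + 1) with hbed
  set d := be - al with hdd
  have hd : 0 ≤ d := by linarith
  have hT : ∀ u, HasDerivAt (tangentExt (lowTailLow d) (tailD (37400 / 10000 + 114342 / 10000 * d - 2421164 / 10000 * (d * d)) (6793 / 10000 - 125600 / 10000 * d + 1039934 / 10000 * (d * d)) (1373 / 10000) (362 / 10000) d) (1))
      (if u ≤ 1 then tailD (37400 / 10000 + 114342 / 10000 * d - 2421164 / 10000 * (d * d)) (6793 / 10000 - 125600 / 10000 * d + 1039934 / 10000 * (d * d)) (1373 / 10000) (362 / 10000) d u else tailD (37400 / 10000 + 114342 / 10000 * d - 2421164 / 10000 * (d * d)) (6793 / 10000 - 125600 / 10000 * d + 1039934 / 10000 * (d * d)) (1373 / 10000) (362 / 10000) d (1)) u :=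
    hasDerivAt_tangentExt fun u hu => hasDerivAt_tail (by linarith) (by linarith)
  have key := forwardL_step hf hb (u₀ := 3 / 5) (u₁ := 1) (K := 1) (by norm_num) (by norm_num)
    one_pos hT (L₀ := fun u => (119 / 100 - 67 / 20 * d) + (31 / 20 - 69 / 10 * d) * u + (11 / 20 + 2 / 5 * d) * u ^ 2)
    (fun u r => (u ≤ 19 / 20 → vOf al be r < phiFarLow d u) ∧ (N - 2) * be * r < N * al)
    (fun w hw hw0 _ => ⟨fun h => orbit_phi_far_low hf hb h0 (by linarith) hw hw0 h,
      (hf.chart hb.five hb.low w hw hw0).2.2.2.2.2.2.2.2.1⟩)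
    (fun w hw hw0 hwu => ?_) (fun u hu0 hu => ?_) (fun u r hu hu' _ hr hE hv hv1 he hp => ?_)
    hw hw0 hu hwu
  · refine lt_of_eq_of_lt ?_ key
    simp only [bandT, tangentExt, if_pos hwu]; rfl
  · refine lt_of_eq_of_lt ?_ (orbit_lower_small hf hb h0 (by linarith) hw hw0 (hwu.trans (by norm_num)))
    simp only [bandT, bandL, ← hald, ← hbed, ← hdd]
    ring
  · rw [one_mul]
    have := low_tail_before hu0.le hu h0 h1 (sideS_mem hb)
    rw [tangentExt, if_pos (show u ≤ 1 by linarith)]; exact this
  · have hA := (al_v_lt hb hr).resolve_right (by linarith)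
    have hD := dv_lt hb hE.2
    obtain ⟨i, j, hc⟩ := low_tail_sign (d := d) (S' := al + be) hu hu' hv hv1 hE.1 hA hD h0 h1
      (sideS_mem hb)
    have e1 : tangentExt (lowTailLow d) (tailD (37400 / 10000 + 114342 / 10000 * d - 2421164 / 10000 * (d * d)) (6793 / 10000 - 125600 / 10000 * d + 1039934 / 10000 * (d * d)) (1373 / 10000) (362 / 10000) d) (1) u = lowTailLow d u := if_pos hu'
    rw [e1] at he hp ⊢
    rw [if_pos hu']
    obtain ⟨eN, eG, eM⟩ := low_tail_val (u := u) (v := vOf al be r) (d := d) (S' := al + be)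
    rw [lowTailCond] at hc
    refine lieV_pos_of_cond u (vOf al be r) d (al + be) hc ?_ ?_ ?_ he hp
    · rw [eG]
      exact tailG_pos hd (by linarith) (by linarith)
    · rw [eN, eG]
      exact tailN_eq hd (by linarith) (by linarith)
    · rw [eM, eG]
      exact tailM_eq hd (by linarith) (by linarith)

end Vale.Agent.P100.Calib.Band
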