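import Vale.Agent.P100.Calib.SlabTailLowExitChecks
import Vale.Agent.P100.Calib.SlabTailLowLower
import Vale.Agent.P100.Calib.SlabExitFun

/-!
# The exit curve on `u ≤ endLow d`, `d` in `[0, 1 / 20]`
-/

namespace Vale.Agent.P100.Calib.Band

open BoxPos Bubble Chart

variable {N p q : ℝ} {S : Set ℝ} {R x y s dx dy : ℝ → ℝ}

/-- The exit curve. -/
noncomputable def phiTailLow (d u : ℝ) : ℝ :=
  curveA (36368 / 10000 + 181564 / 10000 * d + 6669050 / 10000 * (d * d)) (23882 / 10000 - 19814 / 10000 * d - 1743146 / 10000 * (d * d)) (5623 / 10000 + 274824 / 10000 * d + 7628920 / 10000 * (d * d)) (1369 / 10000 + 4375 / 10000 * d + 13704 / 10000 * (d * d)) (96 / 10000) u / curveW (1369 / 10000 + 4375 / 10000 * d + 13704 / 10000 * (d * d)) (96 / 10000) u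

/-- Where the exit curve ends. -/
noncomputable def endLow (d : ℝ) : ℝ := max (79 / 80) (1 - 33 / 100 * d)

theorem endLow_lt {d : ℝ} (hd : 0 < d) : endLow d < 1 := max_lt (by norm_num) (by linarith)

/-- The band below the exit curve. -/
noncomputable def exitBandLow (d u : ℝ) : ℝ :=
  if u < 3 / 5 then (119 / 100 - 67 / 20 * d) + (31 / 20 - 69 / 10 * d) * u + (11 / 20 + 2 / 5 * d) * u ^ 2 else lowTailLow d u

theorem low_xlow_pos {u d S' : ℝ} (hu : 0 ≤ u) (hu1 : u ≤ 3 / 5) (h0 : 0 ≤ d) (h1 : d ≤ 1 / 20)
    (hS : sideS.Mem S') : 0 < lowXLow.val u (33 / 100) d S' := by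
  rcases lt_or_ge u (4000 / 10000) with g0 | g0
  · exact Ex.pos_of_checkQuick low_xlow_0 (side_mem_four (by push_cast; linarith) (by push_cast; linarith))
      (side_mem_four (by norm_num) (by norm_num)) (side_mem_four (by push_cast; linarith) (by push_cast; linarith)) hS
  exact Ex.pos_of_checkQuick low_xlow_4000 (side_mem_four (by push_cast; linarith) (by push_cast; linarith))
      (side_mem_four (by norm_num) (by norm_num)) (side_mem_four (by push_cast; linarith) (by push_cast; linarith)) hS

theorem low_xhigh_pos {u d S' : ℝ} (hu : 3 / 5 ≤ u) (hu1 : u ≤ 1) (h0 : 0 ≤ d) (h1 : d ≤ 1 / 20) (he : 79 / 80 < u → u ≤ 1 - 33 / 100 * d)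
    (hS : sideS.Mem S') : 0 < lowXHigh.val u (33 / 100) d S' := by
  rcases lt_or_ge u (8000 / 10000) with g0 | g0
  · exact Ex.pos_of_checkQuick low_xhigh_6000 (side_mem_four (by push_cast; linarith) (by push_cast; linarith))
      (side_mem_four (by norm_num) (by norm_num)) (side_mem_four (by push_cast; linarith) (by push_cast; linarith)) hS
  rcases lt_or_ge u (9000 / 10000) with g1 | g1
  · exact Ex.pos_of_checkQuick low_xhigh_8000 (side_mem_four (by push_cast; linarith) (by push_cast; linarith))
      (side_mem_four (by norm_num) (by norm_num)) (side_mem_four (by push_cast; linarith) (by push_cast; linarith)) hS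
  rcases lt_or_ge u (9500 / 10000) with g2 | g2
  · exact Ex.pos_of_checkQuick low_xhigh_9000 (side_mem_four (by push_cast; linarith) (by push_cast; linarith))
      (side_mem_four (by norm_num) (by norm_num)) (side_mem_four (by push_cast; linarith) (by push_cast; linarith)) hS
  rcases lt_or_ge u (9750 / 10000) with g3 | g3
  · exact Ex.pos_of_checkQuick low_xhigh_9500 (side_mem_four (by push_cast; linarith) (by push_cast; linarith))
      (side_mem_four (by norm_num) (by norm_num)) (side_mem_four (by push_cast; linarith) (by push_cast; linarith)) hS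
  rcases lt_or_ge u (9876 / 10000) with g4 | g4
  · exact Ex.pos_of_checkQuick low_xhigh_9750 (side_mem_four (by push_cast; linarith) (by push_cast; linarith))
      (side_mem_four (by norm_num) (by norm_num)) (side_mem_four (by push_cast; linarith) (by push_cast; linarith)) hS
  rcases lt_or_ge u (9920 / 10000) with g5 | g5
  · have := he (by linarith)
    exact Ex.pos_of_checkQuick low_xhigh_9876 (side_mem_four (by push_cast; linarith) (by push_cast; linarith))
      (side_mem_four (by norm_num) (by norm_num)) (side_mem_four (by push_cast; linarith) (by push_cast; linarith)) hS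
  rcases lt_or_ge u (9950 / 10000) with g6 | g6
  · have := he (by linarith)
    exact Ex.pos_of_checkQuick low_xhigh_9920 (side_mem_four (by push_cast; linarith) (by push_cast; linarith))
      (side_mem_four (by norm_num) (by norm_num)) (side_mem_four (by push_cast; linarith) (by push_cast; linarith)) hS
  rcases lt_or_ge u (9975 / 10000) with g7 | g7
  · have := he (by linarith)
    exact Ex.pos_of_checkQuick low_xhigh_9950 (side_mem_four (by push_cast; linarith) (by push_cast; linarith))
      (side_mem_four (by norm_num) (by norm_num)) (side_mem_four (by push_cast; linarith) (by push_cast; linarith)) hS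
  have := he (by linarith)
  exact Ex.pos_of_checkQuick low_xhigh_9975 (side_mem_four (by push_cast; linarith) (by push_cast; linarith))
      (side_mem_four (by norm_num) (by norm_num)) (side_mem_four (by push_cast; linarith) (by push_cast; linarith)) hS

theorem low_slow_pos {u d S' : ℝ} (hu : 0 ≤ u) (hu1 : u ≤ 3 / 5) (h0 : 0 ≤ d) (h1 : d ≤ 1 / 20)
    (hS : sideS.Mem S') : 0 < lowSLow.val u (33 / 100) d S' := by
  rcases lt_or_ge u (4000 / 10000) with g0 | g0
  · exact Ex.pos_of_checkQuick low_slow_0 (side_mem_four (by push_cast; linarith) (by push_cast; linarith))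
      (side_mem_four (by norm_num) (by norm_num)) (side_mem_four (by push_cast; linarith) (by push_cast; linarith)) hS
  exact Ex.pos_of_checkQuick low_slow_4000 (side_mem_four (by push_cast; linarith) (by push_cast; linarith))
      (side_mem_four (by norm_num) (by norm_num)) (side_mem_four (by push_cast; linarith) (by push_cast; linarith)) hS

theorem low_shigh_pos {u d S' : ℝ} (hu : 3 / 5 ≤ u) (hu1 : u ≤ 1) (h0 : 0 ≤ d) (h1 : d ≤ 1 / 20) (he : 79 / 80 < u → u ≤ 1 - 33 / 100 * d)
    (hS : sideS.Mem S') : 0 < lowSHigh.val u (33 / 100) d S' := by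
  rcases lt_or_ge u (8000 / 10000) with g0 | g0
  · exact Ex.pos_of_checkQuick low_shigh_6000 (side_mem_four (by push_cast; linarith) (by push_cast; linarith))
      (side_mem_four (by norm_num) (by norm_num)) (side_mem_four (by push_cast; linarith) (by push_cast; linarith)) hS
  rcases lt_or_ge u (9000 / 10000) with g1 | g1
  · exact Ex.pos_of_checkQuick low_shigh_8000 (side_mem_four (by push_cast; linarith) (by push_cast; linarith))
      (side_mem_four (by norm_num) (by norm_num)) (side_mem_four (by push_cast; linarith) (by push_cast; linarith)) hS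
  rcases lt_or_ge u (9500 / 10000) with g2 | g2
  · exact Ex.pos_of_checkQuick low_shigh_9000 (side_mem_four (by push_cast; linarith) (by push_cast; linarith))
      (side_mem_four (by norm_num) (by norm_num)) (side_mem_four (by push_cast; linarith) (by push_cast; linarith)) hS
  rcases lt_or_ge u (9750 / 10000) with g3 | g3
  · exact Ex.pos_of_checkQuick low_shigh_9500 (side_mem_four (by push_cast; linarith) (by push_cast; linarith))
      (side_mem_four (by norm_num) (by norm_num)) (side_mem_four (by push_cast; linarith) (by push_cast; linarith)) hS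
  rcases lt_or_ge u (9876 / 10000) with g4 | g4
  · exact Ex.pos_of_checkQuick low_shigh_9750 (side_mem_four (by push_cast; linarith) (by push_cast; linarith))
      (side_mem_four (by norm_num) (by norm_num)) (side_mem_four (by push_cast; linarith) (by push_cast; linarith)) hS
  rcases lt_or_ge u (9920 / 10000) with g5 | g5
  · have := he (by linarith)
    exact Ex.pos_of_checkQuick low_shigh_9876 (side_mem_four (by push_cast; linarith) (by push_cast; linarith))
      (side_mem_four (by norm_num) (by norm_num)) (side_mem_four (by push_cast; linarith) (by push_cast; linarith)) hS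
  rcases lt_or_ge u (9950 / 10000) with g6 | g6
  · have := he (by linarith)
    exact Ex.pos_of_checkQuick low_shigh_9920 (side_mem_four (by push_cast; linarith) (by push_cast; linarith))
      (side_mem_four (by norm_num) (by norm_num)) (side_mem_four (by push_cast; linarith) (by push_cast; linarith)) hS
  rcases lt_or_ge u (9975 / 10000) with g7 | g7
  · have := he (by linarith)
    exact Ex.pos_of_checkQuick low_shigh_9950 (side_mem_four (by push_cast; linarith) (by push_cast; linarith))
      (side_mem_four (by norm_num) (by norm_num)) (side_mem_four (by push_cast; linarith) (by push_cast; linarith)) hS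
  have := he (by linarith)
  exact Ex.pos_of_checkQuick low_shigh_9975 (side_mem_four (by push_cast; linarith) (by push_cast; linarith))
      (side_mem_four (by norm_num) (by norm_num)) (side_mem_four (by push_cast; linarith) (by push_cast; linarith)) hS

theorem low_coef {d : ℝ} (h0 : 0 ≤ d) (h1 : d ≤ 1 / 20) :
    0 ≤ (1369 / 10000 + 4375 / 10000 * d + 13704 / 10000 * (d * d)) ∧ (0 : ℝ) ≤ 96 / 10000 ∧ 0 ≤ (23882 / 10000 - 19814 / 10000 * d - 1743146 / 10000 * (d * d)) ∧ 0 ≤ (5623 / 10000 + 274824 / 10000 * d + 7628920 / 10000 * (d * d)) := by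
  refine ⟨?_, by norm_num, ?_, ?_⟩ <;>
    linarith [mul_le_mul h1 h1 h0 (by norm_num), mul_self_nonneg d]

theorem low_curve_val {u v d S' : ℝ} :
    (eCurveA lowCF0 lowCF1 lowCF3 lowCA lowCB).val u v d S' = curveA (36368 / 10000 + 181564 / 10000 * d + 6669050 / 10000 * (d * d)) (23882 / 10000 - 19814 / 10000 * d - 1743146 / 10000 * (d * d)) (5623 / 10000 + 274824 / 10000 * d + 7628920 / 10000 * (d * d)) (1369 / 10000 + 4375 / 10000 * d + 13704 / 10000 * (d * d)) (96 / 10000) u ∧
      (eCurveW lowCA lowCB).val u v d S' = curveW (1369 / 10000 + 4375 / 10000 * d + 13704 / 10000 * (d * d)) (96 / 10000) u ∧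
      (eCurveGW lowCF1 lowCF3 lowCA lowCB).val u v d S' = curveGW (23882 / 10000 - 19814 / 10000 * d - 1743146 / 10000 * (d * d)) (5623 / 10000 + 274824 / 10000 * d + 7628920 / 10000 * (d * d)) (1369 / 10000 + 4375 / 10000 * d + 13704 / 10000 * (d * d)) (96 / 10000) u ∧
      lowCL.val u v d S' = (119 / 100 - 67 / 20 * d) + (31 / 20 - 69 / 10 * d) * u + (11 / 20 + 2 / 5 * d) * u ^ 2 := by
  refine ⟨?_, ?_, ?_, ?_⟩ <;>
    simp only [val_curveA, val_curveW, val_curveGW, lowCF0, lowCF1, lowCF3, lowCA, lowCB, lowCL, Ex.val] <;>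
    push_cast <;> ring_nf

/-- **The exit curve up to `endLow d`.** -/
theorem orbit_phi_tail_low (hf : IsOrbitFns N p q S R x y s dx dy)
    (hb : SlabBox N (1 / (p + 1)) (1 / (q + 1))) (h0 : 0 ≤ 1 / (q + 1) - 1 / (p + 1))
    (h1 : 1 / (q + 1) - 1 / (p + 1) ≤ 1 / 20)
    {w : ℝ} (hw : w ∈ S) (hw0 : 0 < R w) (hwu : uOf N (R w) (x w) ≤ endLow (1 / (q + 1) - 1 / (p + 1))) :
    vOf (1 / (p + 1)) (1 / (q + 1)) (y w / x w) <
      phiTailLow (1 / (q + 1) - 1 / (p + 1)) (uOf N (R w) (x w)) := by
  set al := 1 / (p + 1) with hald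
  set be := 1 / (q + 1) with hbed
  set d := be - al with hdd
  obtain ⟨ha, hb4, hf1, hf3⟩ := low_coef h0 h1
  have hdp : 0 < d := hb.facts.2.2.1
  have hu₁ := endLow_lt hdp
  have hWp : ∀ u : ℝ, u ≤ endLow d → 0 < curveW (1369 / 10000 + 4375 / 10000 * d + 13704 / 10000 * (d * d)) (96 / 10000) u := fun u hu =>
    mul_pos (by linarith) (by linarith)
  have key := exitF_step hf hb (u₁ := endLow d) hu₁
    (fun u => hasDerivAt_curveA (36368 / 10000 + 181564 / 10000 * d + 6669050 / 10000 * (d * d)) (23882 / 10000 - 19814 / 10000 * d - 1743146 / 10000 * (d * d)) (5623 / 10000 + 274824 / 10000 * d + 7628920 / 10000 * (d * d)) (1369 / 10000 + 4375 / 10000 * d + 13704 / 10000 * (d * d)) (96 / 10000) u) (fun u => hasDerivAt_curveW (1369 / 10000 + 4375 / 10000 * d + 13704 / 10000 * (d * d)) (96 / 10000) u)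
    (fun u _ hu => hWp u hu) (exitBandLow d)
    (fun u r => ∃ h, bandT N al be d (exitBandLow d) u r < h ∧ InChart N al be u r h ∧
      0 < ev N al be u r h)
    (fun w hw hw0 hwu => ⟨_, ?_, hf.chart hb.five hb.low w hw hw0,
      orbit_ev_pos hf hb.five hb.low hb.facts.1 hb.facts.2.1 hw hw0⟩)
    (fun w hw hw0 hwu => ?_) (fun r _ hE hv hv1 => ?_) (fun u r hu0 hu hr _ hv hv1 hG => ?_)
    hw hw0 hwu
  case refine_1 | refine_2 =>
    rcases lt_or_ge (uOf N (R w) (x w)) (3 / 5) with g | g
    · refine lt_of_eq_of_lt ?_ (orbit_lower_small hf hb h0 (by linarith) hw hw0 (g.le.trans (by norm_num)))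
      simp only [bandT, bandL, exitBandLow, if_pos g, ← hald, ← hbed, ← hdd]
      ring
    · refine lt_of_eq_of_lt ?_ (orbit_lower_tail_low hf hb h0 h1 hw hw0 g (hwu.trans hu₁.le))
      simp only [bandT, exitBandLow, if_neg (not_lt.2 g), ← hald, ← hbed, ← hdd]
  · rw [phiTailLow, lt_div_iff₀ (hWp _ hwu), mul_comm]
    exact key
  · have hA := (al_v_lt hb (r := r) (by assumption)).resolve_right (by linarith)
    have hS : sideS.Mem (al + be) := sideS_mem hb
    rw [← hdd] at hA
    have hvlt : vOf al be r * (3 / 5 - d) < 2 := by linarith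
    refine lt_of_mul_lt_mul_right (a := 3 / 5 - d) ?_ (by linarith)
    rw [mul_assoc]
    refine (mul_lt_mul_of_pos_left hvlt (hWp _ le_rfl)).trans ?_
    rcases le_total (1 - 33 / 100 * d) (79 / 80) with g | g
    · have hk := Ex.pos_of_checkQuick low_end_check (y₀ := 79 / 80) (y₁ := 33 / 100) (y₂ := d)
        (y₃ := al + be) (side_mem_four (by norm_num) (by norm_num))
        (side_mem_four (by norm_num) (by norm_num)) (side_mem_four (by push_cast; linarith) (by push_cast; linarith)) hS
      rw [lowEnd] at hk
      simp only [Ex.val, low_curve_val.1, low_curve_val.2.1] at hk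
      rw [show endLow d = 79 / 80 from max_eq_left g]
      push_cast at hk
      linarith
    · have hk := Ex.pos_of_checkQuick low_endD_check (y₀ := 79 / 80) (y₁ := 33 / 100) (y₂ := d)
        (y₃ := al + be) (side_mem_four (by norm_num) (by norm_num))
        (side_mem_four (by norm_num) (by norm_num)) (side_mem_four (by push_cast; linarith) (by push_cast; linarith)) hS
      rw [lowEndD] at hk
      simp only [Ex.val, lowCF0, lowCF1, lowCF3, lowCA, lowCB] at hk
      rw [show endLow d = 1 - 33 / 100 * d from max_eq_right g]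
      simp only [curveA, curveW]
      push_cast at hk
      linarith
  · have hS : sideS.Mem (al + be) := sideS_mem hb
    obtain ⟨eA, eW, eg, eL⟩ := low_curve_val (u := u) (v := 33 / 100) (d := d) (S' := al + be)
    have hd : 0 ≤ d := by linarith
    rcases lt_or_ge u (3 / 5) with g | g
    · have hx := low_xlow_pos hu0.le g.le h0 h1 hS
      have hs := low_slow_pos hu0.le g.le h0 h1 hS
      rw [lowXLow, val_exitPH, eA, eW, eg, eL] at hx
      rw [lowSLow, val_slopePH, eA, eW, eg, eL] at hs
      simp only [Ex.val, Nat.cast_one, Int.cast_one, div_one] at hx hs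
      rw [show exitBandLow d u = (119 / 100 - 67 / 20 * d) + (31 / 20 - 69 / 10 * d) * u + (11 / 20 + 2 / 5 * d) * u ^ 2 from if_pos g]
      exact curve_conds ha hb4 hf1 hf3 (hWp u hu) hG one_pos (mul_one _).symm hx hs
    · have he : 79 / 80 < u → u ≤ 1 - 33 / 100 * d := fun h =>
        (le_max_iff.1 hu).resolve_left (not_le.2 h)
      have hx := low_xhigh_pos g (hu.trans hu₁.le) h0 h1 he hS
      have hs := low_shigh_pos g (hu.trans hu₁.le) h0 h1 he hS
      obtain ⟨eN, eG, -⟩ := low_tail_val (u := u) (v := 33 / 100) (d := d) (S' := al + be)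
      rw [lowXHigh, val_exitPH, eA, eW, eg, eN, eG] at hx
      rw [lowSHigh, val_slopePH, eA, eW, eg, eN, eG] at hs
      rw [show exitBandLow d u = lowTailLow d u from if_neg (not_lt.2 g)]
      exact curve_conds ha hb4 hf1 hf3 (hWp u hu) hG (tailG_pos hd (by linarith) (by linarith))
        (tailN_eq hd (by linarith) (by linarith)) hx hs

end Vale.Agent.P100.Calib.Band
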