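import Vale.Agent.P100.Calib.SlabUpperLowBox

/-!
# Certificates of the tilted upper band, low piece (corn)
-/

namespace Vale.Agent.P100.Calib.Band

open BoxPos

theorem low_up_95 : (lowUpCorn 0 0 0).checkQuick lowCornCfg
    (lowUpBox 0 50 100000 3300 18338 0 14927 600001) = true := by decide +kernel

theorem low_up_96 : (lowUpCorn 0 0 0).checkQuick lowCornCfg
    (lowUpBox 0 50 100000 18338 33376 0 14927 600001) = true := by decide +kernel

theorem low_up_97 : (lowUpCorn 0 0 0).checkQuick lowCornCfg
    (lowUpBox 50 200 100000 3300 18401 0 14927 600003) = true := by decide +kernel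

theorem low_up_98 : (lowUpCorn 0 0 0).checkQuick lowCornCfg
    (lowUpBox 50 200 100000 18401 33502 0 14927 600003) = true := by decide +kernel

theorem low_up_99 : (lowUpCorn 0 0 0).checkQuick lowCornCfg
    (lowUpBox 200 800 100000 3300 18656 0 14927 600048) = true := by decide +kernel

theorem low_up_100 : (lowUpCorn 0 0 0).checkQuick lowCornCfg
    (lowUpBox 200 405 100000 18656 33674 0 14927 600013) = true := by decide +kernel

theorem low_up_101 : (lowUpCorn 0 0 0).checkQuick lowCornCfg
    (lowUpBox 405 800 100000 18656 33670 0 7463 600012) = true := by decide +kernel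

theorem low_up_102 : (lowUpCorn 0 0 0).checkQuick lowCornCfg
    (lowUpBox 405 800 100000 18656 26334 7463 14927 600048) = true := by decide +kernel

theorem low_up_103 : (lowUpCorn 0 0 9).checkQuick lowCornCfg
    (lowUpBox 405 800 100000 26334 34012 7463 14927 600048) = true := by decide +kernel

theorem low_up_104 : (lowUpCorn 0 42 0).checkQuick lowCornCfg
    (lowUpBox 800 2502 100000 3300 19423 0 14927 600465) = true := by decide +kernel

theorem low_up_105 : (lowUpCorn 0 0 2).checkQuick lowCornCfg
    (lowUpBox 800 1418 100000 19423 33933 0 7463 600038) = true := by decide +kernel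

theorem low_up_106 : (lowUpCorn 0 0 0).checkQuick lowCornCfg
    (lowUpBox 800 1418 100000 19423 26988 7463 14927 600150) = true := by decide +kernel

theorem low_up_107 : (lowUpCorn 0 0 9).checkQuick lowCornCfg
    (lowUpBox 800 1066 100000 26988 34011 7463 11195 600048) = true := by decide +kernel

theorem low_up_108 : (lowUpCorn 0 0 14).checkQuick lowCornCfg
    (lowUpBox 800 1066 100000 26988 34243 11195 14927 600085) = true := by decide +kernel

theorem low_up_109 : (lowUpCorn 0 0 10).checkQuick lowCornCfg
    (lowUpBox 1066 1418 100000 26988 34241 7463 11195 600085) = true := by decide +kernel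

theorem low_up_110 : (lowUpCorn 0 0 0).checkQuick lowCornCfg
    (lowUpBox 1066 1418 100000 26988 30771 11195 14927 600150) = true := by decide +kernel

theorem low_up_111 : (lowUpCorn 0 0 12).checkQuick lowCornCfg
    (lowUpBox 1066 1229 100000 30771 34251 11195 13061 600086) = true := by decide +kernel

theorem low_up_112 : (lowUpCorn 0 0 0).checkQuick lowCornCfg
    (lowUpBox 1066 1229 100000 30771 32578 13061 14927 600113) = true := by decide +kernel

theorem low_up_113 : (lowUpCorn 0 0 15).checkQuick lowCornCfg
    (lowUpBox 1066 1229 100000 32578 34386 13061 14927 600113) = true := by decide +kernel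

theorem low_up_114 : (lowUpCorn 0 0 12).checkQuick lowCornCfg
    (lowUpBox 1229 1418 100000 30771 34397 11195 13061 600115) = true := by decide +kernel

theorem low_up_115 : (lowUpCorn 0 0 13).checkQuick lowCornCfg
    (lowUpBox 1229 1418 100000 30771 32662 13061 14927 600150) = true := by decide +kernel

theorem low_up_116 : (lowUpCorn 0 0 14).checkQuick lowCornCfg
    (lowUpBox 1229 1418 100000 32662 34554 13061 14927 600150) = true := by decide +kernel

theorem low_up_117 : (lowUpCorn 0 0 1).checkQuick lowCornCfg
    (lowUpBox 1418 2502 100000 19423 34406 0 7463 600117) = true := by decide +kernel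

theorem low_up_118 : (lowUpCorn 0 0 0).checkQuick lowCornCfg
    (lowUpBox 1418 2502 100000 19423 27485 7463 14927 600465) = true := by decide +kernel

theorem low_up_119 : (lowUpCorn 0 0 9).checkQuick lowCornCfg
    (lowUpBox 1418 1884 100000 27485 34549 7463 11195 600149) = true := by decide +kernel

theorem low_up_120 : (lowUpCorn 0 0 0).checkQuick lowCornCfg
    (lowUpBox 1418 1884 100000 27485 31229 11195 14927 600264) = true := by decide +kernel

theorem low_up_121 : (lowUpCorn 0 0 13).checkQuick lowCornCfg
    (lowUpBox 1418 1884 100000 31229 34974 11195 14927 600264) = true := by decide +kernel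

theorem low_up_122 : (lowUpCorn 13 0 6).checkQuick lowCornCfg
    (lowUpBox 1884 2502 100000 27485 35547 7463 14927 600465) = true := by decide +kernel

end Vale.Agent.P100.Calib.Band
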