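import Vale.Agent.P100.Calib.SlabTailSide
import Vale.Agent.P100.Calib.SlabUpperLowCornA

/-!
# The signs of the tilted upper band, low piece (corn)
-/

namespace Vale.Agent.P100.Calib.Band

open BoxPos

theorem low_up_corn_2 {e v ρ S' : ℝ} (hx0 : 0 / 100000 ≤ e) (hx1 : e < 50 / 100000)
    (hy0 : 3300 / 10000 ≤ v) (hy1 : v < 18338 / 10000) (hz0 : 0 / 10000 ≤ ρ) (hz1 : ρ < 14927 / 10000)
    (hA : (3 / 5 - ρ * e) * v < 2) (h5 : ρ * e ≤ 1 / 20) (hs0 : 3 / 5 ≤ S') (hs : S' ≤ 3 / 5 + (ρ * e) * (ρ * e) / 3) :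
    ∃ i j l : ℕ, 0 < (lowUpCorn i j l).val e v ρ S' := by
  have h_e0 : 0 ≤ e := by linarith
  exact ⟨0, 0, 0, Ex.pos_of_checkQuick low_up_95 (lowMem 100000 (by push_cast; linarith) hx1) (lowMem 10000 hy0 hy1)
    (lowMem 10000 (by push_cast; linarith) hz1) (lowS_mem (mul_nonneg (by linarith) h_e0) ((mul_le_mul (show ρ ≤ (14927 / 10000 : ℝ) by linarith) (show e ≤ (50 / 100000 : ℝ) by linarith) h_e0 (by norm_num)).trans
        (show (14927 / 10000 : ℝ) * (50 / 100000) ≤ (14927 / 20000000 : ℝ) by norm_num)) hs hs0 (by norm_num))⟩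

theorem low_up_corn_3 {e v ρ S' : ℝ} (hx0 : 0 / 100000 ≤ e) (hx1 : e < 50 / 100000)
    (hy0 : 18338 / 10000 ≤ v) (hy1 : v < 33376 / 10000) (hz0 : 0 / 10000 ≤ ρ) (hz1 : ρ < 14927 / 10000)
    (hA : (3 / 5 - ρ * e) * v < 2) (h5 : ρ * e ≤ 1 / 20) (hs0 : 3 / 5 ≤ S') (hs : S' ≤ 3 / 5 + (ρ * e) * (ρ * e) / 3) :
    ∃ i j l : ℕ, 0 < (lowUpCorn i j l).val e v ρ S' := by
  have h_e0 : 0 ≤ e := by linarith
  exact ⟨0, 0, 0, Ex.pos_of_checkQuick low_up_96 (lowMem 100000 (by push_cast; linarith) hx1) (lowMem 10000 hy0 hy1)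
    (lowMem 10000 (by push_cast; linarith) hz1) (lowS_mem (mul_nonneg (by linarith) h_e0) ((mul_le_mul (show ρ ≤ (14927 / 10000 : ℝ) by linarith) (show e ≤ (50 / 100000 : ℝ) by linarith) h_e0 (by norm_num)).trans
        (show (14927 / 10000 : ℝ) * (50 / 100000) ≤ (14927 / 20000000 : ℝ) by norm_num)) hs hs0 (by norm_num))⟩

theorem low_up_corn_1 {e v ρ S' : ℝ} (hx0 : 0 / 100000 ≤ e) (hx1 : e < 50 / 100000)
    (hy0 : 3300 / 10000 ≤ v) (hy1 : v < 33376 / 10000) (hz0 : 0 / 10000 ≤ ρ) (hz1 : ρ < 14927 / 10000)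
    (hA : (3 / 5 - ρ * e) * v < 2) (h5 : ρ * e ≤ 1 / 20) (hs0 : 3 / 5 ≤ S') (hs : S' ≤ 3 / 5 + (ρ * e) * (ρ * e) / 3) :
    ∃ i j l : ℕ, 0 < (lowUpCorn i j l).val e v ρ S' := by
  have h_e0 : 0 ≤ e := by linarith
  rcases lt_or_ge v (18338 / 10000) with g | g
  · exact low_up_corn_2 hx0 hx1 hy0
      g hz0 hz1 hA h5 hs0 hs
  · exact low_up_corn_3 hx0 hx1 g
      hy1 hz0 hz1 hA h5 hs0 hs

theorem low_up_corn_5 {e v ρ S' : ℝ} (hx0 : 50 / 100000 ≤ e) (hx1 : e < 200 / 100000)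
    (hy0 : 3300 / 10000 ≤ v) (hy1 : v < 18401 / 10000) (hz0 : 0 / 10000 ≤ ρ) (hz1 : ρ < 14927 / 10000)
    (hA : (3 / 5 - ρ * e) * v < 2) (h5 : ρ * e ≤ 1 / 20) (hs0 : 3 / 5 ≤ S') (hs : S' ≤ 3 / 5 + (ρ * e) * (ρ * e) / 3) :
    ∃ i j l : ℕ, 0 < (lowUpCorn i j l).val e v ρ S' := by
  have h_e0 : 0 ≤ e := by linarith
  exact ⟨0, 0, 0, Ex.pos_of_checkQuick low_up_97 (lowMem 100000 (by push_cast; linarith) hx1) (lowMem 10000 hy0 hy1)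
    (lowMem 10000 (by push_cast; linarith) hz1) (lowS_mem (mul_nonneg (by linarith) h_e0) ((mul_le_mul (show ρ ≤ (14927 / 10000 : ℝ) by linarith) (show e ≤ (200 / 100000 : ℝ) by linarith) h_e0 (by norm_num)).trans
        (show (14927 / 10000 : ℝ) * (200 / 100000) ≤ (14927 / 5000000 : ℝ) by norm_num)) hs hs0 (by norm_num))⟩

theorem low_up_corn_6 {e v ρ S' : ℝ} (hx0 : 50 / 100000 ≤ e) (hx1 : e < 200 / 100000)
    (hy0 : 18401 / 10000 ≤ v) (hy1 : v < 33502 / 10000) (hz0 : 0 / 10000 ≤ ρ) (hz1 : ρ < 14927 / 10000)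
    (hA : (3 / 5 - ρ * e) * v < 2) (h5 : ρ * e ≤ 1 / 20) (hs0 : 3 / 5 ≤ S') (hs : S' ≤ 3 / 5 + (ρ * e) * (ρ * e) / 3) :
    ∃ i j l : ℕ, 0 < (lowUpCorn i j l).val e v ρ S' := by
  have h_e0 : 0 ≤ e := by linarith
  exact ⟨0, 0, 0, Ex.pos_of_checkQuick low_up_98 (lowMem 100000 (by push_cast; linarith) hx1) (lowMem 10000 hy0 hy1)
    (lowMem 10000 (by push_cast; linarith) hz1) (lowS_mem (mul_nonneg (by linarith) h_e0) ((mul_le_mul (show ρ ≤ (14927 / 10000 : ℝ) by linarith) (show e ≤ (200 / 100000 : ℝ) by linarith) h_e0 (by norm_num)).trans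
        (show (14927 / 10000 : ℝ) * (200 / 100000) ≤ (14927 / 5000000 : ℝ) by norm_num)) hs hs0 (by norm_num))⟩

theorem low_up_corn_4 {e v ρ S' : ℝ} (hx0 : 50 / 100000 ≤ e) (hx1 : e < 200 / 100000)
    (hy0 : 3300 / 10000 ≤ v) (hy1 : v < 33502 / 10000) (hz0 : 0 / 10000 ≤ ρ) (hz1 : ρ < 14927 / 10000)
    (hA : (3 / 5 - ρ * e) * v < 2) (h5 : ρ * e ≤ 1 / 20) (hs0 : 3 / 5 ≤ S') (hs : S' ≤ 3 / 5 + (ρ * e) * (ρ * e) / 3) :
    ∃ i j l : ℕ, 0 < (lowUpCorn i j l).val e v ρ S' := by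
  have h_e0 : 0 ≤ e := by linarith
  rcases lt_or_ge v (18401 / 10000) with g | g
  · exact low_up_corn_5 hx0 hx1 hy0
      g hz0 hz1 hA h5 hs0 hs
  · exact low_up_corn_6 hx0 hx1 g
      hy1 hz0 hz1 hA h5 hs0 hs

theorem low_up_corn_8 {e v ρ S' : ℝ} (hx0 : 200 / 100000 ≤ e) (hx1 : e < 800 / 100000)
    (hy0 : 3300 / 10000 ≤ v) (hy1 : v < 18656 / 10000) (hz0 : 0 / 10000 ≤ ρ) (hz1 : ρ < 14927 / 10000)
    (hA : (3 / 5 - ρ * e) * v < 2) (h5 : ρ * e ≤ 1 / 20) (hs0 : 3 / 5 ≤ S') (hs : S' ≤ 3 / 5 + (ρ * e) * (ρ * e) / 3) :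
    ∃ i j l : ℕ, 0 < (lowUpCorn i j l).val e v ρ S' := by
  have h_e0 : 0 ≤ e := by linarith
  exact ⟨0, 0, 0, Ex.pos_of_checkQuick low_up_99 (lowMem 100000 (by push_cast; linarith) hx1) (lowMem 10000 hy0 hy1)
    (lowMem 10000 (by push_cast; linarith) hz1) (lowS_mem (mul_nonneg (by linarith) h_e0) ((mul_le_mul (show ρ ≤ (14927 / 10000 : ℝ) by linarith) (show e ≤ (800 / 100000 : ℝ) by linarith) h_e0 (by norm_num)).trans
        (show (14927 / 10000 : ℝ) * (800 / 100000) ≤ (14927 / 1250000 : ℝ) by norm_num)) hs hs0 (by norm_num))⟩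

theorem low_up_corn_10 {e v ρ S' : ℝ} (hx0 : 200 / 100000 ≤ e) (hx1 : e < 405 / 100000)
    (hy0 : 18656 / 10000 ≤ v) (hy1 : v < 33674 / 10000) (hz0 : 0 / 10000 ≤ ρ) (hz1 : ρ < 14927 / 10000)
    (hA : (3 / 5 - ρ * e) * v < 2) (h5 : ρ * e ≤ 1 / 20) (hs0 : 3 / 5 ≤ S') (hs : S' ≤ 3 / 5 + (ρ * e) * (ρ * e) / 3) :
    ∃ i j l : ℕ, 0 < (lowUpCorn i j l).val e v ρ S' := by
  have h_e0 : 0 ≤ e := by linarith
  exact ⟨0, 0, 0, Ex.pos_of_checkQuick low_up_100 (lowMem 100000 (by push_cast; linarith) hx1) (lowMem 10000 hy0 hy1)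
    (lowMem 10000 (by push_cast; linarith) hz1) (lowS_mem (mul_nonneg (by linarith) h_e0) ((mul_le_mul (show ρ ≤ (14927 / 10000 : ℝ) by linarith) (show e ≤ (405 / 100000 : ℝ) by linarith) h_e0 (by norm_num)).trans
        (show (14927 / 10000 : ℝ) * (405 / 100000) ≤ (1209087 / 200000000 : ℝ) by norm_num)) hs hs0 (by norm_num))⟩

theorem low_up_corn_12 {e v ρ S' : ℝ} (hx0 : 405 / 100000 ≤ e) (hx1 : e < 800 / 100000)
    (hy0 : 18656 / 10000 ≤ v) (hy1 : v < 33670 / 10000) (hz0 : 0 / 10000 ≤ ρ) (hz1 : ρ < 7463 / 10000)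
    (hA : (3 / 5 - ρ * e) * v < 2) (h5 : ρ * e ≤ 1 / 20) (hs0 : 3 / 5 ≤ S') (hs : S' ≤ 3 / 5 + (ρ * e) * (ρ * e) / 3) :
    ∃ i j l : ℕ, 0 < (lowUpCorn i j l).val e v ρ S' := by
  have h_e0 : 0 ≤ e := by linarith
  exact ⟨0, 0, 0, Ex.pos_of_checkQuick low_up_101 (lowMem 100000 (by push_cast; linarith) hx1) (lowMem 10000 hy0 hy1)
    (lowMem 10000 (by push_cast; linarith) hz1) (lowS_mem (mul_nonneg (by linarith) h_e0) ((mul_le_mul (show ρ ≤ (7463 / 10000 : ℝ) by linarith) (show e ≤ (800 / 100000 : ℝ) by linarith) h_e0 (by norm_num)).trans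
        (show (7463 / 10000 : ℝ) * (800 / 100000) ≤ (7463 / 1250000 : ℝ) by norm_num)) hs hs0 (by norm_num))⟩

theorem low_up_corn_14 {e v ρ S' : ℝ} (hx0 : 405 / 100000 ≤ e) (hx1 : e < 800 / 100000)
    (hy0 : 18656 / 10000 ≤ v) (hy1 : v < 26334 / 10000) (hz0 : 7463 / 10000 ≤ ρ) (hz1 : ρ < 14927 / 10000)
    (hA : (3 / 5 - ρ * e) * v < 2) (h5 : ρ * e ≤ 1 / 20) (hs0 : 3 / 5 ≤ S') (hs : S' ≤ 3 / 5 + (ρ * e) * (ρ * e) / 3) :
    ∃ i j l : ℕ, 0 < (lowUpCorn i j l).val e v ρ S' := by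
  have h_e0 : 0 ≤ e := by linarith
  exact ⟨0, 0, 0, Ex.pos_of_checkQuick low_up_102 (lowMem 100000 (by push_cast; linarith) hx1) (lowMem 10000 hy0 hy1)
    (lowMem 10000 (by push_cast; linarith) hz1) (lowS_mem (mul_nonneg (by linarith) h_e0) ((mul_le_mul (show ρ ≤ (14927 / 10000 : ℝ) by linarith) (show e ≤ (800 / 100000 : ℝ) by linarith) h_e0 (by norm_num)).trans
        (show (14927 / 10000 : ℝ) * (800 / 100000) ≤ (14927 / 1250000 : ℝ) by norm_num)) hs hs0 (by norm_num))⟩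

theorem low_up_corn_15 {e v ρ S' : ℝ} (hx0 : 405 / 100000 ≤ e) (hx1 : e < 800 / 100000)
    (hy0 : 26334 / 10000 ≤ v) (hy1 : v < 34012 / 10000) (hz0 : 7463 / 10000 ≤ ρ) (hz1 : ρ < 14927 / 10000)
    (hA : (3 / 5 - ρ * e) * v < 2) (h5 : ρ * e ≤ 1 / 20) (hs0 : 3 / 5 ≤ S') (hs : S' ≤ 3 / 5 + (ρ * e) * (ρ * e) / 3) :
    ∃ i j l : ℕ, 0 < (lowUpCorn i j l).val e v ρ S' := by
  have h_e0 : 0 ≤ e := by linarith
  exact ⟨0, 0, 9, Ex.pos_of_checkQuick low_up_103 (lowMem 100000 (by push_cast; linarith) hx1) (lowMem 10000 hy0 hy1)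
    (lowMem 10000 (by push_cast; linarith) hz1) (lowS_mem (mul_nonneg (by linarith) h_e0) ((mul_le_mul (show ρ ≤ (14927 / 10000 : ℝ) by linarith) (show e ≤ (800 / 100000 : ℝ) by linarith) h_e0 (by norm_num)).trans
        (show (14927 / 10000 : ℝ) * (800 / 100000) ≤ (14927 / 1250000 : ℝ) by norm_num)) hs hs0 (by norm_num))⟩

theorem low_up_corn_13 {e v ρ S' : ℝ} (hx0 : 405 / 100000 ≤ e) (hx1 : e < 800 / 100000)
    (hy0 : 18656 / 10000 ≤ v) (hy1 : v < 34012 / 10000) (hz0 : 7463 / 10000 ≤ ρ) (hz1 : ρ < 14927 / 10000)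
    (hA : (3 / 5 - ρ * e) * v < 2) (h5 : ρ * e ≤ 1 / 20) (hs0 : 3 / 5 ≤ S') (hs : S' ≤ 3 / 5 + (ρ * e) * (ρ * e) / 3) :
    ∃ i j l : ℕ, 0 < (lowUpCorn i j l).val e v ρ S' := by
  have h_e0 : 0 ≤ e := by linarith
  rcases lt_or_ge v (26334 / 10000) with g | g
  · exact low_up_corn_14 hx0 hx1 hy0
      g hz0 hz1 hA h5 hs0 hs
  · exact low_up_corn_15 hx0 hx1 g
      hy1 hz0 hz1 hA h5 hs0 hs

theorem low_up_corn_11 {e v ρ S' : ℝ} (hx0 : 405 / 100000 ≤ e) (hx1 : e < 800 / 100000)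
    (hy0 : 18656 / 10000 ≤ v) (hy1 : v < 34012 / 10000) (hz0 : 0 / 10000 ≤ ρ) (hz1 : ρ < 14927 / 10000)
    (hA : (3 / 5 - ρ * e) * v < 2) (h5 : ρ * e ≤ 1 / 20) (hs0 : 3 / 5 ≤ S') (hs : S' ≤ 3 / 5 + (ρ * e) * (ρ * e) / 3) :
    ∃ i j l : ℕ, 0 < (lowUpCorn i j l).val e v ρ S' := by
  have h_e0 : 0 ≤ e := by linarith
  rcases lt_or_ge ρ (7463 / 10000) with g | g
  · exact low_up_corn_12 hx0 hx1 hy0
      (lowV_lt hA ((mul_le_mul (show ρ ≤ (7463 / 10000 : ℝ) by linarith) (show e ≤ (800 / 100000 : ℝ) by linarith) h_e0 (by norm_num)).trans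
        (show (7463 / 10000 : ℝ) * (800 / 100000) ≤ (7463 / 1250000 : ℝ) by norm_num)) (by linarith) (by norm_num) (by norm_num)) hz0 g hA h5 hs0 hs
  · exact low_up_corn_13 hx0 hx1 hy0
      hy1 g hz1 hA h5 hs0 hs

theorem low_up_corn_9 {e v ρ S' : ℝ} (hx0 : 200 / 100000 ≤ e) (hx1 : e < 800 / 100000)
    (hy0 : 18656 / 10000 ≤ v) (hy1 : v < 34012 / 10000) (hz0 : 0 / 10000 ≤ ρ) (hz1 : ρ < 14927 / 10000)
    (hA : (3 / 5 - ρ * e) * v < 2) (h5 : ρ * e ≤ 1 / 20) (hs0 : 3 / 5 ≤ S') (hs : S' ≤ 3 / 5 + (ρ * e) * (ρ * e) / 3) :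
    ∃ i j l : ℕ, 0 < (lowUpCorn i j l).val e v ρ S' := by
  have h_e0 : 0 ≤ e := by linarith
  rcases lt_or_ge e (405 / 100000) with g | g
  · exact low_up_corn_10 hx0 g hy0
      (lowV_lt hA ((mul_le_mul (show ρ ≤ (14927 / 10000 : ℝ) by linarith) (show e ≤ (405 / 100000 : ℝ) by linarith) h_e0 (by norm_num)).trans
        (show (14927 / 10000 : ℝ) * (405 / 100000) ≤ (1209087 / 200000000 : ℝ) by norm_num)) (by linarith) (by norm_num) (by norm_num)) hz0 hz1 hA h5 hs0 hs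
  · exact low_up_corn_11 g hx1 hy0
      hy1 hz0 hz1 hA h5 hs0 hs

theorem low_up_corn_7 {e v ρ S' : ℝ} (hx0 : 200 / 100000 ≤ e) (hx1 : e < 800 / 100000)
    (hy0 : 3300 / 10000 ≤ v) (hy1 : v < 34012 / 10000) (hz0 : 0 / 10000 ≤ ρ) (hz1 : ρ < 14927 / 10000)
    (hA : (3 / 5 - ρ * e) * v < 2) (h5 : ρ * e ≤ 1 / 20) (hs0 : 3 / 5 ≤ S') (hs : S' ≤ 3 / 5 + (ρ * e) * (ρ * e) / 3) :
    ∃ i j l : ℕ, 0 < (lowUpCorn i j l).val e v ρ S' := by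
  have h_e0 : 0 ≤ e := by linarith
  rcases lt_or_ge v (18656 / 10000) with g | g
  · exact low_up_corn_8 hx0 hx1 hy0
      g hz0 hz1 hA h5 hs0 hs
  · exact low_up_corn_9 hx0 hx1 g
      hy1 hz0 hz1 hA h5 hs0 hs

theorem low_up_corn_17 {e v ρ S' : ℝ} (hx0 : 800 / 100000 ≤ e) (hx1 : e < 2502 / 100000)
    (hy0 : 3300 / 10000 ≤ v) (hy1 : v < 19423 / 10000) (hz0 : 0 / 10000 ≤ ρ) (hz1 : ρ < 14927 / 10000)
    (hA : (3 / 5 - ρ * e) * v < 2) (h5 : ρ * e ≤ 1 / 20) (hs0 : 3 / 5 ≤ S') (hs : S' ≤ 3 / 5 + (ρ * e) * (ρ * e) / 3) :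
    ∃ i j l : ℕ, 0 < (lowUpCorn i j l).val e v ρ S' := by
  have h_e0 : 0 ≤ e := by linarith
  exact ⟨0, 42, 0, Ex.pos_of_checkQuick low_up_104 (lowMem 100000 (by push_cast; linarith) hx1) (lowMem 10000 hy0 hy1)
    (lowMem 10000 (by push_cast; linarith) hz1) (lowS_mem (mul_nonneg (by linarith) h_e0) ((mul_le_mul (show ρ ≤ (14927 / 10000 : ℝ) by linarith) (show e ≤ (2502 / 100000 : ℝ) by linarith) h_e0 (by norm_num)).trans
        (show (14927 / 10000 : ℝ) * (2502 / 100000) ≤ (18673677 / 500000000 : ℝ) by norm_num)) hs hs0 (by norm_num))⟩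

theorem low_up_corn_20 {e v ρ S' : ℝ} (hx0 : 800 / 100000 ≤ e) (hx1 : e < 1418 / 100000)
    (hy0 : 19423 / 10000 ≤ v) (hy1 : v < 33933 / 10000) (hz0 : 0 / 10000 ≤ ρ) (hz1 : ρ < 7463 / 10000)
    (hA : (3 / 5 - ρ * e) * v < 2) (h5 : ρ * e ≤ 1 / 20) (hs0 : 3 / 5 ≤ S') (hs : S' ≤ 3 / 5 + (ρ * e) * (ρ * e) / 3) :
    ∃ i j l : ℕ, 0 < (lowUpCorn i j l).val e v ρ S' := by
  have h_e0 : 0 ≤ e := by linarith
  exact ⟨0, 0, 2, Ex.pos_of_checkQuick low_up_105 (lowMem 100000 (by push_cast; linarith) hx1) (lowMem 10000 hy0 hy1)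
    (lowMem 10000 (by push_cast; linarith) hz1) (lowS_mem (mul_nonneg (by linarith) h_e0) ((mul_le_mul (show ρ ≤ (7463 / 10000 : ℝ) by linarith) (show e ≤ (1418 / 100000 : ℝ) by linarith) h_e0 (by norm_num)).trans
        (show (7463 / 10000 : ℝ) * (1418 / 100000) ≤ (5291267 / 500000000 : ℝ) by norm_num)) hs hs0 (by norm_num))⟩

theorem low_up_corn_22 {e v ρ S' : ℝ} (hx0 : 800 / 100000 ≤ e) (hx1 : e < 1418 / 100000)
    (hy0 : 19423 / 10000 ≤ v) (hy1 : v < 26988 / 10000) (hz0 : 7463 / 10000 ≤ ρ) (hz1 : ρ < 14927 / 10000)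
    (hA : (3 / 5 - ρ * e) * v < 2) (h5 : ρ * e ≤ 1 / 20) (hs0 : 3 / 5 ≤ S') (hs : S' ≤ 3 / 5 + (ρ * e) * (ρ * e) / 3) :
    ∃ i j l : ℕ, 0 < (lowUpCorn i j l).val e v ρ S' := by
  have h_e0 : 0 ≤ e := by linarith
  exact ⟨0, 0, 0, Ex.pos_of_checkQuick low_up_106 (lowMem 100000 (by push_cast; linarith) hx1) (lowMem 10000 hy0 hy1)
    (lowMem 10000 (by push_cast; linarith) hz1) (lowS_mem (mul_nonneg (by linarith) h_e0) ((mul_le_mul (show ρ ≤ (14927 / 10000 : ℝ) by linarith) (show e ≤ (1418 / 100000 : ℝ) by linarith) h_e0 (by norm_num)).trans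
        (show (14927 / 10000 : ℝ) * (1418 / 100000) ≤ (10583243 / 500000000 : ℝ) by norm_num)) hs hs0 (by norm_num))⟩

theorem low_up_corn_25 {e v ρ S' : ℝ} (hx0 : 800 / 100000 ≤ e) (hx1 : e < 1066 / 100000)
    (hy0 : 26988 / 10000 ≤ v) (hy1 : v < 34011 / 10000) (hz0 : 7463 / 10000 ≤ ρ) (hz1 : ρ < 11195 / 10000)
    (hA : (3 / 5 - ρ * e) * v < 2) (h5 : ρ * e ≤ 1 / 20) (hs0 : 3 / 5 ≤ S') (hs : S' ≤ 3 / 5 + (ρ * e) * (ρ * e) / 3) :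
    ∃ i j l : ℕ, 0 < (lowUpCorn i j l).val e v ρ S' := by
  have h_e0 : 0 ≤ e := by linarith
  exact ⟨0, 0, 9, Ex.pos_of_checkQuick low_up_107 (lowMem 100000 (by push_cast; linarith) hx1) (lowMem 10000 hy0 hy1)
    (lowMem 10000 (by push_cast; linarith) hz1) (lowS_mem (mul_nonneg (by linarith) h_e0) ((mul_le_mul (show ρ ≤ (11195 / 10000 : ℝ) by linarith) (show e ≤ (1066 / 100000 : ℝ) by linarith) h_e0 (by norm_num)).trans
        (show (11195 / 10000 : ℝ) * (1066 / 100000) ≤ (1193387 / 100000000 : ℝ) by norm_num)) hs hs0 (by norm_num))⟩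

theorem low_up_corn_26 {e v ρ S' : ℝ} (hx0 : 800 / 100000 ≤ e) (hx1 : e < 1066 / 100000)
    (hy0 : 26988 / 10000 ≤ v) (hy1 : v < 34243 / 10000) (hz0 : 11195 / 10000 ≤ ρ) (hz1 : ρ < 14927 / 10000)
    (hA : (3 / 5 - ρ * e) * v < 2) (h5 : ρ * e ≤ 1 / 20) (hs0 : 3 / 5 ≤ S') (hs : S' ≤ 3 / 5 + (ρ * e) * (ρ * e) / 3) :
    ∃ i j l : ℕ, 0 < (lowUpCorn i j l).val e v ρ S' := by
  have h_e0 : 0 ≤ e := by linarith
  exact ⟨0, 0, 14, Ex.pos_of_checkQuick low_up_108 (lowMem 100000 (by push_cast; linarith) hx1) (lowMem 10000 hy0 hy1)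
    (lowMem 10000 (by push_cast; linarith) hz1) (lowS_mem (mul_nonneg (by linarith) h_e0) ((mul_le_mul (show ρ ≤ (14927 / 10000 : ℝ) by linarith) (show e ≤ (1066 / 100000 : ℝ) by linarith) h_e0 (by norm_num)).trans
        (show (14927 / 10000 : ℝ) * (1066 / 100000) ≤ (7956091 / 500000000 : ℝ) by norm_num)) hs hs0 (by norm_num))⟩

theorem low_up_corn_24 {e v ρ S' : ℝ} (hx0 : 800 / 100000 ≤ e) (hx1 : e < 1066 / 100000)
    (hy0 : 26988 / 10000 ≤ v) (hy1 : v < 34243 / 10000) (hz0 : 7463 / 10000 ≤ ρ) (hz1 : ρ < 14927 / 10000)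
    (hA : (3 / 5 - ρ * e) * v < 2) (h5 : ρ * e ≤ 1 / 20) (hs0 : 3 / 5 ≤ S') (hs : S' ≤ 3 / 5 + (ρ * e) * (ρ * e) / 3) :
    ∃ i j l : ℕ, 0 < (lowUpCorn i j l).val e v ρ S' := by
  have h_e0 : 0 ≤ e := by linarith
  rcases lt_or_ge ρ (11195 / 10000) with g | g
  · exact low_up_corn_25 hx0 hx1 hy0
      (lowV_lt hA ((mul_le_mul (show ρ ≤ (11195 / 10000 : ℝ) by linarith) (show e ≤ (1066 / 100000 : ℝ) by linarith) h_e0 (by norm_num)).trans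
        (show (11195 / 10000 : ℝ) * (1066 / 100000) ≤ (1193387 / 100000000 : ℝ) by norm_num)) (by linarith) (by norm_num) (by norm_num)) hz0 g hA h5 hs0 hs
  · exact low_up_corn_26 hx0 hx1 hy0
      hy1 g hz1 hA h5 hs0 hs

theorem low_up_corn_28 {e v ρ S' : ℝ} (hx0 : 1066 / 100000 ≤ e) (hx1 : e < 1418 / 100000)
    (hy0 : 26988 / 10000 ≤ v) (hy1 : v < 34241 / 10000) (hz0 : 7463 / 10000 ≤ ρ) (hz1 : ρ < 11195 / 10000)
    (hA : (3 / 5 - ρ * e) * v < 2) (h5 : ρ * e ≤ 1 / 20) (hs0 : 3 / 5 ≤ S') (hs : S' ≤ 3 / 5 + (ρ * e) * (ρ * e) / 3) :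
    ∃ i j l : ℕ, 0 < (lowUpCorn i j l).val e v ρ S' := by
  have h_e0 : 0 ≤ e := by linarith
  exact ⟨0, 0, 10, Ex.pos_of_checkQuick low_up_109 (lowMem 100000 (by push_cast; linarith) hx1) (lowMem 10000 hy0 hy1)
    (lowMem 10000 (by push_cast; linarith) hz1) (lowS_mem (mul_nonneg (by linarith) h_e0) ((mul_le_mul (show ρ ≤ (11195 / 10000 : ℝ) by linarith) (show e ≤ (1418 / 100000 : ℝ) by linarith) h_e0 (by norm_num)).trans
        (show (11195 / 10000 : ℝ) * (1418 / 100000) ≤ (1587451 / 100000000 : ℝ) by norm_num)) hs hs0 (by norm_num))⟩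

theorem low_up_corn_30 {e v ρ S' : ℝ} (hx0 : 1066 / 100000 ≤ e) (hx1 : e < 1418 / 100000)
    (hy0 : 26988 / 10000 ≤ v) (hy1 : v < 30771 / 10000) (hz0 : 11195 / 10000 ≤ ρ) (hz1 : ρ < 14927 / 10000)
    (hA : (3 / 5 - ρ * e) * v < 2) (h5 : ρ * e ≤ 1 / 20) (hs0 : 3 / 5 ≤ S') (hs : S' ≤ 3 / 5 + (ρ * e) * (ρ * e) / 3) :
    ∃ i j l : ℕ, 0 < (lowUpCorn i j l).val e v ρ S' := by
  have h_e0 : 0 ≤ e := by linarith
  exact ⟨0, 0, 0, Ex.pos_of_checkQuick low_up_110 (lowMem 100000 (by push_cast; linarith) hx1) (lowMem 10000 hy0 hy1)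
    (lowMem 10000 (by push_cast; linarith) hz1) (lowS_mem (mul_nonneg (by linarith) h_e0) ((mul_le_mul (show ρ ≤ (14927 / 10000 : ℝ) by linarith) (show e ≤ (1418 / 100000 : ℝ) by linarith) h_e0 (by norm_num)).trans
        (show (14927 / 10000 : ℝ) * (1418 / 100000) ≤ (10583243 / 500000000 : ℝ) by norm_num)) hs hs0 (by norm_num))⟩

theorem low_up_corn_33 {e v ρ S' : ℝ} (hx0 : 1066 / 100000 ≤ e) (hx1 : e < 1229 / 100000)
    (hy0 : 30771 / 10000 ≤ v) (hy1 : v < 34251 / 10000) (hz0 : 11195 / 10000 ≤ ρ) (hz1 : ρ < 13061 / 10000)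
    (hA : (3 / 5 - ρ * e) * v < 2) (h5 : ρ * e ≤ 1 / 20) (hs0 : 3 / 5 ≤ S') (hs : S' ≤ 3 / 5 + (ρ * e) * (ρ * e) / 3) :
    ∃ i j l : ℕ, 0 < (lowUpCorn i j l).val e v ρ S' := by
  have h_e0 : 0 ≤ e := by linarith
  exact ⟨0, 0, 12, Ex.pos_of_checkQuick low_up_111 (lowMem 100000 (by push_cast; linarith) hx1) (lowMem 10000 hy0 hy1)
    (lowMem 10000 (by push_cast; linarith) hz1) (lowS_mem (mul_nonneg (by linarith) h_e0) ((mul_le_mul (show ρ ≤ (13061 / 10000 : ℝ) by linarith) (show e ≤ (1229 / 100000 : ℝ) by linarith) h_e0 (by norm_num)).trans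
        (show (13061 / 10000 : ℝ) * (1229 / 100000) ≤ (16051969 / 1000000000 : ℝ) by norm_num)) hs hs0 (by norm_num))⟩

theorem low_up_corn_35 {e v ρ S' : ℝ} (hx0 : 1066 / 100000 ≤ e) (hx1 : e < 1229 / 100000)
    (hy0 : 30771 / 10000 ≤ v) (hy1 : v < 32578 / 10000) (hz0 : 13061 / 10000 ≤ ρ) (hz1 : ρ < 14927 / 10000)
    (hA : (3 / 5 - ρ * e) * v < 2) (h5 : ρ * e ≤ 1 / 20) (hs0 : 3 / 5 ≤ S') (hs : S' ≤ 3 / 5 + (ρ * e) * (ρ * e) / 3) :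
    ∃ i j l : ℕ, 0 < (lowUpCorn i j l).val e v ρ S' := by
  have h_e0 : 0 ≤ e := by linarith
  exact ⟨0, 0, 0, Ex.pos_of_checkQuick low_up_112 (lowMem 100000 (by push_cast; linarith) hx1) (lowMem 10000 hy0 hy1)
    (lowMem 10000 (by push_cast; linarith) hz1) (lowS_mem (mul_nonneg (by linarith) h_e0) ((mul_le_mul (show ρ ≤ (14927 / 10000 : ℝ) by linarith) (show e ≤ (1229 / 100000 : ℝ) by linarith) h_e0 (by norm_num)).trans
        (show (14927 / 10000 : ℝ) * (1229 / 100000) ≤ (18345283 / 1000000000 : ℝ) by norm_num)) hs hs0 (by norm_num))⟩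

theorem low_up_corn_36 {e v ρ S' : ℝ} (hx0 : 1066 / 100000 ≤ e) (hx1 : e < 1229 / 100000)
    (hy0 : 32578 / 10000 ≤ v) (hy1 : v < 34386 / 10000) (hz0 : 13061 / 10000 ≤ ρ) (hz1 : ρ < 14927 / 10000)
    (hA : (3 / 5 - ρ * e) * v < 2) (h5 : ρ * e ≤ 1 / 20) (hs0 : 3 / 5 ≤ S') (hs : S' ≤ 3 / 5 + (ρ * e) * (ρ * e) / 3) :
    ∃ i j l : ℕ, 0 < (lowUpCorn i j l).val e v ρ S' := by
  have h_e0 : 0 ≤ e := by linarith
  exact ⟨0, 0, 15, Ex.pos_of_checkQuick low_up_113 (lowMem 100000 (by push_cast; linarith) hx1) (lowMem 10000 hy0 hy1)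
    (lowMem 10000 (by push_cast; linarith) hz1) (lowS_mem (mul_nonneg (by linarith) h_e0) ((mul_le_mul (show ρ ≤ (14927 / 10000 : ℝ) by linarith) (show e ≤ (1229 / 100000 : ℝ) by linarith) h_e0 (by norm_num)).trans
        (show (14927 / 10000 : ℝ) * (1229 / 100000) ≤ (18345283 / 1000000000 : ℝ) by norm_num)) hs hs0 (by norm_num))⟩

theorem low_up_corn_34 {e v ρ S' : ℝ} (hx0 : 1066 / 100000 ≤ e) (hx1 : e < 1229 / 100000)
    (hy0 : 30771 / 10000 ≤ v) (hy1 : v < 34386 / 10000) (hz0 : 13061 / 10000 ≤ ρ) (hz1 : ρ < 14927 / 10000)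
    (hA : (3 / 5 - ρ * e) * v < 2) (h5 : ρ * e ≤ 1 / 20) (hs0 : 3 / 5 ≤ S') (hs : S' ≤ 3 / 5 + (ρ * e) * (ρ * e) / 3) :
    ∃ i j l : ℕ, 0 < (lowUpCorn i j l).val e v ρ S' := by
  have h_e0 : 0 ≤ e := by linarith
  rcases lt_or_ge v (32578 / 10000) with g | g
  · exact low_up_corn_35 hx0 hx1 hy0
      g hz0 hz1 hA h5 hs0 hs
  · exact low_up_corn_36 hx0 hx1 g
      hy1 hz0 hz1 hA h5 hs0 hs

theorem low_up_corn_32 {e v ρ S' : ℝ} (hx0 : 1066 / 100000 ≤ e) (hx1 : e < 1229 / 100000)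
    (hy0 : 30771 / 10000 ≤ v) (hy1 : v < 34386 / 10000) (hz0 : 11195 / 10000 ≤ ρ) (hz1 : ρ < 14927 / 10000)
    (hA : (3 / 5 - ρ * e) * v < 2) (h5 : ρ * e ≤ 1 / 20) (hs0 : 3 / 5 ≤ S') (hs : S' ≤ 3 / 5 + (ρ * e) * (ρ * e) / 3) :
    ∃ i j l : ℕ, 0 < (lowUpCorn i j l).val e v ρ S' := by
  have h_e0 : 0 ≤ e := by linarith
  rcases lt_or_ge ρ (13061 / 10000) with g | g
  · exact low_up_corn_33 hx0 hx1 hy0
      (lowV_lt hA ((mul_le_mul (show ρ ≤ (13061 / 10000 : ℝ) by linarith) (show e ≤ (1229 / 100000 : ℝ) by linarith) h_e0 (by norm_num)).trans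
        (show (13061 / 10000 : ℝ) * (1229 / 100000) ≤ (16051969 / 1000000000 : ℝ) by norm_num)) (by linarith) (by norm_num) (by norm_num)) hz0 g hA h5 hs0 hs
  · exact low_up_corn_34 hx0 hx1 hy0
      hy1 g hz1 hA h5 hs0 hs

theorem low_up_corn_38 {e v ρ S' : ℝ} (hx0 : 1229 / 100000 ≤ e) (hx1 : e < 1418 / 100000)
    (hy0 : 30771 / 10000 ≤ v) (hy1 : v < 34397 / 10000) (hz0 : 11195 / 10000 ≤ ρ) (hz1 : ρ < 13061 / 10000)
    (hA : (3 / 5 - ρ * e) * v < 2) (h5 : ρ * e ≤ 1 / 20) (hs0 : 3 / 5 ≤ S') (hs : S' ≤ 3 / 5 + (ρ * e) * (ρ * e) / 3) :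
    ∃ i j l : ℕ, 0 < (lowUpCorn i j l).val e v ρ S' := by
  have h_e0 : 0 ≤ e := by linarith
  exact ⟨0, 0, 12, Ex.pos_of_checkQuick low_up_114 (lowMem 100000 (by push_cast; linarith) hx1) (lowMem 10000 hy0 hy1)
    (lowMem 10000 (by push_cast; linarith) hz1) (lowS_mem (mul_nonneg (by linarith) h_e0) ((mul_le_mul (show ρ ≤ (13061 / 10000 : ℝ) by linarith) (show e ≤ (1418 / 100000 : ℝ) by linarith) h_e0 (by norm_num)).trans
        (show (13061 / 10000 : ℝ) * (1418 / 100000) ≤ (9260249 / 500000000 : ℝ) by norm_num)) hs hs0 (by norm_num))⟩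

theorem low_up_corn_40 {e v ρ S' : ℝ} (hx0 : 1229 / 100000 ≤ e) (hx1 : e < 1418 / 100000)
    (hy0 : 30771 / 10000 ≤ v) (hy1 : v < 32662 / 10000) (hz0 : 13061 / 10000 ≤ ρ) (hz1 : ρ < 14927 / 10000)
    (hA : (3 / 5 - ρ * e) * v < 2) (h5 : ρ * e ≤ 1 / 20) (hs0 : 3 / 5 ≤ S') (hs : S' ≤ 3 / 5 + (ρ * e) * (ρ * e) / 3) :
    ∃ i j l : ℕ, 0 < (lowUpCorn i j l).val e v ρ S' := by
  have h_e0 : 0 ≤ e := by linarith
  exact ⟨0, 0, 13, Ex.pos_of_checkQuick low_up_115 (lowMem 100000 (by push_cast; linarith) hx1) (lowMem 10000 hy0 hy1)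
    (lowMem 10000 (by push_cast; linarith) hz1) (lowS_mem (mul_nonneg (by linarith) h_e0) ((mul_le_mul (show ρ ≤ (14927 / 10000 : ℝ) by linarith) (show e ≤ (1418 / 100000 : ℝ) by linarith) h_e0 (by norm_num)).trans
        (show (14927 / 10000 : ℝ) * (1418 / 100000) ≤ (10583243 / 500000000 : ℝ) by norm_num)) hs hs0 (by norm_num))⟩

theorem low_up_corn_41 {e v ρ S' : ℝ} (hx0 : 1229 / 100000 ≤ e) (hx1 : e < 1418 / 100000)
    (hy0 : 32662 / 10000 ≤ v) (hy1 : v < 34554 / 10000) (hz0 : 13061 / 10000 ≤ ρ) (hz1 : ρ < 14927 / 10000)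
    (hA : (3 / 5 - ρ * e) * v < 2) (h5 : ρ * e ≤ 1 / 20) (hs0 : 3 / 5 ≤ S') (hs : S' ≤ 3 / 5 + (ρ * e) * (ρ * e) / 3) :
    ∃ i j l : ℕ, 0 < (lowUpCorn i j l).val e v ρ S' := by
  have h_e0 : 0 ≤ e := by linarith
  exact ⟨0, 0, 14, Ex.pos_of_checkQuick low_up_116 (lowMem 100000 (by push_cast; linarith) hx1) (lowMem 10000 hy0 hy1)
    (lowMem 10000 (by push_cast; linarith) hz1) (lowS_mem (mul_nonneg (by linarith) h_e0) ((mul_le_mul (show ρ ≤ (14927 / 10000 : ℝ) by linarith) (show e ≤ (1418 / 100000 : ℝ) by linarith) h_e0 (by norm_num)).trans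
        (show (14927 / 10000 : ℝ) * (1418 / 100000) ≤ (10583243 / 500000000 : ℝ) by norm_num)) hs hs0 (by norm_num))⟩

theorem low_up_corn_39 {e v ρ S' : ℝ} (hx0 : 1229 / 100000 ≤ e) (hx1 : e < 1418 / 100000)
    (hy0 : 30771 / 10000 ≤ v) (hy1 : v < 34554 / 10000) (hz0 : 13061 / 10000 ≤ ρ) (hz1 : ρ < 14927 / 10000)
    (hA : (3 / 5 - ρ * e) * v < 2) (h5 : ρ * e ≤ 1 / 20) (hs0 : 3 / 5 ≤ S') (hs : S' ≤ 3 / 5 + (ρ * e) * (ρ * e) / 3) :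
    ∃ i j l : ℕ, 0 < (lowUpCorn i j l).val e v ρ S' := by
  have h_e0 : 0 ≤ e := by linarith
  rcases lt_or_ge v (32662 / 10000) with g | g
  · exact low_up_corn_40 hx0 hx1 hy0
      g hz0 hz1 hA h5 hs0 hs
  · exact low_up_corn_41 hx0 hx1 g
      hy1 hz0 hz1 hA h5 hs0 hs

theorem low_up_corn_37 {e v ρ S' : ℝ} (hx0 : 1229 / 100000 ≤ e) (hx1 : e < 1418 / 100000)
    (hy0 : 30771 / 10000 ≤ v) (hy1 : v < 34554 / 10000) (hz0 : 11195 / 10000 ≤ ρ) (hz1 : ρ < 14927 / 10000)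
    (hA : (3 / 5 - ρ * e) * v < 2) (h5 : ρ * e ≤ 1 / 20) (hs0 : 3 / 5 ≤ S') (hs : S' ≤ 3 / 5 + (ρ * e) * (ρ * e) / 3) :
    ∃ i j l : ℕ, 0 < (lowUpCorn i j l).val e v ρ S' := by
  have h_e0 : 0 ≤ e := by linarith
  rcases lt_or_ge ρ (13061 / 10000) with g | g
  · exact low_up_corn_38 hx0 hx1 hy0
      (lowV_lt hA ((mul_le_mul (show ρ ≤ (13061 / 10000 : ℝ) by linarith) (show e ≤ (1418 / 100000 : ℝ) by linarith) h_e0 (by norm_num)).trans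
        (show (13061 / 10000 : ℝ) * (1418 / 100000) ≤ (9260249 / 500000000 : ℝ) by norm_num)) (by linarith) (by norm_num) (by norm_num)) hz0 g hA h5 hs0 hs
  · exact low_up_corn_39 hx0 hx1 hy0
      hy1 g hz1 hA h5 hs0 hs

theorem low_up_corn_31 {e v ρ S' : ℝ} (hx0 : 1066 / 100000 ≤ e) (hx1 : e < 1418 / 100000)
    (hy0 : 30771 / 10000 ≤ v) (hy1 : v < 34554 / 10000) (hz0 : 11195 / 10000 ≤ ρ) (hz1 : ρ < 14927 / 10000)
    (hA : (3 / 5 - ρ * e) * v < 2) (h5 : ρ * e ≤ 1 / 20) (hs0 : 3 / 5 ≤ S') (hs : S' ≤ 3 / 5 + (ρ * e) * (ρ * e) / 3) :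
    ∃ i j l : ℕ, 0 < (lowUpCorn i j l).val e v ρ S' := by
  have h_e0 : 0 ≤ e := by linarith
  rcases lt_or_ge e (1229 / 100000) with g | g
  · exact low_up_corn_32 hx0 g hy0
      (lowV_lt hA ((mul_le_mul (show ρ ≤ (14927 / 10000 : ℝ) by linarith) (show e ≤ (1229 / 100000 : ℝ) by linarith) h_e0 (by norm_num)).trans
        (show (14927 / 10000 : ℝ) * (1229 / 100000) ≤ (18345283 / 1000000000 : ℝ) by norm_num)) (by linarith) (by norm_num) (by norm_num)) hz0 hz1 hA h5 hs0 hs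
  · exact low_up_corn_37 g hx1 hy0
      hy1 hz0 hz1 hA h5 hs0 hs

theorem low_up_corn_29 {e v ρ S' : ℝ} (hx0 : 1066 / 100000 ≤ e) (hx1 : e < 1418 / 100000)
    (hy0 : 26988 / 10000 ≤ v) (hy1 : v < 34554 / 10000) (hz0 : 11195 / 10000 ≤ ρ) (hz1 : ρ < 14927 / 10000)
    (hA : (3 / 5 - ρ * e) * v < 2) (h5 : ρ * e ≤ 1 / 20) (hs0 : 3 / 5 ≤ S') (hs : S' ≤ 3 / 5 + (ρ * e) * (ρ * e) / 3) :
    ∃ i j l : ℕ, 0 < (lowUpCorn i j l).val e v ρ S' := by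
  have h_e0 : 0 ≤ e := by linarith
  rcases lt_or_ge v (30771 / 10000) with g | g
  · exact low_up_corn_30 hx0 hx1 hy0
      g hz0 hz1 hA h5 hs0 hs
  · exact low_up_corn_31 hx0 hx1 g
      hy1 hz0 hz1 hA h5 hs0 hs

theorem low_up_corn_27 {e v ρ S' : ℝ} (hx0 : 1066 / 100000 ≤ e) (hx1 : e < 1418 / 100000)
    (hy0 : 26988 / 10000 ≤ v) (hy1 : v < 34554 / 10000) (hz0 : 7463 / 10000 ≤ ρ) (hz1 : ρ < 14927 / 10000)
    (hA : (3 / 5 - ρ * e) * v < 2) (h5 : ρ * e ≤ 1 / 20) (hs0 : 3 / 5 ≤ S') (hs : S' ≤ 3 / 5 + (ρ * e) * (ρ * e) / 3) :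
    ∃ i j l : ℕ, 0 < (lowUpCorn i j l).val e v ρ S' := by
  have h_e0 : 0 ≤ e := by linarith
  rcases lt_or_ge ρ (11195 / 10000) with g | g
  · exact low_up_corn_28 hx0 hx1 hy0
      (lowV_lt hA ((mul_le_mul (show ρ ≤ (11195 / 10000 : ℝ) by linarith) (show e ≤ (1418 / 100000 : ℝ) by linarith) h_e0 (by norm_num)).trans
        (show (11195 / 10000 : ℝ) * (1418 / 100000) ≤ (1587451 / 100000000 : ℝ) by norm_num)) (by linarith) (by norm_num) (by norm_num)) hz0 g hA h5 hs0 hs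
  · exact low_up_corn_29 hx0 hx1 hy0
      hy1 g hz1 hA h5 hs0 hs

theorem low_up_corn_23 {e v ρ S' : ℝ} (hx0 : 800 / 100000 ≤ e) (hx1 : e < 1418 / 100000)
    (hy0 : 26988 / 10000 ≤ v) (hy1 : v < 34554 / 10000) (hz0 : 7463 / 10000 ≤ ρ) (hz1 : ρ < 14927 / 10000)
    (hA : (3 / 5 - ρ * e) * v < 2) (h5 : ρ * e ≤ 1 / 20) (hs0 : 3 / 5 ≤ S') (hs : S' ≤ 3 / 5 + (ρ * e) * (ρ * e) / 3) :
    ∃ i j l : ℕ, 0 < (lowUpCorn i j l).val e v ρ S' := by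
  have h_e0 : 0 ≤ e := by linarith
  rcases lt_or_ge e (1066 / 100000) with g | g
  · exact low_up_corn_24 hx0 g hy0
      (lowV_lt hA ((mul_le_mul (show ρ ≤ (14927 / 10000 : ℝ) by linarith) (show e ≤ (1066 / 100000 : ℝ) by linarith) h_e0 (by norm_num)).trans
        (show (14927 / 10000 : ℝ) * (1066 / 100000) ≤ (7956091 / 500000000 : ℝ) by norm_num)) (by linarith) (by norm_num) (by norm_num)) hz0 hz1 hA h5 hs0 hs
  · exact low_up_corn_27 g hx1 hy0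
      hy1 hz0 hz1 hA h5 hs0 hs

theorem low_up_corn_21 {e v ρ S' : ℝ} (hx0 : 800 / 100000 ≤ e) (hx1 : e < 1418 / 100000)
    (hy0 : 19423 / 10000 ≤ v) (hy1 : v < 34554 / 10000) (hz0 : 7463 / 10000 ≤ ρ) (hz1 : ρ < 14927 / 10000)
    (hA : (3 / 5 - ρ * e) * v < 2) (h5 : ρ * e ≤ 1 / 20) (hs0 : 3 / 5 ≤ S') (hs : S' ≤ 3 / 5 + (ρ * e) * (ρ * e) / 3) :
    ∃ i j l : ℕ, 0 < (lowUpCorn i j l).val e v ρ S' := by
  have h_e0 : 0 ≤ e := by linarith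
  rcases lt_or_ge v (26988 / 10000) with g | g
  · exact low_up_corn_22 hx0 hx1 hy0
      g hz0 hz1 hA h5 hs0 hs
  · exact low_up_corn_23 hx0 hx1 g
      hy1 hz0 hz1 hA h5 hs0 hs

theorem low_up_corn_19 {e v ρ S' : ℝ} (hx0 : 800 / 100000 ≤ e) (hx1 : e < 1418 / 100000)
    (hy0 : 19423 / 10000 ≤ v) (hy1 : v < 34554 / 10000) (hz0 : 0 / 10000 ≤ ρ) (hz1 : ρ < 14927 / 10000)
    (hA : (3 / 5 - ρ * e) * v < 2) (h5 : ρ * e ≤ 1 / 20) (hs0 : 3 / 5 ≤ S') (hs : S' ≤ 3 / 5 + (ρ * e) * (ρ * e) / 3) :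
    ∃ i j l : ℕ, 0 < (lowUpCorn i j l).val e v ρ S' := by
  have h_e0 : 0 ≤ e := by linarith
  rcases lt_or_ge ρ (7463 / 10000) with g | g
  · exact low_up_corn_20 hx0 hx1 hy0
      (lowV_lt hA ((mul_le_mul (show ρ ≤ (7463 / 10000 : ℝ) by linarith) (show e ≤ (1418 / 100000 : ℝ) by linarith) h_e0 (by norm_num)).trans
        (show (7463 / 10000 : ℝ) * (1418 / 100000) ≤ (5291267 / 500000000 : ℝ) by norm_num)) (by linarith) (by norm_num) (by norm_num)) hz0 g hA h5 hs0 hs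
  · exact low_up_corn_21 hx0 hx1 hy0
      hy1 g hz1 hA h5 hs0 hs

theorem low_up_corn_43 {e v ρ S' : ℝ} (hx0 : 1418 / 100000 ≤ e) (hx1 : e < 2502 / 100000)
    (hy0 : 19423 / 10000 ≤ v) (hy1 : v < 34406 / 10000) (hz0 : 0 / 10000 ≤ ρ) (hz1 : ρ < 7463 / 10000)
    (hA : (3 / 5 - ρ * e) * v < 2) (h5 : ρ * e ≤ 1 / 20) (hs0 : 3 / 5 ≤ S') (hs : S' ≤ 3 / 5 + (ρ * e) * (ρ * e) / 3) :
    ∃ i j l : ℕ, 0 < (lowUpCorn i j l).val e v ρ S' := by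
  have h_e0 : 0 ≤ e := by linarith
  exact ⟨0, 0, 1, Ex.pos_of_checkQuick low_up_117 (lowMem 100000 (by push_cast; linarith) hx1) (lowMem 10000 hy0 hy1)
    (lowMem 10000 (by push_cast; linarith) hz1) (lowS_mem (mul_nonneg (by linarith) h_e0) ((mul_le_mul (show ρ ≤ (7463 / 10000 : ℝ) by linarith) (show e ≤ (2502 / 100000 : ℝ) by linarith) h_e0 (by norm_num)).trans
        (show (7463 / 10000 : ℝ) * (2502 / 100000) ≤ (9336213 / 500000000 : ℝ) by norm_num)) hs hs0 (by norm_num))⟩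

theorem low_up_corn_45 {e v ρ S' : ℝ} (hx0 : 1418 / 100000 ≤ e) (hx1 : e < 2502 / 100000)
    (hy0 : 19423 / 10000 ≤ v) (hy1 : v < 27485 / 10000) (hz0 : 7463 / 10000 ≤ ρ) (hz1 : ρ < 14927 / 10000)
    (hA : (3 / 5 - ρ * e) * v < 2) (h5 : ρ * e ≤ 1 / 20) (hs0 : 3 / 5 ≤ S') (hs : S' ≤ 3 / 5 + (ρ * e) * (ρ * e) / 3) :
    ∃ i j l : ℕ, 0 < (lowUpCorn i j l).val e v ρ S' := by
  have h_e0 : 0 ≤ e := by linarith
  exact ⟨0, 0, 0, Ex.pos_of_checkQuick low_up_118 (lowMem 100000 (by push_cast; linarith) hx1) (lowMem 10000 hy0 hy1)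
    (lowMem 10000 (by push_cast; linarith) hz1) (lowS_mem (mul_nonneg (by linarith) h_e0) ((mul_le_mul (show ρ ≤ (14927 / 10000 : ℝ) by linarith) (show e ≤ (2502 / 100000 : ℝ) by linarith) h_e0 (by norm_num)).trans
        (show (14927 / 10000 : ℝ) * (2502 / 100000) ≤ (18673677 / 500000000 : ℝ) by norm_num)) hs hs0 (by norm_num))⟩

theorem low_up_corn_48 {e v ρ S' : ℝ} (hx0 : 1418 / 100000 ≤ e) (hx1 : e < 1884 / 100000)
    (hy0 : 27485 / 10000 ≤ v) (hy1 : v < 34549 / 10000) (hz0 : 7463 / 10000 ≤ ρ) (hz1 : ρ < 11195 / 10000)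
    (hA : (3 / 5 - ρ * e) * v < 2) (h5 : ρ * e ≤ 1 / 20) (hs0 : 3 / 5 ≤ S') (hs : S' ≤ 3 / 5 + (ρ * e) * (ρ * e) / 3) :
    ∃ i j l : ℕ, 0 < (lowUpCorn i j l).val e v ρ S' := by
  have h_e0 : 0 ≤ e := by linarith
  exact ⟨0, 0, 9, Ex.pos_of_checkQuick low_up_119 (lowMem 100000 (by push_cast; linarith) hx1) (lowMem 10000 hy0 hy1)
    (lowMem 10000 (by push_cast; linarith) hz1) (lowS_mem (mul_nonneg (by linarith) h_e0) ((mul_le_mul (show ρ ≤ (11195 / 10000 : ℝ) by linarith) (show e ≤ (1884 / 100000 : ℝ) by linarith) h_e0 (by norm_num)).trans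
        (show (11195 / 10000 : ℝ) * (1884 / 100000) ≤ (1054569 / 50000000 : ℝ) by norm_num)) hs hs0 (by norm_num))⟩

theorem low_up_corn_50 {e v ρ S' : ℝ} (hx0 : 1418 / 100000 ≤ e) (hx1 : e < 1884 / 100000)
    (hy0 : 27485 / 10000 ≤ v) (hy1 : v < 31229 / 10000) (hz0 : 11195 / 10000 ≤ ρ) (hz1 : ρ < 14927 / 10000)
    (hA : (3 / 5 - ρ * e) * v < 2) (h5 : ρ * e ≤ 1 / 20) (hs0 : 3 / 5 ≤ S') (hs : S' ≤ 3 / 5 + (ρ * e) * (ρ * e) / 3) :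
    ∃ i j l : ℕ, 0 < (lowUpCorn i j l).val e v ρ S' := by
  have h_e0 : 0 ≤ e := by linarith
  exact ⟨0, 0, 0, Ex.pos_of_checkQuick low_up_120 (lowMem 100000 (by push_cast; linarith) hx1) (lowMem 10000 hy0 hy1)
    (lowMem 10000 (by push_cast; linarith) hz1) (lowS_mem (mul_nonneg (by linarith) h_e0) ((mul_le_mul (show ρ ≤ (14927 / 10000 : ℝ) by linarith) (show e ≤ (1884 / 100000 : ℝ) by linarith) h_e0 (by norm_num)).trans
        (show (14927 / 10000 : ℝ) * (1884 / 100000) ≤ (7030617 / 250000000 : ℝ) by norm_num)) hs hs0 (by norm_num))⟩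

theorem low_up_corn_51 {e v ρ S' : ℝ} (hx0 : 1418 / 100000 ≤ e) (hx1 : e < 1884 / 100000)
    (hy0 : 31229 / 10000 ≤ v) (hy1 : v < 34974 / 10000) (hz0 : 11195 / 10000 ≤ ρ) (hz1 : ρ < 14927 / 10000)
    (hA : (3 / 5 - ρ * e) * v < 2) (h5 : ρ * e ≤ 1 / 20) (hs0 : 3 / 5 ≤ S') (hs : S' ≤ 3 / 5 + (ρ * e) * (ρ * e) / 3) :
    ∃ i j l : ℕ, 0 < (lowUpCorn i j l).val e v ρ S' := by
  have h_e0 : 0 ≤ e := by linarith
  exact ⟨0, 0, 13, Ex.pos_of_checkQuick low_up_121 (lowMem 100000 (by push_cast; linarith) hx1) (lowMem 10000 hy0 hy1)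
    (lowMem 10000 (by push_cast; linarith) hz1) (lowS_mem (mul_nonneg (by linarith) h_e0) ((mul_le_mul (show ρ ≤ (14927 / 10000 : ℝ) by linarith) (show e ≤ (1884 / 100000 : ℝ) by linarith) h_e0 (by norm_num)).trans
        (show (14927 / 10000 : ℝ) * (1884 / 100000) ≤ (7030617 / 250000000 : ℝ) by norm_num)) hs hs0 (by norm_num))⟩

theorem low_up_corn_49 {e v ρ S' : ℝ} (hx0 : 1418 / 100000 ≤ e) (hx1 : e < 1884 / 100000)
    (hy0 : 27485 / 10000 ≤ v) (hy1 : v < 34974 / 10000) (hz0 : 11195 / 10000 ≤ ρ) (hz1 : ρ < 14927 / 10000)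
    (hA : (3 / 5 - ρ * e) * v < 2) (h5 : ρ * e ≤ 1 / 20) (hs0 : 3 / 5 ≤ S') (hs : S' ≤ 3 / 5 + (ρ * e) * (ρ * e) / 3) :
    ∃ i j l : ℕ, 0 < (lowUpCorn i j l).val e v ρ S' := by
  have h_e0 : 0 ≤ e := by linarith
  rcases lt_or_ge v (31229 / 10000) with g | g
  · exact low_up_corn_50 hx0 hx1 hy0
      g hz0 hz1 hA h5 hs0 hs
  · exact low_up_corn_51 hx0 hx1 g
      hy1 hz0 hz1 hA h5 hs0 hs

theorem low_up_corn_47 {e v ρ S' : ℝ} (hx0 : 1418 / 100000 ≤ e) (hx1 : e < 1884 / 100000)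
    (hy0 : 27485 / 10000 ≤ v) (hy1 : v < 34974 / 10000) (hz0 : 7463 / 10000 ≤ ρ) (hz1 : ρ < 14927 / 10000)
    (hA : (3 / 5 - ρ * e) * v < 2) (h5 : ρ * e ≤ 1 / 20) (hs0 : 3 / 5 ≤ S') (hs : S' ≤ 3 / 5 + (ρ * e) * (ρ * e) / 3) :
    ∃ i j l : ℕ, 0 < (lowUpCorn i j l).val e v ρ S' := by
  have h_e0 : 0 ≤ e := by linarith
  rcases lt_or_ge ρ (11195 / 10000) with g | g
  · exact low_up_corn_48 hx0 hx1 hy0
      (lowV_lt hA ((mul_le_mul (show ρ ≤ (11195 / 10000 : ℝ) by linarith) (show e ≤ (1884 / 100000 : ℝ) by linarith) h_e0 (by norm_num)).trans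
        (show (11195 / 10000 : ℝ) * (1884 / 100000) ≤ (1054569 / 50000000 : ℝ) by norm_num)) (by linarith) (by norm_num) (by norm_num)) hz0 g hA h5 hs0 hs
  · exact low_up_corn_49 hx0 hx1 hy0
      hy1 g hz1 hA h5 hs0 hs

theorem low_up_corn_52 {e v ρ S' : ℝ} (hx0 : 1884 / 100000 ≤ e) (hx1 : e < 2502 / 100000)
    (hy0 : 27485 / 10000 ≤ v) (hy1 : v < 35547 / 10000) (hz0 : 7463 / 10000 ≤ ρ) (hz1 : ρ < 14927 / 10000)
    (hA : (3 / 5 - ρ * e) * v < 2) (h5 : ρ * e ≤ 1 / 20) (hs0 : 3 / 5 ≤ S') (hs : S' ≤ 3 / 5 + (ρ * e) * (ρ * e) / 3) :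
    ∃ i j l : ℕ, 0 < (lowUpCorn i j l).val e v ρ S' := by
  have h_e0 : 0 ≤ e := by linarith
  exact ⟨13, 0, 6, Ex.pos_of_checkQuick low_up_122 (lowMem 100000 (by push_cast; linarith) hx1) (lowMem 10000 hy0 hy1)
    (lowMem 10000 (by push_cast; linarith) hz1) (lowS_mem (mul_nonneg (by linarith) h_e0) ((mul_le_mul (show ρ ≤ (14927 / 10000 : ℝ) by linarith) (show e ≤ (2502 / 100000 : ℝ) by linarith) h_e0 (by norm_num)).trans
        (show (14927 / 10000 : ℝ) * (2502 / 100000) ≤ (18673677 / 500000000 : ℝ) by norm_num)) hs hs0 (by norm_num))⟩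

theorem low_up_corn_46 {e v ρ S' : ℝ} (hx0 : 1418 / 100000 ≤ e) (hx1 : e < 2502 / 100000)
    (hy0 : 27485 / 10000 ≤ v) (hy1 : v < 35547 / 10000) (hz0 : 7463 / 10000 ≤ ρ) (hz1 : ρ < 14927 / 10000)
    (hA : (3 / 5 - ρ * e) * v < 2) (h5 : ρ * e ≤ 1 / 20) (hs0 : 3 / 5 ≤ S') (hs : S' ≤ 3 / 5 + (ρ * e) * (ρ * e) / 3) :
    ∃ i j l : ℕ, 0 < (lowUpCorn i j l).val e v ρ S' := by
  have h_e0 : 0 ≤ e := by linarith
  rcases lt_or_ge e (1884 / 100000) with g | g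
  · exact low_up_corn_47 hx0 g hy0
      (lowV_lt hA ((mul_le_mul (show ρ ≤ (14927 / 10000 : ℝ) by linarith) (show e ≤ (1884 / 100000 : ℝ) by linarith) h_e0 (by norm_num)).trans
        (show (14927 / 10000 : ℝ) * (1884 / 100000) ≤ (7030617 / 250000000 : ℝ) by norm_num)) (by linarith) (by norm_num) (by norm_num)) hz0 hz1 hA h5 hs0 hs
  · exact low_up_corn_52 g hx1 hy0
      hy1 hz0 hz1 hA h5 hs0 hs

theorem low_up_corn_44 {e v ρ S' : ℝ} (hx0 : 1418 / 100000 ≤ e) (hx1 : e < 2502 / 100000)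
    (hy0 : 19423 / 10000 ≤ v) (hy1 : v < 35547 / 10000) (hz0 : 7463 / 10000 ≤ ρ) (hz1 : ρ < 14927 / 10000)
    (hA : (3 / 5 - ρ * e) * v < 2) (h5 : ρ * e ≤ 1 / 20) (hs0 : 3 / 5 ≤ S') (hs : S' ≤ 3 / 5 + (ρ * e) * (ρ * e) / 3) :
    ∃ i j l : ℕ, 0 < (lowUpCorn i j l).val e v ρ S' := by
  have h_e0 : 0 ≤ e := by linarith
  rcases lt_or_ge v (27485 / 10000) with g | g
  · exact low_up_corn_45 hx0 hx1 hy0
      g hz0 hz1 hA h5 hs0 hs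
  · exact low_up_corn_46 hx0 hx1 g
      hy1 hz0 hz1 hA h5 hs0 hs

theorem low_up_corn_42 {e v ρ S' : ℝ} (hx0 : 1418 / 100000 ≤ e) (hx1 : e < 2502 / 100000)
    (hy0 : 19423 / 10000 ≤ v) (hy1 : v < 35547 / 10000) (hz0 : 0 / 10000 ≤ ρ) (hz1 : ρ < 14927 / 10000)
    (hA : (3 / 5 - ρ * e) * v < 2) (h5 : ρ * e ≤ 1 / 20) (hs0 : 3 / 5 ≤ S') (hs : S' ≤ 3 / 5 + (ρ * e) * (ρ * e) / 3) :
    ∃ i j l : ℕ, 0 < (lowUpCorn i j l).val e v ρ S' := by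
  have h_e0 : 0 ≤ e := by linarith
  rcases lt_or_ge ρ (7463 / 10000) with g | g
  · exact low_up_corn_43 hx0 hx1 hy0
      (lowV_lt hA ((mul_le_mul (show ρ ≤ (7463 / 10000 : ℝ) by linarith) (show e ≤ (2502 / 100000 : ℝ) by linarith) h_e0 (by norm_num)).trans
        (show (7463 / 10000 : ℝ) * (2502 / 100000) ≤ (9336213 / 500000000 : ℝ) by norm_num)) (by linarith) (by norm_num) (by norm_num)) hz0 g hA h5 hs0 hs
  · exact low_up_corn_44 hx0 hx1 hy0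
      hy1 g hz1 hA h5 hs0 hs

theorem low_up_corn_18 {e v ρ S' : ℝ} (hx0 : 800 / 100000 ≤ e) (hx1 : e < 2502 / 100000)
    (hy0 : 19423 / 10000 ≤ v) (hy1 : v < 35547 / 10000) (hz0 : 0 / 10000 ≤ ρ) (hz1 : ρ < 14927 / 10000)
    (hA : (3 / 5 - ρ * e) * v < 2) (h5 : ρ * e ≤ 1 / 20) (hs0 : 3 / 5 ≤ S') (hs : S' ≤ 3 / 5 + (ρ * e) * (ρ * e) / 3) :
    ∃ i j l : ℕ, 0 < (lowUpCorn i j l).val e v ρ S' := by
  have h_e0 : 0 ≤ e := by linarith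
  rcases lt_or_ge e (1418 / 100000) with g | g
  · exact low_up_corn_19 hx0 g hy0
      (lowV_lt hA ((mul_le_mul (show ρ ≤ (14927 / 10000 : ℝ) by linarith) (show e ≤ (1418 / 100000 : ℝ) by linarith) h_e0 (by norm_num)).trans
        (show (14927 / 10000 : ℝ) * (1418 / 100000) ≤ (10583243 / 500000000 : ℝ) by norm_num)) (by linarith) (by norm_num) (by norm_num)) hz0 hz1 hA h5 hs0 hs
  · exact low_up_corn_42 g hx1 hy0
      hy1 hz0 hz1 hA h5 hs0 hs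

theorem low_up_corn_16 {e v ρ S' : ℝ} (hx0 : 800 / 100000 ≤ e) (hx1 : e < 2502 / 100000)
    (hy0 : 3300 / 10000 ≤ v) (hy1 : v < 35547 / 10000) (hz0 : 0 / 10000 ≤ ρ) (hz1 : ρ < 14927 / 10000)
    (hA : (3 / 5 - ρ * e) * v < 2) (h5 : ρ * e ≤ 1 / 20) (hs0 : 3 / 5 ≤ S') (hs : S' ≤ 3 / 5 + (ρ * e) * (ρ * e) / 3) :
    ∃ i j l : ℕ, 0 < (lowUpCorn i j l).val e v ρ S' := by
  have h_e0 : 0 ≤ e := by linarith
  rcases lt_or_ge v (19423 / 10000) with g | g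
  · exact low_up_corn_17 hx0 hx1 hy0
      g hz0 hz1 hA h5 hs0 hs
  · exact low_up_corn_18 hx0 hx1 g
      hy1 hz0 hz1 hA h5 hs0 hs

/-- The rung condition on the region. -/
theorem low_up_corn_sign {e v ρ S' : ℝ} (hx0 : 0 / 100000 ≤ e) (hx1 : e < 2502 / 100000)
    (hy0 : 33 / 100 ≤ v) (hz0 : 0 ≤ ρ) (hz1 : ρ < 14927 / 10000)
    (hA : (3 / 5 - ρ * e) * v < 2) (h5 : ρ * e ≤ 1 / 20) (hs0 : 3 / 5 ≤ S') (hs : S' ≤ 3 / 5 + (ρ * e) * (ρ * e) / 3) :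
    ∃ i j l : ℕ, 0 < (lowUpCorn i j l).val e v ρ S' := by
  have h_e0 : 0 ≤ e := by linarith
  rcases lt_or_ge e (50 / 100000) with g0 | g0
  · exact low_up_corn_1 (by linarith) (by linarith) (by linarith)
      (lowV_lt hA ((mul_le_mul (show ρ ≤ (14927 / 10000 : ℝ) by linarith) (show e ≤ (50 / 100000 : ℝ) by linarith) h_e0 (by norm_num)).trans
        (show (14927 / 10000 : ℝ) * (50 / 100000) ≤ (14927 / 20000000 : ℝ) by norm_num)) (by linarith) (by norm_num) (by norm_num)) (by linarith) (by linarith) hA h5 hs0 hs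
  rcases lt_or_ge e (200 / 100000) with g1 | g1
  · exact low_up_corn_4 (by linarith) (by linarith) (by linarith)
      (lowV_lt hA ((mul_le_mul (show ρ ≤ (14927 / 10000 : ℝ) by linarith) (show e ≤ (200 / 100000 : ℝ) by linarith) h_e0 (by norm_num)).trans
        (show (14927 / 10000 : ℝ) * (200 / 100000) ≤ (14927 / 5000000 : ℝ) by norm_num)) (by linarith) (by norm_num) (by norm_num)) (by linarith) (by linarith) hA h5 hs0 hs
  rcases lt_or_ge e (800 / 100000) with g2 | g2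
  · exact low_up_corn_7 (by linarith) (by linarith) (by linarith)
      (lowV_lt hA ((mul_le_mul (show ρ ≤ (14927 / 10000 : ℝ) by linarith) (show e ≤ (800 / 100000 : ℝ) by linarith) h_e0 (by norm_num)).trans
        (show (14927 / 10000 : ℝ) * (800 / 100000) ≤ (14927 / 1250000 : ℝ) by norm_num)) (by linarith) (by norm_num) (by norm_num)) (by linarith) (by linarith) hA h5 hs0 hs
  exact low_up_corn_16 (by linarith) (by linarith) (by linarith)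
      (lowV_lt hA ((mul_le_mul (show ρ ≤ (14927 / 10000 : ℝ) by linarith) (show e ≤ (2502 / 100000 : ℝ) by linarith) h_e0 (by norm_num)).trans
        (show (14927 / 10000 : ℝ) * (2502 / 100000) ≤ (18673677 / 500000000 : ℝ) by norm_num)) (by linarith) (by norm_num) (by norm_num)) (by linarith) (by linarith) hA h5 hs0 hs

end Vale.Agent.P100.Calib.Band
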