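import Vale.Agent.P100.Calib.SlabUpperLowBox

/-!
# Certificates of the tilted upper band, low piece (flat)
-/

namespace Vale.Agent.P100.Calib.Band

open BoxPos

theorem low_up_0 : (lowUpCond 0 960 0).checkQuick lowFlatCfg
    (lowUpBox 6000 7171 10000 3300 19836 0 250 600209) = true := by decide +kernel

theorem low_up_1 : (lowUpCond 0 1076 0).checkQuick lowFlatCfg
    (lowUpBox 6000 7171 10000 3300 11568 250 501 600837) = true := by decide +kernel

theorem low_up_2 : (lowUpCond 0 0 0).checkQuick lowFlatCfg
    (lowUpBox 6000 7171 10000 11568 19836 250 501 600837) = true := by decide +kernel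

theorem low_up_3 : (lowUpCond 0 1148 0).checkQuick lowFlatCfg
    (lowUpBox 7171 8000 10000 3300 11568 0 250 600209) = true := by decide +kernel

theorem low_up_4 : (lowUpCond 0 0 0).checkQuick lowFlatCfg
    (lowUpBox 7171 8000 10000 11568 19836 0 250 600209) = true := by decide +kernel

theorem low_up_5 : (lowUpCond 0 1226 0).checkQuick lowFlatCfg
    (lowUpBox 7171 8000 10000 3300 11568 250 501 600837) = true := by decide +kernel

theorem low_up_6 : (lowUpCond 0 0 0).checkQuick lowFlatCfg
    (lowUpBox 7171 8000 10000 11568 19836 250 501 600837) = true := by decide +kernel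

theorem low_up_7 : (lowUpCond 0 0 0).checkQuick lowFlatCfg
    (lowUpBox 6000 8000 10000 19836 36372 0 501 600837) = true := by decide +kernel

theorem low_up_8 : (lowUpCond 0 1096 0).checkQuick lowFlatCfg
    (lowUpBox 8000 8585 10000 3300 11568 0 250 600209) = true := by decide +kernel

theorem low_up_9 : (lowUpCond 0 0 0).checkQuick lowFlatCfg
    (lowUpBox 8000 8585 10000 11568 19836 0 250 600209) = true := by decide +kernel

theorem low_up_10 : (lowUpCond 0 1197 0).checkQuick lowFlatCfg
    (lowUpBox 8000 8317 10000 3300 11568 250 501 600837) = true := by decide +kernel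

theorem low_up_11 : (lowUpCond 0 1120 0).checkQuick lowFlatCfg
    (lowUpBox 8317 8585 10000 3300 11568 250 375 600469) = true := by decide +kernel

theorem low_up_12 : (lowUpCond 0 71277900186 0).checkQuick lowFlatCfg
    (lowUpBox 8317 8585 10000 3300 7434 375 501 600837) = true := by decide +kernel

theorem low_up_13 : (lowUpCond 0 1113 0).checkQuick lowFlatCfg
    (lowUpBox 8317 8585 10000 7434 11568 375 501 600837) = true := by decide +kernel

theorem low_up_14 : (lowUpCond 0 0 0).checkQuick lowFlatCfg
    (lowUpBox 8000 8585 10000 11568 19836 250 501 600837) = true := by decide +kernel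

theorem low_up_15 : (lowUpCond 0 1071 0).checkQuick lowFlatCfg
    (lowUpBox 8585 9000 10000 3300 11568 0 250 600209) = true := by decide +kernel

theorem low_up_16 : (lowUpCond 0 860 0).checkQuick lowFlatCfg
    (lowUpBox 8585 9000 10000 11568 19836 0 250 600209) = true := by decide +kernel

theorem low_up_17 : (lowUpCond 0 79600453943 0).checkQuick lowFlatCfg
    (lowUpBox 8585 8810 10000 3300 7434 250 375 600469) = true := by decide +kernel

theorem low_up_18 : (lowUpCond 0 1054 0).checkQuick lowFlatCfg
    (lowUpBox 8585 8810 10000 7434 11568 250 375 600469) = true := by decide +kernel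

theorem low_up_19 : (lowUpCond 0 74362581112 0).checkQuick lowFlatCfg
    (lowUpBox 8585 8810 10000 3300 7434 375 501 600837) = true := by decide +kernel

theorem low_up_20 : (lowUpCond 0 1071 0).checkQuick lowFlatCfg
    (lowUpBox 8585 8702 10000 7434 11568 375 438 600640) = true := by decide +kernel

theorem low_up_21 : (lowUpCond 0 1196 0).checkQuick lowFlatCfg
    (lowUpBox 8585 8702 10000 7434 9501 438 501 600837) = true := by decide +kernel

theorem low_up_22 : (lowUpCond 0 0 0).checkQuick lowFlatCfg
    (lowUpBox 8585 8702 10000 9501 11568 438 501 600837) = true := by decide +kernel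

theorem low_up_23 : (lowUpCond 0 1072 0).checkQuick lowFlatCfg
    (lowUpBox 8702 8810 10000 7434 11568 375 438 600640) = true := by decide +kernel

theorem low_up_24 : (lowUpCond 0 1163 0).checkQuick lowFlatCfg
    (lowUpBox 8702 8810 10000 7434 9501 438 501 600837) = true := by decide +kernel

theorem low_up_25 : (lowUpCond 0 1065 0).checkQuick lowFlatCfg
    (lowUpBox 8702 8810 10000 9501 11568 438 501 600837) = true := by decide +kernel

theorem low_up_26 : (lowUpCond 0 83078096057 0).checkQuick lowFlatCfg
    (lowUpBox 8810 9000 10000 3300 7434 250 375 600469) = true := by decide +kernel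

theorem low_up_27 : (lowUpCond 0 1031 0).checkQuick lowFlatCfg
    (lowUpBox 8810 8909 10000 7434 11568 250 375 600469) = true := by decide +kernel

theorem low_up_28 : (lowUpCond 0 1008 0).checkQuick lowFlatCfg
    (lowUpBox 8909 9000 10000 7434 11568 250 375 600469) = true := by decide +kernel

theorem low_up_29 : (lowUpCond 0 77663997965 0).checkQuick lowFlatCfg
    (lowUpBox 8810 9000 10000 3300 7434 375 501 600837) = true := by decide +kernel

theorem low_up_30 : (lowUpCond 0 119477719858 0).checkQuick lowFlatCfg
    (lowUpBox 8810 8909 10000 7434 9501 375 438 600640) = true := by decide +kernel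

theorem low_up_31 : (lowUpCond 0 1013 0).checkQuick lowFlatCfg
    (lowUpBox 8810 8860 10000 9501 11568 375 438 600640) = true := by decide +kernel

theorem low_up_32 : (lowUpCond 0 982 0).checkQuick lowFlatCfg
    (lowUpBox 8860 8909 10000 9501 11568 375 406 600550) = true := by decide +kernel

theorem low_up_33 : (lowUpCond 0 1038 0).checkQuick lowFlatCfg
    (lowUpBox 8860 8909 10000 9501 10534 406 438 600640) = true := by decide +kernel

theorem low_up_34 : (lowUpCond 0 0 0).checkQuick lowFlatCfg
    (lowUpBox 8860 8909 10000 10534 11568 406 438 600640) = true := by decide +kernel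

theorem low_up_35 : (lowUpCond 0 115480507779 0).checkQuick lowFlatCfg
    (lowUpBox 8810 8909 10000 7434 9501 438 501 600837) = true := by decide +kernel

theorem low_up_36 : (lowUpCond 0 1060 0).checkQuick lowFlatCfg
    (lowUpBox 8810 8860 10000 9501 11568 438 501 600837) = true := by decide +kernel

theorem low_up_37 : (lowUpCond 0 1046 0).checkQuick lowFlatCfg
    (lowUpBox 8860 8909 10000 9501 11568 438 501 600837) = true := by decide +kernel

theorem low_up_38 : (lowUpCond 0 116787471688 0).checkQuick lowFlatCfg
    (lowUpBox 8909 9000 10000 7434 9501 375 438 600640) = true := by decide +kernel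

theorem low_up_39 : (lowUpCond 0 1028 0).checkQuick lowFlatCfg
    (lowUpBox 8909 8955 10000 9501 11568 375 438 600640) = true := by decide +kernel

theorem low_up_40 : (lowUpCond 0 983 0).checkQuick lowFlatCfg
    (lowUpBox 8955 9000 10000 9501 11568 375 406 600550) = true := by decide +kernel

theorem low_up_41 : (lowUpCond 0 1102 0).checkQuick lowFlatCfg
    (lowUpBox 8955 9000 10000 9501 10534 406 438 600640) = true := by decide +kernel

theorem low_up_42 : (lowUpCond 0 971 0).checkQuick lowFlatCfg
    (lowUpBox 8955 9000 10000 10534 11568 406 438 600640) = true := by decide +kernel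

theorem low_up_43 : (lowUpCond 0 112786680557 0).checkQuick lowFlatCfg
    (lowUpBox 8909 9000 10000 7434 9501 438 501 600837) = true := by decide +kernel

theorem low_up_44 : (lowUpCond 0 1068 0).checkQuick lowFlatCfg
    (lowUpBox 8909 8955 10000 9501 10534 438 469 600734) = true := by decide +kernel

theorem low_up_45 : (lowUpCond 0 0 0).checkQuick lowFlatCfg
    (lowUpBox 8909 8955 10000 10534 11568 438 469 600734) = true := by decide +kernel

theorem low_up_46 : (lowUpCond 0 1040 0).checkQuick lowFlatCfg
    (lowUpBox 8909 8955 10000 9501 10534 469 501 600837) = true := by decide +kernel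

end Vale.Agent.P100.Calib.Band
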