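import Vale.Agent.P100.Calib.SlabUpperLowBox

/-!
# Certificates of the tilted upper band, low piece (flat)
-/

namespace Vale.Agent.P100.Calib.Band

open BoxPos

theorem low_up_47 : (lowUpCond 0 0 0).checkQuick lowFlatCfg
    (lowUpBox 8909 8955 10000 10534 11568 469 501 600837) = true := by decide +kernel

theorem low_up_48 : (lowUpCond 0 1034 0).checkQuick lowFlatCfg
    (lowUpBox 8955 9000 10000 9501 11568 438 501 600837) = true := by decide +kernel

theorem low_up_49 : (lowUpCond 0 0 0).checkQuick lowFlatCfg
    (lowUpBox 8585 9000 10000 11568 19836 250 501 600837) = true := by decide +kernel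

theorem low_up_50 : (lowUpCond 0 0 0).checkQuick lowFlatCfg
    (lowUpBox 8000 9000 10000 19836 36372 0 501 600837) = true := by decide +kernel

theorem low_up_51 : (lowUpCond 0 1121 0).checkQuick lowFlatCfg
    (lowUpBox 9000 9292 10000 3300 11568 0 250 600209) = true := by decide +kernel

theorem low_up_52 : (lowUpCond 0 881 0).checkQuick lowFlatCfg
    (lowUpBox 9000 9082 10000 11568 15702 0 125 600053) = true := by decide +kernel

theorem low_up_53 : (lowUpCond 0 891 0).checkQuick lowFlatCfg
    (lowUpBox 9082 9158 10000 11568 15702 0 62 600013) = true := by decide +kernel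

theorem low_up_54 : (lowUpCond 0 825 0).checkQuick lowFlatCfg
    (lowUpBox 9082 9158 10000 11568 15702 62 125 600053) = true := by decide +kernel

theorem low_up_55 : (lowUpCond 0 0 0).checkQuick lowFlatCfg
    (lowUpBox 9000 9158 10000 15702 19836 0 125 600053) = true := by decide +kernel

theorem low_up_56 : (lowUpCond 0 805 0).checkQuick lowFlatCfg
    (lowUpBox 9000 9158 10000 11568 19836 125 250 600209) = true := by decide +kernel

theorem low_up_57 : (lowUpCond 0 896 0).checkQuick lowFlatCfg
    (lowUpBox 9158 9227 10000 11568 15702 0 62 600013) = true := by decide +kernel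

theorem low_up_58 : (lowUpCond 0 796 0).checkQuick lowFlatCfg
    (lowUpBox 9158 9227 10000 11568 15702 62 125 600053) = true := by decide +kernel

theorem low_up_59 : (lowUpCond 0 890 0).checkQuick lowFlatCfg
    (lowUpBox 9227 9292 10000 11568 15702 0 62 600013) = true := by decide +kernel

theorem low_up_60 : (lowUpCond 0 832 0).checkQuick lowFlatCfg
    (lowUpBox 9227 9292 10000 11568 15702 62 125 600053) = true := by decide +kernel

theorem low_up_61 : (lowUpCond 0 0 0).checkQuick lowFlatCfg
    (lowUpBox 9158 9292 10000 15702 19836 0 125 600053) = true := by decide +kernel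

theorem low_up_62 : (lowUpCond 0 728 0).checkQuick lowFlatCfg
    (lowUpBox 9158 9292 10000 11568 19836 125 250 600209) = true := by decide +kernel

theorem low_up_63 : (lowUpCond 0 1001 0).checkQuick lowFlatCfg
    (lowUpBox 9000 9158 10000 3300 11568 250 375 600469) = true := by decide +kernel

theorem low_up_64 : (lowUpCond 0 81341161761 0).checkQuick lowFlatCfg
    (lowUpBox 9000 9158 10000 3300 7434 375 501 600837) = true := by decide +kernel

theorem low_up_65 : (lowUpCond 0 115314788016 0).checkQuick lowFlatCfg
    (lowUpBox 9000 9082 10000 7434 9501 375 438 600640) = true := by decide +kernel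

theorem low_up_66 : (lowUpCond 0 1002 0).checkQuick lowFlatCfg
    (lowUpBox 9000 9082 10000 9501 11568 375 438 600640) = true := by decide +kernel

theorem low_up_67 : (lowUpCond 0 111302241529 0).checkQuick lowFlatCfg
    (lowUpBox 9000 9082 10000 7434 9501 438 501 600837) = true := by decide +kernel

theorem low_up_68 : (lowUpCond 0 1014 0).checkQuick lowFlatCfg
    (lowUpBox 9000 9082 10000 9501 11568 438 501 600837) = true := by decide +kernel

theorem low_up_69 : (lowUpCond 0 1078 0).checkQuick lowFlatCfg
    (lowUpBox 9082 9158 10000 7434 11568 375 501 600837) = true := by decide +kernel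

theorem low_up_70 : (lowUpCond 0 1056 0).checkQuick lowFlatCfg
    (lowUpBox 9158 9292 10000 3300 11568 250 501 600837) = true := by decide +kernel

theorem low_up_71 : (lowUpCond 0 721 0).checkQuick lowFlatCfg
    (lowUpBox 9000 9292 10000 11568 19836 250 501 600837) = true := by decide +kernel

theorem low_up_72 : (lowUpCond 0 105447561848 0).checkQuick lowFlatCfg
    (lowUpBox 9292 9500 10000 3300 11568 0 250 600209) = true := by decide +kernel

theorem low_up_73 : (lowUpCond 0 894 0).checkQuick lowFlatCfg
    (lowUpBox 9292 9350 10000 11568 15702 0 62 600013) = true := by decide +kernel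

theorem low_up_74 : (lowUpCond 0 772 0).checkQuick lowFlatCfg
    (lowUpBox 9292 9350 10000 11568 15702 62 125 600053) = true := by decide +kernel

theorem low_up_75 : (lowUpCond 0 1184 0).checkQuick lowFlatCfg
    (lowUpBox 9350 9405 10000 11568 15702 0 62 600013) = true := by decide +kernel

theorem low_up_76 : (lowUpCond 0 787 0).checkQuick lowFlatCfg
    (lowUpBox 9350 9405 10000 11568 15702 62 125 600053) = true := by decide +kernel

theorem low_up_77 : (lowUpCond 0 751 0).checkQuick lowFlatCfg
    (lowUpBox 9292 9350 10000 15702 19836 0 62 600013) = true := by decide +kernel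

theorem low_up_78 : (lowUpCond 0 0 0).checkQuick lowFlatCfg
    (lowUpBox 9292 9350 10000 15702 19836 62 125 600053) = true := by decide +kernel

theorem low_up_79 : (lowUpCond 0 738 0).checkQuick lowFlatCfg
    (lowUpBox 9350 9405 10000 15702 19836 0 62 600013) = true := by decide +kernel

theorem low_up_80 : (lowUpCond 0 456 0).checkQuick lowFlatCfg
    (lowUpBox 9350 9405 10000 15702 19836 62 125 600053) = true := by decide +kernel

theorem low_up_81 : (lowUpCond 0 682 0).checkQuick lowFlatCfg
    (lowUpBox 9292 9405 10000 11568 19836 125 250 600209) = true := by decide +kernel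

theorem low_up_82 : (lowUpCond 0 1573 0).checkQuick lowFlatCfg
    (lowUpBox 9405 9500 10000 11568 15702 0 125 600053) = true := by decide +kernel

theorem low_up_83 : (lowUpCond 0 769 0).checkQuick lowFlatCfg
    (lowUpBox 9405 9500 10000 15702 19836 0 125 600053) = true := by decide +kernel

theorem low_up_84 : (lowUpCond 0 592 0).checkQuick lowFlatCfg
    (lowUpBox 9405 9500 10000 11568 19836 125 250 600209) = true := by decide +kernel

theorem low_up_85 : (lowUpCond 0 105026523996 0).checkQuick lowFlatCfg
    (lowUpBox 9292 9500 10000 3300 11568 250 501 600837) = true := by decide +kernel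

theorem low_up_86 : (lowUpCond 0 665 0).checkQuick lowFlatCfg
    (lowUpBox 9292 9500 10000 11568 19836 250 501 600837) = true := by decide +kernel

theorem low_up_87 : (lowUpCond 0 0 0).checkQuick lowFlatCfg
    (lowUpBox 9000 9500 10000 19836 36372 0 501 600837) = true := by decide +kernel

theorem low_up_88 : (lowUpCond 0 113746570581 0).checkQuick lowFlatCfg
    (lowUpBox 9500 9647 10000 3300 11568 0 250 600209) = true := by decide +kernel

theorem low_up_89 : (lowUpCond 0 806 0).checkQuick lowFlatCfg
    (lowUpBox 9500 9647 10000 11568 19836 0 250 600209) = true := by decide +kernel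

theorem low_up_90 : (lowUpCond 0 667 0).checkQuick lowFlatCfg
    (lowUpBox 9500 9647 10000 3300 19836 250 501 600837) = true := by decide +kernel

theorem low_up_91 : (lowUpCond 0 850 0).checkQuick lowFlatCfg
    (lowUpBox 9647 9751 10000 3300 19836 0 501 600837) = true := by decide +kernel

theorem low_up_92 : (lowUpCond 0 0 0).checkQuick lowFlatCfg
    (lowUpBox 9500 9647 10000 19836 36372 0 501 600837) = true := by decide +kernel

theorem low_up_93 : (lowUpCond 0 0 0).checkQuick lowFlatCfg
    (lowUpBox 9647 9751 10000 19836 34784 0 250 600209) = true := by decide +kernel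

end Vale.Agent.P100.Calib.Band
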