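import Vale.Agent.P100.Calib.SlabUpperLowBox

/-!
# Certificates of the tilted upper band, low piece (flat)
-/

namespace Vale.Agent.P100.Calib.Band

open BoxPos

theorem low_up_94 : (lowUpCond 9186 0 2).checkQuick lowFlatCfg
    (lowUpBox 9647 9751 10000 19836 36372 250 501 600837) = true := by decide +kernel

end Vale.Agent.P100.Calib.Band
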