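import Vale.Agent.P100.Calib.SlabTailSide
import Vale.Agent.P100.Calib.SlabUpperLowFlatA
import Vale.Agent.P100.Calib.SlabUpperLowFlatB
import Vale.Agent.P100.Calib.SlabUpperLowFlatC

/-!
# The signs of the tilted upper band, low piece (flat)
-/

namespace Vale.Agent.P100.Calib.Band

open BoxPos

theorem low_up_flat_4 {u v d S' : ℝ} (hx0 : 6000 / 10000 ≤ u) (hx1 : u < 7171 / 10000)
    (hy0 : 3300 / 10000 ≤ v) (hy1 : v < 19836 / 10000) (hz0 : 0 / 10000 ≤ d) (hz1 : d < 250 / 10000)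
    (hA : (3 / 5 - d) * v < 2) (h5 : d ≤ 1 / 20) (hs0 : 3 / 5 ≤ S') (hs : S' ≤ 3 / 5 + (d) * (d) / 3) :
    ∃ i j l : ℕ, 0 < (lowUpCond i j l).val u v d S' := by
  exact ⟨0, 960, 0, Ex.pos_of_checkQuick low_up_0 (lowMem 10000 (by push_cast; linarith) hx1) (lowMem 10000 hy0 hy1)
    (lowMem 10000 (by push_cast; linarith) hz1) (lowS_mem (by linarith) (show d ≤ (1 / 40 : ℝ) by linarith) hs hs0 (by norm_num))⟩

theorem low_up_flat_6 {u v d S' : ℝ} (hx0 : 6000 / 10000 ≤ u) (hx1 : u < 7171 / 10000)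
    (hy0 : 3300 / 10000 ≤ v) (hy1 : v < 11568 / 10000) (hz0 : 250 / 10000 ≤ d) (hz1 : d < 501 / 10000)
    (hA : (3 / 5 - d) * v < 2) (h5 : d ≤ 1 / 20) (hs0 : 3 / 5 ≤ S') (hs : S' ≤ 3 / 5 + (d) * (d) / 3) :
    ∃ i j l : ℕ, 0 < (lowUpCond i j l).val u v d S' := by
  exact ⟨0, 1076, 0, Ex.pos_of_checkQuick low_up_1 (lowMem 10000 (by push_cast; linarith) hx1) (lowMem 10000 hy0 hy1)
    (lowMem 10000 (by push_cast; linarith) hz1) (lowS_mem (by linarith) (show d ≤ (501 / 10000 : ℝ) by linarith) hs hs0 (by norm_num))⟩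

theorem low_up_flat_7 {u v d S' : ℝ} (hx0 : 6000 / 10000 ≤ u) (hx1 : u < 7171 / 10000)
    (hy0 : 11568 / 10000 ≤ v) (hy1 : v < 19836 / 10000) (hz0 : 250 / 10000 ≤ d) (hz1 : d < 501 / 10000)
    (hA : (3 / 5 - d) * v < 2) (h5 : d ≤ 1 / 20) (hs0 : 3 / 5 ≤ S') (hs : S' ≤ 3 / 5 + (d) * (d) / 3) :
    ∃ i j l : ℕ, 0 < (lowUpCond i j l).val u v d S' := by
  exact ⟨0, 0, 0, Ex.pos_of_checkQuick low_up_2 (lowMem 10000 (by push_cast; linarith) hx1) (lowMem 10000 hy0 hy1)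
    (lowMem 10000 (by push_cast; linarith) hz1) (lowS_mem (by linarith) (show d ≤ (501 / 10000 : ℝ) by linarith) hs hs0 (by norm_num))⟩

theorem low_up_flat_5 {u v d S' : ℝ} (hx0 : 6000 / 10000 ≤ u) (hx1 : u < 7171 / 10000)
    (hy0 : 3300 / 10000 ≤ v) (hy1 : v < 19836 / 10000) (hz0 : 250 / 10000 ≤ d) (hz1 : d < 501 / 10000)
    (hA : (3 / 5 - d) * v < 2) (h5 : d ≤ 1 / 20) (hs0 : 3 / 5 ≤ S') (hs : S' ≤ 3 / 5 + (d) * (d) / 3) :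
    ∃ i j l : ℕ, 0 < (lowUpCond i j l).val u v d S' := by
  rcases lt_or_ge v (11568 / 10000) with g | g
  · exact low_up_flat_6 hx0 hx1 hy0
      g hz0 hz1 hA h5 hs0 hs
  · exact low_up_flat_7 hx0 hx1 g
      hy1 hz0 hz1 hA h5 hs0 hs

theorem low_up_flat_3 {u v d S' : ℝ} (hx0 : 6000 / 10000 ≤ u) (hx1 : u < 7171 / 10000)
    (hy0 : 3300 / 10000 ≤ v) (hy1 : v < 19836 / 10000) (hz0 : 0 / 10000 ≤ d) (hz1 : d < 501 / 10000)
    (hA : (3 / 5 - d) * v < 2) (h5 : d ≤ 1 / 20) (hs0 : 3 / 5 ≤ S') (hs : S' ≤ 3 / 5 + (d) * (d) / 3) :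
    ∃ i j l : ℕ, 0 < (lowUpCond i j l).val u v d S' := by
  rcases lt_or_ge d (250 / 10000) with g | g
  · exact low_up_flat_4 hx0 hx1 hy0
      hy1 hz0 g hA h5 hs0 hs
  · exact low_up_flat_5 hx0 hx1 hy0
      hy1 g hz1 hA h5 hs0 hs

theorem low_up_flat_10 {u v d S' : ℝ} (hx0 : 7171 / 10000 ≤ u) (hx1 : u < 8000 / 10000)
    (hy0 : 3300 / 10000 ≤ v) (hy1 : v < 11568 / 10000) (hz0 : 0 / 10000 ≤ d) (hz1 : d < 250 / 10000)
    (hA : (3 / 5 - d) * v < 2) (h5 : d ≤ 1 / 20) (hs0 : 3 / 5 ≤ S') (hs : S' ≤ 3 / 5 + (d) * (d) / 3) :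
    ∃ i j l : ℕ, 0 < (lowUpCond i j l).val u v d S' := by
  exact ⟨0, 1148, 0, Ex.pos_of_checkQuick low_up_3 (lowMem 10000 (by push_cast; linarith) hx1) (lowMem 10000 hy0 hy1)
    (lowMem 10000 (by push_cast; linarith) hz1) (lowS_mem (by linarith) (show d ≤ (1 / 40 : ℝ) by linarith) hs hs0 (by norm_num))⟩

theorem low_up_flat_11 {u v d S' : ℝ} (hx0 : 7171 / 10000 ≤ u) (hx1 : u < 8000 / 10000)
    (hy0 : 11568 / 10000 ≤ v) (hy1 : v < 19836 / 10000) (hz0 : 0 / 10000 ≤ d) (hz1 : d < 250 / 10000)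
    (hA : (3 / 5 - d) * v < 2) (h5 : d ≤ 1 / 20) (hs0 : 3 / 5 ≤ S') (hs : S' ≤ 3 / 5 + (d) * (d) / 3) :
    ∃ i j l : ℕ, 0 < (lowUpCond i j l).val u v d S' := by
  exact ⟨0, 0, 0, Ex.pos_of_checkQuick low_up_4 (lowMem 10000 (by push_cast; linarith) hx1) (lowMem 10000 hy0 hy1)
    (lowMem 10000 (by push_cast; linarith) hz1) (lowS_mem (by linarith) (show d ≤ (1 / 40 : ℝ) by linarith) hs hs0 (by norm_num))⟩

theorem low_up_flat_9 {u v d S' : ℝ} (hx0 : 7171 / 10000 ≤ u) (hx1 : u < 8000 / 10000)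
    (hy0 : 3300 / 10000 ≤ v) (hy1 : v < 19836 / 10000) (hz0 : 0 / 10000 ≤ d) (hz1 : d < 250 / 10000)
    (hA : (3 / 5 - d) * v < 2) (h5 : d ≤ 1 / 20) (hs0 : 3 / 5 ≤ S') (hs : S' ≤ 3 / 5 + (d) * (d) / 3) :
    ∃ i j l : ℕ, 0 < (lowUpCond i j l).val u v d S' := by
  rcases lt_or_ge v (11568 / 10000) with g | g
  · exact low_up_flat_10 hx0 hx1 hy0
      g hz0 hz1 hA h5 hs0 hs
  · exact low_up_flat_11 hx0 hx1 g
      hy1 hz0 hz1 hA h5 hs0 hs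

theorem low_up_flat_13 {u v d S' : ℝ} (hx0 : 7171 / 10000 ≤ u) (hx1 : u < 8000 / 10000)
    (hy0 : 3300 / 10000 ≤ v) (hy1 : v < 11568 / 10000) (hz0 : 250 / 10000 ≤ d) (hz1 : d < 501 / 10000)
    (hA : (3 / 5 - d) * v < 2) (h5 : d ≤ 1 / 20) (hs0 : 3 / 5 ≤ S') (hs : S' ≤ 3 / 5 + (d) * (d) / 3) :
    ∃ i j l : ℕ, 0 < (lowUpCond i j l).val u v d S' := by
  exact ⟨0, 1226, 0, Ex.pos_of_checkQuick low_up_5 (lowMem 10000 (by push_cast; linarith) hx1) (lowMem 10000 hy0 hy1)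
    (lowMem 10000 (by push_cast; linarith) hz1) (lowS_mem (by linarith) (show d ≤ (501 / 10000 : ℝ) by linarith) hs hs0 (by norm_num))⟩

theorem low_up_flat_14 {u v d S' : ℝ} (hx0 : 7171 / 10000 ≤ u) (hx1 : u < 8000 / 10000)
    (hy0 : 11568 / 10000 ≤ v) (hy1 : v < 19836 / 10000) (hz0 : 250 / 10000 ≤ d) (hz1 : d < 501 / 10000)
    (hA : (3 / 5 - d) * v < 2) (h5 : d ≤ 1 / 20) (hs0 : 3 / 5 ≤ S') (hs : S' ≤ 3 / 5 + (d) * (d) / 3) :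
    ∃ i j l : ℕ, 0 < (lowUpCond i j l).val u v d S' := by
  exact ⟨0, 0, 0, Ex.pos_of_checkQuick low_up_6 (lowMem 10000 (by push_cast; linarith) hx1) (lowMem 10000 hy0 hy1)
    (lowMem 10000 (by push_cast; linarith) hz1) (lowS_mem (by linarith) (show d ≤ (501 / 10000 : ℝ) by linarith) hs hs0 (by norm_num))⟩

theorem low_up_flat_12 {u v d S' : ℝ} (hx0 : 7171 / 10000 ≤ u) (hx1 : u < 8000 / 10000)
    (hy0 : 3300 / 10000 ≤ v) (hy1 : v < 19836 / 10000) (hz0 : 250 / 10000 ≤ d) (hz1 : d < 501 / 10000)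
    (hA : (3 / 5 - d) * v < 2) (h5 : d ≤ 1 / 20) (hs0 : 3 / 5 ≤ S') (hs : S' ≤ 3 / 5 + (d) * (d) / 3) :
    ∃ i j l : ℕ, 0 < (lowUpCond i j l).val u v d S' := by
  rcases lt_or_ge v (11568 / 10000) with g | g
  · exact low_up_flat_13 hx0 hx1 hy0
      g hz0 hz1 hA h5 hs0 hs
  · exact low_up_flat_14 hx0 hx1 g
      hy1 hz0 hz1 hA h5 hs0 hs

theorem low_up_flat_8 {u v d S' : ℝ} (hx0 : 7171 / 10000 ≤ u) (hx1 : u < 8000 / 10000)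
    (hy0 : 3300 / 10000 ≤ v) (hy1 : v < 19836 / 10000) (hz0 : 0 / 10000 ≤ d) (hz1 : d < 501 / 10000)
    (hA : (3 / 5 - d) * v < 2) (h5 : d ≤ 1 / 20) (hs0 : 3 / 5 ≤ S') (hs : S' ≤ 3 / 5 + (d) * (d) / 3) :
    ∃ i j l : ℕ, 0 < (lowUpCond i j l).val u v d S' := by
  rcases lt_or_ge d (250 / 10000) with g | g
  · exact low_up_flat_9 hx0 hx1 hy0
      hy1 hz0 g hA h5 hs0 hs
  · exact low_up_flat_12 hx0 hx1 hy0
      hy1 g hz1 hA h5 hs0 hs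

theorem low_up_flat_2 {u v d S' : ℝ} (hx0 : 6000 / 10000 ≤ u) (hx1 : u < 8000 / 10000)
    (hy0 : 3300 / 10000 ≤ v) (hy1 : v < 19836 / 10000) (hz0 : 0 / 10000 ≤ d) (hz1 : d < 501 / 10000)
    (hA : (3 / 5 - d) * v < 2) (h5 : d ≤ 1 / 20) (hs0 : 3 / 5 ≤ S') (hs : S' ≤ 3 / 5 + (d) * (d) / 3) :
    ∃ i j l : ℕ, 0 < (lowUpCond i j l).val u v d S' := by
  rcases lt_or_ge u (7171 / 10000) with g | g
  · exact low_up_flat_3 hx0 g hy0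
      hy1 hz0 hz1 hA h5 hs0 hs
  · exact low_up_flat_8 g hx1 hy0
      hy1 hz0 hz1 hA h5 hs0 hs

theorem low_up_flat_15 {u v d S' : ℝ} (hx0 : 6000 / 10000 ≤ u) (hx1 : u < 8000 / 10000)
    (hy0 : 19836 / 10000 ≤ v) (hy1 : v < 36372 / 10000) (hz0 : 0 / 10000 ≤ d) (hz1 : d < 501 / 10000)
    (hA : (3 / 5 - d) * v < 2) (h5 : d ≤ 1 / 20) (hs0 : 3 / 5 ≤ S') (hs : S' ≤ 3 / 5 + (d) * (d) / 3) :
    ∃ i j l : ℕ, 0 < (lowUpCond i j l).val u v d S' := by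
  exact ⟨0, 0, 0, Ex.pos_of_checkQuick low_up_7 (lowMem 10000 (by push_cast; linarith) hx1) (lowMem 10000 hy0 hy1)
    (lowMem 10000 (by push_cast; linarith) hz1) (lowS_mem (by linarith) (show d ≤ (501 / 10000 : ℝ) by linarith) hs hs0 (by norm_num))⟩

theorem low_up_flat_1 {u v d S' : ℝ} (hx0 : 6000 / 10000 ≤ u) (hx1 : u < 8000 / 10000)
    (hy0 : 3300 / 10000 ≤ v) (hy1 : v < 36372 / 10000) (hz0 : 0 / 10000 ≤ d) (hz1 : d < 501 / 10000)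
    (hA : (3 / 5 - d) * v < 2) (h5 : d ≤ 1 / 20) (hs0 : 3 / 5 ≤ S') (hs : S' ≤ 3 / 5 + (d) * (d) / 3) :
    ∃ i j l : ℕ, 0 < (lowUpCond i j l).val u v d S' := by
  rcases lt_or_ge v (19836 / 10000) with g | g
  · exact low_up_flat_2 hx0 hx1 hy0
      g hz0 hz1 hA h5 hs0 hs
  · exact low_up_flat_15 hx0 hx1 g
      hy1 hz0 hz1 hA h5 hs0 hs

theorem low_up_flat_20 {u v d S' : ℝ} (hx0 : 8000 / 10000 ≤ u) (hx1 : u < 8585 / 10000)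
    (hy0 : 3300 / 10000 ≤ v) (hy1 : v < 11568 / 10000) (hz0 : 0 / 10000 ≤ d) (hz1 : d < 250 / 10000)
    (hA : (3 / 5 - d) * v < 2) (h5 : d ≤ 1 / 20) (hs0 : 3 / 5 ≤ S') (hs : S' ≤ 3 / 5 + (d) * (d) / 3) :
    ∃ i j l : ℕ, 0 < (lowUpCond i j l).val u v d S' := by
  exact ⟨0, 1096, 0, Ex.pos_of_checkQuick low_up_8 (lowMem 10000 (by push_cast; linarith) hx1) (lowMem 10000 hy0 hy1)
    (lowMem 10000 (by push_cast; linarith) hz1) (lowS_mem (by linarith) (show d ≤ (1 / 40 : ℝ) by linarith) hs hs0 (by norm_num))⟩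

theorem low_up_flat_21 {u v d S' : ℝ} (hx0 : 8000 / 10000 ≤ u) (hx1 : u < 8585 / 10000)
    (hy0 : 11568 / 10000 ≤ v) (hy1 : v < 19836 / 10000) (hz0 : 0 / 10000 ≤ d) (hz1 : d < 250 / 10000)
    (hA : (3 / 5 - d) * v < 2) (h5 : d ≤ 1 / 20) (hs0 : 3 / 5 ≤ S') (hs : S' ≤ 3 / 5 + (d) * (d) / 3) :
    ∃ i j l : ℕ, 0 < (lowUpCond i j l).val u v d S' := by
  exact ⟨0, 0, 0, Ex.pos_of_checkQuick low_up_9 (lowMem 10000 (by push_cast; linarith) hx1) (lowMem 10000 hy0 hy1)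
    (lowMem 10000 (by push_cast; linarith) hz1) (lowS_mem (by linarith) (show d ≤ (1 / 40 : ℝ) by linarith) hs hs0 (by norm_num))⟩

theorem low_up_flat_19 {u v d S' : ℝ} (hx0 : 8000 / 10000 ≤ u) (hx1 : u < 8585 / 10000)
    (hy0 : 3300 / 10000 ≤ v) (hy1 : v < 19836 / 10000) (hz0 : 0 / 10000 ≤ d) (hz1 : d < 250 / 10000)
    (hA : (3 / 5 - d) * v < 2) (h5 : d ≤ 1 / 20) (hs0 : 3 / 5 ≤ S') (hs : S' ≤ 3 / 5 + (d) * (d) / 3) :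
    ∃ i j l : ℕ, 0 < (lowUpCond i j l).val u v d S' := by
  rcases lt_or_ge v (11568 / 10000) with g | g
  · exact low_up_flat_20 hx0 hx1 hy0
      g hz0 hz1 hA h5 hs0 hs
  · exact low_up_flat_21 hx0 hx1 g
      hy1 hz0 hz1 hA h5 hs0 hs

theorem low_up_flat_24 {u v d S' : ℝ} (hx0 : 8000 / 10000 ≤ u) (hx1 : u < 8317 / 10000)
    (hy0 : 3300 / 10000 ≤ v) (hy1 : v < 11568 / 10000) (hz0 : 250 / 10000 ≤ d) (hz1 : d < 501 / 10000)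
    (hA : (3 / 5 - d) * v < 2) (h5 : d ≤ 1 / 20) (hs0 : 3 / 5 ≤ S') (hs : S' ≤ 3 / 5 + (d) * (d) / 3) :
    ∃ i j l : ℕ, 0 < (lowUpCond i j l).val u v d S' := by
  exact ⟨0, 1197, 0, Ex.pos_of_checkQuick low_up_10 (lowMem 10000 (by push_cast; linarith) hx1) (lowMem 10000 hy0 hy1)
    (lowMem 10000 (by push_cast; linarith) hz1) (lowS_mem (by linarith) (show d ≤ (501 / 10000 : ℝ) by linarith) hs hs0 (by norm_num))⟩

theorem low_up_flat_26 {u v d S' : ℝ} (hx0 : 8317 / 10000 ≤ u) (hx1 : u < 8585 / 10000)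
    (hy0 : 3300 / 10000 ≤ v) (hy1 : v < 11568 / 10000) (hz0 : 250 / 10000 ≤ d) (hz1 : d < 375 / 10000)
    (hA : (3 / 5 - d) * v < 2) (h5 : d ≤ 1 / 20) (hs0 : 3 / 5 ≤ S') (hs : S' ≤ 3 / 5 + (d) * (d) / 3) :
    ∃ i j l : ℕ, 0 < (lowUpCond i j l).val u v d S' := by
  exact ⟨0, 1120, 0, Ex.pos_of_checkQuick low_up_11 (lowMem 10000 (by push_cast; linarith) hx1) (lowMem 10000 hy0 hy1)
    (lowMem 10000 (by push_cast; linarith) hz1) (lowS_mem (by linarith) (show d ≤ (3 / 80 : ℝ) by linarith) hs hs0 (by norm_num))⟩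

theorem low_up_flat_28 {u v d S' : ℝ} (hx0 : 8317 / 10000 ≤ u) (hx1 : u < 8585 / 10000)
    (hy0 : 3300 / 10000 ≤ v) (hy1 : v < 7434 / 10000) (hz0 : 375 / 10000 ≤ d) (hz1 : d < 501 / 10000)
    (hA : (3 / 5 - d) * v < 2) (h5 : d ≤ 1 / 20) (hs0 : 3 / 5 ≤ S') (hs : S' ≤ 3 / 5 + (d) * (d) / 3) :
    ∃ i j l : ℕ, 0 < (lowUpCond i j l).val u v d S' := by
  exact ⟨0, 71277900186, 0, Ex.pos_of_checkQuick low_up_12 (lowMem 10000 (by push_cast; linarith) hx1) (lowMem 10000 hy0 hy1)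
    (lowMem 10000 (by push_cast; linarith) hz1) (lowS_mem (by linarith) (show d ≤ (501 / 10000 : ℝ) by linarith) hs hs0 (by norm_num))⟩

theorem low_up_flat_29 {u v d S' : ℝ} (hx0 : 8317 / 10000 ≤ u) (hx1 : u < 8585 / 10000)
    (hy0 : 7434 / 10000 ≤ v) (hy1 : v < 11568 / 10000) (hz0 : 375 / 10000 ≤ d) (hz1 : d < 501 / 10000)
    (hA : (3 / 5 - d) * v < 2) (h5 : d ≤ 1 / 20) (hs0 : 3 / 5 ≤ S') (hs : S' ≤ 3 / 5 + (d) * (d) / 3) :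
    ∃ i j l : ℕ, 0 < (lowUpCond i j l).val u v d S' := by
  exact ⟨0, 1113, 0, Ex.pos_of_checkQuick low_up_13 (lowMem 10000 (by push_cast; linarith) hx1) (lowMem 10000 hy0 hy1)
    (lowMem 10000 (by push_cast; linarith) hz1) (lowS_mem (by linarith) (show d ≤ (501 / 10000 : ℝ) by linarith) hs hs0 (by norm_num))⟩

theorem low_up_flat_27 {u v d S' : ℝ} (hx0 : 8317 / 10000 ≤ u) (hx1 : u < 8585 / 10000)
    (hy0 : 3300 / 10000 ≤ v) (hy1 : v < 11568 / 10000) (hz0 : 375 / 10000 ≤ d) (hz1 : d < 501 / 10000)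
    (hA : (3 / 5 - d) * v < 2) (h5 : d ≤ 1 / 20) (hs0 : 3 / 5 ≤ S') (hs : S' ≤ 3 / 5 + (d) * (d) / 3) :
    ∃ i j l : ℕ, 0 < (lowUpCond i j l).val u v d S' := by
  rcases lt_or_ge v (7434 / 10000) with g | g
  · exact low_up_flat_28 hx0 hx1 hy0
      g hz0 hz1 hA h5 hs0 hs
  · exact low_up_flat_29 hx0 hx1 g
      hy1 hz0 hz1 hA h5 hs0 hs

theorem low_up_flat_25 {u v d S' : ℝ} (hx0 : 8317 / 10000 ≤ u) (hx1 : u < 8585 / 10000)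
    (hy0 : 3300 / 10000 ≤ v) (hy1 : v < 11568 / 10000) (hz0 : 250 / 10000 ≤ d) (hz1 : d < 501 / 10000)
    (hA : (3 / 5 - d) * v < 2) (h5 : d ≤ 1 / 20) (hs0 : 3 / 5 ≤ S') (hs : S' ≤ 3 / 5 + (d) * (d) / 3) :
    ∃ i j l : ℕ, 0 < (lowUpCond i j l).val u v d S' := by
  rcases lt_or_ge d (375 / 10000) with g | g
  · exact low_up_flat_26 hx0 hx1 hy0
      hy1 hz0 g hA h5 hs0 hs
  · exact low_up_flat_27 hx0 hx1 hy0
      hy1 g hz1 hA h5 hs0 hs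

theorem low_up_flat_23 {u v d S' : ℝ} (hx0 : 8000 / 10000 ≤ u) (hx1 : u < 8585 / 10000)
    (hy0 : 3300 / 10000 ≤ v) (hy1 : v < 11568 / 10000) (hz0 : 250 / 10000 ≤ d) (hz1 : d < 501 / 10000)
    (hA : (3 / 5 - d) * v < 2) (h5 : d ≤ 1 / 20) (hs0 : 3 / 5 ≤ S') (hs : S' ≤ 3 / 5 + (d) * (d) / 3) :
    ∃ i j l : ℕ, 0 < (lowUpCond i j l).val u v d S' := by
  rcases lt_or_ge u (8317 / 10000) with g | g
  · exact low_up_flat_24 hx0 g hy0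
      hy1 hz0 hz1 hA h5 hs0 hs
  · exact low_up_flat_25 g hx1 hy0
      hy1 hz0 hz1 hA h5 hs0 hs

theorem low_up_flat_30 {u v d S' : ℝ} (hx0 : 8000 / 10000 ≤ u) (hx1 : u < 8585 / 10000)
    (hy0 : 11568 / 10000 ≤ v) (hy1 : v < 19836 / 10000) (hz0 : 250 / 10000 ≤ d) (hz1 : d < 501 / 10000)
    (hA : (3 / 5 - d) * v < 2) (h5 : d ≤ 1 / 20) (hs0 : 3 / 5 ≤ S') (hs : S' ≤ 3 / 5 + (d) * (d) / 3) :
    ∃ i j l : ℕ, 0 < (lowUpCond i j l).val u v d S' := by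
  exact ⟨0, 0, 0, Ex.pos_of_checkQuick low_up_14 (lowMem 10000 (by push_cast; linarith) hx1) (lowMem 10000 hy0 hy1)
    (lowMem 10000 (by push_cast; linarith) hz1) (lowS_mem (by linarith) (show d ≤ (501 / 10000 : ℝ) by linarith) hs hs0 (by norm_num))⟩

theorem low_up_flat_22 {u v d S' : ℝ} (hx0 : 8000 / 10000 ≤ u) (hx1 : u < 8585 / 10000)
    (hy0 : 3300 / 10000 ≤ v) (hy1 : v < 19836 / 10000) (hz0 : 250 / 10000 ≤ d) (hz1 : d < 501 / 10000)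
    (hA : (3 / 5 - d) * v < 2) (h5 : d ≤ 1 / 20) (hs0 : 3 / 5 ≤ S') (hs : S' ≤ 3 / 5 + (d) * (d) / 3) :
    ∃ i j l : ℕ, 0 < (lowUpCond i j l).val u v d S' := by
  rcases lt_or_ge v (11568 / 10000) with g | g
  · exact low_up_flat_23 hx0 hx1 hy0
      g hz0 hz1 hA h5 hs0 hs
  · exact low_up_flat_30 hx0 hx1 g
      hy1 hz0 hz1 hA h5 hs0 hs

theorem low_up_flat_18 {u v d S' : ℝ} (hx0 : 8000 / 10000 ≤ u) (hx1 : u < 8585 / 10000)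
    (hy0 : 3300 / 10000 ≤ v) (hy1 : v < 19836 / 10000) (hz0 : 0 / 10000 ≤ d) (hz1 : d < 501 / 10000)
    (hA : (3 / 5 - d) * v < 2) (h5 : d ≤ 1 / 20) (hs0 : 3 / 5 ≤ S') (hs : S' ≤ 3 / 5 + (d) * (d) / 3) :
    ∃ i j l : ℕ, 0 < (lowUpCond i j l).val u v d S' := by
  rcases lt_or_ge d (250 / 10000) with g | g
  · exact low_up_flat_19 hx0 hx1 hy0
      hy1 hz0 g hA h5 hs0 hs
  · exact low_up_flat_22 hx0 hx1 hy0
      hy1 g hz1 hA h5 hs0 hs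

theorem low_up_flat_33 {u v d S' : ℝ} (hx0 : 8585 / 10000 ≤ u) (hx1 : u < 9000 / 10000)
    (hy0 : 3300 / 10000 ≤ v) (hy1 : v < 11568 / 10000) (hz0 : 0 / 10000 ≤ d) (hz1 : d < 250 / 10000)
    (hA : (3 / 5 - d) * v < 2) (h5 : d ≤ 1 / 20) (hs0 : 3 / 5 ≤ S') (hs : S' ≤ 3 / 5 + (d) * (d) / 3) :
    ∃ i j l : ℕ, 0 < (lowUpCond i j l).val u v d S' := by
  exact ⟨0, 1071, 0, Ex.pos_of_checkQuick low_up_15 (lowMem 10000 (by push_cast; linarith) hx1) (lowMem 10000 hy0 hy1)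
    (lowMem 10000 (by push_cast; linarith) hz1) (lowS_mem (by linarith) (show d ≤ (1 / 40 : ℝ) by linarith) hs hs0 (by norm_num))⟩

theorem low_up_flat_34 {u v d S' : ℝ} (hx0 : 8585 / 10000 ≤ u) (hx1 : u < 9000 / 10000)
    (hy0 : 11568 / 10000 ≤ v) (hy1 : v < 19836 / 10000) (hz0 : 0 / 10000 ≤ d) (hz1 : d < 250 / 10000)
    (hA : (3 / 5 - d) * v < 2) (h5 : d ≤ 1 / 20) (hs0 : 3 / 5 ≤ S') (hs : S' ≤ 3 / 5 + (d) * (d) / 3) :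
    ∃ i j l : ℕ, 0 < (lowUpCond i j l).val u v d S' := by
  exact ⟨0, 860, 0, Ex.pos_of_checkQuick low_up_16 (lowMem 10000 (by push_cast; linarith) hx1) (lowMem 10000 hy0 hy1)
    (lowMem 10000 (by push_cast; linarith) hz1) (lowS_mem (by linarith) (show d ≤ (1 / 40 : ℝ) by linarith) hs hs0 (by norm_num))⟩

theorem low_up_flat_32 {u v d S' : ℝ} (hx0 : 8585 / 10000 ≤ u) (hx1 : u < 9000 / 10000)
    (hy0 : 3300 / 10000 ≤ v) (hy1 : v < 19836 / 10000) (hz0 : 0 / 10000 ≤ d) (hz1 : d < 250 / 10000)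
    (hA : (3 / 5 - d) * v < 2) (h5 : d ≤ 1 / 20) (hs0 : 3 / 5 ≤ S') (hs : S' ≤ 3 / 5 + (d) * (d) / 3) :
    ∃ i j l : ℕ, 0 < (lowUpCond i j l).val u v d S' := by
  rcases lt_or_ge v (11568 / 10000) with g | g
  · exact low_up_flat_33 hx0 hx1 hy0
      g hz0 hz1 hA h5 hs0 hs
  · exact low_up_flat_34 hx0 hx1 g
      hy1 hz0 hz1 hA h5 hs0 hs

theorem low_up_flat_39 {u v d S' : ℝ} (hx0 : 8585 / 10000 ≤ u) (hx1 : u < 8810 / 10000)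
    (hy0 : 3300 / 10000 ≤ v) (hy1 : v < 7434 / 10000) (hz0 : 250 / 10000 ≤ d) (hz1 : d < 375 / 10000)
    (hA : (3 / 5 - d) * v < 2) (h5 : d ≤ 1 / 20) (hs0 : 3 / 5 ≤ S') (hs : S' ≤ 3 / 5 + (d) * (d) / 3) :
    ∃ i j l : ℕ, 0 < (lowUpCond i j l).val u v d S' := by
  exact ⟨0, 79600453943, 0, Ex.pos_of_checkQuick low_up_17 (lowMem 10000 (by push_cast; linarith) hx1) (lowMem 10000 hy0 hy1)
    (lowMem 10000 (by push_cast; linarith) hz1) (lowS_mem (by linarith) (show d ≤ (3 / 80 : ℝ) by linarith) hs hs0 (by norm_num))⟩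

theorem low_up_flat_40 {u v d S' : ℝ} (hx0 : 8585 / 10000 ≤ u) (hx1 : u < 8810 / 10000)
    (hy0 : 7434 / 10000 ≤ v) (hy1 : v < 11568 / 10000) (hz0 : 250 / 10000 ≤ d) (hz1 : d < 375 / 10000)
    (hA : (3 / 5 - d) * v < 2) (h5 : d ≤ 1 / 20) (hs0 : 3 / 5 ≤ S') (hs : S' ≤ 3 / 5 + (d) * (d) / 3) :
    ∃ i j l : ℕ, 0 < (lowUpCond i j l).val u v d S' := by
  exact ⟨0, 1054, 0, Ex.pos_of_checkQuick low_up_18 (lowMem 10000 (by push_cast; linarith) hx1) (lowMem 10000 hy0 hy1)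
    (lowMem 10000 (by push_cast; linarith) hz1) (lowS_mem (by linarith) (show d ≤ (3 / 80 : ℝ) by linarith) hs hs0 (by norm_num))⟩

theorem low_up_flat_38 {u v d S' : ℝ} (hx0 : 8585 / 10000 ≤ u) (hx1 : u < 8810 / 10000)
    (hy0 : 3300 / 10000 ≤ v) (hy1 : v < 11568 / 10000) (hz0 : 250 / 10000 ≤ d) (hz1 : d < 375 / 10000)
    (hA : (3 / 5 - d) * v < 2) (h5 : d ≤ 1 / 20) (hs0 : 3 / 5 ≤ S') (hs : S' ≤ 3 / 5 + (d) * (d) / 3) :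
    ∃ i j l : ℕ, 0 < (lowUpCond i j l).val u v d S' := by
  rcases lt_or_ge v (7434 / 10000) with g | g
  · exact low_up_flat_39 hx0 hx1 hy0
      g hz0 hz1 hA h5 hs0 hs
  · exact low_up_flat_40 hx0 hx1 g
      hy1 hz0 hz1 hA h5 hs0 hs

theorem low_up_flat_42 {u v d S' : ℝ} (hx0 : 8585 / 10000 ≤ u) (hx1 : u < 8810 / 10000)
    (hy0 : 3300 / 10000 ≤ v) (hy1 : v < 7434 / 10000) (hz0 : 375 / 10000 ≤ d) (hz1 : d < 501 / 10000)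
    (hA : (3 / 5 - d) * v < 2) (h5 : d ≤ 1 / 20) (hs0 : 3 / 5 ≤ S') (hs : S' ≤ 3 / 5 + (d) * (d) / 3) :
    ∃ i j l : ℕ, 0 < (lowUpCond i j l).val u v d S' := by
  exact ⟨0, 74362581112, 0, Ex.pos_of_checkQuick low_up_19 (lowMem 10000 (by push_cast; linarith) hx1) (lowMem 10000 hy0 hy1)
    (lowMem 10000 (by push_cast; linarith) hz1) (lowS_mem (by linarith) (show d ≤ (501 / 10000 : ℝ) by linarith) hs hs0 (by norm_num))⟩

theorem low_up_flat_45 {u v d S' : ℝ} (hx0 : 8585 / 10000 ≤ u) (hx1 : u < 8702 / 10000)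
    (hy0 : 7434 / 10000 ≤ v) (hy1 : v < 11568 / 10000) (hz0 : 375 / 10000 ≤ d) (hz1 : d < 438 / 10000)
    (hA : (3 / 5 - d) * v < 2) (h5 : d ≤ 1 / 20) (hs0 : 3 / 5 ≤ S') (hs : S' ≤ 3 / 5 + (d) * (d) / 3) :
    ∃ i j l : ℕ, 0 < (lowUpCond i j l).val u v d S' := by
  exact ⟨0, 1071, 0, Ex.pos_of_checkQuick low_up_20 (lowMem 10000 (by push_cast; linarith) hx1) (lowMem 10000 hy0 hy1)
    (lowMem 10000 (by push_cast; linarith) hz1) (lowS_mem (by linarith) (show d ≤ (219 / 5000 : ℝ) by linarith) hs hs0 (by norm_num))⟩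

theorem low_up_flat_47 {u v d S' : ℝ} (hx0 : 8585 / 10000 ≤ u) (hx1 : u < 8702 / 10000)
    (hy0 : 7434 / 10000 ≤ v) (hy1 : v < 9501 / 10000) (hz0 : 438 / 10000 ≤ d) (hz1 : d < 501 / 10000)
    (hA : (3 / 5 - d) * v < 2) (h5 : d ≤ 1 / 20) (hs0 : 3 / 5 ≤ S') (hs : S' ≤ 3 / 5 + (d) * (d) / 3) :
    ∃ i j l : ℕ, 0 < (lowUpCond i j l).val u v d S' := by
  exact ⟨0, 1196, 0, Ex.pos_of_checkQuick low_up_21 (lowMem 10000 (by push_cast; linarith) hx1) (lowMem 10000 hy0 hy1)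
    (lowMem 10000 (by push_cast; linarith) hz1) (lowS_mem (by linarith) (show d ≤ (501 / 10000 : ℝ) by linarith) hs hs0 (by norm_num))⟩

theorem low_up_flat_48 {u v d S' : ℝ} (hx0 : 8585 / 10000 ≤ u) (hx1 : u < 8702 / 10000)
    (hy0 : 9501 / 10000 ≤ v) (hy1 : v < 11568 / 10000) (hz0 : 438 / 10000 ≤ d) (hz1 : d < 501 / 10000)
    (hA : (3 / 5 - d) * v < 2) (h5 : d ≤ 1 / 20) (hs0 : 3 / 5 ≤ S') (hs : S' ≤ 3 / 5 + (d) * (d) / 3) :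
    ∃ i j l : ℕ, 0 < (lowUpCond i j l).val u v d S' := by
  exact ⟨0, 0, 0, Ex.pos_of_checkQuick low_up_22 (lowMem 10000 (by push_cast; linarith) hx1) (lowMem 10000 hy0 hy1)
    (lowMem 10000 (by push_cast; linarith) hz1) (lowS_mem (by linarith) (show d ≤ (501 / 10000 : ℝ) by linarith) hs hs0 (by norm_num))⟩

theorem low_up_flat_46 {u v d S' : ℝ} (hx0 : 8585 / 10000 ≤ u) (hx1 : u < 8702 / 10000)
    (hy0 : 7434 / 10000 ≤ v) (hy1 : v < 11568 / 10000) (hz0 : 438 / 10000 ≤ d) (hz1 : d < 501 / 10000)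
    (hA : (3 / 5 - d) * v < 2) (h5 : d ≤ 1 / 20) (hs0 : 3 / 5 ≤ S') (hs : S' ≤ 3 / 5 + (d) * (d) / 3) :
    ∃ i j l : ℕ, 0 < (lowUpCond i j l).val u v d S' := by
  rcases lt_or_ge v (9501 / 10000) with g | g
  · exact low_up_flat_47 hx0 hx1 hy0
      g hz0 hz1 hA h5 hs0 hs
  · exact low_up_flat_48 hx0 hx1 g
      hy1 hz0 hz1 hA h5 hs0 hs

theorem low_up_flat_44 {u v d S' : ℝ} (hx0 : 8585 / 10000 ≤ u) (hx1 : u < 8702 / 10000)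
    (hy0 : 7434 / 10000 ≤ v) (hy1 : v < 11568 / 10000) (hz0 : 375 / 10000 ≤ d) (hz1 : d < 501 / 10000)
    (hA : (3 / 5 - d) * v < 2) (h5 : d ≤ 1 / 20) (hs0 : 3 / 5 ≤ S') (hs : S' ≤ 3 / 5 + (d) * (d) / 3) :
    ∃ i j l : ℕ, 0 < (lowUpCond i j l).val u v d S' := by
  rcases lt_or_ge d (438 / 10000) with g | g
  · exact low_up_flat_45 hx0 hx1 hy0
      hy1 hz0 g hA h5 hs0 hs
  · exact low_up_flat_46 hx0 hx1 hy0
      hy1 g hz1 hA h5 hs0 hs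

theorem low_up_flat_50 {u v d S' : ℝ} (hx0 : 8702 / 10000 ≤ u) (hx1 : u < 8810 / 10000)
    (hy0 : 7434 / 10000 ≤ v) (hy1 : v < 11568 / 10000) (hz0 : 375 / 10000 ≤ d) (hz1 : d < 438 / 10000)
    (hA : (3 / 5 - d) * v < 2) (h5 : d ≤ 1 / 20) (hs0 : 3 / 5 ≤ S') (hs : S' ≤ 3 / 5 + (d) * (d) / 3) :
    ∃ i j l : ℕ, 0 < (lowUpCond i j l).val u v d S' := by
  exact ⟨0, 1072, 0, Ex.pos_of_checkQuick low_up_23 (lowMem 10000 (by push_cast; linarith) hx1) (lowMem 10000 hy0 hy1)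
    (lowMem 10000 (by push_cast; linarith) hz1) (lowS_mem (by linarith) (show d ≤ (219 / 5000 : ℝ) by linarith) hs hs0 (by norm_num))⟩

theorem low_up_flat_52 {u v d S' : ℝ} (hx0 : 8702 / 10000 ≤ u) (hx1 : u < 8810 / 10000)
    (hy0 : 7434 / 10000 ≤ v) (hy1 : v < 9501 / 10000) (hz0 : 438 / 10000 ≤ d) (hz1 : d < 501 / 10000)
    (hA : (3 / 5 - d) * v < 2) (h5 : d ≤ 1 / 20) (hs0 : 3 / 5 ≤ S') (hs : S' ≤ 3 / 5 + (d) * (d) / 3) :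
    ∃ i j l : ℕ, 0 < (lowUpCond i j l).val u v d S' := by
  exact ⟨0, 1163, 0, Ex.pos_of_checkQuick low_up_24 (lowMem 10000 (by push_cast; linarith) hx1) (lowMem 10000 hy0 hy1)
    (lowMem 10000 (by push_cast; linarith) hz1) (lowS_mem (by linarith) (show d ≤ (501 / 10000 : ℝ) by linarith) hs hs0 (by norm_num))⟩

theorem low_up_flat_53 {u v d S' : ℝ} (hx0 : 8702 / 10000 ≤ u) (hx1 : u < 8810 / 10000)
    (hy0 : 9501 / 10000 ≤ v) (hy1 : v < 11568 / 10000) (hz0 : 438 / 10000 ≤ d) (hz1 : d < 501 / 10000)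
    (hA : (3 / 5 - d) * v < 2) (h5 : d ≤ 1 / 20) (hs0 : 3 / 5 ≤ S') (hs : S' ≤ 3 / 5 + (d) * (d) / 3) :
    ∃ i j l : ℕ, 0 < (lowUpCond i j l).val u v d S' := by
  exact ⟨0, 1065, 0, Ex.pos_of_checkQuick low_up_25 (lowMem 10000 (by push_cast; linarith) hx1) (lowMem 10000 hy0 hy1)
    (lowMem 10000 (by push_cast; linarith) hz1) (lowS_mem (by linarith) (show d ≤ (501 / 10000 : ℝ) by linarith) hs hs0 (by norm_num))⟩

theorem low_up_flat_51 {u v d S' : ℝ} (hx0 : 8702 / 10000 ≤ u) (hx1 : u < 8810 / 10000)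
    (hy0 : 7434 / 10000 ≤ v) (hy1 : v < 11568 / 10000) (hz0 : 438 / 10000 ≤ d) (hz1 : d < 501 / 10000)
    (hA : (3 / 5 - d) * v < 2) (h5 : d ≤ 1 / 20) (hs0 : 3 / 5 ≤ S') (hs : S' ≤ 3 / 5 + (d) * (d) / 3) :
    ∃ i j l : ℕ, 0 < (lowUpCond i j l).val u v d S' := by
  rcases lt_or_ge v (9501 / 10000) with g | g
  · exact low_up_flat_52 hx0 hx1 hy0
      g hz0 hz1 hA h5 hs0 hs
  · exact low_up_flat_53 hx0 hx1 g
      hy1 hz0 hz1 hA h5 hs0 hs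

theorem low_up_flat_49 {u v d S' : ℝ} (hx0 : 8702 / 10000 ≤ u) (hx1 : u < 8810 / 10000)
    (hy0 : 7434 / 10000 ≤ v) (hy1 : v < 11568 / 10000) (hz0 : 375 / 10000 ≤ d) (hz1 : d < 501 / 10000)
    (hA : (3 / 5 - d) * v < 2) (h5 : d ≤ 1 / 20) (hs0 : 3 / 5 ≤ S') (hs : S' ≤ 3 / 5 + (d) * (d) / 3) :
    ∃ i j l : ℕ, 0 < (lowUpCond i j l).val u v d S' := by
  rcases lt_or_ge d (438 / 10000) with g | g
  · exact low_up_flat_50 hx0 hx1 hy0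
      hy1 hz0 g hA h5 hs0 hs
  · exact low_up_flat_51 hx0 hx1 hy0
      hy1 g hz1 hA h5 hs0 hs

theorem low_up_flat_43 {u v d S' : ℝ} (hx0 : 8585 / 10000 ≤ u) (hx1 : u < 8810 / 10000)
    (hy0 : 7434 / 10000 ≤ v) (hy1 : v < 11568 / 10000) (hz0 : 375 / 10000 ≤ d) (hz1 : d < 501 / 10000)
    (hA : (3 / 5 - d) * v < 2) (h5 : d ≤ 1 / 20) (hs0 : 3 / 5 ≤ S') (hs : S' ≤ 3 / 5 + (d) * (d) / 3) :
    ∃ i j l : ℕ, 0 < (lowUpCond i j l).val u v d S' := by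
  rcases lt_or_ge u (8702 / 10000) with g | g
  · exact low_up_flat_44 hx0 g hy0
      hy1 hz0 hz1 hA h5 hs0 hs
  · exact low_up_flat_49 g hx1 hy0
      hy1 hz0 hz1 hA h5 hs0 hs

theorem low_up_flat_41 {u v d S' : ℝ} (hx0 : 8585 / 10000 ≤ u) (hx1 : u < 8810 / 10000)
    (hy0 : 3300 / 10000 ≤ v) (hy1 : v < 11568 / 10000) (hz0 : 375 / 10000 ≤ d) (hz1 : d < 501 / 10000)
    (hA : (3 / 5 - d) * v < 2) (h5 : d ≤ 1 / 20) (hs0 : 3 / 5 ≤ S') (hs : S' ≤ 3 / 5 + (d) * (d) / 3) :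
    ∃ i j l : ℕ, 0 < (lowUpCond i j l).val u v d S' := by
  rcases lt_or_ge v (7434 / 10000) with g | g
  · exact low_up_flat_42 hx0 hx1 hy0
      g hz0 hz1 hA h5 hs0 hs
  · exact low_up_flat_43 hx0 hx1 g
      hy1 hz0 hz1 hA h5 hs0 hs

theorem low_up_flat_37 {u v d S' : ℝ} (hx0 : 8585 / 10000 ≤ u) (hx1 : u < 8810 / 10000)
    (hy0 : 3300 / 10000 ≤ v) (hy1 : v < 11568 / 10000) (hz0 : 250 / 10000 ≤ d) (hz1 : d < 501 / 10000)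
    (hA : (3 / 5 - d) * v < 2) (h5 : d ≤ 1 / 20) (hs0 : 3 / 5 ≤ S') (hs : S' ≤ 3 / 5 + (d) * (d) / 3) :
    ∃ i j l : ℕ, 0 < (lowUpCond i j l).val u v d S' := by
  rcases lt_or_ge d (375 / 10000) with g | g
  · exact low_up_flat_38 hx0 hx1 hy0
      hy1 hz0 g hA h5 hs0 hs
  · exact low_up_flat_41 hx0 hx1 hy0
      hy1 g hz1 hA h5 hs0 hs

theorem low_up_flat_56 {u v d S' : ℝ} (hx0 : 8810 / 10000 ≤ u) (hx1 : u < 9000 / 10000)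
    (hy0 : 3300 / 10000 ≤ v) (hy1 : v < 7434 / 10000) (hz0 : 250 / 10000 ≤ d) (hz1 : d < 375 / 10000)
    (hA : (3 / 5 - d) * v < 2) (h5 : d ≤ 1 / 20) (hs0 : 3 / 5 ≤ S') (hs : S' ≤ 3 / 5 + (d) * (d) / 3) :
    ∃ i j l : ℕ, 0 < (lowUpCond i j l).val u v d S' := by
  exact ⟨0, 83078096057, 0, Ex.pos_of_checkQuick low_up_26 (lowMem 10000 (by push_cast; linarith) hx1) (lowMem 10000 hy0 hy1)
    (lowMem 10000 (by push_cast; linarith) hz1) (lowS_mem (by linarith) (show d ≤ (3 / 80 : ℝ) by linarith) hs hs0 (by norm_num))⟩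

theorem low_up_flat_58 {u v d S' : ℝ} (hx0 : 8810 / 10000 ≤ u) (hx1 : u < 8909 / 10000)
    (hy0 : 7434 / 10000 ≤ v) (hy1 : v < 11568 / 10000) (hz0 : 250 / 10000 ≤ d) (hz1 : d < 375 / 10000)
    (hA : (3 / 5 - d) * v < 2) (h5 : d ≤ 1 / 20) (hs0 : 3 / 5 ≤ S') (hs : S' ≤ 3 / 5 + (d) * (d) / 3) :
    ∃ i j l : ℕ, 0 < (lowUpCond i j l).val u v d S' := by
  exact ⟨0, 1031, 0, Ex.pos_of_checkQuick low_up_27 (lowMem 10000 (by push_cast; linarith) hx1) (lowMem 10000 hy0 hy1)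
    (lowMem 10000 (by push_cast; linarith) hz1) (lowS_mem (by linarith) (show d ≤ (3 / 80 : ℝ) by linarith) hs hs0 (by norm_num))⟩

theorem low_up_flat_59 {u v d S' : ℝ} (hx0 : 8909 / 10000 ≤ u) (hx1 : u < 9000 / 10000)
    (hy0 : 7434 / 10000 ≤ v) (hy1 : v < 11568 / 10000) (hz0 : 250 / 10000 ≤ d) (hz1 : d < 375 / 10000)
    (hA : (3 / 5 - d) * v < 2) (h5 : d ≤ 1 / 20) (hs0 : 3 / 5 ≤ S') (hs : S' ≤ 3 / 5 + (d) * (d) / 3) :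
    ∃ i j l : ℕ, 0 < (lowUpCond i j l).val u v d S' := by
  exact ⟨0, 1008, 0, Ex.pos_of_checkQuick low_up_28 (lowMem 10000 (by push_cast; linarith) hx1) (lowMem 10000 hy0 hy1)
    (lowMem 10000 (by push_cast; linarith) hz1) (lowS_mem (by linarith) (show d ≤ (3 / 80 : ℝ) by linarith) hs hs0 (by norm_num))⟩

theorem low_up_flat_57 {u v d S' : ℝ} (hx0 : 8810 / 10000 ≤ u) (hx1 : u < 9000 / 10000)
    (hy0 : 7434 / 10000 ≤ v) (hy1 : v < 11568 / 10000) (hz0 : 250 / 10000 ≤ d) (hz1 : d < 375 / 10000)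
    (hA : (3 / 5 - d) * v < 2) (h5 : d ≤ 1 / 20) (hs0 : 3 / 5 ≤ S') (hs : S' ≤ 3 / 5 + (d) * (d) / 3) :
    ∃ i j l : ℕ, 0 < (lowUpCond i j l).val u v d S' := by
  rcases lt_or_ge u (8909 / 10000) with g | g
  · exact low_up_flat_58 hx0 g hy0
      hy1 hz0 hz1 hA h5 hs0 hs
  · exact low_up_flat_59 g hx1 hy0
      hy1 hz0 hz1 hA h5 hs0 hs

theorem low_up_flat_55 {u v d S' : ℝ} (hx0 : 8810 / 10000 ≤ u) (hx1 : u < 9000 / 10000)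
    (hy0 : 3300 / 10000 ≤ v) (hy1 : v < 11568 / 10000) (hz0 : 250 / 10000 ≤ d) (hz1 : d < 375 / 10000)
    (hA : (3 / 5 - d) * v < 2) (h5 : d ≤ 1 / 20) (hs0 : 3 / 5 ≤ S') (hs : S' ≤ 3 / 5 + (d) * (d) / 3) :
    ∃ i j l : ℕ, 0 < (lowUpCond i j l).val u v d S' := by
  rcases lt_or_ge v (7434 / 10000) with g | g
  · exact low_up_flat_56 hx0 hx1 hy0
      g hz0 hz1 hA h5 hs0 hs
  · exact low_up_flat_57 hx0 hx1 g
      hy1 hz0 hz1 hA h5 hs0 hs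

theorem low_up_flat_61 {u v d S' : ℝ} (hx0 : 8810 / 10000 ≤ u) (hx1 : u < 9000 / 10000)
    (hy0 : 3300 / 10000 ≤ v) (hy1 : v < 7434 / 10000) (hz0 : 375 / 10000 ≤ d) (hz1 : d < 501 / 10000)
    (hA : (3 / 5 - d) * v < 2) (h5 : d ≤ 1 / 20) (hs0 : 3 / 5 ≤ S') (hs : S' ≤ 3 / 5 + (d) * (d) / 3) :
    ∃ i j l : ℕ, 0 < (lowUpCond i j l).val u v d S' := by
  exact ⟨0, 77663997965, 0, Ex.pos_of_checkQuick low_up_29 (lowMem 10000 (by push_cast; linarith) hx1) (lowMem 10000 hy0 hy1)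
    (lowMem 10000 (by push_cast; linarith) hz1) (lowS_mem (by linarith) (show d ≤ (501 / 10000 : ℝ) by linarith) hs hs0 (by norm_num))⟩

theorem low_up_flat_65 {u v d S' : ℝ} (hx0 : 8810 / 10000 ≤ u) (hx1 : u < 8909 / 10000)
    (hy0 : 7434 / 10000 ≤ v) (hy1 : v < 9501 / 10000) (hz0 : 375 / 10000 ≤ d) (hz1 : d < 438 / 10000)
    (hA : (3 / 5 - d) * v < 2) (h5 : d ≤ 1 / 20) (hs0 : 3 / 5 ≤ S') (hs : S' ≤ 3 / 5 + (d) * (d) / 3) :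
    ∃ i j l : ℕ, 0 < (lowUpCond i j l).val u v d S' := by
  exact ⟨0, 119477719858, 0, Ex.pos_of_checkQuick low_up_30 (lowMem 10000 (by push_cast; linarith) hx1) (lowMem 10000 hy0 hy1)
    (lowMem 10000 (by push_cast; linarith) hz1) (lowS_mem (by linarith) (show d ≤ (219 / 5000 : ℝ) by linarith) hs hs0 (by norm_num))⟩

theorem low_up_flat_67 {u v d S' : ℝ} (hx0 : 8810 / 10000 ≤ u) (hx1 : u < 8860 / 10000)
    (hy0 : 9501 / 10000 ≤ v) (hy1 : v < 11568 / 10000) (hz0 : 375 / 10000 ≤ d) (hz1 : d < 438 / 10000)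
    (hA : (3 / 5 - d) * v < 2) (h5 : d ≤ 1 / 20) (hs0 : 3 / 5 ≤ S') (hs : S' ≤ 3 / 5 + (d) * (d) / 3) :
    ∃ i j l : ℕ, 0 < (lowUpCond i j l).val u v d S' := by
  exact ⟨0, 1013, 0, Ex.pos_of_checkQuick low_up_31 (lowMem 10000 (by push_cast; linarith) hx1) (lowMem 10000 hy0 hy1)
    (lowMem 10000 (by push_cast; linarith) hz1) (lowS_mem (by linarith) (show d ≤ (219 / 5000 : ℝ) by linarith) hs hs0 (by norm_num))⟩

theorem low_up_flat_69 {u v d S' : ℝ} (hx0 : 8860 / 10000 ≤ u) (hx1 : u < 8909 / 10000)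
    (hy0 : 9501 / 10000 ≤ v) (hy1 : v < 11568 / 10000) (hz0 : 375 / 10000 ≤ d) (hz1 : d < 406 / 10000)
    (hA : (3 / 5 - d) * v < 2) (h5 : d ≤ 1 / 20) (hs0 : 3 / 5 ≤ S') (hs : S' ≤ 3 / 5 + (d) * (d) / 3) :
    ∃ i j l : ℕ, 0 < (lowUpCond i j l).val u v d S' := by
  exact ⟨0, 982, 0, Ex.pos_of_checkQuick low_up_32 (lowMem 10000 (by push_cast; linarith) hx1) (lowMem 10000 hy0 hy1)
    (lowMem 10000 (by push_cast; linarith) hz1) (lowS_mem (by linarith) (show d ≤ (203 / 5000 : ℝ) by linarith) hs hs0 (by norm_num))⟩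

theorem low_up_flat_71 {u v d S' : ℝ} (hx0 : 8860 / 10000 ≤ u) (hx1 : u < 8909 / 10000)
    (hy0 : 9501 / 10000 ≤ v) (hy1 : v < 10534 / 10000) (hz0 : 406 / 10000 ≤ d) (hz1 : d < 438 / 10000)
    (hA : (3 / 5 - d) * v < 2) (h5 : d ≤ 1 / 20) (hs0 : 3 / 5 ≤ S') (hs : S' ≤ 3 / 5 + (d) * (d) / 3) :
    ∃ i j l : ℕ, 0 < (lowUpCond i j l).val u v d S' := by
  exact ⟨0, 1038, 0, Ex.pos_of_checkQuick low_up_33 (lowMem 10000 (by push_cast; linarith) hx1) (lowMem 10000 hy0 hy1)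
    (lowMem 10000 (by push_cast; linarith) hz1) (lowS_mem (by linarith) (show d ≤ (219 / 5000 : ℝ) by linarith) hs hs0 (by norm_num))⟩

theorem low_up_flat_72 {u v d S' : ℝ} (hx0 : 8860 / 10000 ≤ u) (hx1 : u < 8909 / 10000)
    (hy0 : 10534 / 10000 ≤ v) (hy1 : v < 11568 / 10000) (hz0 : 406 / 10000 ≤ d) (hz1 : d < 438 / 10000)
    (hA : (3 / 5 - d) * v < 2) (h5 : d ≤ 1 / 20) (hs0 : 3 / 5 ≤ S') (hs : S' ≤ 3 / 5 + (d) * (d) / 3) :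
    ∃ i j l : ℕ, 0 < (lowUpCond i j l).val u v d S' := by
  exact ⟨0, 0, 0, Ex.pos_of_checkQuick low_up_34 (lowMem 10000 (by push_cast; linarith) hx1) (lowMem 10000 hy0 hy1)
    (lowMem 10000 (by push_cast; linarith) hz1) (lowS_mem (by linarith) (show d ≤ (219 / 5000 : ℝ) by linarith) hs hs0 (by norm_num))⟩

theorem low_up_flat_70 {u v d S' : ℝ} (hx0 : 8860 / 10000 ≤ u) (hx1 : u < 8909 / 10000)
    (hy0 : 9501 / 10000 ≤ v) (hy1 : v < 11568 / 10000) (hz0 : 406 / 10000 ≤ d) (hz1 : d < 438 / 10000)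
    (hA : (3 / 5 - d) * v < 2) (h5 : d ≤ 1 / 20) (hs0 : 3 / 5 ≤ S') (hs : S' ≤ 3 / 5 + (d) * (d) / 3) :
    ∃ i j l : ℕ, 0 < (lowUpCond i j l).val u v d S' := by
  rcases lt_or_ge v (10534 / 10000) with g | g
  · exact low_up_flat_71 hx0 hx1 hy0
      g hz0 hz1 hA h5 hs0 hs
  · exact low_up_flat_72 hx0 hx1 g
      hy1 hz0 hz1 hA h5 hs0 hs

theorem low_up_flat_68 {u v d S' : ℝ} (hx0 : 8860 / 10000 ≤ u) (hx1 : u < 8909 / 10000)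
    (hy0 : 9501 / 10000 ≤ v) (hy1 : v < 11568 / 10000) (hz0 : 375 / 10000 ≤ d) (hz1 : d < 438 / 10000)
    (hA : (3 / 5 - d) * v < 2) (h5 : d ≤ 1 / 20) (hs0 : 3 / 5 ≤ S') (hs : S' ≤ 3 / 5 + (d) * (d) / 3) :
    ∃ i j l : ℕ, 0 < (lowUpCond i j l).val u v d S' := by
  rcases lt_or_ge d (406 / 10000) with g | g
  · exact low_up_flat_69 hx0 hx1 hy0
      hy1 hz0 g hA h5 hs0 hs
  · exact low_up_flat_70 hx0 hx1 hy0
      hy1 g hz1 hA h5 hs0 hs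

theorem low_up_flat_66 {u v d S' : ℝ} (hx0 : 8810 / 10000 ≤ u) (hx1 : u < 8909 / 10000)
    (hy0 : 9501 / 10000 ≤ v) (hy1 : v < 11568 / 10000) (hz0 : 375 / 10000 ≤ d) (hz1 : d < 438 / 10000)
    (hA : (3 / 5 - d) * v < 2) (h5 : d ≤ 1 / 20) (hs0 : 3 / 5 ≤ S') (hs : S' ≤ 3 / 5 + (d) * (d) / 3) :
    ∃ i j l : ℕ, 0 < (lowUpCond i j l).val u v d S' := by
  rcases lt_or_ge u (8860 / 10000) with g | g
  · exact low_up_flat_67 hx0 g hy0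
      hy1 hz0 hz1 hA h5 hs0 hs
  · exact low_up_flat_68 g hx1 hy0
      hy1 hz0 hz1 hA h5 hs0 hs

theorem low_up_flat_64 {u v d S' : ℝ} (hx0 : 8810 / 10000 ≤ u) (hx1 : u < 8909 / 10000)
    (hy0 : 7434 / 10000 ≤ v) (hy1 : v < 11568 / 10000) (hz0 : 375 / 10000 ≤ d) (hz1 : d < 438 / 10000)
    (hA : (3 / 5 - d) * v < 2) (h5 : d ≤ 1 / 20) (hs0 : 3 / 5 ≤ S') (hs : S' ≤ 3 / 5 + (d) * (d) / 3) :
    ∃ i j l : ℕ, 0 < (lowUpCond i j l).val u v d S' := by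
  rcases lt_or_ge v (9501 / 10000) with g | g
  · exact low_up_flat_65 hx0 hx1 hy0
      g hz0 hz1 hA h5 hs0 hs
  · exact low_up_flat_66 hx0 hx1 g
      hy1 hz0 hz1 hA h5 hs0 hs

theorem low_up_flat_74 {u v d S' : ℝ} (hx0 : 8810 / 10000 ≤ u) (hx1 : u < 8909 / 10000)
    (hy0 : 7434 / 10000 ≤ v) (hy1 : v < 9501 / 10000) (hz0 : 438 / 10000 ≤ d) (hz1 : d < 501 / 10000)
    (hA : (3 / 5 - d) * v < 2) (h5 : d ≤ 1 / 20) (hs0 : 3 / 5 ≤ S') (hs : S' ≤ 3 / 5 + (d) * (d) / 3) :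
    ∃ i j l : ℕ, 0 < (lowUpCond i j l).val u v d S' := by
  exact ⟨0, 115480507779, 0, Ex.pos_of_checkQuick low_up_35 (lowMem 10000 (by push_cast; linarith) hx1) (lowMem 10000 hy0 hy1)
    (lowMem 10000 (by push_cast; linarith) hz1) (lowS_mem (by linarith) (show d ≤ (501 / 10000 : ℝ) by linarith) hs hs0 (by norm_num))⟩

theorem low_up_flat_76 {u v d S' : ℝ} (hx0 : 8810 / 10000 ≤ u) (hx1 : u < 8860 / 10000)
    (hy0 : 9501 / 10000 ≤ v) (hy1 : v < 11568 / 10000) (hz0 : 438 / 10000 ≤ d) (hz1 : d < 501 / 10000)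
    (hA : (3 / 5 - d) * v < 2) (h5 : d ≤ 1 / 20) (hs0 : 3 / 5 ≤ S') (hs : S' ≤ 3 / 5 + (d) * (d) / 3) :
    ∃ i j l : ℕ, 0 < (lowUpCond i j l).val u v d S' := by
  exact ⟨0, 1060, 0, Ex.pos_of_checkQuick low_up_36 (lowMem 10000 (by push_cast; linarith) hx1) (lowMem 10000 hy0 hy1)
    (lowMem 10000 (by push_cast; linarith) hz1) (lowS_mem (by linarith) (show d ≤ (501 / 10000 : ℝ) by linarith) hs hs0 (by norm_num))⟩

theorem low_up_flat_77 {u v d S' : ℝ} (hx0 : 8860 / 10000 ≤ u) (hx1 : u < 8909 / 10000)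
    (hy0 : 9501 / 10000 ≤ v) (hy1 : v < 11568 / 10000) (hz0 : 438 / 10000 ≤ d) (hz1 : d < 501 / 10000)
    (hA : (3 / 5 - d) * v < 2) (h5 : d ≤ 1 / 20) (hs0 : 3 / 5 ≤ S') (hs : S' ≤ 3 / 5 + (d) * (d) / 3) :
    ∃ i j l : ℕ, 0 < (lowUpCond i j l).val u v d S' := by
  exact ⟨0, 1046, 0, Ex.pos_of_checkQuick low_up_37 (lowMem 10000 (by push_cast; linarith) hx1) (lowMem 10000 hy0 hy1)
    (lowMem 10000 (by push_cast; linarith) hz1) (lowS_mem (by linarith) (show d ≤ (501 / 10000 : ℝ) by linarith) hs hs0 (by norm_num))⟩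

theorem low_up_flat_75 {u v d S' : ℝ} (hx0 : 8810 / 10000 ≤ u) (hx1 : u < 8909 / 10000)
    (hy0 : 9501 / 10000 ≤ v) (hy1 : v < 11568 / 10000) (hz0 : 438 / 10000 ≤ d) (hz1 : d < 501 / 10000)
    (hA : (3 / 5 - d) * v < 2) (h5 : d ≤ 1 / 20) (hs0 : 3 / 5 ≤ S') (hs : S' ≤ 3 / 5 + (d) * (d) / 3) :
    ∃ i j l : ℕ, 0 < (lowUpCond i j l).val u v d S' := by
  rcases lt_or_ge u (8860 / 10000) with g | g
  · exact low_up_flat_76 hx0 g hy0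
      hy1 hz0 hz1 hA h5 hs0 hs
  · exact low_up_flat_77 g hx1 hy0
      hy1 hz0 hz1 hA h5 hs0 hs

theorem low_up_flat_73 {u v d S' : ℝ} (hx0 : 8810 / 10000 ≤ u) (hx1 : u < 8909 / 10000)
    (hy0 : 7434 / 10000 ≤ v) (hy1 : v < 11568 / 10000) (hz0 : 438 / 10000 ≤ d) (hz1 : d < 501 / 10000)
    (hA : (3 / 5 - d) * v < 2) (h5 : d ≤ 1 / 20) (hs0 : 3 / 5 ≤ S') (hs : S' ≤ 3 / 5 + (d) * (d) / 3) :
    ∃ i j l : ℕ, 0 < (lowUpCond i j l).val u v d S' := by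
  rcases lt_or_ge v (9501 / 10000) with g | g
  · exact low_up_flat_74 hx0 hx1 hy0
      g hz0 hz1 hA h5 hs0 hs
  · exact low_up_flat_75 hx0 hx1 g
      hy1 hz0 hz1 hA h5 hs0 hs

theorem low_up_flat_63 {u v d S' : ℝ} (hx0 : 8810 / 10000 ≤ u) (hx1 : u < 8909 / 10000)
    (hy0 : 7434 / 10000 ≤ v) (hy1 : v < 11568 / 10000) (hz0 : 375 / 10000 ≤ d) (hz1 : d < 501 / 10000)
    (hA : (3 / 5 - d) * v < 2) (h5 : d ≤ 1 / 20) (hs0 : 3 / 5 ≤ S') (hs : S' ≤ 3 / 5 + (d) * (d) / 3) :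
    ∃ i j l : ℕ, 0 < (lowUpCond i j l).val u v d S' := by
  rcases lt_or_ge d (438 / 10000) with g | g
  · exact low_up_flat_64 hx0 hx1 hy0
      hy1 hz0 g hA h5 hs0 hs
  · exact low_up_flat_73 hx0 hx1 hy0
      hy1 g hz1 hA h5 hs0 hs

theorem low_up_flat_80 {u v d S' : ℝ} (hx0 : 8909 / 10000 ≤ u) (hx1 : u < 9000 / 10000)
    (hy0 : 7434 / 10000 ≤ v) (hy1 : v < 9501 / 10000) (hz0 : 375 / 10000 ≤ d) (hz1 : d < 438 / 10000)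
    (hA : (3 / 5 - d) * v < 2) (h5 : d ≤ 1 / 20) (hs0 : 3 / 5 ≤ S') (hs : S' ≤ 3 / 5 + (d) * (d) / 3) :
    ∃ i j l : ℕ, 0 < (lowUpCond i j l).val u v d S' := by
  exact ⟨0, 116787471688, 0, Ex.pos_of_checkQuick low_up_38 (lowMem 10000 (by push_cast; linarith) hx1) (lowMem 10000 hy0 hy1)
    (lowMem 10000 (by push_cast; linarith) hz1) (lowS_mem (by linarith) (show d ≤ (219 / 5000 : ℝ) by linarith) hs hs0 (by norm_num))⟩

theorem low_up_flat_82 {u v d S' : ℝ} (hx0 : 8909 / 10000 ≤ u) (hx1 : u < 8955 / 10000)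
    (hy0 : 9501 / 10000 ≤ v) (hy1 : v < 11568 / 10000) (hz0 : 375 / 10000 ≤ d) (hz1 : d < 438 / 10000)
    (hA : (3 / 5 - d) * v < 2) (h5 : d ≤ 1 / 20) (hs0 : 3 / 5 ≤ S') (hs : S' ≤ 3 / 5 + (d) * (d) / 3) :
    ∃ i j l : ℕ, 0 < (lowUpCond i j l).val u v d S' := by
  exact ⟨0, 1028, 0, Ex.pos_of_checkQuick low_up_39 (lowMem 10000 (by push_cast; linarith) hx1) (lowMem 10000 hy0 hy1)
    (lowMem 10000 (by push_cast; linarith) hz1) (lowS_mem (by linarith) (show d ≤ (219 / 5000 : ℝ) by linarith) hs hs0 (by norm_num))⟩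

theorem low_up_flat_84 {u v d S' : ℝ} (hx0 : 8955 / 10000 ≤ u) (hx1 : u < 9000 / 10000)
    (hy0 : 9501 / 10000 ≤ v) (hy1 : v < 11568 / 10000) (hz0 : 375 / 10000 ≤ d) (hz1 : d < 406 / 10000)
    (hA : (3 / 5 - d) * v < 2) (h5 : d ≤ 1 / 20) (hs0 : 3 / 5 ≤ S') (hs : S' ≤ 3 / 5 + (d) * (d) / 3) :
    ∃ i j l : ℕ, 0 < (lowUpCond i j l).val u v d S' := by
  exact ⟨0, 983, 0, Ex.pos_of_checkQuick low_up_40 (lowMem 10000 (by push_cast; linarith) hx1) (lowMem 10000 hy0 hy1)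
    (lowMem 10000 (by push_cast; linarith) hz1) (lowS_mem (by linarith) (show d ≤ (203 / 5000 : ℝ) by linarith) hs hs0 (by norm_num))⟩

theorem low_up_flat_86 {u v d S' : ℝ} (hx0 : 8955 / 10000 ≤ u) (hx1 : u < 9000 / 10000)
    (hy0 : 9501 / 10000 ≤ v) (hy1 : v < 10534 / 10000) (hz0 : 406 / 10000 ≤ d) (hz1 : d < 438 / 10000)
    (hA : (3 / 5 - d) * v < 2) (h5 : d ≤ 1 / 20) (hs0 : 3 / 5 ≤ S') (hs : S' ≤ 3 / 5 + (d) * (d) / 3) :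
    ∃ i j l : ℕ, 0 < (lowUpCond i j l).val u v d S' := by
  exact ⟨0, 1102, 0, Ex.pos_of_checkQuick low_up_41 (lowMem 10000 (by push_cast; linarith) hx1) (lowMem 10000 hy0 hy1)
    (lowMem 10000 (by push_cast; linarith) hz1) (lowS_mem (by linarith) (show d ≤ (219 / 5000 : ℝ) by linarith) hs hs0 (by norm_num))⟩

theorem low_up_flat_87 {u v d S' : ℝ} (hx0 : 8955 / 10000 ≤ u) (hx1 : u < 9000 / 10000)
    (hy0 : 10534 / 10000 ≤ v) (hy1 : v < 11568 / 10000) (hz0 : 406 / 10000 ≤ d) (hz1 : d < 438 / 10000)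
    (hA : (3 / 5 - d) * v < 2) (h5 : d ≤ 1 / 20) (hs0 : 3 / 5 ≤ S') (hs : S' ≤ 3 / 5 + (d) * (d) / 3) :
    ∃ i j l : ℕ, 0 < (lowUpCond i j l).val u v d S' := by
  exact ⟨0, 971, 0, Ex.pos_of_checkQuick low_up_42 (lowMem 10000 (by push_cast; linarith) hx1) (lowMem 10000 hy0 hy1)
    (lowMem 10000 (by push_cast; linarith) hz1) (lowS_mem (by linarith) (show d ≤ (219 / 5000 : ℝ) by linarith) hs hs0 (by norm_num))⟩

theorem low_up_flat_85 {u v d S' : ℝ} (hx0 : 8955 / 10000 ≤ u) (hx1 : u < 9000 / 10000)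
    (hy0 : 9501 / 10000 ≤ v) (hy1 : v < 11568 / 10000) (hz0 : 406 / 10000 ≤ d) (hz1 : d < 438 / 10000)
    (hA : (3 / 5 - d) * v < 2) (h5 : d ≤ 1 / 20) (hs0 : 3 / 5 ≤ S') (hs : S' ≤ 3 / 5 + (d) * (d) / 3) :
    ∃ i j l : ℕ, 0 < (lowUpCond i j l).val u v d S' := by
  rcases lt_or_ge v (10534 / 10000) with g | g
  · exact low_up_flat_86 hx0 hx1 hy0
      g hz0 hz1 hA h5 hs0 hs
  · exact low_up_flat_87 hx0 hx1 g
      hy1 hz0 hz1 hA h5 hs0 hs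

theorem low_up_flat_83 {u v d S' : ℝ} (hx0 : 8955 / 10000 ≤ u) (hx1 : u < 9000 / 10000)
    (hy0 : 9501 / 10000 ≤ v) (hy1 : v < 11568 / 10000) (hz0 : 375 / 10000 ≤ d) (hz1 : d < 438 / 10000)
    (hA : (3 / 5 - d) * v < 2) (h5 : d ≤ 1 / 20) (hs0 : 3 / 5 ≤ S') (hs : S' ≤ 3 / 5 + (d) * (d) / 3) :
    ∃ i j l : ℕ, 0 < (lowUpCond i j l).val u v d S' := by
  rcases lt_or_ge d (406 / 10000) with g | g
  · exact low_up_flat_84 hx0 hx1 hy0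
      hy1 hz0 g hA h5 hs0 hs
  · exact low_up_flat_85 hx0 hx1 hy0
      hy1 g hz1 hA h5 hs0 hs

theorem low_up_flat_81 {u v d S' : ℝ} (hx0 : 8909 / 10000 ≤ u) (hx1 : u < 9000 / 10000)
    (hy0 : 9501 / 10000 ≤ v) (hy1 : v < 11568 / 10000) (hz0 : 375 / 10000 ≤ d) (hz1 : d < 438 / 10000)
    (hA : (3 / 5 - d) * v < 2) (h5 : d ≤ 1 / 20) (hs0 : 3 / 5 ≤ S') (hs : S' ≤ 3 / 5 + (d) * (d) / 3) :
    ∃ i j l : ℕ, 0 < (lowUpCond i j l).val u v d S' := by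
  rcases lt_or_ge u (8955 / 10000) with g | g
  · exact low_up_flat_82 hx0 g hy0
      hy1 hz0 hz1 hA h5 hs0 hs
  · exact low_up_flat_83 g hx1 hy0
      hy1 hz0 hz1 hA h5 hs0 hs

theorem low_up_flat_79 {u v d S' : ℝ} (hx0 : 8909 / 10000 ≤ u) (hx1 : u < 9000 / 10000)
    (hy0 : 7434 / 10000 ≤ v) (hy1 : v < 11568 / 10000) (hz0 : 375 / 10000 ≤ d) (hz1 : d < 438 / 10000)
    (hA : (3 / 5 - d) * v < 2) (h5 : d ≤ 1 / 20) (hs0 : 3 / 5 ≤ S') (hs : S' ≤ 3 / 5 + (d) * (d) / 3) :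
    ∃ i j l : ℕ, 0 < (lowUpCond i j l).val u v d S' := by
  rcases lt_or_ge v (9501 / 10000) with g | g
  · exact low_up_flat_80 hx0 hx1 hy0
      g hz0 hz1 hA h5 hs0 hs
  · exact low_up_flat_81 hx0 hx1 g
      hy1 hz0 hz1 hA h5 hs0 hs

theorem low_up_flat_89 {u v d S' : ℝ} (hx0 : 8909 / 10000 ≤ u) (hx1 : u < 9000 / 10000)
    (hy0 : 7434 / 10000 ≤ v) (hy1 : v < 9501 / 10000) (hz0 : 438 / 10000 ≤ d) (hz1 : d < 501 / 10000)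
    (hA : (3 / 5 - d) * v < 2) (h5 : d ≤ 1 / 20) (hs0 : 3 / 5 ≤ S') (hs : S' ≤ 3 / 5 + (d) * (d) / 3) :
    ∃ i j l : ℕ, 0 < (lowUpCond i j l).val u v d S' := by
  exact ⟨0, 112786680557, 0, Ex.pos_of_checkQuick low_up_43 (lowMem 10000 (by push_cast; linarith) hx1) (lowMem 10000 hy0 hy1)
    (lowMem 10000 (by push_cast; linarith) hz1) (lowS_mem (by linarith) (show d ≤ (501 / 10000 : ℝ) by linarith) hs hs0 (by norm_num))⟩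

theorem low_up_flat_93 {u v d S' : ℝ} (hx0 : 8909 / 10000 ≤ u) (hx1 : u < 8955 / 10000)
    (hy0 : 9501 / 10000 ≤ v) (hy1 : v < 10534 / 10000) (hz0 : 438 / 10000 ≤ d) (hz1 : d < 469 / 10000)
    (hA : (3 / 5 - d) * v < 2) (h5 : d ≤ 1 / 20) (hs0 : 3 / 5 ≤ S') (hs : S' ≤ 3 / 5 + (d) * (d) / 3) :
    ∃ i j l : ℕ, 0 < (lowUpCond i j l).val u v d S' := by
  exact ⟨0, 1068, 0, Ex.pos_of_checkQuick low_up_44 (lowMem 10000 (by push_cast; linarith) hx1) (lowMem 10000 hy0 hy1)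
    (lowMem 10000 (by push_cast; linarith) hz1) (lowS_mem (by linarith) (show d ≤ (469 / 10000 : ℝ) by linarith) hs hs0 (by norm_num))⟩

theorem low_up_flat_94 {u v d S' : ℝ} (hx0 : 8909 / 10000 ≤ u) (hx1 : u < 8955 / 10000)
    (hy0 : 10534 / 10000 ≤ v) (hy1 : v < 11568 / 10000) (hz0 : 438 / 10000 ≤ d) (hz1 : d < 469 / 10000)
    (hA : (3 / 5 - d) * v < 2) (h5 : d ≤ 1 / 20) (hs0 : 3 / 5 ≤ S') (hs : S' ≤ 3 / 5 + (d) * (d) / 3) :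
    ∃ i j l : ℕ, 0 < (lowUpCond i j l).val u v d S' := by
  exact ⟨0, 0, 0, Ex.pos_of_checkQuick low_up_45 (lowMem 10000 (by push_cast; linarith) hx1) (lowMem 10000 hy0 hy1)
    (lowMem 10000 (by push_cast; linarith) hz1) (lowS_mem (by linarith) (show d ≤ (469 / 10000 : ℝ) by linarith) hs hs0 (by norm_num))⟩

theorem low_up_flat_92 {u v d S' : ℝ} (hx0 : 8909 / 10000 ≤ u) (hx1 : u < 8955 / 10000)
    (hy0 : 9501 / 10000 ≤ v) (hy1 : v < 11568 / 10000) (hz0 : 438 / 10000 ≤ d) (hz1 : d < 469 / 10000)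
    (hA : (3 / 5 - d) * v < 2) (h5 : d ≤ 1 / 20) (hs0 : 3 / 5 ≤ S') (hs : S' ≤ 3 / 5 + (d) * (d) / 3) :
    ∃ i j l : ℕ, 0 < (lowUpCond i j l).val u v d S' := by
  rcases lt_or_ge v (10534 / 10000) with g | g
  · exact low_up_flat_93 hx0 hx1 hy0
      g hz0 hz1 hA h5 hs0 hs
  · exact low_up_flat_94 hx0 hx1 g
      hy1 hz0 hz1 hA h5 hs0 hs

theorem low_up_flat_96 {u v d S' : ℝ} (hx0 : 8909 / 10000 ≤ u) (hx1 : u < 8955 / 10000)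
    (hy0 : 9501 / 10000 ≤ v) (hy1 : v < 10534 / 10000) (hz0 : 469 / 10000 ≤ d) (hz1 : d < 501 / 10000)
    (hA : (3 / 5 - d) * v < 2) (h5 : d ≤ 1 / 20) (hs0 : 3 / 5 ≤ S') (hs : S' ≤ 3 / 5 + (d) * (d) / 3) :
    ∃ i j l : ℕ, 0 < (lowUpCond i j l).val u v d S' := by
  exact ⟨0, 1040, 0, Ex.pos_of_checkQuick low_up_46 (lowMem 10000 (by push_cast; linarith) hx1) (lowMem 10000 hy0 hy1)
    (lowMem 10000 (by push_cast; linarith) hz1) (lowS_mem (by linarith) (show d ≤ (501 / 10000 : ℝ) by linarith) hs hs0 (by norm_num))⟩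

theorem low_up_flat_97 {u v d S' : ℝ} (hx0 : 8909 / 10000 ≤ u) (hx1 : u < 8955 / 10000)
    (hy0 : 10534 / 10000 ≤ v) (hy1 : v < 11568 / 10000) (hz0 : 469 / 10000 ≤ d) (hz1 : d < 501 / 10000)
    (hA : (3 / 5 - d) * v < 2) (h5 : d ≤ 1 / 20) (hs0 : 3 / 5 ≤ S') (hs : S' ≤ 3 / 5 + (d) * (d) / 3) :
    ∃ i j l : ℕ, 0 < (lowUpCond i j l).val u v d S' := by
  exact ⟨0, 0, 0, Ex.pos_of_checkQuick low_up_47 (lowMem 10000 (by push_cast; linarith) hx1) (lowMem 10000 hy0 hy1)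
    (lowMem 10000 (by push_cast; linarith) hz1) (lowS_mem (by linarith) (show d ≤ (501 / 10000 : ℝ) by linarith) hs hs0 (by norm_num))⟩

theorem low_up_flat_95 {u v d S' : ℝ} (hx0 : 8909 / 10000 ≤ u) (hx1 : u < 8955 / 10000)
    (hy0 : 9501 / 10000 ≤ v) (hy1 : v < 11568 / 10000) (hz0 : 469 / 10000 ≤ d) (hz1 : d < 501 / 10000)
    (hA : (3 / 5 - d) * v < 2) (h5 : d ≤ 1 / 20) (hs0 : 3 / 5 ≤ S') (hs : S' ≤ 3 / 5 + (d) * (d) / 3) :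
    ∃ i j l : ℕ, 0 < (lowUpCond i j l).val u v d S' := by
  rcases lt_or_ge v (10534 / 10000) with g | g
  · exact low_up_flat_96 hx0 hx1 hy0
      g hz0 hz1 hA h5 hs0 hs
  · exact low_up_flat_97 hx0 hx1 g
      hy1 hz0 hz1 hA h5 hs0 hs

theorem low_up_flat_91 {u v d S' : ℝ} (hx0 : 8909 / 10000 ≤ u) (hx1 : u < 8955 / 10000)
    (hy0 : 9501 / 10000 ≤ v) (hy1 : v < 11568 / 10000) (hz0 : 438 / 10000 ≤ d) (hz1 : d < 501 / 10000)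
    (hA : (3 / 5 - d) * v < 2) (h5 : d ≤ 1 / 20) (hs0 : 3 / 5 ≤ S') (hs : S' ≤ 3 / 5 + (d) * (d) / 3) :
    ∃ i j l : ℕ, 0 < (lowUpCond i j l).val u v d S' := by
  rcases lt_or_ge d (469 / 10000) with g | g
  · exact low_up_flat_92 hx0 hx1 hy0
      hy1 hz0 g hA h5 hs0 hs
  · exact low_up_flat_95 hx0 hx1 hy0
      hy1 g hz1 hA h5 hs0 hs

theorem low_up_flat_98 {u v d S' : ℝ} (hx0 : 8955 / 10000 ≤ u) (hx1 : u < 9000 / 10000)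
    (hy0 : 9501 / 10000 ≤ v) (hy1 : v < 11568 / 10000) (hz0 : 438 / 10000 ≤ d) (hz1 : d < 501 / 10000)
    (hA : (3 / 5 - d) * v < 2) (h5 : d ≤ 1 / 20) (hs0 : 3 / 5 ≤ S') (hs : S' ≤ 3 / 5 + (d) * (d) / 3) :
    ∃ i j l : ℕ, 0 < (lowUpCond i j l).val u v d S' := by
  exact ⟨0, 1034, 0, Ex.pos_of_checkQuick low_up_48 (lowMem 10000 (by push_cast; linarith) hx1) (lowMem 10000 hy0 hy1)
    (lowMem 10000 (by push_cast; linarith) hz1) (lowS_mem (by linarith) (show d ≤ (501 / 10000 : ℝ) by linarith) hs hs0 (by norm_num))⟩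

theorem low_up_flat_90 {u v d S' : ℝ} (hx0 : 8909 / 10000 ≤ u) (hx1 : u < 9000 / 10000)
    (hy0 : 9501 / 10000 ≤ v) (hy1 : v < 11568 / 10000) (hz0 : 438 / 10000 ≤ d) (hz1 : d < 501 / 10000)
    (hA : (3 / 5 - d) * v < 2) (h5 : d ≤ 1 / 20) (hs0 : 3 / 5 ≤ S') (hs : S' ≤ 3 / 5 + (d) * (d) / 3) :
    ∃ i j l : ℕ, 0 < (lowUpCond i j l).val u v d S' := by
  rcases lt_or_ge u (8955 / 10000) with g | g
  · exact low_up_flat_91 hx0 g hy0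
      hy1 hz0 hz1 hA h5 hs0 hs
  · exact low_up_flat_98 g hx1 hy0
      hy1 hz0 hz1 hA h5 hs0 hs

theorem low_up_flat_88 {u v d S' : ℝ} (hx0 : 8909 / 10000 ≤ u) (hx1 : u < 9000 / 10000)
    (hy0 : 7434 / 10000 ≤ v) (hy1 : v < 11568 / 10000) (hz0 : 438 / 10000 ≤ d) (hz1 : d < 501 / 10000)
    (hA : (3 / 5 - d) * v < 2) (h5 : d ≤ 1 / 20) (hs0 : 3 / 5 ≤ S') (hs : S' ≤ 3 / 5 + (d) * (d) / 3) :
    ∃ i j l : ℕ, 0 < (lowUpCond i j l).val u v d S' := by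
  rcases lt_or_ge v (9501 / 10000) with g | g
  · exact low_up_flat_89 hx0 hx1 hy0
      g hz0 hz1 hA h5 hs0 hs
  · exact low_up_flat_90 hx0 hx1 g
      hy1 hz0 hz1 hA h5 hs0 hs

theorem low_up_flat_78 {u v d S' : ℝ} (hx0 : 8909 / 10000 ≤ u) (hx1 : u < 9000 / 10000)
    (hy0 : 7434 / 10000 ≤ v) (hy1 : v < 11568 / 10000) (hz0 : 375 / 10000 ≤ d) (hz1 : d < 501 / 10000)
    (hA : (3 / 5 - d) * v < 2) (h5 : d ≤ 1 / 20) (hs0 : 3 / 5 ≤ S') (hs : S' ≤ 3 / 5 + (d) * (d) / 3) :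
    ∃ i j l : ℕ, 0 < (lowUpCond i j l).val u v d S' := by
  rcases lt_or_ge d (438 / 10000) with g | g
  · exact low_up_flat_79 hx0 hx1 hy0
      hy1 hz0 g hA h5 hs0 hs
  · exact low_up_flat_88 hx0 hx1 hy0
      hy1 g hz1 hA h5 hs0 hs

theorem low_up_flat_62 {u v d S' : ℝ} (hx0 : 8810 / 10000 ≤ u) (hx1 : u < 9000 / 10000)
    (hy0 : 7434 / 10000 ≤ v) (hy1 : v < 11568 / 10000) (hz0 : 375 / 10000 ≤ d) (hz1 : d < 501 / 10000)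
    (hA : (3 / 5 - d) * v < 2) (h5 : d ≤ 1 / 20) (hs0 : 3 / 5 ≤ S') (hs : S' ≤ 3 / 5 + (d) * (d) / 3) :
    ∃ i j l : ℕ, 0 < (lowUpCond i j l).val u v d S' := by
  rcases lt_or_ge u (8909 / 10000) with g | g
  · exact low_up_flat_63 hx0 g hy0
      hy1 hz0 hz1 hA h5 hs0 hs
  · exact low_up_flat_78 g hx1 hy0
      hy1 hz0 hz1 hA h5 hs0 hs

theorem low_up_flat_60 {u v d S' : ℝ} (hx0 : 8810 / 10000 ≤ u) (hx1 : u < 9000 / 10000)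
    (hy0 : 3300 / 10000 ≤ v) (hy1 : v < 11568 / 10000) (hz0 : 375 / 10000 ≤ d) (hz1 : d < 501 / 10000)
    (hA : (3 / 5 - d) * v < 2) (h5 : d ≤ 1 / 20) (hs0 : 3 / 5 ≤ S') (hs : S' ≤ 3 / 5 + (d) * (d) / 3) :
    ∃ i j l : ℕ, 0 < (lowUpCond i j l).val u v d S' := by
  rcases lt_or_ge v (7434 / 10000) with g | g
  · exact low_up_flat_61 hx0 hx1 hy0
      g hz0 hz1 hA h5 hs0 hs
  · exact low_up_flat_62 hx0 hx1 g
      hy1 hz0 hz1 hA h5 hs0 hs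

theorem low_up_flat_54 {u v d S' : ℝ} (hx0 : 8810 / 10000 ≤ u) (hx1 : u < 9000 / 10000)
    (hy0 : 3300 / 10000 ≤ v) (hy1 : v < 11568 / 10000) (hz0 : 250 / 10000 ≤ d) (hz1 : d < 501 / 10000)
    (hA : (3 / 5 - d) * v < 2) (h5 : d ≤ 1 / 20) (hs0 : 3 / 5 ≤ S') (hs : S' ≤ 3 / 5 + (d) * (d) / 3) :
    ∃ i j l : ℕ, 0 < (lowUpCond i j l).val u v d S' := by
  rcases lt_or_ge d (375 / 10000) with g | g
  · exact low_up_flat_55 hx0 hx1 hy0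
      hy1 hz0 g hA h5 hs0 hs
  · exact low_up_flat_60 hx0 hx1 hy0
      hy1 g hz1 hA h5 hs0 hs

theorem low_up_flat_36 {u v d S' : ℝ} (hx0 : 8585 / 10000 ≤ u) (hx1 : u < 9000 / 10000)
    (hy0 : 3300 / 10000 ≤ v) (hy1 : v < 11568 / 10000) (hz0 : 250 / 10000 ≤ d) (hz1 : d < 501 / 10000)
    (hA : (3 / 5 - d) * v < 2) (h5 : d ≤ 1 / 20) (hs0 : 3 / 5 ≤ S') (hs : S' ≤ 3 / 5 + (d) * (d) / 3) :
    ∃ i j l : ℕ, 0 < (lowUpCond i j l).val u v d S' := by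
  rcases lt_or_ge u (8810 / 10000) with g | g
  · exact low_up_flat_37 hx0 g hy0
      hy1 hz0 hz1 hA h5 hs0 hs
  · exact low_up_flat_54 g hx1 hy0
      hy1 hz0 hz1 hA h5 hs0 hs

theorem low_up_flat_99 {u v d S' : ℝ} (hx0 : 8585 / 10000 ≤ u) (hx1 : u < 9000 / 10000)
    (hy0 : 11568 / 10000 ≤ v) (hy1 : v < 19836 / 10000) (hz0 : 250 / 10000 ≤ d) (hz1 : d < 501 / 10000)
    (hA : (3 / 5 - d) * v < 2) (h5 : d ≤ 1 / 20) (hs0 : 3 / 5 ≤ S') (hs : S' ≤ 3 / 5 + (d) * (d) / 3) :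
    ∃ i j l : ℕ, 0 < (lowUpCond i j l).val u v d S' := by
  exact ⟨0, 0, 0, Ex.pos_of_checkQuick low_up_49 (lowMem 10000 (by push_cast; linarith) hx1) (lowMem 10000 hy0 hy1)
    (lowMem 10000 (by push_cast; linarith) hz1) (lowS_mem (by linarith) (show d ≤ (501 / 10000 : ℝ) by linarith) hs hs0 (by norm_num))⟩

theorem low_up_flat_35 {u v d S' : ℝ} (hx0 : 8585 / 10000 ≤ u) (hx1 : u < 9000 / 10000)
    (hy0 : 3300 / 10000 ≤ v) (hy1 : v < 19836 / 10000) (hz0 : 250 / 10000 ≤ d) (hz1 : d < 501 / 10000)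
    (hA : (3 / 5 - d) * v < 2) (h5 : d ≤ 1 / 20) (hs0 : 3 / 5 ≤ S') (hs : S' ≤ 3 / 5 + (d) * (d) / 3) :
    ∃ i j l : ℕ, 0 < (lowUpCond i j l).val u v d S' := by
  rcases lt_or_ge v (11568 / 10000) with g | g
  · exact low_up_flat_36 hx0 hx1 hy0
      g hz0 hz1 hA h5 hs0 hs
  · exact low_up_flat_99 hx0 hx1 g
      hy1 hz0 hz1 hA h5 hs0 hs

theorem low_up_flat_31 {u v d S' : ℝ} (hx0 : 8585 / 10000 ≤ u) (hx1 : u < 9000 / 10000)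
    (hy0 : 3300 / 10000 ≤ v) (hy1 : v < 19836 / 10000) (hz0 : 0 / 10000 ≤ d) (hz1 : d < 501 / 10000)
    (hA : (3 / 5 - d) * v < 2) (h5 : d ≤ 1 / 20) (hs0 : 3 / 5 ≤ S') (hs : S' ≤ 3 / 5 + (d) * (d) / 3) :
    ∃ i j l : ℕ, 0 < (lowUpCond i j l).val u v d S' := by
  rcases lt_or_ge d (250 / 10000) with g | g
  · exact low_up_flat_32 hx0 hx1 hy0
      hy1 hz0 g hA h5 hs0 hs
  · exact low_up_flat_35 hx0 hx1 hy0
      hy1 g hz1 hA h5 hs0 hs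

theorem low_up_flat_17 {u v d S' : ℝ} (hx0 : 8000 / 10000 ≤ u) (hx1 : u < 9000 / 10000)
    (hy0 : 3300 / 10000 ≤ v) (hy1 : v < 19836 / 10000) (hz0 : 0 / 10000 ≤ d) (hz1 : d < 501 / 10000)
    (hA : (3 / 5 - d) * v < 2) (h5 : d ≤ 1 / 20) (hs0 : 3 / 5 ≤ S') (hs : S' ≤ 3 / 5 + (d) * (d) / 3) :
    ∃ i j l : ℕ, 0 < (lowUpCond i j l).val u v d S' := by
  rcases lt_or_ge u (8585 / 10000) with g | g
  · exact low_up_flat_18 hx0 g hy0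
      hy1 hz0 hz1 hA h5 hs0 hs
  · exact low_up_flat_31 g hx1 hy0
      hy1 hz0 hz1 hA h5 hs0 hs

theorem low_up_flat_100 {u v d S' : ℝ} (hx0 : 8000 / 10000 ≤ u) (hx1 : u < 9000 / 10000)
    (hy0 : 19836 / 10000 ≤ v) (hy1 : v < 36372 / 10000) (hz0 : 0 / 10000 ≤ d) (hz1 : d < 501 / 10000)
    (hA : (3 / 5 - d) * v < 2) (h5 : d ≤ 1 / 20) (hs0 : 3 / 5 ≤ S') (hs : S' ≤ 3 / 5 + (d) * (d) / 3) :
    ∃ i j l : ℕ, 0 < (lowUpCond i j l).val u v d S' := by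
  exact ⟨0, 0, 0, Ex.pos_of_checkQuick low_up_50 (lowMem 10000 (by push_cast; linarith) hx1) (lowMem 10000 hy0 hy1)
    (lowMem 10000 (by push_cast; linarith) hz1) (lowS_mem (by linarith) (show d ≤ (501 / 10000 : ℝ) by linarith) hs hs0 (by norm_num))⟩

theorem low_up_flat_16 {u v d S' : ℝ} (hx0 : 8000 / 10000 ≤ u) (hx1 : u < 9000 / 10000)
    (hy0 : 3300 / 10000 ≤ v) (hy1 : v < 36372 / 10000) (hz0 : 0 / 10000 ≤ d) (hz1 : d < 501 / 10000)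
    (hA : (3 / 5 - d) * v < 2) (h5 : d ≤ 1 / 20) (hs0 : 3 / 5 ≤ S') (hs : S' ≤ 3 / 5 + (d) * (d) / 3) :
    ∃ i j l : ℕ, 0 < (lowUpCond i j l).val u v d S' := by
  rcases lt_or_ge v (19836 / 10000) with g | g
  · exact low_up_flat_17 hx0 hx1 hy0
      g hz0 hz1 hA h5 hs0 hs
  · exact low_up_flat_100 hx0 hx1 g
      hy1 hz0 hz1 hA h5 hs0 hs

theorem low_up_flat_105 {u v d S' : ℝ} (hx0 : 9000 / 10000 ≤ u) (hx1 : u < 9292 / 10000)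
    (hy0 : 3300 / 10000 ≤ v) (hy1 : v < 11568 / 10000) (hz0 : 0 / 10000 ≤ d) (hz1 : d < 250 / 10000)
    (hA : (3 / 5 - d) * v < 2) (h5 : d ≤ 1 / 20) (hs0 : 3 / 5 ≤ S') (hs : S' ≤ 3 / 5 + (d) * (d) / 3) :
    ∃ i j l : ℕ, 0 < (lowUpCond i j l).val u v d S' := by
  exact ⟨0, 1121, 0, Ex.pos_of_checkQuick low_up_51 (lowMem 10000 (by push_cast; linarith) hx1) (lowMem 10000 hy0 hy1)
    (lowMem 10000 (by push_cast; linarith) hz1) (lowS_mem (by linarith) (show d ≤ (1 / 40 : ℝ) by linarith) hs hs0 (by norm_num))⟩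

theorem low_up_flat_110 {u v d S' : ℝ} (hx0 : 9000 / 10000 ≤ u) (hx1 : u < 9082 / 10000)
    (hy0 : 11568 / 10000 ≤ v) (hy1 : v < 15702 / 10000) (hz0 : 0 / 10000 ≤ d) (hz1 : d < 125 / 10000)
    (hA : (3 / 5 - d) * v < 2) (h5 : d ≤ 1 / 20) (hs0 : 3 / 5 ≤ S') (hs : S' ≤ 3 / 5 + (d) * (d) / 3) :
    ∃ i j l : ℕ, 0 < (lowUpCond i j l).val u v d S' := by
  exact ⟨0, 881, 0, Ex.pos_of_checkQuick low_up_52 (lowMem 10000 (by push_cast; linarith) hx1) (lowMem 10000 hy0 hy1)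
    (lowMem 10000 (by push_cast; linarith) hz1) (lowS_mem (by linarith) (show d ≤ (1 / 80 : ℝ) by linarith) hs hs0 (by norm_num))⟩

theorem low_up_flat_112 {u v d S' : ℝ} (hx0 : 9082 / 10000 ≤ u) (hx1 : u < 9158 / 10000)
    (hy0 : 11568 / 10000 ≤ v) (hy1 : v < 15702 / 10000) (hz0 : 0 / 10000 ≤ d) (hz1 : d < 62 / 10000)
    (hA : (3 / 5 - d) * v < 2) (h5 : d ≤ 1 / 20) (hs0 : 3 / 5 ≤ S') (hs : S' ≤ 3 / 5 + (d) * (d) / 3) :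
    ∃ i j l : ℕ, 0 < (lowUpCond i j l).val u v d S' := by
  exact ⟨0, 891, 0, Ex.pos_of_checkQuick low_up_53 (lowMem 10000 (by push_cast; linarith) hx1) (lowMem 10000 hy0 hy1)
    (lowMem 10000 (by push_cast; linarith) hz1) (lowS_mem (by linarith) (show d ≤ (31 / 5000 : ℝ) by linarith) hs hs0 (by norm_num))⟩

theorem low_up_flat_113 {u v d S' : ℝ} (hx0 : 9082 / 10000 ≤ u) (hx1 : u < 9158 / 10000)
    (hy0 : 11568 / 10000 ≤ v) (hy1 : v < 15702 / 10000) (hz0 : 62 / 10000 ≤ d) (hz1 : d < 125 / 10000)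
    (hA : (3 / 5 - d) * v < 2) (h5 : d ≤ 1 / 20) (hs0 : 3 / 5 ≤ S') (hs : S' ≤ 3 / 5 + (d) * (d) / 3) :
    ∃ i j l : ℕ, 0 < (lowUpCond i j l).val u v d S' := by
  exact ⟨0, 825, 0, Ex.pos_of_checkQuick low_up_54 (lowMem 10000 (by push_cast; linarith) hx1) (lowMem 10000 hy0 hy1)
    (lowMem 10000 (by push_cast; linarith) hz1) (lowS_mem (by linarith) (show d ≤ (1 / 80 : ℝ) by linarith) hs hs0 (by norm_num))⟩

theorem low_up_flat_111 {u v d S' : ℝ} (hx0 : 9082 / 10000 ≤ u) (hx1 : u < 9158 / 10000)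
    (hy0 : 11568 / 10000 ≤ v) (hy1 : v < 15702 / 10000) (hz0 : 0 / 10000 ≤ d) (hz1 : d < 125 / 10000)
    (hA : (3 / 5 - d) * v < 2) (h5 : d ≤ 1 / 20) (hs0 : 3 / 5 ≤ S') (hs : S' ≤ 3 / 5 + (d) * (d) / 3) :
    ∃ i j l : ℕ, 0 < (lowUpCond i j l).val u v d S' := by
  rcases lt_or_ge d (62 / 10000) with g | g
  · exact low_up_flat_112 hx0 hx1 hy0
      hy1 hz0 g hA h5 hs0 hs
  · exact low_up_flat_113 hx0 hx1 hy0
      hy1 g hz1 hA h5 hs0 hs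

theorem low_up_flat_109 {u v d S' : ℝ} (hx0 : 9000 / 10000 ≤ u) (hx1 : u < 9158 / 10000)
    (hy0 : 11568 / 10000 ≤ v) (hy1 : v < 15702 / 10000) (hz0 : 0 / 10000 ≤ d) (hz1 : d < 125 / 10000)
    (hA : (3 / 5 - d) * v < 2) (h5 : d ≤ 1 / 20) (hs0 : 3 / 5 ≤ S') (hs : S' ≤ 3 / 5 + (d) * (d) / 3) :
    ∃ i j l : ℕ, 0 < (lowUpCond i j l).val u v d S' := by
  rcases lt_or_ge u (9082 / 10000) with g | g
  · exact low_up_flat_110 hx0 g hy0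
      hy1 hz0 hz1 hA h5 hs0 hs
  · exact low_up_flat_111 g hx1 hy0
      hy1 hz0 hz1 hA h5 hs0 hs

theorem low_up_flat_114 {u v d S' : ℝ} (hx0 : 9000 / 10000 ≤ u) (hx1 : u < 9158 / 10000)
    (hy0 : 15702 / 10000 ≤ v) (hy1 : v < 19836 / 10000) (hz0 : 0 / 10000 ≤ d) (hz1 : d < 125 / 10000)
    (hA : (3 / 5 - d) * v < 2) (h5 : d ≤ 1 / 20) (hs0 : 3 / 5 ≤ S') (hs : S' ≤ 3 / 5 + (d) * (d) / 3) :
    ∃ i j l : ℕ, 0 < (lowUpCond i j l).val u v d S' := by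
  exact ⟨0, 0, 0, Ex.pos_of_checkQuick low_up_55 (lowMem 10000 (by push_cast; linarith) hx1) (lowMem 10000 hy0 hy1)
    (lowMem 10000 (by push_cast; linarith) hz1) (lowS_mem (by linarith) (show d ≤ (1 / 80 : ℝ) by linarith) hs hs0 (by norm_num))⟩

theorem low_up_flat_108 {u v d S' : ℝ} (hx0 : 9000 / 10000 ≤ u) (hx1 : u < 9158 / 10000)
    (hy0 : 11568 / 10000 ≤ v) (hy1 : v < 19836 / 10000) (hz0 : 0 / 10000 ≤ d) (hz1 : d < 125 / 10000)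
    (hA : (3 / 5 - d) * v < 2) (h5 : d ≤ 1 / 20) (hs0 : 3 / 5 ≤ S') (hs : S' ≤ 3 / 5 + (d) * (d) / 3) :
    ∃ i j l : ℕ, 0 < (lowUpCond i j l).val u v d S' := by
  rcases lt_or_ge v (15702 / 10000) with g | g
  · exact low_up_flat_109 hx0 hx1 hy0
      g hz0 hz1 hA h5 hs0 hs
  · exact low_up_flat_114 hx0 hx1 g
      hy1 hz0 hz1 hA h5 hs0 hs

theorem low_up_flat_115 {u v d S' : ℝ} (hx0 : 9000 / 10000 ≤ u) (hx1 : u < 9158 / 10000)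
    (hy0 : 11568 / 10000 ≤ v) (hy1 : v < 19836 / 10000) (hz0 : 125 / 10000 ≤ d) (hz1 : d < 250 / 10000)
    (hA : (3 / 5 - d) * v < 2) (h5 : d ≤ 1 / 20) (hs0 : 3 / 5 ≤ S') (hs : S' ≤ 3 / 5 + (d) * (d) / 3) :
    ∃ i j l : ℕ, 0 < (lowUpCond i j l).val u v d S' := by
  exact ⟨0, 805, 0, Ex.pos_of_checkQuick low_up_56 (lowMem 10000 (by push_cast; linarith) hx1) (lowMem 10000 hy0 hy1)
    (lowMem 10000 (by push_cast; linarith) hz1) (lowS_mem (by linarith) (show d ≤ (1 / 40 : ℝ) by linarith) hs hs0 (by norm_num))⟩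

theorem low_up_flat_107 {u v d S' : ℝ} (hx0 : 9000 / 10000 ≤ u) (hx1 : u < 9158 / 10000)
    (hy0 : 11568 / 10000 ≤ v) (hy1 : v < 19836 / 10000) (hz0 : 0 / 10000 ≤ d) (hz1 : d < 250 / 10000)
    (hA : (3 / 5 - d) * v < 2) (h5 : d ≤ 1 / 20) (hs0 : 3 / 5 ≤ S') (hs : S' ≤ 3 / 5 + (d) * (d) / 3) :
    ∃ i j l : ℕ, 0 < (lowUpCond i j l).val u v d S' := by
  rcases lt_or_ge d (125 / 10000) with g | g
  · exact low_up_flat_108 hx0 hx1 hy0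
      hy1 hz0 g hA h5 hs0 hs
  · exact low_up_flat_115 hx0 hx1 hy0
      hy1 g hz1 hA h5 hs0 hs

theorem low_up_flat_120 {u v d S' : ℝ} (hx0 : 9158 / 10000 ≤ u) (hx1 : u < 9227 / 10000)
    (hy0 : 11568 / 10000 ≤ v) (hy1 : v < 15702 / 10000) (hz0 : 0 / 10000 ≤ d) (hz1 : d < 62 / 10000)
    (hA : (3 / 5 - d) * v < 2) (h5 : d ≤ 1 / 20) (hs0 : 3 / 5 ≤ S') (hs : S' ≤ 3 / 5 + (d) * (d) / 3) :
    ∃ i j l : ℕ, 0 < (lowUpCond i j l).val u v d S' := by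
  exact ⟨0, 896, 0, Ex.pos_of_checkQuick low_up_57 (lowMem 10000 (by push_cast; linarith) hx1) (lowMem 10000 hy0 hy1)
    (lowMem 10000 (by push_cast; linarith) hz1) (lowS_mem (by linarith) (show d ≤ (31 / 5000 : ℝ) by linarith) hs hs0 (by norm_num))⟩

theorem low_up_flat_121 {u v d S' : ℝ} (hx0 : 9158 / 10000 ≤ u) (hx1 : u < 9227 / 10000)
    (hy0 : 11568 / 10000 ≤ v) (hy1 : v < 15702 / 10000) (hz0 : 62 / 10000 ≤ d) (hz1 : d < 125 / 10000)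
    (hA : (3 / 5 - d) * v < 2) (h5 : d ≤ 1 / 20) (hs0 : 3 / 5 ≤ S') (hs : S' ≤ 3 / 5 + (d) * (d) / 3) :
    ∃ i j l : ℕ, 0 < (lowUpCond i j l).val u v d S' := by
  exact ⟨0, 796, 0, Ex.pos_of_checkQuick low_up_58 (lowMem 10000 (by push_cast; linarith) hx1) (lowMem 10000 hy0 hy1)
    (lowMem 10000 (by push_cast; linarith) hz1) (lowS_mem (by linarith) (show d ≤ (1 / 80 : ℝ) by linarith) hs hs0 (by norm_num))⟩

theorem low_up_flat_119 {u v d S' : ℝ} (hx0 : 9158 / 10000 ≤ u) (hx1 : u < 9227 / 10000)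
    (hy0 : 11568 / 10000 ≤ v) (hy1 : v < 15702 / 10000) (hz0 : 0 / 10000 ≤ d) (hz1 : d < 125 / 10000)
    (hA : (3 / 5 - d) * v < 2) (h5 : d ≤ 1 / 20) (hs0 : 3 / 5 ≤ S') (hs : S' ≤ 3 / 5 + (d) * (d) / 3) :
    ∃ i j l : ℕ, 0 < (lowUpCond i j l).val u v d S' := by
  rcases lt_or_ge d (62 / 10000) with g | g
  · exact low_up_flat_120 hx0 hx1 hy0
      hy1 hz0 g hA h5 hs0 hs
  · exact low_up_flat_121 hx0 hx1 hy0
      hy1 g hz1 hA h5 hs0 hs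

theorem low_up_flat_123 {u v d S' : ℝ} (hx0 : 9227 / 10000 ≤ u) (hx1 : u < 9292 / 10000)
    (hy0 : 11568 / 10000 ≤ v) (hy1 : v < 15702 / 10000) (hz0 : 0 / 10000 ≤ d) (hz1 : d < 62 / 10000)
    (hA : (3 / 5 - d) * v < 2) (h5 : d ≤ 1 / 20) (hs0 : 3 / 5 ≤ S') (hs : S' ≤ 3 / 5 + (d) * (d) / 3) :
    ∃ i j l : ℕ, 0 < (lowUpCond i j l).val u v d S' := by
  exact ⟨0, 890, 0, Ex.pos_of_checkQuick low_up_59 (lowMem 10000 (by push_cast; linarith) hx1) (lowMem 10000 hy0 hy1)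
    (lowMem 10000 (by push_cast; linarith) hz1) (lowS_mem (by linarith) (show d ≤ (31 / 5000 : ℝ) by linarith) hs hs0 (by norm_num))⟩

theorem low_up_flat_124 {u v d S' : ℝ} (hx0 : 9227 / 10000 ≤ u) (hx1 : u < 9292 / 10000)
    (hy0 : 11568 / 10000 ≤ v) (hy1 : v < 15702 / 10000) (hz0 : 62 / 10000 ≤ d) (hz1 : d < 125 / 10000)
    (hA : (3 / 5 - d) * v < 2) (h5 : d ≤ 1 / 20) (hs0 : 3 / 5 ≤ S') (hs : S' ≤ 3 / 5 + (d) * (d) / 3) :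
    ∃ i j l : ℕ, 0 < (lowUpCond i j l).val u v d S' := by
  exact ⟨0, 832, 0, Ex.pos_of_checkQuick low_up_60 (lowMem 10000 (by push_cast; linarith) hx1) (lowMem 10000 hy0 hy1)
    (lowMem 10000 (by push_cast; linarith) hz1) (lowS_mem (by linarith) (show d ≤ (1 / 80 : ℝ) by linarith) hs hs0 (by norm_num))⟩

theorem low_up_flat_122 {u v d S' : ℝ} (hx0 : 9227 / 10000 ≤ u) (hx1 : u < 9292 / 10000)
    (hy0 : 11568 / 10000 ≤ v) (hy1 : v < 15702 / 10000) (hz0 : 0 / 10000 ≤ d) (hz1 : d < 125 / 10000)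
    (hA : (3 / 5 - d) * v < 2) (h5 : d ≤ 1 / 20) (hs0 : 3 / 5 ≤ S') (hs : S' ≤ 3 / 5 + (d) * (d) / 3) :
    ∃ i j l : ℕ, 0 < (lowUpCond i j l).val u v d S' := by
  rcases lt_or_ge d (62 / 10000) with g | g
  · exact low_up_flat_123 hx0 hx1 hy0
      hy1 hz0 g hA h5 hs0 hs
  · exact low_up_flat_124 hx0 hx1 hy0
      hy1 g hz1 hA h5 hs0 hs

theorem low_up_flat_118 {u v d S' : ℝ} (hx0 : 9158 / 10000 ≤ u) (hx1 : u < 9292 / 10000)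
    (hy0 : 11568 / 10000 ≤ v) (hy1 : v < 15702 / 10000) (hz0 : 0 / 10000 ≤ d) (hz1 : d < 125 / 10000)
    (hA : (3 / 5 - d) * v < 2) (h5 : d ≤ 1 / 20) (hs0 : 3 / 5 ≤ S') (hs : S' ≤ 3 / 5 + (d) * (d) / 3) :
    ∃ i j l : ℕ, 0 < (lowUpCond i j l).val u v d S' := by
  rcases lt_or_ge u (9227 / 10000) with g | g
  · exact low_up_flat_119 hx0 g hy0
      hy1 hz0 hz1 hA h5 hs0 hs
  · exact low_up_flat_122 g hx1 hy0
      hy1 hz0 hz1 hA h5 hs0 hs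

theorem low_up_flat_125 {u v d S' : ℝ} (hx0 : 9158 / 10000 ≤ u) (hx1 : u < 9292 / 10000)
    (hy0 : 15702 / 10000 ≤ v) (hy1 : v < 19836 / 10000) (hz0 : 0 / 10000 ≤ d) (hz1 : d < 125 / 10000)
    (hA : (3 / 5 - d) * v < 2) (h5 : d ≤ 1 / 20) (hs0 : 3 / 5 ≤ S') (hs : S' ≤ 3 / 5 + (d) * (d) / 3) :
    ∃ i j l : ℕ, 0 < (lowUpCond i j l).val u v d S' := by
  exact ⟨0, 0, 0, Ex.pos_of_checkQuick low_up_61 (lowMem 10000 (by push_cast; linarith) hx1) (lowMem 10000 hy0 hy1)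
    (lowMem 10000 (by push_cast; linarith) hz1) (lowS_mem (by linarith) (show d ≤ (1 / 80 : ℝ) by linarith) hs hs0 (by norm_num))⟩

theorem low_up_flat_117 {u v d S' : ℝ} (hx0 : 9158 / 10000 ≤ u) (hx1 : u < 9292 / 10000)
    (hy0 : 11568 / 10000 ≤ v) (hy1 : v < 19836 / 10000) (hz0 : 0 / 10000 ≤ d) (hz1 : d < 125 / 10000)
    (hA : (3 / 5 - d) * v < 2) (h5 : d ≤ 1 / 20) (hs0 : 3 / 5 ≤ S') (hs : S' ≤ 3 / 5 + (d) * (d) / 3) :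
    ∃ i j l : ℕ, 0 < (lowUpCond i j l).val u v d S' := by
  rcases lt_or_ge v (15702 / 10000) with g | g
  · exact low_up_flat_118 hx0 hx1 hy0
      g hz0 hz1 hA h5 hs0 hs
  · exact low_up_flat_125 hx0 hx1 g
      hy1 hz0 hz1 hA h5 hs0 hs

theorem low_up_flat_126 {u v d S' : ℝ} (hx0 : 9158 / 10000 ≤ u) (hx1 : u < 9292 / 10000)
    (hy0 : 11568 / 10000 ≤ v) (hy1 : v < 19836 / 10000) (hz0 : 125 / 10000 ≤ d) (hz1 : d < 250 / 10000)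
    (hA : (3 / 5 - d) * v < 2) (h5 : d ≤ 1 / 20) (hs0 : 3 / 5 ≤ S') (hs : S' ≤ 3 / 5 + (d) * (d) / 3) :
    ∃ i j l : ℕ, 0 < (lowUpCond i j l).val u v d S' := by
  exact ⟨0, 728, 0, Ex.pos_of_checkQuick low_up_62 (lowMem 10000 (by push_cast; linarith) hx1) (lowMem 10000 hy0 hy1)
    (lowMem 10000 (by push_cast; linarith) hz1) (lowS_mem (by linarith) (show d ≤ (1 / 40 : ℝ) by linarith) hs hs0 (by norm_num))⟩

theorem low_up_flat_116 {u v d S' : ℝ} (hx0 : 9158 / 10000 ≤ u) (hx1 : u < 9292 / 10000)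
    (hy0 : 11568 / 10000 ≤ v) (hy1 : v < 19836 / 10000) (hz0 : 0 / 10000 ≤ d) (hz1 : d < 250 / 10000)
    (hA : (3 / 5 - d) * v < 2) (h5 : d ≤ 1 / 20) (hs0 : 3 / 5 ≤ S') (hs : S' ≤ 3 / 5 + (d) * (d) / 3) :
    ∃ i j l : ℕ, 0 < (lowUpCond i j l).val u v d S' := by
  rcases lt_or_ge d (125 / 10000) with g | g
  · exact low_up_flat_117 hx0 hx1 hy0
      hy1 hz0 g hA h5 hs0 hs
  · exact low_up_flat_126 hx0 hx1 hy0
      hy1 g hz1 hA h5 hs0 hs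

theorem low_up_flat_106 {u v d S' : ℝ} (hx0 : 9000 / 10000 ≤ u) (hx1 : u < 9292 / 10000)
    (hy0 : 11568 / 10000 ≤ v) (hy1 : v < 19836 / 10000) (hz0 : 0 / 10000 ≤ d) (hz1 : d < 250 / 10000)
    (hA : (3 / 5 - d) * v < 2) (h5 : d ≤ 1 / 20) (hs0 : 3 / 5 ≤ S') (hs : S' ≤ 3 / 5 + (d) * (d) / 3) :
    ∃ i j l : ℕ, 0 < (lowUpCond i j l).val u v d S' := by
  rcases lt_or_ge u (9158 / 10000) with g | g
  · exact low_up_flat_107 hx0 g hy0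
      hy1 hz0 hz1 hA h5 hs0 hs
  · exact low_up_flat_116 g hx1 hy0
      hy1 hz0 hz1 hA h5 hs0 hs

theorem low_up_flat_104 {u v d S' : ℝ} (hx0 : 9000 / 10000 ≤ u) (hx1 : u < 9292 / 10000)
    (hy0 : 3300 / 10000 ≤ v) (hy1 : v < 19836 / 10000) (hz0 : 0 / 10000 ≤ d) (hz1 : d < 250 / 10000)
    (hA : (3 / 5 - d) * v < 2) (h5 : d ≤ 1 / 20) (hs0 : 3 / 5 ≤ S') (hs : S' ≤ 3 / 5 + (d) * (d) / 3) :
    ∃ i j l : ℕ, 0 < (lowUpCond i j l).val u v d S' := by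
  rcases lt_or_ge v (11568 / 10000) with g | g
  · exact low_up_flat_105 hx0 hx1 hy0
      g hz0 hz1 hA h5 hs0 hs
  · exact low_up_flat_106 hx0 hx1 g
      hy1 hz0 hz1 hA h5 hs0 hs

theorem low_up_flat_130 {u v d S' : ℝ} (hx0 : 9000 / 10000 ≤ u) (hx1 : u < 9158 / 10000)
    (hy0 : 3300 / 10000 ≤ v) (hy1 : v < 11568 / 10000) (hz0 : 250 / 10000 ≤ d) (hz1 : d < 375 / 10000)
    (hA : (3 / 5 - d) * v < 2) (h5 : d ≤ 1 / 20) (hs0 : 3 / 5 ≤ S') (hs : S' ≤ 3 / 5 + (d) * (d) / 3) :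
    ∃ i j l : ℕ, 0 < (lowUpCond i j l).val u v d S' := by
  exact ⟨0, 1001, 0, Ex.pos_of_checkQuick low_up_63 (lowMem 10000 (by push_cast; linarith) hx1) (lowMem 10000 hy0 hy1)
    (lowMem 10000 (by push_cast; linarith) hz1) (lowS_mem (by linarith) (show d ≤ (3 / 80 : ℝ) by linarith) hs hs0 (by norm_num))⟩

theorem low_up_flat_132 {u v d S' : ℝ} (hx0 : 9000 / 10000 ≤ u) (hx1 : u < 9158 / 10000)
    (hy0 : 3300 / 10000 ≤ v) (hy1 : v < 7434 / 10000) (hz0 : 375 / 10000 ≤ d) (hz1 : d < 501 / 10000)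
    (hA : (3 / 5 - d) * v < 2) (h5 : d ≤ 1 / 20) (hs0 : 3 / 5 ≤ S') (hs : S' ≤ 3 / 5 + (d) * (d) / 3) :
    ∃ i j l : ℕ, 0 < (lowUpCond i j l).val u v d S' := by
  exact ⟨0, 81341161761, 0, Ex.pos_of_checkQuick low_up_64 (lowMem 10000 (by push_cast; linarith) hx1) (lowMem 10000 hy0 hy1)
    (lowMem 10000 (by push_cast; linarith) hz1) (lowS_mem (by linarith) (show d ≤ (501 / 10000 : ℝ) by linarith) hs hs0 (by norm_num))⟩

theorem low_up_flat_136 {u v d S' : ℝ} (hx0 : 9000 / 10000 ≤ u) (hx1 : u < 9082 / 10000)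
    (hy0 : 7434 / 10000 ≤ v) (hy1 : v < 9501 / 10000) (hz0 : 375 / 10000 ≤ d) (hz1 : d < 438 / 10000)
    (hA : (3 / 5 - d) * v < 2) (h5 : d ≤ 1 / 20) (hs0 : 3 / 5 ≤ S') (hs : S' ≤ 3 / 5 + (d) * (d) / 3) :
    ∃ i j l : ℕ, 0 < (lowUpCond i j l).val u v d S' := by
  exact ⟨0, 115314788016, 0, Ex.pos_of_checkQuick low_up_65 (lowMem 10000 (by push_cast; linarith) hx1) (lowMem 10000 hy0 hy1)
    (lowMem 10000 (by push_cast; linarith) hz1) (lowS_mem (by linarith) (show d ≤ (219 / 5000 : ℝ) by linarith) hs hs0 (by norm_num))⟩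

theorem low_up_flat_137 {u v d S' : ℝ} (hx0 : 9000 / 10000 ≤ u) (hx1 : u < 9082 / 10000)
    (hy0 : 9501 / 10000 ≤ v) (hy1 : v < 11568 / 10000) (hz0 : 375 / 10000 ≤ d) (hz1 : d < 438 / 10000)
    (hA : (3 / 5 - d) * v < 2) (h5 : d ≤ 1 / 20) (hs0 : 3 / 5 ≤ S') (hs : S' ≤ 3 / 5 + (d) * (d) / 3) :
    ∃ i j l : ℕ, 0 < (lowUpCond i j l).val u v d S' := by
  exact ⟨0, 1002, 0, Ex.pos_of_checkQuick low_up_66 (lowMem 10000 (by push_cast; linarith) hx1) (lowMem 10000 hy0 hy1)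
    (lowMem 10000 (by push_cast; linarith) hz1) (lowS_mem (by linarith) (show d ≤ (219 / 5000 : ℝ) by linarith) hs hs0 (by norm_num))⟩

theorem low_up_flat_135 {u v d S' : ℝ} (hx0 : 9000 / 10000 ≤ u) (hx1 : u < 9082 / 10000)
    (hy0 : 7434 / 10000 ≤ v) (hy1 : v < 11568 / 10000) (hz0 : 375 / 10000 ≤ d) (hz1 : d < 438 / 10000)
    (hA : (3 / 5 - d) * v < 2) (h5 : d ≤ 1 / 20) (hs0 : 3 / 5 ≤ S') (hs : S' ≤ 3 / 5 + (d) * (d) / 3) :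
    ∃ i j l : ℕ, 0 < (lowUpCond i j l).val u v d S' := by
  rcases lt_or_ge v (9501 / 10000) with g | g
  · exact low_up_flat_136 hx0 hx1 hy0
      g hz0 hz1 hA h5 hs0 hs
  · exact low_up_flat_137 hx0 hx1 g
      hy1 hz0 hz1 hA h5 hs0 hs

theorem low_up_flat_139 {u v d S' : ℝ} (hx0 : 9000 / 10000 ≤ u) (hx1 : u < 9082 / 10000)
    (hy0 : 7434 / 10000 ≤ v) (hy1 : v < 9501 / 10000) (hz0 : 438 / 10000 ≤ d) (hz1 : d < 501 / 10000)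
    (hA : (3 / 5 - d) * v < 2) (h5 : d ≤ 1 / 20) (hs0 : 3 / 5 ≤ S') (hs : S' ≤ 3 / 5 + (d) * (d) / 3) :
    ∃ i j l : ℕ, 0 < (lowUpCond i j l).val u v d S' := by
  exact ⟨0, 111302241529, 0, Ex.pos_of_checkQuick low_up_67 (lowMem 10000 (by push_cast; linarith) hx1) (lowMem 10000 hy0 hy1)
    (lowMem 10000 (by push_cast; linarith) hz1) (lowS_mem (by linarith) (show d ≤ (501 / 10000 : ℝ) by linarith) hs hs0 (by norm_num))⟩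

theorem low_up_flat_140 {u v d S' : ℝ} (hx0 : 9000 / 10000 ≤ u) (hx1 : u < 9082 / 10000)
    (hy0 : 9501 / 10000 ≤ v) (hy1 : v < 11568 / 10000) (hz0 : 438 / 10000 ≤ d) (hz1 : d < 501 / 10000)
    (hA : (3 / 5 - d) * v < 2) (h5 : d ≤ 1 / 20) (hs0 : 3 / 5 ≤ S') (hs : S' ≤ 3 / 5 + (d) * (d) / 3) :
    ∃ i j l : ℕ, 0 < (lowUpCond i j l).val u v d S' := by
  exact ⟨0, 1014, 0, Ex.pos_of_checkQuick low_up_68 (lowMem 10000 (by push_cast; linarith) hx1) (lowMem 10000 hy0 hy1)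
    (lowMem 10000 (by push_cast; linarith) hz1) (lowS_mem (by linarith) (show d ≤ (501 / 10000 : ℝ) by linarith) hs hs0 (by norm_num))⟩

theorem low_up_flat_138 {u v d S' : ℝ} (hx0 : 9000 / 10000 ≤ u) (hx1 : u < 9082 / 10000)
    (hy0 : 7434 / 10000 ≤ v) (hy1 : v < 11568 / 10000) (hz0 : 438 / 10000 ≤ d) (hz1 : d < 501 / 10000)
    (hA : (3 / 5 - d) * v < 2) (h5 : d ≤ 1 / 20) (hs0 : 3 / 5 ≤ S') (hs : S' ≤ 3 / 5 + (d) * (d) / 3) :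
    ∃ i j l : ℕ, 0 < (lowUpCond i j l).val u v d S' := by
  rcases lt_or_ge v (9501 / 10000) with g | g
  · exact low_up_flat_139 hx0 hx1 hy0
      g hz0 hz1 hA h5 hs0 hs
  · exact low_up_flat_140 hx0 hx1 g
      hy1 hz0 hz1 hA h5 hs0 hs

theorem low_up_flat_134 {u v d S' : ℝ} (hx0 : 9000 / 10000 ≤ u) (hx1 : u < 9082 / 10000)
    (hy0 : 7434 / 10000 ≤ v) (hy1 : v < 11568 / 10000) (hz0 : 375 / 10000 ≤ d) (hz1 : d < 501 / 10000)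
    (hA : (3 / 5 - d) * v < 2) (h5 : d ≤ 1 / 20) (hs0 : 3 / 5 ≤ S') (hs : S' ≤ 3 / 5 + (d) * (d) / 3) :
    ∃ i j l : ℕ, 0 < (lowUpCond i j l).val u v d S' := by
  rcases lt_or_ge d (438 / 10000) with g | g
  · exact low_up_flat_135 hx0 hx1 hy0
      hy1 hz0 g hA h5 hs0 hs
  · exact low_up_flat_138 hx0 hx1 hy0
      hy1 g hz1 hA h5 hs0 hs

theorem low_up_flat_141 {u v d S' : ℝ} (hx0 : 9082 / 10000 ≤ u) (hx1 : u < 9158 / 10000)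
    (hy0 : 7434 / 10000 ≤ v) (hy1 : v < 11568 / 10000) (hz0 : 375 / 10000 ≤ d) (hz1 : d < 501 / 10000)
    (hA : (3 / 5 - d) * v < 2) (h5 : d ≤ 1 / 20) (hs0 : 3 / 5 ≤ S') (hs : S' ≤ 3 / 5 + (d) * (d) / 3) :
    ∃ i j l : ℕ, 0 < (lowUpCond i j l).val u v d S' := by
  exact ⟨0, 1078, 0, Ex.pos_of_checkQuick low_up_69 (lowMem 10000 (by push_cast; linarith) hx1) (lowMem 10000 hy0 hy1)
    (lowMem 10000 (by push_cast; linarith) hz1) (lowS_mem (by linarith) (show d ≤ (501 / 10000 : ℝ) by linarith) hs hs0 (by norm_num))⟩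

theorem low_up_flat_133 {u v d S' : ℝ} (hx0 : 9000 / 10000 ≤ u) (hx1 : u < 9158 / 10000)
    (hy0 : 7434 / 10000 ≤ v) (hy1 : v < 11568 / 10000) (hz0 : 375 / 10000 ≤ d) (hz1 : d < 501 / 10000)
    (hA : (3 / 5 - d) * v < 2) (h5 : d ≤ 1 / 20) (hs0 : 3 / 5 ≤ S') (hs : S' ≤ 3 / 5 + (d) * (d) / 3) :
    ∃ i j l : ℕ, 0 < (lowUpCond i j l).val u v d S' := by
  rcases lt_or_ge u (9082 / 10000) with g | g
  · exact low_up_flat_134 hx0 g hy0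
      hy1 hz0 hz1 hA h5 hs0 hs
  · exact low_up_flat_141 g hx1 hy0
      hy1 hz0 hz1 hA h5 hs0 hs

theorem low_up_flat_131 {u v d S' : ℝ} (hx0 : 9000 / 10000 ≤ u) (hx1 : u < 9158 / 10000)
    (hy0 : 3300 / 10000 ≤ v) (hy1 : v < 11568 / 10000) (hz0 : 375 / 10000 ≤ d) (hz1 : d < 501 / 10000)
    (hA : (3 / 5 - d) * v < 2) (h5 : d ≤ 1 / 20) (hs0 : 3 / 5 ≤ S') (hs : S' ≤ 3 / 5 + (d) * (d) / 3) :
    ∃ i j l : ℕ, 0 < (lowUpCond i j l).val u v d S' := by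
  rcases lt_or_ge v (7434 / 10000) with g | g
  · exact low_up_flat_132 hx0 hx1 hy0
      g hz0 hz1 hA h5 hs0 hs
  · exact low_up_flat_133 hx0 hx1 g
      hy1 hz0 hz1 hA h5 hs0 hs

theorem low_up_flat_129 {u v d S' : ℝ} (hx0 : 9000 / 10000 ≤ u) (hx1 : u < 9158 / 10000)
    (hy0 : 3300 / 10000 ≤ v) (hy1 : v < 11568 / 10000) (hz0 : 250 / 10000 ≤ d) (hz1 : d < 501 / 10000)
    (hA : (3 / 5 - d) * v < 2) (h5 : d ≤ 1 / 20) (hs0 : 3 / 5 ≤ S') (hs : S' ≤ 3 / 5 + (d) * (d) / 3) :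
    ∃ i j l : ℕ, 0 < (lowUpCond i j l).val u v d S' := by
  rcases lt_or_ge d (375 / 10000) with g | g
  · exact low_up_flat_130 hx0 hx1 hy0
      hy1 hz0 g hA h5 hs0 hs
  · exact low_up_flat_131 hx0 hx1 hy0
      hy1 g hz1 hA h5 hs0 hs

theorem low_up_flat_142 {u v d S' : ℝ} (hx0 : 9158 / 10000 ≤ u) (hx1 : u < 9292 / 10000)
    (hy0 : 3300 / 10000 ≤ v) (hy1 : v < 11568 / 10000) (hz0 : 250 / 10000 ≤ d) (hz1 : d < 501 / 10000)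
    (hA : (3 / 5 - d) * v < 2) (h5 : d ≤ 1 / 20) (hs0 : 3 / 5 ≤ S') (hs : S' ≤ 3 / 5 + (d) * (d) / 3) :
    ∃ i j l : ℕ, 0 < (lowUpCond i j l).val u v d S' := by
  exact ⟨0, 1056, 0, Ex.pos_of_checkQuick low_up_70 (lowMem 10000 (by push_cast; linarith) hx1) (lowMem 10000 hy0 hy1)
    (lowMem 10000 (by push_cast; linarith) hz1) (lowS_mem (by linarith) (show d ≤ (501 / 10000 : ℝ) by linarith) hs hs0 (by norm_num))⟩

theorem low_up_flat_128 {u v d S' : ℝ} (hx0 : 9000 / 10000 ≤ u) (hx1 : u < 9292 / 10000)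
    (hy0 : 3300 / 10000 ≤ v) (hy1 : v < 11568 / 10000) (hz0 : 250 / 10000 ≤ d) (hz1 : d < 501 / 10000)
    (hA : (3 / 5 - d) * v < 2) (h5 : d ≤ 1 / 20) (hs0 : 3 / 5 ≤ S') (hs : S' ≤ 3 / 5 + (d) * (d) / 3) :
    ∃ i j l : ℕ, 0 < (lowUpCond i j l).val u v d S' := by
  rcases lt_or_ge u (9158 / 10000) with g | g
  · exact low_up_flat_129 hx0 g hy0
      hy1 hz0 hz1 hA h5 hs0 hs
  · exact low_up_flat_142 g hx1 hy0
      hy1 hz0 hz1 hA h5 hs0 hs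

theorem low_up_flat_143 {u v d S' : ℝ} (hx0 : 9000 / 10000 ≤ u) (hx1 : u < 9292 / 10000)
    (hy0 : 11568 / 10000 ≤ v) (hy1 : v < 19836 / 10000) (hz0 : 250 / 10000 ≤ d) (hz1 : d < 501 / 10000)
    (hA : (3 / 5 - d) * v < 2) (h5 : d ≤ 1 / 20) (hs0 : 3 / 5 ≤ S') (hs : S' ≤ 3 / 5 + (d) * (d) / 3) :
    ∃ i j l : ℕ, 0 < (lowUpCond i j l).val u v d S' := by
  exact ⟨0, 721, 0, Ex.pos_of_checkQuick low_up_71 (lowMem 10000 (by push_cast; linarith) hx1) (lowMem 10000 hy0 hy1)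
    (lowMem 10000 (by push_cast; linarith) hz1) (lowS_mem (by linarith) (show d ≤ (501 / 10000 : ℝ) by linarith) hs hs0 (by norm_num))⟩

theorem low_up_flat_127 {u v d S' : ℝ} (hx0 : 9000 / 10000 ≤ u) (hx1 : u < 9292 / 10000)
    (hy0 : 3300 / 10000 ≤ v) (hy1 : v < 19836 / 10000) (hz0 : 250 / 10000 ≤ d) (hz1 : d < 501 / 10000)
    (hA : (3 / 5 - d) * v < 2) (h5 : d ≤ 1 / 20) (hs0 : 3 / 5 ≤ S') (hs : S' ≤ 3 / 5 + (d) * (d) / 3) :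
    ∃ i j l : ℕ, 0 < (lowUpCond i j l).val u v d S' := by
  rcases lt_or_ge v (11568 / 10000) with g | g
  · exact low_up_flat_128 hx0 hx1 hy0
      g hz0 hz1 hA h5 hs0 hs
  · exact low_up_flat_143 hx0 hx1 g
      hy1 hz0 hz1 hA h5 hs0 hs

theorem low_up_flat_103 {u v d S' : ℝ} (hx0 : 9000 / 10000 ≤ u) (hx1 : u < 9292 / 10000)
    (hy0 : 3300 / 10000 ≤ v) (hy1 : v < 19836 / 10000) (hz0 : 0 / 10000 ≤ d) (hz1 : d < 501 / 10000)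
    (hA : (3 / 5 - d) * v < 2) (h5 : d ≤ 1 / 20) (hs0 : 3 / 5 ≤ S') (hs : S' ≤ 3 / 5 + (d) * (d) / 3) :
    ∃ i j l : ℕ, 0 < (lowUpCond i j l).val u v d S' := by
  rcases lt_or_ge d (250 / 10000) with g | g
  · exact low_up_flat_104 hx0 hx1 hy0
      hy1 hz0 g hA h5 hs0 hs
  · exact low_up_flat_127 hx0 hx1 hy0
      hy1 g hz1 hA h5 hs0 hs

theorem low_up_flat_146 {u v d S' : ℝ} (hx0 : 9292 / 10000 ≤ u) (hx1 : u < 9500 / 10000)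
    (hy0 : 3300 / 10000 ≤ v) (hy1 : v < 11568 / 10000) (hz0 : 0 / 10000 ≤ d) (hz1 : d < 250 / 10000)
    (hA : (3 / 5 - d) * v < 2) (h5 : d ≤ 1 / 20) (hs0 : 3 / 5 ≤ S') (hs : S' ≤ 3 / 5 + (d) * (d) / 3) :
    ∃ i j l : ℕ, 0 < (lowUpCond i j l).val u v d S' := by
  exact ⟨0, 105447561848, 0, Ex.pos_of_checkQuick low_up_72 (lowMem 10000 (by push_cast; linarith) hx1) (lowMem 10000 hy0 hy1)
    (lowMem 10000 (by push_cast; linarith) hz1) (lowS_mem (by linarith) (show d ≤ (1 / 40 : ℝ) by linarith) hs hs0 (by norm_num))⟩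

theorem low_up_flat_152 {u v d S' : ℝ} (hx0 : 9292 / 10000 ≤ u) (hx1 : u < 9350 / 10000)
    (hy0 : 11568 / 10000 ≤ v) (hy1 : v < 15702 / 10000) (hz0 : 0 / 10000 ≤ d) (hz1 : d < 62 / 10000)
    (hA : (3 / 5 - d) * v < 2) (h5 : d ≤ 1 / 20) (hs0 : 3 / 5 ≤ S') (hs : S' ≤ 3 / 5 + (d) * (d) / 3) :
    ∃ i j l : ℕ, 0 < (lowUpCond i j l).val u v d S' := by
  exact ⟨0, 894, 0, Ex.pos_of_checkQuick low_up_73 (lowMem 10000 (by push_cast; linarith) hx1) (lowMem 10000 hy0 hy1)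
    (lowMem 10000 (by push_cast; linarith) hz1) (lowS_mem (by linarith) (show d ≤ (31 / 5000 : ℝ) by linarith) hs hs0 (by norm_num))⟩

theorem low_up_flat_153 {u v d S' : ℝ} (hx0 : 9292 / 10000 ≤ u) (hx1 : u < 9350 / 10000)
    (hy0 : 11568 / 10000 ≤ v) (hy1 : v < 15702 / 10000) (hz0 : 62 / 10000 ≤ d) (hz1 : d < 125 / 10000)
    (hA : (3 / 5 - d) * v < 2) (h5 : d ≤ 1 / 20) (hs0 : 3 / 5 ≤ S') (hs : S' ≤ 3 / 5 + (d) * (d) / 3) :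
    ∃ i j l : ℕ, 0 < (lowUpCond i j l).val u v d S' := by
  exact ⟨0, 772, 0, Ex.pos_of_checkQuick low_up_74 (lowMem 10000 (by push_cast; linarith) hx1) (lowMem 10000 hy0 hy1)
    (lowMem 10000 (by push_cast; linarith) hz1) (lowS_mem (by linarith) (show d ≤ (1 / 80 : ℝ) by linarith) hs hs0 (by norm_num))⟩

theorem low_up_flat_151 {u v d S' : ℝ} (hx0 : 9292 / 10000 ≤ u) (hx1 : u < 9350 / 10000)
    (hy0 : 11568 / 10000 ≤ v) (hy1 : v < 15702 / 10000) (hz0 : 0 / 10000 ≤ d) (hz1 : d < 125 / 10000)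
    (hA : (3 / 5 - d) * v < 2) (h5 : d ≤ 1 / 20) (hs0 : 3 / 5 ≤ S') (hs : S' ≤ 3 / 5 + (d) * (d) / 3) :
    ∃ i j l : ℕ, 0 < (lowUpCond i j l).val u v d S' := by
  rcases lt_or_ge d (62 / 10000) with g | g
  · exact low_up_flat_152 hx0 hx1 hy0
      hy1 hz0 g hA h5 hs0 hs
  · exact low_up_flat_153 hx0 hx1 hy0
      hy1 g hz1 hA h5 hs0 hs

theorem low_up_flat_155 {u v d S' : ℝ} (hx0 : 9350 / 10000 ≤ u) (hx1 : u < 9405 / 10000)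
    (hy0 : 11568 / 10000 ≤ v) (hy1 : v < 15702 / 10000) (hz0 : 0 / 10000 ≤ d) (hz1 : d < 62 / 10000)
    (hA : (3 / 5 - d) * v < 2) (h5 : d ≤ 1 / 20) (hs0 : 3 / 5 ≤ S') (hs : S' ≤ 3 / 5 + (d) * (d) / 3) :
    ∃ i j l : ℕ, 0 < (lowUpCond i j l).val u v d S' := by
  exact ⟨0, 1184, 0, Ex.pos_of_checkQuick low_up_75 (lowMem 10000 (by push_cast; linarith) hx1) (lowMem 10000 hy0 hy1)
    (lowMem 10000 (by push_cast; linarith) hz1) (lowS_mem (by linarith) (show d ≤ (31 / 5000 : ℝ) by linarith) hs hs0 (by norm_num))⟩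

theorem low_up_flat_156 {u v d S' : ℝ} (hx0 : 9350 / 10000 ≤ u) (hx1 : u < 9405 / 10000)
    (hy0 : 11568 / 10000 ≤ v) (hy1 : v < 15702 / 10000) (hz0 : 62 / 10000 ≤ d) (hz1 : d < 125 / 10000)
    (hA : (3 / 5 - d) * v < 2) (h5 : d ≤ 1 / 20) (hs0 : 3 / 5 ≤ S') (hs : S' ≤ 3 / 5 + (d) * (d) / 3) :
    ∃ i j l : ℕ, 0 < (lowUpCond i j l).val u v d S' := by
  exact ⟨0, 787, 0, Ex.pos_of_checkQuick low_up_76 (lowMem 10000 (by push_cast; linarith) hx1) (lowMem 10000 hy0 hy1)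
    (lowMem 10000 (by push_cast; linarith) hz1) (lowS_mem (by linarith) (show d ≤ (1 / 80 : ℝ) by linarith) hs hs0 (by norm_num))⟩

theorem low_up_flat_154 {u v d S' : ℝ} (hx0 : 9350 / 10000 ≤ u) (hx1 : u < 9405 / 10000)
    (hy0 : 11568 / 10000 ≤ v) (hy1 : v < 15702 / 10000) (hz0 : 0 / 10000 ≤ d) (hz1 : d < 125 / 10000)
    (hA : (3 / 5 - d) * v < 2) (h5 : d ≤ 1 / 20) (hs0 : 3 / 5 ≤ S') (hs : S' ≤ 3 / 5 + (d) * (d) / 3) :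
    ∃ i j l : ℕ, 0 < (lowUpCond i j l).val u v d S' := by
  rcases lt_or_ge d (62 / 10000) with g | g
  · exact low_up_flat_155 hx0 hx1 hy0
      hy1 hz0 g hA h5 hs0 hs
  · exact low_up_flat_156 hx0 hx1 hy0
      hy1 g hz1 hA h5 hs0 hs

theorem low_up_flat_150 {u v d S' : ℝ} (hx0 : 9292 / 10000 ≤ u) (hx1 : u < 9405 / 10000)
    (hy0 : 11568 / 10000 ≤ v) (hy1 : v < 15702 / 10000) (hz0 : 0 / 10000 ≤ d) (hz1 : d < 125 / 10000)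
    (hA : (3 / 5 - d) * v < 2) (h5 : d ≤ 1 / 20) (hs0 : 3 / 5 ≤ S') (hs : S' ≤ 3 / 5 + (d) * (d) / 3) :
    ∃ i j l : ℕ, 0 < (lowUpCond i j l).val u v d S' := by
  rcases lt_or_ge u (9350 / 10000) with g | g
  · exact low_up_flat_151 hx0 g hy0
      hy1 hz0 hz1 hA h5 hs0 hs
  · exact low_up_flat_154 g hx1 hy0
      hy1 hz0 hz1 hA h5 hs0 hs

theorem low_up_flat_159 {u v d S' : ℝ} (hx0 : 9292 / 10000 ≤ u) (hx1 : u < 9350 / 10000)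
    (hy0 : 15702 / 10000 ≤ v) (hy1 : v < 19836 / 10000) (hz0 : 0 / 10000 ≤ d) (hz1 : d < 62 / 10000)
    (hA : (3 / 5 - d) * v < 2) (h5 : d ≤ 1 / 20) (hs0 : 3 / 5 ≤ S') (hs : S' ≤ 3 / 5 + (d) * (d) / 3) :
    ∃ i j l : ℕ, 0 < (lowUpCond i j l).val u v d S' := by
  exact ⟨0, 751, 0, Ex.pos_of_checkQuick low_up_77 (lowMem 10000 (by push_cast; linarith) hx1) (lowMem 10000 hy0 hy1)
    (lowMem 10000 (by push_cast; linarith) hz1) (lowS_mem (by linarith) (show d ≤ (31 / 5000 : ℝ) by linarith) hs hs0 (by norm_num))⟩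

theorem low_up_flat_160 {u v d S' : ℝ} (hx0 : 9292 / 10000 ≤ u) (hx1 : u < 9350 / 10000)
    (hy0 : 15702 / 10000 ≤ v) (hy1 : v < 19836 / 10000) (hz0 : 62 / 10000 ≤ d) (hz1 : d < 125 / 10000)
    (hA : (3 / 5 - d) * v < 2) (h5 : d ≤ 1 / 20) (hs0 : 3 / 5 ≤ S') (hs : S' ≤ 3 / 5 + (d) * (d) / 3) :
    ∃ i j l : ℕ, 0 < (lowUpCond i j l).val u v d S' := by
  exact ⟨0, 0, 0, Ex.pos_of_checkQuick low_up_78 (lowMem 10000 (by push_cast; linarith) hx1) (lowMem 10000 hy0 hy1)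
    (lowMem 10000 (by push_cast; linarith) hz1) (lowS_mem (by linarith) (show d ≤ (1 / 80 : ℝ) by linarith) hs hs0 (by norm_num))⟩

theorem low_up_flat_158 {u v d S' : ℝ} (hx0 : 9292 / 10000 ≤ u) (hx1 : u < 9350 / 10000)
    (hy0 : 15702 / 10000 ≤ v) (hy1 : v < 19836 / 10000) (hz0 : 0 / 10000 ≤ d) (hz1 : d < 125 / 10000)
    (hA : (3 / 5 - d) * v < 2) (h5 : d ≤ 1 / 20) (hs0 : 3 / 5 ≤ S') (hs : S' ≤ 3 / 5 + (d) * (d) / 3) :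
    ∃ i j l : ℕ, 0 < (lowUpCond i j l).val u v d S' := by
  rcases lt_or_ge d (62 / 10000) with g | g
  · exact low_up_flat_159 hx0 hx1 hy0
      hy1 hz0 g hA h5 hs0 hs
  · exact low_up_flat_160 hx0 hx1 hy0
      hy1 g hz1 hA h5 hs0 hs

theorem low_up_flat_162 {u v d S' : ℝ} (hx0 : 9350 / 10000 ≤ u) (hx1 : u < 9405 / 10000)
    (hy0 : 15702 / 10000 ≤ v) (hy1 : v < 19836 / 10000) (hz0 : 0 / 10000 ≤ d) (hz1 : d < 62 / 10000)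
    (hA : (3 / 5 - d) * v < 2) (h5 : d ≤ 1 / 20) (hs0 : 3 / 5 ≤ S') (hs : S' ≤ 3 / 5 + (d) * (d) / 3) :
    ∃ i j l : ℕ, 0 < (lowUpCond i j l).val u v d S' := by
  exact ⟨0, 738, 0, Ex.pos_of_checkQuick low_up_79 (lowMem 10000 (by push_cast; linarith) hx1) (lowMem 10000 hy0 hy1)
    (lowMem 10000 (by push_cast; linarith) hz1) (lowS_mem (by linarith) (show d ≤ (31 / 5000 : ℝ) by linarith) hs hs0 (by norm_num))⟩

theorem low_up_flat_163 {u v d S' : ℝ} (hx0 : 9350 / 10000 ≤ u) (hx1 : u < 9405 / 10000)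
    (hy0 : 15702 / 10000 ≤ v) (hy1 : v < 19836 / 10000) (hz0 : 62 / 10000 ≤ d) (hz1 : d < 125 / 10000)
    (hA : (3 / 5 - d) * v < 2) (h5 : d ≤ 1 / 20) (hs0 : 3 / 5 ≤ S') (hs : S' ≤ 3 / 5 + (d) * (d) / 3) :
    ∃ i j l : ℕ, 0 < (lowUpCond i j l).val u v d S' := by
  exact ⟨0, 456, 0, Ex.pos_of_checkQuick low_up_80 (lowMem 10000 (by push_cast; linarith) hx1) (lowMem 10000 hy0 hy1)
    (lowMem 10000 (by push_cast; linarith) hz1) (lowS_mem (by linarith) (show d ≤ (1 / 80 : ℝ) by linarith) hs hs0 (by norm_num))⟩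

theorem low_up_flat_161 {u v d S' : ℝ} (hx0 : 9350 / 10000 ≤ u) (hx1 : u < 9405 / 10000)
    (hy0 : 15702 / 10000 ≤ v) (hy1 : v < 19836 / 10000) (hz0 : 0 / 10000 ≤ d) (hz1 : d < 125 / 10000)
    (hA : (3 / 5 - d) * v < 2) (h5 : d ≤ 1 / 20) (hs0 : 3 / 5 ≤ S') (hs : S' ≤ 3 / 5 + (d) * (d) / 3) :
    ∃ i j l : ℕ, 0 < (lowUpCond i j l).val u v d S' := by
  rcases lt_or_ge d (62 / 10000) with g | g
  · exact low_up_flat_162 hx0 hx1 hy0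
      hy1 hz0 g hA h5 hs0 hs
  · exact low_up_flat_163 hx0 hx1 hy0
      hy1 g hz1 hA h5 hs0 hs

theorem low_up_flat_157 {u v d S' : ℝ} (hx0 : 9292 / 10000 ≤ u) (hx1 : u < 9405 / 10000)
    (hy0 : 15702 / 10000 ≤ v) (hy1 : v < 19836 / 10000) (hz0 : 0 / 10000 ≤ d) (hz1 : d < 125 / 10000)
    (hA : (3 / 5 - d) * v < 2) (h5 : d ≤ 1 / 20) (hs0 : 3 / 5 ≤ S') (hs : S' ≤ 3 / 5 + (d) * (d) / 3) :
    ∃ i j l : ℕ, 0 < (lowUpCond i j l).val u v d S' := by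
  rcases lt_or_ge u (9350 / 10000) with g | g
  · exact low_up_flat_158 hx0 g hy0
      hy1 hz0 hz1 hA h5 hs0 hs
  · exact low_up_flat_161 g hx1 hy0
      hy1 hz0 hz1 hA h5 hs0 hs

theorem low_up_flat_149 {u v d S' : ℝ} (hx0 : 9292 / 10000 ≤ u) (hx1 : u < 9405 / 10000)
    (hy0 : 11568 / 10000 ≤ v) (hy1 : v < 19836 / 10000) (hz0 : 0 / 10000 ≤ d) (hz1 : d < 125 / 10000)
    (hA : (3 / 5 - d) * v < 2) (h5 : d ≤ 1 / 20) (hs0 : 3 / 5 ≤ S') (hs : S' ≤ 3 / 5 + (d) * (d) / 3) :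
    ∃ i j l : ℕ, 0 < (lowUpCond i j l).val u v d S' := by
  rcases lt_or_ge v (15702 / 10000) with g | g
  · exact low_up_flat_150 hx0 hx1 hy0
      g hz0 hz1 hA h5 hs0 hs
  · exact low_up_flat_157 hx0 hx1 g
      hy1 hz0 hz1 hA h5 hs0 hs

theorem low_up_flat_164 {u v d S' : ℝ} (hx0 : 9292 / 10000 ≤ u) (hx1 : u < 9405 / 10000)
    (hy0 : 11568 / 10000 ≤ v) (hy1 : v < 19836 / 10000) (hz0 : 125 / 10000 ≤ d) (hz1 : d < 250 / 10000)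
    (hA : (3 / 5 - d) * v < 2) (h5 : d ≤ 1 / 20) (hs0 : 3 / 5 ≤ S') (hs : S' ≤ 3 / 5 + (d) * (d) / 3) :
    ∃ i j l : ℕ, 0 < (lowUpCond i j l).val u v d S' := by
  exact ⟨0, 682, 0, Ex.pos_of_checkQuick low_up_81 (lowMem 10000 (by push_cast; linarith) hx1) (lowMem 10000 hy0 hy1)
    (lowMem 10000 (by push_cast; linarith) hz1) (lowS_mem (by linarith) (show d ≤ (1 / 40 : ℝ) by linarith) hs hs0 (by norm_num))⟩

theorem low_up_flat_148 {u v d S' : ℝ} (hx0 : 9292 / 10000 ≤ u) (hx1 : u < 9405 / 10000)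
    (hy0 : 11568 / 10000 ≤ v) (hy1 : v < 19836 / 10000) (hz0 : 0 / 10000 ≤ d) (hz1 : d < 250 / 10000)
    (hA : (3 / 5 - d) * v < 2) (h5 : d ≤ 1 / 20) (hs0 : 3 / 5 ≤ S') (hs : S' ≤ 3 / 5 + (d) * (d) / 3) :
    ∃ i j l : ℕ, 0 < (lowUpCond i j l).val u v d S' := by
  rcases lt_or_ge d (125 / 10000) with g | g
  · exact low_up_flat_149 hx0 hx1 hy0
      hy1 hz0 g hA h5 hs0 hs
  · exact low_up_flat_164 hx0 hx1 hy0
      hy1 g hz1 hA h5 hs0 hs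

theorem low_up_flat_167 {u v d S' : ℝ} (hx0 : 9405 / 10000 ≤ u) (hx1 : u < 9500 / 10000)
    (hy0 : 11568 / 10000 ≤ v) (hy1 : v < 15702 / 10000) (hz0 : 0 / 10000 ≤ d) (hz1 : d < 125 / 10000)
    (hA : (3 / 5 - d) * v < 2) (h5 : d ≤ 1 / 20) (hs0 : 3 / 5 ≤ S') (hs : S' ≤ 3 / 5 + (d) * (d) / 3) :
    ∃ i j l : ℕ, 0 < (lowUpCond i j l).val u v d S' := by
  exact ⟨0, 1573, 0, Ex.pos_of_checkQuick low_up_82 (lowMem 10000 (by push_cast; linarith) hx1) (lowMem 10000 hy0 hy1)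
    (lowMem 10000 (by push_cast; linarith) hz1) (lowS_mem (by linarith) (show d ≤ (1 / 80 : ℝ) by linarith) hs hs0 (by norm_num))⟩

theorem low_up_flat_168 {u v d S' : ℝ} (hx0 : 9405 / 10000 ≤ u) (hx1 : u < 9500 / 10000)
    (hy0 : 15702 / 10000 ≤ v) (hy1 : v < 19836 / 10000) (hz0 : 0 / 10000 ≤ d) (hz1 : d < 125 / 10000)
    (hA : (3 / 5 - d) * v < 2) (h5 : d ≤ 1 / 20) (hs0 : 3 / 5 ≤ S') (hs : S' ≤ 3 / 5 + (d) * (d) / 3) :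
    ∃ i j l : ℕ, 0 < (lowUpCond i j l).val u v d S' := by
  exact ⟨0, 769, 0, Ex.pos_of_checkQuick low_up_83 (lowMem 10000 (by push_cast; linarith) hx1) (lowMem 10000 hy0 hy1)
    (lowMem 10000 (by push_cast; linarith) hz1) (lowS_mem (by linarith) (show d ≤ (1 / 80 : ℝ) by linarith) hs hs0 (by norm_num))⟩

theorem low_up_flat_166 {u v d S' : ℝ} (hx0 : 9405 / 10000 ≤ u) (hx1 : u < 9500 / 10000)
    (hy0 : 11568 / 10000 ≤ v) (hy1 : v < 19836 / 10000) (hz0 : 0 / 10000 ≤ d) (hz1 : d < 125 / 10000)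
    (hA : (3 / 5 - d) * v < 2) (h5 : d ≤ 1 / 20) (hs0 : 3 / 5 ≤ S') (hs : S' ≤ 3 / 5 + (d) * (d) / 3) :
    ∃ i j l : ℕ, 0 < (lowUpCond i j l).val u v d S' := by
  rcases lt_or_ge v (15702 / 10000) with g | g
  · exact low_up_flat_167 hx0 hx1 hy0
      g hz0 hz1 hA h5 hs0 hs
  · exact low_up_flat_168 hx0 hx1 g
      hy1 hz0 hz1 hA h5 hs0 hs

theorem low_up_flat_169 {u v d S' : ℝ} (hx0 : 9405 / 10000 ≤ u) (hx1 : u < 9500 / 10000)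
    (hy0 : 11568 / 10000 ≤ v) (hy1 : v < 19836 / 10000) (hz0 : 125 / 10000 ≤ d) (hz1 : d < 250 / 10000)
    (hA : (3 / 5 - d) * v < 2) (h5 : d ≤ 1 / 20) (hs0 : 3 / 5 ≤ S') (hs : S' ≤ 3 / 5 + (d) * (d) / 3) :
    ∃ i j l : ℕ, 0 < (lowUpCond i j l).val u v d S' := by
  exact ⟨0, 592, 0, Ex.pos_of_checkQuick low_up_84 (lowMem 10000 (by push_cast; linarith) hx1) (lowMem 10000 hy0 hy1)
    (lowMem 10000 (by push_cast; linarith) hz1) (lowS_mem (by linarith) (show d ≤ (1 / 40 : ℝ) by linarith) hs hs0 (by norm_num))⟩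

theorem low_up_flat_165 {u v d S' : ℝ} (hx0 : 9405 / 10000 ≤ u) (hx1 : u < 9500 / 10000)
    (hy0 : 11568 / 10000 ≤ v) (hy1 : v < 19836 / 10000) (hz0 : 0 / 10000 ≤ d) (hz1 : d < 250 / 10000)
    (hA : (3 / 5 - d) * v < 2) (h5 : d ≤ 1 / 20) (hs0 : 3 / 5 ≤ S') (hs : S' ≤ 3 / 5 + (d) * (d) / 3) :
    ∃ i j l : ℕ, 0 < (lowUpCond i j l).val u v d S' := by
  rcases lt_or_ge d (125 / 10000) with g | g
  · exact low_up_flat_166 hx0 hx1 hy0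
      hy1 hz0 g hA h5 hs0 hs
  · exact low_up_flat_169 hx0 hx1 hy0
      hy1 g hz1 hA h5 hs0 hs

theorem low_up_flat_147 {u v d S' : ℝ} (hx0 : 9292 / 10000 ≤ u) (hx1 : u < 9500 / 10000)
    (hy0 : 11568 / 10000 ≤ v) (hy1 : v < 19836 / 10000) (hz0 : 0 / 10000 ≤ d) (hz1 : d < 250 / 10000)
    (hA : (3 / 5 - d) * v < 2) (h5 : d ≤ 1 / 20) (hs0 : 3 / 5 ≤ S') (hs : S' ≤ 3 / 5 + (d) * (d) / 3) :
    ∃ i j l : ℕ, 0 < (lowUpCond i j l).val u v d S' := by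
  rcases lt_or_ge u (9405 / 10000) with g | g
  · exact low_up_flat_148 hx0 g hy0
      hy1 hz0 hz1 hA h5 hs0 hs
  · exact low_up_flat_165 g hx1 hy0
      hy1 hz0 hz1 hA h5 hs0 hs

theorem low_up_flat_145 {u v d S' : ℝ} (hx0 : 9292 / 10000 ≤ u) (hx1 : u < 9500 / 10000)
    (hy0 : 3300 / 10000 ≤ v) (hy1 : v < 19836 / 10000) (hz0 : 0 / 10000 ≤ d) (hz1 : d < 250 / 10000)
    (hA : (3 / 5 - d) * v < 2) (h5 : d ≤ 1 / 20) (hs0 : 3 / 5 ≤ S') (hs : S' ≤ 3 / 5 + (d) * (d) / 3) :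
    ∃ i j l : ℕ, 0 < (lowUpCond i j l).val u v d S' := by
  rcases lt_or_ge v (11568 / 10000) with g | g
  · exact low_up_flat_146 hx0 hx1 hy0
      g hz0 hz1 hA h5 hs0 hs
  · exact low_up_flat_147 hx0 hx1 g
      hy1 hz0 hz1 hA h5 hs0 hs

theorem low_up_flat_171 {u v d S' : ℝ} (hx0 : 9292 / 10000 ≤ u) (hx1 : u < 9500 / 10000)
    (hy0 : 3300 / 10000 ≤ v) (hy1 : v < 11568 / 10000) (hz0 : 250 / 10000 ≤ d) (hz1 : d < 501 / 10000)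
    (hA : (3 / 5 - d) * v < 2) (h5 : d ≤ 1 / 20) (hs0 : 3 / 5 ≤ S') (hs : S' ≤ 3 / 5 + (d) * (d) / 3) :
    ∃ i j l : ℕ, 0 < (lowUpCond i j l).val u v d S' := by
  exact ⟨0, 105026523996, 0, Ex.pos_of_checkQuick low_up_85 (lowMem 10000 (by push_cast; linarith) hx1) (lowMem 10000 hy0 hy1)
    (lowMem 10000 (by push_cast; linarith) hz1) (lowS_mem (by linarith) (show d ≤ (501 / 10000 : ℝ) by linarith) hs hs0 (by norm_num))⟩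

theorem low_up_flat_172 {u v d S' : ℝ} (hx0 : 9292 / 10000 ≤ u) (hx1 : u < 9500 / 10000)
    (hy0 : 11568 / 10000 ≤ v) (hy1 : v < 19836 / 10000) (hz0 : 250 / 10000 ≤ d) (hz1 : d < 501 / 10000)
    (hA : (3 / 5 - d) * v < 2) (h5 : d ≤ 1 / 20) (hs0 : 3 / 5 ≤ S') (hs : S' ≤ 3 / 5 + (d) * (d) / 3) :
    ∃ i j l : ℕ, 0 < (lowUpCond i j l).val u v d S' := by
  exact ⟨0, 665, 0, Ex.pos_of_checkQuick low_up_86 (lowMem 10000 (by push_cast; linarith) hx1) (lowMem 10000 hy0 hy1)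
    (lowMem 10000 (by push_cast; linarith) hz1) (lowS_mem (by linarith) (show d ≤ (501 / 10000 : ℝ) by linarith) hs hs0 (by norm_num))⟩

theorem low_up_flat_170 {u v d S' : ℝ} (hx0 : 9292 / 10000 ≤ u) (hx1 : u < 9500 / 10000)
    (hy0 : 3300 / 10000 ≤ v) (hy1 : v < 19836 / 10000) (hz0 : 250 / 10000 ≤ d) (hz1 : d < 501 / 10000)
    (hA : (3 / 5 - d) * v < 2) (h5 : d ≤ 1 / 20) (hs0 : 3 / 5 ≤ S') (hs : S' ≤ 3 / 5 + (d) * (d) / 3) :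
    ∃ i j l : ℕ, 0 < (lowUpCond i j l).val u v d S' := by
  rcases lt_or_ge v (11568 / 10000) with g | g
  · exact low_up_flat_171 hx0 hx1 hy0
      g hz0 hz1 hA h5 hs0 hs
  · exact low_up_flat_172 hx0 hx1 g
      hy1 hz0 hz1 hA h5 hs0 hs

theorem low_up_flat_144 {u v d S' : ℝ} (hx0 : 9292 / 10000 ≤ u) (hx1 : u < 9500 / 10000)
    (hy0 : 3300 / 10000 ≤ v) (hy1 : v < 19836 / 10000) (hz0 : 0 / 10000 ≤ d) (hz1 : d < 501 / 10000)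
    (hA : (3 / 5 - d) * v < 2) (h5 : d ≤ 1 / 20) (hs0 : 3 / 5 ≤ S') (hs : S' ≤ 3 / 5 + (d) * (d) / 3) :
    ∃ i j l : ℕ, 0 < (lowUpCond i j l).val u v d S' := by
  rcases lt_or_ge d (250 / 10000) with g | g
  · exact low_up_flat_145 hx0 hx1 hy0
      hy1 hz0 g hA h5 hs0 hs
  · exact low_up_flat_170 hx0 hx1 hy0
      hy1 g hz1 hA h5 hs0 hs

theorem low_up_flat_102 {u v d S' : ℝ} (hx0 : 9000 / 10000 ≤ u) (hx1 : u < 9500 / 10000)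
    (hy0 : 3300 / 10000 ≤ v) (hy1 : v < 19836 / 10000) (hz0 : 0 / 10000 ≤ d) (hz1 : d < 501 / 10000)
    (hA : (3 / 5 - d) * v < 2) (h5 : d ≤ 1 / 20) (hs0 : 3 / 5 ≤ S') (hs : S' ≤ 3 / 5 + (d) * (d) / 3) :
    ∃ i j l : ℕ, 0 < (lowUpCond i j l).val u v d S' := by
  rcases lt_or_ge u (9292 / 10000) with g | g
  · exact low_up_flat_103 hx0 g hy0
      hy1 hz0 hz1 hA h5 hs0 hs
  · exact low_up_flat_144 g hx1 hy0
      hy1 hz0 hz1 hA h5 hs0 hs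

theorem low_up_flat_173 {u v d S' : ℝ} (hx0 : 9000 / 10000 ≤ u) (hx1 : u < 9500 / 10000)
    (hy0 : 19836 / 10000 ≤ v) (hy1 : v < 36372 / 10000) (hz0 : 0 / 10000 ≤ d) (hz1 : d < 501 / 10000)
    (hA : (3 / 5 - d) * v < 2) (h5 : d ≤ 1 / 20) (hs0 : 3 / 5 ≤ S') (hs : S' ≤ 3 / 5 + (d) * (d) / 3) :
    ∃ i j l : ℕ, 0 < (lowUpCond i j l).val u v d S' := by
  exact ⟨0, 0, 0, Ex.pos_of_checkQuick low_up_87 (lowMem 10000 (by push_cast; linarith) hx1) (lowMem 10000 hy0 hy1)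
    (lowMem 10000 (by push_cast; linarith) hz1) (lowS_mem (by linarith) (show d ≤ (501 / 10000 : ℝ) by linarith) hs hs0 (by norm_num))⟩

theorem low_up_flat_101 {u v d S' : ℝ} (hx0 : 9000 / 10000 ≤ u) (hx1 : u < 9500 / 10000)
    (hy0 : 3300 / 10000 ≤ v) (hy1 : v < 36372 / 10000) (hz0 : 0 / 10000 ≤ d) (hz1 : d < 501 / 10000)
    (hA : (3 / 5 - d) * v < 2) (h5 : d ≤ 1 / 20) (hs0 : 3 / 5 ≤ S') (hs : S' ≤ 3 / 5 + (d) * (d) / 3) :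
    ∃ i j l : ℕ, 0 < (lowUpCond i j l).val u v d S' := by
  rcases lt_or_ge v (19836 / 10000) with g | g
  · exact low_up_flat_102 hx0 hx1 hy0
      g hz0 hz1 hA h5 hs0 hs
  · exact low_up_flat_173 hx0 hx1 g
      hy1 hz0 hz1 hA h5 hs0 hs

theorem low_up_flat_178 {u v d S' : ℝ} (hx0 : 9500 / 10000 ≤ u) (hx1 : u < 9647 / 10000)
    (hy0 : 3300 / 10000 ≤ v) (hy1 : v < 11568 / 10000) (hz0 : 0 / 10000 ≤ d) (hz1 : d < 250 / 10000)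
    (hA : (3 / 5 - d) * v < 2) (h5 : d ≤ 1 / 20) (hs0 : 3 / 5 ≤ S') (hs : S' ≤ 3 / 5 + (d) * (d) / 3) :
    ∃ i j l : ℕ, 0 < (lowUpCond i j l).val u v d S' := by
  exact ⟨0, 113746570581, 0, Ex.pos_of_checkQuick low_up_88 (lowMem 10000 (by push_cast; linarith) hx1) (lowMem 10000 hy0 hy1)
    (lowMem 10000 (by push_cast; linarith) hz1) (lowS_mem (by linarith) (show d ≤ (1 / 40 : ℝ) by linarith) hs hs0 (by norm_num))⟩

theorem low_up_flat_179 {u v d S' : ℝ} (hx0 : 9500 / 10000 ≤ u) (hx1 : u < 9647 / 10000)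
    (hy0 : 11568 / 10000 ≤ v) (hy1 : v < 19836 / 10000) (hz0 : 0 / 10000 ≤ d) (hz1 : d < 250 / 10000)
    (hA : (3 / 5 - d) * v < 2) (h5 : d ≤ 1 / 20) (hs0 : 3 / 5 ≤ S') (hs : S' ≤ 3 / 5 + (d) * (d) / 3) :
    ∃ i j l : ℕ, 0 < (lowUpCond i j l).val u v d S' := by
  exact ⟨0, 806, 0, Ex.pos_of_checkQuick low_up_89 (lowMem 10000 (by push_cast; linarith) hx1) (lowMem 10000 hy0 hy1)
    (lowMem 10000 (by push_cast; linarith) hz1) (lowS_mem (by linarith) (show d ≤ (1 / 40 : ℝ) by linarith) hs hs0 (by norm_num))⟩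

theorem low_up_flat_177 {u v d S' : ℝ} (hx0 : 9500 / 10000 ≤ u) (hx1 : u < 9647 / 10000)
    (hy0 : 3300 / 10000 ≤ v) (hy1 : v < 19836 / 10000) (hz0 : 0 / 10000 ≤ d) (hz1 : d < 250 / 10000)
    (hA : (3 / 5 - d) * v < 2) (h5 : d ≤ 1 / 20) (hs0 : 3 / 5 ≤ S') (hs : S' ≤ 3 / 5 + (d) * (d) / 3) :
    ∃ i j l : ℕ, 0 < (lowUpCond i j l).val u v d S' := by
  rcases lt_or_ge v (11568 / 10000) with g | g
  · exact low_up_flat_178 hx0 hx1 hy0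
      g hz0 hz1 hA h5 hs0 hs
  · exact low_up_flat_179 hx0 hx1 g
      hy1 hz0 hz1 hA h5 hs0 hs

theorem low_up_flat_180 {u v d S' : ℝ} (hx0 : 9500 / 10000 ≤ u) (hx1 : u < 9647 / 10000)
    (hy0 : 3300 / 10000 ≤ v) (hy1 : v < 19836 / 10000) (hz0 : 250 / 10000 ≤ d) (hz1 : d < 501 / 10000)
    (hA : (3 / 5 - d) * v < 2) (h5 : d ≤ 1 / 20) (hs0 : 3 / 5 ≤ S') (hs : S' ≤ 3 / 5 + (d) * (d) / 3) :
    ∃ i j l : ℕ, 0 < (lowUpCond i j l).val u v d S' := by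
  exact ⟨0, 667, 0, Ex.pos_of_checkQuick low_up_90 (lowMem 10000 (by push_cast; linarith) hx1) (lowMem 10000 hy0 hy1)
    (lowMem 10000 (by push_cast; linarith) hz1) (lowS_mem (by linarith) (show d ≤ (501 / 10000 : ℝ) by linarith) hs hs0 (by norm_num))⟩

theorem low_up_flat_176 {u v d S' : ℝ} (hx0 : 9500 / 10000 ≤ u) (hx1 : u < 9647 / 10000)
    (hy0 : 3300 / 10000 ≤ v) (hy1 : v < 19836 / 10000) (hz0 : 0 / 10000 ≤ d) (hz1 : d < 501 / 10000)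
    (hA : (3 / 5 - d) * v < 2) (h5 : d ≤ 1 / 20) (hs0 : 3 / 5 ≤ S') (hs : S' ≤ 3 / 5 + (d) * (d) / 3) :
    ∃ i j l : ℕ, 0 < (lowUpCond i j l).val u v d S' := by
  rcases lt_or_ge d (250 / 10000) with g | g
  · exact low_up_flat_177 hx0 hx1 hy0
      hy1 hz0 g hA h5 hs0 hs
  · exact low_up_flat_180 hx0 hx1 hy0
      hy1 g hz1 hA h5 hs0 hs

theorem low_up_flat_181 {u v d S' : ℝ} (hx0 : 9647 / 10000 ≤ u) (hx1 : u < 9751 / 10000)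
    (hy0 : 3300 / 10000 ≤ v) (hy1 : v < 19836 / 10000) (hz0 : 0 / 10000 ≤ d) (hz1 : d < 501 / 10000)
    (hA : (3 / 5 - d) * v < 2) (h5 : d ≤ 1 / 20) (hs0 : 3 / 5 ≤ S') (hs : S' ≤ 3 / 5 + (d) * (d) / 3) :
    ∃ i j l : ℕ, 0 < (lowUpCond i j l).val u v d S' := by
  exact ⟨0, 850, 0, Ex.pos_of_checkQuick low_up_91 (lowMem 10000 (by push_cast; linarith) hx1) (lowMem 10000 hy0 hy1)
    (lowMem 10000 (by push_cast; linarith) hz1) (lowS_mem (by linarith) (show d ≤ (501 / 10000 : ℝ) by linarith) hs hs0 (by norm_num))⟩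

theorem low_up_flat_175 {u v d S' : ℝ} (hx0 : 9500 / 10000 ≤ u) (hx1 : u < 9751 / 10000)
    (hy0 : 3300 / 10000 ≤ v) (hy1 : v < 19836 / 10000) (hz0 : 0 / 10000 ≤ d) (hz1 : d < 501 / 10000)
    (hA : (3 / 5 - d) * v < 2) (h5 : d ≤ 1 / 20) (hs0 : 3 / 5 ≤ S') (hs : S' ≤ 3 / 5 + (d) * (d) / 3) :
    ∃ i j l : ℕ, 0 < (lowUpCond i j l).val u v d S' := by
  rcases lt_or_ge u (9647 / 10000) with g | g
  · exact low_up_flat_176 hx0 g hy0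
      hy1 hz0 hz1 hA h5 hs0 hs
  · exact low_up_flat_181 g hx1 hy0
      hy1 hz0 hz1 hA h5 hs0 hs

theorem low_up_flat_183 {u v d S' : ℝ} (hx0 : 9500 / 10000 ≤ u) (hx1 : u < 9647 / 10000)
    (hy0 : 19836 / 10000 ≤ v) (hy1 : v < 36372 / 10000) (hz0 : 0 / 10000 ≤ d) (hz1 : d < 501 / 10000)
    (hA : (3 / 5 - d) * v < 2) (h5 : d ≤ 1 / 20) (hs0 : 3 / 5 ≤ S') (hs : S' ≤ 3 / 5 + (d) * (d) / 3) :
    ∃ i j l : ℕ, 0 < (lowUpCond i j l).val u v d S' := by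
  exact ⟨0, 0, 0, Ex.pos_of_checkQuick low_up_92 (lowMem 10000 (by push_cast; linarith) hx1) (lowMem 10000 hy0 hy1)
    (lowMem 10000 (by push_cast; linarith) hz1) (lowS_mem (by linarith) (show d ≤ (501 / 10000 : ℝ) by linarith) hs hs0 (by norm_num))⟩

theorem low_up_flat_185 {u v d S' : ℝ} (hx0 : 9647 / 10000 ≤ u) (hx1 : u < 9751 / 10000)
    (hy0 : 19836 / 10000 ≤ v) (hy1 : v < 34784 / 10000) (hz0 : 0 / 10000 ≤ d) (hz1 : d < 250 / 10000)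
    (hA : (3 / 5 - d) * v < 2) (h5 : d ≤ 1 / 20) (hs0 : 3 / 5 ≤ S') (hs : S' ≤ 3 / 5 + (d) * (d) / 3) :
    ∃ i j l : ℕ, 0 < (lowUpCond i j l).val u v d S' := by
  exact ⟨0, 0, 0, Ex.pos_of_checkQuick low_up_93 (lowMem 10000 (by push_cast; linarith) hx1) (lowMem 10000 hy0 hy1)
    (lowMem 10000 (by push_cast; linarith) hz1) (lowS_mem (by linarith) (show d ≤ (1 / 40 : ℝ) by linarith) hs hs0 (by norm_num))⟩

theorem low_up_flat_186 {u v d S' : ℝ} (hx0 : 9647 / 10000 ≤ u) (hx1 : u < 9751 / 10000)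
    (hy0 : 19836 / 10000 ≤ v) (hy1 : v < 36372 / 10000) (hz0 : 250 / 10000 ≤ d) (hz1 : d < 501 / 10000)
    (hA : (3 / 5 - d) * v < 2) (h5 : d ≤ 1 / 20) (hs0 : 3 / 5 ≤ S') (hs : S' ≤ 3 / 5 + (d) * (d) / 3) :
    ∃ i j l : ℕ, 0 < (lowUpCond i j l).val u v d S' := by
  exact ⟨9186, 0, 2, Ex.pos_of_checkQuick low_up_94 (lowMem 10000 (by push_cast; linarith) hx1) (lowMem 10000 hy0 hy1)
    (lowMem 10000 (by push_cast; linarith) hz1) (lowS_mem (by linarith) (show d ≤ (501 / 10000 : ℝ) by linarith) hs hs0 (by norm_num))⟩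

theorem low_up_flat_184 {u v d S' : ℝ} (hx0 : 9647 / 10000 ≤ u) (hx1 : u < 9751 / 10000)
    (hy0 : 19836 / 10000 ≤ v) (hy1 : v < 36372 / 10000) (hz0 : 0 / 10000 ≤ d) (hz1 : d < 501 / 10000)
    (hA : (3 / 5 - d) * v < 2) (h5 : d ≤ 1 / 20) (hs0 : 3 / 5 ≤ S') (hs : S' ≤ 3 / 5 + (d) * (d) / 3) :
    ∃ i j l : ℕ, 0 < (lowUpCond i j l).val u v d S' := by
  rcases lt_or_ge d (250 / 10000) with g | g
  · exact low_up_flat_185 hx0 hx1 hy0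
      (lowV_lt hA (show d ≤ (1 / 40 : ℝ) by linarith) (by linarith) (by norm_num) (by norm_num)) hz0 g hA h5 hs0 hs
  · exact low_up_flat_186 hx0 hx1 hy0
      hy1 g hz1 hA h5 hs0 hs

theorem low_up_flat_182 {u v d S' : ℝ} (hx0 : 9500 / 10000 ≤ u) (hx1 : u < 9751 / 10000)
    (hy0 : 19836 / 10000 ≤ v) (hy1 : v < 36372 / 10000) (hz0 : 0 / 10000 ≤ d) (hz1 : d < 501 / 10000)
    (hA : (3 / 5 - d) * v < 2) (h5 : d ≤ 1 / 20) (hs0 : 3 / 5 ≤ S') (hs : S' ≤ 3 / 5 + (d) * (d) / 3) :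
    ∃ i j l : ℕ, 0 < (lowUpCond i j l).val u v d S' := by
  rcases lt_or_ge u (9647 / 10000) with g | g
  · exact low_up_flat_183 hx0 g hy0
      hy1 hz0 hz1 hA h5 hs0 hs
  · exact low_up_flat_184 g hx1 hy0
      hy1 hz0 hz1 hA h5 hs0 hs

theorem low_up_flat_174 {u v d S' : ℝ} (hx0 : 9500 / 10000 ≤ u) (hx1 : u < 9751 / 10000)
    (hy0 : 3300 / 10000 ≤ v) (hy1 : v < 36372 / 10000) (hz0 : 0 / 10000 ≤ d) (hz1 : d < 501 / 10000)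
    (hA : (3 / 5 - d) * v < 2) (h5 : d ≤ 1 / 20) (hs0 : 3 / 5 ≤ S') (hs : S' ≤ 3 / 5 + (d) * (d) / 3) :
    ∃ i j l : ℕ, 0 < (lowUpCond i j l).val u v d S' := by
  rcases lt_or_ge v (19836 / 10000) with g | g
  · exact low_up_flat_175 hx0 hx1 hy0
      g hz0 hz1 hA h5 hs0 hs
  · exact low_up_flat_182 hx0 hx1 g
      hy1 hz0 hz1 hA h5 hs0 hs

/-- The rung condition on the region. -/
theorem low_up_flat_sign {u v d S' : ℝ} (hx0 : 6000 / 10000 ≤ u) (hx1 : u < 9751 / 10000)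
    (hy0 : 33 / 100 ≤ v) (hz0 : 0 ≤ d) (hz1 : d < 501 / 10000)
    (hA : (3 / 5 - d) * v < 2) (h5 : d ≤ 1 / 20) (hs0 : 3 / 5 ≤ S') (hs : S' ≤ 3 / 5 + (d) * (d) / 3) :
    ∃ i j l : ℕ, 0 < (lowUpCond i j l).val u v d S' := by
  rcases lt_or_ge u (8000 / 10000) with g0 | g0
  · exact low_up_flat_1 (by linarith) (by linarith) (by linarith)
      (lowV_lt hA (show d ≤ (501 / 10000 : ℝ) by linarith) (by linarith) (by norm_num) (by norm_num)) (by linarith) (by linarith) hA h5 hs0 hs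
  rcases lt_or_ge u (9000 / 10000) with g1 | g1
  · exact low_up_flat_16 (by linarith) (by linarith) (by linarith)
      (lowV_lt hA (show d ≤ (501 / 10000 : ℝ) by linarith) (by linarith) (by norm_num) (by norm_num)) (by linarith) (by linarith) hA h5 hs0 hs
  rcases lt_or_ge u (9500 / 10000) with g2 | g2
  · exact low_up_flat_101 (by linarith) (by linarith) (by linarith)
      (lowV_lt hA (show d ≤ (501 / 10000 : ℝ) by linarith) (by linarith) (by norm_num) (by norm_num)) (by linarith) (by linarith) hA h5 hs0 hs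
  exact low_up_flat_174 (by linarith) (by linarith) (by linarith)
      (lowV_lt hA (show d ≤ (501 / 10000 : ℝ) by linarith) (by linarith) (by norm_num) (by norm_num)) (by linarith) (by linarith) hA h5 hs0 hs

end Vale.Agent.P100.Calib.Band
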