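import Vale.Agent.P100.Calib.SlabUpperLowBox

/-!
# The start of the tilted upper band, low piece

On `[1/2, 3/5]` the band is above the band of `u ≤ 3/5`; before, `50 (3/5 - u) ^ 2` covers the gap.
-/

namespace Vale.Agent.P100.Calib.Band

open BoxPos

/-- The band of `u ≤ 3/5`. -/
def lowUStart : Ex :=
  Ex.add (Ex.add (Ex.sub (eC 161 100) (Ex.mul (eC 28 5) eD))
    (Ex.mul (Ex.sub (eC 7 10) (Ex.mul (eC 4) eD)) eU))
    (Ex.mul (Ex.sub (eC 89 20) (Ex.mul (eC 45 2) eD)) (Ex.mul eU eU))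

/-- The gap to the earlier band at `v = 33/100`. -/
def lowUpGap : Ex :=
  Ex.sub (Ex.add lowUpN (Ex.mul (Ex.mul lowUb (eC 33 100)) lowUpG)) (Ex.mul lowUStart lowUpG)

/-- The start condition. -/
def lowUpBefore : Ex :=
  Ex.add (Ex.mul (Ex.mul (Ex.mul (eC 50) (Ex.sub (eC 3 5) eU)) (Ex.sub (eC 3 5) eU)) lowUpG)
    (Ex.mul (Ex.mul eD eU) lowUpGap)

theorem low_up_gap_check : lowUpGap.checkQuick lowFlatCfg
    (lowUpBox 5500 6001 10000 3300 3301 0 501 600900) = true := by decide +kernel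

theorem low_up_before_a : lowUpBefore.checkQuick lowFlatCfg
    (lowUpBox 0 4000 10000 3300 3301 0 501 600900) = true := by decide +kernel

theorem low_up_before_b : lowUpBefore.checkQuick lowFlatCfg
    (lowUpBox 4000 5500 10000 3300 3301 0 501 600900) = true := by decide +kernel

end Vale.Agent.P100.Calib.Band
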