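import Vale.Agent.P100.Calib.SlabUpperLowBand
import Vale.Agent.P100.Calib.SlabUpperLowStart
import Vale.Agent.P100.Calib.SlabUpperLowFlatSigns
import Vale.Agent.P100.Calib.SlabUpperLowCornSigns
import Vale.Agent.P100.Calib.SlabTailLowExit

/-!
# The tilted upper band on `[3/5, upEndLow d]`, `d ≤ 1/20`

Needs `al + be ≤ 3/5 + d ^ 2 / 3`: for larger sums the band is crossed near the exit curve.
-/

namespace Vale.Agent.P100.Calib.Band

open BoxPos Bubble Chart

variable {N p q : ℝ} {S : Set ℝ} {R x y s dx dy : ℝ → ℝ}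

theorem low_up_val {u v d S' : ℝ} :
    lowUpN.val u v d S' = upLN (2752 / 100000 + -591490 / 100000 * d + 3423010 / 100000 * (d * d))
        (28203 / 10000 + 12200 / 10000 * d + -1679960 / 10000 * (d * d))
        (14906 / 10000 + -148016 / 10000 * d + 343779 / 10000 * (d * d))
        (6491 / 10000 + -196057 / 10000 * d + 1629351 / 10000 * (d * d))
        (21003 / 10000 * d) (714 / 10000) (24 / 100000) u ∧
      lowUpG.val u v d S' = upLG (21003 / 10000 * d) (714 / 10000) (24 / 100000) u ∧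
      lowUpM.val u v d S' = upLM (2752 / 100000 + -591490 / 100000 * d + 3423010 / 100000 * (d * d))
        (14906 / 10000 + -148016 / 10000 * d + 343779 / 10000 * (d * d))
        (6491 / 10000 + -196057 / 10000 * d + 1629351 / 10000 * (d * d))
        (21003 / 10000 * d) (714 / 10000) (24 / 100000) u ∧
      lowUb.val u v d S' = tiltLow d := by
  refine ⟨?_, ?_, ?_, ?_⟩ <;>
    simp only [lowUpN, lowUpG, lowUpM, val_upLN, val_upLG, val_upLM, lowUA, lowUB, lowUC, lowUD,
      lowUb, lowUP, lowUQ, lowUR, eQuad, tiltLow, Ex.val] <;>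
    push_cast <;> ring_nf

theorem low_upg_val {e v ρ S' : ℝ} :
    e * lowUpg.val e v ρ S' = lowUpG.val (1 - e) v (ρ * e) S' := by
  rw [low_up_val.2.1]
  simp only [lowUpg, lowUQ, lowUR, upLG, Ex.val]
  push_cast
  ring

theorem low_up_gap {u d S' : ℝ} {v : ℝ} (hu : u ≤ endLow d) (hd : 0 < d)
    (hd1 : d ≤ 1 / 20) (hv : v < phiTailLow d u) : 0 ≤ lowUpP.val u v d S' := by
  obtain ⟨ha, -, -, -⟩ := low_coef hd.le hd1
  obtain ⟨eA, eW, -, -⟩ := low_curve_val (u := u) (v := v) (d := d) (S' := S')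
  rw [lowUpP]
  simp only [Ex.val, eA, eW]
  have := endLow_lt hd
  have hW : 0 < curveW (1369 / 10000 + 4375 / 10000 * d + 13704 / 10000 * (d * d)) (96 / 10000) u :=
    mul_pos (by linarith) (by linarith)
  rw [phiTailLow, lt_div_iff₀ hW] at hv
  linarith

theorem low_up_flat_pos {u v d S' : ℝ} (hd : 0 < d) (hu : 3 / 5 ≤ u) (hu1 : u < 9751 / 10000)
    (hv : 33 / 100 ≤ v) (hP : 0 ≤ lowUpP.val u v d S') (hA : (3 / 5 - d) * v < 2)
    (h1 : d ≤ 1 / 20) (hs0 : 3 / 5 ≤ S') (hs : S' ≤ 3 / 5 + d * d / 3)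
    (he : 0 < lieE S' d u v (upTailLow d u + tiltLow d * v) 1)
    (hp : 0 < exitP S' d u v (upTailLow d u + tiltLow d * v) 1 0) :
    0 < upperV S' d u v (upTailLow d u + tiltLow d * v) (tiltLow d) (upTailLowD d u) := by
  obtain ⟨i, j, l, hc⟩ := low_up_flat_sign (S' := S') (by linarith) hu1 hv hd.le (by linarith) hA
    h1 hs0 hs
  rw [lowUpCond] at hc
  obtain ⟨eN, eG, eM, eb⟩ := low_up_val (u := u) (v := v) (d := d) (S' := S')
  refine upperV_pos_of_cond (N := lowUpN) (G := lowUpG) (M := lowUpM) (b := lowUb)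
    u v d S' (condP_imp u v d S' hc hP) ?_ ?_ ?_ eb he hp
  · rw [eG]
    exact upLG_pos (by linarith) (by linarith) (by linarith)
  · rw [eN, eG, upTailLow]
    exact upLN_eq (by linarith) (by linarith) (by linarith)
  · rw [eM, eG, upTailLowD]
    exact upLM_eq (by linarith) (by linarith) (by linarith)

theorem low_up_corn_pos {e v ρ S' : ℝ} (hpe : 0 < e) (he1 : e < 2502 / 100000) (hρ0 : 0 ≤ ρ)
    (hρ1 : ρ < 14927 / 10000) (hv : 33 / 100 ≤ v)
    (hP : 0 ≤ lowUpP.val (1 - e) v (ρ * e) S') (hA : (3 / 5 - ρ * e) * v < 2)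
    (h1 : ρ * e ≤ 1 / 20) (hs0 : 3 / 5 ≤ S') (hs : S' ≤ 3 / 5 + ρ * e * (ρ * e) / 3)
    (he : 0 < lieE S' (ρ * e) (1 - e) v (upTailLow (ρ * e) (1 - e) + tiltLow (ρ * e) * v) 1)
    (hp : 0 < exitP S' (ρ * e) (1 - e) v (upTailLow (ρ * e) (1 - e) + tiltLow (ρ * e) * v) 1 0) :
    0 < upperV S' (ρ * e) (1 - e) v (upTailLow (ρ * e) (1 - e) + tiltLow (ρ * e) * v)
      (tiltLow (ρ * e)) (upTailLowD (ρ * e) (1 - e)) := by
  obtain ⟨i, j, l, hc⟩ := low_up_corn_sign (S' := S') (by linarith) he1 hv hρ0 hρ1 hA h1 hs0 hs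
  rw [lowUpCorn] at hc
  obtain ⟨eN, eG, eM, eb⟩ := low_up_val (u := 1 - e) (v := v) (d := ρ * e) (S' := S')
  have eg := low_upg_val (e := e) (v := v) (ρ := ρ) (S' := S')
  have := mul_nonneg hρ0 hpe.le
  have hGp : 0 < lowUpG.val (1 - e) v (ρ * e) S' := by
    rw [eG]; exact upLG_pos (by linarith) (by linarith) (by linarith)
  have hgap : 0 ≤ (toCorner lowUpP).val e v ρ S' := by rw [val_toCorner]; exact hP
  refine upperV_pos_of_corner (N := toCorner lowUpN) (g := lowUpg) (M := toCorner lowUpM)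
    (b := toCorner lowUb) e v ρ S' hpe (cornP_imp e v ρ S' hc hgap) ?_ ?_ ?_ ?_ he hp
  · exact pos_of_mul_pos_right (eg ▸ hGp) hpe.le
  · rw [val_toCorner, eg, eN, eG, upTailLow]
    exact upLN_eq (by linarith) (by linarith) (by linarith)
  · rw [val_toCorner, eg, eM, eG, upTailLowD]
    exact upLM_eq (by linarith) (by linarith) (by linarith)
  · rw [val_toCorner, eb]

theorem low_up_start {u d S' : ℝ} (hu : 0 ≤ u) (hu1 : u ≤ 3 / 5) (h0 : 0 ≤ d) (h1 : d ≤ 1 / 20)
    (hs0 : 3 / 5 ≤ S') (hs : S' ≤ 3 / 5 + d * d / 3) :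
    d * (u * ((161 / 100 - 28 / 5 * d + (7 / 10 - 4 * d) * u + (89 / 20 - 45 / 2 * d) * u ^ 2) -
      upTailLow d u - tiltLow d * (33 / 100))) ≤ 50 * (3 / 5 - u) ^ 2 := by
  have hG := upLG_pos (p := 21003 / 10000 * d) (q := 714 / 10000) (r := 24 / 100000) (u := u)
    (by linarith) (by linarith) (by linarith)
  have hS := lowS_mem (s := 600900) h0 (show d ≤ 501 / 10000 by linarith) hs hs0 (by norm_num)
  have hd := lowMem (a := 0) (b := 501) 10000 (x := d) (by push_cast; linarith)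
    (by push_cast; linarith)
  have hv := lowMem (a := 3300) (b := 3301) 10000 (x := 33 / 100) (by norm_num) (by norm_num)
  have eN := upLN_eq (A := 2752 / 100000 + -591490 / 100000 * d + 3423010 / 100000 * (d * d))
    (B := 28203 / 10000 + 12200 / 10000 * d + -1679960 / 10000 * (d * d))
    (C := 14906 / 10000 + -148016 / 10000 * d + 343779 / 10000 * (d * d))
    (D := 6491 / 10000 + -196057 / 10000 * d + 1629351 / 10000 * (d * d))
    (show u < 1 + 21003 / 10000 * d by linarith) (show u < 1 + (714 : ℝ) / 10000 by linarith)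
    (show u < 1 + (24 : ℝ) / 100000 by linarith)
  refine le_of_mul_le_mul_right ?_ hG
  rcases lt_or_ge u (5500 / 10000) with g | g
  · have key : 0 < lowUpBefore.val u (33 / 100) d S' := by
      rcases lt_or_ge u (4000 / 10000) with g' | g'
      · exact Ex.pos_of_checkQuick low_up_before_a
          (lowMem 10000 (by push_cast; linarith) (by push_cast; linarith)) hv hd hS
      · exact Ex.pos_of_checkQuick low_up_before_b
          (lowMem 10000 (by push_cast; linarith) (by push_cast; linarith)) hv hd hS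
    rw [lowUpBefore, lowUpGap, lowUStart] at key
    simp only [Ex.val, low_up_val.1, low_up_val.2.1, low_up_val.2.2.2, eN] at key
    simp only [upTailLow]
    push_cast at key
    linarith
  · have key := Ex.pos_of_checkQuick low_up_gap_check
      (lowMem 10000 (x := u) (by push_cast; linarith) (by push_cast; linarith)) hv hd hS
    rw [lowUpGap, lowUStart] at key
    simp only [Ex.val, low_up_val.1, low_up_val.2.1, low_up_val.2.2.2, eN] at key
    simp only [upTailLow]
    push_cast at key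
    have hR : 0 ≤ 50 * (3 / 5 - u) ^ 2 * upLG (21003 / 10000 * d) (714 / 10000) (24 / 100000) u :=
      mul_nonneg (by positivity) hG.le
    have hL := mul_nonneg (mul_nonneg h0 hu) key.le
    linarith

/-- **The tilted upper band of the low piece.** -/
theorem orbit_upper_tail_low (hf : IsOrbitFns N p q S R x y s dx dy)
    (hb : SlabBox N (1 / (p + 1)) (1 / (q + 1))) (h1 : 1 / (q + 1) - 1 / (p + 1) ≤ 1 / 20)
    (hS : 1 / (p + 1) + 1 / (q + 1) ≤ 3 / 5 + (1 / (q + 1) - 1 / (p + 1)) ^ 2 / 3)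
    {w : ℝ} (hw : w ∈ S) (hw0 : 0 < R w) (hu : 3 / 5 ≤ uOf N (R w) (x w))
    (hwu : uOf N (R w) (x w) ≤ upEndLow (1 / (q + 1) - 1 / (p + 1))) :
    hOf N (R w) (x w) (y w) w < bandT N (1 / (p + 1)) (1 / (q + 1)) (1 / (q + 1) - 1 / (p + 1))
        (upTailLow (1 / (q + 1) - 1 / (p + 1))) (uOf N (R w) (x w)) (y w / x w) +
      (1 / (q + 1) - 1 / (p + 1)) * uOf N (R w) (x w) *
        (tiltLow (1 / (q + 1) - 1 / (p + 1)) * vOf (1 / (p + 1)) (1 / (q + 1)) (y w / x w)) := by
  obtain ⟨-, -, hd, -⟩ := hb.facts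
  set al := 1 / (p + 1) with hald
  set be := 1 / (q + 1) with hbed
  set d := be - al with hdd
  have hU := upEndLow_lt hd
  have hle : upEndLow d ≤ endLow d := by
    refine max_le_max (by norm_num) ?_
    linarith
  have hs : al + be ≤ 3 / 5 + d * d / 3 := by rw [← sq]; exact hS
  have hT : ∀ u, HasDerivAt (tangentExt (upTailLow d) (upTailLowD d) (upEndLow d))
      (if u ≤ upEndLow d then upTailLowD d u else upTailLowD d (upEndLow d)) u :=
    hasDerivAt_tangentExt fun u hu => hasDerivAt_upL (by linarith) (by linarith) (by linarith)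
  have key := forwardU_step hf hb (u₀ := 3 / 5) (u₁ := upEndLow d) (K := 50) (b := tiltLow d)
    (by norm_num) (by norm_num) (tiltLow_nonneg hd.le h1) hT
    (U₀ := fun u => (161 / 100 - 28 / 5 * d + (7 / 10 - 4 * d) * u + (89 / 20 - 45 / 2 * d) * u ^ 2))
    (fun u r => vOf al be r < phiTailLow d u ∧ (N - 2) * be * r < N * al)
    (fun w hw hw0 hwu => ⟨orbit_phi_tail_low hf hb hd.le h1 hw hw0 (hwu.trans hle),
      (hf.chart hb.five hb.low w hw hw0).2.2.2.2.2.2.2.2.1⟩)
    (fun w hw hw0 hwu => ?_) (fun u hu0 hu => ?_) (fun u r hu hu' _ hr hE hv hv1 he hp => ?_)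
    hw hw0 hu hwu
  · refine lt_of_lt_of_eq key ?_
    simp only [bandT, tangentExt, if_pos hwu]; rfl
  · refine lt_of_lt_of_eq (orbit_band_small hf hb hd.le (by linarith) hw hw0 hwu).2.2 ?_
    simp only [bandT, bandL, ← hald, ← hbed, ← hdd]
    ring
  · have := low_up_start hu0.le hu hd.le h1 hb.S_low hs
    have h2 : (3 : ℝ) / 5 ≤ upEndLow d := le_trans (by norm_num) (le_max_left _ _)
    rw [tangentExt, if_pos (hu.trans h2)]; exact this
  · have hA := (al_v_lt hb hr).resolve_right (by linarith)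
    rw [← hdd] at hA
    have hP := low_up_gap (S' := al + be) (hu'.trans hle) hd h1 hE.1
    have e1 : tangentExt (upTailLow d) (upTailLowD d) (upEndLow d) u = upTailLow d u := if_pos hu'
    rw [e1] at he hp ⊢
    rw [if_pos hu']
    simp only [← hald, ← hbed, ← hdd] at he hp ⊢
    set v := vOf al be r with hvd
    rcases lt_or_ge u (9751 / 10000) with g | g
    · exact low_up_flat_pos hd hu g hv hP hA h1 hb.S_low hs he hp
    · obtain ⟨e, rfl⟩ : ∃ e, u = 1 - e := ⟨1 - u, by ring⟩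
      have hpe : 0 < e := by linarith
      have hd2 : 67 / 100 * d ≤ e := by
        rcases le_max_iff.1 hu' with h | h <;> linarith
      obtain ⟨ρ, hρ⟩ : ∃ ρ, d = ρ * e := ⟨d / e, (div_mul_cancel₀ d hpe.ne').symm⟩
      have hρ0 : 0 ≤ ρ := (pos_of_mul_pos_left (hρ ▸ hd) hpe.le).le
      have hρ1 : ρ < 14927 / 10000 := by
        refine lt_of_mul_lt_mul_right ?_ hpe.le
        linarith
      clear_value d
      subst hρ
      clear_value v
      have he1 : e < 2502 / 100000 := by linarith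
      have k := low_up_corn_pos (S' := al + be) (v := v) hpe he1 hρ0 hρ1 hv hP hA h1 hb.S_low hs he hp
      exact k

end Vale.Agent.P100.Calib.Band
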