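import Vale.Agent.P100.Calib.SlabPsiLowSigns
import Vale.Agent.P100.Calib.SlabPsiPast
import Vale.Agent.P100.Calib.SlabUpperLow

/-!
# The exit threshold for `d ≤ 1/20`

Needs `al + be ≤ 3/5 + d ^ 2 / 3`, as the tilted band does.
-/

namespace Vale.Agent.P100.Calib.Band

open BoxPos Bubble Chart

variable {N p q : ℝ} {S : Set ℝ} {R x y s dx dy : ℝ → ℝ}

theorem psiLow_le {d : ℝ} (h0 : 0 ≤ d) (h1 : d ≤ 1 / 20) : psiLow d ≤ 41 / 20 := by
  have := mul_le_mul_of_nonneg_left h1 h0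
  unfold psiLow
  linarith [sq d]

theorem low_psi_flat_neg {v d S' : ℝ} (hv : 33 / 100 ≤ v) (hv1 : v < 24510 / 10000)
    (h0 : 373 / 10000 ≤ d) (h1 : d ≤ 1 / 20) (hs0 : 3 / 5 ≤ S') (hs : S' ≤ 3 / 5 + d * d / 3)
    (hgap : 0 ≤ ePsiGapLow.val (39 / 40) v d S') :
    exitP S' d (39 / 40) v (upTailLow d (39 / 40) + tiltLow d * v) 1 0 < 0 := by
  obtain ⟨m, hc⟩ := low_psi_flat_sign hv hv1 h0 h1 hs0 hs hgap
  obtain ⟨eN, eG, -, eb⟩ := low_up_val (u := 39 / 40) (v := v) (d := d) (S' := S')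
  refine exitP_neg_of_lowFlat hc ?_ ?_ eb hgap
  · rw [eG]; exact upLG_pos (by linarith) (by linarith) (by linarith)
  · rw [eN, eG, upTailLow]; exact upLN_eq (by linarith) (by linarith) (by linarith)

theorem low_psi_corn_neg {e v ρ S' : ℝ} (hpe : 0 < e) (he1 : e < 2502 / 100000)
    (hv : 33 / 100 ≤ v) (hv1 : v < 24510 / 10000) (hρ : ρ = 100 / 67) (hs0 : 3 / 5 ≤ S')
    (hs : S' ≤ 3 / 5 + ρ * e * (ρ * e) / 3)
    (hgap : 0 ≤ ePsiGapLow.val (1 - e) v (ρ * e) S') :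
    exitP S' (ρ * e) (1 - e) v (upTailLow (ρ * e) (1 - e) + tiltLow (ρ * e) * v) 1 0 < 0 := by
  rw [← val_toCorner] at hgap
  obtain ⟨m, hc⟩ := low_psi_corn_sign hpe.le he1 hv hv1 hρ hs0 hs hgap
  obtain ⟨eN, eG, -, eb⟩ := low_up_val (u := 1 - e) (v := v) (d := ρ * e) (S' := S')
  have eg := low_upg_val (e := e) (v := v) (ρ := ρ) (S' := S')
  have := mul_pos (show 0 < ρ by rw [hρ]; norm_num) hpe
  have hGp : 0 < lowUpG.val (1 - e) v (ρ * e) S' := by
    rw [eG]; exact upLG_pos (by linarith) (by linarith) (by linarith)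
  refine exitP_neg_of_lowCorn hpe hc ?_ ?_ ?_ hgap
  · exact pos_of_mul_pos_right (eg ▸ hGp) hpe.le
  · rw [val_toCorner, eg, eN, eG, upTailLow]
    exact upLN_eq (by linarith) (by linarith) (by linarith)
  · rw [val_toCorner, eb]

/-- **`vCrit + psiLow < v` at `u = upEndLow d`.** -/
theorem orbit_psi_low (hf : IsOrbitFns N p q S R x y s dx dy)
    (hb : SlabBox N (1 / (p + 1)) (1 / (q + 1))) (h1 : 1 / (q + 1) - 1 / (p + 1) ≤ 1 / 20)
    (hS : 1 / (p + 1) + 1 / (q + 1) ≤ 3 / 5 + (1 / (q + 1) - 1 / (p + 1)) ^ 2 / 3)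
    {w : ℝ} (hw : w ∈ S) (hw0 : 0 < R w)
    (hu : uOf N (R w) (x w) = upEndLow (1 / (q + 1) - 1 / (p + 1))) :
    vCrit (1 / (p + 1) + 1 / (q + 1)) (1 / (q + 1) - 1 / (p + 1)) +
        psiLow (1 / (q + 1) - 1 / (p + 1)) <
      vOf (1 / (p + 1)) (1 / (q + 1)) (y w / x w) := by
  have hup := orbit_upper_tail_low hf hb h1 hS hw hw0
    (by rw [hu]; exact le_trans (by norm_num) (le_max_left _ _)) hu.le
  obtain ⟨-, -, -, hr1, -, -, -, hc0, hk, -⟩ := hf.chart hb.five hb.low w hw hw0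
  have hvm : 33 / 100 ≤ vOf (1 / (p + 1)) (1 / (q + 1)) (y w / x w) :=
    (hb.v_mem hc0 hr1 hk).1
  obtain ⟨hal, hbe, hd, hS1, hS2, hal1, hal2⟩ := hb.facts
  have hpos := exitP_pos_of_upper hf hb hw hw0
    (T := upTailLow (1 / (q + 1) - 1 / (p + 1)) (upEndLow (1 / (q + 1) - 1 / (p + 1))))
    (b := tiltLow (1 / (q + 1) - 1 / (p + 1))) (Tf := upTailLow (1 / (q + 1) - 1 / (p + 1)))
    (by rw [hu])
  rw [hu] at hpos hup
  set al := 1 / (p + 1) with hald
  set be := 1 / (q + 1) with hbed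
  set d := be - al with hdd
  set v := vOf al be (y w / x w) with hvd
  have hs : al + be ≤ 3 / 5 + d * d / 3 := by rw [← sq]; exact hS
  have hs0 := hb.S_low
  by_contra hlt
  rw [not_lt] at hlt
  have hmm := mul_nonneg (show (0 : ℝ) ≤ al + be - d by linarith)
    (show (0 : ℝ) ≤ 1 - (al + be) by linarith [hb.S_high])
  have hden : 0 < 2 + (al + be - d) * (1 - (al + be)) := by linarith
  have hgap : ∀ u, 0 ≤ ePsiGapLow.val u v d (al + be) := fun u => by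
    rw [val_psiGapLow hden]
    exact mul_nonneg hden.le (sub_nonneg.2 hlt)
  have hv1 : v < 24510 / 10000 := by
    have hvc : vCrit (al + be) d ≤ 2 / 5 := by
      rw [vCrit, div_le_iff₀ hden]; linarith
    have := psiLow_le hd.le h1
    linarith
  have hal' : al * v ≤ 1 := by
    have := mul_le_mul_of_nonneg_right (show al ≤ 31 / 100 by
      linarith [mul_le_mul h1 h1 hd.le (by norm_num)]) (show (0 : ℝ) ≤ v by linarith)
    linarith
  have hpos' := hpos hal' hup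
  unfold upEndLow at hpos'
  rcases le_total (1 - 67 / 100 * d) (39 / 40 : ℝ) with h | h
  · rw [max_eq_left h] at hpos'
    exact hpos'.not_gt (low_psi_flat_neg hvm hv1 (by linarith) h1 hs0 hs (hgap _))
  · rw [max_eq_right h] at hpos'
    obtain ⟨e, he⟩ : ∃ e, 67 / 100 * d = e := ⟨_, rfl⟩
    have hde : d = 100 / 67 * e := by linarith
    rw [he] at hpos'
    clear_value v d
    subst hde
    exact hpos'.not_gt (low_psi_corn_neg (by linarith) (by linarith) hvm hv1 rfl hs0 hs (hgap _))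

/-- **`vCrit + psiLow < v` wherever `upEndLow d ≤ u`.** -/
theorem orbit_psi_low_past (hf : IsOrbitFns N p q S R x y s dx dy)
    (hb : SlabBox N (1 / (p + 1)) (1 / (q + 1))) (h1 : 1 / (q + 1) - 1 / (p + 1) ≤ 1 / 20)
    (hS : 1 / (p + 1) + 1 / (q + 1) ≤ 3 / 5 + (1 / (q + 1) - 1 / (p + 1)) ^ 2 / 3)
    {w : ℝ} (hw : w ∈ S) (hw0 : 0 < R w)
    (hu : upEndLow (1 / (q + 1) - 1 / (p + 1)) ≤ uOf N (R w) (x w)) :
    vCrit (1 / (p + 1) + 1 / (q + 1)) (1 / (q + 1) - 1 / (p + 1)) +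
        psiLow (1 / (q + 1) - 1 / (p + 1)) <
      vOf (1 / (p + 1)) (1 / (q + 1)) (y w / x w) := by
  obtain ⟨hal, hbe, hd, -⟩ := hb.facts
  obtain ⟨z, hz, hz0, hzu, hzr⟩ := orbit_exists_earlier hf hb.five hb.low hal hbe
    (lt_of_lt_of_le (by norm_num) (le_max_left _ _)) hw hw0 hu
  refine (orbit_psi_low hf hb h1 hS hz hz0 hzu).trans_le ?_
  simp only [vOf]
  exact div_le_div_of_nonneg_right
    (sub_le_sub_right (mul_le_mul_of_nonneg_left hzr (div_pos hbe hal).le) 1) hd.le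

end Vale.Agent.P100.Calib.Band
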