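import Vale.Agent.P100.Calib.SlabChartHigh
import Vale.Agent.P100.Calib.SlabTailLowExit
import Vale.Agent.P100.Calib.SlabPsiLow

/-!
# The bands of the piece `d ≤ 1/20` in the chart
-/

namespace Vale.Agent.P100.Calib.Band

open Vale.Agent.P100.Bubble Chart Closed

theorem upTailLow_eq (d u : ℝ) : upTailLow d u = bandsBot.up d u := by
  simp only [upTailLow, upLA, bandsBot]
  ring

theorem tiltLow_eq (d : ℝ) : tiltLow d = bandsBot.tilt d := by
  simp only [tiltLow, bandsBot]
  ring

/-- The bands of the piece `d ≤ 1/20`. -/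
theorem orbitHigh_bot : OrbitHigh bandsBot 0 (1 / 20) := by
  intro N p q S R x y s dx dy hc h hb hcb h0 h1 z hz hR d σ u v t
  have hS := hcb.S_le
  obtain ⟨ha, -, -, -⟩ := low_coef h0 h1
  have hd : 0 < d := hcb.pos
  refine ⟨fun hu hu1 => ⟨?_, ?_⟩, fun hu hu1 => ?_, fun hu => ?_, ?_, ?_⟩
  · have hu2 : u < 1 := lt_of_le_of_lt hu1 (endLow_lt hd)
    have := orbit_phi_tail_low h hb h0 h1 hz hR hu1
    simp only [bandsBot]
    rwa [phiTailLow, curve_div (by linarith) (by linarith)] at this
  · exact (bandT_tau hc h hb hz hR (lowTailLow d) 0).1.1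
      (orbit_lower_tail_low h hb h0 h1 hz hR hu (hu1.trans (endLow_lt hd).le))
  · rw [← upTailLow_eq, ← tiltLow_eq]
    exact (bandT_tau hc h hb hz hR (upTailLow d) (tiltLow d * v)).2.1
      (orbit_upper_tail_low h hb h1 hS hz hR hu hu1)
  · exact orbit_psi_low_past h hb h1 hS hz hR hu
  · exact le_trans (by norm_num) (le_max_left _ _)
  · refine max_le (le_trans (by norm_num) (le_max_left _ _)) (le_trans ?_ (le_max_right _ _))
    linarith

end Vale.Agent.P100.Calib.Band
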