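import Mathlib
import Vale.Agent.P100.Calib.SlabChart

/-!
# The regions of the chart beyond `u = 3/5`

A piece is an interval of `d` with its bands: `low < t`, `v < phi` up to `uE`,
`t < up + tilt v` up to `u₁`, and `vc + psi < v`, `1/4 < t` from `u₁` on, `vc = 2 (1 - S)/(2 + (S - d)(1 - S))`.
Certificates import this file only.
-/

set_option linter.unusedVariables false

namespace Vale.Agent.P100.Calib.Closed

/-- The bands of one piece. -/
structure HighBands where
  /-- Below the slope. -/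
  low : ℝ → ℝ → ℝ
  /-- Above `v`. -/
  phi : ℝ → ℝ → ℝ
  /-- Above the slope at `v = 0`. -/
  up : ℝ → ℝ → ℝ
  /-- The tilt of `up` in `v`. -/
  tilt : ℝ → ℝ
  /-- Below `v - vc` from `u₁` on. -/
  psi : ℝ → ℝ
  /-- Where the tail ends. -/
  u₁ : ℝ → ℝ
  /-- Where `low` and `phi` end. -/
  uE : ℝ → ℝ

/-- The closed signs on the tail of a piece, `3/5 < u ≤ u₁`. -/
def SignsTail (B : HighBands) (d₀ d₁ : ℝ) : Prop :=
  ∀ d S u v t : ℝ, ChartBox d S → d₀ ≤ d → d ≤ d₁ → 3 / 5 < u → u ≤ B.u₁ d →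
    ChartFacts d S u v t → v < B.phi d u → B.low d u < t → t < B.up d u + B.tilt d * v →
    ChartSigns d S u v t

/-- The closed signs on the end of a piece, `u₁ ≤ u`. -/
def SignsEnd (B : HighBands) (d₀ d₁ : ℝ) : Prop :=
  ∀ d S u v t : ℝ, ChartBox d S → d₀ ≤ d → d ≤ d₁ → B.u₁ d ≤ u → ChartFacts d S u v t →
    2 * (1 - S) / (2 + (S - d) * (1 - S)) + B.psi d < v → 1 / 4 < t →
    (u ≤ B.uE d → v < B.phi d u ∧ B.low d u < t) →
    ChartSigns d S u v t

/-- The piece `1/20 ≤ d ≤ 3/25`. -/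
noncomputable def bandsMid : HighBands where
  low d u := (25153 / 10000 + 186684 / 10000 * d +
      (31755 / 10000 - 75720 / 10000 * d) * ((u - 3 / 5) / (1 - u + 1200 / 10000)) +
      (1904 / 10000 - 21095 / 10000 * d) * ((u - 3 / 5) / (1 - u + 40 / 10000))) /
    (1 + 66 / 5 * d + 292 / 5 * d ^ 2)
  phi d u :=
    77743 / 10000 - 60214 / 10000 * d -
      (18134 / 10000 + 2854 / 10000 * d) *
        ((1 - u) / (1 - u + (1800 / 10000 + 8000 / 10000 * d + 15000 / 10000 * (d * d)))) -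
      (55858 / 10000 - 40967 / 10000 * d) * ((1 - u) / (1 - u + 173 / 10000))
  up d u :=
    6366 / 10000 / ((1 + 74368 / 10000 * d + 64 / 10000 * (d * d)) * (1 - u + 8381 / 10000 * d)) +
      (17465 / 10000 - 76155 / 10000 * d) +
      (-4805 / 10000 + 22219 / 10000 * d) * ((u - 3 / 5) / (1 - u + 1000 / 10000))
  tilt d := 17704 / 10000 - 84200 / 10000 * d
  psi d := 3 / 2 - 94 / 10 * d + 28 * d ^ 2
  u₁ _ := 39 / 40
  uE _ := 79 / 80

/-- The piece `3/25 ≤ d ≤ 1/5`. -/
noncomputable def bandsTop : HighBands where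
  low d u := (48300 / 10000 - 78000 / 10000 * d +
      (-281 / 10000 + 279249 / 10000 * d) * ((u - 3 / 5) / (1 - u + 1655 / 10000)) +
      (7517 / 10000 - 70471 / 10000 * d) * ((u - 3 / 5) / (1 - u + 293 / 10000))) /
    (1 + 66 / 5 * d + 292 / 5 * d ^ 2)
  phi d u :=
    64790 / 10000 - 129110 / 10000 * d -
      (34317 / 10000 - 68165 / 10000 * d) *
        ((1 - u) / (1 - u + (2360 / 10000 - 2752 / 10000 * d - 20835 / 10000 * (d * d)))) -
      (34688 / 10000 - 116052 / 10000 * d) * ((1 - u) / (1 - u + 258 / 10000))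
  up d u :=
    6546 / 10000 /
        ((1 + 139779 / 10000 * d + -118 / 10000 * (d * d)) * (1 - u + 8235 / 10000 * d)) +
      (13788 / 10000 - 29695 / 10000 * d) +
      (-2055 / 10000 + 10384 / 10000 * d) * ((u - 3 / 5) / (1 - u + 1779 / 10000))
  tilt d := 17039 / 10000 - 75663 / 10000 * d
  psi d := 3 / 2 - 94 / 10 * d + 28 * d ^ 2
  u₁ _ := 39 / 40
  uE _ := 79 / 80

/-- The piece `d ≤ 1/20`. -/
noncomputable def bandsBot : HighBands where
  low d u := (19540 / 10000 + 227422 / 10000 * d + 113009 / 10000 * (d * d) +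
      (37400 / 10000 + 114342 / 10000 * d - 2421164 / 10000 * (d * d)) *
        ((u - 3 / 5) / (1 - u + 1373 / 10000)) +
      (6793 / 10000 - 125600 / 10000 * d + 1039934 / 10000 * (d * d)) *
        ((u - 3 / 5) / (1 - u + 362 / 10000))) /
    (1 + 66 / 5 * d + 292 / 5 * d ^ 2)
  phi d u :=
    36368 / 10000 + 181564 / 10000 * d + 6669050 / 10000 * (d * d) -
      (23882 / 10000 - 19814 / 10000 * d - 1743146 / 10000 * (d * d)) *
        ((1 - u) / (1 - u + (1369 / 10000 + 4375 / 10000 * d + 13704 / 10000 * (d * d)))) -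
      (5623 / 10000 + 274824 / 10000 * d + 7628920 / 10000 * (d * d)) *
        ((1 - u) / (1 - u + 96 / 10000))
  up d u :=
    (2752 / 100000 - 59149 / 10000 * d + 342301 / 10000 * (d * d)) / (1 - u + 21003 / 10000 * d) +
      (28203 / 10000 + 12200 / 10000 * d - 1679960 / 10000 * (d * d)) +
      (14906 / 10000 - 148016 / 10000 * d + 343779 / 10000 * (d * d)) *
        ((u - 3 / 5) / (1 - u + 714 / 10000)) +
      (6491 / 10000 - 196057 / 10000 * d + 1629351 / 10000 * (d * d)) *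
        ((u - 3 / 5) / (1 - u + 24 / 100000))
  tilt d := 25092 / 10000 - 35066 / 10000 * d + 29962 / 10000 * (d * d)
  psi d := 41 / 20 - 126 / 5 * d + 130 * d ^ 2
  u₁ d := max (39 / 40) (1 - 67 / 100 * d)
  uE d := max (79 / 80) (1 - 33 / 100 * d)

/-- The pinch bounds `S`. -/
theorem ChartBox.S_le {d S : ℝ} (h : ChartBox d S) : S ≤ 3 / 5 + d ^ 2 / 3 := by
  by_contra hn
  rw [not_le] at hn
  have h0 := h.S_low
  have h1 := h.tri
  have h2 : (S - d) ^ 2 ≤ S ^ 2 := by
    have := h.pos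
    have := h.diff
    refine pow_le_pow_left₀ (by linarith) (by linarith) 2
  have h3 := mul_le_mul_of_nonneg_right h2 (sq_nonneg d)
  have h4 : d ^ 2 * (5 / 3) * S ^ 3 < (5 * S - 3) * S ^ 3 :=
    mul_lt_mul_of_pos_right (by linarith) (pow_pos (by linarith) 3)
  have h5 := mul_le_mul_of_nonneg_left h0.le (mul_nonneg (sq_nonneg d) (sq_nonneg S))
  have := h.pinch
  linarith

end Vale.Agent.P100.Calib.Closed
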