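import Vale.Agent.P100.Calib.SlabEndData

/-!
# Checks of the end strip, piece `1`
-/

set_option linter.defProp false

namespace Vale.Agent.P100.Calib.Closed.End

open BoxPos
open Large (PosBox posBox_of_check)

local instance endChk1A1Add : Add Ex := ⟨Ex.add⟩
local instance endChk1A1Mul : Mul Ex := ⟨Ex.mul⟩
local instance endChk1A1Sub : Sub Ex := ⟨Ex.sub⟩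

def c1_372 : PosBox ⟨⟨0, 1, 1⟩, ⟨375, 378, 625⟩, ⟨2, 3, 25⟩, ⟨0, 1, 1⟩⟩
    (cR p1.kl p1.v (g1_1.s₀.t) (g1_1.u₁) (p1.wl g1_1.s₀.t) (p1.wh g1_1.s₀.t) g1_1.p) :=
  posBox_of_check (c := ⟨336, ⟨0, 9, 21, 7⟩⟩) (by decide +kernel)

def c1_373 : PosBox ⟨⟨0, 1, 1⟩, ⟨375, 378, 625⟩, ⟨2, 3, 25⟩, ⟨0, 1, 1⟩⟩
    (cG p1.kl p1.v (g1_1.s₀.t) (g1_1.u₁) (p1.wl g1_1.s₀.t) (p1.wh g1_1.s₀.t) g1_1.p (cC (1) 4)) :=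
  posBox_of_check (c := ⟨424, ⟨0, 9, 26, 9⟩⟩) (by decide +kernel)

def c1_379 : PosBox ⟨⟨0, 1, 1⟩, ⟨375, 378, 625⟩, ⟨2, 3, 25⟩, ⟨0, 1, 1⟩⟩
    (cF p1.kl p1.v (g1_1.s₁.t) (g1_1.u₀) (p1.wh g1_1.s₁.t) g1_1.p g1_1.s₁.phi) :=
  posBox_of_check (c := ⟨531, ⟨0, 12, 28, 11⟩⟩) (by decide +kernel)

def c1_380 : PosBox ⟨⟨0, 1, 1⟩, ⟨375, 378, 625⟩, ⟨2, 3, 25⟩, ⟨0, 1, 1⟩⟩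
    (cF p1.kl p1.v (g1_1.s₁.t) (g1_1.u₀) (p1.wl g1_1.s₁.t) g1_1.p g1_1.s₁.phi) :=
  posBox_of_check (c := ⟨575, ⟨0, 12, 28, 11⟩⟩) (by decide +kernel)

def c1_381 : PosBox ⟨⟨0, 1, 1⟩, ⟨375, 378, 625⟩, ⟨2, 3, 25⟩, ⟨0, 1, 1⟩⟩
    (cG p1.kl p1.v (g1_1.s₁.t) (g1_1.u₀) (p1.wl g1_1.s₁.t) (p1.wh g1_1.s₁.t) g1_1.p (cC (1) 4)) :=
  posBox_of_check (c := ⟨430, ⟨0, 9, 22, 9⟩⟩) (by decide +kernel)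

def c1_384 : PosBox ⟨⟨0, 1, 1⟩, ⟨375, 378, 625⟩, ⟨2, 3, 25⟩, ⟨0, 1, 1⟩⟩
    (cF p1.kl p1.v (g1_1.s₁.t) (g1_1.u₁) (p1.wh g1_1.s₁.t) g1_1.p g1_1.s₁.phi) :=
  posBox_of_check (c := ⟨531, ⟨0, 12, 28, 11⟩⟩) (by decide +kernel)

def c1_385 : PosBox ⟨⟨0, 1, 1⟩, ⟨375, 378, 625⟩, ⟨2, 3, 25⟩, ⟨0, 1, 1⟩⟩
    (cF p1.kl p1.v (g1_1.s₁.t) (g1_1.u₁) (p1.wl g1_1.s₁.t) g1_1.p g1_1.s₁.phi) :=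
  posBox_of_check (c := ⟨575, ⟨0, 12, 28, 11⟩⟩) (by decide +kernel)

def c1_386 : PosBox ⟨⟨0, 1, 1⟩, ⟨375, 378, 625⟩, ⟨2, 3, 25⟩, ⟨0, 1, 1⟩⟩
    (cG p1.kl p1.v (g1_1.s₁.t) (g1_1.u₁) (p1.wl g1_1.s₁.t) (p1.wh g1_1.s₁.t) g1_1.p (cC (1) 4)) :=
  posBox_of_check (c := ⟨430, ⟨0, 9, 22, 9⟩⟩) (by decide +kernel)

def c1_395 : PosBox ⟨⟨0, 1, 1⟩, ⟨375, 378, 625⟩, ⟨2, 3, 25⟩, ⟨0, 1, 1⟩⟩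
    (cF p1.kl p1.v (g1_2.s₀.t) (g1_2.u₀) (p1.wh g1_2.s₀.t) g1_2.p g1_2.s₀.phi) :=
  posBox_of_check (c := ⟨537, ⟨0, 12, 34, 11⟩⟩) (by decide +kernel)

def c1_396 : PosBox ⟨⟨0, 1, 1⟩, ⟨375, 378, 625⟩, ⟨2, 3, 25⟩, ⟨0, 1, 1⟩⟩
    (cR p1.kl p1.v (g1_2.s₀.t) (g1_2.u₀) (p1.wl g1_2.s₀.t) (p1.wh g1_2.s₀.t) g1_2.p) :=
  posBox_of_check (c := ⟨341, ⟨0, 9, 21, 7⟩⟩) (by decide +kernel)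

def c1_397 : PosBox ⟨⟨0, 1, 1⟩, ⟨375, 378, 625⟩, ⟨2, 3, 25⟩, ⟨0, 1, 1⟩⟩
    (cG p1.kl p1.v (g1_2.s₀.t) (g1_2.u₀) (p1.wl g1_2.s₀.t) (p1.wh g1_2.s₀.t) g1_2.p (cC (1) 4)) :=
  posBox_of_check (c := ⟨435, ⟨0, 9, 26, 9⟩⟩) (by decide +kernel)

def c1_400 : PosBox ⟨⟨0, 1, 1⟩, ⟨375, 378, 625⟩, ⟨2, 3, 25⟩, ⟨0, 1, 1⟩⟩
    (cF p1.kl p1.v (g1_2.s₀.t) (g1_2.u₁) (p1.wh g1_2.s₀.t) g1_2.p g1_2.s₀.phi) :=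
  posBox_of_check (c := ⟨537, ⟨0, 12, 34, 11⟩⟩) (by decide +kernel)

def c1_401 : PosBox ⟨⟨0, 1, 1⟩, ⟨375, 378, 625⟩, ⟨2, 3, 25⟩, ⟨0, 1, 1⟩⟩
    (cR p1.kl p1.v (g1_2.s₀.t) (g1_2.u₁) (p1.wl g1_2.s₀.t) (p1.wh g1_2.s₀.t) g1_2.p) :=
  posBox_of_check (c := ⟨341, ⟨0, 9, 21, 7⟩⟩) (by decide +kernel)

def c1_402 : PosBox ⟨⟨0, 1, 1⟩, ⟨375, 378, 625⟩, ⟨2, 3, 25⟩, ⟨0, 1, 1⟩⟩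
    (cG p1.kl p1.v (g1_2.s₀.t) (g1_2.u₁) (p1.wl g1_2.s₀.t) (p1.wh g1_2.s₀.t) g1_2.p (cC (1) 4)) :=
  posBox_of_check (c := ⟨435, ⟨0, 9, 26, 9⟩⟩) (by decide +kernel)

def c1_408 : PosBox ⟨⟨0, 1, 1⟩, ⟨375, 378, 625⟩, ⟨2, 3, 25⟩, ⟨0, 1, 1⟩⟩
    (cF p1.kl p1.v (g1_2.s₁.t) (g1_2.u₀) (p1.wh g1_2.s₁.t) g1_2.p g1_2.s₁.phi) :=
  posBox_of_check (c := ⟨573, ⟨0, 12, 34, 11⟩⟩) (by decide +kernel)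

def c1_409 : PosBox ⟨⟨0, 1, 1⟩, ⟨375, 378, 625⟩, ⟨2, 3, 25⟩, ⟨0, 1, 1⟩⟩
    (cR p1.kl p1.v (g1_2.s₁.t) (g1_2.u₀) (p1.wl g1_2.s₁.t) (p1.wh g1_2.s₁.t) g1_2.p) :=
  posBox_of_check (c := ⟨353, ⟨0, 9, 21, 7⟩⟩) (by decide +kernel)

def c1_410 : PosBox ⟨⟨0, 1, 1⟩, ⟨375, 378, 625⟩, ⟨2, 3, 25⟩, ⟨0, 1, 1⟩⟩
    (cG p1.kl p1.v (g1_2.s₁.t) (g1_2.u₀) (p1.wl g1_2.s₁.t) (p1.wh g1_2.s₁.t) g1_2.p (cC (1) 4)) :=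
  posBox_of_check (c := ⟨459, ⟨0, 9, 26, 9⟩⟩) (by decide +kernel)

def c1_413 : PosBox ⟨⟨0, 1, 1⟩, ⟨375, 378, 625⟩, ⟨2, 3, 25⟩, ⟨0, 1, 1⟩⟩
    (cF p1.kl p1.v (g1_2.s₁.t) (g1_2.u₁) (p1.wh g1_2.s₁.t) g1_2.p g1_2.s₁.phi) :=
  posBox_of_check (c := ⟨573, ⟨0, 12, 34, 11⟩⟩) (by decide +kernel)

def c1_414 : PosBox ⟨⟨0, 1, 1⟩, ⟨375, 378, 625⟩, ⟨2, 3, 25⟩, ⟨0, 1, 1⟩⟩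
    (cR p1.kl p1.v (g1_2.s₁.t) (g1_2.u₁) (p1.wl g1_2.s₁.t) (p1.wh g1_2.s₁.t) g1_2.p) :=
  posBox_of_check (c := ⟨353, ⟨0, 9, 21, 7⟩⟩) (by decide +kernel)

def c1_415 : PosBox ⟨⟨0, 1, 1⟩, ⟨375, 378, 625⟩, ⟨2, 3, 25⟩, ⟨0, 1, 1⟩⟩
    (cG p1.kl p1.v (g1_2.s₁.t) (g1_2.u₁) (p1.wl g1_2.s₁.t) (p1.wh g1_2.s₁.t) g1_2.p (cC (1) 4)) :=
  posBox_of_check (c := ⟨459, ⟨0, 9, 26, 9⟩⟩) (by decide +kernel)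

def c1_424 : PosBox ⟨⟨0, 1, 1⟩, ⟨375, 378, 625⟩, ⟨2, 3, 25⟩, ⟨0, 1, 1⟩⟩
    (cF p1.kl p1.v (g1_3.s₀.t) (g1_3.u₀) (p1.wh g1_3.s₀.t) g1_3.p g1_3.s₀.phi) :=
  posBox_of_check (c := ⟨476, ⟨0, 12, 28, 11⟩⟩) (by decide +kernel)

def c1_425 : PosBox ⟨⟨0, 1, 1⟩, ⟨375, 378, 625⟩, ⟨2, 3, 25⟩, ⟨0, 1, 1⟩⟩
    (cR p1.kl p1.v (g1_3.s₀.t) (g1_3.u₀) (p1.wl g1_3.s₀.t) (p1.wh g1_3.s₀.t) g1_3.p) :=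
  posBox_of_check (c := ⟨320, ⟨0, 9, 19, 7⟩⟩) (by decide +kernel)

def c1_426 : PosBox ⟨⟨0, 1, 1⟩, ⟨375, 378, 625⟩, ⟨2, 3, 25⟩, ⟨0, 1, 1⟩⟩
    (cG p1.kl p1.v (g1_3.s₀.t) (g1_3.u₀) (p1.wl g1_3.s₀.t) (p1.wh g1_3.s₀.t) g1_3.p (cC (1) 4)) :=
  posBox_of_check (c := ⟨394, ⟨0, 9, 22, 9⟩⟩) (by decide +kernel)

def c1_429 : PosBox ⟨⟨0, 1, 1⟩, ⟨375, 378, 625⟩, ⟨2, 3, 25⟩, ⟨0, 1, 1⟩⟩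
    (cF p1.kl p1.v (g1_3.s₀.t) (g1_3.u₁) (p1.wh g1_3.s₀.t) g1_3.p g1_3.s₀.phi) :=
  posBox_of_check (c := ⟨479, ⟨0, 12, 28, 11⟩⟩) (by decide +kernel)

def c1_430 : PosBox ⟨⟨0, 1, 1⟩, ⟨375, 378, 625⟩, ⟨2, 3, 25⟩, ⟨0, 1, 1⟩⟩
    (cR p1.kl p1.v (g1_3.s₀.t) (g1_3.u₁) (p1.wl g1_3.s₀.t) (p1.wh g1_3.s₀.t) g1_3.p) :=
  posBox_of_check (c := ⟨321, ⟨0, 9, 19, 7⟩⟩) (by decide +kernel)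

def c1_431 : PosBox ⟨⟨0, 1, 1⟩, ⟨375, 378, 625⟩, ⟨2, 3, 25⟩, ⟨0, 1, 1⟩⟩
    (cG p1.kl p1.v (g1_3.s₀.t) (g1_3.u₁) (p1.wl g1_3.s₀.t) (p1.wh g1_3.s₀.t) g1_3.p (cC (1) 4)) :=
  posBox_of_check (c := ⟨396, ⟨0, 9, 22, 9⟩⟩) (by decide +kernel)

def c1_437 : PosBox ⟨⟨0, 1, 1⟩, ⟨375, 378, 625⟩, ⟨2, 3, 25⟩, ⟨0, 1, 1⟩⟩
    (cF p1.kl p1.v (g1_3.s₁.t) (g1_3.u₀) (p1.wh g1_3.s₁.t) g1_3.p g1_3.s₁.phi) :=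
  posBox_of_check (c := ⟨587, ⟨0, 12, 34, 11⟩⟩) (by decide +kernel)

def c1_438 : PosBox ⟨⟨0, 1, 1⟩, ⟨375, 378, 625⟩, ⟨2, 3, 25⟩, ⟨0, 1, 1⟩⟩
    (cR p1.kl p1.v (g1_3.s₁.t) (g1_3.u₀) (p1.wl g1_3.s₁.t) (p1.wh g1_3.s₁.t) g1_3.p) :=
  posBox_of_check (c := ⟨357, ⟨0, 9, 21, 7⟩⟩) (by decide +kernel)

end Vale.Agent.P100.Calib.Closed.End
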