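import Vale.Agent.P100.Calib.SlabEndData

/-!
# Checks of the end strip, piece `1`
-/

set_option linter.defProp false

namespace Vale.Agent.P100.Calib.Closed.End

open BoxPos
open Large (PosBox posBox_of_check)

local instance endChk1A2Add : Add Ex := ⟨Ex.add⟩
local instance endChk1A2Mul : Mul Ex := ⟨Ex.mul⟩
local instance endChk1A2Sub : Sub Ex := ⟨Ex.sub⟩

def c1_439 : PosBox ⟨⟨0, 1, 1⟩, ⟨375, 378, 625⟩, ⟨2, 3, 25⟩, ⟨0, 1, 1⟩⟩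
    (cG p1.kl p1.v (g1_3.s₁.t) (g1_3.u₀) (p1.wl g1_3.s₁.t) (p1.wh g1_3.s₁.t) g1_3.p (cC (1) 4)) :=
  posBox_of_check (c := ⟨468, ⟨0, 9, 26, 9⟩⟩) (by decide +kernel)

def c1_442 : PosBox ⟨⟨0, 1, 1⟩, ⟨375, 378, 625⟩, ⟨2, 3, 25⟩, ⟨0, 1, 1⟩⟩
    (cF p1.kl p1.v (g1_3.s₁.t) (g1_3.u₁) (p1.wh g1_3.s₁.t) g1_3.p g1_3.s₁.phi) :=
  posBox_of_check (c := ⟨587, ⟨0, 12, 34, 11⟩⟩) (by decide +kernel)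

def c1_443 : PosBox ⟨⟨0, 1, 1⟩, ⟨375, 378, 625⟩, ⟨2, 3, 25⟩, ⟨0, 1, 1⟩⟩
    (cR p1.kl p1.v (g1_3.s₁.t) (g1_3.u₁) (p1.wl g1_3.s₁.t) (p1.wh g1_3.s₁.t) g1_3.p) :=
  posBox_of_check (c := ⟨357, ⟨0, 9, 21, 7⟩⟩) (by decide +kernel)

def c1_444 : PosBox ⟨⟨0, 1, 1⟩, ⟨375, 378, 625⟩, ⟨2, 3, 25⟩, ⟨0, 1, 1⟩⟩
    (cG p1.kl p1.v (g1_3.s₁.t) (g1_3.u₁) (p1.wl g1_3.s₁.t) (p1.wh g1_3.s₁.t) g1_3.p (cC (1) 4)) :=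
  posBox_of_check (c := ⟨468, ⟨0, 9, 26, 9⟩⟩) (by decide +kernel)

end Vale.Agent.P100.Calib.Closed.End
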