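import Vale.Agent.P100.Calib.SlabEndData

/-!
# Checks of the end strip, piece `1`
-/

set_option linter.defProp false

namespace Vale.Agent.P100.Calib.Closed.End

open BoxPos
open Large (PosBox posBox_of_check)

local instance endChk1B0Add : Add Ex := ⟨Ex.add⟩
local instance endChk1B0Mul : Mul Ex := ⟨Ex.mul⟩
local instance endChk1B0Sub : Sub Ex := ⟨Ex.sub⟩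

def c1_295 : PosBox ⟨⟨0, 1, 1⟩, ⟨375, 378, 625⟩, ⟨2, 3, 25⟩, ⟨0, 1, 1⟩⟩
    ((p1.wh g1.s₀.t) - (p1.wl g1.s₀.t)) :=
  posBox_of_check (c := ⟨161, ⟨0, 3, 5, 1⟩⟩) (by decide +kernel)

def c1_299 : PosBox ⟨⟨0, 1, 1⟩, ⟨375, 378, 625⟩, ⟨2, 3, 25⟩, ⟨0, 1, 1⟩⟩
    (g1.s₀.eta - cEG p1.kl p1.v (g1.s₀.t) (g1.u₀) g1.p) :=
  posBox_of_check (c := ⟨246, ⟨0, 8, 16, 5⟩⟩) (by decide +kernel)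

def c1_300 : PosBox ⟨⟨0, 1, 1⟩, ⟨375, 378, 625⟩, ⟨2, 3, 25⟩, ⟨0, 1, 1⟩⟩
    (g1.s₀.eta' + cEG p1.kl p1.v (g1.s₀.t) (g1.u₀) g1.p - cSag p1.kl p1.v (g1.s₀.t) (g1.u₀) p1.lo g1_0.p) :=
  posBox_of_check (c := ⟨260, ⟨0, 8, 16, 6⟩⟩) (by decide +kernel)

def c1_301 : PosBox ⟨⟨0, 1, 1⟩, ⟨375, 378, 625⟩, ⟨2, 3, 25⟩, ⟨0, 1, 1⟩⟩
    (g1.s₀.eta' + cEG p1.kl p1.v (g1.s₀.t) (g1.u₀) g1.p - cSag p1.kl p1.v (g1.s₀.t) (g1.u₀) p1.lo g1_1.p) :=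
  posBox_of_check (c := ⟨265, ⟨0, 8, 16, 6⟩⟩) (by decide +kernel)

def c1_302 : PosBox ⟨⟨0, 1, 1⟩, ⟨375, 378, 625⟩, ⟨2, 3, 25⟩, ⟨0, 1, 1⟩⟩
    (g1.s₀.eta' + cEG p1.kl p1.v (g1.s₀.t) (g1.u₀) g1.p - cSag p1.kl p1.v (g1.s₀.t) (g1.u₀) p1.lo g1_2.p) :=
  posBox_of_check (c := ⟨266, ⟨0, 8, 16, 6⟩⟩) (by decide +kernel)

def c1_303 : PosBox ⟨⟨0, 1, 1⟩, ⟨375, 378, 625⟩, ⟨2, 3, 25⟩, ⟨0, 1, 1⟩⟩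
    (g1.s₀.eta' + cEG p1.kl p1.v (g1.s₀.t) (g1.u₀) g1.p - cSag p1.kl p1.v (g1.s₀.t) (g1.u₀) p1.lo g1_3.p) :=
  posBox_of_check (c := ⟨266, ⟨0, 8, 16, 6⟩⟩) (by decide +kernel)

def c1_307 : PosBox ⟨⟨0, 1, 1⟩, ⟨375, 378, 625⟩, ⟨2, 3, 25⟩, ⟨0, 1, 1⟩⟩
    (g1.s₀.eta - cEG p1.kl p1.v (g1.s₀.t) (g1.u₁) g1.p) :=
  posBox_of_check (c := ⟨248, ⟨0, 8, 16, 5⟩⟩) (by decide +kernel)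

def c1_308 : PosBox ⟨⟨0, 1, 1⟩, ⟨375, 378, 625⟩, ⟨2, 3, 25⟩, ⟨0, 1, 1⟩⟩
    (g1.s₀.eta' + cEG p1.kl p1.v (g1.s₀.t) (g1.u₁) g1.p - cSag p1.kl p1.v (g1.s₀.t) (g1.u₁) p1.lo g1_0.p) :=
  posBox_of_check (c := ⟨262, ⟨0, 8, 16, 6⟩⟩) (by decide +kernel)

def c1_309 : PosBox ⟨⟨0, 1, 1⟩, ⟨375, 378, 625⟩, ⟨2, 3, 25⟩, ⟨0, 1, 1⟩⟩
    (g1.s₀.eta' + cEG p1.kl p1.v (g1.s₀.t) (g1.u₁) g1.p - cSag p1.kl p1.v (g1.s₀.t) (g1.u₁) p1.lo g1_1.p) :=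
  posBox_of_check (c := ⟨267, ⟨0, 8, 16, 6⟩⟩) (by decide +kernel)

def c1_310 : PosBox ⟨⟨0, 1, 1⟩, ⟨375, 378, 625⟩, ⟨2, 3, 25⟩, ⟨0, 1, 1⟩⟩
    (g1.s₀.eta' + cEG p1.kl p1.v (g1.s₀.t) (g1.u₁) g1.p - cSag p1.kl p1.v (g1.s₀.t) (g1.u₁) p1.lo g1_2.p) :=
  posBox_of_check (c := ⟨268, ⟨0, 8, 16, 6⟩⟩) (by decide +kernel)

def c1_311 : PosBox ⟨⟨0, 1, 1⟩, ⟨375, 378, 625⟩, ⟨2, 3, 25⟩, ⟨0, 1, 1⟩⟩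
    (g1.s₀.eta' + cEG p1.kl p1.v (g1.s₀.t) (g1.u₁) g1.p - cSag p1.kl p1.v (g1.s₀.t) (g1.u₁) p1.lo g1_3.p) :=
  posBox_of_check (c := ⟨268, ⟨0, 8, 16, 6⟩⟩) (by decide +kernel)

def c1_312 : PosBox ⟨⟨0, 1, 1⟩, ⟨375, 378, 625⟩, ⟨2, 3, 25⟩, ⟨0, 1, 1⟩⟩
    (cC (4) 1 * g1.beta * g1.s₀.phi - cC (625) 1 * (cC (1) 1 + Ex.x₂ * p1.v) * g1.s₀.eta * g1.s₀.eta) :=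
  posBox_of_check (c := ⟨145, ⟨0, 0, 6, 5⟩⟩) (by decide +kernel)

def c1_313 : PosBox ⟨⟨0, 1, 1⟩, ⟨375, 378, 625⟩, ⟨2, 3, 25⟩, ⟨0, 1, 1⟩⟩
    (cC (4) 1 * g1.beta * g1.s₀.phi - cC (625) 1 * (cC (1) 1 + Ex.x₂ * p1.v) * g1.s₀.eta' * g1.s₀.eta') :=
  posBox_of_check (c := ⟨145, ⟨0, 0, 6, 5⟩⟩) (by decide +kernel)

def c1_314 : PosBox ⟨⟨0, 1, 1⟩, ⟨375, 378, 625⟩, ⟨2, 3, 25⟩, ⟨0, 1, 1⟩⟩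
    ((p1.wh g1.s₁.t) - (p1.wl g1.s₁.t)) :=
  posBox_cut₂ (A := ⟨4, 5, 50⟩) (B := ⟨5, 6, 50⟩) (by unfold covers; decide)
    (posBox_cut₃ (A := ⟨0, 1, 2⟩) (B := ⟨1, 2, 2⟩) (by unfold covers; decide)
      (posBox_of_check (c := ⟨344, ⟨0, 3, 7, 3⟩⟩) (by decide +kernel))
      (posBox_of_check (c := ⟨344, ⟨0, 3, 7, 3⟩⟩) (by decide +kernel)))
    (posBox_cut₃ (A := ⟨0, 1, 2⟩) (B := ⟨1, 2, 2⟩) (by unfold covers; decide)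
      (posBox_of_check (c := ⟨344, ⟨0, 3, 7, 3⟩⟩) (by decide +kernel))
      (posBox_of_check (c := ⟨344, ⟨0, 3, 7, 3⟩⟩) (by decide +kernel)))

def c1_318 : PosBox ⟨⟨0, 1, 1⟩, ⟨375, 378, 625⟩, ⟨2, 3, 25⟩, ⟨0, 1, 1⟩⟩
    (g1.s₁.eta - cEG p1.kl p1.v (g1.s₁.t) (g1.u₀) g1.p) :=
  posBox_of_check (c := ⟨309, ⟨0, 8, 18, 7⟩⟩) (by decide +kernel)

def c1_319 : PosBox ⟨⟨0, 1, 1⟩, ⟨375, 378, 625⟩, ⟨2, 3, 25⟩, ⟨0, 1, 1⟩⟩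
    (g1.s₁.eta' + cEG p1.kl p1.v (g1.s₁.t) (g1.u₀) g1.p - cSag p1.kl p1.v (g1.s₁.t) (g1.u₀) p1.lo g1_0.p) :=
  posBox_of_check (c := ⟨323, ⟨0, 8, 18, 8⟩⟩) (by decide +kernel)

def c1_320 : PosBox ⟨⟨0, 1, 1⟩, ⟨375, 378, 625⟩, ⟨2, 3, 25⟩, ⟨0, 1, 1⟩⟩
    (g1.s₁.eta' + cEG p1.kl p1.v (g1.s₁.t) (g1.u₀) g1.p - cSag p1.kl p1.v (g1.s₁.t) (g1.u₀) p1.lo g1_1.p) :=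
  posBox_of_check (c := ⟨328, ⟨0, 8, 18, 8⟩⟩) (by decide +kernel)

def c1_321 : PosBox ⟨⟨0, 1, 1⟩, ⟨375, 378, 625⟩, ⟨2, 3, 25⟩, ⟨0, 1, 1⟩⟩
    (g1.s₁.eta' + cEG p1.kl p1.v (g1.s₁.t) (g1.u₀) g1.p - cSag p1.kl p1.v (g1.s₁.t) (g1.u₀) p1.lo g1_2.p) :=
  posBox_of_check (c := ⟨329, ⟨0, 8, 18, 8⟩⟩) (by decide +kernel)

def c1_322 : PosBox ⟨⟨0, 1, 1⟩, ⟨375, 378, 625⟩, ⟨2, 3, 25⟩, ⟨0, 1, 1⟩⟩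
    (g1.s₁.eta' + cEG p1.kl p1.v (g1.s₁.t) (g1.u₀) g1.p - cSag p1.kl p1.v (g1.s₁.t) (g1.u₀) p1.lo g1_3.p) :=
  posBox_of_check (c := ⟨329, ⟨0, 8, 18, 8⟩⟩) (by decide +kernel)

def c1_326 : PosBox ⟨⟨0, 1, 1⟩, ⟨375, 378, 625⟩, ⟨2, 3, 25⟩, ⟨0, 1, 1⟩⟩
    (g1.s₁.eta - cEG p1.kl p1.v (g1.s₁.t) (g1.u₁) g1.p) :=
  posBox_cut₂ (A := ⟨4, 5, 50⟩) (B := ⟨5, 6, 50⟩) (by unfold covers; decide)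
    (posBox_of_check (c := ⟨369, ⟨0, 8, 18, 7⟩⟩) (by decide +kernel))
    (posBox_cut₃ (A := ⟨0, 1, 2⟩) (B := ⟨1, 2, 2⟩) (by unfold covers; decide)
      (posBox_of_check (c := ⟨429, ⟨0, 8, 18, 7⟩⟩) (by decide +kernel))
      (posBox_of_check (c := ⟨429, ⟨0, 8, 18, 7⟩⟩) (by decide +kernel)))

def c1_327 : PosBox ⟨⟨0, 1, 1⟩, ⟨375, 378, 625⟩, ⟨2, 3, 25⟩, ⟨0, 1, 1⟩⟩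
    (g1.s₁.eta' + cEG p1.kl p1.v (g1.s₁.t) (g1.u₁) g1.p - cSag p1.kl p1.v (g1.s₁.t) (g1.u₁) p1.lo g1_0.p) :=
  posBox_of_check (c := ⟨323, ⟨0, 8, 18, 8⟩⟩) (by decide +kernel)

def c1_328 : PosBox ⟨⟨0, 1, 1⟩, ⟨375, 378, 625⟩, ⟨2, 3, 25⟩, ⟨0, 1, 1⟩⟩
    (g1.s₁.eta' + cEG p1.kl p1.v (g1.s₁.t) (g1.u₁) g1.p - cSag p1.kl p1.v (g1.s₁.t) (g1.u₁) p1.lo g1_1.p) :=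
  posBox_of_check (c := ⟨328, ⟨0, 8, 18, 8⟩⟩) (by decide +kernel)

def c1_329 : PosBox ⟨⟨0, 1, 1⟩, ⟨375, 378, 625⟩, ⟨2, 3, 25⟩, ⟨0, 1, 1⟩⟩
    (g1.s₁.eta' + cEG p1.kl p1.v (g1.s₁.t) (g1.u₁) g1.p - cSag p1.kl p1.v (g1.s₁.t) (g1.u₁) p1.lo g1_2.p) :=
  posBox_of_check (c := ⟨329, ⟨0, 8, 18, 8⟩⟩) (by decide +kernel)

def c1_330 : PosBox ⟨⟨0, 1, 1⟩, ⟨375, 378, 625⟩, ⟨2, 3, 25⟩, ⟨0, 1, 1⟩⟩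
    (g1.s₁.eta' + cEG p1.kl p1.v (g1.s₁.t) (g1.u₁) g1.p - cSag p1.kl p1.v (g1.s₁.t) (g1.u₁) p1.lo g1_3.p) :=
  posBox_of_check (c := ⟨329, ⟨0, 8, 18, 8⟩⟩) (by decide +kernel)

def c1_331 : PosBox ⟨⟨0, 1, 1⟩, ⟨375, 378, 625⟩, ⟨2, 3, 25⟩, ⟨0, 1, 1⟩⟩
    (cC (4) 1 * g1.beta * g1.s₁.phi - cC (625) 1 * (cC (1) 1 + Ex.x₂ * p1.v) * g1.s₁.eta * g1.s₁.eta) :=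
  posBox_of_check (c := ⟨171, ⟨0, 0, 7, 7⟩⟩) (by decide +kernel)

def c1_332 : PosBox ⟨⟨0, 1, 1⟩, ⟨375, 378, 625⟩, ⟨2, 3, 25⟩, ⟨0, 1, 1⟩⟩
    (cC (4) 1 * g1.beta * g1.s₁.phi - cC (625) 1 * (cC (1) 1 + Ex.x₂ * p1.v) * g1.s₁.eta' * g1.s₁.eta') :=
  posBox_of_check (c := ⟨171, ⟨0, 0, 7, 7⟩⟩) (by decide +kernel)

def c1_333 : PosBox ⟨⟨0, 1, 1⟩, ⟨375, 378, 625⟩, ⟨2, 3, 25⟩, ⟨0, 1, 1⟩⟩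
    (g1.beta) :=
  posBox_of_check (c := ⟨71, ⟨0, 0, 3, 3⟩⟩) (by decide +kernel)

def c1_334 : PosBox ⟨⟨0, 1, 1⟩, ⟨375, 378, 625⟩, ⟨2, 3, 25⟩, ⟨0, 1, 1⟩⟩
    (eTGG cA Ex.x₂ p1.v g1.p - g1.beta) :=
  posBox_of_check (c := ⟨238, ⟨0, 7, 17, 6⟩⟩) (by decide +kernel)

def c1_335 : PosBox ⟨⟨0, 1, 1⟩, ⟨375, 378, 625⟩, ⟨2, 3, 25⟩, ⟨0, 1, 1⟩⟩
    (g1.p + cC (1) 4) :=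
  posBox_of_check (c := ⟨51, ⟨0, 1, 3, 1⟩⟩) (by decide +kernel)

def c1_336 : PosBox ⟨⟨0, 1, 1⟩, ⟨375, 378, 625⟩, ⟨2, 3, 25⟩, ⟨0, 1, 1⟩⟩
    ((p1.wh g1_0.s₀.t) - (p1.wl g1_0.s₀.t)) :=
  posBox_of_check (c := ⟨164, ⟨0, 3, 5, 1⟩⟩) (by decide +kernel)

def c1_340 : PosBox ⟨⟨0, 1, 1⟩, ⟨375, 378, 625⟩, ⟨2, 3, 25⟩, ⟨0, 1, 1⟩⟩
    (g1_0.s₀.eta - cEG p1.kl p1.v (g1_0.s₀.t) (g1_0.u₀) g1_0.p) :=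
  posBox_of_check (c := ⟨260, ⟨0, 8, 16, 6⟩⟩) (by decide +kernel)

def c1_341 : PosBox ⟨⟨0, 1, 1⟩, ⟨375, 378, 625⟩, ⟨2, 3, 25⟩, ⟨0, 1, 1⟩⟩
    (g1_0.s₀.eta' + cEG p1.kl p1.v (g1_0.s₀.t) (g1_0.u₀) g1_0.p - cSag p1.kl p1.v (g1_0.s₀.t) (g1_0.u₀) p1.lo g1_0.p) :=
  posBox_of_check (c := ⟨264, ⟨0, 8, 16, 6⟩⟩) (by decide +kernel)

def c1_345 : PosBox ⟨⟨0, 1, 1⟩, ⟨375, 378, 625⟩, ⟨2, 3, 25⟩, ⟨0, 1, 1⟩⟩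
    (g1_0.s₀.eta - cEG p1.kl p1.v (g1_0.s₀.t) (g1_0.u₁) g1_0.p) :=
  posBox_of_check (c := ⟨262, ⟨0, 8, 16, 6⟩⟩) (by decide +kernel)

def c1_346 : PosBox ⟨⟨0, 1, 1⟩, ⟨375, 378, 625⟩, ⟨2, 3, 25⟩, ⟨0, 1, 1⟩⟩
    (g1_0.s₀.eta' + cEG p1.kl p1.v (g1_0.s₀.t) (g1_0.u₁) g1_0.p - cSag p1.kl p1.v (g1_0.s₀.t) (g1_0.u₁) p1.lo g1_0.p) :=
  posBox_of_check (c := ⟨266, ⟨0, 8, 16, 6⟩⟩) (by decide +kernel)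

def c1_347 : PosBox ⟨⟨0, 1, 1⟩, ⟨375, 378, 625⟩, ⟨2, 3, 25⟩, ⟨0, 1, 1⟩⟩
    (cC (4) 1 * g1_0.beta * g1_0.s₀.phi - cC (625) 1 * (cC (1) 1 + Ex.x₂ * p1.v) * g1_0.s₀.eta * g1_0.s₀.eta) :=
  posBox_of_check (c := ⟨152, ⟨0, 0, 6, 6⟩⟩) (by decide +kernel)

def c1_348 : PosBox ⟨⟨0, 1, 1⟩, ⟨375, 378, 625⟩, ⟨2, 3, 25⟩, ⟨0, 1, 1⟩⟩
    (cC (4) 1 * g1_0.beta * g1_0.s₀.phi - cC (625) 1 * (cC (1) 1 + Ex.x₂ * p1.v) * g1_0.s₀.eta' * g1_0.s₀.eta') :=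
  posBox_of_check (c := ⟨152, ⟨0, 0, 6, 6⟩⟩) (by decide +kernel)

def c1_349 : PosBox ⟨⟨0, 1, 1⟩, ⟨375, 378, 625⟩, ⟨2, 3, 25⟩, ⟨0, 1, 1⟩⟩
    ((p1.wh g1_0.s₁.t) - (p1.wl g1_0.s₁.t)) :=
  posBox_cut₂ (A := ⟨4, 5, 50⟩) (B := ⟨5, 6, 50⟩) (by unfold covers; decide)
    (posBox_cut₃ (A := ⟨0, 1, 2⟩) (B := ⟨1, 2, 2⟩) (by unfold covers; decide)
      (posBox_of_check (c := ⟨344, ⟨0, 3, 7, 3⟩⟩) (by decide +kernel))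
      (posBox_of_check (c := ⟨344, ⟨0, 3, 7, 3⟩⟩) (by decide +kernel)))
    (posBox_cut₃ (A := ⟨0, 1, 2⟩) (B := ⟨1, 2, 2⟩) (by unfold covers; decide)
      (posBox_of_check (c := ⟨344, ⟨0, 3, 7, 3⟩⟩) (by decide +kernel))
      (posBox_of_check (c := ⟨344, ⟨0, 3, 7, 3⟩⟩) (by decide +kernel)))

def c1_353 : PosBox ⟨⟨0, 1, 1⟩, ⟨375, 378, 625⟩, ⟨2, 3, 25⟩, ⟨0, 1, 1⟩⟩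
    (g1_0.s₁.eta - cEG p1.kl p1.v (g1_0.s₁.t) (g1_0.u₀) g1_0.p) :=
  posBox_of_check (c := ⟨320, ⟨0, 8, 18, 8⟩⟩) (by decide +kernel)

def c1_354 : PosBox ⟨⟨0, 1, 1⟩, ⟨375, 378, 625⟩, ⟨2, 3, 25⟩, ⟨0, 1, 1⟩⟩
    (g1_0.s₁.eta' + cEG p1.kl p1.v (g1_0.s₁.t) (g1_0.u₀) g1_0.p - cSag p1.kl p1.v (g1_0.s₁.t) (g1_0.u₀) p1.lo g1_0.p) :=
  posBox_of_check (c := ⟨324, ⟨0, 8, 18, 8⟩⟩) (by decide +kernel)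

def c1_358 : PosBox ⟨⟨0, 1, 1⟩, ⟨375, 378, 625⟩, ⟨2, 3, 25⟩, ⟨0, 1, 1⟩⟩
    (g1_0.s₁.eta - cEG p1.kl p1.v (g1_0.s₁.t) (g1_0.u₁) g1_0.p) :=
  posBox_of_check (c := ⟨320, ⟨0, 8, 18, 8⟩⟩) (by decide +kernel)

def c1_359 : PosBox ⟨⟨0, 1, 1⟩, ⟨375, 378, 625⟩, ⟨2, 3, 25⟩, ⟨0, 1, 1⟩⟩
    (g1_0.s₁.eta' + cEG p1.kl p1.v (g1_0.s₁.t) (g1_0.u₁) g1_0.p - cSag p1.kl p1.v (g1_0.s₁.t) (g1_0.u₁) p1.lo g1_0.p) :=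
  posBox_of_check (c := ⟨324, ⟨0, 8, 18, 8⟩⟩) (by decide +kernel)

def c1_360 : PosBox ⟨⟨0, 1, 1⟩, ⟨375, 378, 625⟩, ⟨2, 3, 25⟩, ⟨0, 1, 1⟩⟩
    (cC (4) 1 * g1_0.beta * g1_0.s₁.phi - cC (625) 1 * (cC (1) 1 + Ex.x₂ * p1.v) * g1_0.s₁.eta * g1_0.s₁.eta) :=
  posBox_of_check (c := ⟨151, ⟨0, 0, 6, 6⟩⟩) (by decide +kernel)

def c1_361 : PosBox ⟨⟨0, 1, 1⟩, ⟨375, 378, 625⟩, ⟨2, 3, 25⟩, ⟨0, 1, 1⟩⟩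
    (cC (4) 1 * g1_0.beta * g1_0.s₁.phi - cC (625) 1 * (cC (1) 1 + Ex.x₂ * p1.v) * g1_0.s₁.eta' * g1_0.s₁.eta') :=
  posBox_of_check (c := ⟨151, ⟨0, 0, 6, 6⟩⟩) (by decide +kernel)

def c1_362 : PosBox ⟨⟨0, 1, 1⟩, ⟨375, 378, 625⟩, ⟨2, 3, 25⟩, ⟨0, 1, 1⟩⟩
    (g1_0.beta) :=
  posBox_of_check (c := ⟨89, ⟨0, 0, 4, 4⟩⟩) (by decide +kernel)

def c1_363 : PosBox ⟨⟨0, 1, 1⟩, ⟨375, 378, 625⟩, ⟨2, 3, 25⟩, ⟨0, 1, 1⟩⟩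
    (eTGG cA Ex.x₂ p1.v g1_0.p - g1_0.beta) :=
  posBox_of_check (c := ⟨253, ⟨0, 7, 17, 7⟩⟩) (by decide +kernel)

def c1_364 : PosBox ⟨⟨0, 1, 1⟩, ⟨375, 378, 625⟩, ⟨2, 3, 25⟩, ⟨0, 1, 1⟩⟩
    (g1_0.p + cC (1) 4) :=
  posBox_of_check (c := ⟨119, ⟨0, 1, 3, 2⟩⟩) (by decide +kernel)

def c1_365 : PosBox ⟨⟨0, 1, 1⟩, ⟨375, 378, 625⟩, ⟨2, 3, 25⟩, ⟨0, 1, 1⟩⟩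
    ((p1.wh g1_1.s₀.t) - (p1.wl g1_1.s₀.t)) :=
  posBox_of_check (c := ⟨178, ⟨0, 3, 7, 1⟩⟩) (by decide +kernel)

def c1_369 : PosBox ⟨⟨0, 1, 1⟩, ⟨375, 378, 625⟩, ⟨2, 3, 25⟩, ⟨0, 1, 1⟩⟩
    (g1_1.s₀.eta - cEG p1.kl p1.v (g1_1.s₀.t) (g1_1.u₀) g1_1.p) :=
  posBox_of_check (c := ⟨279, ⟨0, 8, 18, 6⟩⟩) (by decide +kernel)

def c1_370 : PosBox ⟨⟨0, 1, 1⟩, ⟨375, 378, 625⟩, ⟨2, 3, 25⟩, ⟨0, 1, 1⟩⟩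
    (g1_1.s₀.eta' + cEG p1.kl p1.v (g1_1.s₀.t) (g1_1.u₀) g1_1.p - cSag p1.kl p1.v (g1_1.s₀.t) (g1_1.u₀) p1.lo g1_1.p) :=
  posBox_of_check (c := ⟨282, ⟨0, 8, 18, 6⟩⟩) (by decide +kernel)

def c1_374 : PosBox ⟨⟨0, 1, 1⟩, ⟨375, 378, 625⟩, ⟨2, 3, 25⟩, ⟨0, 1, 1⟩⟩
    (g1_1.s₀.eta - cEG p1.kl p1.v (g1_1.s₀.t) (g1_1.u₁) g1_1.p) :=
  posBox_of_check (c := ⟨279, ⟨0, 8, 18, 6⟩⟩) (by decide +kernel)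

def c1_375 : PosBox ⟨⟨0, 1, 1⟩, ⟨375, 378, 625⟩, ⟨2, 3, 25⟩, ⟨0, 1, 1⟩⟩
    (g1_1.s₀.eta' + cEG p1.kl p1.v (g1_1.s₀.t) (g1_1.u₁) g1_1.p - cSag p1.kl p1.v (g1_1.s₀.t) (g1_1.u₁) p1.lo g1_1.p) :=
  posBox_of_check (c := ⟨282, ⟨0, 8, 18, 6⟩⟩) (by decide +kernel)

def c1_376 : PosBox ⟨⟨0, 1, 1⟩, ⟨375, 378, 625⟩, ⟨2, 3, 25⟩, ⟨0, 1, 1⟩⟩
    (cC (4) 1 * g1_1.beta * g1_1.s₀.phi - cC (625) 1 * (cC (1) 1 + Ex.x₂ * p1.v) * g1_1.s₀.eta * g1_1.s₀.eta) :=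
  posBox_of_check (c := ⟨152, ⟨0, 0, 6, 6⟩⟩) (by decide +kernel)

def c1_377 : PosBox ⟨⟨0, 1, 1⟩, ⟨375, 378, 625⟩, ⟨2, 3, 25⟩, ⟨0, 1, 1⟩⟩
    (cC (4) 1 * g1_1.beta * g1_1.s₀.phi - cC (625) 1 * (cC (1) 1 + Ex.x₂ * p1.v) * g1_1.s₀.eta' * g1_1.s₀.eta') :=
  posBox_of_check (c := ⟨152, ⟨0, 0, 6, 6⟩⟩) (by decide +kernel)

def c1_378 : PosBox ⟨⟨0, 1, 1⟩, ⟨375, 378, 625⟩, ⟨2, 3, 25⟩, ⟨0, 1, 1⟩⟩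
    ((p1.wh g1_1.s₁.t) - (p1.wl g1_1.s₁.t)) :=
  posBox_of_check (c := ⟨181, ⟨0, 3, 5, 1⟩⟩) (by decide +kernel)

def c1_382 : PosBox ⟨⟨0, 1, 1⟩, ⟨375, 378, 625⟩, ⟨2, 3, 25⟩, ⟨0, 1, 1⟩⟩
    (g1_1.s₁.eta - cEG p1.kl p1.v (g1_1.s₁.t) (g1_1.u₀) g1_1.p) :=
  posBox_of_check (c := ⟨282, ⟨0, 8, 16, 6⟩⟩) (by decide +kernel)

def c1_383 : PosBox ⟨⟨0, 1, 1⟩, ⟨375, 378, 625⟩, ⟨2, 3, 25⟩, ⟨0, 1, 1⟩⟩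
    (g1_1.s₁.eta' + cEG p1.kl p1.v (g1_1.s₁.t) (g1_1.u₀) g1_1.p - cSag p1.kl p1.v (g1_1.s₁.t) (g1_1.u₀) p1.lo g1_1.p) :=
  posBox_of_check (c := ⟨285, ⟨0, 8, 16, 6⟩⟩) (by decide +kernel)

def c1_387 : PosBox ⟨⟨0, 1, 1⟩, ⟨375, 378, 625⟩, ⟨2, 3, 25⟩, ⟨0, 1, 1⟩⟩
    (g1_1.s₁.eta - cEG p1.kl p1.v (g1_1.s₁.t) (g1_1.u₁) g1_1.p) :=
  posBox_of_check (c := ⟨282, ⟨0, 8, 16, 6⟩⟩) (by decide +kernel)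

def c1_388 : PosBox ⟨⟨0, 1, 1⟩, ⟨375, 378, 625⟩, ⟨2, 3, 25⟩, ⟨0, 1, 1⟩⟩
    (g1_1.s₁.eta' + cEG p1.kl p1.v (g1_1.s₁.t) (g1_1.u₁) g1_1.p - cSag p1.kl p1.v (g1_1.s₁.t) (g1_1.u₁) p1.lo g1_1.p) :=
  posBox_of_check (c := ⟨285, ⟨0, 8, 16, 6⟩⟩) (by decide +kernel)

def c1_389 : PosBox ⟨⟨0, 1, 1⟩, ⟨375, 378, 625⟩, ⟨2, 3, 25⟩, ⟨0, 1, 1⟩⟩
    (cC (4) 1 * g1_1.beta * g1_1.s₁.phi - cC (625) 1 * (cC (1) 1 + Ex.x₂ * p1.v) * g1_1.s₁.eta * g1_1.s₁.eta) :=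
  posBox_of_check (c := ⟨149, ⟨0, 0, 6, 6⟩⟩) (by decide +kernel)

def c1_390 : PosBox ⟨⟨0, 1, 1⟩, ⟨375, 378, 625⟩, ⟨2, 3, 25⟩, ⟨0, 1, 1⟩⟩
    (cC (4) 1 * g1_1.beta * g1_1.s₁.phi - cC (625) 1 * (cC (1) 1 + Ex.x₂ * p1.v) * g1_1.s₁.eta' * g1_1.s₁.eta') :=
  posBox_of_check (c := ⟨149, ⟨0, 0, 6, 6⟩⟩) (by decide +kernel)

def c1_391 : PosBox ⟨⟨0, 1, 1⟩, ⟨375, 378, 625⟩, ⟨2, 3, 25⟩, ⟨0, 1, 1⟩⟩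
    (g1_1.beta) :=
  posBox_of_check (c := ⟨88, ⟨0, 0, 4, 4⟩⟩) (by decide +kernel)

def c1_392 : PosBox ⟨⟨0, 1, 1⟩, ⟨375, 378, 625⟩, ⟨2, 3, 25⟩, ⟨0, 1, 1⟩⟩
    (eTGG cA Ex.x₂ p1.v g1_1.p - g1_1.beta) :=
  posBox_of_check (c := ⟨261, ⟨0, 7, 17, 7⟩⟩) (by decide +kernel)

def c1_393 : PosBox ⟨⟨0, 1, 1⟩, ⟨375, 378, 625⟩, ⟨2, 3, 25⟩, ⟨0, 1, 1⟩⟩
    (g1_1.p + cC (1) 4) :=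
  posBox_of_check (c := ⟨123, ⟨0, 1, 3, 2⟩⟩) (by decide +kernel)

def c1_394 : PosBox ⟨⟨0, 1, 1⟩, ⟨375, 378, 625⟩, ⟨2, 3, 25⟩, ⟨0, 1, 1⟩⟩
    ((p1.wh g1_2.s₀.t) - (p1.wl g1_2.s₀.t)) :=
  posBox_of_check (c := ⟨183, ⟨0, 3, 7, 1⟩⟩) (by decide +kernel)

def c1_398 : PosBox ⟨⟨0, 1, 1⟩, ⟨375, 378, 625⟩, ⟨2, 3, 25⟩, ⟨0, 1, 1⟩⟩
    (g1_2.s₀.eta - cEG p1.kl p1.v (g1_2.s₀.t) (g1_2.u₀) g1_2.p) :=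
  posBox_of_check (c := ⟨285, ⟨0, 8, 18, 6⟩⟩) (by decide +kernel)

def c1_399 : PosBox ⟨⟨0, 1, 1⟩, ⟨375, 378, 625⟩, ⟨2, 3, 25⟩, ⟨0, 1, 1⟩⟩
    (g1_2.s₀.eta' + cEG p1.kl p1.v (g1_2.s₀.t) (g1_2.u₀) g1_2.p - cSag p1.kl p1.v (g1_2.s₀.t) (g1_2.u₀) p1.lo g1_2.p) :=
  posBox_of_check (c := ⟨288, ⟨0, 8, 18, 6⟩⟩) (by decide +kernel)

def c1_403 : PosBox ⟨⟨0, 1, 1⟩, ⟨375, 378, 625⟩, ⟨2, 3, 25⟩, ⟨0, 1, 1⟩⟩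
    (g1_2.s₀.eta - cEG p1.kl p1.v (g1_2.s₀.t) (g1_2.u₁) g1_2.p) :=
  posBox_of_check (c := ⟨285, ⟨0, 8, 18, 6⟩⟩) (by decide +kernel)

def c1_404 : PosBox ⟨⟨0, 1, 1⟩, ⟨375, 378, 625⟩, ⟨2, 3, 25⟩, ⟨0, 1, 1⟩⟩
    (g1_2.s₀.eta' + cEG p1.kl p1.v (g1_2.s₀.t) (g1_2.u₁) g1_2.p - cSag p1.kl p1.v (g1_2.s₀.t) (g1_2.u₁) p1.lo g1_2.p) :=
  posBox_of_check (c := ⟨288, ⟨0, 8, 18, 6⟩⟩) (by decide +kernel)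

def c1_405 : PosBox ⟨⟨0, 1, 1⟩, ⟨375, 378, 625⟩, ⟨2, 3, 25⟩, ⟨0, 1, 1⟩⟩
    (cC (4) 1 * g1_2.beta * g1_2.s₀.phi - cC (625) 1 * (cC (1) 1 + Ex.x₂ * p1.v) * g1_2.s₀.eta * g1_2.s₀.eta) :=
  posBox_of_check (c := ⟨175, ⟨0, 0, 8, 7⟩⟩) (by decide +kernel)

def c1_406 : PosBox ⟨⟨0, 1, 1⟩, ⟨375, 378, 625⟩, ⟨2, 3, 25⟩, ⟨0, 1, 1⟩⟩
    (cC (4) 1 * g1_2.beta * g1_2.s₀.phi - cC (625) 1 * (cC (1) 1 + Ex.x₂ * p1.v) * g1_2.s₀.eta' * g1_2.s₀.eta') :=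
  posBox_of_check (c := ⟨153, ⟨0, 0, 6, 6⟩⟩) (by decide +kernel)

end Vale.Agent.P100.Calib.Closed.End
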