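import Vale.Agent.P100.Calib.SlabEndData

/-!
# Checks of the end strip, piece `1`
-/

set_option linter.defProp false

namespace Vale.Agent.P100.Calib.Closed.End

open BoxPos
open Large (PosBox posBox_of_check)

local instance endChk1B1Add : Add Ex := ⟨Ex.add⟩
local instance endChk1B1Mul : Mul Ex := ⟨Ex.mul⟩
local instance endChk1B1Sub : Sub Ex := ⟨Ex.sub⟩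

def c1_407 : PosBox ⟨⟨0, 1, 1⟩, ⟨375, 378, 625⟩, ⟨2, 3, 25⟩, ⟨0, 1, 1⟩⟩
    ((p1.wh g1_2.s₁.t) - (p1.wl g1_2.s₁.t)) :=
  posBox_of_check (c := ⟨195, ⟨0, 3, 7, 1⟩⟩) (by decide +kernel)

def c1_411 : PosBox ⟨⟨0, 1, 1⟩, ⟨375, 378, 625⟩, ⟨2, 3, 25⟩, ⟨0, 1, 1⟩⟩
    (g1_2.s₁.eta - cEG p1.kl p1.v (g1_2.s₁.t) (g1_2.u₀) g1_2.p) :=
  posBox_of_check (c := ⟨297, ⟨0, 8, 18, 6⟩⟩) (by decide +kernel)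

def c1_412 : PosBox ⟨⟨0, 1, 1⟩, ⟨375, 378, 625⟩, ⟨2, 3, 25⟩, ⟨0, 1, 1⟩⟩
    (g1_2.s₁.eta' + cEG p1.kl p1.v (g1_2.s₁.t) (g1_2.u₀) g1_2.p - cSag p1.kl p1.v (g1_2.s₁.t) (g1_2.u₀) p1.lo g1_2.p) :=
  posBox_of_check (c := ⟨300, ⟨0, 8, 18, 6⟩⟩) (by decide +kernel)

def c1_416 : PosBox ⟨⟨0, 1, 1⟩, ⟨375, 378, 625⟩, ⟨2, 3, 25⟩, ⟨0, 1, 1⟩⟩
    (g1_2.s₁.eta - cEG p1.kl p1.v (g1_2.s₁.t) (g1_2.u₁) g1_2.p) :=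
  posBox_of_check (c := ⟨297, ⟨0, 8, 18, 6⟩⟩) (by decide +kernel)

def c1_417 : PosBox ⟨⟨0, 1, 1⟩, ⟨375, 378, 625⟩, ⟨2, 3, 25⟩, ⟨0, 1, 1⟩⟩
    (g1_2.s₁.eta' + cEG p1.kl p1.v (g1_2.s₁.t) (g1_2.u₁) g1_2.p - cSag p1.kl p1.v (g1_2.s₁.t) (g1_2.u₁) p1.lo g1_2.p) :=
  posBox_of_check (c := ⟨300, ⟨0, 8, 18, 6⟩⟩) (by decide +kernel)

def c1_418 : PosBox ⟨⟨0, 1, 1⟩, ⟨375, 378, 625⟩, ⟨2, 3, 25⟩, ⟨0, 1, 1⟩⟩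
    (cC (4) 1 * g1_2.beta * g1_2.s₁.phi - cC (625) 1 * (cC (1) 1 + Ex.x₂ * p1.v) * g1_2.s₁.eta * g1_2.s₁.eta) :=
  posBox_cut₂ (A := ⟨4, 5, 50⟩) (B := ⟨5, 6, 50⟩) (by unfold covers; decide)
    (posBox_of_check (c := ⟨215, ⟨0, 0, 6, 6⟩⟩) (by decide +kernel))
    (posBox_cut₃ (A := ⟨0, 1, 2⟩) (B := ⟨1, 2, 2⟩) (by unfold covers; decide)
      (posBox_of_check (c := ⟨275, ⟨0, 0, 6, 6⟩⟩) (by decide +kernel))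
      (posBox_of_check (c := ⟨275, ⟨0, 0, 6, 6⟩⟩) (by decide +kernel)))

def c1_419 : PosBox ⟨⟨0, 1, 1⟩, ⟨375, 378, 625⟩, ⟨2, 3, 25⟩, ⟨0, 1, 1⟩⟩
    (cC (4) 1 * g1_2.beta * g1_2.s₁.phi - cC (625) 1 * (cC (1) 1 + Ex.x₂ * p1.v) * g1_2.s₁.eta' * g1_2.s₁.eta') :=
  posBox_of_check (c := ⟨155, ⟨0, 0, 6, 6⟩⟩) (by decide +kernel)

def c1_420 : PosBox ⟨⟨0, 1, 1⟩, ⟨375, 378, 625⟩, ⟨2, 3, 25⟩, ⟨0, 1, 1⟩⟩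
    (g1_2.beta) :=
  posBox_of_check (c := ⟨92, ⟨0, 0, 4, 4⟩⟩) (by decide +kernel)

def c1_421 : PosBox ⟨⟨0, 1, 1⟩, ⟨375, 378, 625⟩, ⟨2, 3, 25⟩, ⟨0, 1, 1⟩⟩
    (eTGG cA Ex.x₂ p1.v g1_2.p - g1_2.beta) :=
  posBox_of_check (c := ⟨262, ⟨0, 7, 17, 7⟩⟩) (by decide +kernel)

def c1_422 : PosBox ⟨⟨0, 1, 1⟩, ⟨375, 378, 625⟩, ⟨2, 3, 25⟩, ⟨0, 1, 1⟩⟩
    (g1_2.p + cC (1) 4) :=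
  posBox_of_check (c := ⟨124, ⟨0, 1, 3, 2⟩⟩) (by decide +kernel)

def c1_423 : PosBox ⟨⟨0, 1, 1⟩, ⟨375, 378, 625⟩, ⟨2, 3, 25⟩, ⟨0, 1, 1⟩⟩
    ((p1.wh g1_3.s₀.t) - (p1.wl g1_3.s₀.t)) :=
  posBox_of_check (c := ⟨161, ⟨0, 3, 5, 1⟩⟩) (by decide +kernel)

def c1_427 : PosBox ⟨⟨0, 1, 1⟩, ⟨375, 378, 625⟩, ⟨2, 3, 25⟩, ⟨0, 1, 1⟩⟩
    (g1_3.s₀.eta - cEG p1.kl p1.v (g1_3.s₀.t) (g1_3.u₀) g1_3.p) :=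
  posBox_of_check (c := ⟨264, ⟨0, 8, 16, 6⟩⟩) (by decide +kernel)

def c1_428 : PosBox ⟨⟨0, 1, 1⟩, ⟨375, 378, 625⟩, ⟨2, 3, 25⟩, ⟨0, 1, 1⟩⟩
    (g1_3.s₀.eta' + cEG p1.kl p1.v (g1_3.s₀.t) (g1_3.u₀) g1_3.p - cSag p1.kl p1.v (g1_3.s₀.t) (g1_3.u₀) p1.lo g1_3.p) :=
  posBox_of_check (c := ⟨267, ⟨0, 8, 16, 6⟩⟩) (by decide +kernel)

def c1_432 : PosBox ⟨⟨0, 1, 1⟩, ⟨375, 378, 625⟩, ⟨2, 3, 25⟩, ⟨0, 1, 1⟩⟩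
    (g1_3.s₀.eta - cEG p1.kl p1.v (g1_3.s₀.t) (g1_3.u₁) g1_3.p) :=
  posBox_of_check (c := ⟨265, ⟨0, 8, 16, 6⟩⟩) (by decide +kernel)

def c1_433 : PosBox ⟨⟨0, 1, 1⟩, ⟨375, 378, 625⟩, ⟨2, 3, 25⟩, ⟨0, 1, 1⟩⟩
    (g1_3.s₀.eta' + cEG p1.kl p1.v (g1_3.s₀.t) (g1_3.u₁) g1_3.p - cSag p1.kl p1.v (g1_3.s₀.t) (g1_3.u₁) p1.lo g1_3.p) :=
  posBox_of_check (c := ⟨268, ⟨0, 8, 16, 6⟩⟩) (by decide +kernel)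

def c1_434 : PosBox ⟨⟨0, 1, 1⟩, ⟨375, 378, 625⟩, ⟨2, 3, 25⟩, ⟨0, 1, 1⟩⟩
    (cC (4) 1 * g1_3.beta * g1_3.s₀.phi - cC (625) 1 * (cC (1) 1 + Ex.x₂ * p1.v) * g1_3.s₀.eta * g1_3.s₀.eta) :=
  posBox_of_check (c := ⟨152, ⟨0, 0, 6, 6⟩⟩) (by decide +kernel)

def c1_435 : PosBox ⟨⟨0, 1, 1⟩, ⟨375, 378, 625⟩, ⟨2, 3, 25⟩, ⟨0, 1, 1⟩⟩
    (cC (4) 1 * g1_3.beta * g1_3.s₀.phi - cC (625) 1 * (cC (1) 1 + Ex.x₂ * p1.v) * g1_3.s₀.eta' * g1_3.s₀.eta') :=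
  posBox_of_check (c := ⟨152, ⟨0, 0, 6, 6⟩⟩) (by decide +kernel)

def c1_436 : PosBox ⟨⟨0, 1, 1⟩, ⟨375, 378, 625⟩, ⟨2, 3, 25⟩, ⟨0, 1, 1⟩⟩
    ((p1.wh g1_3.s₁.t) - (p1.wl g1_3.s₁.t)) :=
  posBox_of_check (c := ⟨199, ⟨0, 3, 7, 1⟩⟩) (by decide +kernel)

def c1_440 : PosBox ⟨⟨0, 1, 1⟩, ⟨375, 378, 625⟩, ⟨2, 3, 25⟩, ⟨0, 1, 1⟩⟩
    (g1_3.s₁.eta - cEG p1.kl p1.v (g1_3.s₁.t) (g1_3.u₀) g1_3.p) :=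
  posBox_of_check (c := ⟨301, ⟨0, 8, 18, 6⟩⟩) (by decide +kernel)

def c1_441 : PosBox ⟨⟨0, 1, 1⟩, ⟨375, 378, 625⟩, ⟨2, 3, 25⟩, ⟨0, 1, 1⟩⟩
    (g1_3.s₁.eta' + cEG p1.kl p1.v (g1_3.s₁.t) (g1_3.u₀) g1_3.p - cSag p1.kl p1.v (g1_3.s₁.t) (g1_3.u₀) p1.lo g1_3.p) :=
  posBox_of_check (c := ⟨304, ⟨0, 8, 18, 6⟩⟩) (by decide +kernel)

def c1_445 : PosBox ⟨⟨0, 1, 1⟩, ⟨375, 378, 625⟩, ⟨2, 3, 25⟩, ⟨0, 1, 1⟩⟩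
    (g1_3.s₁.eta - cEG p1.kl p1.v (g1_3.s₁.t) (g1_3.u₁) g1_3.p) :=
  posBox_of_check (c := ⟨301, ⟨0, 8, 18, 6⟩⟩) (by decide +kernel)

def c1_446 : PosBox ⟨⟨0, 1, 1⟩, ⟨375, 378, 625⟩, ⟨2, 3, 25⟩, ⟨0, 1, 1⟩⟩
    (g1_3.s₁.eta' + cEG p1.kl p1.v (g1_3.s₁.t) (g1_3.u₁) g1_3.p - cSag p1.kl p1.v (g1_3.s₁.t) (g1_3.u₁) p1.lo g1_3.p) :=
  posBox_of_check (c := ⟨304, ⟨0, 8, 18, 6⟩⟩) (by decide +kernel)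

def c1_447 : PosBox ⟨⟨0, 1, 1⟩, ⟨375, 378, 625⟩, ⟨2, 3, 25⟩, ⟨0, 1, 1⟩⟩
    (cC (4) 1 * g1_3.beta * g1_3.s₁.phi - cC (625) 1 * (cC (1) 1 + Ex.x₂ * p1.v) * g1_3.s₁.eta * g1_3.s₁.eta) :=
  posBox_of_check (c := ⟨152, ⟨0, 0, 6, 6⟩⟩) (by decide +kernel)

def c1_448 : PosBox ⟨⟨0, 1, 1⟩, ⟨375, 378, 625⟩, ⟨2, 3, 25⟩, ⟨0, 1, 1⟩⟩
    (cC (4) 1 * g1_3.beta * g1_3.s₁.phi - cC (625) 1 * (cC (1) 1 + Ex.x₂ * p1.v) * g1_3.s₁.eta' * g1_3.s₁.eta') :=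
  posBox_of_check (c := ⟨152, ⟨0, 0, 6, 6⟩⟩) (by decide +kernel)

def c1_449 : PosBox ⟨⟨0, 1, 1⟩, ⟨375, 378, 625⟩, ⟨2, 3, 25⟩, ⟨0, 1, 1⟩⟩
    (g1_3.beta) :=
  posBox_of_check (c := ⟨88, ⟨0, 0, 4, 4⟩⟩) (by decide +kernel)

def c1_450 : PosBox ⟨⟨0, 1, 1⟩, ⟨375, 378, 625⟩, ⟨2, 3, 25⟩, ⟨0, 1, 1⟩⟩
    (eTGG cA Ex.x₂ p1.v g1_3.p - g1_3.beta) :=
  posBox_of_check (c := ⟨262, ⟨0, 7, 17, 7⟩⟩) (by decide +kernel)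

def c1_451 : PosBox ⟨⟨0, 1, 1⟩, ⟨375, 378, 625⟩, ⟨2, 3, 25⟩, ⟨0, 1, 1⟩⟩
    (g1_3.p + cC (1) 4) :=
  posBox_of_check (c := ⟨124, ⟨0, 1, 3, 2⟩⟩) (by decide +kernel)

def c1_452 : PosBox ⟨⟨0, 1, 1⟩, ⟨375, 378, 625⟩, ⟨2, 3, 25⟩, ⟨0, 1, 1⟩⟩
    (p1.kl) :=
  posBox_of_check (c := ⟨29, ⟨0, 1, 0, 0⟩⟩) (by decide +kernel)

def c1_453 : PosBox ⟨⟨0, 1, 1⟩, ⟨375, 378, 625⟩, ⟨2, 3, 25⟩, ⟨0, 1, 1⟩⟩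
    (cEE eTA p1.v) :=
  posBox_of_check (c := ⟨236, ⟨0, 7, 17, 6⟩⟩) (by decide +kernel)

def c1_454 : PosBox ⟨⟨0, 1, 1⟩, ⟨375, 378, 625⟩, ⟨2, 3, 25⟩, ⟨0, 1, 1⟩⟩
    (cEE eTMG p1.v) :=
  posBox_of_check (c := ⟨223, ⟨0, 6, 16, 6⟩⟩) (by decide +kernel)

def c1_455 : PosBox ⟨⟨0, 1, 1⟩, ⟨375, 378, 625⟩, ⟨2, 3, 25⟩, ⟨0, 1, 1⟩⟩
    (cC (-1) 1 * eTGG2 cA Ex.x₂ p1.v) :=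
  posBox_of_check (c := ⟨139, ⟨0, 5, 11, 3⟩⟩) (by decide +kernel)

def c1_456 : PosBox ⟨⟨0, 1, 1⟩, ⟨375, 378, 625⟩, ⟨2, 3, 25⟩, ⟨0, 1, 1⟩⟩
    (eTMGw cA Ex.x₂ p1.v) :=
  posBox_of_check (c := ⟨141, ⟨0, 5, 10, 3⟩⟩) (by decide +kernel)

def c1_457 : PosBox ⟨⟨0, 1, 1⟩, ⟨375, 378, 625⟩, ⟨2, 3, 25⟩, ⟨0, 1, 1⟩⟩
    (cM p1.v (g1.s₀.t) (g1.u₀)) :=
  posBox_of_check (c := ⟨93, ⟨0, 0, 3, 1⟩⟩) (by decide +kernel)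

def c1_458 : PosBox ⟨⟨0, 1, 1⟩, ⟨375, 378, 625⟩, ⟨2, 3, 25⟩, ⟨0, 1, 1⟩⟩
    (cXp eTA p1.v * (p1.kl * cM p1.v (g1.s₀.t) (g1.u₀)) - eTA2 cA Ex.x₂ p1.v) :=
  posBox_of_check (c := ⟨353, ⟨0, 8, 20, 7⟩⟩) (by decide +kernel)

def c1_459 : PosBox ⟨⟨0, 1, 1⟩, ⟨375, 378, 625⟩, ⟨2, 3, 25⟩, ⟨0, 1, 1⟩⟩
    (cXp eTMG p1.v * (p1.kl * cM p1.v (g1.s₀.t) (g1.u₀)) - eTMG2 cA Ex.x₂ p1.v) :=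
  posBox_of_check (c := ⟨341, ⟨0, 7, 19, 7⟩⟩) (by decide +kernel)

def c1_460 : PosBox ⟨⟨0, 1, 1⟩, ⟨375, 378, 625⟩, ⟨2, 3, 25⟩, ⟨0, 1, 1⟩⟩
    (eTEG2 cA Ex.x₂ p1.v - cXe p1.v * (p1.kl * cM p1.v (g1.s₀.t) (g1.u₀))) :=
  posBox_of_check (c := ⟨302, ⟨0, 8, 16, 5⟩⟩) (by decide +kernel)

def c1_461 : PosBox ⟨⟨0, 1, 1⟩, ⟨375, 378, 625⟩, ⟨2, 3, 25⟩, ⟨0, 1, 1⟩⟩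
    (cM p1.v (g1.s₀.t) (g1.u₁)) :=
  posBox_of_check (c := ⟨95, ⟨0, 0, 3, 1⟩⟩) (by decide +kernel)

def c1_462 : PosBox ⟨⟨0, 1, 1⟩, ⟨375, 378, 625⟩, ⟨2, 3, 25⟩, ⟨0, 1, 1⟩⟩
    (cXp eTA p1.v * (p1.kl * cM p1.v (g1.s₀.t) (g1.u₁)) - eTA2 cA Ex.x₂ p1.v) :=
  posBox_of_check (c := ⟨355, ⟨0, 8, 20, 7⟩⟩) (by decide +kernel)

def c1_463 : PosBox ⟨⟨0, 1, 1⟩, ⟨375, 378, 625⟩, ⟨2, 3, 25⟩, ⟨0, 1, 1⟩⟩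
    (cXp eTMG p1.v * (p1.kl * cM p1.v (g1.s₀.t) (g1.u₁)) - eTMG2 cA Ex.x₂ p1.v) :=
  posBox_of_check (c := ⟨343, ⟨0, 7, 19, 7⟩⟩) (by decide +kernel)

def c1_464 : PosBox ⟨⟨0, 1, 1⟩, ⟨375, 378, 625⟩, ⟨2, 3, 25⟩, ⟨0, 1, 1⟩⟩
    (eTEG2 cA Ex.x₂ p1.v - cXe p1.v * (p1.kl * cM p1.v (g1.s₀.t) (g1.u₁))) :=
  posBox_of_check (c := ⟨304, ⟨0, 8, 16, 5⟩⟩) (by decide +kernel)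

def c1_465 : PosBox ⟨⟨0, 1, 1⟩, ⟨375, 378, 625⟩, ⟨2, 3, 25⟩, ⟨0, 1, 1⟩⟩
    (cM p1.v (g1.s₁.t) (g1.u₀)) :=
  posBox_of_check (c := ⟨156, ⟨0, 0, 5, 3⟩⟩) (by decide +kernel)

def c1_466 : PosBox ⟨⟨0, 1, 1⟩, ⟨375, 378, 625⟩, ⟨2, 3, 25⟩, ⟨0, 1, 1⟩⟩
    (cXp eTA p1.v * (p1.kl * cM p1.v (g1.s₁.t) (g1.u₀)) - eTA2 cA Ex.x₂ p1.v) :=
  posBox_of_check (c := ⟨417, ⟨0, 8, 22, 9⟩⟩) (by decide +kernel)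

def c1_467 : PosBox ⟨⟨0, 1, 1⟩, ⟨375, 378, 625⟩, ⟨2, 3, 25⟩, ⟨0, 1, 1⟩⟩
    (cXp eTMG p1.v * (p1.kl * cM p1.v (g1.s₁.t) (g1.u₀)) - eTMG2 cA Ex.x₂ p1.v) :=
  posBox_of_check (c := ⟨404, ⟨0, 7, 21, 9⟩⟩) (by decide +kernel)

def c1_468 : PosBox ⟨⟨0, 1, 1⟩, ⟨375, 378, 625⟩, ⟨2, 3, 25⟩, ⟨0, 1, 1⟩⟩
    (eTEG2 cA Ex.x₂ p1.v - cXe p1.v * (p1.kl * cM p1.v (g1.s₁.t) (g1.u₀))) :=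
  posBox_of_check (c := ⟨365, ⟨0, 8, 18, 7⟩⟩) (by decide +kernel)

def c1_469 : PosBox ⟨⟨0, 1, 1⟩, ⟨375, 378, 625⟩, ⟨2, 3, 25⟩, ⟨0, 1, 1⟩⟩
    (cM p1.v (g1.s₁.t) (g1.u₁)) :=
  posBox_of_check (c := ⟨156, ⟨0, 0, 5, 3⟩⟩) (by decide +kernel)

def c1_470 : PosBox ⟨⟨0, 1, 1⟩, ⟨375, 378, 625⟩, ⟨2, 3, 25⟩, ⟨0, 1, 1⟩⟩
    (cXp eTA p1.v * (p1.kl * cM p1.v (g1.s₁.t) (g1.u₁)) - eTA2 cA Ex.x₂ p1.v) :=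
  posBox_of_check (c := ⟨417, ⟨0, 8, 22, 9⟩⟩) (by decide +kernel)

def c1_471 : PosBox ⟨⟨0, 1, 1⟩, ⟨375, 378, 625⟩, ⟨2, 3, 25⟩, ⟨0, 1, 1⟩⟩
    (cXp eTMG p1.v * (p1.kl * cM p1.v (g1.s₁.t) (g1.u₁)) - eTMG2 cA Ex.x₂ p1.v) :=
  posBox_of_check (c := ⟨404, ⟨0, 7, 21, 9⟩⟩) (by decide +kernel)

def c1_472 : PosBox ⟨⟨0, 1, 1⟩, ⟨375, 378, 625⟩, ⟨2, 3, 25⟩, ⟨0, 1, 1⟩⟩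
    (eTEG2 cA Ex.x₂ p1.v - cXe p1.v * (p1.kl * cM p1.v (g1.s₁.t) (g1.u₁))) :=
  posBox_of_check (c := ⟨365, ⟨0, 8, 18, 7⟩⟩) (by decide +kernel)

def c1_473 : PosBox ⟨⟨0, 1, 1⟩, ⟨375, 378, 625⟩, ⟨2, 3, 25⟩, ⟨0, 1, 1⟩⟩
    (cM p1.v (p1.tT) (g1.u₀)) :=
  posBox_of_check (c := ⟨113, ⟨0, 0, 3, 1⟩⟩) (by decide +kernel)

def c1_474 : PosBox ⟨⟨0, 1, 1⟩, ⟨375, 378, 625⟩, ⟨2, 3, 25⟩, ⟨0, 1, 1⟩⟩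
    (cXp eTA p1.v * (p1.kl * cM p1.v (p1.tT) (g1.u₀)) - eTA2 cA Ex.x₂ p1.v) :=
  posBox_of_check (c := ⟨373, ⟨0, 8, 20, 7⟩⟩) (by decide +kernel)

def c1_475 : PosBox ⟨⟨0, 1, 1⟩, ⟨375, 378, 625⟩, ⟨2, 3, 25⟩, ⟨0, 1, 1⟩⟩
    (cXp eTMG p1.v * (p1.kl * cM p1.v (p1.tT) (g1.u₀)) - eTMG2 cA Ex.x₂ p1.v) :=
  posBox_of_check (c := ⟨360, ⟨0, 7, 19, 7⟩⟩) (by decide +kernel)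

def c1_476 : PosBox ⟨⟨0, 1, 1⟩, ⟨375, 378, 625⟩, ⟨2, 3, 25⟩, ⟨0, 1, 1⟩⟩
    (eTEG2 cA Ex.x₂ p1.v - cXe p1.v * (p1.kl * cM p1.v (p1.tT) (g1.u₀))) :=
  posBox_of_check (c := ⟨322, ⟨0, 8, 16, 5⟩⟩) (by decide +kernel)

def c1_477 : PosBox ⟨⟨0, 1, 1⟩, ⟨375, 378, 625⟩, ⟨2, 3, 25⟩, ⟨0, 1, 1⟩⟩
    (cM p1.v (p1.tT) (g1.u₁)) :=
  posBox_of_check (c := ⟨113, ⟨0, 0, 3, 1⟩⟩) (by decide +kernel)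

def c1_478 : PosBox ⟨⟨0, 1, 1⟩, ⟨375, 378, 625⟩, ⟨2, 3, 25⟩, ⟨0, 1, 1⟩⟩
    (cXp eTA p1.v * (p1.kl * cM p1.v (p1.tT) (g1.u₁)) - eTA2 cA Ex.x₂ p1.v) :=
  posBox_of_check (c := ⟨373, ⟨0, 8, 20, 7⟩⟩) (by decide +kernel)

def c1_479 : PosBox ⟨⟨0, 1, 1⟩, ⟨375, 378, 625⟩, ⟨2, 3, 25⟩, ⟨0, 1, 1⟩⟩
    (cXp eTMG p1.v * (p1.kl * cM p1.v (p1.tT) (g1.u₁)) - eTMG2 cA Ex.x₂ p1.v) :=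
  posBox_of_check (c := ⟨360, ⟨0, 7, 19, 7⟩⟩) (by decide +kernel)

def c1_480 : PosBox ⟨⟨0, 1, 1⟩, ⟨375, 378, 625⟩, ⟨2, 3, 25⟩, ⟨0, 1, 1⟩⟩
    (eTEG2 cA Ex.x₂ p1.v - cXe p1.v * (p1.kl * cM p1.v (p1.tT) (g1.u₁))) :=
  posBox_of_check (c := ⟨322, ⟨0, 8, 16, 5⟩⟩) (by decide +kernel)

def c1_481 : PosBox ⟨⟨0, 1, 1⟩, ⟨375, 378, 625⟩, ⟨2, 3, 25⟩, ⟨0, 1, 1⟩⟩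
    (p1.bh * cB - cC (1) 1) :=
  posBox_of_check (c := ⟨54, ⟨0, 3, 3, 0⟩⟩) (by decide +kernel)

def c1_482 : PosBox ⟨⟨0, 1, 1⟩, ⟨375, 378, 625⟩, ⟨2, 3, 25⟩, ⟨0, 1, 1⟩⟩
    (cC (1) 1 - p1.bl * cB) :=
  posBox_of_check (c := ⟨54, ⟨0, 3, 3, 0⟩⟩) (by decide +kernel)

def c1_483 : PosBox ⟨⟨0, 1, 1⟩, ⟨375, 378, 625⟩, ⟨2, 3, 25⟩, ⟨0, 1, 1⟩⟩
    (p1.bl) :=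
  posBox_of_check (c := ⟨43, ⟨0, 2, 2, 0⟩⟩) (by decide +kernel)

def c1_484 : PosBox ⟨⟨0, 1, 1⟩, ⟨375, 378, 625⟩, ⟨2, 3, 25⟩, ⟨0, 1, 1⟩⟩
    (p1.eta) :=
  posBox_of_check (c := ⟨63, ⟨0, 0, 0, 0⟩⟩) (by decide +kernel)

def c1_485 : PosBox ⟨⟨0, 1, 1⟩, ⟨375, 378, 625⟩, ⟨2, 3, 25⟩, ⟨0, 1, 1⟩⟩
    (p1.eta + (p1.bh - p1.bl) * (cA - (cC (1) 1 - cA) * Ex.x₂ * p1.v)) :=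
  posBox_of_check (c := ⟨78, ⟨0, 3, 5, 1⟩⟩) (by decide +kernel)

def c1_486 : PosBox ⟨⟨0, 1, 1⟩, ⟨375, 378, 625⟩, ⟨2, 3, 25⟩, ⟨0, 1, 1⟩⟩
    (cC (1) 1 - p1.rl * Ex.x₁) :=
  posBox_of_check (c := ⟨38, ⟨0, 2, 0, 0⟩⟩) (by decide +kernel)

def c1_487 : PosBox ⟨⟨0, 1, 1⟩, ⟨375, 378, 625⟩, ⟨2, 3, 25⟩, ⟨0, 1, 1⟩⟩
    (p1.rh * Ex.x₁ - cC (1) 1) :=
  posBox_of_check (c := ⟨38, ⟨0, 2, 0, 0⟩⟩) (by decide +kernel)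

def c1_488 : PosBox ⟨⟨0, 1, 1⟩, ⟨375, 378, 625⟩, ⟨2, 3, 25⟩, ⟨0, 1, 1⟩⟩
    (Ex.x₁ - p1.kl * (cC (1) 1 - Ex.x₁)) :=
  posBox_of_check (c := ⟨40, ⟨0, 2, 0, 0⟩⟩) (by decide +kernel)

def c1_489 : PosBox ⟨⟨0, 1, 1⟩, ⟨375, 378, 625⟩, ⟨2, 3, 25⟩, ⟨0, 1, 1⟩⟩
    (p1.rho * p1.kl * (cC (1) 1 - Ex.x₁) - Ex.x₁) :=
  posBox_of_check (c := ⟨56, ⟨0, 2, 0, 0⟩⟩) (by decide +kernel)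

def c1_490 : PosBox ⟨⟨0, 1, 1⟩, ⟨375, 378, 625⟩, ⟨2, 3, 25⟩, ⟨0, 1, 1⟩⟩
    (g1.s₁.t * cNum p1.v - p1.rho * cDen) :=
  posBox_cut₂ (A := ⟨4, 5, 50⟩) (B := ⟨5, 6, 50⟩) (by unfold covers; decide)
    (posBox_cut₃ (A := ⟨0, 1, 2⟩) (B := ⟨1, 2, 2⟩) (by unfold covers; decide)
      (posBox_of_check (c := ⟨232, ⟨0, 2, 5, 3⟩⟩) (by decide +kernel))
      (posBox_of_check (c := ⟨232, ⟨0, 2, 5, 3⟩⟩) (by decide +kernel)))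
    (posBox_cut₃ (A := ⟨0, 1, 2⟩) (B := ⟨1, 2, 2⟩) (by unfold covers; decide)
      (posBox_of_check (c := ⟨232, ⟨0, 2, 5, 3⟩⟩) (by decide +kernel))
      (posBox_of_check (c := ⟨232, ⟨0, 2, 5, 3⟩⟩) (by decide +kernel)))

def c1_491 : PosBox ⟨⟨0, 1, 1⟩, ⟨375, 378, 625⟩, ⟨2, 3, 25⟩, ⟨0, 1, 1⟩⟩
    (cC (4) 1 * (cC (1) 1 - cA * p1.v) - p1.lo * cB) :=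
  posBox_of_check (c := ⟨62, ⟨0, 2, 4, 1⟩⟩) (by decide +kernel)

def c1_492 : PosBox ⟨⟨39, 40, 40⟩, ⟨375, 378, 625⟩, ⟨2, 3, 25⟩, ⟨0, 1, 1⟩⟩
    (Ex.x₂ * cL0 p1.kl p1.v + cL1 p1.kl p1.v) :=
  posBox_of_check (c := ⟨180, ⟨2, 4, 12, 4⟩⟩) (by decide +kernel)

def c1_493 : PosBox ⟨⟨39, 40, 40⟩, ⟨375, 378, 625⟩, ⟨2, 3, 25⟩, ⟨0, 1, 1⟩⟩
    (Ex.x₂ * cL0 (p1.rho * p1.kl) p1.v + cL1 (p1.rho * p1.kl) p1.v) :=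
  posBox_of_check (c := ⟨196, ⟨2, 4, 12, 4⟩⟩) (by decide +kernel)

def c1_494 : PosBox ⟨⟨39, 40, 40⟩, ⟨375, 378, 625⟩, ⟨2, 3, 25⟩, ⟨0, 1, 1⟩⟩
    (cDen * cL0 p1.kl p1.v + cNum p1.v * cL1 p1.kl p1.v) :=
  posBox_of_check (c := ⟨218, ⟨2, 6, 13, 5⟩⟩) (by decide +kernel)

end Vale.Agent.P100.Calib.Closed.End
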