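import Vale.Agent.P100.Calib.SlabEndData

/-!
# Checks of the end strip, piece `1`
-/

set_option linter.defProp false

namespace Vale.Agent.P100.Calib.Closed.End

open BoxPos
open Large (PosBox posBox_of_check)

local instance endChk1B2Add : Add Ex := ⟨Ex.add⟩
local instance endChk1B2Mul : Mul Ex := ⟨Ex.mul⟩
local instance endChk1B2Sub : Sub Ex := ⟨Ex.sub⟩

def c1_495 : PosBox ⟨⟨39, 40, 40⟩, ⟨375, 378, 625⟩, ⟨2, 3, 25⟩, ⟨0, 1, 1⟩⟩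
    (cDen * cL0 (p1.rho * p1.kl) p1.v + cNum p1.v * cL1 (p1.rho * p1.kl) p1.v) :=
  posBox_of_check (c := ⟨234, ⟨2, 6, 13, 5⟩⟩) (by decide +kernel)

def c1_496 : PosBox ⟨⟨0, 1, 1⟩, ⟨375, 378, 625⟩, ⟨2, 3, 25⟩, ⟨0, 1, 1⟩⟩
    (Ex.x₂ * g1_0.p * Ex.x₁ * cB * ((cC (2) 1 + Ex.x₂ * p1.v) * q1_0 - cC (39) 40) - cC (4) 1 * ((cC (2) 1 + Ex.x₂ * p1.v) * cB - Ex.x₁ * cC (39) 40 * cQ p1.v)) :=
  posBox_cut₂ (A := ⟨4, 5, 50⟩) (B := ⟨5, 6, 50⟩) (by unfold covers; decide)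
    (posBox_cut₃ (A := ⟨0, 1, 2⟩) (B := ⟨1, 2, 2⟩) (by unfold covers; decide)
      (posBox_of_check (c := ⟨290, ⟨0, 3, 7, 3⟩⟩) (by decide +kernel))
      (posBox_cut₂ (A := ⟨8, 9, 100⟩) (B := ⟨9, 10, 100⟩) (by unfold covers; decide)
        (posBox_cut₃ (A := ⟨2, 3, 4⟩) (B := ⟨3, 4, 4⟩) (by unfold covers; decide)
          (posBox_of_check (c := ⟨410, ⟨0, 3, 7, 3⟩⟩) (by decide +kernel))
          (posBox_of_check (c := ⟨410, ⟨0, 3, 7, 3⟩⟩) (by decide +kernel)))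
        (posBox_of_check (c := ⟨350, ⟨0, 3, 7, 3⟩⟩) (by decide +kernel))))
    (posBox_cut₂ (A := ⟨10, 11, 100⟩) (B := ⟨11, 12, 100⟩) (by unfold covers; decide)
      (posBox_cut₃ (A := ⟨0, 1, 2⟩) (B := ⟨1, 2, 2⟩) (by unfold covers; decide)
        (posBox_of_check (c := ⟨350, ⟨0, 3, 7, 3⟩⟩) (by decide +kernel))
        (posBox_cut₃ (A := ⟨2, 3, 4⟩) (B := ⟨3, 4, 4⟩) (by unfold covers; decide)
          (posBox_of_check (c := ⟨410, ⟨0, 3, 7, 3⟩⟩) (by decide +kernel))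
          (posBox_of_check (c := ⟨410, ⟨0, 3, 7, 3⟩⟩) (by decide +kernel))))
      (posBox_cut₃ (A := ⟨0, 1, 2⟩) (B := ⟨1, 2, 2⟩) (by unfold covers; decide)
        (posBox_of_check (c := ⟨350, ⟨0, 3, 7, 3⟩⟩) (by decide +kernel))
        (posBox_cut₃ (A := ⟨2, 3, 4⟩) (B := ⟨3, 4, 4⟩) (by unfold covers; decide)
          (posBox_of_check (c := ⟨410, ⟨0, 3, 7, 3⟩⟩) (by decide +kernel))
          (posBox_of_check (c := ⟨410, ⟨0, 3, 7, 3⟩⟩) (by decide +kernel)))))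

def c1_497 : PosBox ⟨⟨0, 1, 1⟩, ⟨375, 378, 625⟩, ⟨2, 3, 25⟩, ⟨0, 1, 1⟩⟩
    (g1_0.p * Ex.x₁ * cB * ((cC (2) 1 + Ex.x₂ * p1.v) * q1_0 - cC (1) 1) - cC (4) 1 * (cC (1) 1 - cA * p1.v)) :=
  posBox_of_check (c := ⟨167, ⟨0, 3, 6, 3⟩⟩) (by decide +kernel)

def c1_498 : PosBox ⟨⟨0, 1, 1⟩, ⟨375, 378, 625⟩, ⟨2, 3, 25⟩, ⟨0, 1, 1⟩⟩
    ((cC (2) 1 + Ex.x₂ * p1.v) * q1_0 - cC (1) 1) :=
  posBox_of_check (c := ⟨90, ⟨0, 0, 2, 1⟩⟩) (by decide +kernel)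

def c1_499 : PosBox ⟨⟨0, 1, 1⟩, ⟨375, 378, 625⟩, ⟨2, 3, 25⟩, ⟨0, 1, 1⟩⟩
    (q1_1 - cC (1) 1) :=
  posBox_of_check (c := ⟨80, ⟨0, 0, 2, 0⟩⟩) (by decide +kernel)

def c1_500 : PosBox ⟨⟨0, 1, 1⟩, ⟨375, 378, 625⟩, ⟨2, 3, 25⟩, ⟨0, 1, 1⟩⟩
    (cC (10) 7 - q1_1) :=
  posBox_of_check (c := ⟨83, ⟨0, 0, 2, 0⟩⟩) (by decide +kernel)

def c1_501 : PosBox ⟨⟨0, 1, 1⟩, ⟨375, 378, 625⟩, ⟨2, 3, 25⟩, ⟨0, 1, 1⟩⟩
    (Ex.x₂ * g1_1.p * Ex.x₁ * cB * ((cC (2) 1 + Ex.x₂ * p1.v) * q1_1 - cC (39) 40) - cC (4) 1 * ((cC (2) 1 + Ex.x₂ * p1.v) * cB - Ex.x₁ * cC (39) 40 * cQ p1.v)) :=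
  posBox_cut₂ (A := ⟨4, 5, 50⟩) (B := ⟨5, 6, 50⟩) (by unfold covers; decide)
    (posBox_cut₃ (A := ⟨0, 1, 2⟩) (B := ⟨1, 2, 2⟩) (by unfold covers; decide)
      (posBox_of_check (c := ⟨307, ⟨0, 3, 9, 3⟩⟩) (by decide +kernel))
      (posBox_cut₂ (A := ⟨8, 9, 100⟩) (B := ⟨9, 10, 100⟩) (by unfold covers; decide)
        (posBox_of_check (c := ⟨367, ⟨0, 3, 9, 3⟩⟩) (by decide +kernel))
        (posBox_cut₃ (A := ⟨2, 3, 4⟩) (B := ⟨3, 4, 4⟩) (by unfold covers; decide)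
          (posBox_of_check (c := ⟨427, ⟨0, 3, 9, 3⟩⟩) (by decide +kernel))
          (posBox_of_check (c := ⟨427, ⟨0, 3, 9, 3⟩⟩) (by decide +kernel)))))
    (posBox_cut₂ (A := ⟨10, 11, 100⟩) (B := ⟨11, 12, 100⟩) (by unfold covers; decide)
      (posBox_cut₃ (A := ⟨0, 1, 2⟩) (B := ⟨1, 2, 2⟩) (by unfold covers; decide)
        (posBox_of_check (c := ⟨367, ⟨0, 3, 9, 3⟩⟩) (by decide +kernel))
        (posBox_cut₃ (A := ⟨2, 3, 4⟩) (B := ⟨3, 4, 4⟩) (by unfold covers; decide)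
          (posBox_of_check (c := ⟨427, ⟨0, 3, 9, 3⟩⟩) (by decide +kernel))
          (posBox_of_check (c := ⟨427, ⟨0, 3, 9, 3⟩⟩) (by decide +kernel))))
      (posBox_cut₃ (A := ⟨0, 1, 2⟩) (B := ⟨1, 2, 2⟩) (by unfold covers; decide)
        (posBox_of_check (c := ⟨367, ⟨0, 3, 9, 3⟩⟩) (by decide +kernel))
        (posBox_cut₃ (A := ⟨2, 3, 4⟩) (B := ⟨3, 4, 4⟩) (by unfold covers; decide)
          (posBox_of_check (c := ⟨427, ⟨0, 3, 9, 3⟩⟩) (by decide +kernel))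
          (posBox_of_check (c := ⟨427, ⟨0, 3, 9, 3⟩⟩) (by decide +kernel)))))

def c1_502 : PosBox ⟨⟨0, 1, 1⟩, ⟨375, 378, 625⟩, ⟨2, 3, 25⟩, ⟨0, 1, 1⟩⟩
    (g1_1.p * Ex.x₁ * cB * ((cC (2) 1 + Ex.x₂ * p1.v) * q1_1 - cC (1) 1) - cC (4) 1 * (cC (1) 1 - cA * p1.v)) :=
  posBox_of_check (c := ⟨185, ⟨0, 3, 8, 3⟩⟩) (by decide +kernel)

def c1_503 : PosBox ⟨⟨0, 1, 1⟩, ⟨375, 378, 625⟩, ⟨2, 3, 25⟩, ⟨0, 1, 1⟩⟩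
    ((cC (2) 1 + Ex.x₂ * p1.v) * q1_1 - cC (1) 1) :=
  posBox_of_check (c := ⟨103, ⟨0, 0, 4, 1⟩⟩) (by decide +kernel)

def c1_504 : PosBox ⟨⟨0, 1, 1⟩, ⟨375, 378, 625⟩, ⟨2, 3, 25⟩, ⟨0, 1, 1⟩⟩
    (q1_2 - cC (1) 1) :=
  posBox_of_check (c := ⟨85, ⟨0, 0, 2, 0⟩⟩) (by decide +kernel)

def c1_505 : PosBox ⟨⟨0, 1, 1⟩, ⟨375, 378, 625⟩, ⟨2, 3, 25⟩, ⟨0, 1, 1⟩⟩
    (cC (10) 7 - q1_2) :=
  posBox_of_check (c := ⟨88, ⟨0, 0, 2, 0⟩⟩) (by decide +kernel)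

def c1_506 : PosBox ⟨⟨0, 1, 1⟩, ⟨375, 378, 625⟩, ⟨2, 3, 25⟩, ⟨0, 1, 1⟩⟩
    (cDel p1.v q1_1 g1_2.u₀) :=
  posBox_of_check (c := ⟨116, ⟨0, 1, 5, 1⟩⟩) (by decide +kernel)

def c1_507 : PosBox ⟨⟨0, 1, 1⟩, ⟨375, 378, 625⟩, ⟨2, 3, 25⟩, ⟨0, 1, 1⟩⟩
    (g1_2.p * Ex.x₁ * cDel p1.v q1_1 g1_2.u₀ - cC (4) 1 * (cC (1) 1 - cA * p1.v)) :=
  posBox_cut₂ (A := ⟨4, 5, 50⟩) (B := ⟨5, 6, 50⟩) (by unfold covers; decide)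
    (posBox_cut₃ (A := ⟨0, 1, 2⟩) (B := ⟨1, 2, 2⟩) (by unfold covers; decide)
      (posBox_of_check (c := ⟨307, ⟨0, 3, 8, 3⟩⟩) (by decide +kernel))
      (posBox_cut₂ (A := ⟨8, 9, 100⟩) (B := ⟨9, 10, 100⟩) (by unfold covers; decide)
        (posBox_of_check (c := ⟨367, ⟨0, 3, 8, 3⟩⟩) (by decide +kernel))
        (posBox_cut₃ (A := ⟨2, 3, 4⟩) (B := ⟨3, 4, 4⟩) (by unfold covers; decide)
          (posBox_of_check (c := ⟨427, ⟨0, 3, 8, 3⟩⟩) (by decide +kernel))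
          (posBox_of_check (c := ⟨427, ⟨0, 3, 8, 3⟩⟩) (by decide +kernel)))))
    (posBox_cut₃ (A := ⟨0, 1, 2⟩) (B := ⟨1, 2, 2⟩) (by unfold covers; decide)
      (posBox_of_check (c := ⟨307, ⟨0, 3, 8, 3⟩⟩) (by decide +kernel))
      (posBox_cut₂ (A := ⟨10, 11, 100⟩) (B := ⟨11, 12, 100⟩) (by unfold covers; decide)
        (posBox_cut₃ (A := ⟨2, 3, 4⟩) (B := ⟨3, 4, 4⟩) (by unfold covers; decide)
          (posBox_of_check (c := ⟨427, ⟨0, 3, 8, 3⟩⟩) (by decide +kernel))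
          (posBox_of_check (c := ⟨427, ⟨0, 3, 8, 3⟩⟩) (by decide +kernel)))
        (posBox_cut₃ (A := ⟨2, 3, 4⟩) (B := ⟨3, 4, 4⟩) (by unfold covers; decide)
          (posBox_cut₂ (A := ⟨22, 23, 200⟩) (B := ⟨23, 24, 200⟩) (by unfold covers; decide)
            (posBox_of_check (c := ⟨487, ⟨0, 3, 8, 3⟩⟩) (by decide +kernel))
            (posBox_cut₁ (A := ⟨750, 753, 1250⟩) (B := ⟨753, 756, 1250⟩) (by unfold covers; decide)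
              (posBox_cut₃ (A := ⟨4, 5, 8⟩) (B := ⟨5, 6, 8⟩) (by unfold covers; decide)
                (posBox_of_check (c := ⟨607, ⟨0, 3, 8, 3⟩⟩) (by decide +kernel))
                (posBox_cut₃ (A := ⟨10, 11, 16⟩) (B := ⟨11, 12, 16⟩) (by unfold covers; decide)
                  (posBox_of_check (c := ⟨667, ⟨0, 3, 8, 3⟩⟩) (by decide +kernel))
                  (posBox_of_check (c := ⟨667, ⟨0, 3, 8, 3⟩⟩) (by decide +kernel))))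
              (posBox_of_check (c := ⟨547, ⟨0, 3, 8, 3⟩⟩) (by decide +kernel))))
          (posBox_of_check (c := ⟨427, ⟨0, 3, 8, 3⟩⟩) (by decide +kernel)))))

def c1_508 : PosBox ⟨⟨0, 1, 1⟩, ⟨375, 378, 625⟩, ⟨2, 3, 25⟩, ⟨0, 1, 1⟩⟩
    (cDel p1.v q1_2 g1_3.u₀) :=
  posBox_of_check (c := ⟨121, ⟨0, 1, 5, 1⟩⟩) (by decide +kernel)

def c1_509 : PosBox ⟨⟨0, 1, 1⟩, ⟨375, 378, 625⟩, ⟨2, 3, 25⟩, ⟨0, 1, 1⟩⟩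
    (g1_3.p * Ex.x₁ * cDel p1.v q1_2 g1_3.u₀ - cC (4) 1 * (cC (1) 1 - cA * p1.v)) :=
  posBox_cut₂ (A := ⟨4, 5, 50⟩) (B := ⟨5, 6, 50⟩) (by unfold covers; decide)
    (posBox_cut₃ (A := ⟨0, 1, 2⟩) (B := ⟨1, 2, 2⟩) (by unfold covers; decide)
      (posBox_of_check (c := ⟨311, ⟨0, 3, 8, 3⟩⟩) (by decide +kernel))
      (posBox_cut₂ (A := ⟨8, 9, 100⟩) (B := ⟨9, 10, 100⟩) (by unfold covers; decide)
        (posBox_of_check (c := ⟨371, ⟨0, 3, 8, 3⟩⟩) (by decide +kernel))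
        (posBox_cut₃ (A := ⟨2, 3, 4⟩) (B := ⟨3, 4, 4⟩) (by unfold covers; decide)
          (posBox_of_check (c := ⟨431, ⟨0, 3, 8, 3⟩⟩) (by decide +kernel))
          (posBox_of_check (c := ⟨431, ⟨0, 3, 8, 3⟩⟩) (by decide +kernel)))))
    (posBox_cut₃ (A := ⟨0, 1, 2⟩) (B := ⟨1, 2, 2⟩) (by unfold covers; decide)
      (posBox_of_check (c := ⟨311, ⟨0, 3, 8, 3⟩⟩) (by decide +kernel))
      (posBox_cut₂ (A := ⟨10, 11, 100⟩) (B := ⟨11, 12, 100⟩) (by unfold covers; decide)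
        (posBox_cut₃ (A := ⟨2, 3, 4⟩) (B := ⟨3, 4, 4⟩) (by unfold covers; decide)
          (posBox_of_check (c := ⟨431, ⟨0, 3, 8, 3⟩⟩) (by decide +kernel))
          (posBox_of_check (c := ⟨431, ⟨0, 3, 8, 3⟩⟩) (by decide +kernel)))
        (posBox_cut₃ (A := ⟨2, 3, 4⟩) (B := ⟨3, 4, 4⟩) (by unfold covers; decide)
          (posBox_cut₂ (A := ⟨22, 23, 200⟩) (B := ⟨23, 24, 200⟩) (by unfold covers; decide)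
            (posBox_of_check (c := ⟨491, ⟨0, 3, 8, 3⟩⟩) (by decide +kernel))
            (posBox_cut₁ (A := ⟨750, 753, 1250⟩) (B := ⟨753, 756, 1250⟩) (by unfold covers; decide)
              (posBox_cut₃ (A := ⟨4, 5, 8⟩) (B := ⟨5, 6, 8⟩) (by unfold covers; decide)
                (posBox_of_check (c := ⟨611, ⟨0, 3, 8, 3⟩⟩) (by decide +kernel))
                (posBox_cut₃ (A := ⟨10, 11, 16⟩) (B := ⟨11, 12, 16⟩) (by unfold covers; decide)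
                  (posBox_of_check (c := ⟨671, ⟨0, 3, 8, 3⟩⟩) (by decide +kernel))
                  (posBox_of_check (c := ⟨671, ⟨0, 3, 8, 3⟩⟩) (by decide +kernel))))
              (posBox_of_check (c := ⟨551, ⟨0, 3, 8, 3⟩⟩) (by decide +kernel))))
          (posBox_of_check (c := ⟨431, ⟨0, 3, 8, 3⟩⟩) (by decide +kernel)))))

def c1_510 : PosBox ⟨⟨0, 1, 1⟩, ⟨375, 378, 625⟩, ⟨2, 3, 25⟩, ⟨0, 1, 1⟩⟩
    (cC (1) 40 - cC (237) 10000) :=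
  posBox_of_check (c := ⟨71, ⟨0, 0, 0, 0⟩⟩) (by decide +kernel)

def c1_511 : PosBox ⟨⟨0, 1, 1⟩, ⟨375, 378, 625⟩, ⟨2, 3, 25⟩, ⟨0, 1, 1⟩⟩
    (cDel p1.v q1_2 (cC (39) 40)) :=
  posBox_of_check (c := ⟨121, ⟨0, 1, 5, 1⟩⟩) (by decide +kernel)

def c1_512 : PosBox ⟨⟨0, 1, 1⟩, ⟨375, 378, 625⟩, ⟨2, 3, 25⟩, ⟨0, 1, 1⟩⟩
    (cC (237) 10000) :=
  posBox_of_check (c := ⟨70, ⟨0, 0, 0, 0⟩⟩) (by decide +kernel)

def c1_513 : PosBox ⟨⟨0, 1, 1⟩, ⟨375, 378, 625⟩, ⟨2, 3, 25⟩, ⟨0, 1, 1⟩⟩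
    (cC (237) 10000 * (Ex.x₁ * cDel p1.v q1_2 (cC (39) 40) - Ex.x₂ * (cC (1) 1 - cA * p1.v)) - Ex.x₂ * (cC (1) 1 - cA * p1.v) * (q1_2 - cC (1) 1)) :=
  posBox_of_check (c := ⟨141, ⟨0, 2, 5, 1⟩⟩) (by decide +kernel)

def c1_514 : PosBox ⟨⟨0, 1, 1⟩, ⟨375, 378, 625⟩, ⟨2, 3, 25⟩, ⟨0, 1, 1⟩⟩
    (cC (2) 1 * (cC (1) 1 - Ex.x₁) - (cC (2) 1 + (Ex.x₁ - Ex.x₂) * (cC (1) 1 - Ex.x₁)) * ((cC (393) 250 + cC (-747) 200 * Ex.x₂) - (cC (3) 2 - cC (47) 5 * Ex.x₂ + cC (28) 1 * Ex.x₂ * Ex.x₂))) :=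
  posBox_cut₂ (A := ⟨4, 5, 50⟩) (B := ⟨5, 6, 50⟩) (by unfold covers; decide)
    (posBox_of_check (c := ⟨103, ⟨0, 2, 3, 0⟩⟩) (by decide +kernel))
    (posBox_of_check (c := ⟨103, ⟨0, 2, 3, 0⟩⟩) (by decide +kernel))

def c1_515 : PosBox ⟨⟨0, 1, 1⟩, ⟨375, 378, 625⟩, ⟨2, 3, 25⟩, ⟨0, 1, 1⟩⟩
    ((cC (1603) 500 + cC (8013) 1000 * Ex.x₂) * (Ex.x₁ - Ex.x₂) - cC (2) 1) :=
  posBox_of_check (c := ⟨32, ⟨0, 1, 2, 0⟩⟩) (by decide +kernel)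

end Vale.Agent.P100.Calib.Closed.End
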