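import Vale.Agent.P100.Calib.SlabEndCheck1A0
import Vale.Agent.P100.Calib.SlabEndCheck1A1
import Vale.Agent.P100.Calib.SlabEndCheck1A2
import Vale.Agent.P100.Calib.SlabEndCheck1B0
import Vale.Agent.P100.Calib.SlabEndCheck1B1
import Vale.Agent.P100.Calib.SlabEndCheck1B2

/-!
# The signs on the piece `1` of the end strip
-/

namespace Vale.Agent.P100.Calib.Closed.End

open BoxPos
open Large (PosBox)

local instance endPiece1Add : Add Ex := ⟨Ex.add⟩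
local instance endPiece1Mul : Mul Ex := ⟨Ex.mul⟩
local instance endPiece1Sub : Sub Ex := ⟨Ex.sub⟩

/-- The checks of the piece `1`. -/
theorem base1 : p1.Base g1 ⟨⟨39, 40, 40⟩, ⟨375, 378, 625⟩, ⟨2, 3, 25⟩, ⟨0, 1, 1⟩⟩ where
  ok := ⟨c1_452, c1_453, c1_454, c1_455, c1_456, ⟨c1_457, c1_458, c1_459, c1_460⟩, ⟨c1_461, c1_462, c1_463, c1_464⟩, ⟨c1_465, c1_466, c1_467, c1_468⟩, ⟨c1_469, c1_470, c1_471, c1_472⟩⟩
  wide := ⟨⟨c1_473, c1_474, c1_475, c1_476⟩,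
    ⟨c1_477, c1_478, c1_479, c1_480⟩⟩
  lines := ⟨c1_481, c1_482, c1_483, c1_484, c1_485, c1_486, c1_487, c1_488, c1_489, c1_490, c1_491, ⟨fun _ _ _ _ _ => rfl, fun _ _ _ _ _ => rfl, fun _ _ _ _ _ => rfl⟩, c1_492, c1_493, c1_494, c1_495⟩
  low := ⟨c1_333, c1_334, c1_335,
      ⟨c1_312, c1_313, ⟨c1_296, .inr ⟨c1_297, c1_295⟩, c1_298, c1_299⟩, ⟨c1_304, .inr ⟨c1_305, c1_295⟩, c1_306, c1_307⟩⟩,
      ⟨c1_331, c1_332, ⟨c1_315, .inl c1_316, c1_317, c1_318⟩, ⟨c1_323, .inl c1_324, c1_325, c1_326⟩⟩⟩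
  w₀ := (.inl c1_295)
  w₁ := (.inl c1_314)
  inv := fun z => by simp only [Piece.Pt.val, p1, Ex.val]; norm_num
  p_eq := rfl
  s₀_eq := rfl
  u₀_eq := rfl
  u₁_eq := rfl
  tT_eq := rfl
  bu_eq := rfl

/-- The checks of the slab `0`. -/
theorem slab1_0 : p1.Slab g1 g1_0 :=
  ⟨⟨c1_362, c1_363, c1_364,
      ⟨c1_347, c1_348, ⟨c1_337, .inl c1_338, c1_339, c1_340⟩, ⟨c1_342, .inl c1_343, c1_344, c1_345⟩⟩,
      ⟨c1_360, c1_361, ⟨c1_350, .inl c1_351, c1_352, c1_353⟩, ⟨c1_355, .inl c1_356, c1_357, c1_358⟩⟩⟩,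
    ⟨c1_300, c1_308, c1_319, c1_327⟩, ⟨c1_341, c1_346, c1_354, c1_359⟩, (.inl c1_336), (.inl c1_349), rfl⟩

theorem cut1_0 : p1.Cut q1_0 := Piece.Cut.top p1

/-- The checks of the slab `1`. -/
theorem slab1_1 : p1.Slab g1 g1_1 :=
  ⟨⟨c1_391, c1_392, c1_393,
      ⟨c1_376, c1_377, ⟨c1_366, .inr ⟨c1_367, c1_365⟩, c1_368, c1_369⟩, ⟨c1_371, .inr ⟨c1_372, c1_365⟩, c1_373, c1_374⟩⟩,
      ⟨c1_389, c1_390, ⟨c1_379, .inl c1_380, c1_381, c1_382⟩, ⟨c1_384, .inl c1_385, c1_386, c1_387⟩⟩⟩,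
    ⟨c1_301, c1_309, c1_320, c1_328⟩, ⟨c1_370, c1_375, c1_383, c1_388⟩, (.inl c1_365), (.inl c1_378), rfl⟩

theorem cut1_1 : p1.Cut q1_1 := Piece.Cut.of_pos c1_499 c1_500

/-- The checks of the slab `2`. -/
theorem slab1_2 : p1.Slab g1 g1_2 :=
  ⟨⟨c1_420, c1_421, c1_422,
      ⟨c1_405, c1_406, ⟨c1_395, .inr ⟨c1_396, c1_394⟩, c1_397, c1_398⟩, ⟨c1_400, .inr ⟨c1_401, c1_394⟩, c1_402, c1_403⟩⟩,
      ⟨c1_418, c1_419, ⟨c1_408, .inr ⟨c1_409, c1_407⟩, c1_410, c1_411⟩, ⟨c1_413, .inr ⟨c1_414, c1_407⟩, c1_415, c1_416⟩⟩⟩,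
    ⟨c1_302, c1_310, c1_321, c1_329⟩, ⟨c1_399, c1_404, c1_412, c1_417⟩, (.inl c1_394), (.inl c1_407), rfl⟩

theorem cut1_2 : p1.Cut q1_2 := Piece.Cut.of_pos c1_504 c1_505

/-- The checks of the slab `3`. -/
theorem slab1_3 : p1.Slab g1 g1_3 :=
  ⟨⟨c1_449, c1_450, c1_451,
      ⟨c1_434, c1_435, ⟨c1_424, .inr ⟨c1_425, c1_423⟩, c1_426, c1_427⟩, ⟨c1_429, .inr ⟨c1_430, c1_423⟩, c1_431, c1_432⟩⟩,
      ⟨c1_447, c1_448, ⟨c1_437, .inr ⟨c1_438, c1_436⟩, c1_439, c1_440⟩, ⟨c1_442, .inr ⟨c1_443, c1_436⟩, c1_444, c1_445⟩⟩⟩,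
    ⟨c1_303, c1_311, c1_322, c1_330⟩, ⟨c1_428, c1_433, c1_441, c1_446⟩, (.inl c1_423), (.inl c1_436), rfl⟩

theorem cut1_3 : p1.Cut q1_3 := Piece.Cut.one p1

/-- The signs on the piece. -/
theorem signs1 (z : p1.Pt) (u t : ℝ) (h : z.On u t) : ChartSigns z.d z.S u z.vv t := by
  rcases le_total (z.d * z.val q1_0) (1 / chH z.d z.S u z.vv t) with h0 | h0
  · exact z.signs_top base1 slab1_0 rfl rfl rfl ⟨c1_496, c1_497, c1_498⟩ h h0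
  rcases le_total (z.d * z.val q1_1) (1 / chH z.d z.S u z.vv t) with h1 | h1
  · exact z.signs_U base1 slab1_1 rfl cut1_1 cut1_0 rfl rfl ⟨c1_501, c1_502, c1_503⟩ h h1 h0
  rcases le_total (z.d * z.val q1_2) (1 / chH z.d z.S u z.vv t) with h2 | h2
  · exact z.signs_E base1 slab1_2 cut1_2 cut1_1 rfl rfl ⟨c1_506, c1_507⟩ h (z.u_fix rfl h) h2 h1
  exact z.signs_E base1 slab1_3 cut1_3 cut1_2 rfl rfl ⟨c1_508, c1_509⟩ h (z.u_em (em := cC (237) 10000) rfl c1_510 ⟨c1_511, c1_512, c1_513⟩ h h2) (z.last_cut h) h2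

end Vale.Agent.P100.Calib.Closed.End
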