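import Vale.Agent.P100.Calib.SlabEndData

/-!
# Checks of the end strip, piece `2`
-/

set_option linter.defProp false

namespace Vale.Agent.P100.Calib.Closed.End

open BoxPos
open Large (PosBox posBox_of_check)

local instance endChk2A1Add : Add Ex := ⟨Ex.add⟩
local instance endChk2A1Mul : Mul Ex := ⟨Ex.mul⟩
local instance endChk2A1Sub : Sub Ex := ⟨Ex.sub⟩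

def c2_580 : PosBox ⟨⟨0, 1, 1⟩, ⟨1521, 1535, 2535⟩, ⟨12, 15, 100⟩, ⟨0, 1, 1⟩⟩
    (cF p2.kl p2.v (g2_0.s₁.t) (g2_0.u₁) (p2.wl g2_0.s₁.t) g2_0.p g2_0.s₁.phi) :=
  posBox_of_check (c := ⟨819, ⟨0, 12, 34, 17⟩⟩) (by decide +kernel)

def c2_581 : PosBox ⟨⟨0, 1, 1⟩, ⟨1521, 1535, 2535⟩, ⟨12, 15, 100⟩, ⟨0, 1, 1⟩⟩
    (cG p2.kl p2.v (g2_0.s₁.t) (g2_0.u₁) (p2.wl g2_0.s₁.t) (p2.wh g2_0.s₁.t) g2_0.p (cC (1) 4)) :=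
  posBox_of_check (c := ⟨608, ⟨0, 9, 26, 13⟩⟩) (by decide +kernel)

def c2_590 : PosBox ⟨⟨0, 1, 1⟩, ⟨1521, 1535, 2535⟩, ⟨12, 15, 100⟩, ⟨0, 1, 1⟩⟩
    (cF p2.kl p2.v (g2_1.s₀.t) (g2_1.u₀) (p2.wh g2_1.s₀.t) g2_1.p g2_1.s₀.phi) :=
  posBox_of_check (c := ⟨643, ⟨0, 12, 34, 11⟩⟩) (by decide +kernel)

def c2_591 : PosBox ⟨⟨0, 1, 1⟩, ⟨1521, 1535, 2535⟩, ⟨12, 15, 100⟩, ⟨0, 1, 1⟩⟩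
    (cR p2.kl p2.v (g2_1.s₀.t) (g2_1.u₀) (p2.wl g2_1.s₀.t) (p2.wh g2_1.s₀.t) g2_1.p) :=
  posBox_of_check (c := ⟨423, ⟨0, 9, 21, 7⟩⟩) (by decide +kernel)

def c2_592 : PosBox ⟨⟨0, 1, 1⟩, ⟨1521, 1535, 2535⟩, ⟨12, 15, 100⟩, ⟨0, 1, 1⟩⟩
    (cG p2.kl p2.v (g2_1.s₀.t) (g2_1.u₀) (p2.wl g2_1.s₀.t) (p2.wh g2_1.s₀.t) g2_1.p (cC (1) 4)) :=
  posBox_of_check (c := ⟨522, ⟨0, 9, 26, 9⟩⟩) (by decide +kernel)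

def c2_595 : PosBox ⟨⟨0, 1, 1⟩, ⟨1521, 1535, 2535⟩, ⟨12, 15, 100⟩, ⟨0, 1, 1⟩⟩
    (cF p2.kl p2.v (g2_1.s₀.t) (g2_1.u₁) (p2.wh g2_1.s₀.t) g2_1.p g2_1.s₀.phi) :=
  posBox_of_check (c := ⟨643, ⟨0, 12, 34, 11⟩⟩) (by decide +kernel)

def c2_596 : PosBox ⟨⟨0, 1, 1⟩, ⟨1521, 1535, 2535⟩, ⟨12, 15, 100⟩, ⟨0, 1, 1⟩⟩
    (cR p2.kl p2.v (g2_1.s₀.t) (g2_1.u₁) (p2.wl g2_1.s₀.t) (p2.wh g2_1.s₀.t) g2_1.p) :=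
  posBox_of_check (c := ⟨423, ⟨0, 9, 21, 7⟩⟩) (by decide +kernel)

def c2_597 : PosBox ⟨⟨0, 1, 1⟩, ⟨1521, 1535, 2535⟩, ⟨12, 15, 100⟩, ⟨0, 1, 1⟩⟩
    (cG p2.kl p2.v (g2_1.s₀.t) (g2_1.u₁) (p2.wl g2_1.s₀.t) (p2.wh g2_1.s₀.t) g2_1.p (cC (1) 4)) :=
  posBox_of_check (c := ⟨522, ⟨0, 9, 26, 9⟩⟩) (by decide +kernel)

def c2_602 : PosBox ⟨⟨0, 1, 1⟩, ⟨1521, 1535, 2535⟩, ⟨12, 15, 100⟩, ⟨0, 1, 1⟩⟩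
    (cG p2.kl p2.v (g2_1.s₁.t) (g2_1.u₀) (p2.wh g2_1.s₁.t) (p2.wl g2_1.s₁.t) g2_1.p (cC (1) 4)) :=
  posBox_of_check (c := ⟨575, ⟨0, 9, 22, 9⟩⟩) (by decide +kernel)

def c2_603 : PosBox ⟨⟨0, 1, 1⟩, ⟨1521, 1535, 2535⟩, ⟨12, 15, 100⟩, ⟨0, 1, 1⟩⟩
    (cG p2.kl p2.v (g2_1.s₁.t) (g2_1.u₁) (p2.wh g2_1.s₁.t) (p2.wl g2_1.s₁.t) g2_1.p (cC (1) 4)) :=
  posBox_of_check (c := ⟨575, ⟨0, 9, 22, 9⟩⟩) (by decide +kernel)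

def c2_604 : PosBox ⟨⟨0, 1, 1⟩, ⟨1521, 1535, 2535⟩, ⟨12, 15, 100⟩, ⟨0, 1, 1⟩⟩
    (cF p2.kl p2.v (g2_1.s₁.t) (g2_1.u₀) (p2.wh g2_1.s₁.t) g2_1.p g2_1.s₁.phi) :=
  posBox_of_check (c := ⟨640, ⟨0, 12, 28, 11⟩⟩) (by decide +kernel)

def c2_605 : PosBox ⟨⟨0, 1, 1⟩, ⟨1521, 1535, 2535⟩, ⟨12, 15, 100⟩, ⟨0, 1, 1⟩⟩
    (cF p2.kl p2.v (g2_1.s₁.t) (g2_1.u₀) (p2.wl g2_1.s₁.t) g2_1.p g2_1.s₁.phi) :=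
  posBox_of_check (c := ⟨684, ⟨0, 12, 28, 11⟩⟩) (by decide +kernel)

def c2_606 : PosBox ⟨⟨0, 1, 1⟩, ⟨1521, 1535, 2535⟩, ⟨12, 15, 100⟩, ⟨0, 1, 1⟩⟩
    (cG p2.kl p2.v (g2_1.s₁.t) (g2_1.u₀) (p2.wl g2_1.s₁.t) (p2.wh g2_1.s₁.t) g2_1.p (cC (1) 4)) :=
  posBox_of_check (c := ⟨520, ⟨0, 9, 22, 9⟩⟩) (by decide +kernel)

def c2_609 : PosBox ⟨⟨0, 1, 1⟩, ⟨1521, 1535, 2535⟩, ⟨12, 15, 100⟩, ⟨0, 1, 1⟩⟩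
    (cF p2.kl p2.v (g2_1.s₁.t) (g2_1.u₁) (p2.wh g2_1.s₁.t) g2_1.p g2_1.s₁.phi) :=
  posBox_of_check (c := ⟨640, ⟨0, 12, 28, 11⟩⟩) (by decide +kernel)

def c2_610 : PosBox ⟨⟨0, 1, 1⟩, ⟨1521, 1535, 2535⟩, ⟨12, 15, 100⟩, ⟨0, 1, 1⟩⟩
    (cF p2.kl p2.v (g2_1.s₁.t) (g2_1.u₁) (p2.wl g2_1.s₁.t) g2_1.p g2_1.s₁.phi) :=
  posBox_of_check (c := ⟨684, ⟨0, 12, 28, 11⟩⟩) (by decide +kernel)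

def c2_611 : PosBox ⟨⟨0, 1, 1⟩, ⟨1521, 1535, 2535⟩, ⟨12, 15, 100⟩, ⟨0, 1, 1⟩⟩
    (cG p2.kl p2.v (g2_1.s₁.t) (g2_1.u₁) (p2.wl g2_1.s₁.t) (p2.wh g2_1.s₁.t) g2_1.p (cC (1) 4)) :=
  posBox_of_check (c := ⟨520, ⟨0, 9, 22, 9⟩⟩) (by decide +kernel)

def c2_620 : PosBox ⟨⟨0, 1, 1⟩, ⟨1521, 1535, 2535⟩, ⟨12, 15, 100⟩, ⟨0, 1, 1⟩⟩
    (cF p2.kl p2.v (g2_2.s₀.t) (g2_2.u₀) (p2.wh g2_2.s₀.t) g2_2.p g2_2.s₀.phi) :=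
  posBox_of_check (c := ⟨658, ⟨0, 12, 34, 11⟩⟩) (by decide +kernel)

def c2_621 : PosBox ⟨⟨0, 1, 1⟩, ⟨1521, 1535, 2535⟩, ⟨12, 15, 100⟩, ⟨0, 1, 1⟩⟩
    (cR p2.kl p2.v (g2_2.s₀.t) (g2_2.u₀) (p2.wl g2_2.s₀.t) (p2.wh g2_2.s₀.t) g2_2.p) :=
  posBox_of_check (c := ⟨428, ⟨0, 9, 21, 7⟩⟩) (by decide +kernel)

def c2_622 : PosBox ⟨⟨0, 1, 1⟩, ⟨1521, 1535, 2535⟩, ⟨12, 15, 100⟩, ⟨0, 1, 1⟩⟩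
    (cG p2.kl p2.v (g2_2.s₀.t) (g2_2.u₀) (p2.wl g2_2.s₀.t) (p2.wh g2_2.s₀.t) g2_2.p (cC (1) 4)) :=
  posBox_of_check (c := ⟨533, ⟨0, 9, 26, 9⟩⟩) (by decide +kernel)

def c2_625 : PosBox ⟨⟨0, 1, 1⟩, ⟨1521, 1535, 2535⟩, ⟨12, 15, 100⟩, ⟨0, 1, 1⟩⟩
    (cF p2.kl p2.v (g2_2.s₀.t) (g2_2.u₁) (p2.wh g2_2.s₀.t) g2_2.p g2_2.s₀.phi) :=
  posBox_of_check (c := ⟨658, ⟨0, 12, 34, 11⟩⟩) (by decide +kernel)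

def c2_626 : PosBox ⟨⟨0, 1, 1⟩, ⟨1521, 1535, 2535⟩, ⟨12, 15, 100⟩, ⟨0, 1, 1⟩⟩
    (cR p2.kl p2.v (g2_2.s₀.t) (g2_2.u₁) (p2.wl g2_2.s₀.t) (p2.wh g2_2.s₀.t) g2_2.p) :=
  posBox_of_check (c := ⟨428, ⟨0, 9, 21, 7⟩⟩) (by decide +kernel)

def c2_627 : PosBox ⟨⟨0, 1, 1⟩, ⟨1521, 1535, 2535⟩, ⟨12, 15, 100⟩, ⟨0, 1, 1⟩⟩
    (cG p2.kl p2.v (g2_2.s₀.t) (g2_2.u₁) (p2.wl g2_2.s₀.t) (p2.wh g2_2.s₀.t) g2_2.p (cC (1) 4)) :=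
  posBox_of_check (c := ⟨533, ⟨0, 9, 26, 9⟩⟩) (by decide +kernel)

def c2_633 : PosBox ⟨⟨0, 1, 1⟩, ⟨1521, 1535, 2535⟩, ⟨12, 15, 100⟩, ⟨0, 1, 1⟩⟩
    (cF p2.kl p2.v (g2_2.s₁.t) (g2_2.u₀) (p2.wh g2_2.s₁.t) g2_2.p g2_2.s₁.phi) :=
  posBox_of_check (c := ⟨694, ⟨0, 12, 34, 11⟩⟩) (by decide +kernel)

def c2_634 : PosBox ⟨⟨0, 1, 1⟩, ⟨1521, 1535, 2535⟩, ⟨12, 15, 100⟩, ⟨0, 1, 1⟩⟩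
    (cR p2.kl p2.v (g2_2.s₁.t) (g2_2.u₀) (p2.wl g2_2.s₁.t) (p2.wh g2_2.s₁.t) g2_2.p) :=
  posBox_of_check (c := ⟨440, ⟨0, 9, 21, 7⟩⟩) (by decide +kernel)

def c2_635 : PosBox ⟨⟨0, 1, 1⟩, ⟨1521, 1535, 2535⟩, ⟨12, 15, 100⟩, ⟨0, 1, 1⟩⟩
    (cG p2.kl p2.v (g2_2.s₁.t) (g2_2.u₀) (p2.wl g2_2.s₁.t) (p2.wh g2_2.s₁.t) g2_2.p (cC (1) 4)) :=
  posBox_of_check (c := ⟨557, ⟨0, 9, 26, 9⟩⟩) (by decide +kernel)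

def c2_638 : PosBox ⟨⟨0, 1, 1⟩, ⟨1521, 1535, 2535⟩, ⟨12, 15, 100⟩, ⟨0, 1, 1⟩⟩
    (cF p2.kl p2.v (g2_2.s₁.t) (g2_2.u₁) (p2.wh g2_2.s₁.t) g2_2.p g2_2.s₁.phi) :=
  posBox_of_check (c := ⟨694, ⟨0, 12, 34, 11⟩⟩) (by decide +kernel)

def c2_639 : PosBox ⟨⟨0, 1, 1⟩, ⟨1521, 1535, 2535⟩, ⟨12, 15, 100⟩, ⟨0, 1, 1⟩⟩
    (cR p2.kl p2.v (g2_2.s₁.t) (g2_2.u₁) (p2.wl g2_2.s₁.t) (p2.wh g2_2.s₁.t) g2_2.p) :=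
  posBox_of_check (c := ⟨440, ⟨0, 9, 21, 7⟩⟩) (by decide +kernel)

def c2_640 : PosBox ⟨⟨0, 1, 1⟩, ⟨1521, 1535, 2535⟩, ⟨12, 15, 100⟩, ⟨0, 1, 1⟩⟩
    (cG p2.kl p2.v (g2_2.s₁.t) (g2_2.u₁) (p2.wl g2_2.s₁.t) (p2.wh g2_2.s₁.t) g2_2.p (cC (1) 4)) :=
  posBox_of_check (c := ⟨557, ⟨0, 9, 26, 9⟩⟩) (by decide +kernel)

end Vale.Agent.P100.Calib.Closed.End
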