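import Vale.Agent.P100.Calib.SlabEndData

/-!
# Checks of the end strip, piece `2`
-/

set_option linter.defProp false

namespace Vale.Agent.P100.Calib.Closed.End

open BoxPos
open Large (PosBox posBox_of_check)

local instance endChk2A2Add : Add Ex := ⟨Ex.add⟩
local instance endChk2A2Mul : Mul Ex := ⟨Ex.mul⟩
local instance endChk2A2Sub : Sub Ex := ⟨Ex.sub⟩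

def c2_649 : PosBox ⟨⟨0, 1, 1⟩, ⟨1521, 1535, 2535⟩, ⟨12, 15, 100⟩, ⟨0, 1, 1⟩⟩
    (cF p2.kl p2.v (g2_3.s₀.t) (g2_3.u₀) (p2.wh g2_3.s₀.t) g2_3.p g2_3.s₀.phi) :=
  posBox_of_check (c := ⟨582, ⟨0, 12, 28, 11⟩⟩) (by decide +kernel)

def c2_650 : PosBox ⟨⟨0, 1, 1⟩, ⟨1521, 1535, 2535⟩, ⟨12, 15, 100⟩, ⟨0, 1, 1⟩⟩
    (cR p2.kl p2.v (g2_3.s₀.t) (g2_3.u₀) (p2.wl g2_3.s₀.t) (p2.wh g2_3.s₀.t) g2_3.p) :=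
  posBox_of_check (c := ⟨402, ⟨0, 9, 19, 7⟩⟩) (by decide +kernel)

def c2_651 : PosBox ⟨⟨0, 1, 1⟩, ⟨1521, 1535, 2535⟩, ⟨12, 15, 100⟩, ⟨0, 1, 1⟩⟩
    (cG p2.kl p2.v (g2_3.s₀.t) (g2_3.u₀) (p2.wl g2_3.s₀.t) (p2.wh g2_3.s₀.t) g2_3.p (cC (1) 4)) :=
  posBox_of_check (c := ⟨482, ⟨0, 9, 22, 9⟩⟩) (by decide +kernel)

def c2_654 : PosBox ⟨⟨0, 1, 1⟩, ⟨1521, 1535, 2535⟩, ⟨12, 15, 100⟩, ⟨0, 1, 1⟩⟩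
    (cF p2.kl p2.v (g2_3.s₀.t) (g2_3.u₁) (p2.wh g2_3.s₀.t) g2_3.p g2_3.s₀.phi) :=
  posBox_of_check (c := ⟨582, ⟨0, 12, 28, 11⟩⟩) (by decide +kernel)

def c2_655 : PosBox ⟨⟨0, 1, 1⟩, ⟨1521, 1535, 2535⟩, ⟨12, 15, 100⟩, ⟨0, 1, 1⟩⟩
    (cR p2.kl p2.v (g2_3.s₀.t) (g2_3.u₁) (p2.wl g2_3.s₀.t) (p2.wh g2_3.s₀.t) g2_3.p) :=
  posBox_of_check (c := ⟨402, ⟨0, 9, 19, 7⟩⟩) (by decide +kernel)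

def c2_656 : PosBox ⟨⟨0, 1, 1⟩, ⟨1521, 1535, 2535⟩, ⟨12, 15, 100⟩, ⟨0, 1, 1⟩⟩
    (cG p2.kl p2.v (g2_3.s₀.t) (g2_3.u₁) (p2.wl g2_3.s₀.t) (p2.wh g2_3.s₀.t) g2_3.p (cC (1) 4)) :=
  posBox_of_check (c := ⟨482, ⟨0, 9, 22, 9⟩⟩) (by decide +kernel)

def c2_662 : PosBox ⟨⟨0, 1, 1⟩, ⟨1521, 1535, 2535⟩, ⟨12, 15, 100⟩, ⟨0, 1, 1⟩⟩
    (cF p2.kl p2.v (g2_3.s₁.t) (g2_3.u₀) (p2.wh g2_3.s₁.t) g2_3.p g2_3.s₁.phi) :=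
  posBox_of_check (c := ⟨708, ⟨0, 12, 34, 11⟩⟩) (by decide +kernel)

def c2_663 : PosBox ⟨⟨0, 1, 1⟩, ⟨1521, 1535, 2535⟩, ⟨12, 15, 100⟩, ⟨0, 1, 1⟩⟩
    (cR p2.kl p2.v (g2_3.s₁.t) (g2_3.u₀) (p2.wl g2_3.s₁.t) (p2.wh g2_3.s₁.t) g2_3.p) :=
  posBox_of_check (c := ⟨444, ⟨0, 9, 21, 7⟩⟩) (by decide +kernel)

def c2_664 : PosBox ⟨⟨0, 1, 1⟩, ⟨1521, 1535, 2535⟩, ⟨12, 15, 100⟩, ⟨0, 1, 1⟩⟩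
    (cG p2.kl p2.v (g2_3.s₁.t) (g2_3.u₀) (p2.wl g2_3.s₁.t) (p2.wh g2_3.s₁.t) g2_3.p (cC (1) 4)) :=
  posBox_of_check (c := ⟨566, ⟨0, 9, 26, 9⟩⟩) (by decide +kernel)

def c2_667 : PosBox ⟨⟨0, 1, 1⟩, ⟨1521, 1535, 2535⟩, ⟨12, 15, 100⟩, ⟨0, 1, 1⟩⟩
    (cF p2.kl p2.v (g2_3.s₁.t) (g2_3.u₁) (p2.wh g2_3.s₁.t) g2_3.p g2_3.s₁.phi) :=
  posBox_of_check (c := ⟨708, ⟨0, 12, 34, 11⟩⟩) (by decide +kernel)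

def c2_668 : PosBox ⟨⟨0, 1, 1⟩, ⟨1521, 1535, 2535⟩, ⟨12, 15, 100⟩, ⟨0, 1, 1⟩⟩
    (cR p2.kl p2.v (g2_3.s₁.t) (g2_3.u₁) (p2.wl g2_3.s₁.t) (p2.wh g2_3.s₁.t) g2_3.p) :=
  posBox_of_check (c := ⟨444, ⟨0, 9, 21, 7⟩⟩) (by decide +kernel)

def c2_669 : PosBox ⟨⟨0, 1, 1⟩, ⟨1521, 1535, 2535⟩, ⟨12, 15, 100⟩, ⟨0, 1, 1⟩⟩
    (cG p2.kl p2.v (g2_3.s₁.t) (g2_3.u₁) (p2.wl g2_3.s₁.t) (p2.wh g2_3.s₁.t) g2_3.p (cC (1) 4)) :=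
  posBox_of_check (c := ⟨566, ⟨0, 9, 26, 9⟩⟩) (by decide +kernel)

end Vale.Agent.P100.Calib.Closed.End
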