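import Vale.Agent.P100.Calib.SlabEndData

/-!
# Checks of the end strip, piece `2`
-/

set_option linter.defProp false

namespace Vale.Agent.P100.Calib.Closed.End

open BoxPos
open Large (PosBox posBox_of_check)

local instance endChk2B0Add : Add Ex := ⟨Ex.add⟩
local instance endChk2B0Mul : Mul Ex := ⟨Ex.mul⟩
local instance endChk2B0Sub : Sub Ex := ⟨Ex.sub⟩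

def c2_516 : PosBox ⟨⟨0, 1, 1⟩, ⟨1521, 1535, 2535⟩, ⟨12, 15, 100⟩, ⟨0, 1, 1⟩⟩
    ((p2.wh g2.s₀.t) - (p2.wl g2.s₀.t)) :=
  posBox_of_check (c := ⟨183, ⟨0, 3, 5, 1⟩⟩) (by decide +kernel)

def c2_520 : PosBox ⟨⟨0, 1, 1⟩, ⟨1521, 1535, 2535⟩, ⟨12, 15, 100⟩, ⟨0, 1, 1⟩⟩
    (g2.s₀.eta - cEG p2.kl p2.v (g2.s₀.t) (g2.u₀) g2.p) :=
  posBox_of_check (c := ⟨315, ⟨0, 8, 16, 5⟩⟩) (by decide +kernel)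

def c2_521 : PosBox ⟨⟨0, 1, 1⟩, ⟨1521, 1535, 2535⟩, ⟨12, 15, 100⟩, ⟨0, 1, 1⟩⟩
    (g2.s₀.eta' + cEG p2.kl p2.v (g2.s₀.t) (g2.u₀) g2.p - cSag p2.kl p2.v (g2.s₀.t) (g2.u₀) p2.lo g2_0.p) :=
  posBox_of_check (c := ⟨335, ⟨0, 8, 16, 6⟩⟩) (by decide +kernel)

def c2_522 : PosBox ⟨⟨0, 1, 1⟩, ⟨1521, 1535, 2535⟩, ⟨12, 15, 100⟩, ⟨0, 1, 1⟩⟩
    (g2.s₀.eta' + cEG p2.kl p2.v (g2.s₀.t) (g2.u₀) g2.p - cSag p2.kl p2.v (g2.s₀.t) (g2.u₀) p2.lo g2_1.p) :=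
  posBox_of_check (c := ⟨340, ⟨0, 8, 16, 6⟩⟩) (by decide +kernel)

def c2_523 : PosBox ⟨⟨0, 1, 1⟩, ⟨1521, 1535, 2535⟩, ⟨12, 15, 100⟩, ⟨0, 1, 1⟩⟩
    (g2.s₀.eta' + cEG p2.kl p2.v (g2.s₀.t) (g2.u₀) g2.p - cSag p2.kl p2.v (g2.s₀.t) (g2.u₀) p2.lo g2_2.p) :=
  posBox_of_check (c := ⟨341, ⟨0, 8, 16, 6⟩⟩) (by decide +kernel)

def c2_524 : PosBox ⟨⟨0, 1, 1⟩, ⟨1521, 1535, 2535⟩, ⟨12, 15, 100⟩, ⟨0, 1, 1⟩⟩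
    (g2.s₀.eta' + cEG p2.kl p2.v (g2.s₀.t) (g2.u₀) g2.p - cSag p2.kl p2.v (g2.s₀.t) (g2.u₀) p2.lo g2_3.p) :=
  posBox_of_check (c := ⟨341, ⟨0, 8, 16, 6⟩⟩) (by decide +kernel)

def c2_528 : PosBox ⟨⟨0, 1, 1⟩, ⟨1521, 1535, 2535⟩, ⟨12, 15, 100⟩, ⟨0, 1, 1⟩⟩
    (g2.s₀.eta - cEG p2.kl p2.v (g2.s₀.t) (g2.u₁) g2.p) :=
  posBox_of_check (c := ⟨315, ⟨0, 8, 16, 5⟩⟩) (by decide +kernel)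

def c2_529 : PosBox ⟨⟨0, 1, 1⟩, ⟨1521, 1535, 2535⟩, ⟨12, 15, 100⟩, ⟨0, 1, 1⟩⟩
    (g2.s₀.eta' + cEG p2.kl p2.v (g2.s₀.t) (g2.u₁) g2.p - cSag p2.kl p2.v (g2.s₀.t) (g2.u₁) p2.lo g2_0.p) :=
  posBox_of_check (c := ⟨335, ⟨0, 8, 16, 6⟩⟩) (by decide +kernel)

def c2_530 : PosBox ⟨⟨0, 1, 1⟩, ⟨1521, 1535, 2535⟩, ⟨12, 15, 100⟩, ⟨0, 1, 1⟩⟩
    (g2.s₀.eta' + cEG p2.kl p2.v (g2.s₀.t) (g2.u₁) g2.p - cSag p2.kl p2.v (g2.s₀.t) (g2.u₁) p2.lo g2_1.p) :=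
  posBox_of_check (c := ⟨340, ⟨0, 8, 16, 6⟩⟩) (by decide +kernel)

def c2_531 : PosBox ⟨⟨0, 1, 1⟩, ⟨1521, 1535, 2535⟩, ⟨12, 15, 100⟩, ⟨0, 1, 1⟩⟩
    (g2.s₀.eta' + cEG p2.kl p2.v (g2.s₀.t) (g2.u₁) g2.p - cSag p2.kl p2.v (g2.s₀.t) (g2.u₁) p2.lo g2_2.p) :=
  posBox_of_check (c := ⟨341, ⟨0, 8, 16, 6⟩⟩) (by decide +kernel)

def c2_532 : PosBox ⟨⟨0, 1, 1⟩, ⟨1521, 1535, 2535⟩, ⟨12, 15, 100⟩, ⟨0, 1, 1⟩⟩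
    (g2.s₀.eta' + cEG p2.kl p2.v (g2.s₀.t) (g2.u₁) g2.p - cSag p2.kl p2.v (g2.s₀.t) (g2.u₁) p2.lo g2_3.p) :=
  posBox_of_check (c := ⟨341, ⟨0, 8, 16, 6⟩⟩) (by decide +kernel)

def c2_533 : PosBox ⟨⟨0, 1, 1⟩, ⟨1521, 1535, 2535⟩, ⟨12, 15, 100⟩, ⟨0, 1, 1⟩⟩
    (cC (4) 1 * g2.beta * g2.s₀.phi - cC (625) 1 * (cC (1) 1 + Ex.x₂ * p2.v) * g2.s₀.eta * g2.s₀.eta) :=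
  posBox_of_check (c := ⟨167, ⟨0, 0, 6, 6⟩⟩) (by decide +kernel)

def c2_534 : PosBox ⟨⟨0, 1, 1⟩, ⟨1521, 1535, 2535⟩, ⟨12, 15, 100⟩, ⟨0, 1, 1⟩⟩
    (cC (4) 1 * g2.beta * g2.s₀.phi - cC (625) 1 * (cC (1) 1 + Ex.x₂ * p2.v) * g2.s₀.eta' * g2.s₀.eta') :=
  posBox_of_check (c := ⟨167, ⟨0, 0, 6, 6⟩⟩) (by decide +kernel)

def c2_540 : PosBox ⟨⟨0, 1, 1⟩, ⟨1521, 1535, 2535⟩, ⟨12, 15, 100⟩, ⟨0, 1, 1⟩⟩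
    (g2.s₁.eta - cEG p2.kl p2.v (g2.s₁.t) (g2.u₀) g2.p) :=
  posBox_cut₂ (A := ⟨24, 27, 200⟩) (B := ⟨27, 30, 200⟩) (by unfold covers; decide)
    (posBox_of_check (c := ⟨441, ⟨0, 8, 18, 7⟩⟩) (by decide +kernel))
    (posBox_cut₃ (A := ⟨0, 1, 2⟩) (B := ⟨1, 2, 2⟩) (by unfold covers; decide)
      (posBox_of_check (c := ⟨501, ⟨0, 8, 18, 7⟩⟩) (by decide +kernel))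
      (posBox_of_check (c := ⟨501, ⟨0, 8, 18, 7⟩⟩) (by decide +kernel)))

def c2_541 : PosBox ⟨⟨0, 1, 1⟩, ⟨1521, 1535, 2535⟩, ⟨12, 15, 100⟩, ⟨0, 1, 1⟩⟩
    (g2.s₁.eta' + cEG p2.kl p2.v (g2.s₁.t) (g2.u₀) g2.p - cSag p2.kl p2.v (g2.s₁.t) (g2.u₀) p2.lo g2_0.p) :=
  posBox_of_check (c := ⟨402, ⟨0, 8, 18, 8⟩⟩) (by decide +kernel)

def c2_542 : PosBox ⟨⟨0, 1, 1⟩, ⟨1521, 1535, 2535⟩, ⟨12, 15, 100⟩, ⟨0, 1, 1⟩⟩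
    (g2.s₁.eta' + cEG p2.kl p2.v (g2.s₁.t) (g2.u₀) g2.p - cSag p2.kl p2.v (g2.s₁.t) (g2.u₀) p2.lo g2_1.p) :=
  posBox_cut₂ (A := ⟨24, 27, 200⟩) (B := ⟨27, 30, 200⟩) (by unfold covers; decide)
    (posBox_of_check (c := ⟨467, ⟨0, 8, 18, 8⟩⟩) (by decide +kernel))
    (posBox_cut₃ (A := ⟨0, 1, 2⟩) (B := ⟨1, 2, 2⟩) (by unfold covers; decide)
      (posBox_of_check (c := ⟨527, ⟨0, 8, 18, 8⟩⟩) (by decide +kernel))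
      (posBox_of_check (c := ⟨527, ⟨0, 8, 18, 8⟩⟩) (by decide +kernel)))

def c2_543 : PosBox ⟨⟨0, 1, 1⟩, ⟨1521, 1535, 2535⟩, ⟨12, 15, 100⟩, ⟨0, 1, 1⟩⟩
    (g2.s₁.eta' + cEG p2.kl p2.v (g2.s₁.t) (g2.u₀) g2.p - cSag p2.kl p2.v (g2.s₁.t) (g2.u₀) p2.lo g2_2.p) :=
  posBox_of_check (c := ⟨407, ⟨0, 8, 18, 8⟩⟩) (by decide +kernel)

def c2_544 : PosBox ⟨⟨0, 1, 1⟩, ⟨1521, 1535, 2535⟩, ⟨12, 15, 100⟩, ⟨0, 1, 1⟩⟩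
    (g2.s₁.eta' + cEG p2.kl p2.v (g2.s₁.t) (g2.u₀) g2.p - cSag p2.kl p2.v (g2.s₁.t) (g2.u₀) p2.lo g2_3.p) :=
  posBox_of_check (c := ⟨407, ⟨0, 8, 18, 8⟩⟩) (by decide +kernel)

def c2_548 : PosBox ⟨⟨0, 1, 1⟩, ⟨1521, 1535, 2535⟩, ⟨12, 15, 100⟩, ⟨0, 1, 1⟩⟩
    (g2.s₁.eta - cEG p2.kl p2.v (g2.s₁.t) (g2.u₁) g2.p) :=
  posBox_cut₂ (A := ⟨24, 27, 200⟩) (B := ⟨27, 30, 200⟩) (by unfold covers; decide)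
    (posBox_of_check (c := ⟨441, ⟨0, 8, 18, 7⟩⟩) (by decide +kernel))
    (posBox_cut₃ (A := ⟨0, 1, 2⟩) (B := ⟨1, 2, 2⟩) (by unfold covers; decide)
      (posBox_of_check (c := ⟨501, ⟨0, 8, 18, 7⟩⟩) (by decide +kernel))
      (posBox_of_check (c := ⟨501, ⟨0, 8, 18, 7⟩⟩) (by decide +kernel)))

def c2_549 : PosBox ⟨⟨0, 1, 1⟩, ⟨1521, 1535, 2535⟩, ⟨12, 15, 100⟩, ⟨0, 1, 1⟩⟩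
    (g2.s₁.eta' + cEG p2.kl p2.v (g2.s₁.t) (g2.u₁) g2.p - cSag p2.kl p2.v (g2.s₁.t) (g2.u₁) p2.lo g2_0.p) :=
  posBox_of_check (c := ⟨402, ⟨0, 8, 18, 8⟩⟩) (by decide +kernel)

def c2_550 : PosBox ⟨⟨0, 1, 1⟩, ⟨1521, 1535, 2535⟩, ⟨12, 15, 100⟩, ⟨0, 1, 1⟩⟩
    (g2.s₁.eta' + cEG p2.kl p2.v (g2.s₁.t) (g2.u₁) g2.p - cSag p2.kl p2.v (g2.s₁.t) (g2.u₁) p2.lo g2_1.p) :=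
  posBox_of_check (c := ⟨407, ⟨0, 8, 18, 8⟩⟩) (by decide +kernel)

def c2_551 : PosBox ⟨⟨0, 1, 1⟩, ⟨1521, 1535, 2535⟩, ⟨12, 15, 100⟩, ⟨0, 1, 1⟩⟩
    (g2.s₁.eta' + cEG p2.kl p2.v (g2.s₁.t) (g2.u₁) g2.p - cSag p2.kl p2.v (g2.s₁.t) (g2.u₁) p2.lo g2_2.p) :=
  posBox_of_check (c := ⟨407, ⟨0, 8, 18, 8⟩⟩) (by decide +kernel)

def c2_552 : PosBox ⟨⟨0, 1, 1⟩, ⟨1521, 1535, 2535⟩, ⟨12, 15, 100⟩, ⟨0, 1, 1⟩⟩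
    (g2.s₁.eta' + cEG p2.kl p2.v (g2.s₁.t) (g2.u₁) g2.p - cSag p2.kl p2.v (g2.s₁.t) (g2.u₁) p2.lo g2_3.p) :=
  posBox_of_check (c := ⟨407, ⟨0, 8, 18, 8⟩⟩) (by decide +kernel)

def c2_553 : PosBox ⟨⟨0, 1, 1⟩, ⟨1521, 1535, 2535⟩, ⟨12, 15, 100⟩, ⟨0, 1, 1⟩⟩
    (cC (4) 1 * g2.beta * g2.s₁.phi - cC (625) 1 * (cC (1) 1 + Ex.x₂ * p2.v) * g2.s₁.eta * g2.s₁.eta) :=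
  posBox_of_check (c := ⟨168, ⟨0, 0, 6, 6⟩⟩) (by decide +kernel)

def c2_554 : PosBox ⟨⟨0, 1, 1⟩, ⟨1521, 1535, 2535⟩, ⟨12, 15, 100⟩, ⟨0, 1, 1⟩⟩
    (cC (4) 1 * g2.beta * g2.s₁.phi - cC (625) 1 * (cC (1) 1 + Ex.x₂ * p2.v) * g2.s₁.eta' * g2.s₁.eta') :=
  posBox_of_check (c := ⟨168, ⟨0, 0, 6, 6⟩⟩) (by decide +kernel)

def c2_555 : PosBox ⟨⟨0, 1, 1⟩, ⟨1521, 1535, 2535⟩, ⟨12, 15, 100⟩, ⟨0, 1, 1⟩⟩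
    (g2.beta) :=
  posBox_of_check (c := ⟨101, ⟨0, 0, 4, 4⟩⟩) (by decide +kernel)

def c2_556 : PosBox ⟨⟨0, 1, 1⟩, ⟨1521, 1535, 2535⟩, ⟨12, 15, 100⟩, ⟨0, 1, 1⟩⟩
    (eTGG cA Ex.x₂ p2.v g2.p - g2.beta) :=
  posBox_of_check (c := ⟨304, ⟨0, 7, 17, 6⟩⟩) (by decide +kernel)

def c2_557 : PosBox ⟨⟨0, 1, 1⟩, ⟨1521, 1535, 2535⟩, ⟨12, 15, 100⟩, ⟨0, 1, 1⟩⟩
    (g2.p + cC (1) 4) :=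
  posBox_of_check (c := ⟨62, ⟨0, 1, 3, 1⟩⟩) (by decide +kernel)

def c2_563 : PosBox ⟨⟨0, 1, 1⟩, ⟨1521, 1535, 2535⟩, ⟨12, 15, 100⟩, ⟨0, 1, 1⟩⟩
    (g2_0.s₀.eta - cEG p2.kl p2.v (g2_0.s₀.t) (g2_0.u₀) g2_0.p) :=
  posBox_of_check (c := ⟨335, ⟨0, 8, 16, 6⟩⟩) (by decide +kernel)

def c2_564 : PosBox ⟨⟨0, 1, 1⟩, ⟨1521, 1535, 2535⟩, ⟨12, 15, 100⟩, ⟨0, 1, 1⟩⟩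
    (g2_0.s₀.eta' + cEG p2.kl p2.v (g2_0.s₀.t) (g2_0.u₀) g2_0.p - cSag p2.kl p2.v (g2_0.s₀.t) (g2_0.u₀) p2.lo g2_0.p) :=
  posBox_of_check (c := ⟨338, ⟨0, 8, 16, 6⟩⟩) (by decide +kernel)

def c2_568 : PosBox ⟨⟨0, 1, 1⟩, ⟨1521, 1535, 2535⟩, ⟨12, 15, 100⟩, ⟨0, 1, 1⟩⟩
    (g2_0.s₀.eta - cEG p2.kl p2.v (g2_0.s₀.t) (g2_0.u₁) g2_0.p) :=
  posBox_of_check (c := ⟨335, ⟨0, 8, 16, 6⟩⟩) (by decide +kernel)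

def c2_569 : PosBox ⟨⟨0, 1, 1⟩, ⟨1521, 1535, 2535⟩, ⟨12, 15, 100⟩, ⟨0, 1, 1⟩⟩
    (g2_0.s₀.eta' + cEG p2.kl p2.v (g2_0.s₀.t) (g2_0.u₁) g2_0.p - cSag p2.kl p2.v (g2_0.s₀.t) (g2_0.u₁) p2.lo g2_0.p) :=
  posBox_of_check (c := ⟨338, ⟨0, 8, 16, 6⟩⟩) (by decide +kernel)

def c2_570 : PosBox ⟨⟨0, 1, 1⟩, ⟨1521, 1535, 2535⟩, ⟨12, 15, 100⟩, ⟨0, 1, 1⟩⟩
    (cC (4) 1 * g2_0.beta * g2_0.s₀.phi - cC (625) 1 * (cC (1) 1 + Ex.x₂ * p2.v) * g2_0.s₀.eta * g2_0.s₀.eta) :=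
  posBox_of_check (c := ⟨165, ⟨0, 0, 6, 6⟩⟩) (by decide +kernel)

def c2_571 : PosBox ⟨⟨0, 1, 1⟩, ⟨1521, 1535, 2535⟩, ⟨12, 15, 100⟩, ⟨0, 1, 1⟩⟩
    (cC (4) 1 * g2_0.beta * g2_0.s₀.phi - cC (625) 1 * (cC (1) 1 + Ex.x₂ * p2.v) * g2_0.s₀.eta' * g2_0.s₀.eta') :=
  posBox_of_check (c := ⟨165, ⟨0, 0, 6, 6⟩⟩) (by decide +kernel)

def c2_577 : PosBox ⟨⟨0, 1, 1⟩, ⟨1521, 1535, 2535⟩, ⟨12, 15, 100⟩, ⟨0, 1, 1⟩⟩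
    (g2_0.s₁.eta - cEG p2.kl p2.v (g2_0.s₁.t) (g2_0.u₀) g2_0.p) :=
  posBox_of_check (c := ⟨399, ⟨0, 8, 18, 8⟩⟩) (by decide +kernel)

def c2_578 : PosBox ⟨⟨0, 1, 1⟩, ⟨1521, 1535, 2535⟩, ⟨12, 15, 100⟩, ⟨0, 1, 1⟩⟩
    (g2_0.s₁.eta' + cEG p2.kl p2.v (g2_0.s₁.t) (g2_0.u₀) g2_0.p - cSag p2.kl p2.v (g2_0.s₁.t) (g2_0.u₀) p2.lo g2_0.p) :=
  posBox_cut₂ (A := ⟨24, 27, 200⟩) (B := ⟨27, 30, 200⟩) (by unfold covers; decide)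
    (posBox_cut₃ (A := ⟨0, 1, 2⟩) (B := ⟨1, 2, 2⟩) (by unfold covers; decide)
      (posBox_of_check (c := ⟨522, ⟨0, 8, 18, 8⟩⟩) (by decide +kernel))
      (posBox_of_check (c := ⟨522, ⟨0, 8, 18, 8⟩⟩) (by decide +kernel)))
    (posBox_cut₃ (A := ⟨0, 1, 2⟩) (B := ⟨1, 2, 2⟩) (by unfold covers; decide)
      (posBox_of_check (c := ⟨522, ⟨0, 8, 18, 8⟩⟩) (by decide +kernel))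
      (posBox_of_check (c := ⟨522, ⟨0, 8, 18, 8⟩⟩) (by decide +kernel)))

def c2_582 : PosBox ⟨⟨0, 1, 1⟩, ⟨1521, 1535, 2535⟩, ⟨12, 15, 100⟩, ⟨0, 1, 1⟩⟩
    (g2_0.s₁.eta - cEG p2.kl p2.v (g2_0.s₁.t) (g2_0.u₁) g2_0.p) :=
  posBox_of_check (c := ⟨399, ⟨0, 8, 18, 8⟩⟩) (by decide +kernel)

def c2_583 : PosBox ⟨⟨0, 1, 1⟩, ⟨1521, 1535, 2535⟩, ⟨12, 15, 100⟩, ⟨0, 1, 1⟩⟩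
    (g2_0.s₁.eta' + cEG p2.kl p2.v (g2_0.s₁.t) (g2_0.u₁) g2_0.p - cSag p2.kl p2.v (g2_0.s₁.t) (g2_0.u₁) p2.lo g2_0.p) :=
  posBox_of_check (c := ⟨402, ⟨0, 8, 18, 8⟩⟩) (by decide +kernel)

def c2_584 : PosBox ⟨⟨0, 1, 1⟩, ⟨1521, 1535, 2535⟩, ⟨12, 15, 100⟩, ⟨0, 1, 1⟩⟩
    (cC (4) 1 * g2_0.beta * g2_0.s₁.phi - cC (625) 1 * (cC (1) 1 + Ex.x₂ * p2.v) * g2_0.s₁.eta * g2_0.s₁.eta) :=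
  posBox_of_check (c := ⟨167, ⟨0, 0, 6, 6⟩⟩) (by decide +kernel)

def c2_585 : PosBox ⟨⟨0, 1, 1⟩, ⟨1521, 1535, 2535⟩, ⟨12, 15, 100⟩, ⟨0, 1, 1⟩⟩
    (cC (4) 1 * g2_0.beta * g2_0.s₁.phi - cC (625) 1 * (cC (1) 1 + Ex.x₂ * p2.v) * g2_0.s₁.eta' * g2_0.s₁.eta') :=
  posBox_of_check (c := ⟨167, ⟨0, 0, 6, 6⟩⟩) (by decide +kernel)

def c2_586 : PosBox ⟨⟨0, 1, 1⟩, ⟨1521, 1535, 2535⟩, ⟨12, 15, 100⟩, ⟨0, 1, 1⟩⟩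
    (g2_0.beta) :=
  posBox_of_check (c := ⟨101, ⟨0, 0, 4, 4⟩⟩) (by decide +kernel)

def c2_587 : PosBox ⟨⟨0, 1, 1⟩, ⟨1521, 1535, 2535⟩, ⟨12, 15, 100⟩, ⟨0, 1, 1⟩⟩
    (eTGG cA Ex.x₂ p2.v g2_0.p - g2_0.beta) :=
  posBox_of_check (c := ⟨330, ⟨0, 7, 17, 7⟩⟩) (by decide +kernel)

def c2_588 : PosBox ⟨⟨0, 1, 1⟩, ⟨1521, 1535, 2535⟩, ⟨12, 15, 100⟩, ⟨0, 1, 1⟩⟩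
    (g2_0.p + cC (1) 4) :=
  posBox_of_check (c := ⟨135, ⟨0, 1, 3, 2⟩⟩) (by decide +kernel)

def c2_589 : PosBox ⟨⟨0, 1, 1⟩, ⟨1521, 1535, 2535⟩, ⟨12, 15, 100⟩, ⟨0, 1, 1⟩⟩
    ((p2.wh g2_1.s₀.t) - (p2.wl g2_1.s₀.t)) :=
  posBox_of_check (c := ⟨203, ⟨0, 3, 7, 1⟩⟩) (by decide +kernel)

def c2_593 : PosBox ⟨⟨0, 1, 1⟩, ⟨1521, 1535, 2535⟩, ⟨12, 15, 100⟩, ⟨0, 1, 1⟩⟩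
    (g2_1.s₀.eta - cEG p2.kl p2.v (g2_1.s₀.t) (g2_1.u₀) g2_1.p) :=
  posBox_of_check (c := ⟨358, ⟨0, 8, 18, 6⟩⟩) (by decide +kernel)

def c2_594 : PosBox ⟨⟨0, 1, 1⟩, ⟨1521, 1535, 2535⟩, ⟨12, 15, 100⟩, ⟨0, 1, 1⟩⟩
    (g2_1.s₀.eta' + cEG p2.kl p2.v (g2_1.s₀.t) (g2_1.u₀) g2_1.p - cSag p2.kl p2.v (g2_1.s₀.t) (g2_1.u₀) p2.lo g2_1.p) :=
  posBox_of_check (c := ⟨361, ⟨0, 8, 18, 6⟩⟩) (by decide +kernel)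

def c2_598 : PosBox ⟨⟨0, 1, 1⟩, ⟨1521, 1535, 2535⟩, ⟨12, 15, 100⟩, ⟨0, 1, 1⟩⟩
    (g2_1.s₀.eta - cEG p2.kl p2.v (g2_1.s₀.t) (g2_1.u₁) g2_1.p) :=
  posBox_of_check (c := ⟨358, ⟨0, 8, 18, 6⟩⟩) (by decide +kernel)

def c2_599 : PosBox ⟨⟨0, 1, 1⟩, ⟨1521, 1535, 2535⟩, ⟨12, 15, 100⟩, ⟨0, 1, 1⟩⟩
    (g2_1.s₀.eta' + cEG p2.kl p2.v (g2_1.s₀.t) (g2_1.u₁) g2_1.p - cSag p2.kl p2.v (g2_1.s₀.t) (g2_1.u₁) p2.lo g2_1.p) :=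
  posBox_of_check (c := ⟨361, ⟨0, 8, 18, 6⟩⟩) (by decide +kernel)

def c2_600 : PosBox ⟨⟨0, 1, 1⟩, ⟨1521, 1535, 2535⟩, ⟨12, 15, 100⟩, ⟨0, 1, 1⟩⟩
    (cC (4) 1 * g2_1.beta * g2_1.s₀.phi - cC (625) 1 * (cC (1) 1 + Ex.x₂ * p2.v) * g2_1.s₀.eta * g2_1.s₀.eta) :=
  posBox_of_check (c := ⟨167, ⟨0, 0, 6, 6⟩⟩) (by decide +kernel)

def c2_601 : PosBox ⟨⟨0, 1, 1⟩, ⟨1521, 1535, 2535⟩, ⟨12, 15, 100⟩, ⟨0, 1, 1⟩⟩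
    (cC (4) 1 * g2_1.beta * g2_1.s₀.phi - cC (625) 1 * (cC (1) 1 + Ex.x₂ * p2.v) * g2_1.s₀.eta' * g2_1.s₀.eta') :=
  posBox_of_check (c := ⟨167, ⟨0, 0, 6, 6⟩⟩) (by decide +kernel)

def c2_607 : PosBox ⟨⟨0, 1, 1⟩, ⟨1521, 1535, 2535⟩, ⟨12, 15, 100⟩, ⟨0, 1, 1⟩⟩
    (g2_1.s₁.eta - cEG p2.kl p2.v (g2_1.s₁.t) (g2_1.u₀) g2_1.p) :=
  posBox_of_check (c := ⟨357, ⟨0, 8, 16, 6⟩⟩) (by decide +kernel)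

def c2_608 : PosBox ⟨⟨0, 1, 1⟩, ⟨1521, 1535, 2535⟩, ⟨12, 15, 100⟩, ⟨0, 1, 1⟩⟩
    (g2_1.s₁.eta' + cEG p2.kl p2.v (g2_1.s₁.t) (g2_1.u₀) g2_1.p - cSag p2.kl p2.v (g2_1.s₁.t) (g2_1.u₀) p2.lo g2_1.p) :=
  posBox_of_check (c := ⟨360, ⟨0, 8, 16, 6⟩⟩) (by decide +kernel)

def c2_612 : PosBox ⟨⟨0, 1, 1⟩, ⟨1521, 1535, 2535⟩, ⟨12, 15, 100⟩, ⟨0, 1, 1⟩⟩
    (g2_1.s₁.eta - cEG p2.kl p2.v (g2_1.s₁.t) (g2_1.u₁) g2_1.p) :=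
  posBox_of_check (c := ⟨357, ⟨0, 8, 16, 6⟩⟩) (by decide +kernel)

def c2_613 : PosBox ⟨⟨0, 1, 1⟩, ⟨1521, 1535, 2535⟩, ⟨12, 15, 100⟩, ⟨0, 1, 1⟩⟩
    (g2_1.s₁.eta' + cEG p2.kl p2.v (g2_1.s₁.t) (g2_1.u₁) g2_1.p - cSag p2.kl p2.v (g2_1.s₁.t) (g2_1.u₁) p2.lo g2_1.p) :=
  posBox_of_check (c := ⟨360, ⟨0, 8, 16, 6⟩⟩) (by decide +kernel)

def c2_614 : PosBox ⟨⟨0, 1, 1⟩, ⟨1521, 1535, 2535⟩, ⟨12, 15, 100⟩, ⟨0, 1, 1⟩⟩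
    (cC (4) 1 * g2_1.beta * g2_1.s₁.phi - cC (625) 1 * (cC (1) 1 + Ex.x₂ * p2.v) * g2_1.s₁.eta * g2_1.s₁.eta) :=
  posBox_of_check (c := ⟨167, ⟨0, 0, 6, 6⟩⟩) (by decide +kernel)

def c2_615 : PosBox ⟨⟨0, 1, 1⟩, ⟨1521, 1535, 2535⟩, ⟨12, 15, 100⟩, ⟨0, 1, 1⟩⟩
    (cC (4) 1 * g2_1.beta * g2_1.s₁.phi - cC (625) 1 * (cC (1) 1 + Ex.x₂ * p2.v) * g2_1.s₁.eta' * g2_1.s₁.eta') :=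
  posBox_of_check (c := ⟨167, ⟨0, 0, 6, 6⟩⟩) (by decide +kernel)

def c2_616 : PosBox ⟨⟨0, 1, 1⟩, ⟨1521, 1535, 2535⟩, ⟨12, 15, 100⟩, ⟨0, 1, 1⟩⟩
    (g2_1.beta) :=
  posBox_of_check (c := ⟨100, ⟨0, 0, 4, 4⟩⟩) (by decide +kernel)

def c2_617 : PosBox ⟨⟨0, 1, 1⟩, ⟨1521, 1535, 2535⟩, ⟨12, 15, 100⟩, ⟨0, 1, 1⟩⟩
    (eTGG cA Ex.x₂ p2.v g2_1.p - g2_1.beta) :=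
  posBox_of_check (c := ⟨335, ⟨0, 7, 17, 7⟩⟩) (by decide +kernel)

def c2_618 : PosBox ⟨⟨0, 1, 1⟩, ⟨1521, 1535, 2535⟩, ⟨12, 15, 100⟩, ⟨0, 1, 1⟩⟩
    (g2_1.p + cC (1) 4) :=
  posBox_of_check (c := ⟨138, ⟨0, 1, 3, 2⟩⟩) (by decide +kernel)

def c2_619 : PosBox ⟨⟨0, 1, 1⟩, ⟨1521, 1535, 2535⟩, ⟨12, 15, 100⟩, ⟨0, 1, 1⟩⟩
    ((p2.wh g2_2.s₀.t) - (p2.wl g2_2.s₀.t)) :=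
  posBox_of_check (c := ⟨208, ⟨0, 3, 7, 1⟩⟩) (by decide +kernel)

def c2_623 : PosBox ⟨⟨0, 1, 1⟩, ⟨1521, 1535, 2535⟩, ⟨12, 15, 100⟩, ⟨0, 1, 1⟩⟩
    (g2_2.s₀.eta - cEG p2.kl p2.v (g2_2.s₀.t) (g2_2.u₀) g2_2.p) :=
  posBox_of_check (c := ⟨364, ⟨0, 8, 18, 6⟩⟩) (by decide +kernel)

def c2_624 : PosBox ⟨⟨0, 1, 1⟩, ⟨1521, 1535, 2535⟩, ⟨12, 15, 100⟩, ⟨0, 1, 1⟩⟩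
    (g2_2.s₀.eta' + cEG p2.kl p2.v (g2_2.s₀.t) (g2_2.u₀) g2_2.p - cSag p2.kl p2.v (g2_2.s₀.t) (g2_2.u₀) p2.lo g2_2.p) :=
  posBox_of_check (c := ⟨367, ⟨0, 8, 18, 6⟩⟩) (by decide +kernel)

def c2_628 : PosBox ⟨⟨0, 1, 1⟩, ⟨1521, 1535, 2535⟩, ⟨12, 15, 100⟩, ⟨0, 1, 1⟩⟩
    (g2_2.s₀.eta - cEG p2.kl p2.v (g2_2.s₀.t) (g2_2.u₁) g2_2.p) :=
  posBox_of_check (c := ⟨364, ⟨0, 8, 18, 6⟩⟩) (by decide +kernel)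

def c2_629 : PosBox ⟨⟨0, 1, 1⟩, ⟨1521, 1535, 2535⟩, ⟨12, 15, 100⟩, ⟨0, 1, 1⟩⟩
    (g2_2.s₀.eta' + cEG p2.kl p2.v (g2_2.s₀.t) (g2_2.u₁) g2_2.p - cSag p2.kl p2.v (g2_2.s₀.t) (g2_2.u₁) p2.lo g2_2.p) :=
  posBox_of_check (c := ⟨367, ⟨0, 8, 18, 6⟩⟩) (by decide +kernel)

def c2_630 : PosBox ⟨⟨0, 1, 1⟩, ⟨1521, 1535, 2535⟩, ⟨12, 15, 100⟩, ⟨0, 1, 1⟩⟩
    (cC (4) 1 * g2_2.beta * g2_2.s₀.phi - cC (625) 1 * (cC (1) 1 + Ex.x₂ * p2.v) * g2_2.s₀.eta * g2_2.s₀.eta) :=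
  posBox_of_check (c := ⟨196, ⟨0, 0, 8, 7⟩⟩) (by decide +kernel)

def c2_631 : PosBox ⟨⟨0, 1, 1⟩, ⟨1521, 1535, 2535⟩, ⟨12, 15, 100⟩, ⟨0, 1, 1⟩⟩
    (cC (4) 1 * g2_2.beta * g2_2.s₀.phi - cC (625) 1 * (cC (1) 1 + Ex.x₂ * p2.v) * g2_2.s₀.eta' * g2_2.s₀.eta') :=
  posBox_of_check (c := ⟨167, ⟨0, 0, 6, 6⟩⟩) (by decide +kernel)

def c2_632 : PosBox ⟨⟨0, 1, 1⟩, ⟨1521, 1535, 2535⟩, ⟨12, 15, 100⟩, ⟨0, 1, 1⟩⟩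
    ((p2.wh g2_2.s₁.t) - (p2.wl g2_2.s₁.t)) :=
  posBox_of_check (c := ⟨220, ⟨0, 3, 7, 1⟩⟩) (by decide +kernel)

def c2_636 : PosBox ⟨⟨0, 1, 1⟩, ⟨1521, 1535, 2535⟩, ⟨12, 15, 100⟩, ⟨0, 1, 1⟩⟩
    (g2_2.s₁.eta - cEG p2.kl p2.v (g2_2.s₁.t) (g2_2.u₀) g2_2.p) :=
  posBox_of_check (c := ⟨376, ⟨0, 8, 18, 6⟩⟩) (by decide +kernel)

def c2_637 : PosBox ⟨⟨0, 1, 1⟩, ⟨1521, 1535, 2535⟩, ⟨12, 15, 100⟩, ⟨0, 1, 1⟩⟩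
    (g2_2.s₁.eta' + cEG p2.kl p2.v (g2_2.s₁.t) (g2_2.u₀) g2_2.p - cSag p2.kl p2.v (g2_2.s₁.t) (g2_2.u₀) p2.lo g2_2.p) :=
  posBox_of_check (c := ⟨379, ⟨0, 8, 18, 6⟩⟩) (by decide +kernel)

def c2_641 : PosBox ⟨⟨0, 1, 1⟩, ⟨1521, 1535, 2535⟩, ⟨12, 15, 100⟩, ⟨0, 1, 1⟩⟩
    (g2_2.s₁.eta - cEG p2.kl p2.v (g2_2.s₁.t) (g2_2.u₁) g2_2.p) :=
  posBox_of_check (c := ⟨376, ⟨0, 8, 18, 6⟩⟩) (by decide +kernel)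

end Vale.Agent.P100.Calib.Closed.End
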