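import Vale.Agent.P100.Calib.SlabEndData

/-!
# Checks of the end strip, piece `2`
-/

set_option linter.defProp false

namespace Vale.Agent.P100.Calib.Closed.End

open BoxPos
open Large (PosBox posBox_of_check)

local instance endChk2B1Add : Add Ex := ⟨Ex.add⟩
local instance endChk2B1Mul : Mul Ex := ⟨Ex.mul⟩
local instance endChk2B1Sub : Sub Ex := ⟨Ex.sub⟩

def c2_642 : PosBox ⟨⟨0, 1, 1⟩, ⟨1521, 1535, 2535⟩, ⟨12, 15, 100⟩, ⟨0, 1, 1⟩⟩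
    (g2_2.s₁.eta' + cEG p2.kl p2.v (g2_2.s₁.t) (g2_2.u₁) g2_2.p - cSag p2.kl p2.v (g2_2.s₁.t) (g2_2.u₁) p2.lo g2_2.p) :=
  posBox_of_check (c := ⟨379, ⟨0, 8, 18, 6⟩⟩) (by decide +kernel)

def c2_643 : PosBox ⟨⟨0, 1, 1⟩, ⟨1521, 1535, 2535⟩, ⟨12, 15, 100⟩, ⟨0, 1, 1⟩⟩
    (cC (4) 1 * g2_2.beta * g2_2.s₁.phi - cC (625) 1 * (cC (1) 1 + Ex.x₂ * p2.v) * g2_2.s₁.eta * g2_2.s₁.eta) :=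
  posBox_of_check (c := ⟨196, ⟨0, 0, 8, 7⟩⟩) (by decide +kernel)

def c2_644 : PosBox ⟨⟨0, 1, 1⟩, ⟨1521, 1535, 2535⟩, ⟨12, 15, 100⟩, ⟨0, 1, 1⟩⟩
    (cC (4) 1 * g2_2.beta * g2_2.s₁.phi - cC (625) 1 * (cC (1) 1 + Ex.x₂ * p2.v) * g2_2.s₁.eta' * g2_2.s₁.eta') :=
  posBox_of_check (c := ⟨165, ⟨0, 0, 6, 6⟩⟩) (by decide +kernel)

def c2_645 : PosBox ⟨⟨0, 1, 1⟩, ⟨1521, 1535, 2535⟩, ⟨12, 15, 100⟩, ⟨0, 1, 1⟩⟩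
    (g2_2.beta) :=
  posBox_of_check (c := ⟨102, ⟨0, 0, 4, 4⟩⟩) (by decide +kernel)

def c2_646 : PosBox ⟨⟨0, 1, 1⟩, ⟨1521, 1535, 2535⟩, ⟨12, 15, 100⟩, ⟨0, 1, 1⟩⟩
    (eTGG cA Ex.x₂ p2.v g2_2.p - g2_2.beta) :=
  posBox_of_check (c := ⟨336, ⟨0, 7, 17, 7⟩⟩) (by decide +kernel)

def c2_647 : PosBox ⟨⟨0, 1, 1⟩, ⟨1521, 1535, 2535⟩, ⟨12, 15, 100⟩, ⟨0, 1, 1⟩⟩
    (g2_2.p + cC (1) 4) :=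
  posBox_of_check (c := ⟨139, ⟨0, 1, 3, 2⟩⟩) (by decide +kernel)

def c2_648 : PosBox ⟨⟨0, 1, 1⟩, ⟨1521, 1535, 2535⟩, ⟨12, 15, 100⟩, ⟨0, 1, 1⟩⟩
    ((p2.wh g2_3.s₀.t) - (p2.wl g2_3.s₀.t)) :=
  posBox_of_check (c := ⟨183, ⟨0, 3, 5, 1⟩⟩) (by decide +kernel)

def c2_652 : PosBox ⟨⟨0, 1, 1⟩, ⟨1521, 1535, 2535⟩, ⟨12, 15, 100⟩, ⟨0, 1, 1⟩⟩
    (g2_3.s₀.eta - cEG p2.kl p2.v (g2_3.s₀.t) (g2_3.u₀) g2_3.p) :=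
  posBox_of_check (c := ⟨338, ⟨0, 8, 16, 6⟩⟩) (by decide +kernel)

def c2_653 : PosBox ⟨⟨0, 1, 1⟩, ⟨1521, 1535, 2535⟩, ⟨12, 15, 100⟩, ⟨0, 1, 1⟩⟩
    (g2_3.s₀.eta' + cEG p2.kl p2.v (g2_3.s₀.t) (g2_3.u₀) g2_3.p - cSag p2.kl p2.v (g2_3.s₀.t) (g2_3.u₀) p2.lo g2_3.p) :=
  posBox_of_check (c := ⟨341, ⟨0, 8, 16, 6⟩⟩) (by decide +kernel)

def c2_657 : PosBox ⟨⟨0, 1, 1⟩, ⟨1521, 1535, 2535⟩, ⟨12, 15, 100⟩, ⟨0, 1, 1⟩⟩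
    (g2_3.s₀.eta - cEG p2.kl p2.v (g2_3.s₀.t) (g2_3.u₁) g2_3.p) :=
  posBox_of_check (c := ⟨338, ⟨0, 8, 16, 6⟩⟩) (by decide +kernel)

def c2_658 : PosBox ⟨⟨0, 1, 1⟩, ⟨1521, 1535, 2535⟩, ⟨12, 15, 100⟩, ⟨0, 1, 1⟩⟩
    (g2_3.s₀.eta' + cEG p2.kl p2.v (g2_3.s₀.t) (g2_3.u₁) g2_3.p - cSag p2.kl p2.v (g2_3.s₀.t) (g2_3.u₁) p2.lo g2_3.p) :=
  posBox_of_check (c := ⟨341, ⟨0, 8, 16, 6⟩⟩) (by decide +kernel)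

def c2_659 : PosBox ⟨⟨0, 1, 1⟩, ⟨1521, 1535, 2535⟩, ⟨12, 15, 100⟩, ⟨0, 1, 1⟩⟩
    (cC (4) 1 * g2_3.beta * g2_3.s₀.phi - cC (625) 1 * (cC (1) 1 + Ex.x₂ * p2.v) * g2_3.s₀.eta * g2_3.s₀.eta) :=
  posBox_of_check (c := ⟨194, ⟨0, 0, 8, 7⟩⟩) (by decide +kernel)

def c2_660 : PosBox ⟨⟨0, 1, 1⟩, ⟨1521, 1535, 2535⟩, ⟨12, 15, 100⟩, ⟨0, 1, 1⟩⟩
    (cC (4) 1 * g2_3.beta * g2_3.s₀.phi - cC (625) 1 * (cC (1) 1 + Ex.x₂ * p2.v) * g2_3.s₀.eta' * g2_3.s₀.eta') :=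
  posBox_of_check (c := ⟨164, ⟨0, 0, 6, 6⟩⟩) (by decide +kernel)

def c2_661 : PosBox ⟨⟨0, 1, 1⟩, ⟨1521, 1535, 2535⟩, ⟨12, 15, 100⟩, ⟨0, 1, 1⟩⟩
    ((p2.wh g2_3.s₁.t) - (p2.wl g2_3.s₁.t)) :=
  posBox_of_check (c := ⟨225, ⟨0, 3, 7, 1⟩⟩) (by decide +kernel)

def c2_665 : PosBox ⟨⟨0, 1, 1⟩, ⟨1521, 1535, 2535⟩, ⟨12, 15, 100⟩, ⟨0, 1, 1⟩⟩
    (g2_3.s₁.eta - cEG p2.kl p2.v (g2_3.s₁.t) (g2_3.u₀) g2_3.p) :=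
  posBox_of_check (c := ⟨380, ⟨0, 8, 18, 6⟩⟩) (by decide +kernel)

def c2_666 : PosBox ⟨⟨0, 1, 1⟩, ⟨1521, 1535, 2535⟩, ⟨12, 15, 100⟩, ⟨0, 1, 1⟩⟩
    (g2_3.s₁.eta' + cEG p2.kl p2.v (g2_3.s₁.t) (g2_3.u₀) g2_3.p - cSag p2.kl p2.v (g2_3.s₁.t) (g2_3.u₀) p2.lo g2_3.p) :=
  posBox_of_check (c := ⟨383, ⟨0, 8, 18, 6⟩⟩) (by decide +kernel)

def c2_670 : PosBox ⟨⟨0, 1, 1⟩, ⟨1521, 1535, 2535⟩, ⟨12, 15, 100⟩, ⟨0, 1, 1⟩⟩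
    (g2_3.s₁.eta - cEG p2.kl p2.v (g2_3.s₁.t) (g2_3.u₁) g2_3.p) :=
  posBox_of_check (c := ⟨380, ⟨0, 8, 18, 6⟩⟩) (by decide +kernel)

def c2_671 : PosBox ⟨⟨0, 1, 1⟩, ⟨1521, 1535, 2535⟩, ⟨12, 15, 100⟩, ⟨0, 1, 1⟩⟩
    (g2_3.s₁.eta' + cEG p2.kl p2.v (g2_3.s₁.t) (g2_3.u₁) g2_3.p - cSag p2.kl p2.v (g2_3.s₁.t) (g2_3.u₁) p2.lo g2_3.p) :=
  posBox_of_check (c := ⟨383, ⟨0, 8, 18, 6⟩⟩) (by decide +kernel)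

def c2_672 : PosBox ⟨⟨0, 1, 1⟩, ⟨1521, 1535, 2535⟩, ⟨12, 15, 100⟩, ⟨0, 1, 1⟩⟩
    (cC (4) 1 * g2_3.beta * g2_3.s₁.phi - cC (625) 1 * (cC (1) 1 + Ex.x₂ * p2.v) * g2_3.s₁.eta * g2_3.s₁.eta) :=
  posBox_of_check (c := ⟨169, ⟨0, 0, 6, 6⟩⟩) (by decide +kernel)

def c2_673 : PosBox ⟨⟨0, 1, 1⟩, ⟨1521, 1535, 2535⟩, ⟨12, 15, 100⟩, ⟨0, 1, 1⟩⟩
    (cC (4) 1 * g2_3.beta * g2_3.s₁.phi - cC (625) 1 * (cC (1) 1 + Ex.x₂ * p2.v) * g2_3.s₁.eta' * g2_3.s₁.eta') :=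
  posBox_of_check (c := ⟨169, ⟨0, 0, 6, 6⟩⟩) (by decide +kernel)

def c2_674 : PosBox ⟨⟨0, 1, 1⟩, ⟨1521, 1535, 2535⟩, ⟨12, 15, 100⟩, ⟨0, 1, 1⟩⟩
    (g2_3.beta) :=
  posBox_of_check (c := ⟨101, ⟨0, 0, 4, 4⟩⟩) (by decide +kernel)

def c2_675 : PosBox ⟨⟨0, 1, 1⟩, ⟨1521, 1535, 2535⟩, ⟨12, 15, 100⟩, ⟨0, 1, 1⟩⟩
    (eTGG cA Ex.x₂ p2.v g2_3.p - g2_3.beta) :=
  posBox_of_check (c := ⟨336, ⟨0, 7, 17, 7⟩⟩) (by decide +kernel)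

def c2_676 : PosBox ⟨⟨0, 1, 1⟩, ⟨1521, 1535, 2535⟩, ⟨12, 15, 100⟩, ⟨0, 1, 1⟩⟩
    (g2_3.p + cC (1) 4) :=
  posBox_of_check (c := ⟨139, ⟨0, 1, 3, 2⟩⟩) (by decide +kernel)

def c2_677 : PosBox ⟨⟨0, 1, 1⟩, ⟨1521, 1535, 2535⟩, ⟨12, 15, 100⟩, ⟨0, 1, 1⟩⟩
    (p2.kl) :=
  posBox_of_check (c := ⟨31, ⟨0, 1, 0, 0⟩⟩) (by decide +kernel)

def c2_678 : PosBox ⟨⟨0, 1, 1⟩, ⟨1521, 1535, 2535⟩, ⟨12, 15, 100⟩, ⟨0, 1, 1⟩⟩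
    (cEE eTA p2.v) :=
  posBox_of_check (c := ⟨301, ⟨0, 7, 17, 6⟩⟩) (by decide +kernel)

def c2_679 : PosBox ⟨⟨0, 1, 1⟩, ⟨1521, 1535, 2535⟩, ⟨12, 15, 100⟩, ⟨0, 1, 1⟩⟩
    (cEE eTMG p2.v) :=
  posBox_of_check (c := ⟨282, ⟨0, 6, 16, 6⟩⟩) (by decide +kernel)

def c2_680 : PosBox ⟨⟨0, 1, 1⟩, ⟨1521, 1535, 2535⟩, ⟨12, 15, 100⟩, ⟨0, 1, 1⟩⟩
    (cC (-1) 1 * eTGG2 cA Ex.x₂ p2.v) :=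
  posBox_of_check (c := ⟨183, ⟨0, 5, 11, 3⟩⟩) (by decide +kernel)

def c2_681 : PosBox ⟨⟨0, 1, 1⟩, ⟨1521, 1535, 2535⟩, ⟨12, 15, 100⟩, ⟨0, 1, 1⟩⟩
    (eTMGw cA Ex.x₂ p2.v) :=
  posBox_of_check (c := ⟨184, ⟨0, 5, 10, 3⟩⟩) (by decide +kernel)

def c2_682 : PosBox ⟨⟨0, 1, 1⟩, ⟨1521, 1535, 2535⟩, ⟨12, 15, 100⟩, ⟨0, 1, 1⟩⟩
    (cM p2.v (g2.s₀.t) (g2.u₀)) :=
  posBox_of_check (c := ⟨98, ⟨0, 0, 3, 1⟩⟩) (by decide +kernel)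

def c2_683 : PosBox ⟨⟨0, 1, 1⟩, ⟨1521, 1535, 2535⟩, ⟨12, 15, 100⟩, ⟨0, 1, 1⟩⟩
    (cXp eTA p2.v * (p2.kl * cM p2.v (g2.s₀.t) (g2.u₀)) - eTA2 cA Ex.x₂ p2.v) :=
  posBox_of_check (c := ⟨425, ⟨0, 8, 20, 7⟩⟩) (by decide +kernel)

def c2_684 : PosBox ⟨⟨0, 1, 1⟩, ⟨1521, 1535, 2535⟩, ⟨12, 15, 100⟩, ⟨0, 1, 1⟩⟩
    (cXp eTMG p2.v * (p2.kl * cM p2.v (g2.s₀.t) (g2.u₀)) - eTMG2 cA Ex.x₂ p2.v) :=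
  posBox_of_check (c := ⟨406, ⟨0, 7, 19, 7⟩⟩) (by decide +kernel)

def c2_685 : PosBox ⟨⟨0, 1, 1⟩, ⟨1521, 1535, 2535⟩, ⟨12, 15, 100⟩, ⟨0, 1, 1⟩⟩
    (eTEG2 cA Ex.x₂ p2.v - cXe p2.v * (p2.kl * cM p2.v (g2.s₀.t) (g2.u₀))) :=
  posBox_of_check (c := ⟨365, ⟨0, 8, 16, 5⟩⟩) (by decide +kernel)

def c2_686 : PosBox ⟨⟨0, 1, 1⟩, ⟨1521, 1535, 2535⟩, ⟨12, 15, 100⟩, ⟨0, 1, 1⟩⟩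
    (cM p2.v (g2.s₀.t) (g2.u₁)) :=
  posBox_of_check (c := ⟨98, ⟨0, 0, 3, 1⟩⟩) (by decide +kernel)

def c2_687 : PosBox ⟨⟨0, 1, 1⟩, ⟨1521, 1535, 2535⟩, ⟨12, 15, 100⟩, ⟨0, 1, 1⟩⟩
    (cXp eTA p2.v * (p2.kl * cM p2.v (g2.s₀.t) (g2.u₁)) - eTA2 cA Ex.x₂ p2.v) :=
  posBox_of_check (c := ⟨425, ⟨0, 8, 20, 7⟩⟩) (by decide +kernel)

def c2_688 : PosBox ⟨⟨0, 1, 1⟩, ⟨1521, 1535, 2535⟩, ⟨12, 15, 100⟩, ⟨0, 1, 1⟩⟩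
    (cXp eTMG p2.v * (p2.kl * cM p2.v (g2.s₀.t) (g2.u₁)) - eTMG2 cA Ex.x₂ p2.v) :=
  posBox_of_check (c := ⟨406, ⟨0, 7, 19, 7⟩⟩) (by decide +kernel)

def c2_689 : PosBox ⟨⟨0, 1, 1⟩, ⟨1521, 1535, 2535⟩, ⟨12, 15, 100⟩, ⟨0, 1, 1⟩⟩
    (eTEG2 cA Ex.x₂ p2.v - cXe p2.v * (p2.kl * cM p2.v (g2.s₀.t) (g2.u₁))) :=
  posBox_of_check (c := ⟨365, ⟨0, 8, 16, 5⟩⟩) (by decide +kernel)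

def c2_690 : PosBox ⟨⟨0, 1, 1⟩, ⟨1521, 1535, 2535⟩, ⟨12, 15, 100⟩, ⟨0, 1, 1⟩⟩
    (cM p2.v (g2.s₁.t) (g2.u₀)) :=
  posBox_of_check (c := ⟨164, ⟨0, 0, 5, 3⟩⟩) (by decide +kernel)

def c2_691 : PosBox ⟨⟨0, 1, 1⟩, ⟨1521, 1535, 2535⟩, ⟨12, 15, 100⟩, ⟨0, 1, 1⟩⟩
    (cXp eTA p2.v * (p2.kl * cM p2.v (g2.s₁.t) (g2.u₀)) - eTA2 cA Ex.x₂ p2.v) :=
  posBox_of_check (c := ⟨492, ⟨0, 8, 22, 9⟩⟩) (by decide +kernel)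

def c2_692 : PosBox ⟨⟨0, 1, 1⟩, ⟨1521, 1535, 2535⟩, ⟨12, 15, 100⟩, ⟨0, 1, 1⟩⟩
    (cXp eTMG p2.v * (p2.kl * cM p2.v (g2.s₁.t) (g2.u₀)) - eTMG2 cA Ex.x₂ p2.v) :=
  posBox_of_check (c := ⟨472, ⟨0, 7, 21, 9⟩⟩) (by decide +kernel)

def c2_693 : PosBox ⟨⟨0, 1, 1⟩, ⟨1521, 1535, 2535⟩, ⟨12, 15, 100⟩, ⟨0, 1, 1⟩⟩
    (eTEG2 cA Ex.x₂ p2.v - cXe p2.v * (p2.kl * cM p2.v (g2.s₁.t) (g2.u₀))) :=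
  posBox_of_check (c := ⟨432, ⟨0, 8, 18, 7⟩⟩) (by decide +kernel)

def c2_694 : PosBox ⟨⟨0, 1, 1⟩, ⟨1521, 1535, 2535⟩, ⟨12, 15, 100⟩, ⟨0, 1, 1⟩⟩
    (cM p2.v (g2.s₁.t) (g2.u₁)) :=
  posBox_of_check (c := ⟨164, ⟨0, 0, 5, 3⟩⟩) (by decide +kernel)

def c2_695 : PosBox ⟨⟨0, 1, 1⟩, ⟨1521, 1535, 2535⟩, ⟨12, 15, 100⟩, ⟨0, 1, 1⟩⟩
    (cXp eTA p2.v * (p2.kl * cM p2.v (g2.s₁.t) (g2.u₁)) - eTA2 cA Ex.x₂ p2.v) :=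
  posBox_of_check (c := ⟨492, ⟨0, 8, 22, 9⟩⟩) (by decide +kernel)

def c2_696 : PosBox ⟨⟨0, 1, 1⟩, ⟨1521, 1535, 2535⟩, ⟨12, 15, 100⟩, ⟨0, 1, 1⟩⟩
    (cXp eTMG p2.v * (p2.kl * cM p2.v (g2.s₁.t) (g2.u₁)) - eTMG2 cA Ex.x₂ p2.v) :=
  posBox_of_check (c := ⟨472, ⟨0, 7, 21, 9⟩⟩) (by decide +kernel)

def c2_697 : PosBox ⟨⟨0, 1, 1⟩, ⟨1521, 1535, 2535⟩, ⟨12, 15, 100⟩, ⟨0, 1, 1⟩⟩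
    (eTEG2 cA Ex.x₂ p2.v - cXe p2.v * (p2.kl * cM p2.v (g2.s₁.t) (g2.u₁))) :=
  posBox_of_check (c := ⟨432, ⟨0, 8, 18, 7⟩⟩) (by decide +kernel)

def c2_698 : PosBox ⟨⟨0, 1, 1⟩, ⟨1521, 1535, 2535⟩, ⟨12, 15, 100⟩, ⟨0, 1, 1⟩⟩
    (cM p2.v (p2.tT) (g2.u₀)) :=
  posBox_of_check (c := ⟨118, ⟨0, 0, 3, 1⟩⟩) (by decide +kernel)

def c2_699 : PosBox ⟨⟨0, 1, 1⟩, ⟨1521, 1535, 2535⟩, ⟨12, 15, 100⟩, ⟨0, 1, 1⟩⟩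
    (cXp eTA p2.v * (p2.kl * cM p2.v (p2.tT) (g2.u₀)) - eTA2 cA Ex.x₂ p2.v) :=
  posBox_of_check (c := ⟨445, ⟨0, 8, 20, 7⟩⟩) (by decide +kernel)

def c2_700 : PosBox ⟨⟨0, 1, 1⟩, ⟨1521, 1535, 2535⟩, ⟨12, 15, 100⟩, ⟨0, 1, 1⟩⟩
    (cXp eTMG p2.v * (p2.kl * cM p2.v (p2.tT) (g2.u₀)) - eTMG2 cA Ex.x₂ p2.v) :=
  posBox_of_check (c := ⟨425, ⟨0, 7, 19, 7⟩⟩) (by decide +kernel)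

def c2_701 : PosBox ⟨⟨0, 1, 1⟩, ⟨1521, 1535, 2535⟩, ⟨12, 15, 100⟩, ⟨0, 1, 1⟩⟩
    (eTEG2 cA Ex.x₂ p2.v - cXe p2.v * (p2.kl * cM p2.v (p2.tT) (g2.u₀))) :=
  posBox_of_check (c := ⟨385, ⟨0, 8, 16, 5⟩⟩) (by decide +kernel)

def c2_702 : PosBox ⟨⟨0, 1, 1⟩, ⟨1521, 1535, 2535⟩, ⟨12, 15, 100⟩, ⟨0, 1, 1⟩⟩
    (cM p2.v (p2.tT) (g2.u₁)) :=
  posBox_of_check (c := ⟨118, ⟨0, 0, 3, 1⟩⟩) (by decide +kernel)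

def c2_703 : PosBox ⟨⟨0, 1, 1⟩, ⟨1521, 1535, 2535⟩, ⟨12, 15, 100⟩, ⟨0, 1, 1⟩⟩
    (cXp eTA p2.v * (p2.kl * cM p2.v (p2.tT) (g2.u₁)) - eTA2 cA Ex.x₂ p2.v) :=
  posBox_of_check (c := ⟨445, ⟨0, 8, 20, 7⟩⟩) (by decide +kernel)

def c2_704 : PosBox ⟨⟨0, 1, 1⟩, ⟨1521, 1535, 2535⟩, ⟨12, 15, 100⟩, ⟨0, 1, 1⟩⟩
    (cXp eTMG p2.v * (p2.kl * cM p2.v (p2.tT) (g2.u₁)) - eTMG2 cA Ex.x₂ p2.v) :=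
  posBox_of_check (c := ⟨425, ⟨0, 7, 19, 7⟩⟩) (by decide +kernel)

def c2_705 : PosBox ⟨⟨0, 1, 1⟩, ⟨1521, 1535, 2535⟩, ⟨12, 15, 100⟩, ⟨0, 1, 1⟩⟩
    (eTEG2 cA Ex.x₂ p2.v - cXe p2.v * (p2.kl * cM p2.v (p2.tT) (g2.u₁))) :=
  posBox_of_check (c := ⟨385, ⟨0, 8, 16, 5⟩⟩) (by decide +kernel)

def c2_706 : PosBox ⟨⟨0, 1, 1⟩, ⟨1521, 1535, 2535⟩, ⟨12, 15, 100⟩, ⟨0, 1, 1⟩⟩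
    (p2.bh * cB - cC (1) 1) :=
  posBox_of_check (c := ⟨71, ⟨0, 3, 3, 0⟩⟩) (by decide +kernel)

def c2_707 : PosBox ⟨⟨0, 1, 1⟩, ⟨1521, 1535, 2535⟩, ⟨12, 15, 100⟩, ⟨0, 1, 1⟩⟩
    (cC (1) 1 - p2.bl * cB) :=
  posBox_of_check (c := ⟨71, ⟨0, 3, 3, 0⟩⟩) (by decide +kernel)

def c2_708 : PosBox ⟨⟨0, 1, 1⟩, ⟨1521, 1535, 2535⟩, ⟨12, 15, 100⟩, ⟨0, 1, 1⟩⟩
    (p2.bl) :=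
  posBox_of_check (c := ⟨53, ⟨0, 2, 2, 0⟩⟩) (by decide +kernel)

def c2_709 : PosBox ⟨⟨0, 1, 1⟩, ⟨1521, 1535, 2535⟩, ⟨12, 15, 100⟩, ⟨0, 1, 1⟩⟩
    (p2.eta) :=
  posBox_of_check (c := ⟨67, ⟨0, 0, 0, 0⟩⟩) (by decide +kernel)

def c2_710 : PosBox ⟨⟨0, 1, 1⟩, ⟨1521, 1535, 2535⟩, ⟨12, 15, 100⟩, ⟨0, 1, 1⟩⟩
    (p2.eta + (p2.bh - p2.bl) * (cA - (cC (1) 1 - cA) * Ex.x₂ * p2.v)) :=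
  posBox_of_check (c := ⟨99, ⟨0, 3, 5, 1⟩⟩) (by decide +kernel)

def c2_711 : PosBox ⟨⟨0, 1, 1⟩, ⟨1521, 1535, 2535⟩, ⟨12, 15, 100⟩, ⟨0, 1, 1⟩⟩
    (cC (1) 1 - p2.rl * Ex.x₁) :=
  posBox_of_check (c := ⟨40, ⟨0, 2, 0, 0⟩⟩) (by decide +kernel)

def c2_712 : PosBox ⟨⟨0, 1, 1⟩, ⟨1521, 1535, 2535⟩, ⟨12, 15, 100⟩, ⟨0, 1, 1⟩⟩
    (p2.rh * Ex.x₁ - cC (1) 1) :=
  posBox_of_check (c := ⟨41, ⟨0, 2, 0, 0⟩⟩) (by decide +kernel)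

def c2_713 : PosBox ⟨⟨0, 1, 1⟩, ⟨1521, 1535, 2535⟩, ⟨12, 15, 100⟩, ⟨0, 1, 1⟩⟩
    (Ex.x₁ - p2.kl * (cC (1) 1 - Ex.x₁)) :=
  posBox_of_check (c := ⟨44, ⟨0, 2, 0, 0⟩⟩) (by decide +kernel)

def c2_714 : PosBox ⟨⟨0, 1, 1⟩, ⟨1521, 1535, 2535⟩, ⟨12, 15, 100⟩, ⟨0, 1, 1⟩⟩
    (p2.rho * p2.kl * (cC (1) 1 - Ex.x₁) - Ex.x₁) :=
  posBox_of_check (c := ⟨60, ⟨0, 2, 0, 0⟩⟩) (by decide +kernel)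

def c2_715 : PosBox ⟨⟨0, 1, 1⟩, ⟨1521, 1535, 2535⟩, ⟨12, 15, 100⟩, ⟨0, 1, 1⟩⟩
    (g2.s₁.t * cNum p2.v - p2.rho * cDen) :=
  posBox_cut₂ (A := ⟨24, 27, 200⟩) (B := ⟨27, 30, 200⟩) (by unfold covers; decide)
    (posBox_cut₃ (A := ⟨0, 1, 2⟩) (B := ⟨1, 2, 2⟩) (by unfold covers; decide)
      (posBox_of_check (c := ⟨247, ⟨0, 2, 5, 3⟩⟩) (by decide +kernel))
      (posBox_of_check (c := ⟨247, ⟨0, 2, 5, 3⟩⟩) (by decide +kernel)))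
    (posBox_cut₃ (A := ⟨0, 1, 2⟩) (B := ⟨1, 2, 2⟩) (by unfold covers; decide)
      (posBox_of_check (c := ⟨247, ⟨0, 2, 5, 3⟩⟩) (by decide +kernel))
      (posBox_of_check (c := ⟨247, ⟨0, 2, 5, 3⟩⟩) (by decide +kernel)))

def c2_716 : PosBox ⟨⟨0, 1, 1⟩, ⟨1521, 1535, 2535⟩, ⟨12, 15, 100⟩, ⟨0, 1, 1⟩⟩
    (cC (4) 1 * (cC (1) 1 - cA * p2.v) - p2.lo * cB) :=
  posBox_of_check (c := ⟨79, ⟨0, 2, 4, 1⟩⟩) (by decide +kernel)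

def c2_717 : PosBox ⟨⟨39, 40, 40⟩, ⟨1521, 1535, 2535⟩, ⟨12, 15, 100⟩, ⟨0, 1, 1⟩⟩
    (Ex.x₂ * cL0 p2.kl p2.v + cL1 p2.kl p2.v) :=
  posBox_of_check (c := ⟨222, ⟨2, 4, 12, 4⟩⟩) (by decide +kernel)

def c2_718 : PosBox ⟨⟨39, 40, 40⟩, ⟨1521, 1535, 2535⟩, ⟨12, 15, 100⟩, ⟨0, 1, 1⟩⟩
    (Ex.x₂ * cL0 (p2.rho * p2.kl) p2.v + cL1 (p2.rho * p2.kl) p2.v) :=
  posBox_of_check (c := ⟨239, ⟨2, 4, 12, 4⟩⟩) (by decide +kernel)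

def c2_719 : PosBox ⟨⟨39, 40, 40⟩, ⟨1521, 1535, 2535⟩, ⟨12, 15, 100⟩, ⟨0, 1, 1⟩⟩
    (cDen * cL0 p2.kl p2.v + cNum p2.v * cL1 p2.kl p2.v) :=
  posBox_of_check (c := ⟨266, ⟨2, 6, 13, 5⟩⟩) (by decide +kernel)

def c2_720 : PosBox ⟨⟨39, 40, 40⟩, ⟨1521, 1535, 2535⟩, ⟨12, 15, 100⟩, ⟨0, 1, 1⟩⟩
    (cDen * cL0 (p2.rho * p2.kl) p2.v + cNum p2.v * cL1 (p2.rho * p2.kl) p2.v) :=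
  posBox_of_check (c := ⟨283, ⟨2, 6, 13, 5⟩⟩) (by decide +kernel)

def c2_721 : PosBox ⟨⟨0, 1, 1⟩, ⟨1521, 1535, 2535⟩, ⟨12, 15, 100⟩, ⟨0, 1, 1⟩⟩
    (Ex.x₂ * g2_0.p * Ex.x₁ * cB * ((cC (2) 1 + Ex.x₂ * p2.v) * q2_0 - cC (39) 40) - cC (4) 1 * ((cC (2) 1 + Ex.x₂ * p2.v) * cB - Ex.x₁ * cC (39) 40 * cQ p2.v)) :=
  posBox_cut₂ (A := ⟨24, 27, 200⟩) (B := ⟨27, 30, 200⟩) (by unfold covers; decide)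
    (posBox_cut₃ (A := ⟨0, 1, 2⟩) (B := ⟨1, 2, 2⟩) (by unfold covers; decide)
      (posBox_of_check (c := ⟨321, ⟨0, 3, 7, 3⟩⟩) (by decide +kernel))
      (posBox_cut₂ (A := ⟨48, 51, 400⟩) (B := ⟨51, 54, 400⟩) (by unfold covers; decide)
        (posBox_cut₃ (A := ⟨2, 3, 4⟩) (B := ⟨3, 4, 4⟩) (by unfold covers; decide)
          (posBox_of_check (c := ⟨441, ⟨0, 3, 7, 3⟩⟩) (by decide +kernel))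
          (posBox_of_check (c := ⟨441, ⟨0, 3, 7, 3⟩⟩) (by decide +kernel)))
        (posBox_cut₃ (A := ⟨2, 3, 4⟩) (B := ⟨3, 4, 4⟩) (by unfold covers; decide)
          (posBox_of_check (c := ⟨441, ⟨0, 3, 7, 3⟩⟩) (by decide +kernel))
          (posBox_of_check (c := ⟨441, ⟨0, 3, 7, 3⟩⟩) (by decide +kernel)))))
    (posBox_cut₃ (A := ⟨0, 1, 2⟩) (B := ⟨1, 2, 2⟩) (by unfold covers; decide)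
      (posBox_of_check (c := ⟨321, ⟨0, 3, 7, 3⟩⟩) (by decide +kernel))
      (posBox_cut₂ (A := ⟨54, 57, 400⟩) (B := ⟨57, 60, 400⟩) (by unfold covers; decide)
        (posBox_cut₃ (A := ⟨2, 3, 4⟩) (B := ⟨3, 4, 4⟩) (by unfold covers; decide)
          (posBox_of_check (c := ⟨441, ⟨0, 3, 7, 3⟩⟩) (by decide +kernel))
          (posBox_of_check (c := ⟨441, ⟨0, 3, 7, 3⟩⟩) (by decide +kernel)))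
        (posBox_cut₃ (A := ⟨2, 3, 4⟩) (B := ⟨3, 4, 4⟩) (by unfold covers; decide)
          (posBox_cut₂ (A := ⟨114, 117, 800⟩) (B := ⟨117, 120, 800⟩) (by unfold covers; decide)
            (posBox_of_check (c := ⟨501, ⟨0, 3, 7, 3⟩⟩) (by decide +kernel))
            (posBox_cut₁ (A := ⟨3042, 3056, 5070⟩) (B := ⟨3056, 3070, 5070⟩) (by unfold covers; decide)
              (posBox_of_check (c := ⟨561, ⟨0, 3, 7, 3⟩⟩) (by decide +kernel))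
              (posBox_cut₃ (A := ⟨4, 5, 8⟩) (B := ⟨5, 6, 8⟩) (by unfold covers; decide)
                (posBox_of_check (c := ⟨621, ⟨0, 3, 7, 3⟩⟩) (by decide +kernel))
                (posBox_of_check (c := ⟨621, ⟨0, 3, 7, 3⟩⟩) (by decide +kernel)))))
          (posBox_of_check (c := ⟨441, ⟨0, 3, 7, 3⟩⟩) (by decide +kernel)))))

def c2_722 : PosBox ⟨⟨0, 1, 1⟩, ⟨1521, 1535, 2535⟩, ⟨12, 15, 100⟩, ⟨0, 1, 1⟩⟩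
    (g2_0.p * Ex.x₁ * cB * ((cC (2) 1 + Ex.x₂ * p2.v) * q2_0 - cC (1) 1) - cC (4) 1 * (cC (1) 1 - cA * p2.v)) :=
  posBox_of_check (c := ⟨195, ⟨0, 3, 6, 3⟩⟩) (by decide +kernel)

def c2_723 : PosBox ⟨⟨0, 1, 1⟩, ⟨1521, 1535, 2535⟩, ⟨12, 15, 100⟩, ⟨0, 1, 1⟩⟩
    ((cC (2) 1 + Ex.x₂ * p2.v) * q2_0 - cC (1) 1) :=
  posBox_of_check (c := ⟨94, ⟨0, 0, 2, 1⟩⟩) (by decide +kernel)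

end Vale.Agent.P100.Calib.Closed.End
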