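import Vale.Agent.P100.Calib.SlabEndData

/-!
# Checks of the end strip, piece `2`
-/

set_option linter.defProp false

namespace Vale.Agent.P100.Calib.Closed.End

open BoxPos
open Large (PosBox posBox_of_check)

local instance endChk2B2Add : Add Ex := ⟨Ex.add⟩
local instance endChk2B2Mul : Mul Ex := ⟨Ex.mul⟩
local instance endChk2B2Sub : Sub Ex := ⟨Ex.sub⟩

def c2_724 : PosBox ⟨⟨0, 1, 1⟩, ⟨1521, 1535, 2535⟩, ⟨12, 15, 100⟩, ⟨0, 1, 1⟩⟩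
    (q2_1 - cC (1) 1) :=
  posBox_of_check (c := ⟨84, ⟨0, 0, 2, 0⟩⟩) (by decide +kernel)

def c2_725 : PosBox ⟨⟨0, 1, 1⟩, ⟨1521, 1535, 2535⟩, ⟨12, 15, 100⟩, ⟨0, 1, 1⟩⟩
    (cC (10) 7 - q2_1) :=
  posBox_of_check (c := ⟨87, ⟨0, 0, 2, 0⟩⟩) (by decide +kernel)

def c2_726 : PosBox ⟨⟨0, 1, 1⟩, ⟨1521, 1535, 2535⟩, ⟨12, 15, 100⟩, ⟨0, 1, 1⟩⟩
    (Ex.x₂ * g2_1.p * Ex.x₁ * cB * ((cC (2) 1 + Ex.x₂ * p2.v) * q2_1 - cC (39) 40) - cC (4) 1 * ((cC (2) 1 + Ex.x₂ * p2.v) * cB - Ex.x₁ * cC (39) 40 * cQ p2.v)) :=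
  posBox_cut₂ (A := ⟨24, 27, 200⟩) (B := ⟨27, 30, 200⟩) (by unfold covers; decide)
    (posBox_cut₃ (A := ⟨0, 1, 2⟩) (B := ⟨1, 2, 2⟩) (by unfold covers; decide)
      (posBox_of_check (c := ⟨341, ⟨0, 3, 9, 3⟩⟩) (by decide +kernel))
      (posBox_cut₂ (A := ⟨48, 51, 400⟩) (B := ⟨51, 54, 400⟩) (by unfold covers; decide)
        (posBox_cut₃ (A := ⟨2, 3, 4⟩) (B := ⟨3, 4, 4⟩) (by unfold covers; decide)
          (posBox_of_check (c := ⟨461, ⟨0, 3, 9, 3⟩⟩) (by decide +kernel))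
          (posBox_of_check (c := ⟨461, ⟨0, 3, 9, 3⟩⟩) (by decide +kernel)))
        (posBox_cut₃ (A := ⟨2, 3, 4⟩) (B := ⟨3, 4, 4⟩) (by unfold covers; decide)
          (posBox_of_check (c := ⟨461, ⟨0, 3, 9, 3⟩⟩) (by decide +kernel))
          (posBox_of_check (c := ⟨461, ⟨0, 3, 9, 3⟩⟩) (by decide +kernel)))))
    (posBox_cut₃ (A := ⟨0, 1, 2⟩) (B := ⟨1, 2, 2⟩) (by unfold covers; decide)
      (posBox_of_check (c := ⟨341, ⟨0, 3, 9, 3⟩⟩) (by decide +kernel))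
      (posBox_cut₂ (A := ⟨54, 57, 400⟩) (B := ⟨57, 60, 400⟩) (by unfold covers; decide)
        (posBox_cut₃ (A := ⟨2, 3, 4⟩) (B := ⟨3, 4, 4⟩) (by unfold covers; decide)
          (posBox_of_check (c := ⟨461, ⟨0, 3, 9, 3⟩⟩) (by decide +kernel))
          (posBox_of_check (c := ⟨461, ⟨0, 3, 9, 3⟩⟩) (by decide +kernel)))
        (posBox_cut₃ (A := ⟨2, 3, 4⟩) (B := ⟨3, 4, 4⟩) (by unfold covers; decide)
          (posBox_cut₂ (A := ⟨114, 117, 800⟩) (B := ⟨117, 120, 800⟩) (by unfold covers; decide)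
            (posBox_of_check (c := ⟨521, ⟨0, 3, 9, 3⟩⟩) (by decide +kernel))
            (posBox_cut₃ (A := ⟨4, 5, 8⟩) (B := ⟨5, 6, 8⟩) (by unfold covers; decide)
              (posBox_cut₁ (A := ⟨3042, 3056, 5070⟩) (B := ⟨3056, 3070, 5070⟩) (by unfold covers; decide)
                (posBox_of_check (c := ⟨641, ⟨0, 3, 9, 3⟩⟩) (by decide +kernel))
                (posBox_of_check (c := ⟨641, ⟨0, 3, 9, 3⟩⟩) (by decide +kernel)))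
              (posBox_cut₁ (A := ⟨3042, 3056, 5070⟩) (B := ⟨3056, 3070, 5070⟩) (by unfold covers; decide)
                (posBox_of_check (c := ⟨641, ⟨0, 3, 9, 3⟩⟩) (by decide +kernel))
                (posBox_of_check (c := ⟨641, ⟨0, 3, 9, 3⟩⟩) (by decide +kernel)))))
          (posBox_of_check (c := ⟨461, ⟨0, 3, 9, 3⟩⟩) (by decide +kernel)))))

def c2_727 : PosBox ⟨⟨0, 1, 1⟩, ⟨1521, 1535, 2535⟩, ⟨12, 15, 100⟩, ⟨0, 1, 1⟩⟩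
    (g2_1.p * Ex.x₁ * cB * ((cC (2) 1 + Ex.x₂ * p2.v) * q2_1 - cC (1) 1) - cC (4) 1 * (cC (1) 1 - cA * p2.v)) :=
  posBox_of_check (c := ⟨216, ⟨0, 3, 8, 3⟩⟩) (by decide +kernel)

def c2_728 : PosBox ⟨⟨0, 1, 1⟩, ⟨1521, 1535, 2535⟩, ⟨12, 15, 100⟩, ⟨0, 1, 1⟩⟩
    ((cC (2) 1 + Ex.x₂ * p2.v) * q2_1 - cC (1) 1) :=
  posBox_of_check (c := ⟨111, ⟨0, 0, 4, 1⟩⟩) (by decide +kernel)

def c2_729 : PosBox ⟨⟨0, 1, 1⟩, ⟨1521, 1535, 2535⟩, ⟨12, 15, 100⟩, ⟨0, 1, 1⟩⟩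
    (q2_2 - cC (1) 1) :=
  posBox_of_check (c := ⟨89, ⟨0, 0, 2, 0⟩⟩) (by decide +kernel)

def c2_730 : PosBox ⟨⟨0, 1, 1⟩, ⟨1521, 1535, 2535⟩, ⟨12, 15, 100⟩, ⟨0, 1, 1⟩⟩
    (cC (10) 7 - q2_2) :=
  posBox_of_check (c := ⟨92, ⟨0, 0, 2, 0⟩⟩) (by decide +kernel)

def c2_731 : PosBox ⟨⟨0, 1, 1⟩, ⟨1521, 1535, 2535⟩, ⟨12, 15, 100⟩, ⟨0, 1, 1⟩⟩
    (cDel p2.v q2_1 g2_2.u₀) :=
  posBox_of_check (c := ⟨130, ⟨0, 1, 5, 1⟩⟩) (by decide +kernel)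

def c2_732 : PosBox ⟨⟨0, 1, 1⟩, ⟨1521, 1535, 2535⟩, ⟨12, 15, 100⟩, ⟨0, 1, 1⟩⟩
    (g2_2.p * Ex.x₁ * cDel p2.v q2_1 g2_2.u₀ - cC (4) 1 * (cC (1) 1 - cA * p2.v)) :=
  posBox_cut₂ (A := ⟨24, 27, 200⟩) (B := ⟨27, 30, 200⟩) (by unfold covers; decide)
    (posBox_cut₃ (A := ⟨0, 1, 2⟩) (B := ⟨1, 2, 2⟩) (by unfold covers; decide)
      (posBox_of_check (c := ⟨338, ⟨0, 3, 8, 3⟩⟩) (by decide +kernel))
      (posBox_cut₂ (A := ⟨48, 51, 400⟩) (B := ⟨51, 54, 400⟩) (by unfold covers; decide)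
        (posBox_cut₃ (A := ⟨2, 3, 4⟩) (B := ⟨3, 4, 4⟩) (by unfold covers; decide)
          (posBox_of_check (c := ⟨458, ⟨0, 3, 8, 3⟩⟩) (by decide +kernel))
          (posBox_of_check (c := ⟨458, ⟨0, 3, 8, 3⟩⟩) (by decide +kernel)))
        (posBox_cut₃ (A := ⟨2, 3, 4⟩) (B := ⟨3, 4, 4⟩) (by unfold covers; decide)
          (posBox_of_check (c := ⟨458, ⟨0, 3, 8, 3⟩⟩) (by decide +kernel))
          (posBox_of_check (c := ⟨458, ⟨0, 3, 8, 3⟩⟩) (by decide +kernel)))))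
    (posBox_cut₃ (A := ⟨0, 1, 2⟩) (B := ⟨1, 2, 2⟩) (by unfold covers; decide)
      (posBox_of_check (c := ⟨338, ⟨0, 3, 8, 3⟩⟩) (by decide +kernel))
      (posBox_cut₂ (A := ⟨54, 57, 400⟩) (B := ⟨57, 60, 400⟩) (by unfold covers; decide)
        (posBox_cut₃ (A := ⟨2, 3, 4⟩) (B := ⟨3, 4, 4⟩) (by unfold covers; decide)
          (posBox_of_check (c := ⟨458, ⟨0, 3, 8, 3⟩⟩) (by decide +kernel))
          (posBox_of_check (c := ⟨458, ⟨0, 3, 8, 3⟩⟩) (by decide +kernel)))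
        (posBox_cut₃ (A := ⟨2, 3, 4⟩) (B := ⟨3, 4, 4⟩) (by unfold covers; decide)
          (posBox_cut₂ (A := ⟨114, 117, 800⟩) (B := ⟨117, 120, 800⟩) (by unfold covers; decide)
            (posBox_of_check (c := ⟨518, ⟨0, 3, 8, 3⟩⟩) (by decide +kernel))
            (posBox_cut₃ (A := ⟨4, 5, 8⟩) (B := ⟨5, 6, 8⟩) (by unfold covers; decide)
              (posBox_cut₁ (A := ⟨3042, 3056, 5070⟩) (B := ⟨3056, 3070, 5070⟩) (by unfold covers; decide)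
                (posBox_of_check (c := ⟨638, ⟨0, 3, 8, 3⟩⟩) (by decide +kernel))
                (posBox_of_check (c := ⟨638, ⟨0, 3, 8, 3⟩⟩) (by decide +kernel)))
              (posBox_cut₁ (A := ⟨3042, 3056, 5070⟩) (B := ⟨3056, 3070, 5070⟩) (by unfold covers; decide)
                (posBox_cut₃ (A := ⟨10, 11, 16⟩) (B := ⟨11, 12, 16⟩) (by unfold covers; decide)
                  (posBox_of_check (c := ⟨698, ⟨0, 3, 8, 3⟩⟩) (by decide +kernel))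
                  (posBox_cut₂ (A := ⟨234, 237, 1600⟩) (B := ⟨237, 240, 1600⟩) (by unfold covers; decide)
                    (posBox_of_check (c := ⟨758, ⟨0, 3, 8, 3⟩⟩) (by decide +kernel))
                    (posBox_cut₃ (A := ⟨22, 23, 32⟩) (B := ⟨23, 24, 32⟩) (by unfold covers; decide)
                      (posBox_of_check (c := ⟨818, ⟨0, 3, 8, 3⟩⟩) (by decide +kernel))
                      (posBox_of_check (c := ⟨818, ⟨0, 3, 8, 3⟩⟩) (by decide +kernel)))))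
                (posBox_of_check (c := ⟨638, ⟨0, 3, 8, 3⟩⟩) (by decide +kernel)))))
          (posBox_of_check (c := ⟨458, ⟨0, 3, 8, 3⟩⟩) (by decide +kernel)))))

def c2_733 : PosBox ⟨⟨0, 1, 1⟩, ⟨1521, 1535, 2535⟩, ⟨12, 15, 100⟩, ⟨0, 1, 1⟩⟩
    (cDel p2.v q2_2 g2_3.u₀) :=
  posBox_of_check (c := ⟨135, ⟨0, 1, 5, 1⟩⟩) (by decide +kernel)

def c2_734 : PosBox ⟨⟨0, 1, 1⟩, ⟨1521, 1535, 2535⟩, ⟨12, 15, 100⟩, ⟨0, 1, 1⟩⟩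
    (g2_3.p * Ex.x₁ * cDel p2.v q2_2 g2_3.u₀ - cC (4) 1 * (cC (1) 1 - cA * p2.v)) :=
  posBox_cut₂ (A := ⟨24, 27, 200⟩) (B := ⟨27, 30, 200⟩) (by unfold covers; decide)
    (posBox_cut₃ (A := ⟨0, 1, 2⟩) (B := ⟨1, 2, 2⟩) (by unfold covers; decide)
      (posBox_of_check (c := ⟨343, ⟨0, 3, 8, 3⟩⟩) (by decide +kernel))
      (posBox_cut₂ (A := ⟨48, 51, 400⟩) (B := ⟨51, 54, 400⟩) (by unfold covers; decide)
        (posBox_cut₃ (A := ⟨2, 3, 4⟩) (B := ⟨3, 4, 4⟩) (by unfold covers; decide)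
          (posBox_of_check (c := ⟨463, ⟨0, 3, 8, 3⟩⟩) (by decide +kernel))
          (posBox_of_check (c := ⟨463, ⟨0, 3, 8, 3⟩⟩) (by decide +kernel)))
        (posBox_cut₃ (A := ⟨2, 3, 4⟩) (B := ⟨3, 4, 4⟩) (by unfold covers; decide)
          (posBox_of_check (c := ⟨463, ⟨0, 3, 8, 3⟩⟩) (by decide +kernel))
          (posBox_of_check (c := ⟨463, ⟨0, 3, 8, 3⟩⟩) (by decide +kernel)))))
    (posBox_cut₃ (A := ⟨0, 1, 2⟩) (B := ⟨1, 2, 2⟩) (by unfold covers; decide)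
      (posBox_of_check (c := ⟨343, ⟨0, 3, 8, 3⟩⟩) (by decide +kernel))
      (posBox_cut₂ (A := ⟨54, 57, 400⟩) (B := ⟨57, 60, 400⟩) (by unfold covers; decide)
        (posBox_cut₃ (A := ⟨2, 3, 4⟩) (B := ⟨3, 4, 4⟩) (by unfold covers; decide)
          (posBox_of_check (c := ⟨463, ⟨0, 3, 8, 3⟩⟩) (by decide +kernel))
          (posBox_of_check (c := ⟨463, ⟨0, 3, 8, 3⟩⟩) (by decide +kernel)))
        (posBox_cut₃ (A := ⟨2, 3, 4⟩) (B := ⟨3, 4, 4⟩) (by unfold covers; decide)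
          (posBox_cut₂ (A := ⟨114, 117, 800⟩) (B := ⟨117, 120, 800⟩) (by unfold covers; decide)
            (posBox_of_check (c := ⟨523, ⟨0, 3, 8, 3⟩⟩) (by decide +kernel))
            (posBox_cut₃ (A := ⟨4, 5, 8⟩) (B := ⟨5, 6, 8⟩) (by unfold covers; decide)
              (posBox_cut₁ (A := ⟨3042, 3056, 5070⟩) (B := ⟨3056, 3070, 5070⟩) (by unfold covers; decide)
                (posBox_of_check (c := ⟨643, ⟨0, 3, 8, 3⟩⟩) (by decide +kernel))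
                (posBox_of_check (c := ⟨643, ⟨0, 3, 8, 3⟩⟩) (by decide +kernel)))
              (posBox_cut₁ (A := ⟨3042, 3056, 5070⟩) (B := ⟨3056, 3070, 5070⟩) (by unfold covers; decide)
                (posBox_of_check (c := ⟨643, ⟨0, 3, 8, 3⟩⟩) (by decide +kernel))
                (posBox_of_check (c := ⟨643, ⟨0, 3, 8, 3⟩⟩) (by decide +kernel)))))
          (posBox_of_check (c := ⟨463, ⟨0, 3, 8, 3⟩⟩) (by decide +kernel)))))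

def c2_735 : PosBox ⟨⟨0, 1, 1⟩, ⟨1521, 1535, 2535⟩, ⟨12, 15, 100⟩, ⟨0, 1, 1⟩⟩
    (cC (1) 40 - cC (237) 10000) :=
  posBox_of_check (c := ⟨71, ⟨0, 0, 0, 0⟩⟩) (by decide +kernel)

def c2_736 : PosBox ⟨⟨0, 1, 1⟩, ⟨1521, 1535, 2535⟩, ⟨12, 15, 100⟩, ⟨0, 1, 1⟩⟩
    (cDel p2.v q2_2 (cC (39) 40)) :=
  posBox_of_check (c := ⟨135, ⟨0, 1, 5, 1⟩⟩) (by decide +kernel)

def c2_737 : PosBox ⟨⟨0, 1, 1⟩, ⟨1521, 1535, 2535⟩, ⟨12, 15, 100⟩, ⟨0, 1, 1⟩⟩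
    (cC (237) 10000) :=
  posBox_of_check (c := ⟨70, ⟨0, 0, 0, 0⟩⟩) (by decide +kernel)

def c2_738 : PosBox ⟨⟨0, 1, 1⟩, ⟨1521, 1535, 2535⟩, ⟨12, 15, 100⟩, ⟨0, 1, 1⟩⟩
    (cC (237) 10000 * (Ex.x₁ * cDel p2.v q2_2 (cC (39) 40) - Ex.x₂ * (cC (1) 1 - cA * p2.v)) - Ex.x₂ * (cC (1) 1 - cA * p2.v) * (q2_2 - cC (1) 1)) :=
  posBox_of_check (c := ⟨158, ⟨0, 2, 5, 1⟩⟩) (by decide +kernel)

def c2_739 : PosBox ⟨⟨0, 1, 1⟩, ⟨1521, 1535, 2535⟩, ⟨12, 15, 100⟩, ⟨0, 1, 1⟩⟩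
    (cC (2) 1 * (cC (1) 1 - Ex.x₁) - (cC (2) 1 + (Ex.x₁ - Ex.x₂) * (cC (1) 1 - Ex.x₁)) * ((cC (1341) 1000 + cC (-71) 40 * Ex.x₂) - (cC (3) 2 - cC (47) 5 * Ex.x₂ + cC (28) 1 * Ex.x₂ * Ex.x₂))) :=
  posBox_cut₂ (A := ⟨24, 27, 200⟩) (B := ⟨27, 30, 200⟩) (by unfold covers; decide)
    (posBox_of_check (c := ⟨113, ⟨0, 2, 3, 0⟩⟩) (by decide +kernel))
    (posBox_of_check (c := ⟨113, ⟨0, 2, 3, 0⟩⟩) (by decide +kernel))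

def c2_740 : PosBox ⟨⟨0, 1, 1⟩, ⟨1521, 1535, 2535⟩, ⟨12, 15, 100⟩, ⟨0, 1, 1⟩⟩
    ((cC (382) 125 + cC (9259) 1000 * Ex.x₂) * (Ex.x₁ - Ex.x₂) - cC (2) 1) :=
  posBox_of_check (c := ⟨40, ⟨0, 1, 2, 0⟩⟩) (by decide +kernel)

end Vale.Agent.P100.Calib.Closed.End
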