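import Vale.Agent.P100.Calib.SlabEndCheck2A0
import Vale.Agent.P100.Calib.SlabEndCheck2A1
import Vale.Agent.P100.Calib.SlabEndCheck2A2
import Vale.Agent.P100.Calib.SlabEndCheck2B0
import Vale.Agent.P100.Calib.SlabEndCheck2B1
import Vale.Agent.P100.Calib.SlabEndCheck2B2

/-!
# The signs on the piece `2` of the end strip
-/

namespace Vale.Agent.P100.Calib.Closed.End

open BoxPos
open Large (PosBox)

local instance endPiece2Add : Add Ex := ⟨Ex.add⟩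
local instance endPiece2Mul : Mul Ex := ⟨Ex.mul⟩
local instance endPiece2Sub : Sub Ex := ⟨Ex.sub⟩

/-- The checks of the piece `2`. -/
theorem base2 : p2.Base g2 ⟨⟨39, 40, 40⟩, ⟨1521, 1535, 2535⟩, ⟨12, 15, 100⟩, ⟨0, 1, 1⟩⟩ where
  ok := ⟨c2_677, c2_678, c2_679, c2_680, c2_681, ⟨c2_682, c2_683, c2_684, c2_685⟩, ⟨c2_686, c2_687, c2_688, c2_689⟩, ⟨c2_690, c2_691, c2_692, c2_693⟩, ⟨c2_694, c2_695, c2_696, c2_697⟩⟩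
  wide := ⟨⟨c2_698, c2_699, c2_700, c2_701⟩,
    ⟨c2_702, c2_703, c2_704, c2_705⟩⟩
  lines := ⟨c2_706, c2_707, c2_708, c2_709, c2_710, c2_711, c2_712, c2_713, c2_714, c2_715, c2_716, ⟨fun _ _ _ _ _ => rfl, fun _ _ _ _ _ => rfl, fun _ _ _ _ _ => rfl⟩, c2_717, c2_718, c2_719, c2_720⟩
  low := ⟨c2_555, c2_556, c2_557,
      ⟨c2_533, c2_534, ⟨c2_517, .inr ⟨c2_518, c2_516⟩, c2_519, c2_520⟩, ⟨c2_525, .inr ⟨c2_526, c2_516⟩, c2_527, c2_528⟩⟩,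
      ⟨c2_553, c2_554, ⟨c2_537, .inl c2_538, c2_539, c2_540⟩, ⟨c2_545, .inl c2_546, c2_547, c2_548⟩⟩⟩
  w₀ := (.inl c2_516)
  w₁ := (.inr ⟨c2_535, c2_536⟩)
  inv := fun z => by simp only [Piece.Pt.val, p2, Ex.val]; norm_num
  p_eq := rfl
  s₀_eq := rfl
  u₀_eq := rfl
  u₁_eq := rfl
  tT_eq := rfl
  bu_eq := rfl

/-- The checks of the slab `0`. -/
theorem slab2_0 : p2.Slab g2 g2_0 :=
  ⟨⟨c2_586, c2_587, c2_588,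
      ⟨c2_570, c2_571, ⟨c2_560, .inl c2_561, c2_562, c2_563⟩, ⟨c2_565, .inl c2_566, c2_567, c2_568⟩⟩,
      ⟨c2_584, c2_585, ⟨c2_574, .inl c2_575, c2_576, c2_577⟩, ⟨c2_579, .inl c2_580, c2_581, c2_582⟩⟩⟩,
    ⟨c2_521, c2_529, c2_541, c2_549⟩, ⟨c2_564, c2_569, c2_578, c2_583⟩, (.inr ⟨c2_558, c2_559⟩), (.inr ⟨c2_572, c2_573⟩), rfl⟩

theorem cut2_0 : p2.Cut q2_0 := Piece.Cut.top p2

/-- The checks of the slab `1`. -/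
theorem slab2_1 : p2.Slab g2 g2_1 :=
  ⟨⟨c2_616, c2_617, c2_618,
      ⟨c2_600, c2_601, ⟨c2_590, .inr ⟨c2_591, c2_589⟩, c2_592, c2_593⟩, ⟨c2_595, .inr ⟨c2_596, c2_589⟩, c2_597, c2_598⟩⟩,
      ⟨c2_614, c2_615, ⟨c2_604, .inl c2_605, c2_606, c2_607⟩, ⟨c2_609, .inl c2_610, c2_611, c2_612⟩⟩⟩,
    ⟨c2_522, c2_530, c2_542, c2_550⟩, ⟨c2_594, c2_599, c2_608, c2_613⟩, (.inl c2_589), (.inr ⟨c2_602, c2_603⟩), rfl⟩

theorem cut2_1 : p2.Cut q2_1 := Piece.Cut.of_pos c2_724 c2_725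

/-- The checks of the slab `2`. -/
theorem slab2_2 : p2.Slab g2 g2_2 :=
  ⟨⟨c2_645, c2_646, c2_647,
      ⟨c2_630, c2_631, ⟨c2_620, .inr ⟨c2_621, c2_619⟩, c2_622, c2_623⟩, ⟨c2_625, .inr ⟨c2_626, c2_619⟩, c2_627, c2_628⟩⟩,
      ⟨c2_643, c2_644, ⟨c2_633, .inr ⟨c2_634, c2_632⟩, c2_635, c2_636⟩, ⟨c2_638, .inr ⟨c2_639, c2_632⟩, c2_640, c2_641⟩⟩⟩,
    ⟨c2_523, c2_531, c2_543, c2_551⟩, ⟨c2_624, c2_629, c2_637, c2_642⟩, (.inl c2_619), (.inl c2_632), rfl⟩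

theorem cut2_2 : p2.Cut q2_2 := Piece.Cut.of_pos c2_729 c2_730

/-- The checks of the slab `3`. -/
theorem slab2_3 : p2.Slab g2 g2_3 :=
  ⟨⟨c2_674, c2_675, c2_676,
      ⟨c2_659, c2_660, ⟨c2_649, .inr ⟨c2_650, c2_648⟩, c2_651, c2_652⟩, ⟨c2_654, .inr ⟨c2_655, c2_648⟩, c2_656, c2_657⟩⟩,
      ⟨c2_672, c2_673, ⟨c2_662, .inr ⟨c2_663, c2_661⟩, c2_664, c2_665⟩, ⟨c2_667, .inr ⟨c2_668, c2_661⟩, c2_669, c2_670⟩⟩⟩,
    ⟨c2_524, c2_532, c2_544, c2_552⟩, ⟨c2_653, c2_658, c2_666, c2_671⟩, (.inl c2_648), (.inl c2_661), rfl⟩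

theorem cut2_3 : p2.Cut q2_3 := Piece.Cut.one p2

/-- The signs on the piece. -/
theorem signs2 (z : p2.Pt) (u t : ℝ) (h : z.On u t) : ChartSigns z.d z.S u z.vv t := by
  rcases le_total (z.d * z.val q2_0) (1 / chH z.d z.S u z.vv t) with h0 | h0
  · exact z.signs_top base2 slab2_0 rfl rfl rfl ⟨c2_721, c2_722, c2_723⟩ h h0
  rcases le_total (z.d * z.val q2_1) (1 / chH z.d z.S u z.vv t) with h1 | h1
  · exact z.signs_U base2 slab2_1 rfl cut2_1 cut2_0 rfl rfl ⟨c2_726, c2_727, c2_728⟩ h h1 h0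
  rcases le_total (z.d * z.val q2_2) (1 / chH z.d z.S u z.vv t) with h2 | h2
  · exact z.signs_E base2 slab2_2 cut2_2 cut2_1 rfl rfl ⟨c2_731, c2_732⟩ h (z.u_fix rfl h) h2 h1
  exact z.signs_E base2 slab2_3 cut2_3 cut2_2 rfl rfl ⟨c2_733, c2_734⟩ h (z.u_em (em := cC (237) 10000) rfl c2_735 ⟨c2_736, c2_737, c2_738⟩ h h2) (z.last_cut h) h2

end Vale.Agent.P100.Calib.Closed.End
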