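import Vale.Agent.P100.Calib.SlabEndData

/-!
# Checks of the end strip, piece `3`
-/

set_option linter.defProp false

namespace Vale.Agent.P100.Calib.Closed.End

open BoxPos
open Large (PosBox posBox_of_check)

local instance endChk3A1Add : Add Ex := ⟨Ex.add⟩
local instance endChk3A1Mul : Mul Ex := ⟨Ex.mul⟩
local instance endChk3A1Sub : Sub Ex := ⟨Ex.sub⟩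

def c3_805 : PosBox ⟨⟨0, 1, 1⟩, ⟨1521, 1535, 2535⟩, ⟨15, 18, 100⟩, ⟨0, 1, 1⟩⟩
    (cF p3.kl p3.v (g3_0.s₁.t) (g3_0.u₁) (p3.wl g3_0.s₁.t) g3_0.p g3_0.s₁.phi) :=
  posBox_of_check (c := ⟨819, ⟨0, 12, 34, 17⟩⟩) (by decide +kernel)

def c3_806 : PosBox ⟨⟨0, 1, 1⟩, ⟨1521, 1535, 2535⟩, ⟨15, 18, 100⟩, ⟨0, 1, 1⟩⟩
    (cG p3.kl p3.v (g3_0.s₁.t) (g3_0.u₁) (p3.wl g3_0.s₁.t) (p3.wh g3_0.s₁.t) g3_0.p (cC (1) 4)) :=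
  posBox_of_check (c := ⟨611, ⟨0, 9, 26, 13⟩⟩) (by decide +kernel)

def c3_815 : PosBox ⟨⟨0, 1, 1⟩, ⟨1521, 1535, 2535⟩, ⟨15, 18, 100⟩, ⟨0, 1, 1⟩⟩
    (cF p3.kl p3.v (g3_1.s₀.t) (g3_1.u₀) (p3.wh g3_1.s₀.t) g3_1.p g3_1.s₀.phi) :=
  posBox_of_check (c := ⟨637, ⟨0, 12, 34, 11⟩⟩) (by decide +kernel)

def c3_816 : PosBox ⟨⟨0, 1, 1⟩, ⟨1521, 1535, 2535⟩, ⟨15, 18, 100⟩, ⟨0, 1, 1⟩⟩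
    (cR p3.kl p3.v (g3_1.s₀.t) (g3_1.u₀) (p3.wl g3_1.s₀.t) (p3.wh g3_1.s₀.t) g3_1.p) :=
  posBox_of_check (c := ⟨420, ⟨0, 9, 21, 7⟩⟩) (by decide +kernel)

def c3_817 : PosBox ⟨⟨0, 1, 1⟩, ⟨1521, 1535, 2535⟩, ⟨15, 18, 100⟩, ⟨0, 1, 1⟩⟩
    (cG p3.kl p3.v (g3_1.s₀.t) (g3_1.u₀) (p3.wl g3_1.s₀.t) (p3.wh g3_1.s₀.t) g3_1.p (cC (1) 4)) :=
  posBox_of_check (c := ⟨515, ⟨0, 9, 26, 9⟩⟩) (by decide +kernel)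

def c3_820 : PosBox ⟨⟨0, 1, 1⟩, ⟨1521, 1535, 2535⟩, ⟨15, 18, 100⟩, ⟨0, 1, 1⟩⟩
    (cF p3.kl p3.v (g3_1.s₀.t) (g3_1.u₁) (p3.wh g3_1.s₀.t) g3_1.p g3_1.s₀.phi) :=
  posBox_of_check (c := ⟨637, ⟨0, 12, 34, 11⟩⟩) (by decide +kernel)

def c3_821 : PosBox ⟨⟨0, 1, 1⟩, ⟨1521, 1535, 2535⟩, ⟨15, 18, 100⟩, ⟨0, 1, 1⟩⟩
    (cR p3.kl p3.v (g3_1.s₀.t) (g3_1.u₁) (p3.wl g3_1.s₀.t) (p3.wh g3_1.s₀.t) g3_1.p) :=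
  posBox_of_check (c := ⟨420, ⟨0, 9, 21, 7⟩⟩) (by decide +kernel)

def c3_822 : PosBox ⟨⟨0, 1, 1⟩, ⟨1521, 1535, 2535⟩, ⟨15, 18, 100⟩, ⟨0, 1, 1⟩⟩
    (cG p3.kl p3.v (g3_1.s₀.t) (g3_1.u₁) (p3.wl g3_1.s₀.t) (p3.wh g3_1.s₀.t) g3_1.p (cC (1) 4)) :=
  posBox_of_check (c := ⟨515, ⟨0, 9, 26, 9⟩⟩) (by decide +kernel)

def c3_827 : PosBox ⟨⟨0, 1, 1⟩, ⟨1521, 1535, 2535⟩, ⟨15, 18, 100⟩, ⟨0, 1, 1⟩⟩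
    (cG p3.kl p3.v (g3_1.s₁.t) (g3_1.u₀) (p3.wh g3_1.s₁.t) (p3.wl g3_1.s₁.t) g3_1.p (cC (1) 4)) :=
  posBox_of_check (c := ⟨567, ⟨0, 9, 22, 9⟩⟩) (by decide +kernel)

def c3_828 : PosBox ⟨⟨0, 1, 1⟩, ⟨1521, 1535, 2535⟩, ⟨15, 18, 100⟩, ⟨0, 1, 1⟩⟩
    (cG p3.kl p3.v (g3_1.s₁.t) (g3_1.u₁) (p3.wh g3_1.s₁.t) (p3.wl g3_1.s₁.t) g3_1.p (cC (1) 4)) :=
  posBox_of_check (c := ⟨567, ⟨0, 9, 22, 9⟩⟩) (by decide +kernel)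

def c3_829 : PosBox ⟨⟨0, 1, 1⟩, ⟨1521, 1535, 2535⟩, ⟨15, 18, 100⟩, ⟨0, 1, 1⟩⟩
    (cF p3.kl p3.v (g3_1.s₁.t) (g3_1.u₀) (p3.wh g3_1.s₁.t) g3_1.p g3_1.s₁.phi) :=
  posBox_of_check (c := ⟨633, ⟨0, 12, 28, 11⟩⟩) (by decide +kernel)

def c3_830 : PosBox ⟨⟨0, 1, 1⟩, ⟨1521, 1535, 2535⟩, ⟨15, 18, 100⟩, ⟨0, 1, 1⟩⟩
    (cF p3.kl p3.v (g3_1.s₁.t) (g3_1.u₀) (p3.wl g3_1.s₁.t) g3_1.p g3_1.s₁.phi) :=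
  posBox_of_check (c := ⟨677, ⟨0, 12, 28, 11⟩⟩) (by decide +kernel)

def c3_831 : PosBox ⟨⟨0, 1, 1⟩, ⟨1521, 1535, 2535⟩, ⟨15, 18, 100⟩, ⟨0, 1, 1⟩⟩
    (cG p3.kl p3.v (g3_1.s₁.t) (g3_1.u₀) (p3.wl g3_1.s₁.t) (p3.wh g3_1.s₁.t) g3_1.p (cC (1) 4)) :=
  posBox_of_check (c := ⟨513, ⟨0, 9, 22, 9⟩⟩) (by decide +kernel)

def c3_834 : PosBox ⟨⟨0, 1, 1⟩, ⟨1521, 1535, 2535⟩, ⟨15, 18, 100⟩, ⟨0, 1, 1⟩⟩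
    (cF p3.kl p3.v (g3_1.s₁.t) (g3_1.u₁) (p3.wh g3_1.s₁.t) g3_1.p g3_1.s₁.phi) :=
  posBox_of_check (c := ⟨633, ⟨0, 12, 28, 11⟩⟩) (by decide +kernel)

def c3_835 : PosBox ⟨⟨0, 1, 1⟩, ⟨1521, 1535, 2535⟩, ⟨15, 18, 100⟩, ⟨0, 1, 1⟩⟩
    (cF p3.kl p3.v (g3_1.s₁.t) (g3_1.u₁) (p3.wl g3_1.s₁.t) g3_1.p g3_1.s₁.phi) :=
  posBox_of_check (c := ⟨677, ⟨0, 12, 28, 11⟩⟩) (by decide +kernel)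

def c3_836 : PosBox ⟨⟨0, 1, 1⟩, ⟨1521, 1535, 2535⟩, ⟨15, 18, 100⟩, ⟨0, 1, 1⟩⟩
    (cG p3.kl p3.v (g3_1.s₁.t) (g3_1.u₁) (p3.wl g3_1.s₁.t) (p3.wh g3_1.s₁.t) g3_1.p (cC (1) 4)) :=
  posBox_of_check (c := ⟨513, ⟨0, 9, 22, 9⟩⟩) (by decide +kernel)

def c3_845 : PosBox ⟨⟨0, 1, 1⟩, ⟨1521, 1535, 2535⟩, ⟨15, 18, 100⟩, ⟨0, 1, 1⟩⟩
    (cF p3.kl p3.v (g3_2.s₀.t) (g3_2.u₀) (p3.wh g3_2.s₀.t) g3_2.p g3_2.s₀.phi) :=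
  posBox_of_check (c := ⟨663, ⟨0, 12, 34, 11⟩⟩) (by decide +kernel)

def c3_846 : PosBox ⟨⟨0, 1, 1⟩, ⟨1521, 1535, 2535⟩, ⟨15, 18, 100⟩, ⟨0, 1, 1⟩⟩
    (cR p3.kl p3.v (g3_2.s₀.t) (g3_2.u₀) (p3.wl g3_2.s₀.t) (p3.wh g3_2.s₀.t) g3_2.p) :=
  posBox_of_check (c := ⟨431, ⟨0, 9, 21, 7⟩⟩) (by decide +kernel)

def c3_847 : PosBox ⟨⟨0, 1, 1⟩, ⟨1521, 1535, 2535⟩, ⟨15, 18, 100⟩, ⟨0, 1, 1⟩⟩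
    (cG p3.kl p3.v (g3_2.s₀.t) (g3_2.u₀) (p3.wl g3_2.s₀.t) (p3.wh g3_2.s₀.t) g3_2.p (cC (1) 4)) :=
  posBox_of_check (c := ⟨537, ⟨0, 9, 26, 9⟩⟩) (by decide +kernel)

def c3_850 : PosBox ⟨⟨0, 1, 1⟩, ⟨1521, 1535, 2535⟩, ⟨15, 18, 100⟩, ⟨0, 1, 1⟩⟩
    (cF p3.kl p3.v (g3_2.s₀.t) (g3_2.u₁) (p3.wh g3_2.s₀.t) g3_2.p g3_2.s₀.phi) :=
  posBox_of_check (c := ⟨663, ⟨0, 12, 34, 11⟩⟩) (by decide +kernel)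

def c3_851 : PosBox ⟨⟨0, 1, 1⟩, ⟨1521, 1535, 2535⟩, ⟨15, 18, 100⟩, ⟨0, 1, 1⟩⟩
    (cR p3.kl p3.v (g3_2.s₀.t) (g3_2.u₁) (p3.wl g3_2.s₀.t) (p3.wh g3_2.s₀.t) g3_2.p) :=
  posBox_of_check (c := ⟨431, ⟨0, 9, 21, 7⟩⟩) (by decide +kernel)

def c3_852 : PosBox ⟨⟨0, 1, 1⟩, ⟨1521, 1535, 2535⟩, ⟨15, 18, 100⟩, ⟨0, 1, 1⟩⟩
    (cG p3.kl p3.v (g3_2.s₀.t) (g3_2.u₁) (p3.wl g3_2.s₀.t) (p3.wh g3_2.s₀.t) g3_2.p (cC (1) 4)) :=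
  posBox_of_check (c := ⟨537, ⟨0, 9, 26, 9⟩⟩) (by decide +kernel)

def c3_858 : PosBox ⟨⟨0, 1, 1⟩, ⟨1521, 1535, 2535⟩, ⟨15, 18, 100⟩, ⟨0, 1, 1⟩⟩
    (cF p3.kl p3.v (g3_2.s₁.t) (g3_2.u₀) (p3.wh g3_2.s₁.t) g3_2.p g3_2.s₁.phi) :=
  posBox_of_check (c := ⟨699, ⟨0, 12, 34, 11⟩⟩) (by decide +kernel)

def c3_859 : PosBox ⟨⟨0, 1, 1⟩, ⟨1521, 1535, 2535⟩, ⟨15, 18, 100⟩, ⟨0, 1, 1⟩⟩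
    (cR p3.kl p3.v (g3_2.s₁.t) (g3_2.u₀) (p3.wl g3_2.s₁.t) (p3.wh g3_2.s₁.t) g3_2.p) :=
  posBox_of_check (c := ⟨443, ⟨0, 9, 21, 7⟩⟩) (by decide +kernel)

def c3_860 : PosBox ⟨⟨0, 1, 1⟩, ⟨1521, 1535, 2535⟩, ⟨15, 18, 100⟩, ⟨0, 1, 1⟩⟩
    (cG p3.kl p3.v (g3_2.s₁.t) (g3_2.u₀) (p3.wl g3_2.s₁.t) (p3.wh g3_2.s₁.t) g3_2.p (cC (1) 4)) :=
  posBox_of_check (c := ⟨561, ⟨0, 9, 26, 9⟩⟩) (by decide +kernel)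

def c3_863 : PosBox ⟨⟨0, 1, 1⟩, ⟨1521, 1535, 2535⟩, ⟨15, 18, 100⟩, ⟨0, 1, 1⟩⟩
    (cF p3.kl p3.v (g3_2.s₁.t) (g3_2.u₁) (p3.wh g3_2.s₁.t) g3_2.p g3_2.s₁.phi) :=
  posBox_of_check (c := ⟨699, ⟨0, 12, 34, 11⟩⟩) (by decide +kernel)

def c3_864 : PosBox ⟨⟨0, 1, 1⟩, ⟨1521, 1535, 2535⟩, ⟨15, 18, 100⟩, ⟨0, 1, 1⟩⟩
    (cR p3.kl p3.v (g3_2.s₁.t) (g3_2.u₁) (p3.wl g3_2.s₁.t) (p3.wh g3_2.s₁.t) g3_2.p) :=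
  posBox_of_check (c := ⟨443, ⟨0, 9, 21, 7⟩⟩) (by decide +kernel)

def c3_865 : PosBox ⟨⟨0, 1, 1⟩, ⟨1521, 1535, 2535⟩, ⟨15, 18, 100⟩, ⟨0, 1, 1⟩⟩
    (cG p3.kl p3.v (g3_2.s₁.t) (g3_2.u₁) (p3.wl g3_2.s₁.t) (p3.wh g3_2.s₁.t) g3_2.p (cC (1) 4)) :=
  posBox_of_check (c := ⟨561, ⟨0, 9, 26, 9⟩⟩) (by decide +kernel)

end Vale.Agent.P100.Calib.Closed.End
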