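import Vale.Agent.P100.Calib.SlabEndData

/-!
# Checks of the end strip, piece `3`
-/

set_option linter.defProp false

namespace Vale.Agent.P100.Calib.Closed.End

open BoxPos
open Large (PosBox posBox_of_check)

local instance endChk3A2Add : Add Ex := ⟨Ex.add⟩
local instance endChk3A2Mul : Mul Ex := ⟨Ex.mul⟩
local instance endChk3A2Sub : Sub Ex := ⟨Ex.sub⟩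

def c3_874 : PosBox ⟨⟨0, 1, 1⟩, ⟨1521, 1535, 2535⟩, ⟨15, 18, 100⟩, ⟨0, 1, 1⟩⟩
    (cF p3.kl p3.v (g3_3.s₀.t) (g3_3.u₀) (p3.wh g3_3.s₀.t) g3_3.p g3_3.s₀.phi) :=
  posBox_of_check (c := ⟨587, ⟨0, 12, 28, 11⟩⟩) (by decide +kernel)

def c3_875 : PosBox ⟨⟨0, 1, 1⟩, ⟨1521, 1535, 2535⟩, ⟨15, 18, 100⟩, ⟨0, 1, 1⟩⟩
    (cR p3.kl p3.v (g3_3.s₀.t) (g3_3.u₀) (p3.wl g3_3.s₀.t) (p3.wh g3_3.s₀.t) g3_3.p) :=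
  posBox_of_check (c := ⟨406, ⟨0, 9, 19, 7⟩⟩) (by decide +kernel)

def c3_876 : PosBox ⟨⟨0, 1, 1⟩, ⟨1521, 1535, 2535⟩, ⟨15, 18, 100⟩, ⟨0, 1, 1⟩⟩
    (cG p3.kl p3.v (g3_3.s₀.t) (g3_3.u₀) (p3.wl g3_3.s₀.t) (p3.wh g3_3.s₀.t) g3_3.p (cC (1) 4)) :=
  posBox_of_check (c := ⟨486, ⟨0, 9, 22, 9⟩⟩) (by decide +kernel)

def c3_879 : PosBox ⟨⟨0, 1, 1⟩, ⟨1521, 1535, 2535⟩, ⟨15, 18, 100⟩, ⟨0, 1, 1⟩⟩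
    (cF p3.kl p3.v (g3_3.s₀.t) (g3_3.u₁) (p3.wh g3_3.s₀.t) g3_3.p g3_3.s₀.phi) :=
  posBox_of_check (c := ⟨587, ⟨0, 12, 28, 11⟩⟩) (by decide +kernel)

def c3_880 : PosBox ⟨⟨0, 1, 1⟩, ⟨1521, 1535, 2535⟩, ⟨15, 18, 100⟩, ⟨0, 1, 1⟩⟩
    (cR p3.kl p3.v (g3_3.s₀.t) (g3_3.u₁) (p3.wl g3_3.s₀.t) (p3.wh g3_3.s₀.t) g3_3.p) :=
  posBox_of_check (c := ⟨406, ⟨0, 9, 19, 7⟩⟩) (by decide +kernel)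

def c3_881 : PosBox ⟨⟨0, 1, 1⟩, ⟨1521, 1535, 2535⟩, ⟨15, 18, 100⟩, ⟨0, 1, 1⟩⟩
    (cG p3.kl p3.v (g3_3.s₀.t) (g3_3.u₁) (p3.wl g3_3.s₀.t) (p3.wh g3_3.s₀.t) g3_3.p (cC (1) 4)) :=
  posBox_of_check (c := ⟨486, ⟨0, 9, 22, 9⟩⟩) (by decide +kernel)

def c3_887 : PosBox ⟨⟨0, 1, 1⟩, ⟨1521, 1535, 2535⟩, ⟨15, 18, 100⟩, ⟨0, 1, 1⟩⟩
    (cF p3.kl p3.v (g3_3.s₁.t) (g3_3.u₀) (p3.wh g3_3.s₁.t) g3_3.p g3_3.s₁.phi) :=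
  posBox_of_check (c := ⟨713, ⟨0, 12, 34, 11⟩⟩) (by decide +kernel)

def c3_888 : PosBox ⟨⟨0, 1, 1⟩, ⟨1521, 1535, 2535⟩, ⟨15, 18, 100⟩, ⟨0, 1, 1⟩⟩
    (cR p3.kl p3.v (g3_3.s₁.t) (g3_3.u₀) (p3.wl g3_3.s₁.t) (p3.wh g3_3.s₁.t) g3_3.p) :=
  posBox_of_check (c := ⟨448, ⟨0, 9, 21, 7⟩⟩) (by decide +kernel)

def c3_889 : PosBox ⟨⟨0, 1, 1⟩, ⟨1521, 1535, 2535⟩, ⟨15, 18, 100⟩, ⟨0, 1, 1⟩⟩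
    (cG p3.kl p3.v (g3_3.s₁.t) (g3_3.u₀) (p3.wl g3_3.s₁.t) (p3.wh g3_3.s₁.t) g3_3.p (cC (1) 4)) :=
  posBox_of_check (c := ⟨570, ⟨0, 9, 26, 9⟩⟩) (by decide +kernel)

def c3_892 : PosBox ⟨⟨0, 1, 1⟩, ⟨1521, 1535, 2535⟩, ⟨15, 18, 100⟩, ⟨0, 1, 1⟩⟩
    (cF p3.kl p3.v (g3_3.s₁.t) (g3_3.u₁) (p3.wh g3_3.s₁.t) g3_3.p g3_3.s₁.phi) :=
  posBox_of_check (c := ⟨713, ⟨0, 12, 34, 11⟩⟩) (by decide +kernel)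

def c3_893 : PosBox ⟨⟨0, 1, 1⟩, ⟨1521, 1535, 2535⟩, ⟨15, 18, 100⟩, ⟨0, 1, 1⟩⟩
    (cR p3.kl p3.v (g3_3.s₁.t) (g3_3.u₁) (p3.wl g3_3.s₁.t) (p3.wh g3_3.s₁.t) g3_3.p) :=
  posBox_of_check (c := ⟨448, ⟨0, 9, 21, 7⟩⟩) (by decide +kernel)

def c3_894 : PosBox ⟨⟨0, 1, 1⟩, ⟨1521, 1535, 2535⟩, ⟨15, 18, 100⟩, ⟨0, 1, 1⟩⟩
    (cG p3.kl p3.v (g3_3.s₁.t) (g3_3.u₁) (p3.wl g3_3.s₁.t) (p3.wh g3_3.s₁.t) g3_3.p (cC (1) 4)) :=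
  posBox_of_check (c := ⟨570, ⟨0, 9, 26, 9⟩⟩) (by decide +kernel)

end Vale.Agent.P100.Calib.Closed.End
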