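import Vale.Agent.P100.Calib.SlabEndData

/-!
# Checks of the end strip, piece `3`
-/

set_option linter.defProp false

namespace Vale.Agent.P100.Calib.Closed.End

open BoxPos
open Large (PosBox posBox_of_check)

local instance endChk3B0Add : Add Ex := ⟨Ex.add⟩
local instance endChk3B0Mul : Mul Ex := ⟨Ex.mul⟩
local instance endChk3B0Sub : Sub Ex := ⟨Ex.sub⟩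

def c3_741 : PosBox ⟨⟨0, 1, 1⟩, ⟨1521, 1535, 2535⟩, ⟨15, 18, 100⟩, ⟨0, 1, 1⟩⟩
    ((p3.wh g3.s₀.t) - (p3.wl g3.s₀.t)) :=
  posBox_of_check (c := ⟨184, ⟨0, 3, 5, 1⟩⟩) (by decide +kernel)

def c3_745 : PosBox ⟨⟨0, 1, 1⟩, ⟨1521, 1535, 2535⟩, ⟨15, 18, 100⟩, ⟨0, 1, 1⟩⟩
    (g3.s₀.eta - cEG p3.kl p3.v (g3.s₀.t) (g3.u₀) g3.p) :=
  posBox_of_check (c := ⟨319, ⟨0, 8, 16, 5⟩⟩) (by decide +kernel)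

def c3_746 : PosBox ⟨⟨0, 1, 1⟩, ⟨1521, 1535, 2535⟩, ⟨15, 18, 100⟩, ⟨0, 1, 1⟩⟩
    (g3.s₀.eta' + cEG p3.kl p3.v (g3.s₀.t) (g3.u₀) g3.p - cSag p3.kl p3.v (g3.s₀.t) (g3.u₀) p3.lo g3_0.p) :=
  posBox_of_check (c := ⟨342, ⟨0, 8, 16, 6⟩⟩) (by decide +kernel)

def c3_747 : PosBox ⟨⟨0, 1, 1⟩, ⟨1521, 1535, 2535⟩, ⟨15, 18, 100⟩, ⟨0, 1, 1⟩⟩
    (g3.s₀.eta' + cEG p3.kl p3.v (g3.s₀.t) (g3.u₀) g3.p - cSag p3.kl p3.v (g3.s₀.t) (g3.u₀) p3.lo g3_1.p) :=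
  posBox_of_check (c := ⟨331, ⟨0, 8, 16, 6⟩⟩) (by decide +kernel)

def c3_748 : PosBox ⟨⟨0, 1, 1⟩, ⟨1521, 1535, 2535⟩, ⟨15, 18, 100⟩, ⟨0, 1, 1⟩⟩
    (g3.s₀.eta' + cEG p3.kl p3.v (g3.s₀.t) (g3.u₀) g3.p - cSag p3.kl p3.v (g3.s₀.t) (g3.u₀) p3.lo g3_2.p) :=
  posBox_of_check (c := ⟨343, ⟨0, 8, 16, 6⟩⟩) (by decide +kernel)

def c3_749 : PosBox ⟨⟨0, 1, 1⟩, ⟨1521, 1535, 2535⟩, ⟨15, 18, 100⟩, ⟨0, 1, 1⟩⟩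
    (g3.s₀.eta' + cEG p3.kl p3.v (g3.s₀.t) (g3.u₀) g3.p - cSag p3.kl p3.v (g3.s₀.t) (g3.u₀) p3.lo g3_3.p) :=
  posBox_of_check (c := ⟨343, ⟨0, 8, 16, 6⟩⟩) (by decide +kernel)

def c3_753 : PosBox ⟨⟨0, 1, 1⟩, ⟨1521, 1535, 2535⟩, ⟨15, 18, 100⟩, ⟨0, 1, 1⟩⟩
    (g3.s₀.eta - cEG p3.kl p3.v (g3.s₀.t) (g3.u₁) g3.p) :=
  posBox_of_check (c := ⟨319, ⟨0, 8, 16, 5⟩⟩) (by decide +kernel)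

def c3_754 : PosBox ⟨⟨0, 1, 1⟩, ⟨1521, 1535, 2535⟩, ⟨15, 18, 100⟩, ⟨0, 1, 1⟩⟩
    (g3.s₀.eta' + cEG p3.kl p3.v (g3.s₀.t) (g3.u₁) g3.p - cSag p3.kl p3.v (g3.s₀.t) (g3.u₁) p3.lo g3_0.p) :=
  posBox_of_check (c := ⟨342, ⟨0, 8, 16, 6⟩⟩) (by decide +kernel)

def c3_755 : PosBox ⟨⟨0, 1, 1⟩, ⟨1521, 1535, 2535⟩, ⟨15, 18, 100⟩, ⟨0, 1, 1⟩⟩
    (g3.s₀.eta' + cEG p3.kl p3.v (g3.s₀.t) (g3.u₁) g3.p - cSag p3.kl p3.v (g3.s₀.t) (g3.u₁) p3.lo g3_1.p) :=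
  posBox_of_check (c := ⟨331, ⟨0, 8, 16, 6⟩⟩) (by decide +kernel)

def c3_756 : PosBox ⟨⟨0, 1, 1⟩, ⟨1521, 1535, 2535⟩, ⟨15, 18, 100⟩, ⟨0, 1, 1⟩⟩
    (g3.s₀.eta' + cEG p3.kl p3.v (g3.s₀.t) (g3.u₁) g3.p - cSag p3.kl p3.v (g3.s₀.t) (g3.u₁) p3.lo g3_2.p) :=
  posBox_of_check (c := ⟨343, ⟨0, 8, 16, 6⟩⟩) (by decide +kernel)

def c3_757 : PosBox ⟨⟨0, 1, 1⟩, ⟨1521, 1535, 2535⟩, ⟨15, 18, 100⟩, ⟨0, 1, 1⟩⟩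
    (g3.s₀.eta' + cEG p3.kl p3.v (g3.s₀.t) (g3.u₁) g3.p - cSag p3.kl p3.v (g3.s₀.t) (g3.u₁) p3.lo g3_3.p) :=
  posBox_of_check (c := ⟨343, ⟨0, 8, 16, 6⟩⟩) (by decide +kernel)

def c3_758 : PosBox ⟨⟨0, 1, 1⟩, ⟨1521, 1535, 2535⟩, ⟨15, 18, 100⟩, ⟨0, 1, 1⟩⟩
    (cC (4) 1 * g3.beta * g3.s₀.phi - cC (625) 1 * (cC (1) 1 + Ex.x₂ * p3.v) * g3.s₀.eta * g3.s₀.eta) :=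
  posBox_of_check (c := ⟨171, ⟨0, 0, 6, 6⟩⟩) (by decide +kernel)

def c3_759 : PosBox ⟨⟨0, 1, 1⟩, ⟨1521, 1535, 2535⟩, ⟨15, 18, 100⟩, ⟨0, 1, 1⟩⟩
    (cC (4) 1 * g3.beta * g3.s₀.phi - cC (625) 1 * (cC (1) 1 + Ex.x₂ * p3.v) * g3.s₀.eta' * g3.s₀.eta') :=
  posBox_of_check (c := ⟨171, ⟨0, 0, 6, 6⟩⟩) (by decide +kernel)

def c3_765 : PosBox ⟨⟨0, 1, 1⟩, ⟨1521, 1535, 2535⟩, ⟨15, 18, 100⟩, ⟨0, 1, 1⟩⟩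
    (g3.s₁.eta - cEG p3.kl p3.v (g3.s₁.t) (g3.u₀) g3.p) :=
  posBox_cut₂ (A := ⟨30, 33, 200⟩) (B := ⟨33, 36, 200⟩) (by unfold covers; decide)
    (posBox_cut₃ (A := ⟨0, 1, 2⟩) (B := ⟨1, 2, 2⟩) (by unfold covers; decide)
      (posBox_of_check (c := ⟨503, ⟨0, 8, 18, 7⟩⟩) (by decide +kernel))
      (posBox_of_check (c := ⟨503, ⟨0, 8, 18, 7⟩⟩) (by decide +kernel)))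
    (posBox_cut₃ (A := ⟨0, 1, 2⟩) (B := ⟨1, 2, 2⟩) (by unfold covers; decide)
      (posBox_of_check (c := ⟨503, ⟨0, 8, 18, 7⟩⟩) (by decide +kernel))
      (posBox_of_check (c := ⟨503, ⟨0, 8, 18, 7⟩⟩) (by decide +kernel)))

def c3_766 : PosBox ⟨⟨0, 1, 1⟩, ⟨1521, 1535, 2535⟩, ⟨15, 18, 100⟩, ⟨0, 1, 1⟩⟩
    (g3.s₁.eta' + cEG p3.kl p3.v (g3.s₁.t) (g3.u₀) g3.p - cSag p3.kl p3.v (g3.s₁.t) (g3.u₀) p3.lo g3_0.p) :=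
  posBox_of_check (c := ⟨405, ⟨0, 8, 18, 8⟩⟩) (by decide +kernel)

def c3_767 : PosBox ⟨⟨0, 1, 1⟩, ⟨1521, 1535, 2535⟩, ⟨15, 18, 100⟩, ⟨0, 1, 1⟩⟩
    (g3.s₁.eta' + cEG p3.kl p3.v (g3.s₁.t) (g3.u₀) g3.p - cSag p3.kl p3.v (g3.s₁.t) (g3.u₀) p3.lo g3_1.p) :=
  posBox_cut₂ (A := ⟨30, 33, 200⟩) (B := ⟨33, 36, 200⟩) (by unfold covers; decide)
    (posBox_cut₃ (A := ⟨0, 1, 2⟩) (B := ⟨1, 2, 2⟩) (by unfold covers; decide)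
      (posBox_of_check (c := ⟨514, ⟨0, 8, 18, 8⟩⟩) (by decide +kernel))
      (posBox_of_check (c := ⟨514, ⟨0, 8, 18, 8⟩⟩) (by decide +kernel)))
    (posBox_cut₃ (A := ⟨0, 1, 2⟩) (B := ⟨1, 2, 2⟩) (by unfold covers; decide)
      (posBox_of_check (c := ⟨514, ⟨0, 8, 18, 8⟩⟩) (by decide +kernel))
      (posBox_of_check (c := ⟨514, ⟨0, 8, 18, 8⟩⟩) (by decide +kernel)))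

def c3_768 : PosBox ⟨⟨0, 1, 1⟩, ⟨1521, 1535, 2535⟩, ⟨15, 18, 100⟩, ⟨0, 1, 1⟩⟩
    (g3.s₁.eta' + cEG p3.kl p3.v (g3.s₁.t) (g3.u₀) g3.p - cSag p3.kl p3.v (g3.s₁.t) (g3.u₀) p3.lo g3_2.p) :=
  posBox_of_check (c := ⟨406, ⟨0, 8, 18, 8⟩⟩) (by decide +kernel)

def c3_769 : PosBox ⟨⟨0, 1, 1⟩, ⟨1521, 1535, 2535⟩, ⟨15, 18, 100⟩, ⟨0, 1, 1⟩⟩
    (g3.s₁.eta' + cEG p3.kl p3.v (g3.s₁.t) (g3.u₀) g3.p - cSag p3.kl p3.v (g3.s₁.t) (g3.u₀) p3.lo g3_3.p) :=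
  posBox_of_check (c := ⟨406, ⟨0, 8, 18, 8⟩⟩) (by decide +kernel)

def c3_773 : PosBox ⟨⟨0, 1, 1⟩, ⟨1521, 1535, 2535⟩, ⟨15, 18, 100⟩, ⟨0, 1, 1⟩⟩
    (g3.s₁.eta - cEG p3.kl p3.v (g3.s₁.t) (g3.u₁) g3.p) :=
  posBox_cut₂ (A := ⟨30, 33, 200⟩) (B := ⟨33, 36, 200⟩) (by unfold covers; decide)
    (posBox_cut₃ (A := ⟨0, 1, 2⟩) (B := ⟨1, 2, 2⟩) (by unfold covers; decide)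
      (posBox_of_check (c := ⟨503, ⟨0, 8, 18, 7⟩⟩) (by decide +kernel))
      (posBox_of_check (c := ⟨503, ⟨0, 8, 18, 7⟩⟩) (by decide +kernel)))
    (posBox_cut₃ (A := ⟨0, 1, 2⟩) (B := ⟨1, 2, 2⟩) (by unfold covers; decide)
      (posBox_of_check (c := ⟨503, ⟨0, 8, 18, 7⟩⟩) (by decide +kernel))
      (posBox_of_check (c := ⟨503, ⟨0, 8, 18, 7⟩⟩) (by decide +kernel)))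

def c3_774 : PosBox ⟨⟨0, 1, 1⟩, ⟨1521, 1535, 2535⟩, ⟨15, 18, 100⟩, ⟨0, 1, 1⟩⟩
    (g3.s₁.eta' + cEG p3.kl p3.v (g3.s₁.t) (g3.u₁) g3.p - cSag p3.kl p3.v (g3.s₁.t) (g3.u₁) p3.lo g3_0.p) :=
  posBox_of_check (c := ⟨405, ⟨0, 8, 18, 8⟩⟩) (by decide +kernel)

def c3_775 : PosBox ⟨⟨0, 1, 1⟩, ⟨1521, 1535, 2535⟩, ⟨15, 18, 100⟩, ⟨0, 1, 1⟩⟩
    (g3.s₁.eta' + cEG p3.kl p3.v (g3.s₁.t) (g3.u₁) g3.p - cSag p3.kl p3.v (g3.s₁.t) (g3.u₁) p3.lo g3_1.p) :=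
  posBox_cut₂ (A := ⟨30, 33, 200⟩) (B := ⟨33, 36, 200⟩) (by unfold covers; decide)
    (posBox_cut₃ (A := ⟨0, 1, 2⟩) (B := ⟨1, 2, 2⟩) (by unfold covers; decide)
      (posBox_of_check (c := ⟨514, ⟨0, 8, 18, 8⟩⟩) (by decide +kernel))
      (posBox_of_check (c := ⟨514, ⟨0, 8, 18, 8⟩⟩) (by decide +kernel)))
    (posBox_of_check (c := ⟨454, ⟨0, 8, 18, 8⟩⟩) (by decide +kernel))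

def c3_776 : PosBox ⟨⟨0, 1, 1⟩, ⟨1521, 1535, 2535⟩, ⟨15, 18, 100⟩, ⟨0, 1, 1⟩⟩
    (g3.s₁.eta' + cEG p3.kl p3.v (g3.s₁.t) (g3.u₁) g3.p - cSag p3.kl p3.v (g3.s₁.t) (g3.u₁) p3.lo g3_2.p) :=
  posBox_of_check (c := ⟨406, ⟨0, 8, 18, 8⟩⟩) (by decide +kernel)

def c3_777 : PosBox ⟨⟨0, 1, 1⟩, ⟨1521, 1535, 2535⟩, ⟨15, 18, 100⟩, ⟨0, 1, 1⟩⟩
    (g3.s₁.eta' + cEG p3.kl p3.v (g3.s₁.t) (g3.u₁) g3.p - cSag p3.kl p3.v (g3.s₁.t) (g3.u₁) p3.lo g3_3.p) :=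
  posBox_of_check (c := ⟨406, ⟨0, 8, 18, 8⟩⟩) (by decide +kernel)

def c3_778 : PosBox ⟨⟨0, 1, 1⟩, ⟨1521, 1535, 2535⟩, ⟨15, 18, 100⟩, ⟨0, 1, 1⟩⟩
    (cC (4) 1 * g3.beta * g3.s₁.phi - cC (625) 1 * (cC (1) 1 + Ex.x₂ * p3.v) * g3.s₁.eta * g3.s₁.eta) :=
  posBox_of_check (c := ⟨171, ⟨0, 0, 6, 6⟩⟩) (by decide +kernel)

def c3_779 : PosBox ⟨⟨0, 1, 1⟩, ⟨1521, 1535, 2535⟩, ⟨15, 18, 100⟩, ⟨0, 1, 1⟩⟩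
    (cC (4) 1 * g3.beta * g3.s₁.phi - cC (625) 1 * (cC (1) 1 + Ex.x₂ * p3.v) * g3.s₁.eta' * g3.s₁.eta') :=
  posBox_of_check (c := ⟨171, ⟨0, 0, 6, 6⟩⟩) (by decide +kernel)

def c3_780 : PosBox ⟨⟨0, 1, 1⟩, ⟨1521, 1535, 2535⟩, ⟨15, 18, 100⟩, ⟨0, 1, 1⟩⟩
    (g3.beta) :=
  posBox_of_check (c := ⟨103, ⟨0, 0, 4, 4⟩⟩) (by decide +kernel)

def c3_781 : PosBox ⟨⟨0, 1, 1⟩, ⟨1521, 1535, 2535⟩, ⟨15, 18, 100⟩, ⟨0, 1, 1⟩⟩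
    (eTGG cA Ex.x₂ p3.v g3.p - g3.beta) :=
  posBox_of_check (c := ⟨311, ⟨0, 7, 17, 6⟩⟩) (by decide +kernel)

def c3_782 : PosBox ⟨⟨0, 1, 1⟩, ⟨1521, 1535, 2535⟩, ⟨15, 18, 100⟩, ⟨0, 1, 1⟩⟩
    (g3.p + cC (1) 4) :=
  posBox_of_check (c := ⟨64, ⟨0, 1, 3, 1⟩⟩) (by decide +kernel)

def c3_788 : PosBox ⟨⟨0, 1, 1⟩, ⟨1521, 1535, 2535⟩, ⟨15, 18, 100⟩, ⟨0, 1, 1⟩⟩
    (g3_0.s₀.eta - cEG p3.kl p3.v (g3_0.s₀.t) (g3_0.u₀) g3_0.p) :=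
  posBox_of_check (c := ⟨342, ⟨0, 8, 16, 6⟩⟩) (by decide +kernel)

def c3_789 : PosBox ⟨⟨0, 1, 1⟩, ⟨1521, 1535, 2535⟩, ⟨15, 18, 100⟩, ⟨0, 1, 1⟩⟩
    (g3_0.s₀.eta' + cEG p3.kl p3.v (g3_0.s₀.t) (g3_0.u₀) g3_0.p - cSag p3.kl p3.v (g3_0.s₀.t) (g3_0.u₀) p3.lo g3_0.p) :=
  posBox_of_check (c := ⟨345, ⟨0, 8, 16, 6⟩⟩) (by decide +kernel)

def c3_793 : PosBox ⟨⟨0, 1, 1⟩, ⟨1521, 1535, 2535⟩, ⟨15, 18, 100⟩, ⟨0, 1, 1⟩⟩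
    (g3_0.s₀.eta - cEG p3.kl p3.v (g3_0.s₀.t) (g3_0.u₁) g3_0.p) :=
  posBox_of_check (c := ⟨342, ⟨0, 8, 16, 6⟩⟩) (by decide +kernel)

def c3_794 : PosBox ⟨⟨0, 1, 1⟩, ⟨1521, 1535, 2535⟩, ⟨15, 18, 100⟩, ⟨0, 1, 1⟩⟩
    (g3_0.s₀.eta' + cEG p3.kl p3.v (g3_0.s₀.t) (g3_0.u₁) g3_0.p - cSag p3.kl p3.v (g3_0.s₀.t) (g3_0.u₁) p3.lo g3_0.p) :=
  posBox_of_check (c := ⟨345, ⟨0, 8, 16, 6⟩⟩) (by decide +kernel)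

def c3_795 : PosBox ⟨⟨0, 1, 1⟩, ⟨1521, 1535, 2535⟩, ⟨15, 18, 100⟩, ⟨0, 1, 1⟩⟩
    (cC (4) 1 * g3_0.beta * g3_0.s₀.phi - cC (625) 1 * (cC (1) 1 + Ex.x₂ * p3.v) * g3_0.s₀.eta * g3_0.s₀.eta) :=
  posBox_of_check (c := ⟨168, ⟨0, 0, 6, 6⟩⟩) (by decide +kernel)

def c3_796 : PosBox ⟨⟨0, 1, 1⟩, ⟨1521, 1535, 2535⟩, ⟨15, 18, 100⟩, ⟨0, 1, 1⟩⟩
    (cC (4) 1 * g3_0.beta * g3_0.s₀.phi - cC (625) 1 * (cC (1) 1 + Ex.x₂ * p3.v) * g3_0.s₀.eta' * g3_0.s₀.eta') :=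
  posBox_of_check (c := ⟨168, ⟨0, 0, 6, 6⟩⟩) (by decide +kernel)

def c3_802 : PosBox ⟨⟨0, 1, 1⟩, ⟨1521, 1535, 2535⟩, ⟨15, 18, 100⟩, ⟨0, 1, 1⟩⟩
    (g3_0.s₁.eta - cEG p3.kl p3.v (g3_0.s₁.t) (g3_0.u₀) g3_0.p) :=
  posBox_of_check (c := ⟨402, ⟨0, 8, 18, 8⟩⟩) (by decide +kernel)

def c3_803 : PosBox ⟨⟨0, 1, 1⟩, ⟨1521, 1535, 2535⟩, ⟨15, 18, 100⟩, ⟨0, 1, 1⟩⟩
    (g3_0.s₁.eta' + cEG p3.kl p3.v (g3_0.s₁.t) (g3_0.u₀) g3_0.p - cSag p3.kl p3.v (g3_0.s₁.t) (g3_0.u₀) p3.lo g3_0.p) :=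
  posBox_cut₂ (A := ⟨30, 33, 200⟩) (B := ⟨33, 36, 200⟩) (by unfold covers; decide)
    (posBox_cut₃ (A := ⟨0, 1, 2⟩) (B := ⟨1, 2, 2⟩) (by unfold covers; decide)
      (posBox_of_check (c := ⟨526, ⟨0, 8, 18, 8⟩⟩) (by decide +kernel))
      (posBox_of_check (c := ⟨526, ⟨0, 8, 18, 8⟩⟩) (by decide +kernel)))
    (posBox_cut₃ (A := ⟨0, 1, 2⟩) (B := ⟨1, 2, 2⟩) (by unfold covers; decide)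
      (posBox_of_check (c := ⟨526, ⟨0, 8, 18, 8⟩⟩) (by decide +kernel))
      (posBox_of_check (c := ⟨526, ⟨0, 8, 18, 8⟩⟩) (by decide +kernel)))

def c3_807 : PosBox ⟨⟨0, 1, 1⟩, ⟨1521, 1535, 2535⟩, ⟨15, 18, 100⟩, ⟨0, 1, 1⟩⟩
    (g3_0.s₁.eta - cEG p3.kl p3.v (g3_0.s₁.t) (g3_0.u₁) g3_0.p) :=
  posBox_cut₂ (A := ⟨30, 33, 200⟩) (B := ⟨33, 36, 200⟩) (by unfold covers; decide)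
    (posBox_cut₃ (A := ⟨0, 1, 2⟩) (B := ⟨1, 2, 2⟩) (by unfold covers; decide)
      (posBox_of_check (c := ⟨522, ⟨0, 8, 18, 8⟩⟩) (by decide +kernel))
      (posBox_of_check (c := ⟨522, ⟨0, 8, 18, 8⟩⟩) (by decide +kernel)))
    (posBox_cut₃ (A := ⟨0, 1, 2⟩) (B := ⟨1, 2, 2⟩) (by unfold covers; decide)
      (posBox_of_check (c := ⟨522, ⟨0, 8, 18, 8⟩⟩) (by decide +kernel))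
      (posBox_of_check (c := ⟨522, ⟨0, 8, 18, 8⟩⟩) (by decide +kernel)))

def c3_808 : PosBox ⟨⟨0, 1, 1⟩, ⟨1521, 1535, 2535⟩, ⟨15, 18, 100⟩, ⟨0, 1, 1⟩⟩
    (g3_0.s₁.eta' + cEG p3.kl p3.v (g3_0.s₁.t) (g3_0.u₁) g3_0.p - cSag p3.kl p3.v (g3_0.s₁.t) (g3_0.u₁) p3.lo g3_0.p) :=
  posBox_cut₂ (A := ⟨30, 33, 200⟩) (B := ⟨33, 36, 200⟩) (by unfold covers; decide)
    (posBox_cut₃ (A := ⟨0, 1, 2⟩) (B := ⟨1, 2, 2⟩) (by unfold covers; decide)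
      (posBox_of_check (c := ⟨526, ⟨0, 8, 18, 8⟩⟩) (by decide +kernel))
      (posBox_of_check (c := ⟨526, ⟨0, 8, 18, 8⟩⟩) (by decide +kernel)))
    (posBox_of_check (c := ⟨466, ⟨0, 8, 18, 8⟩⟩) (by decide +kernel))

def c3_809 : PosBox ⟨⟨0, 1, 1⟩, ⟨1521, 1535, 2535⟩, ⟨15, 18, 100⟩, ⟨0, 1, 1⟩⟩
    (cC (4) 1 * g3_0.beta * g3_0.s₁.phi - cC (625) 1 * (cC (1) 1 + Ex.x₂ * p3.v) * g3_0.s₁.eta * g3_0.s₁.eta) :=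
  posBox_of_check (c := ⟨171, ⟨0, 0, 6, 6⟩⟩) (by decide +kernel)

def c3_810 : PosBox ⟨⟨0, 1, 1⟩, ⟨1521, 1535, 2535⟩, ⟨15, 18, 100⟩, ⟨0, 1, 1⟩⟩
    (cC (4) 1 * g3_0.beta * g3_0.s₁.phi - cC (625) 1 * (cC (1) 1 + Ex.x₂ * p3.v) * g3_0.s₁.eta' * g3_0.s₁.eta') :=
  posBox_of_check (c := ⟨171, ⟨0, 0, 6, 6⟩⟩) (by decide +kernel)

def c3_811 : PosBox ⟨⟨0, 1, 1⟩, ⟨1521, 1535, 2535⟩, ⟨15, 18, 100⟩, ⟨0, 1, 1⟩⟩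
    (g3_0.beta) :=
  posBox_of_check (c := ⟨102, ⟨0, 0, 4, 4⟩⟩) (by decide +kernel)

def c3_812 : PosBox ⟨⟨0, 1, 1⟩, ⟨1521, 1535, 2535⟩, ⟨15, 18, 100⟩, ⟨0, 1, 1⟩⟩
    (eTGG cA Ex.x₂ p3.v g3_0.p - g3_0.beta) :=
  posBox_of_check (c := ⟨337, ⟨0, 7, 17, 7⟩⟩) (by decide +kernel)

def c3_813 : PosBox ⟨⟨0, 1, 1⟩, ⟨1521, 1535, 2535⟩, ⟨15, 18, 100⟩, ⟨0, 1, 1⟩⟩
    (g3_0.p + cC (1) 4) :=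
  posBox_of_check (c := ⟨138, ⟨0, 1, 3, 2⟩⟩) (by decide +kernel)

def c3_814 : PosBox ⟨⟨0, 1, 1⟩, ⟨1521, 1535, 2535⟩, ⟨15, 18, 100⟩, ⟨0, 1, 1⟩⟩
    ((p3.wh g3_1.s₀.t) - (p3.wl g3_1.s₀.t)) :=
  posBox_of_check (c := ⟨205, ⟨0, 3, 7, 1⟩⟩) (by decide +kernel)

def c3_818 : PosBox ⟨⟨0, 1, 1⟩, ⟨1521, 1535, 2535⟩, ⟨15, 18, 100⟩, ⟨0, 1, 1⟩⟩
    (g3_1.s₀.eta - cEG p3.kl p3.v (g3_1.s₀.t) (g3_1.u₀) g3_1.p) :=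
  posBox_of_check (c := ⟨349, ⟨0, 8, 18, 6⟩⟩) (by decide +kernel)

def c3_819 : PosBox ⟨⟨0, 1, 1⟩, ⟨1521, 1535, 2535⟩, ⟨15, 18, 100⟩, ⟨0, 1, 1⟩⟩
    (g3_1.s₀.eta' + cEG p3.kl p3.v (g3_1.s₀.t) (g3_1.u₀) g3_1.p - cSag p3.kl p3.v (g3_1.s₀.t) (g3_1.u₀) p3.lo g3_1.p) :=
  posBox_of_check (c := ⟨352, ⟨0, 8, 18, 6⟩⟩) (by decide +kernel)

def c3_823 : PosBox ⟨⟨0, 1, 1⟩, ⟨1521, 1535, 2535⟩, ⟨15, 18, 100⟩, ⟨0, 1, 1⟩⟩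
    (g3_1.s₀.eta - cEG p3.kl p3.v (g3_1.s₀.t) (g3_1.u₁) g3_1.p) :=
  posBox_of_check (c := ⟨349, ⟨0, 8, 18, 6⟩⟩) (by decide +kernel)

def c3_824 : PosBox ⟨⟨0, 1, 1⟩, ⟨1521, 1535, 2535⟩, ⟨15, 18, 100⟩, ⟨0, 1, 1⟩⟩
    (g3_1.s₀.eta' + cEG p3.kl p3.v (g3_1.s₀.t) (g3_1.u₁) g3_1.p - cSag p3.kl p3.v (g3_1.s₀.t) (g3_1.u₁) p3.lo g3_1.p) :=
  posBox_of_check (c := ⟨352, ⟨0, 8, 18, 6⟩⟩) (by decide +kernel)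

def c3_825 : PosBox ⟨⟨0, 1, 1⟩, ⟨1521, 1535, 2535⟩, ⟨15, 18, 100⟩, ⟨0, 1, 1⟩⟩
    (cC (4) 1 * g3_1.beta * g3_1.s₀.phi - cC (625) 1 * (cC (1) 1 + Ex.x₂ * p3.v) * g3_1.s₀.eta * g3_1.s₀.eta) :=
  posBox_of_check (c := ⟨170, ⟨0, 0, 6, 6⟩⟩) (by decide +kernel)

def c3_826 : PosBox ⟨⟨0, 1, 1⟩, ⟨1521, 1535, 2535⟩, ⟨15, 18, 100⟩, ⟨0, 1, 1⟩⟩
    (cC (4) 1 * g3_1.beta * g3_1.s₀.phi - cC (625) 1 * (cC (1) 1 + Ex.x₂ * p3.v) * g3_1.s₀.eta' * g3_1.s₀.eta') :=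
  posBox_of_check (c := ⟨170, ⟨0, 0, 6, 6⟩⟩) (by decide +kernel)

def c3_832 : PosBox ⟨⟨0, 1, 1⟩, ⟨1521, 1535, 2535⟩, ⟨15, 18, 100⟩, ⟨0, 1, 1⟩⟩
    (g3_1.s₁.eta - cEG p3.kl p3.v (g3_1.s₁.t) (g3_1.u₀) g3_1.p) :=
  posBox_of_check (c := ⟨348, ⟨0, 8, 16, 6⟩⟩) (by decide +kernel)

def c3_833 : PosBox ⟨⟨0, 1, 1⟩, ⟨1521, 1535, 2535⟩, ⟨15, 18, 100⟩, ⟨0, 1, 1⟩⟩
    (g3_1.s₁.eta' + cEG p3.kl p3.v (g3_1.s₁.t) (g3_1.u₀) g3_1.p - cSag p3.kl p3.v (g3_1.s₁.t) (g3_1.u₀) p3.lo g3_1.p) :=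
  posBox_of_check (c := ⟨351, ⟨0, 8, 16, 6⟩⟩) (by decide +kernel)

def c3_837 : PosBox ⟨⟨0, 1, 1⟩, ⟨1521, 1535, 2535⟩, ⟨15, 18, 100⟩, ⟨0, 1, 1⟩⟩
    (g3_1.s₁.eta - cEG p3.kl p3.v (g3_1.s₁.t) (g3_1.u₁) g3_1.p) :=
  posBox_of_check (c := ⟨348, ⟨0, 8, 16, 6⟩⟩) (by decide +kernel)

def c3_838 : PosBox ⟨⟨0, 1, 1⟩, ⟨1521, 1535, 2535⟩, ⟨15, 18, 100⟩, ⟨0, 1, 1⟩⟩
    (g3_1.s₁.eta' + cEG p3.kl p3.v (g3_1.s₁.t) (g3_1.u₁) g3_1.p - cSag p3.kl p3.v (g3_1.s₁.t) (g3_1.u₁) p3.lo g3_1.p) :=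
  posBox_of_check (c := ⟨351, ⟨0, 8, 16, 6⟩⟩) (by decide +kernel)

def c3_839 : PosBox ⟨⟨0, 1, 1⟩, ⟨1521, 1535, 2535⟩, ⟨15, 18, 100⟩, ⟨0, 1, 1⟩⟩
    (cC (4) 1 * g3_1.beta * g3_1.s₁.phi - cC (625) 1 * (cC (1) 1 + Ex.x₂ * p3.v) * g3_1.s₁.eta * g3_1.s₁.eta) :=
  posBox_of_check (c := ⟨172, ⟨0, 0, 6, 6⟩⟩) (by decide +kernel)

def c3_840 : PosBox ⟨⟨0, 1, 1⟩, ⟨1521, 1535, 2535⟩, ⟨15, 18, 100⟩, ⟨0, 1, 1⟩⟩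
    (cC (4) 1 * g3_1.beta * g3_1.s₁.phi - cC (625) 1 * (cC (1) 1 + Ex.x₂ * p3.v) * g3_1.s₁.eta' * g3_1.s₁.eta') :=
  posBox_of_check (c := ⟨172, ⟨0, 0, 6, 6⟩⟩) (by decide +kernel)

def c3_841 : PosBox ⟨⟨0, 1, 1⟩, ⟨1521, 1535, 2535⟩, ⟨15, 18, 100⟩, ⟨0, 1, 1⟩⟩
    (g3_1.beta) :=
  posBox_of_check (c := ⟨103, ⟨0, 0, 4, 4⟩⟩) (by decide +kernel)

def c3_842 : PosBox ⟨⟨0, 1, 1⟩, ⟨1521, 1535, 2535⟩, ⟨15, 18, 100⟩, ⟨0, 1, 1⟩⟩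
    (eTGG cA Ex.x₂ p3.v g3_1.p - g3_1.beta) :=
  posBox_of_check (c := ⟨326, ⟨0, 7, 17, 7⟩⟩) (by decide +kernel)

def c3_843 : PosBox ⟨⟨0, 1, 1⟩, ⟨1521, 1535, 2535⟩, ⟨15, 18, 100⟩, ⟨0, 1, 1⟩⟩
    (g3_1.p + cC (1) 4) :=
  posBox_of_check (c := ⟨133, ⟨0, 1, 3, 2⟩⟩) (by decide +kernel)

def c3_844 : PosBox ⟨⟨0, 1, 1⟩, ⟨1521, 1535, 2535⟩, ⟨15, 18, 100⟩, ⟨0, 1, 1⟩⟩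
    ((p3.wh g3_2.s₀.t) - (p3.wl g3_2.s₀.t)) :=
  posBox_of_check (c := ⟨210, ⟨0, 3, 7, 1⟩⟩) (by decide +kernel)

def c3_848 : PosBox ⟨⟨0, 1, 1⟩, ⟨1521, 1535, 2535⟩, ⟨15, 18, 100⟩, ⟨0, 1, 1⟩⟩
    (g3_2.s₀.eta - cEG p3.kl p3.v (g3_2.s₀.t) (g3_2.u₀) g3_2.p) :=
  posBox_of_check (c := ⟨366, ⟨0, 8, 18, 6⟩⟩) (by decide +kernel)

def c3_849 : PosBox ⟨⟨0, 1, 1⟩, ⟨1521, 1535, 2535⟩, ⟨15, 18, 100⟩, ⟨0, 1, 1⟩⟩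
    (g3_2.s₀.eta' + cEG p3.kl p3.v (g3_2.s₀.t) (g3_2.u₀) g3_2.p - cSag p3.kl p3.v (g3_2.s₀.t) (g3_2.u₀) p3.lo g3_2.p) :=
  posBox_of_check (c := ⟨369, ⟨0, 8, 18, 6⟩⟩) (by decide +kernel)

def c3_853 : PosBox ⟨⟨0, 1, 1⟩, ⟨1521, 1535, 2535⟩, ⟨15, 18, 100⟩, ⟨0, 1, 1⟩⟩
    (g3_2.s₀.eta - cEG p3.kl p3.v (g3_2.s₀.t) (g3_2.u₁) g3_2.p) :=
  posBox_of_check (c := ⟨366, ⟨0, 8, 18, 6⟩⟩) (by decide +kernel)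

def c3_854 : PosBox ⟨⟨0, 1, 1⟩, ⟨1521, 1535, 2535⟩, ⟨15, 18, 100⟩, ⟨0, 1, 1⟩⟩
    (g3_2.s₀.eta' + cEG p3.kl p3.v (g3_2.s₀.t) (g3_2.u₁) g3_2.p - cSag p3.kl p3.v (g3_2.s₀.t) (g3_2.u₁) p3.lo g3_2.p) :=
  posBox_of_check (c := ⟨369, ⟨0, 8, 18, 6⟩⟩) (by decide +kernel)

def c3_855 : PosBox ⟨⟨0, 1, 1⟩, ⟨1521, 1535, 2535⟩, ⟨15, 18, 100⟩, ⟨0, 1, 1⟩⟩
    (cC (4) 1 * g3_2.beta * g3_2.s₀.phi - cC (625) 1 * (cC (1) 1 + Ex.x₂ * p3.v) * g3_2.s₀.eta * g3_2.s₀.eta) :=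
  posBox_of_check (c := ⟨240, ⟨0, 0, 10, 9⟩⟩) (by decide +kernel)

def c3_856 : PosBox ⟨⟨0, 1, 1⟩, ⟨1521, 1535, 2535⟩, ⟨15, 18, 100⟩, ⟨0, 1, 1⟩⟩
    (cC (4) 1 * g3_2.beta * g3_2.s₀.phi - cC (625) 1 * (cC (1) 1 + Ex.x₂ * p3.v) * g3_2.s₀.eta' * g3_2.s₀.eta') :=
  posBox_of_check (c := ⟨173, ⟨0, 0, 6, 6⟩⟩) (by decide +kernel)

def c3_857 : PosBox ⟨⟨0, 1, 1⟩, ⟨1521, 1535, 2535⟩, ⟨15, 18, 100⟩, ⟨0, 1, 1⟩⟩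
    ((p3.wh g3_2.s₁.t) - (p3.wl g3_2.s₁.t)) :=
  posBox_of_check (c := ⟨222, ⟨0, 3, 7, 1⟩⟩) (by decide +kernel)

def c3_861 : PosBox ⟨⟨0, 1, 1⟩, ⟨1521, 1535, 2535⟩, ⟨15, 18, 100⟩, ⟨0, 1, 1⟩⟩
    (g3_2.s₁.eta - cEG p3.kl p3.v (g3_2.s₁.t) (g3_2.u₀) g3_2.p) :=
  posBox_of_check (c := ⟨378, ⟨0, 8, 18, 6⟩⟩) (by decide +kernel)

def c3_862 : PosBox ⟨⟨0, 1, 1⟩, ⟨1521, 1535, 2535⟩, ⟨15, 18, 100⟩, ⟨0, 1, 1⟩⟩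
    (g3_2.s₁.eta' + cEG p3.kl p3.v (g3_2.s₁.t) (g3_2.u₀) g3_2.p - cSag p3.kl p3.v (g3_2.s₁.t) (g3_2.u₀) p3.lo g3_2.p) :=
  posBox_of_check (c := ⟨381, ⟨0, 8, 18, 6⟩⟩) (by decide +kernel)

def c3_866 : PosBox ⟨⟨0, 1, 1⟩, ⟨1521, 1535, 2535⟩, ⟨15, 18, 100⟩, ⟨0, 1, 1⟩⟩
    (g3_2.s₁.eta - cEG p3.kl p3.v (g3_2.s₁.t) (g3_2.u₁) g3_2.p) :=
  posBox_of_check (c := ⟨378, ⟨0, 8, 18, 6⟩⟩) (by decide +kernel)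

end Vale.Agent.P100.Calib.Closed.End
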