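import Vale.Agent.P100.Calib.SlabEndData

/-!
# Checks of the end strip, piece `3`
-/

set_option linter.defProp false

namespace Vale.Agent.P100.Calib.Closed.End

open BoxPos
open Large (PosBox posBox_of_check)

local instance endChk3B1Add : Add Ex := ⟨Ex.add⟩
local instance endChk3B1Mul : Mul Ex := ⟨Ex.mul⟩
local instance endChk3B1Sub : Sub Ex := ⟨Ex.sub⟩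

def c3_867 : PosBox ⟨⟨0, 1, 1⟩, ⟨1521, 1535, 2535⟩, ⟨15, 18, 100⟩, ⟨0, 1, 1⟩⟩
    (g3_2.s₁.eta' + cEG p3.kl p3.v (g3_2.s₁.t) (g3_2.u₁) g3_2.p - cSag p3.kl p3.v (g3_2.s₁.t) (g3_2.u₁) p3.lo g3_2.p) :=
  posBox_of_check (c := ⟨381, ⟨0, 8, 18, 6⟩⟩) (by decide +kernel)

def c3_868 : PosBox ⟨⟨0, 1, 1⟩, ⟨1521, 1535, 2535⟩, ⟨15, 18, 100⟩, ⟨0, 1, 1⟩⟩
    (cC (4) 1 * g3_2.beta * g3_2.s₁.phi - cC (625) 1 * (cC (1) 1 + Ex.x₂ * p3.v) * g3_2.s₁.eta * g3_2.s₁.eta) :=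
  posBox_of_check (c := ⟨173, ⟨0, 0, 6, 6⟩⟩) (by decide +kernel)

def c3_869 : PosBox ⟨⟨0, 1, 1⟩, ⟨1521, 1535, 2535⟩, ⟨15, 18, 100⟩, ⟨0, 1, 1⟩⟩
    (cC (4) 1 * g3_2.beta * g3_2.s₁.phi - cC (625) 1 * (cC (1) 1 + Ex.x₂ * p3.v) * g3_2.s₁.eta' * g3_2.s₁.eta') :=
  posBox_of_check (c := ⟨173, ⟨0, 0, 6, 6⟩⟩) (by decide +kernel)

def c3_870 : PosBox ⟨⟨0, 1, 1⟩, ⟨1521, 1535, 2535⟩, ⟨15, 18, 100⟩, ⟨0, 1, 1⟩⟩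
    (g3_2.beta) :=
  posBox_of_check (c := ⟨104, ⟨0, 0, 4, 4⟩⟩) (by decide +kernel)

def c3_871 : PosBox ⟨⟨0, 1, 1⟩, ⟨1521, 1535, 2535⟩, ⟨15, 18, 100⟩, ⟨0, 1, 1⟩⟩
    (eTGG cA Ex.x₂ p3.v g3_2.p - g3_2.beta) :=
  posBox_of_check (c := ⟨339, ⟨0, 7, 17, 7⟩⟩) (by decide +kernel)

def c3_872 : PosBox ⟨⟨0, 1, 1⟩, ⟨1521, 1535, 2535⟩, ⟨15, 18, 100⟩, ⟨0, 1, 1⟩⟩
    (g3_2.p + cC (1) 4) :=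
  posBox_of_check (c := ⟨139, ⟨0, 1, 3, 2⟩⟩) (by decide +kernel)

def c3_873 : PosBox ⟨⟨0, 1, 1⟩, ⟨1521, 1535, 2535⟩, ⟨15, 18, 100⟩, ⟨0, 1, 1⟩⟩
    ((p3.wh g3_3.s₀.t) - (p3.wl g3_3.s₀.t)) :=
  posBox_of_check (c := ⟨184, ⟨0, 3, 5, 1⟩⟩) (by decide +kernel)

def c3_877 : PosBox ⟨⟨0, 1, 1⟩, ⟨1521, 1535, 2535⟩, ⟨15, 18, 100⟩, ⟨0, 1, 1⟩⟩
    (g3_3.s₀.eta - cEG p3.kl p3.v (g3_3.s₀.t) (g3_3.u₀) g3_3.p) :=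
  posBox_of_check (c := ⟨340, ⟨0, 8, 16, 6⟩⟩) (by decide +kernel)

def c3_878 : PosBox ⟨⟨0, 1, 1⟩, ⟨1521, 1535, 2535⟩, ⟨15, 18, 100⟩, ⟨0, 1, 1⟩⟩
    (g3_3.s₀.eta' + cEG p3.kl p3.v (g3_3.s₀.t) (g3_3.u₀) g3_3.p - cSag p3.kl p3.v (g3_3.s₀.t) (g3_3.u₀) p3.lo g3_3.p) :=
  posBox_of_check (c := ⟨343, ⟨0, 8, 16, 6⟩⟩) (by decide +kernel)

def c3_882 : PosBox ⟨⟨0, 1, 1⟩, ⟨1521, 1535, 2535⟩, ⟨15, 18, 100⟩, ⟨0, 1, 1⟩⟩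
    (g3_3.s₀.eta - cEG p3.kl p3.v (g3_3.s₀.t) (g3_3.u₁) g3_3.p) :=
  posBox_of_check (c := ⟨340, ⟨0, 8, 16, 6⟩⟩) (by decide +kernel)

def c3_883 : PosBox ⟨⟨0, 1, 1⟩, ⟨1521, 1535, 2535⟩, ⟨15, 18, 100⟩, ⟨0, 1, 1⟩⟩
    (g3_3.s₀.eta' + cEG p3.kl p3.v (g3_3.s₀.t) (g3_3.u₁) g3_3.p - cSag p3.kl p3.v (g3_3.s₀.t) (g3_3.u₁) p3.lo g3_3.p) :=
  posBox_of_check (c := ⟨343, ⟨0, 8, 16, 6⟩⟩) (by decide +kernel)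

def c3_884 : PosBox ⟨⟨0, 1, 1⟩, ⟨1521, 1535, 2535⟩, ⟨15, 18, 100⟩, ⟨0, 1, 1⟩⟩
    (cC (4) 1 * g3_3.beta * g3_3.s₀.phi - cC (625) 1 * (cC (1) 1 + Ex.x₂ * p3.v) * g3_3.s₀.eta * g3_3.s₀.eta) :=
  posBox_of_check (c := ⟨164, ⟨0, 0, 6, 6⟩⟩) (by decide +kernel)

def c3_885 : PosBox ⟨⟨0, 1, 1⟩, ⟨1521, 1535, 2535⟩, ⟨15, 18, 100⟩, ⟨0, 1, 1⟩⟩
    (cC (4) 1 * g3_3.beta * g3_3.s₀.phi - cC (625) 1 * (cC (1) 1 + Ex.x₂ * p3.v) * g3_3.s₀.eta' * g3_3.s₀.eta') :=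
  posBox_of_check (c := ⟨164, ⟨0, 0, 6, 6⟩⟩) (by decide +kernel)

def c3_886 : PosBox ⟨⟨0, 1, 1⟩, ⟨1521, 1535, 2535⟩, ⟨15, 18, 100⟩, ⟨0, 1, 1⟩⟩
    ((p3.wh g3_3.s₁.t) - (p3.wl g3_3.s₁.t)) :=
  posBox_of_check (c := ⟨226, ⟨0, 3, 7, 1⟩⟩) (by decide +kernel)

def c3_890 : PosBox ⟨⟨0, 1, 1⟩, ⟨1521, 1535, 2535⟩, ⟨15, 18, 100⟩, ⟨0, 1, 1⟩⟩
    (g3_3.s₁.eta - cEG p3.kl p3.v (g3_3.s₁.t) (g3_3.u₀) g3_3.p) :=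
  posBox_of_check (c := ⟨382, ⟨0, 8, 18, 6⟩⟩) (by decide +kernel)

def c3_891 : PosBox ⟨⟨0, 1, 1⟩, ⟨1521, 1535, 2535⟩, ⟨15, 18, 100⟩, ⟨0, 1, 1⟩⟩
    (g3_3.s₁.eta' + cEG p3.kl p3.v (g3_3.s₁.t) (g3_3.u₀) g3_3.p - cSag p3.kl p3.v (g3_3.s₁.t) (g3_3.u₀) p3.lo g3_3.p) :=
  posBox_of_check (c := ⟨385, ⟨0, 8, 18, 6⟩⟩) (by decide +kernel)

def c3_895 : PosBox ⟨⟨0, 1, 1⟩, ⟨1521, 1535, 2535⟩, ⟨15, 18, 100⟩, ⟨0, 1, 1⟩⟩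
    (g3_3.s₁.eta - cEG p3.kl p3.v (g3_3.s₁.t) (g3_3.u₁) g3_3.p) :=
  posBox_of_check (c := ⟨382, ⟨0, 8, 18, 6⟩⟩) (by decide +kernel)

def c3_896 : PosBox ⟨⟨0, 1, 1⟩, ⟨1521, 1535, 2535⟩, ⟨15, 18, 100⟩, ⟨0, 1, 1⟩⟩
    (g3_3.s₁.eta' + cEG p3.kl p3.v (g3_3.s₁.t) (g3_3.u₁) g3_3.p - cSag p3.kl p3.v (g3_3.s₁.t) (g3_3.u₁) p3.lo g3_3.p) :=
  posBox_of_check (c := ⟨385, ⟨0, 8, 18, 6⟩⟩) (by decide +kernel)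

def c3_897 : PosBox ⟨⟨0, 1, 1⟩, ⟨1521, 1535, 2535⟩, ⟨15, 18, 100⟩, ⟨0, 1, 1⟩⟩
    (cC (4) 1 * g3_3.beta * g3_3.s₁.phi - cC (625) 1 * (cC (1) 1 + Ex.x₂ * p3.v) * g3_3.s₁.eta * g3_3.s₁.eta) :=
  posBox_of_check (c := ⟨170, ⟨0, 0, 6, 6⟩⟩) (by decide +kernel)

def c3_898 : PosBox ⟨⟨0, 1, 1⟩, ⟨1521, 1535, 2535⟩, ⟨15, 18, 100⟩, ⟨0, 1, 1⟩⟩
    (cC (4) 1 * g3_3.beta * g3_3.s₁.phi - cC (625) 1 * (cC (1) 1 + Ex.x₂ * p3.v) * g3_3.s₁.eta' * g3_3.s₁.eta') :=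
  posBox_of_check (c := ⟨171, ⟨0, 0, 6, 6⟩⟩) (by decide +kernel)

def c3_899 : PosBox ⟨⟨0, 1, 1⟩, ⟨1521, 1535, 2535⟩, ⟨15, 18, 100⟩, ⟨0, 1, 1⟩⟩
    (g3_3.beta) :=
  posBox_of_check (c := ⟨102, ⟨0, 0, 4, 4⟩⟩) (by decide +kernel)

def c3_900 : PosBox ⟨⟨0, 1, 1⟩, ⟨1521, 1535, 2535⟩, ⟨15, 18, 100⟩, ⟨0, 1, 1⟩⟩
    (eTGG cA Ex.x₂ p3.v g3_3.p - g3_3.beta) :=
  posBox_of_check (c := ⟨339, ⟨0, 7, 17, 7⟩⟩) (by decide +kernel)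

def c3_901 : PosBox ⟨⟨0, 1, 1⟩, ⟨1521, 1535, 2535⟩, ⟨15, 18, 100⟩, ⟨0, 1, 1⟩⟩
    (g3_3.p + cC (1) 4) :=
  posBox_of_check (c := ⟨139, ⟨0, 1, 3, 2⟩⟩) (by decide +kernel)

def c3_902 : PosBox ⟨⟨0, 1, 1⟩, ⟨1521, 1535, 2535⟩, ⟨15, 18, 100⟩, ⟨0, 1, 1⟩⟩
    (p3.kl) :=
  posBox_of_check (c := ⟨31, ⟨0, 1, 0, 0⟩⟩) (by decide +kernel)

def c3_903 : PosBox ⟨⟨0, 1, 1⟩, ⟨1521, 1535, 2535⟩, ⟨15, 18, 100⟩, ⟨0, 1, 1⟩⟩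
    (cEE eTA p3.v) :=
  posBox_of_check (c := ⟨304, ⟨0, 7, 17, 6⟩⟩) (by decide +kernel)

def c3_904 : PosBox ⟨⟨0, 1, 1⟩, ⟨1521, 1535, 2535⟩, ⟨15, 18, 100⟩, ⟨0, 1, 1⟩⟩
    (cEE eTMG p3.v) :=
  posBox_of_check (c := ⟨285, ⟨0, 6, 16, 6⟩⟩) (by decide +kernel)

def c3_905 : PosBox ⟨⟨0, 1, 1⟩, ⟨1521, 1535, 2535⟩, ⟨15, 18, 100⟩, ⟨0, 1, 1⟩⟩
    (cC (-1) 1 * eTGG2 cA Ex.x₂ p3.v) :=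
  posBox_of_check (c := ⟨185, ⟨0, 5, 11, 3⟩⟩) (by decide +kernel)

def c3_906 : PosBox ⟨⟨0, 1, 1⟩, ⟨1521, 1535, 2535⟩, ⟨15, 18, 100⟩, ⟨0, 1, 1⟩⟩
    (eTMGw cA Ex.x₂ p3.v) :=
  posBox_of_check (c := ⟨186, ⟨0, 5, 10, 3⟩⟩) (by decide +kernel)

def c3_907 : PosBox ⟨⟨0, 1, 1⟩, ⟨1521, 1535, 2535⟩, ⟨15, 18, 100⟩, ⟨0, 1, 1⟩⟩
    (cM p3.v (g3.s₀.t) (g3.u₀)) :=
  posBox_of_check (c := ⟨98, ⟨0, 0, 3, 1⟩⟩) (by decide +kernel)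

def c3_908 : PosBox ⟨⟨0, 1, 1⟩, ⟨1521, 1535, 2535⟩, ⟨15, 18, 100⟩, ⟨0, 1, 1⟩⟩
    (cXp eTA p3.v * (p3.kl * cM p3.v (g3.s₀.t) (g3.u₀)) - eTA2 cA Ex.x₂ p3.v) :=
  posBox_of_check (c := ⟨428, ⟨0, 8, 20, 7⟩⟩) (by decide +kernel)

def c3_909 : PosBox ⟨⟨0, 1, 1⟩, ⟨1521, 1535, 2535⟩, ⟨15, 18, 100⟩, ⟨0, 1, 1⟩⟩
    (cXp eTMG p3.v * (p3.kl * cM p3.v (g3.s₀.t) (g3.u₀)) - eTMG2 cA Ex.x₂ p3.v) :=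
  posBox_of_check (c := ⟨409, ⟨0, 7, 19, 7⟩⟩) (by decide +kernel)

def c3_910 : PosBox ⟨⟨0, 1, 1⟩, ⟨1521, 1535, 2535⟩, ⟨15, 18, 100⟩, ⟨0, 1, 1⟩⟩
    (eTEG2 cA Ex.x₂ p3.v - cXe p3.v * (p3.kl * cM p3.v (g3.s₀.t) (g3.u₀))) :=
  posBox_of_check (c := ⟨368, ⟨0, 8, 16, 5⟩⟩) (by decide +kernel)

def c3_911 : PosBox ⟨⟨0, 1, 1⟩, ⟨1521, 1535, 2535⟩, ⟨15, 18, 100⟩, ⟨0, 1, 1⟩⟩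
    (cM p3.v (g3.s₀.t) (g3.u₁)) :=
  posBox_of_check (c := ⟨98, ⟨0, 0, 3, 1⟩⟩) (by decide +kernel)

def c3_912 : PosBox ⟨⟨0, 1, 1⟩, ⟨1521, 1535, 2535⟩, ⟨15, 18, 100⟩, ⟨0, 1, 1⟩⟩
    (cXp eTA p3.v * (p3.kl * cM p3.v (g3.s₀.t) (g3.u₁)) - eTA2 cA Ex.x₂ p3.v) :=
  posBox_of_check (c := ⟨428, ⟨0, 8, 20, 7⟩⟩) (by decide +kernel)

def c3_913 : PosBox ⟨⟨0, 1, 1⟩, ⟨1521, 1535, 2535⟩, ⟨15, 18, 100⟩, ⟨0, 1, 1⟩⟩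
    (cXp eTMG p3.v * (p3.kl * cM p3.v (g3.s₀.t) (g3.u₁)) - eTMG2 cA Ex.x₂ p3.v) :=
  posBox_of_check (c := ⟨409, ⟨0, 7, 19, 7⟩⟩) (by decide +kernel)

def c3_914 : PosBox ⟨⟨0, 1, 1⟩, ⟨1521, 1535, 2535⟩, ⟨15, 18, 100⟩, ⟨0, 1, 1⟩⟩
    (eTEG2 cA Ex.x₂ p3.v - cXe p3.v * (p3.kl * cM p3.v (g3.s₀.t) (g3.u₁))) :=
  posBox_of_check (c := ⟨368, ⟨0, 8, 16, 5⟩⟩) (by decide +kernel)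

def c3_915 : PosBox ⟨⟨0, 1, 1⟩, ⟨1521, 1535, 2535⟩, ⟨15, 18, 100⟩, ⟨0, 1, 1⟩⟩
    (cM p3.v (g3.s₁.t) (g3.u₀)) :=
  posBox_of_check (c := ⟨162, ⟨0, 0, 5, 3⟩⟩) (by decide +kernel)

def c3_916 : PosBox ⟨⟨0, 1, 1⟩, ⟨1521, 1535, 2535⟩, ⟨15, 18, 100⟩, ⟨0, 1, 1⟩⟩
    (cXp eTA p3.v * (p3.kl * cM p3.v (g3.s₁.t) (g3.u₀)) - eTA2 cA Ex.x₂ p3.v) :=
  posBox_of_check (c := ⟨492, ⟨0, 8, 22, 9⟩⟩) (by decide +kernel)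

def c3_917 : PosBox ⟨⟨0, 1, 1⟩, ⟨1521, 1535, 2535⟩, ⟨15, 18, 100⟩, ⟨0, 1, 1⟩⟩
    (cXp eTMG p3.v * (p3.kl * cM p3.v (g3.s₁.t) (g3.u₀)) - eTMG2 cA Ex.x₂ p3.v) :=
  posBox_of_check (c := ⟨472, ⟨0, 7, 21, 9⟩⟩) (by decide +kernel)

def c3_918 : PosBox ⟨⟨0, 1, 1⟩, ⟨1521, 1535, 2535⟩, ⟨15, 18, 100⟩, ⟨0, 1, 1⟩⟩
    (eTEG2 cA Ex.x₂ p3.v - cXe p3.v * (p3.kl * cM p3.v (g3.s₁.t) (g3.u₀))) :=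
  posBox_of_check (c := ⟨431, ⟨0, 8, 18, 7⟩⟩) (by decide +kernel)

def c3_919 : PosBox ⟨⟨0, 1, 1⟩, ⟨1521, 1535, 2535⟩, ⟨15, 18, 100⟩, ⟨0, 1, 1⟩⟩
    (cM p3.v (g3.s₁.t) (g3.u₁)) :=
  posBox_of_check (c := ⟨162, ⟨0, 0, 5, 3⟩⟩) (by decide +kernel)

def c3_920 : PosBox ⟨⟨0, 1, 1⟩, ⟨1521, 1535, 2535⟩, ⟨15, 18, 100⟩, ⟨0, 1, 1⟩⟩
    (cXp eTA p3.v * (p3.kl * cM p3.v (g3.s₁.t) (g3.u₁)) - eTA2 cA Ex.x₂ p3.v) :=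
  posBox_of_check (c := ⟨492, ⟨0, 8, 22, 9⟩⟩) (by decide +kernel)

def c3_921 : PosBox ⟨⟨0, 1, 1⟩, ⟨1521, 1535, 2535⟩, ⟨15, 18, 100⟩, ⟨0, 1, 1⟩⟩
    (cXp eTMG p3.v * (p3.kl * cM p3.v (g3.s₁.t) (g3.u₁)) - eTMG2 cA Ex.x₂ p3.v) :=
  posBox_of_check (c := ⟨472, ⟨0, 7, 21, 9⟩⟩) (by decide +kernel)

def c3_922 : PosBox ⟨⟨0, 1, 1⟩, ⟨1521, 1535, 2535⟩, ⟨15, 18, 100⟩, ⟨0, 1, 1⟩⟩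
    (eTEG2 cA Ex.x₂ p3.v - cXe p3.v * (p3.kl * cM p3.v (g3.s₁.t) (g3.u₁))) :=
  posBox_of_check (c := ⟨431, ⟨0, 8, 18, 7⟩⟩) (by decide +kernel)

def c3_923 : PosBox ⟨⟨0, 1, 1⟩, ⟨1521, 1535, 2535⟩, ⟨15, 18, 100⟩, ⟨0, 1, 1⟩⟩
    (cM p3.v (p3.tT) (g3.u₀)) :=
  posBox_of_check (c := ⟨118, ⟨0, 0, 3, 1⟩⟩) (by decide +kernel)

def c3_924 : PosBox ⟨⟨0, 1, 1⟩, ⟨1521, 1535, 2535⟩, ⟨15, 18, 100⟩, ⟨0, 1, 1⟩⟩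
    (cXp eTA p3.v * (p3.kl * cM p3.v (p3.tT) (g3.u₀)) - eTA2 cA Ex.x₂ p3.v) :=
  posBox_of_check (c := ⟨448, ⟨0, 8, 20, 7⟩⟩) (by decide +kernel)

def c3_925 : PosBox ⟨⟨0, 1, 1⟩, ⟨1521, 1535, 2535⟩, ⟨15, 18, 100⟩, ⟨0, 1, 1⟩⟩
    (cXp eTMG p3.v * (p3.kl * cM p3.v (p3.tT) (g3.u₀)) - eTMG2 cA Ex.x₂ p3.v) :=
  posBox_of_check (c := ⟨428, ⟨0, 7, 19, 7⟩⟩) (by decide +kernel)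

def c3_926 : PosBox ⟨⟨0, 1, 1⟩, ⟨1521, 1535, 2535⟩, ⟨15, 18, 100⟩, ⟨0, 1, 1⟩⟩
    (eTEG2 cA Ex.x₂ p3.v - cXe p3.v * (p3.kl * cM p3.v (p3.tT) (g3.u₀))) :=
  posBox_of_check (c := ⟨387, ⟨0, 8, 16, 5⟩⟩) (by decide +kernel)

def c3_927 : PosBox ⟨⟨0, 1, 1⟩, ⟨1521, 1535, 2535⟩, ⟨15, 18, 100⟩, ⟨0, 1, 1⟩⟩
    (cM p3.v (p3.tT) (g3.u₁)) :=
  posBox_of_check (c := ⟨118, ⟨0, 0, 3, 1⟩⟩) (by decide +kernel)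

def c3_928 : PosBox ⟨⟨0, 1, 1⟩, ⟨1521, 1535, 2535⟩, ⟨15, 18, 100⟩, ⟨0, 1, 1⟩⟩
    (cXp eTA p3.v * (p3.kl * cM p3.v (p3.tT) (g3.u₁)) - eTA2 cA Ex.x₂ p3.v) :=
  posBox_of_check (c := ⟨448, ⟨0, 8, 20, 7⟩⟩) (by decide +kernel)

def c3_929 : PosBox ⟨⟨0, 1, 1⟩, ⟨1521, 1535, 2535⟩, ⟨15, 18, 100⟩, ⟨0, 1, 1⟩⟩
    (cXp eTMG p3.v * (p3.kl * cM p3.v (p3.tT) (g3.u₁)) - eTMG2 cA Ex.x₂ p3.v) :=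
  posBox_of_check (c := ⟨428, ⟨0, 7, 19, 7⟩⟩) (by decide +kernel)

def c3_930 : PosBox ⟨⟨0, 1, 1⟩, ⟨1521, 1535, 2535⟩, ⟨15, 18, 100⟩, ⟨0, 1, 1⟩⟩
    (eTEG2 cA Ex.x₂ p3.v - cXe p3.v * (p3.kl * cM p3.v (p3.tT) (g3.u₁))) :=
  posBox_of_check (c := ⟨387, ⟨0, 8, 16, 5⟩⟩) (by decide +kernel)

def c3_931 : PosBox ⟨⟨0, 1, 1⟩, ⟨1521, 1535, 2535⟩, ⟨15, 18, 100⟩, ⟨0, 1, 1⟩⟩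
    (p3.bh * cB - cC (1) 1) :=
  posBox_of_check (c := ⟨72, ⟨0, 3, 3, 0⟩⟩) (by decide +kernel)

def c3_932 : PosBox ⟨⟨0, 1, 1⟩, ⟨1521, 1535, 2535⟩, ⟨15, 18, 100⟩, ⟨0, 1, 1⟩⟩
    (cC (1) 1 - p3.bl * cB) :=
  posBox_of_check (c := ⟨72, ⟨0, 3, 3, 0⟩⟩) (by decide +kernel)

def c3_933 : PosBox ⟨⟨0, 1, 1⟩, ⟨1521, 1535, 2535⟩, ⟨15, 18, 100⟩, ⟨0, 1, 1⟩⟩
    (p3.bl) :=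
  posBox_of_check (c := ⟨54, ⟨0, 2, 2, 0⟩⟩) (by decide +kernel)

def c3_934 : PosBox ⟨⟨0, 1, 1⟩, ⟨1521, 1535, 2535⟩, ⟨15, 18, 100⟩, ⟨0, 1, 1⟩⟩
    (p3.eta) :=
  posBox_of_check (c := ⟨63, ⟨0, 0, 0, 0⟩⟩) (by decide +kernel)

def c3_935 : PosBox ⟨⟨0, 1, 1⟩, ⟨1521, 1535, 2535⟩, ⟨15, 18, 100⟩, ⟨0, 1, 1⟩⟩
    (p3.eta + (p3.bh - p3.bl) * (cA - (cC (1) 1 - cA) * Ex.x₂ * p3.v)) :=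
  posBox_of_check (c := ⟨101, ⟨0, 3, 5, 1⟩⟩) (by decide +kernel)

def c3_936 : PosBox ⟨⟨0, 1, 1⟩, ⟨1521, 1535, 2535⟩, ⟨15, 18, 100⟩, ⟨0, 1, 1⟩⟩
    (cC (1) 1 - p3.rl * Ex.x₁) :=
  posBox_of_check (c := ⟨40, ⟨0, 2, 0, 0⟩⟩) (by decide +kernel)

def c3_937 : PosBox ⟨⟨0, 1, 1⟩, ⟨1521, 1535, 2535⟩, ⟨15, 18, 100⟩, ⟨0, 1, 1⟩⟩
    (p3.rh * Ex.x₁ - cC (1) 1) :=
  posBox_of_check (c := ⟨41, ⟨0, 2, 0, 0⟩⟩) (by decide +kernel)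

def c3_938 : PosBox ⟨⟨0, 1, 1⟩, ⟨1521, 1535, 2535⟩, ⟨15, 18, 100⟩, ⟨0, 1, 1⟩⟩
    (Ex.x₁ - p3.kl * (cC (1) 1 - Ex.x₁)) :=
  posBox_of_check (c := ⟨44, ⟨0, 2, 0, 0⟩⟩) (by decide +kernel)

def c3_939 : PosBox ⟨⟨0, 1, 1⟩, ⟨1521, 1535, 2535⟩, ⟨15, 18, 100⟩, ⟨0, 1, 1⟩⟩
    (p3.rho * p3.kl * (cC (1) 1 - Ex.x₁) - Ex.x₁) :=
  posBox_of_check (c := ⟨60, ⟨0, 2, 0, 0⟩⟩) (by decide +kernel)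

def c3_940 : PosBox ⟨⟨0, 1, 1⟩, ⟨1521, 1535, 2535⟩, ⟨15, 18, 100⟩, ⟨0, 1, 1⟩⟩
    (g3.s₁.t * cNum p3.v - p3.rho * cDen) :=
  posBox_cut₂ (A := ⟨30, 33, 200⟩) (B := ⟨33, 36, 200⟩) (by unfold covers; decide)
    (posBox_cut₃ (A := ⟨0, 1, 2⟩) (B := ⟨1, 2, 2⟩) (by unfold covers; decide)
      (posBox_of_check (c := ⟨244, ⟨0, 2, 5, 3⟩⟩) (by decide +kernel))
      (posBox_of_check (c := ⟨244, ⟨0, 2, 5, 3⟩⟩) (by decide +kernel)))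
    (posBox_cut₃ (A := ⟨0, 1, 2⟩) (B := ⟨1, 2, 2⟩) (by unfold covers; decide)
      (posBox_of_check (c := ⟨244, ⟨0, 2, 5, 3⟩⟩) (by decide +kernel))
      (posBox_of_check (c := ⟨244, ⟨0, 2, 5, 3⟩⟩) (by decide +kernel)))

def c3_941 : PosBox ⟨⟨0, 1, 1⟩, ⟨1521, 1535, 2535⟩, ⟨15, 18, 100⟩, ⟨0, 1, 1⟩⟩
    (cC (4) 1 * (cC (1) 1 - cA * p3.v) - p3.lo * cB) :=
  posBox_of_check (c := ⟨82, ⟨0, 2, 4, 1⟩⟩) (by decide +kernel)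

def c3_942 : PosBox ⟨⟨39, 40, 40⟩, ⟨1521, 1535, 2535⟩, ⟨15, 18, 100⟩, ⟨0, 1, 1⟩⟩
    (Ex.x₂ * cL0 p3.kl p3.v + cL1 p3.kl p3.v) :=
  posBox_of_check (c := ⟨224, ⟨2, 4, 12, 4⟩⟩) (by decide +kernel)

def c3_943 : PosBox ⟨⟨39, 40, 40⟩, ⟨1521, 1535, 2535⟩, ⟨15, 18, 100⟩, ⟨0, 1, 1⟩⟩
    (Ex.x₂ * cL0 (p3.rho * p3.kl) p3.v + cL1 (p3.rho * p3.kl) p3.v) :=
  posBox_of_check (c := ⟨240, ⟨2, 4, 12, 4⟩⟩) (by decide +kernel)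

def c3_944 : PosBox ⟨⟨39, 40, 40⟩, ⟨1521, 1535, 2535⟩, ⟨15, 18, 100⟩, ⟨0, 1, 1⟩⟩
    (cDen * cL0 p3.kl p3.v + cNum p3.v * cL1 p3.kl p3.v) :=
  posBox_of_check (c := ⟨268, ⟨2, 6, 13, 5⟩⟩) (by decide +kernel)

def c3_945 : PosBox ⟨⟨39, 40, 40⟩, ⟨1521, 1535, 2535⟩, ⟨15, 18, 100⟩, ⟨0, 1, 1⟩⟩
    (cDen * cL0 (p3.rho * p3.kl) p3.v + cNum p3.v * cL1 (p3.rho * p3.kl) p3.v) :=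
  posBox_of_check (c := ⟨285, ⟨2, 6, 13, 5⟩⟩) (by decide +kernel)

def c3_946 : PosBox ⟨⟨0, 1, 1⟩, ⟨1521, 1535, 2535⟩, ⟨15, 18, 100⟩, ⟨0, 1, 1⟩⟩
    (Ex.x₂ * g3_0.p * Ex.x₁ * cB * ((cC (2) 1 + Ex.x₂ * p3.v) * q3_0 - cC (39) 40) - cC (4) 1 * ((cC (2) 1 + Ex.x₂ * p3.v) * cB - Ex.x₁ * cC (39) 40 * cQ p3.v)) :=
  posBox_cut₂ (A := ⟨30, 33, 200⟩) (B := ⟨33, 36, 200⟩) (by unfold covers; decide)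
    (posBox_cut₃ (A := ⟨0, 1, 2⟩) (B := ⟨1, 2, 2⟩) (by unfold covers; decide)
      (posBox_of_check (c := ⟨324, ⟨0, 3, 7, 3⟩⟩) (by decide +kernel))
      (posBox_cut₂ (A := ⟨60, 63, 400⟩) (B := ⟨63, 66, 400⟩) (by unfold covers; decide)
        (posBox_cut₃ (A := ⟨2, 3, 4⟩) (B := ⟨3, 4, 4⟩) (by unfold covers; decide)
          (posBox_of_check (c := ⟨444, ⟨0, 3, 7, 3⟩⟩) (by decide +kernel))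
          (posBox_of_check (c := ⟨444, ⟨0, 3, 7, 3⟩⟩) (by decide +kernel)))
        (posBox_cut₃ (A := ⟨2, 3, 4⟩) (B := ⟨3, 4, 4⟩) (by unfold covers; decide)
          (posBox_of_check (c := ⟨444, ⟨0, 3, 7, 3⟩⟩) (by decide +kernel))
          (posBox_of_check (c := ⟨444, ⟨0, 3, 7, 3⟩⟩) (by decide +kernel)))))
    (posBox_cut₃ (A := ⟨0, 1, 2⟩) (B := ⟨1, 2, 2⟩) (by unfold covers; decide)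
      (posBox_of_check (c := ⟨324, ⟨0, 3, 7, 3⟩⟩) (by decide +kernel))
      (posBox_cut₂ (A := ⟨66, 69, 400⟩) (B := ⟨69, 72, 400⟩) (by unfold covers; decide)
        (posBox_cut₃ (A := ⟨2, 3, 4⟩) (B := ⟨3, 4, 4⟩) (by unfold covers; decide)
          (posBox_of_check (c := ⟨444, ⟨0, 3, 7, 3⟩⟩) (by decide +kernel))
          (posBox_of_check (c := ⟨444, ⟨0, 3, 7, 3⟩⟩) (by decide +kernel)))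
        (posBox_cut₃ (A := ⟨2, 3, 4⟩) (B := ⟨3, 4, 4⟩) (by unfold covers; decide)
          (posBox_of_check (c := ⟨444, ⟨0, 3, 7, 3⟩⟩) (by decide +kernel))
          (posBox_of_check (c := ⟨444, ⟨0, 3, 7, 3⟩⟩) (by decide +kernel)))))

def c3_947 : PosBox ⟨⟨0, 1, 1⟩, ⟨1521, 1535, 2535⟩, ⟨15, 18, 100⟩, ⟨0, 1, 1⟩⟩
    (g3_0.p * Ex.x₁ * cB * ((cC (2) 1 + Ex.x₂ * p3.v) * q3_0 - cC (1) 1) - cC (4) 1 * (cC (1) 1 - cA * p3.v)) :=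
  posBox_of_check (c := ⟨198, ⟨0, 3, 6, 3⟩⟩) (by decide +kernel)

def c3_948 : PosBox ⟨⟨0, 1, 1⟩, ⟨1521, 1535, 2535⟩, ⟨15, 18, 100⟩, ⟨0, 1, 1⟩⟩
    ((cC (2) 1 + Ex.x₂ * p3.v) * q3_0 - cC (1) 1) :=
  posBox_of_check (c := ⟨94, ⟨0, 0, 2, 1⟩⟩) (by decide +kernel)

end Vale.Agent.P100.Calib.Closed.End
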