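import Vale.Agent.P100.Calib.SlabEndData

/-!
# Checks of the end strip, piece `3`
-/

set_option linter.defProp false

namespace Vale.Agent.P100.Calib.Closed.End

open BoxPos
open Large (PosBox posBox_of_check)

local instance endChk3B2Add : Add Ex := ⟨Ex.add⟩
local instance endChk3B2Mul : Mul Ex := ⟨Ex.mul⟩
local instance endChk3B2Sub : Sub Ex := ⟨Ex.sub⟩

def c3_949 : PosBox ⟨⟨0, 1, 1⟩, ⟨1521, 1535, 2535⟩, ⟨15, 18, 100⟩, ⟨0, 1, 1⟩⟩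
    (q3_1 - cC (1) 1) :=
  posBox_of_check (c := ⟨84, ⟨0, 0, 2, 0⟩⟩) (by decide +kernel)

def c3_950 : PosBox ⟨⟨0, 1, 1⟩, ⟨1521, 1535, 2535⟩, ⟨15, 18, 100⟩, ⟨0, 1, 1⟩⟩
    (cC (10) 7 - q3_1) :=
  posBox_of_check (c := ⟨87, ⟨0, 0, 2, 0⟩⟩) (by decide +kernel)

def c3_951 : PosBox ⟨⟨0, 1, 1⟩, ⟨1521, 1535, 2535⟩, ⟨15, 18, 100⟩, ⟨0, 1, 1⟩⟩
    (Ex.x₂ * g3_1.p * Ex.x₁ * cB * ((cC (2) 1 + Ex.x₂ * p3.v) * q3_1 - cC (39) 40) - cC (4) 1 * ((cC (2) 1 + Ex.x₂ * p3.v) * cB - Ex.x₁ * cC (39) 40 * cQ p3.v)) :=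
  posBox_cut₂ (A := ⟨30, 33, 200⟩) (B := ⟨33, 36, 200⟩) (by unfold covers; decide)
    (posBox_cut₃ (A := ⟨0, 1, 2⟩) (B := ⟨1, 2, 2⟩) (by unfold covers; decide)
      (posBox_of_check (c := ⟨336, ⟨0, 3, 9, 3⟩⟩) (by decide +kernel))
      (posBox_cut₂ (A := ⟨60, 63, 400⟩) (B := ⟨63, 66, 400⟩) (by unfold covers; decide)
        (posBox_cut₃ (A := ⟨2, 3, 4⟩) (B := ⟨3, 4, 4⟩) (by unfold covers; decide)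
          (posBox_of_check (c := ⟨456, ⟨0, 3, 9, 3⟩⟩) (by decide +kernel))
          (posBox_of_check (c := ⟨456, ⟨0, 3, 9, 3⟩⟩) (by decide +kernel)))
        (posBox_cut₃ (A := ⟨2, 3, 4⟩) (B := ⟨3, 4, 4⟩) (by unfold covers; decide)
          (posBox_of_check (c := ⟨456, ⟨0, 3, 9, 3⟩⟩) (by decide +kernel))
          (posBox_of_check (c := ⟨456, ⟨0, 3, 9, 3⟩⟩) (by decide +kernel)))))
    (posBox_cut₃ (A := ⟨0, 1, 2⟩) (B := ⟨1, 2, 2⟩) (by unfold covers; decide)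
      (posBox_of_check (c := ⟨336, ⟨0, 3, 9, 3⟩⟩) (by decide +kernel))
      (posBox_cut₂ (A := ⟨66, 69, 400⟩) (B := ⟨69, 72, 400⟩) (by unfold covers; decide)
        (posBox_cut₃ (A := ⟨2, 3, 4⟩) (B := ⟨3, 4, 4⟩) (by unfold covers; decide)
          (posBox_of_check (c := ⟨456, ⟨0, 3, 9, 3⟩⟩) (by decide +kernel))
          (posBox_of_check (c := ⟨456, ⟨0, 3, 9, 3⟩⟩) (by decide +kernel)))
        (posBox_cut₃ (A := ⟨2, 3, 4⟩) (B := ⟨3, 4, 4⟩) (by unfold covers; decide)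
          (posBox_of_check (c := ⟨456, ⟨0, 3, 9, 3⟩⟩) (by decide +kernel))
          (posBox_of_check (c := ⟨456, ⟨0, 3, 9, 3⟩⟩) (by decide +kernel)))))

def c3_952 : PosBox ⟨⟨0, 1, 1⟩, ⟨1521, 1535, 2535⟩, ⟨15, 18, 100⟩, ⟨0, 1, 1⟩⟩
    (g3_1.p * Ex.x₁ * cB * ((cC (2) 1 + Ex.x₂ * p3.v) * q3_1 - cC (1) 1) - cC (4) 1 * (cC (1) 1 - cA * p3.v)) :=
  posBox_of_check (c := ⟨211, ⟨0, 3, 8, 3⟩⟩) (by decide +kernel)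

def c3_953 : PosBox ⟨⟨0, 1, 1⟩, ⟨1521, 1535, 2535⟩, ⟨15, 18, 100⟩, ⟨0, 1, 1⟩⟩
    ((cC (2) 1 + Ex.x₂ * p3.v) * q3_1 - cC (1) 1) :=
  posBox_of_check (c := ⟨112, ⟨0, 0, 4, 1⟩⟩) (by decide +kernel)

def c3_954 : PosBox ⟨⟨0, 1, 1⟩, ⟨1521, 1535, 2535⟩, ⟨15, 18, 100⟩, ⟨0, 1, 1⟩⟩
    (q3_2 - cC (1) 1) :=
  posBox_of_check (c := ⟨89, ⟨0, 0, 2, 0⟩⟩) (by decide +kernel)

def c3_955 : PosBox ⟨⟨0, 1, 1⟩, ⟨1521, 1535, 2535⟩, ⟨15, 18, 100⟩, ⟨0, 1, 1⟩⟩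
    (cC (10) 7 - q3_2) :=
  posBox_of_check (c := ⟨92, ⟨0, 0, 2, 0⟩⟩) (by decide +kernel)

def c3_956 : PosBox ⟨⟨0, 1, 1⟩, ⟨1521, 1535, 2535⟩, ⟨15, 18, 100⟩, ⟨0, 1, 1⟩⟩
    (cDel p3.v q3_1 g3_2.u₀) :=
  posBox_of_check (c := ⟨131, ⟨0, 1, 5, 1⟩⟩) (by decide +kernel)

def c3_957 : PosBox ⟨⟨0, 1, 1⟩, ⟨1521, 1535, 2535⟩, ⟨15, 18, 100⟩, ⟨0, 1, 1⟩⟩
    (g3_2.p * Ex.x₁ * cDel p3.v q3_1 g3_2.u₀ - cC (4) 1 * (cC (1) 1 - cA * p3.v)) :=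
  posBox_cut₂ (A := ⟨30, 33, 200⟩) (B := ⟨33, 36, 200⟩) (by unfold covers; decide)
    (posBox_cut₃ (A := ⟨0, 1, 2⟩) (B := ⟨1, 2, 2⟩) (by unfold covers; decide)
      (posBox_of_check (c := ⟨339, ⟨0, 3, 8, 3⟩⟩) (by decide +kernel))
      (posBox_cut₂ (A := ⟨60, 63, 400⟩) (B := ⟨63, 66, 400⟩) (by unfold covers; decide)
        (posBox_cut₃ (A := ⟨2, 3, 4⟩) (B := ⟨3, 4, 4⟩) (by unfold covers; decide)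
          (posBox_of_check (c := ⟨459, ⟨0, 3, 8, 3⟩⟩) (by decide +kernel))
          (posBox_of_check (c := ⟨459, ⟨0, 3, 8, 3⟩⟩) (by decide +kernel)))
        (posBox_cut₃ (A := ⟨2, 3, 4⟩) (B := ⟨3, 4, 4⟩) (by unfold covers; decide)
          (posBox_of_check (c := ⟨459, ⟨0, 3, 8, 3⟩⟩) (by decide +kernel))
          (posBox_of_check (c := ⟨459, ⟨0, 3, 8, 3⟩⟩) (by decide +kernel)))))
    (posBox_cut₃ (A := ⟨0, 1, 2⟩) (B := ⟨1, 2, 2⟩) (by unfold covers; decide)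
      (posBox_of_check (c := ⟨339, ⟨0, 3, 8, 3⟩⟩) (by decide +kernel))
      (posBox_cut₂ (A := ⟨66, 69, 400⟩) (B := ⟨69, 72, 400⟩) (by unfold covers; decide)
        (posBox_cut₃ (A := ⟨2, 3, 4⟩) (B := ⟨3, 4, 4⟩) (by unfold covers; decide)
          (posBox_of_check (c := ⟨459, ⟨0, 3, 8, 3⟩⟩) (by decide +kernel))
          (posBox_of_check (c := ⟨459, ⟨0, 3, 8, 3⟩⟩) (by decide +kernel)))
        (posBox_cut₃ (A := ⟨2, 3, 4⟩) (B := ⟨3, 4, 4⟩) (by unfold covers; decide)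
          (posBox_of_check (c := ⟨459, ⟨0, 3, 8, 3⟩⟩) (by decide +kernel))
          (posBox_of_check (c := ⟨459, ⟨0, 3, 8, 3⟩⟩) (by decide +kernel)))))

def c3_958 : PosBox ⟨⟨0, 1, 1⟩, ⟨1521, 1535, 2535⟩, ⟨15, 18, 100⟩, ⟨0, 1, 1⟩⟩
    (cDel p3.v q3_2 g3_3.u₀) :=
  posBox_of_check (c := ⟨135, ⟨0, 1, 5, 1⟩⟩) (by decide +kernel)

def c3_959 : PosBox ⟨⟨0, 1, 1⟩, ⟨1521, 1535, 2535⟩, ⟨15, 18, 100⟩, ⟨0, 1, 1⟩⟩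
    (g3_3.p * Ex.x₁ * cDel p3.v q3_2 g3_3.u₀ - cC (4) 1 * (cC (1) 1 - cA * p3.v)) :=
  posBox_cut₂ (A := ⟨30, 33, 200⟩) (B := ⟨33, 36, 200⟩) (by unfold covers; decide)
    (posBox_cut₃ (A := ⟨0, 1, 2⟩) (B := ⟨1, 2, 2⟩) (by unfold covers; decide)
      (posBox_of_check (c := ⟨343, ⟨0, 3, 8, 3⟩⟩) (by decide +kernel))
      (posBox_cut₂ (A := ⟨60, 63, 400⟩) (B := ⟨63, 66, 400⟩) (by unfold covers; decide)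
        (posBox_cut₃ (A := ⟨2, 3, 4⟩) (B := ⟨3, 4, 4⟩) (by unfold covers; decide)
          (posBox_of_check (c := ⟨463, ⟨0, 3, 8, 3⟩⟩) (by decide +kernel))
          (posBox_of_check (c := ⟨463, ⟨0, 3, 8, 3⟩⟩) (by decide +kernel)))
        (posBox_cut₃ (A := ⟨2, 3, 4⟩) (B := ⟨3, 4, 4⟩) (by unfold covers; decide)
          (posBox_of_check (c := ⟨463, ⟨0, 3, 8, 3⟩⟩) (by decide +kernel))
          (posBox_of_check (c := ⟨463, ⟨0, 3, 8, 3⟩⟩) (by decide +kernel)))))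
    (posBox_cut₃ (A := ⟨0, 1, 2⟩) (B := ⟨1, 2, 2⟩) (by unfold covers; decide)
      (posBox_of_check (c := ⟨343, ⟨0, 3, 8, 3⟩⟩) (by decide +kernel))
      (posBox_cut₂ (A := ⟨66, 69, 400⟩) (B := ⟨69, 72, 400⟩) (by unfold covers; decide)
        (posBox_cut₃ (A := ⟨2, 3, 4⟩) (B := ⟨3, 4, 4⟩) (by unfold covers; decide)
          (posBox_of_check (c := ⟨463, ⟨0, 3, 8, 3⟩⟩) (by decide +kernel))
          (posBox_of_check (c := ⟨463, ⟨0, 3, 8, 3⟩⟩) (by decide +kernel)))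
        (posBox_cut₃ (A := ⟨2, 3, 4⟩) (B := ⟨3, 4, 4⟩) (by unfold covers; decide)
          (posBox_of_check (c := ⟨463, ⟨0, 3, 8, 3⟩⟩) (by decide +kernel))
          (posBox_of_check (c := ⟨463, ⟨0, 3, 8, 3⟩⟩) (by decide +kernel)))))

def c3_960 : PosBox ⟨⟨0, 1, 1⟩, ⟨1521, 1535, 2535⟩, ⟨15, 18, 100⟩, ⟨0, 1, 1⟩⟩
    (cC (1) 40 - cC (211) 10000) :=
  posBox_of_check (c := ⟨71, ⟨0, 0, 0, 0⟩⟩) (by decide +kernel)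

def c3_961 : PosBox ⟨⟨0, 1, 1⟩, ⟨1521, 1535, 2535⟩, ⟨15, 18, 100⟩, ⟨0, 1, 1⟩⟩
    (cDel p3.v q3_2 (cC (39) 40)) :=
  posBox_of_check (c := ⟨135, ⟨0, 1, 5, 1⟩⟩) (by decide +kernel)

def c3_962 : PosBox ⟨⟨0, 1, 1⟩, ⟨1521, 1535, 2535⟩, ⟨15, 18, 100⟩, ⟨0, 1, 1⟩⟩
    (cC (211) 10000) :=
  posBox_of_check (c := ⟨70, ⟨0, 0, 0, 0⟩⟩) (by decide +kernel)

def c3_963 : PosBox ⟨⟨0, 1, 1⟩, ⟨1521, 1535, 2535⟩, ⟨15, 18, 100⟩, ⟨0, 1, 1⟩⟩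
    (cC (211) 10000 * (Ex.x₁ * cDel p3.v q3_2 (cC (39) 40) - Ex.x₂ * (cC (1) 1 - cA * p3.v)) - Ex.x₂ * (cC (1) 1 - cA * p3.v) * (q3_2 - cC (1) 1)) :=
  posBox_of_check (c := ⟨159, ⟨0, 2, 5, 1⟩⟩) (by decide +kernel)

def c3_964 : PosBox ⟨⟨0, 1, 1⟩, ⟨1521, 1535, 2535⟩, ⟨15, 18, 100⟩, ⟨0, 1, 1⟩⟩
    (cC (2) 1 * (cC (1) 1 - Ex.x₁) - (cC (2) 1 + (Ex.x₁ - Ex.x₂) * (cC (1) 1 - Ex.x₁)) * ((cC (1089) 1000 + cC (-47) 500 * Ex.x₂) - (cC (3) 2 - cC (47) 5 * Ex.x₂ + cC (28) 1 * Ex.x₂ * Ex.x₂))) :=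
  posBox_cut₂ (A := ⟨30, 33, 200⟩) (B := ⟨33, 36, 200⟩) (by unfold covers; decide)
    (posBox_of_check (c := ⟨114, ⟨0, 2, 3, 0⟩⟩) (by decide +kernel))
    (posBox_of_check (c := ⟨114, ⟨0, 2, 3, 0⟩⟩) (by decide +kernel))

def c3_965 : PosBox ⟨⟨0, 1, 1⟩, ⟨1521, 1535, 2535⟩, ⟨15, 18, 100⟩, ⟨0, 1, 1⟩⟩
    ((cC (8149) 1000 + cC (-24691) 1000 * Ex.x₂) * Ex.x₂ * Ex.x₁ - (cC (1) 1 - Ex.x₁)) :=
  posBox_of_check (c := ⟨42, ⟨0, 1, 2, 0⟩⟩) (by decide +kernel)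

end Vale.Agent.P100.Calib.Closed.End
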