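import Vale.Agent.P100.Calib.SlabEndCheck3A0
import Vale.Agent.P100.Calib.SlabEndCheck3A1
import Vale.Agent.P100.Calib.SlabEndCheck3A2
import Vale.Agent.P100.Calib.SlabEndCheck3B0
import Vale.Agent.P100.Calib.SlabEndCheck3B1
import Vale.Agent.P100.Calib.SlabEndCheck3B2

/-!
# The signs on the piece `3` of the end strip
-/

namespace Vale.Agent.P100.Calib.Closed.End

open BoxPos
open Large (PosBox)

local instance endPiece3Add : Add Ex := ⟨Ex.add⟩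
local instance endPiece3Mul : Mul Ex := ⟨Ex.mul⟩
local instance endPiece3Sub : Sub Ex := ⟨Ex.sub⟩

/-- The checks of the piece `3`. -/
theorem base3 : p3.Base g3 ⟨⟨39, 40, 40⟩, ⟨1521, 1535, 2535⟩, ⟨15, 18, 100⟩, ⟨0, 1, 1⟩⟩ where
  ok := ⟨c3_902, c3_903, c3_904, c3_905, c3_906, ⟨c3_907, c3_908, c3_909, c3_910⟩, ⟨c3_911, c3_912, c3_913, c3_914⟩, ⟨c3_915, c3_916, c3_917, c3_918⟩, ⟨c3_919, c3_920, c3_921, c3_922⟩⟩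
  wide := ⟨⟨c3_923, c3_924, c3_925, c3_926⟩,
    ⟨c3_927, c3_928, c3_929, c3_930⟩⟩
  lines := ⟨c3_931, c3_932, c3_933, c3_934, c3_935, c3_936, c3_937, c3_938, c3_939, c3_940, c3_941, ⟨fun _ _ _ _ _ => rfl, fun _ _ _ _ _ => rfl, fun _ _ _ _ _ => rfl⟩, c3_942, c3_943, c3_944, c3_945⟩
  low := ⟨c3_780, c3_781, c3_782,
      ⟨c3_758, c3_759, ⟨c3_742, .inr ⟨c3_743, c3_741⟩, c3_744, c3_745⟩, ⟨c3_750, .inr ⟨c3_751, c3_741⟩, c3_752, c3_753⟩⟩,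
      ⟨c3_778, c3_779, ⟨c3_762, .inl c3_763, c3_764, c3_765⟩, ⟨c3_770, .inl c3_771, c3_772, c3_773⟩⟩⟩
  w₀ := (.inl c3_741)
  w₁ := (.inr ⟨c3_760, c3_761⟩)
  inv := fun z => by simp only [Piece.Pt.val, p3, Ex.val]; norm_num
  p_eq := rfl
  s₀_eq := rfl
  u₀_eq := rfl
  u₁_eq := rfl
  tT_eq := rfl
  bu_eq := rfl

/-- The checks of the slab `0`. -/
theorem slab3_0 : p3.Slab g3 g3_0 :=
  ⟨⟨c3_811, c3_812, c3_813,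
      ⟨c3_795, c3_796, ⟨c3_785, .inl c3_786, c3_787, c3_788⟩, ⟨c3_790, .inl c3_791, c3_792, c3_793⟩⟩,
      ⟨c3_809, c3_810, ⟨c3_799, .inl c3_800, c3_801, c3_802⟩, ⟨c3_804, .inl c3_805, c3_806, c3_807⟩⟩⟩,
    ⟨c3_746, c3_754, c3_766, c3_774⟩, ⟨c3_789, c3_794, c3_803, c3_808⟩, (.inr ⟨c3_783, c3_784⟩), (.inr ⟨c3_797, c3_798⟩), rfl⟩

theorem cut3_0 : p3.Cut q3_0 := Piece.Cut.top p3

/-- The checks of the slab `1`. -/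
theorem slab3_1 : p3.Slab g3 g3_1 :=
  ⟨⟨c3_841, c3_842, c3_843,
      ⟨c3_825, c3_826, ⟨c3_815, .inr ⟨c3_816, c3_814⟩, c3_817, c3_818⟩, ⟨c3_820, .inr ⟨c3_821, c3_814⟩, c3_822, c3_823⟩⟩,
      ⟨c3_839, c3_840, ⟨c3_829, .inl c3_830, c3_831, c3_832⟩, ⟨c3_834, .inl c3_835, c3_836, c3_837⟩⟩⟩,
    ⟨c3_747, c3_755, c3_767, c3_775⟩, ⟨c3_819, c3_824, c3_833, c3_838⟩, (.inl c3_814), (.inr ⟨c3_827, c3_828⟩), rfl⟩

theorem cut3_1 : p3.Cut q3_1 := Piece.Cut.of_pos c3_949 c3_950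

/-- The checks of the slab `2`. -/
theorem slab3_2 : p3.Slab g3 g3_2 :=
  ⟨⟨c3_870, c3_871, c3_872,
      ⟨c3_855, c3_856, ⟨c3_845, .inr ⟨c3_846, c3_844⟩, c3_847, c3_848⟩, ⟨c3_850, .inr ⟨c3_851, c3_844⟩, c3_852, c3_853⟩⟩,
      ⟨c3_868, c3_869, ⟨c3_858, .inr ⟨c3_859, c3_857⟩, c3_860, c3_861⟩, ⟨c3_863, .inr ⟨c3_864, c3_857⟩, c3_865, c3_866⟩⟩⟩,
    ⟨c3_748, c3_756, c3_768, c3_776⟩, ⟨c3_849, c3_854, c3_862, c3_867⟩, (.inl c3_844), (.inl c3_857), rfl⟩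

theorem cut3_2 : p3.Cut q3_2 := Piece.Cut.of_pos c3_954 c3_955

/-- The checks of the slab `3`. -/
theorem slab3_3 : p3.Slab g3 g3_3 :=
  ⟨⟨c3_899, c3_900, c3_901,
      ⟨c3_884, c3_885, ⟨c3_874, .inr ⟨c3_875, c3_873⟩, c3_876, c3_877⟩, ⟨c3_879, .inr ⟨c3_880, c3_873⟩, c3_881, c3_882⟩⟩,
      ⟨c3_897, c3_898, ⟨c3_887, .inr ⟨c3_888, c3_886⟩, c3_889, c3_890⟩, ⟨c3_892, .inr ⟨c3_893, c3_886⟩, c3_894, c3_895⟩⟩⟩,
    ⟨c3_749, c3_757, c3_769, c3_777⟩, ⟨c3_878, c3_883, c3_891, c3_896⟩, (.inl c3_873), (.inl c3_886), rfl⟩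

theorem cut3_3 : p3.Cut q3_3 := Piece.Cut.one p3

/-- The signs on the piece. -/
theorem signs3 (z : p3.Pt) (u t : ℝ) (h : z.On u t) : ChartSigns z.d z.S u z.vv t := by
  rcases le_total (z.d * z.val q3_0) (1 / chH z.d z.S u z.vv t) with h0 | h0
  · exact z.signs_top base3 slab3_0 rfl rfl rfl ⟨c3_946, c3_947, c3_948⟩ h h0
  rcases le_total (z.d * z.val q3_1) (1 / chH z.d z.S u z.vv t) with h1 | h1
  · exact z.signs_U base3 slab3_1 rfl cut3_1 cut3_0 rfl rfl ⟨c3_951, c3_952, c3_953⟩ h h1 h0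
  rcases le_total (z.d * z.val q3_2) (1 / chH z.d z.S u z.vv t) with h2 | h2
  · exact z.signs_E base3 slab3_2 cut3_2 cut3_1 rfl rfl ⟨c3_956, c3_957⟩ h (z.u_fix rfl h) h2 h1
  exact z.signs_E base3 slab3_3 cut3_3 cut3_2 rfl rfl ⟨c3_958, c3_959⟩ h (z.u_em (em := cC (211) 10000) rfl c3_960 ⟨c3_961, c3_962, c3_963⟩ h h2) (z.last_cut h) h2

end Vale.Agent.P100.Calib.Closed.End
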