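import Vale.Agent.P100.Calib.SlabEndData

/-!
# Checks of the end strip, piece `4`
-/

set_option linter.defProp false

namespace Vale.Agent.P100.Calib.Closed.End

open BoxPos
open Large (PosBox posBox_of_check)

local instance endChk4A1Add : Add Ex := ⟨Ex.add⟩
local instance endChk4A1Mul : Mul Ex := ⟨Ex.mul⟩
local instance endChk4A1Sub : Sub Ex := ⟨Ex.sub⟩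

def c4_1044 : PosBox ⟨⟨0, 1, 1⟩, ⟨1521, 1535, 2535⟩, ⟨360, 401, 2000⟩, ⟨0, 1, 1⟩⟩
    (cG p4.kl p4.v (g4_1.s₀.t) (g4_1.u₀) (p4.wl g4_1.s₀.t) (p4.wh g4_1.s₀.t) g4_1.p (cC (1) 4)) :=
  posBox_of_check (c := ⟨621, ⟨0, 9, 26, 9⟩⟩) (by decide +kernel)

def c4_1047 : PosBox ⟨⟨0, 1, 1⟩, ⟨1521, 1535, 2535⟩, ⟨360, 401, 2000⟩, ⟨0, 1, 1⟩⟩
    (cF p4.kl p4.v (g4_1.s₀.t) (g4_1.u₁) (p4.wh g4_1.s₀.t) g4_1.p g4_1.s₀.phi) :=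
  posBox_of_check (c := ⟨777, ⟨0, 12, 34, 11⟩⟩) (by decide +kernel)

def c4_1048 : PosBox ⟨⟨0, 1, 1⟩, ⟨1521, 1535, 2535⟩, ⟨360, 401, 2000⟩, ⟨0, 1, 1⟩⟩
    (cR p4.kl p4.v (g4_1.s₀.t) (g4_1.u₁) (p4.wl g4_1.s₀.t) (p4.wh g4_1.s₀.t) g4_1.p) :=
  posBox_of_check (c := ⟨501, ⟨0, 9, 21, 7⟩⟩) (by decide +kernel)

def c4_1049 : PosBox ⟨⟨0, 1, 1⟩, ⟨1521, 1535, 2535⟩, ⟨360, 401, 2000⟩, ⟨0, 1, 1⟩⟩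
    (cG p4.kl p4.v (g4_1.s₀.t) (g4_1.u₁) (p4.wl g4_1.s₀.t) (p4.wh g4_1.s₀.t) g4_1.p (cC (1) 4)) :=
  posBox_of_check (c := ⟨621, ⟨0, 9, 26, 9⟩⟩) (by decide +kernel)

def c4_1054 : PosBox ⟨⟨0, 1, 1⟩, ⟨1521, 1535, 2535⟩, ⟨360, 401, 2000⟩, ⟨0, 1, 1⟩⟩
    (cG p4.kl p4.v (g4_1.s₁.t) (g4_1.u₀) (p4.wh g4_1.s₁.t) (p4.wl g4_1.s₁.t) g4_1.p (cC (1) 4)) :=
  posBox_of_check (c := ⟨647, ⟨0, 9, 22, 9⟩⟩) (by decide +kernel)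

def c4_1055 : PosBox ⟨⟨0, 1, 1⟩, ⟨1521, 1535, 2535⟩, ⟨360, 401, 2000⟩, ⟨0, 1, 1⟩⟩
    (cG p4.kl p4.v (g4_1.s₁.t) (g4_1.u₁) (p4.wh g4_1.s₁.t) (p4.wl g4_1.s₁.t) g4_1.p (cC (1) 4)) :=
  posBox_of_check (c := ⟨647, ⟨0, 9, 22, 9⟩⟩) (by decide +kernel)

def c4_1056 : PosBox ⟨⟨0, 1, 1⟩, ⟨1521, 1535, 2535⟩, ⟨360, 401, 2000⟩, ⟨0, 1, 1⟩⟩
    (cF p4.kl p4.v (g4_1.s₁.t) (g4_1.u₀) (p4.wh g4_1.s₁.t) g4_1.p g4_1.s₁.phi) :=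
  posBox_of_check (c := ⟨733, ⟨0, 12, 28, 11⟩⟩) (by decide +kernel)

def c4_1057 : PosBox ⟨⟨0, 1, 1⟩, ⟨1521, 1535, 2535⟩, ⟨360, 401, 2000⟩, ⟨0, 1, 1⟩⟩
    (cF p4.kl p4.v (g4_1.s₁.t) (g4_1.u₀) (p4.wl g4_1.s₁.t) g4_1.p g4_1.s₁.phi) :=
  posBox_of_check (c := ⟨777, ⟨0, 12, 28, 11⟩⟩) (by decide +kernel)

def c4_1058 : PosBox ⟨⟨0, 1, 1⟩, ⟨1521, 1535, 2535⟩, ⟨360, 401, 2000⟩, ⟨0, 1, 1⟩⟩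
    (cG p4.kl p4.v (g4_1.s₁.t) (g4_1.u₀) (p4.wl g4_1.s₁.t) (p4.wh g4_1.s₁.t) g4_1.p (cC (1) 4)) :=
  posBox_of_check (c := ⟨593, ⟨0, 9, 22, 9⟩⟩) (by decide +kernel)

def c4_1061 : PosBox ⟨⟨0, 1, 1⟩, ⟨1521, 1535, 2535⟩, ⟨360, 401, 2000⟩, ⟨0, 1, 1⟩⟩
    (cF p4.kl p4.v (g4_1.s₁.t) (g4_1.u₁) (p4.wh g4_1.s₁.t) g4_1.p g4_1.s₁.phi) :=
  posBox_of_check (c := ⟨734, ⟨0, 12, 28, 11⟩⟩) (by decide +kernel)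

def c4_1062 : PosBox ⟨⟨0, 1, 1⟩, ⟨1521, 1535, 2535⟩, ⟨360, 401, 2000⟩, ⟨0, 1, 1⟩⟩
    (cF p4.kl p4.v (g4_1.s₁.t) (g4_1.u₁) (p4.wl g4_1.s₁.t) g4_1.p g4_1.s₁.phi) :=
  posBox_of_check (c := ⟨777, ⟨0, 12, 28, 11⟩⟩) (by decide +kernel)

def c4_1063 : PosBox ⟨⟨0, 1, 1⟩, ⟨1521, 1535, 2535⟩, ⟨360, 401, 2000⟩, ⟨0, 1, 1⟩⟩
    (cG p4.kl p4.v (g4_1.s₁.t) (g4_1.u₁) (p4.wl g4_1.s₁.t) (p4.wh g4_1.s₁.t) g4_1.p (cC (1) 4)) :=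
  posBox_of_check (c := ⟨593, ⟨0, 9, 22, 9⟩⟩) (by decide +kernel)

def c4_1072 : PosBox ⟨⟨0, 1, 1⟩, ⟨1521, 1535, 2535⟩, ⟨360, 401, 2000⟩, ⟨0, 1, 1⟩⟩
    (cF p4.kl p4.v (g4_2.s₀.t) (g4_2.u₀) (p4.wh g4_2.s₀.t) g4_2.p g4_2.s₀.phi) :=
  posBox_of_check (c := ⟨778, ⟨0, 12, 34, 11⟩⟩) (by decide +kernel)

def c4_1073 : PosBox ⟨⟨0, 1, 1⟩, ⟨1521, 1535, 2535⟩, ⟨360, 401, 2000⟩, ⟨0, 1, 1⟩⟩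
    (cR p4.kl p4.v (g4_2.s₀.t) (g4_2.u₀) (p4.wl g4_2.s₀.t) (p4.wh g4_2.s₀.t) g4_2.p) :=
  posBox_of_check (c := ⟨501, ⟨0, 9, 21, 7⟩⟩) (by decide +kernel)

def c4_1074 : PosBox ⟨⟨0, 1, 1⟩, ⟨1521, 1535, 2535⟩, ⟨360, 401, 2000⟩, ⟨0, 1, 1⟩⟩
    (cG p4.kl p4.v (g4_2.s₀.t) (g4_2.u₀) (p4.wl g4_2.s₀.t) (p4.wh g4_2.s₀.t) g4_2.p (cC (1) 4)) :=
  posBox_of_check (c := ⟨623, ⟨0, 9, 26, 9⟩⟩) (by decide +kernel)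

def c4_1077 : PosBox ⟨⟨0, 1, 1⟩, ⟨1521, 1535, 2535⟩, ⟨360, 401, 2000⟩, ⟨0, 1, 1⟩⟩
    (cF p4.kl p4.v (g4_2.s₀.t) (g4_2.u₁) (p4.wh g4_2.s₀.t) g4_2.p g4_2.s₀.phi) :=
  posBox_of_check (c := ⟨778, ⟨0, 12, 34, 11⟩⟩) (by decide +kernel)

def c4_1078 : PosBox ⟨⟨0, 1, 1⟩, ⟨1521, 1535, 2535⟩, ⟨360, 401, 2000⟩, ⟨0, 1, 1⟩⟩
    (cR p4.kl p4.v (g4_2.s₀.t) (g4_2.u₁) (p4.wl g4_2.s₀.t) (p4.wh g4_2.s₀.t) g4_2.p) :=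
  posBox_of_check (c := ⟨501, ⟨0, 9, 21, 7⟩⟩) (by decide +kernel)

def c4_1079 : PosBox ⟨⟨0, 1, 1⟩, ⟨1521, 1535, 2535⟩, ⟨360, 401, 2000⟩, ⟨0, 1, 1⟩⟩
    (cG p4.kl p4.v (g4_2.s₀.t) (g4_2.u₁) (p4.wl g4_2.s₀.t) (p4.wh g4_2.s₀.t) g4_2.p (cC (1) 4)) :=
  posBox_of_check (c := ⟨623, ⟨0, 9, 26, 9⟩⟩) (by decide +kernel)

def c4_1085 : PosBox ⟨⟨0, 1, 1⟩, ⟨1521, 1535, 2535⟩, ⟨360, 401, 2000⟩, ⟨0, 1, 1⟩⟩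
    (cF p4.kl p4.v (g4_2.s₁.t) (g4_2.u₀) (p4.wh g4_2.s₁.t) g4_2.p g4_2.s₁.phi) :=
  posBox_of_check (c := ⟨828, ⟨0, 12, 34, 11⟩⟩) (by decide +kernel)

def c4_1086 : PosBox ⟨⟨0, 1, 1⟩, ⟨1521, 1535, 2535⟩, ⟨360, 401, 2000⟩, ⟨0, 1, 1⟩⟩
    (cR p4.kl p4.v (g4_2.s₁.t) (g4_2.u₀) (p4.wl g4_2.s₁.t) (p4.wh g4_2.s₁.t) g4_2.p) :=
  posBox_of_check (c := ⟨518, ⟨0, 9, 21, 7⟩⟩) (by decide +kernel)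

def c4_1087 : PosBox ⟨⟨0, 1, 1⟩, ⟨1521, 1535, 2535⟩, ⟨360, 401, 2000⟩, ⟨0, 1, 1⟩⟩
    (cG p4.kl p4.v (g4_2.s₁.t) (g4_2.u₀) (p4.wl g4_2.s₁.t) (p4.wh g4_2.s₁.t) g4_2.p (cC (1) 4)) :=
  posBox_of_check (c := ⟨656, ⟨0, 9, 26, 9⟩⟩) (by decide +kernel)

def c4_1090 : PosBox ⟨⟨0, 1, 1⟩, ⟨1521, 1535, 2535⟩, ⟨360, 401, 2000⟩, ⟨0, 1, 1⟩⟩
    (cF p4.kl p4.v (g4_2.s₁.t) (g4_2.u₁) (p4.wh g4_2.s₁.t) g4_2.p g4_2.s₁.phi) :=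
  posBox_of_check (c := ⟨828, ⟨0, 12, 34, 11⟩⟩) (by decide +kernel)

def c4_1091 : PosBox ⟨⟨0, 1, 1⟩, ⟨1521, 1535, 2535⟩, ⟨360, 401, 2000⟩, ⟨0, 1, 1⟩⟩
    (cR p4.kl p4.v (g4_2.s₁.t) (g4_2.u₁) (p4.wl g4_2.s₁.t) (p4.wh g4_2.s₁.t) g4_2.p) :=
  posBox_of_check (c := ⟨518, ⟨0, 9, 21, 7⟩⟩) (by decide +kernel)

def c4_1092 : PosBox ⟨⟨0, 1, 1⟩, ⟨1521, 1535, 2535⟩, ⟨360, 401, 2000⟩, ⟨0, 1, 1⟩⟩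
    (cG p4.kl p4.v (g4_2.s₁.t) (g4_2.u₁) (p4.wl g4_2.s₁.t) (p4.wh g4_2.s₁.t) g4_2.p (cC (1) 4)) :=
  posBox_of_check (c := ⟨656, ⟨0, 9, 26, 9⟩⟩) (by decide +kernel)

def c4_1101 : PosBox ⟨⟨0, 1, 1⟩, ⟨1521, 1535, 2535⟩, ⟨360, 401, 2000⟩, ⟨0, 1, 1⟩⟩
    (cF p4.kl p4.v (g4_3.s₀.t) (g4_3.u₀) (p4.wh g4_3.s₀.t) g4_3.p g4_3.s₀.phi) :=
  posBox_of_check (c := ⟨770, ⟨0, 12, 34, 11⟩⟩) (by decide +kernel)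

def c4_1102 : PosBox ⟨⟨0, 1, 1⟩, ⟨1521, 1535, 2535⟩, ⟨360, 401, 2000⟩, ⟨0, 1, 1⟩⟩
    (cR p4.kl p4.v (g4_3.s₀.t) (g4_3.u₀) (p4.wl g4_3.s₀.t) (p4.wh g4_3.s₀.t) g4_3.p) :=
  posBox_of_check (c := ⟨498, ⟨0, 9, 21, 7⟩⟩) (by decide +kernel)

def c4_1103 : PosBox ⟨⟨0, 1, 1⟩, ⟨1521, 1535, 2535⟩, ⟨360, 401, 2000⟩, ⟨0, 1, 1⟩⟩
    (cG p4.kl p4.v (g4_3.s₀.t) (g4_3.u₀) (p4.wl g4_3.s₀.t) (p4.wh g4_3.s₀.t) g4_3.p (cC (1) 4)) :=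
  posBox_of_check (c := ⟨616, ⟨0, 9, 26, 9⟩⟩) (by decide +kernel)

def c4_1106 : PosBox ⟨⟨0, 1, 1⟩, ⟨1521, 1535, 2535⟩, ⟨360, 401, 2000⟩, ⟨0, 1, 1⟩⟩
    (cF p4.kl p4.v (g4_3.s₀.t) (g4_3.u₁) (p4.wh g4_3.s₀.t) g4_3.p g4_3.s₀.phi) :=
  posBox_of_check (c := ⟨770, ⟨0, 12, 34, 11⟩⟩) (by decide +kernel)

end Vale.Agent.P100.Calib.Closed.End
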