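import Vale.Agent.P100.Calib.SlabEndData

/-!
# Checks of the end strip, piece `4`
-/

set_option linter.defProp false

namespace Vale.Agent.P100.Calib.Closed.End

open BoxPos
open Large (PosBox posBox_of_check)

local instance endChk4A2Add : Add Ex := ⟨Ex.add⟩
local instance endChk4A2Mul : Mul Ex := ⟨Ex.mul⟩
local instance endChk4A2Sub : Sub Ex := ⟨Ex.sub⟩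

def c4_1107 : PosBox ⟨⟨0, 1, 1⟩, ⟨1521, 1535, 2535⟩, ⟨360, 401, 2000⟩, ⟨0, 1, 1⟩⟩
    (cR p4.kl p4.v (g4_3.s₀.t) (g4_3.u₁) (p4.wl g4_3.s₀.t) (p4.wh g4_3.s₀.t) g4_3.p) :=
  posBox_of_check (c := ⟨498, ⟨0, 9, 21, 7⟩⟩) (by decide +kernel)

def c4_1108 : PosBox ⟨⟨0, 1, 1⟩, ⟨1521, 1535, 2535⟩, ⟨360, 401, 2000⟩, ⟨0, 1, 1⟩⟩
    (cG p4.kl p4.v (g4_3.s₀.t) (g4_3.u₁) (p4.wl g4_3.s₀.t) (p4.wh g4_3.s₀.t) g4_3.p (cC (1) 4)) :=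
  posBox_of_check (c := ⟨616, ⟨0, 9, 26, 9⟩⟩) (by decide +kernel)

def c4_1114 : PosBox ⟨⟨0, 1, 1⟩, ⟨1521, 1535, 2535⟩, ⟨360, 401, 2000⟩, ⟨0, 1, 1⟩⟩
    (cF p4.kl p4.v (g4_3.s₁.t) (g4_3.u₀) (p4.wh g4_3.s₁.t) g4_3.p g4_3.s₁.phi) :=
  posBox_of_check (c := ⟨823, ⟨0, 12, 34, 11⟩⟩) (by decide +kernel)

def c4_1115 : PosBox ⟨⟨0, 1, 1⟩, ⟨1521, 1535, 2535⟩, ⟨360, 401, 2000⟩, ⟨0, 1, 1⟩⟩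
    (cR p4.kl p4.v (g4_3.s₁.t) (g4_3.u₀) (p4.wl g4_3.s₁.t) (p4.wh g4_3.s₁.t) g4_3.p) :=
  posBox_of_check (c := ⟨516, ⟨0, 9, 21, 7⟩⟩) (by decide +kernel)

def c4_1116 : PosBox ⟨⟨0, 1, 1⟩, ⟨1521, 1535, 2535⟩, ⟨360, 401, 2000⟩, ⟨0, 1, 1⟩⟩
    (cG p4.kl p4.v (g4_3.s₁.t) (g4_3.u₀) (p4.wl g4_3.s₁.t) (p4.wh g4_3.s₁.t) g4_3.p (cC (1) 4)) :=
  posBox_of_check (c := ⟨651, ⟨0, 9, 26, 9⟩⟩) (by decide +kernel)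

def c4_1119 : PosBox ⟨⟨0, 1, 1⟩, ⟨1521, 1535, 2535⟩, ⟨360, 401, 2000⟩, ⟨0, 1, 1⟩⟩
    (cF p4.kl p4.v (g4_3.s₁.t) (g4_3.u₁) (p4.wh g4_3.s₁.t) g4_3.p g4_3.s₁.phi) :=
  posBox_of_check (c := ⟨823, ⟨0, 12, 34, 11⟩⟩) (by decide +kernel)

def c4_1120 : PosBox ⟨⟨0, 1, 1⟩, ⟨1521, 1535, 2535⟩, ⟨360, 401, 2000⟩, ⟨0, 1, 1⟩⟩
    (cR p4.kl p4.v (g4_3.s₁.t) (g4_3.u₁) (p4.wl g4_3.s₁.t) (p4.wh g4_3.s₁.t) g4_3.p) :=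
  posBox_of_check (c := ⟨516, ⟨0, 9, 21, 7⟩⟩) (by decide +kernel)

def c4_1121 : PosBox ⟨⟨0, 1, 1⟩, ⟨1521, 1535, 2535⟩, ⟨360, 401, 2000⟩, ⟨0, 1, 1⟩⟩
    (cG p4.kl p4.v (g4_3.s₁.t) (g4_3.u₁) (p4.wl g4_3.s₁.t) (p4.wh g4_3.s₁.t) g4_3.p (cC (1) 4)) :=
  posBox_of_check (c := ⟨651, ⟨0, 9, 26, 9⟩⟩) (by decide +kernel)

def c4_1130 : PosBox ⟨⟨0, 1, 1⟩, ⟨1521, 1535, 2535⟩, ⟨360, 401, 2000⟩, ⟨0, 1, 1⟩⟩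
    (cF p4.kl p4.v (g4_4.s₀.t) (g4_4.u₀) (p4.wh g4_4.s₀.t) g4_4.p g4_4.s₀.phi) :=
  posBox_of_check (c := ⟨673, ⟨0, 12, 28, 11⟩⟩) (by decide +kernel)

def c4_1131 : PosBox ⟨⟨0, 1, 1⟩, ⟨1521, 1535, 2535⟩, ⟨360, 401, 2000⟩, ⟨0, 1, 1⟩⟩
    (cR p4.kl p4.v (g4_4.s₀.t) (g4_4.u₀) (p4.wl g4_4.s₀.t) (p4.wh g4_4.s₀.t) g4_4.p) :=
  posBox_of_check (c := ⟨466, ⟨0, 9, 19, 7⟩⟩) (by decide +kernel)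

def c4_1132 : PosBox ⟨⟨0, 1, 1⟩, ⟨1521, 1535, 2535⟩, ⟨360, 401, 2000⟩, ⟨0, 1, 1⟩⟩
    (cG p4.kl p4.v (g4_4.s₀.t) (g4_4.u₀) (p4.wl g4_4.s₀.t) (p4.wh g4_4.s₀.t) g4_4.p (cC (1) 4)) :=
  posBox_of_check (c := ⟨552, ⟨0, 9, 22, 9⟩⟩) (by decide +kernel)

def c4_1135 : PosBox ⟨⟨0, 1, 1⟩, ⟨1521, 1535, 2535⟩, ⟨360, 401, 2000⟩, ⟨0, 1, 1⟩⟩
    (cF p4.kl p4.v (g4_4.s₀.t) (g4_4.u₁) (p4.wh g4_4.s₀.t) g4_4.p g4_4.s₀.phi) :=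
  posBox_of_check (c := ⟨673, ⟨0, 12, 28, 11⟩⟩) (by decide +kernel)

def c4_1136 : PosBox ⟨⟨0, 1, 1⟩, ⟨1521, 1535, 2535⟩, ⟨360, 401, 2000⟩, ⟨0, 1, 1⟩⟩
    (cR p4.kl p4.v (g4_4.s₀.t) (g4_4.u₁) (p4.wl g4_4.s₀.t) (p4.wh g4_4.s₀.t) g4_4.p) :=
  posBox_of_check (c := ⟨466, ⟨0, 9, 19, 7⟩⟩) (by decide +kernel)

def c4_1137 : PosBox ⟨⟨0, 1, 1⟩, ⟨1521, 1535, 2535⟩, ⟨360, 401, 2000⟩, ⟨0, 1, 1⟩⟩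
    (cG p4.kl p4.v (g4_4.s₀.t) (g4_4.u₁) (p4.wl g4_4.s₀.t) (p4.wh g4_4.s₀.t) g4_4.p (cC (1) 4)) :=
  posBox_of_check (c := ⟨552, ⟨0, 9, 22, 9⟩⟩) (by decide +kernel)

def c4_1143 : PosBox ⟨⟨0, 1, 1⟩, ⟨1521, 1535, 2535⟩, ⟨360, 401, 2000⟩, ⟨0, 1, 1⟩⟩
    (cF p4.kl p4.v (g4_4.s₁.t) (g4_4.u₀) (p4.wh g4_4.s₁.t) g4_4.p g4_4.s₁.phi) :=
  posBox_of_check (c := ⟨822, ⟨0, 12, 34, 11⟩⟩) (by decide +kernel)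

def c4_1144 : PosBox ⟨⟨0, 1, 1⟩, ⟨1521, 1535, 2535⟩, ⟨360, 401, 2000⟩, ⟨0, 1, 1⟩⟩
    (cR p4.kl p4.v (g4_4.s₁.t) (g4_4.u₀) (p4.wl g4_4.s₁.t) (p4.wh g4_4.s₁.t) g4_4.p) :=
  posBox_of_check (c := ⟨516, ⟨0, 9, 21, 7⟩⟩) (by decide +kernel)

def c4_1145 : PosBox ⟨⟨0, 1, 1⟩, ⟨1521, 1535, 2535⟩, ⟨360, 401, 2000⟩, ⟨0, 1, 1⟩⟩
    (cG p4.kl p4.v (g4_4.s₁.t) (g4_4.u₀) (p4.wl g4_4.s₁.t) (p4.wh g4_4.s₁.t) g4_4.p (cC (1) 4)) :=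
  posBox_of_check (c := ⟨651, ⟨0, 9, 26, 9⟩⟩) (by decide +kernel)

def c4_1148 : PosBox ⟨⟨0, 1, 1⟩, ⟨1521, 1535, 2535⟩, ⟨360, 401, 2000⟩, ⟨0, 1, 1⟩⟩
    (cF p4.kl p4.v (g4_4.s₁.t) (g4_4.u₁) (p4.wh g4_4.s₁.t) g4_4.p g4_4.s₁.phi) :=
  posBox_of_check (c := ⟨822, ⟨0, 12, 34, 11⟩⟩) (by decide +kernel)

def c4_1149 : PosBox ⟨⟨0, 1, 1⟩, ⟨1521, 1535, 2535⟩, ⟨360, 401, 2000⟩, ⟨0, 1, 1⟩⟩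
    (cR p4.kl p4.v (g4_4.s₁.t) (g4_4.u₁) (p4.wl g4_4.s₁.t) (p4.wh g4_4.s₁.t) g4_4.p) :=
  posBox_of_check (c := ⟨516, ⟨0, 9, 21, 7⟩⟩) (by decide +kernel)

def c4_1150 : PosBox ⟨⟨0, 1, 1⟩, ⟨1521, 1535, 2535⟩, ⟨360, 401, 2000⟩, ⟨0, 1, 1⟩⟩
    (cG p4.kl p4.v (g4_4.s₁.t) (g4_4.u₁) (p4.wl g4_4.s₁.t) (p4.wh g4_4.s₁.t) g4_4.p (cC (1) 4)) :=
  posBox_of_check (c := ⟨651, ⟨0, 9, 26, 9⟩⟩) (by decide +kernel)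

end Vale.Agent.P100.Calib.Closed.End
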