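import Vale.Agent.P100.Calib.SlabEndData

/-!
# Checks of the end strip, piece `4`
-/

set_option linter.defProp false

namespace Vale.Agent.P100.Calib.Closed.End

open BoxPos
open Large (PosBox posBox_of_check)

local instance endChk4B0Add : Add Ex := ⟨Ex.add⟩
local instance endChk4B0Mul : Mul Ex := ⟨Ex.mul⟩
local instance endChk4B0Sub : Sub Ex := ⟨Ex.sub⟩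

def c4_966 : PosBox ⟨⟨0, 1, 1⟩, ⟨1521, 1535, 2535⟩, ⟨360, 401, 2000⟩, ⟨0, 1, 1⟩⟩
    ((p4.wh g4.s₀.t) - (p4.wl g4.s₀.t)) :=
  posBox_of_check (c := ⟨203, ⟨0, 3, 5, 1⟩⟩) (by decide +kernel)

def c4_970 : PosBox ⟨⟨0, 1, 1⟩, ⟨1521, 1535, 2535⟩, ⟨360, 401, 2000⟩, ⟨0, 1, 1⟩⟩
    (g4.s₀.eta - cEG p4.kl p4.v (g4.s₀.t) (g4.u₀) g4.p) :=
  posBox_of_check (c := ⟨376, ⟨0, 8, 16, 5⟩⟩) (by decide +kernel)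

def c4_971 : PosBox ⟨⟨0, 1, 1⟩, ⟨1521, 1535, 2535⟩, ⟨360, 401, 2000⟩, ⟨0, 1, 1⟩⟩
    (g4.s₀.eta' + cEG p4.kl p4.v (g4.s₀.t) (g4.u₀) g4.p - cSag p4.kl p4.v (g4.s₀.t) (g4.u₀) p4.lo g4_0.p) :=
  posBox_of_check (c := ⟨389, ⟨0, 8, 16, 6⟩⟩) (by decide +kernel)

def c4_972 : PosBox ⟨⟨0, 1, 1⟩, ⟨1521, 1535, 2535⟩, ⟨360, 401, 2000⟩, ⟨0, 1, 1⟩⟩
    (g4.s₀.eta' + cEG p4.kl p4.v (g4.s₀.t) (g4.u₀) g4.p - cSag p4.kl p4.v (g4.s₀.t) (g4.u₀) p4.lo g4_1.p) :=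
  posBox_of_check (c := ⟨389, ⟨0, 8, 16, 6⟩⟩) (by decide +kernel)

def c4_973 : PosBox ⟨⟨0, 1, 1⟩, ⟨1521, 1535, 2535⟩, ⟨360, 401, 2000⟩, ⟨0, 1, 1⟩⟩
    (g4.s₀.eta' + cEG p4.kl p4.v (g4.s₀.t) (g4.u₀) g4.p - cSag p4.kl p4.v (g4.s₀.t) (g4.u₀) p4.lo g4_2.p) :=
  posBox_of_check (c := ⟨390, ⟨0, 8, 16, 6⟩⟩) (by decide +kernel)

def c4_974 : PosBox ⟨⟨0, 1, 1⟩, ⟨1521, 1535, 2535⟩, ⟨360, 401, 2000⟩, ⟨0, 1, 1⟩⟩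
    (g4.s₀.eta' + cEG p4.kl p4.v (g4.s₀.t) (g4.u₀) g4.p - cSag p4.kl p4.v (g4.s₀.t) (g4.u₀) p4.lo g4_3.p) :=
  posBox_of_check (c := ⟨385, ⟨0, 8, 16, 6⟩⟩) (by decide +kernel)

def c4_975 : PosBox ⟨⟨0, 1, 1⟩, ⟨1521, 1535, 2535⟩, ⟨360, 401, 2000⟩, ⟨0, 1, 1⟩⟩
    (g4.s₀.eta' + cEG p4.kl p4.v (g4.s₀.t) (g4.u₀) g4.p - cSag p4.kl p4.v (g4.s₀.t) (g4.u₀) p4.lo g4_4.p) :=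
  posBox_of_check (c := ⟨390, ⟨0, 8, 16, 6⟩⟩) (by decide +kernel)

def c4_979 : PosBox ⟨⟨0, 1, 1⟩, ⟨1521, 1535, 2535⟩, ⟨360, 401, 2000⟩, ⟨0, 1, 1⟩⟩
    (g4.s₀.eta - cEG p4.kl p4.v (g4.s₀.t) (g4.u₁) g4.p) :=
  posBox_of_check (c := ⟨376, ⟨0, 8, 16, 5⟩⟩) (by decide +kernel)

def c4_980 : PosBox ⟨⟨0, 1, 1⟩, ⟨1521, 1535, 2535⟩, ⟨360, 401, 2000⟩, ⟨0, 1, 1⟩⟩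
    (g4.s₀.eta' + cEG p4.kl p4.v (g4.s₀.t) (g4.u₁) g4.p - cSag p4.kl p4.v (g4.s₀.t) (g4.u₁) p4.lo g4_0.p) :=
  posBox_of_check (c := ⟨389, ⟨0, 8, 16, 6⟩⟩) (by decide +kernel)

def c4_981 : PosBox ⟨⟨0, 1, 1⟩, ⟨1521, 1535, 2535⟩, ⟨360, 401, 2000⟩, ⟨0, 1, 1⟩⟩
    (g4.s₀.eta' + cEG p4.kl p4.v (g4.s₀.t) (g4.u₁) g4.p - cSag p4.kl p4.v (g4.s₀.t) (g4.u₁) p4.lo g4_1.p) :=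
  posBox_of_check (c := ⟨389, ⟨0, 8, 16, 6⟩⟩) (by decide +kernel)

def c4_982 : PosBox ⟨⟨0, 1, 1⟩, ⟨1521, 1535, 2535⟩, ⟨360, 401, 2000⟩, ⟨0, 1, 1⟩⟩
    (g4.s₀.eta' + cEG p4.kl p4.v (g4.s₀.t) (g4.u₁) g4.p - cSag p4.kl p4.v (g4.s₀.t) (g4.u₁) p4.lo g4_2.p) :=
  posBox_of_check (c := ⟨390, ⟨0, 8, 16, 6⟩⟩) (by decide +kernel)

def c4_983 : PosBox ⟨⟨0, 1, 1⟩, ⟨1521, 1535, 2535⟩, ⟨360, 401, 2000⟩, ⟨0, 1, 1⟩⟩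
    (g4.s₀.eta' + cEG p4.kl p4.v (g4.s₀.t) (g4.u₁) g4.p - cSag p4.kl p4.v (g4.s₀.t) (g4.u₁) p4.lo g4_3.p) :=
  posBox_of_check (c := ⟨385, ⟨0, 8, 16, 6⟩⟩) (by decide +kernel)

def c4_984 : PosBox ⟨⟨0, 1, 1⟩, ⟨1521, 1535, 2535⟩, ⟨360, 401, 2000⟩, ⟨0, 1, 1⟩⟩
    (g4.s₀.eta' + cEG p4.kl p4.v (g4.s₀.t) (g4.u₁) g4.p - cSag p4.kl p4.v (g4.s₀.t) (g4.u₁) p4.lo g4_4.p) :=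
  posBox_of_check (c := ⟨390, ⟨0, 8, 16, 6⟩⟩) (by decide +kernel)

def c4_985 : PosBox ⟨⟨0, 1, 1⟩, ⟨1521, 1535, 2535⟩, ⟨360, 401, 2000⟩, ⟨0, 1, 1⟩⟩
    (cC (4) 1 * g4.beta * g4.s₀.phi - cC (625) 1 * (cC (1) 1 + Ex.x₂ * p4.v) * g4.s₀.eta * g4.s₀.eta) :=
  posBox_of_check (c := ⟨179, ⟨0, 0, 6, 6⟩⟩) (by decide +kernel)

def c4_986 : PosBox ⟨⟨0, 1, 1⟩, ⟨1521, 1535, 2535⟩, ⟨360, 401, 2000⟩, ⟨0, 1, 1⟩⟩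
    (cC (4) 1 * g4.beta * g4.s₀.phi - cC (625) 1 * (cC (1) 1 + Ex.x₂ * p4.v) * g4.s₀.eta' * g4.s₀.eta') :=
  posBox_of_check (c := ⟨179, ⟨0, 0, 6, 6⟩⟩) (by decide +kernel)

def c4_987 : PosBox ⟨⟨0, 1, 1⟩, ⟨1521, 1535, 2535⟩, ⟨360, 401, 2000⟩, ⟨0, 1, 1⟩⟩
    ((p4.wh g4.s₁.t) - (p4.wl g4.s₁.t)) :=
  posBox_of_check (c := ⟨273, ⟨0, 3, 7, 3⟩⟩) (by decide +kernel)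

def c4_991 : PosBox ⟨⟨0, 1, 1⟩, ⟨1521, 1535, 2535⟩, ⟨360, 401, 2000⟩, ⟨0, 1, 1⟩⟩
    (g4.s₁.eta - cEG p4.kl p4.v (g4.s₁.t) (g4.u₀) g4.p) :=
  posBox_of_check (c := ⟨446, ⟨0, 8, 18, 7⟩⟩) (by decide +kernel)

def c4_992 : PosBox ⟨⟨0, 1, 1⟩, ⟨1521, 1535, 2535⟩, ⟨360, 401, 2000⟩, ⟨0, 1, 1⟩⟩
    (g4.s₁.eta' + cEG p4.kl p4.v (g4.s₁.t) (g4.u₀) g4.p - cSag p4.kl p4.v (g4.s₁.t) (g4.u₀) p4.lo g4_0.p) :=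
  posBox_of_check (c := ⟨459, ⟨0, 8, 18, 8⟩⟩) (by decide +kernel)

def c4_993 : PosBox ⟨⟨0, 1, 1⟩, ⟨1521, 1535, 2535⟩, ⟨360, 401, 2000⟩, ⟨0, 1, 1⟩⟩
    (g4.s₁.eta' + cEG p4.kl p4.v (g4.s₁.t) (g4.u₀) g4.p - cSag p4.kl p4.v (g4.s₁.t) (g4.u₀) p4.lo g4_1.p) :=
  posBox_of_check (c := ⟨459, ⟨0, 8, 18, 8⟩⟩) (by decide +kernel)

def c4_994 : PosBox ⟨⟨0, 1, 1⟩, ⟨1521, 1535, 2535⟩, ⟨360, 401, 2000⟩, ⟨0, 1, 1⟩⟩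
    (g4.s₁.eta' + cEG p4.kl p4.v (g4.s₁.t) (g4.u₀) g4.p - cSag p4.kl p4.v (g4.s₁.t) (g4.u₀) p4.lo g4_2.p) :=
  posBox_of_check (c := ⟨460, ⟨0, 8, 18, 8⟩⟩) (by decide +kernel)

def c4_995 : PosBox ⟨⟨0, 1, 1⟩, ⟨1521, 1535, 2535⟩, ⟨360, 401, 2000⟩, ⟨0, 1, 1⟩⟩
    (g4.s₁.eta' + cEG p4.kl p4.v (g4.s₁.t) (g4.u₀) g4.p - cSag p4.kl p4.v (g4.s₁.t) (g4.u₀) p4.lo g4_3.p) :=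
  posBox_of_check (c := ⟨455, ⟨0, 8, 18, 8⟩⟩) (by decide +kernel)

def c4_996 : PosBox ⟨⟨0, 1, 1⟩, ⟨1521, 1535, 2535⟩, ⟨360, 401, 2000⟩, ⟨0, 1, 1⟩⟩
    (g4.s₁.eta' + cEG p4.kl p4.v (g4.s₁.t) (g4.u₀) g4.p - cSag p4.kl p4.v (g4.s₁.t) (g4.u₀) p4.lo g4_4.p) :=
  posBox_of_check (c := ⟨460, ⟨0, 8, 18, 8⟩⟩) (by decide +kernel)

def c4_1000 : PosBox ⟨⟨0, 1, 1⟩, ⟨1521, 1535, 2535⟩, ⟨360, 401, 2000⟩, ⟨0, 1, 1⟩⟩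
    (g4.s₁.eta - cEG p4.kl p4.v (g4.s₁.t) (g4.u₁) g4.p) :=
  posBox_cut₂ (A := ⟨720, 761, 4000⟩) (B := ⟨761, 802, 4000⟩) (by unfold covers; decide)
    (posBox_cut₃ (A := ⟨0, 1, 2⟩) (B := ⟨1, 2, 2⟩) (by unfold covers; decide)
      (posBox_of_check (c := ⟨566, ⟨0, 8, 18, 7⟩⟩) (by decide +kernel))
      (posBox_of_check (c := ⟨566, ⟨0, 8, 18, 7⟩⟩) (by decide +kernel)))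
    (posBox_of_check (c := ⟨506, ⟨0, 8, 18, 7⟩⟩) (by decide +kernel))

def c4_1001 : PosBox ⟨⟨0, 1, 1⟩, ⟨1521, 1535, 2535⟩, ⟨360, 401, 2000⟩, ⟨0, 1, 1⟩⟩
    (g4.s₁.eta' + cEG p4.kl p4.v (g4.s₁.t) (g4.u₁) g4.p - cSag p4.kl p4.v (g4.s₁.t) (g4.u₁) p4.lo g4_0.p) :=
  posBox_of_check (c := ⟨459, ⟨0, 8, 18, 8⟩⟩) (by decide +kernel)

def c4_1002 : PosBox ⟨⟨0, 1, 1⟩, ⟨1521, 1535, 2535⟩, ⟨360, 401, 2000⟩, ⟨0, 1, 1⟩⟩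
    (g4.s₁.eta' + cEG p4.kl p4.v (g4.s₁.t) (g4.u₁) g4.p - cSag p4.kl p4.v (g4.s₁.t) (g4.u₁) p4.lo g4_1.p) :=
  posBox_of_check (c := ⟨459, ⟨0, 8, 18, 8⟩⟩) (by decide +kernel)

def c4_1003 : PosBox ⟨⟨0, 1, 1⟩, ⟨1521, 1535, 2535⟩, ⟨360, 401, 2000⟩, ⟨0, 1, 1⟩⟩
    (g4.s₁.eta' + cEG p4.kl p4.v (g4.s₁.t) (g4.u₁) g4.p - cSag p4.kl p4.v (g4.s₁.t) (g4.u₁) p4.lo g4_2.p) :=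
  posBox_of_check (c := ⟨460, ⟨0, 8, 18, 8⟩⟩) (by decide +kernel)

def c4_1004 : PosBox ⟨⟨0, 1, 1⟩, ⟨1521, 1535, 2535⟩, ⟨360, 401, 2000⟩, ⟨0, 1, 1⟩⟩
    (g4.s₁.eta' + cEG p4.kl p4.v (g4.s₁.t) (g4.u₁) g4.p - cSag p4.kl p4.v (g4.s₁.t) (g4.u₁) p4.lo g4_3.p) :=
  posBox_of_check (c := ⟨455, ⟨0, 8, 18, 8⟩⟩) (by decide +kernel)

def c4_1005 : PosBox ⟨⟨0, 1, 1⟩, ⟨1521, 1535, 2535⟩, ⟨360, 401, 2000⟩, ⟨0, 1, 1⟩⟩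
    (g4.s₁.eta' + cEG p4.kl p4.v (g4.s₁.t) (g4.u₁) g4.p - cSag p4.kl p4.v (g4.s₁.t) (g4.u₁) p4.lo g4_4.p) :=
  posBox_of_check (c := ⟨460, ⟨0, 8, 18, 8⟩⟩) (by decide +kernel)

def c4_1006 : PosBox ⟨⟨0, 1, 1⟩, ⟨1521, 1535, 2535⟩, ⟨360, 401, 2000⟩, ⟨0, 1, 1⟩⟩
    (cC (4) 1 * g4.beta * g4.s₁.phi - cC (625) 1 * (cC (1) 1 + Ex.x₂ * p4.v) * g4.s₁.eta * g4.s₁.eta) :=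
  posBox_of_check (c := ⟨176, ⟨0, 0, 6, 6⟩⟩) (by decide +kernel)

def c4_1007 : PosBox ⟨⟨0, 1, 1⟩, ⟨1521, 1535, 2535⟩, ⟨360, 401, 2000⟩, ⟨0, 1, 1⟩⟩
    (cC (4) 1 * g4.beta * g4.s₁.phi - cC (625) 1 * (cC (1) 1 + Ex.x₂ * p4.v) * g4.s₁.eta' * g4.s₁.eta') :=
  posBox_of_check (c := ⟨176, ⟨0, 0, 6, 6⟩⟩) (by decide +kernel)

def c4_1008 : PosBox ⟨⟨0, 1, 1⟩, ⟨1521, 1535, 2535⟩, ⟨360, 401, 2000⟩, ⟨0, 1, 1⟩⟩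
    (g4.beta) :=
  posBox_of_check (c := ⟨108, ⟨0, 0, 4, 4⟩⟩) (by decide +kernel)

def c4_1009 : PosBox ⟨⟨0, 1, 1⟩, ⟨1521, 1535, 2535⟩, ⟨360, 401, 2000⟩, ⟨0, 1, 1⟩⟩
    (eTGG cA Ex.x₂ p4.v g4.p - g4.beta) :=
  posBox_of_check (c := ⟨374, ⟨0, 7, 17, 6⟩⟩) (by decide +kernel)

def c4_1010 : PosBox ⟨⟨0, 1, 1⟩, ⟨1521, 1535, 2535⟩, ⟨360, 401, 2000⟩, ⟨0, 1, 1⟩⟩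
    (g4.p + cC (1) 4) :=
  posBox_of_check (c := ⟨76, ⟨0, 1, 3, 1⟩⟩) (by decide +kernel)

def c4_1016 : PosBox ⟨⟨0, 1, 1⟩, ⟨1521, 1535, 2535⟩, ⟨360, 401, 2000⟩, ⟨0, 1, 1⟩⟩
    (g4_0.s₀.eta - cEG p4.kl p4.v (g4_0.s₀.t) (g4_0.u₀) g4_0.p) :=
  posBox_of_check (c := ⟨389, ⟨0, 8, 16, 6⟩⟩) (by decide +kernel)

def c4_1017 : PosBox ⟨⟨0, 1, 1⟩, ⟨1521, 1535, 2535⟩, ⟨360, 401, 2000⟩, ⟨0, 1, 1⟩⟩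
    (g4_0.s₀.eta' + cEG p4.kl p4.v (g4_0.s₀.t) (g4_0.u₀) g4_0.p - cSag p4.kl p4.v (g4_0.s₀.t) (g4_0.u₀) p4.lo g4_0.p) :=
  posBox_of_check (c := ⟨392, ⟨0, 8, 16, 6⟩⟩) (by decide +kernel)

def c4_1021 : PosBox ⟨⟨0, 1, 1⟩, ⟨1521, 1535, 2535⟩, ⟨360, 401, 2000⟩, ⟨0, 1, 1⟩⟩
    (g4_0.s₀.eta - cEG p4.kl p4.v (g4_0.s₀.t) (g4_0.u₁) g4_0.p) :=
  posBox_of_check (c := ⟨389, ⟨0, 8, 16, 6⟩⟩) (by decide +kernel)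

def c4_1022 : PosBox ⟨⟨0, 1, 1⟩, ⟨1521, 1535, 2535⟩, ⟨360, 401, 2000⟩, ⟨0, 1, 1⟩⟩
    (g4_0.s₀.eta' + cEG p4.kl p4.v (g4_0.s₀.t) (g4_0.u₁) g4_0.p - cSag p4.kl p4.v (g4_0.s₀.t) (g4_0.u₁) p4.lo g4_0.p) :=
  posBox_of_check (c := ⟨392, ⟨0, 8, 16, 6⟩⟩) (by decide +kernel)

def c4_1023 : PosBox ⟨⟨0, 1, 1⟩, ⟨1521, 1535, 2535⟩, ⟨360, 401, 2000⟩, ⟨0, 1, 1⟩⟩
    (cC (4) 1 * g4_0.beta * g4_0.s₀.phi - cC (625) 1 * (cC (1) 1 + Ex.x₂ * p4.v) * g4_0.s₀.eta * g4_0.s₀.eta) :=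
  posBox_of_check (c := ⟨179, ⟨0, 0, 6, 6⟩⟩) (by decide +kernel)

def c4_1024 : PosBox ⟨⟨0, 1, 1⟩, ⟨1521, 1535, 2535⟩, ⟨360, 401, 2000⟩, ⟨0, 1, 1⟩⟩
    (cC (4) 1 * g4_0.beta * g4_0.s₀.phi - cC (625) 1 * (cC (1) 1 + Ex.x₂ * p4.v) * g4_0.s₀.eta' * g4_0.s₀.eta') :=
  posBox_of_check (c := ⟨179, ⟨0, 0, 6, 6⟩⟩) (by decide +kernel)

def c4_1025 : PosBox ⟨⟨0, 1, 1⟩, ⟨1521, 1535, 2535⟩, ⟨360, 401, 2000⟩, ⟨0, 1, 1⟩⟩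
    ((p4.wh g4_0.s₁.t) - (p4.wl g4_0.s₁.t)) :=
  posBox_of_check (c := ⟨273, ⟨0, 3, 7, 3⟩⟩) (by decide +kernel)

def c4_1029 : PosBox ⟨⟨0, 1, 1⟩, ⟨1521, 1535, 2535⟩, ⟨360, 401, 2000⟩, ⟨0, 1, 1⟩⟩
    (g4_0.s₁.eta - cEG p4.kl p4.v (g4_0.s₁.t) (g4_0.u₀) g4_0.p) :=
  posBox_of_check (c := ⟨456, ⟨0, 8, 18, 8⟩⟩) (by decide +kernel)

def c4_1030 : PosBox ⟨⟨0, 1, 1⟩, ⟨1521, 1535, 2535⟩, ⟨360, 401, 2000⟩, ⟨0, 1, 1⟩⟩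
    (g4_0.s₁.eta' + cEG p4.kl p4.v (g4_0.s₁.t) (g4_0.u₀) g4_0.p - cSag p4.kl p4.v (g4_0.s₁.t) (g4_0.u₀) p4.lo g4_0.p) :=
  posBox_of_check (c := ⟨459, ⟨0, 8, 18, 8⟩⟩) (by decide +kernel)

def c4_1034 : PosBox ⟨⟨0, 1, 1⟩, ⟨1521, 1535, 2535⟩, ⟨360, 401, 2000⟩, ⟨0, 1, 1⟩⟩
    (g4_0.s₁.eta - cEG p4.kl p4.v (g4_0.s₁.t) (g4_0.u₁) g4_0.p) :=
  posBox_of_check (c := ⟨456, ⟨0, 8, 18, 8⟩⟩) (by decide +kernel)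

def c4_1035 : PosBox ⟨⟨0, 1, 1⟩, ⟨1521, 1535, 2535⟩, ⟨360, 401, 2000⟩, ⟨0, 1, 1⟩⟩
    (g4_0.s₁.eta' + cEG p4.kl p4.v (g4_0.s₁.t) (g4_0.u₁) g4_0.p - cSag p4.kl p4.v (g4_0.s₁.t) (g4_0.u₁) p4.lo g4_0.p) :=
  posBox_of_check (c := ⟨459, ⟨0, 8, 18, 8⟩⟩) (by decide +kernel)

def c4_1036 : PosBox ⟨⟨0, 1, 1⟩, ⟨1521, 1535, 2535⟩, ⟨360, 401, 2000⟩, ⟨0, 1, 1⟩⟩
    (cC (4) 1 * g4_0.beta * g4_0.s₁.phi - cC (625) 1 * (cC (1) 1 + Ex.x₂ * p4.v) * g4_0.s₁.eta * g4_0.s₁.eta) :=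
  posBox_of_check (c := ⟨181, ⟨0, 0, 6, 6⟩⟩) (by decide +kernel)

def c4_1037 : PosBox ⟨⟨0, 1, 1⟩, ⟨1521, 1535, 2535⟩, ⟨360, 401, 2000⟩, ⟨0, 1, 1⟩⟩
    (cC (4) 1 * g4_0.beta * g4_0.s₁.phi - cC (625) 1 * (cC (1) 1 + Ex.x₂ * p4.v) * g4_0.s₁.eta' * g4_0.s₁.eta') :=
  posBox_of_check (c := ⟨181, ⟨0, 0, 6, 6⟩⟩) (by decide +kernel)

def c4_1038 : PosBox ⟨⟨0, 1, 1⟩, ⟨1521, 1535, 2535⟩, ⟨360, 401, 2000⟩, ⟨0, 1, 1⟩⟩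
    (g4_0.beta) :=
  posBox_of_check (c := ⟨109, ⟨0, 0, 4, 4⟩⟩) (by decide +kernel)

def c4_1039 : PosBox ⟨⟨0, 1, 1⟩, ⟨1521, 1535, 2535⟩, ⟨360, 401, 2000⟩, ⟨0, 1, 1⟩⟩
    (eTGG cA Ex.x₂ p4.v g4_0.p - g4_0.beta) :=
  posBox_of_check (c := ⟨388, ⟨0, 7, 17, 7⟩⟩) (by decide +kernel)

def c4_1040 : PosBox ⟨⟨0, 1, 1⟩, ⟨1521, 1535, 2535⟩, ⟨360, 401, 2000⟩, ⟨0, 1, 1⟩⟩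
    (g4_0.p + cC (1) 4) :=
  posBox_of_check (c := ⟨144, ⟨0, 1, 3, 2⟩⟩) (by decide +kernel)

def c4_1041 : PosBox ⟨⟨0, 1, 1⟩, ⟨1521, 1535, 2535⟩, ⟨360, 401, 2000⟩, ⟨0, 1, 1⟩⟩
    ((p4.wh g4_1.s₀.t) - (p4.wl g4_1.s₀.t)) :=
  posBox_of_check (c := ⟨237, ⟨0, 3, 7, 1⟩⟩) (by decide +kernel)

def c4_1045 : PosBox ⟨⟨0, 1, 1⟩, ⟨1521, 1535, 2535⟩, ⟨360, 401, 2000⟩, ⟨0, 1, 1⟩⟩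
    (g4_1.s₀.eta - cEG p4.kl p4.v (g4_1.s₀.t) (g4_1.u₀) g4_1.p) :=
  posBox_of_check (c := ⟨422, ⟨0, 8, 18, 6⟩⟩) (by decide +kernel)

def c4_1046 : PosBox ⟨⟨0, 1, 1⟩, ⟨1521, 1535, 2535⟩, ⟨360, 401, 2000⟩, ⟨0, 1, 1⟩⟩
    (g4_1.s₀.eta' + cEG p4.kl p4.v (g4_1.s₀.t) (g4_1.u₀) g4_1.p - cSag p4.kl p4.v (g4_1.s₀.t) (g4_1.u₀) p4.lo g4_1.p) :=
  posBox_of_check (c := ⟨424, ⟨0, 8, 18, 6⟩⟩) (by decide +kernel)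

def c4_1050 : PosBox ⟨⟨0, 1, 1⟩, ⟨1521, 1535, 2535⟩, ⟨360, 401, 2000⟩, ⟨0, 1, 1⟩⟩
    (g4_1.s₀.eta - cEG p4.kl p4.v (g4_1.s₀.t) (g4_1.u₁) g4_1.p) :=
  posBox_of_check (c := ⟨422, ⟨0, 8, 18, 6⟩⟩) (by decide +kernel)

def c4_1051 : PosBox ⟨⟨0, 1, 1⟩, ⟨1521, 1535, 2535⟩, ⟨360, 401, 2000⟩, ⟨0, 1, 1⟩⟩
    (g4_1.s₀.eta' + cEG p4.kl p4.v (g4_1.s₀.t) (g4_1.u₁) g4_1.p - cSag p4.kl p4.v (g4_1.s₀.t) (g4_1.u₁) p4.lo g4_1.p) :=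
  posBox_of_check (c := ⟨424, ⟨0, 8, 18, 6⟩⟩) (by decide +kernel)

def c4_1052 : PosBox ⟨⟨0, 1, 1⟩, ⟨1521, 1535, 2535⟩, ⟨360, 401, 2000⟩, ⟨0, 1, 1⟩⟩
    (cC (4) 1 * g4_1.beta * g4_1.s₀.phi - cC (625) 1 * (cC (1) 1 + Ex.x₂ * p4.v) * g4_1.s₀.eta * g4_1.s₀.eta) :=
  posBox_of_check (c := ⟨227, ⟨0, 0, 8, 8⟩⟩) (by decide +kernel)

def c4_1053 : PosBox ⟨⟨0, 1, 1⟩, ⟨1521, 1535, 2535⟩, ⟨360, 401, 2000⟩, ⟨0, 1, 1⟩⟩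
    (cC (4) 1 * g4_1.beta * g4_1.s₀.phi - cC (625) 1 * (cC (1) 1 + Ex.x₂ * p4.v) * g4_1.s₀.eta' * g4_1.s₀.eta') :=
  posBox_of_check (c := ⟨227, ⟨0, 0, 8, 8⟩⟩) (by decide +kernel)

def c4_1059 : PosBox ⟨⟨0, 1, 1⟩, ⟨1521, 1535, 2535⟩, ⟨360, 401, 2000⟩, ⟨0, 1, 1⟩⟩
    (g4_1.s₁.eta - cEG p4.kl p4.v (g4_1.s₁.t) (g4_1.u₀) g4_1.p) :=
  posBox_of_check (c := ⟨407, ⟨0, 8, 16, 6⟩⟩) (by decide +kernel)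

def c4_1060 : PosBox ⟨⟨0, 1, 1⟩, ⟨1521, 1535, 2535⟩, ⟨360, 401, 2000⟩, ⟨0, 1, 1⟩⟩
    (g4_1.s₁.eta' + cEG p4.kl p4.v (g4_1.s₁.t) (g4_1.u₀) g4_1.p - cSag p4.kl p4.v (g4_1.s₁.t) (g4_1.u₀) p4.lo g4_1.p) :=
  posBox_of_check (c := ⟨409, ⟨0, 8, 16, 6⟩⟩) (by decide +kernel)

def c4_1064 : PosBox ⟨⟨0, 1, 1⟩, ⟨1521, 1535, 2535⟩, ⟨360, 401, 2000⟩, ⟨0, 1, 1⟩⟩
    (g4_1.s₁.eta - cEG p4.kl p4.v (g4_1.s₁.t) (g4_1.u₁) g4_1.p) :=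
  posBox_of_check (c := ⟨407, ⟨0, 8, 16, 6⟩⟩) (by decide +kernel)

def c4_1065 : PosBox ⟨⟨0, 1, 1⟩, ⟨1521, 1535, 2535⟩, ⟨360, 401, 2000⟩, ⟨0, 1, 1⟩⟩
    (g4_1.s₁.eta' + cEG p4.kl p4.v (g4_1.s₁.t) (g4_1.u₁) g4_1.p - cSag p4.kl p4.v (g4_1.s₁.t) (g4_1.u₁) p4.lo g4_1.p) :=
  posBox_of_check (c := ⟨409, ⟨0, 8, 16, 6⟩⟩) (by decide +kernel)

def c4_1066 : PosBox ⟨⟨0, 1, 1⟩, ⟨1521, 1535, 2535⟩, ⟨360, 401, 2000⟩, ⟨0, 1, 1⟩⟩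
    (cC (4) 1 * g4_1.beta * g4_1.s₁.phi - cC (625) 1 * (cC (1) 1 + Ex.x₂ * p4.v) * g4_1.s₁.eta * g4_1.s₁.eta) :=
  posBox_cut₂ (A := ⟨720, 761, 4000⟩) (B := ⟨761, 802, 4000⟩) (by unfold covers; decide)
    (posBox_cut₃ (A := ⟨0, 1, 2⟩) (B := ⟨1, 2, 2⟩) (by unfold covers; decide)
      (posBox_of_check (c := ⟨293, ⟨0, 0, 6, 5⟩⟩) (by decide +kernel))
      (posBox_of_check (c := ⟨293, ⟨0, 0, 6, 5⟩⟩) (by decide +kernel)))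
    (posBox_of_check (c := ⟨233, ⟨0, 0, 6, 5⟩⟩) (by decide +kernel))

def c4_1067 : PosBox ⟨⟨0, 1, 1⟩, ⟨1521, 1535, 2535⟩, ⟨360, 401, 2000⟩, ⟨0, 1, 1⟩⟩
    (cC (4) 1 * g4_1.beta * g4_1.s₁.phi - cC (625) 1 * (cC (1) 1 + Ex.x₂ * p4.v) * g4_1.s₁.eta' * g4_1.s₁.eta') :=
  posBox_cut₂ (A := ⟨720, 761, 4000⟩) (B := ⟨761, 802, 4000⟩) (by unfold covers; decide)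
    (posBox_cut₃ (A := ⟨0, 1, 2⟩) (B := ⟨1, 2, 2⟩) (by unfold covers; decide)
      (posBox_of_check (c := ⟨293, ⟨0, 0, 6, 5⟩⟩) (by decide +kernel))
      (posBox_of_check (c := ⟨293, ⟨0, 0, 6, 5⟩⟩) (by decide +kernel)))
    (posBox_of_check (c := ⟨233, ⟨0, 0, 6, 5⟩⟩) (by decide +kernel))

def c4_1068 : PosBox ⟨⟨0, 1, 1⟩, ⟨1521, 1535, 2535⟩, ⟨360, 401, 2000⟩, ⟨0, 1, 1⟩⟩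
    (g4_1.beta) :=
  posBox_of_check (c := ⟨88, ⟨0, 0, 3, 3⟩⟩) (by decide +kernel)

def c4_1069 : PosBox ⟨⟨0, 1, 1⟩, ⟨1521, 1535, 2535⟩, ⟨360, 401, 2000⟩, ⟨0, 1, 1⟩⟩
    (eTGG cA Ex.x₂ p4.v g4_1.p - g4_1.beta) :=
  posBox_of_check (c := ⟨390, ⟨0, 7, 17, 7⟩⟩) (by decide +kernel)

def c4_1070 : PosBox ⟨⟨0, 1, 1⟩, ⟨1521, 1535, 2535⟩, ⟨360, 401, 2000⟩, ⟨0, 1, 1⟩⟩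
    (g4_1.p + cC (1) 4) :=
  posBox_of_check (c := ⟨145, ⟨0, 1, 3, 2⟩⟩) (by decide +kernel)

def c4_1071 : PosBox ⟨⟨0, 1, 1⟩, ⟨1521, 1535, 2535⟩, ⟨360, 401, 2000⟩, ⟨0, 1, 1⟩⟩
    ((p4.wh g4_2.s₀.t) - (p4.wl g4_2.s₀.t)) :=
  posBox_of_check (c := ⟨237, ⟨0, 3, 7, 1⟩⟩) (by decide +kernel)

def c4_1075 : PosBox ⟨⟨0, 1, 1⟩, ⟨1521, 1535, 2535⟩, ⟨360, 401, 2000⟩, ⟨0, 1, 1⟩⟩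
    (g4_2.s₀.eta - cEG p4.kl p4.v (g4_2.s₀.t) (g4_2.u₀) g4_2.p) :=
  posBox_of_check (c := ⟨423, ⟨0, 8, 18, 6⟩⟩) (by decide +kernel)

def c4_1076 : PosBox ⟨⟨0, 1, 1⟩, ⟨1521, 1535, 2535⟩, ⟨360, 401, 2000⟩, ⟨0, 1, 1⟩⟩
    (g4_2.s₀.eta' + cEG p4.kl p4.v (g4_2.s₀.t) (g4_2.u₀) g4_2.p - cSag p4.kl p4.v (g4_2.s₀.t) (g4_2.u₀) p4.lo g4_2.p) :=
  posBox_of_check (c := ⟨425, ⟨0, 8, 18, 6⟩⟩) (by decide +kernel)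

def c4_1080 : PosBox ⟨⟨0, 1, 1⟩, ⟨1521, 1535, 2535⟩, ⟨360, 401, 2000⟩, ⟨0, 1, 1⟩⟩
    (g4_2.s₀.eta - cEG p4.kl p4.v (g4_2.s₀.t) (g4_2.u₁) g4_2.p) :=
  posBox_of_check (c := ⟨423, ⟨0, 8, 18, 6⟩⟩) (by decide +kernel)

def c4_1081 : PosBox ⟨⟨0, 1, 1⟩, ⟨1521, 1535, 2535⟩, ⟨360, 401, 2000⟩, ⟨0, 1, 1⟩⟩
    (g4_2.s₀.eta' + cEG p4.kl p4.v (g4_2.s₀.t) (g4_2.u₁) g4_2.p - cSag p4.kl p4.v (g4_2.s₀.t) (g4_2.u₁) p4.lo g4_2.p) :=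
  posBox_of_check (c := ⟨425, ⟨0, 8, 18, 6⟩⟩) (by decide +kernel)

end Vale.Agent.P100.Calib.Closed.End
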