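import Vale.Agent.P100.Calib.SlabEndData

/-!
# Checks of the end strip, piece `4`
-/

set_option linter.defProp false

namespace Vale.Agent.P100.Calib.Closed.End

open BoxPos
open Large (PosBox posBox_of_check)

local instance endChk4B1Add : Add Ex := ⟨Ex.add⟩
local instance endChk4B1Mul : Mul Ex := ⟨Ex.mul⟩
local instance endChk4B1Sub : Sub Ex := ⟨Ex.sub⟩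

def c4_1082 : PosBox ⟨⟨0, 1, 1⟩, ⟨1521, 1535, 2535⟩, ⟨360, 401, 2000⟩, ⟨0, 1, 1⟩⟩
    (cC (4) 1 * g4_2.beta * g4_2.s₀.phi - cC (625) 1 * (cC (1) 1 + Ex.x₂ * p4.v) * g4_2.s₀.eta * g4_2.s₀.eta) :=
  posBox_cut₂ (A := ⟨720, 761, 4000⟩) (B := ⟨761, 802, 4000⟩) (by unfold covers; decide)
    (posBox_cut₃ (A := ⟨0, 1, 2⟩) (B := ⟨1, 2, 2⟩) (by unfold covers; decide)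
      (posBox_of_check (c := ⟨287, ⟨0, 0, 6, 5⟩⟩) (by decide +kernel))
      (posBox_of_check (c := ⟨287, ⟨0, 0, 6, 5⟩⟩) (by decide +kernel)))
    (posBox_cut₃ (A := ⟨0, 1, 2⟩) (B := ⟨1, 2, 2⟩) (by unfold covers; decide)
      (posBox_of_check (c := ⟨287, ⟨0, 0, 6, 5⟩⟩) (by decide +kernel))
      (posBox_of_check (c := ⟨287, ⟨0, 0, 6, 5⟩⟩) (by decide +kernel)))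

def c4_1083 : PosBox ⟨⟨0, 1, 1⟩, ⟨1521, 1535, 2535⟩, ⟨360, 401, 2000⟩, ⟨0, 1, 1⟩⟩
    (cC (4) 1 * g4_2.beta * g4_2.s₀.phi - cC (625) 1 * (cC (1) 1 + Ex.x₂ * p4.v) * g4_2.s₀.eta' * g4_2.s₀.eta') :=
  posBox_of_check (c := ⟨172, ⟨0, 0, 6, 5⟩⟩) (by decide +kernel)

def c4_1084 : PosBox ⟨⟨0, 1, 1⟩, ⟨1521, 1535, 2535⟩, ⟨360, 401, 2000⟩, ⟨0, 1, 1⟩⟩
    ((p4.wh g4_2.s₁.t) - (p4.wl g4_2.s₁.t)) :=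
  posBox_of_check (c := ⟨254, ⟨0, 3, 7, 1⟩⟩) (by decide +kernel)

def c4_1088 : PosBox ⟨⟨0, 1, 1⟩, ⟨1521, 1535, 2535⟩, ⟨360, 401, 2000⟩, ⟨0, 1, 1⟩⟩
    (g4_2.s₁.eta - cEG p4.kl p4.v (g4_2.s₁.t) (g4_2.u₀) g4_2.p) :=
  posBox_of_check (c := ⟨439, ⟨0, 8, 18, 6⟩⟩) (by decide +kernel)

def c4_1089 : PosBox ⟨⟨0, 1, 1⟩, ⟨1521, 1535, 2535⟩, ⟨360, 401, 2000⟩, ⟨0, 1, 1⟩⟩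
    (g4_2.s₁.eta' + cEG p4.kl p4.v (g4_2.s₁.t) (g4_2.u₀) g4_2.p - cSag p4.kl p4.v (g4_2.s₁.t) (g4_2.u₀) p4.lo g4_2.p) :=
  posBox_of_check (c := ⟨441, ⟨0, 8, 18, 6⟩⟩) (by decide +kernel)

def c4_1093 : PosBox ⟨⟨0, 1, 1⟩, ⟨1521, 1535, 2535⟩, ⟨360, 401, 2000⟩, ⟨0, 1, 1⟩⟩
    (g4_2.s₁.eta - cEG p4.kl p4.v (g4_2.s₁.t) (g4_2.u₁) g4_2.p) :=
  posBox_of_check (c := ⟨439, ⟨0, 8, 18, 6⟩⟩) (by decide +kernel)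

def c4_1094 : PosBox ⟨⟨0, 1, 1⟩, ⟨1521, 1535, 2535⟩, ⟨360, 401, 2000⟩, ⟨0, 1, 1⟩⟩
    (g4_2.s₁.eta' + cEG p4.kl p4.v (g4_2.s₁.t) (g4_2.u₁) g4_2.p - cSag p4.kl p4.v (g4_2.s₁.t) (g4_2.u₁) p4.lo g4_2.p) :=
  posBox_of_check (c := ⟨441, ⟨0, 8, 18, 6⟩⟩) (by decide +kernel)

def c4_1095 : PosBox ⟨⟨0, 1, 1⟩, ⟨1521, 1535, 2535⟩, ⟨360, 401, 2000⟩, ⟨0, 1, 1⟩⟩
    (cC (4) 1 * g4_2.beta * g4_2.s₁.phi - cC (625) 1 * (cC (1) 1 + Ex.x₂ * p4.v) * g4_2.s₁.eta * g4_2.s₁.eta) :=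
  posBox_cut₂ (A := ⟨720, 761, 4000⟩) (B := ⟨761, 802, 4000⟩) (by unfold covers; decide)
    (posBox_cut₃ (A := ⟨0, 1, 2⟩) (B := ⟨1, 2, 2⟩) (by unfold covers; decide)
      (posBox_of_check (c := ⟨292, ⟨0, 0, 6, 5⟩⟩) (by decide +kernel))
      (posBox_of_check (c := ⟨292, ⟨0, 0, 6, 5⟩⟩) (by decide +kernel)))
    (posBox_cut₃ (A := ⟨0, 1, 2⟩) (B := ⟨1, 2, 2⟩) (by unfold covers; decide)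
      (posBox_of_check (c := ⟨292, ⟨0, 0, 6, 5⟩⟩) (by decide +kernel))
      (posBox_of_check (c := ⟨292, ⟨0, 0, 6, 5⟩⟩) (by decide +kernel)))

def c4_1096 : PosBox ⟨⟨0, 1, 1⟩, ⟨1521, 1535, 2535⟩, ⟨360, 401, 2000⟩, ⟨0, 1, 1⟩⟩
    (cC (4) 1 * g4_2.beta * g4_2.s₁.phi - cC (625) 1 * (cC (1) 1 + Ex.x₂ * p4.v) * g4_2.s₁.eta' * g4_2.s₁.eta') :=
  posBox_of_check (c := ⟨172, ⟨0, 0, 6, 5⟩⟩) (by decide +kernel)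

def c4_1097 : PosBox ⟨⟨0, 1, 1⟩, ⟨1521, 1535, 2535⟩, ⟨360, 401, 2000⟩, ⟨0, 1, 1⟩⟩
    (g4_2.beta) :=
  posBox_of_check (c := ⟨86, ⟨0, 0, 3, 3⟩⟩) (by decide +kernel)

def c4_1098 : PosBox ⟨⟨0, 1, 1⟩, ⟨1521, 1535, 2535⟩, ⟨360, 401, 2000⟩, ⟨0, 1, 1⟩⟩
    (eTGG cA Ex.x₂ p4.v g4_2.p - g4_2.beta) :=
  posBox_of_check (c := ⟨391, ⟨0, 7, 17, 7⟩⟩) (by decide +kernel)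

def c4_1099 : PosBox ⟨⟨0, 1, 1⟩, ⟨1521, 1535, 2535⟩, ⟨360, 401, 2000⟩, ⟨0, 1, 1⟩⟩
    (g4_2.p + cC (1) 4) :=
  posBox_of_check (c := ⟨146, ⟨0, 1, 3, 2⟩⟩) (by decide +kernel)

def c4_1100 : PosBox ⟨⟨0, 1, 1⟩, ⟨1521, 1535, 2535⟩, ⟨360, 401, 2000⟩, ⟨0, 1, 1⟩⟩
    ((p4.wh g4_3.s₀.t) - (p4.wl g4_3.s₀.t)) :=
  posBox_of_check (c := ⟨236, ⟨0, 3, 7, 1⟩⟩) (by decide +kernel)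

def c4_1104 : PosBox ⟨⟨0, 1, 1⟩, ⟨1521, 1535, 2535⟩, ⟨360, 401, 2000⟩, ⟨0, 1, 1⟩⟩
    (g4_3.s₀.eta - cEG p4.kl p4.v (g4_3.s₀.t) (g4_3.u₀) g4_3.p) :=
  posBox_of_check (c := ⟨417, ⟨0, 8, 18, 6⟩⟩) (by decide +kernel)

def c4_1105 : PosBox ⟨⟨0, 1, 1⟩, ⟨1521, 1535, 2535⟩, ⟨360, 401, 2000⟩, ⟨0, 1, 1⟩⟩
    (g4_3.s₀.eta' + cEG p4.kl p4.v (g4_3.s₀.t) (g4_3.u₀) g4_3.p - cSag p4.kl p4.v (g4_3.s₀.t) (g4_3.u₀) p4.lo g4_3.p) :=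
  posBox_of_check (c := ⟨419, ⟨0, 8, 18, 6⟩⟩) (by decide +kernel)

def c4_1109 : PosBox ⟨⟨0, 1, 1⟩, ⟨1521, 1535, 2535⟩, ⟨360, 401, 2000⟩, ⟨0, 1, 1⟩⟩
    (g4_3.s₀.eta - cEG p4.kl p4.v (g4_3.s₀.t) (g4_3.u₁) g4_3.p) :=
  posBox_of_check (c := ⟨417, ⟨0, 8, 18, 6⟩⟩) (by decide +kernel)

def c4_1110 : PosBox ⟨⟨0, 1, 1⟩, ⟨1521, 1535, 2535⟩, ⟨360, 401, 2000⟩, ⟨0, 1, 1⟩⟩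
    (g4_3.s₀.eta' + cEG p4.kl p4.v (g4_3.s₀.t) (g4_3.u₁) g4_3.p - cSag p4.kl p4.v (g4_3.s₀.t) (g4_3.u₁) p4.lo g4_3.p) :=
  posBox_of_check (c := ⟨419, ⟨0, 8, 18, 6⟩⟩) (by decide +kernel)

def c4_1111 : PosBox ⟨⟨0, 1, 1⟩, ⟨1521, 1535, 2535⟩, ⟨360, 401, 2000⟩, ⟨0, 1, 1⟩⟩
    (cC (4) 1 * g4_3.beta * g4_3.s₀.phi - cC (625) 1 * (cC (1) 1 + Ex.x₂ * p4.v) * g4_3.s₀.eta * g4_3.s₀.eta) :=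
  posBox_cut₂ (A := ⟨720, 761, 4000⟩) (B := ⟨761, 802, 4000⟩) (by unfold covers; decide)
    (posBox_cut₃ (A := ⟨0, 1, 2⟩) (B := ⟨1, 2, 2⟩) (by unfold covers; decide)
      (posBox_of_check (c := ⟨328, ⟨0, 0, 7, 7⟩⟩) (by decide +kernel))
      (posBox_of_check (c := ⟨328, ⟨0, 0, 7, 7⟩⟩) (by decide +kernel)))
    (posBox_cut₃ (A := ⟨0, 1, 2⟩) (B := ⟨1, 2, 2⟩) (by unfold covers; decide)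
      (posBox_of_check (c := ⟨328, ⟨0, 0, 7, 7⟩⟩) (by decide +kernel))
      (posBox_of_check (c := ⟨328, ⟨0, 0, 7, 7⟩⟩) (by decide +kernel)))

def c4_1112 : PosBox ⟨⟨0, 1, 1⟩, ⟨1521, 1535, 2535⟩, ⟨360, 401, 2000⟩, ⟨0, 1, 1⟩⟩
    (cC (4) 1 * g4_3.beta * g4_3.s₀.phi - cC (625) 1 * (cC (1) 1 + Ex.x₂ * p4.v) * g4_3.s₀.eta' * g4_3.s₀.eta') :=
  posBox_of_check (c := ⟨208, ⟨0, 0, 7, 7⟩⟩) (by decide +kernel)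

def c4_1113 : PosBox ⟨⟨0, 1, 1⟩, ⟨1521, 1535, 2535⟩, ⟨360, 401, 2000⟩, ⟨0, 1, 1⟩⟩
    ((p4.wh g4_3.s₁.t) - (p4.wl g4_3.s₁.t)) :=
  posBox_of_check (c := ⟨254, ⟨0, 3, 7, 1⟩⟩) (by decide +kernel)

def c4_1117 : PosBox ⟨⟨0, 1, 1⟩, ⟨1521, 1535, 2535⟩, ⟨360, 401, 2000⟩, ⟨0, 1, 1⟩⟩
    (g4_3.s₁.eta - cEG p4.kl p4.v (g4_3.s₁.t) (g4_3.u₀) g4_3.p) :=
  posBox_of_check (c := ⟨434, ⟨0, 8, 18, 6⟩⟩) (by decide +kernel)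

def c4_1118 : PosBox ⟨⟨0, 1, 1⟩, ⟨1521, 1535, 2535⟩, ⟨360, 401, 2000⟩, ⟨0, 1, 1⟩⟩
    (g4_3.s₁.eta' + cEG p4.kl p4.v (g4_3.s₁.t) (g4_3.u₀) g4_3.p - cSag p4.kl p4.v (g4_3.s₁.t) (g4_3.u₀) p4.lo g4_3.p) :=
  posBox_of_check (c := ⟨436, ⟨0, 8, 18, 6⟩⟩) (by decide +kernel)

def c4_1122 : PosBox ⟨⟨0, 1, 1⟩, ⟨1521, 1535, 2535⟩, ⟨360, 401, 2000⟩, ⟨0, 1, 1⟩⟩
    (g4_3.s₁.eta - cEG p4.kl p4.v (g4_3.s₁.t) (g4_3.u₁) g4_3.p) :=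
  posBox_of_check (c := ⟨434, ⟨0, 8, 18, 6⟩⟩) (by decide +kernel)

def c4_1123 : PosBox ⟨⟨0, 1, 1⟩, ⟨1521, 1535, 2535⟩, ⟨360, 401, 2000⟩, ⟨0, 1, 1⟩⟩
    (g4_3.s₁.eta' + cEG p4.kl p4.v (g4_3.s₁.t) (g4_3.u₁) g4_3.p - cSag p4.kl p4.v (g4_3.s₁.t) (g4_3.u₁) p4.lo g4_3.p) :=
  posBox_of_check (c := ⟨437, ⟨0, 8, 18, 6⟩⟩) (by decide +kernel)

def c4_1124 : PosBox ⟨⟨0, 1, 1⟩, ⟨1521, 1535, 2535⟩, ⟨360, 401, 2000⟩, ⟨0, 1, 1⟩⟩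
    (cC (4) 1 * g4_3.beta * g4_3.s₁.phi - cC (625) 1 * (cC (1) 1 + Ex.x₂ * p4.v) * g4_3.s₁.eta * g4_3.s₁.eta) :=
  posBox_cut₂ (A := ⟨720, 761, 4000⟩) (B := ⟨761, 802, 4000⟩) (by unfold covers; decide)
    (posBox_cut₃ (A := ⟨0, 1, 2⟩) (B := ⟨1, 2, 2⟩) (by unfold covers; decide)
      (posBox_of_check (c := ⟨292, ⟨0, 0, 6, 5⟩⟩) (by decide +kernel))
      (posBox_of_check (c := ⟨292, ⟨0, 0, 6, 5⟩⟩) (by decide +kernel)))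
    (posBox_of_check (c := ⟨232, ⟨0, 0, 6, 5⟩⟩) (by decide +kernel))

def c4_1125 : PosBox ⟨⟨0, 1, 1⟩, ⟨1521, 1535, 2535⟩, ⟨360, 401, 2000⟩, ⟨0, 1, 1⟩⟩
    (cC (4) 1 * g4_3.beta * g4_3.s₁.phi - cC (625) 1 * (cC (1) 1 + Ex.x₂ * p4.v) * g4_3.s₁.eta' * g4_3.s₁.eta') :=
  posBox_of_check (c := ⟨172, ⟨0, 0, 6, 5⟩⟩) (by decide +kernel)

def c4_1126 : PosBox ⟨⟨0, 1, 1⟩, ⟨1521, 1535, 2535⟩, ⟨360, 401, 2000⟩, ⟨0, 1, 1⟩⟩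
    (g4_3.beta) :=
  posBox_of_check (c := ⟨88, ⟨0, 0, 3, 3⟩⟩) (by decide +kernel)

def c4_1127 : PosBox ⟨⟨0, 1, 1⟩, ⟨1521, 1535, 2535⟩, ⟨360, 401, 2000⟩, ⟨0, 1, 1⟩⟩
    (eTGG cA Ex.x₂ p4.v g4_3.p - g4_3.beta) :=
  posBox_of_check (c := ⟨387, ⟨0, 7, 17, 7⟩⟩) (by decide +kernel)

def c4_1128 : PosBox ⟨⟨0, 1, 1⟩, ⟨1521, 1535, 2535⟩, ⟨360, 401, 2000⟩, ⟨0, 1, 1⟩⟩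
    (g4_3.p + cC (1) 4) :=
  posBox_of_check (c := ⟨143, ⟨0, 1, 3, 2⟩⟩) (by decide +kernel)

def c4_1129 : PosBox ⟨⟨0, 1, 1⟩, ⟨1521, 1535, 2535⟩, ⟨360, 401, 2000⟩, ⟨0, 1, 1⟩⟩
    ((p4.wh g4_4.s₀.t) - (p4.wl g4_4.s₀.t)) :=
  posBox_of_check (c := ⟨203, ⟨0, 3, 5, 1⟩⟩) (by decide +kernel)

def c4_1133 : PosBox ⟨⟨0, 1, 1⟩, ⟨1521, 1535, 2535⟩, ⟨360, 401, 2000⟩, ⟨0, 1, 1⟩⟩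
    (g4_4.s₀.eta - cEG p4.kl p4.v (g4_4.s₀.t) (g4_4.u₀) g4_4.p) :=
  posBox_of_check (c := ⟨387, ⟨0, 8, 16, 6⟩⟩) (by decide +kernel)

def c4_1134 : PosBox ⟨⟨0, 1, 1⟩, ⟨1521, 1535, 2535⟩, ⟨360, 401, 2000⟩, ⟨0, 1, 1⟩⟩
    (g4_4.s₀.eta' + cEG p4.kl p4.v (g4_4.s₀.t) (g4_4.u₀) g4_4.p - cSag p4.kl p4.v (g4_4.s₀.t) (g4_4.u₀) p4.lo g4_4.p) :=
  posBox_of_check (c := ⟨390, ⟨0, 8, 16, 6⟩⟩) (by decide +kernel)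

def c4_1138 : PosBox ⟨⟨0, 1, 1⟩, ⟨1521, 1535, 2535⟩, ⟨360, 401, 2000⟩, ⟨0, 1, 1⟩⟩
    (g4_4.s₀.eta - cEG p4.kl p4.v (g4_4.s₀.t) (g4_4.u₁) g4_4.p) :=
  posBox_of_check (c := ⟨387, ⟨0, 8, 16, 6⟩⟩) (by decide +kernel)

def c4_1139 : PosBox ⟨⟨0, 1, 1⟩, ⟨1521, 1535, 2535⟩, ⟨360, 401, 2000⟩, ⟨0, 1, 1⟩⟩
    (g4_4.s₀.eta' + cEG p4.kl p4.v (g4_4.s₀.t) (g4_4.u₁) g4_4.p - cSag p4.kl p4.v (g4_4.s₀.t) (g4_4.u₁) p4.lo g4_4.p) :=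
  posBox_of_check (c := ⟨390, ⟨0, 8, 16, 6⟩⟩) (by decide +kernel)

def c4_1140 : PosBox ⟨⟨0, 1, 1⟩, ⟨1521, 1535, 2535⟩, ⟨360, 401, 2000⟩, ⟨0, 1, 1⟩⟩
    (cC (4) 1 * g4_4.beta * g4_4.s₀.phi - cC (625) 1 * (cC (1) 1 + Ex.x₂ * p4.v) * g4_4.s₀.eta * g4_4.s₀.eta) :=
  posBox_cut₂ (A := ⟨720, 761, 4000⟩) (B := ⟨761, 802, 4000⟩) (by unfold covers; decide)
    (posBox_cut₃ (A := ⟨0, 1, 2⟩) (B := ⟨1, 2, 2⟩) (by unfold covers; decide)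
      (posBox_of_check (c := ⟨301, ⟨0, 0, 6, 6⟩⟩) (by decide +kernel))
      (posBox_of_check (c := ⟨301, ⟨0, 0, 6, 6⟩⟩) (by decide +kernel)))
    (posBox_of_check (c := ⟨241, ⟨0, 0, 6, 6⟩⟩) (by decide +kernel))

def c4_1141 : PosBox ⟨⟨0, 1, 1⟩, ⟨1521, 1535, 2535⟩, ⟨360, 401, 2000⟩, ⟨0, 1, 1⟩⟩
    (cC (4) 1 * g4_4.beta * g4_4.s₀.phi - cC (625) 1 * (cC (1) 1 + Ex.x₂ * p4.v) * g4_4.s₀.eta' * g4_4.s₀.eta') :=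
  posBox_of_check (c := ⟨181, ⟨0, 0, 6, 6⟩⟩) (by decide +kernel)

def c4_1142 : PosBox ⟨⟨0, 1, 1⟩, ⟨1521, 1535, 2535⟩, ⟨360, 401, 2000⟩, ⟨0, 1, 1⟩⟩
    ((p4.wh g4_4.s₁.t) - (p4.wl g4_4.s₁.t)) :=
  posBox_of_check (c := ⟨253, ⟨0, 3, 7, 1⟩⟩) (by decide +kernel)

def c4_1146 : PosBox ⟨⟨0, 1, 1⟩, ⟨1521, 1535, 2535⟩, ⟨360, 401, 2000⟩, ⟨0, 1, 1⟩⟩
    (g4_4.s₁.eta - cEG p4.kl p4.v (g4_4.s₁.t) (g4_4.u₀) g4_4.p) :=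
  posBox_of_check (c := ⟨437, ⟨0, 8, 18, 6⟩⟩) (by decide +kernel)

def c4_1147 : PosBox ⟨⟨0, 1, 1⟩, ⟨1521, 1535, 2535⟩, ⟨360, 401, 2000⟩, ⟨0, 1, 1⟩⟩
    (g4_4.s₁.eta' + cEG p4.kl p4.v (g4_4.s₁.t) (g4_4.u₀) g4_4.p - cSag p4.kl p4.v (g4_4.s₁.t) (g4_4.u₀) p4.lo g4_4.p) :=
  posBox_of_check (c := ⟨440, ⟨0, 8, 18, 6⟩⟩) (by decide +kernel)

def c4_1151 : PosBox ⟨⟨0, 1, 1⟩, ⟨1521, 1535, 2535⟩, ⟨360, 401, 2000⟩, ⟨0, 1, 1⟩⟩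
    (g4_4.s₁.eta - cEG p4.kl p4.v (g4_4.s₁.t) (g4_4.u₁) g4_4.p) :=
  posBox_of_check (c := ⟨437, ⟨0, 8, 18, 6⟩⟩) (by decide +kernel)

def c4_1152 : PosBox ⟨⟨0, 1, 1⟩, ⟨1521, 1535, 2535⟩, ⟨360, 401, 2000⟩, ⟨0, 1, 1⟩⟩
    (g4_4.s₁.eta' + cEG p4.kl p4.v (g4_4.s₁.t) (g4_4.u₁) g4_4.p - cSag p4.kl p4.v (g4_4.s₁.t) (g4_4.u₁) p4.lo g4_4.p) :=
  posBox_of_check (c := ⟨440, ⟨0, 8, 18, 6⟩⟩) (by decide +kernel)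

def c4_1153 : PosBox ⟨⟨0, 1, 1⟩, ⟨1521, 1535, 2535⟩, ⟨360, 401, 2000⟩, ⟨0, 1, 1⟩⟩
    (cC (4) 1 * g4_4.beta * g4_4.s₁.phi - cC (625) 1 * (cC (1) 1 + Ex.x₂ * p4.v) * g4_4.s₁.eta * g4_4.s₁.eta) :=
  posBox_of_check (c := ⟨162, ⟨0, 0, 6, 5⟩⟩) (by decide +kernel)

def c4_1154 : PosBox ⟨⟨0, 1, 1⟩, ⟨1521, 1535, 2535⟩, ⟨360, 401, 2000⟩, ⟨0, 1, 1⟩⟩
    (cC (4) 1 * g4_4.beta * g4_4.s₁.phi - cC (625) 1 * (cC (1) 1 + Ex.x₂ * p4.v) * g4_4.s₁.eta' * g4_4.s₁.eta') :=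
  posBox_of_check (c := ⟨162, ⟨0, 0, 6, 5⟩⟩) (by decide +kernel)

def c4_1155 : PosBox ⟨⟨0, 1, 1⟩, ⟨1521, 1535, 2535⟩, ⟨360, 401, 2000⟩, ⟨0, 1, 1⟩⟩
    (g4_4.beta) :=
  posBox_of_check (c := ⟨88, ⟨0, 0, 3, 3⟩⟩) (by decide +kernel)

def c4_1156 : PosBox ⟨⟨0, 1, 1⟩, ⟨1521, 1535, 2535⟩, ⟨360, 401, 2000⟩, ⟨0, 1, 1⟩⟩
    (eTGG cA Ex.x₂ p4.v g4_4.p - g4_4.beta) :=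
  posBox_of_check (c := ⟨389, ⟨0, 7, 17, 7⟩⟩) (by decide +kernel)

def c4_1157 : PosBox ⟨⟨0, 1, 1⟩, ⟨1521, 1535, 2535⟩, ⟨360, 401, 2000⟩, ⟨0, 1, 1⟩⟩
    (g4_4.p + cC (1) 4) :=
  posBox_of_check (c := ⟨145, ⟨0, 1, 3, 2⟩⟩) (by decide +kernel)

def c4_1158 : PosBox ⟨⟨0, 1, 1⟩, ⟨1521, 1535, 2535⟩, ⟨360, 401, 2000⟩, ⟨0, 1, 1⟩⟩
    (p4.kl) :=
  posBox_of_check (c := ⟨31, ⟨0, 1, 0, 0⟩⟩) (by decide +kernel)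

def c4_1159 : PosBox ⟨⟨0, 1, 1⟩, ⟨1521, 1535, 2535⟩, ⟨360, 401, 2000⟩, ⟨0, 1, 1⟩⟩
    (cEE eTA p4.v) :=
  posBox_of_check (c := ⟨360, ⟨0, 7, 17, 6⟩⟩) (by decide +kernel)

def c4_1160 : PosBox ⟨⟨0, 1, 1⟩, ⟨1521, 1535, 2535⟩, ⟨360, 401, 2000⟩, ⟨0, 1, 1⟩⟩
    (cEE eTMG p4.v) :=
  posBox_of_check (c := ⟨336, ⟨0, 6, 16, 6⟩⟩) (by decide +kernel)

def c4_1161 : PosBox ⟨⟨0, 1, 1⟩, ⟨1521, 1535, 2535⟩, ⟨360, 401, 2000⟩, ⟨0, 1, 1⟩⟩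
    (cC (-1) 1 * eTGG2 cA Ex.x₂ p4.v) :=
  posBox_of_check (c := ⟨224, ⟨0, 5, 11, 3⟩⟩) (by decide +kernel)

def c4_1162 : PosBox ⟨⟨0, 1, 1⟩, ⟨1521, 1535, 2535⟩, ⟨360, 401, 2000⟩, ⟨0, 1, 1⟩⟩
    (eTMGw cA Ex.x₂ p4.v) :=
  posBox_of_check (c := ⟨220, ⟨0, 5, 10, 3⟩⟩) (by decide +kernel)

def c4_1163 : PosBox ⟨⟨0, 1, 1⟩, ⟨1521, 1535, 2535⟩, ⟨360, 401, 2000⟩, ⟨0, 1, 1⟩⟩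
    (cM p4.v (g4.s₀.t) (g4.u₀)) :=
  posBox_of_check (c := ⟨108, ⟨0, 0, 3, 1⟩⟩) (by decide +kernel)

def c4_1164 : PosBox ⟨⟨0, 1, 1⟩, ⟨1521, 1535, 2535⟩, ⟨360, 401, 2000⟩, ⟨0, 1, 1⟩⟩
    (cXp eTA p4.v * (p4.kl * cM p4.v (g4.s₀.t) (g4.u₀)) - eTA2 cA Ex.x₂ p4.v) :=
  posBox_of_check (c := ⟨494, ⟨0, 8, 20, 7⟩⟩) (by decide +kernel)

def c4_1165 : PosBox ⟨⟨0, 1, 1⟩, ⟨1521, 1535, 2535⟩, ⟨360, 401, 2000⟩, ⟨0, 1, 1⟩⟩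
    (cXp eTMG p4.v * (p4.kl * cM p4.v (g4.s₀.t) (g4.u₀)) - eTMG2 cA Ex.x₂ p4.v) :=
  posBox_of_check (c := ⟨470, ⟨0, 7, 19, 7⟩⟩) (by decide +kernel)

def c4_1166 : PosBox ⟨⟨0, 1, 1⟩, ⟨1521, 1535, 2535⟩, ⟨360, 401, 2000⟩, ⟨0, 1, 1⟩⟩
    (eTEG2 cA Ex.x₂ p4.v - cXe p4.v * (p4.kl * cM p4.v (g4.s₀.t) (g4.u₀))) :=
  posBox_of_check (c := ⟨422, ⟨0, 8, 16, 5⟩⟩) (by decide +kernel)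

def c4_1167 : PosBox ⟨⟨0, 1, 1⟩, ⟨1521, 1535, 2535⟩, ⟨360, 401, 2000⟩, ⟨0, 1, 1⟩⟩
    (cM p4.v (g4.s₀.t) (g4.u₁)) :=
  posBox_of_check (c := ⟨108, ⟨0, 0, 3, 1⟩⟩) (by decide +kernel)

def c4_1168 : PosBox ⟨⟨0, 1, 1⟩, ⟨1521, 1535, 2535⟩, ⟨360, 401, 2000⟩, ⟨0, 1, 1⟩⟩
    (cXp eTA p4.v * (p4.kl * cM p4.v (g4.s₀.t) (g4.u₁)) - eTA2 cA Ex.x₂ p4.v) :=
  posBox_of_check (c := ⟨494, ⟨0, 8, 20, 7⟩⟩) (by decide +kernel)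

def c4_1169 : PosBox ⟨⟨0, 1, 1⟩, ⟨1521, 1535, 2535⟩, ⟨360, 401, 2000⟩, ⟨0, 1, 1⟩⟩
    (cXp eTMG p4.v * (p4.kl * cM p4.v (g4.s₀.t) (g4.u₁)) - eTMG2 cA Ex.x₂ p4.v) :=
  posBox_of_check (c := ⟨470, ⟨0, 7, 19, 7⟩⟩) (by decide +kernel)

def c4_1170 : PosBox ⟨⟨0, 1, 1⟩, ⟨1521, 1535, 2535⟩, ⟨360, 401, 2000⟩, ⟨0, 1, 1⟩⟩
    (eTEG2 cA Ex.x₂ p4.v - cXe p4.v * (p4.kl * cM p4.v (g4.s₀.t) (g4.u₁))) :=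
  posBox_of_check (c := ⟨422, ⟨0, 8, 16, 5⟩⟩) (by decide +kernel)

def c4_1171 : PosBox ⟨⟨0, 1, 1⟩, ⟨1521, 1535, 2535⟩, ⟨360, 401, 2000⟩, ⟨0, 1, 1⟩⟩
    (cM p4.v (g4.s₁.t) (g4.u₀)) :=
  posBox_of_check (c := ⟨178, ⟨0, 0, 5, 3⟩⟩) (by decide +kernel)

def c4_1172 : PosBox ⟨⟨0, 1, 1⟩, ⟨1521, 1535, 2535⟩, ⟨360, 401, 2000⟩, ⟨0, 1, 1⟩⟩
    (cXp eTA p4.v * (p4.kl * cM p4.v (g4.s₁.t) (g4.u₀)) - eTA2 cA Ex.x₂ p4.v) :=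
  posBox_of_check (c := ⟨564, ⟨0, 8, 22, 9⟩⟩) (by decide +kernel)

def c4_1173 : PosBox ⟨⟨0, 1, 1⟩, ⟨1521, 1535, 2535⟩, ⟨360, 401, 2000⟩, ⟨0, 1, 1⟩⟩
    (cXp eTMG p4.v * (p4.kl * cM p4.v (g4.s₁.t) (g4.u₀)) - eTMG2 cA Ex.x₂ p4.v) :=
  posBox_of_check (c := ⟨540, ⟨0, 7, 21, 9⟩⟩) (by decide +kernel)

def c4_1174 : PosBox ⟨⟨0, 1, 1⟩, ⟨1521, 1535, 2535⟩, ⟨360, 401, 2000⟩, ⟨0, 1, 1⟩⟩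
    (eTEG2 cA Ex.x₂ p4.v - cXe p4.v * (p4.kl * cM p4.v (g4.s₁.t) (g4.u₀))) :=
  posBox_of_check (c := ⟨492, ⟨0, 8, 18, 7⟩⟩) (by decide +kernel)

def c4_1175 : PosBox ⟨⟨0, 1, 1⟩, ⟨1521, 1535, 2535⟩, ⟨360, 401, 2000⟩, ⟨0, 1, 1⟩⟩
    (cM p4.v (g4.s₁.t) (g4.u₁)) :=
  posBox_of_check (c := ⟨178, ⟨0, 0, 5, 3⟩⟩) (by decide +kernel)

def c4_1176 : PosBox ⟨⟨0, 1, 1⟩, ⟨1521, 1535, 2535⟩, ⟨360, 401, 2000⟩, ⟨0, 1, 1⟩⟩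
    (cXp eTA p4.v * (p4.kl * cM p4.v (g4.s₁.t) (g4.u₁)) - eTA2 cA Ex.x₂ p4.v) :=
  posBox_of_check (c := ⟨564, ⟨0, 8, 22, 9⟩⟩) (by decide +kernel)

def c4_1177 : PosBox ⟨⟨0, 1, 1⟩, ⟨1521, 1535, 2535⟩, ⟨360, 401, 2000⟩, ⟨0, 1, 1⟩⟩
    (cXp eTMG p4.v * (p4.kl * cM p4.v (g4.s₁.t) (g4.u₁)) - eTMG2 cA Ex.x₂ p4.v) :=
  posBox_of_check (c := ⟨540, ⟨0, 7, 21, 9⟩⟩) (by decide +kernel)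

def c4_1178 : PosBox ⟨⟨0, 1, 1⟩, ⟨1521, 1535, 2535⟩, ⟨360, 401, 2000⟩, ⟨0, 1, 1⟩⟩
    (eTEG2 cA Ex.x₂ p4.v - cXe p4.v * (p4.kl * cM p4.v (g4.s₁.t) (g4.u₁))) :=
  posBox_of_check (c := ⟨492, ⟨0, 8, 18, 7⟩⟩) (by decide +kernel)

def c4_1179 : PosBox ⟨⟨0, 1, 1⟩, ⟨1521, 1535, 2535⟩, ⟨360, 401, 2000⟩, ⟨0, 1, 1⟩⟩
    (cM p4.v (p4.tT) (g4.u₀)) :=
  posBox_of_check (c := ⟨128, ⟨0, 0, 3, 1⟩⟩) (by decide +kernel)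

def c4_1180 : PosBox ⟨⟨0, 1, 1⟩, ⟨1521, 1535, 2535⟩, ⟨360, 401, 2000⟩, ⟨0, 1, 1⟩⟩
    (cXp eTA p4.v * (p4.kl * cM p4.v (p4.tT) (g4.u₀)) - eTA2 cA Ex.x₂ p4.v) :=
  posBox_of_check (c := ⟨514, ⟨0, 8, 20, 7⟩⟩) (by decide +kernel)

def c4_1181 : PosBox ⟨⟨0, 1, 1⟩, ⟨1521, 1535, 2535⟩, ⟨360, 401, 2000⟩, ⟨0, 1, 1⟩⟩
    (cXp eTMG p4.v * (p4.kl * cM p4.v (p4.tT) (g4.u₀)) - eTMG2 cA Ex.x₂ p4.v) :=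
  posBox_of_check (c := ⟨490, ⟨0, 7, 19, 7⟩⟩) (by decide +kernel)

end Vale.Agent.P100.Calib.Closed.End
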