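import Vale.Agent.P100.Calib.SlabEndData

/-!
# Checks of the end strip, piece `4`
-/

set_option linter.defProp false

namespace Vale.Agent.P100.Calib.Closed.End

open BoxPos
open Large (PosBox posBox_of_check)

local instance endChk4B2Add : Add Ex := ⟨Ex.add⟩
local instance endChk4B2Mul : Mul Ex := ⟨Ex.mul⟩
local instance endChk4B2Sub : Sub Ex := ⟨Ex.sub⟩

def c4_1182 : PosBox ⟨⟨0, 1, 1⟩, ⟨1521, 1535, 2535⟩, ⟨360, 401, 2000⟩, ⟨0, 1, 1⟩⟩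
    (eTEG2 cA Ex.x₂ p4.v - cXe p4.v * (p4.kl * cM p4.v (p4.tT) (g4.u₀))) :=
  posBox_of_check (c := ⟨442, ⟨0, 8, 16, 5⟩⟩) (by decide +kernel)

def c4_1183 : PosBox ⟨⟨0, 1, 1⟩, ⟨1521, 1535, 2535⟩, ⟨360, 401, 2000⟩, ⟨0, 1, 1⟩⟩
    (cM p4.v (p4.tT) (g4.u₁)) :=
  posBox_of_check (c := ⟨128, ⟨0, 0, 3, 1⟩⟩) (by decide +kernel)

def c4_1184 : PosBox ⟨⟨0, 1, 1⟩, ⟨1521, 1535, 2535⟩, ⟨360, 401, 2000⟩, ⟨0, 1, 1⟩⟩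
    (cXp eTA p4.v * (p4.kl * cM p4.v (p4.tT) (g4.u₁)) - eTA2 cA Ex.x₂ p4.v) :=
  posBox_of_check (c := ⟨514, ⟨0, 8, 20, 7⟩⟩) (by decide +kernel)

def c4_1185 : PosBox ⟨⟨0, 1, 1⟩, ⟨1521, 1535, 2535⟩, ⟨360, 401, 2000⟩, ⟨0, 1, 1⟩⟩
    (cXp eTMG p4.v * (p4.kl * cM p4.v (p4.tT) (g4.u₁)) - eTMG2 cA Ex.x₂ p4.v) :=
  posBox_of_check (c := ⟨490, ⟨0, 7, 19, 7⟩⟩) (by decide +kernel)

def c4_1186 : PosBox ⟨⟨0, 1, 1⟩, ⟨1521, 1535, 2535⟩, ⟨360, 401, 2000⟩, ⟨0, 1, 1⟩⟩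
    (eTEG2 cA Ex.x₂ p4.v - cXe p4.v * (p4.kl * cM p4.v (p4.tT) (g4.u₁))) :=
  posBox_of_check (c := ⟨442, ⟨0, 8, 16, 5⟩⟩) (by decide +kernel)

def c4_1187 : PosBox ⟨⟨0, 1, 1⟩, ⟨1521, 1535, 2535⟩, ⟨360, 401, 2000⟩, ⟨0, 1, 1⟩⟩
    (p4.bh * cB - cC (1) 1) :=
  posBox_of_check (c := ⟨85, ⟨0, 3, 3, 0⟩⟩) (by decide +kernel)

def c4_1188 : PosBox ⟨⟨0, 1, 1⟩, ⟨1521, 1535, 2535⟩, ⟨360, 401, 2000⟩, ⟨0, 1, 1⟩⟩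
    (cC (1) 1 - p4.bl * cB) :=
  posBox_of_check (c := ⟨85, ⟨0, 3, 3, 0⟩⟩) (by decide +kernel)

def c4_1189 : PosBox ⟨⟨0, 1, 1⟩, ⟨1521, 1535, 2535⟩, ⟨360, 401, 2000⟩, ⟨0, 1, 1⟩⟩
    (p4.bl) :=
  posBox_of_check (c := ⟨63, ⟨0, 2, 2, 0⟩⟩) (by decide +kernel)

def c4_1190 : PosBox ⟨⟨0, 1, 1⟩, ⟨1521, 1535, 2535⟩, ⟨360, 401, 2000⟩, ⟨0, 1, 1⟩⟩
    (p4.eta) :=
  posBox_of_check (c := ⟨66, ⟨0, 0, 0, 0⟩⟩) (by decide +kernel)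

def c4_1191 : PosBox ⟨⟨0, 1, 1⟩, ⟨1521, 1535, 2535⟩, ⟨360, 401, 2000⟩, ⟨0, 1, 1⟩⟩
    (p4.eta + (p4.bh - p4.bl) * (cA - (cC (1) 1 - cA) * Ex.x₂ * p4.v)) :=
  posBox_of_check (c := ⟨120, ⟨0, 3, 5, 1⟩⟩) (by decide +kernel)

def c4_1192 : PosBox ⟨⟨0, 1, 1⟩, ⟨1521, 1535, 2535⟩, ⟨360, 401, 2000⟩, ⟨0, 1, 1⟩⟩
    (cC (1) 1 - p4.rl * Ex.x₁) :=
  posBox_of_check (c := ⟨40, ⟨0, 2, 0, 0⟩⟩) (by decide +kernel)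

def c4_1193 : PosBox ⟨⟨0, 1, 1⟩, ⟨1521, 1535, 2535⟩, ⟨360, 401, 2000⟩, ⟨0, 1, 1⟩⟩
    (p4.rh * Ex.x₁ - cC (1) 1) :=
  posBox_of_check (c := ⟨41, ⟨0, 2, 0, 0⟩⟩) (by decide +kernel)

def c4_1194 : PosBox ⟨⟨0, 1, 1⟩, ⟨1521, 1535, 2535⟩, ⟨360, 401, 2000⟩, ⟨0, 1, 1⟩⟩
    (Ex.x₁ - p4.kl * (cC (1) 1 - Ex.x₁)) :=
  posBox_of_check (c := ⟨44, ⟨0, 2, 0, 0⟩⟩) (by decide +kernel)

def c4_1195 : PosBox ⟨⟨0, 1, 1⟩, ⟨1521, 1535, 2535⟩, ⟨360, 401, 2000⟩, ⟨0, 1, 1⟩⟩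
    (p4.rho * p4.kl * (cC (1) 1 - Ex.x₁) - Ex.x₁) :=
  posBox_of_check (c := ⟨60, ⟨0, 2, 0, 0⟩⟩) (by decide +kernel)

def c4_1196 : PosBox ⟨⟨0, 1, 1⟩, ⟨1521, 1535, 2535⟩, ⟨360, 401, 2000⟩, ⟨0, 1, 1⟩⟩
    (g4.s₁.t * cNum p4.v - p4.rho * cDen) :=
  posBox_cut₂ (A := ⟨720, 761, 4000⟩) (B := ⟨761, 802, 4000⟩) (by unfold covers; decide)
    (posBox_cut₃ (A := ⟨0, 1, 2⟩) (B := ⟨1, 2, 2⟩) (by unfold covers; decide)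
      (posBox_of_check (c := ⟨262, ⟨0, 2, 5, 3⟩⟩) (by decide +kernel))
      (posBox_of_check (c := ⟨262, ⟨0, 2, 5, 3⟩⟩) (by decide +kernel)))
    (posBox_cut₃ (A := ⟨0, 1, 2⟩) (B := ⟨1, 2, 2⟩) (by unfold covers; decide)
      (posBox_of_check (c := ⟨262, ⟨0, 2, 5, 3⟩⟩) (by decide +kernel))
      (posBox_of_check (c := ⟨262, ⟨0, 2, 5, 3⟩⟩) (by decide +kernel)))

def c4_1197 : PosBox ⟨⟨0, 1, 1⟩, ⟨1521, 1535, 2535⟩, ⟨360, 401, 2000⟩, ⟨0, 1, 1⟩⟩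
    (cC (4) 1 * (cC (1) 1 - cA * p4.v) - p4.lo * cB) :=
  posBox_cut₂ (A := ⟨720, 761, 4000⟩) (B := ⟨761, 802, 4000⟩) (by unfold covers; decide)
    (posBox_cut₃ (A := ⟨0, 1, 2⟩) (B := ⟨1, 2, 2⟩) (by unfold covers; decide)
      (posBox_of_check (c := ⟨218, ⟨0, 2, 4, 1⟩⟩) (by decide +kernel))
      (posBox_cut₂ (A := ⟨1440, 1481, 8000⟩) (B := ⟨1481, 1522, 8000⟩) (by unfold covers; decide)
        (posBox_cut₂ (A := ⟨2880, 2921, 16000⟩) (B := ⟨2921, 2962, 16000⟩) (by unfold covers; decide)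
          (posBox_cut₃ (A := ⟨2, 3, 4⟩) (B := ⟨3, 4, 4⟩) (by unfold covers; decide)
            (posBox_cut₁ (A := ⟨3042, 3056, 5070⟩) (B := ⟨3056, 3070, 5070⟩) (by unfold covers; decide)
              (posBox_of_check (c := ⟨458, ⟨0, 2, 4, 1⟩⟩) (by decide +kernel))
              (posBox_of_check (c := ⟨458, ⟨0, 2, 4, 1⟩⟩) (by decide +kernel)))
            (posBox_cut₁ (A := ⟨3042, 3056, 5070⟩) (B := ⟨3056, 3070, 5070⟩) (by unfold covers; decide)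
              (posBox_of_check (c := ⟨458, ⟨0, 2, 4, 1⟩⟩) (by decide +kernel))
              (posBox_of_check (c := ⟨458, ⟨0, 2, 4, 1⟩⟩) (by decide +kernel))))
          (posBox_cut₃ (A := ⟨2, 3, 4⟩) (B := ⟨3, 4, 4⟩) (by unfold covers; decide)
            (posBox_of_check (c := ⟨398, ⟨0, 2, 4, 1⟩⟩) (by decide +kernel))
            (posBox_cut₁ (A := ⟨3042, 3056, 5070⟩) (B := ⟨3056, 3070, 5070⟩) (by unfold covers; decide)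
              (posBox_of_check (c := ⟨458, ⟨0, 2, 4, 1⟩⟩) (by decide +kernel))
              (posBox_of_check (c := ⟨458, ⟨0, 2, 4, 1⟩⟩) (by decide +kernel)))))
        (posBox_cut₃ (A := ⟨2, 3, 4⟩) (B := ⟨3, 4, 4⟩) (by unfold covers; decide)
          (posBox_of_check (c := ⟨338, ⟨0, 2, 4, 1⟩⟩) (by decide +kernel))
          (posBox_cut₂ (A := ⟨2962, 3003, 16000⟩) (B := ⟨3003, 3044, 16000⟩) (by unfold covers; decide)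
            (posBox_cut₁ (A := ⟨3042, 3056, 5070⟩) (B := ⟨3056, 3070, 5070⟩) (by unfold covers; decide)
              (posBox_of_check (c := ⟨458, ⟨0, 2, 4, 1⟩⟩) (by decide +kernel))
              (posBox_of_check (c := ⟨458, ⟨0, 2, 4, 1⟩⟩) (by decide +kernel)))
            (posBox_cut₁ (A := ⟨3042, 3056, 5070⟩) (B := ⟨3056, 3070, 5070⟩) (by unfold covers; decide)
              (posBox_of_check (c := ⟨458, ⟨0, 2, 4, 1⟩⟩) (by decide +kernel))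
              (posBox_of_check (c := ⟨458, ⟨0, 2, 4, 1⟩⟩) (by decide +kernel)))))))
    (posBox_cut₃ (A := ⟨0, 1, 2⟩) (B := ⟨1, 2, 2⟩) (by unfold covers; decide)
      (posBox_of_check (c := ⟨218, ⟨0, 2, 4, 1⟩⟩) (by decide +kernel))
      (posBox_cut₂ (A := ⟨1522, 1563, 8000⟩) (B := ⟨1563, 1604, 8000⟩) (by unfold covers; decide)
        (posBox_cut₃ (A := ⟨2, 3, 4⟩) (B := ⟨3, 4, 4⟩) (by unfold covers; decide)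
          (posBox_of_check (c := ⟨338, ⟨0, 2, 4, 1⟩⟩) (by decide +kernel))
          (posBox_cut₂ (A := ⟨3044, 3085, 16000⟩) (B := ⟨3085, 3126, 16000⟩) (by unfold covers; decide)
            (posBox_cut₁ (A := ⟨3042, 3056, 5070⟩) (B := ⟨3056, 3070, 5070⟩) (by unfold covers; decide)
              (posBox_of_check (c := ⟨458, ⟨0, 2, 4, 1⟩⟩) (by decide +kernel))
              (posBox_of_check (c := ⟨458, ⟨0, 2, 4, 1⟩⟩) (by decide +kernel)))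
            (posBox_cut₁ (A := ⟨3042, 3056, 5070⟩) (B := ⟨3056, 3070, 5070⟩) (by unfold covers; decide)
              (posBox_of_check (c := ⟨458, ⟨0, 2, 4, 1⟩⟩) (by decide +kernel))
              (posBox_of_check (c := ⟨458, ⟨0, 2, 4, 1⟩⟩) (by decide +kernel)))))
        (posBox_cut₃ (A := ⟨2, 3, 4⟩) (B := ⟨3, 4, 4⟩) (by unfold covers; decide)
          (posBox_of_check (c := ⟨338, ⟨0, 2, 4, 1⟩⟩) (by decide +kernel))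
          (posBox_cut₂ (A := ⟨3126, 3167, 16000⟩) (B := ⟨3167, 3208, 16000⟩) (by unfold covers; decide)
            (posBox_cut₁ (A := ⟨3042, 3056, 5070⟩) (B := ⟨3056, 3070, 5070⟩) (by unfold covers; decide)
              (posBox_of_check (c := ⟨458, ⟨0, 2, 4, 1⟩⟩) (by decide +kernel))
              (posBox_of_check (c := ⟨458, ⟨0, 2, 4, 1⟩⟩) (by decide +kernel)))
            (posBox_cut₁ (A := ⟨3042, 3056, 5070⟩) (B := ⟨3056, 3070, 5070⟩) (by unfold covers; decide)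
              (posBox_of_check (c := ⟨458, ⟨0, 2, 4, 1⟩⟩) (by decide +kernel))
              (posBox_of_check (c := ⟨458, ⟨0, 2, 4, 1⟩⟩) (by decide +kernel)))))))

def c4_1198 : PosBox ⟨⟨39, 40, 40⟩, ⟨1521, 1535, 2535⟩, ⟨360, 401, 2000⟩, ⟨0, 1, 1⟩⟩
    (Ex.x₂ * cL0 p4.kl p4.v + cL1 p4.kl p4.v) :=
  posBox_of_check (c := ⟨264, ⟨2, 4, 12, 4⟩⟩) (by decide +kernel)

def c4_1199 : PosBox ⟨⟨39, 40, 40⟩, ⟨1521, 1535, 2535⟩, ⟨360, 401, 2000⟩, ⟨0, 1, 1⟩⟩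
    (Ex.x₂ * cL0 (p4.rho * p4.kl) p4.v + cL1 (p4.rho * p4.kl) p4.v) :=
  posBox_of_check (c := ⟨280, ⟨2, 4, 12, 4⟩⟩) (by decide +kernel)

def c4_1200 : PosBox ⟨⟨39, 40, 40⟩, ⟨1521, 1535, 2535⟩, ⟨360, 401, 2000⟩, ⟨0, 1, 1⟩⟩
    (cDen * cL0 p4.kl p4.v + cNum p4.v * cL1 p4.kl p4.v) :=
  posBox_of_check (c := ⟨311, ⟨2, 6, 13, 5⟩⟩) (by decide +kernel)

def c4_1201 : PosBox ⟨⟨39, 40, 40⟩, ⟨1521, 1535, 2535⟩, ⟨360, 401, 2000⟩, ⟨0, 1, 1⟩⟩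
    (cDen * cL0 (p4.rho * p4.kl) p4.v + cNum p4.v * cL1 (p4.rho * p4.kl) p4.v) :=
  posBox_of_check (c := ⟨327, ⟨2, 6, 13, 5⟩⟩) (by decide +kernel)

def c4_1202 : PosBox ⟨⟨0, 1, 1⟩, ⟨1521, 1535, 2535⟩, ⟨360, 401, 2000⟩, ⟨0, 1, 1⟩⟩
    (Ex.x₂ * g4_0.p * Ex.x₁ * cB * ((cC (2) 1 + Ex.x₂ * p4.v) * q4_0 - cC (39) 40) - cC (4) 1 * ((cC (2) 1 + Ex.x₂ * p4.v) * cB - Ex.x₁ * cC (39) 40 * cQ p4.v)) :=
  posBox_cut₂ (A := ⟨720, 761, 4000⟩) (B := ⟨761, 802, 4000⟩) (by unfold covers; decide)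
    (posBox_cut₃ (A := ⟨0, 1, 2⟩) (B := ⟨1, 2, 2⟩) (by unfold covers; decide)
      (posBox_of_check (c := ⟨344, ⟨0, 3, 7, 3⟩⟩) (by decide +kernel))
      (posBox_cut₂ (A := ⟨1440, 1481, 8000⟩) (B := ⟨1481, 1522, 8000⟩) (by unfold covers; decide)
        (posBox_cut₃ (A := ⟨2, 3, 4⟩) (B := ⟨3, 4, 4⟩) (by unfold covers; decide)
          (posBox_of_check (c := ⟨464, ⟨0, 3, 7, 3⟩⟩) (by decide +kernel))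
          (posBox_of_check (c := ⟨464, ⟨0, 3, 7, 3⟩⟩) (by decide +kernel)))
        (posBox_cut₃ (A := ⟨2, 3, 4⟩) (B := ⟨3, 4, 4⟩) (by unfold covers; decide)
          (posBox_of_check (c := ⟨464, ⟨0, 3, 7, 3⟩⟩) (by decide +kernel))
          (posBox_of_check (c := ⟨464, ⟨0, 3, 7, 3⟩⟩) (by decide +kernel)))))
    (posBox_cut₃ (A := ⟨0, 1, 2⟩) (B := ⟨1, 2, 2⟩) (by unfold covers; decide)
      (posBox_of_check (c := ⟨344, ⟨0, 3, 7, 3⟩⟩) (by decide +kernel))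
      (posBox_cut₂ (A := ⟨1522, 1563, 8000⟩) (B := ⟨1563, 1604, 8000⟩) (by unfold covers; decide)
        (posBox_cut₃ (A := ⟨2, 3, 4⟩) (B := ⟨3, 4, 4⟩) (by unfold covers; decide)
          (posBox_of_check (c := ⟨464, ⟨0, 3, 7, 3⟩⟩) (by decide +kernel))
          (posBox_of_check (c := ⟨464, ⟨0, 3, 7, 3⟩⟩) (by decide +kernel)))
        (posBox_cut₃ (A := ⟨2, 3, 4⟩) (B := ⟨3, 4, 4⟩) (by unfold covers; decide)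
          (posBox_of_check (c := ⟨464, ⟨0, 3, 7, 3⟩⟩) (by decide +kernel))
          (posBox_of_check (c := ⟨464, ⟨0, 3, 7, 3⟩⟩) (by decide +kernel)))))

def c4_1203 : PosBox ⟨⟨0, 1, 1⟩, ⟨1521, 1535, 2535⟩, ⟨360, 401, 2000⟩, ⟨0, 1, 1⟩⟩
    (g4_0.p * Ex.x₁ * cB * ((cC (2) 1 + Ex.x₂ * p4.v) * q4_0 - cC (1) 1) - cC (4) 1 * (cC (1) 1 - cA * p4.v)) :=
  posBox_of_check (c := ⟨214, ⟨0, 3, 6, 3⟩⟩) (by decide +kernel)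

def c4_1204 : PosBox ⟨⟨0, 1, 1⟩, ⟨1521, 1535, 2535⟩, ⟨360, 401, 2000⟩, ⟨0, 1, 1⟩⟩
    ((cC (2) 1 + Ex.x₂ * p4.v) * q4_0 - cC (1) 1) :=
  posBox_of_check (c := ⟨100, ⟨0, 0, 2, 1⟩⟩) (by decide +kernel)

def c4_1205 : PosBox ⟨⟨0, 1, 1⟩, ⟨1521, 1535, 2535⟩, ⟨360, 401, 2000⟩, ⟨0, 1, 1⟩⟩
    (q4_1 - cC (1) 1) :=
  posBox_of_check (c := ⟨98, ⟨0, 0, 2, 0⟩⟩) (by decide +kernel)

def c4_1206 : PosBox ⟨⟨0, 1, 1⟩, ⟨1521, 1535, 2535⟩, ⟨360, 401, 2000⟩, ⟨0, 1, 1⟩⟩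
    (cC (10) 7 - q4_1) :=
  posBox_of_check (c := ⟨101, ⟨0, 0, 2, 0⟩⟩) (by decide +kernel)

def c4_1207 : PosBox ⟨⟨0, 1, 1⟩, ⟨1521, 1535, 2535⟩, ⟨360, 401, 2000⟩, ⟨0, 1, 1⟩⟩
    (Ex.x₂ * g4_1.p * Ex.x₁ * cB * ((cC (2) 1 + Ex.x₂ * p4.v) * q4_1 - cC (39) 40) - cC (4) 1 * ((cC (2) 1 + Ex.x₂ * p4.v) * cB - Ex.x₁ * cC (39) 40 * cQ p4.v)) :=
  posBox_cut₂ (A := ⟨720, 761, 4000⟩) (B := ⟨761, 802, 4000⟩) (by unfold covers; decide)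
    (posBox_cut₃ (A := ⟨0, 1, 2⟩) (B := ⟨1, 2, 2⟩) (by unfold covers; decide)
      (posBox_of_check (c := ⟨376, ⟨0, 3, 9, 3⟩⟩) (by decide +kernel))
      (posBox_cut₂ (A := ⟨1440, 1481, 8000⟩) (B := ⟨1481, 1522, 8000⟩) (by unfold covers; decide)
        (posBox_cut₃ (A := ⟨2, 3, 4⟩) (B := ⟨3, 4, 4⟩) (by unfold covers; decide)
          (posBox_of_check (c := ⟨496, ⟨0, 3, 9, 3⟩⟩) (by decide +kernel))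
          (posBox_of_check (c := ⟨496, ⟨0, 3, 9, 3⟩⟩) (by decide +kernel)))
        (posBox_cut₃ (A := ⟨2, 3, 4⟩) (B := ⟨3, 4, 4⟩) (by unfold covers; decide)
          (posBox_of_check (c := ⟨496, ⟨0, 3, 9, 3⟩⟩) (by decide +kernel))
          (posBox_of_check (c := ⟨496, ⟨0, 3, 9, 3⟩⟩) (by decide +kernel)))))
    (posBox_cut₃ (A := ⟨0, 1, 2⟩) (B := ⟨1, 2, 2⟩) (by unfold covers; decide)
      (posBox_of_check (c := ⟨376, ⟨0, 3, 9, 3⟩⟩) (by decide +kernel))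
      (posBox_cut₂ (A := ⟨1522, 1563, 8000⟩) (B := ⟨1563, 1604, 8000⟩) (by unfold covers; decide)
        (posBox_cut₃ (A := ⟨2, 3, 4⟩) (B := ⟨3, 4, 4⟩) (by unfold covers; decide)
          (posBox_of_check (c := ⟨496, ⟨0, 3, 9, 3⟩⟩) (by decide +kernel))
          (posBox_of_check (c := ⟨496, ⟨0, 3, 9, 3⟩⟩) (by decide +kernel)))
        (posBox_cut₃ (A := ⟨2, 3, 4⟩) (B := ⟨3, 4, 4⟩) (by unfold covers; decide)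
          (posBox_of_check (c := ⟨496, ⟨0, 3, 9, 3⟩⟩) (by decide +kernel))
          (posBox_of_check (c := ⟨496, ⟨0, 3, 9, 3⟩⟩) (by decide +kernel)))))

def c4_1208 : PosBox ⟨⟨0, 1, 1⟩, ⟨1521, 1535, 2535⟩, ⟨360, 401, 2000⟩, ⟨0, 1, 1⟩⟩
    (g4_1.p * Ex.x₁ * cB * ((cC (2) 1 + Ex.x₂ * p4.v) * q4_1 - cC (1) 1) - cC (4) 1 * (cC (1) 1 - cA * p4.v)) :=
  posBox_of_check (c := ⟨247, ⟨0, 3, 8, 3⟩⟩) (by decide +kernel)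

def c4_1209 : PosBox ⟨⟨0, 1, 1⟩, ⟨1521, 1535, 2535⟩, ⟨360, 401, 2000⟩, ⟨0, 1, 1⟩⟩
    ((cC (2) 1 + Ex.x₂ * p4.v) * q4_1 - cC (1) 1) :=
  posBox_of_check (c := ⟨131, ⟨0, 0, 4, 1⟩⟩) (by decide +kernel)

def c4_1210 : PosBox ⟨⟨0, 1, 1⟩, ⟨1521, 1535, 2535⟩, ⟨360, 401, 2000⟩, ⟨0, 1, 1⟩⟩
    (q4_2 - cC (1) 1) :=
  posBox_of_check (c := ⟨98, ⟨0, 0, 2, 0⟩⟩) (by decide +kernel)

def c4_1211 : PosBox ⟨⟨0, 1, 1⟩, ⟨1521, 1535, 2535⟩, ⟨360, 401, 2000⟩, ⟨0, 1, 1⟩⟩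
    (cC (10) 7 - q4_2) :=
  posBox_of_check (c := ⟨101, ⟨0, 0, 2, 0⟩⟩) (by decide +kernel)

def c4_1212 : PosBox ⟨⟨0, 1, 1⟩, ⟨1521, 1535, 2535⟩, ⟨360, 401, 2000⟩, ⟨0, 1, 1⟩⟩
    (cDel p4.v q4_1 g4_2.u₀) :=
  posBox_of_check (c := ⟨154, ⟨0, 1, 5, 1⟩⟩) (by decide +kernel)

def c4_1213 : PosBox ⟨⟨0, 1, 1⟩, ⟨1521, 1535, 2535⟩, ⟨360, 401, 2000⟩, ⟨0, 1, 1⟩⟩
    (g4_2.p * Ex.x₁ * cDel p4.v q4_1 g4_2.u₀ - cC (4) 1 * (cC (1) 1 - cA * p4.v)) :=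
  posBox_cut₂ (A := ⟨720, 761, 4000⟩) (B := ⟨761, 802, 4000⟩) (by unfold covers; decide)
    (posBox_cut₃ (A := ⟨0, 1, 2⟩) (B := ⟨1, 2, 2⟩) (by unfold covers; decide)
      (posBox_of_check (c := ⟨369, ⟨0, 3, 8, 3⟩⟩) (by decide +kernel))
      (posBox_cut₂ (A := ⟨1440, 1481, 8000⟩) (B := ⟨1481, 1522, 8000⟩) (by unfold covers; decide)
        (posBox_cut₃ (A := ⟨2, 3, 4⟩) (B := ⟨3, 4, 4⟩) (by unfold covers; decide)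
          (posBox_of_check (c := ⟨489, ⟨0, 3, 8, 3⟩⟩) (by decide +kernel))
          (posBox_of_check (c := ⟨489, ⟨0, 3, 8, 3⟩⟩) (by decide +kernel)))
        (posBox_cut₃ (A := ⟨2, 3, 4⟩) (B := ⟨3, 4, 4⟩) (by unfold covers; decide)
          (posBox_of_check (c := ⟨489, ⟨0, 3, 8, 3⟩⟩) (by decide +kernel))
          (posBox_of_check (c := ⟨489, ⟨0, 3, 8, 3⟩⟩) (by decide +kernel)))))
    (posBox_cut₃ (A := ⟨0, 1, 2⟩) (B := ⟨1, 2, 2⟩) (by unfold covers; decide)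
      (posBox_of_check (c := ⟨369, ⟨0, 3, 8, 3⟩⟩) (by decide +kernel))
      (posBox_cut₂ (A := ⟨1522, 1563, 8000⟩) (B := ⟨1563, 1604, 8000⟩) (by unfold covers; decide)
        (posBox_cut₃ (A := ⟨2, 3, 4⟩) (B := ⟨3, 4, 4⟩) (by unfold covers; decide)
          (posBox_of_check (c := ⟨489, ⟨0, 3, 8, 3⟩⟩) (by decide +kernel))
          (posBox_of_check (c := ⟨489, ⟨0, 3, 8, 3⟩⟩) (by decide +kernel)))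
        (posBox_cut₃ (A := ⟨2, 3, 4⟩) (B := ⟨3, 4, 4⟩) (by unfold covers; decide)
          (posBox_of_check (c := ⟨489, ⟨0, 3, 8, 3⟩⟩) (by decide +kernel))
          (posBox_of_check (c := ⟨489, ⟨0, 3, 8, 3⟩⟩) (by decide +kernel)))))

def c4_1214 : PosBox ⟨⟨0, 1, 1⟩, ⟨1521, 1535, 2535⟩, ⟨360, 401, 2000⟩, ⟨0, 1, 1⟩⟩
    (q4_3 - cC (1) 1) :=
  posBox_of_check (c := ⟨97, ⟨0, 0, 2, 0⟩⟩) (by decide +kernel)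

def c4_1215 : PosBox ⟨⟨0, 1, 1⟩, ⟨1521, 1535, 2535⟩, ⟨360, 401, 2000⟩, ⟨0, 1, 1⟩⟩
    (cC (10) 7 - q4_3) :=
  posBox_of_check (c := ⟨100, ⟨0, 0, 2, 0⟩⟩) (by decide +kernel)

def c4_1216 : PosBox ⟨⟨0, 1, 1⟩, ⟨1521, 1535, 2535⟩, ⟨360, 401, 2000⟩, ⟨0, 1, 1⟩⟩
    (cDel p4.v q4_2 g4_3.u₀) :=
  posBox_of_check (c := ⟨154, ⟨0, 1, 5, 1⟩⟩) (by decide +kernel)

def c4_1217 : PosBox ⟨⟨0, 1, 1⟩, ⟨1521, 1535, 2535⟩, ⟨360, 401, 2000⟩, ⟨0, 1, 1⟩⟩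
    (g4_3.p * Ex.x₁ * cDel p4.v q4_2 g4_3.u₀ - cC (4) 1 * (cC (1) 1 - cA * p4.v)) :=
  posBox_cut₂ (A := ⟨720, 761, 4000⟩) (B := ⟨761, 802, 4000⟩) (by unfold covers; decide)
    (posBox_cut₃ (A := ⟨0, 1, 2⟩) (B := ⟨1, 2, 2⟩) (by unfold covers; decide)
      (posBox_of_check (c := ⟨367, ⟨0, 3, 8, 3⟩⟩) (by decide +kernel))
      (posBox_cut₂ (A := ⟨1440, 1481, 8000⟩) (B := ⟨1481, 1522, 8000⟩) (by unfold covers; decide)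
        (posBox_cut₃ (A := ⟨2, 3, 4⟩) (B := ⟨3, 4, 4⟩) (by unfold covers; decide)
          (posBox_of_check (c := ⟨487, ⟨0, 3, 8, 3⟩⟩) (by decide +kernel))
          (posBox_of_check (c := ⟨487, ⟨0, 3, 8, 3⟩⟩) (by decide +kernel)))
        (posBox_cut₃ (A := ⟨2, 3, 4⟩) (B := ⟨3, 4, 4⟩) (by unfold covers; decide)
          (posBox_of_check (c := ⟨487, ⟨0, 3, 8, 3⟩⟩) (by decide +kernel))
          (posBox_of_check (c := ⟨487, ⟨0, 3, 8, 3⟩⟩) (by decide +kernel)))))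
    (posBox_cut₃ (A := ⟨0, 1, 2⟩) (B := ⟨1, 2, 2⟩) (by unfold covers; decide)
      (posBox_of_check (c := ⟨367, ⟨0, 3, 8, 3⟩⟩) (by decide +kernel))
      (posBox_cut₂ (A := ⟨1522, 1563, 8000⟩) (B := ⟨1563, 1604, 8000⟩) (by unfold covers; decide)
        (posBox_cut₃ (A := ⟨2, 3, 4⟩) (B := ⟨3, 4, 4⟩) (by unfold covers; decide)
          (posBox_of_check (c := ⟨487, ⟨0, 3, 8, 3⟩⟩) (by decide +kernel))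
          (posBox_of_check (c := ⟨487, ⟨0, 3, 8, 3⟩⟩) (by decide +kernel)))
        (posBox_cut₃ (A := ⟨2, 3, 4⟩) (B := ⟨3, 4, 4⟩) (by unfold covers; decide)
          (posBox_of_check (c := ⟨487, ⟨0, 3, 8, 3⟩⟩) (by decide +kernel))
          (posBox_of_check (c := ⟨487, ⟨0, 3, 8, 3⟩⟩) (by decide +kernel)))))

def c4_1218 : PosBox ⟨⟨0, 1, 1⟩, ⟨1521, 1535, 2535⟩, ⟨360, 401, 2000⟩, ⟨0, 1, 1⟩⟩
    (cDel p4.v q4_3 g4_4.u₀) :=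
  posBox_of_check (c := ⟨153, ⟨0, 1, 5, 1⟩⟩) (by decide +kernel)

def c4_1219 : PosBox ⟨⟨0, 1, 1⟩, ⟨1521, 1535, 2535⟩, ⟨360, 401, 2000⟩, ⟨0, 1, 1⟩⟩
    (g4_4.p * Ex.x₁ * cDel p4.v q4_3 g4_4.u₀ - cC (4) 1 * (cC (1) 1 - cA * p4.v)) :=
  posBox_cut₂ (A := ⟨720, 761, 4000⟩) (B := ⟨761, 802, 4000⟩) (by unfold covers; decide)
    (posBox_cut₃ (A := ⟨0, 1, 2⟩) (B := ⟨1, 2, 2⟩) (by unfold covers; decide)
      (posBox_of_check (c := ⟨367, ⟨0, 3, 8, 3⟩⟩) (by decide +kernel))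
      (posBox_cut₂ (A := ⟨1440, 1481, 8000⟩) (B := ⟨1481, 1522, 8000⟩) (by unfold covers; decide)
        (posBox_cut₃ (A := ⟨2, 3, 4⟩) (B := ⟨3, 4, 4⟩) (by unfold covers; decide)
          (posBox_of_check (c := ⟨487, ⟨0, 3, 8, 3⟩⟩) (by decide +kernel))
          (posBox_of_check (c := ⟨487, ⟨0, 3, 8, 3⟩⟩) (by decide +kernel)))
        (posBox_cut₃ (A := ⟨2, 3, 4⟩) (B := ⟨3, 4, 4⟩) (by unfold covers; decide)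
          (posBox_of_check (c := ⟨487, ⟨0, 3, 8, 3⟩⟩) (by decide +kernel))
          (posBox_of_check (c := ⟨487, ⟨0, 3, 8, 3⟩⟩) (by decide +kernel)))))
    (posBox_cut₃ (A := ⟨0, 1, 2⟩) (B := ⟨1, 2, 2⟩) (by unfold covers; decide)
      (posBox_of_check (c := ⟨367, ⟨0, 3, 8, 3⟩⟩) (by decide +kernel))
      (posBox_cut₂ (A := ⟨1522, 1563, 8000⟩) (B := ⟨1563, 1604, 8000⟩) (by unfold covers; decide)
        (posBox_cut₃ (A := ⟨2, 3, 4⟩) (B := ⟨3, 4, 4⟩) (by unfold covers; decide)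
          (posBox_of_check (c := ⟨487, ⟨0, 3, 8, 3⟩⟩) (by decide +kernel))
          (posBox_of_check (c := ⟨487, ⟨0, 3, 8, 3⟩⟩) (by decide +kernel)))
        (posBox_cut₃ (A := ⟨2, 3, 4⟩) (B := ⟨3, 4, 4⟩) (by unfold covers; decide)
          (posBox_of_check (c := ⟨487, ⟨0, 3, 8, 3⟩⟩) (by decide +kernel))
          (posBox_of_check (c := ⟨487, ⟨0, 3, 8, 3⟩⟩) (by decide +kernel)))))

def c4_1220 : PosBox ⟨⟨0, 1, 1⟩, ⟨1521, 1535, 2535⟩, ⟨360, 401, 2000⟩, ⟨0, 1, 1⟩⟩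
    (cC (1) 40 - cC (29) 2500) :=
  posBox_of_check (c := ⟨70, ⟨0, 0, 0, 0⟩⟩) (by decide +kernel)

def c4_1221 : PosBox ⟨⟨0, 1, 1⟩, ⟨1521, 1535, 2535⟩, ⟨360, 401, 2000⟩, ⟨0, 1, 1⟩⟩
    (cDel p4.v q4_3 (cC (39) 40)) :=
  posBox_of_check (c := ⟨153, ⟨0, 1, 5, 1⟩⟩) (by decide +kernel)

def c4_1222 : PosBox ⟨⟨0, 1, 1⟩, ⟨1521, 1535, 2535⟩, ⟨360, 401, 2000⟩, ⟨0, 1, 1⟩⟩
    (cC (29) 2500) :=
  posBox_of_check (c := ⟨67, ⟨0, 0, 0, 0⟩⟩) (by decide +kernel)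

def c4_1223 : PosBox ⟨⟨0, 1, 1⟩, ⟨1521, 1535, 2535⟩, ⟨360, 401, 2000⟩, ⟨0, 1, 1⟩⟩
    (cC (29) 2500 * (Ex.x₁ * cDel p4.v q4_3 (cC (39) 40) - Ex.x₂ * (cC (1) 1 - cA * p4.v)) - Ex.x₂ * (cC (1) 1 - cA * p4.v) * (q4_3 - cC (1) 1)) :=
  posBox_of_check (c := ⟨175, ⟨0, 2, 5, 1⟩⟩) (by decide +kernel)

def c4_1224 : PosBox ⟨⟨0, 1, 1⟩, ⟨1521, 1535, 2535⟩, ⟨360, 401, 2000⟩, ⟨0, 1, 1⟩⟩
    (cC (2) 1 * (cC (1) 1 - Ex.x₁) - (cC (2) 1 + (Ex.x₁ - Ex.x₂) * (cC (1) 1 - Ex.x₁)) * ((cC (419) 500 + cC (33) 25 * Ex.x₂) - (cC (3) 2 - cC (47) 5 * Ex.x₂ + cC (28) 1 * Ex.x₂ * Ex.x₂))) :=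
  posBox_cut₂ (A := ⟨720, 761, 4000⟩) (B := ⟨761, 802, 4000⟩) (by unfold covers; decide)
    (posBox_of_check (c := ⟨125, ⟨0, 2, 3, 0⟩⟩) (by decide +kernel))
    (posBox_of_check (c := ⟨125, ⟨0, 2, 3, 0⟩⟩) (by decide +kernel))

def c4_1225 : PosBox ⟨⟨0, 1, 1⟩, ⟨1521, 1535, 2535⟩, ⟨360, 401, 2000⟩, ⟨0, 1, 1⟩⟩
    ((cC (7029) 1000 + cC (-2309) 125 * Ex.x₂) * Ex.x₂ * Ex.x₁ - (cC (1) 1 - Ex.x₁)) :=
  posBox_of_check (c := ⟨47, ⟨0, 1, 2, 0⟩⟩) (by decide +kernel)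

end Vale.Agent.P100.Calib.Closed.End
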