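import Vale.Agent.P100.Calib.SlabEndCheck4A0
import Vale.Agent.P100.Calib.SlabEndCheck4A1
import Vale.Agent.P100.Calib.SlabEndCheck4A2
import Vale.Agent.P100.Calib.SlabEndCheck4B0
import Vale.Agent.P100.Calib.SlabEndCheck4B1
import Vale.Agent.P100.Calib.SlabEndCheck4B2

/-!
# The signs on the piece `4` of the end strip
-/

namespace Vale.Agent.P100.Calib.Closed.End

open BoxPos
open Large (PosBox)

local instance endPiece4Add : Add Ex := ⟨Ex.add⟩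
local instance endPiece4Mul : Mul Ex := ⟨Ex.mul⟩
local instance endPiece4Sub : Sub Ex := ⟨Ex.sub⟩

/-- The checks of the piece `4`. -/
theorem base4 : p4.Base g4 ⟨⟨39, 40, 40⟩, ⟨1521, 1535, 2535⟩, ⟨360, 401, 2000⟩, ⟨0, 1, 1⟩⟩ where
  ok := ⟨c4_1158, c4_1159, c4_1160, c4_1161, c4_1162, ⟨c4_1163, c4_1164, c4_1165, c4_1166⟩, ⟨c4_1167, c4_1168, c4_1169, c4_1170⟩, ⟨c4_1171, c4_1172, c4_1173, c4_1174⟩, ⟨c4_1175, c4_1176, c4_1177, c4_1178⟩⟩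
  wide := ⟨⟨c4_1179, c4_1180, c4_1181, c4_1182⟩,
    ⟨c4_1183, c4_1184, c4_1185, c4_1186⟩⟩
  lines := ⟨c4_1187, c4_1188, c4_1189, c4_1190, c4_1191, c4_1192, c4_1193, c4_1194, c4_1195, c4_1196, c4_1197, ⟨fun _ _ _ _ _ => rfl, fun _ _ _ _ _ => rfl, fun _ _ _ _ _ => rfl⟩, c4_1198, c4_1199, c4_1200, c4_1201⟩
  low := ⟨c4_1008, c4_1009, c4_1010,
      ⟨c4_985, c4_986, ⟨c4_967, .inr ⟨c4_968, c4_966⟩, c4_969, c4_970⟩, ⟨c4_976, .inr ⟨c4_977, c4_966⟩, c4_978, c4_979⟩⟩,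
      ⟨c4_1006, c4_1007, ⟨c4_988, .inl c4_989, c4_990, c4_991⟩, ⟨c4_997, .inl c4_998, c4_999, c4_1000⟩⟩⟩
  w₀ := (.inl c4_966)
  w₁ := (.inl c4_987)
  inv := fun z => by simp only [Piece.Pt.val, p4, Ex.val]; norm_num
  p_eq := rfl
  s₀_eq := rfl
  u₀_eq := rfl
  u₁_eq := rfl
  tT_eq := rfl
  bu_eq := rfl

/-- The checks of the slab `0`. -/
theorem slab4_0 : p4.Slab g4 g4_0 :=
  ⟨⟨c4_1038, c4_1039, c4_1040,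
      ⟨c4_1023, c4_1024, ⟨c4_1013, .inl c4_1014, c4_1015, c4_1016⟩, ⟨c4_1018, .inl c4_1019, c4_1020, c4_1021⟩⟩,
      ⟨c4_1036, c4_1037, ⟨c4_1026, .inl c4_1027, c4_1028, c4_1029⟩, ⟨c4_1031, .inl c4_1032, c4_1033, c4_1034⟩⟩⟩,
    ⟨c4_971, c4_980, c4_992, c4_1001⟩, ⟨c4_1017, c4_1022, c4_1030, c4_1035⟩, (.inr ⟨c4_1011, c4_1012⟩), (.inl c4_1025), rfl⟩

theorem cut4_0 : p4.Cut q4_0 := Piece.Cut.top p4

/-- The checks of the slab `1`. -/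
theorem slab4_1 : p4.Slab g4 g4_1 :=
  ⟨⟨c4_1068, c4_1069, c4_1070,
      ⟨c4_1052, c4_1053, ⟨c4_1042, .inr ⟨c4_1043, c4_1041⟩, c4_1044, c4_1045⟩, ⟨c4_1047, .inr ⟨c4_1048, c4_1041⟩, c4_1049, c4_1050⟩⟩,
      ⟨c4_1066, c4_1067, ⟨c4_1056, .inl c4_1057, c4_1058, c4_1059⟩, ⟨c4_1061, .inl c4_1062, c4_1063, c4_1064⟩⟩⟩,
    ⟨c4_972, c4_981, c4_993, c4_1002⟩, ⟨c4_1046, c4_1051, c4_1060, c4_1065⟩, (.inl c4_1041), (.inr ⟨c4_1054, c4_1055⟩), rfl⟩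

theorem cut4_1 : p4.Cut q4_1 := Piece.Cut.of_pos c4_1205 c4_1206

/-- The checks of the slab `2`. -/
theorem slab4_2 : p4.Slab g4 g4_2 :=
  ⟨⟨c4_1097, c4_1098, c4_1099,
      ⟨c4_1082, c4_1083, ⟨c4_1072, .inr ⟨c4_1073, c4_1071⟩, c4_1074, c4_1075⟩, ⟨c4_1077, .inr ⟨c4_1078, c4_1071⟩, c4_1079, c4_1080⟩⟩,
      ⟨c4_1095, c4_1096, ⟨c4_1085, .inr ⟨c4_1086, c4_1084⟩, c4_1087, c4_1088⟩, ⟨c4_1090, .inr ⟨c4_1091, c4_1084⟩, c4_1092, c4_1093⟩⟩⟩,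
    ⟨c4_973, c4_982, c4_994, c4_1003⟩, ⟨c4_1076, c4_1081, c4_1089, c4_1094⟩, (.inl c4_1071), (.inl c4_1084), rfl⟩

theorem cut4_2 : p4.Cut q4_2 := Piece.Cut.of_pos c4_1210 c4_1211

/-- The checks of the slab `3`. -/
theorem slab4_3 : p4.Slab g4 g4_3 :=
  ⟨⟨c4_1126, c4_1127, c4_1128,
      ⟨c4_1111, c4_1112, ⟨c4_1101, .inr ⟨c4_1102, c4_1100⟩, c4_1103, c4_1104⟩, ⟨c4_1106, .inr ⟨c4_1107, c4_1100⟩, c4_1108, c4_1109⟩⟩,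
      ⟨c4_1124, c4_1125, ⟨c4_1114, .inr ⟨c4_1115, c4_1113⟩, c4_1116, c4_1117⟩, ⟨c4_1119, .inr ⟨c4_1120, c4_1113⟩, c4_1121, c4_1122⟩⟩⟩,
    ⟨c4_974, c4_983, c4_995, c4_1004⟩, ⟨c4_1105, c4_1110, c4_1118, c4_1123⟩, (.inl c4_1100), (.inl c4_1113), rfl⟩

theorem cut4_3 : p4.Cut q4_3 := Piece.Cut.of_pos c4_1214 c4_1215

/-- The checks of the slab `4`. -/
theorem slab4_4 : p4.Slab g4 g4_4 :=
  ⟨⟨c4_1155, c4_1156, c4_1157,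
      ⟨c4_1140, c4_1141, ⟨c4_1130, .inr ⟨c4_1131, c4_1129⟩, c4_1132, c4_1133⟩, ⟨c4_1135, .inr ⟨c4_1136, c4_1129⟩, c4_1137, c4_1138⟩⟩,
      ⟨c4_1153, c4_1154, ⟨c4_1143, .inr ⟨c4_1144, c4_1142⟩, c4_1145, c4_1146⟩, ⟨c4_1148, .inr ⟨c4_1149, c4_1142⟩, c4_1150, c4_1151⟩⟩⟩,
    ⟨c4_975, c4_984, c4_996, c4_1005⟩, ⟨c4_1134, c4_1139, c4_1147, c4_1152⟩, (.inl c4_1129), (.inl c4_1142), rfl⟩

theorem cut4_4 : p4.Cut q4_4 := Piece.Cut.one p4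

/-- The signs on the piece. -/
theorem signs4 (z : p4.Pt) (u t : ℝ) (h : z.On u t) : ChartSigns z.d z.S u z.vv t := by
  rcases le_total (z.d * z.val q4_0) (1 / chH z.d z.S u z.vv t) with h0 | h0
  · exact z.signs_top base4 slab4_0 rfl rfl rfl ⟨c4_1202, c4_1203, c4_1204⟩ h h0
  rcases le_total (z.d * z.val q4_1) (1 / chH z.d z.S u z.vv t) with h1 | h1
  · exact z.signs_U base4 slab4_1 rfl cut4_1 cut4_0 rfl rfl ⟨c4_1207, c4_1208, c4_1209⟩ h h1 h0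
  rcases le_total (z.d * z.val q4_2) (1 / chH z.d z.S u z.vv t) with h2 | h2
  · exact z.signs_E base4 slab4_2 cut4_2 cut4_1 rfl rfl ⟨c4_1212, c4_1213⟩ h (z.u_fix rfl h) h2 h1
  rcases le_total (z.d * z.val q4_3) (1 / chH z.d z.S u z.vv t) with h3 | h3
  · exact z.signs_E base4 slab4_3 cut4_3 cut4_2 rfl rfl ⟨c4_1216, c4_1217⟩ h (z.u_fix rfl h) h3 h2
  exact z.signs_E base4 slab4_4 cut4_4 cut4_3 rfl rfl ⟨c4_1218, c4_1219⟩ h (z.u_em (em := cC (29) 2500) rfl c4_1220 ⟨c4_1221, c4_1222, c4_1223⟩ h h3) (z.last_cut h) h3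

end Vale.Agent.P100.Calib.Closed.End
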