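import Vale.Agent.P100.Calib.SlabEndPiece0
import Vale.Agent.P100.Calib.SlabEndPiece1
import Vale.Agent.P100.Calib.SlabEndPiece2
import Vale.Agent.P100.Calib.SlabEndPiece3
import Vale.Agent.P100.Calib.SlabEndPiece4
import Vale.Agent.P100.Calib.SlabChartHighDefs

/-!
# The signs of the end of the tail, `1/20 ≤ d ≤ 1/5`
-/

namespace Vale.Agent.P100.Calib.Closed

namespace End

open BoxPos
open Large (PosBox)

local instance endStripAdd : Add Ex := ⟨Ex.add⟩
local instance endStripMul : Mul Ex := ⟨Ex.mul⟩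
local instance endStripSub : Sub Ex := ⟨Ex.sub⟩

theorem chart0 {d S u v t : ℝ} (box : ChartBox d S) (lo : 1 / 20 ≤ d) (hi : d < 2 / 25)
    (hu : 39 / 40 ≤ u) (f : ChartFacts d S u v t)
    (hv : 2 * (1 - S) / (2 + (S - d) * (1 - S)) + (3 / 2 - 94 / 10 * d + 28 * d ^ 2) < v)
    (ht : 1 / 4 < t) : ChartSigns d S u v t := by
  have hS := box.S_low
  have m0 : Side.Mem ⟨0, 1, 1⟩ (0 : ℝ) := by constructor <;> norm_num
  have h₁ : Side.Mem ⟨3000, 3011, 5000⟩ S := by
    constructor
    · push_cast; linarith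
    · push_cast; linarith [box.S_le, mul_lt_mul' hi.le hi (by linarith [box.pos]) (by norm_num : (0 : ℝ) < 2 / 25)]
  have h₂ : Side.Mem ⟨5, 8, 100⟩ d := by constructor <;> push_cast <;> linarith
  have hden : 0 < 2 + (S - d) * (1 - S) := by
    have := mul_pos (show 0 < S - d by linarith [box.diff]) (show 0 < 1 - S by linarith [box.S_high])
    linarith
  refine Piece.signs_of (P := p0) (vl := ((217 / 125 : ℝ) + (-1139 / 200 : ℝ) * d)) (vt := ((3287 / 1000 : ℝ) + (6993 / 1000 : ℝ) * d)) box hu f ht rfl h₁ h₂ rfl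
    (fun s => by simp only [p0, v0, ex_mul, ex_add, ex_sub, Ex.val]; push_cast; ring) ?_ ?_
    (fun z => signs0 z u t)
  · have T := c0_293 0 S d 0 m0 h₁ h₂ m0
    simp only [ex_mul, ex_add, ex_sub, Ex.val] at T
    push_cast at T
    have e : 2 * (1 - S) / (2 + (S - d) * (1 - S)) * (2 + (S - d) * (1 - S)) = 2 * (1 - S) :=
      div_mul_cancel₀ _ hden.ne'
    refine le_of_lt (lt_of_mul_lt_mul_right (a := 2 + (S - d) * (1 - S)) ?_ hden.le)
    have := mul_lt_mul_of_pos_right hv hden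
    linarith
  · have h := f.r_lt
    have T := c0_294 0 S d 0 m0 h₁ h₂ m0
    simp only [ex_mul, ex_add, ex_sub, Ex.val] at T
    push_cast at T
    refine lt_of_mul_lt_mul_right (a := S - d) ?_ (by linarith [box.S_low])
    linarith

theorem chart1 {d S u v t : ℝ} (box : ChartBox d S) (lo : 2 / 25 ≤ d) (hi : d < 3 / 25)
    (hu : 39 / 40 ≤ u) (f : ChartFacts d S u v t)
    (hv : 2 * (1 - S) / (2 + (S - d) * (1 - S)) + (3 / 2 - 94 / 10 * d + 28 * d ^ 2) < v)
    (ht : 1 / 4 < t) : ChartSigns d S u v t := by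
  have hS := box.S_low
  have m0 : Side.Mem ⟨0, 1, 1⟩ (0 : ℝ) := by constructor <;> norm_num
  have h₁ : Side.Mem ⟨375, 378, 625⟩ S := by
    constructor
    · push_cast; linarith
    · push_cast; linarith [box.S_le, mul_lt_mul' hi.le hi (by linarith [box.pos]) (by norm_num : (0 : ℝ) < 3 / 25)]
  have h₂ : Side.Mem ⟨2, 3, 25⟩ d := by constructor <;> push_cast <;> linarith
  have hden : 0 < 2 + (S - d) * (1 - S) := by
    have := mul_pos (show 0 < S - d by linarith [box.diff]) (show 0 < 1 - S by linarith [box.S_high])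
    linarith
  refine Piece.signs_of (P := p1) (vl := ((393 / 250 : ℝ) + (-747 / 200 : ℝ) * d)) (vt := ((1603 / 500 : ℝ) + (8013 / 1000 : ℝ) * d)) box hu f ht rfl h₁ h₂ rfl
    (fun s => by simp only [p1, v1, ex_mul, ex_add, ex_sub, Ex.val]; push_cast; ring) ?_ ?_
    (fun z => signs1 z u t)
  · have T := c1_514 0 S d 0 m0 h₁ h₂ m0
    simp only [ex_mul, ex_add, ex_sub, Ex.val] at T
    push_cast at T
    have e : 2 * (1 - S) / (2 + (S - d) * (1 - S)) * (2 + (S - d) * (1 - S)) = 2 * (1 - S) :=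
      div_mul_cancel₀ _ hden.ne'
    refine le_of_lt (lt_of_mul_lt_mul_right (a := 2 + (S - d) * (1 - S)) ?_ hden.le)
    have := mul_lt_mul_of_pos_right hv hden
    linarith
  · have h := f.r_lt
    have T := c1_515 0 S d 0 m0 h₁ h₂ m0
    simp only [ex_mul, ex_add, ex_sub, Ex.val] at T
    push_cast at T
    refine lt_of_mul_lt_mul_right (a := S - d) ?_ (by linarith [box.S_low])
    linarith

theorem chart2 {d S u v t : ℝ} (box : ChartBox d S) (lo : 3 / 25 ≤ d) (hi : d < 3 / 20)
    (hu : 39 / 40 ≤ u) (f : ChartFacts d S u v t)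
    (hv : 2 * (1 - S) / (2 + (S - d) * (1 - S)) + (3 / 2 - 94 / 10 * d + 28 * d ^ 2) < v)
    (ht : 1 / 4 < t) : ChartSigns d S u v t := by
  have hS := box.S_low
  have m0 : Side.Mem ⟨0, 1, 1⟩ (0 : ℝ) := by constructor <;> norm_num
  have h₁ : Side.Mem ⟨1521, 1535, 2535⟩ S := by
    constructor
    · push_cast; linarith
    · push_cast; linarith [box.S_high]
  have h₂ : Side.Mem ⟨12, 15, 100⟩ d := by constructor <;> push_cast <;> linarith
  have hden : 0 < 2 + (S - d) * (1 - S) := by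
    have := mul_pos (show 0 < S - d by linarith [box.diff]) (show 0 < 1 - S by linarith [box.S_high])
    linarith
  refine Piece.signs_of (P := p2) (vl := ((1341 / 1000 : ℝ) + (-71 / 40 : ℝ) * d)) (vt := ((382 / 125 : ℝ) + (9259 / 1000 : ℝ) * d)) box hu f ht rfl h₁ h₂ rfl
    (fun s => by simp only [p2, v2, ex_mul, ex_add, ex_sub, Ex.val]; push_cast; ring) ?_ ?_
    (fun z => signs2 z u t)
  · have T := c2_739 0 S d 0 m0 h₁ h₂ m0
    simp only [ex_mul, ex_add, ex_sub, Ex.val] at T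
    push_cast at T
    have e : 2 * (1 - S) / (2 + (S - d) * (1 - S)) * (2 + (S - d) * (1 - S)) = 2 * (1 - S) :=
      div_mul_cancel₀ _ hden.ne'
    refine le_of_lt (lt_of_mul_lt_mul_right (a := 2 + (S - d) * (1 - S)) ?_ hden.le)
    have := mul_lt_mul_of_pos_right hv hden
    linarith
  · have h := f.r_lt
    have T := c2_740 0 S d 0 m0 h₁ h₂ m0
    simp only [ex_mul, ex_add, ex_sub, Ex.val] at T
    push_cast at T
    refine lt_of_mul_lt_mul_right (a := S - d) ?_ (by linarith [box.S_low])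
    linarith

theorem chart3 {d S u v t : ℝ} (box : ChartBox d S) (lo : 3 / 20 ≤ d) (hi : d < 9 / 50)
    (hu : 39 / 40 ≤ u) (f : ChartFacts d S u v t)
    (hv : 2 * (1 - S) / (2 + (S - d) * (1 - S)) + (3 / 2 - 94 / 10 * d + 28 * d ^ 2) < v)
    (ht : 1 / 4 < t) : ChartSigns d S u v t := by
  have hS := box.S_low
  have m0 : Side.Mem ⟨0, 1, 1⟩ (0 : ℝ) := by constructor <;> norm_num
  have h₁ : Side.Mem ⟨1521, 1535, 2535⟩ S := by
    constructor
    · push_cast; linarith
    · push_cast; linarith [box.S_high]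
  have h₂ : Side.Mem ⟨15, 18, 100⟩ d := by constructor <;> push_cast <;> linarith
  have hden : 0 < 2 + (S - d) * (1 - S) := by
    have := mul_pos (show 0 < S - d by linarith [box.diff]) (show 0 < 1 - S by linarith [box.S_high])
    linarith
  refine Piece.signs_of (P := p3) (vl := ((1089 / 1000 : ℝ) + (-47 / 500 : ℝ) * d)) (vt := ((8149 / 1000 : ℝ) + (-24691 / 1000 : ℝ) * d)) box hu f ht rfl h₁ h₂ rfl
    (fun s => by simp only [p3, v3, ex_mul, ex_add, ex_sub, Ex.val]; push_cast; ring) ?_ ?_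
    (fun z => signs3 z u t)
  · have T := c3_964 0 S d 0 m0 h₁ h₂ m0
    simp only [ex_mul, ex_add, ex_sub, Ex.val] at T
    push_cast at T
    have e : 2 * (1 - S) / (2 + (S - d) * (1 - S)) * (2 + (S - d) * (1 - S)) = 2 * (1 - S) :=
      div_mul_cancel₀ _ hden.ne'
    refine le_of_lt (lt_of_mul_lt_mul_right (a := 2 + (S - d) * (1 - S)) ?_ hden.le)
    have := mul_lt_mul_of_pos_right hv hden
    linarith
  · have h := f.kap
    have T := c3_965 0 S d 0 m0 h₁ h₂ m0
    simp only [ex_mul, ex_add, ex_sub, Ex.val] at T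
    push_cast at T
    refine lt_of_mul_lt_mul_right (a := d * S) ?_ (mul_pos box.pos (by linarith [box.S_low])).le
    linarith

theorem chart4 {d S u v t : ℝ} (box : ChartBox d S) (lo : 9 / 50 ≤ d) (hi : d < 401 / 2000)
    (hu : 39 / 40 ≤ u) (f : ChartFacts d S u v t)
    (hv : 2 * (1 - S) / (2 + (S - d) * (1 - S)) + (3 / 2 - 94 / 10 * d + 28 * d ^ 2) < v)
    (ht : 1 / 4 < t) : ChartSigns d S u v t := by
  have hS := box.S_low
  have m0 : Side.Mem ⟨0, 1, 1⟩ (0 : ℝ) := by constructor <;> norm_num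
  have h₁ : Side.Mem ⟨1521, 1535, 2535⟩ S := by
    constructor
    · push_cast; linarith
    · push_cast; linarith [box.S_high]
  have h₂ : Side.Mem ⟨360, 401, 2000⟩ d := by constructor <;> push_cast <;> linarith
  have hden : 0 < 2 + (S - d) * (1 - S) := by
    have := mul_pos (show 0 < S - d by linarith [box.diff]) (show 0 < 1 - S by linarith [box.S_high])
    linarith
  refine Piece.signs_of (P := p4) (vl := ((419 / 500 : ℝ) + (33 / 25 : ℝ) * d)) (vt := ((7029 / 1000 : ℝ) + (-2309 / 125 : ℝ) * d)) box hu f ht rfl h₁ h₂ rfl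
    (fun s => by simp only [p4, v4, ex_mul, ex_add, ex_sub, Ex.val]; push_cast; ring) ?_ ?_
    (fun z => signs4 z u t)
  · have T := c4_1224 0 S d 0 m0 h₁ h₂ m0
    simp only [ex_mul, ex_add, ex_sub, Ex.val] at T
    push_cast at T
    have e : 2 * (1 - S) / (2 + (S - d) * (1 - S)) * (2 + (S - d) * (1 - S)) = 2 * (1 - S) :=
      div_mul_cancel₀ _ hden.ne'
    refine le_of_lt (lt_of_mul_lt_mul_right (a := 2 + (S - d) * (1 - S)) ?_ hden.le)
    have := mul_lt_mul_of_pos_right hv hden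
    linarith
  · have h := f.kap
    have T := c4_1225 0 S d 0 m0 h₁ h₂ m0
    simp only [ex_mul, ex_add, ex_sub, Ex.val] at T
    push_cast at T
    refine lt_of_mul_lt_mul_right (a := d * S) ?_ (mul_pos box.pos (by linarith [box.S_low])).le
    linarith

/-- The signs of the end strip on all of `1/20 ≤ d ≤ 1/5`. -/
theorem chartEnd {d S u v t : ℝ} (box : ChartBox d S) (lo : 1 / 20 ≤ d) (hu : 39 / 40 ≤ u)
    (f : ChartFacts d S u v t)
    (hv : 2 * (1 - S) / (2 + (S - d) * (1 - S)) + (3 / 2 - 94 / 10 * d + 28 * d ^ 2) < v)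
    (ht : 1 / 4 < t) : ChartSigns d S u v t := by
  rcases lt_or_ge d (2 / 25) with h1 | h1
  · exact chart0 box lo h1 hu f hv ht
  rcases lt_or_ge d (3 / 25) with h2 | h2
  · exact chart1 box h1 h2 hu f hv ht
  rcases lt_or_ge d (3 / 20) with h3 | h3
  · exact chart2 box h2 h3 hu f hv ht
  rcases lt_or_ge d (9 / 50) with h4 | h4
  · exact chart3 box h3 h4 hu f hv ht
  · exact chart4 box h4 (by linarith [box.diff]) hu f hv ht

end End

/-- The signs on the end of the tail for `1/20 ≤ d ≤ 3/25`. -/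
theorem signsEndMid : SignsEnd bandsMid (1 / 20) (3 / 25) :=
  fun d S u v t box h0 _ hu f hv ht _ => End.chartEnd box h0 hu f hv ht

/-- The signs on the end of the tail for `3/25 ≤ d ≤ 1/5`. -/
theorem signsEndTop : SignsEnd bandsTop (3 / 25) (1 / 5) :=
  fun d S u v t box h0 _ hu f hv ht _ => End.chartEnd box (by linarith) hu f hv ht

end Vale.Agent.P100.Calib.Closed
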