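import Vale.Agent.P100.Calib.SlabHighBotData

/-!
# Checks of the bounds of a piece of the tail
-/

set_option linter.defProp false

namespace Vale.Agent.P100.Calib.Closed.High

open BoxPos Large

def bot16_p0 : PosBox ⟨⟨0, 1, 1⟩, ⟨600, 601, 1000⟩, ⟨0, 501, 10000⟩, ⟨3500, 7000, 10000⟩⟩ (bot16.hP0) :=
  posBox_of_check (c := ⟨69, ⟨0, 2, 3, 1⟩⟩) (by decide +kernel)

def bot16_gn : PosBox ⟨⟨0, 1, 1⟩, ⟨600, 601, 1000⟩, ⟨0, 501, 10000⟩, ⟨3500, 7000, 10000⟩⟩ (bot16.hGn) :=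
  posBox_of_check (c := ⟨72, ⟨1, 1, 2, 1⟩⟩) (by decide +kernel)

def bot16_den0 : PosBox ⟨⟨0, 1, 1⟩, ⟨600, 601, 1000⟩, ⟨0, 501, 10000⟩, ⟨3500, 7000, 10000⟩⟩ (bot16.hDen false) :=
  posBox_of_check (c := ⟨89, ⟨2, 0, 4, 0⟩⟩) (by decide +kernel)

def bot16_den1 : PosBox ⟨⟨0, 1, 1⟩, ⟨600, 601, 1000⟩, ⟨0, 501, 10000⟩, ⟨3500, 7000, 10000⟩⟩ (bot16.hDen true) :=
  posBox_of_check (c := ⟨91, ⟨3, 0, 3, 0⟩⟩) (by decide +kernel)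

def bot16_none0 : PosBox ⟨⟨0, 1, 1⟩, ⟨600, 601, 1000⟩, ⟨0, 501, 10000⟩, ⟨3500, 7000, 10000⟩⟩ (bot16.hNone false) :=
  posBox_of_check (c := ⟨287, ⟨5, 6, 11, 2⟩⟩) (by decide +kernel)

def bot16_none1 : PosBox ⟨⟨0, 1, 1⟩, ⟨600, 601, 1000⟩, ⟨0, 501, 10000⟩, ⟨3500, 7000, 10000⟩⟩ (bot16.hNone true) :=
  posBox_of_check (c := ⟨333, ⟨6, 6, 12, 2⟩⟩) (by decide +kernel)

def bot16_mupU : PosBox ⟨⟨0, 1, 1⟩, ⟨600, 601, 1000⟩, ⟨0, 501, 10000⟩, ⟨3500, 7000, 10000⟩⟩ (bot16.pU.μ) :=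
  posBox_of_check (c := ⟨5, ⟨0, 0, 0, 0⟩⟩) (by decide +kernel)

/-- No point in the piece. -/
theorem bot16_empty : bot16.Empty ⟨⟨0, 1, 1⟩, ⟨600, 601, 1000⟩, ⟨0, 501, 10000⟩, ⟨3500, 7000, 10000⟩⟩ :=
  ⟨bot16_p0, Bool.forall_bool.2 ⟨bot16_den0, bot16_den1⟩, bot16_gn, ⟨.inl bot16_mupU, .inr rfl⟩, Bool.forall_bool.2 ⟨bot16_none0, bot16_none1⟩⟩

end Vale.Agent.P100.Calib.Closed.High
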