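import Vale.Agent.P100.Calib.SlabHighBotData

/-!
# Checks of the bounds of a piece of the tail
-/

set_option linter.defProp false

namespace Vale.Agent.P100.Calib.Closed.High

open BoxPos Large

def bot17_p0 : PosBox ⟨⟨0, 1, 1⟩, ⟨600, 601, 1000⟩, ⟨0, 501, 10000⟩, ⟨7000, 16000, 10000⟩⟩ (bot17.hP0) :=
  posBox_of_check (c := ⟨69, ⟨0, 2, 3, 1⟩⟩) (by decide +kernel)

def bot17_gn : PosBox ⟨⟨0, 1, 1⟩, ⟨600, 601, 1000⟩, ⟨0, 501, 10000⟩, ⟨7000, 16000, 10000⟩⟩ (bot17.hGn) :=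
  posBox_of_check (c := ⟨72, ⟨1, 1, 2, 1⟩⟩) (by decide +kernel)

def bot17_den0 : PosBox ⟨⟨0, 1, 1⟩, ⟨600, 601, 1000⟩, ⟨0, 501, 10000⟩, ⟨7000, 16000, 10000⟩⟩ (bot17.hDen false) :=
  posBox_of_check (c := ⟨89, ⟨2, 0, 4, 0⟩⟩) (by decide +kernel)

def bot17_den1 : PosBox ⟨⟨0, 1, 1⟩, ⟨600, 601, 1000⟩, ⟨0, 501, 10000⟩, ⟨7000, 16000, 10000⟩⟩ (bot17.hDen true) :=
  posBox_of_check (c := ⟨91, ⟨3, 0, 3, 0⟩⟩) (by decide +kernel)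

def bot17_ev0 : PosBox ⟨⟨0, 1, 1⟩, ⟨600, 601, 1000⟩, ⟨0, 501, 10000⟩, ⟨7000, 16000, 10000⟩⟩ (bot17.hEv false) :=
  posBox_of_check (c := ⟨200, ⟨4, 2, 8, 1⟩⟩) (by decide +kernel)

def bot17_eL0 : PosBox ⟨⟨0, 1, 1⟩, ⟨600, 601, 1000⟩, ⟨0, 501, 10000⟩, ⟨7000, 16000, 10000⟩⟩ (bot17.hEL false) :=
  posBox_of_check (c := ⟨286, ⟨5, 6, 11, 2⟩⟩) (by decide +kernel)

def bot17_eH0 : PosBox ⟨⟨0, 1, 1⟩, ⟨600, 601, 1000⟩, ⟨0, 501, 10000⟩, ⟨7000, 16000, 10000⟩⟩ (bot17.hEH false) :=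
  posBox_of_check (c := ⟨302, ⟨5, 6, 11, 2⟩⟩) (by decide +kernel)

def bot17_pL0 : PosBox ⟨⟨0, 1, 1⟩, ⟨600, 601, 1000⟩, ⟨0, 501, 10000⟩, ⟨7000, 16000, 10000⟩⟩ (bot17.hPL false) :=
  posBox_of_check (c := ⟨288, ⟨5, 6, 11, 2⟩⟩) (by decide +kernel)

def bot17_pU0 : PosBox ⟨⟨0, 1, 1⟩, ⟨600, 601, 1000⟩, ⟨0, 501, 10000⟩, ⟨7000, 16000, 10000⟩⟩ (bot17.hPU false) :=
  posBox_of_check (c := ⟨310, ⟨5, 6, 11, 3⟩⟩) (by decide +kernel)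

def bot17_kU0 : PosBox ⟨⟨0, 1, 1⟩, ⟨600, 601, 1000⟩, ⟨0, 501, 10000⟩, ⟨7000, 16000, 10000⟩⟩ (bot17.hKU false) :=
  posBox_of_check (c := ⟨304, ⟨5, 6, 11, 3⟩⟩) (by decide +kernel)

def bot17_kL0 : PosBox ⟨⟨0, 1, 1⟩, ⟨600, 601, 1000⟩, ⟨0, 501, 10000⟩, ⟨7000, 16000, 10000⟩⟩ (bot17.hKL false) :=
  posBox_of_check (c := ⟨304, ⟨5, 6, 11, 3⟩⟩) (by decide +kernel)

def bot17_wU0_0 : PosBox ⟨⟨0, 1, 2⟩, ⟨600, 601, 1000⟩, ⟨0, 501, 10000⟩, ⟨7000, 16000, 10000⟩⟩ (bot17.hWU false) :=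
  posBox_of_check (c := ⟨341, ⟨5, 8, 12, 3⟩⟩) (by decide +kernel)

def bot17_wU0_1 : PosBox ⟨⟨1, 2, 2⟩, ⟨600, 601, 1000⟩, ⟨0, 501, 10000⟩, ⟨7000, 16000, 10000⟩⟩ (bot17.hWU false) :=
  posBox_of_check (c := ⟨343, ⟨5, 8, 12, 3⟩⟩) (by decide +kernel)

def bot17_wU0 : PosBox ⟨⟨0, 1, 1⟩, ⟨600, 601, 1000⟩, ⟨0, 501, 10000⟩, ⟨7000, 16000, 10000⟩⟩ (bot17.hWU false) :=
  posBox_units (b := ⟨⟨0, 2, 2⟩, ⟨600, 601, 1000⟩, ⟨0, 501, 10000⟩, ⟨7000, 16000, 10000⟩⟩) (by decide +kernel) (posBox_join₀ bot17_wU0_0 bot17_wU0_1)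

def bot17_wL0 : PosBox ⟨⟨0, 1, 1⟩, ⟨600, 601, 1000⟩, ⟨0, 501, 10000⟩, ⟨7000, 16000, 10000⟩⟩ (bot17.hWL false) :=
  posBox_of_check (c := ⟨336, ⟨5, 8, 12, 3⟩⟩) (by decide +kernel)

def bot17_ev1 : PosBox ⟨⟨0, 1, 1⟩, ⟨600, 601, 1000⟩, ⟨0, 501, 10000⟩, ⟨7000, 16000, 10000⟩⟩ (bot17.hEv true) :=
  posBox_of_check (c := ⟨247, ⟨5, 2, 9, 1⟩⟩) (by decide +kernel)

def bot17_eL1 : PosBox ⟨⟨0, 1, 1⟩, ⟨600, 601, 1000⟩, ⟨0, 501, 10000⟩, ⟨7000, 16000, 10000⟩⟩ (bot17.hEL true) :=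
  posBox_of_check (c := ⟨332, ⟨6, 6, 12, 2⟩⟩) (by decide +kernel)

def bot17_eH1_0_0_0_0 : PosBox ⟨⟨0, 1, 8⟩, ⟨600, 601, 1000⟩, ⟨0, 250, 10000⟩, ⟨7000, 16000, 10000⟩⟩ (bot17.hEH true) :=
  posBox_of_check (c := ⟨359, ⟨6, 6, 12, 2⟩⟩) (by decide +kernel)

def bot17_eH1_0_0_0_1 : PosBox ⟨⟨1, 2, 8⟩, ⟨600, 601, 1000⟩, ⟨0, 250, 10000⟩, ⟨7000, 16000, 10000⟩⟩ (bot17.hEH true) :=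
  posBox_of_check (c := ⟨359, ⟨6, 6, 12, 2⟩⟩) (by decide +kernel)

def bot17_eH1_0_0_0 : PosBox ⟨⟨0, 1, 4⟩, ⟨600, 601, 1000⟩, ⟨0, 250, 10000⟩, ⟨7000, 16000, 10000⟩⟩ (bot17.hEH true) :=
  posBox_units (b := ⟨⟨0, 2, 8⟩, ⟨600, 601, 1000⟩, ⟨0, 250, 10000⟩, ⟨7000, 16000, 10000⟩⟩) (by decide +kernel) (posBox_join₀ bot17_eH1_0_0_0_0 bot17_eH1_0_0_0_1)

def bot17_eH1_0_0_1 : PosBox ⟨⟨1, 2, 4⟩, ⟨600, 601, 1000⟩, ⟨0, 250, 10000⟩, ⟨7000, 16000, 10000⟩⟩ (bot17.hEH true) :=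
  posBox_of_check (c := ⟨355, ⟨6, 6, 12, 2⟩⟩) (by decide +kernel)

def bot17_eH1_0_0 : PosBox ⟨⟨0, 1, 2⟩, ⟨600, 601, 1000⟩, ⟨0, 250, 10000⟩, ⟨7000, 16000, 10000⟩⟩ (bot17.hEH true) :=
  posBox_units (b := ⟨⟨0, 2, 4⟩, ⟨600, 601, 1000⟩, ⟨0, 250, 10000⟩, ⟨7000, 16000, 10000⟩⟩) (by decide +kernel) (posBox_join₀ bot17_eH1_0_0_0 bot17_eH1_0_0_1)

def bot17_eH1_0_1_0_0 : PosBox ⟨⟨1, 2, 2⟩, ⟨600, 601, 1000⟩, ⟨0, 62, 10000⟩, ⟨7000, 16000, 10000⟩⟩ (bot17.hEH true) :=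
  posBox_of_check (c := ⟨353, ⟨6, 6, 12, 2⟩⟩) (by decide +kernel)

def bot17_eH1_0_1_0_1_0 : PosBox ⟨⟨1, 2, 2⟩, ⟨600, 601, 1000⟩, ⟨62, 125, 10000⟩, ⟨7000, 11500, 10000⟩⟩ (bot17.hEH true) :=
  posBox_of_check (c := ⟨353, ⟨6, 6, 12, 2⟩⟩) (by decide +kernel)

def bot17_eH1_0_1_0_1_1 : PosBox ⟨⟨1, 2, 2⟩, ⟨600, 601, 1000⟩, ⟨62, 125, 10000⟩, ⟨11500, 16000, 10000⟩⟩ (bot17.hEH true) :=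
  posBox_of_check (c := ⟨353, ⟨6, 6, 12, 2⟩⟩) (by decide +kernel)

theorem bot17_eH1_0_1_0_1 : PosBox ⟨⟨1, 2, 2⟩, ⟨600, 601, 1000⟩, ⟨62, 125, 10000⟩, ⟨7000, 16000, 10000⟩⟩ (bot17.hEH true) :=
  posBox_join₃ bot17_eH1_0_1_0_1_0 bot17_eH1_0_1_0_1_1

theorem bot17_eH1_0_1_0 : PosBox ⟨⟨1, 2, 2⟩, ⟨600, 601, 1000⟩, ⟨0, 125, 10000⟩, ⟨7000, 16000, 10000⟩⟩ (bot17.hEH true) :=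
  posBox_join₂ bot17_eH1_0_1_0_0 bot17_eH1_0_1_0_1

def bot17_eH1_0_1_1 : PosBox ⟨⟨1, 2, 2⟩, ⟨600, 601, 1000⟩, ⟨125, 250, 10000⟩, ⟨7000, 16000, 10000⟩⟩ (bot17.hEH true) :=
  posBox_of_check (c := ⟨353, ⟨6, 6, 12, 2⟩⟩) (by decide +kernel)

theorem bot17_eH1_0_1 : PosBox ⟨⟨1, 2, 2⟩, ⟨600, 601, 1000⟩, ⟨0, 250, 10000⟩, ⟨7000, 16000, 10000⟩⟩ (bot17.hEH true) :=
  posBox_join₂ bot17_eH1_0_1_0 bot17_eH1_0_1_1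

def bot17_eH1_0 : PosBox ⟨⟨0, 1, 1⟩, ⟨600, 601, 1000⟩, ⟨0, 250, 10000⟩, ⟨7000, 16000, 10000⟩⟩ (bot17.hEH true) :=
  posBox_units (b := ⟨⟨0, 2, 2⟩, ⟨600, 601, 1000⟩, ⟨0, 250, 10000⟩, ⟨7000, 16000, 10000⟩⟩) (by decide +kernel) (posBox_join₀ bot17_eH1_0_0 bot17_eH1_0_1)

def bot17_eH1_1 : PosBox ⟨⟨0, 1, 1⟩, ⟨600, 601, 1000⟩, ⟨250, 501, 10000⟩, ⟨7000, 16000, 10000⟩⟩ (bot17.hEH true) :=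
  posBox_of_check (c := ⟨348, ⟨6, 6, 12, 2⟩⟩) (by decide +kernel)

theorem bot17_eH1 : PosBox ⟨⟨0, 1, 1⟩, ⟨600, 601, 1000⟩, ⟨0, 501, 10000⟩, ⟨7000, 16000, 10000⟩⟩ (bot17.hEH true) :=
  posBox_join₂ bot17_eH1_0 bot17_eH1_1

def bot17_pL1 : PosBox ⟨⟨0, 1, 1⟩, ⟨600, 601, 1000⟩, ⟨0, 501, 10000⟩, ⟨7000, 16000, 10000⟩⟩ (bot17.hPL true) :=
  posBox_of_check (c := ⟨334, ⟨6, 6, 12, 2⟩⟩) (by decide +kernel)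

def bot17_pU1_0 : PosBox ⟨⟨0, 1, 1⟩, ⟨600, 601, 1000⟩, ⟨0, 501, 10000⟩, ⟨7000, 11500, 10000⟩⟩ (bot17.hPU true) :=
  posBox_of_check (c := ⟨357, ⟨6, 6, 12, 3⟩⟩) (by decide +kernel)

def bot17_pU1_1_0 : PosBox ⟨⟨0, 1, 1⟩, ⟨600, 601, 1000⟩, ⟨0, 501, 10000⟩, ⟨11500, 13750, 10000⟩⟩ (bot17.hPU true) :=
  posBox_of_check (c := ⟨357, ⟨6, 6, 12, 3⟩⟩) (by decide +kernel)

def bot17_pU1_1_1_0_0 : PosBox ⟨⟨0, 1, 1⟩, ⟨600, 601, 1000⟩, ⟨0, 125, 10000⟩, ⟨13750, 16000, 10000⟩⟩ (bot17.hPU true) :=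
  posBox_of_check (c := ⟨357, ⟨6, 6, 12, 3⟩⟩) (by decide +kernel)

def bot17_pU1_1_1_0_1 : PosBox ⟨⟨0, 1, 1⟩, ⟨600, 601, 1000⟩, ⟨125, 250, 10000⟩, ⟨13750, 16000, 10000⟩⟩ (bot17.hPU true) :=
  posBox_of_check (c := ⟨357, ⟨6, 6, 12, 3⟩⟩) (by decide +kernel)

theorem bot17_pU1_1_1_0 : PosBox ⟨⟨0, 1, 1⟩, ⟨600, 601, 1000⟩, ⟨0, 250, 10000⟩, ⟨13750, 16000, 10000⟩⟩ (bot17.hPU true) :=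
  posBox_join₂ bot17_pU1_1_1_0_0 bot17_pU1_1_1_0_1

def bot17_pU1_1_1_1 : PosBox ⟨⟨0, 1, 1⟩, ⟨600, 601, 1000⟩, ⟨250, 501, 10000⟩, ⟨13750, 16000, 10000⟩⟩ (bot17.hPU true) :=
  posBox_of_check (c := ⟨357, ⟨6, 6, 12, 3⟩⟩) (by decide +kernel)

theorem bot17_pU1_1_1 : PosBox ⟨⟨0, 1, 1⟩, ⟨600, 601, 1000⟩, ⟨0, 501, 10000⟩, ⟨13750, 16000, 10000⟩⟩ (bot17.hPU true) :=
  posBox_join₂ bot17_pU1_1_1_0 bot17_pU1_1_1_1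

theorem bot17_pU1_1 : PosBox ⟨⟨0, 1, 1⟩, ⟨600, 601, 1000⟩, ⟨0, 501, 10000⟩, ⟨11500, 16000, 10000⟩⟩ (bot17.hPU true) :=
  posBox_join₃ bot17_pU1_1_0 bot17_pU1_1_1

theorem bot17_pU1 : PosBox ⟨⟨0, 1, 1⟩, ⟨600, 601, 1000⟩, ⟨0, 501, 10000⟩, ⟨7000, 16000, 10000⟩⟩ (bot17.hPU true) :=
  posBox_join₃ bot17_pU1_0 bot17_pU1_1

def bot17_kU1 : PosBox ⟨⟨0, 1, 1⟩, ⟨600, 601, 1000⟩, ⟨0, 501, 10000⟩, ⟨7000, 16000, 10000⟩⟩ (bot17.hKU true) :=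
  posBox_of_check (c := ⟨350, ⟨6, 6, 12, 3⟩⟩) (by decide +kernel)

def bot17_kL1_0_0 : PosBox ⟨⟨0, 1, 1⟩, ⟨600, 601, 1000⟩, ⟨0, 125, 10000⟩, ⟨7000, 16000, 10000⟩⟩ (bot17.hKL true) :=
  posBox_of_check (c := ⟨348, ⟨6, 6, 12, 3⟩⟩) (by decide +kernel)

def bot17_kL1_0_1 : PosBox ⟨⟨0, 1, 1⟩, ⟨600, 601, 1000⟩, ⟨125, 250, 10000⟩, ⟨7000, 16000, 10000⟩⟩ (bot17.hKL true) :=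
  posBox_of_check (c := ⟨350, ⟨6, 6, 12, 3⟩⟩) (by decide +kernel)

theorem bot17_kL1_0 : PosBox ⟨⟨0, 1, 1⟩, ⟨600, 601, 1000⟩, ⟨0, 250, 10000⟩, ⟨7000, 16000, 10000⟩⟩ (bot17.hKL true) :=
  posBox_join₂ bot17_kL1_0_0 bot17_kL1_0_1

def bot17_kL1_1 : PosBox ⟨⟨0, 1, 1⟩, ⟨600, 601, 1000⟩, ⟨250, 501, 10000⟩, ⟨7000, 16000, 10000⟩⟩ (bot17.hKL true) :=
  posBox_of_check (c := ⟨351, ⟨6, 6, 12, 3⟩⟩) (by decide +kernel)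

theorem bot17_kL1 : PosBox ⟨⟨0, 1, 1⟩, ⟨600, 601, 1000⟩, ⟨0, 501, 10000⟩, ⟨7000, 16000, 10000⟩⟩ (bot17.hKL true) :=
  posBox_join₂ bot17_kL1_0 bot17_kL1_1

def bot17_wU1_0_0_0 : PosBox ⟨⟨0, 1, 2⟩, ⟨600, 601, 1000⟩, ⟨0, 501, 10000⟩, ⟨7000, 9250, 10000⟩⟩ (bot17.hWU true) :=
  posBox_of_check (c := ⟨388, ⟨6, 8, 13, 3⟩⟩) (by decide +kernel)

def bot17_wU1_0_0_1_0 : PosBox ⟨⟨0, 1, 4⟩, ⟨600, 601, 1000⟩, ⟨0, 501, 10000⟩, ⟨9250, 11500, 10000⟩⟩ (bot17.hWU true) :=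
  posBox_of_check (c := ⟨392, ⟨6, 8, 13, 3⟩⟩) (by decide +kernel)

def bot17_wU1_0_0_1_1 : PosBox ⟨⟨1, 2, 4⟩, ⟨600, 601, 1000⟩, ⟨0, 501, 10000⟩, ⟨9250, 11500, 10000⟩⟩ (bot17.hWU true) :=
  posBox_of_check (c := ⟨393, ⟨6, 8, 13, 3⟩⟩) (by decide +kernel)

def bot17_wU1_0_0_1 : PosBox ⟨⟨0, 1, 2⟩, ⟨600, 601, 1000⟩, ⟨0, 501, 10000⟩, ⟨9250, 11500, 10000⟩⟩ (bot17.hWU true) :=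
  posBox_units (b := ⟨⟨0, 2, 4⟩, ⟨600, 601, 1000⟩, ⟨0, 501, 10000⟩, ⟨9250, 11500, 10000⟩⟩) (by decide +kernel) (posBox_join₀ bot17_wU1_0_0_1_0 bot17_wU1_0_0_1_1)

theorem bot17_wU1_0_0 : PosBox ⟨⟨0, 1, 2⟩, ⟨600, 601, 1000⟩, ⟨0, 501, 10000⟩, ⟨7000, 11500, 10000⟩⟩ (bot17.hWU true) :=
  posBox_join₃ bot17_wU1_0_0_0 bot17_wU1_0_0_1

def bot17_wU1_0_1_0_0_0 : PosBox ⟨⟨1, 2, 2⟩, ⟨600, 601, 1000⟩, ⟨0, 62, 10000⟩, ⟨7000, 11500, 10000⟩⟩ (bot17.hWU true) :=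
  posBox_of_check (c := ⟨390, ⟨6, 8, 13, 3⟩⟩) (by decide +kernel)

def bot17_wU1_0_1_0_0_1 : PosBox ⟨⟨1, 2, 2⟩, ⟨600, 601, 1000⟩, ⟨62, 125, 10000⟩, ⟨7000, 11500, 10000⟩⟩ (bot17.hWU true) :=
  posBox_of_check (c := ⟨390, ⟨6, 8, 13, 3⟩⟩) (by decide +kernel)

theorem bot17_wU1_0_1_0_0 : PosBox ⟨⟨1, 2, 2⟩, ⟨600, 601, 1000⟩, ⟨0, 125, 10000⟩, ⟨7000, 11500, 10000⟩⟩ (bot17.hWU true) :=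
  posBox_join₂ bot17_wU1_0_1_0_0_0 bot17_wU1_0_1_0_0_1

def bot17_wU1_0_1_0_1 : PosBox ⟨⟨1, 2, 2⟩, ⟨600, 601, 1000⟩, ⟨125, 250, 10000⟩, ⟨7000, 11500, 10000⟩⟩ (bot17.hWU true) :=
  posBox_of_check (c := ⟨390, ⟨6, 8, 13, 3⟩⟩) (by decide +kernel)

theorem bot17_wU1_0_1_0 : PosBox ⟨⟨1, 2, 2⟩, ⟨600, 601, 1000⟩, ⟨0, 250, 10000⟩, ⟨7000, 11500, 10000⟩⟩ (bot17.hWU true) :=
  posBox_join₂ bot17_wU1_0_1_0_0 bot17_wU1_0_1_0_1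

def bot17_wU1_0_1_1 : PosBox ⟨⟨1, 2, 2⟩, ⟨600, 601, 1000⟩, ⟨250, 501, 10000⟩, ⟨7000, 11500, 10000⟩⟩ (bot17.hWU true) :=
  posBox_of_check (c := ⟨390, ⟨6, 8, 13, 3⟩⟩) (by decide +kernel)

theorem bot17_wU1_0_1 : PosBox ⟨⟨1, 2, 2⟩, ⟨600, 601, 1000⟩, ⟨0, 501, 10000⟩, ⟨7000, 11500, 10000⟩⟩ (bot17.hWU true) :=
  posBox_join₂ bot17_wU1_0_1_0 bot17_wU1_0_1_1

def bot17_wU1_0 : PosBox ⟨⟨0, 1, 1⟩, ⟨600, 601, 1000⟩, ⟨0, 501, 10000⟩, ⟨7000, 11500, 10000⟩⟩ (bot17.hWU true) :=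
  posBox_units (b := ⟨⟨0, 2, 2⟩, ⟨600, 601, 1000⟩, ⟨0, 501, 10000⟩, ⟨7000, 11500, 10000⟩⟩) (by decide +kernel) (posBox_join₀ bot17_wU1_0_0 bot17_wU1_0_1)

def bot17_wU1_1_0 : PosBox ⟨⟨0, 1, 2⟩, ⟨600, 601, 1000⟩, ⟨0, 501, 10000⟩, ⟨11500, 16000, 10000⟩⟩ (bot17.hWU true) :=
  posBox_of_check (c := ⟨388, ⟨6, 8, 13, 3⟩⟩) (by decide +kernel)

def bot17_wU1_1_1_0 : PosBox ⟨⟨2, 3, 4⟩, ⟨600, 601, 1000⟩, ⟨0, 501, 10000⟩, ⟨11500, 16000, 10000⟩⟩ (bot17.hWU true) :=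
  posBox_of_check (c := ⟨395, ⟨6, 8, 13, 3⟩⟩) (by decide +kernel)

def bot17_wU1_1_1_1 : PosBox ⟨⟨3, 4, 4⟩, ⟨600, 601, 1000⟩, ⟨0, 501, 10000⟩, ⟨11500, 16000, 10000⟩⟩ (bot17.hWU true) :=
  posBox_of_check (c := ⟨396, ⟨6, 8, 13, 3⟩⟩) (by decide +kernel)

def bot17_wU1_1_1 : PosBox ⟨⟨1, 2, 2⟩, ⟨600, 601, 1000⟩, ⟨0, 501, 10000⟩, ⟨11500, 16000, 10000⟩⟩ (bot17.hWU true) :=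
  posBox_units (b := ⟨⟨2, 4, 4⟩, ⟨600, 601, 1000⟩, ⟨0, 501, 10000⟩, ⟨11500, 16000, 10000⟩⟩) (by decide +kernel) (posBox_join₀ bot17_wU1_1_1_0 bot17_wU1_1_1_1)

def bot17_wU1_1 : PosBox ⟨⟨0, 1, 1⟩, ⟨600, 601, 1000⟩, ⟨0, 501, 10000⟩, ⟨11500, 16000, 10000⟩⟩ (bot17.hWU true) :=
  posBox_units (b := ⟨⟨0, 2, 2⟩, ⟨600, 601, 1000⟩, ⟨0, 501, 10000⟩, ⟨11500, 16000, 10000⟩⟩) (by decide +kernel) (posBox_join₀ bot17_wU1_1_0 bot17_wU1_1_1)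

theorem bot17_wU1 : PosBox ⟨⟨0, 1, 1⟩, ⟨600, 601, 1000⟩, ⟨0, 501, 10000⟩, ⟨7000, 16000, 10000⟩⟩ (bot17.hWU true) :=
  posBox_join₃ bot17_wU1_0 bot17_wU1_1

def bot17_wL1_0_0_0_0_0 : PosBox ⟨⟨0, 1, 1⟩, ⟨600, 601, 1000⟩, ⟨0, 31, 10000⟩, ⟨7000, 11500, 10000⟩⟩ (bot17.hWL true) :=
  posBox_of_check (c := ⟨382, ⟨6, 8, 13, 3⟩⟩) (by decide +kernel)

def bot17_wL1_0_0_0_0_1 : PosBox ⟨⟨0, 1, 1⟩, ⟨600, 601, 1000⟩, ⟨31, 62, 10000⟩, ⟨7000, 11500, 10000⟩⟩ (bot17.hWL true) :=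
  posBox_of_check (c := ⟨382, ⟨6, 8, 13, 3⟩⟩) (by decide +kernel)

theorem bot17_wL1_0_0_0_0 : PosBox ⟨⟨0, 1, 1⟩, ⟨600, 601, 1000⟩, ⟨0, 62, 10000⟩, ⟨7000, 11500, 10000⟩⟩ (bot17.hWL true) :=
  posBox_join₂ bot17_wL1_0_0_0_0_0 bot17_wL1_0_0_0_0_1

def bot17_wL1_0_0_0_1 : PosBox ⟨⟨0, 1, 1⟩, ⟨600, 601, 1000⟩, ⟨0, 62, 10000⟩, ⟨11500, 16000, 10000⟩⟩ (bot17.hWL true) :=
  posBox_of_check (c := ⟨382, ⟨6, 8, 13, 3⟩⟩) (by decide +kernel)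

theorem bot17_wL1_0_0_0 : PosBox ⟨⟨0, 1, 1⟩, ⟨600, 601, 1000⟩, ⟨0, 62, 10000⟩, ⟨7000, 16000, 10000⟩⟩ (bot17.hWL true) :=
  posBox_join₃ bot17_wL1_0_0_0_0 bot17_wL1_0_0_0_1

def bot17_wL1_0_0_1 : PosBox ⟨⟨0, 1, 1⟩, ⟨600, 601, 1000⟩, ⟨62, 125, 10000⟩, ⟨7000, 16000, 10000⟩⟩ (bot17.hWL true) :=
  posBox_of_check (c := ⟨382, ⟨6, 8, 13, 3⟩⟩) (by decide +kernel)

theorem bot17_wL1_0_0 : PosBox ⟨⟨0, 1, 1⟩, ⟨600, 601, 1000⟩, ⟨0, 125, 10000⟩, ⟨7000, 16000, 10000⟩⟩ (bot17.hWL true) :=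
  posBox_join₂ bot17_wL1_0_0_0 bot17_wL1_0_0_1

def bot17_wL1_0_1 : PosBox ⟨⟨0, 1, 1⟩, ⟨600, 601, 1000⟩, ⟨125, 250, 10000⟩, ⟨7000, 16000, 10000⟩⟩ (bot17.hWL true) :=
  posBox_of_check (c := ⟨382, ⟨6, 8, 13, 3⟩⟩) (by decide +kernel)

theorem bot17_wL1_0 : PosBox ⟨⟨0, 1, 1⟩, ⟨600, 601, 1000⟩, ⟨0, 250, 10000⟩, ⟨7000, 16000, 10000⟩⟩ (bot17.hWL true) :=
  posBox_join₂ bot17_wL1_0_0 bot17_wL1_0_1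

def bot17_wL1_1 : PosBox ⟨⟨0, 1, 1⟩, ⟨600, 601, 1000⟩, ⟨250, 501, 10000⟩, ⟨7000, 16000, 10000⟩⟩ (bot17.hWL true) :=
  posBox_of_check (c := ⟨383, ⟨6, 8, 13, 3⟩⟩) (by decide +kernel)

theorem bot17_wL1 : PosBox ⟨⟨0, 1, 1⟩, ⟨600, 601, 1000⟩, ⟨0, 501, 10000⟩, ⟨7000, 16000, 10000⟩⟩ (bot17.hWL true) :=
  posBox_join₂ bot17_wL1_0 bot17_wL1_1

def bot17_mueH : PosBox ⟨⟨0, 1, 1⟩, ⟨600, 601, 1000⟩, ⟨0, 501, 10000⟩, ⟨7000, 16000, 10000⟩⟩ (bot17.eH.μ) :=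
  posBox_of_check (c := ⟨19, ⟨0, 0, 0, 0⟩⟩) (by decide +kernel)

def bot17_mupL : PosBox ⟨⟨0, 1, 1⟩, ⟨600, 601, 1000⟩, ⟨0, 501, 10000⟩, ⟨7000, 16000, 10000⟩⟩ (bot17.pL.μ) :=
  posBox_of_check (c := ⟨5, ⟨0, 0, 0, 0⟩⟩) (by decide +kernel)

/-- The checks on the bounds. -/
theorem bot17_env : bot17.Env ⟨⟨0, 1, 1⟩, ⟨600, 601, 1000⟩, ⟨0, 501, 10000⟩, ⟨7000, 16000, 10000⟩⟩ where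
  p0 := bot17_p0
  den := Bool.forall_bool.2 ⟨bot17_den0, bot17_den1⟩
  gn := bot17_gn
  ev := Bool.forall_bool.2 ⟨bot17_ev0, bot17_ev1⟩
  eL := Bool.forall_bool.2 ⟨bot17_eL0, bot17_eL1⟩
  eL' := ⟨.inr rfl, .inr rfl⟩
  eH := Bool.forall_bool.2 ⟨bot17_eH0, bot17_eH1⟩
  eH' := ⟨.inl bot17_mueH, .inr rfl⟩
  pL := Bool.forall_bool.2 ⟨bot17_pL0, bot17_pL1⟩
  pL' := ⟨.inl bot17_mupL, .inr rfl⟩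
  pU := Bool.forall_bool.2 ⟨bot17_pU0, bot17_pU1⟩
  pU' := ⟨.inr rfl, .inr rfl⟩
  kU := Bool.forall_bool.2 ⟨bot17_kU0, bot17_kU1⟩
  kU' := ⟨.inr rfl, .inr rfl⟩
  kL := Bool.forall_bool.2 ⟨bot17_kL0, bot17_kL1⟩
  kL' := ⟨.inr rfl, .inr rfl⟩
  wU := Bool.forall_bool.2 ⟨bot17_wU0, bot17_wU1⟩
  wU' := ⟨.inr rfl, .inr rfl⟩
  wL := Bool.forall_bool.2 ⟨bot17_wL0, bot17_wL1⟩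
  wL' := ⟨.inr rfl, .inr rfl⟩

end Vale.Agent.P100.Calib.Closed.High
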