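import Vale.Agent.P100.Calib.SlabHighBotData

/-!
# Checks of the bounds of a piece of the tail
-/

set_option linter.defProp false

namespace Vale.Agent.P100.Calib.Closed.High

open BoxPos Large

def bot18_p0 : PosBox ⟨⟨0, 1, 1⟩, ⟨600, 601, 1000⟩, ⟨0, 501, 10000⟩, ⟨16000, 23000, 10000⟩⟩ (bot18.hP0) :=
  posBox_of_check (c := ⟨69, ⟨0, 2, 3, 1⟩⟩) (by decide +kernel)

def bot18_gn : PosBox ⟨⟨0, 1, 1⟩, ⟨600, 601, 1000⟩, ⟨0, 501, 10000⟩, ⟨16000, 23000, 10000⟩⟩ (bot18.hGn) :=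
  posBox_of_check (c := ⟨73, ⟨1, 1, 2, 2⟩⟩) (by decide +kernel)

def bot18_phi : PosBox ⟨⟨0, 1, 1⟩, ⟨600, 601, 1000⟩, ⟨0, 501, 10000⟩, ⟨16000, 23000, 10000⟩⟩ (botPhi bot18.u₀ xV) :=
  posBox_of_check (c := ⟨127, ⟨0, 0, 5, 3⟩⟩) (by decide +kernel)

def bot18_den0 : PosBox ⟨⟨0, 1, 1⟩, ⟨600, 601, 1000⟩, ⟨0, 501, 10000⟩, ⟨16000, 23000, 10000⟩⟩ (bot18.hDen false) :=
  posBox_of_check (c := ⟨91, ⟨2, 0, 4, 2⟩⟩) (by decide +kernel)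

def bot18_den1 : PosBox ⟨⟨0, 1, 1⟩, ⟨600, 601, 1000⟩, ⟨0, 501, 10000⟩, ⟨16000, 23000, 10000⟩⟩ (bot18.hDen true) :=
  posBox_of_check (c := ⟨94, ⟨3, 0, 3, 3⟩⟩) (by decide +kernel)

def bot18_ev0 : PosBox ⟨⟨0, 1, 1⟩, ⟨600, 601, 1000⟩, ⟨0, 501, 10000⟩, ⟨16000, 23000, 10000⟩⟩ (bot18.hEv false) :=
  posBox_of_check (c := ⟨203, ⟨4, 2, 8, 4⟩⟩) (by decide +kernel)

def bot18_eL0 : PosBox ⟨⟨0, 1, 1⟩, ⟨600, 601, 1000⟩, ⟨0, 501, 10000⟩, ⟨16000, 23000, 10000⟩⟩ (bot18.hEL false) :=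
  posBox_of_check (c := ⟨291, ⟨5, 6, 11, 6⟩⟩) (by decide +kernel)

def bot18_eH0 : PosBox ⟨⟨0, 1, 1⟩, ⟨600, 601, 1000⟩, ⟨0, 501, 10000⟩, ⟨16000, 23000, 10000⟩⟩ (bot18.hEH false) :=
  posBox_of_check (c := ⟨302, ⟨5, 6, 11, 6⟩⟩) (by decide +kernel)

def bot18_pL0 : PosBox ⟨⟨0, 1, 1⟩, ⟨600, 601, 1000⟩, ⟨0, 501, 10000⟩, ⟨16000, 23000, 10000⟩⟩ (bot18.hPL false) :=
  posBox_of_check (c := ⟨311, ⟨5, 6, 11, 7⟩⟩) (by decide +kernel)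

def bot18_pU0 : PosBox ⟨⟨0, 1, 1⟩, ⟨600, 601, 1000⟩, ⟨0, 501, 10000⟩, ⟨16000, 23000, 10000⟩⟩ (bot18.hPU false) :=
  posBox_of_check (c := ⟨314, ⟨5, 6, 11, 7⟩⟩) (by decide +kernel)

def bot18_kU0 : PosBox ⟨⟨0, 1, 1⟩, ⟨600, 601, 1000⟩, ⟨0, 501, 10000⟩, ⟨16000, 23000, 10000⟩⟩ (bot18.hKU false) :=
  posBox_of_check (c := ⟨308, ⟨5, 6, 11, 7⟩⟩) (by decide +kernel)

def bot18_kL0_0 : PosBox ⟨⟨0, 1, 1⟩, ⟨600, 601, 1000⟩, ⟨0, 250, 10000⟩, ⟨16000, 23000, 10000⟩⟩ (bot18.hKL false) :=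
  posBox_of_check (c := ⟨308, ⟨5, 6, 11, 7⟩⟩) (by decide +kernel)

def bot18_kL0_1 : PosBox ⟨⟨0, 1, 1⟩, ⟨600, 601, 1000⟩, ⟨250, 501, 10000⟩, ⟨16000, 23000, 10000⟩⟩ (bot18.hKL false) :=
  posBox_of_check (c := ⟨310, ⟨5, 6, 11, 7⟩⟩) (by decide +kernel)

theorem bot18_kL0 : PosBox ⟨⟨0, 1, 1⟩, ⟨600, 601, 1000⟩, ⟨0, 501, 10000⟩, ⟨16000, 23000, 10000⟩⟩ (bot18.hKL false) :=
  posBox_join₂ bot18_kL0_0 bot18_kL0_1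

def bot18_wU0_0 : PosBox ⟨⟨0, 1, 2⟩, ⟨600, 601, 1000⟩, ⟨0, 501, 10000⟩, ⟨16000, 23000, 10000⟩⟩ (bot18.hWU false) :=
  posBox_of_check (c := ⟨345, ⟨5, 8, 12, 7⟩⟩) (by decide +kernel)

def bot18_wU0_1 : PosBox ⟨⟨1, 2, 2⟩, ⟨600, 601, 1000⟩, ⟨0, 501, 10000⟩, ⟨16000, 23000, 10000⟩⟩ (bot18.hWU false) :=
  posBox_of_check (c := ⟨347, ⟨5, 8, 12, 7⟩⟩) (by decide +kernel)

def bot18_wU0 : PosBox ⟨⟨0, 1, 1⟩, ⟨600, 601, 1000⟩, ⟨0, 501, 10000⟩, ⟨16000, 23000, 10000⟩⟩ (bot18.hWU false) :=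
  posBox_units (b := ⟨⟨0, 2, 2⟩, ⟨600, 601, 1000⟩, ⟨0, 501, 10000⟩, ⟨16000, 23000, 10000⟩⟩) (by decide +kernel) (posBox_join₀ bot18_wU0_0 bot18_wU0_1)

def bot18_wL0 : PosBox ⟨⟨0, 1, 1⟩, ⟨600, 601, 1000⟩, ⟨0, 501, 10000⟩, ⟨16000, 23000, 10000⟩⟩ (bot18.hWL false) :=
  posBox_of_check (c := ⟨340, ⟨5, 8, 12, 7⟩⟩) (by decide +kernel)

def bot18_pV0 : PosBox ⟨⟨0, 1, 1⟩, ⟨600, 601, 1000⟩, ⟨0, 501, 10000⟩, ⟨16000, 23000, 10000⟩⟩ (({ bot18 with pU := bot18PU } : Piece).hPU false) :=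
  posBox_of_check (c := ⟨314, ⟨5, 6, 11, 7⟩⟩) (by decide +kernel)

def bot18_ev1 : PosBox ⟨⟨0, 1, 1⟩, ⟨600, 601, 1000⟩, ⟨0, 501, 10000⟩, ⟨16000, 23000, 10000⟩⟩ (bot18.hEv true) :=
  posBox_of_check (c := ⟨252, ⟨5, 2, 9, 6⟩⟩) (by decide +kernel)

def bot18_eL1 : PosBox ⟨⟨0, 1, 1⟩, ⟨600, 601, 1000⟩, ⟨0, 501, 10000⟩, ⟨16000, 23000, 10000⟩⟩ (bot18.hEL true) :=
  posBox_of_check (c := ⟨339, ⟨6, 6, 12, 8⟩⟩) (by decide +kernel)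

def bot18_eH1_0_0_0_0 : PosBox ⟨⟨0, 1, 1⟩, ⟨600, 601, 1000⟩, ⟨0, 31, 10000⟩, ⟨16000, 23000, 10000⟩⟩ (bot18.hEH true) :=
  posBox_of_check (c := ⟨350, ⟨6, 6, 12, 8⟩⟩) (by decide +kernel)

def bot18_eH1_0_0_0_1 : PosBox ⟨⟨0, 1, 1⟩, ⟨600, 601, 1000⟩, ⟨31, 62, 10000⟩, ⟨16000, 23000, 10000⟩⟩ (bot18.hEH true) :=
  posBox_of_check (c := ⟨350, ⟨6, 6, 12, 8⟩⟩) (by decide +kernel)

theorem bot18_eH1_0_0_0 : PosBox ⟨⟨0, 1, 1⟩, ⟨600, 601, 1000⟩, ⟨0, 62, 10000⟩, ⟨16000, 23000, 10000⟩⟩ (bot18.hEH true) :=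
  posBox_join₂ bot18_eH1_0_0_0_0 bot18_eH1_0_0_0_1

def bot18_eH1_0_0_1 : PosBox ⟨⟨0, 1, 1⟩, ⟨600, 601, 1000⟩, ⟨62, 125, 10000⟩, ⟨16000, 23000, 10000⟩⟩ (bot18.hEH true) :=
  posBox_of_check (c := ⟨350, ⟨6, 6, 12, 8⟩⟩) (by decide +kernel)

theorem bot18_eH1_0_0 : PosBox ⟨⟨0, 1, 1⟩, ⟨600, 601, 1000⟩, ⟨0, 125, 10000⟩, ⟨16000, 23000, 10000⟩⟩ (bot18.hEH true) :=
  posBox_join₂ bot18_eH1_0_0_0 bot18_eH1_0_0_1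

def bot18_eH1_0_1 : PosBox ⟨⟨0, 1, 1⟩, ⟨600, 601, 1000⟩, ⟨125, 250, 10000⟩, ⟨16000, 23000, 10000⟩⟩ (bot18.hEH true) :=
  posBox_of_check (c := ⟨351, ⟨6, 6, 12, 8⟩⟩) (by decide +kernel)

theorem bot18_eH1_0 : PosBox ⟨⟨0, 1, 1⟩, ⟨600, 601, 1000⟩, ⟨0, 250, 10000⟩, ⟨16000, 23000, 10000⟩⟩ (bot18.hEH true) :=
  posBox_join₂ bot18_eH1_0_0 bot18_eH1_0_1

def bot18_eH1_1 : PosBox ⟨⟨0, 1, 1⟩, ⟨600, 601, 1000⟩, ⟨250, 501, 10000⟩, ⟨16000, 23000, 10000⟩⟩ (bot18.hEH true) :=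
  posBox_of_check (c := ⟨351, ⟨6, 6, 12, 8⟩⟩) (by decide +kernel)

theorem bot18_eH1 : PosBox ⟨⟨0, 1, 1⟩, ⟨600, 601, 1000⟩, ⟨0, 501, 10000⟩, ⟨16000, 23000, 10000⟩⟩ (bot18.hEH true) :=
  posBox_join₂ bot18_eH1_0 bot18_eH1_1

def bot18_pL1 : PosBox ⟨⟨0, 1, 1⟩, ⟨600, 601, 1000⟩, ⟨0, 501, 10000⟩, ⟨16000, 23000, 10000⟩⟩ (bot18.hPL true) :=
  posBox_of_check (c := ⟨360, ⟨6, 6, 12, 9⟩⟩) (by decide +kernel)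

def bot18_pU1_0_0 : PosBox ⟨⟨0, 1, 4⟩, ⟨600, 601, 1000⟩, ⟨0, 501, 10000⟩, ⟨16000, 23000, 10000⟩⟩ (bot18.hPU true) :=
  posBox_of_check (c := ⟨370, ⟨6, 6, 12, 9⟩⟩) (by decide +kernel)

def bot18_pU1_0_1 : PosBox ⟨⟨1, 2, 4⟩, ⟨600, 601, 1000⟩, ⟨0, 501, 10000⟩, ⟨16000, 23000, 10000⟩⟩ (bot18.hPU true) :=
  posBox_of_check (c := ⟨372, ⟨6, 6, 12, 9⟩⟩) (by decide +kernel)

def bot18_pU1_0 : PosBox ⟨⟨0, 1, 2⟩, ⟨600, 601, 1000⟩, ⟨0, 501, 10000⟩, ⟨16000, 23000, 10000⟩⟩ (bot18.hPU true) :=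
  posBox_units (b := ⟨⟨0, 2, 4⟩, ⟨600, 601, 1000⟩, ⟨0, 501, 10000⟩, ⟨16000, 23000, 10000⟩⟩) (by decide +kernel) (posBox_join₀ bot18_pU1_0_0 bot18_pU1_0_1)

def bot18_pU1_1_0_0_0 : PosBox ⟨⟨1, 2, 2⟩, ⟨600, 601, 1000⟩, ⟨0, 62, 10000⟩, ⟨16000, 23000, 10000⟩⟩ (bot18.hPU true) :=
  posBox_of_check (c := ⟨368, ⟨6, 6, 12, 9⟩⟩) (by decide +kernel)

def bot18_pU1_1_0_0_1 : PosBox ⟨⟨1, 2, 2⟩, ⟨600, 601, 1000⟩, ⟨62, 125, 10000⟩, ⟨16000, 23000, 10000⟩⟩ (bot18.hPU true) :=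
  posBox_of_check (c := ⟨368, ⟨6, 6, 12, 9⟩⟩) (by decide +kernel)

theorem bot18_pU1_1_0_0 : PosBox ⟨⟨1, 2, 2⟩, ⟨600, 601, 1000⟩, ⟨0, 125, 10000⟩, ⟨16000, 23000, 10000⟩⟩ (bot18.hPU true) :=
  posBox_join₂ bot18_pU1_1_0_0_0 bot18_pU1_1_0_0_1

def bot18_pU1_1_0_1 : PosBox ⟨⟨1, 2, 2⟩, ⟨600, 601, 1000⟩, ⟨125, 250, 10000⟩, ⟨16000, 23000, 10000⟩⟩ (bot18.hPU true) :=
  posBox_of_check (c := ⟨369, ⟨6, 6, 12, 9⟩⟩) (by decide +kernel)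

theorem bot18_pU1_1_0 : PosBox ⟨⟨1, 2, 2⟩, ⟨600, 601, 1000⟩, ⟨0, 250, 10000⟩, ⟨16000, 23000, 10000⟩⟩ (bot18.hPU true) :=
  posBox_join₂ bot18_pU1_1_0_0 bot18_pU1_1_0_1

def bot18_pU1_1_1 : PosBox ⟨⟨1, 2, 2⟩, ⟨600, 601, 1000⟩, ⟨250, 501, 10000⟩, ⟨16000, 23000, 10000⟩⟩ (bot18.hPU true) :=
  posBox_of_check (c := ⟨369, ⟨6, 6, 12, 9⟩⟩) (by decide +kernel)

theorem bot18_pU1_1 : PosBox ⟨⟨1, 2, 2⟩, ⟨600, 601, 1000⟩, ⟨0, 501, 10000⟩, ⟨16000, 23000, 10000⟩⟩ (bot18.hPU true) :=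
  posBox_join₂ bot18_pU1_1_0 bot18_pU1_1_1

def bot18_pU1 : PosBox ⟨⟨0, 1, 1⟩, ⟨600, 601, 1000⟩, ⟨0, 501, 10000⟩, ⟨16000, 23000, 10000⟩⟩ (bot18.hPU true) :=
  posBox_units (b := ⟨⟨0, 2, 2⟩, ⟨600, 601, 1000⟩, ⟨0, 501, 10000⟩, ⟨16000, 23000, 10000⟩⟩) (by decide +kernel) (posBox_join₀ bot18_pU1_0 bot18_pU1_1)

def bot18_kU1 : PosBox ⟨⟨0, 1, 1⟩, ⟨600, 601, 1000⟩, ⟨0, 501, 10000⟩, ⟨16000, 23000, 10000⟩⟩ (bot18.hKU true) :=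
  posBox_of_check (c := ⟨356, ⟨6, 6, 12, 9⟩⟩) (by decide +kernel)

def bot18_kL1_0 : PosBox ⟨⟨0, 1, 1⟩, ⟨600, 601, 1000⟩, ⟨0, 250, 10000⟩, ⟨16000, 23000, 10000⟩⟩ (bot18.hKL true) :=
  posBox_of_check (c := ⟨357, ⟨6, 6, 12, 9⟩⟩) (by decide +kernel)

def bot18_kL1_1 : PosBox ⟨⟨0, 1, 1⟩, ⟨600, 601, 1000⟩, ⟨250, 501, 10000⟩, ⟨16000, 23000, 10000⟩⟩ (bot18.hKL true) :=
  posBox_of_check (c := ⟨359, ⟨6, 6, 12, 9⟩⟩) (by decide +kernel)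

theorem bot18_kL1 : PosBox ⟨⟨0, 1, 1⟩, ⟨600, 601, 1000⟩, ⟨0, 501, 10000⟩, ⟨16000, 23000, 10000⟩⟩ (bot18.hKL true) :=
  posBox_join₂ bot18_kL1_0 bot18_kL1_1

def bot18_wU1_0 : PosBox ⟨⟨0, 1, 2⟩, ⟨600, 601, 1000⟩, ⟨0, 501, 10000⟩, ⟨16000, 23000, 10000⟩⟩ (bot18.hWU true) :=
  posBox_of_check (c := ⟨394, ⟨6, 8, 13, 9⟩⟩) (by decide +kernel)

def bot18_wU1_1_0_0 : PosBox ⟨⟨4, 5, 8⟩, ⟨600, 601, 1000⟩, ⟨0, 501, 10000⟩, ⟨16000, 23000, 10000⟩⟩ (bot18.hWU true) :=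
  posBox_of_check (c := ⟨407, ⟨6, 8, 13, 9⟩⟩) (by decide +kernel)

def bot18_wU1_1_0_1 : PosBox ⟨⟨5, 6, 8⟩, ⟨600, 601, 1000⟩, ⟨0, 501, 10000⟩, ⟨16000, 23000, 10000⟩⟩ (bot18.hWU true) :=
  posBox_of_check (c := ⟨407, ⟨6, 8, 13, 9⟩⟩) (by decide +kernel)

def bot18_wU1_1_0 : PosBox ⟨⟨2, 3, 4⟩, ⟨600, 601, 1000⟩, ⟨0, 501, 10000⟩, ⟨16000, 23000, 10000⟩⟩ (bot18.hWU true) :=
  posBox_units (b := ⟨⟨4, 6, 8⟩, ⟨600, 601, 1000⟩, ⟨0, 501, 10000⟩, ⟨16000, 23000, 10000⟩⟩) (by decide +kernel) (posBox_join₀ bot18_wU1_1_0_0 bot18_wU1_1_0_1)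

def bot18_wU1_1_1 : PosBox ⟨⟨3, 4, 4⟩, ⟨600, 601, 1000⟩, ⟨0, 501, 10000⟩, ⟨16000, 23000, 10000⟩⟩ (bot18.hWU true) :=
  posBox_of_check (c := ⟨402, ⟨6, 8, 13, 9⟩⟩) (by decide +kernel)

def bot18_wU1_1 : PosBox ⟨⟨1, 2, 2⟩, ⟨600, 601, 1000⟩, ⟨0, 501, 10000⟩, ⟨16000, 23000, 10000⟩⟩ (bot18.hWU true) :=
  posBox_units (b := ⟨⟨2, 4, 4⟩, ⟨600, 601, 1000⟩, ⟨0, 501, 10000⟩, ⟨16000, 23000, 10000⟩⟩) (by decide +kernel) (posBox_join₀ bot18_wU1_1_0 bot18_wU1_1_1)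

def bot18_wU1 : PosBox ⟨⟨0, 1, 1⟩, ⟨600, 601, 1000⟩, ⟨0, 501, 10000⟩, ⟨16000, 23000, 10000⟩⟩ (bot18.hWU true) :=
  posBox_units (b := ⟨⟨0, 2, 2⟩, ⟨600, 601, 1000⟩, ⟨0, 501, 10000⟩, ⟨16000, 23000, 10000⟩⟩) (by decide +kernel) (posBox_join₀ bot18_wU1_0 bot18_wU1_1)

def bot18_wL1 : PosBox ⟨⟨0, 1, 1⟩, ⟨600, 601, 1000⟩, ⟨0, 501, 10000⟩, ⟨16000, 23000, 10000⟩⟩ (bot18.hWL true) :=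
  posBox_of_check (c := ⟨389, ⟨6, 8, 13, 9⟩⟩) (by decide +kernel)

def bot18_pV1_0_0 : PosBox ⟨⟨0, 1, 2⟩, ⟨600, 601, 1000⟩, ⟨0, 501, 10000⟩, ⟨16000, 19500, 10000⟩⟩ (({ bot18 with pU := bot18PU } : Piece).hPU true) :=
  posBox_of_check (c := ⟨366, ⟨6, 6, 12, 9⟩⟩) (by decide +kernel)

def bot18_pV1_0_1 : PosBox ⟨⟨0, 1, 2⟩, ⟨600, 601, 1000⟩, ⟨0, 501, 10000⟩, ⟨19500, 23000, 10000⟩⟩ (({ bot18 with pU := bot18PU } : Piece).hPU true) :=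
  posBox_of_check (c := ⟨367, ⟨6, 6, 12, 9⟩⟩) (by decide +kernel)

theorem bot18_pV1_0 : PosBox ⟨⟨0, 1, 2⟩, ⟨600, 601, 1000⟩, ⟨0, 501, 10000⟩, ⟨16000, 23000, 10000⟩⟩ (({ bot18 with pU := bot18PU } : Piece).hPU true) :=
  posBox_join₃ bot18_pV1_0_0 bot18_pV1_0_1

def bot18_pV1_1_0 : PosBox ⟨⟨1, 2, 2⟩, ⟨600, 601, 1000⟩, ⟨0, 501, 10000⟩, ⟨16000, 19500, 10000⟩⟩ (({ bot18 with pU := bot18PU } : Piece).hPU true) :=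
  posBox_of_check (c := ⟨369, ⟨6, 6, 12, 9⟩⟩) (by decide +kernel)

def bot18_pV1_1_1_0_0 : PosBox ⟨⟨1, 2, 2⟩, ⟨600, 601, 1000⟩, ⟨0, 125, 10000⟩, ⟨19500, 23000, 10000⟩⟩ (({ bot18 with pU := bot18PU } : Piece).hPU true) :=
  posBox_of_check (c := ⟨369, ⟨6, 6, 12, 9⟩⟩) (by decide +kernel)

def bot18_pV1_1_1_0_1 : PosBox ⟨⟨1, 2, 2⟩, ⟨600, 601, 1000⟩, ⟨125, 250, 10000⟩, ⟨19500, 23000, 10000⟩⟩ (({ bot18 with pU := bot18PU } : Piece).hPU true) :=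
  posBox_of_check (c := ⟨369, ⟨6, 6, 12, 9⟩⟩) (by decide +kernel)

theorem bot18_pV1_1_1_0 : PosBox ⟨⟨1, 2, 2⟩, ⟨600, 601, 1000⟩, ⟨0, 250, 10000⟩, ⟨19500, 23000, 10000⟩⟩ (({ bot18 with pU := bot18PU } : Piece).hPU true) :=
  posBox_join₂ bot18_pV1_1_1_0_0 bot18_pV1_1_1_0_1

def bot18_pV1_1_1_1 : PosBox ⟨⟨1, 2, 2⟩, ⟨600, 601, 1000⟩, ⟨250, 501, 10000⟩, ⟨19500, 23000, 10000⟩⟩ (({ bot18 with pU := bot18PU } : Piece).hPU true) :=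
  posBox_of_check (c := ⟨369, ⟨6, 6, 12, 9⟩⟩) (by decide +kernel)

theorem bot18_pV1_1_1 : PosBox ⟨⟨1, 2, 2⟩, ⟨600, 601, 1000⟩, ⟨0, 501, 10000⟩, ⟨19500, 23000, 10000⟩⟩ (({ bot18 with pU := bot18PU } : Piece).hPU true) :=
  posBox_join₂ bot18_pV1_1_1_0 bot18_pV1_1_1_1

theorem bot18_pV1_1 : PosBox ⟨⟨1, 2, 2⟩, ⟨600, 601, 1000⟩, ⟨0, 501, 10000⟩, ⟨16000, 23000, 10000⟩⟩ (({ bot18 with pU := bot18PU } : Piece).hPU true) :=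
  posBox_join₃ bot18_pV1_1_0 bot18_pV1_1_1

def bot18_pV1 : PosBox ⟨⟨0, 1, 1⟩, ⟨600, 601, 1000⟩, ⟨0, 501, 10000⟩, ⟨16000, 23000, 10000⟩⟩ (({ bot18 with pU := bot18PU } : Piece).hPU true) :=
  posBox_units (b := ⟨⟨0, 2, 2⟩, ⟨600, 601, 1000⟩, ⟨0, 501, 10000⟩, ⟨16000, 23000, 10000⟩⟩) (by decide +kernel) (posBox_join₀ bot18_pV1_0 bot18_pV1_1)

def bot18_mueH : PosBox ⟨⟨0, 1, 1⟩, ⟨600, 601, 1000⟩, ⟨0, 501, 10000⟩, ⟨16000, 23000, 10000⟩⟩ (bot18.eH.μ) :=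
  posBox_of_check (c := ⟨14, ⟨0, 0, 0, 0⟩⟩) (by decide +kernel)

def bot18_mupL : PosBox ⟨⟨0, 1, 1⟩, ⟨600, 601, 1000⟩, ⟨0, 501, 10000⟩, ⟨16000, 23000, 10000⟩⟩ (bot18.pL.μ) :=
  posBox_of_check (c := ⟨18, ⟨0, 0, 0, 0⟩⟩) (by decide +kernel)

/-- The checks on the bounds. -/
theorem bot18_env : bot18.Env ⟨⟨0, 1, 1⟩, ⟨600, 601, 1000⟩, ⟨0, 501, 10000⟩, ⟨16000, 23000, 10000⟩⟩ where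
  p0 := bot18_p0
  den := Bool.forall_bool.2 ⟨bot18_den0, bot18_den1⟩
  gn := bot18_gn
  ev := Bool.forall_bool.2 ⟨bot18_ev0, bot18_ev1⟩
  eL := Bool.forall_bool.2 ⟨bot18_eL0, bot18_eL1⟩
  eL' := ⟨.inr rfl, .inr rfl⟩
  eH := Bool.forall_bool.2 ⟨bot18_eH0, bot18_eH1⟩
  eH' := ⟨.inl bot18_mueH, .inr rfl⟩
  pL := Bool.forall_bool.2 ⟨bot18_pL0, bot18_pL1⟩
  pL' := ⟨.inl bot18_mupL, .inr rfl⟩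
  pU := Bool.forall_bool.2 ⟨bot18_pU0, bot18_pU1⟩
  pU' := ⟨.inr rfl, .inr rfl⟩
  kU := Bool.forall_bool.2 ⟨bot18_kU0, bot18_kU1⟩
  kU' := ⟨.inr rfl, .inr rfl⟩
  kL := Bool.forall_bool.2 ⟨bot18_kL0, bot18_kL1⟩
  kL' := ⟨.inr rfl, .inr rfl⟩
  wU := Bool.forall_bool.2 ⟨bot18_wU0, bot18_wU1⟩
  wU' := ⟨.inr rfl, .inr rfl⟩
  wL := Bool.forall_bool.2 ⟨bot18_wL0, bot18_wL1⟩
  wL' := ⟨.inr rfl, .inr rfl⟩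

/-- The checks with the bound above the cut. -/
theorem bot18_envU : ({ bot18 with pU := bot18PU } : Piece).Env ⟨⟨0, 1, 1⟩, ⟨600, 601, 1000⟩, ⟨0, 501, 10000⟩, ⟨16000, 23000, 10000⟩⟩ :=
  bot18_env.withU bot18PU (Bool.forall_bool.2 ⟨bot18_pV0, bot18_pV1⟩) ⟨.inr rfl, .inr rfl⟩

end Vale.Agent.P100.Calib.Closed.High
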