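import Vale.Agent.P100.Calib.SlabHighBotData

/-!
# Checks of the bounds of a piece of the tail
-/

set_option linter.defProp false

namespace Vale.Agent.P100.Calib.Closed.High

open BoxPos Large

def bot19_p0 : PosBox ⟨⟨0, 1, 1⟩, ⟨600, 601, 1000⟩, ⟨0, 501, 10000⟩, ⟨23000, 25800, 10000⟩⟩ (bot19.hP0) :=
  posBox_of_check (c := ⟨69, ⟨0, 2, 3, 1⟩⟩) (by decide +kernel)

def bot19_gn : PosBox ⟨⟨0, 1, 1⟩, ⟨600, 601, 1000⟩, ⟨0, 501, 10000⟩, ⟨23000, 25800, 10000⟩⟩ (bot19.hGn) :=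
  posBox_of_check (c := ⟨73, ⟨1, 1, 2, 2⟩⟩) (by decide +kernel)

def bot19_phi : PosBox ⟨⟨0, 1, 1⟩, ⟨600, 601, 1000⟩, ⟨0, 501, 10000⟩, ⟨23000, 25800, 10000⟩⟩ (botPhi bot19.u₀ xV) :=
  posBox_of_check (c := ⟨128, ⟨0, 0, 5, 3⟩⟩) (by decide +kernel)

def bot19_den0 : PosBox ⟨⟨0, 1, 1⟩, ⟨600, 601, 1000⟩, ⟨0, 501, 10000⟩, ⟨23000, 25800, 10000⟩⟩ (bot19.hDen false) :=
  posBox_of_check (c := ⟨92, ⟨2, 0, 4, 2⟩⟩) (by decide +kernel)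

def bot19_den1 : PosBox ⟨⟨0, 1, 1⟩, ⟨600, 601, 1000⟩, ⟨0, 501, 10000⟩, ⟨23000, 25800, 10000⟩⟩ (bot19.hDen true) :=
  posBox_of_check (c := ⟨95, ⟨3, 0, 3, 3⟩⟩) (by decide +kernel)

def bot19_ev0 : PosBox ⟨⟨0, 1, 1⟩, ⟨600, 601, 1000⟩, ⟨0, 501, 10000⟩, ⟨23000, 25800, 10000⟩⟩ (bot19.hEv false) :=
  posBox_of_check (c := ⟨204, ⟨4, 2, 8, 4⟩⟩) (by decide +kernel)

def bot19_eL0 : PosBox ⟨⟨0, 1, 1⟩, ⟨600, 601, 1000⟩, ⟨0, 501, 10000⟩, ⟨23000, 25800, 10000⟩⟩ (bot19.hEL false) :=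
  posBox_of_check (c := ⟨291, ⟨5, 6, 11, 6⟩⟩) (by decide +kernel)

def bot19_eH0 : PosBox ⟨⟨0, 1, 1⟩, ⟨600, 601, 1000⟩, ⟨0, 501, 10000⟩, ⟨23000, 25800, 10000⟩⟩ (bot19.hEH false) :=
  posBox_of_check (c := ⟨304, ⟨5, 6, 11, 6⟩⟩) (by decide +kernel)

def bot19_pL0 : PosBox ⟨⟨0, 1, 1⟩, ⟨600, 601, 1000⟩, ⟨0, 501, 10000⟩, ⟨23000, 25800, 10000⟩⟩ (bot19.hPL false) :=
  posBox_of_check (c := ⟨315, ⟨5, 6, 11, 7⟩⟩) (by decide +kernel)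

def bot19_pU0 : PosBox ⟨⟨0, 1, 1⟩, ⟨600, 601, 1000⟩, ⟨0, 501, 10000⟩, ⟨23000, 25800, 10000⟩⟩ (bot19.hPU false) :=
  posBox_of_check (c := ⟨313, ⟨5, 6, 11, 7⟩⟩) (by decide +kernel)

def bot19_kU0 : PosBox ⟨⟨0, 1, 1⟩, ⟨600, 601, 1000⟩, ⟨0, 501, 10000⟩, ⟨23000, 25800, 10000⟩⟩ (bot19.hKU false) :=
  posBox_of_check (c := ⟨308, ⟨5, 6, 11, 7⟩⟩) (by decide +kernel)

def bot19_kL0 : PosBox ⟨⟨0, 1, 1⟩, ⟨600, 601, 1000⟩, ⟨0, 501, 10000⟩, ⟨23000, 25800, 10000⟩⟩ (bot19.hKL false) :=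
  posBox_of_check (c := ⟨309, ⟨5, 6, 11, 7⟩⟩) (by decide +kernel)

def bot19_wU0_0_0 : PosBox ⟨⟨0, 1, 4⟩, ⟨600, 601, 1000⟩, ⟨0, 501, 10000⟩, ⟨23000, 25800, 10000⟩⟩ (bot19.hWU false) :=
  posBox_of_check (c := ⟨350, ⟨5, 8, 12, 7⟩⟩) (by decide +kernel)

def bot19_wU0_0_1 : PosBox ⟨⟨1, 2, 4⟩, ⟨600, 601, 1000⟩, ⟨0, 501, 10000⟩, ⟨23000, 25800, 10000⟩⟩ (bot19.hWU false) :=
  posBox_of_check (c := ⟨351, ⟨5, 8, 12, 7⟩⟩) (by decide +kernel)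

def bot19_wU0_0 : PosBox ⟨⟨0, 1, 2⟩, ⟨600, 601, 1000⟩, ⟨0, 501, 10000⟩, ⟨23000, 25800, 10000⟩⟩ (bot19.hWU false) :=
  posBox_units (b := ⟨⟨0, 2, 4⟩, ⟨600, 601, 1000⟩, ⟨0, 501, 10000⟩, ⟨23000, 25800, 10000⟩⟩) (by decide +kernel) (posBox_join₀ bot19_wU0_0_0 bot19_wU0_0_1)

def bot19_wU0_1 : PosBox ⟨⟨1, 2, 2⟩, ⟨600, 601, 1000⟩, ⟨0, 501, 10000⟩, ⟨23000, 25800, 10000⟩⟩ (bot19.hWU false) :=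
  posBox_of_check (c := ⟨347, ⟨5, 8, 12, 7⟩⟩) (by decide +kernel)

def bot19_wU0 : PosBox ⟨⟨0, 1, 1⟩, ⟨600, 601, 1000⟩, ⟨0, 501, 10000⟩, ⟨23000, 25800, 10000⟩⟩ (bot19.hWU false) :=
  posBox_units (b := ⟨⟨0, 2, 2⟩, ⟨600, 601, 1000⟩, ⟨0, 501, 10000⟩, ⟨23000, 25800, 10000⟩⟩) (by decide +kernel) (posBox_join₀ bot19_wU0_0 bot19_wU0_1)

def bot19_wL0 : PosBox ⟨⟨0, 1, 1⟩, ⟨600, 601, 1000⟩, ⟨0, 501, 10000⟩, ⟨23000, 25800, 10000⟩⟩ (bot19.hWL false) :=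
  posBox_of_check (c := ⟨342, ⟨5, 8, 12, 7⟩⟩) (by decide +kernel)

def bot19_pV0 : PosBox ⟨⟨0, 1, 1⟩, ⟨600, 601, 1000⟩, ⟨0, 501, 10000⟩, ⟨23000, 25800, 10000⟩⟩ (({ bot19 with pU := bot19PU } : Piece).hPU false) :=
  posBox_of_check (c := ⟨314, ⟨5, 6, 11, 7⟩⟩) (by decide +kernel)

def bot19_ev1 : PosBox ⟨⟨0, 1, 1⟩, ⟨600, 601, 1000⟩, ⟨0, 501, 10000⟩, ⟨23000, 25800, 10000⟩⟩ (bot19.hEv true) :=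
  posBox_of_check (c := ⟨252, ⟨5, 2, 9, 6⟩⟩) (by decide +kernel)

def bot19_eL1 : PosBox ⟨⟨0, 1, 1⟩, ⟨600, 601, 1000⟩, ⟨0, 501, 10000⟩, ⟨23000, 25800, 10000⟩⟩ (bot19.hEL true) :=
  posBox_of_check (c := ⟨339, ⟨6, 6, 12, 8⟩⟩) (by decide +kernel)

def bot19_eH1 : PosBox ⟨⟨0, 1, 1⟩, ⟨600, 601, 1000⟩, ⟨0, 501, 10000⟩, ⟨23000, 25800, 10000⟩⟩ (bot19.hEH true) :=
  posBox_of_check (c := ⟨352, ⟨6, 6, 12, 8⟩⟩) (by decide +kernel)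

def bot19_pL1 : PosBox ⟨⟨0, 1, 1⟩, ⟨600, 601, 1000⟩, ⟨0, 501, 10000⟩, ⟨23000, 25800, 10000⟩⟩ (bot19.hPL true) :=
  posBox_of_check (c := ⟨364, ⟨6, 6, 12, 9⟩⟩) (by decide +kernel)

def bot19_pU1_0_0 : PosBox ⟨⟨0, 1, 1⟩, ⟨600, 601, 1000⟩, ⟨0, 125, 10000⟩, ⟨23000, 25800, 10000⟩⟩ (bot19.hPU true) :=
  posBox_of_check (c := ⟨361, ⟨6, 6, 12, 9⟩⟩) (by decide +kernel)

def bot19_pU1_0_1 : PosBox ⟨⟨0, 1, 1⟩, ⟨600, 601, 1000⟩, ⟨125, 250, 10000⟩, ⟨23000, 25800, 10000⟩⟩ (bot19.hPU true) :=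
  posBox_of_check (c := ⟨362, ⟨6, 6, 12, 9⟩⟩) (by decide +kernel)

theorem bot19_pU1_0 : PosBox ⟨⟨0, 1, 1⟩, ⟨600, 601, 1000⟩, ⟨0, 250, 10000⟩, ⟨23000, 25800, 10000⟩⟩ (bot19.hPU true) :=
  posBox_join₂ bot19_pU1_0_0 bot19_pU1_0_1

def bot19_pU1_1 : PosBox ⟨⟨0, 1, 1⟩, ⟨600, 601, 1000⟩, ⟨250, 501, 10000⟩, ⟨23000, 25800, 10000⟩⟩ (bot19.hPU true) :=
  posBox_of_check (c := ⟨362, ⟨6, 6, 12, 9⟩⟩) (by decide +kernel)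

theorem bot19_pU1 : PosBox ⟨⟨0, 1, 1⟩, ⟨600, 601, 1000⟩, ⟨0, 501, 10000⟩, ⟨23000, 25800, 10000⟩⟩ (bot19.hPU true) :=
  posBox_join₂ bot19_pU1_0 bot19_pU1_1

def bot19_kU1 : PosBox ⟨⟨0, 1, 1⟩, ⟨600, 601, 1000⟩, ⟨0, 501, 10000⟩, ⟨23000, 25800, 10000⟩⟩ (bot19.hKU true) :=
  posBox_of_check (c := ⟨357, ⟨6, 6, 12, 9⟩⟩) (by decide +kernel)

def bot19_kL1_0 : PosBox ⟨⟨0, 1, 1⟩, ⟨600, 601, 1000⟩, ⟨0, 250, 10000⟩, ⟨23000, 25800, 10000⟩⟩ (bot19.hKL true) :=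
  posBox_of_check (c := ⟨357, ⟨6, 6, 12, 9⟩⟩) (by decide +kernel)

def bot19_kL1_1_0_0 : PosBox ⟨⟨0, 1, 1⟩, ⟨600, 601, 1000⟩, ⟨250, 312, 10000⟩, ⟨23000, 25800, 10000⟩⟩ (bot19.hKL true) :=
  posBox_of_check (c := ⟨358, ⟨6, 6, 12, 9⟩⟩) (by decide +kernel)

def bot19_kL1_1_0_1 : PosBox ⟨⟨0, 1, 1⟩, ⟨600, 601, 1000⟩, ⟨312, 375, 10000⟩, ⟨23000, 25800, 10000⟩⟩ (bot19.hKL true) :=
  posBox_of_check (c := ⟨359, ⟨6, 6, 12, 9⟩⟩) (by decide +kernel)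

theorem bot19_kL1_1_0 : PosBox ⟨⟨0, 1, 1⟩, ⟨600, 601, 1000⟩, ⟨250, 375, 10000⟩, ⟨23000, 25800, 10000⟩⟩ (bot19.hKL true) :=
  posBox_join₂ bot19_kL1_1_0_0 bot19_kL1_1_0_1

def bot19_kL1_1_1 : PosBox ⟨⟨0, 1, 1⟩, ⟨600, 601, 1000⟩, ⟨375, 501, 10000⟩, ⟨23000, 25800, 10000⟩⟩ (bot19.hKL true) :=
  posBox_of_check (c := ⟨359, ⟨6, 6, 12, 9⟩⟩) (by decide +kernel)

theorem bot19_kL1_1 : PosBox ⟨⟨0, 1, 1⟩, ⟨600, 601, 1000⟩, ⟨250, 501, 10000⟩, ⟨23000, 25800, 10000⟩⟩ (bot19.hKL true) :=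
  posBox_join₂ bot19_kL1_1_0 bot19_kL1_1_1

theorem bot19_kL1 : PosBox ⟨⟨0, 1, 1⟩, ⟨600, 601, 1000⟩, ⟨0, 501, 10000⟩, ⟨23000, 25800, 10000⟩⟩ (bot19.hKL true) :=
  posBox_join₂ bot19_kL1_0 bot19_kL1_1

def bot19_wU1_0 : PosBox ⟨⟨0, 1, 2⟩, ⟨600, 601, 1000⟩, ⟨0, 501, 10000⟩, ⟨23000, 25800, 10000⟩⟩ (bot19.hWU true) :=
  posBox_of_check (c := ⟨395, ⟨6, 8, 13, 9⟩⟩) (by decide +kernel)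

def bot19_wU1_1 : PosBox ⟨⟨1, 2, 2⟩, ⟨600, 601, 1000⟩, ⟨0, 501, 10000⟩, ⟨23000, 25800, 10000⟩⟩ (bot19.hWU true) :=
  posBox_of_check (c := ⟨397, ⟨6, 8, 13, 9⟩⟩) (by decide +kernel)

def bot19_wU1 : PosBox ⟨⟨0, 1, 1⟩, ⟨600, 601, 1000⟩, ⟨0, 501, 10000⟩, ⟨23000, 25800, 10000⟩⟩ (bot19.hWU true) :=
  posBox_units (b := ⟨⟨0, 2, 2⟩, ⟨600, 601, 1000⟩, ⟨0, 501, 10000⟩, ⟨23000, 25800, 10000⟩⟩) (by decide +kernel) (posBox_join₀ bot19_wU1_0 bot19_wU1_1)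

def bot19_wL1 : PosBox ⟨⟨0, 1, 1⟩, ⟨600, 601, 1000⟩, ⟨0, 501, 10000⟩, ⟨23000, 25800, 10000⟩⟩ (bot19.hWL true) :=
  posBox_of_check (c := ⟨391, ⟨6, 8, 13, 9⟩⟩) (by decide +kernel)

def bot19_pV1_0_0_0 : PosBox ⟨⟨0, 1, 1⟩, ⟨600, 601, 1000⟩, ⟨0, 62, 10000⟩, ⟨23000, 25800, 10000⟩⟩ (({ bot19 with pU := bot19PU } : Piece).hPU true) :=
  posBox_of_check (c := ⟨363, ⟨6, 6, 12, 9⟩⟩) (by decide +kernel)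

def bot19_pV1_0_0_1_0_0 : PosBox ⟨⟨0, 1, 1⟩, ⟨600, 601, 1000⟩, ⟨62, 77, 10000⟩, ⟨23000, 25800, 10000⟩⟩ (({ bot19 with pU := bot19PU } : Piece).hPU true) :=
  posBox_of_check (c := ⟨363, ⟨6, 6, 12, 9⟩⟩) (by decide +kernel)

def bot19_pV1_0_0_1_0_1 : PosBox ⟨⟨0, 1, 1⟩, ⟨600, 601, 1000⟩, ⟨77, 93, 10000⟩, ⟨23000, 25800, 10000⟩⟩ (({ bot19 with pU := bot19PU } : Piece).hPU true) :=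
  posBox_of_check (c := ⟨363, ⟨6, 6, 12, 9⟩⟩) (by decide +kernel)

theorem bot19_pV1_0_0_1_0 : PosBox ⟨⟨0, 1, 1⟩, ⟨600, 601, 1000⟩, ⟨62, 93, 10000⟩, ⟨23000, 25800, 10000⟩⟩ (({ bot19 with pU := bot19PU } : Piece).hPU true) :=
  posBox_join₂ bot19_pV1_0_0_1_0_0 bot19_pV1_0_0_1_0_1

def bot19_pV1_0_0_1_1 : PosBox ⟨⟨0, 1, 1⟩, ⟨600, 601, 1000⟩, ⟨93, 125, 10000⟩, ⟨23000, 25800, 10000⟩⟩ (({ bot19 with pU := bot19PU } : Piece).hPU true) :=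
  posBox_of_check (c := ⟨363, ⟨6, 6, 12, 9⟩⟩) (by decide +kernel)

theorem bot19_pV1_0_0_1 : PosBox ⟨⟨0, 1, 1⟩, ⟨600, 601, 1000⟩, ⟨62, 125, 10000⟩, ⟨23000, 25800, 10000⟩⟩ (({ bot19 with pU := bot19PU } : Piece).hPU true) :=
  posBox_join₂ bot19_pV1_0_0_1_0 bot19_pV1_0_0_1_1

theorem bot19_pV1_0_0 : PosBox ⟨⟨0, 1, 1⟩, ⟨600, 601, 1000⟩, ⟨0, 125, 10000⟩, ⟨23000, 25800, 10000⟩⟩ (({ bot19 with pU := bot19PU } : Piece).hPU true) :=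
  posBox_join₂ bot19_pV1_0_0_0 bot19_pV1_0_0_1

def bot19_pV1_0_1 : PosBox ⟨⟨0, 1, 1⟩, ⟨600, 601, 1000⟩, ⟨125, 250, 10000⟩, ⟨23000, 25800, 10000⟩⟩ (({ bot19 with pU := bot19PU } : Piece).hPU true) :=
  posBox_of_check (c := ⟨363, ⟨6, 6, 12, 9⟩⟩) (by decide +kernel)

theorem bot19_pV1_0 : PosBox ⟨⟨0, 1, 1⟩, ⟨600, 601, 1000⟩, ⟨0, 250, 10000⟩, ⟨23000, 25800, 10000⟩⟩ (({ bot19 with pU := bot19PU } : Piece).hPU true) :=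
  posBox_join₂ bot19_pV1_0_0 bot19_pV1_0_1

def bot19_pV1_1 : PosBox ⟨⟨0, 1, 1⟩, ⟨600, 601, 1000⟩, ⟨250, 501, 10000⟩, ⟨23000, 25800, 10000⟩⟩ (({ bot19 with pU := bot19PU } : Piece).hPU true) :=
  posBox_of_check (c := ⟨363, ⟨6, 6, 12, 9⟩⟩) (by decide +kernel)

theorem bot19_pV1 : PosBox ⟨⟨0, 1, 1⟩, ⟨600, 601, 1000⟩, ⟨0, 501, 10000⟩, ⟨23000, 25800, 10000⟩⟩ (({ bot19 with pU := bot19PU } : Piece).hPU true) :=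
  posBox_join₂ bot19_pV1_0 bot19_pV1_1

def bot19_mueH : PosBox ⟨⟨0, 1, 1⟩, ⟨600, 601, 1000⟩, ⟨0, 501, 10000⟩, ⟨23000, 25800, 10000⟩⟩ (bot19.eH.μ) :=
  posBox_of_check (c := ⟨14, ⟨0, 0, 0, 0⟩⟩) (by decide +kernel)

/-- The checks on the bounds. -/
theorem bot19_env : bot19.Env ⟨⟨0, 1, 1⟩, ⟨600, 601, 1000⟩, ⟨0, 501, 10000⟩, ⟨23000, 25800, 10000⟩⟩ where
  p0 := bot19_p0
  den := Bool.forall_bool.2 ⟨bot19_den0, bot19_den1⟩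
  gn := bot19_gn
  ev := Bool.forall_bool.2 ⟨bot19_ev0, bot19_ev1⟩
  eL := Bool.forall_bool.2 ⟨bot19_eL0, bot19_eL1⟩
  eL' := ⟨.inr rfl, .inr rfl⟩
  eH := Bool.forall_bool.2 ⟨bot19_eH0, bot19_eH1⟩
  eH' := ⟨.inl bot19_mueH, .inr rfl⟩
  pL := Bool.forall_bool.2 ⟨bot19_pL0, bot19_pL1⟩
  pL' := ⟨.inr rfl, .inr rfl⟩
  pU := Bool.forall_bool.2 ⟨bot19_pU0, bot19_pU1⟩
  pU' := ⟨.inr rfl, .inr rfl⟩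
  kU := Bool.forall_bool.2 ⟨bot19_kU0, bot19_kU1⟩
  kU' := ⟨.inr rfl, .inr rfl⟩
  kL := Bool.forall_bool.2 ⟨bot19_kL0, bot19_kL1⟩
  kL' := ⟨.inr rfl, .inr rfl⟩
  wU := Bool.forall_bool.2 ⟨bot19_wU0, bot19_wU1⟩
  wU' := ⟨.inr rfl, .inr rfl⟩
  wL := Bool.forall_bool.2 ⟨bot19_wL0, bot19_wL1⟩
  wL' := ⟨.inr rfl, .inr rfl⟩

/-- The checks with the bound above the cut. -/
theorem bot19_envU : ({ bot19 with pU := bot19PU } : Piece).Env ⟨⟨0, 1, 1⟩, ⟨600, 601, 1000⟩, ⟨0, 501, 10000⟩, ⟨23000, 25800, 10000⟩⟩ :=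
  bot19_env.withU bot19PU (Bool.forall_bool.2 ⟨bot19_pV0, bot19_pV1⟩) ⟨.inr rfl, .inr rfl⟩

end Vale.Agent.P100.Calib.Closed.High
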