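import Vale.Agent.P100.Calib.SlabHighBotData

/-!
# Checks of the bounds of a piece of the tail
-/

set_option linter.defProp false

namespace Vale.Agent.P100.Calib.Closed.High

open BoxPos Large

def bot20_p0 : PosBox ⟨⟨0, 1, 1⟩, ⟨600000, 600002, 1000000⟩, ⟨0, 20, 10000⟩, ⟨25800, 30500, 10000⟩⟩ (bot20.hP0) :=
  posBox_of_check (c := ⟨76, ⟨0, 2, 3, 1⟩⟩) (by decide +kernel)

def bot20_gn : PosBox ⟨⟨0, 1, 1⟩, ⟨600000, 600002, 1000000⟩, ⟨0, 20, 10000⟩, ⟨25800, 30500, 10000⟩⟩ (bot20.hGn) :=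
  posBox_of_check (c := ⟨83, ⟨1, 1, 2, 2⟩⟩) (by decide +kernel)

def bot20_phi : PosBox ⟨⟨0, 1, 1⟩, ⟨600000, 600002, 1000000⟩, ⟨0, 20, 10000⟩, ⟨25800, 30500, 10000⟩⟩ (botPhi bot20.u₀ xV) :=
  posBox_of_check (c := ⟨127, ⟨0, 0, 5, 3⟩⟩) (by decide +kernel)

def bot20_den0 : PosBox ⟨⟨0, 1, 1⟩, ⟨600000, 600002, 1000000⟩, ⟨0, 20, 10000⟩, ⟨25800, 30500, 10000⟩⟩ (bot20.hDen false) :=
  posBox_of_check (c := ⟨91, ⟨2, 0, 4, 2⟩⟩) (by decide +kernel)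

def bot20_den1 : PosBox ⟨⟨0, 1, 1⟩, ⟨600000, 600002, 1000000⟩, ⟨0, 20, 10000⟩, ⟨25800, 30500, 10000⟩⟩ (bot20.hDen true) :=
  posBox_of_check (c := ⟨95, ⟨3, 0, 3, 3⟩⟩) (by decide +kernel)

def bot20_ev0 : PosBox ⟨⟨0, 1, 1⟩, ⟨600000, 600002, 1000000⟩, ⟨0, 20, 10000⟩, ⟨25800, 30500, 10000⟩⟩ (bot20.hEv false) :=
  posBox_of_check (c := ⟨219, ⟨4, 2, 8, 4⟩⟩) (by decide +kernel)

def bot20_eL0 : PosBox ⟨⟨0, 1, 1⟩, ⟨600000, 600002, 1000000⟩, ⟨0, 20, 10000⟩, ⟨25800, 30500, 10000⟩⟩ (bot20.hEL false) :=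
  posBox_of_check (c := ⟨333, ⟨5, 6, 11, 6⟩⟩) (by decide +kernel)

def bot20_eH0 : PosBox ⟨⟨0, 1, 1⟩, ⟨600000, 600002, 1000000⟩, ⟨0, 20, 10000⟩, ⟨25800, 30500, 10000⟩⟩ (bot20.hEH false) :=
  posBox_of_check (c := ⟨346, ⟨5, 6, 11, 6⟩⟩) (by decide +kernel)

def bot20_pL0 : PosBox ⟨⟨0, 1, 1⟩, ⟨600000, 600002, 1000000⟩, ⟨0, 20, 10000⟩, ⟨25800, 30500, 10000⟩⟩ (bot20.hPL false) :=
  posBox_of_check (c := ⟨335, ⟨5, 6, 11, 6⟩⟩) (by decide +kernel)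

def bot20_pU0 : PosBox ⟨⟨0, 1, 1⟩, ⟨600000, 600002, 1000000⟩, ⟨0, 20, 10000⟩, ⟨25800, 30500, 10000⟩⟩ (bot20.hPU false) :=
  posBox_of_check (c := ⟨352, ⟨5, 6, 11, 7⟩⟩) (by decide +kernel)

def bot20_kU0 : PosBox ⟨⟨0, 1, 1⟩, ⟨600000, 600002, 1000000⟩, ⟨0, 20, 10000⟩, ⟨25800, 30500, 10000⟩⟩ (bot20.hKU false) :=
  posBox_of_check (c := ⟨339, ⟨5, 6, 11, 6⟩⟩) (by decide +kernel)

def bot20_kL0 : PosBox ⟨⟨0, 1, 1⟩, ⟨600000, 600002, 1000000⟩, ⟨0, 20, 10000⟩, ⟨25800, 30500, 10000⟩⟩ (bot20.hKL false) :=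
  posBox_of_check (c := ⟨340, ⟨5, 6, 11, 6⟩⟩) (by decide +kernel)

def bot20_wU0_0_0 : PosBox ⟨⟨0, 1, 4⟩, ⟨600000, 600002, 1000000⟩, ⟨0, 20, 10000⟩, ⟨25800, 30500, 10000⟩⟩ (bot20.hWU false) :=
  posBox_of_check (c := ⟨402, ⟨5, 8, 12, 7⟩⟩) (by decide +kernel)

def bot20_wU0_0_1 : PosBox ⟨⟨1, 2, 4⟩, ⟨600000, 600002, 1000000⟩, ⟨0, 20, 10000⟩, ⟨25800, 30500, 10000⟩⟩ (bot20.hWU false) :=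
  posBox_of_check (c := ⟨404, ⟨5, 8, 12, 7⟩⟩) (by decide +kernel)

def bot20_wU0_0 : PosBox ⟨⟨0, 1, 2⟩, ⟨600000, 600002, 1000000⟩, ⟨0, 20, 10000⟩, ⟨25800, 30500, 10000⟩⟩ (bot20.hWU false) :=
  posBox_units (b := ⟨⟨0, 2, 4⟩, ⟨600000, 600002, 1000000⟩, ⟨0, 20, 10000⟩, ⟨25800, 30500, 10000⟩⟩) (by decide +kernel) (posBox_join₀ bot20_wU0_0_0 bot20_wU0_0_1)

def bot20_wU0_1 : PosBox ⟨⟨1, 2, 2⟩, ⟨600000, 600002, 1000000⟩, ⟨0, 20, 10000⟩, ⟨25800, 30500, 10000⟩⟩ (bot20.hWU false) :=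
  posBox_of_check (c := ⟨400, ⟨5, 8, 12, 7⟩⟩) (by decide +kernel)

def bot20_wU0 : PosBox ⟨⟨0, 1, 1⟩, ⟨600000, 600002, 1000000⟩, ⟨0, 20, 10000⟩, ⟨25800, 30500, 10000⟩⟩ (bot20.hWU false) :=
  posBox_units (b := ⟨⟨0, 2, 2⟩, ⟨600000, 600002, 1000000⟩, ⟨0, 20, 10000⟩, ⟨25800, 30500, 10000⟩⟩) (by decide +kernel) (posBox_join₀ bot20_wU0_0 bot20_wU0_1)

def bot20_wL0 : PosBox ⟨⟨0, 1, 1⟩, ⟨600000, 600002, 1000000⟩, ⟨0, 20, 10000⟩, ⟨25800, 30500, 10000⟩⟩ (bot20.hWL false) :=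
  posBox_of_check (c := ⟨394, ⟨5, 8, 12, 7⟩⟩) (by decide +kernel)

def bot20_ev1 : PosBox ⟨⟨0, 1, 1⟩, ⟨600000, 600002, 1000000⟩, ⟨0, 20, 10000⟩, ⟨25800, 30500, 10000⟩⟩ (bot20.hEv true) :=
  posBox_of_check (c := ⟨268, ⟨5, 2, 9, 6⟩⟩) (by decide +kernel)

def bot20_eL1 : PosBox ⟨⟨0, 1, 1⟩, ⟨600000, 600002, 1000000⟩, ⟨0, 20, 10000⟩, ⟨25800, 30500, 10000⟩⟩ (bot20.hEL true) :=
  posBox_of_check (c := ⟨381, ⟨6, 6, 12, 8⟩⟩) (by decide +kernel)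

def bot20_eH1 : PosBox ⟨⟨0, 1, 1⟩, ⟨600000, 600002, 1000000⟩, ⟨0, 20, 10000⟩, ⟨25800, 30500, 10000⟩⟩ (bot20.hEH true) :=
  posBox_of_check (c := ⟨395, ⟨6, 6, 12, 8⟩⟩) (by decide +kernel)

def bot20_pL1 : PosBox ⟨⟨0, 1, 1⟩, ⟨600000, 600002, 1000000⟩, ⟨0, 20, 10000⟩, ⟨25800, 30500, 10000⟩⟩ (bot20.hPL true) :=
  posBox_of_check (c := ⟨384, ⟨6, 6, 12, 8⟩⟩) (by decide +kernel)

def bot20_pU1_0_0 : PosBox ⟨⟨0, 1, 2⟩, ⟨600000, 600002, 1000000⟩, ⟨0, 20, 10000⟩, ⟨25800, 28150, 10000⟩⟩ (bot20.hPU true) :=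
  posBox_of_check (c := ⟨405, ⟨6, 6, 12, 9⟩⟩) (by decide +kernel)

def bot20_pU1_0_1 : PosBox ⟨⟨0, 1, 2⟩, ⟨600000, 600002, 1000000⟩, ⟨0, 20, 10000⟩, ⟨28150, 30500, 10000⟩⟩ (bot20.hPU true) :=
  posBox_of_check (c := ⟨405, ⟨6, 6, 12, 9⟩⟩) (by decide +kernel)

theorem bot20_pU1_0 : PosBox ⟨⟨0, 1, 2⟩, ⟨600000, 600002, 1000000⟩, ⟨0, 20, 10000⟩, ⟨25800, 30500, 10000⟩⟩ (bot20.hPU true) :=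
  posBox_join₃ bot20_pU1_0_0 bot20_pU1_0_1

def bot20_pU1_1 : PosBox ⟨⟨1, 2, 2⟩, ⟨600000, 600002, 1000000⟩, ⟨0, 20, 10000⟩, ⟨25800, 30500, 10000⟩⟩ (bot20.hPU true) :=
  posBox_of_check (c := ⟨407, ⟨6, 6, 12, 9⟩⟩) (by decide +kernel)

def bot20_pU1 : PosBox ⟨⟨0, 1, 1⟩, ⟨600000, 600002, 1000000⟩, ⟨0, 20, 10000⟩, ⟨25800, 30500, 10000⟩⟩ (bot20.hPU true) :=
  posBox_units (b := ⟨⟨0, 2, 2⟩, ⟨600000, 600002, 1000000⟩, ⟨0, 20, 10000⟩, ⟨25800, 30500, 10000⟩⟩) (by decide +kernel) (posBox_join₀ bot20_pU1_0 bot20_pU1_1)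

def bot20_kU1 : PosBox ⟨⟨0, 1, 1⟩, ⟨600000, 600002, 1000000⟩, ⟨0, 20, 10000⟩, ⟨25800, 30500, 10000⟩⟩ (bot20.hKU true) :=
  posBox_of_check (c := ⟨388, ⟨6, 6, 12, 8⟩⟩) (by decide +kernel)

def bot20_kL1 : PosBox ⟨⟨0, 1, 1⟩, ⟨600000, 600002, 1000000⟩, ⟨0, 20, 10000⟩, ⟨25800, 30500, 10000⟩⟩ (bot20.hKL true) :=
  posBox_of_check (c := ⟨389, ⟨6, 6, 12, 8⟩⟩) (by decide +kernel)

def bot20_wU1_0 : PosBox ⟨⟨0, 1, 2⟩, ⟨600000, 600002, 1000000⟩, ⟨0, 20, 10000⟩, ⟨25800, 30500, 10000⟩⟩ (bot20.hWU true) :=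
  posBox_of_check (c := ⟨447, ⟨6, 8, 13, 9⟩⟩) (by decide +kernel)

def bot20_wU1_1 : PosBox ⟨⟨1, 2, 2⟩, ⟨600000, 600002, 1000000⟩, ⟨0, 20, 10000⟩, ⟨25800, 30500, 10000⟩⟩ (bot20.hWU true) :=
  posBox_of_check (c := ⟨450, ⟨6, 8, 13, 9⟩⟩) (by decide +kernel)

def bot20_wU1 : PosBox ⟨⟨0, 1, 1⟩, ⟨600000, 600002, 1000000⟩, ⟨0, 20, 10000⟩, ⟨25800, 30500, 10000⟩⟩ (bot20.hWU true) :=
  posBox_units (b := ⟨⟨0, 2, 2⟩, ⟨600000, 600002, 1000000⟩, ⟨0, 20, 10000⟩, ⟨25800, 30500, 10000⟩⟩) (by decide +kernel) (posBox_join₀ bot20_wU1_0 bot20_wU1_1)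

def bot20_wL1 : PosBox ⟨⟨0, 1, 1⟩, ⟨600000, 600002, 1000000⟩, ⟨0, 20, 10000⟩, ⟨25800, 30500, 10000⟩⟩ (bot20.hWL true) :=
  posBox_of_check (c := ⟨443, ⟨6, 8, 13, 9⟩⟩) (by decide +kernel)

def bot20_mueH : PosBox ⟨⟨0, 1, 1⟩, ⟨600000, 600002, 1000000⟩, ⟨0, 20, 10000⟩, ⟨25800, 30500, 10000⟩⟩ (bot20.eH.μ) :=
  posBox_of_check (c := ⟨14, ⟨0, 0, 0, 0⟩⟩) (by decide +kernel)

def bot20_mupL : PosBox ⟨⟨0, 1, 1⟩, ⟨600000, 600002, 1000000⟩, ⟨0, 20, 10000⟩, ⟨25800, 30500, 10000⟩⟩ (bot20.pL.μ) :=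
  posBox_of_check (c := ⟨5, ⟨0, 0, 0, 0⟩⟩) (by decide +kernel)

/-- The checks on the bounds. -/
theorem bot20_env : bot20.Env ⟨⟨0, 1, 1⟩, ⟨600000, 600002, 1000000⟩, ⟨0, 20, 10000⟩, ⟨25800, 30500, 10000⟩⟩ where
  p0 := bot20_p0
  den := Bool.forall_bool.2 ⟨bot20_den0, bot20_den1⟩
  gn := bot20_gn
  ev := Bool.forall_bool.2 ⟨bot20_ev0, bot20_ev1⟩
  eL := Bool.forall_bool.2 ⟨bot20_eL0, bot20_eL1⟩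
  eL' := ⟨.inr rfl, .inr rfl⟩
  eH := Bool.forall_bool.2 ⟨bot20_eH0, bot20_eH1⟩
  eH' := ⟨.inl bot20_mueH, .inr rfl⟩
  pL := Bool.forall_bool.2 ⟨bot20_pL0, bot20_pL1⟩
  pL' := ⟨.inl bot20_mupL, .inr rfl⟩
  pU := Bool.forall_bool.2 ⟨bot20_pU0, bot20_pU1⟩
  pU' := ⟨.inr rfl, .inr rfl⟩
  kU := Bool.forall_bool.2 ⟨bot20_kU0, bot20_kU1⟩
  kU' := ⟨.inr rfl, .inr rfl⟩
  kL := Bool.forall_bool.2 ⟨bot20_kL0, bot20_kL1⟩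
  kL' := ⟨.inr rfl, .inr rfl⟩
  wU := Bool.forall_bool.2 ⟨bot20_wU0, bot20_wU1⟩
  wU' := ⟨.inr rfl, .inr rfl⟩
  wL := Bool.forall_bool.2 ⟨bot20_wL0, bot20_wL1⟩
  wL' := ⟨.inr rfl, .inr rfl⟩

end Vale.Agent.P100.Calib.Closed.High
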