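import Vale.Agent.P100.Calib.SlabHighBotData

/-!
# Checks of the bounds of a piece of the tail
-/

set_option linter.defProp false

namespace Vale.Agent.P100.Calib.Closed.High

open BoxPos Large

def bot21_p0 : PosBox ⟨⟨0, 1, 1⟩, ⟨600000, 600002, 1000000⟩, ⟨0, 20, 10000⟩, ⟨30500, 33100, 10000⟩⟩ (bot21.hP0) :=
  posBox_of_check (c := ⟨76, ⟨0, 2, 3, 1⟩⟩) (by decide +kernel)

def bot21_gn : PosBox ⟨⟨0, 1, 1⟩, ⟨600000, 600002, 1000000⟩, ⟨0, 20, 10000⟩, ⟨30500, 33100, 10000⟩⟩ (bot21.hGn) :=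
  posBox_of_check (c := ⟨83, ⟨1, 1, 2, 2⟩⟩) (by decide +kernel)

def bot21_phi : PosBox ⟨⟨0, 1, 1⟩, ⟨600000, 600002, 1000000⟩, ⟨0, 20, 10000⟩, ⟨30500, 33100, 10000⟩⟩ (botPhi bot21.u₀ xV) :=
  posBox_of_check (c := ⟨127, ⟨0, 0, 5, 3⟩⟩) (by decide +kernel)

def bot21_den0 : PosBox ⟨⟨0, 1, 1⟩, ⟨600000, 600002, 1000000⟩, ⟨0, 20, 10000⟩, ⟨30500, 33100, 10000⟩⟩ (bot21.hDen false) :=
  posBox_of_check (c := ⟨91, ⟨2, 0, 4, 2⟩⟩) (by decide +kernel)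

def bot21_den1 : PosBox ⟨⟨0, 1, 1⟩, ⟨600000, 600002, 1000000⟩, ⟨0, 20, 10000⟩, ⟨30500, 33100, 10000⟩⟩ (bot21.hDen true) :=
  posBox_of_check (c := ⟨95, ⟨3, 0, 3, 3⟩⟩) (by decide +kernel)

def bot21_ev0 : PosBox ⟨⟨0, 1, 1⟩, ⟨600000, 600002, 1000000⟩, ⟨0, 20, 10000⟩, ⟨30500, 33100, 10000⟩⟩ (bot21.hEv false) :=
  posBox_of_check (c := ⟨219, ⟨4, 2, 8, 4⟩⟩) (by decide +kernel)

def bot21_eL0 : PosBox ⟨⟨0, 1, 1⟩, ⟨600000, 600002, 1000000⟩, ⟨0, 20, 10000⟩, ⟨30500, 33100, 10000⟩⟩ (bot21.hEL false) :=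
  posBox_of_check (c := ⟨332, ⟨5, 6, 11, 6⟩⟩) (by decide +kernel)

def bot21_eH0 : PosBox ⟨⟨0, 1, 1⟩, ⟨600000, 600002, 1000000⟩, ⟨0, 20, 10000⟩, ⟨30500, 33100, 10000⟩⟩ (bot21.hEH false) :=
  posBox_of_check (c := ⟨346, ⟨5, 6, 11, 6⟩⟩) (by decide +kernel)

def bot21_pL0 : PosBox ⟨⟨0, 1, 1⟩, ⟨600000, 600002, 1000000⟩, ⟨0, 20, 10000⟩, ⟨30500, 33100, 10000⟩⟩ (bot21.hPL false) :=
  posBox_of_check (c := ⟨351, ⟨5, 6, 11, 7⟩⟩) (by decide +kernel)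

def bot21_pU0 : PosBox ⟨⟨0, 1, 1⟩, ⟨600000, 600002, 1000000⟩, ⟨0, 20, 10000⟩, ⟨30500, 33100, 10000⟩⟩ (bot21.hPU false) :=
  posBox_of_check (c := ⟨352, ⟨5, 6, 11, 7⟩⟩) (by decide +kernel)

def bot21_kU0 : PosBox ⟨⟨0, 1, 1⟩, ⟨600000, 600002, 1000000⟩, ⟨0, 20, 10000⟩, ⟨30500, 33100, 10000⟩⟩ (bot21.hKU false) :=
  posBox_of_check (c := ⟨340, ⟨5, 6, 11, 6⟩⟩) (by decide +kernel)

def bot21_kL0 : PosBox ⟨⟨0, 1, 1⟩, ⟨600000, 600002, 1000000⟩, ⟨0, 20, 10000⟩, ⟨30500, 33100, 10000⟩⟩ (bot21.hKL false) :=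
  posBox_of_check (c := ⟨339, ⟨5, 6, 11, 6⟩⟩) (by decide +kernel)

def bot21_wU0_0 : PosBox ⟨⟨0, 1, 2⟩, ⟨600000, 600002, 1000000⟩, ⟨0, 20, 10000⟩, ⟨30500, 33100, 10000⟩⟩ (bot21.hWU false) :=
  posBox_of_check (c := ⟨398, ⟨5, 8, 12, 7⟩⟩) (by decide +kernel)

def bot21_wU0_1 : PosBox ⟨⟨1, 2, 2⟩, ⟨600000, 600002, 1000000⟩, ⟨0, 20, 10000⟩, ⟨30500, 33100, 10000⟩⟩ (bot21.hWU false) :=
  posBox_of_check (c := ⟨400, ⟨5, 8, 12, 7⟩⟩) (by decide +kernel)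

def bot21_wU0 : PosBox ⟨⟨0, 1, 1⟩, ⟨600000, 600002, 1000000⟩, ⟨0, 20, 10000⟩, ⟨30500, 33100, 10000⟩⟩ (bot21.hWU false) :=
  posBox_units (b := ⟨⟨0, 2, 2⟩, ⟨600000, 600002, 1000000⟩, ⟨0, 20, 10000⟩, ⟨30500, 33100, 10000⟩⟩) (by decide +kernel) (posBox_join₀ bot21_wU0_0 bot21_wU0_1)

def bot21_wL0 : PosBox ⟨⟨0, 1, 1⟩, ⟨600000, 600002, 1000000⟩, ⟨0, 20, 10000⟩, ⟨30500, 33100, 10000⟩⟩ (bot21.hWL false) :=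
  posBox_of_check (c := ⟨394, ⟨5, 8, 12, 7⟩⟩) (by decide +kernel)

def bot21_pV0 : PosBox ⟨⟨0, 1, 1⟩, ⟨600000, 600002, 1000000⟩, ⟨0, 20, 10000⟩, ⟨30500, 33100, 10000⟩⟩ (({ bot21 with pU := bot21PU } : Piece).hPU false) :=
  posBox_of_check (c := ⟨355, ⟨5, 6, 11, 7⟩⟩) (by decide +kernel)

def bot21_ev1 : PosBox ⟨⟨0, 1, 1⟩, ⟨600000, 600002, 1000000⟩, ⟨0, 20, 10000⟩, ⟨30500, 33100, 10000⟩⟩ (bot21.hEv true) :=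
  posBox_of_check (c := ⟨268, ⟨5, 2, 9, 6⟩⟩) (by decide +kernel)

def bot21_eL1 : PosBox ⟨⟨0, 1, 1⟩, ⟨600000, 600002, 1000000⟩, ⟨0, 20, 10000⟩, ⟨30500, 33100, 10000⟩⟩ (bot21.hEL true) :=
  posBox_of_check (c := ⟨381, ⟨6, 6, 12, 8⟩⟩) (by decide +kernel)

def bot21_eH1 : PosBox ⟨⟨0, 1, 1⟩, ⟨600000, 600002, 1000000⟩, ⟨0, 20, 10000⟩, ⟨30500, 33100, 10000⟩⟩ (bot21.hEH true) :=
  posBox_of_check (c := ⟨395, ⟨6, 6, 12, 8⟩⟩) (by decide +kernel)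

def bot21_pL1 : PosBox ⟨⟨0, 1, 1⟩, ⟨600000, 600002, 1000000⟩, ⟨0, 20, 10000⟩, ⟨30500, 33100, 10000⟩⟩ (bot21.hPL true) :=
  posBox_of_check (c := ⟨401, ⟨6, 6, 12, 9⟩⟩) (by decide +kernel)

def bot21_pU1_0 : PosBox ⟨⟨0, 1, 1⟩, ⟨600000, 600002, 1000000⟩, ⟨0, 20, 10000⟩, ⟨30500, 31800, 10000⟩⟩ (bot21.hPU true) :=
  posBox_of_check (c := ⟨401, ⟨6, 6, 12, 9⟩⟩) (by decide +kernel)

def bot21_pU1_1_0_0 : PosBox ⟨⟨0, 1, 4⟩, ⟨600000, 600002, 1000000⟩, ⟨0, 20, 10000⟩, ⟨31800, 33100, 10000⟩⟩ (bot21.hPU true) :=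
  posBox_of_check (c := ⟨409, ⟨6, 6, 12, 9⟩⟩) (by decide +kernel)

def bot21_pU1_1_0_1 : PosBox ⟨⟨1, 2, 4⟩, ⟨600000, 600002, 1000000⟩, ⟨0, 20, 10000⟩, ⟨31800, 33100, 10000⟩⟩ (bot21.hPU true) :=
  posBox_of_check (c := ⟨411, ⟨6, 6, 12, 9⟩⟩) (by decide +kernel)

def bot21_pU1_1_0 : PosBox ⟨⟨0, 1, 2⟩, ⟨600000, 600002, 1000000⟩, ⟨0, 20, 10000⟩, ⟨31800, 33100, 10000⟩⟩ (bot21.hPU true) :=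
  posBox_units (b := ⟨⟨0, 2, 4⟩, ⟨600000, 600002, 1000000⟩, ⟨0, 20, 10000⟩, ⟨31800, 33100, 10000⟩⟩) (by decide +kernel) (posBox_join₀ bot21_pU1_1_0_0 bot21_pU1_1_0_1)

def bot21_pU1_1_1 : PosBox ⟨⟨1, 2, 2⟩, ⟨600000, 600002, 1000000⟩, ⟨0, 20, 10000⟩, ⟨31800, 33100, 10000⟩⟩ (bot21.hPU true) :=
  posBox_of_check (c := ⟨407, ⟨6, 6, 12, 9⟩⟩) (by decide +kernel)

def bot21_pU1_1 : PosBox ⟨⟨0, 1, 1⟩, ⟨600000, 600002, 1000000⟩, ⟨0, 20, 10000⟩, ⟨31800, 33100, 10000⟩⟩ (bot21.hPU true) :=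
  posBox_units (b := ⟨⟨0, 2, 2⟩, ⟨600000, 600002, 1000000⟩, ⟨0, 20, 10000⟩, ⟨31800, 33100, 10000⟩⟩) (by decide +kernel) (posBox_join₀ bot21_pU1_1_0 bot21_pU1_1_1)

theorem bot21_pU1 : PosBox ⟨⟨0, 1, 1⟩, ⟨600000, 600002, 1000000⟩, ⟨0, 20, 10000⟩, ⟨30500, 33100, 10000⟩⟩ (bot21.hPU true) :=
  posBox_join₃ bot21_pU1_0 bot21_pU1_1

def bot21_kU1 : PosBox ⟨⟨0, 1, 1⟩, ⟨600000, 600002, 1000000⟩, ⟨0, 20, 10000⟩, ⟨30500, 33100, 10000⟩⟩ (bot21.hKU true) :=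
  posBox_of_check (c := ⟨389, ⟨6, 6, 12, 8⟩⟩) (by decide +kernel)

def bot21_kL1 : PosBox ⟨⟨0, 1, 1⟩, ⟨600000, 600002, 1000000⟩, ⟨0, 20, 10000⟩, ⟨30500, 33100, 10000⟩⟩ (bot21.hKL true) :=
  posBox_of_check (c := ⟨388, ⟨6, 6, 12, 8⟩⟩) (by decide +kernel)

def bot21_wU1_0 : PosBox ⟨⟨0, 1, 2⟩, ⟨600000, 600002, 1000000⟩, ⟨0, 20, 10000⟩, ⟨30500, 33100, 10000⟩⟩ (bot21.hWU true) :=
  posBox_of_check (c := ⟨447, ⟨6, 8, 13, 9⟩⟩) (by decide +kernel)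

def bot21_wU1_1_0 : PosBox ⟨⟨2, 3, 4⟩, ⟨600000, 600002, 1000000⟩, ⟨0, 20, 10000⟩, ⟨30500, 33100, 10000⟩⟩ (bot21.hWU true) :=
  posBox_of_check (c := ⟨454, ⟨6, 8, 13, 9⟩⟩) (by decide +kernel)

def bot21_wU1_1_1 : PosBox ⟨⟨3, 4, 4⟩, ⟨600000, 600002, 1000000⟩, ⟨0, 20, 10000⟩, ⟨30500, 33100, 10000⟩⟩ (bot21.hWU true) :=
  posBox_of_check (c := ⟨455, ⟨6, 8, 13, 9⟩⟩) (by decide +kernel)

def bot21_wU1_1 : PosBox ⟨⟨1, 2, 2⟩, ⟨600000, 600002, 1000000⟩, ⟨0, 20, 10000⟩, ⟨30500, 33100, 10000⟩⟩ (bot21.hWU true) :=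
  posBox_units (b := ⟨⟨2, 4, 4⟩, ⟨600000, 600002, 1000000⟩, ⟨0, 20, 10000⟩, ⟨30500, 33100, 10000⟩⟩) (by decide +kernel) (posBox_join₀ bot21_wU1_1_0 bot21_wU1_1_1)

def bot21_wU1 : PosBox ⟨⟨0, 1, 1⟩, ⟨600000, 600002, 1000000⟩, ⟨0, 20, 10000⟩, ⟨30500, 33100, 10000⟩⟩ (bot21.hWU true) :=
  posBox_units (b := ⟨⟨0, 2, 2⟩, ⟨600000, 600002, 1000000⟩, ⟨0, 20, 10000⟩, ⟨30500, 33100, 10000⟩⟩) (by decide +kernel) (posBox_join₀ bot21_wU1_0 bot21_wU1_1)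

def bot21_wL1 : PosBox ⟨⟨0, 1, 1⟩, ⟨600000, 600002, 1000000⟩, ⟨0, 20, 10000⟩, ⟨30500, 33100, 10000⟩⟩ (bot21.hWL true) :=
  posBox_of_check (c := ⟨444, ⟨6, 8, 13, 9⟩⟩) (by decide +kernel)

def bot21_pV1_0 : PosBox ⟨⟨0, 1, 1⟩, ⟨600000, 600002, 1000000⟩, ⟨0, 10, 10000⟩, ⟨30500, 33100, 10000⟩⟩ (({ bot21 with pU := bot21PU } : Piece).hPU true) :=
  posBox_of_check (c := ⟨404, ⟨6, 6, 12, 9⟩⟩) (by decide +kernel)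

def bot21_pV1_1_0_0 : PosBox ⟨⟨0, 1, 1⟩, ⟨600000, 600002, 1000000⟩, ⟨10, 15, 10000⟩, ⟨30500, 31800, 10000⟩⟩ (({ bot21 with pU := bot21PU } : Piece).hPU true) :=
  posBox_of_check (c := ⟨404, ⟨6, 6, 12, 9⟩⟩) (by decide +kernel)

def bot21_pV1_1_0_1 : PosBox ⟨⟨0, 1, 1⟩, ⟨600000, 600002, 1000000⟩, ⟨15, 20, 10000⟩, ⟨30500, 31800, 10000⟩⟩ (({ bot21 with pU := bot21PU } : Piece).hPU true) :=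
  posBox_of_check (c := ⟨404, ⟨6, 6, 12, 9⟩⟩) (by decide +kernel)

theorem bot21_pV1_1_0 : PosBox ⟨⟨0, 1, 1⟩, ⟨600000, 600002, 1000000⟩, ⟨10, 20, 10000⟩, ⟨30500, 31800, 10000⟩⟩ (({ bot21 with pU := bot21PU } : Piece).hPU true) :=
  posBox_join₂ bot21_pV1_1_0_0 bot21_pV1_1_0_1

def bot21_pV1_1_1 : PosBox ⟨⟨0, 1, 1⟩, ⟨600000, 600002, 1000000⟩, ⟨10, 20, 10000⟩, ⟨31800, 33100, 10000⟩⟩ (({ bot21 with pU := bot21PU } : Piece).hPU true) :=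
  posBox_of_check (c := ⟨404, ⟨6, 6, 12, 9⟩⟩) (by decide +kernel)

theorem bot21_pV1_1 : PosBox ⟨⟨0, 1, 1⟩, ⟨600000, 600002, 1000000⟩, ⟨10, 20, 10000⟩, ⟨30500, 33100, 10000⟩⟩ (({ bot21 with pU := bot21PU } : Piece).hPU true) :=
  posBox_join₃ bot21_pV1_1_0 bot21_pV1_1_1

theorem bot21_pV1 : PosBox ⟨⟨0, 1, 1⟩, ⟨600000, 600002, 1000000⟩, ⟨0, 20, 10000⟩, ⟨30500, 33100, 10000⟩⟩ (({ bot21 with pU := bot21PU } : Piece).hPU true) :=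
  posBox_join₂ bot21_pV1_0 bot21_pV1_1

def bot21_mueH : PosBox ⟨⟨0, 1, 1⟩, ⟨600000, 600002, 1000000⟩, ⟨0, 20, 10000⟩, ⟨30500, 33100, 10000⟩⟩ (bot21.eH.μ) :=
  posBox_of_check (c := ⟨14, ⟨0, 0, 0, 0⟩⟩) (by decide +kernel)

/-- The checks on the bounds. -/
theorem bot21_env : bot21.Env ⟨⟨0, 1, 1⟩, ⟨600000, 600002, 1000000⟩, ⟨0, 20, 10000⟩, ⟨30500, 33100, 10000⟩⟩ where
  p0 := bot21_p0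
  den := Bool.forall_bool.2 ⟨bot21_den0, bot21_den1⟩
  gn := bot21_gn
  ev := Bool.forall_bool.2 ⟨bot21_ev0, bot21_ev1⟩
  eL := Bool.forall_bool.2 ⟨bot21_eL0, bot21_eL1⟩
  eL' := ⟨.inr rfl, .inr rfl⟩
  eH := Bool.forall_bool.2 ⟨bot21_eH0, bot21_eH1⟩
  eH' := ⟨.inl bot21_mueH, .inr rfl⟩
  pL := Bool.forall_bool.2 ⟨bot21_pL0, bot21_pL1⟩
  pL' := ⟨.inr rfl, .inr rfl⟩
  pU := Bool.forall_bool.2 ⟨bot21_pU0, bot21_pU1⟩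
  pU' := ⟨.inr rfl, .inr rfl⟩
  kU := Bool.forall_bool.2 ⟨bot21_kU0, bot21_kU1⟩
  kU' := ⟨.inr rfl, .inr rfl⟩
  kL := Bool.forall_bool.2 ⟨bot21_kL0, bot21_kL1⟩
  kL' := ⟨.inr rfl, .inr rfl⟩
  wU := Bool.forall_bool.2 ⟨bot21_wU0, bot21_wU1⟩
  wU' := ⟨.inr rfl, .inr rfl⟩
  wL := Bool.forall_bool.2 ⟨bot21_wL0, bot21_wL1⟩
  wL' := ⟨.inr rfl, .inr rfl⟩

/-- The checks with the bound above the cut. -/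
theorem bot21_envU : ({ bot21 with pU := bot21PU } : Piece).Env ⟨⟨0, 1, 1⟩, ⟨600000, 600002, 1000000⟩, ⟨0, 20, 10000⟩, ⟨30500, 33100, 10000⟩⟩ :=
  bot21_env.withU bot21PU (Bool.forall_bool.2 ⟨bot21_pV0, bot21_pV1⟩) ⟨.inr rfl, .inr rfl⟩

end Vale.Agent.P100.Calib.Closed.High
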