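import Vale.Agent.P100.Calib.SlabHighBotData

/-!
# Checks of the bounds of a piece of the tail
-/

set_option linter.defProp false

namespace Vale.Agent.P100.Calib.Closed.High

open BoxPos Large

def bot22_p0 : PosBox ⟨⟨0, 1, 1⟩, ⟨600000, 600002, 1000000⟩, ⟨0, 20, 10000⟩, ⟨33100, 33445, 10000⟩⟩ (bot22.hP0) :=
  posBox_of_check (c := ⟨76, ⟨0, 2, 3, 1⟩⟩) (by decide +kernel)

def bot22_gn : PosBox ⟨⟨0, 1, 1⟩, ⟨600000, 600002, 1000000⟩, ⟨0, 20, 10000⟩, ⟨33100, 33445, 10000⟩⟩ (bot22.hGn) :=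
  posBox_of_check (c := ⟨83, ⟨1, 1, 2, 2⟩⟩) (by decide +kernel)

def bot22_phi : PosBox ⟨⟨0, 1, 1⟩, ⟨600000, 600002, 1000000⟩, ⟨0, 20, 10000⟩, ⟨33100, 33445, 10000⟩⟩ (botPhi bot22.u₀ xV) :=
  posBox_of_check (c := ⟨128, ⟨0, 0, 5, 3⟩⟩) (by decide +kernel)

def bot22_den0 : PosBox ⟨⟨0, 1, 1⟩, ⟨600000, 600002, 1000000⟩, ⟨0, 20, 10000⟩, ⟨33100, 33445, 10000⟩⟩ (bot22.hDen false) :=
  posBox_of_check (c := ⟨91, ⟨2, 0, 4, 2⟩⟩) (by decide +kernel)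

def bot22_den1 : PosBox ⟨⟨0, 1, 1⟩, ⟨600000, 600002, 1000000⟩, ⟨0, 20, 10000⟩, ⟨33100, 33445, 10000⟩⟩ (bot22.hDen true) :=
  posBox_of_check (c := ⟨95, ⟨3, 0, 3, 3⟩⟩) (by decide +kernel)

def bot22_ev0 : PosBox ⟨⟨0, 1, 1⟩, ⟨600000, 600002, 1000000⟩, ⟨0, 20, 10000⟩, ⟨33100, 33445, 10000⟩⟩ (bot22.hEv false) :=
  posBox_of_check (c := ⟨219, ⟨4, 2, 8, 4⟩⟩) (by decide +kernel)

def bot22_eL0 : PosBox ⟨⟨0, 1, 1⟩, ⟨600000, 600002, 1000000⟩, ⟨0, 20, 10000⟩, ⟨33100, 33445, 10000⟩⟩ (bot22.hEL false) :=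
  posBox_of_check (c := ⟨332, ⟨5, 6, 11, 6⟩⟩) (by decide +kernel)

def bot22_eH0 : PosBox ⟨⟨0, 1, 1⟩, ⟨600000, 600002, 1000000⟩, ⟨0, 20, 10000⟩, ⟨33100, 33445, 10000⟩⟩ (bot22.hEH false) :=
  posBox_of_check (c := ⟨332, ⟨5, 6, 11, 6⟩⟩) (by decide +kernel)

def bot22_pL0 : PosBox ⟨⟨0, 1, 1⟩, ⟨600000, 600002, 1000000⟩, ⟨0, 20, 10000⟩, ⟨33100, 33445, 10000⟩⟩ (bot22.hPL false) :=
  posBox_of_check (c := ⟨337, ⟨5, 6, 11, 6⟩⟩) (by decide +kernel)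

def bot22_pU0 : PosBox ⟨⟨0, 1, 1⟩, ⟨600000, 600002, 1000000⟩, ⟨0, 20, 10000⟩, ⟨33100, 33445, 10000⟩⟩ (bot22.hPU false) :=
  posBox_of_check (c := ⟨337, ⟨5, 6, 11, 6⟩⟩) (by decide +kernel)

def bot22_kU0 : PosBox ⟨⟨0, 1, 1⟩, ⟨600000, 600002, 1000000⟩, ⟨0, 20, 10000⟩, ⟨33100, 33445, 10000⟩⟩ (bot22.hKU false) :=
  posBox_of_check (c := ⟨334, ⟨5, 6, 11, 6⟩⟩) (by decide +kernel)

def bot22_kL0 : PosBox ⟨⟨0, 1, 1⟩, ⟨600000, 600002, 1000000⟩, ⟨0, 20, 10000⟩, ⟨33100, 33445, 10000⟩⟩ (bot22.hKL false) :=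
  posBox_of_check (c := ⟨328, ⟨5, 6, 11, 6⟩⟩) (by decide +kernel)

def bot22_wU0 : PosBox ⟨⟨0, 1, 1⟩, ⟨600000, 600002, 1000000⟩, ⟨0, 20, 10000⟩, ⟨33100, 33445, 10000⟩⟩ (bot22.hWU false) :=
  posBox_of_check (c := ⟨377, ⟨5, 8, 12, 6⟩⟩) (by decide +kernel)

def bot22_wL0 : PosBox ⟨⟨0, 1, 1⟩, ⟨600000, 600002, 1000000⟩, ⟨0, 20, 10000⟩, ⟨33100, 33445, 10000⟩⟩ (bot22.hWL false) :=
  posBox_of_check (c := ⟨380, ⟨5, 8, 12, 6⟩⟩) (by decide +kernel)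

def bot22_pV0 : PosBox ⟨⟨0, 1, 1⟩, ⟨600000, 600002, 1000000⟩, ⟨0, 20, 10000⟩, ⟨33100, 33445, 10000⟩⟩ (({ bot22 with pU := bot22PU } : Piece).hPU false) :=
  posBox_of_check (c := ⟨336, ⟨5, 6, 11, 6⟩⟩) (by decide +kernel)

def bot22_ev1 : PosBox ⟨⟨0, 1, 1⟩, ⟨600000, 600002, 1000000⟩, ⟨0, 20, 10000⟩, ⟨33100, 33445, 10000⟩⟩ (bot22.hEv true) :=
  posBox_of_check (c := ⟨268, ⟨5, 2, 9, 6⟩⟩) (by decide +kernel)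

def bot22_eL1 : PosBox ⟨⟨0, 1, 1⟩, ⟨600000, 600002, 1000000⟩, ⟨0, 20, 10000⟩, ⟨33100, 33445, 10000⟩⟩ (bot22.hEL true) :=
  posBox_of_check (c := ⟨381, ⟨6, 6, 12, 8⟩⟩) (by decide +kernel)

def bot22_eH1 : PosBox ⟨⟨0, 1, 1⟩, ⟨600000, 600002, 1000000⟩, ⟨0, 20, 10000⟩, ⟨33100, 33445, 10000⟩⟩ (bot22.hEH true) :=
  posBox_of_check (c := ⟨381, ⟨6, 6, 12, 8⟩⟩) (by decide +kernel)

def bot22_pL1 : PosBox ⟨⟨0, 1, 1⟩, ⟨600000, 600002, 1000000⟩, ⟨0, 20, 10000⟩, ⟨33100, 33445, 10000⟩⟩ (bot22.hPL true) :=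
  posBox_of_check (c := ⟨386, ⟨6, 6, 12, 8⟩⟩) (by decide +kernel)

def bot22_pU1 : PosBox ⟨⟨0, 1, 1⟩, ⟨600000, 600002, 1000000⟩, ⟨0, 20, 10000⟩, ⟨33100, 33445, 10000⟩⟩ (bot22.hPU true) :=
  posBox_of_check (c := ⟨386, ⟨6, 6, 12, 8⟩⟩) (by decide +kernel)

def bot22_kU1 : PosBox ⟨⟨0, 1, 1⟩, ⟨600000, 600002, 1000000⟩, ⟨0, 20, 10000⟩, ⟨33100, 33445, 10000⟩⟩ (bot22.hKU true) :=
  posBox_of_check (c := ⟨382, ⟨6, 6, 12, 8⟩⟩) (by decide +kernel)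

def bot22_kL1 : PosBox ⟨⟨0, 1, 1⟩, ⟨600000, 600002, 1000000⟩, ⟨0, 20, 10000⟩, ⟨33100, 33445, 10000⟩⟩ (bot22.hKL true) :=
  posBox_of_check (c := ⟨377, ⟨6, 6, 12, 8⟩⟩) (by decide +kernel)

def bot22_wU1 : PosBox ⟨⟨0, 1, 1⟩, ⟨600000, 600002, 1000000⟩, ⟨0, 20, 10000⟩, ⟨33100, 33445, 10000⟩⟩ (bot22.hWU true) :=
  posBox_of_check (c := ⟨427, ⟨6, 8, 13, 8⟩⟩) (by decide +kernel)

def bot22_wL1 : PosBox ⟨⟨0, 1, 1⟩, ⟨600000, 600002, 1000000⟩, ⟨0, 20, 10000⟩, ⟨33100, 33445, 10000⟩⟩ (bot22.hWL true) :=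
  posBox_of_check (c := ⟨430, ⟨6, 8, 13, 8⟩⟩) (by decide +kernel)

def bot22_pV1 : PosBox ⟨⟨0, 1, 1⟩, ⟨600000, 600002, 1000000⟩, ⟨0, 20, 10000⟩, ⟨33100, 33445, 10000⟩⟩ (({ bot22 with pU := bot22PU } : Piece).hPU true) :=
  posBox_of_check (c := ⟨385, ⟨6, 6, 12, 8⟩⟩) (by decide +kernel)

/-- The checks on the bounds. -/
theorem bot22_env : bot22.Env ⟨⟨0, 1, 1⟩, ⟨600000, 600002, 1000000⟩, ⟨0, 20, 10000⟩, ⟨33100, 33445, 10000⟩⟩ where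
  p0 := bot22_p0
  den := Bool.forall_bool.2 ⟨bot22_den0, bot22_den1⟩
  gn := bot22_gn
  ev := Bool.forall_bool.2 ⟨bot22_ev0, bot22_ev1⟩
  eL := Bool.forall_bool.2 ⟨bot22_eL0, bot22_eL1⟩
  eL' := ⟨.inr rfl, .inr rfl⟩
  eH := Bool.forall_bool.2 ⟨bot22_eH0, bot22_eH1⟩
  eH' := ⟨.inr rfl, .inr rfl⟩
  pL := Bool.forall_bool.2 ⟨bot22_pL0, bot22_pL1⟩
  pL' := ⟨.inr rfl, .inr rfl⟩
  pU := Bool.forall_bool.2 ⟨bot22_pU0, bot22_pU1⟩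
  pU' := ⟨.inr rfl, .inr rfl⟩
  kU := Bool.forall_bool.2 ⟨bot22_kU0, bot22_kU1⟩
  kU' := ⟨.inr rfl, .inr rfl⟩
  kL := Bool.forall_bool.2 ⟨bot22_kL0, bot22_kL1⟩
  kL' := ⟨.inr rfl, .inr rfl⟩
  wU := Bool.forall_bool.2 ⟨bot22_wU0, bot22_wU1⟩
  wU' := ⟨.inr rfl, .inr rfl⟩
  wL := Bool.forall_bool.2 ⟨bot22_wL0, bot22_wL1⟩
  wL' := ⟨.inr rfl, .inr rfl⟩

/-- The checks with the bound above the cut. -/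
theorem bot22_envU : ({ bot22 with pU := bot22PU } : Piece).Env ⟨⟨0, 1, 1⟩, ⟨600000, 600002, 1000000⟩, ⟨0, 20, 10000⟩, ⟨33100, 33445, 10000⟩⟩ :=
  bot22_env.withU bot22PU (Bool.forall_bool.2 ⟨bot22_pV0, bot22_pV1⟩) ⟨.inr rfl, .inr rfl⟩

end Vale.Agent.P100.Calib.Closed.High
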