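import Vale.Agent.P100.Calib.SlabHighBotData

/-!
# Checks of the bounds of a piece of the tail
-/

set_option linter.defProp false

namespace Vale.Agent.P100.Calib.Closed.High

open BoxPos Large

def bot23_p0 : PosBox ⟨⟨0, 1, 1⟩, ⟨600, 601, 1000⟩, ⟨20, 501, 10000⟩, ⟨25800, 30500, 10000⟩⟩ (bot23.hP0) :=
  posBox_of_check (c := ⟨69, ⟨0, 2, 3, 1⟩⟩) (by decide +kernel)

def bot23_gn : PosBox ⟨⟨0, 1, 1⟩, ⟨600, 601, 1000⟩, ⟨20, 501, 10000⟩, ⟨25800, 30500, 10000⟩⟩ (bot23.hGn) :=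
  posBox_of_check (c := ⟨73, ⟨1, 1, 2, 2⟩⟩) (by decide +kernel)

def bot23_phi : PosBox ⟨⟨0, 1, 1⟩, ⟨600, 601, 1000⟩, ⟨20, 501, 10000⟩, ⟨25800, 30500, 10000⟩⟩ (botPhi bot23.u₀ xV) :=
  posBox_of_check (c := ⟨128, ⟨0, 0, 5, 3⟩⟩) (by decide +kernel)

def bot23_den0 : PosBox ⟨⟨0, 1, 1⟩, ⟨600, 601, 1000⟩, ⟨20, 501, 10000⟩, ⟨25800, 30500, 10000⟩⟩ (bot23.hDen false) :=
  posBox_of_check (c := ⟨92, ⟨2, 0, 4, 2⟩⟩) (by decide +kernel)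

def bot23_den1 : PosBox ⟨⟨0, 1, 1⟩, ⟨600, 601, 1000⟩, ⟨20, 501, 10000⟩, ⟨25800, 30500, 10000⟩⟩ (bot23.hDen true) :=
  posBox_of_check (c := ⟨95, ⟨3, 0, 3, 3⟩⟩) (by decide +kernel)

def bot23_ev0 : PosBox ⟨⟨0, 1, 1⟩, ⟨600, 601, 1000⟩, ⟨20, 501, 10000⟩, ⟨25800, 30500, 10000⟩⟩ (bot23.hEv false) :=
  posBox_of_check (c := ⟨204, ⟨4, 2, 8, 4⟩⟩) (by decide +kernel)

def bot23_eL0 : PosBox ⟨⟨0, 1, 1⟩, ⟨600, 601, 1000⟩, ⟨20, 501, 10000⟩, ⟨25800, 30500, 10000⟩⟩ (bot23.hEL false) :=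
  posBox_of_check (c := ⟨291, ⟨5, 6, 11, 6⟩⟩) (by decide +kernel)

def bot23_eH0 : PosBox ⟨⟨0, 1, 1⟩, ⟨600, 601, 1000⟩, ⟨20, 501, 10000⟩, ⟨25800, 30500, 10000⟩⟩ (bot23.hEH false) :=
  posBox_of_check (c := ⟨317, ⟨5, 6, 11, 7⟩⟩) (by decide +kernel)

def bot23_pL0_0_0 : PosBox ⟨⟨0, 1, 1⟩, ⟨600, 601, 1000⟩, ⟨20, 260, 10000⟩, ⟨25800, 28150, 10000⟩⟩ (bot23.hPL false) :=
  posBox_of_check (c := ⟨315, ⟨5, 6, 11, 7⟩⟩) (by decide +kernel)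

def bot23_pL0_0_1 : PosBox ⟨⟨0, 1, 1⟩, ⟨600, 601, 1000⟩, ⟨260, 501, 10000⟩, ⟨25800, 28150, 10000⟩⟩ (bot23.hPL false) :=
  posBox_of_check (c := ⟨316, ⟨5, 6, 11, 7⟩⟩) (by decide +kernel)

theorem bot23_pL0_0 : PosBox ⟨⟨0, 1, 1⟩, ⟨600, 601, 1000⟩, ⟨20, 501, 10000⟩, ⟨25800, 28150, 10000⟩⟩ (bot23.hPL false) :=
  posBox_join₂ bot23_pL0_0_0 bot23_pL0_0_1

def bot23_pL0_1_0_0 : PosBox ⟨⟨0, 1, 1⟩, ⟨600, 601, 1000⟩, ⟨20, 140, 10000⟩, ⟨28150, 30500, 10000⟩⟩ (bot23.hPL false) :=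
  posBox_of_check (c := ⟨315, ⟨5, 6, 11, 7⟩⟩) (by decide +kernel)

def bot23_pL0_1_0_1 : PosBox ⟨⟨0, 1, 1⟩, ⟨600, 601, 1000⟩, ⟨140, 260, 10000⟩, ⟨28150, 30500, 10000⟩⟩ (bot23.hPL false) :=
  posBox_of_check (c := ⟨315, ⟨5, 6, 11, 7⟩⟩) (by decide +kernel)

theorem bot23_pL0_1_0 : PosBox ⟨⟨0, 1, 1⟩, ⟨600, 601, 1000⟩, ⟨20, 260, 10000⟩, ⟨28150, 30500, 10000⟩⟩ (bot23.hPL false) :=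
  posBox_join₂ bot23_pL0_1_0_0 bot23_pL0_1_0_1

def bot23_pL0_1_1 : PosBox ⟨⟨0, 1, 1⟩, ⟨600, 601, 1000⟩, ⟨260, 501, 10000⟩, ⟨28150, 30500, 10000⟩⟩ (bot23.hPL false) :=
  posBox_of_check (c := ⟨316, ⟨5, 6, 11, 7⟩⟩) (by decide +kernel)

theorem bot23_pL0_1 : PosBox ⟨⟨0, 1, 1⟩, ⟨600, 601, 1000⟩, ⟨20, 501, 10000⟩, ⟨28150, 30500, 10000⟩⟩ (bot23.hPL false) :=
  posBox_join₂ bot23_pL0_1_0 bot23_pL0_1_1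

theorem bot23_pL0 : PosBox ⟨⟨0, 1, 1⟩, ⟨600, 601, 1000⟩, ⟨20, 501, 10000⟩, ⟨25800, 30500, 10000⟩⟩ (bot23.hPL false) :=
  posBox_join₃ bot23_pL0_0 bot23_pL0_1

def bot23_pU0 : PosBox ⟨⟨0, 1, 1⟩, ⟨600, 601, 1000⟩, ⟨20, 501, 10000⟩, ⟨25800, 30500, 10000⟩⟩ (bot23.hPU false) :=
  posBox_of_check (c := ⟨316, ⟨5, 6, 11, 7⟩⟩) (by decide +kernel)

def bot23_kU0 : PosBox ⟨⟨0, 1, 1⟩, ⟨600, 601, 1000⟩, ⟨20, 501, 10000⟩, ⟨25800, 30500, 10000⟩⟩ (bot23.hKU false) :=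
  posBox_of_check (c := ⟨308, ⟨5, 6, 11, 6⟩⟩) (by decide +kernel)

def bot23_kL0 : PosBox ⟨⟨0, 1, 1⟩, ⟨600, 601, 1000⟩, ⟨20, 501, 10000⟩, ⟨25800, 30500, 10000⟩⟩ (bot23.hKL false) :=
  posBox_of_check (c := ⟨306, ⟨5, 6, 11, 7⟩⟩) (by decide +kernel)

def bot23_wU0_0 : PosBox ⟨⟨0, 1, 2⟩, ⟨600, 601, 1000⟩, ⟨20, 501, 10000⟩, ⟨25800, 30500, 10000⟩⟩ (bot23.hWU false) :=
  posBox_of_check (c := ⟨345, ⟨5, 8, 12, 7⟩⟩) (by decide +kernel)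

def bot23_wU0_1 : PosBox ⟨⟨1, 2, 2⟩, ⟨600, 601, 1000⟩, ⟨20, 501, 10000⟩, ⟨25800, 30500, 10000⟩⟩ (bot23.hWU false) :=
  posBox_of_check (c := ⟨347, ⟨5, 8, 12, 7⟩⟩) (by decide +kernel)

def bot23_wU0 : PosBox ⟨⟨0, 1, 1⟩, ⟨600, 601, 1000⟩, ⟨20, 501, 10000⟩, ⟨25800, 30500, 10000⟩⟩ (bot23.hWU false) :=
  posBox_units (b := ⟨⟨0, 2, 2⟩, ⟨600, 601, 1000⟩, ⟨20, 501, 10000⟩, ⟨25800, 30500, 10000⟩⟩) (by decide +kernel) (posBox_join₀ bot23_wU0_0 bot23_wU0_1)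

def bot23_wL0 : PosBox ⟨⟨0, 1, 1⟩, ⟨600, 601, 1000⟩, ⟨20, 501, 10000⟩, ⟨25800, 30500, 10000⟩⟩ (bot23.hWL false) :=
  posBox_of_check (c := ⟨341, ⟨5, 8, 12, 7⟩⟩) (by decide +kernel)

def bot23_pV0 : PosBox ⟨⟨0, 1, 1⟩, ⟨600, 601, 1000⟩, ⟨20, 501, 10000⟩, ⟨25800, 30500, 10000⟩⟩ (({ bot23 with pU := bot23PU } : Piece).hPU false) :=
  posBox_of_check (c := ⟨320, ⟨5, 6, 11, 7⟩⟩) (by decide +kernel)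

def bot23_ev1 : PosBox ⟨⟨0, 1, 1⟩, ⟨600, 601, 1000⟩, ⟨20, 501, 10000⟩, ⟨25800, 30500, 10000⟩⟩ (bot23.hEv true) :=
  posBox_of_check (c := ⟨253, ⟨5, 2, 9, 6⟩⟩) (by decide +kernel)

def bot23_eL1_0 : PosBox ⟨⟨0, 1, 1⟩, ⟨600, 601, 1000⟩, ⟨20, 501, 10000⟩, ⟨25800, 28150, 10000⟩⟩ (bot23.hEL true) :=
  posBox_of_check (c := ⟨339, ⟨6, 6, 12, 8⟩⟩) (by decide +kernel)

def bot23_eL1_1 : PosBox ⟨⟨0, 1, 1⟩, ⟨600, 601, 1000⟩, ⟨20, 501, 10000⟩, ⟨28150, 30500, 10000⟩⟩ (bot23.hEL true) :=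
  posBox_of_check (c := ⟨339, ⟨6, 6, 12, 8⟩⟩) (by decide +kernel)

theorem bot23_eL1 : PosBox ⟨⟨0, 1, 1⟩, ⟨600, 601, 1000⟩, ⟨20, 501, 10000⟩, ⟨25800, 30500, 10000⟩⟩ (bot23.hEL true) :=
  posBox_join₃ bot23_eL1_0 bot23_eL1_1

def bot23_eH1 : PosBox ⟨⟨0, 1, 1⟩, ⟨600, 601, 1000⟩, ⟨20, 501, 10000⟩, ⟨25800, 30500, 10000⟩⟩ (bot23.hEH true) :=
  posBox_of_check (c := ⟨366, ⟨6, 6, 12, 9⟩⟩) (by decide +kernel)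

def bot23_pL1 : PosBox ⟨⟨0, 1, 1⟩, ⟨600, 601, 1000⟩, ⟨20, 501, 10000⟩, ⟨25800, 30500, 10000⟩⟩ (bot23.hPL true) :=
  posBox_of_check (c := ⟨364, ⟨6, 6, 12, 9⟩⟩) (by decide +kernel)

def bot23_pU1_0_0_0_0 : PosBox ⟨⟨0, 1, 1⟩, ⟨600, 601, 1000⟩, ⟨20, 50, 10000⟩, ⟨25800, 30500, 10000⟩⟩ (bot23.hPU true) :=
  posBox_of_check (c := ⟨364, ⟨6, 6, 12, 9⟩⟩) (by decide +kernel)

def bot23_pU1_0_0_0_1 : PosBox ⟨⟨0, 1, 1⟩, ⟨600, 601, 1000⟩, ⟨50, 80, 10000⟩, ⟨25800, 30500, 10000⟩⟩ (bot23.hPU true) :=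
  posBox_of_check (c := ⟨364, ⟨6, 6, 12, 9⟩⟩) (by decide +kernel)

theorem bot23_pU1_0_0_0 : PosBox ⟨⟨0, 1, 1⟩, ⟨600, 601, 1000⟩, ⟨20, 80, 10000⟩, ⟨25800, 30500, 10000⟩⟩ (bot23.hPU true) :=
  posBox_join₂ bot23_pU1_0_0_0_0 bot23_pU1_0_0_0_1

def bot23_pU1_0_0_1 : PosBox ⟨⟨0, 1, 1⟩, ⟨600, 601, 1000⟩, ⟨80, 140, 10000⟩, ⟨25800, 30500, 10000⟩⟩ (bot23.hPU true) :=
  posBox_of_check (c := ⟨364, ⟨6, 6, 12, 9⟩⟩) (by decide +kernel)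

theorem bot23_pU1_0_0 : PosBox ⟨⟨0, 1, 1⟩, ⟨600, 601, 1000⟩, ⟨20, 140, 10000⟩, ⟨25800, 30500, 10000⟩⟩ (bot23.hPU true) :=
  posBox_join₂ bot23_pU1_0_0_0 bot23_pU1_0_0_1

def bot23_pU1_0_1 : PosBox ⟨⟨0, 1, 1⟩, ⟨600, 601, 1000⟩, ⟨140, 260, 10000⟩, ⟨25800, 30500, 10000⟩⟩ (bot23.hPU true) :=
  posBox_of_check (c := ⟨365, ⟨6, 6, 12, 9⟩⟩) (by decide +kernel)

theorem bot23_pU1_0 : PosBox ⟨⟨0, 1, 1⟩, ⟨600, 601, 1000⟩, ⟨20, 260, 10000⟩, ⟨25800, 30500, 10000⟩⟩ (bot23.hPU true) :=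
  posBox_join₂ bot23_pU1_0_0 bot23_pU1_0_1

def bot23_pU1_1 : PosBox ⟨⟨0, 1, 1⟩, ⟨600, 601, 1000⟩, ⟨260, 501, 10000⟩, ⟨25800, 30500, 10000⟩⟩ (bot23.hPU true) :=
  posBox_of_check (c := ⟨365, ⟨6, 6, 12, 9⟩⟩) (by decide +kernel)

theorem bot23_pU1 : PosBox ⟨⟨0, 1, 1⟩, ⟨600, 601, 1000⟩, ⟨20, 501, 10000⟩, ⟨25800, 30500, 10000⟩⟩ (bot23.hPU true) :=
  posBox_join₂ bot23_pU1_0 bot23_pU1_1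

def bot23_kU1 : PosBox ⟨⟨0, 1, 1⟩, ⟨600, 601, 1000⟩, ⟨20, 501, 10000⟩, ⟨25800, 30500, 10000⟩⟩ (bot23.hKU true) :=
  posBox_of_check (c := ⟨357, ⟨6, 6, 12, 8⟩⟩) (by decide +kernel)

def bot23_kL1 : PosBox ⟨⟨0, 1, 1⟩, ⟨600, 601, 1000⟩, ⟨20, 501, 10000⟩, ⟨25800, 30500, 10000⟩⟩ (bot23.hKL true) :=
  posBox_of_check (c := ⟨355, ⟨6, 6, 12, 9⟩⟩) (by decide +kernel)

def bot23_wU1_0 : PosBox ⟨⟨0, 1, 2⟩, ⟨600, 601, 1000⟩, ⟨20, 501, 10000⟩, ⟨25800, 30500, 10000⟩⟩ (bot23.hWU true) :=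
  posBox_of_check (c := ⟨395, ⟨6, 8, 13, 9⟩⟩) (by decide +kernel)

def bot23_wU1_1_0_0 : PosBox ⟨⟨1, 2, 2⟩, ⟨600, 601, 1000⟩, ⟨20, 140, 10000⟩, ⟨25800, 30500, 10000⟩⟩ (bot23.hWU true) :=
  posBox_of_check (c := ⟨397, ⟨6, 8, 13, 9⟩⟩) (by decide +kernel)

def bot23_wU1_1_0_1 : PosBox ⟨⟨1, 2, 2⟩, ⟨600, 601, 1000⟩, ⟨140, 260, 10000⟩, ⟨25800, 30500, 10000⟩⟩ (bot23.hWU true) :=
  posBox_of_check (c := ⟨397, ⟨6, 8, 13, 9⟩⟩) (by decide +kernel)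

theorem bot23_wU1_1_0 : PosBox ⟨⟨1, 2, 2⟩, ⟨600, 601, 1000⟩, ⟨20, 260, 10000⟩, ⟨25800, 30500, 10000⟩⟩ (bot23.hWU true) :=
  posBox_join₂ bot23_wU1_1_0_0 bot23_wU1_1_0_1

def bot23_wU1_1_1 : PosBox ⟨⟨1, 2, 2⟩, ⟨600, 601, 1000⟩, ⟨260, 501, 10000⟩, ⟨25800, 30500, 10000⟩⟩ (bot23.hWU true) :=
  posBox_of_check (c := ⟨397, ⟨6, 8, 13, 9⟩⟩) (by decide +kernel)

theorem bot23_wU1_1 : PosBox ⟨⟨1, 2, 2⟩, ⟨600, 601, 1000⟩, ⟨20, 501, 10000⟩, ⟨25800, 30500, 10000⟩⟩ (bot23.hWU true) :=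
  posBox_join₂ bot23_wU1_1_0 bot23_wU1_1_1

def bot23_wU1 : PosBox ⟨⟨0, 1, 1⟩, ⟨600, 601, 1000⟩, ⟨20, 501, 10000⟩, ⟨25800, 30500, 10000⟩⟩ (bot23.hWU true) :=
  posBox_units (b := ⟨⟨0, 2, 2⟩, ⟨600, 601, 1000⟩, ⟨20, 501, 10000⟩, ⟨25800, 30500, 10000⟩⟩) (by decide +kernel) (posBox_join₀ bot23_wU1_0 bot23_wU1_1)

def bot23_wL1_0_0 : PosBox ⟨⟨0, 1, 1⟩, ⟨600, 601, 1000⟩, ⟨20, 140, 10000⟩, ⟨25800, 30500, 10000⟩⟩ (bot23.hWL true) :=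
  posBox_of_check (c := ⟨390, ⟨6, 8, 13, 9⟩⟩) (by decide +kernel)

def bot23_wL1_0_1 : PosBox ⟨⟨0, 1, 1⟩, ⟨600, 601, 1000⟩, ⟨140, 260, 10000⟩, ⟨25800, 30500, 10000⟩⟩ (bot23.hWL true) :=
  posBox_of_check (c := ⟨391, ⟨6, 8, 13, 9⟩⟩) (by decide +kernel)

theorem bot23_wL1_0 : PosBox ⟨⟨0, 1, 1⟩, ⟨600, 601, 1000⟩, ⟨20, 260, 10000⟩, ⟨25800, 30500, 10000⟩⟩ (bot23.hWL true) :=
  posBox_join₂ bot23_wL1_0_0 bot23_wL1_0_1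

def bot23_wL1_1 : PosBox ⟨⟨0, 1, 1⟩, ⟨600, 601, 1000⟩, ⟨260, 501, 10000⟩, ⟨25800, 30500, 10000⟩⟩ (bot23.hWL true) :=
  posBox_of_check (c := ⟨391, ⟨6, 8, 13, 9⟩⟩) (by decide +kernel)

theorem bot23_wL1 : PosBox ⟨⟨0, 1, 1⟩, ⟨600, 601, 1000⟩, ⟨20, 501, 10000⟩, ⟨25800, 30500, 10000⟩⟩ (bot23.hWL true) :=
  posBox_join₂ bot23_wL1_0 bot23_wL1_1

def bot23_pV1_0_0 : PosBox ⟨⟨0, 1, 1⟩, ⟨600, 601, 1000⟩, ⟨20, 140, 10000⟩, ⟨25800, 30500, 10000⟩⟩ (({ bot23 with pU := bot23PU } : Piece).hPU true) :=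
  posBox_of_check (c := ⟨368, ⟨6, 6, 12, 9⟩⟩) (by decide +kernel)

def bot23_pV1_0_1 : PosBox ⟨⟨0, 1, 1⟩, ⟨600, 601, 1000⟩, ⟨140, 260, 10000⟩, ⟨25800, 30500, 10000⟩⟩ (({ bot23 with pU := bot23PU } : Piece).hPU true) :=
  posBox_of_check (c := ⟨368, ⟨6, 6, 12, 9⟩⟩) (by decide +kernel)

theorem bot23_pV1_0 : PosBox ⟨⟨0, 1, 1⟩, ⟨600, 601, 1000⟩, ⟨20, 260, 10000⟩, ⟨25800, 30500, 10000⟩⟩ (({ bot23 with pU := bot23PU } : Piece).hPU true) :=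
  posBox_join₂ bot23_pV1_0_0 bot23_pV1_0_1

def bot23_pV1_1 : PosBox ⟨⟨0, 1, 1⟩, ⟨600, 601, 1000⟩, ⟨260, 501, 10000⟩, ⟨25800, 30500, 10000⟩⟩ (({ bot23 with pU := bot23PU } : Piece).hPU true) :=
  posBox_of_check (c := ⟨369, ⟨6, 6, 12, 9⟩⟩) (by decide +kernel)

theorem bot23_pV1 : PosBox ⟨⟨0, 1, 1⟩, ⟨600, 601, 1000⟩, ⟨20, 501, 10000⟩, ⟨25800, 30500, 10000⟩⟩ (({ bot23 with pU := bot23PU } : Piece).hPU true) :=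
  posBox_join₂ bot23_pV1_0 bot23_pV1_1

def bot23_nueH : PosBox ⟨⟨0, 1, 1⟩, ⟨600, 601, 1000⟩, ⟨20, 501, 10000⟩, ⟨25800, 30500, 10000⟩⟩ (bot23.eH.ν) :=
  posBox_of_check (c := ⟨47, ⟨0, 0, 1, 1⟩⟩) (by decide +kernel)

def bot23_nupU2 : PosBox ⟨⟨0, 1, 1⟩, ⟨600, 601, 1000⟩, ⟨20, 501, 10000⟩, ⟨25800, 30500, 10000⟩⟩ (bot23PU.ν) :=
  posBox_of_check (c := ⟨49, ⟨0, 0, 1, 1⟩⟩) (by decide +kernel)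

/-- The checks on the bounds. -/
theorem bot23_env : bot23.Env ⟨⟨0, 1, 1⟩, ⟨600, 601, 1000⟩, ⟨20, 501, 10000⟩, ⟨25800, 30500, 10000⟩⟩ where
  p0 := bot23_p0
  den := Bool.forall_bool.2 ⟨bot23_den0, bot23_den1⟩
  gn := bot23_gn
  ev := Bool.forall_bool.2 ⟨bot23_ev0, bot23_ev1⟩
  eL := Bool.forall_bool.2 ⟨bot23_eL0, bot23_eL1⟩
  eL' := ⟨.inr rfl, .inr rfl⟩
  eH := Bool.forall_bool.2 ⟨bot23_eH0, bot23_eH1⟩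
  eH' := ⟨.inr rfl, .inl bot23_nueH⟩
  pL := Bool.forall_bool.2 ⟨bot23_pL0, bot23_pL1⟩
  pL' := ⟨.inr rfl, .inr rfl⟩
  pU := Bool.forall_bool.2 ⟨bot23_pU0, bot23_pU1⟩
  pU' := ⟨.inr rfl, .inr rfl⟩
  kU := Bool.forall_bool.2 ⟨bot23_kU0, bot23_kU1⟩
  kU' := ⟨.inr rfl, .inr rfl⟩
  kL := Bool.forall_bool.2 ⟨bot23_kL0, bot23_kL1⟩
  kL' := ⟨.inr rfl, .inr rfl⟩
  wU := Bool.forall_bool.2 ⟨bot23_wU0, bot23_wU1⟩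
  wU' := ⟨.inr rfl, .inr rfl⟩
  wL := Bool.forall_bool.2 ⟨bot23_wL0, bot23_wL1⟩
  wL' := ⟨.inr rfl, .inr rfl⟩

/-- The checks with the bound above the cut. -/
theorem bot23_envU : ({ bot23 with pU := bot23PU } : Piece).Env ⟨⟨0, 1, 1⟩, ⟨600, 601, 1000⟩, ⟨20, 501, 10000⟩, ⟨25800, 30500, 10000⟩⟩ :=
  bot23_env.withU bot23PU (Bool.forall_bool.2 ⟨bot23_pV0, bot23_pV1⟩) ⟨.inr rfl, .inl bot23_nupU2⟩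

end Vale.Agent.P100.Calib.Closed.High
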