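import Vale.Agent.P100.Calib.SlabHighBotData

/-!
# Checks of the bounds of a piece of the tail
-/

set_option linter.defProp false

namespace Vale.Agent.P100.Calib.Closed.High

open BoxPos Large

def bot24_p0_0 : PosBox ⟨⟨0, 1, 1⟩, ⟨600, 601, 1000⟩, ⟨20, 260, 10000⟩, ⟨30500, 34500, 10000⟩⟩ (bot24.hP0) :=
  posBox_of_check (c := ⟨68, ⟨0, 2, 3, 1⟩⟩) (by decide +kernel)

def bot24_p0_1 : PosBox ⟨⟨0, 1, 1⟩, ⟨600, 601, 1000⟩, ⟨260, 501, 10000⟩, ⟨30500, 34500, 10000⟩⟩ (bot24.hP0) :=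
  posBox_of_check (c := ⟨68, ⟨0, 2, 3, 1⟩⟩) (by decide +kernel)

theorem bot24_p0 : PosBox ⟨⟨0, 1, 1⟩, ⟨600, 601, 1000⟩, ⟨20, 501, 10000⟩, ⟨30500, 34500, 10000⟩⟩ (bot24.hP0) :=
  posBox_join₂ bot24_p0_0 bot24_p0_1

def bot24_gn : PosBox ⟨⟨0, 1, 1⟩, ⟨600, 601, 1000⟩, ⟨20, 501, 10000⟩, ⟨30500, 34500, 10000⟩⟩ (bot24.hGn) :=
  posBox_of_check (c := ⟨73, ⟨1, 1, 2, 2⟩⟩) (by decide +kernel)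

def bot24_phi : PosBox ⟨⟨0, 1, 1⟩, ⟨600, 601, 1000⟩, ⟨20, 501, 10000⟩, ⟨30500, 34500, 10000⟩⟩ (botPhi bot24.u₀ xV) :=
  posBox_of_check (c := ⟨128, ⟨0, 0, 5, 3⟩⟩) (by decide +kernel)

def bot24_den0 : PosBox ⟨⟨0, 1, 1⟩, ⟨600, 601, 1000⟩, ⟨20, 501, 10000⟩, ⟨30500, 34500, 10000⟩⟩ (bot24.hDen false) :=
  posBox_of_check (c := ⟨92, ⟨2, 0, 4, 2⟩⟩) (by decide +kernel)

def bot24_den1 : PosBox ⟨⟨0, 1, 1⟩, ⟨600, 601, 1000⟩, ⟨20, 501, 10000⟩, ⟨30500, 34500, 10000⟩⟩ (bot24.hDen true) :=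
  posBox_of_check (c := ⟨95, ⟨3, 0, 3, 3⟩⟩) (by decide +kernel)

def bot24_ev0 : PosBox ⟨⟨0, 1, 1⟩, ⟨600, 601, 1000⟩, ⟨20, 501, 10000⟩, ⟨30500, 34500, 10000⟩⟩ (bot24.hEv false) :=
  posBox_of_check (c := ⟨204, ⟨4, 2, 8, 4⟩⟩) (by decide +kernel)

def bot24_eL0 : PosBox ⟨⟨0, 1, 1⟩, ⟨600, 601, 1000⟩, ⟨20, 501, 10000⟩, ⟨30500, 34500, 10000⟩⟩ (bot24.hEL false) :=
  posBox_of_check (c := ⟨290, ⟨5, 6, 11, 6⟩⟩) (by decide +kernel)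

def bot24_eH0 : PosBox ⟨⟨0, 1, 1⟩, ⟨600, 601, 1000⟩, ⟨20, 501, 10000⟩, ⟨30500, 34500, 10000⟩⟩ (bot24.hEH false) :=
  posBox_of_check (c := ⟨318, ⟨5, 6, 11, 7⟩⟩) (by decide +kernel)

def bot24_pL0 : PosBox ⟨⟨0, 1, 1⟩, ⟨600, 601, 1000⟩, ⟨20, 501, 10000⟩, ⟨30500, 34500, 10000⟩⟩ (bot24.hPL false) :=
  posBox_of_check (c := ⟨315, ⟨5, 6, 11, 7⟩⟩) (by decide +kernel)

def bot24_pU0 : PosBox ⟨⟨0, 1, 1⟩, ⟨600, 601, 1000⟩, ⟨20, 501, 10000⟩, ⟨30500, 34500, 10000⟩⟩ (bot24.hPU false) :=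
  posBox_of_check (c := ⟨322, ⟨5, 6, 11, 7⟩⟩) (by decide +kernel)

def bot24_kU0 : PosBox ⟨⟨0, 1, 1⟩, ⟨600, 601, 1000⟩, ⟨20, 501, 10000⟩, ⟨30500, 34500, 10000⟩⟩ (bot24.hKU false) :=
  posBox_of_check (c := ⟨310, ⟨5, 6, 11, 7⟩⟩) (by decide +kernel)

def bot24_kL0_0 : PosBox ⟨⟨0, 1, 1⟩, ⟨600, 601, 1000⟩, ⟨20, 260, 10000⟩, ⟨30500, 34500, 10000⟩⟩ (bot24.hKL false) :=
  posBox_of_check (c := ⟨308, ⟨5, 6, 11, 7⟩⟩) (by decide +kernel)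

def bot24_kL0_1_0 : PosBox ⟨⟨0, 1, 1⟩, ⟨600, 601, 1000⟩, ⟨260, 380, 10000⟩, ⟨30500, 34500, 10000⟩⟩ (bot24.hKL false) :=
  posBox_of_check (c := ⟨310, ⟨5, 6, 11, 7⟩⟩) (by decide +kernel)

def bot24_kL0_1_1 : PosBox ⟨⟨0, 1, 1⟩, ⟨600, 601, 1000⟩, ⟨380, 501, 10000⟩, ⟨30500, 34500, 10000⟩⟩ (bot24.hKL false) :=
  posBox_of_check (c := ⟨311, ⟨5, 6, 11, 7⟩⟩) (by decide +kernel)

theorem bot24_kL0_1 : PosBox ⟨⟨0, 1, 1⟩, ⟨600, 601, 1000⟩, ⟨260, 501, 10000⟩, ⟨30500, 34500, 10000⟩⟩ (bot24.hKL false) :=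
  posBox_join₂ bot24_kL0_1_0 bot24_kL0_1_1

theorem bot24_kL0 : PosBox ⟨⟨0, 1, 1⟩, ⟨600, 601, 1000⟩, ⟨20, 501, 10000⟩, ⟨30500, 34500, 10000⟩⟩ (bot24.hKL false) :=
  posBox_join₂ bot24_kL0_0 bot24_kL0_1

def bot24_wU0 : PosBox ⟨⟨0, 1, 1⟩, ⟨600, 601, 1000⟩, ⟨20, 501, 10000⟩, ⟨30500, 34500, 10000⟩⟩ (bot24.hWU false) :=
  posBox_of_check (c := ⟨342, ⟨5, 8, 12, 7⟩⟩) (by decide +kernel)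

def bot24_wL0 : PosBox ⟨⟨0, 1, 1⟩, ⟨600, 601, 1000⟩, ⟨20, 501, 10000⟩, ⟨30500, 34500, 10000⟩⟩ (bot24.hWL false) :=
  posBox_of_check (c := ⟨342, ⟨5, 8, 12, 7⟩⟩) (by decide +kernel)

def bot24_ev1 : PosBox ⟨⟨0, 1, 1⟩, ⟨600, 601, 1000⟩, ⟨20, 501, 10000⟩, ⟨30500, 34500, 10000⟩⟩ (bot24.hEv true) :=
  posBox_of_check (c := ⟨253, ⟨5, 2, 9, 6⟩⟩) (by decide +kernel)

def bot24_eL1 : PosBox ⟨⟨0, 1, 1⟩, ⟨600, 601, 1000⟩, ⟨20, 501, 10000⟩, ⟨30500, 34500, 10000⟩⟩ (bot24.hEL true) :=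
  posBox_of_check (c := ⟨339, ⟨6, 6, 12, 8⟩⟩) (by decide +kernel)

def bot24_eH1_0 : PosBox ⟨⟨0, 1, 1⟩, ⟨600, 601, 1000⟩, ⟨20, 260, 10000⟩, ⟨30500, 34500, 10000⟩⟩ (bot24.hEH true) :=
  posBox_of_check (c := ⟨366, ⟨6, 6, 12, 9⟩⟩) (by decide +kernel)

def bot24_eH1_1 : PosBox ⟨⟨0, 1, 1⟩, ⟨600, 601, 1000⟩, ⟨260, 501, 10000⟩, ⟨30500, 34500, 10000⟩⟩ (bot24.hEH true) :=
  posBox_of_check (c := ⟨367, ⟨6, 6, 12, 9⟩⟩) (by decide +kernel)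

theorem bot24_eH1 : PosBox ⟨⟨0, 1, 1⟩, ⟨600, 601, 1000⟩, ⟨20, 501, 10000⟩, ⟨30500, 34500, 10000⟩⟩ (bot24.hEH true) :=
  posBox_join₂ bot24_eH1_0 bot24_eH1_1

def bot24_pL1 : PosBox ⟨⟨0, 1, 1⟩, ⟨600, 601, 1000⟩, ⟨20, 501, 10000⟩, ⟨30500, 34500, 10000⟩⟩ (bot24.hPL true) :=
  posBox_of_check (c := ⟨365, ⟨6, 6, 12, 9⟩⟩) (by decide +kernel)

def bot24_pU1_0_0_0 : PosBox ⟨⟨0, 1, 1⟩, ⟨600, 601, 1000⟩, ⟨20, 80, 10000⟩, ⟨30500, 34500, 10000⟩⟩ (bot24.hPU true) :=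
  posBox_of_check (c := ⟨370, ⟨6, 6, 12, 9⟩⟩) (by decide +kernel)

def bot24_pU1_0_0_1 : PosBox ⟨⟨0, 1, 1⟩, ⟨600, 601, 1000⟩, ⟨80, 140, 10000⟩, ⟨30500, 34500, 10000⟩⟩ (bot24.hPU true) :=
  posBox_of_check (c := ⟨370, ⟨6, 6, 12, 9⟩⟩) (by decide +kernel)

theorem bot24_pU1_0_0 : PosBox ⟨⟨0, 1, 1⟩, ⟨600, 601, 1000⟩, ⟨20, 140, 10000⟩, ⟨30500, 34500, 10000⟩⟩ (bot24.hPU true) :=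
  posBox_join₂ bot24_pU1_0_0_0 bot24_pU1_0_0_1

def bot24_pU1_0_1 : PosBox ⟨⟨0, 1, 1⟩, ⟨600, 601, 1000⟩, ⟨140, 260, 10000⟩, ⟨30500, 34500, 10000⟩⟩ (bot24.hPU true) :=
  posBox_of_check (c := ⟨371, ⟨6, 6, 12, 9⟩⟩) (by decide +kernel)

theorem bot24_pU1_0 : PosBox ⟨⟨0, 1, 1⟩, ⟨600, 601, 1000⟩, ⟨20, 260, 10000⟩, ⟨30500, 34500, 10000⟩⟩ (bot24.hPU true) :=
  posBox_join₂ bot24_pU1_0_0 bot24_pU1_0_1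

def bot24_pU1_1 : PosBox ⟨⟨0, 1, 1⟩, ⟨600, 601, 1000⟩, ⟨260, 501, 10000⟩, ⟨30500, 34500, 10000⟩⟩ (bot24.hPU true) :=
  posBox_of_check (c := ⟨372, ⟨6, 6, 12, 9⟩⟩) (by decide +kernel)

theorem bot24_pU1 : PosBox ⟨⟨0, 1, 1⟩, ⟨600, 601, 1000⟩, ⟨20, 501, 10000⟩, ⟨30500, 34500, 10000⟩⟩ (bot24.hPU true) :=
  posBox_join₂ bot24_pU1_0 bot24_pU1_1

def bot24_kU1_0 : PosBox ⟨⟨0, 1, 1⟩, ⟨600, 601, 1000⟩, ⟨20, 260, 10000⟩, ⟨30500, 34500, 10000⟩⟩ (bot24.hKU true) :=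
  posBox_of_check (c := ⟨358, ⟨6, 6, 12, 9⟩⟩) (by decide +kernel)

def bot24_kU1_1 : PosBox ⟨⟨0, 1, 1⟩, ⟨600, 601, 1000⟩, ⟨260, 501, 10000⟩, ⟨30500, 34500, 10000⟩⟩ (bot24.hKU true) :=
  posBox_of_check (c := ⟨359, ⟨6, 6, 12, 9⟩⟩) (by decide +kernel)

theorem bot24_kU1 : PosBox ⟨⟨0, 1, 1⟩, ⟨600, 601, 1000⟩, ⟨20, 501, 10000⟩, ⟨30500, 34500, 10000⟩⟩ (bot24.hKU true) :=
  posBox_join₂ bot24_kU1_0 bot24_kU1_1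

def bot24_kL1_0 : PosBox ⟨⟨0, 1, 1⟩, ⟨600, 601, 1000⟩, ⟨20, 260, 10000⟩, ⟨30500, 34500, 10000⟩⟩ (bot24.hKL true) :=
  posBox_of_check (c := ⟨357, ⟨6, 6, 12, 9⟩⟩) (by decide +kernel)

def bot24_kL1_1 : PosBox ⟨⟨0, 1, 1⟩, ⟨600, 601, 1000⟩, ⟨260, 501, 10000⟩, ⟨30500, 34500, 10000⟩⟩ (bot24.hKL true) :=
  posBox_of_check (c := ⟨359, ⟨6, 6, 12, 9⟩⟩) (by decide +kernel)

theorem bot24_kL1 : PosBox ⟨⟨0, 1, 1⟩, ⟨600, 601, 1000⟩, ⟨20, 501, 10000⟩, ⟨30500, 34500, 10000⟩⟩ (bot24.hKL true) :=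
  posBox_join₂ bot24_kL1_0 bot24_kL1_1

def bot24_wU1 : PosBox ⟨⟨0, 1, 1⟩, ⟨600, 601, 1000⟩, ⟨20, 501, 10000⟩, ⟨30500, 34500, 10000⟩⟩ (bot24.hWU true) :=
  posBox_of_check (c := ⟨391, ⟨6, 8, 13, 9⟩⟩) (by decide +kernel)

def bot24_wL1 : PosBox ⟨⟨0, 1, 1⟩, ⟨600, 601, 1000⟩, ⟨20, 501, 10000⟩, ⟨30500, 34500, 10000⟩⟩ (bot24.hWL true) :=
  posBox_of_check (c := ⟨391, ⟨6, 8, 13, 9⟩⟩) (by decide +kernel)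

def bot24_nueH : PosBox ⟨⟨0, 1, 1⟩, ⟨600, 601, 1000⟩, ⟨20, 501, 10000⟩, ⟨30500, 34500, 10000⟩⟩ (bot24.eH.ν) :=
  posBox_of_check (c := ⟨49, ⟨0, 0, 1, 1⟩⟩) (by decide +kernel)

def bot24_nupU : PosBox ⟨⟨0, 1, 1⟩, ⟨600, 601, 1000⟩, ⟨20, 501, 10000⟩, ⟨30500, 34500, 10000⟩⟩ (bot24.pU.ν) :=
  posBox_of_check (c := ⟨53, ⟨0, 0, 1, 1⟩⟩) (by decide +kernel)

/-- The checks on the bounds. -/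
theorem bot24_env : bot24.Env ⟨⟨0, 1, 1⟩, ⟨600, 601, 1000⟩, ⟨20, 501, 10000⟩, ⟨30500, 34500, 10000⟩⟩ where
  p0 := bot24_p0
  den := Bool.forall_bool.2 ⟨bot24_den0, bot24_den1⟩
  gn := bot24_gn
  ev := Bool.forall_bool.2 ⟨bot24_ev0, bot24_ev1⟩
  eL := Bool.forall_bool.2 ⟨bot24_eL0, bot24_eL1⟩
  eL' := ⟨.inr rfl, .inr rfl⟩
  eH := Bool.forall_bool.2 ⟨bot24_eH0, bot24_eH1⟩
  eH' := ⟨.inr rfl, .inl bot24_nueH⟩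
  pL := Bool.forall_bool.2 ⟨bot24_pL0, bot24_pL1⟩
  pL' := ⟨.inr rfl, .inr rfl⟩
  pU := Bool.forall_bool.2 ⟨bot24_pU0, bot24_pU1⟩
  pU' := ⟨.inr rfl, .inl bot24_nupU⟩
  kU := Bool.forall_bool.2 ⟨bot24_kU0, bot24_kU1⟩
  kU' := ⟨.inr rfl, .inr rfl⟩
  kL := Bool.forall_bool.2 ⟨bot24_kL0, bot24_kL1⟩
  kL' := ⟨.inr rfl, .inr rfl⟩
  wU := Bool.forall_bool.2 ⟨bot24_wU0, bot24_wU1⟩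
  wU' := ⟨.inr rfl, .inr rfl⟩
  wL := Bool.forall_bool.2 ⟨bot24_wL0, bot24_wL1⟩
  wL' := ⟨.inr rfl, .inr rfl⟩

end Vale.Agent.P100.Calib.Closed.High
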