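import Vale.Agent.P100.Calib.SlabHighBotData

/-!
# Checks of the signs of a piece of the tail
-/

set_option linter.defProp false

namespace Vale.Agent.P100.Calib.Closed.High

open BoxPos Large

def bot17_vG : PosBox ⟨⟨0, 1, 1⟩, ⟨600, 601, 1000⟩, ⟨0, 501, 10000⟩, ⟨7000, 16000, 10000⟩⟩ (hVG) :=
  posBox_of_check (c := ⟨178, ⟨0, 5, 8, 3⟩⟩) (by decide +kernel)

def bot17_vMG : PosBox ⟨⟨0, 1, 1⟩, ⟨600, 601, 1000⟩, ⟨0, 501, 10000⟩, ⟨7000, 16000, 10000⟩⟩ (hVMG) :=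
  posBox_of_check (c := ⟨191, ⟨0, 4, 8, 4⟩⟩) (by decide +kernel)

def bot17_ak : PosBox ⟨⟨0, 1, 1⟩, ⟨600, 601, 1000⟩, ⟨0, 501, 10000⟩, ⟨7000, 16000, 10000⟩⟩ (hAk) :=
  posBox_of_check (c := ⟨173, ⟨0, 4, 6, 4⟩⟩) (by decide +kernel)

def bot17_aw : PosBox ⟨⟨0, 1, 1⟩, ⟨600, 601, 1000⟩, ⟨0, 501, 10000⟩, ⟨7000, 16000, 10000⟩⟩ (hAw) :=
  posBox_of_check (c := ⟨169, ⟨0, 5, 7, 3⟩⟩) (by decide +kernel)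

def bot17_gk : PosBox ⟨⟨0, 1, 1⟩, ⟨600, 601, 1000⟩, ⟨0, 501, 10000⟩, ⟨7000, 16000, 10000⟩⟩ (hGk) :=
  posBox_of_check (c := ⟨173, ⟨0, 4, 6, 4⟩⟩) (by decide +kernel)

def bot17_gw : PosBox ⟨⟨0, 1, 1⟩, ⟨600, 601, 1000⟩, ⟨0, 501, 10000⟩, ⟨7000, 16000, 10000⟩⟩ (hGw) :=
  posBox_of_check (c := ⟨169, ⟨0, 5, 7, 3⟩⟩) (by decide +kernel)

def bot17_ek : PosBox ⟨⟨0, 1, 1⟩, ⟨600, 601, 1000⟩, ⟨0, 501, 10000⟩, ⟨7000, 16000, 10000⟩⟩ (hMk) :=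
  posBox_of_check (c := ⟨103, ⟨0, 2, 3, 3⟩⟩) (by decide +kernel)

def bot17_ew : PosBox ⟨⟨0, 1, 1⟩, ⟨600, 601, 1000⟩, ⟨0, 501, 10000⟩, ⟨7000, 16000, 10000⟩⟩ (hMw) :=
  posBox_of_check (c := ⟨100, ⟨0, 3, 4, 2⟩⟩) (by decide +kernel)

def bot17_pp : PosBox ⟨⟨0, 1, 1⟩, ⟨600, 601, 1000⟩, ⟨0, 501, 10000⟩, ⟨7000, 16000, 10000⟩⟩ (bot17.xPL) :=
  posBox_of_check (c := ⟨55, ⟨1, 1, 2, 1⟩⟩) (by decide +kernel)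

def bot17_k2p : PosBox ⟨⟨0, 1, 1⟩, ⟨600, 601, 1000⟩, ⟨0, 501, 10000⟩, ⟨7000, 16000, 10000⟩⟩ (bot17.k2p bot17.xE) :=
  posBox_of_check (c := ⟨59, ⟨1, 1, 1, 1⟩⟩) (by decide +kernel)

def bot17_k2m : PosBox ⟨⟨0, 1, 1⟩, ⟨600, 601, 1000⟩, ⟨0, 501, 10000⟩, ⟨7000, 16000, 10000⟩⟩ (bot17.k2m bot17.xE) :=
  posBox_of_check (c := ⟨25, ⟨0, 0, 1, 0⟩⟩) (by decide +kernel)

def bot17_v2p : PosBox ⟨⟨0, 1, 1⟩, ⟨600, 601, 1000⟩, ⟨0, 501, 10000⟩, ⟨7000, 16000, 10000⟩⟩ (bot17.hV2p) :=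
  posBox_of_check (c := ⟨241, ⟨1, 6, 10, 5⟩⟩) (by decide +kernel)

def bot17_v2m : PosBox ⟨⟨0, 1, 1⟩, ⟨600, 601, 1000⟩, ⟨0, 501, 10000⟩, ⟨7000, 16000, 10000⟩⟩ (bot17.hV2m) :=
  posBox_of_check (c := ⟨232, ⟨0, 5, 10, 5⟩⟩) (by decide +kernel)

def bot17_v3p : PosBox ⟨⟨0, 1, 1⟩, ⟨600, 601, 1000⟩, ⟨0, 501, 10000⟩, ⟨7000, 16000, 10000⟩⟩ (bot17.hV3p) :=
  posBox_of_check (c := ⟨210, ⟨1, 6, 9, 4⟩⟩) (by decide +kernel)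

def bot17_v3m : PosBox ⟨⟨0, 1, 1⟩, ⟨600, 601, 1000⟩, ⟨0, 501, 10000⟩, ⟨7000, 16000, 10000⟩⟩ (bot17.hV3m) :=
  posBox_of_check (c := ⟨208, ⟨0, 5, 9, 4⟩⟩) (by decide +kernel)

def bot17_kap0 : PosBox ⟨⟨0, 1, 1⟩, ⟨600, 601, 1000⟩, ⟨0, 501, 10000⟩, ⟨7000, 16000, 10000⟩⟩ (bot17.kap false) :=
  posBox_of_check (c := ⟨66, ⟨1, 1, 1, 1⟩⟩) (by decide +kernel)

def bot17_tg0 : PosBox ⟨⟨0, 1, 1⟩, ⟨600, 601, 1000⟩, ⟨0, 501, 10000⟩, ⟨7000, 16000, 10000⟩⟩ (bot17.hG (bot17.pEnd false)) :=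
  posBox_of_check (c := ⟨280, ⟨2, 7, 12, 6⟩⟩) (by decide +kernel)

def bot17_c2p0 : PosBox ⟨⟨0, 1, 1⟩, ⟨600, 601, 1000⟩, ⟨0, 501, 10000⟩, ⟨7000, 16000, 10000⟩⟩ (bot17.hC2p (bot17.pEnd false)) :=
  posBox_of_check (c := ⟨343, ⟨3, 8, 14, 7⟩⟩) (by decide +kernel)

def bot17_c2m0 : PosBox ⟨⟨0, 1, 1⟩, ⟨600, 601, 1000⟩, ⟨0, 501, 10000⟩, ⟨7000, 16000, 10000⟩⟩ (bot17.hC2m (bot17.pEnd false)) :=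
  posBox_of_check (c := ⟨336, ⟨2, 7, 14, 7⟩⟩) (by decide +kernel)

def bot17_c10 : PosBox ⟨⟨0, 1, 1⟩, ⟨600, 601, 1000⟩, ⟨0, 501, 10000⟩, ⟨7000, 16000, 10000⟩⟩ (bot17.hC1 false) :=
  posBox_of_check (c := ⟨210, ⟨3, 5, 8, 5⟩⟩) (by decide +kernel)

def bot17_c3p0 : PosBox ⟨⟨0, 1, 1⟩, ⟨600, 601, 1000⟩, ⟨0, 501, 10000⟩, ⟨7000, 16000, 10000⟩⟩ (bot17.hC3p false) :=
  posBox_of_check (c := ⟨318, ⟨3, 8, 13, 6⟩⟩) (by decide +kernel)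

def bot17_c3m0 : PosBox ⟨⟨0, 1, 1⟩, ⟨600, 601, 1000⟩, ⟨0, 501, 10000⟩, ⟨7000, 16000, 10000⟩⟩ (bot17.hC3m false) :=
  posBox_of_check (c := ⟨317, ⟨3, 7, 13, 6⟩⟩) (by decide +kernel)

def bot17_tmg0 : PosBox ⟨⟨0, 1, 1⟩, ⟨600, 601, 1000⟩, ⟨0, 501, 10000⟩, ⟨7000, 16000, 10000⟩⟩ (bot17.hTMG (bot17.pEnd false)) :=
  posBox_of_check (c := ⟨298, ⟨2, 7, 12, 6⟩⟩) (by decide +kernel)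

def bot17_c1h0 : PosBox ⟨⟨0, 1, 1⟩, ⟨600, 601, 1000⟩, ⟨0, 501, 10000⟩, ⟨7000, 16000, 10000⟩⟩ (bot17.hC1' false) :=
  posBox_of_check (c := ⟨210, ⟨3, 5, 8, 5⟩⟩) (by decide +kernel)

def bot17_c3ph0 : PosBox ⟨⟨0, 1, 1⟩, ⟨600, 601, 1000⟩, ⟨0, 501, 10000⟩, ⟨7000, 16000, 10000⟩⟩ (bot17.hC3p' false) :=
  posBox_of_check (c := ⟨318, ⟨3, 8, 13, 6⟩⟩) (by decide +kernel)

def bot17_c3mh0 : PosBox ⟨⟨0, 1, 1⟩, ⟨600, 601, 1000⟩, ⟨0, 501, 10000⟩, ⟨7000, 16000, 10000⟩⟩ (bot17.hC3m' false) :=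
  posBox_of_check (c := ⟨317, ⟨3, 7, 13, 6⟩⟩) (by decide +kernel)

def bot17_up0 : PosBox ⟨⟨0, 1, 1⟩, ⟨600, 601, 1000⟩, ⟨0, 501, 10000⟩, ⟨7000, 16000, 10000⟩⟩ (bot17.hUp false) :=
  posBox_of_check (c := ⟨316, ⟨3, 8, 13, 6⟩⟩) (by decide +kernel)

def bot17_um0 : PosBox ⟨⟨0, 1, 1⟩, ⟨600, 601, 1000⟩, ⟨0, 501, 10000⟩, ⟨7000, 16000, 10000⟩⟩ (bot17.hUm false) :=
  posBox_of_check (c := ⟨314, ⟨2, 7, 13, 6⟩⟩) (by decide +kernel)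

def bot17_kap1 : PosBox ⟨⟨0, 1, 1⟩, ⟨600, 601, 1000⟩, ⟨0, 501, 10000⟩, ⟨7000, 16000, 10000⟩⟩ (bot17.kap true) :=
  posBox_of_check (c := ⟨67, ⟨1, 1, 1, 1⟩⟩) (by decide +kernel)

def bot17_tg1 : PosBox ⟨⟨0, 1, 1⟩, ⟨600, 601, 1000⟩, ⟨0, 501, 10000⟩, ⟨7000, 16000, 10000⟩⟩ (bot17.hG (bot17.pEnd true)) :=
  posBox_of_check (c := ⟨335, ⟨2, 7, 12, 7⟩⟩) (by decide +kernel)

def bot17_c2p1 : PosBox ⟨⟨0, 1, 1⟩, ⟨600, 601, 1000⟩, ⟨0, 501, 10000⟩, ⟨7000, 16000, 10000⟩⟩ (bot17.hC2p (bot17.pEnd true)) :=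
  posBox_of_check (c := ⟨399, ⟨3, 8, 14, 9⟩⟩) (by decide +kernel)

def bot17_c2m1 : PosBox ⟨⟨0, 1, 1⟩, ⟨600, 601, 1000⟩, ⟨0, 501, 10000⟩, ⟨7000, 16000, 10000⟩⟩ (bot17.hC2m (bot17.pEnd true)) :=
  posBox_of_check (c := ⟨391, ⟨2, 7, 14, 9⟩⟩) (by decide +kernel)

def bot17_c11 : PosBox ⟨⟨0, 1, 1⟩, ⟨600, 601, 1000⟩, ⟨0, 501, 10000⟩, ⟨7000, 16000, 10000⟩⟩ (bot17.hC1 true) :=
  posBox_of_check (c := ⟨237, ⟨3, 5, 8, 6⟩⟩) (by decide +kernel)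

def bot17_c3p1 : PosBox ⟨⟨0, 1, 1⟩, ⟨600, 601, 1000⟩, ⟨0, 501, 10000⟩, ⟨7000, 16000, 10000⟩⟩ (bot17.hC3p true) :=
  posBox_of_check (c := ⟨371, ⟨3, 8, 13, 8⟩⟩) (by decide +kernel)

def bot17_c3m1 : PosBox ⟨⟨0, 1, 1⟩, ⟨600, 601, 1000⟩, ⟨0, 501, 10000⟩, ⟨7000, 16000, 10000⟩⟩ (bot17.hC3m true) :=
  posBox_of_check (c := ⟨370, ⟨3, 7, 13, 8⟩⟩) (by decide +kernel)

def bot17_tmg1 : PosBox ⟨⟨0, 1, 1⟩, ⟨600, 601, 1000⟩, ⟨0, 501, 10000⟩, ⟨7000, 16000, 10000⟩⟩ (bot17.hTMG (bot17.pEnd true)) :=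
  posBox_of_check (c := ⟨352, ⟨2, 7, 12, 8⟩⟩) (by decide +kernel)

def bot17_c1h1 : PosBox ⟨⟨0, 1, 1⟩, ⟨600, 601, 1000⟩, ⟨0, 501, 10000⟩, ⟨7000, 16000, 10000⟩⟩ (bot17.hC1' true) :=
  posBox_of_check (c := ⟨237, ⟨3, 5, 8, 6⟩⟩) (by decide +kernel)

def bot17_c3ph1 : PosBox ⟨⟨0, 1, 1⟩, ⟨600, 601, 1000⟩, ⟨0, 501, 10000⟩, ⟨7000, 16000, 10000⟩⟩ (bot17.hC3p' true) :=
  posBox_of_check (c := ⟨371, ⟨3, 8, 13, 8⟩⟩) (by decide +kernel)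

def bot17_c3mh1 : PosBox ⟨⟨0, 1, 1⟩, ⟨600, 601, 1000⟩, ⟨0, 501, 10000⟩, ⟨7000, 16000, 10000⟩⟩ (bot17.hC3m' true) :=
  posBox_of_check (c := ⟨370, ⟨3, 7, 13, 8⟩⟩) (by decide +kernel)

def bot17_up1 : PosBox ⟨⟨0, 1, 1⟩, ⟨600, 601, 1000⟩, ⟨0, 501, 10000⟩, ⟨7000, 16000, 10000⟩⟩ (bot17.hUp true) :=
  posBox_of_check (c := ⟨370, ⟨3, 8, 13, 8⟩⟩) (by decide +kernel)

def bot17_um1 : PosBox ⟨⟨0, 1, 1⟩, ⟨600, 601, 1000⟩, ⟨0, 501, 10000⟩, ⟨7000, 16000, 10000⟩⟩ (bot17.hUm true) :=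
  posBox_of_check (c := ⟨367, ⟨2, 7, 13, 8⟩⟩) (by decide +kernel)

/-- The checks on the signs. -/
theorem bot17_sign : bot17.Sign ⟨⟨0, 1, 1⟩, ⟨600, 601, 1000⟩, ⟨0, 501, 10000⟩, ⟨7000, 16000, 10000⟩⟩ where
  pp := bot17_pp
  k2p := bot17_k2p
  k2m := bot17_k2m
  v2p := bot17_v2p
  v2m := bot17_v2m
  v3p := bot17_v3p
  v3m := bot17_v3m
  tg := Bool.forall_bool.2 ⟨bot17_tg0, bot17_tg1⟩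
  c2p := Bool.forall_bool.2 ⟨bot17_c2p0, bot17_c2p1⟩
  c2m := Bool.forall_bool.2 ⟨bot17_c2m0, bot17_c2m1⟩
  kap := Bool.forall_bool.2 ⟨bot17_kap0, bot17_kap1⟩
  c1 := Bool.forall_bool.2 ⟨bot17_c10, bot17_c11⟩
  c3p := Bool.forall_bool.2 ⟨bot17_c3p0, bot17_c3p1⟩
  c3m := Bool.forall_bool.2 ⟨bot17_c3m0, bot17_c3m1⟩
  tmg := Bool.forall_bool.2 ⟨bot17_tmg0, bot17_tmg1⟩
  high := .inr (Bool.forall_bool.2 ⟨⟨bot17_c1h0, bot17_c3ph0, bot17_c3mh0, bot17_up0, bot17_um0⟩, ⟨bot17_c1h1, bot17_c3ph1, bot17_c3mh1, bot17_up1, bot17_um1⟩⟩)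
  vG := bot17_vG
  vMG := bot17_vMG
  ak := bot17_ak
  aw := bot17_aw
  gk := bot17_gk
  gw := bot17_gw
  ek := bot17_ek
  ew := bot17_ew

end Vale.Agent.P100.Calib.Closed.High
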