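import Vale.Agent.P100.Calib.SlabHighBotData

/-!
# Checks of the signs of a piece of the tail
-/

set_option linter.defProp false

namespace Vale.Agent.P100.Calib.Closed.High

open BoxPos Large

def bot19A_vG : PosBox ⟨⟨0, 1, 1⟩, ⟨600, 601, 1000⟩, ⟨0, 501, 10000⟩, ⟨23000, 25800, 10000⟩⟩ (hVG) :=
  posBox_of_check (c := ⟨178, ⟨0, 5, 8, 3⟩⟩) (by decide +kernel)

def bot19A_vMG : PosBox ⟨⟨0, 1, 1⟩, ⟨600, 601, 1000⟩, ⟨0, 501, 10000⟩, ⟨23000, 25800, 10000⟩⟩ (hVMG) :=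
  posBox_of_check (c := ⟨191, ⟨0, 4, 8, 4⟩⟩) (by decide +kernel)

def bot19A_ak : PosBox ⟨⟨0, 1, 1⟩, ⟨600, 601, 1000⟩, ⟨0, 501, 10000⟩, ⟨23000, 25800, 10000⟩⟩ (hAk) :=
  posBox_of_check (c := ⟨175, ⟨0, 4, 6, 4⟩⟩) (by decide +kernel)

def bot19A_aw : PosBox ⟨⟨0, 1, 1⟩, ⟨600, 601, 1000⟩, ⟨0, 501, 10000⟩, ⟨23000, 25800, 10000⟩⟩ (hAw) :=
  posBox_of_check (c := ⟨170, ⟨0, 5, 7, 3⟩⟩) (by decide +kernel)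

def bot19A_gk : PosBox ⟨⟨0, 1, 1⟩, ⟨600, 601, 1000⟩, ⟨0, 501, 10000⟩, ⟨23000, 25800, 10000⟩⟩ (hGk) :=
  posBox_of_check (c := ⟨175, ⟨0, 4, 6, 4⟩⟩) (by decide +kernel)

def bot19A_gw : PosBox ⟨⟨0, 1, 1⟩, ⟨600, 601, 1000⟩, ⟨0, 501, 10000⟩, ⟨23000, 25800, 10000⟩⟩ (hGw) :=
  posBox_of_check (c := ⟨170, ⟨0, 5, 7, 3⟩⟩) (by decide +kernel)

def bot19A_ek : PosBox ⟨⟨0, 1, 1⟩, ⟨600, 601, 1000⟩, ⟨0, 501, 10000⟩, ⟨23000, 25800, 10000⟩⟩ (hMk) :=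
  posBox_of_check (c := ⟨106, ⟨0, 2, 3, 3⟩⟩) (by decide +kernel)

def bot19A_ew : PosBox ⟨⟨0, 1, 1⟩, ⟨600, 601, 1000⟩, ⟨0, 501, 10000⟩, ⟨23000, 25800, 10000⟩⟩ (hMw) :=
  posBox_of_check (c := ⟨101, ⟨0, 3, 4, 2⟩⟩) (by decide +kernel)

def bot19A_pp : PosBox ⟨⟨0, 1, 1⟩, ⟨600, 601, 1000⟩, ⟨0, 501, 10000⟩, ⟨23000, 25800, 10000⟩⟩ (bot19A.xPL) :=
  posBox_of_check (c := ⟨88, ⟨1, 1, 2, 3⟩⟩) (by decide +kernel)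

def bot19A_k2p : PosBox ⟨⟨0, 1, 1⟩, ⟨600, 601, 1000⟩, ⟨0, 501, 10000⟩, ⟨23000, 25800, 10000⟩⟩ (bot19A.k2p bot19A.xE) :=
  posBox_of_check (c := ⟨66, ⟨1, 1, 1, 2⟩⟩) (by decide +kernel)

def bot19A_k2m : PosBox ⟨⟨0, 1, 1⟩, ⟨600, 601, 1000⟩, ⟨0, 501, 10000⟩, ⟨23000, 25800, 10000⟩⟩ (bot19A.k2m bot19A.xE) :=
  posBox_of_check (c := ⟨26, ⟨0, 0, 1, 0⟩⟩) (by decide +kernel)

def bot19A_v2p : PosBox ⟨⟨0, 1, 1⟩, ⟨600, 601, 1000⟩, ⟨0, 501, 10000⟩, ⟨23000, 25800, 10000⟩⟩ (bot19A.hV2p) :=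
  posBox_of_check (c := ⟨244, ⟨1, 6, 10, 5⟩⟩) (by decide +kernel)

def bot19A_v2m : PosBox ⟨⟨0, 1, 1⟩, ⟨600, 601, 1000⟩, ⟨0, 501, 10000⟩, ⟨23000, 25800, 10000⟩⟩ (bot19A.hV2m) :=
  posBox_of_check (c := ⟨234, ⟨0, 5, 10, 5⟩⟩) (by decide +kernel)

def bot19A_v3p : PosBox ⟨⟨0, 1, 1⟩, ⟨600, 601, 1000⟩, ⟨0, 501, 10000⟩, ⟨23000, 25800, 10000⟩⟩ (bot19A.hV3p) :=
  posBox_of_check (c := ⟨212, ⟨1, 6, 9, 4⟩⟩) (by decide +kernel)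

def bot19A_v3m : PosBox ⟨⟨0, 1, 1⟩, ⟨600, 601, 1000⟩, ⟨0, 501, 10000⟩, ⟨23000, 25800, 10000⟩⟩ (bot19A.hV3m) :=
  posBox_of_check (c := ⟨208, ⟨0, 5, 9, 4⟩⟩) (by decide +kernel)

def bot19A_kap0 : PosBox ⟨⟨0, 1, 1⟩, ⟨600, 601, 1000⟩, ⟨0, 501, 10000⟩, ⟨23000, 25800, 10000⟩⟩ (bot19A.kap false) :=
  posBox_of_check (c := ⟨74, ⟨1, 1, 1, 2⟩⟩) (by decide +kernel)

def bot19A_tg0 : PosBox ⟨⟨0, 1, 1⟩, ⟨600, 601, 1000⟩, ⟨0, 501, 10000⟩, ⟨23000, 25800, 10000⟩⟩ (bot19A.hG (bot19A.pEnd false)) :=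
  posBox_of_check (c := ⟨346, ⟨2, 7, 12, 9⟩⟩) (by decide +kernel)

def bot19A_c2p0 : PosBox ⟨⟨0, 1, 1⟩, ⟨600, 601, 1000⟩, ⟨0, 501, 10000⟩, ⟨23000, 25800, 10000⟩⟩ (bot19A.hC2p (bot19A.pEnd false)) :=
  posBox_of_check (c := ⟨412, ⟨3, 8, 14, 11⟩⟩) (by decide +kernel)

def bot19A_c2m0 : PosBox ⟨⟨0, 1, 1⟩, ⟨600, 601, 1000⟩, ⟨0, 501, 10000⟩, ⟨23000, 25800, 10000⟩⟩ (bot19A.hC2m (bot19A.pEnd false)) :=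
  posBox_of_check (c := ⟨404, ⟨2, 7, 14, 11⟩⟩) (by decide +kernel)

def bot19A_c10 : PosBox ⟨⟨0, 1, 1⟩, ⟨600, 601, 1000⟩, ⟨0, 501, 10000⟩, ⟨23000, 25800, 10000⟩⟩ (bot19A.hC1 false) :=
  posBox_of_check (c := ⟨249, ⟨3, 5, 8, 7⟩⟩) (by decide +kernel)

def bot19A_c3p0 : PosBox ⟨⟨0, 1, 1⟩, ⟨600, 601, 1000⟩, ⟨0, 501, 10000⟩, ⟨23000, 25800, 10000⟩⟩ (bot19A.hC3p false) :=
  posBox_of_check (c := ⟨385, ⟨3, 8, 13, 10⟩⟩) (by decide +kernel)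

def bot19A_c3m0 : PosBox ⟨⟨0, 1, 1⟩, ⟨600, 601, 1000⟩, ⟨0, 501, 10000⟩, ⟨23000, 25800, 10000⟩⟩ (bot19A.hC3m false) :=
  posBox_of_check (c := ⟨384, ⟨3, 7, 13, 10⟩⟩) (by decide +kernel)

def bot19A_tmg0 : PosBox ⟨⟨0, 1, 1⟩, ⟨600, 601, 1000⟩, ⟨0, 501, 10000⟩, ⟨23000, 25800, 10000⟩⟩ (bot19A.hTMG (bot19A.pEnd false)) :=
  posBox_of_check (c := ⟨361, ⟨2, 7, 12, 10⟩⟩) (by decide +kernel)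

def bot19A_neg0 : PosBox ⟨⟨0, 1, 1⟩, ⟨600, 601, 1000⟩, ⟨0, 501, 10000⟩, ⟨23000, 25800, 10000⟩⟩ (bot19A.hNeg (bot19A.pEnd false)) :=
  posBox_of_check (c := ⟨242, ⟨2, 5, 8, 7⟩⟩) (by decide +kernel)

def bot19A_neglo0 : PosBox ⟨⟨0, 1, 1⟩, ⟨600, 601, 1000⟩, ⟨0, 501, 10000⟩, ⟨23000, 25800, 10000⟩⟩ (bot19A.hNegLo (bot19A.pEnd false)) :=
  posBox_of_check (c := ⟨242, ⟨2, 5, 8, 7⟩⟩) (by decide +kernel)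

def bot19A_kap1 : PosBox ⟨⟨0, 1, 1⟩, ⟨600, 601, 1000⟩, ⟨0, 501, 10000⟩, ⟨23000, 25800, 10000⟩⟩ (bot19A.kap true) :=
  posBox_of_check (c := ⟨73, ⟨1, 1, 1, 2⟩⟩) (by decide +kernel)

def bot19A_tg1 : PosBox ⟨⟨0, 1, 1⟩, ⟨600, 601, 1000⟩, ⟨0, 501, 10000⟩, ⟨23000, 25800, 10000⟩⟩ (bot19A.hG (bot19A.pEnd true)) :=
  posBox_of_check (c := ⟨340, ⟨2, 7, 12, 9⟩⟩) (by decide +kernel)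

def bot19A_c2p1 : PosBox ⟨⟨0, 1, 1⟩, ⟨600, 601, 1000⟩, ⟨0, 501, 10000⟩, ⟨23000, 25800, 10000⟩⟩ (bot19A.hC2p (bot19A.pEnd true)) :=
  posBox_of_check (c := ⟨407, ⟨3, 8, 14, 11⟩⟩) (by decide +kernel)

def bot19A_c2m1 : PosBox ⟨⟨0, 1, 1⟩, ⟨600, 601, 1000⟩, ⟨0, 501, 10000⟩, ⟨23000, 25800, 10000⟩⟩ (bot19A.hC2m (bot19A.pEnd true)) :=
  posBox_of_check (c := ⟨398, ⟨2, 7, 14, 11⟩⟩) (by decide +kernel)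

def bot19A_c11 : PosBox ⟨⟨0, 1, 1⟩, ⟨600, 601, 1000⟩, ⟨0, 501, 10000⟩, ⟨23000, 25800, 10000⟩⟩ (bot19A.hC1 true) :=
  posBox_of_check (c := ⟨246, ⟨3, 5, 8, 7⟩⟩) (by decide +kernel)

def bot19A_c3p1 : PosBox ⟨⟨0, 1, 1⟩, ⟨600, 601, 1000⟩, ⟨0, 501, 10000⟩, ⟨23000, 25800, 10000⟩⟩ (bot19A.hC3p true) :=
  posBox_of_check (c := ⟨380, ⟨3, 8, 13, 10⟩⟩) (by decide +kernel)

def bot19A_c3m1 : PosBox ⟨⟨0, 1, 1⟩, ⟨600, 601, 1000⟩, ⟨0, 501, 10000⟩, ⟨23000, 25800, 10000⟩⟩ (bot19A.hC3m true) :=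
  posBox_of_check (c := ⟨379, ⟨3, 7, 13, 10⟩⟩) (by decide +kernel)

def bot19A_tmg1 : PosBox ⟨⟨0, 1, 1⟩, ⟨600, 601, 1000⟩, ⟨0, 501, 10000⟩, ⟨23000, 25800, 10000⟩⟩ (bot19A.hTMG (bot19A.pEnd true)) :=
  posBox_of_check (c := ⟨356, ⟨2, 7, 12, 10⟩⟩) (by decide +kernel)

def bot19A_neg1 : PosBox ⟨⟨0, 1, 1⟩, ⟨600, 601, 1000⟩, ⟨0, 501, 10000⟩, ⟨23000, 25800, 10000⟩⟩ (bot19A.hNeg (bot19A.pEnd true)) :=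
  posBox_of_check (c := ⟨239, ⟨2, 5, 8, 7⟩⟩) (by decide +kernel)

def bot19A_neglo1 : PosBox ⟨⟨0, 1, 1⟩, ⟨600, 601, 1000⟩, ⟨0, 501, 10000⟩, ⟨23000, 25800, 10000⟩⟩ (bot19A.hNegLo (bot19A.pEnd true)) :=
  posBox_of_check (c := ⟨239, ⟨2, 5, 8, 7⟩⟩) (by decide +kernel)

/-- The checks on the signs. -/
theorem bot19A_sign : bot19A.Sign ⟨⟨0, 1, 1⟩, ⟨600, 601, 1000⟩, ⟨0, 501, 10000⟩, ⟨23000, 25800, 10000⟩⟩ where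
  pp := bot19A_pp
  k2p := bot19A_k2p
  k2m := bot19A_k2m
  v2p := bot19A_v2p
  v2m := bot19A_v2m
  v3p := bot19A_v3p
  v3m := bot19A_v3m
  tg := Bool.forall_bool.2 ⟨bot19A_tg0, bot19A_tg1⟩
  c2p := Bool.forall_bool.2 ⟨bot19A_c2p0, bot19A_c2p1⟩
  c2m := Bool.forall_bool.2 ⟨bot19A_c2m0, bot19A_c2m1⟩
  kap := Bool.forall_bool.2 ⟨bot19A_kap0, bot19A_kap1⟩
  c1 := Bool.forall_bool.2 ⟨bot19A_c10, bot19A_c11⟩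
  c3p := Bool.forall_bool.2 ⟨bot19A_c3p0, bot19A_c3p1⟩
  c3m := Bool.forall_bool.2 ⟨bot19A_c3m0, bot19A_c3m1⟩
  tmg := Bool.forall_bool.2 ⟨bot19A_tmg0, bot19A_tmg1⟩
  high := .inl (Bool.forall_bool.2 ⟨⟨bot19A_neg0, bot19A_neglo0⟩, ⟨bot19A_neg1, bot19A_neglo1⟩⟩)
  vG := bot19A_vG
  vMG := bot19A_vMG
  ak := bot19A_ak
  aw := bot19A_aw
  gk := bot19A_gk
  gw := bot19A_gw
  ek := bot19A_ek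
  ew := bot19A_ew

end Vale.Agent.P100.Calib.Closed.High
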