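import Vale.Agent.P100.Calib.SlabHighBotData

/-!
# Checks of the signs of a piece of the tail
-/

set_option linter.defProp false

namespace Vale.Agent.P100.Calib.Closed.High

open BoxPos Large

def bot19B_vG : PosBox ⟨⟨0, 1, 1⟩, ⟨600, 601, 1000⟩, ⟨0, 501, 10000⟩, ⟨23000, 25800, 10000⟩⟩ (hVG) :=
  posBox_of_check (c := ⟨178, ⟨0, 5, 8, 3⟩⟩) (by decide +kernel)

def bot19B_vMG : PosBox ⟨⟨0, 1, 1⟩, ⟨600, 601, 1000⟩, ⟨0, 501, 10000⟩, ⟨23000, 25800, 10000⟩⟩ (hVMG) :=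
  posBox_of_check (c := ⟨191, ⟨0, 4, 8, 4⟩⟩) (by decide +kernel)

def bot19B_ak : PosBox ⟨⟨0, 1, 1⟩, ⟨600, 601, 1000⟩, ⟨0, 501, 10000⟩, ⟨23000, 25800, 10000⟩⟩ (hAk) :=
  posBox_of_check (c := ⟨175, ⟨0, 4, 6, 4⟩⟩) (by decide +kernel)

def bot19B_aw : PosBox ⟨⟨0, 1, 1⟩, ⟨600, 601, 1000⟩, ⟨0, 501, 10000⟩, ⟨23000, 25800, 10000⟩⟩ (hAw) :=
  posBox_of_check (c := ⟨170, ⟨0, 5, 7, 3⟩⟩) (by decide +kernel)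

def bot19B_gk : PosBox ⟨⟨0, 1, 1⟩, ⟨600, 601, 1000⟩, ⟨0, 501, 10000⟩, ⟨23000, 25800, 10000⟩⟩ (hGk) :=
  posBox_of_check (c := ⟨175, ⟨0, 4, 6, 4⟩⟩) (by decide +kernel)

def bot19B_gw : PosBox ⟨⟨0, 1, 1⟩, ⟨600, 601, 1000⟩, ⟨0, 501, 10000⟩, ⟨23000, 25800, 10000⟩⟩ (hGw) :=
  posBox_of_check (c := ⟨170, ⟨0, 5, 7, 3⟩⟩) (by decide +kernel)

def bot19B_ek : PosBox ⟨⟨0, 1, 1⟩, ⟨600, 601, 1000⟩, ⟨0, 501, 10000⟩, ⟨23000, 25800, 10000⟩⟩ (hMk) :=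
  posBox_of_check (c := ⟨106, ⟨0, 2, 3, 3⟩⟩) (by decide +kernel)

def bot19B_ew : PosBox ⟨⟨0, 1, 1⟩, ⟨600, 601, 1000⟩, ⟨0, 501, 10000⟩, ⟨23000, 25800, 10000⟩⟩ (hMw) :=
  posBox_of_check (c := ⟨101, ⟨0, 3, 4, 2⟩⟩) (by decide +kernel)

def bot19B_pp : PosBox ⟨⟨0, 1, 1⟩, ⟨600, 601, 1000⟩, ⟨0, 501, 10000⟩, ⟨23000, 25800, 10000⟩⟩ (bot19B.xPL) :=
  posBox_of_check (c := ⟨90, ⟨1, 1, 2, 3⟩⟩) (by decide +kernel)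

def bot19B_k2p : PosBox ⟨⟨0, 1, 1⟩, ⟨600, 601, 1000⟩, ⟨0, 501, 10000⟩, ⟨23000, 25800, 10000⟩⟩ (bot19B.k2p bot19B.xE) :=
  posBox_of_check (c := ⟨68, ⟨1, 1, 1, 2⟩⟩) (by decide +kernel)

def bot19B_k2m : PosBox ⟨⟨0, 1, 1⟩, ⟨600, 601, 1000⟩, ⟨0, 501, 10000⟩, ⟨23000, 25800, 10000⟩⟩ (bot19B.k2m bot19B.xE) :=
  posBox_of_check (c := ⟨26, ⟨0, 0, 1, 0⟩⟩) (by decide +kernel)

def bot19B_v2p : PosBox ⟨⟨0, 1, 1⟩, ⟨600, 601, 1000⟩, ⟨0, 501, 10000⟩, ⟨23000, 25800, 10000⟩⟩ (bot19B.hV2p) :=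
  posBox_of_check (c := ⟨245, ⟨1, 6, 10, 5⟩⟩) (by decide +kernel)

def bot19B_v2m : PosBox ⟨⟨0, 1, 1⟩, ⟨600, 601, 1000⟩, ⟨0, 501, 10000⟩, ⟨23000, 25800, 10000⟩⟩ (bot19B.hV2m) :=
  posBox_of_check (c := ⟨234, ⟨0, 5, 10, 5⟩⟩) (by decide +kernel)

def bot19B_v3p : PosBox ⟨⟨0, 1, 1⟩, ⟨600, 601, 1000⟩, ⟨0, 501, 10000⟩, ⟨23000, 25800, 10000⟩⟩ (bot19B.hV3p) :=
  posBox_of_check (c := ⟨212, ⟨1, 6, 9, 4⟩⟩) (by decide +kernel)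

def bot19B_v3m : PosBox ⟨⟨0, 1, 1⟩, ⟨600, 601, 1000⟩, ⟨0, 501, 10000⟩, ⟨23000, 25800, 10000⟩⟩ (bot19B.hV3m) :=
  posBox_of_check (c := ⟨208, ⟨0, 5, 9, 4⟩⟩) (by decide +kernel)

def bot19B_kap0 : PosBox ⟨⟨0, 1, 1⟩, ⟨600, 601, 1000⟩, ⟨0, 501, 10000⟩, ⟨23000, 25800, 10000⟩⟩ (bot19B.kap false) :=
  posBox_of_check (c := ⟨86, ⟨1, 1, 1, 2⟩⟩) (by decide +kernel)

def bot19B_tg0 : PosBox ⟨⟨0, 1, 1⟩, ⟨600, 601, 1000⟩, ⟨0, 501, 10000⟩, ⟨23000, 25800, 10000⟩⟩ (bot19B.hG (bot19B.pEnd false)) :=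
  posBox_of_check (c := ⟨348, ⟨2, 7, 12, 9⟩⟩) (by decide +kernel)

def bot19B_c2p0 : PosBox ⟨⟨0, 1, 1⟩, ⟨600, 601, 1000⟩, ⟨0, 501, 10000⟩, ⟨23000, 25800, 10000⟩⟩ (bot19B.hC2p (bot19B.pEnd false)) :=
  posBox_of_check (c := ⟨416, ⟨3, 8, 14, 11⟩⟩) (by decide +kernel)

def bot19B_c2m0 : PosBox ⟨⟨0, 1, 1⟩, ⟨600, 601, 1000⟩, ⟨0, 501, 10000⟩, ⟨23000, 25800, 10000⟩⟩ (bot19B.hC2m (bot19B.pEnd false)) :=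
  posBox_of_check (c := ⟨406, ⟨2, 7, 14, 11⟩⟩) (by decide +kernel)

def bot19B_c10 : PosBox ⟨⟨0, 1, 1⟩, ⟨600, 601, 1000⟩, ⟨0, 501, 10000⟩, ⟨23000, 25800, 10000⟩⟩ (bot19B.hC1 false) :=
  posBox_of_check (c := ⟨259, ⟨3, 5, 8, 7⟩⟩) (by decide +kernel)

def bot19B_c3p0 : PosBox ⟨⟨0, 1, 1⟩, ⟨600, 601, 1000⟩, ⟨0, 501, 10000⟩, ⟨23000, 25800, 10000⟩⟩ (bot19B.hC3p false) :=
  posBox_of_check (c := ⟨396, ⟨3, 8, 13, 10⟩⟩) (by decide +kernel)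

def bot19B_c3m0 : PosBox ⟨⟨0, 1, 1⟩, ⟨600, 601, 1000⟩, ⟨0, 501, 10000⟩, ⟨23000, 25800, 10000⟩⟩ (bot19B.hC3m false) :=
  posBox_of_check (c := ⟨395, ⟨3, 7, 13, 10⟩⟩) (by decide +kernel)

def bot19B_tmg0 : PosBox ⟨⟨0, 1, 1⟩, ⟨600, 601, 1000⟩, ⟨0, 501, 10000⟩, ⟨23000, 25800, 10000⟩⟩ (bot19B.hTMG (bot19B.pEnd false)) :=
  posBox_of_check (c := ⟨363, ⟨2, 7, 12, 10⟩⟩) (by decide +kernel)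

def bot19B_c1h0_0 : PosBox ⟨⟨0, 1, 1⟩, ⟨600, 601, 1000⟩, ⟨0, 501, 10000⟩, ⟨23000, 24400, 10000⟩⟩ (bot19B.hC1' false) :=
  posBox_of_check (c := ⟨259, ⟨3, 5, 8, 7⟩⟩) (by decide +kernel)

def bot19B_c1h0_1 : PosBox ⟨⟨0, 1, 1⟩, ⟨600, 601, 1000⟩, ⟨0, 501, 10000⟩, ⟨24400, 25800, 10000⟩⟩ (bot19B.hC1' false) :=
  posBox_of_check (c := ⟨260, ⟨3, 5, 8, 7⟩⟩) (by decide +kernel)

theorem bot19B_c1h0 : PosBox ⟨⟨0, 1, 1⟩, ⟨600, 601, 1000⟩, ⟨0, 501, 10000⟩, ⟨23000, 25800, 10000⟩⟩ (bot19B.hC1' false) :=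
  posBox_join₃ bot19B_c1h0_0 bot19B_c1h0_1

def bot19B_c3ph0 : PosBox ⟨⟨0, 1, 1⟩, ⟨600, 601, 1000⟩, ⟨0, 501, 10000⟩, ⟨23000, 25800, 10000⟩⟩ (bot19B.hC3p' false) :=
  posBox_of_check (c := ⟨396, ⟨3, 8, 13, 10⟩⟩) (by decide +kernel)

def bot19B_c3mh0 : PosBox ⟨⟨0, 1, 1⟩, ⟨600, 601, 1000⟩, ⟨0, 501, 10000⟩, ⟨23000, 25800, 10000⟩⟩ (bot19B.hC3m' false) :=
  posBox_of_check (c := ⟨395, ⟨3, 7, 13, 10⟩⟩) (by decide +kernel)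

def bot19B_up0 : PosBox ⟨⟨0, 1, 1⟩, ⟨600, 601, 1000⟩, ⟨0, 501, 10000⟩, ⟨23000, 25800, 10000⟩⟩ (bot19B.hUp false) :=
  posBox_of_check (c := ⟨385, ⟨3, 8, 13, 10⟩⟩) (by decide +kernel)

def bot19B_um0 : PosBox ⟨⟨0, 1, 1⟩, ⟨600, 601, 1000⟩, ⟨0, 501, 10000⟩, ⟨23000, 25800, 10000⟩⟩ (bot19B.hUm false) :=
  posBox_of_check (c := ⟨379, ⟨2, 7, 13, 10⟩⟩) (by decide +kernel)

def bot19B_kap1 : PosBox ⟨⟨0, 1, 1⟩, ⟨600, 601, 1000⟩, ⟨0, 501, 10000⟩, ⟨23000, 25800, 10000⟩⟩ (bot19B.kap true) :=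
  posBox_of_check (c := ⟨82, ⟨1, 1, 1, 2⟩⟩) (by decide +kernel)

def bot19B_tg1 : PosBox ⟨⟨0, 1, 1⟩, ⟨600, 601, 1000⟩, ⟨0, 501, 10000⟩, ⟨23000, 25800, 10000⟩⟩ (bot19B.hG (bot19B.pEnd true)) :=
  posBox_of_check (c := ⟨345, ⟨2, 7, 12, 9⟩⟩) (by decide +kernel)

def bot19B_c2p1 : PosBox ⟨⟨0, 1, 1⟩, ⟨600, 601, 1000⟩, ⟨0, 501, 10000⟩, ⟨23000, 25800, 10000⟩⟩ (bot19B.hC2p (bot19B.pEnd true)) :=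
  posBox_of_check (c := ⟨412, ⟨3, 8, 14, 11⟩⟩) (by decide +kernel)

def bot19B_c2m1 : PosBox ⟨⟨0, 1, 1⟩, ⟨600, 601, 1000⟩, ⟨0, 501, 10000⟩, ⟨23000, 25800, 10000⟩⟩ (bot19B.hC2m (bot19B.pEnd true)) :=
  posBox_of_check (c := ⟨403, ⟨2, 7, 14, 11⟩⟩) (by decide +kernel)

def bot19B_c11 : PosBox ⟨⟨0, 1, 1⟩, ⟨600, 601, 1000⟩, ⟨0, 501, 10000⟩, ⟨23000, 25800, 10000⟩⟩ (bot19B.hC1 true) :=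
  posBox_of_check (c := ⟨255, ⟨3, 5, 8, 7⟩⟩) (by decide +kernel)

def bot19B_c3p1 : PosBox ⟨⟨0, 1, 1⟩, ⟨600, 601, 1000⟩, ⟨0, 501, 10000⟩, ⟨23000, 25800, 10000⟩⟩ (bot19B.hC3p true) :=
  posBox_of_check (c := ⟨390, ⟨3, 8, 13, 10⟩⟩) (by decide +kernel)

def bot19B_c3m1 : PosBox ⟨⟨0, 1, 1⟩, ⟨600, 601, 1000⟩, ⟨0, 501, 10000⟩, ⟨23000, 25800, 10000⟩⟩ (bot19B.hC3m true) :=
  posBox_of_check (c := ⟨389, ⟨3, 7, 13, 10⟩⟩) (by decide +kernel)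

def bot19B_tmg1 : PosBox ⟨⟨0, 1, 1⟩, ⟨600, 601, 1000⟩, ⟨0, 501, 10000⟩, ⟨23000, 25800, 10000⟩⟩ (bot19B.hTMG (bot19B.pEnd true)) :=
  posBox_of_check (c := ⟨361, ⟨2, 7, 12, 10⟩⟩) (by decide +kernel)

def bot19B_c1h1 : PosBox ⟨⟨0, 1, 1⟩, ⟨600, 601, 1000⟩, ⟨0, 501, 10000⟩, ⟨23000, 25800, 10000⟩⟩ (bot19B.hC1' true) :=
  posBox_of_check (c := ⟨255, ⟨3, 5, 8, 7⟩⟩) (by decide +kernel)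

def bot19B_c3ph1 : PosBox ⟨⟨0, 1, 1⟩, ⟨600, 601, 1000⟩, ⟨0, 501, 10000⟩, ⟨23000, 25800, 10000⟩⟩ (bot19B.hC3p' true) :=
  posBox_of_check (c := ⟨390, ⟨3, 8, 13, 10⟩⟩) (by decide +kernel)

def bot19B_c3mh1 : PosBox ⟨⟨0, 1, 1⟩, ⟨600, 601, 1000⟩, ⟨0, 501, 10000⟩, ⟨23000, 25800, 10000⟩⟩ (bot19B.hC3m' true) :=
  posBox_of_check (c := ⟨389, ⟨3, 7, 13, 10⟩⟩) (by decide +kernel)

def bot19B_up1 : PosBox ⟨⟨0, 1, 1⟩, ⟨600, 601, 1000⟩, ⟨0, 501, 10000⟩, ⟨23000, 25800, 10000⟩⟩ (bot19B.hUp true) :=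
  posBox_of_check (c := ⟨382, ⟨3, 8, 13, 10⟩⟩) (by decide +kernel)

def bot19B_um1 : PosBox ⟨⟨0, 1, 1⟩, ⟨600, 601, 1000⟩, ⟨0, 501, 10000⟩, ⟨23000, 25800, 10000⟩⟩ (bot19B.hUm true) :=
  posBox_of_check (c := ⟨376, ⟨2, 7, 13, 10⟩⟩) (by decide +kernel)

/-- The checks on the signs. -/
theorem bot19B_sign : bot19B.Sign ⟨⟨0, 1, 1⟩, ⟨600, 601, 1000⟩, ⟨0, 501, 10000⟩, ⟨23000, 25800, 10000⟩⟩ where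
  pp := bot19B_pp
  k2p := bot19B_k2p
  k2m := bot19B_k2m
  v2p := bot19B_v2p
  v2m := bot19B_v2m
  v3p := bot19B_v3p
  v3m := bot19B_v3m
  tg := Bool.forall_bool.2 ⟨bot19B_tg0, bot19B_tg1⟩
  c2p := Bool.forall_bool.2 ⟨bot19B_c2p0, bot19B_c2p1⟩
  c2m := Bool.forall_bool.2 ⟨bot19B_c2m0, bot19B_c2m1⟩
  kap := Bool.forall_bool.2 ⟨bot19B_kap0, bot19B_kap1⟩
  c1 := Bool.forall_bool.2 ⟨bot19B_c10, bot19B_c11⟩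
  c3p := Bool.forall_bool.2 ⟨bot19B_c3p0, bot19B_c3p1⟩
  c3m := Bool.forall_bool.2 ⟨bot19B_c3m0, bot19B_c3m1⟩
  tmg := Bool.forall_bool.2 ⟨bot19B_tmg0, bot19B_tmg1⟩
  high := .inr (Bool.forall_bool.2 ⟨⟨bot19B_c1h0, bot19B_c3ph0, bot19B_c3mh0, bot19B_up0, bot19B_um0⟩, ⟨bot19B_c1h1, bot19B_c3ph1, bot19B_c3mh1, bot19B_up1, bot19B_um1⟩⟩)
  vG := bot19B_vG
  vMG := bot19B_vMG
  ak := bot19B_ak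
  aw := bot19B_aw
  gk := bot19B_gk
  gw := bot19B_gw
  ek := bot19B_ek
  ew := bot19B_ew

end Vale.Agent.P100.Calib.Closed.High
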