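import Vale.Agent.P100.Calib.SlabHighBotData

/-!
# Checks of the signs of a piece of the tail
-/

set_option linter.defProp false

namespace Vale.Agent.P100.Calib.Closed.High

open BoxPos Large

def bot20_vG : PosBox ⟨⟨0, 1, 1⟩, ⟨600000, 600002, 1000000⟩, ⟨0, 20, 10000⟩, ⟨25800, 30500, 10000⟩⟩ (hVG) :=
  posBox_of_check (c := ⟨210, ⟨0, 5, 8, 3⟩⟩) (by decide +kernel)

def bot20_vMG : PosBox ⟨⟨0, 1, 1⟩, ⟨600000, 600002, 1000000⟩, ⟨0, 20, 10000⟩, ⟨25800, 30500, 10000⟩⟩ (hVMG) :=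
  posBox_of_check (c := ⟨217, ⟨0, 4, 8, 4⟩⟩) (by decide +kernel)

def bot20_ak : PosBox ⟨⟨0, 1, 1⟩, ⟨600000, 600002, 1000000⟩, ⟨0, 20, 10000⟩, ⟨25800, 30500, 10000⟩⟩ (hAk) :=
  posBox_of_check (c := ⟨202, ⟨0, 4, 6, 4⟩⟩) (by decide +kernel)

def bot20_aw : PosBox ⟨⟨0, 1, 1⟩, ⟨600000, 600002, 1000000⟩, ⟨0, 20, 10000⟩, ⟨25800, 30500, 10000⟩⟩ (hAw) :=
  posBox_of_check (c := ⟨203, ⟨0, 5, 7, 3⟩⟩) (by decide +kernel)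

def bot20_gk : PosBox ⟨⟨0, 1, 1⟩, ⟨600000, 600002, 1000000⟩, ⟨0, 20, 10000⟩, ⟨25800, 30500, 10000⟩⟩ (hGk) :=
  posBox_of_check (c := ⟨202, ⟨0, 4, 6, 4⟩⟩) (by decide +kernel)

def bot20_gw : PosBox ⟨⟨0, 1, 1⟩, ⟨600000, 600002, 1000000⟩, ⟨0, 20, 10000⟩, ⟨25800, 30500, 10000⟩⟩ (hGw) :=
  posBox_of_check (c := ⟨203, ⟨0, 5, 7, 3⟩⟩) (by decide +kernel)

def bot20_ek : PosBox ⟨⟨0, 1, 1⟩, ⟨600000, 600002, 1000000⟩, ⟨0, 20, 10000⟩, ⟨25800, 30500, 10000⟩⟩ (hMk) :=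
  posBox_of_check (c := ⟨119, ⟨0, 2, 3, 3⟩⟩) (by decide +kernel)

def bot20_ew : PosBox ⟨⟨0, 1, 1⟩, ⟨600000, 600002, 1000000⟩, ⟨0, 20, 10000⟩, ⟨25800, 30500, 10000⟩⟩ (hMw) :=
  posBox_of_check (c := ⟨121, ⟨0, 3, 4, 2⟩⟩) (by decide +kernel)

def bot20_pp : PosBox ⟨⟨0, 1, 1⟩, ⟨600000, 600002, 1000000⟩, ⟨0, 20, 10000⟩, ⟨25800, 30500, 10000⟩⟩ (bot20.xPL) :=
  posBox_of_check (c := ⟨55, ⟨1, 1, 1, 2⟩⟩) (by decide +kernel)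

def bot20_k2p : PosBox ⟨⟨0, 1, 1⟩, ⟨600000, 600002, 1000000⟩, ⟨0, 20, 10000⟩, ⟨25800, 30500, 10000⟩⟩ (bot20.k2p bot20.xE) :=
  posBox_of_check (c := ⟨24, ⟨0, 0, 1, 1⟩⟩) (by decide +kernel)

def bot20_k2m : PosBox ⟨⟨0, 1, 1⟩, ⟨600000, 600002, 1000000⟩, ⟨0, 20, 10000⟩, ⟨25800, 30500, 10000⟩⟩ (bot20.k2m bot20.xE) :=
  posBox_of_check (c := ⟨22, ⟨0, 0, 1, 0⟩⟩) (by decide +kernel)

def bot20_v2p : PosBox ⟨⟨0, 1, 1⟩, ⟨600000, 600002, 1000000⟩, ⟨0, 20, 10000⟩, ⟨25800, 30500, 10000⟩⟩ (bot20.hV2p) :=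
  posBox_of_check (c := ⟨261, ⟨0, 5, 10, 5⟩⟩) (by decide +kernel)

def bot20_v2m : PosBox ⟨⟨0, 1, 1⟩, ⟨600000, 600002, 1000000⟩, ⟨0, 20, 10000⟩, ⟨25800, 30500, 10000⟩⟩ (bot20.hV2m) :=
  posBox_of_check (c := ⟨260, ⟨0, 5, 10, 5⟩⟩) (by decide +kernel)

def bot20_v3p : PosBox ⟨⟨0, 1, 1⟩, ⟨600000, 600002, 1000000⟩, ⟨0, 20, 10000⟩, ⟨25800, 30500, 10000⟩⟩ (bot20.hV3p) :=
  posBox_of_check (c := ⟨241, ⟨0, 5, 9, 4⟩⟩) (by decide +kernel)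

def bot20_v3m : PosBox ⟨⟨0, 1, 1⟩, ⟨600000, 600002, 1000000⟩, ⟨0, 20, 10000⟩, ⟨25800, 30500, 10000⟩⟩ (bot20.hV3m) :=
  posBox_of_check (c := ⟨241, ⟨0, 5, 9, 4⟩⟩) (by decide +kernel)

def bot20_kap0 : PosBox ⟨⟨0, 1, 1⟩, ⟨600000, 600002, 1000000⟩, ⟨0, 20, 10000⟩, ⟨25800, 30500, 10000⟩⟩ (bot20.kap false) :=
  posBox_of_check (c := ⟨82, ⟨1, 1, 1, 2⟩⟩) (by decide +kernel)

def bot20_tg0 : PosBox ⟨⟨0, 1, 1⟩, ⟨600000, 600002, 1000000⟩, ⟨0, 20, 10000⟩, ⟨25800, 30500, 10000⟩⟩ (bot20.hG (bot20.pEnd false)) :=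
  posBox_of_check (c := ⟨313, ⟨2, 7, 10, 7⟩⟩) (by decide +kernel)

def bot20_c2p0 : PosBox ⟨⟨0, 1, 1⟩, ⟨600000, 600002, 1000000⟩, ⟨0, 20, 10000⟩, ⟨25800, 30500, 10000⟩⟩ (bot20.hC2p (bot20.pEnd false)) :=
  posBox_of_check (c := ⟨364, ⟨2, 7, 12, 9⟩⟩) (by decide +kernel)

def bot20_c2m0 : PosBox ⟨⟨0, 1, 1⟩, ⟨600000, 600002, 1000000⟩, ⟨0, 20, 10000⟩, ⟨25800, 30500, 10000⟩⟩ (bot20.hC2m (bot20.pEnd false)) :=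
  posBox_of_check (c := ⟨363, ⟨2, 7, 12, 9⟩⟩) (by decide +kernel)

def bot20_c10 : PosBox ⟨⟨0, 1, 1⟩, ⟨600000, 600002, 1000000⟩, ⟨0, 20, 10000⟩, ⟨25800, 30500, 10000⟩⟩ (bot20.hC1 false) :=
  posBox_of_check (c := ⟨234, ⟨2, 5, 7, 5⟩⟩) (by decide +kernel)

def bot20_c3p0 : PosBox ⟨⟨0, 1, 1⟩, ⟨600000, 600002, 1000000⟩, ⟨0, 20, 10000⟩, ⟨25800, 30500, 10000⟩⟩ (bot20.hC3p false) :=
  posBox_of_check (c := ⟨422, ⟨3, 9, 13, 10⟩⟩) (by decide +kernel)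

def bot20_c3m0 : PosBox ⟨⟨0, 1, 1⟩, ⟨600000, 600002, 1000000⟩, ⟨0, 20, 10000⟩, ⟨25800, 30500, 10000⟩⟩ (bot20.hC3m false) :=
  posBox_of_check (c := ⟨422, ⟨3, 9, 13, 10⟩⟩) (by decide +kernel)

def bot20_tmg0 : PosBox ⟨⟨0, 1, 1⟩, ⟨600000, 600002, 1000000⟩, ⟨0, 20, 10000⟩, ⟨25800, 30500, 10000⟩⟩ (bot20.hTMG (bot20.pEnd false)) :=
  posBox_of_check (c := ⟨325, ⟨2, 7, 10, 8⟩⟩) (by decide +kernel)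

def bot20_c1h0 : PosBox ⟨⟨0, 1, 1⟩, ⟨600000, 600002, 1000000⟩, ⟨0, 20, 10000⟩, ⟨25800, 30500, 10000⟩⟩ (bot20.hC1' false) :=
  posBox_of_check (c := ⟨234, ⟨2, 5, 7, 5⟩⟩) (by decide +kernel)

def bot20_c3ph0 : PosBox ⟨⟨0, 1, 1⟩, ⟨600000, 600002, 1000000⟩, ⟨0, 20, 10000⟩, ⟨25800, 30500, 10000⟩⟩ (bot20.hC3p' false) :=
  posBox_of_check (c := ⟨422, ⟨3, 9, 13, 10⟩⟩) (by decide +kernel)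

def bot20_c3mh0 : PosBox ⟨⟨0, 1, 1⟩, ⟨600000, 600002, 1000000⟩, ⟨0, 20, 10000⟩, ⟨25800, 30500, 10000⟩⟩ (bot20.hC3m' false) :=
  posBox_of_check (c := ⟨422, ⟨3, 9, 13, 10⟩⟩) (by decide +kernel)

def bot20_up0 : PosBox ⟨⟨0, 1, 1⟩, ⟨600000, 600002, 1000000⟩, ⟨0, 20, 10000⟩, ⟨25800, 30500, 10000⟩⟩ (bot20.hUp false) :=
  posBox_of_check (c := ⟨347, ⟨2, 7, 11, 8⟩⟩) (by decide +kernel)

def bot20_um0 : PosBox ⟨⟨0, 1, 1⟩, ⟨600000, 600002, 1000000⟩, ⟨0, 20, 10000⟩, ⟨25800, 30500, 10000⟩⟩ (bot20.hUm false) :=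
  posBox_of_check (c := ⟨347, ⟨2, 7, 11, 8⟩⟩) (by decide +kernel)

def bot20_kap1 : PosBox ⟨⟨0, 1, 1⟩, ⟨600000, 600002, 1000000⟩, ⟨0, 20, 10000⟩, ⟨25800, 30500, 10000⟩⟩ (bot20.kap true) :=
  posBox_of_check (c := ⟨83, ⟨1, 1, 1, 2⟩⟩) (by decide +kernel)

def bot20_tg1 : PosBox ⟨⟨0, 1, 1⟩, ⟨600000, 600002, 1000000⟩, ⟨0, 20, 10000⟩, ⟨25800, 30500, 10000⟩⟩ (bot20.hG (bot20.pEnd true)) :=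
  posBox_of_check (c := ⟨374, ⟨2, 7, 12, 9⟩⟩) (by decide +kernel)

def bot20_c2p1 : PosBox ⟨⟨0, 1, 1⟩, ⟨600000, 600002, 1000000⟩, ⟨0, 20, 10000⟩, ⟨25800, 30500, 10000⟩⟩ (bot20.hC2p (bot20.pEnd true)) :=
  posBox_of_check (c := ⟨425, ⟨2, 7, 14, 11⟩⟩) (by decide +kernel)

def bot20_c2m1 : PosBox ⟨⟨0, 1, 1⟩, ⟨600000, 600002, 1000000⟩, ⟨0, 20, 10000⟩, ⟨25800, 30500, 10000⟩⟩ (bot20.hC2m (bot20.pEnd true)) :=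
  posBox_of_check (c := ⟨424, ⟨2, 7, 14, 11⟩⟩) (by decide +kernel)

def bot20_c11 : PosBox ⟨⟨0, 1, 1⟩, ⟨600000, 600002, 1000000⟩, ⟨0, 20, 10000⟩, ⟨25800, 30500, 10000⟩⟩ (bot20.hC1 true) :=
  posBox_of_check (c := ⟨264, ⟨2, 5, 8, 6⟩⟩) (by decide +kernel)

def bot20_c3p1 : PosBox ⟨⟨0, 1, 1⟩, ⟨600000, 600002, 1000000⟩, ⟨0, 20, 10000⟩, ⟨25800, 30500, 10000⟩⟩ (bot20.hC3p true) :=
  posBox_of_check (c := ⟨512, ⟨3, 9, 16, 13⟩⟩) (by decide +kernel)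

def bot20_c3m1 : PosBox ⟨⟨0, 1, 1⟩, ⟨600000, 600002, 1000000⟩, ⟨0, 20, 10000⟩, ⟨25800, 30500, 10000⟩⟩ (bot20.hC3m true) :=
  posBox_of_check (c := ⟨512, ⟨3, 9, 16, 13⟩⟩) (by decide +kernel)

def bot20_tmg1 : PosBox ⟨⟨0, 1, 1⟩, ⟨600000, 600002, 1000000⟩, ⟨0, 20, 10000⟩, ⟨25800, 30500, 10000⟩⟩ (bot20.hTMG (bot20.pEnd true)) :=
  posBox_of_check (c := ⟨383, ⟨2, 7, 12, 10⟩⟩) (by decide +kernel)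

def bot20_c1h1 : PosBox ⟨⟨0, 1, 1⟩, ⟨600000, 600002, 1000000⟩, ⟨0, 20, 10000⟩, ⟨25800, 30500, 10000⟩⟩ (bot20.hC1' true) :=
  posBox_of_check (c := ⟨264, ⟨2, 5, 8, 6⟩⟩) (by decide +kernel)

def bot20_c3ph1 : PosBox ⟨⟨0, 1, 1⟩, ⟨600000, 600002, 1000000⟩, ⟨0, 20, 10000⟩, ⟨25800, 30500, 10000⟩⟩ (bot20.hC3p' true) :=
  posBox_of_check (c := ⟨512, ⟨3, 9, 16, 13⟩⟩) (by decide +kernel)

def bot20_c3mh1 : PosBox ⟨⟨0, 1, 1⟩, ⟨600000, 600002, 1000000⟩, ⟨0, 20, 10000⟩, ⟨25800, 30500, 10000⟩⟩ (bot20.hC3m' true) :=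
  posBox_of_check (c := ⟨512, ⟨3, 9, 16, 13⟩⟩) (by decide +kernel)

def bot20_up1 : PosBox ⟨⟨0, 1, 1⟩, ⟨600000, 600002, 1000000⟩, ⟨0, 20, 10000⟩, ⟨25800, 30500, 10000⟩⟩ (bot20.hUp true) :=
  posBox_of_check (c := ⟨406, ⟨2, 7, 13, 10⟩⟩) (by decide +kernel)

def bot20_um1 : PosBox ⟨⟨0, 1, 1⟩, ⟨600000, 600002, 1000000⟩, ⟨0, 20, 10000⟩, ⟨25800, 30500, 10000⟩⟩ (bot20.hUm true) :=
  posBox_of_check (c := ⟨406, ⟨2, 7, 13, 10⟩⟩) (by decide +kernel)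

/-- The checks on the signs. -/
theorem bot20_sign : bot20.Sign ⟨⟨0, 1, 1⟩, ⟨600000, 600002, 1000000⟩, ⟨0, 20, 10000⟩, ⟨25800, 30500, 10000⟩⟩ where
  pp := bot20_pp
  k2p := bot20_k2p
  k2m := bot20_k2m
  v2p := bot20_v2p
  v2m := bot20_v2m
  v3p := bot20_v3p
  v3m := bot20_v3m
  tg := Bool.forall_bool.2 ⟨bot20_tg0, bot20_tg1⟩
  c2p := Bool.forall_bool.2 ⟨bot20_c2p0, bot20_c2p1⟩
  c2m := Bool.forall_bool.2 ⟨bot20_c2m0, bot20_c2m1⟩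
  kap := Bool.forall_bool.2 ⟨bot20_kap0, bot20_kap1⟩
  c1 := Bool.forall_bool.2 ⟨bot20_c10, bot20_c11⟩
  c3p := Bool.forall_bool.2 ⟨bot20_c3p0, bot20_c3p1⟩
  c3m := Bool.forall_bool.2 ⟨bot20_c3m0, bot20_c3m1⟩
  tmg := Bool.forall_bool.2 ⟨bot20_tmg0, bot20_tmg1⟩
  high := .inr (Bool.forall_bool.2 ⟨⟨bot20_c1h0, bot20_c3ph0, bot20_c3mh0, bot20_up0, bot20_um0⟩, ⟨bot20_c1h1, bot20_c3ph1, bot20_c3mh1, bot20_up1, bot20_um1⟩⟩)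
  vG := bot20_vG
  vMG := bot20_vMG
  ak := bot20_ak
  aw := bot20_aw
  gk := bot20_gk
  gw := bot20_gw
  ek := bot20_ek
  ew := bot20_ew

end Vale.Agent.P100.Calib.Closed.High
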