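import Vale.Agent.P100.Calib.SlabHighBotData

/-!
# Checks of the signs of a piece of the tail
-/

set_option linter.defProp false

namespace Vale.Agent.P100.Calib.Closed.High

open BoxPos Large

def bot21A_vG : PosBox ⟨⟨0, 1, 1⟩, ⟨600000, 600002, 1000000⟩, ⟨0, 20, 10000⟩, ⟨30500, 33100, 10000⟩⟩ (hVG) :=
  posBox_of_check (c := ⟨210, ⟨0, 5, 8, 3⟩⟩) (by decide +kernel)

def bot21A_vMG : PosBox ⟨⟨0, 1, 1⟩, ⟨600000, 600002, 1000000⟩, ⟨0, 20, 10000⟩, ⟨30500, 33100, 10000⟩⟩ (hVMG) :=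
  posBox_of_check (c := ⟨217, ⟨0, 4, 8, 4⟩⟩) (by decide +kernel)

def bot21A_ak : PosBox ⟨⟨0, 1, 1⟩, ⟨600000, 600002, 1000000⟩, ⟨0, 20, 10000⟩, ⟨30500, 33100, 10000⟩⟩ (hAk) :=
  posBox_of_check (c := ⟨202, ⟨0, 4, 6, 4⟩⟩) (by decide +kernel)

def bot21A_aw : PosBox ⟨⟨0, 1, 1⟩, ⟨600000, 600002, 1000000⟩, ⟨0, 20, 10000⟩, ⟨30500, 33100, 10000⟩⟩ (hAw) :=
  posBox_of_check (c := ⟨203, ⟨0, 5, 7, 3⟩⟩) (by decide +kernel)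

def bot21A_gk : PosBox ⟨⟨0, 1, 1⟩, ⟨600000, 600002, 1000000⟩, ⟨0, 20, 10000⟩, ⟨30500, 33100, 10000⟩⟩ (hGk) :=
  posBox_of_check (c := ⟨202, ⟨0, 4, 6, 4⟩⟩) (by decide +kernel)

def bot21A_gw : PosBox ⟨⟨0, 1, 1⟩, ⟨600000, 600002, 1000000⟩, ⟨0, 20, 10000⟩, ⟨30500, 33100, 10000⟩⟩ (hGw) :=
  posBox_of_check (c := ⟨203, ⟨0, 5, 7, 3⟩⟩) (by decide +kernel)

def bot21A_ek : PosBox ⟨⟨0, 1, 1⟩, ⟨600000, 600002, 1000000⟩, ⟨0, 20, 10000⟩, ⟨30500, 33100, 10000⟩⟩ (hMk) :=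
  posBox_of_check (c := ⟨119, ⟨0, 2, 3, 3⟩⟩) (by decide +kernel)

def bot21A_ew : PosBox ⟨⟨0, 1, 1⟩, ⟨600000, 600002, 1000000⟩, ⟨0, 20, 10000⟩, ⟨30500, 33100, 10000⟩⟩ (hMw) :=
  posBox_of_check (c := ⟨121, ⟨0, 3, 4, 2⟩⟩) (by decide +kernel)

def bot21A_pp : PosBox ⟨⟨0, 1, 1⟩, ⟨600000, 600002, 1000000⟩, ⟨0, 20, 10000⟩, ⟨30500, 33100, 10000⟩⟩ (bot21A.xPL) :=
  posBox_of_check (c := ⟨83, ⟨1, 1, 2, 2⟩⟩) (by decide +kernel)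

def bot21A_k2p : PosBox ⟨⟨0, 1, 1⟩, ⟨600000, 600002, 1000000⟩, ⟨0, 20, 10000⟩, ⟨30500, 33100, 10000⟩⟩ (bot21A.k2p bot21A.xE) :=
  posBox_of_check (c := ⟨22, ⟨0, 0, 1, 0⟩⟩) (by decide +kernel)

def bot21A_k2m : PosBox ⟨⟨0, 1, 1⟩, ⟨600000, 600002, 1000000⟩, ⟨0, 20, 10000⟩, ⟨30500, 33100, 10000⟩⟩ (bot21A.k2m bot21A.xE) :=
  posBox_of_check (c := ⟨75, ⟨1, 1, 1, 1⟩⟩) (by decide +kernel)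

def bot21A_v2p : PosBox ⟨⟨0, 1, 1⟩, ⟨600000, 600002, 1000000⟩, ⟨0, 20, 10000⟩, ⟨30500, 33100, 10000⟩⟩ (bot21A.hV2p) :=
  posBox_of_check (c := ⟨260, ⟨0, 5, 10, 5⟩⟩) (by decide +kernel)

def bot21A_v2m : PosBox ⟨⟨0, 1, 1⟩, ⟨600000, 600002, 1000000⟩, ⟨0, 20, 10000⟩, ⟨30500, 33100, 10000⟩⟩ (bot21A.hV2m) :=
  posBox_of_check (c := ⟨285, ⟨1, 6, 10, 5⟩⟩) (by decide +kernel)

def bot21A_v3p : PosBox ⟨⟨0, 1, 1⟩, ⟨600000, 600002, 1000000⟩, ⟨0, 20, 10000⟩, ⟨30500, 33100, 10000⟩⟩ (bot21A.hV3p) :=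
  posBox_of_check (c := ⟨241, ⟨0, 5, 9, 4⟩⟩) (by decide +kernel)

def bot21A_v3m : PosBox ⟨⟨0, 1, 1⟩, ⟨600000, 600002, 1000000⟩, ⟨0, 20, 10000⟩, ⟨30500, 33100, 10000⟩⟩ (bot21A.hV3m) :=
  posBox_of_check (c := ⟨252, ⟨1, 6, 9, 4⟩⟩) (by decide +kernel)

def bot21A_kap0 : PosBox ⟨⟨0, 1, 1⟩, ⟨600000, 600002, 1000000⟩, ⟨0, 20, 10000⟩, ⟨30500, 33100, 10000⟩⟩ (bot21A.kap false) :=
  posBox_of_check (c := ⟨73, ⟨1, 1, 1, 1⟩⟩) (by decide +kernel)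

def bot21A_tg0 : PosBox ⟨⟨0, 1, 1⟩, ⟨600000, 600002, 1000000⟩, ⟨0, 20, 10000⟩, ⟨30500, 33100, 10000⟩⟩ (bot21A.hG (bot21A.pEnd false)) :=
  posBox_of_check (c := ⟨369, ⟨2, 7, 12, 7⟩⟩) (by decide +kernel)

def bot21A_c2p0 : PosBox ⟨⟨0, 1, 1⟩, ⟨600000, 600002, 1000000⟩, ⟨0, 20, 10000⟩, ⟨30500, 33100, 10000⟩⟩ (bot21A.hC2p (bot21A.pEnd false)) :=
  posBox_of_check (c := ⟨419, ⟨2, 7, 14, 9⟩⟩) (by decide +kernel)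

def bot21A_c2m0 : PosBox ⟨⟨0, 1, 1⟩, ⟨600000, 600002, 1000000⟩, ⟨0, 20, 10000⟩, ⟨30500, 33100, 10000⟩⟩ (bot21A.hC2m (bot21A.pEnd false)) :=
  posBox_of_check (c := ⟨443, ⟨3, 8, 14, 9⟩⟩) (by decide +kernel)

def bot21A_c10 : PosBox ⟨⟨0, 1, 1⟩, ⟨600000, 600002, 1000000⟩, ⟨0, 20, 10000⟩, ⟨30500, 33100, 10000⟩⟩ (bot21A.hC1 false) :=
  posBox_of_check (c := ⟨260, ⟨2, 5, 8, 5⟩⟩) (by decide +kernel)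

def bot21A_c3p0 : PosBox ⟨⟨0, 1, 1⟩, ⟨600000, 600002, 1000000⟩, ⟨0, 20, 10000⟩, ⟨30500, 33100, 10000⟩⟩ (bot21A.hC3p false) :=
  posBox_of_check (c := ⟨505, ⟨3, 9, 16, 10⟩⟩) (by decide +kernel)

def bot21A_c3m0 : PosBox ⟨⟨0, 1, 1⟩, ⟨600000, 600002, 1000000⟩, ⟨0, 20, 10000⟩, ⟨30500, 33100, 10000⟩⟩ (bot21A.hC3m false) :=
  posBox_of_check (c := ⟨514, ⟨4, 10, 16, 10⟩⟩) (by decide +kernel)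

def bot21A_tmg0 : PosBox ⟨⟨0, 1, 1⟩, ⟨600000, 600002, 1000000⟩, ⟨0, 20, 10000⟩, ⟨30500, 33100, 10000⟩⟩ (bot21A.hTMG (bot21A.pEnd false)) :=
  posBox_of_check (c := ⟨380, ⟨2, 7, 12, 8⟩⟩) (by decide +kernel)

def bot21A_c1h0 : PosBox ⟨⟨0, 1, 1⟩, ⟨600000, 600002, 1000000⟩, ⟨0, 20, 10000⟩, ⟨30500, 33100, 10000⟩⟩ (bot21A.hC1' false) :=
  posBox_of_check (c := ⟨260, ⟨2, 5, 8, 5⟩⟩) (by decide +kernel)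

def bot21A_c3ph0 : PosBox ⟨⟨0, 1, 1⟩, ⟨600000, 600002, 1000000⟩, ⟨0, 20, 10000⟩, ⟨30500, 33100, 10000⟩⟩ (bot21A.hC3p' false) :=
  posBox_of_check (c := ⟨505, ⟨3, 9, 16, 10⟩⟩) (by decide +kernel)

def bot21A_c3mh0 : PosBox ⟨⟨0, 1, 1⟩, ⟨600000, 600002, 1000000⟩, ⟨0, 20, 10000⟩, ⟨30500, 33100, 10000⟩⟩ (bot21A.hC3m' false) :=
  posBox_of_check (c := ⟨514, ⟨4, 10, 16, 10⟩⟩) (by decide +kernel)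

def bot21A_up0 : PosBox ⟨⟨0, 1, 1⟩, ⟨600000, 600002, 1000000⟩, ⟨0, 20, 10000⟩, ⟨30500, 33100, 10000⟩⟩ (bot21A.hUp false) :=
  posBox_of_check (c := ⟨402, ⟨2, 7, 13, 8⟩⟩) (by decide +kernel)

def bot21A_um0 : PosBox ⟨⟨0, 1, 1⟩, ⟨600000, 600002, 1000000⟩, ⟨0, 20, 10000⟩, ⟨30500, 33100, 10000⟩⟩ (bot21A.hUm false) :=
  posBox_of_check (c := ⟨412, ⟨3, 8, 13, 8⟩⟩) (by decide +kernel)

def bot21A_kap1 : PosBox ⟨⟨0, 1, 1⟩, ⟨600000, 600002, 1000000⟩, ⟨0, 20, 10000⟩, ⟨30500, 33100, 10000⟩⟩ (bot21A.kap true) :=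
  posBox_of_check (c := ⟨74, ⟨1, 1, 1, 1⟩⟩) (by decide +kernel)

def bot21A_tg1 : PosBox ⟨⟨0, 1, 1⟩, ⟨600000, 600002, 1000000⟩, ⟨0, 20, 10000⟩, ⟨30500, 33100, 10000⟩⟩ (bot21A.hG (bot21A.pEnd true)) :=
  posBox_of_check (c := ⟨372, ⟨2, 7, 12, 7⟩⟩) (by decide +kernel)

def bot21A_c2p1 : PosBox ⟨⟨0, 1, 1⟩, ⟨600000, 600002, 1000000⟩, ⟨0, 20, 10000⟩, ⟨30500, 33100, 10000⟩⟩ (bot21A.hC2p (bot21A.pEnd true)) :=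
  posBox_of_check (c := ⟨422, ⟨2, 7, 14, 9⟩⟩) (by decide +kernel)

def bot21A_c2m1 : PosBox ⟨⟨0, 1, 1⟩, ⟨600000, 600002, 1000000⟩, ⟨0, 20, 10000⟩, ⟨30500, 33100, 10000⟩⟩ (bot21A.hC2m (bot21A.pEnd true)) :=
  posBox_of_check (c := ⟨446, ⟨3, 8, 14, 9⟩⟩) (by decide +kernel)

def bot21A_c11 : PosBox ⟨⟨0, 1, 1⟩, ⟨600000, 600002, 1000000⟩, ⟨0, 20, 10000⟩, ⟨30500, 33100, 10000⟩⟩ (bot21A.hC1 true) :=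
  posBox_of_check (c := ⟨262, ⟨2, 5, 8, 5⟩⟩) (by decide +kernel)

def bot21A_c3p1 : PosBox ⟨⟨0, 1, 1⟩, ⟨600000, 600002, 1000000⟩, ⟨0, 20, 10000⟩, ⟨30500, 33100, 10000⟩⟩ (bot21A.hC3p true) :=
  posBox_of_check (c := ⟨508, ⟨3, 9, 16, 10⟩⟩) (by decide +kernel)

def bot21A_c3m1 : PosBox ⟨⟨0, 1, 1⟩, ⟨600000, 600002, 1000000⟩, ⟨0, 20, 10000⟩, ⟨30500, 33100, 10000⟩⟩ (bot21A.hC3m true) :=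
  posBox_of_check (c := ⟨519, ⟨4, 10, 16, 10⟩⟩) (by decide +kernel)

def bot21A_tmg1 : PosBox ⟨⟨0, 1, 1⟩, ⟨600000, 600002, 1000000⟩, ⟨0, 20, 10000⟩, ⟨30500, 33100, 10000⟩⟩ (bot21A.hTMG (bot21A.pEnd true)) :=
  posBox_of_check (c := ⟨381, ⟨2, 7, 12, 8⟩⟩) (by decide +kernel)

def bot21A_c1h1 : PosBox ⟨⟨0, 1, 1⟩, ⟨600000, 600002, 1000000⟩, ⟨0, 20, 10000⟩, ⟨30500, 33100, 10000⟩⟩ (bot21A.hC1' true) :=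
  posBox_of_check (c := ⟨262, ⟨2, 5, 8, 5⟩⟩) (by decide +kernel)

def bot21A_c3ph1 : PosBox ⟨⟨0, 1, 1⟩, ⟨600000, 600002, 1000000⟩, ⟨0, 20, 10000⟩, ⟨30500, 33100, 10000⟩⟩ (bot21A.hC3p' true) :=
  posBox_of_check (c := ⟨508, ⟨3, 9, 16, 10⟩⟩) (by decide +kernel)

def bot21A_c3mh1 : PosBox ⟨⟨0, 1, 1⟩, ⟨600000, 600002, 1000000⟩, ⟨0, 20, 10000⟩, ⟨30500, 33100, 10000⟩⟩ (bot21A.hC3m' true) :=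
  posBox_of_check (c := ⟨519, ⟨4, 10, 16, 10⟩⟩) (by decide +kernel)

def bot21A_up1 : PosBox ⟨⟨0, 1, 1⟩, ⟨600000, 600002, 1000000⟩, ⟨0, 20, 10000⟩, ⟨30500, 33100, 10000⟩⟩ (bot21A.hUp true) :=
  posBox_of_check (c := ⟨404, ⟨2, 7, 13, 8⟩⟩) (by decide +kernel)

def bot21A_um1 : PosBox ⟨⟨0, 1, 1⟩, ⟨600000, 600002, 1000000⟩, ⟨0, 20, 10000⟩, ⟨30500, 33100, 10000⟩⟩ (bot21A.hUm true) :=
  posBox_of_check (c := ⟨414, ⟨3, 8, 13, 8⟩⟩) (by decide +kernel)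

/-- The checks on the signs. -/
theorem bot21A_sign : bot21A.Sign ⟨⟨0, 1, 1⟩, ⟨600000, 600002, 1000000⟩, ⟨0, 20, 10000⟩, ⟨30500, 33100, 10000⟩⟩ where
  pp := bot21A_pp
  k2p := bot21A_k2p
  k2m := bot21A_k2m
  v2p := bot21A_v2p
  v2m := bot21A_v2m
  v3p := bot21A_v3p
  v3m := bot21A_v3m
  tg := Bool.forall_bool.2 ⟨bot21A_tg0, bot21A_tg1⟩
  c2p := Bool.forall_bool.2 ⟨bot21A_c2p0, bot21A_c2p1⟩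
  c2m := Bool.forall_bool.2 ⟨bot21A_c2m0, bot21A_c2m1⟩
  kap := Bool.forall_bool.2 ⟨bot21A_kap0, bot21A_kap1⟩
  c1 := Bool.forall_bool.2 ⟨bot21A_c10, bot21A_c11⟩
  c3p := Bool.forall_bool.2 ⟨bot21A_c3p0, bot21A_c3p1⟩
  c3m := Bool.forall_bool.2 ⟨bot21A_c3m0, bot21A_c3m1⟩
  tmg := Bool.forall_bool.2 ⟨bot21A_tmg0, bot21A_tmg1⟩
  high := .inr (Bool.forall_bool.2 ⟨⟨bot21A_c1h0, bot21A_c3ph0, bot21A_c3mh0, bot21A_up0, bot21A_um0⟩, ⟨bot21A_c1h1, bot21A_c3ph1, bot21A_c3mh1, bot21A_up1, bot21A_um1⟩⟩)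
  vG := bot21A_vG
  vMG := bot21A_vMG
  ak := bot21A_ak
  aw := bot21A_aw
  gk := bot21A_gk
  gw := bot21A_gw
  ek := bot21A_ek
  ew := bot21A_ew

end Vale.Agent.P100.Calib.Closed.High
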