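import Vale.Agent.P100.Calib.SlabHighBotData

/-!
# Checks of the signs of a piece of the tail
-/

set_option linter.defProp false

namespace Vale.Agent.P100.Calib.Closed.High

open BoxPos Large

def bot21B_vG : PosBox ⟨⟨0, 1, 1⟩, ⟨600000, 600002, 1000000⟩, ⟨0, 20, 10000⟩, ⟨30500, 33100, 10000⟩⟩ (hVG) :=
  posBox_of_check (c := ⟨210, ⟨0, 5, 8, 3⟩⟩) (by decide +kernel)

def bot21B_vMG : PosBox ⟨⟨0, 1, 1⟩, ⟨600000, 600002, 1000000⟩, ⟨0, 20, 10000⟩, ⟨30500, 33100, 10000⟩⟩ (hVMG) :=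
  posBox_of_check (c := ⟨217, ⟨0, 4, 8, 4⟩⟩) (by decide +kernel)

def bot21B_ak : PosBox ⟨⟨0, 1, 1⟩, ⟨600000, 600002, 1000000⟩, ⟨0, 20, 10000⟩, ⟨30500, 33100, 10000⟩⟩ (hAk) :=
  posBox_of_check (c := ⟨202, ⟨0, 4, 6, 4⟩⟩) (by decide +kernel)

def bot21B_aw : PosBox ⟨⟨0, 1, 1⟩, ⟨600000, 600002, 1000000⟩, ⟨0, 20, 10000⟩, ⟨30500, 33100, 10000⟩⟩ (hAw) :=
  posBox_of_check (c := ⟨203, ⟨0, 5, 7, 3⟩⟩) (by decide +kernel)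

def bot21B_gk : PosBox ⟨⟨0, 1, 1⟩, ⟨600000, 600002, 1000000⟩, ⟨0, 20, 10000⟩, ⟨30500, 33100, 10000⟩⟩ (hGk) :=
  posBox_of_check (c := ⟨202, ⟨0, 4, 6, 4⟩⟩) (by decide +kernel)

def bot21B_gw : PosBox ⟨⟨0, 1, 1⟩, ⟨600000, 600002, 1000000⟩, ⟨0, 20, 10000⟩, ⟨30500, 33100, 10000⟩⟩ (hGw) :=
  posBox_of_check (c := ⟨203, ⟨0, 5, 7, 3⟩⟩) (by decide +kernel)

def bot21B_ek : PosBox ⟨⟨0, 1, 1⟩, ⟨600000, 600002, 1000000⟩, ⟨0, 20, 10000⟩, ⟨30500, 33100, 10000⟩⟩ (hMk) :=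
  posBox_of_check (c := ⟨119, ⟨0, 2, 3, 3⟩⟩) (by decide +kernel)

def bot21B_ew : PosBox ⟨⟨0, 1, 1⟩, ⟨600000, 600002, 1000000⟩, ⟨0, 20, 10000⟩, ⟨30500, 33100, 10000⟩⟩ (hMw) :=
  posBox_of_check (c := ⟨121, ⟨0, 3, 4, 2⟩⟩) (by decide +kernel)

def bot21B_pp : PosBox ⟨⟨0, 1, 1⟩, ⟨600000, 600002, 1000000⟩, ⟨0, 20, 10000⟩, ⟨30500, 33100, 10000⟩⟩ (bot21B.xPL) :=
  posBox_of_check (c := ⟨81, ⟨1, 1, 2, 2⟩⟩) (by decide +kernel)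

def bot21B_k2p : PosBox ⟨⟨0, 1, 1⟩, ⟨600000, 600002, 1000000⟩, ⟨0, 20, 10000⟩, ⟨30500, 33100, 10000⟩⟩ (bot21B.k2p bot21B.xE) :=
  posBox_of_check (c := ⟨22, ⟨0, 0, 1, 0⟩⟩) (by decide +kernel)

def bot21B_k2m : PosBox ⟨⟨0, 1, 1⟩, ⟨600000, 600002, 1000000⟩, ⟨0, 20, 10000⟩, ⟨30500, 33100, 10000⟩⟩ (bot21B.k2m bot21B.xE) :=
  posBox_of_check (c := ⟨20, ⟨0, 0, 1, 0⟩⟩) (by decide +kernel)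

def bot21B_v2p : PosBox ⟨⟨0, 1, 1⟩, ⟨600000, 600002, 1000000⟩, ⟨0, 20, 10000⟩, ⟨30500, 33100, 10000⟩⟩ (bot21B.hV2p) :=
  posBox_of_check (c := ⟨260, ⟨0, 5, 10, 5⟩⟩) (by decide +kernel)

def bot21B_v2m : PosBox ⟨⟨0, 1, 1⟩, ⟨600000, 600002, 1000000⟩, ⟨0, 20, 10000⟩, ⟨30500, 33100, 10000⟩⟩ (bot21B.hV2m) :=
  posBox_of_check (c := ⟨260, ⟨0, 5, 10, 5⟩⟩) (by decide +kernel)

def bot21B_v3p : PosBox ⟨⟨0, 1, 1⟩, ⟨600000, 600002, 1000000⟩, ⟨0, 20, 10000⟩, ⟨30500, 33100, 10000⟩⟩ (bot21B.hV3p) :=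
  posBox_of_check (c := ⟨241, ⟨0, 5, 9, 4⟩⟩) (by decide +kernel)

def bot21B_v3m : PosBox ⟨⟨0, 1, 1⟩, ⟨600000, 600002, 1000000⟩, ⟨0, 20, 10000⟩, ⟨30500, 33100, 10000⟩⟩ (bot21B.hV3m) :=
  posBox_of_check (c := ⟨241, ⟨0, 5, 9, 4⟩⟩) (by decide +kernel)

def bot21B_kap0 : PosBox ⟨⟨0, 1, 1⟩, ⟨600000, 600002, 1000000⟩, ⟨0, 20, 10000⟩, ⟨30500, 33100, 10000⟩⟩ (bot21B.kap false) :=
  posBox_of_check (c := ⟨74, ⟨1, 1, 1, 1⟩⟩) (by decide +kernel)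

def bot21B_tg0 : PosBox ⟨⟨0, 1, 1⟩, ⟨600000, 600002, 1000000⟩, ⟨0, 20, 10000⟩, ⟨30500, 33100, 10000⟩⟩ (bot21B.hG (bot21B.pEnd false)) :=
  posBox_of_check (c := ⟨367, ⟨2, 7, 12, 7⟩⟩) (by decide +kernel)

def bot21B_c2p0 : PosBox ⟨⟨0, 1, 1⟩, ⟨600000, 600002, 1000000⟩, ⟨0, 20, 10000⟩, ⟨30500, 33100, 10000⟩⟩ (bot21B.hC2p (bot21B.pEnd false)) :=
  posBox_of_check (c := ⟨417, ⟨2, 7, 14, 9⟩⟩) (by decide +kernel)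

def bot21B_c2m0 : PosBox ⟨⟨0, 1, 1⟩, ⟨600000, 600002, 1000000⟩, ⟨0, 20, 10000⟩, ⟨30500, 33100, 10000⟩⟩ (bot21B.hC2m (bot21B.pEnd false)) :=
  posBox_of_check (c := ⟨416, ⟨2, 7, 14, 9⟩⟩) (by decide +kernel)

def bot21B_c10 : PosBox ⟨⟨0, 1, 1⟩, ⟨600000, 600002, 1000000⟩, ⟨0, 20, 10000⟩, ⟨30500, 33100, 10000⟩⟩ (bot21B.hC1 false) :=
  posBox_of_check (c := ⟨257, ⟨2, 5, 8, 5⟩⟩) (by decide +kernel)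

def bot21B_c3p0 : PosBox ⟨⟨0, 1, 1⟩, ⟨600000, 600002, 1000000⟩, ⟨0, 20, 10000⟩, ⟨30500, 33100, 10000⟩⟩ (bot21B.hC3p false) :=
  posBox_of_check (c := ⟨501, ⟨3, 9, 16, 10⟩⟩) (by decide +kernel)

def bot21B_c3m0 : PosBox ⟨⟨0, 1, 1⟩, ⟨600000, 600002, 1000000⟩, ⟨0, 20, 10000⟩, ⟨30500, 33100, 10000⟩⟩ (bot21B.hC3m false) :=
  posBox_of_check (c := ⟨501, ⟨3, 9, 16, 10⟩⟩) (by decide +kernel)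

def bot21B_tmg0 : PosBox ⟨⟨0, 1, 1⟩, ⟨600000, 600002, 1000000⟩, ⟨0, 20, 10000⟩, ⟨30500, 33100, 10000⟩⟩ (bot21B.hTMG (bot21B.pEnd false)) :=
  posBox_of_check (c := ⟨378, ⟨2, 7, 12, 8⟩⟩) (by decide +kernel)

def bot21B_c1h0 : PosBox ⟨⟨0, 1, 1⟩, ⟨600000, 600002, 1000000⟩, ⟨0, 20, 10000⟩, ⟨30500, 33100, 10000⟩⟩ (bot21B.hC1' false) :=
  posBox_of_check (c := ⟨257, ⟨2, 5, 8, 5⟩⟩) (by decide +kernel)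

def bot21B_c3ph0 : PosBox ⟨⟨0, 1, 1⟩, ⟨600000, 600002, 1000000⟩, ⟨0, 20, 10000⟩, ⟨30500, 33100, 10000⟩⟩ (bot21B.hC3p' false) :=
  posBox_of_check (c := ⟨501, ⟨3, 9, 16, 10⟩⟩) (by decide +kernel)

def bot21B_c3mh0 : PosBox ⟨⟨0, 1, 1⟩, ⟨600000, 600002, 1000000⟩, ⟨0, 20, 10000⟩, ⟨30500, 33100, 10000⟩⟩ (bot21B.hC3m' false) :=
  posBox_of_check (c := ⟨501, ⟨3, 9, 16, 10⟩⟩) (by decide +kernel)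

def bot21B_up0 : PosBox ⟨⟨0, 1, 1⟩, ⟨600000, 600002, 1000000⟩, ⟨0, 20, 10000⟩, ⟨30500, 33100, 10000⟩⟩ (bot21B.hUp false) :=
  posBox_of_check (c := ⟨400, ⟨2, 7, 13, 8⟩⟩) (by decide +kernel)

def bot21B_um0 : PosBox ⟨⟨0, 1, 1⟩, ⟨600000, 600002, 1000000⟩, ⟨0, 20, 10000⟩, ⟨30500, 33100, 10000⟩⟩ (bot21B.hUm false) :=
  posBox_of_check (c := ⟨400, ⟨2, 7, 13, 8⟩⟩) (by decide +kernel)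

def bot21B_kap1 : PosBox ⟨⟨0, 1, 1⟩, ⟨600000, 600002, 1000000⟩, ⟨0, 20, 10000⟩, ⟨30500, 33100, 10000⟩⟩ (bot21B.kap true) :=
  posBox_of_check (c := ⟨82, ⟨1, 1, 1, 1⟩⟩) (by decide +kernel)

def bot21B_tg1 : PosBox ⟨⟨0, 1, 1⟩, ⟨600000, 600002, 1000000⟩, ⟨0, 20, 10000⟩, ⟨30500, 33100, 10000⟩⟩ (bot21B.hG (bot21B.pEnd true)) :=
  posBox_of_check (c := ⟨373, ⟨2, 7, 12, 7⟩⟩) (by decide +kernel)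

def bot21B_c2p1 : PosBox ⟨⟨0, 1, 1⟩, ⟨600000, 600002, 1000000⟩, ⟨0, 20, 10000⟩, ⟨30500, 33100, 10000⟩⟩ (bot21B.hC2p (bot21B.pEnd true)) :=
  posBox_of_check (c := ⟨423, ⟨2, 7, 14, 9⟩⟩) (by decide +kernel)

def bot21B_c2m1 : PosBox ⟨⟨0, 1, 1⟩, ⟨600000, 600002, 1000000⟩, ⟨0, 20, 10000⟩, ⟨30500, 33100, 10000⟩⟩ (bot21B.hC2m (bot21B.pEnd true)) :=
  posBox_of_check (c := ⟨423, ⟨2, 7, 14, 9⟩⟩) (by decide +kernel)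

def bot21B_c11 : PosBox ⟨⟨0, 1, 1⟩, ⟨600000, 600002, 1000000⟩, ⟨0, 20, 10000⟩, ⟨30500, 33100, 10000⟩⟩ (bot21B.hC1 true) :=
  posBox_of_check (c := ⟨260, ⟨2, 5, 8, 5⟩⟩) (by decide +kernel)

def bot21B_c3p1 : PosBox ⟨⟨0, 1, 1⟩, ⟨600000, 600002, 1000000⟩, ⟨0, 20, 10000⟩, ⟨30500, 33100, 10000⟩⟩ (bot21B.hC3p true) :=
  posBox_of_check (c := ⟨509, ⟨3, 9, 16, 10⟩⟩) (by decide +kernel)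

def bot21B_c3m1 : PosBox ⟨⟨0, 1, 1⟩, ⟨600000, 600002, 1000000⟩, ⟨0, 20, 10000⟩, ⟨30500, 33100, 10000⟩⟩ (bot21B.hC3m true) :=
  posBox_of_check (c := ⟨509, ⟨3, 9, 16, 10⟩⟩) (by decide +kernel)

def bot21B_tmg1 : PosBox ⟨⟨0, 1, 1⟩, ⟨600000, 600002, 1000000⟩, ⟨0, 20, 10000⟩, ⟨30500, 33100, 10000⟩⟩ (bot21B.hTMG (bot21B.pEnd true)) :=
  posBox_of_check (c := ⟨381, ⟨2, 7, 12, 8⟩⟩) (by decide +kernel)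

def bot21B_c1h1 : PosBox ⟨⟨0, 1, 1⟩, ⟨600000, 600002, 1000000⟩, ⟨0, 20, 10000⟩, ⟨30500, 33100, 10000⟩⟩ (bot21B.hC1' true) :=
  posBox_of_check (c := ⟨260, ⟨2, 5, 8, 5⟩⟩) (by decide +kernel)

def bot21B_c3ph1 : PosBox ⟨⟨0, 1, 1⟩, ⟨600000, 600002, 1000000⟩, ⟨0, 20, 10000⟩, ⟨30500, 33100, 10000⟩⟩ (bot21B.hC3p' true) :=
  posBox_of_check (c := ⟨509, ⟨3, 9, 16, 10⟩⟩) (by decide +kernel)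

def bot21B_c3mh1 : PosBox ⟨⟨0, 1, 1⟩, ⟨600000, 600002, 1000000⟩, ⟨0, 20, 10000⟩, ⟨30500, 33100, 10000⟩⟩ (bot21B.hC3m' true) :=
  posBox_of_check (c := ⟨509, ⟨3, 9, 16, 10⟩⟩) (by decide +kernel)

def bot21B_up1 : PosBox ⟨⟨0, 1, 1⟩, ⟨600000, 600002, 1000000⟩, ⟨0, 20, 10000⟩, ⟨30500, 33100, 10000⟩⟩ (bot21B.hUp true) :=
  posBox_of_check (c := ⟨404, ⟨2, 7, 13, 8⟩⟩) (by decide +kernel)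

def bot21B_um1 : PosBox ⟨⟨0, 1, 1⟩, ⟨600000, 600002, 1000000⟩, ⟨0, 20, 10000⟩, ⟨30500, 33100, 10000⟩⟩ (bot21B.hUm true) :=
  posBox_of_check (c := ⟨404, ⟨2, 7, 13, 8⟩⟩) (by decide +kernel)

/-- The checks on the signs. -/
theorem bot21B_sign : bot21B.Sign ⟨⟨0, 1, 1⟩, ⟨600000, 600002, 1000000⟩, ⟨0, 20, 10000⟩, ⟨30500, 33100, 10000⟩⟩ where
  pp := bot21B_pp
  k2p := bot21B_k2p
  k2m := bot21B_k2m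
  v2p := bot21B_v2p
  v2m := bot21B_v2m
  v3p := bot21B_v3p
  v3m := bot21B_v3m
  tg := Bool.forall_bool.2 ⟨bot21B_tg0, bot21B_tg1⟩
  c2p := Bool.forall_bool.2 ⟨bot21B_c2p0, bot21B_c2p1⟩
  c2m := Bool.forall_bool.2 ⟨bot21B_c2m0, bot21B_c2m1⟩
  kap := Bool.forall_bool.2 ⟨bot21B_kap0, bot21B_kap1⟩
  c1 := Bool.forall_bool.2 ⟨bot21B_c10, bot21B_c11⟩
  c3p := Bool.forall_bool.2 ⟨bot21B_c3p0, bot21B_c3p1⟩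
  c3m := Bool.forall_bool.2 ⟨bot21B_c3m0, bot21B_c3m1⟩
  tmg := Bool.forall_bool.2 ⟨bot21B_tmg0, bot21B_tmg1⟩
  high := .inr (Bool.forall_bool.2 ⟨⟨bot21B_c1h0, bot21B_c3ph0, bot21B_c3mh0, bot21B_up0, bot21B_um0⟩, ⟨bot21B_c1h1, bot21B_c3ph1, bot21B_c3mh1, bot21B_up1, bot21B_um1⟩⟩)
  vG := bot21B_vG
  vMG := bot21B_vMG
  ak := bot21B_ak
  aw := bot21B_aw
  gk := bot21B_gk
  gw := bot21B_gw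
  ek := bot21B_ek
  ew := bot21B_ew

end Vale.Agent.P100.Calib.Closed.High
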