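import Vale.Agent.P100.Calib.SlabHighBotData

/-!
# Checks of the signs of a piece of the tail
-/

set_option linter.defProp false

namespace Vale.Agent.P100.Calib.Closed.High

open BoxPos Large

def bot22B_vG : PosBox ⟨⟨0, 1, 1⟩, ⟨600000, 600002, 1000000⟩, ⟨0, 20, 10000⟩, ⟨33100, 33445, 10000⟩⟩ (hVG) :=
  posBox_of_check (c := ⟨210, ⟨0, 5, 8, 3⟩⟩) (by decide +kernel)

def bot22B_vMG : PosBox ⟨⟨0, 1, 1⟩, ⟨600000, 600002, 1000000⟩, ⟨0, 20, 10000⟩, ⟨33100, 33445, 10000⟩⟩ (hVMG) :=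
  posBox_of_check (c := ⟨217, ⟨0, 4, 8, 4⟩⟩) (by decide +kernel)

def bot22B_ak : PosBox ⟨⟨0, 1, 1⟩, ⟨600000, 600002, 1000000⟩, ⟨0, 20, 10000⟩, ⟨33100, 33445, 10000⟩⟩ (hAk) :=
  posBox_of_check (c := ⟨202, ⟨0, 4, 6, 4⟩⟩) (by decide +kernel)

def bot22B_aw : PosBox ⟨⟨0, 1, 1⟩, ⟨600000, 600002, 1000000⟩, ⟨0, 20, 10000⟩, ⟨33100, 33445, 10000⟩⟩ (hAw) :=
  posBox_of_check (c := ⟨203, ⟨0, 5, 7, 3⟩⟩) (by decide +kernel)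

def bot22B_gk : PosBox ⟨⟨0, 1, 1⟩, ⟨600000, 600002, 1000000⟩, ⟨0, 20, 10000⟩, ⟨33100, 33445, 10000⟩⟩ (hGk) :=
  posBox_of_check (c := ⟨202, ⟨0, 4, 6, 4⟩⟩) (by decide +kernel)

def bot22B_gw : PosBox ⟨⟨0, 1, 1⟩, ⟨600000, 600002, 1000000⟩, ⟨0, 20, 10000⟩, ⟨33100, 33445, 10000⟩⟩ (hGw) :=
  posBox_of_check (c := ⟨203, ⟨0, 5, 7, 3⟩⟩) (by decide +kernel)

def bot22B_ek : PosBox ⟨⟨0, 1, 1⟩, ⟨600000, 600002, 1000000⟩, ⟨0, 20, 10000⟩, ⟨33100, 33445, 10000⟩⟩ (hMk) :=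
  posBox_of_check (c := ⟨120, ⟨0, 2, 3, 3⟩⟩) (by decide +kernel)

def bot22B_ew : PosBox ⟨⟨0, 1, 1⟩, ⟨600000, 600002, 1000000⟩, ⟨0, 20, 10000⟩, ⟨33100, 33445, 10000⟩⟩ (hMw) :=
  posBox_of_check (c := ⟨121, ⟨0, 3, 4, 2⟩⟩) (by decide +kernel)

def bot22B_pp : PosBox ⟨⟨0, 1, 1⟩, ⟨600000, 600002, 1000000⟩, ⟨0, 20, 10000⟩, ⟨33100, 33445, 10000⟩⟩ (bot22B.xPL) :=
  posBox_of_check (c := ⟨47, ⟨1, 0, 1, 1⟩⟩) (by decide +kernel)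

def bot22B_k2p : PosBox ⟨⟨0, 1, 1⟩, ⟨600000, 600002, 1000000⟩, ⟨0, 20, 10000⟩, ⟨33100, 33445, 10000⟩⟩ (bot22B.k2p bot22B.xE) :=
  posBox_of_check (c := ⟨60, ⟨1, 0, 1, 1⟩⟩) (by decide +kernel)

def bot22B_k2m : PosBox ⟨⟨0, 1, 1⟩, ⟨600000, 600002, 1000000⟩, ⟨0, 20, 10000⟩, ⟨33100, 33445, 10000⟩⟩ (bot22B.k2m bot22B.xE) :=
  posBox_of_check (c := ⟨39, ⟨0, 0, 1, 1⟩⟩) (by decide +kernel)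

def bot22B_v2p : PosBox ⟨⟨0, 1, 1⟩, ⟨600000, 600002, 1000000⟩, ⟨0, 20, 10000⟩, ⟨33100, 33445, 10000⟩⟩ (bot22B.hV2p) :=
  posBox_of_check (c := ⟨277, ⟨1, 5, 10, 5⟩⟩) (by decide +kernel)

def bot22B_v2m : PosBox ⟨⟨0, 1, 1⟩, ⟨600000, 600002, 1000000⟩, ⟨0, 20, 10000⟩, ⟨33100, 33445, 10000⟩⟩ (bot22B.hV2m) :=
  posBox_of_check (c := ⟨269, ⟨0, 5, 10, 5⟩⟩) (by decide +kernel)

def bot22B_v3p : PosBox ⟨⟨0, 1, 1⟩, ⟨600000, 600002, 1000000⟩, ⟨0, 20, 10000⟩, ⟨33100, 33445, 10000⟩⟩ (bot22B.hV3p) :=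
  posBox_of_check (c := ⟨244, ⟨1, 5, 9, 4⟩⟩) (by decide +kernel)

def bot22B_v3m : PosBox ⟨⟨0, 1, 1⟩, ⟨600000, 600002, 1000000⟩, ⟨0, 20, 10000⟩, ⟨33100, 33445, 10000⟩⟩ (bot22B.hV3m) :=
  posBox_of_check (c := ⟨241, ⟨0, 5, 9, 4⟩⟩) (by decide +kernel)

def bot22B_kap0 : PosBox ⟨⟨0, 1, 1⟩, ⟨600000, 600002, 1000000⟩, ⟨0, 20, 10000⟩, ⟨33100, 33445, 10000⟩⟩ (bot22B.kap false) :=
  posBox_of_check (c := ⟨70, ⟨1, 0, 1, 1⟩⟩) (by decide +kernel)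

def bot22B_tg0 : PosBox ⟨⟨0, 1, 1⟩, ⟨600000, 600002, 1000000⟩, ⟨0, 20, 10000⟩, ⟨33100, 33445, 10000⟩⟩ (bot22B.hG (bot22B.pEnd false)) :=
  posBox_of_check (c := ⟨308, ⟨2, 7, 10, 6⟩⟩) (by decide +kernel)

def bot22B_c2p0 : PosBox ⟨⟨0, 1, 1⟩, ⟨600000, 600002, 1000000⟩, ⟨0, 20, 10000⟩, ⟨33100, 33445, 10000⟩⟩ (bot22B.hC2p (bot22B.pEnd false)) :=
  posBox_of_check (c := ⟨373, ⟨3, 7, 12, 7⟩⟩) (by decide +kernel)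

def bot22B_c2m0 : PosBox ⟨⟨0, 1, 1⟩, ⟨600000, 600002, 1000000⟩, ⟨0, 20, 10000⟩, ⟨33100, 33445, 10000⟩⟩ (bot22B.hC2m (bot22B.pEnd false)) :=
  posBox_of_check (c := ⟨365, ⟨2, 7, 12, 7⟩⟩) (by decide +kernel)

def bot22B_c10 : PosBox ⟨⟨0, 1, 1⟩, ⟨600000, 600002, 1000000⟩, ⟨0, 20, 10000⟩, ⟨33100, 33445, 10000⟩⟩ (bot22B.hC1 false) :=
  posBox_of_check (c := ⟨227, ⟨2, 4, 7, 4⟩⟩) (by decide +kernel)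

def bot22B_c3p0 : PosBox ⟨⟨0, 1, 1⟩, ⟨600000, 600002, 1000000⟩, ⟨0, 20, 10000⟩, ⟨33100, 33445, 10000⟩⟩ (bot22B.hC3p false) :=
  posBox_of_check (c := ⟨412, ⟨4, 8, 13, 7⟩⟩) (by decide +kernel)

def bot22B_c3m0 : PosBox ⟨⟨0, 1, 1⟩, ⟨600000, 600002, 1000000⟩, ⟨0, 20, 10000⟩, ⟨33100, 33445, 10000⟩⟩ (bot22B.hC3m false) :=
  posBox_of_check (c := ⟨411, ⟨3, 8, 13, 7⟩⟩) (by decide +kernel)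

def bot22B_tmg0 : PosBox ⟨⟨0, 1, 1⟩, ⟨600000, 600002, 1000000⟩, ⟨0, 20, 10000⟩, ⟨33100, 33445, 10000⟩⟩ (bot22B.hTMG (bot22B.pEnd false)) :=
  posBox_of_check (c := ⟨317, ⟨2, 6, 10, 6⟩⟩) (by decide +kernel)

def bot22B_c1h0 : PosBox ⟨⟨0, 1, 1⟩, ⟨600000, 600002, 1000000⟩, ⟨0, 20, 10000⟩, ⟨33100, 33445, 10000⟩⟩ (bot22B.hC1' false) :=
  posBox_of_check (c := ⟨227, ⟨2, 4, 7, 4⟩⟩) (by decide +kernel)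

def bot22B_c3ph0 : PosBox ⟨⟨0, 1, 1⟩, ⟨600000, 600002, 1000000⟩, ⟨0, 20, 10000⟩, ⟨33100, 33445, 10000⟩⟩ (bot22B.hC3p' false) :=
  posBox_of_check (c := ⟨412, ⟨4, 8, 13, 7⟩⟩) (by decide +kernel)

def bot22B_c3mh0 : PosBox ⟨⟨0, 1, 1⟩, ⟨600000, 600002, 1000000⟩, ⟨0, 20, 10000⟩, ⟨33100, 33445, 10000⟩⟩ (bot22B.hC3m' false) :=
  posBox_of_check (c := ⟨411, ⟨3, 8, 13, 7⟩⟩) (by decide +kernel)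

def bot22B_up0 : PosBox ⟨⟨0, 1, 1⟩, ⟨600000, 600002, 1000000⟩, ⟨0, 20, 10000⟩, ⟨33100, 33445, 10000⟩⟩ (bot22B.hUp false) :=
  posBox_of_check (c := ⟨342, ⟨3, 7, 11, 6⟩⟩) (by decide +kernel)

def bot22B_um0 : PosBox ⟨⟨0, 1, 1⟩, ⟨600000, 600002, 1000000⟩, ⟨0, 20, 10000⟩, ⟨33100, 33445, 10000⟩⟩ (bot22B.hUm false) :=
  posBox_of_check (c := ⟨340, ⟨2, 7, 11, 6⟩⟩) (by decide +kernel)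

def bot22B_kap1 : PosBox ⟨⟨0, 1, 1⟩, ⟨600000, 600002, 1000000⟩, ⟨0, 20, 10000⟩, ⟨33100, 33445, 10000⟩⟩ (bot22B.kap true) :=
  posBox_of_check (c := ⟨67, ⟨1, 0, 1, 1⟩⟩) (by decide +kernel)

def bot22B_tg1 : PosBox ⟨⟨0, 1, 1⟩, ⟨600000, 600002, 1000000⟩, ⟨0, 20, 10000⟩, ⟨33100, 33445, 10000⟩⟩ (bot22B.hG (bot22B.pEnd true)) :=
  posBox_of_check (c := ⟨300, ⟨2, 7, 10, 6⟩⟩) (by decide +kernel)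

def bot22B_c2p1 : PosBox ⟨⟨0, 1, 1⟩, ⟨600000, 600002, 1000000⟩, ⟨0, 20, 10000⟩, ⟨33100, 33445, 10000⟩⟩ (bot22B.hC2p (bot22B.pEnd true)) :=
  posBox_of_check (c := ⟨365, ⟨3, 7, 12, 7⟩⟩) (by decide +kernel)

def bot22B_c2m1 : PosBox ⟨⟨0, 1, 1⟩, ⟨600000, 600002, 1000000⟩, ⟨0, 20, 10000⟩, ⟨33100, 33445, 10000⟩⟩ (bot22B.hC2m (bot22B.pEnd true)) :=
  posBox_of_check (c := ⟨357, ⟨2, 7, 12, 7⟩⟩) (by decide +kernel)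

def bot22B_c11 : PosBox ⟨⟨0, 1, 1⟩, ⟨600000, 600002, 1000000⟩, ⟨0, 20, 10000⟩, ⟨33100, 33445, 10000⟩⟩ (bot22B.hC1 true) :=
  posBox_of_check (c := ⟨216, ⟨2, 4, 7, 4⟩⟩) (by decide +kernel)

def bot22B_c3p1 : PosBox ⟨⟨0, 1, 1⟩, ⟨600000, 600002, 1000000⟩, ⟨0, 20, 10000⟩, ⟨33100, 33445, 10000⟩⟩ (bot22B.hC3p true) :=
  posBox_of_check (c := ⟨394, ⟨4, 8, 13, 7⟩⟩) (by decide +kernel)

def bot22B_c3m1 : PosBox ⟨⟨0, 1, 1⟩, ⟨600000, 600002, 1000000⟩, ⟨0, 20, 10000⟩, ⟨33100, 33445, 10000⟩⟩ (bot22B.hC3m true) :=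
  posBox_of_check (c := ⟨393, ⟨3, 8, 13, 7⟩⟩) (by decide +kernel)

def bot22B_tmg1 : PosBox ⟨⟨0, 1, 1⟩, ⟨600000, 600002, 1000000⟩, ⟨0, 20, 10000⟩, ⟨33100, 33445, 10000⟩⟩ (bot22B.hTMG (bot22B.pEnd true)) :=
  posBox_of_check (c := ⟨308, ⟨2, 6, 10, 6⟩⟩) (by decide +kernel)

def bot22B_c1h1 : PosBox ⟨⟨0, 1, 1⟩, ⟨600000, 600002, 1000000⟩, ⟨0, 20, 10000⟩, ⟨33100, 33445, 10000⟩⟩ (bot22B.hC1' true) :=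
  posBox_of_check (c := ⟨216, ⟨2, 4, 7, 4⟩⟩) (by decide +kernel)

def bot22B_c3ph1 : PosBox ⟨⟨0, 1, 1⟩, ⟨600000, 600002, 1000000⟩, ⟨0, 20, 10000⟩, ⟨33100, 33445, 10000⟩⟩ (bot22B.hC3p' true) :=
  posBox_of_check (c := ⟨394, ⟨4, 8, 13, 7⟩⟩) (by decide +kernel)

def bot22B_c3mh1 : PosBox ⟨⟨0, 1, 1⟩, ⟨600000, 600002, 1000000⟩, ⟨0, 20, 10000⟩, ⟨33100, 33445, 10000⟩⟩ (bot22B.hC3m' true) :=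
  posBox_of_check (c := ⟨393, ⟨3, 8, 13, 7⟩⟩) (by decide +kernel)

def bot22B_up1 : PosBox ⟨⟨0, 1, 1⟩, ⟨600000, 600002, 1000000⟩, ⟨0, 20, 10000⟩, ⟨33100, 33445, 10000⟩⟩ (bot22B.hUp true) :=
  posBox_of_check (c := ⟨334, ⟨3, 7, 11, 6⟩⟩) (by decide +kernel)

def bot22B_um1 : PosBox ⟨⟨0, 1, 1⟩, ⟨600000, 600002, 1000000⟩, ⟨0, 20, 10000⟩, ⟨33100, 33445, 10000⟩⟩ (bot22B.hUm true) :=
  posBox_of_check (c := ⟨332, ⟨2, 7, 11, 6⟩⟩) (by decide +kernel)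

/-- The checks on the signs. -/
theorem bot22B_sign : bot22B.Sign ⟨⟨0, 1, 1⟩, ⟨600000, 600002, 1000000⟩, ⟨0, 20, 10000⟩, ⟨33100, 33445, 10000⟩⟩ where
  pp := bot22B_pp
  k2p := bot22B_k2p
  k2m := bot22B_k2m
  v2p := bot22B_v2p
  v2m := bot22B_v2m
  v3p := bot22B_v3p
  v3m := bot22B_v3m
  tg := Bool.forall_bool.2 ⟨bot22B_tg0, bot22B_tg1⟩
  c2p := Bool.forall_bool.2 ⟨bot22B_c2p0, bot22B_c2p1⟩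
  c2m := Bool.forall_bool.2 ⟨bot22B_c2m0, bot22B_c2m1⟩
  kap := Bool.forall_bool.2 ⟨bot22B_kap0, bot22B_kap1⟩
  c1 := Bool.forall_bool.2 ⟨bot22B_c10, bot22B_c11⟩
  c3p := Bool.forall_bool.2 ⟨bot22B_c3p0, bot22B_c3p1⟩
  c3m := Bool.forall_bool.2 ⟨bot22B_c3m0, bot22B_c3m1⟩
  tmg := Bool.forall_bool.2 ⟨bot22B_tmg0, bot22B_tmg1⟩
  high := .inr (Bool.forall_bool.2 ⟨⟨bot22B_c1h0, bot22B_c3ph0, bot22B_c3mh0, bot22B_up0, bot22B_um0⟩, ⟨bot22B_c1h1, bot22B_c3ph1, bot22B_c3mh1, bot22B_up1, bot22B_um1⟩⟩)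
  vG := bot22B_vG
  vMG := bot22B_vMG
  ak := bot22B_ak
  aw := bot22B_aw
  gk := bot22B_gk
  gw := bot22B_gw
  ek := bot22B_ek
  ew := bot22B_ew

end Vale.Agent.P100.Calib.Closed.High
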