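import Vale.Agent.P100.Calib.SlabHighBotData

/-!
# Checks of the signs of a piece of the tail
-/

set_option linter.defProp false

namespace Vale.Agent.P100.Calib.Closed.High

open BoxPos Large

def bot23B_vG : PosBox ⟨⟨0, 1, 1⟩, ⟨600, 601, 1000⟩, ⟨20, 501, 10000⟩, ⟨25800, 30500, 10000⟩⟩ (hVG) :=
  posBox_of_check (c := ⟨178, ⟨0, 5, 8, 3⟩⟩) (by decide +kernel)

def bot23B_vMG : PosBox ⟨⟨0, 1, 1⟩, ⟨600, 601, 1000⟩, ⟨20, 501, 10000⟩, ⟨25800, 30500, 10000⟩⟩ (hVMG) :=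
  posBox_of_check (c := ⟨191, ⟨0, 4, 8, 4⟩⟩) (by decide +kernel)

def bot23B_ak : PosBox ⟨⟨0, 1, 1⟩, ⟨600, 601, 1000⟩, ⟨20, 501, 10000⟩, ⟨25800, 30500, 10000⟩⟩ (hAk) :=
  posBox_of_check (c := ⟨176, ⟨0, 4, 6, 4⟩⟩) (by decide +kernel)

def bot23B_aw : PosBox ⟨⟨0, 1, 1⟩, ⟨600, 601, 1000⟩, ⟨20, 501, 10000⟩, ⟨25800, 30500, 10000⟩⟩ (hAw) :=
  posBox_of_check (c := ⟨171, ⟨0, 5, 7, 3⟩⟩) (by decide +kernel)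

def bot23B_gk : PosBox ⟨⟨0, 1, 1⟩, ⟨600, 601, 1000⟩, ⟨20, 501, 10000⟩, ⟨25800, 30500, 10000⟩⟩ (hGk) :=
  posBox_of_check (c := ⟨176, ⟨0, 4, 6, 4⟩⟩) (by decide +kernel)

def bot23B_gw : PosBox ⟨⟨0, 1, 1⟩, ⟨600, 601, 1000⟩, ⟨20, 501, 10000⟩, ⟨25800, 30500, 10000⟩⟩ (hGw) :=
  posBox_of_check (c := ⟨171, ⟨0, 5, 7, 3⟩⟩) (by decide +kernel)

def bot23B_ek : PosBox ⟨⟨0, 1, 1⟩, ⟨600, 601, 1000⟩, ⟨20, 501, 10000⟩, ⟨25800, 30500, 10000⟩⟩ (hMk) :=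
  posBox_of_check (c := ⟨106, ⟨0, 2, 3, 3⟩⟩) (by decide +kernel)

def bot23B_ew : PosBox ⟨⟨0, 1, 1⟩, ⟨600, 601, 1000⟩, ⟨20, 501, 10000⟩, ⟨25800, 30500, 10000⟩⟩ (hMw) :=
  posBox_of_check (c := ⟨101, ⟨0, 3, 4, 2⟩⟩) (by decide +kernel)

def bot23B_pp : PosBox ⟨⟨0, 1, 1⟩, ⟨600, 601, 1000⟩, ⟨20, 501, 10000⟩, ⟨25800, 30500, 10000⟩⟩ (bot23B.xPL) :=
  posBox_of_check (c := ⟨86, ⟨1, 1, 2, 3⟩⟩) (by decide +kernel)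

def bot23B_k2p : PosBox ⟨⟨0, 1, 1⟩, ⟨600, 601, 1000⟩, ⟨20, 501, 10000⟩, ⟨25800, 30500, 10000⟩⟩ (bot23B.k2p bot23B.xE) :=
  posBox_of_check (c := ⟨61, ⟨1, 1, 1, 2⟩⟩) (by decide +kernel)

def bot23B_k2m : PosBox ⟨⟨0, 1, 1⟩, ⟨600, 601, 1000⟩, ⟨20, 501, 10000⟩, ⟨25800, 30500, 10000⟩⟩ (bot23B.k2m bot23B.xE) :=
  posBox_of_check (c := ⟨58, ⟨1, 1, 1, 2⟩⟩) (by decide +kernel)

def bot23B_v2p : PosBox ⟨⟨0, 1, 1⟩, ⟨600, 601, 1000⟩, ⟨20, 501, 10000⟩, ⟨25800, 30500, 10000⟩⟩ (bot23B.hV2p) :=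
  posBox_of_check (c := ⟨241, ⟨1, 6, 10, 5⟩⟩) (by decide +kernel)

def bot23B_v2m : PosBox ⟨⟨0, 1, 1⟩, ⟨600, 601, 1000⟩, ⟨20, 501, 10000⟩, ⟨25800, 30500, 10000⟩⟩ (bot23B.hV2m) :=
  posBox_of_check (c := ⟨239, ⟨1, 6, 10, 5⟩⟩) (by decide +kernel)

def bot23B_v3p : PosBox ⟨⟨0, 1, 1⟩, ⟨600, 601, 1000⟩, ⟨20, 501, 10000⟩, ⟨25800, 30500, 10000⟩⟩ (bot23B.hV3p) :=
  posBox_of_check (c := ⟨210, ⟨1, 6, 9, 4⟩⟩) (by decide +kernel)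

def bot23B_v3m : PosBox ⟨⟨0, 1, 1⟩, ⟨600, 601, 1000⟩, ⟨20, 501, 10000⟩, ⟨25800, 30500, 10000⟩⟩ (bot23B.hV3m) :=
  posBox_of_check (c := ⟨210, ⟨1, 6, 9, 4⟩⟩) (by decide +kernel)

def bot23B_kap0 : PosBox ⟨⟨0, 1, 1⟩, ⟨600, 601, 1000⟩, ⟨20, 501, 10000⟩, ⟨25800, 30500, 10000⟩⟩ (bot23B.kap false) :=
  posBox_of_check (c := ⟨74, ⟨1, 1, 1, 2⟩⟩) (by decide +kernel)

def bot23B_tg0 : PosBox ⟨⟨0, 1, 1⟩, ⟨600, 601, 1000⟩, ⟨20, 501, 10000⟩, ⟨25800, 30500, 10000⟩⟩ (bot23B.hG (bot23B.pEnd false)) :=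
  posBox_of_check (c := ⟨340, ⟨2, 7, 12, 9⟩⟩) (by decide +kernel)

def bot23B_c2p0 : PosBox ⟨⟨0, 1, 1⟩, ⟨600, 601, 1000⟩, ⟨20, 501, 10000⟩, ⟨25800, 30500, 10000⟩⟩ (bot23B.hC2p (bot23B.pEnd false)) :=
  posBox_of_check (c := ⟨403, ⟨3, 8, 14, 11⟩⟩) (by decide +kernel)

def bot23B_c2m0 : PosBox ⟨⟨0, 1, 1⟩, ⟨600, 601, 1000⟩, ⟨20, 501, 10000⟩, ⟨25800, 30500, 10000⟩⟩ (bot23B.hC2m (bot23B.pEnd false)) :=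
  posBox_of_check (c := ⟨402, ⟨3, 8, 14, 11⟩⟩) (by decide +kernel)

def bot23B_c10_0 : PosBox ⟨⟨0, 1, 2⟩, ⟨600, 601, 1000⟩, ⟨20, 501, 10000⟩, ⟨25800, 30500, 10000⟩⟩ (bot23B.hC1 false) :=
  posBox_of_check (c := ⟨245, ⟨3, 5, 8, 7⟩⟩) (by decide +kernel)

def bot23B_c10_1 : PosBox ⟨⟨1, 2, 2⟩, ⟨600, 601, 1000⟩, ⟨20, 501, 10000⟩, ⟨25800, 30500, 10000⟩⟩ (bot23B.hC1 false) :=
  posBox_of_check (c := ⟨246, ⟨3, 5, 8, 7⟩⟩) (by decide +kernel)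

def bot23B_c10 : PosBox ⟨⟨0, 1, 1⟩, ⟨600, 601, 1000⟩, ⟨20, 501, 10000⟩, ⟨25800, 30500, 10000⟩⟩ (bot23B.hC1 false) :=
  posBox_units (b := ⟨⟨0, 2, 2⟩, ⟨600, 601, 1000⟩, ⟨20, 501, 10000⟩, ⟨25800, 30500, 10000⟩⟩) (by decide +kernel) (posBox_join₀ bot23B_c10_0 bot23B_c10_1)

def bot23B_c3p0 : PosBox ⟨⟨0, 1, 1⟩, ⟨600, 601, 1000⟩, ⟨20, 501, 10000⟩, ⟨25800, 30500, 10000⟩⟩ (bot23B.hC3p false) :=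
  posBox_of_check (c := ⟨381, ⟨3, 8, 13, 10⟩⟩) (by decide +kernel)

def bot23B_c3m0 : PosBox ⟨⟨0, 1, 1⟩, ⟨600, 601, 1000⟩, ⟨20, 501, 10000⟩, ⟨25800, 30500, 10000⟩⟩ (bot23B.hC3m false) :=
  posBox_of_check (c := ⟨381, ⟨3, 8, 13, 10⟩⟩) (by decide +kernel)

def bot23B_tmg0 : PosBox ⟨⟨0, 1, 1⟩, ⟨600, 601, 1000⟩, ⟨20, 501, 10000⟩, ⟨25800, 30500, 10000⟩⟩ (bot23B.hTMG (bot23B.pEnd false)) :=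
  posBox_of_check (c := ⟨358, ⟨2, 7, 12, 10⟩⟩) (by decide +kernel)

def bot23B_c1h0 : PosBox ⟨⟨0, 1, 1⟩, ⟨600, 601, 1000⟩, ⟨20, 501, 10000⟩, ⟨25800, 30500, 10000⟩⟩ (bot23B.hC1' false) :=
  posBox_of_check (c := ⟨244, ⟨3, 5, 8, 7⟩⟩) (by decide +kernel)

def bot23B_c3ph0 : PosBox ⟨⟨0, 1, 1⟩, ⟨600, 601, 1000⟩, ⟨20, 501, 10000⟩, ⟨25800, 30500, 10000⟩⟩ (bot23B.hC3p' false) :=
  posBox_of_check (c := ⟨381, ⟨3, 8, 13, 10⟩⟩) (by decide +kernel)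

def bot23B_c3mh0 : PosBox ⟨⟨0, 1, 1⟩, ⟨600, 601, 1000⟩, ⟨20, 501, 10000⟩, ⟨25800, 30500, 10000⟩⟩ (bot23B.hC3m' false) :=
  posBox_of_check (c := ⟨381, ⟨3, 8, 13, 10⟩⟩) (by decide +kernel)

def bot23B_up0 : PosBox ⟨⟨0, 1, 1⟩, ⟨600, 601, 1000⟩, ⟨20, 501, 10000⟩, ⟨25800, 30500, 10000⟩⟩ (bot23B.hUp false) :=
  posBox_of_check (c := ⟨375, ⟨3, 8, 13, 10⟩⟩) (by decide +kernel)

def bot23B_um0 : PosBox ⟨⟨0, 1, 1⟩, ⟨600, 601, 1000⟩, ⟨20, 501, 10000⟩, ⟨25800, 30500, 10000⟩⟩ (bot23B.hUm false) :=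
  posBox_of_check (c := ⟨375, ⟨3, 8, 13, 10⟩⟩) (by decide +kernel)

def bot23B_kap1 : PosBox ⟨⟨0, 1, 1⟩, ⟨600, 601, 1000⟩, ⟨20, 501, 10000⟩, ⟨25800, 30500, 10000⟩⟩ (bot23B.kap true) :=
  posBox_of_check (c := ⟨77, ⟨1, 1, 1, 2⟩⟩) (by decide +kernel)

def bot23B_tg1 : PosBox ⟨⟨0, 1, 1⟩, ⟨600, 601, 1000⟩, ⟨20, 501, 10000⟩, ⟨25800, 30500, 10000⟩⟩ (bot23B.hG (bot23B.pEnd true)) :=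
  posBox_of_check (c := ⟨342, ⟨2, 7, 12, 9⟩⟩) (by decide +kernel)

def bot23B_c2p1_0 : PosBox ⟨⟨0, 1, 1⟩, ⟨600, 601, 1000⟩, ⟨20, 501, 10000⟩, ⟨25800, 28150, 10000⟩⟩ (bot23B.hC2p (bot23B.pEnd true)) :=
  posBox_of_check (c := ⟨405, ⟨3, 8, 14, 11⟩⟩) (by decide +kernel)

def bot23B_c2p1_1 : PosBox ⟨⟨0, 1, 1⟩, ⟨600, 601, 1000⟩, ⟨20, 501, 10000⟩, ⟨28150, 30500, 10000⟩⟩ (bot23B.hC2p (bot23B.pEnd true)) :=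
  posBox_of_check (c := ⟨406, ⟨3, 8, 14, 11⟩⟩) (by decide +kernel)

theorem bot23B_c2p1 : PosBox ⟨⟨0, 1, 1⟩, ⟨600, 601, 1000⟩, ⟨20, 501, 10000⟩, ⟨25800, 30500, 10000⟩⟩ (bot23B.hC2p (bot23B.pEnd true)) :=
  posBox_join₃ bot23B_c2p1_0 bot23B_c2p1_1

def bot23B_c2m1 : PosBox ⟨⟨0, 1, 1⟩, ⟨600, 601, 1000⟩, ⟨20, 501, 10000⟩, ⟨25800, 30500, 10000⟩⟩ (bot23B.hC2m (bot23B.pEnd true)) :=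
  posBox_of_check (c := ⟨404, ⟨3, 8, 14, 11⟩⟩) (by decide +kernel)

def bot23B_c11 : PosBox ⟨⟨0, 1, 1⟩, ⟨600, 601, 1000⟩, ⟨20, 501, 10000⟩, ⟨25800, 30500, 10000⟩⟩ (bot23B.hC1 true) :=
  posBox_of_check (c := ⟨245, ⟨3, 5, 8, 7⟩⟩) (by decide +kernel)

def bot23B_c3p1 : PosBox ⟨⟨0, 1, 1⟩, ⟨600, 601, 1000⟩, ⟨20, 501, 10000⟩, ⟨25800, 30500, 10000⟩⟩ (bot23B.hC3p true) :=
  posBox_of_check (c := ⟨381, ⟨3, 8, 13, 10⟩⟩) (by decide +kernel)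

def bot23B_c3m1 : PosBox ⟨⟨0, 1, 1⟩, ⟨600, 601, 1000⟩, ⟨20, 501, 10000⟩, ⟨25800, 30500, 10000⟩⟩ (bot23B.hC3m true) :=
  posBox_of_check (c := ⟨381, ⟨3, 8, 13, 10⟩⟩) (by decide +kernel)

def bot23B_tmg1 : PosBox ⟨⟨0, 1, 1⟩, ⟨600, 601, 1000⟩, ⟨20, 501, 10000⟩, ⟨25800, 30500, 10000⟩⟩ (bot23B.hTMG (bot23B.pEnd true)) :=
  posBox_of_check (c := ⟨358, ⟨2, 7, 12, 10⟩⟩) (by decide +kernel)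

def bot23B_c1h1 : PosBox ⟨⟨0, 1, 1⟩, ⟨600, 601, 1000⟩, ⟨20, 501, 10000⟩, ⟨25800, 30500, 10000⟩⟩ (bot23B.hC1' true) :=
  posBox_of_check (c := ⟨245, ⟨3, 5, 8, 7⟩⟩) (by decide +kernel)

def bot23B_c3ph1 : PosBox ⟨⟨0, 1, 1⟩, ⟨600, 601, 1000⟩, ⟨20, 501, 10000⟩, ⟨25800, 30500, 10000⟩⟩ (bot23B.hC3p' true) :=
  posBox_of_check (c := ⟨381, ⟨3, 8, 13, 10⟩⟩) (by decide +kernel)

def bot23B_c3mh1 : PosBox ⟨⟨0, 1, 1⟩, ⟨600, 601, 1000⟩, ⟨20, 501, 10000⟩, ⟨25800, 30500, 10000⟩⟩ (bot23B.hC3m' true) :=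
  posBox_of_check (c := ⟨381, ⟨3, 8, 13, 10⟩⟩) (by decide +kernel)

def bot23B_up1 : PosBox ⟨⟨0, 1, 1⟩, ⟨600, 601, 1000⟩, ⟨20, 501, 10000⟩, ⟨25800, 30500, 10000⟩⟩ (bot23B.hUp true) :=
  posBox_of_check (c := ⟨376, ⟨3, 8, 13, 10⟩⟩) (by decide +kernel)

def bot23B_um1 : PosBox ⟨⟨0, 1, 1⟩, ⟨600, 601, 1000⟩, ⟨20, 501, 10000⟩, ⟨25800, 30500, 10000⟩⟩ (bot23B.hUm true) :=
  posBox_of_check (c := ⟨376, ⟨3, 8, 13, 10⟩⟩) (by decide +kernel)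

/-- The checks on the signs. -/
theorem bot23B_sign : bot23B.Sign ⟨⟨0, 1, 1⟩, ⟨600, 601, 1000⟩, ⟨20, 501, 10000⟩, ⟨25800, 30500, 10000⟩⟩ where
  pp := bot23B_pp
  k2p := bot23B_k2p
  k2m := bot23B_k2m
  v2p := bot23B_v2p
  v2m := bot23B_v2m
  v3p := bot23B_v3p
  v3m := bot23B_v3m
  tg := Bool.forall_bool.2 ⟨bot23B_tg0, bot23B_tg1⟩
  c2p := Bool.forall_bool.2 ⟨bot23B_c2p0, bot23B_c2p1⟩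
  c2m := Bool.forall_bool.2 ⟨bot23B_c2m0, bot23B_c2m1⟩
  kap := Bool.forall_bool.2 ⟨bot23B_kap0, bot23B_kap1⟩
  c1 := Bool.forall_bool.2 ⟨bot23B_c10, bot23B_c11⟩
  c3p := Bool.forall_bool.2 ⟨bot23B_c3p0, bot23B_c3p1⟩
  c3m := Bool.forall_bool.2 ⟨bot23B_c3m0, bot23B_c3m1⟩
  tmg := Bool.forall_bool.2 ⟨bot23B_tmg0, bot23B_tmg1⟩
  high := .inr (Bool.forall_bool.2 ⟨⟨bot23B_c1h0, bot23B_c3ph0, bot23B_c3mh0, bot23B_up0, bot23B_um0⟩, ⟨bot23B_c1h1, bot23B_c3ph1, bot23B_c3mh1, bot23B_up1, bot23B_um1⟩⟩)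
  vG := bot23B_vG
  vMG := bot23B_vMG
  ak := bot23B_ak
  aw := bot23B_aw
  gk := bot23B_gk
  gw := bot23B_gw
  ek := bot23B_ek
  ew := bot23B_ew

end Vale.Agent.P100.Calib.Closed.High
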