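import Vale.Agent.P100.Calib.SlabHighBotTail
import Vale.Agent.P100.Calib.SlabHighBotEnv16
import Vale.Agent.P100.Calib.SlabHighBotEnv17
import Vale.Agent.P100.Calib.SlabHighBotEnv18
import Vale.Agent.P100.Calib.SlabHighBotEnv19
import Vale.Agent.P100.Calib.SlabHighBotEnv20
import Vale.Agent.P100.Calib.SlabHighBotEnv21
import Vale.Agent.P100.Calib.SlabHighBotEnv22
import Vale.Agent.P100.Calib.SlabHighBotEnv23
import Vale.Agent.P100.Calib.SlabHighBotEnv24
import Vale.Agent.P100.Calib.SlabHighBotSign17
import Vale.Agent.P100.Calib.SlabHighBotSign18A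
import Vale.Agent.P100.Calib.SlabHighBotSign18B
import Vale.Agent.P100.Calib.SlabHighBotSign19A
import Vale.Agent.P100.Calib.SlabHighBotSign19B
import Vale.Agent.P100.Calib.SlabHighBotSign20
import Vale.Agent.P100.Calib.SlabHighBotSign21A
import Vale.Agent.P100.Calib.SlabHighBotSign21B
import Vale.Agent.P100.Calib.SlabHighBotSign22A
import Vale.Agent.P100.Calib.SlabHighBotSign22B
import Vale.Agent.P100.Calib.SlabHighBotSign23A
import Vale.Agent.P100.Calib.SlabHighBotSign23B
import Vale.Agent.P100.Calib.SlabHighBotSign24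

/-!
# The closed signs on the tail at `d ≤ 1/20`, `4/5 < u`
-/

set_option linter.unusedVariables false

namespace Vale.Agent.P100.Calib.Closed.High

open BoxPos Large

/-- A piece of the tail at `d ≤ 1/20`. -/
theorem bot16_signs {d S u v t : ℝ} (T : BotPt d S u v t)
    (mS : Side.Mem ⟨600, 601, 1000⟩ S) (hd : 0 < d) (h1 : d ≤ 1 / 20) (hF : ChartFacts d S u v t)
    (hd0 : (0 : ℝ) / 10000 ≤ d) (hd9 : d < 501 / 10000) (hv0 : (3500 : ℝ) / 10000 ≤ v) (hv9 : v < 7000 / 10000)
    (hlow : bandsBot.low d u < t) (hup : t < bandsBot.up d u + bandsBot.tilt d * v)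
    (hphi : v < bandsBot.phi d u)
    (hu8 : 4 / 5 < u) (hU : u < 1 - 499 / 1000 * d) : ChartSigns d S u v t := by
  have md : Side.Mem ⟨0, 501, 10000⟩ d := by
    simp only [Side.Mem]; norm_num; constructor <;> linarith
  have mv : Side.Mem ⟨3500, 7000, 10000⟩ v := by
    simp only [Side.Mem]; norm_num; constructor <;> linarith
  have hlo : bot16.u₀.val 0 S d v ≤ u := by
    norm_num [bot16, Ex.val, ex_sub, ex_add, ex_mul]; linarith
  have hhi : u < bot16.u₁.val 0 S d v := by
    norm_num [bot16, Ex.val, ex_sub, ex_add, ex_mul]; linarith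
  exact (bot_none bot16_empty rfl T mS md mv (xU_place' (by decide +kernel) (by decide +kernel) hlo hhi)
    (fun o hx => bot_low_le hF.u_lt.le hd.le hlow hx) (fun o hx => bot_up_le hF.u_lt hd.le hup hx)).elim

/-- A piece of the tail at `d ≤ 1/20`. -/
theorem bot17_signs {d S u v t : ℝ} (T : BotPt d S u v t)
    (mS : Side.Mem ⟨600, 601, 1000⟩ S) (hd : 0 < d) (h1 : d ≤ 1 / 20) (hF : ChartFacts d S u v t)
    (hd0 : (0 : ℝ) / 10000 ≤ d) (hd9 : d < 501 / 10000) (hv0 : (7000 : ℝ) / 10000 ≤ v) (hv9 : v < 16000 / 10000)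
    (hlow : bandsBot.low d u < t) (hup : t < bandsBot.up d u + bandsBot.tilt d * v)
    (hphi : v < bandsBot.phi d u)
    (hu8 : 4 / 5 < u) (hU : u < 1 - 499 / 1000 * d) : ChartSigns d S u v t := by
  have md : Side.Mem ⟨0, 501, 10000⟩ d := by
    simp only [Side.Mem]; norm_num; constructor <;> linarith
  have mv : Side.Mem ⟨7000, 16000, 10000⟩ v := by
    simp only [Side.Mem]; norm_num; constructor <;> linarith
  have hlo : bot17.u₀.val 0 S d v ≤ u := by
    norm_num [bot17, Ex.val, ex_sub, ex_add, ex_mul]; linarith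
  have hhi : u < bot17.u₁.val 0 S d v := by
    norm_num [bot17, Ex.val, ex_sub, ex_add, ex_mul]; linarith
  exact bot_piece bot17_env bot17_sign rfl (by decide +kernel) T mS md mv (xU_place' (by decide +kernel) (by decide +kernel) hlo hhi)
    (fun o hx => bot_low_le hF.u_lt.le hd.le hlow hx) (fun o hx => bot_up_le hF.u_lt hd.le hup hx)

/-- A piece of the tail at `d ≤ 1/20`. -/
theorem bot18_signs {d S u v t : ℝ} (T : BotPt d S u v t)
    (mS : Side.Mem ⟨600, 601, 1000⟩ S) (hd : 0 < d) (h1 : d ≤ 1 / 20) (hF : ChartFacts d S u v t)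
    (hd0 : (0 : ℝ) / 10000 ≤ d) (hd9 : d < 501 / 10000) (hv0 : (16000 : ℝ) / 10000 ≤ v) (hv9 : v < 23000 / 10000)
    (hlow : bandsBot.low d u < t) (hup : t < bandsBot.up d u + bandsBot.tilt d * v)
    (hphi : v < bandsBot.phi d u)
    (hu8 : 4 / 5 < u) (hU : u < 1 - 499 / 1000 * d) : ChartSigns d S u v t := by
  have md : Side.Mem ⟨0, 501, 10000⟩ d := by
    simp only [Side.Mem]; norm_num; constructor <;> linarith
  have mv : Side.Mem ⟨16000, 23000, 10000⟩ v := by
    simp only [Side.Mem]; norm_num; constructor <;> linarith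
  have hlo : bot18.u₀.val 0 S d v ≤ u := by
    by_contra hne
    have k := botPhi_lt (u := u) (bot18_phi 0 S d v (by norm_num [Side.Mem]) mS md mv) hd.le (by linarith)
      (by norm_num [bot18, Ex.val, ex_sub, ex_add, ex_mul]; linarith) (le_of_lt (not_le.1 hne))
    simp only [Ex.val] at k
    linarith
  have hhi : u < bot18.u₁.val 0 S d v := by
    norm_num [bot18, Ex.val, ex_sub, ex_add, ex_mul]; linarith
  exact bot_cut bot18_env bot18_envU bot18A_sign bot18B_sign rfl (by decide +kernel) (by decide +kernel) T mS md mv (xU_place' (by decide +kernel) (by decide +kernel) hlo hhi)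
    (fun o hx => bot_low_le hF.u_lt.le hd.le hlow hx) (fun o hx => bot_up_le hF.u_lt hd.le hup hx)

/-- A piece of the tail at `d ≤ 1/20`. -/
theorem bot19_signs {d S u v t : ℝ} (T : BotPt d S u v t)
    (mS : Side.Mem ⟨600, 601, 1000⟩ S) (hd : 0 < d) (h1 : d ≤ 1 / 20) (hF : ChartFacts d S u v t)
    (hd0 : (0 : ℝ) / 10000 ≤ d) (hd9 : d < 501 / 10000) (hv0 : (23000 : ℝ) / 10000 ≤ v) (hv9 : v < 25800 / 10000)
    (hlow : bandsBot.low d u < t) (hup : t < bandsBot.up d u + bandsBot.tilt d * v)
    (hphi : v < bandsBot.phi d u)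
    (hu8 : 4 / 5 < u) (hU : u < 1 - 499 / 1000 * d) : ChartSigns d S u v t := by
  have md : Side.Mem ⟨0, 501, 10000⟩ d := by
    simp only [Side.Mem]; norm_num; constructor <;> linarith
  have mv : Side.Mem ⟨23000, 25800, 10000⟩ v := by
    simp only [Side.Mem]; norm_num; constructor <;> linarith
  have hlo : bot19.u₀.val 0 S d v ≤ u := by
    by_contra hne
    have k := botPhi_lt (u := u) (bot19_phi 0 S d v (by norm_num [Side.Mem]) mS md mv) hd.le (by linarith)
      (by norm_num [bot19, Ex.val, ex_sub, ex_add, ex_mul]; linarith) (le_of_lt (not_le.1 hne))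
    simp only [Ex.val] at k
    linarith
  have hhi : u < bot19.u₁.val 0 S d v := by
    norm_num [bot19, Ex.val, ex_sub, ex_add, ex_mul]; linarith
  exact bot_cut bot19_env bot19_envU bot19A_sign bot19B_sign rfl (by decide +kernel) (by decide +kernel) T mS md mv (xU_place' (by decide +kernel) (by decide +kernel) hlo hhi)
    (fun o hx => bot_low_le hF.u_lt.le hd.le hlow hx) (fun o hx => bot_up_le hF.u_lt hd.le hup hx)

/-- A piece of the tail at `d ≤ 1/20`. -/
theorem bot20_signs {d S u v t : ℝ} (T : BotPt d S u v t)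
    (mS : Side.Mem ⟨600000, 600002, 1000000⟩ S) (hd : 0 < d) (h1 : d ≤ 1 / 20) (hF : ChartFacts d S u v t)
    (hd0 : (0 : ℝ) / 10000 ≤ d) (hd9 : d < 20 / 10000) (hv0 : (25800 : ℝ) / 10000 ≤ v) (hv9 : v < 30500 / 10000)
    (hlow : bandsBot.low d u < t) (hup : t < bandsBot.up d u + bandsBot.tilt d * v)
    (hphi : v < bandsBot.phi d u)
    (hu8 : 4 / 5 < u) (hU : u < 1 - 499 / 1000 * d) : ChartSigns d S u v t := by
  have md : Side.Mem ⟨0, 20, 10000⟩ d := by
    simp only [Side.Mem]; norm_num; constructor <;> linarith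
  have mv : Side.Mem ⟨25800, 30500, 10000⟩ v := by
    simp only [Side.Mem]; norm_num; constructor <;> linarith
  have hlo : bot20.u₀.val 0 S d v ≤ u := by
    by_contra hne
    have k := botPhi_lt (u := u) (bot20_phi 0 S d v (by norm_num [Side.Mem]) mS md mv) hd.le (by linarith)
      (by norm_num [bot20, Ex.val, ex_sub, ex_add, ex_mul]; linarith) (le_of_lt (not_le.1 hne))
    simp only [Ex.val] at k
    linarith
  have hhi : u < bot20.u₁.val 0 S d v := by
    norm_num [bot20, Ex.val, ex_sub, ex_add, ex_mul]; linarith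
  exact bot_piece bot20_env bot20_sign rfl (by decide +kernel) T mS md mv (xU_place' (by decide +kernel) (by decide +kernel) hlo hhi)
    (fun o hx => bot_low_le hF.u_lt.le hd.le hlow hx) (fun o hx => bot_up_le hF.u_lt hd.le hup hx)

/-- A piece of the tail at `d ≤ 1/20`. -/
theorem bot21_signs {d S u v t : ℝ} (T : BotPt d S u v t)
    (mS : Side.Mem ⟨600000, 600002, 1000000⟩ S) (hd : 0 < d) (h1 : d ≤ 1 / 20) (hF : ChartFacts d S u v t)
    (hd0 : (0 : ℝ) / 10000 ≤ d) (hd9 : d < 20 / 10000) (hv0 : (30500 : ℝ) / 10000 ≤ v) (hv9 : v < 33100 / 10000)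
    (hlow : bandsBot.low d u < t) (hup : t < bandsBot.up d u + bandsBot.tilt d * v)
    (hphi : v < bandsBot.phi d u)
    (hu8 : 4 / 5 < u) (hU : u < 1 - 499 / 1000 * d) : ChartSigns d S u v t := by
  have md : Side.Mem ⟨0, 20, 10000⟩ d := by
    simp only [Side.Mem]; norm_num; constructor <;> linarith
  have mv : Side.Mem ⟨30500, 33100, 10000⟩ v := by
    simp only [Side.Mem]; norm_num; constructor <;> linarith
  have hlo : bot21.u₀.val 0 S d v ≤ u := by
    by_contra hne
    have k := botPhi_lt (u := u) (bot21_phi 0 S d v (by norm_num [Side.Mem]) mS md mv) hd.le (by linarith)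
      (by norm_num [bot21, Ex.val, ex_sub, ex_add, ex_mul]; linarith) (le_of_lt (not_le.1 hne))
    simp only [Ex.val] at k
    linarith
  have hhi : u < bot21.u₁.val 0 S d v := by
    norm_num [bot21, Ex.val, ex_sub, ex_add, ex_mul]; linarith
  exact bot_cut bot21_env bot21_envU bot21A_sign bot21B_sign rfl (by decide +kernel) (by decide +kernel) T mS md mv (xU_place' (by decide +kernel) (by decide +kernel) hlo hhi)
    (fun o hx => bot_low_le hF.u_lt.le hd.le hlow hx) (fun o hx => bot_up_le hF.u_lt hd.le hup hx)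

/-- A piece of the tail at `d ≤ 1/20`. -/
theorem bot22_signs {d S u v t : ℝ} (T : BotPt d S u v t)
    (mS : Side.Mem ⟨600000, 600002, 1000000⟩ S) (hd : 0 < d) (h1 : d ≤ 1 / 20) (hF : ChartFacts d S u v t)
    (hd0 : (0 : ℝ) / 10000 ≤ d) (hd9 : d < 20 / 10000) (hv0 : (33100 : ℝ) / 10000 ≤ v) (hv9 : v < 33445 / 10000)
    (hlow : bandsBot.low d u < t) (hup : t < bandsBot.up d u + bandsBot.tilt d * v)
    (hphi : v < bandsBot.phi d u)
    (hu8 : 4 / 5 < u) (hU : u < 1 - 499 / 1000 * d) : ChartSigns d S u v t := by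
  have md : Side.Mem ⟨0, 20, 10000⟩ d := by
    simp only [Side.Mem]; norm_num; constructor <;> linarith
  have mv : Side.Mem ⟨33100, 33445, 10000⟩ v := by
    simp only [Side.Mem]; norm_num; constructor <;> linarith
  have hlo : bot22.u₀.val 0 S d v ≤ u := by
    by_contra hne
    have k := botPhi_lt (u := u) (bot22_phi 0 S d v (by norm_num [Side.Mem]) mS md mv) hd.le (by linarith)
      (by norm_num [bot22, Ex.val, ex_sub, ex_add, ex_mul]; linarith) (le_of_lt (not_le.1 hne))
    simp only [Ex.val] at k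
    linarith
  have hhi : u < bot22.u₁.val 0 S d v := by
    norm_num [bot22, Ex.val, ex_sub, ex_add, ex_mul]; linarith
  exact bot_cut bot22_env bot22_envU bot22A_sign bot22B_sign rfl (by decide +kernel) (by decide +kernel) T mS md mv (xU_place' (by decide +kernel) (by decide +kernel) hlo hhi)
    (fun o hx => bot_low_le hF.u_lt.le hd.le hlow hx) (fun o hx => bot_up_le hF.u_lt hd.le hup hx)

/-- A piece of the tail at `d ≤ 1/20`. -/
theorem bot23_signs {d S u v t : ℝ} (T : BotPt d S u v t)
    (mS : Side.Mem ⟨600, 601, 1000⟩ S) (hd : 0 < d) (h1 : d ≤ 1 / 20) (hF : ChartFacts d S u v t)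
    (hd0 : (20 : ℝ) / 10000 ≤ d) (hd9 : d < 501 / 10000) (hv0 : (25800 : ℝ) / 10000 ≤ v) (hv9 : v < 30500 / 10000)
    (hlow : bandsBot.low d u < t) (hup : t < bandsBot.up d u + bandsBot.tilt d * v)
    (hphi : v < bandsBot.phi d u)
    (hu8 : 4 / 5 < u) (hU : u < 1 - 499 / 1000 * d) : ChartSigns d S u v t := by
  have md : Side.Mem ⟨20, 501, 10000⟩ d := by
    simp only [Side.Mem]; norm_num; constructor <;> linarith
  have mv : Side.Mem ⟨25800, 30500, 10000⟩ v := by
    simp only [Side.Mem]; norm_num; constructor <;> linarith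
  have hlo : bot23.u₀.val 0 S d v ≤ u := by
    by_contra hne
    have k := botPhi_lt (u := u) (bot23_phi 0 S d v (by norm_num [Side.Mem]) mS md mv) hd.le (by linarith)
      (by norm_num [bot23, Ex.val, ex_sub, ex_add, ex_mul]; linarith) (le_of_lt (not_le.1 hne))
    simp only [Ex.val] at k
    linarith
  have hhi : u < bot23.u₁.val 0 S d v := by
    norm_num [bot23, Ex.val, ex_sub, ex_add, ex_mul]; linarith
  exact bot_cut bot23_env bot23_envU bot23A_sign bot23B_sign rfl (by decide +kernel) (by decide +kernel) T mS md mv (xU_place' (by decide +kernel) (by decide +kernel) hlo hhi)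
    (fun o hx => bot_low_le hF.u_lt.le hd.le hlow hx) (fun o hx => bot_up_le hF.u_lt hd.le hup hx)

/-- A piece of the tail at `d ≤ 1/20`. -/
theorem bot24_signs {d S u v t : ℝ} (T : BotPt d S u v t)
    (mS : Side.Mem ⟨600, 601, 1000⟩ S) (hd : 0 < d) (h1 : d ≤ 1 / 20) (hF : ChartFacts d S u v t)
    (hd0 : (20 : ℝ) / 10000 ≤ d) (hd9 : d < 501 / 10000) (hv0 : (30500 : ℝ) / 10000 ≤ v) (hv9 : v < 34500 / 10000)
    (hlow : bandsBot.low d u < t) (hup : t < bandsBot.up d u + bandsBot.tilt d * v)
    (hphi : v < bandsBot.phi d u)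
    (hu8 : 4 / 5 < u) (hU : u < 1 - 499 / 1000 * d) : ChartSigns d S u v t := by
  have md : Side.Mem ⟨20, 501, 10000⟩ d := by
    simp only [Side.Mem]; norm_num; constructor <;> linarith
  have mv : Side.Mem ⟨30500, 34500, 10000⟩ v := by
    simp only [Side.Mem]; norm_num; constructor <;> linarith
  have hlo : bot24.u₀.val 0 S d v ≤ u := by
    by_contra hne
    have k := botPhi_lt (u := u) (bot24_phi 0 S d v (by norm_num [Side.Mem]) mS md mv) hd.le (by linarith)
      (by norm_num [bot24, Ex.val, ex_sub, ex_add, ex_mul]; linarith) (le_of_lt (not_le.1 hne))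
    simp only [Ex.val] at k
    linarith
  have hhi : u < bot24.u₁.val 0 S d v := by
    norm_num [bot24, Ex.val, ex_sub, ex_add, ex_mul]; linarith
  exact bot_piece bot24_env bot24_sign rfl (by decide +kernel) T mS md mv (xU_place' (by decide +kernel) (by decide +kernel) hlo hhi)
    (fun o hx => bot_low_le hF.u_lt.le hd.le hlow hx) (fun o hx => bot_up_le hF.u_lt hd.le hup hx)

/-- Beyond `u = 4/5`. -/
theorem bot_signs_above {d S u v t : ℝ} (T : BotPt d S u v t) (mS : Side.Mem ⟨600, 601, 1000⟩ S) (hd : 0 < d)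
    (h1 : d ≤ 1 / 20) (hu : 3 / 5 < u) (hF : ChartFacts d S u v t) (hv : 7 / 20 ≤ v)
    (hphi : v < bandsBot.phi d u) (hlow : bandsBot.low d u < t)
    (hup : t < bandsBot.up d u + bandsBot.tilt d * v)
    (hu8 : 4 / 5 < u) (hU : u < 1 - 499 / 1000 * d) (hS1 : S ≤ 3 / 5 + d ^ 2 / 3)
    (hvmax : v < 69 / 20) (hvT0 : d < 20 / 10000 → v < 33445 / 10000) : ChartSigns d S u v t := by
  rcases lt_or_ge v (7000 / 10000 : ℝ) with hc16 | hc16
  · exact bot16_signs T mS hd h1 hF (by linarith) (by linarith) (by linarith) (by linarith)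
      hlow hup hphi hu8 hU
  · rcases lt_or_ge v (16000 / 10000 : ℝ) with hc17 | hc17
    · exact bot17_signs T mS hd h1 hF (by linarith) (by linarith) (by linarith) (by linarith)
        hlow hup hphi hu8 hU
    · rcases lt_or_ge v (23000 / 10000 : ℝ) with hc18 | hc18
      · exact bot18_signs T mS hd h1 hF (by linarith) (by linarith) (by linarith) (by linarith)
          hlow hup hphi hu8 hU
      · rcases lt_or_ge v (25800 / 10000 : ℝ) with hc19 | hc19
        · exact bot19_signs T mS hd h1 hF (by linarith) (by linarith) (by linarith) (by linarith)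
            hlow hup hphi hu8 hU
        · rcases lt_or_ge d (20 / 10000 : ℝ) with he20 | he20
          · have mS0 : Side.Mem ⟨600000, 600002, 1000000⟩ S := by
              have hSl := mS.1
              norm_num at hSl
              have : d ^ 2 ≤ (2 / 1000 : ℝ) ^ 2 := pow_le_pow_left₀ hd.le (by linarith) 2
              simp only [Side.Mem]; norm_num; constructor <;> nlinarith [hS1]
            have hv0 : v < 33445 / 10000 := hvT0 (by linarith)
            rcases lt_or_ge v (30500 / 10000 : ℝ) with hc21 | hc21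
            · exact bot20_signs T mS0 hd h1 hF (by linarith) (by linarith) (by linarith) (by linarith)
                hlow hup hphi hu8 hU
            · rcases lt_or_ge v (33100 / 10000 : ℝ) with hc22 | hc22
              · exact bot21_signs T mS0 hd h1 hF (by linarith) (by linarith) (by linarith) (by linarith)
                  hlow hup hphi hu8 hU
              · exact bot22_signs T mS0 hd h1 hF (by linarith) (by linarith) (by linarith) (by linarith)
                  hlow hup hphi hu8 hU
          · rcases lt_or_ge v (30500 / 10000 : ℝ) with hc23 | hc23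
            · exact bot23_signs T mS hd h1 hF (by linarith) (by linarith) (by linarith) (by linarith)
                hlow hup hphi hu8 hU
            · exact bot24_signs T mS hd h1 hF (by linarith) (by linarith) (by linarith) (by linarith)
                hlow hup hphi hu8 hU

end Vale.Agent.P100.Calib.Closed.High
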