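import Vale.Agent.P100.Calib.SlabHighTailBotBelow
import Vale.Agent.P100.Calib.SlabHighTailBotAbove

/-!
# The closed signs on the tail, bottom piece
-/

namespace Vale.Agent.P100.Calib.Closed.High

open BoxPos Large

/-- **The closed signs on the tail for `d ≤ 1/20`.** -/
theorem signsTailBot : SignsTail bandsBot 0 (1 / 20) := by
  intro d S u v t hB _ h1 hu hu1 hF hphi hlow hup
  have hd := hB.pos
  have hu1 : u ≤ max (39 / 40) (1 - 67 / 100 * d) := hu1
  have hS0 := hB.S_low
  have hS1 := hB.S_le
  have hd2 : d * d ≤ d * (1 / 20) := mul_le_mul_of_nonneg_left h1 hd.le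
  have mS : Side.Mem ⟨600, 601, 1000⟩ S := by
    simp only [Side.Mem]; norm_num; constructor <;> nlinarith
  have hv := hF.v_low
  have hr := hF.r_lt
  have hU : u < 1 - 499 / 1000 * d := by
    rcases le_max_iff.1 hu1 with h | h <;> linarith
  have hvT0 : d < 20 / 10000 → v < 33445 / 10000 := fun he => by
    have := mul_le_mul_of_nonneg_right (show (598 : ℝ) / 1000 ≤ S - d by linarith)
      (show (0 : ℝ) ≤ v by linarith)
    linarith
  have hvmax : v < 69 / 20 := by
    rcases lt_or_ge d (190 / 10000 : ℝ) with he | he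
    · have := mul_le_mul_of_nonneg_right (show (581 : ℝ) / 1000 ≤ S - d by linarith)
        (show (0 : ℝ) ≤ v by linarith)
      linarith
    · have md : Side.Mem ⟨180, 501, 10000⟩ d := by
        simp only [Side.Mem]; norm_num; constructor <;> linarith
      rcases le_max_iff.1 hu1 with h | h
      · have k := botPhi_lt (u := u) (botPhi_hiA 0 S d (7 / 20) (by norm_num [Side.Mem]) mS md
          (by norm_num [Side.Mem])) hd.le h1 (by norm_num [Ex.val]) (by norm_num [Ex.val]; linarith)
        norm_num [Ex.val] at k
        linarith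
      · have k := botPhi_lt (u := u) (botPhi_hiB 0 S d (7 / 20) (by norm_num [Side.Mem]) mS md
          (by norm_num [Side.Mem])) hd.le h1 (by norm_num [Ex.val, ex_sub, ex_mul]; linarith)
          (by norm_num [Ex.val, ex_sub, ex_mul]; linarith)
        norm_num [Ex.val] at k
        linarith
  have mu : Side.Mem ⟨600, 1000, 1000⟩ u := by
    simp only [Side.Mem]; norm_num; constructor <;> linarith [hF.u_lt]
  have md : Side.Mem ⟨0, 501, 10000⟩ d := by
    simp only [Side.Mem]; norm_num; constructor <;> linarith
  have mv : Side.Mem ⟨35, 345, 100⟩ v := by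
    simp only [Side.Mem]; norm_num; constructor <;> linarith
  have hS : S < 1 := by nlinarith
  have ht : 0 ≤ t := by
    have k := bot_low_le (o := u) (S := S) (v := v) (x := xO) hF.u_lt.le hd.le hlow rfl
    have k1 := botTn_pos u S d v mu mS md mv
    have k2 := botTd_pos u S d v mu mS md mv
    exact (pos_of_mul_pos_left (k1.trans_le k) k2.le).le
  have T : BotPt d S u v t := ⟨hd, by linarith, hS, hF,
    llg_nonneg botLlgLo botLlgHi mu mS md mv hd (by linarith) hS ht hF⟩
  rcases le_or_gt u (4 / 5 : ℝ) with h8 | h8
  · exact bot_signs_below T mS hd h1 hu hF hv hphi hlow hup h8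
  · exact bot_signs_above T mS hd h1 hu hF hv hphi hlow hup h8 hU hS1 hvmax hvT0

end Vale.Agent.P100.Calib.Closed.High
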