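import Vale.Agent.P100.Calib.SlabHighData

/-!
# Checks of the bounds of a piece of the tail
-/

set_option linter.defProp false

namespace Vale.Agent.P100.Calib.Closed.High

open BoxPos Large

def mid0_p0 : PosBox ⟨⟨0, 1, 1⟩, ⟨99, 100, 165⟩, ⟨20, 49, 400⟩, ⟨35, 40, 100⟩⟩ (mid0.hP0) :=
  posBox_of_check (c := ⟨65, ⟨0, 2, 3, 1⟩⟩) (by decide +kernel)

def mid0_gn : PosBox ⟨⟨0, 1, 1⟩, ⟨99, 100, 165⟩, ⟨20, 49, 400⟩, ⟨35, 40, 100⟩⟩ (mid0.hGn) :=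
  posBox_of_check (c := ⟨42, ⟨1, 1, 2, 1⟩⟩) (by decide +kernel)

def mid0_den0 : PosBox ⟨⟨0, 1, 1⟩, ⟨99, 100, 165⟩, ⟨20, 49, 400⟩, ⟨35, 40, 100⟩⟩ (mid0.hDen false) :=
  posBox_of_check (c := ⟨59, ⟨2, 0, 2, 0⟩⟩) (by decide +kernel)

def mid0_den1 : PosBox ⟨⟨0, 1, 1⟩, ⟨99, 100, 165⟩, ⟨20, 49, 400⟩, ⟨35, 40, 100⟩⟩ (mid0.hDen true) :=
  posBox_of_check (c := ⟨79, ⟨2, 0, 3, 0⟩⟩) (by decide +kernel)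

def mid0_none0 : PosBox ⟨⟨0, 1, 1⟩, ⟨99, 100, 165⟩, ⟨20, 49, 400⟩, ⟨35, 40, 100⟩⟩ (mid0.hNone false) :=
  posBox_of_check (c := ⟨190, ⟨5, 6, 7, 2⟩⟩) (by decide +kernel)

def mid0_none1 : PosBox ⟨⟨0, 1, 1⟩, ⟨99, 100, 165⟩, ⟨20, 49, 400⟩, ⟨35, 40, 100⟩⟩ (mid0.hNone true) :=
  posBox_of_check (c := ⟨238, ⟨5, 6, 9, 2⟩⟩) (by decide +kernel)

def mid0_mupU : PosBox ⟨⟨0, 1, 1⟩, ⟨99, 100, 165⟩, ⟨20, 49, 400⟩, ⟨35, 40, 100⟩⟩ (mid0.pU.μ) :=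
  posBox_of_check (c := ⟨5, ⟨0, 0, 0, 0⟩⟩) (by decide +kernel)

/-- No point in the piece. -/
theorem mid0_empty : mid0.Empty ⟨⟨0, 1, 1⟩, ⟨99, 100, 165⟩, ⟨20, 49, 400⟩, ⟨35, 40, 100⟩⟩ :=
  ⟨mid0_p0, Bool.forall_bool.2 ⟨mid0_den0, mid0_den1⟩, mid0_gn, ⟨.inl mid0_mupU, .inr rfl⟩, Bool.forall_bool.2 ⟨mid0_none0, mid0_none1⟩⟩

end Vale.Agent.P100.Calib.Closed.High
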