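import Vale.Agent.P100.Calib.SlabHighData

/-!
# Checks of the bounds of a piece of the tail
-/

set_option linter.defProp false

namespace Vale.Agent.P100.Calib.Closed.High

open BoxPos Large

def mid1_p0 : PosBox ⟨⟨0, 1, 1⟩, ⟨99, 100, 165⟩, ⟨20, 49, 400⟩, ⟨40, 110, 100⟩⟩ (mid1.hP0) :=
  posBox_of_check (c := ⟨65, ⟨0, 2, 3, 1⟩⟩) (by decide +kernel)

def mid1_gn : PosBox ⟨⟨0, 1, 1⟩, ⟨99, 100, 165⟩, ⟨20, 49, 400⟩, ⟨40, 110, 100⟩⟩ (mid1.hGn) :=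
  posBox_of_check (c := ⟨42, ⟨1, 1, 2, 1⟩⟩) (by decide +kernel)

def mid1_den0 : PosBox ⟨⟨0, 1, 1⟩, ⟨99, 100, 165⟩, ⟨20, 49, 400⟩, ⟨40, 110, 100⟩⟩ (mid1.hDen false) :=
  posBox_of_check (c := ⟨59, ⟨2, 0, 2, 0⟩⟩) (by decide +kernel)

def mid1_den1 : PosBox ⟨⟨0, 1, 1⟩, ⟨99, 100, 165⟩, ⟨20, 49, 400⟩, ⟨40, 110, 100⟩⟩ (mid1.hDen true) :=
  posBox_of_check (c := ⟨79, ⟨2, 0, 3, 0⟩⟩) (by decide +kernel)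

def mid1_ev0 : PosBox ⟨⟨0, 1, 1⟩, ⟨99, 100, 165⟩, ⟨20, 49, 400⟩, ⟨40, 110, 100⟩⟩ (mid1.hEv false) :=
  posBox_of_check (c := ⟨114, ⟨4, 2, 4, 1⟩⟩) (by decide +kernel)

def mid1_eL0 : PosBox ⟨⟨0, 1, 1⟩, ⟨99, 100, 165⟩, ⟨20, 49, 400⟩, ⟨40, 110, 100⟩⟩ (mid1.hEL false) :=
  posBox_of_check (c := ⟨191, ⟨5, 6, 7, 2⟩⟩) (by decide +kernel)

def mid1_eH0 : PosBox ⟨⟨0, 1, 1⟩, ⟨99, 100, 165⟩, ⟨20, 49, 400⟩, ⟨40, 110, 100⟩⟩ (mid1.hEH false) :=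
  posBox_of_check (c := ⟨207, ⟨5, 6, 7, 2⟩⟩) (by decide +kernel)

def mid1_pL0 : PosBox ⟨⟨0, 1, 1⟩, ⟨99, 100, 165⟩, ⟨20, 49, 400⟩, ⟨40, 110, 100⟩⟩ (mid1.hPL false) :=
  posBox_of_check (c := ⟨205, ⟨5, 6, 7, 2⟩⟩) (by decide +kernel)

def mid1_pU0 : PosBox ⟨⟨0, 1, 1⟩, ⟨99, 100, 165⟩, ⟨20, 49, 400⟩, ⟨40, 110, 100⟩⟩ (mid1.hPU false) :=
  posBox_of_check (c := ⟨196, ⟨5, 6, 7, 3⟩⟩) (by decide +kernel)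

def mid1_kU0 : PosBox ⟨⟨0, 1, 1⟩, ⟨99, 100, 165⟩, ⟨20, 49, 400⟩, ⟨40, 110, 100⟩⟩ (mid1.hKU false) :=
  posBox_of_check (c := ⟨194, ⟨5, 6, 7, 3⟩⟩) (by decide +kernel)

def mid1_kL0 : PosBox ⟨⟨0, 1, 1⟩, ⟨99, 100, 165⟩, ⟨20, 49, 400⟩, ⟨40, 110, 100⟩⟩ (mid1.hKL false) :=
  posBox_of_check (c := ⟨194, ⟨5, 6, 7, 3⟩⟩) (by decide +kernel)

def mid1_wU0 : PosBox ⟨⟨0, 1, 1⟩, ⟨99, 100, 165⟩, ⟨20, 49, 400⟩, ⟨40, 110, 100⟩⟩ (mid1.hWU false) :=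
  posBox_of_check (c := ⟨223, ⟨5, 8, 8, 3⟩⟩) (by decide +kernel)

def mid1_wL0 : PosBox ⟨⟨0, 1, 1⟩, ⟨99, 100, 165⟩, ⟨20, 49, 400⟩, ⟨40, 110, 100⟩⟩ (mid1.hWL false) :=
  posBox_of_check (c := ⟨221, ⟨5, 8, 8, 3⟩⟩) (by decide +kernel)

def mid1_ev1 : PosBox ⟨⟨0, 1, 1⟩, ⟨99, 100, 165⟩, ⟨20, 49, 400⟩, ⟨40, 110, 100⟩⟩ (mid1.hEv true) :=
  posBox_of_check (c := ⟨161, ⟨4, 2, 6, 1⟩⟩) (by decide +kernel)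

def mid1_eL1 : PosBox ⟨⟨0, 1, 1⟩, ⟨99, 100, 165⟩, ⟨20, 49, 400⟩, ⟨40, 110, 100⟩⟩ (mid1.hEL true) :=
  posBox_of_check (c := ⟨239, ⟨5, 6, 9, 2⟩⟩) (by decide +kernel)

def mid1_eH1_0 : PosBox ⟨⟨0, 1, 1⟩, ⟨99, 100, 165⟩, ⟨20, 49, 400⟩, ⟨40, 75, 100⟩⟩ (mid1.hEH true) :=
  posBox_of_check (c := ⟨254, ⟨5, 6, 9, 2⟩⟩) (by decide +kernel)

def mid1_eH1_1_0 : PosBox ⟨⟨0, 1, 2⟩, ⟨99, 100, 165⟩, ⟨20, 49, 400⟩, ⟨75, 110, 100⟩⟩ (mid1.hEH true) :=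
  posBox_of_check (c := ⟨256, ⟨5, 6, 9, 2⟩⟩) (by decide +kernel)

def mid1_eH1_1_1_0_0 : PosBox ⟨⟨2, 3, 4⟩, ⟨99, 100, 165⟩, ⟨20, 34, 400⟩, ⟨75, 110, 100⟩⟩ (mid1.hEH true) :=
  posBox_of_check (c := ⟨259, ⟨5, 6, 9, 2⟩⟩) (by decide +kernel)

def mid1_eH1_1_1_0_1 : PosBox ⟨⟨2, 3, 4⟩, ⟨99, 100, 165⟩, ⟨34, 49, 400⟩, ⟨75, 110, 100⟩⟩ (mid1.hEH true) :=
  posBox_of_check (c := ⟨260, ⟨5, 6, 9, 2⟩⟩) (by decide +kernel)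

theorem mid1_eH1_1_1_0 : PosBox ⟨⟨2, 3, 4⟩, ⟨99, 100, 165⟩, ⟨20, 49, 400⟩, ⟨75, 110, 100⟩⟩ (mid1.hEH true) :=
  posBox_join₂ mid1_eH1_1_1_0_0 mid1_eH1_1_1_0_1

def mid1_eH1_1_1_1 : PosBox ⟨⟨3, 4, 4⟩, ⟨99, 100, 165⟩, ⟨20, 49, 400⟩, ⟨75, 110, 100⟩⟩ (mid1.hEH true) :=
  posBox_of_check (c := ⟨261, ⟨5, 6, 9, 2⟩⟩) (by decide +kernel)

def mid1_eH1_1_1 : PosBox ⟨⟨1, 2, 2⟩, ⟨99, 100, 165⟩, ⟨20, 49, 400⟩, ⟨75, 110, 100⟩⟩ (mid1.hEH true) :=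
  posBox_units (b := ⟨⟨2, 4, 4⟩, ⟨99, 100, 165⟩, ⟨20, 49, 400⟩, ⟨75, 110, 100⟩⟩) (by decide +kernel) (posBox_join₀ mid1_eH1_1_1_0 mid1_eH1_1_1_1)

def mid1_eH1_1 : PosBox ⟨⟨0, 1, 1⟩, ⟨99, 100, 165⟩, ⟨20, 49, 400⟩, ⟨75, 110, 100⟩⟩ (mid1.hEH true) :=
  posBox_units (b := ⟨⟨0, 2, 2⟩, ⟨99, 100, 165⟩, ⟨20, 49, 400⟩, ⟨75, 110, 100⟩⟩) (by decide +kernel) (posBox_join₀ mid1_eH1_1_0 mid1_eH1_1_1)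

theorem mid1_eH1 : PosBox ⟨⟨0, 1, 1⟩, ⟨99, 100, 165⟩, ⟨20, 49, 400⟩, ⟨40, 110, 100⟩⟩ (mid1.hEH true) :=
  posBox_join₃ mid1_eH1_0 mid1_eH1_1

def mid1_pL1 : PosBox ⟨⟨0, 1, 1⟩, ⟨99, 100, 165⟩, ⟨20, 49, 400⟩, ⟨40, 110, 100⟩⟩ (mid1.hPL true) :=
  posBox_of_check (c := ⟨253, ⟨5, 6, 9, 2⟩⟩) (by decide +kernel)

def mid1_pU1_0 : PosBox ⟨⟨0, 1, 1⟩, ⟨99, 100, 165⟩, ⟨20, 49, 400⟩, ⟨40, 75, 100⟩⟩ (mid1.hPU true) :=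
  posBox_of_check (c := ⟨244, ⟨5, 6, 9, 3⟩⟩) (by decide +kernel)

def mid1_pU1_1_0_0 : PosBox ⟨⟨0, 1, 2⟩, ⟨99, 100, 165⟩, ⟨20, 49, 400⟩, ⟨75, 92, 100⟩⟩ (mid1.hPU true) :=
  posBox_of_check (c := ⟨245, ⟨5, 6, 9, 3⟩⟩) (by decide +kernel)

def mid1_pU1_1_0_1 : PosBox ⟨⟨0, 1, 2⟩, ⟨99, 100, 165⟩, ⟨20, 49, 400⟩, ⟨92, 110, 100⟩⟩ (mid1.hPU true) :=
  posBox_of_check (c := ⟨245, ⟨5, 6, 9, 3⟩⟩) (by decide +kernel)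

theorem mid1_pU1_1_0 : PosBox ⟨⟨0, 1, 2⟩, ⟨99, 100, 165⟩, ⟨20, 49, 400⟩, ⟨75, 110, 100⟩⟩ (mid1.hPU true) :=
  posBox_join₃ mid1_pU1_1_0_0 mid1_pU1_1_0_1

def mid1_pU1_1_1_0_0 : PosBox ⟨⟨2, 3, 4⟩, ⟨99, 100, 165⟩, ⟨20, 49, 400⟩, ⟨75, 92, 100⟩⟩ (mid1.hPU true) :=
  posBox_of_check (c := ⟨249, ⟨5, 6, 9, 3⟩⟩) (by decide +kernel)

def mid1_pU1_1_1_0_1_0 : PosBox ⟨⟨3, 4, 4⟩, ⟨99, 100, 165⟩, ⟨20, 34, 400⟩, ⟨75, 92, 100⟩⟩ (mid1.hPU true) :=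
  posBox_of_check (c := ⟨250, ⟨5, 6, 9, 3⟩⟩) (by decide +kernel)

def mid1_pU1_1_1_0_1_1 : PosBox ⟨⟨3, 4, 4⟩, ⟨99, 100, 165⟩, ⟨34, 49, 400⟩, ⟨75, 92, 100⟩⟩ (mid1.hPU true) :=
  posBox_of_check (c := ⟨250, ⟨5, 6, 9, 3⟩⟩) (by decide +kernel)

theorem mid1_pU1_1_1_0_1 : PosBox ⟨⟨3, 4, 4⟩, ⟨99, 100, 165⟩, ⟨20, 49, 400⟩, ⟨75, 92, 100⟩⟩ (mid1.hPU true) :=
  posBox_join₂ mid1_pU1_1_1_0_1_0 mid1_pU1_1_1_0_1_1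

def mid1_pU1_1_1_0 : PosBox ⟨⟨1, 2, 2⟩, ⟨99, 100, 165⟩, ⟨20, 49, 400⟩, ⟨75, 92, 100⟩⟩ (mid1.hPU true) :=
  posBox_units (b := ⟨⟨2, 4, 4⟩, ⟨99, 100, 165⟩, ⟨20, 49, 400⟩, ⟨75, 92, 100⟩⟩) (by decide +kernel) (posBox_join₀ mid1_pU1_1_1_0_0 mid1_pU1_1_1_0_1)

def mid1_pU1_1_1_1_0_0 : PosBox ⟨⟨2, 3, 4⟩, ⟨99, 100, 165⟩, ⟨20, 34, 400⟩, ⟨92, 110, 100⟩⟩ (mid1.hPU true) :=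
  posBox_of_check (c := ⟨249, ⟨5, 6, 9, 3⟩⟩) (by decide +kernel)

def mid1_pU1_1_1_1_0_1 : PosBox ⟨⟨2, 3, 4⟩, ⟨99, 100, 165⟩, ⟨34, 49, 400⟩, ⟨92, 110, 100⟩⟩ (mid1.hPU true) :=
  posBox_of_check (c := ⟨250, ⟨5, 6, 9, 3⟩⟩) (by decide +kernel)

theorem mid1_pU1_1_1_1_0 : PosBox ⟨⟨2, 3, 4⟩, ⟨99, 100, 165⟩, ⟨20, 49, 400⟩, ⟨92, 110, 100⟩⟩ (mid1.hPU true) :=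
  posBox_join₂ mid1_pU1_1_1_1_0_0 mid1_pU1_1_1_1_0_1

def mid1_pU1_1_1_1_1 : PosBox ⟨⟨3, 4, 4⟩, ⟨99, 100, 165⟩, ⟨20, 49, 400⟩, ⟨92, 110, 100⟩⟩ (mid1.hPU true) :=
  posBox_of_check (c := ⟨250, ⟨5, 6, 9, 3⟩⟩) (by decide +kernel)

def mid1_pU1_1_1_1 : PosBox ⟨⟨1, 2, 2⟩, ⟨99, 100, 165⟩, ⟨20, 49, 400⟩, ⟨92, 110, 100⟩⟩ (mid1.hPU true) :=
  posBox_units (b := ⟨⟨2, 4, 4⟩, ⟨99, 100, 165⟩, ⟨20, 49, 400⟩, ⟨92, 110, 100⟩⟩) (by decide +kernel) (posBox_join₀ mid1_pU1_1_1_1_0 mid1_pU1_1_1_1_1)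

theorem mid1_pU1_1_1 : PosBox ⟨⟨1, 2, 2⟩, ⟨99, 100, 165⟩, ⟨20, 49, 400⟩, ⟨75, 110, 100⟩⟩ (mid1.hPU true) :=
  posBox_join₃ mid1_pU1_1_1_0 mid1_pU1_1_1_1

def mid1_pU1_1 : PosBox ⟨⟨0, 1, 1⟩, ⟨99, 100, 165⟩, ⟨20, 49, 400⟩, ⟨75, 110, 100⟩⟩ (mid1.hPU true) :=
  posBox_units (b := ⟨⟨0, 2, 2⟩, ⟨99, 100, 165⟩, ⟨20, 49, 400⟩, ⟨75, 110, 100⟩⟩) (by decide +kernel) (posBox_join₀ mid1_pU1_1_0 mid1_pU1_1_1)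

theorem mid1_pU1 : PosBox ⟨⟨0, 1, 1⟩, ⟨99, 100, 165⟩, ⟨20, 49, 400⟩, ⟨40, 110, 100⟩⟩ (mid1.hPU true) :=
  posBox_join₃ mid1_pU1_0 mid1_pU1_1

def mid1_kU1 : PosBox ⟨⟨0, 1, 1⟩, ⟨99, 100, 165⟩, ⟨20, 49, 400⟩, ⟨40, 110, 100⟩⟩ (mid1.hKU true) :=
  posBox_of_check (c := ⟨242, ⟨5, 6, 9, 3⟩⟩) (by decide +kernel)

def mid1_kL1 : PosBox ⟨⟨0, 1, 1⟩, ⟨99, 100, 165⟩, ⟨20, 49, 400⟩, ⟨40, 110, 100⟩⟩ (mid1.hKL true) :=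
  posBox_of_check (c := ⟨242, ⟨5, 6, 9, 3⟩⟩) (by decide +kernel)

def mid1_wU1_0 : PosBox ⟨⟨0, 1, 2⟩, ⟨99, 100, 165⟩, ⟨20, 49, 400⟩, ⟨40, 110, 100⟩⟩ (mid1.hWU true) :=
  posBox_of_check (c := ⟨272, ⟨5, 8, 10, 3⟩⟩) (by decide +kernel)

def mid1_wU1_1_0 : PosBox ⟨⟨1, 2, 2⟩, ⟨99, 100, 165⟩, ⟨20, 49, 400⟩, ⟨40, 75, 100⟩⟩ (mid1.hWU true) :=
  posBox_of_check (c := ⟨274, ⟨5, 8, 10, 3⟩⟩) (by decide +kernel)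

def mid1_wU1_1_1 : PosBox ⟨⟨1, 2, 2⟩, ⟨99, 100, 165⟩, ⟨20, 49, 400⟩, ⟨75, 110, 100⟩⟩ (mid1.hWU true) :=
  posBox_of_check (c := ⟨274, ⟨5, 8, 10, 3⟩⟩) (by decide +kernel)

theorem mid1_wU1_1 : PosBox ⟨⟨1, 2, 2⟩, ⟨99, 100, 165⟩, ⟨20, 49, 400⟩, ⟨40, 110, 100⟩⟩ (mid1.hWU true) :=
  posBox_join₃ mid1_wU1_1_0 mid1_wU1_1_1

def mid1_wU1 : PosBox ⟨⟨0, 1, 1⟩, ⟨99, 100, 165⟩, ⟨20, 49, 400⟩, ⟨40, 110, 100⟩⟩ (mid1.hWU true) :=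
  posBox_units (b := ⟨⟨0, 2, 2⟩, ⟨99, 100, 165⟩, ⟨20, 49, 400⟩, ⟨40, 110, 100⟩⟩) (by decide +kernel) (posBox_join₀ mid1_wU1_0 mid1_wU1_1)

def mid1_wL1_0 : PosBox ⟨⟨0, 1, 1⟩, ⟨99, 100, 165⟩, ⟨20, 49, 400⟩, ⟨40, 75, 100⟩⟩ (mid1.hWL true) :=
  posBox_of_check (c := ⟨269, ⟨5, 8, 10, 3⟩⟩) (by decide +kernel)

def mid1_wL1_1 : PosBox ⟨⟨0, 1, 1⟩, ⟨99, 100, 165⟩, ⟨20, 49, 400⟩, ⟨75, 110, 100⟩⟩ (mid1.hWL true) :=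
  posBox_of_check (c := ⟨269, ⟨5, 8, 10, 3⟩⟩) (by decide +kernel)

theorem mid1_wL1 : PosBox ⟨⟨0, 1, 1⟩, ⟨99, 100, 165⟩, ⟨20, 49, 400⟩, ⟨40, 110, 100⟩⟩ (mid1.hWL true) :=
  posBox_join₃ mid1_wL1_0 mid1_wL1_1

def mid1_mueH : PosBox ⟨⟨0, 1, 1⟩, ⟨99, 100, 165⟩, ⟨20, 49, 400⟩, ⟨40, 110, 100⟩⟩ (mid1.eH.μ) :=
  posBox_of_check (c := ⟨20, ⟨0, 0, 0, 0⟩⟩) (by decide +kernel)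

def mid1_mupL : PosBox ⟨⟨0, 1, 1⟩, ⟨99, 100, 165⟩, ⟨20, 49, 400⟩, ⟨40, 110, 100⟩⟩ (mid1.pL.μ) :=
  posBox_of_check (c := ⟨18, ⟨0, 0, 0, 0⟩⟩) (by decide +kernel)

/-- The checks on the bounds. -/
theorem mid1_env : mid1.Env ⟨⟨0, 1, 1⟩, ⟨99, 100, 165⟩, ⟨20, 49, 400⟩, ⟨40, 110, 100⟩⟩ where
  p0 := mid1_p0
  den := Bool.forall_bool.2 ⟨mid1_den0, mid1_den1⟩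
  gn := mid1_gn
  ev := Bool.forall_bool.2 ⟨mid1_ev0, mid1_ev1⟩
  eL := Bool.forall_bool.2 ⟨mid1_eL0, mid1_eL1⟩
  eL' := ⟨.inr rfl, .inr rfl⟩
  eH := Bool.forall_bool.2 ⟨mid1_eH0, mid1_eH1⟩
  eH' := ⟨.inl mid1_mueH, .inr rfl⟩
  pL := Bool.forall_bool.2 ⟨mid1_pL0, mid1_pL1⟩
  pL' := ⟨.inl mid1_mupL, .inr rfl⟩
  pU := Bool.forall_bool.2 ⟨mid1_pU0, mid1_pU1⟩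
  pU' := ⟨.inr rfl, .inr rfl⟩
  kU := Bool.forall_bool.2 ⟨mid1_kU0, mid1_kU1⟩
  kU' := ⟨.inr rfl, .inr rfl⟩
  kL := Bool.forall_bool.2 ⟨mid1_kL0, mid1_kL1⟩
  kL' := ⟨.inr rfl, .inr rfl⟩
  wU := Bool.forall_bool.2 ⟨mid1_wU0, mid1_wU1⟩
  wU' := ⟨.inr rfl, .inr rfl⟩
  wL := Bool.forall_bool.2 ⟨mid1_wL0, mid1_wL1⟩
  wL' := ⟨.inr rfl, .inr rfl⟩

end Vale.Agent.P100.Calib.Closed.High
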