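import Vale.Agent.P100.Calib.SlabHighData

/-!
# Checks of the bounds of a piece of the tail
-/

set_option linter.defProp false

namespace Vale.Agent.P100.Calib.Closed.High

open BoxPos Large

def mid2_p0 : PosBox ⟨⟨0, 1, 1⟩, ⟨99, 100, 165⟩, ⟨20, 49, 400⟩, ⟨110, 140, 100⟩⟩ (mid2.hP0) :=
  posBox_of_check (c := ⟨65, ⟨0, 2, 3, 1⟩⟩) (by decide +kernel)

def mid2_gn : PosBox ⟨⟨0, 1, 1⟩, ⟨99, 100, 165⟩, ⟨20, 49, 400⟩, ⟨110, 140, 100⟩⟩ (mid2.hGn) :=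
  posBox_of_check (c := ⟨55, ⟨1, 1, 2, 2⟩⟩) (by decide +kernel)

def mid2_phi : PosBox ⟨⟨0, 1, 1⟩, ⟨99, 100, 165⟩, ⟨20, 49, 400⟩, ⟨110, 140, 100⟩⟩ (midPhi mid2.u₁ xV) :=
  posBox_of_check (c := ⟨88, ⟨0, 0, 4, 3⟩⟩) (by decide +kernel)

def mid2_den0 : PosBox ⟨⟨0, 1, 1⟩, ⟨99, 100, 165⟩, ⟨20, 49, 400⟩, ⟨110, 140, 100⟩⟩ (mid2.hDen false) :=
  posBox_of_check (c := ⟨74, ⟨2, 0, 4, 2⟩⟩) (by decide +kernel)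

def mid2_den1 : PosBox ⟨⟨0, 1, 1⟩, ⟨99, 100, 165⟩, ⟨20, 49, 400⟩, ⟨110, 140, 100⟩⟩ (mid2.hDen true) :=
  posBox_of_check (c := ⟨87, ⟨2, 0, 4, 2⟩⟩) (by decide +kernel)

def mid2_ev0 : PosBox ⟨⟨0, 1, 1⟩, ⟨99, 100, 165⟩, ⟨20, 49, 400⟩, ⟨110, 140, 100⟩⟩ (mid2.hEv false) :=
  posBox_of_check (c := ⟨157, ⟨4, 2, 7, 4⟩⟩) (by decide +kernel)

def mid2_eL0 : PosBox ⟨⟨0, 1, 1⟩, ⟨99, 100, 165⟩, ⟨20, 49, 400⟩, ⟨110, 140, 100⟩⟩ (mid2.hEL false) :=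
  posBox_of_check (c := ⟨236, ⟨5, 6, 10, 6⟩⟩) (by decide +kernel)

def mid2_eH0 : PosBox ⟨⟨0, 1, 1⟩, ⟨99, 100, 165⟩, ⟨20, 49, 400⟩, ⟨110, 140, 100⟩⟩ (mid2.hEH false) :=
  posBox_of_check (c := ⟨251, ⟨5, 6, 10, 6⟩⟩) (by decide +kernel)

def mid2_pL0_0 : PosBox ⟨⟨0, 1, 1⟩, ⟨99, 100, 165⟩, ⟨20, 34, 400⟩, ⟨110, 140, 100⟩⟩ (mid2.hPL false) :=
  posBox_of_check (c := ⟨251, ⟨5, 6, 10, 7⟩⟩) (by decide +kernel)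

def mid2_pL0_1 : PosBox ⟨⟨0, 1, 1⟩, ⟨99, 100, 165⟩, ⟨34, 49, 400⟩, ⟨110, 140, 100⟩⟩ (mid2.hPL false) :=
  posBox_of_check (c := ⟨252, ⟨5, 6, 10, 7⟩⟩) (by decide +kernel)

theorem mid2_pL0 : PosBox ⟨⟨0, 1, 1⟩, ⟨99, 100, 165⟩, ⟨20, 49, 400⟩, ⟨110, 140, 100⟩⟩ (mid2.hPL false) :=
  posBox_join₂ mid2_pL0_0 mid2_pL0_1

def mid2_pU0 : PosBox ⟨⟨0, 1, 1⟩, ⟨99, 100, 165⟩, ⟨20, 49, 400⟩, ⟨110, 140, 100⟩⟩ (mid2.hPU false) :=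
  posBox_of_check (c := ⟨252, ⟨5, 6, 10, 7⟩⟩) (by decide +kernel)

def mid2_kU0 : PosBox ⟨⟨0, 1, 1⟩, ⟨99, 100, 165⟩, ⟨20, 49, 400⟩, ⟨110, 140, 100⟩⟩ (mid2.hKU false) :=
  posBox_of_check (c := ⟨249, ⟨5, 6, 10, 7⟩⟩) (by decide +kernel)

def mid2_kL0 : PosBox ⟨⟨0, 1, 1⟩, ⟨99, 100, 165⟩, ⟨20, 49, 400⟩, ⟨110, 140, 100⟩⟩ (mid2.hKL false) :=
  posBox_of_check (c := ⟨249, ⟨5, 6, 10, 7⟩⟩) (by decide +kernel)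

def mid2_wU0_0 : PosBox ⟨⟨0, 1, 2⟩, ⟨99, 100, 165⟩, ⟨20, 49, 400⟩, ⟨110, 140, 100⟩⟩ (mid2.hWU false) :=
  posBox_of_check (c := ⟨281, ⟨5, 8, 11, 7⟩⟩) (by decide +kernel)

def mid2_wU0_1 : PosBox ⟨⟨1, 2, 2⟩, ⟨99, 100, 165⟩, ⟨20, 49, 400⟩, ⟨110, 140, 100⟩⟩ (mid2.hWU false) :=
  posBox_of_check (c := ⟨282, ⟨5, 8, 11, 7⟩⟩) (by decide +kernel)

def mid2_wU0 : PosBox ⟨⟨0, 1, 1⟩, ⟨99, 100, 165⟩, ⟨20, 49, 400⟩, ⟨110, 140, 100⟩⟩ (mid2.hWU false) :=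
  posBox_units (b := ⟨⟨0, 2, 2⟩, ⟨99, 100, 165⟩, ⟨20, 49, 400⟩, ⟨110, 140, 100⟩⟩) (by decide +kernel) (posBox_join₀ mid2_wU0_0 mid2_wU0_1)

def mid2_wL0 : PosBox ⟨⟨0, 1, 1⟩, ⟨99, 100, 165⟩, ⟨20, 49, 400⟩, ⟨110, 140, 100⟩⟩ (mid2.hWL false) :=
  posBox_of_check (c := ⟨277, ⟨5, 8, 11, 7⟩⟩) (by decide +kernel)

def mid2_ev1 : PosBox ⟨⟨0, 1, 1⟩, ⟨99, 100, 165⟩, ⟨20, 49, 400⟩, ⟨110, 140, 100⟩⟩ (mid2.hEv true) :=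
  posBox_of_check (c := ⟨201, ⟨4, 2, 9, 5⟩⟩) (by decide +kernel)

def mid2_eL1 : PosBox ⟨⟨0, 1, 1⟩, ⟨99, 100, 165⟩, ⟨20, 49, 400⟩, ⟨110, 140, 100⟩⟩ (mid2.hEL true) :=
  posBox_of_check (c := ⟨279, ⟨5, 6, 12, 7⟩⟩) (by decide +kernel)

def mid2_eH1_0 : PosBox ⟨⟨0, 1, 2⟩, ⟨99, 100, 165⟩, ⟨20, 49, 400⟩, ⟨110, 140, 100⟩⟩ (mid2.hEH true) :=
  posBox_of_check (c := ⟨296, ⟨5, 6, 12, 7⟩⟩) (by decide +kernel)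

def mid2_eH1_1_0_0 : PosBox ⟨⟨2, 3, 4⟩, ⟨99, 100, 165⟩, ⟨20, 34, 400⟩, ⟨110, 140, 100⟩⟩ (mid2.hEH true) :=
  posBox_of_check (c := ⟨301, ⟨5, 6, 12, 7⟩⟩) (by decide +kernel)

def mid2_eH1_1_0_1 : PosBox ⟨⟨2, 3, 4⟩, ⟨99, 100, 165⟩, ⟨34, 49, 400⟩, ⟨110, 140, 100⟩⟩ (mid2.hEH true) :=
  posBox_of_check (c := ⟨302, ⟨5, 6, 12, 7⟩⟩) (by decide +kernel)

theorem mid2_eH1_1_0 : PosBox ⟨⟨2, 3, 4⟩, ⟨99, 100, 165⟩, ⟨20, 49, 400⟩, ⟨110, 140, 100⟩⟩ (mid2.hEH true) :=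
  posBox_join₂ mid2_eH1_1_0_0 mid2_eH1_1_0_1

def mid2_eH1_1_1 : PosBox ⟨⟨3, 4, 4⟩, ⟨99, 100, 165⟩, ⟨20, 49, 400⟩, ⟨110, 140, 100⟩⟩ (mid2.hEH true) :=
  posBox_of_check (c := ⟨302, ⟨5, 6, 12, 7⟩⟩) (by decide +kernel)

def mid2_eH1_1 : PosBox ⟨⟨1, 2, 2⟩, ⟨99, 100, 165⟩, ⟨20, 49, 400⟩, ⟨110, 140, 100⟩⟩ (mid2.hEH true) :=
  posBox_units (b := ⟨⟨2, 4, 4⟩, ⟨99, 100, 165⟩, ⟨20, 49, 400⟩, ⟨110, 140, 100⟩⟩) (by decide +kernel) (posBox_join₀ mid2_eH1_1_0 mid2_eH1_1_1)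

def mid2_eH1 : PosBox ⟨⟨0, 1, 1⟩, ⟨99, 100, 165⟩, ⟨20, 49, 400⟩, ⟨110, 140, 100⟩⟩ (mid2.hEH true) :=
  posBox_units (b := ⟨⟨0, 2, 2⟩, ⟨99, 100, 165⟩, ⟨20, 49, 400⟩, ⟨110, 140, 100⟩⟩) (by decide +kernel) (posBox_join₀ mid2_eH1_0 mid2_eH1_1)

def mid2_pL1 : PosBox ⟨⟨0, 1, 1⟩, ⟨99, 100, 165⟩, ⟨20, 49, 400⟩, ⟨110, 140, 100⟩⟩ (mid2.hPL true) :=
  posBox_of_check (c := ⟨295, ⟨5, 6, 12, 8⟩⟩) (by decide +kernel)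

def mid2_pU1_0 : PosBox ⟨⟨0, 1, 2⟩, ⟨99, 100, 165⟩, ⟨20, 49, 400⟩, ⟨110, 140, 100⟩⟩ (mid2.hPU true) :=
  posBox_of_check (c := ⟨299, ⟨5, 6, 12, 8⟩⟩) (by decide +kernel)

def mid2_pU1_1_0 : PosBox ⟨⟨2, 3, 4⟩, ⟨99, 100, 165⟩, ⟨20, 49, 400⟩, ⟨110, 140, 100⟩⟩ (mid2.hPU true) :=
  posBox_of_check (c := ⟨305, ⟨5, 6, 12, 8⟩⟩) (by decide +kernel)

def mid2_pU1_1_1 : PosBox ⟨⟨3, 4, 4⟩, ⟨99, 100, 165⟩, ⟨20, 49, 400⟩, ⟨110, 140, 100⟩⟩ (mid2.hPU true) :=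
  posBox_of_check (c := ⟨306, ⟨5, 6, 12, 8⟩⟩) (by decide +kernel)

def mid2_pU1_1 : PosBox ⟨⟨1, 2, 2⟩, ⟨99, 100, 165⟩, ⟨20, 49, 400⟩, ⟨110, 140, 100⟩⟩ (mid2.hPU true) :=
  posBox_units (b := ⟨⟨2, 4, 4⟩, ⟨99, 100, 165⟩, ⟨20, 49, 400⟩, ⟨110, 140, 100⟩⟩) (by decide +kernel) (posBox_join₀ mid2_pU1_1_0 mid2_pU1_1_1)

def mid2_pU1 : PosBox ⟨⟨0, 1, 1⟩, ⟨99, 100, 165⟩, ⟨20, 49, 400⟩, ⟨110, 140, 100⟩⟩ (mid2.hPU true) :=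
  posBox_units (b := ⟨⟨0, 2, 2⟩, ⟨99, 100, 165⟩, ⟨20, 49, 400⟩, ⟨110, 140, 100⟩⟩) (by decide +kernel) (posBox_join₀ mid2_pU1_0 mid2_pU1_1)

def mid2_kU1 : PosBox ⟨⟨0, 1, 1⟩, ⟨99, 100, 165⟩, ⟨20, 49, 400⟩, ⟨110, 140, 100⟩⟩ (mid2.hKU true) :=
  posBox_of_check (c := ⟨292, ⟨5, 6, 12, 8⟩⟩) (by decide +kernel)

def mid2_kL1 : PosBox ⟨⟨0, 1, 1⟩, ⟨99, 100, 165⟩, ⟨20, 49, 400⟩, ⟨110, 140, 100⟩⟩ (mid2.hKL true) :=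
  posBox_of_check (c := ⟨292, ⟨5, 6, 12, 8⟩⟩) (by decide +kernel)

def mid2_wU1_0_0 : PosBox ⟨⟨0, 1, 4⟩, ⟨99, 100, 165⟩, ⟨20, 49, 400⟩, ⟨110, 140, 100⟩⟩ (mid2.hWU true) :=
  posBox_of_check (c := ⟨328, ⟨5, 8, 13, 8⟩⟩) (by decide +kernel)

def mid2_wU1_0_1 : PosBox ⟨⟨1, 2, 4⟩, ⟨99, 100, 165⟩, ⟨20, 49, 400⟩, ⟨110, 140, 100⟩⟩ (mid2.hWU true) :=
  posBox_of_check (c := ⟨329, ⟨5, 8, 13, 8⟩⟩) (by decide +kernel)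

def mid2_wU1_0 : PosBox ⟨⟨0, 1, 2⟩, ⟨99, 100, 165⟩, ⟨20, 49, 400⟩, ⟨110, 140, 100⟩⟩ (mid2.hWU true) :=
  posBox_units (b := ⟨⟨0, 2, 4⟩, ⟨99, 100, 165⟩, ⟨20, 49, 400⟩, ⟨110, 140, 100⟩⟩) (by decide +kernel) (posBox_join₀ mid2_wU1_0_0 mid2_wU1_0_1)

def mid2_wU1_1 : PosBox ⟨⟨1, 2, 2⟩, ⟨99, 100, 165⟩, ⟨20, 49, 400⟩, ⟨110, 140, 100⟩⟩ (mid2.hWU true) :=
  posBox_of_check (c := ⟨325, ⟨5, 8, 13, 8⟩⟩) (by decide +kernel)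

def mid2_wU1 : PosBox ⟨⟨0, 1, 1⟩, ⟨99, 100, 165⟩, ⟨20, 49, 400⟩, ⟨110, 140, 100⟩⟩ (mid2.hWU true) :=
  posBox_units (b := ⟨⟨0, 2, 2⟩, ⟨99, 100, 165⟩, ⟨20, 49, 400⟩, ⟨110, 140, 100⟩⟩) (by decide +kernel) (posBox_join₀ mid2_wU1_0 mid2_wU1_1)

def mid2_wL1 : PosBox ⟨⟨0, 1, 1⟩, ⟨99, 100, 165⟩, ⟨20, 49, 400⟩, ⟨110, 140, 100⟩⟩ (mid2.hWL true) :=
  posBox_of_check (c := ⟨321, ⟨5, 8, 13, 8⟩⟩) (by decide +kernel)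

def mid2_mueH : PosBox ⟨⟨0, 1, 1⟩, ⟨99, 100, 165⟩, ⟨20, 49, 400⟩, ⟨110, 140, 100⟩⟩ (mid2.eH.μ) :=
  posBox_of_check (c := ⟨20, ⟨0, 0, 0, 0⟩⟩) (by decide +kernel)

/-- The checks on the bounds. -/
theorem mid2_env : mid2.Env ⟨⟨0, 1, 1⟩, ⟨99, 100, 165⟩, ⟨20, 49, 400⟩, ⟨110, 140, 100⟩⟩ where
  p0 := mid2_p0
  den := Bool.forall_bool.2 ⟨mid2_den0, mid2_den1⟩
  gn := mid2_gn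
  ev := Bool.forall_bool.2 ⟨mid2_ev0, mid2_ev1⟩
  eL := Bool.forall_bool.2 ⟨mid2_eL0, mid2_eL1⟩
  eL' := ⟨.inr rfl, .inr rfl⟩
  eH := Bool.forall_bool.2 ⟨mid2_eH0, mid2_eH1⟩
  eH' := ⟨.inl mid2_mueH, .inr rfl⟩
  pL := Bool.forall_bool.2 ⟨mid2_pL0, mid2_pL1⟩
  pL' := ⟨.inr rfl, .inr rfl⟩
  pU := Bool.forall_bool.2 ⟨mid2_pU0, mid2_pU1⟩
  pU' := ⟨.inr rfl, .inr rfl⟩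
  kU := Bool.forall_bool.2 ⟨mid2_kU0, mid2_kU1⟩
  kU' := ⟨.inr rfl, .inr rfl⟩
  kL := Bool.forall_bool.2 ⟨mid2_kL0, mid2_kL1⟩
  kL' := ⟨.inr rfl, .inr rfl⟩
  wU := Bool.forall_bool.2 ⟨mid2_wU0, mid2_wU1⟩
  wU' := ⟨.inr rfl, .inr rfl⟩
  wL := Bool.forall_bool.2 ⟨mid2_wL0, mid2_wL1⟩
  wL' := ⟨.inr rfl, .inr rfl⟩

end Vale.Agent.P100.Calib.Closed.High
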