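import Vale.Agent.P100.Calib.SlabHighData

/-!
# Checks of the bounds of a piece of the tail
-/

set_option linter.defProp false

namespace Vale.Agent.P100.Calib.Closed.High

open BoxPos Large

def mid3_p0_0 : PosBox ⟨⟨0, 1, 1⟩, ⟨99, 100, 165⟩, ⟨20, 34, 400⟩, ⟨140, 215, 100⟩⟩ (mid3.hP0) :=
  posBox_of_check (c := ⟨65, ⟨0, 2, 3, 1⟩⟩) (by decide +kernel)

def mid3_p0_1 : PosBox ⟨⟨0, 1, 1⟩, ⟨99, 100, 165⟩, ⟨34, 49, 400⟩, ⟨140, 215, 100⟩⟩ (mid3.hP0) :=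
  posBox_of_check (c := ⟨65, ⟨0, 2, 3, 1⟩⟩) (by decide +kernel)

theorem mid3_p0 : PosBox ⟨⟨0, 1, 1⟩, ⟨99, 100, 165⟩, ⟨20, 49, 400⟩, ⟨140, 215, 100⟩⟩ (mid3.hP0) :=
  posBox_join₂ mid3_p0_0 mid3_p0_1

def mid3_gn : PosBox ⟨⟨0, 1, 1⟩, ⟨99, 100, 165⟩, ⟨20, 49, 400⟩, ⟨140, 215, 100⟩⟩ (mid3.hGn) :=
  posBox_of_check (c := ⟨55, ⟨1, 1, 2, 2⟩⟩) (by decide +kernel)

def mid3_phi : PosBox ⟨⟨0, 1, 1⟩, ⟨99, 100, 165⟩, ⟨20, 49, 400⟩, ⟨140, 215, 100⟩⟩ (midPhi mid3.u₁ xV) :=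
  posBox_of_check (c := ⟨89, ⟨0, 0, 4, 3⟩⟩) (by decide +kernel)

def mid3_den0 : PosBox ⟨⟨0, 1, 1⟩, ⟨99, 100, 165⟩, ⟨20, 49, 400⟩, ⟨140, 215, 100⟩⟩ (mid3.hDen false) :=
  posBox_of_check (c := ⟨74, ⟨2, 0, 4, 2⟩⟩) (by decide +kernel)

def mid3_den1 : PosBox ⟨⟨0, 1, 1⟩, ⟨99, 100, 165⟩, ⟨20, 49, 400⟩, ⟨140, 215, 100⟩⟩ (mid3.hDen true) :=
  posBox_of_check (c := ⟨87, ⟨2, 0, 4, 2⟩⟩) (by decide +kernel)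

def mid3_ev0 : PosBox ⟨⟨0, 1, 1⟩, ⟨99, 100, 165⟩, ⟨20, 49, 400⟩, ⟨140, 215, 100⟩⟩ (mid3.hEv false) :=
  posBox_of_check (c := ⟨157, ⟨4, 2, 7, 4⟩⟩) (by decide +kernel)

def mid3_eL0 : PosBox ⟨⟨0, 1, 1⟩, ⟨99, 100, 165⟩, ⟨20, 49, 400⟩, ⟨140, 215, 100⟩⟩ (mid3.hEL false) :=
  posBox_of_check (c := ⟨236, ⟨5, 6, 10, 6⟩⟩) (by decide +kernel)

def mid3_eH0 : PosBox ⟨⟨0, 1, 1⟩, ⟨99, 100, 165⟩, ⟨20, 49, 400⟩, ⟨140, 215, 100⟩⟩ (mid3.hEH false) :=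
  posBox_of_check (c := ⟨235, ⟨5, 6, 10, 6⟩⟩) (by decide +kernel)

def mid3_pL0 : PosBox ⟨⟨0, 1, 1⟩, ⟨99, 100, 165⟩, ⟨20, 49, 400⟩, ⟨140, 215, 100⟩⟩ (mid3.hPL false) :=
  posBox_of_check (c := ⟨252, ⟨5, 6, 10, 7⟩⟩) (by decide +kernel)

def mid3_pU0 : PosBox ⟨⟨0, 1, 1⟩, ⟨99, 100, 165⟩, ⟨20, 49, 400⟩, ⟨140, 215, 100⟩⟩ (mid3.hPU false) :=
  posBox_of_check (c := ⟨253, ⟨5, 6, 10, 7⟩⟩) (by decide +kernel)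

def mid3_kU0 : PosBox ⟨⟨0, 1, 1⟩, ⟨99, 100, 165⟩, ⟨20, 49, 400⟩, ⟨140, 215, 100⟩⟩ (mid3.hKU false) :=
  posBox_of_check (c := ⟨249, ⟨5, 6, 10, 7⟩⟩) (by decide +kernel)

def mid3_kL0 : PosBox ⟨⟨0, 1, 1⟩, ⟨99, 100, 165⟩, ⟨20, 49, 400⟩, ⟨140, 215, 100⟩⟩ (mid3.hKL false) :=
  posBox_of_check (c := ⟨249, ⟨5, 6, 10, 7⟩⟩) (by decide +kernel)

def mid3_wU0 : PosBox ⟨⟨0, 1, 1⟩, ⟨99, 100, 165⟩, ⟨20, 49, 400⟩, ⟨140, 215, 100⟩⟩ (mid3.hWU false) :=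
  posBox_of_check (c := ⟨277, ⟨5, 8, 11, 7⟩⟩) (by decide +kernel)

def mid3_wL0 : PosBox ⟨⟨0, 1, 1⟩, ⟨99, 100, 165⟩, ⟨20, 49, 400⟩, ⟨140, 215, 100⟩⟩ (mid3.hWL false) :=
  posBox_of_check (c := ⟨277, ⟨5, 8, 11, 7⟩⟩) (by decide +kernel)

def mid3_ev1 : PosBox ⟨⟨0, 1, 1⟩, ⟨99, 100, 165⟩, ⟨20, 49, 400⟩, ⟨140, 215, 100⟩⟩ (mid3.hEv true) :=
  posBox_of_check (c := ⟨201, ⟨4, 2, 9, 5⟩⟩) (by decide +kernel)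

def mid3_eL1 : PosBox ⟨⟨0, 1, 1⟩, ⟨99, 100, 165⟩, ⟨20, 49, 400⟩, ⟨140, 215, 100⟩⟩ (mid3.hEL true) :=
  posBox_of_check (c := ⟨279, ⟨5, 6, 12, 7⟩⟩) (by decide +kernel)

def mid3_eH1 : PosBox ⟨⟨0, 1, 1⟩, ⟨99, 100, 165⟩, ⟨20, 49, 400⟩, ⟨140, 215, 100⟩⟩ (mid3.hEH true) :=
  posBox_of_check (c := ⟨279, ⟨5, 6, 12, 7⟩⟩) (by decide +kernel)

def mid3_pL1 : PosBox ⟨⟨0, 1, 1⟩, ⟨99, 100, 165⟩, ⟨20, 49, 400⟩, ⟨140, 215, 100⟩⟩ (mid3.hPL true) :=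
  posBox_of_check (c := ⟨296, ⟨5, 6, 12, 8⟩⟩) (by decide +kernel)

def mid3_pU1_0 : PosBox ⟨⟨0, 1, 2⟩, ⟨99, 100, 165⟩, ⟨20, 49, 400⟩, ⟨140, 215, 100⟩⟩ (mid3.hPU true) :=
  posBox_of_check (c := ⟨299, ⟨5, 6, 12, 8⟩⟩) (by decide +kernel)

def mid3_pU1_1 : PosBox ⟨⟨1, 2, 2⟩, ⟨99, 100, 165⟩, ⟨20, 49, 400⟩, ⟨140, 215, 100⟩⟩ (mid3.hPU true) :=
  posBox_of_check (c := ⟨301, ⟨5, 6, 12, 8⟩⟩) (by decide +kernel)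

def mid3_pU1 : PosBox ⟨⟨0, 1, 1⟩, ⟨99, 100, 165⟩, ⟨20, 49, 400⟩, ⟨140, 215, 100⟩⟩ (mid3.hPU true) :=
  posBox_units (b := ⟨⟨0, 2, 2⟩, ⟨99, 100, 165⟩, ⟨20, 49, 400⟩, ⟨140, 215, 100⟩⟩) (by decide +kernel) (posBox_join₀ mid3_pU1_0 mid3_pU1_1)

def mid3_kU1 : PosBox ⟨⟨0, 1, 1⟩, ⟨99, 100, 165⟩, ⟨20, 49, 400⟩, ⟨140, 215, 100⟩⟩ (mid3.hKU true) :=
  posBox_of_check (c := ⟨293, ⟨5, 6, 12, 8⟩⟩) (by decide +kernel)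

def mid3_kL1 : PosBox ⟨⟨0, 1, 1⟩, ⟨99, 100, 165⟩, ⟨20, 49, 400⟩, ⟨140, 215, 100⟩⟩ (mid3.hKL true) :=
  posBox_of_check (c := ⟨293, ⟨5, 6, 12, 8⟩⟩) (by decide +kernel)

def mid3_wU1 : PosBox ⟨⟨0, 1, 1⟩, ⟨99, 100, 165⟩, ⟨20, 49, 400⟩, ⟨140, 215, 100⟩⟩ (mid3.hWU true) :=
  posBox_of_check (c := ⟨321, ⟨5, 8, 13, 8⟩⟩) (by decide +kernel)

def mid3_wL1 : PosBox ⟨⟨0, 1, 1⟩, ⟨99, 100, 165⟩, ⟨20, 49, 400⟩, ⟨140, 215, 100⟩⟩ (mid3.hWL true) :=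
  posBox_of_check (c := ⟨321, ⟨5, 8, 13, 8⟩⟩) (by decide +kernel)

/-- The checks on the bounds. -/
theorem mid3_env : mid3.Env ⟨⟨0, 1, 1⟩, ⟨99, 100, 165⟩, ⟨20, 49, 400⟩, ⟨140, 215, 100⟩⟩ where
  p0 := mid3_p0
  den := Bool.forall_bool.2 ⟨mid3_den0, mid3_den1⟩
  gn := mid3_gn
  ev := Bool.forall_bool.2 ⟨mid3_ev0, mid3_ev1⟩
  eL := Bool.forall_bool.2 ⟨mid3_eL0, mid3_eL1⟩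
  eL' := ⟨.inr rfl, .inr rfl⟩
  eH := Bool.forall_bool.2 ⟨mid3_eH0, mid3_eH1⟩
  eH' := ⟨.inr rfl, .inr rfl⟩
  pL := Bool.forall_bool.2 ⟨mid3_pL0, mid3_pL1⟩
  pL' := ⟨.inr rfl, .inr rfl⟩
  pU := Bool.forall_bool.2 ⟨mid3_pU0, mid3_pU1⟩
  pU' := ⟨.inr rfl, .inr rfl⟩
  kU := Bool.forall_bool.2 ⟨mid3_kU0, mid3_kU1⟩
  kU' := ⟨.inr rfl, .inr rfl⟩
  kL := Bool.forall_bool.2 ⟨mid3_kL0, mid3_kL1⟩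
  kL' := ⟨.inr rfl, .inr rfl⟩
  wU := Bool.forall_bool.2 ⟨mid3_wU0, mid3_wU1⟩
  wU' := ⟨.inr rfl, .inr rfl⟩
  wL := Bool.forall_bool.2 ⟨mid3_wL0, mid3_wL1⟩
  wL' := ⟨.inr rfl, .inr rfl⟩

end Vale.Agent.P100.Calib.Closed.High
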