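import Vale.Agent.P100.Calib.SlabHighData

/-!
# Checks of the bounds of a piece of the tail
-/

set_option linter.defProp false

namespace Vale.Agent.P100.Calib.Closed.High

open BoxPos Large

def mid4_p0_0 : PosBox ⟨⟨0, 1, 1⟩, ⟨99, 100, 165⟩, ⟨20, 34, 400⟩, ⟨215, 315, 100⟩⟩ (mid4.hP0) :=
  posBox_of_check (c := ⟨65, ⟨0, 2, 3, 1⟩⟩) (by decide +kernel)

def mid4_p0_1 : PosBox ⟨⟨0, 1, 1⟩, ⟨99, 100, 165⟩, ⟨34, 49, 400⟩, ⟨215, 315, 100⟩⟩ (mid4.hP0) :=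
  posBox_of_check (c := ⟨66, ⟨0, 2, 3, 1⟩⟩) (by decide +kernel)

theorem mid4_p0 : PosBox ⟨⟨0, 1, 1⟩, ⟨99, 100, 165⟩, ⟨20, 49, 400⟩, ⟨215, 315, 100⟩⟩ (mid4.hP0) :=
  posBox_join₂ mid4_p0_0 mid4_p0_1

def mid4_gn : PosBox ⟨⟨0, 1, 1⟩, ⟨99, 100, 165⟩, ⟨20, 49, 400⟩, ⟨215, 315, 100⟩⟩ (mid4.hGn) :=
  posBox_of_check (c := ⟨55, ⟨1, 1, 2, 2⟩⟩) (by decide +kernel)

def mid4_phi : PosBox ⟨⟨0, 1, 1⟩, ⟨99, 100, 165⟩, ⟨20, 49, 400⟩, ⟨215, 315, 100⟩⟩ (midPhi mid4.u₁ xV) :=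
  posBox_of_check (c := ⟨89, ⟨0, 0, 4, 3⟩⟩) (by decide +kernel)

def mid4_den0 : PosBox ⟨⟨0, 1, 1⟩, ⟨99, 100, 165⟩, ⟨20, 49, 400⟩, ⟨215, 315, 100⟩⟩ (mid4.hDen false) :=
  posBox_of_check (c := ⟨74, ⟨2, 0, 4, 2⟩⟩) (by decide +kernel)

def mid4_den1 : PosBox ⟨⟨0, 1, 1⟩, ⟨99, 100, 165⟩, ⟨20, 49, 400⟩, ⟨215, 315, 100⟩⟩ (mid4.hDen true) :=
  posBox_of_check (c := ⟨88, ⟨2, 0, 4, 2⟩⟩) (by decide +kernel)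

def mid4_ev0 : PosBox ⟨⟨0, 1, 1⟩, ⟨99, 100, 165⟩, ⟨20, 49, 400⟩, ⟨215, 315, 100⟩⟩ (mid4.hEv false) :=
  posBox_of_check (c := ⟨158, ⟨4, 2, 7, 4⟩⟩) (by decide +kernel)

def mid4_eL0 : PosBox ⟨⟨0, 1, 1⟩, ⟨99, 100, 165⟩, ⟨20, 49, 400⟩, ⟨215, 315, 100⟩⟩ (mid4.hEL false) :=
  posBox_of_check (c := ⟨236, ⟨5, 6, 10, 6⟩⟩) (by decide +kernel)

def mid4_eH0 : PosBox ⟨⟨0, 1, 1⟩, ⟨99, 100, 165⟩, ⟨20, 49, 400⟩, ⟨215, 315, 100⟩⟩ (mid4.hEH false) :=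
  posBox_of_check (c := ⟨259, ⟨5, 6, 10, 7⟩⟩) (by decide +kernel)

def mid4_pL0 : PosBox ⟨⟨0, 1, 1⟩, ⟨99, 100, 165⟩, ⟨20, 49, 400⟩, ⟨215, 315, 100⟩⟩ (mid4.hPL false) :=
  posBox_of_check (c := ⟨253, ⟨5, 6, 10, 7⟩⟩) (by decide +kernel)

def mid4_pU0 : PosBox ⟨⟨0, 1, 1⟩, ⟨99, 100, 165⟩, ⟨20, 49, 400⟩, ⟨215, 315, 100⟩⟩ (mid4.hPU false) :=
  posBox_of_check (c := ⟨255, ⟨5, 6, 10, 7⟩⟩) (by decide +kernel)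

def mid4_kU0 : PosBox ⟨⟨0, 1, 1⟩, ⟨99, 100, 165⟩, ⟨20, 49, 400⟩, ⟨215, 315, 100⟩⟩ (mid4.hKU false) :=
  posBox_of_check (c := ⟨249, ⟨5, 6, 10, 7⟩⟩) (by decide +kernel)

def mid4_kL0 : PosBox ⟨⟨0, 1, 1⟩, ⟨99, 100, 165⟩, ⟨20, 49, 400⟩, ⟨215, 315, 100⟩⟩ (mid4.hKL false) :=
  posBox_of_check (c := ⟨249, ⟨5, 6, 10, 7⟩⟩) (by decide +kernel)

def mid4_wU0 : PosBox ⟨⟨0, 1, 1⟩, ⟨99, 100, 165⟩, ⟨20, 49, 400⟩, ⟨215, 315, 100⟩⟩ (mid4.hWU false) :=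
  posBox_of_check (c := ⟨281, ⟨5, 8, 11, 7⟩⟩) (by decide +kernel)

def mid4_wL0 : PosBox ⟨⟨0, 1, 1⟩, ⟨99, 100, 165⟩, ⟨20, 49, 400⟩, ⟨215, 315, 100⟩⟩ (mid4.hWL false) :=
  posBox_of_check (c := ⟨277, ⟨5, 8, 11, 7⟩⟩) (by decide +kernel)

def mid4_pV0 : PosBox ⟨⟨0, 1, 1⟩, ⟨99, 100, 165⟩, ⟨20, 49, 400⟩, ⟨215, 315, 100⟩⟩ (({ mid4 with pU := mid4PU } : Piece).hPU false) :=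
  posBox_of_check (c := ⟨260, ⟨5, 6, 10, 7⟩⟩) (by decide +kernel)

def mid4_ev1 : PosBox ⟨⟨0, 1, 1⟩, ⟨99, 100, 165⟩, ⟨20, 49, 400⟩, ⟨215, 315, 100⟩⟩ (mid4.hEv true) :=
  posBox_of_check (c := ⟨201, ⟨4, 2, 9, 5⟩⟩) (by decide +kernel)

def mid4_eL1 : PosBox ⟨⟨0, 1, 1⟩, ⟨99, 100, 165⟩, ⟨20, 49, 400⟩, ⟨215, 315, 100⟩⟩ (mid4.hEL true) :=
  posBox_of_check (c := ⟨279, ⟨5, 6, 12, 7⟩⟩) (by decide +kernel)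

def mid4_eH1 : PosBox ⟨⟨0, 1, 1⟩, ⟨99, 100, 165⟩, ⟨20, 49, 400⟩, ⟨215, 315, 100⟩⟩ (mid4.hEH true) :=
  posBox_of_check (c := ⟨303, ⟨5, 6, 12, 8⟩⟩) (by decide +kernel)

def mid4_pL1 : PosBox ⟨⟨0, 1, 1⟩, ⟨99, 100, 165⟩, ⟨20, 49, 400⟩, ⟨215, 315, 100⟩⟩ (mid4.hPL true) :=
  posBox_of_check (c := ⟨297, ⟨5, 6, 12, 8⟩⟩) (by decide +kernel)

def mid4_pU1 : PosBox ⟨⟨0, 1, 1⟩, ⟨99, 100, 165⟩, ⟨20, 49, 400⟩, ⟨215, 315, 100⟩⟩ (mid4.hPU true) :=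
  posBox_of_check (c := ⟨299, ⟨5, 6, 12, 8⟩⟩) (by decide +kernel)

def mid4_kU1 : PosBox ⟨⟨0, 1, 1⟩, ⟨99, 100, 165⟩, ⟨20, 49, 400⟩, ⟨215, 315, 100⟩⟩ (mid4.hKU true) :=
  posBox_of_check (c := ⟨293, ⟨5, 6, 12, 8⟩⟩) (by decide +kernel)

def mid4_kL1 : PosBox ⟨⟨0, 1, 1⟩, ⟨99, 100, 165⟩, ⟨20, 49, 400⟩, ⟨215, 315, 100⟩⟩ (mid4.hKL true) :=
  posBox_of_check (c := ⟨293, ⟨5, 6, 12, 8⟩⟩) (by decide +kernel)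

def mid4_wU1 : PosBox ⟨⟨0, 1, 1⟩, ⟨99, 100, 165⟩, ⟨20, 49, 400⟩, ⟨215, 315, 100⟩⟩ (mid4.hWU true) :=
  posBox_of_check (c := ⟨326, ⟨5, 8, 13, 8⟩⟩) (by decide +kernel)

def mid4_wL1 : PosBox ⟨⟨0, 1, 1⟩, ⟨99, 100, 165⟩, ⟨20, 49, 400⟩, ⟨215, 315, 100⟩⟩ (mid4.hWL true) :=
  posBox_of_check (c := ⟨321, ⟨5, 8, 13, 8⟩⟩) (by decide +kernel)

def mid4_pV1_0_0 : PosBox ⟨⟨0, 1, 1⟩, ⟨99, 100, 165⟩, ⟨20, 49, 400⟩, ⟨215, 240, 100⟩⟩ (({ mid4 with pU := mid4PU } : Piece).hPU true) :=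
  posBox_of_check (c := ⟨303, ⟨5, 6, 12, 8⟩⟩) (by decide +kernel)

def mid4_pV1_0_1 : PosBox ⟨⟨0, 1, 1⟩, ⟨99, 100, 165⟩, ⟨20, 49, 400⟩, ⟨240, 265, 100⟩⟩ (({ mid4 with pU := mid4PU } : Piece).hPU true) :=
  posBox_of_check (c := ⟨303, ⟨5, 6, 12, 8⟩⟩) (by decide +kernel)

theorem mid4_pV1_0 : PosBox ⟨⟨0, 1, 1⟩, ⟨99, 100, 165⟩, ⟨20, 49, 400⟩, ⟨215, 265, 100⟩⟩ (({ mid4 with pU := mid4PU } : Piece).hPU true) :=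
  posBox_join₃ mid4_pV1_0_0 mid4_pV1_0_1

def mid4_pV1_1 : PosBox ⟨⟨0, 1, 1⟩, ⟨99, 100, 165⟩, ⟨20, 49, 400⟩, ⟨265, 315, 100⟩⟩ (({ mid4 with pU := mid4PU } : Piece).hPU true) :=
  posBox_of_check (c := ⟨304, ⟨5, 6, 12, 8⟩⟩) (by decide +kernel)

theorem mid4_pV1 : PosBox ⟨⟨0, 1, 1⟩, ⟨99, 100, 165⟩, ⟨20, 49, 400⟩, ⟨215, 315, 100⟩⟩ (({ mid4 with pU := mid4PU } : Piece).hPU true) :=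
  posBox_join₃ mid4_pV1_0 mid4_pV1_1

def mid4_nueH : PosBox ⟨⟨0, 1, 1⟩, ⟨99, 100, 165⟩, ⟨20, 49, 400⟩, ⟨215, 315, 100⟩⟩ (mid4.eH.ν) :=
  posBox_of_check (c := ⟨40, ⟨0, 0, 1, 1⟩⟩) (by decide +kernel)

def mid4_nupU2 : PosBox ⟨⟨0, 1, 1⟩, ⟨99, 100, 165⟩, ⟨20, 49, 400⟩, ⟨215, 315, 100⟩⟩ (mid4PU.ν) :=
  posBox_of_check (c := ⟨40, ⟨0, 0, 1, 1⟩⟩) (by decide +kernel)

def mid4_nuwU : PosBox ⟨⟨0, 1, 1⟩, ⟨99, 100, 165⟩, ⟨20, 49, 400⟩, ⟨215, 315, 100⟩⟩ (mid4.wU.ν) :=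
  posBox_of_check (c := ⟨34, ⟨0, 0, 1, 1⟩⟩) (by decide +kernel)

/-- The checks on the bounds. -/
theorem mid4_env : mid4.Env ⟨⟨0, 1, 1⟩, ⟨99, 100, 165⟩, ⟨20, 49, 400⟩, ⟨215, 315, 100⟩⟩ where
  p0 := mid4_p0
  den := Bool.forall_bool.2 ⟨mid4_den0, mid4_den1⟩
  gn := mid4_gn
  ev := Bool.forall_bool.2 ⟨mid4_ev0, mid4_ev1⟩
  eL := Bool.forall_bool.2 ⟨mid4_eL0, mid4_eL1⟩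
  eL' := ⟨.inr rfl, .inr rfl⟩
  eH := Bool.forall_bool.2 ⟨mid4_eH0, mid4_eH1⟩
  eH' := ⟨.inr rfl, .inl mid4_nueH⟩
  pL := Bool.forall_bool.2 ⟨mid4_pL0, mid4_pL1⟩
  pL' := ⟨.inr rfl, .inr rfl⟩
  pU := Bool.forall_bool.2 ⟨mid4_pU0, mid4_pU1⟩
  pU' := ⟨.inr rfl, .inr rfl⟩
  kU := Bool.forall_bool.2 ⟨mid4_kU0, mid4_kU1⟩
  kU' := ⟨.inr rfl, .inr rfl⟩
  kL := Bool.forall_bool.2 ⟨mid4_kL0, mid4_kL1⟩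
  kL' := ⟨.inr rfl, .inr rfl⟩
  wU := Bool.forall_bool.2 ⟨mid4_wU0, mid4_wU1⟩
  wU' := ⟨.inr rfl, .inl mid4_nuwU⟩
  wL := Bool.forall_bool.2 ⟨mid4_wL0, mid4_wL1⟩
  wL' := ⟨.inr rfl, .inr rfl⟩

/-- The checks with the bound above the cut. -/
theorem mid4_envU : ({ mid4 with pU := mid4PU } : Piece).Env ⟨⟨0, 1, 1⟩, ⟨99, 100, 165⟩, ⟨20, 49, 400⟩, ⟨215, 315, 100⟩⟩ :=
  mid4_env.withU mid4PU (Bool.forall_bool.2 ⟨mid4_pV0, mid4_pV1⟩) ⟨.inr rfl, .inl mid4_nupU2⟩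

end Vale.Agent.P100.Calib.Closed.High
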