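import Vale.Agent.P100.Calib.SlabHighData

/-!
# Checks of the bounds of a piece of the tail
-/

set_option linter.defProp false

namespace Vale.Agent.P100.Calib.Closed.High

open BoxPos Large

def mid5_p0_0_0 : PosBox ⟨⟨0, 1, 1⟩, ⟨99, 100, 165⟩, ⟨20, 27, 400⟩, ⟨315, 376, 100⟩⟩ (mid5.hP0) :=
  posBox_of_check (c := ⟨66, ⟨0, 2, 3, 1⟩⟩) (by decide +kernel)

def mid5_p0_0_1 : PosBox ⟨⟨0, 1, 1⟩, ⟨99, 100, 165⟩, ⟨27, 34, 400⟩, ⟨315, 376, 100⟩⟩ (mid5.hP0) :=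
  posBox_of_check (c := ⟨66, ⟨0, 2, 3, 1⟩⟩) (by decide +kernel)

theorem mid5_p0_0 : PosBox ⟨⟨0, 1, 1⟩, ⟨99, 100, 165⟩, ⟨20, 34, 400⟩, ⟨315, 376, 100⟩⟩ (mid5.hP0) :=
  posBox_join₂ mid5_p0_0_0 mid5_p0_0_1

def mid5_p0_1 : PosBox ⟨⟨0, 1, 1⟩, ⟨99, 100, 165⟩, ⟨34, 49, 400⟩, ⟨315, 376, 100⟩⟩ (mid5.hP0) :=
  posBox_of_check (c := ⟨66, ⟨0, 2, 3, 1⟩⟩) (by decide +kernel)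

theorem mid5_p0 : PosBox ⟨⟨0, 1, 1⟩, ⟨99, 100, 165⟩, ⟨20, 49, 400⟩, ⟨315, 376, 100⟩⟩ (mid5.hP0) :=
  posBox_join₂ mid5_p0_0 mid5_p0_1

def mid5_gn : PosBox ⟨⟨0, 1, 1⟩, ⟨99, 100, 165⟩, ⟨20, 49, 400⟩, ⟨315, 376, 100⟩⟩ (mid5.hGn) :=
  posBox_of_check (c := ⟨55, ⟨1, 1, 2, 2⟩⟩) (by decide +kernel)

def mid5_phi : PosBox ⟨⟨0, 1, 1⟩, ⟨99, 100, 165⟩, ⟨20, 49, 400⟩, ⟨315, 376, 100⟩⟩ (midPhi mid5.u₁ xV) :=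
  posBox_of_check (c := ⟨89, ⟨0, 0, 4, 3⟩⟩) (by decide +kernel)

def mid5_den0 : PosBox ⟨⟨0, 1, 1⟩, ⟨99, 100, 165⟩, ⟨20, 49, 400⟩, ⟨315, 376, 100⟩⟩ (mid5.hDen false) :=
  posBox_of_check (c := ⟨74, ⟨2, 0, 4, 2⟩⟩) (by decide +kernel)

def mid5_den1 : PosBox ⟨⟨0, 1, 1⟩, ⟨99, 100, 165⟩, ⟨20, 49, 400⟩, ⟨315, 376, 100⟩⟩ (mid5.hDen true) :=
  posBox_of_check (c := ⟨137, ⟨3, 4, 6, 4⟩⟩) (by decide +kernel)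

def mid5_ev0 : PosBox ⟨⟨0, 1, 1⟩, ⟨99, 100, 165⟩, ⟨20, 49, 400⟩, ⟨315, 376, 100⟩⟩ (mid5.hEv false) :=
  posBox_of_check (c := ⟨158, ⟨4, 2, 7, 4⟩⟩) (by decide +kernel)

def mid5_eL0_0_0 : PosBox ⟨⟨0, 1, 1⟩, ⟨99, 100, 165⟩, ⟨20, 49, 400⟩, ⟨315, 330, 100⟩⟩ (mid5.hEL false) :=
  posBox_of_check (c := ⟨262, ⟨5, 6, 10, 7⟩⟩) (by decide +kernel)

def mid5_eL0_0_1 : PosBox ⟨⟨0, 1, 1⟩, ⟨99, 100, 165⟩, ⟨20, 49, 400⟩, ⟨330, 345, 100⟩⟩ (mid5.hEL false) :=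
  posBox_of_check (c := ⟨262, ⟨5, 6, 10, 7⟩⟩) (by decide +kernel)

theorem mid5_eL0_0 : PosBox ⟨⟨0, 1, 1⟩, ⟨99, 100, 165⟩, ⟨20, 49, 400⟩, ⟨315, 345, 100⟩⟩ (mid5.hEL false) :=
  posBox_join₃ mid5_eL0_0_0 mid5_eL0_0_1

def mid5_eL0_1 : PosBox ⟨⟨0, 1, 1⟩, ⟨99, 100, 165⟩, ⟨20, 49, 400⟩, ⟨345, 376, 100⟩⟩ (mid5.hEL false) :=
  posBox_of_check (c := ⟨263, ⟨5, 6, 10, 7⟩⟩) (by decide +kernel)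

theorem mid5_eL0 : PosBox ⟨⟨0, 1, 1⟩, ⟨99, 100, 165⟩, ⟨20, 49, 400⟩, ⟨315, 376, 100⟩⟩ (mid5.hEL false) :=
  posBox_join₃ mid5_eL0_0 mid5_eL0_1

def mid5_eH0_0_0_0_0_0 : PosBox ⟨⟨0, 1, 8⟩, ⟨99, 100, 165⟩, ⟨20, 34, 400⟩, ⟨315, 345, 100⟩⟩ (mid5.hEH false) :=
  posBox_of_check (c := ⟨275, ⟨5, 6, 10, 7⟩⟩) (by decide +kernel)

def mid5_eH0_0_0_0_0_1 : PosBox ⟨⟨0, 1, 8⟩, ⟨99, 100, 165⟩, ⟨34, 49, 400⟩, ⟨315, 345, 100⟩⟩ (mid5.hEH false) :=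
  posBox_of_check (c := ⟨276, ⟨5, 6, 10, 7⟩⟩) (by decide +kernel)

theorem mid5_eH0_0_0_0_0 : PosBox ⟨⟨0, 1, 8⟩, ⟨99, 100, 165⟩, ⟨20, 49, 400⟩, ⟨315, 345, 100⟩⟩ (mid5.hEH false) :=
  posBox_join₂ mid5_eH0_0_0_0_0_0 mid5_eH0_0_0_0_0_1

def mid5_eH0_0_0_0_1_0 : PosBox ⟨⟨0, 1, 8⟩, ⟨99, 100, 165⟩, ⟨20, 34, 400⟩, ⟨345, 376, 100⟩⟩ (mid5.hEH false) :=
  posBox_of_check (c := ⟨275, ⟨5, 6, 10, 7⟩⟩) (by decide +kernel)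

def mid5_eH0_0_0_0_1_1 : PosBox ⟨⟨0, 1, 8⟩, ⟨99, 100, 165⟩, ⟨34, 49, 400⟩, ⟨345, 376, 100⟩⟩ (mid5.hEH false) :=
  posBox_of_check (c := ⟨277, ⟨5, 6, 10, 7⟩⟩) (by decide +kernel)

theorem mid5_eH0_0_0_0_1 : PosBox ⟨⟨0, 1, 8⟩, ⟨99, 100, 165⟩, ⟨20, 49, 400⟩, ⟨345, 376, 100⟩⟩ (mid5.hEH false) :=
  posBox_join₂ mid5_eH0_0_0_0_1_0 mid5_eH0_0_0_0_1_1

theorem mid5_eH0_0_0_0 : PosBox ⟨⟨0, 1, 8⟩, ⟨99, 100, 165⟩, ⟨20, 49, 400⟩, ⟨315, 376, 100⟩⟩ (mid5.hEH false) :=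
  posBox_join₃ mid5_eH0_0_0_0_0 mid5_eH0_0_0_0_1

def mid5_eH0_0_0_1 : PosBox ⟨⟨1, 2, 8⟩, ⟨99, 100, 165⟩, ⟨20, 49, 400⟩, ⟨315, 376, 100⟩⟩ (mid5.hEH false) :=
  posBox_of_check (c := ⟨277, ⟨5, 6, 10, 7⟩⟩) (by decide +kernel)

def mid5_eH0_0_0 : PosBox ⟨⟨0, 1, 4⟩, ⟨99, 100, 165⟩, ⟨20, 49, 400⟩, ⟨315, 376, 100⟩⟩ (mid5.hEH false) :=
  posBox_units (b := ⟨⟨0, 2, 8⟩, ⟨99, 100, 165⟩, ⟨20, 49, 400⟩, ⟨315, 376, 100⟩⟩) (by decide +kernel) (posBox_join₀ mid5_eH0_0_0_0 mid5_eH0_0_0_1)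

def mid5_eH0_0_1 : PosBox ⟨⟨1, 2, 4⟩, ⟨99, 100, 165⟩, ⟨20, 49, 400⟩, ⟨315, 376, 100⟩⟩ (mid5.hEH false) :=
  posBox_of_check (c := ⟨272, ⟨5, 6, 10, 7⟩⟩) (by decide +kernel)

def mid5_eH0_0 : PosBox ⟨⟨0, 1, 2⟩, ⟨99, 100, 165⟩, ⟨20, 49, 400⟩, ⟨315, 376, 100⟩⟩ (mid5.hEH false) :=
  posBox_units (b := ⟨⟨0, 2, 4⟩, ⟨99, 100, 165⟩, ⟨20, 49, 400⟩, ⟨315, 376, 100⟩⟩) (by decide +kernel) (posBox_join₀ mid5_eH0_0_0 mid5_eH0_0_1)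

def mid5_eH0_1 : PosBox ⟨⟨1, 2, 2⟩, ⟨99, 100, 165⟩, ⟨20, 49, 400⟩, ⟨315, 376, 100⟩⟩ (mid5.hEH false) :=
  posBox_of_check (c := ⟨269, ⟨5, 6, 10, 7⟩⟩) (by decide +kernel)

def mid5_eH0 : PosBox ⟨⟨0, 1, 1⟩, ⟨99, 100, 165⟩, ⟨20, 49, 400⟩, ⟨315, 376, 100⟩⟩ (mid5.hEH false) :=
  posBox_units (b := ⟨⟨0, 2, 2⟩, ⟨99, 100, 165⟩, ⟨20, 49, 400⟩, ⟨315, 376, 100⟩⟩) (by decide +kernel) (posBox_join₀ mid5_eH0_0 mid5_eH0_1)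

def mid5_pL0_0_0 : PosBox ⟨⟨0, 1, 1⟩, ⟨99, 100, 165⟩, ⟨20, 49, 400⟩, ⟨315, 330, 100⟩⟩ (mid5.hPL false) :=
  posBox_of_check (c := ⟨253, ⟨5, 6, 10, 7⟩⟩) (by decide +kernel)

def mid5_pL0_0_1 : PosBox ⟨⟨0, 1, 1⟩, ⟨99, 100, 165⟩, ⟨20, 49, 400⟩, ⟨330, 345, 100⟩⟩ (mid5.hPL false) :=
  posBox_of_check (c := ⟨254, ⟨5, 6, 10, 7⟩⟩) (by decide +kernel)

theorem mid5_pL0_0 : PosBox ⟨⟨0, 1, 1⟩, ⟨99, 100, 165⟩, ⟨20, 49, 400⟩, ⟨315, 345, 100⟩⟩ (mid5.hPL false) :=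
  posBox_join₃ mid5_pL0_0_0 mid5_pL0_0_1

def mid5_pL0_1 : PosBox ⟨⟨0, 1, 1⟩, ⟨99, 100, 165⟩, ⟨20, 49, 400⟩, ⟨345, 376, 100⟩⟩ (mid5.hPL false) :=
  posBox_of_check (c := ⟨254, ⟨5, 6, 10, 7⟩⟩) (by decide +kernel)

theorem mid5_pL0 : PosBox ⟨⟨0, 1, 1⟩, ⟨99, 100, 165⟩, ⟨20, 49, 400⟩, ⟨315, 376, 100⟩⟩ (mid5.hPL false) :=
  posBox_join₃ mid5_pL0_0 mid5_pL0_1

def mid5_pU0 : PosBox ⟨⟨0, 1, 1⟩, ⟨99, 100, 165⟩, ⟨20, 49, 400⟩, ⟨315, 376, 100⟩⟩ (mid5.hPU false) :=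
  posBox_of_check (c := ⟨263, ⟨5, 6, 10, 7⟩⟩) (by decide +kernel)

def mid5_kU0_0 : PosBox ⟨⟨0, 1, 1⟩, ⟨99, 100, 165⟩, ⟨20, 49, 400⟩, ⟨315, 345, 100⟩⟩ (mid5.hKU false) :=
  posBox_of_check (c := ⟨259, ⟨5, 6, 10, 7⟩⟩) (by decide +kernel)

def mid5_kU0_1 : PosBox ⟨⟨0, 1, 1⟩, ⟨99, 100, 165⟩, ⟨20, 49, 400⟩, ⟨345, 376, 100⟩⟩ (mid5.hKU false) :=
  posBox_of_check (c := ⟨259, ⟨5, 6, 10, 7⟩⟩) (by decide +kernel)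

theorem mid5_kU0 : PosBox ⟨⟨0, 1, 1⟩, ⟨99, 100, 165⟩, ⟨20, 49, 400⟩, ⟨315, 376, 100⟩⟩ (mid5.hKU false) :=
  posBox_join₃ mid5_kU0_0 mid5_kU0_1

def mid5_kL0_0 : PosBox ⟨⟨0, 1, 1⟩, ⟨99, 100, 165⟩, ⟨20, 34, 400⟩, ⟨315, 376, 100⟩⟩ (mid5.hKL false) :=
  posBox_of_check (c := ⟨256, ⟨5, 6, 10, 7⟩⟩) (by decide +kernel)

def mid5_kL0_1_0 : PosBox ⟨⟨0, 1, 1⟩, ⟨99, 100, 165⟩, ⟨34, 41, 400⟩, ⟨315, 376, 100⟩⟩ (mid5.hKL false) :=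
  posBox_of_check (c := ⟨256, ⟨5, 6, 10, 7⟩⟩) (by decide +kernel)

def mid5_kL0_1_1 : PosBox ⟨⟨0, 1, 1⟩, ⟨99, 100, 165⟩, ⟨41, 49, 400⟩, ⟨315, 376, 100⟩⟩ (mid5.hKL false) :=
  posBox_of_check (c := ⟨257, ⟨5, 6, 10, 7⟩⟩) (by decide +kernel)

theorem mid5_kL0_1 : PosBox ⟨⟨0, 1, 1⟩, ⟨99, 100, 165⟩, ⟨34, 49, 400⟩, ⟨315, 376, 100⟩⟩ (mid5.hKL false) :=
  posBox_join₂ mid5_kL0_1_0 mid5_kL0_1_1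

theorem mid5_kL0 : PosBox ⟨⟨0, 1, 1⟩, ⟨99, 100, 165⟩, ⟨20, 49, 400⟩, ⟨315, 376, 100⟩⟩ (mid5.hKL false) :=
  posBox_join₂ mid5_kL0_0 mid5_kL0_1

def mid5_wU0 : PosBox ⟨⟨0, 1, 1⟩, ⟨99, 100, 165⟩, ⟨20, 49, 400⟩, ⟨315, 376, 100⟩⟩ (mid5.hWU false) :=
  posBox_of_check (c := ⟨283, ⟨5, 8, 11, 7⟩⟩) (by decide +kernel)

def mid5_wL0 : PosBox ⟨⟨0, 1, 1⟩, ⟨99, 100, 165⟩, ⟨20, 49, 400⟩, ⟨315, 376, 100⟩⟩ (mid5.hWL false) :=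
  posBox_of_check (c := ⟨282, ⟨5, 8, 11, 7⟩⟩) (by decide +kernel)

def mid5_pV0_0_0_0 : PosBox ⟨⟨0, 1, 1⟩, ⟨99, 100, 165⟩, ⟨20, 49, 400⟩, ⟨315, 322, 100⟩⟩ (({ mid5 with pU := mid5PU } : Piece).hPU false) :=
  posBox_of_check (c := ⟨263, ⟨5, 6, 10, 7⟩⟩) (by decide +kernel)

def mid5_pV0_0_0_1 : PosBox ⟨⟨0, 1, 1⟩, ⟨99, 100, 165⟩, ⟨20, 49, 400⟩, ⟨322, 330, 100⟩⟩ (({ mid5 with pU := mid5PU } : Piece).hPU false) :=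
  posBox_of_check (c := ⟨263, ⟨5, 6, 10, 7⟩⟩) (by decide +kernel)

theorem mid5_pV0_0_0 : PosBox ⟨⟨0, 1, 1⟩, ⟨99, 100, 165⟩, ⟨20, 49, 400⟩, ⟨315, 330, 100⟩⟩ (({ mid5 with pU := mid5PU } : Piece).hPU false) :=
  posBox_join₃ mid5_pV0_0_0_0 mid5_pV0_0_0_1

def mid5_pV0_0_1 : PosBox ⟨⟨0, 1, 1⟩, ⟨99, 100, 165⟩, ⟨20, 49, 400⟩, ⟨330, 345, 100⟩⟩ (({ mid5 with pU := mid5PU } : Piece).hPU false) :=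
  posBox_of_check (c := ⟨263, ⟨5, 6, 10, 7⟩⟩) (by decide +kernel)

theorem mid5_pV0_0 : PosBox ⟨⟨0, 1, 1⟩, ⟨99, 100, 165⟩, ⟨20, 49, 400⟩, ⟨315, 345, 100⟩⟩ (({ mid5 with pU := mid5PU } : Piece).hPU false) :=
  posBox_join₃ mid5_pV0_0_0 mid5_pV0_0_1

def mid5_pV0_1 : PosBox ⟨⟨0, 1, 1⟩, ⟨99, 100, 165⟩, ⟨20, 49, 400⟩, ⟨345, 376, 100⟩⟩ (({ mid5 with pU := mid5PU } : Piece).hPU false) :=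
  posBox_of_check (c := ⟨263, ⟨5, 6, 10, 7⟩⟩) (by decide +kernel)

theorem mid5_pV0 : PosBox ⟨⟨0, 1, 1⟩, ⟨99, 100, 165⟩, ⟨20, 49, 400⟩, ⟨315, 376, 100⟩⟩ (({ mid5 with pU := mid5PU } : Piece).hPU false) :=
  posBox_join₃ mid5_pV0_0 mid5_pV0_1

def mid5_ev1 : PosBox ⟨⟨0, 1, 1⟩, ⟨99, 100, 165⟩, ⟨20, 49, 400⟩, ⟨315, 376, 100⟩⟩ (mid5.hEv true) :=
  posBox_of_check (c := ⟨206, ⟨4, 6, 9, 6⟩⟩) (by decide +kernel)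

def mid5_eL1 : PosBox ⟨⟨0, 1, 1⟩, ⟨99, 100, 165⟩, ⟨20, 49, 400⟩, ⟨315, 376, 100⟩⟩ (mid5.hEL true) :=
  posBox_of_check (c := ⟨311, ⟨5, 10, 12, 9⟩⟩) (by decide +kernel)

def mid5_eH1 : PosBox ⟨⟨0, 1, 1⟩, ⟨99, 100, 165⟩, ⟨20, 49, 400⟩, ⟨315, 376, 100⟩⟩ (mid5.hEH true) :=
  posBox_of_check (c := ⟨312, ⟨5, 10, 12, 9⟩⟩) (by decide +kernel)

def mid5_pL1_0 : PosBox ⟨⟨0, 1, 1⟩, ⟨99, 100, 165⟩, ⟨20, 49, 400⟩, ⟨315, 345, 100⟩⟩ (mid5.hPL true) :=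
  posBox_of_check (c := ⟨302, ⟨5, 10, 12, 9⟩⟩) (by decide +kernel)

def mid5_pL1_1_0 : PosBox ⟨⟨0, 1, 1⟩, ⟨99, 100, 165⟩, ⟨20, 49, 400⟩, ⟨345, 360, 100⟩⟩ (mid5.hPL true) :=
  posBox_of_check (c := ⟨302, ⟨5, 10, 12, 9⟩⟩) (by decide +kernel)

def mid5_pL1_1_1_0 : PosBox ⟨⟨0, 1, 1⟩, ⟨99, 100, 165⟩, ⟨20, 34, 400⟩, ⟨360, 376, 100⟩⟩ (mid5.hPL true) :=
  posBox_of_check (c := ⟨302, ⟨5, 10, 12, 9⟩⟩) (by decide +kernel)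

def mid5_pL1_1_1_1 : PosBox ⟨⟨0, 1, 1⟩, ⟨99, 100, 165⟩, ⟨34, 49, 400⟩, ⟨360, 376, 100⟩⟩ (mid5.hPL true) :=
  posBox_of_check (c := ⟨303, ⟨5, 10, 12, 9⟩⟩) (by decide +kernel)

theorem mid5_pL1_1_1 : PosBox ⟨⟨0, 1, 1⟩, ⟨99, 100, 165⟩, ⟨20, 49, 400⟩, ⟨360, 376, 100⟩⟩ (mid5.hPL true) :=
  posBox_join₂ mid5_pL1_1_1_0 mid5_pL1_1_1_1

theorem mid5_pL1_1 : PosBox ⟨⟨0, 1, 1⟩, ⟨99, 100, 165⟩, ⟨20, 49, 400⟩, ⟨345, 376, 100⟩⟩ (mid5.hPL true) :=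
  posBox_join₃ mid5_pL1_1_0 mid5_pL1_1_1

theorem mid5_pL1 : PosBox ⟨⟨0, 1, 1⟩, ⟨99, 100, 165⟩, ⟨20, 49, 400⟩, ⟨315, 376, 100⟩⟩ (mid5.hPL true) :=
  posBox_join₃ mid5_pL1_0 mid5_pL1_1

def mid5_pU1 : PosBox ⟨⟨0, 1, 1⟩, ⟨99, 100, 165⟩, ⟨20, 49, 400⟩, ⟨315, 376, 100⟩⟩ (mid5.hPU true) :=
  posBox_of_check (c := ⟨312, ⟨5, 10, 12, 9⟩⟩) (by decide +kernel)

def mid5_kU1 : PosBox ⟨⟨0, 1, 1⟩, ⟨99, 100, 165⟩, ⟨20, 49, 400⟩, ⟨315, 376, 100⟩⟩ (mid5.hKU true) :=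
  posBox_of_check (c := ⟨308, ⟨5, 10, 12, 9⟩⟩) (by decide +kernel)

def mid5_kL1 : PosBox ⟨⟨0, 1, 1⟩, ⟨99, 100, 165⟩, ⟨20, 49, 400⟩, ⟨315, 376, 100⟩⟩ (mid5.hKL true) :=
  posBox_of_check (c := ⟨305, ⟨5, 10, 12, 9⟩⟩) (by decide +kernel)

def mid5_wU1 : PosBox ⟨⟨0, 1, 1⟩, ⟨99, 100, 165⟩, ⟨20, 49, 400⟩, ⟨315, 376, 100⟩⟩ (mid5.hWU true) :=
  posBox_of_check (c := ⟨332, ⟨5, 12, 13, 9⟩⟩) (by decide +kernel)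

def mid5_wL1 : PosBox ⟨⟨0, 1, 1⟩, ⟨99, 100, 165⟩, ⟨20, 49, 400⟩, ⟨315, 376, 100⟩⟩ (mid5.hWL true) :=
  posBox_of_check (c := ⟨331, ⟨5, 12, 13, 9⟩⟩) (by decide +kernel)

def mid5_pV1 : PosBox ⟨⟨0, 1, 1⟩, ⟨99, 100, 165⟩, ⟨20, 49, 400⟩, ⟨315, 376, 100⟩⟩ (({ mid5 with pU := mid5PU } : Piece).hPU true) :=
  posBox_of_check (c := ⟨312, ⟨5, 10, 12, 9⟩⟩) (by decide +kernel)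

def mid5_nueL : PosBox ⟨⟨0, 1, 1⟩, ⟨99, 100, 165⟩, ⟨20, 49, 400⟩, ⟨315, 376, 100⟩⟩ (mid5.eL.ν) :=
  posBox_of_check (c := ⟨44, ⟨0, 0, 1, 1⟩⟩) (by decide +kernel)

def mid5_nueH : PosBox ⟨⟨0, 1, 1⟩, ⟨99, 100, 165⟩, ⟨20, 49, 400⟩, ⟨315, 376, 100⟩⟩ (mid5.eH.ν) :=
  posBox_of_check (c := ⟨44, ⟨0, 0, 1, 1⟩⟩) (by decide +kernel)

def mid5_nupU : PosBox ⟨⟨0, 1, 1⟩, ⟨99, 100, 165⟩, ⟨20, 49, 400⟩, ⟨315, 376, 100⟩⟩ (mid5.pU.ν) :=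
  posBox_of_check (c := ⟨44, ⟨0, 0, 1, 1⟩⟩) (by decide +kernel)

def mid5_nupU2 : PosBox ⟨⟨0, 1, 1⟩, ⟨99, 100, 165⟩, ⟨20, 49, 400⟩, ⟨315, 376, 100⟩⟩ (mid5PU.ν) :=
  posBox_of_check (c := ⟨44, ⟨0, 0, 1, 1⟩⟩) (by decide +kernel)

def mid5_nukU : PosBox ⟨⟨0, 1, 1⟩, ⟨99, 100, 165⟩, ⟨20, 49, 400⟩, ⟨315, 376, 100⟩⟩ (mid5.kU.ν) :=
  posBox_of_check (c := ⟨40, ⟨0, 0, 1, 1⟩⟩) (by decide +kernel)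

def mid5_nukL : PosBox ⟨⟨0, 1, 1⟩, ⟨99, 100, 165⟩, ⟨20, 49, 400⟩, ⟨315, 376, 100⟩⟩ (mid5.kL.ν) :=
  posBox_of_check (c := ⟨37, ⟨0, 0, 1, 1⟩⟩) (by decide +kernel)

def mid5_nuwU : PosBox ⟨⟨0, 1, 1⟩, ⟨99, 100, 165⟩, ⟨20, 49, 400⟩, ⟨315, 376, 100⟩⟩ (mid5.wU.ν) :=
  posBox_of_check (c := ⟨40, ⟨0, 0, 1, 1⟩⟩) (by decide +kernel)

def mid5_nuwL : PosBox ⟨⟨0, 1, 1⟩, ⟨99, 100, 165⟩, ⟨20, 49, 400⟩, ⟨315, 376, 100⟩⟩ (mid5.wL.ν) :=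
  posBox_of_check (c := ⟨39, ⟨0, 0, 1, 1⟩⟩) (by decide +kernel)

/-- The checks on the bounds. -/
theorem mid5_env : mid5.Env ⟨⟨0, 1, 1⟩, ⟨99, 100, 165⟩, ⟨20, 49, 400⟩, ⟨315, 376, 100⟩⟩ where
  p0 := mid5_p0
  den := Bool.forall_bool.2 ⟨mid5_den0, mid5_den1⟩
  gn := mid5_gn
  ev := Bool.forall_bool.2 ⟨mid5_ev0, mid5_ev1⟩
  eL := Bool.forall_bool.2 ⟨mid5_eL0, mid5_eL1⟩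
  eL' := ⟨.inr rfl, .inl mid5_nueL⟩
  eH := Bool.forall_bool.2 ⟨mid5_eH0, mid5_eH1⟩
  eH' := ⟨.inr rfl, .inl mid5_nueH⟩
  pL := Bool.forall_bool.2 ⟨mid5_pL0, mid5_pL1⟩
  pL' := ⟨.inr rfl, .inr rfl⟩
  pU := Bool.forall_bool.2 ⟨mid5_pU0, mid5_pU1⟩
  pU' := ⟨.inr rfl, .inl mid5_nupU⟩
  kU := Bool.forall_bool.2 ⟨mid5_kU0, mid5_kU1⟩
  kU' := ⟨.inr rfl, .inl mid5_nukU⟩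
  kL := Bool.forall_bool.2 ⟨mid5_kL0, mid5_kL1⟩
  kL' := ⟨.inr rfl, .inl mid5_nukL⟩
  wU := Bool.forall_bool.2 ⟨mid5_wU0, mid5_wU1⟩
  wU' := ⟨.inr rfl, .inl mid5_nuwU⟩
  wL := Bool.forall_bool.2 ⟨mid5_wL0, mid5_wL1⟩
  wL' := ⟨.inr rfl, .inl mid5_nuwL⟩

/-- The checks with the bound above the cut. -/
theorem mid5_envU : ({ mid5 with pU := mid5PU } : Piece).Env ⟨⟨0, 1, 1⟩, ⟨99, 100, 165⟩, ⟨20, 49, 400⟩, ⟨315, 376, 100⟩⟩ :=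
  mid5_env.withU mid5PU (Bool.forall_bool.2 ⟨mid5_pV0, mid5_pV1⟩) ⟨.inr rfl, .inl mid5_nupU2⟩

end Vale.Agent.P100.Calib.Closed.High
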