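import Vale.Agent.P100.Calib.SlabHighData

/-!
# Checks of the bounds of a piece of the tail
-/

set_option linter.defProp false

namespace Vale.Agent.P100.Calib.Closed.High

open BoxPos Large

def mid6_p0_0 : PosBox ⟨⟨0, 1, 1⟩, ⟨99, 100, 165⟩, ⟨20, 34, 400⟩, ⟨376, 412, 100⟩⟩ (mid6.hP0) :=
  posBox_of_check (c := ⟨66, ⟨0, 2, 3, 1⟩⟩) (by decide +kernel)

def mid6_p0_1_0_0 : PosBox ⟨⟨0, 1, 1⟩, ⟨99, 100, 165⟩, ⟨34, 37, 400⟩, ⟨376, 412, 100⟩⟩ (mid6.hP0) :=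
  posBox_of_check (c := ⟨66, ⟨0, 2, 3, 1⟩⟩) (by decide +kernel)

def mid6_p0_1_0_1_0 : PosBox ⟨⟨0, 1, 1⟩, ⟨99, 100, 165⟩, ⟨37, 39, 400⟩, ⟨376, 412, 100⟩⟩ (mid6.hP0) :=
  posBox_of_check (c := ⟨66, ⟨0, 2, 3, 1⟩⟩) (by decide +kernel)

def mid6_p0_1_0_1_1 : PosBox ⟨⟨0, 1, 1⟩, ⟨99, 100, 165⟩, ⟨39, 41, 400⟩, ⟨376, 412, 100⟩⟩ (mid6.hP0) :=
  posBox_of_check (c := ⟨66, ⟨0, 2, 3, 1⟩⟩) (by decide +kernel)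

theorem mid6_p0_1_0_1 : PosBox ⟨⟨0, 1, 1⟩, ⟨99, 100, 165⟩, ⟨37, 41, 400⟩, ⟨376, 412, 100⟩⟩ (mid6.hP0) :=
  posBox_join₂ mid6_p0_1_0_1_0 mid6_p0_1_0_1_1

theorem mid6_p0_1_0 : PosBox ⟨⟨0, 1, 1⟩, ⟨99, 100, 165⟩, ⟨34, 41, 400⟩, ⟨376, 412, 100⟩⟩ (mid6.hP0) :=
  posBox_join₂ mid6_p0_1_0_0 mid6_p0_1_0_1

def mid6_p0_1_1 : PosBox ⟨⟨0, 1, 1⟩, ⟨99, 100, 165⟩, ⟨41, 49, 400⟩, ⟨376, 412, 100⟩⟩ (mid6.hP0) :=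
  posBox_of_check (c := ⟨66, ⟨0, 2, 3, 1⟩⟩) (by decide +kernel)

theorem mid6_p0_1 : PosBox ⟨⟨0, 1, 1⟩, ⟨99, 100, 165⟩, ⟨34, 49, 400⟩, ⟨376, 412, 100⟩⟩ (mid6.hP0) :=
  posBox_join₂ mid6_p0_1_0 mid6_p0_1_1

theorem mid6_p0 : PosBox ⟨⟨0, 1, 1⟩, ⟨99, 100, 165⟩, ⟨20, 49, 400⟩, ⟨376, 412, 100⟩⟩ (mid6.hP0) :=
  posBox_join₂ mid6_p0_0 mid6_p0_1

def mid6_gn : PosBox ⟨⟨0, 1, 1⟩, ⟨99, 100, 165⟩, ⟨20, 49, 400⟩, ⟨376, 412, 100⟩⟩ (mid6.hGn) :=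
  posBox_of_check (c := ⟨55, ⟨1, 1, 2, 2⟩⟩) (by decide +kernel)

def mid6_phi : PosBox ⟨⟨0, 1, 1⟩, ⟨99, 100, 165⟩, ⟨20, 49, 400⟩, ⟨376, 412, 100⟩⟩ (midPhi mid6.u₁ xV) :=
  posBox_of_check (c := ⟨89, ⟨0, 0, 4, 3⟩⟩) (by decide +kernel)

def mid6_den0 : PosBox ⟨⟨0, 1, 1⟩, ⟨99, 100, 165⟩, ⟨20, 49, 400⟩, ⟨376, 412, 100⟩⟩ (mid6.hDen false) :=
  posBox_of_check (c := ⟨74, ⟨2, 0, 4, 2⟩⟩) (by decide +kernel)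

def mid6_den1 : PosBox ⟨⟨0, 1, 1⟩, ⟨99, 100, 165⟩, ⟨20, 49, 400⟩, ⟨376, 412, 100⟩⟩ (mid6.hDen true) :=
  posBox_of_check (c := ⟨88, ⟨2, 0, 4, 2⟩⟩) (by decide +kernel)

def mid6_none0 : PosBox ⟨⟨0, 1, 1⟩, ⟨99, 100, 165⟩, ⟨20, 49, 400⟩, ⟨376, 412, 100⟩⟩ (mid6.hNone false) :=
  posBox_of_check (c := ⟨238, ⟨5, 6, 10, 6⟩⟩) (by decide +kernel)

def mid6_none1 : PosBox ⟨⟨0, 1, 1⟩, ⟨99, 100, 165⟩, ⟨20, 49, 400⟩, ⟨376, 412, 100⟩⟩ (mid6.hNone true) :=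
  posBox_of_check (c := ⟨282, ⟨5, 6, 12, 7⟩⟩) (by decide +kernel)

def mid6_nupU : PosBox ⟨⟨0, 1, 1⟩, ⟨99, 100, 165⟩, ⟨20, 49, 400⟩, ⟨376, 412, 100⟩⟩ (mid6.pU.ν) :=
  posBox_of_check (c := ⟨18, ⟨0, 0, 0, 0⟩⟩) (by decide +kernel)

/-- No point in the piece. -/
theorem mid6_empty : mid6.Empty ⟨⟨0, 1, 1⟩, ⟨99, 100, 165⟩, ⟨20, 49, 400⟩, ⟨376, 412, 100⟩⟩ :=
  ⟨mid6_p0, Bool.forall_bool.2 ⟨mid6_den0, mid6_den1⟩, mid6_gn, ⟨.inr rfl, .inl mid6_nupU⟩, Bool.forall_bool.2 ⟨mid6_none0, mid6_none1⟩⟩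

end Vale.Agent.P100.Calib.Closed.High
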