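import Vale.Agent.P100.Calib.SlabHighData

/-!
# Checks of the signs of a piece of the tail
-/

set_option linter.defProp false

namespace Vale.Agent.P100.Calib.Closed.High

open BoxPos Large

def mid1_vG : PosBox ⟨⟨0, 1, 1⟩, ⟨99, 100, 165⟩, ⟨20, 49, 400⟩, ⟨40, 110, 100⟩⟩ (hVG) :=
  posBox_of_check (c := ⟨147, ⟨0, 5, 8, 3⟩⟩) (by decide +kernel)

def mid1_vMG : PosBox ⟨⟨0, 1, 1⟩, ⟨99, 100, 165⟩, ⟨20, 49, 400⟩, ⟨40, 110, 100⟩⟩ (hVMG) :=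
  posBox_of_check (c := ⟨149, ⟨0, 4, 8, 4⟩⟩) (by decide +kernel)

def mid1_ak : PosBox ⟨⟨0, 1, 1⟩, ⟨99, 100, 165⟩, ⟨20, 49, 400⟩, ⟨40, 110, 100⟩⟩ (hAk) :=
  posBox_of_check (c := ⟨138, ⟨0, 4, 6, 4⟩⟩) (by decide +kernel)

def mid1_aw : PosBox ⟨⟨0, 1, 1⟩, ⟨99, 100, 165⟩, ⟨20, 49, 400⟩, ⟨40, 110, 100⟩⟩ (hAw) :=
  posBox_of_check (c := ⟨143, ⟨0, 5, 7, 3⟩⟩) (by decide +kernel)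

def mid1_gk : PosBox ⟨⟨0, 1, 1⟩, ⟨99, 100, 165⟩, ⟨20, 49, 400⟩, ⟨40, 110, 100⟩⟩ (hGk) :=
  posBox_of_check (c := ⟨138, ⟨0, 4, 6, 4⟩⟩) (by decide +kernel)

def mid1_gw : PosBox ⟨⟨0, 1, 1⟩, ⟨99, 100, 165⟩, ⟨20, 49, 400⟩, ⟨40, 110, 100⟩⟩ (hGw) :=
  posBox_of_check (c := ⟨143, ⟨0, 5, 7, 3⟩⟩) (by decide +kernel)

def mid1_ek : PosBox ⟨⟨0, 1, 1⟩, ⟨99, 100, 165⟩, ⟨20, 49, 400⟩, ⟨40, 110, 100⟩⟩ (hMk) :=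
  posBox_of_check (c := ⟨79, ⟨0, 2, 3, 3⟩⟩) (by decide +kernel)

def mid1_ew : PosBox ⟨⟨0, 1, 1⟩, ⟨99, 100, 165⟩, ⟨20, 49, 400⟩, ⟨40, 110, 100⟩⟩ (hMw) :=
  posBox_of_check (c := ⟨83, ⟨0, 3, 4, 2⟩⟩) (by decide +kernel)

def mid1_pp : PosBox ⟨⟨0, 1, 1⟩, ⟨99, 100, 165⟩, ⟨20, 49, 400⟩, ⟨40, 110, 100⟩⟩ (mid1.xPL) :=
  posBox_of_check (c := ⟨50, ⟨1, 1, 2, 1⟩⟩) (by decide +kernel)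

def mid1_k2p : PosBox ⟨⟨0, 1, 1⟩, ⟨99, 100, 165⟩, ⟨20, 49, 400⟩, ⟨40, 110, 100⟩⟩ (mid1.k2p mid1.xE) :=
  posBox_of_check (c := ⟨61, ⟨1, 1, 1, 1⟩⟩) (by decide +kernel)

def mid1_k2m : PosBox ⟨⟨0, 1, 1⟩, ⟨99, 100, 165⟩, ⟨20, 49, 400⟩, ⟨40, 110, 100⟩⟩ (mid1.k2m mid1.xE) :=
  posBox_of_check (c := ⟨58, ⟨1, 1, 1, 1⟩⟩) (by decide +kernel)

def mid1_v2p : PosBox ⟨⟨0, 1, 1⟩, ⟨99, 100, 165⟩, ⟨20, 49, 400⟩, ⟨40, 110, 100⟩⟩ (mid1.hV2p) :=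
  posBox_of_check (c := ⟨208, ⟨1, 6, 10, 5⟩⟩) (by decide +kernel)

def mid1_v2m : PosBox ⟨⟨0, 1, 1⟩, ⟨99, 100, 165⟩, ⟨20, 49, 400⟩, ⟨40, 110, 100⟩⟩ (mid1.hV2m) :=
  posBox_of_check (c := ⟨204, ⟨1, 6, 10, 5⟩⟩) (by decide +kernel)

def mid1_v3p : PosBox ⟨⟨0, 1, 1⟩, ⟨99, 100, 165⟩, ⟨20, 49, 400⟩, ⟨40, 110, 100⟩⟩ (mid1.hV3p) :=
  posBox_of_check (c := ⟨187, ⟨1, 6, 9, 4⟩⟩) (by decide +kernel)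

def mid1_v3m : PosBox ⟨⟨0, 1, 1⟩, ⟨99, 100, 165⟩, ⟨20, 49, 400⟩, ⟨40, 110, 100⟩⟩ (mid1.hV3m) :=
  posBox_of_check (c := ⟨185, ⟨1, 6, 9, 4⟩⟩) (by decide +kernel)

def mid1_kap0 : PosBox ⟨⟨0, 1, 1⟩, ⟨99, 100, 165⟩, ⟨20, 49, 400⟩, ⟨40, 110, 100⟩⟩ (mid1.kap false) :=
  posBox_of_check (c := ⟨61, ⟨1, 1, 1, 1⟩⟩) (by decide +kernel)

def mid1_tg0 : PosBox ⟨⟨0, 1, 1⟩, ⟨99, 100, 165⟩, ⟨20, 49, 400⟩, ⟨40, 110, 100⟩⟩ (mid1.hG (mid1.pEnd false)) :=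
  posBox_of_check (c := ⟨240, ⟨2, 7, 12, 6⟩⟩) (by decide +kernel)

def mid1_c2p0 : PosBox ⟨⟨0, 1, 1⟩, ⟨99, 100, 165⟩, ⟨20, 49, 400⟩, ⟨40, 110, 100⟩⟩ (mid1.hC2p (mid1.pEnd false)) :=
  posBox_of_check (c := ⟨300, ⟨3, 8, 14, 7⟩⟩) (by decide +kernel)

def mid1_c2m0 : PosBox ⟨⟨0, 1, 1⟩, ⟨99, 100, 165⟩, ⟨20, 49, 400⟩, ⟨40, 110, 100⟩⟩ (mid1.hC2m (mid1.pEnd false)) :=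
  posBox_of_check (c := ⟨297, ⟨3, 8, 14, 7⟩⟩) (by decide +kernel)

def mid1_c10 : PosBox ⟨⟨0, 1, 1⟩, ⟨99, 100, 165⟩, ⟨20, 49, 400⟩, ⟨40, 110, 100⟩⟩ (mid1.hC1 false) :=
  posBox_of_check (c := ⟨188, ⟨3, 5, 8, 5⟩⟩) (by decide +kernel)

def mid1_c3p0 : PosBox ⟨⟨0, 1, 1⟩, ⟨99, 100, 165⟩, ⟨20, 49, 400⟩, ⟨40, 110, 100⟩⟩ (mid1.hC3p false) :=
  posBox_of_check (c := ⟨284, ⟨3, 8, 13, 6⟩⟩) (by decide +kernel)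

def mid1_c3m0 : PosBox ⟨⟨0, 1, 1⟩, ⟨99, 100, 165⟩, ⟨20, 49, 400⟩, ⟨40, 110, 100⟩⟩ (mid1.hC3m false) :=
  posBox_of_check (c := ⟨283, ⟨3, 8, 13, 6⟩⟩) (by decide +kernel)

def mid1_tmg0 : PosBox ⟨⟨0, 1, 1⟩, ⟨99, 100, 165⟩, ⟨20, 49, 400⟩, ⟨40, 110, 100⟩⟩ (mid1.hTMG (mid1.pEnd false)) :=
  posBox_of_check (c := ⟨253, ⟨2, 7, 12, 6⟩⟩) (by decide +kernel)

def mid1_neg0 : PosBox ⟨⟨0, 1, 1⟩, ⟨99, 100, 165⟩, ⟨20, 49, 400⟩, ⟨40, 110, 100⟩⟩ (mid1.hNeg (mid1.pEnd false)) :=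
  posBox_of_check (c := ⟨175, ⟨2, 5, 8, 5⟩⟩) (by decide +kernel)

def mid1_neglo0 : PosBox ⟨⟨0, 1, 1⟩, ⟨99, 100, 165⟩, ⟨20, 49, 400⟩, ⟨40, 110, 100⟩⟩ (mid1.hNegLo (mid1.pEnd false)) :=
  posBox_of_check (c := ⟨175, ⟨2, 5, 8, 5⟩⟩) (by decide +kernel)

def mid1_kap1 : PosBox ⟨⟨0, 1, 1⟩, ⟨99, 100, 165⟩, ⟨20, 49, 400⟩, ⟨40, 110, 100⟩⟩ (mid1.kap true) :=
  posBox_of_check (c := ⟨63, ⟨1, 1, 1, 1⟩⟩) (by decide +kernel)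

def mid1_tg1 : PosBox ⟨⟨0, 1, 1⟩, ⟨99, 100, 165⟩, ⟨20, 49, 400⟩, ⟨40, 110, 100⟩⟩ (mid1.hG (mid1.pEnd true)) :=
  posBox_of_check (c := ⟨283, ⟨2, 7, 12, 7⟩⟩) (by decide +kernel)

def mid1_c2p1 : PosBox ⟨⟨0, 1, 1⟩, ⟨99, 100, 165⟩, ⟨20, 49, 400⟩, ⟨40, 110, 100⟩⟩ (mid1.hC2p (mid1.pEnd true)) :=
  posBox_of_check (c := ⟨344, ⟨3, 8, 14, 9⟩⟩) (by decide +kernel)

def mid1_c2m1 : PosBox ⟨⟨0, 1, 1⟩, ⟨99, 100, 165⟩, ⟨20, 49, 400⟩, ⟨40, 110, 100⟩⟩ (mid1.hC2m (mid1.pEnd true)) :=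
  posBox_of_check (c := ⟨341, ⟨3, 8, 14, 9⟩⟩) (by decide +kernel)

def mid1_c11_0 : PosBox ⟨⟨0, 1, 2⟩, ⟨99, 100, 165⟩, ⟨20, 49, 400⟩, ⟨40, 110, 100⟩⟩ (mid1.hC1 true) :=
  posBox_of_check (c := ⟨211, ⟨3, 5, 8, 6⟩⟩) (by decide +kernel)

def mid1_c11_1 : PosBox ⟨⟨1, 2, 2⟩, ⟨99, 100, 165⟩, ⟨20, 49, 400⟩, ⟨40, 110, 100⟩⟩ (mid1.hC1 true) :=
  posBox_of_check (c := ⟨212, ⟨3, 5, 8, 6⟩⟩) (by decide +kernel)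

def mid1_c11 : PosBox ⟨⟨0, 1, 1⟩, ⟨99, 100, 165⟩, ⟨20, 49, 400⟩, ⟨40, 110, 100⟩⟩ (mid1.hC1 true) :=
  posBox_units (b := ⟨⟨0, 2, 2⟩, ⟨99, 100, 165⟩, ⟨20, 49, 400⟩, ⟨40, 110, 100⟩⟩) (by decide +kernel) (posBox_join₀ mid1_c11_0 mid1_c11_1)

def mid1_c3p1 : PosBox ⟨⟨0, 1, 1⟩, ⟨99, 100, 165⟩, ⟨20, 49, 400⟩, ⟨40, 110, 100⟩⟩ (mid1.hC3p true) :=
  posBox_of_check (c := ⟨327, ⟨3, 8, 13, 8⟩⟩) (by decide +kernel)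

def mid1_c3m1 : PosBox ⟨⟨0, 1, 1⟩, ⟨99, 100, 165⟩, ⟨20, 49, 400⟩, ⟨40, 110, 100⟩⟩ (mid1.hC3m true) :=
  posBox_of_check (c := ⟨326, ⟨3, 8, 13, 8⟩⟩) (by decide +kernel)

def mid1_tmg1 : PosBox ⟨⟨0, 1, 1⟩, ⟨99, 100, 165⟩, ⟨20, 49, 400⟩, ⟨40, 110, 100⟩⟩ (mid1.hTMG (mid1.pEnd true)) :=
  posBox_of_check (c := ⟨295, ⟨2, 7, 12, 8⟩⟩) (by decide +kernel)

def mid1_neg1 : PosBox ⟨⟨0, 1, 1⟩, ⟨99, 100, 165⟩, ⟨20, 49, 400⟩, ⟨40, 110, 100⟩⟩ (mid1.hNeg (mid1.pEnd true)) :=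
  posBox_of_check (c := ⟨197, ⟨2, 5, 8, 6⟩⟩) (by decide +kernel)

def mid1_neglo1 : PosBox ⟨⟨0, 1, 1⟩, ⟨99, 100, 165⟩, ⟨20, 49, 400⟩, ⟨40, 110, 100⟩⟩ (mid1.hNegLo (mid1.pEnd true)) :=
  posBox_of_check (c := ⟨197, ⟨2, 5, 8, 6⟩⟩) (by decide +kernel)

/-- The checks on the signs. -/
theorem mid1_sign : mid1.Sign ⟨⟨0, 1, 1⟩, ⟨99, 100, 165⟩, ⟨20, 49, 400⟩, ⟨40, 110, 100⟩⟩ where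
  pp := mid1_pp
  k2p := mid1_k2p
  k2m := mid1_k2m
  v2p := mid1_v2p
  v2m := mid1_v2m
  v3p := mid1_v3p
  v3m := mid1_v3m
  tg := Bool.forall_bool.2 ⟨mid1_tg0, mid1_tg1⟩
  c2p := Bool.forall_bool.2 ⟨mid1_c2p0, mid1_c2p1⟩
  c2m := Bool.forall_bool.2 ⟨mid1_c2m0, mid1_c2m1⟩
  kap := Bool.forall_bool.2 ⟨mid1_kap0, mid1_kap1⟩
  c1 := Bool.forall_bool.2 ⟨mid1_c10, mid1_c11⟩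
  c3p := Bool.forall_bool.2 ⟨mid1_c3p0, mid1_c3p1⟩
  c3m := Bool.forall_bool.2 ⟨mid1_c3m0, mid1_c3m1⟩
  tmg := Bool.forall_bool.2 ⟨mid1_tmg0, mid1_tmg1⟩
  high := .inl (Bool.forall_bool.2 ⟨⟨mid1_neg0, mid1_neglo0⟩, ⟨mid1_neg1, mid1_neglo1⟩⟩)
  vG := mid1_vG
  vMG := mid1_vMG
  ak := mid1_ak
  aw := mid1_aw
  gk := mid1_gk
  gw := mid1_gw
  ek := mid1_ek
  ew := mid1_ew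

end Vale.Agent.P100.Calib.Closed.High
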