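import Vale.Agent.P100.Calib.SlabHighData

/-!
# Checks of the signs of a piece of the tail
-/

set_option linter.defProp false

namespace Vale.Agent.P100.Calib.Closed.High

open BoxPos Large

def mid2_vG : PosBox ⟨⟨0, 1, 1⟩, ⟨99, 100, 165⟩, ⟨20, 49, 400⟩, ⟨110, 140, 100⟩⟩ (hVG) :=
  posBox_of_check (c := ⟨147, ⟨0, 5, 8, 3⟩⟩) (by decide +kernel)

def mid2_vMG : PosBox ⟨⟨0, 1, 1⟩, ⟨99, 100, 165⟩, ⟨20, 49, 400⟩, ⟨110, 140, 100⟩⟩ (hVMG) :=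
  posBox_of_check (c := ⟨149, ⟨0, 4, 8, 4⟩⟩) (by decide +kernel)

def mid2_ak : PosBox ⟨⟨0, 1, 1⟩, ⟨99, 100, 165⟩, ⟨20, 49, 400⟩, ⟨110, 140, 100⟩⟩ (hAk) :=
  posBox_of_check (c := ⟨140, ⟨0, 4, 6, 4⟩⟩) (by decide +kernel)

def mid2_aw : PosBox ⟨⟨0, 1, 1⟩, ⟨99, 100, 165⟩, ⟨20, 49, 400⟩, ⟨110, 140, 100⟩⟩ (hAw) :=
  posBox_of_check (c := ⟨144, ⟨0, 5, 7, 3⟩⟩) (by decide +kernel)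

def mid2_gk : PosBox ⟨⟨0, 1, 1⟩, ⟨99, 100, 165⟩, ⟨20, 49, 400⟩, ⟨110, 140, 100⟩⟩ (hGk) :=
  posBox_of_check (c := ⟨140, ⟨0, 4, 6, 4⟩⟩) (by decide +kernel)

def mid2_gw : PosBox ⟨⟨0, 1, 1⟩, ⟨99, 100, 165⟩, ⟨20, 49, 400⟩, ⟨110, 140, 100⟩⟩ (hGw) :=
  posBox_of_check (c := ⟨144, ⟨0, 5, 7, 3⟩⟩) (by decide +kernel)

def mid2_ek : PosBox ⟨⟨0, 1, 1⟩, ⟨99, 100, 165⟩, ⟨20, 49, 400⟩, ⟨110, 140, 100⟩⟩ (hMk) :=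
  posBox_of_check (c := ⟨80, ⟨0, 2, 3, 3⟩⟩) (by decide +kernel)

def mid2_ew : PosBox ⟨⟨0, 1, 1⟩, ⟨99, 100, 165⟩, ⟨20, 49, 400⟩, ⟨110, 140, 100⟩⟩ (hMw) :=
  posBox_of_check (c := ⟨84, ⟨0, 3, 4, 2⟩⟩) (by decide +kernel)

def mid2_pp : PosBox ⟨⟨0, 1, 1⟩, ⟨99, 100, 165⟩, ⟨20, 49, 400⟩, ⟨110, 140, 100⟩⟩ (mid2.xPL) :=
  posBox_of_check (c := ⟨73, ⟨1, 1, 2, 2⟩⟩) (by decide +kernel)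

def mid2_k2p : PosBox ⟨⟨0, 1, 1⟩, ⟨99, 100, 165⟩, ⟨20, 49, 400⟩, ⟨110, 140, 100⟩⟩ (mid2.k2p mid2.xE) :=
  posBox_of_check (c := ⟨61, ⟨1, 1, 1, 1⟩⟩) (by decide +kernel)

def mid2_k2m : PosBox ⟨⟨0, 1, 1⟩, ⟨99, 100, 165⟩, ⟨20, 49, 400⟩, ⟨110, 140, 100⟩⟩ (mid2.k2m mid2.xE) :=
  posBox_of_check (c := ⟨26, ⟨0, 0, 1, 1⟩⟩) (by decide +kernel)

def mid2_v2p : PosBox ⟨⟨0, 1, 1⟩, ⟨99, 100, 165⟩, ⟨20, 49, 400⟩, ⟨110, 140, 100⟩⟩ (mid2.hV2p) :=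
  posBox_of_check (c := ⟨207, ⟨1, 6, 10, 5⟩⟩) (by decide +kernel)

def mid2_v2m : PosBox ⟨⟨0, 1, 1⟩, ⟨99, 100, 165⟩, ⟨20, 49, 400⟩, ⟨110, 140, 100⟩⟩ (mid2.hV2m) :=
  posBox_of_check (c := ⟨183, ⟨0, 5, 10, 5⟩⟩) (by decide +kernel)

def mid2_v3p : PosBox ⟨⟨0, 1, 1⟩, ⟨99, 100, 165⟩, ⟨20, 49, 400⟩, ⟨110, 140, 100⟩⟩ (mid2.hV3p) :=
  posBox_of_check (c := ⟨187, ⟨1, 6, 9, 4⟩⟩) (by decide +kernel)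

def mid2_v3m : PosBox ⟨⟨0, 1, 1⟩, ⟨99, 100, 165⟩, ⟨20, 49, 400⟩, ⟨110, 140, 100⟩⟩ (mid2.hV3m) :=
  posBox_of_check (c := ⟨166, ⟨0, 5, 9, 4⟩⟩) (by decide +kernel)

def mid2_kap0 : PosBox ⟨⟨0, 1, 1⟩, ⟨99, 100, 165⟩, ⟨20, 49, 400⟩, ⟨110, 140, 100⟩⟩ (mid2.kap false) :=
  posBox_of_check (c := ⟨64, ⟨1, 1, 1, 1⟩⟩) (by decide +kernel)

def mid2_tg0 : PosBox ⟨⟨0, 1, 1⟩, ⟨99, 100, 165⟩, ⟨20, 49, 400⟩, ⟨110, 140, 100⟩⟩ (mid2.hG (mid2.pEnd false)) :=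
  posBox_of_check (c := ⟨283, ⟨2, 7, 12, 7⟩⟩) (by decide +kernel)

def mid2_c2p0 : PosBox ⟨⟨0, 1, 1⟩, ⟨99, 100, 165⟩, ⟨20, 49, 400⟩, ⟨110, 140, 100⟩⟩ (mid2.hC2p (mid2.pEnd false)) :=
  posBox_of_check (c := ⟨344, ⟨3, 8, 14, 9⟩⟩) (by decide +kernel)

def mid2_c2m0_0 : PosBox ⟨⟨0, 1, 2⟩, ⟨99, 100, 165⟩, ⟨20, 49, 400⟩, ⟨110, 140, 100⟩⟩ (mid2.hC2m (mid2.pEnd false)) :=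
  posBox_of_check (c := ⟨324, ⟨2, 7, 14, 9⟩⟩) (by decide +kernel)

def mid2_c2m0_1_0_0 : PosBox ⟨⟨4, 5, 8⟩, ⟨99, 100, 165⟩, ⟨20, 49, 400⟩, ⟨110, 140, 100⟩⟩ (mid2.hC2m (mid2.pEnd false)) :=
  posBox_of_check (c := ⟨329, ⟨2, 7, 14, 9⟩⟩) (by decide +kernel)

def mid2_c2m0_1_0_1_0 : PosBox ⟨⟨10, 11, 16⟩, ⟨99, 100, 165⟩, ⟨20, 49, 400⟩, ⟨110, 140, 100⟩⟩ (mid2.hC2m (mid2.pEnd false)) :=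
  posBox_of_check (c := ⟨331, ⟨2, 7, 14, 9⟩⟩) (by decide +kernel)

def mid2_c2m0_1_0_1_1 : PosBox ⟨⟨11, 12, 16⟩, ⟨99, 100, 165⟩, ⟨20, 49, 400⟩, ⟨110, 140, 100⟩⟩ (mid2.hC2m (mid2.pEnd false)) :=
  posBox_of_check (c := ⟨331, ⟨2, 7, 14, 9⟩⟩) (by decide +kernel)

def mid2_c2m0_1_0_1 : PosBox ⟨⟨5, 6, 8⟩, ⟨99, 100, 165⟩, ⟨20, 49, 400⟩, ⟨110, 140, 100⟩⟩ (mid2.hC2m (mid2.pEnd false)) :=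
  posBox_units (b := ⟨⟨10, 12, 16⟩, ⟨99, 100, 165⟩, ⟨20, 49, 400⟩, ⟨110, 140, 100⟩⟩) (by decide +kernel) (posBox_join₀ mid2_c2m0_1_0_1_0 mid2_c2m0_1_0_1_1)

def mid2_c2m0_1_0 : PosBox ⟨⟨2, 3, 4⟩, ⟨99, 100, 165⟩, ⟨20, 49, 400⟩, ⟨110, 140, 100⟩⟩ (mid2.hC2m (mid2.pEnd false)) :=
  posBox_units (b := ⟨⟨4, 6, 8⟩, ⟨99, 100, 165⟩, ⟨20, 49, 400⟩, ⟨110, 140, 100⟩⟩) (by decide +kernel) (posBox_join₀ mid2_c2m0_1_0_0 mid2_c2m0_1_0_1)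

def mid2_c2m0_1_1 : PosBox ⟨⟨3, 4, 4⟩, ⟨99, 100, 165⟩, ⟨20, 49, 400⟩, ⟨110, 140, 100⟩⟩ (mid2.hC2m (mid2.pEnd false)) :=
  posBox_of_check (c := ⟨327, ⟨2, 7, 14, 9⟩⟩) (by decide +kernel)

def mid2_c2m0_1 : PosBox ⟨⟨1, 2, 2⟩, ⟨99, 100, 165⟩, ⟨20, 49, 400⟩, ⟨110, 140, 100⟩⟩ (mid2.hC2m (mid2.pEnd false)) :=
  posBox_units (b := ⟨⟨2, 4, 4⟩, ⟨99, 100, 165⟩, ⟨20, 49, 400⟩, ⟨110, 140, 100⟩⟩) (by decide +kernel) (posBox_join₀ mid2_c2m0_1_0 mid2_c2m0_1_1)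

def mid2_c2m0 : PosBox ⟨⟨0, 1, 1⟩, ⟨99, 100, 165⟩, ⟨20, 49, 400⟩, ⟨110, 140, 100⟩⟩ (mid2.hC2m (mid2.pEnd false)) :=
  posBox_units (b := ⟨⟨0, 2, 2⟩, ⟨99, 100, 165⟩, ⟨20, 49, 400⟩, ⟨110, 140, 100⟩⟩) (by decide +kernel) (posBox_join₀ mid2_c2m0_0 mid2_c2m0_1)

def mid2_c10_0 : PosBox ⟨⟨0, 1, 2⟩, ⟨99, 100, 165⟩, ⟨20, 49, 400⟩, ⟨110, 140, 100⟩⟩ (mid2.hC1 false) :=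
  posBox_of_check (c := ⟨212, ⟨3, 5, 8, 6⟩⟩) (by decide +kernel)

def mid2_c10_1 : PosBox ⟨⟨1, 2, 2⟩, ⟨99, 100, 165⟩, ⟨20, 49, 400⟩, ⟨110, 140, 100⟩⟩ (mid2.hC1 false) :=
  posBox_of_check (c := ⟨213, ⟨3, 5, 8, 6⟩⟩) (by decide +kernel)

def mid2_c10 : PosBox ⟨⟨0, 1, 1⟩, ⟨99, 100, 165⟩, ⟨20, 49, 400⟩, ⟨110, 140, 100⟩⟩ (mid2.hC1 false) :=
  posBox_units (b := ⟨⟨0, 2, 2⟩, ⟨99, 100, 165⟩, ⟨20, 49, 400⟩, ⟨110, 140, 100⟩⟩) (by decide +kernel) (posBox_join₀ mid2_c10_0 mid2_c10_1)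

def mid2_c3p0 : PosBox ⟨⟨0, 1, 1⟩, ⟨99, 100, 165⟩, ⟨20, 49, 400⟩, ⟨110, 140, 100⟩⟩ (mid2.hC3p false) :=
  posBox_of_check (c := ⟨328, ⟨3, 8, 13, 8⟩⟩) (by decide +kernel)

def mid2_c3m0 : PosBox ⟨⟨0, 1, 1⟩, ⟨99, 100, 165⟩, ⟨20, 49, 400⟩, ⟨110, 140, 100⟩⟩ (mid2.hC3m false) :=
  posBox_of_check (c := ⟨311, ⟨3, 7, 13, 8⟩⟩) (by decide +kernel)

def mid2_tmg0 : PosBox ⟨⟨0, 1, 1⟩, ⟨99, 100, 165⟩, ⟨20, 49, 400⟩, ⟨110, 140, 100⟩⟩ (mid2.hTMG (mid2.pEnd false)) :=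
  posBox_of_check (c := ⟨297, ⟨2, 7, 12, 8⟩⟩) (by decide +kernel)

def mid2_c1h0 : PosBox ⟨⟨0, 1, 1⟩, ⟨99, 100, 165⟩, ⟨20, 49, 400⟩, ⟨110, 140, 100⟩⟩ (mid2.hC1' false) :=
  posBox_of_check (c := ⟨212, ⟨3, 5, 8, 6⟩⟩) (by decide +kernel)

def mid2_c3ph0 : PosBox ⟨⟨0, 1, 1⟩, ⟨99, 100, 165⟩, ⟨20, 49, 400⟩, ⟨110, 140, 100⟩⟩ (mid2.hC3p' false) :=
  posBox_of_check (c := ⟨328, ⟨3, 8, 13, 8⟩⟩) (by decide +kernel)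

def mid2_c3mh0 : PosBox ⟨⟨0, 1, 1⟩, ⟨99, 100, 165⟩, ⟨20, 49, 400⟩, ⟨110, 140, 100⟩⟩ (mid2.hC3m' false) :=
  posBox_of_check (c := ⟨311, ⟨3, 7, 13, 8⟩⟩) (by decide +kernel)

def mid2_up0 : PosBox ⟨⟨0, 1, 1⟩, ⟨99, 100, 165⟩, ⟨20, 49, 400⟩, ⟨110, 140, 100⟩⟩ (mid2.hUp false) :=
  posBox_of_check (c := ⟨327, ⟨3, 8, 13, 8⟩⟩) (by decide +kernel)

def mid2_um0 : PosBox ⟨⟨0, 1, 1⟩, ⟨99, 100, 165⟩, ⟨20, 49, 400⟩, ⟨110, 140, 100⟩⟩ (mid2.hUm false) :=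
  posBox_of_check (c := ⟨307, ⟨2, 7, 13, 8⟩⟩) (by decide +kernel)

def mid2_kap1 : PosBox ⟨⟨0, 1, 1⟩, ⟨99, 100, 165⟩, ⟨20, 49, 400⟩, ⟨110, 140, 100⟩⟩ (mid2.kap true) :=
  posBox_of_check (c := ⟨63, ⟨1, 1, 1, 1⟩⟩) (by decide +kernel)

def mid2_tg1 : PosBox ⟨⟨0, 1, 1⟩, ⟨99, 100, 165⟩, ⟨20, 49, 400⟩, ⟨110, 140, 100⟩⟩ (mid2.hG (mid2.pEnd true)) :=
  posBox_of_check (c := ⟨285, ⟨2, 7, 12, 7⟩⟩) (by decide +kernel)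

def mid2_c2p1 : PosBox ⟨⟨0, 1, 1⟩, ⟨99, 100, 165⟩, ⟨20, 49, 400⟩, ⟨110, 140, 100⟩⟩ (mid2.hC2p (mid2.pEnd true)) :=
  posBox_of_check (c := ⟨345, ⟨3, 8, 14, 9⟩⟩) (by decide +kernel)

def mid2_c2m1 : PosBox ⟨⟨0, 1, 1⟩, ⟨99, 100, 165⟩, ⟨20, 49, 400⟩, ⟨110, 140, 100⟩⟩ (mid2.hC2m (mid2.pEnd true)) :=
  posBox_of_check (c := ⟨323, ⟨2, 7, 14, 9⟩⟩) (by decide +kernel)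

def mid2_c11 : PosBox ⟨⟨0, 1, 1⟩, ⟨99, 100, 165⟩, ⟨20, 49, 400⟩, ⟨110, 140, 100⟩⟩ (mid2.hC1 true) :=
  posBox_of_check (c := ⟨212, ⟨3, 5, 8, 6⟩⟩) (by decide +kernel)

def mid2_c3p1 : PosBox ⟨⟨0, 1, 1⟩, ⟨99, 100, 165⟩, ⟨20, 49, 400⟩, ⟨110, 140, 100⟩⟩ (mid2.hC3p true) :=
  posBox_of_check (c := ⟨328, ⟨3, 8, 13, 8⟩⟩) (by decide +kernel)

def mid2_c3m1 : PosBox ⟨⟨0, 1, 1⟩, ⟨99, 100, 165⟩, ⟨20, 49, 400⟩, ⟨110, 140, 100⟩⟩ (mid2.hC3m true) :=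
  posBox_of_check (c := ⟨311, ⟨3, 7, 13, 8⟩⟩) (by decide +kernel)

def mid2_tmg1 : PosBox ⟨⟨0, 1, 1⟩, ⟨99, 100, 165⟩, ⟨20, 49, 400⟩, ⟨110, 140, 100⟩⟩ (mid2.hTMG (mid2.pEnd true)) :=
  posBox_of_check (c := ⟨297, ⟨2, 7, 12, 8⟩⟩) (by decide +kernel)

def mid2_c1h1 : PosBox ⟨⟨0, 1, 1⟩, ⟨99, 100, 165⟩, ⟨20, 49, 400⟩, ⟨110, 140, 100⟩⟩ (mid2.hC1' true) :=
  posBox_of_check (c := ⟨212, ⟨3, 5, 8, 6⟩⟩) (by decide +kernel)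

def mid2_c3ph1 : PosBox ⟨⟨0, 1, 1⟩, ⟨99, 100, 165⟩, ⟨20, 49, 400⟩, ⟨110, 140, 100⟩⟩ (mid2.hC3p' true) :=
  posBox_of_check (c := ⟨328, ⟨3, 8, 13, 8⟩⟩) (by decide +kernel)

def mid2_c3mh1 : PosBox ⟨⟨0, 1, 1⟩, ⟨99, 100, 165⟩, ⟨20, 49, 400⟩, ⟨110, 140, 100⟩⟩ (mid2.hC3m' true) :=
  posBox_of_check (c := ⟨311, ⟨3, 7, 13, 8⟩⟩) (by decide +kernel)

def mid2_up1 : PosBox ⟨⟨0, 1, 1⟩, ⟨99, 100, 165⟩, ⟨20, 49, 400⟩, ⟨110, 140, 100⟩⟩ (mid2.hUp true) :=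
  posBox_of_check (c := ⟨327, ⟨3, 8, 13, 8⟩⟩) (by decide +kernel)

def mid2_um1 : PosBox ⟨⟨0, 1, 1⟩, ⟨99, 100, 165⟩, ⟨20, 49, 400⟩, ⟨110, 140, 100⟩⟩ (mid2.hUm true) :=
  posBox_of_check (c := ⟨307, ⟨2, 7, 13, 8⟩⟩) (by decide +kernel)

/-- The checks on the signs. -/
theorem mid2_sign : mid2.Sign ⟨⟨0, 1, 1⟩, ⟨99, 100, 165⟩, ⟨20, 49, 400⟩, ⟨110, 140, 100⟩⟩ where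
  pp := mid2_pp
  k2p := mid2_k2p
  k2m := mid2_k2m
  v2p := mid2_v2p
  v2m := mid2_v2m
  v3p := mid2_v3p
  v3m := mid2_v3m
  tg := Bool.forall_bool.2 ⟨mid2_tg0, mid2_tg1⟩
  c2p := Bool.forall_bool.2 ⟨mid2_c2p0, mid2_c2p1⟩
  c2m := Bool.forall_bool.2 ⟨mid2_c2m0, mid2_c2m1⟩
  kap := Bool.forall_bool.2 ⟨mid2_kap0, mid2_kap1⟩
  c1 := Bool.forall_bool.2 ⟨mid2_c10, mid2_c11⟩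
  c3p := Bool.forall_bool.2 ⟨mid2_c3p0, mid2_c3p1⟩
  c3m := Bool.forall_bool.2 ⟨mid2_c3m0, mid2_c3m1⟩
  tmg := Bool.forall_bool.2 ⟨mid2_tmg0, mid2_tmg1⟩
  high := .inr (Bool.forall_bool.2 ⟨⟨mid2_c1h0, mid2_c3ph0, mid2_c3mh0, mid2_up0, mid2_um0⟩, ⟨mid2_c1h1, mid2_c3ph1, mid2_c3mh1, mid2_up1, mid2_um1⟩⟩)
  vG := mid2_vG
  vMG := mid2_vMG
  ak := mid2_ak
  aw := mid2_aw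
  gk := mid2_gk
  gw := mid2_gw
  ek := mid2_ek
  ew := mid2_ew

end Vale.Agent.P100.Calib.Closed.High
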