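import Vale.Agent.P100.Calib.SlabHighData

/-!
# Checks of the signs of a piece of the tail
-/

set_option linter.defProp false

namespace Vale.Agent.P100.Calib.Closed.High

open BoxPos Large

def mid3_vG : PosBox ⟨⟨0, 1, 1⟩, ⟨99, 100, 165⟩, ⟨20, 49, 400⟩, ⟨140, 215, 100⟩⟩ (hVG) :=
  posBox_of_check (c := ⟨147, ⟨0, 5, 8, 3⟩⟩) (by decide +kernel)

def mid3_vMG : PosBox ⟨⟨0, 1, 1⟩, ⟨99, 100, 165⟩, ⟨20, 49, 400⟩, ⟨140, 215, 100⟩⟩ (hVMG) :=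
  posBox_of_check (c := ⟨149, ⟨0, 4, 8, 4⟩⟩) (by decide +kernel)

def mid3_ak : PosBox ⟨⟨0, 1, 1⟩, ⟨99, 100, 165⟩, ⟨20, 49, 400⟩, ⟨140, 215, 100⟩⟩ (hAk) :=
  posBox_of_check (c := ⟨141, ⟨0, 4, 6, 4⟩⟩) (by decide +kernel)

def mid3_aw : PosBox ⟨⟨0, 1, 1⟩, ⟨99, 100, 165⟩, ⟨20, 49, 400⟩, ⟨140, 215, 100⟩⟩ (hAw) :=
  posBox_of_check (c := ⟨144, ⟨0, 5, 7, 3⟩⟩) (by decide +kernel)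

def mid3_gk : PosBox ⟨⟨0, 1, 1⟩, ⟨99, 100, 165⟩, ⟨20, 49, 400⟩, ⟨140, 215, 100⟩⟩ (hGk) :=
  posBox_of_check (c := ⟨141, ⟨0, 4, 6, 4⟩⟩) (by decide +kernel)

def mid3_gw : PosBox ⟨⟨0, 1, 1⟩, ⟨99, 100, 165⟩, ⟨20, 49, 400⟩, ⟨140, 215, 100⟩⟩ (hGw) :=
  posBox_of_check (c := ⟨144, ⟨0, 5, 7, 3⟩⟩) (by decide +kernel)

def mid3_ek : PosBox ⟨⟨0, 1, 1⟩, ⟨99, 100, 165⟩, ⟨20, 49, 400⟩, ⟨140, 215, 100⟩⟩ (hMk) :=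
  posBox_of_check (c := ⟨81, ⟨0, 2, 3, 3⟩⟩) (by decide +kernel)

def mid3_ew : PosBox ⟨⟨0, 1, 1⟩, ⟨99, 100, 165⟩, ⟨20, 49, 400⟩, ⟨140, 215, 100⟩⟩ (hMw) :=
  posBox_of_check (c := ⟨84, ⟨0, 3, 4, 2⟩⟩) (by decide +kernel)

def mid3_pp : PosBox ⟨⟨0, 1, 1⟩, ⟨99, 100, 165⟩, ⟨20, 49, 400⟩, ⟨140, 215, 100⟩⟩ (mid3.xPL) :=
  posBox_of_check (c := ⟨77, ⟨1, 1, 3, 3⟩⟩) (by decide +kernel)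

def mid3_k2p : PosBox ⟨⟨0, 1, 1⟩, ⟨99, 100, 165⟩, ⟨20, 49, 400⟩, ⟨140, 215, 100⟩⟩ (mid3.k2p mid3.xE) :=
  posBox_of_check (c := ⟨64, ⟨1, 1, 2, 2⟩⟩) (by decide +kernel)

def mid3_k2m : PosBox ⟨⟨0, 1, 1⟩, ⟨99, 100, 165⟩, ⟨20, 49, 400⟩, ⟨140, 215, 100⟩⟩ (mid3.k2m mid3.xE) :=
  posBox_of_check (c := ⟨27, ⟨0, 0, 1, 1⟩⟩) (by decide +kernel)

def mid3_v2p : PosBox ⟨⟨0, 1, 1⟩, ⟨99, 100, 165⟩, ⟨20, 49, 400⟩, ⟨140, 215, 100⟩⟩ (mid3.hV2p) :=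
  posBox_of_check (c := ⟨209, ⟨1, 6, 10, 5⟩⟩) (by decide +kernel)

def mid3_v2m : PosBox ⟨⟨0, 1, 1⟩, ⟨99, 100, 165⟩, ⟨20, 49, 400⟩, ⟨140, 215, 100⟩⟩ (mid3.hV2m) :=
  posBox_of_check (c := ⟨184, ⟨0, 5, 10, 5⟩⟩) (by decide +kernel)

def mid3_v3p : PosBox ⟨⟨0, 1, 1⟩, ⟨99, 100, 165⟩, ⟨20, 49, 400⟩, ⟨140, 215, 100⟩⟩ (mid3.hV3p) :=
  posBox_of_check (c := ⟨188, ⟨1, 6, 9, 4⟩⟩) (by decide +kernel)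

def mid3_v3m : PosBox ⟨⟨0, 1, 1⟩, ⟨99, 100, 165⟩, ⟨20, 49, 400⟩, ⟨140, 215, 100⟩⟩ (mid3.hV3m) :=
  posBox_of_check (c := ⟨166, ⟨0, 5, 9, 4⟩⟩) (by decide +kernel)

def mid3_kap0 : PosBox ⟨⟨0, 1, 1⟩, ⟨99, 100, 165⟩, ⟨20, 49, 400⟩, ⟨140, 215, 100⟩⟩ (mid3.kap false) :=
  posBox_of_check (c := ⟨68, ⟨1, 1, 2, 2⟩⟩) (by decide +kernel)

def mid3_tg0 : PosBox ⟨⟨0, 1, 1⟩, ⟨99, 100, 165⟩, ⟨20, 49, 400⟩, ⟨140, 215, 100⟩⟩ (mid3.hG (mid3.pEnd false)) :=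
  posBox_of_check (c := ⟨292, ⟨2, 7, 14, 9⟩⟩) (by decide +kernel)

def mid3_c2p0 : PosBox ⟨⟨0, 1, 1⟩, ⟨99, 100, 165⟩, ⟨20, 49, 400⟩, ⟨140, 215, 100⟩⟩ (mid3.hC2p (mid3.pEnd false)) :=
  posBox_of_check (c := ⟨354, ⟨3, 8, 16, 11⟩⟩) (by decide +kernel)

def mid3_c2m0_0 : PosBox ⟨⟨0, 1, 2⟩, ⟨99, 100, 165⟩, ⟨20, 49, 400⟩, ⟨140, 215, 100⟩⟩ (mid3.hC2m (mid3.pEnd false)) :=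
  posBox_of_check (c := ⟨333, ⟨2, 7, 16, 11⟩⟩) (by decide +kernel)

def mid3_c2m0_1 : PosBox ⟨⟨1, 2, 2⟩, ⟨99, 100, 165⟩, ⟨20, 49, 400⟩, ⟨140, 215, 100⟩⟩ (mid3.hC2m (mid3.pEnd false)) :=
  posBox_of_check (c := ⟨334, ⟨2, 7, 16, 11⟩⟩) (by decide +kernel)

def mid3_c2m0 : PosBox ⟨⟨0, 1, 1⟩, ⟨99, 100, 165⟩, ⟨20, 49, 400⟩, ⟨140, 215, 100⟩⟩ (mid3.hC2m (mid3.pEnd false)) :=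
  posBox_units (b := ⟨⟨0, 2, 2⟩, ⟨99, 100, 165⟩, ⟨20, 49, 400⟩, ⟨140, 215, 100⟩⟩) (by decide +kernel) (posBox_join₀ mid3_c2m0_0 mid3_c2m0_1)

def mid3_c10_0 : PosBox ⟨⟨0, 1, 2⟩, ⟨99, 100, 165⟩, ⟨20, 49, 400⟩, ⟨140, 215, 100⟩⟩ (mid3.hC1 false) :=
  posBox_of_check (c := ⟨217, ⟨3, 5, 9, 7⟩⟩) (by decide +kernel)

def mid3_c10_1_0 : PosBox ⟨⟨2, 3, 4⟩, ⟨99, 100, 165⟩, ⟨20, 49, 400⟩, ⟨140, 215, 100⟩⟩ (mid3.hC1 false) :=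
  posBox_of_check (c := ⟨221, ⟨3, 5, 9, 7⟩⟩) (by decide +kernel)

def mid3_c10_1_1 : PosBox ⟨⟨3, 4, 4⟩, ⟨99, 100, 165⟩, ⟨20, 49, 400⟩, ⟨140, 215, 100⟩⟩ (mid3.hC1 false) :=
  posBox_of_check (c := ⟨222, ⟨3, 5, 9, 7⟩⟩) (by decide +kernel)

def mid3_c10_1 : PosBox ⟨⟨1, 2, 2⟩, ⟨99, 100, 165⟩, ⟨20, 49, 400⟩, ⟨140, 215, 100⟩⟩ (mid3.hC1 false) :=
  posBox_units (b := ⟨⟨2, 4, 4⟩, ⟨99, 100, 165⟩, ⟨20, 49, 400⟩, ⟨140, 215, 100⟩⟩) (by decide +kernel) (posBox_join₀ mid3_c10_1_0 mid3_c10_1_1)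

def mid3_c10 : PosBox ⟨⟨0, 1, 1⟩, ⟨99, 100, 165⟩, ⟨20, 49, 400⟩, ⟨140, 215, 100⟩⟩ (mid3.hC1 false) :=
  posBox_units (b := ⟨⟨0, 2, 2⟩, ⟨99, 100, 165⟩, ⟨20, 49, 400⟩, ⟨140, 215, 100⟩⟩) (by decide +kernel) (posBox_join₀ mid3_c10_0 mid3_c10_1)

def mid3_c3p0 : PosBox ⟨⟨0, 1, 1⟩, ⟨99, 100, 165⟩, ⟨20, 49, 400⟩, ⟨140, 215, 100⟩⟩ (mid3.hC3p false) :=
  posBox_of_check (c := ⟨338, ⟨3, 8, 15, 10⟩⟩) (by decide +kernel)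

def mid3_c3m0 : PosBox ⟨⟨0, 1, 1⟩, ⟨99, 100, 165⟩, ⟨20, 49, 400⟩, ⟨140, 215, 100⟩⟩ (mid3.hC3m false) :=
  posBox_of_check (c := ⟨319, ⟨3, 7, 15, 10⟩⟩) (by decide +kernel)

def mid3_tmg0 : PosBox ⟨⟨0, 1, 1⟩, ⟨99, 100, 165⟩, ⟨20, 49, 400⟩, ⟨140, 215, 100⟩⟩ (mid3.hTMG (mid3.pEnd false)) :=
  posBox_of_check (c := ⟨305, ⟨2, 7, 14, 10⟩⟩) (by decide +kernel)

def mid3_c1h0 : PosBox ⟨⟨0, 1, 1⟩, ⟨99, 100, 165⟩, ⟨20, 49, 400⟩, ⟨140, 215, 100⟩⟩ (mid3.hC1' false) :=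
  posBox_of_check (c := ⟨216, ⟨3, 5, 9, 7⟩⟩) (by decide +kernel)

def mid3_c3ph0 : PosBox ⟨⟨0, 1, 1⟩, ⟨99, 100, 165⟩, ⟨20, 49, 400⟩, ⟨140, 215, 100⟩⟩ (mid3.hC3p' false) :=
  posBox_of_check (c := ⟨338, ⟨3, 8, 15, 10⟩⟩) (by decide +kernel)

def mid3_c3mh0 : PosBox ⟨⟨0, 1, 1⟩, ⟨99, 100, 165⟩, ⟨20, 49, 400⟩, ⟨140, 215, 100⟩⟩ (mid3.hC3m' false) :=
  posBox_of_check (c := ⟨319, ⟨3, 7, 15, 10⟩⟩) (by decide +kernel)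

def mid3_up0 : PosBox ⟨⟨0, 1, 1⟩, ⟨99, 100, 165⟩, ⟨20, 49, 400⟩, ⟨140, 215, 100⟩⟩ (mid3.hUp false) :=
  posBox_of_check (c := ⟨337, ⟨3, 8, 15, 10⟩⟩) (by decide +kernel)

def mid3_um0 : PosBox ⟨⟨0, 1, 1⟩, ⟨99, 100, 165⟩, ⟨20, 49, 400⟩, ⟨140, 215, 100⟩⟩ (mid3.hUm false) :=
  posBox_of_check (c := ⟨315, ⟨2, 7, 15, 10⟩⟩) (by decide +kernel)

def mid3_kap1 : PosBox ⟨⟨0, 1, 1⟩, ⟨99, 100, 165⟩, ⟨20, 49, 400⟩, ⟨140, 215, 100⟩⟩ (mid3.kap true) :=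
  posBox_of_check (c := ⟨67, ⟨1, 1, 2, 2⟩⟩) (by decide +kernel)

def mid3_tg1 : PosBox ⟨⟨0, 1, 1⟩, ⟨99, 100, 165⟩, ⟨20, 49, 400⟩, ⟨140, 215, 100⟩⟩ (mid3.hG (mid3.pEnd true)) :=
  posBox_of_check (c := ⟨294, ⟨2, 7, 14, 9⟩⟩) (by decide +kernel)

def mid3_c2p1 : PosBox ⟨⟨0, 1, 1⟩, ⟨99, 100, 165⟩, ⟨20, 49, 400⟩, ⟨140, 215, 100⟩⟩ (mid3.hC2p (mid3.pEnd true)) :=
  posBox_of_check (c := ⟨356, ⟨3, 8, 16, 11⟩⟩) (by decide +kernel)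

def mid3_c2m1 : PosBox ⟨⟨0, 1, 1⟩, ⟨99, 100, 165⟩, ⟨20, 49, 400⟩, ⟨140, 215, 100⟩⟩ (mid3.hC2m (mid3.pEnd true)) :=
  posBox_of_check (c := ⟨332, ⟨2, 7, 16, 11⟩⟩) (by decide +kernel)

def mid3_c11_0 : PosBox ⟨⟨0, 1, 2⟩, ⟨99, 100, 165⟩, ⟨20, 49, 400⟩, ⟨140, 215, 100⟩⟩ (mid3.hC1 true) :=
  posBox_of_check (c := ⟨217, ⟨3, 5, 9, 7⟩⟩) (by decide +kernel)

def mid3_c11_1 : PosBox ⟨⟨1, 2, 2⟩, ⟨99, 100, 165⟩, ⟨20, 49, 400⟩, ⟨140, 215, 100⟩⟩ (mid3.hC1 true) :=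
  posBox_of_check (c := ⟨219, ⟨3, 5, 9, 7⟩⟩) (by decide +kernel)

def mid3_c11 : PosBox ⟨⟨0, 1, 1⟩, ⟨99, 100, 165⟩, ⟨20, 49, 400⟩, ⟨140, 215, 100⟩⟩ (mid3.hC1 true) :=
  posBox_units (b := ⟨⟨0, 2, 2⟩, ⟨99, 100, 165⟩, ⟨20, 49, 400⟩, ⟨140, 215, 100⟩⟩) (by decide +kernel) (posBox_join₀ mid3_c11_0 mid3_c11_1)

def mid3_c3p1 : PosBox ⟨⟨0, 1, 1⟩, ⟨99, 100, 165⟩, ⟨20, 49, 400⟩, ⟨140, 215, 100⟩⟩ (mid3.hC3p true) :=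
  posBox_of_check (c := ⟨339, ⟨3, 8, 15, 10⟩⟩) (by decide +kernel)

def mid3_c3m1 : PosBox ⟨⟨0, 1, 1⟩, ⟨99, 100, 165⟩, ⟨20, 49, 400⟩, ⟨140, 215, 100⟩⟩ (mid3.hC3m true) :=
  posBox_of_check (c := ⟨319, ⟨3, 7, 15, 10⟩⟩) (by decide +kernel)

def mid3_tmg1 : PosBox ⟨⟨0, 1, 1⟩, ⟨99, 100, 165⟩, ⟨20, 49, 400⟩, ⟨140, 215, 100⟩⟩ (mid3.hTMG (mid3.pEnd true)) :=
  posBox_of_check (c := ⟨305, ⟨2, 7, 14, 10⟩⟩) (by decide +kernel)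

def mid3_c1h1 : PosBox ⟨⟨0, 1, 1⟩, ⟨99, 100, 165⟩, ⟨20, 49, 400⟩, ⟨140, 215, 100⟩⟩ (mid3.hC1' true) :=
  posBox_of_check (c := ⟨216, ⟨3, 5, 9, 7⟩⟩) (by decide +kernel)

def mid3_c3ph1 : PosBox ⟨⟨0, 1, 1⟩, ⟨99, 100, 165⟩, ⟨20, 49, 400⟩, ⟨140, 215, 100⟩⟩ (mid3.hC3p' true) :=
  posBox_of_check (c := ⟨339, ⟨3, 8, 15, 10⟩⟩) (by decide +kernel)

def mid3_c3mh1 : PosBox ⟨⟨0, 1, 1⟩, ⟨99, 100, 165⟩, ⟨20, 49, 400⟩, ⟨140, 215, 100⟩⟩ (mid3.hC3m' true) :=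
  posBox_of_check (c := ⟨319, ⟨3, 7, 15, 10⟩⟩) (by decide +kernel)

def mid3_up1 : PosBox ⟨⟨0, 1, 1⟩, ⟨99, 100, 165⟩, ⟨20, 49, 400⟩, ⟨140, 215, 100⟩⟩ (mid3.hUp true) :=
  posBox_of_check (c := ⟨337, ⟨3, 8, 15, 10⟩⟩) (by decide +kernel)

def mid3_um1 : PosBox ⟨⟨0, 1, 1⟩, ⟨99, 100, 165⟩, ⟨20, 49, 400⟩, ⟨140, 215, 100⟩⟩ (mid3.hUm true) :=
  posBox_of_check (c := ⟨316, ⟨2, 7, 15, 10⟩⟩) (by decide +kernel)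

/-- The checks on the signs. -/
theorem mid3_sign : mid3.Sign ⟨⟨0, 1, 1⟩, ⟨99, 100, 165⟩, ⟨20, 49, 400⟩, ⟨140, 215, 100⟩⟩ where
  pp := mid3_pp
  k2p := mid3_k2p
  k2m := mid3_k2m
  v2p := mid3_v2p
  v2m := mid3_v2m
  v3p := mid3_v3p
  v3m := mid3_v3m
  tg := Bool.forall_bool.2 ⟨mid3_tg0, mid3_tg1⟩
  c2p := Bool.forall_bool.2 ⟨mid3_c2p0, mid3_c2p1⟩
  c2m := Bool.forall_bool.2 ⟨mid3_c2m0, mid3_c2m1⟩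
  kap := Bool.forall_bool.2 ⟨mid3_kap0, mid3_kap1⟩
  c1 := Bool.forall_bool.2 ⟨mid3_c10, mid3_c11⟩
  c3p := Bool.forall_bool.2 ⟨mid3_c3p0, mid3_c3p1⟩
  c3m := Bool.forall_bool.2 ⟨mid3_c3m0, mid3_c3m1⟩
  tmg := Bool.forall_bool.2 ⟨mid3_tmg0, mid3_tmg1⟩
  high := .inr (Bool.forall_bool.2 ⟨⟨mid3_c1h0, mid3_c3ph0, mid3_c3mh0, mid3_up0, mid3_um0⟩, ⟨mid3_c1h1, mid3_c3ph1, mid3_c3mh1, mid3_up1, mid3_um1⟩⟩)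
  vG := mid3_vG
  vMG := mid3_vMG
  ak := mid3_ak
  aw := mid3_aw
  gk := mid3_gk
  gw := mid3_gw
  ek := mid3_ek
  ew := mid3_ew

end Vale.Agent.P100.Calib.Closed.High
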