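import Vale.Agent.P100.Calib.SlabHighData

/-!
# Checks of the signs of a piece of the tail
-/

set_option linter.defProp false

namespace Vale.Agent.P100.Calib.Closed.High

open BoxPos Large

def mid4A_vG : PosBox ⟨⟨0, 1, 1⟩, ⟨99, 100, 165⟩, ⟨20, 49, 400⟩, ⟨215, 315, 100⟩⟩ (hVG) :=
  posBox_of_check (c := ⟨147, ⟨0, 5, 8, 3⟩⟩) (by decide +kernel)

def mid4A_vMG : PosBox ⟨⟨0, 1, 1⟩, ⟨99, 100, 165⟩, ⟨20, 49, 400⟩, ⟨215, 315, 100⟩⟩ (hVMG) :=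
  posBox_of_check (c := ⟨149, ⟨0, 4, 8, 4⟩⟩) (by decide +kernel)

def mid4A_ak : PosBox ⟨⟨0, 1, 1⟩, ⟨99, 100, 165⟩, ⟨20, 49, 400⟩, ⟨215, 315, 100⟩⟩ (hAk) :=
  posBox_of_check (c := ⟨142, ⟨0, 4, 6, 4⟩⟩) (by decide +kernel)

def mid4A_aw : PosBox ⟨⟨0, 1, 1⟩, ⟨99, 100, 165⟩, ⟨20, 49, 400⟩, ⟨215, 315, 100⟩⟩ (hAw) :=
  posBox_of_check (c := ⟨145, ⟨0, 5, 7, 3⟩⟩) (by decide +kernel)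

def mid4A_gk : PosBox ⟨⟨0, 1, 1⟩, ⟨99, 100, 165⟩, ⟨20, 49, 400⟩, ⟨215, 315, 100⟩⟩ (hGk) :=
  posBox_of_check (c := ⟨142, ⟨0, 4, 6, 4⟩⟩) (by decide +kernel)

def mid4A_gw : PosBox ⟨⟨0, 1, 1⟩, ⟨99, 100, 165⟩, ⟨20, 49, 400⟩, ⟨215, 315, 100⟩⟩ (hGw) :=
  posBox_of_check (c := ⟨145, ⟨0, 5, 7, 3⟩⟩) (by decide +kernel)

def mid4A_ek : PosBox ⟨⟨0, 1, 1⟩, ⟨99, 100, 165⟩, ⟨20, 49, 400⟩, ⟨215, 315, 100⟩⟩ (hMk) :=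
  posBox_of_check (c := ⟨82, ⟨0, 2, 3, 3⟩⟩) (by decide +kernel)

def mid4A_ew : PosBox ⟨⟨0, 1, 1⟩, ⟨99, 100, 165⟩, ⟨20, 49, 400⟩, ⟨215, 315, 100⟩⟩ (hMw) :=
  posBox_of_check (c := ⟨85, ⟨0, 3, 4, 2⟩⟩) (by decide +kernel)

def mid4A_pp : PosBox ⟨⟨0, 1, 1⟩, ⟨99, 100, 165⟩, ⟨20, 49, 400⟩, ⟨215, 315, 100⟩⟩ (mid4A.xPL) :=
  posBox_of_check (c := ⟨78, ⟨1, 1, 3, 3⟩⟩) (by decide +kernel)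

def mid4A_k2p : PosBox ⟨⟨0, 1, 1⟩, ⟨99, 100, 165⟩, ⟨20, 49, 400⟩, ⟨215, 315, 100⟩⟩ (mid4A.k2p mid4A.xE) :=
  posBox_of_check (c := ⟨67, ⟨1, 1, 2, 2⟩⟩) (by decide +kernel)

def mid4A_k2m : PosBox ⟨⟨0, 1, 1⟩, ⟨99, 100, 165⟩, ⟨20, 49, 400⟩, ⟨215, 315, 100⟩⟩ (mid4A.k2m mid4A.xE) :=
  posBox_of_check (c := ⟨64, ⟨1, 1, 2, 2⟩⟩) (by decide +kernel)

def mid4A_v2p : PosBox ⟨⟨0, 1, 1⟩, ⟨99, 100, 165⟩, ⟨20, 49, 400⟩, ⟨215, 315, 100⟩⟩ (mid4A.hV2p) :=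
  posBox_of_check (c := ⟨212, ⟨1, 6, 10, 5⟩⟩) (by decide +kernel)

def mid4A_v2m : PosBox ⟨⟨0, 1, 1⟩, ⟨99, 100, 165⟩, ⟨20, 49, 400⟩, ⟨215, 315, 100⟩⟩ (mid4A.hV2m) :=
  posBox_of_check (c := ⟨208, ⟨1, 6, 10, 5⟩⟩) (by decide +kernel)

def mid4A_v3p : PosBox ⟨⟨0, 1, 1⟩, ⟨99, 100, 165⟩, ⟨20, 49, 400⟩, ⟨215, 315, 100⟩⟩ (mid4A.hV3p) :=
  posBox_of_check (c := ⟨191, ⟨1, 6, 9, 4⟩⟩) (by decide +kernel)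

def mid4A_v3m : PosBox ⟨⟨0, 1, 1⟩, ⟨99, 100, 165⟩, ⟨20, 49, 400⟩, ⟨215, 315, 100⟩⟩ (mid4A.hV3m) :=
  posBox_of_check (c := ⟨188, ⟨1, 6, 9, 4⟩⟩) (by decide +kernel)

def mid4A_kap0 : PosBox ⟨⟨0, 1, 1⟩, ⟨99, 100, 165⟩, ⟨20, 49, 400⟩, ⟨215, 315, 100⟩⟩ (mid4A.kap false) :=
  posBox_of_check (c := ⟨69, ⟨1, 1, 2, 2⟩⟩) (by decide +kernel)

def mid4A_tg0 : PosBox ⟨⟨0, 1, 1⟩, ⟨99, 100, 165⟩, ⟨20, 49, 400⟩, ⟨215, 315, 100⟩⟩ (mid4A.hG (mid4A.pEnd false)) :=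
  posBox_of_check (c := ⟨294, ⟨2, 7, 14, 9⟩⟩) (by decide +kernel)

def mid4A_c2p0 : PosBox ⟨⟨0, 1, 1⟩, ⟨99, 100, 165⟩, ⟨20, 49, 400⟩, ⟨215, 315, 100⟩⟩ (mid4A.hC2p (mid4A.pEnd false)) :=
  posBox_of_check (c := ⟨359, ⟨3, 8, 16, 11⟩⟩) (by decide +kernel)

def mid4A_c2m0 : PosBox ⟨⟨0, 1, 1⟩, ⟨99, 100, 165⟩, ⟨20, 49, 400⟩, ⟨215, 315, 100⟩⟩ (mid4A.hC2m (mid4A.pEnd false)) :=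
  posBox_of_check (c := ⟨356, ⟨3, 8, 16, 11⟩⟩) (by decide +kernel)

def mid4A_c10 : PosBox ⟨⟨0, 1, 1⟩, ⟨99, 100, 165⟩, ⟨20, 49, 400⟩, ⟨215, 315, 100⟩⟩ (mid4A.hC1 false) :=
  posBox_of_check (c := ⟨217, ⟨3, 5, 9, 7⟩⟩) (by decide +kernel)

def mid4A_c3p0 : PosBox ⟨⟨0, 1, 1⟩, ⟨99, 100, 165⟩, ⟨20, 49, 400⟩, ⟨215, 315, 100⟩⟩ (mid4A.hC3p false) :=
  posBox_of_check (c := ⟨340, ⟨3, 8, 15, 10⟩⟩) (by decide +kernel)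

def mid4A_c3m0 : PosBox ⟨⟨0, 1, 1⟩, ⟨99, 100, 165⟩, ⟨20, 49, 400⟩, ⟨215, 315, 100⟩⟩ (mid4A.hC3m false) :=
  posBox_of_check (c := ⟨340, ⟨3, 8, 15, 10⟩⟩) (by decide +kernel)

def mid4A_tmg0 : PosBox ⟨⟨0, 1, 1⟩, ⟨99, 100, 165⟩, ⟨20, 49, 400⟩, ⟨215, 315, 100⟩⟩ (mid4A.hTMG (mid4A.pEnd false)) :=
  posBox_of_check (c := ⟨306, ⟨2, 7, 14, 10⟩⟩) (by decide +kernel)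

def mid4A_neg0 : PosBox ⟨⟨0, 1, 1⟩, ⟨99, 100, 165⟩, ⟨20, 49, 400⟩, ⟨215, 315, 100⟩⟩ (mid4A.hNeg (mid4A.pEnd false)) :=
  posBox_of_check (c := ⟨202, ⟨2, 5, 9, 7⟩⟩) (by decide +kernel)

def mid4A_neglo0 : PosBox ⟨⟨0, 1, 1⟩, ⟨99, 100, 165⟩, ⟨20, 49, 400⟩, ⟨215, 315, 100⟩⟩ (mid4A.hNegLo (mid4A.pEnd false)) :=
  posBox_of_check (c := ⟨202, ⟨2, 5, 9, 7⟩⟩) (by decide +kernel)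

def mid4A_kap1 : PosBox ⟨⟨0, 1, 1⟩, ⟨99, 100, 165⟩, ⟨20, 49, 400⟩, ⟨215, 315, 100⟩⟩ (mid4A.kap true) :=
  posBox_of_check (c := ⟨72, ⟨1, 1, 2, 2⟩⟩) (by decide +kernel)

def mid4A_tg1 : PosBox ⟨⟨0, 1, 1⟩, ⟨99, 100, 165⟩, ⟨20, 49, 400⟩, ⟨215, 315, 100⟩⟩ (mid4A.hG (mid4A.pEnd true)) :=
  posBox_of_check (c := ⟨299, ⟨2, 7, 14, 9⟩⟩) (by decide +kernel)

def mid4A_c2p1 : PosBox ⟨⟨0, 1, 1⟩, ⟨99, 100, 165⟩, ⟨20, 49, 400⟩, ⟨215, 315, 100⟩⟩ (mid4A.hC2p (mid4A.pEnd true)) :=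
  posBox_of_check (c := ⟨364, ⟨3, 8, 16, 11⟩⟩) (by decide +kernel)

def mid4A_c2m1 : PosBox ⟨⟨0, 1, 1⟩, ⟨99, 100, 165⟩, ⟨20, 49, 400⟩, ⟨215, 315, 100⟩⟩ (mid4A.hC2m (mid4A.pEnd true)) :=
  posBox_of_check (c := ⟨361, ⟨3, 8, 16, 11⟩⟩) (by decide +kernel)

def mid4A_c11_0_0 : PosBox ⟨⟨0, 1, 1⟩, ⟨99, 100, 165⟩, ⟨20, 34, 400⟩, ⟨215, 265, 100⟩⟩ (mid4A.hC1 true) :=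
  posBox_of_check (c := ⟨222, ⟨3, 5, 9, 7⟩⟩) (by decide +kernel)

def mid4A_c11_0_1 : PosBox ⟨⟨0, 1, 1⟩, ⟨99, 100, 165⟩, ⟨34, 49, 400⟩, ⟨215, 265, 100⟩⟩ (mid4A.hC1 true) :=
  posBox_of_check (c := ⟨223, ⟨3, 5, 9, 7⟩⟩) (by decide +kernel)

theorem mid4A_c11_0 : PosBox ⟨⟨0, 1, 1⟩, ⟨99, 100, 165⟩, ⟨20, 49, 400⟩, ⟨215, 265, 100⟩⟩ (mid4A.hC1 true) :=
  posBox_join₂ mid4A_c11_0_0 mid4A_c11_0_1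

def mid4A_c11_1 : PosBox ⟨⟨0, 1, 1⟩, ⟨99, 100, 165⟩, ⟨20, 49, 400⟩, ⟨265, 315, 100⟩⟩ (mid4A.hC1 true) :=
  posBox_of_check (c := ⟨223, ⟨3, 5, 9, 7⟩⟩) (by decide +kernel)

theorem mid4A_c11 : PosBox ⟨⟨0, 1, 1⟩, ⟨99, 100, 165⟩, ⟨20, 49, 400⟩, ⟨215, 315, 100⟩⟩ (mid4A.hC1 true) :=
  posBox_join₃ mid4A_c11_0 mid4A_c11_1

def mid4A_c3p1_0 : PosBox ⟨⟨0, 1, 1⟩, ⟨99, 100, 165⟩, ⟨20, 49, 400⟩, ⟨215, 265, 100⟩⟩ (mid4A.hC3p true) :=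
  posBox_of_check (c := ⟨345, ⟨3, 8, 15, 10⟩⟩) (by decide +kernel)

def mid4A_c3p1_1_0 : PosBox ⟨⟨0, 1, 1⟩, ⟨99, 100, 165⟩, ⟨20, 34, 400⟩, ⟨265, 315, 100⟩⟩ (mid4A.hC3p true) :=
  posBox_of_check (c := ⟨345, ⟨3, 8, 15, 10⟩⟩) (by decide +kernel)

def mid4A_c3p1_1_1 : PosBox ⟨⟨0, 1, 1⟩, ⟨99, 100, 165⟩, ⟨34, 49, 400⟩, ⟨265, 315, 100⟩⟩ (mid4A.hC3p true) :=
  posBox_of_check (c := ⟨346, ⟨3, 8, 15, 10⟩⟩) (by decide +kernel)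

theorem mid4A_c3p1_1 : PosBox ⟨⟨0, 1, 1⟩, ⟨99, 100, 165⟩, ⟨20, 49, 400⟩, ⟨265, 315, 100⟩⟩ (mid4A.hC3p true) :=
  posBox_join₂ mid4A_c3p1_1_0 mid4A_c3p1_1_1

theorem mid4A_c3p1 : PosBox ⟨⟨0, 1, 1⟩, ⟨99, 100, 165⟩, ⟨20, 49, 400⟩, ⟨215, 315, 100⟩⟩ (mid4A.hC3p true) :=
  posBox_join₃ mid4A_c3p1_0 mid4A_c3p1_1

def mid4A_c3m1 : PosBox ⟨⟨0, 1, 1⟩, ⟨99, 100, 165⟩, ⟨20, 49, 400⟩, ⟨215, 315, 100⟩⟩ (mid4A.hC3m true) :=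
  posBox_of_check (c := ⟨345, ⟨3, 8, 15, 10⟩⟩) (by decide +kernel)

def mid4A_tmg1 : PosBox ⟨⟨0, 1, 1⟩, ⟨99, 100, 165⟩, ⟨20, 49, 400⟩, ⟨215, 315, 100⟩⟩ (mid4A.hTMG (mid4A.pEnd true)) :=
  posBox_of_check (c := ⟨308, ⟨2, 7, 14, 10⟩⟩) (by decide +kernel)

def mid4A_neg1 : PosBox ⟨⟨0, 1, 1⟩, ⟨99, 100, 165⟩, ⟨20, 49, 400⟩, ⟨215, 315, 100⟩⟩ (mid4A.hNeg (mid4A.pEnd true)) :=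
  posBox_of_check (c := ⟨205, ⟨2, 5, 9, 7⟩⟩) (by decide +kernel)

def mid4A_neglo1 : PosBox ⟨⟨0, 1, 1⟩, ⟨99, 100, 165⟩, ⟨20, 49, 400⟩, ⟨215, 315, 100⟩⟩ (mid4A.hNegLo (mid4A.pEnd true)) :=
  posBox_of_check (c := ⟨205, ⟨2, 5, 9, 7⟩⟩) (by decide +kernel)

/-- The checks on the signs. -/
theorem mid4A_sign : mid4A.Sign ⟨⟨0, 1, 1⟩, ⟨99, 100, 165⟩, ⟨20, 49, 400⟩, ⟨215, 315, 100⟩⟩ where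
  pp := mid4A_pp
  k2p := mid4A_k2p
  k2m := mid4A_k2m
  v2p := mid4A_v2p
  v2m := mid4A_v2m
  v3p := mid4A_v3p
  v3m := mid4A_v3m
  tg := Bool.forall_bool.2 ⟨mid4A_tg0, mid4A_tg1⟩
  c2p := Bool.forall_bool.2 ⟨mid4A_c2p0, mid4A_c2p1⟩
  c2m := Bool.forall_bool.2 ⟨mid4A_c2m0, mid4A_c2m1⟩
  kap := Bool.forall_bool.2 ⟨mid4A_kap0, mid4A_kap1⟩
  c1 := Bool.forall_bool.2 ⟨mid4A_c10, mid4A_c11⟩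
  c3p := Bool.forall_bool.2 ⟨mid4A_c3p0, mid4A_c3p1⟩
  c3m := Bool.forall_bool.2 ⟨mid4A_c3m0, mid4A_c3m1⟩
  tmg := Bool.forall_bool.2 ⟨mid4A_tmg0, mid4A_tmg1⟩
  high := .inl (Bool.forall_bool.2 ⟨⟨mid4A_neg0, mid4A_neglo0⟩, ⟨mid4A_neg1, mid4A_neglo1⟩⟩)
  vG := mid4A_vG
  vMG := mid4A_vMG
  ak := mid4A_ak
  aw := mid4A_aw
  gk := mid4A_gk
  gw := mid4A_gw
  ek := mid4A_ek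
  ew := mid4A_ew

end Vale.Agent.P100.Calib.Closed.High
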