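import Vale.Agent.P100.Calib.SlabHighData

/-!
# Checks of the signs of a piece of the tail
-/

set_option linter.defProp false

namespace Vale.Agent.P100.Calib.Closed.High

open BoxPos Large

def mid5A_vG : PosBox ⟨⟨0, 1, 1⟩, ⟨99, 100, 165⟩, ⟨20, 49, 400⟩, ⟨315, 376, 100⟩⟩ (hVG) :=
  posBox_of_check (c := ⟨147, ⟨0, 5, 8, 3⟩⟩) (by decide +kernel)

def mid5A_vMG : PosBox ⟨⟨0, 1, 1⟩, ⟨99, 100, 165⟩, ⟨20, 49, 400⟩, ⟨315, 376, 100⟩⟩ (hVMG) :=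
  posBox_of_check (c := ⟨149, ⟨0, 4, 8, 4⟩⟩) (by decide +kernel)

def mid5A_ak : PosBox ⟨⟨0, 1, 1⟩, ⟨99, 100, 165⟩, ⟨20, 49, 400⟩, ⟨315, 376, 100⟩⟩ (hAk) :=
  posBox_of_check (c := ⟨143, ⟨0, 4, 6, 4⟩⟩) (by decide +kernel)

def mid5A_aw : PosBox ⟨⟨0, 1, 1⟩, ⟨99, 100, 165⟩, ⟨20, 49, 400⟩, ⟨315, 376, 100⟩⟩ (hAw) :=
  posBox_of_check (c := ⟨145, ⟨0, 5, 7, 3⟩⟩) (by decide +kernel)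

def mid5A_gk : PosBox ⟨⟨0, 1, 1⟩, ⟨99, 100, 165⟩, ⟨20, 49, 400⟩, ⟨315, 376, 100⟩⟩ (hGk) :=
  posBox_of_check (c := ⟨143, ⟨0, 4, 6, 4⟩⟩) (by decide +kernel)

def mid5A_gw : PosBox ⟨⟨0, 1, 1⟩, ⟨99, 100, 165⟩, ⟨20, 49, 400⟩, ⟨315, 376, 100⟩⟩ (hGw) :=
  posBox_of_check (c := ⟨145, ⟨0, 5, 7, 3⟩⟩) (by decide +kernel)

def mid5A_ek : PosBox ⟨⟨0, 1, 1⟩, ⟨99, 100, 165⟩, ⟨20, 49, 400⟩, ⟨315, 376, 100⟩⟩ (hMk) :=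
  posBox_of_check (c := ⟨83, ⟨0, 2, 3, 3⟩⟩) (by decide +kernel)

def mid5A_ew : PosBox ⟨⟨0, 1, 1⟩, ⟨99, 100, 165⟩, ⟨20, 49, 400⟩, ⟨315, 376, 100⟩⟩ (hMw) :=
  posBox_of_check (c := ⟨86, ⟨0, 3, 4, 2⟩⟩) (by decide +kernel)

def mid5A_pp : PosBox ⟨⟨0, 1, 1⟩, ⟨99, 100, 165⟩, ⟨20, 49, 400⟩, ⟨315, 376, 100⟩⟩ (mid5A.xPL) :=
  posBox_of_check (c := ⟨75, ⟨1, 1, 2, 3⟩⟩) (by decide +kernel)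

def mid5A_k2p : PosBox ⟨⟨0, 1, 1⟩, ⟨99, 100, 165⟩, ⟨20, 49, 400⟩, ⟨315, 376, 100⟩⟩ (mid5A.k2p mid5A.xE) :=
  posBox_of_check (c := ⟨62, ⟨1, 1, 1, 2⟩⟩) (by decide +kernel)

def mid5A_k2m : PosBox ⟨⟨0, 1, 1⟩, ⟨99, 100, 165⟩, ⟨20, 49, 400⟩, ⟨315, 376, 100⟩⟩ (mid5A.k2m mid5A.xE) :=
  posBox_of_check (c := ⟨62, ⟨1, 1, 1, 2⟩⟩) (by decide +kernel)

def mid5A_v2p : PosBox ⟨⟨0, 1, 1⟩, ⟨99, 100, 165⟩, ⟨20, 49, 400⟩, ⟨315, 376, 100⟩⟩ (mid5A.hV2p) :=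
  posBox_of_check (c := ⟨208, ⟨1, 6, 10, 5⟩⟩) (by decide +kernel)

def mid5A_v2m : PosBox ⟨⟨0, 1, 1⟩, ⟨99, 100, 165⟩, ⟨20, 49, 400⟩, ⟨315, 376, 100⟩⟩ (mid5A.hV2m) :=
  posBox_of_check (c := ⟨208, ⟨1, 6, 10, 5⟩⟩) (by decide +kernel)

def mid5A_v3p : PosBox ⟨⟨0, 1, 1⟩, ⟨99, 100, 165⟩, ⟨20, 49, 400⟩, ⟨315, 376, 100⟩⟩ (mid5A.hV3p) :=
  posBox_of_check (c := ⟨187, ⟨1, 6, 9, 4⟩⟩) (by decide +kernel)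

def mid5A_v3m : PosBox ⟨⟨0, 1, 1⟩, ⟨99, 100, 165⟩, ⟨20, 49, 400⟩, ⟨315, 376, 100⟩⟩ (mid5A.hV3m) :=
  posBox_of_check (c := ⟨187, ⟨1, 6, 9, 4⟩⟩) (by decide +kernel)

def mid5A_kap0 : PosBox ⟨⟨0, 1, 1⟩, ⟨99, 100, 165⟩, ⟨20, 49, 400⟩, ⟨315, 376, 100⟩⟩ (mid5A.kap false) :=
  posBox_of_check (c := ⟨70, ⟨1, 1, 1, 2⟩⟩) (by decide +kernel)

def mid5A_tg0 : PosBox ⟨⟨0, 1, 1⟩, ⟨99, 100, 165⟩, ⟨20, 49, 400⟩, ⟨315, 376, 100⟩⟩ (mid5A.hG (mid5A.pEnd false)) :=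
  posBox_of_check (c := ⟨289, ⟨2, 7, 12, 9⟩⟩) (by decide +kernel)

def mid5A_c2p0 : PosBox ⟨⟨0, 1, 1⟩, ⟨99, 100, 165⟩, ⟨20, 49, 400⟩, ⟨315, 376, 100⟩⟩ (mid5A.hC2p (mid5A.pEnd false)) :=
  posBox_of_check (c := ⟨350, ⟨3, 8, 14, 11⟩⟩) (by decide +kernel)

def mid5A_c2m0 : PosBox ⟨⟨0, 1, 1⟩, ⟨99, 100, 165⟩, ⟨20, 49, 400⟩, ⟨315, 376, 100⟩⟩ (mid5A.hC2m (mid5A.pEnd false)) :=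
  posBox_of_check (c := ⟨350, ⟨3, 8, 14, 11⟩⟩) (by decide +kernel)

def mid5A_c10 : PosBox ⟨⟨0, 1, 1⟩, ⟨99, 100, 165⟩, ⟨20, 49, 400⟩, ⟨315, 376, 100⟩⟩ (mid5A.hC1 false) :=
  posBox_of_check (c := ⟨218, ⟨3, 5, 8, 7⟩⟩) (by decide +kernel)

def mid5A_c3p0 : PosBox ⟨⟨0, 1, 1⟩, ⟨99, 100, 165⟩, ⟨20, 49, 400⟩, ⟨315, 376, 100⟩⟩ (mid5A.hC3p false) :=
  posBox_of_check (c := ⟨336, ⟨3, 8, 13, 10⟩⟩) (by decide +kernel)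

def mid5A_c3m0 : PosBox ⟨⟨0, 1, 1⟩, ⟨99, 100, 165⟩, ⟨20, 49, 400⟩, ⟨315, 376, 100⟩⟩ (mid5A.hC3m false) :=
  posBox_of_check (c := ⟨336, ⟨3, 8, 13, 10⟩⟩) (by decide +kernel)

def mid5A_tmg0 : PosBox ⟨⟨0, 1, 1⟩, ⟨99, 100, 165⟩, ⟨20, 49, 400⟩, ⟨315, 376, 100⟩⟩ (mid5A.hTMG (mid5A.pEnd false)) :=
  posBox_of_check (c := ⟨300, ⟨2, 7, 12, 10⟩⟩) (by decide +kernel)

def mid5A_neg0 : PosBox ⟨⟨0, 1, 1⟩, ⟨99, 100, 165⟩, ⟨20, 49, 400⟩, ⟨315, 376, 100⟩⟩ (mid5A.hNeg (mid5A.pEnd false)) :=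
  posBox_of_check (c := ⟨200, ⟨2, 5, 8, 7⟩⟩) (by decide +kernel)

def mid5A_neglo0 : PosBox ⟨⟨0, 1, 1⟩, ⟨99, 100, 165⟩, ⟨20, 49, 400⟩, ⟨315, 376, 100⟩⟩ (mid5A.hNegLo (mid5A.pEnd false)) :=
  posBox_of_check (c := ⟨200, ⟨2, 5, 8, 7⟩⟩) (by decide +kernel)

def mid5A_kap1 : PosBox ⟨⟨0, 1, 1⟩, ⟨99, 100, 165⟩, ⟨20, 49, 400⟩, ⟨315, 376, 100⟩⟩ (mid5A.kap true) :=
  posBox_of_check (c := ⟨71, ⟨1, 1, 1, 2⟩⟩) (by decide +kernel)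

def mid5A_tg1 : PosBox ⟨⟨0, 1, 1⟩, ⟨99, 100, 165⟩, ⟨20, 49, 400⟩, ⟨315, 376, 100⟩⟩ (mid5A.hG (mid5A.pEnd true)) :=
  posBox_of_check (c := ⟨295, ⟨2, 7, 12, 9⟩⟩) (by decide +kernel)

def mid5A_c2p1 : PosBox ⟨⟨0, 1, 1⟩, ⟨99, 100, 165⟩, ⟨20, 49, 400⟩, ⟨315, 376, 100⟩⟩ (mid5A.hC2p (mid5A.pEnd true)) :=
  posBox_of_check (c := ⟨355, ⟨3, 8, 14, 11⟩⟩) (by decide +kernel)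

def mid5A_c2m1 : PosBox ⟨⟨0, 1, 1⟩, ⟨99, 100, 165⟩, ⟨20, 49, 400⟩, ⟨315, 376, 100⟩⟩ (mid5A.hC2m (mid5A.pEnd true)) :=
  posBox_of_check (c := ⟨355, ⟨3, 8, 14, 11⟩⟩) (by decide +kernel)

def mid5A_c11 : PosBox ⟨⟨0, 1, 1⟩, ⟨99, 100, 165⟩, ⟨20, 49, 400⟩, ⟨315, 376, 100⟩⟩ (mid5A.hC1 true) :=
  posBox_of_check (c := ⟨222, ⟨3, 5, 8, 7⟩⟩) (by decide +kernel)

def mid5A_c3p1 : PosBox ⟨⟨0, 1, 1⟩, ⟨99, 100, 165⟩, ⟨20, 49, 400⟩, ⟨315, 376, 100⟩⟩ (mid5A.hC3p true) :=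
  posBox_of_check (c := ⟨339, ⟨3, 8, 13, 10⟩⟩) (by decide +kernel)

def mid5A_c3m1 : PosBox ⟨⟨0, 1, 1⟩, ⟨99, 100, 165⟩, ⟨20, 49, 400⟩, ⟨315, 376, 100⟩⟩ (mid5A.hC3m true) :=
  posBox_of_check (c := ⟨339, ⟨3, 8, 13, 10⟩⟩) (by decide +kernel)

def mid5A_tmg1 : PosBox ⟨⟨0, 1, 1⟩, ⟨99, 100, 165⟩, ⟨20, 49, 400⟩, ⟨315, 376, 100⟩⟩ (mid5A.hTMG (mid5A.pEnd true)) :=
  posBox_of_check (c := ⟨303, ⟨2, 7, 12, 10⟩⟩) (by decide +kernel)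

def mid5A_neg1 : PosBox ⟨⟨0, 1, 1⟩, ⟨99, 100, 165⟩, ⟨20, 49, 400⟩, ⟨315, 376, 100⟩⟩ (mid5A.hNeg (mid5A.pEnd true)) :=
  posBox_of_check (c := ⟨202, ⟨2, 5, 8, 7⟩⟩) (by decide +kernel)

def mid5A_neglo1 : PosBox ⟨⟨0, 1, 1⟩, ⟨99, 100, 165⟩, ⟨20, 49, 400⟩, ⟨315, 376, 100⟩⟩ (mid5A.hNegLo (mid5A.pEnd true)) :=
  posBox_of_check (c := ⟨202, ⟨2, 5, 8, 7⟩⟩) (by decide +kernel)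

/-- The checks on the signs. -/
theorem mid5A_sign : mid5A.Sign ⟨⟨0, 1, 1⟩, ⟨99, 100, 165⟩, ⟨20, 49, 400⟩, ⟨315, 376, 100⟩⟩ where
  pp := mid5A_pp
  k2p := mid5A_k2p
  k2m := mid5A_k2m
  v2p := mid5A_v2p
  v2m := mid5A_v2m
  v3p := mid5A_v3p
  v3m := mid5A_v3m
  tg := Bool.forall_bool.2 ⟨mid5A_tg0, mid5A_tg1⟩
  c2p := Bool.forall_bool.2 ⟨mid5A_c2p0, mid5A_c2p1⟩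
  c2m := Bool.forall_bool.2 ⟨mid5A_c2m0, mid5A_c2m1⟩
  kap := Bool.forall_bool.2 ⟨mid5A_kap0, mid5A_kap1⟩
  c1 := Bool.forall_bool.2 ⟨mid5A_c10, mid5A_c11⟩
  c3p := Bool.forall_bool.2 ⟨mid5A_c3p0, mid5A_c3p1⟩
  c3m := Bool.forall_bool.2 ⟨mid5A_c3m0, mid5A_c3m1⟩
  tmg := Bool.forall_bool.2 ⟨mid5A_tmg0, mid5A_tmg1⟩
  high := .inl (Bool.forall_bool.2 ⟨⟨mid5A_neg0, mid5A_neglo0⟩, ⟨mid5A_neg1, mid5A_neglo1⟩⟩)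
  vG := mid5A_vG
  vMG := mid5A_vMG
  ak := mid5A_ak
  aw := mid5A_aw
  gk := mid5A_gk
  gw := mid5A_gw
  ek := mid5A_ek
  ew := mid5A_ew

end Vale.Agent.P100.Calib.Closed.High
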