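import Vale.Agent.P100.Calib.SlabHighData

/-!
# Checks of the signs of a piece of the tail
-/

set_option linter.defProp false

namespace Vale.Agent.P100.Calib.Closed.High

open BoxPos Large

def mid5B_vG : PosBox ⟨⟨0, 1, 1⟩, ⟨99, 100, 165⟩, ⟨20, 49, 400⟩, ⟨315, 376, 100⟩⟩ (hVG) :=
  posBox_of_check (c := ⟨147, ⟨0, 5, 8, 3⟩⟩) (by decide +kernel)

def mid5B_vMG : PosBox ⟨⟨0, 1, 1⟩, ⟨99, 100, 165⟩, ⟨20, 49, 400⟩, ⟨315, 376, 100⟩⟩ (hVMG) :=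
  posBox_of_check (c := ⟨149, ⟨0, 4, 8, 4⟩⟩) (by decide +kernel)

def mid5B_ak : PosBox ⟨⟨0, 1, 1⟩, ⟨99, 100, 165⟩, ⟨20, 49, 400⟩, ⟨315, 376, 100⟩⟩ (hAk) :=
  posBox_of_check (c := ⟨143, ⟨0, 4, 6, 4⟩⟩) (by decide +kernel)

def mid5B_aw : PosBox ⟨⟨0, 1, 1⟩, ⟨99, 100, 165⟩, ⟨20, 49, 400⟩, ⟨315, 376, 100⟩⟩ (hAw) :=
  posBox_of_check (c := ⟨145, ⟨0, 5, 7, 3⟩⟩) (by decide +kernel)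

def mid5B_gk : PosBox ⟨⟨0, 1, 1⟩, ⟨99, 100, 165⟩, ⟨20, 49, 400⟩, ⟨315, 376, 100⟩⟩ (hGk) :=
  posBox_of_check (c := ⟨143, ⟨0, 4, 6, 4⟩⟩) (by decide +kernel)

def mid5B_gw : PosBox ⟨⟨0, 1, 1⟩, ⟨99, 100, 165⟩, ⟨20, 49, 400⟩, ⟨315, 376, 100⟩⟩ (hGw) :=
  posBox_of_check (c := ⟨145, ⟨0, 5, 7, 3⟩⟩) (by decide +kernel)

def mid5B_ek : PosBox ⟨⟨0, 1, 1⟩, ⟨99, 100, 165⟩, ⟨20, 49, 400⟩, ⟨315, 376, 100⟩⟩ (hMk) :=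
  posBox_of_check (c := ⟨83, ⟨0, 2, 3, 3⟩⟩) (by decide +kernel)

def mid5B_ew : PosBox ⟨⟨0, 1, 1⟩, ⟨99, 100, 165⟩, ⟨20, 49, 400⟩, ⟨315, 376, 100⟩⟩ (hMw) :=
  posBox_of_check (c := ⟨86, ⟨0, 3, 4, 2⟩⟩) (by decide +kernel)

def mid5B_pp : PosBox ⟨⟨0, 1, 1⟩, ⟨99, 100, 165⟩, ⟨20, 49, 400⟩, ⟨315, 376, 100⟩⟩ (mid5B.xPL) :=
  posBox_of_check (c := ⟨75, ⟨1, 1, 2, 3⟩⟩) (by decide +kernel)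

def mid5B_k2p : PosBox ⟨⟨0, 1, 1⟩, ⟨99, 100, 165⟩, ⟨20, 49, 400⟩, ⟨315, 376, 100⟩⟩ (mid5B.k2p mid5B.xE) :=
  posBox_of_check (c := ⟨60, ⟨1, 1, 1, 2⟩⟩) (by decide +kernel)

def mid5B_k2m : PosBox ⟨⟨0, 1, 1⟩, ⟨99, 100, 165⟩, ⟨20, 49, 400⟩, ⟨315, 376, 100⟩⟩ (mid5B.k2m mid5B.xE) :=
  posBox_of_check (c := ⟨30, ⟨0, 0, 1, 1⟩⟩) (by decide +kernel)

def mid5B_v2p : PosBox ⟨⟨0, 1, 1⟩, ⟨99, 100, 165⟩, ⟨20, 49, 400⟩, ⟨315, 376, 100⟩⟩ (mid5B.hV2p) :=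
  posBox_of_check (c := ⟨206, ⟨1, 6, 10, 5⟩⟩) (by decide +kernel)

def mid5B_v2m : PosBox ⟨⟨0, 1, 1⟩, ⟨99, 100, 165⟩, ⟨20, 49, 400⟩, ⟨315, 376, 100⟩⟩ (mid5B.hV2m) :=
  posBox_of_check (c := ⟨187, ⟨0, 5, 10, 5⟩⟩) (by decide +kernel)

def mid5B_v3p : PosBox ⟨⟨0, 1, 1⟩, ⟨99, 100, 165⟩, ⟨20, 49, 400⟩, ⟨315, 376, 100⟩⟩ (mid5B.hV3p) :=
  posBox_of_check (c := ⟨186, ⟨1, 6, 9, 4⟩⟩) (by decide +kernel)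

def mid5B_v3m : PosBox ⟨⟨0, 1, 1⟩, ⟨99, 100, 165⟩, ⟨20, 49, 400⟩, ⟨315, 376, 100⟩⟩ (mid5B.hV3m) :=
  posBox_of_check (c := ⟨167, ⟨0, 5, 9, 4⟩⟩) (by decide +kernel)

def mid5B_kap0 : PosBox ⟨⟨0, 1, 1⟩, ⟨99, 100, 165⟩, ⟨20, 49, 400⟩, ⟨315, 376, 100⟩⟩ (mid5B.kap false) :=
  posBox_of_check (c := ⟨69, ⟨1, 1, 1, 2⟩⟩) (by decide +kernel)

def mid5B_tg0 : PosBox ⟨⟨0, 1, 1⟩, ⟨99, 100, 165⟩, ⟨20, 49, 400⟩, ⟨315, 376, 100⟩⟩ (mid5B.hG (mid5B.pEnd false)) :=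
  posBox_of_check (c := ⟨289, ⟨2, 7, 12, 9⟩⟩) (by decide +kernel)

def mid5B_c2p0 : PosBox ⟨⟨0, 1, 1⟩, ⟨99, 100, 165⟩, ⟨20, 49, 400⟩, ⟨315, 376, 100⟩⟩ (mid5B.hC2p (mid5B.pEnd false)) :=
  posBox_of_check (c := ⟨349, ⟨3, 8, 14, 11⟩⟩) (by decide +kernel)

def mid5B_c2m0 : PosBox ⟨⟨0, 1, 1⟩, ⟨99, 100, 165⟩, ⟨20, 49, 400⟩, ⟨315, 376, 100⟩⟩ (mid5B.hC2m (mid5B.pEnd false)) :=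
  posBox_of_check (c := ⟨330, ⟨2, 7, 14, 11⟩⟩) (by decide +kernel)

def mid5B_c10 : PosBox ⟨⟨0, 1, 1⟩, ⟨99, 100, 165⟩, ⟨20, 49, 400⟩, ⟨315, 376, 100⟩⟩ (mid5B.hC1 false) :=
  posBox_of_check (c := ⟨217, ⟨3, 5, 8, 7⟩⟩) (by decide +kernel)

def mid5B_c3p0 : PosBox ⟨⟨0, 1, 1⟩, ⟨99, 100, 165⟩, ⟨20, 49, 400⟩, ⟨315, 376, 100⟩⟩ (mid5B.hC3p false) :=
  posBox_of_check (c := ⟨334, ⟨3, 8, 13, 10⟩⟩) (by decide +kernel)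

def mid5B_c3m0 : PosBox ⟨⟨0, 1, 1⟩, ⟨99, 100, 165⟩, ⟨20, 49, 400⟩, ⟨315, 376, 100⟩⟩ (mid5B.hC3m false) :=
  posBox_of_check (c := ⟨317, ⟨3, 7, 13, 10⟩⟩) (by decide +kernel)

def mid5B_tmg0 : PosBox ⟨⟨0, 1, 1⟩, ⟨99, 100, 165⟩, ⟨20, 49, 400⟩, ⟨315, 376, 100⟩⟩ (mid5B.hTMG (mid5B.pEnd false)) :=
  posBox_of_check (c := ⟨300, ⟨2, 7, 12, 10⟩⟩) (by decide +kernel)

def mid5B_neg0 : PosBox ⟨⟨0, 1, 1⟩, ⟨99, 100, 165⟩, ⟨20, 49, 400⟩, ⟨315, 376, 100⟩⟩ (mid5B.hNeg (mid5B.pEnd false)) :=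
  posBox_of_check (c := ⟨200, ⟨2, 5, 8, 7⟩⟩) (by decide +kernel)

def mid5B_neglo0 : PosBox ⟨⟨0, 1, 1⟩, ⟨99, 100, 165⟩, ⟨20, 49, 400⟩, ⟨315, 376, 100⟩⟩ (mid5B.hNegLo (mid5B.pEnd false)) :=
  posBox_of_check (c := ⟨200, ⟨2, 5, 8, 7⟩⟩) (by decide +kernel)

def mid5B_kap1 : PosBox ⟨⟨0, 1, 1⟩, ⟨99, 100, 165⟩, ⟨20, 49, 400⟩, ⟨315, 376, 100⟩⟩ (mid5B.kap true) :=
  posBox_of_check (c := ⟨70, ⟨1, 1, 1, 2⟩⟩) (by decide +kernel)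

def mid5B_tg1 : PosBox ⟨⟨0, 1, 1⟩, ⟨99, 100, 165⟩, ⟨20, 49, 400⟩, ⟨315, 376, 100⟩⟩ (mid5B.hG (mid5B.pEnd true)) :=
  posBox_of_check (c := ⟨291, ⟨2, 7, 12, 9⟩⟩) (by decide +kernel)

def mid5B_c2p1 : PosBox ⟨⟨0, 1, 1⟩, ⟨99, 100, 165⟩, ⟨20, 49, 400⟩, ⟨315, 376, 100⟩⟩ (mid5B.hC2p (mid5B.pEnd true)) :=
  posBox_of_check (c := ⟨350, ⟨3, 8, 14, 11⟩⟩) (by decide +kernel)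

def mid5B_c2m1 : PosBox ⟨⟨0, 1, 1⟩, ⟨99, 100, 165⟩, ⟨20, 49, 400⟩, ⟨315, 376, 100⟩⟩ (mid5B.hC2m (mid5B.pEnd true)) :=
  posBox_of_check (c := ⟨331, ⟨2, 7, 14, 11⟩⟩) (by decide +kernel)

def mid5B_c11 : PosBox ⟨⟨0, 1, 1⟩, ⟨99, 100, 165⟩, ⟨20, 49, 400⟩, ⟨315, 376, 100⟩⟩ (mid5B.hC1 true) :=
  posBox_of_check (c := ⟨219, ⟨3, 5, 8, 7⟩⟩) (by decide +kernel)

def mid5B_c3p1_0 : PosBox ⟨⟨0, 1, 2⟩, ⟨99, 100, 165⟩, ⟨20, 49, 400⟩, ⟨315, 376, 100⟩⟩ (mid5B.hC3p true) :=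
  posBox_of_check (c := ⟨339, ⟨3, 8, 13, 10⟩⟩) (by decide +kernel)

def mid5B_c3p1_1 : PosBox ⟨⟨1, 2, 2⟩, ⟨99, 100, 165⟩, ⟨20, 49, 400⟩, ⟨315, 376, 100⟩⟩ (mid5B.hC3p true) :=
  posBox_of_check (c := ⟨340, ⟨3, 8, 13, 10⟩⟩) (by decide +kernel)

def mid5B_c3p1 : PosBox ⟨⟨0, 1, 1⟩, ⟨99, 100, 165⟩, ⟨20, 49, 400⟩, ⟨315, 376, 100⟩⟩ (mid5B.hC3p true) :=
  posBox_units (b := ⟨⟨0, 2, 2⟩, ⟨99, 100, 165⟩, ⟨20, 49, 400⟩, ⟨315, 376, 100⟩⟩) (by decide +kernel) (posBox_join₀ mid5B_c3p1_0 mid5B_c3p1_1)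

def mid5B_c3m1_0 : PosBox ⟨⟨0, 1, 2⟩, ⟨99, 100, 165⟩, ⟨20, 49, 400⟩, ⟨315, 376, 100⟩⟩ (mid5B.hC3m true) :=
  posBox_of_check (c := ⟨321, ⟨3, 7, 13, 10⟩⟩) (by decide +kernel)

def mid5B_c3m1_1 : PosBox ⟨⟨1, 2, 2⟩, ⟨99, 100, 165⟩, ⟨20, 49, 400⟩, ⟨315, 376, 100⟩⟩ (mid5B.hC3m true) :=
  posBox_of_check (c := ⟨322, ⟨3, 7, 13, 10⟩⟩) (by decide +kernel)

def mid5B_c3m1 : PosBox ⟨⟨0, 1, 1⟩, ⟨99, 100, 165⟩, ⟨20, 49, 400⟩, ⟨315, 376, 100⟩⟩ (mid5B.hC3m true) :=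
  posBox_units (b := ⟨⟨0, 2, 2⟩, ⟨99, 100, 165⟩, ⟨20, 49, 400⟩, ⟨315, 376, 100⟩⟩) (by decide +kernel) (posBox_join₀ mid5B_c3m1_0 mid5B_c3m1_1)

def mid5B_tmg1 : PosBox ⟨⟨0, 1, 1⟩, ⟨99, 100, 165⟩, ⟨20, 49, 400⟩, ⟨315, 376, 100⟩⟩ (mid5B.hTMG (mid5B.pEnd true)) :=
  posBox_of_check (c := ⟨301, ⟨2, 7, 12, 10⟩⟩) (by decide +kernel)

def mid5B_neg1 : PosBox ⟨⟨0, 1, 1⟩, ⟨99, 100, 165⟩, ⟨20, 49, 400⟩, ⟨315, 376, 100⟩⟩ (mid5B.hNeg (mid5B.pEnd true)) :=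
  posBox_of_check (c := ⟨200, ⟨2, 5, 8, 7⟩⟩) (by decide +kernel)

def mid5B_neglo1 : PosBox ⟨⟨0, 1, 1⟩, ⟨99, 100, 165⟩, ⟨20, 49, 400⟩, ⟨315, 376, 100⟩⟩ (mid5B.hNegLo (mid5B.pEnd true)) :=
  posBox_of_check (c := ⟨201, ⟨2, 5, 8, 7⟩⟩) (by decide +kernel)

/-- The checks on the signs. -/
theorem mid5B_sign : mid5B.Sign ⟨⟨0, 1, 1⟩, ⟨99, 100, 165⟩, ⟨20, 49, 400⟩, ⟨315, 376, 100⟩⟩ where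
  pp := mid5B_pp
  k2p := mid5B_k2p
  k2m := mid5B_k2m
  v2p := mid5B_v2p
  v2m := mid5B_v2m
  v3p := mid5B_v3p
  v3m := mid5B_v3m
  tg := Bool.forall_bool.2 ⟨mid5B_tg0, mid5B_tg1⟩
  c2p := Bool.forall_bool.2 ⟨mid5B_c2p0, mid5B_c2p1⟩
  c2m := Bool.forall_bool.2 ⟨mid5B_c2m0, mid5B_c2m1⟩
  kap := Bool.forall_bool.2 ⟨mid5B_kap0, mid5B_kap1⟩
  c1 := Bool.forall_bool.2 ⟨mid5B_c10, mid5B_c11⟩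
  c3p := Bool.forall_bool.2 ⟨mid5B_c3p0, mid5B_c3p1⟩
  c3m := Bool.forall_bool.2 ⟨mid5B_c3m0, mid5B_c3m1⟩
  tmg := Bool.forall_bool.2 ⟨mid5B_tmg0, mid5B_tmg1⟩
  high := .inl (Bool.forall_bool.2 ⟨⟨mid5B_neg0, mid5B_neglo0⟩, ⟨mid5B_neg1, mid5B_neglo1⟩⟩)
  vG := mid5B_vG
  vMG := mid5B_vMG
  ak := mid5B_ak
  aw := mid5B_aw
  gk := mid5B_gk
  gw := mid5B_gw
  ek := mid5B_ek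
  ew := mid5B_ew

end Vale.Agent.P100.Calib.Closed.High
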