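import Vale.Agent.P100.Calib.SlabHighTail
import Vale.Agent.P100.Calib.SlabHighEnvMid0
import Vale.Agent.P100.Calib.SlabHighEnvMid1
import Vale.Agent.P100.Calib.SlabHighEnvMid2
import Vale.Agent.P100.Calib.SlabHighEnvMid3
import Vale.Agent.P100.Calib.SlabHighEnvMid4
import Vale.Agent.P100.Calib.SlabHighEnvMid5
import Vale.Agent.P100.Calib.SlabHighEnvMid6
import Vale.Agent.P100.Calib.SlabHighSignMid1
import Vale.Agent.P100.Calib.SlabHighSignMid2
import Vale.Agent.P100.Calib.SlabHighSignMid3
import Vale.Agent.P100.Calib.SlabHighSignMid4A
import Vale.Agent.P100.Calib.SlabHighSignMid4B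
import Vale.Agent.P100.Calib.SlabHighSignMid5A
import Vale.Agent.P100.Calib.SlabHighSignMid5B

/-!
# The closed signs on the tail, mid piece
-/

set_option linter.unusedVariables false

namespace Vale.Agent.P100.Calib.Closed.High

open BoxPos Large

/-- **The closed signs on the tail for `1 / 20 ≤ d ≤ 3 / 25`.** -/
theorem signsTailMid : SignsTail bandsMid (1 / 20) (3 / 25) := by
  intro d S u v t hB h0 h1 hu hu1 hF hphi hlow hup
  have hd := hB.pos
  have hu1 : u ≤ 39 / 40 := hu1
  have hS0 : 0 < S := by linarith [hB.S_low]
  have mS : Side.Mem ⟨99, 100, 165⟩ S := by
    simp only [Side.Mem]; norm_num; constructor <;> linarith [hB.S_low, hB.S_high]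
  have hv := hF.v_low
  have mu : Side.Mem ⟨60, 98, 100⟩ u := by simp only [Side.Mem]; norm_num; constructor <;> linarith
  have hvmax : v < 103 / 25 := by
    have md : Side.Mem ⟨20, 49, 400⟩ d := by simp only [Side.Mem]; norm_num; constructor <;> linarith
    have k := midPhi_lt (u := u) (midPhi_top0 0 S d (7 / 20) (by norm_num [Side.Mem]) mS md
      (by norm_num [Side.Mem])) hd.le (by linarith) (by norm_num [Ex.val]) (by norm_num [Ex.val]; linarith)
    norm_num [Ex.val] at k
    linarith
  have ht : 0 ≤ t := by
    have md : Side.Mem ⟨20, 49, 400⟩ d := by simp only [Side.Mem]; norm_num; constructor <;> linarith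
    have mv : Side.Mem ⟨35, 412, 100⟩ v := by simp only [Side.Mem]; norm_num; constructor <;> linarith
    have k := mid_low_le (o := u) (S := S) (v := v) (x := xO) hu1 hd.le hlow rfl
    have k1 := midTn_pos u S d v mu mS md mv
    have k2 := midTd_pos u S d v mu mS md mv
    exact (pos_of_mul_pos_left (k1.trans_le k) k2.le).le
  have T : TailPt d S u v t := by
    refine ⟨hd, mS, hF, llg_nonneg llgLo llgHi mu mS ?_ ?_ hd hS0 (by linarith [hB.S_high]) ht hF⟩
    · simp only [Side.Mem]; norm_num; constructor <;> linarith
    · simp only [Side.Mem]; norm_num; constructor <;> linarith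
  rcases lt_or_ge v (40 / 100) with hc2 | hc2
  · have md : Side.Mem ⟨20, 49, 400⟩ d := by
      simp only [Side.Mem]; norm_num; constructor <;> linarith
    have mv : Side.Mem ⟨35, 40, 100⟩ v := by
      simp only [Side.Mem]; norm_num; constructor <;> linarith
    have hlo : mid0.u₁.val 0 S d v < u := by simp [mid0, Ex.val]; linarith
    have hhi : u ≤ mid0.u₀.val 0 S d v := by norm_num [mid0, Ex.val]; linarith
    exact (piece_false mid0_empty rfl rfl (by decide +kernel) (by decide +kernel) T md mv hlo hhi
      (fun o hx => mid_low_le hu1 hd.le hlow hx)
      (fun o _ hx => mid_up_le hu1 hd.le hup hx)).elim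
  · rcases lt_or_ge v (110 / 100) with hc4 | hc4
    · have md : Side.Mem ⟨20, 49, 400⟩ d := by
        simp only [Side.Mem]; norm_num; constructor <;> linarith
      have mv : Side.Mem ⟨40, 110, 100⟩ v := by
        simp only [Side.Mem]; norm_num; constructor <;> linarith
      have hlo : mid1.u₁.val 0 S d v < u := by simp [mid1, Ex.val]; linarith
      have hhi : u ≤ mid1.u₀.val 0 S d v := by norm_num [mid1, Ex.val]; linarith
      exact piece_signs mid1_env mid1_sign rfl rfl (by decide +kernel) (by decide +kernel) (by decide +kernel) T md mv hlo hhi
        (fun o hx => mid_low_le hu1 hd.le hlow hx)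
        (fun o _ hx => mid_up_le hu1 hd.le hup hx)
    · rcases lt_or_ge v (140 / 100) with hc6 | hc6
      · have md : Side.Mem ⟨20, 49, 400⟩ d := by
          simp only [Side.Mem]; norm_num; constructor <;> linarith
        have mv : Side.Mem ⟨110, 140, 100⟩ v := by
          simp only [Side.Mem]; norm_num; constructor <;> linarith
        have hlo : mid2.u₁.val 0 S d v < u := by
          by_contra hne
          have k := midPhi_lt (mid2_phi 0 S d v (by norm_num [Side.Mem]) mS md mv) hd.le (by linarith)
            (by simp [mid2, Ex.val]; linarith) (not_lt.1 hne)
          simp only [Ex.val] at k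
          linarith
        have hhi : u ≤ mid2.u₀.val 0 S d v := by norm_num [mid2, Ex.val]; linarith
        exact piece_signs mid2_env mid2_sign rfl rfl (by decide +kernel) (by decide +kernel) (by decide +kernel) T md mv hlo hhi
          (fun o hx => mid_low_le hu1 hd.le hlow hx)
          (fun o _ hx => mid_up_le hu1 hd.le hup hx)
      · rcases lt_or_ge v (215 / 100) with hc8 | hc8
        · have md : Side.Mem ⟨20, 49, 400⟩ d := by
            simp only [Side.Mem]; norm_num; constructor <;> linarith
          have mv : Side.Mem ⟨140, 215, 100⟩ v := by
            simp only [Side.Mem]; norm_num; constructor <;> linarith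
          have hlo : mid3.u₁.val 0 S d v < u := by
            by_contra hne
            have k := midPhi_lt (mid3_phi 0 S d v (by norm_num [Side.Mem]) mS md mv) hd.le (by linarith)
              (by simp [mid3, Ex.val]; linarith) (not_lt.1 hne)
            simp only [Ex.val] at k
            linarith
          have hhi : u ≤ mid3.u₀.val 0 S d v := by norm_num [mid3, Ex.val]; linarith
          exact piece_signs mid3_env mid3_sign rfl rfl (by decide +kernel) (by decide +kernel) (by decide +kernel) T md mv hlo hhi
            (fun o hx => mid_low_le hu1 hd.le hlow hx)
            (fun o _ hx => mid_up_le hu1 hd.le hup hx)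
        · rcases lt_or_ge v (315 / 100) with hc10 | hc10
          · have md : Side.Mem ⟨20, 49, 400⟩ d := by
              simp only [Side.Mem]; norm_num; constructor <;> linarith
            have mv : Side.Mem ⟨215, 315, 100⟩ v := by
              simp only [Side.Mem]; norm_num; constructor <;> linarith
            have hlo : mid4.u₁.val 0 S d v < u := by
              by_contra hne
              have k := midPhi_lt (mid4_phi 0 S d v (by norm_num [Side.Mem]) mS md mv) hd.le (by linarith)
                (by simp [mid4, Ex.val]; linarith) (not_lt.1 hne)
              simp only [Ex.val] at k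
              linarith
            have hhi : u ≤ mid4.u₀.val 0 S d v := by norm_num [mid4, Ex.val]; linarith
            exact piece_signs_cut mid4_env mid4_envU mid4A_sign mid4B_sign rfl rfl (by decide +kernel) (by decide +kernel) (by decide +kernel) (by decide +kernel)
              T md mv hlo hhi (fun o hx => mid_low_le hu1 hd.le hlow hx)
              (fun o _ hx => mid_up_le hu1 hd.le hup hx)
          · rcases lt_or_ge v (376 / 100) with hc12 | hc12
            · have md : Side.Mem ⟨20, 49, 400⟩ d := by
                simp only [Side.Mem]; norm_num; constructor <;> linarith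
              have mv : Side.Mem ⟨315, 376, 100⟩ v := by
                simp only [Side.Mem]; norm_num; constructor <;> linarith
              have hlo : mid5.u₁.val 0 S d v < u := by
                by_contra hne
                have k := midPhi_lt (mid5_phi 0 S d v (by norm_num [Side.Mem]) mS md mv) hd.le (by linarith)
                  (by simp [mid5, Ex.val]; linarith) (not_lt.1 hne)
                simp only [Ex.val] at k
                linarith
              have hhi : u ≤ mid5.u₀.val 0 S d v := by norm_num [mid5, Ex.val]; linarith
              exact piece_signs_cut mid5_env mid5_envU mid5A_sign mid5B_sign rfl rfl (by decide +kernel) (by decide +kernel) (by decide +kernel) (by decide +kernel)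
                T md mv hlo hhi (fun o hx => mid_low_le hu1 hd.le hlow hx)
                (fun o mo hx => evU mid5_env.p0 mid5_env.gn rfl rfl mo mS md mv T hx)
            · have md : Side.Mem ⟨20, 49, 400⟩ d := by
                simp only [Side.Mem]; norm_num; constructor <;> linarith
              have mv : Side.Mem ⟨376, 412, 100⟩ v := by
                simp only [Side.Mem]; norm_num; constructor <;> linarith
              have hlo : mid6.u₁.val 0 S d v < u := by
                by_contra hne
                have k := midPhi_lt (mid6_phi 0 S d v (by norm_num [Side.Mem]) mS md mv) hd.le (by linarith)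
                  (by simp [mid6, Ex.val]; linarith) (not_lt.1 hne)
                simp only [Ex.val] at k
                linarith
              have hhi : u ≤ mid6.u₀.val 0 S d v := by norm_num [mid6, Ex.val]; linarith
              exact (piece_false mid6_empty rfl rfl (by decide +kernel) (by decide +kernel) T md mv hlo hhi
                (fun o hx => mid_low_le hu1 hd.le hlow hx)
                (fun o _ hx => mid_up_le hu1 hd.le hup hx)).elim

end Vale.Agent.P100.Calib.Closed.High
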