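import Vale.Agent.P100.Calib.SlabHighData

/-!
# Checks of the bounds of a piece of the tail
-/

set_option linter.defProp false

namespace Vale.Agent.P100.Calib.Closed.High

open BoxPos Large

def top10_p0 : PosBox ⟨⟨0, 1, 1⟩, ⟨99, 100, 165⟩, ⟨72, 121, 600⟩, ⟨115, 127, 100⟩⟩ (top10.hP0) :=
  posBox_of_check (c := ⟨64, ⟨0, 2, 3, 1⟩⟩) (by decide +kernel)

def top10_gn : PosBox ⟨⟨0, 1, 1⟩, ⟨99, 100, 165⟩, ⟨72, 121, 600⟩, ⟨115, 127, 100⟩⟩ (top10.hGn) :=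
  posBox_of_check (c := ⟨56, ⟨1, 1, 2, 2⟩⟩) (by decide +kernel)

def top10_phi_0 : PosBox ⟨⟨0, 1, 1⟩, ⟨99, 100, 165⟩, ⟨72, 96, 600⟩, ⟨115, 127, 100⟩⟩ (topPhi top10.u₁ xV) :=
  posBox_of_check (c := ⟨91, ⟨0, 0, 4, 3⟩⟩) (by decide +kernel)

def top10_phi_1 : PosBox ⟨⟨0, 1, 1⟩, ⟨99, 100, 165⟩, ⟨96, 121, 600⟩, ⟨115, 127, 100⟩⟩ (topPhi top10.u₁ xV) :=
  posBox_of_check (c := ⟨92, ⟨0, 0, 4, 3⟩⟩) (by decide +kernel)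

theorem top10_phi : PosBox ⟨⟨0, 1, 1⟩, ⟨99, 100, 165⟩, ⟨72, 121, 600⟩, ⟨115, 127, 100⟩⟩ (topPhi top10.u₁ xV) :=
  posBox_join₂ top10_phi_0 top10_phi_1

def top10_den0 : PosBox ⟨⟨0, 1, 1⟩, ⟨99, 100, 165⟩, ⟨72, 121, 600⟩, ⟨115, 127, 100⟩⟩ (top10.hDen false) :=
  posBox_of_check (c := ⟨77, ⟨2, 0, 4, 2⟩⟩) (by decide +kernel)

def top10_den1 : PosBox ⟨⟨0, 1, 1⟩, ⟨99, 100, 165⟩, ⟨72, 121, 600⟩, ⟨115, 127, 100⟩⟩ (top10.hDen true) :=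
  posBox_of_check (c := ⟨91, ⟨2, 0, 4, 2⟩⟩) (by decide +kernel)

def top10_ev0 : PosBox ⟨⟨0, 1, 1⟩, ⟨99, 100, 165⟩, ⟨72, 121, 600⟩, ⟨115, 127, 100⟩⟩ (top10.hEv false) :=
  posBox_of_check (c := ⟨161, ⟨4, 2, 7, 4⟩⟩) (by decide +kernel)

def top10_eL0 : PosBox ⟨⟨0, 1, 1⟩, ⟨99, 100, 165⟩, ⟨72, 121, 600⟩, ⟨115, 127, 100⟩⟩ (top10.hEL false) :=
  posBox_of_check (c := ⟨239, ⟨5, 6, 10, 6⟩⟩) (by decide +kernel)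

def top10_eH0 : PosBox ⟨⟨0, 1, 1⟩, ⟨99, 100, 165⟩, ⟨72, 121, 600⟩, ⟨115, 127, 100⟩⟩ (top10.hEH false) :=
  posBox_of_check (c := ⟨237, ⟨5, 6, 10, 6⟩⟩) (by decide +kernel)

def top10_pL0 : PosBox ⟨⟨0, 1, 1⟩, ⟨99, 100, 165⟩, ⟨72, 121, 600⟩, ⟨115, 127, 100⟩⟩ (top10.hPL false) :=
  posBox_of_check (c := ⟨254, ⟨5, 6, 10, 7⟩⟩) (by decide +kernel)

def top10_pU0 : PosBox ⟨⟨0, 1, 1⟩, ⟨99, 100, 165⟩, ⟨72, 121, 600⟩, ⟨115, 127, 100⟩⟩ (top10.hPU false) :=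
  posBox_of_check (c := ⟨254, ⟨5, 6, 10, 7⟩⟩) (by decide +kernel)

def top10_kU0 : PosBox ⟨⟨0, 1, 1⟩, ⟨99, 100, 165⟩, ⟨72, 121, 600⟩, ⟨115, 127, 100⟩⟩ (top10.hKU false) :=
  posBox_of_check (c := ⟨252, ⟨5, 6, 10, 7⟩⟩) (by decide +kernel)

def top10_kL0 : PosBox ⟨⟨0, 1, 1⟩, ⟨99, 100, 165⟩, ⟨72, 121, 600⟩, ⟨115, 127, 100⟩⟩ (top10.hKL false) :=
  posBox_of_check (c := ⟨252, ⟨5, 6, 10, 7⟩⟩) (by decide +kernel)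

def top10_wU0 : PosBox ⟨⟨0, 1, 1⟩, ⟨99, 100, 165⟩, ⟨72, 121, 600⟩, ⟨115, 127, 100⟩⟩ (top10.hWU false) :=
  posBox_of_check (c := ⟨279, ⟨5, 8, 11, 7⟩⟩) (by decide +kernel)

def top10_wL0 : PosBox ⟨⟨0, 1, 1⟩, ⟨99, 100, 165⟩, ⟨72, 121, 600⟩, ⟨115, 127, 100⟩⟩ (top10.hWL false) :=
  posBox_of_check (c := ⟨279, ⟨5, 8, 11, 7⟩⟩) (by decide +kernel)

def top10_pV0 : PosBox ⟨⟨0, 1, 1⟩, ⟨99, 100, 165⟩, ⟨72, 121, 600⟩, ⟨115, 127, 100⟩⟩ (({ top10 with pU := top10PU } : Piece).hPU false) :=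
  posBox_of_check (c := ⟨254, ⟨5, 6, 10, 7⟩⟩) (by decide +kernel)

def top10_ev1 : PosBox ⟨⟨0, 1, 1⟩, ⟨99, 100, 165⟩, ⟨72, 121, 600⟩, ⟨115, 127, 100⟩⟩ (top10.hEv true) :=
  posBox_of_check (c := ⟨206, ⟨4, 2, 9, 5⟩⟩) (by decide +kernel)

def top10_eL1 : PosBox ⟨⟨0, 1, 1⟩, ⟨99, 100, 165⟩, ⟨72, 121, 600⟩, ⟨115, 127, 100⟩⟩ (top10.hEL true) :=
  posBox_of_check (c := ⟨284, ⟨5, 6, 12, 7⟩⟩) (by decide +kernel)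

def top10_eH1 : PosBox ⟨⟨0, 1, 1⟩, ⟨99, 100, 165⟩, ⟨72, 121, 600⟩, ⟨115, 127, 100⟩⟩ (top10.hEH true) :=
  posBox_of_check (c := ⟨282, ⟨5, 6, 12, 7⟩⟩) (by decide +kernel)

def top10_pL1 : PosBox ⟨⟨0, 1, 1⟩, ⟨99, 100, 165⟩, ⟨72, 121, 600⟩, ⟨115, 127, 100⟩⟩ (top10.hPL true) :=
  posBox_of_check (c := ⟨299, ⟨5, 6, 12, 8⟩⟩) (by decide +kernel)

def top10_pU1 : PosBox ⟨⟨0, 1, 1⟩, ⟨99, 100, 165⟩, ⟨72, 121, 600⟩, ⟨115, 127, 100⟩⟩ (top10.hPU true) :=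
  posBox_of_check (c := ⟨299, ⟨5, 6, 12, 8⟩⟩) (by decide +kernel)

def top10_kU1 : PosBox ⟨⟨0, 1, 1⟩, ⟨99, 100, 165⟩, ⟨72, 121, 600⟩, ⟨115, 127, 100⟩⟩ (top10.hKU true) :=
  posBox_of_check (c := ⟨297, ⟨5, 6, 12, 8⟩⟩) (by decide +kernel)

def top10_kL1 : PosBox ⟨⟨0, 1, 1⟩, ⟨99, 100, 165⟩, ⟨72, 121, 600⟩, ⟨115, 127, 100⟩⟩ (top10.hKL true) :=
  posBox_of_check (c := ⟨297, ⟨5, 6, 12, 8⟩⟩) (by decide +kernel)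

def top10_wU1 : PosBox ⟨⟨0, 1, 1⟩, ⟨99, 100, 165⟩, ⟨72, 121, 600⟩, ⟨115, 127, 100⟩⟩ (top10.hWU true) :=
  posBox_of_check (c := ⟨324, ⟨5, 8, 13, 8⟩⟩) (by decide +kernel)

def top10_wL1 : PosBox ⟨⟨0, 1, 1⟩, ⟨99, 100, 165⟩, ⟨72, 121, 600⟩, ⟨115, 127, 100⟩⟩ (top10.hWL true) :=
  posBox_of_check (c := ⟨324, ⟨5, 8, 13, 8⟩⟩) (by decide +kernel)

def top10_pV1_0 : PosBox ⟨⟨0, 1, 2⟩, ⟨99, 100, 165⟩, ⟨72, 121, 600⟩, ⟨115, 127, 100⟩⟩ (({ top10 with pU := top10PU } : Piece).hPU true) :=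
  posBox_of_check (c := ⟨302, ⟨5, 6, 12, 8⟩⟩) (by decide +kernel)

def top10_pV1_1 : PosBox ⟨⟨1, 2, 2⟩, ⟨99, 100, 165⟩, ⟨72, 121, 600⟩, ⟨115, 127, 100⟩⟩ (({ top10 with pU := top10PU } : Piece).hPU true) :=
  posBox_of_check (c := ⟨304, ⟨5, 6, 12, 8⟩⟩) (by decide +kernel)

def top10_pV1 : PosBox ⟨⟨0, 1, 1⟩, ⟨99, 100, 165⟩, ⟨72, 121, 600⟩, ⟨115, 127, 100⟩⟩ (({ top10 with pU := top10PU } : Piece).hPU true) :=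
  posBox_units (b := ⟨⟨0, 2, 2⟩, ⟨99, 100, 165⟩, ⟨72, 121, 600⟩, ⟨115, 127, 100⟩⟩) (by decide +kernel) (posBox_join₀ top10_pV1_0 top10_pV1_1)

/-- The checks on the bounds. -/
theorem top10_env : top10.Env ⟨⟨0, 1, 1⟩, ⟨99, 100, 165⟩, ⟨72, 121, 600⟩, ⟨115, 127, 100⟩⟩ where
  p0 := top10_p0
  den := Bool.forall_bool.2 ⟨top10_den0, top10_den1⟩
  gn := top10_gn
  ev := Bool.forall_bool.2 ⟨top10_ev0, top10_ev1⟩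
  eL := Bool.forall_bool.2 ⟨top10_eL0, top10_eL1⟩
  eL' := ⟨.inr rfl, .inr rfl⟩
  eH := Bool.forall_bool.2 ⟨top10_eH0, top10_eH1⟩
  eH' := ⟨.inr rfl, .inr rfl⟩
  pL := Bool.forall_bool.2 ⟨top10_pL0, top10_pL1⟩
  pL' := ⟨.inr rfl, .inr rfl⟩
  pU := Bool.forall_bool.2 ⟨top10_pU0, top10_pU1⟩
  pU' := ⟨.inr rfl, .inr rfl⟩
  kU := Bool.forall_bool.2 ⟨top10_kU0, top10_kU1⟩
  kU' := ⟨.inr rfl, .inr rfl⟩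
  kL := Bool.forall_bool.2 ⟨top10_kL0, top10_kL1⟩
  kL' := ⟨.inr rfl, .inr rfl⟩
  wU := Bool.forall_bool.2 ⟨top10_wU0, top10_wU1⟩
  wU' := ⟨.inr rfl, .inr rfl⟩
  wL := Bool.forall_bool.2 ⟨top10_wL0, top10_wL1⟩
  wL' := ⟨.inr rfl, .inr rfl⟩

/-- The checks with the bound above the cut. -/
theorem top10_envU : ({ top10 with pU := top10PU } : Piece).Env ⟨⟨0, 1, 1⟩, ⟨99, 100, 165⟩, ⟨72, 121, 600⟩, ⟨115, 127, 100⟩⟩ :=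
  top10_env.withU top10PU (Bool.forall_bool.2 ⟨top10_pV0, top10_pV1⟩) ⟨.inr rfl, .inr rfl⟩

end Vale.Agent.P100.Calib.Closed.High
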