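import Vale.Agent.P100.Calib.SlabHighData

/-!
# Checks of the bounds of a piece of the tail
-/

set_option linter.defProp false

namespace Vale.Agent.P100.Calib.Closed.High

open BoxPos Large

def top11_p0 : PosBox ⟨⟨0, 1, 1⟩, ⟨99, 100, 165⟩, ⟨72, 121, 600⟩, ⟨127, 169, 100⟩⟩ (top11.hP0) :=
  posBox_of_check (c := ⟨64, ⟨0, 2, 3, 1⟩⟩) (by decide +kernel)

def top11_gn : PosBox ⟨⟨0, 1, 1⟩, ⟨99, 100, 165⟩, ⟨72, 121, 600⟩, ⟨127, 169, 100⟩⟩ (top11.hGn) :=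
  posBox_of_check (c := ⟨56, ⟨1, 1, 2, 2⟩⟩) (by decide +kernel)

def top11_phi : PosBox ⟨⟨0, 1, 1⟩, ⟨99, 100, 165⟩, ⟨72, 121, 600⟩, ⟨127, 169, 100⟩⟩ (topPhi top11.u₁ xV) :=
  posBox_of_check (c := ⟨91, ⟨0, 0, 4, 3⟩⟩) (by decide +kernel)

def top11_den0 : PosBox ⟨⟨0, 1, 1⟩, ⟨99, 100, 165⟩, ⟨72, 121, 600⟩, ⟨127, 169, 100⟩⟩ (top11.hDen false) :=
  posBox_of_check (c := ⟨77, ⟨2, 0, 4, 2⟩⟩) (by decide +kernel)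

def top11_den1 : PosBox ⟨⟨0, 1, 1⟩, ⟨99, 100, 165⟩, ⟨72, 121, 600⟩, ⟨127, 169, 100⟩⟩ (top11.hDen true) :=
  posBox_of_check (c := ⟨91, ⟨2, 0, 4, 2⟩⟩) (by decide +kernel)

def top11_ev0 : PosBox ⟨⟨0, 1, 1⟩, ⟨99, 100, 165⟩, ⟨72, 121, 600⟩, ⟨127, 169, 100⟩⟩ (top11.hEv false) :=
  posBox_of_check (c := ⟨161, ⟨4, 2, 7, 4⟩⟩) (by decide +kernel)

def top11_eL0 : PosBox ⟨⟨0, 1, 1⟩, ⟨99, 100, 165⟩, ⟨72, 121, 600⟩, ⟨127, 169, 100⟩⟩ (top11.hEL false) :=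
  posBox_of_check (c := ⟨238, ⟨5, 6, 10, 6⟩⟩) (by decide +kernel)

def top11_eH0 : PosBox ⟨⟨0, 1, 1⟩, ⟨99, 100, 165⟩, ⟨72, 121, 600⟩, ⟨127, 169, 100⟩⟩ (top11.hEH false) :=
  posBox_of_check (c := ⟨237, ⟨5, 6, 10, 6⟩⟩) (by decide +kernel)

def top11_pL0 : PosBox ⟨⟨0, 1, 1⟩, ⟨99, 100, 165⟩, ⟨72, 121, 600⟩, ⟨127, 169, 100⟩⟩ (top11.hPL false) :=
  posBox_of_check (c := ⟨254, ⟨5, 6, 10, 7⟩⟩) (by decide +kernel)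

def top11_pU0 : PosBox ⟨⟨0, 1, 1⟩, ⟨99, 100, 165⟩, ⟨72, 121, 600⟩, ⟨127, 169, 100⟩⟩ (top11.hPU false) :=
  posBox_of_check (c := ⟨254, ⟨5, 6, 10, 7⟩⟩) (by decide +kernel)

def top11_kU0 : PosBox ⟨⟨0, 1, 1⟩, ⟨99, 100, 165⟩, ⟨72, 121, 600⟩, ⟨127, 169, 100⟩⟩ (top11.hKU false) :=
  posBox_of_check (c := ⟨252, ⟨5, 6, 10, 7⟩⟩) (by decide +kernel)

def top11_kL0 : PosBox ⟨⟨0, 1, 1⟩, ⟨99, 100, 165⟩, ⟨72, 121, 600⟩, ⟨127, 169, 100⟩⟩ (top11.hKL false) :=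
  posBox_of_check (c := ⟨252, ⟨5, 6, 10, 7⟩⟩) (by decide +kernel)

def top11_wU0 : PosBox ⟨⟨0, 1, 1⟩, ⟨99, 100, 165⟩, ⟨72, 121, 600⟩, ⟨127, 169, 100⟩⟩ (top11.hWU false) :=
  posBox_of_check (c := ⟨278, ⟨5, 8, 11, 7⟩⟩) (by decide +kernel)

def top11_wL0 : PosBox ⟨⟨0, 1, 1⟩, ⟨99, 100, 165⟩, ⟨72, 121, 600⟩, ⟨127, 169, 100⟩⟩ (top11.hWL false) :=
  posBox_of_check (c := ⟨278, ⟨5, 8, 11, 7⟩⟩) (by decide +kernel)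

def top11_ev1 : PosBox ⟨⟨0, 1, 1⟩, ⟨99, 100, 165⟩, ⟨72, 121, 600⟩, ⟨127, 169, 100⟩⟩ (top11.hEv true) :=
  posBox_of_check (c := ⟨206, ⟨4, 2, 9, 5⟩⟩) (by decide +kernel)

def top11_eL1 : PosBox ⟨⟨0, 1, 1⟩, ⟨99, 100, 165⟩, ⟨72, 121, 600⟩, ⟨127, 169, 100⟩⟩ (top11.hEL true) :=
  posBox_of_check (c := ⟨283, ⟨5, 6, 12, 7⟩⟩) (by decide +kernel)

def top11_eH1 : PosBox ⟨⟨0, 1, 1⟩, ⟨99, 100, 165⟩, ⟨72, 121, 600⟩, ⟨127, 169, 100⟩⟩ (top11.hEH true) :=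
  posBox_of_check (c := ⟨282, ⟨5, 6, 12, 7⟩⟩) (by decide +kernel)

def top11_pL1 : PosBox ⟨⟨0, 1, 1⟩, ⟨99, 100, 165⟩, ⟨72, 121, 600⟩, ⟨127, 169, 100⟩⟩ (top11.hPL true) :=
  posBox_of_check (c := ⟨299, ⟨5, 6, 12, 8⟩⟩) (by decide +kernel)

def top11_pU1 : PosBox ⟨⟨0, 1, 1⟩, ⟨99, 100, 165⟩, ⟨72, 121, 600⟩, ⟨127, 169, 100⟩⟩ (top11.hPU true) :=
  posBox_of_check (c := ⟨299, ⟨5, 6, 12, 8⟩⟩) (by decide +kernel)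

def top11_kU1 : PosBox ⟨⟨0, 1, 1⟩, ⟨99, 100, 165⟩, ⟨72, 121, 600⟩, ⟨127, 169, 100⟩⟩ (top11.hKU true) :=
  posBox_of_check (c := ⟨297, ⟨5, 6, 12, 8⟩⟩) (by decide +kernel)

def top11_kL1 : PosBox ⟨⟨0, 1, 1⟩, ⟨99, 100, 165⟩, ⟨72, 121, 600⟩, ⟨127, 169, 100⟩⟩ (top11.hKL true) :=
  posBox_of_check (c := ⟨297, ⟨5, 6, 12, 8⟩⟩) (by decide +kernel)

def top11_wU1 : PosBox ⟨⟨0, 1, 1⟩, ⟨99, 100, 165⟩, ⟨72, 121, 600⟩, ⟨127, 169, 100⟩⟩ (top11.hWU true) :=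
  posBox_of_check (c := ⟨323, ⟨5, 8, 13, 8⟩⟩) (by decide +kernel)

def top11_wL1 : PosBox ⟨⟨0, 1, 1⟩, ⟨99, 100, 165⟩, ⟨72, 121, 600⟩, ⟨127, 169, 100⟩⟩ (top11.hWL true) :=
  posBox_of_check (c := ⟨323, ⟨5, 8, 13, 8⟩⟩) (by decide +kernel)

/-- The checks on the bounds. -/
theorem top11_env : top11.Env ⟨⟨0, 1, 1⟩, ⟨99, 100, 165⟩, ⟨72, 121, 600⟩, ⟨127, 169, 100⟩⟩ where
  p0 := top11_p0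
  den := Bool.forall_bool.2 ⟨top11_den0, top11_den1⟩
  gn := top11_gn
  ev := Bool.forall_bool.2 ⟨top11_ev0, top11_ev1⟩
  eL := Bool.forall_bool.2 ⟨top11_eL0, top11_eL1⟩
  eL' := ⟨.inr rfl, .inr rfl⟩
  eH := Bool.forall_bool.2 ⟨top11_eH0, top11_eH1⟩
  eH' := ⟨.inr rfl, .inr rfl⟩
  pL := Bool.forall_bool.2 ⟨top11_pL0, top11_pL1⟩
  pL' := ⟨.inr rfl, .inr rfl⟩
  pU := Bool.forall_bool.2 ⟨top11_pU0, top11_pU1⟩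
  pU' := ⟨.inr rfl, .inr rfl⟩
  kU := Bool.forall_bool.2 ⟨top11_kU0, top11_kU1⟩
  kU' := ⟨.inr rfl, .inr rfl⟩
  kL := Bool.forall_bool.2 ⟨top11_kL0, top11_kL1⟩
  kL' := ⟨.inr rfl, .inr rfl⟩
  wU := Bool.forall_bool.2 ⟨top11_wU0, top11_wU1⟩
  wU' := ⟨.inr rfl, .inr rfl⟩
  wL := Bool.forall_bool.2 ⟨top11_wL0, top11_wL1⟩
  wL' := ⟨.inr rfl, .inr rfl⟩

end Vale.Agent.P100.Calib.Closed.High
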