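import Vale.Agent.P100.Calib.SlabHighData

/-!
# Checks of the bounds of a piece of the tail
-/

set_option linter.defProp false

namespace Vale.Agent.P100.Calib.Closed.High

open BoxPos Large

def top12_p0 : PosBox ⟨⟨0, 1, 1⟩, ⟨99, 100, 165⟩, ⟨72, 121, 600⟩, ⟨35, 65, 100⟩⟩ (top12.hP0) :=
  posBox_of_check (c := ⟨64, ⟨0, 2, 3, 1⟩⟩) (by decide +kernel)

def top12_gn : PosBox ⟨⟨0, 1, 1⟩, ⟨99, 100, 165⟩, ⟨72, 121, 600⟩, ⟨35, 65, 100⟩⟩ (top12.hGn) :=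
  posBox_of_check (c := ⟨42, ⟨1, 1, 2, 1⟩⟩) (by decide +kernel)

def top12_den0 : PosBox ⟨⟨0, 1, 1⟩, ⟨99, 100, 165⟩, ⟨72, 121, 600⟩, ⟨35, 65, 100⟩⟩ (top12.hDen false) :=
  posBox_of_check (c := ⟨61, ⟨2, 0, 2, 0⟩⟩) (by decide +kernel)

def top12_den1 : PosBox ⟨⟨0, 1, 1⟩, ⟨99, 100, 165⟩, ⟨72, 121, 600⟩, ⟨35, 65, 100⟩⟩ (top12.hDen true) :=
  posBox_of_check (c := ⟨82, ⟨2, 0, 3, 0⟩⟩) (by decide +kernel)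

def top12_none0 : PosBox ⟨⟨0, 1, 1⟩, ⟨99, 100, 165⟩, ⟨72, 121, 600⟩, ⟨35, 65, 100⟩⟩ (top12.hNone false) :=
  posBox_of_check (c := ⟨192, ⟨5, 6, 7, 2⟩⟩) (by decide +kernel)

def top12_none1 : PosBox ⟨⟨0, 1, 1⟩, ⟨99, 100, 165⟩, ⟨72, 121, 600⟩, ⟨35, 65, 100⟩⟩ (top12.hNone true) :=
  posBox_of_check (c := ⟨240, ⟨5, 6, 9, 2⟩⟩) (by decide +kernel)

def top12_mupU : PosBox ⟨⟨0, 1, 1⟩, ⟨99, 100, 165⟩, ⟨72, 121, 600⟩, ⟨35, 65, 100⟩⟩ (top12.pU.μ) :=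
  posBox_of_check (c := ⟨5, ⟨0, 0, 0, 0⟩⟩) (by decide +kernel)

/-- No point in the piece. -/
theorem top12_empty : top12.Empty ⟨⟨0, 1, 1⟩, ⟨99, 100, 165⟩, ⟨72, 121, 600⟩, ⟨35, 65, 100⟩⟩ :=
  ⟨top12_p0, Bool.forall_bool.2 ⟨top12_den0, top12_den1⟩, top12_gn, ⟨.inl top12_mupU, .inr rfl⟩, Bool.forall_bool.2 ⟨top12_none0, top12_none1⟩⟩

end Vale.Agent.P100.Calib.Closed.High
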