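import Vale.Agent.P100.Calib.SlabHighData

/-!
# Checks of the bounds of a piece of the tail
-/

set_option linter.defProp false

namespace Vale.Agent.P100.Calib.Closed.High

open BoxPos Large

def top13_p0 : PosBox ⟨⟨0, 1, 1⟩, ⟨99, 100, 165⟩, ⟨72, 121, 600⟩, ⟨65, 140, 100⟩⟩ (top13.hP0) :=
  posBox_of_check (c := ⟨64, ⟨0, 2, 3, 1⟩⟩) (by decide +kernel)

def top13_gn : PosBox ⟨⟨0, 1, 1⟩, ⟨99, 100, 165⟩, ⟨72, 121, 600⟩, ⟨65, 140, 100⟩⟩ (top13.hGn) :=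
  posBox_of_check (c := ⟨42, ⟨1, 1, 2, 1⟩⟩) (by decide +kernel)

def top13_den0 : PosBox ⟨⟨0, 1, 1⟩, ⟨99, 100, 165⟩, ⟨72, 121, 600⟩, ⟨65, 140, 100⟩⟩ (top13.hDen false) :=
  posBox_of_check (c := ⟨61, ⟨2, 0, 2, 0⟩⟩) (by decide +kernel)

def top13_den1 : PosBox ⟨⟨0, 1, 1⟩, ⟨99, 100, 165⟩, ⟨72, 121, 600⟩, ⟨65, 140, 100⟩⟩ (top13.hDen true) :=
  posBox_of_check (c := ⟨82, ⟨2, 0, 3, 0⟩⟩) (by decide +kernel)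

def top13_ev0 : PosBox ⟨⟨0, 1, 1⟩, ⟨99, 100, 165⟩, ⟨72, 121, 600⟩, ⟨65, 140, 100⟩⟩ (top13.hEv false) :=
  posBox_of_check (c := ⟨117, ⟨4, 2, 4, 1⟩⟩) (by decide +kernel)

def top13_eL0 : PosBox ⟨⟨0, 1, 1⟩, ⟨99, 100, 165⟩, ⟨72, 121, 600⟩, ⟨65, 140, 100⟩⟩ (top13.hEL false) :=
  posBox_of_check (c := ⟨208, ⟨5, 6, 7, 3⟩⟩) (by decide +kernel)

def top13_eH0 : PosBox ⟨⟨0, 1, 1⟩, ⟨99, 100, 165⟩, ⟨72, 121, 600⟩, ⟨65, 140, 100⟩⟩ (top13.hEH false) :=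
  posBox_of_check (c := ⟨209, ⟨5, 6, 7, 3⟩⟩) (by decide +kernel)

def top13_pL0 : PosBox ⟨⟨0, 1, 1⟩, ⟨99, 100, 165⟩, ⟨72, 121, 600⟩, ⟨65, 140, 100⟩⟩ (top13.hPL false) :=
  posBox_of_check (c := ⟨206, ⟨5, 6, 7, 2⟩⟩) (by decide +kernel)

def top13_pU0 : PosBox ⟨⟨0, 1, 1⟩, ⟨99, 100, 165⟩, ⟨72, 121, 600⟩, ⟨65, 140, 100⟩⟩ (top13.hPU false) :=
  posBox_of_check (c := ⟨198, ⟨5, 6, 7, 3⟩⟩) (by decide +kernel)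

def top13_kU0 : PosBox ⟨⟨0, 1, 1⟩, ⟨99, 100, 165⟩, ⟨72, 121, 600⟩, ⟨65, 140, 100⟩⟩ (top13.hKU false) :=
  posBox_of_check (c := ⟨197, ⟨5, 6, 7, 3⟩⟩) (by decide +kernel)

def top13_kL0 : PosBox ⟨⟨0, 1, 1⟩, ⟨99, 100, 165⟩, ⟨72, 121, 600⟩, ⟨65, 140, 100⟩⟩ (top13.hKL false) :=
  posBox_of_check (c := ⟨196, ⟨5, 6, 7, 3⟩⟩) (by decide +kernel)

def top13_wU0 : PosBox ⟨⟨0, 1, 1⟩, ⟨99, 100, 165⟩, ⟨72, 121, 600⟩, ⟨65, 140, 100⟩⟩ (top13.hWU false) :=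
  posBox_of_check (c := ⟨222, ⟨5, 8, 8, 3⟩⟩) (by decide +kernel)

def top13_wL0 : PosBox ⟨⟨0, 1, 1⟩, ⟨99, 100, 165⟩, ⟨72, 121, 600⟩, ⟨65, 140, 100⟩⟩ (top13.hWL false) :=
  posBox_of_check (c := ⟨221, ⟨5, 8, 8, 3⟩⟩) (by decide +kernel)

def top13_ev1 : PosBox ⟨⟨0, 1, 1⟩, ⟨99, 100, 165⟩, ⟨72, 121, 600⟩, ⟨65, 140, 100⟩⟩ (top13.hEv true) :=
  posBox_of_check (c := ⟨165, ⟨4, 2, 6, 1⟩⟩) (by decide +kernel)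

def top13_eL1 : PosBox ⟨⟨0, 1, 1⟩, ⟨99, 100, 165⟩, ⟨72, 121, 600⟩, ⟨65, 140, 100⟩⟩ (top13.hEL true) :=
  posBox_of_check (c := ⟨256, ⟨5, 6, 9, 3⟩⟩) (by decide +kernel)

def top13_eH1_0_0 : PosBox ⟨⟨0, 1, 2⟩, ⟨99, 100, 165⟩, ⟨72, 96, 600⟩, ⟨65, 140, 100⟩⟩ (top13.hEH true) :=
  posBox_of_check (c := ⟨258, ⟨5, 6, 9, 3⟩⟩) (by decide +kernel)

def top13_eH1_0_1_0_0 : PosBox ⟨⟨0, 1, 2⟩, ⟨99, 100, 165⟩, ⟨96, 108, 600⟩, ⟨65, 102, 100⟩⟩ (top13.hEH true) :=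
  posBox_of_check (c := ⟨259, ⟨5, 6, 9, 3⟩⟩) (by decide +kernel)

def top13_eH1_0_1_0_1 : PosBox ⟨⟨0, 1, 2⟩, ⟨99, 100, 165⟩, ⟨96, 108, 600⟩, ⟨102, 140, 100⟩⟩ (top13.hEH true) :=
  posBox_of_check (c := ⟨259, ⟨5, 6, 9, 3⟩⟩) (by decide +kernel)

theorem top13_eH1_0_1_0 : PosBox ⟨⟨0, 1, 2⟩, ⟨99, 100, 165⟩, ⟨96, 108, 600⟩, ⟨65, 140, 100⟩⟩ (top13.hEH true) :=
  posBox_join₃ top13_eH1_0_1_0_0 top13_eH1_0_1_0_1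

def top13_eH1_0_1_1 : PosBox ⟨⟨0, 1, 2⟩, ⟨99, 100, 165⟩, ⟨108, 121, 600⟩, ⟨65, 140, 100⟩⟩ (top13.hEH true) :=
  posBox_of_check (c := ⟨259, ⟨5, 6, 9, 3⟩⟩) (by decide +kernel)

theorem top13_eH1_0_1 : PosBox ⟨⟨0, 1, 2⟩, ⟨99, 100, 165⟩, ⟨96, 121, 600⟩, ⟨65, 140, 100⟩⟩ (top13.hEH true) :=
  posBox_join₂ top13_eH1_0_1_0 top13_eH1_0_1_1

theorem top13_eH1_0 : PosBox ⟨⟨0, 1, 2⟩, ⟨99, 100, 165⟩, ⟨72, 121, 600⟩, ⟨65, 140, 100⟩⟩ (top13.hEH true) :=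
  posBox_join₂ top13_eH1_0_0 top13_eH1_0_1

def top13_eH1_1_0_0 : PosBox ⟨⟨1, 2, 2⟩, ⟨99, 100, 165⟩, ⟨72, 84, 600⟩, ⟨65, 140, 100⟩⟩ (top13.hEH true) :=
  posBox_of_check (c := ⟨260, ⟨5, 6, 9, 3⟩⟩) (by decide +kernel)

def top13_eH1_1_0_1 : PosBox ⟨⟨1, 2, 2⟩, ⟨99, 100, 165⟩, ⟨84, 96, 600⟩, ⟨65, 140, 100⟩⟩ (top13.hEH true) :=
  posBox_of_check (c := ⟨260, ⟨5, 6, 9, 3⟩⟩) (by decide +kernel)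

theorem top13_eH1_1_0 : PosBox ⟨⟨1, 2, 2⟩, ⟨99, 100, 165⟩, ⟨72, 96, 600⟩, ⟨65, 140, 100⟩⟩ (top13.hEH true) :=
  posBox_join₂ top13_eH1_1_0_0 top13_eH1_1_0_1

def top13_eH1_1_1 : PosBox ⟨⟨1, 2, 2⟩, ⟨99, 100, 165⟩, ⟨96, 121, 600⟩, ⟨65, 140, 100⟩⟩ (top13.hEH true) :=
  posBox_of_check (c := ⟨261, ⟨5, 6, 9, 3⟩⟩) (by decide +kernel)

theorem top13_eH1_1 : PosBox ⟨⟨1, 2, 2⟩, ⟨99, 100, 165⟩, ⟨72, 121, 600⟩, ⟨65, 140, 100⟩⟩ (top13.hEH true) :=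
  posBox_join₂ top13_eH1_1_0 top13_eH1_1_1

def top13_eH1 : PosBox ⟨⟨0, 1, 1⟩, ⟨99, 100, 165⟩, ⟨72, 121, 600⟩, ⟨65, 140, 100⟩⟩ (top13.hEH true) :=
  posBox_units (b := ⟨⟨0, 2, 2⟩, ⟨99, 100, 165⟩, ⟨72, 121, 600⟩, ⟨65, 140, 100⟩⟩) (by decide +kernel) (posBox_join₀ top13_eH1_0 top13_eH1_1)

def top13_pL1 : PosBox ⟨⟨0, 1, 1⟩, ⟨99, 100, 165⟩, ⟨72, 121, 600⟩, ⟨65, 140, 100⟩⟩ (top13.hPL true) :=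
  posBox_of_check (c := ⟨255, ⟨5, 6, 9, 2⟩⟩) (by decide +kernel)

def top13_pU1_0 : PosBox ⟨⟨0, 1, 1⟩, ⟨99, 100, 165⟩, ⟨72, 121, 600⟩, ⟨65, 102, 100⟩⟩ (top13.hPU true) :=
  posBox_of_check (c := ⟨246, ⟨5, 6, 9, 3⟩⟩) (by decide +kernel)

def top13_pU1_1_0_0 : PosBox ⟨⟨0, 1, 1⟩, ⟨99, 100, 165⟩, ⟨72, 96, 600⟩, ⟨102, 121, 100⟩⟩ (top13.hPU true) :=
  posBox_of_check (c := ⟨246, ⟨5, 6, 9, 3⟩⟩) (by decide +kernel)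

def top13_pU1_1_0_1 : PosBox ⟨⟨0, 1, 1⟩, ⟨99, 100, 165⟩, ⟨96, 121, 600⟩, ⟨102, 121, 100⟩⟩ (top13.hPU true) :=
  posBox_of_check (c := ⟨247, ⟨5, 6, 9, 3⟩⟩) (by decide +kernel)

theorem top13_pU1_1_0 : PosBox ⟨⟨0, 1, 1⟩, ⟨99, 100, 165⟩, ⟨72, 121, 600⟩, ⟨102, 121, 100⟩⟩ (top13.hPU true) :=
  posBox_join₂ top13_pU1_1_0_0 top13_pU1_1_0_1

def top13_pU1_1_1 : PosBox ⟨⟨0, 1, 1⟩, ⟨99, 100, 165⟩, ⟨72, 121, 600⟩, ⟨121, 140, 100⟩⟩ (top13.hPU true) :=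
  posBox_of_check (c := ⟨247, ⟨5, 6, 9, 3⟩⟩) (by decide +kernel)

theorem top13_pU1_1 : PosBox ⟨⟨0, 1, 1⟩, ⟨99, 100, 165⟩, ⟨72, 121, 600⟩, ⟨102, 140, 100⟩⟩ (top13.hPU true) :=
  posBox_join₃ top13_pU1_1_0 top13_pU1_1_1

theorem top13_pU1 : PosBox ⟨⟨0, 1, 1⟩, ⟨99, 100, 165⟩, ⟨72, 121, 600⟩, ⟨65, 140, 100⟩⟩ (top13.hPU true) :=
  posBox_join₃ top13_pU1_0 top13_pU1_1

def top13_kU1_0 : PosBox ⟨⟨0, 1, 1⟩, ⟨99, 100, 165⟩, ⟨72, 121, 600⟩, ⟨65, 102, 100⟩⟩ (top13.hKU true) :=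
  posBox_of_check (c := ⟨245, ⟨5, 6, 9, 3⟩⟩) (by decide +kernel)

def top13_kU1_1 : PosBox ⟨⟨0, 1, 1⟩, ⟨99, 100, 165⟩, ⟨72, 121, 600⟩, ⟨102, 140, 100⟩⟩ (top13.hKU true) :=
  posBox_of_check (c := ⟨245, ⟨5, 6, 9, 3⟩⟩) (by decide +kernel)

theorem top13_kU1 : PosBox ⟨⟨0, 1, 1⟩, ⟨99, 100, 165⟩, ⟨72, 121, 600⟩, ⟨65, 140, 100⟩⟩ (top13.hKU true) :=
  posBox_join₃ top13_kU1_0 top13_kU1_1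

def top13_kL1 : PosBox ⟨⟨0, 1, 1⟩, ⟨99, 100, 165⟩, ⟨72, 121, 600⟩, ⟨65, 140, 100⟩⟩ (top13.hKL true) :=
  posBox_of_check (c := ⟨245, ⟨5, 6, 9, 3⟩⟩) (by decide +kernel)

def top13_wU1_0_0 : PosBox ⟨⟨0, 1, 2⟩, ⟨99, 100, 165⟩, ⟨72, 121, 600⟩, ⟨65, 102, 100⟩⟩ (top13.hWU true) :=
  posBox_of_check (c := ⟨271, ⟨5, 8, 10, 3⟩⟩) (by decide +kernel)

def top13_wU1_0_1_0 : PosBox ⟨⟨1, 2, 2⟩, ⟨99, 100, 165⟩, ⟨72, 121, 600⟩, ⟨65, 83, 100⟩⟩ (top13.hWU true) :=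
  posBox_of_check (c := ⟨273, ⟨5, 8, 10, 3⟩⟩) (by decide +kernel)

def top13_wU1_0_1_1 : PosBox ⟨⟨1, 2, 2⟩, ⟨99, 100, 165⟩, ⟨72, 121, 600⟩, ⟨83, 102, 100⟩⟩ (top13.hWU true) :=
  posBox_of_check (c := ⟨273, ⟨5, 8, 10, 3⟩⟩) (by decide +kernel)

theorem top13_wU1_0_1 : PosBox ⟨⟨1, 2, 2⟩, ⟨99, 100, 165⟩, ⟨72, 121, 600⟩, ⟨65, 102, 100⟩⟩ (top13.hWU true) :=
  posBox_join₃ top13_wU1_0_1_0 top13_wU1_0_1_1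

def top13_wU1_0 : PosBox ⟨⟨0, 1, 1⟩, ⟨99, 100, 165⟩, ⟨72, 121, 600⟩, ⟨65, 102, 100⟩⟩ (top13.hWU true) :=
  posBox_units (b := ⟨⟨0, 2, 2⟩, ⟨99, 100, 165⟩, ⟨72, 121, 600⟩, ⟨65, 102, 100⟩⟩) (by decide +kernel) (posBox_join₀ top13_wU1_0_0 top13_wU1_0_1)

def top13_wU1_1_0 : PosBox ⟨⟨0, 1, 2⟩, ⟨99, 100, 165⟩, ⟨72, 121, 600⟩, ⟨102, 140, 100⟩⟩ (top13.hWU true) :=
  posBox_of_check (c := ⟨272, ⟨5, 8, 10, 3⟩⟩) (by decide +kernel)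

def top13_wU1_1_1 : PosBox ⟨⟨1, 2, 2⟩, ⟨99, 100, 165⟩, ⟨72, 121, 600⟩, ⟨102, 140, 100⟩⟩ (top13.hWU true) :=
  posBox_of_check (c := ⟨274, ⟨5, 8, 10, 3⟩⟩) (by decide +kernel)

def top13_wU1_1 : PosBox ⟨⟨0, 1, 1⟩, ⟨99, 100, 165⟩, ⟨72, 121, 600⟩, ⟨102, 140, 100⟩⟩ (top13.hWU true) :=
  posBox_units (b := ⟨⟨0, 2, 2⟩, ⟨99, 100, 165⟩, ⟨72, 121, 600⟩, ⟨102, 140, 100⟩⟩) (by decide +kernel) (posBox_join₀ top13_wU1_1_0 top13_wU1_1_1)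

theorem top13_wU1 : PosBox ⟨⟨0, 1, 1⟩, ⟨99, 100, 165⟩, ⟨72, 121, 600⟩, ⟨65, 140, 100⟩⟩ (top13.hWU true) :=
  posBox_join₃ top13_wU1_0 top13_wU1_1

def top13_wL1 : PosBox ⟨⟨0, 1, 1⟩, ⟨99, 100, 165⟩, ⟨72, 121, 600⟩, ⟨65, 140, 100⟩⟩ (top13.hWL true) :=
  posBox_of_check (c := ⟨270, ⟨5, 8, 10, 3⟩⟩) (by decide +kernel)

def top13_mueL : PosBox ⟨⟨0, 1, 1⟩, ⟨99, 100, 165⟩, ⟨72, 121, 600⟩, ⟨65, 140, 100⟩⟩ (top13.eL.μ) :=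
  posBox_of_check (c := ⟨17, ⟨0, 0, 0, 0⟩⟩) (by decide +kernel)

def top13_mueH : PosBox ⟨⟨0, 1, 1⟩, ⟨99, 100, 165⟩, ⟨72, 121, 600⟩, ⟨65, 140, 100⟩⟩ (top13.eH.μ) :=
  posBox_of_check (c := ⟨20, ⟨0, 0, 0, 0⟩⟩) (by decide +kernel)

def top13_mupL : PosBox ⟨⟨0, 1, 1⟩, ⟨99, 100, 165⟩, ⟨72, 121, 600⟩, ⟨65, 140, 100⟩⟩ (top13.pL.μ) :=
  posBox_of_check (c := ⟨18, ⟨0, 0, 0, 0⟩⟩) (by decide +kernel)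

/-- The checks on the bounds. -/
theorem top13_env : top13.Env ⟨⟨0, 1, 1⟩, ⟨99, 100, 165⟩, ⟨72, 121, 600⟩, ⟨65, 140, 100⟩⟩ where
  p0 := top13_p0
  den := Bool.forall_bool.2 ⟨top13_den0, top13_den1⟩
  gn := top13_gn
  ev := Bool.forall_bool.2 ⟨top13_ev0, top13_ev1⟩
  eL := Bool.forall_bool.2 ⟨top13_eL0, top13_eL1⟩
  eL' := ⟨.inl top13_mueL, .inr rfl⟩
  eH := Bool.forall_bool.2 ⟨top13_eH0, top13_eH1⟩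
  eH' := ⟨.inl top13_mueH, .inr rfl⟩
  pL := Bool.forall_bool.2 ⟨top13_pL0, top13_pL1⟩
  pL' := ⟨.inl top13_mupL, .inr rfl⟩
  pU := Bool.forall_bool.2 ⟨top13_pU0, top13_pU1⟩
  pU' := ⟨.inr rfl, .inr rfl⟩
  kU := Bool.forall_bool.2 ⟨top13_kU0, top13_kU1⟩
  kU' := ⟨.inr rfl, .inr rfl⟩
  kL := Bool.forall_bool.2 ⟨top13_kL0, top13_kL1⟩
  kL' := ⟨.inr rfl, .inr rfl⟩
  wU := Bool.forall_bool.2 ⟨top13_wU0, top13_wU1⟩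
  wU' := ⟨.inr rfl, .inr rfl⟩
  wL := Bool.forall_bool.2 ⟨top13_wL0, top13_wL1⟩
  wL' := ⟨.inr rfl, .inr rfl⟩

end Vale.Agent.P100.Calib.Closed.High
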