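import Vale.Agent.P100.Calib.SlabHighData

/-!
# Checks of the bounds of a piece of the tail
-/

set_option linter.defProp false

namespace Vale.Agent.P100.Calib.Closed.High

open BoxPos Large

def top14_p0 : PosBox ⟨⟨0, 1, 1⟩, ⟨99, 100, 165⟩, ⟨72, 121, 600⟩, ⟨140, 188, 100⟩⟩ (top14.hP0) :=
  posBox_of_check (c := ⟨64, ⟨0, 2, 3, 1⟩⟩) (by decide +kernel)

def top14_gn : PosBox ⟨⟨0, 1, 1⟩, ⟨99, 100, 165⟩, ⟨72, 121, 600⟩, ⟨140, 188, 100⟩⟩ (top14.hGn) :=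
  posBox_of_check (c := ⟨56, ⟨1, 1, 2, 2⟩⟩) (by decide +kernel)

def top14_phi_0 : PosBox ⟨⟨0, 1, 1⟩, ⟨99, 100, 165⟩, ⟨72, 96, 600⟩, ⟨140, 188, 100⟩⟩ (topPhi top14.u₁ xV) :=
  posBox_of_check (c := ⟨91, ⟨0, 0, 4, 3⟩⟩) (by decide +kernel)

def top14_phi_1 : PosBox ⟨⟨0, 1, 1⟩, ⟨99, 100, 165⟩, ⟨96, 121, 600⟩, ⟨140, 188, 100⟩⟩ (topPhi top14.u₁ xV) :=
  posBox_of_check (c := ⟨91, ⟨0, 0, 4, 3⟩⟩) (by decide +kernel)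

theorem top14_phi : PosBox ⟨⟨0, 1, 1⟩, ⟨99, 100, 165⟩, ⟨72, 121, 600⟩, ⟨140, 188, 100⟩⟩ (topPhi top14.u₁ xV) :=
  posBox_join₂ top14_phi_0 top14_phi_1

def top14_den0 : PosBox ⟨⟨0, 1, 1⟩, ⟨99, 100, 165⟩, ⟨72, 121, 600⟩, ⟨140, 188, 100⟩⟩ (top14.hDen false) :=
  posBox_of_check (c := ⟨77, ⟨2, 0, 4, 2⟩⟩) (by decide +kernel)

def top14_den1 : PosBox ⟨⟨0, 1, 1⟩, ⟨99, 100, 165⟩, ⟨72, 121, 600⟩, ⟨140, 188, 100⟩⟩ (top14.hDen true) :=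
  posBox_of_check (c := ⟨91, ⟨2, 0, 4, 2⟩⟩) (by decide +kernel)

def top14_ev0 : PosBox ⟨⟨0, 1, 1⟩, ⟨99, 100, 165⟩, ⟨72, 121, 600⟩, ⟨140, 188, 100⟩⟩ (top14.hEv false) :=
  posBox_of_check (c := ⟨161, ⟨4, 2, 7, 4⟩⟩) (by decide +kernel)

def top14_eL0 : PosBox ⟨⟨0, 1, 1⟩, ⟨99, 100, 165⟩, ⟨72, 121, 600⟩, ⟨140, 188, 100⟩⟩ (top14.hEL false) :=
  posBox_of_check (c := ⟨239, ⟨5, 6, 10, 6⟩⟩) (by decide +kernel)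

def top14_eH0 : PosBox ⟨⟨0, 1, 1⟩, ⟨99, 100, 165⟩, ⟨72, 121, 600⟩, ⟨140, 188, 100⟩⟩ (top14.hEH false) :=
  posBox_of_check (c := ⟨238, ⟨5, 6, 10, 6⟩⟩) (by decide +kernel)

def top14_pL0 : PosBox ⟨⟨0, 1, 1⟩, ⟨99, 100, 165⟩, ⟨72, 121, 600⟩, ⟨140, 188, 100⟩⟩ (top14.hPL false) :=
  posBox_of_check (c := ⟨254, ⟨5, 6, 10, 7⟩⟩) (by decide +kernel)

def top14_pU0 : PosBox ⟨⟨0, 1, 1⟩, ⟨99, 100, 165⟩, ⟨72, 121, 600⟩, ⟨140, 188, 100⟩⟩ (top14.hPU false) :=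
  posBox_of_check (c := ⟨256, ⟨5, 6, 10, 7⟩⟩) (by decide +kernel)

def top14_kU0 : PosBox ⟨⟨0, 1, 1⟩, ⟨99, 100, 165⟩, ⟨72, 121, 600⟩, ⟨140, 188, 100⟩⟩ (top14.hKU false) :=
  posBox_of_check (c := ⟨253, ⟨5, 6, 10, 7⟩⟩) (by decide +kernel)

def top14_kL0 : PosBox ⟨⟨0, 1, 1⟩, ⟨99, 100, 165⟩, ⟨72, 121, 600⟩, ⟨140, 188, 100⟩⟩ (top14.hKL false) :=
  posBox_of_check (c := ⟨253, ⟨5, 6, 10, 7⟩⟩) (by decide +kernel)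

def top14_wU0 : PosBox ⟨⟨0, 1, 1⟩, ⟨99, 100, 165⟩, ⟨72, 121, 600⟩, ⟨140, 188, 100⟩⟩ (top14.hWU false) :=
  posBox_of_check (c := ⟨278, ⟨5, 8, 11, 7⟩⟩) (by decide +kernel)

def top14_wL0 : PosBox ⟨⟨0, 1, 1⟩, ⟨99, 100, 165⟩, ⟨72, 121, 600⟩, ⟨140, 188, 100⟩⟩ (top14.hWL false) :=
  posBox_of_check (c := ⟨279, ⟨5, 8, 11, 7⟩⟩) (by decide +kernel)

def top14_pV0 : PosBox ⟨⟨0, 1, 1⟩, ⟨99, 100, 165⟩, ⟨72, 121, 600⟩, ⟨140, 188, 100⟩⟩ (({ top14 with pU := top14PU } : Piece).hPU false) :=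
  posBox_of_check (c := ⟨255, ⟨5, 6, 10, 7⟩⟩) (by decide +kernel)

def top14_ev1 : PosBox ⟨⟨0, 1, 1⟩, ⟨99, 100, 165⟩, ⟨72, 121, 600⟩, ⟨140, 188, 100⟩⟩ (top14.hEv true) :=
  posBox_of_check (c := ⟨206, ⟨4, 2, 9, 5⟩⟩) (by decide +kernel)

def top14_eL1 : PosBox ⟨⟨0, 1, 1⟩, ⟨99, 100, 165⟩, ⟨72, 121, 600⟩, ⟨140, 188, 100⟩⟩ (top14.hEL true) :=
  posBox_of_check (c := ⟨284, ⟨5, 6, 12, 7⟩⟩) (by decide +kernel)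

def top14_eH1 : PosBox ⟨⟨0, 1, 1⟩, ⟨99, 100, 165⟩, ⟨72, 121, 600⟩, ⟨140, 188, 100⟩⟩ (top14.hEH true) :=
  posBox_of_check (c := ⟨283, ⟨5, 6, 12, 7⟩⟩) (by decide +kernel)

def top14_pL1 : PosBox ⟨⟨0, 1, 1⟩, ⟨99, 100, 165⟩, ⟨72, 121, 600⟩, ⟨140, 188, 100⟩⟩ (top14.hPL true) :=
  posBox_of_check (c := ⟨300, ⟨5, 6, 12, 8⟩⟩) (by decide +kernel)

def top14_pU1_0 : PosBox ⟨⟨0, 1, 1⟩, ⟨99, 100, 165⟩, ⟨72, 121, 600⟩, ⟨140, 164, 100⟩⟩ (top14.hPU true) :=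
  posBox_of_check (c := ⟨301, ⟨5, 6, 12, 8⟩⟩) (by decide +kernel)

def top14_pU1_1 : PosBox ⟨⟨0, 1, 1⟩, ⟨99, 100, 165⟩, ⟨72, 121, 600⟩, ⟨164, 188, 100⟩⟩ (top14.hPU true) :=
  posBox_of_check (c := ⟨301, ⟨5, 6, 12, 8⟩⟩) (by decide +kernel)

theorem top14_pU1 : PosBox ⟨⟨0, 1, 1⟩, ⟨99, 100, 165⟩, ⟨72, 121, 600⟩, ⟨140, 188, 100⟩⟩ (top14.hPU true) :=
  posBox_join₃ top14_pU1_0 top14_pU1_1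

def top14_kU1 : PosBox ⟨⟨0, 1, 1⟩, ⟨99, 100, 165⟩, ⟨72, 121, 600⟩, ⟨140, 188, 100⟩⟩ (top14.hKU true) :=
  posBox_of_check (c := ⟨298, ⟨5, 6, 12, 8⟩⟩) (by decide +kernel)

def top14_kL1 : PosBox ⟨⟨0, 1, 1⟩, ⟨99, 100, 165⟩, ⟨72, 121, 600⟩, ⟨140, 188, 100⟩⟩ (top14.hKL true) :=
  posBox_of_check (c := ⟨298, ⟨5, 6, 12, 8⟩⟩) (by decide +kernel)

def top14_wU1_0 : PosBox ⟨⟨0, 1, 2⟩, ⟨99, 100, 165⟩, ⟨72, 121, 600⟩, ⟨140, 188, 100⟩⟩ (top14.hWU true) :=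
  posBox_of_check (c := ⟨327, ⟨5, 8, 13, 8⟩⟩) (by decide +kernel)

def top14_wU1_1 : PosBox ⟨⟨1, 2, 2⟩, ⟨99, 100, 165⟩, ⟨72, 121, 600⟩, ⟨140, 188, 100⟩⟩ (top14.hWU true) :=
  posBox_of_check (c := ⟨329, ⟨5, 8, 13, 8⟩⟩) (by decide +kernel)

def top14_wU1 : PosBox ⟨⟨0, 1, 1⟩, ⟨99, 100, 165⟩, ⟨72, 121, 600⟩, ⟨140, 188, 100⟩⟩ (top14.hWU true) :=
  posBox_units (b := ⟨⟨0, 2, 2⟩, ⟨99, 100, 165⟩, ⟨72, 121, 600⟩, ⟨140, 188, 100⟩⟩) (by decide +kernel) (posBox_join₀ top14_wU1_0 top14_wU1_1)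

def top14_wL1 : PosBox ⟨⟨0, 1, 1⟩, ⟨99, 100, 165⟩, ⟨72, 121, 600⟩, ⟨140, 188, 100⟩⟩ (top14.hWL true) :=
  posBox_of_check (c := ⟨324, ⟨5, 8, 13, 8⟩⟩) (by decide +kernel)

def top14_pV1_0_0 : PosBox ⟨⟨0, 1, 2⟩, ⟨99, 100, 165⟩, ⟨72, 96, 600⟩, ⟨140, 188, 100⟩⟩ (({ top14 with pU := top14PU } : Piece).hPU true) :=
  posBox_of_check (c := ⟨302, ⟨5, 6, 12, 8⟩⟩) (by decide +kernel)

def top14_pV1_0_1 : PosBox ⟨⟨0, 1, 2⟩, ⟨99, 100, 165⟩, ⟨96, 121, 600⟩, ⟨140, 188, 100⟩⟩ (({ top14 with pU := top14PU } : Piece).hPU true) :=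
  posBox_of_check (c := ⟨303, ⟨5, 6, 12, 8⟩⟩) (by decide +kernel)

theorem top14_pV1_0 : PosBox ⟨⟨0, 1, 2⟩, ⟨99, 100, 165⟩, ⟨72, 121, 600⟩, ⟨140, 188, 100⟩⟩ (({ top14 with pU := top14PU } : Piece).hPU true) :=
  posBox_join₂ top14_pV1_0_0 top14_pV1_0_1

def top14_pV1_1 : PosBox ⟨⟨1, 2, 2⟩, ⟨99, 100, 165⟩, ⟨72, 121, 600⟩, ⟨140, 188, 100⟩⟩ (({ top14 with pU := top14PU } : Piece).hPU true) :=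
  posBox_of_check (c := ⟨305, ⟨5, 6, 12, 8⟩⟩) (by decide +kernel)

def top14_pV1 : PosBox ⟨⟨0, 1, 1⟩, ⟨99, 100, 165⟩, ⟨72, 121, 600⟩, ⟨140, 188, 100⟩⟩ (({ top14 with pU := top14PU } : Piece).hPU true) :=
  posBox_units (b := ⟨⟨0, 2, 2⟩, ⟨99, 100, 165⟩, ⟨72, 121, 600⟩, ⟨140, 188, 100⟩⟩) (by decide +kernel) (posBox_join₀ top14_pV1_0 top14_pV1_1)

/-- The checks on the bounds. -/
theorem top14_env : top14.Env ⟨⟨0, 1, 1⟩, ⟨99, 100, 165⟩, ⟨72, 121, 600⟩, ⟨140, 188, 100⟩⟩ where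
  p0 := top14_p0
  den := Bool.forall_bool.2 ⟨top14_den0, top14_den1⟩
  gn := top14_gn
  ev := Bool.forall_bool.2 ⟨top14_ev0, top14_ev1⟩
  eL := Bool.forall_bool.2 ⟨top14_eL0, top14_eL1⟩
  eL' := ⟨.inr rfl, .inr rfl⟩
  eH := Bool.forall_bool.2 ⟨top14_eH0, top14_eH1⟩
  eH' := ⟨.inr rfl, .inr rfl⟩
  pL := Bool.forall_bool.2 ⟨top14_pL0, top14_pL1⟩
  pL' := ⟨.inr rfl, .inr rfl⟩
  pU := Bool.forall_bool.2 ⟨top14_pU0, top14_pU1⟩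
  pU' := ⟨.inr rfl, .inr rfl⟩
  kU := Bool.forall_bool.2 ⟨top14_kU0, top14_kU1⟩
  kU' := ⟨.inr rfl, .inr rfl⟩
  kL := Bool.forall_bool.2 ⟨top14_kL0, top14_kL1⟩
  kL' := ⟨.inr rfl, .inr rfl⟩
  wU := Bool.forall_bool.2 ⟨top14_wU0, top14_wU1⟩
  wU' := ⟨.inr rfl, .inr rfl⟩
  wL := Bool.forall_bool.2 ⟨top14_wL0, top14_wL1⟩
  wL' := ⟨.inr rfl, .inr rfl⟩

/-- The checks with the bound above the cut. -/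
theorem top14_envU : ({ top14 with pU := top14PU } : Piece).Env ⟨⟨0, 1, 1⟩, ⟨99, 100, 165⟩, ⟨72, 121, 600⟩, ⟨140, 188, 100⟩⟩ :=
  top14_env.withU top14PU (Bool.forall_bool.2 ⟨top14_pV0, top14_pV1⟩) ⟨.inr rfl, .inr rfl⟩

end Vale.Agent.P100.Calib.Closed.High
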