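import Vale.Agent.P100.Calib.SlabHighData

/-!
# Checks of the bounds of a piece of the tail
-/

set_option linter.defProp false

namespace Vale.Agent.P100.Calib.Closed.High

open BoxPos Large

def top15_p0 : PosBox ⟨⟨0, 1, 1⟩, ⟨99, 100, 165⟩, ⟨72, 87, 600⟩, ⟨188, 240, 100⟩⟩ (top15.hP0) :=
  posBox_of_check (c := ⟨64, ⟨0, 2, 3, 1⟩⟩) (by decide +kernel)

def top15_gn : PosBox ⟨⟨0, 1, 1⟩, ⟨99, 100, 165⟩, ⟨72, 87, 600⟩, ⟨188, 240, 100⟩⟩ (top15.hGn) :=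
  posBox_of_check (c := ⟨56, ⟨1, 1, 2, 2⟩⟩) (by decide +kernel)

def top15_phi : PosBox ⟨⟨0, 1, 1⟩, ⟨99, 100, 165⟩, ⟨72, 87, 600⟩, ⟨188, 240, 100⟩⟩ (topPhi top15.u₁ xV) :=
  posBox_of_check (c := ⟨91, ⟨0, 0, 4, 3⟩⟩) (by decide +kernel)

def top15_den0 : PosBox ⟨⟨0, 1, 1⟩, ⟨99, 100, 165⟩, ⟨72, 87, 600⟩, ⟨188, 240, 100⟩⟩ (top15.hDen false) :=
  posBox_of_check (c := ⟨77, ⟨2, 0, 4, 2⟩⟩) (by decide +kernel)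

def top15_den1 : PosBox ⟨⟨0, 1, 1⟩, ⟨99, 100, 165⟩, ⟨72, 87, 600⟩, ⟨188, 240, 100⟩⟩ (top15.hDen true) :=
  posBox_of_check (c := ⟨91, ⟨2, 0, 4, 2⟩⟩) (by decide +kernel)

def top15_ev0 : PosBox ⟨⟨0, 1, 1⟩, ⟨99, 100, 165⟩, ⟨72, 87, 600⟩, ⟨188, 240, 100⟩⟩ (top15.hEv false) :=
  posBox_of_check (c := ⟨161, ⟨4, 2, 7, 4⟩⟩) (by decide +kernel)

def top15_eL0 : PosBox ⟨⟨0, 1, 1⟩, ⟨99, 100, 165⟩, ⟨72, 87, 600⟩, ⟨188, 240, 100⟩⟩ (top15.hEL false) :=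
  posBox_of_check (c := ⟨238, ⟨5, 6, 10, 6⟩⟩) (by decide +kernel)

def top15_eH0 : PosBox ⟨⟨0, 1, 1⟩, ⟨99, 100, 165⟩, ⟨72, 87, 600⟩, ⟨188, 240, 100⟩⟩ (top15.hEH false) :=
  posBox_of_check (c := ⟨262, ⟨5, 6, 10, 7⟩⟩) (by decide +kernel)

def top15_pL0 : PosBox ⟨⟨0, 1, 1⟩, ⟨99, 100, 165⟩, ⟨72, 87, 600⟩, ⟨188, 240, 100⟩⟩ (top15.hPL false) :=
  posBox_of_check (c := ⟨255, ⟨5, 6, 10, 7⟩⟩) (by decide +kernel)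

def top15_pU0 : PosBox ⟨⟨0, 1, 1⟩, ⟨99, 100, 165⟩, ⟨72, 87, 600⟩, ⟨188, 240, 100⟩⟩ (top15.hPU false) :=
  posBox_of_check (c := ⟨257, ⟨5, 6, 10, 7⟩⟩) (by decide +kernel)

def top15_kU0 : PosBox ⟨⟨0, 1, 1⟩, ⟨99, 100, 165⟩, ⟨72, 87, 600⟩, ⟨188, 240, 100⟩⟩ (top15.hKU false) :=
  posBox_of_check (c := ⟨252, ⟨5, 6, 10, 7⟩⟩) (by decide +kernel)

def top15_kL0 : PosBox ⟨⟨0, 1, 1⟩, ⟨99, 100, 165⟩, ⟨72, 87, 600⟩, ⟨188, 240, 100⟩⟩ (top15.hKL false) :=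
  posBox_of_check (c := ⟨252, ⟨5, 6, 10, 7⟩⟩) (by decide +kernel)

def top15_wU0 : PosBox ⟨⟨0, 1, 1⟩, ⟨99, 100, 165⟩, ⟨72, 87, 600⟩, ⟨188, 240, 100⟩⟩ (top15.hWU false) :=
  posBox_of_check (c := ⟨278, ⟨5, 8, 11, 7⟩⟩) (by decide +kernel)

def top15_wL0 : PosBox ⟨⟨0, 1, 1⟩, ⟨99, 100, 165⟩, ⟨72, 87, 600⟩, ⟨188, 240, 100⟩⟩ (top15.hWL false) :=
  posBox_of_check (c := ⟨278, ⟨5, 8, 11, 7⟩⟩) (by decide +kernel)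

def top15_pV0 : PosBox ⟨⟨0, 1, 1⟩, ⟨99, 100, 165⟩, ⟨72, 87, 600⟩, ⟨188, 240, 100⟩⟩ (({ top15 with pU := top15PU } : Piece).hPU false) :=
  posBox_of_check (c := ⟨262, ⟨5, 6, 10, 7⟩⟩) (by decide +kernel)

def top15_ev1 : PosBox ⟨⟨0, 1, 1⟩, ⟨99, 100, 165⟩, ⟨72, 87, 600⟩, ⟨188, 240, 100⟩⟩ (top15.hEv true) :=
  posBox_of_check (c := ⟨206, ⟨4, 2, 9, 5⟩⟩) (by decide +kernel)

def top15_eL1 : PosBox ⟨⟨0, 1, 1⟩, ⟨99, 100, 165⟩, ⟨72, 87, 600⟩, ⟨188, 240, 100⟩⟩ (top15.hEL true) :=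
  posBox_of_check (c := ⟨283, ⟨5, 6, 12, 7⟩⟩) (by decide +kernel)

def top15_eH1 : PosBox ⟨⟨0, 1, 1⟩, ⟨99, 100, 165⟩, ⟨72, 87, 600⟩, ⟨188, 240, 100⟩⟩ (top15.hEH true) :=
  posBox_of_check (c := ⟨307, ⟨5, 6, 12, 8⟩⟩) (by decide +kernel)

def top15_pL1 : PosBox ⟨⟨0, 1, 1⟩, ⟨99, 100, 165⟩, ⟨72, 87, 600⟩, ⟨188, 240, 100⟩⟩ (top15.hPL true) :=
  posBox_of_check (c := ⟨300, ⟨5, 6, 12, 8⟩⟩) (by decide +kernel)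

def top15_pU1 : PosBox ⟨⟨0, 1, 1⟩, ⟨99, 100, 165⟩, ⟨72, 87, 600⟩, ⟨188, 240, 100⟩⟩ (top15.hPU true) :=
  posBox_of_check (c := ⟨302, ⟨5, 6, 12, 8⟩⟩) (by decide +kernel)

def top15_kU1 : PosBox ⟨⟨0, 1, 1⟩, ⟨99, 100, 165⟩, ⟨72, 87, 600⟩, ⟨188, 240, 100⟩⟩ (top15.hKU true) :=
  posBox_of_check (c := ⟨298, ⟨5, 6, 12, 8⟩⟩) (by decide +kernel)

def top15_kL1 : PosBox ⟨⟨0, 1, 1⟩, ⟨99, 100, 165⟩, ⟨72, 87, 600⟩, ⟨188, 240, 100⟩⟩ (top15.hKL true) :=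
  posBox_of_check (c := ⟨297, ⟨5, 6, 12, 8⟩⟩) (by decide +kernel)

def top15_wU1 : PosBox ⟨⟨0, 1, 1⟩, ⟨99, 100, 165⟩, ⟨72, 87, 600⟩, ⟨188, 240, 100⟩⟩ (top15.hWU true) :=
  posBox_of_check (c := ⟨323, ⟨5, 8, 13, 8⟩⟩) (by decide +kernel)

def top15_wL1 : PosBox ⟨⟨0, 1, 1⟩, ⟨99, 100, 165⟩, ⟨72, 87, 600⟩, ⟨188, 240, 100⟩⟩ (top15.hWL true) :=
  posBox_of_check (c := ⟨324, ⟨5, 8, 13, 8⟩⟩) (by decide +kernel)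

def top15_pV1_0 : PosBox ⟨⟨0, 1, 2⟩, ⟨99, 100, 165⟩, ⟨72, 87, 600⟩, ⟨188, 240, 100⟩⟩ (({ top15 with pU := top15PU } : Piece).hPU true) :=
  posBox_of_check (c := ⟨310, ⟨5, 6, 12, 8⟩⟩) (by decide +kernel)

def top15_pV1_1 : PosBox ⟨⟨1, 2, 2⟩, ⟨99, 100, 165⟩, ⟨72, 87, 600⟩, ⟨188, 240, 100⟩⟩ (({ top15 with pU := top15PU } : Piece).hPU true) :=
  posBox_of_check (c := ⟨312, ⟨5, 6, 12, 8⟩⟩) (by decide +kernel)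

def top15_pV1 : PosBox ⟨⟨0, 1, 1⟩, ⟨99, 100, 165⟩, ⟨72, 87, 600⟩, ⟨188, 240, 100⟩⟩ (({ top15 with pU := top15PU } : Piece).hPU true) :=
  posBox_units (b := ⟨⟨0, 2, 2⟩, ⟨99, 100, 165⟩, ⟨72, 87, 600⟩, ⟨188, 240, 100⟩⟩) (by decide +kernel) (posBox_join₀ top15_pV1_0 top15_pV1_1)

def top15_nueH : PosBox ⟨⟨0, 1, 1⟩, ⟨99, 100, 165⟩, ⟨72, 87, 600⟩, ⟨188, 240, 100⟩⟩ (top15.eH.ν) :=
  posBox_of_check (c := ⟨41, ⟨0, 0, 1, 1⟩⟩) (by decide +kernel)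

def top15_nupU2 : PosBox ⟨⟨0, 1, 1⟩, ⟨99, 100, 165⟩, ⟨72, 87, 600⟩, ⟨188, 240, 100⟩⟩ (top15PU.ν) :=
  posBox_of_check (c := ⟨41, ⟨0, 0, 1, 1⟩⟩) (by decide +kernel)

/-- The checks on the bounds. -/
theorem top15_env : top15.Env ⟨⟨0, 1, 1⟩, ⟨99, 100, 165⟩, ⟨72, 87, 600⟩, ⟨188, 240, 100⟩⟩ where
  p0 := top15_p0
  den := Bool.forall_bool.2 ⟨top15_den0, top15_den1⟩
  gn := top15_gn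
  ev := Bool.forall_bool.2 ⟨top15_ev0, top15_ev1⟩
  eL := Bool.forall_bool.2 ⟨top15_eL0, top15_eL1⟩
  eL' := ⟨.inr rfl, .inr rfl⟩
  eH := Bool.forall_bool.2 ⟨top15_eH0, top15_eH1⟩
  eH' := ⟨.inr rfl, .inl top15_nueH⟩
  pL := Bool.forall_bool.2 ⟨top15_pL0, top15_pL1⟩
  pL' := ⟨.inr rfl, .inr rfl⟩
  pU := Bool.forall_bool.2 ⟨top15_pU0, top15_pU1⟩
  pU' := ⟨.inr rfl, .inr rfl⟩
  kU := Bool.forall_bool.2 ⟨top15_kU0, top15_kU1⟩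
  kU' := ⟨.inr rfl, .inr rfl⟩
  kL := Bool.forall_bool.2 ⟨top15_kL0, top15_kL1⟩
  kL' := ⟨.inr rfl, .inr rfl⟩
  wU := Bool.forall_bool.2 ⟨top15_wU0, top15_wU1⟩
  wU' := ⟨.inr rfl, .inr rfl⟩
  wL := Bool.forall_bool.2 ⟨top15_wL0, top15_wL1⟩
  wL' := ⟨.inr rfl, .inr rfl⟩

/-- The checks with the bound above the cut. -/
theorem top15_envU : ({ top15 with pU := top15PU } : Piece).Env ⟨⟨0, 1, 1⟩, ⟨99, 100, 165⟩, ⟨72, 87, 600⟩, ⟨188, 240, 100⟩⟩ :=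
  top15_env.withU top15PU (Bool.forall_bool.2 ⟨top15_pV0, top15_pV1⟩) ⟨.inr rfl, .inl top15_nupU2⟩

end Vale.Agent.P100.Calib.Closed.High
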