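import Vale.Agent.P100.Calib.SlabHighData

/-!
# Checks of the bounds of a piece of the tail
-/

set_option linter.defProp false

namespace Vale.Agent.P100.Calib.Closed.High

open BoxPos Large

def top16_p0 : PosBox ⟨⟨0, 1, 1⟩, ⟨99, 100, 165⟩, ⟨72, 87, 600⟩, ⟨240, 260, 100⟩⟩ (top16.hP0) :=
  posBox_of_check (c := ⟨64, ⟨0, 2, 3, 1⟩⟩) (by decide +kernel)

def top16_gn : PosBox ⟨⟨0, 1, 1⟩, ⟨99, 100, 165⟩, ⟨72, 87, 600⟩, ⟨240, 260, 100⟩⟩ (top16.hGn) :=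
  posBox_of_check (c := ⟨56, ⟨1, 1, 2, 2⟩⟩) (by decide +kernel)

def top16_phi : PosBox ⟨⟨0, 1, 1⟩, ⟨99, 100, 165⟩, ⟨72, 87, 600⟩, ⟨240, 260, 100⟩⟩ (topPhi top16.u₁ xV) :=
  posBox_of_check (c := ⟨91, ⟨0, 0, 4, 3⟩⟩) (by decide +kernel)

def top16_den0 : PosBox ⟨⟨0, 1, 1⟩, ⟨99, 100, 165⟩, ⟨72, 87, 600⟩, ⟨240, 260, 100⟩⟩ (top16.hDen false) :=
  posBox_of_check (c := ⟨77, ⟨2, 0, 4, 2⟩⟩) (by decide +kernel)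

def top16_den1 : PosBox ⟨⟨0, 1, 1⟩, ⟨99, 100, 165⟩, ⟨72, 87, 600⟩, ⟨240, 260, 100⟩⟩ (top16.hDen true) :=
  posBox_of_check (c := ⟨91, ⟨2, 0, 4, 2⟩⟩) (by decide +kernel)

def top16_ev0 : PosBox ⟨⟨0, 1, 1⟩, ⟨99, 100, 165⟩, ⟨72, 87, 600⟩, ⟨240, 260, 100⟩⟩ (top16.hEv false) :=
  posBox_of_check (c := ⟨161, ⟨4, 2, 7, 4⟩⟩) (by decide +kernel)

def top16_eL0 : PosBox ⟨⟨0, 1, 1⟩, ⟨99, 100, 165⟩, ⟨72, 87, 600⟩, ⟨240, 260, 100⟩⟩ (top16.hEL false) :=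
  posBox_of_check (c := ⟨238, ⟨5, 6, 10, 6⟩⟩) (by decide +kernel)

def top16_eH0 : PosBox ⟨⟨0, 1, 1⟩, ⟨99, 100, 165⟩, ⟨72, 87, 600⟩, ⟨240, 260, 100⟩⟩ (top16.hEH false) :=
  posBox_of_check (c := ⟨260, ⟨5, 6, 10, 7⟩⟩) (by decide +kernel)

def top16_pL0 : PosBox ⟨⟨0, 1, 1⟩, ⟨99, 100, 165⟩, ⟨72, 87, 600⟩, ⟨240, 260, 100⟩⟩ (top16.hPL false) :=
  posBox_of_check (c := ⟨255, ⟨5, 6, 10, 7⟩⟩) (by decide +kernel)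

def top16_pU0 : PosBox ⟨⟨0, 1, 1⟩, ⟨99, 100, 165⟩, ⟨72, 87, 600⟩, ⟨240, 260, 100⟩⟩ (top16.hPU false) :=
  posBox_of_check (c := ⟨257, ⟨5, 6, 10, 7⟩⟩) (by decide +kernel)

def top16_kU0 : PosBox ⟨⟨0, 1, 1⟩, ⟨99, 100, 165⟩, ⟨72, 87, 600⟩, ⟨240, 260, 100⟩⟩ (top16.hKU false) :=
  posBox_of_check (c := ⟨252, ⟨5, 6, 10, 7⟩⟩) (by decide +kernel)

def top16_kL0 : PosBox ⟨⟨0, 1, 1⟩, ⟨99, 100, 165⟩, ⟨72, 87, 600⟩, ⟨240, 260, 100⟩⟩ (top16.hKL false) :=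
  posBox_of_check (c := ⟨252, ⟨5, 6, 10, 7⟩⟩) (by decide +kernel)

def top16_wU0 : PosBox ⟨⟨0, 1, 1⟩, ⟨99, 100, 165⟩, ⟨72, 87, 600⟩, ⟨240, 260, 100⟩⟩ (top16.hWU false) :=
  posBox_of_check (c := ⟨278, ⟨5, 8, 11, 7⟩⟩) (by decide +kernel)

def top16_wL0 : PosBox ⟨⟨0, 1, 1⟩, ⟨99, 100, 165⟩, ⟨72, 87, 600⟩, ⟨240, 260, 100⟩⟩ (top16.hWL false) :=
  posBox_of_check (c := ⟨278, ⟨5, 8, 11, 7⟩⟩) (by decide +kernel)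

def top16_pV0 : PosBox ⟨⟨0, 1, 1⟩, ⟨99, 100, 165⟩, ⟨72, 87, 600⟩, ⟨240, 260, 100⟩⟩ (({ top16 with pU := top16PU } : Piece).hPU false) :=
  posBox_of_check (c := ⟨262, ⟨5, 6, 10, 7⟩⟩) (by decide +kernel)

def top16_ev1 : PosBox ⟨⟨0, 1, 1⟩, ⟨99, 100, 165⟩, ⟨72, 87, 600⟩, ⟨240, 260, 100⟩⟩ (top16.hEv true) :=
  posBox_of_check (c := ⟨206, ⟨4, 2, 9, 5⟩⟩) (by decide +kernel)

def top16_eL1 : PosBox ⟨⟨0, 1, 1⟩, ⟨99, 100, 165⟩, ⟨72, 87, 600⟩, ⟨240, 260, 100⟩⟩ (top16.hEL true) :=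
  posBox_of_check (c := ⟨283, ⟨5, 6, 12, 7⟩⟩) (by decide +kernel)

def top16_eH1 : PosBox ⟨⟨0, 1, 1⟩, ⟨99, 100, 165⟩, ⟨72, 87, 600⟩, ⟨240, 260, 100⟩⟩ (top16.hEH true) :=
  posBox_of_check (c := ⟨305, ⟨5, 6, 12, 8⟩⟩) (by decide +kernel)

def top16_pL1 : PosBox ⟨⟨0, 1, 1⟩, ⟨99, 100, 165⟩, ⟨72, 87, 600⟩, ⟨240, 260, 100⟩⟩ (top16.hPL true) :=
  posBox_of_check (c := ⟨301, ⟨5, 6, 12, 8⟩⟩) (by decide +kernel)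

def top16_pU1 : PosBox ⟨⟨0, 1, 1⟩, ⟨99, 100, 165⟩, ⟨72, 87, 600⟩, ⟨240, 260, 100⟩⟩ (top16.hPU true) :=
  posBox_of_check (c := ⟨302, ⟨5, 6, 12, 8⟩⟩) (by decide +kernel)

def top16_kU1 : PosBox ⟨⟨0, 1, 1⟩, ⟨99, 100, 165⟩, ⟨72, 87, 600⟩, ⟨240, 260, 100⟩⟩ (top16.hKU true) :=
  posBox_of_check (c := ⟨298, ⟨5, 6, 12, 8⟩⟩) (by decide +kernel)

def top16_kL1 : PosBox ⟨⟨0, 1, 1⟩, ⟨99, 100, 165⟩, ⟨72, 87, 600⟩, ⟨240, 260, 100⟩⟩ (top16.hKL true) :=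
  posBox_of_check (c := ⟨298, ⟨5, 6, 12, 8⟩⟩) (by decide +kernel)

def top16_wU1 : PosBox ⟨⟨0, 1, 1⟩, ⟨99, 100, 165⟩, ⟨72, 87, 600⟩, ⟨240, 260, 100⟩⟩ (top16.hWU true) :=
  posBox_of_check (c := ⟨324, ⟨5, 8, 13, 8⟩⟩) (by decide +kernel)

def top16_wL1 : PosBox ⟨⟨0, 1, 1⟩, ⟨99, 100, 165⟩, ⟨72, 87, 600⟩, ⟨240, 260, 100⟩⟩ (top16.hWL true) :=
  posBox_of_check (c := ⟨324, ⟨5, 8, 13, 8⟩⟩) (by decide +kernel)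

def top16_pV1 : PosBox ⟨⟨0, 1, 1⟩, ⟨99, 100, 165⟩, ⟨72, 87, 600⟩, ⟨240, 260, 100⟩⟩ (({ top16 with pU := top16PU } : Piece).hPU true) :=
  posBox_of_check (c := ⟨307, ⟨5, 6, 12, 8⟩⟩) (by decide +kernel)

def top16_nueH : PosBox ⟨⟨0, 1, 1⟩, ⟨99, 100, 165⟩, ⟨72, 87, 600⟩, ⟨240, 260, 100⟩⟩ (top16.eH.ν) :=
  posBox_of_check (c := ⟨39, ⟨0, 0, 1, 1⟩⟩) (by decide +kernel)

def top16_nupU2 : PosBox ⟨⟨0, 1, 1⟩, ⟨99, 100, 165⟩, ⟨72, 87, 600⟩, ⟨240, 260, 100⟩⟩ (top16PU.ν) :=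
  posBox_of_check (c := ⟨41, ⟨0, 0, 1, 1⟩⟩) (by decide +kernel)

/-- The checks on the bounds. -/
theorem top16_env : top16.Env ⟨⟨0, 1, 1⟩, ⟨99, 100, 165⟩, ⟨72, 87, 600⟩, ⟨240, 260, 100⟩⟩ where
  p0 := top16_p0
  den := Bool.forall_bool.2 ⟨top16_den0, top16_den1⟩
  gn := top16_gn
  ev := Bool.forall_bool.2 ⟨top16_ev0, top16_ev1⟩
  eL := Bool.forall_bool.2 ⟨top16_eL0, top16_eL1⟩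
  eL' := ⟨.inr rfl, .inr rfl⟩
  eH := Bool.forall_bool.2 ⟨top16_eH0, top16_eH1⟩
  eH' := ⟨.inr rfl, .inl top16_nueH⟩
  pL := Bool.forall_bool.2 ⟨top16_pL0, top16_pL1⟩
  pL' := ⟨.inr rfl, .inr rfl⟩
  pU := Bool.forall_bool.2 ⟨top16_pU0, top16_pU1⟩
  pU' := ⟨.inr rfl, .inr rfl⟩
  kU := Bool.forall_bool.2 ⟨top16_kU0, top16_kU1⟩
  kU' := ⟨.inr rfl, .inr rfl⟩
  kL := Bool.forall_bool.2 ⟨top16_kL0, top16_kL1⟩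
  kL' := ⟨.inr rfl, .inr rfl⟩
  wU := Bool.forall_bool.2 ⟨top16_wU0, top16_wU1⟩
  wU' := ⟨.inr rfl, .inr rfl⟩
  wL := Bool.forall_bool.2 ⟨top16_wL0, top16_wL1⟩
  wL' := ⟨.inr rfl, .inr rfl⟩

/-- The checks with the bound above the cut. -/
theorem top16_envU : ({ top16 with pU := top16PU } : Piece).Env ⟨⟨0, 1, 1⟩, ⟨99, 100, 165⟩, ⟨72, 87, 600⟩, ⟨240, 260, 100⟩⟩ :=
  top16_env.withU top16PU (Bool.forall_bool.2 ⟨top16_pV0, top16_pV1⟩) ⟨.inr rfl, .inl top16_nupU2⟩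

end Vale.Agent.P100.Calib.Closed.High
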