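import Vale.Agent.P100.Calib.SlabHighData

/-!
# Checks of the bounds of a piece of the tail
-/

set_option linter.defProp false

namespace Vale.Agent.P100.Calib.Closed.High

open BoxPos Large

def top17_p0 : PosBox ⟨⟨0, 1, 1⟩, ⟨99, 100, 165⟩, ⟨87, 121, 600⟩, ⟨188, 230, 100⟩⟩ (top17.hP0) :=
  posBox_of_check (c := ⟨64, ⟨0, 2, 3, 1⟩⟩) (by decide +kernel)

def top17_gn : PosBox ⟨⟨0, 1, 1⟩, ⟨99, 100, 165⟩, ⟨87, 121, 600⟩, ⟨188, 230, 100⟩⟩ (top17.hGn) :=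
  posBox_of_check (c := ⟨56, ⟨1, 1, 2, 2⟩⟩) (by decide +kernel)

def top17_phi : PosBox ⟨⟨0, 1, 1⟩, ⟨99, 100, 165⟩, ⟨87, 121, 600⟩, ⟨188, 230, 100⟩⟩ (topPhi top17.u₁ xV) :=
  posBox_of_check (c := ⟨91, ⟨0, 0, 4, 3⟩⟩) (by decide +kernel)

def top17_den0 : PosBox ⟨⟨0, 1, 1⟩, ⟨99, 100, 165⟩, ⟨87, 121, 600⟩, ⟨188, 230, 100⟩⟩ (top17.hDen false) :=
  posBox_of_check (c := ⟨77, ⟨2, 0, 4, 2⟩⟩) (by decide +kernel)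

def top17_den1 : PosBox ⟨⟨0, 1, 1⟩, ⟨99, 100, 165⟩, ⟨87, 121, 600⟩, ⟨188, 230, 100⟩⟩ (top17.hDen true) :=
  posBox_of_check (c := ⟨91, ⟨2, 0, 4, 2⟩⟩) (by decide +kernel)

def top17_ev0 : PosBox ⟨⟨0, 1, 1⟩, ⟨99, 100, 165⟩, ⟨87, 121, 600⟩, ⟨188, 230, 100⟩⟩ (top17.hEv false) :=
  posBox_of_check (c := ⟨162, ⟨4, 2, 7, 4⟩⟩) (by decide +kernel)

def top17_eL0 : PosBox ⟨⟨0, 1, 1⟩, ⟨99, 100, 165⟩, ⟨87, 121, 600⟩, ⟨188, 230, 100⟩⟩ (top17.hEL false) :=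
  posBox_of_check (c := ⟨239, ⟨5, 6, 10, 6⟩⟩) (by decide +kernel)

def top17_eH0 : PosBox ⟨⟨0, 1, 1⟩, ⟨99, 100, 165⟩, ⟨87, 121, 600⟩, ⟨188, 230, 100⟩⟩ (top17.hEH false) :=
  posBox_of_check (c := ⟨260, ⟨5, 6, 10, 7⟩⟩) (by decide +kernel)

def top17_pL0 : PosBox ⟨⟨0, 1, 1⟩, ⟨99, 100, 165⟩, ⟨87, 121, 600⟩, ⟨188, 230, 100⟩⟩ (top17.hPL false) :=
  posBox_of_check (c := ⟨255, ⟨5, 6, 10, 7⟩⟩) (by decide +kernel)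

def top17_pU0 : PosBox ⟨⟨0, 1, 1⟩, ⟨99, 100, 165⟩, ⟨87, 121, 600⟩, ⟨188, 230, 100⟩⟩ (top17.hPU false) :=
  posBox_of_check (c := ⟨258, ⟨5, 6, 10, 7⟩⟩) (by decide +kernel)

def top17_kU0 : PosBox ⟨⟨0, 1, 1⟩, ⟨99, 100, 165⟩, ⟨87, 121, 600⟩, ⟨188, 230, 100⟩⟩ (top17.hKU false) :=
  posBox_of_check (c := ⟨253, ⟨5, 6, 10, 7⟩⟩) (by decide +kernel)

def top17_kL0 : PosBox ⟨⟨0, 1, 1⟩, ⟨99, 100, 165⟩, ⟨87, 121, 600⟩, ⟨188, 230, 100⟩⟩ (top17.hKL false) :=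
  posBox_of_check (c := ⟨253, ⟨5, 6, 10, 7⟩⟩) (by decide +kernel)

def top17_wU0 : PosBox ⟨⟨0, 1, 1⟩, ⟨99, 100, 165⟩, ⟨87, 121, 600⟩, ⟨188, 230, 100⟩⟩ (top17.hWU false) :=
  posBox_of_check (c := ⟨278, ⟨5, 8, 11, 7⟩⟩) (by decide +kernel)

def top17_wL0 : PosBox ⟨⟨0, 1, 1⟩, ⟨99, 100, 165⟩, ⟨87, 121, 600⟩, ⟨188, 230, 100⟩⟩ (top17.hWL false) :=
  posBox_of_check (c := ⟨279, ⟨5, 8, 11, 7⟩⟩) (by decide +kernel)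

def top17_pV0 : PosBox ⟨⟨0, 1, 1⟩, ⟨99, 100, 165⟩, ⟨87, 121, 600⟩, ⟨188, 230, 100⟩⟩ (({ top17 with pU := top17PU } : Piece).hPU false) :=
  posBox_of_check (c := ⟨262, ⟨5, 6, 10, 7⟩⟩) (by decide +kernel)

def top17_ev1 : PosBox ⟨⟨0, 1, 1⟩, ⟨99, 100, 165⟩, ⟨87, 121, 600⟩, ⟨188, 230, 100⟩⟩ (top17.hEv true) :=
  posBox_of_check (c := ⟨207, ⟨4, 2, 9, 5⟩⟩) (by decide +kernel)

def top17_eL1 : PosBox ⟨⟨0, 1, 1⟩, ⟨99, 100, 165⟩, ⟨87, 121, 600⟩, ⟨188, 230, 100⟩⟩ (top17.hEL true) :=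
  posBox_of_check (c := ⟨284, ⟨5, 6, 12, 7⟩⟩) (by decide +kernel)

def top17_eH1 : PosBox ⟨⟨0, 1, 1⟩, ⟨99, 100, 165⟩, ⟨87, 121, 600⟩, ⟨188, 230, 100⟩⟩ (top17.hEH true) :=
  posBox_of_check (c := ⟨305, ⟨5, 6, 12, 8⟩⟩) (by decide +kernel)

def top17_pL1 : PosBox ⟨⟨0, 1, 1⟩, ⟨99, 100, 165⟩, ⟨87, 121, 600⟩, ⟨188, 230, 100⟩⟩ (top17.hPL true) :=
  posBox_of_check (c := ⟨301, ⟨5, 6, 12, 8⟩⟩) (by decide +kernel)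

def top17_pU1 : PosBox ⟨⟨0, 1, 1⟩, ⟨99, 100, 165⟩, ⟨87, 121, 600⟩, ⟨188, 230, 100⟩⟩ (top17.hPU true) :=
  posBox_of_check (c := ⟨303, ⟨5, 6, 12, 8⟩⟩) (by decide +kernel)

def top17_kU1 : PosBox ⟨⟨0, 1, 1⟩, ⟨99, 100, 165⟩, ⟨87, 121, 600⟩, ⟨188, 230, 100⟩⟩ (top17.hKU true) :=
  posBox_of_check (c := ⟨299, ⟨5, 6, 12, 8⟩⟩) (by decide +kernel)

def top17_kL1 : PosBox ⟨⟨0, 1, 1⟩, ⟨99, 100, 165⟩, ⟨87, 121, 600⟩, ⟨188, 230, 100⟩⟩ (top17.hKL true) :=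
  posBox_of_check (c := ⟨299, ⟨5, 6, 12, 8⟩⟩) (by decide +kernel)

def top17_wU1 : PosBox ⟨⟨0, 1, 1⟩, ⟨99, 100, 165⟩, ⟨87, 121, 600⟩, ⟨188, 230, 100⟩⟩ (top17.hWU true) :=
  posBox_of_check (c := ⟨324, ⟨5, 8, 13, 8⟩⟩) (by decide +kernel)

def top17_wL1 : PosBox ⟨⟨0, 1, 1⟩, ⟨99, 100, 165⟩, ⟨87, 121, 600⟩, ⟨188, 230, 100⟩⟩ (top17.hWL true) :=
  posBox_of_check (c := ⟨324, ⟨5, 8, 13, 8⟩⟩) (by decide +kernel)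

def top17_pV1 : PosBox ⟨⟨0, 1, 1⟩, ⟨99, 100, 165⟩, ⟨87, 121, 600⟩, ⟨188, 230, 100⟩⟩ (({ top17 with pU := top17PU } : Piece).hPU true) :=
  posBox_of_check (c := ⟨308, ⟨5, 6, 12, 8⟩⟩) (by decide +kernel)

def top17_nueH : PosBox ⟨⟨0, 1, 1⟩, ⟨99, 100, 165⟩, ⟨87, 121, 600⟩, ⟨188, 230, 100⟩⟩ (top17.eH.ν) :=
  posBox_of_check (c := ⟨38, ⟨0, 0, 1, 1⟩⟩) (by decide +kernel)

def top17_nupU2 : PosBox ⟨⟨0, 1, 1⟩, ⟨99, 100, 165⟩, ⟨87, 121, 600⟩, ⟨188, 230, 100⟩⟩ (top17PU.ν) :=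
  posBox_of_check (c := ⟨41, ⟨0, 0, 1, 1⟩⟩) (by decide +kernel)

/-- The checks on the bounds. -/
theorem top17_env : top17.Env ⟨⟨0, 1, 1⟩, ⟨99, 100, 165⟩, ⟨87, 121, 600⟩, ⟨188, 230, 100⟩⟩ where
  p0 := top17_p0
  den := Bool.forall_bool.2 ⟨top17_den0, top17_den1⟩
  gn := top17_gn
  ev := Bool.forall_bool.2 ⟨top17_ev0, top17_ev1⟩
  eL := Bool.forall_bool.2 ⟨top17_eL0, top17_eL1⟩
  eL' := ⟨.inr rfl, .inr rfl⟩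
  eH := Bool.forall_bool.2 ⟨top17_eH0, top17_eH1⟩
  eH' := ⟨.inr rfl, .inl top17_nueH⟩
  pL := Bool.forall_bool.2 ⟨top17_pL0, top17_pL1⟩
  pL' := ⟨.inr rfl, .inr rfl⟩
  pU := Bool.forall_bool.2 ⟨top17_pU0, top17_pU1⟩
  pU' := ⟨.inr rfl, .inr rfl⟩
  kU := Bool.forall_bool.2 ⟨top17_kU0, top17_kU1⟩
  kU' := ⟨.inr rfl, .inr rfl⟩
  kL := Bool.forall_bool.2 ⟨top17_kL0, top17_kL1⟩
  kL' := ⟨.inr rfl, .inr rfl⟩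
  wU := Bool.forall_bool.2 ⟨top17_wU0, top17_wU1⟩
  wU' := ⟨.inr rfl, .inr rfl⟩
  wL := Bool.forall_bool.2 ⟨top17_wL0, top17_wL1⟩
  wL' := ⟨.inr rfl, .inr rfl⟩

/-- The checks with the bound above the cut. -/
theorem top17_envU : ({ top17 with pU := top17PU } : Piece).Env ⟨⟨0, 1, 1⟩, ⟨99, 100, 165⟩, ⟨87, 121, 600⟩, ⟨188, 230, 100⟩⟩ :=
  top17_env.withU top17PU (Bool.forall_bool.2 ⟨top17_pV0, top17_pV1⟩) ⟨.inr rfl, .inl top17_nupU2⟩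

end Vale.Agent.P100.Calib.Closed.High
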