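import Vale.Agent.P100.Calib.SlabHighData

/-!
# Checks of the bounds of a piece of the tail
-/

set_option linter.defProp false

namespace Vale.Agent.P100.Calib.Closed.High

open BoxPos Large

def top18_p0 : PosBox ⟨⟨0, 1, 1⟩, ⟨99, 100, 165⟩, ⟨87, 121, 600⟩, ⟨230, 260, 100⟩⟩ (top18.hP0) :=
  posBox_of_check (c := ⟨64, ⟨0, 2, 3, 1⟩⟩) (by decide +kernel)

def top18_gn : PosBox ⟨⟨0, 1, 1⟩, ⟨99, 100, 165⟩, ⟨87, 121, 600⟩, ⟨230, 260, 100⟩⟩ (top18.hGn) :=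
  posBox_of_check (c := ⟨56, ⟨1, 1, 2, 2⟩⟩) (by decide +kernel)

def top18_phi : PosBox ⟨⟨0, 1, 1⟩, ⟨99, 100, 165⟩, ⟨87, 121, 600⟩, ⟨230, 260, 100⟩⟩ (topPhi top18.u₁ xV) :=
  posBox_of_check (c := ⟨91, ⟨0, 0, 4, 3⟩⟩) (by decide +kernel)

def top18_den0 : PosBox ⟨⟨0, 1, 1⟩, ⟨99, 100, 165⟩, ⟨87, 121, 600⟩, ⟨230, 260, 100⟩⟩ (top18.hDen false) :=
  posBox_of_check (c := ⟨77, ⟨2, 0, 4, 2⟩⟩) (by decide +kernel)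

def top18_den1 : PosBox ⟨⟨0, 1, 1⟩, ⟨99, 100, 165⟩, ⟨87, 121, 600⟩, ⟨230, 260, 100⟩⟩ (top18.hDen true) :=
  posBox_of_check (c := ⟨91, ⟨2, 0, 4, 2⟩⟩) (by decide +kernel)

def top18_ev0 : PosBox ⟨⟨0, 1, 1⟩, ⟨99, 100, 165⟩, ⟨87, 121, 600⟩, ⟨230, 260, 100⟩⟩ (top18.hEv false) :=
  posBox_of_check (c := ⟨162, ⟨4, 2, 7, 4⟩⟩) (by decide +kernel)

def top18_eL0 : PosBox ⟨⟨0, 1, 1⟩, ⟨99, 100, 165⟩, ⟨87, 121, 600⟩, ⟨230, 260, 100⟩⟩ (top18.hEL false) :=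
  posBox_of_check (c := ⟨263, ⟨5, 6, 10, 7⟩⟩) (by decide +kernel)

def top18_eH0 : PosBox ⟨⟨0, 1, 1⟩, ⟨99, 100, 165⟩, ⟨87, 121, 600⟩, ⟨230, 260, 100⟩⟩ (top18.hEH false) :=
  posBox_of_check (c := ⟨261, ⟨5, 6, 10, 7⟩⟩) (by decide +kernel)

def top18_pL0_0 : PosBox ⟨⟨0, 1, 1⟩, ⟨99, 100, 165⟩, ⟨87, 104, 600⟩, ⟨230, 260, 100⟩⟩ (top18.hPL false) :=
  posBox_of_check (c := ⟨256, ⟨5, 6, 10, 7⟩⟩) (by decide +kernel)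

def top18_pL0_1 : PosBox ⟨⟨0, 1, 1⟩, ⟨99, 100, 165⟩, ⟨104, 121, 600⟩, ⟨230, 260, 100⟩⟩ (top18.hPL false) :=
  posBox_of_check (c := ⟨256, ⟨5, 6, 10, 7⟩⟩) (by decide +kernel)

theorem top18_pL0 : PosBox ⟨⟨0, 1, 1⟩, ⟨99, 100, 165⟩, ⟨87, 121, 600⟩, ⟨230, 260, 100⟩⟩ (top18.hPL false) :=
  posBox_join₂ top18_pL0_0 top18_pL0_1

def top18_pU0 : PosBox ⟨⟨0, 1, 1⟩, ⟨99, 100, 165⟩, ⟨87, 121, 600⟩, ⟨230, 260, 100⟩⟩ (top18.hPU false) :=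
  posBox_of_check (c := ⟨263, ⟨5, 6, 10, 7⟩⟩) (by decide +kernel)

def top18_kU0 : PosBox ⟨⟨0, 1, 1⟩, ⟨99, 100, 165⟩, ⟨87, 121, 600⟩, ⟨230, 260, 100⟩⟩ (top18.hKU false) :=
  posBox_of_check (c := ⟨254, ⟨5, 6, 10, 7⟩⟩) (by decide +kernel)

def top18_kL0 : PosBox ⟨⟨0, 1, 1⟩, ⟨99, 100, 165⟩, ⟨87, 121, 600⟩, ⟨230, 260, 100⟩⟩ (top18.hKL false) :=
  posBox_of_check (c := ⟨253, ⟨5, 6, 10, 7⟩⟩) (by decide +kernel)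

def top18_wU0 : PosBox ⟨⟨0, 1, 1⟩, ⟨99, 100, 165⟩, ⟨87, 121, 600⟩, ⟨230, 260, 100⟩⟩ (top18.hWU false) :=
  posBox_of_check (c := ⟨284, ⟨5, 8, 11, 7⟩⟩) (by decide +kernel)

def top18_wL0 : PosBox ⟨⟨0, 1, 1⟩, ⟨99, 100, 165⟩, ⟨87, 121, 600⟩, ⟨230, 260, 100⟩⟩ (top18.hWL false) :=
  posBox_of_check (c := ⟨283, ⟨5, 8, 11, 7⟩⟩) (by decide +kernel)

def top18_ev1 : PosBox ⟨⟨0, 1, 1⟩, ⟨99, 100, 165⟩, ⟨87, 121, 600⟩, ⟨230, 260, 100⟩⟩ (top18.hEv true) :=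
  posBox_of_check (c := ⟨207, ⟨4, 2, 9, 5⟩⟩) (by decide +kernel)

def top18_eL1 : PosBox ⟨⟨0, 1, 1⟩, ⟨99, 100, 165⟩, ⟨87, 121, 600⟩, ⟨230, 260, 100⟩⟩ (top18.hEL true) :=
  posBox_of_check (c := ⟨308, ⟨5, 6, 12, 8⟩⟩) (by decide +kernel)

def top18_eH1 : PosBox ⟨⟨0, 1, 1⟩, ⟨99, 100, 165⟩, ⟨87, 121, 600⟩, ⟨230, 260, 100⟩⟩ (top18.hEH true) :=
  posBox_of_check (c := ⟨306, ⟨5, 6, 12, 8⟩⟩) (by decide +kernel)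

def top18_pL1 : PosBox ⟨⟨0, 1, 1⟩, ⟨99, 100, 165⟩, ⟨87, 121, 600⟩, ⟨230, 260, 100⟩⟩ (top18.hPL true) :=
  posBox_of_check (c := ⟨301, ⟨5, 6, 12, 8⟩⟩) (by decide +kernel)

def top18_pU1 : PosBox ⟨⟨0, 1, 1⟩, ⟨99, 100, 165⟩, ⟨87, 121, 600⟩, ⟨230, 260, 100⟩⟩ (top18.hPU true) :=
  posBox_of_check (c := ⟨308, ⟨5, 6, 12, 8⟩⟩) (by decide +kernel)

def top18_kU1 : PosBox ⟨⟨0, 1, 1⟩, ⟨99, 100, 165⟩, ⟨87, 121, 600⟩, ⟨230, 260, 100⟩⟩ (top18.hKU true) :=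
  posBox_of_check (c := ⟨299, ⟨5, 6, 12, 8⟩⟩) (by decide +kernel)

def top18_kL1 : PosBox ⟨⟨0, 1, 1⟩, ⟨99, 100, 165⟩, ⟨87, 121, 600⟩, ⟨230, 260, 100⟩⟩ (top18.hKL true) :=
  posBox_of_check (c := ⟨299, ⟨5, 6, 12, 8⟩⟩) (by decide +kernel)

def top18_wU1 : PosBox ⟨⟨0, 1, 1⟩, ⟨99, 100, 165⟩, ⟨87, 121, 600⟩, ⟨230, 260, 100⟩⟩ (top18.hWU true) :=
  posBox_of_check (c := ⟨329, ⟨5, 8, 13, 8⟩⟩) (by decide +kernel)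

def top18_wL1 : PosBox ⟨⟨0, 1, 1⟩, ⟨99, 100, 165⟩, ⟨87, 121, 600⟩, ⟨230, 260, 100⟩⟩ (top18.hWL true) :=
  posBox_of_check (c := ⟨329, ⟨5, 8, 13, 8⟩⟩) (by decide +kernel)

def top18_nueL : PosBox ⟨⟨0, 1, 1⟩, ⟨99, 100, 165⟩, ⟨87, 121, 600⟩, ⟨230, 260, 100⟩⟩ (top18.eL.ν) :=
  posBox_of_check (c := ⟨42, ⟨0, 0, 1, 1⟩⟩) (by decide +kernel)

def top18_nueH : PosBox ⟨⟨0, 1, 1⟩, ⟨99, 100, 165⟩, ⟨87, 121, 600⟩, ⟨230, 260, 100⟩⟩ (top18.eH.ν) :=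
  posBox_of_check (c := ⟨39, ⟨0, 0, 1, 1⟩⟩) (by decide +kernel)

def top18_nupU : PosBox ⟨⟨0, 1, 1⟩, ⟨99, 100, 165⟩, ⟨87, 121, 600⟩, ⟨230, 260, 100⟩⟩ (top18.pU.ν) :=
  posBox_of_check (c := ⟨41, ⟨0, 0, 1, 1⟩⟩) (by decide +kernel)

def top18_nuwU : PosBox ⟨⟨0, 1, 1⟩, ⟨99, 100, 165⟩, ⟨87, 121, 600⟩, ⟨230, 260, 100⟩⟩ (top18.wU.ν) :=
  posBox_of_check (c := ⟨39, ⟨0, 0, 1, 1⟩⟩) (by decide +kernel)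

def top18_nuwL : PosBox ⟨⟨0, 1, 1⟩, ⟨99, 100, 165⟩, ⟨87, 121, 600⟩, ⟨230, 260, 100⟩⟩ (top18.wL.ν) :=
  posBox_of_check (c := ⟨38, ⟨0, 0, 1, 1⟩⟩) (by decide +kernel)

/-- The checks on the bounds. -/
theorem top18_env : top18.Env ⟨⟨0, 1, 1⟩, ⟨99, 100, 165⟩, ⟨87, 121, 600⟩, ⟨230, 260, 100⟩⟩ where
  p0 := top18_p0
  den := Bool.forall_bool.2 ⟨top18_den0, top18_den1⟩
  gn := top18_gn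
  ev := Bool.forall_bool.2 ⟨top18_ev0, top18_ev1⟩
  eL := Bool.forall_bool.2 ⟨top18_eL0, top18_eL1⟩
  eL' := ⟨.inr rfl, .inl top18_nueL⟩
  eH := Bool.forall_bool.2 ⟨top18_eH0, top18_eH1⟩
  eH' := ⟨.inr rfl, .inl top18_nueH⟩
  pL := Bool.forall_bool.2 ⟨top18_pL0, top18_pL1⟩
  pL' := ⟨.inr rfl, .inr rfl⟩
  pU := Bool.forall_bool.2 ⟨top18_pU0, top18_pU1⟩
  pU' := ⟨.inr rfl, .inl top18_nupU⟩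
  kU := Bool.forall_bool.2 ⟨top18_kU0, top18_kU1⟩
  kU' := ⟨.inr rfl, .inr rfl⟩
  kL := Bool.forall_bool.2 ⟨top18_kL0, top18_kL1⟩
  kL' := ⟨.inr rfl, .inr rfl⟩
  wU := Bool.forall_bool.2 ⟨top18_wU0, top18_wU1⟩
  wU' := ⟨.inr rfl, .inl top18_nuwU⟩
  wL := Bool.forall_bool.2 ⟨top18_wL0, top18_wL1⟩
  wL' := ⟨.inr rfl, .inl top18_nuwL⟩

end Vale.Agent.P100.Calib.Closed.High
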