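import Vale.Agent.P100.Calib.SlabHighData

/-!
# Checks of the bounds of a piece of the tail
-/

set_option linter.defProp false

namespace Vale.Agent.P100.Calib.Closed.High

open BoxPos Large

def top19_p0 : PosBox ⟨⟨0, 1, 1⟩, ⟨99, 100, 165⟩, ⟨72, 121, 600⟩, ⟨260, 358, 100⟩⟩ (top19.hP0) :=
  posBox_of_check (c := ⟨64, ⟨0, 2, 3, 1⟩⟩) (by decide +kernel)

def top19_gn : PosBox ⟨⟨0, 1, 1⟩, ⟨99, 100, 165⟩, ⟨72, 121, 600⟩, ⟨260, 358, 100⟩⟩ (top19.hGn) :=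
  posBox_of_check (c := ⟨56, ⟨1, 1, 2, 2⟩⟩) (by decide +kernel)

def top19_phi : PosBox ⟨⟨0, 1, 1⟩, ⟨99, 100, 165⟩, ⟨72, 121, 600⟩, ⟨260, 358, 100⟩⟩ (topPhi top19.u₁ xV) :=
  posBox_of_check (c := ⟨92, ⟨0, 0, 4, 3⟩⟩) (by decide +kernel)

def top19_den0 : PosBox ⟨⟨0, 1, 1⟩, ⟨99, 100, 165⟩, ⟨72, 121, 600⟩, ⟨260, 358, 100⟩⟩ (top19.hDen false) :=
  posBox_of_check (c := ⟨77, ⟨2, 0, 4, 2⟩⟩) (by decide +kernel)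

def top19_den1 : PosBox ⟨⟨0, 1, 1⟩, ⟨99, 100, 165⟩, ⟨72, 121, 600⟩, ⟨260, 358, 100⟩⟩ (top19.hDen true) :=
  posBox_of_check (c := ⟨139, ⟨3, 4, 6, 4⟩⟩) (by decide +kernel)

def top19_ev0 : PosBox ⟨⟨0, 1, 1⟩, ⟨99, 100, 165⟩, ⟨72, 121, 600⟩, ⟨260, 358, 100⟩⟩ (top19.hEv false) :=
  posBox_of_check (c := ⟨162, ⟨4, 2, 7, 4⟩⟩) (by decide +kernel)

def top19_eL0_0 : PosBox ⟨⟨0, 1, 1⟩, ⟨99, 100, 165⟩, ⟨72, 121, 600⟩, ⟨260, 309, 100⟩⟩ (top19.hEL false) :=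
  posBox_of_check (c := ⟨266, ⟨5, 6, 10, 7⟩⟩) (by decide +kernel)

def top19_eL0_1 : PosBox ⟨⟨0, 1, 1⟩, ⟨99, 100, 165⟩, ⟨72, 121, 600⟩, ⟨309, 358, 100⟩⟩ (top19.hEL false) :=
  posBox_of_check (c := ⟨266, ⟨5, 6, 10, 7⟩⟩) (by decide +kernel)

theorem top19_eL0 : PosBox ⟨⟨0, 1, 1⟩, ⟨99, 100, 165⟩, ⟨72, 121, 600⟩, ⟨260, 358, 100⟩⟩ (top19.hEL false) :=
  posBox_join₃ top19_eL0_0 top19_eL0_1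

def top19_eH0_0_0 : PosBox ⟨⟨0, 1, 1⟩, ⟨99, 100, 165⟩, ⟨72, 96, 600⟩, ⟨260, 309, 100⟩⟩ (top19.hEH false) :=
  posBox_of_check (c := ⟨265, ⟨5, 6, 10, 7⟩⟩) (by decide +kernel)

def top19_eH0_0_1 : PosBox ⟨⟨0, 1, 1⟩, ⟨99, 100, 165⟩, ⟨96, 121, 600⟩, ⟨260, 309, 100⟩⟩ (top19.hEH false) :=
  posBox_of_check (c := ⟨265, ⟨5, 6, 10, 7⟩⟩) (by decide +kernel)

theorem top19_eH0_0 : PosBox ⟨⟨0, 1, 1⟩, ⟨99, 100, 165⟩, ⟨72, 121, 600⟩, ⟨260, 309, 100⟩⟩ (top19.hEH false) :=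
  posBox_join₂ top19_eH0_0_0 top19_eH0_0_1

def top19_eH0_1 : PosBox ⟨⟨0, 1, 1⟩, ⟨99, 100, 165⟩, ⟨72, 121, 600⟩, ⟨309, 358, 100⟩⟩ (top19.hEH false) :=
  posBox_of_check (c := ⟨265, ⟨5, 6, 10, 7⟩⟩) (by decide +kernel)

theorem top19_eH0 : PosBox ⟨⟨0, 1, 1⟩, ⟨99, 100, 165⟩, ⟨72, 121, 600⟩, ⟨260, 358, 100⟩⟩ (top19.hEH false) :=
  posBox_join₃ top19_eH0_0 top19_eH0_1

def top19_pL0_0 : PosBox ⟨⟨0, 1, 1⟩, ⟨99, 100, 165⟩, ⟨72, 121, 600⟩, ⟨260, 309, 100⟩⟩ (top19.hPL false) :=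
  posBox_of_check (c := ⟨266, ⟨5, 6, 10, 7⟩⟩) (by decide +kernel)

def top19_pL0_1 : PosBox ⟨⟨0, 1, 1⟩, ⟨99, 100, 165⟩, ⟨72, 121, 600⟩, ⟨309, 358, 100⟩⟩ (top19.hPL false) :=
  posBox_of_check (c := ⟨266, ⟨5, 6, 10, 7⟩⟩) (by decide +kernel)

theorem top19_pL0 : PosBox ⟨⟨0, 1, 1⟩, ⟨99, 100, 165⟩, ⟨72, 121, 600⟩, ⟨260, 358, 100⟩⟩ (top19.hPL false) :=
  posBox_join₃ top19_pL0_0 top19_pL0_1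

def top19_pU0_0_0 : PosBox ⟨⟨0, 1, 1⟩, ⟨99, 100, 165⟩, ⟨72, 96, 600⟩, ⟨260, 309, 100⟩⟩ (top19.hPU false) :=
  posBox_of_check (c := ⟨265, ⟨5, 6, 10, 7⟩⟩) (by decide +kernel)

def top19_pU0_0_1 : PosBox ⟨⟨0, 1, 1⟩, ⟨99, 100, 165⟩, ⟨96, 121, 600⟩, ⟨260, 309, 100⟩⟩ (top19.hPU false) :=
  posBox_of_check (c := ⟨266, ⟨5, 6, 10, 7⟩⟩) (by decide +kernel)

theorem top19_pU0_0 : PosBox ⟨⟨0, 1, 1⟩, ⟨99, 100, 165⟩, ⟨72, 121, 600⟩, ⟨260, 309, 100⟩⟩ (top19.hPU false) :=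
  posBox_join₂ top19_pU0_0_0 top19_pU0_0_1

def top19_pU0_1 : PosBox ⟨⟨0, 1, 1⟩, ⟨99, 100, 165⟩, ⟨72, 121, 600⟩, ⟨309, 358, 100⟩⟩ (top19.hPU false) :=
  posBox_of_check (c := ⟨265, ⟨5, 6, 10, 7⟩⟩) (by decide +kernel)

theorem top19_pU0 : PosBox ⟨⟨0, 1, 1⟩, ⟨99, 100, 165⟩, ⟨72, 121, 600⟩, ⟨260, 358, 100⟩⟩ (top19.hPU false) :=
  posBox_join₃ top19_pU0_0 top19_pU0_1

def top19_kU0_0 : PosBox ⟨⟨0, 1, 1⟩, ⟨99, 100, 165⟩, ⟨72, 121, 600⟩, ⟨260, 309, 100⟩⟩ (top19.hKU false) :=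
  posBox_of_check (c := ⟨263, ⟨5, 6, 10, 7⟩⟩) (by decide +kernel)

def top19_kU0_1 : PosBox ⟨⟨0, 1, 1⟩, ⟨99, 100, 165⟩, ⟨72, 121, 600⟩, ⟨309, 358, 100⟩⟩ (top19.hKU false) :=
  posBox_of_check (c := ⟨263, ⟨5, 6, 10, 7⟩⟩) (by decide +kernel)

theorem top19_kU0 : PosBox ⟨⟨0, 1, 1⟩, ⟨99, 100, 165⟩, ⟨72, 121, 600⟩, ⟨260, 358, 100⟩⟩ (top19.hKU false) :=
  posBox_join₃ top19_kU0_0 top19_kU0_1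

def top19_kL0_0_0_0 : PosBox ⟨⟨0, 1, 1⟩, ⟨99, 100, 165⟩, ⟨72, 84, 600⟩, ⟨260, 309, 100⟩⟩ (top19.hKL false) :=
  posBox_of_check (c := ⟨259, ⟨5, 6, 10, 7⟩⟩) (by decide +kernel)

def top19_kL0_0_0_1_0 : PosBox ⟨⟨0, 1, 1⟩, ⟨99, 100, 165⟩, ⟨84, 96, 600⟩, ⟨260, 284, 100⟩⟩ (top19.hKL false) :=
  posBox_of_check (c := ⟨260, ⟨5, 6, 10, 7⟩⟩) (by decide +kernel)

def top19_kL0_0_0_1_1 : PosBox ⟨⟨0, 1, 1⟩, ⟨99, 100, 165⟩, ⟨84, 96, 600⟩, ⟨284, 309, 100⟩⟩ (top19.hKL false) :=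
  posBox_of_check (c := ⟨260, ⟨5, 6, 10, 7⟩⟩) (by decide +kernel)

theorem top19_kL0_0_0_1 : PosBox ⟨⟨0, 1, 1⟩, ⟨99, 100, 165⟩, ⟨84, 96, 600⟩, ⟨260, 309, 100⟩⟩ (top19.hKL false) :=
  posBox_join₃ top19_kL0_0_0_1_0 top19_kL0_0_0_1_1

theorem top19_kL0_0_0 : PosBox ⟨⟨0, 1, 1⟩, ⟨99, 100, 165⟩, ⟨72, 96, 600⟩, ⟨260, 309, 100⟩⟩ (top19.hKL false) :=
  posBox_join₂ top19_kL0_0_0_0 top19_kL0_0_0_1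

def top19_kL0_0_1 : PosBox ⟨⟨0, 1, 1⟩, ⟨99, 100, 165⟩, ⟨96, 121, 600⟩, ⟨260, 309, 100⟩⟩ (top19.hKL false) :=
  posBox_of_check (c := ⟨261, ⟨5, 6, 10, 7⟩⟩) (by decide +kernel)

theorem top19_kL0_0 : PosBox ⟨⟨0, 1, 1⟩, ⟨99, 100, 165⟩, ⟨72, 121, 600⟩, ⟨260, 309, 100⟩⟩ (top19.hKL false) :=
  posBox_join₂ top19_kL0_0_0 top19_kL0_0_1

def top19_kL0_1 : PosBox ⟨⟨0, 1, 1⟩, ⟨99, 100, 165⟩, ⟨72, 121, 600⟩, ⟨309, 358, 100⟩⟩ (top19.hKL false) :=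
  posBox_of_check (c := ⟨260, ⟨5, 6, 10, 7⟩⟩) (by decide +kernel)

theorem top19_kL0 : PosBox ⟨⟨0, 1, 1⟩, ⟨99, 100, 165⟩, ⟨72, 121, 600⟩, ⟨260, 358, 100⟩⟩ (top19.hKL false) :=
  posBox_join₃ top19_kL0_0 top19_kL0_1

def top19_wU0 : PosBox ⟨⟨0, 1, 1⟩, ⟨99, 100, 165⟩, ⟨72, 121, 600⟩, ⟨260, 358, 100⟩⟩ (top19.hWU false) :=
  posBox_of_check (c := ⟨285, ⟨5, 8, 11, 7⟩⟩) (by decide +kernel)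

def top19_wL0_0 : PosBox ⟨⟨0, 1, 1⟩, ⟨99, 100, 165⟩, ⟨72, 121, 600⟩, ⟨260, 309, 100⟩⟩ (top19.hWL false) :=
  posBox_of_check (c := ⟨286, ⟨5, 8, 11, 7⟩⟩) (by decide +kernel)

def top19_wL0_1 : PosBox ⟨⟨0, 1, 1⟩, ⟨99, 100, 165⟩, ⟨72, 121, 600⟩, ⟨309, 358, 100⟩⟩ (top19.hWL false) :=
  posBox_of_check (c := ⟨286, ⟨5, 8, 11, 7⟩⟩) (by decide +kernel)

theorem top19_wL0 : PosBox ⟨⟨0, 1, 1⟩, ⟨99, 100, 165⟩, ⟨72, 121, 600⟩, ⟨260, 358, 100⟩⟩ (top19.hWL false) :=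
  posBox_join₃ top19_wL0_0 top19_wL0_1

def top19_ev1 : PosBox ⟨⟨0, 1, 1⟩, ⟨99, 100, 165⟩, ⟨72, 121, 600⟩, ⟨260, 358, 100⟩⟩ (top19.hEv true) :=
  posBox_of_check (c := ⟨209, ⟨4, 6, 9, 6⟩⟩) (by decide +kernel)

def top19_eL1_0 : PosBox ⟨⟨0, 1, 1⟩, ⟨99, 100, 165⟩, ⟨72, 121, 600⟩, ⟨260, 309, 100⟩⟩ (top19.hEL true) :=
  posBox_of_check (c := ⟨313, ⟨5, 10, 12, 9⟩⟩) (by decide +kernel)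

def top19_eL1_1 : PosBox ⟨⟨0, 1, 1⟩, ⟨99, 100, 165⟩, ⟨72, 121, 600⟩, ⟨309, 358, 100⟩⟩ (top19.hEL true) :=
  posBox_of_check (c := ⟨313, ⟨5, 10, 12, 9⟩⟩) (by decide +kernel)

theorem top19_eL1 : PosBox ⟨⟨0, 1, 1⟩, ⟨99, 100, 165⟩, ⟨72, 121, 600⟩, ⟨260, 358, 100⟩⟩ (top19.hEL true) :=
  posBox_join₃ top19_eL1_0 top19_eL1_1

def top19_eH1 : PosBox ⟨⟨0, 1, 1⟩, ⟨99, 100, 165⟩, ⟨72, 121, 600⟩, ⟨260, 358, 100⟩⟩ (top19.hEH true) :=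
  posBox_of_check (c := ⟨312, ⟨5, 10, 12, 9⟩⟩) (by decide +kernel)

def top19_pL1_0 : PosBox ⟨⟨0, 1, 1⟩, ⟨99, 100, 165⟩, ⟨72, 121, 600⟩, ⟨260, 309, 100⟩⟩ (top19.hPL true) :=
  posBox_of_check (c := ⟨313, ⟨5, 10, 12, 9⟩⟩) (by decide +kernel)

def top19_pL1_1 : PosBox ⟨⟨0, 1, 1⟩, ⟨99, 100, 165⟩, ⟨72, 121, 600⟩, ⟨309, 358, 100⟩⟩ (top19.hPL true) :=
  posBox_of_check (c := ⟨313, ⟨5, 10, 12, 9⟩⟩) (by decide +kernel)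

theorem top19_pL1 : PosBox ⟨⟨0, 1, 1⟩, ⟨99, 100, 165⟩, ⟨72, 121, 600⟩, ⟨260, 358, 100⟩⟩ (top19.hPL true) :=
  posBox_join₃ top19_pL1_0 top19_pL1_1

def top19_pU1 : PosBox ⟨⟨0, 1, 1⟩, ⟨99, 100, 165⟩, ⟨72, 121, 600⟩, ⟨260, 358, 100⟩⟩ (top19.hPU true) :=
  posBox_of_check (c := ⟨312, ⟨5, 10, 12, 9⟩⟩) (by decide +kernel)

def top19_kU1 : PosBox ⟨⟨0, 1, 1⟩, ⟨99, 100, 165⟩, ⟨72, 121, 600⟩, ⟨260, 358, 100⟩⟩ (top19.hKU true) :=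
  posBox_of_check (c := ⟨310, ⟨5, 10, 12, 9⟩⟩) (by decide +kernel)

def top19_kL1_0 : PosBox ⟨⟨0, 1, 1⟩, ⟨99, 100, 165⟩, ⟨72, 121, 600⟩, ⟨260, 309, 100⟩⟩ (top19.hKL true) :=
  posBox_of_check (c := ⟨307, ⟨5, 10, 12, 9⟩⟩) (by decide +kernel)

def top19_kL1_1_0_0 : PosBox ⟨⟨0, 1, 1⟩, ⟨99, 100, 165⟩, ⟨72, 84, 600⟩, ⟨309, 358, 100⟩⟩ (top19.hKL true) :=
  posBox_of_check (c := ⟨307, ⟨5, 10, 12, 9⟩⟩) (by decide +kernel)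

def top19_kL1_1_0_1 : PosBox ⟨⟨0, 1, 1⟩, ⟨99, 100, 165⟩, ⟨84, 96, 600⟩, ⟨309, 358, 100⟩⟩ (top19.hKL true) :=
  posBox_of_check (c := ⟨307, ⟨5, 10, 12, 9⟩⟩) (by decide +kernel)

theorem top19_kL1_1_0 : PosBox ⟨⟨0, 1, 1⟩, ⟨99, 100, 165⟩, ⟨72, 96, 600⟩, ⟨309, 358, 100⟩⟩ (top19.hKL true) :=
  posBox_join₂ top19_kL1_1_0_0 top19_kL1_1_0_1

def top19_kL1_1_1 : PosBox ⟨⟨0, 1, 1⟩, ⟨99, 100, 165⟩, ⟨96, 121, 600⟩, ⟨309, 358, 100⟩⟩ (top19.hKL true) :=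
  posBox_of_check (c := ⟨308, ⟨5, 10, 12, 9⟩⟩) (by decide +kernel)

theorem top19_kL1_1 : PosBox ⟨⟨0, 1, 1⟩, ⟨99, 100, 165⟩, ⟨72, 121, 600⟩, ⟨309, 358, 100⟩⟩ (top19.hKL true) :=
  posBox_join₂ top19_kL1_1_0 top19_kL1_1_1

theorem top19_kL1 : PosBox ⟨⟨0, 1, 1⟩, ⟨99, 100, 165⟩, ⟨72, 121, 600⟩, ⟨260, 358, 100⟩⟩ (top19.hKL true) :=
  posBox_join₃ top19_kL1_0 top19_kL1_1

def top19_wU1 : PosBox ⟨⟨0, 1, 1⟩, ⟨99, 100, 165⟩, ⟨72, 121, 600⟩, ⟨260, 358, 100⟩⟩ (top19.hWU true) :=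
  posBox_of_check (c := ⟨332, ⟨5, 12, 13, 9⟩⟩) (by decide +kernel)

def top19_wL1 : PosBox ⟨⟨0, 1, 1⟩, ⟨99, 100, 165⟩, ⟨72, 121, 600⟩, ⟨260, 358, 100⟩⟩ (top19.hWL true) :=
  posBox_of_check (c := ⟨333, ⟨5, 12, 13, 9⟩⟩) (by decide +kernel)

def top19_nueL : PosBox ⟨⟨0, 1, 1⟩, ⟨99, 100, 165⟩, ⟨72, 121, 600⟩, ⟨260, 358, 100⟩⟩ (top19.eL.ν) :=
  posBox_of_check (c := ⟨45, ⟨0, 0, 1, 1⟩⟩) (by decide +kernel)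

def top19_nueH : PosBox ⟨⟨0, 1, 1⟩, ⟨99, 100, 165⟩, ⟨72, 121, 600⟩, ⟨260, 358, 100⟩⟩ (top19.eH.ν) :=
  posBox_of_check (c := ⟨44, ⟨0, 0, 1, 1⟩⟩) (by decide +kernel)

def top19_nupL : PosBox ⟨⟨0, 1, 1⟩, ⟨99, 100, 165⟩, ⟨72, 121, 600⟩, ⟨260, 358, 100⟩⟩ (top19.pL.ν) :=
  posBox_of_check (c := ⟨45, ⟨0, 0, 1, 1⟩⟩) (by decide +kernel)

def top19_nupU : PosBox ⟨⟨0, 1, 1⟩, ⟨99, 100, 165⟩, ⟨72, 121, 600⟩, ⟨260, 358, 100⟩⟩ (top19.pU.ν) :=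
  posBox_of_check (c := ⟨44, ⟨0, 0, 1, 1⟩⟩) (by decide +kernel)

def top19_nukU : PosBox ⟨⟨0, 1, 1⟩, ⟨99, 100, 165⟩, ⟨72, 121, 600⟩, ⟨260, 358, 100⟩⟩ (top19.kU.ν) :=
  posBox_of_check (c := ⟨42, ⟨0, 0, 1, 1⟩⟩) (by decide +kernel)

def top19_nukL : PosBox ⟨⟨0, 1, 1⟩, ⟨99, 100, 165⟩, ⟨72, 121, 600⟩, ⟨260, 358, 100⟩⟩ (top19.kL.ν) :=
  posBox_of_check (c := ⟨39, ⟨0, 0, 1, 1⟩⟩) (by decide +kernel)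

def top19_nuwU : PosBox ⟨⟨0, 1, 1⟩, ⟨99, 100, 165⟩, ⟨72, 121, 600⟩, ⟨260, 358, 100⟩⟩ (top19.wU.ν) :=
  posBox_of_check (c := ⟨42, ⟨0, 0, 1, 1⟩⟩) (by decide +kernel)

def top19_nuwL : PosBox ⟨⟨0, 1, 1⟩, ⟨99, 100, 165⟩, ⟨72, 121, 600⟩, ⟨260, 358, 100⟩⟩ (top19.wL.ν) :=
  posBox_of_check (c := ⟨43, ⟨0, 0, 1, 1⟩⟩) (by decide +kernel)

/-- The checks on the bounds. -/
theorem top19_env : top19.Env ⟨⟨0, 1, 1⟩, ⟨99, 100, 165⟩, ⟨72, 121, 600⟩, ⟨260, 358, 100⟩⟩ where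
  p0 := top19_p0
  den := Bool.forall_bool.2 ⟨top19_den0, top19_den1⟩
  gn := top19_gn
  ev := Bool.forall_bool.2 ⟨top19_ev0, top19_ev1⟩
  eL := Bool.forall_bool.2 ⟨top19_eL0, top19_eL1⟩
  eL' := ⟨.inr rfl, .inl top19_nueL⟩
  eH := Bool.forall_bool.2 ⟨top19_eH0, top19_eH1⟩
  eH' := ⟨.inr rfl, .inl top19_nueH⟩
  pL := Bool.forall_bool.2 ⟨top19_pL0, top19_pL1⟩
  pL' := ⟨.inr rfl, .inl top19_nupL⟩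
  pU := Bool.forall_bool.2 ⟨top19_pU0, top19_pU1⟩
  pU' := ⟨.inr rfl, .inl top19_nupU⟩
  kU := Bool.forall_bool.2 ⟨top19_kU0, top19_kU1⟩
  kU' := ⟨.inr rfl, .inl top19_nukU⟩
  kL := Bool.forall_bool.2 ⟨top19_kL0, top19_kL1⟩
  kL' := ⟨.inr rfl, .inl top19_nukL⟩
  wU := Bool.forall_bool.2 ⟨top19_wU0, top19_wU1⟩
  wU' := ⟨.inr rfl, .inl top19_nuwU⟩
  wL := Bool.forall_bool.2 ⟨top19_wL0, top19_wL1⟩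
  wL' := ⟨.inr rfl, .inl top19_nuwL⟩

end Vale.Agent.P100.Calib.Closed.High
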