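import Vale.Agent.P100.Calib.SlabHighData

/-!
# Checks of the bounds of a piece of the tail
-/

set_option linter.defProp false

namespace Vale.Agent.P100.Calib.Closed.High

open BoxPos Large

def top7_p0 : PosBox ⟨⟨0, 1, 1⟩, ⟨99, 100, 165⟩, ⟨72, 121, 600⟩, ⟨35, 41, 100⟩⟩ (top7.hP0) :=
  posBox_of_check (c := ⟨64, ⟨0, 2, 3, 1⟩⟩) (by decide +kernel)

def top7_gn : PosBox ⟨⟨0, 1, 1⟩, ⟨99, 100, 165⟩, ⟨72, 121, 600⟩, ⟨35, 41, 100⟩⟩ (top7.hGn) :=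
  posBox_of_check (c := ⟨42, ⟨1, 1, 2, 1⟩⟩) (by decide +kernel)

def top7_den0 : PosBox ⟨⟨0, 1, 1⟩, ⟨99, 100, 165⟩, ⟨72, 121, 600⟩, ⟨35, 41, 100⟩⟩ (top7.hDen false) :=
  posBox_of_check (c := ⟨61, ⟨2, 0, 2, 0⟩⟩) (by decide +kernel)

def top7_den1 : PosBox ⟨⟨0, 1, 1⟩, ⟨99, 100, 165⟩, ⟨72, 121, 600⟩, ⟨35, 41, 100⟩⟩ (top7.hDen true) :=
  posBox_of_check (c := ⟨82, ⟨2, 0, 3, 0⟩⟩) (by decide +kernel)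

def top7_none0 : PosBox ⟨⟨0, 1, 1⟩, ⟨99, 100, 165⟩, ⟨72, 121, 600⟩, ⟨35, 41, 100⟩⟩ (top7.hNone false) :=
  posBox_of_check (c := ⟨186, ⟨5, 6, 7, 2⟩⟩) (by decide +kernel)

def top7_none1 : PosBox ⟨⟨0, 1, 1⟩, ⟨99, 100, 165⟩, ⟨72, 121, 600⟩, ⟨35, 41, 100⟩⟩ (top7.hNone true) :=
  posBox_of_check (c := ⟨233, ⟨5, 6, 9, 2⟩⟩) (by decide +kernel)

def top7_mupU : PosBox ⟨⟨0, 1, 1⟩, ⟨99, 100, 165⟩, ⟨72, 121, 600⟩, ⟨35, 41, 100⟩⟩ (top7.pU.μ) :=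
  posBox_of_check (c := ⟨5, ⟨0, 0, 0, 0⟩⟩) (by decide +kernel)

/-- No point in the piece. -/
theorem top7_empty : top7.Empty ⟨⟨0, 1, 1⟩, ⟨99, 100, 165⟩, ⟨72, 121, 600⟩, ⟨35, 41, 100⟩⟩ :=
  ⟨top7_p0, Bool.forall_bool.2 ⟨top7_den0, top7_den1⟩, top7_gn, ⟨.inl top7_mupU, .inr rfl⟩, Bool.forall_bool.2 ⟨top7_none0, top7_none1⟩⟩

end Vale.Agent.P100.Calib.Closed.High
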