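import Vale.Agent.P100.Calib.SlabHighData

/-!
# Checks of the bounds of a piece of the tail
-/

set_option linter.defProp false

namespace Vale.Agent.P100.Calib.Closed.High

open BoxPos Large

def top9_p0 : PosBox ⟨⟨0, 1, 1⟩, ⟨99, 100, 165⟩, ⟨72, 121, 600⟩, ⟨83, 115, 100⟩⟩ (top9.hP0) :=
  posBox_of_check (c := ⟨64, ⟨0, 2, 3, 1⟩⟩) (by decide +kernel)

def top9_gn : PosBox ⟨⟨0, 1, 1⟩, ⟨99, 100, 165⟩, ⟨72, 121, 600⟩, ⟨83, 115, 100⟩⟩ (top9.hGn) :=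
  posBox_of_check (c := ⟨42, ⟨1, 1, 2, 1⟩⟩) (by decide +kernel)

def top9_den0 : PosBox ⟨⟨0, 1, 1⟩, ⟨99, 100, 165⟩, ⟨72, 121, 600⟩, ⟨83, 115, 100⟩⟩ (top9.hDen false) :=
  posBox_of_check (c := ⟨61, ⟨2, 0, 2, 0⟩⟩) (by decide +kernel)

def top9_den1 : PosBox ⟨⟨0, 1, 1⟩, ⟨99, 100, 165⟩, ⟨72, 121, 600⟩, ⟨83, 115, 100⟩⟩ (top9.hDen true) :=
  posBox_of_check (c := ⟨82, ⟨2, 0, 3, 0⟩⟩) (by decide +kernel)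

def top9_ev0 : PosBox ⟨⟨0, 1, 1⟩, ⟨99, 100, 165⟩, ⟨72, 121, 600⟩, ⟨83, 115, 100⟩⟩ (top9.hEv false) :=
  posBox_of_check (c := ⟨111, ⟨4, 2, 4, 1⟩⟩) (by decide +kernel)

def top9_eL0 : PosBox ⟨⟨0, 1, 1⟩, ⟨99, 100, 165⟩, ⟨72, 121, 600⟩, ⟨83, 115, 100⟩⟩ (top9.hEL false) :=
  posBox_of_check (c := ⟨188, ⟨5, 6, 7, 3⟩⟩) (by decide +kernel)

def top9_eH0 : PosBox ⟨⟨0, 1, 1⟩, ⟨99, 100, 165⟩, ⟨72, 121, 600⟩, ⟨83, 115, 100⟩⟩ (top9.hEH false) :=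
  posBox_of_check (c := ⟨188, ⟨5, 6, 7, 3⟩⟩) (by decide +kernel)

def top9_pL0 : PosBox ⟨⟨0, 1, 1⟩, ⟨99, 100, 165⟩, ⟨72, 121, 600⟩, ⟨83, 115, 100⟩⟩ (top9.hPL false) :=
  posBox_of_check (c := ⟨192, ⟨5, 6, 7, 3⟩⟩) (by decide +kernel)

def top9_pU0 : PosBox ⟨⟨0, 1, 1⟩, ⟨99, 100, 165⟩, ⟨72, 121, 600⟩, ⟨83, 115, 100⟩⟩ (top9.hPU false) :=
  posBox_of_check (c := ⟨192, ⟨5, 6, 7, 3⟩⟩) (by decide +kernel)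

def top9_kU0 : PosBox ⟨⟨0, 1, 1⟩, ⟨99, 100, 165⟩, ⟨72, 121, 600⟩, ⟨83, 115, 100⟩⟩ (top9.hKU false) :=
  posBox_of_check (c := ⟨190, ⟨5, 6, 7, 3⟩⟩) (by decide +kernel)

def top9_kL0 : PosBox ⟨⟨0, 1, 1⟩, ⟨99, 100, 165⟩, ⟨72, 121, 600⟩, ⟨83, 115, 100⟩⟩ (top9.hKL false) :=
  posBox_of_check (c := ⟨190, ⟨5, 6, 7, 3⟩⟩) (by decide +kernel)

def top9_wU0 : PosBox ⟨⟨0, 1, 1⟩, ⟨99, 100, 165⟩, ⟨72, 121, 600⟩, ⟨83, 115, 100⟩⟩ (top9.hWU false) :=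
  posBox_of_check (c := ⟨216, ⟨5, 8, 8, 3⟩⟩) (by decide +kernel)

def top9_wL0 : PosBox ⟨⟨0, 1, 1⟩, ⟨99, 100, 165⟩, ⟨72, 121, 600⟩, ⟨83, 115, 100⟩⟩ (top9.hWL false) :=
  posBox_of_check (c := ⟨216, ⟨5, 8, 8, 3⟩⟩) (by decide +kernel)

def top9_ev1 : PosBox ⟨⟨0, 1, 1⟩, ⟨99, 100, 165⟩, ⟨72, 121, 600⟩, ⟨83, 115, 100⟩⟩ (top9.hEv true) :=
  posBox_of_check (c := ⟨159, ⟨4, 2, 6, 1⟩⟩) (by decide +kernel)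

def top9_eL1 : PosBox ⟨⟨0, 1, 1⟩, ⟨99, 100, 165⟩, ⟨72, 121, 600⟩, ⟨83, 115, 100⟩⟩ (top9.hEL true) :=
  posBox_of_check (c := ⟨235, ⟨5, 6, 9, 3⟩⟩) (by decide +kernel)

def top9_eH1 : PosBox ⟨⟨0, 1, 1⟩, ⟨99, 100, 165⟩, ⟨72, 121, 600⟩, ⟨83, 115, 100⟩⟩ (top9.hEH true) :=
  posBox_of_check (c := ⟨235, ⟨5, 6, 9, 3⟩⟩) (by decide +kernel)

def top9_pL1 : PosBox ⟨⟨0, 1, 1⟩, ⟨99, 100, 165⟩, ⟨72, 121, 600⟩, ⟨83, 115, 100⟩⟩ (top9.hPL true) :=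
  posBox_of_check (c := ⟨239, ⟨5, 6, 9, 3⟩⟩) (by decide +kernel)

def top9_pU1_0 : PosBox ⟨⟨0, 1, 2⟩, ⟨99, 100, 165⟩, ⟨72, 121, 600⟩, ⟨83, 115, 100⟩⟩ (top9.hPU true) :=
  posBox_of_check (c := ⟨241, ⟨5, 6, 9, 3⟩⟩) (by decide +kernel)

def top9_pU1_1 : PosBox ⟨⟨1, 2, 2⟩, ⟨99, 100, 165⟩, ⟨72, 121, 600⟩, ⟨83, 115, 100⟩⟩ (top9.hPU true) :=
  posBox_of_check (c := ⟨242, ⟨5, 6, 9, 3⟩⟩) (by decide +kernel)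

def top9_pU1 : PosBox ⟨⟨0, 1, 1⟩, ⟨99, 100, 165⟩, ⟨72, 121, 600⟩, ⟨83, 115, 100⟩⟩ (top9.hPU true) :=
  posBox_units (b := ⟨⟨0, 2, 2⟩, ⟨99, 100, 165⟩, ⟨72, 121, 600⟩, ⟨83, 115, 100⟩⟩) (by decide +kernel) (posBox_join₀ top9_pU1_0 top9_pU1_1)

def top9_kU1 : PosBox ⟨⟨0, 1, 1⟩, ⟨99, 100, 165⟩, ⟨72, 121, 600⟩, ⟨83, 115, 100⟩⟩ (top9.hKU true) :=
  posBox_of_check (c := ⟨237, ⟨5, 6, 9, 3⟩⟩) (by decide +kernel)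

def top9_kL1 : PosBox ⟨⟨0, 1, 1⟩, ⟨99, 100, 165⟩, ⟨72, 121, 600⟩, ⟨83, 115, 100⟩⟩ (top9.hKL true) :=
  posBox_of_check (c := ⟨237, ⟨5, 6, 9, 3⟩⟩) (by decide +kernel)

def top9_wU1 : PosBox ⟨⟨0, 1, 1⟩, ⟨99, 100, 165⟩, ⟨72, 121, 600⟩, ⟨83, 115, 100⟩⟩ (top9.hWU true) :=
  posBox_of_check (c := ⟨263, ⟨5, 8, 10, 3⟩⟩) (by decide +kernel)

def top9_wL1 : PosBox ⟨⟨0, 1, 1⟩, ⟨99, 100, 165⟩, ⟨72, 121, 600⟩, ⟨83, 115, 100⟩⟩ (top9.hWL true) :=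
  posBox_of_check (c := ⟨263, ⟨5, 8, 10, 3⟩⟩) (by decide +kernel)

/-- The checks on the bounds. -/
theorem top9_env : top9.Env ⟨⟨0, 1, 1⟩, ⟨99, 100, 165⟩, ⟨72, 121, 600⟩, ⟨83, 115, 100⟩⟩ where
  p0 := top9_p0
  den := Bool.forall_bool.2 ⟨top9_den0, top9_den1⟩
  gn := top9_gn
  ev := Bool.forall_bool.2 ⟨top9_ev0, top9_ev1⟩
  eL := Bool.forall_bool.2 ⟨top9_eL0, top9_eL1⟩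
  eL' := ⟨.inr rfl, .inr rfl⟩
  eH := Bool.forall_bool.2 ⟨top9_eH0, top9_eH1⟩
  eH' := ⟨.inr rfl, .inr rfl⟩
  pL := Bool.forall_bool.2 ⟨top9_pL0, top9_pL1⟩
  pL' := ⟨.inr rfl, .inr rfl⟩
  pU := Bool.forall_bool.2 ⟨top9_pU0, top9_pU1⟩
  pU' := ⟨.inr rfl, .inr rfl⟩
  kU := Bool.forall_bool.2 ⟨top9_kU0, top9_kU1⟩
  kU' := ⟨.inr rfl, .inr rfl⟩
  kL := Bool.forall_bool.2 ⟨top9_kL0, top9_kL1⟩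
  kL' := ⟨.inr rfl, .inr rfl⟩
  wU := Bool.forall_bool.2 ⟨top9_wU0, top9_wU1⟩
  wU' := ⟨.inr rfl, .inr rfl⟩
  wL := Bool.forall_bool.2 ⟨top9_wL0, top9_wL1⟩
  wL' := ⟨.inr rfl, .inr rfl⟩

end Vale.Agent.P100.Calib.Closed.High
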