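import Vale.Agent.P100.Calib.SlabHighData

/-!
# Checks of the signs of a piece of the tail
-/

set_option linter.defProp false

namespace Vale.Agent.P100.Calib.Closed.High

open BoxPos Large

def top11_vG : PosBox ⟨⟨0, 1, 1⟩, ⟨99, 100, 165⟩, ⟨72, 121, 600⟩, ⟨127, 169, 100⟩⟩ (hVG) :=
  posBox_of_check (c := ⟨145, ⟨0, 5, 8, 3⟩⟩) (by decide +kernel)

def top11_vMG : PosBox ⟨⟨0, 1, 1⟩, ⟨99, 100, 165⟩, ⟨72, 121, 600⟩, ⟨127, 169, 100⟩⟩ (hVMG) :=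
  posBox_of_check (c := ⟨149, ⟨0, 4, 8, 4⟩⟩) (by decide +kernel)

def top11_ak : PosBox ⟨⟨0, 1, 1⟩, ⟨99, 100, 165⟩, ⟨72, 121, 600⟩, ⟨127, 169, 100⟩⟩ (hAk) :=
  posBox_of_check (c := ⟨138, ⟨0, 4, 6, 4⟩⟩) (by decide +kernel)

def top11_aw : PosBox ⟨⟨0, 1, 1⟩, ⟨99, 100, 165⟩, ⟨72, 121, 600⟩, ⟨127, 169, 100⟩⟩ (hAw) :=
  posBox_of_check (c := ⟨142, ⟨0, 5, 7, 3⟩⟩) (by decide +kernel)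

def top11_gk : PosBox ⟨⟨0, 1, 1⟩, ⟨99, 100, 165⟩, ⟨72, 121, 600⟩, ⟨127, 169, 100⟩⟩ (hGk) :=
  posBox_of_check (c := ⟨138, ⟨0, 4, 6, 4⟩⟩) (by decide +kernel)

def top11_gw : PosBox ⟨⟨0, 1, 1⟩, ⟨99, 100, 165⟩, ⟨72, 121, 600⟩, ⟨127, 169, 100⟩⟩ (hGw) :=
  posBox_of_check (c := ⟨142, ⟨0, 5, 7, 3⟩⟩) (by decide +kernel)

def top11_ek : PosBox ⟨⟨0, 1, 1⟩, ⟨99, 100, 165⟩, ⟨72, 121, 600⟩, ⟨127, 169, 100⟩⟩ (hMk) :=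
  posBox_of_check (c := ⟨80, ⟨0, 2, 3, 3⟩⟩) (by decide +kernel)

def top11_ew : PosBox ⟨⟨0, 1, 1⟩, ⟨99, 100, 165⟩, ⟨72, 121, 600⟩, ⟨127, 169, 100⟩⟩ (hMw) :=
  posBox_of_check (c := ⟨83, ⟨0, 3, 4, 2⟩⟩) (by decide +kernel)

def top11_pp : PosBox ⟨⟨0, 1, 1⟩, ⟨99, 100, 165⟩, ⟨72, 121, 600⟩, ⟨127, 169, 100⟩⟩ (top11.xPL) :=
  posBox_of_check (c := ⟨72, ⟨1, 1, 2, 2⟩⟩) (by decide +kernel)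

def top11_k2p : PosBox ⟨⟨0, 1, 1⟩, ⟨99, 100, 165⟩, ⟨72, 121, 600⟩, ⟨127, 169, 100⟩⟩ (top11.k2p top11.xE) :=
  posBox_of_check (c := ⟨60, ⟨1, 1, 1, 1⟩⟩) (by decide +kernel)

def top11_k2m : PosBox ⟨⟨0, 1, 1⟩, ⟨99, 100, 165⟩, ⟨72, 121, 600⟩, ⟨127, 169, 100⟩⟩ (top11.k2m top11.xE) :=
  posBox_of_check (c := ⟨30, ⟨0, 0, 1, 1⟩⟩) (by decide +kernel)

def top11_v2p : PosBox ⟨⟨0, 1, 1⟩, ⟨99, 100, 165⟩, ⟨72, 121, 600⟩, ⟨127, 169, 100⟩⟩ (top11.hV2p) :=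
  posBox_of_check (c := ⟨206, ⟨1, 6, 10, 5⟩⟩) (by decide +kernel)

def top11_v2m : PosBox ⟨⟨0, 1, 1⟩, ⟨99, 100, 165⟩, ⟨72, 121, 600⟩, ⟨127, 169, 100⟩⟩ (top11.hV2m) :=
  posBox_of_check (c := ⟨185, ⟨0, 5, 10, 5⟩⟩) (by decide +kernel)

def top11_v3p : PosBox ⟨⟨0, 1, 1⟩, ⟨99, 100, 165⟩, ⟨72, 121, 600⟩, ⟨127, 169, 100⟩⟩ (top11.hV3p) :=
  posBox_of_check (c := ⟨185, ⟨1, 6, 9, 4⟩⟩) (by decide +kernel)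

def top11_v3m : PosBox ⟨⟨0, 1, 1⟩, ⟨99, 100, 165⟩, ⟨72, 121, 600⟩, ⟨127, 169, 100⟩⟩ (top11.hV3m) :=
  posBox_of_check (c := ⟨165, ⟨0, 5, 9, 4⟩⟩) (by decide +kernel)

def top11_kap0 : PosBox ⟨⟨0, 1, 1⟩, ⟨99, 100, 165⟩, ⟨72, 121, 600⟩, ⟨127, 169, 100⟩⟩ (top11.kap false) :=
  posBox_of_check (c := ⟨63, ⟨1, 1, 1, 1⟩⟩) (by decide +kernel)

def top11_tg0 : PosBox ⟨⟨0, 1, 1⟩, ⟨99, 100, 165⟩, ⟨72, 121, 600⟩, ⟨127, 169, 100⟩⟩ (top11.hG (top11.pEnd false)) :=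
  posBox_of_check (c := ⟨281, ⟨2, 7, 12, 7⟩⟩) (by decide +kernel)

def top11_c2p0 : PosBox ⟨⟨0, 1, 1⟩, ⟨99, 100, 165⟩, ⟨72, 121, 600⟩, ⟨127, 169, 100⟩⟩ (top11.hC2p (top11.pEnd false)) :=
  posBox_of_check (c := ⟨342, ⟨3, 8, 14, 9⟩⟩) (by decide +kernel)

def top11_c2m0 : PosBox ⟨⟨0, 1, 1⟩, ⟨99, 100, 165⟩, ⟨72, 121, 600⟩, ⟨127, 169, 100⟩⟩ (top11.hC2m (top11.pEnd false)) :=
  posBox_of_check (c := ⟨323, ⟨2, 7, 14, 9⟩⟩) (by decide +kernel)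

def top11_c10 : PosBox ⟨⟨0, 1, 1⟩, ⟨99, 100, 165⟩, ⟨72, 121, 600⟩, ⟨127, 169, 100⟩⟩ (top11.hC1 false) :=
  posBox_of_check (c := ⟨208, ⟨3, 5, 8, 6⟩⟩) (by decide +kernel)

def top11_c3p0 : PosBox ⟨⟨0, 1, 1⟩, ⟨99, 100, 165⟩, ⟨72, 121, 600⟩, ⟨127, 169, 100⟩⟩ (top11.hC3p false) :=
  posBox_of_check (c := ⟨325, ⟨3, 8, 13, 8⟩⟩) (by decide +kernel)

def top11_c3m0 : PosBox ⟨⟨0, 1, 1⟩, ⟨99, 100, 165⟩, ⟨72, 121, 600⟩, ⟨127, 169, 100⟩⟩ (top11.hC3m false) :=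
  posBox_of_check (c := ⟨308, ⟨3, 7, 13, 8⟩⟩) (by decide +kernel)

def top11_tmg0 : PosBox ⟨⟨0, 1, 1⟩, ⟨99, 100, 165⟩, ⟨72, 121, 600⟩, ⟨127, 169, 100⟩⟩ (top11.hTMG (top11.pEnd false)) :=
  posBox_of_check (c := ⟨294, ⟨2, 7, 12, 8⟩⟩) (by decide +kernel)

def top11_neg0 : PosBox ⟨⟨0, 1, 1⟩, ⟨99, 100, 165⟩, ⟨72, 121, 600⟩, ⟨127, 169, 100⟩⟩ (top11.hNeg (top11.pEnd false)) :=
  posBox_of_check (c := ⟨195, ⟨2, 5, 8, 6⟩⟩) (by decide +kernel)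

def top11_neglo0 : PosBox ⟨⟨0, 1, 1⟩, ⟨99, 100, 165⟩, ⟨72, 121, 600⟩, ⟨127, 169, 100⟩⟩ (top11.hNegLo (top11.pEnd false)) :=
  posBox_of_check (c := ⟨195, ⟨2, 5, 8, 6⟩⟩) (by decide +kernel)

def top11_kap1 : PosBox ⟨⟨0, 1, 1⟩, ⟨99, 100, 165⟩, ⟨72, 121, 600⟩, ⟨127, 169, 100⟩⟩ (top11.kap true) :=
  posBox_of_check (c := ⟨62, ⟨1, 1, 1, 1⟩⟩) (by decide +kernel)

def top11_tg1 : PosBox ⟨⟨0, 1, 1⟩, ⟨99, 100, 165⟩, ⟨72, 121, 600⟩, ⟨127, 169, 100⟩⟩ (top11.hG (top11.pEnd true)) :=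
  posBox_of_check (c := ⟨281, ⟨2, 7, 12, 7⟩⟩) (by decide +kernel)

def top11_c2p1 : PosBox ⟨⟨0, 1, 1⟩, ⟨99, 100, 165⟩, ⟨72, 121, 600⟩, ⟨127, 169, 100⟩⟩ (top11.hC2p (top11.pEnd true)) :=
  posBox_of_check (c := ⟨343, ⟨3, 8, 14, 9⟩⟩) (by decide +kernel)

def top11_c2m1 : PosBox ⟨⟨0, 1, 1⟩, ⟨99, 100, 165⟩, ⟨72, 121, 600⟩, ⟨127, 169, 100⟩⟩ (top11.hC2m (top11.pEnd true)) :=
  posBox_of_check (c := ⟨323, ⟨2, 7, 14, 9⟩⟩) (by decide +kernel)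

def top11_c11 : PosBox ⟨⟨0, 1, 1⟩, ⟨99, 100, 165⟩, ⟨72, 121, 600⟩, ⟨127, 169, 100⟩⟩ (top11.hC1 true) :=
  posBox_of_check (c := ⟨209, ⟨3, 5, 8, 6⟩⟩) (by decide +kernel)

def top11_c3p1 : PosBox ⟨⟨0, 1, 1⟩, ⟨99, 100, 165⟩, ⟨72, 121, 600⟩, ⟨127, 169, 100⟩⟩ (top11.hC3p true) :=
  posBox_of_check (c := ⟨325, ⟨3, 8, 13, 8⟩⟩) (by decide +kernel)

def top11_c3m1 : PosBox ⟨⟨0, 1, 1⟩, ⟨99, 100, 165⟩, ⟨72, 121, 600⟩, ⟨127, 169, 100⟩⟩ (top11.hC3m true) :=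
  posBox_of_check (c := ⟨308, ⟨3, 7, 13, 8⟩⟩) (by decide +kernel)

def top11_tmg1 : PosBox ⟨⟨0, 1, 1⟩, ⟨99, 100, 165⟩, ⟨72, 121, 600⟩, ⟨127, 169, 100⟩⟩ (top11.hTMG (top11.pEnd true)) :=
  posBox_of_check (c := ⟨294, ⟨2, 7, 12, 8⟩⟩) (by decide +kernel)

def top11_neg1 : PosBox ⟨⟨0, 1, 1⟩, ⟨99, 100, 165⟩, ⟨72, 121, 600⟩, ⟨127, 169, 100⟩⟩ (top11.hNeg (top11.pEnd true)) :=
  posBox_of_check (c := ⟨195, ⟨2, 5, 8, 6⟩⟩) (by decide +kernel)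

def top11_neglo1 : PosBox ⟨⟨0, 1, 1⟩, ⟨99, 100, 165⟩, ⟨72, 121, 600⟩, ⟨127, 169, 100⟩⟩ (top11.hNegLo (top11.pEnd true)) :=
  posBox_of_check (c := ⟨195, ⟨2, 5, 8, 6⟩⟩) (by decide +kernel)

/-- The checks on the signs. -/
theorem top11_sign : top11.Sign ⟨⟨0, 1, 1⟩, ⟨99, 100, 165⟩, ⟨72, 121, 600⟩, ⟨127, 169, 100⟩⟩ where
  pp := top11_pp
  k2p := top11_k2p
  k2m := top11_k2m
  v2p := top11_v2p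
  v2m := top11_v2m
  v3p := top11_v3p
  v3m := top11_v3m
  tg := Bool.forall_bool.2 ⟨top11_tg0, top11_tg1⟩
  c2p := Bool.forall_bool.2 ⟨top11_c2p0, top11_c2p1⟩
  c2m := Bool.forall_bool.2 ⟨top11_c2m0, top11_c2m1⟩
  kap := Bool.forall_bool.2 ⟨top11_kap0, top11_kap1⟩
  c1 := Bool.forall_bool.2 ⟨top11_c10, top11_c11⟩
  c3p := Bool.forall_bool.2 ⟨top11_c3p0, top11_c3p1⟩
  c3m := Bool.forall_bool.2 ⟨top11_c3m0, top11_c3m1⟩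
  tmg := Bool.forall_bool.2 ⟨top11_tmg0, top11_tmg1⟩
  high := .inl (Bool.forall_bool.2 ⟨⟨top11_neg0, top11_neglo0⟩, ⟨top11_neg1, top11_neglo1⟩⟩)
  vG := top11_vG
  vMG := top11_vMG
  ak := top11_ak
  aw := top11_aw
  gk := top11_gk
  gw := top11_gw
  ek := top11_ek
  ew := top11_ew

end Vale.Agent.P100.Calib.Closed.High
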