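import Vale.Agent.P100.Calib.SlabHighData

/-!
# Checks of the signs of a piece of the tail
-/

set_option linter.defProp false

namespace Vale.Agent.P100.Calib.Closed.High

open BoxPos Large

def top13_vG : PosBox ⟨⟨0, 1, 1⟩, ⟨99, 100, 165⟩, ⟨72, 121, 600⟩, ⟨65, 140, 100⟩⟩ (hVG) :=
  posBox_of_check (c := ⟨145, ⟨0, 5, 8, 3⟩⟩) (by decide +kernel)

def top13_vMG : PosBox ⟨⟨0, 1, 1⟩, ⟨99, 100, 165⟩, ⟨72, 121, 600⟩, ⟨65, 140, 100⟩⟩ (hVMG) :=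
  posBox_of_check (c := ⟨148, ⟨0, 4, 8, 4⟩⟩) (by decide +kernel)

def top13_ak : PosBox ⟨⟨0, 1, 1⟩, ⟨99, 100, 165⟩, ⟨72, 121, 600⟩, ⟨65, 140, 100⟩⟩ (hAk) :=
  posBox_of_check (c := ⟨137, ⟨0, 4, 6, 4⟩⟩) (by decide +kernel)

def top13_aw : PosBox ⟨⟨0, 1, 1⟩, ⟨99, 100, 165⟩, ⟨72, 121, 600⟩, ⟨65, 140, 100⟩⟩ (hAw) :=
  posBox_of_check (c := ⟨141, ⟨0, 5, 7, 3⟩⟩) (by decide +kernel)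

def top13_gk : PosBox ⟨⟨0, 1, 1⟩, ⟨99, 100, 165⟩, ⟨72, 121, 600⟩, ⟨65, 140, 100⟩⟩ (hGk) :=
  posBox_of_check (c := ⟨137, ⟨0, 4, 6, 4⟩⟩) (by decide +kernel)

def top13_gw : PosBox ⟨⟨0, 1, 1⟩, ⟨99, 100, 165⟩, ⟨72, 121, 600⟩, ⟨65, 140, 100⟩⟩ (hGw) :=
  posBox_of_check (c := ⟨141, ⟨0, 5, 7, 3⟩⟩) (by decide +kernel)

def top13_ek : PosBox ⟨⟨0, 1, 1⟩, ⟨99, 100, 165⟩, ⟨72, 121, 600⟩, ⟨65, 140, 100⟩⟩ (hMk) :=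
  posBox_of_check (c := ⟨78, ⟨0, 2, 3, 3⟩⟩) (by decide +kernel)

def top13_ew : PosBox ⟨⟨0, 1, 1⟩, ⟨99, 100, 165⟩, ⟨72, 121, 600⟩, ⟨65, 140, 100⟩⟩ (hMw) :=
  posBox_of_check (c := ⟨82, ⟨0, 3, 4, 2⟩⟩) (by decide +kernel)

def top13_pp : PosBox ⟨⟨0, 1, 1⟩, ⟨99, 100, 165⟩, ⟨72, 121, 600⟩, ⟨65, 140, 100⟩⟩ (top13.xPL) :=
  posBox_of_check (c := ⟨71, ⟨1, 1, 2, 2⟩⟩) (by decide +kernel)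

def top13_k2p : PosBox ⟨⟨0, 1, 1⟩, ⟨99, 100, 165⟩, ⟨72, 121, 600⟩, ⟨65, 140, 100⟩⟩ (top13.k2p top13.xE) :=
  posBox_of_check (c := ⟨61, ⟨1, 1, 1, 2⟩⟩) (by decide +kernel)

def top13_k2m : PosBox ⟨⟨0, 1, 1⟩, ⟨99, 100, 165⟩, ⟨72, 121, 600⟩, ⟨65, 140, 100⟩⟩ (top13.k2m top13.xE) :=
  posBox_of_check (c := ⟨29, ⟨0, 0, 1, 1⟩⟩) (by decide +kernel)

def top13_v2p : PosBox ⟨⟨0, 1, 1⟩, ⟨99, 100, 165⟩, ⟨72, 121, 600⟩, ⟨65, 140, 100⟩⟩ (top13.hV2p) :=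
  posBox_of_check (c := ⟨205, ⟨1, 6, 10, 5⟩⟩) (by decide +kernel)

def top13_v2m : PosBox ⟨⟨0, 1, 1⟩, ⟨99, 100, 165⟩, ⟨72, 121, 600⟩, ⟨65, 140, 100⟩⟩ (top13.hV2m) :=
  posBox_of_check (c := ⟨184, ⟨0, 5, 10, 5⟩⟩) (by decide +kernel)

def top13_v3p : PosBox ⟨⟨0, 1, 1⟩, ⟨99, 100, 165⟩, ⟨72, 121, 600⟩, ⟨65, 140, 100⟩⟩ (top13.hV3p) :=
  posBox_of_check (c := ⟨184, ⟨1, 6, 9, 4⟩⟩) (by decide +kernel)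

def top13_v3m : PosBox ⟨⟨0, 1, 1⟩, ⟨99, 100, 165⟩, ⟨72, 121, 600⟩, ⟨65, 140, 100⟩⟩ (top13.hV3m) :=
  posBox_of_check (c := ⟨165, ⟨0, 5, 9, 4⟩⟩) (by decide +kernel)

def top13_kap0 : PosBox ⟨⟨0, 1, 1⟩, ⟨99, 100, 165⟩, ⟨72, 121, 600⟩, ⟨65, 140, 100⟩⟩ (top13.kap false) :=
  posBox_of_check (c := ⟨62, ⟨1, 1, 1, 2⟩⟩) (by decide +kernel)

def top13_tg0 : PosBox ⟨⟨0, 1, 1⟩, ⟨99, 100, 165⟩, ⟨72, 121, 600⟩, ⟨65, 140, 100⟩⟩ (top13.hG (top13.pEnd false)) :=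
  posBox_of_check (c := ⟨278, ⟨2, 7, 12, 7⟩⟩) (by decide +kernel)

def top13_c2p0 : PosBox ⟨⟨0, 1, 1⟩, ⟨99, 100, 165⟩, ⟨72, 121, 600⟩, ⟨65, 140, 100⟩⟩ (top13.hC2p (top13.pEnd false)) :=
  posBox_of_check (c := ⟨340, ⟨3, 8, 14, 9⟩⟩) (by decide +kernel)

def top13_c2m0 : PosBox ⟨⟨0, 1, 1⟩, ⟨99, 100, 165⟩, ⟨72, 121, 600⟩, ⟨65, 140, 100⟩⟩ (top13.hC2m (top13.pEnd false)) :=
  posBox_of_check (c := ⟨320, ⟨2, 7, 14, 9⟩⟩) (by decide +kernel)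

def top13_c10_0 : PosBox ⟨⟨0, 1, 2⟩, ⟨99, 100, 165⟩, ⟨72, 121, 600⟩, ⟨65, 140, 100⟩⟩ (top13.hC1 false) :=
  posBox_of_check (c := ⟨206, ⟨3, 5, 8, 6⟩⟩) (by decide +kernel)

def top13_c10_1 : PosBox ⟨⟨1, 2, 2⟩, ⟨99, 100, 165⟩, ⟨72, 121, 600⟩, ⟨65, 140, 100⟩⟩ (top13.hC1 false) :=
  posBox_of_check (c := ⟨207, ⟨3, 5, 8, 6⟩⟩) (by decide +kernel)

def top13_c10 : PosBox ⟨⟨0, 1, 1⟩, ⟨99, 100, 165⟩, ⟨72, 121, 600⟩, ⟨65, 140, 100⟩⟩ (top13.hC1 false) :=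
  posBox_units (b := ⟨⟨0, 2, 2⟩, ⟨99, 100, 165⟩, ⟨72, 121, 600⟩, ⟨65, 140, 100⟩⟩) (by decide +kernel) (posBox_join₀ top13_c10_0 top13_c10_1)

def top13_c3p0 : PosBox ⟨⟨0, 1, 1⟩, ⟨99, 100, 165⟩, ⟨72, 121, 600⟩, ⟨65, 140, 100⟩⟩ (top13.hC3p false) :=
  posBox_of_check (c := ⟨322, ⟨3, 8, 13, 8⟩⟩) (by decide +kernel)

def top13_c3m0 : PosBox ⟨⟨0, 1, 1⟩, ⟨99, 100, 165⟩, ⟨72, 121, 600⟩, ⟨65, 140, 100⟩⟩ (top13.hC3m false) :=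
  posBox_of_check (c := ⟨305, ⟨3, 7, 13, 8⟩⟩) (by decide +kernel)

def top13_tmg0 : PosBox ⟨⟨0, 1, 1⟩, ⟨99, 100, 165⟩, ⟨72, 121, 600⟩, ⟨65, 140, 100⟩⟩ (top13.hTMG (top13.pEnd false)) :=
  posBox_of_check (c := ⟨292, ⟨2, 7, 12, 8⟩⟩) (by decide +kernel)

def top13_c1h0 : PosBox ⟨⟨0, 1, 1⟩, ⟨99, 100, 165⟩, ⟨72, 121, 600⟩, ⟨65, 140, 100⟩⟩ (top13.hC1' false) :=
  posBox_of_check (c := ⟨206, ⟨3, 5, 8, 6⟩⟩) (by decide +kernel)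

def top13_c3ph0 : PosBox ⟨⟨0, 1, 1⟩, ⟨99, 100, 165⟩, ⟨72, 121, 600⟩, ⟨65, 140, 100⟩⟩ (top13.hC3p' false) :=
  posBox_of_check (c := ⟨322, ⟨3, 8, 13, 8⟩⟩) (by decide +kernel)

def top13_c3mh0 : PosBox ⟨⟨0, 1, 1⟩, ⟨99, 100, 165⟩, ⟨72, 121, 600⟩, ⟨65, 140, 100⟩⟩ (top13.hC3m' false) :=
  posBox_of_check (c := ⟨305, ⟨3, 7, 13, 8⟩⟩) (by decide +kernel)

def top13_up0 : PosBox ⟨⟨0, 1, 1⟩, ⟨99, 100, 165⟩, ⟨72, 121, 600⟩, ⟨65, 140, 100⟩⟩ (top13.hUp false) :=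
  posBox_of_check (c := ⟨322, ⟨3, 8, 13, 8⟩⟩) (by decide +kernel)

def top13_um0 : PosBox ⟨⟨0, 1, 1⟩, ⟨99, 100, 165⟩, ⟨72, 121, 600⟩, ⟨65, 140, 100⟩⟩ (top13.hUm false) :=
  posBox_of_check (c := ⟨304, ⟨2, 7, 13, 8⟩⟩) (by decide +kernel)

def top13_kap1 : PosBox ⟨⟨0, 1, 1⟩, ⟨99, 100, 165⟩, ⟨72, 121, 600⟩, ⟨65, 140, 100⟩⟩ (top13.kap true) :=
  posBox_of_check (c := ⟨63, ⟨1, 1, 1, 2⟩⟩) (by decide +kernel)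

def top13_tg1 : PosBox ⟨⟨0, 1, 1⟩, ⟨99, 100, 165⟩, ⟨72, 121, 600⟩, ⟨65, 140, 100⟩⟩ (top13.hG (top13.pEnd true)) :=
  posBox_of_check (c := ⟨283, ⟨2, 7, 12, 9⟩⟩) (by decide +kernel)

def top13_c2p1 : PosBox ⟨⟨0, 1, 1⟩, ⟨99, 100, 165⟩, ⟨72, 121, 600⟩, ⟨65, 140, 100⟩⟩ (top13.hC2p (top13.pEnd true)) :=
  posBox_of_check (c := ⟨344, ⟨3, 8, 14, 11⟩⟩) (by decide +kernel)

def top13_c2m1 : PosBox ⟨⟨0, 1, 1⟩, ⟨99, 100, 165⟩, ⟨72, 121, 600⟩, ⟨65, 140, 100⟩⟩ (top13.hC2m (top13.pEnd true)) :=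
  posBox_of_check (c := ⟨323, ⟨2, 7, 14, 11⟩⟩) (by decide +kernel)

def top13_c11_0 : PosBox ⟨⟨0, 1, 2⟩, ⟨99, 100, 165⟩, ⟨72, 121, 600⟩, ⟨65, 140, 100⟩⟩ (top13.hC1 true) :=
  posBox_of_check (c := ⟨209, ⟨3, 5, 8, 7⟩⟩) (by decide +kernel)

def top13_c11_1 : PosBox ⟨⟨1, 2, 2⟩, ⟨99, 100, 165⟩, ⟨72, 121, 600⟩, ⟨65, 140, 100⟩⟩ (top13.hC1 true) :=
  posBox_of_check (c := ⟨210, ⟨3, 5, 8, 7⟩⟩) (by decide +kernel)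

def top13_c11 : PosBox ⟨⟨0, 1, 1⟩, ⟨99, 100, 165⟩, ⟨72, 121, 600⟩, ⟨65, 140, 100⟩⟩ (top13.hC1 true) :=
  posBox_units (b := ⟨⟨0, 2, 2⟩, ⟨99, 100, 165⟩, ⟨72, 121, 600⟩, ⟨65, 140, 100⟩⟩) (by decide +kernel) (posBox_join₀ top13_c11_0 top13_c11_1)

def top13_c3p1 : PosBox ⟨⟨0, 1, 1⟩, ⟨99, 100, 165⟩, ⟨72, 121, 600⟩, ⟨65, 140, 100⟩⟩ (top13.hC3p true) :=
  posBox_of_check (c := ⟨326, ⟨3, 8, 13, 10⟩⟩) (by decide +kernel)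

def top13_c3m1 : PosBox ⟨⟨0, 1, 1⟩, ⟨99, 100, 165⟩, ⟨72, 121, 600⟩, ⟨65, 140, 100⟩⟩ (top13.hC3m true) :=
  posBox_of_check (c := ⟨308, ⟨3, 7, 13, 10⟩⟩) (by decide +kernel)

def top13_tmg1 : PosBox ⟨⟨0, 1, 1⟩, ⟨99, 100, 165⟩, ⟨72, 121, 600⟩, ⟨65, 140, 100⟩⟩ (top13.hTMG (top13.pEnd true)) :=
  posBox_of_check (c := ⟨295, ⟨2, 7, 12, 10⟩⟩) (by decide +kernel)

def top13_c1h1 : PosBox ⟨⟨0, 1, 1⟩, ⟨99, 100, 165⟩, ⟨72, 121, 600⟩, ⟨65, 140, 100⟩⟩ (top13.hC1' true) :=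
  posBox_of_check (c := ⟨208, ⟨3, 5, 8, 7⟩⟩) (by decide +kernel)

def top13_c3ph1 : PosBox ⟨⟨0, 1, 1⟩, ⟨99, 100, 165⟩, ⟨72, 121, 600⟩, ⟨65, 140, 100⟩⟩ (top13.hC3p' true) :=
  posBox_of_check (c := ⟨326, ⟨3, 8, 13, 10⟩⟩) (by decide +kernel)

def top13_c3mh1 : PosBox ⟨⟨0, 1, 1⟩, ⟨99, 100, 165⟩, ⟨72, 121, 600⟩, ⟨65, 140, 100⟩⟩ (top13.hC3m' true) :=
  posBox_of_check (c := ⟨308, ⟨3, 7, 13, 10⟩⟩) (by decide +kernel)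

def top13_up1 : PosBox ⟨⟨0, 1, 1⟩, ⟨99, 100, 165⟩, ⟨72, 121, 600⟩, ⟨65, 140, 100⟩⟩ (top13.hUp true) :=
  posBox_of_check (c := ⟨325, ⟨3, 8, 13, 10⟩⟩) (by decide +kernel)

def top13_um1 : PosBox ⟨⟨0, 1, 1⟩, ⟨99, 100, 165⟩, ⟨72, 121, 600⟩, ⟨65, 140, 100⟩⟩ (top13.hUm true) :=
  posBox_of_check (c := ⟨306, ⟨2, 7, 13, 10⟩⟩) (by decide +kernel)

/-- The checks on the signs. -/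
theorem top13_sign : top13.Sign ⟨⟨0, 1, 1⟩, ⟨99, 100, 165⟩, ⟨72, 121, 600⟩, ⟨65, 140, 100⟩⟩ where
  pp := top13_pp
  k2p := top13_k2p
  k2m := top13_k2m
  v2p := top13_v2p
  v2m := top13_v2m
  v3p := top13_v3p
  v3m := top13_v3m
  tg := Bool.forall_bool.2 ⟨top13_tg0, top13_tg1⟩
  c2p := Bool.forall_bool.2 ⟨top13_c2p0, top13_c2p1⟩
  c2m := Bool.forall_bool.2 ⟨top13_c2m0, top13_c2m1⟩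
  kap := Bool.forall_bool.2 ⟨top13_kap0, top13_kap1⟩
  c1 := Bool.forall_bool.2 ⟨top13_c10, top13_c11⟩
  c3p := Bool.forall_bool.2 ⟨top13_c3p0, top13_c3p1⟩
  c3m := Bool.forall_bool.2 ⟨top13_c3m0, top13_c3m1⟩
  tmg := Bool.forall_bool.2 ⟨top13_tmg0, top13_tmg1⟩
  high := .inr (Bool.forall_bool.2 ⟨⟨top13_c1h0, top13_c3ph0, top13_c3mh0, top13_up0, top13_um0⟩, ⟨top13_c1h1, top13_c3ph1, top13_c3mh1, top13_up1, top13_um1⟩⟩)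
  vG := top13_vG
  vMG := top13_vMG
  ak := top13_ak
  aw := top13_aw
  gk := top13_gk
  gw := top13_gw
  ek := top13_ek
  ew := top13_ew

end Vale.Agent.P100.Calib.Closed.High
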