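import Vale.Agent.P100.Calib.SlabHighData

/-!
# Checks of the signs of a piece of the tail
-/

set_option linter.defProp false

namespace Vale.Agent.P100.Calib.Closed.High

open BoxPos Large

def top15B_vG : PosBox ⟨⟨0, 1, 1⟩, ⟨99, 100, 165⟩, ⟨72, 87, 600⟩, ⟨188, 240, 100⟩⟩ (hVG) :=
  posBox_of_check (c := ⟨145, ⟨0, 5, 8, 3⟩⟩) (by decide +kernel)

def top15B_vMG : PosBox ⟨⟨0, 1, 1⟩, ⟨99, 100, 165⟩, ⟨72, 87, 600⟩, ⟨188, 240, 100⟩⟩ (hVMG) :=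
  posBox_of_check (c := ⟨148, ⟨0, 4, 8, 4⟩⟩) (by decide +kernel)

def top15B_ak : PosBox ⟨⟨0, 1, 1⟩, ⟨99, 100, 165⟩, ⟨72, 87, 600⟩, ⟨188, 240, 100⟩⟩ (hAk) :=
  posBox_of_check (c := ⟨139, ⟨0, 4, 6, 4⟩⟩) (by decide +kernel)

def top15B_aw : PosBox ⟨⟨0, 1, 1⟩, ⟨99, 100, 165⟩, ⟨72, 87, 600⟩, ⟨188, 240, 100⟩⟩ (hAw) :=
  posBox_of_check (c := ⟨142, ⟨0, 5, 7, 3⟩⟩) (by decide +kernel)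

def top15B_gk : PosBox ⟨⟨0, 1, 1⟩, ⟨99, 100, 165⟩, ⟨72, 87, 600⟩, ⟨188, 240, 100⟩⟩ (hGk) :=
  posBox_of_check (c := ⟨139, ⟨0, 4, 6, 4⟩⟩) (by decide +kernel)

def top15B_gw : PosBox ⟨⟨0, 1, 1⟩, ⟨99, 100, 165⟩, ⟨72, 87, 600⟩, ⟨188, 240, 100⟩⟩ (hGw) :=
  posBox_of_check (c := ⟨142, ⟨0, 5, 7, 3⟩⟩) (by decide +kernel)

def top15B_ek : PosBox ⟨⟨0, 1, 1⟩, ⟨99, 100, 165⟩, ⟨72, 87, 600⟩, ⟨188, 240, 100⟩⟩ (hMk) :=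
  posBox_of_check (c := ⟨81, ⟨0, 2, 3, 3⟩⟩) (by decide +kernel)

def top15B_ew : PosBox ⟨⟨0, 1, 1⟩, ⟨99, 100, 165⟩, ⟨72, 87, 600⟩, ⟨188, 240, 100⟩⟩ (hMw) :=
  posBox_of_check (c := ⟨83, ⟨0, 3, 4, 2⟩⟩) (by decide +kernel)

def top15B_pp : PosBox ⟨⟨0, 1, 1⟩, ⟨99, 100, 165⟩, ⟨72, 87, 600⟩, ⟨188, 240, 100⟩⟩ (top15B.xPL) :=
  posBox_of_check (c := ⟨79, ⟨1, 1, 3, 3⟩⟩) (by decide +kernel)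

def top15B_k2p : PosBox ⟨⟨0, 1, 1⟩, ⟨99, 100, 165⟩, ⟨72, 87, 600⟩, ⟨188, 240, 100⟩⟩ (top15B.k2p top15B.xE) :=
  posBox_of_check (c := ⟨66, ⟨1, 1, 2, 2⟩⟩) (by decide +kernel)

def top15B_k2m : PosBox ⟨⟨0, 1, 1⟩, ⟨99, 100, 165⟩, ⟨72, 87, 600⟩, ⟨188, 240, 100⟩⟩ (top15B.k2m top15B.xE) :=
  posBox_of_check (c := ⟨30, ⟨0, 0, 1, 1⟩⟩) (by decide +kernel)

def top15B_v2p : PosBox ⟨⟨0, 1, 1⟩, ⟨99, 100, 165⟩, ⟨72, 87, 600⟩, ⟨188, 240, 100⟩⟩ (top15B.hV2p) :=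
  posBox_of_check (c := ⟨208, ⟨1, 6, 10, 5⟩⟩) (by decide +kernel)

def top15B_v2m : PosBox ⟨⟨0, 1, 1⟩, ⟨99, 100, 165⟩, ⟨72, 87, 600⟩, ⟨188, 240, 100⟩⟩ (top15B.hV2m) :=
  posBox_of_check (c := ⟨185, ⟨0, 5, 10, 5⟩⟩) (by decide +kernel)

def top15B_v3p : PosBox ⟨⟨0, 1, 1⟩, ⟨99, 100, 165⟩, ⟨72, 87, 600⟩, ⟨188, 240, 100⟩⟩ (top15B.hV3p) :=
  posBox_of_check (c := ⟨186, ⟨1, 6, 9, 4⟩⟩) (by decide +kernel)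

def top15B_v3m : PosBox ⟨⟨0, 1, 1⟩, ⟨99, 100, 165⟩, ⟨72, 87, 600⟩, ⟨188, 240, 100⟩⟩ (top15B.hV3m) :=
  posBox_of_check (c := ⟨165, ⟨0, 5, 9, 4⟩⟩) (by decide +kernel)

def top15B_kap0 : PosBox ⟨⟨0, 1, 1⟩, ⟨99, 100, 165⟩, ⟨72, 87, 600⟩, ⟨188, 240, 100⟩⟩ (top15B.kap false) :=
  posBox_of_check (c := ⟨70, ⟨1, 1, 2, 2⟩⟩) (by decide +kernel)

def top15B_tg0 : PosBox ⟨⟨0, 1, 1⟩, ⟨99, 100, 165⟩, ⟨72, 87, 600⟩, ⟨188, 240, 100⟩⟩ (top15B.hG (top15B.pEnd false)) :=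
  posBox_of_check (c := ⟨293, ⟨2, 7, 14, 9⟩⟩) (by decide +kernel)

def top15B_c2p0 : PosBox ⟨⟨0, 1, 1⟩, ⟨99, 100, 165⟩, ⟨72, 87, 600⟩, ⟨188, 240, 100⟩⟩ (top15B.hC2p (top15B.pEnd false)) :=
  posBox_of_check (c := ⟨357, ⟨3, 8, 16, 11⟩⟩) (by decide +kernel)

def top15B_c2m0 : PosBox ⟨⟨0, 1, 1⟩, ⟨99, 100, 165⟩, ⟨72, 87, 600⟩, ⟨188, 240, 100⟩⟩ (top15B.hC2m (top15B.pEnd false)) :=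
  posBox_of_check (c := ⟨336, ⟨2, 7, 16, 11⟩⟩) (by decide +kernel)

def top15B_c10_0 : PosBox ⟨⟨0, 1, 2⟩, ⟨99, 100, 165⟩, ⟨72, 87, 600⟩, ⟨188, 240, 100⟩⟩ (top15B.hC1 false) :=
  posBox_of_check (c := ⟨221, ⟨3, 5, 9, 7⟩⟩) (by decide +kernel)

def top15B_c10_1 : PosBox ⟨⟨1, 2, 2⟩, ⟨99, 100, 165⟩, ⟨72, 87, 600⟩, ⟨188, 240, 100⟩⟩ (top15B.hC1 false) :=
  posBox_of_check (c := ⟨223, ⟨3, 5, 9, 7⟩⟩) (by decide +kernel)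

def top15B_c10 : PosBox ⟨⟨0, 1, 1⟩, ⟨99, 100, 165⟩, ⟨72, 87, 600⟩, ⟨188, 240, 100⟩⟩ (top15B.hC1 false) :=
  posBox_units (b := ⟨⟨0, 2, 2⟩, ⟨99, 100, 165⟩, ⟨72, 87, 600⟩, ⟨188, 240, 100⟩⟩) (by decide +kernel) (posBox_join₀ top15B_c10_0 top15B_c10_1)

def top15B_c3p0 : PosBox ⟨⟨0, 1, 1⟩, ⟨99, 100, 165⟩, ⟨72, 87, 600⟩, ⟨188, 240, 100⟩⟩ (top15B.hC3p false) :=
  posBox_of_check (c := ⟨340, ⟨3, 8, 15, 10⟩⟩) (by decide +kernel)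

def top15B_c3m0 : PosBox ⟨⟨0, 1, 1⟩, ⟨99, 100, 165⟩, ⟨72, 87, 600⟩, ⟨188, 240, 100⟩⟩ (top15B.hC3m false) :=
  posBox_of_check (c := ⟨323, ⟨3, 7, 15, 10⟩⟩) (by decide +kernel)

def top15B_tmg0 : PosBox ⟨⟨0, 1, 1⟩, ⟨99, 100, 165⟩, ⟨72, 87, 600⟩, ⟨188, 240, 100⟩⟩ (top15B.hTMG (top15B.pEnd false)) :=
  posBox_of_check (c := ⟨306, ⟨2, 7, 14, 10⟩⟩) (by decide +kernel)

def top15B_neg0 : PosBox ⟨⟨0, 1, 1⟩, ⟨99, 100, 165⟩, ⟨72, 87, 600⟩, ⟨188, 240, 100⟩⟩ (top15B.hNeg (top15B.pEnd false)) :=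
  posBox_of_check (c := ⟨203, ⟨2, 5, 9, 7⟩⟩) (by decide +kernel)

def top15B_neglo0 : PosBox ⟨⟨0, 1, 1⟩, ⟨99, 100, 165⟩, ⟨72, 87, 600⟩, ⟨188, 240, 100⟩⟩ (top15B.hNegLo (top15B.pEnd false)) :=
  posBox_of_check (c := ⟨203, ⟨2, 5, 9, 7⟩⟩) (by decide +kernel)

def top15B_kap1 : PosBox ⟨⟨0, 1, 1⟩, ⟨99, 100, 165⟩, ⟨72, 87, 600⟩, ⟨188, 240, 100⟩⟩ (top15B.kap true) :=
  posBox_of_check (c := ⟨69, ⟨1, 1, 2, 2⟩⟩) (by decide +kernel)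

def top15B_tg1 : PosBox ⟨⟨0, 1, 1⟩, ⟨99, 100, 165⟩, ⟨72, 87, 600⟩, ⟨188, 240, 100⟩⟩ (top15B.hG (top15B.pEnd true)) :=
  posBox_of_check (c := ⟨296, ⟨2, 7, 14, 9⟩⟩) (by decide +kernel)

def top15B_c2p1 : PosBox ⟨⟨0, 1, 1⟩, ⟨99, 100, 165⟩, ⟨72, 87, 600⟩, ⟨188, 240, 100⟩⟩ (top15B.hC2p (top15B.pEnd true)) :=
  posBox_of_check (c := ⟨359, ⟨3, 8, 16, 11⟩⟩) (by decide +kernel)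

def top15B_c2m1 : PosBox ⟨⟨0, 1, 1⟩, ⟨99, 100, 165⟩, ⟨72, 87, 600⟩, ⟨188, 240, 100⟩⟩ (top15B.hC2m (top15B.pEnd true)) :=
  posBox_of_check (c := ⟨337, ⟨2, 7, 16, 11⟩⟩) (by decide +kernel)

def top15B_c11_0_0 : PosBox ⟨⟨0, 1, 2⟩, ⟨99, 100, 165⟩, ⟨72, 87, 600⟩, ⟨188, 214, 100⟩⟩ (top15B.hC1 true) :=
  posBox_of_check (c := ⟨221, ⟨3, 5, 9, 7⟩⟩) (by decide +kernel)

def top15B_c11_0_1 : PosBox ⟨⟨0, 1, 2⟩, ⟨99, 100, 165⟩, ⟨72, 87, 600⟩, ⟨214, 240, 100⟩⟩ (top15B.hC1 true) :=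
  posBox_of_check (c := ⟨221, ⟨3, 5, 9, 7⟩⟩) (by decide +kernel)

theorem top15B_c11_0 : PosBox ⟨⟨0, 1, 2⟩, ⟨99, 100, 165⟩, ⟨72, 87, 600⟩, ⟨188, 240, 100⟩⟩ (top15B.hC1 true) :=
  posBox_join₃ top15B_c11_0_0 top15B_c11_0_1

def top15B_c11_1 : PosBox ⟨⟨1, 2, 2⟩, ⟨99, 100, 165⟩, ⟨72, 87, 600⟩, ⟨188, 240, 100⟩⟩ (top15B.hC1 true) :=
  posBox_of_check (c := ⟨222, ⟨3, 5, 9, 7⟩⟩) (by decide +kernel)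

def top15B_c11 : PosBox ⟨⟨0, 1, 1⟩, ⟨99, 100, 165⟩, ⟨72, 87, 600⟩, ⟨188, 240, 100⟩⟩ (top15B.hC1 true) :=
  posBox_units (b := ⟨⟨0, 2, 2⟩, ⟨99, 100, 165⟩, ⟨72, 87, 600⟩, ⟨188, 240, 100⟩⟩) (by decide +kernel) (posBox_join₀ top15B_c11_0 top15B_c11_1)

def top15B_c3p1 : PosBox ⟨⟨0, 1, 1⟩, ⟨99, 100, 165⟩, ⟨72, 87, 600⟩, ⟨188, 240, 100⟩⟩ (top15B.hC3p true) :=
  posBox_of_check (c := ⟨340, ⟨3, 8, 15, 10⟩⟩) (by decide +kernel)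

def top15B_c3m1 : PosBox ⟨⟨0, 1, 1⟩, ⟨99, 100, 165⟩, ⟨72, 87, 600⟩, ⟨188, 240, 100⟩⟩ (top15B.hC3m true) :=
  posBox_of_check (c := ⟨322, ⟨3, 7, 15, 10⟩⟩) (by decide +kernel)

def top15B_tmg1 : PosBox ⟨⟨0, 1, 1⟩, ⟨99, 100, 165⟩, ⟨72, 87, 600⟩, ⟨188, 240, 100⟩⟩ (top15B.hTMG (top15B.pEnd true)) :=
  posBox_of_check (c := ⟨306, ⟨2, 7, 14, 10⟩⟩) (by decide +kernel)

def top15B_neg1 : PosBox ⟨⟨0, 1, 1⟩, ⟨99, 100, 165⟩, ⟨72, 87, 600⟩, ⟨188, 240, 100⟩⟩ (top15B.hNeg (top15B.pEnd true)) :=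
  posBox_of_check (c := ⟨204, ⟨2, 5, 9, 7⟩⟩) (by decide +kernel)

def top15B_neglo1 : PosBox ⟨⟨0, 1, 1⟩, ⟨99, 100, 165⟩, ⟨72, 87, 600⟩, ⟨188, 240, 100⟩⟩ (top15B.hNegLo (top15B.pEnd true)) :=
  posBox_of_check (c := ⟨204, ⟨2, 5, 9, 7⟩⟩) (by decide +kernel)

/-- The checks on the signs. -/
theorem top15B_sign : top15B.Sign ⟨⟨0, 1, 1⟩, ⟨99, 100, 165⟩, ⟨72, 87, 600⟩, ⟨188, 240, 100⟩⟩ where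
  pp := top15B_pp
  k2p := top15B_k2p
  k2m := top15B_k2m
  v2p := top15B_v2p
  v2m := top15B_v2m
  v3p := top15B_v3p
  v3m := top15B_v3m
  tg := Bool.forall_bool.2 ⟨top15B_tg0, top15B_tg1⟩
  c2p := Bool.forall_bool.2 ⟨top15B_c2p0, top15B_c2p1⟩
  c2m := Bool.forall_bool.2 ⟨top15B_c2m0, top15B_c2m1⟩
  kap := Bool.forall_bool.2 ⟨top15B_kap0, top15B_kap1⟩
  c1 := Bool.forall_bool.2 ⟨top15B_c10, top15B_c11⟩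
  c3p := Bool.forall_bool.2 ⟨top15B_c3p0, top15B_c3p1⟩
  c3m := Bool.forall_bool.2 ⟨top15B_c3m0, top15B_c3m1⟩
  tmg := Bool.forall_bool.2 ⟨top15B_tmg0, top15B_tmg1⟩
  high := .inl (Bool.forall_bool.2 ⟨⟨top15B_neg0, top15B_neglo0⟩, ⟨top15B_neg1, top15B_neglo1⟩⟩)
  vG := top15B_vG
  vMG := top15B_vMG
  ak := top15B_ak
  aw := top15B_aw
  gk := top15B_gk
  gw := top15B_gw
  ek := top15B_ek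
  ew := top15B_ew

end Vale.Agent.P100.Calib.Closed.High
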