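import Vale.Agent.P100.Calib.SlabHighData

/-!
# Checks of the signs of a piece of the tail
-/

set_option linter.defProp false

namespace Vale.Agent.P100.Calib.Closed.High

open BoxPos Large

def top18_vG : PosBox ⟨⟨0, 1, 1⟩, ⟨99, 100, 165⟩, ⟨87, 121, 600⟩, ⟨230, 260, 100⟩⟩ (hVG) :=
  posBox_of_check (c := ⟨145, ⟨0, 5, 8, 3⟩⟩) (by decide +kernel)

def top18_vMG : PosBox ⟨⟨0, 1, 1⟩, ⟨99, 100, 165⟩, ⟨87, 121, 600⟩, ⟨230, 260, 100⟩⟩ (hVMG) :=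
  posBox_of_check (c := ⟨149, ⟨0, 4, 8, 4⟩⟩) (by decide +kernel)

def top18_ak : PosBox ⟨⟨0, 1, 1⟩, ⟨99, 100, 165⟩, ⟨87, 121, 600⟩, ⟨230, 260, 100⟩⟩ (hAk) :=
  posBox_of_check (c := ⟨140, ⟨0, 4, 6, 4⟩⟩) (by decide +kernel)

def top18_aw : PosBox ⟨⟨0, 1, 1⟩, ⟨99, 100, 165⟩, ⟨87, 121, 600⟩, ⟨230, 260, 100⟩⟩ (hAw) :=
  posBox_of_check (c := ⟨143, ⟨0, 5, 7, 3⟩⟩) (by decide +kernel)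

def top18_gk : PosBox ⟨⟨0, 1, 1⟩, ⟨99, 100, 165⟩, ⟨87, 121, 600⟩, ⟨230, 260, 100⟩⟩ (hGk) :=
  posBox_of_check (c := ⟨140, ⟨0, 4, 6, 4⟩⟩) (by decide +kernel)

def top18_gw : PosBox ⟨⟨0, 1, 1⟩, ⟨99, 100, 165⟩, ⟨87, 121, 600⟩, ⟨230, 260, 100⟩⟩ (hGw) :=
  posBox_of_check (c := ⟨143, ⟨0, 5, 7, 3⟩⟩) (by decide +kernel)

def top18_ek : PosBox ⟨⟨0, 1, 1⟩, ⟨99, 100, 165⟩, ⟨87, 121, 600⟩, ⟨230, 260, 100⟩⟩ (hMk) :=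
  posBox_of_check (c := ⟨81, ⟨0, 2, 3, 3⟩⟩) (by decide +kernel)

def top18_ew : PosBox ⟨⟨0, 1, 1⟩, ⟨99, 100, 165⟩, ⟨87, 121, 600⟩, ⟨230, 260, 100⟩⟩ (hMw) :=
  posBox_of_check (c := ⟨84, ⟨0, 3, 4, 2⟩⟩) (by decide +kernel)

def top18_pp : PosBox ⟨⟨0, 1, 1⟩, ⟨99, 100, 165⟩, ⟨87, 121, 600⟩, ⟨230, 260, 100⟩⟩ (top18.xPL) :=
  posBox_of_check (c := ⟨79, ⟨1, 1, 3, 3⟩⟩) (by decide +kernel)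

def top18_k2p : PosBox ⟨⟨0, 1, 1⟩, ⟨99, 100, 165⟩, ⟨87, 121, 600⟩, ⟨230, 260, 100⟩⟩ (top18.k2p top18.xE) :=
  posBox_of_check (c := ⟨65, ⟨1, 1, 2, 2⟩⟩) (by decide +kernel)

def top18_k2m : PosBox ⟨⟨0, 1, 1⟩, ⟨99, 100, 165⟩, ⟨87, 121, 600⟩, ⟨230, 260, 100⟩⟩ (top18.k2m top18.xE) :=
  posBox_of_check (c := ⟨32, ⟨0, 0, 1, 1⟩⟩) (by decide +kernel)

def top18_v2p : PosBox ⟨⟨0, 1, 1⟩, ⟨99, 100, 165⟩, ⟨87, 121, 600⟩, ⟨230, 260, 100⟩⟩ (top18.hV2p) :=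
  posBox_of_check (c := ⟨208, ⟨1, 6, 10, 5⟩⟩) (by decide +kernel)

def top18_v2m : PosBox ⟨⟨0, 1, 1⟩, ⟨99, 100, 165⟩, ⟨87, 121, 600⟩, ⟨230, 260, 100⟩⟩ (top18.hV2m) :=
  posBox_of_check (c := ⟨187, ⟨0, 5, 10, 5⟩⟩) (by decide +kernel)

def top18_v3p : PosBox ⟨⟨0, 1, 1⟩, ⟨99, 100, 165⟩, ⟨87, 121, 600⟩, ⟨230, 260, 100⟩⟩ (top18.hV3p) :=
  posBox_of_check (c := ⟨186, ⟨1, 6, 9, 4⟩⟩) (by decide +kernel)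

def top18_v3m : PosBox ⟨⟨0, 1, 1⟩, ⟨99, 100, 165⟩, ⟨87, 121, 600⟩, ⟨230, 260, 100⟩⟩ (top18.hV3m) :=
  posBox_of_check (c := ⟨166, ⟨0, 5, 9, 4⟩⟩) (by decide +kernel)

def top18_kap0 : PosBox ⟨⟨0, 1, 1⟩, ⟨99, 100, 165⟩, ⟨87, 121, 600⟩, ⟨230, 260, 100⟩⟩ (top18.kap false) :=
  posBox_of_check (c := ⟨70, ⟨1, 1, 2, 2⟩⟩) (by decide +kernel)

def top18_tg0 : PosBox ⟨⟨0, 1, 1⟩, ⟨99, 100, 165⟩, ⟨87, 121, 600⟩, ⟨230, 260, 100⟩⟩ (top18.hG (top18.pEnd false)) :=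
  posBox_of_check (c := ⟨294, ⟨2, 7, 14, 9⟩⟩) (by decide +kernel)

def top18_c2p0 : PosBox ⟨⟨0, 1, 1⟩, ⟨99, 100, 165⟩, ⟨87, 121, 600⟩, ⟨230, 260, 100⟩⟩ (top18.hC2p (top18.pEnd false)) :=
  posBox_of_check (c := ⟨357, ⟨3, 8, 16, 11⟩⟩) (by decide +kernel)

def top18_c2m0 : PosBox ⟨⟨0, 1, 1⟩, ⟨99, 100, 165⟩, ⟨87, 121, 600⟩, ⟨230, 260, 100⟩⟩ (top18.hC2m (top18.pEnd false)) :=
  posBox_of_check (c := ⟨336, ⟨2, 7, 16, 11⟩⟩) (by decide +kernel)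

def top18_c10_0 : PosBox ⟨⟨0, 1, 2⟩, ⟨99, 100, 165⟩, ⟨87, 121, 600⟩, ⟨230, 260, 100⟩⟩ (top18.hC1 false) :=
  posBox_of_check (c := ⟨219, ⟨3, 5, 9, 7⟩⟩) (by decide +kernel)

def top18_c10_1_0 : PosBox ⟨⟨2, 3, 4⟩, ⟨99, 100, 165⟩, ⟨87, 121, 600⟩, ⟨230, 260, 100⟩⟩ (top18.hC1 false) :=
  posBox_of_check (c := ⟨223, ⟨3, 5, 9, 7⟩⟩) (by decide +kernel)

def top18_c10_1_1 : PosBox ⟨⟨3, 4, 4⟩, ⟨99, 100, 165⟩, ⟨87, 121, 600⟩, ⟨230, 260, 100⟩⟩ (top18.hC1 false) :=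
  posBox_of_check (c := ⟨224, ⟨3, 5, 9, 7⟩⟩) (by decide +kernel)

def top18_c10_1 : PosBox ⟨⟨1, 2, 2⟩, ⟨99, 100, 165⟩, ⟨87, 121, 600⟩, ⟨230, 260, 100⟩⟩ (top18.hC1 false) :=
  posBox_units (b := ⟨⟨2, 4, 4⟩, ⟨99, 100, 165⟩, ⟨87, 121, 600⟩, ⟨230, 260, 100⟩⟩) (by decide +kernel) (posBox_join₀ top18_c10_1_0 top18_c10_1_1)

def top18_c10 : PosBox ⟨⟨0, 1, 1⟩, ⟨99, 100, 165⟩, ⟨87, 121, 600⟩, ⟨230, 260, 100⟩⟩ (top18.hC1 false) :=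
  posBox_units (b := ⟨⟨0, 2, 2⟩, ⟨99, 100, 165⟩, ⟨87, 121, 600⟩, ⟨230, 260, 100⟩⟩) (by decide +kernel) (posBox_join₀ top18_c10_0 top18_c10_1)

def top18_c3p0 : PosBox ⟨⟨0, 1, 1⟩, ⟨99, 100, 165⟩, ⟨87, 121, 600⟩, ⟨230, 260, 100⟩⟩ (top18.hC3p false) :=
  posBox_of_check (c := ⟨339, ⟨3, 8, 15, 10⟩⟩) (by decide +kernel)

def top18_c3m0 : PosBox ⟨⟨0, 1, 1⟩, ⟨99, 100, 165⟩, ⟨87, 121, 600⟩, ⟨230, 260, 100⟩⟩ (top18.hC3m false) :=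
  posBox_of_check (c := ⟨321, ⟨3, 7, 15, 10⟩⟩) (by decide +kernel)

def top18_tmg0 : PosBox ⟨⟨0, 1, 1⟩, ⟨99, 100, 165⟩, ⟨87, 121, 600⟩, ⟨230, 260, 100⟩⟩ (top18.hTMG (top18.pEnd false)) :=
  posBox_of_check (c := ⟨305, ⟨2, 7, 14, 10⟩⟩) (by decide +kernel)

def top18_c1h0 : PosBox ⟨⟨0, 1, 1⟩, ⟨99, 100, 165⟩, ⟨87, 121, 600⟩, ⟨230, 260, 100⟩⟩ (top18.hC1' false) :=
  posBox_of_check (c := ⟨217, ⟨3, 5, 9, 7⟩⟩) (by decide +kernel)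

def top18_c3ph0 : PosBox ⟨⟨0, 1, 1⟩, ⟨99, 100, 165⟩, ⟨87, 121, 600⟩, ⟨230, 260, 100⟩⟩ (top18.hC3p' false) :=
  posBox_of_check (c := ⟨339, ⟨3, 8, 15, 10⟩⟩) (by decide +kernel)

def top18_c3mh0 : PosBox ⟨⟨0, 1, 1⟩, ⟨99, 100, 165⟩, ⟨87, 121, 600⟩, ⟨230, 260, 100⟩⟩ (top18.hC3m' false) :=
  posBox_of_check (c := ⟨321, ⟨3, 7, 15, 10⟩⟩) (by decide +kernel)

def top18_up0 : PosBox ⟨⟨0, 1, 1⟩, ⟨99, 100, 165⟩, ⟨87, 121, 600⟩, ⟨230, 260, 100⟩⟩ (top18.hUp false) :=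
  posBox_of_check (c := ⟨336, ⟨3, 8, 15, 10⟩⟩) (by decide +kernel)

def top18_um0 : PosBox ⟨⟨0, 1, 1⟩, ⟨99, 100, 165⟩, ⟨87, 121, 600⟩, ⟨230, 260, 100⟩⟩ (top18.hUm false) :=
  posBox_of_check (c := ⟨317, ⟨2, 7, 15, 10⟩⟩) (by decide +kernel)

def top18_kap1 : PosBox ⟨⟨0, 1, 1⟩, ⟨99, 100, 165⟩, ⟨87, 121, 600⟩, ⟨230, 260, 100⟩⟩ (top18.kap true) :=
  posBox_of_check (c := ⟨67, ⟨1, 1, 2, 2⟩⟩) (by decide +kernel)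

def top18_tg1 : PosBox ⟨⟨0, 1, 1⟩, ⟨99, 100, 165⟩, ⟨87, 121, 600⟩, ⟨230, 260, 100⟩⟩ (top18.hG (top18.pEnd true)) :=
  posBox_of_check (c := ⟨294, ⟨2, 7, 14, 9⟩⟩) (by decide +kernel)

def top18_c2p1 : PosBox ⟨⟨0, 1, 1⟩, ⟨99, 100, 165⟩, ⟨87, 121, 600⟩, ⟨230, 260, 100⟩⟩ (top18.hC2p (top18.pEnd true)) :=
  posBox_of_check (c := ⟨357, ⟨3, 8, 16, 11⟩⟩) (by decide +kernel)

def top18_c2m1 : PosBox ⟨⟨0, 1, 1⟩, ⟨99, 100, 165⟩, ⟨87, 121, 600⟩, ⟨230, 260, 100⟩⟩ (top18.hC2m (top18.pEnd true)) :=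
  posBox_of_check (c := ⟨337, ⟨2, 7, 16, 11⟩⟩) (by decide +kernel)

def top18_c11 : PosBox ⟨⟨0, 1, 1⟩, ⟨99, 100, 165⟩, ⟨87, 121, 600⟩, ⟨230, 260, 100⟩⟩ (top18.hC1 true) :=
  posBox_of_check (c := ⟨215, ⟨3, 5, 9, 7⟩⟩) (by decide +kernel)

def top18_c3p1 : PosBox ⟨⟨0, 1, 1⟩, ⟨99, 100, 165⟩, ⟨87, 121, 600⟩, ⟨230, 260, 100⟩⟩ (top18.hC3p true) :=
  posBox_of_check (c := ⟨337, ⟨3, 8, 15, 10⟩⟩) (by decide +kernel)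

def top18_c3m1 : PosBox ⟨⟨0, 1, 1⟩, ⟨99, 100, 165⟩, ⟨87, 121, 600⟩, ⟨230, 260, 100⟩⟩ (top18.hC3m true) :=
  posBox_of_check (c := ⟨319, ⟨3, 7, 15, 10⟩⟩) (by decide +kernel)

def top18_tmg1 : PosBox ⟨⟨0, 1, 1⟩, ⟨99, 100, 165⟩, ⟨87, 121, 600⟩, ⟨230, 260, 100⟩⟩ (top18.hTMG (top18.pEnd true)) :=
  posBox_of_check (c := ⟨305, ⟨2, 7, 14, 10⟩⟩) (by decide +kernel)

def top18_c1h1 : PosBox ⟨⟨0, 1, 1⟩, ⟨99, 100, 165⟩, ⟨87, 121, 600⟩, ⟨230, 260, 100⟩⟩ (top18.hC1' true) :=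
  posBox_of_check (c := ⟨215, ⟨3, 5, 9, 7⟩⟩) (by decide +kernel)

def top18_c3ph1 : PosBox ⟨⟨0, 1, 1⟩, ⟨99, 100, 165⟩, ⟨87, 121, 600⟩, ⟨230, 260, 100⟩⟩ (top18.hC3p' true) :=
  posBox_of_check (c := ⟨337, ⟨3, 8, 15, 10⟩⟩) (by decide +kernel)

def top18_c3mh1 : PosBox ⟨⟨0, 1, 1⟩, ⟨99, 100, 165⟩, ⟨87, 121, 600⟩, ⟨230, 260, 100⟩⟩ (top18.hC3m' true) :=
  posBox_of_check (c := ⟨319, ⟨3, 7, 15, 10⟩⟩) (by decide +kernel)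

def top18_up1 : PosBox ⟨⟨0, 1, 1⟩, ⟨99, 100, 165⟩, ⟨87, 121, 600⟩, ⟨230, 260, 100⟩⟩ (top18.hUp true) :=
  posBox_of_check (c := ⟨337, ⟨3, 8, 15, 10⟩⟩) (by decide +kernel)

def top18_um1 : PosBox ⟨⟨0, 1, 1⟩, ⟨99, 100, 165⟩, ⟨87, 121, 600⟩, ⟨230, 260, 100⟩⟩ (top18.hUm true) :=
  posBox_of_check (c := ⟨317, ⟨2, 7, 15, 10⟩⟩) (by decide +kernel)

/-- The checks on the signs. -/
theorem top18_sign : top18.Sign ⟨⟨0, 1, 1⟩, ⟨99, 100, 165⟩, ⟨87, 121, 600⟩, ⟨230, 260, 100⟩⟩ where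
  pp := top18_pp
  k2p := top18_k2p
  k2m := top18_k2m
  v2p := top18_v2p
  v2m := top18_v2m
  v3p := top18_v3p
  v3m := top18_v3m
  tg := Bool.forall_bool.2 ⟨top18_tg0, top18_tg1⟩
  c2p := Bool.forall_bool.2 ⟨top18_c2p0, top18_c2p1⟩
  c2m := Bool.forall_bool.2 ⟨top18_c2m0, top18_c2m1⟩
  kap := Bool.forall_bool.2 ⟨top18_kap0, top18_kap1⟩
  c1 := Bool.forall_bool.2 ⟨top18_c10, top18_c11⟩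
  c3p := Bool.forall_bool.2 ⟨top18_c3p0, top18_c3p1⟩
  c3m := Bool.forall_bool.2 ⟨top18_c3m0, top18_c3m1⟩
  tmg := Bool.forall_bool.2 ⟨top18_tmg0, top18_tmg1⟩
  high := .inr (Bool.forall_bool.2 ⟨⟨top18_c1h0, top18_c3ph0, top18_c3mh0, top18_up0, top18_um0⟩, ⟨top18_c1h1, top18_c3ph1, top18_c3mh1, top18_up1, top18_um1⟩⟩)
  vG := top18_vG
  vMG := top18_vMG
  ak := top18_ak
  aw := top18_aw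
  gk := top18_gk
  gw := top18_gw
  ek := top18_ek
  ew := top18_ew

end Vale.Agent.P100.Calib.Closed.High
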