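import Vale.Agent.P100.Calib.SlabHighData

/-!
# Checks of the signs of a piece of the tail
-/

set_option linter.defProp false

namespace Vale.Agent.P100.Calib.Closed.High

open BoxPos Large

def top19_vG : PosBox ⟨⟨0, 1, 1⟩, ⟨99, 100, 165⟩, ⟨72, 121, 600⟩, ⟨260, 358, 100⟩⟩ (hVG) :=
  posBox_of_check (c := ⟨146, ⟨0, 5, 8, 3⟩⟩) (by decide +kernel)

def top19_vMG : PosBox ⟨⟨0, 1, 1⟩, ⟨99, 100, 165⟩, ⟨72, 121, 600⟩, ⟨260, 358, 100⟩⟩ (hVMG) :=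
  posBox_of_check (c := ⟨149, ⟨0, 4, 8, 4⟩⟩) (by decide +kernel)

def top19_ak : PosBox ⟨⟨0, 1, 1⟩, ⟨99, 100, 165⟩, ⟨72, 121, 600⟩, ⟨260, 358, 100⟩⟩ (hAk) :=
  posBox_of_check (c := ⟨141, ⟨0, 4, 6, 4⟩⟩) (by decide +kernel)

def top19_aw : PosBox ⟨⟨0, 1, 1⟩, ⟨99, 100, 165⟩, ⟨72, 121, 600⟩, ⟨260, 358, 100⟩⟩ (hAw) :=
  posBox_of_check (c := ⟨143, ⟨0, 5, 7, 3⟩⟩) (by decide +kernel)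

def top19_gk : PosBox ⟨⟨0, 1, 1⟩, ⟨99, 100, 165⟩, ⟨72, 121, 600⟩, ⟨260, 358, 100⟩⟩ (hGk) :=
  posBox_of_check (c := ⟨141, ⟨0, 4, 6, 4⟩⟩) (by decide +kernel)

def top19_gw : PosBox ⟨⟨0, 1, 1⟩, ⟨99, 100, 165⟩, ⟨72, 121, 600⟩, ⟨260, 358, 100⟩⟩ (hGw) :=
  posBox_of_check (c := ⟨143, ⟨0, 5, 7, 3⟩⟩) (by decide +kernel)

def top19_ek : PosBox ⟨⟨0, 1, 1⟩, ⟨99, 100, 165⟩, ⟨72, 121, 600⟩, ⟨260, 358, 100⟩⟩ (hMk) :=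
  posBox_of_check (c := ⟨82, ⟨0, 2, 3, 3⟩⟩) (by decide +kernel)

def top19_ew : PosBox ⟨⟨0, 1, 1⟩, ⟨99, 100, 165⟩, ⟨72, 121, 600⟩, ⟨260, 358, 100⟩⟩ (hMw) :=
  posBox_of_check (c := ⟨84, ⟨0, 3, 4, 2⟩⟩) (by decide +kernel)

def top19_pp : PosBox ⟨⟨0, 1, 1⟩, ⟨99, 100, 165⟩, ⟨72, 121, 600⟩, ⟨260, 358, 100⟩⟩ (top19.xPL) :=
  posBox_of_check (c := ⟨75, ⟨1, 1, 2, 3⟩⟩) (by decide +kernel)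

def top19_k2p : PosBox ⟨⟨0, 1, 1⟩, ⟨99, 100, 165⟩, ⟨72, 121, 600⟩, ⟨260, 358, 100⟩⟩ (top19.k2p top19.xE) :=
  posBox_of_check (c := ⟨65, ⟨1, 1, 1, 2⟩⟩) (by decide +kernel)

def top19_k2m : PosBox ⟨⟨0, 1, 1⟩, ⟨99, 100, 165⟩, ⟨72, 121, 600⟩, ⟨260, 358, 100⟩⟩ (top19.k2m top19.xE) :=
  posBox_of_check (c := ⟨32, ⟨0, 0, 1, 1⟩⟩) (by decide +kernel)

def top19_v2p : PosBox ⟨⟨0, 1, 1⟩, ⟨99, 100, 165⟩, ⟨72, 121, 600⟩, ⟨260, 358, 100⟩⟩ (top19.hV2p) :=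
  posBox_of_check (c := ⟨210, ⟨1, 6, 10, 5⟩⟩) (by decide +kernel)

def top19_v2m : PosBox ⟨⟨0, 1, 1⟩, ⟨99, 100, 165⟩, ⟨72, 121, 600⟩, ⟨260, 358, 100⟩⟩ (top19.hV2m) :=
  posBox_of_check (c := ⟨188, ⟨0, 5, 10, 5⟩⟩) (by decide +kernel)

def top19_v3p : PosBox ⟨⟨0, 1, 1⟩, ⟨99, 100, 165⟩, ⟨72, 121, 600⟩, ⟨260, 358, 100⟩⟩ (top19.hV3p) :=
  posBox_of_check (c := ⟨188, ⟨1, 6, 9, 4⟩⟩) (by decide +kernel)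

def top19_v3m : PosBox ⟨⟨0, 1, 1⟩, ⟨99, 100, 165⟩, ⟨72, 121, 600⟩, ⟨260, 358, 100⟩⟩ (top19.hV3m) :=
  posBox_of_check (c := ⟨166, ⟨0, 5, 9, 4⟩⟩) (by decide +kernel)

def top19_kap0 : PosBox ⟨⟨0, 1, 1⟩, ⟨99, 100, 165⟩, ⟨72, 121, 600⟩, ⟨260, 358, 100⟩⟩ (top19.kap false) :=
  posBox_of_check (c := ⟨67, ⟨1, 1, 1, 2⟩⟩) (by decide +kernel)

def top19_tg0 : PosBox ⟨⟨0, 1, 1⟩, ⟨99, 100, 165⟩, ⟨72, 121, 600⟩, ⟨260, 358, 100⟩⟩ (top19.hG (top19.pEnd false)) :=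
  posBox_of_check (c := ⟨286, ⟨2, 7, 12, 9⟩⟩) (by decide +kernel)

def top19_c2p0 : PosBox ⟨⟨0, 1, 1⟩, ⟨99, 100, 165⟩, ⟨72, 121, 600⟩, ⟨260, 358, 100⟩⟩ (top19.hC2p (top19.pEnd false)) :=
  posBox_of_check (c := ⟨351, ⟨3, 8, 14, 11⟩⟩) (by decide +kernel)

def top19_c2m0 : PosBox ⟨⟨0, 1, 1⟩, ⟨99, 100, 165⟩, ⟨72, 121, 600⟩, ⟨260, 358, 100⟩⟩ (top19.hC2m (top19.pEnd false)) :=
  posBox_of_check (c := ⟨329, ⟨2, 7, 14, 11⟩⟩) (by decide +kernel)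

def top19_c10_0 : PosBox ⟨⟨0, 1, 2⟩, ⟨99, 100, 165⟩, ⟨72, 121, 600⟩, ⟨260, 358, 100⟩⟩ (top19.hC1 false) :=
  posBox_of_check (c := ⟨214, ⟨3, 5, 8, 7⟩⟩) (by decide +kernel)

def top19_c10_1_0 : PosBox ⟨⟨2, 3, 4⟩, ⟨99, 100, 165⟩, ⟨72, 121, 600⟩, ⟨260, 358, 100⟩⟩ (top19.hC1 false) :=
  posBox_of_check (c := ⟨218, ⟨3, 5, 8, 7⟩⟩) (by decide +kernel)

def top19_c10_1_1 : PosBox ⟨⟨3, 4, 4⟩, ⟨99, 100, 165⟩, ⟨72, 121, 600⟩, ⟨260, 358, 100⟩⟩ (top19.hC1 false) :=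
  posBox_of_check (c := ⟨218, ⟨3, 5, 8, 7⟩⟩) (by decide +kernel)

def top19_c10_1 : PosBox ⟨⟨1, 2, 2⟩, ⟨99, 100, 165⟩, ⟨72, 121, 600⟩, ⟨260, 358, 100⟩⟩ (top19.hC1 false) :=
  posBox_units (b := ⟨⟨2, 4, 4⟩, ⟨99, 100, 165⟩, ⟨72, 121, 600⟩, ⟨260, 358, 100⟩⟩) (by decide +kernel) (posBox_join₀ top19_c10_1_0 top19_c10_1_1)

def top19_c10 : PosBox ⟨⟨0, 1, 1⟩, ⟨99, 100, 165⟩, ⟨72, 121, 600⟩, ⟨260, 358, 100⟩⟩ (top19.hC1 false) :=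
  posBox_units (b := ⟨⟨0, 2, 2⟩, ⟨99, 100, 165⟩, ⟨72, 121, 600⟩, ⟨260, 358, 100⟩⟩) (by decide +kernel) (posBox_join₀ top19_c10_0 top19_c10_1)

def top19_c3p0 : PosBox ⟨⟨0, 1, 1⟩, ⟨99, 100, 165⟩, ⟨72, 121, 600⟩, ⟨260, 358, 100⟩⟩ (top19.hC3p false) :=
  posBox_of_check (c := ⟨332, ⟨3, 8, 13, 10⟩⟩) (by decide +kernel)

def top19_c3m0 : PosBox ⟨⟨0, 1, 1⟩, ⟨99, 100, 165⟩, ⟨72, 121, 600⟩, ⟨260, 358, 100⟩⟩ (top19.hC3m false) :=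
  posBox_of_check (c := ⟨314, ⟨3, 7, 13, 10⟩⟩) (by decide +kernel)

def top19_tmg0 : PosBox ⟨⟨0, 1, 1⟩, ⟨99, 100, 165⟩, ⟨72, 121, 600⟩, ⟨260, 358, 100⟩⟩ (top19.hTMG (top19.pEnd false)) :=
  posBox_of_check (c := ⟨298, ⟨2, 7, 12, 10⟩⟩) (by decide +kernel)

def top19_c1h0 : PosBox ⟨⟨0, 1, 1⟩, ⟨99, 100, 165⟩, ⟨72, 121, 600⟩, ⟨260, 358, 100⟩⟩ (top19.hC1' false) :=
  posBox_of_check (c := ⟨213, ⟨3, 5, 8, 7⟩⟩) (by decide +kernel)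

def top19_c3ph0 : PosBox ⟨⟨0, 1, 1⟩, ⟨99, 100, 165⟩, ⟨72, 121, 600⟩, ⟨260, 358, 100⟩⟩ (top19.hC3p' false) :=
  posBox_of_check (c := ⟨332, ⟨3, 8, 13, 10⟩⟩) (by decide +kernel)

def top19_c3mh0 : PosBox ⟨⟨0, 1, 1⟩, ⟨99, 100, 165⟩, ⟨72, 121, 600⟩, ⟨260, 358, 100⟩⟩ (top19.hC3m' false) :=
  posBox_of_check (c := ⟨314, ⟨3, 7, 13, 10⟩⟩) (by decide +kernel)

def top19_up0 : PosBox ⟨⟨0, 1, 1⟩, ⟨99, 100, 165⟩, ⟨72, 121, 600⟩, ⟨260, 358, 100⟩⟩ (top19.hUp false) :=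
  posBox_of_check (c := ⟨330, ⟨3, 8, 13, 10⟩⟩) (by decide +kernel)

def top19_um0 : PosBox ⟨⟨0, 1, 1⟩, ⟨99, 100, 165⟩, ⟨72, 121, 600⟩, ⟨260, 358, 100⟩⟩ (top19.hUm false) :=
  posBox_of_check (c := ⟨310, ⟨2, 7, 13, 10⟩⟩) (by decide +kernel)

def top19_kap1 : PosBox ⟨⟨0, 1, 1⟩, ⟨99, 100, 165⟩, ⟨72, 121, 600⟩, ⟨260, 358, 100⟩⟩ (top19.kap true) :=
  posBox_of_check (c := ⟨66, ⟨1, 1, 1, 2⟩⟩) (by decide +kernel)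

def top19_tg1 : PosBox ⟨⟨0, 1, 1⟩, ⟨99, 100, 165⟩, ⟨72, 121, 600⟩, ⟨260, 358, 100⟩⟩ (top19.hG (top19.pEnd true)) :=
  posBox_of_check (c := ⟨287, ⟨2, 7, 12, 9⟩⟩) (by decide +kernel)

def top19_c2p1 : PosBox ⟨⟨0, 1, 1⟩, ⟨99, 100, 165⟩, ⟨72, 121, 600⟩, ⟨260, 358, 100⟩⟩ (top19.hC2p (top19.pEnd true)) :=
  posBox_of_check (c := ⟨352, ⟨3, 8, 14, 11⟩⟩) (by decide +kernel)

def top19_c2m1 : PosBox ⟨⟨0, 1, 1⟩, ⟨99, 100, 165⟩, ⟨72, 121, 600⟩, ⟨260, 358, 100⟩⟩ (top19.hC2m (top19.pEnd true)) :=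
  posBox_of_check (c := ⟨330, ⟨2, 7, 14, 11⟩⟩) (by decide +kernel)

def top19_c11 : PosBox ⟨⟨0, 1, 1⟩, ⟨99, 100, 165⟩, ⟨72, 121, 600⟩, ⟨260, 358, 100⟩⟩ (top19.hC1 true) :=
  posBox_of_check (c := ⟨213, ⟨3, 5, 8, 7⟩⟩) (by decide +kernel)

def top19_c3p1 : PosBox ⟨⟨0, 1, 1⟩, ⟨99, 100, 165⟩, ⟨72, 121, 600⟩, ⟨260, 358, 100⟩⟩ (top19.hC3p true) :=
  posBox_of_check (c := ⟨332, ⟨3, 8, 13, 10⟩⟩) (by decide +kernel)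

def top19_c3m1 : PosBox ⟨⟨0, 1, 1⟩, ⟨99, 100, 165⟩, ⟨72, 121, 600⟩, ⟨260, 358, 100⟩⟩ (top19.hC3m true) :=
  posBox_of_check (c := ⟨314, ⟨3, 7, 13, 10⟩⟩) (by decide +kernel)

def top19_tmg1 : PosBox ⟨⟨0, 1, 1⟩, ⟨99, 100, 165⟩, ⟨72, 121, 600⟩, ⟨260, 358, 100⟩⟩ (top19.hTMG (top19.pEnd true)) :=
  posBox_of_check (c := ⟨298, ⟨2, 7, 12, 10⟩⟩) (by decide +kernel)

def top19_c1h1 : PosBox ⟨⟨0, 1, 1⟩, ⟨99, 100, 165⟩, ⟨72, 121, 600⟩, ⟨260, 358, 100⟩⟩ (top19.hC1' true) :=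
  posBox_of_check (c := ⟨213, ⟨3, 5, 8, 7⟩⟩) (by decide +kernel)

def top19_c3ph1 : PosBox ⟨⟨0, 1, 1⟩, ⟨99, 100, 165⟩, ⟨72, 121, 600⟩, ⟨260, 358, 100⟩⟩ (top19.hC3p' true) :=
  posBox_of_check (c := ⟨332, ⟨3, 8, 13, 10⟩⟩) (by decide +kernel)

def top19_c3mh1 : PosBox ⟨⟨0, 1, 1⟩, ⟨99, 100, 165⟩, ⟨72, 121, 600⟩, ⟨260, 358, 100⟩⟩ (top19.hC3m' true) :=
  posBox_of_check (c := ⟨313, ⟨3, 7, 13, 10⟩⟩) (by decide +kernel)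

def top19_up1 : PosBox ⟨⟨0, 1, 1⟩, ⟨99, 100, 165⟩, ⟨72, 121, 600⟩, ⟨260, 358, 100⟩⟩ (top19.hUp true) :=
  posBox_of_check (c := ⟨331, ⟨3, 8, 13, 10⟩⟩) (by decide +kernel)

def top19_um1 : PosBox ⟨⟨0, 1, 1⟩, ⟨99, 100, 165⟩, ⟨72, 121, 600⟩, ⟨260, 358, 100⟩⟩ (top19.hUm true) :=
  posBox_of_check (c := ⟨310, ⟨2, 7, 13, 10⟩⟩) (by decide +kernel)

/-- The checks on the signs. -/
theorem top19_sign : top19.Sign ⟨⟨0, 1, 1⟩, ⟨99, 100, 165⟩, ⟨72, 121, 600⟩, ⟨260, 358, 100⟩⟩ where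
  pp := top19_pp
  k2p := top19_k2p
  k2m := top19_k2m
  v2p := top19_v2p
  v2m := top19_v2m
  v3p := top19_v3p
  v3m := top19_v3m
  tg := Bool.forall_bool.2 ⟨top19_tg0, top19_tg1⟩
  c2p := Bool.forall_bool.2 ⟨top19_c2p0, top19_c2p1⟩
  c2m := Bool.forall_bool.2 ⟨top19_c2m0, top19_c2m1⟩
  kap := Bool.forall_bool.2 ⟨top19_kap0, top19_kap1⟩
  c1 := Bool.forall_bool.2 ⟨top19_c10, top19_c11⟩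
  c3p := Bool.forall_bool.2 ⟨top19_c3p0, top19_c3p1⟩
  c3m := Bool.forall_bool.2 ⟨top19_c3m0, top19_c3m1⟩
  tmg := Bool.forall_bool.2 ⟨top19_tmg0, top19_tmg1⟩
  high := .inr (Bool.forall_bool.2 ⟨⟨top19_c1h0, top19_c3ph0, top19_c3mh0, top19_up0, top19_um0⟩, ⟨top19_c1h1, top19_c3ph1, top19_c3mh1, top19_up1, top19_um1⟩⟩)
  vG := top19_vG
  vMG := top19_vMG
  ak := top19_ak
  aw := top19_aw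
  gk := top19_gk
  gw := top19_gw
  ek := top19_ek
  ew := top19_ew

end Vale.Agent.P100.Calib.Closed.High
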