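import Vale.Agent.P100.Calib.SlabHighData

/-!
# Checks of the signs of a piece of the tail
-/

set_option linter.defProp false

namespace Vale.Agent.P100.Calib.Closed.High

open BoxPos Large

def top8_vG : PosBox ⟨⟨0, 1, 1⟩, ⟨99, 100, 165⟩, ⟨72, 121, 600⟩, ⟨41, 83, 100⟩⟩ (hVG) :=
  posBox_of_check (c := ⟨144, ⟨0, 5, 8, 3⟩⟩) (by decide +kernel)

def top8_vMG : PosBox ⟨⟨0, 1, 1⟩, ⟨99, 100, 165⟩, ⟨72, 121, 600⟩, ⟨41, 83, 100⟩⟩ (hVMG) :=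
  posBox_of_check (c := ⟨148, ⟨0, 4, 8, 4⟩⟩) (by decide +kernel)

def top8_ak : PosBox ⟨⟨0, 1, 1⟩, ⟨99, 100, 165⟩, ⟨72, 121, 600⟩, ⟨41, 83, 100⟩⟩ (hAk) :=
  posBox_of_check (c := ⟨136, ⟨0, 4, 6, 4⟩⟩) (by decide +kernel)

def top8_aw : PosBox ⟨⟨0, 1, 1⟩, ⟨99, 100, 165⟩, ⟨72, 121, 600⟩, ⟨41, 83, 100⟩⟩ (hAw) :=
  posBox_of_check (c := ⟨140, ⟨0, 5, 7, 3⟩⟩) (by decide +kernel)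

def top8_gk : PosBox ⟨⟨0, 1, 1⟩, ⟨99, 100, 165⟩, ⟨72, 121, 600⟩, ⟨41, 83, 100⟩⟩ (hGk) :=
  posBox_of_check (c := ⟨136, ⟨0, 4, 6, 4⟩⟩) (by decide +kernel)

def top8_gw : PosBox ⟨⟨0, 1, 1⟩, ⟨99, 100, 165⟩, ⟨72, 121, 600⟩, ⟨41, 83, 100⟩⟩ (hGw) :=
  posBox_of_check (c := ⟨140, ⟨0, 5, 7, 3⟩⟩) (by decide +kernel)

def top8_ek : PosBox ⟨⟨0, 1, 1⟩, ⟨99, 100, 165⟩, ⟨72, 121, 600⟩, ⟨41, 83, 100⟩⟩ (hMk) :=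
  posBox_of_check (c := ⟨77, ⟨0, 2, 3, 3⟩⟩) (by decide +kernel)

def top8_ew : PosBox ⟨⟨0, 1, 1⟩, ⟨99, 100, 165⟩, ⟨72, 121, 600⟩, ⟨41, 83, 100⟩⟩ (hMw) :=
  posBox_of_check (c := ⟨81, ⟨0, 3, 4, 2⟩⟩) (by decide +kernel)

def top8_pp : PosBox ⟨⟨0, 1, 1⟩, ⟨99, 100, 165⟩, ⟨72, 121, 600⟩, ⟨41, 83, 100⟩⟩ (top8.xPL) :=
  posBox_of_check (c := ⟨71, ⟨1, 1, 2, 2⟩⟩) (by decide +kernel)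

def top8_k2p : PosBox ⟨⟨0, 1, 1⟩, ⟨99, 100, 165⟩, ⟨72, 121, 600⟩, ⟨41, 83, 100⟩⟩ (top8.k2p top8.xE) :=
  posBox_of_check (c := ⟨61, ⟨1, 1, 1, 2⟩⟩) (by decide +kernel)

def top8_k2m : PosBox ⟨⟨0, 1, 1⟩, ⟨99, 100, 165⟩, ⟨72, 121, 600⟩, ⟨41, 83, 100⟩⟩ (top8.k2m top8.xE) :=
  posBox_of_check (c := ⟨60, ⟨1, 1, 1, 2⟩⟩) (by decide +kernel)

def top8_v2p : PosBox ⟨⟨0, 1, 1⟩, ⟨99, 100, 165⟩, ⟨72, 121, 600⟩, ⟨41, 83, 100⟩⟩ (top8.hV2p) :=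
  posBox_of_check (c := ⟨206, ⟨1, 6, 10, 5⟩⟩) (by decide +kernel)

def top8_v2m : PosBox ⟨⟨0, 1, 1⟩, ⟨99, 100, 165⟩, ⟨72, 121, 600⟩, ⟨41, 83, 100⟩⟩ (top8.hV2m) :=
  posBox_of_check (c := ⟨204, ⟨1, 6, 10, 5⟩⟩) (by decide +kernel)

def top8_v3p : PosBox ⟨⟨0, 1, 1⟩, ⟨99, 100, 165⟩, ⟨72, 121, 600⟩, ⟨41, 83, 100⟩⟩ (top8.hV3p) :=
  posBox_of_check (c := ⟨185, ⟨1, 6, 9, 4⟩⟩) (by decide +kernel)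

def top8_v3m : PosBox ⟨⟨0, 1, 1⟩, ⟨99, 100, 165⟩, ⟨72, 121, 600⟩, ⟨41, 83, 100⟩⟩ (top8.hV3m) :=
  posBox_of_check (c := ⟨184, ⟨1, 6, 9, 4⟩⟩) (by decide +kernel)

def top8_kap0 : PosBox ⟨⟨0, 1, 1⟩, ⟨99, 100, 165⟩, ⟨72, 121, 600⟩, ⟨41, 83, 100⟩⟩ (top8.kap false) :=
  posBox_of_check (c := ⟨63, ⟨1, 1, 1, 2⟩⟩) (by decide +kernel)

def top8_tg0 : PosBox ⟨⟨0, 1, 1⟩, ⟨99, 100, 165⟩, ⟨72, 121, 600⟩, ⟨41, 83, 100⟩⟩ (top8.hG (top8.pEnd false)) :=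
  posBox_of_check (c := ⟨278, ⟨2, 7, 12, 7⟩⟩) (by decide +kernel)

def top8_c2p0 : PosBox ⟨⟨0, 1, 1⟩, ⟨99, 100, 165⟩, ⟨72, 121, 600⟩, ⟨41, 83, 100⟩⟩ (top8.hC2p (top8.pEnd false)) :=
  posBox_of_check (c := ⟨340, ⟨3, 8, 14, 9⟩⟩) (by decide +kernel)

def top8_c2m0 : PosBox ⟨⟨0, 1, 1⟩, ⟨99, 100, 165⟩, ⟨72, 121, 600⟩, ⟨41, 83, 100⟩⟩ (top8.hC2m (top8.pEnd false)) :=
  posBox_of_check (c := ⟨338, ⟨3, 8, 14, 9⟩⟩) (by decide +kernel)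

def top8_c10_0 : PosBox ⟨⟨0, 1, 1⟩, ⟨99, 100, 165⟩, ⟨72, 121, 600⟩, ⟨41, 62, 100⟩⟩ (top8.hC1 false) :=
  posBox_of_check (c := ⟨207, ⟨3, 5, 8, 6⟩⟩) (by decide +kernel)

def top8_c10_1 : PosBox ⟨⟨0, 1, 1⟩, ⟨99, 100, 165⟩, ⟨72, 121, 600⟩, ⟨62, 83, 100⟩⟩ (top8.hC1 false) :=
  posBox_of_check (c := ⟨207, ⟨3, 5, 8, 6⟩⟩) (by decide +kernel)

theorem top8_c10 : PosBox ⟨⟨0, 1, 1⟩, ⟨99, 100, 165⟩, ⟨72, 121, 600⟩, ⟨41, 83, 100⟩⟩ (top8.hC1 false) :=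
  posBox_join₃ top8_c10_0 top8_c10_1

def top8_c3p0 : PosBox ⟨⟨0, 1, 1⟩, ⟨99, 100, 165⟩, ⟨72, 121, 600⟩, ⟨41, 83, 100⟩⟩ (top8.hC3p false) :=
  posBox_of_check (c := ⟨324, ⟨3, 8, 13, 8⟩⟩) (by decide +kernel)

def top8_c3m0 : PosBox ⟨⟨0, 1, 1⟩, ⟨99, 100, 165⟩, ⟨72, 121, 600⟩, ⟨41, 83, 100⟩⟩ (top8.hC3m false) :=
  posBox_of_check (c := ⟨324, ⟨3, 8, 13, 8⟩⟩) (by decide +kernel)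

def top8_tmg0 : PosBox ⟨⟨0, 1, 1⟩, ⟨99, 100, 165⟩, ⟨72, 121, 600⟩, ⟨41, 83, 100⟩⟩ (top8.hTMG (top8.pEnd false)) :=
  posBox_of_check (c := ⟨294, ⟨2, 7, 12, 8⟩⟩) (by decide +kernel)

def top8_neg0 : PosBox ⟨⟨0, 1, 1⟩, ⟨99, 100, 165⟩, ⟨72, 121, 600⟩, ⟨41, 83, 100⟩⟩ (top8.hNeg (top8.pEnd false)) :=
  posBox_of_check (c := ⟨194, ⟨2, 5, 8, 6⟩⟩) (by decide +kernel)

def top8_neglo0 : PosBox ⟨⟨0, 1, 1⟩, ⟨99, 100, 165⟩, ⟨72, 121, 600⟩, ⟨41, 83, 100⟩⟩ (top8.hNegLo (top8.pEnd false)) :=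
  posBox_of_check (c := ⟨194, ⟨2, 5, 8, 6⟩⟩) (by decide +kernel)

def top8_kap1 : PosBox ⟨⟨0, 1, 1⟩, ⟨99, 100, 165⟩, ⟨72, 121, 600⟩, ⟨41, 83, 100⟩⟩ (top8.kap true) :=
  posBox_of_check (c := ⟨63, ⟨1, 1, 1, 2⟩⟩) (by decide +kernel)

def top8_tg1 : PosBox ⟨⟨0, 1, 1⟩, ⟨99, 100, 165⟩, ⟨72, 121, 600⟩, ⟨41, 83, 100⟩⟩ (top8.hG (top8.pEnd true)) :=
  posBox_of_check (c := ⟨282, ⟨2, 7, 12, 9⟩⟩) (by decide +kernel)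

def top8_c2p1 : PosBox ⟨⟨0, 1, 1⟩, ⟨99, 100, 165⟩, ⟨72, 121, 600⟩, ⟨41, 83, 100⟩⟩ (top8.hC2p (top8.pEnd true)) :=
  posBox_of_check (c := ⟨343, ⟨3, 8, 14, 11⟩⟩) (by decide +kernel)

def top8_c2m1 : PosBox ⟨⟨0, 1, 1⟩, ⟨99, 100, 165⟩, ⟨72, 121, 600⟩, ⟨41, 83, 100⟩⟩ (top8.hC2m (top8.pEnd true)) :=
  posBox_of_check (c := ⟨342, ⟨3, 8, 14, 11⟩⟩) (by decide +kernel)

def top8_c11_0 : PosBox ⟨⟨0, 1, 2⟩, ⟨99, 100, 165⟩, ⟨72, 121, 600⟩, ⟨41, 83, 100⟩⟩ (top8.hC1 true) :=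
  posBox_of_check (c := ⟨210, ⟨3, 5, 8, 7⟩⟩) (by decide +kernel)

def top8_c11_1 : PosBox ⟨⟨1, 2, 2⟩, ⟨99, 100, 165⟩, ⟨72, 121, 600⟩, ⟨41, 83, 100⟩⟩ (top8.hC1 true) :=
  posBox_of_check (c := ⟨211, ⟨3, 5, 8, 7⟩⟩) (by decide +kernel)

def top8_c11 : PosBox ⟨⟨0, 1, 1⟩, ⟨99, 100, 165⟩, ⟨72, 121, 600⟩, ⟨41, 83, 100⟩⟩ (top8.hC1 true) :=
  posBox_units (b := ⟨⟨0, 2, 2⟩, ⟨99, 100, 165⟩, ⟨72, 121, 600⟩, ⟨41, 83, 100⟩⟩) (by decide +kernel) (posBox_join₀ top8_c11_0 top8_c11_1)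

def top8_c3p1 : PosBox ⟨⟨0, 1, 1⟩, ⟨99, 100, 165⟩, ⟨72, 121, 600⟩, ⟨41, 83, 100⟩⟩ (top8.hC3p true) :=
  posBox_of_check (c := ⟨327, ⟨3, 8, 13, 10⟩⟩) (by decide +kernel)

def top8_c3m1 : PosBox ⟨⟨0, 1, 1⟩, ⟨99, 100, 165⟩, ⟨72, 121, 600⟩, ⟨41, 83, 100⟩⟩ (top8.hC3m true) :=
  posBox_of_check (c := ⟨327, ⟨3, 8, 13, 10⟩⟩) (by decide +kernel)

def top8_tmg1 : PosBox ⟨⟨0, 1, 1⟩, ⟨99, 100, 165⟩, ⟨72, 121, 600⟩, ⟨41, 83, 100⟩⟩ (top8.hTMG (top8.pEnd true)) :=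
  posBox_of_check (c := ⟨297, ⟨2, 7, 12, 10⟩⟩) (by decide +kernel)

def top8_neg1 : PosBox ⟨⟨0, 1, 1⟩, ⟨99, 100, 165⟩, ⟨72, 121, 600⟩, ⟨41, 83, 100⟩⟩ (top8.hNeg (top8.pEnd true)) :=
  posBox_of_check (c := ⟨196, ⟨2, 5, 8, 7⟩⟩) (by decide +kernel)

def top8_neglo1 : PosBox ⟨⟨0, 1, 1⟩, ⟨99, 100, 165⟩, ⟨72, 121, 600⟩, ⟨41, 83, 100⟩⟩ (top8.hNegLo (top8.pEnd true)) :=
  posBox_of_check (c := ⟨196, ⟨2, 5, 8, 7⟩⟩) (by decide +kernel)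

/-- The checks on the signs. -/
theorem top8_sign : top8.Sign ⟨⟨0, 1, 1⟩, ⟨99, 100, 165⟩, ⟨72, 121, 600⟩, ⟨41, 83, 100⟩⟩ where
  pp := top8_pp
  k2p := top8_k2p
  k2m := top8_k2m
  v2p := top8_v2p
  v2m := top8_v2m
  v3p := top8_v3p
  v3m := top8_v3m
  tg := Bool.forall_bool.2 ⟨top8_tg0, top8_tg1⟩
  c2p := Bool.forall_bool.2 ⟨top8_c2p0, top8_c2p1⟩
  c2m := Bool.forall_bool.2 ⟨top8_c2m0, top8_c2m1⟩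
  kap := Bool.forall_bool.2 ⟨top8_kap0, top8_kap1⟩
  c1 := Bool.forall_bool.2 ⟨top8_c10, top8_c11⟩
  c3p := Bool.forall_bool.2 ⟨top8_c3p0, top8_c3p1⟩
  c3m := Bool.forall_bool.2 ⟨top8_c3m0, top8_c3m1⟩
  tmg := Bool.forall_bool.2 ⟨top8_tmg0, top8_tmg1⟩
  high := .inl (Bool.forall_bool.2 ⟨⟨top8_neg0, top8_neglo0⟩, ⟨top8_neg1, top8_neglo1⟩⟩)
  vG := top8_vG
  vMG := top8_vMG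
  ak := top8_ak
  aw := top8_aw
  gk := top8_gk
  gw := top8_gw
  ek := top8_ek
  ew := top8_ew

end Vale.Agent.P100.Calib.Closed.High
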