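import Vale.Agent.P100.Calib.SlabHighData

/-!
# Checks of the signs of a piece of the tail
-/

set_option linter.defProp false

namespace Vale.Agent.P100.Calib.Closed.High

open BoxPos Large

def top9_vG : PosBox ⟨⟨0, 1, 1⟩, ⟨99, 100, 165⟩, ⟨72, 121, 600⟩, ⟨83, 115, 100⟩⟩ (hVG) :=
  posBox_of_check (c := ⟨145, ⟨0, 5, 8, 3⟩⟩) (by decide +kernel)

def top9_vMG : PosBox ⟨⟨0, 1, 1⟩, ⟨99, 100, 165⟩, ⟨72, 121, 600⟩, ⟨83, 115, 100⟩⟩ (hVMG) :=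
  posBox_of_check (c := ⟨148, ⟨0, 4, 8, 4⟩⟩) (by decide +kernel)

def top9_ak : PosBox ⟨⟨0, 1, 1⟩, ⟨99, 100, 165⟩, ⟨72, 121, 600⟩, ⟨83, 115, 100⟩⟩ (hAk) :=
  posBox_of_check (c := ⟨137, ⟨0, 4, 6, 4⟩⟩) (by decide +kernel)

def top9_aw : PosBox ⟨⟨0, 1, 1⟩, ⟨99, 100, 165⟩, ⟨72, 121, 600⟩, ⟨83, 115, 100⟩⟩ (hAw) :=
  posBox_of_check (c := ⟨141, ⟨0, 5, 7, 3⟩⟩) (by decide +kernel)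

def top9_gk : PosBox ⟨⟨0, 1, 1⟩, ⟨99, 100, 165⟩, ⟨72, 121, 600⟩, ⟨83, 115, 100⟩⟩ (hGk) :=
  posBox_of_check (c := ⟨137, ⟨0, 4, 6, 4⟩⟩) (by decide +kernel)

def top9_gw : PosBox ⟨⟨0, 1, 1⟩, ⟨99, 100, 165⟩, ⟨72, 121, 600⟩, ⟨83, 115, 100⟩⟩ (hGw) :=
  posBox_of_check (c := ⟨141, ⟨0, 5, 7, 3⟩⟩) (by decide +kernel)

def top9_ek : PosBox ⟨⟨0, 1, 1⟩, ⟨99, 100, 165⟩, ⟨72, 121, 600⟩, ⟨83, 115, 100⟩⟩ (hMk) :=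
  posBox_of_check (c := ⟨78, ⟨0, 2, 3, 3⟩⟩) (by decide +kernel)

def top9_ew : PosBox ⟨⟨0, 1, 1⟩, ⟨99, 100, 165⟩, ⟨72, 121, 600⟩, ⟨83, 115, 100⟩⟩ (hMw) :=
  posBox_of_check (c := ⟨82, ⟨0, 3, 4, 2⟩⟩) (by decide +kernel)

def top9_pp : PosBox ⟨⟨0, 1, 1⟩, ⟨99, 100, 165⟩, ⟨72, 121, 600⟩, ⟨83, 115, 100⟩⟩ (top9.xPL) :=
  posBox_of_check (c := ⟨72, ⟨1, 1, 2, 3⟩⟩) (by decide +kernel)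

def top9_k2p : PosBox ⟨⟨0, 1, 1⟩, ⟨99, 100, 165⟩, ⟨72, 121, 600⟩, ⟨83, 115, 100⟩⟩ (top9.k2p top9.xE) :=
  posBox_of_check (c := ⟨62, ⟨1, 1, 1, 2⟩⟩) (by decide +kernel)

def top9_k2m : PosBox ⟨⟨0, 1, 1⟩, ⟨99, 100, 165⟩, ⟨72, 121, 600⟩, ⟨83, 115, 100⟩⟩ (top9.k2m top9.xE) :=
  posBox_of_check (c := ⟨37, ⟨0, 0, 1, 1⟩⟩) (by decide +kernel)

def top9_v2p : PosBox ⟨⟨0, 1, 1⟩, ⟨99, 100, 165⟩, ⟨72, 121, 600⟩, ⟨83, 115, 100⟩⟩ (top9.hV2p) :=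
  posBox_of_check (c := ⟨207, ⟨1, 6, 10, 5⟩⟩) (by decide +kernel)

def top9_v2m : PosBox ⟨⟨0, 1, 1⟩, ⟨99, 100, 165⟩, ⟨72, 121, 600⟩, ⟨83, 115, 100⟩⟩ (top9.hV2m) :=
  posBox_of_check (c := ⟨190, ⟨0, 5, 10, 5⟩⟩) (by decide +kernel)

def top9_v3p : PosBox ⟨⟨0, 1, 1⟩, ⟨99, 100, 165⟩, ⟨72, 121, 600⟩, ⟨83, 115, 100⟩⟩ (top9.hV3p) :=
  posBox_of_check (c := ⟨185, ⟨1, 6, 9, 4⟩⟩) (by decide +kernel)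

def top9_v3m : PosBox ⟨⟨0, 1, 1⟩, ⟨99, 100, 165⟩, ⟨72, 121, 600⟩, ⟨83, 115, 100⟩⟩ (top9.hV3m) :=
  posBox_of_check (c := ⟨169, ⟨0, 5, 9, 4⟩⟩) (by decide +kernel)

def top9_kap0 : PosBox ⟨⟨0, 1, 1⟩, ⟨99, 100, 165⟩, ⟨72, 121, 600⟩, ⟨83, 115, 100⟩⟩ (top9.kap false) :=
  posBox_of_check (c := ⟨63, ⟨1, 1, 1, 2⟩⟩) (by decide +kernel)

def top9_tg0 : PosBox ⟨⟨0, 1, 1⟩, ⟨99, 100, 165⟩, ⟨72, 121, 600⟩, ⟨83, 115, 100⟩⟩ (top9.hG (top9.pEnd false)) :=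
  posBox_of_check (c := ⟨281, ⟨2, 7, 12, 9⟩⟩) (by decide +kernel)

def top9_c2p0 : PosBox ⟨⟨0, 1, 1⟩, ⟨99, 100, 165⟩, ⟨72, 121, 600⟩, ⟨83, 115, 100⟩⟩ (top9.hC2p (top9.pEnd false)) :=
  posBox_of_check (c := ⟨343, ⟨3, 8, 14, 11⟩⟩) (by decide +kernel)

def top9_c2m0 : PosBox ⟨⟨0, 1, 1⟩, ⟨99, 100, 165⟩, ⟨72, 121, 600⟩, ⟨83, 115, 100⟩⟩ (top9.hC2m (top9.pEnd false)) :=
  posBox_of_check (c := ⟨327, ⟨2, 7, 14, 11⟩⟩) (by decide +kernel)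

def top9_c10 : PosBox ⟨⟨0, 1, 1⟩, ⟨99, 100, 165⟩, ⟨72, 121, 600⟩, ⟨83, 115, 100⟩⟩ (top9.hC1 false) :=
  posBox_of_check (c := ⟨208, ⟨3, 5, 8, 7⟩⟩) (by decide +kernel)

def top9_c3p0 : PosBox ⟨⟨0, 1, 1⟩, ⟨99, 100, 165⟩, ⟨72, 121, 600⟩, ⟨83, 115, 100⟩⟩ (top9.hC3p false) :=
  posBox_of_check (c := ⟨326, ⟨3, 8, 13, 10⟩⟩) (by decide +kernel)

def top9_c3m0 : PosBox ⟨⟨0, 1, 1⟩, ⟨99, 100, 165⟩, ⟨72, 121, 600⟩, ⟨83, 115, 100⟩⟩ (top9.hC3m false) :=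
  posBox_of_check (c := ⟨310, ⟨3, 7, 13, 10⟩⟩) (by decide +kernel)

def top9_tmg0 : PosBox ⟨⟨0, 1, 1⟩, ⟨99, 100, 165⟩, ⟨72, 121, 600⟩, ⟨83, 115, 100⟩⟩ (top9.hTMG (top9.pEnd false)) :=
  posBox_of_check (c := ⟨294, ⟨2, 7, 12, 10⟩⟩) (by decide +kernel)

def top9_neg0 : PosBox ⟨⟨0, 1, 1⟩, ⟨99, 100, 165⟩, ⟨72, 121, 600⟩, ⟨83, 115, 100⟩⟩ (top9.hNeg (top9.pEnd false)) :=
  posBox_of_check (c := ⟨195, ⟨2, 5, 8, 7⟩⟩) (by decide +kernel)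

def top9_neglo0 : PosBox ⟨⟨0, 1, 1⟩, ⟨99, 100, 165⟩, ⟨72, 121, 600⟩, ⟨83, 115, 100⟩⟩ (top9.hNegLo (top9.pEnd false)) :=
  posBox_of_check (c := ⟨195, ⟨2, 5, 8, 7⟩⟩) (by decide +kernel)

def top9_kap1 : PosBox ⟨⟨0, 1, 1⟩, ⟨99, 100, 165⟩, ⟨72, 121, 600⟩, ⟨83, 115, 100⟩⟩ (top9.kap true) :=
  posBox_of_check (c := ⟨62, ⟨1, 1, 1, 2⟩⟩) (by decide +kernel)

def top9_tg1 : PosBox ⟨⟨0, 1, 1⟩, ⟨99, 100, 165⟩, ⟨72, 121, 600⟩, ⟨83, 115, 100⟩⟩ (top9.hG (top9.pEnd true)) :=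
  posBox_of_check (c := ⟨282, ⟨2, 7, 12, 9⟩⟩) (by decide +kernel)

def top9_c2p1 : PosBox ⟨⟨0, 1, 1⟩, ⟨99, 100, 165⟩, ⟨72, 121, 600⟩, ⟨83, 115, 100⟩⟩ (top9.hC2p (top9.pEnd true)) :=
  posBox_of_check (c := ⟨345, ⟨3, 8, 14, 11⟩⟩) (by decide +kernel)

def top9_c2m1 : PosBox ⟨⟨0, 1, 1⟩, ⟨99, 100, 165⟩, ⟨72, 121, 600⟩, ⟨83, 115, 100⟩⟩ (top9.hC2m (top9.pEnd true)) :=
  posBox_of_check (c := ⟨328, ⟨2, 7, 14, 11⟩⟩) (by decide +kernel)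

def top9_c11 : PosBox ⟨⟨0, 1, 1⟩, ⟨99, 100, 165⟩, ⟨72, 121, 600⟩, ⟨83, 115, 100⟩⟩ (top9.hC1 true) :=
  posBox_of_check (c := ⟨208, ⟨3, 5, 8, 7⟩⟩) (by decide +kernel)

def top9_c3p1 : PosBox ⟨⟨0, 1, 1⟩, ⟨99, 100, 165⟩, ⟨72, 121, 600⟩, ⟨83, 115, 100⟩⟩ (top9.hC3p true) :=
  posBox_of_check (c := ⟨326, ⟨3, 8, 13, 10⟩⟩) (by decide +kernel)

def top9_c3m1 : PosBox ⟨⟨0, 1, 1⟩, ⟨99, 100, 165⟩, ⟨72, 121, 600⟩, ⟨83, 115, 100⟩⟩ (top9.hC3m true) :=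
  posBox_of_check (c := ⟨310, ⟨3, 7, 13, 10⟩⟩) (by decide +kernel)

def top9_tmg1 : PosBox ⟨⟨0, 1, 1⟩, ⟨99, 100, 165⟩, ⟨72, 121, 600⟩, ⟨83, 115, 100⟩⟩ (top9.hTMG (top9.pEnd true)) :=
  posBox_of_check (c := ⟨294, ⟨2, 7, 12, 10⟩⟩) (by decide +kernel)

def top9_neg1 : PosBox ⟨⟨0, 1, 1⟩, ⟨99, 100, 165⟩, ⟨72, 121, 600⟩, ⟨83, 115, 100⟩⟩ (top9.hNeg (top9.pEnd true)) :=
  posBox_of_check (c := ⟨195, ⟨2, 5, 8, 7⟩⟩) (by decide +kernel)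

def top9_neglo1 : PosBox ⟨⟨0, 1, 1⟩, ⟨99, 100, 165⟩, ⟨72, 121, 600⟩, ⟨83, 115, 100⟩⟩ (top9.hNegLo (top9.pEnd true)) :=
  posBox_of_check (c := ⟨195, ⟨2, 5, 8, 7⟩⟩) (by decide +kernel)

/-- The checks on the signs. -/
theorem top9_sign : top9.Sign ⟨⟨0, 1, 1⟩, ⟨99, 100, 165⟩, ⟨72, 121, 600⟩, ⟨83, 115, 100⟩⟩ where
  pp := top9_pp
  k2p := top9_k2p
  k2m := top9_k2m
  v2p := top9_v2p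
  v2m := top9_v2m
  v3p := top9_v3p
  v3m := top9_v3m
  tg := Bool.forall_bool.2 ⟨top9_tg0, top9_tg1⟩
  c2p := Bool.forall_bool.2 ⟨top9_c2p0, top9_c2p1⟩
  c2m := Bool.forall_bool.2 ⟨top9_c2m0, top9_c2m1⟩
  kap := Bool.forall_bool.2 ⟨top9_kap0, top9_kap1⟩
  c1 := Bool.forall_bool.2 ⟨top9_c10, top9_c11⟩
  c3p := Bool.forall_bool.2 ⟨top9_c3p0, top9_c3p1⟩
  c3m := Bool.forall_bool.2 ⟨top9_c3m0, top9_c3m1⟩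
  tmg := Bool.forall_bool.2 ⟨top9_tmg0, top9_tmg1⟩
  high := .inl (Bool.forall_bool.2 ⟨⟨top9_neg0, top9_neglo0⟩, ⟨top9_neg1, top9_neglo1⟩⟩)
  vG := top9_vG
  vMG := top9_vMG
  ak := top9_ak
  aw := top9_aw
  gk := top9_gk
  gw := top9_gw
  ek := top9_ek
  ew := top9_ew

end Vale.Agent.P100.Calib.Closed.High
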