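import Vale.Agent.P100.Calib.SlabHighTail
import Vale.Agent.P100.Calib.SlabHighEnvTop10
import Vale.Agent.P100.Calib.SlabHighEnvTop11
import Vale.Agent.P100.Calib.SlabHighEnvTop12
import Vale.Agent.P100.Calib.SlabHighEnvTop13
import Vale.Agent.P100.Calib.SlabHighEnvTop14
import Vale.Agent.P100.Calib.SlabHighEnvTop15
import Vale.Agent.P100.Calib.SlabHighEnvTop16
import Vale.Agent.P100.Calib.SlabHighEnvTop17
import Vale.Agent.P100.Calib.SlabHighEnvTop18
import Vale.Agent.P100.Calib.SlabHighEnvTop19
import Vale.Agent.P100.Calib.SlabHighEnvTop7
import Vale.Agent.P100.Calib.SlabHighEnvTop8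
import Vale.Agent.P100.Calib.SlabHighEnvTop9
import Vale.Agent.P100.Calib.SlabHighSignTop10A
import Vale.Agent.P100.Calib.SlabHighSignTop10B
import Vale.Agent.P100.Calib.SlabHighSignTop11
import Vale.Agent.P100.Calib.SlabHighSignTop13
import Vale.Agent.P100.Calib.SlabHighSignTop14A
import Vale.Agent.P100.Calib.SlabHighSignTop14B
import Vale.Agent.P100.Calib.SlabHighSignTop15A
import Vale.Agent.P100.Calib.SlabHighSignTop15B
import Vale.Agent.P100.Calib.SlabHighSignTop16A
import Vale.Agent.P100.Calib.SlabHighSignTop16B
import Vale.Agent.P100.Calib.SlabHighSignTop17A
import Vale.Agent.P100.Calib.SlabHighSignTop17B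
import Vale.Agent.P100.Calib.SlabHighSignTop18
import Vale.Agent.P100.Calib.SlabHighSignTop19
import Vale.Agent.P100.Calib.SlabHighSignTop8
import Vale.Agent.P100.Calib.SlabHighSignTop9

/-!
# The closed signs on the tail, top piece
-/

set_option linter.unusedVariables false

namespace Vale.Agent.P100.Calib.Closed.High

open BoxPos Large

/-- Up to `u = 4/5`. -/
theorem top_signs_below {d S u v t : ℝ} (T : TailPt d S u v t) (mS : Side.Mem ⟨99, 100, 165⟩ S)
    (hd : 0 < d) (h0 : 3 / 25 ≤ d) (h1 : d ≤ 1 / 5) (hu : 3 / 5 < u) (hu1 : u ≤ 39 / 40)
    (hv : 7 / 20 ≤ v) (hu8 : u ≤ 4 / 5) (hphi : v < bandsTop.phi d u)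
    (hlow : bandsTop.low d u < t) (hup : t < bandsTop.up d u + bandsTop.tilt d * v) :
    ChartSigns d S u v t := by
  have hv8 : v < 169 / 100 := by
    have md : Side.Mem ⟨72, 121, 600⟩ d := by simp only [Side.Mem]; norm_num; constructor <;> linarith
    have k := topPhi_lt (u := u) (topPhi_top1 0 S d (7 / 20) (by norm_num [Side.Mem]) mS md
      (by norm_num [Side.Mem])) hd.le (by linarith) (by norm_num [Ex.val]) (by norm_num [Ex.val]; linarith)
    norm_num [Ex.val] at k
    linarith
  rcases lt_or_ge v (41 / 100) with hc2 | hc2
  · have md : Side.Mem ⟨72, 121, 600⟩ d := by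
      simp only [Side.Mem]; norm_num; constructor <;> linarith
    have mv : Side.Mem ⟨35, 41, 100⟩ v := by
      simp only [Side.Mem]; norm_num; constructor <;> linarith
    have hlo : top7.u₁.val 0 S d v < u := by simp [top7, Ex.val]; linarith
    have hhi : u ≤ top7.u₀.val 0 S d v := by norm_num [top7, Ex.val]; linarith
    exact (piece_false top7_empty rfl rfl (by decide +kernel) (by decide +kernel) T md mv hlo hhi
      (fun o hx => top_low_le hu1 hd.le hlow hx)
      (fun o _ hx => top_up_le hu1 hd.le (by linarith) hup hx)).elim
  · rcases lt_or_ge v (83 / 100) with hc4 | hc4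
    · have md : Side.Mem ⟨72, 121, 600⟩ d := by
        simp only [Side.Mem]; norm_num; constructor <;> linarith
      have mv : Side.Mem ⟨41, 83, 100⟩ v := by
        simp only [Side.Mem]; norm_num; constructor <;> linarith
      have hlo : top8.u₁.val 0 S d v < u := by simp [top8, Ex.val]; linarith
      have hhi : u ≤ top8.u₀.val 0 S d v := by norm_num [top8, Ex.val]; linarith
      exact piece_signs top8_env top8_sign rfl rfl (by decide +kernel) (by decide +kernel) (by decide +kernel) T md mv hlo hhi
        (fun o hx => top_low_le hu1 hd.le hlow hx)
        (fun o _ hx => top_up_le hu1 hd.le (by linarith) hup hx)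
    · rcases lt_or_ge v (115 / 100) with hc6 | hc6
      · have md : Side.Mem ⟨72, 121, 600⟩ d := by
          simp only [Side.Mem]; norm_num; constructor <;> linarith
        have mv : Side.Mem ⟨83, 115, 100⟩ v := by
          simp only [Side.Mem]; norm_num; constructor <;> linarith
        have hlo : top9.u₁.val 0 S d v < u := by simp [top9, Ex.val]; linarith
        have hhi : u ≤ top9.u₀.val 0 S d v := by norm_num [top9, Ex.val]; linarith
        exact piece_signs top9_env top9_sign rfl rfl (by decide +kernel) (by decide +kernel) (by decide +kernel) T md mv hlo hhi
          (fun o hx => top_low_le hu1 hd.le hlow hx)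
          (fun o _ hx => top_up_le hu1 hd.le (by linarith) hup hx)
      · rcases lt_or_ge v (127 / 100) with hc8 | hc8
        · have md : Side.Mem ⟨72, 121, 600⟩ d := by
            simp only [Side.Mem]; norm_num; constructor <;> linarith
          have mv : Side.Mem ⟨115, 127, 100⟩ v := by
            simp only [Side.Mem]; norm_num; constructor <;> linarith
          have hlo : top10.u₁.val 0 S d v < u := by
            by_contra hne
            have k := topPhi_lt (top10_phi 0 S d v (by norm_num [Side.Mem]) mS md mv) hd.le (by linarith)
              (by simp [top10, Ex.val]; linarith) (not_lt.1 hne)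
            simp only [Ex.val] at k
            linarith
          have hhi : u ≤ top10.u₀.val 0 S d v := by norm_num [top10, Ex.val]; linarith
          exact piece_signs_cut top10_env top10_envU top10A_sign top10B_sign rfl rfl (by decide +kernel) (by decide +kernel) (by decide +kernel) (by decide +kernel)
            T md mv hlo hhi (fun o hx => top_low_le hu1 hd.le hlow hx)
            (fun o _ hx => top_up_le hu1 hd.le (by linarith) hup hx)
        · have md : Side.Mem ⟨72, 121, 600⟩ d := by
            simp only [Side.Mem]; norm_num; constructor <;> linarith
          have mv : Side.Mem ⟨127, 169, 100⟩ v := by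
            simp only [Side.Mem]; norm_num; constructor <;> linarith
          have hlo : top11.u₁.val 0 S d v < u := by
            by_contra hne
            have k := topPhi_lt (top11_phi 0 S d v (by norm_num [Side.Mem]) mS md mv) hd.le (by linarith)
              (by simp [top11, Ex.val]; linarith) (not_lt.1 hne)
            simp only [Ex.val] at k
            linarith
          have hhi : u ≤ top11.u₀.val 0 S d v := by norm_num [top11, Ex.val]; linarith
          exact piece_signs top11_env top11_sign rfl rfl (by decide +kernel) (by decide +kernel) (by decide +kernel) T md mv hlo hhi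
            (fun o hx => top_low_le hu1 hd.le hlow hx)
            (fun o _ hx => top_up_le hu1 hd.le (by linarith) hup hx)

/-- Beyond `u = 4/5`. -/
theorem top_signs_above {d S u v t : ℝ} (T : TailPt d S u v t) (mS : Side.Mem ⟨99, 100, 165⟩ S)
    (hd : 0 < d) (h0 : 3 / 25 ≤ d) (h1 : d ≤ 1 / 5) (hu : 3 / 5 < u) (hu1 : u ≤ 39 / 40)
    (hv : 7 / 20 ≤ v) (hvmax : v < 179 / 50) (hu8 : 4 / 5 < u) (hphi : v < bandsTop.phi d u)
    (hlow : bandsTop.low d u < t) (hup : t < bandsTop.up d u + bandsTop.tilt d * v) :
    ChartSigns d S u v t := by
  rcases lt_or_ge v (65 / 100) with hc2 | hc2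
  · have md : Side.Mem ⟨72, 121, 600⟩ d := by
      simp only [Side.Mem]; norm_num; constructor <;> linarith
    have mv : Side.Mem ⟨35, 65, 100⟩ v := by
      simp only [Side.Mem]; norm_num; constructor <;> linarith
    have hlo : top12.u₁.val 0 S d v < u := by simp [top12, Ex.val]; linarith
    have hhi : u ≤ top12.u₀.val 0 S d v := by norm_num [top12, Ex.val]; linarith
    exact (piece_false top12_empty rfl rfl (by decide +kernel) (by decide +kernel) T md mv hlo hhi
      (fun o hx => top_low_le hu1 hd.le hlow hx)
      (fun o _ hx => top_up_le hu1 hd.le (by linarith) hup hx)).elim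
  · rcases lt_or_ge v (140 / 100) with hc4 | hc4
    · have md : Side.Mem ⟨72, 121, 600⟩ d := by
        simp only [Side.Mem]; norm_num; constructor <;> linarith
      have mv : Side.Mem ⟨65, 140, 100⟩ v := by
        simp only [Side.Mem]; norm_num; constructor <;> linarith
      have hlo : top13.u₁.val 0 S d v < u := by simp [top13, Ex.val]; linarith
      have hhi : u ≤ top13.u₀.val 0 S d v := by norm_num [top13, Ex.val]; linarith
      exact piece_signs top13_env top13_sign rfl rfl (by decide +kernel) (by decide +kernel) (by decide +kernel) T md mv hlo hhi
        (fun o hx => top_low_le hu1 hd.le hlow hx)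
        (fun o _ hx => top_up_le hu1 hd.le (by linarith) hup hx)
    · rcases lt_or_ge v (188 / 100) with hc6 | hc6
      · have md : Side.Mem ⟨72, 121, 600⟩ d := by
          simp only [Side.Mem]; norm_num; constructor <;> linarith
        have mv : Side.Mem ⟨140, 188, 100⟩ v := by
          simp only [Side.Mem]; norm_num; constructor <;> linarith
        have hlo : top14.u₁.val 0 S d v < u := by
          by_contra hne
          have k := topPhi_lt (top14_phi 0 S d v (by norm_num [Side.Mem]) mS md mv) hd.le (by linarith)
            (by simp [top14, Ex.val]; linarith) (not_lt.1 hne)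
          simp only [Ex.val] at k
          linarith
        have hhi : u ≤ top14.u₀.val 0 S d v := by norm_num [top14, Ex.val]; linarith
        exact piece_signs_cut top14_env top14_envU top14A_sign top14B_sign rfl rfl (by decide +kernel) (by decide +kernel) (by decide +kernel) (by decide +kernel)
          T md mv hlo hhi (fun o hx => top_low_le hu1 hd.le hlow hx)
          (fun o _ hx => top_up_le hu1 hd.le (by linarith) hup hx)
      · rcases lt_or_ge v (260 / 100) with hc8 | hc8
        · rcases lt_or_ge d (87 / 600) with hc10 | hc10
          · rcases lt_or_ge v (240 / 100) with hc12 | hc12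
            · have md : Side.Mem ⟨72, 87, 600⟩ d := by
                simp only [Side.Mem]; norm_num; constructor <;> linarith
              have mv : Side.Mem ⟨188, 240, 100⟩ v := by
                simp only [Side.Mem]; norm_num; constructor <;> linarith
              have hlo : top15.u₁.val 0 S d v < u := by
                by_contra hne
                have k := topPhi_lt (top15_phi 0 S d v (by norm_num [Side.Mem]) mS md mv) hd.le (by linarith)
                  (by simp [top15, Ex.val]; linarith) (not_lt.1 hne)
                simp only [Ex.val] at k
                linarith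
              have hhi : u ≤ top15.u₀.val 0 S d v := by norm_num [top15, Ex.val]; linarith
              exact piece_signs_cut top15_env top15_envU top15A_sign top15B_sign rfl rfl (by decide +kernel) (by decide +kernel) (by decide +kernel) (by decide +kernel)
                T md mv hlo hhi (fun o hx => top_low_le hu1 hd.le hlow hx)
                (fun o _ hx => top_up_le hu1 hd.le (by linarith) hup hx)
            · have md : Side.Mem ⟨72, 87, 600⟩ d := by
                simp only [Side.Mem]; norm_num; constructor <;> linarith
              have mv : Side.Mem ⟨240, 260, 100⟩ v := by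
                simp only [Side.Mem]; norm_num; constructor <;> linarith
              have hlo : top16.u₁.val 0 S d v < u := by
                by_contra hne
                have k := topPhi_lt (top16_phi 0 S d v (by norm_num [Side.Mem]) mS md mv) hd.le (by linarith)
                  (by simp [top16, Ex.val]; linarith) (not_lt.1 hne)
                simp only [Ex.val] at k
                linarith
              have hhi : u ≤ top16.u₀.val 0 S d v := by norm_num [top16, Ex.val]; linarith
              exact piece_signs_cut top16_env top16_envU top16A_sign top16B_sign rfl rfl (by decide +kernel) (by decide +kernel) (by decide +kernel) (by decide +kernel)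
                T md mv hlo hhi (fun o hx => top_low_le hu1 hd.le hlow hx)
                (fun o _ hx => top_up_le hu1 hd.le (by linarith) hup hx)
          · rcases lt_or_ge v (230 / 100) with hc12 | hc12
            · have md : Side.Mem ⟨87, 121, 600⟩ d := by
                simp only [Side.Mem]; norm_num; constructor <;> linarith
              have mv : Side.Mem ⟨188, 230, 100⟩ v := by
                simp only [Side.Mem]; norm_num; constructor <;> linarith
              have hlo : top17.u₁.val 0 S d v < u := by
                by_contra hne
                have k := topPhi_lt (top17_phi 0 S d v (by norm_num [Side.Mem]) mS md mv) hd.le (by linarith)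
                  (by simp [top17, Ex.val]; linarith) (not_lt.1 hne)
                simp only [Ex.val] at k
                linarith
              have hhi : u ≤ top17.u₀.val 0 S d v := by norm_num [top17, Ex.val]; linarith
              exact piece_signs_cut top17_env top17_envU top17A_sign top17B_sign rfl rfl (by decide +kernel) (by decide +kernel) (by decide +kernel) (by decide +kernel)
                T md mv hlo hhi (fun o hx => top_low_le hu1 hd.le hlow hx)
                (fun o _ hx => top_up_le hu1 hd.le (by linarith) hup hx)
            · have md : Side.Mem ⟨87, 121, 600⟩ d := by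
                simp only [Side.Mem]; norm_num; constructor <;> linarith
              have mv : Side.Mem ⟨230, 260, 100⟩ v := by
                simp only [Side.Mem]; norm_num; constructor <;> linarith
              have hlo : top18.u₁.val 0 S d v < u := by
                by_contra hne
                have k := topPhi_lt (top18_phi 0 S d v (by norm_num [Side.Mem]) mS md mv) hd.le (by linarith)
                  (by simp [top18, Ex.val]; linarith) (not_lt.1 hne)
                simp only [Ex.val] at k
                linarith
              have hhi : u ≤ top18.u₀.val 0 S d v := by norm_num [top18, Ex.val]; linarith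
              exact piece_signs top18_env top18_sign rfl rfl (by decide +kernel) (by decide +kernel) (by decide +kernel) T md mv hlo hhi
                (fun o hx => top_low_le hu1 hd.le hlow hx)
                (fun o _ hx => top_up_le hu1 hd.le (by linarith) hup hx)
        · have md : Side.Mem ⟨72, 121, 600⟩ d := by
            simp only [Side.Mem]; norm_num; constructor <;> linarith
          have mv : Side.Mem ⟨260, 358, 100⟩ v := by
            simp only [Side.Mem]; norm_num; constructor <;> linarith
          have hlo : top19.u₁.val 0 S d v < u := by
            by_contra hne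
            have k := topPhi_lt (top19_phi 0 S d v (by norm_num [Side.Mem]) mS md mv) hd.le (by linarith)
              (by simp [top19, Ex.val]; linarith) (not_lt.1 hne)
            simp only [Ex.val] at k
            linarith
          have hhi : u ≤ top19.u₀.val 0 S d v := by norm_num [top19, Ex.val]; linarith
          exact piece_signs top19_env top19_sign rfl rfl (by decide +kernel) (by decide +kernel) (by decide +kernel) T md mv hlo hhi
            (fun o hx => top_low_le hu1 hd.le hlow hx)
            (fun o mo hx => evU top19_env.p0 top19_env.gn rfl rfl mo mS md mv T hx)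

/-- **The closed signs on the tail for `3 / 25 ≤ d ≤ 1 / 5`.** -/
theorem signsTailTop : SignsTail bandsTop (3 / 25) (1 / 5) := by
  intro d S u v t hB h0 h1 hu hu1 hF hphi hlow hup
  have hd := hB.pos
  have hu1 : u ≤ 39 / 40 := hu1
  have hS0 : 0 < S := by linarith [hB.S_low]
  have mS : Side.Mem ⟨99, 100, 165⟩ S := by
    simp only [Side.Mem]; norm_num; constructor <;> linarith [hB.S_low, hB.S_high]
  have hv := hF.v_low
  have mu : Side.Mem ⟨60, 98, 100⟩ u := by simp only [Side.Mem]; norm_num; constructor <;> linarith
  have hvmax : v < 179 / 50 := by
    have md : Side.Mem ⟨72, 121, 600⟩ d := by simp only [Side.Mem]; norm_num; constructor <;> linarith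
    have k := topPhi_lt (u := u) (topPhi_top0 0 S d (7 / 20) (by norm_num [Side.Mem]) mS md
      (by norm_num [Side.Mem])) hd.le (by linarith) (by norm_num [Ex.val]) (by norm_num [Ex.val]; linarith)
    norm_num [Ex.val] at k
    linarith
  have ht : 0 ≤ t := by
    have md : Side.Mem ⟨72, 121, 600⟩ d := by simp only [Side.Mem]; norm_num; constructor <;> linarith
    have mv : Side.Mem ⟨35, 412, 100⟩ v := by simp only [Side.Mem]; norm_num; constructor <;> linarith
    have k := top_low_le (o := u) (S := S) (v := v) (x := xO) hu1 hd.le hlow rfl
    have k1 := topTn_pos u S d v mu mS md mv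
    have k2 := topTd_pos u S d v mu mS md mv
    exact (pos_of_mul_pos_left (k1.trans_le k) k2.le).le
  have T : TailPt d S u v t := by
    refine ⟨hd, mS, hF, llg_nonneg llgLo llgHi mu mS ?_ ?_ hd hS0 (by linarith [hB.S_high]) ht hF⟩
    · simp only [Side.Mem]; norm_num; constructor <;> linarith
    · simp only [Side.Mem]; norm_num; constructor <;> linarith
  rcases le_or_gt u (4 / 5) with hu8 | hu8
  · exact top_signs_below T mS hd h0 h1 hu hu1 hv hu8 hphi hlow hup
  · exact top_signs_above T mS hd h0 h1 hu hu1 hv hvmax hu8 hphi hlow hup

end Vale.Agent.P100.Calib.Closed.High
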