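import Vale.Agent.P100.Calib.SlabLargePieces

/-!
# Checks of the certificate for `3/25 ≤ d`, `0 < u ≤ 3/5`
-/

namespace Vale.Agent.P100.Calib.Closed.Large

open BoxPos

theorem p3allFourLo :
    ((piece3.hC2p xP0).checkQuick ⟨315, ⟨2, 8, 14, 9⟩⟩
        ⟨⟨0, 1001, 1000⟩, ⟨600, 606, 1000⟩, ⟨120, 201, 1000⟩, ⟨920, 1321, 1000⟩⟩ &&
      (piece3.hC2m xP0).checkQuick ⟨315, ⟨2, 8, 14, 9⟩⟩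
        ⟨⟨0, 1001, 1000⟩, ⟨600, 606, 1000⟩, ⟨120, 201, 1000⟩, ⟨920, 1321, 1000⟩⟩ &&
      (piece3.hC3p xP0).checkQuick ⟨315, ⟨2, 8, 14, 9⟩⟩
        ⟨⟨0, 1001, 1000⟩, ⟨600, 606, 1000⟩, ⟨120, 201, 1000⟩, ⟨920, 1321, 1000⟩⟩ &&
      (piece3.hC3m xP0).checkQuick ⟨315, ⟨2, 8, 14, 9⟩⟩
        ⟨⟨0, 1001, 1000⟩, ⟨600, 606, 1000⟩, ⟨120, 201, 1000⟩, ⟨920, 1321, 1000⟩⟩) = true := by
  decide +kernel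

theorem p3hC2pLo_pos :
    PosBox ⟨⟨0, 1001, 1000⟩, ⟨600, 606, 1000⟩, ⟨120, 201, 1000⟩, ⟨920, 1321, 1000⟩⟩ (piece3.hC2p xP0) :=
  posBox_of_check (and_four p3allFourLo).1

theorem p3hC2mLo_pos :
    PosBox ⟨⟨0, 1001, 1000⟩, ⟨600, 606, 1000⟩, ⟨120, 201, 1000⟩, ⟨920, 1321, 1000⟩⟩ (piece3.hC2m xP0) :=
  posBox_of_check (and_four p3allFourLo).2.1

theorem p3hC3pLo_pos :
    PosBox ⟨⟨0, 1001, 1000⟩, ⟨600, 606, 1000⟩, ⟨120, 201, 1000⟩, ⟨920, 1321, 1000⟩⟩ (piece3.hC3p xP0) :=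
  posBox_of_check (and_four p3allFourLo).2.2.1

theorem p3hC3mLo_pos :
    PosBox ⟨⟨0, 1001, 1000⟩, ⟨600, 606, 1000⟩, ⟨120, 201, 1000⟩, ⟨920, 1321, 1000⟩⟩ (piece3.hC3m xP0) :=
  posBox_of_check (and_four p3allFourLo).2.2.2

theorem p3allFourHi :
    ((piece3.hC2p piece3.xPU).checkQuick ⟨389, ⟨3, 8, 14, 12⟩⟩
        ⟨⟨0, 1001, 1000⟩, ⟨600, 606, 1000⟩, ⟨120, 201, 1000⟩, ⟨920, 1321, 1000⟩⟩ &&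
      (piece3.hC2m piece3.xPU).checkQuick ⟨389, ⟨3, 8, 14, 12⟩⟩
        ⟨⟨0, 1001, 1000⟩, ⟨600, 606, 1000⟩, ⟨120, 201, 1000⟩, ⟨920, 1321, 1000⟩⟩ &&
      (piece3.hC3p piece3.xPU).checkQuick ⟨389, ⟨3, 8, 14, 12⟩⟩
        ⟨⟨0, 1001, 1000⟩, ⟨600, 606, 1000⟩, ⟨120, 201, 1000⟩, ⟨920, 1321, 1000⟩⟩ &&
      (piece3.hC3m piece3.xPU).checkQuick ⟨389, ⟨3, 8, 14, 12⟩⟩
        ⟨⟨0, 1001, 1000⟩, ⟨600, 606, 1000⟩, ⟨120, 201, 1000⟩, ⟨920, 1321, 1000⟩⟩) = true := by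
  decide +kernel

theorem p3hC2pHi_pos :
    PosBox ⟨⟨0, 1001, 1000⟩, ⟨600, 606, 1000⟩, ⟨120, 201, 1000⟩, ⟨920, 1321, 1000⟩⟩ (piece3.hC2p piece3.xPU) :=
  posBox_of_check (and_four p3allFourHi).1

theorem p3hC2mHi_pos :
    PosBox ⟨⟨0, 1001, 1000⟩, ⟨600, 606, 1000⟩, ⟨120, 201, 1000⟩, ⟨920, 1321, 1000⟩⟩ (piece3.hC2m piece3.xPU) :=
  posBox_of_check (and_four p3allFourHi).2.1

theorem p3hC3pHi_pos :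
    PosBox ⟨⟨0, 1001, 1000⟩, ⟨600, 606, 1000⟩, ⟨120, 201, 1000⟩, ⟨920, 1321, 1000⟩⟩ (piece3.hC3p piece3.xPU) :=
  posBox_of_check (and_four p3allFourHi).2.2.1

theorem p3hC3mHi_pos :
    PosBox ⟨⟨0, 1001, 1000⟩, ⟨600, 606, 1000⟩, ⟨120, 201, 1000⟩, ⟨920, 1321, 1000⟩⟩ (piece3.hC3m piece3.xPU) :=
  posBox_of_check (and_four p3allFourHi).2.2.2

theorem p3hC1Lo_1 :
    (piece3.hC1 xP0).checkQuick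
      ⟨205, ⟨2, 5, 8, 6⟩⟩
      ⟨⟨0, 1001, 1000⟩, ⟨600, 606, 1000⟩, ⟨120, 201, 1000⟩, ⟨920, 1321, 1000⟩⟩ = true := by
  decide +kernel

theorem p3hC1Lo_pos :
    PosBox ⟨⟨0, 1001, 1000⟩, ⟨600, 606, 1000⟩, ⟨120, 201, 1000⟩, ⟨920, 1321, 1000⟩⟩ (piece3.hC1 xP0) :=
  posBox_of_check p3hC1Lo_1

theorem p3hC1Hi_1 :
    (piece3.hC1 piece3.xPU).checkQuick
      ⟨243, ⟨3, 5, 8, 8⟩⟩
      ⟨⟨0, 1001, 1000⟩, ⟨600, 606, 1000⟩, ⟨120, 201, 1000⟩, ⟨920, 1321, 1000⟩⟩ = true := by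
  decide +kernel

theorem p3hC1Hi_pos :
    PosBox ⟨⟨0, 1001, 1000⟩, ⟨600, 606, 1000⟩, ⟨120, 201, 1000⟩, ⟨920, 1321, 1000⟩⟩ (piece3.hC1 piece3.xPU) :=
  posBox_of_check p3hC1Hi_1

theorem p3hV3p_1 :
    (piece3.hV3p).checkQuick
      ⟨203, ⟨1, 6, 9, 5⟩⟩
      ⟨⟨0, 1001, 1000⟩, ⟨600, 606, 1000⟩, ⟨120, 201, 1000⟩, ⟨920, 1321, 1000⟩⟩ = true := by
  decide +kernel

theorem p3hV3p_pos :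
    PosBox ⟨⟨0, 1001, 1000⟩, ⟨600, 606, 1000⟩, ⟨120, 201, 1000⟩, ⟨920, 1321, 1000⟩⟩ (piece3.hV3p) :=
  posBox_of_check p3hV3p_1

theorem p3hV3m_1 :
    (piece3.hV3m).checkQuick
      ⟨202, ⟨1, 6, 9, 5⟩⟩
      ⟨⟨0, 1001, 1000⟩, ⟨600, 606, 1000⟩, ⟨120, 201, 1000⟩, ⟨920, 1321, 1000⟩⟩ = true := by
  decide +kernel

theorem p3hV3m_pos :
    PosBox ⟨⟨0, 1001, 1000⟩, ⟨600, 606, 1000⟩, ⟨120, 201, 1000⟩, ⟨920, 1321, 1000⟩⟩ (piece3.hV3m) :=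
  posBox_of_check p3hV3m_1

end Vale.Agent.P100.Calib.Closed.Large
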