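import Vale.Agent.P100.Calib.SlabLargePieces

/-!
# Checks of the certificate for `3/25 ≤ d`, `0 < u ≤ 3/5`
-/

namespace Vale.Agent.P100.Calib.Closed.Large

open BoxPos

theorem p1xRoom_1 :
    (piece1.xRoom).checkQuick
      ⟨43, ⟨0, 0, 1, 2⟩⟩
      ⟨⟨0, 1001, 1000⟩, ⟨600, 606, 1000⟩, ⟨120, 201, 1000⟩, ⟨600, 731, 1000⟩⟩ = true := by
  decide +kernel

theorem p1xRoom_pos :
    PosBox ⟨⟨0, 1001, 1000⟩, ⟨600, 606, 1000⟩, ⟨120, 201, 1000⟩, ⟨600, 731, 1000⟩⟩ (piece1.xRoom) :=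
  posBox_of_check p1xRoom_1

theorem p1xPhi_1 :
    (piece1.xPhi).checkQuick
      ⟨99, ⟨0, 0, 3, 4⟩⟩
      ⟨⟨0, 1001, 1000⟩, ⟨600, 606, 1000⟩, ⟨120, 201, 1000⟩, ⟨600, 731, 1000⟩⟩ = true := by
  decide +kernel

theorem p1xPhi_pos :
    PosBox ⟨⟨0, 1001, 1000⟩, ⟨600, 606, 1000⟩, ⟨120, 201, 1000⟩, ⟨600, 731, 1000⟩⟩ (piece1.xPhi) :=
  posBox_of_check p1xPhi_1

theorem p1hELL_1 :
    (piece1.hEL xTL).checkQuick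
      ⟨371, ⟨5, 8, 10, 11⟩⟩
      ⟨⟨0, 1001, 1000⟩, ⟨600, 606, 1000⟩, ⟨120, 201, 1000⟩, ⟨600, 731, 1000⟩⟩ = true := by
  decide +kernel

theorem p1hELL_pos :
    PosBox ⟨⟨0, 1001, 1000⟩, ⟨600, 606, 1000⟩, ⟨120, 201, 1000⟩, ⟨600, 731, 1000⟩⟩ (piece1.hEL xTL) :=
  posBox_of_check p1hELL_1

theorem p1hEHL_1 :
    (piece1.hEH xTL).checkQuick
      ⟨371, ⟨5, 8, 11, 11⟩⟩
      ⟨⟨0, 1001, 1000⟩, ⟨600, 606, 1000⟩, ⟨120, 201, 1000⟩, ⟨600, 731, 1000⟩⟩ = true := by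
  decide +kernel

theorem p1hEHL_pos :
    PosBox ⟨⟨0, 1001, 1000⟩, ⟨600, 606, 1000⟩, ⟨120, 201, 1000⟩, ⟨600, 731, 1000⟩⟩ (piece1.hEH xTL) :=
  posBox_of_check p1hEHL_1

theorem p1hPUL_1 :
    (piece1.hPU xTL).checkQuick
      ⟨394, ⟨5, 8, 11, 12⟩⟩
      ⟨⟨0, 1001, 1000⟩, ⟨600, 606, 1000⟩, ⟨120, 201, 1000⟩, ⟨600, 731, 1000⟩⟩ = true := by
  decide +kernel

theorem p1hPUL_pos :
    PosBox ⟨⟨0, 1001, 1000⟩, ⟨600, 606, 1000⟩, ⟨120, 201, 1000⟩, ⟨600, 731, 1000⟩⟩ (piece1.hPU xTL) :=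
  posBox_of_check p1hPUL_1

theorem p1hKUL_1 :
    (piece1.hKU xTL).checkQuick
      ⟨393, ⟨5, 8, 11, 12⟩⟩
      ⟨⟨0, 1001, 1000⟩, ⟨600, 606, 1000⟩, ⟨120, 201, 1000⟩, ⟨600, 731, 1000⟩⟩ = true := by
  decide +kernel

theorem p1hKUL_pos :
    PosBox ⟨⟨0, 1001, 1000⟩, ⟨600, 606, 1000⟩, ⟨120, 201, 1000⟩, ⟨600, 731, 1000⟩⟩ (piece1.hKU xTL) :=
  posBox_of_check p1hKUL_1

theorem p1hKLL_1 :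
    (piece1.hKL xTL).checkQuick
      ⟨393, ⟨5, 8, 11, 12⟩⟩
      ⟨⟨0, 1001, 1000⟩, ⟨600, 606, 1000⟩, ⟨120, 201, 1000⟩, ⟨600, 731, 1000⟩⟩ = true := by
  decide +kernel

theorem p1hKLL_pos :
    PosBox ⟨⟨0, 1001, 1000⟩, ⟨600, 606, 1000⟩, ⟨120, 201, 1000⟩, ⟨600, 731, 1000⟩⟩ (piece1.hKL xTL) :=
  posBox_of_check p1hKLL_1

theorem p1hWUL_1 :
    (piece1.hWU xTL).checkQuick
      ⟨394, ⟨5, 7, 11, 12⟩⟩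
      ⟨⟨0, 500, 1000⟩, ⟨600, 606, 1000⟩, ⟨120, 201, 1000⟩, ⟨600, 731, 1000⟩⟩ = true := by
  decide +kernel

theorem p1hWUL_2 :
    (piece1.hWU xTL).checkQuick
      ⟨396, ⟨5, 7, 11, 12⟩⟩
      ⟨⟨500, 1001, 1000⟩, ⟨600, 606, 1000⟩, ⟨120, 201, 1000⟩, ⟨600, 731, 1000⟩⟩ = true := by
  decide +kernel

theorem p1hWUL_pos :
    PosBox ⟨⟨0, 1001, 1000⟩, ⟨600, 606, 1000⟩, ⟨120, 201, 1000⟩, ⟨600, 731, 1000⟩⟩ (piece1.hWU xTL) :=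
  posBox_join₀ (posBox_of_check p1hWUL_1) (posBox_of_check p1hWUL_2)

theorem p1hWLL_1 :
    (piece1.hWL xTL).checkQuick
      ⟨395, ⟨5, 7, 11, 12⟩⟩
      ⟨⟨0, 1001, 1000⟩, ⟨600, 606, 1000⟩, ⟨120, 201, 1000⟩, ⟨600, 731, 1000⟩⟩ = true := by
  decide +kernel

theorem p1hWLL_pos :
    PosBox ⟨⟨0, 1001, 1000⟩, ⟨600, 606, 1000⟩, ⟨120, 201, 1000⟩, ⟨600, 731, 1000⟩⟩ (piece1.hWL xTL) :=
  posBox_of_check p1hWLL_1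

theorem p1hELU_1 :
    (piece1.hEL xTU).checkQuick
      ⟨373, ⟨5, 8, 10, 11⟩⟩
      ⟨⟨0, 1001, 1000⟩, ⟨600, 606, 1000⟩, ⟨120, 201, 1000⟩, ⟨600, 731, 1000⟩⟩ = true := by
  decide +kernel

theorem p1hELU_pos :
    PosBox ⟨⟨0, 1001, 1000⟩, ⟨600, 606, 1000⟩, ⟨120, 201, 1000⟩, ⟨600, 731, 1000⟩⟩ (piece1.hEL xTU) :=
  posBox_of_check p1hELU_1

theorem p1hEHU_1 :
    (piece1.hEH xTU).checkQuick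
      ⟨373, ⟨5, 8, 11, 11⟩⟩
      ⟨⟨0, 1001, 1000⟩, ⟨600, 606, 1000⟩, ⟨120, 201, 1000⟩, ⟨600, 731, 1000⟩⟩ = true := by
  decide +kernel

theorem p1hEHU_pos :
    PosBox ⟨⟨0, 1001, 1000⟩, ⟨600, 606, 1000⟩, ⟨120, 201, 1000⟩, ⟨600, 731, 1000⟩⟩ (piece1.hEH xTU) :=
  posBox_of_check p1hEHU_1

theorem p1hPUU_1 :
    (piece1.hPU xTU).checkQuick
      ⟨395, ⟨5, 8, 11, 12⟩⟩
      ⟨⟨0, 500, 1000⟩, ⟨600, 606, 1000⟩, ⟨120, 201, 1000⟩, ⟨600, 731, 1000⟩⟩ = true := by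
  decide +kernel

theorem p1hPUU_2 :
    (piece1.hPU xTU).checkQuick
      ⟨397, ⟨5, 8, 11, 12⟩⟩
      ⟨⟨500, 750, 1000⟩, ⟨600, 606, 1000⟩, ⟨120, 201, 1000⟩, ⟨600, 731, 1000⟩⟩ = true := by
  decide +kernel

theorem p1hPUU_3 :
    (piece1.hPU xTU).checkQuick
      ⟨398, ⟨5, 8, 11, 12⟩⟩
      ⟨⟨750, 1001, 1000⟩, ⟨600, 606, 1000⟩, ⟨120, 201, 1000⟩, ⟨600, 731, 1000⟩⟩ = true := by
  decide +kernel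

theorem p1hPUU_pos :
    PosBox ⟨⟨0, 1001, 1000⟩, ⟨600, 606, 1000⟩, ⟨120, 201, 1000⟩, ⟨600, 731, 1000⟩⟩ (piece1.hPU xTU) :=
  posBox_join₀ (posBox_of_check p1hPUU_1) (posBox_join₀ (posBox_of_check p1hPUU_2)
    (posBox_of_check p1hPUU_3))

theorem p1hKUU_1 :
    (piece1.hKU xTU).checkQuick
      ⟨396, ⟨5, 8, 11, 12⟩⟩
      ⟨⟨0, 1001, 1000⟩, ⟨600, 606, 1000⟩, ⟨120, 201, 1000⟩, ⟨600, 731, 1000⟩⟩ = true := by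
  decide +kernel

theorem p1hKUU_pos :
    PosBox ⟨⟨0, 1001, 1000⟩, ⟨600, 606, 1000⟩, ⟨120, 201, 1000⟩, ⟨600, 731, 1000⟩⟩ (piece1.hKU xTU) :=
  posBox_of_check p1hKUU_1

theorem p1hKLU_1 :
    (piece1.hKL xTU).checkQuick
      ⟨396, ⟨5, 8, 11, 12⟩⟩
      ⟨⟨0, 1001, 1000⟩, ⟨600, 606, 1000⟩, ⟨120, 201, 1000⟩, ⟨600, 731, 1000⟩⟩ = true := by
  decide +kernel

theorem p1hKLU_pos :
    PosBox ⟨⟨0, 1001, 1000⟩, ⟨600, 606, 1000⟩, ⟨120, 201, 1000⟩, ⟨600, 731, 1000⟩⟩ (piece1.hKL xTU) :=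
  posBox_of_check p1hKLU_1

theorem p1hWUU_1 :
    (piece1.hWU xTU).checkQuick
      ⟨398, ⟨5, 7, 11, 12⟩⟩
      ⟨⟨0, 1001, 1000⟩, ⟨600, 606, 1000⟩, ⟨120, 201, 1000⟩, ⟨600, 731, 1000⟩⟩ = true := by
  decide +kernel

theorem p1hWUU_pos :
    PosBox ⟨⟨0, 1001, 1000⟩, ⟨600, 606, 1000⟩, ⟨120, 201, 1000⟩, ⟨600, 731, 1000⟩⟩ (piece1.hWU xTU) :=
  posBox_of_check p1hWUU_1

theorem p1hWLU_1 :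
    (piece1.hWL xTU).checkQuick
      ⟨398, ⟨5, 7, 11, 12⟩⟩
      ⟨⟨0, 1001, 1000⟩, ⟨600, 606, 1000⟩, ⟨120, 201, 1000⟩, ⟨600, 731, 1000⟩⟩ = true := by
  decide +kernel

theorem p1hWLU_pos :
    PosBox ⟨⟨0, 1001, 1000⟩, ⟨600, 606, 1000⟩, ⟨120, 201, 1000⟩, ⟨600, 731, 1000⟩⟩ (piece1.hWL xTU) :=
  posBox_of_check p1hWLU_1

end Vale.Agent.P100.Calib.Closed.Large
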