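import Vale.Agent.P100.Calib.SlabLargePieces

/-!
# Checks of the certificate for `3/25 ≤ d`, `0 < u ≤ 3/5`
-/

namespace Vale.Agent.P100.Calib.Closed.Large

open BoxPos

theorem p2xRoom_1 :
    (piece2.xRoom).checkQuick
      ⟨43, ⟨0, 0, 1, 2⟩⟩
      ⟨⟨0, 1001, 1000⟩, ⟨600, 606, 1000⟩, ⟨120, 201, 1000⟩, ⟨730, 921, 1000⟩⟩ = true := by
  decide +kernel

theorem p2xRoom_pos :
    PosBox ⟨⟨0, 1001, 1000⟩, ⟨600, 606, 1000⟩, ⟨120, 201, 1000⟩, ⟨730, 921, 1000⟩⟩ (piece2.xRoom) :=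
  posBox_of_check p2xRoom_1

theorem p2xPhi_1 :
    (piece2.xPhi).checkQuick
      ⟨99, ⟨0, 0, 3, 4⟩⟩
      ⟨⟨0, 1001, 1000⟩, ⟨600, 606, 1000⟩, ⟨120, 201, 1000⟩, ⟨730, 825, 1000⟩⟩ = true := by
  decide +kernel

theorem p2xPhi_2 :
    (piece2.xPhi).checkQuick
      ⟨100, ⟨0, 0, 3, 4⟩⟩
      ⟨⟨0, 1001, 1000⟩, ⟨600, 606, 1000⟩, ⟨120, 201, 1000⟩, ⟨825, 921, 1000⟩⟩ = true := by
  decide +kernel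

theorem p2xPhi_pos :
    PosBox ⟨⟨0, 1001, 1000⟩, ⟨600, 606, 1000⟩, ⟨120, 201, 1000⟩, ⟨730, 921, 1000⟩⟩ (piece2.xPhi) :=
  posBox_join₃ (posBox_of_check p2xPhi_1) (posBox_of_check p2xPhi_2)

theorem p2hELL_1 :
    (piece2.hEL xTL).checkQuick
      ⟨372, ⟨5, 8, 10, 11⟩⟩
      ⟨⟨0, 1001, 1000⟩, ⟨600, 606, 1000⟩, ⟨120, 201, 1000⟩, ⟨730, 921, 1000⟩⟩ = true := by
  decide +kernel

theorem p2hELL_pos :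
    PosBox ⟨⟨0, 1001, 1000⟩, ⟨600, 606, 1000⟩, ⟨120, 201, 1000⟩, ⟨730, 921, 1000⟩⟩ (piece2.hEL xTL) :=
  posBox_of_check p2hELL_1

theorem p2hEHL_1 :
    (piece2.hEH xTL).checkQuick
      ⟨372, ⟨5, 8, 11, 11⟩⟩
      ⟨⟨0, 1001, 1000⟩, ⟨600, 606, 1000⟩, ⟨120, 201, 1000⟩, ⟨730, 921, 1000⟩⟩ = true := by
  decide +kernel

theorem p2hEHL_pos :
    PosBox ⟨⟨0, 1001, 1000⟩, ⟨600, 606, 1000⟩, ⟨120, 201, 1000⟩, ⟨730, 921, 1000⟩⟩ (piece2.hEH xTL) :=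
  posBox_of_check p2hEHL_1

theorem p2hPUL_1 :
    (piece2.hPU xTL).checkQuick
      ⟨395, ⟨5, 8, 11, 12⟩⟩
      ⟨⟨0, 1001, 1000⟩, ⟨600, 606, 1000⟩, ⟨120, 201, 1000⟩, ⟨730, 921, 1000⟩⟩ = true := by
  decide +kernel

theorem p2hPUL_pos :
    PosBox ⟨⟨0, 1001, 1000⟩, ⟨600, 606, 1000⟩, ⟨120, 201, 1000⟩, ⟨730, 921, 1000⟩⟩ (piece2.hPU xTL) :=
  posBox_of_check p2hPUL_1

theorem p2hKUL_1 :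
    (piece2.hKU xTL).checkQuick
      ⟨395, ⟨5, 8, 11, 12⟩⟩
      ⟨⟨0, 1001, 1000⟩, ⟨600, 606, 1000⟩, ⟨120, 201, 1000⟩, ⟨730, 921, 1000⟩⟩ = true := by
  decide +kernel

theorem p2hKUL_pos :
    PosBox ⟨⟨0, 1001, 1000⟩, ⟨600, 606, 1000⟩, ⟨120, 201, 1000⟩, ⟨730, 921, 1000⟩⟩ (piece2.hKU xTL) :=
  posBox_of_check p2hKUL_1

theorem p2hKLL_1 :
    (piece2.hKL xTL).checkQuick
      ⟨394, ⟨5, 8, 11, 12⟩⟩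
      ⟨⟨0, 1001, 1000⟩, ⟨600, 606, 1000⟩, ⟨120, 201, 1000⟩, ⟨730, 921, 1000⟩⟩ = true := by
  decide +kernel

theorem p2hKLL_pos :
    PosBox ⟨⟨0, 1001, 1000⟩, ⟨600, 606, 1000⟩, ⟨120, 201, 1000⟩, ⟨730, 921, 1000⟩⟩ (piece2.hKL xTL) :=
  posBox_of_check p2hKLL_1

theorem p2hWUL_1 :
    (piece2.hWU xTL).checkQuick
      ⟨395, ⟨5, 7, 11, 12⟩⟩
      ⟨⟨0, 500, 1000⟩, ⟨600, 606, 1000⟩, ⟨120, 201, 1000⟩, ⟨730, 921, 1000⟩⟩ = true := by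
  decide +kernel

theorem p2hWUL_2 :
    (piece2.hWU xTL).checkQuick
      ⟨397, ⟨5, 7, 11, 12⟩⟩
      ⟨⟨500, 1001, 1000⟩, ⟨600, 606, 1000⟩, ⟨120, 201, 1000⟩, ⟨730, 921, 1000⟩⟩ = true := by
  decide +kernel

theorem p2hWUL_pos :
    PosBox ⟨⟨0, 1001, 1000⟩, ⟨600, 606, 1000⟩, ⟨120, 201, 1000⟩, ⟨730, 921, 1000⟩⟩ (piece2.hWU xTL) :=
  posBox_join₀ (posBox_of_check p2hWUL_1) (posBox_of_check p2hWUL_2)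

theorem p2hWLL_1 :
    (piece2.hWL xTL).checkQuick
      ⟨396, ⟨5, 7, 11, 12⟩⟩
      ⟨⟨0, 1001, 1000⟩, ⟨600, 606, 1000⟩, ⟨120, 201, 1000⟩, ⟨730, 921, 1000⟩⟩ = true := by
  decide +kernel

theorem p2hWLL_pos :
    PosBox ⟨⟨0, 1001, 1000⟩, ⟨600, 606, 1000⟩, ⟨120, 201, 1000⟩, ⟨730, 921, 1000⟩⟩ (piece2.hWL xTL) :=
  posBox_of_check p2hWLL_1

theorem p2hELU_1 :
    (piece2.hEL xTU).checkQuick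
      ⟨375, ⟨5, 8, 10, 11⟩⟩
      ⟨⟨0, 1001, 1000⟩, ⟨600, 606, 1000⟩, ⟨120, 201, 1000⟩, ⟨730, 921, 1000⟩⟩ = true := by
  decide +kernel

theorem p2hELU_pos :
    PosBox ⟨⟨0, 1001, 1000⟩, ⟨600, 606, 1000⟩, ⟨120, 201, 1000⟩, ⟨730, 921, 1000⟩⟩ (piece2.hEL xTU) :=
  posBox_of_check p2hELU_1

theorem p2hEHU_1 :
    (piece2.hEH xTU).checkQuick
      ⟨375, ⟨5, 8, 11, 11⟩⟩
      ⟨⟨0, 1001, 1000⟩, ⟨600, 606, 1000⟩, ⟨120, 201, 1000⟩, ⟨730, 921, 1000⟩⟩ = true := by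
  decide +kernel

theorem p2hEHU_pos :
    PosBox ⟨⟨0, 1001, 1000⟩, ⟨600, 606, 1000⟩, ⟨120, 201, 1000⟩, ⟨730, 921, 1000⟩⟩ (piece2.hEH xTU) :=
  posBox_of_check p2hEHU_1

theorem p2hPUU_1 :
    (piece2.hPU xTU).checkQuick
      ⟨396, ⟨5, 8, 11, 12⟩⟩
      ⟨⟨0, 500, 1000⟩, ⟨600, 606, 1000⟩, ⟨120, 201, 1000⟩, ⟨730, 921, 1000⟩⟩ = true := by
  decide +kernel

theorem p2hPUU_2 :
    (piece2.hPU xTU).checkQuick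
      ⟨398, ⟨5, 8, 11, 12⟩⟩
      ⟨⟨500, 1001, 1000⟩, ⟨600, 606, 1000⟩, ⟨120, 201, 1000⟩, ⟨730, 921, 1000⟩⟩ = true := by
  decide +kernel

theorem p2hPUU_pos :
    PosBox ⟨⟨0, 1001, 1000⟩, ⟨600, 606, 1000⟩, ⟨120, 201, 1000⟩, ⟨730, 921, 1000⟩⟩ (piece2.hPU xTU) :=
  posBox_join₀ (posBox_of_check p2hPUU_1) (posBox_of_check p2hPUU_2)

theorem p2hKUU_1 :
    (piece2.hKU xTU).checkQuick
      ⟨397, ⟨5, 8, 11, 12⟩⟩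
      ⟨⟨0, 1001, 1000⟩, ⟨600, 606, 1000⟩, ⟨120, 201, 1000⟩, ⟨730, 921, 1000⟩⟩ = true := by
  decide +kernel

theorem p2hKUU_pos :
    PosBox ⟨⟨0, 1001, 1000⟩, ⟨600, 606, 1000⟩, ⟨120, 201, 1000⟩, ⟨730, 921, 1000⟩⟩ (piece2.hKU xTU) :=
  posBox_of_check p2hKUU_1

theorem p2hKLU_1 :
    (piece2.hKL xTU).checkQuick
      ⟨397, ⟨5, 8, 11, 12⟩⟩
      ⟨⟨0, 1001, 1000⟩, ⟨600, 606, 1000⟩, ⟨120, 201, 1000⟩, ⟨730, 921, 1000⟩⟩ = true := by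
  decide +kernel

theorem p2hKLU_pos :
    PosBox ⟨⟨0, 1001, 1000⟩, ⟨600, 606, 1000⟩, ⟨120, 201, 1000⟩, ⟨730, 921, 1000⟩⟩ (piece2.hKL xTU) :=
  posBox_of_check p2hKLU_1

theorem p2hWUU_1 :
    (piece2.hWU xTU).checkQuick
      ⟨399, ⟨5, 7, 11, 12⟩⟩
      ⟨⟨0, 1001, 1000⟩, ⟨600, 606, 1000⟩, ⟨120, 201, 1000⟩, ⟨730, 921, 1000⟩⟩ = true := by
  decide +kernel

theorem p2hWUU_pos :
    PosBox ⟨⟨0, 1001, 1000⟩, ⟨600, 606, 1000⟩, ⟨120, 201, 1000⟩, ⟨730, 921, 1000⟩⟩ (piece2.hWU xTU) :=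
  posBox_of_check p2hWUU_1

theorem p2hWLU_1 :
    (piece2.hWL xTU).checkQuick
      ⟨398, ⟨5, 7, 11, 12⟩⟩
      ⟨⟨0, 1001, 1000⟩, ⟨600, 606, 1000⟩, ⟨120, 201, 1000⟩, ⟨730, 921, 1000⟩⟩ = true := by
  decide +kernel

theorem p2hWLU_pos :
    PosBox ⟨⟨0, 1001, 1000⟩, ⟨600, 606, 1000⟩, ⟨120, 201, 1000⟩, ⟨730, 921, 1000⟩⟩ (piece2.hWL xTU) :=
  posBox_of_check p2hWLU_1

end Vale.Agent.P100.Calib.Closed.Large
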