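import Vale.Agent.P100.Calib.SlabLargePieces

/-!
# Checks of the certificate for `3/25 ≤ d`, `0 < u ≤ 3/5`
-/

namespace Vale.Agent.P100.Calib.Closed.Large

open BoxPos

theorem p3xRoom_1 :
    (piece3.xRoom).checkQuick
      ⟨43, ⟨0, 0, 1, 2⟩⟩
      ⟨⟨0, 1001, 1000⟩, ⟨600, 606, 1000⟩, ⟨120, 201, 1000⟩, ⟨920, 1321, 1000⟩⟩ = true := by
  decide +kernel

theorem p3xRoom_pos :
    PosBox ⟨⟨0, 1001, 1000⟩, ⟨600, 606, 1000⟩, ⟨120, 201, 1000⟩, ⟨920, 1321, 1000⟩⟩ (piece3.xRoom) :=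
  posBox_of_check p3xRoom_1

theorem p3xPhi_1 :
    (piece3.xPhi).checkQuick
      ⟨100, ⟨0, 0, 3, 4⟩⟩
      ⟨⟨0, 1001, 1000⟩, ⟨600, 606, 1000⟩, ⟨120, 201, 1000⟩, ⟨920, 1020, 1000⟩⟩ = true := by
  decide +kernel

theorem p3xPhi_2 :
    (piece3.xPhi).checkQuick
      ⟨100, ⟨0, 0, 3, 4⟩⟩
      ⟨⟨0, 1001, 1000⟩, ⟨600, 606, 1000⟩, ⟨120, 201, 1000⟩, ⟨1020, 1120, 1000⟩⟩ = true := by
  decide +kernel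

theorem p3xPhi_3 :
    (piece3.xPhi).checkQuick
      ⟨100, ⟨0, 0, 3, 4⟩⟩
      ⟨⟨0, 1001, 1000⟩, ⟨600, 606, 1000⟩, ⟨120, 201, 1000⟩, ⟨1120, 1321, 1000⟩⟩ = true := by
  decide +kernel

theorem p3xPhi_pos :
    PosBox ⟨⟨0, 1001, 1000⟩, ⟨600, 606, 1000⟩, ⟨120, 201, 1000⟩, ⟨920, 1321, 1000⟩⟩ (piece3.xPhi) :=
  posBox_join₃ (posBox_join₃ (posBox_of_check p3xPhi_1) (posBox_of_check p3xPhi_2))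
    (posBox_of_check p3xPhi_3)

theorem p3hELL_1 :
    (piece3.hEL xTL).checkQuick
      ⟨373, ⟨5, 8, 10, 11⟩⟩
      ⟨⟨0, 1001, 1000⟩, ⟨600, 606, 1000⟩, ⟨120, 201, 1000⟩, ⟨920, 1321, 1000⟩⟩ = true := by
  decide +kernel

theorem p3hELL_pos :
    PosBox ⟨⟨0, 1001, 1000⟩, ⟨600, 606, 1000⟩, ⟨120, 201, 1000⟩, ⟨920, 1321, 1000⟩⟩ (piece3.hEL xTL) :=
  posBox_of_check p3hELL_1

theorem p3hEHL_1 :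
    (piece3.hEH xTL).checkQuick
      ⟨373, ⟨5, 8, 11, 11⟩⟩
      ⟨⟨0, 1001, 1000⟩, ⟨600, 606, 1000⟩, ⟨120, 201, 1000⟩, ⟨920, 1321, 1000⟩⟩ = true := by
  decide +kernel

theorem p3hEHL_pos :
    PosBox ⟨⟨0, 1001, 1000⟩, ⟨600, 606, 1000⟩, ⟨120, 201, 1000⟩, ⟨920, 1321, 1000⟩⟩ (piece3.hEH xTL) :=
  posBox_of_check p3hEHL_1

theorem p3hPUL_1 :
    (piece3.hPU xTL).checkQuick
      ⟨396, ⟨5, 8, 11, 12⟩⟩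
      ⟨⟨0, 1001, 1000⟩, ⟨600, 606, 1000⟩, ⟨120, 201, 1000⟩, ⟨920, 1321, 1000⟩⟩ = true := by
  decide +kernel

theorem p3hPUL_pos :
    PosBox ⟨⟨0, 1001, 1000⟩, ⟨600, 606, 1000⟩, ⟨120, 201, 1000⟩, ⟨920, 1321, 1000⟩⟩ (piece3.hPU xTL) :=
  posBox_of_check p3hPUL_1

theorem p3hKUL_1 :
    (piece3.hKU xTL).checkQuick
      ⟨396, ⟨5, 8, 11, 12⟩⟩
      ⟨⟨0, 1001, 1000⟩, ⟨600, 606, 1000⟩, ⟨120, 201, 1000⟩, ⟨920, 1321, 1000⟩⟩ = true := by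
  decide +kernel

theorem p3hKUL_pos :
    PosBox ⟨⟨0, 1001, 1000⟩, ⟨600, 606, 1000⟩, ⟨120, 201, 1000⟩, ⟨920, 1321, 1000⟩⟩ (piece3.hKU xTL) :=
  posBox_of_check p3hKUL_1

theorem p3hKLL_1 :
    (piece3.hKL xTL).checkQuick
      ⟨396, ⟨5, 8, 11, 12⟩⟩
      ⟨⟨0, 1001, 1000⟩, ⟨600, 606, 1000⟩, ⟨120, 201, 1000⟩, ⟨920, 1321, 1000⟩⟩ = true := by
  decide +kernel

theorem p3hKLL_pos :
    PosBox ⟨⟨0, 1001, 1000⟩, ⟨600, 606, 1000⟩, ⟨120, 201, 1000⟩, ⟨920, 1321, 1000⟩⟩ (piece3.hKL xTL) :=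
  posBox_of_check p3hKLL_1

theorem p3hWUL_1 :
    (piece3.hWU xTL).checkQuick
      ⟨397, ⟨5, 7, 11, 12⟩⟩
      ⟨⟨0, 1001, 1000⟩, ⟨600, 606, 1000⟩, ⟨120, 201, 1000⟩, ⟨920, 1321, 1000⟩⟩ = true := by
  decide +kernel

theorem p3hWUL_pos :
    PosBox ⟨⟨0, 1001, 1000⟩, ⟨600, 606, 1000⟩, ⟨120, 201, 1000⟩, ⟨920, 1321, 1000⟩⟩ (piece3.hWU xTL) :=
  posBox_of_check p3hWUL_1

theorem p3hWLL_1 :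
    (piece3.hWL xTL).checkQuick
      ⟨397, ⟨5, 7, 11, 12⟩⟩
      ⟨⟨0, 1001, 1000⟩, ⟨600, 606, 1000⟩, ⟨120, 201, 1000⟩, ⟨920, 1321, 1000⟩⟩ = true := by
  decide +kernel

theorem p3hWLL_pos :
    PosBox ⟨⟨0, 1001, 1000⟩, ⟨600, 606, 1000⟩, ⟨120, 201, 1000⟩, ⟨920, 1321, 1000⟩⟩ (piece3.hWL xTL) :=
  posBox_of_check p3hWLL_1

theorem p3hELU_1 :
    (piece3.hEL xTU).checkQuick
      ⟨376, ⟨5, 8, 10, 11⟩⟩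
      ⟨⟨0, 1001, 1000⟩, ⟨600, 606, 1000⟩, ⟨120, 201, 1000⟩, ⟨920, 1321, 1000⟩⟩ = true := by
  decide +kernel

theorem p3hELU_pos :
    PosBox ⟨⟨0, 1001, 1000⟩, ⟨600, 606, 1000⟩, ⟨120, 201, 1000⟩, ⟨920, 1321, 1000⟩⟩ (piece3.hEL xTU) :=
  posBox_of_check p3hELU_1

theorem p3hEHU_1 :
    (piece3.hEH xTU).checkQuick
      ⟨376, ⟨5, 8, 11, 11⟩⟩
      ⟨⟨0, 1001, 1000⟩, ⟨600, 606, 1000⟩, ⟨120, 201, 1000⟩, ⟨920, 1321, 1000⟩⟩ = true := by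
  decide +kernel

theorem p3hEHU_pos :
    PosBox ⟨⟨0, 1001, 1000⟩, ⟨600, 606, 1000⟩, ⟨120, 201, 1000⟩, ⟨920, 1321, 1000⟩⟩ (piece3.hEH xTU) :=
  posBox_of_check p3hEHU_1

theorem p3hPUU_1 :
    (piece3.hPU xTU).checkQuick
      ⟨397, ⟨5, 8, 11, 12⟩⟩
      ⟨⟨0, 500, 1000⟩, ⟨600, 606, 1000⟩, ⟨120, 201, 1000⟩, ⟨920, 1321, 1000⟩⟩ = true := by
  decide +kernel

theorem p3hPUU_2 :
    (piece3.hPU xTU).checkQuick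
      ⟨399, ⟨5, 8, 11, 12⟩⟩
      ⟨⟨500, 1001, 1000⟩, ⟨600, 606, 1000⟩, ⟨120, 201, 1000⟩, ⟨920, 1321, 1000⟩⟩ = true := by
  decide +kernel

theorem p3hPUU_pos :
    PosBox ⟨⟨0, 1001, 1000⟩, ⟨600, 606, 1000⟩, ⟨120, 201, 1000⟩, ⟨920, 1321, 1000⟩⟩ (piece3.hPU xTU) :=
  posBox_join₀ (posBox_of_check p3hPUU_1) (posBox_of_check p3hPUU_2)

theorem p3hKUU_1 :
    (piece3.hKU xTU).checkQuick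
      ⟨398, ⟨5, 8, 11, 12⟩⟩
      ⟨⟨0, 1001, 1000⟩, ⟨600, 606, 1000⟩, ⟨120, 201, 1000⟩, ⟨920, 1321, 1000⟩⟩ = true := by
  decide +kernel

theorem p3hKUU_pos :
    PosBox ⟨⟨0, 1001, 1000⟩, ⟨600, 606, 1000⟩, ⟨120, 201, 1000⟩, ⟨920, 1321, 1000⟩⟩ (piece3.hKU xTU) :=
  posBox_of_check p3hKUU_1

theorem p3hKLU_1 :
    (piece3.hKL xTU).checkQuick
      ⟨398, ⟨5, 8, 11, 12⟩⟩
      ⟨⟨0, 1001, 1000⟩, ⟨600, 606, 1000⟩, ⟨120, 201, 1000⟩, ⟨920, 1321, 1000⟩⟩ = true := by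
  decide +kernel

theorem p3hKLU_pos :
    PosBox ⟨⟨0, 1001, 1000⟩, ⟨600, 606, 1000⟩, ⟨120, 201, 1000⟩, ⟨920, 1321, 1000⟩⟩ (piece3.hKL xTU) :=
  posBox_of_check p3hKLU_1

theorem p3hWUU_1 :
    (piece3.hWU xTU).checkQuick
      ⟨400, ⟨5, 7, 11, 12⟩⟩
      ⟨⟨0, 1001, 1000⟩, ⟨600, 606, 1000⟩, ⟨120, 201, 1000⟩, ⟨920, 1321, 1000⟩⟩ = true := by
  decide +kernel

theorem p3hWUU_pos :
    PosBox ⟨⟨0, 1001, 1000⟩, ⟨600, 606, 1000⟩, ⟨120, 201, 1000⟩, ⟨920, 1321, 1000⟩⟩ (piece3.hWU xTU) :=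
  posBox_of_check p3hWUU_1

theorem p3hWLU_1 :
    (piece3.hWL xTU).checkQuick
      ⟨399, ⟨5, 7, 11, 12⟩⟩
      ⟨⟨0, 1001, 1000⟩, ⟨600, 606, 1000⟩, ⟨120, 201, 1000⟩, ⟨920, 1321, 1000⟩⟩ = true := by
  decide +kernel

theorem p3hWLU_pos :
    PosBox ⟨⟨0, 1001, 1000⟩, ⟨600, 606, 1000⟩, ⟨120, 201, 1000⟩, ⟨920, 1321, 1000⟩⟩ (piece3.hWL xTU) :=
  posBox_of_check p3hWLU_1

end Vale.Agent.P100.Calib.Closed.Large
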