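import Vale.Agent.P100.Calib.SlabLargePieces

/-!
# Checks of the certificate for `3/25 ≤ d`, `0 < u ≤ 3/5`
-/

namespace Vale.Agent.P100.Calib.Closed.Large

open BoxPos

theorem gxP0Gap_1 :
    (xP0Gap).checkQuick
      ⟨59, ⟨0, 2, 3, 1⟩⟩
      ⟨⟨0, 1001, 1000⟩, ⟨600, 606, 1000⟩, ⟨120, 160, 1000⟩, ⟨350, 1322, 1000⟩⟩ = true := by
  decide +kernel

theorem gxP0Gap_2 :
    (xP0Gap).checkQuick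
      ⟨59, ⟨0, 2, 3, 1⟩⟩
      ⟨⟨0, 1001, 1000⟩, ⟨600, 606, 1000⟩, ⟨160, 180, 1000⟩, ⟨350, 1322, 1000⟩⟩ = true := by
  decide +kernel

theorem gxP0Gap_3 :
    (xP0Gap).checkQuick
      ⟨59, ⟨0, 2, 3, 1⟩⟩
      ⟨⟨0, 1001, 1000⟩, ⟨600, 606, 1000⟩, ⟨180, 201, 1000⟩, ⟨350, 1322, 1000⟩⟩ = true := by
  decide +kernel

theorem gxP0Gap_pos :
    PosBox ⟨⟨0, 1001, 1000⟩, ⟨600, 606, 1000⟩, ⟨120, 201, 1000⟩, ⟨350, 1322, 1000⟩⟩ (xP0Gap) :=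
  posBox_join₂ (posBox_of_check gxP0Gap_1) (posBox_join₂ (posBox_of_check gxP0Gap_2)
    (posBox_of_check gxP0Gap_3))

theorem ghVG_1 :
    (hVG).checkQuick
      ⟨143, ⟨0, 5, 8, 3⟩⟩
      ⟨⟨0, 1001, 1000⟩, ⟨600, 606, 1000⟩, ⟨120, 201, 1000⟩, ⟨350, 1322, 1000⟩⟩ = true := by
  decide +kernel

theorem ghVG_pos :
    PosBox ⟨⟨0, 1001, 1000⟩, ⟨600, 606, 1000⟩, ⟨120, 201, 1000⟩, ⟨350, 1322, 1000⟩⟩ (hVG) :=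
  posBox_of_check ghVG_1

theorem ghVMG_1 :
    (hVMG).checkQuick
      ⟨154, ⟨0, 4, 8, 4⟩⟩
      ⟨⟨0, 1001, 1000⟩, ⟨600, 606, 1000⟩, ⟨120, 201, 1000⟩, ⟨350, 1322, 1000⟩⟩ = true := by
  decide +kernel

theorem ghVMG_pos :
    PosBox ⟨⟨0, 1001, 1000⟩, ⟨600, 606, 1000⟩, ⟨120, 201, 1000⟩, ⟨350, 1322, 1000⟩⟩ (hVMG) :=
  posBox_of_check ghVMG_1

theorem ghAk_1 :
    (hAk).checkQuick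
      ⟨140, ⟨0, 4, 6, 4⟩⟩
      ⟨⟨0, 1001, 1000⟩, ⟨600, 606, 1000⟩, ⟨120, 201, 1000⟩, ⟨350, 1322, 1000⟩⟩ = true := by
  decide +kernel

theorem ghAk_pos :
    PosBox ⟨⟨0, 1001, 1000⟩, ⟨600, 606, 1000⟩, ⟨120, 201, 1000⟩, ⟨350, 1322, 1000⟩⟩ (hAk) :=
  posBox_of_check ghAk_1

theorem ghAw_1 :
    (hAw).checkQuick
      ⟨138, ⟨0, 5, 7, 3⟩⟩
      ⟨⟨0, 1001, 1000⟩, ⟨600, 606, 1000⟩, ⟨120, 201, 1000⟩, ⟨350, 1322, 1000⟩⟩ = true := by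
  decide +kernel

theorem ghAw_pos :
    PosBox ⟨⟨0, 1001, 1000⟩, ⟨600, 606, 1000⟩, ⟨120, 201, 1000⟩, ⟨350, 1322, 1000⟩⟩ (hAw) :=
  posBox_of_check ghAw_1

theorem ghGk_1 :
    (hGk).checkQuick
      ⟨140, ⟨0, 4, 6, 4⟩⟩
      ⟨⟨0, 1001, 1000⟩, ⟨600, 606, 1000⟩, ⟨120, 201, 1000⟩, ⟨350, 1322, 1000⟩⟩ = true := by
  decide +kernel

theorem ghGk_pos :
    PosBox ⟨⟨0, 1001, 1000⟩, ⟨600, 606, 1000⟩, ⟨120, 201, 1000⟩, ⟨350, 1322, 1000⟩⟩ (hGk) :=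
  posBox_of_check ghGk_1

theorem ghGw_1 :
    (hGw).checkQuick
      ⟨138, ⟨0, 5, 7, 3⟩⟩
      ⟨⟨0, 1001, 1000⟩, ⟨600, 606, 1000⟩, ⟨120, 201, 1000⟩, ⟨350, 1322, 1000⟩⟩ = true := by
  decide +kernel

theorem ghGw_pos :
    PosBox ⟨⟨0, 1001, 1000⟩, ⟨600, 606, 1000⟩, ⟨120, 201, 1000⟩, ⟨350, 1322, 1000⟩⟩ (hGw) :=
  posBox_of_check ghGw_1

theorem ghMk_1 :
    (hMk).checkQuick
      ⟨83, ⟨0, 2, 3, 3⟩⟩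
      ⟨⟨0, 1001, 1000⟩, ⟨600, 606, 1000⟩, ⟨120, 201, 1000⟩, ⟨350, 1322, 1000⟩⟩ = true := by
  decide +kernel

theorem ghMk_pos :
    PosBox ⟨⟨0, 1001, 1000⟩, ⟨600, 606, 1000⟩, ⟨120, 201, 1000⟩, ⟨350, 1322, 1000⟩⟩ (hMk) :=
  posBox_of_check ghMk_1

theorem ghMw_1 :
    (hMw).checkQuick
      ⟨81, ⟨0, 3, 4, 2⟩⟩
      ⟨⟨0, 1001, 1000⟩, ⟨600, 606, 1000⟩, ⟨120, 201, 1000⟩, ⟨350, 1322, 1000⟩⟩ = true := by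
  decide +kernel

theorem ghMw_pos :
    PosBox ⟨⟨0, 1001, 1000⟩, ⟨600, 606, 1000⟩, ⟨120, 201, 1000⟩, ⟨350, 1322, 1000⟩⟩ (hMw) :=
  posBox_of_check ghMw_1

theorem ghQ_1 :
    (hQ).checkQuick
      ⟨88, ⟨4, 2, 2, 1⟩⟩
      ⟨⟨0, 601, 1000⟩, ⟨600, 606, 1000⟩, ⟨120, 201, 1000⟩, ⟨350, 1322, 1000⟩⟩ = true := by
  decide +kernel

theorem ghQ_pos :
    PosBox ⟨⟨0, 601, 1000⟩, ⟨600, 606, 1000⟩, ⟨120, 201, 1000⟩, ⟨350, 1322, 1000⟩⟩ (hQ) :=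
  posBox_of_check ghQ_1

theorem ghLLG00_1 :
    (hLLG (cC 0) (cC 0)).checkQuick
      ⟨146, ⟨0, 4, 7, 4⟩⟩
      ⟨⟨0, 1001, 1000⟩, ⟨600, 606, 1000⟩, ⟨120, 201, 1000⟩, ⟨350, 1322, 1000⟩⟩ = true := by
  decide +kernel

theorem ghLLG00_pos :
    PosBox ⟨⟨0, 1001, 1000⟩, ⟨600, 606, 1000⟩, ⟨120, 201, 1000⟩, ⟨350, 1322, 1000⟩⟩ (hLLG (cC 0) (cC 0)) :=
  posBox_of_check ghLLG00_1

theorem ghLLG093100_1 :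
    (hLLG (cC 0) (cC 93 100)).checkQuick
      ⟨152, ⟨0, 4, 7, 4⟩⟩
      ⟨⟨0, 1001, 1000⟩, ⟨600, 606, 1000⟩, ⟨120, 201, 1000⟩, ⟨350, 1322, 1000⟩⟩ = true := by
  decide +kernel

theorem ghLLG093100_pos :
    PosBox ⟨⟨0, 1001, 1000⟩, ⟨600, 606, 1000⟩, ⟨120, 201, 1000⟩, ⟨350, 1322, 1000⟩⟩ (hLLG (cC 0) (cC 93 100)) :=
  posBox_of_check ghLLG093100_1

theorem ghLLG520_1 :
    (hLLG (cC 5 2) (cC 0)).checkQuick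
      ⟨147, ⟨0, 4, 7, 4⟩⟩
      ⟨⟨0, 1001, 1000⟩, ⟨600, 606, 1000⟩, ⟨120, 201, 1000⟩, ⟨350, 1322, 1000⟩⟩ = true := by
  decide +kernel

theorem ghLLG520_pos :
    PosBox ⟨⟨0, 1001, 1000⟩, ⟨600, 606, 1000⟩, ⟨120, 201, 1000⟩, ⟨350, 1322, 1000⟩⟩ (hLLG (cC 5 2) (cC 0)) :=
  posBox_of_check ghLLG520_1

theorem ghLLG5293100_1 :
    (hLLG (cC 5 2) (cC 93 100)).checkQuick
      ⟨153, ⟨0, 4, 7, 4⟩⟩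
      ⟨⟨0, 1001, 1000⟩, ⟨600, 606, 1000⟩, ⟨120, 201, 1000⟩, ⟨350, 1322, 1000⟩⟩ = true := by
  decide +kernel

theorem ghLLG5293100_pos :
    PosBox ⟨⟨0, 1001, 1000⟩, ⟨600, 606, 1000⟩, ⟨120, 201, 1000⟩, ⟨350, 1322, 1000⟩⟩ (hLLG (cC 5 2) (cC 93 100)) :=
  posBox_of_check ghLLG5293100_1

end Vale.Agent.P100.Calib.Closed.Large
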