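import Vale.Agent.P100.Calib.SlabLargePieces

/-!
# Checks of the certificate for `3/25 ≤ d`, `0 < u ≤ 3/5`
-/

namespace Vale.Agent.P100.Calib.Closed.Large

open BoxPos

theorem p2hGLo_1 :
    (piece2.hG xP0).checkQuick
      ⟨230, ⟨0, 7, 12, 6⟩⟩
      ⟨⟨0, 1001, 1000⟩, ⟨600, 606, 1000⟩, ⟨120, 201, 1000⟩, ⟨730, 921, 1000⟩⟩ = true := by
  decide +kernel

theorem p2hGLo_pos :
    PosBox ⟨⟨0, 1001, 1000⟩, ⟨600, 606, 1000⟩, ⟨120, 201, 1000⟩, ⟨730, 921, 1000⟩⟩ (piece2.hG xP0) :=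
  posBox_of_check p2hGLo_1

theorem p2hMZeroLo_1 :
    (piece2.hM₀ xP0).checkQuick
      ⟨176, ⟨1, 5, 8, 6⟩⟩
      ⟨⟨0, 1001, 1000⟩, ⟨600, 606, 1000⟩, ⟨120, 201, 1000⟩, ⟨730, 921, 1000⟩⟩ = true := by
  decide +kernel

theorem p2hMZeroLo_pos :
    PosBox ⟨⟨0, 1001, 1000⟩, ⟨600, 606, 1000⟩, ⟨120, 201, 1000⟩, ⟨730, 921, 1000⟩⟩ (piece2.hM₀ xP0) :=
  posBox_of_check p2hMZeroLo_1

theorem p2hTMGLo_1 :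
    (piece2.hTMG xP0).checkQuick
      ⟨252, ⟨2, 7, 12, 7⟩⟩
      ⟨⟨0, 1001, 1000⟩, ⟨600, 606, 1000⟩, ⟨120, 201, 1000⟩, ⟨730, 921, 1000⟩⟩ = true := by
  decide +kernel

theorem p2hTMGLo_pos :
    PosBox ⟨⟨0, 1001, 1000⟩, ⟨600, 606, 1000⟩, ⟨120, 201, 1000⟩, ⟨730, 921, 1000⟩⟩ (piece2.hTMG xP0) :=
  posBox_of_check p2hTMGLo_1

theorem p2hGHi_1 :
    (piece2.hG piece2.xPU).checkQuick
      ⟨303, ⟨2, 7, 12, 9⟩⟩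
      ⟨⟨0, 1001, 1000⟩, ⟨600, 606, 1000⟩, ⟨120, 201, 1000⟩, ⟨730, 921, 1000⟩⟩ = true := by
  decide +kernel

theorem p2hGHi_pos :
    PosBox ⟨⟨0, 1001, 1000⟩, ⟨600, 606, 1000⟩, ⟨120, 201, 1000⟩, ⟨730, 921, 1000⟩⟩ (piece2.hG piece2.xPU) :=
  posBox_of_check p2hGHi_1

theorem p2hMZeroHi_1 :
    (piece2.hM₀ piece2.xPU).checkQuick
      ⟨211, ⟨2, 5, 8, 6⟩⟩
      ⟨⟨0, 1001, 1000⟩, ⟨600, 606, 1000⟩, ⟨120, 201, 1000⟩, ⟨730, 921, 1000⟩⟩ = true := by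
  decide +kernel

theorem p2hMZeroHi_pos :
    PosBox ⟨⟨0, 1001, 1000⟩, ⟨600, 606, 1000⟩, ⟨120, 201, 1000⟩, ⟨730, 921, 1000⟩⟩ (piece2.hM₀ piece2.xPU) :=
  posBox_of_check p2hMZeroHi_1

theorem p2hTMGHi_1 :
    (piece2.hTMG piece2.xPU).checkQuick
      ⟨322, ⟨2, 7, 12, 10⟩⟩
      ⟨⟨0, 1001, 1000⟩, ⟨600, 606, 1000⟩, ⟨120, 201, 1000⟩, ⟨730, 921, 1000⟩⟩ = true := by
  decide +kernel

theorem p2hTMGHi_pos :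
    PosBox ⟨⟨0, 1001, 1000⟩, ⟨600, 606, 1000⟩, ⟨120, 201, 1000⟩, ⟨730, 921, 1000⟩⟩ (piece2.hTMG piece2.xPU) :=
  posBox_of_check p2hTMGHi_1

theorem p2hV2p_1 :
    (piece2.hV2p).checkQuick
      ⟨228, ⟨1, 6, 10, 6⟩⟩
      ⟨⟨0, 1001, 1000⟩, ⟨600, 606, 1000⟩, ⟨120, 201, 1000⟩, ⟨730, 921, 1000⟩⟩ = true := by
  decide +kernel

theorem p2hV2p_pos :
    PosBox ⟨⟨0, 1001, 1000⟩, ⟨600, 606, 1000⟩, ⟨120, 201, 1000⟩, ⟨730, 921, 1000⟩⟩ (piece2.hV2p) :=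
  posBox_of_check p2hV2p_1

theorem p2hV2m_1 :
    (piece2.hV2m).checkQuick
      ⟨227, ⟨1, 6, 10, 6⟩⟩
      ⟨⟨0, 1001, 1000⟩, ⟨600, 606, 1000⟩, ⟨120, 201, 1000⟩, ⟨730, 921, 1000⟩⟩ = true := by
  decide +kernel

theorem p2hV2m_pos :
    PosBox ⟨⟨0, 1001, 1000⟩, ⟨600, 606, 1000⟩, ⟨120, 201, 1000⟩, ⟨730, 921, 1000⟩⟩ (piece2.hV2m) :=
  posBox_of_check p2hV2m_1

end Vale.Agent.P100.Calib.Closed.Large
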