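import Vale.Agent.P100.Calib.SlabLargeSigns
import Vale.Agent.P100.Calib.SlabLargeGlobal
import Vale.Agent.P100.Calib.SlabLargeEnv0
import Vale.Agent.P100.Calib.SlabLargeEnv1
import Vale.Agent.P100.Calib.SlabLargeEnv2
import Vale.Agent.P100.Calib.SlabLargeEnv3
import Vale.Agent.P100.Calib.SlabLargeArrow0
import Vale.Agent.P100.Calib.SlabLargeArrow1
import Vale.Agent.P100.Calib.SlabLargeArrow2
import Vale.Agent.P100.Calib.SlabLargeArrow3
import Vale.Agent.P100.Calib.SlabLargeRest0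
import Vale.Agent.P100.Calib.SlabLargeRest1
import Vale.Agent.P100.Calib.SlabLargeRest2
import Vale.Agent.P100.Calib.SlabLargeRest3

/-!
# The closed signs for `0 < u ≤ 3/5`, `3/25 ≤ d`
-/

namespace Vale.Agent.P100.Calib.Closed

open BoxPos Large

theorem common : Large.Common where
  p0 := gxP0Gap_pos
  vG := ghVG_pos
  vMG := ghVMG_pos
  aK := ghAk_pos
  aW := ghAw_pos
  gK := ghGk_pos
  gW := ghGw_pos
  mK := ghMk_pos
  mW := ghMw_pos
  q := ghQ_pos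
  l00 := ghLLG00_pos
  l01 := ghLLG093100_pos
  l10 := ghLLG520_pos
  l11 := ghLLG5293100_pos

theorem piece0_checked : piece0.Checked where
  mu_nonneg := by decide
  lo_ge := by decide
  hi_le := by decide
  room := p0xRoom_pos
  phi := .inr ⟨rfl, rfl, rfl, rfl⟩
  eLL := p0hELL_pos
  eLU := p0hELU_pos
  eHL := p0hEHL_pos
  eHU := p0hEHU_pos
  pUL := p0hPUL_pos
  pUU := p0hPUU_pos
  kUL := p0hKUL_pos
  kUU := p0hKUU_pos
  kLL := p0hKLL_pos
  kLU := p0hKLU_pos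
  wUL := p0hWUL_pos
  wUU := p0hWUU_pos
  wLL := p0hWLL_pos
  wLU := p0hWLU_pos
  gLo := p0hGLo_pos
  gHi := p0hGHi_pos
  mLo := p0hMZeroLo_pos
  mHi := p0hMZeroHi_pos
  c1Lo := p0hC1Lo_pos
  c1Hi := p0hC1Hi_pos
  c2pLo := p0hC2pLo_pos
  c2pHi := p0hC2pHi_pos
  c2mLo := p0hC2mLo_pos
  c2mHi := p0hC2mHi_pos
  c3pLo := p0hC3pLo_pos
  c3pHi := p0hC3pHi_pos
  c3mLo := p0hC3mLo_pos
  c3mHi := p0hC3mHi_pos
  tmgLo := p0hTMGLo_pos
  tmgHi := p0hTMGHi_pos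
  v2p := p0hV2p_pos
  v2m := p0hV2m_pos
  v3p := p0hV3p_pos
  v3m := p0hV3m_pos

theorem piece1_checked : piece1.Checked where
  mu_nonneg := by decide
  lo_ge := by decide
  hi_le := by decide
  room := p1xRoom_pos
  phi := .inl p1xPhi_pos
  eLL := p1hELL_pos
  eLU := p1hELU_pos
  eHL := p1hEHL_pos
  eHU := p1hEHU_pos
  pUL := p1hPUL_pos
  pUU := p1hPUU_pos
  kUL := p1hKUL_pos
  kUU := p1hKUU_pos
  kLL := p1hKLL_pos
  kLU := p1hKLU_pos
  wUL := p1hWUL_pos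
  wUU := p1hWUU_pos
  wLL := p1hWLL_pos
  wLU := p1hWLU_pos
  gLo := p1hGLo_pos
  gHi := p1hGHi_pos
  mLo := p1hMZeroLo_pos
  mHi := p1hMZeroHi_pos
  c1Lo := p1hC1Lo_pos
  c1Hi := p1hC1Hi_pos
  c2pLo := p1hC2pLo_pos
  c2pHi := p1hC2pHi_pos
  c2mLo := p1hC2mLo_pos
  c2mHi := p1hC2mHi_pos
  c3pLo := p1hC3pLo_pos
  c3pHi := p1hC3pHi_pos
  c3mLo := p1hC3mLo_pos
  c3mHi := p1hC3mHi_pos
  tmgLo := p1hTMGLo_pos
  tmgHi := p1hTMGHi_pos
  v2p := p1hV2p_pos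
  v2m := p1hV2m_pos
  v3p := p1hV3p_pos
  v3m := p1hV3m_pos

theorem piece2_checked : piece2.Checked where
  mu_nonneg := by decide
  lo_ge := by decide
  hi_le := by decide
  room := p2xRoom_pos
  phi := .inl p2xPhi_pos
  eLL := p2hELL_pos
  eLU := p2hELU_pos
  eHL := p2hEHL_pos
  eHU := p2hEHU_pos
  pUL := p2hPUL_pos
  pUU := p2hPUU_pos
  kUL := p2hKUL_pos
  kUU := p2hKUU_pos
  kLL := p2hKLL_pos
  kLU := p2hKLU_pos
  wUL := p2hWUL_pos
  wUU := p2hWUU_pos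
  wLL := p2hWLL_pos
  wLU := p2hWLU_pos
  gLo := p2hGLo_pos
  gHi := p2hGHi_pos
  mLo := p2hMZeroLo_pos
  mHi := p2hMZeroHi_pos
  c1Lo := p2hC1Lo_pos
  c1Hi := p2hC1Hi_pos
  c2pLo := p2hC2pLo_pos
  c2pHi := p2hC2pHi_pos
  c2mLo := p2hC2mLo_pos
  c2mHi := p2hC2mHi_pos
  c3pLo := p2hC3pLo_pos
  c3pHi := p2hC3pHi_pos
  c3mLo := p2hC3mLo_pos
  c3mHi := p2hC3mHi_pos
  tmgLo := p2hTMGLo_pos
  tmgHi := p2hTMGHi_pos
  v2p := p2hV2p_pos
  v2m := p2hV2m_pos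
  v3p := p2hV3p_pos
  v3m := p2hV3m_pos

theorem piece3_checked : piece3.Checked where
  mu_nonneg := by decide
  lo_ge := by decide
  hi_le := by decide
  room := p3xRoom_pos
  phi := .inl p3xPhi_pos
  eLL := p3hELL_pos
  eLU := p3hELU_pos
  eHL := p3hEHL_pos
  eHU := p3hEHU_pos
  pUL := p3hPUL_pos
  pUU := p3hPUU_pos
  kUL := p3hKUL_pos
  kUU := p3hKUU_pos
  kLL := p3hKLL_pos
  kLU := p3hKLU_pos
  wUL := p3hWUL_pos
  wUU := p3hWUU_pos
  wLL := p3hWLL_pos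
  wLU := p3hWLU_pos
  gLo := p3hGLo_pos
  gHi := p3hGHi_pos
  mLo := p3hMZeroLo_pos
  mHi := p3hMZeroHi_pos
  c1Lo := p3hC1Lo_pos
  c1Hi := p3hC1Hi_pos
  c2pLo := p3hC2pLo_pos
  c2pHi := p3hC2pHi_pos
  c2mLo := p3hC2mLo_pos
  c2mHi := p3hC2mHi_pos
  c3pLo := p3hC3pLo_pos
  c3pHi := p3hC3pHi_pos
  c3mLo := p3hC3mLo_pos
  c3mHi := p3hC3mHi_pos
  tmgLo := p3hTMGLo_pos
  tmgHi := p3hTMGHi_pos
  v2p := p3hV2p_pos
  v2m := p3hV2m_pos
  v3p := p3hV3p_pos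
  v3m := p3hV3m_pos

/-- **The closed signs for `0 < u ≤ 3/5`, `3/25 ≤ d`.** -/
theorem signsLarge : SignsLarge := by
  intro d S u v t hb hd u0 u1 hf hphi hL hU
  have hL' : rTL d u < t := hL
  have hU' : t < rTU d u := hU
  have hdd := hb.diff
  have hv0 : (7 : ℝ) / 20 ≤ v := hf.v_low
  have hv1 : v < 1321 / 1000 := by
    have h1 : (18 / 25 - 3 / 25 * d) * u ≤ (18 / 25 - 3 / 25 * d) * (3 / 5) :=
      mul_le_mul_of_nonneg_left u1 (by linarith)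
    have h2 : (13 / 50 + 3 / 100 * d) * u ^ 2 / (483 / 500 - u) ≤
        (13 / 50 + 3 / 100 * d) * (3 / 5) ^ 2 / (483 / 500 - 3 / 5) :=
      div_le_div₀ (mul_nonneg (by linarith) (sq_nonneg _))
        (mul_le_mul_of_nonneg_left (pow_le_pow_left₀ u0.le u1 2) (by linarith)) (by norm_num)
        (by linarith)
    norm_num at h2
    linarith
  rcases lt_or_ge v (601 / 1000) with h | h
  · exact Piece.signs piece0_checked common hb hd u0 u1 hf hphi hL' hU'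
      (by norm_num [piece0]; linarith) (by norm_num [piece0]; linarith)
  rcases lt_or_ge v (731 / 1000) with h' | h'
  · exact Piece.signs piece1_checked common hb hd u0 u1 hf hphi hL' hU'
      (by norm_num [piece1]; linarith) (by norm_num [piece1]; linarith)
  rcases lt_or_ge v (921 / 1000) with h'' | h''
  · exact Piece.signs piece2_checked common hb hd u0 u1 hf hphi hL' hU'
      (by norm_num [piece2]; linarith) (by norm_num [piece2]; linarith)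
  · exact Piece.signs piece3_checked common hb hd u0 u1 hf hphi hL' hU'
      (by norm_num [piece3]; linarith) (by norm_num [piece3]; linarith)

end Vale.Agent.P100.Calib.Closed
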