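import Vale.Agent.P100.Calib.SlabSignsSmallPieces

/-!
# Checks of the certificate for `d ≤ 3/25`, `0 < u ≤ 3/5`
-/

namespace Vale.Agent.P100.Calib.Closed.Small

open BoxPos Large

theorem p1allFourLo :
    ((piece1.hC2p xP0).checkQuick ⟨311, ⟨2, 8, 14, 9⟩⟩
        ⟨⟨0, 1001, 1000⟩, ⟨600, 606, 1000⟩, ⟨0, 121, 1000⟩, ⟨460, 701, 1000⟩⟩ &&
      (piece1.hC2m xP0).checkQuick ⟨311, ⟨2, 8, 14, 9⟩⟩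
        ⟨⟨0, 1001, 1000⟩, ⟨600, 606, 1000⟩, ⟨0, 121, 1000⟩, ⟨460, 701, 1000⟩⟩ &&
      (piece1.hC3p xP0).checkQuick ⟨311, ⟨2, 8, 14, 9⟩⟩
        ⟨⟨0, 1001, 1000⟩, ⟨600, 606, 1000⟩, ⟨0, 121, 1000⟩, ⟨460, 701, 1000⟩⟩ &&
      (piece1.hC3m xP0).checkQuick ⟨311, ⟨2, 8, 14, 9⟩⟩
        ⟨⟨0, 1001, 1000⟩, ⟨600, 606, 1000⟩, ⟨0, 121, 1000⟩, ⟨460, 701, 1000⟩⟩) = true := by
  decide +kernel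

theorem p1hC2pLo_pos :
    PosBox ⟨⟨0, 1001, 1000⟩, ⟨600, 606, 1000⟩, ⟨0, 121, 1000⟩, ⟨460, 701, 1000⟩⟩ (piece1.hC2p xP0) :=
  posBox_of_check (and_four p1allFourLo).1

theorem p1hC2mLo_pos :
    PosBox ⟨⟨0, 1001, 1000⟩, ⟨600, 606, 1000⟩, ⟨0, 121, 1000⟩, ⟨460, 701, 1000⟩⟩ (piece1.hC2m xP0) :=
  posBox_of_check (and_four p1allFourLo).2.1

theorem p1hC3pLo_pos :
    PosBox ⟨⟨0, 1001, 1000⟩, ⟨600, 606, 1000⟩, ⟨0, 121, 1000⟩, ⟨460, 701, 1000⟩⟩ (piece1.hC3p xP0) :=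
  posBox_of_check (and_four p1allFourLo).2.2.1

theorem p1hC3mLo_pos :
    PosBox ⟨⟨0, 1001, 1000⟩, ⟨600, 606, 1000⟩, ⟨0, 121, 1000⟩, ⟨460, 701, 1000⟩⟩ (piece1.hC3m xP0) :=
  posBox_of_check (and_four p1allFourLo).2.2.2

theorem p1hC2pHi_1 :
    (piece1.hC2p piece1.xPU).checkQuick
      ⟨383, ⟨3, 8, 14, 12⟩⟩
      ⟨⟨0, 1001, 1000⟩, ⟨600, 606, 1000⟩, ⟨0, 60, 1000⟩, ⟨460, 701, 1000⟩⟩ = true := by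
  decide +kernel

theorem p1hC2pHi_2 :
    (piece1.hC2p piece1.xPU).checkQuick
      ⟨386, ⟨3, 8, 14, 12⟩⟩
      ⟨⟨0, 1001, 1000⟩, ⟨600, 606, 1000⟩, ⟨60, 121, 1000⟩, ⟨460, 701, 1000⟩⟩ = true := by
  decide +kernel

theorem p1hC2pHi_pos :
    PosBox ⟨⟨0, 1001, 1000⟩, ⟨600, 606, 1000⟩, ⟨0, 121, 1000⟩, ⟨460, 701, 1000⟩⟩ (piece1.hC2p piece1.xPU) :=
  posBox_join₂ (posBox_of_check p1hC2pHi_1) (posBox_of_check p1hC2pHi_2)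

theorem p1hC2mHi_1 :
    (piece1.hC2m piece1.xPU).checkQuick
      ⟨383, ⟨3, 8, 14, 12⟩⟩
      ⟨⟨0, 1001, 1000⟩, ⟨600, 606, 1000⟩, ⟨0, 121, 1000⟩, ⟨460, 701, 1000⟩⟩ = true := by
  decide +kernel

theorem p1hC2mHi_pos :
    PosBox ⟨⟨0, 1001, 1000⟩, ⟨600, 606, 1000⟩, ⟨0, 121, 1000⟩, ⟨460, 701, 1000⟩⟩ (piece1.hC2m piece1.xPU) :=
  posBox_of_check p1hC2mHi_1

theorem p1hC3pHi_1 :
    (piece1.hC3p piece1.xPU).checkQuick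
      ⟨366, ⟨3, 8, 13, 11⟩⟩
      ⟨⟨0, 1001, 1000⟩, ⟨600, 606, 1000⟩, ⟨0, 121, 1000⟩, ⟨460, 701, 1000⟩⟩ = true := by
  decide +kernel

theorem p1hC3pHi_pos :
    PosBox ⟨⟨0, 1001, 1000⟩, ⟨600, 606, 1000⟩, ⟨0, 121, 1000⟩, ⟨460, 701, 1000⟩⟩ (piece1.hC3p piece1.xPU) :=
  posBox_of_check p1hC3pHi_1

theorem p1hC3mHi_1 :
    (piece1.hC3m piece1.xPU).checkQuick
      ⟨366, ⟨3, 8, 13, 11⟩⟩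
      ⟨⟨0, 1001, 1000⟩, ⟨600, 606, 1000⟩, ⟨0, 121, 1000⟩, ⟨460, 701, 1000⟩⟩ = true := by
  decide +kernel

theorem p1hC3mHi_pos :
    PosBox ⟨⟨0, 1001, 1000⟩, ⟨600, 606, 1000⟩, ⟨0, 121, 1000⟩, ⟨460, 701, 1000⟩⟩ (piece1.hC3m piece1.xPU) :=
  posBox_of_check p1hC3mHi_1

theorem p1hC1Lo_1 :
    (piece1.hC1 xP0).checkQuick
      ⟨205, ⟨2, 5, 8, 6⟩⟩
      ⟨⟨0, 1001, 1000⟩, ⟨600, 606, 1000⟩, ⟨0, 121, 1000⟩, ⟨460, 701, 1000⟩⟩ = true := by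
  decide +kernel

theorem p1hC1Lo_pos :
    PosBox ⟨⟨0, 1001, 1000⟩, ⟨600, 606, 1000⟩, ⟨0, 121, 1000⟩, ⟨460, 701, 1000⟩⟩ (piece1.hC1 xP0) :=
  posBox_of_check p1hC1Lo_1

theorem p1hC1Hi_1 :
    (piece1.hC1 piece1.xPU).checkQuick
      ⟨242, ⟨3, 5, 8, 8⟩⟩
      ⟨⟨0, 500, 1000⟩, ⟨600, 606, 1000⟩, ⟨0, 121, 1000⟩, ⟨460, 701, 1000⟩⟩ = true := by
  decide +kernel

theorem p1hC1Hi_2 :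
    (piece1.hC1 piece1.xPU).checkQuick
      ⟨244, ⟨3, 5, 8, 8⟩⟩
      ⟨⟨500, 1001, 1000⟩, ⟨600, 606, 1000⟩, ⟨0, 121, 1000⟩, ⟨460, 701, 1000⟩⟩ = true := by
  decide +kernel

theorem p1hC1Hi_pos :
    PosBox ⟨⟨0, 1001, 1000⟩, ⟨600, 606, 1000⟩, ⟨0, 121, 1000⟩, ⟨460, 701, 1000⟩⟩ (piece1.hC1 piece1.xPU) :=
  posBox_join₀ (posBox_of_check p1hC1Hi_1) (posBox_of_check p1hC1Hi_2)

theorem p1hV3p_1 :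
    (piece1.hV3p).checkQuick
      ⟨198, ⟨1, 6, 9, 5⟩⟩
      ⟨⟨0, 1001, 1000⟩, ⟨600, 606, 1000⟩, ⟨0, 121, 1000⟩, ⟨460, 701, 1000⟩⟩ = true := by
  decide +kernel

theorem p1hV3p_pos :
    PosBox ⟨⟨0, 1001, 1000⟩, ⟨600, 606, 1000⟩, ⟨0, 121, 1000⟩, ⟨460, 701, 1000⟩⟩ (piece1.hV3p) :=
  posBox_of_check p1hV3p_1

theorem p1hV3m_1 :
    (piece1.hV3m).checkQuick
      ⟨197, ⟨1, 6, 9, 5⟩⟩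
      ⟨⟨0, 1001, 1000⟩, ⟨600, 606, 1000⟩, ⟨0, 121, 1000⟩, ⟨460, 701, 1000⟩⟩ = true := by
  decide +kernel

theorem p1hV3m_pos :
    PosBox ⟨⟨0, 1001, 1000⟩, ⟨600, 606, 1000⟩, ⟨0, 121, 1000⟩, ⟨460, 701, 1000⟩⟩ (piece1.hV3m) :=
  posBox_of_check p1hV3m_1

end Vale.Agent.P100.Calib.Closed.Small
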