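import Vale.Agent.P100.Calib.SlabSignsSmallPieces

/-!
# Checks of the certificate for `d ≤ 3/25`, `0 < u ≤ 3/5`
-/

namespace Vale.Agent.P100.Calib.Closed.Small

open BoxPos Large

theorem p0xRoom_1 :
    (piece0.xRoom).checkQuick
      ⟨40, ⟨0, 0, 1, 2⟩⟩
      ⟨⟨0, 1001, 1000⟩, ⟨600, 606, 1000⟩, ⟨0, 121, 1000⟩, ⟨350, 461, 1000⟩⟩ = true := by
  decide +kernel

theorem p0xRoom_pos :
    PosBox ⟨⟨0, 1001, 1000⟩, ⟨600, 606, 1000⟩, ⟨0, 121, 1000⟩, ⟨350, 461, 1000⟩⟩ (piece0.xRoom) :=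
  posBox_of_check p0xRoom_1

theorem p0hELL_1 :
    (piece0.hEL xTL).checkQuick
      ⟨363, ⟨5, 8, 10, 11⟩⟩
      ⟨⟨0, 1001, 1000⟩, ⟨600, 606, 1000⟩, ⟨0, 121, 1000⟩, ⟨350, 461, 1000⟩⟩ = true := by
  decide +kernel

theorem p0hELL_pos :
    PosBox ⟨⟨0, 1001, 1000⟩, ⟨600, 606, 1000⟩, ⟨0, 121, 1000⟩, ⟨350, 461, 1000⟩⟩ (piece0.hEL xTL) :=
  posBox_of_check p0hELL_1

theorem p0hEHL_1 :
    (hEH piece0 xTL).checkQuick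
      ⟨368, ⟨5, 8, 11, 11⟩⟩
      ⟨⟨0, 1001, 1000⟩, ⟨600, 606, 1000⟩, ⟨0, 121, 1000⟩, ⟨350, 461, 1000⟩⟩ = true := by
  decide +kernel

theorem p0hEHL_pos :
    PosBox ⟨⟨0, 1001, 1000⟩, ⟨600, 606, 1000⟩, ⟨0, 121, 1000⟩, ⟨350, 461, 1000⟩⟩ (hEH piece0 xTL) :=
  posBox_of_check p0hEHL_1

theorem p0hPUL_1 :
    (piece0.hPU xTL).checkQuick
      ⟨386, ⟨5, 8, 11, 12⟩⟩
      ⟨⟨0, 1001, 1000⟩, ⟨600, 606, 1000⟩, ⟨0, 121, 1000⟩, ⟨350, 461, 1000⟩⟩ = true := by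
  decide +kernel

theorem p0hPUL_pos :
    PosBox ⟨⟨0, 1001, 1000⟩, ⟨600, 606, 1000⟩, ⟨0, 121, 1000⟩, ⟨350, 461, 1000⟩⟩ (piece0.hPU xTL) :=
  posBox_of_check p0hPUL_1

theorem p0hKUL_1 :
    (piece0.hKU xTL).checkQuick
      ⟨383, ⟨5, 8, 11, 12⟩⟩
      ⟨⟨0, 1001, 1000⟩, ⟨600, 606, 1000⟩, ⟨0, 121, 1000⟩, ⟨350, 461, 1000⟩⟩ = true := by
  decide +kernel

theorem p0hKUL_pos :
    PosBox ⟨⟨0, 1001, 1000⟩, ⟨600, 606, 1000⟩, ⟨0, 121, 1000⟩, ⟨350, 461, 1000⟩⟩ (piece0.hKU xTL) :=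
  posBox_of_check p0hKUL_1

theorem p0hKLL_1 :
    (piece0.hKL xTL).checkQuick
      ⟨383, ⟨5, 8, 11, 12⟩⟩
      ⟨⟨0, 1001, 1000⟩, ⟨600, 606, 1000⟩, ⟨0, 121, 1000⟩, ⟨350, 461, 1000⟩⟩ = true := by
  decide +kernel

theorem p0hKLL_pos :
    PosBox ⟨⟨0, 1001, 1000⟩, ⟨600, 606, 1000⟩, ⟨0, 121, 1000⟩, ⟨350, 461, 1000⟩⟩ (piece0.hKL xTL) :=
  posBox_of_check p0hKLL_1

theorem p0hWUL_1 :
    (piece0.hWU xTL).checkQuick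
      ⟨386, ⟨5, 7, 11, 12⟩⟩
      ⟨⟨0, 500, 1000⟩, ⟨600, 606, 1000⟩, ⟨0, 121, 1000⟩, ⟨350, 461, 1000⟩⟩ = true := by
  decide +kernel

theorem p0hWUL_2 :
    (piece0.hWU xTL).checkQuick
      ⟨387, ⟨5, 7, 11, 12⟩⟩
      ⟨⟨500, 1001, 1000⟩, ⟨600, 606, 1000⟩, ⟨0, 121, 1000⟩, ⟨350, 461, 1000⟩⟩ = true := by
  decide +kernel

theorem p0hWUL_pos :
    PosBox ⟨⟨0, 1001, 1000⟩, ⟨600, 606, 1000⟩, ⟨0, 121, 1000⟩, ⟨350, 461, 1000⟩⟩ (piece0.hWU xTL) :=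
  posBox_join₀ (posBox_of_check p0hWUL_1) (posBox_of_check p0hWUL_2)

theorem p0hWLL_1 :
    (piece0.hWL xTL).checkQuick
      ⟨387, ⟨5, 7, 11, 12⟩⟩
      ⟨⟨0, 1001, 1000⟩, ⟨600, 606, 1000⟩, ⟨0, 121, 1000⟩, ⟨350, 461, 1000⟩⟩ = true := by
  decide +kernel

theorem p0hWLL_pos :
    PosBox ⟨⟨0, 1001, 1000⟩, ⟨600, 606, 1000⟩, ⟨0, 121, 1000⟩, ⟨350, 461, 1000⟩⟩ (piece0.hWL xTL) :=
  posBox_of_check p0hWLL_1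

theorem p0hELU_1 :
    (piece0.hEL xTU).checkQuick
      ⟨362, ⟨5, 8, 10, 11⟩⟩
      ⟨⟨0, 1001, 1000⟩, ⟨600, 606, 1000⟩, ⟨0, 121, 1000⟩, ⟨350, 461, 1000⟩⟩ = true := by
  decide +kernel

theorem p0hELU_pos :
    PosBox ⟨⟨0, 1001, 1000⟩, ⟨600, 606, 1000⟩, ⟨0, 121, 1000⟩, ⟨350, 461, 1000⟩⟩ (piece0.hEL xTU) :=
  posBox_of_check p0hELU_1

theorem p0hEHU_1 :
    (hEH piece0 xTU).checkQuick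
      ⟨367, ⟨5, 8, 11, 11⟩⟩
      ⟨⟨0, 500, 1000⟩, ⟨600, 606, 1000⟩, ⟨0, 121, 1000⟩, ⟨350, 461, 1000⟩⟩ = true := by
  decide +kernel

theorem p0hEHU_2 :
    (hEH piece0 xTU).checkQuick
      ⟨367, ⟨5, 8, 11, 11⟩⟩
      ⟨⟨500, 750, 1000⟩, ⟨600, 606, 1000⟩, ⟨0, 121, 1000⟩, ⟨350, 461, 1000⟩⟩ = true := by
  decide +kernel

theorem p0hEHU_3 :
    (hEH piece0 xTU).checkQuick
      ⟨367, ⟨5, 8, 11, 11⟩⟩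
      ⟨⟨750, 1001, 1000⟩, ⟨600, 606, 1000⟩, ⟨0, 60, 1000⟩, ⟨350, 461, 1000⟩⟩ = true := by
  decide +kernel

theorem p0hEHU_4 :
    (hEH piece0 xTU).checkQuick
      ⟨367, ⟨5, 8, 11, 11⟩⟩
      ⟨⟨750, 1001, 1000⟩, ⟨600, 606, 1000⟩, ⟨60, 121, 1000⟩, ⟨350, 461, 1000⟩⟩ = true := by
  decide +kernel

theorem p0hEHU_pos :
    PosBox ⟨⟨0, 1001, 1000⟩, ⟨600, 606, 1000⟩, ⟨0, 121, 1000⟩, ⟨350, 461, 1000⟩⟩ (hEH piece0 xTU) :=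
  posBox_join₀ (posBox_of_check p0hEHU_1) (posBox_join₀ (posBox_of_check p0hEHU_2) (posBox_join₂
    (posBox_of_check p0hEHU_3) (posBox_of_check p0hEHU_4)))

theorem p0hPUU_1 :
    (piece0.hPU xTU).checkQuick
      ⟨385, ⟨5, 8, 11, 12⟩⟩
      ⟨⟨0, 250, 1000⟩, ⟨600, 606, 1000⟩, ⟨0, 121, 1000⟩, ⟨350, 461, 1000⟩⟩ = true := by
  decide +kernel

theorem p0hPUU_2 :
    (piece0.hPU xTU).checkQuick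
      ⟨385, ⟨5, 8, 11, 12⟩⟩
      ⟨⟨250, 500, 1000⟩, ⟨600, 606, 1000⟩, ⟨0, 121, 1000⟩, ⟨350, 461, 1000⟩⟩ = true := by
  decide +kernel

theorem p0hPUU_3 :
    (piece0.hPU xTU).checkQuick
      ⟨385, ⟨5, 8, 11, 12⟩⟩
      ⟨⟨500, 750, 1000⟩, ⟨600, 606, 1000⟩, ⟨0, 121, 1000⟩, ⟨350, 461, 1000⟩⟩ = true := by
  decide +kernel

theorem p0hPUU_4 :
    (piece0.hPU xTU).checkQuick
      ⟨385, ⟨5, 8, 11, 12⟩⟩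
      ⟨⟨750, 875, 1000⟩, ⟨600, 606, 1000⟩, ⟨0, 60, 1000⟩, ⟨350, 461, 1000⟩⟩ = true := by
  decide +kernel

theorem p0hPUU_5 :
    (piece0.hPU xTU).checkQuick
      ⟨385, ⟨5, 8, 11, 12⟩⟩
      ⟨⟨875, 1001, 1000⟩, ⟨600, 606, 1000⟩, ⟨0, 60, 1000⟩, ⟨350, 461, 1000⟩⟩ = true := by
  decide +kernel

theorem p0hPUU_6 :
    (piece0.hPU xTU).checkQuick
      ⟨385, ⟨5, 8, 11, 12⟩⟩
      ⟨⟨750, 875, 1000⟩, ⟨600, 606, 1000⟩, ⟨60, 121, 1000⟩, ⟨350, 461, 1000⟩⟩ = true := by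
  decide +kernel

theorem p0hPUU_7 :
    (piece0.hPU xTU).checkQuick
      ⟨385, ⟨5, 8, 11, 12⟩⟩
      ⟨⟨875, 1001, 1000⟩, ⟨600, 606, 1000⟩, ⟨60, 90, 1000⟩, ⟨350, 461, 1000⟩⟩ = true := by
  decide +kernel

theorem p0hPUU_8 :
    (piece0.hPU xTU).checkQuick
      ⟨386, ⟨5, 8, 11, 12⟩⟩
      ⟨⟨875, 1001, 1000⟩, ⟨600, 606, 1000⟩, ⟨90, 121, 1000⟩, ⟨350, 461, 1000⟩⟩ = true := by
  decide +kernel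

theorem p0hPUU_pos :
    PosBox ⟨⟨0, 1001, 1000⟩, ⟨600, 606, 1000⟩, ⟨0, 121, 1000⟩, ⟨350, 461, 1000⟩⟩ (piece0.hPU xTU) :=
  posBox_join₀ (posBox_join₀ (posBox_of_check p0hPUU_1) (posBox_of_check p0hPUU_2))
    (posBox_join₀ (posBox_of_check p0hPUU_3) (posBox_join₂ (posBox_join₀ (posBox_of_check
    p0hPUU_4) (posBox_of_check p0hPUU_5)) (posBox_join₀ (posBox_of_check p0hPUU_6) (posBox_join₂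
    (posBox_of_check p0hPUU_7) (posBox_of_check p0hPUU_8)))))

theorem p0hKUU_1 :
    (piece0.hKU xTU).checkQuick
      ⟨381, ⟨5, 8, 11, 12⟩⟩
      ⟨⟨0, 1001, 1000⟩, ⟨600, 606, 1000⟩, ⟨0, 121, 1000⟩, ⟨350, 461, 1000⟩⟩ = true := by
  decide +kernel

theorem p0hKUU_pos :
    PosBox ⟨⟨0, 1001, 1000⟩, ⟨600, 606, 1000⟩, ⟨0, 121, 1000⟩, ⟨350, 461, 1000⟩⟩ (piece0.hKU xTU) :=
  posBox_of_check p0hKUU_1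

theorem p0hKLU_1 :
    (piece0.hKL xTU).checkQuick
      ⟨381, ⟨5, 8, 11, 12⟩⟩
      ⟨⟨0, 1001, 1000⟩, ⟨600, 606, 1000⟩, ⟨0, 121, 1000⟩, ⟨350, 461, 1000⟩⟩ = true := by
  decide +kernel

theorem p0hKLU_pos :
    PosBox ⟨⟨0, 1001, 1000⟩, ⟨600, 606, 1000⟩, ⟨0, 121, 1000⟩, ⟨350, 461, 1000⟩⟩ (piece0.hKL xTU) :=
  posBox_of_check p0hKLU_1

theorem p0hWUU_1 :
    (piece0.hWU xTU).checkQuick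
      ⟨385, ⟨5, 7, 11, 12⟩⟩
      ⟨⟨0, 1001, 1000⟩, ⟨600, 606, 1000⟩, ⟨0, 60, 1000⟩, ⟨350, 461, 1000⟩⟩ = true := by
  decide +kernel

theorem p0hWUU_2 :
    (piece0.hWU xTU).checkQuick
      ⟨386, ⟨5, 7, 11, 12⟩⟩
      ⟨⟨0, 1001, 1000⟩, ⟨600, 606, 1000⟩, ⟨60, 121, 1000⟩, ⟨350, 461, 1000⟩⟩ = true := by
  decide +kernel

theorem p0hWUU_pos :
    PosBox ⟨⟨0, 1001, 1000⟩, ⟨600, 606, 1000⟩, ⟨0, 121, 1000⟩, ⟨350, 461, 1000⟩⟩ (piece0.hWU xTU) :=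
  posBox_join₂ (posBox_of_check p0hWUU_1) (posBox_of_check p0hWUU_2)

theorem p0hWLU_1 :
    (piece0.hWL xTU).checkQuick
      ⟨385, ⟨5, 7, 11, 12⟩⟩
      ⟨⟨0, 500, 1000⟩, ⟨600, 606, 1000⟩, ⟨0, 121, 1000⟩, ⟨350, 461, 1000⟩⟩ = true := by
  decide +kernel

theorem p0hWLU_2 :
    (piece0.hWL xTU).checkQuick
      ⟨386, ⟨5, 7, 11, 12⟩⟩
      ⟨⟨500, 1001, 1000⟩, ⟨600, 606, 1000⟩, ⟨0, 121, 1000⟩, ⟨350, 461, 1000⟩⟩ = true := by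
  decide +kernel

theorem p0hWLU_pos :
    PosBox ⟨⟨0, 1001, 1000⟩, ⟨600, 606, 1000⟩, ⟨0, 121, 1000⟩, ⟨350, 461, 1000⟩⟩ (piece0.hWL xTU) :=
  posBox_join₀ (posBox_of_check p0hWLU_1) (posBox_of_check p0hWLU_2)

end Vale.Agent.P100.Calib.Closed.Small
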