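import Vale.Agent.P100.Calib.SlabSignsSmallPieces

/-!
# Checks of the certificate for `d ≤ 3/25`, `0 < u ≤ 3/5`
-/

namespace Vale.Agent.P100.Calib.Closed.Small

open BoxPos Large

theorem p1xRoom_1 :
    (piece1.xRoom).checkQuick
      ⟨44, ⟨0, 0, 1, 2⟩⟩
      ⟨⟨0, 1001, 1000⟩, ⟨600, 606, 1000⟩, ⟨0, 121, 1000⟩, ⟨460, 701, 1000⟩⟩ = true := by
  decide +kernel

theorem p1xRoom_pos :
    PosBox ⟨⟨0, 1001, 1000⟩, ⟨600, 606, 1000⟩, ⟨0, 121, 1000⟩, ⟨460, 701, 1000⟩⟩ (piece1.xRoom) :=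
  posBox_of_check p1xRoom_1

theorem p1xPhi_1 :
    (xPhi piece1).checkQuick
      ⟨99, ⟨0, 0, 3, 4⟩⟩
      ⟨⟨0, 1001, 1000⟩, ⟨600, 606, 1000⟩, ⟨0, 121, 1000⟩, ⟨460, 580, 1000⟩⟩ = true := by
  decide +kernel

theorem p1xPhi_2 :
    (xPhi piece1).checkQuick
      ⟨100, ⟨0, 0, 3, 4⟩⟩
      ⟨⟨0, 1001, 1000⟩, ⟨600, 606, 1000⟩, ⟨0, 60, 1000⟩, ⟨580, 610, 1000⟩⟩ = true := by
  decide +kernel

theorem p1xPhi_3 :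
    (xPhi piece1).checkQuick
      ⟨100, ⟨0, 0, 3, 4⟩⟩
      ⟨⟨0, 1001, 1000⟩, ⟨600, 606, 1000⟩, ⟨0, 60, 1000⟩, ⟨610, 640, 1000⟩⟩ = true := by
  decide +kernel

theorem p1xPhi_4 :
    (xPhi piece1).checkQuick
      ⟨100, ⟨0, 0, 3, 4⟩⟩
      ⟨⟨0, 1001, 1000⟩, ⟨600, 606, 1000⟩, ⟨60, 121, 1000⟩, ⟨580, 640, 1000⟩⟩ = true := by
  decide +kernel

theorem p1xPhi_5 :
    (xPhi piece1).checkQuick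
      ⟨100, ⟨0, 0, 3, 4⟩⟩
      ⟨⟨0, 1001, 1000⟩, ⟨600, 606, 1000⟩, ⟨0, 121, 1000⟩, ⟨640, 701, 1000⟩⟩ = true := by
  decide +kernel

theorem p1xPhi_pos :
    PosBox ⟨⟨0, 1001, 1000⟩, ⟨600, 606, 1000⟩, ⟨0, 121, 1000⟩, ⟨460, 701, 1000⟩⟩ (xPhi piece1) :=
  posBox_join₃ (posBox_of_check p1xPhi_1) (posBox_join₃ (posBox_join₂ (posBox_join₃
    (posBox_of_check p1xPhi_2) (posBox_of_check p1xPhi_3)) (posBox_of_check p1xPhi_4))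
    (posBox_of_check p1xPhi_5))

theorem p1hELL_1 :
    (piece1.hEL xTL).checkQuick
      ⟨375, ⟨5, 8, 10, 11⟩⟩
      ⟨⟨0, 1001, 1000⟩, ⟨600, 606, 1000⟩, ⟨0, 121, 1000⟩, ⟨460, 580, 1000⟩⟩ = true := by
  decide +kernel

theorem p1hELL_2 :
    (piece1.hEL xTL).checkQuick
      ⟨376, ⟨5, 8, 10, 11⟩⟩
      ⟨⟨0, 1001, 1000⟩, ⟨600, 606, 1000⟩, ⟨0, 121, 1000⟩, ⟨580, 701, 1000⟩⟩ = true := by
  decide +kernel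

theorem p1hELL_pos :
    PosBox ⟨⟨0, 1001, 1000⟩, ⟨600, 606, 1000⟩, ⟨0, 121, 1000⟩, ⟨460, 701, 1000⟩⟩ (piece1.hEL xTL) :=
  posBox_join₃ (posBox_of_check p1hELL_1) (posBox_of_check p1hELL_2)

theorem p1hEHL_1 :
    (hEH piece1 xTL).checkQuick
      ⟨375, ⟨5, 8, 11, 11⟩⟩
      ⟨⟨0, 1001, 1000⟩, ⟨600, 606, 1000⟩, ⟨0, 121, 1000⟩, ⟨460, 701, 1000⟩⟩ = true := by
  decide +kernel

theorem p1hEHL_pos :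
    PosBox ⟨⟨0, 1001, 1000⟩, ⟨600, 606, 1000⟩, ⟨0, 121, 1000⟩, ⟨460, 701, 1000⟩⟩ (hEH piece1 xTL) :=
  posBox_of_check p1hEHL_1

theorem p1hPUL_1 :
    (piece1.hPU xTL).checkQuick
      ⟨398, ⟨5, 8, 11, 12⟩⟩
      ⟨⟨0, 1001, 1000⟩, ⟨600, 606, 1000⟩, ⟨0, 121, 1000⟩, ⟨460, 701, 1000⟩⟩ = true := by
  decide +kernel

theorem p1hPUL_pos :
    PosBox ⟨⟨0, 1001, 1000⟩, ⟨600, 606, 1000⟩, ⟨0, 121, 1000⟩, ⟨460, 701, 1000⟩⟩ (piece1.hPU xTL) :=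
  posBox_of_check p1hPUL_1

theorem p1hKUL_1 :
    (piece1.hKU xTL).checkQuick
      ⟨396, ⟨5, 8, 11, 12⟩⟩
      ⟨⟨0, 1001, 1000⟩, ⟨600, 606, 1000⟩, ⟨0, 121, 1000⟩, ⟨460, 701, 1000⟩⟩ = true := by
  decide +kernel

theorem p1hKUL_pos :
    PosBox ⟨⟨0, 1001, 1000⟩, ⟨600, 606, 1000⟩, ⟨0, 121, 1000⟩, ⟨460, 701, 1000⟩⟩ (piece1.hKU xTL) :=
  posBox_of_check p1hKUL_1

theorem p1hKLL_1 :
    (piece1.hKL xTL).checkQuick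
      ⟨396, ⟨5, 8, 11, 12⟩⟩
      ⟨⟨0, 1001, 1000⟩, ⟨600, 606, 1000⟩, ⟨0, 121, 1000⟩, ⟨460, 701, 1000⟩⟩ = true := by
  decide +kernel

theorem p1hKLL_pos :
    PosBox ⟨⟨0, 1001, 1000⟩, ⟨600, 606, 1000⟩, ⟨0, 121, 1000⟩, ⟨460, 701, 1000⟩⟩ (piece1.hKL xTL) :=
  posBox_of_check p1hKLL_1

theorem p1hWUL_1 :
    (piece1.hWU xTL).checkQuick
      ⟨399, ⟨5, 7, 11, 12⟩⟩
      ⟨⟨0, 500, 1000⟩, ⟨600, 606, 1000⟩, ⟨0, 121, 1000⟩, ⟨460, 701, 1000⟩⟩ = true := by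
  decide +kernel

theorem p1hWUL_2 :
    (piece1.hWU xTL).checkQuick
      ⟨401, ⟨5, 7, 11, 12⟩⟩
      ⟨⟨500, 1001, 1000⟩, ⟨600, 606, 1000⟩, ⟨0, 121, 1000⟩, ⟨460, 701, 1000⟩⟩ = true := by
  decide +kernel

theorem p1hWUL_pos :
    PosBox ⟨⟨0, 1001, 1000⟩, ⟨600, 606, 1000⟩, ⟨0, 121, 1000⟩, ⟨460, 701, 1000⟩⟩ (piece1.hWU xTL) :=
  posBox_join₀ (posBox_of_check p1hWUL_1) (posBox_of_check p1hWUL_2)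

theorem p1hWLL_1 :
    (piece1.hWL xTL).checkQuick
      ⟨402, ⟨5, 7, 11, 12⟩⟩
      ⟨⟨0, 1001, 1000⟩, ⟨600, 606, 1000⟩, ⟨0, 121, 1000⟩, ⟨460, 701, 1000⟩⟩ = true := by
  decide +kernel

theorem p1hWLL_pos :
    PosBox ⟨⟨0, 1001, 1000⟩, ⟨600, 606, 1000⟩, ⟨0, 121, 1000⟩, ⟨460, 701, 1000⟩⟩ (piece1.hWL xTL) :=
  posBox_of_check p1hWLL_1

theorem p1hELU_1 :
    (piece1.hEL xTU).checkQuick
      ⟨377, ⟨5, 8, 10, 11⟩⟩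
      ⟨⟨0, 1001, 1000⟩, ⟨600, 606, 1000⟩, ⟨0, 121, 1000⟩, ⟨460, 580, 1000⟩⟩ = true := by
  decide +kernel

theorem p1hELU_2 :
    (piece1.hEL xTU).checkQuick
      ⟨378, ⟨5, 8, 10, 11⟩⟩
      ⟨⟨0, 1001, 1000⟩, ⟨600, 606, 1000⟩, ⟨0, 121, 1000⟩, ⟨580, 701, 1000⟩⟩ = true := by
  decide +kernel

theorem p1hELU_pos :
    PosBox ⟨⟨0, 1001, 1000⟩, ⟨600, 606, 1000⟩, ⟨0, 121, 1000⟩, ⟨460, 701, 1000⟩⟩ (piece1.hEL xTU) :=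
  posBox_join₃ (posBox_of_check p1hELU_1) (posBox_of_check p1hELU_2)

theorem p1hEHU_1 :
    (hEH piece1 xTU).checkQuick
      ⟨377, ⟨5, 8, 11, 11⟩⟩
      ⟨⟨0, 1001, 1000⟩, ⟨600, 606, 1000⟩, ⟨0, 121, 1000⟩, ⟨460, 701, 1000⟩⟩ = true := by
  decide +kernel

theorem p1hEHU_pos :
    PosBox ⟨⟨0, 1001, 1000⟩, ⟨600, 606, 1000⟩, ⟨0, 121, 1000⟩, ⟨460, 701, 1000⟩⟩ (hEH piece1 xTU) :=
  posBox_of_check p1hEHU_1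

theorem p1hPUU_1 :
    (piece1.hPU xTU).checkQuick
      ⟨399, ⟨5, 8, 11, 12⟩⟩
      ⟨⟨0, 500, 1000⟩, ⟨600, 606, 1000⟩, ⟨0, 121, 1000⟩, ⟨460, 701, 1000⟩⟩ = true := by
  decide +kernel

theorem p1hPUU_2 :
    (piece1.hPU xTU).checkQuick
      ⟨400, ⟨5, 8, 11, 12⟩⟩
      ⟨⟨500, 750, 1000⟩, ⟨600, 606, 1000⟩, ⟨0, 60, 1000⟩, ⟨460, 701, 1000⟩⟩ = true := by
  decide +kernel

theorem p1hPUU_3 :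
    (piece1.hPU xTU).checkQuick
      ⟨401, ⟨5, 8, 11, 12⟩⟩
      ⟨⟨500, 750, 1000⟩, ⟨600, 606, 1000⟩, ⟨60, 121, 1000⟩, ⟨460, 701, 1000⟩⟩ = true := by
  decide +kernel

theorem p1hPUU_4 :
    (piece1.hPU xTU).checkQuick
      ⟨400, ⟨5, 8, 11, 12⟩⟩
      ⟨⟨750, 875, 1000⟩, ⟨600, 606, 1000⟩, ⟨0, 60, 1000⟩, ⟨460, 701, 1000⟩⟩ = true := by
  decide +kernel

theorem p1hPUU_5 :
    (piece1.hPU xTU).checkQuick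
      ⟨401, ⟨5, 8, 11, 12⟩⟩
      ⟨⟨875, 1001, 1000⟩, ⟨600, 606, 1000⟩, ⟨0, 60, 1000⟩, ⟨460, 701, 1000⟩⟩ = true := by
  decide +kernel

theorem p1hPUU_6 :
    (piece1.hPU xTU).checkQuick
      ⟨402, ⟨5, 8, 11, 12⟩⟩
      ⟨⟨750, 875, 1000⟩, ⟨600, 606, 1000⟩, ⟨60, 121, 1000⟩, ⟨460, 701, 1000⟩⟩ = true := by
  decide +kernel

theorem p1hPUU_7 :
    (piece1.hPU xTU).checkQuick
      ⟨402, ⟨5, 8, 11, 12⟩⟩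
      ⟨⟨875, 1001, 1000⟩, ⟨600, 606, 1000⟩, ⟨60, 121, 1000⟩, ⟨460, 701, 1000⟩⟩ = true := by
  decide +kernel

theorem p1hPUU_pos :
    PosBox ⟨⟨0, 1001, 1000⟩, ⟨600, 606, 1000⟩, ⟨0, 121, 1000⟩, ⟨460, 701, 1000⟩⟩ (piece1.hPU xTU) :=
  posBox_join₀ (posBox_of_check p1hPUU_1) (posBox_join₀ (posBox_join₂ (posBox_of_check p1hPUU_2)
    (posBox_of_check p1hPUU_3)) (posBox_join₂ (posBox_join₀ (posBox_of_check p1hPUU_4)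
    (posBox_of_check p1hPUU_5)) (posBox_join₀ (posBox_of_check p1hPUU_6) (posBox_of_check
    p1hPUU_7))))

theorem p1hKUU_1 :
    (piece1.hKU xTU).checkQuick
      ⟨398, ⟨5, 8, 11, 12⟩⟩
      ⟨⟨0, 1001, 1000⟩, ⟨600, 606, 1000⟩, ⟨0, 121, 1000⟩, ⟨460, 701, 1000⟩⟩ = true := by
  decide +kernel

theorem p1hKUU_pos :
    PosBox ⟨⟨0, 1001, 1000⟩, ⟨600, 606, 1000⟩, ⟨0, 121, 1000⟩, ⟨460, 701, 1000⟩⟩ (piece1.hKU xTU) :=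
  posBox_of_check p1hKUU_1

theorem p1hKLU_1 :
    (piece1.hKL xTU).checkQuick
      ⟨398, ⟨5, 8, 11, 12⟩⟩
      ⟨⟨0, 1001, 1000⟩, ⟨600, 606, 1000⟩, ⟨0, 121, 1000⟩, ⟨460, 701, 1000⟩⟩ = true := by
  decide +kernel

theorem p1hKLU_pos :
    PosBox ⟨⟨0, 1001, 1000⟩, ⟨600, 606, 1000⟩, ⟨0, 121, 1000⟩, ⟨460, 701, 1000⟩⟩ (piece1.hKL xTU) :=
  posBox_of_check p1hKLU_1

theorem p1hWUU_1 :
    (piece1.hWU xTU).checkQuick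
      ⟨401, ⟨5, 7, 11, 12⟩⟩
      ⟨⟨0, 1001, 1000⟩, ⟨600, 606, 1000⟩, ⟨0, 60, 1000⟩, ⟨460, 701, 1000⟩⟩ = true := by
  decide +kernel

theorem p1hWUU_2 :
    (piece1.hWU xTU).checkQuick
      ⟨402, ⟨5, 7, 11, 12⟩⟩
      ⟨⟨0, 1001, 1000⟩, ⟨600, 606, 1000⟩, ⟨60, 121, 1000⟩, ⟨460, 701, 1000⟩⟩ = true := by
  decide +kernel

theorem p1hWUU_pos :
    PosBox ⟨⟨0, 1001, 1000⟩, ⟨600, 606, 1000⟩, ⟨0, 121, 1000⟩, ⟨460, 701, 1000⟩⟩ (piece1.hWU xTU) :=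
  posBox_join₂ (posBox_of_check p1hWUU_1) (posBox_of_check p1hWUU_2)

theorem p1hWLU_1 :
    (piece1.hWL xTU).checkQuick
      ⟨401, ⟨5, 7, 11, 12⟩⟩
      ⟨⟨0, 500, 1000⟩, ⟨600, 606, 1000⟩, ⟨0, 60, 1000⟩, ⟨460, 520, 1000⟩⟩ = true := by
  decide +kernel

theorem p1hWLU_2 :
    (piece1.hWL xTU).checkQuick
      ⟨402, ⟨5, 7, 11, 12⟩⟩
      ⟨⟨0, 500, 1000⟩, ⟨600, 606, 1000⟩, ⟨0, 60, 1000⟩, ⟨520, 580, 1000⟩⟩ = true := by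
  decide +kernel

theorem p1hWLU_3 :
    (piece1.hWL xTU).checkQuick
      ⟨403, ⟨5, 7, 11, 12⟩⟩
      ⟨⟨0, 500, 1000⟩, ⟨600, 606, 1000⟩, ⟨0, 60, 1000⟩, ⟨580, 701, 1000⟩⟩ = true := by
  decide +kernel

theorem p1hWLU_4 :
    (piece1.hWL xTU).checkQuick
      ⟨404, ⟨5, 7, 11, 12⟩⟩
      ⟨⟨500, 750, 1000⟩, ⟨600, 606, 1000⟩, ⟨0, 60, 1000⟩, ⟨460, 701, 1000⟩⟩ = true := by
  decide +kernel

theorem p1hWLU_5 :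
    (piece1.hWL xTU).checkQuick
      ⟨405, ⟨5, 7, 11, 12⟩⟩
      ⟨⟨750, 1001, 1000⟩, ⟨600, 606, 1000⟩, ⟨0, 60, 1000⟩, ⟨460, 701, 1000⟩⟩ = true := by
  decide +kernel

theorem p1hWLU_6 :
    (piece1.hWL xTU).checkQuick
      ⟨404, ⟨5, 7, 11, 12⟩⟩
      ⟨⟨0, 1001, 1000⟩, ⟨600, 606, 1000⟩, ⟨60, 121, 1000⟩, ⟨460, 701, 1000⟩⟩ = true := by
  decide +kernel

theorem p1hWLU_pos :
    PosBox ⟨⟨0, 1001, 1000⟩, ⟨600, 606, 1000⟩, ⟨0, 121, 1000⟩, ⟨460, 701, 1000⟩⟩ (piece1.hWL xTU) :=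
  posBox_join₂ (posBox_join₀ (posBox_join₃ (posBox_join₃ (posBox_of_check p1hWLU_1)
    (posBox_of_check p1hWLU_2)) (posBox_of_check p1hWLU_3)) (posBox_join₀ (posBox_of_check
    p1hWLU_4) (posBox_of_check p1hWLU_5))) (posBox_of_check p1hWLU_6)

end Vale.Agent.P100.Calib.Closed.Small
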