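import Vale.Agent.P100.Calib.SlabSignsSmallPieces

/-!
# Checks of the certificate for `d ≤ 3/25`, `0 < u ≤ 3/5`
-/

namespace Vale.Agent.P100.Calib.Closed.Small

open BoxPos Large

theorem p0hGLo_1 :
    (piece0.hG xP0).checkQuick
      ⟨228, ⟨0, 7, 12, 6⟩⟩
      ⟨⟨0, 1001, 1000⟩, ⟨600, 606, 1000⟩, ⟨0, 121, 1000⟩, ⟨350, 461, 1000⟩⟩ = true := by
  decide +kernel

theorem p0hGLo_pos :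
    PosBox ⟨⟨0, 1001, 1000⟩, ⟨600, 606, 1000⟩, ⟨0, 121, 1000⟩, ⟨350, 461, 1000⟩⟩ (piece0.hG xP0) :=
  posBox_of_check p0hGLo_1

theorem p0hMZeroLo_1 :
    (piece0.hM₀ xP0).checkQuick
      ⟨174, ⟨1, 5, 8, 6⟩⟩
      ⟨⟨0, 1001, 1000⟩, ⟨600, 606, 1000⟩, ⟨0, 121, 1000⟩, ⟨350, 461, 1000⟩⟩ = true := by
  decide +kernel

theorem p0hMZeroLo_pos :
    PosBox ⟨⟨0, 1001, 1000⟩, ⟨600, 606, 1000⟩, ⟨0, 121, 1000⟩, ⟨350, 461, 1000⟩⟩ (piece0.hM₀ xP0) :=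
  posBox_of_check p0hMZeroLo_1

theorem p0hTMGLo_1 :
    (piece0.hTMG xP0).checkQuick
      ⟨248, ⟨2, 7, 12, 7⟩⟩
      ⟨⟨0, 1001, 1000⟩, ⟨600, 606, 1000⟩, ⟨0, 121, 1000⟩, ⟨350, 461, 1000⟩⟩ = true := by
  decide +kernel

theorem p0hTMGLo_pos :
    PosBox ⟨⟨0, 1001, 1000⟩, ⟨600, 606, 1000⟩, ⟨0, 121, 1000⟩, ⟨350, 461, 1000⟩⟩ (piece0.hTMG xP0) :=
  posBox_of_check p0hTMGLo_1

theorem p0hGHi_1 :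
    (piece0.hG piece0.xPU).checkQuick
      ⟨300, ⟨2, 7, 12, 9⟩⟩
      ⟨⟨0, 1001, 1000⟩, ⟨600, 606, 1000⟩, ⟨0, 121, 1000⟩, ⟨350, 461, 1000⟩⟩ = true := by
  decide +kernel

theorem p0hGHi_pos :
    PosBox ⟨⟨0, 1001, 1000⟩, ⟨600, 606, 1000⟩, ⟨0, 121, 1000⟩, ⟨350, 461, 1000⟩⟩ (piece0.hG piece0.xPU) :=
  posBox_of_check p0hGHi_1

theorem p0hMZeroHi_1 :
    (piece0.hM₀ piece0.xPU).checkQuick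
      ⟨208, ⟨2, 5, 8, 6⟩⟩
      ⟨⟨0, 1001, 1000⟩, ⟨600, 606, 1000⟩, ⟨0, 121, 1000⟩, ⟨350, 461, 1000⟩⟩ = true := by
  decide +kernel

theorem p0hMZeroHi_pos :
    PosBox ⟨⟨0, 1001, 1000⟩, ⟨600, 606, 1000⟩, ⟨0, 121, 1000⟩, ⟨350, 461, 1000⟩⟩ (piece0.hM₀ piece0.xPU) :=
  posBox_of_check p0hMZeroHi_1

theorem p0hTMGHi_1 :
    (piece0.hTMG piece0.xPU).checkQuick
      ⟨317, ⟨2, 7, 12, 10⟩⟩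
      ⟨⟨0, 1001, 1000⟩, ⟨600, 606, 1000⟩, ⟨0, 121, 1000⟩, ⟨350, 461, 1000⟩⟩ = true := by
  decide +kernel

theorem p0hTMGHi_pos :
    PosBox ⟨⟨0, 1001, 1000⟩, ⟨600, 606, 1000⟩, ⟨0, 121, 1000⟩, ⟨350, 461, 1000⟩⟩ (piece0.hTMG piece0.xPU) :=
  posBox_of_check p0hTMGHi_1

theorem p0hV2p_1 :
    (piece0.hV2p).checkQuick
      ⟨221, ⟨1, 6, 10, 6⟩⟩
      ⟨⟨0, 1001, 1000⟩, ⟨600, 606, 1000⟩, ⟨0, 121, 1000⟩, ⟨350, 461, 1000⟩⟩ = true := by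
  decide +kernel

theorem p0hV2p_pos :
    PosBox ⟨⟨0, 1001, 1000⟩, ⟨600, 606, 1000⟩, ⟨0, 121, 1000⟩, ⟨350, 461, 1000⟩⟩ (piece0.hV2p) :=
  posBox_of_check p0hV2p_1

theorem p0hV2m_1 :
    (piece0.hV2m).checkQuick
      ⟨222, ⟨1, 6, 10, 6⟩⟩
      ⟨⟨0, 1001, 1000⟩, ⟨600, 606, 1000⟩, ⟨0, 121, 1000⟩, ⟨350, 461, 1000⟩⟩ = true := by
  decide +kernel

theorem p0hV2m_pos :
    PosBox ⟨⟨0, 1001, 1000⟩, ⟨600, 606, 1000⟩, ⟨0, 121, 1000⟩, ⟨350, 461, 1000⟩⟩ (piece0.hV2m) :=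
  posBox_of_check p0hV2m_1

end Vale.Agent.P100.Calib.Closed.Small
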