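import Mathlib
import Vale.Agent.P100.Calib.SlabFive
import Vale.Agent.P100.Calib.SlabFiveFamily
import Vale.Agent.P100.Calib.SlabPoint
import Vale.Agent.P100.Calib.SlabEnd
import Vale.Agent.P100.Calib.SlabAssembly
import Vale.Agent.P100.Calib.NegCert.Final
import Vale.Agent.P100.Calib.SlabSignsSmall
import Vale.Agent.P100.Calib.SlabSignsLarge
import Vale.Agent.P100.Calib.SlabChartHighBot
import Vale.Agent.P100.Calib.SlabHighTailMid
import Vale.Agent.P100.Calib.SlabHighTailTop
import Vale.Agent.P100.Calib.SlabBotEnd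
import Vale.Agent.P100.Calib.SlabHighTailBot
import Vale.Agent.P100.Calib.SlabEndStrip

/-!
# The conjecture in dimension five, unconditional
-/

open Laplacian

namespace Vale.Agent.P100.Calib

open Closed Band

/-- **The Lane–Emden conjecture in dimension five.** -/
theorem lane_emden_five_all {p q : ℝ} (hp : 0 < p) (hq : 0 < q)
    (hsub : (3 : ℝ) / 5 < 1 / (p + 1) + 1 / (q + 1)) :
    ¬ ∃ u v : EuclideanSpace ℝ (Fin 5) → ℝ,
      Continuous u ∧ Continuous v ∧ ContDiffOn ℝ 2 u {0}ᶜ ∧ ContDiffOn ℝ 2 v {0}ᶜ ∧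
      (∀ x, 0 < u x) ∧ (∀ x, 0 < v x) ∧ (∀ x, x ≠ 0 → Δ u x = -(v x) ^ p) ∧
      (∀ x, x ≠ 0 → Δ v x = -(u x) ^ q) :=
  lane_emden_five
    (slabCalibFive_of_block
      (slabBlockFive_of_signs (slabSignsFive_of_regions NegCert.signsNeg
        signsSmall signsLarge
        (signsHighFive_of orbitHigh_bot High.signsTailBot Bot.signsEndBot High.signsTailMid
          signsEndMid High.signsTailTop signsEndTop)))
      slabEndFive) hp hq hsub

end Vale.Agent.P100.Calib
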