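import Vale.Agent.P100.Calib.Tail
import Vale.Agent.P100.Calib.TailFive
import Vale.Agent.P100.Calib.TailSixExpr

/-!
# The end point `z = 0` of the slab family in six dimensions

For `N ∈ [6, 6 + 1/8]` and `N - 5 ≤ N/(p+1) < (N-2)/2` the scalars with end values `tv` and
`kap = -1 + (7/2) (be - al)²` make the eliminated form at the end point nonnegative on the cone,
with positive surplus at its zeros: four polynomials are positive on two boxes.
-/

namespace Vale.Agent.P100.Calib.Six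

open Bubble TailVal BoxPos

/-- The exponent shift of the slab family. -/
noncomputable def kapSix (al be : ℝ) : ℝ := -1 + 7 / 2 * (be - al) ^ 2

/-- The five numbers at the end point as functions of the weights and `N`. -/
noncomputable def num (al be N : ℝ) : TailVal :=
  ⟨3 / 20, -(7 / 50 - 1 / 5 * (be - al)) / N, 0, -(23 / 200), -(7 / 50) * (be - al) ^ 2⟩

/-- Their values at an end point. -/
noncomputable def tv (o : Orb) : TailVal :=
  num o.al o.be o.N

/-- The end point when `Y = X`, in `m = N - 2` and `b = N/(p+1)`. -/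
noncomputable def orbA (m b : ℝ) : Orb :=
  ⟨b / (m + 2), (m - b) / (m + 2), m + 2, (m + 2) / b - 1, (m + 2) / (m - b) - 1, -m, -m, 0, 0,
    kapSix (b / (m + 2)) ((m - b) / (m + 2))⟩

/-- The end point when `β Y = -N α`. -/
noncomputable def orbB (m b : ℝ) : Orb :=
  ⟨b / (m + 2), (m - b) / (m + 2), m + 2, (m + 2) / b - 1, (m + 2) / (m - b) - 1, -m,
    -((m + 2) * b / (m - b)), 0, (m + 2) * b / (m - b) * (m - (m + 2) * b / (m - b)),
    kapSix (b / (m + 2)) ((m - b) / (m + 2))⟩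

/-- The parameters with `Y = X`. -/
structure DomA (m b : ℝ) : Prop where
  m4 : 4 ≤ m
  m5 : m ≤ 4 + 1 / 8
  hb : m ^ 2 ≤ 2 * b * (m + 1)
  hlt : b < m / 2

/-- The parameters with `β Y = -N α`. -/
structure DomB (m b : ℝ) : Prop where
  m4 : 4 ≤ m
  m5 : m ≤ 4 + 1 / 8
  hb : 2 * b * (m + 1) ≤ m ^ 2
  hlo : m - 3 ≤ b

theorem DomA.facts {m b : ℝ} (h : DomA m b) :
    0 < m ∧ 0 < m + 1 ∧ 0 < b ∧ 0 < m - b ∧ 0 < m + 2 ∧ m + 2 ≠ 0 ∧ 0 < m - 2 * b ∧
      boxA.s₀.Mem m ∧ boxA.s₁.Mem (m - 2 * b) := by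
  obtain ⟨h1, h2, h3, h4⟩ := h
  have : 0 < b := by nlinarith
  refine ⟨by linarith, by linarith, this, by linarith, by linarith, by linarith, by linarith,
    ?_, ?_⟩ <;> simp only [Side.Mem, boxA] <;> norm_num <;> constructor <;> nlinarith

theorem DomB.facts {m b : ℝ} (h : DomB m b) :
    0 < m ∧ 0 < m + 1 ∧ 0 < b ∧ 0 < m - b ∧ 0 < m + 2 ∧ m + 2 ≠ 0 ∧ 2 * b ≠ 0 ∧
      boxB.s₀.Mem m ∧ boxB.s₁.Mem (b - m + 3) := by
  obtain ⟨h1, h2, h3, h4⟩ := h
  have : 0 < b := by linarith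
  refine ⟨by linarith, by linarith, this, by nlinarith, by linarith, by linarith, by linarith,
    ?_, ?_⟩ <;> simp only [Side.Mem, boxB] <;> norm_num <;> constructor <;> nlinarith

variable {m b : ℝ}

theorem orbA_DE (h : DomA m b) : (orbA m b).D = -(m ^ 2 / (m + 2)) ∧
    (orbA m b).al * (orbA m b).X - (orbA m b).be * (orbA m b).Y =
      m * (m - 2 * b) / (m + 2) := by
  obtain ⟨-, -, -, -, -, n1, -⟩ := h.facts
  constructor <;> simp only [orbA, Orb.D] <;> field_simp <;> ring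

theorem orbB_DE (h : DomB m b) : (orbB m b).D = -(2 * b * (m + 1) / (m + 2)) ∧
    (orbB m b).al * (orbB m b).X - (orbB m b).be * (orbB m b).Y = 2 * b / (m + 2) := by
  obtain ⟨-, -, -, a0, -, n1, -⟩ := h.facts
  have := a0.ne'
  constructor <;> simp only [orbB, Orb.D] <;> field_simp <;> ring

theorem eqAGQ (h : DomA m b) :
    (tv (orbA m b)).eGQ (orbA m b) =
      (1 / 400) * nAGQ.val m (m - 2 * b) 0 0 /
        ((m + 2) ^ 4 * m ^ 3) := by
  obtain ⟨m0, m1, b0, a0, N0, N1, s0, -, -⟩ := h.facts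
  have s1 : m - b * 2 ≠ 0 := by linarith
  simp only [eGQ, n2, nup]
  simp only [(orbA_DE h).2, (orbA_DE h).1]
  simp only [tv, num, orbA, kapSix, nAGQ, pol, row, Ex.val]
  push_cast
  field_simp
  ring

theorem eqAmu (h : DomA m b) :
    (tv (orbA m b)).eMG (orbA m b) - gam (orbA m b) * (tv (orbA m b)).eGQ (orbA m b) =
      (1 / 48000) * nAmu.val m (m - 2 * b) 0 0 /
        ((m + 2) ^ 4 * m ^ 6) := by
  obtain ⟨m0, m1, b0, a0, N0, N1, s0, -, -⟩ := h.facts
  have s1 : m - b * 2 ≠ 0 := by linarith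
  simp only [eMG, rawMG, eGQ, h11, T1, W1, bigK, nup, eC, n1, n2, gam]
  simp only [(orbA_DE h).2, (orbA_DE h).1]
  simp only [tv, num, orbA, kapSix, nAmu, pol, row, Ex.val]
  push_cast
  field_simp
  ring

theorem eqAP (h : DomA m b) :
    (tv (orbA m b)).eEE (orbA m b) + ((tv (orbA m b)).eMG (orbA m b) - gam (orbA m b) * (tv (orbA m b)).eGQ (orbA m b)) =
      (1 / 24000) * nAP.val m (m - 2 * b) 0 0 /
        ((m + 2) ^ 5 * m ^ 6) := by
  obtain ⟨m0, m1, b0, a0, N0, N1, s0, -, -⟩ := h.facts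
  have s1 : m - b * 2 ≠ 0 := by linarith
  simp only [eEE, eMG, rawEE, rawMG, eGQ, h11, T1, W1, bigK, nup, eC, n1, n2, gam]
  simp only [(orbA_DE h).2, (orbA_DE h).1]
  simp only [tv, num, orbA, kapSix, nAP, pol, row, Ex.val]
  push_cast
  field_simp
  ring

theorem eqAG (h : DomA m b) :
    (tv (orbA m b)).eGG (orbA m b) =
      (1 / 480000) * nAG.val m (m - 2 * b) 0 0 /
        ((m + 2) ^ 5 * m ^ 8) := by
  obtain ⟨m0, m1, b0, a0, N0, N1, s0, -, -⟩ := h.facts
  have s1 : m - b * 2 ≠ 0 := by linarith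
  simp only [eGG, rawGG, h22, T2, W2, bigK, fC, n2, nup]
  simp only [(orbA_DE h).2, (orbA_DE h).1]
  simp only [tv, num, orbA, kapSix, nAG, pol, row, Ex.val]
  push_cast
  field_simp
  ring

theorem eqAB (h : DomA m b) :
    (tv (orbA m b)).eEG (orbA m b) / 2 =
      (1 / 12000) * nAB.val m (m - 2 * b) 0 0 /
        ((m + 2) ^ 4 * m ^ 7) := by
  obtain ⟨m0, m1, b0, a0, N0, N1, s0, -, -⟩ := h.facts
  have s1 : m - b * 2 ≠ 0 := by linarith
  simp only [eEG, rawEG, h12, T1, T2, W1, W2, bigK, nup, eC, fC, n1, n2, gam]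
  simp only [(orbA_DE h).2, (orbA_DE h).1]
  simp only [tv, num, orbA, kapSix, nAB, pol, row, Ex.val]
  push_cast
  field_simp
  ring

theorem eqAC (h : DomA m b) :
    (tv (orbA m b)).eEQ (orbA m b) / 2 =
      (1 / 800) * nAC.val m (m - 2 * b) 0 0 /
        ((m + 2) ^ 1 * (m - b) ^ 1 * m ^ 2) := by
  obtain ⟨m0, m1, b0, a0, N0, N1, s0, -, -⟩ := h.facts
  have s1 : m - b * 2 ≠ 0 := by linarith
  simp only [eEQ, n1, gam]
  simp only [(orbA_DE h).1]
  simp only [tv, num, orbA, kapSix, nAC, pol, row, Ex.val]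
  push_cast
  field_simp
  ring

theorem eqAQ (h : DomA m b) :
    (tv (orbA m b)).w * (orbA m b).X =
      (1 / 50) * nAQ.val m (m - 2 * b) 0 0 /
        ((m + 2) ^ 2) := by
  obtain ⟨m0, m1, b0, a0, N0, N1, s0, -, -⟩ := h.facts
  have s1 : m - b * 2 ≠ 0 := by linarith
  simp only [tv, num, orbA, kapSix, nAQ, pol, row, Ex.val]
  push_cast
  field_simp
  ring

theorem posAGQ (h : DomA m b) :
    0 < (tv (orbA m b)).eGQ (orbA m b) := by
  obtain ⟨m0, m1, b0, a0, N0, N1, -, hx, hy⟩ := h.facts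
  rw [eqAGQ h]
  exact div_pos (mul_pos (by norm_num) (Ex.pos_of_check chkAGQ hx hy
    (by norm_num [Side.Mem, boxA]) (by norm_num [Side.Mem, boxA])))
    (mul_pos (pow_pos N0 4) (pow_pos m0 3))

theorem posAmu (h : DomA m b) :
    0 < (tv (orbA m b)).eMG (orbA m b) - gam (orbA m b) * (tv (orbA m b)).eGQ (orbA m b) := by
  obtain ⟨m0, m1, b0, a0, N0, N1, -, hx, hy⟩ := h.facts
  rw [eqAmu h]
  exact div_pos (mul_pos (by norm_num) (Ex.pos_of_check chkAmu hx hy
    (by norm_num [Side.Mem, boxA]) (by norm_num [Side.Mem, boxA])))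
    (mul_pos (pow_pos N0 4) (pow_pos m0 6))

theorem posAG (h : DomA m b) :
    0 < (tv (orbA m b)).eGG (orbA m b) := by
  obtain ⟨m0, m1, b0, a0, N0, N1, -, hx, hy⟩ := h.facts
  rw [eqAG h]
  exact div_pos (mul_pos (by norm_num) (Ex.pos_of_check chkAG hx hy
    (by norm_num [Side.Mem, boxA]) (by norm_num [Side.Mem, boxA])))
    (mul_pos (pow_pos N0 5) (pow_pos m0 8))

theorem detA (h : DomA m b) :
    ((tv (orbA m b)).eEG (orbA m b) / 2) ^ 2 * ((tv (orbA m b)).w * (orbA m b).X) <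
      (tv (orbA m b)).eGG (orbA m b) *
        (((tv (orbA m b)).eEE (orbA m b) + ((tv (orbA m b)).eMG (orbA m b) - gam (orbA m b) * (tv (orbA m b)).eGQ (orbA m b))) *
          ((tv (orbA m b)).w * (orbA m b).X) - ((tv (orbA m b)).eEQ (orbA m b) / 2) ^ 2) := by
  obtain ⟨m0, m1, b0, a0, N0, N1, -, hx, hy⟩ := h.facts
  have hd := Ex.pos_of_check chkAdet hx hy (y₂ := 0) (y₃ := 0)
    (by norm_num [Side.Mem, boxA]) (by norm_num [Side.Mem, boxA])
  rw [eqAG h, eqAP h, eqAQ h, eqAC h, eqAB h, ← sub_pos]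
  refine lt_of_lt_of_eq (div_pos (mul_pos (show (0 : ℝ) < (1 / 4608000000000) by norm_num) hd)
    (mul_pos (mul_pos (pow_pos N0 12) (pow_pos a0 2)) (pow_pos m0 14))) ?_
  simp only [nAdet, Ex.val]
  generalize nAP.val m (m - 2 * b) 0 0 = vP
  generalize nAG.val m (m - 2 * b) 0 0 = vG
  generalize nAB.val m (m - 2 * b) 0 0 = vB
  generalize nAC.val m (m - 2 * b) 0 0 = vC
  generalize nAQ.val m (m - 2 * b) 0 0 = vQ
  push_cast
  field_simp
  ring

theorem eqBGQ (h : DomB m b) :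
    (tv (orbB m b)).eGQ (orbB m b) =
      (1 / 200) * nBGQ.val m (b - m + 3) 0 0 /
        ((m + 2) ^ 4 * b ^ 2 * m ^ 1 * (m + 1) ^ 2) := by
  obtain ⟨m0, m1, b0, a0, N0, N1, s0, -, -⟩ := h.facts
  simp only [eGQ, n2, nup]
  simp only [(orbB_DE h).2, (orbB_DE h).1]
  simp only [tv, num, orbB, kapSix, nBGQ, pol, row, Ex.val]
  push_cast
  field_simp
  ring

theorem eqBmu (h : DomB m b) :
    (tv (orbB m b)).eMG (orbB m b) - gam (orbB m b) * (tv (orbB m b)).eGQ (orbB m b) =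
      (1 / 960000) * nBmu.val m (b - m + 3) 0 0 /
        ((m + 2) ^ 4 * (m - b) ^ 4 * b ^ 4 * m ^ 1 * (m + 1) ^ 4) := by
  obtain ⟨m0, m1, b0, a0, N0, N1, s0, -, -⟩ := h.facts
  simp only [eMG, rawMG, eGQ, h11, T1, W1, bigK, nup, eC, n1, n2, gam]
  simp only [(orbB_DE h).2, (orbB_DE h).1]
  simp only [tv, num, orbB, kapSix, nBmu, pol, row, Ex.val]
  push_cast
  field_simp
  ring

theorem eqBP (h : DomB m b) :
    (tv (orbB m b)).eEE (orbB m b) + ((tv (orbB m b)).eMG (orbB m b) - gam (orbB m b) * (tv (orbB m b)).eGQ (orbB m b)) =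
      (1 / 480000) * nBP.val m (b - m + 3) 0 0 /
        ((m + 2) ^ 5 * (m - b) ^ 4 * b ^ 4 * m ^ 1 * (m + 1) ^ 4) := by
  obtain ⟨m0, m1, b0, a0, N0, N1, s0, -, -⟩ := h.facts
  simp only [eEE, eMG, rawEE, rawMG, eGQ, h11, T1, W1, bigK, nup, eC, n1, n2, gam]
  simp only [(orbB_DE h).2, (orbB_DE h).1]
  simp only [tv, num, orbB, kapSix, nBP, pol, row, Ex.val]
  push_cast
  field_simp
  ring

theorem eqBG (h : DomB m b) :
    (tv (orbB m b)).eGG (orbB m b) =
      (1 / 480000) * nBG.val m (b - m + 3) 0 0 /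
        ((m + 2) ^ 6 * b ^ 4 * m ^ 2 * (m + 1) ^ 3) := by
  obtain ⟨m0, m1, b0, a0, N0, N1, s0, -, -⟩ := h.facts
  simp only [eGG, rawGG, h22, T2, W2, bigK, fC, n2, nup]
  simp only [(orbB_DE h).2, (orbB_DE h).1]
  simp only [tv, num, orbB, kapSix, nBG, pol, row, Ex.val]
  push_cast
  field_simp
  ring

theorem eqBB (h : DomB m b) :
    (tv (orbB m b)).eEG (orbB m b) / 2 =
      (1 / 480000) * nBB.val m (b - m + 3) 0 0 /
        ((m + 2) ^ 4 * (m - b) ^ 2 * b ^ 4 * m ^ 1 * (m + 1) ^ 4) := by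
  obtain ⟨m0, m1, b0, a0, N0, N1, s0, -, -⟩ := h.facts
  simp only [eEG, rawEG, h12, T1, T2, W1, W2, bigK, nup, eC, fC, n1, n2, gam]
  simp only [(orbB_DE h).2, (orbB_DE h).1]
  simp only [tv, num, orbB, kapSix, nBB, pol, row, Ex.val]
  push_cast
  field_simp
  ring

theorem eqBC (h : DomB m b) :
    (tv (orbB m b)).eEQ (orbB m b) / 2 =
      (1 / 400) * nBC.val m (b - m + 3) 0 0 /
        ((m + 2) ^ 2 * b ^ 2) := by
  obtain ⟨m0, m1, b0, a0, N0, N1, s0, -, -⟩ := h.facts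
  simp only [eEQ, n1, gam]
  simp only [(orbB_DE h).1]
  simp only [tv, num, orbB, kapSix, nBC, pol, row, Ex.val]
  push_cast
  field_simp
  ring

theorem eqBQ (h : DomB m b) :
    (tv (orbB m b)).w * (orbB m b).X =
      (1 / 50) * nBQ.val m (b - m + 3) 0 0 /
        ((m + 2) ^ 2) := by
  obtain ⟨m0, m1, b0, a0, N0, N1, s0, -, -⟩ := h.facts
  simp only [tv, num, orbB, kapSix, nBQ, pol, row, Ex.val]
  push_cast
  field_simp
  ring

theorem posBGQ (h : DomB m b) :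
    0 < (tv (orbB m b)).eGQ (orbB m b) := by
  obtain ⟨m0, m1, b0, a0, N0, N1, -, hx, hy⟩ := h.facts
  rw [eqBGQ h]
  exact div_pos (mul_pos (by norm_num) (Ex.pos_of_check chkBGQ hx hy
    (by norm_num [Side.Mem, boxB]) (by norm_num [Side.Mem, boxB])))
    (mul_pos (mul_pos (mul_pos (pow_pos N0 4) (pow_pos b0 2)) (pow_pos m0 1)) (pow_pos m1 2))

theorem posBmu (h : DomB m b) :
    0 < (tv (orbB m b)).eMG (orbB m b) - gam (orbB m b) * (tv (orbB m b)).eGQ (orbB m b) := by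
  obtain ⟨m0, m1, b0, a0, N0, N1, -, hx, hy⟩ := h.facts
  rw [eqBmu h]
  exact div_pos (mul_pos (by norm_num) (Ex.pos_of_check chkBmu hx hy
    (by norm_num [Side.Mem, boxB]) (by norm_num [Side.Mem, boxB])))
    (mul_pos (mul_pos (mul_pos (mul_pos (pow_pos N0 4) (pow_pos a0 4)) (pow_pos b0 4)) (pow_pos m0 1)) (pow_pos m1 4))

theorem posBG (h : DomB m b) :
    0 < (tv (orbB m b)).eGG (orbB m b) := by
  obtain ⟨m0, m1, b0, a0, N0, N1, -, hx, hy⟩ := h.facts
  rw [eqBG h]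
  exact div_pos (mul_pos (by norm_num) (Ex.pos_of_check chkBG hx hy
    (by norm_num [Side.Mem, boxB]) (by norm_num [Side.Mem, boxB])))
    (mul_pos (mul_pos (mul_pos (pow_pos N0 6) (pow_pos b0 4)) (pow_pos m0 2)) (pow_pos m1 3))

theorem detB (h : DomB m b) :
    ((tv (orbB m b)).eEG (orbB m b) / 2) ^ 2 * ((tv (orbB m b)).w * (orbB m b).X) <
      (tv (orbB m b)).eGG (orbB m b) *
        (((tv (orbB m b)).eEE (orbB m b) + ((tv (orbB m b)).eMG (orbB m b) - gam (orbB m b) * (tv (orbB m b)).eGQ (orbB m b))) *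
          ((tv (orbB m b)).w * (orbB m b).X) - ((tv (orbB m b)).eEQ (orbB m b) / 2) ^ 2) := by
  obtain ⟨m0, m1, b0, a0, N0, N1, -, hx, hy⟩ := h.facts
  have hd := Ex.pos_of_check chkBdet hx hy (y₂ := 0) (y₃ := 0)
    (by norm_num [Side.Mem, boxB]) (by norm_num [Side.Mem, boxB])
  rw [eqBG h, eqBP h, eqBQ h, eqBC h, eqBB h, ← sub_pos]
  refine lt_of_lt_of_eq (div_pos (mul_pos (show (0 : ℝ) < (1 / 11520000000000) by norm_num) hd)
    (mul_pos (mul_pos (mul_pos (mul_pos (pow_pos N0 13) (pow_pos a0 4)) (pow_pos b0 8)) (pow_pos m0 3)) (pow_pos m1 8))) ?_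
  simp only [nBdet, Ex.val]
  generalize nBP.val m (b - m + 3) 0 0 = vP
  generalize nBG.val m (b - m + 3) 0 0 = vG
  generalize nBB.val m (b - m + 3) 0 0 = vB
  generalize nBC.val m (b - m + 3) 0 0 = vC
  generalize nBQ.val m (b - m + 3) 0 0 = vQ
  push_cast
  field_simp
  ring

/-- The minors follow from one determinant, since `ν` removes the entry `(G, Qt)`. -/
theorem end_pos_of_det {o : Orb} (h : o.AtEnd) (hc : 0 < (tv o).c) (hXY : 0 < o.X * o.Y)
    (hw : 0 < (tv o).w * o.X) (hν : 0 ≤ (tv o).eGQ o)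
    (hμ : 0 ≤ (tv o).eMG o - gam o * (tv o).eGQ o) (hG : 0 < (tv o).eGG o)
    (hk : ((tv o).eEG o / 2) ^ 2 * ((tv o).w * o.X) < (tv o).eGG o *
      (((tv o).eEE o + ((tv o).eMG o - gam o * (tv o).eGQ o)) * ((tv o).w * o.X) -
        ((tv o).eEQ o / 2) ^ 2))
    {A C B Q : ℝ} (hA : 0 ≤ A) (hB0 : 0 ≤ B) (hCs : C ^ 2 ≤ A * B) (hQ : 0 ≤ Q)
    (hsum : 0 < A + B + Q) :
    0 ≤ elimN o.N o.p o.q ((tv o).coef o) ((tv o).cl o) ((tv o).cm o) A C B (0 * Q) Q ∧
      (elimN o.N o.p o.q ((tv o).coef o) ((tv o).cl o) ((tv o).cm o) A C B (0 * Q) Q = 0 →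
        0 < elimGap ((tv o).coef o) ((tv o).cl o) ((tv o).cm o) A C B (0 * Q) Q) := by
  set P := (tv o).eEE o + ((tv o).eMG o - gam o * (tv o).eGQ o) with hPd
  set e₁ := (tv o).eEG o / 2 with hed
  set f₁ := (tv o).eEQ o / 2 with hfd
  set g₀ := (tv o).eGG o with hgd
  set w₀ := (tv o).w * o.X with hwd
  have hP : 0 < P := by
    have h1 : 0 < g₀ * (P * w₀ - f₁ ^ 2) := lt_of_le_of_lt (by positivity) hk
    have h2 : 0 < P * w₀ := by
      linarith [sq_nonneg f₁, pos_of_mul_pos_right h1 hG.le]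
    exact pos_of_mul_pos_left h2 hw.le
  have hd : 0 < P * g₀ - e₁ ^ 2 := by
    have := mul_nonneg hG.le (sq_nonneg f₁)
    have hn : e₁ ^ 2 * w₀ < (P * g₀) * w₀ := by linarith
    linarith [lt_of_mul_lt_mul_right hn hw.le]
  refine (tv o).end_pos o h hc hXY (μ := (tv o).eMG o - gam o * (tv o).eGQ o)
    (ν := (tv o).eGQ o) (by ring) hμ hν hP hd ?_ hA hB0 hCs hQ hsum
  rw [sub_self, zero_div, ← hPd, ← hed, ← hfd, ← hwd, ← hgd]
  linarith

/-- **The end point of the slab family.** The hypotheses at `z = 0` of `no_solution_of_orbit_pos`,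
for scalars with limits `tv.scalars` and vanishing limits of `z k'`, and `kap = kapSix`. -/
theorem endSix_pos {N p q : ℝ} (hc : IsCrit N p q) (h1 : 6 ≤ N) (h2 : N ≤ 6 + 1 / 8)
    (hb : N - 5 ≤ N / (p + 1)) {r₁ r₂ : ℝ} (hr : r₁ + r₂ = (N - 4 - kapSix (1 / (p + 1)) (1 / (q + 1))) / 4) :
    let o := endOrb N p q (kapSix (1 / (p + 1)) (1 / (q + 1)))
    let C₀ := fun j => o.cBase j + ∑ r, (tv o).scalars o r * o.fldQ r j
    let D₀ := fun _ : Fin 14 => (0 : ℝ)
    0 < C₀ 0 ∧ 0 < C₀ 0 * C₀ 3 - ((C₀ 1 + C₀ 2) / 2) ^ 2 ∧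
      ∀ A B D Q : ℝ, 0 ≤ A → 0 ≤ B → D ^ 2 ≤ A * B → 0 ≤ Q → 0 < A + B + Q →
        let M₀ := ((p + 1) * (-2 * r₁ + 2 * q * r₂) + (q + 1) * (2 * p * r₁ - 2 * r₂) -
          (p + 1) * o.lam) / (q + 1)
        let la := fun j => C₀ j * o.lam - (q + 1) * D₀ j
        let mb := fun j => C₀ j * M₀ + (p + 1) * D₀ j
        0 ≤ elimN N p q C₀ la mb A D B 0 Q ∧
          (elimN N p q C₀ la mb A D B 0 Q = 0 → 0 < elimGap C₀ la mb A D B 0 Q) := by
  intro o C₀ D₀
  obtain ⟨hal, hlt, hw⟩ := hc.weights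
  have p1 : 0 < p + 1 := by linarith [hc.p_pos]
  have q1 : 0 < q + 1 := by linarith [hc.q_pos]
  have N0 : 0 < N := by linarith
  set m := N - 2 with hm
  set b := N / (p + 1) with hbd
  have eN : N = m + 2 := by linarith
  have hb1 : N * (1 / (p + 1)) = b := by rw [hbd]; ring
  have b0 : 0 < b := by positivity
  have hq1 : N / (q + 1) = m - b := by
    rw [← hb1]; linear_combination hw
  have hb2 : b < m / 2 := by
    have := mul_lt_mul_of_pos_left hlt N0
    rw [hb1] at this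
    linarith
  have ep : p = (m + 2) / b - 1 := by rw [← eN, hbd]; field_simp; ring
  have eq : q = (m + 2) / (m - b) - 1 := by rw [← eN, ← hq1]; field_simp; ring
  have eal : 1 / (p + 1) = b / (m + 2) := by rw [← eN, hbd]; field_simp
  have ebe : 1 / (q + 1) = (m - b) / (m + 2) := by rw [← eN, ← hq1]; field_simp
  have ha0 : 0 < m - b := by linarith
  have cases : o = orbA m b ∧ DomA m b ∨ o = orbB m b ∧ DomB m b := by
    have eM : N * (1 / (p + 1)) / (1 / (q + 1)) = (m + 2) * b / (m - b) := by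
      rw [hb1, ebe]; field_simp
    rcases le_or_gt (m ^ 2) (2 * b * (m + 1)) with c | c
    · refine Or.inl ⟨?_, ⟨by linarith, by linarith, c, hb2⟩⟩
      have hle : m ≤ (m + 2) * b / (m - b) := by rw [le_div_iff₀ ha0]; nlinarith
      simp only [o, endOrb, orbA, eM, ← hm, min_eq_left hle, Orb.mk.injEq]
      exact ⟨eal, ebe, eN, ep, eq, trivial, trivial, trivial, by ring, by rw [eal, ebe]⟩
    · refine Or.inr ⟨?_, ⟨by linarith, by linarith, c.le, by linarith⟩⟩
      have hle : (m + 2) * b / (m - b) ≤ m := by rw [div_le_iff₀ ha0]; nlinarith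
      simp only [o, endOrb, orbB, eM, ← hm, min_eq_right hle, Orb.mk.injEq]
      exact ⟨eal, ebe, eN, ep, eq, trivial, trivial, trivial, trivial, by rw [eal, ebe]⟩
  obtain ⟨hX0, hY0, hD0, hE0, -⟩ := endOrb_facts (kap := kapSix (1 / (p + 1)) (1 / (q + 1))) hc
  have hN' : o.N = N := rfl
  have hp' : o.p = p := rfl
  have hq' : o.q = q := rfl
  have hat : o.AtEnd := by
    refine ⟨?_, ?_, ?_, rfl, rfl, ?_, ?_, N0.ne', hX0, hY0, hD0, hE0, ?_, ?_⟩
    · simp only [o, endOrb]; field_simp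
    · simp only [o, endOrb]; field_simp
    · simp only [o, endOrb]; linear_combination hw
    · rcases cases with ⟨e, -⟩ | ⟨e, hB⟩
      · rw [e]; simp only [orbA]; ring
      · rw [e]; simp only [orbB]; ring
    · rcases cases with ⟨e, -⟩ | ⟨e, hB⟩
      · rw [e]; exact Or.inl (by simp only [orbA]; ring)
      · rw [e]; refine Or.inr ?_
        have := ha0.ne'
        simp only [orbB]; field_simp
    · exact hal.ne'
    · exact (hal.trans hlt).ne'
  have hXY : 0 < o.X * o.Y := by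
    rcases cases with ⟨e, hA⟩ | ⟨e, hB⟩ <;> rw [e]
    · simp only [orbA]; nlinarith [hA.m4]
    · simp only [orbB]
      rw [neg_mul_neg]
      have := hB.m4
      positivity
  have hC : C₀ = (tv o).coef o := funext fun j => ((tv o).coef_eq o j).symm
  rw [hC]
  have hc0 : 0 < (tv o).c := by
    rcases cases with ⟨e, h⟩ | ⟨e, h⟩ <;>
    · rw [e]; have := h.facts; simp only [tv, num]; norm_num
  obtain ⟨e0, -, -⟩ := (tv o).coef_head o hX0 hY0
  refine ⟨?_, ?_, ?_⟩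
  · rw [e0]
    refine add_pos_of_nonneg_of_pos (sq_nonneg _) (mul_pos hc0 ?_)
    rw [show o.Y / o.X = o.X * o.Y / o.X ^ 2 by field_simp]
    exact div_pos hXY (lt_of_le_of_ne (sq_nonneg _) (Ne.symm (pow_ne_zero 2 hX0)))
  · rw [(tv o).coef_det o hX0 hY0]
    exact div_pos (mul_pos hc0
      (lt_of_le_of_ne (sq_nonneg _) (Ne.symm (pow_ne_zero 2 hD0)))) hXY
  intro A B D Q hA hB hD hQ hs M₀ la mb
  have hM : M₀ = o.mu := by
    have := Five.end_lam_mu hat (r₁ := r₁) (r₂ := r₂) hr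
    simp only [hp', hq'] at this
    simp only [M₀, div_eq_iff q1.ne']
    linarith
  have hla : la = (tv o).cl o := funext fun j => by simp [la, D₀, TailVal.cl]
  have hmb : mb = (tv o).cm o := funext fun j => by simp [mb, D₀, TailVal.cm, hM]
  rw [hla, hmb, ← hN', ← hp', ← hq', show (0 : ℝ) = 0 * Q from (zero_mul Q).symm]
  simp only [zero_mul]
  rcases cases with ⟨e, h⟩ | ⟨e, h⟩
  · have hw : 0 < (tv o).w * o.X := by
      obtain ⟨m0, m1, b0, a0, N0', N1, -, hx, hy⟩ := h.facts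
      rw [e, eqAQ h]
      exact div_pos (mul_pos (by norm_num) (Ex.pos_of_check chkAQ hx hy
        (by norm_num [Side.Mem, boxA]) (by norm_num [Side.Mem, boxA]))) (pow_pos N0' 2)
    have := end_pos_of_det hat hc0 hXY hw (by rw [e]; exact (posAGQ h).le)
      (by rw [e]; exact (posAmu h).le) (by rw [e]; exact posAG h) (by rw [e]; exact detA h)
      hA hB hD hQ hs
    simpa using this
  · have hw : 0 < (tv o).w * o.X := by
      obtain ⟨m0, m1, b0, a0, N0', N1, -, hx, hy⟩ := h.facts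
      rw [e, eqBQ h]
      exact div_pos (mul_pos (by norm_num) (Ex.pos_of_check chkBQ hx hy
        (by norm_num [Side.Mem, boxB]) (by norm_num [Side.Mem, boxB]))) (pow_pos N0' 2)
    have := end_pos_of_det hat hc0 hXY hw (by rw [e]; exact (posBGQ h).le)
      (by rw [e]; exact (posBmu h).le) (by rw [e]; exact posBG h) (by rw [e]; exact detB h)
      hA hB hD hQ hs
    simpa using this

end Vale.Agent.P100.Calib.Six
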