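import Vale.Agent.P100.Calib.SlabEnd
import Vale.Agent.P100.Calib.TailSix

/-!
# The end point condition of the slab family in dimension six

`famSix` are the five numbers of the slab family in dimension six before the shift, with
`a = 1/(p+1)`, `b = 1/(q+1)`, `d = b - a`, `ζ = 1 - z a/b`: `c = 3/20`,
`w = -((7/50) ζ + d (19/10 - (21/10) ζ))/N`, `u = 0`, `v = -23/200`,
`g = d² (-12/25 + (17/50) ζ)`, with `kap = -1 + (7/2) d²`. The end point is positive on the slab.
-/

namespace Vale.Agent.P100.Calib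

open Bubble

/-- The five numbers of the slab family in dimension six. -/
noncomputable def famSix (N p q : ℝ) (v : ℝ × ℝ) : TailVal :=
  let a := 1 / (p + 1)
  let b := 1 / (q + 1)
  let d := b - a
  let ζ := 1 - a / b * v.1
  ⟨3 / 20, -(7 / 50 * ζ + d * (19 / 10 - 21 / 10 * ζ)) / N, 0, -(23 / 200),
    d ^ 2 * (-(12 / 25) + 17 / 50 * ζ)⟩

theorem isC1Num_famSix {N p q : ℝ} : IsC1Num (famSix N p q) where
  c := contDiff_const
  w := ((contDiff_const.mul (contDiff_const.sub (contDiff_const.mul contDiff_fst))).add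
    (contDiff_const.mul (contDiff_const.sub (contDiff_const.mul
      (contDiff_const.sub (contDiff_const.mul contDiff_fst)))))).neg.div_const N
  u := contDiff_const
  v := contDiff_const
  g := contDiff_const.mul (contDiff_const.add (contDiff_const.mul
    (contDiff_const.sub (contDiff_const.mul contDiff_fst))))

/-- **The end point of the slab family in dimension six is positive.** -/
theorem slabEndSix {N p q : ℝ} (hc : IsCrit N p q) (h1 : 6 < N) (h2 : N < 6 + 1 / 8)
    (hb : N - 5 ≤ N / (p + 1)) {r₁ r₂ : ℝ}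
    (hr : r₁ + r₂ = (N - 4 - Six.kapSix (1 / (p + 1)) (1 / (q + 1))) / 4) :
    let kap := Six.kapSix (1 / (p + 1)) (1 / (q + 1))
    let o := endOrb N p q kap
    let C₀ := fun j => o.cBase j +
      ∑ r, ((famSix N p q (endArg N p q kap)).shift o).scalars o r * o.fldQ r j
    let D₀ := fun _ : Fin 14 => (0 : ℝ)
    0 < C₀ 0 ∧ 0 < C₀ 0 * C₀ 3 - ((C₀ 1 + C₀ 2) / 2) ^ 2 ∧
      ∀ A B D Q : ℝ, 0 ≤ A → 0 ≤ B → D ^ 2 ≤ A * B → 0 ≤ Q → 0 < A + B + Q →
        let M₀ := ((p + 1) * (-2 * r₁ + 2 * q * r₂) + (q + 1) * (2 * p * r₁ - 2 * r₂) -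
          (p + 1) * o.lam) / (q + 1)
        let la := fun j => C₀ j * o.lam - (q + 1) * D₀ j
        let mb := fun j => C₀ j * M₀ + (p + 1) * D₀ j
        0 ≤ elimN N p q C₀ la mb A D B 0 Q ∧
          (elimN N p q C₀ la mb A D B 0 Q = 0 → 0 < elimGap C₀ la mb A D B 0 Q) := by
  intro kap o C₀ D₀
  have e : (famSix N p q (endArg N p q kap)).shift o = Six.tv o := by
    rw [shift_end (endOrb_atEnd hc).1]
    simp only [famSix, endArg, Six.tv, Six.num, o, endOrb, TailVal.mk.injEq, mul_zero, sub_zero]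
    refine ⟨trivial, ?_, trivial, trivial, ?_⟩ <;> ring
  simp only [C₀, D₀, e]
  exact Six.endSix_pos hc h1.le h2.le hb hr

end Vale.Agent.P100.Calib
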