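import Mathlib
import Vale.Agent.P100.Calib.SlabReduction
import Vale.Agent.P100.Calib.SlabFive

/-!
# The slab of dimension six

In terms of `al = 1/(p+1)`, `be = 1/(q+1)`, `σ = al + be` and the critical dimension
`N = 2/(1 - σ)` the slab is `2/3 < σ < 33/49`, `be ≤ 3 (1 - σ)/2`, `al < be`,
`(3 σ - 2) σ³ < 2 al² (be - al)²`.
-/

open Laplacian Set Filter Topology

namespace Vale.Agent.P100.Calib

open Orb Bubble

variable {p q : ℝ}

/-- Calibration data exist at every point of the slab of dimension six. -/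
def SlabCalibSix : Prop :=
  ∀ p q N al be σ : ℝ, 0 < q → q < p → 1 < p * q → IsCrit N p q →
    al = 1 / (p + 1) → be = 1 / (q + 1) → σ = al + be → N * (1 - σ) = 2 →
    6 < N → N < 6 + 1 / 8 → 2 / 3 < σ → σ < 33 / 49 →
    N * be ≤ 3 → N - 5 ≤ N * al → 1 / 6 < al → al < be → al < 33 / 98 → 1 / 3 < be → be < 1 / 2 →
    (3 * σ - 2) * σ ^ 3 < 2 * al ^ 2 * (be - al) ^ 2 →
    ∃ (S : Set ℝ) (R x y s dx dy : ℝ → ℝ) (kap r₁ r₂ : ℝ) (k : Fin 7 → ℝ → ℝ)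
      (C₀ D₀ : Fin 14 → ℝ) (L₀ : ℝ),
      IsOrbitFns N p q S R x y s dx dy ∧
        OrbitCalib 6 N p q kap r₁ r₂ S R x y s dx dy k C₀ D₀ L₀

/-- The slab in terms of `1/(p+1)`, `1/(q+1)`. -/
theorem slab_six_bounds {N α β al be σ : ℝ} (hN : N = α + β + 2) (hb : β = N * al)
    (ha : α = N * be) (hσ : σ = al + be) (ha3 : α ≤ 3) (hab : β < α) (h : 6 < N)
    (h8 : N < 6 + 1 / 8) (hlay : N - 6 < 2 * β ^ 2 * (α - β) ^ 2 / (N - 2) ^ 3) :
    N * (1 - σ) = 2 ∧ 2 / 3 < σ ∧ σ < 33 / 49 ∧ N * be ≤ 3 ∧ N - 5 ≤ N * al ∧ 1 / 6 < al ∧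
      al < be ∧ al < 33 / 98 ∧ 1 / 3 < be ∧ be < 1 / 2 ∧
      (3 * σ - 2) * σ ^ 3 < 2 * al ^ 2 * (be - al) ^ 2 := by
  have e : N * (1 - σ) = 2 := by rw [hσ, mul_sub, mul_add, ← ha, ← hb]; linarith
  have hN0 : 0 < N := by linarith
  refine ⟨e, by nlinarith, by nlinarith, by linarith, by linarith, by nlinarith, by nlinarith,
    by nlinarith, by nlinarith, by nlinarith, ?_⟩
  have es : N - 2 = N * σ := by linear_combination e
  rw [lt_div_iff₀ (pow_pos (by linarith) 3), es, ha, hb] at hlay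
  refine lt_of_mul_lt_mul_left (a := N ^ 4) ?_ (by positivity)
  have k : (N - 6) * (N * σ) ^ 3 = N ^ 4 * ((3 * σ - 2) * σ ^ 3) := by
    linear_combination (3 * (N * σ) ^ 3) * e
  rw [← k]
  linarith

/-- Calibrations on the slab in the weights give `SlabCalib 6`. -/
theorem slabCalib_six (hS : SlabCalibSix) : SlabCalib 6 := by
  intro p q N α β hq hqp hpq hc hα hβ hsum h6 h8 hlay ha3
  push_cast at h6 h8 hlay ha3
  have hp : 0 < p := hq.trans hqp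
  obtain ⟨eb, ea⟩ := scaling_eq hp hq hpq hα hβ (N := N) (by linarith)
  have hba : β < α := by
    rw [hα, hβ]
    exact div_lt_div_of_pos_right (by linarith) (by linarith)
  obtain ⟨b1, b2, b3, b4, b5, b6, b7, b8, b9, b10, b11⟩ :=
    slab_six_bounds (by linarith) eb ea rfl (by linarith) hba h6 h8 hlay
  exact hS p q N _ _ _ hq hqp hpq hc rfl rfl rfl b1 h6 h8 b2 b3 b4 b5 b6 b7 b8 b9 b10 b11

/-- **The Lane–Emden conjecture in dimension six from calibrations on the slab.** -/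
theorem lane_emden_six (hS : SlabCalibSix) (hp : 0 < p) (hq : 0 < q)
    (hsub : (2 : ℝ) / 3 < 1 / (p + 1) + 1 / (q + 1)) :
    ¬ ∃ u v : EuclideanSpace ℝ (Fin 6) → ℝ,
      Continuous u ∧ Continuous v ∧ ContDiffOn ℝ 2 u {0}ᶜ ∧ ContDiffOn ℝ 2 v {0}ᶜ ∧
      (∀ x, 0 < u x) ∧ (∀ x, 0 < v x) ∧ (∀ x, x ≠ 0 → Δ u x = -(v x) ^ p) ∧
      (∀ x, x ≠ 0 → Δ v x = -(u x) ^ q) :=
  lane_emden_of_slabCalib (by norm_num) (slabCalib_six hS) hp hq
    (by push_cast; norm_num; simpa [one_div] using hsub)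

end Vale.Agent.P100.Calib
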