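import Mathlib
import Vale.Agent.P100.Calib.SlabGenPoint
import Vale.Agent.P100.Calib.SlabEndSix
import Vale.Agent.P100.Calib.SlabSix

/-!
# The slab of dimension six from the signs along the orbit

`genSix` is the family of `famSix` as parameters. With the end point theorem the calibrations on
the slab of dimension six follow from `SlabSignsSix`.
-/

open Set Filter Topology

namespace Vale.Agent.P100.Calib

open Orb Bubble

/-- The parameters of the family of dimension six. -/
noncomputable def genSix (N p q : ℝ) : GenPar :=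
  let a := 1 / (p + 1)
  let b := 1 / (q + 1)
  let d := b - a
  ⟨Six.kapSix a b, 3 / 20, -(7 / 50 - 1 / 5 * d) / N, a / b * (7 / 50 - 21 / 10 * d) / N,
    -(23 / 200), -(7 / 50) * d ^ 2, -(17 / 50) * d ^ 2 * (a / b), 0⟩

/-- The signs with some multiplier along every orbit of the slab of dimension six. -/
def SlabSignsSix : Prop :=
  ∀ p q N al be σ : ℝ, 0 < q → q < p → 1 < p * q → IsCrit N p q →
    al = 1 / (p + 1) → be = 1 / (q + 1) → σ = al + be → N * (1 - σ) = 2 →
    6 < N → N < 6 + 1 / 8 → 2 / 3 < σ → σ < 33 / 49 →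
    N * be ≤ 3 → N - 5 ≤ N * al → 1 / 6 < al → al < be → al < 33 / 98 → 1 / 3 < be → be < 1 / 2 →
    (3 * σ - 2) * σ ^ 3 < 2 * al ^ 2 * (be - al) ^ 2 →
    ∀ (S : Set ℝ) (R x y s dx dy : ℝ → ℝ), IsOrbitFns N p q S R x y s dx dy →
      ∀ z ∈ Ioc 0 ((p + 1) / (q + 1)),
        ∃ ν : ℝ, GenSigns N p q (genSix N p q).kap ((genSix N p q).num N (R z) (y z) z)
          ((genSix N p q).numW₁ z)
          ((genSix N p q).numG₁ N p q (R z) (x z) (y z) z (wFun N x y dx dy z)) ν (R z) (x z) (y z)
          z (s z) (wFun N x y dx dy z) (wFun₁ N R x y dx dy z)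

/-- **The signs give the calibrations on the slab of dimension six.** -/
theorem slabCalibSix_of_signs (hS : SlabSignsSix) : SlabCalibSix := by
  intro p q N al be σ hq hqp hpq hc hal hbe hσ hN h1 h2 h3 h4 h5 h6 h7 h8 h9 h10 h11 h12
  obtain ⟨S, R, x, y, s, dx, dy, h⟩ := exists_orbitFns hc
  have hsig := hS p q N al be σ hq hqp hpq hc hal hbe hσ hN h1 h2 h3 h4 h5 h6 h7 h8 h9 h10 h11 h12
    S R x y s dx dy h
  have hb : N - 5 ≤ N / (p + 1) := by
    rw [hal] at h6
    calc N - 5 ≤ N * (1 / (p + 1)) := h6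
      _ = N / (p + 1) := by ring
  have hσ' : N * (be - al) = N - 2 - 2 * (N * al) := by rw [hσ] at hN; linarith
  have hd3 : be - al ≤ 1 / 3 := by
    have := mul_le_mul_of_nonneg_right h1.le (show 0 ≤ be - al by linarith)
    linarith
  have hd : 0 ≤ (be - al) ^ 2 ∧ (be - al) ^ 2 ≤ 1 / 9 :=
    ⟨sq_nonneg _, le_trans (pow_le_pow_left₀ (by linarith) hd3 2) (by norm_num)⟩
  have hk : (genSix N p q).kap = -1 + 7 / 2 * (be - al) ^ 2 := by
    simp only [genSix, Six.kapSix, hal, hbe]
  have hq1 : 1 ≤ q := by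
    have : 1 / (q + 1) ≤ 1 / 2 := hbe ▸ h11.le
    rw [div_le_div_iff₀ (by linarith) (by norm_num)] at this
    linarith
  have hB : 13 / 10 ≤ 2 * q * ((N - 4 - (genSix N p q).kap) / 4) := by
    have h13 : 13 / 20 ≤ (N - 4 - (genSix N p q).kap) / 4 := by rw [hk]; linarith
    have := mul_le_mul hq1 h13 (by norm_num) (by linarith)
    linarith
  obtain ⟨kap, r₁, r₂, k, C₀, D₀, L₀, o⟩ := OrbitCalib.of_gen (n := 6) hc h (genSix N p q)
    (by rw [hk]; linarith) (by rw [hk]; push_cast; linarith) (by rw [hk]; linarith)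
    (by linarith) (by
      rw [← hal, ← hbe]
      have h13 : N * be * (13 / 10 - 1) ≤
          N * be * (2 * q * ((N - 4 - (genSix N p q).kap) / 4) - 1) :=
        mul_le_mul_of_nonneg_left (by linarith) (mul_pos (by linarith) (by linarith)).le
      have h14 : 2 ≤ N * be := by
        have := mul_le_mul h1.le h10.le (by norm_num) (by linarith)
        linarith
      linarith [hk, sq_nonneg (be - al)])
    (by norm_num [genSix]) (fun z hz => by
      obtain ⟨ν, hν⟩ := hsig z hz
      exact block_of_genSigns hc h _ (h.cover hz) hν)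
    (by
      have e := slabEndSix hc h1 h2 hb (r₁ := 0)
        (r₂ := (N - 4 - (genSix N p q).kap) / 4) (zero_add _)
      have e' : famSix N p q (endArg N p q (genSix N p q).kap) = (genSix N p q).endVal N p q := by
        simp only [famSix, endArg, GenPar.endVal, genSix, TailVal.mk.injEq, mul_zero, sub_zero,
          zero_mul, add_zero]
        refine ⟨trivial, ?_, trivial, trivial, ?_⟩ <;> ring
      simp only [show Six.kapSix (1 / (p + 1)) (1 / (q + 1)) = (genSix N p q).kap from rfl, e'] at e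
      exact e)
  exact ⟨S, R, x, y, s, dx, dy, kap, r₁, r₂, k, C₀, D₀, L₀, h, o⟩

end Vale.Agent.P100.Calib
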