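import Mathlib
import Vale.Agent.P100.Calib.SlabGenBridge
import Vale.Agent.P100.Calib.SlabGenSix

/-!
# The closed signs of the slab of dimension six

Along an orbit the numbers of `genSix` are functions of `d`, `v`, `W`, `R`, so the calibrations on
the slab of dimension six follow from the signs of the closed forms.
-/

set_option linter.unusedVariables false

open Set

namespace Vale.Agent.P100.Calib

open Orb Bubble

variable {N p q : ℝ}

/-- The numbers of the family of dimension six in the variables of the closed forms. -/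
noncomputable def sixNum (d v W R : ℝ) : ClosedGen.Num :=
  ⟨3 / 20, -(23 / 200), -(19 / 10) - 7 / 50 * v + 1 / 5 * d * v -
      (7 / 50 - 21 / 10 * d) * R * W,
    (7 / 50 - 21 / 10 * d) * (1 - R * d * W),
    -(7 / 50) - 17 / 50 * ((1 - R * d * W) / (1 + d * v)),
    -(17 / 50) * ((1 - R * d * W) / (1 + d * v)), 7 / 2⟩

/-- The numbers of `genSix` along an orbit are `sixNum`. -/
theorem closedNum_six {S : Set ℝ} {R x y s dx dy : ℝ → ℝ} (hc : IsCrit N p q)
    (h : IsOrbitFns N p q S R x y s dx dy) {z : ℝ} (hz : z ∈ S) {a d v : ℝ}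
    (ha : a = 1 / (p + 1)) (hd : d = 1 / (q + 1) - 1 / (p + 1))
    (hv : v = (1 / (q + 1) * y z / (a * x z) - 1) / d) :
    (genSix N p q).closedNum N p q d v (R z) (x z) (y z) z (wFun N x y dx dy z) =
      sixNum d v (wFun N x y dx dy z / (d * x z ^ 2)) (R z * x z) := by
  obtain ⟨hal, hlt, -⟩ := hc.weights
  have hN : N ≠ 0 := by linarith [hc.dim]
  have hb : 1 / (q + 1) = a + d := by rw [ha, hd]; ring
  have ha0 : 0 < a := ha ▸ hal
  have hd0 : 0 < d := by linarith
  have hx := h.x_pos z hz
  have hy := h.y_pos z hz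
  have hW := h.W_pos z hz
  rw [hb, ← ha] at hW
  rw [hb] at hv
  have hv' : v = ((a + d) * y z - a * x z) / (a * x z * d) := by rw [hv]; field_simp
  have hQ : (1 : ℝ) + d * v ≠ 0 := by
    have : 0 < v := by rw [hv']; exact div_pos hW (by positivity)
    positivity
  have hzz : a / (a + d) * z * (1 + d * v) = 1 - R z * x z * d *
      (wFun N x y dx dy z / (d * x z ^ 2)) := by
    have hwz := wFun_eq hc h hz
    have : z * y z = x z - R z * wFun N x y dx dy z := by linarith
    rw [hv']
    field_simp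
    linear_combination (a + d) * this
  have hzz' : a / (a + d) * z = (1 - R z * x z * d * (wFun N x y dx dy z / (d * x z ^ 2))) /
      (1 + d * v) := by rw [eq_div_iff hQ, hzz]
  simp only [GenPar.closedNum, GenPar.numG₁, genSix, sixNum, Six.kapSix, ← ha, hb, ClosedGen.Num.mk.injEq,
    true_and, add_sub_cancel_left, zero_mul, add_zero]
  rw [← hzz']
  generalize R z * x z = R' at hzz ⊢
  generalize wFun N x y dx dy z / (d * x z ^ 2) = W at hzz ⊢
  obtain ⟨t, ht⟩ : ∃ t, t = a / (a + d) * z := ⟨_, rfl⟩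
  rw [← ht] at hzz ⊢
  obtain ⟨Q, hQd⟩ : ∃ Q, Q = a / (a + d) := ⟨_, rfl⟩
  rw [← hQd] at ht
  simp only [← hQd]
  refine ⟨?_, ?_, ?_, ?_, ?_⟩
  · field_simp
    subst ht
    linear_combination (7 / 50 - 21 / 10 * d) * hzz * 2500
  · field_simp
    subst ht
    linear_combination (7 / 50 - 21 / 10 * d) * hzz * 500
  · field_simp
    subst ht
    ring
  · field_simp
    subst ht
    ring
  · field_simp
    ring

/-- The closed signs along every orbit of the slab of dimension six. -/
def SlabClosedSix : Prop :=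
  ∀ p q N al be σ : ℝ, 0 < q → q < p → 1 < p * q → IsCrit N p q →
    al = 1 / (p + 1) → be = 1 / (q + 1) → σ = al + be → N * (1 - σ) = 2 →
    6 < N → N < 6 + 1 / 8 → 2 / 3 < σ → σ < 33 / 49 →
    N * be ≤ 3 → N - 5 ≤ N * al → 1 / 6 < al → al < be → al < 33 / 98 → 1 / 3 < be → be < 1 / 2 →
    (3 * σ - 2) * σ ^ 3 < 2 * al ^ 2 * (be - al) ^ 2 →
    ∀ (S : Set ℝ) (R x y s dx dy : ℝ → ℝ), IsOrbitFns N p q S R x y s dx dy →
      ∀ z ∈ Ioc 0 ((p + 1) / (q + 1)),
        ClosedGen.Signs al (be - al) ((be * y z / (al * x z) - 1) / (be - al)) (s z / y z)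
          (wFun N x y dx dy z / ((be - al) * x z ^ 2))
          (wFun₁ N R x y dx dy z / ((be - al) * x z ^ 3)) (R z * x z)
          (sixNum (be - al) ((be * y z / (al * x z) - 1) / (be - al))
            (wFun N x y dx dy z / ((be - al) * x z ^ 2)) (R z * x z))

/-- **The closed signs give the calibrations on the slab of dimension six.** -/
theorem slabCalibSix_of_closed (hS : SlabClosedSix) : SlabCalibSix := by
  refine slabCalibSix_of_signs ?_
  intro p q N al be σ hq hqp hpq hc hal hbe hσ hN h1 h2 h3 h4 h5 h6 h7 h8 h9 h10 h11 h12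
    S R x y s dx dy h z hz
  have hs := hS p q N al be σ hq hqp hpq hc hal hbe hσ hN h1 h2 h3 h4 h5 h6 h7 h8 h9 h10 h11 h12
    S R x y s dx dy h z hz
  subst hal hbe
  rw [← closedNum_six hc h (h.cover hz) rfl rfl rfl] at hs
  exact ⟨_, genSigns_of_arrow (genArrow_of_closed hc h _ (by norm_num [genSix]) (h.cover hz)
    rfl rfl rfl hs)⟩

end Vale.Agent.P100.Calib
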