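import Mathlib
import Vale.Agent.P100.Calib.SlabChart
import Vale.Agent.P100.Calib.SlabGenBridgeSix

/-!
# The regions of the chart in dimension six

The chart `(d, S, u, v, t)` is the one of `SlabChart`; the numbers are `sixNum`. Up to `u = 3/5`
there is one piece for all `d`; beyond, a piece is an interval of `d` with its bands.
-/

set_option linter.unusedVariables false

namespace Vale.Agent.P100.Calib.Closed.Six

/-- The closed signs of dimension six at a point of the chart. -/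
def ChartSigns (d S u v t : ℝ) : Prop :=
  ClosedGen.Signs ((S - d) / 2) d v (chG d S u v t) (chW d S u v t) (chW1 d S u v t) (chR S u)
    (sixNum d v (chW d S u v t) (chR S u))

/-- The parameters of the slab of dimension six. -/
structure ChartBox (d S : ℝ) : Prop where
  pos : 0 < d
  tri : d ≤ 3 - 4 * S
  S_low : 2 / 3 < S
  S_high : S < 33 / 49
  pinch : 2 * (3 * S - 2) * S ^ 3 < (S - d) ^ 2 * d ^ 2

/-- What holds at every point of the outer orbit, `0 < u`. -/
structure ChartFacts (d S u v t : ℝ) : Prop where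
  u_pos : 0 < u
  u_lt : u < 1
  H_pos : 0 < chH d S u v t
  h_lt : d * chH d S u v t < 1
  v_crit : 2 * (1 - S) < v * (2 + (S - d) * (1 - S))
  v_low : 29 / 100 ≤ v
  r_lt : (S - d) * v < 2
  kap : S * (1 + d * v) < 1
  drift : 2 * S * (1 - (S - d) / 2 * v) / ((1 - S) * ((S + d) / 2)) <
    chG d S u v t * chH d S u v t / 2
  ev_pos : 0 < (1 - d * u * chH d S u v t) * chG d S u v t / 2 + 2 * S / (1 - S) * (u - 1)

/-- The closed signs past the crossing and at it, `u ≤ 0`. -/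
def SignsNeg : Prop :=
  ∀ d S u v t : ℝ, ChartBox d S → u ≤ 0 →
    37 / 125 + 1 / 25 * d - (S - 2 / 3) ≤ v - 9 / 50 * u →
    v - 9 / 50 * u ≤ 81 / 200 + 28 / 25 * d - 289 / 100 * d ^ 2 →
    -(1 / 125 + 13 / 100 * d + (3 / 5 + 17 / 100 * d) * (v - 9 / 50 * u)) ≤ u →
    27 / 20 - 117 / 25 * d + 29 / 5 * d ^ 2 + (107 / 100 - 477 / 100 * d + 33 / 5 * d ^ 2) * u ≤ t →
    t ≤ 147 / 100 - 49 / 10 * d + 6 * d ^ 2 →
    0 ≤ v + u * chH d S u v t →
    ChartSigns d S u v t

/-- The exit curve up to `u = 4/5`. -/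
noncomputable def phiLow (d u : ℝ) : ℝ :=
  2 / 5 + 28 / 25 * d - 289 / 100 * d ^ 2 +
    (37 / 100 - 417 / 100 * d + 67 / 5 * d ^ 2) * u +
    (49 / 100 + 133 / 100 * d - 171 / 25 * d ^ 2) * u ^ 2 / (19 / 20 - u)

/-- The lower band up to `u = 3/5`. -/
noncomputable def lowL (d u : ℝ) : ℝ :=
  6 / 5 - 371 / 100 * d + 169 / 50 * d ^ 2 + (36 / 25 - 263 / 25 * d + 43 / 2 * d ^ 2) * u +
    (229 / 100 - 202 / 25 * d) * u ^ 2

/-- The upper band up to `u = 3/5`. -/
noncomputable def upU (d u : ℝ) : ℝ :=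
  89 / 50 - 711 / 100 * d + 1027 / 100 * d ^ 2 +
    (-(99 / 100) + 274 / 25 * d - 2383 / 100 * d ^ 2) * u +
    (67 / 10 - 4659 / 100 * d + 8687 / 100 * d ^ 2) * u ^ 2

/-- The closed signs for `0 < u ≤ 3/5`. -/
def SignsLow : Prop :=
  ∀ d S u v t : ℝ, ChartBox d S → 0 < u → u ≤ 3 / 5 → ChartFacts d S u v t →
    v < phiLow d u → lowL d u < t → t < upU d u → ChartSigns d S u v t

/-- The lower band up to `u = 39/40`. -/
noncomputable def lowT (d u : ℝ) : ℝ :=
  ((8901 / 10000 - 464838 / 10000 * d + 1309812 / 10000 * d ^ 2) +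
      (18602 / 10000 + 932514 / 10000 * d - 2850123 / 10000 * d ^ 2) * u +
      (-17243 / 10000 - 504763 / 10000 * d + 1590104 / 10000 * d ^ 2) * u ^ 2) /
    (10267 / 10000 + 13438 / 10000 * d - 3410 / 10000 * d ^ 2 - u)

/-- The lower band from `u = 39/40` on. -/
noncomputable def lowEnd (d : ℝ) : ℝ := 17 / 20 * lowT d (39 / 40)

/-- The bands of one piece beyond `u = 3/5`. -/
structure Bands where
  /-- Above `v`. -/
  phi : ℝ → ℝ → ℝ
  /-- Above the slope at `v = 0`. -/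
  up : ℝ → ℝ → ℝ
  /-- The tilt of `up` in `v`. -/
  tilt : ℝ → ℝ → ℝ

/-- Where the last strip starts. -/
noncomputable def uLast (d : ℝ) : ℝ := max (39 / 40) (1 - 2 / 5 * d)

/-- Below `v` from `u = 39/40` on. -/
noncomputable def psi (d : ℝ) : ℝ := 11 / 10 - d

/-- The closed signs on `3/5 < u ≤ 39/40`. -/
def SignsTail (B : Bands) (d₀ d₁ : ℝ) : Prop :=
  ∀ d S u v t : ℝ, ChartBox d S → d₀ ≤ d → d ≤ d₁ → 3 / 5 < u → u ≤ 39 / 40 →
    ChartFacts d S u v t → v < B.phi d u → lowT d u < t → t < B.up d u + B.tilt d u * v →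
    ChartSigns d S u v t

/-- The closed signs on `39/40 ≤ u ≤ 1 - 2 d/5`. -/
def SignsLayer (B : Bands) (d₀ d₁ : ℝ) : Prop :=
  ∀ d S u v t : ℝ, ChartBox d S → d₀ ≤ d → d ≤ d₁ → d < 1 / 16 → 39 / 40 ≤ u →
    u ≤ 1 - 2 / 5 * d → ChartFacts d S u v t → v < B.phi d u → psi d ≤ v → lowEnd d < t →
    t < (23 / 50 + 15 * d - 175 * d ^ 2 + v / 10) / (1 - u + d) →
    ChartSigns d S u v t

/-- The closed signs from `uLast` on. -/
def SignsEnd : Prop :=
  ∀ d S u v t : ℝ, ChartBox d S → uLast d ≤ u → ChartFacts d S u v t → psi d ≤ v →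
    lowEnd d < t → ChartSigns d S u v t

/-- The piece `d ≤ 3/100`. -/
noncomputable def bandsA : Bands where
  phi d u :=
    ((4449 / 10000 + 11025 / 10000 * d + 450604 / 10000 * d ^ 2) +
      (1677 / 10000 - 63372 / 10000 * d + 257195 / 10000 * d ^ 2) * u +
      (-4134 / 10000 + 52233 / 10000 * d - 1111663 / 10000 * d ^ 2) * u ^ 2) /
    (10613 / 10000 - 2562 / 10000 * d - 126334 / 10000 * d ^ 2 - u)
  up d u :=
    ((9899 / 10000 + 25384 / 10000 * d - 56770 / 10000 * d ^ 2) +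
      (22367 / 10000 - 265277 / 10000 * d + 521275 / 10000 * d ^ 2) * u +
      (-23294 / 10000 + 218415 / 10000 * d - 445561 / 10000 * d ^ 2) * u ^ 2) /
    (10213 / 10000 + 4158 / 10000 * d + 60449 / 10000 * d ^ 2 - u)
  tilt d u := (1047 / 10000 - 2664 / 10000 * d + 6386 / 10000 * d ^ 2) / (10213 / 10000 + 4158 / 10000 * d + 60449 / 10000 * d ^ 2 - u)

/-- The piece `3/100 ≤ d ≤ 27/200`. -/
noncomputable def bandsB : Bands where
  phi d u :=
    ((4688 / 10000 + 9807 / 10000 * d + 143445 / 10000 * d ^ 2) +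
      (778 / 10000 + 42834 / 10000 * d - 818829 / 10000 * d ^ 2) * u +
      (-3339 / 10000 - 87629 / 10000 * d + 887392 / 10000 * d ^ 2) * u ^ 2) /
    (10679 / 10000 - 15531 / 10000 * d + 94429 / 10000 * d ^ 2 - u)
  up d u :=
    ((10782 / 10000 + 12374 / 10000 * d + 38760 / 10000 * d ^ 2) +
      (25272 / 10000 - 275010 / 10000 * d + 503730 / 10000 * d ^ 2) * u +
      (-29700 / 10000 + 245756 / 10000 * d - 383337 / 10000 * d ^ 2) * u ^ 2) /
    (10235 / 10000 + 6592 / 10000 * d + 61782 / 10000 * d ^ 2 - u)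
  tilt d u := (2012 / 10000 - 8887 / 10000 * d + 20378 / 10000 * d ^ 2) / (10235 / 10000 + 6592 / 10000 * d + 61782 / 10000 * d ^ 2 - u)

/-- The piece `27/200 ≤ d`. -/
noncomputable def bandsC : Bands where
  phi d u :=
    ((1003 / 10000 + 82233 / 10000 * d - 211870 / 10000 * d ^ 2) +
      (10241 / 10000 - 191297 / 10000 * d + 483620 / 10000 * d ^ 2) * u +
      (-10414 / 10000 + 111314 / 10000 * d - 276523 / 10000 * d ^ 2) * u ^ 2) /
    (9993 / 10000 + 1635 / 10000 * d + 682 / 10000 * d ^ 2 - u)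
  up d u :=
    ((9974 / 10000 + 31024 / 10000 * d - 37444 / 10000 * d ^ 2) +
      (22172 / 10000 - 252383 / 10000 * d + 439811 / 10000 * d ^ 2) * u +
      (-28318 / 10000 + 252797 / 10000 * d - 453520 / 10000 * d ^ 2) * u ^ 2) /
    (10349 / 10000 + 5840 / 10000 * d + 65512 / 10000 * d ^ 2 - u)
  tilt d u := (2260 / 10000 - 10274 / 10000 * d + 16907 / 10000 * d ^ 2) / (10349 / 10000 + 5840 / 10000 * d + 65512 / 10000 * d ^ 2 - u)

end Vale.Agent.P100.Calib.Closed.Six
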