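import Mathlib
import Vale.Agent.P100.Calib.SlabLadderTwo

/-!
# The box of the slab of dimension six, and the two rungs on it

`SlabBoxSix` is the range of `(N, 1/(p+1), 1/(q+1))` on the slab of dimension six. A band rung and
an exit rung as in dimension five, for `u ≤ u₁ < 1`.
-/

open Set Filter Topology

namespace Vale.Agent.P100.Calib.Band

open Vale.Agent.P100.Bubble Chart

variable {N al be r u : ℝ}

/-- The slab box of dimension six. -/
structure SlabBoxSix (N al be : ℝ) : Prop where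
  six : 6 ≤ N
  sum : N * (1 - (al + be)) = 2
  low : N - 5 ≤ N * al
  lt : al < be
  S_low : 2 / 3 ≤ al + be
  S_high : al + be ≤ 33 / 49

namespace SlabBoxSix

theorem five (h : SlabBoxSix N al be) : 5 ≤ N := by linarith [h.six]

theorem one_le (h : SlabBoxSix N al be) : 1 ≤ N * al := by linarith [h.six, h.low]

theorem N_le (h : SlabBoxSix N al be) : N ≤ 49 / 8 := by
  have h2 := mul_le_mul_of_nonneg_left (show (16 : ℝ) / 49 ≤ 1 - (al + be) by linarith [h.S_high])
    (show 0 ≤ N by linarith [h.six])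
  linarith [h.sum]

theorem diff (h : SlabBoxSix N al be) : be - al ≤ 1 / 3 := by
  have h1 : N * (be - al) ≤ 2 := by linarith [h.sum, h.low, h.six]
  rcases le_total (be - al) 0 with h2 | h2
  · linarith
  · have := mul_le_mul_of_nonneg_right h.six h2
    linarith

theorem facts (h : SlabBoxSix N al be) :
    0 < al ∧ 0 < be ∧ 0 < be - al ∧ 1 - (al + be) ≠ 0 ∧ 2 - (al + be) ≠ 0 ∧
      1 / 6 ≤ al ∧ al ≤ 33 / 98 ∧ 1 / 3 ≤ be := by
  have hS : al + be < 1 := lt_of_le_of_lt h.S_high (by norm_num)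
  have h1 : 1 / 6 ≤ al := by linarith [h.diff, h.S_low]
  have h2 : al ≤ 33 / 98 := by linarith [h.lt, h.S_high]
  exact ⟨by linarith, by linarith [h.lt], by linarith [h.lt], by linarith, by linarith, h1, h2,
    by linarith [h.lt, h.S_low]⟩

/-- The range of `v`. -/
theorem v_mem (h : SlabBoxSix N al be) (hc : 0 < Trap.c0p N al be r) (h1 : r < 1)
    (hk : (N - 2) * be * r < N * al) :
    29 / 100 ≤ vOf al be r ∧ vOf al be r ≤ 15 / 4 ∧ (be - al) * vOf al be r < 1 / 2 := by
  obtain ⟨hal, hbe, hd, hS1, -, hal1, hal2, -⟩ := h.facts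
  have hN := h.six
  have hN2 := h.N_le
  set v := vOf al be r with hv
  have hr : be * r = al * (1 + (be - al) * v) := by
    rw [hv, vOf]; field_simp; ring
  have a2 : (be - al) * v < 1 / 2 := by
    have h2 : (N - 2) * (1 + (be - al) * v) < N := by
      refine lt_of_mul_lt_mul_left (a := al) ?_ hal.le
      have := congrArg (fun w => (N - 2) * w) hr
      linarith
    by_contra h3
    rw [not_lt] at h3
    have := mul_le_mul_of_nonneg_left h3 (show 0 ≤ N - 2 by linarith)
    linarith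
  refine ⟨?_, ?_, a2⟩
  · simp only [Trap.c0p] at hc
    have h2 : 2 * ((be - al) * al) < (N + 2 * al) * ((be - al) * al) * v := by
      have := congrArg (fun w => (N + 2 * al) * w) hr
      linarith
    have h3 : 2 < (N + 2 * al) * v := by
      refine lt_of_mul_lt_mul_right (a := (be - al) * al) ?_ (mul_pos hd hal).le
      linarith
    have hv0 : 0 < v := pos_of_mul_pos_right (lt_trans two_pos h3) (by linarith)
    have := mul_le_mul_of_nonneg_right (show N + 2 * al ≤ 34 / 5 by linarith) hv0.le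
    linarith
  · by_contra hv1
    rw [not_le] at hv1
    have a1 : al * v < 1 := by
      have h2 : be * r < be * 1 := mul_lt_mul_of_pos_left h1 hbe
      refine lt_of_mul_lt_mul_left (a := be - al) ?_ hd.le
      have h3 : al * (1 + (be - al) * v) < be := by linarith
      linarith
    rcases le_or_gt (be - al) (2 / 15) with hd2 | hd2
    · have h2 := mul_lt_mul_of_pos_left hv1 hal
      have h3 : 4 / 15 ≤ al := by linarith [h.S_low]
      linarith
    · have h2 := mul_lt_mul_of_pos_right hd2 (show 0 < v by linarith)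
      linarith

theorem r_eq (h : SlabBoxSix N al be) (r : ℝ) :
    al / be * (1 + (be - al) * vOf al be r) = r := by
  obtain ⟨hal, hbe, hd, -⟩ := h.facts
  unfold vOf
  field_simp
  ring

theorem bandD_pos (h : SlabBoxSix N al be) {v c₁ c₂ c₃ : ℝ} (hu : 0 ≤ u) (hu1 : u ≤ 1)
    (hv : 29 / 100 ≤ v) (hdv : (be - al) * v ≤ 1 / 2) {bd : ℝ} (hbd : (be - al) * bd ≤ 9 / 10)
    (hc : c₁ + c₂ * u + c₃ * u ^ 2 ≤ bd) :
    0 < bandD (al + be) (be - al) u v (bandK (al + be) (be - al) u v c₁ c₂ c₃) := by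
  obtain ⟨hal, hbe, hd, -, -, hal1, hal2, hbe1⟩ := h.facts
  have hS := h.S_low
  have hS' := h.S_high
  have hdd := h.diff
  have e : (al + be - (be - al)) / 2 = al := by ring
  have e' : (al + be + (be - al)) / 2 = be := by ring
  simp only [bandD, bandK, bandB, e, e']
  set B := be * (2 - (al + be)) with hBd
  have hB1 : 11 / 25 ≤ B := by
    have := mul_le_mul hbe1 (show 65 / 49 ≤ 2 - (al + be) by linarith) (by norm_num) (by linarith)
    linarith
  set d := be - al
  set P := c₁ + c₂ * u + c₃ * u ^ 2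
  have h2 : d * u * ((al + be) * (1 + (1 - al) * v)) - B * (d * v) ≤
      1 / 3 * (33 / 49) + 1 / 16 := by
    have h7 : d * (al + be) ≤ 1 / 3 * (33 / 49) := mul_le_mul hdd hS' (by linarith) (by norm_num)
    have h10 : (al + be) * (1 - al) - B ≤ 1 / 8 := by
      have := mul_le_mul hS' (show 1 - al ≤ 5 / 6 by linarith) (by linarith) (by norm_num)
      linarith
    have hdv0 : 0 ≤ d * v := mul_nonneg hd.le (by linarith)
    have h8 : ((al + be) * (1 - al) - B) * (d * v) ≤ 1 / 16 := by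
      have := mul_le_mul_of_nonneg_right h10 hdv0
      linarith
    have h9 : 0 ≤ d * ((al + be) * (1 + (1 - al) * v)) :=
      mul_nonneg hd.le (mul_nonneg (by linarith)
        (add_nonneg zero_le_one (mul_nonneg (by linarith) (by linarith))))
    have := mul_le_mul_of_nonneg_right hu1 h9
    linarith
  have h3 : d * u * (u * P) ≤ 9 / 10 := by
    have h4 : d * u * (u * P) ≤ d * bd * (u * u) := by
      have := mul_le_mul_of_nonneg_left hc (mul_nonneg hd.le (mul_nonneg hu hu))
      linarith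
    have h5 : d * bd * (u * u) ≤ 9 / 10 * 1 :=
      mul_le_mul hbd (mul_le_one₀ hu1 hu hu1) (mul_nonneg hu hu) (by norm_num)
    linarith
  have h6 : B * (d * u * (u * P)) ≤ B * (9 / 10) :=
    mul_le_mul_of_nonneg_left h3 (by linarith)
  linarith

theorem lie_sign (h : SlabBoxSix N al be) {c₁ c₂ c₃ : ℝ} (hu : 0 < u) (hu1 : u ≤ 1)
    (hc : 0 < Trap.c0p N al be r) (h1 : r < 1) (hk : (N - 2) * be * r < N * al)
    {bd : ℝ} (hbd : (be - al) * bd ≤ 9 / 10)
    (hb : c₁ + c₂ * u + c₃ * u ^ 2 ≤ bd) {e : ℝ}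
    (hT : 0 < e * lieT (al + be) (be - al) u (vOf al be r) c₁ c₂ c₃) :
    0 < e * lie N al be (fun u _ => bandLu (be - al) c₁ c₂ c₃ u) (fun _ _ => bandLr N al) u r
      (bandL N al be (be - al) c₁ c₂ c₃ u r) := by
  obtain ⟨hal, hbe, hd, hS1, hS2, -, -, -⟩ := h.facts
  obtain ⟨hv, -, hdv⟩ := h.v_mem hc h1 hk
  have hD := h.bandD_pos hu.le hu1 hv hdv.le hbd hb
  have key := lie_band (u := u) h.sum rfl rfl hal.ne' hbe.ne' hS1 hS2 hD.ne'
  rw [h.r_eq] at key
  set X := (1 - (al + be)) * bandB (al + be) (be - al) * be *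
    bandD (al + be) (be - al) u (vOf al be r)
      (bandK (al + be) (be - al) u (vOf al be r) c₁ c₂ c₃)
  have hX : 0 < X := by
    refine mul_pos (mul_pos (mul_pos (by linarith [h.S_high]) ?_) hbe) hD
    unfold bandB
    exact mul_pos (by linarith) (by linarith [h.S_high])
  refine pos_of_mul_pos_left (b := X) ?_ hX.le
  rw [mul_assoc, key]
  have := mul_pos (mul_pos hd hu) hT
  linarith

end SlabBoxSix

variable {p q : ℝ} {S : Set ℝ} {R x y s dx dy : ℝ → ℝ}

/-- **A band rung.** -/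
theorem band_step_six (hf : IsOrbitFns N p q S R x y s dx dy)
    (hb : SlabBoxSix N (1 / (p + 1)) (1 / (q + 1))) {e u₁ : ℝ} (he : e * e = 1)
    (c₁ c₂ c₃ : ℝ) (E : ℝ → ℝ → Prop)
    (hE : ∀ w ∈ S, 0 < R w → uOf N (R w) (x w) ≤ u₁ → E (uOf N (R w) (x w)) (y w / x w))
    {bd : ℝ} (hbd : (1 / (q + 1) - 1 / (p + 1)) * bd ≤ 9 / 10)
    (hP : ∀ u, 0 ≤ u → u ≤ u₁ → c₁ + c₂ * u + c₃ * u ^ 2 ≤ bd)
    (hsign : ∀ u r, 0 ≤ u → u ≤ u₁ → E u r → 29 / 100 ≤ vOf (1 / (p + 1)) (1 / (q + 1)) r →
      vOf (1 / (p + 1)) (1 / (q + 1)) r ≤ 15 / 4 →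
      (1 / (q + 1) - 1 / (p + 1)) * vOf (1 / (p + 1)) (1 / (q + 1)) r < 1 / 2 →
      0 < e * lieT (1 / (p + 1) + 1 / (q + 1)) (1 / (q + 1) - 1 / (p + 1)) u
        (vOf (1 / (p + 1)) (1 / (q + 1)) r) c₁ c₂ c₃)
    {w : ℝ} (hw : w ∈ S) (hw0 : 0 < R w) (hwu : uOf N (R w) (x w) ≤ u₁) :
    0 < e * (hOf N (R w) (x w) (y w) w - bandL N (1 / (p + 1)) (1 / (q + 1))
      (1 / (q + 1) - 1 / (p + 1)) c₁ c₂ c₃ (uOf N (R w) (x w)) (y w / x w)) := by
  have hlow : 1 ≤ N * (1 / (p + 1)) := hb.one_le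
  have hcont := continuous_band (N := N) (al := 1 / (p + 1)) (be := 1 / (q + 1))
    (d := 1 / (q + 1) - 1 / (p + 1)) (c₁ := c₁) (c₂ := c₂) (c₃ := c₃)
  refine hf.band_barrier hb.five hlow e u₁ he _ _ _ E
    (hasGradTwo_band (N := N) (al := 1 / (p + 1)) (be := 1 / (q + 1))
      (d := 1 / (q + 1) - 1 / (p + 1)) (c₁ := c₁) (c₂ := c₂) (c₃ := c₃))
    (fun r' => ⟨hcont.1.continuousAt, hcont.2.1.continuousAt,
      continuous_const.continuousAt⟩)
    (fun r' _ _ _ => le_of_eq (by simp [bandL])) hE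
    (fun u r hu hu' hu1 _ hr1 _ hc hk hEur => ?_) w hw hw0 hwu
  obtain ⟨hv, hv1, hdv⟩ := hb.v_mem hc hr1 hk
  exact hb.lie_sign hu hu'.le hc hr1 hk hbd (hP u hu.le hu1)
    (hsign u r hu.le hu1 hEur hv hv1 hdv)

/-- **An exit rung**: below the curve `φ = a + b u + k u²/(c - u)`. -/
theorem exit_step_six (hf : IsOrbitFns N p q S R x y s dx dy)
    (hb : SlabBoxSix N (1 / (p + 1)) (1 / (q + 1))) {u₁ : ℝ} (hu₁ : u₁ < 1)
    {a b k c c₁ c₂ c₃ : ℝ} (hc : u₁ < c) (hb0 : 0 ≤ b) (hk0 : 0 ≤ k) (E : ℝ → ℝ → Prop)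
    (hE : ∀ w ∈ S, 0 < R w → uOf N (R w) (x w) ≤ u₁ → E (uOf N (R w) (x w)) (y w / x w))
    (hend : ∀ r, E u₁ r → 29 / 100 ≤ vOf (1 / (p + 1)) (1 / (q + 1)) r →
      vOf (1 / (p + 1)) (1 / (q + 1)) r ≤ 15 / 4 →
      (1 / (q + 1) - 1 / (p + 1)) * vOf (1 / (p + 1)) (1 / (q + 1)) r < 1 / 2 →
      vOf (1 / (p + 1)) (1 / (q + 1)) r < phiG a b k c u₁)
    (hlow : ∀ w ∈ S, 0 < R w → uOf N (R w) (x w) ≤ u₁ →
      bandL N (1 / (p + 1)) (1 / (q + 1)) (1 / (q + 1) - 1 / (p + 1)) c₁ c₂ c₃
        (uOf N (R w) (x w)) (y w / x w) < hOf N (R w) (x w) (y w) w)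
    {bd : ℝ} (hbd : (1 / (q + 1) - 1 / (p + 1)) * bd ≤ 9 / 10)
    (hP : ∀ u, 0 ≤ u → u ≤ u₁ → c₁ + c₂ * u + c₃ * u ^ 2 ≤ bd)
    (hsign : ∀ u, 0 ≤ u → u ≤ u₁ →
      0 < exitG (1 / (p + 1) + 1 / (q + 1)) (1 / (q + 1) - 1 / (p + 1)) u a b k c c₁ c₂ c₃)
    (hslope : ∀ u, 0 ≤ u → u ≤ u₁ →
      0 ≤ slopeB (1 / (p + 1) + 1 / (q + 1)) (1 / (q + 1) - 1 / (p + 1)) u a b k c c₁ c₂ c₃)
    {w : ℝ} (hw : w ∈ S) (hw0 : 0 < R w) (hwu : uOf N (R w) (x w) ≤ u₁) :
    vOf (1 / (p + 1)) (1 / (q + 1)) (y w / x w) < phiG a b k c (uOf N (R w) (x w)) := by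
  obtain ⟨hal', hbe', hd', hS1, hS2, -, -, -⟩ := hb.facts
  set al := 1 / (p + 1) with hald
  set be := 1 / (q + 1) with hbed
  have h5 := hb.five
  have hlow1 : 1 ≤ N * al := hb.one_le
  set d := be - al with hdd
  set G : ℝ → ℝ → ℝ → ℝ := fun u' r' _ =>
    (a + b * u') * (c - u') + k * u' ^ 2 - (c - u') * vOf al be r' with hGdef
  have hG : HasGrad G (fun u' r' _ => b * (c - u') - (a + b * u') + 2 * k * u' + vOf al be r')
      (fun u' _ _ => -((c - u') * (be / al / d))) (fun _ _ _ => 0) := by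
    intro a' b' c' da db dc t ha hb' hc'
    refine ((((((ha.const_mul b).const_add a).fun_mul (ha.const_sub c)).fun_add
      ((ha.fun_pow 2).const_mul k)).fun_sub ((ha.const_sub c).fun_mul
        (((hb'.const_mul (be / al)).sub_const 1).div_const (be - al))))).congr_deriv ?_
    simp only [vOf, d]
    ring
  have key := hf.exit_barrier h5 hlow1 u₁ hu₁ G _ _ _
    (fun u' r' h' => u' ≤ u₁ → bandL N al be d c₁ c₂ c₃ u' r' < h' ∧ E u' r') hG
    (fun w' hw' hw'0 hw'u _ => ⟨hlow w' hw' hw'0 hw'u, hE w' hw' hw'0 hw'u⟩)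
    (fun r' w' hI hE' => ?_) (fun u' r' w' hI hu' hE' hG0 => ?_) w hw hw0 hwu
  · have hg : 0 < c - uOf N (R w) (x w) := by linarith
    simp only [G] at key
    rw [← sub_pos]
    have e : phiG a b k c (uOf N (R w) (x w)) - vOf al be (y w / x w) =
        ((a + b * uOf N (R w) (x w)) * (c - uOf N (R w) (x w)) + k * uOf N (R w) (x w) ^ 2 -
          (c - uOf N (R w) (x w)) * vOf al be (y w / x w)) / (c - uOf N (R w) (x w)) := by
      unfold phiG
      generalize c - uOf N (R w) (x w) = g at hg ⊢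
      field_simp
    rw [e]
    exact div_pos key hg
  · obtain ⟨-, -, -, hr1, -, -, -, hc0, hk, -⟩ := hI
    obtain ⟨hv0, hv1, hdv⟩ := hb.v_mem hc0 hr1 hk
    have hlt := hend r' (hE' le_rfl).2 hv0 hv1 hdv
    have hg : 0 < c - u₁ := by linarith
    simp only [G]
    have e : (a + b * u₁) * (c - u₁) + k * u₁ ^ 2 = (c - u₁) * phiG a b k c u₁ := by
      unfold phiG
      generalize c - u₁ = g at hg ⊢
      field_simp
    rw [e, ← mul_sub]
    exact mul_pos hg (by linarith)
  · obtain ⟨hu0, hu1, hr0, hr1, hh0, hh1, hr2, hc0, hk, -⟩ := hI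
    simp only [G] at hG0
    have hgap : 0 < c - u' := by linarith
    have hvphi : vOf al be r' = phiG a b k c u' := by
      refine mul_left_cancel₀ hgap.ne' ?_
      have e : (c - u') * phiG a b k c u' = (a + b * u') * (c - u') + k * u' ^ 2 := by
        unfold phiG
        generalize c - u' = g at hgap ⊢
        field_simp
      linarith
    obtain ⟨hv0, -, hdv0⟩ := hb.v_mem hc0 hr1 hk
    have hv : 29 / 100 ≤ phiG a b k c u' := hvphi ▸ (show 29 / 100 ≤ vOf al be r' from hv0)
    have hdv' : d * phiG a b k c u' ≤ 1 / 2 :=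
      hvphi ▸ (show d * vOf al be r' ≤ 1 / 2 from hdv0.le)
    have hr' : al / be * (1 + d * phiG a b k c u') = r' := by rw [← hvphi]; exact hb.r_eq r'
    have hu9 : u' ≤ 1 := hu1.le
    have hD := hb.bandD_pos (v := phiG a b k c u') (c₁ := c₁) (c₂ := c₂) (c₃ := c₃) hu0.le hu9
      hv hdv' hbd (hP u' hu0.le hu')
    have hbv := band_value (u := u') (v := phiG a b k c u') (c₁ := c₁) (c₂ := c₂) (c₃ := c₃)
      hb.sum rfl rfl hal'.ne' hbe'.ne' hS1 hS2
    rw [hr'] at hbv
    have hband := exitV_band (u := u') (a := a) (b := b) (k := k) (c := c) (c₁ := c₁) (c₂ := c₂)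
      (c₃ := c₃) hb.sum rfl rfl hal'.ne' hbe'.ne' hS1 hS2 hgap.ne' hD.ne'
    have hB : 0 < bandB (al + be) d := by
      unfold bandB; exact mul_pos (by linarith) (by linarith [hb.S_high])
    have hpos : 0 < exitV N al be d (phiG a b k c u') (phiG' b k c u') u'
        (d * bandK (al + be) d u' (phiG a b k c u') c₁ c₂ c₃ / bandB (al + be) d) := by
      refine pos_of_mul_pos_left (hband.symm ▸ mul_pos hd' (hsign u' hu0.le hu')) ?_
      exact mul_nonneg (mul_nonneg (mul_nonneg (by linarith [hb.S_high]) hbe'.le) hD.le)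
        (by positivity)
    rw [← hbv] at hpos
    have hcu : 0 ≤ 2 * c * u' - u' ^ 2 := by nlinarith
    have hvp : 0 ≤ phiG' b k c u' := by
      unfold phiG'
      exact add_nonneg hb0 (div_nonneg (mul_nonneg hk0 hcu) (sq_nonneg _))
    have hsl : d * u' * phiG' b k c u' * (1 - u' * bandL N al be d c₁ c₂ c₃ u' r') ≤
        (1 + d * phiG a b k c u') *
          (2 + d * phiG a b k c u' - u' * bandL N al be d c₁ c₂ c₃ u' r') := by
      have h1 := hslope u' hu0.le hu'
      rw [hbv, ← sub_nonneg]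
      refine nonneg_of_mul_nonneg_left (b := (c - u') ^ 4 * bandB (al + be) d) (le_of_le_of_eq h1 ?_)
        (by positivity)
      simp only [slopeB, bandK]
      unfold phiG phiG'
      generalize bandB (al + be) d = B at hB ⊢
      generalize c - u' = g at hgap ⊢
      field_simp
      ring
    have hmono := exitV_mono_band (N := N) (al := al) (be := be) (d := d) (u := u')
      (v := phiG a b k c u') (vp := phiG' b k c u')
      (g := bandL N al be d c₁ c₂ c₃ u' r') (h := w') (hE' hu').1.le hal' hbe' hd'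
      hu0.le hh0.le ((mul_le_of_le_one_right hu0.le hh1.le).trans hu1.le)
      (lt_of_lt_of_le (by norm_num) hv) hvp hsl ?_ ?_
    · have hf' := hpos.trans_le hmono
      simp only [exitV, hr'] at hf'
      have e : (b * (c - u') - (a + b * u') + 2 * k * u' + vOf al be r') *
            (u' * ev N al be u' r' w') +
          -((c - u') * (be / al / d)) * (r' * dv N al be u' r' w') + 0 * fh N al be u' r' w' =
          -(u' * (c - u') / d) * ((1 + d * phiG a b k c u') *
            (qv N al be u' r' w' * w' - (N - 2) * (1 - r')) -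
            d * phiG' b k c u' * ev N al be u' r' w') := by
        rw [hvphi]
        have hr'' : r' * (be / al) = 1 + d * phiG a b k c u' := by rw [← hr']; field_simp
        simp only [dv]
        rw [show -((c - u') * (be / al / d)) *
            (r' * (u' * (qv N al be u' r' w' * w' - (N - 2) * (1 - r')))) =
            -((c - u') / d) * (r' * (be / al)) *
              (u' * (qv N al be u' r' w' * w' - (N - 2) * (1 - r'))) by ring, hr'']
        unfold phiG phiG'
        generalize hG' : c - u' = G' at hgap ⊢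
        field_simp
        subst hG'
        ring
      rw [e]
      exact mul_neg_of_neg_of_pos (neg_neg_of_pos (div_pos (mul_pos hu0 hgap) hd')) hf'
    · have h2 : u' * bandL N al be d c₁ c₂ c₃ u' r' ≤ u' * w' :=
        mul_le_mul_of_nonneg_left (hE' hu').1.le hu0.le
      have h3 : u' * w' < 1 := lt_of_le_of_lt (mul_le_of_le_one_right hu0.le hh1.le) hu1
      have h4 := mul_pos hd' (lt_of_lt_of_le (by norm_num) hv : 0 < phiG a b k c u')
      linarith
    · set v := phiG a b k c u'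
      have key' : u' * (al + be) * (1 + d * v) ≤ be * (2 + d * v) := by
        have hv' : 0 ≤ v := le_trans (by norm_num) hv
        have h1 := mul_le_mul_of_nonneg_right hu9
          (mul_nonneg (show 0 ≤ al + be by linarith) (show 0 ≤ 1 + d * v by
            linarith [mul_nonneg hd'.le hv']))
        have h3 : al * (d * v) ≤ d := by
          have h4 : al * r' < al * 1 := mul_lt_mul_of_pos_left hr1 hal'
          rw [← hr'] at hr1
          have h6 : al * (1 + d * v) < be := by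
            rw [div_mul_eq_mul_div, div_lt_one hbe'] at hr1
            exact hr1
          linarith
        linarith
      have eN : N - 2 = N * (al + be) := by linarith [hb.sum]
      have e : N * (al + al * (1 + d * v)) - (N - 2) * u' * (al / be * (1 + d * v)) =
          N * al / be * (be * (2 + d * v) - u' * (al + be) * (1 + d * v)) := by
        rw [eN]; field_simp; ring
      rw [e]
      exact mul_nonneg (div_nonneg (mul_nonneg (by linarith) hal'.le) hbe'.le) (sub_nonneg.2 key')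

end Vale.Agent.P100.Calib.Band
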