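import Vale.Agent.P100.Calib.SlabSixExpr

/-!
# Certificates of the bands on the slab of dimension six, part B
-/

-- The checks are definitions, so that they run one after another with little memory.
set_option linter.defProp false

namespace Vale.Agent.P100.Calib.Band

open BoxPos

def six_lower_0_0 :
    (sixLowerAt 0 275 821 1135).checkQuick ⟨289, ⟨8, 3, 9, 6⟩⟩ (sixBox 0 275 0 1001 0 220) = true := by decide +kernel

def six_lower_275_0 :
    (sixLowerAt 275 550 1135 1679).checkQuick ⟨291, ⟨8, 3, 9, 6⟩⟩ (sixBox 275 550 0 1001 0 220) = true := by decide +kernel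

def six_lower_0_220 :
    (sixLowerAt 0 275 821 1135).checkQuick ⟨291, ⟨8, 3, 9, 6⟩⟩ (sixBox 0 275 0 1001 220 334) = true := by decide +kernel

def six_lower_275_220 :
    (sixLowerAt 275 550 1135 1679).checkQuick ⟨292, ⟨8, 3, 9, 6⟩⟩ (sixBox 275 550 0 1001 220 277) = true := by decide +kernel

def six_lower_275_277 :
    (sixLowerAt 275 412 1135 1364).checkQuick ⟨299, ⟨8, 3, 9, 6⟩⟩ (sixBox 275 412 0 1001 277 334) = true := by decide +kernel

def six_lower_412_277 :
    (sixLowerAt 412 550 1364 1679).checkQuick ⟨298, ⟨8, 3, 9, 6⟩⟩ (sixBox 412 550 0 1001 277 305) = true := by decide +kernel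

def six_lower_412_305 :
    (sixLowerAt 412 481 1364 1508).checkQuick ⟨297, ⟨8, 3, 9, 6⟩⟩ (sixBox 412 481 0 1001 305 334) = true := by decide +kernel

def six_lower_481_305 :
    (sixLowerAt 481 515 1508 1589).checkQuick ⟨292, ⟨8, 3, 9, 6⟩⟩ (sixBox 481 515 0 1001 305 334) = true := by decide +kernel

def six_lower_515_305 :
    (sixLowerAtD 305 334 1640 1498).checkQuick ⟨294, ⟨7, 3, 10, 6⟩⟩ (sixBox 515 550 0 1001 305 334) = true := by decide +kernel

def six_lower_550_0 :
    (sixLowerAt 550 675 1679 2085).checkQuick ⟨284, ⟨8, 3, 9, 6⟩⟩ (sixBox 550 675 0 1001 0 200) = true := by decide +kernel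

def six_lower_675_0 :
    (sixLowerAt 675 800 2085 2693).checkQuick ⟨284, ⟨8, 3, 9, 6⟩⟩ (sixBox 675 801 0 1001 0 100) = true := by decide +kernel

def six_lower_675_100 :
    (sixLowerAt 675 800 2085 2693).checkQuick ⟨285, ⟨8, 3, 9, 6⟩⟩ (sixBox 675 801 0 1001 100 150) = true := by decide +kernel

def six_lower_675_150 :
    (sixLowerAt 675 738 2085 2357).checkQuick ⟨297, ⟨8, 3, 9, 6⟩⟩ (sixBox 675 738 0 1001 150 200) = true := by decide +kernel

def six_lower_738_150 :
    (sixLowerAt 738 769 2357 2515).checkQuick ⟨294, ⟨8, 3, 9, 6⟩⟩ (sixBox 738 769 0 1001 150 200) = true := by decide +kernel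

def six_lower_769_150 :
    (sixLowerAt 769 800 2515 2693).checkQuick ⟨294, ⟨8, 3, 9, 6⟩⟩ (sixBox 769 801 0 1001 150 175) = true := by decide +kernel

def six_lower_769_175 :
    (sixLowerAtD 175 200 2858 2500).checkQuick ⟨284, ⟨7, 3, 10, 6⟩⟩ (sixBox 769 801 0 1001 175 200) = true := by decide +kernel

end Vale.Agent.P100.Calib.Band
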