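import Vale.Agent.P100.Calib.SlabSixExpr

/-!
# Certificates of the bands on the slab of dimension six, part C
-/

-- The checks are definitions, so that they run one after another with little memory.
set_option linter.defProp false

namespace Vale.Agent.P100.Calib.Band

open BoxPos

def six_lower_550_200 :
    (sixLowerAt 550 612 1679 1862).checkQuick ⟨294, ⟨8, 3, 9, 6⟩⟩ (sixBox 550 612 0 1001 200 267) = true := by decide +kernel

def six_lower_612_200 :
    (sixLowerAt 612 643 1862 1966).checkQuick ⟨294, ⟨8, 3, 9, 6⟩⟩ (sixBox 612 643 0 1001 200 267) = true := by decide +kernel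

def six_lower_643_200 :
    (sixLowerAt 643 675 1966 2085).checkQuick ⟨284, ⟨8, 3, 9, 6⟩⟩ (sixBox 643 675 0 1001 200 233) = true := by decide +kernel

def six_lower_643_233 :
    (sixLowerAt 643 675 1966 2085).checkQuick ⟨284, ⟨8, 3, 9, 6⟩⟩ (sixBox 643 675 0 1001 233 250) = true := by decide +kernel

def six_lower_643_250 :
    (sixLowerAtD 250 267 2000 1873).checkQuick ⟨292, ⟨7, 3, 10, 6⟩⟩ (sixBox 643 675 0 1001 250 267) = true := by decide +kernel

def six_lower_550_267 :
    (sixLowerAt 550 581 1679 1766).checkQuick ⟨294, ⟨8, 3, 9, 6⟩⟩ (sixBox 550 581 0 1001 267 300) = true := by decide +kernel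

def six_lower_581_267 :
    (sixLowerAtD 267 300 1873 1667).checkQuick ⟨294, ⟨7, 3, 10, 6⟩⟩ (sixBox 581 612 0 1001 267 300) = true := by decide +kernel

def six_lower_612_267 :
    (sixLowerAtD 267 300 1873 1667).checkQuick ⟨295, ⟨7, 3, 10, 6⟩⟩ (sixBox 612 675 0 1001 267 300) = true := by decide +kernel

def six_lower_550_300 :
    (sixLowerAtD 300 334 1667 1498).checkQuick ⟨293, ⟨7, 3, 10, 6⟩⟩ (sixBox 550 675 0 1001 300 334) = true := by decide +kernel

def six_lower_675_200 :
    (sixLowerAt 675 706 2085 2212).checkQuick ⟨294, ⟨8, 3, 9, 6⟩⟩ (sixBox 675 706 0 1001 200 233) = true := by decide +kernel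

def six_lower_706_200 :
    (sixLowerAt 706 738 2212 2357).checkQuick ⟨284, ⟨8, 3, 9, 6⟩⟩ (sixBox 706 738 0 1001 200 216) = true := by decide +kernel

def six_lower_706_216 :
    (sixLowerAtD 216 233 2315 2146).checkQuick ⟨292, ⟨7, 3, 10, 6⟩⟩ (sixBox 706 738 0 1001 216 233) = true := by decide +kernel

def six_lower_738_200 :
    (sixLowerAtD 200 233 2500 2146).checkQuick ⟨295, ⟨7, 3, 10, 6⟩⟩ (sixBox 738 801 0 1001 200 233) = true := by decide +kernel

def six_lower_675_233 :
    (sixLowerAtD 233 267 2146 1873).checkQuick ⟨293, ⟨7, 3, 10, 6⟩⟩ (sixBox 675 801 0 1001 233 267) = true := by decide +kernel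

def six_lower_675_267 :
    (sixLowerAtD 267 334 1873 1498).checkQuick ⟨298, ⟨7, 3, 10, 6⟩⟩ (sixBox 675 801 0 1001 267 334) = true := by decide +kernel

end Vale.Agent.P100.Calib.Band
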