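import Vale.Agent.P100.Calib.SlabSixChecksA
import Vale.Agent.P100.Calib.SlabSixChecksB
import Vale.Agent.P100.Calib.SlabSixChecksC
import Vale.Agent.P100.Calib.SlabSixBox

/-!
# The signs of the bands on the slab of dimension six

`L₀ = -2/5`, `φ₁`, `L`, `φ`, `U`: the numerators of the rungs are positive on their ranges. The
lower band is checked under chords of `φ₁` in `u` and of `1/(2 d)` in `d`.
-/

namespace Vale.Agent.P100.Calib.Band

open BoxPos

/-- `φ₁ u = 41/50 + 9/10 u + 9/10 u²/(13/10 - u)`. -/
noncomputable def phiOne6 (u : ℝ) : ℝ := phiG (41 / 50) (9 / 10) (9 / 10) (13 / 10) u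

/-- The exit curve of the slab of dimension six. -/
noncomputable def phiSix (d u : ℝ) : ℝ :=
  phiG (2 / 5 + 28 / 25 * d - 289 / 100 * d ^ 2) (37 / 100 - 417 / 100 * d + 67 / 5 * d ^ 2)
    (49 / 100 + 133 / 100 * d - 171 / 25 * d ^ 2) (19 / 20) u

theorem phiSix_coef {d : ℝ} (hd : 0 ≤ d) (hd1 : d ≤ 1 / 3) :
    0 ≤ 37 / 100 - 417 / 100 * d + 67 / 5 * d ^ 2 ∧
      0 ≤ 49 / 100 + 133 / 100 * d - 171 / 25 * d ^ 2 := by
  constructor
  · nlinarith [mul_self_nonneg (d - 417 / 2680)]
  · nlinarith [mul_nonneg hd (sub_nonneg.2 hd1)]

theorem phiG_mono_six {a b k c u w : ℝ} (hb : 0 ≤ b) (hk : 0 ≤ k) (hu : 0 ≤ u) (huw : u ≤ w)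
    (hw : w < c) : phiG a b k c u ≤ phiG a b k c w := by
  unfold phiG
  gcongr

theorem mem_thousandths {a b : ℤ} {x : ℝ} (h1 : (a : ℝ) / 1000 ≤ x) (h2 : x < (b : ℝ) / 1000) :
    (⟨a, b, 1000⟩ : Side).Mem x := by
  refine ⟨?_, ?_⟩ <;> push_cast <;> assumption

theorem mem_sideS6 {S : ℝ} (h1 : 2 / 3 ≤ S) (h2 : S ≤ 33 / 49) : sideS6.Mem S := by
  refine ⟨?_, ?_⟩ <;> norm_num [sideS6] <;> linarith

theorem lt_of_mul_dv {a c d v : ℝ} (ha : 0 < a) (hc : 1 / 2 ≤ a * c) (had : a ≤ d)
    (hv : 29 / 100 ≤ v) (hdv : d * v < 1 / 2) : v < c := by
  refine lt_of_mul_lt_mul_left (a := a) ?_ ha.le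
  have := mul_le_mul_of_nonneg_right had (show 0 ≤ v by linarith)
  linarith

theorem chord_val {v W : ℝ} (hv : 29 / 100 ≤ v) (hW : v < 29 / 100 + W) :
    ∃ o, (⟨0, 1001, 1000⟩ : Side).Mem o ∧ 29 / 100 + o * W = v := by
  have hW0 : 0 < W := by linarith
  refine ⟨(v - 29 / 100) / W, mem_thousandths ?_ ?_, ?_⟩
  · simpa using div_nonneg (sub_nonneg.2 hv) hW0.le
  · have : (v - 29 / 100) / W < 1 := (div_lt_one hW0).2 (by linarith)
    push_cast
    linarith
  · rw [div_mul_cancel₀ _ hW0.ne']
    ring

/-- `lieT` of the lower band under a chord of `φ₁`. -/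
theorem lower_of_line {a b b' fa fb da db : ℤ} {c : Cfg} {u v d S : ℝ}
    (h : (sixLowerAt a b fa fb).checkQuick c
      ⟨⟨a, b', 1000⟩, ⟨0, 1001, 1000⟩, ⟨da, db, 1000⟩, sideS6⟩ = true)
    (hab : a < b) (hb : (b : ℝ) / 1000 < 13 / 10) (hf : fa ≤ fb)
    (ha : phiOne6 ((a : ℝ) / 1000) ≤ (fa : ℝ) / 1000)
    (hb1 : phiOne6 ((b : ℝ) / 1000) ≤ (fb : ℝ) / 1000)
    (hu : (a : ℝ) / 1000 ≤ u) (hu1 : u ≤ (b : ℝ) / 1000) (hu2 : u < (b' : ℝ) / 1000)
    (hd : (⟨da, db, 1000⟩ : Side).Mem d) (hS : sideS6.Mem S) (hv : 29 / 100 ≤ v)
    (hphi : v < phiOne6 u) : 0 < sixLower.val u v d S := by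
  have hba : (0 : ℝ) < (b : ℝ) - a := sub_pos.2 (by exact_mod_cast hab)
  have hn : (((b - a).toNat : ℕ) : ℝ) = (b : ℝ) - a := by
    rw [← Int.cast_natCast, Int.toNat_of_nonneg (by omega)]
    push_cast
    ring
  set m : ℝ := ((fb : ℝ) - fa) / ((b : ℝ) - a) with hm
  have hm0 : 0 ≤ m := div_nonneg (sub_nonneg.2 (by exact_mod_cast hf)) hba.le
  set A : ℝ := (a : ℝ) / 1000 with hA
  set B : ℝ := (b : ℝ) / 1000 with hB
  set L : ℝ → ℝ := fun x => (fa : ℝ) / 1000 + m * (x - A) with hL
  have hLB : L B = (fb : ℝ) / 1000 := by
    have e : m * (B - A) = ((fb : ℝ) - fa) / 1000 := by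
      rw [hm, hA, hB]; field_simp
    simp only [L, e]
    ring
  have key : phiOne6 u ≤ L u := by
    have hq : ∀ x, x < 13 / 10 → (phiOne6 x ≤ L x ↔
        0 ≤ (L x - 41 / 50 - 9 / 10 * x) * (13 / 10 - x) - 9 / 10 * x ^ 2) := fun x hx => by
      have hg : 0 < 13 / 10 - x := sub_pos.2 hx
      have e : L x - phiOne6 x =
          ((L x - 41 / 50 - 9 / 10 * x) * (13 / 10 - x) - 9 / 10 * x ^ 2) / (13 / 10 - x) := by
        rw [eq_div_iff hg.ne']
        unfold phiOne6 phiG
        generalize hG : 13 / 10 - x = G at hg ⊢
        field_simp
        subst hG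
        ring
      rw [← sub_nonneg (b := phiOne6 x), e]
      exact ⟨fun h => by simpa [hg.ne'] using mul_nonneg h hg.le, fun h => div_nonneg h hg.le⟩
    have hA1 : A < 13 / 10 := lt_of_le_of_lt (hu.trans hu1) hb
    have q1 := (hq A hA1).1 (by simpa [L] using ha)
    have q2 := (hq B hb).1 (hLB ▸ hb1)
    rw [hq u (lt_of_le_of_lt hu1 hb)]
    have hAB : A < B := by rw [hA, hB]; linarith
    refine nonneg_of_mul_nonneg_right ?_ (sub_pos.2 hAB)
    have h1 := mul_nonneg (sub_nonneg.2 hu1) q1
    have h2 := mul_nonneg (sub_nonneg.2 hu) q2
    have h3 := mul_nonneg (mul_nonneg hm0 (sub_nonneg.2 hAB.le))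
      (mul_nonneg (sub_nonneg.2 hu) (sub_nonneg.2 hu1))
    simp only [L] at h1 h2 ⊢
    linarith
  obtain ⟨o, ho, hov⟩ := chord_val (W := L u - 29 / 100) hv (by linarith)
  have hp := Ex.pos_of_checkQuick h (mem_thousandths hu hu2) ho hd hS
  rw [val_sixLowerAt] at hp
  have e : (29 : ℝ) / 100 + o * (((fa - 290 : ℤ) : ℝ) / ((1000 : ℕ) : ℝ) +
      ((fb - fa : ℤ) : ℝ) * (1 / ((b - a).toNat : ℝ)) * (u - (a : ℝ) / 1000)) = v := by
    rw [← hov, hn]
    simp only [L, hm, ← hA]
    push_cast
    ring
  rwa [e] at hp

/-- `lieT` of the lower band under a chord of `1/(2 d)`. -/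
theorem lower_of_dline {a b da db ga gb : ℤ} {c : Cfg} {u v d S : ℝ}
    (h : (sixLowerAtD da db ga gb).checkQuick c
      ⟨⟨a, b, 1000⟩, ⟨0, 1001, 1000⟩, ⟨da, db, 1000⟩, sideS6⟩ = true)
    (hd0 : 0 < da) (hab : da < db) (hg : gb ≤ ga) (hga : 500000 ≤ ga * da)
    (hgb : 500000 ≤ gb * db)
    (hu : (a : ℝ) / 1000 ≤ u) (hu1 : u < (b : ℝ) / 1000) (hd : (⟨da, db, 1000⟩ : Side).Mem d)
    (hS : sideS6.Mem S) (hv : 29 / 100 ≤ v) (hdv : d * v < 1 / 2) :
    0 < sixLower.val u v d S := by
  have hba : (0 : ℝ) < (db : ℝ) - da := sub_pos.2 (by exact_mod_cast hab)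
  have hn : (((db - da).toNat : ℕ) : ℝ) = (db : ℝ) - da := by
    rw [← Int.cast_natCast, Int.toNat_of_nonneg (by omega)]
    push_cast
    ring
  obtain ⟨h1, h2⟩ := hd
  push_cast at h1 h2
  have hd' : (⟨da, db, 1000⟩ : Side).Mem d := mem_thousandths h1 h2
  set m : ℝ := ((gb : ℝ) - ga) / ((db : ℝ) - da) with hm
  have hm0 : m ≤ 0 := div_nonpos_of_nonpos_of_nonneg (sub_nonpos.2 (by exact_mod_cast hg)) hba.le
  set A : ℝ := (da : ℝ) / 1000 with hA
  set B : ℝ := (db : ℝ) / 1000 with hB
  set L : ℝ → ℝ := fun x => (ga : ℝ) / 1000 + m * (x - A) with hL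
  have hLB : L B = (gb : ℝ) / 1000 := by
    have e : m * (B - A) = ((gb : ℝ) - ga) / 1000 := by
      rw [hm, hA, hB]; field_simp
    simp only [L, e]
    ring
  have hAB : A < B := by rw [hA, hB]; linarith
  have hA0 : 0 < A := by
    have : (0 : ℝ) < da := by exact_mod_cast hd0
    positivity
  have key : 1 / 2 ≤ d * L d := by
    have ga' : (500000 : ℝ) ≤ ga * da := by exact_mod_cast hga
    have gb' : (500000 : ℝ) ≤ gb * db := by exact_mod_cast hgb
    have q1 : 0 ≤ A * L A - 1 / 2 := by simp only [L, sub_self, mul_zero, add_zero, hA]; linarith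
    have q2 : 0 ≤ B * L B - 1 / 2 := by rw [hLB, hB]; linarith
    rw [← sub_nonneg]
    refine nonneg_of_mul_nonneg_right ?_ (sub_pos.2 hAB)
    have e1 := mul_nonneg (sub_nonneg.2 h2.le) q1
    have e2 := mul_nonneg (sub_nonneg.2 h1) q2
    have e3 := mul_nonneg (mul_nonneg (neg_nonneg.2 hm0) (sub_nonneg.2 hAB.le))
      (mul_nonneg (sub_nonneg.2 h1) (sub_nonneg.2 h2.le))
    simp only [L] at e1 e2 ⊢
    linarith
  have hvL : v < L d := by
    by_contra hn'
    have := mul_le_mul_of_nonneg_left (not_lt.1 hn') (hA0.le.trans h1)
    linarith
  obtain ⟨o, ho, hov⟩ := chord_val (W := L d - 29 / 100) hv (by linarith)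
  have hp := Ex.pos_of_checkQuick h (mem_thousandths hu hu1) ho hd' hS
  rw [val_sixLowerAtD] at hp
  have e : (29 : ℝ) / 100 + o * (((ga - 290 : ℤ) : ℝ) / ((1000 : ℕ) : ℝ) +
      ((gb - ga : ℤ) : ℝ) * (1 / ((db - da).toNat : ℝ)) * (d - (da : ℝ) / 1000)) = v := by
    rw [← hov, hn]
    simp only [L, hm, ← hA]
    push_cast
    ring
  rwa [e] at hp

theorem six_low_sign {u v d S' : ℝ} (hu : 0 ≤ u) (hu1 : u ≤ 93 / 100) (hv : 29 / 100 ≤ v)
    (hv1 : v ≤ 15 / 4) (hdv : d * v < 1 / 2) (hd : 0 ≤ d) (hd1 : d ≤ 1 / 3)
    (hS : sideS6.Mem S') : 0 < sixLow.val u v d S' := by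
  rcases lt_or_ge d (167 / 1000) with g0 | g0
  · rcases lt_or_ge d (83 / 1000) with g1 | g1
    · exact Ex.pos_of_checkQuick six_low_0_0 (mem_thousandths (by push_cast; linarith) (by push_cast; linarith)) (mem_thousandths (by push_cast; linarith) (by push_cast; linarith))
        (mem_thousandths (by push_cast; linarith) (by push_cast; linarith)) hS
    · rcases lt_or_ge u (465 / 1000) with g2 | g2
      · rcases lt_or_ge d (125 / 1000) with g3 | g3
        · exact Ex.pos_of_checkQuick six_low_0_83 (mem_thousandths (by push_cast; linarith) (by push_cast; linarith)) (mem_thousandths (by push_cast; linarith) (by push_cast; linarith))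
            (mem_thousandths (by push_cast; linarith) (by push_cast; linarith)) hS
        · rcases lt_or_ge d (146 / 1000) with g4 | g4
          · rcases lt_or_ge d (135 / 1000) with g5 | g5
            · exact Ex.pos_of_checkQuick six_low_0_125 (mem_thousandths (by push_cast; linarith) (by push_cast; linarith)) (mem_thousandths (by push_cast; linarith) (by push_cast; linarith))
                (mem_thousandths (by push_cast; linarith) (by push_cast; linarith)) hS
            · rcases lt_or_ge d (140 / 1000) with g6 | g6
              · have hc : v < 3705 / 1000 :=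
                  lt_of_mul_dv (a := 135 / 1000) (by norm_num) (by norm_num) (by linarith) hv hdv
                exact Ex.pos_of_checkQuick six_low_0_135 (mem_thousandths (by push_cast; linarith) (by push_cast; linarith)) (mem_thousandths (by push_cast; linarith) (by push_cast; linarith))
                  (mem_thousandths (by push_cast; linarith) (by push_cast; linarith)) hS
              · have hc : v < 3573 / 1000 :=
                  lt_of_mul_dv (a := 140 / 1000) (by norm_num) (by norm_num) (by linarith) hv hdv
                exact Ex.pos_of_checkQuick six_low_0_140 (mem_thousandths (by push_cast; linarith) (by push_cast; linarith)) (mem_thousandths (by push_cast; linarith) (by push_cast; linarith))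
                  (mem_thousandths (by push_cast; linarith) (by push_cast; linarith)) hS
          · have hc : v < 3426 / 1000 :=
              lt_of_mul_dv (a := 146 / 1000) (by norm_num) (by norm_num) (by linarith) hv hdv
            exact Ex.pos_of_checkQuick six_low_0_146 (mem_thousandths (by push_cast; linarith) (by push_cast; linarith)) (mem_thousandths (by push_cast; linarith) (by push_cast; linarith))
              (mem_thousandths (by push_cast; linarith) (by push_cast; linarith)) hS
      · exact Ex.pos_of_checkQuick six_low_465_83 (mem_thousandths (by push_cast; linarith) (by push_cast; linarith)) (mem_thousandths (by push_cast; linarith) (by push_cast; linarith))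
          (mem_thousandths (by push_cast; linarith) (by push_cast; linarith)) hS
  · rcases lt_or_ge d (250 / 1000) with g7 | g7
    · have hc : v < 2996 / 1000 :=
        lt_of_mul_dv (a := 167 / 1000) (by norm_num) (by norm_num) (by linarith) hv hdv
      exact Ex.pos_of_checkQuick six_low_0_167 (mem_thousandths (by push_cast; linarith) (by push_cast; linarith)) (mem_thousandths (by push_cast; linarith) (by push_cast; linarith))
        (mem_thousandths (by push_cast; linarith) (by push_cast; linarith)) hS
    · have hc : v < 2001 / 1000 :=
        lt_of_mul_dv (a := 250 / 1000) (by norm_num) (by norm_num) (by linarith) hv hdv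
      exact Ex.pos_of_checkQuick six_low_0_250 (mem_thousandths (by push_cast; linarith) (by push_cast; linarith)) (mem_thousandths (by push_cast; linarith) (by push_cast; linarith))
        (mem_thousandths (by push_cast; linarith) (by push_cast; linarith)) hS

theorem six_exit₁_sign {u d S' : ℝ} (hu : 0 ≤ u) (hu1 : u ≤ 93 / 100) (hd : 0 ≤ d)
    (hd1 : d ≤ 1 / 3) (hS : sideS6.Mem S') :
    0 < sixExit₁.val u (29 / 100) d S' := by
  rcases lt_or_ge u (465 / 1000) with g0 | g0
  · exact Ex.pos_of_checkQuick six_exit1_0_0 (mem_thousandths (by push_cast; linarith) (by push_cast; linarith)) (mem_thousandths (by norm_num) (by norm_num))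
      (mem_thousandths (by push_cast; linarith) (by push_cast; linarith)) hS
  · exact Ex.pos_of_checkQuick six_exit1_465_0 (mem_thousandths (by push_cast; linarith) (by push_cast; linarith)) (mem_thousandths (by norm_num) (by norm_num))
      (mem_thousandths (by push_cast; linarith) (by push_cast; linarith)) hS

theorem six_slope₁_sign {u d S' : ℝ} (hu : 0 ≤ u) (hu1 : u ≤ 93 / 100) (hd : 0 ≤ d)
    (hd1 : d ≤ 1 / 3) (hS : sideS6.Mem S') :
    0 < sixSlope₁.val u (29 / 100) d S' := by
  exact Ex.pos_of_checkQuick six_slope1_0_0 (mem_thousandths (by push_cast; linarith) (by push_cast; linarith)) (mem_thousandths (by norm_num) (by norm_num))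
    (mem_thousandths (by push_cast; linarith) (by push_cast; linarith)) hS

theorem six_exit₂_sign {u d S' : ℝ} (hu : 0 ≤ u) (hu1 : u ≤ 4 / 5) (hd : 0 ≤ d)
    (hd1 : d ≤ 1 / 3) (hS : sideS6.Mem S') :
    0 < sixExit₂.val u (29 / 100) d S' := by
  rcases lt_or_ge u (400 / 1000) with g0 | g0
  · exact Ex.pos_of_checkQuick six_exit2_0_0 (mem_thousandths (by push_cast; linarith) (by push_cast; linarith)) (mem_thousandths (by norm_num) (by norm_num))
      (mem_thousandths (by push_cast; linarith) (by push_cast; linarith)) hS
  · rcases lt_or_ge d (167 / 1000) with g1 | g1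
    · exact Ex.pos_of_checkQuick six_exit2_400_0 (mem_thousandths (by push_cast; linarith) (by push_cast; linarith)) (mem_thousandths (by norm_num) (by norm_num))
        (mem_thousandths (by push_cast; linarith) (by push_cast; linarith)) hS
    · rcases lt_or_ge u (600 / 1000) with g2 | g2
      · rcases lt_or_ge u (500 / 1000) with g3 | g3
        · exact Ex.pos_of_checkQuick six_exit2_400_167 (mem_thousandths (by push_cast; linarith) (by push_cast; linarith)) (mem_thousandths (by norm_num) (by norm_num))
            (mem_thousandths (by push_cast; linarith) (by push_cast; linarith)) hS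
        · exact Ex.pos_of_checkQuick six_exit2_500_167 (mem_thousandths (by push_cast; linarith) (by push_cast; linarith)) (mem_thousandths (by norm_num) (by norm_num))
            (mem_thousandths (by push_cast; linarith) (by push_cast; linarith)) hS
      · exact Ex.pos_of_checkQuick six_exit2_600_167 (mem_thousandths (by push_cast; linarith) (by push_cast; linarith)) (mem_thousandths (by norm_num) (by norm_num))
          (mem_thousandths (by push_cast; linarith) (by push_cast; linarith)) hS

theorem six_slope₂_sign {u d S' : ℝ} (hu : 0 ≤ u) (hu1 : u ≤ 4 / 5) (hd : 0 ≤ d)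
    (hd1 : d ≤ 1 / 3) (hS : sideS6.Mem S') :
    0 < sixSlope₂.val u (29 / 100) d S' := by
  exact Ex.pos_of_checkQuick six_slope2_0_0 (mem_thousandths (by push_cast; linarith) (by push_cast; linarith)) (mem_thousandths (by norm_num) (by norm_num))
    (mem_thousandths (by push_cast; linarith) (by push_cast; linarith)) hS

theorem six_lower_sign {u v d S' : ℝ} (hu : 0 ≤ u) (hu1 : u ≤ 4 / 5) (hv : 29 / 100 ≤ v)
    (hphi : v < phiOne6 u) (hdv : d * v < 1 / 2) (hd : 0 ≤ d) (hd1 : d ≤ 1 / 3)
    (hS : sideS6.Mem S') : 0 < sixLower.val u v d S' := by
  rcases lt_or_ge u (550 / 1000) with g0 | g0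
  · rcases lt_or_ge d (220 / 1000) with g1 | g1
    · rcases lt_or_ge u (275 / 1000) with g2 | g2
      · exact lower_of_line six_lower_0_0 (by norm_num) (by norm_num) (by norm_num) (by norm_num [phiOne6, phiG]) (by norm_num [phiOne6, phiG])
          (by push_cast; linarith) (by push_cast; linarith) (by push_cast; linarith) (mem_thousandths (by push_cast; linarith) (by push_cast; linarith)) hS hv hphi
      · exact lower_of_line six_lower_275_0 (by norm_num) (by norm_num) (by norm_num) (by norm_num [phiOne6, phiG]) (by norm_num [phiOne6, phiG])
          (by push_cast; linarith) (by push_cast; linarith) (by push_cast; linarith) (mem_thousandths (by push_cast; linarith) (by push_cast; linarith)) hS hv hphi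
    · rcases lt_or_ge u (275 / 1000) with g3 | g3
      · exact lower_of_line six_lower_0_220 (by norm_num) (by norm_num) (by norm_num) (by norm_num [phiOne6, phiG]) (by norm_num [phiOne6, phiG])
          (by push_cast; linarith) (by push_cast; linarith) (by push_cast; linarith) (mem_thousandths (by push_cast; linarith) (by push_cast; linarith)) hS hv hphi
      · rcases lt_or_ge d (277 / 1000) with g4 | g4
        · exact lower_of_line six_lower_275_220 (by norm_num) (by norm_num) (by norm_num) (by norm_num [phiOne6, phiG]) (by norm_num [phiOne6, phiG])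
            (by push_cast; linarith) (by push_cast; linarith) (by push_cast; linarith) (mem_thousandths (by push_cast; linarith) (by push_cast; linarith)) hS hv hphi
        · rcases lt_or_ge u (412 / 1000) with g5 | g5
          · exact lower_of_line six_lower_275_277 (by norm_num) (by norm_num) (by norm_num) (by norm_num [phiOne6, phiG]) (by norm_num [phiOne6, phiG])
              (by push_cast; linarith) (by push_cast; linarith) (by push_cast; linarith) (mem_thousandths (by push_cast; linarith) (by push_cast; linarith)) hS hv hphi
          · rcases lt_or_ge d (305 / 1000) with g6 | g6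
            · exact lower_of_line six_lower_412_277 (by norm_num) (by norm_num) (by norm_num) (by norm_num [phiOne6, phiG]) (by norm_num [phiOne6, phiG])
                (by push_cast; linarith) (by push_cast; linarith) (by push_cast; linarith) (mem_thousandths (by push_cast; linarith) (by push_cast; linarith)) hS hv hphi
            · rcases lt_or_ge u (481 / 1000) with g7 | g7
              · exact lower_of_line six_lower_412_305 (by norm_num) (by norm_num) (by norm_num) (by norm_num [phiOne6, phiG]) (by norm_num [phiOne6, phiG])
                  (by push_cast; linarith) (by push_cast; linarith) (by push_cast; linarith) (mem_thousandths (by push_cast; linarith) (by push_cast; linarith)) hS hv hphi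
              · rcases lt_or_ge u (515 / 1000) with g8 | g8
                · exact lower_of_line six_lower_481_305 (by norm_num) (by norm_num) (by norm_num) (by norm_num [phiOne6, phiG]) (by norm_num [phiOne6, phiG])
                    (by push_cast; linarith) (by push_cast; linarith) (by push_cast; linarith) (mem_thousandths (by push_cast; linarith) (by push_cast; linarith)) hS hv hphi
                · exact lower_of_dline six_lower_515_305 (by norm_num) (by norm_num) (by norm_num) (by norm_num) (by norm_num)
                    (by push_cast; linarith) (by push_cast; linarith) (mem_thousandths (by push_cast; linarith) (by push_cast; linarith)) hS hv hdv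
  · rcases lt_or_ge d (200 / 1000) with g9 | g9
    · rcases lt_or_ge u (675 / 1000) with g10 | g10
      · exact lower_of_line six_lower_550_0 (by norm_num) (by norm_num) (by norm_num) (by norm_num [phiOne6, phiG]) (by norm_num [phiOne6, phiG])
          (by push_cast; linarith) (by push_cast; linarith) (by push_cast; linarith) (mem_thousandths (by push_cast; linarith) (by push_cast; linarith)) hS hv hphi
      · rcases lt_or_ge d (100 / 1000) with g11 | g11
        · exact lower_of_line six_lower_675_0 (by norm_num) (by norm_num) (by norm_num) (by norm_num [phiOne6, phiG]) (by norm_num [phiOne6, phiG])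
            (by push_cast; linarith) (by push_cast; linarith) (by push_cast; linarith) (mem_thousandths (by push_cast; linarith) (by push_cast; linarith)) hS hv hphi
        · rcases lt_or_ge d (150 / 1000) with g12 | g12
          · exact lower_of_line six_lower_675_100 (by norm_num) (by norm_num) (by norm_num) (by norm_num [phiOne6, phiG]) (by norm_num [phiOne6, phiG])
              (by push_cast; linarith) (by push_cast; linarith) (by push_cast; linarith) (mem_thousandths (by push_cast; linarith) (by push_cast; linarith)) hS hv hphi
          · rcases lt_or_ge u (738 / 1000) with g13 | g13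
            · exact lower_of_line six_lower_675_150 (by norm_num) (by norm_num) (by norm_num) (by norm_num [phiOne6, phiG]) (by norm_num [phiOne6, phiG])
                (by push_cast; linarith) (by push_cast; linarith) (by push_cast; linarith) (mem_thousandths (by push_cast; linarith) (by push_cast; linarith)) hS hv hphi
            · rcases lt_or_ge u (769 / 1000) with g14 | g14
              · exact lower_of_line six_lower_738_150 (by norm_num) (by norm_num) (by norm_num) (by norm_num [phiOne6, phiG]) (by norm_num [phiOne6, phiG])
                  (by push_cast; linarith) (by push_cast; linarith) (by push_cast; linarith) (mem_thousandths (by push_cast; linarith) (by push_cast; linarith)) hS hv hphi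
              · rcases lt_or_ge d (175 / 1000) with g15 | g15
                · exact lower_of_line six_lower_769_150 (by norm_num) (by norm_num) (by norm_num) (by norm_num [phiOne6, phiG]) (by norm_num [phiOne6, phiG])
                    (by push_cast; linarith) (by push_cast; linarith) (by push_cast; linarith) (mem_thousandths (by push_cast; linarith) (by push_cast; linarith)) hS hv hphi
                · exact lower_of_dline six_lower_769_175 (by norm_num) (by norm_num) (by norm_num) (by norm_num) (by norm_num)
                    (by push_cast; linarith) (by push_cast; linarith) (mem_thousandths (by push_cast; linarith) (by push_cast; linarith)) hS hv hdv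
    · rcases lt_or_ge u (675 / 1000) with g16 | g16
      · rcases lt_or_ge d (267 / 1000) with g17 | g17
        · rcases lt_or_ge u (612 / 1000) with g18 | g18
          · exact lower_of_line six_lower_550_200 (by norm_num) (by norm_num) (by norm_num) (by norm_num [phiOne6, phiG]) (by norm_num [phiOne6, phiG])
              (by push_cast; linarith) (by push_cast; linarith) (by push_cast; linarith) (mem_thousandths (by push_cast; linarith) (by push_cast; linarith)) hS hv hphi
          · rcases lt_or_ge u (643 / 1000) with g19 | g19
            · exact lower_of_line six_lower_612_200 (by norm_num) (by norm_num) (by norm_num) (by norm_num [phiOne6, phiG]) (by norm_num [phiOne6, phiG])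
                (by push_cast; linarith) (by push_cast; linarith) (by push_cast; linarith) (mem_thousandths (by push_cast; linarith) (by push_cast; linarith)) hS hv hphi
            · rcases lt_or_ge d (233 / 1000) with g20 | g20
              · exact lower_of_line six_lower_643_200 (by norm_num) (by norm_num) (by norm_num) (by norm_num [phiOne6, phiG]) (by norm_num [phiOne6, phiG])
                  (by push_cast; linarith) (by push_cast; linarith) (by push_cast; linarith) (mem_thousandths (by push_cast; linarith) (by push_cast; linarith)) hS hv hphi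
              · rcases lt_or_ge d (250 / 1000) with g21 | g21
                · exact lower_of_line six_lower_643_233 (by norm_num) (by norm_num) (by norm_num) (by norm_num [phiOne6, phiG]) (by norm_num [phiOne6, phiG])
                    (by push_cast; linarith) (by push_cast; linarith) (by push_cast; linarith) (mem_thousandths (by push_cast; linarith) (by push_cast; linarith)) hS hv hphi
                · exact lower_of_dline six_lower_643_250 (by norm_num) (by norm_num) (by norm_num) (by norm_num) (by norm_num)
                    (by push_cast; linarith) (by push_cast; linarith) (mem_thousandths (by push_cast; linarith) (by push_cast; linarith)) hS hv hdv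
        · rcases lt_or_ge d (300 / 1000) with g22 | g22
          · rcases lt_or_ge u (612 / 1000) with g23 | g23
            · rcases lt_or_ge u (581 / 1000) with g24 | g24
              · exact lower_of_line six_lower_550_267 (by norm_num) (by norm_num) (by norm_num) (by norm_num [phiOne6, phiG]) (by norm_num [phiOne6, phiG])
                  (by push_cast; linarith) (by push_cast; linarith) (by push_cast; linarith) (mem_thousandths (by push_cast; linarith) (by push_cast; linarith)) hS hv hphi
              · exact lower_of_dline six_lower_581_267 (by norm_num) (by norm_num) (by norm_num) (by norm_num) (by norm_num)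
                  (by push_cast; linarith) (by push_cast; linarith) (mem_thousandths (by push_cast; linarith) (by push_cast; linarith)) hS hv hdv
            · exact lower_of_dline six_lower_612_267 (by norm_num) (by norm_num) (by norm_num) (by norm_num) (by norm_num)
                (by push_cast; linarith) (by push_cast; linarith) (mem_thousandths (by push_cast; linarith) (by push_cast; linarith)) hS hv hdv
          · exact lower_of_dline six_lower_550_300 (by norm_num) (by norm_num) (by norm_num) (by norm_num) (by norm_num)
              (by push_cast; linarith) (by push_cast; linarith) (mem_thousandths (by push_cast; linarith) (by push_cast; linarith)) hS hv hdv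
      · rcases lt_or_ge d (267 / 1000) with g25 | g25
        · rcases lt_or_ge d (233 / 1000) with g26 | g26
          · rcases lt_or_ge u (738 / 1000) with g27 | g27
            · rcases lt_or_ge u (706 / 1000) with g28 | g28
              · exact lower_of_line six_lower_675_200 (by norm_num) (by norm_num) (by norm_num) (by norm_num [phiOne6, phiG]) (by norm_num [phiOne6, phiG])
                  (by push_cast; linarith) (by push_cast; linarith) (by push_cast; linarith) (mem_thousandths (by push_cast; linarith) (by push_cast; linarith)) hS hv hphi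
              · rcases lt_or_ge d (216 / 1000) with g29 | g29
                · exact lower_of_line six_lower_706_200 (by norm_num) (by norm_num) (by norm_num) (by norm_num [phiOne6, phiG]) (by norm_num [phiOne6, phiG])
                    (by push_cast; linarith) (by push_cast; linarith) (by push_cast; linarith) (mem_thousandths (by push_cast; linarith) (by push_cast; linarith)) hS hv hphi
                · exact lower_of_dline six_lower_706_216 (by norm_num) (by norm_num) (by norm_num) (by norm_num) (by norm_num)
                    (by push_cast; linarith) (by push_cast; linarith) (mem_thousandths (by push_cast; linarith) (by push_cast; linarith)) hS hv hdv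
            · exact lower_of_dline six_lower_738_200 (by norm_num) (by norm_num) (by norm_num) (by norm_num) (by norm_num)
                (by push_cast; linarith) (by push_cast; linarith) (mem_thousandths (by push_cast; linarith) (by push_cast; linarith)) hS hv hdv
          · exact lower_of_dline six_lower_675_233 (by norm_num) (by norm_num) (by norm_num) (by norm_num) (by norm_num)
              (by push_cast; linarith) (by push_cast; linarith) (mem_thousandths (by push_cast; linarith) (by push_cast; linarith)) hS hv hdv
        · exact lower_of_dline six_lower_675_267 (by norm_num) (by norm_num) (by norm_num) (by norm_num) (by norm_num)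
            (by push_cast; linarith) (by push_cast; linarith) (mem_thousandths (by push_cast; linarith) (by push_cast; linarith)) hS hv hdv

theorem six_upper_sign {u v d S' : ℝ} (hu : 0 ≤ u) (hu1 : u ≤ 3 / 5) (hv : 29 / 100 ≤ v)
    (hphi : v < phiSix d u) (hd : 0 ≤ d) (hd1 : d ≤ 1 / 3)
    (hS : sideS6.Mem S') : 0 < sixUpper.val u v d S' := by
  have hbk := phiSix_coef hd hd1
  have hstep : ∀ b c : ℝ, u ≤ b → b < 19 / 20 → phiSix d b ≤ c → v < c := fun b c h1 h2 h3 =>
    lt_of_lt_of_le (hphi.trans_le (phiG_mono_six hbk.1 hbk.2 hu h1 h2)) h3
  rcases lt_or_ge d (167 / 1000) with g0 | g0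
  · rcases lt_or_ge u (300 / 1000) with g1 | g1
    · have hc : v < 595 / 1000 :=
        hstep (300 / 1000) _ (by linarith) (by norm_num) (by
          simp only [phiSix, phiG]; norm_num; nlinarith [mul_nonneg hd (sub_nonneg.2 hd1)])
      exact Ex.pos_of_checkQuick six_upper_0_0 (mem_thousandths (by push_cast; linarith) (by push_cast; linarith)) (mem_thousandths (by push_cast; linarith) (by push_cast; linarith))
        (mem_thousandths (by push_cast; linarith) (by push_cast; linarith)) hS
    · have hc : v < 1129 / 1000 :=
        hstep (600 / 1000) _ (by linarith) (by norm_num) (by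
          simp only [phiSix, phiG]; norm_num; nlinarith [mul_nonneg hd (sub_nonneg.2 hd1)])
      exact Ex.pos_of_checkQuick six_upper_300_0 (mem_thousandths (by push_cast; linarith) (by push_cast; linarith)) (mem_thousandths (by push_cast; linarith) (by push_cast; linarith))
        (mem_thousandths (by push_cast; linarith) (by push_cast; linarith)) hS
  · have hc : v < 1074 / 1000 :=
      hstep (600 / 1000) _ (by linarith) (by norm_num) (by
        simp only [phiSix, phiG]; norm_num; nlinarith [mul_nonneg hd (sub_nonneg.2 hd1)])
    exact Ex.pos_of_checkQuick six_upper_0_167 (mem_thousandths (by push_cast; linarith) (by push_cast; linarith)) (mem_thousandths (by push_cast; linarith) (by push_cast; linarith))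
      (mem_thousandths (by push_cast; linarith) (by push_cast; linarith)) hS

end Vale.Agent.P100.Calib.Band
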