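import Vale.Agent.P100.Calib.SlabSixNegExpr
import Vale.Agent.P100.Calib.SlabSixSigns
import Vale.Agent.P100.Calib.SlabNegSigns

/-!
# The signs of the bands for `u < 0` on the slab of dimension six
-/

namespace Vale.Agent.P100.Calib.Band

open BoxPos

/-- The lower end of `v - (9/50) u`. -/
noncomputable def neg6W₀ (S d : ℝ) : ℝ := 37 / 125 + 1 / 25 * d - (S - 2 / 3)

/-- The upper end of `v - (9/50) u`. -/
noncomputable def neg6W₁ (d : ℝ) : ℝ := 81 / 200 + 28 / 25 * d - 289 / 100 * d ^ 2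

/-- The bound of `-u`. -/
noncomputable def neg6Um (d w : ℝ) : ℝ := 1 / 125 + 13 / 100 * d + (3 / 5 + 17 / 100 * d) * w

/-- The slope of the lower band. -/
noncomputable def neg6Cl (d : ℝ) : ℝ := 147 / 100 - 49 / 10 * d + 6 * d ^ 2

/-- The constant of the upper band. -/
noncomputable def neg6Cu (d : ℝ) : ℝ := 27 / 20 - 117 / 25 * d + 29 / 5 * d ^ 2

/-- The slope in `u` of the upper band. -/
noncomputable def neg6Su (d : ℝ) : ℝ := 107 / 100 - 477 / 100 * d + 33 / 5 * d ^ 2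

theorem neg6W₁_ge {d : ℝ} (hd : 0 ≤ d) (hd1 : d ≤ 1 / 3) : 81 / 200 ≤ neg6W₁ d := by
  simp only [neg6W₁]; nlinarith [mul_nonneg hd (sub_nonneg.2 hd1)]

theorem neg6W₀_lt_neg6W₁ {S d : ℝ} (hd : 0 ≤ d) (hd1 : d ≤ 1 / 3) (hS : 2 / 3 ≤ S) :
    neg6W₀ S d < neg6W₁ d := by
  have := neg6W₁_ge hd hd1
  simp only [neg6W₀]; linarith

theorem neg6Um_le {d w : ℝ} (hd : 0 ≤ d) (hd1 : d ≤ 1 / 3) (hw : w ≤ neg6W₁ d) :
    neg6Um d w ≤ 365 / 1000 ∧ neg6Um d w ≤ 251 / 1000 + 871 / 1000 * d - 3 / 2 * d ^ 2 := by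
  have h := mul_le_mul_of_nonneg_left hw (show 0 ≤ 3 / 5 + 17 / 100 * d by linarith)
  have h1 : 0 ≤ d * (d * d) := mul_nonneg hd (mul_self_nonneg d)
  simp only [neg6Um, neg6W₁] at h ⊢
  constructor
  · nlinarith [mul_nonneg (show 0 ≤ d + 2 by linarith) (mul_self_nonneg (d - 247 / 1000))]
  · nlinarith

section
variable (a o d S : ℝ)

theorem val_n6W₀ : n6W₀.val a o d S = neg6W₀ S d := by
  simp only [n6W₀, val_sub, Ex.val, neg6W₀]; push_cast; ring

theorem val_n6W₁ : n6W₁.val a o d S = neg6W₁ d := by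
  simp only [n6W₁, eQ3, val_add, Ex.val, neg6W₁]; push_cast; ring

theorem val_n6W : n6W.val a o d S = neg6W₀ S d + o * (neg6W₁ d - neg6W₀ S d) := by
  simp only [n6W, val_add, val_sub, Ex.val, val_n6W₀, val_n6W₁]

theorem val_n6Um (w : Ex) : (n6Um w).val a o d S = neg6Um d (w.val a o d S) := by
  simp only [n6Um, val_add, Ex.val, neg6Um]; push_cast; ring

theorem val_n6Cl : n6Cl.val a o d S = neg6Cl d := by
  simp only [n6Cl, eQ3, val_add, Ex.val, neg6Cl]; push_cast; ring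

theorem val_n6Cu : n6Cu.val a o d S = neg6Cu d := by
  simp only [n6Cu, eQ3, val_add, Ex.val, neg6Cu]; push_cast; ring

theorem val_n6Su : n6Su.val a o d S = neg6Su d := by
  simp only [n6Su, eQ3, val_add, Ex.val, neg6Su]; push_cast; ring

end

/-- The signs of the two bands. -/
theorem neg6_band_signs {S d u v : ℝ} (hd : 0 ≤ d) (hd1 : d ≤ 1 / 3) (hS : 2 / 3 ≤ S)
    (hS1 : S ≤ 33 / 49) (hu : u ≤ 0) (hu1 : -(365 / 1000) ≤ u)
    (hw : neg6W₀ S d ≤ v - 9 / 50 * u) (hw1 : v - 9 / 50 * u ≤ neg6W₁ d) :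
    lieT S d u v (neg6Cl d) 0 0 < 0 ∧ 0 < lieT S d u v (neg6Cu d) (neg6Su d) 0 := by
  have hlt := neg6W₀_lt_neg6W₁ hd hd1 hS
  obtain ⟨o, ho, ho1, hov⟩ : ∃ o, 0 ≤ o ∧ o ≤ 1 ∧
      neg6W₀ S d + o * (neg6W₁ d - neg6W₀ S d) = v - 9 / 50 * u :=
    ⟨(v - 9 / 50 * u - neg6W₀ S d) / (neg6W₁ d - neg6W₀ S d),
      div_nonneg (by linarith) (by linarith), (div_le_one (by linarith)).2 (by linarith),
      by rw [div_mul_cancel₀ _ (by linarith)]; ring⟩
  have mu : (⟨0, 366, 1000⟩ : Side).Mem (-u) :=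
    mem_thousandths (by push_cast; linarith) (by push_cast; linarith)
  have mo : (⟨0, 1001, 1000⟩ : Side).Mem o :=
    mem_thousandths (by push_cast; linarith) (by push_cast; linarith)
  have md : (⟨0, 334, 1000⟩ : Side).Mem d :=
    mem_thousandths (by push_cast; linarith) (by push_cast; linarith)
  have mS := mem_sideS6 hS hS1
  have key : ∀ c₁ c₂ : Ex, (nLie nU (nV nU n6W) c₁ c₂).val (-u) o d S =
      lieT S d u v (c₁.val (-u) o d S) (c₂.val (-u) o d S) 0 := by
    intro c₁ c₂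
    rw [val_nLie, val_nV, val_nU, val_n6W, hov, neg_neg, sub_add_cancel]
  constructor
  · have h := Ex.pos_of_checkQuick neg6L_check mu mo md mS
    simp only [neg6L, val_sub, key, val_n6Cl, Ex.val] at h
    push_cast at h
    norm_num at h
    linarith
  · have h := Ex.pos_of_checkQuick neg6U_check mu mo md mS
    simpa [neg6U, key, val_n6Cu, val_n6Su] using h

/-- The signs of the two lines. -/
theorem neg6_line_signs {S d u t : ℝ} (hd : 0 ≤ d) (hd1 : d ≤ 1 / 3) (hS : 2 / 3 ≤ S)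
    (hS1 : S ≤ 33 / 49) (hu : u ≤ 0)
    (hu1 : -u ≤ 365 / 1000 ∧ -u ≤ 251 / 1000 + 871 / 1000 * d - 3 / 2 * d ^ 2)
    (ht : neg6Cu d + neg6Su d * u ≤ t) (ht1 : t ≤ neg6Cl d) :
    exitP S d (u : ℝ) (neg6W₀ S d + 9 / 50 * u) t 1 (9 / 50) < 0 ∧
      0 < exitP S d u (neg6W₁ d + 9 / 50 * u) t 1 (9 / 50) := by
  obtain ⟨hu1, hu2⟩ := hu1
  have mo : (⟨0, 1, 1000⟩ : Side).Mem (0 : ℝ) := mem_thousandths (by norm_num) (by norm_num)
  have mu : (⟨0, 366, 1000⟩ : Side).Mem (-u) :=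
    mem_thousandths (by push_cast; linarith) (by push_cast; linarith)
  have md : (⟨0, 334, 1000⟩ : Side).Mem d :=
    mem_thousandths (by push_cast; linarith) (by push_cast; linarith)
  have mS := mem_sideS6 hS hS1
  have a1 := Ex.pos_of_checkQuick neg6LoU_check mu mo md mS
  have a2 := Ex.pos_of_checkQuick neg6LoL_check mu mo md mS
  have b1 := Ex.pos_of_checkQuick neg6HiU_check mu mo md mS
  have b2 : 0 < neg6HiL.val (-u) 0 d S := by
    have hdd := mul_self_nonneg d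
    rcases lt_or_ge d (20 / 1000) with g | g
    · exact Ex.pos_of_checkQuick neg6HiL_check₁
        (mem_thousandths (by push_cast; linarith) (by push_cast; linarith)) mo
        (mem_thousandths (by push_cast; linarith) (by push_cast; linarith)) mS
    rcases lt_or_ge d (41 / 1000) with g1 | g1
    · exact Ex.pos_of_checkQuick neg6HiL_check₂
        (mem_thousandths (by push_cast; linarith) (by push_cast; linarith)) mo
        (mem_thousandths (by push_cast; linarith) (by push_cast; linarith)) mS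
    rcases lt_or_ge d (84 / 1000) with g2 | g2
    · exact Ex.pos_of_checkQuick neg6HiL_check₃
        (mem_thousandths (by push_cast; linarith) (by push_cast; linarith)) mo
        (mem_thousandths (by push_cast; linarith) (by push_cast; linarith)) mS
    exact Ex.pos_of_checkQuick neg6HiL_check₄
      (mem_thousandths (by push_cast; linarith) (by push_cast; linarith)) mo
      (mem_thousandths (by push_cast; linarith) (by push_cast; linarith)) mS
  simp only [neg6LoU, neg6LoL, neg6HiU, neg6HiL, val_sub, val_nExit, val_nV,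
    val_nU, val_n6W₀, val_n6W₁, val_n6Cl, val_n6Cu, val_n6Su, Ex.val, neg_neg] at a1 a2 b1 b2
  push_cast at a1 a2
  norm_num at a1 a2
  refine ⟨affine_neg (f := fun x => exitP S d u (neg6W₀ S d + 9 / 50 * u) x 1 (9 / 50))
    (fun x => exitP_affine _ _ _ _ x) a1 a2 ht ht1, ?_⟩
  have := affine_neg (f := fun x => -exitP S d u (neg6W₁ d + 9 / 50 * u) x 1 (9 / 50))
    (fun x => by rw [exitP_affine _ _ _ _ x]; ring) (by linarith) (by linarith) ht ht1
  linarith

/-- The end of the range of `u`. -/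
theorem neg6_end_sign {S d w : ℝ} (hd : 0 ≤ d) (hd1 : d ≤ 1 / 3) (hS : 2 / 3 ≤ S)
    (hS1 : S ≤ 33 / 49) (hw : neg6W₀ S d ≤ w) (hw1 : w ≤ neg6W₁ d) :
    bandB S d * (w + 9 / 50 * -neg6Um d w) <
      neg6Um d w * bandK S d (-neg6Um d w) (w + 9 / 50 * -neg6Um d w) (neg6Cl d) 0 0 := by
  have hlt := neg6W₀_lt_neg6W₁ hd hd1 hS
  obtain ⟨o, ho, ho1, hov⟩ : ∃ o, 0 ≤ o ∧ o ≤ 1 ∧
      neg6W₀ S d + o * (neg6W₁ d - neg6W₀ S d) = w :=
    ⟨(w - neg6W₀ S d) / (neg6W₁ d - neg6W₀ S d), div_nonneg (by linarith) (by linarith),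
      (div_le_one (by linarith)).2 (by linarith), by rw [div_mul_cancel₀ _ (by linarith)]; ring⟩
  have h := Ex.pos_of_checkQuick neg6End_check (y₀ := 0) (y₁ := o) (y₂ := d) (y₃ := S)
    (mem_thousandths (by norm_num) (by norm_num))
    (mem_thousandths (by push_cast; linarith) (by push_cast; linarith))
    (mem_thousandths (by push_cast; linarith) (by push_cast; linarith)) (mem_sideS6 hS hS1)
  simp only [neg6End, val_sub, val_nK, val_nV, val_n6Um, val_n6W, val_nB, val_n6Cl, Ex.val,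
    hov] at h
  push_cast at h
  norm_num at h
  norm_num
  linarith

end Vale.Agent.P100.Calib.Band
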