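import Mathlib
import Vale.Agent.P100.Calib.SlabChartOrbitSix
import Vale.Agent.P100.Calib.SlabSixNeg
import Vale.Agent.P100.Calib.SlabSix

/-!
# The slab of dimension six from the regions of the chart and the bands beyond `u = 3/5`
-/

set_option linter.unusedVariables false

open Set Filter Topology

namespace Vale.Agent.P100.Calib.Band

open Vale.Agent.P100.Bubble Chart Closed

/-- The slope is above the lower bands. -/
def OrbitSixLow : Prop :=
  ∀ (N p q : ℝ) (S : Set ℝ) (R x y s dx dy : ℝ → ℝ), IsCrit N p q →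
    IsOrbitFns N p q S R x y s dx dy → SlabBoxSix N (1 / (p + 1)) (1 / (q + 1)) →
    Six.ChartBox (1 / (q + 1) - 1 / (p + 1)) (1 / (p + 1) + 1 / (q + 1)) →
    ∀ z ∈ S, 0 < R z →
      let d := 1 / (q + 1) - 1 / (p + 1)
      let u := uOf N (R z) (x z)
      (3 / 5 ≤ u → u ≤ 39 / 40 → Six.lowT d u < slopeAt N p q R x y dx dy z) ∧
        (39 / 40 ≤ u → Six.lowEnd d < slopeAt N p q R x y dx dy z)

/-- The bands of a piece beyond `u = 3/5`. -/
def OrbitSixTail (B : Six.Bands) (d₀ d₁ : ℝ) : Prop :=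
  ∀ (N p q : ℝ) (S : Set ℝ) (R x y s dx dy : ℝ → ℝ), IsCrit N p q →
    IsOrbitFns N p q S R x y s dx dy → SlabBoxSix N (1 / (p + 1)) (1 / (q + 1)) →
    Six.ChartBox (1 / (q + 1) - 1 / (p + 1)) (1 / (p + 1) + 1 / (q + 1)) →
    d₀ ≤ 1 / (q + 1) - 1 / (p + 1) → 1 / (q + 1) - 1 / (p + 1) ≤ d₁ →
    ∀ z ∈ S, 0 < R z →
      let d := 1 / (q + 1) - 1 / (p + 1)
      let u := uOf N (R z) (x z)
      let v := vOf (1 / (p + 1)) (1 / (q + 1)) (y z / x z)
      let t := slopeAt N p q R x y dx dy z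
      (3 / 5 ≤ u → u ≤ Six.uLast d → v < B.phi d u) ∧
        (3 / 5 ≤ u → u ≤ 39 / 40 → t < B.up d u + B.tilt d u * v) ∧
        (d < 1 / 16 → 39 / 40 ≤ u → u ≤ 1 - 2 / 5 * d →
          t < (23 / 50 + 15 * d - 175 * d ^ 2 + v / 10) / (1 - u + d))

/-- The threshold of `v` from `u = 39/40` on. -/
def OrbitSixPsi : Prop :=
  ∀ (N p q : ℝ) (S : Set ℝ) (R x y s dx dy : ℝ → ℝ), IsCrit N p q →
    IsOrbitFns N p q S R x y s dx dy → SlabBoxSix N (1 / (p + 1)) (1 / (q + 1)) →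
    Six.ChartBox (1 / (q + 1) - 1 / (p + 1)) (1 / (p + 1) + 1 / (q + 1)) →
    ∀ z ∈ S, 0 < R z → 39 / 40 ≤ uOf N (R z) (x z) →
      Six.psi (1 / (q + 1) - 1 / (p + 1)) ≤ vOf (1 / (p + 1)) (1 / (q + 1)) (y z / x z)

section
variable {N p q : ℝ} {S : Set ℝ} {R x y s dx dy : ℝ → ℝ}

/-- Off the crossing a band in the chart. -/
theorem bandT_tau_six (hc : IsCrit N p q) (h : IsOrbitFns N p q S R x y s dx dy)
    (hb : SlabBoxSix N (1 / (p + 1)) (1 / (q + 1))) {z : ℝ} (hz : z ∈ S) (hR : 0 < R z)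
    (T : ℝ → ℝ) (b : ℝ) :
    let d := 1 / (q + 1) - 1 / (p + 1)
    let u := uOf N (R z) (x z)
    let r := y z / x z
    (bandT N (1 / (p + 1)) (1 / (q + 1)) d T u r < hOf N (R z) (x z) (y z) z ↔
        T u < slopeAt N p q R x y dx dy z) ∧
      (hOf N (R z) (x z) (y z) z < bandT N (1 / (p + 1)) (1 / (q + 1)) d T u r + d * u * b ↔
        slopeAt N p q R x y dx dy z < T u + b) := by
  intro d u r
  have hu : 0 < u := div_pos (mul_pos (mul_pos two_pos hR) (h.x_pos z hz)) (by linarith [hb.five])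
  have hdu : 0 < d * u := mul_pos (sub_pos.2 hb.lt) hu
  have e := (slopeAt_eq_six hc h hb hz hR.ne').1
  constructor
  · rw [← mul_lt_mul_iff_of_pos_left hdu (b := T u)]
    simp only [bandT, d, u, r] at *
    constructor <;> intro <;> linarith
  · rw [← mul_lt_mul_iff_of_pos_left hdu (c := T u + b)]
    simp only [bandT, d, u, r] at *
    constructor <;> intro <;> linarith

/-- The slope past the crossing and at it. -/
theorem neg_tau_six (hc : IsCrit N p q) (h : IsOrbitFns N p q S R x y s dx dy)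
    (hb : SlabBoxSix N (1 / (p + 1)) (1 / (q + 1))) {z : ℝ} (hz : z ∈ S) (hR : R z ≤ 0)
    (hκ : z ≤ 1 / (q + 1) / (1 / (p + 1))) :
    let d := 1 / (q + 1) - 1 / (p + 1)
    neg6Cu d + neg6Su d * uOf N (R z) (x z) ≤ slopeAt N p q R x y dx dy z ∧
      slopeAt N p q R x y dx dy z ≤ neg6Cl d := by
  intro d
  have hd : 0 < d := sub_pos.2 hb.lt
  have key : ∀ t ∈ S, R t < 0 → t ≤ 1 / (q + 1) / (1 / (p + 1)) →
      neg6Cu d + neg6Su d * uOf N (R t) (x t) ≤ slopeAt N p q R x y dx dy t ∧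
        slopeAt N p q R x y dx dy t ≤ neg6Cl d := by
    intro t ht htR htκ
    obtain ⟨hu, hn⟩ := orbit_neg_six h hb ht htR htκ
    have e := (slopeAt_eq_six hc h hb ht htR.ne).1
    have hdu : d * uOf N (R t) (x t) < 0 := mul_neg_of_pos_of_neg hd hu
    have h1 := hn.lower
    have h2 := hn.upper
    simp only [bandL] at h1 h2
    constructor
    · refine (mul_le_mul_left_of_neg hdu).1 ?_
      linarith
    · refine (mul_le_mul_left_of_neg hdu).1 ?_
      linarith
  rcases hR.lt_or_eq with hlt | h0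
  · exact key z hz hlt hκ
  obtain ⟨z₀, hz₀, hR₀⟩ := h.crossing
  have hz₀S : z₀ ∈ S := h.cover ⟨hz₀.1, hz₀.2.le⟩
  obtain rfl : z = z₀ := h.anti.injOn hz hz₀S (h0.trans hR₀.symm)
  have hκ' : z < 1 / (q + 1) / (1 / (p + 1)) := by
    rw [div_div_eq_mul_div, div_one, one_div_mul_eq_div]; exact hz₀.2
  have ev : ∀ᶠ t in 𝓝[>] z, neg6Cu d + neg6Su d * uOf N (R t) (x t) ≤ slopeAt N p q R x y dx dy t ∧
      slopeAt N p q R x y dx dy t ≤ neg6Cl d := by
    filter_upwards [mem_nhdsWithin_of_mem_nhds (h.isOpen.mem_nhds hz),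
      Ioo_mem_nhdsGT hκ'] with t ht htI
    exact key t ht (h0 ▸ h.anti hz ht htI.1) htI.2.le
  have ct := ((continuousOn_slopeAt_six hc h hb).continuousAt (h.isOpen.mem_nhds hz)).tendsto.mono_left
    (nhdsWithin_le_nhds (s := Ioi z))
  have cu : ContinuousAt (fun t => neg6Cu d + neg6Su d * uOf N (R t) (x t)) z := by
    have cR := h.smooth.1.continuousOn.continuousAt (h.isOpen.mem_nhds hz)
    have cx := h.smooth.2.1.continuousOn.continuousAt (h.isOpen.mem_nhds hz)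
    simp only [uOf]
    fun_prop
  exact ⟨le_of_tendsto_of_tendsto (cu.tendsto.mono_left nhdsWithin_le_nhds) ct
    (ev.mono fun t ht => ht.1), le_of_tendsto ct (ev.mono fun t ht => ht.2)⟩

/-- Up to `z = be/al` one has `0 ≤ v + u h/d`. -/
theorem neg_cut_six (hc : IsCrit N p q) (h : IsOrbitFns N p q S R x y s dx dy)
    (hb : SlabBoxSix N (1 / (p + 1)) (1 / (q + 1))) {z : ℝ} (hz : z ∈ S)
    (hκ : z ≤ 1 / (q + 1) / (1 / (p + 1))) :
    let al := 1 / (p + 1)
    let be := 1 / (q + 1)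
    let v := vOf al be (y z / x z)
    0 ≤ v + uOf N (R z) (x z) * chH (be - al) (al + be) (uOf N (R z) (x z)) v
      (slopeAt N p q R x y dx dy z) := by
  intro al be v
  obtain ⟨-, eH, -⟩ := chart_point_six hb (h.x_pos z hz) (h.y_pos z hz) (h.pos hz)
    (wFun_eq hc h hz) (wFun₁_eq hc h hz) (h.quad z hz)
  obtain ⟨hal, hbe, hd, hS1, -⟩ := hb.facts
  have hx := h.x_pos z hz
  refine nonneg_of_mul_nonneg_right (a := be - al) ?_ hd
  rw [mul_add, mul_left_comm]
  change 0 ≤ (be - al) * v + uOf N (R z) (x z) * ((be - al) * _)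
  simp only [slopeAt, al, be, v]
  rw [eH]
  have hM : N - 2 = 2 * (al + be) / (1 - (al + be)) := by
    rw [eq_div_iff hS1]; linear_combination hb.sum
  have eu : uOf N (R z) (x z) * ((al + be) / (1 - (al + be)) * (wFun N x y dx dy z / x z ^ 2)) =
      1 - z * y z / x z := by
    have hw := wFun_eq hc h hz
    simp only [uOf]
    rw [hM]
    have : al + be ≠ 0 := by linarith [hb.S_low]
    generalize al + be = σ at *
    field_simp
    linear_combination hw
  rw [eu]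
  have hv : (be - al) * vOf al be (y z / x z) = be / al * (y z / x z) - 1 := by
    simp only [vOf]; rw [mul_div_cancel₀ _ hd.ne']
  rw [hv]
  have := mul_le_mul_of_nonneg_right hκ (div_nonneg (h.y_pos z hz).le hx.le)
  rw [mul_div_assoc z]
  simp only [al, be]
  linarith

/-- The range of `(u, v)` past the crossing and at it. -/
theorem neg_range_six (h : IsOrbitFns N p q S R x y s dx dy)
    (hb : SlabBoxSix N (1 / (p + 1)) (1 / (q + 1))) {z : ℝ} (hz : z ∈ S) (hR : R z ≤ 0)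
    (hκ : z ≤ 1 / (q + 1) / (1 / (p + 1))) :
    let al := 1 / (p + 1)
    let be := 1 / (q + 1)
    let u := uOf N (R z) (x z)
    let w := vOf al be (y z / x z) - 9 / 50 * u
    u ≤ 0 ∧ neg6W₀ (al + be) (be - al) ≤ w ∧ w ≤ neg6W₁ (be - al) ∧ -neg6Um (be - al) w ≤ u := by
  intro al be u w
  rcases hR.lt_or_eq with hlt | h0
  · obtain ⟨hu, hn⟩ := orbit_neg_six h hb hz hlt hκ
    exact ⟨hu.le, hn.low, hn.high, hn.left⟩
  obtain ⟨c0, c1⟩ := orbit_centre_six h hb hz h0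
  have e0 : u = 0 := by simp [u, uOf, h0]
  have hw : w = vOf al be (y z / x z) := by simp [w, e0]
  obtain ⟨d0, d1, hS0, hS1⟩ := hb.d_ends
  have h5 := hb.neg6W₀_lt
  rw [hw, e0]
  refine ⟨le_rfl, (h5.le.trans c0), c1.trans ?_, ?_⟩
  · simp only [neg6W₁, al, be]; linarith
  · have h6 : 0 ≤ vOf al be (y z / x z) := by
      refine le_trans ?_ c0
      have : 0 < N + 2 * (1 / (p + 1)) := by linarith [hb.five, hb.facts.1]
      positivity
    have h7 := mul_nonneg (show 0 ≤ 5 / 8 + 1 / 5 * (be - al) by simp only [al, be]; linarith) h6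
    simp only [neg6Um, al, be] at h7 ⊢
    linarith

end

/-- **The closed signs of the slab of dimension six from the regions.** -/
theorem slabClosedSix_of (hn : Six.SignsNeg) (hl : Six.SignsLow)
    (tA : Six.SignsTail Six.bandsA 0 (3 / 100))
    (tB : Six.SignsTail Six.bandsB (3 / 100) (27 / 200))
    (tC : Six.SignsTail Six.bandsC (27 / 200) (1 / 3))
    (yA : Six.SignsLayer Six.bandsA 0 (3 / 100))
    (yB : Six.SignsLayer Six.bandsB (3 / 100) (27 / 200))
    (he : Six.SignsEnd)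
    (oL : OrbitSixLow) (oA : OrbitSixTail Six.bandsA 0 (3 / 100))
    (oB : OrbitSixTail Six.bandsB (3 / 100) (27 / 200))
    (oC : OrbitSixTail Six.bandsC (27 / 200) (1 / 3)) (oP : OrbitSixPsi) :
    SlabClosedSix := by
  intro p q N al be σ hq hqp hpq hc hal hbe hσ hN h1 h2 h3 h4 h5 h6 h7 h8 h9 h10 h11 h12
    S R x y s dx dy h z hz
  subst hσ
  have hb : SlabBoxSix N al be := ⟨h1.le, hN, h6, h8, h3.le, h4.le⟩
  have htri : be - al ≤ 3 - 4 * (al + be) := by
    have := mul_le_mul_of_nonneg_left hN.ge (show (0 : ℝ) ≤ 3 / 2 by norm_num)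
    refine le_of_mul_le_mul_left (a := N) ?_ (by linarith)
    linarith
  have hcb : Six.ChartBox (be - al) (al + be) :=
    ⟨sub_pos.2 h8, htri, h3, h4, by
      rw [show al + be - (be - al) = 2 * al by ring]; linarith⟩
  have hd3 := hb.diff
  subst hal hbe
  have hzS : z ∈ S := h.cover hz
  refine closedSigns_of_chart_six hc h hb hzS ?_
  rcases le_or_gt (R z) 0 with hR | hR
  · have hκ : z ≤ 1 / (q + 1) / (1 / (p + 1)) := by
      rw [div_div_eq_mul_div, div_one, one_div_mul_eq_div]; exact hz.2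
    obtain ⟨a1, a2, a3, a4⟩ := neg_range_six h hb hzS hR hκ
    obtain ⟨t1, t2⟩ := neg_tau_six hc h hb hzS hR hκ
    simp only [neg6W₀, neg6W₁, neg6Um] at a2 a3 a4
    simp only [neg6Cu, neg6Su, neg6Cl] at t1 t2
    exact hn _ _ _ _ _ hcb a1 a2 a3 a4 t1 t2 (neg_cut_six hc h hb hzS hκ)
  have hf := chartFacts_orbit_six hc h hb hzS hR
  rcases le_or_gt (uOf N (R z) (x z)) (3 / 5) with hu | hu
  · refine hl _ _ _ _ _ hcb hf.u_pos hu hf ?_ ?_ ?_
    · have := orbit_phi_six h hb hzS hR (hu.trans (by norm_num))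
      simp only [phiSix, phiG] at this
      simp only [Six.phiLow]
      exact this
    · exact (tau_band_six hc h hb hzS hR _ _ _).1.1
        (orbit_lower_six h hb hzS hR (hu.trans (by norm_num)))
    · exact (tau_band_six hc h hb hzS hR _ _ _).2.1 (orbit_upper_six h hb hzS hR hu)
  obtain ⟨l1, l2⟩ := oL N p q S R x y s dx dy hc h hb hcb z hzS hR
  have hpsi := oP N p q S R x y s dx dy hc h hb hcb z hzS hR
  have step : ∀ (B : Six.Bands) (d₀ d₁ : ℝ), OrbitSixTail B d₀ d₁ → Six.SignsTail B d₀ d₁ →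
      (1 / (q + 1) - 1 / (p + 1) < 1 / 16 → Six.SignsLayer B d₀ d₁) →
      d₀ ≤ 1 / (q + 1) - 1 / (p + 1) → 1 / (q + 1) - 1 / (p + 1) ≤ d₁ →
      Six.ChartSigns (1 / (q + 1) - 1 / (p + 1)) (1 / (p + 1) + 1 / (q + 1)) (uOf N (R z) (x z))
        (vOf (1 / (p + 1)) (1 / (q + 1)) (y z / x z)) (slopeAt N p q R x y dx dy z) := by
    intro B d₀ d₁ hB ht hy g0 g1
    obtain ⟨b1, b2, b3⟩ := hB N p q S R x y s dx dy hc h hb hcb g0 g1 z hzS hR
    rcases le_or_gt (uOf N (R z) (x z)) (39 / 40) with g | g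
    · exact ht _ _ _ _ _ hcb g0 g1 hu g hf (b1 hu.le (g.trans (le_max_left _ _))) (l1 hu.le g)
        (b2 hu.le g)
    rcases le_or_gt (Six.uLast (1 / (q + 1) - 1 / (p + 1))) (uOf N (R z) (x z)) with k | k
    · exact he _ _ _ _ _ hcb k hf (hpsi g.le) (l2 g.le)
    · have k' : uOf N (R z) (x z) ≤ 1 - 2 / 5 * (1 / (q + 1) - 1 / (p + 1)) :=
        ((lt_max_iff.1 k).resolve_left g.le.not_gt).le
      have hd16 : 1 / (q + 1) - 1 / (p + 1) < 1 / 16 := by linarith
      exact hy hd16 _ _ _ _ _ hcb g0 g1 hd16 g.le k' hf (b1 hu.le k.le) (hpsi g.le) (l2 g.le)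
        (b3 hd16 g.le k')
  rcases le_total (1 / (q + 1) - 1 / (p + 1)) (3 / 100) with g | g
  · exact step _ _ _ oA tA (fun _ => yA) hcb.pos.le g
  rcases le_total (1 / (q + 1) - 1 / (p + 1)) (27 / 200) with g' | g'
  · exact step _ _ _ oB tB (fun _ => yB) g g'
  · exact step _ _ _ oC tC (fun hd => absurd hd (by linarith)) g' hd3

/-- **The Lane–Emden conjecture in dimension six from the regions and the orbit bands.** -/
theorem lane_emden_six_of (hn : Six.SignsNeg) (hl : Six.SignsLow)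
    (tA : Six.SignsTail Six.bandsA 0 (3 / 100))
    (tB : Six.SignsTail Six.bandsB (3 / 100) (27 / 200))
    (tC : Six.SignsTail Six.bandsC (27 / 200) (1 / 3))
    (yA : Six.SignsLayer Six.bandsA 0 (3 / 100))
    (yB : Six.SignsLayer Six.bandsB (3 / 100) (27 / 200))
    (he : Six.SignsEnd)
    (oL : OrbitSixLow) (oA : OrbitSixTail Six.bandsA 0 (3 / 100))
    (oB : OrbitSixTail Six.bandsB (3 / 100) (27 / 200))
    (oC : OrbitSixTail Six.bandsC (27 / 200) (1 / 3)) (oP : OrbitSixPsi)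
    {p q : ℝ} (hp : 0 < p) (hq : 0 < q) (hsub : (2 : ℝ) / 3 < 1 / (p + 1) + 1 / (q + 1)) :
    ¬ ∃ u v : EuclideanSpace ℝ (Fin 6) → ℝ,
      Continuous u ∧ Continuous v ∧ ContDiffOn ℝ 2 u {0}ᶜ ∧ ContDiffOn ℝ 2 v {0}ᶜ ∧
      (∀ x, 0 < u x) ∧ (∀ x, 0 < v x) ∧
      (∀ x, x ≠ 0 → Laplacian.laplacian u x = -(v x) ^ p) ∧
      (∀ x, x ≠ 0 → Laplacian.laplacian v x = -(u x) ^ q) :=
  lane_emden_six (slabCalibSix_of_closed
    (slabClosedSix_of hn hl tA tB tC yA yB he oL oA oB oC oP)) hp hq hsub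

end Vale.Agent.P100.Calib.Band
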