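import Vale.Agent.P100.Calib.SlabSixLowPieces

/-!
# Checks of the certificate of dimension six on `0 < u ≤ 3/5`
-/

-- The checks are definitions, so that they run one after another with little memory.
set_option linter.defProp false

namespace Vale.Agent.P100.Calib.Closed.Six.Low

open BoxPos
open Vale.Agent.P100.Calib.Closed.Large (PosBox posBox_of_check and_four posBox_join₀ posBox_join₂ posBox_join₃)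

def p0xRoom_1 :
    (piece0.xRoom).checkQuick
      ⟨29, ⟨0, 0, 1, 1⟩⟩
      ⟨⟨0, 1001, 1000⟩, ⟨2000, 2021, 3000⟩, ⟨0, 170, 1000⟩, ⟨294, 541, 1000⟩⟩ = true := by
  decide +kernel

theorem p0xRoom_pos :
    PosBox ⟨⟨0, 1001, 1000⟩, ⟨2000, 2021, 3000⟩, ⟨0, 170, 1000⟩, ⟨294, 541, 1000⟩⟩
      (piece0.xRoom) :=
  posBox_of_check p0xRoom_1

def p0xGap_1 :
    (piece0.xGap).checkQuick
      ⟨63, ⟨0, 2, 3, 2⟩⟩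
      ⟨⟨0, 1001, 1000⟩, ⟨2000, 2021, 3000⟩, ⟨0, 85, 1000⟩, ⟨294, 417, 1000⟩⟩ = true := by
  decide +kernel

def p0xGap_2 :
    (piece0.xGap).checkQuick
      ⟨63, ⟨0, 2, 3, 2⟩⟩
      ⟨⟨0, 1001, 1000⟩, ⟨2000, 2021, 3000⟩, ⟨0, 85, 1000⟩, ⟨417, 541, 1000⟩⟩ = true := by
  decide +kernel

def p0xGap_3 :
    (piece0.xGap).checkQuick
      ⟨63, ⟨0, 2, 3, 2⟩⟩
      ⟨⟨0, 1001, 1000⟩, ⟨2000, 2021, 3000⟩, ⟨85, 170, 1000⟩, ⟨294, 541, 1000⟩⟩ = true := by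
  decide +kernel

theorem p0xGap_pos :
    PosBox ⟨⟨0, 1001, 1000⟩, ⟨2000, 2021, 3000⟩, ⟨0, 170, 1000⟩, ⟨294, 541, 1000⟩⟩
      (piece0.xGap) :=
  posBox_join₂ (posBox_join₃ (posBox_of_check p0xGap_1) (posBox_of_check p0xGap_2))
    (posBox_of_check p0xGap_3)

def p0hELL_1 :
    (piece0.hEL xTL).checkQuick
      ⟨327, ⟨5, 8, 11, 6⟩⟩
      ⟨⟨0, 1001, 1000⟩, ⟨2000, 2021, 3000⟩, ⟨0, 170, 1000⟩, ⟨294, 541, 1000⟩⟩ = true := by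
  decide +kernel

theorem p0hELL_pos :
    PosBox ⟨⟨0, 1001, 1000⟩, ⟨2000, 2021, 3000⟩, ⟨0, 170, 1000⟩, ⟨294, 541, 1000⟩⟩
      (piece0.hEL xTL) :=
  posBox_of_check p0hELL_1

def p0hEHL_1 :
    (piece0.hEH xTL).checkQuick
      ⟨329, ⟨5, 8, 11, 6⟩⟩
      ⟨⟨0, 1001, 1000⟩, ⟨2000, 2021, 3000⟩, ⟨0, 170, 1000⟩, ⟨294, 541, 1000⟩⟩ = true := by
  decide +kernel

theorem p0hEHL_pos :
    PosBox ⟨⟨0, 1001, 1000⟩, ⟨2000, 2021, 3000⟩, ⟨0, 170, 1000⟩, ⟨294, 541, 1000⟩⟩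
      (piece0.hEH xTL) :=
  posBox_of_check p0hEHL_1

def p0hPUL_1 :
    (piece0.hPU xTL).checkQuick
      ⟨350, ⟨5, 8, 11, 7⟩⟩
      ⟨⟨0, 1001, 1000⟩, ⟨2000, 2021, 3000⟩, ⟨0, 170, 1000⟩, ⟨294, 541, 1000⟩⟩ = true := by
  decide +kernel

theorem p0hPUL_pos :
    PosBox ⟨⟨0, 1001, 1000⟩, ⟨2000, 2021, 3000⟩, ⟨0, 170, 1000⟩, ⟨294, 541, 1000⟩⟩
      (piece0.hPU xTL) :=
  posBox_of_check p0hPUL_1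

def p0hKUL_1 :
    (piece0.hKU xTL).checkQuick
      ⟨347, ⟨5, 8, 11, 7⟩⟩
      ⟨⟨0, 1001, 1000⟩, ⟨2000, 2021, 3000⟩, ⟨0, 170, 1000⟩, ⟨294, 541, 1000⟩⟩ = true := by
  decide +kernel

theorem p0hKUL_pos :
    PosBox ⟨⟨0, 1001, 1000⟩, ⟨2000, 2021, 3000⟩, ⟨0, 170, 1000⟩, ⟨294, 541, 1000⟩⟩
      (piece0.hKU xTL) :=
  posBox_of_check p0hKUL_1

def p0hKLL_1 :
    (piece0.hKL xTL).checkQuick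
      ⟨346, ⟨5, 8, 11, 7⟩⟩
      ⟨⟨0, 1001, 1000⟩, ⟨2000, 2021, 3000⟩, ⟨0, 85, 1000⟩, ⟨294, 541, 1000⟩⟩ = true := by
  decide +kernel

def p0hKLL_2 :
    (piece0.hKL xTL).checkQuick
      ⟨347, ⟨5, 8, 11, 7⟩⟩
      ⟨⟨0, 1001, 1000⟩, ⟨2000, 2021, 3000⟩, ⟨85, 170, 1000⟩, ⟨294, 541, 1000⟩⟩ = true := by
  decide +kernel

theorem p0hKLL_pos :
    PosBox ⟨⟨0, 1001, 1000⟩, ⟨2000, 2021, 3000⟩, ⟨0, 170, 1000⟩, ⟨294, 541, 1000⟩⟩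
      (piece0.hKL xTL) :=
  posBox_join₂ (posBox_of_check p0hKLL_1) (posBox_of_check p0hKLL_2)

def p0hWUL_1 :
    (piece0.hWU xTL).checkQuick
      ⟨349, ⟨5, 7, 11, 7⟩⟩
      ⟨⟨0, 1001, 1000⟩, ⟨2000, 2021, 3000⟩, ⟨0, 85, 1000⟩, ⟨294, 541, 1000⟩⟩ = true := by
  decide +kernel

def p0hWUL_2 :
    (piece0.hWU xTL).checkQuick
      ⟨350, ⟨5, 7, 11, 7⟩⟩
      ⟨⟨0, 1001, 1000⟩, ⟨2000, 2021, 3000⟩, ⟨85, 170, 1000⟩, ⟨294, 541, 1000⟩⟩ = true := by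
  decide +kernel

theorem p0hWUL_pos :
    PosBox ⟨⟨0, 1001, 1000⟩, ⟨2000, 2021, 3000⟩, ⟨0, 170, 1000⟩, ⟨294, 541, 1000⟩⟩
      (piece0.hWU xTL) :=
  posBox_join₂ (posBox_of_check p0hWUL_1) (posBox_of_check p0hWUL_2)

def p0hWLL_1 :
    (piece0.hWL xTL).checkQuick
      ⟨350, ⟨5, 7, 11, 7⟩⟩
      ⟨⟨0, 1001, 1000⟩, ⟨2000, 2021, 3000⟩, ⟨0, 170, 1000⟩, ⟨294, 417, 1000⟩⟩ = true := by
  decide +kernel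

def p0hWLL_2 :
    (piece0.hWL xTL).checkQuick
      ⟨350, ⟨5, 7, 11, 7⟩⟩
      ⟨⟨0, 1001, 1000⟩, ⟨2000, 2021, 3000⟩, ⟨0, 170, 1000⟩, ⟨417, 541, 1000⟩⟩ = true := by
  decide +kernel

theorem p0hWLL_pos :
    PosBox ⟨⟨0, 1001, 1000⟩, ⟨2000, 2021, 3000⟩, ⟨0, 170, 1000⟩, ⟨294, 541, 1000⟩⟩
      (piece0.hWL xTL) :=
  posBox_join₃ (posBox_of_check p0hWLL_1) (posBox_of_check p0hWLL_2)

def p0hZL_1 :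
    (piece0.hZ xTL).checkQuick
      ⟨497, ⟨8, 10, 18, 8⟩⟩
      ⟨⟨0, 1001, 1000⟩, ⟨2000, 2021, 3000⟩, ⟨0, 170, 1000⟩, ⟨294, 541, 1000⟩⟩ = true := by
  decide +kernel

theorem p0hZL_pos :
    PosBox ⟨⟨0, 1001, 1000⟩, ⟨2000, 2021, 3000⟩, ⟨0, 170, 1000⟩, ⟨294, 541, 1000⟩⟩
      (piece0.hZ xTL) :=
  posBox_of_check p0hZL_1

def p0hELU_1 :
    (piece0.hEL xTU).checkQuick
      ⟨340, ⟨5, 8, 12, 6⟩⟩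
      ⟨⟨0, 1001, 1000⟩, ⟨2000, 2021, 3000⟩, ⟨0, 170, 1000⟩, ⟨294, 541, 1000⟩⟩ = true := by
  decide +kernel

theorem p0hELU_pos :
    PosBox ⟨⟨0, 1001, 1000⟩, ⟨2000, 2021, 3000⟩, ⟨0, 170, 1000⟩, ⟨294, 541, 1000⟩⟩
      (piece0.hEL xTU) :=
  posBox_of_check p0hELU_1

def p0hEHU_1 :
    (piece0.hEH xTU).checkQuick
      ⟨342, ⟨5, 8, 12, 6⟩⟩
      ⟨⟨0, 250, 1000⟩, ⟨2000, 2021, 3000⟩, ⟨0, 170, 1000⟩, ⟨294, 417, 1000⟩⟩ = true := by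
  decide +kernel

def p0hEHU_2 :
    (piece0.hEH xTU).checkQuick
      ⟨342, ⟨5, 8, 12, 6⟩⟩
      ⟨⟨0, 125, 1000⟩, ⟨2000, 2021, 3000⟩, ⟨0, 170, 1000⟩, ⟨417, 541, 1000⟩⟩ = true := by
  decide +kernel

def p0hEHU_3 :
    (piece0.hEH xTU).checkQuick
      ⟨342, ⟨5, 8, 12, 6⟩⟩
      ⟨⟨125, 250, 1000⟩, ⟨2000, 2021, 3000⟩, ⟨0, 170, 1000⟩, ⟨417, 541, 1000⟩⟩ = true := by
  decide +kernel

def p0hEHU_4 :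
    (piece0.hEH xTU).checkQuick
      ⟨342, ⟨5, 8, 12, 6⟩⟩
      ⟨⟨250, 500, 1000⟩, ⟨2000, 2021, 3000⟩, ⟨0, 170, 1000⟩, ⟨294, 541, 1000⟩⟩ = true := by
  decide +kernel

def p0hEHU_5 :
    (piece0.hEH xTU).checkQuick
      ⟨342, ⟨5, 8, 12, 6⟩⟩
      ⟨⟨500, 1001, 1000⟩, ⟨2000, 2021, 3000⟩, ⟨0, 85, 1000⟩, ⟨294, 417, 1000⟩⟩ = true := by
  decide +kernel

def p0hEHU_6 :
    (piece0.hEH xTU).checkQuick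
      ⟨343, ⟨5, 8, 12, 6⟩⟩
      ⟨⟨500, 1001, 1000⟩, ⟨2000, 2021, 3000⟩, ⟨85, 170, 1000⟩, ⟨294, 417, 1000⟩⟩ = true := by
  decide +kernel

def p0hEHU_7 :
    (piece0.hEH xTU).checkQuick
      ⟨343, ⟨5, 8, 12, 6⟩⟩
      ⟨⟨500, 1001, 1000⟩, ⟨2000, 2021, 3000⟩, ⟨0, 170, 1000⟩, ⟨417, 541, 1000⟩⟩ = true := by
  decide +kernel

theorem p0hEHU_pos :
    PosBox ⟨⟨0, 1001, 1000⟩, ⟨2000, 2021, 3000⟩, ⟨0, 170, 1000⟩, ⟨294, 541, 1000⟩⟩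
      (piece0.hEH xTU) :=
  posBox_join₀ (posBox_join₀ (posBox_join₃ (posBox_of_check p0hEHU_1) (posBox_join₀
    (posBox_of_check p0hEHU_2) (posBox_of_check p0hEHU_3))) (posBox_of_check p0hEHU_4))
    (posBox_join₃ (posBox_join₂ (posBox_of_check p0hEHU_5) (posBox_of_check p0hEHU_6))
    (posBox_of_check p0hEHU_7))

def p0hPUU_1 :
    (piece0.hPU xTU).checkQuick
      ⟨363, ⟨5, 8, 12, 7⟩⟩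
      ⟨⟨0, 250, 1000⟩, ⟨2000, 2021, 3000⟩, ⟨0, 170, 1000⟩, ⟨294, 541, 1000⟩⟩ = true := by
  decide +kernel

def p0hPUU_2 :
    (piece0.hPU xTU).checkQuick
      ⟨363, ⟨5, 8, 12, 7⟩⟩
      ⟨⟨250, 500, 1000⟩, ⟨2000, 2021, 3000⟩, ⟨0, 170, 1000⟩, ⟨294, 541, 1000⟩⟩ = true := by
  decide +kernel

def p0hPUU_3 :
    (piece0.hPU xTU).checkQuick
      ⟨364, ⟨5, 8, 12, 7⟩⟩
      ⟨⟨500, 750, 1000⟩, ⟨2000, 2021, 3000⟩, ⟨0, 170, 1000⟩, ⟨294, 541, 1000⟩⟩ = true := by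
  decide +kernel

def p0hPUU_4 :
    (piece0.hPU xTU).checkQuick
      ⟨364, ⟨5, 8, 12, 7⟩⟩
      ⟨⟨750, 875, 1000⟩, ⟨2000, 2021, 3000⟩, ⟨0, 85, 1000⟩, ⟨294, 541, 1000⟩⟩ = true := by
  decide +kernel

def p0hPUU_5 :
    (piece0.hPU xTU).checkQuick
      ⟨364, ⟨5, 8, 12, 7⟩⟩
      ⟨⟨875, 1001, 1000⟩, ⟨2000, 2021, 3000⟩, ⟨0, 85, 1000⟩, ⟨294, 541, 1000⟩⟩ = true := by
  decide +kernel

def p0hPUU_6 :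
    (piece0.hPU xTU).checkQuick
      ⟨365, ⟨5, 8, 12, 7⟩⟩
      ⟨⟨750, 1001, 1000⟩, ⟨2000, 2021, 3000⟩, ⟨85, 170, 1000⟩, ⟨294, 541, 1000⟩⟩ = true := by
  decide +kernel

theorem p0hPUU_pos :
    PosBox ⟨⟨0, 1001, 1000⟩, ⟨2000, 2021, 3000⟩, ⟨0, 170, 1000⟩, ⟨294, 541, 1000⟩⟩
      (piece0.hPU xTU) :=
  posBox_join₀ (posBox_join₀ (posBox_of_check p0hPUU_1) (posBox_of_check p0hPUU_2))
    (posBox_join₀ (posBox_of_check p0hPUU_3) (posBox_join₂ (posBox_join₀ (posBox_of_check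
    p0hPUU_4) (posBox_of_check p0hPUU_5)) (posBox_of_check p0hPUU_6)))

def p0hKUU_1 :
    (piece0.hKU xTU).checkQuick
      ⟨360, ⟨5, 8, 12, 7⟩⟩
      ⟨⟨0, 1001, 1000⟩, ⟨2000, 2021, 3000⟩, ⟨0, 170, 1000⟩, ⟨294, 541, 1000⟩⟩ = true := by
  decide +kernel

theorem p0hKUU_pos :
    PosBox ⟨⟨0, 1001, 1000⟩, ⟨2000, 2021, 3000⟩, ⟨0, 170, 1000⟩, ⟨294, 541, 1000⟩⟩
      (piece0.hKU xTU) :=
  posBox_of_check p0hKUU_1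

def p0hKLU_1 :
    (piece0.hKL xTU).checkQuick
      ⟨359, ⟨5, 8, 12, 7⟩⟩
      ⟨⟨0, 500, 1000⟩, ⟨2000, 2021, 3000⟩, ⟨0, 85, 1000⟩, ⟨294, 541, 1000⟩⟩ = true := by
  decide +kernel

def p0hKLU_2 :
    (piece0.hKL xTU).checkQuick
      ⟨360, ⟨5, 8, 12, 7⟩⟩
      ⟨⟨0, 500, 1000⟩, ⟨2000, 2021, 3000⟩, ⟨85, 170, 1000⟩, ⟨294, 541, 1000⟩⟩ = true := by
  decide +kernel

def p0hKLU_3 :
    (piece0.hKL xTU).checkQuick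
      ⟨360, ⟨5, 8, 12, 7⟩⟩
      ⟨⟨500, 1001, 1000⟩, ⟨2000, 2021, 3000⟩, ⟨0, 170, 1000⟩, ⟨294, 541, 1000⟩⟩ = true := by
  decide +kernel

theorem p0hKLU_pos :
    PosBox ⟨⟨0, 1001, 1000⟩, ⟨2000, 2021, 3000⟩, ⟨0, 170, 1000⟩, ⟨294, 541, 1000⟩⟩
      (piece0.hKL xTU) :=
  posBox_join₀ (posBox_join₂ (posBox_of_check p0hKLU_1) (posBox_of_check p0hKLU_2))
    (posBox_of_check p0hKLU_3)

def p0hWUU_1 :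
    (piece0.hWU xTU).checkQuick
      ⟨362, ⟨5, 7, 12, 7⟩⟩
      ⟨⟨0, 1001, 1000⟩, ⟨2000, 2021, 3000⟩, ⟨0, 85, 1000⟩, ⟨294, 541, 1000⟩⟩ = true := by
  decide +kernel

def p0hWUU_2 :
    (piece0.hWU xTU).checkQuick
      ⟨364, ⟨5, 7, 12, 7⟩⟩
      ⟨⟨0, 1001, 1000⟩, ⟨2000, 2021, 3000⟩, ⟨85, 170, 1000⟩, ⟨294, 541, 1000⟩⟩ = true := by
  decide +kernel

theorem p0hWUU_pos :
    PosBox ⟨⟨0, 1001, 1000⟩, ⟨2000, 2021, 3000⟩, ⟨0, 170, 1000⟩, ⟨294, 541, 1000⟩⟩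
      (piece0.hWU xTU) :=
  posBox_join₂ (posBox_of_check p0hWUU_1) (posBox_of_check p0hWUU_2)

def p0hWLU_1 :
    (piece0.hWL xTU).checkQuick
      ⟨363, ⟨5, 7, 12, 7⟩⟩
      ⟨⟨0, 1001, 1000⟩, ⟨2000, 2021, 3000⟩, ⟨0, 170, 1000⟩, ⟨294, 417, 1000⟩⟩ = true := by
  decide +kernel

def p0hWLU_2 :
    (piece0.hWL xTU).checkQuick
      ⟨363, ⟨5, 7, 12, 7⟩⟩
      ⟨⟨0, 1001, 1000⟩, ⟨2000, 2021, 3000⟩, ⟨0, 170, 1000⟩, ⟨417, 541, 1000⟩⟩ = true := by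
  decide +kernel

theorem p0hWLU_pos :
    PosBox ⟨⟨0, 1001, 1000⟩, ⟨2000, 2021, 3000⟩, ⟨0, 170, 1000⟩, ⟨294, 541, 1000⟩⟩
      (piece0.hWL xTU) :=
  posBox_join₃ (posBox_of_check p0hWLU_1) (posBox_of_check p0hWLU_2)

def p0hZU_1 :
    (piece0.hZ xTU).checkQuick
      ⟨497, ⟨8, 10, 18, 8⟩⟩
      ⟨⟨0, 1001, 1000⟩, ⟨2000, 2021, 3000⟩, ⟨0, 170, 1000⟩, ⟨294, 541, 1000⟩⟩ = true := by
  decide +kernel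

theorem p0hZU_pos :
    PosBox ⟨⟨0, 1001, 1000⟩, ⟨2000, 2021, 3000⟩, ⟨0, 170, 1000⟩, ⟨294, 541, 1000⟩⟩
      (piece0.hZ xTU) :=
  posBox_of_check p0hZU_1

def p0hKp_1 :
    (piece0.hKp).checkQuick
      ⟨85, ⟨1, 1, 3, 3⟩⟩
      ⟨⟨0, 1001, 1000⟩, ⟨2000, 2021, 3000⟩, ⟨0, 85, 1000⟩, ⟨294, 541, 1000⟩⟩ = true := by
  decide +kernel

def p0hKp_2 :
    (piece0.hKp).checkQuick
      ⟨87, ⟨1, 1, 3, 3⟩⟩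
      ⟨⟨0, 1001, 1000⟩, ⟨2000, 2021, 3000⟩, ⟨85, 170, 1000⟩, ⟨294, 541, 1000⟩⟩ = true := by
  decide +kernel

theorem p0hKp_pos :
    PosBox ⟨⟨0, 1001, 1000⟩, ⟨2000, 2021, 3000⟩, ⟨0, 170, 1000⟩, ⟨294, 541, 1000⟩⟩
      (piece0.hKp) :=
  posBox_join₂ (posBox_of_check p0hKp_1) (posBox_of_check p0hKp_2)

def p0hKm_1 :
    (piece0.hKm).checkQuick
      ⟨90, ⟨1, 1, 3, 3⟩⟩
      ⟨⟨0, 1001, 1000⟩, ⟨2000, 2021, 3000⟩, ⟨0, 170, 1000⟩, ⟨294, 355, 1000⟩⟩ = true := by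
  decide +kernel

def p0hKm_2 :
    (piece0.hKm).checkQuick
      ⟨90, ⟨1, 1, 3, 3⟩⟩
      ⟨⟨0, 1001, 1000⟩, ⟨2000, 2021, 3000⟩, ⟨0, 170, 1000⟩, ⟨355, 386, 1000⟩⟩ = true := by
  decide +kernel

def p0hKm_3 :
    (piece0.hKm).checkQuick
      ⟨90, ⟨1, 1, 3, 3⟩⟩
      ⟨⟨0, 1001, 1000⟩, ⟨2000, 2021, 3000⟩, ⟨0, 170, 1000⟩, ⟨386, 417, 1000⟩⟩ = true := by
  decide +kernel

def p0hKm_4 :
    (piece0.hKm).checkQuick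
      ⟨90, ⟨1, 1, 3, 3⟩⟩
      ⟨⟨0, 1001, 1000⟩, ⟨2000, 2021, 3000⟩, ⟨0, 170, 1000⟩, ⟨417, 541, 1000⟩⟩ = true := by
  decide +kernel

theorem p0hKm_pos :
    PosBox ⟨⟨0, 1001, 1000⟩, ⟨2000, 2021, 3000⟩, ⟨0, 170, 1000⟩, ⟨294, 541, 1000⟩⟩
      (piece0.hKm) :=
  posBox_join₃ (posBox_join₃ (posBox_of_check p0hKm_1) (posBox_join₃ (posBox_of_check p0hKm_2)
    (posBox_of_check p0hKm_3))) (posBox_of_check p0hKm_4)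

def p0hMZeroLo_1 :
    (piece0.hM₀ piece0.xPL).checkQuick
      ⟨213, ⟨2, 5, 9, 6⟩⟩
      ⟨⟨0, 1001, 1000⟩, ⟨2000, 2021, 3000⟩, ⟨0, 170, 1000⟩, ⟨294, 541, 1000⟩⟩ = true := by
  decide +kernel

theorem p0hMZeroLo_pos :
    PosBox ⟨⟨0, 1001, 1000⟩, ⟨2000, 2021, 3000⟩, ⟨0, 170, 1000⟩, ⟨294, 541, 1000⟩⟩
      (piece0.hM₀ piece0.xPL) :=
  posBox_of_check p0hMZeroLo_1

def p0hC1Lo_1 :
    (piece0.hC1 piece0.xPL).checkQuick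
      ⟨241, ⟨3, 5, 9, 8⟩⟩
      ⟨⟨0, 1001, 1000⟩, ⟨2000, 2021, 3000⟩, ⟨0, 170, 1000⟩, ⟨294, 541, 1000⟩⟩ = true := by
  decide +kernel

theorem p0hC1Lo_pos :
    PosBox ⟨⟨0, 1001, 1000⟩, ⟨2000, 2021, 3000⟩, ⟨0, 170, 1000⟩, ⟨294, 541, 1000⟩⟩
      (piece0.hC1 piece0.xPL) :=
  posBox_of_check p0hC1Lo_1

def p0hGLoZLo_1 :
    (piece0.hG piece0.xPL piece0.zLo).checkQuick
      ⟨347, ⟨2, 7, 16, 11⟩⟩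
      ⟨⟨0, 1001, 1000⟩, ⟨2000, 2021, 3000⟩, ⟨0, 170, 1000⟩, ⟨294, 541, 1000⟩⟩ = true := by
  decide +kernel

theorem p0hGLoZLo_pos :
    PosBox ⟨⟨0, 1001, 1000⟩, ⟨2000, 2021, 3000⟩, ⟨0, 170, 1000⟩, ⟨294, 541, 1000⟩⟩
      (piece0.hG piece0.xPL piece0.zLo) :=
  posBox_of_check p0hGLoZLo_1

def p0hC2pLoZLo_1 :
    (piece0.hC2p piece0.xPL piece0.zLo).checkQuick
      ⟨431, ⟨3, 8, 19, 14⟩⟩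
      ⟨⟨0, 1001, 1000⟩, ⟨2000, 2021, 3000⟩, ⟨0, 170, 1000⟩, ⟨294, 541, 1000⟩⟩ = true := by
  decide +kernel

theorem p0hC2pLoZLo_pos :
    PosBox ⟨⟨0, 1001, 1000⟩, ⟨2000, 2021, 3000⟩, ⟨0, 170, 1000⟩, ⟨294, 541, 1000⟩⟩
      (piece0.hC2p piece0.xPL piece0.zLo) :=
  posBox_of_check p0hC2pLoZLo_1

def p0hC2mLoZLo_1 :
    (piece0.hC2m piece0.xPL piece0.zLo).checkQuick
      ⟨434, ⟨3, 8, 19, 14⟩⟩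
      ⟨⟨0, 1001, 1000⟩, ⟨2000, 2021, 3000⟩, ⟨0, 170, 1000⟩, ⟨294, 417, 1000⟩⟩ = true := by
  decide +kernel

def p0hC2mLoZLo_2 :
    (piece0.hC2m piece0.xPL piece0.zLo).checkQuick
      ⟨434, ⟨3, 8, 19, 14⟩⟩
      ⟨⟨0, 1001, 1000⟩, ⟨2000, 2021, 3000⟩, ⟨0, 170, 1000⟩, ⟨417, 541, 1000⟩⟩ = true := by
  decide +kernel

theorem p0hC2mLoZLo_pos :
    PosBox ⟨⟨0, 1001, 1000⟩, ⟨2000, 2021, 3000⟩, ⟨0, 170, 1000⟩, ⟨294, 541, 1000⟩⟩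
      (piece0.hC2m piece0.xPL piece0.zLo) :=
  posBox_join₃ (posBox_of_check p0hC2mLoZLo_1) (posBox_of_check p0hC2mLoZLo_2)

def p0hC3pLoZLo_1 :
    (piece0.hC3p piece0.xPL piece0.zLo).checkQuick
      ⟨403, ⟨3, 8, 17, 13⟩⟩
      ⟨⟨0, 1001, 1000⟩, ⟨2000, 2021, 3000⟩, ⟨0, 170, 1000⟩, ⟨294, 541, 1000⟩⟩ = true := by
  decide +kernel

theorem p0hC3pLoZLo_pos :
    PosBox ⟨⟨0, 1001, 1000⟩, ⟨2000, 2021, 3000⟩, ⟨0, 170, 1000⟩, ⟨294, 541, 1000⟩⟩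
      (piece0.hC3p piece0.xPL piece0.zLo) :=
  posBox_of_check p0hC3pLoZLo_1

def p0hC3mLoZLo_1 :
    (piece0.hC3m piece0.xPL piece0.zLo).checkQuick
      ⟨404, ⟨3, 8, 17, 13⟩⟩
      ⟨⟨0, 1001, 1000⟩, ⟨2000, 2021, 3000⟩, ⟨0, 170, 1000⟩, ⟨294, 541, 1000⟩⟩ = true := by
  decide +kernel

theorem p0hC3mLoZLo_pos :
    PosBox ⟨⟨0, 1001, 1000⟩, ⟨2000, 2021, 3000⟩, ⟨0, 170, 1000⟩, ⟨294, 541, 1000⟩⟩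
      (piece0.hC3m piece0.xPL piece0.zLo) :=
  posBox_of_check p0hC3mLoZLo_1

def p0hNLoZLo_1 :
    (piece0.hN piece0.xPL piece0.zLo).checkQuick
      ⟨331, ⟨2, 7, 15, 10⟩⟩
      ⟨⟨0, 1001, 1000⟩, ⟨2000, 2021, 3000⟩, ⟨0, 170, 1000⟩, ⟨294, 541, 1000⟩⟩ = true := by
  decide +kernel

theorem p0hNLoZLo_pos :
    PosBox ⟨⟨0, 1001, 1000⟩, ⟨2000, 2021, 3000⟩, ⟨0, 170, 1000⟩, ⟨294, 541, 1000⟩⟩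
      (piece0.hN piece0.xPL piece0.zLo) :=
  posBox_of_check p0hNLoZLo_1

def p0hGLoZHi_1 :
    (piece0.hG piece0.xPL zHi).checkQuick
      ⟨304, ⟨2, 7, 14, 9⟩⟩
      ⟨⟨0, 1001, 1000⟩, ⟨2000, 2021, 3000⟩, ⟨0, 170, 1000⟩, ⟨294, 541, 1000⟩⟩ = true := by
  decide +kernel

theorem p0hGLoZHi_pos :
    PosBox ⟨⟨0, 1001, 1000⟩, ⟨2000, 2021, 3000⟩, ⟨0, 170, 1000⟩, ⟨294, 541, 1000⟩⟩
      (piece0.hG piece0.xPL zHi) :=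
  posBox_of_check p0hGLoZHi_1

def p0hC2pLoZHi_1 :
    (piece0.hC2p piece0.xPL zHi).checkQuick
      ⟨388, ⟨3, 8, 17, 12⟩⟩
      ⟨⟨0, 1001, 1000⟩, ⟨2000, 2021, 3000⟩, ⟨0, 170, 1000⟩, ⟨294, 541, 1000⟩⟩ = true := by
  decide +kernel

theorem p0hC2pLoZHi_pos :
    PosBox ⟨⟨0, 1001, 1000⟩, ⟨2000, 2021, 3000⟩, ⟨0, 170, 1000⟩, ⟨294, 541, 1000⟩⟩
      (piece0.hC2p piece0.xPL zHi) :=
  posBox_of_check p0hC2pLoZHi_1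

def p0hC2mLoZHi_1 :
    (piece0.hC2m piece0.xPL zHi).checkQuick
      ⟨391, ⟨3, 8, 17, 12⟩⟩
      ⟨⟨0, 1001, 1000⟩, ⟨2000, 2021, 3000⟩, ⟨0, 170, 1000⟩, ⟨294, 417, 1000⟩⟩ = true := by
  decide +kernel

def p0hC2mLoZHi_2 :
    (piece0.hC2m piece0.xPL zHi).checkQuick
      ⟨392, ⟨3, 8, 17, 12⟩⟩
      ⟨⟨0, 1001, 1000⟩, ⟨2000, 2021, 3000⟩, ⟨0, 170, 1000⟩, ⟨417, 541, 1000⟩⟩ = true := by
  decide +kernel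

theorem p0hC2mLoZHi_pos :
    PosBox ⟨⟨0, 1001, 1000⟩, ⟨2000, 2021, 3000⟩, ⟨0, 170, 1000⟩, ⟨294, 541, 1000⟩⟩
      (piece0.hC2m piece0.xPL zHi) :=
  posBox_join₃ (posBox_of_check p0hC2mLoZHi_1) (posBox_of_check p0hC2mLoZHi_2)

def p0hC3pLoZHi_1 :
    (piece0.hC3p piece0.xPL zHi).checkQuick
      ⟨383, ⟨3, 8, 16, 12⟩⟩
      ⟨⟨0, 1001, 1000⟩, ⟨2000, 2021, 3000⟩, ⟨0, 170, 1000⟩, ⟨294, 541, 1000⟩⟩ = true := by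
  decide +kernel

theorem p0hC3pLoZHi_pos :
    PosBox ⟨⟨0, 1001, 1000⟩, ⟨2000, 2021, 3000⟩, ⟨0, 170, 1000⟩, ⟨294, 541, 1000⟩⟩
      (piece0.hC3p piece0.xPL zHi) :=
  posBox_of_check p0hC3pLoZHi_1

def p0hC3mLoZHi_1 :
    (piece0.hC3m piece0.xPL zHi).checkQuick
      ⟨384, ⟨3, 8, 16, 12⟩⟩
      ⟨⟨0, 1001, 1000⟩, ⟨2000, 2021, 3000⟩, ⟨0, 170, 1000⟩, ⟨294, 541, 1000⟩⟩ = true := by
  decide +kernel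

theorem p0hC3mLoZHi_pos :
    PosBox ⟨⟨0, 1001, 1000⟩, ⟨2000, 2021, 3000⟩, ⟨0, 170, 1000⟩, ⟨294, 541, 1000⟩⟩
      (piece0.hC3m piece0.xPL zHi) :=
  posBox_of_check p0hC3mLoZHi_1

def p0hNLoZHi_1 :
    (piece0.hN piece0.xPL zHi).checkQuick
      ⟨321, ⟨2, 7, 14, 10⟩⟩
      ⟨⟨0, 1001, 1000⟩, ⟨2000, 2021, 3000⟩, ⟨0, 170, 1000⟩, ⟨294, 541, 1000⟩⟩ = true := by
  decide +kernel

theorem p0hNLoZHi_pos :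
    PosBox ⟨⟨0, 1001, 1000⟩, ⟨2000, 2021, 3000⟩, ⟨0, 170, 1000⟩, ⟨294, 541, 1000⟩⟩
      (piece0.hN piece0.xPL zHi) :=
  posBox_of_check p0hNLoZHi_1

def p0hV2p_1 :
    (piece0.hV2p).checkQuick
      ⟨225, ⟨1, 6, 11, 6⟩⟩
      ⟨⟨0, 1001, 1000⟩, ⟨2000, 2021, 3000⟩, ⟨0, 170, 1000⟩, ⟨294, 541, 1000⟩⟩ = true := by
  decide +kernel

theorem p0hV2p_pos :
    PosBox ⟨⟨0, 1001, 1000⟩, ⟨2000, 2021, 3000⟩, ⟨0, 170, 1000⟩, ⟨294, 541, 1000⟩⟩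
      (piece0.hV2p) :=
  posBox_of_check p0hV2p_1

def p0hV2m_1 :
    (piece0.hV2m).checkQuick
      ⟨228, ⟨1, 6, 11, 6⟩⟩
      ⟨⟨0, 1001, 1000⟩, ⟨2000, 2021, 3000⟩, ⟨0, 170, 1000⟩, ⟨294, 355, 1000⟩⟩ = true := by
  decide +kernel

def p0hV2m_2 :
    (piece0.hV2m).checkQuick
      ⟨228, ⟨1, 6, 11, 6⟩⟩
      ⟨⟨0, 1001, 1000⟩, ⟨2000, 2021, 3000⟩, ⟨0, 170, 1000⟩, ⟨355, 417, 1000⟩⟩ = true := by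
  decide +kernel

def p0hV2m_3 :
    (piece0.hV2m).checkQuick
      ⟨229, ⟨1, 6, 11, 6⟩⟩
      ⟨⟨0, 1001, 1000⟩, ⟨2000, 2021, 3000⟩, ⟨0, 170, 1000⟩, ⟨417, 541, 1000⟩⟩ = true := by
  decide +kernel

theorem p0hV2m_pos :
    PosBox ⟨⟨0, 1001, 1000⟩, ⟨2000, 2021, 3000⟩, ⟨0, 170, 1000⟩, ⟨294, 541, 1000⟩⟩
      (piece0.hV2m) :=
  posBox_join₃ (posBox_join₃ (posBox_of_check p0hV2m_1) (posBox_of_check p0hV2m_2))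
    (posBox_of_check p0hV2m_3)

def p0hV3p_1 :
    (piece0.hV3p).checkQuick
      ⟨215, ⟨1, 6, 10, 6⟩⟩
      ⟨⟨0, 1001, 1000⟩, ⟨2000, 2021, 3000⟩, ⟨0, 170, 1000⟩, ⟨294, 541, 1000⟩⟩ = true := by
  decide +kernel

theorem p0hV3p_pos :
    PosBox ⟨⟨0, 1001, 1000⟩, ⟨2000, 2021, 3000⟩, ⟨0, 170, 1000⟩, ⟨294, 541, 1000⟩⟩
      (piece0.hV3p) :=
  posBox_of_check p0hV3p_1

def p0hV3m_1 :
    (piece0.hV3m).checkQuick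
      ⟨216, ⟨1, 6, 10, 6⟩⟩
      ⟨⟨0, 1001, 1000⟩, ⟨2000, 2021, 3000⟩, ⟨0, 170, 1000⟩, ⟨294, 541, 1000⟩⟩ = true := by
  decide +kernel

theorem p0hV3m_pos :
    PosBox ⟨⟨0, 1001, 1000⟩, ⟨2000, 2021, 3000⟩, ⟨0, 170, 1000⟩, ⟨294, 541, 1000⟩⟩
      (piece0.hV3m) :=
  posBox_of_check p0hV3m_1

def p0hMZeroHi_1 :
    (piece0.hM₀ piece0.xPU).checkQuick
      ⟨214, ⟨2, 5, 9, 6⟩⟩
      ⟨⟨0, 1001, 1000⟩, ⟨2000, 2021, 3000⟩, ⟨0, 170, 1000⟩, ⟨294, 541, 1000⟩⟩ = true := by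
  decide +kernel

theorem p0hMZeroHi_pos :
    PosBox ⟨⟨0, 1001, 1000⟩, ⟨2000, 2021, 3000⟩, ⟨0, 170, 1000⟩, ⟨294, 541, 1000⟩⟩
      (piece0.hM₀ piece0.xPU) :=
  posBox_of_check p0hMZeroHi_1

def p0hC1Hi_1 :
    (piece0.hC1 piece0.xPU).checkQuick
      ⟨242, ⟨3, 5, 9, 8⟩⟩
      ⟨⟨0, 1001, 1000⟩, ⟨2000, 2021, 3000⟩, ⟨0, 170, 1000⟩, ⟨294, 541, 1000⟩⟩ = true := by
  decide +kernel

theorem p0hC1Hi_pos :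
    PosBox ⟨⟨0, 1001, 1000⟩, ⟨2000, 2021, 3000⟩, ⟨0, 170, 1000⟩, ⟨294, 541, 1000⟩⟩
      (piece0.hC1 piece0.xPU) :=
  posBox_of_check p0hC1Hi_1

def p0hGHiZLo_1 :
    (piece0.hG piece0.xPU piece0.zLo).checkQuick
      ⟨347, ⟨2, 7, 16, 11⟩⟩
      ⟨⟨0, 1001, 1000⟩, ⟨2000, 2021, 3000⟩, ⟨0, 170, 1000⟩, ⟨294, 541, 1000⟩⟩ = true := by
  decide +kernel

theorem p0hGHiZLo_pos :
    PosBox ⟨⟨0, 1001, 1000⟩, ⟨2000, 2021, 3000⟩, ⟨0, 170, 1000⟩, ⟨294, 541, 1000⟩⟩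
      (piece0.hG piece0.xPU piece0.zLo) :=
  posBox_of_check p0hGHiZLo_1

def p0hC2pHiZLo_1 :
    (piece0.hC2p piece0.xPU piece0.zLo).checkQuick
      ⟨431, ⟨3, 8, 19, 14⟩⟩
      ⟨⟨0, 1001, 1000⟩, ⟨2000, 2021, 3000⟩, ⟨0, 170, 1000⟩, ⟨294, 541, 1000⟩⟩ = true := by
  decide +kernel

theorem p0hC2pHiZLo_pos :
    PosBox ⟨⟨0, 1001, 1000⟩, ⟨2000, 2021, 3000⟩, ⟨0, 170, 1000⟩, ⟨294, 541, 1000⟩⟩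
      (piece0.hC2p piece0.xPU piece0.zLo) :=
  posBox_of_check p0hC2pHiZLo_1

def p0hC2mHiZLo_1 :
    (piece0.hC2m piece0.xPU piece0.zLo).checkQuick
      ⟨434, ⟨3, 8, 19, 14⟩⟩
      ⟨⟨0, 1001, 1000⟩, ⟨2000, 2021, 3000⟩, ⟨0, 170, 1000⟩, ⟨294, 417, 1000⟩⟩ = true := by
  decide +kernel

def p0hC2mHiZLo_2 :
    (piece0.hC2m piece0.xPU piece0.zLo).checkQuick
      ⟨435, ⟨3, 8, 19, 14⟩⟩
      ⟨⟨0, 1001, 1000⟩, ⟨2000, 2021, 3000⟩, ⟨0, 170, 1000⟩, ⟨417, 541, 1000⟩⟩ = true := by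
  decide +kernel

theorem p0hC2mHiZLo_pos :
    PosBox ⟨⟨0, 1001, 1000⟩, ⟨2000, 2021, 3000⟩, ⟨0, 170, 1000⟩, ⟨294, 541, 1000⟩⟩
      (piece0.hC2m piece0.xPU piece0.zLo) :=
  posBox_join₃ (posBox_of_check p0hC2mHiZLo_1) (posBox_of_check p0hC2mHiZLo_2)

def p0hC3pHiZLo_1 :
    (piece0.hC3p piece0.xPU piece0.zLo).checkQuick
      ⟨404, ⟨3, 8, 17, 13⟩⟩
      ⟨⟨0, 1001, 1000⟩, ⟨2000, 2021, 3000⟩, ⟨0, 170, 1000⟩, ⟨294, 541, 1000⟩⟩ = true := by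
  decide +kernel

theorem p0hC3pHiZLo_pos :
    PosBox ⟨⟨0, 1001, 1000⟩, ⟨2000, 2021, 3000⟩, ⟨0, 170, 1000⟩, ⟨294, 541, 1000⟩⟩
      (piece0.hC3p piece0.xPU piece0.zLo) :=
  posBox_of_check p0hC3pHiZLo_1

def p0hC3mHiZLo_1 :
    (piece0.hC3m piece0.xPU piece0.zLo).checkQuick
      ⟨404, ⟨3, 8, 17, 13⟩⟩
      ⟨⟨0, 1001, 1000⟩, ⟨2000, 2021, 3000⟩, ⟨0, 170, 1000⟩, ⟨294, 541, 1000⟩⟩ = true := by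
  decide +kernel

theorem p0hC3mHiZLo_pos :
    PosBox ⟨⟨0, 1001, 1000⟩, ⟨2000, 2021, 3000⟩, ⟨0, 170, 1000⟩, ⟨294, 541, 1000⟩⟩
      (piece0.hC3m piece0.xPU piece0.zLo) :=
  posBox_of_check p0hC3mHiZLo_1

def p0hNHiZLo_1 :
    (piece0.hN piece0.xPU piece0.zLo).checkQuick
      ⟨331, ⟨2, 7, 15, 10⟩⟩
      ⟨⟨0, 1001, 1000⟩, ⟨2000, 2021, 3000⟩, ⟨0, 170, 1000⟩, ⟨294, 541, 1000⟩⟩ = true := by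
  decide +kernel

theorem p0hNHiZLo_pos :
    PosBox ⟨⟨0, 1001, 1000⟩, ⟨2000, 2021, 3000⟩, ⟨0, 170, 1000⟩, ⟨294, 541, 1000⟩⟩
      (piece0.hN piece0.xPU piece0.zLo) :=
  posBox_of_check p0hNHiZLo_1

def p0hGHiZHi_1 :
    (piece0.hG piece0.xPU zHi).checkQuick
      ⟨305, ⟨2, 7, 14, 9⟩⟩
      ⟨⟨0, 1001, 1000⟩, ⟨2000, 2021, 3000⟩, ⟨0, 170, 1000⟩, ⟨294, 541, 1000⟩⟩ = true := by
  decide +kernel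

theorem p0hGHiZHi_pos :
    PosBox ⟨⟨0, 1001, 1000⟩, ⟨2000, 2021, 3000⟩, ⟨0, 170, 1000⟩, ⟨294, 541, 1000⟩⟩
      (piece0.hG piece0.xPU zHi) :=
  posBox_of_check p0hGHiZHi_1

def p0hC2pHiZHi_1 :
    (piece0.hC2p piece0.xPU zHi).checkQuick
      ⟨389, ⟨3, 8, 17, 12⟩⟩
      ⟨⟨0, 1001, 1000⟩, ⟨2000, 2021, 3000⟩, ⟨0, 170, 1000⟩, ⟨294, 541, 1000⟩⟩ = true := by
  decide +kernel

theorem p0hC2pHiZHi_pos :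
    PosBox ⟨⟨0, 1001, 1000⟩, ⟨2000, 2021, 3000⟩, ⟨0, 170, 1000⟩, ⟨294, 541, 1000⟩⟩
      (piece0.hC2p piece0.xPU zHi) :=
  posBox_of_check p0hC2pHiZHi_1

def p0hC2mHiZHi_1 :
    (piece0.hC2m piece0.xPU zHi).checkQuick
      ⟨392, ⟨3, 8, 17, 12⟩⟩
      ⟨⟨0, 1001, 1000⟩, ⟨2000, 2021, 3000⟩, ⟨0, 170, 1000⟩, ⟨294, 417, 1000⟩⟩ = true := by
  decide +kernel

def p0hC2mHiZHi_2 :
    (piece0.hC2m piece0.xPU zHi).checkQuick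
      ⟨393, ⟨3, 8, 17, 12⟩⟩
      ⟨⟨0, 1001, 1000⟩, ⟨2000, 2021, 3000⟩, ⟨0, 170, 1000⟩, ⟨417, 541, 1000⟩⟩ = true := by
  decide +kernel

theorem p0hC2mHiZHi_pos :
    PosBox ⟨⟨0, 1001, 1000⟩, ⟨2000, 2021, 3000⟩, ⟨0, 170, 1000⟩, ⟨294, 541, 1000⟩⟩
      (piece0.hC2m piece0.xPU zHi) :=
  posBox_join₃ (posBox_of_check p0hC2mHiZHi_1) (posBox_of_check p0hC2mHiZHi_2)

def p0hC3pHiZHi_1 :
    (piece0.hC3p piece0.xPU zHi).checkQuick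
      ⟨383, ⟨3, 8, 16, 12⟩⟩
      ⟨⟨0, 1001, 1000⟩, ⟨2000, 2021, 3000⟩, ⟨0, 170, 1000⟩, ⟨294, 541, 1000⟩⟩ = true := by
  decide +kernel

theorem p0hC3pHiZHi_pos :
    PosBox ⟨⟨0, 1001, 1000⟩, ⟨2000, 2021, 3000⟩, ⟨0, 170, 1000⟩, ⟨294, 541, 1000⟩⟩
      (piece0.hC3p piece0.xPU zHi) :=
  posBox_of_check p0hC3pHiZHi_1

def p0hC3mHiZHi_1 :
    (piece0.hC3m piece0.xPU zHi).checkQuick
      ⟨384, ⟨3, 8, 16, 12⟩⟩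
      ⟨⟨0, 1001, 1000⟩, ⟨2000, 2021, 3000⟩, ⟨0, 170, 1000⟩, ⟨294, 541, 1000⟩⟩ = true := by
  decide +kernel

theorem p0hC3mHiZHi_pos :
    PosBox ⟨⟨0, 1001, 1000⟩, ⟨2000, 2021, 3000⟩, ⟨0, 170, 1000⟩, ⟨294, 541, 1000⟩⟩
      (piece0.hC3m piece0.xPU zHi) :=
  posBox_of_check p0hC3mHiZHi_1

def p0hNHiZHi_1 :
    (piece0.hN piece0.xPU zHi).checkQuick
      ⟨321, ⟨2, 7, 14, 10⟩⟩
      ⟨⟨0, 1001, 1000⟩, ⟨2000, 2021, 3000⟩, ⟨0, 170, 1000⟩, ⟨294, 541, 1000⟩⟩ = true := by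
  decide +kernel

theorem p0hNHiZHi_pos :
    PosBox ⟨⟨0, 1001, 1000⟩, ⟨2000, 2021, 3000⟩, ⟨0, 170, 1000⟩, ⟨294, 541, 1000⟩⟩
      (piece0.hN piece0.xPU zHi) :=
  posBox_of_check p0hNHiZHi_1

end Vale.Agent.P100.Calib.Closed.Six.Low
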