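import Vale.Agent.P100.Calib.SlabSixLowPieces

/-!
# Checks of the certificate of dimension six on `0 < u ≤ 3/5`
-/

-- The checks are definitions, so that they run one after another with little memory.
set_option linter.defProp false

namespace Vale.Agent.P100.Calib.Closed.Six.Low

open BoxPos
open Vale.Agent.P100.Calib.Closed.Large (PosBox posBox_of_check and_four posBox_join₀ posBox_join₂ posBox_join₃)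

def p1xRoom_1 :
    (piece1.xRoom).checkQuick
      ⟨31, ⟨0, 0, 1, 1⟩⟩
      ⟨⟨0, 1001, 1000⟩, ⟨2000, 2021, 3000⟩, ⟨0, 170, 1000⟩, ⟨540, 861, 1000⟩⟩ = true := by
  decide +kernel

theorem p1xRoom_pos :
    PosBox ⟨⟨0, 1001, 1000⟩, ⟨2000, 2021, 3000⟩, ⟨0, 170, 1000⟩, ⟨540, 861, 1000⟩⟩
      (piece1.xRoom) :=
  posBox_of_check p1xRoom_1

def p1xPhi_1 :
    (piece1.xPhi).checkQuick
      ⟨84, ⟨0, 0, 4, 2⟩⟩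
      ⟨⟨0, 1001, 1000⟩, ⟨2000, 2021, 3000⟩, ⟨0, 170, 1000⟩, ⟨540, 861, 1000⟩⟩ = true := by
  decide +kernel

theorem p1xPhi_pos :
    PosBox ⟨⟨0, 1001, 1000⟩, ⟨2000, 2021, 3000⟩, ⟨0, 170, 1000⟩, ⟨540, 861, 1000⟩⟩
      (piece1.xPhi) :=
  posBox_of_check p1xPhi_1

def p1xGap_1 :
    (piece1.xGap).checkQuick
      ⟨63, ⟨0, 2, 3, 2⟩⟩
      ⟨⟨0, 1001, 1000⟩, ⟨2000, 2021, 3000⟩, ⟨0, 85, 1000⟩, ⟨540, 861, 1000⟩⟩ = true := by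
  decide +kernel

def p1xGap_2 :
    (piece1.xGap).checkQuick
      ⟨63, ⟨0, 2, 3, 2⟩⟩
      ⟨⟨0, 1001, 1000⟩, ⟨2000, 2021, 3000⟩, ⟨85, 170, 1000⟩, ⟨540, 861, 1000⟩⟩ = true := by
  decide +kernel

theorem p1xGap_pos :
    PosBox ⟨⟨0, 1001, 1000⟩, ⟨2000, 2021, 3000⟩, ⟨0, 170, 1000⟩, ⟨540, 861, 1000⟩⟩
      (piece1.xGap) :=
  posBox_join₂ (posBox_of_check p1xGap_1) (posBox_of_check p1xGap_2)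

def p1hELL_1 :
    (piece1.hEL xTL).checkQuick
      ⟨329, ⟨5, 8, 11, 6⟩⟩
      ⟨⟨0, 1001, 1000⟩, ⟨2000, 2021, 3000⟩, ⟨0, 170, 1000⟩, ⟨540, 861, 1000⟩⟩ = true := by
  decide +kernel

theorem p1hELL_pos :
    PosBox ⟨⟨0, 1001, 1000⟩, ⟨2000, 2021, 3000⟩, ⟨0, 170, 1000⟩, ⟨540, 861, 1000⟩⟩
      (piece1.hEL xTL) :=
  posBox_of_check p1hELL_1

def p1hEHL_1 :
    (piece1.hEH xTL).checkQuick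
      ⟨329, ⟨5, 8, 11, 6⟩⟩
      ⟨⟨0, 1001, 1000⟩, ⟨2000, 2021, 3000⟩, ⟨0, 170, 1000⟩, ⟨540, 861, 1000⟩⟩ = true := by
  decide +kernel

theorem p1hEHL_pos :
    PosBox ⟨⟨0, 1001, 1000⟩, ⟨2000, 2021, 3000⟩, ⟨0, 170, 1000⟩, ⟨540, 861, 1000⟩⟩
      (piece1.hEH xTL) :=
  posBox_of_check p1hEHL_1

def p1hPUL_1 :
    (piece1.hPU xTL).checkQuick
      ⟨355, ⟨5, 8, 11, 7⟩⟩
      ⟨⟨0, 1001, 1000⟩, ⟨2000, 2021, 3000⟩, ⟨0, 170, 1000⟩, ⟨540, 861, 1000⟩⟩ = true := by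
  decide +kernel

theorem p1hPUL_pos :
    PosBox ⟨⟨0, 1001, 1000⟩, ⟨2000, 2021, 3000⟩, ⟨0, 170, 1000⟩, ⟨540, 861, 1000⟩⟩
      (piece1.hPU xTL) :=
  posBox_of_check p1hPUL_1

def p1hKUL_1 :
    (piece1.hKU xTL).checkQuick
      ⟨351, ⟨5, 8, 11, 7⟩⟩
      ⟨⟨0, 1001, 1000⟩, ⟨2000, 2021, 3000⟩, ⟨0, 170, 1000⟩, ⟨540, 861, 1000⟩⟩ = true := by
  decide +kernel

theorem p1hKUL_pos :
    PosBox ⟨⟨0, 1001, 1000⟩, ⟨2000, 2021, 3000⟩, ⟨0, 170, 1000⟩, ⟨540, 861, 1000⟩⟩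
      (piece1.hKU xTL) :=
  posBox_of_check p1hKUL_1

def p1hKLL_1 :
    (piece1.hKL xTL).checkQuick
      ⟨351, ⟨5, 8, 11, 7⟩⟩
      ⟨⟨0, 1001, 1000⟩, ⟨2000, 2021, 3000⟩, ⟨0, 170, 1000⟩, ⟨540, 861, 1000⟩⟩ = true := by
  decide +kernel

theorem p1hKLL_pos :
    PosBox ⟨⟨0, 1001, 1000⟩, ⟨2000, 2021, 3000⟩, ⟨0, 170, 1000⟩, ⟨540, 861, 1000⟩⟩
      (piece1.hKL xTL) :=
  posBox_of_check p1hKLL_1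

def p1hWUL_1 :
    (piece1.hWU xTL).checkQuick
      ⟨353, ⟨5, 7, 11, 7⟩⟩
      ⟨⟨0, 1001, 1000⟩, ⟨2000, 2021, 3000⟩, ⟨0, 85, 1000⟩, ⟨540, 700, 1000⟩⟩ = true := by
  decide +kernel

def p1hWUL_2 :
    (piece1.hWU xTL).checkQuick
      ⟨354, ⟨5, 7, 11, 7⟩⟩
      ⟨⟨0, 1001, 1000⟩, ⟨2000, 2021, 3000⟩, ⟨0, 85, 1000⟩, ⟨700, 861, 1000⟩⟩ = true := by
  decide +kernel

def p1hWUL_3 :
    (piece1.hWU xTL).checkQuick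
      ⟨355, ⟨5, 7, 11, 7⟩⟩
      ⟨⟨0, 1001, 1000⟩, ⟨2000, 2021, 3000⟩, ⟨85, 170, 1000⟩, ⟨540, 861, 1000⟩⟩ = true := by
  decide +kernel

theorem p1hWUL_pos :
    PosBox ⟨⟨0, 1001, 1000⟩, ⟨2000, 2021, 3000⟩, ⟨0, 170, 1000⟩, ⟨540, 861, 1000⟩⟩
      (piece1.hWU xTL) :=
  posBox_join₂ (posBox_join₃ (posBox_of_check p1hWUL_1) (posBox_of_check p1hWUL_2))
    (posBox_of_check p1hWUL_3)

def p1hWLL_1 :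
    (piece1.hWL xTL).checkQuick
      ⟨354, ⟨5, 7, 11, 7⟩⟩
      ⟨⟨0, 1001, 1000⟩, ⟨2000, 2021, 3000⟩, ⟨0, 170, 1000⟩, ⟨540, 861, 1000⟩⟩ = true := by
  decide +kernel

theorem p1hWLL_pos :
    PosBox ⟨⟨0, 1001, 1000⟩, ⟨2000, 2021, 3000⟩, ⟨0, 170, 1000⟩, ⟨540, 861, 1000⟩⟩
      (piece1.hWL xTL) :=
  posBox_of_check p1hWLL_1

def p1hZL_1 :
    (piece1.hZ xTL).checkQuick
      ⟨503, ⟨8, 10, 18, 8⟩⟩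
      ⟨⟨0, 1001, 1000⟩, ⟨2000, 2021, 3000⟩, ⟨0, 170, 1000⟩, ⟨540, 861, 1000⟩⟩ = true := by
  decide +kernel

theorem p1hZL_pos :
    PosBox ⟨⟨0, 1001, 1000⟩, ⟨2000, 2021, 3000⟩, ⟨0, 170, 1000⟩, ⟨540, 861, 1000⟩⟩
      (piece1.hZ xTL) :=
  posBox_of_check p1hZL_1

def p1hELU_1 :
    (piece1.hEL xTU).checkQuick
      ⟨344, ⟨5, 8, 12, 6⟩⟩
      ⟨⟨0, 1001, 1000⟩, ⟨2000, 2021, 3000⟩, ⟨0, 170, 1000⟩, ⟨540, 861, 1000⟩⟩ = true := by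
  decide +kernel

theorem p1hELU_pos :
    PosBox ⟨⟨0, 1001, 1000⟩, ⟨2000, 2021, 3000⟩, ⟨0, 170, 1000⟩, ⟨540, 861, 1000⟩⟩
      (piece1.hEL xTU) :=
  posBox_of_check p1hELU_1

def p1hEHU_1 :
    (piece1.hEH xTU).checkQuick
      ⟨343, ⟨5, 8, 12, 6⟩⟩
      ⟨⟨0, 1001, 1000⟩, ⟨2000, 2021, 3000⟩, ⟨0, 170, 1000⟩, ⟨540, 861, 1000⟩⟩ = true := by
  decide +kernel

theorem p1hEHU_pos :
    PosBox ⟨⟨0, 1001, 1000⟩, ⟨2000, 2021, 3000⟩, ⟨0, 170, 1000⟩, ⟨540, 861, 1000⟩⟩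
      (piece1.hEH xTU) :=
  posBox_of_check p1hEHU_1

def p1hPUU_1 :
    (piece1.hPU xTU).checkQuick
      ⟨368, ⟨5, 8, 12, 7⟩⟩
      ⟨⟨0, 500, 1000⟩, ⟨2000, 2021, 3000⟩, ⟨0, 170, 1000⟩, ⟨540, 700, 1000⟩⟩ = true := by
  decide +kernel

def p1hPUU_2 :
    (piece1.hPU xTU).checkQuick
      ⟨368, ⟨5, 8, 12, 7⟩⟩
      ⟨⟨0, 500, 1000⟩, ⟨2000, 2021, 3000⟩, ⟨0, 170, 1000⟩, ⟨700, 861, 1000⟩⟩ = true := by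
  decide +kernel

def p1hPUU_3 :
    (piece1.hPU xTU).checkQuick
      ⟨369, ⟨5, 8, 12, 7⟩⟩
      ⟨⟨500, 1001, 1000⟩, ⟨2000, 2021, 3000⟩, ⟨0, 85, 1000⟩, ⟨540, 861, 1000⟩⟩ = true := by
  decide +kernel

def p1hPUU_4 :
    (piece1.hPU xTU).checkQuick
      ⟨371, ⟨5, 8, 12, 7⟩⟩
      ⟨⟨500, 1001, 1000⟩, ⟨2000, 2021, 3000⟩, ⟨85, 170, 1000⟩, ⟨540, 861, 1000⟩⟩ = true := by
  decide +kernel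

theorem p1hPUU_pos :
    PosBox ⟨⟨0, 1001, 1000⟩, ⟨2000, 2021, 3000⟩, ⟨0, 170, 1000⟩, ⟨540, 861, 1000⟩⟩
      (piece1.hPU xTU) :=
  posBox_join₀ (posBox_join₃ (posBox_of_check p1hPUU_1) (posBox_of_check p1hPUU_2))
    (posBox_join₂ (posBox_of_check p1hPUU_3) (posBox_of_check p1hPUU_4))

def p1hKUU_1 :
    (piece1.hKU xTU).checkQuick
      ⟨365, ⟨5, 8, 12, 7⟩⟩
      ⟨⟨0, 1001, 1000⟩, ⟨2000, 2021, 3000⟩, ⟨0, 170, 1000⟩, ⟨540, 861, 1000⟩⟩ = true := by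
  decide +kernel

theorem p1hKUU_pos :
    PosBox ⟨⟨0, 1001, 1000⟩, ⟨2000, 2021, 3000⟩, ⟨0, 170, 1000⟩, ⟨540, 861, 1000⟩⟩
      (piece1.hKU xTU) :=
  posBox_of_check p1hKUU_1

def p1hKLU_1 :
    (piece1.hKL xTU).checkQuick
      ⟨365, ⟨5, 8, 12, 7⟩⟩
      ⟨⟨0, 1001, 1000⟩, ⟨2000, 2021, 3000⟩, ⟨0, 170, 1000⟩, ⟨540, 861, 1000⟩⟩ = true := by
  decide +kernel

theorem p1hKLU_pos :
    PosBox ⟨⟨0, 1001, 1000⟩, ⟨2000, 2021, 3000⟩, ⟨0, 170, 1000⟩, ⟨540, 861, 1000⟩⟩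
      (piece1.hKL xTU) :=
  posBox_of_check p1hKLU_1

def p1hWUU_1 :
    (piece1.hWU xTU).checkQuick
      ⟨368, ⟨5, 7, 12, 7⟩⟩
      ⟨⟨0, 1001, 1000⟩, ⟨2000, 2021, 3000⟩, ⟨0, 85, 1000⟩, ⟨540, 861, 1000⟩⟩ = true := by
  decide +kernel

def p1hWUU_2 :
    (piece1.hWU xTU).checkQuick
      ⟨369, ⟨5, 7, 12, 7⟩⟩
      ⟨⟨0, 1001, 1000⟩, ⟨2000, 2021, 3000⟩, ⟨85, 170, 1000⟩, ⟨540, 861, 1000⟩⟩ = true := by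
  decide +kernel

theorem p1hWUU_pos :
    PosBox ⟨⟨0, 1001, 1000⟩, ⟨2000, 2021, 3000⟩, ⟨0, 170, 1000⟩, ⟨540, 861, 1000⟩⟩
      (piece1.hWU xTU) :=
  posBox_join₂ (posBox_of_check p1hWUU_1) (posBox_of_check p1hWUU_2)

def p1hWLU_1 :
    (piece1.hWL xTU).checkQuick
      ⟨367, ⟨5, 7, 12, 7⟩⟩
      ⟨⟨0, 500, 1000⟩, ⟨2000, 2021, 3000⟩, ⟨0, 85, 1000⟩, ⟨540, 861, 1000⟩⟩ = true := by
  decide +kernel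

def p1hWLU_2 :
    (piece1.hWL xTU).checkQuick
      ⟨368, ⟨5, 7, 12, 7⟩⟩
      ⟨⟨0, 500, 1000⟩, ⟨2000, 2021, 3000⟩, ⟨85, 170, 1000⟩, ⟨540, 861, 1000⟩⟩ = true := by
  decide +kernel

def p1hWLU_3 :
    (piece1.hWL xTU).checkQuick
      ⟨369, ⟨5, 7, 12, 7⟩⟩
      ⟨⟨500, 750, 1000⟩, ⟨2000, 2021, 3000⟩, ⟨0, 170, 1000⟩, ⟨540, 861, 1000⟩⟩ = true := by
  decide +kernel

def p1hWLU_4 :
    (piece1.hWL xTU).checkQuick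
      ⟨370, ⟨5, 7, 12, 7⟩⟩
      ⟨⟨750, 1001, 1000⟩, ⟨2000, 2021, 3000⟩, ⟨0, 170, 1000⟩, ⟨540, 861, 1000⟩⟩ = true := by
  decide +kernel

theorem p1hWLU_pos :
    PosBox ⟨⟨0, 1001, 1000⟩, ⟨2000, 2021, 3000⟩, ⟨0, 170, 1000⟩, ⟨540, 861, 1000⟩⟩
      (piece1.hWL xTU) :=
  posBox_join₀ (posBox_join₂ (posBox_of_check p1hWLU_1) (posBox_of_check p1hWLU_2))
    (posBox_join₀ (posBox_of_check p1hWLU_3) (posBox_of_check p1hWLU_4))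

def p1hZU_1 :
    (piece1.hZ xTU).checkQuick
      ⟨504, ⟨8, 10, 18, 8⟩⟩
      ⟨⟨0, 1001, 1000⟩, ⟨2000, 2021, 3000⟩, ⟨0, 170, 1000⟩, ⟨540, 861, 1000⟩⟩ = true := by
  decide +kernel

theorem p1hZU_pos :
    PosBox ⟨⟨0, 1001, 1000⟩, ⟨2000, 2021, 3000⟩, ⟨0, 170, 1000⟩, ⟨540, 861, 1000⟩⟩
      (piece1.hZ xTU) :=
  posBox_of_check p1hZU_1

def p1hKp_1 :
    (piece1.hKp).checkQuick
      ⟨86, ⟨1, 1, 3, 3⟩⟩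
      ⟨⟨0, 1001, 1000⟩, ⟨2000, 2021, 3000⟩, ⟨0, 170, 1000⟩, ⟨540, 861, 1000⟩⟩ = true := by
  decide +kernel

theorem p1hKp_pos :
    PosBox ⟨⟨0, 1001, 1000⟩, ⟨2000, 2021, 3000⟩, ⟨0, 170, 1000⟩, ⟨540, 861, 1000⟩⟩
      (piece1.hKp) :=
  posBox_of_check p1hKp_1

def p1hKm_1 :
    (piece1.hKm).checkQuick
      ⟨86, ⟨1, 1, 3, 3⟩⟩
      ⟨⟨0, 1001, 1000⟩, ⟨2000, 2021, 3000⟩, ⟨0, 170, 1000⟩, ⟨540, 861, 1000⟩⟩ = true := by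
  decide +kernel

theorem p1hKm_pos :
    PosBox ⟨⟨0, 1001, 1000⟩, ⟨2000, 2021, 3000⟩, ⟨0, 170, 1000⟩, ⟨540, 861, 1000⟩⟩
      (piece1.hKm) :=
  posBox_of_check p1hKm_1

def p1hMZeroLo_1 :
    (piece1.hM₀ piece1.xPL).checkQuick
      ⟨213, ⟨2, 5, 9, 6⟩⟩
      ⟨⟨0, 1001, 1000⟩, ⟨2000, 2021, 3000⟩, ⟨0, 170, 1000⟩, ⟨540, 861, 1000⟩⟩ = true := by
  decide +kernel

theorem p1hMZeroLo_pos :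
    PosBox ⟨⟨0, 1001, 1000⟩, ⟨2000, 2021, 3000⟩, ⟨0, 170, 1000⟩, ⟨540, 861, 1000⟩⟩
      (piece1.hM₀ piece1.xPL) :=
  posBox_of_check p1hMZeroLo_1

def p1hC1Lo_1 :
    (piece1.hC1 piece1.xPL).checkQuick
      ⟨241, ⟨3, 5, 9, 8⟩⟩
      ⟨⟨0, 1001, 1000⟩, ⟨2000, 2021, 3000⟩, ⟨0, 170, 1000⟩, ⟨540, 861, 1000⟩⟩ = true := by
  decide +kernel

theorem p1hC1Lo_pos :
    PosBox ⟨⟨0, 1001, 1000⟩, ⟨2000, 2021, 3000⟩, ⟨0, 170, 1000⟩, ⟨540, 861, 1000⟩⟩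
      (piece1.hC1 piece1.xPL) :=
  posBox_of_check p1hC1Lo_1

def p1hGLoZLo_1 :
    (piece1.hG piece1.xPL piece1.zLo).checkQuick
      ⟨347, ⟨2, 7, 16, 11⟩⟩
      ⟨⟨0, 1001, 1000⟩, ⟨2000, 2021, 3000⟩, ⟨0, 170, 1000⟩, ⟨540, 861, 1000⟩⟩ = true := by
  decide +kernel

theorem p1hGLoZLo_pos :
    PosBox ⟨⟨0, 1001, 1000⟩, ⟨2000, 2021, 3000⟩, ⟨0, 170, 1000⟩, ⟨540, 861, 1000⟩⟩
      (piece1.hG piece1.xPL piece1.zLo) :=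
  posBox_of_check p1hGLoZLo_1

def p1hFourLoZLo :
    ((piece1.hC2p piece1.xPL piece1.zLo).checkQuick ⟨431, ⟨3, 8, 19, 14⟩⟩
        ⟨⟨0, 1001, 1000⟩, ⟨2000, 2021, 3000⟩, ⟨0, 170, 1000⟩, ⟨540, 861, 1000⟩⟩ &&
      (piece1.hC2m piece1.xPL piece1.zLo).checkQuick ⟨431, ⟨3, 8, 19, 14⟩⟩
        ⟨⟨0, 1001, 1000⟩, ⟨2000, 2021, 3000⟩, ⟨0, 170, 1000⟩, ⟨540, 861, 1000⟩⟩ &&
      (piece1.hC3p piece1.xPL piece1.zLo).checkQuick ⟨431, ⟨3, 8, 19, 14⟩⟩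
        ⟨⟨0, 1001, 1000⟩, ⟨2000, 2021, 3000⟩, ⟨0, 170, 1000⟩, ⟨540, 861, 1000⟩⟩ &&
      (piece1.hC3m piece1.xPL piece1.zLo).checkQuick ⟨431, ⟨3, 8, 19, 14⟩⟩
        ⟨⟨0, 1001, 1000⟩, ⟨2000, 2021, 3000⟩, ⟨0, 170, 1000⟩, ⟨540, 861, 1000⟩⟩) = true := by
  decide +kernel

theorem p1hC2pLoZLo_pos :
    PosBox ⟨⟨0, 1001, 1000⟩, ⟨2000, 2021, 3000⟩, ⟨0, 170, 1000⟩, ⟨540, 861, 1000⟩⟩
      (piece1.hC2p piece1.xPL piece1.zLo) :=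
  posBox_of_check (and_four p1hFourLoZLo).1

theorem p1hC2mLoZLo_pos :
    PosBox ⟨⟨0, 1001, 1000⟩, ⟨2000, 2021, 3000⟩, ⟨0, 170, 1000⟩, ⟨540, 861, 1000⟩⟩
      (piece1.hC2m piece1.xPL piece1.zLo) :=
  posBox_of_check (and_four p1hFourLoZLo).2.1

theorem p1hC3pLoZLo_pos :
    PosBox ⟨⟨0, 1001, 1000⟩, ⟨2000, 2021, 3000⟩, ⟨0, 170, 1000⟩, ⟨540, 861, 1000⟩⟩
      (piece1.hC3p piece1.xPL piece1.zLo) :=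
  posBox_of_check (and_four p1hFourLoZLo).2.2.1

theorem p1hC3mLoZLo_pos :
    PosBox ⟨⟨0, 1001, 1000⟩, ⟨2000, 2021, 3000⟩, ⟨0, 170, 1000⟩, ⟨540, 861, 1000⟩⟩
      (piece1.hC3m piece1.xPL piece1.zLo) :=
  posBox_of_check (and_four p1hFourLoZLo).2.2.2

def p1hNLoZLo_1 :
    (piece1.hN piece1.xPL piece1.zLo).checkQuick
      ⟨332, ⟨2, 7, 15, 10⟩⟩
      ⟨⟨0, 1001, 1000⟩, ⟨2000, 2021, 3000⟩, ⟨0, 170, 1000⟩, ⟨540, 861, 1000⟩⟩ = true := by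
  decide +kernel

theorem p1hNLoZLo_pos :
    PosBox ⟨⟨0, 1001, 1000⟩, ⟨2000, 2021, 3000⟩, ⟨0, 170, 1000⟩, ⟨540, 861, 1000⟩⟩
      (piece1.hN piece1.xPL piece1.zLo) :=
  posBox_of_check p1hNLoZLo_1

def p1hGLoZHi_1 :
    (piece1.hG piece1.xPL zHi).checkQuick
      ⟨305, ⟨2, 7, 14, 9⟩⟩
      ⟨⟨0, 1001, 1000⟩, ⟨2000, 2021, 3000⟩, ⟨0, 170, 1000⟩, ⟨540, 861, 1000⟩⟩ = true := by
  decide +kernel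

theorem p1hGLoZHi_pos :
    PosBox ⟨⟨0, 1001, 1000⟩, ⟨2000, 2021, 3000⟩, ⟨0, 170, 1000⟩, ⟨540, 861, 1000⟩⟩
      (piece1.hG piece1.xPL zHi) :=
  posBox_of_check p1hGLoZHi_1

def p1hFourLoZHi :
    ((piece1.hC2p piece1.xPL zHi).checkQuick ⟨389, ⟨3, 8, 17, 12⟩⟩
        ⟨⟨0, 1001, 1000⟩, ⟨2000, 2021, 3000⟩, ⟨0, 170, 1000⟩, ⟨540, 861, 1000⟩⟩ &&
      (piece1.hC2m piece1.xPL zHi).checkQuick ⟨389, ⟨3, 8, 17, 12⟩⟩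
        ⟨⟨0, 1001, 1000⟩, ⟨2000, 2021, 3000⟩, ⟨0, 170, 1000⟩, ⟨540, 861, 1000⟩⟩ &&
      (piece1.hC3p piece1.xPL zHi).checkQuick ⟨389, ⟨3, 8, 17, 12⟩⟩
        ⟨⟨0, 1001, 1000⟩, ⟨2000, 2021, 3000⟩, ⟨0, 170, 1000⟩, ⟨540, 861, 1000⟩⟩ &&
      (piece1.hC3m piece1.xPL zHi).checkQuick ⟨389, ⟨3, 8, 17, 12⟩⟩
        ⟨⟨0, 1001, 1000⟩, ⟨2000, 2021, 3000⟩, ⟨0, 170, 1000⟩, ⟨540, 861, 1000⟩⟩) = true := by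
  decide +kernel

theorem p1hC2pLoZHi_pos :
    PosBox ⟨⟨0, 1001, 1000⟩, ⟨2000, 2021, 3000⟩, ⟨0, 170, 1000⟩, ⟨540, 861, 1000⟩⟩
      (piece1.hC2p piece1.xPL zHi) :=
  posBox_of_check (and_four p1hFourLoZHi).1

theorem p1hC2mLoZHi_pos :
    PosBox ⟨⟨0, 1001, 1000⟩, ⟨2000, 2021, 3000⟩, ⟨0, 170, 1000⟩, ⟨540, 861, 1000⟩⟩
      (piece1.hC2m piece1.xPL zHi) :=
  posBox_of_check (and_four p1hFourLoZHi).2.1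

theorem p1hC3pLoZHi_pos :
    PosBox ⟨⟨0, 1001, 1000⟩, ⟨2000, 2021, 3000⟩, ⟨0, 170, 1000⟩, ⟨540, 861, 1000⟩⟩
      (piece1.hC3p piece1.xPL zHi) :=
  posBox_of_check (and_four p1hFourLoZHi).2.2.1

theorem p1hC3mLoZHi_pos :
    PosBox ⟨⟨0, 1001, 1000⟩, ⟨2000, 2021, 3000⟩, ⟨0, 170, 1000⟩, ⟨540, 861, 1000⟩⟩
      (piece1.hC3m piece1.xPL zHi) :=
  posBox_of_check (and_four p1hFourLoZHi).2.2.2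

def p1hNLoZHi_1 :
    (piece1.hN piece1.xPL zHi).checkQuick
      ⟨321, ⟨2, 7, 14, 10⟩⟩
      ⟨⟨0, 1001, 1000⟩, ⟨2000, 2021, 3000⟩, ⟨0, 170, 1000⟩, ⟨540, 861, 1000⟩⟩ = true := by
  decide +kernel

theorem p1hNLoZHi_pos :
    PosBox ⟨⟨0, 1001, 1000⟩, ⟨2000, 2021, 3000⟩, ⟨0, 170, 1000⟩, ⟨540, 861, 1000⟩⟩
      (piece1.hN piece1.xPL zHi) :=
  posBox_of_check p1hNLoZHi_1

def p1hV2p_1 :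
    (piece1.hV2p).checkQuick
      ⟨224, ⟨1, 6, 11, 6⟩⟩
      ⟨⟨0, 1001, 1000⟩, ⟨2000, 2021, 3000⟩, ⟨0, 170, 1000⟩, ⟨540, 861, 1000⟩⟩ = true := by
  decide +kernel

theorem p1hV2p_pos :
    PosBox ⟨⟨0, 1001, 1000⟩, ⟨2000, 2021, 3000⟩, ⟨0, 170, 1000⟩, ⟨540, 861, 1000⟩⟩
      (piece1.hV2p) :=
  posBox_of_check p1hV2p_1

def p1hV2m_1 :
    (piece1.hV2m).checkQuick
      ⟨225, ⟨1, 6, 11, 6⟩⟩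
      ⟨⟨0, 1001, 1000⟩, ⟨2000, 2021, 3000⟩, ⟨0, 170, 1000⟩, ⟨540, 861, 1000⟩⟩ = true := by
  decide +kernel

theorem p1hV2m_pos :
    PosBox ⟨⟨0, 1001, 1000⟩, ⟨2000, 2021, 3000⟩, ⟨0, 170, 1000⟩, ⟨540, 861, 1000⟩⟩
      (piece1.hV2m) :=
  posBox_of_check p1hV2m_1

def p1hV3p_1 :
    (piece1.hV3p).checkQuick
      ⟨215, ⟨1, 6, 10, 6⟩⟩
      ⟨⟨0, 1001, 1000⟩, ⟨2000, 2021, 3000⟩, ⟨0, 170, 1000⟩, ⟨540, 861, 1000⟩⟩ = true := by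
  decide +kernel

theorem p1hV3p_pos :
    PosBox ⟨⟨0, 1001, 1000⟩, ⟨2000, 2021, 3000⟩, ⟨0, 170, 1000⟩, ⟨540, 861, 1000⟩⟩
      (piece1.hV3p) :=
  posBox_of_check p1hV3p_1

def p1hV3m_1 :
    (piece1.hV3m).checkQuick
      ⟨215, ⟨1, 6, 10, 6⟩⟩
      ⟨⟨0, 1001, 1000⟩, ⟨2000, 2021, 3000⟩, ⟨0, 170, 1000⟩, ⟨540, 861, 1000⟩⟩ = true := by
  decide +kernel

theorem p1hV3m_pos :
    PosBox ⟨⟨0, 1001, 1000⟩, ⟨2000, 2021, 3000⟩, ⟨0, 170, 1000⟩, ⟨540, 861, 1000⟩⟩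
      (piece1.hV3m) :=
  posBox_of_check p1hV3m_1

def p1hMZeroHi_1 :
    (piece1.hM₀ piece1.xPU).checkQuick
      ⟨213, ⟨2, 5, 9, 6⟩⟩
      ⟨⟨0, 1001, 1000⟩, ⟨2000, 2021, 3000⟩, ⟨0, 170, 1000⟩, ⟨540, 861, 1000⟩⟩ = true := by
  decide +kernel

theorem p1hMZeroHi_pos :
    PosBox ⟨⟨0, 1001, 1000⟩, ⟨2000, 2021, 3000⟩, ⟨0, 170, 1000⟩, ⟨540, 861, 1000⟩⟩
      (piece1.hM₀ piece1.xPU) :=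
  posBox_of_check p1hMZeroHi_1

def p1hC1Hi_1 :
    (piece1.hC1 piece1.xPU).checkQuick
      ⟨241, ⟨3, 5, 9, 8⟩⟩
      ⟨⟨0, 1001, 1000⟩, ⟨2000, 2021, 3000⟩, ⟨0, 170, 1000⟩, ⟨540, 861, 1000⟩⟩ = true := by
  decide +kernel

theorem p1hC1Hi_pos :
    PosBox ⟨⟨0, 1001, 1000⟩, ⟨2000, 2021, 3000⟩, ⟨0, 170, 1000⟩, ⟨540, 861, 1000⟩⟩
      (piece1.hC1 piece1.xPU) :=
  posBox_of_check p1hC1Hi_1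

def p1hGHiZLo_1 :
    (piece1.hG piece1.xPU piece1.zLo).checkQuick
      ⟨348, ⟨2, 7, 16, 11⟩⟩
      ⟨⟨0, 1001, 1000⟩, ⟨2000, 2021, 3000⟩, ⟨0, 170, 1000⟩, ⟨540, 861, 1000⟩⟩ = true := by
  decide +kernel

theorem p1hGHiZLo_pos :
    PosBox ⟨⟨0, 1001, 1000⟩, ⟨2000, 2021, 3000⟩, ⟨0, 170, 1000⟩, ⟨540, 861, 1000⟩⟩
      (piece1.hG piece1.xPU piece1.zLo) :=
  posBox_of_check p1hGHiZLo_1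

def p1hFourHiZLo :
    ((piece1.hC2p piece1.xPU piece1.zLo).checkQuick ⟨432, ⟨3, 8, 19, 14⟩⟩
        ⟨⟨0, 1001, 1000⟩, ⟨2000, 2021, 3000⟩, ⟨0, 170, 1000⟩, ⟨540, 861, 1000⟩⟩ &&
      (piece1.hC2m piece1.xPU piece1.zLo).checkQuick ⟨432, ⟨3, 8, 19, 14⟩⟩
        ⟨⟨0, 1001, 1000⟩, ⟨2000, 2021, 3000⟩, ⟨0, 170, 1000⟩, ⟨540, 861, 1000⟩⟩ &&
      (piece1.hC3p piece1.xPU piece1.zLo).checkQuick ⟨432, ⟨3, 8, 19, 14⟩⟩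
        ⟨⟨0, 1001, 1000⟩, ⟨2000, 2021, 3000⟩, ⟨0, 170, 1000⟩, ⟨540, 861, 1000⟩⟩ &&
      (piece1.hC3m piece1.xPU piece1.zLo).checkQuick ⟨432, ⟨3, 8, 19, 14⟩⟩
        ⟨⟨0, 1001, 1000⟩, ⟨2000, 2021, 3000⟩, ⟨0, 170, 1000⟩, ⟨540, 861, 1000⟩⟩) = true := by
  decide +kernel

theorem p1hC2pHiZLo_pos :
    PosBox ⟨⟨0, 1001, 1000⟩, ⟨2000, 2021, 3000⟩, ⟨0, 170, 1000⟩, ⟨540, 861, 1000⟩⟩
      (piece1.hC2p piece1.xPU piece1.zLo) :=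
  posBox_of_check (and_four p1hFourHiZLo).1

theorem p1hC2mHiZLo_pos :
    PosBox ⟨⟨0, 1001, 1000⟩, ⟨2000, 2021, 3000⟩, ⟨0, 170, 1000⟩, ⟨540, 861, 1000⟩⟩
      (piece1.hC2m piece1.xPU piece1.zLo) :=
  posBox_of_check (and_four p1hFourHiZLo).2.1

theorem p1hC3pHiZLo_pos :
    PosBox ⟨⟨0, 1001, 1000⟩, ⟨2000, 2021, 3000⟩, ⟨0, 170, 1000⟩, ⟨540, 861, 1000⟩⟩
      (piece1.hC3p piece1.xPU piece1.zLo) :=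
  posBox_of_check (and_four p1hFourHiZLo).2.2.1

theorem p1hC3mHiZLo_pos :
    PosBox ⟨⟨0, 1001, 1000⟩, ⟨2000, 2021, 3000⟩, ⟨0, 170, 1000⟩, ⟨540, 861, 1000⟩⟩
      (piece1.hC3m piece1.xPU piece1.zLo) :=
  posBox_of_check (and_four p1hFourHiZLo).2.2.2

def p1hNHiZLo_1 :
    (piece1.hN piece1.xPU piece1.zLo).checkQuick
      ⟨332, ⟨2, 7, 15, 10⟩⟩
      ⟨⟨0, 1001, 1000⟩, ⟨2000, 2021, 3000⟩, ⟨0, 170, 1000⟩, ⟨540, 861, 1000⟩⟩ = true := by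
  decide +kernel

theorem p1hNHiZLo_pos :
    PosBox ⟨⟨0, 1001, 1000⟩, ⟨2000, 2021, 3000⟩, ⟨0, 170, 1000⟩, ⟨540, 861, 1000⟩⟩
      (piece1.hN piece1.xPU piece1.zLo) :=
  posBox_of_check p1hNHiZLo_1

def p1hGHiZHi_1 :
    (piece1.hG piece1.xPU zHi).checkQuick
      ⟨305, ⟨2, 7, 14, 9⟩⟩
      ⟨⟨0, 1001, 1000⟩, ⟨2000, 2021, 3000⟩, ⟨0, 170, 1000⟩, ⟨540, 861, 1000⟩⟩ = true := by
  decide +kernel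

theorem p1hGHiZHi_pos :
    PosBox ⟨⟨0, 1001, 1000⟩, ⟨2000, 2021, 3000⟩, ⟨0, 170, 1000⟩, ⟨540, 861, 1000⟩⟩
      (piece1.hG piece1.xPU zHi) :=
  posBox_of_check p1hGHiZHi_1

def p1hFourHiZHi :
    ((piece1.hC2p piece1.xPU zHi).checkQuick ⟨389, ⟨3, 8, 17, 12⟩⟩
        ⟨⟨0, 1001, 1000⟩, ⟨2000, 2021, 3000⟩, ⟨0, 170, 1000⟩, ⟨540, 861, 1000⟩⟩ &&
      (piece1.hC2m piece1.xPU zHi).checkQuick ⟨389, ⟨3, 8, 17, 12⟩⟩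
        ⟨⟨0, 1001, 1000⟩, ⟨2000, 2021, 3000⟩, ⟨0, 170, 1000⟩, ⟨540, 861, 1000⟩⟩ &&
      (piece1.hC3p piece1.xPU zHi).checkQuick ⟨389, ⟨3, 8, 17, 12⟩⟩
        ⟨⟨0, 1001, 1000⟩, ⟨2000, 2021, 3000⟩, ⟨0, 170, 1000⟩, ⟨540, 861, 1000⟩⟩ &&
      (piece1.hC3m piece1.xPU zHi).checkQuick ⟨389, ⟨3, 8, 17, 12⟩⟩
        ⟨⟨0, 1001, 1000⟩, ⟨2000, 2021, 3000⟩, ⟨0, 170, 1000⟩, ⟨540, 861, 1000⟩⟩) = true := by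
  decide +kernel

theorem p1hC2pHiZHi_pos :
    PosBox ⟨⟨0, 1001, 1000⟩, ⟨2000, 2021, 3000⟩, ⟨0, 170, 1000⟩, ⟨540, 861, 1000⟩⟩
      (piece1.hC2p piece1.xPU zHi) :=
  posBox_of_check (and_four p1hFourHiZHi).1

theorem p1hC2mHiZHi_pos :
    PosBox ⟨⟨0, 1001, 1000⟩, ⟨2000, 2021, 3000⟩, ⟨0, 170, 1000⟩, ⟨540, 861, 1000⟩⟩
      (piece1.hC2m piece1.xPU zHi) :=
  posBox_of_check (and_four p1hFourHiZHi).2.1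

theorem p1hC3pHiZHi_pos :
    PosBox ⟨⟨0, 1001, 1000⟩, ⟨2000, 2021, 3000⟩, ⟨0, 170, 1000⟩, ⟨540, 861, 1000⟩⟩
      (piece1.hC3p piece1.xPU zHi) :=
  posBox_of_check (and_four p1hFourHiZHi).2.2.1

theorem p1hC3mHiZHi_pos :
    PosBox ⟨⟨0, 1001, 1000⟩, ⟨2000, 2021, 3000⟩, ⟨0, 170, 1000⟩, ⟨540, 861, 1000⟩⟩
      (piece1.hC3m piece1.xPU zHi) :=
  posBox_of_check (and_four p1hFourHiZHi).2.2.2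

def p1hNHiZHi_1 :
    (piece1.hN piece1.xPU zHi).checkQuick
      ⟨321, ⟨2, 7, 14, 10⟩⟩
      ⟨⟨0, 1001, 1000⟩, ⟨2000, 2021, 3000⟩, ⟨0, 170, 1000⟩, ⟨540, 861, 1000⟩⟩ = true := by
  decide +kernel

theorem p1hNHiZHi_pos :
    PosBox ⟨⟨0, 1001, 1000⟩, ⟨2000, 2021, 3000⟩, ⟨0, 170, 1000⟩, ⟨540, 861, 1000⟩⟩
      (piece1.hN piece1.xPU zHi) :=
  posBox_of_check p1hNHiZHi_1

end Vale.Agent.P100.Calib.Closed.Six.Low
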