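import Vale.Agent.P100.Calib.SlabSixLowPieces

/-!
# Checks of the certificate of dimension six on `0 < u ≤ 3/5`
-/

-- The checks are definitions, so that they run one after another with little memory.
set_option linter.defProp false

namespace Vale.Agent.P100.Calib.Closed.Six.Low

open BoxPos
open Vale.Agent.P100.Calib.Closed.Large (PosBox posBox_of_check and_four posBox_join₀ posBox_join₂ posBox_join₃)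

def p10xRoom_1 :
    (piece10.xRoom).checkQuick
      ⟨30, ⟨0, 0, 1, 1⟩⟩
      ⟨⟨0, 1001, 1000⟩, ⟨2000, 2021, 3000⟩, ⟨300, 320, 1000⟩, ⟨800, 953, 1000⟩⟩ = true := by
  decide +kernel

theorem p10xRoom_pos :
    PosBox ⟨⟨0, 1001, 1000⟩, ⟨2000, 2021, 3000⟩, ⟨300, 320, 1000⟩, ⟨800, 953, 1000⟩⟩
      (piece10.xRoom) :=
  posBox_of_check p10xRoom_1

def p10xPhi_1 :
    (piece10.xPhi).checkQuick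
      ⟨84, ⟨0, 0, 4, 2⟩⟩
      ⟨⟨0, 1001, 1000⟩, ⟨2000, 2021, 3000⟩, ⟨300, 320, 1000⟩, ⟨800, 953, 1000⟩⟩ = true := by
  decide +kernel

theorem p10xPhi_pos :
    PosBox ⟨⟨0, 1001, 1000⟩, ⟨2000, 2021, 3000⟩, ⟨300, 320, 1000⟩, ⟨800, 953, 1000⟩⟩
      (piece10.xPhi) :=
  posBox_of_check p10xPhi_1

def p10hELL_1 :
    (piece10.hEL xTL).checkQuick
      ⟨330, ⟨5, 8, 11, 6⟩⟩
      ⟨⟨0, 1001, 1000⟩, ⟨2000, 2021, 3000⟩, ⟨300, 320, 1000⟩, ⟨800, 953, 1000⟩⟩ = true := by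
  decide +kernel

theorem p10hELL_pos :
    PosBox ⟨⟨0, 1001, 1000⟩, ⟨2000, 2021, 3000⟩, ⟨300, 320, 1000⟩, ⟨800, 953, 1000⟩⟩
      (piece10.hEL xTL) :=
  posBox_of_check p10hELL_1

def p10hEHL_1 :
    (piece10.hEH xTL).checkQuick
      ⟨330, ⟨5, 8, 11, 6⟩⟩
      ⟨⟨0, 1001, 1000⟩, ⟨2000, 2021, 3000⟩, ⟨300, 320, 1000⟩, ⟨800, 953, 1000⟩⟩ = true := by
  decide +kernel

theorem p10hEHL_pos :
    PosBox ⟨⟨0, 1001, 1000⟩, ⟨2000, 2021, 3000⟩, ⟨300, 320, 1000⟩, ⟨800, 953, 1000⟩⟩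
      (piece10.hEH xTL) :=
  posBox_of_check p10hEHL_1

def p10hPLL_1 :
    (piece10.hPL xTL).checkQuick
      ⟨355, ⟨5, 8, 11, 7⟩⟩
      ⟨⟨0, 1001, 1000⟩, ⟨2000, 2021, 3000⟩, ⟨300, 320, 1000⟩, ⟨800, 953, 1000⟩⟩ = true := by
  decide +kernel

theorem p10hPLL_pos :
    PosBox ⟨⟨0, 1001, 1000⟩, ⟨2000, 2021, 3000⟩, ⟨300, 320, 1000⟩, ⟨800, 953, 1000⟩⟩
      (piece10.hPL xTL) :=
  posBox_of_check p10hPLL_1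

def p10hPUL_1 :
    (piece10.hPU xTL).checkQuick
      ⟨355, ⟨5, 8, 11, 7⟩⟩
      ⟨⟨0, 1001, 1000⟩, ⟨2000, 2021, 3000⟩, ⟨300, 320, 1000⟩, ⟨800, 953, 1000⟩⟩ = true := by
  decide +kernel

theorem p10hPUL_pos :
    PosBox ⟨⟨0, 1001, 1000⟩, ⟨2000, 2021, 3000⟩, ⟨300, 320, 1000⟩, ⟨800, 953, 1000⟩⟩
      (piece10.hPU xTL) :=
  posBox_of_check p10hPUL_1

def p10hKUL_1 :
    (piece10.hKU xTL).checkQuick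
      ⟨353, ⟨5, 8, 11, 7⟩⟩
      ⟨⟨0, 1001, 1000⟩, ⟨2000, 2021, 3000⟩, ⟨300, 320, 1000⟩, ⟨800, 953, 1000⟩⟩ = true := by
  decide +kernel

theorem p10hKUL_pos :
    PosBox ⟨⟨0, 1001, 1000⟩, ⟨2000, 2021, 3000⟩, ⟨300, 320, 1000⟩, ⟨800, 953, 1000⟩⟩
      (piece10.hKU xTL) :=
  posBox_of_check p10hKUL_1

def p10hKLL_1 :
    (piece10.hKL xTL).checkQuick
      ⟨352, ⟨5, 8, 11, 7⟩⟩
      ⟨⟨0, 1001, 1000⟩, ⟨2000, 2021, 3000⟩, ⟨300, 320, 1000⟩, ⟨800, 953, 1000⟩⟩ = true := by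
  decide +kernel

theorem p10hKLL_pos :
    PosBox ⟨⟨0, 1001, 1000⟩, ⟨2000, 2021, 3000⟩, ⟨300, 320, 1000⟩, ⟨800, 953, 1000⟩⟩
      (piece10.hKL xTL) :=
  posBox_of_check p10hKLL_1

def p10hWUL_1 :
    (piece10.hWU xTL).checkQuick
      ⟨355, ⟨5, 7, 11, 7⟩⟩
      ⟨⟨0, 1001, 1000⟩, ⟨2000, 2021, 3000⟩, ⟨300, 320, 1000⟩, ⟨800, 953, 1000⟩⟩ = true := by
  decide +kernel

theorem p10hWUL_pos :
    PosBox ⟨⟨0, 1001, 1000⟩, ⟨2000, 2021, 3000⟩, ⟨300, 320, 1000⟩, ⟨800, 953, 1000⟩⟩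
      (piece10.hWU xTL) :=
  posBox_of_check p10hWUL_1

def p10hWLL_1 :
    (piece10.hWL xTL).checkQuick
      ⟨355, ⟨5, 7, 11, 7⟩⟩
      ⟨⟨0, 1001, 1000⟩, ⟨2000, 2021, 3000⟩, ⟨300, 320, 1000⟩, ⟨800, 953, 1000⟩⟩ = true := by
  decide +kernel

theorem p10hWLL_pos :
    PosBox ⟨⟨0, 1001, 1000⟩, ⟨2000, 2021, 3000⟩, ⟨300, 320, 1000⟩, ⟨800, 953, 1000⟩⟩
      (piece10.hWL xTL) :=
  posBox_of_check p10hWLL_1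

def p10hZL_1 :
    (piece10.hZ xTL).checkQuick
      ⟨505, ⟨8, 10, 18, 8⟩⟩
      ⟨⟨0, 1001, 1000⟩, ⟨2000, 2021, 3000⟩, ⟨300, 320, 1000⟩, ⟨800, 953, 1000⟩⟩ = true := by
  decide +kernel

theorem p10hZL_pos :
    PosBox ⟨⟨0, 1001, 1000⟩, ⟨2000, 2021, 3000⟩, ⟨300, 320, 1000⟩, ⟨800, 953, 1000⟩⟩
      (piece10.hZ xTL) :=
  posBox_of_check p10hZL_1

def p10hELU_1 :
    (piece10.hEL xTU).checkQuick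
      ⟨344, ⟨5, 8, 12, 6⟩⟩
      ⟨⟨0, 1001, 1000⟩, ⟨2000, 2021, 3000⟩, ⟨300, 320, 1000⟩, ⟨800, 953, 1000⟩⟩ = true := by
  decide +kernel

theorem p10hELU_pos :
    PosBox ⟨⟨0, 1001, 1000⟩, ⟨2000, 2021, 3000⟩, ⟨300, 320, 1000⟩, ⟨800, 953, 1000⟩⟩
      (piece10.hEL xTU) :=
  posBox_of_check p10hELU_1

def p10hEHU_1 :
    (piece10.hEH xTU).checkQuick
      ⟨344, ⟨5, 8, 12, 6⟩⟩
      ⟨⟨0, 1001, 1000⟩, ⟨2000, 2021, 3000⟩, ⟨300, 320, 1000⟩, ⟨800, 953, 1000⟩⟩ = true := by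
  decide +kernel

theorem p10hEHU_pos :
    PosBox ⟨⟨0, 1001, 1000⟩, ⟨2000, 2021, 3000⟩, ⟨300, 320, 1000⟩, ⟨800, 953, 1000⟩⟩
      (piece10.hEH xTU) :=
  posBox_of_check p10hEHU_1

def p10hPLU_1 :
    (piece10.hPL xTU).checkQuick
      ⟨370, ⟨5, 8, 12, 7⟩⟩
      ⟨⟨0, 1001, 1000⟩, ⟨2000, 2021, 3000⟩, ⟨300, 320, 1000⟩, ⟨800, 953, 1000⟩⟩ = true := by
  decide +kernel

theorem p10hPLU_pos :
    PosBox ⟨⟨0, 1001, 1000⟩, ⟨2000, 2021, 3000⟩, ⟨300, 320, 1000⟩, ⟨800, 953, 1000⟩⟩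
      (piece10.hPL xTU) :=
  posBox_of_check p10hPLU_1

def p10hPUU_1 :
    (piece10.hPU xTU).checkQuick
      ⟨370, ⟨5, 8, 12, 7⟩⟩
      ⟨⟨0, 1001, 1000⟩, ⟨2000, 2021, 3000⟩, ⟨300, 320, 1000⟩, ⟨800, 953, 1000⟩⟩ = true := by
  decide +kernel

theorem p10hPUU_pos :
    PosBox ⟨⟨0, 1001, 1000⟩, ⟨2000, 2021, 3000⟩, ⟨300, 320, 1000⟩, ⟨800, 953, 1000⟩⟩
      (piece10.hPU xTU) :=
  posBox_of_check p10hPUU_1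

def p10hKUU_1 :
    (piece10.hKU xTU).checkQuick
      ⟨367, ⟨5, 8, 12, 7⟩⟩
      ⟨⟨0, 1001, 1000⟩, ⟨2000, 2021, 3000⟩, ⟨300, 320, 1000⟩, ⟨800, 953, 1000⟩⟩ = true := by
  decide +kernel

theorem p10hKUU_pos :
    PosBox ⟨⟨0, 1001, 1000⟩, ⟨2000, 2021, 3000⟩, ⟨300, 320, 1000⟩, ⟨800, 953, 1000⟩⟩
      (piece10.hKU xTU) :=
  posBox_of_check p10hKUU_1

def p10hKLU_1 :
    (piece10.hKL xTU).checkQuick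
      ⟨367, ⟨5, 8, 12, 7⟩⟩
      ⟨⟨0, 1001, 1000⟩, ⟨2000, 2021, 3000⟩, ⟨300, 320, 1000⟩, ⟨800, 953, 1000⟩⟩ = true := by
  decide +kernel

theorem p10hKLU_pos :
    PosBox ⟨⟨0, 1001, 1000⟩, ⟨2000, 2021, 3000⟩, ⟨300, 320, 1000⟩, ⟨800, 953, 1000⟩⟩
      (piece10.hKL xTU) :=
  posBox_of_check p10hKLU_1

def p10hWUU_1 :
    (piece10.hWU xTU).checkQuick
      ⟨369, ⟨5, 7, 12, 7⟩⟩
      ⟨⟨0, 1001, 1000⟩, ⟨2000, 2021, 3000⟩, ⟨300, 320, 1000⟩, ⟨800, 953, 1000⟩⟩ = true := by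
  decide +kernel

theorem p10hWUU_pos :
    PosBox ⟨⟨0, 1001, 1000⟩, ⟨2000, 2021, 3000⟩, ⟨300, 320, 1000⟩, ⟨800, 953, 1000⟩⟩
      (piece10.hWU xTU) :=
  posBox_of_check p10hWUU_1

def p10hWLU_1 :
    (piece10.hWL xTU).checkQuick
      ⟨369, ⟨5, 7, 12, 7⟩⟩
      ⟨⟨0, 1001, 1000⟩, ⟨2000, 2021, 3000⟩, ⟨300, 320, 1000⟩, ⟨800, 953, 1000⟩⟩ = true := by
  decide +kernel

theorem p10hWLU_pos :
    PosBox ⟨⟨0, 1001, 1000⟩, ⟨2000, 2021, 3000⟩, ⟨300, 320, 1000⟩, ⟨800, 953, 1000⟩⟩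
      (piece10.hWL xTU) :=
  posBox_of_check p10hWLU_1

def p10hZU_1 :
    (piece10.hZ xTU).checkQuick
      ⟨506, ⟨8, 10, 18, 8⟩⟩
      ⟨⟨0, 1001, 1000⟩, ⟨2000, 2021, 3000⟩, ⟨300, 320, 1000⟩, ⟨800, 953, 1000⟩⟩ = true := by
  decide +kernel

theorem p10hZU_pos :
    PosBox ⟨⟨0, 1001, 1000⟩, ⟨2000, 2021, 3000⟩, ⟨300, 320, 1000⟩, ⟨800, 953, 1000⟩⟩
      (piece10.hZ xTU) :=
  posBox_of_check p10hZU_1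

def p10hKp_1 :
    (piece10.hKp).checkQuick
      ⟨78, ⟨1, 1, 3, 3⟩⟩
      ⟨⟨0, 1001, 1000⟩, ⟨2000, 2021, 3000⟩, ⟨300, 320, 1000⟩, ⟨800, 953, 1000⟩⟩ = true := by
  decide +kernel

theorem p10hKp_pos :
    PosBox ⟨⟨0, 1001, 1000⟩, ⟨2000, 2021, 3000⟩, ⟨300, 320, 1000⟩, ⟨800, 953, 1000⟩⟩
      (piece10.hKp) :=
  posBox_of_check p10hKp_1

def p10hKm_1 :
    (piece10.hKm).checkQuick
      ⟨91, ⟨1, 1, 3, 3⟩⟩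
      ⟨⟨0, 1001, 1000⟩, ⟨2000, 2021, 3000⟩, ⟨300, 320, 1000⟩, ⟨800, 953, 1000⟩⟩ = true := by
  decide +kernel

theorem p10hKm_pos :
    PosBox ⟨⟨0, 1001, 1000⟩, ⟨2000, 2021, 3000⟩, ⟨300, 320, 1000⟩, ⟨800, 953, 1000⟩⟩
      (piece10.hKm) :=
  posBox_of_check p10hKm_1

def p10hMZeroLo_1 :
    (piece10.hM₀ piece10.xPL).checkQuick
      ⟨215, ⟨2, 5, 9, 6⟩⟩
      ⟨⟨0, 1001, 1000⟩, ⟨2000, 2021, 3000⟩, ⟨300, 320, 1000⟩, ⟨800, 953, 1000⟩⟩ = true := by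
  decide +kernel

theorem p10hMZeroLo_pos :
    PosBox ⟨⟨0, 1001, 1000⟩, ⟨2000, 2021, 3000⟩, ⟨300, 320, 1000⟩, ⟨800, 953, 1000⟩⟩
      (piece10.hM₀ piece10.xPL) :=
  posBox_of_check p10hMZeroLo_1

def p10hC1Lo_1 :
    (piece10.hC1 piece10.xPL).checkQuick
      ⟨244, ⟨3, 5, 9, 8⟩⟩
      ⟨⟨0, 1001, 1000⟩, ⟨2000, 2021, 3000⟩, ⟨300, 320, 1000⟩, ⟨800, 953, 1000⟩⟩ = true := by
  decide +kernel

theorem p10hC1Lo_pos :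
    PosBox ⟨⟨0, 1001, 1000⟩, ⟨2000, 2021, 3000⟩, ⟨300, 320, 1000⟩, ⟨800, 953, 1000⟩⟩
      (piece10.hC1 piece10.xPL) :=
  posBox_of_check p10hC1Lo_1

def p10hGLoZLo_1 :
    (piece10.hG piece10.xPL piece10.zLo).checkQuick
      ⟨352, ⟨2, 7, 16, 11⟩⟩
      ⟨⟨0, 1001, 1000⟩, ⟨2000, 2021, 3000⟩, ⟨300, 320, 1000⟩, ⟨800, 953, 1000⟩⟩ = true := by
  decide +kernel

theorem p10hGLoZLo_pos :
    PosBox ⟨⟨0, 1001, 1000⟩, ⟨2000, 2021, 3000⟩, ⟨300, 320, 1000⟩, ⟨800, 953, 1000⟩⟩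
      (piece10.hG piece10.xPL piece10.zLo) :=
  posBox_of_check p10hGLoZLo_1

def p10hFourLoZLo :
    ((piece10.hC2p piece10.xPL piece10.zLo).checkQuick ⟨440, ⟨3, 8, 19, 14⟩⟩
        ⟨⟨0, 1001, 1000⟩, ⟨2000, 2021, 3000⟩, ⟨300, 320, 1000⟩, ⟨800, 953, 1000⟩⟩ &&
      (piece10.hC2m piece10.xPL piece10.zLo).checkQuick ⟨440, ⟨3, 8, 19, 14⟩⟩
        ⟨⟨0, 1001, 1000⟩, ⟨2000, 2021, 3000⟩, ⟨300, 320, 1000⟩, ⟨800, 953, 1000⟩⟩ &&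
      (piece10.hC3p piece10.xPL piece10.zLo).checkQuick ⟨440, ⟨3, 8, 19, 14⟩⟩
        ⟨⟨0, 1001, 1000⟩, ⟨2000, 2021, 3000⟩, ⟨300, 320, 1000⟩, ⟨800, 953, 1000⟩⟩ &&
      (piece10.hC3m piece10.xPL piece10.zLo).checkQuick ⟨440, ⟨3, 8, 19, 14⟩⟩
        ⟨⟨0, 1001, 1000⟩, ⟨2000, 2021, 3000⟩, ⟨300, 320, 1000⟩, ⟨800, 953, 1000⟩⟩) = true := by
  decide +kernel

theorem p10hC2pLoZLo_pos :
    PosBox ⟨⟨0, 1001, 1000⟩, ⟨2000, 2021, 3000⟩, ⟨300, 320, 1000⟩, ⟨800, 953, 1000⟩⟩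
      (piece10.hC2p piece10.xPL piece10.zLo) :=
  posBox_of_check (and_four p10hFourLoZLo).1

theorem p10hC2mLoZLo_pos :
    PosBox ⟨⟨0, 1001, 1000⟩, ⟨2000, 2021, 3000⟩, ⟨300, 320, 1000⟩, ⟨800, 953, 1000⟩⟩
      (piece10.hC2m piece10.xPL piece10.zLo) :=
  posBox_of_check (and_four p10hFourLoZLo).2.1

theorem p10hC3pLoZLo_pos :
    PosBox ⟨⟨0, 1001, 1000⟩, ⟨2000, 2021, 3000⟩, ⟨300, 320, 1000⟩, ⟨800, 953, 1000⟩⟩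
      (piece10.hC3p piece10.xPL piece10.zLo) :=
  posBox_of_check (and_four p10hFourLoZLo).2.2.1

theorem p10hC3mLoZLo_pos :
    PosBox ⟨⟨0, 1001, 1000⟩, ⟨2000, 2021, 3000⟩, ⟨300, 320, 1000⟩, ⟨800, 953, 1000⟩⟩
      (piece10.hC3m piece10.xPL piece10.zLo) :=
  posBox_of_check (and_four p10hFourLoZLo).2.2.2

def p10hNLoZLo_1 :
    (piece10.hN piece10.xPL piece10.zLo).checkQuick
      ⟨336, ⟨2, 7, 15, 10⟩⟩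
      ⟨⟨0, 1001, 1000⟩, ⟨2000, 2021, 3000⟩, ⟨300, 320, 1000⟩, ⟨800, 953, 1000⟩⟩ = true := by
  decide +kernel

theorem p10hNLoZLo_pos :
    PosBox ⟨⟨0, 1001, 1000⟩, ⟨2000, 2021, 3000⟩, ⟨300, 320, 1000⟩, ⟨800, 953, 1000⟩⟩
      (piece10.hN piece10.xPL piece10.zLo) :=
  posBox_of_check p10hNLoZLo_1

def p10hGLoZHi_1 :
    (piece10.hG piece10.xPL zHi).checkQuick
      ⟨310, ⟨2, 7, 14, 9⟩⟩
      ⟨⟨0, 1001, 1000⟩, ⟨2000, 2021, 3000⟩, ⟨300, 320, 1000⟩, ⟨800, 953, 1000⟩⟩ = true := by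
  decide +kernel

theorem p10hGLoZHi_pos :
    PosBox ⟨⟨0, 1001, 1000⟩, ⟨2000, 2021, 3000⟩, ⟨300, 320, 1000⟩, ⟨800, 953, 1000⟩⟩
      (piece10.hG piece10.xPL zHi) :=
  posBox_of_check p10hGLoZHi_1

def p10hFourLoZHi :
    ((piece10.hC2p piece10.xPL zHi).checkQuick ⟨398, ⟨3, 8, 17, 12⟩⟩
        ⟨⟨0, 1001, 1000⟩, ⟨2000, 2021, 3000⟩, ⟨300, 320, 1000⟩, ⟨800, 953, 1000⟩⟩ &&
      (piece10.hC2m piece10.xPL zHi).checkQuick ⟨398, ⟨3, 8, 17, 12⟩⟩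
        ⟨⟨0, 1001, 1000⟩, ⟨2000, 2021, 3000⟩, ⟨300, 320, 1000⟩, ⟨800, 953, 1000⟩⟩ &&
      (piece10.hC3p piece10.xPL zHi).checkQuick ⟨398, ⟨3, 8, 17, 12⟩⟩
        ⟨⟨0, 1001, 1000⟩, ⟨2000, 2021, 3000⟩, ⟨300, 320, 1000⟩, ⟨800, 953, 1000⟩⟩ &&
      (piece10.hC3m piece10.xPL zHi).checkQuick ⟨398, ⟨3, 8, 17, 12⟩⟩
        ⟨⟨0, 1001, 1000⟩, ⟨2000, 2021, 3000⟩, ⟨300, 320, 1000⟩, ⟨800, 953, 1000⟩⟩) = true := by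
  decide +kernel

theorem p10hC2pLoZHi_pos :
    PosBox ⟨⟨0, 1001, 1000⟩, ⟨2000, 2021, 3000⟩, ⟨300, 320, 1000⟩, ⟨800, 953, 1000⟩⟩
      (piece10.hC2p piece10.xPL zHi) :=
  posBox_of_check (and_four p10hFourLoZHi).1

theorem p10hC2mLoZHi_pos :
    PosBox ⟨⟨0, 1001, 1000⟩, ⟨2000, 2021, 3000⟩, ⟨300, 320, 1000⟩, ⟨800, 953, 1000⟩⟩
      (piece10.hC2m piece10.xPL zHi) :=
  posBox_of_check (and_four p10hFourLoZHi).2.1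

theorem p10hC3pLoZHi_pos :
    PosBox ⟨⟨0, 1001, 1000⟩, ⟨2000, 2021, 3000⟩, ⟨300, 320, 1000⟩, ⟨800, 953, 1000⟩⟩
      (piece10.hC3p piece10.xPL zHi) :=
  posBox_of_check (and_four p10hFourLoZHi).2.2.1

theorem p10hC3mLoZHi_pos :
    PosBox ⟨⟨0, 1001, 1000⟩, ⟨2000, 2021, 3000⟩, ⟨300, 320, 1000⟩, ⟨800, 953, 1000⟩⟩
      (piece10.hC3m piece10.xPL zHi) :=
  posBox_of_check (and_four p10hFourLoZHi).2.2.2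

def p10hNLoZHi_1 :
    (piece10.hN piece10.xPL zHi).checkQuick
      ⟨325, ⟨2, 7, 14, 10⟩⟩
      ⟨⟨0, 1001, 1000⟩, ⟨2000, 2021, 3000⟩, ⟨300, 320, 1000⟩, ⟨800, 953, 1000⟩⟩ = true := by
  decide +kernel

theorem p10hNLoZHi_pos :
    PosBox ⟨⟨0, 1001, 1000⟩, ⟨2000, 2021, 3000⟩, ⟨300, 320, 1000⟩, ⟨800, 953, 1000⟩⟩
      (piece10.hN piece10.xPL zHi) :=
  posBox_of_check p10hNLoZHi_1

def p10hV2p_1 :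
    (piece10.hV2p).checkQuick
      ⟨226, ⟨1, 6, 11, 6⟩⟩
      ⟨⟨0, 1001, 1000⟩, ⟨2000, 2021, 3000⟩, ⟨300, 320, 1000⟩, ⟨800, 953, 1000⟩⟩ = true := by
  decide +kernel

theorem p10hV2p_pos :
    PosBox ⟨⟨0, 1001, 1000⟩, ⟨2000, 2021, 3000⟩, ⟨300, 320, 1000⟩, ⟨800, 953, 1000⟩⟩
      (piece10.hV2p) :=
  posBox_of_check p10hV2p_1

def p10hV2m_1 :
    (piece10.hV2m).checkQuick
      ⟨232, ⟨1, 6, 11, 6⟩⟩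
      ⟨⟨0, 1001, 1000⟩, ⟨2000, 2021, 3000⟩, ⟨300, 320, 1000⟩, ⟨800, 953, 1000⟩⟩ = true := by
  decide +kernel

theorem p10hV2m_pos :
    PosBox ⟨⟨0, 1001, 1000⟩, ⟨2000, 2021, 3000⟩, ⟨300, 320, 1000⟩, ⟨800, 953, 1000⟩⟩
      (piece10.hV2m) :=
  posBox_of_check p10hV2m_1

def p10hV3p_1 :
    (piece10.hV3p).checkQuick
      ⟨218, ⟨1, 6, 10, 6⟩⟩
      ⟨⟨0, 1001, 1000⟩, ⟨2000, 2021, 3000⟩, ⟨300, 320, 1000⟩, ⟨800, 953, 1000⟩⟩ = true := by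
  decide +kernel

theorem p10hV3p_pos :
    PosBox ⟨⟨0, 1001, 1000⟩, ⟨2000, 2021, 3000⟩, ⟨300, 320, 1000⟩, ⟨800, 953, 1000⟩⟩
      (piece10.hV3p) :=
  posBox_of_check p10hV3p_1

def p10hV3m_1 :
    (piece10.hV3m).checkQuick
      ⟨221, ⟨1, 6, 10, 6⟩⟩
      ⟨⟨0, 1001, 1000⟩, ⟨2000, 2021, 3000⟩, ⟨300, 320, 1000⟩, ⟨800, 953, 1000⟩⟩ = true := by
  decide +kernel

theorem p10hV3m_pos :
    PosBox ⟨⟨0, 1001, 1000⟩, ⟨2000, 2021, 3000⟩, ⟨300, 320, 1000⟩, ⟨800, 953, 1000⟩⟩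
      (piece10.hV3m) :=
  posBox_of_check p10hV3m_1

def p10hMZeroHi_1 :
    (piece10.hM₀ piece10.xPU).checkQuick
      ⟨216, ⟨2, 5, 9, 6⟩⟩
      ⟨⟨0, 1001, 1000⟩, ⟨2000, 2021, 3000⟩, ⟨300, 320, 1000⟩, ⟨800, 953, 1000⟩⟩ = true := by
  decide +kernel

theorem p10hMZeroHi_pos :
    PosBox ⟨⟨0, 1001, 1000⟩, ⟨2000, 2021, 3000⟩, ⟨300, 320, 1000⟩, ⟨800, 953, 1000⟩⟩
      (piece10.hM₀ piece10.xPU) :=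
  posBox_of_check p10hMZeroHi_1

def p10hC1Hi_1 :
    (piece10.hC1 piece10.xPU).checkQuick
      ⟨245, ⟨3, 5, 9, 8⟩⟩
      ⟨⟨0, 1001, 1000⟩, ⟨2000, 2021, 3000⟩, ⟨300, 320, 1000⟩, ⟨800, 953, 1000⟩⟩ = true := by
  decide +kernel

theorem p10hC1Hi_pos :
    PosBox ⟨⟨0, 1001, 1000⟩, ⟨2000, 2021, 3000⟩, ⟨300, 320, 1000⟩, ⟨800, 953, 1000⟩⟩
      (piece10.hC1 piece10.xPU) :=
  posBox_of_check p10hC1Hi_1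

def p10hGHiZLo_1 :
    (piece10.hG piece10.xPU piece10.zLo).checkQuick
      ⟨353, ⟨2, 7, 16, 11⟩⟩
      ⟨⟨0, 1001, 1000⟩, ⟨2000, 2021, 3000⟩, ⟨300, 320, 1000⟩, ⟨800, 953, 1000⟩⟩ = true := by
  decide +kernel

theorem p10hGHiZLo_pos :
    PosBox ⟨⟨0, 1001, 1000⟩, ⟨2000, 2021, 3000⟩, ⟨300, 320, 1000⟩, ⟨800, 953, 1000⟩⟩
      (piece10.hG piece10.xPU piece10.zLo) :=
  posBox_of_check p10hGHiZLo_1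

def p10hFourHiZLo :
    ((piece10.hC2p piece10.xPU piece10.zLo).checkQuick ⟨441, ⟨3, 8, 19, 14⟩⟩
        ⟨⟨0, 1001, 1000⟩, ⟨2000, 2021, 3000⟩, ⟨300, 320, 1000⟩, ⟨800, 953, 1000⟩⟩ &&
      (piece10.hC2m piece10.xPU piece10.zLo).checkQuick ⟨441, ⟨3, 8, 19, 14⟩⟩
        ⟨⟨0, 1001, 1000⟩, ⟨2000, 2021, 3000⟩, ⟨300, 320, 1000⟩, ⟨800, 953, 1000⟩⟩ &&
      (piece10.hC3p piece10.xPU piece10.zLo).checkQuick ⟨441, ⟨3, 8, 19, 14⟩⟩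
        ⟨⟨0, 1001, 1000⟩, ⟨2000, 2021, 3000⟩, ⟨300, 320, 1000⟩, ⟨800, 953, 1000⟩⟩ &&
      (piece10.hC3m piece10.xPU piece10.zLo).checkQuick ⟨441, ⟨3, 8, 19, 14⟩⟩
        ⟨⟨0, 1001, 1000⟩, ⟨2000, 2021, 3000⟩, ⟨300, 320, 1000⟩, ⟨800, 953, 1000⟩⟩) = true := by
  decide +kernel

theorem p10hC2pHiZLo_pos :
    PosBox ⟨⟨0, 1001, 1000⟩, ⟨2000, 2021, 3000⟩, ⟨300, 320, 1000⟩, ⟨800, 953, 1000⟩⟩
      (piece10.hC2p piece10.xPU piece10.zLo) :=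
  posBox_of_check (and_four p10hFourHiZLo).1

theorem p10hC2mHiZLo_pos :
    PosBox ⟨⟨0, 1001, 1000⟩, ⟨2000, 2021, 3000⟩, ⟨300, 320, 1000⟩, ⟨800, 953, 1000⟩⟩
      (piece10.hC2m piece10.xPU piece10.zLo) :=
  posBox_of_check (and_four p10hFourHiZLo).2.1

theorem p10hC3pHiZLo_pos :
    PosBox ⟨⟨0, 1001, 1000⟩, ⟨2000, 2021, 3000⟩, ⟨300, 320, 1000⟩, ⟨800, 953, 1000⟩⟩
      (piece10.hC3p piece10.xPU piece10.zLo) :=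
  posBox_of_check (and_four p10hFourHiZLo).2.2.1

theorem p10hC3mHiZLo_pos :
    PosBox ⟨⟨0, 1001, 1000⟩, ⟨2000, 2021, 3000⟩, ⟨300, 320, 1000⟩, ⟨800, 953, 1000⟩⟩
      (piece10.hC3m piece10.xPU piece10.zLo) :=
  posBox_of_check (and_four p10hFourHiZLo).2.2.2

def p10hNHiZLo_1 :
    (piece10.hN piece10.xPU piece10.zLo).checkQuick
      ⟨336, ⟨2, 7, 15, 10⟩⟩
      ⟨⟨0, 1001, 1000⟩, ⟨2000, 2021, 3000⟩, ⟨300, 320, 1000⟩, ⟨800, 953, 1000⟩⟩ = true := by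
  decide +kernel

theorem p10hNHiZLo_pos :
    PosBox ⟨⟨0, 1001, 1000⟩, ⟨2000, 2021, 3000⟩, ⟨300, 320, 1000⟩, ⟨800, 953, 1000⟩⟩
      (piece10.hN piece10.xPU piece10.zLo) :=
  posBox_of_check p10hNHiZLo_1

def p10hGHiZHi_1 :
    (piece10.hG piece10.xPU zHi).checkQuick
      ⟨311, ⟨2, 7, 14, 9⟩⟩
      ⟨⟨0, 1001, 1000⟩, ⟨2000, 2021, 3000⟩, ⟨300, 320, 1000⟩, ⟨800, 953, 1000⟩⟩ = true := by
  decide +kernel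

theorem p10hGHiZHi_pos :
    PosBox ⟨⟨0, 1001, 1000⟩, ⟨2000, 2021, 3000⟩, ⟨300, 320, 1000⟩, ⟨800, 953, 1000⟩⟩
      (piece10.hG piece10.xPU zHi) :=
  posBox_of_check p10hGHiZHi_1

def p10hFourHiZHi :
    ((piece10.hC2p piece10.xPU zHi).checkQuick ⟨399, ⟨3, 8, 17, 12⟩⟩
        ⟨⟨0, 1001, 1000⟩, ⟨2000, 2021, 3000⟩, ⟨300, 320, 1000⟩, ⟨800, 953, 1000⟩⟩ &&
      (piece10.hC2m piece10.xPU zHi).checkQuick ⟨399, ⟨3, 8, 17, 12⟩⟩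
        ⟨⟨0, 1001, 1000⟩, ⟨2000, 2021, 3000⟩, ⟨300, 320, 1000⟩, ⟨800, 953, 1000⟩⟩ &&
      (piece10.hC3p piece10.xPU zHi).checkQuick ⟨399, ⟨3, 8, 17, 12⟩⟩
        ⟨⟨0, 1001, 1000⟩, ⟨2000, 2021, 3000⟩, ⟨300, 320, 1000⟩, ⟨800, 953, 1000⟩⟩ &&
      (piece10.hC3m piece10.xPU zHi).checkQuick ⟨399, ⟨3, 8, 17, 12⟩⟩
        ⟨⟨0, 1001, 1000⟩, ⟨2000, 2021, 3000⟩, ⟨300, 320, 1000⟩, ⟨800, 953, 1000⟩⟩) = true := by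
  decide +kernel

theorem p10hC2pHiZHi_pos :
    PosBox ⟨⟨0, 1001, 1000⟩, ⟨2000, 2021, 3000⟩, ⟨300, 320, 1000⟩, ⟨800, 953, 1000⟩⟩
      (piece10.hC2p piece10.xPU zHi) :=
  posBox_of_check (and_four p10hFourHiZHi).1

theorem p10hC2mHiZHi_pos :
    PosBox ⟨⟨0, 1001, 1000⟩, ⟨2000, 2021, 3000⟩, ⟨300, 320, 1000⟩, ⟨800, 953, 1000⟩⟩
      (piece10.hC2m piece10.xPU zHi) :=
  posBox_of_check (and_four p10hFourHiZHi).2.1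

theorem p10hC3pHiZHi_pos :
    PosBox ⟨⟨0, 1001, 1000⟩, ⟨2000, 2021, 3000⟩, ⟨300, 320, 1000⟩, ⟨800, 953, 1000⟩⟩
      (piece10.hC3p piece10.xPU zHi) :=
  posBox_of_check (and_four p10hFourHiZHi).2.2.1

theorem p10hC3mHiZHi_pos :
    PosBox ⟨⟨0, 1001, 1000⟩, ⟨2000, 2021, 3000⟩, ⟨300, 320, 1000⟩, ⟨800, 953, 1000⟩⟩
      (piece10.hC3m piece10.xPU zHi) :=
  posBox_of_check (and_four p10hFourHiZHi).2.2.2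

def p10hNHiZHi_1 :
    (piece10.hN piece10.xPU zHi).checkQuick
      ⟨326, ⟨2, 7, 14, 10⟩⟩
      ⟨⟨0, 1001, 1000⟩, ⟨2000, 2021, 3000⟩, ⟨300, 320, 1000⟩, ⟨800, 953, 1000⟩⟩ = true := by
  decide +kernel

theorem p10hNHiZHi_pos :
    PosBox ⟨⟨0, 1001, 1000⟩, ⟨2000, 2021, 3000⟩, ⟨300, 320, 1000⟩, ⟨800, 953, 1000⟩⟩
      (piece10.hN piece10.xPU zHi) :=
  posBox_of_check p10hNHiZHi_1

end Vale.Agent.P100.Calib.Closed.Six.Low
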