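import Vale.Agent.P100.Calib.SlabSixLowPieces

/-!
# Checks of the certificate of dimension six on `0 < u ≤ 3/5`
-/

-- The checks are definitions, so that they run one after another with little memory.
set_option linter.defProp false

namespace Vale.Agent.P100.Calib.Closed.Six.Low

open BoxPos
open Vale.Agent.P100.Calib.Closed.Large (PosBox posBox_of_check and_four posBox_join₀ posBox_join₂ posBox_join₃)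

def p11xRoom_1 :
    (piece11.xRoom).checkQuick
      ⟨30, ⟨0, 0, 1, 1⟩⟩
      ⟨⟨0, 1001, 1000⟩, ⟨2000, 2021, 3000⟩, ⟨320, 334, 1000⟩, ⟨800, 932, 1000⟩⟩ = true := by
  decide +kernel

theorem p11xRoom_pos :
    PosBox ⟨⟨0, 1001, 1000⟩, ⟨2000, 2021, 3000⟩, ⟨320, 334, 1000⟩, ⟨800, 932, 1000⟩⟩
      (piece11.xRoom) :=
  posBox_of_check p11xRoom_1

def p11xPhi_1 :
    (piece11.xPhi).checkQuick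
      ⟨84, ⟨0, 0, 4, 2⟩⟩
      ⟨⟨0, 1001, 1000⟩, ⟨2000, 2021, 3000⟩, ⟨320, 334, 1000⟩, ⟨800, 932, 1000⟩⟩ = true := by
  decide +kernel

theorem p11xPhi_pos :
    PosBox ⟨⟨0, 1001, 1000⟩, ⟨2000, 2021, 3000⟩, ⟨320, 334, 1000⟩, ⟨800, 932, 1000⟩⟩
      (piece11.xPhi) :=
  posBox_of_check p11xPhi_1

def p11hELL_1 :
    (piece11.hEL xTL).checkQuick
      ⟨331, ⟨5, 8, 11, 6⟩⟩
      ⟨⟨0, 1001, 1000⟩, ⟨2000, 2021, 3000⟩, ⟨320, 334, 1000⟩, ⟨800, 932, 1000⟩⟩ = true := by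
  decide +kernel

theorem p11hELL_pos :
    PosBox ⟨⟨0, 1001, 1000⟩, ⟨2000, 2021, 3000⟩, ⟨320, 334, 1000⟩, ⟨800, 932, 1000⟩⟩
      (piece11.hEL xTL) :=
  posBox_of_check p11hELL_1

def p11hEHL_1 :
    (piece11.hEH xTL).checkQuick
      ⟨331, ⟨5, 8, 11, 6⟩⟩
      ⟨⟨0, 1001, 1000⟩, ⟨2000, 2021, 3000⟩, ⟨320, 334, 1000⟩, ⟨800, 932, 1000⟩⟩ = true := by
  decide +kernel

theorem p11hEHL_pos :
    PosBox ⟨⟨0, 1001, 1000⟩, ⟨2000, 2021, 3000⟩, ⟨320, 334, 1000⟩, ⟨800, 932, 1000⟩⟩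
      (piece11.hEH xTL) :=
  posBox_of_check p11hEHL_1

def p11hPLL_1 :
    (piece11.hPL xTL).checkQuick
      ⟨356, ⟨5, 8, 11, 7⟩⟩
      ⟨⟨0, 1001, 1000⟩, ⟨2000, 2021, 3000⟩, ⟨320, 334, 1000⟩, ⟨800, 932, 1000⟩⟩ = true := by
  decide +kernel

theorem p11hPLL_pos :
    PosBox ⟨⟨0, 1001, 1000⟩, ⟨2000, 2021, 3000⟩, ⟨320, 334, 1000⟩, ⟨800, 932, 1000⟩⟩
      (piece11.hPL xTL) :=
  posBox_of_check p11hPLL_1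

def p11hPUL_1 :
    (piece11.hPU xTL).checkQuick
      ⟨356, ⟨5, 8, 11, 7⟩⟩
      ⟨⟨0, 1001, 1000⟩, ⟨2000, 2021, 3000⟩, ⟨320, 334, 1000⟩, ⟨800, 932, 1000⟩⟩ = true := by
  decide +kernel

theorem p11hPUL_pos :
    PosBox ⟨⟨0, 1001, 1000⟩, ⟨2000, 2021, 3000⟩, ⟨320, 334, 1000⟩, ⟨800, 932, 1000⟩⟩
      (piece11.hPU xTL) :=
  posBox_of_check p11hPUL_1

def p11hKUL_1 :
    (piece11.hKU xTL).checkQuick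
      ⟨353, ⟨5, 8, 11, 7⟩⟩
      ⟨⟨0, 1001, 1000⟩, ⟨2000, 2021, 3000⟩, ⟨320, 334, 1000⟩, ⟨800, 932, 1000⟩⟩ = true := by
  decide +kernel

theorem p11hKUL_pos :
    PosBox ⟨⟨0, 1001, 1000⟩, ⟨2000, 2021, 3000⟩, ⟨320, 334, 1000⟩, ⟨800, 932, 1000⟩⟩
      (piece11.hKU xTL) :=
  posBox_of_check p11hKUL_1

def p11hKLL_1 :
    (piece11.hKL xTL).checkQuick
      ⟨353, ⟨5, 8, 11, 7⟩⟩
      ⟨⟨0, 1001, 1000⟩, ⟨2000, 2021, 3000⟩, ⟨320, 334, 1000⟩, ⟨800, 932, 1000⟩⟩ = true := by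
  decide +kernel

theorem p11hKLL_pos :
    PosBox ⟨⟨0, 1001, 1000⟩, ⟨2000, 2021, 3000⟩, ⟨320, 334, 1000⟩, ⟨800, 932, 1000⟩⟩
      (piece11.hKL xTL) :=
  posBox_of_check p11hKLL_1

def p11hWUL_1 :
    (piece11.hWU xTL).checkQuick
      ⟨355, ⟨5, 7, 11, 7⟩⟩
      ⟨⟨0, 1001, 1000⟩, ⟨2000, 2021, 3000⟩, ⟨320, 334, 1000⟩, ⟨800, 932, 1000⟩⟩ = true := by
  decide +kernel

theorem p11hWUL_pos :
    PosBox ⟨⟨0, 1001, 1000⟩, ⟨2000, 2021, 3000⟩, ⟨320, 334, 1000⟩, ⟨800, 932, 1000⟩⟩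
      (piece11.hWU xTL) :=
  posBox_of_check p11hWUL_1

def p11hWLL_1 :
    (piece11.hWL xTL).checkQuick
      ⟨355, ⟨5, 7, 11, 7⟩⟩
      ⟨⟨0, 1001, 1000⟩, ⟨2000, 2021, 3000⟩, ⟨320, 334, 1000⟩, ⟨800, 932, 1000⟩⟩ = true := by
  decide +kernel

theorem p11hWLL_pos :
    PosBox ⟨⟨0, 1001, 1000⟩, ⟨2000, 2021, 3000⟩, ⟨320, 334, 1000⟩, ⟨800, 932, 1000⟩⟩
      (piece11.hWL xTL) :=
  posBox_of_check p11hWLL_1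

def p11hZL_1 :
    (piece11.hZ xTL).checkQuick
      ⟨507, ⟨8, 10, 18, 8⟩⟩
      ⟨⟨0, 1001, 1000⟩, ⟨2000, 2021, 3000⟩, ⟨320, 334, 1000⟩, ⟨800, 932, 1000⟩⟩ = true := by
  decide +kernel

theorem p11hZL_pos :
    PosBox ⟨⟨0, 1001, 1000⟩, ⟨2000, 2021, 3000⟩, ⟨320, 334, 1000⟩, ⟨800, 932, 1000⟩⟩
      (piece11.hZ xTL) :=
  posBox_of_check p11hZL_1

def p11hELU_1 :
    (piece11.hEL xTU).checkQuick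
      ⟨345, ⟨5, 8, 12, 6⟩⟩
      ⟨⟨0, 1001, 1000⟩, ⟨2000, 2021, 3000⟩, ⟨320, 334, 1000⟩, ⟨800, 932, 1000⟩⟩ = true := by
  decide +kernel

theorem p11hELU_pos :
    PosBox ⟨⟨0, 1001, 1000⟩, ⟨2000, 2021, 3000⟩, ⟨320, 334, 1000⟩, ⟨800, 932, 1000⟩⟩
      (piece11.hEL xTU) :=
  posBox_of_check p11hELU_1

def p11hEHU_1 :
    (piece11.hEH xTU).checkQuick
      ⟨345, ⟨5, 8, 12, 6⟩⟩
      ⟨⟨0, 1001, 1000⟩, ⟨2000, 2021, 3000⟩, ⟨320, 334, 1000⟩, ⟨800, 932, 1000⟩⟩ = true := by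
  decide +kernel

theorem p11hEHU_pos :
    PosBox ⟨⟨0, 1001, 1000⟩, ⟨2000, 2021, 3000⟩, ⟨320, 334, 1000⟩, ⟨800, 932, 1000⟩⟩
      (piece11.hEH xTU) :=
  posBox_of_check p11hEHU_1

def p11hPLU_1 :
    (piece11.hPL xTU).checkQuick
      ⟨370, ⟨5, 8, 12, 7⟩⟩
      ⟨⟨0, 1001, 1000⟩, ⟨2000, 2021, 3000⟩, ⟨320, 334, 1000⟩, ⟨800, 932, 1000⟩⟩ = true := by
  decide +kernel

theorem p11hPLU_pos :
    PosBox ⟨⟨0, 1001, 1000⟩, ⟨2000, 2021, 3000⟩, ⟨320, 334, 1000⟩, ⟨800, 932, 1000⟩⟩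
      (piece11.hPL xTU) :=
  posBox_of_check p11hPLU_1

def p11hPUU_1 :
    (piece11.hPU xTU).checkQuick
      ⟨370, ⟨5, 8, 12, 7⟩⟩
      ⟨⟨0, 1001, 1000⟩, ⟨2000, 2021, 3000⟩, ⟨320, 334, 1000⟩, ⟨800, 932, 1000⟩⟩ = true := by
  decide +kernel

theorem p11hPUU_pos :
    PosBox ⟨⟨0, 1001, 1000⟩, ⟨2000, 2021, 3000⟩, ⟨320, 334, 1000⟩, ⟨800, 932, 1000⟩⟩
      (piece11.hPU xTU) :=
  posBox_of_check p11hPUU_1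

def p11hKUU_1 :
    (piece11.hKU xTU).checkQuick
      ⟨368, ⟨5, 8, 12, 7⟩⟩
      ⟨⟨0, 1001, 1000⟩, ⟨2000, 2021, 3000⟩, ⟨320, 334, 1000⟩, ⟨800, 932, 1000⟩⟩ = true := by
  decide +kernel

theorem p11hKUU_pos :
    PosBox ⟨⟨0, 1001, 1000⟩, ⟨2000, 2021, 3000⟩, ⟨320, 334, 1000⟩, ⟨800, 932, 1000⟩⟩
      (piece11.hKU xTU) :=
  posBox_of_check p11hKUU_1

def p11hKLU_1 :
    (piece11.hKL xTU).checkQuick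
      ⟨368, ⟨5, 8, 12, 7⟩⟩
      ⟨⟨0, 1001, 1000⟩, ⟨2000, 2021, 3000⟩, ⟨320, 334, 1000⟩, ⟨800, 932, 1000⟩⟩ = true := by
  decide +kernel

theorem p11hKLU_pos :
    PosBox ⟨⟨0, 1001, 1000⟩, ⟨2000, 2021, 3000⟩, ⟨320, 334, 1000⟩, ⟨800, 932, 1000⟩⟩
      (piece11.hKL xTU) :=
  posBox_of_check p11hKLU_1

def p11hWUU_1 :
    (piece11.hWU xTU).checkQuick
      ⟨370, ⟨5, 7, 12, 7⟩⟩
      ⟨⟨0, 1001, 1000⟩, ⟨2000, 2021, 3000⟩, ⟨320, 334, 1000⟩, ⟨800, 932, 1000⟩⟩ = true := by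
  decide +kernel

theorem p11hWUU_pos :
    PosBox ⟨⟨0, 1001, 1000⟩, ⟨2000, 2021, 3000⟩, ⟨320, 334, 1000⟩, ⟨800, 932, 1000⟩⟩
      (piece11.hWU xTU) :=
  posBox_of_check p11hWUU_1

def p11hWLU_1 :
    (piece11.hWL xTU).checkQuick
      ⟨370, ⟨5, 7, 12, 7⟩⟩
      ⟨⟨0, 1001, 1000⟩, ⟨2000, 2021, 3000⟩, ⟨320, 334, 1000⟩, ⟨800, 932, 1000⟩⟩ = true := by
  decide +kernel

theorem p11hWLU_pos :
    PosBox ⟨⟨0, 1001, 1000⟩, ⟨2000, 2021, 3000⟩, ⟨320, 334, 1000⟩, ⟨800, 932, 1000⟩⟩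
      (piece11.hWL xTU) :=
  posBox_of_check p11hWLU_1

def p11hZU_1 :
    (piece11.hZ xTU).checkQuick
      ⟨507, ⟨8, 10, 18, 8⟩⟩
      ⟨⟨0, 1001, 1000⟩, ⟨2000, 2021, 3000⟩, ⟨320, 334, 1000⟩, ⟨800, 932, 1000⟩⟩ = true := by
  decide +kernel

theorem p11hZU_pos :
    PosBox ⟨⟨0, 1001, 1000⟩, ⟨2000, 2021, 3000⟩, ⟨320, 334, 1000⟩, ⟨800, 932, 1000⟩⟩
      (piece11.hZ xTU) :=
  posBox_of_check p11hZU_1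

def p11hKp_1 :
    (piece11.hKp).checkQuick
      ⟨78, ⟨1, 1, 3, 3⟩⟩
      ⟨⟨0, 1001, 1000⟩, ⟨2000, 2021, 3000⟩, ⟨320, 334, 1000⟩, ⟨800, 932, 1000⟩⟩ = true := by
  decide +kernel

theorem p11hKp_pos :
    PosBox ⟨⟨0, 1001, 1000⟩, ⟨2000, 2021, 3000⟩, ⟨320, 334, 1000⟩, ⟨800, 932, 1000⟩⟩
      (piece11.hKp) :=
  posBox_of_check p11hKp_1

def p11hKm_1 :
    (piece11.hKm).checkQuick
      ⟨91, ⟨1, 1, 3, 3⟩⟩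
      ⟨⟨0, 1001, 1000⟩, ⟨2000, 2021, 3000⟩, ⟨320, 334, 1000⟩, ⟨800, 932, 1000⟩⟩ = true := by
  decide +kernel

theorem p11hKm_pos :
    PosBox ⟨⟨0, 1001, 1000⟩, ⟨2000, 2021, 3000⟩, ⟨320, 334, 1000⟩, ⟨800, 932, 1000⟩⟩
      (piece11.hKm) :=
  posBox_of_check p11hKm_1

def p11hMZeroLo_1 :
    (piece11.hM₀ piece11.xPL).checkQuick
      ⟨216, ⟨2, 5, 9, 6⟩⟩
      ⟨⟨0, 1001, 1000⟩, ⟨2000, 2021, 3000⟩, ⟨320, 334, 1000⟩, ⟨800, 932, 1000⟩⟩ = true := by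
  decide +kernel

theorem p11hMZeroLo_pos :
    PosBox ⟨⟨0, 1001, 1000⟩, ⟨2000, 2021, 3000⟩, ⟨320, 334, 1000⟩, ⟨800, 932, 1000⟩⟩
      (piece11.hM₀ piece11.xPL) :=
  posBox_of_check p11hMZeroLo_1

def p11hC1Lo_1 :
    (piece11.hC1 piece11.xPL).checkQuick
      ⟨245, ⟨3, 5, 9, 8⟩⟩
      ⟨⟨0, 1001, 1000⟩, ⟨2000, 2021, 3000⟩, ⟨320, 334, 1000⟩, ⟨800, 932, 1000⟩⟩ = true := by
  decide +kernel

theorem p11hC1Lo_pos :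
    PosBox ⟨⟨0, 1001, 1000⟩, ⟨2000, 2021, 3000⟩, ⟨320, 334, 1000⟩, ⟨800, 932, 1000⟩⟩
      (piece11.hC1 piece11.xPL) :=
  posBox_of_check p11hC1Lo_1

def p11hGLoZLo_1 :
    (piece11.hG piece11.xPL piece11.zLo).checkQuick
      ⟨353, ⟨2, 7, 16, 11⟩⟩
      ⟨⟨0, 1001, 1000⟩, ⟨2000, 2021, 3000⟩, ⟨320, 334, 1000⟩, ⟨800, 932, 1000⟩⟩ = true := by
  decide +kernel

theorem p11hGLoZLo_pos :
    PosBox ⟨⟨0, 1001, 1000⟩, ⟨2000, 2021, 3000⟩, ⟨320, 334, 1000⟩, ⟨800, 932, 1000⟩⟩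
      (piece11.hG piece11.xPL piece11.zLo) :=
  posBox_of_check p11hGLoZLo_1

def p11hFourLoZLo :
    ((piece11.hC2p piece11.xPL piece11.zLo).checkQuick ⟨442, ⟨3, 8, 19, 14⟩⟩
        ⟨⟨0, 1001, 1000⟩, ⟨2000, 2021, 3000⟩, ⟨320, 334, 1000⟩, ⟨800, 932, 1000⟩⟩ &&
      (piece11.hC2m piece11.xPL piece11.zLo).checkQuick ⟨442, ⟨3, 8, 19, 14⟩⟩
        ⟨⟨0, 1001, 1000⟩, ⟨2000, 2021, 3000⟩, ⟨320, 334, 1000⟩, ⟨800, 932, 1000⟩⟩ &&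
      (piece11.hC3p piece11.xPL piece11.zLo).checkQuick ⟨442, ⟨3, 8, 19, 14⟩⟩
        ⟨⟨0, 1001, 1000⟩, ⟨2000, 2021, 3000⟩, ⟨320, 334, 1000⟩, ⟨800, 932, 1000⟩⟩ &&
      (piece11.hC3m piece11.xPL piece11.zLo).checkQuick ⟨442, ⟨3, 8, 19, 14⟩⟩
        ⟨⟨0, 1001, 1000⟩, ⟨2000, 2021, 3000⟩, ⟨320, 334, 1000⟩, ⟨800, 932, 1000⟩⟩) = true := by
  decide +kernel

theorem p11hC2pLoZLo_pos :
    PosBox ⟨⟨0, 1001, 1000⟩, ⟨2000, 2021, 3000⟩, ⟨320, 334, 1000⟩, ⟨800, 932, 1000⟩⟩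
      (piece11.hC2p piece11.xPL piece11.zLo) :=
  posBox_of_check (and_four p11hFourLoZLo).1

theorem p11hC2mLoZLo_pos :
    PosBox ⟨⟨0, 1001, 1000⟩, ⟨2000, 2021, 3000⟩, ⟨320, 334, 1000⟩, ⟨800, 932, 1000⟩⟩
      (piece11.hC2m piece11.xPL piece11.zLo) :=
  posBox_of_check (and_four p11hFourLoZLo).2.1

theorem p11hC3pLoZLo_pos :
    PosBox ⟨⟨0, 1001, 1000⟩, ⟨2000, 2021, 3000⟩, ⟨320, 334, 1000⟩, ⟨800, 932, 1000⟩⟩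
      (piece11.hC3p piece11.xPL piece11.zLo) :=
  posBox_of_check (and_four p11hFourLoZLo).2.2.1

theorem p11hC3mLoZLo_pos :
    PosBox ⟨⟨0, 1001, 1000⟩, ⟨2000, 2021, 3000⟩, ⟨320, 334, 1000⟩, ⟨800, 932, 1000⟩⟩
      (piece11.hC3m piece11.xPL piece11.zLo) :=
  posBox_of_check (and_four p11hFourLoZLo).2.2.2

def p11hNLoZLo_1 :
    (piece11.hN piece11.xPL piece11.zLo).checkQuick
      ⟨336, ⟨2, 7, 15, 10⟩⟩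
      ⟨⟨0, 1001, 1000⟩, ⟨2000, 2021, 3000⟩, ⟨320, 334, 1000⟩, ⟨800, 932, 1000⟩⟩ = true := by
  decide +kernel

theorem p11hNLoZLo_pos :
    PosBox ⟨⟨0, 1001, 1000⟩, ⟨2000, 2021, 3000⟩, ⟨320, 334, 1000⟩, ⟨800, 932, 1000⟩⟩
      (piece11.hN piece11.xPL piece11.zLo) :=
  posBox_of_check p11hNLoZLo_1

def p11hGLoZHi_1 :
    (piece11.hG piece11.xPL zHi).checkQuick
      ⟨310, ⟨2, 7, 14, 9⟩⟩
      ⟨⟨0, 1001, 1000⟩, ⟨2000, 2021, 3000⟩, ⟨320, 334, 1000⟩, ⟨800, 932, 1000⟩⟩ = true := by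
  decide +kernel

theorem p11hGLoZHi_pos :
    PosBox ⟨⟨0, 1001, 1000⟩, ⟨2000, 2021, 3000⟩, ⟨320, 334, 1000⟩, ⟨800, 932, 1000⟩⟩
      (piece11.hG piece11.xPL zHi) :=
  posBox_of_check p11hGLoZHi_1

def p11hFourLoZHi :
    ((piece11.hC2p piece11.xPL zHi).checkQuick ⟨399, ⟨3, 8, 17, 12⟩⟩
        ⟨⟨0, 1001, 1000⟩, ⟨2000, 2021, 3000⟩, ⟨320, 334, 1000⟩, ⟨800, 932, 1000⟩⟩ &&
      (piece11.hC2m piece11.xPL zHi).checkQuick ⟨399, ⟨3, 8, 17, 12⟩⟩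
        ⟨⟨0, 1001, 1000⟩, ⟨2000, 2021, 3000⟩, ⟨320, 334, 1000⟩, ⟨800, 932, 1000⟩⟩ &&
      (piece11.hC3p piece11.xPL zHi).checkQuick ⟨399, ⟨3, 8, 17, 12⟩⟩
        ⟨⟨0, 1001, 1000⟩, ⟨2000, 2021, 3000⟩, ⟨320, 334, 1000⟩, ⟨800, 932, 1000⟩⟩ &&
      (piece11.hC3m piece11.xPL zHi).checkQuick ⟨399, ⟨3, 8, 17, 12⟩⟩
        ⟨⟨0, 1001, 1000⟩, ⟨2000, 2021, 3000⟩, ⟨320, 334, 1000⟩, ⟨800, 932, 1000⟩⟩) = true := by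
  decide +kernel

theorem p11hC2pLoZHi_pos :
    PosBox ⟨⟨0, 1001, 1000⟩, ⟨2000, 2021, 3000⟩, ⟨320, 334, 1000⟩, ⟨800, 932, 1000⟩⟩
      (piece11.hC2p piece11.xPL zHi) :=
  posBox_of_check (and_four p11hFourLoZHi).1

theorem p11hC2mLoZHi_pos :
    PosBox ⟨⟨0, 1001, 1000⟩, ⟨2000, 2021, 3000⟩, ⟨320, 334, 1000⟩, ⟨800, 932, 1000⟩⟩
      (piece11.hC2m piece11.xPL zHi) :=
  posBox_of_check (and_four p11hFourLoZHi).2.1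

theorem p11hC3pLoZHi_pos :
    PosBox ⟨⟨0, 1001, 1000⟩, ⟨2000, 2021, 3000⟩, ⟨320, 334, 1000⟩, ⟨800, 932, 1000⟩⟩
      (piece11.hC3p piece11.xPL zHi) :=
  posBox_of_check (and_four p11hFourLoZHi).2.2.1

theorem p11hC3mLoZHi_pos :
    PosBox ⟨⟨0, 1001, 1000⟩, ⟨2000, 2021, 3000⟩, ⟨320, 334, 1000⟩, ⟨800, 932, 1000⟩⟩
      (piece11.hC3m piece11.xPL zHi) :=
  posBox_of_check (and_four p11hFourLoZHi).2.2.2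

def p11hNLoZHi_1 :
    (piece11.hN piece11.xPL zHi).checkQuick
      ⟨326, ⟨2, 7, 14, 10⟩⟩
      ⟨⟨0, 1001, 1000⟩, ⟨2000, 2021, 3000⟩, ⟨320, 334, 1000⟩, ⟨800, 932, 1000⟩⟩ = true := by
  decide +kernel

theorem p11hNLoZHi_pos :
    PosBox ⟨⟨0, 1001, 1000⟩, ⟨2000, 2021, 3000⟩, ⟨320, 334, 1000⟩, ⟨800, 932, 1000⟩⟩
      (piece11.hN piece11.xPL zHi) :=
  posBox_of_check p11hNLoZHi_1

def p11hV2p_1 :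
    (piece11.hV2p).checkQuick
      ⟨227, ⟨1, 6, 11, 6⟩⟩
      ⟨⟨0, 1001, 1000⟩, ⟨2000, 2021, 3000⟩, ⟨320, 334, 1000⟩, ⟨800, 932, 1000⟩⟩ = true := by
  decide +kernel

theorem p11hV2p_pos :
    PosBox ⟨⟨0, 1001, 1000⟩, ⟨2000, 2021, 3000⟩, ⟨320, 334, 1000⟩, ⟨800, 932, 1000⟩⟩
      (piece11.hV2p) :=
  posBox_of_check p11hV2p_1

def p11hV2m_1 :
    (piece11.hV2m).checkQuick
      ⟨233, ⟨1, 6, 11, 6⟩⟩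
      ⟨⟨0, 1001, 1000⟩, ⟨2000, 2021, 3000⟩, ⟨320, 334, 1000⟩, ⟨800, 932, 1000⟩⟩ = true := by
  decide +kernel

theorem p11hV2m_pos :
    PosBox ⟨⟨0, 1001, 1000⟩, ⟨2000, 2021, 3000⟩, ⟨320, 334, 1000⟩, ⟨800, 932, 1000⟩⟩
      (piece11.hV2m) :=
  posBox_of_check p11hV2m_1

def p11hV3p_1 :
    (piece11.hV3p).checkQuick
      ⟨218, ⟨1, 6, 10, 6⟩⟩
      ⟨⟨0, 1001, 1000⟩, ⟨2000, 2021, 3000⟩, ⟨320, 334, 1000⟩, ⟨800, 932, 1000⟩⟩ = true := by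
  decide +kernel

theorem p11hV3p_pos :
    PosBox ⟨⟨0, 1001, 1000⟩, ⟨2000, 2021, 3000⟩, ⟨320, 334, 1000⟩, ⟨800, 932, 1000⟩⟩
      (piece11.hV3p) :=
  posBox_of_check p11hV3p_1

def p11hV3m_1 :
    (piece11.hV3m).checkQuick
      ⟨222, ⟨1, 6, 10, 6⟩⟩
      ⟨⟨0, 1001, 1000⟩, ⟨2000, 2021, 3000⟩, ⟨320, 334, 1000⟩, ⟨800, 932, 1000⟩⟩ = true := by
  decide +kernel

theorem p11hV3m_pos :
    PosBox ⟨⟨0, 1001, 1000⟩, ⟨2000, 2021, 3000⟩, ⟨320, 334, 1000⟩, ⟨800, 932, 1000⟩⟩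
      (piece11.hV3m) :=
  posBox_of_check p11hV3m_1

def p11hMZeroHi_1 :
    (piece11.hM₀ piece11.xPU).checkQuick
      ⟨217, ⟨2, 5, 9, 6⟩⟩
      ⟨⟨0, 1001, 1000⟩, ⟨2000, 2021, 3000⟩, ⟨320, 334, 1000⟩, ⟨800, 932, 1000⟩⟩ = true := by
  decide +kernel

theorem p11hMZeroHi_pos :
    PosBox ⟨⟨0, 1001, 1000⟩, ⟨2000, 2021, 3000⟩, ⟨320, 334, 1000⟩, ⟨800, 932, 1000⟩⟩
      (piece11.hM₀ piece11.xPU) :=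
  posBox_of_check p11hMZeroHi_1

def p11hC1Hi_1 :
    (piece11.hC1 piece11.xPU).checkQuick
      ⟨246, ⟨3, 5, 9, 8⟩⟩
      ⟨⟨0, 1001, 1000⟩, ⟨2000, 2021, 3000⟩, ⟨320, 334, 1000⟩, ⟨800, 932, 1000⟩⟩ = true := by
  decide +kernel

theorem p11hC1Hi_pos :
    PosBox ⟨⟨0, 1001, 1000⟩, ⟨2000, 2021, 3000⟩, ⟨320, 334, 1000⟩, ⟨800, 932, 1000⟩⟩
      (piece11.hC1 piece11.xPU) :=
  posBox_of_check p11hC1Hi_1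

def p11hGHiZLo_1 :
    (piece11.hG piece11.xPU piece11.zLo).checkQuick
      ⟨354, ⟨2, 7, 16, 11⟩⟩
      ⟨⟨0, 1001, 1000⟩, ⟨2000, 2021, 3000⟩, ⟨320, 334, 1000⟩, ⟨800, 932, 1000⟩⟩ = true := by
  decide +kernel

theorem p11hGHiZLo_pos :
    PosBox ⟨⟨0, 1001, 1000⟩, ⟨2000, 2021, 3000⟩, ⟨320, 334, 1000⟩, ⟨800, 932, 1000⟩⟩
      (piece11.hG piece11.xPU piece11.zLo) :=
  posBox_of_check p11hGHiZLo_1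

def p11hFourHiZLo :
    ((piece11.hC2p piece11.xPU piece11.zLo).checkQuick ⟨443, ⟨3, 8, 19, 14⟩⟩
        ⟨⟨0, 1001, 1000⟩, ⟨2000, 2021, 3000⟩, ⟨320, 334, 1000⟩, ⟨800, 932, 1000⟩⟩ &&
      (piece11.hC2m piece11.xPU piece11.zLo).checkQuick ⟨443, ⟨3, 8, 19, 14⟩⟩
        ⟨⟨0, 1001, 1000⟩, ⟨2000, 2021, 3000⟩, ⟨320, 334, 1000⟩, ⟨800, 932, 1000⟩⟩ &&
      (piece11.hC3p piece11.xPU piece11.zLo).checkQuick ⟨443, ⟨3, 8, 19, 14⟩⟩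
        ⟨⟨0, 1001, 1000⟩, ⟨2000, 2021, 3000⟩, ⟨320, 334, 1000⟩, ⟨800, 932, 1000⟩⟩ &&
      (piece11.hC3m piece11.xPU piece11.zLo).checkQuick ⟨443, ⟨3, 8, 19, 14⟩⟩
        ⟨⟨0, 1001, 1000⟩, ⟨2000, 2021, 3000⟩, ⟨320, 334, 1000⟩, ⟨800, 932, 1000⟩⟩) = true := by
  decide +kernel

theorem p11hC2pHiZLo_pos :
    PosBox ⟨⟨0, 1001, 1000⟩, ⟨2000, 2021, 3000⟩, ⟨320, 334, 1000⟩, ⟨800, 932, 1000⟩⟩
      (piece11.hC2p piece11.xPU piece11.zLo) :=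
  posBox_of_check (and_four p11hFourHiZLo).1

theorem p11hC2mHiZLo_pos :
    PosBox ⟨⟨0, 1001, 1000⟩, ⟨2000, 2021, 3000⟩, ⟨320, 334, 1000⟩, ⟨800, 932, 1000⟩⟩
      (piece11.hC2m piece11.xPU piece11.zLo) :=
  posBox_of_check (and_four p11hFourHiZLo).2.1

theorem p11hC3pHiZLo_pos :
    PosBox ⟨⟨0, 1001, 1000⟩, ⟨2000, 2021, 3000⟩, ⟨320, 334, 1000⟩, ⟨800, 932, 1000⟩⟩
      (piece11.hC3p piece11.xPU piece11.zLo) :=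
  posBox_of_check (and_four p11hFourHiZLo).2.2.1

theorem p11hC3mHiZLo_pos :
    PosBox ⟨⟨0, 1001, 1000⟩, ⟨2000, 2021, 3000⟩, ⟨320, 334, 1000⟩, ⟨800, 932, 1000⟩⟩
      (piece11.hC3m piece11.xPU piece11.zLo) :=
  posBox_of_check (and_four p11hFourHiZLo).2.2.2

def p11hNHiZLo_1 :
    (piece11.hN piece11.xPU piece11.zLo).checkQuick
      ⟨337, ⟨2, 7, 15, 10⟩⟩
      ⟨⟨0, 1001, 1000⟩, ⟨2000, 2021, 3000⟩, ⟨320, 334, 1000⟩, ⟨800, 932, 1000⟩⟩ = true := by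
  decide +kernel

theorem p11hNHiZLo_pos :
    PosBox ⟨⟨0, 1001, 1000⟩, ⟨2000, 2021, 3000⟩, ⟨320, 334, 1000⟩, ⟨800, 932, 1000⟩⟩
      (piece11.hN piece11.xPU piece11.zLo) :=
  posBox_of_check p11hNHiZLo_1

def p11hGHiZHi_1 :
    (piece11.hG piece11.xPU zHi).checkQuick
      ⟨311, ⟨2, 7, 14, 9⟩⟩
      ⟨⟨0, 1001, 1000⟩, ⟨2000, 2021, 3000⟩, ⟨320, 334, 1000⟩, ⟨800, 932, 1000⟩⟩ = true := by
  decide +kernel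

theorem p11hGHiZHi_pos :
    PosBox ⟨⟨0, 1001, 1000⟩, ⟨2000, 2021, 3000⟩, ⟨320, 334, 1000⟩, ⟨800, 932, 1000⟩⟩
      (piece11.hG piece11.xPU zHi) :=
  posBox_of_check p11hGHiZHi_1

def p11hFourHiZHi :
    ((piece11.hC2p piece11.xPU zHi).checkQuick ⟨400, ⟨3, 8, 17, 12⟩⟩
        ⟨⟨0, 1001, 1000⟩, ⟨2000, 2021, 3000⟩, ⟨320, 334, 1000⟩, ⟨800, 932, 1000⟩⟩ &&
      (piece11.hC2m piece11.xPU zHi).checkQuick ⟨400, ⟨3, 8, 17, 12⟩⟩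
        ⟨⟨0, 1001, 1000⟩, ⟨2000, 2021, 3000⟩, ⟨320, 334, 1000⟩, ⟨800, 932, 1000⟩⟩ &&
      (piece11.hC3p piece11.xPU zHi).checkQuick ⟨400, ⟨3, 8, 17, 12⟩⟩
        ⟨⟨0, 1001, 1000⟩, ⟨2000, 2021, 3000⟩, ⟨320, 334, 1000⟩, ⟨800, 932, 1000⟩⟩ &&
      (piece11.hC3m piece11.xPU zHi).checkQuick ⟨400, ⟨3, 8, 17, 12⟩⟩
        ⟨⟨0, 1001, 1000⟩, ⟨2000, 2021, 3000⟩, ⟨320, 334, 1000⟩, ⟨800, 932, 1000⟩⟩) = true := by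
  decide +kernel

theorem p11hC2pHiZHi_pos :
    PosBox ⟨⟨0, 1001, 1000⟩, ⟨2000, 2021, 3000⟩, ⟨320, 334, 1000⟩, ⟨800, 932, 1000⟩⟩
      (piece11.hC2p piece11.xPU zHi) :=
  posBox_of_check (and_four p11hFourHiZHi).1

theorem p11hC2mHiZHi_pos :
    PosBox ⟨⟨0, 1001, 1000⟩, ⟨2000, 2021, 3000⟩, ⟨320, 334, 1000⟩, ⟨800, 932, 1000⟩⟩
      (piece11.hC2m piece11.xPU zHi) :=
  posBox_of_check (and_four p11hFourHiZHi).2.1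

theorem p11hC3pHiZHi_pos :
    PosBox ⟨⟨0, 1001, 1000⟩, ⟨2000, 2021, 3000⟩, ⟨320, 334, 1000⟩, ⟨800, 932, 1000⟩⟩
      (piece11.hC3p piece11.xPU zHi) :=
  posBox_of_check (and_four p11hFourHiZHi).2.2.1

theorem p11hC3mHiZHi_pos :
    PosBox ⟨⟨0, 1001, 1000⟩, ⟨2000, 2021, 3000⟩, ⟨320, 334, 1000⟩, ⟨800, 932, 1000⟩⟩
      (piece11.hC3m piece11.xPU zHi) :=
  posBox_of_check (and_four p11hFourHiZHi).2.2.2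

def p11hNHiZHi_1 :
    (piece11.hN piece11.xPU zHi).checkQuick
      ⟨326, ⟨2, 7, 14, 10⟩⟩
      ⟨⟨0, 1001, 1000⟩, ⟨2000, 2021, 3000⟩, ⟨320, 334, 1000⟩, ⟨800, 932, 1000⟩⟩ = true := by
  decide +kernel

theorem p11hNHiZHi_pos :
    PosBox ⟨⟨0, 1001, 1000⟩, ⟨2000, 2021, 3000⟩, ⟨320, 334, 1000⟩, ⟨800, 932, 1000⟩⟩
      (piece11.hN piece11.xPU zHi) :=
  posBox_of_check p11hNHiZHi_1

end Vale.Agent.P100.Calib.Closed.Six.Low
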