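import Vale.Agent.P100.Calib.SlabSixLowPieces

/-!
# Checks of the certificate of dimension six on `0 < u ≤ 3/5`
-/

-- The checks are definitions, so that they run one after another with little memory.
set_option linter.defProp false

namespace Vale.Agent.P100.Calib.Closed.Six.Low

open BoxPos
open Vale.Agent.P100.Calib.Closed.Large (PosBox posBox_of_check and_four posBox_join₀ posBox_join₂ posBox_join₃)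

def p2xRoom_1 :
    (piece2.xRoom).checkQuick
      ⟨30, ⟨0, 0, 1, 1⟩⟩
      ⟨⟨0, 1001, 1000⟩, ⟨2000, 2021, 3000⟩, ⟨0, 170, 1000⟩, ⟨860, 1128, 1000⟩⟩ = true := by
  decide +kernel

theorem p2xRoom_pos :
    PosBox ⟨⟨0, 1001, 1000⟩, ⟨2000, 2021, 3000⟩, ⟨0, 170, 1000⟩, ⟨860, 1128, 1000⟩⟩
      (piece2.xRoom) :=
  posBox_of_check p2xRoom_1

def p2xPhi_1 :
    (piece2.xPhi).checkQuick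
      ⟨83, ⟨0, 0, 4, 2⟩⟩
      ⟨⟨0, 1001, 1000⟩, ⟨2000, 2021, 3000⟩, ⟨0, 170, 1000⟩, ⟨860, 1128, 1000⟩⟩ = true := by
  decide +kernel

theorem p2xPhi_pos :
    PosBox ⟨⟨0, 1001, 1000⟩, ⟨2000, 2021, 3000⟩, ⟨0, 170, 1000⟩, ⟨860, 1128, 1000⟩⟩
      (piece2.xPhi) :=
  posBox_of_check p2xPhi_1

def p2hELL_1 :
    (piece2.hEL xTL).checkQuick
      ⟨327, ⟨5, 8, 11, 6⟩⟩
      ⟨⟨0, 1001, 1000⟩, ⟨2000, 2021, 3000⟩, ⟨0, 170, 1000⟩, ⟨860, 1128, 1000⟩⟩ = true := by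
  decide +kernel

theorem p2hELL_pos :
    PosBox ⟨⟨0, 1001, 1000⟩, ⟨2000, 2021, 3000⟩, ⟨0, 170, 1000⟩, ⟨860, 1128, 1000⟩⟩
      (piece2.hEL xTL) :=
  posBox_of_check p2hELL_1

def p2hEHL_1 :
    (piece2.hEH xTL).checkQuick
      ⟨327, ⟨5, 8, 11, 6⟩⟩
      ⟨⟨0, 1001, 1000⟩, ⟨2000, 2021, 3000⟩, ⟨0, 170, 1000⟩, ⟨860, 1128, 1000⟩⟩ = true := by
  decide +kernel

theorem p2hEHL_pos :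
    PosBox ⟨⟨0, 1001, 1000⟩, ⟨2000, 2021, 3000⟩, ⟨0, 170, 1000⟩, ⟨860, 1128, 1000⟩⟩
      (piece2.hEH xTL) :=
  posBox_of_check p2hEHL_1

def p2hPLL_1 :
    (piece2.hPL xTL).checkQuick
      ⟨353, ⟨5, 8, 11, 7⟩⟩
      ⟨⟨0, 1001, 1000⟩, ⟨2000, 2021, 3000⟩, ⟨0, 170, 1000⟩, ⟨860, 1128, 1000⟩⟩ = true := by
  decide +kernel

theorem p2hPLL_pos :
    PosBox ⟨⟨0, 1001, 1000⟩, ⟨2000, 2021, 3000⟩, ⟨0, 170, 1000⟩, ⟨860, 1128, 1000⟩⟩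
      (piece2.hPL xTL) :=
  posBox_of_check p2hPLL_1

def p2hPUL_1 :
    (piece2.hPU xTL).checkQuick
      ⟨353, ⟨5, 8, 11, 7⟩⟩
      ⟨⟨0, 1001, 1000⟩, ⟨2000, 2021, 3000⟩, ⟨0, 170, 1000⟩, ⟨860, 1128, 1000⟩⟩ = true := by
  decide +kernel

theorem p2hPUL_pos :
    PosBox ⟨⟨0, 1001, 1000⟩, ⟨2000, 2021, 3000⟩, ⟨0, 170, 1000⟩, ⟨860, 1128, 1000⟩⟩
      (piece2.hPU xTL) :=
  posBox_of_check p2hPUL_1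

def p2hKUL_1 :
    (piece2.hKU xTL).checkQuick
      ⟨348, ⟨5, 8, 11, 7⟩⟩
      ⟨⟨0, 1001, 1000⟩, ⟨2000, 2021, 3000⟩, ⟨0, 170, 1000⟩, ⟨860, 1128, 1000⟩⟩ = true := by
  decide +kernel

theorem p2hKUL_pos :
    PosBox ⟨⟨0, 1001, 1000⟩, ⟨2000, 2021, 3000⟩, ⟨0, 170, 1000⟩, ⟨860, 1128, 1000⟩⟩
      (piece2.hKU xTL) :=
  posBox_of_check p2hKUL_1

def p2hKLL_1 :
    (piece2.hKL xTL).checkQuick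
      ⟨348, ⟨5, 8, 11, 7⟩⟩
      ⟨⟨0, 1001, 1000⟩, ⟨2000, 2021, 3000⟩, ⟨0, 170, 1000⟩, ⟨860, 1128, 1000⟩⟩ = true := by
  decide +kernel

theorem p2hKLL_pos :
    PosBox ⟨⟨0, 1001, 1000⟩, ⟨2000, 2021, 3000⟩, ⟨0, 170, 1000⟩, ⟨860, 1128, 1000⟩⟩
      (piece2.hKL xTL) :=
  posBox_of_check p2hKLL_1

def p2hWUL_1 :
    (piece2.hWU xTL).checkQuick
      ⟨352, ⟨5, 7, 11, 7⟩⟩
      ⟨⟨0, 1001, 1000⟩, ⟨2000, 2021, 3000⟩, ⟨0, 170, 1000⟩, ⟨860, 1128, 1000⟩⟩ = true := by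
  decide +kernel

theorem p2hWUL_pos :
    PosBox ⟨⟨0, 1001, 1000⟩, ⟨2000, 2021, 3000⟩, ⟨0, 170, 1000⟩, ⟨860, 1128, 1000⟩⟩
      (piece2.hWU xTL) :=
  posBox_of_check p2hWUL_1

def p2hWLL_1 :
    (piece2.hWL xTL).checkQuick
      ⟨352, ⟨5, 7, 11, 7⟩⟩
      ⟨⟨0, 1001, 1000⟩, ⟨2000, 2021, 3000⟩, ⟨0, 170, 1000⟩, ⟨860, 1128, 1000⟩⟩ = true := by
  decide +kernel

theorem p2hWLL_pos :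
    PosBox ⟨⟨0, 1001, 1000⟩, ⟨2000, 2021, 3000⟩, ⟨0, 170, 1000⟩, ⟨860, 1128, 1000⟩⟩
      (piece2.hWL xTL) :=
  posBox_of_check p2hWLL_1

def p2hZL_1 :
    (piece2.hZ xTL).checkQuick
      ⟨499, ⟨8, 10, 18, 8⟩⟩
      ⟨⟨0, 1001, 1000⟩, ⟨2000, 2021, 3000⟩, ⟨0, 170, 1000⟩, ⟨860, 1128, 1000⟩⟩ = true := by
  decide +kernel

theorem p2hZL_pos :
    PosBox ⟨⟨0, 1001, 1000⟩, ⟨2000, 2021, 3000⟩, ⟨0, 170, 1000⟩, ⟨860, 1128, 1000⟩⟩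
      (piece2.hZ xTL) :=
  posBox_of_check p2hZL_1

def p2hELU_1 :
    (piece2.hEL xTU).checkQuick
      ⟨341, ⟨5, 8, 12, 6⟩⟩
      ⟨⟨0, 1001, 1000⟩, ⟨2000, 2021, 3000⟩, ⟨0, 170, 1000⟩, ⟨860, 1128, 1000⟩⟩ = true := by
  decide +kernel

theorem p2hELU_pos :
    PosBox ⟨⟨0, 1001, 1000⟩, ⟨2000, 2021, 3000⟩, ⟨0, 170, 1000⟩, ⟨860, 1128, 1000⟩⟩
      (piece2.hEL xTU) :=
  posBox_of_check p2hELU_1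

def p2hEHU_1 :
    (piece2.hEH xTU).checkQuick
      ⟨341, ⟨5, 8, 12, 6⟩⟩
      ⟨⟨0, 1001, 1000⟩, ⟨2000, 2021, 3000⟩, ⟨0, 170, 1000⟩, ⟨860, 1128, 1000⟩⟩ = true := by
  decide +kernel

theorem p2hEHU_pos :
    PosBox ⟨⟨0, 1001, 1000⟩, ⟨2000, 2021, 3000⟩, ⟨0, 170, 1000⟩, ⟨860, 1128, 1000⟩⟩
      (piece2.hEH xTU) :=
  posBox_of_check p2hEHU_1

def p2hPLU_1 :
    (piece2.hPL xTU).checkQuick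
      ⟨367, ⟨5, 8, 12, 7⟩⟩
      ⟨⟨0, 1001, 1000⟩, ⟨2000, 2021, 3000⟩, ⟨0, 170, 1000⟩, ⟨860, 1128, 1000⟩⟩ = true := by
  decide +kernel

theorem p2hPLU_pos :
    PosBox ⟨⟨0, 1001, 1000⟩, ⟨2000, 2021, 3000⟩, ⟨0, 170, 1000⟩, ⟨860, 1128, 1000⟩⟩
      (piece2.hPL xTU) :=
  posBox_of_check p2hPLU_1

def p2hPUU_1 :
    (piece2.hPU xTU).checkQuick
      ⟨366, ⟨5, 8, 12, 7⟩⟩
      ⟨⟨0, 1001, 1000⟩, ⟨2000, 2021, 3000⟩, ⟨0, 85, 1000⟩, ⟨860, 1128, 1000⟩⟩ = true := by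
  decide +kernel

def p2hPUU_2 :
    (piece2.hPU xTU).checkQuick
      ⟨367, ⟨5, 8, 12, 7⟩⟩
      ⟨⟨0, 1001, 1000⟩, ⟨2000, 2021, 3000⟩, ⟨85, 170, 1000⟩, ⟨860, 1128, 1000⟩⟩ = true := by
  decide +kernel

theorem p2hPUU_pos :
    PosBox ⟨⟨0, 1001, 1000⟩, ⟨2000, 2021, 3000⟩, ⟨0, 170, 1000⟩, ⟨860, 1128, 1000⟩⟩
      (piece2.hPU xTU) :=
  posBox_join₂ (posBox_of_check p2hPUU_1) (posBox_of_check p2hPUU_2)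

def p2hKUU_1 :
    (piece2.hKU xTU).checkQuick
      ⟨362, ⟨5, 8, 12, 7⟩⟩
      ⟨⟨0, 1001, 1000⟩, ⟨2000, 2021, 3000⟩, ⟨0, 170, 1000⟩, ⟨860, 1128, 1000⟩⟩ = true := by
  decide +kernel

theorem p2hKUU_pos :
    PosBox ⟨⟨0, 1001, 1000⟩, ⟨2000, 2021, 3000⟩, ⟨0, 170, 1000⟩, ⟨860, 1128, 1000⟩⟩
      (piece2.hKU xTU) :=
  posBox_of_check p2hKUU_1

def p2hKLU_1 :
    (piece2.hKL xTU).checkQuick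
      ⟨362, ⟨5, 8, 12, 7⟩⟩
      ⟨⟨0, 1001, 1000⟩, ⟨2000, 2021, 3000⟩, ⟨0, 170, 1000⟩, ⟨860, 1128, 1000⟩⟩ = true := by
  decide +kernel

theorem p2hKLU_pos :
    PosBox ⟨⟨0, 1001, 1000⟩, ⟨2000, 2021, 3000⟩, ⟨0, 170, 1000⟩, ⟨860, 1128, 1000⟩⟩
      (piece2.hKL xTU) :=
  posBox_of_check p2hKLU_1

def p2hWUU_1 :
    (piece2.hWU xTU).checkQuick
      ⟨366, ⟨5, 7, 12, 7⟩⟩
      ⟨⟨0, 1001, 1000⟩, ⟨2000, 2021, 3000⟩, ⟨0, 170, 1000⟩, ⟨860, 1128, 1000⟩⟩ = true := by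
  decide +kernel

theorem p2hWUU_pos :
    PosBox ⟨⟨0, 1001, 1000⟩, ⟨2000, 2021, 3000⟩, ⟨0, 170, 1000⟩, ⟨860, 1128, 1000⟩⟩
      (piece2.hWU xTU) :=
  posBox_of_check p2hWUU_1

def p2hWLU_1 :
    (piece2.hWL xTU).checkQuick
      ⟨366, ⟨5, 7, 12, 7⟩⟩
      ⟨⟨0, 1001, 1000⟩, ⟨2000, 2021, 3000⟩, ⟨0, 170, 1000⟩, ⟨860, 1128, 1000⟩⟩ = true := by
  decide +kernel

theorem p2hWLU_pos :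
    PosBox ⟨⟨0, 1001, 1000⟩, ⟨2000, 2021, 3000⟩, ⟨0, 170, 1000⟩, ⟨860, 1128, 1000⟩⟩
      (piece2.hWL xTU) :=
  posBox_of_check p2hWLU_1

def p2hZU_1 :
    (piece2.hZ xTU).checkQuick
      ⟨499, ⟨8, 10, 18, 8⟩⟩
      ⟨⟨0, 1001, 1000⟩, ⟨2000, 2021, 3000⟩, ⟨0, 170, 1000⟩, ⟨860, 1128, 1000⟩⟩ = true := by
  decide +kernel

theorem p2hZU_pos :
    PosBox ⟨⟨0, 1001, 1000⟩, ⟨2000, 2021, 3000⟩, ⟨0, 170, 1000⟩, ⟨860, 1128, 1000⟩⟩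
      (piece2.hZ xTU) :=
  posBox_of_check p2hZU_1

def p2hKp_1 :
    (piece2.hKp).checkQuick
      ⟨87, ⟨1, 1, 3, 3⟩⟩
      ⟨⟨0, 1001, 1000⟩, ⟨2000, 2021, 3000⟩, ⟨0, 170, 1000⟩, ⟨860, 1128, 1000⟩⟩ = true := by
  decide +kernel

theorem p2hKp_pos :
    PosBox ⟨⟨0, 1001, 1000⟩, ⟨2000, 2021, 3000⟩, ⟨0, 170, 1000⟩, ⟨860, 1128, 1000⟩⟩
      (piece2.hKp) :=
  posBox_of_check p2hKp_1

def p2hKm_1 :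
    (piece2.hKm).checkQuick
      ⟨82, ⟨1, 1, 3, 3⟩⟩
      ⟨⟨0, 1001, 1000⟩, ⟨2000, 2021, 3000⟩, ⟨0, 170, 1000⟩, ⟨860, 1128, 1000⟩⟩ = true := by
  decide +kernel

theorem p2hKm_pos :
    PosBox ⟨⟨0, 1001, 1000⟩, ⟨2000, 2021, 3000⟩, ⟨0, 170, 1000⟩, ⟨860, 1128, 1000⟩⟩
      (piece2.hKm) :=
  posBox_of_check p2hKm_1

def p2hMZeroLo_1 :
    (piece2.hM₀ piece2.xPL).checkQuick
      ⟨214, ⟨2, 5, 9, 6⟩⟩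
      ⟨⟨0, 1001, 1000⟩, ⟨2000, 2021, 3000⟩, ⟨0, 170, 1000⟩, ⟨860, 1128, 1000⟩⟩ = true := by
  decide +kernel

theorem p2hMZeroLo_pos :
    PosBox ⟨⟨0, 1001, 1000⟩, ⟨2000, 2021, 3000⟩, ⟨0, 170, 1000⟩, ⟨860, 1128, 1000⟩⟩
      (piece2.hM₀ piece2.xPL) :=
  posBox_of_check p2hMZeroLo_1

def p2hC1Lo_1 :
    (piece2.hC1 piece2.xPL).checkQuick
      ⟨242, ⟨3, 5, 9, 8⟩⟩
      ⟨⟨0, 1001, 1000⟩, ⟨2000, 2021, 3000⟩, ⟨0, 170, 1000⟩, ⟨860, 1128, 1000⟩⟩ = true := by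
  decide +kernel

theorem p2hC1Lo_pos :
    PosBox ⟨⟨0, 1001, 1000⟩, ⟨2000, 2021, 3000⟩, ⟨0, 170, 1000⟩, ⟨860, 1128, 1000⟩⟩
      (piece2.hC1 piece2.xPL) :=
  posBox_of_check p2hC1Lo_1

def p2hGLoZLo_1 :
    (piece2.hG piece2.xPL piece2.zLo).checkQuick
      ⟨349, ⟨2, 7, 16, 11⟩⟩
      ⟨⟨0, 1001, 1000⟩, ⟨2000, 2021, 3000⟩, ⟨0, 170, 1000⟩, ⟨860, 1128, 1000⟩⟩ = true := by
  decide +kernel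

theorem p2hGLoZLo_pos :
    PosBox ⟨⟨0, 1001, 1000⟩, ⟨2000, 2021, 3000⟩, ⟨0, 170, 1000⟩, ⟨860, 1128, 1000⟩⟩
      (piece2.hG piece2.xPL piece2.zLo) :=
  posBox_of_check p2hGLoZLo_1

def p2hFourLoZLo :
    ((piece2.hC2p piece2.xPL piece2.zLo).checkQuick ⟨434, ⟨3, 8, 19, 14⟩⟩
        ⟨⟨0, 1001, 1000⟩, ⟨2000, 2021, 3000⟩, ⟨0, 170, 1000⟩, ⟨860, 1128, 1000⟩⟩ &&
      (piece2.hC2m piece2.xPL piece2.zLo).checkQuick ⟨434, ⟨3, 8, 19, 14⟩⟩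
        ⟨⟨0, 1001, 1000⟩, ⟨2000, 2021, 3000⟩, ⟨0, 170, 1000⟩, ⟨860, 1128, 1000⟩⟩ &&
      (piece2.hC3p piece2.xPL piece2.zLo).checkQuick ⟨434, ⟨3, 8, 19, 14⟩⟩
        ⟨⟨0, 1001, 1000⟩, ⟨2000, 2021, 3000⟩, ⟨0, 170, 1000⟩, ⟨860, 1128, 1000⟩⟩ &&
      (piece2.hC3m piece2.xPL piece2.zLo).checkQuick ⟨434, ⟨3, 8, 19, 14⟩⟩
        ⟨⟨0, 1001, 1000⟩, ⟨2000, 2021, 3000⟩, ⟨0, 170, 1000⟩, ⟨860, 1128, 1000⟩⟩) = true := by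
  decide +kernel

theorem p2hC2pLoZLo_pos :
    PosBox ⟨⟨0, 1001, 1000⟩, ⟨2000, 2021, 3000⟩, ⟨0, 170, 1000⟩, ⟨860, 1128, 1000⟩⟩
      (piece2.hC2p piece2.xPL piece2.zLo) :=
  posBox_of_check (and_four p2hFourLoZLo).1

theorem p2hC2mLoZLo_pos :
    PosBox ⟨⟨0, 1001, 1000⟩, ⟨2000, 2021, 3000⟩, ⟨0, 170, 1000⟩, ⟨860, 1128, 1000⟩⟩
      (piece2.hC2m piece2.xPL piece2.zLo) :=
  posBox_of_check (and_four p2hFourLoZLo).2.1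

theorem p2hC3pLoZLo_pos :
    PosBox ⟨⟨0, 1001, 1000⟩, ⟨2000, 2021, 3000⟩, ⟨0, 170, 1000⟩, ⟨860, 1128, 1000⟩⟩
      (piece2.hC3p piece2.xPL piece2.zLo) :=
  posBox_of_check (and_four p2hFourLoZLo).2.2.1

theorem p2hC3mLoZLo_pos :
    PosBox ⟨⟨0, 1001, 1000⟩, ⟨2000, 2021, 3000⟩, ⟨0, 170, 1000⟩, ⟨860, 1128, 1000⟩⟩
      (piece2.hC3m piece2.xPL piece2.zLo) :=
  posBox_of_check (and_four p2hFourLoZLo).2.2.2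

def p2hNLoZLo_1 :
    (piece2.hN piece2.xPL piece2.zLo).checkQuick
      ⟨332, ⟨2, 7, 15, 10⟩⟩
      ⟨⟨0, 1001, 1000⟩, ⟨2000, 2021, 3000⟩, ⟨0, 170, 1000⟩, ⟨860, 1128, 1000⟩⟩ = true := by
  decide +kernel

theorem p2hNLoZLo_pos :
    PosBox ⟨⟨0, 1001, 1000⟩, ⟨2000, 2021, 3000⟩, ⟨0, 170, 1000⟩, ⟨860, 1128, 1000⟩⟩
      (piece2.hN piece2.xPL piece2.zLo) :=
  posBox_of_check p2hNLoZLo_1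

def p2hGLoZHi_1 :
    (piece2.hG piece2.xPL zHi).checkQuick
      ⟨307, ⟨2, 7, 14, 9⟩⟩
      ⟨⟨0, 1001, 1000⟩, ⟨2000, 2021, 3000⟩, ⟨0, 170, 1000⟩, ⟨860, 1128, 1000⟩⟩ = true := by
  decide +kernel

theorem p2hGLoZHi_pos :
    PosBox ⟨⟨0, 1001, 1000⟩, ⟨2000, 2021, 3000⟩, ⟨0, 170, 1000⟩, ⟨860, 1128, 1000⟩⟩
      (piece2.hG piece2.xPL zHi) :=
  posBox_of_check p2hGLoZHi_1

def p2hFourLoZHi :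
    ((piece2.hC2p piece2.xPL zHi).checkQuick ⟨391, ⟨3, 8, 17, 12⟩⟩
        ⟨⟨0, 1001, 1000⟩, ⟨2000, 2021, 3000⟩, ⟨0, 170, 1000⟩, ⟨860, 1128, 1000⟩⟩ &&
      (piece2.hC2m piece2.xPL zHi).checkQuick ⟨391, ⟨3, 8, 17, 12⟩⟩
        ⟨⟨0, 1001, 1000⟩, ⟨2000, 2021, 3000⟩, ⟨0, 170, 1000⟩, ⟨860, 1128, 1000⟩⟩ &&
      (piece2.hC3p piece2.xPL zHi).checkQuick ⟨391, ⟨3, 8, 17, 12⟩⟩
        ⟨⟨0, 1001, 1000⟩, ⟨2000, 2021, 3000⟩, ⟨0, 170, 1000⟩, ⟨860, 1128, 1000⟩⟩ &&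
      (piece2.hC3m piece2.xPL zHi).checkQuick ⟨391, ⟨3, 8, 17, 12⟩⟩
        ⟨⟨0, 1001, 1000⟩, ⟨2000, 2021, 3000⟩, ⟨0, 170, 1000⟩, ⟨860, 1128, 1000⟩⟩) = true := by
  decide +kernel

theorem p2hC2pLoZHi_pos :
    PosBox ⟨⟨0, 1001, 1000⟩, ⟨2000, 2021, 3000⟩, ⟨0, 170, 1000⟩, ⟨860, 1128, 1000⟩⟩
      (piece2.hC2p piece2.xPL zHi) :=
  posBox_of_check (and_four p2hFourLoZHi).1

theorem p2hC2mLoZHi_pos :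
    PosBox ⟨⟨0, 1001, 1000⟩, ⟨2000, 2021, 3000⟩, ⟨0, 170, 1000⟩, ⟨860, 1128, 1000⟩⟩
      (piece2.hC2m piece2.xPL zHi) :=
  posBox_of_check (and_four p2hFourLoZHi).2.1

theorem p2hC3pLoZHi_pos :
    PosBox ⟨⟨0, 1001, 1000⟩, ⟨2000, 2021, 3000⟩, ⟨0, 170, 1000⟩, ⟨860, 1128, 1000⟩⟩
      (piece2.hC3p piece2.xPL zHi) :=
  posBox_of_check (and_four p2hFourLoZHi).2.2.1

theorem p2hC3mLoZHi_pos :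
    PosBox ⟨⟨0, 1001, 1000⟩, ⟨2000, 2021, 3000⟩, ⟨0, 170, 1000⟩, ⟨860, 1128, 1000⟩⟩
      (piece2.hC3m piece2.xPL zHi) :=
  posBox_of_check (and_four p2hFourLoZHi).2.2.2

def p2hNLoZHi_1 :
    (piece2.hN piece2.xPL zHi).checkQuick
      ⟨322, ⟨2, 7, 14, 10⟩⟩
      ⟨⟨0, 1001, 1000⟩, ⟨2000, 2021, 3000⟩, ⟨0, 170, 1000⟩, ⟨860, 1128, 1000⟩⟩ = true := by
  decide +kernel

theorem p2hNLoZHi_pos :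
    PosBox ⟨⟨0, 1001, 1000⟩, ⟨2000, 2021, 3000⟩, ⟨0, 170, 1000⟩, ⟨860, 1128, 1000⟩⟩
      (piece2.hN piece2.xPL zHi) :=
  posBox_of_check p2hNLoZHi_1

def p2hV2p_1 :
    (piece2.hV2p).checkQuick
      ⟨226, ⟨1, 6, 11, 6⟩⟩
      ⟨⟨0, 1001, 1000⟩, ⟨2000, 2021, 3000⟩, ⟨0, 170, 1000⟩, ⟨860, 1128, 1000⟩⟩ = true := by
  decide +kernel

theorem p2hV2p_pos :
    PosBox ⟨⟨0, 1001, 1000⟩, ⟨2000, 2021, 3000⟩, ⟨0, 170, 1000⟩, ⟨860, 1128, 1000⟩⟩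
      (piece2.hV2p) :=
  posBox_of_check p2hV2p_1

def p2hV2m_1 :
    (piece2.hV2m).checkQuick
      ⟨222, ⟨1, 6, 11, 6⟩⟩
      ⟨⟨0, 1001, 1000⟩, ⟨2000, 2021, 3000⟩, ⟨0, 170, 1000⟩, ⟨860, 1128, 1000⟩⟩ = true := by
  decide +kernel

theorem p2hV2m_pos :
    PosBox ⟨⟨0, 1001, 1000⟩, ⟨2000, 2021, 3000⟩, ⟨0, 170, 1000⟩, ⟨860, 1128, 1000⟩⟩
      (piece2.hV2m) :=
  posBox_of_check p2hV2m_1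

def p2hV3p_1 :
    (piece2.hV3p).checkQuick
      ⟨215, ⟨1, 6, 10, 6⟩⟩
      ⟨⟨0, 1001, 1000⟩, ⟨2000, 2021, 3000⟩, ⟨0, 170, 1000⟩, ⟨860, 1128, 1000⟩⟩ = true := by
  decide +kernel

theorem p2hV3p_pos :
    PosBox ⟨⟨0, 1001, 1000⟩, ⟨2000, 2021, 3000⟩, ⟨0, 170, 1000⟩, ⟨860, 1128, 1000⟩⟩
      (piece2.hV3p) :=
  posBox_of_check p2hV3p_1

def p2hV3m_1 :
    (piece2.hV3m).checkQuick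
      ⟨214, ⟨1, 6, 10, 6⟩⟩
      ⟨⟨0, 1001, 1000⟩, ⟨2000, 2021, 3000⟩, ⟨0, 170, 1000⟩, ⟨860, 1128, 1000⟩⟩ = true := by
  decide +kernel

theorem p2hV3m_pos :
    PosBox ⟨⟨0, 1001, 1000⟩, ⟨2000, 2021, 3000⟩, ⟨0, 170, 1000⟩, ⟨860, 1128, 1000⟩⟩
      (piece2.hV3m) :=
  posBox_of_check p2hV3m_1

def p2hMZeroHi_1 :
    (piece2.hM₀ piece2.xPU).checkQuick
      ⟨213, ⟨2, 5, 9, 6⟩⟩
      ⟨⟨0, 1001, 1000⟩, ⟨2000, 2021, 3000⟩, ⟨0, 170, 1000⟩, ⟨860, 1128, 1000⟩⟩ = true := by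
  decide +kernel

theorem p2hMZeroHi_pos :
    PosBox ⟨⟨0, 1001, 1000⟩, ⟨2000, 2021, 3000⟩, ⟨0, 170, 1000⟩, ⟨860, 1128, 1000⟩⟩
      (piece2.hM₀ piece2.xPU) :=
  posBox_of_check p2hMZeroHi_1

def p2hC1Hi_1 :
    (piece2.hC1 piece2.xPU).checkQuick
      ⟨241, ⟨3, 5, 9, 8⟩⟩
      ⟨⟨0, 1001, 1000⟩, ⟨2000, 2021, 3000⟩, ⟨0, 170, 1000⟩, ⟨860, 1128, 1000⟩⟩ = true := by
  decide +kernel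

theorem p2hC1Hi_pos :
    PosBox ⟨⟨0, 1001, 1000⟩, ⟨2000, 2021, 3000⟩, ⟨0, 170, 1000⟩, ⟨860, 1128, 1000⟩⟩
      (piece2.hC1 piece2.xPU) :=
  posBox_of_check p2hC1Hi_1

def p2hGHiZLo_1 :
    (piece2.hG piece2.xPU piece2.zLo).checkQuick
      ⟨349, ⟨2, 7, 16, 11⟩⟩
      ⟨⟨0, 1001, 1000⟩, ⟨2000, 2021, 3000⟩, ⟨0, 170, 1000⟩, ⟨860, 1128, 1000⟩⟩ = true := by
  decide +kernel

theorem p2hGHiZLo_pos :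
    PosBox ⟨⟨0, 1001, 1000⟩, ⟨2000, 2021, 3000⟩, ⟨0, 170, 1000⟩, ⟨860, 1128, 1000⟩⟩
      (piece2.hG piece2.xPU piece2.zLo) :=
  posBox_of_check p2hGHiZLo_1

def p2hFourHiZLo :
    ((piece2.hC2p piece2.xPU piece2.zLo).checkQuick ⟨433, ⟨3, 8, 19, 14⟩⟩
        ⟨⟨0, 1001, 1000⟩, ⟨2000, 2021, 3000⟩, ⟨0, 170, 1000⟩, ⟨860, 1128, 1000⟩⟩ &&
      (piece2.hC2m piece2.xPU piece2.zLo).checkQuick ⟨433, ⟨3, 8, 19, 14⟩⟩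
        ⟨⟨0, 1001, 1000⟩, ⟨2000, 2021, 3000⟩, ⟨0, 170, 1000⟩, ⟨860, 1128, 1000⟩⟩ &&
      (piece2.hC3p piece2.xPU piece2.zLo).checkQuick ⟨433, ⟨3, 8, 19, 14⟩⟩
        ⟨⟨0, 1001, 1000⟩, ⟨2000, 2021, 3000⟩, ⟨0, 170, 1000⟩, ⟨860, 1128, 1000⟩⟩ &&
      (piece2.hC3m piece2.xPU piece2.zLo).checkQuick ⟨433, ⟨3, 8, 19, 14⟩⟩
        ⟨⟨0, 1001, 1000⟩, ⟨2000, 2021, 3000⟩, ⟨0, 170, 1000⟩, ⟨860, 1128, 1000⟩⟩) = true := by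
  decide +kernel

theorem p2hC2pHiZLo_pos :
    PosBox ⟨⟨0, 1001, 1000⟩, ⟨2000, 2021, 3000⟩, ⟨0, 170, 1000⟩, ⟨860, 1128, 1000⟩⟩
      (piece2.hC2p piece2.xPU piece2.zLo) :=
  posBox_of_check (and_four p2hFourHiZLo).1

theorem p2hC2mHiZLo_pos :
    PosBox ⟨⟨0, 1001, 1000⟩, ⟨2000, 2021, 3000⟩, ⟨0, 170, 1000⟩, ⟨860, 1128, 1000⟩⟩
      (piece2.hC2m piece2.xPU piece2.zLo) :=
  posBox_of_check (and_four p2hFourHiZLo).2.1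

theorem p2hC3pHiZLo_pos :
    PosBox ⟨⟨0, 1001, 1000⟩, ⟨2000, 2021, 3000⟩, ⟨0, 170, 1000⟩, ⟨860, 1128, 1000⟩⟩
      (piece2.hC3p piece2.xPU piece2.zLo) :=
  posBox_of_check (and_four p2hFourHiZLo).2.2.1

theorem p2hC3mHiZLo_pos :
    PosBox ⟨⟨0, 1001, 1000⟩, ⟨2000, 2021, 3000⟩, ⟨0, 170, 1000⟩, ⟨860, 1128, 1000⟩⟩
      (piece2.hC3m piece2.xPU piece2.zLo) :=
  posBox_of_check (and_four p2hFourHiZLo).2.2.2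

def p2hNHiZLo_1 :
    (piece2.hN piece2.xPU piece2.zLo).checkQuick
      ⟨332, ⟨2, 7, 15, 10⟩⟩
      ⟨⟨0, 1001, 1000⟩, ⟨2000, 2021, 3000⟩, ⟨0, 170, 1000⟩, ⟨860, 1128, 1000⟩⟩ = true := by
  decide +kernel

theorem p2hNHiZLo_pos :
    PosBox ⟨⟨0, 1001, 1000⟩, ⟨2000, 2021, 3000⟩, ⟨0, 170, 1000⟩, ⟨860, 1128, 1000⟩⟩
      (piece2.hN piece2.xPU piece2.zLo) :=
  posBox_of_check p2hNHiZLo_1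

def p2hGHiZHi_1 :
    (piece2.hG piece2.xPU zHi).checkQuick
      ⟨306, ⟨2, 7, 14, 9⟩⟩
      ⟨⟨0, 1001, 1000⟩, ⟨2000, 2021, 3000⟩, ⟨0, 170, 1000⟩, ⟨860, 1128, 1000⟩⟩ = true := by
  decide +kernel

theorem p2hGHiZHi_pos :
    PosBox ⟨⟨0, 1001, 1000⟩, ⟨2000, 2021, 3000⟩, ⟨0, 170, 1000⟩, ⟨860, 1128, 1000⟩⟩
      (piece2.hG piece2.xPU zHi) :=
  posBox_of_check p2hGHiZHi_1

def p2hFourHiZHi :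
    ((piece2.hC2p piece2.xPU zHi).checkQuick ⟨391, ⟨3, 8, 17, 12⟩⟩
        ⟨⟨0, 1001, 1000⟩, ⟨2000, 2021, 3000⟩, ⟨0, 170, 1000⟩, ⟨860, 1128, 1000⟩⟩ &&
      (piece2.hC2m piece2.xPU zHi).checkQuick ⟨391, ⟨3, 8, 17, 12⟩⟩
        ⟨⟨0, 1001, 1000⟩, ⟨2000, 2021, 3000⟩, ⟨0, 170, 1000⟩, ⟨860, 1128, 1000⟩⟩ &&
      (piece2.hC3p piece2.xPU zHi).checkQuick ⟨391, ⟨3, 8, 17, 12⟩⟩
        ⟨⟨0, 1001, 1000⟩, ⟨2000, 2021, 3000⟩, ⟨0, 170, 1000⟩, ⟨860, 1128, 1000⟩⟩ &&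
      (piece2.hC3m piece2.xPU zHi).checkQuick ⟨391, ⟨3, 8, 17, 12⟩⟩
        ⟨⟨0, 1001, 1000⟩, ⟨2000, 2021, 3000⟩, ⟨0, 170, 1000⟩, ⟨860, 1128, 1000⟩⟩) = true := by
  decide +kernel

theorem p2hC2pHiZHi_pos :
    PosBox ⟨⟨0, 1001, 1000⟩, ⟨2000, 2021, 3000⟩, ⟨0, 170, 1000⟩, ⟨860, 1128, 1000⟩⟩
      (piece2.hC2p piece2.xPU zHi) :=
  posBox_of_check (and_four p2hFourHiZHi).1

theorem p2hC2mHiZHi_pos :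
    PosBox ⟨⟨0, 1001, 1000⟩, ⟨2000, 2021, 3000⟩, ⟨0, 170, 1000⟩, ⟨860, 1128, 1000⟩⟩
      (piece2.hC2m piece2.xPU zHi) :=
  posBox_of_check (and_four p2hFourHiZHi).2.1

theorem p2hC3pHiZHi_pos :
    PosBox ⟨⟨0, 1001, 1000⟩, ⟨2000, 2021, 3000⟩, ⟨0, 170, 1000⟩, ⟨860, 1128, 1000⟩⟩
      (piece2.hC3p piece2.xPU zHi) :=
  posBox_of_check (and_four p2hFourHiZHi).2.2.1

theorem p2hC3mHiZHi_pos :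
    PosBox ⟨⟨0, 1001, 1000⟩, ⟨2000, 2021, 3000⟩, ⟨0, 170, 1000⟩, ⟨860, 1128, 1000⟩⟩
      (piece2.hC3m piece2.xPU zHi) :=
  posBox_of_check (and_four p2hFourHiZHi).2.2.2

def p2hNHiZHi_1 :
    (piece2.hN piece2.xPU zHi).checkQuick
      ⟨322, ⟨2, 7, 14, 10⟩⟩
      ⟨⟨0, 1001, 1000⟩, ⟨2000, 2021, 3000⟩, ⟨0, 170, 1000⟩, ⟨860, 1128, 1000⟩⟩ = true := by
  decide +kernel

theorem p2hNHiZHi_pos :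
    PosBox ⟨⟨0, 1001, 1000⟩, ⟨2000, 2021, 3000⟩, ⟨0, 170, 1000⟩, ⟨860, 1128, 1000⟩⟩
      (piece2.hN piece2.xPU zHi) :=
  posBox_of_check p2hNHiZHi_1

end Vale.Agent.P100.Calib.Closed.Six.Low
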