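import Vale.Agent.P100.Calib.SlabSixLowPieces

/-!
# Checks of the certificate of dimension six on `0 < u ≤ 3/5`
-/

-- The checks are definitions, so that they run one after another with little memory.
set_option linter.defProp false

namespace Vale.Agent.P100.Calib.Closed.Six.Low

open BoxPos
open Vale.Agent.P100.Calib.Closed.Large (PosBox posBox_of_check and_four posBox_join₀ posBox_join₂ posBox_join₃)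

def p3xRoom_1 :
    (piece3.xRoom).checkQuick
      ⟨29, ⟨0, 0, 1, 1⟩⟩
      ⟨⟨0, 1001, 1000⟩, ⟨2000, 2021, 3000⟩, ⟨170, 260, 1000⟩, ⟨300, 541, 1000⟩⟩ = true := by
  decide +kernel

theorem p3xRoom_pos :
    PosBox ⟨⟨0, 1001, 1000⟩, ⟨2000, 2021, 3000⟩, ⟨170, 260, 1000⟩, ⟨300, 541, 1000⟩⟩
      (piece3.xRoom) :=
  posBox_of_check p3xRoom_1

def p3xGap_1 :
    (piece3.xGap).checkQuick
      ⟨63, ⟨0, 2, 3, 2⟩⟩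
      ⟨⟨0, 1001, 1000⟩, ⟨2000, 2021, 3000⟩, ⟨170, 260, 1000⟩, ⟨300, 541, 1000⟩⟩ = true := by
  decide +kernel

theorem p3xGap_pos :
    PosBox ⟨⟨0, 1001, 1000⟩, ⟨2000, 2021, 3000⟩, ⟨170, 260, 1000⟩, ⟨300, 541, 1000⟩⟩
      (piece3.xGap) :=
  posBox_of_check p3xGap_1

def p3hELL_1 :
    (piece3.hEL xTL).checkQuick
      ⟨328, ⟨5, 8, 11, 6⟩⟩
      ⟨⟨0, 1001, 1000⟩, ⟨2000, 2021, 3000⟩, ⟨170, 260, 1000⟩, ⟨300, 541, 1000⟩⟩ = true := by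
  decide +kernel

theorem p3hELL_pos :
    PosBox ⟨⟨0, 1001, 1000⟩, ⟨2000, 2021, 3000⟩, ⟨170, 260, 1000⟩, ⟨300, 541, 1000⟩⟩
      (piece3.hEL xTL) :=
  posBox_of_check p3hELL_1

def p3hEHL_1 :
    (piece3.hEH xTL).checkQuick
      ⟨330, ⟨5, 8, 11, 6⟩⟩
      ⟨⟨0, 1001, 1000⟩, ⟨2000, 2021, 3000⟩, ⟨170, 260, 1000⟩, ⟨300, 541, 1000⟩⟩ = true := by
  decide +kernel

theorem p3hEHL_pos :
    PosBox ⟨⟨0, 1001, 1000⟩, ⟨2000, 2021, 3000⟩, ⟨170, 260, 1000⟩, ⟨300, 541, 1000⟩⟩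
      (piece3.hEH xTL) :=
  posBox_of_check p3hEHL_1

def p3hPUL_1 :
    (piece3.hPU xTL).checkQuick
      ⟨351, ⟨5, 8, 11, 7⟩⟩
      ⟨⟨0, 1001, 1000⟩, ⟨2000, 2021, 3000⟩, ⟨170, 260, 1000⟩, ⟨300, 541, 1000⟩⟩ = true := by
  decide +kernel

theorem p3hPUL_pos :
    PosBox ⟨⟨0, 1001, 1000⟩, ⟨2000, 2021, 3000⟩, ⟨170, 260, 1000⟩, ⟨300, 541, 1000⟩⟩
      (piece3.hPU xTL) :=
  posBox_of_check p3hPUL_1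

def p3hKUL_1 :
    (piece3.hKU xTL).checkQuick
      ⟨348, ⟨5, 8, 11, 7⟩⟩
      ⟨⟨0, 1001, 1000⟩, ⟨2000, 2021, 3000⟩, ⟨170, 260, 1000⟩, ⟨300, 541, 1000⟩⟩ = true := by
  decide +kernel

theorem p3hKUL_pos :
    PosBox ⟨⟨0, 1001, 1000⟩, ⟨2000, 2021, 3000⟩, ⟨170, 260, 1000⟩, ⟨300, 541, 1000⟩⟩
      (piece3.hKU xTL) :=
  posBox_of_check p3hKUL_1

def p3hKLL_1 :
    (piece3.hKL xTL).checkQuick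
      ⟨348, ⟨5, 8, 11, 7⟩⟩
      ⟨⟨0, 1001, 1000⟩, ⟨2000, 2021, 3000⟩, ⟨170, 260, 1000⟩, ⟨300, 541, 1000⟩⟩ = true := by
  decide +kernel

theorem p3hKLL_pos :
    PosBox ⟨⟨0, 1001, 1000⟩, ⟨2000, 2021, 3000⟩, ⟨170, 260, 1000⟩, ⟨300, 541, 1000⟩⟩
      (piece3.hKL xTL) :=
  posBox_of_check p3hKLL_1

def p3hWUL_1 :
    (piece3.hWU xTL).checkQuick
      ⟨351, ⟨5, 7, 11, 7⟩⟩
      ⟨⟨0, 1001, 1000⟩, ⟨2000, 2021, 3000⟩, ⟨170, 260, 1000⟩, ⟨300, 541, 1000⟩⟩ = true := by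
  decide +kernel

theorem p3hWUL_pos :
    PosBox ⟨⟨0, 1001, 1000⟩, ⟨2000, 2021, 3000⟩, ⟨170, 260, 1000⟩, ⟨300, 541, 1000⟩⟩
      (piece3.hWU xTL) :=
  posBox_of_check p3hWUL_1

def p3hWLL_1 :
    (piece3.hWL xTL).checkQuick
      ⟨351, ⟨5, 7, 11, 7⟩⟩
      ⟨⟨0, 1001, 1000⟩, ⟨2000, 2021, 3000⟩, ⟨170, 260, 1000⟩, ⟨300, 541, 1000⟩⟩ = true := by
  decide +kernel

theorem p3hWLL_pos :
    PosBox ⟨⟨0, 1001, 1000⟩, ⟨2000, 2021, 3000⟩, ⟨170, 260, 1000⟩, ⟨300, 541, 1000⟩⟩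
      (piece3.hWL xTL) :=
  posBox_of_check p3hWLL_1

def p3hZL_1 :
    (piece3.hZ xTL).checkQuick
      ⟨498, ⟨8, 10, 18, 8⟩⟩
      ⟨⟨0, 1001, 1000⟩, ⟨2000, 2021, 3000⟩, ⟨170, 260, 1000⟩, ⟨300, 541, 1000⟩⟩ = true := by
  decide +kernel

theorem p3hZL_pos :
    PosBox ⟨⟨0, 1001, 1000⟩, ⟨2000, 2021, 3000⟩, ⟨170, 260, 1000⟩, ⟨300, 541, 1000⟩⟩
      (piece3.hZ xTL) :=
  posBox_of_check p3hZL_1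

def p3hELU_1 :
    (piece3.hEL xTU).checkQuick
      ⟨341, ⟨5, 8, 12, 6⟩⟩
      ⟨⟨0, 1001, 1000⟩, ⟨2000, 2021, 3000⟩, ⟨170, 260, 1000⟩, ⟨300, 541, 1000⟩⟩ = true := by
  decide +kernel

theorem p3hELU_pos :
    PosBox ⟨⟨0, 1001, 1000⟩, ⟨2000, 2021, 3000⟩, ⟨170, 260, 1000⟩, ⟨300, 541, 1000⟩⟩
      (piece3.hEL xTU) :=
  posBox_of_check p3hELU_1

def p3hEHU_1 :
    (piece3.hEH xTU).checkQuick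
      ⟨343, ⟨5, 8, 12, 6⟩⟩
      ⟨⟨0, 500, 1000⟩, ⟨2000, 2021, 3000⟩, ⟨170, 260, 1000⟩, ⟨300, 541, 1000⟩⟩ = true := by
  decide +kernel

def p3hEHU_2 :
    (piece3.hEH xTU).checkQuick
      ⟨344, ⟨5, 8, 12, 6⟩⟩
      ⟨⟨500, 1001, 1000⟩, ⟨2000, 2021, 3000⟩, ⟨170, 260, 1000⟩, ⟨300, 420, 1000⟩⟩ = true := by
  decide +kernel

def p3hEHU_3 :
    (piece3.hEH xTU).checkQuick
      ⟨343, ⟨5, 8, 12, 6⟩⟩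
      ⟨⟨500, 750, 1000⟩, ⟨2000, 2021, 3000⟩, ⟨170, 260, 1000⟩, ⟨420, 541, 1000⟩⟩ = true := by
  decide +kernel

def p3hEHU_4 :
    (piece3.hEH xTU).checkQuick
      ⟨344, ⟨5, 8, 12, 6⟩⟩
      ⟨⟨750, 1001, 1000⟩, ⟨2000, 2021, 3000⟩, ⟨170, 260, 1000⟩, ⟨420, 541, 1000⟩⟩ = true := by
  decide +kernel

theorem p3hEHU_pos :
    PosBox ⟨⟨0, 1001, 1000⟩, ⟨2000, 2021, 3000⟩, ⟨170, 260, 1000⟩, ⟨300, 541, 1000⟩⟩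
      (piece3.hEH xTU) :=
  posBox_join₀ (posBox_of_check p3hEHU_1) (posBox_join₃ (posBox_of_check p3hEHU_2) (posBox_join₀
    (posBox_of_check p3hEHU_3) (posBox_of_check p3hEHU_4)))

def p3hPUU_1 :
    (piece3.hPU xTU).checkQuick
      ⟨364, ⟨5, 8, 12, 7⟩⟩
      ⟨⟨0, 500, 1000⟩, ⟨2000, 2021, 3000⟩, ⟨170, 260, 1000⟩, ⟨300, 541, 1000⟩⟩ = true := by
  decide +kernel

def p3hPUU_2 :
    (piece3.hPU xTU).checkQuick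
      ⟨365, ⟨5, 8, 12, 7⟩⟩
      ⟨⟨500, 1001, 1000⟩, ⟨2000, 2021, 3000⟩, ⟨170, 260, 1000⟩, ⟨300, 541, 1000⟩⟩ = true := by
  decide +kernel

theorem p3hPUU_pos :
    PosBox ⟨⟨0, 1001, 1000⟩, ⟨2000, 2021, 3000⟩, ⟨170, 260, 1000⟩, ⟨300, 541, 1000⟩⟩
      (piece3.hPU xTU) :=
  posBox_join₀ (posBox_of_check p3hPUU_1) (posBox_of_check p3hPUU_2)

def p3hKUU_1 :
    (piece3.hKU xTU).checkQuick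
      ⟨361, ⟨5, 8, 12, 7⟩⟩
      ⟨⟨0, 1001, 1000⟩, ⟨2000, 2021, 3000⟩, ⟨170, 260, 1000⟩, ⟨300, 541, 1000⟩⟩ = true := by
  decide +kernel

theorem p3hKUU_pos :
    PosBox ⟨⟨0, 1001, 1000⟩, ⟨2000, 2021, 3000⟩, ⟨170, 260, 1000⟩, ⟨300, 541, 1000⟩⟩
      (piece3.hKU xTU) :=
  posBox_of_check p3hKUU_1

def p3hKLU_1 :
    (piece3.hKL xTU).checkQuick
      ⟨361, ⟨5, 8, 12, 7⟩⟩
      ⟨⟨0, 1001, 1000⟩, ⟨2000, 2021, 3000⟩, ⟨170, 260, 1000⟩, ⟨300, 541, 1000⟩⟩ = true := by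
  decide +kernel

theorem p3hKLU_pos :
    PosBox ⟨⟨0, 1001, 1000⟩, ⟨2000, 2021, 3000⟩, ⟨170, 260, 1000⟩, ⟨300, 541, 1000⟩⟩
      (piece3.hKL xTU) :=
  posBox_of_check p3hKLU_1

def p3hWUU_1 :
    (piece3.hWU xTU).checkQuick
      ⟨364, ⟨5, 7, 12, 7⟩⟩
      ⟨⟨0, 1001, 1000⟩, ⟨2000, 2021, 3000⟩, ⟨170, 260, 1000⟩, ⟨300, 541, 1000⟩⟩ = true := by
  decide +kernel

theorem p3hWUU_pos :
    PosBox ⟨⟨0, 1001, 1000⟩, ⟨2000, 2021, 3000⟩, ⟨170, 260, 1000⟩, ⟨300, 541, 1000⟩⟩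
      (piece3.hWU xTU) :=
  posBox_of_check p3hWUU_1

def p3hWLU_1 :
    (piece3.hWL xTU).checkQuick
      ⟨364, ⟨5, 7, 12, 7⟩⟩
      ⟨⟨0, 1001, 1000⟩, ⟨2000, 2021, 3000⟩, ⟨170, 260, 1000⟩, ⟨300, 541, 1000⟩⟩ = true := by
  decide +kernel

theorem p3hWLU_pos :
    PosBox ⟨⟨0, 1001, 1000⟩, ⟨2000, 2021, 3000⟩, ⟨170, 260, 1000⟩, ⟨300, 541, 1000⟩⟩
      (piece3.hWL xTU) :=
  posBox_of_check p3hWLU_1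

def p3hZU_1 :
    (piece3.hZ xTU).checkQuick
      ⟨498, ⟨8, 10, 18, 8⟩⟩
      ⟨⟨0, 1001, 1000⟩, ⟨2000, 2021, 3000⟩, ⟨170, 260, 1000⟩, ⟨300, 541, 1000⟩⟩ = true := by
  decide +kernel

theorem p3hZU_pos :
    PosBox ⟨⟨0, 1001, 1000⟩, ⟨2000, 2021, 3000⟩, ⟨170, 260, 1000⟩, ⟨300, 541, 1000⟩⟩
      (piece3.hZ xTU) :=
  posBox_of_check p3hZU_1

def p3hKp_1 :
    (piece3.hKp).checkQuick
      ⟨88, ⟨1, 1, 3, 3⟩⟩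
      ⟨⟨0, 1001, 1000⟩, ⟨2000, 2021, 3000⟩, ⟨170, 260, 1000⟩, ⟨300, 360, 1000⟩⟩ = true := by
  decide +kernel

def p3hKp_2 :
    (piece3.hKp).checkQuick
      ⟨89, ⟨1, 1, 3, 3⟩⟩
      ⟨⟨0, 1001, 1000⟩, ⟨2000, 2021, 3000⟩, ⟨170, 260, 1000⟩, ⟨360, 420, 1000⟩⟩ = true := by
  decide +kernel

def p3hKp_3 :
    (piece3.hKp).checkQuick
      ⟨89, ⟨1, 1, 3, 3⟩⟩
      ⟨⟨0, 1001, 1000⟩, ⟨2000, 2021, 3000⟩, ⟨170, 260, 1000⟩, ⟨420, 541, 1000⟩⟩ = true := by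
  decide +kernel

theorem p3hKp_pos :
    PosBox ⟨⟨0, 1001, 1000⟩, ⟨2000, 2021, 3000⟩, ⟨170, 260, 1000⟩, ⟨300, 541, 1000⟩⟩
      (piece3.hKp) :=
  posBox_join₃ (posBox_join₃ (posBox_of_check p3hKp_1) (posBox_of_check p3hKp_2))
    (posBox_of_check p3hKp_3)

def p3hKm_1 :
    (piece3.hKm).checkQuick
      ⟨92, ⟨1, 1, 3, 3⟩⟩
      ⟨⟨0, 1001, 1000⟩, ⟨2000, 2021, 3000⟩, ⟨170, 260, 1000⟩, ⟨300, 541, 1000⟩⟩ = true := by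
  decide +kernel

theorem p3hKm_pos :
    PosBox ⟨⟨0, 1001, 1000⟩, ⟨2000, 2021, 3000⟩, ⟨170, 260, 1000⟩, ⟨300, 541, 1000⟩⟩
      (piece3.hKm) :=
  posBox_of_check p3hKm_1

def p3hMZeroLo_1 :
    (piece3.hM₀ piece3.xPL).checkQuick
      ⟨214, ⟨2, 5, 9, 6⟩⟩
      ⟨⟨0, 1001, 1000⟩, ⟨2000, 2021, 3000⟩, ⟨170, 260, 1000⟩, ⟨300, 541, 1000⟩⟩ = true := by
  decide +kernel

theorem p3hMZeroLo_pos :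
    PosBox ⟨⟨0, 1001, 1000⟩, ⟨2000, 2021, 3000⟩, ⟨170, 260, 1000⟩, ⟨300, 541, 1000⟩⟩
      (piece3.hM₀ piece3.xPL) :=
  posBox_of_check p3hMZeroLo_1

def p3hC1Lo_1 :
    (piece3.hC1 piece3.xPL).checkQuick
      ⟨242, ⟨3, 5, 9, 8⟩⟩
      ⟨⟨0, 1001, 1000⟩, ⟨2000, 2021, 3000⟩, ⟨170, 260, 1000⟩, ⟨300, 541, 1000⟩⟩ = true := by
  decide +kernel

theorem p3hC1Lo_pos :
    PosBox ⟨⟨0, 1001, 1000⟩, ⟨2000, 2021, 3000⟩, ⟨170, 260, 1000⟩, ⟨300, 541, 1000⟩⟩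
      (piece3.hC1 piece3.xPL) :=
  posBox_of_check p3hC1Lo_1

def p3hGLoZLo_1 :
    (piece3.hG piece3.xPL piece3.zLo).checkQuick
      ⟨348, ⟨2, 7, 16, 11⟩⟩
      ⟨⟨0, 1001, 1000⟩, ⟨2000, 2021, 3000⟩, ⟨170, 260, 1000⟩, ⟨300, 541, 1000⟩⟩ = true := by
  decide +kernel

theorem p3hGLoZLo_pos :
    PosBox ⟨⟨0, 1001, 1000⟩, ⟨2000, 2021, 3000⟩, ⟨170, 260, 1000⟩, ⟨300, 541, 1000⟩⟩
      (piece3.hG piece3.xPL piece3.zLo) :=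
  posBox_of_check p3hGLoZLo_1

def p3hC2pLoZLo_1 :
    (piece3.hC2p piece3.xPL piece3.zLo).checkQuick
      ⟨434, ⟨3, 8, 19, 14⟩⟩
      ⟨⟨0, 1001, 1000⟩, ⟨2000, 2021, 3000⟩, ⟨170, 260, 1000⟩, ⟨300, 541, 1000⟩⟩ = true := by
  decide +kernel

theorem p3hC2pLoZLo_pos :
    PosBox ⟨⟨0, 1001, 1000⟩, ⟨2000, 2021, 3000⟩, ⟨170, 260, 1000⟩, ⟨300, 541, 1000⟩⟩
      (piece3.hC2p piece3.xPL piece3.zLo) :=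
  posBox_of_check p3hC2pLoZLo_1

def p3hC2mLoZLo_1 :
    (piece3.hC2m piece3.xPL piece3.zLo).checkQuick
      ⟨437, ⟨3, 8, 19, 14⟩⟩
      ⟨⟨0, 1001, 1000⟩, ⟨2000, 2021, 3000⟩, ⟨170, 260, 1000⟩, ⟨300, 420, 1000⟩⟩ = true := by
  decide +kernel

def p3hC2mLoZLo_2 :
    (piece3.hC2m piece3.xPL piece3.zLo).checkQuick
      ⟨438, ⟨3, 8, 19, 14⟩⟩
      ⟨⟨0, 1001, 1000⟩, ⟨2000, 2021, 3000⟩, ⟨170, 260, 1000⟩, ⟨420, 541, 1000⟩⟩ = true := by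
  decide +kernel

theorem p3hC2mLoZLo_pos :
    PosBox ⟨⟨0, 1001, 1000⟩, ⟨2000, 2021, 3000⟩, ⟨170, 260, 1000⟩, ⟨300, 541, 1000⟩⟩
      (piece3.hC2m piece3.xPL piece3.zLo) :=
  posBox_join₃ (posBox_of_check p3hC2mLoZLo_1) (posBox_of_check p3hC2mLoZLo_2)

def p3hC3pLoZLo_1 :
    (piece3.hC3p piece3.xPL piece3.zLo).checkQuick
      ⟨406, ⟨3, 8, 17, 13⟩⟩
      ⟨⟨0, 1001, 1000⟩, ⟨2000, 2021, 3000⟩, ⟨170, 260, 1000⟩, ⟨300, 541, 1000⟩⟩ = true := by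
  decide +kernel

theorem p3hC3pLoZLo_pos :
    PosBox ⟨⟨0, 1001, 1000⟩, ⟨2000, 2021, 3000⟩, ⟨170, 260, 1000⟩, ⟨300, 541, 1000⟩⟩
      (piece3.hC3p piece3.xPL piece3.zLo) :=
  posBox_of_check p3hC3pLoZLo_1

def p3hC3mLoZLo_1 :
    (piece3.hC3m piece3.xPL piece3.zLo).checkQuick
      ⟨407, ⟨3, 8, 17, 13⟩⟩
      ⟨⟨0, 1001, 1000⟩, ⟨2000, 2021, 3000⟩, ⟨170, 260, 1000⟩, ⟨300, 541, 1000⟩⟩ = true := by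
  decide +kernel

theorem p3hC3mLoZLo_pos :
    PosBox ⟨⟨0, 1001, 1000⟩, ⟨2000, 2021, 3000⟩, ⟨170, 260, 1000⟩, ⟨300, 541, 1000⟩⟩
      (piece3.hC3m piece3.xPL piece3.zLo) :=
  posBox_of_check p3hC3mLoZLo_1

def p3hNLoZLo_1 :
    (piece3.hN piece3.xPL piece3.zLo).checkQuick
      ⟨333, ⟨2, 7, 15, 10⟩⟩
      ⟨⟨0, 1001, 1000⟩, ⟨2000, 2021, 3000⟩, ⟨170, 260, 1000⟩, ⟨300, 541, 1000⟩⟩ = true := by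
  decide +kernel

theorem p3hNLoZLo_pos :
    PosBox ⟨⟨0, 1001, 1000⟩, ⟨2000, 2021, 3000⟩, ⟨170, 260, 1000⟩, ⟨300, 541, 1000⟩⟩
      (piece3.hN piece3.xPL piece3.zLo) :=
  posBox_of_check p3hNLoZLo_1

def p3hGLoZHi_1 :
    (piece3.hG piece3.xPL zHi).checkQuick
      ⟨306, ⟨2, 7, 14, 9⟩⟩
      ⟨⟨0, 1001, 1000⟩, ⟨2000, 2021, 3000⟩, ⟨170, 260, 1000⟩, ⟨300, 541, 1000⟩⟩ = true := by
  decide +kernel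

theorem p3hGLoZHi_pos :
    PosBox ⟨⟨0, 1001, 1000⟩, ⟨2000, 2021, 3000⟩, ⟨170, 260, 1000⟩, ⟨300, 541, 1000⟩⟩
      (piece3.hG piece3.xPL zHi) :=
  posBox_of_check p3hGLoZHi_1

def p3hFourLoZHi :
    ((piece3.hC2p piece3.xPL zHi).checkQuick ⟨395, ⟨3, 8, 17, 12⟩⟩
        ⟨⟨0, 1001, 1000⟩, ⟨2000, 2021, 3000⟩, ⟨170, 260, 1000⟩, ⟨300, 541, 1000⟩⟩ &&
      (piece3.hC2m piece3.xPL zHi).checkQuick ⟨395, ⟨3, 8, 17, 12⟩⟩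
        ⟨⟨0, 1001, 1000⟩, ⟨2000, 2021, 3000⟩, ⟨170, 260, 1000⟩, ⟨300, 541, 1000⟩⟩ &&
      (piece3.hC3p piece3.xPL zHi).checkQuick ⟨395, ⟨3, 8, 17, 12⟩⟩
        ⟨⟨0, 1001, 1000⟩, ⟨2000, 2021, 3000⟩, ⟨170, 260, 1000⟩, ⟨300, 541, 1000⟩⟩ &&
      (piece3.hC3m piece3.xPL zHi).checkQuick ⟨395, ⟨3, 8, 17, 12⟩⟩
        ⟨⟨0, 1001, 1000⟩, ⟨2000, 2021, 3000⟩, ⟨170, 260, 1000⟩, ⟨300, 541, 1000⟩⟩) = true := by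
  decide +kernel

theorem p3hC2pLoZHi_pos :
    PosBox ⟨⟨0, 1001, 1000⟩, ⟨2000, 2021, 3000⟩, ⟨170, 260, 1000⟩, ⟨300, 541, 1000⟩⟩
      (piece3.hC2p piece3.xPL zHi) :=
  posBox_of_check (and_four p3hFourLoZHi).1

theorem p3hC2mLoZHi_pos :
    PosBox ⟨⟨0, 1001, 1000⟩, ⟨2000, 2021, 3000⟩, ⟨170, 260, 1000⟩, ⟨300, 541, 1000⟩⟩
      (piece3.hC2m piece3.xPL zHi) :=
  posBox_of_check (and_four p3hFourLoZHi).2.1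

theorem p3hC3pLoZHi_pos :
    PosBox ⟨⟨0, 1001, 1000⟩, ⟨2000, 2021, 3000⟩, ⟨170, 260, 1000⟩, ⟨300, 541, 1000⟩⟩
      (piece3.hC3p piece3.xPL zHi) :=
  posBox_of_check (and_four p3hFourLoZHi).2.2.1

theorem p3hC3mLoZHi_pos :
    PosBox ⟨⟨0, 1001, 1000⟩, ⟨2000, 2021, 3000⟩, ⟨170, 260, 1000⟩, ⟨300, 541, 1000⟩⟩
      (piece3.hC3m piece3.xPL zHi) :=
  posBox_of_check (and_four p3hFourLoZHi).2.2.2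

def p3hNLoZHi_1 :
    (piece3.hN piece3.xPL zHi).checkQuick
      ⟨323, ⟨2, 7, 14, 10⟩⟩
      ⟨⟨0, 1001, 1000⟩, ⟨2000, 2021, 3000⟩, ⟨170, 260, 1000⟩, ⟨300, 541, 1000⟩⟩ = true := by
  decide +kernel

theorem p3hNLoZHi_pos :
    PosBox ⟨⟨0, 1001, 1000⟩, ⟨2000, 2021, 3000⟩, ⟨170, 260, 1000⟩, ⟨300, 541, 1000⟩⟩
      (piece3.hN piece3.xPL zHi) :=
  posBox_of_check p3hNLoZHi_1

def p3hV2p_1 :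
    (piece3.hV2p).checkQuick
      ⟨229, ⟨1, 6, 11, 6⟩⟩
      ⟨⟨0, 1001, 1000⟩, ⟨2000, 2021, 3000⟩, ⟨170, 260, 1000⟩, ⟨300, 541, 1000⟩⟩ = true := by
  decide +kernel

theorem p3hV2p_pos :
    PosBox ⟨⟨0, 1001, 1000⟩, ⟨2000, 2021, 3000⟩, ⟨170, 260, 1000⟩, ⟨300, 541, 1000⟩⟩
      (piece3.hV2p) :=
  posBox_of_check p3hV2p_1

def p3hV2m_1 :
    (piece3.hV2m).checkQuick
      ⟨232, ⟨1, 6, 11, 6⟩⟩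
      ⟨⟨0, 1001, 1000⟩, ⟨2000, 2021, 3000⟩, ⟨170, 260, 1000⟩, ⟨300, 541, 1000⟩⟩ = true := by
  decide +kernel

theorem p3hV2m_pos :
    PosBox ⟨⟨0, 1001, 1000⟩, ⟨2000, 2021, 3000⟩, ⟨170, 260, 1000⟩, ⟨300, 541, 1000⟩⟩
      (piece3.hV2m) :=
  posBox_of_check p3hV2m_1

def p3hV3p_1 :
    (piece3.hV3p).checkQuick
      ⟨217, ⟨1, 6, 10, 6⟩⟩
      ⟨⟨0, 1001, 1000⟩, ⟨2000, 2021, 3000⟩, ⟨170, 260, 1000⟩, ⟨300, 541, 1000⟩⟩ = true := by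
  decide +kernel

theorem p3hV3p_pos :
    PosBox ⟨⟨0, 1001, 1000⟩, ⟨2000, 2021, 3000⟩, ⟨170, 260, 1000⟩, ⟨300, 541, 1000⟩⟩
      (piece3.hV3p) :=
  posBox_of_check p3hV3p_1

def p3hV3m_1 :
    (piece3.hV3m).checkQuick
      ⟨220, ⟨1, 6, 10, 6⟩⟩
      ⟨⟨0, 1001, 1000⟩, ⟨2000, 2021, 3000⟩, ⟨170, 260, 1000⟩, ⟨300, 541, 1000⟩⟩ = true := by
  decide +kernel

theorem p3hV3m_pos :
    PosBox ⟨⟨0, 1001, 1000⟩, ⟨2000, 2021, 3000⟩, ⟨170, 260, 1000⟩, ⟨300, 541, 1000⟩⟩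
      (piece3.hV3m) :=
  posBox_of_check p3hV3m_1

def p3hMZeroHi_1 :
    (piece3.hM₀ piece3.xPU).checkQuick
      ⟨215, ⟨2, 5, 9, 6⟩⟩
      ⟨⟨0, 1001, 1000⟩, ⟨2000, 2021, 3000⟩, ⟨170, 260, 1000⟩, ⟨300, 541, 1000⟩⟩ = true := by
  decide +kernel

theorem p3hMZeroHi_pos :
    PosBox ⟨⟨0, 1001, 1000⟩, ⟨2000, 2021, 3000⟩, ⟨170, 260, 1000⟩, ⟨300, 541, 1000⟩⟩
      (piece3.hM₀ piece3.xPU) :=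
  posBox_of_check p3hMZeroHi_1

def p3hC1Hi_1 :
    (piece3.hC1 piece3.xPU).checkQuick
      ⟨243, ⟨3, 5, 9, 8⟩⟩
      ⟨⟨0, 1001, 1000⟩, ⟨2000, 2021, 3000⟩, ⟨170, 260, 1000⟩, ⟨300, 541, 1000⟩⟩ = true := by
  decide +kernel

theorem p3hC1Hi_pos :
    PosBox ⟨⟨0, 1001, 1000⟩, ⟨2000, 2021, 3000⟩, ⟨170, 260, 1000⟩, ⟨300, 541, 1000⟩⟩
      (piece3.hC1 piece3.xPU) :=
  posBox_of_check p3hC1Hi_1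

def p3hGHiZLo_1 :
    (piece3.hG piece3.xPU piece3.zLo).checkQuick
      ⟨349, ⟨2, 7, 16, 11⟩⟩
      ⟨⟨0, 1001, 1000⟩, ⟨2000, 2021, 3000⟩, ⟨170, 260, 1000⟩, ⟨300, 541, 1000⟩⟩ = true := by
  decide +kernel

theorem p3hGHiZLo_pos :
    PosBox ⟨⟨0, 1001, 1000⟩, ⟨2000, 2021, 3000⟩, ⟨170, 260, 1000⟩, ⟨300, 541, 1000⟩⟩
      (piece3.hG piece3.xPU piece3.zLo) :=
  posBox_of_check p3hGHiZLo_1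

def p3hFourHiZLo :
    ((piece3.hC2p piece3.xPU piece3.zLo).checkQuick ⟨438, ⟨3, 8, 19, 14⟩⟩
        ⟨⟨0, 1001, 1000⟩, ⟨2000, 2021, 3000⟩, ⟨170, 260, 1000⟩, ⟨300, 541, 1000⟩⟩ &&
      (piece3.hC2m piece3.xPU piece3.zLo).checkQuick ⟨438, ⟨3, 8, 19, 14⟩⟩
        ⟨⟨0, 1001, 1000⟩, ⟨2000, 2021, 3000⟩, ⟨170, 260, 1000⟩, ⟨300, 541, 1000⟩⟩ &&
      (piece3.hC3p piece3.xPU piece3.zLo).checkQuick ⟨438, ⟨3, 8, 19, 14⟩⟩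
        ⟨⟨0, 1001, 1000⟩, ⟨2000, 2021, 3000⟩, ⟨170, 260, 1000⟩, ⟨300, 541, 1000⟩⟩ &&
      (piece3.hC3m piece3.xPU piece3.zLo).checkQuick ⟨438, ⟨3, 8, 19, 14⟩⟩
        ⟨⟨0, 1001, 1000⟩, ⟨2000, 2021, 3000⟩, ⟨170, 260, 1000⟩, ⟨300, 541, 1000⟩⟩) = true := by
  decide +kernel

theorem p3hC2pHiZLo_pos :
    PosBox ⟨⟨0, 1001, 1000⟩, ⟨2000, 2021, 3000⟩, ⟨170, 260, 1000⟩, ⟨300, 541, 1000⟩⟩
      (piece3.hC2p piece3.xPU piece3.zLo) :=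
  posBox_of_check (and_four p3hFourHiZLo).1

theorem p3hC2mHiZLo_pos :
    PosBox ⟨⟨0, 1001, 1000⟩, ⟨2000, 2021, 3000⟩, ⟨170, 260, 1000⟩, ⟨300, 541, 1000⟩⟩
      (piece3.hC2m piece3.xPU piece3.zLo) :=
  posBox_of_check (and_four p3hFourHiZLo).2.1

theorem p3hC3pHiZLo_pos :
    PosBox ⟨⟨0, 1001, 1000⟩, ⟨2000, 2021, 3000⟩, ⟨170, 260, 1000⟩, ⟨300, 541, 1000⟩⟩
      (piece3.hC3p piece3.xPU piece3.zLo) :=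
  posBox_of_check (and_four p3hFourHiZLo).2.2.1

theorem p3hC3mHiZLo_pos :
    PosBox ⟨⟨0, 1001, 1000⟩, ⟨2000, 2021, 3000⟩, ⟨170, 260, 1000⟩, ⟨300, 541, 1000⟩⟩
      (piece3.hC3m piece3.xPU piece3.zLo) :=
  posBox_of_check (and_four p3hFourHiZLo).2.2.2

def p3hNHiZLo_1 :
    (piece3.hN piece3.xPU piece3.zLo).checkQuick
      ⟨333, ⟨2, 7, 15, 10⟩⟩
      ⟨⟨0, 1001, 1000⟩, ⟨2000, 2021, 3000⟩, ⟨170, 260, 1000⟩, ⟨300, 541, 1000⟩⟩ = true := by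
  decide +kernel

theorem p3hNHiZLo_pos :
    PosBox ⟨⟨0, 1001, 1000⟩, ⟨2000, 2021, 3000⟩, ⟨170, 260, 1000⟩, ⟨300, 541, 1000⟩⟩
      (piece3.hN piece3.xPU piece3.zLo) :=
  posBox_of_check p3hNHiZLo_1

def p3hGHiZHi_1 :
    (piece3.hG piece3.xPU zHi).checkQuick
      ⟨306, ⟨2, 7, 14, 9⟩⟩
      ⟨⟨0, 1001, 1000⟩, ⟨2000, 2021, 3000⟩, ⟨170, 260, 1000⟩, ⟨300, 541, 1000⟩⟩ = true := by
  decide +kernel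

theorem p3hGHiZHi_pos :
    PosBox ⟨⟨0, 1001, 1000⟩, ⟨2000, 2021, 3000⟩, ⟨170, 260, 1000⟩, ⟨300, 541, 1000⟩⟩
      (piece3.hG piece3.xPU zHi) :=
  posBox_of_check p3hGHiZHi_1

def p3hFourHiZHi :
    ((piece3.hC2p piece3.xPU zHi).checkQuick ⟨396, ⟨3, 8, 17, 12⟩⟩
        ⟨⟨0, 1001, 1000⟩, ⟨2000, 2021, 3000⟩, ⟨170, 260, 1000⟩, ⟨300, 541, 1000⟩⟩ &&
      (piece3.hC2m piece3.xPU zHi).checkQuick ⟨396, ⟨3, 8, 17, 12⟩⟩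
        ⟨⟨0, 1001, 1000⟩, ⟨2000, 2021, 3000⟩, ⟨170, 260, 1000⟩, ⟨300, 541, 1000⟩⟩ &&
      (piece3.hC3p piece3.xPU zHi).checkQuick ⟨396, ⟨3, 8, 17, 12⟩⟩
        ⟨⟨0, 1001, 1000⟩, ⟨2000, 2021, 3000⟩, ⟨170, 260, 1000⟩, ⟨300, 541, 1000⟩⟩ &&
      (piece3.hC3m piece3.xPU zHi).checkQuick ⟨396, ⟨3, 8, 17, 12⟩⟩
        ⟨⟨0, 1001, 1000⟩, ⟨2000, 2021, 3000⟩, ⟨170, 260, 1000⟩, ⟨300, 541, 1000⟩⟩) = true := by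
  decide +kernel

theorem p3hC2pHiZHi_pos :
    PosBox ⟨⟨0, 1001, 1000⟩, ⟨2000, 2021, 3000⟩, ⟨170, 260, 1000⟩, ⟨300, 541, 1000⟩⟩
      (piece3.hC2p piece3.xPU zHi) :=
  posBox_of_check (and_four p3hFourHiZHi).1

theorem p3hC2mHiZHi_pos :
    PosBox ⟨⟨0, 1001, 1000⟩, ⟨2000, 2021, 3000⟩, ⟨170, 260, 1000⟩, ⟨300, 541, 1000⟩⟩
      (piece3.hC2m piece3.xPU zHi) :=
  posBox_of_check (and_four p3hFourHiZHi).2.1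

theorem p3hC3pHiZHi_pos :
    PosBox ⟨⟨0, 1001, 1000⟩, ⟨2000, 2021, 3000⟩, ⟨170, 260, 1000⟩, ⟨300, 541, 1000⟩⟩
      (piece3.hC3p piece3.xPU zHi) :=
  posBox_of_check (and_four p3hFourHiZHi).2.2.1

theorem p3hC3mHiZHi_pos :
    PosBox ⟨⟨0, 1001, 1000⟩, ⟨2000, 2021, 3000⟩, ⟨170, 260, 1000⟩, ⟨300, 541, 1000⟩⟩
      (piece3.hC3m piece3.xPU zHi) :=
  posBox_of_check (and_four p3hFourHiZHi).2.2.2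

def p3hNHiZHi_1 :
    (piece3.hN piece3.xPU zHi).checkQuick
      ⟨323, ⟨2, 7, 14, 10⟩⟩
      ⟨⟨0, 1001, 1000⟩, ⟨2000, 2021, 3000⟩, ⟨170, 260, 1000⟩, ⟨300, 541, 1000⟩⟩ = true := by
  decide +kernel

theorem p3hNHiZHi_pos :
    PosBox ⟨⟨0, 1001, 1000⟩, ⟨2000, 2021, 3000⟩, ⟨170, 260, 1000⟩, ⟨300, 541, 1000⟩⟩
      (piece3.hN piece3.xPU zHi) :=
  posBox_of_check p3hNHiZHi_1

end Vale.Agent.P100.Calib.Closed.Six.Low
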