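import Vale.Agent.P100.Calib.SlabSixLowPieces

/-!
# Checks of the certificate of dimension six on `0 < u ≤ 3/5`
-/

-- The checks are definitions, so that they run one after another with little memory.
set_option linter.defProp false

namespace Vale.Agent.P100.Calib.Closed.Six.Low

open BoxPos
open Vale.Agent.P100.Calib.Closed.Large (PosBox posBox_of_check and_four posBox_join₀ posBox_join₂ posBox_join₃)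

def p4xRoom_1 :
    (piece4.xRoom).checkQuick
      ⟨31, ⟨0, 0, 1, 1⟩⟩
      ⟨⟨0, 1001, 1000⟩, ⟨2000, 2021, 3000⟩, ⟨170, 260, 1000⟩, ⟨540, 831, 1000⟩⟩ = true := by
  decide +kernel

theorem p4xRoom_pos :
    PosBox ⟨⟨0, 1001, 1000⟩, ⟨2000, 2021, 3000⟩, ⟨170, 260, 1000⟩, ⟨540, 831, 1000⟩⟩
      (piece4.xRoom) :=
  posBox_of_check p4xRoom_1

def p4xPhi_1 :
    (piece4.xPhi).checkQuick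
      ⟨85, ⟨0, 0, 4, 2⟩⟩
      ⟨⟨0, 1001, 1000⟩, ⟨2000, 2021, 3000⟩, ⟨170, 260, 1000⟩, ⟨540, 831, 1000⟩⟩ = true := by
  decide +kernel

theorem p4xPhi_pos :
    PosBox ⟨⟨0, 1001, 1000⟩, ⟨2000, 2021, 3000⟩, ⟨170, 260, 1000⟩, ⟨540, 831, 1000⟩⟩
      (piece4.xPhi) :=
  posBox_of_check p4xPhi_1

def p4xGap_1 :
    (piece4.xGap).checkQuick
      ⟨63, ⟨0, 2, 3, 2⟩⟩
      ⟨⟨0, 1001, 1000⟩, ⟨2000, 2021, 3000⟩, ⟨170, 260, 1000⟩, ⟨540, 831, 1000⟩⟩ = true := by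
  decide +kernel

theorem p4xGap_pos :
    PosBox ⟨⟨0, 1001, 1000⟩, ⟨2000, 2021, 3000⟩, ⟨170, 260, 1000⟩, ⟨540, 831, 1000⟩⟩
      (piece4.xGap) :=
  posBox_of_check p4xGap_1

def p4hELL_1 :
    (piece4.hEL xTL).checkQuick
      ⟨332, ⟨5, 8, 11, 6⟩⟩
      ⟨⟨0, 1001, 1000⟩, ⟨2000, 2021, 3000⟩, ⟨170, 260, 1000⟩, ⟨540, 831, 1000⟩⟩ = true := by
  decide +kernel

theorem p4hELL_pos :
    PosBox ⟨⟨0, 1001, 1000⟩, ⟨2000, 2021, 3000⟩, ⟨170, 260, 1000⟩, ⟨540, 831, 1000⟩⟩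
      (piece4.hEL xTL) :=
  posBox_of_check p4hELL_1

def p4hEHL_1 :
    (piece4.hEH xTL).checkQuick
      ⟨332, ⟨5, 8, 11, 6⟩⟩
      ⟨⟨0, 1001, 1000⟩, ⟨2000, 2021, 3000⟩, ⟨170, 260, 1000⟩, ⟨540, 831, 1000⟩⟩ = true := by
  decide +kernel

theorem p4hEHL_pos :
    PosBox ⟨⟨0, 1001, 1000⟩, ⟨2000, 2021, 3000⟩, ⟨170, 260, 1000⟩, ⟨540, 831, 1000⟩⟩
      (piece4.hEH xTL) :=
  posBox_of_check p4hEHL_1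

def p4hPUL_1 :
    (piece4.hPU xTL).checkQuick
      ⟨357, ⟨5, 8, 11, 7⟩⟩
      ⟨⟨0, 1001, 1000⟩, ⟨2000, 2021, 3000⟩, ⟨170, 260, 1000⟩, ⟨540, 831, 1000⟩⟩ = true := by
  decide +kernel

theorem p4hPUL_pos :
    PosBox ⟨⟨0, 1001, 1000⟩, ⟨2000, 2021, 3000⟩, ⟨170, 260, 1000⟩, ⟨540, 831, 1000⟩⟩
      (piece4.hPU xTL) :=
  posBox_of_check p4hPUL_1

def p4hKUL_1 :
    (piece4.hKU xTL).checkQuick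
      ⟨354, ⟨5, 8, 11, 7⟩⟩
      ⟨⟨0, 1001, 1000⟩, ⟨2000, 2021, 3000⟩, ⟨170, 260, 1000⟩, ⟨540, 831, 1000⟩⟩ = true := by
  decide +kernel

theorem p4hKUL_pos :
    PosBox ⟨⟨0, 1001, 1000⟩, ⟨2000, 2021, 3000⟩, ⟨170, 260, 1000⟩, ⟨540, 831, 1000⟩⟩
      (piece4.hKU xTL) :=
  posBox_of_check p4hKUL_1

def p4hKLL_1 :
    (piece4.hKL xTL).checkQuick
      ⟨354, ⟨5, 8, 11, 7⟩⟩
      ⟨⟨0, 1001, 1000⟩, ⟨2000, 2021, 3000⟩, ⟨170, 260, 1000⟩, ⟨540, 831, 1000⟩⟩ = true := by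
  decide +kernel

theorem p4hKLL_pos :
    PosBox ⟨⟨0, 1001, 1000⟩, ⟨2000, 2021, 3000⟩, ⟨170, 260, 1000⟩, ⟨540, 831, 1000⟩⟩
      (piece4.hKL xTL) :=
  posBox_of_check p4hKLL_1

def p4hWUL_1 :
    (piece4.hWU xTL).checkQuick
      ⟨356, ⟨5, 7, 11, 7⟩⟩
      ⟨⟨0, 1001, 1000⟩, ⟨2000, 2021, 3000⟩, ⟨170, 260, 1000⟩, ⟨540, 831, 1000⟩⟩ = true := by
  decide +kernel

theorem p4hWUL_pos :
    PosBox ⟨⟨0, 1001, 1000⟩, ⟨2000, 2021, 3000⟩, ⟨170, 260, 1000⟩, ⟨540, 831, 1000⟩⟩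
      (piece4.hWU xTL) :=
  posBox_of_check p4hWUL_1

def p4hWLL_1 :
    (piece4.hWL xTL).checkQuick
      ⟨356, ⟨5, 7, 11, 7⟩⟩
      ⟨⟨0, 1001, 1000⟩, ⟨2000, 2021, 3000⟩, ⟨170, 260, 1000⟩, ⟨540, 831, 1000⟩⟩ = true := by
  decide +kernel

theorem p4hWLL_pos :
    PosBox ⟨⟨0, 1001, 1000⟩, ⟨2000, 2021, 3000⟩, ⟨170, 260, 1000⟩, ⟨540, 831, 1000⟩⟩
      (piece4.hWL xTL) :=
  posBox_of_check p4hWLL_1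

def p4hZL_1 :
    (piece4.hZ xTL).checkQuick
      ⟨509, ⟨8, 10, 18, 8⟩⟩
      ⟨⟨0, 1001, 1000⟩, ⟨2000, 2021, 3000⟩, ⟨170, 260, 1000⟩, ⟨540, 831, 1000⟩⟩ = true := by
  decide +kernel

theorem p4hZL_pos :
    PosBox ⟨⟨0, 1001, 1000⟩, ⟨2000, 2021, 3000⟩, ⟨170, 260, 1000⟩, ⟨540, 831, 1000⟩⟩
      (piece4.hZ xTL) :=
  posBox_of_check p4hZL_1

def p4hELU_1 :
    (piece4.hEL xTU).checkQuick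
      ⟨347, ⟨5, 8, 12, 6⟩⟩
      ⟨⟨0, 1001, 1000⟩, ⟨2000, 2021, 3000⟩, ⟨170, 260, 1000⟩, ⟨540, 831, 1000⟩⟩ = true := by
  decide +kernel

theorem p4hELU_pos :
    PosBox ⟨⟨0, 1001, 1000⟩, ⟨2000, 2021, 3000⟩, ⟨170, 260, 1000⟩, ⟨540, 831, 1000⟩⟩
      (piece4.hEL xTU) :=
  posBox_of_check p4hELU_1

def p4hEHU_1 :
    (piece4.hEH xTU).checkQuick
      ⟨346, ⟨5, 8, 12, 6⟩⟩
      ⟨⟨0, 1001, 1000⟩, ⟨2000, 2021, 3000⟩, ⟨170, 260, 1000⟩, ⟨540, 831, 1000⟩⟩ = true := by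
  decide +kernel

theorem p4hEHU_pos :
    PosBox ⟨⟨0, 1001, 1000⟩, ⟨2000, 2021, 3000⟩, ⟨170, 260, 1000⟩, ⟨540, 831, 1000⟩⟩
      (piece4.hEH xTU) :=
  posBox_of_check p4hEHU_1

def p4hPUU_1 :
    (piece4.hPU xTU).checkQuick
      ⟨370, ⟨5, 8, 12, 7⟩⟩
      ⟨⟨0, 500, 1000⟩, ⟨2000, 2021, 3000⟩, ⟨170, 260, 1000⟩, ⟨540, 831, 1000⟩⟩ = true := by
  decide +kernel

def p4hPUU_2 :
    (piece4.hPU xTU).checkQuick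
      ⟨372, ⟨5, 8, 12, 7⟩⟩
      ⟨⟨500, 1001, 1000⟩, ⟨2000, 2021, 3000⟩, ⟨170, 260, 1000⟩, ⟨540, 831, 1000⟩⟩ = true := by
  decide +kernel

theorem p4hPUU_pos :
    PosBox ⟨⟨0, 1001, 1000⟩, ⟨2000, 2021, 3000⟩, ⟨170, 260, 1000⟩, ⟨540, 831, 1000⟩⟩
      (piece4.hPU xTU) :=
  posBox_join₀ (posBox_of_check p4hPUU_1) (posBox_of_check p4hPUU_2)

def p4hKUU_1 :
    (piece4.hKU xTU).checkQuick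
      ⟨369, ⟨5, 8, 12, 7⟩⟩
      ⟨⟨0, 1001, 1000⟩, ⟨2000, 2021, 3000⟩, ⟨170, 260, 1000⟩, ⟨540, 831, 1000⟩⟩ = true := by
  decide +kernel

theorem p4hKUU_pos :
    PosBox ⟨⟨0, 1001, 1000⟩, ⟨2000, 2021, 3000⟩, ⟨170, 260, 1000⟩, ⟨540, 831, 1000⟩⟩
      (piece4.hKU xTU) :=
  posBox_of_check p4hKUU_1

def p4hKLU_1 :
    (piece4.hKL xTU).checkQuick
      ⟨369, ⟨5, 8, 12, 7⟩⟩
      ⟨⟨0, 1001, 1000⟩, ⟨2000, 2021, 3000⟩, ⟨170, 260, 1000⟩, ⟨540, 831, 1000⟩⟩ = true := by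
  decide +kernel

theorem p4hKLU_pos :
    PosBox ⟨⟨0, 1001, 1000⟩, ⟨2000, 2021, 3000⟩, ⟨170, 260, 1000⟩, ⟨540, 831, 1000⟩⟩
      (piece4.hKL xTU) :=
  posBox_of_check p4hKLU_1

def p4hWUU_1 :
    (piece4.hWU xTU).checkQuick
      ⟨371, ⟨5, 7, 12, 7⟩⟩
      ⟨⟨0, 1001, 1000⟩, ⟨2000, 2021, 3000⟩, ⟨170, 260, 1000⟩, ⟨540, 831, 1000⟩⟩ = true := by
  decide +kernel

theorem p4hWUU_pos :
    PosBox ⟨⟨0, 1001, 1000⟩, ⟨2000, 2021, 3000⟩, ⟨170, 260, 1000⟩, ⟨540, 831, 1000⟩⟩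
      (piece4.hWU xTU) :=
  posBox_of_check p4hWUU_1

def p4hWLU_1 :
    (piece4.hWL xTU).checkQuick
      ⟨371, ⟨5, 7, 12, 7⟩⟩
      ⟨⟨0, 1001, 1000⟩, ⟨2000, 2021, 3000⟩, ⟨170, 260, 1000⟩, ⟨540, 831, 1000⟩⟩ = true := by
  decide +kernel

theorem p4hWLU_pos :
    PosBox ⟨⟨0, 1001, 1000⟩, ⟨2000, 2021, 3000⟩, ⟨170, 260, 1000⟩, ⟨540, 831, 1000⟩⟩
      (piece4.hWL xTU) :=
  posBox_of_check p4hWLU_1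

def p4hZU_1 :
    (piece4.hZ xTU).checkQuick
      ⟨510, ⟨8, 10, 18, 8⟩⟩
      ⟨⟨0, 1001, 1000⟩, ⟨2000, 2021, 3000⟩, ⟨170, 260, 1000⟩, ⟨540, 831, 1000⟩⟩ = true := by
  decide +kernel

theorem p4hZU_pos :
    PosBox ⟨⟨0, 1001, 1000⟩, ⟨2000, 2021, 3000⟩, ⟨170, 260, 1000⟩, ⟨540, 831, 1000⟩⟩
      (piece4.hZ xTU) :=
  posBox_of_check p4hZU_1

def p4hKp_1 :
    (piece4.hKp).checkQuick
      ⟨88, ⟨1, 1, 3, 3⟩⟩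
      ⟨⟨0, 1001, 1000⟩, ⟨2000, 2021, 3000⟩, ⟨170, 260, 1000⟩, ⟨540, 831, 1000⟩⟩ = true := by
  decide +kernel

theorem p4hKp_pos :
    PosBox ⟨⟨0, 1001, 1000⟩, ⟨2000, 2021, 3000⟩, ⟨170, 260, 1000⟩, ⟨540, 831, 1000⟩⟩
      (piece4.hKp) :=
  posBox_of_check p4hKp_1

def p4hKm_1 :
    (piece4.hKm).checkQuick
      ⟨88, ⟨1, 1, 3, 3⟩⟩
      ⟨⟨0, 1001, 1000⟩, ⟨2000, 2021, 3000⟩, ⟨170, 260, 1000⟩, ⟨540, 831, 1000⟩⟩ = true := by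
  decide +kernel

theorem p4hKm_pos :
    PosBox ⟨⟨0, 1001, 1000⟩, ⟨2000, 2021, 3000⟩, ⟨170, 260, 1000⟩, ⟨540, 831, 1000⟩⟩
      (piece4.hKm) :=
  posBox_of_check p4hKm_1

def p4hMZeroLo_1 :
    (piece4.hM₀ piece4.xPL).checkQuick
      ⟨214, ⟨2, 5, 9, 6⟩⟩
      ⟨⟨0, 1001, 1000⟩, ⟨2000, 2021, 3000⟩, ⟨170, 260, 1000⟩, ⟨540, 831, 1000⟩⟩ = true := by
  decide +kernel

theorem p4hMZeroLo_pos :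
    PosBox ⟨⟨0, 1001, 1000⟩, ⟨2000, 2021, 3000⟩, ⟨170, 260, 1000⟩, ⟨540, 831, 1000⟩⟩
      (piece4.hM₀ piece4.xPL) :=
  posBox_of_check p4hMZeroLo_1

def p4hC1Lo_1 :
    (piece4.hC1 piece4.xPL).checkQuick
      ⟨242, ⟨3, 5, 9, 8⟩⟩
      ⟨⟨0, 1001, 1000⟩, ⟨2000, 2021, 3000⟩, ⟨170, 260, 1000⟩, ⟨540, 831, 1000⟩⟩ = true := by
  decide +kernel

theorem p4hC1Lo_pos :
    PosBox ⟨⟨0, 1001, 1000⟩, ⟨2000, 2021, 3000⟩, ⟨170, 260, 1000⟩, ⟨540, 831, 1000⟩⟩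
      (piece4.hC1 piece4.xPL) :=
  posBox_of_check p4hC1Lo_1

def p4hGLoZLo_1 :
    (piece4.hG piece4.xPL piece4.zLo).checkQuick
      ⟨349, ⟨2, 7, 16, 11⟩⟩
      ⟨⟨0, 1001, 1000⟩, ⟨2000, 2021, 3000⟩, ⟨170, 260, 1000⟩, ⟨540, 831, 1000⟩⟩ = true := by
  decide +kernel

theorem p4hGLoZLo_pos :
    PosBox ⟨⟨0, 1001, 1000⟩, ⟨2000, 2021, 3000⟩, ⟨170, 260, 1000⟩, ⟨540, 831, 1000⟩⟩
      (piece4.hG piece4.xPL piece4.zLo) :=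
  posBox_of_check p4hGLoZLo_1

def p4hFourLoZLo :
    ((piece4.hC2p piece4.xPL piece4.zLo).checkQuick ⟨435, ⟨3, 8, 19, 14⟩⟩
        ⟨⟨0, 1001, 1000⟩, ⟨2000, 2021, 3000⟩, ⟨170, 260, 1000⟩, ⟨540, 831, 1000⟩⟩ &&
      (piece4.hC2m piece4.xPL piece4.zLo).checkQuick ⟨435, ⟨3, 8, 19, 14⟩⟩
        ⟨⟨0, 1001, 1000⟩, ⟨2000, 2021, 3000⟩, ⟨170, 260, 1000⟩, ⟨540, 831, 1000⟩⟩ &&
      (piece4.hC3p piece4.xPL piece4.zLo).checkQuick ⟨435, ⟨3, 8, 19, 14⟩⟩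
        ⟨⟨0, 1001, 1000⟩, ⟨2000, 2021, 3000⟩, ⟨170, 260, 1000⟩, ⟨540, 831, 1000⟩⟩ &&
      (piece4.hC3m piece4.xPL piece4.zLo).checkQuick ⟨435, ⟨3, 8, 19, 14⟩⟩
        ⟨⟨0, 1001, 1000⟩, ⟨2000, 2021, 3000⟩, ⟨170, 260, 1000⟩, ⟨540, 831, 1000⟩⟩) = true := by
  decide +kernel

theorem p4hC2pLoZLo_pos :
    PosBox ⟨⟨0, 1001, 1000⟩, ⟨2000, 2021, 3000⟩, ⟨170, 260, 1000⟩, ⟨540, 831, 1000⟩⟩
      (piece4.hC2p piece4.xPL piece4.zLo) :=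
  posBox_of_check (and_four p4hFourLoZLo).1

theorem p4hC2mLoZLo_pos :
    PosBox ⟨⟨0, 1001, 1000⟩, ⟨2000, 2021, 3000⟩, ⟨170, 260, 1000⟩, ⟨540, 831, 1000⟩⟩
      (piece4.hC2m piece4.xPL piece4.zLo) :=
  posBox_of_check (and_four p4hFourLoZLo).2.1

theorem p4hC3pLoZLo_pos :
    PosBox ⟨⟨0, 1001, 1000⟩, ⟨2000, 2021, 3000⟩, ⟨170, 260, 1000⟩, ⟨540, 831, 1000⟩⟩
      (piece4.hC3p piece4.xPL piece4.zLo) :=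
  posBox_of_check (and_four p4hFourLoZLo).2.2.1

theorem p4hC3mLoZLo_pos :
    PosBox ⟨⟨0, 1001, 1000⟩, ⟨2000, 2021, 3000⟩, ⟨170, 260, 1000⟩, ⟨540, 831, 1000⟩⟩
      (piece4.hC3m piece4.xPL piece4.zLo) :=
  posBox_of_check (and_four p4hFourLoZLo).2.2.2

def p4hNLoZLo_1 :
    (piece4.hN piece4.xPL piece4.zLo).checkQuick
      ⟨334, ⟨2, 7, 15, 10⟩⟩
      ⟨⟨0, 1001, 1000⟩, ⟨2000, 2021, 3000⟩, ⟨170, 260, 1000⟩, ⟨540, 831, 1000⟩⟩ = true := by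
  decide +kernel

theorem p4hNLoZLo_pos :
    PosBox ⟨⟨0, 1001, 1000⟩, ⟨2000, 2021, 3000⟩, ⟨170, 260, 1000⟩, ⟨540, 831, 1000⟩⟩
      (piece4.hN piece4.xPL piece4.zLo) :=
  posBox_of_check p4hNLoZLo_1

def p4hGLoZHi_1 :
    (piece4.hG piece4.xPL zHi).checkQuick
      ⟨306, ⟨2, 7, 14, 9⟩⟩
      ⟨⟨0, 1001, 1000⟩, ⟨2000, 2021, 3000⟩, ⟨170, 260, 1000⟩, ⟨540, 831, 1000⟩⟩ = true := by
  decide +kernel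

theorem p4hGLoZHi_pos :
    PosBox ⟨⟨0, 1001, 1000⟩, ⟨2000, 2021, 3000⟩, ⟨170, 260, 1000⟩, ⟨540, 831, 1000⟩⟩
      (piece4.hG piece4.xPL zHi) :=
  posBox_of_check p4hGLoZHi_1

def p4hFourLoZHi :
    ((piece4.hC2p piece4.xPL zHi).checkQuick ⟨392, ⟨3, 8, 17, 12⟩⟩
        ⟨⟨0, 1001, 1000⟩, ⟨2000, 2021, 3000⟩, ⟨170, 260, 1000⟩, ⟨540, 831, 1000⟩⟩ &&
      (piece4.hC2m piece4.xPL zHi).checkQuick ⟨392, ⟨3, 8, 17, 12⟩⟩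
        ⟨⟨0, 1001, 1000⟩, ⟨2000, 2021, 3000⟩, ⟨170, 260, 1000⟩, ⟨540, 831, 1000⟩⟩ &&
      (piece4.hC3p piece4.xPL zHi).checkQuick ⟨392, ⟨3, 8, 17, 12⟩⟩
        ⟨⟨0, 1001, 1000⟩, ⟨2000, 2021, 3000⟩, ⟨170, 260, 1000⟩, ⟨540, 831, 1000⟩⟩ &&
      (piece4.hC3m piece4.xPL zHi).checkQuick ⟨392, ⟨3, 8, 17, 12⟩⟩
        ⟨⟨0, 1001, 1000⟩, ⟨2000, 2021, 3000⟩, ⟨170, 260, 1000⟩, ⟨540, 831, 1000⟩⟩) = true := by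
  decide +kernel

theorem p4hC2pLoZHi_pos :
    PosBox ⟨⟨0, 1001, 1000⟩, ⟨2000, 2021, 3000⟩, ⟨170, 260, 1000⟩, ⟨540, 831, 1000⟩⟩
      (piece4.hC2p piece4.xPL zHi) :=
  posBox_of_check (and_four p4hFourLoZHi).1

theorem p4hC2mLoZHi_pos :
    PosBox ⟨⟨0, 1001, 1000⟩, ⟨2000, 2021, 3000⟩, ⟨170, 260, 1000⟩, ⟨540, 831, 1000⟩⟩
      (piece4.hC2m piece4.xPL zHi) :=
  posBox_of_check (and_four p4hFourLoZHi).2.1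

theorem p4hC3pLoZHi_pos :
    PosBox ⟨⟨0, 1001, 1000⟩, ⟨2000, 2021, 3000⟩, ⟨170, 260, 1000⟩, ⟨540, 831, 1000⟩⟩
      (piece4.hC3p piece4.xPL zHi) :=
  posBox_of_check (and_four p4hFourLoZHi).2.2.1

theorem p4hC3mLoZHi_pos :
    PosBox ⟨⟨0, 1001, 1000⟩, ⟨2000, 2021, 3000⟩, ⟨170, 260, 1000⟩, ⟨540, 831, 1000⟩⟩
      (piece4.hC3m piece4.xPL zHi) :=
  posBox_of_check (and_four p4hFourLoZHi).2.2.2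

def p4hNLoZHi_1 :
    (piece4.hN piece4.xPL zHi).checkQuick
      ⟨323, ⟨2, 7, 14, 10⟩⟩
      ⟨⟨0, 1001, 1000⟩, ⟨2000, 2021, 3000⟩, ⟨170, 260, 1000⟩, ⟨540, 831, 1000⟩⟩ = true := by
  decide +kernel

theorem p4hNLoZHi_pos :
    PosBox ⟨⟨0, 1001, 1000⟩, ⟨2000, 2021, 3000⟩, ⟨170, 260, 1000⟩, ⟨540, 831, 1000⟩⟩
      (piece4.hN piece4.xPL zHi) :=
  posBox_of_check p4hNLoZHi_1

def p4hV2p_1 :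
    (piece4.hV2p).checkQuick
      ⟨229, ⟨1, 6, 11, 6⟩⟩
      ⟨⟨0, 1001, 1000⟩, ⟨2000, 2021, 3000⟩, ⟨170, 260, 1000⟩, ⟨540, 831, 1000⟩⟩ = true := by
  decide +kernel

theorem p4hV2p_pos :
    PosBox ⟨⟨0, 1001, 1000⟩, ⟨2000, 2021, 3000⟩, ⟨170, 260, 1000⟩, ⟨540, 831, 1000⟩⟩
      (piece4.hV2p) :=
  posBox_of_check p4hV2p_1

def p4hV2m_1 :
    (piece4.hV2m).checkQuick
      ⟨228, ⟨1, 6, 11, 6⟩⟩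
      ⟨⟨0, 1001, 1000⟩, ⟨2000, 2021, 3000⟩, ⟨170, 260, 1000⟩, ⟨540, 831, 1000⟩⟩ = true := by
  decide +kernel

theorem p4hV2m_pos :
    PosBox ⟨⟨0, 1001, 1000⟩, ⟨2000, 2021, 3000⟩, ⟨170, 260, 1000⟩, ⟨540, 831, 1000⟩⟩
      (piece4.hV2m) :=
  posBox_of_check p4hV2m_1

def p4hV3p_1 :
    (piece4.hV3p).checkQuick
      ⟨218, ⟨1, 6, 10, 6⟩⟩
      ⟨⟨0, 1001, 1000⟩, ⟨2000, 2021, 3000⟩, ⟨170, 260, 1000⟩, ⟨540, 831, 1000⟩⟩ = true := by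
  decide +kernel

theorem p4hV3p_pos :
    PosBox ⟨⟨0, 1001, 1000⟩, ⟨2000, 2021, 3000⟩, ⟨170, 260, 1000⟩, ⟨540, 831, 1000⟩⟩
      (piece4.hV3p) :=
  posBox_of_check p4hV3p_1

def p4hV3m_1 :
    (piece4.hV3m).checkQuick
      ⟨218, ⟨1, 6, 10, 6⟩⟩
      ⟨⟨0, 1001, 1000⟩, ⟨2000, 2021, 3000⟩, ⟨170, 260, 1000⟩, ⟨540, 831, 1000⟩⟩ = true := by
  decide +kernel

theorem p4hV3m_pos :
    PosBox ⟨⟨0, 1001, 1000⟩, ⟨2000, 2021, 3000⟩, ⟨170, 260, 1000⟩, ⟨540, 831, 1000⟩⟩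
      (piece4.hV3m) :=
  posBox_of_check p4hV3m_1

def p4hMZeroHi_1 :
    (piece4.hM₀ piece4.xPU).checkQuick
      ⟨214, ⟨2, 5, 9, 6⟩⟩
      ⟨⟨0, 1001, 1000⟩, ⟨2000, 2021, 3000⟩, ⟨170, 260, 1000⟩, ⟨540, 831, 1000⟩⟩ = true := by
  decide +kernel

theorem p4hMZeroHi_pos :
    PosBox ⟨⟨0, 1001, 1000⟩, ⟨2000, 2021, 3000⟩, ⟨170, 260, 1000⟩, ⟨540, 831, 1000⟩⟩
      (piece4.hM₀ piece4.xPU) :=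
  posBox_of_check p4hMZeroHi_1

def p4hC1Hi_1 :
    (piece4.hC1 piece4.xPU).checkQuick
      ⟨242, ⟨3, 5, 9, 8⟩⟩
      ⟨⟨0, 1001, 1000⟩, ⟨2000, 2021, 3000⟩, ⟨170, 260, 1000⟩, ⟨540, 831, 1000⟩⟩ = true := by
  decide +kernel

theorem p4hC1Hi_pos :
    PosBox ⟨⟨0, 1001, 1000⟩, ⟨2000, 2021, 3000⟩, ⟨170, 260, 1000⟩, ⟨540, 831, 1000⟩⟩
      (piece4.hC1 piece4.xPU) :=
  posBox_of_check p4hC1Hi_1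

def p4hGHiZLo_1 :
    (piece4.hG piece4.xPU piece4.zLo).checkQuick
      ⟨349, ⟨2, 7, 16, 11⟩⟩
      ⟨⟨0, 1001, 1000⟩, ⟨2000, 2021, 3000⟩, ⟨170, 260, 1000⟩, ⟨540, 831, 1000⟩⟩ = true := by
  decide +kernel

theorem p4hGHiZLo_pos :
    PosBox ⟨⟨0, 1001, 1000⟩, ⟨2000, 2021, 3000⟩, ⟨170, 260, 1000⟩, ⟨540, 831, 1000⟩⟩
      (piece4.hG piece4.xPU piece4.zLo) :=
  posBox_of_check p4hGHiZLo_1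

def p4hFourHiZLo :
    ((piece4.hC2p piece4.xPU piece4.zLo).checkQuick ⟨436, ⟨3, 8, 19, 14⟩⟩
        ⟨⟨0, 1001, 1000⟩, ⟨2000, 2021, 3000⟩, ⟨170, 260, 1000⟩, ⟨540, 831, 1000⟩⟩ &&
      (piece4.hC2m piece4.xPU piece4.zLo).checkQuick ⟨436, ⟨3, 8, 19, 14⟩⟩
        ⟨⟨0, 1001, 1000⟩, ⟨2000, 2021, 3000⟩, ⟨170, 260, 1000⟩, ⟨540, 831, 1000⟩⟩ &&
      (piece4.hC3p piece4.xPU piece4.zLo).checkQuick ⟨436, ⟨3, 8, 19, 14⟩⟩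
        ⟨⟨0, 1001, 1000⟩, ⟨2000, 2021, 3000⟩, ⟨170, 260, 1000⟩, ⟨540, 831, 1000⟩⟩ &&
      (piece4.hC3m piece4.xPU piece4.zLo).checkQuick ⟨436, ⟨3, 8, 19, 14⟩⟩
        ⟨⟨0, 1001, 1000⟩, ⟨2000, 2021, 3000⟩, ⟨170, 260, 1000⟩, ⟨540, 831, 1000⟩⟩) = true := by
  decide +kernel

theorem p4hC2pHiZLo_pos :
    PosBox ⟨⟨0, 1001, 1000⟩, ⟨2000, 2021, 3000⟩, ⟨170, 260, 1000⟩, ⟨540, 831, 1000⟩⟩
      (piece4.hC2p piece4.xPU piece4.zLo) :=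
  posBox_of_check (and_four p4hFourHiZLo).1

theorem p4hC2mHiZLo_pos :
    PosBox ⟨⟨0, 1001, 1000⟩, ⟨2000, 2021, 3000⟩, ⟨170, 260, 1000⟩, ⟨540, 831, 1000⟩⟩
      (piece4.hC2m piece4.xPU piece4.zLo) :=
  posBox_of_check (and_four p4hFourHiZLo).2.1

theorem p4hC3pHiZLo_pos :
    PosBox ⟨⟨0, 1001, 1000⟩, ⟨2000, 2021, 3000⟩, ⟨170, 260, 1000⟩, ⟨540, 831, 1000⟩⟩
      (piece4.hC3p piece4.xPU piece4.zLo) :=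
  posBox_of_check (and_four p4hFourHiZLo).2.2.1

theorem p4hC3mHiZLo_pos :
    PosBox ⟨⟨0, 1001, 1000⟩, ⟨2000, 2021, 3000⟩, ⟨170, 260, 1000⟩, ⟨540, 831, 1000⟩⟩
      (piece4.hC3m piece4.xPU piece4.zLo) :=
  posBox_of_check (and_four p4hFourHiZLo).2.2.2

def p4hNHiZLo_1 :
    (piece4.hN piece4.xPU piece4.zLo).checkQuick
      ⟨334, ⟨2, 7, 15, 10⟩⟩
      ⟨⟨0, 1001, 1000⟩, ⟨2000, 2021, 3000⟩, ⟨170, 260, 1000⟩, ⟨540, 831, 1000⟩⟩ = true := by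
  decide +kernel

theorem p4hNHiZLo_pos :
    PosBox ⟨⟨0, 1001, 1000⟩, ⟨2000, 2021, 3000⟩, ⟨170, 260, 1000⟩, ⟨540, 831, 1000⟩⟩
      (piece4.hN piece4.xPU piece4.zLo) :=
  posBox_of_check p4hNHiZLo_1

def p4hGHiZHi_1 :
    (piece4.hG piece4.xPU zHi).checkQuick
      ⟨307, ⟨2, 7, 14, 9⟩⟩
      ⟨⟨0, 1001, 1000⟩, ⟨2000, 2021, 3000⟩, ⟨170, 260, 1000⟩, ⟨540, 831, 1000⟩⟩ = true := by
  decide +kernel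

theorem p4hGHiZHi_pos :
    PosBox ⟨⟨0, 1001, 1000⟩, ⟨2000, 2021, 3000⟩, ⟨170, 260, 1000⟩, ⟨540, 831, 1000⟩⟩
      (piece4.hG piece4.xPU zHi) :=
  posBox_of_check p4hGHiZHi_1

def p4hFourHiZHi :
    ((piece4.hC2p piece4.xPU zHi).checkQuick ⟨393, ⟨3, 8, 17, 12⟩⟩
        ⟨⟨0, 1001, 1000⟩, ⟨2000, 2021, 3000⟩, ⟨170, 260, 1000⟩, ⟨540, 831, 1000⟩⟩ &&
      (piece4.hC2m piece4.xPU zHi).checkQuick ⟨393, ⟨3, 8, 17, 12⟩⟩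
        ⟨⟨0, 1001, 1000⟩, ⟨2000, 2021, 3000⟩, ⟨170, 260, 1000⟩, ⟨540, 831, 1000⟩⟩ &&
      (piece4.hC3p piece4.xPU zHi).checkQuick ⟨393, ⟨3, 8, 17, 12⟩⟩
        ⟨⟨0, 1001, 1000⟩, ⟨2000, 2021, 3000⟩, ⟨170, 260, 1000⟩, ⟨540, 831, 1000⟩⟩ &&
      (piece4.hC3m piece4.xPU zHi).checkQuick ⟨393, ⟨3, 8, 17, 12⟩⟩
        ⟨⟨0, 1001, 1000⟩, ⟨2000, 2021, 3000⟩, ⟨170, 260, 1000⟩, ⟨540, 831, 1000⟩⟩) = true := by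
  decide +kernel

theorem p4hC2pHiZHi_pos :
    PosBox ⟨⟨0, 1001, 1000⟩, ⟨2000, 2021, 3000⟩, ⟨170, 260, 1000⟩, ⟨540, 831, 1000⟩⟩
      (piece4.hC2p piece4.xPU zHi) :=
  posBox_of_check (and_four p4hFourHiZHi).1

theorem p4hC2mHiZHi_pos :
    PosBox ⟨⟨0, 1001, 1000⟩, ⟨2000, 2021, 3000⟩, ⟨170, 260, 1000⟩, ⟨540, 831, 1000⟩⟩
      (piece4.hC2m piece4.xPU zHi) :=
  posBox_of_check (and_four p4hFourHiZHi).2.1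

theorem p4hC3pHiZHi_pos :
    PosBox ⟨⟨0, 1001, 1000⟩, ⟨2000, 2021, 3000⟩, ⟨170, 260, 1000⟩, ⟨540, 831, 1000⟩⟩
      (piece4.hC3p piece4.xPU zHi) :=
  posBox_of_check (and_four p4hFourHiZHi).2.2.1

theorem p4hC3mHiZHi_pos :
    PosBox ⟨⟨0, 1001, 1000⟩, ⟨2000, 2021, 3000⟩, ⟨170, 260, 1000⟩, ⟨540, 831, 1000⟩⟩
      (piece4.hC3m piece4.xPU zHi) :=
  posBox_of_check (and_four p4hFourHiZHi).2.2.2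

def p4hNHiZHi_1 :
    (piece4.hN piece4.xPU zHi).checkQuick
      ⟨323, ⟨2, 7, 14, 10⟩⟩
      ⟨⟨0, 1001, 1000⟩, ⟨2000, 2021, 3000⟩, ⟨170, 260, 1000⟩, ⟨540, 831, 1000⟩⟩ = true := by
  decide +kernel

theorem p4hNHiZHi_pos :
    PosBox ⟨⟨0, 1001, 1000⟩, ⟨2000, 2021, 3000⟩, ⟨170, 260, 1000⟩, ⟨540, 831, 1000⟩⟩
      (piece4.hN piece4.xPU zHi) :=
  posBox_of_check p4hNHiZHi_1

end Vale.Agent.P100.Calib.Closed.Six.Low
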