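import Vale.Agent.P100.Calib.SlabSixLowPieces

/-!
# Checks of the certificate of dimension six on `0 < u ≤ 3/5`
-/

-- The checks are definitions, so that they run one after another with little memory.
set_option linter.defProp false

namespace Vale.Agent.P100.Calib.Closed.Six.Low

open BoxPos
open Vale.Agent.P100.Calib.Closed.Large (PosBox posBox_of_check and_four posBox_join₀ posBox_join₂ posBox_join₃)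

def p5xRoom_1 :
    (piece5.xRoom).checkQuick
      ⟨30, ⟨0, 0, 1, 1⟩⟩
      ⟨⟨0, 1001, 1000⟩, ⟨2000, 2021, 3000⟩, ⟨170, 260, 1000⟩, ⟨830, 1072, 1000⟩⟩ = true := by
  decide +kernel

theorem p5xRoom_pos :
    PosBox ⟨⟨0, 1001, 1000⟩, ⟨2000, 2021, 3000⟩, ⟨170, 260, 1000⟩, ⟨830, 1072, 1000⟩⟩
      (piece5.xRoom) :=
  posBox_of_check p5xRoom_1

def p5xPhi_1 :
    (piece5.xPhi).checkQuick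
      ⟨84, ⟨0, 0, 4, 2⟩⟩
      ⟨⟨0, 1001, 1000⟩, ⟨2000, 2021, 3000⟩, ⟨170, 260, 1000⟩, ⟨830, 1072, 1000⟩⟩ = true := by
  decide +kernel

theorem p5xPhi_pos :
    PosBox ⟨⟨0, 1001, 1000⟩, ⟨2000, 2021, 3000⟩, ⟨170, 260, 1000⟩, ⟨830, 1072, 1000⟩⟩
      (piece5.xPhi) :=
  posBox_of_check p5xPhi_1

def p5hELL_1 :
    (piece5.hEL xTL).checkQuick
      ⟨329, ⟨5, 8, 11, 6⟩⟩
      ⟨⟨0, 1001, 1000⟩, ⟨2000, 2021, 3000⟩, ⟨170, 260, 1000⟩, ⟨830, 1072, 1000⟩⟩ = true := by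
  decide +kernel

theorem p5hELL_pos :
    PosBox ⟨⟨0, 1001, 1000⟩, ⟨2000, 2021, 3000⟩, ⟨170, 260, 1000⟩, ⟨830, 1072, 1000⟩⟩
      (piece5.hEL xTL) :=
  posBox_of_check p5hELL_1

def p5hEHL_1 :
    (piece5.hEH xTL).checkQuick
      ⟨329, ⟨5, 8, 11, 6⟩⟩
      ⟨⟨0, 1001, 1000⟩, ⟨2000, 2021, 3000⟩, ⟨170, 260, 1000⟩, ⟨830, 1072, 1000⟩⟩ = true := by
  decide +kernel

theorem p5hEHL_pos :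
    PosBox ⟨⟨0, 1001, 1000⟩, ⟨2000, 2021, 3000⟩, ⟨170, 260, 1000⟩, ⟨830, 1072, 1000⟩⟩
      (piece5.hEH xTL) :=
  posBox_of_check p5hEHL_1

def p5hPLL_1 :
    (piece5.hPL xTL).checkQuick
      ⟨354, ⟨5, 8, 11, 7⟩⟩
      ⟨⟨0, 1001, 1000⟩, ⟨2000, 2021, 3000⟩, ⟨170, 260, 1000⟩, ⟨830, 1072, 1000⟩⟩ = true := by
  decide +kernel

theorem p5hPLL_pos :
    PosBox ⟨⟨0, 1001, 1000⟩, ⟨2000, 2021, 3000⟩, ⟨170, 260, 1000⟩, ⟨830, 1072, 1000⟩⟩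
      (piece5.hPL xTL) :=
  posBox_of_check p5hPLL_1

def p5hPUL_1 :
    (piece5.hPU xTL).checkQuick
      ⟨354, ⟨5, 8, 11, 7⟩⟩
      ⟨⟨0, 1001, 1000⟩, ⟨2000, 2021, 3000⟩, ⟨170, 260, 1000⟩, ⟨830, 1072, 1000⟩⟩ = true := by
  decide +kernel

theorem p5hPUL_pos :
    PosBox ⟨⟨0, 1001, 1000⟩, ⟨2000, 2021, 3000⟩, ⟨170, 260, 1000⟩, ⟨830, 1072, 1000⟩⟩
      (piece5.hPU xTL) :=
  posBox_of_check p5hPUL_1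

def p5hKUL_1 :
    (piece5.hKU xTL).checkQuick
      ⟨351, ⟨5, 8, 11, 7⟩⟩
      ⟨⟨0, 1001, 1000⟩, ⟨2000, 2021, 3000⟩, ⟨170, 260, 1000⟩, ⟨830, 1072, 1000⟩⟩ = true := by
  decide +kernel

theorem p5hKUL_pos :
    PosBox ⟨⟨0, 1001, 1000⟩, ⟨2000, 2021, 3000⟩, ⟨170, 260, 1000⟩, ⟨830, 1072, 1000⟩⟩
      (piece5.hKU xTL) :=
  posBox_of_check p5hKUL_1

def p5hKLL_1 :
    (piece5.hKL xTL).checkQuick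
      ⟨351, ⟨5, 8, 11, 7⟩⟩
      ⟨⟨0, 1001, 1000⟩, ⟨2000, 2021, 3000⟩, ⟨170, 260, 1000⟩, ⟨830, 1072, 1000⟩⟩ = true := by
  decide +kernel

theorem p5hKLL_pos :
    PosBox ⟨⟨0, 1001, 1000⟩, ⟨2000, 2021, 3000⟩, ⟨170, 260, 1000⟩, ⟨830, 1072, 1000⟩⟩
      (piece5.hKL xTL) :=
  posBox_of_check p5hKLL_1

def p5hWUL_1 :
    (piece5.hWU xTL).checkQuick
      ⟨354, ⟨5, 7, 11, 7⟩⟩
      ⟨⟨0, 1001, 1000⟩, ⟨2000, 2021, 3000⟩, ⟨170, 260, 1000⟩, ⟨830, 1072, 1000⟩⟩ = true := by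
  decide +kernel

theorem p5hWUL_pos :
    PosBox ⟨⟨0, 1001, 1000⟩, ⟨2000, 2021, 3000⟩, ⟨170, 260, 1000⟩, ⟨830, 1072, 1000⟩⟩
      (piece5.hWU xTL) :=
  posBox_of_check p5hWUL_1

def p5hWLL_1 :
    (piece5.hWL xTL).checkQuick
      ⟨354, ⟨5, 7, 11, 7⟩⟩
      ⟨⟨0, 1001, 1000⟩, ⟨2000, 2021, 3000⟩, ⟨170, 260, 1000⟩, ⟨830, 1072, 1000⟩⟩ = true := by
  decide +kernel

theorem p5hWLL_pos :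
    PosBox ⟨⟨0, 1001, 1000⟩, ⟨2000, 2021, 3000⟩, ⟨170, 260, 1000⟩, ⟨830, 1072, 1000⟩⟩
      (piece5.hWL xTL) :=
  posBox_of_check p5hWLL_1

def p5hZL_1 :
    (piece5.hZ xTL).checkQuick
      ⟨503, ⟨8, 10, 18, 8⟩⟩
      ⟨⟨0, 1001, 1000⟩, ⟨2000, 2021, 3000⟩, ⟨170, 260, 1000⟩, ⟨830, 1072, 1000⟩⟩ = true := by
  decide +kernel

theorem p5hZL_pos :
    PosBox ⟨⟨0, 1001, 1000⟩, ⟨2000, 2021, 3000⟩, ⟨170, 260, 1000⟩, ⟨830, 1072, 1000⟩⟩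
      (piece5.hZ xTL) :=
  posBox_of_check p5hZL_1

def p5hELU_1 :
    (piece5.hEL xTU).checkQuick
      ⟨343, ⟨5, 8, 12, 6⟩⟩
      ⟨⟨0, 1001, 1000⟩, ⟨2000, 2021, 3000⟩, ⟨170, 260, 1000⟩, ⟨830, 1072, 1000⟩⟩ = true := by
  decide +kernel

theorem p5hELU_pos :
    PosBox ⟨⟨0, 1001, 1000⟩, ⟨2000, 2021, 3000⟩, ⟨170, 260, 1000⟩, ⟨830, 1072, 1000⟩⟩
      (piece5.hEL xTU) :=
  posBox_of_check p5hELU_1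

def p5hEHU_1 :
    (piece5.hEH xTU).checkQuick
      ⟨343, ⟨5, 8, 12, 6⟩⟩
      ⟨⟨0, 1001, 1000⟩, ⟨2000, 2021, 3000⟩, ⟨170, 260, 1000⟩, ⟨830, 1072, 1000⟩⟩ = true := by
  decide +kernel

theorem p5hEHU_pos :
    PosBox ⟨⟨0, 1001, 1000⟩, ⟨2000, 2021, 3000⟩, ⟨170, 260, 1000⟩, ⟨830, 1072, 1000⟩⟩
      (piece5.hEH xTU) :=
  posBox_of_check p5hEHU_1

def p5hPLU_1 :
    (piece5.hPL xTU).checkQuick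
      ⟨368, ⟨5, 8, 12, 7⟩⟩
      ⟨⟨0, 1001, 1000⟩, ⟨2000, 2021, 3000⟩, ⟨170, 260, 1000⟩, ⟨830, 1072, 1000⟩⟩ = true := by
  decide +kernel

theorem p5hPLU_pos :
    PosBox ⟨⟨0, 1001, 1000⟩, ⟨2000, 2021, 3000⟩, ⟨170, 260, 1000⟩, ⟨830, 1072, 1000⟩⟩
      (piece5.hPL xTU) :=
  posBox_of_check p5hPLU_1

def p5hPUU_1 :
    (piece5.hPU xTU).checkQuick
      ⟨368, ⟨5, 8, 12, 7⟩⟩
      ⟨⟨0, 1001, 1000⟩, ⟨2000, 2021, 3000⟩, ⟨170, 260, 1000⟩, ⟨830, 1072, 1000⟩⟩ = true := by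
  decide +kernel

theorem p5hPUU_pos :
    PosBox ⟨⟨0, 1001, 1000⟩, ⟨2000, 2021, 3000⟩, ⟨170, 260, 1000⟩, ⟨830, 1072, 1000⟩⟩
      (piece5.hPU xTU) :=
  posBox_of_check p5hPUU_1

def p5hKUU_1 :
    (piece5.hKU xTU).checkQuick
      ⟨365, ⟨5, 8, 12, 7⟩⟩
      ⟨⟨0, 1001, 1000⟩, ⟨2000, 2021, 3000⟩, ⟨170, 260, 1000⟩, ⟨830, 1072, 1000⟩⟩ = true := by
  decide +kernel

theorem p5hKUU_pos :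
    PosBox ⟨⟨0, 1001, 1000⟩, ⟨2000, 2021, 3000⟩, ⟨170, 260, 1000⟩, ⟨830, 1072, 1000⟩⟩
      (piece5.hKU xTU) :=
  posBox_of_check p5hKUU_1

def p5hKLU_1 :
    (piece5.hKL xTU).checkQuick
      ⟨365, ⟨5, 8, 12, 7⟩⟩
      ⟨⟨0, 1001, 1000⟩, ⟨2000, 2021, 3000⟩, ⟨170, 260, 1000⟩, ⟨830, 1072, 1000⟩⟩ = true := by
  decide +kernel

theorem p5hKLU_pos :
    PosBox ⟨⟨0, 1001, 1000⟩, ⟨2000, 2021, 3000⟩, ⟨170, 260, 1000⟩, ⟨830, 1072, 1000⟩⟩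
      (piece5.hKL xTU) :=
  posBox_of_check p5hKLU_1

def p5hWUU_1 :
    (piece5.hWU xTU).checkQuick
      ⟨368, ⟨5, 7, 12, 7⟩⟩
      ⟨⟨0, 1001, 1000⟩, ⟨2000, 2021, 3000⟩, ⟨170, 260, 1000⟩, ⟨830, 1072, 1000⟩⟩ = true := by
  decide +kernel

theorem p5hWUU_pos :
    PosBox ⟨⟨0, 1001, 1000⟩, ⟨2000, 2021, 3000⟩, ⟨170, 260, 1000⟩, ⟨830, 1072, 1000⟩⟩
      (piece5.hWU xTU) :=
  posBox_of_check p5hWUU_1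

def p5hWLU_1 :
    (piece5.hWL xTU).checkQuick
      ⟨368, ⟨5, 7, 12, 7⟩⟩
      ⟨⟨0, 1001, 1000⟩, ⟨2000, 2021, 3000⟩, ⟨170, 260, 1000⟩, ⟨830, 1072, 1000⟩⟩ = true := by
  decide +kernel

theorem p5hWLU_pos :
    PosBox ⟨⟨0, 1001, 1000⟩, ⟨2000, 2021, 3000⟩, ⟨170, 260, 1000⟩, ⟨830, 1072, 1000⟩⟩
      (piece5.hWL xTU) :=
  posBox_of_check p5hWLU_1

def p5hZU_1 :
    (piece5.hZ xTU).checkQuick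
      ⟨503, ⟨8, 10, 18, 8⟩⟩
      ⟨⟨0, 1001, 1000⟩, ⟨2000, 2021, 3000⟩, ⟨170, 260, 1000⟩, ⟨830, 1072, 1000⟩⟩ = true := by
  decide +kernel

theorem p5hZU_pos :
    PosBox ⟨⟨0, 1001, 1000⟩, ⟨2000, 2021, 3000⟩, ⟨170, 260, 1000⟩, ⟨830, 1072, 1000⟩⟩
      (piece5.hZ xTU) :=
  posBox_of_check p5hZU_1

def p5hKp_1 :
    (piece5.hKp).checkQuick
      ⟨89, ⟨1, 1, 3, 3⟩⟩
      ⟨⟨0, 1001, 1000⟩, ⟨2000, 2021, 3000⟩, ⟨170, 260, 1000⟩, ⟨830, 1072, 1000⟩⟩ = true := by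
  decide +kernel

theorem p5hKp_pos :
    PosBox ⟨⟨0, 1001, 1000⟩, ⟨2000, 2021, 3000⟩, ⟨170, 260, 1000⟩, ⟨830, 1072, 1000⟩⟩
      (piece5.hKp) :=
  posBox_of_check p5hKp_1

def p5hKm_1 :
    (piece5.hKm).checkQuick
      ⟨89, ⟨1, 1, 3, 3⟩⟩
      ⟨⟨0, 1001, 1000⟩, ⟨2000, 2021, 3000⟩, ⟨170, 260, 1000⟩, ⟨830, 1072, 1000⟩⟩ = true := by
  decide +kernel

theorem p5hKm_pos :
    PosBox ⟨⟨0, 1001, 1000⟩, ⟨2000, 2021, 3000⟩, ⟨170, 260, 1000⟩, ⟨830, 1072, 1000⟩⟩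
      (piece5.hKm) :=
  posBox_of_check p5hKm_1

def p5hMZeroLo_1 :
    (piece5.hM₀ piece5.xPL).checkQuick
      ⟨214, ⟨2, 5, 9, 6⟩⟩
      ⟨⟨0, 1001, 1000⟩, ⟨2000, 2021, 3000⟩, ⟨170, 260, 1000⟩, ⟨830, 1072, 1000⟩⟩ = true := by
  decide +kernel

theorem p5hMZeroLo_pos :
    PosBox ⟨⟨0, 1001, 1000⟩, ⟨2000, 2021, 3000⟩, ⟨170, 260, 1000⟩, ⟨830, 1072, 1000⟩⟩
      (piece5.hM₀ piece5.xPL) :=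
  posBox_of_check p5hMZeroLo_1

def p5hC1Lo_1 :
    (piece5.hC1 piece5.xPL).checkQuick
      ⟨242, ⟨3, 5, 9, 8⟩⟩
      ⟨⟨0, 1001, 1000⟩, ⟨2000, 2021, 3000⟩, ⟨170, 260, 1000⟩, ⟨830, 1072, 1000⟩⟩ = true := by
  decide +kernel

theorem p5hC1Lo_pos :
    PosBox ⟨⟨0, 1001, 1000⟩, ⟨2000, 2021, 3000⟩, ⟨170, 260, 1000⟩, ⟨830, 1072, 1000⟩⟩
      (piece5.hC1 piece5.xPL) :=
  posBox_of_check p5hC1Lo_1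

def p5hGLoZLo_1 :
    (piece5.hG piece5.xPL piece5.zLo).checkQuick
      ⟨350, ⟨2, 7, 16, 11⟩⟩
      ⟨⟨0, 1001, 1000⟩, ⟨2000, 2021, 3000⟩, ⟨170, 260, 1000⟩, ⟨830, 1072, 1000⟩⟩ = true := by
  decide +kernel

theorem p5hGLoZLo_pos :
    PosBox ⟨⟨0, 1001, 1000⟩, ⟨2000, 2021, 3000⟩, ⟨170, 260, 1000⟩, ⟨830, 1072, 1000⟩⟩
      (piece5.hG piece5.xPL piece5.zLo) :=
  posBox_of_check p5hGLoZLo_1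

def p5hFourLoZLo :
    ((piece5.hC2p piece5.xPL piece5.zLo).checkQuick ⟨437, ⟨3, 8, 19, 14⟩⟩
        ⟨⟨0, 1001, 1000⟩, ⟨2000, 2021, 3000⟩, ⟨170, 260, 1000⟩, ⟨830, 1072, 1000⟩⟩ &&
      (piece5.hC2m piece5.xPL piece5.zLo).checkQuick ⟨437, ⟨3, 8, 19, 14⟩⟩
        ⟨⟨0, 1001, 1000⟩, ⟨2000, 2021, 3000⟩, ⟨170, 260, 1000⟩, ⟨830, 1072, 1000⟩⟩ &&
      (piece5.hC3p piece5.xPL piece5.zLo).checkQuick ⟨437, ⟨3, 8, 19, 14⟩⟩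
        ⟨⟨0, 1001, 1000⟩, ⟨2000, 2021, 3000⟩, ⟨170, 260, 1000⟩, ⟨830, 1072, 1000⟩⟩ &&
      (piece5.hC3m piece5.xPL piece5.zLo).checkQuick ⟨437, ⟨3, 8, 19, 14⟩⟩
        ⟨⟨0, 1001, 1000⟩, ⟨2000, 2021, 3000⟩, ⟨170, 260, 1000⟩, ⟨830, 1072, 1000⟩⟩) = true := by
  decide +kernel

theorem p5hC2pLoZLo_pos :
    PosBox ⟨⟨0, 1001, 1000⟩, ⟨2000, 2021, 3000⟩, ⟨170, 260, 1000⟩, ⟨830, 1072, 1000⟩⟩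
      (piece5.hC2p piece5.xPL piece5.zLo) :=
  posBox_of_check (and_four p5hFourLoZLo).1

theorem p5hC2mLoZLo_pos :
    PosBox ⟨⟨0, 1001, 1000⟩, ⟨2000, 2021, 3000⟩, ⟨170, 260, 1000⟩, ⟨830, 1072, 1000⟩⟩
      (piece5.hC2m piece5.xPL piece5.zLo) :=
  posBox_of_check (and_four p5hFourLoZLo).2.1

theorem p5hC3pLoZLo_pos :
    PosBox ⟨⟨0, 1001, 1000⟩, ⟨2000, 2021, 3000⟩, ⟨170, 260, 1000⟩, ⟨830, 1072, 1000⟩⟩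
      (piece5.hC3p piece5.xPL piece5.zLo) :=
  posBox_of_check (and_four p5hFourLoZLo).2.2.1

theorem p5hC3mLoZLo_pos :
    PosBox ⟨⟨0, 1001, 1000⟩, ⟨2000, 2021, 3000⟩, ⟨170, 260, 1000⟩, ⟨830, 1072, 1000⟩⟩
      (piece5.hC3m piece5.xPL piece5.zLo) :=
  posBox_of_check (and_four p5hFourLoZLo).2.2.2

def p5hNLoZLo_1 :
    (piece5.hN piece5.xPL piece5.zLo).checkQuick
      ⟨334, ⟨2, 7, 15, 10⟩⟩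
      ⟨⟨0, 1001, 1000⟩, ⟨2000, 2021, 3000⟩, ⟨170, 260, 1000⟩, ⟨830, 1072, 1000⟩⟩ = true := by
  decide +kernel

theorem p5hNLoZLo_pos :
    PosBox ⟨⟨0, 1001, 1000⟩, ⟨2000, 2021, 3000⟩, ⟨170, 260, 1000⟩, ⟨830, 1072, 1000⟩⟩
      (piece5.hN piece5.xPL piece5.zLo) :=
  posBox_of_check p5hNLoZLo_1

def p5hGLoZHi_1 :
    (piece5.hG piece5.xPL zHi).checkQuick
      ⟨308, ⟨2, 7, 14, 9⟩⟩
      ⟨⟨0, 1001, 1000⟩, ⟨2000, 2021, 3000⟩, ⟨170, 260, 1000⟩, ⟨830, 1072, 1000⟩⟩ = true := by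
  decide +kernel

theorem p5hGLoZHi_pos :
    PosBox ⟨⟨0, 1001, 1000⟩, ⟨2000, 2021, 3000⟩, ⟨170, 260, 1000⟩, ⟨830, 1072, 1000⟩⟩
      (piece5.hG piece5.xPL zHi) :=
  posBox_of_check p5hGLoZHi_1

def p5hFourLoZHi :
    ((piece5.hC2p piece5.xPL zHi).checkQuick ⟨394, ⟨3, 8, 17, 12⟩⟩
        ⟨⟨0, 1001, 1000⟩, ⟨2000, 2021, 3000⟩, ⟨170, 260, 1000⟩, ⟨830, 1072, 1000⟩⟩ &&
      (piece5.hC2m piece5.xPL zHi).checkQuick ⟨394, ⟨3, 8, 17, 12⟩⟩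
        ⟨⟨0, 1001, 1000⟩, ⟨2000, 2021, 3000⟩, ⟨170, 260, 1000⟩, ⟨830, 1072, 1000⟩⟩ &&
      (piece5.hC3p piece5.xPL zHi).checkQuick ⟨394, ⟨3, 8, 17, 12⟩⟩
        ⟨⟨0, 1001, 1000⟩, ⟨2000, 2021, 3000⟩, ⟨170, 260, 1000⟩, ⟨830, 1072, 1000⟩⟩ &&
      (piece5.hC3m piece5.xPL zHi).checkQuick ⟨394, ⟨3, 8, 17, 12⟩⟩
        ⟨⟨0, 1001, 1000⟩, ⟨2000, 2021, 3000⟩, ⟨170, 260, 1000⟩, ⟨830, 1072, 1000⟩⟩) = true := by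
  decide +kernel

theorem p5hC2pLoZHi_pos :
    PosBox ⟨⟨0, 1001, 1000⟩, ⟨2000, 2021, 3000⟩, ⟨170, 260, 1000⟩, ⟨830, 1072, 1000⟩⟩
      (piece5.hC2p piece5.xPL zHi) :=
  posBox_of_check (and_four p5hFourLoZHi).1

theorem p5hC2mLoZHi_pos :
    PosBox ⟨⟨0, 1001, 1000⟩, ⟨2000, 2021, 3000⟩, ⟨170, 260, 1000⟩, ⟨830, 1072, 1000⟩⟩
      (piece5.hC2m piece5.xPL zHi) :=
  posBox_of_check (and_four p5hFourLoZHi).2.1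

theorem p5hC3pLoZHi_pos :
    PosBox ⟨⟨0, 1001, 1000⟩, ⟨2000, 2021, 3000⟩, ⟨170, 260, 1000⟩, ⟨830, 1072, 1000⟩⟩
      (piece5.hC3p piece5.xPL zHi) :=
  posBox_of_check (and_four p5hFourLoZHi).2.2.1

theorem p5hC3mLoZHi_pos :
    PosBox ⟨⟨0, 1001, 1000⟩, ⟨2000, 2021, 3000⟩, ⟨170, 260, 1000⟩, ⟨830, 1072, 1000⟩⟩
      (piece5.hC3m piece5.xPL zHi) :=
  posBox_of_check (and_four p5hFourLoZHi).2.2.2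

def p5hNLoZHi_1 :
    (piece5.hN piece5.xPL zHi).checkQuick
      ⟨324, ⟨2, 7, 14, 10⟩⟩
      ⟨⟨0, 1001, 1000⟩, ⟨2000, 2021, 3000⟩, ⟨170, 260, 1000⟩, ⟨830, 1072, 1000⟩⟩ = true := by
  decide +kernel

theorem p5hNLoZHi_pos :
    PosBox ⟨⟨0, 1001, 1000⟩, ⟨2000, 2021, 3000⟩, ⟨170, 260, 1000⟩, ⟨830, 1072, 1000⟩⟩
      (piece5.hN piece5.xPL zHi) :=
  posBox_of_check p5hNLoZHi_1

def p5hV2p_1 :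
    (piece5.hV2p).checkQuick
      ⟨229, ⟨1, 6, 11, 6⟩⟩
      ⟨⟨0, 1001, 1000⟩, ⟨2000, 2021, 3000⟩, ⟨170, 260, 1000⟩, ⟨830, 1072, 1000⟩⟩ = true := by
  decide +kernel

theorem p5hV2p_pos :
    PosBox ⟨⟨0, 1001, 1000⟩, ⟨2000, 2021, 3000⟩, ⟨170, 260, 1000⟩, ⟨830, 1072, 1000⟩⟩
      (piece5.hV2p) :=
  posBox_of_check p5hV2p_1

def p5hV2m_1 :
    (piece5.hV2m).checkQuick
      ⟨229, ⟨1, 6, 11, 6⟩⟩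
      ⟨⟨0, 1001, 1000⟩, ⟨2000, 2021, 3000⟩, ⟨170, 260, 1000⟩, ⟨830, 1072, 1000⟩⟩ = true := by
  decide +kernel

theorem p5hV2m_pos :
    PosBox ⟨⟨0, 1001, 1000⟩, ⟨2000, 2021, 3000⟩, ⟨170, 260, 1000⟩, ⟨830, 1072, 1000⟩⟩
      (piece5.hV2m) :=
  posBox_of_check p5hV2m_1

def p5hV3p_1 :
    (piece5.hV3p).checkQuick
      ⟨218, ⟨1, 6, 10, 6⟩⟩
      ⟨⟨0, 1001, 1000⟩, ⟨2000, 2021, 3000⟩, ⟨170, 260, 1000⟩, ⟨830, 1072, 1000⟩⟩ = true := by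
  decide +kernel

theorem p5hV3p_pos :
    PosBox ⟨⟨0, 1001, 1000⟩, ⟨2000, 2021, 3000⟩, ⟨170, 260, 1000⟩, ⟨830, 1072, 1000⟩⟩
      (piece5.hV3p) :=
  posBox_of_check p5hV3p_1

def p5hV3m_1 :
    (piece5.hV3m).checkQuick
      ⟨219, ⟨1, 6, 10, 6⟩⟩
      ⟨⟨0, 1001, 1000⟩, ⟨2000, 2021, 3000⟩, ⟨170, 260, 1000⟩, ⟨830, 1072, 1000⟩⟩ = true := by
  decide +kernel

theorem p5hV3m_pos :
    PosBox ⟨⟨0, 1001, 1000⟩, ⟨2000, 2021, 3000⟩, ⟨170, 260, 1000⟩, ⟨830, 1072, 1000⟩⟩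
      (piece5.hV3m) :=
  posBox_of_check p5hV3m_1

def p5hMZeroHi_1 :
    (piece5.hM₀ piece5.xPU).checkQuick
      ⟨214, ⟨2, 5, 9, 6⟩⟩
      ⟨⟨0, 1001, 1000⟩, ⟨2000, 2021, 3000⟩, ⟨170, 260, 1000⟩, ⟨830, 1072, 1000⟩⟩ = true := by
  decide +kernel

theorem p5hMZeroHi_pos :
    PosBox ⟨⟨0, 1001, 1000⟩, ⟨2000, 2021, 3000⟩, ⟨170, 260, 1000⟩, ⟨830, 1072, 1000⟩⟩
      (piece5.hM₀ piece5.xPU) :=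
  posBox_of_check p5hMZeroHi_1

def p5hC1Hi_1 :
    (piece5.hC1 piece5.xPU).checkQuick
      ⟨242, ⟨3, 5, 9, 8⟩⟩
      ⟨⟨0, 1001, 1000⟩, ⟨2000, 2021, 3000⟩, ⟨170, 260, 1000⟩, ⟨830, 1072, 1000⟩⟩ = true := by
  decide +kernel

theorem p5hC1Hi_pos :
    PosBox ⟨⟨0, 1001, 1000⟩, ⟨2000, 2021, 3000⟩, ⟨170, 260, 1000⟩, ⟨830, 1072, 1000⟩⟩
      (piece5.hC1 piece5.xPU) :=
  posBox_of_check p5hC1Hi_1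

def p5hGHiZLo_1 :
    (piece5.hG piece5.xPU piece5.zLo).checkQuick
      ⟨350, ⟨2, 7, 16, 11⟩⟩
      ⟨⟨0, 1001, 1000⟩, ⟨2000, 2021, 3000⟩, ⟨170, 260, 1000⟩, ⟨830, 1072, 1000⟩⟩ = true := by
  decide +kernel

theorem p5hGHiZLo_pos :
    PosBox ⟨⟨0, 1001, 1000⟩, ⟨2000, 2021, 3000⟩, ⟨170, 260, 1000⟩, ⟨830, 1072, 1000⟩⟩
      (piece5.hG piece5.xPU piece5.zLo) :=
  posBox_of_check p5hGHiZLo_1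

def p5hFourHiZLo :
    ((piece5.hC2p piece5.xPU piece5.zLo).checkQuick ⟨437, ⟨3, 8, 19, 14⟩⟩
        ⟨⟨0, 1001, 1000⟩, ⟨2000, 2021, 3000⟩, ⟨170, 260, 1000⟩, ⟨830, 1072, 1000⟩⟩ &&
      (piece5.hC2m piece5.xPU piece5.zLo).checkQuick ⟨437, ⟨3, 8, 19, 14⟩⟩
        ⟨⟨0, 1001, 1000⟩, ⟨2000, 2021, 3000⟩, ⟨170, 260, 1000⟩, ⟨830, 1072, 1000⟩⟩ &&
      (piece5.hC3p piece5.xPU piece5.zLo).checkQuick ⟨437, ⟨3, 8, 19, 14⟩⟩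
        ⟨⟨0, 1001, 1000⟩, ⟨2000, 2021, 3000⟩, ⟨170, 260, 1000⟩, ⟨830, 1072, 1000⟩⟩ &&
      (piece5.hC3m piece5.xPU piece5.zLo).checkQuick ⟨437, ⟨3, 8, 19, 14⟩⟩
        ⟨⟨0, 1001, 1000⟩, ⟨2000, 2021, 3000⟩, ⟨170, 260, 1000⟩, ⟨830, 1072, 1000⟩⟩) = true := by
  decide +kernel

theorem p5hC2pHiZLo_pos :
    PosBox ⟨⟨0, 1001, 1000⟩, ⟨2000, 2021, 3000⟩, ⟨170, 260, 1000⟩, ⟨830, 1072, 1000⟩⟩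
      (piece5.hC2p piece5.xPU piece5.zLo) :=
  posBox_of_check (and_four p5hFourHiZLo).1

theorem p5hC2mHiZLo_pos :
    PosBox ⟨⟨0, 1001, 1000⟩, ⟨2000, 2021, 3000⟩, ⟨170, 260, 1000⟩, ⟨830, 1072, 1000⟩⟩
      (piece5.hC2m piece5.xPU piece5.zLo) :=
  posBox_of_check (and_four p5hFourHiZLo).2.1

theorem p5hC3pHiZLo_pos :
    PosBox ⟨⟨0, 1001, 1000⟩, ⟨2000, 2021, 3000⟩, ⟨170, 260, 1000⟩, ⟨830, 1072, 1000⟩⟩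
      (piece5.hC3p piece5.xPU piece5.zLo) :=
  posBox_of_check (and_four p5hFourHiZLo).2.2.1

theorem p5hC3mHiZLo_pos :
    PosBox ⟨⟨0, 1001, 1000⟩, ⟨2000, 2021, 3000⟩, ⟨170, 260, 1000⟩, ⟨830, 1072, 1000⟩⟩
      (piece5.hC3m piece5.xPU piece5.zLo) :=
  posBox_of_check (and_four p5hFourHiZLo).2.2.2

def p5hNHiZLo_1 :
    (piece5.hN piece5.xPU piece5.zLo).checkQuick
      ⟨334, ⟨2, 7, 15, 10⟩⟩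
      ⟨⟨0, 1001, 1000⟩, ⟨2000, 2021, 3000⟩, ⟨170, 260, 1000⟩, ⟨830, 1072, 1000⟩⟩ = true := by
  decide +kernel

theorem p5hNHiZLo_pos :
    PosBox ⟨⟨0, 1001, 1000⟩, ⟨2000, 2021, 3000⟩, ⟨170, 260, 1000⟩, ⟨830, 1072, 1000⟩⟩
      (piece5.hN piece5.xPU piece5.zLo) :=
  posBox_of_check p5hNHiZLo_1

def p5hGHiZHi_1 :
    (piece5.hG piece5.xPU zHi).checkQuick
      ⟨308, ⟨2, 7, 14, 9⟩⟩
      ⟨⟨0, 1001, 1000⟩, ⟨2000, 2021, 3000⟩, ⟨170, 260, 1000⟩, ⟨830, 1072, 1000⟩⟩ = true := by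
  decide +kernel

theorem p5hGHiZHi_pos :
    PosBox ⟨⟨0, 1001, 1000⟩, ⟨2000, 2021, 3000⟩, ⟨170, 260, 1000⟩, ⟨830, 1072, 1000⟩⟩
      (piece5.hG piece5.xPU zHi) :=
  posBox_of_check p5hGHiZHi_1

def p5hFourHiZHi :
    ((piece5.hC2p piece5.xPU zHi).checkQuick ⟨394, ⟨3, 8, 17, 12⟩⟩
        ⟨⟨0, 1001, 1000⟩, ⟨2000, 2021, 3000⟩, ⟨170, 260, 1000⟩, ⟨830, 1072, 1000⟩⟩ &&
      (piece5.hC2m piece5.xPU zHi).checkQuick ⟨394, ⟨3, 8, 17, 12⟩⟩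
        ⟨⟨0, 1001, 1000⟩, ⟨2000, 2021, 3000⟩, ⟨170, 260, 1000⟩, ⟨830, 1072, 1000⟩⟩ &&
      (piece5.hC3p piece5.xPU zHi).checkQuick ⟨394, ⟨3, 8, 17, 12⟩⟩
        ⟨⟨0, 1001, 1000⟩, ⟨2000, 2021, 3000⟩, ⟨170, 260, 1000⟩, ⟨830, 1072, 1000⟩⟩ &&
      (piece5.hC3m piece5.xPU zHi).checkQuick ⟨394, ⟨3, 8, 17, 12⟩⟩
        ⟨⟨0, 1001, 1000⟩, ⟨2000, 2021, 3000⟩, ⟨170, 260, 1000⟩, ⟨830, 1072, 1000⟩⟩) = true := by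
  decide +kernel

theorem p5hC2pHiZHi_pos :
    PosBox ⟨⟨0, 1001, 1000⟩, ⟨2000, 2021, 3000⟩, ⟨170, 260, 1000⟩, ⟨830, 1072, 1000⟩⟩
      (piece5.hC2p piece5.xPU zHi) :=
  posBox_of_check (and_four p5hFourHiZHi).1

theorem p5hC2mHiZHi_pos :
    PosBox ⟨⟨0, 1001, 1000⟩, ⟨2000, 2021, 3000⟩, ⟨170, 260, 1000⟩, ⟨830, 1072, 1000⟩⟩
      (piece5.hC2m piece5.xPU zHi) :=
  posBox_of_check (and_four p5hFourHiZHi).2.1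

theorem p5hC3pHiZHi_pos :
    PosBox ⟨⟨0, 1001, 1000⟩, ⟨2000, 2021, 3000⟩, ⟨170, 260, 1000⟩, ⟨830, 1072, 1000⟩⟩
      (piece5.hC3p piece5.xPU zHi) :=
  posBox_of_check (and_four p5hFourHiZHi).2.2.1

theorem p5hC3mHiZHi_pos :
    PosBox ⟨⟨0, 1001, 1000⟩, ⟨2000, 2021, 3000⟩, ⟨170, 260, 1000⟩, ⟨830, 1072, 1000⟩⟩
      (piece5.hC3m piece5.xPU zHi) :=
  posBox_of_check (and_four p5hFourHiZHi).2.2.2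

def p5hNHiZHi_1 :
    (piece5.hN piece5.xPU zHi).checkQuick
      ⟨324, ⟨2, 7, 14, 10⟩⟩
      ⟨⟨0, 1001, 1000⟩, ⟨2000, 2021, 3000⟩, ⟨170, 260, 1000⟩, ⟨830, 1072, 1000⟩⟩ = true := by
  decide +kernel

theorem p5hNHiZHi_pos :
    PosBox ⟨⟨0, 1001, 1000⟩, ⟨2000, 2021, 3000⟩, ⟨170, 260, 1000⟩, ⟨830, 1072, 1000⟩⟩
      (piece5.hN piece5.xPU zHi) :=
  posBox_of_check p5hNHiZHi_1

end Vale.Agent.P100.Calib.Closed.Six.Low
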