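import Vale.Agent.P100.Calib.SlabSixLowPieces

/-!
# Checks of the certificate of dimension six on `0 < u ≤ 3/5`
-/

-- The checks are definitions, so that they run one after another with little memory.
set_option linter.defProp false

namespace Vale.Agent.P100.Calib.Closed.Six.Low

open BoxPos
open Vale.Agent.P100.Calib.Closed.Large (PosBox posBox_of_check and_four posBox_join₀ posBox_join₂ posBox_join₃)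

def p7xRoom_1 :
    (piece7.xRoom).checkQuick
      ⟨32, ⟨0, 0, 1, 1⟩⟩
      ⟨⟨0, 1001, 1000⟩, ⟨2000, 2021, 3000⟩, ⟨260, 334, 1000⟩, ⟨480, 561, 1000⟩⟩ = true := by
  decide +kernel

theorem p7xRoom_pos :
    PosBox ⟨⟨0, 1001, 1000⟩, ⟨2000, 2021, 3000⟩, ⟨260, 334, 1000⟩, ⟨480, 561, 1000⟩⟩
      (piece7.xRoom) :=
  posBox_of_check p7xRoom_1

def p7xPhi_1 :
    (piece7.xPhi).checkQuick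
      ⟨87, ⟨0, 0, 4, 2⟩⟩
      ⟨⟨0, 1001, 1000⟩, ⟨2000, 2021, 3000⟩, ⟨260, 334, 1000⟩, ⟨480, 561, 1000⟩⟩ = true := by
  decide +kernel

theorem p7xPhi_pos :
    PosBox ⟨⟨0, 1001, 1000⟩, ⟨2000, 2021, 3000⟩, ⟨260, 334, 1000⟩, ⟨480, 561, 1000⟩⟩
      (piece7.xPhi) :=
  posBox_of_check p7xPhi_1

def p7xGap_1 :
    (piece7.xGap).checkQuick
      ⟨63, ⟨0, 2, 3, 2⟩⟩
      ⟨⟨0, 1001, 1000⟩, ⟨2000, 2021, 3000⟩, ⟨260, 334, 1000⟩, ⟨480, 561, 1000⟩⟩ = true := by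
  decide +kernel

theorem p7xGap_pos :
    PosBox ⟨⟨0, 1001, 1000⟩, ⟨2000, 2021, 3000⟩, ⟨260, 334, 1000⟩, ⟨480, 561, 1000⟩⟩
      (piece7.xGap) :=
  posBox_of_check p7xGap_1

def p7hELL_1 :
    (piece7.hEL xTL).checkQuick
      ⟨338, ⟨5, 8, 11, 6⟩⟩
      ⟨⟨0, 1001, 1000⟩, ⟨2000, 2021, 3000⟩, ⟨260, 334, 1000⟩, ⟨480, 561, 1000⟩⟩ = true := by
  decide +kernel

theorem p7hELL_pos :
    PosBox ⟨⟨0, 1001, 1000⟩, ⟨2000, 2021, 3000⟩, ⟨260, 334, 1000⟩, ⟨480, 561, 1000⟩⟩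
      (piece7.hEL xTL) :=
  posBox_of_check p7hELL_1

def p7hEHL_1 :
    (piece7.hEH xTL).checkQuick
      ⟨338, ⟨5, 8, 11, 6⟩⟩
      ⟨⟨0, 1001, 1000⟩, ⟨2000, 2021, 3000⟩, ⟨260, 334, 1000⟩, ⟨480, 561, 1000⟩⟩ = true := by
  decide +kernel

theorem p7hEHL_pos :
    PosBox ⟨⟨0, 1001, 1000⟩, ⟨2000, 2021, 3000⟩, ⟨260, 334, 1000⟩, ⟨480, 561, 1000⟩⟩
      (piece7.hEH xTL) :=
  posBox_of_check p7hEHL_1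

def p7hPUL_1 :
    (piece7.hPU xTL).checkQuick
      ⟨362, ⟨5, 8, 11, 7⟩⟩
      ⟨⟨0, 1001, 1000⟩, ⟨2000, 2021, 3000⟩, ⟨260, 334, 1000⟩, ⟨480, 561, 1000⟩⟩ = true := by
  decide +kernel

theorem p7hPUL_pos :
    PosBox ⟨⟨0, 1001, 1000⟩, ⟨2000, 2021, 3000⟩, ⟨260, 334, 1000⟩, ⟨480, 561, 1000⟩⟩
      (piece7.hPU xTL) :=
  posBox_of_check p7hPUL_1

def p7hKUL_1 :
    (piece7.hKU xTL).checkQuick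
      ⟨361, ⟨5, 8, 11, 7⟩⟩
      ⟨⟨0, 1001, 1000⟩, ⟨2000, 2021, 3000⟩, ⟨260, 334, 1000⟩, ⟨480, 561, 1000⟩⟩ = true := by
  decide +kernel

theorem p7hKUL_pos :
    PosBox ⟨⟨0, 1001, 1000⟩, ⟨2000, 2021, 3000⟩, ⟨260, 334, 1000⟩, ⟨480, 561, 1000⟩⟩
      (piece7.hKU xTL) :=
  posBox_of_check p7hKUL_1

def p7hKLL_1 :
    (piece7.hKL xTL).checkQuick
      ⟨361, ⟨5, 8, 11, 7⟩⟩
      ⟨⟨0, 1001, 1000⟩, ⟨2000, 2021, 3000⟩, ⟨260, 334, 1000⟩, ⟨480, 561, 1000⟩⟩ = true := by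
  decide +kernel

theorem p7hKLL_pos :
    PosBox ⟨⟨0, 1001, 1000⟩, ⟨2000, 2021, 3000⟩, ⟨260, 334, 1000⟩, ⟨480, 561, 1000⟩⟩
      (piece7.hKL xTL) :=
  posBox_of_check p7hKLL_1

def p7hWUL_1 :
    (piece7.hWU xTL).checkQuick
      ⟨361, ⟨5, 7, 11, 7⟩⟩
      ⟨⟨0, 1001, 1000⟩, ⟨2000, 2021, 3000⟩, ⟨260, 334, 1000⟩, ⟨480, 561, 1000⟩⟩ = true := by
  decide +kernel

theorem p7hWUL_pos :
    PosBox ⟨⟨0, 1001, 1000⟩, ⟨2000, 2021, 3000⟩, ⟨260, 334, 1000⟩, ⟨480, 561, 1000⟩⟩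
      (piece7.hWU xTL) :=
  posBox_of_check p7hWUL_1

def p7hWLL_1 :
    (piece7.hWL xTL).checkQuick
      ⟨361, ⟨5, 7, 11, 7⟩⟩
      ⟨⟨0, 1001, 1000⟩, ⟨2000, 2021, 3000⟩, ⟨260, 334, 1000⟩, ⟨480, 561, 1000⟩⟩ = true := by
  decide +kernel

theorem p7hWLL_pos :
    PosBox ⟨⟨0, 1001, 1000⟩, ⟨2000, 2021, 3000⟩, ⟨260, 334, 1000⟩, ⟨480, 561, 1000⟩⟩
      (piece7.hWL xTL) :=
  posBox_of_check p7hWLL_1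

def p7hZL_1 :
    (piece7.hZ xTL).checkQuick
      ⟨521, ⟨8, 10, 18, 8⟩⟩
      ⟨⟨0, 1001, 1000⟩, ⟨2000, 2021, 3000⟩, ⟨260, 334, 1000⟩, ⟨480, 561, 1000⟩⟩ = true := by
  decide +kernel

theorem p7hZL_pos :
    PosBox ⟨⟨0, 1001, 1000⟩, ⟨2000, 2021, 3000⟩, ⟨260, 334, 1000⟩, ⟨480, 561, 1000⟩⟩
      (piece7.hZ xTL) :=
  posBox_of_check p7hZL_1

def p7hELU_1 :
    (piece7.hEL xTU).checkQuick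
      ⟨354, ⟨5, 8, 12, 6⟩⟩
      ⟨⟨0, 1001, 1000⟩, ⟨2000, 2021, 3000⟩, ⟨260, 334, 1000⟩, ⟨480, 561, 1000⟩⟩ = true := by
  decide +kernel

theorem p7hELU_pos :
    PosBox ⟨⟨0, 1001, 1000⟩, ⟨2000, 2021, 3000⟩, ⟨260, 334, 1000⟩, ⟨480, 561, 1000⟩⟩
      (piece7.hEL xTU) :=
  posBox_of_check p7hELU_1

def p7hEHU_1 :
    (piece7.hEH xTU).checkQuick
      ⟨353, ⟨5, 8, 12, 6⟩⟩
      ⟨⟨0, 1001, 1000⟩, ⟨2000, 2021, 3000⟩, ⟨260, 334, 1000⟩, ⟨480, 561, 1000⟩⟩ = true := by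
  decide +kernel

theorem p7hEHU_pos :
    PosBox ⟨⟨0, 1001, 1000⟩, ⟨2000, 2021, 3000⟩, ⟨260, 334, 1000⟩, ⟨480, 561, 1000⟩⟩
      (piece7.hEH xTU) :=
  posBox_of_check p7hEHU_1

def p7hPUU_1 :
    (piece7.hPU xTU).checkQuick
      ⟨376, ⟨5, 8, 12, 7⟩⟩
      ⟨⟨0, 500, 1000⟩, ⟨2000, 2021, 3000⟩, ⟨260, 297, 1000⟩, ⟨480, 561, 1000⟩⟩ = true := by
  decide +kernel

def p7hPUU_2 :
    (piece7.hPU xTU).checkQuick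
      ⟨376, ⟨5, 8, 12, 7⟩⟩
      ⟨⟨0, 500, 1000⟩, ⟨2000, 2021, 3000⟩, ⟨297, 334, 1000⟩, ⟨480, 561, 1000⟩⟩ = true := by
  decide +kernel

def p7hPUU_3 :
    (piece7.hPU xTU).checkQuick
      ⟨378, ⟨5, 8, 12, 7⟩⟩
      ⟨⟨500, 1001, 1000⟩, ⟨2000, 2021, 3000⟩, ⟨260, 334, 1000⟩, ⟨480, 561, 1000⟩⟩ = true := by
  decide +kernel

theorem p7hPUU_pos :
    PosBox ⟨⟨0, 1001, 1000⟩, ⟨2000, 2021, 3000⟩, ⟨260, 334, 1000⟩, ⟨480, 561, 1000⟩⟩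
      (piece7.hPU xTU) :=
  posBox_join₀ (posBox_join₂ (posBox_of_check p7hPUU_1) (posBox_of_check p7hPUU_2))
    (posBox_of_check p7hPUU_3)

def p7hKUU_1 :
    (piece7.hKU xTU).checkQuick
      ⟨376, ⟨5, 8, 12, 7⟩⟩
      ⟨⟨0, 1001, 1000⟩, ⟨2000, 2021, 3000⟩, ⟨260, 334, 1000⟩, ⟨480, 561, 1000⟩⟩ = true := by
  decide +kernel

theorem p7hKUU_pos :
    PosBox ⟨⟨0, 1001, 1000⟩, ⟨2000, 2021, 3000⟩, ⟨260, 334, 1000⟩, ⟨480, 561, 1000⟩⟩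
      (piece7.hKU xTU) :=
  posBox_of_check p7hKUU_1

def p7hKLU_1 :
    (piece7.hKL xTU).checkQuick
      ⟨376, ⟨5, 8, 12, 7⟩⟩
      ⟨⟨0, 1001, 1000⟩, ⟨2000, 2021, 3000⟩, ⟨260, 334, 1000⟩, ⟨480, 561, 1000⟩⟩ = true := by
  decide +kernel

theorem p7hKLU_pos :
    PosBox ⟨⟨0, 1001, 1000⟩, ⟨2000, 2021, 3000⟩, ⟨260, 334, 1000⟩, ⟨480, 561, 1000⟩⟩
      (piece7.hKL xTU) :=
  posBox_of_check p7hKLU_1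

def p7hWUU_1 :
    (piece7.hWU xTU).checkQuick
      ⟨377, ⟨5, 7, 12, 7⟩⟩
      ⟨⟨0, 1001, 1000⟩, ⟨2000, 2021, 3000⟩, ⟨260, 334, 1000⟩, ⟨480, 561, 1000⟩⟩ = true := by
  decide +kernel

theorem p7hWUU_pos :
    PosBox ⟨⟨0, 1001, 1000⟩, ⟨2000, 2021, 3000⟩, ⟨260, 334, 1000⟩, ⟨480, 561, 1000⟩⟩
      (piece7.hWU xTU) :=
  posBox_of_check p7hWUU_1

def p7hWLU_1 :
    (piece7.hWL xTU).checkQuick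
      ⟨375, ⟨5, 7, 12, 7⟩⟩
      ⟨⟨0, 500, 1000⟩, ⟨2000, 2021, 3000⟩, ⟨260, 334, 1000⟩, ⟨480, 561, 1000⟩⟩ = true := by
  decide +kernel

def p7hWLU_2 :
    (piece7.hWL xTU).checkQuick
      ⟨377, ⟨5, 7, 12, 7⟩⟩
      ⟨⟨500, 1001, 1000⟩, ⟨2000, 2021, 3000⟩, ⟨260, 334, 1000⟩, ⟨480, 561, 1000⟩⟩ = true := by
  decide +kernel

theorem p7hWLU_pos :
    PosBox ⟨⟨0, 1001, 1000⟩, ⟨2000, 2021, 3000⟩, ⟨260, 334, 1000⟩, ⟨480, 561, 1000⟩⟩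
      (piece7.hWL xTU) :=
  posBox_join₀ (posBox_of_check p7hWLU_1) (posBox_of_check p7hWLU_2)

def p7hZU_1 :
    (piece7.hZ xTU).checkQuick
      ⟨522, ⟨8, 10, 18, 8⟩⟩
      ⟨⟨0, 1001, 1000⟩, ⟨2000, 2021, 3000⟩, ⟨260, 334, 1000⟩, ⟨480, 561, 1000⟩⟩ = true := by
  decide +kernel

theorem p7hZU_pos :
    PosBox ⟨⟨0, 1001, 1000⟩, ⟨2000, 2021, 3000⟩, ⟨260, 334, 1000⟩, ⟨480, 561, 1000⟩⟩
      (piece7.hZ xTU) :=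
  posBox_of_check p7hZU_1

def p7hKp_1 :
    (piece7.hKp).checkQuick
      ⟨88, ⟨1, 1, 3, 3⟩⟩
      ⟨⟨0, 1001, 1000⟩, ⟨2000, 2021, 3000⟩, ⟨260, 334, 1000⟩, ⟨480, 561, 1000⟩⟩ = true := by
  decide +kernel

theorem p7hKp_pos :
    PosBox ⟨⟨0, 1001, 1000⟩, ⟨2000, 2021, 3000⟩, ⟨260, 334, 1000⟩, ⟨480, 561, 1000⟩⟩
      (piece7.hKp) :=
  posBox_of_check p7hKp_1

def p7hKm_1 :
    (piece7.hKm).checkQuick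
      ⟨90, ⟨1, 1, 3, 3⟩⟩
      ⟨⟨0, 1001, 1000⟩, ⟨2000, 2021, 3000⟩, ⟨260, 334, 1000⟩, ⟨480, 561, 1000⟩⟩ = true := by
  decide +kernel

theorem p7hKm_pos :
    PosBox ⟨⟨0, 1001, 1000⟩, ⟨2000, 2021, 3000⟩, ⟨260, 334, 1000⟩, ⟨480, 561, 1000⟩⟩
      (piece7.hKm) :=
  posBox_of_check p7hKm_1

def p7hMZeroLo_1 :
    (piece7.hM₀ piece7.xPL).checkQuick
      ⟨215, ⟨2, 5, 9, 6⟩⟩
      ⟨⟨0, 1001, 1000⟩, ⟨2000, 2021, 3000⟩, ⟨260, 334, 1000⟩, ⟨480, 561, 1000⟩⟩ = true := by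
  decide +kernel

theorem p7hMZeroLo_pos :
    PosBox ⟨⟨0, 1001, 1000⟩, ⟨2000, 2021, 3000⟩, ⟨260, 334, 1000⟩, ⟨480, 561, 1000⟩⟩
      (piece7.hM₀ piece7.xPL) :=
  posBox_of_check p7hMZeroLo_1

def p7hC1Lo_1 :
    (piece7.hC1 piece7.xPL).checkQuick
      ⟨244, ⟨3, 5, 9, 8⟩⟩
      ⟨⟨0, 1001, 1000⟩, ⟨2000, 2021, 3000⟩, ⟨260, 334, 1000⟩, ⟨480, 561, 1000⟩⟩ = true := by
  decide +kernel

theorem p7hC1Lo_pos :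
    PosBox ⟨⟨0, 1001, 1000⟩, ⟨2000, 2021, 3000⟩, ⟨260, 334, 1000⟩, ⟨480, 561, 1000⟩⟩
      (piece7.hC1 piece7.xPL) :=
  posBox_of_check p7hC1Lo_1

def p7hGLoZLo_1 :
    (piece7.hG piece7.xPL piece7.zLo).checkQuick
      ⟨350, ⟨2, 7, 16, 11⟩⟩
      ⟨⟨0, 1001, 1000⟩, ⟨2000, 2021, 3000⟩, ⟨260, 334, 1000⟩, ⟨480, 561, 1000⟩⟩ = true := by
  decide +kernel

theorem p7hGLoZLo_pos :
    PosBox ⟨⟨0, 1001, 1000⟩, ⟨2000, 2021, 3000⟩, ⟨260, 334, 1000⟩, ⟨480, 561, 1000⟩⟩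
      (piece7.hG piece7.xPL piece7.zLo) :=
  posBox_of_check p7hGLoZLo_1

def p7hFourLoZLo :
    ((piece7.hC2p piece7.xPL piece7.zLo).checkQuick ⟨438, ⟨3, 8, 19, 14⟩⟩
        ⟨⟨0, 1001, 1000⟩, ⟨2000, 2021, 3000⟩, ⟨260, 334, 1000⟩, ⟨480, 561, 1000⟩⟩ &&
      (piece7.hC2m piece7.xPL piece7.zLo).checkQuick ⟨438, ⟨3, 8, 19, 14⟩⟩
        ⟨⟨0, 1001, 1000⟩, ⟨2000, 2021, 3000⟩, ⟨260, 334, 1000⟩, ⟨480, 561, 1000⟩⟩ &&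
      (piece7.hC3p piece7.xPL piece7.zLo).checkQuick ⟨438, ⟨3, 8, 19, 14⟩⟩
        ⟨⟨0, 1001, 1000⟩, ⟨2000, 2021, 3000⟩, ⟨260, 334, 1000⟩, ⟨480, 561, 1000⟩⟩ &&
      (piece7.hC3m piece7.xPL piece7.zLo).checkQuick ⟨438, ⟨3, 8, 19, 14⟩⟩
        ⟨⟨0, 1001, 1000⟩, ⟨2000, 2021, 3000⟩, ⟨260, 334, 1000⟩, ⟨480, 561, 1000⟩⟩) = true := by
  decide +kernel

theorem p7hC2pLoZLo_pos :
    PosBox ⟨⟨0, 1001, 1000⟩, ⟨2000, 2021, 3000⟩, ⟨260, 334, 1000⟩, ⟨480, 561, 1000⟩⟩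
      (piece7.hC2p piece7.xPL piece7.zLo) :=
  posBox_of_check (and_four p7hFourLoZLo).1

theorem p7hC2mLoZLo_pos :
    PosBox ⟨⟨0, 1001, 1000⟩, ⟨2000, 2021, 3000⟩, ⟨260, 334, 1000⟩, ⟨480, 561, 1000⟩⟩
      (piece7.hC2m piece7.xPL piece7.zLo) :=
  posBox_of_check (and_four p7hFourLoZLo).2.1

theorem p7hC3pLoZLo_pos :
    PosBox ⟨⟨0, 1001, 1000⟩, ⟨2000, 2021, 3000⟩, ⟨260, 334, 1000⟩, ⟨480, 561, 1000⟩⟩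
      (piece7.hC3p piece7.xPL piece7.zLo) :=
  posBox_of_check (and_four p7hFourLoZLo).2.2.1

theorem p7hC3mLoZLo_pos :
    PosBox ⟨⟨0, 1001, 1000⟩, ⟨2000, 2021, 3000⟩, ⟨260, 334, 1000⟩, ⟨480, 561, 1000⟩⟩
      (piece7.hC3m piece7.xPL piece7.zLo) :=
  posBox_of_check (and_four p7hFourLoZLo).2.2.2

def p7hNLoZLo_1 :
    (piece7.hN piece7.xPL piece7.zLo).checkQuick
      ⟨335, ⟨2, 7, 15, 10⟩⟩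
      ⟨⟨0, 1001, 1000⟩, ⟨2000, 2021, 3000⟩, ⟨260, 334, 1000⟩, ⟨480, 561, 1000⟩⟩ = true := by
  decide +kernel

theorem p7hNLoZLo_pos :
    PosBox ⟨⟨0, 1001, 1000⟩, ⟨2000, 2021, 3000⟩, ⟨260, 334, 1000⟩, ⟨480, 561, 1000⟩⟩
      (piece7.hN piece7.xPL piece7.zLo) :=
  posBox_of_check p7hNLoZLo_1

def p7hGLoZHi_1 :
    (piece7.hG piece7.xPL zHi).checkQuick
      ⟨307, ⟨2, 7, 14, 9⟩⟩
      ⟨⟨0, 1001, 1000⟩, ⟨2000, 2021, 3000⟩, ⟨260, 334, 1000⟩, ⟨480, 561, 1000⟩⟩ = true := by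
  decide +kernel

theorem p7hGLoZHi_pos :
    PosBox ⟨⟨0, 1001, 1000⟩, ⟨2000, 2021, 3000⟩, ⟨260, 334, 1000⟩, ⟨480, 561, 1000⟩⟩
      (piece7.hG piece7.xPL zHi) :=
  posBox_of_check p7hGLoZHi_1

def p7hFourLoZHi :
    ((piece7.hC2p piece7.xPL zHi).checkQuick ⟨394, ⟨3, 8, 17, 12⟩⟩
        ⟨⟨0, 1001, 1000⟩, ⟨2000, 2021, 3000⟩, ⟨260, 334, 1000⟩, ⟨480, 561, 1000⟩⟩ &&
      (piece7.hC2m piece7.xPL zHi).checkQuick ⟨394, ⟨3, 8, 17, 12⟩⟩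
        ⟨⟨0, 1001, 1000⟩, ⟨2000, 2021, 3000⟩, ⟨260, 334, 1000⟩, ⟨480, 561, 1000⟩⟩ &&
      (piece7.hC3p piece7.xPL zHi).checkQuick ⟨394, ⟨3, 8, 17, 12⟩⟩
        ⟨⟨0, 1001, 1000⟩, ⟨2000, 2021, 3000⟩, ⟨260, 334, 1000⟩, ⟨480, 561, 1000⟩⟩ &&
      (piece7.hC3m piece7.xPL zHi).checkQuick ⟨394, ⟨3, 8, 17, 12⟩⟩
        ⟨⟨0, 1001, 1000⟩, ⟨2000, 2021, 3000⟩, ⟨260, 334, 1000⟩, ⟨480, 561, 1000⟩⟩) = true := by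
  decide +kernel

theorem p7hC2pLoZHi_pos :
    PosBox ⟨⟨0, 1001, 1000⟩, ⟨2000, 2021, 3000⟩, ⟨260, 334, 1000⟩, ⟨480, 561, 1000⟩⟩
      (piece7.hC2p piece7.xPL zHi) :=
  posBox_of_check (and_four p7hFourLoZHi).1

theorem p7hC2mLoZHi_pos :
    PosBox ⟨⟨0, 1001, 1000⟩, ⟨2000, 2021, 3000⟩, ⟨260, 334, 1000⟩, ⟨480, 561, 1000⟩⟩
      (piece7.hC2m piece7.xPL zHi) :=
  posBox_of_check (and_four p7hFourLoZHi).2.1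

theorem p7hC3pLoZHi_pos :
    PosBox ⟨⟨0, 1001, 1000⟩, ⟨2000, 2021, 3000⟩, ⟨260, 334, 1000⟩, ⟨480, 561, 1000⟩⟩
      (piece7.hC3p piece7.xPL zHi) :=
  posBox_of_check (and_four p7hFourLoZHi).2.2.1

theorem p7hC3mLoZHi_pos :
    PosBox ⟨⟨0, 1001, 1000⟩, ⟨2000, 2021, 3000⟩, ⟨260, 334, 1000⟩, ⟨480, 561, 1000⟩⟩
      (piece7.hC3m piece7.xPL zHi) :=
  posBox_of_check (and_four p7hFourLoZHi).2.2.2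

def p7hNLoZHi_1 :
    (piece7.hN piece7.xPL zHi).checkQuick
      ⟨325, ⟨2, 7, 14, 10⟩⟩
      ⟨⟨0, 1001, 1000⟩, ⟨2000, 2021, 3000⟩, ⟨260, 334, 1000⟩, ⟨480, 561, 1000⟩⟩ = true := by
  decide +kernel

theorem p7hNLoZHi_pos :
    PosBox ⟨⟨0, 1001, 1000⟩, ⟨2000, 2021, 3000⟩, ⟨260, 334, 1000⟩, ⟨480, 561, 1000⟩⟩
      (piece7.hN piece7.xPL zHi) :=
  posBox_of_check p7hNLoZHi_1

def p7hV2p_1 :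
    (piece7.hV2p).checkQuick
      ⟨229, ⟨1, 6, 11, 6⟩⟩
      ⟨⟨0, 1001, 1000⟩, ⟨2000, 2021, 3000⟩, ⟨260, 334, 1000⟩, ⟨480, 561, 1000⟩⟩ = true := by
  decide +kernel

theorem p7hV2p_pos :
    PosBox ⟨⟨0, 1001, 1000⟩, ⟨2000, 2021, 3000⟩, ⟨260, 334, 1000⟩, ⟨480, 561, 1000⟩⟩
      (piece7.hV2p) :=
  posBox_of_check p7hV2p_1

def p7hV2m_1 :
    (piece7.hV2m).checkQuick
      ⟨231, ⟨1, 6, 11, 6⟩⟩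
      ⟨⟨0, 1001, 1000⟩, ⟨2000, 2021, 3000⟩, ⟨260, 334, 1000⟩, ⟨480, 561, 1000⟩⟩ = true := by
  decide +kernel

theorem p7hV2m_pos :
    PosBox ⟨⟨0, 1001, 1000⟩, ⟨2000, 2021, 3000⟩, ⟨260, 334, 1000⟩, ⟨480, 561, 1000⟩⟩
      (piece7.hV2m) :=
  posBox_of_check p7hV2m_1

def p7hV3p_1 :
    (piece7.hV3p).checkQuick
      ⟨218, ⟨1, 6, 10, 6⟩⟩
      ⟨⟨0, 1001, 1000⟩, ⟨2000, 2021, 3000⟩, ⟨260, 334, 1000⟩, ⟨480, 561, 1000⟩⟩ = true := by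
  decide +kernel

theorem p7hV3p_pos :
    PosBox ⟨⟨0, 1001, 1000⟩, ⟨2000, 2021, 3000⟩, ⟨260, 334, 1000⟩, ⟨480, 561, 1000⟩⟩
      (piece7.hV3p) :=
  posBox_of_check p7hV3p_1

def p7hV3m_1 :
    (piece7.hV3m).checkQuick
      ⟨220, ⟨1, 6, 10, 6⟩⟩
      ⟨⟨0, 1001, 1000⟩, ⟨2000, 2021, 3000⟩, ⟨260, 334, 1000⟩, ⟨480, 561, 1000⟩⟩ = true := by
  decide +kernel

theorem p7hV3m_pos :
    PosBox ⟨⟨0, 1001, 1000⟩, ⟨2000, 2021, 3000⟩, ⟨260, 334, 1000⟩, ⟨480, 561, 1000⟩⟩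
      (piece7.hV3m) :=
  posBox_of_check p7hV3m_1

def p7hMZeroHi_1 :
    (piece7.hM₀ piece7.xPU).checkQuick
      ⟨217, ⟨2, 5, 9, 6⟩⟩
      ⟨⟨0, 1001, 1000⟩, ⟨2000, 2021, 3000⟩, ⟨260, 334, 1000⟩, ⟨480, 561, 1000⟩⟩ = true := by
  decide +kernel

theorem p7hMZeroHi_pos :
    PosBox ⟨⟨0, 1001, 1000⟩, ⟨2000, 2021, 3000⟩, ⟨260, 334, 1000⟩, ⟨480, 561, 1000⟩⟩
      (piece7.hM₀ piece7.xPU) :=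
  posBox_of_check p7hMZeroHi_1

def p7hC1Hi_1 :
    (piece7.hC1 piece7.xPU).checkQuick
      ⟨246, ⟨3, 5, 9, 8⟩⟩
      ⟨⟨0, 1001, 1000⟩, ⟨2000, 2021, 3000⟩, ⟨260, 334, 1000⟩, ⟨480, 561, 1000⟩⟩ = true := by
  decide +kernel

theorem p7hC1Hi_pos :
    PosBox ⟨⟨0, 1001, 1000⟩, ⟨2000, 2021, 3000⟩, ⟨260, 334, 1000⟩, ⟨480, 561, 1000⟩⟩
      (piece7.hC1 piece7.xPU) :=
  posBox_of_check p7hC1Hi_1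

def p7hGHiZLo_1 :
    (piece7.hG piece7.xPU piece7.zLo).checkQuick
      ⟨352, ⟨2, 7, 16, 11⟩⟩
      ⟨⟨0, 1001, 1000⟩, ⟨2000, 2021, 3000⟩, ⟨260, 334, 1000⟩, ⟨480, 561, 1000⟩⟩ = true := by
  decide +kernel

theorem p7hGHiZLo_pos :
    PosBox ⟨⟨0, 1001, 1000⟩, ⟨2000, 2021, 3000⟩, ⟨260, 334, 1000⟩, ⟨480, 561, 1000⟩⟩
      (piece7.hG piece7.xPU piece7.zLo) :=
  posBox_of_check p7hGHiZLo_1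

def p7hFourHiZLo :
    ((piece7.hC2p piece7.xPU piece7.zLo).checkQuick ⟨440, ⟨3, 8, 19, 14⟩⟩
        ⟨⟨0, 1001, 1000⟩, ⟨2000, 2021, 3000⟩, ⟨260, 334, 1000⟩, ⟨480, 561, 1000⟩⟩ &&
      (piece7.hC2m piece7.xPU piece7.zLo).checkQuick ⟨440, ⟨3, 8, 19, 14⟩⟩
        ⟨⟨0, 1001, 1000⟩, ⟨2000, 2021, 3000⟩, ⟨260, 334, 1000⟩, ⟨480, 561, 1000⟩⟩ &&
      (piece7.hC3p piece7.xPU piece7.zLo).checkQuick ⟨440, ⟨3, 8, 19, 14⟩⟩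
        ⟨⟨0, 1001, 1000⟩, ⟨2000, 2021, 3000⟩, ⟨260, 334, 1000⟩, ⟨480, 561, 1000⟩⟩ &&
      (piece7.hC3m piece7.xPU piece7.zLo).checkQuick ⟨440, ⟨3, 8, 19, 14⟩⟩
        ⟨⟨0, 1001, 1000⟩, ⟨2000, 2021, 3000⟩, ⟨260, 334, 1000⟩, ⟨480, 561, 1000⟩⟩) = true := by
  decide +kernel

theorem p7hC2pHiZLo_pos :
    PosBox ⟨⟨0, 1001, 1000⟩, ⟨2000, 2021, 3000⟩, ⟨260, 334, 1000⟩, ⟨480, 561, 1000⟩⟩
      (piece7.hC2p piece7.xPU piece7.zLo) :=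
  posBox_of_check (and_four p7hFourHiZLo).1

theorem p7hC2mHiZLo_pos :
    PosBox ⟨⟨0, 1001, 1000⟩, ⟨2000, 2021, 3000⟩, ⟨260, 334, 1000⟩, ⟨480, 561, 1000⟩⟩
      (piece7.hC2m piece7.xPU piece7.zLo) :=
  posBox_of_check (and_four p7hFourHiZLo).2.1

theorem p7hC3pHiZLo_pos :
    PosBox ⟨⟨0, 1001, 1000⟩, ⟨2000, 2021, 3000⟩, ⟨260, 334, 1000⟩, ⟨480, 561, 1000⟩⟩
      (piece7.hC3p piece7.xPU piece7.zLo) :=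
  posBox_of_check (and_four p7hFourHiZLo).2.2.1

theorem p7hC3mHiZLo_pos :
    PosBox ⟨⟨0, 1001, 1000⟩, ⟨2000, 2021, 3000⟩, ⟨260, 334, 1000⟩, ⟨480, 561, 1000⟩⟩
      (piece7.hC3m piece7.xPU piece7.zLo) :=
  posBox_of_check (and_four p7hFourHiZLo).2.2.2

def p7hNHiZLo_1 :
    (piece7.hN piece7.xPU piece7.zLo).checkQuick
      ⟨335, ⟨2, 7, 15, 10⟩⟩
      ⟨⟨0, 1001, 1000⟩, ⟨2000, 2021, 3000⟩, ⟨260, 334, 1000⟩, ⟨480, 561, 1000⟩⟩ = true := by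
  decide +kernel

theorem p7hNHiZLo_pos :
    PosBox ⟨⟨0, 1001, 1000⟩, ⟨2000, 2021, 3000⟩, ⟨260, 334, 1000⟩, ⟨480, 561, 1000⟩⟩
      (piece7.hN piece7.xPU piece7.zLo) :=
  posBox_of_check p7hNHiZLo_1

def p7hGHiZHi_1 :
    (piece7.hG piece7.xPU zHi).checkQuick
      ⟨310, ⟨2, 7, 14, 9⟩⟩
      ⟨⟨0, 1001, 1000⟩, ⟨2000, 2021, 3000⟩, ⟨260, 334, 1000⟩, ⟨480, 561, 1000⟩⟩ = true := by
  decide +kernel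

theorem p7hGHiZHi_pos :
    PosBox ⟨⟨0, 1001, 1000⟩, ⟨2000, 2021, 3000⟩, ⟨260, 334, 1000⟩, ⟨480, 561, 1000⟩⟩
      (piece7.hG piece7.xPU zHi) :=
  posBox_of_check p7hGHiZHi_1

def p7hFourHiZHi :
    ((piece7.hC2p piece7.xPU zHi).checkQuick ⟨397, ⟨3, 8, 17, 12⟩⟩
        ⟨⟨0, 1001, 1000⟩, ⟨2000, 2021, 3000⟩, ⟨260, 334, 1000⟩, ⟨480, 561, 1000⟩⟩ &&
      (piece7.hC2m piece7.xPU zHi).checkQuick ⟨397, ⟨3, 8, 17, 12⟩⟩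
        ⟨⟨0, 1001, 1000⟩, ⟨2000, 2021, 3000⟩, ⟨260, 334, 1000⟩, ⟨480, 561, 1000⟩⟩ &&
      (piece7.hC3p piece7.xPU zHi).checkQuick ⟨397, ⟨3, 8, 17, 12⟩⟩
        ⟨⟨0, 1001, 1000⟩, ⟨2000, 2021, 3000⟩, ⟨260, 334, 1000⟩, ⟨480, 561, 1000⟩⟩ &&
      (piece7.hC3m piece7.xPU zHi).checkQuick ⟨397, ⟨3, 8, 17, 12⟩⟩
        ⟨⟨0, 1001, 1000⟩, ⟨2000, 2021, 3000⟩, ⟨260, 334, 1000⟩, ⟨480, 561, 1000⟩⟩) = true := by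
  decide +kernel

theorem p7hC2pHiZHi_pos :
    PosBox ⟨⟨0, 1001, 1000⟩, ⟨2000, 2021, 3000⟩, ⟨260, 334, 1000⟩, ⟨480, 561, 1000⟩⟩
      (piece7.hC2p piece7.xPU zHi) :=
  posBox_of_check (and_four p7hFourHiZHi).1

theorem p7hC2mHiZHi_pos :
    PosBox ⟨⟨0, 1001, 1000⟩, ⟨2000, 2021, 3000⟩, ⟨260, 334, 1000⟩, ⟨480, 561, 1000⟩⟩
      (piece7.hC2m piece7.xPU zHi) :=
  posBox_of_check (and_four p7hFourHiZHi).2.1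

theorem p7hC3pHiZHi_pos :
    PosBox ⟨⟨0, 1001, 1000⟩, ⟨2000, 2021, 3000⟩, ⟨260, 334, 1000⟩, ⟨480, 561, 1000⟩⟩
      (piece7.hC3p piece7.xPU zHi) :=
  posBox_of_check (and_four p7hFourHiZHi).2.2.1

theorem p7hC3mHiZHi_pos :
    PosBox ⟨⟨0, 1001, 1000⟩, ⟨2000, 2021, 3000⟩, ⟨260, 334, 1000⟩, ⟨480, 561, 1000⟩⟩
      (piece7.hC3m piece7.xPU zHi) :=
  posBox_of_check (and_four p7hFourHiZHi).2.2.2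

def p7hNHiZHi_1 :
    (piece7.hN piece7.xPU zHi).checkQuick
      ⟨325, ⟨2, 7, 14, 10⟩⟩
      ⟨⟨0, 1001, 1000⟩, ⟨2000, 2021, 3000⟩, ⟨260, 334, 1000⟩, ⟨480, 561, 1000⟩⟩ = true := by
  decide +kernel

theorem p7hNHiZHi_pos :
    PosBox ⟨⟨0, 1001, 1000⟩, ⟨2000, 2021, 3000⟩, ⟨260, 334, 1000⟩, ⟨480, 561, 1000⟩⟩
      (piece7.hN piece7.xPU zHi) :=
  posBox_of_check p7hNHiZHi_1

end Vale.Agent.P100.Calib.Closed.Six.Low
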