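import Vale.Agent.P100.Calib.SlabSixLowPieces

/-!
# Checks of the certificate of dimension six on `0 < u ≤ 3/5`
-/

-- The checks are definitions, so that they run one after another with little memory.
set_option linter.defProp false

namespace Vale.Agent.P100.Calib.Closed.Six.Low

open BoxPos
open Vale.Agent.P100.Calib.Closed.Large (PosBox posBox_of_check and_four posBox_join₀ posBox_join₂ posBox_join₃)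

def p8xRoom_1 :
    (piece8.xRoom).checkQuick
      ⟨31, ⟨0, 0, 1, 1⟩⟩
      ⟨⟨0, 1001, 1000⟩, ⟨2000, 2021, 3000⟩, ⟨260, 334, 1000⟩, ⟨560, 801, 1000⟩⟩ = true := by
  decide +kernel

theorem p8xRoom_pos :
    PosBox ⟨⟨0, 1001, 1000⟩, ⟨2000, 2021, 3000⟩, ⟨260, 334, 1000⟩, ⟨560, 801, 1000⟩⟩
      (piece8.xRoom) :=
  posBox_of_check p8xRoom_1

def p8xPhi_1 :
    (piece8.xPhi).checkQuick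
      ⟨85, ⟨0, 0, 4, 2⟩⟩
      ⟨⟨0, 1001, 1000⟩, ⟨2000, 2021, 3000⟩, ⟨260, 334, 1000⟩, ⟨560, 801, 1000⟩⟩ = true := by
  decide +kernel

theorem p8xPhi_pos :
    PosBox ⟨⟨0, 1001, 1000⟩, ⟨2000, 2021, 3000⟩, ⟨260, 334, 1000⟩, ⟨560, 801, 1000⟩⟩
      (piece8.xPhi) :=
  posBox_of_check p8xPhi_1

def p8xGap_1 :
    (piece8.xGap).checkQuick
      ⟨63, ⟨0, 2, 3, 2⟩⟩
      ⟨⟨0, 1001, 1000⟩, ⟨2000, 2021, 3000⟩, ⟨260, 334, 1000⟩, ⟨560, 801, 1000⟩⟩ = true := by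
  decide +kernel

theorem p8xGap_pos :
    PosBox ⟨⟨0, 1001, 1000⟩, ⟨2000, 2021, 3000⟩, ⟨260, 334, 1000⟩, ⟨560, 801, 1000⟩⟩
      (piece8.xGap) :=
  posBox_of_check p8xGap_1

def p8hELL_1 :
    (piece8.hEL xTL).checkQuick
      ⟨333, ⟨5, 8, 11, 6⟩⟩
      ⟨⟨0, 1001, 1000⟩, ⟨2000, 2021, 3000⟩, ⟨260, 334, 1000⟩, ⟨560, 801, 1000⟩⟩ = true := by
  decide +kernel

theorem p8hELL_pos :
    PosBox ⟨⟨0, 1001, 1000⟩, ⟨2000, 2021, 3000⟩, ⟨260, 334, 1000⟩, ⟨560, 801, 1000⟩⟩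
      (piece8.hEL xTL) :=
  posBox_of_check p8hELL_1

def p8hEHL_1 :
    (piece8.hEH xTL).checkQuick
      ⟨333, ⟨5, 8, 11, 6⟩⟩
      ⟨⟨0, 1001, 1000⟩, ⟨2000, 2021, 3000⟩, ⟨260, 334, 1000⟩, ⟨560, 801, 1000⟩⟩ = true := by
  decide +kernel

theorem p8hEHL_pos :
    PosBox ⟨⟨0, 1001, 1000⟩, ⟨2000, 2021, 3000⟩, ⟨260, 334, 1000⟩, ⟨560, 801, 1000⟩⟩
      (piece8.hEH xTL) :=
  posBox_of_check p8hEHL_1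

def p8hPUL_1 :
    (piece8.hPU xTL).checkQuick
      ⟨358, ⟨5, 8, 11, 7⟩⟩
      ⟨⟨0, 1001, 1000⟩, ⟨2000, 2021, 3000⟩, ⟨260, 334, 1000⟩, ⟨560, 801, 1000⟩⟩ = true := by
  decide +kernel

theorem p8hPUL_pos :
    PosBox ⟨⟨0, 1001, 1000⟩, ⟨2000, 2021, 3000⟩, ⟨260, 334, 1000⟩, ⟨560, 801, 1000⟩⟩
      (piece8.hPU xTL) :=
  posBox_of_check p8hPUL_1

def p8hKUL_1 :
    (piece8.hKU xTL).checkQuick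
      ⟨356, ⟨5, 8, 11, 7⟩⟩
      ⟨⟨0, 1001, 1000⟩, ⟨2000, 2021, 3000⟩, ⟨260, 334, 1000⟩, ⟨560, 801, 1000⟩⟩ = true := by
  decide +kernel

theorem p8hKUL_pos :
    PosBox ⟨⟨0, 1001, 1000⟩, ⟨2000, 2021, 3000⟩, ⟨260, 334, 1000⟩, ⟨560, 801, 1000⟩⟩
      (piece8.hKU xTL) :=
  posBox_of_check p8hKUL_1

def p8hKLL_1 :
    (piece8.hKL xTL).checkQuick
      ⟨356, ⟨5, 8, 11, 7⟩⟩
      ⟨⟨0, 1001, 1000⟩, ⟨2000, 2021, 3000⟩, ⟨260, 334, 1000⟩, ⟨560, 801, 1000⟩⟩ = true := by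
  decide +kernel

theorem p8hKLL_pos :
    PosBox ⟨⟨0, 1001, 1000⟩, ⟨2000, 2021, 3000⟩, ⟨260, 334, 1000⟩, ⟨560, 801, 1000⟩⟩
      (piece8.hKL xTL) :=
  posBox_of_check p8hKLL_1

def p8hWUL_1 :
    (piece8.hWU xTL).checkQuick
      ⟨357, ⟨5, 7, 11, 7⟩⟩
      ⟨⟨0, 1001, 1000⟩, ⟨2000, 2021, 3000⟩, ⟨260, 334, 1000⟩, ⟨560, 801, 1000⟩⟩ = true := by
  decide +kernel

theorem p8hWUL_pos :
    PosBox ⟨⟨0, 1001, 1000⟩, ⟨2000, 2021, 3000⟩, ⟨260, 334, 1000⟩, ⟨560, 801, 1000⟩⟩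
      (piece8.hWU xTL) :=
  posBox_of_check p8hWUL_1

def p8hWLL_1 :
    (piece8.hWL xTL).checkQuick
      ⟨357, ⟨5, 7, 11, 7⟩⟩
      ⟨⟨0, 1001, 1000⟩, ⟨2000, 2021, 3000⟩, ⟨260, 334, 1000⟩, ⟨560, 801, 1000⟩⟩ = true := by
  decide +kernel

theorem p8hWLL_pos :
    PosBox ⟨⟨0, 1001, 1000⟩, ⟨2000, 2021, 3000⟩, ⟨260, 334, 1000⟩, ⟨560, 801, 1000⟩⟩
      (piece8.hWL xTL) :=
  posBox_of_check p8hWLL_1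

def p8hZL_1 :
    (piece8.hZ xTL).checkQuick
      ⟨512, ⟨8, 10, 18, 8⟩⟩
      ⟨⟨0, 1001, 1000⟩, ⟨2000, 2021, 3000⟩, ⟨260, 334, 1000⟩, ⟨560, 801, 1000⟩⟩ = true := by
  decide +kernel

theorem p8hZL_pos :
    PosBox ⟨⟨0, 1001, 1000⟩, ⟨2000, 2021, 3000⟩, ⟨260, 334, 1000⟩, ⟨560, 801, 1000⟩⟩
      (piece8.hZ xTL) :=
  posBox_of_check p8hZL_1

def p8hELU_1 :
    (piece8.hEL xTU).checkQuick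
      ⟨348, ⟨5, 8, 12, 6⟩⟩
      ⟨⟨0, 1001, 1000⟩, ⟨2000, 2021, 3000⟩, ⟨260, 334, 1000⟩, ⟨560, 801, 1000⟩⟩ = true := by
  decide +kernel

theorem p8hELU_pos :
    PosBox ⟨⟨0, 1001, 1000⟩, ⟨2000, 2021, 3000⟩, ⟨260, 334, 1000⟩, ⟨560, 801, 1000⟩⟩
      (piece8.hEL xTU) :=
  posBox_of_check p8hELU_1

def p8hEHU_1 :
    (piece8.hEH xTU).checkQuick
      ⟨348, ⟨5, 8, 12, 6⟩⟩
      ⟨⟨0, 1001, 1000⟩, ⟨2000, 2021, 3000⟩, ⟨260, 334, 1000⟩, ⟨560, 801, 1000⟩⟩ = true := by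
  decide +kernel

theorem p8hEHU_pos :
    PosBox ⟨⟨0, 1001, 1000⟩, ⟨2000, 2021, 3000⟩, ⟨260, 334, 1000⟩, ⟨560, 801, 1000⟩⟩
      (piece8.hEH xTU) :=
  posBox_of_check p8hEHU_1

def p8hPUU_1 :
    (piece8.hPU xTU).checkQuick
      ⟨371, ⟨5, 8, 12, 7⟩⟩
      ⟨⟨0, 500, 1000⟩, ⟨2000, 2021, 3000⟩, ⟨260, 334, 1000⟩, ⟨560, 801, 1000⟩⟩ = true := by
  decide +kernel

def p8hPUU_2 :
    (piece8.hPU xTU).checkQuick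
      ⟨374, ⟨5, 8, 12, 7⟩⟩
      ⟨⟨500, 1001, 1000⟩, ⟨2000, 2021, 3000⟩, ⟨260, 334, 1000⟩, ⟨560, 801, 1000⟩⟩ = true := by
  decide +kernel

theorem p8hPUU_pos :
    PosBox ⟨⟨0, 1001, 1000⟩, ⟨2000, 2021, 3000⟩, ⟨260, 334, 1000⟩, ⟨560, 801, 1000⟩⟩
      (piece8.hPU xTU) :=
  posBox_join₀ (posBox_of_check p8hPUU_1) (posBox_of_check p8hPUU_2)

def p8hKUU_1 :
    (piece8.hKU xTU).checkQuick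
      ⟨371, ⟨5, 8, 12, 7⟩⟩
      ⟨⟨0, 1001, 1000⟩, ⟨2000, 2021, 3000⟩, ⟨260, 334, 1000⟩, ⟨560, 801, 1000⟩⟩ = true := by
  decide +kernel

theorem p8hKUU_pos :
    PosBox ⟨⟨0, 1001, 1000⟩, ⟨2000, 2021, 3000⟩, ⟨260, 334, 1000⟩, ⟨560, 801, 1000⟩⟩
      (piece8.hKU xTU) :=
  posBox_of_check p8hKUU_1

def p8hKLU_1 :
    (piece8.hKL xTU).checkQuick
      ⟨371, ⟨5, 8, 12, 7⟩⟩
      ⟨⟨0, 1001, 1000⟩, ⟨2000, 2021, 3000⟩, ⟨260, 334, 1000⟩, ⟨560, 801, 1000⟩⟩ = true := by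
  decide +kernel

theorem p8hKLU_pos :
    PosBox ⟨⟨0, 1001, 1000⟩, ⟨2000, 2021, 3000⟩, ⟨260, 334, 1000⟩, ⟨560, 801, 1000⟩⟩
      (piece8.hKL xTU) :=
  posBox_of_check p8hKLU_1

def p8hWUU_1 :
    (piece8.hWU xTU).checkQuick
      ⟨372, ⟨5, 7, 12, 7⟩⟩
      ⟨⟨0, 1001, 1000⟩, ⟨2000, 2021, 3000⟩, ⟨260, 334, 1000⟩, ⟨560, 801, 1000⟩⟩ = true := by
  decide +kernel

theorem p8hWUU_pos :
    PosBox ⟨⟨0, 1001, 1000⟩, ⟨2000, 2021, 3000⟩, ⟨260, 334, 1000⟩, ⟨560, 801, 1000⟩⟩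
      (piece8.hWU xTU) :=
  posBox_of_check p8hWUU_1

def p8hWLU_1 :
    (piece8.hWL xTU).checkQuick
      ⟨372, ⟨5, 7, 12, 7⟩⟩
      ⟨⟨0, 1001, 1000⟩, ⟨2000, 2021, 3000⟩, ⟨260, 334, 1000⟩, ⟨560, 801, 1000⟩⟩ = true := by
  decide +kernel

theorem p8hWLU_pos :
    PosBox ⟨⟨0, 1001, 1000⟩, ⟨2000, 2021, 3000⟩, ⟨260, 334, 1000⟩, ⟨560, 801, 1000⟩⟩
      (piece8.hWL xTU) :=
  posBox_of_check p8hWLU_1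

def p8hZU_1 :
    (piece8.hZ xTU).checkQuick
      ⟨513, ⟨8, 10, 18, 8⟩⟩
      ⟨⟨0, 1001, 1000⟩, ⟨2000, 2021, 3000⟩, ⟨260, 334, 1000⟩, ⟨560, 801, 1000⟩⟩ = true := by
  decide +kernel

theorem p8hZU_pos :
    PosBox ⟨⟨0, 1001, 1000⟩, ⟨2000, 2021, 3000⟩, ⟨260, 334, 1000⟩, ⟨560, 801, 1000⟩⟩
      (piece8.hZ xTU) :=
  posBox_of_check p8hZU_1

def p8hKp_1 :
    (piece8.hKp).checkQuick
      ⟨78, ⟨1, 1, 3, 3⟩⟩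
      ⟨⟨0, 1001, 1000⟩, ⟨2000, 2021, 3000⟩, ⟨260, 334, 1000⟩, ⟨560, 801, 1000⟩⟩ = true := by
  decide +kernel

theorem p8hKp_pos :
    PosBox ⟨⟨0, 1001, 1000⟩, ⟨2000, 2021, 3000⟩, ⟨260, 334, 1000⟩, ⟨560, 801, 1000⟩⟩
      (piece8.hKp) :=
  posBox_of_check p8hKp_1

def p8hKm_1 :
    (piece8.hKm).checkQuick
      ⟨89, ⟨1, 1, 3, 3⟩⟩
      ⟨⟨0, 1001, 1000⟩, ⟨2000, 2021, 3000⟩, ⟨260, 334, 1000⟩, ⟨560, 801, 1000⟩⟩ = true := by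
  decide +kernel

theorem p8hKm_pos :
    PosBox ⟨⟨0, 1001, 1000⟩, ⟨2000, 2021, 3000⟩, ⟨260, 334, 1000⟩, ⟨560, 801, 1000⟩⟩
      (piece8.hKm) :=
  posBox_of_check p8hKm_1

def p8hMZeroLo_1 :
    (piece8.hM₀ piece8.xPL).checkQuick
      ⟨214, ⟨2, 5, 9, 6⟩⟩
      ⟨⟨0, 1001, 1000⟩, ⟨2000, 2021, 3000⟩, ⟨260, 334, 1000⟩, ⟨560, 801, 1000⟩⟩ = true := by
  decide +kernel

theorem p8hMZeroLo_pos :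
    PosBox ⟨⟨0, 1001, 1000⟩, ⟨2000, 2021, 3000⟩, ⟨260, 334, 1000⟩, ⟨560, 801, 1000⟩⟩
      (piece8.hM₀ piece8.xPL) :=
  posBox_of_check p8hMZeroLo_1

def p8hC1Lo_1 :
    (piece8.hC1 piece8.xPL).checkQuick
      ⟨243, ⟨3, 5, 9, 8⟩⟩
      ⟨⟨0, 1001, 1000⟩, ⟨2000, 2021, 3000⟩, ⟨260, 334, 1000⟩, ⟨560, 801, 1000⟩⟩ = true := by
  decide +kernel

theorem p8hC1Lo_pos :
    PosBox ⟨⟨0, 1001, 1000⟩, ⟨2000, 2021, 3000⟩, ⟨260, 334, 1000⟩, ⟨560, 801, 1000⟩⟩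
      (piece8.hC1 piece8.xPL) :=
  posBox_of_check p8hC1Lo_1

def p8hGLoZLo_1 :
    (piece8.hG piece8.xPL piece8.zLo).checkQuick
      ⟨350, ⟨2, 7, 16, 11⟩⟩
      ⟨⟨0, 1001, 1000⟩, ⟨2000, 2021, 3000⟩, ⟨260, 334, 1000⟩, ⟨560, 801, 1000⟩⟩ = true := by
  decide +kernel

theorem p8hGLoZLo_pos :
    PosBox ⟨⟨0, 1001, 1000⟩, ⟨2000, 2021, 3000⟩, ⟨260, 334, 1000⟩, ⟨560, 801, 1000⟩⟩
      (piece8.hG piece8.xPL piece8.zLo) :=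
  posBox_of_check p8hGLoZLo_1

def p8hFourLoZLo :
    ((piece8.hC2p piece8.xPL piece8.zLo).checkQuick ⟨436, ⟨3, 8, 19, 14⟩⟩
        ⟨⟨0, 1001, 1000⟩, ⟨2000, 2021, 3000⟩, ⟨260, 334, 1000⟩, ⟨560, 801, 1000⟩⟩ &&
      (piece8.hC2m piece8.xPL piece8.zLo).checkQuick ⟨436, ⟨3, 8, 19, 14⟩⟩
        ⟨⟨0, 1001, 1000⟩, ⟨2000, 2021, 3000⟩, ⟨260, 334, 1000⟩, ⟨560, 801, 1000⟩⟩ &&
      (piece8.hC3p piece8.xPL piece8.zLo).checkQuick ⟨436, ⟨3, 8, 19, 14⟩⟩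
        ⟨⟨0, 1001, 1000⟩, ⟨2000, 2021, 3000⟩, ⟨260, 334, 1000⟩, ⟨560, 801, 1000⟩⟩ &&
      (piece8.hC3m piece8.xPL piece8.zLo).checkQuick ⟨436, ⟨3, 8, 19, 14⟩⟩
        ⟨⟨0, 1001, 1000⟩, ⟨2000, 2021, 3000⟩, ⟨260, 334, 1000⟩, ⟨560, 801, 1000⟩⟩) = true := by
  decide +kernel

theorem p8hC2pLoZLo_pos :
    PosBox ⟨⟨0, 1001, 1000⟩, ⟨2000, 2021, 3000⟩, ⟨260, 334, 1000⟩, ⟨560, 801, 1000⟩⟩
      (piece8.hC2p piece8.xPL piece8.zLo) :=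
  posBox_of_check (and_four p8hFourLoZLo).1

theorem p8hC2mLoZLo_pos :
    PosBox ⟨⟨0, 1001, 1000⟩, ⟨2000, 2021, 3000⟩, ⟨260, 334, 1000⟩, ⟨560, 801, 1000⟩⟩
      (piece8.hC2m piece8.xPL piece8.zLo) :=
  posBox_of_check (and_four p8hFourLoZLo).2.1

theorem p8hC3pLoZLo_pos :
    PosBox ⟨⟨0, 1001, 1000⟩, ⟨2000, 2021, 3000⟩, ⟨260, 334, 1000⟩, ⟨560, 801, 1000⟩⟩
      (piece8.hC3p piece8.xPL piece8.zLo) :=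
  posBox_of_check (and_four p8hFourLoZLo).2.2.1

theorem p8hC3mLoZLo_pos :
    PosBox ⟨⟨0, 1001, 1000⟩, ⟨2000, 2021, 3000⟩, ⟨260, 334, 1000⟩, ⟨560, 801, 1000⟩⟩
      (piece8.hC3m piece8.xPL piece8.zLo) :=
  posBox_of_check (and_four p8hFourLoZLo).2.2.2

def p8hNLoZLo_1 :
    (piece8.hN piece8.xPL piece8.zLo).checkQuick
      ⟨335, ⟨2, 7, 15, 10⟩⟩
      ⟨⟨0, 1001, 1000⟩, ⟨2000, 2021, 3000⟩, ⟨260, 334, 1000⟩, ⟨560, 801, 1000⟩⟩ = true := by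
  decide +kernel

theorem p8hNLoZLo_pos :
    PosBox ⟨⟨0, 1001, 1000⟩, ⟨2000, 2021, 3000⟩, ⟨260, 334, 1000⟩, ⟨560, 801, 1000⟩⟩
      (piece8.hN piece8.xPL piece8.zLo) :=
  posBox_of_check p8hNLoZLo_1

def p8hGLoZHi_1 :
    (piece8.hG piece8.xPL zHi).checkQuick
      ⟨307, ⟨2, 7, 14, 9⟩⟩
      ⟨⟨0, 1001, 1000⟩, ⟨2000, 2021, 3000⟩, ⟨260, 334, 1000⟩, ⟨560, 801, 1000⟩⟩ = true := by
  decide +kernel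

theorem p8hGLoZHi_pos :
    PosBox ⟨⟨0, 1001, 1000⟩, ⟨2000, 2021, 3000⟩, ⟨260, 334, 1000⟩, ⟨560, 801, 1000⟩⟩
      (piece8.hG piece8.xPL zHi) :=
  posBox_of_check p8hGLoZHi_1

def p8hFourLoZHi :
    ((piece8.hC2p piece8.xPL zHi).checkQuick ⟨394, ⟨3, 8, 17, 12⟩⟩
        ⟨⟨0, 1001, 1000⟩, ⟨2000, 2021, 3000⟩, ⟨260, 334, 1000⟩, ⟨560, 801, 1000⟩⟩ &&
      (piece8.hC2m piece8.xPL zHi).checkQuick ⟨394, ⟨3, 8, 17, 12⟩⟩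
        ⟨⟨0, 1001, 1000⟩, ⟨2000, 2021, 3000⟩, ⟨260, 334, 1000⟩, ⟨560, 801, 1000⟩⟩ &&
      (piece8.hC3p piece8.xPL zHi).checkQuick ⟨394, ⟨3, 8, 17, 12⟩⟩
        ⟨⟨0, 1001, 1000⟩, ⟨2000, 2021, 3000⟩, ⟨260, 334, 1000⟩, ⟨560, 801, 1000⟩⟩ &&
      (piece8.hC3m piece8.xPL zHi).checkQuick ⟨394, ⟨3, 8, 17, 12⟩⟩
        ⟨⟨0, 1001, 1000⟩, ⟨2000, 2021, 3000⟩, ⟨260, 334, 1000⟩, ⟨560, 801, 1000⟩⟩) = true := by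
  decide +kernel

theorem p8hC2pLoZHi_pos :
    PosBox ⟨⟨0, 1001, 1000⟩, ⟨2000, 2021, 3000⟩, ⟨260, 334, 1000⟩, ⟨560, 801, 1000⟩⟩
      (piece8.hC2p piece8.xPL zHi) :=
  posBox_of_check (and_four p8hFourLoZHi).1

theorem p8hC2mLoZHi_pos :
    PosBox ⟨⟨0, 1001, 1000⟩, ⟨2000, 2021, 3000⟩, ⟨260, 334, 1000⟩, ⟨560, 801, 1000⟩⟩
      (piece8.hC2m piece8.xPL zHi) :=
  posBox_of_check (and_four p8hFourLoZHi).2.1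

theorem p8hC3pLoZHi_pos :
    PosBox ⟨⟨0, 1001, 1000⟩, ⟨2000, 2021, 3000⟩, ⟨260, 334, 1000⟩, ⟨560, 801, 1000⟩⟩
      (piece8.hC3p piece8.xPL zHi) :=
  posBox_of_check (and_four p8hFourLoZHi).2.2.1

theorem p8hC3mLoZHi_pos :
    PosBox ⟨⟨0, 1001, 1000⟩, ⟨2000, 2021, 3000⟩, ⟨260, 334, 1000⟩, ⟨560, 801, 1000⟩⟩
      (piece8.hC3m piece8.xPL zHi) :=
  posBox_of_check (and_four p8hFourLoZHi).2.2.2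

def p8hNLoZHi_1 :
    (piece8.hN piece8.xPL zHi).checkQuick
      ⟨324, ⟨2, 7, 14, 10⟩⟩
      ⟨⟨0, 1001, 1000⟩, ⟨2000, 2021, 3000⟩, ⟨260, 334, 1000⟩, ⟨560, 801, 1000⟩⟩ = true := by
  decide +kernel

theorem p8hNLoZHi_pos :
    PosBox ⟨⟨0, 1001, 1000⟩, ⟨2000, 2021, 3000⟩, ⟨260, 334, 1000⟩, ⟨560, 801, 1000⟩⟩
      (piece8.hN piece8.xPL zHi) :=
  posBox_of_check p8hNLoZHi_1

def p8hV2p_1 :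
    (piece8.hV2p).checkQuick
      ⟨226, ⟨1, 6, 11, 6⟩⟩
      ⟨⟨0, 1001, 1000⟩, ⟨2000, 2021, 3000⟩, ⟨260, 334, 1000⟩, ⟨560, 801, 1000⟩⟩ = true := by
  decide +kernel

theorem p8hV2p_pos :
    PosBox ⟨⟨0, 1001, 1000⟩, ⟨2000, 2021, 3000⟩, ⟨260, 334, 1000⟩, ⟨560, 801, 1000⟩⟩
      (piece8.hV2p) :=
  posBox_of_check p8hV2p_1

def p8hV2m_1 :
    (piece8.hV2m).checkQuick
      ⟨230, ⟨1, 6, 11, 6⟩⟩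
      ⟨⟨0, 1001, 1000⟩, ⟨2000, 2021, 3000⟩, ⟨260, 334, 1000⟩, ⟨560, 801, 1000⟩⟩ = true := by
  decide +kernel

theorem p8hV2m_pos :
    PosBox ⟨⟨0, 1001, 1000⟩, ⟨2000, 2021, 3000⟩, ⟨260, 334, 1000⟩, ⟨560, 801, 1000⟩⟩
      (piece8.hV2m) :=
  posBox_of_check p8hV2m_1

def p8hV3p_1 :
    (piece8.hV3p).checkQuick
      ⟨217, ⟨1, 6, 10, 6⟩⟩
      ⟨⟨0, 1001, 1000⟩, ⟨2000, 2021, 3000⟩, ⟨260, 334, 1000⟩, ⟨560, 801, 1000⟩⟩ = true := by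
  decide +kernel

theorem p8hV3p_pos :
    PosBox ⟨⟨0, 1001, 1000⟩, ⟨2000, 2021, 3000⟩, ⟨260, 334, 1000⟩, ⟨560, 801, 1000⟩⟩
      (piece8.hV3p) :=
  posBox_of_check p8hV3p_1

def p8hV3m_1 :
    (piece8.hV3m).checkQuick
      ⟨219, ⟨1, 6, 10, 6⟩⟩
      ⟨⟨0, 1001, 1000⟩, ⟨2000, 2021, 3000⟩, ⟨260, 334, 1000⟩, ⟨560, 801, 1000⟩⟩ = true := by
  decide +kernel

theorem p8hV3m_pos :
    PosBox ⟨⟨0, 1001, 1000⟩, ⟨2000, 2021, 3000⟩, ⟨260, 334, 1000⟩, ⟨560, 801, 1000⟩⟩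
      (piece8.hV3m) :=
  posBox_of_check p8hV3m_1

def p8hMZeroHi_1 :
    (piece8.hM₀ piece8.xPU).checkQuick
      ⟨216, ⟨2, 5, 9, 6⟩⟩
      ⟨⟨0, 1001, 1000⟩, ⟨2000, 2021, 3000⟩, ⟨260, 334, 1000⟩, ⟨560, 801, 1000⟩⟩ = true := by
  decide +kernel

theorem p8hMZeroHi_pos :
    PosBox ⟨⟨0, 1001, 1000⟩, ⟨2000, 2021, 3000⟩, ⟨260, 334, 1000⟩, ⟨560, 801, 1000⟩⟩
      (piece8.hM₀ piece8.xPU) :=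
  posBox_of_check p8hMZeroHi_1

def p8hC1Hi_1 :
    (piece8.hC1 piece8.xPU).checkQuick
      ⟨245, ⟨3, 5, 9, 8⟩⟩
      ⟨⟨0, 1001, 1000⟩, ⟨2000, 2021, 3000⟩, ⟨260, 334, 1000⟩, ⟨560, 801, 1000⟩⟩ = true := by
  decide +kernel

theorem p8hC1Hi_pos :
    PosBox ⟨⟨0, 1001, 1000⟩, ⟨2000, 2021, 3000⟩, ⟨260, 334, 1000⟩, ⟨560, 801, 1000⟩⟩
      (piece8.hC1 piece8.xPU) :=
  posBox_of_check p8hC1Hi_1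

def p8hGHiZLo_1 :
    (piece8.hG piece8.xPU piece8.zLo).checkQuick
      ⟨352, ⟨2, 7, 16, 11⟩⟩
      ⟨⟨0, 1001, 1000⟩, ⟨2000, 2021, 3000⟩, ⟨260, 334, 1000⟩, ⟨560, 801, 1000⟩⟩ = true := by
  decide +kernel

theorem p8hGHiZLo_pos :
    PosBox ⟨⟨0, 1001, 1000⟩, ⟨2000, 2021, 3000⟩, ⟨260, 334, 1000⟩, ⟨560, 801, 1000⟩⟩
      (piece8.hG piece8.xPU piece8.zLo) :=
  posBox_of_check p8hGHiZLo_1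

def p8hFourHiZLo :
    ((piece8.hC2p piece8.xPU piece8.zLo).checkQuick ⟨439, ⟨3, 8, 19, 14⟩⟩
        ⟨⟨0, 1001, 1000⟩, ⟨2000, 2021, 3000⟩, ⟨260, 334, 1000⟩, ⟨560, 801, 1000⟩⟩ &&
      (piece8.hC2m piece8.xPU piece8.zLo).checkQuick ⟨439, ⟨3, 8, 19, 14⟩⟩
        ⟨⟨0, 1001, 1000⟩, ⟨2000, 2021, 3000⟩, ⟨260, 334, 1000⟩, ⟨560, 801, 1000⟩⟩ &&
      (piece8.hC3p piece8.xPU piece8.zLo).checkQuick ⟨439, ⟨3, 8, 19, 14⟩⟩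
        ⟨⟨0, 1001, 1000⟩, ⟨2000, 2021, 3000⟩, ⟨260, 334, 1000⟩, ⟨560, 801, 1000⟩⟩ &&
      (piece8.hC3m piece8.xPU piece8.zLo).checkQuick ⟨439, ⟨3, 8, 19, 14⟩⟩
        ⟨⟨0, 1001, 1000⟩, ⟨2000, 2021, 3000⟩, ⟨260, 334, 1000⟩, ⟨560, 801, 1000⟩⟩) = true := by
  decide +kernel

theorem p8hC2pHiZLo_pos :
    PosBox ⟨⟨0, 1001, 1000⟩, ⟨2000, 2021, 3000⟩, ⟨260, 334, 1000⟩, ⟨560, 801, 1000⟩⟩
      (piece8.hC2p piece8.xPU piece8.zLo) :=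
  posBox_of_check (and_four p8hFourHiZLo).1

theorem p8hC2mHiZLo_pos :
    PosBox ⟨⟨0, 1001, 1000⟩, ⟨2000, 2021, 3000⟩, ⟨260, 334, 1000⟩, ⟨560, 801, 1000⟩⟩
      (piece8.hC2m piece8.xPU piece8.zLo) :=
  posBox_of_check (and_four p8hFourHiZLo).2.1

theorem p8hC3pHiZLo_pos :
    PosBox ⟨⟨0, 1001, 1000⟩, ⟨2000, 2021, 3000⟩, ⟨260, 334, 1000⟩, ⟨560, 801, 1000⟩⟩
      (piece8.hC3p piece8.xPU piece8.zLo) :=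
  posBox_of_check (and_four p8hFourHiZLo).2.2.1

theorem p8hC3mHiZLo_pos :
    PosBox ⟨⟨0, 1001, 1000⟩, ⟨2000, 2021, 3000⟩, ⟨260, 334, 1000⟩, ⟨560, 801, 1000⟩⟩
      (piece8.hC3m piece8.xPU piece8.zLo) :=
  posBox_of_check (and_four p8hFourHiZLo).2.2.2

def p8hNHiZLo_1 :
    (piece8.hN piece8.xPU piece8.zLo).checkQuick
      ⟨335, ⟨2, 7, 15, 10⟩⟩
      ⟨⟨0, 1001, 1000⟩, ⟨2000, 2021, 3000⟩, ⟨260, 334, 1000⟩, ⟨560, 801, 1000⟩⟩ = true := by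
  decide +kernel

theorem p8hNHiZLo_pos :
    PosBox ⟨⟨0, 1001, 1000⟩, ⟨2000, 2021, 3000⟩, ⟨260, 334, 1000⟩, ⟨560, 801, 1000⟩⟩
      (piece8.hN piece8.xPU piece8.zLo) :=
  posBox_of_check p8hNHiZLo_1

def p8hGHiZHi_1 :
    (piece8.hG piece8.xPU zHi).checkQuick
      ⟨310, ⟨2, 7, 14, 9⟩⟩
      ⟨⟨0, 1001, 1000⟩, ⟨2000, 2021, 3000⟩, ⟨260, 334, 1000⟩, ⟨560, 801, 1000⟩⟩ = true := by
  decide +kernel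

theorem p8hGHiZHi_pos :
    PosBox ⟨⟨0, 1001, 1000⟩, ⟨2000, 2021, 3000⟩, ⟨260, 334, 1000⟩, ⟨560, 801, 1000⟩⟩
      (piece8.hG piece8.xPU zHi) :=
  posBox_of_check p8hGHiZHi_1

def p8hFourHiZHi :
    ((piece8.hC2p piece8.xPU zHi).checkQuick ⟨396, ⟨3, 8, 17, 12⟩⟩
        ⟨⟨0, 1001, 1000⟩, ⟨2000, 2021, 3000⟩, ⟨260, 334, 1000⟩, ⟨560, 801, 1000⟩⟩ &&
      (piece8.hC2m piece8.xPU zHi).checkQuick ⟨396, ⟨3, 8, 17, 12⟩⟩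
        ⟨⟨0, 1001, 1000⟩, ⟨2000, 2021, 3000⟩, ⟨260, 334, 1000⟩, ⟨560, 801, 1000⟩⟩ &&
      (piece8.hC3p piece8.xPU zHi).checkQuick ⟨396, ⟨3, 8, 17, 12⟩⟩
        ⟨⟨0, 1001, 1000⟩, ⟨2000, 2021, 3000⟩, ⟨260, 334, 1000⟩, ⟨560, 801, 1000⟩⟩ &&
      (piece8.hC3m piece8.xPU zHi).checkQuick ⟨396, ⟨3, 8, 17, 12⟩⟩
        ⟨⟨0, 1001, 1000⟩, ⟨2000, 2021, 3000⟩, ⟨260, 334, 1000⟩, ⟨560, 801, 1000⟩⟩) = true := by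
  decide +kernel

theorem p8hC2pHiZHi_pos :
    PosBox ⟨⟨0, 1001, 1000⟩, ⟨2000, 2021, 3000⟩, ⟨260, 334, 1000⟩, ⟨560, 801, 1000⟩⟩
      (piece8.hC2p piece8.xPU zHi) :=
  posBox_of_check (and_four p8hFourHiZHi).1

theorem p8hC2mHiZHi_pos :
    PosBox ⟨⟨0, 1001, 1000⟩, ⟨2000, 2021, 3000⟩, ⟨260, 334, 1000⟩, ⟨560, 801, 1000⟩⟩
      (piece8.hC2m piece8.xPU zHi) :=
  posBox_of_check (and_four p8hFourHiZHi).2.1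

theorem p8hC3pHiZHi_pos :
    PosBox ⟨⟨0, 1001, 1000⟩, ⟨2000, 2021, 3000⟩, ⟨260, 334, 1000⟩, ⟨560, 801, 1000⟩⟩
      (piece8.hC3p piece8.xPU zHi) :=
  posBox_of_check (and_four p8hFourHiZHi).2.2.1

theorem p8hC3mHiZHi_pos :
    PosBox ⟨⟨0, 1001, 1000⟩, ⟨2000, 2021, 3000⟩, ⟨260, 334, 1000⟩, ⟨560, 801, 1000⟩⟩
      (piece8.hC3m piece8.xPU zHi) :=
  posBox_of_check (and_four p8hFourHiZHi).2.2.2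

def p8hNHiZHi_1 :
    (piece8.hN piece8.xPU zHi).checkQuick
      ⟨325, ⟨2, 7, 14, 10⟩⟩
      ⟨⟨0, 1001, 1000⟩, ⟨2000, 2021, 3000⟩, ⟨260, 334, 1000⟩, ⟨560, 801, 1000⟩⟩ = true := by
  decide +kernel

theorem p8hNHiZHi_pos :
    PosBox ⟨⟨0, 1001, 1000⟩, ⟨2000, 2021, 3000⟩, ⟨260, 334, 1000⟩, ⟨560, 801, 1000⟩⟩
      (piece8.hN piece8.xPU zHi) :=
  posBox_of_check p8hNHiZHi_1

end Vale.Agent.P100.Calib.Closed.Six.Low
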