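import Vale.Agent.P100.Calib.SlabSixLowPieces

/-!
# Checks of the certificate of dimension six on `0 < u ≤ 3/5`
-/

-- The checks are definitions, so that they run one after another with little memory.
set_option linter.defProp false

namespace Vale.Agent.P100.Calib.Closed.Six.Low

open BoxPos
open Vale.Agent.P100.Calib.Closed.Large (PosBox posBox_of_check and_four posBox_join₀ posBox_join₂ posBox_join₃)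

def p9xRoom_1 :
    (piece9.xRoom).checkQuick
      ⟨30, ⟨0, 0, 1, 1⟩⟩
      ⟨⟨0, 1001, 1000⟩, ⟨2000, 2021, 3000⟩, ⟨260, 300, 1000⟩, ⟨800, 997, 1000⟩⟩ = true := by
  decide +kernel

theorem p9xRoom_pos :
    PosBox ⟨⟨0, 1001, 1000⟩, ⟨2000, 2021, 3000⟩, ⟨260, 300, 1000⟩, ⟨800, 997, 1000⟩⟩
      (piece9.xRoom) :=
  posBox_of_check p9xRoom_1

def p9xPhi_1 :
    (piece9.xPhi).checkQuick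
      ⟨84, ⟨0, 0, 4, 2⟩⟩
      ⟨⟨0, 1001, 1000⟩, ⟨2000, 2021, 3000⟩, ⟨260, 300, 1000⟩, ⟨800, 997, 1000⟩⟩ = true := by
  decide +kernel

theorem p9xPhi_pos :
    PosBox ⟨⟨0, 1001, 1000⟩, ⟨2000, 2021, 3000⟩, ⟨260, 300, 1000⟩, ⟨800, 997, 1000⟩⟩
      (piece9.xPhi) :=
  posBox_of_check p9xPhi_1

def p9hELL_1 :
    (piece9.hEL xTL).checkQuick
      ⟨329, ⟨5, 8, 11, 6⟩⟩
      ⟨⟨0, 1001, 1000⟩, ⟨2000, 2021, 3000⟩, ⟨260, 300, 1000⟩, ⟨800, 997, 1000⟩⟩ = true := by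
  decide +kernel

theorem p9hELL_pos :
    PosBox ⟨⟨0, 1001, 1000⟩, ⟨2000, 2021, 3000⟩, ⟨260, 300, 1000⟩, ⟨800, 997, 1000⟩⟩
      (piece9.hEL xTL) :=
  posBox_of_check p9hELL_1

def p9hEHL_1 :
    (piece9.hEH xTL).checkQuick
      ⟨330, ⟨5, 8, 11, 6⟩⟩
      ⟨⟨0, 1001, 1000⟩, ⟨2000, 2021, 3000⟩, ⟨260, 300, 1000⟩, ⟨800, 997, 1000⟩⟩ = true := by
  decide +kernel

theorem p9hEHL_pos :
    PosBox ⟨⟨0, 1001, 1000⟩, ⟨2000, 2021, 3000⟩, ⟨260, 300, 1000⟩, ⟨800, 997, 1000⟩⟩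
      (piece9.hEH xTL) :=
  posBox_of_check p9hEHL_1

def p9hPLL_1 :
    (piece9.hPL xTL).checkQuick
      ⟨355, ⟨5, 8, 11, 7⟩⟩
      ⟨⟨0, 1001, 1000⟩, ⟨2000, 2021, 3000⟩, ⟨260, 300, 1000⟩, ⟨800, 997, 1000⟩⟩ = true := by
  decide +kernel

theorem p9hPLL_pos :
    PosBox ⟨⟨0, 1001, 1000⟩, ⟨2000, 2021, 3000⟩, ⟨260, 300, 1000⟩, ⟨800, 997, 1000⟩⟩
      (piece9.hPL xTL) :=
  posBox_of_check p9hPLL_1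

def p9hPUL_1 :
    (piece9.hPU xTL).checkQuick
      ⟨355, ⟨5, 8, 11, 7⟩⟩
      ⟨⟨0, 1001, 1000⟩, ⟨2000, 2021, 3000⟩, ⟨260, 300, 1000⟩, ⟨800, 997, 1000⟩⟩ = true := by
  decide +kernel

theorem p9hPUL_pos :
    PosBox ⟨⟨0, 1001, 1000⟩, ⟨2000, 2021, 3000⟩, ⟨260, 300, 1000⟩, ⟨800, 997, 1000⟩⟩
      (piece9.hPU xTL) :=
  posBox_of_check p9hPUL_1

def p9hKUL_1 :
    (piece9.hKU xTL).checkQuick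
      ⟨352, ⟨5, 8, 11, 7⟩⟩
      ⟨⟨0, 1001, 1000⟩, ⟨2000, 2021, 3000⟩, ⟨260, 300, 1000⟩, ⟨800, 997, 1000⟩⟩ = true := by
  decide +kernel

theorem p9hKUL_pos :
    PosBox ⟨⟨0, 1001, 1000⟩, ⟨2000, 2021, 3000⟩, ⟨260, 300, 1000⟩, ⟨800, 997, 1000⟩⟩
      (piece9.hKU xTL) :=
  posBox_of_check p9hKUL_1

def p9hKLL_1 :
    (piece9.hKL xTL).checkQuick
      ⟨352, ⟨5, 8, 11, 7⟩⟩
      ⟨⟨0, 1001, 1000⟩, ⟨2000, 2021, 3000⟩, ⟨260, 300, 1000⟩, ⟨800, 997, 1000⟩⟩ = true := by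
  decide +kernel

theorem p9hKLL_pos :
    PosBox ⟨⟨0, 1001, 1000⟩, ⟨2000, 2021, 3000⟩, ⟨260, 300, 1000⟩, ⟨800, 997, 1000⟩⟩
      (piece9.hKL xTL) :=
  posBox_of_check p9hKLL_1

def p9hWUL_1 :
    (piece9.hWU xTL).checkQuick
      ⟨354, ⟨5, 7, 11, 7⟩⟩
      ⟨⟨0, 1001, 1000⟩, ⟨2000, 2021, 3000⟩, ⟨260, 300, 1000⟩, ⟨800, 997, 1000⟩⟩ = true := by
  decide +kernel

theorem p9hWUL_pos :
    PosBox ⟨⟨0, 1001, 1000⟩, ⟨2000, 2021, 3000⟩, ⟨260, 300, 1000⟩, ⟨800, 997, 1000⟩⟩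
      (piece9.hWU xTL) :=
  posBox_of_check p9hWUL_1

def p9hWLL_1 :
    (piece9.hWL xTL).checkQuick
      ⟨354, ⟨5, 7, 11, 7⟩⟩
      ⟨⟨0, 1001, 1000⟩, ⟨2000, 2021, 3000⟩, ⟨260, 300, 1000⟩, ⟨800, 997, 1000⟩⟩ = true := by
  decide +kernel

theorem p9hWLL_pos :
    PosBox ⟨⟨0, 1001, 1000⟩, ⟨2000, 2021, 3000⟩, ⟨260, 300, 1000⟩, ⟨800, 997, 1000⟩⟩
      (piece9.hWL xTL) :=
  posBox_of_check p9hWLL_1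

def p9hZL_1 :
    (piece9.hZ xTL).checkQuick
      ⟨504, ⟨8, 10, 18, 8⟩⟩
      ⟨⟨0, 1001, 1000⟩, ⟨2000, 2021, 3000⟩, ⟨260, 300, 1000⟩, ⟨800, 997, 1000⟩⟩ = true := by
  decide +kernel

theorem p9hZL_pos :
    PosBox ⟨⟨0, 1001, 1000⟩, ⟨2000, 2021, 3000⟩, ⟨260, 300, 1000⟩, ⟨800, 997, 1000⟩⟩
      (piece9.hZ xTL) :=
  posBox_of_check p9hZL_1

def p9hELU_1 :
    (piece9.hEL xTU).checkQuick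
      ⟨344, ⟨5, 8, 12, 6⟩⟩
      ⟨⟨0, 1001, 1000⟩, ⟨2000, 2021, 3000⟩, ⟨260, 300, 1000⟩, ⟨800, 997, 1000⟩⟩ = true := by
  decide +kernel

theorem p9hELU_pos :
    PosBox ⟨⟨0, 1001, 1000⟩, ⟨2000, 2021, 3000⟩, ⟨260, 300, 1000⟩, ⟨800, 997, 1000⟩⟩
      (piece9.hEL xTU) :=
  posBox_of_check p9hELU_1

def p9hEHU_1 :
    (piece9.hEH xTU).checkQuick
      ⟨344, ⟨5, 8, 12, 6⟩⟩
      ⟨⟨0, 1001, 1000⟩, ⟨2000, 2021, 3000⟩, ⟨260, 300, 1000⟩, ⟨800, 997, 1000⟩⟩ = true := by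
  decide +kernel

theorem p9hEHU_pos :
    PosBox ⟨⟨0, 1001, 1000⟩, ⟨2000, 2021, 3000⟩, ⟨260, 300, 1000⟩, ⟨800, 997, 1000⟩⟩
      (piece9.hEH xTU) :=
  posBox_of_check p9hEHU_1

def p9hPLU_1 :
    (piece9.hPL xTU).checkQuick
      ⟨369, ⟨5, 8, 12, 7⟩⟩
      ⟨⟨0, 1001, 1000⟩, ⟨2000, 2021, 3000⟩, ⟨260, 300, 1000⟩, ⟨800, 997, 1000⟩⟩ = true := by
  decide +kernel

theorem p9hPLU_pos :
    PosBox ⟨⟨0, 1001, 1000⟩, ⟨2000, 2021, 3000⟩, ⟨260, 300, 1000⟩, ⟨800, 997, 1000⟩⟩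
      (piece9.hPL xTU) :=
  posBox_of_check p9hPLU_1

def p9hPUU_1 :
    (piece9.hPU xTU).checkQuick
      ⟨369, ⟨5, 8, 12, 7⟩⟩
      ⟨⟨0, 1001, 1000⟩, ⟨2000, 2021, 3000⟩, ⟨260, 300, 1000⟩, ⟨800, 997, 1000⟩⟩ = true := by
  decide +kernel

theorem p9hPUU_pos :
    PosBox ⟨⟨0, 1001, 1000⟩, ⟨2000, 2021, 3000⟩, ⟨260, 300, 1000⟩, ⟨800, 997, 1000⟩⟩
      (piece9.hPU xTU) :=
  posBox_of_check p9hPUU_1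

def p9hKUU_1 :
    (piece9.hKU xTU).checkQuick
      ⟨366, ⟨5, 8, 12, 7⟩⟩
      ⟨⟨0, 1001, 1000⟩, ⟨2000, 2021, 3000⟩, ⟨260, 300, 1000⟩, ⟨800, 997, 1000⟩⟩ = true := by
  decide +kernel

theorem p9hKUU_pos :
    PosBox ⟨⟨0, 1001, 1000⟩, ⟨2000, 2021, 3000⟩, ⟨260, 300, 1000⟩, ⟨800, 997, 1000⟩⟩
      (piece9.hKU xTU) :=
  posBox_of_check p9hKUU_1

def p9hKLU_1 :
    (piece9.hKL xTU).checkQuick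
      ⟨366, ⟨5, 8, 12, 7⟩⟩
      ⟨⟨0, 1001, 1000⟩, ⟨2000, 2021, 3000⟩, ⟨260, 300, 1000⟩, ⟨800, 997, 1000⟩⟩ = true := by
  decide +kernel

theorem p9hKLU_pos :
    PosBox ⟨⟨0, 1001, 1000⟩, ⟨2000, 2021, 3000⟩, ⟨260, 300, 1000⟩, ⟨800, 997, 1000⟩⟩
      (piece9.hKL xTU) :=
  posBox_of_check p9hKLU_1

def p9hWUU_1 :
    (piece9.hWU xTU).checkQuick
      ⟨369, ⟨5, 7, 12, 7⟩⟩
      ⟨⟨0, 1001, 1000⟩, ⟨2000, 2021, 3000⟩, ⟨260, 300, 1000⟩, ⟨800, 997, 1000⟩⟩ = true := by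
  decide +kernel

theorem p9hWUU_pos :
    PosBox ⟨⟨0, 1001, 1000⟩, ⟨2000, 2021, 3000⟩, ⟨260, 300, 1000⟩, ⟨800, 997, 1000⟩⟩
      (piece9.hWU xTU) :=
  posBox_of_check p9hWUU_1

def p9hWLU_1 :
    (piece9.hWL xTU).checkQuick
      ⟨369, ⟨5, 7, 12, 7⟩⟩
      ⟨⟨0, 1001, 1000⟩, ⟨2000, 2021, 3000⟩, ⟨260, 300, 1000⟩, ⟨800, 997, 1000⟩⟩ = true := by
  decide +kernel

theorem p9hWLU_pos :
    PosBox ⟨⟨0, 1001, 1000⟩, ⟨2000, 2021, 3000⟩, ⟨260, 300, 1000⟩, ⟨800, 997, 1000⟩⟩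
      (piece9.hWL xTU) :=
  posBox_of_check p9hWLU_1

def p9hZU_1 :
    (piece9.hZ xTU).checkQuick
      ⟨505, ⟨8, 10, 18, 8⟩⟩
      ⟨⟨0, 1001, 1000⟩, ⟨2000, 2021, 3000⟩, ⟨260, 300, 1000⟩, ⟨800, 997, 1000⟩⟩ = true := by
  decide +kernel

theorem p9hZU_pos :
    PosBox ⟨⟨0, 1001, 1000⟩, ⟨2000, 2021, 3000⟩, ⟨260, 300, 1000⟩, ⟨800, 997, 1000⟩⟩
      (piece9.hZ xTU) :=
  posBox_of_check p9hZU_1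

def p9hKp_1 :
    (piece9.hKp).checkQuick
      ⟨89, ⟨1, 1, 3, 3⟩⟩
      ⟨⟨0, 1001, 1000⟩, ⟨2000, 2021, 3000⟩, ⟨260, 300, 1000⟩, ⟨800, 997, 1000⟩⟩ = true := by
  decide +kernel

theorem p9hKp_pos :
    PosBox ⟨⟨0, 1001, 1000⟩, ⟨2000, 2021, 3000⟩, ⟨260, 300, 1000⟩, ⟨800, 997, 1000⟩⟩
      (piece9.hKp) :=
  posBox_of_check p9hKp_1

def p9hKm_1 :
    (piece9.hKm).checkQuick
      ⟨90, ⟨1, 1, 3, 3⟩⟩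
      ⟨⟨0, 1001, 1000⟩, ⟨2000, 2021, 3000⟩, ⟨260, 300, 1000⟩, ⟨800, 997, 1000⟩⟩ = true := by
  decide +kernel

theorem p9hKm_pos :
    PosBox ⟨⟨0, 1001, 1000⟩, ⟨2000, 2021, 3000⟩, ⟨260, 300, 1000⟩, ⟨800, 997, 1000⟩⟩
      (piece9.hKm) :=
  posBox_of_check p9hKm_1

def p9hMZeroLo_1 :
    (piece9.hM₀ piece9.xPL).checkQuick
      ⟨215, ⟨2, 5, 9, 6⟩⟩
      ⟨⟨0, 1001, 1000⟩, ⟨2000, 2021, 3000⟩, ⟨260, 300, 1000⟩, ⟨800, 997, 1000⟩⟩ = true := by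
  decide +kernel

theorem p9hMZeroLo_pos :
    PosBox ⟨⟨0, 1001, 1000⟩, ⟨2000, 2021, 3000⟩, ⟨260, 300, 1000⟩, ⟨800, 997, 1000⟩⟩
      (piece9.hM₀ piece9.xPL) :=
  posBox_of_check p9hMZeroLo_1

def p9hC1Lo_1 :
    (piece9.hC1 piece9.xPL).checkQuick
      ⟨244, ⟨3, 5, 9, 8⟩⟩
      ⟨⟨0, 1001, 1000⟩, ⟨2000, 2021, 3000⟩, ⟨260, 300, 1000⟩, ⟨800, 997, 1000⟩⟩ = true := by
  decide +kernel

theorem p9hC1Lo_pos :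
    PosBox ⟨⟨0, 1001, 1000⟩, ⟨2000, 2021, 3000⟩, ⟨260, 300, 1000⟩, ⟨800, 997, 1000⟩⟩
      (piece9.hC1 piece9.xPL) :=
  posBox_of_check p9hC1Lo_1

def p9hGLoZLo_1 :
    (piece9.hG piece9.xPL piece9.zLo).checkQuick
      ⟨351, ⟨2, 7, 16, 11⟩⟩
      ⟨⟨0, 1001, 1000⟩, ⟨2000, 2021, 3000⟩, ⟨260, 300, 1000⟩, ⟨800, 997, 1000⟩⟩ = true := by
  decide +kernel

theorem p9hGLoZLo_pos :
    PosBox ⟨⟨0, 1001, 1000⟩, ⟨2000, 2021, 3000⟩, ⟨260, 300, 1000⟩, ⟨800, 997, 1000⟩⟩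
      (piece9.hG piece9.xPL piece9.zLo) :=
  posBox_of_check p9hGLoZLo_1

def p9hFourLoZLo :
    ((piece9.hC2p piece9.xPL piece9.zLo).checkQuick ⟨439, ⟨3, 8, 19, 14⟩⟩
        ⟨⟨0, 1001, 1000⟩, ⟨2000, 2021, 3000⟩, ⟨260, 300, 1000⟩, ⟨800, 997, 1000⟩⟩ &&
      (piece9.hC2m piece9.xPL piece9.zLo).checkQuick ⟨439, ⟨3, 8, 19, 14⟩⟩
        ⟨⟨0, 1001, 1000⟩, ⟨2000, 2021, 3000⟩, ⟨260, 300, 1000⟩, ⟨800, 997, 1000⟩⟩ &&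
      (piece9.hC3p piece9.xPL piece9.zLo).checkQuick ⟨439, ⟨3, 8, 19, 14⟩⟩
        ⟨⟨0, 1001, 1000⟩, ⟨2000, 2021, 3000⟩, ⟨260, 300, 1000⟩, ⟨800, 997, 1000⟩⟩ &&
      (piece9.hC3m piece9.xPL piece9.zLo).checkQuick ⟨439, ⟨3, 8, 19, 14⟩⟩
        ⟨⟨0, 1001, 1000⟩, ⟨2000, 2021, 3000⟩, ⟨260, 300, 1000⟩, ⟨800, 997, 1000⟩⟩) = true := by
  decide +kernel

theorem p9hC2pLoZLo_pos :
    PosBox ⟨⟨0, 1001, 1000⟩, ⟨2000, 2021, 3000⟩, ⟨260, 300, 1000⟩, ⟨800, 997, 1000⟩⟩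
      (piece9.hC2p piece9.xPL piece9.zLo) :=
  posBox_of_check (and_four p9hFourLoZLo).1

theorem p9hC2mLoZLo_pos :
    PosBox ⟨⟨0, 1001, 1000⟩, ⟨2000, 2021, 3000⟩, ⟨260, 300, 1000⟩, ⟨800, 997, 1000⟩⟩
      (piece9.hC2m piece9.xPL piece9.zLo) :=
  posBox_of_check (and_four p9hFourLoZLo).2.1

theorem p9hC3pLoZLo_pos :
    PosBox ⟨⟨0, 1001, 1000⟩, ⟨2000, 2021, 3000⟩, ⟨260, 300, 1000⟩, ⟨800, 997, 1000⟩⟩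
      (piece9.hC3p piece9.xPL piece9.zLo) :=
  posBox_of_check (and_four p9hFourLoZLo).2.2.1

theorem p9hC3mLoZLo_pos :
    PosBox ⟨⟨0, 1001, 1000⟩, ⟨2000, 2021, 3000⟩, ⟨260, 300, 1000⟩, ⟨800, 997, 1000⟩⟩
      (piece9.hC3m piece9.xPL piece9.zLo) :=
  posBox_of_check (and_four p9hFourLoZLo).2.2.2

def p9hNLoZLo_1 :
    (piece9.hN piece9.xPL piece9.zLo).checkQuick
      ⟨335, ⟨2, 7, 15, 10⟩⟩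
      ⟨⟨0, 1001, 1000⟩, ⟨2000, 2021, 3000⟩, ⟨260, 300, 1000⟩, ⟨800, 997, 1000⟩⟩ = true := by
  decide +kernel

theorem p9hNLoZLo_pos :
    PosBox ⟨⟨0, 1001, 1000⟩, ⟨2000, 2021, 3000⟩, ⟨260, 300, 1000⟩, ⟨800, 997, 1000⟩⟩
      (piece9.hN piece9.xPL piece9.zLo) :=
  posBox_of_check p9hNLoZLo_1

def p9hGLoZHi_1 :
    (piece9.hG piece9.xPL zHi).checkQuick
      ⟨309, ⟨2, 7, 14, 9⟩⟩
      ⟨⟨0, 1001, 1000⟩, ⟨2000, 2021, 3000⟩, ⟨260, 300, 1000⟩, ⟨800, 997, 1000⟩⟩ = true := by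
  decide +kernel

theorem p9hGLoZHi_pos :
    PosBox ⟨⟨0, 1001, 1000⟩, ⟨2000, 2021, 3000⟩, ⟨260, 300, 1000⟩, ⟨800, 997, 1000⟩⟩
      (piece9.hG piece9.xPL zHi) :=
  posBox_of_check p9hGLoZHi_1

def p9hFourLoZHi :
    ((piece9.hC2p piece9.xPL zHi).checkQuick ⟨397, ⟨3, 8, 17, 12⟩⟩
        ⟨⟨0, 1001, 1000⟩, ⟨2000, 2021, 3000⟩, ⟨260, 300, 1000⟩, ⟨800, 997, 1000⟩⟩ &&
      (piece9.hC2m piece9.xPL zHi).checkQuick ⟨397, ⟨3, 8, 17, 12⟩⟩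
        ⟨⟨0, 1001, 1000⟩, ⟨2000, 2021, 3000⟩, ⟨260, 300, 1000⟩, ⟨800, 997, 1000⟩⟩ &&
      (piece9.hC3p piece9.xPL zHi).checkQuick ⟨397, ⟨3, 8, 17, 12⟩⟩
        ⟨⟨0, 1001, 1000⟩, ⟨2000, 2021, 3000⟩, ⟨260, 300, 1000⟩, ⟨800, 997, 1000⟩⟩ &&
      (piece9.hC3m piece9.xPL zHi).checkQuick ⟨397, ⟨3, 8, 17, 12⟩⟩
        ⟨⟨0, 1001, 1000⟩, ⟨2000, 2021, 3000⟩, ⟨260, 300, 1000⟩, ⟨800, 997, 1000⟩⟩) = true := by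
  decide +kernel

theorem p9hC2pLoZHi_pos :
    PosBox ⟨⟨0, 1001, 1000⟩, ⟨2000, 2021, 3000⟩, ⟨260, 300, 1000⟩, ⟨800, 997, 1000⟩⟩
      (piece9.hC2p piece9.xPL zHi) :=
  posBox_of_check (and_four p9hFourLoZHi).1

theorem p9hC2mLoZHi_pos :
    PosBox ⟨⟨0, 1001, 1000⟩, ⟨2000, 2021, 3000⟩, ⟨260, 300, 1000⟩, ⟨800, 997, 1000⟩⟩
      (piece9.hC2m piece9.xPL zHi) :=
  posBox_of_check (and_four p9hFourLoZHi).2.1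

theorem p9hC3pLoZHi_pos :
    PosBox ⟨⟨0, 1001, 1000⟩, ⟨2000, 2021, 3000⟩, ⟨260, 300, 1000⟩, ⟨800, 997, 1000⟩⟩
      (piece9.hC3p piece9.xPL zHi) :=
  posBox_of_check (and_four p9hFourLoZHi).2.2.1

theorem p9hC3mLoZHi_pos :
    PosBox ⟨⟨0, 1001, 1000⟩, ⟨2000, 2021, 3000⟩, ⟨260, 300, 1000⟩, ⟨800, 997, 1000⟩⟩
      (piece9.hC3m piece9.xPL zHi) :=
  posBox_of_check (and_four p9hFourLoZHi).2.2.2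

def p9hNLoZHi_1 :
    (piece9.hN piece9.xPL zHi).checkQuick
      ⟨325, ⟨2, 7, 14, 10⟩⟩
      ⟨⟨0, 1001, 1000⟩, ⟨2000, 2021, 3000⟩, ⟨260, 300, 1000⟩, ⟨800, 997, 1000⟩⟩ = true := by
  decide +kernel

theorem p9hNLoZHi_pos :
    PosBox ⟨⟨0, 1001, 1000⟩, ⟨2000, 2021, 3000⟩, ⟨260, 300, 1000⟩, ⟨800, 997, 1000⟩⟩
      (piece9.hN piece9.xPL zHi) :=
  posBox_of_check p9hNLoZHi_1

def p9hV2p_1 :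
    (piece9.hV2p).checkQuick
      ⟨230, ⟨1, 6, 11, 6⟩⟩
      ⟨⟨0, 1001, 1000⟩, ⟨2000, 2021, 3000⟩, ⟨260, 300, 1000⟩, ⟨800, 997, 1000⟩⟩ = true := by
  decide +kernel

theorem p9hV2p_pos :
    PosBox ⟨⟨0, 1001, 1000⟩, ⟨2000, 2021, 3000⟩, ⟨260, 300, 1000⟩, ⟨800, 997, 1000⟩⟩
      (piece9.hV2p) :=
  posBox_of_check p9hV2p_1

def p9hV2m_1 :
    (piece9.hV2m).checkQuick
      ⟨231, ⟨1, 6, 11, 6⟩⟩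
      ⟨⟨0, 1001, 1000⟩, ⟨2000, 2021, 3000⟩, ⟨260, 300, 1000⟩, ⟨800, 997, 1000⟩⟩ = true := by
  decide +kernel

theorem p9hV2m_pos :
    PosBox ⟨⟨0, 1001, 1000⟩, ⟨2000, 2021, 3000⟩, ⟨260, 300, 1000⟩, ⟨800, 997, 1000⟩⟩
      (piece9.hV2m) :=
  posBox_of_check p9hV2m_1

def p9hV3p_1 :
    (piece9.hV3p).checkQuick
      ⟨219, ⟨1, 6, 10, 6⟩⟩
      ⟨⟨0, 1001, 1000⟩, ⟨2000, 2021, 3000⟩, ⟨260, 300, 1000⟩, ⟨800, 997, 1000⟩⟩ = true := by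
  decide +kernel

theorem p9hV3p_pos :
    PosBox ⟨⟨0, 1001, 1000⟩, ⟨2000, 2021, 3000⟩, ⟨260, 300, 1000⟩, ⟨800, 997, 1000⟩⟩
      (piece9.hV3p) :=
  posBox_of_check p9hV3p_1

def p9hV3m_1 :
    (piece9.hV3m).checkQuick
      ⟨220, ⟨1, 6, 10, 6⟩⟩
      ⟨⟨0, 1001, 1000⟩, ⟨2000, 2021, 3000⟩, ⟨260, 300, 1000⟩, ⟨800, 997, 1000⟩⟩ = true := by
  decide +kernel

theorem p9hV3m_pos :
    PosBox ⟨⟨0, 1001, 1000⟩, ⟨2000, 2021, 3000⟩, ⟨260, 300, 1000⟩, ⟨800, 997, 1000⟩⟩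
      (piece9.hV3m) :=
  posBox_of_check p9hV3m_1

def p9hMZeroHi_1 :
    (piece9.hM₀ piece9.xPU).checkQuick
      ⟨215, ⟨2, 5, 9, 6⟩⟩
      ⟨⟨0, 1001, 1000⟩, ⟨2000, 2021, 3000⟩, ⟨260, 300, 1000⟩, ⟨800, 997, 1000⟩⟩ = true := by
  decide +kernel

theorem p9hMZeroHi_pos :
    PosBox ⟨⟨0, 1001, 1000⟩, ⟨2000, 2021, 3000⟩, ⟨260, 300, 1000⟩, ⟨800, 997, 1000⟩⟩
      (piece9.hM₀ piece9.xPU) :=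
  posBox_of_check p9hMZeroHi_1

def p9hC1Hi_1 :
    (piece9.hC1 piece9.xPU).checkQuick
      ⟨244, ⟨3, 5, 9, 8⟩⟩
      ⟨⟨0, 1001, 1000⟩, ⟨2000, 2021, 3000⟩, ⟨260, 300, 1000⟩, ⟨800, 997, 1000⟩⟩ = true := by
  decide +kernel

theorem p9hC1Hi_pos :
    PosBox ⟨⟨0, 1001, 1000⟩, ⟨2000, 2021, 3000⟩, ⟨260, 300, 1000⟩, ⟨800, 997, 1000⟩⟩
      (piece9.hC1 piece9.xPU) :=
  posBox_of_check p9hC1Hi_1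

def p9hGHiZLo_1 :
    (piece9.hG piece9.xPU piece9.zLo).checkQuick
      ⟨352, ⟨2, 7, 16, 11⟩⟩
      ⟨⟨0, 1001, 1000⟩, ⟨2000, 2021, 3000⟩, ⟨260, 300, 1000⟩, ⟨800, 997, 1000⟩⟩ = true := by
  decide +kernel

theorem p9hGHiZLo_pos :
    PosBox ⟨⟨0, 1001, 1000⟩, ⟨2000, 2021, 3000⟩, ⟨260, 300, 1000⟩, ⟨800, 997, 1000⟩⟩
      (piece9.hG piece9.xPU piece9.zLo) :=
  posBox_of_check p9hGHiZLo_1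

def p9hFourHiZLo :
    ((piece9.hC2p piece9.xPU piece9.zLo).checkQuick ⟨440, ⟨3, 8, 19, 14⟩⟩
        ⟨⟨0, 1001, 1000⟩, ⟨2000, 2021, 3000⟩, ⟨260, 300, 1000⟩, ⟨800, 997, 1000⟩⟩ &&
      (piece9.hC2m piece9.xPU piece9.zLo).checkQuick ⟨440, ⟨3, 8, 19, 14⟩⟩
        ⟨⟨0, 1001, 1000⟩, ⟨2000, 2021, 3000⟩, ⟨260, 300, 1000⟩, ⟨800, 997, 1000⟩⟩ &&
      (piece9.hC3p piece9.xPU piece9.zLo).checkQuick ⟨440, ⟨3, 8, 19, 14⟩⟩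
        ⟨⟨0, 1001, 1000⟩, ⟨2000, 2021, 3000⟩, ⟨260, 300, 1000⟩, ⟨800, 997, 1000⟩⟩ &&
      (piece9.hC3m piece9.xPU piece9.zLo).checkQuick ⟨440, ⟨3, 8, 19, 14⟩⟩
        ⟨⟨0, 1001, 1000⟩, ⟨2000, 2021, 3000⟩, ⟨260, 300, 1000⟩, ⟨800, 997, 1000⟩⟩) = true := by
  decide +kernel

theorem p9hC2pHiZLo_pos :
    PosBox ⟨⟨0, 1001, 1000⟩, ⟨2000, 2021, 3000⟩, ⟨260, 300, 1000⟩, ⟨800, 997, 1000⟩⟩
      (piece9.hC2p piece9.xPU piece9.zLo) :=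
  posBox_of_check (and_four p9hFourHiZLo).1

theorem p9hC2mHiZLo_pos :
    PosBox ⟨⟨0, 1001, 1000⟩, ⟨2000, 2021, 3000⟩, ⟨260, 300, 1000⟩, ⟨800, 997, 1000⟩⟩
      (piece9.hC2m piece9.xPU piece9.zLo) :=
  posBox_of_check (and_four p9hFourHiZLo).2.1

theorem p9hC3pHiZLo_pos :
    PosBox ⟨⟨0, 1001, 1000⟩, ⟨2000, 2021, 3000⟩, ⟨260, 300, 1000⟩, ⟨800, 997, 1000⟩⟩
      (piece9.hC3p piece9.xPU piece9.zLo) :=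
  posBox_of_check (and_four p9hFourHiZLo).2.2.1

theorem p9hC3mHiZLo_pos :
    PosBox ⟨⟨0, 1001, 1000⟩, ⟨2000, 2021, 3000⟩, ⟨260, 300, 1000⟩, ⟨800, 997, 1000⟩⟩
      (piece9.hC3m piece9.xPU piece9.zLo) :=
  posBox_of_check (and_four p9hFourHiZLo).2.2.2

def p9hNHiZLo_1 :
    (piece9.hN piece9.xPU piece9.zLo).checkQuick
      ⟨335, ⟨2, 7, 15, 10⟩⟩
      ⟨⟨0, 1001, 1000⟩, ⟨2000, 2021, 3000⟩, ⟨260, 300, 1000⟩, ⟨800, 997, 1000⟩⟩ = true := by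
  decide +kernel

theorem p9hNHiZLo_pos :
    PosBox ⟨⟨0, 1001, 1000⟩, ⟨2000, 2021, 3000⟩, ⟨260, 300, 1000⟩, ⟨800, 997, 1000⟩⟩
      (piece9.hN piece9.xPU piece9.zLo) :=
  posBox_of_check p9hNHiZLo_1

def p9hGHiZHi_1 :
    (piece9.hG piece9.xPU zHi).checkQuick
      ⟨309, ⟨2, 7, 14, 9⟩⟩
      ⟨⟨0, 1001, 1000⟩, ⟨2000, 2021, 3000⟩, ⟨260, 300, 1000⟩, ⟨800, 997, 1000⟩⟩ = true := by
  decide +kernel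

theorem p9hGHiZHi_pos :
    PosBox ⟨⟨0, 1001, 1000⟩, ⟨2000, 2021, 3000⟩, ⟨260, 300, 1000⟩, ⟨800, 997, 1000⟩⟩
      (piece9.hG piece9.xPU zHi) :=
  posBox_of_check p9hGHiZHi_1

def p9hFourHiZHi :
    ((piece9.hC2p piece9.xPU zHi).checkQuick ⟨397, ⟨3, 8, 17, 12⟩⟩
        ⟨⟨0, 1001, 1000⟩, ⟨2000, 2021, 3000⟩, ⟨260, 300, 1000⟩, ⟨800, 997, 1000⟩⟩ &&
      (piece9.hC2m piece9.xPU zHi).checkQuick ⟨397, ⟨3, 8, 17, 12⟩⟩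
        ⟨⟨0, 1001, 1000⟩, ⟨2000, 2021, 3000⟩, ⟨260, 300, 1000⟩, ⟨800, 997, 1000⟩⟩ &&
      (piece9.hC3p piece9.xPU zHi).checkQuick ⟨397, ⟨3, 8, 17, 12⟩⟩
        ⟨⟨0, 1001, 1000⟩, ⟨2000, 2021, 3000⟩, ⟨260, 300, 1000⟩, ⟨800, 997, 1000⟩⟩ &&
      (piece9.hC3m piece9.xPU zHi).checkQuick ⟨397, ⟨3, 8, 17, 12⟩⟩
        ⟨⟨0, 1001, 1000⟩, ⟨2000, 2021, 3000⟩, ⟨260, 300, 1000⟩, ⟨800, 997, 1000⟩⟩) = true := by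
  decide +kernel

theorem p9hC2pHiZHi_pos :
    PosBox ⟨⟨0, 1001, 1000⟩, ⟨2000, 2021, 3000⟩, ⟨260, 300, 1000⟩, ⟨800, 997, 1000⟩⟩
      (piece9.hC2p piece9.xPU zHi) :=
  posBox_of_check (and_four p9hFourHiZHi).1

theorem p9hC2mHiZHi_pos :
    PosBox ⟨⟨0, 1001, 1000⟩, ⟨2000, 2021, 3000⟩, ⟨260, 300, 1000⟩, ⟨800, 997, 1000⟩⟩
      (piece9.hC2m piece9.xPU zHi) :=
  posBox_of_check (and_four p9hFourHiZHi).2.1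

theorem p9hC3pHiZHi_pos :
    PosBox ⟨⟨0, 1001, 1000⟩, ⟨2000, 2021, 3000⟩, ⟨260, 300, 1000⟩, ⟨800, 997, 1000⟩⟩
      (piece9.hC3p piece9.xPU zHi) :=
  posBox_of_check (and_four p9hFourHiZHi).2.2.1

theorem p9hC3mHiZHi_pos :
    PosBox ⟨⟨0, 1001, 1000⟩, ⟨2000, 2021, 3000⟩, ⟨260, 300, 1000⟩, ⟨800, 997, 1000⟩⟩
      (piece9.hC3m piece9.xPU zHi) :=
  posBox_of_check (and_four p9hFourHiZHi).2.2.2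

def p9hNHiZHi_1 :
    (piece9.hN piece9.xPU zHi).checkQuick
      ⟨325, ⟨2, 7, 14, 10⟩⟩
      ⟨⟨0, 1001, 1000⟩, ⟨2000, 2021, 3000⟩, ⟨260, 300, 1000⟩, ⟨800, 997, 1000⟩⟩ = true := by
  decide +kernel

theorem p9hNHiZHi_pos :
    PosBox ⟨⟨0, 1001, 1000⟩, ⟨2000, 2021, 3000⟩, ⟨260, 300, 1000⟩, ⟨800, 997, 1000⟩⟩
      (piece9.hN piece9.xPU zHi) :=
  posBox_of_check p9hNHiZHi_1

end Vale.Agent.P100.Calib.Closed.Six.Low
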