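import Vale.Agent.P100.Calib.SlabSixLowPieces

/-!
# Checks of the certificate of dimension six on `0 < u ≤ 3/5`
-/

-- The checks are definitions, so that they run one after another with little memory.
set_option linter.defProp false

namespace Vale.Agent.P100.Calib.Closed.Six.Low

open BoxPos
open Vale.Agent.P100.Calib.Closed.Large (PosBox posBox_of_check and_four posBox_join₀ posBox_join₂ posBox_join₃)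

def ghVG_1 :
    (hVG).checkQuick
      ⟨142, ⟨0, 5, 8, 3⟩⟩
      ⟨⟨0, 1001, 1000⟩, ⟨2000, 2021, 3000⟩, ⟨0, 334, 1000⟩, ⟨294, 1128, 1000⟩⟩ = true := by
  decide +kernel

theorem ghVG_pos :
    PosBox ⟨⟨0, 1001, 1000⟩, ⟨2000, 2021, 3000⟩, ⟨0, 334, 1000⟩, ⟨294, 1128, 1000⟩⟩
      (hVG) :=
  posBox_of_check ghVG_1

def ghVN_1 :
    (hVN).checkQuick
      ⟨152, ⟨0, 4, 8, 4⟩⟩
      ⟨⟨0, 1001, 1000⟩, ⟨2000, 2021, 3000⟩, ⟨0, 334, 1000⟩, ⟨294, 1128, 1000⟩⟩ = true := by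
  decide +kernel

theorem ghVN_pos :
    PosBox ⟨⟨0, 1001, 1000⟩, ⟨2000, 2021, 3000⟩, ⟨0, 334, 1000⟩, ⟨294, 1128, 1000⟩⟩
      (hVN) :=
  posBox_of_check ghVN_1

def ghAk_1 :
    (hAk).checkQuick
      ⟨131, ⟨0, 4, 6, 4⟩⟩
      ⟨⟨0, 1001, 1000⟩, ⟨2000, 2021, 3000⟩, ⟨0, 334, 1000⟩, ⟨294, 1128, 1000⟩⟩ = true := by
  decide +kernel

theorem ghAk_pos :
    PosBox ⟨⟨0, 1001, 1000⟩, ⟨2000, 2021, 3000⟩, ⟨0, 334, 1000⟩, ⟨294, 1128, 1000⟩⟩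
      (hAk) :=
  posBox_of_check ghAk_1

def ghAw_1 :
    (hAw).checkQuick
      ⟨133, ⟨0, 5, 7, 3⟩⟩
      ⟨⟨0, 1001, 1000⟩, ⟨2000, 2021, 3000⟩, ⟨0, 334, 1000⟩, ⟨294, 1128, 1000⟩⟩ = true := by
  decide +kernel

theorem ghAw_pos :
    PosBox ⟨⟨0, 1001, 1000⟩, ⟨2000, 2021, 3000⟩, ⟨0, 334, 1000⟩, ⟨294, 1128, 1000⟩⟩
      (hAw) :=
  posBox_of_check ghAw_1

def ghNk_1 :
    (hNk).checkQuick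
      ⟨131, ⟨0, 4, 6, 4⟩⟩
      ⟨⟨0, 1001, 1000⟩, ⟨2000, 2021, 3000⟩, ⟨0, 334, 1000⟩, ⟨294, 1128, 1000⟩⟩ = true := by
  decide +kernel

theorem ghNk_pos :
    PosBox ⟨⟨0, 1001, 1000⟩, ⟨2000, 2021, 3000⟩, ⟨0, 334, 1000⟩, ⟨294, 1128, 1000⟩⟩
      (hNk) :=
  posBox_of_check ghNk_1

def ghNw_1 :
    (hNw).checkQuick
      ⟨133, ⟨0, 5, 7, 3⟩⟩
      ⟨⟨0, 1001, 1000⟩, ⟨2000, 2021, 3000⟩, ⟨0, 334, 1000⟩, ⟨294, 1128, 1000⟩⟩ = true := by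
  decide +kernel

theorem ghNw_pos :
    PosBox ⟨⟨0, 1001, 1000⟩, ⟨2000, 2021, 3000⟩, ⟨0, 334, 1000⟩, ⟨294, 1128, 1000⟩⟩
      (hNw) :=
  posBox_of_check ghNw_1

def ghMk_1 :
    (hMk).checkQuick
      ⟨78, ⟨0, 2, 3, 3⟩⟩
      ⟨⟨0, 1001, 1000⟩, ⟨2000, 2021, 3000⟩, ⟨0, 334, 1000⟩, ⟨294, 1128, 1000⟩⟩ = true := by
  decide +kernel

theorem ghMk_pos :
    PosBox ⟨⟨0, 1001, 1000⟩, ⟨2000, 2021, 3000⟩, ⟨0, 334, 1000⟩, ⟨294, 1128, 1000⟩⟩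
      (hMk) :=
  posBox_of_check ghMk_1

def ghMw_1 :
    (hMw).checkQuick
      ⟨82, ⟨0, 3, 4, 2⟩⟩
      ⟨⟨0, 1001, 1000⟩, ⟨2000, 2021, 3000⟩, ⟨0, 334, 1000⟩, ⟨294, 1128, 1000⟩⟩ = true := by
  decide +kernel

theorem ghMw_pos :
    PosBox ⟨⟨0, 1001, 1000⟩, ⟨2000, 2021, 3000⟩, ⟨0, 334, 1000⟩, ⟨294, 1128, 1000⟩⟩
      (hMw) :=
  posBox_of_check ghMw_1

def ghQ_1 :
    (hQ).checkQuick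
      ⟨107, ⟨4, 2, 3, 1⟩⟩
      ⟨⟨0, 601, 1000⟩, ⟨2000, 2021, 3000⟩, ⟨0, 334, 1000⟩, ⟨294, 1128, 1000⟩⟩ = true := by
  decide +kernel

theorem ghQ_pos :
    PosBox ⟨⟨0, 601, 1000⟩, ⟨2000, 2021, 3000⟩, ⟨0, 334, 1000⟩, ⟨294, 1128, 1000⟩⟩
      (hQ) :=
  posBox_of_check ghQ_1

def ghLLG00_1 :
    (hLLG (cC 0) (cC 0)).checkQuick
      ⟨166, ⟨0, 4, 9, 4⟩⟩
      ⟨⟨0, 1001, 1000⟩, ⟨2000, 2021, 3000⟩, ⟨0, 334, 1000⟩, ⟨294, 1128, 1000⟩⟩ = true := by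
  decide +kernel

theorem ghLLG00_pos :
    PosBox ⟨⟨0, 1001, 1000⟩, ⟨2000, 2021, 3000⟩, ⟨0, 334, 1000⟩, ⟨294, 1128, 1000⟩⟩
      (hLLG (cC 0) (cC 0)) :=
  posBox_of_check ghLLG00_1

def ghLLG01_1 :
    (hLLG (cC 0) (cC 5 4)).checkQuick
      ⟨170, ⟨0, 4, 9, 4⟩⟩
      ⟨⟨0, 1001, 1000⟩, ⟨2000, 2021, 3000⟩, ⟨0, 334, 1000⟩, ⟨294, 1128, 1000⟩⟩ = true := by
  decide +kernel

theorem ghLLG01_pos :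
    PosBox ⟨⟨0, 1001, 1000⟩, ⟨2000, 2021, 3000⟩, ⟨0, 334, 1000⟩, ⟨294, 1128, 1000⟩⟩
      (hLLG (cC 0) (cC 5 4)) :=
  posBox_of_check ghLLG01_1

def ghLLG30_1 :
    (hLLG (cC 3) (cC 0)).checkQuick
      ⟨167, ⟨0, 4, 9, 4⟩⟩
      ⟨⟨0, 1001, 1000⟩, ⟨2000, 2021, 3000⟩, ⟨0, 334, 1000⟩, ⟨294, 1128, 1000⟩⟩ = true := by
  decide +kernel

theorem ghLLG30_pos :
    PosBox ⟨⟨0, 1001, 1000⟩, ⟨2000, 2021, 3000⟩, ⟨0, 334, 1000⟩, ⟨294, 1128, 1000⟩⟩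
      (hLLG (cC 3) (cC 0)) :=
  posBox_of_check ghLLG30_1

def ghLLG31_1 :
    (hLLG (cC 3) (cC 5 4)).checkQuick
      ⟨171, ⟨0, 4, 9, 4⟩⟩
      ⟨⟨0, 1001, 1000⟩, ⟨2000, 2021, 3000⟩, ⟨0, 334, 1000⟩, ⟨294, 1128, 1000⟩⟩ = true := by
  decide +kernel

theorem ghLLG31_pos :
    PosBox ⟨⟨0, 1001, 1000⟩, ⟨2000, 2021, 3000⟩, ⟨0, 334, 1000⟩, ⟨294, 1128, 1000⟩⟩
      (hLLG (cC 3) (cC 5 4)) :=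
  posBox_of_check ghLLG31_1

end Vale.Agent.P100.Calib.Closed.Six.Low
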