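import Vale.Agent.P100.Calib.SlabSixLowSigns
import Vale.Agent.P100.Calib.SlabSixLowGlobal
import Vale.Agent.P100.Calib.SlabSixLowChecks0
import Vale.Agent.P100.Calib.SlabSixLowChecks1
import Vale.Agent.P100.Calib.SlabSixLowChecks2
import Vale.Agent.P100.Calib.SlabSixLowChecks3
import Vale.Agent.P100.Calib.SlabSixLowChecks4
import Vale.Agent.P100.Calib.SlabSixLowChecks5
import Vale.Agent.P100.Calib.SlabSixLowChecks6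
import Vale.Agent.P100.Calib.SlabSixLowChecks7
import Vale.Agent.P100.Calib.SlabSixLowChecks8
import Vale.Agent.P100.Calib.SlabSixLowChecks9
import Vale.Agent.P100.Calib.SlabSixLowChecks10
import Vale.Agent.P100.Calib.SlabSixLowChecks11

/-!
# The closed signs of dimension six for `0 < u ≤ 3/5`
-/

set_option linter.unusedVariables false

namespace Vale.Agent.P100.Calib.Closed.Six

open BoxPos Low

theorem Low.common : Low.Common where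
  vG := ghVG_pos
  vN := ghVN_pos
  aK := ghAk_pos
  aW := ghAw_pos
  nK := ghNk_pos
  nW := ghNw_pos
  mK := ghMk_pos
  mW := ghMw_pos
  q := ghQ_pos
  l00 := ghLLG00_pos
  l01 := ghLLG01_pos
  l10 := ghLLG30_pos
  l11 := ghLLG31_pos

theorem Low.piece0_checked : piece0.Checked where
  mu_nonneg := by decide
  dlo_ge := by decide
  dhi_le := by decide
  lo_ge := by decide
  hi_le := by decide
  room := p0xRoom_pos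
  phi := .inr ⟨rfl, rfl, rfl⟩
  pL := .inl ⟨p0xGap_pos, rfl, rfl, rfl⟩
  eL := ⟨p0hELL_pos, p0hELU_pos⟩
  eH := ⟨p0hEHL_pos, p0hEHU_pos⟩
  pU := ⟨p0hPUL_pos, p0hPUU_pos⟩
  kU := ⟨p0hKUL_pos, p0hKUU_pos⟩
  kL := ⟨p0hKLL_pos, p0hKLU_pos⟩
  wU := ⟨p0hWUL_pos, p0hWUU_pos⟩
  wL := ⟨p0hWLL_pos, p0hWLU_pos⟩
  zL := ⟨p0hZL_pos, p0hZU_pos⟩
  kp := p0hKp_pos
  km := p0hKm_pos
  v2p := p0hV2p_pos
  v2m := p0hV2m_pos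
  v3p := p0hV3p_pos
  v3m := p0hV3m_pos
  m₀ := ⟨p0hMZeroLo_pos, p0hMZeroHi_pos⟩
  c₁ := ⟨p0hC1Lo_pos, p0hC1Hi_pos⟩
  cLL := ⟨p0hGLoZLo_pos, p0hC2pLoZLo_pos, p0hC2mLoZLo_pos, p0hC3pLoZLo_pos, p0hC3mLoZLo_pos, p0hNLoZLo_pos⟩
  cLH := ⟨p0hGLoZHi_pos, p0hC2pLoZHi_pos, p0hC2mLoZHi_pos, p0hC3pLoZHi_pos, p0hC3mLoZHi_pos, p0hNLoZHi_pos⟩
  cHL := ⟨p0hGHiZLo_pos, p0hC2pHiZLo_pos, p0hC2mHiZLo_pos, p0hC3pHiZLo_pos, p0hC3mHiZLo_pos, p0hNHiZLo_pos⟩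
  cHH := ⟨p0hGHiZHi_pos, p0hC2pHiZHi_pos, p0hC2mHiZHi_pos, p0hC3pHiZHi_pos, p0hC3mHiZHi_pos, p0hNHiZHi_pos⟩

theorem Low.piece1_checked : piece1.Checked where
  mu_nonneg := by decide
  dlo_ge := by decide
  dhi_le := by decide
  lo_ge := by decide
  hi_le := by decide
  room := p1xRoom_pos
  phi := .inl p1xPhi_pos
  pL := .inl ⟨p1xGap_pos, rfl, rfl, rfl⟩
  eL := ⟨p1hELL_pos, p1hELU_pos⟩
  eH := ⟨p1hEHL_pos, p1hEHU_pos⟩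
  pU := ⟨p1hPUL_pos, p1hPUU_pos⟩
  kU := ⟨p1hKUL_pos, p1hKUU_pos⟩
  kL := ⟨p1hKLL_pos, p1hKLU_pos⟩
  wU := ⟨p1hWUL_pos, p1hWUU_pos⟩
  wL := ⟨p1hWLL_pos, p1hWLU_pos⟩
  zL := ⟨p1hZL_pos, p1hZU_pos⟩
  kp := p1hKp_pos
  km := p1hKm_pos
  v2p := p1hV2p_pos
  v2m := p1hV2m_pos
  v3p := p1hV3p_pos
  v3m := p1hV3m_pos
  m₀ := ⟨p1hMZeroLo_pos, p1hMZeroHi_pos⟩
  c₁ := ⟨p1hC1Lo_pos, p1hC1Hi_pos⟩
  cLL := ⟨p1hGLoZLo_pos, p1hC2pLoZLo_pos, p1hC2mLoZLo_pos, p1hC3pLoZLo_pos, p1hC3mLoZLo_pos, p1hNLoZLo_pos⟩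
  cLH := ⟨p1hGLoZHi_pos, p1hC2pLoZHi_pos, p1hC2mLoZHi_pos, p1hC3pLoZHi_pos, p1hC3mLoZHi_pos, p1hNLoZHi_pos⟩
  cHL := ⟨p1hGHiZLo_pos, p1hC2pHiZLo_pos, p1hC2mHiZLo_pos, p1hC3pHiZLo_pos, p1hC3mHiZLo_pos, p1hNHiZLo_pos⟩
  cHH := ⟨p1hGHiZHi_pos, p1hC2pHiZHi_pos, p1hC2mHiZHi_pos, p1hC3pHiZHi_pos, p1hC3mHiZHi_pos, p1hNHiZHi_pos⟩

theorem Low.piece2_checked : piece2.Checked where
  mu_nonneg := by decide
  dlo_ge := by decide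
  dhi_le := by decide
  lo_ge := by decide
  hi_le := by decide
  room := p2xRoom_pos
  phi := .inl p2xPhi_pos
  pL := .inr ⟨p2hPLL_pos, p2hPLU_pos⟩
  eL := ⟨p2hELL_pos, p2hELU_pos⟩
  eH := ⟨p2hEHL_pos, p2hEHU_pos⟩
  pU := ⟨p2hPUL_pos, p2hPUU_pos⟩
  kU := ⟨p2hKUL_pos, p2hKUU_pos⟩
  kL := ⟨p2hKLL_pos, p2hKLU_pos⟩
  wU := ⟨p2hWUL_pos, p2hWUU_pos⟩
  wL := ⟨p2hWLL_pos, p2hWLU_pos⟩
  zL := ⟨p2hZL_pos, p2hZU_pos⟩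
  kp := p2hKp_pos
  km := p2hKm_pos
  v2p := p2hV2p_pos
  v2m := p2hV2m_pos
  v3p := p2hV3p_pos
  v3m := p2hV3m_pos
  m₀ := ⟨p2hMZeroLo_pos, p2hMZeroHi_pos⟩
  c₁ := ⟨p2hC1Lo_pos, p2hC1Hi_pos⟩
  cLL := ⟨p2hGLoZLo_pos, p2hC2pLoZLo_pos, p2hC2mLoZLo_pos, p2hC3pLoZLo_pos, p2hC3mLoZLo_pos, p2hNLoZLo_pos⟩
  cLH := ⟨p2hGLoZHi_pos, p2hC2pLoZHi_pos, p2hC2mLoZHi_pos, p2hC3pLoZHi_pos, p2hC3mLoZHi_pos, p2hNLoZHi_pos⟩
  cHL := ⟨p2hGHiZLo_pos, p2hC2pHiZLo_pos, p2hC2mHiZLo_pos, p2hC3pHiZLo_pos, p2hC3mHiZLo_pos, p2hNHiZLo_pos⟩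
  cHH := ⟨p2hGHiZHi_pos, p2hC2pHiZHi_pos, p2hC2mHiZHi_pos, p2hC3pHiZHi_pos, p2hC3mHiZHi_pos, p2hNHiZHi_pos⟩

theorem Low.piece3_checked : piece3.Checked where
  mu_nonneg := by decide
  dlo_ge := by decide
  dhi_le := by decide
  lo_ge := by decide
  hi_le := by decide
  room := p3xRoom_pos
  phi := .inr ⟨rfl, rfl, rfl⟩
  pL := .inl ⟨p3xGap_pos, rfl, rfl, rfl⟩
  eL := ⟨p3hELL_pos, p3hELU_pos⟩
  eH := ⟨p3hEHL_pos, p3hEHU_pos⟩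
  pU := ⟨p3hPUL_pos, p3hPUU_pos⟩
  kU := ⟨p3hKUL_pos, p3hKUU_pos⟩
  kL := ⟨p3hKLL_pos, p3hKLU_pos⟩
  wU := ⟨p3hWUL_pos, p3hWUU_pos⟩
  wL := ⟨p3hWLL_pos, p3hWLU_pos⟩
  zL := ⟨p3hZL_pos, p3hZU_pos⟩
  kp := p3hKp_pos
  km := p3hKm_pos
  v2p := p3hV2p_pos
  v2m := p3hV2m_pos
  v3p := p3hV3p_pos
  v3m := p3hV3m_pos
  m₀ := ⟨p3hMZeroLo_pos, p3hMZeroHi_pos⟩
  c₁ := ⟨p3hC1Lo_pos, p3hC1Hi_pos⟩
  cLL := ⟨p3hGLoZLo_pos, p3hC2pLoZLo_pos, p3hC2mLoZLo_pos, p3hC3pLoZLo_pos, p3hC3mLoZLo_pos, p3hNLoZLo_pos⟩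
  cLH := ⟨p3hGLoZHi_pos, p3hC2pLoZHi_pos, p3hC2mLoZHi_pos, p3hC3pLoZHi_pos, p3hC3mLoZHi_pos, p3hNLoZHi_pos⟩
  cHL := ⟨p3hGHiZLo_pos, p3hC2pHiZLo_pos, p3hC2mHiZLo_pos, p3hC3pHiZLo_pos, p3hC3mHiZLo_pos, p3hNHiZLo_pos⟩
  cHH := ⟨p3hGHiZHi_pos, p3hC2pHiZHi_pos, p3hC2mHiZHi_pos, p3hC3pHiZHi_pos, p3hC3mHiZHi_pos, p3hNHiZHi_pos⟩

theorem Low.piece4_checked : piece4.Checked where
  mu_nonneg := by decide
  dlo_ge := by decide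
  dhi_le := by decide
  lo_ge := by decide
  hi_le := by decide
  room := p4xRoom_pos
  phi := .inl p4xPhi_pos
  pL := .inl ⟨p4xGap_pos, rfl, rfl, rfl⟩
  eL := ⟨p4hELL_pos, p4hELU_pos⟩
  eH := ⟨p4hEHL_pos, p4hEHU_pos⟩
  pU := ⟨p4hPUL_pos, p4hPUU_pos⟩
  kU := ⟨p4hKUL_pos, p4hKUU_pos⟩
  kL := ⟨p4hKLL_pos, p4hKLU_pos⟩
  wU := ⟨p4hWUL_pos, p4hWUU_pos⟩
  wL := ⟨p4hWLL_pos, p4hWLU_pos⟩
  zL := ⟨p4hZL_pos, p4hZU_pos⟩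
  kp := p4hKp_pos
  km := p4hKm_pos
  v2p := p4hV2p_pos
  v2m := p4hV2m_pos
  v3p := p4hV3p_pos
  v3m := p4hV3m_pos
  m₀ := ⟨p4hMZeroLo_pos, p4hMZeroHi_pos⟩
  c₁ := ⟨p4hC1Lo_pos, p4hC1Hi_pos⟩
  cLL := ⟨p4hGLoZLo_pos, p4hC2pLoZLo_pos, p4hC2mLoZLo_pos, p4hC3pLoZLo_pos, p4hC3mLoZLo_pos, p4hNLoZLo_pos⟩
  cLH := ⟨p4hGLoZHi_pos, p4hC2pLoZHi_pos, p4hC2mLoZHi_pos, p4hC3pLoZHi_pos, p4hC3mLoZHi_pos, p4hNLoZHi_pos⟩
  cHL := ⟨p4hGHiZLo_pos, p4hC2pHiZLo_pos, p4hC2mHiZLo_pos, p4hC3pHiZLo_pos, p4hC3mHiZLo_pos, p4hNHiZLo_pos⟩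
  cHH := ⟨p4hGHiZHi_pos, p4hC2pHiZHi_pos, p4hC2mHiZHi_pos, p4hC3pHiZHi_pos, p4hC3mHiZHi_pos, p4hNHiZHi_pos⟩

theorem Low.piece5_checked : piece5.Checked where
  mu_nonneg := by decide
  dlo_ge := by decide
  dhi_le := by decide
  lo_ge := by decide
  hi_le := by decide
  room := p5xRoom_pos
  phi := .inl p5xPhi_pos
  pL := .inr ⟨p5hPLL_pos, p5hPLU_pos⟩
  eL := ⟨p5hELL_pos, p5hELU_pos⟩
  eH := ⟨p5hEHL_pos, p5hEHU_pos⟩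
  pU := ⟨p5hPUL_pos, p5hPUU_pos⟩
  kU := ⟨p5hKUL_pos, p5hKUU_pos⟩
  kL := ⟨p5hKLL_pos, p5hKLU_pos⟩
  wU := ⟨p5hWUL_pos, p5hWUU_pos⟩
  wL := ⟨p5hWLL_pos, p5hWLU_pos⟩
  zL := ⟨p5hZL_pos, p5hZU_pos⟩
  kp := p5hKp_pos
  km := p5hKm_pos
  v2p := p5hV2p_pos
  v2m := p5hV2m_pos
  v3p := p5hV3p_pos
  v3m := p5hV3m_pos
  m₀ := ⟨p5hMZeroLo_pos, p5hMZeroHi_pos⟩
  c₁ := ⟨p5hC1Lo_pos, p5hC1Hi_pos⟩
  cLL := ⟨p5hGLoZLo_pos, p5hC2pLoZLo_pos, p5hC2mLoZLo_pos, p5hC3pLoZLo_pos, p5hC3mLoZLo_pos, p5hNLoZLo_pos⟩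
  cLH := ⟨p5hGLoZHi_pos, p5hC2pLoZHi_pos, p5hC2mLoZHi_pos, p5hC3pLoZHi_pos, p5hC3mLoZHi_pos, p5hNLoZHi_pos⟩
  cHL := ⟨p5hGHiZLo_pos, p5hC2pHiZLo_pos, p5hC2mHiZLo_pos, p5hC3pHiZLo_pos, p5hC3mHiZLo_pos, p5hNHiZLo_pos⟩
  cHH := ⟨p5hGHiZHi_pos, p5hC2pHiZHi_pos, p5hC2mHiZHi_pos, p5hC3pHiZHi_pos, p5hC3mHiZHi_pos, p5hNHiZHi_pos⟩

theorem Low.piece6_checked : piece6.Checked where
  mu_nonneg := by decide
  dlo_ge := by decide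
  dhi_le := by decide
  lo_ge := by decide
  hi_le := by decide
  room := p6xRoom_pos
  phi := .inr ⟨rfl, rfl, rfl⟩
  pL := .inl ⟨p6xGap_pos, rfl, rfl, rfl⟩
  eL := ⟨p6hELL_pos, p6hELU_pos⟩
  eH := ⟨p6hEHL_pos, p6hEHU_pos⟩
  pU := ⟨p6hPUL_pos, p6hPUU_pos⟩
  kU := ⟨p6hKUL_pos, p6hKUU_pos⟩
  kL := ⟨p6hKLL_pos, p6hKLU_pos⟩
  wU := ⟨p6hWUL_pos, p6hWUU_pos⟩
  wL := ⟨p6hWLL_pos, p6hWLU_pos⟩
  zL := ⟨p6hZL_pos, p6hZU_pos⟩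
  kp := p6hKp_pos
  km := p6hKm_pos
  v2p := p6hV2p_pos
  v2m := p6hV2m_pos
  v3p := p6hV3p_pos
  v3m := p6hV3m_pos
  m₀ := ⟨p6hMZeroLo_pos, p6hMZeroHi_pos⟩
  c₁ := ⟨p6hC1Lo_pos, p6hC1Hi_pos⟩
  cLL := ⟨p6hGLoZLo_pos, p6hC2pLoZLo_pos, p6hC2mLoZLo_pos, p6hC3pLoZLo_pos, p6hC3mLoZLo_pos, p6hNLoZLo_pos⟩
  cLH := ⟨p6hGLoZHi_pos, p6hC2pLoZHi_pos, p6hC2mLoZHi_pos, p6hC3pLoZHi_pos, p6hC3mLoZHi_pos, p6hNLoZHi_pos⟩
  cHL := ⟨p6hGHiZLo_pos, p6hC2pHiZLo_pos, p6hC2mHiZLo_pos, p6hC3pHiZLo_pos, p6hC3mHiZLo_pos, p6hNHiZLo_pos⟩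
  cHH := ⟨p6hGHiZHi_pos, p6hC2pHiZHi_pos, p6hC2mHiZHi_pos, p6hC3pHiZHi_pos, p6hC3mHiZHi_pos, p6hNHiZHi_pos⟩

theorem Low.piece7_checked : piece7.Checked where
  mu_nonneg := by decide
  dlo_ge := by decide
  dhi_le := by decide
  lo_ge := by decide
  hi_le := by decide
  room := p7xRoom_pos
  phi := .inl p7xPhi_pos
  pL := .inl ⟨p7xGap_pos, rfl, rfl, rfl⟩
  eL := ⟨p7hELL_pos, p7hELU_pos⟩
  eH := ⟨p7hEHL_pos, p7hEHU_pos⟩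
  pU := ⟨p7hPUL_pos, p7hPUU_pos⟩
  kU := ⟨p7hKUL_pos, p7hKUU_pos⟩
  kL := ⟨p7hKLL_pos, p7hKLU_pos⟩
  wU := ⟨p7hWUL_pos, p7hWUU_pos⟩
  wL := ⟨p7hWLL_pos, p7hWLU_pos⟩
  zL := ⟨p7hZL_pos, p7hZU_pos⟩
  kp := p7hKp_pos
  km := p7hKm_pos
  v2p := p7hV2p_pos
  v2m := p7hV2m_pos
  v3p := p7hV3p_pos
  v3m := p7hV3m_pos
  m₀ := ⟨p7hMZeroLo_pos, p7hMZeroHi_pos⟩
  c₁ := ⟨p7hC1Lo_pos, p7hC1Hi_pos⟩
  cLL := ⟨p7hGLoZLo_pos, p7hC2pLoZLo_pos, p7hC2mLoZLo_pos, p7hC3pLoZLo_pos, p7hC3mLoZLo_pos, p7hNLoZLo_pos⟩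
  cLH := ⟨p7hGLoZHi_pos, p7hC2pLoZHi_pos, p7hC2mLoZHi_pos, p7hC3pLoZHi_pos, p7hC3mLoZHi_pos, p7hNLoZHi_pos⟩
  cHL := ⟨p7hGHiZLo_pos, p7hC2pHiZLo_pos, p7hC2mHiZLo_pos, p7hC3pHiZLo_pos, p7hC3mHiZLo_pos, p7hNHiZLo_pos⟩
  cHH := ⟨p7hGHiZHi_pos, p7hC2pHiZHi_pos, p7hC2mHiZHi_pos, p7hC3pHiZHi_pos, p7hC3mHiZHi_pos, p7hNHiZHi_pos⟩

theorem Low.piece8_checked : piece8.Checked where
  mu_nonneg := by decide
  dlo_ge := by decide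
  dhi_le := by decide
  lo_ge := by decide
  hi_le := by decide
  room := p8xRoom_pos
  phi := .inl p8xPhi_pos
  pL := .inl ⟨p8xGap_pos, rfl, rfl, rfl⟩
  eL := ⟨p8hELL_pos, p8hELU_pos⟩
  eH := ⟨p8hEHL_pos, p8hEHU_pos⟩
  pU := ⟨p8hPUL_pos, p8hPUU_pos⟩
  kU := ⟨p8hKUL_pos, p8hKUU_pos⟩
  kL := ⟨p8hKLL_pos, p8hKLU_pos⟩
  wU := ⟨p8hWUL_pos, p8hWUU_pos⟩
  wL := ⟨p8hWLL_pos, p8hWLU_pos⟩
  zL := ⟨p8hZL_pos, p8hZU_pos⟩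
  kp := p8hKp_pos
  km := p8hKm_pos
  v2p := p8hV2p_pos
  v2m := p8hV2m_pos
  v3p := p8hV3p_pos
  v3m := p8hV3m_pos
  m₀ := ⟨p8hMZeroLo_pos, p8hMZeroHi_pos⟩
  c₁ := ⟨p8hC1Lo_pos, p8hC1Hi_pos⟩
  cLL := ⟨p8hGLoZLo_pos, p8hC2pLoZLo_pos, p8hC2mLoZLo_pos, p8hC3pLoZLo_pos, p8hC3mLoZLo_pos, p8hNLoZLo_pos⟩
  cLH := ⟨p8hGLoZHi_pos, p8hC2pLoZHi_pos, p8hC2mLoZHi_pos, p8hC3pLoZHi_pos, p8hC3mLoZHi_pos, p8hNLoZHi_pos⟩
  cHL := ⟨p8hGHiZLo_pos, p8hC2pHiZLo_pos, p8hC2mHiZLo_pos, p8hC3pHiZLo_pos, p8hC3mHiZLo_pos, p8hNHiZLo_pos⟩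
  cHH := ⟨p8hGHiZHi_pos, p8hC2pHiZHi_pos, p8hC2mHiZHi_pos, p8hC3pHiZHi_pos, p8hC3mHiZHi_pos, p8hNHiZHi_pos⟩

theorem Low.piece9_checked : piece9.Checked where
  mu_nonneg := by decide
  dlo_ge := by decide
  dhi_le := by decide
  lo_ge := by decide
  hi_le := by decide
  room := p9xRoom_pos
  phi := .inl p9xPhi_pos
  pL := .inr ⟨p9hPLL_pos, p9hPLU_pos⟩
  eL := ⟨p9hELL_pos, p9hELU_pos⟩
  eH := ⟨p9hEHL_pos, p9hEHU_pos⟩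
  pU := ⟨p9hPUL_pos, p9hPUU_pos⟩
  kU := ⟨p9hKUL_pos, p9hKUU_pos⟩
  kL := ⟨p9hKLL_pos, p9hKLU_pos⟩
  wU := ⟨p9hWUL_pos, p9hWUU_pos⟩
  wL := ⟨p9hWLL_pos, p9hWLU_pos⟩
  zL := ⟨p9hZL_pos, p9hZU_pos⟩
  kp := p9hKp_pos
  km := p9hKm_pos
  v2p := p9hV2p_pos
  v2m := p9hV2m_pos
  v3p := p9hV3p_pos
  v3m := p9hV3m_pos
  m₀ := ⟨p9hMZeroLo_pos, p9hMZeroHi_pos⟩
  c₁ := ⟨p9hC1Lo_pos, p9hC1Hi_pos⟩
  cLL := ⟨p9hGLoZLo_pos, p9hC2pLoZLo_pos, p9hC2mLoZLo_pos, p9hC3pLoZLo_pos, p9hC3mLoZLo_pos, p9hNLoZLo_pos⟩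
  cLH := ⟨p9hGLoZHi_pos, p9hC2pLoZHi_pos, p9hC2mLoZHi_pos, p9hC3pLoZHi_pos, p9hC3mLoZHi_pos, p9hNLoZHi_pos⟩
  cHL := ⟨p9hGHiZLo_pos, p9hC2pHiZLo_pos, p9hC2mHiZLo_pos, p9hC3pHiZLo_pos, p9hC3mHiZLo_pos, p9hNHiZLo_pos⟩
  cHH := ⟨p9hGHiZHi_pos, p9hC2pHiZHi_pos, p9hC2mHiZHi_pos, p9hC3pHiZHi_pos, p9hC3mHiZHi_pos, p9hNHiZHi_pos⟩

theorem Low.piece10_checked : piece10.Checked where
  mu_nonneg := by decide
  dlo_ge := by decide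
  dhi_le := by decide
  lo_ge := by decide
  hi_le := by decide
  room := p10xRoom_pos
  phi := .inl p10xPhi_pos
  pL := .inr ⟨p10hPLL_pos, p10hPLU_pos⟩
  eL := ⟨p10hELL_pos, p10hELU_pos⟩
  eH := ⟨p10hEHL_pos, p10hEHU_pos⟩
  pU := ⟨p10hPUL_pos, p10hPUU_pos⟩
  kU := ⟨p10hKUL_pos, p10hKUU_pos⟩
  kL := ⟨p10hKLL_pos, p10hKLU_pos⟩
  wU := ⟨p10hWUL_pos, p10hWUU_pos⟩
  wL := ⟨p10hWLL_pos, p10hWLU_pos⟩
  zL := ⟨p10hZL_pos, p10hZU_pos⟩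
  kp := p10hKp_pos
  km := p10hKm_pos
  v2p := p10hV2p_pos
  v2m := p10hV2m_pos
  v3p := p10hV3p_pos
  v3m := p10hV3m_pos
  m₀ := ⟨p10hMZeroLo_pos, p10hMZeroHi_pos⟩
  c₁ := ⟨p10hC1Lo_pos, p10hC1Hi_pos⟩
  cLL := ⟨p10hGLoZLo_pos, p10hC2pLoZLo_pos, p10hC2mLoZLo_pos, p10hC3pLoZLo_pos, p10hC3mLoZLo_pos, p10hNLoZLo_pos⟩
  cLH := ⟨p10hGLoZHi_pos, p10hC2pLoZHi_pos, p10hC2mLoZHi_pos, p10hC3pLoZHi_pos, p10hC3mLoZHi_pos, p10hNLoZHi_pos⟩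
  cHL := ⟨p10hGHiZLo_pos, p10hC2pHiZLo_pos, p10hC2mHiZLo_pos, p10hC3pHiZLo_pos, p10hC3mHiZLo_pos, p10hNHiZLo_pos⟩
  cHH := ⟨p10hGHiZHi_pos, p10hC2pHiZHi_pos, p10hC2mHiZHi_pos, p10hC3pHiZHi_pos, p10hC3mHiZHi_pos, p10hNHiZHi_pos⟩

theorem Low.piece11_checked : piece11.Checked where
  mu_nonneg := by decide
  dlo_ge := by decide
  dhi_le := by decide
  lo_ge := by decide
  hi_le := by decide
  room := p11xRoom_pos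
  phi := .inl p11xPhi_pos
  pL := .inr ⟨p11hPLL_pos, p11hPLU_pos⟩
  eL := ⟨p11hELL_pos, p11hELU_pos⟩
  eH := ⟨p11hEHL_pos, p11hEHU_pos⟩
  pU := ⟨p11hPUL_pos, p11hPUU_pos⟩
  kU := ⟨p11hKUL_pos, p11hKUU_pos⟩
  kL := ⟨p11hKLL_pos, p11hKLU_pos⟩
  wU := ⟨p11hWUL_pos, p11hWUU_pos⟩
  wL := ⟨p11hWLL_pos, p11hWLU_pos⟩
  zL := ⟨p11hZL_pos, p11hZU_pos⟩
  kp := p11hKp_pos
  km := p11hKm_pos
  v2p := p11hV2p_pos
  v2m := p11hV2m_pos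
  v3p := p11hV3p_pos
  v3m := p11hV3m_pos
  m₀ := ⟨p11hMZeroLo_pos, p11hMZeroHi_pos⟩
  c₁ := ⟨p11hC1Lo_pos, p11hC1Hi_pos⟩
  cLL := ⟨p11hGLoZLo_pos, p11hC2pLoZLo_pos, p11hC2mLoZLo_pos, p11hC3pLoZLo_pos, p11hC3mLoZLo_pos, p11hNLoZLo_pos⟩
  cLH := ⟨p11hGLoZHi_pos, p11hC2pLoZHi_pos, p11hC2mLoZHi_pos, p11hC3pLoZHi_pos, p11hC3mLoZHi_pos, p11hNLoZHi_pos⟩
  cHL := ⟨p11hGHiZLo_pos, p11hC2pHiZLo_pos, p11hC2mHiZLo_pos, p11hC3pHiZLo_pos, p11hC3mHiZLo_pos, p11hNHiZLo_pos⟩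
  cHH := ⟨p11hGHiZHi_pos, p11hC2pHiZHi_pos, p11hC2mHiZHi_pos, p11hC3pHiZHi_pos, p11hC3mHiZHi_pos, p11hNHiZHi_pos⟩

/-- **The closed signs of dimension six for `0 < u ≤ 3/5`.** -/
theorem signsLow : SignsLow := by
  intro d S u v t hb u0 u1 hf hphi hL hU
  have hS0 := hb.S_low
  have hS1 := hb.S_high
  have hd0 := hb.pos
  have hd1 : d < 334 / 1000 := by linarith [hb.tri]
  have lower : ∀ c d₀ : ℝ, 0 ≤ c → 0 ≤ d₀ → d₀ ≤ d →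
      c * (2 + (33 / 49 - d₀) * (16 / 49)) ≤ 32 / 49 → c ≤ 1 / 2 → c < v := by
    intro c d₀ hc hd₀ hdd hle hc2
    by_contra hlt
    rw [not_lt] at hlt
    have h1 : v * (2 + (S - d) * (1 - S)) ≤ c * (2 + (S - d₀) * (1 - S)) := by
      have := hf.v_low
      refine mul_le_mul hlt ?_ ?_ hc
      · have := mul_le_mul_of_nonneg_right (show S - d ≤ S - d₀ by linarith)
          (show 0 ≤ 1 - S by linarith)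
        linarith
      · have := mul_nonneg (show 0 ≤ S - d by linarith) (show 0 ≤ 1 - S by linarith)
        linarith
    have h2 : c * (2 + (S - d₀) * (1 - S)) - 2 * (1 - S) ≤
        c * (2 + (33 / 49 - d₀) * (16 / 49)) - 32 / 49 := by
      nlinarith [mul_nonneg (show 0 ≤ 33 / 49 - S by linarith)
        (show 0 ≤ 2 + c * (1 + d₀ - 33 / 49 - S) by nlinarith)]
    linarith [hf.v_crit]
  have upper : ∀ d₀ : ℝ, 0 ≤ d₀ → d₀ ≤ d →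
      v < 11261 / 10000 - 14 / 1000 * d₀ - 1885 / 1000 * d₀ ^ 2 := by
    intro d₀ hd₀ hdd
    have hb' : 0 ≤ 37 / 100 - 417 / 100 * d + 67 / 5 * d ^ 2 := by
      nlinarith [sq_nonneg (d - 417 / 2680)]
    have hk : 0 ≤ 49 / 100 + 133 / 100 * d - 171 / 25 * d ^ 2 := by
      nlinarith [mul_nonneg hd0.le (show 0 ≤ 334 / 1000 - d by linarith)]
    have h1 : (49 / 100 + 133 / 100 * d - 171 / 25 * d ^ 2) * u ^ 2 / (19 / 20 - u) ≤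
        (49 / 100 + 133 / 100 * d - 171 / 25 * d ^ 2) * (3 / 5) ^ 2 / (19 / 20 - 3 / 5) :=
      div_le_div₀ (mul_nonneg hk (sq_nonneg _))
        (mul_le_mul_of_nonneg_left (pow_le_pow_left₀ u0.le u1 2) hk) (by norm_num) (by linarith)
    have h2 := mul_le_mul_of_nonneg_left u1 hb'
    have h3 := mul_self_le_mul_self hd₀ hdd
    simp only [phiLow] at hphi
    norm_num at h1
    linarith
  have v0 : 294 / 1000 ≤ v := (lower _ 0 (by norm_num) le_rfl hd0.le (by norm_num) (by norm_num)).le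
  have v9 := upper 0 le_rfl hd0.le
  rcases lt_or_ge d (170 / 1000) with ha | ha
  · rcases lt_or_ge v (541 / 1000) with h | h
    · exact Piece.signs piece0_checked common hb u0 u1 hf hphi hL hU
        (by norm_num [piece0]; linarith) (by norm_num [piece0]; linarith)
        (by norm_num [piece0]; linarith) (by norm_num [piece0]; linarith)
    rcases lt_or_ge v (861 / 1000) with h' | h'
    · exact Piece.signs piece1_checked common hb u0 u1 hf hphi hL hU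
        (by norm_num [piece1]; linarith) (by norm_num [piece1]; linarith)
        (by norm_num [piece1]; linarith) (by norm_num [piece1]; linarith)
    · exact Piece.signs piece2_checked common hb u0 u1 hf hphi hL hU
        (by norm_num [piece2]; linarith) (by norm_num [piece2]; linarith)
        (by norm_num [piece2]; linarith) (by norm_num [piece2]; linarith)
  rcases lt_or_ge d (260 / 1000) with hb' | hb'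
  · have v1 := upper (170 / 1000) (by norm_num) ha
    rcases lt_or_ge v (541 / 1000) with h | h
    · have v2 : 300 / 1000 ≤ v :=
        (lower _ (170 / 1000) (by norm_num) (by norm_num) ha (by norm_num) (by norm_num)).le
      exact Piece.signs piece3_checked common hb u0 u1 hf hphi hL hU
        (by norm_num [piece3]; linarith) (by norm_num [piece3]; linarith)
        (by norm_num [piece3]; linarith) (by norm_num [piece3]; linarith)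
    rcases lt_or_ge v (831 / 1000) with h' | h'
    · exact Piece.signs piece4_checked common hb u0 u1 hf hphi hL hU
        (by norm_num [piece4]; linarith) (by norm_num [piece4]; linarith)
        (by norm_num [piece4]; linarith) (by norm_num [piece4]; linarith)
    · exact Piece.signs piece5_checked common hb u0 u1 hf hphi hL hU
        (by norm_num [piece5]; linarith) (by norm_num [piece5]; linarith)
        (by norm_num [piece5]; linarith) (by norm_num [piece5]; linarith)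
  rcases lt_or_ge v (481 / 1000) with h | h
  · have v2 : 305 / 1000 ≤ v :=
      (lower _ (260 / 1000) (by norm_num) (by norm_num) hb' (by norm_num) (by norm_num)).le
    exact Piece.signs piece6_checked common hb u0 u1 hf hphi hL hU
        (by norm_num [piece6]; linarith) (by norm_num [piece6]; linarith)
        (by norm_num [piece6]; linarith) (by norm_num [piece6]; linarith)
  rcases lt_or_ge v (561 / 1000) with h' | h'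
  · exact Piece.signs piece7_checked common hb u0 u1 hf hphi hL hU
        (by norm_num [piece7]; linarith) (by norm_num [piece7]; linarith)
        (by norm_num [piece7]; linarith) (by norm_num [piece7]; linarith)
  rcases lt_or_ge v (801 / 1000) with h'' | h''
  · exact Piece.signs piece8_checked common hb u0 u1 hf hphi hL hU
        (by norm_num [piece8]; linarith) (by norm_num [piece8]; linarith)
        (by norm_num [piece8]; linarith) (by norm_num [piece8]; linarith)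
  rcases lt_or_ge d (300 / 1000) with hc | hc
  · have v1 := upper (260 / 1000) (by norm_num) hb'
    exact Piece.signs piece9_checked common hb u0 u1 hf hphi hL hU
        (by norm_num [piece9]; linarith) (by norm_num [piece9]; linarith)
        (by norm_num [piece9]; linarith) (by norm_num [piece9]; linarith)
  rcases lt_or_ge d (320 / 1000) with he | he
  · have v1 := upper (300 / 1000) (by norm_num) hc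
    exact Piece.signs piece10_checked common hb u0 u1 hf hphi hL hU
        (by norm_num [piece10]; linarith) (by norm_num [piece10]; linarith)
        (by norm_num [piece10]; linarith) (by norm_num [piece10]; linarith)
  · have v1 := upper (320 / 1000) (by norm_num) he
    exact Piece.signs piece11_checked common hb u0 u1 hf hphi hL hU
        (by norm_num [piece11]; linarith) (by norm_num [piece11]; linarith)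
        (by norm_num [piece11]; linarith) (by norm_num [piece11]; linarith)

end Vale.Agent.P100.Calib.Closed.Six
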