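import Vale.Agent.P100.Calib.SlabSixNegPieces

/-!
# Checks of the bounds on piece 0 of `u ≤ 0`, dimension six
-/

-- The checks are definitions, so that they run one after another with little memory.
set_option linter.defProp false

namespace Vale.Agent.P100.Calib.Closed.Six.Neg

open BoxPos Tail

local instance sixNegEnv0Mul : Mul Ex := ⟨Ex.mul⟩

def n0_p0_1 :
    (piece0.hP0).checkQuick
      ⟨30, ⟨0, 1, 1, 1⟩⟩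
      ⟨⟨0, 1001, 1000⟩, ⟨2000, 2021, 3000⟩, ⟨334, 0, 1000⟩, ⟨256, 296, 1000⟩⟩ = true := by
  decide +kernel

theorem n0_p0 : PosD envBox0 piece0.hP0 :=
  (posD_of_check0 n0_p0_1)

def n0_den0_1 :
    ((piece0.hDen false)).checkQuick
      ⟨3, ⟨0, 0, 0, 0⟩⟩
      ⟨⟨0, 1001, 1000⟩, ⟨2000, 2021, 3000⟩, ⟨334, 0, 1000⟩, ⟨256, 296, 1000⟩⟩ = true := by
  decide +kernel

theorem n0_den0 : PosD envBox0 (piece0.hDen false) :=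
  (posD_of_check0 n0_den0_1)

def n0_den1_1 :
    ((piece0.hDen true)).checkQuick
      ⟨3, ⟨0, 0, 0, 0⟩⟩
      ⟨⟨0, 1001, 1000⟩, ⟨2000, 2021, 3000⟩, ⟨334, 0, 1000⟩, ⟨256, 296, 1000⟩⟩ = true := by
  decide +kernel

theorem n0_den1 : PosD envBox0 (piece0.hDen true) :=
  (posD_of_check0 n0_den1_1)

def n0_gn_1 :
    (piece0.hGn).checkQuick
      ⟨96, ⟨1, 1, 2, 2⟩⟩
      ⟨⟨0, 1001, 1000⟩, ⟨2000, 2021, 3000⟩, ⟨334, 0, 1000⟩, ⟨256, 296, 1000⟩⟩ = true := by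
  decide +kernel

theorem n0_gn : PosD envBox0 piece0.hGn :=
  (posD_of_check0 n0_gn_1)

def n0_ev0_1 :
    ((piece0.hEv false)).checkQuick
      ⟨240, ⟨3, 2, 7, 3⟩⟩
      ⟨⟨0, 1001, 1000⟩, ⟨2000, 2021, 3000⟩, ⟨334, 0, 1000⟩, ⟨256, 296, 1000⟩⟩ = true := by
  decide +kernel

theorem n0_ev0 : PosD envBox0 (piece0.hEv false) :=
  (posD_of_check0 n0_ev0_1)

def n0_ev1_1 :
    ((piece0.hEv true)).checkQuick
      ⟨181, ⟨2, 2, 6, 2⟩⟩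
      ⟨⟨0, 1001, 1000⟩, ⟨2000, 2021, 3000⟩, ⟨334, 0, 1000⟩, ⟨256, 296, 1000⟩⟩ = true := by
  decide +kernel

theorem n0_ev1 : PosD envBox0 (piece0.hEv true) :=
  (posD_of_check0 n0_ev1_1)

def n0_zL0_1 :
    ((piece0.hZL false)).checkQuick
      ⟨237, ⟨3, 3, 7, 3⟩⟩
      ⟨⟨0, 1001, 1000⟩, ⟨2000, 2021, 3000⟩, ⟨334, 0, 1000⟩, ⟨256, 276, 1000⟩⟩ = true := by
  decide +kernel

def n0_zL0_2 :
    ((piece0.hZL false)).checkQuick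
      ⟨237, ⟨3, 3, 7, 3⟩⟩
      ⟨⟨0, 1001, 1000⟩, ⟨2000, 2021, 3000⟩, ⟨334, 0, 1000⟩, ⟨276, 296, 1000⟩⟩ = true := by
  decide +kernel

theorem n0_zL0 : PosD envBox0 (piece0.hZL false) :=
  (posD_join₃ (posD_of_check0 n0_zL0_1) (posD_of_check0 n0_zL0_2))

def n0_zL1_1 :
    ((piece0.hZL true)).checkQuick
      ⟨179, ⟨2, 3, 6, 3⟩⟩
      ⟨⟨0, 1001, 1000⟩, ⟨2000, 2021, 3000⟩, ⟨334, 0, 1000⟩, ⟨256, 276, 1000⟩⟩ = true := by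
  decide +kernel

def n0_zL1_2 :
    ((piece0.hZL true)).checkQuick
      ⟨179, ⟨2, 3, 6, 3⟩⟩
      ⟨⟨0, 1001, 1000⟩, ⟨2000, 2021, 3000⟩, ⟨167, 0, 1000⟩, ⟨276, 296, 1000⟩⟩ = true := by
  decide +kernel

def n0_zL1_3 :
    ((piece0.hZL true)).checkQuick
      ⟨180, ⟨2, 3, 6, 3⟩⟩
      ⟨⟨0, 1001, 1000⟩, ⟨2000, 2021, 3000⟩, ⟨167, 334, 1000⟩, ⟨276, 296, 1000⟩⟩ = true := by
  decide +kernel

theorem n0_zL1 : PosD envBox0 (piece0.hZL true) :=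
  (posD_join₃ (posD_of_check0 n0_zL1_1) (posD_join₂ (posD_of_check0 n0_zL1_2) (posD_of_check
    n0_zL1_3)))

def n0_zU0_1 :
    ((piece0.hZU false)).checkQuick
      ⟨237, ⟨3, 3, 7, 3⟩⟩
      ⟨⟨0, 1001, 1000⟩, ⟨2000, 2021, 3000⟩, ⟨334, 0, 1000⟩, ⟨256, 296, 1000⟩⟩ = true := by
  decide +kernel

theorem n0_zU0 : PosD envBox0 (piece0.hZU false) :=
  (posD_of_check0 n0_zU0_1)

def n0_zU1_1 :
    ((piece0.hZU true)).checkQuick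
      ⟨179, ⟨2, 3, 6, 3⟩⟩
      ⟨⟨0, 1001, 1000⟩, ⟨2000, 2021, 3000⟩, ⟨334, 0, 1000⟩, ⟨256, 296, 1000⟩⟩ = true := by
  decide +kernel

theorem n0_zU1 : PosD envBox0 (piece0.hZU true) :=
  (posD_of_check0 n0_zU1_1)

def n0_eL0_1 :
    ((piece0.hEL false)).checkQuick
      ⟨351, ⟨4, 6, 10, 5⟩⟩
      ⟨⟨0, 1001, 1000⟩, ⟨2000, 2021, 3000⟩, ⟨334, 0, 1000⟩, ⟨256, 296, 1000⟩⟩ = true := by
  decide +kernel

theorem n0_eL0 : PosD envBox0 (piece0.hEL false) :=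
  (posD_of_check0 n0_eL0_1)

def n0_eL1_1 :
    ((piece0.hEL true)).checkQuick
      ⟨292, ⟨3, 6, 9, 4⟩⟩
      ⟨⟨0, 1001, 1000⟩, ⟨2000, 2021, 3000⟩, ⟨334, 0, 1000⟩, ⟨256, 296, 1000⟩⟩ = true := by
  decide +kernel

theorem n0_eL1 : PosD envBox0 (piece0.hEL true) :=
  (posD_of_check0 n0_eL1_1)

def n0_eH0_1 :
    ((piece0.hEH false)).checkQuick
      ⟨351, ⟨4, 6, 10, 5⟩⟩
      ⟨⟨0, 1001, 1000⟩, ⟨2000, 2021, 3000⟩, ⟨334, 0, 1000⟩, ⟨256, 296, 1000⟩⟩ = true := by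
  decide +kernel

theorem n0_eH0 : PosD envBox0 (piece0.hEH false) :=
  (posD_of_check0 n0_eH0_1)

def n0_eH1_1 :
    ((piece0.hEH true)).checkQuick
      ⟨292, ⟨3, 6, 9, 4⟩⟩
      ⟨⟨0, 1001, 1000⟩, ⟨2000, 2021, 3000⟩, ⟨334, 0, 1000⟩, ⟨256, 296, 1000⟩⟩ = true := by
  decide +kernel

theorem n0_eH1 : PosD envBox0 (piece0.hEH true) :=
  (posD_of_check0 n0_eH1_1)

def n0_pL0_1 :
    ((piece0.hPL false)).checkQuick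
      ⟨375, ⟨4, 6, 10, 6⟩⟩
      ⟨⟨0, 1001, 1000⟩, ⟨2000, 2021, 3000⟩, ⟨334, 0, 1000⟩, ⟨256, 296, 1000⟩⟩ = true := by
  decide +kernel

theorem n0_pL0 : PosD envBox0 (piece0.hPL false) :=
  (posD_of_check0 n0_pL0_1)

def n0_pL1_1 :
    ((piece0.hPL true)).checkQuick
      ⟨316, ⟨3, 6, 9, 5⟩⟩
      ⟨⟨0, 1001, 1000⟩, ⟨2000, 2021, 3000⟩, ⟨334, 0, 1000⟩, ⟨256, 296, 1000⟩⟩ = true := by
  decide +kernel

theorem n0_pL1 : PosD envBox0 (piece0.hPL true) :=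
  (posD_of_check0 n0_pL1_1)

def n0_pU0_1 :
    ((piece0.hPU false)).checkQuick
      ⟨375, ⟨4, 6, 10, 6⟩⟩
      ⟨⟨0, 1001, 1000⟩, ⟨2000, 2021, 3000⟩, ⟨334, 0, 1000⟩, ⟨256, 296, 1000⟩⟩ = true := by
  decide +kernel

theorem n0_pU0 : PosD envBox0 (piece0.hPU false) :=
  (posD_of_check0 n0_pU0_1)

def n0_pU1_1 :
    ((piece0.hPU true)).checkQuick
      ⟨316, ⟨3, 6, 9, 5⟩⟩
      ⟨⟨0, 1001, 1000⟩, ⟨2000, 2021, 3000⟩, ⟨334, 0, 1000⟩, ⟨256, 296, 1000⟩⟩ = true := by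
  decide +kernel

theorem n0_pU1 : PosD envBox0 (piece0.hPU true) :=
  (posD_of_check0 n0_pU1_1)

def n0_kU0_1 :
    ((piece0.hKU false)).checkQuick
      ⟨373, ⟨4, 6, 10, 6⟩⟩
      ⟨⟨0, 1001, 1000⟩, ⟨2000, 2021, 3000⟩, ⟨334, 0, 1000⟩, ⟨256, 296, 1000⟩⟩ = true := by
  decide +kernel

theorem n0_kU0 : PosD envBox0 (piece0.hKU false) :=
  (posD_of_check0 n0_kU0_1)

def n0_kU1_1 :
    ((piece0.hKU true)).checkQuick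
      ⟨314, ⟨3, 6, 9, 5⟩⟩
      ⟨⟨0, 1001, 1000⟩, ⟨2000, 2021, 3000⟩, ⟨334, 0, 1000⟩, ⟨256, 296, 1000⟩⟩ = true := by
  decide +kernel

theorem n0_kU1 : PosD envBox0 (piece0.hKU true) :=
  (posD_of_check0 n0_kU1_1)

def n0_kL0_1 :
    ((piece0.hKL false)).checkQuick
      ⟨372, ⟨4, 6, 10, 6⟩⟩
      ⟨⟨0, 1001, 1000⟩, ⟨2000, 2021, 3000⟩, ⟨334, 0, 1000⟩, ⟨256, 296, 1000⟩⟩ = true := by
  decide +kernel

theorem n0_kL0 : PosD envBox0 (piece0.hKL false) :=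
  (posD_of_check0 n0_kL0_1)

def n0_kL1_1 :
    ((piece0.hKL true)).checkQuick
      ⟨313, ⟨3, 6, 9, 5⟩⟩
      ⟨⟨0, 1001, 1000⟩, ⟨2000, 2021, 3000⟩, ⟨334, 0, 1000⟩, ⟨256, 296, 1000⟩⟩ = true := by
  decide +kernel

theorem n0_kL1 : PosD envBox0 (piece0.hKL true) :=
  (posD_of_check0 n0_kL1_1)

def n0_wU0_1 :
    ((piece0.hWU false)).checkQuick
      ⟨402, ⟨4, 8, 11, 6⟩⟩
      ⟨⟨0, 1001, 1000⟩, ⟨2000, 2021, 3000⟩, ⟨83, 0, 1000⟩, ⟨256, 296, 1000⟩⟩ = true := by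
  decide +kernel

def n0_wU0_2 :
    ((piece0.hWU false)).checkQuick
      ⟨403, ⟨4, 8, 11, 6⟩⟩
      ⟨⟨0, 1001, 1000⟩, ⟨2000, 2021, 3000⟩, ⟨83, 167, 1000⟩, ⟨256, 296, 1000⟩⟩ = true := by
  decide +kernel

def n0_wU0_3 :
    ((piece0.hWU false)).checkQuick
      ⟨404, ⟨4, 8, 11, 6⟩⟩
      ⟨⟨0, 1001, 1000⟩, ⟨2000, 2021, 3000⟩, ⟨167, 334, 1000⟩, ⟨256, 296, 1000⟩⟩ = true := by
  decide +kernel

theorem n0_wU0 : PosD envBox0 (piece0.hWU false) :=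
  (posD_join₂ (posD_join₂ (posD_of_check0 n0_wU0_1) (posD_of_check n0_wU0_2)) (posD_of_check
    n0_wU0_3))

def n0_wU1_1 :
    ((piece0.hWU true)).checkQuick
      ⟨344, ⟨3, 8, 10, 5⟩⟩
      ⟨⟨0, 1001, 1000⟩, ⟨2000, 2021, 3000⟩, ⟨334, 0, 1000⟩, ⟨256, 296, 1000⟩⟩ = true := by
  decide +kernel

theorem n0_wU1 : PosD envBox0 (piece0.hWU true) :=
  (posD_of_check0 n0_wU1_1)

def n0_wL0_1 :
    ((piece0.hWL false)).checkQuick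
      ⟨404, ⟨4, 8, 11, 6⟩⟩
      ⟨⟨0, 1001, 1000⟩, ⟨2000, 2021, 3000⟩, ⟨334, 0, 1000⟩, ⟨256, 296, 1000⟩⟩ = true := by
  decide +kernel

theorem n0_wL0 : PosD envBox0 (piece0.hWL false) :=
  (posD_of_check0 n0_wL0_1)

def n0_wL1_1 :
    ((piece0.hWL true)).checkQuick
      ⟨342, ⟨3, 8, 10, 5⟩⟩
      ⟨⟨0, 250, 1000⟩, ⟨2000, 2021, 3000⟩, ⟨167, 0, 1000⟩, ⟨256, 296, 1000⟩⟩ = true := by
  decide +kernel

def n0_wL1_2 :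
    ((piece0.hWL true)).checkQuick
      ⟨343, ⟨3, 8, 10, 5⟩⟩
      ⟨⟨250, 500, 1000⟩, ⟨2000, 2021, 3000⟩, ⟨167, 0, 1000⟩, ⟨256, 296, 1000⟩⟩ = true := by
  decide +kernel

def n0_wL1_3 :
    ((piece0.hWL true)).checkQuick
      ⟨344, ⟨3, 8, 10, 5⟩⟩
      ⟨⟨0, 500, 1000⟩, ⟨2000, 2021, 3000⟩, ⟨167, 334, 1000⟩, ⟨256, 296, 1000⟩⟩ = true := by
  decide +kernel

def n0_wL1_4 :
    ((piece0.hWL true)).checkQuick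
      ⟨344, ⟨3, 8, 10, 5⟩⟩
      ⟨⟨500, 1001, 1000⟩, ⟨2000, 2021, 3000⟩, ⟨167, 0, 1000⟩, ⟨256, 296, 1000⟩⟩ = true := by
  decide +kernel

def n0_wL1_5 :
    ((piece0.hWL true)).checkQuick
      ⟨345, ⟨3, 8, 10, 5⟩⟩
      ⟨⟨500, 1001, 1000⟩, ⟨2000, 2021, 3000⟩, ⟨167, 250, 1000⟩, ⟨256, 296, 1000⟩⟩ = true := by
  decide +kernel

def n0_wL1_6 :
    ((piece0.hWL true)).checkQuick
      ⟨346, ⟨3, 8, 10, 5⟩⟩
      ⟨⟨500, 1001, 1000⟩, ⟨2000, 2021, 3000⟩, ⟨250, 334, 1000⟩, ⟨256, 296, 1000⟩⟩ = true := by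
  decide +kernel

theorem n0_wL1 : PosD envBox0 (piece0.hWL true) :=
  (posD_join₀ (posD_join₂ (posD_join₀ (posD_of_check0 n0_wL1_1) (posD_of_check0 n0_wL1_2))
    (posD_of_check n0_wL1_3)) (posD_join₂ (posD_of_check0 n0_wL1_4) (posD_join₂ (posD_of_check
    n0_wL1_5) (posD_of_check n0_wL1_6))))

def n0_H0_1 :
    ((piece0.at false xK)).checkQuick
      ⟨170, ⟨2, 2, 5, 2⟩⟩
      ⟨⟨0, 1001, 1000⟩, ⟨2000, 2021, 3000⟩, ⟨334, 0, 1000⟩, ⟨256, 296, 1000⟩⟩ = true := by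
  decide +kernel

theorem n0_H0 : PosD envBox0 (piece0.at false xK) :=
  (posD_of_check0 n0_H0_1)

def n0_H1_1 :
    ((piece0.at true xK)).checkQuick
      ⟨110, ⟨1, 2, 4, 1⟩⟩
      ⟨⟨0, 1001, 1000⟩, ⟨2000, 2021, 3000⟩, ⟨334, 0, 1000⟩, ⟨256, 296, 1000⟩⟩ = true := by
  decide +kernel

theorem n0_H1 : PosD envBox0 (piece0.at true xK) :=
  (posD_of_check0 n0_H1_1)

def n0_l00_1 :
    ((negLLG (cC 0) (cC 0))).checkQuick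
      ⟨167, ⟨0, 4, 9, 4⟩⟩
      ⟨⟨0, 1001, 1000⟩, ⟨2000, 2021, 3000⟩, ⟨334, 0, 1000⟩, ⟨256, 296, 1000⟩⟩ = true := by
  decide +kernel

theorem n0_l00 : PosD envBox0 (negLLG (cC 0) (cC 0)) :=
  (posD_of_check0 n0_l00_1)

def n0_l01_1 :
    ((negLLG (cC 0) (cC (-1)))).checkQuick
      ⟨168, ⟨0, 4, 9, 4⟩⟩
      ⟨⟨0, 1001, 1000⟩, ⟨2000, 2021, 3000⟩, ⟨334, 0, 1000⟩, ⟨256, 296, 1000⟩⟩ = true := by
  decide +kernel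

theorem n0_l01 : PosD envBox0 (negLLG (cC 0) (cC (-1))) :=
  (posD_of_check0 n0_l01_1)

def n0_l10_1 :
    ((negLLG (cC (-1) * xV) (cC 0))).checkQuick
      ⟨179, ⟨0, 4, 9, 5⟩⟩
      ⟨⟨0, 1001, 1000⟩, ⟨2000, 2021, 3000⟩, ⟨334, 0, 1000⟩, ⟨256, 296, 1000⟩⟩ = true := by
  decide +kernel

theorem n0_l10 : PosD envBox0 (negLLG (cC (-1) * xV) (cC 0)) :=
  (posD_of_check0 n0_l10_1)

def n0_l11_1 :
    ((negLLG (cC (-1) * xV) (cC (-1)))).checkQuick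
      ⟨180, ⟨0, 4, 9, 5⟩⟩
      ⟨⟨0, 1001, 1000⟩, ⟨2000, 2021, 3000⟩, ⟨334, 0, 1000⟩, ⟨256, 296, 1000⟩⟩ = true := by
  decide +kernel

theorem n0_l11 : PosD envBox0 (negLLG (cC (-1) * xV) (cC (-1))) :=
  (posD_of_check0 n0_l11_1)

end Vale.Agent.P100.Calib.Closed.Six.Neg
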