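import Vale.Agent.P100.Calib.SlabSixNegPieces

/-!
# Checks of the bounds on piece 1 of `u ≤ 0`, dimension six
-/

-- The checks are definitions, so that they run one after another with little memory.
set_option linter.defProp false

namespace Vale.Agent.P100.Calib.Closed.Six.Neg

open BoxPos Tail

local instance sixNegEnv1Mul : Mul Ex := ⟨Ex.mul⟩

def n1_p0_1 :
    (piece1.hP0).checkQuick
      ⟨30, ⟨0, 1, 1, 1⟩⟩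
      ⟨⟨0, 1001, 1000⟩, ⟨2000, 2021, 3000⟩, ⟨100, 334, 1000⟩, ⟨295, 515, 1000⟩⟩ = true := by
  decide +kernel

theorem n1_p0 : PosD envBox1 piece1.hP0 :=
  (posD_of_check n1_p0_1)

def n1_den0_1 :
    ((piece1.hDen false)).checkQuick
      ⟨3, ⟨0, 0, 0, 0⟩⟩
      ⟨⟨0, 1001, 1000⟩, ⟨2000, 2021, 3000⟩, ⟨100, 334, 1000⟩, ⟨295, 515, 1000⟩⟩ = true := by
  decide +kernel

theorem n1_den0 : PosD envBox1 (piece1.hDen false) :=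
  (posD_of_check n1_den0_1)

def n1_den1_1 :
    ((piece1.hDen true)).checkQuick
      ⟨3, ⟨0, 0, 0, 0⟩⟩
      ⟨⟨0, 1001, 1000⟩, ⟨2000, 2021, 3000⟩, ⟨100, 334, 1000⟩, ⟨295, 515, 1000⟩⟩ = true := by
  decide +kernel

theorem n1_den1 : PosD envBox1 (piece1.hDen true) :=
  (posD_of_check n1_den1_1)

def n1_gn_1 :
    (piece1.hGn).checkQuick
      ⟨102, ⟨1, 1, 3, 2⟩⟩
      ⟨⟨0, 1001, 1000⟩, ⟨2000, 2021, 3000⟩, ⟨100, 334, 1000⟩, ⟨295, 515, 1000⟩⟩ = true := by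
  decide +kernel

theorem n1_gn : PosD envBox1 piece1.hGn :=
  (posD_of_check n1_gn_1)

def n1_ev0_1 :
    ((piece1.hEv false)).checkQuick
      ⟨259, ⟨3, 2, 10, 3⟩⟩
      ⟨⟨0, 1001, 1000⟩, ⟨2000, 2021, 3000⟩, ⟨100, 334, 1000⟩, ⟨295, 515, 1000⟩⟩ = true := by
  decide +kernel

theorem n1_ev0 : PosD envBox1 (piece1.hEv false) :=
  (posD_of_check n1_ev0_1)

def n1_ev1_1 :
    ((piece1.hEv true)).checkQuick
      ⟨194, ⟨2, 2, 8, 2⟩⟩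
      ⟨⟨0, 1001, 1000⟩, ⟨2000, 2021, 3000⟩, ⟨100, 334, 1000⟩, ⟨295, 515, 1000⟩⟩ = true := by
  decide +kernel

theorem n1_ev1 : PosD envBox1 (piece1.hEv true) :=
  (posD_of_check n1_ev1_1)

def n1_zL0_1 :
    ((piece1.hZL false)).checkQuick
      ⟨254, ⟨3, 2, 10, 3⟩⟩
      ⟨⟨0, 1001, 1000⟩, ⟨2000, 2021, 3000⟩, ⟨100, 334, 1000⟩, ⟨295, 515, 1000⟩⟩ = true := by
  decide +kernel

theorem n1_zL0 : PosD envBox1 (piece1.hZL false) :=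
  (posD_of_check n1_zL0_1)

def n1_zL1_1 :
    ((piece1.hZL true)).checkQuick
      ⟨190, ⟨2, 2, 8, 3⟩⟩
      ⟨⟨0, 1001, 1000⟩, ⟨2000, 2021, 3000⟩, ⟨100, 334, 1000⟩, ⟨295, 515, 1000⟩⟩ = true := by
  decide +kernel

theorem n1_zL1 : PosD envBox1 (piece1.hZL true) :=
  (posD_of_check n1_zL1_1)

def n1_zU0_1 :
    ((piece1.hZU false)).checkQuick
      ⟨254, ⟨3, 3, 10, 3⟩⟩
      ⟨⟨0, 1001, 1000⟩, ⟨2000, 2021, 3000⟩, ⟨100, 217, 1000⟩, ⟨295, 515, 1000⟩⟩ = true := by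
  decide +kernel

def n1_zU0_2 :
    ((piece1.hZU false)).checkQuick
      ⟨256, ⟨3, 3, 10, 3⟩⟩
      ⟨⟨0, 1001, 1000⟩, ⟨2000, 2021, 3000⟩, ⟨217, 334, 1000⟩, ⟨295, 515, 1000⟩⟩ = true := by
  decide +kernel

theorem n1_zU0 : PosD envBox1 (piece1.hZU false) :=
  (posD_join₂ (posD_of_check n1_zU0_1) (posD_of_check n1_zU0_2))

def n1_zU1_1 :
    ((piece1.hZU true)).checkQuick
      ⟨191, ⟨2, 3, 8, 3⟩⟩
      ⟨⟨0, 1001, 1000⟩, ⟨2000, 2021, 3000⟩, ⟨100, 334, 1000⟩, ⟨295, 515, 1000⟩⟩ = true := by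
  decide +kernel

theorem n1_zU1 : PosD envBox1 (piece1.hZU true) :=
  (posD_of_check n1_zU1_1)

def n1_eL0_1 :
    ((piece1.hEL false)).checkQuick
      ⟨374, ⟨4, 6, 13, 5⟩⟩
      ⟨⟨0, 1001, 1000⟩, ⟨2000, 2021, 3000⟩, ⟨100, 334, 1000⟩, ⟨295, 515, 1000⟩⟩ = true := by
  decide +kernel

theorem n1_eL0 : PosD envBox1 (piece1.hEL false) :=
  (posD_of_check n1_eL0_1)

def n1_eL1_1 :
    ((piece1.hEL true)).checkQuick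
      ⟨309, ⟨3, 6, 11, 4⟩⟩
      ⟨⟨0, 1001, 1000⟩, ⟨2000, 2021, 3000⟩, ⟨100, 334, 1000⟩, ⟨295, 515, 1000⟩⟩ = true := by
  decide +kernel

theorem n1_eL1 : PosD envBox1 (piece1.hEL true) :=
  (posD_of_check n1_eL1_1)

def n1_eH0_1 :
    ((piece1.hEH false)).checkQuick
      ⟨374, ⟨4, 6, 13, 5⟩⟩
      ⟨⟨0, 1001, 1000⟩, ⟨2000, 2021, 3000⟩, ⟨100, 334, 1000⟩, ⟨295, 515, 1000⟩⟩ = true := by
  decide +kernel

theorem n1_eH0 : PosD envBox1 (piece1.hEH false) :=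
  (posD_of_check n1_eH0_1)

def n1_eH1_1 :
    ((piece1.hEH true)).checkQuick
      ⟨309, ⟨3, 6, 11, 4⟩⟩
      ⟨⟨0, 1001, 1000⟩, ⟨2000, 2021, 3000⟩, ⟨100, 334, 1000⟩, ⟨295, 515, 1000⟩⟩ = true := by
  decide +kernel

theorem n1_eH1 : PosD envBox1 (piece1.hEH true) :=
  (posD_of_check n1_eH1_1)

def n1_pL0_1 :
    ((piece1.hPL false)).checkQuick
      ⟨399, ⟨4, 6, 14, 6⟩⟩
      ⟨⟨0, 1001, 1000⟩, ⟨2000, 2021, 3000⟩, ⟨100, 334, 1000⟩, ⟨295, 515, 1000⟩⟩ = true := by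
  decide +kernel

theorem n1_pL0 : PosD envBox1 (piece1.hPL false) :=
  (posD_of_check n1_pL0_1)

def n1_pL1_1 :
    ((piece1.hPL true)).checkQuick
      ⟨333, ⟨3, 6, 12, 5⟩⟩
      ⟨⟨0, 1001, 1000⟩, ⟨2000, 2021, 3000⟩, ⟨100, 334, 1000⟩, ⟨295, 515, 1000⟩⟩ = true := by
  decide +kernel

theorem n1_pL1 : PosD envBox1 (piece1.hPL true) :=
  (posD_of_check n1_pL1_1)

def n1_pU0_1 :
    ((piece1.hPU false)).checkQuick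
      ⟨399, ⟨4, 6, 14, 6⟩⟩
      ⟨⟨0, 1001, 1000⟩, ⟨2000, 2021, 3000⟩, ⟨100, 334, 1000⟩, ⟨295, 515, 1000⟩⟩ = true := by
  decide +kernel

theorem n1_pU0 : PosD envBox1 (piece1.hPU false) :=
  (posD_of_check n1_pU0_1)

def n1_pU1_1 :
    ((piece1.hPU true)).checkQuick
      ⟨333, ⟨3, 6, 12, 5⟩⟩
      ⟨⟨0, 1001, 1000⟩, ⟨2000, 2021, 3000⟩, ⟨100, 334, 1000⟩, ⟨295, 515, 1000⟩⟩ = true := by
  decide +kernel

theorem n1_pU1 : PosD envBox1 (piece1.hPU true) :=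
  (posD_of_check n1_pU1_1)

def n1_kU0_1 :
    ((piece1.hKU false)).checkQuick
      ⟨397, ⟨4, 6, 14, 6⟩⟩
      ⟨⟨0, 1001, 1000⟩, ⟨2000, 2021, 3000⟩, ⟨100, 334, 1000⟩, ⟨295, 515, 1000⟩⟩ = true := by
  decide +kernel

theorem n1_kU0 : PosD envBox1 (piece1.hKU false) :=
  (posD_of_check n1_kU0_1)

def n1_kU1_1 :
    ((piece1.hKU true)).checkQuick
      ⟨332, ⟨3, 6, 12, 5⟩⟩
      ⟨⟨0, 1001, 1000⟩, ⟨2000, 2021, 3000⟩, ⟨100, 334, 1000⟩, ⟨295, 515, 1000⟩⟩ = true := by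
  decide +kernel

theorem n1_kU1 : PosD envBox1 (piece1.hKU true) :=
  (posD_of_check n1_kU1_1)

def n1_kL0_1 :
    ((piece1.hKL false)).checkQuick
      ⟨397, ⟨4, 6, 14, 6⟩⟩
      ⟨⟨0, 1001, 1000⟩, ⟨2000, 2021, 3000⟩, ⟨100, 334, 1000⟩, ⟨295, 515, 1000⟩⟩ = true := by
  decide +kernel

theorem n1_kL0 : PosD envBox1 (piece1.hKL false) :=
  (posD_of_check n1_kL0_1)

def n1_kL1_1 :
    ((piece1.hKL true)).checkQuick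
      ⟨332, ⟨3, 6, 12, 5⟩⟩
      ⟨⟨0, 1001, 1000⟩, ⟨2000, 2021, 3000⟩, ⟨100, 334, 1000⟩, ⟨295, 515, 1000⟩⟩ = true := by
  decide +kernel

theorem n1_kL1 : PosD envBox1 (piece1.hKL true) :=
  (posD_of_check n1_kL1_1)

def n1_wU0_1 :
    ((piece1.hWU false)).checkQuick
      ⟨426, ⟨4, 8, 15, 6⟩⟩
      ⟨⟨0, 500, 1000⟩, ⟨2000, 2021, 3000⟩, ⟨100, 334, 1000⟩, ⟨295, 405, 1000⟩⟩ = true := by
  decide +kernel

def n1_wU0_2 :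
    ((piece1.hWU false)).checkQuick
      ⟨427, ⟨4, 8, 15, 6⟩⟩
      ⟨⟨500, 1001, 1000⟩, ⟨2000, 2021, 3000⟩, ⟨100, 334, 1000⟩, ⟨295, 405, 1000⟩⟩ = true := by
  decide +kernel

def n1_wU0_3 :
    ((piece1.hWU false)).checkQuick
      ⟨427, ⟨4, 8, 15, 6⟩⟩
      ⟨⟨0, 1001, 1000⟩, ⟨2000, 2021, 3000⟩, ⟨100, 334, 1000⟩, ⟨405, 515, 1000⟩⟩ = true := by
  decide +kernel

theorem n1_wU0 : PosD envBox1 (piece1.hWU false) :=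
  (posD_join₃ (posD_join₀ (posD_of_check n1_wU0_1) (posD_of_check n1_wU0_2)) (posD_of_check
    n1_wU0_3))

def n1_wU1_1 :
    ((piece1.hWU true)).checkQuick
      ⟨359, ⟨3, 8, 13, 5⟩⟩
      ⟨⟨0, 15, 1000⟩, ⟨2000, 2021, 3000⟩, ⟨100, 217, 1000⟩, ⟨295, 350, 1000⟩⟩ = true := by
  decide +kernel

def n1_wU1_2 :
    ((piece1.hWU true)).checkQuick
      ⟨360, ⟨3, 8, 13, 5⟩⟩
      ⟨⟨0, 15, 1000⟩, ⟨2000, 2021, 3000⟩, ⟨100, 217, 1000⟩, ⟨350, 405, 1000⟩⟩ = true := by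
  decide +kernel

def n1_wU1_3 :
    ((piece1.hWU true)).checkQuick
      ⟨361, ⟨3, 8, 13, 5⟩⟩
      ⟨⟨0, 15, 1000⟩, ⟨2000, 2021, 3000⟩, ⟨217, 334, 1000⟩, ⟨295, 350, 1000⟩⟩ = true := by
  decide +kernel

def n1_wU1_4 :
    ((piece1.hWU true)).checkQuick
      ⟨361, ⟨3, 8, 13, 5⟩⟩
      ⟨⟨0, 15, 1000⟩, ⟨2000, 2021, 3000⟩, ⟨217, 334, 1000⟩, ⟨350, 405, 1000⟩⟩ = true := by
  decide +kernel

def n1_wU1_5 :
    ((piece1.hWU true)).checkQuick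
      ⟨360, ⟨3, 8, 13, 5⟩⟩
      ⟨⟨15, 31, 1000⟩, ⟨2000, 2021, 3000⟩, ⟨100, 334, 1000⟩, ⟨295, 405, 1000⟩⟩ = true := by
  decide +kernel

def n1_wU1_6 :
    ((piece1.hWU true)).checkQuick
      ⟨360, ⟨3, 8, 13, 5⟩⟩
      ⟨⟨31, 62, 1000⟩, ⟨2000, 2021, 3000⟩, ⟨100, 334, 1000⟩, ⟨295, 405, 1000⟩⟩ = true := by
  decide +kernel

def n1_wU1_7 :
    ((piece1.hWU true)).checkQuick
      ⟨361, ⟨3, 8, 13, 5⟩⟩
      ⟨⟨62, 125, 1000⟩, ⟨2000, 2021, 3000⟩, ⟨100, 334, 1000⟩, ⟨295, 405, 1000⟩⟩ = true := by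
  decide +kernel

def n1_wU1_8 :
    ((piece1.hWU true)).checkQuick
      ⟨361, ⟨3, 8, 13, 5⟩⟩
      ⟨⟨125, 250, 1000⟩, ⟨2000, 2021, 3000⟩, ⟨100, 334, 1000⟩, ⟨295, 405, 1000⟩⟩ = true := by
  decide +kernel

def n1_wU1_9 :
    ((piece1.hWU true)).checkQuick
      ⟨361, ⟨3, 8, 13, 5⟩⟩
      ⟨⟨250, 500, 1000⟩, ⟨2000, 2021, 3000⟩, ⟨100, 334, 1000⟩, ⟨295, 405, 1000⟩⟩ = true := by
  decide +kernel

def n1_wU1_10 :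
    ((piece1.hWU true)).checkQuick
      ⟨362, ⟨3, 8, 13, 5⟩⟩
      ⟨⟨500, 1001, 1000⟩, ⟨2000, 2021, 3000⟩, ⟨100, 334, 1000⟩, ⟨295, 405, 1000⟩⟩ = true := by
  decide +kernel

def n1_wU1_11 :
    ((piece1.hWU true)).checkQuick
      ⟨362, ⟨3, 8, 13, 5⟩⟩
      ⟨⟨0, 1001, 1000⟩, ⟨2000, 2021, 3000⟩, ⟨100, 334, 1000⟩, ⟨405, 515, 1000⟩⟩ = true := by
  decide +kernel

theorem n1_wU1 : PosD envBox1 (piece1.hWU true) :=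
  (posD_join₃ (posD_join₀ (posD_join₀ (posD_join₀ (posD_join₀ (posD_join₀ (posD_join₀ (posD_join₂
    (posD_join₃ (posD_of_check n1_wU1_1) (posD_of_check n1_wU1_2)) (posD_join₃ (posD_of_check
    n1_wU1_3) (posD_of_check n1_wU1_4))) (posD_of_check n1_wU1_5)) (posD_of_check n1_wU1_6))
    (posD_of_check n1_wU1_7)) (posD_of_check n1_wU1_8)) (posD_of_check n1_wU1_9)) (posD_of_check
    n1_wU1_10)) (posD_of_check n1_wU1_11))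

def n1_wL0_1 :
    ((piece1.hWL false)).checkQuick
      ⟨426, ⟨4, 8, 15, 6⟩⟩
      ⟨⟨0, 1001, 1000⟩, ⟨2000, 2021, 3000⟩, ⟨100, 217, 1000⟩, ⟨295, 515, 1000⟩⟩ = true := by
  decide +kernel

def n1_wL0_2 :
    ((piece1.hWL false)).checkQuick
      ⟨428, ⟨4, 8, 15, 6⟩⟩
      ⟨⟨0, 1001, 1000⟩, ⟨2000, 2021, 3000⟩, ⟨217, 334, 1000⟩, ⟨295, 515, 1000⟩⟩ = true := by
  decide +kernel

theorem n1_wL0 : PosD envBox1 (piece1.hWL false) :=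
  (posD_join₂ (posD_of_check n1_wL0_1) (posD_of_check n1_wL0_2))

def n1_wL1_1 :
    ((piece1.hWL true)).checkQuick
      ⟨361, ⟨3, 8, 13, 5⟩⟩
      ⟨⟨0, 250, 1000⟩, ⟨2000, 2021, 3000⟩, ⟨100, 334, 1000⟩, ⟨295, 405, 1000⟩⟩ = true := by
  decide +kernel

def n1_wL1_2 :
    ((piece1.hWL true)).checkQuick
      ⟨361, ⟨3, 8, 13, 5⟩⟩
      ⟨⟨0, 250, 1000⟩, ⟨2000, 2021, 3000⟩, ⟨100, 334, 1000⟩, ⟨405, 515, 1000⟩⟩ = true := by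
  decide +kernel

def n1_wL1_3 :
    ((piece1.hWL true)).checkQuick
      ⟨361, ⟨3, 8, 13, 5⟩⟩
      ⟨⟨250, 500, 1000⟩, ⟨2000, 2021, 3000⟩, ⟨100, 334, 1000⟩, ⟨295, 405, 1000⟩⟩ = true := by
  decide +kernel

def n1_wL1_4 :
    ((piece1.hWL true)).checkQuick
      ⟨361, ⟨3, 8, 13, 5⟩⟩
      ⟨⟨250, 500, 1000⟩, ⟨2000, 2021, 3000⟩, ⟨100, 334, 1000⟩, ⟨405, 515, 1000⟩⟩ = true := by
  decide +kernel

def n1_wL1_5 :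
    ((piece1.hWL true)).checkQuick
      ⟨361, ⟨3, 8, 13, 5⟩⟩
      ⟨⟨500, 625, 1000⟩, ⟨2000, 2021, 3000⟩, ⟨100, 334, 1000⟩, ⟨295, 405, 1000⟩⟩ = true := by
  decide +kernel

def n1_wL1_6 :
    ((piece1.hWL true)).checkQuick
      ⟨362, ⟨3, 8, 13, 5⟩⟩
      ⟨⟨625, 750, 1000⟩, ⟨2000, 2021, 3000⟩, ⟨100, 334, 1000⟩, ⟨295, 405, 1000⟩⟩ = true := by
  decide +kernel

def n1_wL1_7 :
    ((piece1.hWL true)).checkQuick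
      ⟨362, ⟨3, 8, 13, 5⟩⟩
      ⟨⟨500, 750, 1000⟩, ⟨2000, 2021, 3000⟩, ⟨100, 334, 1000⟩, ⟨405, 515, 1000⟩⟩ = true := by
  decide +kernel

def n1_wL1_8 :
    ((piece1.hWL true)).checkQuick
      ⟨362, ⟨3, 8, 13, 5⟩⟩
      ⟨⟨750, 1001, 1000⟩, ⟨2000, 2021, 3000⟩, ⟨100, 334, 1000⟩, ⟨295, 515, 1000⟩⟩ = true := by
  decide +kernel

theorem n1_wL1 : PosD envBox1 (piece1.hWL true) :=
  (posD_join₀ (posD_join₀ (posD_join₃ (posD_of_check n1_wL1_1) (posD_of_check n1_wL1_2))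
    (posD_join₃ (posD_of_check n1_wL1_3) (posD_of_check n1_wL1_4))) (posD_join₀ (posD_join₃
    (posD_join₀ (posD_of_check n1_wL1_5) (posD_of_check n1_wL1_6)) (posD_of_check n1_wL1_7))
    (posD_of_check n1_wL1_8)))

def n1_H0_1 :
    ((piece1.at false xK)).checkQuick
      ⟨182, ⟨2, 2, 7, 2⟩⟩
      ⟨⟨0, 1001, 1000⟩, ⟨2000, 2021, 3000⟩, ⟨100, 334, 1000⟩, ⟨295, 515, 1000⟩⟩ = true := by
  decide +kernel

theorem n1_H0 : PosD envBox1 (piece1.at false xK) :=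
  (posD_of_check n1_H0_1)

def n1_H1_1 :
    ((piece1.at true xK)).checkQuick
      ⟨117, ⟨1, 2, 5, 1⟩⟩
      ⟨⟨0, 1001, 1000⟩, ⟨2000, 2021, 3000⟩, ⟨100, 334, 1000⟩, ⟨295, 515, 1000⟩⟩ = true := by
  decide +kernel

theorem n1_H1 : PosD envBox1 (piece1.at true xK) :=
  (posD_of_check n1_H1_1)

def n1_l00_1 :
    ((negLLG (cC 0) (cC 0))).checkQuick
      ⟨168, ⟨0, 4, 9, 4⟩⟩
      ⟨⟨0, 1001, 1000⟩, ⟨2000, 2021, 3000⟩, ⟨100, 334, 1000⟩, ⟨295, 515, 1000⟩⟩ = true := by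
  decide +kernel

theorem n1_l00 : PosD envBox1 (negLLG (cC 0) (cC 0)) :=
  (posD_of_check n1_l00_1)

def n1_l01_1 :
    ((negLLG (cC 0) (cC (-1)))).checkQuick
      ⟨168, ⟨0, 4, 9, 4⟩⟩
      ⟨⟨0, 1001, 1000⟩, ⟨2000, 2021, 3000⟩, ⟨100, 334, 1000⟩, ⟨295, 515, 1000⟩⟩ = true := by
  decide +kernel

theorem n1_l01 : PosD envBox1 (negLLG (cC 0) (cC (-1))) :=
  (posD_of_check n1_l01_1)

def n1_l10_1 :
    ((negLLG (cC (-1) * xV) (cC 0))).checkQuick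
      ⟨180, ⟨0, 4, 9, 5⟩⟩
      ⟨⟨0, 1001, 1000⟩, ⟨2000, 2021, 3000⟩, ⟨100, 334, 1000⟩, ⟨295, 515, 1000⟩⟩ = true := by
  decide +kernel

theorem n1_l10 : PosD envBox1 (negLLG (cC (-1) * xV) (cC 0)) :=
  (posD_of_check n1_l10_1)

def n1_l11_1 :
    ((negLLG (cC (-1) * xV) (cC (-1)))).checkQuick
      ⟨180, ⟨0, 4, 9, 5⟩⟩
      ⟨⟨0, 1001, 1000⟩, ⟨2000, 2021, 3000⟩, ⟨100, 334, 1000⟩, ⟨295, 515, 1000⟩⟩ = true := by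
  decide +kernel

theorem n1_l11 : PosD envBox1 (negLLG (cC (-1) * xV) (cC (-1))) :=
  (posD_of_check n1_l11_1)

end Vale.Agent.P100.Calib.Closed.Six.Neg
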