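import Vale.Agent.P100.Calib.SlabSixNegPieces

/-!
# Checks of the bounds on piece 2 of `u ≤ 0`, dimension six
-/

-- The checks are definitions, so that they run one after another with little memory.
set_option linter.defProp false

namespace Vale.Agent.P100.Calib.Closed.Six.Neg

open BoxPos Tail

local instance sixNegEnv2Mul : Mul Ex := ⟨Ex.mul⟩

def n2_p0_1 :
    (piece2.hP0).checkQuick
      ⟨30, ⟨0, 1, 1, 1⟩⟩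
      ⟨⟨0, 1001, 1000⟩, ⟨2000, 2021, 3000⟩, ⟨100, 0, 1000⟩, ⟨295, 489, 1000⟩⟩ = true := by
  decide +kernel

theorem n2_p0 : PosD envBox2 piece2.hP0 :=
  (posD_of_check0 n2_p0_1)

def n2_den0_1 :
    ((piece2.hDen false)).checkQuick
      ⟨3, ⟨0, 0, 0, 0⟩⟩
      ⟨⟨0, 1001, 1000⟩, ⟨2000, 2021, 3000⟩, ⟨100, 0, 1000⟩, ⟨295, 489, 1000⟩⟩ = true := by
  decide +kernel

theorem n2_den0 : PosD envBox2 (piece2.hDen false) :=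
  (posD_of_check0 n2_den0_1)

def n2_den1_1 :
    ((piece2.hDen true)).checkQuick
      ⟨3, ⟨0, 0, 0, 0⟩⟩
      ⟨⟨0, 1001, 1000⟩, ⟨2000, 2021, 3000⟩, ⟨100, 0, 1000⟩, ⟨295, 489, 1000⟩⟩ = true := by
  decide +kernel

theorem n2_den1 : PosD envBox2 (piece2.hDen true) :=
  (posD_of_check0 n2_den1_1)

def n2_gn_1 :
    (piece2.hGn).checkQuick
      ⟨102, ⟨1, 1, 3, 2⟩⟩
      ⟨⟨0, 1001, 1000⟩, ⟨2000, 2021, 3000⟩, ⟨100, 0, 1000⟩, ⟨295, 489, 1000⟩⟩ = true := by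
  decide +kernel

theorem n2_gn : PosD envBox2 piece2.hGn :=
  (posD_of_check0 n2_gn_1)

def n2_ev0_1 :
    ((piece2.hEv false)).checkQuick
      ⟨255, ⟨3, 2, 10, 3⟩⟩
      ⟨⟨0, 1001, 1000⟩, ⟨2000, 2021, 3000⟩, ⟨100, 0, 1000⟩, ⟨295, 489, 1000⟩⟩ = true := by
  decide +kernel

theorem n2_ev0 : PosD envBox2 (piece2.hEv false) :=
  (posD_of_check0 n2_ev0_1)

def n2_ev1_1 :
    ((piece2.hEv true)).checkQuick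
      ⟨191, ⟨2, 2, 8, 2⟩⟩
      ⟨⟨0, 1001, 1000⟩, ⟨2000, 2021, 3000⟩, ⟨100, 0, 1000⟩, ⟨295, 489, 1000⟩⟩ = true := by
  decide +kernel

theorem n2_ev1 : PosD envBox2 (piece2.hEv true) :=
  (posD_of_check0 n2_ev1_1)

def n2_zL0_1 :
    ((piece2.hZL false)).checkQuick
      ⟨251, ⟨3, 2, 10, 3⟩⟩
      ⟨⟨0, 1001, 1000⟩, ⟨2000, 2021, 3000⟩, ⟨100, 0, 1000⟩, ⟨295, 489, 1000⟩⟩ = true := by
  decide +kernel

theorem n2_zL0 : PosD envBox2 (piece2.hZL false) :=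
  (posD_of_check0 n2_zL0_1)

def n2_zL1_1 :
    ((piece2.hZL true)).checkQuick
      ⟨188, ⟨2, 2, 8, 3⟩⟩
      ⟨⟨0, 1001, 1000⟩, ⟨2000, 2021, 3000⟩, ⟨100, 0, 1000⟩, ⟨295, 489, 1000⟩⟩ = true := by
  decide +kernel

theorem n2_zL1 : PosD envBox2 (piece2.hZL true) :=
  (posD_of_check0 n2_zL1_1)

def n2_zU0_1 :
    ((piece2.hZU false)).checkQuick
      ⟨252, ⟨3, 3, 10, 3⟩⟩
      ⟨⟨0, 1001, 1000⟩, ⟨2000, 2021, 3000⟩, ⟨100, 0, 1000⟩, ⟨295, 489, 1000⟩⟩ = true := by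
  decide +kernel

theorem n2_zU0 : PosD envBox2 (piece2.hZU false) :=
  (posD_of_check0 n2_zU0_1)

def n2_zU1_1 :
    ((piece2.hZU true)).checkQuick
      ⟨189, ⟨2, 3, 8, 3⟩⟩
      ⟨⟨0, 1001, 1000⟩, ⟨2000, 2021, 3000⟩, ⟨100, 0, 1000⟩, ⟨295, 489, 1000⟩⟩ = true := by
  decide +kernel

theorem n2_zU1 : PosD envBox2 (piece2.hZU true) :=
  (posD_of_check0 n2_zU1_1)

def n2_eL0_1 :
    ((piece2.hEL false)).checkQuick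
      ⟨370, ⟨4, 6, 13, 5⟩⟩
      ⟨⟨0, 1001, 1000⟩, ⟨2000, 2021, 3000⟩, ⟨100, 0, 1000⟩, ⟨295, 489, 1000⟩⟩ = true := by
  decide +kernel

theorem n2_eL0 : PosD envBox2 (piece2.hEL false) :=
  (posD_of_check0 n2_eL0_1)

def n2_eL1_1 :
    ((piece2.hEL true)).checkQuick
      ⟨306, ⟨3, 6, 11, 4⟩⟩
      ⟨⟨0, 1001, 1000⟩, ⟨2000, 2021, 3000⟩, ⟨100, 0, 1000⟩, ⟨295, 489, 1000⟩⟩ = true := by
  decide +kernel

theorem n2_eL1 : PosD envBox2 (piece2.hEL true) :=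
  (posD_of_check0 n2_eL1_1)

def n2_eH0_1 :
    ((piece2.hEH false)).checkQuick
      ⟨370, ⟨4, 6, 13, 5⟩⟩
      ⟨⟨0, 1001, 1000⟩, ⟨2000, 2021, 3000⟩, ⟨100, 0, 1000⟩, ⟨295, 489, 1000⟩⟩ = true := by
  decide +kernel

theorem n2_eH0 : PosD envBox2 (piece2.hEH false) :=
  (posD_of_check0 n2_eH0_1)

def n2_eH1_1 :
    ((piece2.hEH true)).checkQuick
      ⟨306, ⟨3, 6, 11, 4⟩⟩
      ⟨⟨0, 1001, 1000⟩, ⟨2000, 2021, 3000⟩, ⟨100, 0, 1000⟩, ⟨295, 489, 1000⟩⟩ = true := by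
  decide +kernel

theorem n2_eH1 : PosD envBox2 (piece2.hEH true) :=
  (posD_of_check0 n2_eH1_1)

def n2_pL0_1 :
    ((piece2.hPL false)).checkQuick
      ⟨396, ⟨4, 6, 14, 6⟩⟩
      ⟨⟨0, 1001, 1000⟩, ⟨2000, 2021, 3000⟩, ⟨100, 0, 1000⟩, ⟨295, 489, 1000⟩⟩ = true := by
  decide +kernel

theorem n2_pL0 : PosD envBox2 (piece2.hPL false) :=
  (posD_of_check0 n2_pL0_1)

def n2_pL1_1 :
    ((piece2.hPL true)).checkQuick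
      ⟨331, ⟨3, 6, 12, 5⟩⟩
      ⟨⟨0, 1001, 1000⟩, ⟨2000, 2021, 3000⟩, ⟨100, 0, 1000⟩, ⟨295, 489, 1000⟩⟩ = true := by
  decide +kernel

theorem n2_pL1 : PosD envBox2 (piece2.hPL true) :=
  (posD_of_check0 n2_pL1_1)

def n2_pU0_1 :
    ((piece2.hPU false)).checkQuick
      ⟨396, ⟨4, 6, 14, 6⟩⟩
      ⟨⟨0, 1001, 1000⟩, ⟨2000, 2021, 3000⟩, ⟨100, 0, 1000⟩, ⟨295, 489, 1000⟩⟩ = true := by
  decide +kernel

theorem n2_pU0 : PosD envBox2 (piece2.hPU false) :=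
  (posD_of_check0 n2_pU0_1)

def n2_pU1_1 :
    ((piece2.hPU true)).checkQuick
      ⟨331, ⟨3, 6, 12, 5⟩⟩
      ⟨⟨0, 1001, 1000⟩, ⟨2000, 2021, 3000⟩, ⟨100, 0, 1000⟩, ⟨295, 489, 1000⟩⟩ = true := by
  decide +kernel

theorem n2_pU1 : PosD envBox2 (piece2.hPU true) :=
  (posD_of_check0 n2_pU1_1)

def n2_kU0_1 :
    ((piece2.hKU false)).checkQuick
      ⟨392, ⟨4, 6, 14, 6⟩⟩
      ⟨⟨0, 1001, 1000⟩, ⟨2000, 2021, 3000⟩, ⟨100, 0, 1000⟩, ⟨295, 489, 1000⟩⟩ = true := by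
  decide +kernel

theorem n2_kU0 : PosD envBox2 (piece2.hKU false) :=
  (posD_of_check0 n2_kU0_1)

def n2_kU1_1 :
    ((piece2.hKU true)).checkQuick
      ⟨327, ⟨3, 6, 12, 5⟩⟩
      ⟨⟨0, 1001, 1000⟩, ⟨2000, 2021, 3000⟩, ⟨100, 0, 1000⟩, ⟨295, 489, 1000⟩⟩ = true := by
  decide +kernel

theorem n2_kU1 : PosD envBox2 (piece2.hKU true) :=
  (posD_of_check0 n2_kU1_1)

def n2_kL0_1 :
    ((piece2.hKL false)).checkQuick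
      ⟨392, ⟨4, 6, 14, 6⟩⟩
      ⟨⟨0, 1001, 1000⟩, ⟨2000, 2021, 3000⟩, ⟨100, 0, 1000⟩, ⟨295, 489, 1000⟩⟩ = true := by
  decide +kernel

theorem n2_kL0 : PosD envBox2 (piece2.hKL false) :=
  (posD_of_check0 n2_kL0_1)

def n2_kL1_1 :
    ((piece2.hKL true)).checkQuick
      ⟨327, ⟨3, 6, 12, 5⟩⟩
      ⟨⟨0, 1001, 1000⟩, ⟨2000, 2021, 3000⟩, ⟨100, 0, 1000⟩, ⟨295, 489, 1000⟩⟩ = true := by
  decide +kernel

theorem n2_kL1 : PosD envBox2 (piece2.hKL true) :=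
  (posD_of_check0 n2_kL1_1)

def n2_wU0_1 :
    ((piece2.hWU false)).checkQuick
      ⟨423, ⟨4, 8, 15, 6⟩⟩
      ⟨⟨0, 500, 1000⟩, ⟨2000, 2021, 3000⟩, ⟨50, 0, 1000⟩, ⟨295, 392, 1000⟩⟩ = true := by
  decide +kernel

def n2_wU0_2 :
    ((piece2.hWU false)).checkQuick
      ⟨424, ⟨4, 8, 15, 6⟩⟩
      ⟨⟨0, 500, 1000⟩, ⟨2000, 2021, 3000⟩, ⟨50, 100, 1000⟩, ⟨295, 392, 1000⟩⟩ = true := by
  decide +kernel

def n2_wU0_3 :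
    ((piece2.hWU false)).checkQuick
      ⟨424, ⟨4, 8, 15, 6⟩⟩
      ⟨⟨0, 500, 1000⟩, ⟨2000, 2021, 3000⟩, ⟨100, 0, 1000⟩, ⟨392, 489, 1000⟩⟩ = true := by
  decide +kernel

def n2_wU0_4 :
    ((piece2.hWU false)).checkQuick
      ⟨425, ⟨4, 8, 15, 6⟩⟩
      ⟨⟨500, 1001, 1000⟩, ⟨2000, 2021, 3000⟩, ⟨100, 0, 1000⟩, ⟨295, 489, 1000⟩⟩ = true := by
  decide +kernel

theorem n2_wU0 : PosD envBox2 (piece2.hWU false) :=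
  (posD_join₀ (posD_join₃ (posD_join₂ (posD_of_check0 n2_wU0_1) (posD_of_check n2_wU0_2))
    (posD_of_check0 n2_wU0_3)) (posD_of_check0 n2_wU0_4))

def n2_wU1_1 :
    ((piece2.hWU true)).checkQuick
      ⟨359, ⟨3, 8, 13, 5⟩⟩
      ⟨⟨0, 1001, 1000⟩, ⟨2000, 2021, 3000⟩, ⟨100, 0, 1000⟩, ⟨295, 343, 1000⟩⟩ = true := by
  decide +kernel

def n2_wU1_2 :
    ((piece2.hWU true)).checkQuick
      ⟨359, ⟨3, 8, 13, 5⟩⟩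
      ⟨⟨0, 1001, 1000⟩, ⟨2000, 2021, 3000⟩, ⟨100, 0, 1000⟩, ⟨343, 392, 1000⟩⟩ = true := by
  decide +kernel

def n2_wU1_3 :
    ((piece2.hWU true)).checkQuick
      ⟨360, ⟨3, 8, 13, 5⟩⟩
      ⟨⟨0, 1001, 1000⟩, ⟨2000, 2021, 3000⟩, ⟨100, 0, 1000⟩, ⟨392, 489, 1000⟩⟩ = true := by
  decide +kernel

theorem n2_wU1 : PosD envBox2 (piece2.hWU true) :=
  (posD_join₃ (posD_join₃ (posD_of_check0 n2_wU1_1) (posD_of_check0 n2_wU1_2)) (posD_of_check0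
    n2_wU1_3))

def n2_wL0_1 :
    ((piece2.hWL false)).checkQuick
      ⟨424, ⟨4, 8, 15, 6⟩⟩
      ⟨⟨0, 1001, 1000⟩, ⟨2000, 2021, 3000⟩, ⟨100, 0, 1000⟩, ⟨295, 489, 1000⟩⟩ = true := by
  decide +kernel

theorem n2_wL0 : PosD envBox2 (piece2.hWL false) :=
  (posD_of_check0 n2_wL0_1)

def n2_wL1_1 :
    ((piece2.hWL true)).checkQuick
      ⟨359, ⟨3, 8, 13, 5⟩⟩
      ⟨⟨0, 250, 1000⟩, ⟨2000, 2021, 3000⟩, ⟨100, 0, 1000⟩, ⟨295, 392, 1000⟩⟩ = true := by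
  decide +kernel

def n2_wL1_2 :
    ((piece2.hWL true)).checkQuick
      ⟨359, ⟨3, 8, 13, 5⟩⟩
      ⟨⟨250, 500, 1000⟩, ⟨2000, 2021, 3000⟩, ⟨100, 0, 1000⟩, ⟨295, 392, 1000⟩⟩ = true := by
  decide +kernel

def n2_wL1_3 :
    ((piece2.hWL true)).checkQuick
      ⟨359, ⟨3, 8, 13, 5⟩⟩
      ⟨⟨0, 250, 1000⟩, ⟨2000, 2021, 3000⟩, ⟨100, 0, 1000⟩, ⟨392, 440, 1000⟩⟩ = true := by
  decide +kernel

def n2_wL1_4 :
    ((piece2.hWL true)).checkQuick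
      ⟨360, ⟨3, 8, 13, 5⟩⟩
      ⟨⟨0, 250, 1000⟩, ⟨2000, 2021, 3000⟩, ⟨100, 0, 1000⟩, ⟨440, 489, 1000⟩⟩ = true := by
  decide +kernel

def n2_wL1_5 :
    ((piece2.hWL true)).checkQuick
      ⟨360, ⟨3, 8, 13, 5⟩⟩
      ⟨⟨250, 500, 1000⟩, ⟨2000, 2021, 3000⟩, ⟨100, 0, 1000⟩, ⟨392, 440, 1000⟩⟩ = true := by
  decide +kernel

def n2_wL1_6 :
    ((piece2.hWL true)).checkQuick
      ⟨360, ⟨3, 8, 13, 5⟩⟩
      ⟨⟨250, 500, 1000⟩, ⟨2000, 2021, 3000⟩, ⟨100, 0, 1000⟩, ⟨440, 489, 1000⟩⟩ = true := by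
  decide +kernel

def n2_wL1_7 :
    ((piece2.hWL true)).checkQuick
      ⟨360, ⟨3, 8, 13, 5⟩⟩
      ⟨⟨500, 625, 1000⟩, ⟨2000, 2021, 3000⟩, ⟨100, 0, 1000⟩, ⟨295, 392, 1000⟩⟩ = true := by
  decide +kernel

def n2_wL1_8 :
    ((piece2.hWL true)).checkQuick
      ⟨360, ⟨3, 8, 13, 5⟩⟩
      ⟨⟨625, 750, 1000⟩, ⟨2000, 2021, 3000⟩, ⟨100, 0, 1000⟩, ⟨295, 392, 1000⟩⟩ = true := by
  decide +kernel

def n2_wL1_9 :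
    ((piece2.hWL true)).checkQuick
      ⟨360, ⟨3, 8, 13, 5⟩⟩
      ⟨⟨500, 625, 1000⟩, ⟨2000, 2021, 3000⟩, ⟨100, 0, 1000⟩, ⟨392, 489, 1000⟩⟩ = true := by
  decide +kernel

def n2_wL1_10 :
    ((piece2.hWL true)).checkQuick
      ⟨360, ⟨3, 8, 13, 5⟩⟩
      ⟨⟨625, 750, 1000⟩, ⟨2000, 2021, 3000⟩, ⟨100, 0, 1000⟩, ⟨392, 489, 1000⟩⟩ = true := by
  decide +kernel

def n2_wL1_11 :
    ((piece2.hWL true)).checkQuick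
      ⟨360, ⟨3, 8, 13, 5⟩⟩
      ⟨⟨750, 1001, 1000⟩, ⟨2000, 2021, 3000⟩, ⟨100, 0, 1000⟩, ⟨295, 489, 1000⟩⟩ = true := by
  decide +kernel

theorem n2_wL1 : PosD envBox2 (piece2.hWL true) :=
  (posD_join₀ (posD_join₃ (posD_join₀ (posD_of_check0 n2_wL1_1) (posD_of_check0 n2_wL1_2))
    (posD_join₀ (posD_join₃ (posD_of_check0 n2_wL1_3) (posD_of_check0 n2_wL1_4)) (posD_join₃
    (posD_of_check0 n2_wL1_5) (posD_of_check0 n2_wL1_6)))) (posD_join₀ (posD_join₃ (posD_join₀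
    (posD_of_check0 n2_wL1_7) (posD_of_check0 n2_wL1_8)) (posD_join₀ (posD_of_check0 n2_wL1_9)
    (posD_of_check0 n2_wL1_10))) (posD_of_check0 n2_wL1_11)))

def n2_H0_1 :
    ((piece2.at false xK)).checkQuick
      ⟨180, ⟨2, 2, 7, 2⟩⟩
      ⟨⟨0, 1001, 1000⟩, ⟨2000, 2021, 3000⟩, ⟨100, 0, 1000⟩, ⟨295, 489, 1000⟩⟩ = true := by
  decide +kernel

theorem n2_H0 : PosD envBox2 (piece2.at false xK) :=
  (posD_of_check0 n2_H0_1)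

def n2_H1_1 :
    ((piece2.at true xK)).checkQuick
      ⟨115, ⟨1, 2, 5, 1⟩⟩
      ⟨⟨0, 1001, 1000⟩, ⟨2000, 2021, 3000⟩, ⟨100, 0, 1000⟩, ⟨295, 489, 1000⟩⟩ = true := by
  decide +kernel

theorem n2_H1 : PosD envBox2 (piece2.at true xK) :=
  (posD_of_check0 n2_H1_1)

def n2_l00_1 :
    ((negLLG (cC 0) (cC 0))).checkQuick
      ⟨166, ⟨0, 4, 9, 4⟩⟩
      ⟨⟨0, 1001, 1000⟩, ⟨2000, 2021, 3000⟩, ⟨100, 0, 1000⟩, ⟨295, 489, 1000⟩⟩ = true := by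
  decide +kernel

theorem n2_l00 : PosD envBox2 (negLLG (cC 0) (cC 0)) :=
  (posD_of_check0 n2_l00_1)

def n2_l01_1 :
    ((negLLG (cC 0) (cC (-1)))).checkQuick
      ⟨167, ⟨0, 4, 9, 4⟩⟩
      ⟨⟨0, 1001, 1000⟩, ⟨2000, 2021, 3000⟩, ⟨100, 0, 1000⟩, ⟨295, 489, 1000⟩⟩ = true := by
  decide +kernel

theorem n2_l01 : PosD envBox2 (negLLG (cC 0) (cC (-1))) :=
  (posD_of_check0 n2_l01_1)

def n2_l10_1 :
    ((negLLG (cC (-1) * xV) (cC 0))).checkQuick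
      ⟨178, ⟨0, 4, 9, 5⟩⟩
      ⟨⟨0, 1001, 1000⟩, ⟨2000, 2021, 3000⟩, ⟨100, 0, 1000⟩, ⟨295, 489, 1000⟩⟩ = true := by
  decide +kernel

theorem n2_l10 : PosD envBox2 (negLLG (cC (-1) * xV) (cC 0)) :=
  (posD_of_check0 n2_l10_1)

def n2_l11_1 :
    ((negLLG (cC (-1) * xV) (cC (-1)))).checkQuick
      ⟨179, ⟨0, 4, 9, 5⟩⟩
      ⟨⟨0, 1001, 1000⟩, ⟨2000, 2021, 3000⟩, ⟨100, 0, 1000⟩, ⟨295, 489, 1000⟩⟩ = true := by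
  decide +kernel

theorem n2_l11 : PosD envBox2 (negLLG (cC (-1) * xV) (cC (-1))) :=
  (posD_of_check0 n2_l11_1)

end Vale.Agent.P100.Calib.Closed.Six.Neg
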