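import Vale.Agent.P100.Calib.SlabSixNegPieces

/-!
# Checks of the signs on piece 0 of `u ≤ 0`, dimension six
-/

-- The checks are definitions, so that they run one after another with little memory.
set_option linter.defProp false

namespace Vale.Agent.P100.Calib.Closed.Six.Neg

open BoxPos Tail

local instance sixNegSign0Mul : Mul Ex := ⟨Ex.mul⟩

def n0_pp_1 :
    (piece0.xPL).checkQuick
      ⟨76, ⟨1, 1, 3, 3⟩⟩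
      ⟨⟨0, 1, 1⟩, ⟨2000, 2021, 3000⟩, ⟨334, 0, 1000⟩, ⟨256, 296, 1000⟩⟩ = true := by
  decide +kernel

theorem n0_pp : PosD signBox0 piece0.xPL :=
  (posD_of_check0 n0_pp_1)

def n0_v2p_1 :
    (piece0.hV2p).checkQuick
      ⟨190, ⟨1, 6, 10, 5⟩⟩
      ⟨⟨0, 1, 1⟩, ⟨2000, 2021, 3000⟩, ⟨334, 0, 1000⟩, ⟨256, 296, 1000⟩⟩ = true := by
  decide +kernel

theorem n0_v2p : PosD signBox0 piece0.hV2p :=
  (posD_of_check0 n0_v2p_1)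

def n0_v2m_1 :
    (piece0.hV2m).checkQuick
      ⟨201, ⟨1, 6, 10, 5⟩⟩
      ⟨⟨0, 1, 1⟩, ⟨2000, 2021, 3000⟩, ⟨334, 0, 1000⟩, ⟨256, 296, 1000⟩⟩ = true := by
  decide +kernel

theorem n0_v2m : PosD signBox0 piece0.hV2m :=
  (posD_of_check0 n0_v2m_1)

def n0_v3p_1 :
    (piece0.hV3p).checkQuick
      ⟨185, ⟨1, 6, 9, 5⟩⟩
      ⟨⟨0, 1, 1⟩, ⟨2000, 2021, 3000⟩, ⟨334, 0, 1000⟩, ⟨256, 296, 1000⟩⟩ = true := by
  decide +kernel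

theorem n0_v3p : PosD signBox0 piece0.hV3p :=
  (posD_of_check0 n0_v3p_1)

def n0_v3m_1 :
    (piece0.hV3m).checkQuick
      ⟨188, ⟨1, 6, 9, 5⟩⟩
      ⟨⟨0, 1, 1⟩, ⟨2000, 2021, 3000⟩, ⟨334, 0, 1000⟩, ⟨256, 296, 1000⟩⟩ = true := by
  decide +kernel

theorem n0_v3m : PosD signBox0 piece0.hV3m :=
  (posD_of_check0 n0_v3m_1)

def n0_k2p_1 :
    ((piece0.k2p piece0.xE)).checkQuick
      ⟨47, ⟨1, 1, 2, 2⟩⟩
      ⟨⟨0, 1, 1⟩, ⟨2000, 2021, 3000⟩, ⟨334, 0, 1000⟩, ⟨256, 296, 1000⟩⟩ = true := by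
  decide +kernel

theorem n0_k2p : PosD signBox0 (piece0.k2p piece0.xE) :=
  (posD_of_check0 n0_k2p_1)

def n0_k2m_1 :
    ((piece0.k2m piece0.xE)).checkQuick
      ⟨61, ⟨1, 1, 2, 2⟩⟩
      ⟨⟨0, 1, 1⟩, ⟨2000, 2021, 3000⟩, ⟨334, 0, 1000⟩, ⟨256, 296, 1000⟩⟩ = true := by
  decide +kernel

theorem n0_k2m : PosD signBox0 (piece0.k2m piece0.xE) :=
  (posD_of_check0 n0_k2m_1)

def n0_kap0_1 :
    ((piece0.kap false)).checkQuick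
      ⟨53, ⟨1, 1, 2, 2⟩⟩
      ⟨⟨0, 1, 1⟩, ⟨2000, 2021, 3000⟩, ⟨334, 0, 1000⟩, ⟨256, 296, 1000⟩⟩ = true := by
  decide +kernel

theorem n0_kap0 : PosD signBox0 (piece0.kap false) :=
  (posD_of_check0 n0_kap0_1)

def n0_c10_1 :
    ((piece0.hC1 false)).checkQuick
      ⟨208, ⟨3, 5, 9, 7⟩⟩
      ⟨⟨0, 1, 1⟩, ⟨2000, 2021, 3000⟩, ⟨334, 0, 1000⟩, ⟨256, 296, 1000⟩⟩ = true := by
  decide +kernel

theorem n0_c10 : PosD signBox0 (piece0.hC1 false) :=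
  (posD_of_check0 n0_c10_1)

def n0_c1h0_1 :
    ((piece0.hC1' false)).checkQuick
      ⟨208, ⟨3, 5, 9, 7⟩⟩
      ⟨⟨0, 1, 1⟩, ⟨2000, 2021, 3000⟩, ⟨334, 0, 1000⟩, ⟨256, 296, 1000⟩⟩ = true := by
  decide +kernel

theorem n0_c1h0 : PosD signBox0 (piece0.hC1' false) :=
  (posD_of_check0 n0_c1h0_1)

def n0_tg00_1 :
    ((piece0.hG false (piece0.pEnd false))).checkQuick
      ⟨288, ⟨2, 7, 14, 9⟩⟩
      ⟨⟨0, 1, 1⟩, ⟨2000, 2021, 3000⟩, ⟨334, 0, 1000⟩, ⟨256, 296, 1000⟩⟩ = true := by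
  decide +kernel

theorem n0_tg00 : PosD signBox0 (piece0.hG false (piece0.pEnd false)) :=
  (posD_of_check0 n0_tg00_1)

def n0_c2p00_1 :
    ((piece0.hC2p false (piece0.pEnd false))).checkQuick
      ⟨340, ⟨3, 8, 16, 11⟩⟩
      ⟨⟨0, 1, 1⟩, ⟨2000, 2021, 3000⟩, ⟨334, 0, 1000⟩, ⟨256, 296, 1000⟩⟩ = true := by
  decide +kernel

theorem n0_c2p00 : PosD signBox0 (piece0.hC2p false (piece0.pEnd false)) :=
  (posD_of_check0 n0_c2p00_1)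

def n0_c2m00_1 :
    ((piece0.hC2m false (piece0.pEnd false))).checkQuick
      ⟨348, ⟨3, 8, 16, 11⟩⟩
      ⟨⟨0, 1, 1⟩, ⟨2000, 2021, 3000⟩, ⟨334, 0, 1000⟩, ⟨256, 296, 1000⟩⟩ = true := by
  decide +kernel

theorem n0_c2m00 : PosD signBox0 (piece0.hC2m false (piece0.pEnd false)) :=
  (posD_of_check0 n0_c2m00_1)

def n0_tmg00_1 :
    ((piece0.hTMG false (piece0.pEnd false))).checkQuick
      ⟨302, ⟨2, 7, 14, 10⟩⟩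
      ⟨⟨0, 1, 1⟩, ⟨2000, 2021, 3000⟩, ⟨334, 0, 1000⟩, ⟨256, 296, 1000⟩⟩ = true := by
  decide +kernel

theorem n0_tmg00 : PosD signBox0 (piece0.hTMG false (piece0.pEnd false)) :=
  (posD_of_check0 n0_tmg00_1)

def n0_c3p00_1 :
    ((piece0.hC3p false false)).checkQuick
      ⟨335, ⟨3, 8, 15, 11⟩⟩
      ⟨⟨0, 1, 1⟩, ⟨2000, 2021, 3000⟩, ⟨334, 0, 1000⟩, ⟨256, 296, 1000⟩⟩ = true := by
  decide +kernel

theorem n0_c3p00 : PosD signBox0 (piece0.hC3p false false) :=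
  (posD_of_check0 n0_c3p00_1)

def n0_c3m00_1 :
    ((piece0.hC3m false false)).checkQuick
      ⟨338, ⟨3, 8, 15, 11⟩⟩
      ⟨⟨0, 1, 1⟩, ⟨2000, 2021, 3000⟩, ⟨334, 0, 1000⟩, ⟨256, 296, 1000⟩⟩ = true := by
  decide +kernel

theorem n0_c3m00 : PosD signBox0 (piece0.hC3m false false) :=
  (posD_of_check0 n0_c3m00_1)

def n0_c3ph00_1 :
    ((piece0.hC3p' false false)).checkQuick
      ⟨335, ⟨3, 8, 15, 11⟩⟩
      ⟨⟨0, 1, 1⟩, ⟨2000, 2021, 3000⟩, ⟨334, 0, 1000⟩, ⟨256, 296, 1000⟩⟩ = true := by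
  decide +kernel

theorem n0_c3ph00 : PosD signBox0 (piece0.hC3p' false false) :=
  (posD_of_check0 n0_c3ph00_1)

def n0_c3mh00_1 :
    ((piece0.hC3m' false false)).checkQuick
      ⟨338, ⟨3, 8, 15, 11⟩⟩
      ⟨⟨0, 1, 1⟩, ⟨2000, 2021, 3000⟩, ⟨334, 0, 1000⟩, ⟨256, 296, 1000⟩⟩ = true := by
  decide +kernel

theorem n0_c3mh00 : PosD signBox0 (piece0.hC3m' false false) :=
  (posD_of_check0 n0_c3mh00_1)

def n0_up00_1 :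
    ((piece0.hUp false false)).checkQuick
      ⟨333, ⟨3, 8, 15, 11⟩⟩
      ⟨⟨0, 1, 1⟩, ⟨2000, 2021, 3000⟩, ⟨334, 0, 1000⟩, ⟨256, 296, 1000⟩⟩ = true := by
  decide +kernel

theorem n0_up00 : PosD signBox0 (piece0.hUp false false) :=
  (posD_of_check0 n0_up00_1)

def n0_um00_1 :
    ((piece0.hUm false false)).checkQuick
      ⟨338, ⟨3, 8, 15, 11⟩⟩
      ⟨⟨0, 1, 1⟩, ⟨2000, 2021, 3000⟩, ⟨334, 0, 1000⟩, ⟨256, 296, 1000⟩⟩ = true := by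
  decide +kernel

theorem n0_um00 : PosD signBox0 (piece0.hUm false false) :=
  (posD_of_check0 n0_um00_1)

def n0_tg01_1 :
    ((piece0.hG true (piece0.pEnd false))).checkQuick
      ⟨288, ⟨2, 7, 14, 9⟩⟩
      ⟨⟨0, 1, 1⟩, ⟨2000, 2021, 3000⟩, ⟨334, 0, 1000⟩, ⟨256, 296, 1000⟩⟩ = true := by
  decide +kernel

theorem n0_tg01 : PosD signBox0 (piece0.hG true (piece0.pEnd false)) :=
  (posD_of_check0 n0_tg01_1)

def n0_c2p01_1 :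
    ((piece0.hC2p true (piece0.pEnd false))).checkQuick
      ⟨340, ⟨3, 8, 16, 11⟩⟩
      ⟨⟨0, 1, 1⟩, ⟨2000, 2021, 3000⟩, ⟨334, 0, 1000⟩, ⟨256, 296, 1000⟩⟩ = true := by
  decide +kernel

theorem n0_c2p01 : PosD signBox0 (piece0.hC2p true (piece0.pEnd false)) :=
  (posD_of_check0 n0_c2p01_1)

def n0_c2m01_1 :
    ((piece0.hC2m true (piece0.pEnd false))).checkQuick
      ⟨348, ⟨3, 8, 16, 11⟩⟩
      ⟨⟨0, 1, 1⟩, ⟨2000, 2021, 3000⟩, ⟨334, 0, 1000⟩, ⟨256, 296, 1000⟩⟩ = true := by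
  decide +kernel

theorem n0_c2m01 : PosD signBox0 (piece0.hC2m true (piece0.pEnd false)) :=
  (posD_of_check0 n0_c2m01_1)

def n0_tmg01_1 :
    ((piece0.hTMG true (piece0.pEnd false))).checkQuick
      ⟨302, ⟨2, 7, 14, 10⟩⟩
      ⟨⟨0, 1, 1⟩, ⟨2000, 2021, 3000⟩, ⟨334, 0, 1000⟩, ⟨256, 296, 1000⟩⟩ = true := by
  decide +kernel

theorem n0_tmg01 : PosD signBox0 (piece0.hTMG true (piece0.pEnd false)) :=
  (posD_of_check0 n0_tmg01_1)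

def n0_c3p01_1 :
    ((piece0.hC3p false true)).checkQuick
      ⟨335, ⟨3, 8, 15, 11⟩⟩
      ⟨⟨0, 1, 1⟩, ⟨2000, 2021, 3000⟩, ⟨334, 0, 1000⟩, ⟨256, 296, 1000⟩⟩ = true := by
  decide +kernel

theorem n0_c3p01 : PosD signBox0 (piece0.hC3p false true) :=
  (posD_of_check0 n0_c3p01_1)

def n0_c3m01_1 :
    ((piece0.hC3m false true)).checkQuick
      ⟨338, ⟨3, 8, 15, 11⟩⟩
      ⟨⟨0, 1, 1⟩, ⟨2000, 2021, 3000⟩, ⟨334, 0, 1000⟩, ⟨256, 296, 1000⟩⟩ = true := by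
  decide +kernel

theorem n0_c3m01 : PosD signBox0 (piece0.hC3m false true) :=
  (posD_of_check0 n0_c3m01_1)

def n0_c3ph01_1 :
    ((piece0.hC3p' false true)).checkQuick
      ⟨335, ⟨3, 8, 15, 11⟩⟩
      ⟨⟨0, 1, 1⟩, ⟨2000, 2021, 3000⟩, ⟨334, 0, 1000⟩, ⟨256, 296, 1000⟩⟩ = true := by
  decide +kernel

theorem n0_c3ph01 : PosD signBox0 (piece0.hC3p' false true) :=
  (posD_of_check0 n0_c3ph01_1)

def n0_c3mh01_1 :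
    ((piece0.hC3m' false true)).checkQuick
      ⟨338, ⟨3, 8, 15, 11⟩⟩
      ⟨⟨0, 1, 1⟩, ⟨2000, 2021, 3000⟩, ⟨334, 0, 1000⟩, ⟨256, 296, 1000⟩⟩ = true := by
  decide +kernel

theorem n0_c3mh01 : PosD signBox0 (piece0.hC3m' false true) :=
  (posD_of_check0 n0_c3mh01_1)

def n0_up01_1 :
    ((piece0.hUp false true)).checkQuick
      ⟨333, ⟨3, 8, 15, 11⟩⟩
      ⟨⟨0, 1, 1⟩, ⟨2000, 2021, 3000⟩, ⟨334, 0, 1000⟩, ⟨256, 296, 1000⟩⟩ = true := by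
  decide +kernel

theorem n0_up01 : PosD signBox0 (piece0.hUp false true) :=
  (posD_of_check0 n0_up01_1)

def n0_um01_1 :
    ((piece0.hUm false true)).checkQuick
      ⟨338, ⟨3, 8, 15, 11⟩⟩
      ⟨⟨0, 1, 1⟩, ⟨2000, 2021, 3000⟩, ⟨334, 0, 1000⟩, ⟨256, 296, 1000⟩⟩ = true := by
  decide +kernel

theorem n0_um01 : PosD signBox0 (piece0.hUm false true) :=
  (posD_of_check0 n0_um01_1)

def n0_kap1_1 :
    ((piece0.kap true)).checkQuick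
      ⟨53, ⟨1, 1, 2, 2⟩⟩
      ⟨⟨0, 1, 1⟩, ⟨2000, 2021, 3000⟩, ⟨334, 0, 1000⟩, ⟨256, 296, 1000⟩⟩ = true := by
  decide +kernel

theorem n0_kap1 : PosD signBox0 (piece0.kap true) :=
  (posD_of_check0 n0_kap1_1)

def n0_c11_1 :
    ((piece0.hC1 true)).checkQuick
      ⟨207, ⟨3, 5, 9, 7⟩⟩
      ⟨⟨0, 1, 1⟩, ⟨2000, 2021, 3000⟩, ⟨334, 0, 1000⟩, ⟨256, 296, 1000⟩⟩ = true := by
  decide +kernel

theorem n0_c11 : PosD signBox0 (piece0.hC1 true) :=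
  (posD_of_check0 n0_c11_1)

def n0_c1h1_1 :
    ((piece0.hC1' true)).checkQuick
      ⟨207, ⟨3, 5, 9, 7⟩⟩
      ⟨⟨0, 1, 1⟩, ⟨2000, 2021, 3000⟩, ⟨334, 0, 1000⟩, ⟨256, 296, 1000⟩⟩ = true := by
  decide +kernel

theorem n0_c1h1 : PosD signBox0 (piece0.hC1' true) :=
  (posD_of_check0 n0_c1h1_1)

def n0_tg10_1 :
    ((piece0.hG false (piece0.pEnd true))).checkQuick
      ⟨286, ⟨2, 7, 14, 9⟩⟩
      ⟨⟨0, 1, 1⟩, ⟨2000, 2021, 3000⟩, ⟨334, 0, 1000⟩, ⟨256, 296, 1000⟩⟩ = true := by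
  decide +kernel

theorem n0_tg10 : PosD signBox0 (piece0.hG false (piece0.pEnd true)) :=
  (posD_of_check0 n0_tg10_1)

def n0_c2p10_1 :
    ((piece0.hC2p false (piece0.pEnd true))).checkQuick
      ⟨339, ⟨3, 8, 16, 11⟩⟩
      ⟨⟨0, 1, 1⟩, ⟨2000, 2021, 3000⟩, ⟨334, 0, 1000⟩, ⟨256, 296, 1000⟩⟩ = true := by
  decide +kernel

theorem n0_c2p10 : PosD signBox0 (piece0.hC2p false (piece0.pEnd true)) :=
  (posD_of_check0 n0_c2p10_1)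

def n0_c2m10_1 :
    ((piece0.hC2m false (piece0.pEnd true))).checkQuick
      ⟨347, ⟨3, 8, 16, 11⟩⟩
      ⟨⟨0, 1, 1⟩, ⟨2000, 2021, 3000⟩, ⟨334, 0, 1000⟩, ⟨256, 296, 1000⟩⟩ = true := by
  decide +kernel

theorem n0_c2m10 : PosD signBox0 (piece0.hC2m false (piece0.pEnd true)) :=
  (posD_of_check0 n0_c2m10_1)

def n0_tmg10_1 :
    ((piece0.hTMG false (piece0.pEnd true))).checkQuick
      ⟨301, ⟨2, 7, 14, 10⟩⟩
      ⟨⟨0, 1, 1⟩, ⟨2000, 2021, 3000⟩, ⟨334, 0, 1000⟩, ⟨256, 296, 1000⟩⟩ = true := by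
  decide +kernel

theorem n0_tmg10 : PosD signBox0 (piece0.hTMG false (piece0.pEnd true)) :=
  (posD_of_check0 n0_tmg10_1)

def n0_c3p10_1 :
    ((piece0.hC3p true false)).checkQuick
      ⟨334, ⟨3, 8, 15, 11⟩⟩
      ⟨⟨0, 1, 1⟩, ⟨2000, 2021, 3000⟩, ⟨334, 0, 1000⟩, ⟨256, 296, 1000⟩⟩ = true := by
  decide +kernel

theorem n0_c3p10 : PosD signBox0 (piece0.hC3p true false) :=
  (posD_of_check0 n0_c3p10_1)

def n0_c3m10_1 :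
    ((piece0.hC3m true false)).checkQuick
      ⟨337, ⟨3, 8, 15, 11⟩⟩
      ⟨⟨0, 1, 1⟩, ⟨2000, 2021, 3000⟩, ⟨334, 0, 1000⟩, ⟨256, 296, 1000⟩⟩ = true := by
  decide +kernel

theorem n0_c3m10 : PosD signBox0 (piece0.hC3m true false) :=
  (posD_of_check0 n0_c3m10_1)

def n0_c3ph10_1 :
    ((piece0.hC3p' true false)).checkQuick
      ⟨334, ⟨3, 8, 15, 11⟩⟩
      ⟨⟨0, 1, 1⟩, ⟨2000, 2021, 3000⟩, ⟨334, 0, 1000⟩, ⟨256, 296, 1000⟩⟩ = true := by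
  decide +kernel

theorem n0_c3ph10 : PosD signBox0 (piece0.hC3p' true false) :=
  (posD_of_check0 n0_c3ph10_1)

def n0_c3mh10_1 :
    ((piece0.hC3m' true false)).checkQuick
      ⟨337, ⟨3, 8, 15, 11⟩⟩
      ⟨⟨0, 1, 1⟩, ⟨2000, 2021, 3000⟩, ⟨334, 0, 1000⟩, ⟨256, 296, 1000⟩⟩ = true := by
  decide +kernel

theorem n0_c3mh10 : PosD signBox0 (piece0.hC3m' true false) :=
  (posD_of_check0 n0_c3mh10_1)

def n0_up10_1 :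
    ((piece0.hUp true false)).checkQuick
      ⟨332, ⟨3, 8, 15, 11⟩⟩
      ⟨⟨0, 1, 1⟩, ⟨2000, 2021, 3000⟩, ⟨334, 0, 1000⟩, ⟨256, 296, 1000⟩⟩ = true := by
  decide +kernel

theorem n0_up10 : PosD signBox0 (piece0.hUp true false) :=
  (posD_of_check0 n0_up10_1)

def n0_um10_1 :
    ((piece0.hUm true false)).checkQuick
      ⟨337, ⟨3, 8, 15, 11⟩⟩
      ⟨⟨0, 1, 1⟩, ⟨2000, 2021, 3000⟩, ⟨334, 0, 1000⟩, ⟨256, 296, 1000⟩⟩ = true := by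
  decide +kernel

theorem n0_um10 : PosD signBox0 (piece0.hUm true false) :=
  (posD_of_check0 n0_um10_1)

def n0_tg11_1 :
    ((piece0.hG true (piece0.pEnd true))).checkQuick
      ⟨286, ⟨2, 7, 14, 9⟩⟩
      ⟨⟨0, 1, 1⟩, ⟨2000, 2021, 3000⟩, ⟨334, 0, 1000⟩, ⟨256, 296, 1000⟩⟩ = true := by
  decide +kernel

theorem n0_tg11 : PosD signBox0 (piece0.hG true (piece0.pEnd true)) :=
  (posD_of_check0 n0_tg11_1)

def n0_c2p11_1 :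
    ((piece0.hC2p true (piece0.pEnd true))).checkQuick
      ⟨339, ⟨3, 8, 16, 11⟩⟩
      ⟨⟨0, 1, 1⟩, ⟨2000, 2021, 3000⟩, ⟨334, 0, 1000⟩, ⟨256, 296, 1000⟩⟩ = true := by
  decide +kernel

theorem n0_c2p11 : PosD signBox0 (piece0.hC2p true (piece0.pEnd true)) :=
  (posD_of_check0 n0_c2p11_1)

def n0_c2m11_1 :
    ((piece0.hC2m true (piece0.pEnd true))).checkQuick
      ⟨347, ⟨3, 8, 16, 11⟩⟩
      ⟨⟨0, 1, 1⟩, ⟨2000, 2021, 3000⟩, ⟨334, 0, 1000⟩, ⟨256, 296, 1000⟩⟩ = true := by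
  decide +kernel

theorem n0_c2m11 : PosD signBox0 (piece0.hC2m true (piece0.pEnd true)) :=
  (posD_of_check0 n0_c2m11_1)

def n0_tmg11_1 :
    ((piece0.hTMG true (piece0.pEnd true))).checkQuick
      ⟨301, ⟨2, 7, 14, 10⟩⟩
      ⟨⟨0, 1, 1⟩, ⟨2000, 2021, 3000⟩, ⟨334, 0, 1000⟩, ⟨256, 296, 1000⟩⟩ = true := by
  decide +kernel

theorem n0_tmg11 : PosD signBox0 (piece0.hTMG true (piece0.pEnd true)) :=
  (posD_of_check0 n0_tmg11_1)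

def n0_c3p11_1 :
    ((piece0.hC3p true true)).checkQuick
      ⟨334, ⟨3, 8, 15, 11⟩⟩
      ⟨⟨0, 1, 1⟩, ⟨2000, 2021, 3000⟩, ⟨334, 0, 1000⟩, ⟨256, 296, 1000⟩⟩ = true := by
  decide +kernel

theorem n0_c3p11 : PosD signBox0 (piece0.hC3p true true) :=
  (posD_of_check0 n0_c3p11_1)

def n0_c3m11_1 :
    ((piece0.hC3m true true)).checkQuick
      ⟨337, ⟨3, 8, 15, 11⟩⟩
      ⟨⟨0, 1, 1⟩, ⟨2000, 2021, 3000⟩, ⟨334, 0, 1000⟩, ⟨256, 296, 1000⟩⟩ = true := by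
  decide +kernel

theorem n0_c3m11 : PosD signBox0 (piece0.hC3m true true) :=
  (posD_of_check0 n0_c3m11_1)

def n0_c3ph11_1 :
    ((piece0.hC3p' true true)).checkQuick
      ⟨334, ⟨3, 8, 15, 11⟩⟩
      ⟨⟨0, 1, 1⟩, ⟨2000, 2021, 3000⟩, ⟨334, 0, 1000⟩, ⟨256, 296, 1000⟩⟩ = true := by
  decide +kernel

theorem n0_c3ph11 : PosD signBox0 (piece0.hC3p' true true) :=
  (posD_of_check0 n0_c3ph11_1)

def n0_c3mh11_1 :
    ((piece0.hC3m' true true)).checkQuick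
      ⟨337, ⟨3, 8, 15, 11⟩⟩
      ⟨⟨0, 1, 1⟩, ⟨2000, 2021, 3000⟩, ⟨334, 0, 1000⟩, ⟨256, 296, 1000⟩⟩ = true := by
  decide +kernel

theorem n0_c3mh11 : PosD signBox0 (piece0.hC3m' true true) :=
  (posD_of_check0 n0_c3mh11_1)

def n0_up11_1 :
    ((piece0.hUp true true)).checkQuick
      ⟨332, ⟨3, 8, 15, 11⟩⟩
      ⟨⟨0, 1, 1⟩, ⟨2000, 2021, 3000⟩, ⟨334, 0, 1000⟩, ⟨256, 296, 1000⟩⟩ = true := by
  decide +kernel

theorem n0_up11 : PosD signBox0 (piece0.hUp true true) :=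
  (posD_of_check0 n0_up11_1)

def n0_um11_1 :
    ((piece0.hUm true true)).checkQuick
      ⟨337, ⟨3, 8, 15, 11⟩⟩
      ⟨⟨0, 1, 1⟩, ⟨2000, 2021, 3000⟩, ⟨334, 0, 1000⟩, ⟨256, 296, 1000⟩⟩ = true := by
  decide +kernel

theorem n0_um11 : PosD signBox0 (piece0.hUm true true) :=
  (posD_of_check0 n0_um11_1)

def n0_vG_1 :
    (hVG).checkQuick
      ⟨140, ⟨0, 5, 8, 3⟩⟩
      ⟨⟨0, 1, 1⟩, ⟨2000, 2021, 3000⟩, ⟨334, 0, 1000⟩, ⟨256, 296, 1000⟩⟩ = true := by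
  decide +kernel

theorem n0_vG : PosD signBox0 hVG :=
  (posD_of_check0 n0_vG_1)

def n0_vMG_1 :
    (hVMG).checkQuick
      ⟨150, ⟨0, 4, 8, 4⟩⟩
      ⟨⟨0, 1, 1⟩, ⟨2000, 2021, 3000⟩, ⟨334, 0, 1000⟩, ⟨256, 296, 1000⟩⟩ = true := by
  decide +kernel

theorem n0_vMG : PosD signBox0 hVMG :=
  (posD_of_check0 n0_vMG_1)

def n0_ak_1 :
    (hAk).checkQuick
      ⟨126, ⟨0, 4, 6, 4⟩⟩
      ⟨⟨0, 1, 1⟩, ⟨2000, 2021, 3000⟩, ⟨334, 0, 1000⟩, ⟨256, 296, 1000⟩⟩ = true := by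
  decide +kernel

theorem n0_ak : PosD signBox0 hAk :=
  (posD_of_check0 n0_ak_1)

def n0_aw_1 :
    (hAw).checkQuick
      ⟨130, ⟨0, 5, 7, 3⟩⟩
      ⟨⟨0, 1, 1⟩, ⟨2000, 2021, 3000⟩, ⟨334, 0, 1000⟩, ⟨256, 296, 1000⟩⟩ = true := by
  decide +kernel

theorem n0_aw : PosD signBox0 hAw :=
  (posD_of_check0 n0_aw_1)

def n0_gk_1 :
    (hGk).checkQuick
      ⟨126, ⟨0, 4, 6, 4⟩⟩
      ⟨⟨0, 1, 1⟩, ⟨2000, 2021, 3000⟩, ⟨334, 0, 1000⟩, ⟨256, 296, 1000⟩⟩ = true := by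
  decide +kernel

theorem n0_gk : PosD signBox0 hGk :=
  (posD_of_check0 n0_gk_1)

def n0_gw_1 :
    (hGw).checkQuick
      ⟨130, ⟨0, 5, 7, 3⟩⟩
      ⟨⟨0, 1, 1⟩, ⟨2000, 2021, 3000⟩, ⟨334, 0, 1000⟩, ⟨256, 296, 1000⟩⟩ = true := by
  decide +kernel

theorem n0_gw : PosD signBox0 hGw :=
  (posD_of_check0 n0_gw_1)

def n0_ek_1 :
    (hMk).checkQuick
      ⟨74, ⟨0, 2, 3, 3⟩⟩
      ⟨⟨0, 1, 1⟩, ⟨2000, 2021, 3000⟩, ⟨334, 0, 1000⟩, ⟨256, 296, 1000⟩⟩ = true := by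
  decide +kernel

theorem n0_ek : PosD signBox0 hMk :=
  (posD_of_check0 n0_ek_1)

def n0_ew_1 :
    (hMw).checkQuick
      ⟨78, ⟨0, 3, 4, 2⟩⟩
      ⟨⟨0, 1, 1⟩, ⟨2000, 2021, 3000⟩, ⟨334, 0, 1000⟩, ⟨256, 296, 1000⟩⟩ = true := by
  decide +kernel

theorem n0_ew : PosD signBox0 hMw :=
  (posD_of_check0 n0_ew_1)

end Vale.Agent.P100.Calib.Closed.Six.Neg
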