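import Vale.Agent.P100.Calib.SlabSixNegPieces

/-!
# Checks of the signs on piece 1 of `u ≤ 0`, dimension six
-/

-- The checks are definitions, so that they run one after another with little memory.
set_option linter.defProp false

namespace Vale.Agent.P100.Calib.Closed.Six.Neg

open BoxPos Tail

local instance sixNegSign1Mul : Mul Ex := ⟨Ex.mul⟩

def n1_pp_1 :
    (piece1.xPL).checkQuick
      ⟨75, ⟨1, 1, 3, 3⟩⟩
      ⟨⟨0, 1, 1⟩, ⟨2000, 2021, 3000⟩, ⟨100, 334, 1000⟩, ⟨295, 515, 1000⟩⟩ = true := by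
  decide +kernel

theorem n1_pp : PosD signBox1 piece1.xPL :=
  (posD_of_check n1_pp_1)

def n1_v2p_1 :
    (piece1.hV2p).checkQuick
      ⟨197, ⟨1, 6, 10, 5⟩⟩
      ⟨⟨0, 1, 1⟩, ⟨2000, 2021, 3000⟩, ⟨100, 334, 1000⟩, ⟨295, 515, 1000⟩⟩ = true := by
  decide +kernel

theorem n1_v2p : PosD signBox1 piece1.hV2p :=
  (posD_of_check n1_v2p_1)

def n1_v2m_1 :
    (piece1.hV2m).checkQuick
      ⟨199, ⟨1, 6, 10, 5⟩⟩
      ⟨⟨0, 1, 1⟩, ⟨2000, 2021, 3000⟩, ⟨100, 334, 1000⟩, ⟨295, 515, 1000⟩⟩ = true := by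
  decide +kernel

theorem n1_v2m : PosD signBox1 piece1.hV2m :=
  (posD_of_check n1_v2m_1)

def n1_v3p_1 :
    (piece1.hV3p).checkQuick
      ⟨186, ⟨1, 6, 9, 5⟩⟩
      ⟨⟨0, 1, 1⟩, ⟨2000, 2021, 3000⟩, ⟨100, 334, 1000⟩, ⟨295, 515, 1000⟩⟩ = true := by
  decide +kernel

theorem n1_v3p : PosD signBox1 piece1.hV3p :=
  (posD_of_check n1_v3p_1)

def n1_v3m_1 :
    (piece1.hV3m).checkQuick
      ⟨187, ⟨1, 6, 9, 5⟩⟩
      ⟨⟨0, 1, 1⟩, ⟨2000, 2021, 3000⟩, ⟨100, 334, 1000⟩, ⟨295, 515, 1000⟩⟩ = true := by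
  decide +kernel

theorem n1_v3m : PosD signBox1 piece1.hV3m :=
  (posD_of_check n1_v3m_1)

def n1_k2p_1 :
    ((piece1.k2p piece1.xE)).checkQuick
      ⟨57, ⟨1, 1, 2, 2⟩⟩
      ⟨⟨0, 1, 1⟩, ⟨2000, 2021, 3000⟩, ⟨100, 334, 1000⟩, ⟨295, 515, 1000⟩⟩ = true := by
  decide +kernel

theorem n1_k2p : PosD signBox1 (piece1.k2p piece1.xE) :=
  (posD_of_check n1_k2p_1)

def n1_k2m_1 :
    ((piece1.k2m piece1.xE)).checkQuick
      ⟨59, ⟨1, 1, 2, 2⟩⟩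
      ⟨⟨0, 1, 1⟩, ⟨2000, 2021, 3000⟩, ⟨100, 334, 1000⟩, ⟨295, 515, 1000⟩⟩ = true := by
  decide +kernel

theorem n1_k2m : PosD signBox1 (piece1.k2m piece1.xE) :=
  (posD_of_check n1_k2m_1)

def n1_kap0_1 :
    ((piece1.kap false)).checkQuick
      ⟨53, ⟨1, 1, 2, 2⟩⟩
      ⟨⟨0, 1, 1⟩, ⟨2000, 2021, 3000⟩, ⟨100, 334, 1000⟩, ⟨295, 515, 1000⟩⟩ = true := by
  decide +kernel

theorem n1_kap0 : PosD signBox1 (piece1.kap false) :=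
  (posD_of_check n1_kap0_1)

def n1_c10_1 :
    ((piece1.hC1 false)).checkQuick
      ⟨208, ⟨3, 5, 9, 7⟩⟩
      ⟨⟨0, 1, 1⟩, ⟨2000, 2021, 3000⟩, ⟨100, 334, 1000⟩, ⟨295, 515, 1000⟩⟩ = true := by
  decide +kernel

theorem n1_c10 : PosD signBox1 (piece1.hC1 false) :=
  (posD_of_check n1_c10_1)

def n1_c1h0_1 :
    ((piece1.hC1' false)).checkQuick
      ⟨208, ⟨3, 5, 9, 7⟩⟩
      ⟨⟨0, 1, 1⟩, ⟨2000, 2021, 3000⟩, ⟨100, 334, 1000⟩, ⟨295, 515, 1000⟩⟩ = true := by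
  decide +kernel

theorem n1_c1h0 : PosD signBox1 (piece1.hC1' false) :=
  (posD_of_check n1_c1h0_1)

def n1_tg00_1 :
    ((piece1.hG false (piece1.pEnd false))).checkQuick
      ⟨287, ⟨2, 7, 14, 9⟩⟩
      ⟨⟨0, 1, 1⟩, ⟨2000, 2021, 3000⟩, ⟨100, 334, 1000⟩, ⟨295, 515, 1000⟩⟩ = true := by
  decide +kernel

theorem n1_tg00 : PosD signBox1 (piece1.hG false (piece1.pEnd false)) :=
  (posD_of_check n1_tg00_1)

def n1_c2p00_1 :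
    ((piece1.hC2p false (piece1.pEnd false))).checkQuick
      ⟨343, ⟨3, 8, 16, 11⟩⟩
      ⟨⟨0, 1, 1⟩, ⟨2000, 2021, 3000⟩, ⟨100, 334, 1000⟩, ⟨295, 515, 1000⟩⟩ = true := by
  decide +kernel

theorem n1_c2p00 : PosD signBox1 (piece1.hC2p false (piece1.pEnd false)) :=
  (posD_of_check n1_c2p00_1)

def n1_c2m00_1 :
    ((piece1.hC2m false (piece1.pEnd false))).checkQuick
      ⟨345, ⟨3, 8, 16, 11⟩⟩
      ⟨⟨0, 1, 1⟩, ⟨2000, 2021, 3000⟩, ⟨100, 334, 1000⟩, ⟨295, 515, 1000⟩⟩ = true := by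
  decide +kernel

theorem n1_c2m00 : PosD signBox1 (piece1.hC2m false (piece1.pEnd false)) :=
  (posD_of_check n1_c2m00_1)

def n1_tmg00_1 :
    ((piece1.hTMG false (piece1.pEnd false))).checkQuick
      ⟨302, ⟨2, 7, 14, 10⟩⟩
      ⟨⟨0, 1, 1⟩, ⟨2000, 2021, 3000⟩, ⟨100, 334, 1000⟩, ⟨295, 515, 1000⟩⟩ = true := by
  decide +kernel

theorem n1_tmg00 : PosD signBox1 (piece1.hTMG false (piece1.pEnd false)) :=
  (posD_of_check n1_tmg00_1)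

def n1_c3p00_1 :
    ((piece1.hC3p false false)).checkQuick
      ⟨336, ⟨3, 8, 15, 11⟩⟩
      ⟨⟨0, 1, 1⟩, ⟨2000, 2021, 3000⟩, ⟨100, 334, 1000⟩, ⟨295, 515, 1000⟩⟩ = true := by
  decide +kernel

theorem n1_c3p00 : PosD signBox1 (piece1.hC3p false false) :=
  (posD_of_check n1_c3p00_1)

def n1_c3m00_1 :
    ((piece1.hC3m false false)).checkQuick
      ⟨336, ⟨3, 8, 15, 11⟩⟩
      ⟨⟨0, 1, 1⟩, ⟨2000, 2021, 3000⟩, ⟨100, 334, 1000⟩, ⟨295, 515, 1000⟩⟩ = true := by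
  decide +kernel

theorem n1_c3m00 : PosD signBox1 (piece1.hC3m false false) :=
  (posD_of_check n1_c3m00_1)

def n1_c3ph00_1 :
    ((piece1.hC3p' false false)).checkQuick
      ⟨336, ⟨3, 8, 15, 11⟩⟩
      ⟨⟨0, 1, 1⟩, ⟨2000, 2021, 3000⟩, ⟨100, 334, 1000⟩, ⟨295, 515, 1000⟩⟩ = true := by
  decide +kernel

theorem n1_c3ph00 : PosD signBox1 (piece1.hC3p' false false) :=
  (posD_of_check n1_c3ph00_1)

def n1_c3mh00_1 :
    ((piece1.hC3m' false false)).checkQuick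
      ⟨336, ⟨3, 8, 15, 11⟩⟩
      ⟨⟨0, 1, 1⟩, ⟨2000, 2021, 3000⟩, ⟨100, 334, 1000⟩, ⟨295, 515, 1000⟩⟩ = true := by
  decide +kernel

theorem n1_c3mh00 : PosD signBox1 (piece1.hC3m' false false) :=
  (posD_of_check n1_c3mh00_1)

def n1_up00_1 :
    ((piece1.hUp false false)).checkQuick
      ⟨334, ⟨3, 8, 15, 11⟩⟩
      ⟨⟨0, 1, 1⟩, ⟨2000, 2021, 3000⟩, ⟨100, 334, 1000⟩, ⟨295, 515, 1000⟩⟩ = true := by
  decide +kernel

theorem n1_up00 : PosD signBox1 (piece1.hUp false false) :=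
  (posD_of_check n1_up00_1)

def n1_um00_1 :
    ((piece1.hUm false false)).checkQuick
      ⟨336, ⟨3, 8, 15, 11⟩⟩
      ⟨⟨0, 1, 1⟩, ⟨2000, 2021, 3000⟩, ⟨100, 334, 1000⟩, ⟨295, 515, 1000⟩⟩ = true := by
  decide +kernel

theorem n1_um00 : PosD signBox1 (piece1.hUm false false) :=
  (posD_of_check n1_um00_1)

def n1_tg01_1 :
    ((piece1.hG true (piece1.pEnd false))).checkQuick
      ⟨287, ⟨2, 7, 14, 9⟩⟩
      ⟨⟨0, 1, 1⟩, ⟨2000, 2021, 3000⟩, ⟨100, 334, 1000⟩, ⟨295, 515, 1000⟩⟩ = true := by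
  decide +kernel

theorem n1_tg01 : PosD signBox1 (piece1.hG true (piece1.pEnd false)) :=
  (posD_of_check n1_tg01_1)

def n1_c2p01_1 :
    ((piece1.hC2p true (piece1.pEnd false))).checkQuick
      ⟨343, ⟨3, 8, 16, 11⟩⟩
      ⟨⟨0, 1, 1⟩, ⟨2000, 2021, 3000⟩, ⟨100, 334, 1000⟩, ⟨295, 515, 1000⟩⟩ = true := by
  decide +kernel

theorem n1_c2p01 : PosD signBox1 (piece1.hC2p true (piece1.pEnd false)) :=
  (posD_of_check n1_c2p01_1)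

def n1_c2m01_1 :
    ((piece1.hC2m true (piece1.pEnd false))).checkQuick
      ⟨345, ⟨3, 8, 16, 11⟩⟩
      ⟨⟨0, 1, 1⟩, ⟨2000, 2021, 3000⟩, ⟨100, 334, 1000⟩, ⟨295, 515, 1000⟩⟩ = true := by
  decide +kernel

theorem n1_c2m01 : PosD signBox1 (piece1.hC2m true (piece1.pEnd false)) :=
  (posD_of_check n1_c2m01_1)

def n1_tmg01_1 :
    ((piece1.hTMG true (piece1.pEnd false))).checkQuick
      ⟨302, ⟨2, 7, 14, 10⟩⟩
      ⟨⟨0, 1, 1⟩, ⟨2000, 2021, 3000⟩, ⟨100, 334, 1000⟩, ⟨295, 515, 1000⟩⟩ = true := by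
  decide +kernel

theorem n1_tmg01 : PosD signBox1 (piece1.hTMG true (piece1.pEnd false)) :=
  (posD_of_check n1_tmg01_1)

def n1_c3p01_1 :
    ((piece1.hC3p false true)).checkQuick
      ⟨336, ⟨3, 8, 15, 11⟩⟩
      ⟨⟨0, 1, 1⟩, ⟨2000, 2021, 3000⟩, ⟨100, 334, 1000⟩, ⟨295, 515, 1000⟩⟩ = true := by
  decide +kernel

theorem n1_c3p01 : PosD signBox1 (piece1.hC3p false true) :=
  (posD_of_check n1_c3p01_1)

def n1_c3m01_1 :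
    ((piece1.hC3m false true)).checkQuick
      ⟨336, ⟨3, 8, 15, 11⟩⟩
      ⟨⟨0, 1, 1⟩, ⟨2000, 2021, 3000⟩, ⟨100, 334, 1000⟩, ⟨295, 515, 1000⟩⟩ = true := by
  decide +kernel

theorem n1_c3m01 : PosD signBox1 (piece1.hC3m false true) :=
  (posD_of_check n1_c3m01_1)

def n1_c3ph01_1 :
    ((piece1.hC3p' false true)).checkQuick
      ⟨336, ⟨3, 8, 15, 11⟩⟩
      ⟨⟨0, 1, 1⟩, ⟨2000, 2021, 3000⟩, ⟨100, 334, 1000⟩, ⟨295, 515, 1000⟩⟩ = true := by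
  decide +kernel

theorem n1_c3ph01 : PosD signBox1 (piece1.hC3p' false true) :=
  (posD_of_check n1_c3ph01_1)

def n1_c3mh01_1 :
    ((piece1.hC3m' false true)).checkQuick
      ⟨336, ⟨3, 8, 15, 11⟩⟩
      ⟨⟨0, 1, 1⟩, ⟨2000, 2021, 3000⟩, ⟨100, 334, 1000⟩, ⟨295, 515, 1000⟩⟩ = true := by
  decide +kernel

theorem n1_c3mh01 : PosD signBox1 (piece1.hC3m' false true) :=
  (posD_of_check n1_c3mh01_1)

def n1_up01_1 :
    ((piece1.hUp false true)).checkQuick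
      ⟨334, ⟨3, 8, 15, 11⟩⟩
      ⟨⟨0, 1, 1⟩, ⟨2000, 2021, 3000⟩, ⟨100, 334, 1000⟩, ⟨295, 515, 1000⟩⟩ = true := by
  decide +kernel

theorem n1_up01 : PosD signBox1 (piece1.hUp false true) :=
  (posD_of_check n1_up01_1)

def n1_um01_1 :
    ((piece1.hUm false true)).checkQuick
      ⟨336, ⟨3, 8, 15, 11⟩⟩
      ⟨⟨0, 1, 1⟩, ⟨2000, 2021, 3000⟩, ⟨100, 334, 1000⟩, ⟨295, 515, 1000⟩⟩ = true := by
  decide +kernel

theorem n1_um01 : PosD signBox1 (piece1.hUm false true) :=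
  (posD_of_check n1_um01_1)

def n1_kap1_1 :
    ((piece1.kap true)).checkQuick
      ⟨54, ⟨1, 1, 2, 2⟩⟩
      ⟨⟨0, 1, 1⟩, ⟨2000, 2021, 3000⟩, ⟨100, 334, 1000⟩, ⟨295, 515, 1000⟩⟩ = true := by
  decide +kernel

theorem n1_kap1 : PosD signBox1 (piece1.kap true) :=
  (posD_of_check n1_kap1_1)

def n1_c11_1 :
    ((piece1.hC1 true)).checkQuick
      ⟨208, ⟨3, 5, 9, 7⟩⟩
      ⟨⟨0, 1, 1⟩, ⟨2000, 2021, 3000⟩, ⟨100, 334, 1000⟩, ⟨295, 515, 1000⟩⟩ = true := by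
  decide +kernel

theorem n1_c11 : PosD signBox1 (piece1.hC1 true) :=
  (posD_of_check n1_c11_1)

def n1_c1h1_1 :
    ((piece1.hC1' true)).checkQuick
      ⟨208, ⟨3, 5, 9, 7⟩⟩
      ⟨⟨0, 1, 1⟩, ⟨2000, 2021, 3000⟩, ⟨100, 334, 1000⟩, ⟨295, 515, 1000⟩⟩ = true := by
  decide +kernel

theorem n1_c1h1 : PosD signBox1 (piece1.hC1' true) :=
  (posD_of_check n1_c1h1_1)

def n1_tg10_1 :
    ((piece1.hG false (piece1.pEnd true))).checkQuick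
      ⟨286, ⟨2, 7, 14, 9⟩⟩
      ⟨⟨0, 1, 1⟩, ⟨2000, 2021, 3000⟩, ⟨100, 334, 1000⟩, ⟨295, 515, 1000⟩⟩ = true := by
  decide +kernel

theorem n1_tg10 : PosD signBox1 (piece1.hG false (piece1.pEnd true)) :=
  (posD_of_check n1_tg10_1)

def n1_c2p10_1 :
    ((piece1.hC2p false (piece1.pEnd true))).checkQuick
      ⟨341, ⟨3, 8, 16, 11⟩⟩
      ⟨⟨0, 1, 1⟩, ⟨2000, 2021, 3000⟩, ⟨100, 217, 1000⟩, ⟨295, 515, 1000⟩⟩ = true := by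
  decide +kernel

def n1_c2p10_2 :
    ((piece1.hC2p false (piece1.pEnd true))).checkQuick
      ⟨343, ⟨3, 8, 16, 11⟩⟩
      ⟨⟨0, 1, 1⟩, ⟨2000, 2021, 3000⟩, ⟨217, 334, 1000⟩, ⟨295, 515, 1000⟩⟩ = true := by
  decide +kernel

theorem n1_c2p10 : PosD signBox1 (piece1.hC2p false (piece1.pEnd true)) :=
  (posD_join₂ (posD_of_check n1_c2p10_1) (posD_of_check n1_c2p10_2))

def n1_c2m10_1 :
    ((piece1.hC2m false (piece1.pEnd true))).checkQuick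
      ⟨344, ⟨3, 8, 16, 11⟩⟩
      ⟨⟨0, 1, 1⟩, ⟨2000, 2021, 3000⟩, ⟨100, 334, 1000⟩, ⟨295, 515, 1000⟩⟩ = true := by
  decide +kernel

theorem n1_c2m10 : PosD signBox1 (piece1.hC2m false (piece1.pEnd true)) :=
  (posD_of_check n1_c2m10_1)

def n1_tmg10_1 :
    ((piece1.hTMG false (piece1.pEnd true))).checkQuick
      ⟨302, ⟨2, 7, 14, 10⟩⟩
      ⟨⟨0, 1, 1⟩, ⟨2000, 2021, 3000⟩, ⟨100, 334, 1000⟩, ⟨295, 515, 1000⟩⟩ = true := by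
  decide +kernel

theorem n1_tmg10 : PosD signBox1 (piece1.hTMG false (piece1.pEnd true)) :=
  (posD_of_check n1_tmg10_1)

def n1_c3p10_1 :
    ((piece1.hC3p true false)).checkQuick
      ⟨336, ⟨3, 8, 15, 11⟩⟩
      ⟨⟨0, 1, 1⟩, ⟨2000, 2021, 3000⟩, ⟨100, 334, 1000⟩, ⟨295, 515, 1000⟩⟩ = true := by
  decide +kernel

theorem n1_c3p10 : PosD signBox1 (piece1.hC3p true false) :=
  (posD_of_check n1_c3p10_1)

def n1_c3m10_1 :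
    ((piece1.hC3m true false)).checkQuick
      ⟨336, ⟨3, 8, 15, 11⟩⟩
      ⟨⟨0, 1, 1⟩, ⟨2000, 2021, 3000⟩, ⟨100, 334, 1000⟩, ⟨295, 515, 1000⟩⟩ = true := by
  decide +kernel

theorem n1_c3m10 : PosD signBox1 (piece1.hC3m true false) :=
  (posD_of_check n1_c3m10_1)

def n1_c3ph10_1 :
    ((piece1.hC3p' true false)).checkQuick
      ⟨336, ⟨3, 8, 15, 11⟩⟩
      ⟨⟨0, 1, 1⟩, ⟨2000, 2021, 3000⟩, ⟨100, 334, 1000⟩, ⟨295, 515, 1000⟩⟩ = true := by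
  decide +kernel

theorem n1_c3ph10 : PosD signBox1 (piece1.hC3p' true false) :=
  (posD_of_check n1_c3ph10_1)

def n1_c3mh10_1 :
    ((piece1.hC3m' true false)).checkQuick
      ⟨336, ⟨3, 8, 15, 11⟩⟩
      ⟨⟨0, 1, 1⟩, ⟨2000, 2021, 3000⟩, ⟨100, 334, 1000⟩, ⟨295, 515, 1000⟩⟩ = true := by
  decide +kernel

theorem n1_c3mh10 : PosD signBox1 (piece1.hC3m' true false) :=
  (posD_of_check n1_c3mh10_1)

def n1_up10_1 :
    ((piece1.hUp true false)).checkQuick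
      ⟨334, ⟨3, 8, 15, 11⟩⟩
      ⟨⟨0, 1, 1⟩, ⟨2000, 2021, 3000⟩, ⟨100, 334, 1000⟩, ⟨295, 515, 1000⟩⟩ = true := by
  decide +kernel

theorem n1_up10 : PosD signBox1 (piece1.hUp true false) :=
  (posD_of_check n1_up10_1)

def n1_um10_1 :
    ((piece1.hUm true false)).checkQuick
      ⟨335, ⟨3, 8, 15, 11⟩⟩
      ⟨⟨0, 1, 1⟩, ⟨2000, 2021, 3000⟩, ⟨100, 334, 1000⟩, ⟨295, 515, 1000⟩⟩ = true := by
  decide +kernel

theorem n1_um10 : PosD signBox1 (piece1.hUm true false) :=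
  (posD_of_check n1_um10_1)

def n1_tg11_1 :
    ((piece1.hG true (piece1.pEnd true))).checkQuick
      ⟨286, ⟨2, 7, 14, 9⟩⟩
      ⟨⟨0, 1, 1⟩, ⟨2000, 2021, 3000⟩, ⟨100, 334, 1000⟩, ⟨295, 515, 1000⟩⟩ = true := by
  decide +kernel

theorem n1_tg11 : PosD signBox1 (piece1.hG true (piece1.pEnd true)) :=
  (posD_of_check n1_tg11_1)

def n1_c2p11_1 :
    ((piece1.hC2p true (piece1.pEnd true))).checkQuick
      ⟨342, ⟨3, 8, 16, 11⟩⟩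
      ⟨⟨0, 1, 1⟩, ⟨2000, 2021, 3000⟩, ⟨100, 334, 1000⟩, ⟨295, 515, 1000⟩⟩ = true := by
  decide +kernel

theorem n1_c2p11 : PosD signBox1 (piece1.hC2p true (piece1.pEnd true)) :=
  (posD_of_check n1_c2p11_1)

def n1_c2m11_1 :
    ((piece1.hC2m true (piece1.pEnd true))).checkQuick
      ⟨344, ⟨3, 8, 16, 11⟩⟩
      ⟨⟨0, 1, 1⟩, ⟨2000, 2021, 3000⟩, ⟨100, 334, 1000⟩, ⟨295, 515, 1000⟩⟩ = true := by
  decide +kernel

theorem n1_c2m11 : PosD signBox1 (piece1.hC2m true (piece1.pEnd true)) :=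
  (posD_of_check n1_c2m11_1)

def n1_tmg11_1 :
    ((piece1.hTMG true (piece1.pEnd true))).checkQuick
      ⟨302, ⟨2, 7, 14, 10⟩⟩
      ⟨⟨0, 1, 1⟩, ⟨2000, 2021, 3000⟩, ⟨100, 334, 1000⟩, ⟨295, 515, 1000⟩⟩ = true := by
  decide +kernel

theorem n1_tmg11 : PosD signBox1 (piece1.hTMG true (piece1.pEnd true)) :=
  (posD_of_check n1_tmg11_1)

def n1_c3p11_1 :
    ((piece1.hC3p true true)).checkQuick
      ⟨336, ⟨3, 8, 15, 11⟩⟩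
      ⟨⟨0, 1, 1⟩, ⟨2000, 2021, 3000⟩, ⟨100, 334, 1000⟩, ⟨295, 515, 1000⟩⟩ = true := by
  decide +kernel

theorem n1_c3p11 : PosD signBox1 (piece1.hC3p true true) :=
  (posD_of_check n1_c3p11_1)

def n1_c3m11_1 :
    ((piece1.hC3m true true)).checkQuick
      ⟨336, ⟨3, 8, 15, 11⟩⟩
      ⟨⟨0, 1, 1⟩, ⟨2000, 2021, 3000⟩, ⟨100, 334, 1000⟩, ⟨295, 515, 1000⟩⟩ = true := by
  decide +kernel

theorem n1_c3m11 : PosD signBox1 (piece1.hC3m true true) :=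
  (posD_of_check n1_c3m11_1)

def n1_c3ph11_1 :
    ((piece1.hC3p' true true)).checkQuick
      ⟨336, ⟨3, 8, 15, 11⟩⟩
      ⟨⟨0, 1, 1⟩, ⟨2000, 2021, 3000⟩, ⟨100, 334, 1000⟩, ⟨295, 515, 1000⟩⟩ = true := by
  decide +kernel

theorem n1_c3ph11 : PosD signBox1 (piece1.hC3p' true true) :=
  (posD_of_check n1_c3ph11_1)

def n1_c3mh11_1 :
    ((piece1.hC3m' true true)).checkQuick
      ⟨336, ⟨3, 8, 15, 11⟩⟩
      ⟨⟨0, 1, 1⟩, ⟨2000, 2021, 3000⟩, ⟨100, 334, 1000⟩, ⟨295, 515, 1000⟩⟩ = true := by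
  decide +kernel

theorem n1_c3mh11 : PosD signBox1 (piece1.hC3m' true true) :=
  (posD_of_check n1_c3mh11_1)

def n1_up11_1 :
    ((piece1.hUp true true)).checkQuick
      ⟨334, ⟨3, 8, 15, 11⟩⟩
      ⟨⟨0, 1, 1⟩, ⟨2000, 2021, 3000⟩, ⟨100, 334, 1000⟩, ⟨295, 515, 1000⟩⟩ = true := by
  decide +kernel

theorem n1_up11 : PosD signBox1 (piece1.hUp true true) :=
  (posD_of_check n1_up11_1)

def n1_um11_1 :
    ((piece1.hUm true true)).checkQuick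
      ⟨335, ⟨3, 8, 15, 11⟩⟩
      ⟨⟨0, 1, 1⟩, ⟨2000, 2021, 3000⟩, ⟨100, 334, 1000⟩, ⟨295, 515, 1000⟩⟩ = true := by
  decide +kernel

theorem n1_um11 : PosD signBox1 (piece1.hUm true true) :=
  (posD_of_check n1_um11_1)

def n1_vG_1 :
    (hVG).checkQuick
      ⟨141, ⟨0, 5, 8, 3⟩⟩
      ⟨⟨0, 1, 1⟩, ⟨2000, 2021, 3000⟩, ⟨100, 334, 1000⟩, ⟨295, 515, 1000⟩⟩ = true := by
  decide +kernel

theorem n1_vG : PosD signBox1 hVG :=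
  (posD_of_check n1_vG_1)

def n1_vMG_1 :
    (hVMG).checkQuick
      ⟨151, ⟨0, 4, 8, 4⟩⟩
      ⟨⟨0, 1, 1⟩, ⟨2000, 2021, 3000⟩, ⟨100, 334, 1000⟩, ⟨295, 515, 1000⟩⟩ = true := by
  decide +kernel

theorem n1_vMG : PosD signBox1 hVMG :=
  (posD_of_check n1_vMG_1)

def n1_ak_1 :
    (hAk).checkQuick
      ⟨128, ⟨0, 4, 6, 4⟩⟩
      ⟨⟨0, 1, 1⟩, ⟨2000, 2021, 3000⟩, ⟨100, 334, 1000⟩, ⟨295, 515, 1000⟩⟩ = true := by
  decide +kernel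

theorem n1_ak : PosD signBox1 hAk :=
  (posD_of_check n1_ak_1)

def n1_aw_1 :
    (hAw).checkQuick
      ⟨131, ⟨0, 5, 7, 3⟩⟩
      ⟨⟨0, 1, 1⟩, ⟨2000, 2021, 3000⟩, ⟨100, 334, 1000⟩, ⟨295, 515, 1000⟩⟩ = true := by
  decide +kernel

theorem n1_aw : PosD signBox1 hAw :=
  (posD_of_check n1_aw_1)

def n1_gk_1 :
    (hGk).checkQuick
      ⟨128, ⟨0, 4, 6, 4⟩⟩
      ⟨⟨0, 1, 1⟩, ⟨2000, 2021, 3000⟩, ⟨100, 334, 1000⟩, ⟨295, 515, 1000⟩⟩ = true := by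
  decide +kernel

theorem n1_gk : PosD signBox1 hGk :=
  (posD_of_check n1_gk_1)

def n1_gw_1 :
    (hGw).checkQuick
      ⟨131, ⟨0, 5, 7, 3⟩⟩
      ⟨⟨0, 1, 1⟩, ⟨2000, 2021, 3000⟩, ⟨100, 334, 1000⟩, ⟨295, 515, 1000⟩⟩ = true := by
  decide +kernel

theorem n1_gw : PosD signBox1 hGw :=
  (posD_of_check n1_gw_1)

def n1_ek_1 :
    (hMk).checkQuick
      ⟨75, ⟨0, 2, 3, 3⟩⟩
      ⟨⟨0, 1, 1⟩, ⟨2000, 2021, 3000⟩, ⟨100, 334, 1000⟩, ⟨295, 515, 1000⟩⟩ = true := by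
  decide +kernel

theorem n1_ek : PosD signBox1 hMk :=
  (posD_of_check n1_ek_1)

def n1_ew_1 :
    (hMw).checkQuick
      ⟨79, ⟨0, 3, 4, 2⟩⟩
      ⟨⟨0, 1, 1⟩, ⟨2000, 2021, 3000⟩, ⟨100, 334, 1000⟩, ⟨295, 515, 1000⟩⟩ = true := by
  decide +kernel

theorem n1_ew : PosD signBox1 hMw :=
  (posD_of_check n1_ew_1)

end Vale.Agent.P100.Calib.Closed.Six.Neg
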