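import Vale.Agent.P100.Calib.SlabSixNegPieces

/-!
# Checks of the signs on piece 2 of `u ≤ 0`, dimension six
-/

-- The checks are definitions, so that they run one after another with little memory.
set_option linter.defProp false

namespace Vale.Agent.P100.Calib.Closed.Six.Neg

open BoxPos Tail

local instance sixNegSign2Mul : Mul Ex := ⟨Ex.mul⟩

def n2_pp_1 :
    (piece2.xPL).checkQuick
      ⟨75, ⟨1, 1, 3, 3⟩⟩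
      ⟨⟨0, 1, 1⟩, ⟨2000, 2021, 3000⟩, ⟨100, 0, 1000⟩, ⟨295, 489, 1000⟩⟩ = true := by
  decide +kernel

theorem n2_pp : PosD signBox2 piece2.xPL :=
  (posD_of_check0 n2_pp_1)

def n2_v2p_1 :
    (piece2.hV2p).checkQuick
      ⟨196, ⟨1, 6, 10, 5⟩⟩
      ⟨⟨0, 1, 1⟩, ⟨2000, 2021, 3000⟩, ⟨100, 0, 1000⟩, ⟨295, 489, 1000⟩⟩ = true := by
  decide +kernel

theorem n2_v2p : PosD signBox2 piece2.hV2p :=
  (posD_of_check0 n2_v2p_1)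

def n2_v2m_1 :
    (piece2.hV2m).checkQuick
      ⟨198, ⟨1, 6, 10, 5⟩⟩
      ⟨⟨0, 1, 1⟩, ⟨2000, 2021, 3000⟩, ⟨100, 0, 1000⟩, ⟨295, 489, 1000⟩⟩ = true := by
  decide +kernel

theorem n2_v2m : PosD signBox2 piece2.hV2m :=
  (posD_of_check0 n2_v2m_1)

def n2_v3p_1 :
    (piece2.hV3p).checkQuick
      ⟨184, ⟨1, 6, 9, 5⟩⟩
      ⟨⟨0, 1, 1⟩, ⟨2000, 2021, 3000⟩, ⟨100, 0, 1000⟩, ⟨295, 489, 1000⟩⟩ = true := by
  decide +kernel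

theorem n2_v3p : PosD signBox2 piece2.hV3p :=
  (posD_of_check0 n2_v3p_1)

def n2_v3m_1 :
    (piece2.hV3m).checkQuick
      ⟨186, ⟨1, 6, 9, 5⟩⟩
      ⟨⟨0, 1, 1⟩, ⟨2000, 2021, 3000⟩, ⟨100, 0, 1000⟩, ⟨295, 489, 1000⟩⟩ = true := by
  decide +kernel

theorem n2_v3m : PosD signBox2 piece2.hV3m :=
  (posD_of_check0 n2_v3m_1)

def n2_k2p_1 :
    ((piece2.k2p piece2.xE)).checkQuick
      ⟨58, ⟨1, 1, 2, 2⟩⟩
      ⟨⟨0, 1, 1⟩, ⟨2000, 2021, 3000⟩, ⟨100, 0, 1000⟩, ⟨295, 489, 1000⟩⟩ = true := by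
  decide +kernel

theorem n2_k2p : PosD signBox2 (piece2.k2p piece2.xE) :=
  (posD_of_check0 n2_k2p_1)

def n2_k2m_1 :
    ((piece2.k2m piece2.xE)).checkQuick
      ⟨60, ⟨1, 1, 2, 2⟩⟩
      ⟨⟨0, 1, 1⟩, ⟨2000, 2021, 3000⟩, ⟨100, 0, 1000⟩, ⟨295, 489, 1000⟩⟩ = true := by
  decide +kernel

theorem n2_k2m : PosD signBox2 (piece2.k2m piece2.xE) :=
  (posD_of_check0 n2_k2m_1)

def n2_kap0_1 :
    ((piece2.kap false)).checkQuick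
      ⟨53, ⟨1, 1, 2, 2⟩⟩
      ⟨⟨0, 1, 1⟩, ⟨2000, 2021, 3000⟩, ⟨100, 0, 1000⟩, ⟨295, 489, 1000⟩⟩ = true := by
  decide +kernel

theorem n2_kap0 : PosD signBox2 (piece2.kap false) :=
  (posD_of_check0 n2_kap0_1)

def n2_c10_1 :
    ((piece2.hC1 false)).checkQuick
      ⟨207, ⟨3, 5, 9, 7⟩⟩
      ⟨⟨0, 1, 1⟩, ⟨2000, 2021, 3000⟩, ⟨100, 0, 1000⟩, ⟨295, 489, 1000⟩⟩ = true := by
  decide +kernel

theorem n2_c10 : PosD signBox2 (piece2.hC1 false) :=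
  (posD_of_check0 n2_c10_1)

def n2_c1h0_1 :
    ((piece2.hC1' false)).checkQuick
      ⟨207, ⟨3, 5, 9, 7⟩⟩
      ⟨⟨0, 1, 1⟩, ⟨2000, 2021, 3000⟩, ⟨100, 0, 1000⟩, ⟨295, 489, 1000⟩⟩ = true := by
  decide +kernel

theorem n2_c1h0 : PosD signBox2 (piece2.hC1' false) :=
  (posD_of_check0 n2_c1h0_1)

def n2_tg00_1 :
    ((piece2.hG false (piece2.pEnd false))).checkQuick
      ⟨285, ⟨2, 7, 14, 9⟩⟩
      ⟨⟨0, 1, 1⟩, ⟨2000, 2021, 3000⟩, ⟨100, 0, 1000⟩, ⟨295, 489, 1000⟩⟩ = true := by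
  decide +kernel

theorem n2_tg00 : PosD signBox2 (piece2.hG false (piece2.pEnd false)) :=
  (posD_of_check0 n2_tg00_1)

def n2_c2p00_1 :
    ((piece2.hC2p false (piece2.pEnd false))).checkQuick
      ⟨342, ⟨3, 8, 16, 11⟩⟩
      ⟨⟨0, 1, 1⟩, ⟨2000, 2021, 3000⟩, ⟨100, 0, 1000⟩, ⟨295, 489, 1000⟩⟩ = true := by
  decide +kernel

theorem n2_c2p00 : PosD signBox2 (piece2.hC2p false (piece2.pEnd false)) :=
  (posD_of_check0 n2_c2p00_1)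

def n2_c2m00_1 :
    ((piece2.hC2m false (piece2.pEnd false))).checkQuick
      ⟨344, ⟨3, 8, 16, 11⟩⟩
      ⟨⟨0, 1, 1⟩, ⟨2000, 2021, 3000⟩, ⟨100, 0, 1000⟩, ⟨295, 489, 1000⟩⟩ = true := by
  decide +kernel

theorem n2_c2m00 : PosD signBox2 (piece2.hC2m false (piece2.pEnd false)) :=
  (posD_of_check0 n2_c2m00_1)

def n2_tmg00_1 :
    ((piece2.hTMG false (piece2.pEnd false))).checkQuick
      ⟨300, ⟨2, 7, 14, 10⟩⟩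
      ⟨⟨0, 1, 1⟩, ⟨2000, 2021, 3000⟩, ⟨100, 0, 1000⟩, ⟨295, 489, 1000⟩⟩ = true := by
  decide +kernel

theorem n2_tmg00 : PosD signBox2 (piece2.hTMG false (piece2.pEnd false)) :=
  (posD_of_check0 n2_tmg00_1)

def n2_c3p00_1 :
    ((piece2.hC3p false false)).checkQuick
      ⟨334, ⟨3, 8, 15, 11⟩⟩
      ⟨⟨0, 1, 1⟩, ⟨2000, 2021, 3000⟩, ⟨100, 0, 1000⟩, ⟨295, 489, 1000⟩⟩ = true := by
  decide +kernel

theorem n2_c3p00 : PosD signBox2 (piece2.hC3p false false) :=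
  (posD_of_check0 n2_c3p00_1)

def n2_c3m00_1 :
    ((piece2.hC3m false false)).checkQuick
      ⟨335, ⟨3, 8, 15, 11⟩⟩
      ⟨⟨0, 1, 1⟩, ⟨2000, 2021, 3000⟩, ⟨100, 0, 1000⟩, ⟨295, 489, 1000⟩⟩ = true := by
  decide +kernel

theorem n2_c3m00 : PosD signBox2 (piece2.hC3m false false) :=
  (posD_of_check0 n2_c3m00_1)

def n2_c3ph00_1 :
    ((piece2.hC3p' false false)).checkQuick
      ⟨334, ⟨3, 8, 15, 11⟩⟩
      ⟨⟨0, 1, 1⟩, ⟨2000, 2021, 3000⟩, ⟨100, 0, 1000⟩, ⟨295, 489, 1000⟩⟩ = true := by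
  decide +kernel

theorem n2_c3ph00 : PosD signBox2 (piece2.hC3p' false false) :=
  (posD_of_check0 n2_c3ph00_1)

def n2_c3mh00_1 :
    ((piece2.hC3m' false false)).checkQuick
      ⟨335, ⟨3, 8, 15, 11⟩⟩
      ⟨⟨0, 1, 1⟩, ⟨2000, 2021, 3000⟩, ⟨100, 0, 1000⟩, ⟨295, 489, 1000⟩⟩ = true := by
  decide +kernel

theorem n2_c3mh00 : PosD signBox2 (piece2.hC3m' false false) :=
  (posD_of_check0 n2_c3mh00_1)

def n2_up00_1 :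
    ((piece2.hUp false false)).checkQuick
      ⟨333, ⟨3, 8, 15, 11⟩⟩
      ⟨⟨0, 1, 1⟩, ⟨2000, 2021, 3000⟩, ⟨100, 0, 1000⟩, ⟨295, 489, 1000⟩⟩ = true := by
  decide +kernel

theorem n2_up00 : PosD signBox2 (piece2.hUp false false) :=
  (posD_of_check0 n2_up00_1)

def n2_um00_1 :
    ((piece2.hUm false false)).checkQuick
      ⟨335, ⟨3, 8, 15, 11⟩⟩
      ⟨⟨0, 1, 1⟩, ⟨2000, 2021, 3000⟩, ⟨100, 0, 1000⟩, ⟨295, 489, 1000⟩⟩ = true := by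
  decide +kernel

theorem n2_um00 : PosD signBox2 (piece2.hUm false false) :=
  (posD_of_check0 n2_um00_1)

def n2_tg01_1 :
    ((piece2.hG true (piece2.pEnd false))).checkQuick
      ⟨285, ⟨2, 7, 14, 9⟩⟩
      ⟨⟨0, 1, 1⟩, ⟨2000, 2021, 3000⟩, ⟨100, 0, 1000⟩, ⟨295, 489, 1000⟩⟩ = true := by
  decide +kernel

theorem n2_tg01 : PosD signBox2 (piece2.hG true (piece2.pEnd false)) :=
  (posD_of_check0 n2_tg01_1)

def n2_c2p01_1 :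
    ((piece2.hC2p true (piece2.pEnd false))).checkQuick
      ⟨342, ⟨3, 8, 16, 11⟩⟩
      ⟨⟨0, 1, 1⟩, ⟨2000, 2021, 3000⟩, ⟨100, 0, 1000⟩, ⟨295, 489, 1000⟩⟩ = true := by
  decide +kernel

theorem n2_c2p01 : PosD signBox2 (piece2.hC2p true (piece2.pEnd false)) :=
  (posD_of_check0 n2_c2p01_1)

def n2_c2m01_1 :
    ((piece2.hC2m true (piece2.pEnd false))).checkQuick
      ⟨344, ⟨3, 8, 16, 11⟩⟩
      ⟨⟨0, 1, 1⟩, ⟨2000, 2021, 3000⟩, ⟨100, 0, 1000⟩, ⟨295, 489, 1000⟩⟩ = true := by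
  decide +kernel

theorem n2_c2m01 : PosD signBox2 (piece2.hC2m true (piece2.pEnd false)) :=
  (posD_of_check0 n2_c2m01_1)

def n2_tmg01_1 :
    ((piece2.hTMG true (piece2.pEnd false))).checkQuick
      ⟨300, ⟨2, 7, 14, 10⟩⟩
      ⟨⟨0, 1, 1⟩, ⟨2000, 2021, 3000⟩, ⟨100, 0, 1000⟩, ⟨295, 489, 1000⟩⟩ = true := by
  decide +kernel

theorem n2_tmg01 : PosD signBox2 (piece2.hTMG true (piece2.pEnd false)) :=
  (posD_of_check0 n2_tmg01_1)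

def n2_c3p01_1 :
    ((piece2.hC3p false true)).checkQuick
      ⟨334, ⟨3, 8, 15, 11⟩⟩
      ⟨⟨0, 1, 1⟩, ⟨2000, 2021, 3000⟩, ⟨100, 0, 1000⟩, ⟨295, 489, 1000⟩⟩ = true := by
  decide +kernel

theorem n2_c3p01 : PosD signBox2 (piece2.hC3p false true) :=
  (posD_of_check0 n2_c3p01_1)

def n2_c3m01_1 :
    ((piece2.hC3m false true)).checkQuick
      ⟨335, ⟨3, 8, 15, 11⟩⟩
      ⟨⟨0, 1, 1⟩, ⟨2000, 2021, 3000⟩, ⟨100, 0, 1000⟩, ⟨295, 489, 1000⟩⟩ = true := by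
  decide +kernel

theorem n2_c3m01 : PosD signBox2 (piece2.hC3m false true) :=
  (posD_of_check0 n2_c3m01_1)

def n2_c3ph01_1 :
    ((piece2.hC3p' false true)).checkQuick
      ⟨334, ⟨3, 8, 15, 11⟩⟩
      ⟨⟨0, 1, 1⟩, ⟨2000, 2021, 3000⟩, ⟨100, 0, 1000⟩, ⟨295, 489, 1000⟩⟩ = true := by
  decide +kernel

theorem n2_c3ph01 : PosD signBox2 (piece2.hC3p' false true) :=
  (posD_of_check0 n2_c3ph01_1)

def n2_c3mh01_1 :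
    ((piece2.hC3m' false true)).checkQuick
      ⟨335, ⟨3, 8, 15, 11⟩⟩
      ⟨⟨0, 1, 1⟩, ⟨2000, 2021, 3000⟩, ⟨100, 0, 1000⟩, ⟨295, 489, 1000⟩⟩ = true := by
  decide +kernel

theorem n2_c3mh01 : PosD signBox2 (piece2.hC3m' false true) :=
  (posD_of_check0 n2_c3mh01_1)

def n2_up01_1 :
    ((piece2.hUp false true)).checkQuick
      ⟨333, ⟨3, 8, 15, 11⟩⟩
      ⟨⟨0, 1, 1⟩, ⟨2000, 2021, 3000⟩, ⟨100, 0, 1000⟩, ⟨295, 489, 1000⟩⟩ = true := by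
  decide +kernel

theorem n2_up01 : PosD signBox2 (piece2.hUp false true) :=
  (posD_of_check0 n2_up01_1)

def n2_um01_1 :
    ((piece2.hUm false true)).checkQuick
      ⟨335, ⟨3, 8, 15, 11⟩⟩
      ⟨⟨0, 1, 1⟩, ⟨2000, 2021, 3000⟩, ⟨100, 0, 1000⟩, ⟨295, 489, 1000⟩⟩ = true := by
  decide +kernel

theorem n2_um01 : PosD signBox2 (piece2.hUm false true) :=
  (posD_of_check0 n2_um01_1)

def n2_kap1_1 :
    ((piece2.kap true)).checkQuick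
      ⟨54, ⟨1, 1, 2, 2⟩⟩
      ⟨⟨0, 1, 1⟩, ⟨2000, 2021, 3000⟩, ⟨100, 0, 1000⟩, ⟨295, 489, 1000⟩⟩ = true := by
  decide +kernel

theorem n2_kap1 : PosD signBox2 (piece2.kap true) :=
  (posD_of_check0 n2_kap1_1)

def n2_c11_1 :
    ((piece2.hC1 true)).checkQuick
      ⟨207, ⟨3, 5, 9, 7⟩⟩
      ⟨⟨0, 1, 1⟩, ⟨2000, 2021, 3000⟩, ⟨100, 0, 1000⟩, ⟨295, 489, 1000⟩⟩ = true := by
  decide +kernel

theorem n2_c11 : PosD signBox2 (piece2.hC1 true) :=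
  (posD_of_check0 n2_c11_1)

def n2_c1h1_1 :
    ((piece2.hC1' true)).checkQuick
      ⟨207, ⟨3, 5, 9, 7⟩⟩
      ⟨⟨0, 1, 1⟩, ⟨2000, 2021, 3000⟩, ⟨100, 0, 1000⟩, ⟨295, 489, 1000⟩⟩ = true := by
  decide +kernel

theorem n2_c1h1 : PosD signBox2 (piece2.hC1' true) :=
  (posD_of_check0 n2_c1h1_1)

def n2_tg10_1 :
    ((piece2.hG false (piece2.pEnd true))).checkQuick
      ⟨284, ⟨2, 7, 14, 9⟩⟩
      ⟨⟨0, 1, 1⟩, ⟨2000, 2021, 3000⟩, ⟨100, 0, 1000⟩, ⟨295, 489, 1000⟩⟩ = true := by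
  decide +kernel

theorem n2_tg10 : PosD signBox2 (piece2.hG false (piece2.pEnd true)) :=
  (posD_of_check0 n2_tg10_1)

def n2_c2p10_1 :
    ((piece2.hC2p false (piece2.pEnd true))).checkQuick
      ⟨341, ⟨3, 8, 16, 11⟩⟩
      ⟨⟨0, 1, 1⟩, ⟨2000, 2021, 3000⟩, ⟨100, 0, 1000⟩, ⟨295, 489, 1000⟩⟩ = true := by
  decide +kernel

theorem n2_c2p10 : PosD signBox2 (piece2.hC2p false (piece2.pEnd true)) :=
  (posD_of_check0 n2_c2p10_1)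

def n2_c2m10_1 :
    ((piece2.hC2m false (piece2.pEnd true))).checkQuick
      ⟨343, ⟨3, 8, 16, 11⟩⟩
      ⟨⟨0, 1, 1⟩, ⟨2000, 2021, 3000⟩, ⟨100, 0, 1000⟩, ⟨295, 489, 1000⟩⟩ = true := by
  decide +kernel

theorem n2_c2m10 : PosD signBox2 (piece2.hC2m false (piece2.pEnd true)) :=
  (posD_of_check0 n2_c2m10_1)

def n2_tmg10_1 :
    ((piece2.hTMG false (piece2.pEnd true))).checkQuick
      ⟨299, ⟨2, 7, 14, 10⟩⟩
      ⟨⟨0, 1, 1⟩, ⟨2000, 2021, 3000⟩, ⟨100, 0, 1000⟩, ⟨295, 489, 1000⟩⟩ = true := by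
  decide +kernel

theorem n2_tmg10 : PosD signBox2 (piece2.hTMG false (piece2.pEnd true)) :=
  (posD_of_check0 n2_tmg10_1)

def n2_c3p10_1 :
    ((piece2.hC3p true false)).checkQuick
      ⟨334, ⟨3, 8, 15, 11⟩⟩
      ⟨⟨0, 1, 1⟩, ⟨2000, 2021, 3000⟩, ⟨100, 0, 1000⟩, ⟨295, 489, 1000⟩⟩ = true := by
  decide +kernel

theorem n2_c3p10 : PosD signBox2 (piece2.hC3p true false) :=
  (posD_of_check0 n2_c3p10_1)

def n2_c3m10_1 :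
    ((piece2.hC3m true false)).checkQuick
      ⟨335, ⟨3, 8, 15, 11⟩⟩
      ⟨⟨0, 1, 1⟩, ⟨2000, 2021, 3000⟩, ⟨100, 0, 1000⟩, ⟨295, 489, 1000⟩⟩ = true := by
  decide +kernel

theorem n2_c3m10 : PosD signBox2 (piece2.hC3m true false) :=
  (posD_of_check0 n2_c3m10_1)

def n2_c3ph10_1 :
    ((piece2.hC3p' true false)).checkQuick
      ⟨334, ⟨3, 8, 15, 11⟩⟩
      ⟨⟨0, 1, 1⟩, ⟨2000, 2021, 3000⟩, ⟨100, 0, 1000⟩, ⟨295, 489, 1000⟩⟩ = true := by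
  decide +kernel

theorem n2_c3ph10 : PosD signBox2 (piece2.hC3p' true false) :=
  (posD_of_check0 n2_c3ph10_1)

def n2_c3mh10_1 :
    ((piece2.hC3m' true false)).checkQuick
      ⟨335, ⟨3, 8, 15, 11⟩⟩
      ⟨⟨0, 1, 1⟩, ⟨2000, 2021, 3000⟩, ⟨100, 0, 1000⟩, ⟨295, 489, 1000⟩⟩ = true := by
  decide +kernel

theorem n2_c3mh10 : PosD signBox2 (piece2.hC3m' true false) :=
  (posD_of_check0 n2_c3mh10_1)

def n2_up10_1 :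
    ((piece2.hUp true false)).checkQuick
      ⟨332, ⟨3, 8, 15, 11⟩⟩
      ⟨⟨0, 1, 1⟩, ⟨2000, 2021, 3000⟩, ⟨100, 0, 1000⟩, ⟨295, 489, 1000⟩⟩ = true := by
  decide +kernel

theorem n2_up10 : PosD signBox2 (piece2.hUp true false) :=
  (posD_of_check0 n2_up10_1)

def n2_um10_1 :
    ((piece2.hUm true false)).checkQuick
      ⟨334, ⟨3, 8, 15, 11⟩⟩
      ⟨⟨0, 1, 1⟩, ⟨2000, 2021, 3000⟩, ⟨100, 0, 1000⟩, ⟨295, 489, 1000⟩⟩ = true := by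
  decide +kernel

theorem n2_um10 : PosD signBox2 (piece2.hUm true false) :=
  (posD_of_check0 n2_um10_1)

def n2_tg11_1 :
    ((piece2.hG true (piece2.pEnd true))).checkQuick
      ⟨284, ⟨2, 7, 14, 9⟩⟩
      ⟨⟨0, 1, 1⟩, ⟨2000, 2021, 3000⟩, ⟨100, 0, 1000⟩, ⟨295, 489, 1000⟩⟩ = true := by
  decide +kernel

theorem n2_tg11 : PosD signBox2 (piece2.hG true (piece2.pEnd true)) :=
  (posD_of_check0 n2_tg11_1)

def n2_c2p11_1 :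
    ((piece2.hC2p true (piece2.pEnd true))).checkQuick
      ⟨341, ⟨3, 8, 16, 11⟩⟩
      ⟨⟨0, 1, 1⟩, ⟨2000, 2021, 3000⟩, ⟨100, 0, 1000⟩, ⟨295, 489, 1000⟩⟩ = true := by
  decide +kernel

theorem n2_c2p11 : PosD signBox2 (piece2.hC2p true (piece2.pEnd true)) :=
  (posD_of_check0 n2_c2p11_1)

def n2_c2m11_1 :
    ((piece2.hC2m true (piece2.pEnd true))).checkQuick
      ⟨343, ⟨3, 8, 16, 11⟩⟩
      ⟨⟨0, 1, 1⟩, ⟨2000, 2021, 3000⟩, ⟨100, 0, 1000⟩, ⟨295, 489, 1000⟩⟩ = true := by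
  decide +kernel

theorem n2_c2m11 : PosD signBox2 (piece2.hC2m true (piece2.pEnd true)) :=
  (posD_of_check0 n2_c2m11_1)

def n2_tmg11_1 :
    ((piece2.hTMG true (piece2.pEnd true))).checkQuick
      ⟨299, ⟨2, 7, 14, 10⟩⟩
      ⟨⟨0, 1, 1⟩, ⟨2000, 2021, 3000⟩, ⟨100, 0, 1000⟩, ⟨295, 489, 1000⟩⟩ = true := by
  decide +kernel

theorem n2_tmg11 : PosD signBox2 (piece2.hTMG true (piece2.pEnd true)) :=
  (posD_of_check0 n2_tmg11_1)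

def n2_c3p11_1 :
    ((piece2.hC3p true true)).checkQuick
      ⟨334, ⟨3, 8, 15, 11⟩⟩
      ⟨⟨0, 1, 1⟩, ⟨2000, 2021, 3000⟩, ⟨100, 0, 1000⟩, ⟨295, 489, 1000⟩⟩ = true := by
  decide +kernel

theorem n2_c3p11 : PosD signBox2 (piece2.hC3p true true) :=
  (posD_of_check0 n2_c3p11_1)

def n2_c3m11_1 :
    ((piece2.hC3m true true)).checkQuick
      ⟨335, ⟨3, 8, 15, 11⟩⟩
      ⟨⟨0, 1, 1⟩, ⟨2000, 2021, 3000⟩, ⟨100, 0, 1000⟩, ⟨295, 489, 1000⟩⟩ = true := by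
  decide +kernel

theorem n2_c3m11 : PosD signBox2 (piece2.hC3m true true) :=
  (posD_of_check0 n2_c3m11_1)

def n2_c3ph11_1 :
    ((piece2.hC3p' true true)).checkQuick
      ⟨334, ⟨3, 8, 15, 11⟩⟩
      ⟨⟨0, 1, 1⟩, ⟨2000, 2021, 3000⟩, ⟨100, 0, 1000⟩, ⟨295, 489, 1000⟩⟩ = true := by
  decide +kernel

theorem n2_c3ph11 : PosD signBox2 (piece2.hC3p' true true) :=
  (posD_of_check0 n2_c3ph11_1)

def n2_c3mh11_1 :
    ((piece2.hC3m' true true)).checkQuick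
      ⟨335, ⟨3, 8, 15, 11⟩⟩
      ⟨⟨0, 1, 1⟩, ⟨2000, 2021, 3000⟩, ⟨100, 0, 1000⟩, ⟨295, 489, 1000⟩⟩ = true := by
  decide +kernel

theorem n2_c3mh11 : PosD signBox2 (piece2.hC3m' true true) :=
  (posD_of_check0 n2_c3mh11_1)

def n2_up11_1 :
    ((piece2.hUp true true)).checkQuick
      ⟨332, ⟨3, 8, 15, 11⟩⟩
      ⟨⟨0, 1, 1⟩, ⟨2000, 2021, 3000⟩, ⟨100, 0, 1000⟩, ⟨295, 489, 1000⟩⟩ = true := by
  decide +kernel

theorem n2_up11 : PosD signBox2 (piece2.hUp true true) :=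
  (posD_of_check0 n2_up11_1)

def n2_um11_1 :
    ((piece2.hUm true true)).checkQuick
      ⟨334, ⟨3, 8, 15, 11⟩⟩
      ⟨⟨0, 1, 1⟩, ⟨2000, 2021, 3000⟩, ⟨100, 0, 1000⟩, ⟨295, 489, 1000⟩⟩ = true := by
  decide +kernel

theorem n2_um11 : PosD signBox2 (piece2.hUm true true) :=
  (posD_of_check0 n2_um11_1)

def n2_vG_1 :
    (hVG).checkQuick
      ⟨139, ⟨0, 5, 8, 3⟩⟩
      ⟨⟨0, 1, 1⟩, ⟨2000, 2021, 3000⟩, ⟨100, 0, 1000⟩, ⟨295, 489, 1000⟩⟩ = true := by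
  decide +kernel

theorem n2_vG : PosD signBox2 hVG :=
  (posD_of_check0 n2_vG_1)

def n2_vMG_1 :
    (hVMG).checkQuick
      ⟨148, ⟨0, 4, 8, 4⟩⟩
      ⟨⟨0, 1, 1⟩, ⟨2000, 2021, 3000⟩, ⟨100, 0, 1000⟩, ⟨295, 489, 1000⟩⟩ = true := by
  decide +kernel

theorem n2_vMG : PosD signBox2 hVMG :=
  (posD_of_check0 n2_vMG_1)

def n2_ak_1 :
    (hAk).checkQuick
      ⟨126, ⟨0, 4, 6, 4⟩⟩
      ⟨⟨0, 1, 1⟩, ⟨2000, 2021, 3000⟩, ⟨100, 0, 1000⟩, ⟨295, 489, 1000⟩⟩ = true := by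
  decide +kernel

theorem n2_ak : PosD signBox2 hAk :=
  (posD_of_check0 n2_ak_1)

def n2_aw_1 :
    (hAw).checkQuick
      ⟨128, ⟨0, 5, 7, 3⟩⟩
      ⟨⟨0, 1, 1⟩, ⟨2000, 2021, 3000⟩, ⟨100, 0, 1000⟩, ⟨295, 489, 1000⟩⟩ = true := by
  decide +kernel

theorem n2_aw : PosD signBox2 hAw :=
  (posD_of_check0 n2_aw_1)

def n2_gk_1 :
    (hGk).checkQuick
      ⟨126, ⟨0, 4, 6, 4⟩⟩
      ⟨⟨0, 1, 1⟩, ⟨2000, 2021, 3000⟩, ⟨100, 0, 1000⟩, ⟨295, 489, 1000⟩⟩ = true := by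
  decide +kernel

theorem n2_gk : PosD signBox2 hGk :=
  (posD_of_check0 n2_gk_1)

def n2_gw_1 :
    (hGw).checkQuick
      ⟨128, ⟨0, 5, 7, 3⟩⟩
      ⟨⟨0, 1, 1⟩, ⟨2000, 2021, 3000⟩, ⟨100, 0, 1000⟩, ⟨295, 489, 1000⟩⟩ = true := by
  decide +kernel

theorem n2_gw : PosD signBox2 hGw :=
  (posD_of_check0 n2_gw_1)

def n2_ek_1 :
    (hMk).checkQuick
      ⟨74, ⟨0, 2, 3, 3⟩⟩
      ⟨⟨0, 1, 1⟩, ⟨2000, 2021, 3000⟩, ⟨100, 0, 1000⟩, ⟨295, 489, 1000⟩⟩ = true := by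
  decide +kernel

theorem n2_ek : PosD signBox2 hMk :=
  (posD_of_check0 n2_ek_1)

def n2_ew_1 :
    (hMw).checkQuick
      ⟨78, ⟨0, 3, 4, 2⟩⟩
      ⟨⟨0, 1, 1⟩, ⟨2000, 2021, 3000⟩, ⟨100, 0, 1000⟩, ⟨295, 489, 1000⟩⟩ = true := by
  decide +kernel

theorem n2_ew : PosD signBox2 hMw :=
  (posD_of_check0 n2_ew_1)

end Vale.Agent.P100.Calib.Closed.Six.Neg
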