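import Vale.Agent.P100.Calib.SlabSixNegPlace
import Vale.Agent.P100.Calib.SlabSixNegEnv0
import Vale.Agent.P100.Calib.SlabSixNegEnv1
import Vale.Agent.P100.Calib.SlabSixNegEnv2
import Vale.Agent.P100.Calib.SlabSixNegSign0
import Vale.Agent.P100.Calib.SlabSixNegSign1
import Vale.Agent.P100.Calib.SlabSixNegSign2

/-!
# The closed signs of dimension six for `u ≤ 0`
-/

set_option linter.unusedVariables false

namespace Vale.Agent.P100.Calib.Closed.Six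

open BoxPos Tail Neg

theorem Neg.piece0_env : piece0.Env envBox0 where
  p0 := n0_p0
  den := Bool.forall_bool.2 ⟨n0_den0, n0_den1⟩
  gn := n0_gn
  ev := Bool.forall_bool.2 ⟨n0_ev0, n0_ev1⟩
  zL := Bool.forall_bool.2 ⟨n0_zL0, n0_zL1⟩
  zU := Bool.forall_bool.2 ⟨n0_zU0, n0_zU1⟩
  eL := Bool.forall_bool.2 ⟨n0_eL0, n0_eL1⟩
  eH := Bool.forall_bool.2 ⟨n0_eH0, n0_eH1⟩
  pL := Bool.forall_bool.2 ⟨n0_pL0, n0_pL1⟩
  pU := Bool.forall_bool.2 ⟨n0_pU0, n0_pU1⟩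
  kU := Bool.forall_bool.2 ⟨n0_kU0, n0_kU1⟩
  kL := Bool.forall_bool.2 ⟨n0_kL0, n0_kL1⟩
  wU := Bool.forall_bool.2 ⟨n0_wU0, n0_wU1⟩
  wL := Bool.forall_bool.2 ⟨n0_wL0, n0_wL1⟩
  eL' := ⟨.inr rfl, .inr rfl⟩
  eH' := ⟨.inr rfl, .inr rfl⟩
  pL' := ⟨.inr rfl, .inr rfl⟩
  pU' := ⟨.inr rfl, .inr rfl⟩
  kU' := ⟨.inr rfl, .inr rfl⟩
  kL' := ⟨.inr rfl, .inr rfl⟩
  wU' := ⟨.inr rfl, .inr rfl⟩
  wL' := ⟨.inr rfl, .inr rfl⟩

theorem Neg.piece0_sign : piece0.Sign signBox0 where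
  pp := n0_pp
  k2p := n0_k2p
  k2m := n0_k2m
  v2p := n0_v2p
  v2m := n0_v2m
  v3p := n0_v3p
  v3m := n0_v3m
  vG := n0_vG
  vMG := n0_vMG
  ak := n0_ak
  aw := n0_aw
  gk := n0_gk
  gw := n0_gw
  ek := n0_ek
  ew := n0_ew
  kap := Bool.forall_bool.2 ⟨n0_kap0, n0_kap1⟩
  c1 := Bool.forall_bool.2 ⟨n0_c10, n0_c11⟩
  tg := Bool.forall_bool.2 ⟨Bool.forall_bool.2 ⟨n0_tg00, n0_tg01⟩,
      Bool.forall_bool.2 ⟨n0_tg10, n0_tg11⟩⟩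
  c2p := Bool.forall_bool.2 ⟨Bool.forall_bool.2 ⟨n0_c2p00, n0_c2p01⟩,
      Bool.forall_bool.2 ⟨n0_c2p10, n0_c2p11⟩⟩
  c2m := Bool.forall_bool.2 ⟨Bool.forall_bool.2 ⟨n0_c2m00, n0_c2m01⟩,
      Bool.forall_bool.2 ⟨n0_c2m10, n0_c2m11⟩⟩
  c3p := Bool.forall_bool.2 ⟨Bool.forall_bool.2 ⟨n0_c3p00, n0_c3p01⟩,
      Bool.forall_bool.2 ⟨n0_c3p10, n0_c3p11⟩⟩
  c3m := Bool.forall_bool.2 ⟨Bool.forall_bool.2 ⟨n0_c3m00, n0_c3m01⟩,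
      Bool.forall_bool.2 ⟨n0_c3m10, n0_c3m11⟩⟩
  tmg := Bool.forall_bool.2 ⟨Bool.forall_bool.2 ⟨n0_tmg00, n0_tmg01⟩,
      Bool.forall_bool.2 ⟨n0_tmg10, n0_tmg11⟩⟩
  high := .inr (Bool.forall_bool.2 ⟨⟨n0_c1h0, Bool.forall_bool.2 ⟨⟨n0_c3ph00, n0_c3mh00, n0_up00, n0_um00⟩,
      ⟨n0_c3ph01, n0_c3mh01, n0_up01, n0_um01⟩⟩⟩,
    ⟨n0_c1h1, Bool.forall_bool.2 ⟨⟨n0_c3ph10, n0_c3mh10, n0_up10, n0_um10⟩,
      ⟨n0_c3ph11, n0_c3mh11, n0_up11, n0_um11⟩⟩⟩⟩)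

theorem Neg.piece0_checked : Checked piece0 envBox0 signBox0 where
  env := piece0_env
  sign := piece0_sign
  free := by rfl
  no_mult := by simp [Piece.bnds, piece0]
  h := Bool.forall_bool.2 ⟨n0_H0, n0_H1⟩
  ll00 := n0_l00
  ll01 := n0_l01
  ll10 := n0_l10
  ll11 := n0_l11
  s₀ := rfl
  same := ⟨rfl, rfl, rfl⟩

theorem Neg.piece1_env : piece1.Env envBox1 where
  p0 := n1_p0
  den := Bool.forall_bool.2 ⟨n1_den0, n1_den1⟩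
  gn := n1_gn
  ev := Bool.forall_bool.2 ⟨n1_ev0, n1_ev1⟩
  zL := Bool.forall_bool.2 ⟨n1_zL0, n1_zL1⟩
  zU := Bool.forall_bool.2 ⟨n1_zU0, n1_zU1⟩
  eL := Bool.forall_bool.2 ⟨n1_eL0, n1_eL1⟩
  eH := Bool.forall_bool.2 ⟨n1_eH0, n1_eH1⟩
  pL := Bool.forall_bool.2 ⟨n1_pL0, n1_pL1⟩
  pU := Bool.forall_bool.2 ⟨n1_pU0, n1_pU1⟩
  kU := Bool.forall_bool.2 ⟨n1_kU0, n1_kU1⟩
  kL := Bool.forall_bool.2 ⟨n1_kL0, n1_kL1⟩
  wU := Bool.forall_bool.2 ⟨n1_wU0, n1_wU1⟩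
  wL := Bool.forall_bool.2 ⟨n1_wL0, n1_wL1⟩
  eL' := ⟨.inr rfl, .inr rfl⟩
  eH' := ⟨.inr rfl, .inr rfl⟩
  pL' := ⟨.inr rfl, .inr rfl⟩
  pU' := ⟨.inr rfl, .inr rfl⟩
  kU' := ⟨.inr rfl, .inr rfl⟩
  kL' := ⟨.inr rfl, .inr rfl⟩
  wU' := ⟨.inr rfl, .inr rfl⟩
  wL' := ⟨.inr rfl, .inr rfl⟩

theorem Neg.piece1_sign : piece1.Sign signBox1 where
  pp := n1_pp
  k2p := n1_k2p
  k2m := n1_k2m
  v2p := n1_v2p
  v2m := n1_v2m
  v3p := n1_v3p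
  v3m := n1_v3m
  vG := n1_vG
  vMG := n1_vMG
  ak := n1_ak
  aw := n1_aw
  gk := n1_gk
  gw := n1_gw
  ek := n1_ek
  ew := n1_ew
  kap := Bool.forall_bool.2 ⟨n1_kap0, n1_kap1⟩
  c1 := Bool.forall_bool.2 ⟨n1_c10, n1_c11⟩
  tg := Bool.forall_bool.2 ⟨Bool.forall_bool.2 ⟨n1_tg00, n1_tg01⟩,
      Bool.forall_bool.2 ⟨n1_tg10, n1_tg11⟩⟩
  c2p := Bool.forall_bool.2 ⟨Bool.forall_bool.2 ⟨n1_c2p00, n1_c2p01⟩,
      Bool.forall_bool.2 ⟨n1_c2p10, n1_c2p11⟩⟩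
  c2m := Bool.forall_bool.2 ⟨Bool.forall_bool.2 ⟨n1_c2m00, n1_c2m01⟩,
      Bool.forall_bool.2 ⟨n1_c2m10, n1_c2m11⟩⟩
  c3p := Bool.forall_bool.2 ⟨Bool.forall_bool.2 ⟨n1_c3p00, n1_c3p01⟩,
      Bool.forall_bool.2 ⟨n1_c3p10, n1_c3p11⟩⟩
  c3m := Bool.forall_bool.2 ⟨Bool.forall_bool.2 ⟨n1_c3m00, n1_c3m01⟩,
      Bool.forall_bool.2 ⟨n1_c3m10, n1_c3m11⟩⟩
  tmg := Bool.forall_bool.2 ⟨Bool.forall_bool.2 ⟨n1_tmg00, n1_tmg01⟩,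
      Bool.forall_bool.2 ⟨n1_tmg10, n1_tmg11⟩⟩
  high := .inr (Bool.forall_bool.2 ⟨⟨n1_c1h0, Bool.forall_bool.2 ⟨⟨n1_c3ph00, n1_c3mh00, n1_up00, n1_um00⟩,
      ⟨n1_c3ph01, n1_c3mh01, n1_up01, n1_um01⟩⟩⟩,
    ⟨n1_c1h1, Bool.forall_bool.2 ⟨⟨n1_c3ph10, n1_c3mh10, n1_up10, n1_um10⟩,
      ⟨n1_c3ph11, n1_c3mh11, n1_up11, n1_um11⟩⟩⟩⟩)

theorem Neg.piece1_checked : Checked piece1 envBox1 signBox1 where
  env := piece1_env
  sign := piece1_sign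
  free := by rfl
  no_mult := by simp [Piece.bnds, piece1]
  h := Bool.forall_bool.2 ⟨n1_H0, n1_H1⟩
  ll00 := n1_l00
  ll01 := n1_l01
  ll10 := n1_l10
  ll11 := n1_l11
  s₀ := rfl
  same := ⟨rfl, rfl, rfl⟩

theorem Neg.piece2_env : piece2.Env envBox2 where
  p0 := n2_p0
  den := Bool.forall_bool.2 ⟨n2_den0, n2_den1⟩
  gn := n2_gn
  ev := Bool.forall_bool.2 ⟨n2_ev0, n2_ev1⟩
  zL := Bool.forall_bool.2 ⟨n2_zL0, n2_zL1⟩
  zU := Bool.forall_bool.2 ⟨n2_zU0, n2_zU1⟩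
  eL := Bool.forall_bool.2 ⟨n2_eL0, n2_eL1⟩
  eH := Bool.forall_bool.2 ⟨n2_eH0, n2_eH1⟩
  pL := Bool.forall_bool.2 ⟨n2_pL0, n2_pL1⟩
  pU := Bool.forall_bool.2 ⟨n2_pU0, n2_pU1⟩
  kU := Bool.forall_bool.2 ⟨n2_kU0, n2_kU1⟩
  kL := Bool.forall_bool.2 ⟨n2_kL0, n2_kL1⟩
  wU := Bool.forall_bool.2 ⟨n2_wU0, n2_wU1⟩
  wL := Bool.forall_bool.2 ⟨n2_wL0, n2_wL1⟩
  eL' := ⟨.inr rfl, .inr rfl⟩
  eH' := ⟨.inr rfl, .inr rfl⟩
  pL' := ⟨.inr rfl, .inr rfl⟩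
  pU' := ⟨.inr rfl, .inr rfl⟩
  kU' := ⟨.inr rfl, .inr rfl⟩
  kL' := ⟨.inr rfl, .inr rfl⟩
  wU' := ⟨.inr rfl, .inr rfl⟩
  wL' := ⟨.inr rfl, .inr rfl⟩

theorem Neg.piece2_sign : piece2.Sign signBox2 where
  pp := n2_pp
  k2p := n2_k2p
  k2m := n2_k2m
  v2p := n2_v2p
  v2m := n2_v2m
  v3p := n2_v3p
  v3m := n2_v3m
  vG := n2_vG
  vMG := n2_vMG
  ak := n2_ak
  aw := n2_aw
  gk := n2_gk
  gw := n2_gw
  ek := n2_ek
  ew := n2_ew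
  kap := Bool.forall_bool.2 ⟨n2_kap0, n2_kap1⟩
  c1 := Bool.forall_bool.2 ⟨n2_c10, n2_c11⟩
  tg := Bool.forall_bool.2 ⟨Bool.forall_bool.2 ⟨n2_tg00, n2_tg01⟩,
      Bool.forall_bool.2 ⟨n2_tg10, n2_tg11⟩⟩
  c2p := Bool.forall_bool.2 ⟨Bool.forall_bool.2 ⟨n2_c2p00, n2_c2p01⟩,
      Bool.forall_bool.2 ⟨n2_c2p10, n2_c2p11⟩⟩
  c2m := Bool.forall_bool.2 ⟨Bool.forall_bool.2 ⟨n2_c2m00, n2_c2m01⟩,
      Bool.forall_bool.2 ⟨n2_c2m10, n2_c2m11⟩⟩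
  c3p := Bool.forall_bool.2 ⟨Bool.forall_bool.2 ⟨n2_c3p00, n2_c3p01⟩,
      Bool.forall_bool.2 ⟨n2_c3p10, n2_c3p11⟩⟩
  c3m := Bool.forall_bool.2 ⟨Bool.forall_bool.2 ⟨n2_c3m00, n2_c3m01⟩,
      Bool.forall_bool.2 ⟨n2_c3m10, n2_c3m11⟩⟩
  tmg := Bool.forall_bool.2 ⟨Bool.forall_bool.2 ⟨n2_tmg00, n2_tmg01⟩,
      Bool.forall_bool.2 ⟨n2_tmg10, n2_tmg11⟩⟩
  high := .inr (Bool.forall_bool.2 ⟨⟨n2_c1h0, Bool.forall_bool.2 ⟨⟨n2_c3ph00, n2_c3mh00, n2_up00, n2_um00⟩,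
      ⟨n2_c3ph01, n2_c3mh01, n2_up01, n2_um01⟩⟩⟩,
    ⟨n2_c1h1, Bool.forall_bool.2 ⟨⟨n2_c3ph10, n2_c3mh10, n2_up10, n2_um10⟩,
      ⟨n2_c3ph11, n2_c3mh11, n2_up11, n2_um11⟩⟩⟩⟩)

theorem Neg.piece2_checked : Checked piece2 envBox2 signBox2 where
  env := piece2_env
  sign := piece2_sign
  free := by rfl
  no_mult := by simp [Piece.bnds, piece2]
  h := Bool.forall_bool.2 ⟨n2_H0, n2_H1⟩
  ll00 := n2_l00
  ll01 := n2_l01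
  ll10 := n2_l10
  ll11 := n2_l11
  s₀ := rfl
  same := ⟨rfl, rfl, rfl⟩

/-- A point between two ends in the side of the bounds. -/
theorem Neg.exists_o {x a c : ℝ} (h₀ : a ≤ x) (h₁ : x ≤ c) :
    ∃ o, (⟨0, 1001, 1000⟩ : Side).Mem o ∧ a + o * (c - a) = x := by
  obtain ⟨o, ho, ho1, e⟩ := Tail.exists_mix h₀ h₁
  refine ⟨o, ⟨by push_cast; linarith, by push_cast; linarith⟩, ?_⟩
  simp only [mix] at e
  linarith

/-- The slope between the lines, at a piece with these lines. -/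
theorem Neg.piece_signs {P : Piece} {b b' : Box} (K : Checked P b b')
    (eT : P.tLn = (fun u => Ex.add negCu (Ex.mul negSu u)) ∧ P.tLd = (fun _ => cC 1) ∧
      P.tUn = (fun _ => negCl) ∧ P.tUd = fun _ => cC 1)
    (e₀ : b.s₀ = ⟨0, 1001, 1000⟩) (e₁ : b.s₁ = ⟨2000, 2021, 3000⟩) {d S u v t a c : ℝ}
    (hSm : (⟨2000, 2021, 3000⟩ : Side).Mem S) (h₂ : b.s₂.Mem d) (h₃ : b.s₃.Mem v)
    (hD : Dom S d v) (hS : 2 / 3 < S) (hS' : S < 33 / 49) (hv : 0 < v) (hdS : d ≤ S) (hu : u ≤ 0)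
    (hR : -(1 - S) ≤ S * u) (hz : 0 ≤ v + u * chH d S u v t)
    (ea : ∀ o, P.u₀.val o S d v = a) (ec : ∀ o, P.u₁.val o S d v = c) (h₄ : a ≤ u) (h₅ : u ≤ c)
    (ht₀ : 27 / 20 - 117 / 25 * d + 29 / 5 * d ^ 2 +
      (107 / 100 - 477 / 100 * d + 33 / 5 * d ^ 2) * u ≤ t)
    (ht₁ : t ≤ 147 / 100 - 49 / 10 * d + 6 * d ^ 2) : ChartSigns d S u v t := by
  obtain ⟨o, ho, e⟩ := Neg.exists_o h₄ h₅
  have hx : P.xU.val o S d v = u := by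
    show P.u₀.val o S d v + o * (P.u₁.val o S d v - P.u₀.val o S d v) = u
    rw [ea, ec, e]
  obtain ⟨q₁, q₂, q₃, q₄⟩ := eT
  refine K.signs (e₀ ▸ ho) (e₁ ▸ hSm) h₂ h₃ hD.pos hD (by linarith) (by linarith) hv hdS hu hR hz
    hx ?_ ?_
  · rw [q₁, q₂]
    simp only [negCu, negSu, ex_add, ex_sub, ex_mul, Ex.val, hx]
    push_cast
    linarith
  · rw [q₃, q₄]
    simp only [negCl, ex_add, ex_sub, ex_mul, Ex.val]
    push_cast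
    linarith

set_option maxHeartbeats 800000 in
/-- **The closed signs of dimension six for `u ≤ 0`.** -/
theorem signsNeg : SignsNeg := by
  intro d S u v t hb hu hw₀ hw₁ hum ht₀ ht₁ hz
  have hS0 := hb.S_low
  have hS1 := hb.S_high
  have hd := hb.pos
  have hd1 : d < 334 / 1000 := by linarith [hb.tri]
  have hdd := mul_nonneg hd.le (show 0 ≤ 334 / 1000 - d by linarith)
  have k0 : 0 ≤ 3 / 5 + 17 / 100 * d := by linarith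
  have hul : -(11341 / 10000) * (1 / 125 + 13 / 100 * d + (3 / 5 + 17 / 100 * d) * v) ≤ u := by
    have h : 1 ≤ 11341 / 10000 * (1 - 9 / 50 * (3 / 5 + 17 / 100 * d)) := by linarith
    have h1 := mul_le_mul_of_nonpos_left h hu
    linarith
  have hvlo : 256 / 1000 ≤ v := by
    by_contra h
    rw [not_le] at h
    have := mul_le_mul_of_nonneg_left h.le k0
    linarith
  have hvhi : v < 515 / 1000 := by
    have := sq_nonneg (d - 56 / 289)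
    linarith
  have hD : Dom S d v := by
    refine ⟨hd, ?_, ?_, by linarith [hb.tri]⟩
    · have h1 := mul_le_mul (show S ≤ 33 / 49 by linarith)
        (show d * v ≤ 334 / 1000 * (515 / 1000) from mul_le_mul hd1.le hvhi.le (by linarith)
          (by norm_num)) (mul_nonneg hd.le (by linarith)) (by norm_num)
      linarith
    · have h1 := mul_le_mul (show S - d ≤ 1 by linarith) hvhi.le (by linarith) (by norm_num)
      linarith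
  have hR : -(1 - S) ≤ S * u := by
    have h1 : (3 / 5 + 17 / 100 * d) * v ≤ 657 / 1000 * (515 / 1000) :=
      mul_le_mul (by linarith) hvhi.le (by linarith) (by norm_num)
    have h2 : -(445 / 1000) ≤ u := by linarith
    have h3 := mul_le_mul_of_nonneg_left h2 (show 0 ≤ S by linarith)
    linarith
  have hSm : (⟨2000, 2021, 3000⟩ : Side).Mem S :=
    ⟨by push_cast; linarith, by push_cast; linarith⟩

  rcases lt_or_ge v (296 / 1000) with hv | hv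
  · refine Neg.piece_signs piece0_checked (a := -(11341 / 10000) * (1 / 125 + 13 / 100 * d + (3 / 5 + 17 / 100 * d) * v))
      (c := 50 / 9 * (v - 2891 / 10000 - 1 / 25 * d)) ⟨rfl, rfl, rfl, rfl⟩ rfl rfl hSm ⟨?_, ?_⟩ ⟨?_, ?_⟩ hD hS0 hS1 (by linarith)
      (by linarith) hu hR hz (fun o => by simp only [piece0, negU0h, negU0, negU1, negW1, ex_add, ex_sub, ex_mul, Ex.val]; push_cast; ring)
      (fun o => by simp only [piece0, negU0h, negU0, negU1, negW1, ex_add, ex_sub, ex_mul, Ex.val]; push_cast; ring)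
      (by linarith) (by linarith) ht₀ ht₁ <;>
      simp only [envBox0] <;> push_cast <;> linarith
  rcases lt_or_ge d (100 / 1000) with hdc | hdc
  · have : v < 489 / 1000 := by
      have := mul_nonneg (show 0 ≤ 100 / 1000 - d by linarith) (show 0 ≤ 81 / 100 - 289 / 100 * d by linarith)
      linarith
    refine Neg.piece_signs piece2_checked (a := 14 / 20 * (-(11341 / 10000) * (1 / 125 + 13 / 100 * d + (3 / 5 + 17 / 100 * d) * v)) + 6 / 20 * (50 / 9) * (v - (81 / 200 + 28 / 25 * d - 289 / 100 * d ^ 2)))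
      (c := 0) ⟨rfl, rfl, rfl, rfl⟩ rfl rfl hSm ⟨?_, ?_⟩ ⟨?_, ?_⟩ hD hS0 hS1 (by linarith)
      (by linarith) hu hR hz (fun o => by simp only [piece2, negU0h, negU0, negU1, negW1, ex_add, ex_sub, ex_mul, Ex.val]; push_cast; ring)
      (fun o => by simp only [piece2, negU0h, negU0, negU1, negW1, ex_add, ex_sub, ex_mul, Ex.val]; push_cast; ring)
      (by linarith) (by linarith) ht₀ ht₁ <;>
      simp only [envBox2] <;> push_cast <;> linarith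
  · refine Neg.piece_signs piece1_checked (a := 13 / 20 * (-(11341 / 10000) * (1 / 125 + 13 / 100 * d + (3 / 5 + 17 / 100 * d) * v)) + 7 / 20 * (50 / 9) * (v - (81 / 200 + 28 / 25 * d - 289 / 100 * d ^ 2)))
      (c := 0) ⟨rfl, rfl, rfl, rfl⟩ rfl rfl hSm ⟨?_, ?_⟩ ⟨?_, ?_⟩ hD hS0 hS1 (by linarith)
      (by linarith) hu hR hz (fun o => by simp only [piece1, negU0h, negU0, negU1, negW1, ex_add, ex_sub, ex_mul, Ex.val]; push_cast; ring)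
      (fun o => by simp only [piece1, negU0h, negU0, negU1, negW1, ex_add, ex_sub, ex_mul, Ex.val]; push_cast; ring)
      (by linarith) (by linarith) ht₀ ht₁ <;>
      simp only [envBox1] <;> push_cast <;> linarith

end Vale.Agent.P100.Calib.Closed.Six
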