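import Vale.Agent.P100.Calib.SlabSixEndSide
import Vale.Agent.P100.Calib.SlabSixEndPieces

/-!
# The checks of the piece CD1
-/

-- The checks are definitions, so that they run one after another with little memory.
set_option linter.defProp false

namespace Vale.Agent.P100.Calib.Closed.Six.End

open BoxPos
open Bot (Sur)

open Large (PosBox posBox_of_check)

local instance endCheckCD1Add : Add Ex := ⟨Ex.add⟩
local instance endCheckCD1Sub : Sub Ex := ⟨Ex.sub⟩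
local instance endCheckCD1Mul : Mul Ex := ⟨Ex.mul⟩

def evCD1_g : Ev pieceCD1.box (fun j : Bool × Bool × Bool => pieceCD1.bd j.1 j.2.1 j.2.2) (·.G) := by
  rintro ⟨_ | _, _ | _, _ | _⟩
  · exact (posBox_of_check (c := ⟨427, ⟨2, 4, 10, 7⟩⟩) (by decide +kernel))
  · exact (posBox_of_check (c := ⟨427, ⟨2, 4, 10, 7⟩⟩) (by decide +kernel))
  · exact (posBox_of_check (c := ⟨427, ⟨2, 4, 10, 7⟩⟩) (by decide +kernel))
  · exact (posBox_of_check (c := ⟨427, ⟨2, 4, 10, 7⟩⟩) (by decide +kernel))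
  · exact (posBox_of_check (c := ⟨427, ⟨2, 4, 10, 7⟩⟩) (by decide +kernel))
  · exact (posBox_of_check (c := ⟨427, ⟨2, 4, 10, 7⟩⟩) (by decide +kernel))
  · exact (posBox_of_check (c := ⟨427, ⟨2, 4, 10, 7⟩⟩) (by decide +kernel))
  · exact (posBox_of_check (c := ⟨427, ⟨2, 4, 10, 7⟩⟩) (by decide +kernel))

def evCD1_h : Ev pieceCD1.box (fun j : Bool × Bool × Bool => pieceCD1.bd j.1 j.2.1 j.2.2) (·.H) := by
  have h : ∀ b e, PosBox pieceCD1.box (pieceCD1.bd b e false).H := by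
    rintro (_ | _) (_ | _)
    · exact (posBox_of_check (c := ⟨295, ⟨0, 1, 8, 5⟩⟩) (by decide +kernel))
    · exact (posBox_of_check (c := ⟨295, ⟨0, 1, 8, 5⟩⟩) (by decide +kernel))
    · exact (posBox_of_check (c := ⟨295, ⟨0, 1, 8, 5⟩⟩) (by decide +kernel))
    · exact (posBox_of_check (c := ⟨295, ⟨0, 1, 8, 5⟩⟩) (by decide +kernel))
  rintro ⟨b, e, _ | _⟩ <;> exact h b e

def evCD1_n : Ev pieceCD1.box (fun j : Bool × Bool × Bool => pieceCD1.bd j.1 j.2.1 j.2.2) (·.N) := by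
  rintro ⟨_ | _, _ | _, _ | _⟩
  · exact (posBox_of_check (c := ⟨668, ⟨2, 7, 15, 11⟩⟩) (by decide +kernel))
  · exact (posBox_of_check (c := ⟨668, ⟨2, 7, 15, 11⟩⟩) (by decide +kernel))
  · exact (posBox_of_check (c := ⟨669, ⟨2, 7, 15, 11⟩⟩) (by decide +kernel))
  · exact (posBox_of_check (c := ⟨669, ⟨2, 7, 15, 11⟩⟩) (by decide +kernel))
  · exact (posBox_of_check (c := ⟨668, ⟨2, 7, 15, 11⟩⟩) (by decide +kernel))
  · exact (posBox_of_check (c := ⟨668, ⟨2, 7, 15, 11⟩⟩) (by decide +kernel))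
  · exact (posBox_of_check (c := ⟨669, ⟨2, 7, 15, 11⟩⟩) (by decide +kernel))
  · exact (posBox_of_check (c := ⟨669, ⟨2, 7, 15, 11⟩⟩) (by decide +kernel))

def evCD1_c₁p : Ev pieceCD1.box (fun j : Bool × Bool × Bool => pieceCD1.bd j.1 j.2.1 j.2.2) Bd.c₁p := by
  have h : ∀ b e, PosBox pieceCD1.box (pieceCD1.bd b e false).c₁p := by
    rintro (_ | _) (_ | _)
    · exact (posBox_of_check (c := ⟨457, ⟨2, 4, 11, 7⟩⟩) (by decide +kernel))
    · exact (posBox_of_check (c := ⟨458, ⟨2, 4, 11, 7⟩⟩) (by decide +kernel))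
    · exact (posBox_of_check (c := ⟨457, ⟨2, 4, 11, 7⟩⟩) (by decide +kernel))
    · exact (posBox_of_check (c := ⟨458, ⟨2, 4, 11, 7⟩⟩) (by decide +kernel))
  rintro ⟨b, e, _ | _⟩ <;> exact h b e

def evCD1_c₁m : Ev pieceCD1.box (fun j : Bool × Bool × Bool => pieceCD1.bd j.1 j.2.1 j.2.2) Bd.c₁m := by
  have h : ∀ b e, PosBox pieceCD1.box (pieceCD1.bd b e false).c₁m := by
    rintro (_ | _) (_ | _)
    · exact (posBox_of_check (c := ⟨457, ⟨2, 4, 11, 7⟩⟩) (by decide +kernel))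
    · exact (posBox_of_check (c := ⟨458, ⟨2, 4, 11, 7⟩⟩) (by decide +kernel))
    · exact (posBox_of_check (c := ⟨457, ⟨2, 4, 11, 7⟩⟩) (by decide +kernel))
    · exact (posBox_of_check (c := ⟨458, ⟨2, 4, 11, 7⟩⟩) (by decide +kernel))
  rintro ⟨b, e, _ | _⟩ <;> exact h b e

def evCD1_c₂p : Ev pieceCD1.box (fun j : Bool × Bool × Bool => pieceCD1.bd j.1 j.2.1 j.2.2) Bd.c₂p := by
  rintro ⟨_ | _, _ | _, _ | _⟩
  · exact (posBox_of_check (c := ⟨596, ⟨4, 6, 14, 10⟩⟩) (by decide +kernel))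
  · exact (posBox_of_check (c := ⟨596, ⟨4, 6, 14, 10⟩⟩) (by decide +kernel))
  · exact (posBox_of_check (c := ⟨596, ⟨4, 6, 14, 10⟩⟩) (by decide +kernel))
  · exact (posBox_of_check (c := ⟨596, ⟨4, 6, 14, 10⟩⟩) (by decide +kernel))
  · exact (posBox_of_check (c := ⟨596, ⟨4, 6, 14, 10⟩⟩) (by decide +kernel))
  · exact (posBox_of_check (c := ⟨596, ⟨4, 6, 14, 10⟩⟩) (by decide +kernel))
  · exact (posBox_of_check (c := ⟨596, ⟨4, 6, 14, 10⟩⟩) (by decide +kernel))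
  · exact (posBox_of_check (c := ⟨596, ⟨4, 6, 14, 10⟩⟩) (by decide +kernel))

def evCD1_c₂m : Ev pieceCD1.box (fun j : Bool × Bool × Bool => pieceCD1.bd j.1 j.2.1 j.2.2) Bd.c₂m := by
  rintro ⟨_ | _, _ | _, _ | _⟩
  · exact (posBox_of_check (c := ⟨596, ⟨4, 6, 14, 10⟩⟩) (by decide +kernel))
  · exact (posBox_of_check (c := ⟨596, ⟨4, 6, 14, 10⟩⟩) (by decide +kernel))
  · exact (posBox_of_check (c := ⟨596, ⟨4, 6, 14, 10⟩⟩) (by decide +kernel))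
  · exact (posBox_of_check (c := ⟨596, ⟨4, 6, 14, 10⟩⟩) (by decide +kernel))
  · exact (posBox_of_check (c := ⟨596, ⟨4, 6, 14, 10⟩⟩) (by decide +kernel))
  · exact (posBox_of_check (c := ⟨596, ⟨4, 6, 14, 10⟩⟩) (by decide +kernel))
  · exact (posBox_of_check (c := ⟨596, ⟨4, 6, 14, 10⟩⟩) (by decide +kernel))
  · exact (posBox_of_check (c := ⟨596, ⟨4, 6, 14, 10⟩⟩) (by decide +kernel))

def evCD1_c₃pp : Ev pieceCD1.box (fun j : Bool × Bool × Bool => pieceCD1.bd j.1 j.2.1 j.2.2) Bd.c₃pp := by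
  rintro ⟨_ | _, _ | _, _ | _⟩
  · exact (posBox_of_check (c := ⟨677, ⟨4, 8, 17, 11⟩⟩) (by decide +kernel))
  · exact (posBox_of_check (c := ⟨677, ⟨4, 8, 17, 11⟩⟩) (by decide +kernel))
  · exact (posBox_of_check (c := ⟨678, ⟨4, 8, 17, 11⟩⟩) (by decide +kernel))
  · exact (posBox_of_check (c := ⟨678, ⟨4, 8, 17, 11⟩⟩) (by decide +kernel))
  · exact (posBox_of_check (c := ⟨677, ⟨4, 8, 17, 11⟩⟩) (by decide +kernel))
  · exact (posBox_of_check (c := ⟨677, ⟨4, 8, 17, 11⟩⟩) (by decide +kernel))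
  · exact (posBox_of_check (c := ⟨678, ⟨4, 8, 17, 11⟩⟩) (by decide +kernel))
  · exact (posBox_of_check (c := ⟨678, ⟨4, 8, 17, 11⟩⟩) (by decide +kernel))

def evCD1_c₃pm : Ev pieceCD1.box (fun j : Bool × Bool × Bool => pieceCD1.bd j.1 j.2.1 j.2.2) Bd.c₃pm := by
  rintro ⟨_ | _, _ | _, _ | _⟩
  · exact (posBox_of_check (c := ⟨677, ⟨4, 8, 17, 11⟩⟩) (by decide +kernel))
  · exact (posBox_of_check (c := ⟨677, ⟨4, 8, 17, 11⟩⟩) (by decide +kernel))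
  · exact (posBox_of_check (c := ⟨678, ⟨4, 8, 17, 11⟩⟩) (by decide +kernel))
  · exact (posBox_of_check (c := ⟨678, ⟨4, 8, 17, 11⟩⟩) (by decide +kernel))
  · exact (posBox_of_check (c := ⟨677, ⟨4, 8, 17, 11⟩⟩) (by decide +kernel))
  · exact (posBox_of_check (c := ⟨677, ⟨4, 8, 17, 11⟩⟩) (by decide +kernel))
  · exact (posBox_of_check (c := ⟨678, ⟨4, 8, 17, 11⟩⟩) (by decide +kernel))
  · exact (posBox_of_check (c := ⟨678, ⟨4, 8, 17, 11⟩⟩) (by decide +kernel))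

def evCD1_c₃mp : Ev pieceCD1.box (fun j : Bool × Bool × Bool => pieceCD1.bd j.1 j.2.1 j.2.2) Bd.c₃mp := by
  rintro ⟨_ | _, _ | _, _ | _⟩
  · exact (posBox_of_check (c := ⟨677, ⟨4, 8, 17, 11⟩⟩) (by decide +kernel))
  · exact (posBox_of_check (c := ⟨677, ⟨4, 8, 17, 11⟩⟩) (by decide +kernel))
  · exact (posBox_of_check (c := ⟨678, ⟨4, 8, 17, 11⟩⟩) (by decide +kernel))
  · exact (posBox_of_check (c := ⟨678, ⟨4, 8, 17, 11⟩⟩) (by decide +kernel))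
  · exact (posBox_of_check (c := ⟨677, ⟨4, 8, 17, 11⟩⟩) (by decide +kernel))
  · exact (posBox_of_check (c := ⟨677, ⟨4, 8, 17, 11⟩⟩) (by decide +kernel))
  · exact (posBox_of_check (c := ⟨678, ⟨4, 8, 17, 11⟩⟩) (by decide +kernel))
  · exact (posBox_of_check (c := ⟨678, ⟨4, 8, 17, 11⟩⟩) (by decide +kernel))

def evCD1_c₃mm : Ev pieceCD1.box (fun j : Bool × Bool × Bool => pieceCD1.bd j.1 j.2.1 j.2.2) Bd.c₃mm := by
  rintro ⟨_ | _, _ | _, _ | _⟩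
  · exact (posBox_of_check (c := ⟨677, ⟨4, 8, 17, 11⟩⟩) (by decide +kernel))
  · exact (posBox_of_check (c := ⟨677, ⟨4, 8, 17, 11⟩⟩) (by decide +kernel))
  · exact (posBox_of_check (c := ⟨678, ⟨4, 8, 17, 11⟩⟩) (by decide +kernel))
  · exact (posBox_of_check (c := ⟨678, ⟨4, 8, 17, 11⟩⟩) (by decide +kernel))
  · exact (posBox_of_check (c := ⟨677, ⟨4, 8, 17, 11⟩⟩) (by decide +kernel))
  · exact (posBox_of_check (c := ⟨677, ⟨4, 8, 17, 11⟩⟩) (by decide +kernel))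
  · exact (posBox_of_check (c := ⟨678, ⟨4, 8, 17, 11⟩⟩) (by decide +kernel))
  · exact (posBox_of_check (c := ⟨678, ⟨4, 8, 17, 11⟩⟩) (by decide +kernel))

/-- The signs on the piece CD1. -/
theorem signCD1 : Signed pieceCD1.box (fun j : Bool × Bool × Bool => pieceCD1.bd j.1 j.2.1 j.2.2) where
  g := evCD1_g
  h := evCD1_h
  n := evCD1_n
  c₁p := .inl evCD1_c₁p
  c₁m := .inl evCD1_c₁m
  c₂p := .inl evCD1_c₂p
  c₂m := .inl evCD1_c₂m
  c₃pp := .inl evCD1_c₃pp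
  c₃pm := .inl evCD1_c₃pm
  c₃mp := .inl evCD1_c₃mp
  c₃mm := .inl evCD1_c₃mm

def highCD1 : pieceCD1.toFrame.Ev 0 pieceCD1.X₁ :=
  .inr (posBox_of_check (c := ⟨324, ⟨3, 3, 7, 3⟩⟩) (by decide +kernel))

def topCD1 : pieceCD1.toFrame.VTop :=
  .inl (posBox_of_check (c := ⟨48, ⟨0, 0, 2, 0⟩⟩) (by decide +kernel))

end Vale.Agent.P100.Calib.Closed.Six.End
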