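import Vale.Agent.P100.Calib.SlabSixEndSide
import Vale.Agent.P100.Calib.SlabSixEndPieces

/-!
# The checks of the piece E2
-/

-- The checks are definitions, so that they run one after another with little memory.
set_option linter.defProp false

namespace Vale.Agent.P100.Calib.Closed.Six.End

open BoxPos
open Bot (Sur)

open Large (PosBox posBox_of_check)

local instance endCheckE2Add : Add Ex := ⟨Ex.add⟩
local instance endCheckE2Sub : Sub Ex := ⟨Ex.sub⟩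
local instance endCheckE2Mul : Mul Ex := ⟨Ex.mul⟩

def evE2_g : Ev pieceE2.box (fun j : Bool × Bool => pieceE2.bd j.1 j.2) (·.G) := by
  rintro ⟨_ | _, _ | _⟩
  · exact (posBox_of_check (c := ⟨429, ⟨2, 4, 10, 7⟩⟩) (by decide +kernel))
  · exact (posBox_of_check (c := ⟨429, ⟨2, 4, 10, 7⟩⟩) (by decide +kernel))
  · exact (posBox_of_check (c := ⟨429, ⟨2, 4, 10, 7⟩⟩) (by decide +kernel))
  · exact (posBox_of_check (c := ⟨429, ⟨2, 4, 10, 7⟩⟩) (by decide +kernel))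

def evE2_h : Ev pieceE2.box (fun j : Bool × Bool => pieceE2.bd j.1 j.2) (·.H) := by
  have h : ∀ b, PosBox pieceE2.box (pieceE2.bd b false).H := by
    rintro (_ | _)
    · exact (posBox_of_check (c := ⟨479, ⟨2, 5, 11, 7⟩⟩) (by decide +kernel))
    · exact (posBox_of_check (c := ⟨479, ⟨2, 5, 11, 7⟩⟩) (by decide +kernel))
  rintro ⟨b, _ | _⟩ <;> exact h b

def evE2_n : Ev pieceE2.box (fun j : Bool × Bool => pieceE2.bd j.1 j.2) (·.N) := by
  rintro ⟨_ | _, _ | _⟩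
  · exact (posBox_of_check (c := ⟨558, ⟨2, 7, 13, 7⟩⟩) (by decide +kernel))
  · exact (posBox_of_check (c := ⟨558, ⟨2, 7, 13, 7⟩⟩) (by decide +kernel))
  · exact (posBox_of_check (c := ⟨558, ⟨2, 7, 13, 7⟩⟩) (by decide +kernel))
  · exact (posBox_of_check (c := ⟨558, ⟨2, 7, 13, 7⟩⟩) (by decide +kernel))

def evE2_c₁p : Ev pieceE2.box (fun j : Bool × Bool => pieceE2.bd j.1 j.2) Bd.c₁p := by
  have h : ∀ b, PosBox pieceE2.box (pieceE2.bd b false).c₁p := by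
    rintro (_ | _)
    · exact (posBox_of_check (c := ⟨580, ⟨4, 8, 14, 9⟩⟩) (by decide +kernel))
    · exact (posBox_of_check (c := ⟨580, ⟨4, 8, 14, 9⟩⟩) (by decide +kernel))
  rintro ⟨b, _ | _⟩ <;> exact h b

def evE2_mPos : Ev pieceE2.box (fun j : Bool × Bool => pieceE2.bd j.1 j.2) Bd.mPos := by
  have h : ∀ b, PosBox pieceE2.box (pieceE2.bd b false).mPos := by
    rintro (_ | _)
    · exact (posBox_of_check (c := ⟨518, ⟨2, 6, 12, 7⟩⟩) (by decide +kernel))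
    · exact (posBox_of_check (c := ⟨518, ⟨2, 6, 12, 7⟩⟩) (by decide +kernel))
  rintro ⟨b, _ | _⟩ <;> exact h b

def evE2_c₂p : Ev pieceE2.box (fun j : Bool × Bool => pieceE2.bd j.1 j.2) Bd.c₂p := by
  rintro ⟨_ | _, _ | _⟩
  · exact (posBox_of_check (c := ⟨542, ⟨4, 6, 13, 9⟩⟩) (by decide +kernel))
  · exact (posBox_of_check (c := ⟨542, ⟨4, 6, 13, 9⟩⟩) (by decide +kernel))
  · exact (posBox_of_check (c := ⟨542, ⟨4, 6, 13, 9⟩⟩) (by decide +kernel))
  · exact (posBox_of_check (c := ⟨542, ⟨4, 6, 13, 9⟩⟩) (by decide +kernel))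

def evE2_c₂m : Ev pieceE2.box (fun j : Bool × Bool => pieceE2.bd j.1 j.2) Bd.c₂m := by
  rintro ⟨_ | _, _ | _⟩
  · exact (posBox_of_check (c := ⟨542, ⟨4, 6, 13, 9⟩⟩) (by decide +kernel))
  · exact (posBox_of_check (c := ⟨542, ⟨4, 6, 13, 9⟩⟩) (by decide +kernel))
  · exact (posBox_of_check (c := ⟨542, ⟨4, 6, 13, 9⟩⟩) (by decide +kernel))
  · exact (posBox_of_check (c := ⟨542, ⟨4, 6, 13, 9⟩⟩) (by decide +kernel))

def evE2_c₃pp : Ev pieceE2.box (fun j : Bool × Bool => pieceE2.bd j.1 j.2) Bd.c₃pp := by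
  rintro ⟨_ | _, _ | _⟩
  · exact (posBox_of_check (c := ⟨607, ⟨4, 8, 16, 9⟩⟩) (by decide +kernel))
  · exact (posBox_of_check (c := ⟨607, ⟨4, 8, 16, 9⟩⟩) (by decide +kernel))
  · exact (posBox_of_check (c := ⟨607, ⟨4, 8, 16, 9⟩⟩) (by decide +kernel))
  · exact (posBox_of_check (c := ⟨608, ⟨4, 8, 16, 9⟩⟩) (by decide +kernel))

def evE2_c₃pm : Ev pieceE2.box (fun j : Bool × Bool => pieceE2.bd j.1 j.2) Bd.c₃pm := by
  rintro ⟨_ | _, _ | _⟩
  · exact (posBox_of_check (c := ⟨607, ⟨4, 8, 16, 9⟩⟩) (by decide +kernel))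
  · exact (posBox_of_check (c := ⟨607, ⟨4, 8, 16, 9⟩⟩) (by decide +kernel))
  · exact (posBox_of_check (c := ⟨607, ⟨4, 8, 16, 9⟩⟩) (by decide +kernel))
  · exact (posBox_of_check (c := ⟨608, ⟨4, 8, 16, 9⟩⟩) (by decide +kernel))

/-- The signs on the piece E2. -/
theorem signE2 : Signed pieceE2.box (fun j : Bool × Bool => pieceE2.bd j.1 j.2) where
  g := evE2_g
  h := evE2_h
  n := evE2_n
  c₁p := .inl evE2_c₁p
  c₁m := .inr evE2_mPos
  c₂p := .inl evE2_c₂p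
  c₂m := .inl evE2_c₂m
  c₃pp := .inl evE2_c₃pp
  c₃pm := .inl evE2_c₃pm
  c₃mp := .inr (.inl evE2_mPos)
  c₃mm := .inr (.inl evE2_mPos)

def highE2 : pieceE2.toFrame.Ev pieceE2.grp.mu pieceE2.X₁ :=
  .inr (posBox_of_check (c := ⟨324, ⟨3, 3, 7, 3⟩⟩) (by decide +kernel))

def lowE2 : PosBox pieceE2.box pieceE2.sX0 :=
  (posBox_of_check (c := ⟨178, ⟨2, 2, 3, 2⟩⟩) (by decide +kernel))

end Vale.Agent.P100.Calib.Closed.Six.End
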