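import Vale.Agent.P100.Calib.SlabSixEndSide
import Vale.Agent.P100.Calib.SlabSixEndPieces

/-!
# The checks of the piece ED2
-/

-- The checks are definitions, so that they run one after another with little memory.
set_option linter.defProp false

namespace Vale.Agent.P100.Calib.Closed.Six.End

open BoxPos
open Bot (Sur)

open Large (PosBox posBox_of_check)

local instance endCheckED2Add : Add Ex := ⟨Ex.add⟩
local instance endCheckED2Sub : Sub Ex := ⟨Ex.sub⟩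
local instance endCheckED2Mul : Mul Ex := ⟨Ex.mul⟩

def evED2_g : Ev pieceED2.box (fun j : Bool × Bool × Bool => pieceED2.bd j.1 j.2.1 j.2.2) (·.G) := by
  rintro ⟨_ | _, _ | _, _ | _⟩
  · exact (posBox_of_check (c := ⟨427, ⟨2, 4, 10, 7⟩⟩) (by decide +kernel))
  · exact (posBox_of_check (c := ⟨428, ⟨2, 4, 10, 7⟩⟩) (by decide +kernel))
  · exact (posBox_of_check (c := ⟨427, ⟨2, 4, 10, 7⟩⟩) (by decide +kernel))
  · exact (posBox_of_check (c := ⟨428, ⟨2, 4, 10, 7⟩⟩) (by decide +kernel))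
  · exact (posBox_of_check (c := ⟨428, ⟨2, 4, 10, 7⟩⟩) (by decide +kernel))
  · exact (posBox_of_check (c := ⟨428, ⟨2, 4, 10, 7⟩⟩) (by decide +kernel))
  · exact (posBox_of_check (c := ⟨428, ⟨2, 4, 10, 7⟩⟩) (by decide +kernel))
  · exact (posBox_of_check (c := ⟨428, ⟨2, 4, 10, 7⟩⟩) (by decide +kernel))

def evED2_h : Ev pieceED2.box (fun j : Bool × Bool × Bool => pieceED2.bd j.1 j.2.1 j.2.2) (·.H) := by
  have h : ∀ b e, PosBox pieceED2.box (pieceED2.bd b e false).H := by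
    rintro (_ | _) (_ | _)
    · exact (posBox_of_check (c := ⟨296, ⟨0, 1, 8, 5⟩⟩) (by decide +kernel))
    · exact (posBox_of_check (c := ⟨297, ⟨0, 1, 8, 5⟩⟩) (by decide +kernel))
    · exact (posBox_of_check (c := ⟨296, ⟨0, 1, 8, 5⟩⟩) (by decide +kernel))
    · exact (posBox_of_check (c := ⟨297, ⟨0, 1, 8, 5⟩⟩) (by decide +kernel))
  rintro ⟨b, e, _ | _⟩ <;> exact h b e

def evED2_n : Ev pieceED2.box (fun j : Bool × Bool × Bool => pieceED2.bd j.1 j.2.1 j.2.2) (·.N) := by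
  rintro ⟨_ | _, _ | _, _ | _⟩
  · exact (posBox_of_check (c := ⟨670, ⟨2, 7, 15, 11⟩⟩) (by decide +kernel))
  · exact (posBox_of_check (c := ⟨670, ⟨2, 7, 15, 11⟩⟩) (by decide +kernel))
  · exact (posBox_of_check (c := ⟨671, ⟨2, 7, 15, 11⟩⟩) (by decide +kernel))
  · exact (posBox_of_check (c := ⟨671, ⟨2, 7, 15, 11⟩⟩) (by decide +kernel))
  · exact (posBox_of_check (c := ⟨670, ⟨2, 7, 15, 11⟩⟩) (by decide +kernel))
  · exact (posBox_of_check (c := ⟨670, ⟨2, 7, 15, 11⟩⟩) (by decide +kernel))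
  · exact (posBox_of_check (c := ⟨671, ⟨2, 7, 15, 11⟩⟩) (by decide +kernel))
  · exact (posBox_of_check (c := ⟨671, ⟨2, 7, 15, 11⟩⟩) (by decide +kernel))

def evED2_c₁p : Ev pieceED2.box (fun j : Bool × Bool × Bool => pieceED2.bd j.1 j.2.1 j.2.2) Bd.c₁p := by
  have h : ∀ b e, PosBox pieceED2.box (pieceED2.bd b e false).c₁p := by
    rintro (_ | _) (_ | _)
    · exact (posBox_of_check (c := ⟨459, ⟨2, 4, 11, 7⟩⟩) (by decide +kernel))
    · exact (posBox_of_check (c := ⟨459, ⟨2, 4, 11, 7⟩⟩) (by decide +kernel))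
    · exact (posBox_of_check (c := ⟨459, ⟨2, 4, 11, 7⟩⟩) (by decide +kernel))
    · exact (posBox_of_check (c := ⟨459, ⟨2, 4, 11, 7⟩⟩) (by decide +kernel))
  rintro ⟨b, e, _ | _⟩ <;> exact h b e

def evED2_mPos : Ev pieceED2.box (fun j : Bool × Bool × Bool => pieceED2.bd j.1 j.2.1 j.2.2) Bd.mPos := by
  have h : ∀ b e, PosBox pieceED2.box (pieceED2.bd b e false).mPos := by
    rintro (_ | _) (_ | _)
    · exact (posBox_of_check (c := ⟨456, ⟨1, 4, 11, 7⟩⟩) (by decide +kernel))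
    · exact (posBox_of_check (c := ⟨456, ⟨1, 4, 11, 7⟩⟩) (by decide +kernel))
    · exact (posBox_of_check (c := ⟨456, ⟨1, 4, 11, 7⟩⟩) (by decide +kernel))
    · exact (posBox_of_check (c := ⟨456, ⟨1, 4, 11, 7⟩⟩) (by decide +kernel))
  rintro ⟨b, e, _ | _⟩ <;> exact h b e

def evED2_eNeg : Ev pieceED2.box (fun j : Bool × Bool × Bool => pieceED2.bd j.1 j.2.1 j.2.2) Bd.eNeg := by
  rintro ⟨_ | _, _ | _, _ | _⟩
  · exact (posBox_of_check (c := ⟨531, ⟨2, 5, 12, 9⟩⟩) (by decide +kernel))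
  · exact (posBox_of_check (c := ⟨531, ⟨2, 5, 12, 9⟩⟩) (by decide +kernel))
  · exact (posBox_of_check (c := ⟨531, ⟨2, 5, 12, 9⟩⟩) (by decide +kernel))
  · exact (posBox_of_check (c := ⟨531, ⟨2, 5, 12, 9⟩⟩) (by decide +kernel))
  · exact (posBox_of_check (c := ⟨531, ⟨2, 5, 12, 9⟩⟩) (by decide +kernel))
  · exact (posBox_of_check (c := ⟨531, ⟨2, 5, 12, 9⟩⟩) (by decide +kernel))
  · exact (posBox_of_check (c := ⟨531, ⟨2, 5, 12, 9⟩⟩) (by decide +kernel))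
  · exact (posBox_of_check (c := ⟨531, ⟨2, 5, 12, 9⟩⟩) (by decide +kernel))

def evED2_c₂m : Ev pieceED2.box (fun j : Bool × Bool × Bool => pieceED2.bd j.1 j.2.1 j.2.2) Bd.c₂m := by
  rintro ⟨_ | _, _ | _, _ | _⟩
  · exact (posBox_of_check (c := ⟨595, ⟨4, 6, 14, 10⟩⟩) (by decide +kernel))
  · exact (posBox_of_check (c := ⟨595, ⟨4, 6, 14, 10⟩⟩) (by decide +kernel))
  · exact (posBox_of_check (c := ⟨595, ⟨4, 6, 14, 10⟩⟩) (by decide +kernel))
  · exact (posBox_of_check (c := ⟨595, ⟨4, 6, 14, 10⟩⟩) (by decide +kernel))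
  · exact (posBox_of_check (c := ⟨595, ⟨4, 6, 14, 10⟩⟩) (by decide +kernel))
  · exact (posBox_of_check (c := ⟨595, ⟨4, 6, 14, 10⟩⟩) (by decide +kernel))
  · exact (posBox_of_check (c := ⟨595, ⟨4, 6, 14, 10⟩⟩) (by decide +kernel))
  · exact (posBox_of_check (c := ⟨595, ⟨4, 6, 14, 10⟩⟩) (by decide +kernel))

def evED2_c₃pm : Ev pieceED2.box (fun j : Bool × Bool × Bool => pieceED2.bd j.1 j.2.1 j.2.2) Bd.c₃pm := by
  rintro ⟨_ | _, _ | _, _ | _⟩
  · exact (posBox_of_check (c := ⟨678, ⟨4, 8, 17, 11⟩⟩) (by decide +kernel))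
  · exact (posBox_of_check (c := ⟨678, ⟨4, 8, 17, 11⟩⟩) (by decide +kernel))
  · exact (posBox_of_check (c := ⟨679, ⟨4, 8, 17, 11⟩⟩) (by decide +kernel))
  · exact (posBox_of_check (c := ⟨679, ⟨4, 8, 17, 11⟩⟩) (by decide +kernel))
  · exact (posBox_of_check (c := ⟨678, ⟨4, 8, 17, 11⟩⟩) (by decide +kernel))
  · exact (posBox_of_check (c := ⟨678, ⟨4, 8, 17, 11⟩⟩) (by decide +kernel))
  · exact (posBox_of_check (c := ⟨679, ⟨4, 8, 17, 11⟩⟩) (by decide +kernel))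
  · exact (posBox_of_check (c := ⟨679, ⟨4, 8, 17, 11⟩⟩) (by decide +kernel))

/-- The signs on the piece ED2. -/
theorem signED2 : Signed pieceED2.box (fun j : Bool × Bool × Bool => pieceED2.bd j.1 j.2.1 j.2.2) where
  g := evED2_g
  h := evED2_h
  n := evED2_n
  c₁p := .inl evED2_c₁p
  c₁m := .inr evED2_mPos
  c₂p := .inr evED2_eNeg
  c₂m := .inl evED2_c₂m
  c₃pp := .inr (.inr evED2_eNeg)
  c₃pm := .inl evED2_c₃pm
  c₃mp := .inr (.inl evED2_mPos)
  c₃mm := .inr (.inl evED2_mPos)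

def highED2 : pieceED2.toFrame.Ev 0 pieceED2.X₁ :=
  .inr (posBox_of_check (c := ⟨324, ⟨3, 3, 7, 3⟩⟩) (by decide +kernel))

def topED2 : pieceED2.toFrame.VTop :=
  .inl (posBox_of_check (c := ⟨48, ⟨0, 0, 2, 0⟩⟩) (by decide +kernel))

def phiED2 : PosBox pieceED2.box pieceED2.sPhi :=
  (posBox_of_check (c := ⟨299, ⟨3, 0, 6, 3⟩⟩) (by decide +kernel))

end Vale.Agent.P100.Calib.Closed.Six.End
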