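import Vale.Agent.P100.Calib.SlabSixEndSide
import Vale.Agent.P100.Calib.SlabSixEndPieces

/-!
# The checks of the piece F2
-/

-- The checks are definitions, so that they run one after another with little memory.
set_option linter.defProp false

namespace Vale.Agent.P100.Calib.Closed.Six.End

open BoxPos
open Bot (Sur)

open Large (PosBox posBox_of_check)

local instance endCheckF2Add : Add Ex := ⟨Ex.add⟩
local instance endCheckF2Sub : Sub Ex := ⟨Ex.sub⟩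
local instance endCheckF2Mul : Mul Ex := ⟨Ex.mul⟩

def evF2_g : Ev pieceF2.box (fun j : Bool × Bool => pieceF2.bd j.1 j.2) (·.G) := by
  rintro ⟨_ | _, _ | _⟩
  · exact (posBox_of_check (c := ⟨429, ⟨2, 4, 10, 7⟩⟩) (by decide +kernel))
  · exact (posBox_of_check (c := ⟨429, ⟨2, 4, 10, 7⟩⟩) (by decide +kernel))
  · exact (posBox_of_check (c := ⟨429, ⟨2, 4, 10, 7⟩⟩) (by decide +kernel))
  · exact (posBox_of_check (c := ⟨429, ⟨2, 4, 10, 7⟩⟩) (by decide +kernel))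

def evF2_h : Ev pieceF2.box (fun j : Bool × Bool => pieceF2.bd j.1 j.2) (·.H) := by
  have h : ∀ b, PosBox pieceF2.box (pieceF2.bd b false).H := by
    rintro (_ | _)
    · exact (posBox_of_check (c := ⟨479, ⟨2, 5, 11, 7⟩⟩) (by decide +kernel))
    · exact (posBox_of_check (c := ⟨479, ⟨2, 5, 11, 7⟩⟩) (by decide +kernel))
  rintro ⟨b, _ | _⟩ <;> exact h b

def evF2_n : Ev pieceF2.box (fun j : Bool × Bool => pieceF2.bd j.1 j.2) (·.N) := by
  rintro ⟨_ | _, _ | _⟩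
  · exact (posBox_of_check (c := ⟨558, ⟨2, 7, 13, 7⟩⟩) (by decide +kernel))
  · exact (posBox_of_check (c := ⟨558, ⟨2, 7, 13, 7⟩⟩) (by decide +kernel))
  · exact (posBox_of_check (c := ⟨558, ⟨2, 7, 13, 7⟩⟩) (by decide +kernel))
  · exact (posBox_of_check (c := ⟨558, ⟨2, 7, 13, 7⟩⟩) (by decide +kernel))

def evF2_c₁p : Ev pieceF2.box (fun j : Bool × Bool => pieceF2.bd j.1 j.2) Bd.c₁p := by
  have h : ∀ b, PosBox pieceF2.box (pieceF2.bd b false).c₁p := by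
    rintro (_ | _)
    · exact (posBox_of_check (c := ⟨580, ⟨4, 8, 14, 9⟩⟩) (by decide +kernel))
    · exact (posBox_of_check (c := ⟨580, ⟨4, 8, 14, 9⟩⟩) (by decide +kernel))
  rintro ⟨b, _ | _⟩ <;> exact h b

def evF2_mPos : Ev pieceF2.box (fun j : Bool × Bool => pieceF2.bd j.1 j.2) Bd.mPos := by
  have h : ∀ b, PosBox pieceF2.box (pieceF2.bd b false).mPos := by
    rintro (_ | _)
    · exact (posBox_of_check (c := ⟨519, ⟨2, 6, 12, 7⟩⟩) (by decide +kernel))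
    · exact (posBox_of_check (c := ⟨519, ⟨2, 6, 12, 7⟩⟩) (by decide +kernel))
  rintro ⟨b, _ | _⟩ <;> exact h b

def evF2_c₂p : Ev pieceF2.box (fun j : Bool × Bool => pieceF2.bd j.1 j.2) Bd.c₂p := by
  rintro ⟨_ | _, _ | _⟩
  · exact (posBox_of_check (c := ⟨543, ⟨4, 6, 13, 9⟩⟩) (by decide +kernel))
  · exact (posBox_of_check (c := ⟨543, ⟨4, 6, 13, 9⟩⟩) (by decide +kernel))
  · exact (posBox_of_check (c := ⟨543, ⟨4, 6, 13, 9⟩⟩) (by decide +kernel))
  · exact (posBox_of_check (c := ⟨543, ⟨4, 6, 13, 9⟩⟩) (by decide +kernel))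

def evF2_c₂m : Ev pieceF2.box (fun j : Bool × Bool => pieceF2.bd j.1 j.2) Bd.c₂m := by
  rintro ⟨_ | _, _ | _⟩
  · exact (posBox_of_check (c := ⟨543, ⟨4, 6, 13, 9⟩⟩) (by decide +kernel))
  · exact (posBox_of_check (c := ⟨543, ⟨4, 6, 13, 9⟩⟩) (by decide +kernel))
  · exact (posBox_of_check (c := ⟨543, ⟨4, 6, 13, 9⟩⟩) (by decide +kernel))
  · exact (posBox_of_check (c := ⟨543, ⟨4, 6, 13, 9⟩⟩) (by decide +kernel))

def evF2_c₃pp : Ev pieceF2.box (fun j : Bool × Bool => pieceF2.bd j.1 j.2) Bd.c₃pp := by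
  rintro ⟨_ | _, _ | _⟩
  · exact (posBox_of_check (c := ⟨608, ⟨4, 8, 16, 9⟩⟩) (by decide +kernel))
  · exact (posBox_of_check (c := ⟨608, ⟨4, 8, 16, 9⟩⟩) (by decide +kernel))
  · exact (posBox_of_check (c := ⟨608, ⟨4, 8, 16, 9⟩⟩) (by decide +kernel))
  · exact (posBox_of_check (c := ⟨608, ⟨4, 8, 16, 9⟩⟩) (by decide +kernel))

def evF2_c₃pm : Ev pieceF2.box (fun j : Bool × Bool => pieceF2.bd j.1 j.2) Bd.c₃pm := by
  rintro ⟨_ | _, _ | _⟩
  · exact (posBox_of_check (c := ⟨608, ⟨4, 8, 16, 9⟩⟩) (by decide +kernel))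
  · exact (posBox_of_check (c := ⟨608, ⟨4, 8, 16, 9⟩⟩) (by decide +kernel))
  · exact (posBox_of_check (c := ⟨608, ⟨4, 8, 16, 9⟩⟩) (by decide +kernel))
  · exact (posBox_of_check (c := ⟨608, ⟨4, 8, 16, 9⟩⟩) (by decide +kernel))

/-- The signs on the piece F2. -/
theorem signF2 : Signed pieceF2.box (fun j : Bool × Bool => pieceF2.bd j.1 j.2) where
  g := evF2_g
  h := evF2_h
  n := evF2_n
  c₁p := .inl evF2_c₁p
  c₁m := .inr evF2_mPos
  c₂p := .inl evF2_c₂p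
  c₂m := .inl evF2_c₂m
  c₃pp := .inl evF2_c₃pp
  c₃pm := .inl evF2_c₃pm
  c₃mp := .inr (.inl evF2_mPos)
  c₃mm := .inr (.inl evF2_mPos)

def highF2 : pieceF2.toFrame.Ev pieceF2.grp.mu pieceF2.X₁ :=
  .inr (posBox_of_check (c := ⟨325, ⟨3, 3, 7, 3⟩⟩) (by decide +kernel))

def lowF2 : PosBox pieceF2.box pieceF2.sX0 :=
  (posBox_of_check (c := ⟨178, ⟨2, 2, 3, 2⟩⟩) (by decide +kernel))

end Vale.Agent.P100.Calib.Closed.Six.End
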