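import Vale.Agent.P100.Calib.SlabSixEndSide
import Vale.Agent.P100.Calib.SlabSixEndPieces

/-!
# The checks of the piece FD2
-/

-- The checks are definitions, so that they run one after another with little memory.
set_option linter.defProp false

namespace Vale.Agent.P100.Calib.Closed.Six.End

open BoxPos
open Bot (Sur)

open Large (PosBox posBox_of_check)

local instance endCheckFD2Add : Add Ex := ⟨Ex.add⟩
local instance endCheckFD2Sub : Sub Ex := ⟨Ex.sub⟩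
local instance endCheckFD2Mul : Mul Ex := ⟨Ex.mul⟩

def evFD2_g : Ev pieceFD2.box (fun j : Bool × Bool × Bool => pieceFD2.bd j.1 j.2.1 j.2.2) (·.G) := by
  rintro ⟨_ | _, _ | _, _ | _⟩
  · exact (posBox_of_check (c := ⟨430, ⟨2, 4, 10, 7⟩⟩) (by decide +kernel))
  · exact (posBox_of_check (c := ⟨430, ⟨2, 4, 10, 7⟩⟩) (by decide +kernel))
  · exact (posBox_of_check (c := ⟨430, ⟨2, 4, 10, 7⟩⟩) (by decide +kernel))
  · exact (posBox_of_check (c := ⟨430, ⟨2, 4, 10, 7⟩⟩) (by decide +kernel))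
  · exact (posBox_of_check (c := ⟨430, ⟨2, 4, 10, 7⟩⟩) (by decide +kernel))
  · exact (posBox_of_check (c := ⟨431, ⟨2, 4, 10, 7⟩⟩) (by decide +kernel))
  · exact (posBox_of_check (c := ⟨430, ⟨2, 4, 10, 7⟩⟩) (by decide +kernel))
  · exact (posBox_of_check (c := ⟨431, ⟨2, 4, 10, 7⟩⟩) (by decide +kernel))

def evFD2_h : Ev pieceFD2.box (fun j : Bool × Bool × Bool => pieceFD2.bd j.1 j.2.1 j.2.2) (·.H) := by
  have h : ∀ b e, PosBox pieceFD2.box (pieceFD2.bd b e false).H := by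
    rintro (_ | _) (_ | _)
    · exact (posBox_of_check (c := ⟨298, ⟨0, 1, 8, 5⟩⟩) (by decide +kernel))
    · exact (posBox_of_check (c := ⟨299, ⟨0, 1, 8, 5⟩⟩) (by decide +kernel))
    · exact (posBox_of_check (c := ⟨298, ⟨0, 1, 8, 5⟩⟩) (by decide +kernel))
    · exact (posBox_of_check (c := ⟨299, ⟨0, 1, 8, 5⟩⟩) (by decide +kernel))
  rintro ⟨b, e, _ | _⟩ <;> exact h b e

def evFD2_n : Ev pieceFD2.box (fun j : Bool × Bool × Bool => pieceFD2.bd j.1 j.2.1 j.2.2) (·.N) := by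
  rintro ⟨_ | _, _ | _, _ | _⟩
  · exact (posBox_of_check (c := ⟨675, ⟨2, 7, 15, 11⟩⟩) (by decide +kernel))
  · exact (posBox_of_check (c := ⟨675, ⟨2, 7, 15, 11⟩⟩) (by decide +kernel))
  · exact (posBox_of_check (c := ⟨676, ⟨2, 7, 15, 11⟩⟩) (by decide +kernel))
  · exact (posBox_of_check (c := ⟨676, ⟨2, 7, 15, 11⟩⟩) (by decide +kernel))
  · exact (posBox_of_check (c := ⟨675, ⟨2, 7, 15, 11⟩⟩) (by decide +kernel))
  · exact (posBox_of_check (c := ⟨675, ⟨2, 7, 15, 11⟩⟩) (by decide +kernel))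
  · exact (posBox_of_check (c := ⟨676, ⟨2, 7, 15, 11⟩⟩) (by decide +kernel))
  · exact (posBox_of_check (c := ⟨676, ⟨2, 7, 15, 11⟩⟩) (by decide +kernel))

def evFD2_c₁p : Ev pieceFD2.box (fun j : Bool × Bool × Bool => pieceFD2.bd j.1 j.2.1 j.2.2) Bd.c₁p := by
  have h : ∀ b e, PosBox pieceFD2.box (pieceFD2.bd b e false).c₁p := by
    rintro (_ | _) (_ | _)
    · exact (posBox_of_check (c := ⟨462, ⟨2, 4, 11, 7⟩⟩) (by decide +kernel))
    · exact (posBox_of_check (c := ⟨463, ⟨2, 4, 11, 7⟩⟩) (by decide +kernel))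
    · exact (posBox_of_check (c := ⟨462, ⟨2, 4, 11, 7⟩⟩) (by decide +kernel))
    · exact (posBox_of_check (c := ⟨463, ⟨2, 4, 11, 7⟩⟩) (by decide +kernel))
  rintro ⟨b, e, _ | _⟩ <;> exact h b e

def evFD2_mPos : Ev pieceFD2.box (fun j : Bool × Bool × Bool => pieceFD2.bd j.1 j.2.1 j.2.2) Bd.mPos := by
  have h : ∀ b e, PosBox pieceFD2.box (pieceFD2.bd b e false).mPos := by
    rintro (_ | _) (_ | _)
    · exact (posBox_of_check (c := ⟨458, ⟨1, 4, 11, 7⟩⟩) (by decide +kernel))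
    · exact (posBox_of_check (c := ⟨459, ⟨1, 4, 11, 7⟩⟩) (by decide +kernel))
    · exact (posBox_of_check (c := ⟨458, ⟨1, 4, 11, 7⟩⟩) (by decide +kernel))
    · exact (posBox_of_check (c := ⟨459, ⟨1, 4, 11, 7⟩⟩) (by decide +kernel))
  rintro ⟨b, e, _ | _⟩ <;> exact h b e

def evFD2_eNeg : Ev pieceFD2.box (fun j : Bool × Bool × Bool => pieceFD2.bd j.1 j.2.1 j.2.2) Bd.eNeg := by
  rintro ⟨_ | _, _ | _, _ | _⟩
  · exact (posBox_of_check (c := ⟨534, ⟨2, 5, 12, 9⟩⟩) (by decide +kernel))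
  · exact (posBox_of_check (c := ⟨534, ⟨2, 5, 12, 9⟩⟩) (by decide +kernel))
  · exact (posBox_of_check (c := ⟨535, ⟨2, 5, 12, 9⟩⟩) (by decide +kernel))
  · exact (posBox_of_check (c := ⟨535, ⟨2, 5, 12, 9⟩⟩) (by decide +kernel))
  · exact (posBox_of_check (c := ⟨534, ⟨2, 5, 12, 9⟩⟩) (by decide +kernel))
  · exact (posBox_of_check (c := ⟨534, ⟨2, 5, 12, 9⟩⟩) (by decide +kernel))
  · exact (posBox_of_check (c := ⟨535, ⟨2, 5, 12, 9⟩⟩) (by decide +kernel))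
  · exact (posBox_of_check (c := ⟨535, ⟨2, 5, 12, 9⟩⟩) (by decide +kernel))

def evFD2_c₂m : Ev pieceFD2.box (fun j : Bool × Bool × Bool => pieceFD2.bd j.1 j.2.1 j.2.2) Bd.c₂m := by
  rintro ⟨_ | _, _ | _, _ | _⟩
  · exact (posBox_of_check (c := ⟨598, ⟨4, 6, 14, 10⟩⟩) (by decide +kernel))
  · exact (posBox_of_check (c := ⟨599, ⟨4, 6, 14, 10⟩⟩) (by decide +kernel))
  · exact (posBox_of_check (c := ⟨599, ⟨4, 6, 14, 10⟩⟩) (by decide +kernel))
  · exact (posBox_of_check (c := ⟨599, ⟨4, 6, 14, 10⟩⟩) (by decide +kernel))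
  · exact (posBox_of_check (c := ⟨599, ⟨4, 6, 14, 10⟩⟩) (by decide +kernel))
  · exact (posBox_of_check (c := ⟨599, ⟨4, 6, 14, 10⟩⟩) (by decide +kernel))
  · exact (posBox_of_check (c := ⟨599, ⟨4, 6, 14, 10⟩⟩) (by decide +kernel))
  · exact (posBox_of_check (c := ⟨599, ⟨4, 6, 14, 10⟩⟩) (by decide +kernel))

def evFD2_c₃pm : Ev pieceFD2.box (fun j : Bool × Bool × Bool => pieceFD2.bd j.1 j.2.1 j.2.2) Bd.c₃pm := by
  rintro ⟨_ | _, _ | _, _ | _⟩
  · exact (posBox_of_check (c := ⟨683, ⟨4, 8, 17, 11⟩⟩) (by decide +kernel))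
  · exact (posBox_of_check (c := ⟨683, ⟨4, 8, 17, 11⟩⟩) (by decide +kernel))
  · exact (posBox_of_check (c := ⟨684, ⟨4, 8, 17, 11⟩⟩) (by decide +kernel))
  · exact (posBox_of_check (c := ⟨684, ⟨4, 8, 17, 11⟩⟩) (by decide +kernel))
  · exact (posBox_of_check (c := ⟨683, ⟨4, 8, 17, 11⟩⟩) (by decide +kernel))
  · exact (posBox_of_check (c := ⟨683, ⟨4, 8, 17, 11⟩⟩) (by decide +kernel))
  · exact (posBox_of_check (c := ⟨684, ⟨4, 8, 17, 11⟩⟩) (by decide +kernel))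
  · exact (posBox_of_check (c := ⟨684, ⟨4, 8, 17, 11⟩⟩) (by decide +kernel))

/-- The signs on the piece FD2. -/
theorem signFD2 : Signed pieceFD2.box (fun j : Bool × Bool × Bool => pieceFD2.bd j.1 j.2.1 j.2.2) where
  g := evFD2_g
  h := evFD2_h
  n := evFD2_n
  c₁p := .inl evFD2_c₁p
  c₁m := .inr evFD2_mPos
  c₂p := .inr evFD2_eNeg
  c₂m := .inl evFD2_c₂m
  c₃pp := .inr (.inr evFD2_eNeg)
  c₃pm := .inl evFD2_c₃pm
  c₃mp := .inr (.inl evFD2_mPos)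
  c₃mm := .inr (.inl evFD2_mPos)

def highFD2 : pieceFD2.toFrame.Ev 0 pieceFD2.X₁ :=
  .inr (posBox_of_check (c := ⟨326, ⟨3, 3, 7, 3⟩⟩) (by decide +kernel))

def topFD2 : pieceFD2.toFrame.VTop :=
  .inr (posBox_of_check (c := ⟨46, ⟨0, 0, 2, 0⟩⟩) (by decide +kernel))

def phiFD2 : PosBox pieceFD2.box pieceFD2.sPhi :=
  (posBox_of_check (c := ⟨301, ⟨3, 0, 6, 3⟩⟩) (by decide +kernel))

end Vale.Agent.P100.Calib.Closed.Six.End
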