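import Vale.Agent.P100.Calib.SlabSixEndSide
import Vale.Agent.P100.Calib.SlabSixEndPieces

/-!
# The checks of the piece H6
-/

-- The checks are definitions, so that they run one after another with little memory.
set_option linter.defProp false

namespace Vale.Agent.P100.Calib.Closed.Six.End

open BoxPos
open Bot (Sur)

open Large (PosBox posBox_of_check)

local instance endCheckH6Add : Add Ex := ⟨Ex.add⟩
local instance endCheckH6Sub : Sub Ex := ⟨Ex.sub⟩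
local instance endCheckH6Mul : Mul Ex := ⟨Ex.mul⟩

def evH6_g : Ev pieceH6.box (fun j : Bool × Bool => pieceH6.bd j.1 j.2) (·.G) := by
  rintro ⟨_ | _, _ | _⟩
  · exact (posBox_of_check (c := ⟨436, ⟨2, 4, 10, 7⟩⟩) (by decide +kernel))
  · exact (posBox_of_check (c := ⟨436, ⟨2, 4, 10, 7⟩⟩) (by decide +kernel))
  · exact (posBox_of_check (c := ⟨438, ⟨2, 4, 10, 7⟩⟩) (by decide +kernel))
  · exact (posBox_of_check (c := ⟨438, ⟨2, 4, 10, 7⟩⟩) (by decide +kernel))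

def evH6_h : Ev pieceH6.box (fun j : Bool × Bool => pieceH6.bd j.1 j.2) (·.H) := by
  have h : ∀ b, PosBox pieceH6.box (pieceH6.bd b false).H := by
    rintro (_ | _)
    · exact (posBox_of_check (c := ⟨484, ⟨2, 5, 11, 7⟩⟩) (by decide +kernel))
    · exact (posBox_of_check (c := ⟨486, ⟨2, 5, 11, 7⟩⟩) (by decide +kernel))
  rintro ⟨b, _ | _⟩ <;> exact h b

def evH6_n : Ev pieceH6.box (fun j : Bool × Bool => pieceH6.bd j.1 j.2) (·.N) := by
  rintro ⟨_ | _, _ | _⟩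
  · exact (posBox_of_check (c := ⟨566, ⟨2, 7, 13, 7⟩⟩) (by decide +kernel))
  · exact (posBox_of_check (c := ⟨566, ⟨2, 7, 13, 7⟩⟩) (by decide +kernel))
  · exact (posBox_of_check (c := ⟨567, ⟨2, 7, 13, 7⟩⟩) (by decide +kernel))
  · exact (posBox_of_check (c := ⟨567, ⟨2, 7, 13, 7⟩⟩) (by decide +kernel))

def evH6_c₁p : Ev pieceH6.box (fun j : Bool × Bool => pieceH6.bd j.1 j.2) Bd.c₁p := by
  have h : ∀ b, PosBox pieceH6.box (pieceH6.bd b false).c₁p := by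
    rintro (_ | _)
    · exact (posBox_of_check (c := ⟨585, ⟨4, 8, 14, 9⟩⟩) (by decide +kernel))
    · exact (posBox_of_check (c := ⟨587, ⟨4, 8, 14, 9⟩⟩) (by decide +kernel))
  rintro ⟨b, _ | _⟩ <;> exact h b

def evH6_mPos : Ev pieceH6.box (fun j : Bool × Bool => pieceH6.bd j.1 j.2) Bd.mPos := by
  have h : ∀ b, PosBox pieceH6.box (pieceH6.bd b false).mPos := by
    rintro (_ | _)
    · exact (posBox_of_check (c := ⟨525, ⟨2, 6, 12, 7⟩⟩) (by decide +kernel))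
    · exact (posBox_of_check (c := ⟨526, ⟨2, 6, 12, 7⟩⟩) (by decide +kernel))
  rintro ⟨b, _ | _⟩ <;> exact h b

def evH6_c₂p : Ev pieceH6.box (fun j : Bool × Bool => pieceH6.bd j.1 j.2) Bd.c₂p := by
  rintro ⟨_ | _, _ | _⟩
  · exact (posBox_of_check (c := ⟨550, ⟨4, 6, 13, 9⟩⟩) (by decide +kernel))
  · exact (posBox_of_check (c := ⟨550, ⟨4, 6, 13, 9⟩⟩) (by decide +kernel))
  · exact (posBox_of_check (c := ⟨552, ⟨4, 6, 13, 9⟩⟩) (by decide +kernel))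
  · exact (posBox_of_check (c := ⟨552, ⟨4, 6, 13, 9⟩⟩) (by decide +kernel))

def evH6_c₂m : Ev pieceH6.box (fun j : Bool × Bool => pieceH6.bd j.1 j.2) Bd.c₂m := by
  rintro ⟨_ | _, _ | _⟩
  · exact (posBox_of_check (c := ⟨550, ⟨4, 6, 13, 9⟩⟩) (by decide +kernel))
  · exact (posBox_of_check (c := ⟨550, ⟨4, 6, 13, 9⟩⟩) (by decide +kernel))
  · exact (posBox_of_check (c := ⟨552, ⟨4, 6, 13, 9⟩⟩) (by decide +kernel))
  · exact (posBox_of_check (c := ⟨552, ⟨4, 6, 13, 9⟩⟩) (by decide +kernel))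

def evH6_c₃pp : Ev pieceH6.box (fun j : Bool × Bool => pieceH6.bd j.1 j.2) Bd.c₃pp := by
  rintro ⟨_ | _, _ | _⟩
  · exact (posBox_of_check (c := ⟨616, ⟨4, 8, 16, 9⟩⟩) (by decide +kernel))
  · exact (posBox_of_check (c := ⟨616, ⟨4, 8, 16, 9⟩⟩) (by decide +kernel))
  · exact (posBox_of_check (c := ⟨617, ⟨4, 8, 16, 9⟩⟩) (by decide +kernel))
  · exact (posBox_of_check (c := ⟨617, ⟨4, 8, 16, 9⟩⟩) (by decide +kernel))

def evH6_c₃pm : Ev pieceH6.box (fun j : Bool × Bool => pieceH6.bd j.1 j.2) Bd.c₃pm := by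
  rintro ⟨_ | _, _ | _⟩
  · exact (posBox_of_check (c := ⟨616, ⟨4, 8, 16, 9⟩⟩) (by decide +kernel))
  · exact (posBox_of_check (c := ⟨616, ⟨4, 8, 16, 9⟩⟩) (by decide +kernel))
  · exact (posBox_of_check (c := ⟨617, ⟨4, 8, 16, 9⟩⟩) (by decide +kernel))
  · exact (posBox_of_check (c := ⟨617, ⟨4, 8, 16, 9⟩⟩) (by decide +kernel))

/-- The signs on the piece H6. -/
theorem signH6 : Signed pieceH6.box (fun j : Bool × Bool => pieceH6.bd j.1 j.2) where
  g := evH6_g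
  h := evH6_h
  n := evH6_n
  c₁p := .inl evH6_c₁p
  c₁m := .inr evH6_mPos
  c₂p := .inl evH6_c₂p
  c₂m := .inl evH6_c₂m
  c₃pp := .inl evH6_c₃pp
  c₃pm := .inl evH6_c₃pm
  c₃mp := .inr (.inl evH6_mPos)
  c₃mm := .inr (.inl evH6_mPos)

def highH6 : pieceH6.toFrame.Ev pieceH6.grp.mu pieceH6.X₁ :=
  .inr (posBox_of_check (c := ⟨328, ⟨3, 3, 7, 3⟩⟩) (by decide +kernel))

def lowH6 : PosBox pieceH6.box pieceH6.sX0 :=
  (posBox_of_check (c := ⟨180, ⟨2, 2, 3, 2⟩⟩) (by decide +kernel))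

def topH6 : pieceH6.toFrame.VTop :=
  .inr (posBox_of_check (c := ⟨46, ⟨0, 0, 2, 0⟩⟩) (by decide +kernel))

def kapH6 : pieceH6.toFrame.RTop :=
  .inr (posBox_of_check (c := ⟨125, ⟨0, 0, 3, 2⟩⟩) (by decide +kernel))

end Vale.Agent.P100.Calib.Closed.Six.End
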