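import Vale.Agent.P100.Calib.SlabSixEndSide
import Vale.Agent.P100.Calib.SlabSixEndPieces

/-!
# The checks of the piece I1
-/

-- The checks are definitions, so that they run one after another with little memory.
set_option linter.defProp false

namespace Vale.Agent.P100.Calib.Closed.Six.End

open BoxPos
open Bot (Sur)

open Large (PosBox posBox_of_check)

local instance endCheckI1Add : Add Ex := ⟨Ex.add⟩
local instance endCheckI1Sub : Sub Ex := ⟨Ex.sub⟩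
local instance endCheckI1Mul : Mul Ex := ⟨Ex.mul⟩

def evI1_g : Ev pieceI1.box (fun j : Bool × Bool => pieceI1.bd j.1 j.2) (·.G) := by
  rintro ⟨_ | _, _ | _⟩
  · exact (posBox_of_check (c := ⟨429, ⟨2, 4, 10, 7⟩⟩) (by decide +kernel))
  · exact (posBox_of_check (c := ⟨429, ⟨2, 4, 10, 7⟩⟩) (by decide +kernel))
  · exact (posBox_of_check (c := ⟨429, ⟨2, 4, 10, 7⟩⟩) (by decide +kernel))
  · exact (posBox_of_check (c := ⟨429, ⟨2, 4, 10, 7⟩⟩) (by decide +kernel))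

def evI1_h : Ev pieceI1.box (fun j : Bool × Bool => pieceI1.bd j.1 j.2) (·.H) := by
  have h : ∀ b, PosBox pieceI1.box (pieceI1.bd b false).H := by
    rintro (_ | _)
    · exact (posBox_of_check (c := ⟨479, ⟨2, 5, 11, 7⟩⟩) (by decide +kernel))
    · exact (posBox_of_check (c := ⟨479, ⟨2, 5, 11, 7⟩⟩) (by decide +kernel))
  rintro ⟨b, _ | _⟩ <;> exact h b

def evI1_n : Ev pieceI1.box (fun j : Bool × Bool => pieceI1.bd j.1 j.2) (·.N) := by
  rintro ⟨_ | _, _ | _⟩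
  · exact (posBox_of_check (c := ⟨558, ⟨2, 7, 13, 7⟩⟩) (by decide +kernel))
  · exact (posBox_of_check (c := ⟨558, ⟨2, 7, 13, 7⟩⟩) (by decide +kernel))
  · exact (posBox_of_check (c := ⟨558, ⟨2, 7, 13, 7⟩⟩) (by decide +kernel))
  · exact (posBox_of_check (c := ⟨558, ⟨2, 7, 13, 7⟩⟩) (by decide +kernel))

def evI1_c₁p : Ev pieceI1.box (fun j : Bool × Bool => pieceI1.bd j.1 j.2) Bd.c₁p := by
  have h : ∀ b, PosBox pieceI1.box (pieceI1.bd b false).c₁p := by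
    rintro (_ | _)
    · exact (posBox_of_check (c := ⟨586, ⟨4, 8, 14, 9⟩⟩) (by decide +kernel))
    · exact (posBox_of_check (c := ⟨586, ⟨4, 8, 14, 9⟩⟩) (by decide +kernel))
  rintro ⟨b, _ | _⟩ <;> exact h b

def evI1_c₁m : Ev pieceI1.box (fun j : Bool × Bool => pieceI1.bd j.1 j.2) Bd.c₁m := by
  have h : ∀ b, PosBox pieceI1.box (pieceI1.bd b false).c₁m := by
    rintro (_ | _)
    · exact (posBox_of_check (c := ⟨586, ⟨4, 8, 14, 9⟩⟩) (by decide +kernel))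
    · exact (posBox_of_check (c := ⟨586, ⟨4, 8, 14, 9⟩⟩) (by decide +kernel))
  rintro ⟨b, _ | _⟩ <;> exact h b

def evI1_c₂p : Ev pieceI1.box (fun j : Bool × Bool => pieceI1.bd j.1 j.2) Bd.c₂p := by
  rintro ⟨_ | _, _ | _⟩
  · exact (posBox_of_check (c := ⟨546, ⟨4, 6, 13, 9⟩⟩) (by decide +kernel))
  · exact (posBox_of_check (c := ⟨546, ⟨4, 6, 13, 9⟩⟩) (by decide +kernel))
  · exact (posBox_of_check (c := ⟨546, ⟨4, 6, 13, 9⟩⟩) (by decide +kernel))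
  · exact (posBox_of_check (c := ⟨546, ⟨4, 6, 13, 9⟩⟩) (by decide +kernel))

def evI1_c₂m : Ev pieceI1.box (fun j : Bool × Bool => pieceI1.bd j.1 j.2) Bd.c₂m := by
  rintro ⟨_ | _, _ | _⟩
  · exact (posBox_of_check (c := ⟨546, ⟨4, 6, 13, 9⟩⟩) (by decide +kernel))
  · exact (posBox_of_check (c := ⟨546, ⟨4, 6, 13, 9⟩⟩) (by decide +kernel))
  · exact (posBox_of_check (c := ⟨546, ⟨4, 6, 13, 9⟩⟩) (by decide +kernel))
  · exact (posBox_of_check (c := ⟨546, ⟨4, 6, 13, 9⟩⟩) (by decide +kernel))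

def evI1_c₃pp : Ev pieceI1.box (fun j : Bool × Bool => pieceI1.bd j.1 j.2) Bd.c₃pp := by
  rintro ⟨_ | _, _ | _⟩
  · exact (posBox_of_check (c := ⟨613, ⟨4, 8, 16, 9⟩⟩) (by decide +kernel))
  · exact (posBox_of_check (c := ⟨614, ⟨4, 8, 16, 9⟩⟩) (by decide +kernel))
  · exact (posBox_of_check (c := ⟨613, ⟨4, 8, 16, 9⟩⟩) (by decide +kernel))
  · exact (posBox_of_check (c := ⟨614, ⟨4, 8, 16, 9⟩⟩) (by decide +kernel))

def evI1_c₃pm : Ev pieceI1.box (fun j : Bool × Bool => pieceI1.bd j.1 j.2) Bd.c₃pm := by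
  rintro ⟨_ | _, _ | _⟩
  · exact (posBox_of_check (c := ⟨613, ⟨4, 8, 16, 9⟩⟩) (by decide +kernel))
  · exact (posBox_of_check (c := ⟨614, ⟨4, 8, 16, 9⟩⟩) (by decide +kernel))
  · exact (posBox_of_check (c := ⟨613, ⟨4, 8, 16, 9⟩⟩) (by decide +kernel))
  · exact (posBox_of_check (c := ⟨614, ⟨4, 8, 16, 9⟩⟩) (by decide +kernel))

def evI1_c₃mp : Ev pieceI1.box (fun j : Bool × Bool => pieceI1.bd j.1 j.2) Bd.c₃mp := by
  rintro ⟨_ | _, _ | _⟩
  · exact (posBox_of_check (c := ⟨613, ⟨4, 8, 16, 9⟩⟩) (by decide +kernel))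
  · exact (posBox_of_check (c := ⟨614, ⟨4, 8, 16, 9⟩⟩) (by decide +kernel))
  · exact (posBox_of_check (c := ⟨613, ⟨4, 8, 16, 9⟩⟩) (by decide +kernel))
  · exact (posBox_of_check (c := ⟨614, ⟨4, 8, 16, 9⟩⟩) (by decide +kernel))

def evI1_c₃mm : Ev pieceI1.box (fun j : Bool × Bool => pieceI1.bd j.1 j.2) Bd.c₃mm := by
  rintro ⟨_ | _, _ | _⟩
  · exact (posBox_of_check (c := ⟨613, ⟨4, 8, 16, 9⟩⟩) (by decide +kernel))
  · exact (posBox_of_check (c := ⟨614, ⟨4, 8, 16, 9⟩⟩) (by decide +kernel))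
  · exact (posBox_of_check (c := ⟨613, ⟨4, 8, 16, 9⟩⟩) (by decide +kernel))
  · exact (posBox_of_check (c := ⟨614, ⟨4, 8, 16, 9⟩⟩) (by decide +kernel))

/-- The signs on the piece I1. -/
theorem signI1 : Signed pieceI1.box (fun j : Bool × Bool => pieceI1.bd j.1 j.2) where
  g := evI1_g
  h := evI1_h
  n := evI1_n
  c₁p := .inl evI1_c₁p
  c₁m := .inl evI1_c₁m
  c₂p := .inl evI1_c₂p
  c₂m := .inl evI1_c₂m
  c₃pp := .inl evI1_c₃pp
  c₃pm := .inl evI1_c₃pm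
  c₃mp := .inl evI1_c₃mp
  c₃mm := .inl evI1_c₃mm

def highI1 : pieceI1.toFrame.Ev pieceI1.grp.mu pieceI1.X₁ :=
  .inr (posBox_of_check (c := ⟨325, ⟨3, 3, 7, 3⟩⟩) (by decide +kernel))

def lowI1 : PosBox pieceI1.box pieceI1.sX0 :=
  (posBox_of_check (c := ⟨178, ⟨2, 2, 3, 2⟩⟩) (by decide +kernel))

end Vale.Agent.P100.Calib.Closed.Six.End
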