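import Vale.Agent.P100.Calib.SlabSixEndSide
import Vale.Agent.P100.Calib.SlabSixEndPieces

/-!
# The checks of the piece I7
-/

-- The checks are definitions, so that they run one after another with little memory.
set_option linter.defProp false

namespace Vale.Agent.P100.Calib.Closed.Six.End

open BoxPos
open Bot (Sur)

open Large (PosBox posBox_of_check)

local instance endCheckI7Add : Add Ex := ⟨Ex.add⟩
local instance endCheckI7Sub : Sub Ex := ⟨Ex.sub⟩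
local instance endCheckI7Mul : Mul Ex := ⟨Ex.mul⟩

def evI7_g : Ev pieceI7.box (fun j : Bool × Bool => pieceI7.bd j.1 j.2) (·.G) := by
  rintro ⟨_ | _, _ | _⟩
  · exact (posBox_of_check (c := ⟨429, ⟨2, 4, 10, 7⟩⟩) (by decide +kernel))
  · exact (posBox_of_check (c := ⟨429, ⟨2, 4, 10, 7⟩⟩) (by decide +kernel))
  · exact (posBox_of_check (c := ⟨429, ⟨2, 4, 10, 7⟩⟩) (by decide +kernel))
  · exact (posBox_of_check (c := ⟨429, ⟨2, 4, 10, 7⟩⟩) (by decide +kernel))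

def evI7_h : Ev pieceI7.box (fun j : Bool × Bool => pieceI7.bd j.1 j.2) (·.H) := by
  have h : ∀ b, PosBox pieceI7.box (pieceI7.bd b false).H := by
    rintro (_ | _)
    · exact (posBox_of_check (c := ⟨480, ⟨2, 5, 11, 7⟩⟩) (by decide +kernel))
    · exact (posBox_of_check (c := ⟨480, ⟨2, 5, 11, 7⟩⟩) (by decide +kernel))
  rintro ⟨b, _ | _⟩ <;> exact h b

def evI7_n : Ev pieceI7.box (fun j : Bool × Bool => pieceI7.bd j.1 j.2) (·.N) := by
  rintro ⟨_ | _, _ | _⟩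
  · exact (posBox_of_check (c := ⟨557, ⟨2, 7, 13, 7⟩⟩) (by decide +kernel))
  · exact (posBox_of_check (c := ⟨557, ⟨2, 7, 13, 7⟩⟩) (by decide +kernel))
  · exact (posBox_of_check (c := ⟨557, ⟨2, 7, 13, 7⟩⟩) (by decide +kernel))
  · exact (posBox_of_check (c := ⟨557, ⟨2, 7, 13, 7⟩⟩) (by decide +kernel))

def evI7_c₁p : Ev pieceI7.box (fun j : Bool × Bool => pieceI7.bd j.1 j.2) Bd.c₁p := by
  have h : ∀ b, PosBox pieceI7.box (pieceI7.bd b false).c₁p := by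
    rintro (_ | _)
    · exact (posBox_of_check (c := ⟨588, ⟨4, 8, 14, 9⟩⟩) (by decide +kernel))
    · exact (posBox_of_check (c := ⟨588, ⟨4, 8, 14, 9⟩⟩) (by decide +kernel))
  rintro ⟨b, _ | _⟩ <;> exact h b

def evI7_c₁m : Ev pieceI7.box (fun j : Bool × Bool => pieceI7.bd j.1 j.2) Bd.c₁m := by
  have h : ∀ b, PosBox pieceI7.box (pieceI7.bd b false).c₁m := by
    rintro (_ | _)
    · exact (posBox_of_check (c := ⟨588, ⟨4, 8, 14, 9⟩⟩) (by decide +kernel))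
    · exact (posBox_of_check (c := ⟨588, ⟨4, 8, 14, 9⟩⟩) (by decide +kernel))
  rintro ⟨b, _ | _⟩ <;> exact h b

def evI7_eNeg : Ev pieceI7.box (fun j : Bool × Bool => pieceI7.bd j.1 j.2) Bd.eNeg := by
  rintro ⟨_ | _, _ | _⟩
  · exact (posBox_of_check (c := ⟨474, ⟨2, 5, 11, 7⟩⟩) (by decide +kernel))
  · exact (posBox_of_check (c := ⟨474, ⟨2, 5, 11, 7⟩⟩) (by decide +kernel))
  · exact (posBox_of_check (c := ⟨474, ⟨2, 5, 11, 7⟩⟩) (by decide +kernel))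
  · exact (posBox_of_check (c := ⟨474, ⟨2, 5, 11, 7⟩⟩) (by decide +kernel))

def evI7_c₂m : Ev pieceI7.box (fun j : Bool × Bool => pieceI7.bd j.1 j.2) Bd.c₂m := by
  rintro ⟨_ | _, _ | _⟩
  · exact (posBox_of_check (c := ⟨544, ⟨4, 6, 13, 9⟩⟩) (by decide +kernel))
  · exact (posBox_of_check (c := ⟨545, ⟨4, 6, 13, 9⟩⟩) (by decide +kernel))
  · exact (posBox_of_check (c := ⟨545, ⟨4, 6, 13, 9⟩⟩) (by decide +kernel))
  · exact (posBox_of_check (c := ⟨545, ⟨4, 6, 13, 9⟩⟩) (by decide +kernel))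

def evI7_c₃pm : Ev pieceI7.box (fun j : Bool × Bool => pieceI7.bd j.1 j.2) Bd.c₃pm := by
  rintro ⟨_ | _, _ | _⟩
  · exact (posBox_of_check (c := ⟨613, ⟨4, 8, 16, 9⟩⟩) (by decide +kernel))
  · exact (posBox_of_check (c := ⟨614, ⟨4, 8, 16, 9⟩⟩) (by decide +kernel))
  · exact (posBox_of_check (c := ⟨614, ⟨4, 8, 16, 9⟩⟩) (by decide +kernel))
  · exact (posBox_of_check (c := ⟨614, ⟨4, 8, 16, 9⟩⟩) (by decide +kernel))

def evI7_c₃mm : Ev pieceI7.box (fun j : Bool × Bool => pieceI7.bd j.1 j.2) Bd.c₃mm := by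
  rintro ⟨_ | _, _ | _⟩
  · exact (posBox_of_check (c := ⟨613, ⟨4, 8, 16, 9⟩⟩) (by decide +kernel))
  · exact (posBox_of_check (c := ⟨614, ⟨4, 8, 16, 9⟩⟩) (by decide +kernel))
  · exact (posBox_of_check (c := ⟨614, ⟨4, 8, 16, 9⟩⟩) (by decide +kernel))
  · exact (posBox_of_check (c := ⟨614, ⟨4, 8, 16, 9⟩⟩) (by decide +kernel))

/-- The signs on the piece I7. -/
theorem signI7 : Signed pieceI7.box (fun j : Bool × Bool => pieceI7.bd j.1 j.2) where
  g := evI7_g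
  h := evI7_h
  n := evI7_n
  c₁p := .inl evI7_c₁p
  c₁m := .inl evI7_c₁m
  c₂p := .inr evI7_eNeg
  c₂m := .inl evI7_c₂m
  c₃pp := .inr (.inr evI7_eNeg)
  c₃pm := .inl evI7_c₃pm
  c₃mp := .inr (.inr evI7_eNeg)
  c₃mm := .inl evI7_c₃mm

def lowI7 : PosBox pieceI7.box pieceI7.sX0 :=
  (posBox_of_check (c := ⟨178, ⟨2, 2, 3, 2⟩⟩) (by decide +kernel))

def zlowI7 : pieceI7.ZLow :=
  .inr ⟨(posBox_of_check (c := ⟨420, ⟨4, 3, 8, 4⟩⟩) (by decide +kernel)),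
    (posBox_of_check (c := ⟨420, ⟨4, 3, 8, 4⟩⟩) (by decide +kernel))⟩

end Vale.Agent.P100.Calib.Closed.Six.End
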