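import Vale.Agent.P100.Calib.SlabSixEndSide
import Vale.Agent.P100.Calib.SlabSixEndPieces

/-!
# The checks of the piece J11
-/

-- The checks are definitions, so that they run one after another with little memory.
set_option linter.defProp false

namespace Vale.Agent.P100.Calib.Closed.Six.End

open BoxPos
open Bot (Sur)

open Large (PosBox posBox_of_check)

local instance endCheckJ11Add : Add Ex := ⟨Ex.add⟩
local instance endCheckJ11Sub : Sub Ex := ⟨Ex.sub⟩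
local instance endCheckJ11Mul : Mul Ex := ⟨Ex.mul⟩

def evJ11_g : Ev pieceJ11.box (fun j : Bool × Bool => pieceJ11.bd j.1 j.2) (·.G) := by
  rintro ⟨_ | _, _ | _⟩
  · exact (posBox_of_check (c := ⟨435, ⟨2, 4, 10, 7⟩⟩) (by decide +kernel))
  · exact (posBox_of_check (c := ⟨435, ⟨2, 4, 10, 7⟩⟩) (by decide +kernel))
  · exact (posBox_of_check (c := ⟨437, ⟨2, 4, 10, 7⟩⟩) (by decide +kernel))
  · exact (posBox_of_check (c := ⟨437, ⟨2, 4, 10, 7⟩⟩) (by decide +kernel))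

def evJ11_h : Ev pieceJ11.box (fun j : Bool × Bool => pieceJ11.bd j.1 j.2) (·.H) := by
  have h : ∀ b, PosBox pieceJ11.box (pieceJ11.bd b false).H := by
    rintro (_ | _)
    · exact (posBox_of_check (c := ⟨485, ⟨2, 5, 11, 7⟩⟩) (by decide +kernel))
    · exact (posBox_of_check (c := ⟨486, ⟨2, 5, 11, 7⟩⟩) (by decide +kernel))
  rintro ⟨b, _ | _⟩ <;> exact h b

def evJ11_n : Ev pieceJ11.box (fun j : Bool × Bool => pieceJ11.bd j.1 j.2) (·.N) := by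
  rintro ⟨_ | _, _ | _⟩
  · exact (posBox_of_check (c := ⟨565, ⟨2, 7, 13, 7⟩⟩) (by decide +kernel))
  · exact (posBox_of_check (c := ⟨565, ⟨2, 7, 13, 7⟩⟩) (by decide +kernel))
  · exact (posBox_of_check (c := ⟨567, ⟨2, 7, 13, 7⟩⟩) (by decide +kernel))
  · exact (posBox_of_check (c := ⟨567, ⟨2, 7, 13, 7⟩⟩) (by decide +kernel))

def evJ11_c₁p : Ev pieceJ11.box (fun j : Bool × Bool => pieceJ11.bd j.1 j.2) Bd.c₁p := by
  have h : ∀ b, PosBox pieceJ11.box (pieceJ11.bd b false).c₁p := by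
    rintro (_ | _)
    · exact (posBox_of_check (c := ⟨587, ⟨4, 8, 14, 9⟩⟩) (by decide +kernel))
    · exact (posBox_of_check (c := ⟨588, ⟨4, 8, 14, 9⟩⟩) (by decide +kernel))
  rintro ⟨b, _ | _⟩ <;> exact h b

def evJ11_mPos : Ev pieceJ11.box (fun j : Bool × Bool => pieceJ11.bd j.1 j.2) Bd.mPos := by
  have h : ∀ b, PosBox pieceJ11.box (pieceJ11.bd b false).mPos := by
    rintro (_ | _)
    · exact (posBox_of_check (c := ⟨525, ⟨2, 6, 12, 7⟩⟩) (by decide +kernel))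
    · exact (posBox_of_check (c := ⟨526, ⟨2, 6, 12, 7⟩⟩) (by decide +kernel))
  rintro ⟨b, _ | _⟩ <;> exact h b

def evJ11_c₂p : Ev pieceJ11.box (fun j : Bool × Bool => pieceJ11.bd j.1 j.2) Bd.c₂p := by
  rintro ⟨_ | _, _ | _⟩
  · exact (posBox_of_check (c := ⟨548, ⟨4, 6, 13, 9⟩⟩) (by decide +kernel))
  · exact (posBox_of_check (c := ⟨548, ⟨4, 6, 13, 9⟩⟩) (by decide +kernel))
  · exact (posBox_of_check (c := ⟨550, ⟨4, 6, 13, 9⟩⟩) (by decide +kernel))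
  · exact (posBox_of_check (c := ⟨550, ⟨4, 6, 13, 9⟩⟩) (by decide +kernel))

def evJ11_c₂m : Ev pieceJ11.box (fun j : Bool × Bool => pieceJ11.bd j.1 j.2) Bd.c₂m := by
  rintro ⟨_ | _, _ | _⟩
  · exact (posBox_of_check (c := ⟨548, ⟨4, 6, 13, 9⟩⟩) (by decide +kernel))
  · exact (posBox_of_check (c := ⟨548, ⟨4, 6, 13, 9⟩⟩) (by decide +kernel))
  · exact (posBox_of_check (c := ⟨550, ⟨4, 6, 13, 9⟩⟩) (by decide +kernel))
  · exact (posBox_of_check (c := ⟨550, ⟨4, 6, 13, 9⟩⟩) (by decide +kernel))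

def evJ11_c₃pp : Ev pieceJ11.box (fun j : Bool × Bool => pieceJ11.bd j.1 j.2) Bd.c₃pp := by
  rintro ⟨_ | _, _ | _⟩
  · exact (posBox_of_check (c := ⟨615, ⟨4, 8, 16, 9⟩⟩) (by decide +kernel))
  · exact (posBox_of_check (c := ⟨615, ⟨4, 8, 16, 9⟩⟩) (by decide +kernel))
  · exact (posBox_of_check (c := ⟨616, ⟨4, 8, 16, 9⟩⟩) (by decide +kernel))
  · exact (posBox_of_check (c := ⟨616, ⟨4, 8, 16, 9⟩⟩) (by decide +kernel))

def evJ11_c₃pm : Ev pieceJ11.box (fun j : Bool × Bool => pieceJ11.bd j.1 j.2) Bd.c₃pm := by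
  rintro ⟨_ | _, _ | _⟩
  · exact (posBox_of_check (c := ⟨615, ⟨4, 8, 16, 9⟩⟩) (by decide +kernel))
  · exact (posBox_of_check (c := ⟨615, ⟨4, 8, 16, 9⟩⟩) (by decide +kernel))
  · exact (posBox_of_check (c := ⟨616, ⟨4, 8, 16, 9⟩⟩) (by decide +kernel))
  · exact (posBox_of_check (c := ⟨616, ⟨4, 8, 16, 9⟩⟩) (by decide +kernel))

/-- The signs on the piece J11. -/
theorem signJ11 : Signed pieceJ11.box (fun j : Bool × Bool => pieceJ11.bd j.1 j.2) where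
  g := evJ11_g
  h := evJ11_h
  n := evJ11_n
  c₁p := .inl evJ11_c₁p
  c₁m := .inr evJ11_mPos
  c₂p := .inl evJ11_c₂p
  c₂m := .inl evJ11_c₂m
  c₃pp := .inl evJ11_c₃pp
  c₃pm := .inl evJ11_c₃pm
  c₃mp := .inr (.inl evJ11_mPos)
  c₃mm := .inr (.inl evJ11_mPos)

def highJ11 : pieceJ11.toFrame.Ev pieceJ11.grp.mu pieceJ11.X₁ :=
  .inr (posBox_of_check (c := ⟨328, ⟨3, 3, 7, 3⟩⟩) (by decide +kernel))

def lowJ11 : PosBox pieceJ11.box pieceJ11.sX0 :=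
  (posBox_of_check (c := ⟨179, ⟨2, 2, 3, 2⟩⟩) (by decide +kernel))

def topJ11 : pieceJ11.toFrame.VTop :=
  .inr (posBox_of_check (c := ⟨46, ⟨0, 0, 2, 0⟩⟩) (by decide +kernel))

def kapJ11 : pieceJ11.toFrame.RTop :=
  .inr (posBox_of_check (c := ⟨126, ⟨0, 0, 3, 2⟩⟩) (by decide +kernel))

def zlowJ11 : pieceJ11.ZLow :=
  .inr ⟨(posBox_of_check (c := ⟨421, ⟨4, 3, 8, 4⟩⟩) (by decide +kernel)),
    (posBox_of_check (c := ⟨422, ⟨4, 3, 8, 4⟩⟩) (by decide +kernel))⟩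

end Vale.Agent.P100.Calib.Closed.Six.End
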