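import Vale.Agent.P100.Calib.SlabSixEndSide
import Vale.Agent.P100.Calib.SlabSixEndPieces

/-!
# The checks of the piece J6
-/

-- The checks are definitions, so that they run one after another with little memory.
set_option linter.defProp false

namespace Vale.Agent.P100.Calib.Closed.Six.End

open BoxPos
open Bot (Sur)

open Large (PosBox posBox_of_check)

local instance endCheckJ6Add : Add Ex := ⟨Ex.add⟩
local instance endCheckJ6Sub : Sub Ex := ⟨Ex.sub⟩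
local instance endCheckJ6Mul : Mul Ex := ⟨Ex.mul⟩

def evJ6_g : Ev pieceJ6.box (fun j : Bool × Bool => pieceJ6.bd j.1 j.2) (·.G) := by
  rintro ⟨_ | _, _ | _⟩
  · exact (posBox_of_check (c := ⟨430, ⟨2, 4, 10, 7⟩⟩) (by decide +kernel))
  · exact (posBox_of_check (c := ⟨430, ⟨2, 4, 10, 7⟩⟩) (by decide +kernel))
  · exact (posBox_of_check (c := ⟨430, ⟨2, 4, 10, 7⟩⟩) (by decide +kernel))
  · exact (posBox_of_check (c := ⟨430, ⟨2, 4, 10, 7⟩⟩) (by decide +kernel))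

def evJ6_h : Ev pieceJ6.box (fun j : Bool × Bool => pieceJ6.bd j.1 j.2) (·.H) := by
  have h : ∀ b, PosBox pieceJ6.box (pieceJ6.bd b false).H := by
    rintro (_ | _)
    · exact (posBox_of_check (c := ⟨479, ⟨2, 5, 11, 7⟩⟩) (by decide +kernel))
    · exact (posBox_of_check (c := ⟨479, ⟨2, 5, 11, 7⟩⟩) (by decide +kernel))
  rintro ⟨b, _ | _⟩ <;> exact h b

def evJ6_n : Ev pieceJ6.box (fun j : Bool × Bool => pieceJ6.bd j.1 j.2) (·.N) := by
  rintro ⟨_ | _, _ | _⟩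
  · exact (posBox_of_check (c := ⟨559, ⟨2, 7, 13, 7⟩⟩) (by decide +kernel))
  · exact (posBox_of_check (c := ⟨559, ⟨2, 7, 13, 7⟩⟩) (by decide +kernel))
  · exact (posBox_of_check (c := ⟨559, ⟨2, 7, 13, 7⟩⟩) (by decide +kernel))
  · exact (posBox_of_check (c := ⟨559, ⟨2, 7, 13, 7⟩⟩) (by decide +kernel))

def evJ6_mNeg : Ev pieceJ6.box (fun j : Bool × Bool => pieceJ6.bd j.1 j.2) Bd.mNeg := by
  have h : ∀ b, PosBox pieceJ6.box (pieceJ6.bd b false).mNeg := by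
    rintro (_ | _)
    · exact (posBox_of_check (c := ⟨520, ⟨2, 6, 12, 7⟩⟩) (by decide +kernel))
    · exact (posBox_of_check (c := ⟨520, ⟨2, 6, 12, 7⟩⟩) (by decide +kernel))
  rintro ⟨b, _ | _⟩ <;> exact h b

def evJ6_c₁m : Ev pieceJ6.box (fun j : Bool × Bool => pieceJ6.bd j.1 j.2) Bd.c₁m := by
  have h : ∀ b, PosBox pieceJ6.box (pieceJ6.bd b false).c₁m := by
    rintro (_ | _)
    · exact (posBox_of_check (c := ⟨586, ⟨4, 8, 14, 9⟩⟩) (by decide +kernel))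
    · exact (posBox_of_check (c := ⟨586, ⟨4, 8, 14, 9⟩⟩) (by decide +kernel))
  rintro ⟨b, _ | _⟩ <;> exact h b

def evJ6_eNeg : Ev pieceJ6.box (fun j : Bool × Bool => pieceJ6.bd j.1 j.2) Bd.eNeg := by
  rintro ⟨_ | _, _ | _⟩
  · exact (posBox_of_check (c := ⟨475, ⟨2, 5, 11, 7⟩⟩) (by decide +kernel))
  · exact (posBox_of_check (c := ⟨475, ⟨2, 5, 11, 7⟩⟩) (by decide +kernel))
  · exact (posBox_of_check (c := ⟨475, ⟨2, 5, 11, 7⟩⟩) (by decide +kernel))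
  · exact (posBox_of_check (c := ⟨475, ⟨2, 5, 11, 7⟩⟩) (by decide +kernel))

def evJ6_c₂m : Ev pieceJ6.box (fun j : Bool × Bool => pieceJ6.bd j.1 j.2) Bd.c₂m := by
  rintro ⟨_ | _, _ | _⟩
  · exact (posBox_of_check (c := ⟨545, ⟨4, 6, 13, 9⟩⟩) (by decide +kernel))
  · exact (posBox_of_check (c := ⟨546, ⟨4, 6, 13, 9⟩⟩) (by decide +kernel))
  · exact (posBox_of_check (c := ⟨545, ⟨4, 6, 13, 9⟩⟩) (by decide +kernel))
  · exact (posBox_of_check (c := ⟨546, ⟨4, 6, 13, 9⟩⟩) (by decide +kernel))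

def evJ6_c₃mm : Ev pieceJ6.box (fun j : Bool × Bool => pieceJ6.bd j.1 j.2) Bd.c₃mm := by
  rintro ⟨_ | _, _ | _⟩
  · exact (posBox_of_check (c := ⟨613, ⟨4, 8, 16, 9⟩⟩) (by decide +kernel))
  · exact (posBox_of_check (c := ⟨613, ⟨4, 8, 16, 9⟩⟩) (by decide +kernel))
  · exact (posBox_of_check (c := ⟨613, ⟨4, 8, 16, 9⟩⟩) (by decide +kernel))
  · exact (posBox_of_check (c := ⟨613, ⟨4, 8, 16, 9⟩⟩) (by decide +kernel))

/-- The signs on the piece J6. -/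
theorem signJ6 : Signed pieceJ6.box (fun j : Bool × Bool => pieceJ6.bd j.1 j.2) where
  g := evJ6_g
  h := evJ6_h
  n := evJ6_n
  c₁p := .inr evJ6_mNeg
  c₁m := .inl evJ6_c₁m
  c₂p := .inr evJ6_eNeg
  c₂m := .inl evJ6_c₂m
  c₃pp := .inr (.inl evJ6_mNeg)
  c₃pm := .inr (.inl evJ6_mNeg)
  c₃mp := .inr (.inr evJ6_eNeg)
  c₃mm := .inl evJ6_c₃mm

def highJ6 : pieceJ6.toFrame.Ev pieceJ6.grp.mu pieceJ6.X₁ :=
  .inr (posBox_of_check (c := ⟨325, ⟨3, 3, 7, 3⟩⟩) (by decide +kernel))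

end Vale.Agent.P100.Calib.Closed.Six.End
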