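import Vale.Agent.P100.Calib.SlabSixEndFit
import Vale.Agent.P100.Calib.SlabSixEndGroupsA

/-!
# The surrogates for `2.65 ≤ v ≤ 3.15`, `0.0 ≤ d ≤ 0.03` are within their errors
-/

-- The checks are definitions, so that they run one after another with little memory.
set_option linter.defProp false

namespace Vale.Agent.P100.Calib.Closed.Six.End

open BoxPos
open Bot (Sur)

open Large (PosBox posBox_of_check posBox_join₂)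

local instance endFitADAdd : Add Ex := ⟨Ex.add⟩
local instance endFitADSub : Sub Ex := ⟨Ex.sub⟩
local instance endFitADMul : Mul Ex := ⟨Ex.mul⟩

/-- The box of the surrogates. -/
def boxAD : Box := ⟨⟨0, 1, 1⟩, ⟨0, 677, 1000000⟩, ⟨0, 30001, 1000000⟩, ⟨265000, 315001, 100000⟩⟩

def fitAD_A_c010 : Fits boxAD (0) 0 (exA' (zEnd ⟨0, 0⟩ groupAD.zh false Ex.x₃) Ex.x₁ Ex.x₂ Ex.x₃).c010 (groupAD_A.c010) :=
  ⟨(posBox_of_check (c := ⟨630, ⟨0, 13, 18, 8⟩⟩) (by decide +kernel)),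
    (posBox_of_check (c := ⟨630, ⟨0, 13, 18, 8⟩⟩) (by decide +kernel))⟩

def fitAD_A_c100 : Fits boxAD (0) 0 (exA' (zEnd ⟨0, 0⟩ groupAD.zh false Ex.x₃) Ex.x₁ Ex.x₂ Ex.x₃).c100 (groupAD_A.c100) :=
  ⟨(posBox_of_check (c := ⟨438, ⟨0, 11, 11, 5⟩⟩) (by decide +kernel)),
    (posBox_of_check (c := ⟨438, ⟨0, 11, 11, 5⟩⟩) (by decide +kernel))⟩

def fitAD_A_c101 : Fits boxAD (0) 0 (exA' (zEnd ⟨0, 0⟩ groupAD.zh false Ex.x₃) Ex.x₁ Ex.x₂ Ex.x₃).c101 (groupAD_A.c101) :=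
  ⟨(posBox_of_check (c := ⟨459, ⟨0, 11, 11, 6⟩⟩) (by decide +kernel)),
    (posBox_of_check (c := ⟨459, ⟨0, 11, 11, 6⟩⟩) (by decide +kernel))⟩

def fitAD_A_c110 : Fits boxAD (0) 0 (exA' (zEnd ⟨0, 0⟩ groupAD.zh false Ex.x₃) Ex.x₁ Ex.x₂ Ex.x₃).c110 (groupAD_A.c110) :=
  ⟨(posBox_of_check (c := ⟨546, ⟨0, 12, 15, 7⟩⟩) (by decide +kernel)),
    (posBox_of_check (c := ⟨546, ⟨0, 12, 15, 7⟩⟩) (by decide +kernel))⟩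

def fitAD_A_c110_top : Fits boxAD (0) 0 (exA' (zEnd ⟨0, 0⟩ groupAD.zh true Ex.x₃) Ex.x₁ Ex.x₂ Ex.x₃).c110 (groupAD.A') :=
  ⟨(posBox_of_check (c := ⟨546, ⟨0, 12, 15, 7⟩⟩) (by decide +kernel)),
    (posBox_of_check (c := ⟨546, ⟨0, 12, 15, 7⟩⟩) (by decide +kernel))⟩

def fitAD_A_c111 : Fits boxAD (0) 0 (exA' (zEnd ⟨0, 0⟩ groupAD.zh false Ex.x₃) Ex.x₁ Ex.x₂ Ex.x₃).c111 (groupAD_A.c111) :=
  ⟨(posBox_of_check (c := ⟨586, ⟨0, 12, 16, 7⟩⟩) (by decide +kernel)),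
    (posBox_of_check (c := ⟨586, ⟨0, 12, 16, 7⟩⟩) (by decide +kernel))⟩

def fitAD_A_c120 : Fits boxAD (0) 0 (exA' (zEnd ⟨0, 0⟩ groupAD.zh false Ex.x₃) Ex.x₁ Ex.x₂ Ex.x₃).c120 (groupAD_A.c120) :=
  ⟨(posBox_of_check (c := ⟨564, ⟨0, 12, 16, 6⟩⟩) (by decide +kernel)),
    (posBox_of_check (c := ⟨564, ⟨0, 12, 16, 6⟩⟩) (by decide +kernel))⟩

def fitAD_A_c210 : Fits boxAD (0) 0 (exA' (zEnd ⟨0, 0⟩ groupAD.zh false Ex.x₃) Ex.x₁ Ex.x₂ Ex.x₃).c210 (groupAD_A.c210) :=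
  ⟨(posBox_of_check (c := ⟨495, ⟨0, 11, 13, 6⟩⟩) (by decide +kernel)),
    (posBox_of_check (c := ⟨495, ⟨0, 11, 13, 6⟩⟩) (by decide +kernel))⟩

def fitAD_A_c211 : Fits boxAD (0) 0 (exA' (zEnd ⟨0, 0⟩ groupAD.zh false Ex.x₃) Ex.x₁ Ex.x₂ Ex.x₃).c211 (groupAD_A.c211) :=
  ⟨(posBox_of_check (c := ⟨488, ⟨0, 11, 13, 6⟩⟩) (by decide +kernel)),
    (posBox_of_check (c := ⟨488, ⟨0, 11, 13, 6⟩⟩) (by decide +kernel))⟩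

def fitAD_A_c212 : Fits boxAD (0) 0 (exA' (zEnd ⟨0, 0⟩ groupAD.zh false Ex.x₃) Ex.x₁ Ex.x₂ Ex.x₃).c212 (groupAD_A.c212) :=
  ⟨(posBox_of_check (c := ⟨530, ⟨0, 11, 14, 7⟩⟩) (by decide +kernel)),
    (posBox_of_check (c := ⟨530, ⟨0, 11, 14, 7⟩⟩) (by decide +kernel))⟩

def fitAD_A_c220 : Fits boxAD (0) 0 (exA' (zEnd ⟨0, 0⟩ groupAD.zh false Ex.x₃) Ex.x₁ Ex.x₂ Ex.x₃).c220 (groupAD_A.c220) :=
  ⟨(posBox_of_check (c := ⟨468, ⟨0, 11, 13, 5⟩⟩) (by decide +kernel)),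
    (posBox_of_check (c := ⟨468, ⟨0, 11, 13, 5⟩⟩) (by decide +kernel))⟩

def fitAD_A_c221 : Fits boxAD (0) 0 (exA' (zEnd ⟨0, 0⟩ groupAD.zh false Ex.x₃) Ex.x₁ Ex.x₂ Ex.x₃).c221 (groupAD_A.c221) :=
  ⟨(posBox_of_check (c := ⟨510, ⟨0, 11, 14, 6⟩⟩) (by decide +kernel)),
    (posBox_of_check (c := ⟨510, ⟨0, 11, 14, 6⟩⟩) (by decide +kernel))⟩

def fitAD_A_c230 : Fits boxAD (0) 0 (exA' (zEnd ⟨0, 0⟩ groupAD.zh false Ex.x₃) Ex.x₁ Ex.x₂ Ex.x₃).c230 (groupAD_A.c230) :=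
  ⟨(posBox_of_check (c := ⟨488, ⟨0, 11, 14, 5⟩⟩) (by decide +kernel)),
    (posBox_of_check (c := ⟨488, ⟨0, 11, 14, 5⟩⟩) (by decide +kernel))⟩

def fitAD_M_m00 : Fits boxAD (0) 0 (exM' Ex.x₁ Ex.x₂ Ex.x₃).m00 (groupAD_M.m00) :=
  ⟨(posBox_of_check (c := ⟨369, ⟨0, 9, 8, 5⟩⟩) (by decide +kernel)),
    (posBox_of_check (c := ⟨369, ⟨0, 9, 8, 5⟩⟩) (by decide +kernel))⟩

def fitAD_M_m01 : Fits boxAD (0) 0 (exM' Ex.x₁ Ex.x₂ Ex.x₃).m01 (groupAD_M.m01) :=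
  ⟨(posBox_of_check (c := ⟨374, ⟨0, 9, 8, 5⟩⟩) (by decide +kernel)),
    (posBox_of_check (c := ⟨374, ⟨0, 9, 8, 5⟩⟩) (by decide +kernel))⟩

def fitAD_M_m10 : Fits boxAD (0) 0 (exM' Ex.x₁ Ex.x₂ Ex.x₃).m10 (groupAD_M.m10) :=
  ⟨(posBox_of_check (c := ⟨417, ⟨0, 10, 10, 5⟩⟩) (by decide +kernel)),
    (posBox_of_check (c := ⟨417, ⟨0, 10, 10, 5⟩⟩) (by decide +kernel))⟩

def fitAD_M_m11 : Fits boxAD (0) 0 (exM' Ex.x₁ Ex.x₂ Ex.x₃).m11 (groupAD_M.m11) :=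
  ⟨(posBox_of_check (c := ⟨389, ⟨0, 8, 9, 5⟩⟩) (by decide +kernel)),
    (posBox_of_check (c := ⟨389, ⟨0, 8, 9, 5⟩⟩) (by decide +kernel))⟩

def fitAD_M_m20 : Fits boxAD (0) 0 (exM' Ex.x₁ Ex.x₂ Ex.x₃).m20 (groupAD_M.m20) :=
  ⟨(posBox_of_check (c := ⟨386, ⟨0, 8, 9, 5⟩⟩) (by decide +kernel)),
    (posBox_of_check (c := ⟨386, ⟨0, 8, 9, 5⟩⟩) (by decide +kernel))⟩

def fitAD_M_n11 : Fits boxAD (0) 0 (exM' Ex.x₁ Ex.x₂ Ex.x₃).n11 (groupAD_M.n11) :=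
  ⟨(posBox_of_check (c := ⟨371, ⟨0, 9, 9, 5⟩⟩) (by decide +kernel)),
    (posBox_of_check (c := ⟨371, ⟨0, 9, 9, 5⟩⟩) (by decide +kernel))⟩

def fitAD_M_n20 : Fits boxAD (0) 0 (exM' Ex.x₁ Ex.x₂ Ex.x₃).n20 (groupAD_M.n20) :=
  ⟨(posBox_of_check (c := ⟨365, ⟨0, 9, 9, 5⟩⟩) (by decide +kernel)),
    (posBox_of_check (c := ⟨365, ⟨0, 9, 9, 5⟩⟩) (by decide +kernel))⟩

def fitAD_G_c0 : Fits boxAD (0) 0 (exG (zEnd ⟨0, 0⟩ groupAD.zh false Ex.x₃) Ex.x₁ Ex.x₂ Ex.x₃).c0 (groupAD_G.c0) :=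
  ⟨(posBox_of_check (c := ⟨615, ⟨0, 13, 16, 9⟩⟩) (by decide +kernel)),
    (posBox_of_check (c := ⟨615, ⟨0, 13, 16, 9⟩⟩) (by decide +kernel))⟩

def fitAD_G_c0_top : Fits boxAD (0) 0 (exG (zEnd ⟨0, 0⟩ groupAD.zh true Ex.x₃) Ex.x₁ Ex.x₂ Ex.x₃).c0 (groupAD.G₀') :=
  ⟨(posBox_of_check (c := ⟨589, ⟨0, 13, 16, 8⟩⟩) (by decide +kernel)),
    (posBox_of_check (c := ⟨589, ⟨0, 13, 16, 8⟩⟩) (by decide +kernel))⟩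

def fitAD_G_c1 : Fits boxAD (0) 1 (exG (zEnd ⟨0, 0⟩ groupAD.zh false Ex.x₃) Ex.x₁ Ex.x₂ Ex.x₃).c1 (groupAD_G.c1) :=
  ⟨(posBox_of_check (c := ⟨554, ⟨0, 13, 14, 7⟩⟩) (by decide +kernel)),
    (posBox_of_check (c := ⟨554, ⟨0, 13, 14, 7⟩⟩) (by decide +kernel))⟩

def fitAD_G_c1_top : Fits boxAD (0) 1 (exG (zEnd ⟨0, 0⟩ groupAD.zh true Ex.x₃) Ex.x₁ Ex.x₂ Ex.x₃).c1 (groupAD.G₁') :=
  ⟨(posBox_of_check (c := ⟨542, ⟨0, 13, 14, 6⟩⟩) (by decide +kernel)),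
    (posBox_of_check (c := ⟨542, ⟨0, 13, 14, 6⟩⟩) (by decide +kernel))⟩

def fitAD_G_c2 : Fits boxAD (0) 2 (exG (zEnd ⟨0, 0⟩ groupAD.zh false Ex.x₃) Ex.x₁ Ex.x₂ Ex.x₃).c2 (groupAD_G.c2) :=
  ⟨(posBox_of_check (c := ⟨496, ⟨0, 13, 12, 5⟩⟩) (by decide +kernel)),
    (posBox_of_check (c := ⟨496, ⟨0, 13, 12, 5⟩⟩) (by decide +kernel))⟩

def fitAD_E_c000 : Fits boxAD (0) 0 (exE' (zEnd ⟨0, 0⟩ groupAD.zh false Ex.x₃) Ex.x₁ Ex.x₂ Ex.x₃).c000 (groupAD_E.c000) :=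
  ⟨(posBox_of_check (c := ⟨565, ⟨0, 13, 14, 8⟩⟩) (by decide +kernel)),
    (posBox_of_check (c := ⟨565, ⟨0, 13, 14, 8⟩⟩) (by decide +kernel))⟩

def fitAD_E_c000_top : Fits boxAD (0) 0 (exE' (zEnd ⟨0, 0⟩ groupAD.zh true Ex.x₃) Ex.x₁ Ex.x₂ Ex.x₃).c000 (groupAD.E₀') :=
  ⟨(posBox_of_check (c := ⟨551, ⟨0, 13, 14, 7⟩⟩) (by decide +kernel)),
    (posBox_of_check (c := ⟨551, ⟨0, 13, 14, 7⟩⟩) (by decide +kernel))⟩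

def fitAD_E_c100 : Fits boxAD (0) 0 (exE' (zEnd ⟨0, 0⟩ groupAD.zh false Ex.x₃) Ex.x₁ Ex.x₂ Ex.x₃).c100 (groupAD_E.c100) :=
  ⟨(posBox_of_check (c := ⟨517, ⟨0, 12, 13, 7⟩⟩) (by decide +kernel)),
    (posBox_of_check (c := ⟨517, ⟨0, 12, 13, 7⟩⟩) (by decide +kernel))⟩

def fitAD_E_c100_top : Fits boxAD (0) 0 (exE' (zEnd ⟨0, 0⟩ groupAD.zh true Ex.x₃) Ex.x₁ Ex.x₂ Ex.x₃).c100 (groupAD.E₁') :=
  ⟨(posBox_of_check (c := ⟨504, ⟨0, 12, 13, 6⟩⟩) (by decide +kernel)),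
    (posBox_of_check (c := ⟨504, ⟨0, 12, 13, 6⟩⟩) (by decide +kernel))⟩

def fitAD_E_c101 : Fits boxAD (0) 0 (exE' (zEnd ⟨0, 0⟩ groupAD.zh false Ex.x₃) Ex.x₁ Ex.x₂ Ex.x₃).c101 (groupAD_E.c101) :=
  ⟨(posBox_of_check (c := ⟨506, ⟨0, 12, 12, 7⟩⟩) (by decide +kernel)),
    (posBox_of_check (c := ⟨506, ⟨0, 12, 12, 7⟩⟩) (by decide +kernel))⟩

def fitAD_E_c110 : Fits boxAD (0) 0 (exE' (zEnd ⟨0, 0⟩ groupAD.zh false Ex.x₃) Ex.x₁ Ex.x₂ Ex.x₃).c110 (groupAD_E.c110) :=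
  ⟨(posBox_of_check (c := ⟨485, ⟨0, 12, 12, 6⟩⟩) (by decide +kernel)),
    (posBox_of_check (c := ⟨485, ⟨0, 12, 12, 6⟩⟩) (by decide +kernel))⟩

def fitAD_E_c200 : Fits boxAD (0) 0 (exE' (zEnd ⟨0, 0⟩ groupAD.zh false Ex.x₃) Ex.x₁ Ex.x₂ Ex.x₃).c200 (groupAD_E.c200) :=
  ⟨(posBox_of_check (c := ⟨436, ⟨0, 11, 11, 5⟩⟩) (by decide +kernel)),
    (posBox_of_check (c := ⟨436, ⟨0, 11, 11, 5⟩⟩) (by decide +kernel))⟩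

def fitAD_E_c201 : Fits boxAD (0) 0 (exE' (zEnd ⟨0, 0⟩ groupAD.zh false Ex.x₃) Ex.x₁ Ex.x₂ Ex.x₃).c201 (groupAD_E.c201) :=
  ⟨(posBox_of_check (c := ⟨415, ⟨0, 10, 10, 5⟩⟩) (by decide +kernel)),
    (posBox_of_check (c := ⟨415, ⟨0, 10, 10, 5⟩⟩) (by decide +kernel))⟩

def fitAD_E_c210 : Fits boxAD (0) 0 (exE' (zEnd ⟨0, 0⟩ groupAD.zh false Ex.x₃) Ex.x₁ Ex.x₂ Ex.x₃).c210 (groupAD_E.c210) :=
  ⟨(posBox_of_check (c := ⟨395, ⟨0, 10, 10, 5⟩⟩) (by decide +kernel)),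
    (posBox_of_check (c := ⟨395, ⟨0, 10, 10, 5⟩⟩) (by decide +kernel))⟩

def fitAD_P_c01 : Fits boxAD (0) 0 (exP' Ex.x₁ Ex.x₂ Ex.x₃).c01 (groupAD_P.c01) :=
  ⟨(posBox_of_check (c := ⟨365, ⟨0, 7, 7, 5⟩⟩) (by decide +kernel)),
    (posBox_of_check (c := ⟨365, ⟨0, 7, 7, 5⟩⟩) (by decide +kernel))⟩

def fitAD_P_c10 : Fits boxAD (0) 0 (exP' Ex.x₁ Ex.x₂ Ex.x₃).c10 (groupAD_P.c10) :=
  ⟨(posBox_of_check (c := ⟨361, ⟨0, 7, 7, 5⟩⟩) (by decide +kernel)),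
    (posBox_of_check (c := ⟨361, ⟨0, 7, 7, 5⟩⟩) (by decide +kernel))⟩

def fitAD_N_c010 : Fits boxAD (0) 0 (exN' (zEnd ⟨0, 0⟩ groupAD.zh false Ex.x₃) Ex.x₁ Ex.x₂ Ex.x₃).c010 (groupAD_N.c010) :=
  ⟨(posBox_of_check (c := ⟨606, ⟨0, 12, 17, 8⟩⟩) (by decide +kernel)),
    (posBox_of_check (c := ⟨606, ⟨0, 12, 17, 8⟩⟩) (by decide +kernel))⟩

def fitAD_N_c100 : Fits boxAD (0) 0 (exN' (zEnd ⟨0, 0⟩ groupAD.zh false Ex.x₃) Ex.x₁ Ex.x₂ Ex.x₃).c100 (groupAD_N.c100) :=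
  ⟨(posBox_of_check (c := ⟨438, ⟨0, 11, 11, 5⟩⟩) (by decide +kernel)),
    (posBox_of_check (c := ⟨438, ⟨0, 11, 11, 5⟩⟩) (by decide +kernel))⟩

def fitAD_N_c101 : Fits boxAD (0) 0 (exN' (zEnd ⟨0, 0⟩ groupAD.zh false Ex.x₃) Ex.x₁ Ex.x₂ Ex.x₃).c101 (groupAD_N.c101) :=
  ⟨(posBox_of_check (c := ⟨459, ⟨0, 11, 11, 6⟩⟩) (by decide +kernel)),
    (posBox_of_check (c := ⟨459, ⟨0, 11, 11, 6⟩⟩) (by decide +kernel))⟩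

def fitAD_N_c110 : Fits boxAD (0) 0 (exN' (zEnd ⟨0, 0⟩ groupAD.zh false Ex.x₃) Ex.x₁ Ex.x₂ Ex.x₃).c110 (groupAD_N.c110) :=
  ⟨(posBox_of_check (c := ⟨536, ⟨0, 12, 14, 7⟩⟩) (by decide +kernel)),
    (posBox_of_check (c := ⟨536, ⟨0, 12, 14, 7⟩⟩) (by decide +kernel))⟩

def fitAD_N_c110_top : Fits boxAD (0) 0 (exN' (zEnd ⟨0, 0⟩ groupAD.zh true Ex.x₃) Ex.x₁ Ex.x₂ Ex.x₃).c110 (groupAD.N') :=
  ⟨(posBox_of_check (c := ⟨524, ⟨0, 12, 14, 7⟩⟩) (by decide +kernel)),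
    (posBox_of_check (c := ⟨524, ⟨0, 12, 14, 7⟩⟩) (by decide +kernel))⟩

def fitAD_N_c111 : Fits boxAD (0) 0 (exN' (zEnd ⟨0, 0⟩ groupAD.zh false Ex.x₃) Ex.x₁ Ex.x₂ Ex.x₃).c111 (groupAD_N.c111) :=
  ⟨(posBox_of_check (c := ⟨561, ⟨0, 11, 15, 7⟩⟩) (by decide +kernel)),
    (posBox_of_check (c := ⟨561, ⟨0, 11, 15, 7⟩⟩) (by decide +kernel))⟩

def fitAD_N_c120 : Fits boxAD (0) 0 (exN' (zEnd ⟨0, 0⟩ groupAD.zh false Ex.x₃) Ex.x₁ Ex.x₂ Ex.x₃).c120 (groupAD_N.c120) :=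
  ⟨(posBox_of_check (c := ⟨539, ⟨0, 11, 15, 6⟩⟩) (by decide +kernel)),
    (posBox_of_check (c := ⟨539, ⟨0, 11, 15, 6⟩⟩) (by decide +kernel))⟩

def fitAD_N_c210 : Fits boxAD (0) 0 (exN' (zEnd ⟨0, 0⟩ groupAD.zh false Ex.x₃) Ex.x₁ Ex.x₂ Ex.x₃).c210 (groupAD_N.c210) :=
  ⟨(posBox_of_check (c := ⟨470, ⟨0, 10, 12, 6⟩⟩) (by decide +kernel)),
    (posBox_of_check (c := ⟨470, ⟨0, 10, 12, 6⟩⟩) (by decide +kernel))⟩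

def fitAD_N_c211 : Fits boxAD (0) 0 (exN' (zEnd ⟨0, 0⟩ groupAD.zh false Ex.x₃) Ex.x₁ Ex.x₂ Ex.x₃).c211 (groupAD_N.c211) :=
  ⟨(posBox_of_check (c := ⟨464, ⟨0, 10, 12, 6⟩⟩) (by decide +kernel)),
    (posBox_of_check (c := ⟨464, ⟨0, 10, 12, 6⟩⟩) (by decide +kernel))⟩

def fitAD_N_c212 : Fits boxAD (0) 0 (exN' (zEnd ⟨0, 0⟩ groupAD.zh false Ex.x₃) Ex.x₁ Ex.x₂ Ex.x₃).c212 (groupAD_N.c212) :=
  ⟨(posBox_of_check (c := ⟨506, ⟨0, 10, 13, 7⟩⟩) (by decide +kernel)),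
    (posBox_of_check (c := ⟨506, ⟨0, 10, 13, 7⟩⟩) (by decide +kernel))⟩

def fitAD_N_c220 : Fits boxAD (0) 0 (exN' (zEnd ⟨0, 0⟩ groupAD.zh false Ex.x₃) Ex.x₁ Ex.x₂ Ex.x₃).c220 (groupAD_N.c220) :=
  ⟨(posBox_of_check (c := ⟨444, ⟨0, 10, 12, 5⟩⟩) (by decide +kernel)),
    (posBox_of_check (c := ⟨444, ⟨0, 10, 12, 5⟩⟩) (by decide +kernel))⟩

def fitAD_N_c221 : Fits boxAD (0) 0 (exN' (zEnd ⟨0, 0⟩ groupAD.zh false Ex.x₃) Ex.x₁ Ex.x₂ Ex.x₃).c221 (groupAD_N.c221) :=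
  ⟨(posBox_of_check (c := ⟨485, ⟨0, 10, 13, 6⟩⟩) (by decide +kernel)),
    (posBox_of_check (c := ⟨485, ⟨0, 10, 13, 6⟩⟩) (by decide +kernel))⟩

def fitAD_N_c230 : Fits boxAD (0) 0 (exN' (zEnd ⟨0, 0⟩ groupAD.zh false Ex.x₃) Ex.x₁ Ex.x₂ Ex.x₃).c230 (groupAD_N.c230) :=
  ⟨(posBox_of_check (c := ⟨463, ⟨0, 10, 13, 5⟩⟩) (by decide +kernel)),
    (posBox_of_check (c := ⟨463, ⟨0, 10, 13, 5⟩⟩) (by decide +kernel))⟩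

def fitAD_A₂ : PosBox boxAD (cC (-1) * sLo groupAD_A.c212 Ex.x₁ Ex.x₂ Ex.x₃) :=
  posBox_join₂ (m := 10000) (posBox_of_check (c := ⟨132, ⟨0, 1, 3, 3⟩⟩) (by decide +kernel))
    (posBox_of_check (c := ⟨136, ⟨0, 1, 3, 3⟩⟩) (by decide +kernel))

def fitAD_N₂ : PosBox boxAD (cC (-1) * sLo groupAD_N.c212 Ex.x₁ Ex.x₂ Ex.x₃) :=
  posBox_join₂ (m := 10000) (posBox_of_check (c := ⟨132, ⟨0, 1, 3, 3⟩⟩) (by decide +kernel))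
    (posBox_of_check (c := ⟨136, ⟨0, 1, 3, 3⟩⟩) (by decide +kernel))

/-- The surrogates are within their errors. -/
theorem fitAD : groupAD.Fit boxAD where
  A := fun z => match z with
    | false =>
      ⟨fitAD_A_c010,
        fitAD_A_c100,
        fitAD_A_c101,
        fitAD_A_c110,
        fitAD_A_c111,
        fitAD_A_c120,
        fitAD_A_c210,
        fitAD_A_c211,
        fitAD_A_c212,
        fitAD_A_c220,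
        fitAD_A_c221,
        fitAD_A_c230⟩
    | true =>
      ⟨fitAD_A_c010,
        fitAD_A_c100,
        fitAD_A_c101,
        fitAD_A_c110_top,
        fitAD_A_c111,
        fitAD_A_c120,
        fitAD_A_c210,
        fitAD_A_c211,
        fitAD_A_c212,
        fitAD_A_c220,
        fitAD_A_c221,
        fitAD_A_c230⟩
  M := ⟨fitAD_M_m00, fitAD_M_m01, fitAD_M_m10, fitAD_M_m11, fitAD_M_m20, fitAD_M_n11, fitAD_M_n20⟩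
  G := fun z => match z with
    | false =>
      ⟨fitAD_G_c0,
        fitAD_G_c1,
        fitAD_G_c2⟩
    | true =>
      ⟨fitAD_G_c0_top,
        fitAD_G_c1_top,
        fitAD_G_c2⟩
  E := fun z => match z with
    | false =>
      ⟨fitAD_E_c000,
        fitAD_E_c100,
        fitAD_E_c101,
        fitAD_E_c110,
        fitAD_E_c200,
        fitAD_E_c201,
        fitAD_E_c210⟩
    | true =>
      ⟨fitAD_E_c000_top,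
        fitAD_E_c100_top,
        fitAD_E_c101,
        fitAD_E_c110,
        fitAD_E_c200,
        fitAD_E_c201,
        fitAD_E_c210⟩
  P := ⟨fitAD_P_c01, fitAD_P_c10⟩
  N := fun z => match z with
    | false =>
      ⟨fitAD_N_c010,
        fitAD_N_c100,
        fitAD_N_c101,
        fitAD_N_c110,
        fitAD_N_c111,
        fitAD_N_c120,
        fitAD_N_c210,
        fitAD_N_c211,
        fitAD_N_c212,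
        fitAD_N_c220,
        fitAD_N_c221,
        fitAD_N_c230⟩
    | true =>
      ⟨fitAD_N_c010,
        fitAD_N_c100,
        fitAD_N_c101,
        fitAD_N_c110_top,
        fitAD_N_c111,
        fitAD_N_c120,
        fitAD_N_c210,
        fitAD_N_c211,
        fitAD_N_c212,
        fitAD_N_c220,
        fitAD_N_c221,
        fitAD_N_c230⟩
  A₂ := fitAD_A₂
  N₂ := fitAD_N₂

end Vale.Agent.P100.Calib.Closed.Six.End
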