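import Vale.Agent.P100.Calib.SlabSixEndFit
import Vale.Agent.P100.Calib.SlabSixEndGroupsA

/-!
# The surrogates for `2.15 ≤ v ≤ 2.85`, `0.03 ≤ d ≤ 0.0625` are within their errors
-/

-- The checks are definitions, so that they run one after another with little memory.
set_option linter.defProp false

namespace Vale.Agent.P100.Calib.Closed.Six.End

open BoxPos
open Bot (Sur)

open Large (PosBox posBox_of_check)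

local instance endFitB2Add : Add Ex := ⟨Ex.add⟩
local instance endFitB2Sub : Sub Ex := ⟨Ex.sub⟩
local instance endFitB2Mul : Mul Ex := ⟨Ex.mul⟩

/-- The box of the surrogates. -/
def boxB2 : Box := ⟨⟨0, 1, 1⟩, ⟨0, 2932, 1000000⟩, ⟨30000, 62501, 1000000⟩, ⟨215000, 285001, 100000⟩⟩

def fitB2_A_c00 : Fits boxB2 (0) 0 (exA (zEnd groupB2.zl groupB2.zh false Ex.x₃) Ex.x₁ Ex.x₂ Ex.x₃).c00 (groupB2_A.c00) :=
  ⟨(posBox_of_check (c := ⟨438, ⟨0, 10, 11, 6⟩⟩) (by decide +kernel)),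
    (posBox_of_check (c := ⟨438, ⟨0, 10, 11, 6⟩⟩) (by decide +kernel))⟩

def fitB2_A_c10 : Fits boxB2 (0) 1 (exA (zEnd groupB2.zl groupB2.zh false Ex.x₃) Ex.x₁ Ex.x₂ Ex.x₃).c10 (groupB2_A.c10) :=
  ⟨(posBox_of_check (c := ⟨460, ⟨0, 12, 11, 5⟩⟩) (by decide +kernel)),
    (posBox_of_check (c := ⟨460, ⟨0, 12, 11, 5⟩⟩) (by decide +kernel))⟩

def fitB2_A_c01 : Fits boxB2 (0) 0 (exA (zEnd groupB2.zl groupB2.zh false Ex.x₃) Ex.x₁ Ex.x₂ Ex.x₃).c01 (groupB2_A.c01) :=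
  ⟨(posBox_of_check (c := ⟨633, ⟨0, 13, 18, 8⟩⟩) (by decide +kernel)),
    (posBox_of_check (c := ⟨633, ⟨0, 13, 18, 8⟩⟩) (by decide +kernel))⟩

def fitB2_A_c11 : Fits boxB2 (0) 1 (exA (zEnd groupB2.zl groupB2.zh false Ex.x₃) Ex.x₁ Ex.x₂ Ex.x₃).c11 (groupB2_A.c11) :=
  ⟨(posBox_of_check (c := ⟨567, ⟨0, 13, 15, 7⟩⟩) (by decide +kernel)),
    (posBox_of_check (c := ⟨567, ⟨0, 13, 15, 7⟩⟩) (by decide +kernel))⟩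

def fitB2_A_c11_top : Fits boxB2 (0) 1 (exA (zEnd groupB2.zl groupB2.zh true Ex.x₃) Ex.x₁ Ex.x₂ Ex.x₃).c11 (groupB2.A') :=
  ⟨(posBox_of_check (c := ⟨567, ⟨0, 13, 15, 7⟩⟩) (by decide +kernel)),
    (posBox_of_check (c := ⟨567, ⟨0, 13, 15, 7⟩⟩) (by decide +kernel))⟩

def fitB2_A_c21 : Fits boxB2 (0) 2 (exA (zEnd groupB2.zl groupB2.zh false Ex.x₃) Ex.x₁ Ex.x₂ Ex.x₃).c21 (groupB2_A.c21) :=
  ⟨(posBox_of_check (c := ⟨537, ⟨0, 13, 13, 6⟩⟩) (by decide +kernel)),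
    (posBox_of_check (c := ⟨537, ⟨0, 13, 13, 6⟩⟩) (by decide +kernel))⟩

def fitB2_A_c02 : Fits boxB2 (0) 0 (exA (zEnd groupB2.zl groupB2.zh false Ex.x₃) Ex.x₁ Ex.x₂ Ex.x₃).c02 (groupB2_A.c02) :=
  ⟨(posBox_of_check (c := ⟨563, ⟨0, 11, 15, 7⟩⟩) (by decide +kernel)),
    (posBox_of_check (c := ⟨563, ⟨0, 11, 15, 7⟩⟩) (by decide +kernel))⟩

def fitB2_A_c12 : Fits boxB2 (0) 1 (exA (zEnd groupB2.zl groupB2.zh false Ex.x₃) Ex.x₁ Ex.x₂ Ex.x₃).c12 (groupB2_A.c12) :=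
  ⟨(posBox_of_check (c := ⟨586, ⟨0, 13, 16, 6⟩⟩) (by decide +kernel)),
    (posBox_of_check (c := ⟨586, ⟨0, 13, 16, 6⟩⟩) (by decide +kernel))⟩

def fitB2_A_c22 : Fits boxB2 (0) 2 (exA (zEnd groupB2.zl groupB2.zh false Ex.x₃) Ex.x₁ Ex.x₂ Ex.x₃).c22 (groupB2_A.c22) :=
  ⟨(posBox_of_check (c := ⟨514, ⟨0, 13, 13, 5⟩⟩) (by decide +kernel)),
    (posBox_of_check (c := ⟨514, ⟨0, 13, 13, 5⟩⟩) (by decide +kernel))⟩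

def fitB2_A_c03 : Fits boxB2 (0) 0 (exA (zEnd groupB2.zl groupB2.zh false Ex.x₃) Ex.x₁ Ex.x₂ Ex.x₃).c03 (groupB2_A.c03) :=
  ⟨(posBox_of_check (c := ⟨489, ⟨0, 9, 12, 7⟩⟩) (by decide +kernel)),
    (posBox_of_check (c := ⟨489, ⟨0, 9, 12, 7⟩⟩) (by decide +kernel))⟩

def fitB2_A_c13 : Fits boxB2 (0) 1 (exA (zEnd groupB2.zl groupB2.zh false Ex.x₃) Ex.x₁ Ex.x₂ Ex.x₃).c13 (groupB2_A.c13) :=
  ⟨(posBox_of_check (c := ⟨513, ⟨0, 11, 13, 6⟩⟩) (by decide +kernel)),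
    (posBox_of_check (c := ⟨513, ⟨0, 11, 13, 6⟩⟩) (by decide +kernel))⟩

def fitB2_A_c23 : Fits boxB2 (0) 2 (exA (zEnd groupB2.zl groupB2.zh false Ex.x₃) Ex.x₁ Ex.x₂ Ex.x₃).c23 (groupB2_A.c23) :=
  ⟨(posBox_of_check (c := ⟨534, ⟨0, 13, 14, 5⟩⟩) (by decide +kernel)),
    (posBox_of_check (c := ⟨534, ⟨0, 13, 14, 5⟩⟩) (by decide +kernel))⟩

def fitB2_M_c00 : Fits boxB2 (0) 0 (exM Ex.x₁ Ex.x₂ Ex.x₃).c00 (groupB2_M.c00) :=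
  ⟨(posBox_of_check (c := ⟨371, ⟨0, 8, 8, 5⟩⟩) (by decide +kernel)),
    (posBox_of_check (c := ⟨371, ⟨0, 8, 8, 5⟩⟩) (by decide +kernel))⟩

def fitB2_M_c10 : Fits boxB2 (0) 1 (exM Ex.x₁ Ex.x₂ Ex.x₃).c10 (groupB2_M.c10) :=
  ⟨(posBox_of_check (c := ⟨373, ⟨0, 10, 8, 5⟩⟩) (by decide +kernel)),
    (posBox_of_check (c := ⟨373, ⟨0, 10, 8, 5⟩⟩) (by decide +kernel))⟩

def fitB2_M_c01 : Fits boxB2 (0) 0 (exM Ex.x₁ Ex.x₂ Ex.x₃).c01 (groupB2_M.c01) :=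
  ⟨(posBox_of_check (c := ⟨374, ⟨0, 8, 9, 5⟩⟩) (by decide +kernel)),
    (posBox_of_check (c := ⟨374, ⟨0, 8, 9, 5⟩⟩) (by decide +kernel))⟩

def fitB2_M_c11 : Fits boxB2 (0) 1 (exM Ex.x₁ Ex.x₂ Ex.x₃).c11 (groupB2_M.c11) :=
  ⟨(posBox_of_check (c := ⟨440, ⟨0, 11, 10, 5⟩⟩) (by decide +kernel)),
    (posBox_of_check (c := ⟨440, ⟨0, 11, 10, 5⟩⟩) (by decide +kernel))⟩

def fitB2_M_c02 : Fits boxB2 (0) 0 (exM Ex.x₁ Ex.x₂ Ex.x₃).c02 (groupB2_M.c02) :=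
  ⟨(posBox_of_check (c := ⟨370, ⟨0, 7, 8, 5⟩⟩) (by decide +kernel)),
    (posBox_of_check (c := ⟨370, ⟨0, 7, 8, 5⟩⟩) (by decide +kernel))⟩

def fitB2_M_c12 : Fits boxB2 (0) 1 (exM Ex.x₁ Ex.x₂ Ex.x₃).c12 (groupB2_M.c12) :=
  ⟨(posBox_of_check (c := ⟨409, ⟨0, 9, 9, 5⟩⟩) (by decide +kernel)),
    (posBox_of_check (c := ⟨409, ⟨0, 9, 9, 5⟩⟩) (by decide +kernel))⟩

def fitB2_M_c22 : Fits boxB2 (0) 2 (exM Ex.x₁ Ex.x₂ Ex.x₃).c22 (groupB2_M.c22) :=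
  ⟨(posBox_of_check (c := ⟨394, ⟨0, 11, 9, 5⟩⟩) (by decide +kernel)),
    (posBox_of_check (c := ⟨394, ⟨0, 11, 9, 5⟩⟩) (by decide +kernel))⟩

def fitB2_G_c0 : Fits boxB2 (0) 0 (exG (zEnd groupB2.zl groupB2.zh false Ex.x₃) Ex.x₁ Ex.x₂ Ex.x₃).c0 (groupB2_G.c0) :=
  ⟨(posBox_of_check (c := ⟨616, ⟨0, 13, 16, 9⟩⟩) (by decide +kernel)),
    (posBox_of_check (c := ⟨616, ⟨0, 13, 16, 9⟩⟩) (by decide +kernel))⟩

def fitB2_G_c0_top : Fits boxB2 (0) 0 (exG (zEnd groupB2.zl groupB2.zh true Ex.x₃) Ex.x₁ Ex.x₂ Ex.x₃).c0 (groupB2.G₀') :=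
  ⟨(posBox_of_check (c := ⟨590, ⟨0, 13, 16, 8⟩⟩) (by decide +kernel)),
    (posBox_of_check (c := ⟨590, ⟨0, 13, 16, 8⟩⟩) (by decide +kernel))⟩

def fitB2_G_c1 : Fits boxB2 (0) 1 (exG (zEnd groupB2.zl groupB2.zh false Ex.x₃) Ex.x₁ Ex.x₂ Ex.x₃).c1 (groupB2_G.c1) :=
  ⟨(posBox_of_check (c := ⟨555, ⟨0, 13, 14, 7⟩⟩) (by decide +kernel)),
    (posBox_of_check (c := ⟨555, ⟨0, 13, 14, 7⟩⟩) (by decide +kernel))⟩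

def fitB2_G_c1_top : Fits boxB2 (0) 1 (exG (zEnd groupB2.zl groupB2.zh true Ex.x₃) Ex.x₁ Ex.x₂ Ex.x₃).c1 (groupB2.G₁') :=
  ⟨(posBox_of_check (c := ⟨542, ⟨0, 13, 14, 6⟩⟩) (by decide +kernel)),
    (posBox_of_check (c := ⟨542, ⟨0, 13, 14, 6⟩⟩) (by decide +kernel))⟩

def fitB2_G_c2 : Fits boxB2 (0) 2 (exG (zEnd groupB2.zl groupB2.zh false Ex.x₃) Ex.x₁ Ex.x₂ Ex.x₃).c2 (groupB2_G.c2) :=
  ⟨(posBox_of_check (c := ⟨497, ⟨0, 13, 12, 5⟩⟩) (by decide +kernel)),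
    (posBox_of_check (c := ⟨497, ⟨0, 13, 12, 5⟩⟩) (by decide +kernel))⟩

def fitB2_E_c00 : Fits boxB2 (0) 0 (exE (zEnd groupB2.zl groupB2.zh false Ex.x₃) Ex.x₁ Ex.x₂ Ex.x₃).c00 (groupB2_E.c00) :=
  ⟨(posBox_of_check (c := ⟨567, ⟨0, 13, 14, 8⟩⟩) (by decide +kernel)),
    (posBox_of_check (c := ⟨567, ⟨0, 13, 14, 8⟩⟩) (by decide +kernel))⟩

def fitB2_E_c00_top : Fits boxB2 (0) 0 (exE (zEnd groupB2.zl groupB2.zh true Ex.x₃) Ex.x₁ Ex.x₂ Ex.x₃).c00 (groupB2.E₀') :=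
  ⟨(posBox_of_check (c := ⟨552, ⟨0, 13, 14, 7⟩⟩) (by decide +kernel)),
    (posBox_of_check (c := ⟨552, ⟨0, 13, 14, 7⟩⟩) (by decide +kernel))⟩

def fitB2_E_c01 : Fits boxB2 (0) 0 (exE (zEnd groupB2.zl groupB2.zh false Ex.x₃) Ex.x₁ Ex.x₂ Ex.x₃).c01 (groupB2_E.c01) :=
  ⟨(posBox_of_check (c := ⟨484, ⟨0, 11, 11, 7⟩⟩) (by decide +kernel)),
    (posBox_of_check (c := ⟨484, ⟨0, 11, 11, 7⟩⟩) (by decide +kernel))⟩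

def fitB2_E_c10 : Fits boxB2 (0) 1 (exE (zEnd groupB2.zl groupB2.zh false Ex.x₃) Ex.x₁ Ex.x₂ Ex.x₃).c10 (groupB2_E.c10) :=
  ⟨(posBox_of_check (c := ⟨539, ⟨0, 13, 13, 7⟩⟩) (by decide +kernel)),
    (posBox_of_check (c := ⟨539, ⟨0, 13, 13, 7⟩⟩) (by decide +kernel))⟩

def fitB2_E_c10_top : Fits boxB2 (0) 1 (exE (zEnd groupB2.zl groupB2.zh true Ex.x₃) Ex.x₁ Ex.x₂ Ex.x₃).c10 (groupB2.E₁') :=
  ⟨(posBox_of_check (c := ⟨526, ⟨0, 13, 13, 6⟩⟩) (by decide +kernel)),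
    (posBox_of_check (c := ⟨526, ⟨0, 13, 13, 6⟩⟩) (by decide +kernel))⟩

def fitB2_E_c11 : Fits boxB2 (0) 1 (exE (zEnd groupB2.zl groupB2.zh false Ex.x₃) Ex.x₁ Ex.x₂ Ex.x₃).c11 (groupB2_E.c11) :=
  ⟨(posBox_of_check (c := ⟨508, ⟨0, 13, 12, 6⟩⟩) (by decide +kernel)),
    (posBox_of_check (c := ⟨508, ⟨0, 13, 12, 6⟩⟩) (by decide +kernel))⟩

def fitB2_E_c20 : Fits boxB2 (0) 2 (exE (zEnd groupB2.zl groupB2.zh false Ex.x₃) Ex.x₁ Ex.x₂ Ex.x₃).c20 (groupB2_E.c20) :=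
  ⟨(posBox_of_check (c := ⟨478, ⟨0, 13, 11, 5⟩⟩) (by decide +kernel)),
    (posBox_of_check (c := ⟨478, ⟨0, 13, 11, 5⟩⟩) (by decide +kernel))⟩

def fitB2_E_c21 : Fits boxB2 (0) 2 (exE (zEnd groupB2.zl groupB2.zh false Ex.x₃) Ex.x₁ Ex.x₂ Ex.x₃).c21 (groupB2_E.c21) :=
  ⟨(posBox_of_check (c := ⟨438, ⟨0, 12, 10, 5⟩⟩) (by decide +kernel)),
    (posBox_of_check (c := ⟨438, ⟨0, 12, 10, 5⟩⟩) (by decide +kernel))⟩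

def fitB2_P_c10 : Fits boxB2 (0) 1 (exP Ex.x₁ Ex.x₂ Ex.x₃).c10 (groupB2_P.c10) :=
  ⟨(posBox_of_check (c := ⟨366, ⟨0, 7, 7, 5⟩⟩) (by decide +kernel)),
    (posBox_of_check (c := ⟨366, ⟨0, 7, 7, 5⟩⟩) (by decide +kernel))⟩

def fitB2_P_c11 : Fits boxB2 (0) 1 (exP Ex.x₁ Ex.x₂ Ex.x₃).c11 (groupB2_P.c11) :=
  ⟨(posBox_of_check (c := ⟨366, ⟨0, 7, 7, 5⟩⟩) (by decide +kernel)),
    (posBox_of_check (c := ⟨366, ⟨0, 7, 7, 5⟩⟩) (by decide +kernel))⟩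

def fitB2_P_c21 : Fits boxB2 (0) 2 (exP Ex.x₁ Ex.x₂ Ex.x₃).c21 (groupB2_P.c21) :=
  ⟨(posBox_of_check (c := ⟨363, ⟨0, 9, 7, 5⟩⟩) (by decide +kernel)),
    (posBox_of_check (c := ⟨363, ⟨0, 9, 7, 5⟩⟩) (by decide +kernel))⟩

def fitB2_N_c00 : Fits boxB2 (0) 0 (exN (zEnd groupB2.zl groupB2.zh false Ex.x₃) Ex.x₁ Ex.x₂ Ex.x₃).c00 (groupB2_N.c00) :=
  ⟨(posBox_of_check (c := ⟨438, ⟨0, 10, 11, 6⟩⟩) (by decide +kernel)),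
    (posBox_of_check (c := ⟨438, ⟨0, 10, 11, 6⟩⟩) (by decide +kernel))⟩

def fitB2_N_c10 : Fits boxB2 (0) 1 (exN (zEnd groupB2.zl groupB2.zh false Ex.x₃) Ex.x₁ Ex.x₂ Ex.x₃).c10 (groupB2_N.c10) :=
  ⟨(posBox_of_check (c := ⟨460, ⟨0, 12, 11, 5⟩⟩) (by decide +kernel)),
    (posBox_of_check (c := ⟨460, ⟨0, 12, 11, 5⟩⟩) (by decide +kernel))⟩

def fitB2_N_c01 : Fits boxB2 (0) 0 (exN (zEnd groupB2.zl groupB2.zh false Ex.x₃) Ex.x₁ Ex.x₂ Ex.x₃).c01 (groupB2_N.c01) :=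
  ⟨(posBox_of_check (c := ⟨609, ⟨0, 12, 17, 8⟩⟩) (by decide +kernel)),
    (posBox_of_check (c := ⟨609, ⟨0, 12, 17, 8⟩⟩) (by decide +kernel))⟩

def fitB2_N_c11 : Fits boxB2 (0) 1 (exN (zEnd groupB2.zl groupB2.zh false Ex.x₃) Ex.x₁ Ex.x₂ Ex.x₃).c11 (groupB2_N.c11) :=
  ⟨(posBox_of_check (c := ⟨558, ⟨0, 13, 14, 7⟩⟩) (by decide +kernel)),
    (posBox_of_check (c := ⟨558, ⟨0, 13, 14, 7⟩⟩) (by decide +kernel))⟩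

def fitB2_N_c11_top : Fits boxB2 (0) 1 (exN (zEnd groupB2.zl groupB2.zh true Ex.x₃) Ex.x₁ Ex.x₂ Ex.x₃).c11 (groupB2.N') :=
  ⟨(posBox_of_check (c := ⟨545, ⟨0, 13, 14, 7⟩⟩) (by decide +kernel)),
    (posBox_of_check (c := ⟨545, ⟨0, 13, 14, 7⟩⟩) (by decide +kernel))⟩

def fitB2_N_c21 : Fits boxB2 (0) 2 (exN (zEnd groupB2.zl groupB2.zh false Ex.x₃) Ex.x₁ Ex.x₂ Ex.x₃).c21 (groupB2_N.c21) :=
  ⟨(posBox_of_check (c := ⟨513, ⟨0, 12, 12, 6⟩⟩) (by decide +kernel)),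
    (posBox_of_check (c := ⟨513, ⟨0, 12, 12, 6⟩⟩) (by decide +kernel))⟩

def fitB2_N_c02 : Fits boxB2 (0) 0 (exN (zEnd groupB2.zl groupB2.zh false Ex.x₃) Ex.x₁ Ex.x₂ Ex.x₃).c02 (groupB2_N.c02) :=
  ⟨(posBox_of_check (c := ⟨539, ⟨0, 10, 14, 7⟩⟩) (by decide +kernel)),
    (posBox_of_check (c := ⟨539, ⟨0, 10, 14, 7⟩⟩) (by decide +kernel))⟩

def fitB2_N_c12 : Fits boxB2 (0) 1 (exN (zEnd groupB2.zl groupB2.zh false Ex.x₃) Ex.x₁ Ex.x₂ Ex.x₃).c12 (groupB2_N.c12) :=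
  ⟨(posBox_of_check (c := ⟨562, ⟨0, 12, 15, 6⟩⟩) (by decide +kernel)),
    (posBox_of_check (c := ⟨562, ⟨0, 12, 15, 6⟩⟩) (by decide +kernel))⟩

def fitB2_N_c22 : Fits boxB2 (0) 2 (exN (zEnd groupB2.zl groupB2.zh false Ex.x₃) Ex.x₁ Ex.x₂ Ex.x₃).c22 (groupB2_N.c22) :=
  ⟨(posBox_of_check (c := ⟨489, ⟨0, 12, 12, 5⟩⟩) (by decide +kernel)),
    (posBox_of_check (c := ⟨489, ⟨0, 12, 12, 5⟩⟩) (by decide +kernel))⟩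

def fitB2_N_c03 : Fits boxB2 (0) 0 (exN (zEnd groupB2.zl groupB2.zh false Ex.x₃) Ex.x₁ Ex.x₂ Ex.x₃).c03 (groupB2_N.c03) :=
  ⟨(posBox_of_check (c := ⟨464, ⟨0, 8, 11, 7⟩⟩) (by decide +kernel)),
    (posBox_of_check (c := ⟨464, ⟨0, 8, 11, 7⟩⟩) (by decide +kernel))⟩

def fitB2_N_c13 : Fits boxB2 (0) 1 (exN (zEnd groupB2.zl groupB2.zh false Ex.x₃) Ex.x₁ Ex.x₂ Ex.x₃).c13 (groupB2_N.c13) :=
  ⟨(posBox_of_check (c := ⟨488, ⟨0, 10, 12, 6⟩⟩) (by decide +kernel)),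
    (posBox_of_check (c := ⟨488, ⟨0, 10, 12, 6⟩⟩) (by decide +kernel))⟩

def fitB2_N_c23 : Fits boxB2 (0) 2 (exN (zEnd groupB2.zl groupB2.zh false Ex.x₃) Ex.x₁ Ex.x₂ Ex.x₃).c23 (groupB2_N.c23) :=
  ⟨(posBox_of_check (c := ⟨510, ⟨0, 12, 13, 5⟩⟩) (by decide +kernel)),
    (posBox_of_check (c := ⟨510, ⟨0, 12, 13, 5⟩⟩) (by decide +kernel))⟩

/-- The surrogates are within their errors. -/
theorem fitB2 : groupB2.Fit boxB2 where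
  A := fun z => match z with
    | false =>
      ⟨fitB2_A_c00,
        fitB2_A_c10,
        fitB2_A_c01,
        fitB2_A_c11,
        fitB2_A_c21,
        fitB2_A_c02,
        fitB2_A_c12,
        fitB2_A_c22,
        fitB2_A_c03,
        fitB2_A_c13,
        fitB2_A_c23⟩
    | true =>
      ⟨fitB2_A_c00,
        fitB2_A_c10,
        fitB2_A_c01,
        fitB2_A_c11_top,
        fitB2_A_c21,
        fitB2_A_c02,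
        fitB2_A_c12,
        fitB2_A_c22,
        fitB2_A_c03,
        fitB2_A_c13,
        fitB2_A_c23⟩
  M := ⟨fitB2_M_c00, fitB2_M_c10, fitB2_M_c01, fitB2_M_c11, fitB2_M_c02, fitB2_M_c12, fitB2_M_c22⟩
  G := fun z => match z with
    | false =>
      ⟨fitB2_G_c0,
        fitB2_G_c1,
        fitB2_G_c2⟩
    | true =>
      ⟨fitB2_G_c0_top,
        fitB2_G_c1_top,
        fitB2_G_c2⟩
  E := fun z => match z with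
    | false =>
      ⟨fitB2_E_c00,
        fitB2_E_c01,
        fitB2_E_c10,
        fitB2_E_c11,
        fitB2_E_c20,
        fitB2_E_c21⟩
    | true =>
      ⟨fitB2_E_c00_top,
        fitB2_E_c01,
        fitB2_E_c10_top,
        fitB2_E_c11,
        fitB2_E_c20,
        fitB2_E_c21⟩
  P := ⟨fitB2_P_c10, fitB2_P_c11, fitB2_P_c21⟩
  N := fun z => match z with
    | false =>
      ⟨fitB2_N_c00,
        fitB2_N_c10,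
        fitB2_N_c01,
        fitB2_N_c11,
        fitB2_N_c21,
        fitB2_N_c02,
        fitB2_N_c12,
        fitB2_N_c22,
        fitB2_N_c03,
        fitB2_N_c13,
        fitB2_N_c23⟩
    | true =>
      ⟨fitB2_N_c00,
        fitB2_N_c10,
        fitB2_N_c01,
        fitB2_N_c11_top,
        fitB2_N_c21,
        fitB2_N_c02,
        fitB2_N_c12,
        fitB2_N_c22,
        fitB2_N_c03,
        fitB2_N_c13,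
        fitB2_N_c23⟩

end Vale.Agent.P100.Calib.Closed.Six.End
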