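import Vale.Agent.P100.Calib.SlabSixEndFit
import Vale.Agent.P100.Calib.SlabSixEndGroupsA

/-!
# The surrogates for `2.75 ≤ v ≤ 3.32`, `0.03 ≤ d ≤ 0.0625` are within their errors
-/

-- The checks are definitions, so that they run one after another with little memory.
set_option linter.defProp false

namespace Vale.Agent.P100.Calib.Closed.Six.End

open BoxPos
open Bot (Sur)

open Large (PosBox posBox_of_check)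

local instance endFitBDAdd : Add Ex := ⟨Ex.add⟩
local instance endFitBDSub : Sub Ex := ⟨Ex.sub⟩
local instance endFitBDMul : Mul Ex := ⟨Ex.mul⟩

/-- The box of the surrogates. -/
def boxBD : Box := ⟨⟨0, 1, 1⟩, ⟨0, 2932, 1000000⟩, ⟨30000, 62501, 1000000⟩, ⟨275000, 332001, 100000⟩⟩

def fitBD_A_c010 : Fits boxBD (0) 0 (exA' (zEnd ⟨0, 0⟩ groupBD.zh false Ex.x₃) Ex.x₁ Ex.x₂ Ex.x₃).c010 (groupBD_A.c010) :=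
  ⟨(posBox_of_check (c := ⟨631, ⟨0, 13, 18, 8⟩⟩) (by decide +kernel)),
    (posBox_of_check (c := ⟨631, ⟨0, 13, 18, 8⟩⟩) (by decide +kernel))⟩

def fitBD_A_c100 : Fits boxBD (0) 0 (exA' (zEnd ⟨0, 0⟩ groupBD.zh false Ex.x₃) Ex.x₁ Ex.x₂ Ex.x₃).c100 (groupBD_A.c100) :=
  ⟨(posBox_of_check (c := ⟨439, ⟨0, 11, 11, 5⟩⟩) (by decide +kernel)),
    (posBox_of_check (c := ⟨439, ⟨0, 11, 11, 5⟩⟩) (by decide +kernel))⟩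

def fitBD_A_c101 : Fits boxBD (0) 0 (exA' (zEnd ⟨0, 0⟩ groupBD.zh false Ex.x₃) Ex.x₁ Ex.x₂ Ex.x₃).c101 (groupBD_A.c101) :=
  ⟨(posBox_of_check (c := ⟨460, ⟨0, 11, 11, 6⟩⟩) (by decide +kernel)),
    (posBox_of_check (c := ⟨460, ⟨0, 11, 11, 6⟩⟩) (by decide +kernel))⟩

def fitBD_A_c110 : Fits boxBD (0) 0 (exA' (zEnd ⟨0, 0⟩ groupBD.zh false Ex.x₃) Ex.x₁ Ex.x₂ Ex.x₃).c110 (groupBD_A.c110) :=
  ⟨(posBox_of_check (c := ⟨547, ⟨0, 12, 15, 7⟩⟩) (by decide +kernel)),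
    (posBox_of_check (c := ⟨547, ⟨0, 12, 15, 7⟩⟩) (by decide +kernel))⟩

def fitBD_A_c110_top : Fits boxBD (0) 0 (exA' (zEnd ⟨0, 0⟩ groupBD.zh true Ex.x₃) Ex.x₁ Ex.x₂ Ex.x₃).c110 (groupBD.A') :=
  ⟨(posBox_of_check (c := ⟨547, ⟨0, 12, 15, 7⟩⟩) (by decide +kernel)),
    (posBox_of_check (c := ⟨547, ⟨0, 12, 15, 7⟩⟩) (by decide +kernel))⟩

def fitBD_A_c111 : Fits boxBD (0) 0 (exA' (zEnd ⟨0, 0⟩ groupBD.zh false Ex.x₃) Ex.x₁ Ex.x₂ Ex.x₃).c111 (groupBD_A.c111) :=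
  ⟨(posBox_of_check (c := ⟨587, ⟨0, 12, 16, 7⟩⟩) (by decide +kernel)),
    (posBox_of_check (c := ⟨587, ⟨0, 12, 16, 7⟩⟩) (by decide +kernel))⟩

def fitBD_A_c120 : Fits boxBD (0) 0 (exA' (zEnd ⟨0, 0⟩ groupBD.zh false Ex.x₃) Ex.x₁ Ex.x₂ Ex.x₃).c120 (groupBD_A.c120) :=
  ⟨(posBox_of_check (c := ⟨565, ⟨0, 12, 16, 6⟩⟩) (by decide +kernel)),
    (posBox_of_check (c := ⟨565, ⟨0, 12, 16, 6⟩⟩) (by decide +kernel))⟩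

def fitBD_A_c210 : Fits boxBD (0) 0 (exA' (zEnd ⟨0, 0⟩ groupBD.zh false Ex.x₃) Ex.x₁ Ex.x₂ Ex.x₃).c210 (groupBD_A.c210) :=
  ⟨(posBox_of_check (c := ⟨496, ⟨0, 11, 13, 6⟩⟩) (by decide +kernel)),
    (posBox_of_check (c := ⟨496, ⟨0, 11, 13, 6⟩⟩) (by decide +kernel))⟩

def fitBD_A_c211 : Fits boxBD (0) 0 (exA' (zEnd ⟨0, 0⟩ groupBD.zh false Ex.x₃) Ex.x₁ Ex.x₂ Ex.x₃).c211 (groupBD_A.c211) :=
  ⟨(posBox_of_check (c := ⟨492, ⟨0, 11, 13, 6⟩⟩) (by decide +kernel)),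
    (posBox_of_check (c := ⟨492, ⟨0, 11, 13, 6⟩⟩) (by decide +kernel))⟩

def fitBD_A_c212 : Fits boxBD (0) 0 (exA' (zEnd ⟨0, 0⟩ groupBD.zh false Ex.x₃) Ex.x₁ Ex.x₂ Ex.x₃).c212 (groupBD_A.c212) :=
  ⟨(posBox_of_check (c := ⟨534, ⟨0, 11, 14, 7⟩⟩) (by decide +kernel)),
    (posBox_of_check (c := ⟨534, ⟨0, 11, 14, 7⟩⟩) (by decide +kernel))⟩

def fitBD_A_c220 : Fits boxBD (0) 0 (exA' (zEnd ⟨0, 0⟩ groupBD.zh false Ex.x₃) Ex.x₁ Ex.x₂ Ex.x₃).c220 (groupBD_A.c220) :=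
  ⟨(posBox_of_check (c := ⟨472, ⟨0, 11, 13, 5⟩⟩) (by decide +kernel)),
    (posBox_of_check (c := ⟨472, ⟨0, 11, 13, 5⟩⟩) (by decide +kernel))⟩

def fitBD_A_c221 : Fits boxBD (0) 0 (exA' (zEnd ⟨0, 0⟩ groupBD.zh false Ex.x₃) Ex.x₁ Ex.x₂ Ex.x₃).c221 (groupBD_A.c221) :=
  ⟨(posBox_of_check (c := ⟨514, ⟨0, 11, 14, 6⟩⟩) (by decide +kernel)),
    (posBox_of_check (c := ⟨514, ⟨0, 11, 14, 6⟩⟩) (by decide +kernel))⟩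

def fitBD_A_c230 : Fits boxBD (0) 0 (exA' (zEnd ⟨0, 0⟩ groupBD.zh false Ex.x₃) Ex.x₁ Ex.x₂ Ex.x₃).c230 (groupBD_A.c230) :=
  ⟨(posBox_of_check (c := ⟨494, ⟨0, 11, 14, 5⟩⟩) (by decide +kernel)),
    (posBox_of_check (c := ⟨494, ⟨0, 11, 14, 5⟩⟩) (by decide +kernel))⟩

def fitBD_M_m00 : Fits boxBD (0) 0 (exM' Ex.x₁ Ex.x₂ Ex.x₃).m00 (groupBD_M.m00) :=
  ⟨(posBox_of_check (c := ⟨370, ⟨0, 9, 8, 5⟩⟩) (by decide +kernel)),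
    (posBox_of_check (c := ⟨370, ⟨0, 9, 8, 5⟩⟩) (by decide +kernel))⟩

def fitBD_M_m01 : Fits boxBD (0) 0 (exM' Ex.x₁ Ex.x₂ Ex.x₃).m01 (groupBD_M.m01) :=
  ⟨(posBox_of_check (c := ⟨375, ⟨0, 9, 8, 5⟩⟩) (by decide +kernel)),
    (posBox_of_check (c := ⟨375, ⟨0, 9, 8, 5⟩⟩) (by decide +kernel))⟩

def fitBD_M_m10 : Fits boxBD (0) 0 (exM' Ex.x₁ Ex.x₂ Ex.x₃).m10 (groupBD_M.m10) :=
  ⟨(posBox_of_check (c := ⟨418, ⟨0, 10, 10, 5⟩⟩) (by decide +kernel)),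
    (posBox_of_check (c := ⟨418, ⟨0, 10, 10, 5⟩⟩) (by decide +kernel))⟩

def fitBD_M_m11 : Fits boxBD (0) 0 (exM' Ex.x₁ Ex.x₂ Ex.x₃).m11 (groupBD_M.m11) :=
  ⟨(posBox_of_check (c := ⟨390, ⟨0, 8, 9, 5⟩⟩) (by decide +kernel)),
    (posBox_of_check (c := ⟨390, ⟨0, 8, 9, 5⟩⟩) (by decide +kernel))⟩

def fitBD_M_m20 : Fits boxBD (0) 0 (exM' Ex.x₁ Ex.x₂ Ex.x₃).m20 (groupBD_M.m20) :=
  ⟨(posBox_of_check (c := ⟨387, ⟨0, 8, 9, 5⟩⟩) (by decide +kernel)),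
    (posBox_of_check (c := ⟨387, ⟨0, 8, 9, 5⟩⟩) (by decide +kernel))⟩

def fitBD_M_n11 : Fits boxBD (0) 0 (exM' Ex.x₁ Ex.x₂ Ex.x₃).n11 (groupBD_M.n11) :=
  ⟨(posBox_of_check (c := ⟨372, ⟨0, 9, 9, 5⟩⟩) (by decide +kernel)),
    (posBox_of_check (c := ⟨372, ⟨0, 9, 9, 5⟩⟩) (by decide +kernel))⟩

def fitBD_M_n20 : Fits boxBD (0) 0 (exM' Ex.x₁ Ex.x₂ Ex.x₃).n20 (groupBD_M.n20) :=
  ⟨(posBox_of_check (c := ⟨366, ⟨0, 9, 9, 5⟩⟩) (by decide +kernel)),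
    (posBox_of_check (c := ⟨366, ⟨0, 9, 9, 5⟩⟩) (by decide +kernel))⟩

def fitBD_G_c0 : Fits boxBD (0) 0 (exG (zEnd ⟨0, 0⟩ groupBD.zh false Ex.x₃) Ex.x₁ Ex.x₂ Ex.x₃).c0 (groupBD_G.c0) :=
  ⟨(posBox_of_check (c := ⟨616, ⟨0, 13, 16, 9⟩⟩) (by decide +kernel)),
    (posBox_of_check (c := ⟨616, ⟨0, 13, 16, 9⟩⟩) (by decide +kernel))⟩

def fitBD_G_c0_top : Fits boxBD (0) 0 (exG (zEnd ⟨0, 0⟩ groupBD.zh true Ex.x₃) Ex.x₁ Ex.x₂ Ex.x₃).c0 (groupBD.G₀') :=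
  ⟨(posBox_of_check (c := ⟨590, ⟨0, 13, 16, 8⟩⟩) (by decide +kernel)),
    (posBox_of_check (c := ⟨590, ⟨0, 13, 16, 8⟩⟩) (by decide +kernel))⟩

def fitBD_G_c1 : Fits boxBD (0) 1 (exG (zEnd ⟨0, 0⟩ groupBD.zh false Ex.x₃) Ex.x₁ Ex.x₂ Ex.x₃).c1 (groupBD_G.c1) :=
  ⟨(posBox_of_check (c := ⟨555, ⟨0, 13, 14, 7⟩⟩) (by decide +kernel)),
    (posBox_of_check (c := ⟨555, ⟨0, 13, 14, 7⟩⟩) (by decide +kernel))⟩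

def fitBD_G_c1_top : Fits boxBD (0) 1 (exG (zEnd ⟨0, 0⟩ groupBD.zh true Ex.x₃) Ex.x₁ Ex.x₂ Ex.x₃).c1 (groupBD.G₁') :=
  ⟨(posBox_of_check (c := ⟨543, ⟨0, 13, 14, 6⟩⟩) (by decide +kernel)),
    (posBox_of_check (c := ⟨543, ⟨0, 13, 14, 6⟩⟩) (by decide +kernel))⟩

def fitBD_G_c2 : Fits boxBD (0) 2 (exG (zEnd ⟨0, 0⟩ groupBD.zh false Ex.x₃) Ex.x₁ Ex.x₂ Ex.x₃).c2 (groupBD_G.c2) :=
  ⟨(posBox_of_check (c := ⟨497, ⟨0, 13, 12, 5⟩⟩) (by decide +kernel)),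
    (posBox_of_check (c := ⟨497, ⟨0, 13, 12, 5⟩⟩) (by decide +kernel))⟩

def fitBD_E_c000 : Fits boxBD (0) 0 (exE' (zEnd ⟨0, 0⟩ groupBD.zh false Ex.x₃) Ex.x₁ Ex.x₂ Ex.x₃).c000 (groupBD_E.c000) :=
  ⟨(posBox_of_check (c := ⟨566, ⟨0, 13, 14, 8⟩⟩) (by decide +kernel)),
    (posBox_of_check (c := ⟨566, ⟨0, 13, 14, 8⟩⟩) (by decide +kernel))⟩

def fitBD_E_c000_top : Fits boxBD (0) 0 (exE' (zEnd ⟨0, 0⟩ groupBD.zh true Ex.x₃) Ex.x₁ Ex.x₂ Ex.x₃).c000 (groupBD.E₀') :=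
  ⟨(posBox_of_check (c := ⟨552, ⟨0, 13, 14, 7⟩⟩) (by decide +kernel)),
    (posBox_of_check (c := ⟨552, ⟨0, 13, 14, 7⟩⟩) (by decide +kernel))⟩

def fitBD_E_c100 : Fits boxBD (0) 0 (exE' (zEnd ⟨0, 0⟩ groupBD.zh false Ex.x₃) Ex.x₁ Ex.x₂ Ex.x₃).c100 (groupBD_E.c100) :=
  ⟨(posBox_of_check (c := ⟨518, ⟨0, 12, 13, 7⟩⟩) (by decide +kernel)),
    (posBox_of_check (c := ⟨518, ⟨0, 12, 13, 7⟩⟩) (by decide +kernel))⟩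

def fitBD_E_c100_top : Fits boxBD (0) 0 (exE' (zEnd ⟨0, 0⟩ groupBD.zh true Ex.x₃) Ex.x₁ Ex.x₂ Ex.x₃).c100 (groupBD.E₁') :=
  ⟨(posBox_of_check (c := ⟨505, ⟨0, 12, 13, 6⟩⟩) (by decide +kernel)),
    (posBox_of_check (c := ⟨505, ⟨0, 12, 13, 6⟩⟩) (by decide +kernel))⟩

def fitBD_E_c101 : Fits boxBD (0) 0 (exE' (zEnd ⟨0, 0⟩ groupBD.zh false Ex.x₃) Ex.x₁ Ex.x₂ Ex.x₃).c101 (groupBD_E.c101) :=
  ⟨(posBox_of_check (c := ⟨507, ⟨0, 12, 12, 7⟩⟩) (by decide +kernel)),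
    (posBox_of_check (c := ⟨507, ⟨0, 12, 12, 7⟩⟩) (by decide +kernel))⟩

def fitBD_E_c110 : Fits boxBD (0) 0 (exE' (zEnd ⟨0, 0⟩ groupBD.zh false Ex.x₃) Ex.x₁ Ex.x₂ Ex.x₃).c110 (groupBD_E.c110) :=
  ⟨(posBox_of_check (c := ⟨486, ⟨0, 12, 12, 6⟩⟩) (by decide +kernel)),
    (posBox_of_check (c := ⟨486, ⟨0, 12, 12, 6⟩⟩) (by decide +kernel))⟩

def fitBD_E_c200 : Fits boxBD (0) 0 (exE' (zEnd ⟨0, 0⟩ groupBD.zh false Ex.x₃) Ex.x₁ Ex.x₂ Ex.x₃).c200 (groupBD_E.c200) :=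
  ⟨(posBox_of_check (c := ⟨437, ⟨0, 11, 11, 5⟩⟩) (by decide +kernel)),
    (posBox_of_check (c := ⟨437, ⟨0, 11, 11, 5⟩⟩) (by decide +kernel))⟩

def fitBD_E_c201 : Fits boxBD (0) 0 (exE' (zEnd ⟨0, 0⟩ groupBD.zh false Ex.x₃) Ex.x₁ Ex.x₂ Ex.x₃).c201 (groupBD_E.c201) :=
  ⟨(posBox_of_check (c := ⟨416, ⟨0, 10, 10, 5⟩⟩) (by decide +kernel)),
    (posBox_of_check (c := ⟨416, ⟨0, 10, 10, 5⟩⟩) (by decide +kernel))⟩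

def fitBD_E_c210 : Fits boxBD (0) 0 (exE' (zEnd ⟨0, 0⟩ groupBD.zh false Ex.x₃) Ex.x₁ Ex.x₂ Ex.x₃).c210 (groupBD_E.c210) :=
  ⟨(posBox_of_check (c := ⟨396, ⟨0, 10, 10, 5⟩⟩) (by decide +kernel)),
    (posBox_of_check (c := ⟨396, ⟨0, 10, 10, 5⟩⟩) (by decide +kernel))⟩

def fitBD_P_c01 : Fits boxBD (0) 0 (exP' Ex.x₁ Ex.x₂ Ex.x₃).c01 (groupBD_P.c01) :=
  ⟨(posBox_of_check (c := ⟨365, ⟨0, 7, 7, 5⟩⟩) (by decide +kernel)),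
    (posBox_of_check (c := ⟨365, ⟨0, 7, 7, 5⟩⟩) (by decide +kernel))⟩

def fitBD_P_c10 : Fits boxBD (0) 0 (exP' Ex.x₁ Ex.x₂ Ex.x₃).c10 (groupBD_P.c10) :=
  ⟨(posBox_of_check (c := ⟨361, ⟨0, 7, 7, 5⟩⟩) (by decide +kernel)),
    (posBox_of_check (c := ⟨361, ⟨0, 7, 7, 5⟩⟩) (by decide +kernel))⟩

def fitBD_N_c010 : Fits boxBD (0) 0 (exN' (zEnd ⟨0, 0⟩ groupBD.zh false Ex.x₃) Ex.x₁ Ex.x₂ Ex.x₃).c010 (groupBD_N.c010) :=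
  ⟨(posBox_of_check (c := ⟨607, ⟨0, 12, 17, 8⟩⟩) (by decide +kernel)),
    (posBox_of_check (c := ⟨607, ⟨0, 12, 17, 8⟩⟩) (by decide +kernel))⟩

def fitBD_N_c100 : Fits boxBD (0) 0 (exN' (zEnd ⟨0, 0⟩ groupBD.zh false Ex.x₃) Ex.x₁ Ex.x₂ Ex.x₃).c100 (groupBD_N.c100) :=
  ⟨(posBox_of_check (c := ⟨439, ⟨0, 11, 11, 5⟩⟩) (by decide +kernel)),
    (posBox_of_check (c := ⟨439, ⟨0, 11, 11, 5⟩⟩) (by decide +kernel))⟩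

def fitBD_N_c101 : Fits boxBD (0) 0 (exN' (zEnd ⟨0, 0⟩ groupBD.zh false Ex.x₃) Ex.x₁ Ex.x₂ Ex.x₃).c101 (groupBD_N.c101) :=
  ⟨(posBox_of_check (c := ⟨460, ⟨0, 11, 11, 6⟩⟩) (by decide +kernel)),
    (posBox_of_check (c := ⟨460, ⟨0, 11, 11, 6⟩⟩) (by decide +kernel))⟩

def fitBD_N_c110 : Fits boxBD (0) 0 (exN' (zEnd ⟨0, 0⟩ groupBD.zh false Ex.x₃) Ex.x₁ Ex.x₂ Ex.x₃).c110 (groupBD_N.c110) :=
  ⟨(posBox_of_check (c := ⟨537, ⟨0, 12, 14, 7⟩⟩) (by decide +kernel)),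
    (posBox_of_check (c := ⟨537, ⟨0, 12, 14, 7⟩⟩) (by decide +kernel))⟩

def fitBD_N_c110_top : Fits boxBD (0) 0 (exN' (zEnd ⟨0, 0⟩ groupBD.zh true Ex.x₃) Ex.x₁ Ex.x₂ Ex.x₃).c110 (groupBD.N') :=
  ⟨(posBox_of_check (c := ⟨525, ⟨0, 12, 14, 7⟩⟩) (by decide +kernel)),
    (posBox_of_check (c := ⟨525, ⟨0, 12, 14, 7⟩⟩) (by decide +kernel))⟩

def fitBD_N_c111 : Fits boxBD (0) 0 (exN' (zEnd ⟨0, 0⟩ groupBD.zh false Ex.x₃) Ex.x₁ Ex.x₂ Ex.x₃).c111 (groupBD_N.c111) :=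
  ⟨(posBox_of_check (c := ⟨562, ⟨0, 11, 15, 7⟩⟩) (by decide +kernel)),
    (posBox_of_check (c := ⟨562, ⟨0, 11, 15, 7⟩⟩) (by decide +kernel))⟩

def fitBD_N_c120 : Fits boxBD (0) 0 (exN' (zEnd ⟨0, 0⟩ groupBD.zh false Ex.x₃) Ex.x₁ Ex.x₂ Ex.x₃).c120 (groupBD_N.c120) :=
  ⟨(posBox_of_check (c := ⟨541, ⟨0, 11, 15, 6⟩⟩) (by decide +kernel)),
    (posBox_of_check (c := ⟨541, ⟨0, 11, 15, 6⟩⟩) (by decide +kernel))⟩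

def fitBD_N_c210 : Fits boxBD (0) 0 (exN' (zEnd ⟨0, 0⟩ groupBD.zh false Ex.x₃) Ex.x₁ Ex.x₂ Ex.x₃).c210 (groupBD_N.c210) :=
  ⟨(posBox_of_check (c := ⟨471, ⟨0, 10, 12, 6⟩⟩) (by decide +kernel)),
    (posBox_of_check (c := ⟨471, ⟨0, 10, 12, 6⟩⟩) (by decide +kernel))⟩

def fitBD_N_c211 : Fits boxBD (0) 0 (exN' (zEnd ⟨0, 0⟩ groupBD.zh false Ex.x₃) Ex.x₁ Ex.x₂ Ex.x₃).c211 (groupBD_N.c211) :=
  ⟨(posBox_of_check (c := ⟨468, ⟨0, 10, 12, 6⟩⟩) (by decide +kernel)),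
    (posBox_of_check (c := ⟨468, ⟨0, 10, 12, 6⟩⟩) (by decide +kernel))⟩

def fitBD_N_c212 : Fits boxBD (0) 0 (exN' (zEnd ⟨0, 0⟩ groupBD.zh false Ex.x₃) Ex.x₁ Ex.x₂ Ex.x₃).c212 (groupBD_N.c212) :=
  ⟨(posBox_of_check (c := ⟨510, ⟨0, 10, 13, 7⟩⟩) (by decide +kernel)),
    (posBox_of_check (c := ⟨510, ⟨0, 10, 13, 7⟩⟩) (by decide +kernel))⟩

def fitBD_N_c220 : Fits boxBD (0) 0 (exN' (zEnd ⟨0, 0⟩ groupBD.zh false Ex.x₃) Ex.x₁ Ex.x₂ Ex.x₃).c220 (groupBD_N.c220) :=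
  ⟨(posBox_of_check (c := ⟨448, ⟨0, 10, 12, 5⟩⟩) (by decide +kernel)),
    (posBox_of_check (c := ⟨448, ⟨0, 10, 12, 5⟩⟩) (by decide +kernel))⟩

def fitBD_N_c221 : Fits boxBD (0) 0 (exN' (zEnd ⟨0, 0⟩ groupBD.zh false Ex.x₃) Ex.x₁ Ex.x₂ Ex.x₃).c221 (groupBD_N.c221) :=
  ⟨(posBox_of_check (c := ⟨490, ⟨0, 10, 13, 6⟩⟩) (by decide +kernel)),
    (posBox_of_check (c := ⟨490, ⟨0, 10, 13, 6⟩⟩) (by decide +kernel))⟩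

def fitBD_N_c230 : Fits boxBD (0) 0 (exN' (zEnd ⟨0, 0⟩ groupBD.zh false Ex.x₃) Ex.x₁ Ex.x₂ Ex.x₃).c230 (groupBD_N.c230) :=
  ⟨(posBox_of_check (c := ⟨469, ⟨0, 10, 13, 5⟩⟩) (by decide +kernel)),
    (posBox_of_check (c := ⟨469, ⟨0, 10, 13, 5⟩⟩) (by decide +kernel))⟩

def fitBD_A₂ : PosBox boxBD (cC (-1) * sLo groupBD_A.c212 Ex.x₁ Ex.x₂ Ex.x₃) :=
  (posBox_of_check (c := ⟨136, ⟨0, 1, 3, 3⟩⟩) (by decide +kernel))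

def fitBD_N₂ : PosBox boxBD (cC (-1) * sLo groupBD_N.c212 Ex.x₁ Ex.x₂ Ex.x₃) :=
  (posBox_of_check (c := ⟨135, ⟨0, 1, 3, 3⟩⟩) (by decide +kernel))

/-- The surrogates are within their errors. -/
theorem fitBD : groupBD.Fit boxBD where
  A := fun z => match z with
    | false =>
      ⟨fitBD_A_c010,
        fitBD_A_c100,
        fitBD_A_c101,
        fitBD_A_c110,
        fitBD_A_c111,
        fitBD_A_c120,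
        fitBD_A_c210,
        fitBD_A_c211,
        fitBD_A_c212,
        fitBD_A_c220,
        fitBD_A_c221,
        fitBD_A_c230⟩
    | true =>
      ⟨fitBD_A_c010,
        fitBD_A_c100,
        fitBD_A_c101,
        fitBD_A_c110_top,
        fitBD_A_c111,
        fitBD_A_c120,
        fitBD_A_c210,
        fitBD_A_c211,
        fitBD_A_c212,
        fitBD_A_c220,
        fitBD_A_c221,
        fitBD_A_c230⟩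
  M := ⟨fitBD_M_m00, fitBD_M_m01, fitBD_M_m10, fitBD_M_m11, fitBD_M_m20, fitBD_M_n11, fitBD_M_n20⟩
  G := fun z => match z with
    | false =>
      ⟨fitBD_G_c0,
        fitBD_G_c1,
        fitBD_G_c2⟩
    | true =>
      ⟨fitBD_G_c0_top,
        fitBD_G_c1_top,
        fitBD_G_c2⟩
  E := fun z => match z with
    | false =>
      ⟨fitBD_E_c000,
        fitBD_E_c100,
        fitBD_E_c101,
        fitBD_E_c110,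
        fitBD_E_c200,
        fitBD_E_c201,
        fitBD_E_c210⟩
    | true =>
      ⟨fitBD_E_c000_top,
        fitBD_E_c100_top,
        fitBD_E_c101,
        fitBD_E_c110,
        fitBD_E_c200,
        fitBD_E_c201,
        fitBD_E_c210⟩
  P := ⟨fitBD_P_c01, fitBD_P_c10⟩
  N := fun z => match z with
    | false =>
      ⟨fitBD_N_c010,
        fitBD_N_c100,
        fitBD_N_c101,
        fitBD_N_c110,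
        fitBD_N_c111,
        fitBD_N_c120,
        fitBD_N_c210,
        fitBD_N_c211,
        fitBD_N_c212,
        fitBD_N_c220,
        fitBD_N_c221,
        fitBD_N_c230⟩
    | true =>
      ⟨fitBD_N_c010,
        fitBD_N_c100,
        fitBD_N_c101,
        fitBD_N_c110_top,
        fitBD_N_c111,
        fitBD_N_c120,
        fitBD_N_c210,
        fitBD_N_c211,
        fitBD_N_c212,
        fitBD_N_c220,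
        fitBD_N_c221,
        fitBD_N_c230⟩
  A₂ := fitBD_A₂
  N₂ := fitBD_N₂

end Vale.Agent.P100.Calib.Closed.Six.End
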