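import Vale.Agent.P100.Calib.SlabSixEndFit
import Vale.Agent.P100.Calib.SlabSixEndGroupsA

/-!
# The surrogates for `2.25 ≤ v ≤ 3.0`, `0.0625 ≤ d ≤ 0.1` are within their errors
-/

-- The checks are definitions, so that they run one after another with little memory.
set_option linter.defProp false

namespace Vale.Agent.P100.Calib.Closed.Six.End

open BoxPos
open Bot (Sur)

open Large (PosBox posBox_of_check)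

local instance endFitC2Add : Add Ex := ⟨Ex.add⟩
local instance endFitC2Sub : Sub Ex := ⟨Ex.sub⟩
local instance endFitC2Mul : Mul Ex := ⟨Ex.mul⟩

/-- The box of the surrogates. -/
def boxC2 : Box := ⟨⟨0, 1, 1⟩, ⟨0, 7503, 1000000⟩, ⟨62500, 100001, 1000000⟩, ⟨225000, 300001, 100000⟩⟩

def fitC2_A_c00 : Fits boxC2 (0) 0 (exA (zEnd groupC2.zl groupC2.zh false Ex.x₃) Ex.x₁ Ex.x₂ Ex.x₃).c00 (groupC2_A.c00) :=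
  ⟨(posBox_of_check (c := ⟨439, ⟨0, 10, 11, 6⟩⟩) (by decide +kernel)),
    (posBox_of_check (c := ⟨439, ⟨0, 10, 11, 6⟩⟩) (by decide +kernel))⟩

def fitC2_A_c10 : Fits boxC2 (0) 1 (exA (zEnd groupC2.zl groupC2.zh false Ex.x₃) Ex.x₁ Ex.x₂ Ex.x₃).c10 (groupC2_A.c10) :=
  ⟨(posBox_of_check (c := ⟨461, ⟨0, 12, 11, 5⟩⟩) (by decide +kernel)),
    (posBox_of_check (c := ⟨461, ⟨0, 12, 11, 5⟩⟩) (by decide +kernel))⟩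

def fitC2_A_c01 : Fits boxC2 (0) 0 (exA (zEnd groupC2.zl groupC2.zh false Ex.x₃) Ex.x₁ Ex.x₂ Ex.x₃).c01 (groupC2_A.c01) :=
  ⟨(posBox_of_check (c := ⟨634, ⟨0, 13, 18, 8⟩⟩) (by decide +kernel)),
    (posBox_of_check (c := ⟨634, ⟨0, 13, 18, 8⟩⟩) (by decide +kernel))⟩

def fitC2_A_c11 : Fits boxC2 (0) 1 (exA (zEnd groupC2.zl groupC2.zh false Ex.x₃) Ex.x₁ Ex.x₂ Ex.x₃).c11 (groupC2_A.c11) :=
  ⟨(posBox_of_check (c := ⟨569, ⟨0, 13, 15, 7⟩⟩) (by decide +kernel)),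
    (posBox_of_check (c := ⟨569, ⟨0, 13, 15, 7⟩⟩) (by decide +kernel))⟩

def fitC2_A_c11_top : Fits boxC2 (0) 1 (exA (zEnd groupC2.zl groupC2.zh true Ex.x₃) Ex.x₁ Ex.x₂ Ex.x₃).c11 (groupC2.A') :=
  ⟨(posBox_of_check (c := ⟨569, ⟨0, 13, 15, 7⟩⟩) (by decide +kernel)),
    (posBox_of_check (c := ⟨569, ⟨0, 13, 15, 7⟩⟩) (by decide +kernel))⟩

def fitC2_A_c21 : Fits boxC2 (0) 2 (exA (zEnd groupC2.zl groupC2.zh false Ex.x₃) Ex.x₁ Ex.x₂ Ex.x₃).c21 (groupC2_A.c21) :=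
  ⟨(posBox_of_check (c := ⟨538, ⟨0, 13, 13, 6⟩⟩) (by decide +kernel)),
    (posBox_of_check (c := ⟨538, ⟨0, 13, 13, 6⟩⟩) (by decide +kernel))⟩

def fitC2_A_c02 : Fits boxC2 (0) 0 (exA (zEnd groupC2.zl groupC2.zh false Ex.x₃) Ex.x₁ Ex.x₂ Ex.x₃).c02 (groupC2_A.c02) :=
  ⟨(posBox_of_check (c := ⟨564, ⟨0, 11, 15, 7⟩⟩) (by decide +kernel)),
    (posBox_of_check (c := ⟨564, ⟨0, 11, 15, 7⟩⟩) (by decide +kernel))⟩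

def fitC2_A_c12 : Fits boxC2 (0) 1 (exA (zEnd groupC2.zl groupC2.zh false Ex.x₃) Ex.x₁ Ex.x₂ Ex.x₃).c12 (groupC2_A.c12) :=
  ⟨(posBox_of_check (c := ⟨588, ⟨0, 13, 16, 6⟩⟩) (by decide +kernel)),
    (posBox_of_check (c := ⟨588, ⟨0, 13, 16, 6⟩⟩) (by decide +kernel))⟩

def fitC2_A_c22 : Fits boxC2 (0) 2 (exA (zEnd groupC2.zl groupC2.zh false Ex.x₃) Ex.x₁ Ex.x₂ Ex.x₃).c22 (groupC2_A.c22) :=
  ⟨(posBox_of_check (c := ⟨516, ⟨0, 13, 13, 5⟩⟩) (by decide +kernel)),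
    (posBox_of_check (c := ⟨516, ⟨0, 13, 13, 5⟩⟩) (by decide +kernel))⟩

def fitC2_A_c03 : Fits boxC2 (0) 0 (exA (zEnd groupC2.zl groupC2.zh false Ex.x₃) Ex.x₁ Ex.x₂ Ex.x₃).c03 (groupC2_A.c03) :=
  ⟨(posBox_of_check (c := ⟨491, ⟨0, 9, 12, 7⟩⟩) (by decide +kernel)),
    (posBox_of_check (c := ⟨491, ⟨0, 9, 12, 7⟩⟩) (by decide +kernel))⟩

def fitC2_A_c13 : Fits boxC2 (0) 1 (exA (zEnd groupC2.zl groupC2.zh false Ex.x₃) Ex.x₁ Ex.x₂ Ex.x₃).c13 (groupC2_A.c13) :=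
  ⟨(posBox_of_check (c := ⟨515, ⟨0, 11, 13, 6⟩⟩) (by decide +kernel)),
    (posBox_of_check (c := ⟨515, ⟨0, 11, 13, 6⟩⟩) (by decide +kernel))⟩

def fitC2_A_c23 : Fits boxC2 (0) 2 (exA (zEnd groupC2.zl groupC2.zh false Ex.x₃) Ex.x₁ Ex.x₂ Ex.x₃).c23 (groupC2_A.c23) :=
  ⟨(posBox_of_check (c := ⟨538, ⟨0, 13, 14, 5⟩⟩) (by decide +kernel)),
    (posBox_of_check (c := ⟨538, ⟨0, 13, 14, 5⟩⟩) (by decide +kernel))⟩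

def fitC2_M_c00 : Fits boxC2 (0) 0 (exM Ex.x₁ Ex.x₂ Ex.x₃).c00 (groupC2_M.c00) :=
  ⟨(posBox_of_check (c := ⟨372, ⟨0, 8, 8, 5⟩⟩) (by decide +kernel)),
    (posBox_of_check (c := ⟨372, ⟨0, 8, 8, 5⟩⟩) (by decide +kernel))⟩

def fitC2_M_c10 : Fits boxC2 (0) 1 (exM Ex.x₁ Ex.x₂ Ex.x₃).c10 (groupC2_M.c10) :=
  ⟨(posBox_of_check (c := ⟨374, ⟨0, 10, 8, 5⟩⟩) (by decide +kernel)),
    (posBox_of_check (c := ⟨374, ⟨0, 10, 8, 5⟩⟩) (by decide +kernel))⟩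

def fitC2_M_c01 : Fits boxC2 (0) 0 (exM Ex.x₁ Ex.x₂ Ex.x₃).c01 (groupC2_M.c01) :=
  ⟨(posBox_of_check (c := ⟨375, ⟨0, 8, 9, 5⟩⟩) (by decide +kernel)),
    (posBox_of_check (c := ⟨375, ⟨0, 8, 9, 5⟩⟩) (by decide +kernel))⟩

def fitC2_M_c11 : Fits boxC2 (0) 1 (exM Ex.x₁ Ex.x₂ Ex.x₃).c11 (groupC2_M.c11) :=
  ⟨(posBox_of_check (c := ⟨441, ⟨0, 11, 10, 5⟩⟩) (by decide +kernel)),
    (posBox_of_check (c := ⟨441, ⟨0, 11, 10, 5⟩⟩) (by decide +kernel))⟩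

def fitC2_M_c02 : Fits boxC2 (0) 0 (exM Ex.x₁ Ex.x₂ Ex.x₃).c02 (groupC2_M.c02) :=
  ⟨(posBox_of_check (c := ⟨371, ⟨0, 7, 8, 5⟩⟩) (by decide +kernel)),
    (posBox_of_check (c := ⟨371, ⟨0, 7, 8, 5⟩⟩) (by decide +kernel))⟩

def fitC2_M_c12 : Fits boxC2 (0) 1 (exM Ex.x₁ Ex.x₂ Ex.x₃).c12 (groupC2_M.c12) :=
  ⟨(posBox_of_check (c := ⟨410, ⟨0, 9, 9, 5⟩⟩) (by decide +kernel)),
    (posBox_of_check (c := ⟨410, ⟨0, 9, 9, 5⟩⟩) (by decide +kernel))⟩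

def fitC2_M_c22 : Fits boxC2 (0) 2 (exM Ex.x₁ Ex.x₂ Ex.x₃).c22 (groupC2_M.c22) :=
  ⟨(posBox_of_check (c := ⟨395, ⟨0, 11, 9, 5⟩⟩) (by decide +kernel)),
    (posBox_of_check (c := ⟨395, ⟨0, 11, 9, 5⟩⟩) (by decide +kernel))⟩

def fitC2_G_c0 : Fits boxC2 (0) 0 (exG (zEnd groupC2.zl groupC2.zh false Ex.x₃) Ex.x₁ Ex.x₂ Ex.x₃).c0 (groupC2_G.c0) :=
  ⟨(posBox_of_check (c := ⟨617, ⟨0, 13, 16, 9⟩⟩) (by decide +kernel)),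
    (posBox_of_check (c := ⟨617, ⟨0, 13, 16, 9⟩⟩) (by decide +kernel))⟩

def fitC2_G_c0_top : Fits boxC2 (0) 0 (exG (zEnd groupC2.zl groupC2.zh true Ex.x₃) Ex.x₁ Ex.x₂ Ex.x₃).c0 (groupC2.G₀') :=
  ⟨(posBox_of_check (c := ⟨591, ⟨0, 13, 16, 8⟩⟩) (by decide +kernel)),
    (posBox_of_check (c := ⟨591, ⟨0, 13, 16, 8⟩⟩) (by decide +kernel))⟩

def fitC2_G_c1 : Fits boxC2 (0) 1 (exG (zEnd groupC2.zl groupC2.zh false Ex.x₃) Ex.x₁ Ex.x₂ Ex.x₃).c1 (groupC2_G.c1) :=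
  ⟨(posBox_of_check (c := ⟨556, ⟨0, 13, 14, 7⟩⟩) (by decide +kernel)),
    (posBox_of_check (c := ⟨556, ⟨0, 13, 14, 7⟩⟩) (by decide +kernel))⟩

def fitC2_G_c1_top : Fits boxC2 (0) 1 (exG (zEnd groupC2.zl groupC2.zh true Ex.x₃) Ex.x₁ Ex.x₂ Ex.x₃).c1 (groupC2.G₁') :=
  ⟨(posBox_of_check (c := ⟨543, ⟨0, 13, 14, 6⟩⟩) (by decide +kernel)),
    (posBox_of_check (c := ⟨543, ⟨0, 13, 14, 6⟩⟩) (by decide +kernel))⟩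

def fitC2_G_c2 : Fits boxC2 (0) 2 (exG (zEnd groupC2.zl groupC2.zh false Ex.x₃) Ex.x₁ Ex.x₂ Ex.x₃).c2 (groupC2_G.c2) :=
  ⟨(posBox_of_check (c := ⟨498, ⟨0, 13, 12, 5⟩⟩) (by decide +kernel)),
    (posBox_of_check (c := ⟨498, ⟨0, 13, 12, 5⟩⟩) (by decide +kernel))⟩

def fitC2_E_c00 : Fits boxC2 (0) 0 (exE (zEnd groupC2.zl groupC2.zh false Ex.x₃) Ex.x₁ Ex.x₂ Ex.x₃).c00 (groupC2_E.c00) :=
  ⟨(posBox_of_check (c := ⟨568, ⟨0, 13, 14, 8⟩⟩) (by decide +kernel)),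
    (posBox_of_check (c := ⟨568, ⟨0, 13, 14, 8⟩⟩) (by decide +kernel))⟩

def fitC2_E_c00_top : Fits boxC2 (0) 0 (exE (zEnd groupC2.zl groupC2.zh true Ex.x₃) Ex.x₁ Ex.x₂ Ex.x₃).c00 (groupC2.E₀') :=
  ⟨(posBox_of_check (c := ⟨553, ⟨0, 13, 14, 7⟩⟩) (by decide +kernel)),
    (posBox_of_check (c := ⟨553, ⟨0, 13, 14, 7⟩⟩) (by decide +kernel))⟩

def fitC2_E_c01 : Fits boxC2 (0) 0 (exE (zEnd groupC2.zl groupC2.zh false Ex.x₃) Ex.x₁ Ex.x₂ Ex.x₃).c01 (groupC2_E.c01) :=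
  ⟨(posBox_of_check (c := ⟨484, ⟨0, 11, 11, 7⟩⟩) (by decide +kernel)),
    (posBox_of_check (c := ⟨484, ⟨0, 11, 11, 7⟩⟩) (by decide +kernel))⟩

def fitC2_E_c10 : Fits boxC2 (0) 1 (exE (zEnd groupC2.zl groupC2.zh false Ex.x₃) Ex.x₁ Ex.x₂ Ex.x₃).c10 (groupC2_E.c10) :=
  ⟨(posBox_of_check (c := ⟨539, ⟨0, 13, 13, 7⟩⟩) (by decide +kernel)),
    (posBox_of_check (c := ⟨539, ⟨0, 13, 13, 7⟩⟩) (by decide +kernel))⟩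

def fitC2_E_c10_top : Fits boxC2 (0) 1 (exE (zEnd groupC2.zl groupC2.zh true Ex.x₃) Ex.x₁ Ex.x₂ Ex.x₃).c10 (groupC2.E₁') :=
  ⟨(posBox_of_check (c := ⟨527, ⟨0, 13, 13, 6⟩⟩) (by decide +kernel)),
    (posBox_of_check (c := ⟨527, ⟨0, 13, 13, 6⟩⟩) (by decide +kernel))⟩

def fitC2_E_c11 : Fits boxC2 (0) 1 (exE (zEnd groupC2.zl groupC2.zh false Ex.x₃) Ex.x₁ Ex.x₂ Ex.x₃).c11 (groupC2_E.c11) :=
  ⟨(posBox_of_check (c := ⟨509, ⟨0, 13, 12, 6⟩⟩) (by decide +kernel)),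
    (posBox_of_check (c := ⟨509, ⟨0, 13, 12, 6⟩⟩) (by decide +kernel))⟩

def fitC2_E_c20 : Fits boxC2 (0) 2 (exE (zEnd groupC2.zl groupC2.zh false Ex.x₃) Ex.x₁ Ex.x₂ Ex.x₃).c20 (groupC2_E.c20) :=
  ⟨(posBox_of_check (c := ⟨479, ⟨0, 13, 11, 5⟩⟩) (by decide +kernel)),
    (posBox_of_check (c := ⟨479, ⟨0, 13, 11, 5⟩⟩) (by decide +kernel))⟩

def fitC2_E_c21 : Fits boxC2 (0) 2 (exE (zEnd groupC2.zl groupC2.zh false Ex.x₃) Ex.x₁ Ex.x₂ Ex.x₃).c21 (groupC2_E.c21) :=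
  ⟨(posBox_of_check (c := ⟨439, ⟨0, 12, 10, 5⟩⟩) (by decide +kernel)),
    (posBox_of_check (c := ⟨439, ⟨0, 12, 10, 5⟩⟩) (by decide +kernel))⟩

def fitC2_P_c10 : Fits boxC2 (0) 1 (exP Ex.x₁ Ex.x₂ Ex.x₃).c10 (groupC2_P.c10) :=
  ⟨(posBox_of_check (c := ⟨366, ⟨0, 7, 7, 5⟩⟩) (by decide +kernel)),
    (posBox_of_check (c := ⟨366, ⟨0, 7, 7, 5⟩⟩) (by decide +kernel))⟩

def fitC2_P_c11 : Fits boxC2 (0) 1 (exP Ex.x₁ Ex.x₂ Ex.x₃).c11 (groupC2_P.c11) :=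
  ⟨(posBox_of_check (c := ⟨366, ⟨0, 7, 7, 5⟩⟩) (by decide +kernel)),
    (posBox_of_check (c := ⟨366, ⟨0, 7, 7, 5⟩⟩) (by decide +kernel))⟩

def fitC2_P_c21 : Fits boxC2 (0) 2 (exP Ex.x₁ Ex.x₂ Ex.x₃).c21 (groupC2_P.c21) :=
  ⟨(posBox_of_check (c := ⟨364, ⟨0, 9, 7, 5⟩⟩) (by decide +kernel)),
    (posBox_of_check (c := ⟨364, ⟨0, 9, 7, 5⟩⟩) (by decide +kernel))⟩

def fitC2_N_c00 : Fits boxC2 (0) 0 (exN (zEnd groupC2.zl groupC2.zh false Ex.x₃) Ex.x₁ Ex.x₂ Ex.x₃).c00 (groupC2_N.c00) :=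
  ⟨(posBox_of_check (c := ⟨439, ⟨0, 10, 11, 6⟩⟩) (by decide +kernel)),
    (posBox_of_check (c := ⟨439, ⟨0, 10, 11, 6⟩⟩) (by decide +kernel))⟩

def fitC2_N_c10 : Fits boxC2 (0) 1 (exN (zEnd groupC2.zl groupC2.zh false Ex.x₃) Ex.x₁ Ex.x₂ Ex.x₃).c10 (groupC2_N.c10) :=
  ⟨(posBox_of_check (c := ⟨461, ⟨0, 12, 11, 5⟩⟩) (by decide +kernel)),
    (posBox_of_check (c := ⟨461, ⟨0, 12, 11, 5⟩⟩) (by decide +kernel))⟩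

def fitC2_N_c01 : Fits boxC2 (0) 0 (exN (zEnd groupC2.zl groupC2.zh false Ex.x₃) Ex.x₁ Ex.x₂ Ex.x₃).c01 (groupC2_N.c01) :=
  ⟨(posBox_of_check (c := ⟨610, ⟨0, 12, 17, 8⟩⟩) (by decide +kernel)),
    (posBox_of_check (c := ⟨610, ⟨0, 12, 17, 8⟩⟩) (by decide +kernel))⟩

def fitC2_N_c11 : Fits boxC2 (0) 1 (exN (zEnd groupC2.zl groupC2.zh false Ex.x₃) Ex.x₁ Ex.x₂ Ex.x₃).c11 (groupC2_N.c11) :=
  ⟨(posBox_of_check (c := ⟨559, ⟨0, 13, 14, 7⟩⟩) (by decide +kernel)),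
    (posBox_of_check (c := ⟨559, ⟨0, 13, 14, 7⟩⟩) (by decide +kernel))⟩

def fitC2_N_c11_top : Fits boxC2 (0) 1 (exN (zEnd groupC2.zl groupC2.zh true Ex.x₃) Ex.x₁ Ex.x₂ Ex.x₃).c11 (groupC2.N') :=
  ⟨(posBox_of_check (c := ⟨547, ⟨0, 13, 14, 7⟩⟩) (by decide +kernel)),
    (posBox_of_check (c := ⟨547, ⟨0, 13, 14, 7⟩⟩) (by decide +kernel))⟩

def fitC2_N_c21 : Fits boxC2 (0) 2 (exN (zEnd groupC2.zl groupC2.zh false Ex.x₃) Ex.x₁ Ex.x₂ Ex.x₃).c21 (groupC2_N.c21) :=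
  ⟨(posBox_of_check (c := ⟨514, ⟨0, 12, 12, 6⟩⟩) (by decide +kernel)),
    (posBox_of_check (c := ⟨514, ⟨0, 12, 12, 6⟩⟩) (by decide +kernel))⟩

def fitC2_N_c02 : Fits boxC2 (0) 0 (exN (zEnd groupC2.zl groupC2.zh false Ex.x₃) Ex.x₁ Ex.x₂ Ex.x₃).c02 (groupC2_N.c02) :=
  ⟨(posBox_of_check (c := ⟨540, ⟨0, 10, 14, 7⟩⟩) (by decide +kernel)),
    (posBox_of_check (c := ⟨540, ⟨0, 10, 14, 7⟩⟩) (by decide +kernel))⟩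

def fitC2_N_c12 : Fits boxC2 (0) 1 (exN (zEnd groupC2.zl groupC2.zh false Ex.x₃) Ex.x₁ Ex.x₂ Ex.x₃).c12 (groupC2_N.c12) :=
  ⟨(posBox_of_check (c := ⟨563, ⟨0, 12, 15, 6⟩⟩) (by decide +kernel)),
    (posBox_of_check (c := ⟨563, ⟨0, 12, 15, 6⟩⟩) (by decide +kernel))⟩

def fitC2_N_c22 : Fits boxC2 (0) 2 (exN (zEnd groupC2.zl groupC2.zh false Ex.x₃) Ex.x₁ Ex.x₂ Ex.x₃).c22 (groupC2_N.c22) :=
  ⟨(posBox_of_check (c := ⟨492, ⟨0, 12, 12, 5⟩⟩) (by decide +kernel)),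
    (posBox_of_check (c := ⟨492, ⟨0, 12, 12, 5⟩⟩) (by decide +kernel))⟩

def fitC2_N_c03 : Fits boxC2 (0) 0 (exN (zEnd groupC2.zl groupC2.zh false Ex.x₃) Ex.x₁ Ex.x₂ Ex.x₃).c03 (groupC2_N.c03) :=
  ⟨(posBox_of_check (c := ⟨466, ⟨0, 8, 11, 7⟩⟩) (by decide +kernel)),
    (posBox_of_check (c := ⟨466, ⟨0, 8, 11, 7⟩⟩) (by decide +kernel))⟩

def fitC2_N_c13 : Fits boxC2 (0) 1 (exN (zEnd groupC2.zl groupC2.zh false Ex.x₃) Ex.x₁ Ex.x₂ Ex.x₃).c13 (groupC2_N.c13) :=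
  ⟨(posBox_of_check (c := ⟨491, ⟨0, 10, 12, 6⟩⟩) (by decide +kernel)),
    (posBox_of_check (c := ⟨491, ⟨0, 10, 12, 6⟩⟩) (by decide +kernel))⟩

def fitC2_N_c23 : Fits boxC2 (0) 2 (exN (zEnd groupC2.zl groupC2.zh false Ex.x₃) Ex.x₁ Ex.x₂ Ex.x₃).c23 (groupC2_N.c23) :=
  ⟨(posBox_of_check (c := ⟨513, ⟨0, 12, 13, 5⟩⟩) (by decide +kernel)),
    (posBox_of_check (c := ⟨513, ⟨0, 12, 13, 5⟩⟩) (by decide +kernel))⟩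

/-- The surrogates are within their errors. -/
theorem fitC2 : groupC2.Fit boxC2 where
  A := fun z => match z with
    | false =>
      ⟨fitC2_A_c00,
        fitC2_A_c10,
        fitC2_A_c01,
        fitC2_A_c11,
        fitC2_A_c21,
        fitC2_A_c02,
        fitC2_A_c12,
        fitC2_A_c22,
        fitC2_A_c03,
        fitC2_A_c13,
        fitC2_A_c23⟩
    | true =>
      ⟨fitC2_A_c00,
        fitC2_A_c10,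
        fitC2_A_c01,
        fitC2_A_c11_top,
        fitC2_A_c21,
        fitC2_A_c02,
        fitC2_A_c12,
        fitC2_A_c22,
        fitC2_A_c03,
        fitC2_A_c13,
        fitC2_A_c23⟩
  M := ⟨fitC2_M_c00, fitC2_M_c10, fitC2_M_c01, fitC2_M_c11, fitC2_M_c02, fitC2_M_c12, fitC2_M_c22⟩
  G := fun z => match z with
    | false =>
      ⟨fitC2_G_c0,
        fitC2_G_c1,
        fitC2_G_c2⟩
    | true =>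
      ⟨fitC2_G_c0_top,
        fitC2_G_c1_top,
        fitC2_G_c2⟩
  E := fun z => match z with
    | false =>
      ⟨fitC2_E_c00,
        fitC2_E_c01,
        fitC2_E_c10,
        fitC2_E_c11,
        fitC2_E_c20,
        fitC2_E_c21⟩
    | true =>
      ⟨fitC2_E_c00_top,
        fitC2_E_c01,
        fitC2_E_c10_top,
        fitC2_E_c11,
        fitC2_E_c20,
        fitC2_E_c21⟩
  P := ⟨fitC2_P_c10, fitC2_P_c11, fitC2_P_c21⟩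
  N := fun z => match z with
    | false =>
      ⟨fitC2_N_c00,
        fitC2_N_c10,
        fitC2_N_c01,
        fitC2_N_c11,
        fitC2_N_c21,
        fitC2_N_c02,
        fitC2_N_c12,
        fitC2_N_c22,
        fitC2_N_c03,
        fitC2_N_c13,
        fitC2_N_c23⟩
    | true =>
      ⟨fitC2_N_c00,
        fitC2_N_c10,
        fitC2_N_c01,
        fitC2_N_c11_top,
        fitC2_N_c21,
        fitC2_N_c02,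
        fitC2_N_c12,
        fitC2_N_c22,
        fitC2_N_c03,
        fitC2_N_c13,
        fitC2_N_c23⟩

end Vale.Agent.P100.Calib.Closed.Six.End
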