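import Vale.Agent.P100.Calib.SlabSixEndFit
import Vale.Agent.P100.Calib.SlabSixEndGroupsA

/-!
# The surrogates for `2.9 ≤ v ≤ 3.54`, `0.0625 ≤ d ≤ 0.1` are within their errors
-/

-- The checks are definitions, so that they run one after another with little memory.
set_option linter.defProp false

namespace Vale.Agent.P100.Calib.Closed.Six.End

open BoxPos
open Bot (Sur)

open Large (PosBox posBox_of_check)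

local instance endFitCDAdd : Add Ex := ⟨Ex.add⟩
local instance endFitCDSub : Sub Ex := ⟨Ex.sub⟩
local instance endFitCDMul : Mul Ex := ⟨Ex.mul⟩

/-- The box of the surrogates. -/
def boxCD : Box := ⟨⟨0, 1, 1⟩, ⟨0, 7503, 1000000⟩, ⟨62500, 100001, 1000000⟩, ⟨290000, 354001, 100000⟩⟩

def fitCD_A_c010 : Fits boxCD (0) 0 (exA' (zEnd ⟨0, 0⟩ groupCD.zh false Ex.x₃) Ex.x₁ Ex.x₂ Ex.x₃).c010 (groupCD_A.c010) :=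
  ⟨(posBox_of_check (c := ⟨632, ⟨0, 13, 18, 8⟩⟩) (by decide +kernel)),
    (posBox_of_check (c := ⟨632, ⟨0, 13, 18, 8⟩⟩) (by decide +kernel))⟩

def fitCD_A_c100 : Fits boxCD (0) 0 (exA' (zEnd ⟨0, 0⟩ groupCD.zh false Ex.x₃) Ex.x₁ Ex.x₂ Ex.x₃).c100 (groupCD_A.c100) :=
  ⟨(posBox_of_check (c := ⟨441, ⟨0, 11, 11, 5⟩⟩) (by decide +kernel)),
    (posBox_of_check (c := ⟨441, ⟨0, 11, 11, 5⟩⟩) (by decide +kernel))⟩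

def fitCD_A_c101 : Fits boxCD (0) 0 (exA' (zEnd ⟨0, 0⟩ groupCD.zh false Ex.x₃) Ex.x₁ Ex.x₂ Ex.x₃).c101 (groupCD_A.c101) :=
  ⟨(posBox_of_check (c := ⟨461, ⟨0, 11, 11, 6⟩⟩) (by decide +kernel)),
    (posBox_of_check (c := ⟨461, ⟨0, 11, 11, 6⟩⟩) (by decide +kernel))⟩

def fitCD_A_c110 : Fits boxCD (0) 0 (exA' (zEnd ⟨0, 0⟩ groupCD.zh false Ex.x₃) Ex.x₁ Ex.x₂ Ex.x₃).c110 (groupCD_A.c110) :=
  ⟨(posBox_of_check (c := ⟨548, ⟨0, 12, 15, 7⟩⟩) (by decide +kernel)),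
    (posBox_of_check (c := ⟨548, ⟨0, 12, 15, 7⟩⟩) (by decide +kernel))⟩

def fitCD_A_c110_top : Fits boxCD (0) 0 (exA' (zEnd ⟨0, 0⟩ groupCD.zh true Ex.x₃) Ex.x₁ Ex.x₂ Ex.x₃).c110 (groupCD.A') :=
  ⟨(posBox_of_check (c := ⟨548, ⟨0, 12, 15, 7⟩⟩) (by decide +kernel)),
    (posBox_of_check (c := ⟨548, ⟨0, 12, 15, 7⟩⟩) (by decide +kernel))⟩

def fitCD_A_c111 : Fits boxCD (0) 0 (exA' (zEnd ⟨0, 0⟩ groupCD.zh false Ex.x₃) Ex.x₁ Ex.x₂ Ex.x₃).c111 (groupCD_A.c111) :=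
  ⟨(posBox_of_check (c := ⟨588, ⟨0, 12, 16, 7⟩⟩) (by decide +kernel)),
    (posBox_of_check (c := ⟨588, ⟨0, 12, 16, 7⟩⟩) (by decide +kernel))⟩

def fitCD_A_c120 : Fits boxCD (0) 0 (exA' (zEnd ⟨0, 0⟩ groupCD.zh false Ex.x₃) Ex.x₁ Ex.x₂ Ex.x₃).c120 (groupCD_A.c120) :=
  ⟨(posBox_of_check (c := ⟨567, ⟨0, 12, 16, 6⟩⟩) (by decide +kernel)),
    (posBox_of_check (c := ⟨567, ⟨0, 12, 16, 6⟩⟩) (by decide +kernel))⟩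

def fitCD_A_c210 : Fits boxCD (0) 0 (exA' (zEnd ⟨0, 0⟩ groupCD.zh false Ex.x₃) Ex.x₁ Ex.x₂ Ex.x₃).c210 (groupCD_A.c210) :=
  ⟨(posBox_of_check (c := ⟨497, ⟨0, 11, 13, 6⟩⟩) (by decide +kernel)),
    (posBox_of_check (c := ⟨497, ⟨0, 11, 13, 6⟩⟩) (by decide +kernel))⟩

def fitCD_A_c211 : Fits boxCD (0) 0 (exA' (zEnd ⟨0, 0⟩ groupCD.zh false Ex.x₃) Ex.x₁ Ex.x₂ Ex.x₃).c211 (groupCD_A.c211) :=
  ⟨(posBox_of_check (c := ⟨495, ⟨0, 11, 13, 6⟩⟩) (by decide +kernel)),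
    (posBox_of_check (c := ⟨495, ⟨0, 11, 13, 6⟩⟩) (by decide +kernel))⟩

def fitCD_A_c212 : Fits boxCD (0) 0 (exA' (zEnd ⟨0, 0⟩ groupCD.zh false Ex.x₃) Ex.x₁ Ex.x₂ Ex.x₃).c212 (groupCD_A.c212) :=
  ⟨(posBox_of_check (c := ⟨537, ⟨0, 11, 14, 7⟩⟩) (by decide +kernel)),
    (posBox_of_check (c := ⟨537, ⟨0, 11, 14, 7⟩⟩) (by decide +kernel))⟩

def fitCD_A_c220 : Fits boxCD (0) 0 (exA' (zEnd ⟨0, 0⟩ groupCD.zh false Ex.x₃) Ex.x₁ Ex.x₂ Ex.x₃).c220 (groupCD_A.c220) :=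
  ⟨(posBox_of_check (c := ⟨475, ⟨0, 11, 13, 5⟩⟩) (by decide +kernel)),
    (posBox_of_check (c := ⟨475, ⟨0, 11, 13, 5⟩⟩) (by decide +kernel))⟩

def fitCD_A_c221 : Fits boxCD (0) 0 (exA' (zEnd ⟨0, 0⟩ groupCD.zh false Ex.x₃) Ex.x₁ Ex.x₂ Ex.x₃).c221 (groupCD_A.c221) :=
  ⟨(posBox_of_check (c := ⟨517, ⟨0, 11, 14, 6⟩⟩) (by decide +kernel)),
    (posBox_of_check (c := ⟨517, ⟨0, 11, 14, 6⟩⟩) (by decide +kernel))⟩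

def fitCD_A_c230 : Fits boxCD (0) 0 (exA' (zEnd ⟨0, 0⟩ groupCD.zh false Ex.x₃) Ex.x₁ Ex.x₂ Ex.x₃).c230 (groupCD_A.c230) :=
  ⟨(posBox_of_check (c := ⟨497, ⟨0, 11, 14, 5⟩⟩) (by decide +kernel)),
    (posBox_of_check (c := ⟨497, ⟨0, 11, 14, 5⟩⟩) (by decide +kernel))⟩

def fitCD_M_m00 : Fits boxCD (0) 0 (exM' Ex.x₁ Ex.x₂ Ex.x₃).m00 (groupCD_M.m00) :=
  ⟨(posBox_of_check (c := ⟨371, ⟨0, 9, 8, 5⟩⟩) (by decide +kernel)),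
    (posBox_of_check (c := ⟨371, ⟨0, 9, 8, 5⟩⟩) (by decide +kernel))⟩

def fitCD_M_m01 : Fits boxCD (0) 0 (exM' Ex.x₁ Ex.x₂ Ex.x₃).m01 (groupCD_M.m01) :=
  ⟨(posBox_of_check (c := ⟨375, ⟨0, 9, 8, 5⟩⟩) (by decide +kernel)),
    (posBox_of_check (c := ⟨375, ⟨0, 9, 8, 5⟩⟩) (by decide +kernel))⟩

def fitCD_M_m10 : Fits boxCD (0) 0 (exM' Ex.x₁ Ex.x₂ Ex.x₃).m10 (groupCD_M.m10) :=
  ⟨(posBox_of_check (c := ⟨419, ⟨0, 10, 10, 5⟩⟩) (by decide +kernel)),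
    (posBox_of_check (c := ⟨419, ⟨0, 10, 10, 5⟩⟩) (by decide +kernel))⟩

def fitCD_M_m11 : Fits boxCD (0) 0 (exM' Ex.x₁ Ex.x₂ Ex.x₃).m11 (groupCD_M.m11) :=
  ⟨(posBox_of_check (c := ⟨391, ⟨0, 8, 9, 5⟩⟩) (by decide +kernel)),
    (posBox_of_check (c := ⟨391, ⟨0, 8, 9, 5⟩⟩) (by decide +kernel))⟩

def fitCD_M_m20 : Fits boxCD (0) 0 (exM' Ex.x₁ Ex.x₂ Ex.x₃).m20 (groupCD_M.m20) :=
  ⟨(posBox_of_check (c := ⟨388, ⟨0, 8, 9, 5⟩⟩) (by decide +kernel)),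
    (posBox_of_check (c := ⟨388, ⟨0, 8, 9, 5⟩⟩) (by decide +kernel))⟩

def fitCD_M_n11 : Fits boxCD (0) 0 (exM' Ex.x₁ Ex.x₂ Ex.x₃).n11 (groupCD_M.n11) :=
  ⟨(posBox_of_check (c := ⟨373, ⟨0, 9, 9, 5⟩⟩) (by decide +kernel)),
    (posBox_of_check (c := ⟨373, ⟨0, 9, 9, 5⟩⟩) (by decide +kernel))⟩

def fitCD_M_n20 : Fits boxCD (0) 0 (exM' Ex.x₁ Ex.x₂ Ex.x₃).n20 (groupCD_M.n20) :=
  ⟨(posBox_of_check (c := ⟨367, ⟨0, 9, 9, 5⟩⟩) (by decide +kernel)),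
    (posBox_of_check (c := ⟨367, ⟨0, 9, 9, 5⟩⟩) (by decide +kernel))⟩

def fitCD_G_c0 : Fits boxCD (0) 0 (exG (zEnd ⟨0, 0⟩ groupCD.zh false Ex.x₃) Ex.x₁ Ex.x₂ Ex.x₃).c0 (groupCD_G.c0) :=
  ⟨(posBox_of_check (c := ⟨618, ⟨0, 13, 16, 9⟩⟩) (by decide +kernel)),
    (posBox_of_check (c := ⟨618, ⟨0, 13, 16, 9⟩⟩) (by decide +kernel))⟩

def fitCD_G_c0_top : Fits boxCD (0) 0 (exG (zEnd ⟨0, 0⟩ groupCD.zh true Ex.x₃) Ex.x₁ Ex.x₂ Ex.x₃).c0 (groupCD.G₀') :=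
  ⟨(posBox_of_check (c := ⟨592, ⟨0, 13, 16, 8⟩⟩) (by decide +kernel)),
    (posBox_of_check (c := ⟨592, ⟨0, 13, 16, 8⟩⟩) (by decide +kernel))⟩

def fitCD_G_c1 : Fits boxCD (0) 1 (exG (zEnd ⟨0, 0⟩ groupCD.zh false Ex.x₃) Ex.x₁ Ex.x₂ Ex.x₃).c1 (groupCD_G.c1) :=
  ⟨(posBox_of_check (c := ⟨556, ⟨0, 13, 14, 7⟩⟩) (by decide +kernel)),
    (posBox_of_check (c := ⟨556, ⟨0, 13, 14, 7⟩⟩) (by decide +kernel))⟩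

def fitCD_G_c1_top : Fits boxCD (0) 1 (exG (zEnd ⟨0, 0⟩ groupCD.zh true Ex.x₃) Ex.x₁ Ex.x₂ Ex.x₃).c1 (groupCD.G₁') :=
  ⟨(posBox_of_check (c := ⟨544, ⟨0, 13, 14, 6⟩⟩) (by decide +kernel)),
    (posBox_of_check (c := ⟨544, ⟨0, 13, 14, 6⟩⟩) (by decide +kernel))⟩

def fitCD_G_c2 : Fits boxCD (0) 2 (exG (zEnd ⟨0, 0⟩ groupCD.zh false Ex.x₃) Ex.x₁ Ex.x₂ Ex.x₃).c2 (groupCD_G.c2) :=
  ⟨(posBox_of_check (c := ⟨498, ⟨0, 13, 12, 5⟩⟩) (by decide +kernel)),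
    (posBox_of_check (c := ⟨498, ⟨0, 13, 12, 5⟩⟩) (by decide +kernel))⟩

def fitCD_E_c000 : Fits boxCD (0) 0 (exE' (zEnd ⟨0, 0⟩ groupCD.zh false Ex.x₃) Ex.x₁ Ex.x₂ Ex.x₃).c000 (groupCD_E.c000) :=
  ⟨(posBox_of_check (c := ⟨567, ⟨0, 13, 14, 8⟩⟩) (by decide +kernel)),
    (posBox_of_check (c := ⟨567, ⟨0, 13, 14, 8⟩⟩) (by decide +kernel))⟩

def fitCD_E_c000_top : Fits boxCD (0) 0 (exE' (zEnd ⟨0, 0⟩ groupCD.zh true Ex.x₃) Ex.x₁ Ex.x₂ Ex.x₃).c000 (groupCD.E₀') :=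
  ⟨(posBox_of_check (c := ⟨553, ⟨0, 13, 14, 7⟩⟩) (by decide +kernel)),
    (posBox_of_check (c := ⟨553, ⟨0, 13, 14, 7⟩⟩) (by decide +kernel))⟩

def fitCD_E_c100 : Fits boxCD (0) 0 (exE' (zEnd ⟨0, 0⟩ groupCD.zh false Ex.x₃) Ex.x₁ Ex.x₂ Ex.x₃).c100 (groupCD_E.c100) :=
  ⟨(posBox_of_check (c := ⟨519, ⟨0, 12, 13, 7⟩⟩) (by decide +kernel)),
    (posBox_of_check (c := ⟨519, ⟨0, 12, 13, 7⟩⟩) (by decide +kernel))⟩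

def fitCD_E_c100_top : Fits boxCD (0) 0 (exE' (zEnd ⟨0, 0⟩ groupCD.zh true Ex.x₃) Ex.x₁ Ex.x₂ Ex.x₃).c100 (groupCD.E₁') :=
  ⟨(posBox_of_check (c := ⟨506, ⟨0, 12, 13, 6⟩⟩) (by decide +kernel)),
    (posBox_of_check (c := ⟨506, ⟨0, 12, 13, 6⟩⟩) (by decide +kernel))⟩

def fitCD_E_c101 : Fits boxCD (0) 0 (exE' (zEnd ⟨0, 0⟩ groupCD.zh false Ex.x₃) Ex.x₁ Ex.x₂ Ex.x₃).c101 (groupCD_E.c101) :=
  ⟨(posBox_of_check (c := ⟨508, ⟨0, 12, 12, 7⟩⟩) (by decide +kernel)),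
    (posBox_of_check (c := ⟨508, ⟨0, 12, 12, 7⟩⟩) (by decide +kernel))⟩

def fitCD_E_c110 : Fits boxCD (0) 0 (exE' (zEnd ⟨0, 0⟩ groupCD.zh false Ex.x₃) Ex.x₁ Ex.x₂ Ex.x₃).c110 (groupCD_E.c110) :=
  ⟨(posBox_of_check (c := ⟨487, ⟨0, 12, 12, 6⟩⟩) (by decide +kernel)),
    (posBox_of_check (c := ⟨487, ⟨0, 12, 12, 6⟩⟩) (by decide +kernel))⟩

def fitCD_E_c200 : Fits boxCD (0) 0 (exE' (zEnd ⟨0, 0⟩ groupCD.zh false Ex.x₃) Ex.x₁ Ex.x₂ Ex.x₃).c200 (groupCD_E.c200) :=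
  ⟨(posBox_of_check (c := ⟨438, ⟨0, 11, 11, 5⟩⟩) (by decide +kernel)),
    (posBox_of_check (c := ⟨438, ⟨0, 11, 11, 5⟩⟩) (by decide +kernel))⟩

def fitCD_E_c201 : Fits boxCD (0) 0 (exE' (zEnd ⟨0, 0⟩ groupCD.zh false Ex.x₃) Ex.x₁ Ex.x₂ Ex.x₃).c201 (groupCD_E.c201) :=
  ⟨(posBox_of_check (c := ⟨417, ⟨0, 10, 10, 5⟩⟩) (by decide +kernel)),
    (posBox_of_check (c := ⟨417, ⟨0, 10, 10, 5⟩⟩) (by decide +kernel))⟩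

def fitCD_E_c210 : Fits boxCD (0) 0 (exE' (zEnd ⟨0, 0⟩ groupCD.zh false Ex.x₃) Ex.x₁ Ex.x₂ Ex.x₃).c210 (groupCD_E.c210) :=
  ⟨(posBox_of_check (c := ⟨398, ⟨0, 10, 10, 5⟩⟩) (by decide +kernel)),
    (posBox_of_check (c := ⟨398, ⟨0, 10, 10, 5⟩⟩) (by decide +kernel))⟩

def fitCD_P_c01 : Fits boxCD (0) 0 (exP' Ex.x₁ Ex.x₂ Ex.x₃).c01 (groupCD_P.c01) :=
  ⟨(posBox_of_check (c := ⟨366, ⟨0, 7, 7, 5⟩⟩) (by decide +kernel)),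
    (posBox_of_check (c := ⟨366, ⟨0, 7, 7, 5⟩⟩) (by decide +kernel))⟩

def fitCD_P_c10 : Fits boxCD (0) 0 (exP' Ex.x₁ Ex.x₂ Ex.x₃).c10 (groupCD_P.c10) :=
  ⟨(posBox_of_check (c := ⟨362, ⟨0, 7, 7, 5⟩⟩) (by decide +kernel)),
    (posBox_of_check (c := ⟨362, ⟨0, 7, 7, 5⟩⟩) (by decide +kernel))⟩

def fitCD_N_c010 : Fits boxCD (0) 0 (exN' (zEnd ⟨0, 0⟩ groupCD.zh false Ex.x₃) Ex.x₁ Ex.x₂ Ex.x₃).c010 (groupCD_N.c010) :=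
  ⟨(posBox_of_check (c := ⟨608, ⟨0, 12, 17, 8⟩⟩) (by decide +kernel)),
    (posBox_of_check (c := ⟨608, ⟨0, 12, 17, 8⟩⟩) (by decide +kernel))⟩

def fitCD_N_c100 : Fits boxCD (0) 0 (exN' (zEnd ⟨0, 0⟩ groupCD.zh false Ex.x₃) Ex.x₁ Ex.x₂ Ex.x₃).c100 (groupCD_N.c100) :=
  ⟨(posBox_of_check (c := ⟨440, ⟨0, 11, 11, 5⟩⟩) (by decide +kernel)),
    (posBox_of_check (c := ⟨440, ⟨0, 11, 11, 5⟩⟩) (by decide +kernel))⟩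

def fitCD_N_c101 : Fits boxCD (0) 0 (exN' (zEnd ⟨0, 0⟩ groupCD.zh false Ex.x₃) Ex.x₁ Ex.x₂ Ex.x₃).c101 (groupCD_N.c101) :=
  ⟨(posBox_of_check (c := ⟨461, ⟨0, 11, 11, 6⟩⟩) (by decide +kernel)),
    (posBox_of_check (c := ⟨461, ⟨0, 11, 11, 6⟩⟩) (by decide +kernel))⟩

def fitCD_N_c110 : Fits boxCD (0) 0 (exN' (zEnd ⟨0, 0⟩ groupCD.zh false Ex.x₃) Ex.x₁ Ex.x₂ Ex.x₃).c110 (groupCD_N.c110) :=
  ⟨(posBox_of_check (c := ⟨539, ⟨0, 12, 14, 7⟩⟩) (by decide +kernel)),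
    (posBox_of_check (c := ⟨539, ⟨0, 12, 14, 7⟩⟩) (by decide +kernel))⟩

def fitCD_N_c110_top : Fits boxCD (0) 0 (exN' (zEnd ⟨0, 0⟩ groupCD.zh true Ex.x₃) Ex.x₁ Ex.x₂ Ex.x₃).c110 (groupCD.N') :=
  ⟨(posBox_of_check (c := ⟨526, ⟨0, 12, 14, 7⟩⟩) (by decide +kernel)),
    (posBox_of_check (c := ⟨526, ⟨0, 12, 14, 7⟩⟩) (by decide +kernel))⟩

def fitCD_N_c111 : Fits boxCD (0) 0 (exN' (zEnd ⟨0, 0⟩ groupCD.zh false Ex.x₃) Ex.x₁ Ex.x₂ Ex.x₃).c111 (groupCD_N.c111) :=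
  ⟨(posBox_of_check (c := ⟨563, ⟨0, 11, 15, 7⟩⟩) (by decide +kernel)),
    (posBox_of_check (c := ⟨563, ⟨0, 11, 15, 7⟩⟩) (by decide +kernel))⟩

def fitCD_N_c120 : Fits boxCD (0) 0 (exN' (zEnd ⟨0, 0⟩ groupCD.zh false Ex.x₃) Ex.x₁ Ex.x₂ Ex.x₃).c120 (groupCD_N.c120) :=
  ⟨(posBox_of_check (c := ⟨543, ⟨0, 11, 15, 6⟩⟩) (by decide +kernel)),
    (posBox_of_check (c := ⟨543, ⟨0, 11, 15, 6⟩⟩) (by decide +kernel))⟩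

def fitCD_N_c210 : Fits boxCD (0) 0 (exN' (zEnd ⟨0, 0⟩ groupCD.zh false Ex.x₃) Ex.x₁ Ex.x₂ Ex.x₃).c210 (groupCD_N.c210) :=
  ⟨(posBox_of_check (c := ⟨472, ⟨0, 10, 12, 6⟩⟩) (by decide +kernel)),
    (posBox_of_check (c := ⟨472, ⟨0, 10, 12, 6⟩⟩) (by decide +kernel))⟩

def fitCD_N_c211 : Fits boxCD (0) 0 (exN' (zEnd ⟨0, 0⟩ groupCD.zh false Ex.x₃) Ex.x₁ Ex.x₂ Ex.x₃).c211 (groupCD_N.c211) :=
  ⟨(posBox_of_check (c := ⟨471, ⟨0, 10, 12, 6⟩⟩) (by decide +kernel)),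
    (posBox_of_check (c := ⟨471, ⟨0, 10, 12, 6⟩⟩) (by decide +kernel))⟩

def fitCD_N_c212 : Fits boxCD (0) 0 (exN' (zEnd ⟨0, 0⟩ groupCD.zh false Ex.x₃) Ex.x₁ Ex.x₂ Ex.x₃).c212 (groupCD_N.c212) :=
  ⟨(posBox_of_check (c := ⟨512, ⟨0, 10, 13, 7⟩⟩) (by decide +kernel)),
    (posBox_of_check (c := ⟨512, ⟨0, 10, 13, 7⟩⟩) (by decide +kernel))⟩

def fitCD_N_c220 : Fits boxCD (0) 0 (exN' (zEnd ⟨0, 0⟩ groupCD.zh false Ex.x₃) Ex.x₁ Ex.x₂ Ex.x₃).c220 (groupCD_N.c220) :=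
  ⟨(posBox_of_check (c := ⟨451, ⟨0, 10, 12, 5⟩⟩) (by decide +kernel)),
    (posBox_of_check (c := ⟨451, ⟨0, 10, 12, 5⟩⟩) (by decide +kernel))⟩

def fitCD_N_c221 : Fits boxCD (0) 0 (exN' (zEnd ⟨0, 0⟩ groupCD.zh false Ex.x₃) Ex.x₁ Ex.x₂ Ex.x₃).c221 (groupCD_N.c221) :=
  ⟨(posBox_of_check (c := ⟨493, ⟨0, 10, 13, 6⟩⟩) (by decide +kernel)),
    (posBox_of_check (c := ⟨493, ⟨0, 10, 13, 6⟩⟩) (by decide +kernel))⟩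

def fitCD_N_c230 : Fits boxCD (0) 0 (exN' (zEnd ⟨0, 0⟩ groupCD.zh false Ex.x₃) Ex.x₁ Ex.x₂ Ex.x₃).c230 (groupCD_N.c230) :=
  ⟨(posBox_of_check (c := ⟨472, ⟨0, 10, 13, 5⟩⟩) (by decide +kernel)),
    (posBox_of_check (c := ⟨472, ⟨0, 10, 13, 5⟩⟩) (by decide +kernel))⟩

def fitCD_A₂ : PosBox boxCD (cC (-1) * sLo groupCD_A.c212 Ex.x₁ Ex.x₂ Ex.x₃) :=
  (posBox_of_check (c := ⟨138, ⟨0, 1, 3, 3⟩⟩) (by decide +kernel))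

def fitCD_N₂ : PosBox boxCD (cC (-1) * sLo groupCD_N.c212 Ex.x₁ Ex.x₂ Ex.x₃) :=
  (posBox_of_check (c := ⟨137, ⟨0, 1, 3, 3⟩⟩) (by decide +kernel))

/-- The surrogates are within their errors. -/
theorem fitCD : groupCD.Fit boxCD where
  A := fun z => match z with
    | false =>
      ⟨fitCD_A_c010,
        fitCD_A_c100,
        fitCD_A_c101,
        fitCD_A_c110,
        fitCD_A_c111,
        fitCD_A_c120,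
        fitCD_A_c210,
        fitCD_A_c211,
        fitCD_A_c212,
        fitCD_A_c220,
        fitCD_A_c221,
        fitCD_A_c230⟩
    | true =>
      ⟨fitCD_A_c010,
        fitCD_A_c100,
        fitCD_A_c101,
        fitCD_A_c110_top,
        fitCD_A_c111,
        fitCD_A_c120,
        fitCD_A_c210,
        fitCD_A_c211,
        fitCD_A_c212,
        fitCD_A_c220,
        fitCD_A_c221,
        fitCD_A_c230⟩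
  M := ⟨fitCD_M_m00, fitCD_M_m01, fitCD_M_m10, fitCD_M_m11, fitCD_M_m20, fitCD_M_n11, fitCD_M_n20⟩
  G := fun z => match z with
    | false =>
      ⟨fitCD_G_c0,
        fitCD_G_c1,
        fitCD_G_c2⟩
    | true =>
      ⟨fitCD_G_c0_top,
        fitCD_G_c1_top,
        fitCD_G_c2⟩
  E := fun z => match z with
    | false =>
      ⟨fitCD_E_c000,
        fitCD_E_c100,
        fitCD_E_c101,
        fitCD_E_c110,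
        fitCD_E_c200,
        fitCD_E_c201,
        fitCD_E_c210⟩
    | true =>
      ⟨fitCD_E_c000_top,
        fitCD_E_c100_top,
        fitCD_E_c101,
        fitCD_E_c110,
        fitCD_E_c200,
        fitCD_E_c201,
        fitCD_E_c210⟩
  P := ⟨fitCD_P_c01, fitCD_P_c10⟩
  N := fun z => match z with
    | false =>
      ⟨fitCD_N_c010,
        fitCD_N_c100,
        fitCD_N_c101,
        fitCD_N_c110,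
        fitCD_N_c111,
        fitCD_N_c120,
        fitCD_N_c210,
        fitCD_N_c211,
        fitCD_N_c212,
        fitCD_N_c220,
        fitCD_N_c221,
        fitCD_N_c230⟩
    | true =>
      ⟨fitCD_N_c010,
        fitCD_N_c100,
        fitCD_N_c101,
        fitCD_N_c110_top,
        fitCD_N_c111,
        fitCD_N_c120,
        fitCD_N_c210,
        fitCD_N_c211,
        fitCD_N_c212,
        fitCD_N_c220,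
        fitCD_N_c221,
        fitCD_N_c230⟩
  A₂ := fitCD_A₂
  N₂ := fitCD_N₂

end Vale.Agent.P100.Calib.Closed.Six.End
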