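import Vale.Agent.P100.Calib.SlabSixEndFit
import Vale.Agent.P100.Calib.SlabSixEndGroupsA

/-!
# The surrogates for `3.2 ≤ v ≤ 3.71`, `0.135 ≤ d ≤ 0.17` are within their errors
-/

-- The checks are definitions, so that they run one after another with little memory.
set_option linter.defProp false

namespace Vale.Agent.P100.Calib.Closed.Six.End

open BoxPos
open Bot (Sur)

open Large (PosBox posBox_of_check)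

local instance endFitFDAdd : Add Ex := ⟨Ex.add⟩
local instance endFitFDSub : Sub Ex := ⟨Ex.sub⟩
local instance endFitFDMul : Mul Ex := ⟨Ex.mul⟩

/-- The box of the surrogates. -/
def boxFD : Box := ⟨⟨0, 1, 1⟩, ⟨0, 20411, 1000000⟩, ⟨135000, 170001, 1000000⟩, ⟨320000, 371001, 100000⟩⟩

def fitFD_A_c010 : Fits boxFD (0) 0 (exA' (zEnd ⟨0, 0⟩ groupFD.zh false Ex.x₃) Ex.x₁ Ex.x₂ Ex.x₃).c010 (groupFD_A.c010) :=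
  ⟨(posBox_of_check (c := ⟨634, ⟨0, 13, 18, 8⟩⟩) (by decide +kernel)),
    (posBox_of_check (c := ⟨634, ⟨0, 13, 18, 8⟩⟩) (by decide +kernel))⟩

def fitFD_A_c100 : Fits boxFD (0) 0 (exA' (zEnd ⟨0, 0⟩ groupFD.zh false Ex.x₃) Ex.x₁ Ex.x₂ Ex.x₃).c100 (groupFD_A.c100) :=
  ⟨(posBox_of_check (c := ⟨443, ⟨0, 11, 11, 5⟩⟩) (by decide +kernel)),
    (posBox_of_check (c := ⟨443, ⟨0, 11, 11, 5⟩⟩) (by decide +kernel))⟩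

def fitFD_A_c101 : Fits boxFD (0) 0 (exA' (zEnd ⟨0, 0⟩ groupFD.zh false Ex.x₃) Ex.x₁ Ex.x₂ Ex.x₃).c101 (groupFD_A.c101) :=
  ⟨(posBox_of_check (c := ⟨463, ⟨0, 11, 11, 6⟩⟩) (by decide +kernel)),
    (posBox_of_check (c := ⟨463, ⟨0, 11, 11, 6⟩⟩) (by decide +kernel))⟩

def fitFD_A_c110 : Fits boxFD (0) 0 (exA' (zEnd ⟨0, 0⟩ groupFD.zh false Ex.x₃) Ex.x₁ Ex.x₂ Ex.x₃).c110 (groupFD_A.c110) :=
  ⟨(posBox_of_check (c := ⟨550, ⟨0, 12, 15, 7⟩⟩) (by decide +kernel)),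
    (posBox_of_check (c := ⟨550, ⟨0, 12, 15, 7⟩⟩) (by decide +kernel))⟩

def fitFD_A_c110_top : Fits boxFD (0) 0 (exA' (zEnd ⟨0, 0⟩ groupFD.zh true Ex.x₃) Ex.x₁ Ex.x₂ Ex.x₃).c110 (groupFD.A') :=
  ⟨(posBox_of_check (c := ⟨550, ⟨0, 12, 15, 7⟩⟩) (by decide +kernel)),
    (posBox_of_check (c := ⟨550, ⟨0, 12, 15, 7⟩⟩) (by decide +kernel))⟩

def fitFD_A_c111 : Fits boxFD (0) 0 (exA' (zEnd ⟨0, 0⟩ groupFD.zh false Ex.x₃) Ex.x₁ Ex.x₂ Ex.x₃).c111 (groupFD_A.c111) :=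
  ⟨(posBox_of_check (c := ⟨590, ⟨0, 12, 16, 7⟩⟩) (by decide +kernel)),
    (posBox_of_check (c := ⟨590, ⟨0, 12, 16, 7⟩⟩) (by decide +kernel))⟩

def fitFD_A_c120 : Fits boxFD (0) 0 (exA' (zEnd ⟨0, 0⟩ groupFD.zh false Ex.x₃) Ex.x₁ Ex.x₂ Ex.x₃).c120 (groupFD_A.c120) :=
  ⟨(posBox_of_check (c := ⟨570, ⟨0, 12, 16, 6⟩⟩) (by decide +kernel)),
    (posBox_of_check (c := ⟨570, ⟨0, 12, 16, 6⟩⟩) (by decide +kernel))⟩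

def fitFD_A_c210 : Fits boxFD (0) 0 (exA' (zEnd ⟨0, 0⟩ groupFD.zh false Ex.x₃) Ex.x₁ Ex.x₂ Ex.x₃).c210 (groupFD_A.c210) :=
  ⟨(posBox_of_check (c := ⟨499, ⟨0, 11, 13, 6⟩⟩) (by decide +kernel)),
    (posBox_of_check (c := ⟨499, ⟨0, 11, 13, 6⟩⟩) (by decide +kernel))⟩

def fitFD_A_c211 : Fits boxFD (0) 0 (exA' (zEnd ⟨0, 0⟩ groupFD.zh false Ex.x₃) Ex.x₁ Ex.x₂ Ex.x₃).c211 (groupFD_A.c211) :=
  ⟨(posBox_of_check (c := ⟨499, ⟨0, 11, 13, 6⟩⟩) (by decide +kernel)),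
    (posBox_of_check (c := ⟨499, ⟨0, 11, 13, 6⟩⟩) (by decide +kernel))⟩

def fitFD_A_c212 : Fits boxFD (0) 0 (exA' (zEnd ⟨0, 0⟩ groupFD.zh false Ex.x₃) Ex.x₁ Ex.x₂ Ex.x₃).c212 (groupFD_A.c212) :=
  ⟨(posBox_of_check (c := ⟨540, ⟨0, 11, 14, 7⟩⟩) (by decide +kernel)),
    (posBox_of_check (c := ⟨540, ⟨0, 11, 14, 7⟩⟩) (by decide +kernel))⟩

def fitFD_A_c220 : Fits boxFD (0) 0 (exA' (zEnd ⟨0, 0⟩ groupFD.zh false Ex.x₃) Ex.x₁ Ex.x₂ Ex.x₃).c220 (groupFD_A.c220) :=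
  ⟨(posBox_of_check (c := ⟨479, ⟨0, 11, 13, 5⟩⟩) (by decide +kernel)),
    (posBox_of_check (c := ⟨479, ⟨0, 11, 13, 5⟩⟩) (by decide +kernel))⟩

def fitFD_A_c221 : Fits boxFD (0) 0 (exA' (zEnd ⟨0, 0⟩ groupFD.zh false Ex.x₃) Ex.x₁ Ex.x₂ Ex.x₃).c221 (groupFD_A.c221) :=
  ⟨(posBox_of_check (c := ⟨521, ⟨0, 11, 14, 6⟩⟩) (by decide +kernel)),
    (posBox_of_check (c := ⟨521, ⟨0, 11, 14, 6⟩⟩) (by decide +kernel))⟩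

def fitFD_A_c230 : Fits boxFD (0) 0 (exA' (zEnd ⟨0, 0⟩ groupFD.zh false Ex.x₃) Ex.x₁ Ex.x₂ Ex.x₃).c230 (groupFD_A.c230) :=
  ⟨(posBox_of_check (c := ⟨501, ⟨0, 11, 14, 5⟩⟩) (by decide +kernel)),
    (posBox_of_check (c := ⟨501, ⟨0, 11, 14, 5⟩⟩) (by decide +kernel))⟩

def fitFD_M_m00 : Fits boxFD (0) 0 (exM' Ex.x₁ Ex.x₂ Ex.x₃).m00 (groupFD_M.m00) :=
  ⟨(posBox_of_check (c := ⟨372, ⟨0, 9, 8, 5⟩⟩) (by decide +kernel)),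
    (posBox_of_check (c := ⟨372, ⟨0, 9, 8, 5⟩⟩) (by decide +kernel))⟩

def fitFD_M_m01 : Fits boxFD (0) 0 (exM' Ex.x₁ Ex.x₂ Ex.x₃).m01 (groupFD_M.m01) :=
  ⟨(posBox_of_check (c := ⟨377, ⟨0, 9, 8, 5⟩⟩) (by decide +kernel)),
    (posBox_of_check (c := ⟨377, ⟨0, 9, 8, 5⟩⟩) (by decide +kernel))⟩

def fitFD_M_m10 : Fits boxFD (0) 0 (exM' Ex.x₁ Ex.x₂ Ex.x₃).m10 (groupFD_M.m10) :=
  ⟨(posBox_of_check (c := ⟨421, ⟨0, 10, 10, 5⟩⟩) (by decide +kernel)),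
    (posBox_of_check (c := ⟨421, ⟨0, 10, 10, 5⟩⟩) (by decide +kernel))⟩

def fitFD_M_m11 : Fits boxFD (0) 0 (exM' Ex.x₁ Ex.x₂ Ex.x₃).m11 (groupFD_M.m11) :=
  ⟨(posBox_of_check (c := ⟨392, ⟨0, 8, 9, 5⟩⟩) (by decide +kernel)),
    (posBox_of_check (c := ⟨392, ⟨0, 8, 9, 5⟩⟩) (by decide +kernel))⟩

def fitFD_M_m20 : Fits boxFD (0) 0 (exM' Ex.x₁ Ex.x₂ Ex.x₃).m20 (groupFD_M.m20) :=
  ⟨(posBox_of_check (c := ⟨389, ⟨0, 8, 9, 5⟩⟩) (by decide +kernel)),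
    (posBox_of_check (c := ⟨389, ⟨0, 8, 9, 5⟩⟩) (by decide +kernel))⟩

def fitFD_M_n11 : Fits boxFD (0) 0 (exM' Ex.x₁ Ex.x₂ Ex.x₃).n11 (groupFD_M.n11) :=
  ⟨(posBox_of_check (c := ⟨374, ⟨0, 9, 9, 5⟩⟩) (by decide +kernel)),
    (posBox_of_check (c := ⟨374, ⟨0, 9, 9, 5⟩⟩) (by decide +kernel))⟩

def fitFD_M_n20 : Fits boxFD (0) 0 (exM' Ex.x₁ Ex.x₂ Ex.x₃).n20 (groupFD_M.n20) :=
  ⟨(posBox_of_check (c := ⟨369, ⟨0, 9, 9, 5⟩⟩) (by decide +kernel)),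
    (posBox_of_check (c := ⟨369, ⟨0, 9, 9, 5⟩⟩) (by decide +kernel))⟩

def fitFD_G_c0 : Fits boxFD (0) 0 (exG (zEnd ⟨0, 0⟩ groupFD.zh false Ex.x₃) Ex.x₁ Ex.x₂ Ex.x₃).c0 (groupFD_G.c0) :=
  ⟨(posBox_of_check (c := ⟨620, ⟨0, 13, 16, 9⟩⟩) (by decide +kernel)),
    (posBox_of_check (c := ⟨620, ⟨0, 13, 16, 9⟩⟩) (by decide +kernel))⟩

def fitFD_G_c0_top : Fits boxFD (0) 0 (exG (zEnd ⟨0, 0⟩ groupFD.zh true Ex.x₃) Ex.x₁ Ex.x₂ Ex.x₃).c0 (groupFD.G₀') :=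
  ⟨(posBox_of_check (c := ⟨594, ⟨0, 13, 16, 8⟩⟩) (by decide +kernel)),
    (posBox_of_check (c := ⟨594, ⟨0, 13, 16, 8⟩⟩) (by decide +kernel))⟩

def fitFD_G_c1 : Fits boxFD (0) 1 (exG (zEnd ⟨0, 0⟩ groupFD.zh false Ex.x₃) Ex.x₁ Ex.x₂ Ex.x₃).c1 (groupFD_G.c1) :=
  ⟨(posBox_of_check (c := ⟨558, ⟨0, 13, 14, 7⟩⟩) (by decide +kernel)),
    (posBox_of_check (c := ⟨558, ⟨0, 13, 14, 7⟩⟩) (by decide +kernel))⟩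

def fitFD_G_c1_top : Fits boxFD (0) 1 (exG (zEnd ⟨0, 0⟩ groupFD.zh true Ex.x₃) Ex.x₁ Ex.x₂ Ex.x₃).c1 (groupFD.G₁') :=
  ⟨(posBox_of_check (c := ⟨546, ⟨0, 13, 14, 6⟩⟩) (by decide +kernel)),
    (posBox_of_check (c := ⟨546, ⟨0, 13, 14, 6⟩⟩) (by decide +kernel))⟩

def fitFD_G_c2 : Fits boxFD (0) 2 (exG (zEnd ⟨0, 0⟩ groupFD.zh false Ex.x₃) Ex.x₁ Ex.x₂ Ex.x₃).c2 (groupFD_G.c2) :=
  ⟨(posBox_of_check (c := ⟨500, ⟨0, 13, 12, 5⟩⟩) (by decide +kernel)),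
    (posBox_of_check (c := ⟨500, ⟨0, 13, 12, 5⟩⟩) (by decide +kernel))⟩

def fitFD_E_c000 : Fits boxFD (0) 0 (exE' (zEnd ⟨0, 0⟩ groupFD.zh false Ex.x₃) Ex.x₁ Ex.x₂ Ex.x₃).c000 (groupFD_E.c000) :=
  ⟨(posBox_of_check (c := ⟨569, ⟨0, 13, 14, 8⟩⟩) (by decide +kernel)),
    (posBox_of_check (c := ⟨569, ⟨0, 13, 14, 8⟩⟩) (by decide +kernel))⟩

def fitFD_E_c000_top : Fits boxFD (0) 0 (exE' (zEnd ⟨0, 0⟩ groupFD.zh true Ex.x₃) Ex.x₁ Ex.x₂ Ex.x₃).c000 (groupFD.E₀') :=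
  ⟨(posBox_of_check (c := ⟨555, ⟨0, 13, 14, 7⟩⟩) (by decide +kernel)),
    (posBox_of_check (c := ⟨555, ⟨0, 13, 14, 7⟩⟩) (by decide +kernel))⟩

def fitFD_E_c100 : Fits boxFD (0) 0 (exE' (zEnd ⟨0, 0⟩ groupFD.zh false Ex.x₃) Ex.x₁ Ex.x₂ Ex.x₃).c100 (groupFD_E.c100) :=
  ⟨(posBox_of_check (c := ⟨521, ⟨0, 12, 13, 7⟩⟩) (by decide +kernel)),
    (posBox_of_check (c := ⟨521, ⟨0, 12, 13, 7⟩⟩) (by decide +kernel))⟩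

def fitFD_E_c100_top : Fits boxFD (0) 0 (exE' (zEnd ⟨0, 0⟩ groupFD.zh true Ex.x₃) Ex.x₁ Ex.x₂ Ex.x₃).c100 (groupFD.E₁') :=
  ⟨(posBox_of_check (c := ⟨508, ⟨0, 12, 13, 6⟩⟩) (by decide +kernel)),
    (posBox_of_check (c := ⟨508, ⟨0, 12, 13, 6⟩⟩) (by decide +kernel))⟩

def fitFD_E_c101 : Fits boxFD (0) 0 (exE' (zEnd ⟨0, 0⟩ groupFD.zh false Ex.x₃) Ex.x₁ Ex.x₂ Ex.x₃).c101 (groupFD_E.c101) :=
  ⟨(posBox_of_check (c := ⟨510, ⟨0, 12, 12, 7⟩⟩) (by decide +kernel)),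
    (posBox_of_check (c := ⟨510, ⟨0, 12, 12, 7⟩⟩) (by decide +kernel))⟩

def fitFD_E_c110 : Fits boxFD (0) 0 (exE' (zEnd ⟨0, 0⟩ groupFD.zh false Ex.x₃) Ex.x₁ Ex.x₂ Ex.x₃).c110 (groupFD_E.c110) :=
  ⟨(posBox_of_check (c := ⟨490, ⟨0, 12, 12, 6⟩⟩) (by decide +kernel)),
    (posBox_of_check (c := ⟨490, ⟨0, 12, 12, 6⟩⟩) (by decide +kernel))⟩

def fitFD_E_c200 : Fits boxFD (0) 0 (exE' (zEnd ⟨0, 0⟩ groupFD.zh false Ex.x₃) Ex.x₁ Ex.x₂ Ex.x₃).c200 (groupFD_E.c200) :=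
  ⟨(posBox_of_check (c := ⟨440, ⟨0, 11, 11, 5⟩⟩) (by decide +kernel)),
    (posBox_of_check (c := ⟨440, ⟨0, 11, 11, 5⟩⟩) (by decide +kernel))⟩

def fitFD_E_c201 : Fits boxFD (0) 0 (exE' (zEnd ⟨0, 0⟩ groupFD.zh false Ex.x₃) Ex.x₁ Ex.x₂ Ex.x₃).c201 (groupFD_E.c201) :=
  ⟨(posBox_of_check (c := ⟨418, ⟨0, 10, 10, 5⟩⟩) (by decide +kernel)),
    (posBox_of_check (c := ⟨418, ⟨0, 10, 10, 5⟩⟩) (by decide +kernel))⟩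

def fitFD_E_c210 : Fits boxFD (0) 0 (exE' (zEnd ⟨0, 0⟩ groupFD.zh false Ex.x₃) Ex.x₁ Ex.x₂ Ex.x₃).c210 (groupFD_E.c210) :=
  ⟨(posBox_of_check (c := ⟨399, ⟨0, 10, 10, 5⟩⟩) (by decide +kernel)),
    (posBox_of_check (c := ⟨399, ⟨0, 10, 10, 5⟩⟩) (by decide +kernel))⟩

def fitFD_P_c01 : Fits boxFD (0) 0 (exP' Ex.x₁ Ex.x₂ Ex.x₃).c01 (groupFD_P.c01) :=
  ⟨(posBox_of_check (c := ⟨366, ⟨0, 7, 7, 5⟩⟩) (by decide +kernel)),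
    (posBox_of_check (c := ⟨366, ⟨0, 7, 7, 5⟩⟩) (by decide +kernel))⟩

def fitFD_P_c10 : Fits boxFD (0) 0 (exP' Ex.x₁ Ex.x₂ Ex.x₃).c10 (groupFD_P.c10) :=
  ⟨(posBox_of_check (c := ⟨364, ⟨0, 7, 7, 5⟩⟩) (by decide +kernel)),
    (posBox_of_check (c := ⟨364, ⟨0, 7, 7, 5⟩⟩) (by decide +kernel))⟩

def fitFD_N_c010 : Fits boxFD (0) 0 (exN' (zEnd ⟨0, 0⟩ groupFD.zh false Ex.x₃) Ex.x₁ Ex.x₂ Ex.x₃).c010 (groupFD_N.c010) :=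
  ⟨(posBox_of_check (c := ⟨610, ⟨0, 12, 17, 8⟩⟩) (by decide +kernel)),
    (posBox_of_check (c := ⟨610, ⟨0, 12, 17, 8⟩⟩) (by decide +kernel))⟩

def fitFD_N_c100 : Fits boxFD (0) 0 (exN' (zEnd ⟨0, 0⟩ groupFD.zh false Ex.x₃) Ex.x₁ Ex.x₂ Ex.x₃).c100 (groupFD_N.c100) :=
  ⟨(posBox_of_check (c := ⟨443, ⟨0, 11, 11, 5⟩⟩) (by decide +kernel)),
    (posBox_of_check (c := ⟨443, ⟨0, 11, 11, 5⟩⟩) (by decide +kernel))⟩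

def fitFD_N_c101 : Fits boxFD (0) 0 (exN' (zEnd ⟨0, 0⟩ groupFD.zh false Ex.x₃) Ex.x₁ Ex.x₂ Ex.x₃).c101 (groupFD_N.c101) :=
  ⟨(posBox_of_check (c := ⟨463, ⟨0, 11, 11, 6⟩⟩) (by decide +kernel)),
    (posBox_of_check (c := ⟨463, ⟨0, 11, 11, 6⟩⟩) (by decide +kernel))⟩

def fitFD_N_c110 : Fits boxFD (0) 0 (exN' (zEnd ⟨0, 0⟩ groupFD.zh false Ex.x₃) Ex.x₁ Ex.x₂ Ex.x₃).c110 (groupFD_N.c110) :=
  ⟨(posBox_of_check (c := ⟨541, ⟨0, 12, 14, 7⟩⟩) (by decide +kernel)),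
    (posBox_of_check (c := ⟨541, ⟨0, 12, 14, 7⟩⟩) (by decide +kernel))⟩

def fitFD_N_c110_top : Fits boxFD (0) 0 (exN' (zEnd ⟨0, 0⟩ groupFD.zh true Ex.x₃) Ex.x₁ Ex.x₂ Ex.x₃).c110 (groupFD.N') :=
  ⟨(posBox_of_check (c := ⟨529, ⟨0, 12, 14, 7⟩⟩) (by decide +kernel)),
    (posBox_of_check (c := ⟨529, ⟨0, 12, 14, 7⟩⟩) (by decide +kernel))⟩

def fitFD_N_c111 : Fits boxFD (0) 0 (exN' (zEnd ⟨0, 0⟩ groupFD.zh false Ex.x₃) Ex.x₁ Ex.x₂ Ex.x₃).c111 (groupFD_N.c111) :=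
  ⟨(posBox_of_check (c := ⟨566, ⟨0, 11, 15, 7⟩⟩) (by decide +kernel)),
    (posBox_of_check (c := ⟨566, ⟨0, 11, 15, 7⟩⟩) (by decide +kernel))⟩

def fitFD_N_c120 : Fits boxFD (0) 0 (exN' (zEnd ⟨0, 0⟩ groupFD.zh false Ex.x₃) Ex.x₁ Ex.x₂ Ex.x₃).c120 (groupFD_N.c120) :=
  ⟨(posBox_of_check (c := ⟨545, ⟨0, 11, 15, 6⟩⟩) (by decide +kernel)),
    (posBox_of_check (c := ⟨545, ⟨0, 11, 15, 6⟩⟩) (by decide +kernel))⟩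

def fitFD_N_c210 : Fits boxFD (0) 0 (exN' (zEnd ⟨0, 0⟩ groupFD.zh false Ex.x₃) Ex.x₁ Ex.x₂ Ex.x₃).c210 (groupFD_N.c210) :=
  ⟨(posBox_of_check (c := ⟨475, ⟨0, 10, 12, 6⟩⟩) (by decide +kernel)),
    (posBox_of_check (c := ⟨475, ⟨0, 10, 12, 6⟩⟩) (by decide +kernel))⟩

def fitFD_N_c211 : Fits boxFD (0) 0 (exN' (zEnd ⟨0, 0⟩ groupFD.zh false Ex.x₃) Ex.x₁ Ex.x₂ Ex.x₃).c211 (groupFD_N.c211) :=
  ⟨(posBox_of_check (c := ⟨474, ⟨0, 10, 12, 6⟩⟩) (by decide +kernel)),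
    (posBox_of_check (c := ⟨474, ⟨0, 10, 12, 6⟩⟩) (by decide +kernel))⟩

def fitFD_N_c212 : Fits boxFD (0) 0 (exN' (zEnd ⟨0, 0⟩ groupFD.zh false Ex.x₃) Ex.x₁ Ex.x₂ Ex.x₃).c212 (groupFD_N.c212) :=
  ⟨(posBox_of_check (c := ⟨516, ⟨0, 10, 13, 7⟩⟩) (by decide +kernel)),
    (posBox_of_check (c := ⟨516, ⟨0, 10, 13, 7⟩⟩) (by decide +kernel))⟩

def fitFD_N_c220 : Fits boxFD (0) 0 (exN' (zEnd ⟨0, 0⟩ groupFD.zh false Ex.x₃) Ex.x₁ Ex.x₂ Ex.x₃).c220 (groupFD_N.c220) :=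
  ⟨(posBox_of_check (c := ⟨455, ⟨0, 10, 12, 5⟩⟩) (by decide +kernel)),
    (posBox_of_check (c := ⟨455, ⟨0, 10, 12, 5⟩⟩) (by decide +kernel))⟩

def fitFD_N_c221 : Fits boxFD (0) 0 (exN' (zEnd ⟨0, 0⟩ groupFD.zh false Ex.x₃) Ex.x₁ Ex.x₂ Ex.x₃).c221 (groupFD_N.c221) :=
  ⟨(posBox_of_check (c := ⟨497, ⟨0, 10, 13, 6⟩⟩) (by decide +kernel)),
    (posBox_of_check (c := ⟨497, ⟨0, 10, 13, 6⟩⟩) (by decide +kernel))⟩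

def fitFD_N_c230 : Fits boxFD (0) 0 (exN' (zEnd ⟨0, 0⟩ groupFD.zh false Ex.x₃) Ex.x₁ Ex.x₂ Ex.x₃).c230 (groupFD_N.c230) :=
  ⟨(posBox_of_check (c := ⟨476, ⟨0, 10, 13, 5⟩⟩) (by decide +kernel)),
    (posBox_of_check (c := ⟨476, ⟨0, 10, 13, 5⟩⟩) (by decide +kernel))⟩

def fitFD_A₂ : PosBox boxFD (cC (-1) * sLo groupFD_A.c212 Ex.x₁ Ex.x₂ Ex.x₃) :=
  (posBox_of_check (c := ⟨141, ⟨0, 1, 3, 3⟩⟩) (by decide +kernel))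

def fitFD_N₂ : PosBox boxFD (cC (-1) * sLo groupFD_N.c212 Ex.x₁ Ex.x₂ Ex.x₃) :=
  (posBox_of_check (c := ⟨140, ⟨0, 1, 3, 3⟩⟩) (by decide +kernel))

/-- The surrogates are within their errors. -/
theorem fitFD : groupFD.Fit boxFD where
  A := fun z => match z with
    | false =>
      ⟨fitFD_A_c010,
        fitFD_A_c100,
        fitFD_A_c101,
        fitFD_A_c110,
        fitFD_A_c111,
        fitFD_A_c120,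
        fitFD_A_c210,
        fitFD_A_c211,
        fitFD_A_c212,
        fitFD_A_c220,
        fitFD_A_c221,
        fitFD_A_c230⟩
    | true =>
      ⟨fitFD_A_c010,
        fitFD_A_c100,
        fitFD_A_c101,
        fitFD_A_c110_top,
        fitFD_A_c111,
        fitFD_A_c120,
        fitFD_A_c210,
        fitFD_A_c211,
        fitFD_A_c212,
        fitFD_A_c220,
        fitFD_A_c221,
        fitFD_A_c230⟩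
  M := ⟨fitFD_M_m00, fitFD_M_m01, fitFD_M_m10, fitFD_M_m11, fitFD_M_m20, fitFD_M_n11, fitFD_M_n20⟩
  G := fun z => match z with
    | false =>
      ⟨fitFD_G_c0,
        fitFD_G_c1,
        fitFD_G_c2⟩
    | true =>
      ⟨fitFD_G_c0_top,
        fitFD_G_c1_top,
        fitFD_G_c2⟩
  E := fun z => match z with
    | false =>
      ⟨fitFD_E_c000,
        fitFD_E_c100,
        fitFD_E_c101,
        fitFD_E_c110,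
        fitFD_E_c200,
        fitFD_E_c201,
        fitFD_E_c210⟩
    | true =>
      ⟨fitFD_E_c000_top,
        fitFD_E_c100_top,
        fitFD_E_c101,
        fitFD_E_c110,
        fitFD_E_c200,
        fitFD_E_c201,
        fitFD_E_c210⟩
  P := ⟨fitFD_P_c01, fitFD_P_c10⟩
  N := fun z => match z with
    | false =>
      ⟨fitFD_N_c010,
        fitFD_N_c100,
        fitFD_N_c101,
        fitFD_N_c110,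
        fitFD_N_c111,
        fitFD_N_c120,
        fitFD_N_c210,
        fitFD_N_c211,
        fitFD_N_c212,
        fitFD_N_c220,
        fitFD_N_c221,
        fitFD_N_c230⟩
    | true =>
      ⟨fitFD_N_c010,
        fitFD_N_c100,
        fitFD_N_c101,
        fitFD_N_c110_top,
        fitFD_N_c111,
        fitFD_N_c120,
        fitFD_N_c210,
        fitFD_N_c211,
        fitFD_N_c212,
        fitFD_N_c220,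
        fitFD_N_c221,
        fitFD_N_c230⟩
  A₂ := fitFD_A₂
  N₂ := fitFD_N₂

end Vale.Agent.P100.Calib.Closed.Six.End
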