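import Vale.Agent.P100.Calib.SlabSixEndFit
import Vale.Agent.P100.Calib.SlabSixEndGroupsB

/-!
# The surrogates for `0.82 ≤ v ≤ 2.28`, `0.22 ≤ d ≤ 0.28` are within their errors
-/

-- The checks are definitions, so that they run one after another with little memory.
set_option linter.defProp false

namespace Vale.Agent.P100.Calib.Closed.Six.End

open BoxPos
open Bot (Sur)

open Large (PosBox posBox_of_check)

local instance endFitHAdd : Add Ex := ⟨Ex.add⟩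
local instance endFitHSub : Sub Ex := ⟨Ex.sub⟩
local instance endFitHMul : Mul Ex := ⟨Ex.mul⟩

/-- The box of the surrogates. -/
def boxH : Box := ⟨⟨0, 1, 1⟩, ⟨0, 20411, 1000000⟩, ⟨220000, 280001, 1000000⟩, ⟨82000, 228001, 100000⟩⟩

def fitH_A_c00 : Fits boxH (0) 0 (exA (zEnd groupH.zl groupH.zh false Ex.x₃) Ex.x₁ Ex.x₂ Ex.x₃).c00 (groupH_A.c00) :=
  ⟨(posBox_of_check (c := ⟨441, ⟨0, 10, 11, 6⟩⟩) (by decide +kernel)),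
    (posBox_of_check (c := ⟨441, ⟨0, 10, 11, 6⟩⟩) (by decide +kernel))⟩

def fitH_A_c10 : Fits boxH (0) 1 (exA (zEnd groupH.zl groupH.zh false Ex.x₃) Ex.x₁ Ex.x₂ Ex.x₃).c10 (groupH_A.c10) :=
  ⟨(posBox_of_check (c := ⟨464, ⟨0, 12, 11, 5⟩⟩) (by decide +kernel)),
    (posBox_of_check (c := ⟨464, ⟨0, 12, 11, 5⟩⟩) (by decide +kernel))⟩

def fitH_A_c01 : Fits boxH (0) 0 (exA (zEnd groupH.zl groupH.zh false Ex.x₃) Ex.x₁ Ex.x₂ Ex.x₃).c01 (groupH_A.c01) :=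
  ⟨(posBox_of_check (c := ⟨636, ⟨0, 13, 18, 8⟩⟩) (by decide +kernel)),
    (posBox_of_check (c := ⟨636, ⟨0, 13, 18, 8⟩⟩) (by decide +kernel))⟩

def fitH_A_c11 : Fits boxH (0) 1 (exA (zEnd groupH.zl groupH.zh false Ex.x₃) Ex.x₁ Ex.x₂ Ex.x₃).c11 (groupH_A.c11) :=
  ⟨(posBox_of_check (c := ⟨571, ⟨0, 13, 15, 7⟩⟩) (by decide +kernel)),
    (posBox_of_check (c := ⟨571, ⟨0, 13, 15, 7⟩⟩) (by decide +kernel))⟩

def fitH_A_c11_top : Fits boxH (0) 1 (exA (zEnd groupH.zl groupH.zh true Ex.x₃) Ex.x₁ Ex.x₂ Ex.x₃).c11 (groupH.A') :=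
  ⟨(posBox_of_check (c := ⟨571, ⟨0, 13, 15, 7⟩⟩) (by decide +kernel)),
    (posBox_of_check (c := ⟨571, ⟨0, 13, 15, 7⟩⟩) (by decide +kernel))⟩

def fitH_A_c21 : Fits boxH (0) 2 (exA (zEnd groupH.zl groupH.zh false Ex.x₃) Ex.x₁ Ex.x₂ Ex.x₃).c21 (groupH_A.c21) :=
  ⟨(posBox_of_check (c := ⟨542, ⟨0, 13, 13, 6⟩⟩) (by decide +kernel)),
    (posBox_of_check (c := ⟨542, ⟨0, 13, 13, 6⟩⟩) (by decide +kernel))⟩

def fitH_A_c02 : Fits boxH (0) 0 (exA (zEnd groupH.zl groupH.zh false Ex.x₃) Ex.x₁ Ex.x₂ Ex.x₃).c02 (groupH_A.c02) :=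
  ⟨(posBox_of_check (c := ⟨566, ⟨0, 11, 15, 7⟩⟩) (by decide +kernel)),
    (posBox_of_check (c := ⟨566, ⟨0, 11, 15, 7⟩⟩) (by decide +kernel))⟩

def fitH_A_c12 : Fits boxH (0) 1 (exA (zEnd groupH.zl groupH.zh false Ex.x₃) Ex.x₁ Ex.x₂ Ex.x₃).c12 (groupH_A.c12) :=
  ⟨(posBox_of_check (c := ⟨592, ⟨0, 13, 16, 6⟩⟩) (by decide +kernel)),
    (posBox_of_check (c := ⟨592, ⟨0, 13, 16, 6⟩⟩) (by decide +kernel))⟩

def fitH_A_c22 : Fits boxH (0) 2 (exA (zEnd groupH.zl groupH.zh false Ex.x₃) Ex.x₁ Ex.x₂ Ex.x₃).c22 (groupH_A.c22) :=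
  ⟨(posBox_of_check (c := ⟨521, ⟨0, 13, 13, 5⟩⟩) (by decide +kernel)),
    (posBox_of_check (c := ⟨521, ⟨0, 13, 13, 5⟩⟩) (by decide +kernel))⟩

def fitH_A_c03 : Fits boxH (0) 0 (exA (zEnd groupH.zl groupH.zh false Ex.x₃) Ex.x₁ Ex.x₂ Ex.x₃).c03 (groupH_A.c03) :=
  ⟨(posBox_of_check (c := ⟨494, ⟨0, 9, 12, 7⟩⟩) (by decide +kernel)),
    (posBox_of_check (c := ⟨494, ⟨0, 9, 12, 7⟩⟩) (by decide +kernel))⟩

def fitH_A_c13 : Fits boxH (0) 1 (exA (zEnd groupH.zl groupH.zh false Ex.x₃) Ex.x₁ Ex.x₂ Ex.x₃).c13 (groupH_A.c13) :=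
  ⟨(posBox_of_check (c := ⟨520, ⟨0, 11, 13, 6⟩⟩) (by decide +kernel)),
    (posBox_of_check (c := ⟨520, ⟨0, 11, 13, 6⟩⟩) (by decide +kernel))⟩

def fitH_A_c23 : Fits boxH (0) 2 (exA (zEnd groupH.zl groupH.zh false Ex.x₃) Ex.x₁ Ex.x₂ Ex.x₃).c23 (groupH_A.c23) :=
  ⟨(posBox_of_check (c := ⟨544, ⟨0, 13, 14, 5⟩⟩) (by decide +kernel)),
    (posBox_of_check (c := ⟨544, ⟨0, 13, 14, 5⟩⟩) (by decide +kernel))⟩

def fitH_M_c00 : Fits boxH (0) 0 (exM Ex.x₁ Ex.x₂ Ex.x₃).c00 (groupH_M.c00) :=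
  ⟨(posBox_of_check (c := ⟨373, ⟨0, 8, 8, 5⟩⟩) (by decide +kernel)),
    (posBox_of_check (c := ⟨373, ⟨0, 8, 8, 5⟩⟩) (by decide +kernel))⟩

def fitH_M_c10 : Fits boxH (0) 1 (exM Ex.x₁ Ex.x₂ Ex.x₃).c10 (groupH_M.c10) :=
  ⟨(posBox_of_check (c := ⟨376, ⟨0, 10, 8, 5⟩⟩) (by decide +kernel)),
    (posBox_of_check (c := ⟨376, ⟨0, 10, 8, 5⟩⟩) (by decide +kernel))⟩

def fitH_M_c01 : Fits boxH (0) 0 (exM Ex.x₁ Ex.x₂ Ex.x₃).c01 (groupH_M.c01) :=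
  ⟨(posBox_of_check (c := ⟨376, ⟨0, 8, 9, 5⟩⟩) (by decide +kernel)),
    (posBox_of_check (c := ⟨376, ⟨0, 8, 9, 5⟩⟩) (by decide +kernel))⟩

def fitH_M_c11 : Fits boxH (0) 1 (exM Ex.x₁ Ex.x₂ Ex.x₃).c11 (groupH_M.c11) :=
  ⟨(posBox_of_check (c := ⟨443, ⟨0, 11, 10, 5⟩⟩) (by decide +kernel)),
    (posBox_of_check (c := ⟨443, ⟨0, 11, 10, 5⟩⟩) (by decide +kernel))⟩

def fitH_M_c02 : Fits boxH (0) 0 (exM Ex.x₁ Ex.x₂ Ex.x₃).c02 (groupH_M.c02) :=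
  ⟨(posBox_of_check (c := ⟨372, ⟨0, 7, 8, 5⟩⟩) (by decide +kernel)),
    (posBox_of_check (c := ⟨372, ⟨0, 7, 8, 5⟩⟩) (by decide +kernel))⟩

def fitH_M_c12 : Fits boxH (0) 1 (exM Ex.x₁ Ex.x₂ Ex.x₃).c12 (groupH_M.c12) :=
  ⟨(posBox_of_check (c := ⟨412, ⟨0, 9, 9, 5⟩⟩) (by decide +kernel)),
    (posBox_of_check (c := ⟨412, ⟨0, 9, 9, 5⟩⟩) (by decide +kernel))⟩

def fitH_M_c22 : Fits boxH (0) 2 (exM Ex.x₁ Ex.x₂ Ex.x₃).c22 (groupH_M.c22) :=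
  ⟨(posBox_of_check (c := ⟨398, ⟨0, 11, 9, 5⟩⟩) (by decide +kernel)),
    (posBox_of_check (c := ⟨398, ⟨0, 11, 9, 5⟩⟩) (by decide +kernel))⟩

def fitH_G_c0 : Fits boxH (0) 0 (exG (zEnd groupH.zl groupH.zh false Ex.x₃) Ex.x₁ Ex.x₂ Ex.x₃).c0 (groupH_G.c0) :=
  ⟨(posBox_of_check (c := ⟨620, ⟨0, 13, 16, 9⟩⟩) (by decide +kernel)),
    (posBox_of_check (c := ⟨620, ⟨0, 13, 16, 9⟩⟩) (by decide +kernel))⟩

def fitH_G_c0_top : Fits boxH (0) 0 (exG (zEnd groupH.zl groupH.zh true Ex.x₃) Ex.x₁ Ex.x₂ Ex.x₃).c0 (groupH.G₀') :=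
  ⟨(posBox_of_check (c := ⟨594, ⟨0, 13, 16, 8⟩⟩) (by decide +kernel)),
    (posBox_of_check (c := ⟨594, ⟨0, 13, 16, 8⟩⟩) (by decide +kernel))⟩

def fitH_G_c1 : Fits boxH (0) 1 (exG (zEnd groupH.zl groupH.zh false Ex.x₃) Ex.x₁ Ex.x₂ Ex.x₃).c1 (groupH_G.c1) :=
  ⟨(posBox_of_check (c := ⟨558, ⟨0, 13, 14, 7⟩⟩) (by decide +kernel)),
    (posBox_of_check (c := ⟨558, ⟨0, 13, 14, 7⟩⟩) (by decide +kernel))⟩

def fitH_G_c1_top : Fits boxH (0) 1 (exG (zEnd groupH.zl groupH.zh true Ex.x₃) Ex.x₁ Ex.x₂ Ex.x₃).c1 (groupH.G₁') :=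
  ⟨(posBox_of_check (c := ⟨546, ⟨0, 13, 14, 6⟩⟩) (by decide +kernel)),
    (posBox_of_check (c := ⟨546, ⟨0, 13, 14, 6⟩⟩) (by decide +kernel))⟩

def fitH_G_c2 : Fits boxH (0) 2 (exG (zEnd groupH.zl groupH.zh false Ex.x₃) Ex.x₁ Ex.x₂ Ex.x₃).c2 (groupH_G.c2) :=
  ⟨(posBox_of_check (c := ⟨501, ⟨0, 13, 12, 5⟩⟩) (by decide +kernel)),
    (posBox_of_check (c := ⟨501, ⟨0, 13, 12, 5⟩⟩) (by decide +kernel))⟩

def fitH_E_c00 : Fits boxH (0) 0 (exE (zEnd groupH.zl groupH.zh false Ex.x₃) Ex.x₁ Ex.x₂ Ex.x₃).c00 (groupH_E.c00) :=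
  ⟨(posBox_of_check (c := ⟨569, ⟨0, 13, 14, 8⟩⟩) (by decide +kernel)),
    (posBox_of_check (c := ⟨569, ⟨0, 13, 14, 8⟩⟩) (by decide +kernel))⟩

def fitH_E_c00_top : Fits boxH (0) 0 (exE (zEnd groupH.zl groupH.zh true Ex.x₃) Ex.x₁ Ex.x₂ Ex.x₃).c00 (groupH.E₀') :=
  ⟨(posBox_of_check (c := ⟨555, ⟨0, 13, 14, 7⟩⟩) (by decide +kernel)),
    (posBox_of_check (c := ⟨555, ⟨0, 13, 14, 7⟩⟩) (by decide +kernel))⟩

def fitH_E_c01 : Fits boxH (0) 0 (exE (zEnd groupH.zl groupH.zh false Ex.x₃) Ex.x₁ Ex.x₂ Ex.x₃).c01 (groupH_E.c01) :=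
  ⟨(posBox_of_check (c := ⟨485, ⟨0, 11, 11, 7⟩⟩) (by decide +kernel)),
    (posBox_of_check (c := ⟨485, ⟨0, 11, 11, 7⟩⟩) (by decide +kernel))⟩

def fitH_E_c10 : Fits boxH (0) 1 (exE (zEnd groupH.zl groupH.zh false Ex.x₃) Ex.x₁ Ex.x₂ Ex.x₃).c10 (groupH_E.c10) :=
  ⟨(posBox_of_check (c := ⟨541, ⟨0, 13, 13, 7⟩⟩) (by decide +kernel)),
    (posBox_of_check (c := ⟨541, ⟨0, 13, 13, 7⟩⟩) (by decide +kernel))⟩

def fitH_E_c10_top : Fits boxH (0) 1 (exE (zEnd groupH.zl groupH.zh true Ex.x₃) Ex.x₁ Ex.x₂ Ex.x₃).c10 (groupH.E₁') :=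
  ⟨(posBox_of_check (c := ⟨529, ⟨0, 13, 13, 6⟩⟩) (by decide +kernel)),
    (posBox_of_check (c := ⟨529, ⟨0, 13, 13, 6⟩⟩) (by decide +kernel))⟩

def fitH_E_c11 : Fits boxH (0) 1 (exE (zEnd groupH.zl groupH.zh false Ex.x₃) Ex.x₁ Ex.x₂ Ex.x₃).c11 (groupH_E.c11) :=
  ⟨(posBox_of_check (c := ⟨511, ⟨0, 13, 12, 6⟩⟩) (by decide +kernel)),
    (posBox_of_check (c := ⟨511, ⟨0, 13, 12, 6⟩⟩) (by decide +kernel))⟩

def fitH_E_c20 : Fits boxH (0) 2 (exE (zEnd groupH.zl groupH.zh false Ex.x₃) Ex.x₁ Ex.x₂ Ex.x₃).c20 (groupH_E.c20) :=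
  ⟨(posBox_of_check (c := ⟨482, ⟨0, 13, 11, 5⟩⟩) (by decide +kernel)),
    (posBox_of_check (c := ⟨482, ⟨0, 13, 11, 5⟩⟩) (by decide +kernel))⟩

def fitH_E_c21 : Fits boxH (0) 2 (exE (zEnd groupH.zl groupH.zh false Ex.x₃) Ex.x₁ Ex.x₂ Ex.x₃).c21 (groupH_E.c21) :=
  ⟨(posBox_of_check (c := ⟨441, ⟨0, 12, 10, 5⟩⟩) (by decide +kernel)),
    (posBox_of_check (c := ⟨441, ⟨0, 12, 10, 5⟩⟩) (by decide +kernel))⟩

def fitH_P_c10 : Fits boxH (0) 1 (exP Ex.x₁ Ex.x₂ Ex.x₃).c10 (groupH_P.c10) :=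
  ⟨(posBox_of_check (c := ⟨367, ⟨0, 7, 7, 5⟩⟩) (by decide +kernel)),
    (posBox_of_check (c := ⟨367, ⟨0, 7, 7, 5⟩⟩) (by decide +kernel))⟩

def fitH_P_c11 : Fits boxH (0) 1 (exP Ex.x₁ Ex.x₂ Ex.x₃).c11 (groupH_P.c11) :=
  ⟨(posBox_of_check (c := ⟨367, ⟨0, 7, 7, 5⟩⟩) (by decide +kernel)),
    (posBox_of_check (c := ⟨367, ⟨0, 7, 7, 5⟩⟩) (by decide +kernel))⟩

def fitH_P_c21 : Fits boxH (0) 2 (exP Ex.x₁ Ex.x₂ Ex.x₃).c21 (groupH_P.c21) :=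
  ⟨(posBox_of_check (c := ⟨366, ⟨0, 9, 7, 5⟩⟩) (by decide +kernel)),
    (posBox_of_check (c := ⟨366, ⟨0, 9, 7, 5⟩⟩) (by decide +kernel))⟩

def fitH_N_c00 : Fits boxH (0) 0 (exN (zEnd groupH.zl groupH.zh false Ex.x₃) Ex.x₁ Ex.x₂ Ex.x₃).c00 (groupH_N.c00) :=
  ⟨(posBox_of_check (c := ⟨441, ⟨0, 10, 11, 6⟩⟩) (by decide +kernel)),
    (posBox_of_check (c := ⟨441, ⟨0, 10, 11, 6⟩⟩) (by decide +kernel))⟩

def fitH_N_c10 : Fits boxH (0) 1 (exN (zEnd groupH.zl groupH.zh false Ex.x₃) Ex.x₁ Ex.x₂ Ex.x₃).c10 (groupH_N.c10) :=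
  ⟨(posBox_of_check (c := ⟨464, ⟨0, 12, 11, 5⟩⟩) (by decide +kernel)),
    (posBox_of_check (c := ⟨464, ⟨0, 12, 11, 5⟩⟩) (by decide +kernel))⟩

def fitH_N_c01 : Fits boxH (0) 0 (exN (zEnd groupH.zl groupH.zh false Ex.x₃) Ex.x₁ Ex.x₂ Ex.x₃).c01 (groupH_N.c01) :=
  ⟨(posBox_of_check (c := ⟨612, ⟨0, 12, 17, 8⟩⟩) (by decide +kernel)),
    (posBox_of_check (c := ⟨612, ⟨0, 12, 17, 8⟩⟩) (by decide +kernel))⟩

def fitH_N_c11 : Fits boxH (0) 1 (exN (zEnd groupH.zl groupH.zh false Ex.x₃) Ex.x₁ Ex.x₂ Ex.x₃).c11 (groupH_N.c11) :=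
  ⟨(posBox_of_check (c := ⟨562, ⟨0, 13, 14, 7⟩⟩) (by decide +kernel)),
    (posBox_of_check (c := ⟨562, ⟨0, 13, 14, 7⟩⟩) (by decide +kernel))⟩

def fitH_N_c11_top : Fits boxH (0) 1 (exN (zEnd groupH.zl groupH.zh true Ex.x₃) Ex.x₁ Ex.x₂ Ex.x₃).c11 (groupH.N') :=
  ⟨(posBox_of_check (c := ⟨550, ⟨0, 13, 14, 7⟩⟩) (by decide +kernel)),
    (posBox_of_check (c := ⟨550, ⟨0, 13, 14, 7⟩⟩) (by decide +kernel))⟩

def fitH_N_c21 : Fits boxH (0) 2 (exN (zEnd groupH.zl groupH.zh false Ex.x₃) Ex.x₁ Ex.x₂ Ex.x₃).c21 (groupH_N.c21) :=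
  ⟨(posBox_of_check (c := ⟨517, ⟨0, 12, 12, 6⟩⟩) (by decide +kernel)),
    (posBox_of_check (c := ⟨517, ⟨0, 12, 12, 6⟩⟩) (by decide +kernel))⟩

def fitH_N_c02 : Fits boxH (0) 0 (exN (zEnd groupH.zl groupH.zh false Ex.x₃) Ex.x₁ Ex.x₂ Ex.x₃).c02 (groupH_N.c02) :=
  ⟨(posBox_of_check (c := ⟨542, ⟨0, 10, 14, 7⟩⟩) (by decide +kernel)),
    (posBox_of_check (c := ⟨542, ⟨0, 10, 14, 7⟩⟩) (by decide +kernel))⟩

def fitH_N_c12 : Fits boxH (0) 1 (exN (zEnd groupH.zl groupH.zh false Ex.x₃) Ex.x₁ Ex.x₂ Ex.x₃).c12 (groupH_N.c12) :=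
  ⟨(posBox_of_check (c := ⟨567, ⟨0, 12, 15, 6⟩⟩) (by decide +kernel)),
    (posBox_of_check (c := ⟨567, ⟨0, 12, 15, 6⟩⟩) (by decide +kernel))⟩

def fitH_N_c22 : Fits boxH (0) 2 (exN (zEnd groupH.zl groupH.zh false Ex.x₃) Ex.x₁ Ex.x₂ Ex.x₃).c22 (groupH_N.c22) :=
  ⟨(posBox_of_check (c := ⟨497, ⟨0, 12, 12, 5⟩⟩) (by decide +kernel)),
    (posBox_of_check (c := ⟨497, ⟨0, 12, 12, 5⟩⟩) (by decide +kernel))⟩

def fitH_N_c03 : Fits boxH (0) 0 (exN (zEnd groupH.zl groupH.zh false Ex.x₃) Ex.x₁ Ex.x₂ Ex.x₃).c03 (groupH_N.c03) :=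
  ⟨(posBox_of_check (c := ⟨469, ⟨0, 8, 11, 7⟩⟩) (by decide +kernel)),
    (posBox_of_check (c := ⟨469, ⟨0, 8, 11, 7⟩⟩) (by decide +kernel))⟩

def fitH_N_c13 : Fits boxH (0) 1 (exN (zEnd groupH.zl groupH.zh false Ex.x₃) Ex.x₁ Ex.x₂ Ex.x₃).c13 (groupH_N.c13) :=
  ⟨(posBox_of_check (c := ⟨495, ⟨0, 10, 12, 6⟩⟩) (by decide +kernel)),
    (posBox_of_check (c := ⟨495, ⟨0, 10, 12, 6⟩⟩) (by decide +kernel))⟩

def fitH_N_c23 : Fits boxH (0) 2 (exN (zEnd groupH.zl groupH.zh false Ex.x₃) Ex.x₁ Ex.x₂ Ex.x₃).c23 (groupH_N.c23) :=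
  ⟨(posBox_of_check (c := ⟨519, ⟨0, 12, 13, 5⟩⟩) (by decide +kernel)),
    (posBox_of_check (c := ⟨519, ⟨0, 12, 13, 5⟩⟩) (by decide +kernel))⟩

/-- The surrogates are within their errors. -/
theorem fitH : groupH.Fit boxH where
  A := fun z => match z with
    | false =>
      ⟨fitH_A_c00,
        fitH_A_c10,
        fitH_A_c01,
        fitH_A_c11,
        fitH_A_c21,
        fitH_A_c02,
        fitH_A_c12,
        fitH_A_c22,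
        fitH_A_c03,
        fitH_A_c13,
        fitH_A_c23⟩
    | true =>
      ⟨fitH_A_c00,
        fitH_A_c10,
        fitH_A_c01,
        fitH_A_c11_top,
        fitH_A_c21,
        fitH_A_c02,
        fitH_A_c12,
        fitH_A_c22,
        fitH_A_c03,
        fitH_A_c13,
        fitH_A_c23⟩
  M := ⟨fitH_M_c00, fitH_M_c10, fitH_M_c01, fitH_M_c11, fitH_M_c02, fitH_M_c12, fitH_M_c22⟩
  G := fun z => match z with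
    | false =>
      ⟨fitH_G_c0,
        fitH_G_c1,
        fitH_G_c2⟩
    | true =>
      ⟨fitH_G_c0_top,
        fitH_G_c1_top,
        fitH_G_c2⟩
  E := fun z => match z with
    | false =>
      ⟨fitH_E_c00,
        fitH_E_c01,
        fitH_E_c10,
        fitH_E_c11,
        fitH_E_c20,
        fitH_E_c21⟩
    | true =>
      ⟨fitH_E_c00_top,
        fitH_E_c01,
        fitH_E_c10_top,
        fitH_E_c11,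
        fitH_E_c20,
        fitH_E_c21⟩
  P := ⟨fitH_P_c10, fitH_P_c11, fitH_P_c21⟩
  N := fun z => match z with
    | false =>
      ⟨fitH_N_c00,
        fitH_N_c10,
        fitH_N_c01,
        fitH_N_c11,
        fitH_N_c21,
        fitH_N_c02,
        fitH_N_c12,
        fitH_N_c22,
        fitH_N_c03,
        fitH_N_c13,
        fitH_N_c23⟩
    | true =>
      ⟨fitH_N_c00,
        fitH_N_c10,
        fitH_N_c01,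
        fitH_N_c11_top,
        fitH_N_c21,
        fitH_N_c02,
        fitH_N_c12,
        fitH_N_c22,
        fitH_N_c03,
        fitH_N_c13,
        fitH_N_c23⟩

end Vale.Agent.P100.Calib.Closed.Six.End
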