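import Vale.Agent.P100.Calib.SlabSixEndFit
import Vale.Agent.P100.Calib.SlabSixEndGroupsB

/-!
# The surrogates for `0.78 ≤ v ≤ 1.8`, `0.28 ≤ d ≤ 0.313` are within their errors
-/

-- The checks are definitions, so that they run one after another with little memory.
set_option linter.defProp false

namespace Vale.Agent.P100.Calib.Closed.Six.End

open BoxPos
open Bot (Sur)

open Large (PosBox posBox_of_check)

local instance endFitIAdd : Add Ex := ⟨Ex.add⟩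
local instance endFitISub : Sub Ex := ⟨Ex.sub⟩
local instance endFitIMul : Mul Ex := ⟨Ex.mul⟩

/-- The box of the surrogates. -/
def boxI : Box := ⟨⟨0, 1, 1⟩, ⟨0, 20411, 1000000⟩, ⟨280000, 313001, 1000000⟩, ⟨78000, 180001, 100000⟩⟩

def fitI_A_c00 : Fits boxI (0) 0 (exA (zEnd groupI.zl groupI.zh false Ex.x₃) Ex.x₁ Ex.x₂ Ex.x₃).c00 (groupI_A.c00) :=
  ⟨(posBox_of_check (c := ⟨441, ⟨0, 10, 11, 6⟩⟩) (by decide +kernel)),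
    (posBox_of_check (c := ⟨441, ⟨0, 10, 11, 6⟩⟩) (by decide +kernel))⟩

def fitI_A_c10 : Fits boxI (0) 1 (exA (zEnd groupI.zl groupI.zh false Ex.x₃) Ex.x₁ Ex.x₂ Ex.x₃).c10 (groupI_A.c10) :=
  ⟨(posBox_of_check (c := ⟨464, ⟨0, 12, 11, 5⟩⟩) (by decide +kernel)),
    (posBox_of_check (c := ⟨464, ⟨0, 12, 11, 5⟩⟩) (by decide +kernel))⟩

def fitI_A_c01 : Fits boxI (0) 0 (exA (zEnd groupI.zl groupI.zh false Ex.x₃) Ex.x₁ Ex.x₂ Ex.x₃).c01 (groupI_A.c01) :=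
  ⟨(posBox_of_check (c := ⟨636, ⟨0, 13, 18, 8⟩⟩) (by decide +kernel)),
    (posBox_of_check (c := ⟨636, ⟨0, 13, 18, 8⟩⟩) (by decide +kernel))⟩

def fitI_A_c11 : Fits boxI (0) 1 (exA (zEnd groupI.zl groupI.zh false Ex.x₃) Ex.x₁ Ex.x₂ Ex.x₃).c11 (groupI_A.c11) :=
  ⟨(posBox_of_check (c := ⟨572, ⟨0, 13, 15, 7⟩⟩) (by decide +kernel)),
    (posBox_of_check (c := ⟨572, ⟨0, 13, 15, 7⟩⟩) (by decide +kernel))⟩

def fitI_A_c11_top : Fits boxI (0) 1 (exA (zEnd groupI.zl groupI.zh true Ex.x₃) Ex.x₁ Ex.x₂ Ex.x₃).c11 (groupI.A') :=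
  ⟨(posBox_of_check (c := ⟨572, ⟨0, 13, 15, 7⟩⟩) (by decide +kernel)),
    (posBox_of_check (c := ⟨572, ⟨0, 13, 15, 7⟩⟩) (by decide +kernel))⟩

def fitI_A_c21 : Fits boxI (0) 2 (exA (zEnd groupI.zl groupI.zh false Ex.x₃) Ex.x₁ Ex.x₂ Ex.x₃).c21 (groupI_A.c21) :=
  ⟨(posBox_of_check (c := ⟨542, ⟨0, 13, 13, 6⟩⟩) (by decide +kernel)),
    (posBox_of_check (c := ⟨542, ⟨0, 13, 13, 6⟩⟩) (by decide +kernel))⟩

def fitI_A_c02 : Fits boxI (0) 0 (exA (zEnd groupI.zl groupI.zh false Ex.x₃) Ex.x₁ Ex.x₂ Ex.x₃).c02 (groupI_A.c02) :=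
  ⟨(posBox_of_check (c := ⟨567, ⟨0, 11, 15, 7⟩⟩) (by decide +kernel)),
    (posBox_of_check (c := ⟨567, ⟨0, 11, 15, 7⟩⟩) (by decide +kernel))⟩

def fitI_A_c12 : Fits boxI (0) 1 (exA (zEnd groupI.zl groupI.zh false Ex.x₃) Ex.x₁ Ex.x₂ Ex.x₃).c12 (groupI_A.c12) :=
  ⟨(posBox_of_check (c := ⟨592, ⟨0, 13, 16, 6⟩⟩) (by decide +kernel)),
    (posBox_of_check (c := ⟨592, ⟨0, 13, 16, 6⟩⟩) (by decide +kernel))⟩

def fitI_A_c22 : Fits boxI (0) 2 (exA (zEnd groupI.zl groupI.zh false Ex.x₃) Ex.x₁ Ex.x₂ Ex.x₃).c22 (groupI_A.c22) :=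
  ⟨(posBox_of_check (c := ⟨522, ⟨0, 13, 13, 5⟩⟩) (by decide +kernel)),
    (posBox_of_check (c := ⟨522, ⟨0, 13, 13, 5⟩⟩) (by decide +kernel))⟩

def fitI_A_c03 : Fits boxI (0) 0 (exA (zEnd groupI.zl groupI.zh false Ex.x₃) Ex.x₁ Ex.x₂ Ex.x₃).c03 (groupI_A.c03) :=
  ⟨(posBox_of_check (c := ⟨494, ⟨0, 9, 12, 7⟩⟩) (by decide +kernel)),
    (posBox_of_check (c := ⟨494, ⟨0, 9, 12, 7⟩⟩) (by decide +kernel))⟩

def fitI_A_c13 : Fits boxI (0) 1 (exA (zEnd groupI.zl groupI.zh false Ex.x₃) Ex.x₁ Ex.x₂ Ex.x₃).c13 (groupI_A.c13) :=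
  ⟨(posBox_of_check (c := ⟨520, ⟨0, 11, 13, 6⟩⟩) (by decide +kernel)),
    (posBox_of_check (c := ⟨520, ⟨0, 11, 13, 6⟩⟩) (by decide +kernel))⟩

def fitI_A_c23 : Fits boxI (0) 2 (exA (zEnd groupI.zl groupI.zh false Ex.x₃) Ex.x₁ Ex.x₂ Ex.x₃).c23 (groupI_A.c23) :=
  ⟨(posBox_of_check (c := ⟨544, ⟨0, 13, 14, 5⟩⟩) (by decide +kernel)),
    (posBox_of_check (c := ⟨544, ⟨0, 13, 14, 5⟩⟩) (by decide +kernel))⟩

def fitI_M_c00 : Fits boxI (0) 0 (exM Ex.x₁ Ex.x₂ Ex.x₃).c00 (groupI_M.c00) :=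
  ⟨(posBox_of_check (c := ⟨373, ⟨0, 8, 8, 5⟩⟩) (by decide +kernel)),
    (posBox_of_check (c := ⟨373, ⟨0, 8, 8, 5⟩⟩) (by decide +kernel))⟩

def fitI_M_c10 : Fits boxI (0) 1 (exM Ex.x₁ Ex.x₂ Ex.x₃).c10 (groupI_M.c10) :=
  ⟨(posBox_of_check (c := ⟨376, ⟨0, 10, 8, 5⟩⟩) (by decide +kernel)),
    (posBox_of_check (c := ⟨376, ⟨0, 10, 8, 5⟩⟩) (by decide +kernel))⟩

def fitI_M_c01 : Fits boxI (0) 0 (exM Ex.x₁ Ex.x₂ Ex.x₃).c01 (groupI_M.c01) :=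
  ⟨(posBox_of_check (c := ⟨376, ⟨0, 8, 9, 5⟩⟩) (by decide +kernel)),
    (posBox_of_check (c := ⟨376, ⟨0, 8, 9, 5⟩⟩) (by decide +kernel))⟩

def fitI_M_c11 : Fits boxI (0) 1 (exM Ex.x₁ Ex.x₂ Ex.x₃).c11 (groupI_M.c11) :=
  ⟨(posBox_of_check (c := ⟨443, ⟨0, 11, 10, 5⟩⟩) (by decide +kernel)),
    (posBox_of_check (c := ⟨443, ⟨0, 11, 10, 5⟩⟩) (by decide +kernel))⟩

def fitI_M_c02 : Fits boxI (0) 0 (exM Ex.x₁ Ex.x₂ Ex.x₃).c02 (groupI_M.c02) :=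
  ⟨(posBox_of_check (c := ⟨372, ⟨0, 7, 8, 5⟩⟩) (by decide +kernel)),
    (posBox_of_check (c := ⟨372, ⟨0, 7, 8, 5⟩⟩) (by decide +kernel))⟩

def fitI_M_c12 : Fits boxI (0) 1 (exM Ex.x₁ Ex.x₂ Ex.x₃).c12 (groupI_M.c12) :=
  ⟨(posBox_of_check (c := ⟨412, ⟨0, 9, 9, 5⟩⟩) (by decide +kernel)),
    (posBox_of_check (c := ⟨412, ⟨0, 9, 9, 5⟩⟩) (by decide +kernel))⟩

def fitI_M_c22 : Fits boxI (0) 2 (exM Ex.x₁ Ex.x₂ Ex.x₃).c22 (groupI_M.c22) :=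
  ⟨(posBox_of_check (c := ⟨399, ⟨0, 11, 9, 5⟩⟩) (by decide +kernel)),
    (posBox_of_check (c := ⟨399, ⟨0, 11, 9, 5⟩⟩) (by decide +kernel))⟩

def fitI_G_c0 : Fits boxI (0) 0 (exG (zEnd groupI.zl groupI.zh false Ex.x₃) Ex.x₁ Ex.x₂ Ex.x₃).c0 (groupI_G.c0) :=
  ⟨(posBox_of_check (c := ⟨620, ⟨0, 13, 16, 9⟩⟩) (by decide +kernel)),
    (posBox_of_check (c := ⟨620, ⟨0, 13, 16, 9⟩⟩) (by decide +kernel))⟩

def fitI_G_c0_top : Fits boxI (0) 0 (exG (zEnd groupI.zl groupI.zh true Ex.x₃) Ex.x₁ Ex.x₂ Ex.x₃).c0 (groupI.G₀') :=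
  ⟨(posBox_of_check (c := ⟨594, ⟨0, 13, 16, 8⟩⟩) (by decide +kernel)),
    (posBox_of_check (c := ⟨594, ⟨0, 13, 16, 8⟩⟩) (by decide +kernel))⟩

def fitI_G_c1 : Fits boxI (0) 1 (exG (zEnd groupI.zl groupI.zh false Ex.x₃) Ex.x₁ Ex.x₂ Ex.x₃).c1 (groupI_G.c1) :=
  ⟨(posBox_of_check (c := ⟨559, ⟨0, 13, 14, 7⟩⟩) (by decide +kernel)),
    (posBox_of_check (c := ⟨559, ⟨0, 13, 14, 7⟩⟩) (by decide +kernel))⟩

def fitI_G_c1_top : Fits boxI (0) 1 (exG (zEnd groupI.zl groupI.zh true Ex.x₃) Ex.x₁ Ex.x₂ Ex.x₃).c1 (groupI.G₁') :=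
  ⟨(posBox_of_check (c := ⟨546, ⟨0, 13, 14, 6⟩⟩) (by decide +kernel)),
    (posBox_of_check (c := ⟨546, ⟨0, 13, 14, 6⟩⟩) (by decide +kernel))⟩

def fitI_G_c2 : Fits boxI (0) 2 (exG (zEnd groupI.zl groupI.zh false Ex.x₃) Ex.x₁ Ex.x₂ Ex.x₃).c2 (groupI_G.c2) :=
  ⟨(posBox_of_check (c := ⟨501, ⟨0, 13, 12, 5⟩⟩) (by decide +kernel)),
    (posBox_of_check (c := ⟨501, ⟨0, 13, 12, 5⟩⟩) (by decide +kernel))⟩

def fitI_E_c00 : Fits boxI (0) 0 (exE (zEnd groupI.zl groupI.zh false Ex.x₃) Ex.x₁ Ex.x₂ Ex.x₃).c00 (groupI_E.c00) :=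
  ⟨(posBox_of_check (c := ⟨570, ⟨0, 13, 14, 8⟩⟩) (by decide +kernel)),
    (posBox_of_check (c := ⟨570, ⟨0, 13, 14, 8⟩⟩) (by decide +kernel))⟩

def fitI_E_c00_top : Fits boxI (0) 0 (exE (zEnd groupI.zl groupI.zh true Ex.x₃) Ex.x₁ Ex.x₂ Ex.x₃).c00 (groupI.E₀') :=
  ⟨(posBox_of_check (c := ⟨555, ⟨0, 13, 14, 7⟩⟩) (by decide +kernel)),
    (posBox_of_check (c := ⟨555, ⟨0, 13, 14, 7⟩⟩) (by decide +kernel))⟩

def fitI_E_c01 : Fits boxI (0) 0 (exE (zEnd groupI.zl groupI.zh false Ex.x₃) Ex.x₁ Ex.x₂ Ex.x₃).c01 (groupI_E.c01) :=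
  ⟨(posBox_of_check (c := ⟨485, ⟨0, 11, 11, 7⟩⟩) (by decide +kernel)),
    (posBox_of_check (c := ⟨485, ⟨0, 11, 11, 7⟩⟩) (by decide +kernel))⟩

def fitI_E_c10 : Fits boxI (0) 1 (exE (zEnd groupI.zl groupI.zh false Ex.x₃) Ex.x₁ Ex.x₂ Ex.x₃).c10 (groupI_E.c10) :=
  ⟨(posBox_of_check (c := ⟨542, ⟨0, 13, 13, 7⟩⟩) (by decide +kernel)),
    (posBox_of_check (c := ⟨542, ⟨0, 13, 13, 7⟩⟩) (by decide +kernel))⟩

def fitI_E_c10_top : Fits boxI (0) 1 (exE (zEnd groupI.zl groupI.zh true Ex.x₃) Ex.x₁ Ex.x₂ Ex.x₃).c10 (groupI.E₁') :=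
  ⟨(posBox_of_check (c := ⟨529, ⟨0, 13, 13, 6⟩⟩) (by decide +kernel)),
    (posBox_of_check (c := ⟨529, ⟨0, 13, 13, 6⟩⟩) (by decide +kernel))⟩

def fitI_E_c11 : Fits boxI (0) 1 (exE (zEnd groupI.zl groupI.zh false Ex.x₃) Ex.x₁ Ex.x₂ Ex.x₃).c11 (groupI_E.c11) :=
  ⟨(posBox_of_check (c := ⟨511, ⟨0, 13, 12, 6⟩⟩) (by decide +kernel)),
    (posBox_of_check (c := ⟨511, ⟨0, 13, 12, 6⟩⟩) (by decide +kernel))⟩

def fitI_E_c20 : Fits boxI (0) 2 (exE (zEnd groupI.zl groupI.zh false Ex.x₃) Ex.x₁ Ex.x₂ Ex.x₃).c20 (groupI_E.c20) :=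
  ⟨(posBox_of_check (c := ⟨482, ⟨0, 13, 11, 5⟩⟩) (by decide +kernel)),
    (posBox_of_check (c := ⟨482, ⟨0, 13, 11, 5⟩⟩) (by decide +kernel))⟩

def fitI_E_c21 : Fits boxI (0) 2 (exE (zEnd groupI.zl groupI.zh false Ex.x₃) Ex.x₁ Ex.x₂ Ex.x₃).c21 (groupI_E.c21) :=
  ⟨(posBox_of_check (c := ⟨442, ⟨0, 12, 10, 5⟩⟩) (by decide +kernel)),
    (posBox_of_check (c := ⟨442, ⟨0, 12, 10, 5⟩⟩) (by decide +kernel))⟩

def fitI_P_c10 : Fits boxI (0) 1 (exP Ex.x₁ Ex.x₂ Ex.x₃).c10 (groupI_P.c10) :=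
  ⟨(posBox_of_check (c := ⟨367, ⟨0, 7, 7, 5⟩⟩) (by decide +kernel)),
    (posBox_of_check (c := ⟨367, ⟨0, 7, 7, 5⟩⟩) (by decide +kernel))⟩

def fitI_P_c11 : Fits boxI (0) 1 (exP Ex.x₁ Ex.x₂ Ex.x₃).c11 (groupI_P.c11) :=
  ⟨(posBox_of_check (c := ⟨367, ⟨0, 7, 7, 5⟩⟩) (by decide +kernel)),
    (posBox_of_check (c := ⟨367, ⟨0, 7, 7, 5⟩⟩) (by decide +kernel))⟩

def fitI_P_c21 : Fits boxI (0) 2 (exP Ex.x₁ Ex.x₂ Ex.x₃).c21 (groupI_P.c21) :=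
  ⟨(posBox_of_check (c := ⟨366, ⟨0, 9, 7, 5⟩⟩) (by decide +kernel)),
    (posBox_of_check (c := ⟨366, ⟨0, 9, 7, 5⟩⟩) (by decide +kernel))⟩

def fitI_N_c00 : Fits boxI (0) 0 (exN (zEnd groupI.zl groupI.zh false Ex.x₃) Ex.x₁ Ex.x₂ Ex.x₃).c00 (groupI_N.c00) :=
  ⟨(posBox_of_check (c := ⟨441, ⟨0, 10, 11, 6⟩⟩) (by decide +kernel)),
    (posBox_of_check (c := ⟨441, ⟨0, 10, 11, 6⟩⟩) (by decide +kernel))⟩

def fitI_N_c10 : Fits boxI (0) 1 (exN (zEnd groupI.zl groupI.zh false Ex.x₃) Ex.x₁ Ex.x₂ Ex.x₃).c10 (groupI_N.c10) :=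
  ⟨(posBox_of_check (c := ⟨464, ⟨0, 12, 11, 5⟩⟩) (by decide +kernel)),
    (posBox_of_check (c := ⟨464, ⟨0, 12, 11, 5⟩⟩) (by decide +kernel))⟩

def fitI_N_c01 : Fits boxI (0) 0 (exN (zEnd groupI.zl groupI.zh false Ex.x₃) Ex.x₁ Ex.x₂ Ex.x₃).c01 (groupI_N.c01) :=
  ⟨(posBox_of_check (c := ⟨613, ⟨0, 12, 17, 8⟩⟩) (by decide +kernel)),
    (posBox_of_check (c := ⟨613, ⟨0, 12, 17, 8⟩⟩) (by decide +kernel))⟩

def fitI_N_c11 : Fits boxI (0) 1 (exN (zEnd groupI.zl groupI.zh false Ex.x₃) Ex.x₁ Ex.x₂ Ex.x₃).c11 (groupI_N.c11) :=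
  ⟨(posBox_of_check (c := ⟨563, ⟨0, 13, 14, 7⟩⟩) (by decide +kernel)),
    (posBox_of_check (c := ⟨563, ⟨0, 13, 14, 7⟩⟩) (by decide +kernel))⟩

def fitI_N_c11_top : Fits boxI (0) 1 (exN (zEnd groupI.zl groupI.zh true Ex.x₃) Ex.x₁ Ex.x₂ Ex.x₃).c11 (groupI.N') :=
  ⟨(posBox_of_check (c := ⟨550, ⟨0, 13, 14, 7⟩⟩) (by decide +kernel)),
    (posBox_of_check (c := ⟨550, ⟨0, 13, 14, 7⟩⟩) (by decide +kernel))⟩

def fitI_N_c21 : Fits boxI (0) 2 (exN (zEnd groupI.zl groupI.zh false Ex.x₃) Ex.x₁ Ex.x₂ Ex.x₃).c21 (groupI_N.c21) :=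
  ⟨(posBox_of_check (c := ⟨518, ⟨0, 12, 12, 6⟩⟩) (by decide +kernel)),
    (posBox_of_check (c := ⟨518, ⟨0, 12, 12, 6⟩⟩) (by decide +kernel))⟩

def fitI_N_c02 : Fits boxI (0) 0 (exN (zEnd groupI.zl groupI.zh false Ex.x₃) Ex.x₁ Ex.x₂ Ex.x₃).c02 (groupI_N.c02) :=
  ⟨(posBox_of_check (c := ⟨542, ⟨0, 10, 14, 7⟩⟩) (by decide +kernel)),
    (posBox_of_check (c := ⟨542, ⟨0, 10, 14, 7⟩⟩) (by decide +kernel))⟩

def fitI_N_c12 : Fits boxI (0) 1 (exN (zEnd groupI.zl groupI.zh false Ex.x₃) Ex.x₁ Ex.x₂ Ex.x₃).c12 (groupI_N.c12) :=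
  ⟨(posBox_of_check (c := ⟨567, ⟨0, 12, 15, 6⟩⟩) (by decide +kernel)),
    (posBox_of_check (c := ⟨567, ⟨0, 12, 15, 6⟩⟩) (by decide +kernel))⟩

def fitI_N_c22 : Fits boxI (0) 2 (exN (zEnd groupI.zl groupI.zh false Ex.x₃) Ex.x₁ Ex.x₂ Ex.x₃).c22 (groupI_N.c22) :=
  ⟨(posBox_of_check (c := ⟨498, ⟨0, 12, 12, 5⟩⟩) (by decide +kernel)),
    (posBox_of_check (c := ⟨498, ⟨0, 12, 12, 5⟩⟩) (by decide +kernel))⟩

def fitI_N_c03 : Fits boxI (0) 0 (exN (zEnd groupI.zl groupI.zh false Ex.x₃) Ex.x₁ Ex.x₂ Ex.x₃).c03 (groupI_N.c03) :=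
  ⟨(posBox_of_check (c := ⟨469, ⟨0, 8, 11, 7⟩⟩) (by decide +kernel)),
    (posBox_of_check (c := ⟨469, ⟨0, 8, 11, 7⟩⟩) (by decide +kernel))⟩

def fitI_N_c13 : Fits boxI (0) 1 (exN (zEnd groupI.zl groupI.zh false Ex.x₃) Ex.x₁ Ex.x₂ Ex.x₃).c13 (groupI_N.c13) :=
  ⟨(posBox_of_check (c := ⟨495, ⟨0, 10, 12, 6⟩⟩) (by decide +kernel)),
    (posBox_of_check (c := ⟨495, ⟨0, 10, 12, 6⟩⟩) (by decide +kernel))⟩

def fitI_N_c23 : Fits boxI (0) 2 (exN (zEnd groupI.zl groupI.zh false Ex.x₃) Ex.x₁ Ex.x₂ Ex.x₃).c23 (groupI_N.c23) :=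
  ⟨(posBox_of_check (c := ⟨520, ⟨0, 12, 13, 5⟩⟩) (by decide +kernel)),
    (posBox_of_check (c := ⟨520, ⟨0, 12, 13, 5⟩⟩) (by decide +kernel))⟩

/-- The surrogates are within their errors. -/
theorem fitI : groupI.Fit boxI where
  A := fun z => match z with
    | false =>
      ⟨fitI_A_c00,
        fitI_A_c10,
        fitI_A_c01,
        fitI_A_c11,
        fitI_A_c21,
        fitI_A_c02,
        fitI_A_c12,
        fitI_A_c22,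
        fitI_A_c03,
        fitI_A_c13,
        fitI_A_c23⟩
    | true =>
      ⟨fitI_A_c00,
        fitI_A_c10,
        fitI_A_c01,
        fitI_A_c11_top,
        fitI_A_c21,
        fitI_A_c02,
        fitI_A_c12,
        fitI_A_c22,
        fitI_A_c03,
        fitI_A_c13,
        fitI_A_c23⟩
  M := ⟨fitI_M_c00, fitI_M_c10, fitI_M_c01, fitI_M_c11, fitI_M_c02, fitI_M_c12, fitI_M_c22⟩
  G := fun z => match z with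
    | false =>
      ⟨fitI_G_c0,
        fitI_G_c1,
        fitI_G_c2⟩
    | true =>
      ⟨fitI_G_c0_top,
        fitI_G_c1_top,
        fitI_G_c2⟩
  E := fun z => match z with
    | false =>
      ⟨fitI_E_c00,
        fitI_E_c01,
        fitI_E_c10,
        fitI_E_c11,
        fitI_E_c20,
        fitI_E_c21⟩
    | true =>
      ⟨fitI_E_c00_top,
        fitI_E_c01,
        fitI_E_c10_top,
        fitI_E_c11,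
        fitI_E_c20,
        fitI_E_c21⟩
  P := ⟨fitI_P_c10, fitI_P_c11, fitI_P_c21⟩
  N := fun z => match z with
    | false =>
      ⟨fitI_N_c00,
        fitI_N_c10,
        fitI_N_c01,
        fitI_N_c11,
        fitI_N_c21,
        fitI_N_c02,
        fitI_N_c12,
        fitI_N_c22,
        fitI_N_c03,
        fitI_N_c13,
        fitI_N_c23⟩
    | true =>
      ⟨fitI_N_c00,
        fitI_N_c10,
        fitI_N_c01,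
        fitI_N_c11_top,
        fitI_N_c21,
        fitI_N_c02,
        fitI_N_c12,
        fitI_N_c22,
        fitI_N_c03,
        fitI_N_c13,
        fitI_N_c23⟩

end Vale.Agent.P100.Calib.Closed.Six.End
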