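import Vale.Agent.P100.Calib.SlabSixEndFitA1
import Vale.Agent.P100.Calib.SlabSixEndFitA2
import Vale.Agent.P100.Calib.SlabSixEndFitAD
import Vale.Agent.P100.Calib.SlabSixEndFitB1
import Vale.Agent.P100.Calib.SlabSixEndFitB2
import Vale.Agent.P100.Calib.SlabSixEndFitBD
import Vale.Agent.P100.Calib.SlabSixEndFitC1
import Vale.Agent.P100.Calib.SlabSixEndFitC2
import Vale.Agent.P100.Calib.SlabSixEndFitCD
import Vale.Agent.P100.Calib.SlabSixEndFitE1
import Vale.Agent.P100.Calib.SlabSixEndFitE2
import Vale.Agent.P100.Calib.SlabSixEndFitED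
import Vale.Agent.P100.Calib.SlabSixEndFitF1
import Vale.Agent.P100.Calib.SlabSixEndFitF2
import Vale.Agent.P100.Calib.SlabSixEndFitFD
import Vale.Agent.P100.Calib.SlabSixEndFitG
import Vale.Agent.P100.Calib.SlabSixEndFitH
import Vale.Agent.P100.Calib.SlabSixEndFitI
import Vale.Agent.P100.Calib.SlabSixEndFitJ
import Vale.Agent.P100.Calib.SlabSixEndFitHM
import Vale.Agent.P100.Calib.SlabSixEndFitIM
import Vale.Agent.P100.Calib.SlabSixEndFitJM
import Vale.Agent.P100.Calib.SlabSixEndFitJX
import Vale.Agent.P100.Calib.SlabSixEndFitJW
import Vale.Agent.P100.Calib.SlabSixEndFitIZ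
import Vale.Agent.P100.Calib.SlabSixEndFitJZ
import Vale.Agent.P100.Calib.SlabSixEndFitJY
import Vale.Agent.P100.Calib.SlabSixEndCheckA1
import Vale.Agent.P100.Calib.SlabSixEndCheckA2
import Vale.Agent.P100.Calib.SlabSixEndCheckAD1
import Vale.Agent.P100.Calib.SlabSixEndCheckAD2
import Vale.Agent.P100.Calib.SlabSixEndCheckB1
import Vale.Agent.P100.Calib.SlabSixEndCheckB2
import Vale.Agent.P100.Calib.SlabSixEndCheckBD1
import Vale.Agent.P100.Calib.SlabSixEndCheckBD2
import Vale.Agent.P100.Calib.SlabSixEndCheckC1
import Vale.Agent.P100.Calib.SlabSixEndCheckC2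
import Vale.Agent.P100.Calib.SlabSixEndCheckCD1
import Vale.Agent.P100.Calib.SlabSixEndCheckCD2
import Vale.Agent.P100.Calib.SlabSixEndCheckE1
import Vale.Agent.P100.Calib.SlabSixEndCheckE2
import Vale.Agent.P100.Calib.SlabSixEndCheckED1
import Vale.Agent.P100.Calib.SlabSixEndCheckED2
import Vale.Agent.P100.Calib.SlabSixEndCheckF1
import Vale.Agent.P100.Calib.SlabSixEndCheckF2
import Vale.Agent.P100.Calib.SlabSixEndCheckFD1
import Vale.Agent.P100.Calib.SlabSixEndCheckFD2
import Vale.Agent.P100.Calib.SlabSixEndCheckG
import Vale.Agent.P100.Calib.SlabSixEndCheckH1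
import Vale.Agent.P100.Calib.SlabSixEndCheckH5
import Vale.Agent.P100.Calib.SlabSixEndCheckH6
import Vale.Agent.P100.Calib.SlabSixEndCheckH7
import Vale.Agent.P100.Calib.SlabSixEndCheckH8
import Vale.Agent.P100.Calib.SlabSixEndCheckI1
import Vale.Agent.P100.Calib.SlabSixEndCheckI5
import Vale.Agent.P100.Calib.SlabSixEndCheckI6
import Vale.Agent.P100.Calib.SlabSixEndCheckI7
import Vale.Agent.P100.Calib.SlabSixEndCheckI8
import Vale.Agent.P100.Calib.SlabSixEndCheckI9
import Vale.Agent.P100.Calib.SlabSixEndCheckI10
import Vale.Agent.P100.Calib.SlabSixEndCheckJ5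
import Vale.Agent.P100.Calib.SlabSixEndCheckJ4
import Vale.Agent.P100.Calib.SlabSixEndCheckJ6
import Vale.Agent.P100.Calib.SlabSixEndCheckJ7
import Vale.Agent.P100.Calib.SlabSixEndCheckJ8
import Vale.Agent.P100.Calib.SlabSixEndCheckJ11
import Vale.Agent.P100.Calib.SlabSixEndCheckJ9
import Vale.Agent.P100.Calib.SlabSixEndCheckJ10
import Vale.Agent.P100.Calib.SlabSixEndCheckJ12
import Vale.Agent.P100.Calib.SlabSixEndCheckJ13

/-!
# The closed signs of dimension six from `uLast` on

The pieces split at `d = 3/100, 1/16, 1/10, 27/200, 17/100, 11/50, 1/4, 7/25, 59/200, 313/1000,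
323/1000`, by `v`, and near the top of `d` by the place of `X` or of `u`. For `d ≤ 17/100` the
largest `v` use `φ = g / X` as a variable, in two ranges.
-/

set_option linter.unusedVariables false
set_option linter.unusedSimpArgs false

namespace Vale.Agent.P100.Calib.Closed.Six.End

open BoxPos
open Large (PosBox)

theorem Piece.signs_full {P : Piece} {gb : Box} (hP : P.Ok gb) (hl : PosBox P.box P.sX0)
    (hu : P.toFrame.Ev P.grp.mu P.X₁) {d S u v t : ℝ} (p : EndPt d S u v t)
    (h : P.toFrame.Has d u v) (g : InBox gb (3 * S - 2) d v)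
    (L : 0 ≤ ClosedGen.LLGS ((S - d) / 2) d v (chG d S u v t) (chW d S u v t)
      (chW1 d S u v t) (chR S u) (sixNum d v (chW d S u v t) (chR S u))) :
    ChartSigns d S u v t :=
  Piece.signs hP p h g L (Piece.lower hl p h hP.rm) (hu.upper p h hP.rm)

/-- Two ranges of `φ`. -/
theorem PieceD.signs_two {P Q : PieceD} {gb : Box} (hP : P.Ok gb) (hQ : Q.Ok gb)
    (hq : PosBox Q.box Q.sPhi) (e₀ : P.F₀ = ⟨0, 20000, 0, 0, 0, 0⟩) (e₁ : Q.F₀ = P.F₁)
    {d S u v t : ℝ} (p : EndPt d S u v t) (h : P.toFrame.Has d u v) (h' : Q.toFrame.Has d u v)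
    (g : InBox gb (3 * S - 2) d v)
    (L : 0 ≤ ClosedGen.LLGS ((S - d) / 2) d v (chG d S u v t) (chW d S u v t)
      (chW1 d S u v t) (chR S u) (sixNum d v (chW d S u v t) (chR S u))) :
    ChartSigns d S u v t := by
  rcases le_total 1 (fAt P.F₁ d v * chW d S u v t) with c | c
  · refine PieceD.signs hP p h g L ?_ c
    rw [e₀]
    simp only [fAt, Bot.Q6.ex, Bot.k₄, ex_add, ex_mul, Ex.val]
    push_cast
    linarith [p.phi_low]
  · exact PieceD.signs hQ p h' g L (by rw [e₁]; exact c) (PieceD.phi_le hq p h' hQ.rm)

/-- The box of the ray gap. -/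
def boxLLG : Box := ⟨⟨39, 40, 40⟩, ⟨666666, 673470, 1000000⟩, ⟨0, 3334, 10000⟩, ⟨76, 378, 100⟩⟩

theorem llgLow : Tail.PosD boxLLG Tail.hLLGlo :=
  Tail.posD_of_check (c := ⟨288, ⟨2, 7, 10, 5⟩⟩) (by decide +kernel)

theorem llgHigh : Tail.PosD boxLLG Tail.hLLGhi :=
  Tail.posD_of_check (c := ⟨244, ⟨2, 5, 10, 4⟩⟩) (by decide +kernel)

theorem EndPt.llg {d S u v t : ℝ} (p : EndPt d S u v t) :
    0 ≤ ClosedGen.LLGS ((S - d) / 2) d v (chG d S u v t) (chW d S u v t)
      (chW1 d S u v t) (chR S u) (sixNum d v (chW d S u v t) (chR S u)) := by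
  have hd := p.box.pos
  have hd1 := p.d_lt
  have hS := p.S_lo
  have hv1 : v < 378 / 100 := by
    rcases le_total d (27 / 200) with c | c
    · have := mul_le_mul_of_nonneg_left (show (319 : ℝ) / 600 ≤ 2 / 3 - d by linarith) p.v_pos.le
      linarith [p.v_hi]
    · have := mul_le_mul_of_nonneg_right c p.v_pos.le
      linarith [p.dv_hi]
  refine Tail.llg_nonneg llgLow llgHigh ?_ ?_ ?_ ?_ hd
    ⟨hd, by linarith [p.facts.kap], by linarith [p.facts.r_lt], by linarith [p.box.tri]⟩
    (by linarith) p.S_hi p.t_pos.le (by linarith) p.v_pos p.facts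
  all_goals simp only [boxLLG, Side.Mem]
  all_goals push_cast
  all_goals constructor
  all_goals linarith [p.u_ge, p.facts.u_lt, p.box.S_high, p.v_psi]

theorem okA1 : pieceA1.Ok boxA1 :=
  ⟨signA1, fitA1, by decide, .inl (by decide), .inl ⟨rfl, rfl, rfl⟩, .inl ⟨rfl, rfl⟩, ⟨by decide, by decide, by decide, by decide, by decide⟩⟩

theorem okA2 : pieceA2.Ok boxA2 :=
  ⟨signA2, fitA2, by decide, .inl (by decide), .inl ⟨rfl, rfl, rfl⟩, .inl ⟨rfl, rfl⟩, ⟨by decide, by decide, by decide, by decide, by decide⟩⟩

theorem okAD1 : pieceAD1.Ok boxAD :=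
  ⟨signAD1, fitAD, highAD1, .inl (by decide), .inl ⟨rfl, rfl, rfl⟩, ⟨by decide, by decide, by decide, by decide, by decide⟩⟩

theorem okAD2 : pieceAD2.Ok boxAD :=
  ⟨signAD2, fitAD, highAD2, .inl (by decide), .inl ⟨rfl, rfl, rfl⟩, ⟨by decide, by decide, by decide, by decide, by decide⟩⟩

theorem okB1 : pieceB1.Ok boxB1 :=
  ⟨signB1, fitB1, by decide, .inl (by decide), .inl ⟨rfl, rfl, rfl⟩, .inl ⟨rfl, rfl⟩, ⟨by decide, by decide, by decide, by decide, by decide⟩⟩

theorem okB2 : pieceB2.Ok boxB2 :=
  ⟨signB2, fitB2, by decide, .inl (by decide), .inl ⟨rfl, rfl, rfl⟩, .inl ⟨rfl, rfl⟩, ⟨by decide, by decide, by decide, by decide, by decide⟩⟩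

theorem okBD1 : pieceBD1.Ok boxBD :=
  ⟨signBD1, fitBD, highBD1, .inl (by decide), .inl ⟨rfl, rfl, rfl⟩, ⟨by decide, by decide, by decide, by decide, by decide⟩⟩

theorem okBD2 : pieceBD2.Ok boxBD :=
  ⟨signBD2, fitBD, highBD2, .inl (by decide), .inl ⟨rfl, rfl, rfl⟩, ⟨by decide, by decide, by decide, by decide, by decide⟩⟩

theorem okC1 : pieceC1.Ok boxC1 :=
  ⟨signC1, fitC1, by decide, .inl (by decide), .inl ⟨rfl, rfl, rfl⟩, .inl ⟨rfl, rfl⟩, ⟨by decide, by decide, by decide, by decide, by decide⟩⟩

theorem okC2 : pieceC2.Ok boxC2 :=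
  ⟨signC2, fitC2, by decide, .inl (by decide), .inl ⟨rfl, rfl, rfl⟩, .inl ⟨rfl, rfl⟩, ⟨by decide, by decide, by decide, by decide, by decide⟩⟩

theorem okCD1 : pieceCD1.Ok boxCD :=
  ⟨signCD1, fitCD, highCD1, .inl (by decide), .inl ⟨rfl, rfl, rfl⟩, ⟨by decide, by decide, by decide, by decide, by decide⟩⟩

theorem okCD2 : pieceCD2.Ok boxCD :=
  ⟨signCD2, fitCD, highCD2, .inl (by decide), .inl ⟨rfl, rfl, rfl⟩, ⟨by decide, by decide, by decide, by decide, by decide⟩⟩

theorem okE1 : pieceE1.Ok boxE1 :=
  ⟨signE1, fitE1, by decide, .inl (by decide), .inl ⟨rfl, rfl, rfl⟩, .inl ⟨rfl, rfl⟩, ⟨by decide, by decide, by decide, by decide, by decide⟩⟩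

theorem okE2 : pieceE2.Ok boxE2 :=
  ⟨signE2, fitE2, by decide, .inl (by decide), .inl ⟨rfl, rfl, rfl⟩, .inl ⟨rfl, rfl⟩, ⟨by decide, by decide, by decide, by decide, by decide⟩⟩

theorem okED1 : pieceED1.Ok boxED :=
  ⟨signED1, fitED, highED1, .inl (by decide), .inl ⟨rfl, rfl, rfl⟩, ⟨by decide, by decide, by decide, by decide, by decide⟩⟩

theorem okED2 : pieceED2.Ok boxED :=
  ⟨signED2, fitED, highED2, .inl (by decide), .inl ⟨rfl, rfl, rfl⟩, ⟨by decide, by decide, by decide, by decide, by decide⟩⟩

theorem okF1 : pieceF1.Ok boxF1 :=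
  ⟨signF1, fitF1, by decide, .inr (.inl (by decide)), .inl ⟨rfl, rfl, rfl⟩, .inl ⟨rfl, rfl⟩, ⟨by decide, by decide, by decide, by decide, by decide⟩⟩

theorem okF2 : pieceF2.Ok boxF2 :=
  ⟨signF2, fitF2, by decide, .inr (.inl (by decide)), .inl ⟨rfl, rfl, rfl⟩, .inl ⟨rfl, rfl⟩, ⟨by decide, by decide, by decide, by decide, by decide⟩⟩

theorem okFD1 : pieceFD1.Ok boxFD :=
  ⟨signFD1, fitFD, highFD1, .inr (.inl (by decide)), .inl ⟨rfl, rfl, rfl⟩, ⟨by decide, by decide, by decide, by decide, by decide⟩⟩

theorem okFD2 : pieceFD2.Ok boxFD :=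
  ⟨signFD2, fitFD, highFD2, .inr (.inl (by decide)), .inl ⟨rfl, rfl, rfl⟩, ⟨by decide, by decide, by decide, by decide, by decide⟩⟩

theorem okG : pieceG.Ok boxG :=
  ⟨signG, fitG, by decide, .inr (.inl (by decide)), .inl ⟨rfl, rfl, rfl⟩, .inl ⟨rfl, rfl⟩, ⟨by decide, by decide, by decide, by decide, by decide⟩⟩

theorem okH1 : pieceH1.Ok boxH :=
  ⟨signH1, fitH, by decide, .inr (.inl (by decide)), .inl ⟨rfl, rfl, rfl⟩, .inl ⟨rfl, rfl⟩, ⟨by decide, by decide, by decide, by decide, by decide⟩⟩

theorem okH5 : pieceH5.Ok boxHM :=
  ⟨signH5, fitHM, by decide, .inr (.inl (by decide)), .inl ⟨rfl, rfl, rfl⟩, .inl ⟨rfl, rfl⟩, ⟨by decide, by decide, by decide, by decide, by decide⟩⟩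

theorem okH6 : pieceH6.Ok boxHM :=
  ⟨signH6, fitHM, by decide, .inr (.inl (by decide)), kapH6, .inl ⟨rfl, rfl⟩, ⟨by decide, by decide, by decide, by decide, by decide⟩⟩

theorem okH7 : pieceH7.Ok boxHM :=
  ⟨signH7, fitHM, by decide, .inr (.inl (by decide)), .inl ⟨rfl, rfl, rfl⟩, .inl ⟨rfl, rfl⟩, ⟨by decide, by decide, by decide, by decide, by decide⟩⟩

theorem okH8 : pieceH8.Ok boxHM :=
  ⟨signH8, fitHM, by decide, .inr (.inl (by decide)), kapH8, .inl ⟨rfl, rfl⟩, ⟨by decide, by decide, by decide, by decide, by decide⟩⟩

theorem okI1 : pieceI1.Ok boxI :=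
  ⟨signI1, fitI, by decide, .inr (.inl (by decide)), .inl ⟨rfl, rfl, rfl⟩, .inl ⟨rfl, rfl⟩, ⟨by decide, by decide, by decide, by decide, by decide⟩⟩

theorem okI5 : pieceI5.Ok boxIM :=
  ⟨signI5, fitIM, by decide, .inr (.inl (by decide)), .inl ⟨rfl, rfl, rfl⟩, .inl ⟨rfl, rfl⟩, ⟨by decide, by decide, by decide, by decide, by decide⟩⟩

theorem okI6 : pieceI6.Ok boxIM :=
  ⟨signI6, fitIM, by decide, .inr (.inl (by decide)), kapI6, .inl ⟨rfl, rfl⟩, ⟨by decide, by decide, by decide, by decide, by decide⟩⟩

theorem okI7 : pieceI7.Ok boxIZ :=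
  ⟨signI7, fitIZ, by decide, .inr (.inl (by decide)), .inl ⟨rfl, rfl, rfl⟩, zlowI7, ⟨by decide, by decide, by decide, by decide, by decide⟩⟩

theorem okI8 : pieceI8.Ok boxI :=
  ⟨signI8, fitI, by decide, .inr (.inl (by decide)), .inl ⟨rfl, rfl, rfl⟩, .inl ⟨rfl, rfl⟩, ⟨by decide, by decide, by decide, by decide, by decide⟩⟩

theorem okI9 : pieceI9.Ok boxIM :=
  ⟨signI9, fitIM, by decide, .inr (.inl (by decide)), .inl ⟨rfl, rfl, rfl⟩, .inl ⟨rfl, rfl⟩, ⟨by decide, by decide, by decide, by decide, by decide⟩⟩

theorem okI10 : pieceI10.Ok boxIM :=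
  ⟨signI10, fitIM, by decide, .inr (.inl (by decide)), kapI10, .inl ⟨rfl, rfl⟩, ⟨by decide, by decide, by decide, by decide, by decide⟩⟩

theorem okJ5 : pieceJ5.Ok boxJZ :=
  ⟨signJ5, fitJZ, by decide, .inr (.inr (by decide)), .inl ⟨rfl, rfl, rfl⟩, zlowJ5, ⟨by decide, by decide, by decide, by decide, by decide⟩⟩

theorem okJ4 : pieceJ4.Ok boxJY :=
  ⟨signJ4, fitJY, by decide, .inr (.inr (by decide)), .inl ⟨rfl, rfl, rfl⟩, zlowJ4, ⟨by decide, by decide, by decide, by decide, by decide⟩⟩

theorem okJ6 : pieceJ6.Ok boxJ :=
  ⟨signJ6, fitJ, by decide, .inr (.inr (by decide)), .inl ⟨rfl, rfl, rfl⟩, .inl ⟨rfl, rfl⟩, ⟨by decide, by decide, by decide, by decide, by decide⟩⟩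

theorem okJ7 : pieceJ7.Ok boxJM :=
  ⟨signJ7, fitJM, by decide, .inr (.inr (by decide)), .inl ⟨rfl, rfl, rfl⟩, .inl ⟨rfl, rfl⟩, ⟨by decide, by decide, by decide, by decide, by decide⟩⟩

theorem okJ8 : pieceJ8.Ok boxJM :=
  ⟨signJ8, fitJM, by decide, .inr (.inr (by decide)), kapJ8, .inl ⟨rfl, rfl⟩, ⟨by decide, by decide, by decide, by decide, by decide⟩⟩

theorem okJ11 : pieceJ11.Ok boxJX :=
  ⟨signJ11, fitJX, by decide, .inr (.inr (by decide)), kapJ11, zlowJ11, ⟨by decide, by decide, by decide, by decide, by decide⟩⟩

theorem okJ9 : pieceJ9.Ok boxJM :=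
  ⟨signJ9, fitJM, by decide, .inr (.inr (by decide)), .inl ⟨rfl, rfl, rfl⟩, .inl ⟨rfl, rfl⟩, ⟨by decide, by decide, by decide, by decide, by decide⟩⟩

theorem okJ10 : pieceJ10.Ok boxJM :=
  ⟨signJ10, fitJM, by decide, .inr (.inr (by decide)), kapJ10, .inl ⟨rfl, rfl⟩, ⟨by decide, by decide, by decide, by decide, by decide⟩⟩

theorem okJ12 : pieceJ12.Ok boxJX :=
  ⟨signJ12, fitJX, by decide, .inr (.inr (by decide)), kapJ12, zlowJ12, ⟨by decide, by decide, by decide, by decide, by decide⟩⟩

theorem okJ13 : pieceJ13.Ok boxJW :=
  ⟨signJ13, fitJW, by decide, .inr (.inr (by decide)), kapJ13, zlowJ13, ⟨by decide, by decide, by decide, by decide, by decide⟩⟩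

section
variable {d S u v t : ℝ}

theorem signsA (p : EndPt d S u v t) (h0 : 0 ≤ d) (h1 : d ≤ 3 / 100) :
    ChartSigns d S u v t := by
  have hd := p.box.pos
  have hu1 := p.facts.u_lt
  have hu := p.u_ge
  have hu' := p.u_ge'
  have hv := p.v_psi
  have hr := p.r_nonneg
  have L := p.llg
  rcases le_total v (11 / 5) with cv | cv
  · have h : pieceA1.toFrame.Has d u v := by
      refine ⟨?_, ?_, ?_, ?_, ?_, ?_, ?_⟩
      all_goals simp only [pieceA1, Frame.eR]
      all_goals push_cast
      all_goals linarith
    have hrm := r_le_rm p h okA1.rm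
    simp only [pieceA1] at hrm; push_cast at hrm
    have g : InBox boxA1 (3 * S - 2) d v := by
      refine ⟨?_, ?_, ?_, ?_⟩
      all_goals simp only [boxA1, Side.Mem]
      all_goals push_cast
      all_goals constructor
      all_goals linarith
    exact Piece.signs_full okA1 lowA1 highA1 p h g L
  · rcases le_total v (27 / 10) with cv | cv
    · have h : pieceA2.toFrame.Has d u v := by
        refine ⟨?_, ?_, ?_, ?_, ?_, ?_, ?_⟩
        all_goals simp only [pieceA2, Frame.eR]
        all_goals push_cast
        all_goals linarith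
      have hrm := r_le_rm p h okA2.rm
      simp only [pieceA2] at hrm; push_cast at hrm
      have g : InBox boxA2 (3 * S - 2) d v := by
        refine ⟨?_, ?_, ?_, ?_⟩
        all_goals simp only [boxA2, Side.Mem]
        all_goals push_cast
        all_goals constructor
        all_goals linarith
      exact Piece.signs_full okA2 lowA2 highA2 p h g L
    · have hi := Frame.v_top topAD1 p (by simp [pieceAD1]; linarith) (by simp [pieceAD1]; linarith)
        (by decide)
      simp only [pieceAD1] at hi; push_cast at hi
      have h : pieceAD1.toFrame.Has d u v := by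
        refine ⟨?_, ?_, ?_, ?_, ?_, ?_, ?_⟩
        all_goals simp only [pieceAD1, Frame.eR]
        all_goals push_cast
        all_goals linarith
      have h₂ : pieceAD2.toFrame.Has d u v := by
        refine ⟨?_, ?_, ?_, ?_, ?_, ?_, ?_⟩
        all_goals simp only [pieceAD2, Frame.eR]
        all_goals push_cast
        all_goals linarith
      have hrm := r_le_rm p h okAD1.rm
      simp only [pieceAD1] at hrm; push_cast at hrm
      have g : InBox boxAD (3 * S - 2) d v := by
        refine ⟨?_, ?_, ?_, ?_⟩
        all_goals simp only [boxAD, Side.Mem]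
        all_goals push_cast
        all_goals constructor
        all_goals linarith
      exact PieceD.signs_two okAD1 okAD2 phiAD2 rfl rfl p h h₂ g L

theorem signsB (p : EndPt d S u v t) (h0 : 3 / 100 ≤ d) (h1 : d ≤ 1 / 16) :
    ChartSigns d S u v t := by
  have hd := p.box.pos
  have hu1 := p.facts.u_lt
  have hu := p.u_ge
  have hu' := p.u_ge'
  have hv := p.v_psi
  have hr := p.r_nonneg
  have L := p.llg
  rcases le_total v (11 / 5) with cv | cv
  · have h : pieceB1.toFrame.Has d u v := by
      refine ⟨?_, ?_, ?_, ?_, ?_, ?_, ?_⟩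
      all_goals simp only [pieceB1, Frame.eR]
      all_goals push_cast
      all_goals linarith
    have hrm := r_le_rm p h okB1.rm
    simp only [pieceB1] at hrm; push_cast at hrm
    have g : InBox boxB1 (3 * S - 2) d v := by
      refine ⟨?_, ?_, ?_, ?_⟩
      all_goals simp only [boxB1, Side.Mem]
      all_goals push_cast
      all_goals constructor
      all_goals linarith
    exact Piece.signs_full okB1 lowB1 highB1 p h g L
  · rcases le_total v (14 / 5) with cv | cv
    · have h : pieceB2.toFrame.Has d u v := by
        refine ⟨?_, ?_, ?_, ?_, ?_, ?_, ?_⟩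
        all_goals simp only [pieceB2, Frame.eR]
        all_goals push_cast
        all_goals linarith
      have hrm := r_le_rm p h okB2.rm
      simp only [pieceB2] at hrm; push_cast at hrm
      have g : InBox boxB2 (3 * S - 2) d v := by
        refine ⟨?_, ?_, ?_, ?_⟩
        all_goals simp only [boxB2, Side.Mem]
        all_goals push_cast
        all_goals constructor
        all_goals linarith
      exact Piece.signs_full okB2 lowB2 highB2 p h g L
    · have hi := Frame.v_top topBD1 p (by simp [pieceBD1]; linarith) (by simp [pieceBD1]; linarith)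
        (by decide)
      simp only [pieceBD1] at hi; push_cast at hi
      have h : pieceBD1.toFrame.Has d u v := by
        refine ⟨?_, ?_, ?_, ?_, ?_, ?_, ?_⟩
        all_goals simp only [pieceBD1, Frame.eR]
        all_goals push_cast
        all_goals linarith
      have h₂ : pieceBD2.toFrame.Has d u v := by
        refine ⟨?_, ?_, ?_, ?_, ?_, ?_, ?_⟩
        all_goals simp only [pieceBD2, Frame.eR]
        all_goals push_cast
        all_goals linarith
      have hrm := r_le_rm p h okBD1.rm
      simp only [pieceBD1] at hrm; push_cast at hrm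
      have g : InBox boxBD (3 * S - 2) d v := by
        refine ⟨?_, ?_, ?_, ?_⟩
        all_goals simp only [boxBD, Side.Mem]
        all_goals push_cast
        all_goals constructor
        all_goals linarith
      exact PieceD.signs_two okBD1 okBD2 phiBD2 rfl rfl p h h₂ g L

theorem signsC (p : EndPt d S u v t) (h0 : 1 / 16 ≤ d) (h1 : d ≤ 1 / 10) :
    ChartSigns d S u v t := by
  have hd := p.box.pos
  have hu1 := p.facts.u_lt
  have hu := p.u_ge
  have hu' := p.u_ge'
  have hv := p.v_psi
  have hr := p.r_nonneg
  have L := p.llg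
  rcases le_total v (23 / 10) with cv | cv
  · have h : pieceC1.toFrame.Has d u v := by
      refine ⟨?_, ?_, ?_, ?_, ?_, ?_, ?_⟩
      all_goals simp only [pieceC1, Frame.eR]
      all_goals push_cast
      all_goals linarith
    have hrm := r_le_rm p h okC1.rm
    simp only [pieceC1] at hrm; push_cast at hrm
    have g : InBox boxC1 (3 * S - 2) d v := by
      refine ⟨?_, ?_, ?_, ?_⟩
      all_goals simp only [boxC1, Side.Mem]
      all_goals push_cast
      all_goals constructor
      all_goals linarith
    exact Piece.signs_full okC1 lowC1 highC1 p h g L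
  · rcases le_total v (59 / 20) with cv | cv
    · have h : pieceC2.toFrame.Has d u v := by
        refine ⟨?_, ?_, ?_, ?_, ?_, ?_, ?_⟩
        all_goals simp only [pieceC2, Frame.eR]
        all_goals push_cast
        all_goals linarith
      have hrm := r_le_rm p h okC2.rm
      simp only [pieceC2] at hrm; push_cast at hrm
      have g : InBox boxC2 (3 * S - 2) d v := by
        refine ⟨?_, ?_, ?_, ?_⟩
        all_goals simp only [boxC2, Side.Mem]
        all_goals push_cast
        all_goals constructor
        all_goals linarith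
      exact Piece.signs_full okC2 lowC2 highC2 p h g L
    · have hi := Frame.v_top topCD1 p (by simp [pieceCD1]; linarith) (by simp [pieceCD1]; linarith)
        (by decide)
      simp only [pieceCD1] at hi; push_cast at hi
      have h : pieceCD1.toFrame.Has d u v := by
        refine ⟨?_, ?_, ?_, ?_, ?_, ?_, ?_⟩
        all_goals simp only [pieceCD1, Frame.eR]
        all_goals push_cast
        all_goals linarith
      have h₂ : pieceCD2.toFrame.Has d u v := by
        refine ⟨?_, ?_, ?_, ?_, ?_, ?_, ?_⟩
        all_goals simp only [pieceCD2, Frame.eR]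
        all_goals push_cast
        all_goals linarith
      have hrm := r_le_rm p h okCD1.rm
      simp only [pieceCD1] at hrm; push_cast at hrm
      have g : InBox boxCD (3 * S - 2) d v := by
        refine ⟨?_, ?_, ?_, ?_⟩
        all_goals simp only [boxCD, Side.Mem]
        all_goals push_cast
        all_goals constructor
        all_goals linarith
      exact PieceD.signs_two okCD1 okCD2 phiCD2 rfl rfl p h h₂ g L

theorem signsE (p : EndPt d S u v t) (h0 : 1 / 10 ≤ d) (h1 : d ≤ 27 / 200) :
    ChartSigns d S u v t := by
  have hd := p.box.pos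
  have hu1 := p.facts.u_lt
  have hu := p.u_ge
  have hu' := p.u_ge'
  have hv := p.v_psi
  have hr := p.r_nonneg
  have L := p.llg
  rcases le_total v (12 / 5) with cv | cv
  · have h : pieceE1.toFrame.Has d u v := by
      refine ⟨?_, ?_, ?_, ?_, ?_, ?_, ?_⟩
      all_goals simp only [pieceE1, Frame.eR]
      all_goals push_cast
      all_goals linarith
    have hrm := r_le_rm p h okE1.rm
    simp only [pieceE1] at hrm; push_cast at hrm
    have g : InBox boxE1 (3 * S - 2) d v := by
      refine ⟨?_, ?_, ?_, ?_⟩
      all_goals simp only [boxE1, Side.Mem]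
      all_goals push_cast
      all_goals constructor
      all_goals linarith
    exact Piece.signs_full okE1 lowE1 highE1 p h g L
  · rcases le_total v (63 / 20) with cv | cv
    · have h : pieceE2.toFrame.Has d u v := by
        refine ⟨?_, ?_, ?_, ?_, ?_, ?_, ?_⟩
        all_goals simp only [pieceE2, Frame.eR]
        all_goals push_cast
        all_goals linarith
      have hrm := r_le_rm p h okE2.rm
      simp only [pieceE2] at hrm; push_cast at hrm
      have g : InBox boxE2 (3 * S - 2) d v := by
        refine ⟨?_, ?_, ?_, ?_⟩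
        all_goals simp only [boxE2, Side.Mem]
        all_goals push_cast
        all_goals constructor
        all_goals linarith
      exact Piece.signs_full okE2 lowE2 highE2 p h g L
    · have hi := Frame.v_top topED1 p (by simp [pieceED1]; linarith) (by simp [pieceED1]; linarith)
        (by decide)
      simp only [pieceED1] at hi; push_cast at hi
      have h : pieceED1.toFrame.Has d u v := by
        refine ⟨?_, ?_, ?_, ?_, ?_, ?_, ?_⟩
        all_goals simp only [pieceED1, Frame.eR]
        all_goals push_cast
        all_goals linarith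
      have h₂ : pieceED2.toFrame.Has d u v := by
        refine ⟨?_, ?_, ?_, ?_, ?_, ?_, ?_⟩
        all_goals simp only [pieceED2, Frame.eR]
        all_goals push_cast
        all_goals linarith
      have hrm := r_le_rm p h okED1.rm
      simp only [pieceED1] at hrm; push_cast at hrm
      have g : InBox boxED (3 * S - 2) d v := by
        refine ⟨?_, ?_, ?_, ?_⟩
        all_goals simp only [boxED, Side.Mem]
        all_goals push_cast
        all_goals constructor
        all_goals linarith
      exact PieceD.signs_two okED1 okED2 phiED2 rfl rfl p h h₂ g L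

theorem signsF (p : EndPt d S u v t) (h0 : 27 / 200 ≤ d) (h1 : d ≤ 17 / 100) :
    ChartSigns d S u v t := by
  have hd := p.box.pos
  have hu1 := p.facts.u_lt
  have hu := p.u_ge
  have hu' := p.u_ge'
  have hv := p.v_psi
  have hr := p.r_nonneg
  have L := p.llg
  rcases le_total v (9 / 4) with cv | cv
  · have h : pieceF1.toFrame.Has d u v := by
      refine ⟨?_, ?_, ?_, ?_, ?_, ?_, ?_⟩
      all_goals simp only [pieceF1, Frame.eR]
      all_goals push_cast
      all_goals linarith
    have hrm := r_le_rm p h okF1.rm
    simp only [pieceF1] at hrm; push_cast at hrm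
    have g : InBox boxF1 (3 * S - 2) d v := by
      refine ⟨?_, ?_, ?_, ?_⟩
      all_goals simp only [boxF1, Side.Mem]
      all_goals push_cast
      all_goals constructor
      all_goals linarith
    exact Piece.signs_full okF1 lowF1 highF1 p h g L
  · rcases le_total v (13 / 4) with cv | cv
    · have h : pieceF2.toFrame.Has d u v := by
        refine ⟨?_, ?_, ?_, ?_, ?_, ?_, ?_⟩
        all_goals simp only [pieceF2, Frame.eR]
        all_goals push_cast
        all_goals linarith
      have hrm := r_le_rm p h okF2.rm
      simp only [pieceF2] at hrm; push_cast at hrm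
      have g : InBox boxF2 (3 * S - 2) d v := by
        refine ⟨?_, ?_, ?_, ?_⟩
        all_goals simp only [boxF2, Side.Mem]
        all_goals push_cast
        all_goals constructor
        all_goals linarith
      exact Piece.signs_full okF2 lowF2 highF2 p h g L
    · have hi := Frame.v_top topFD1 p (by simp [pieceFD1]; linarith) (by simp [pieceFD1]; linarith)
        (by decide)
      simp only [pieceFD1] at hi; push_cast at hi
      have h : pieceFD1.toFrame.Has d u v := by
        refine ⟨?_, ?_, ?_, ?_, ?_, ?_, ?_⟩
        all_goals simp only [pieceFD1, Frame.eR]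
        all_goals push_cast
        all_goals linarith
      have h₂ : pieceFD2.toFrame.Has d u v := by
        refine ⟨?_, ?_, ?_, ?_, ?_, ?_, ?_⟩
        all_goals simp only [pieceFD2, Frame.eR]
        all_goals push_cast
        all_goals linarith
      have hrm := r_le_rm p h okFD1.rm
      simp only [pieceFD1] at hrm; push_cast at hrm
      have g : InBox boxFD (3 * S - 2) d v := by
        refine ⟨?_, ?_, ?_, ?_⟩
        all_goals simp only [boxFD, Side.Mem]
        all_goals push_cast
        all_goals constructor
        all_goals linarith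
      exact PieceD.signs_two okFD1 okFD2 phiFD2 rfl rfl p h h₂ g L

theorem signsG (p : EndPt d S u v t) (h0 : 17 / 100 ≤ d) (h1 : d ≤ 11 / 50) :
    ChartSigns d S u v t := by
  have hd := p.box.pos
  have hu1 := p.facts.u_lt
  have hu := p.u_ge
  have hu' := p.u_ge'
  have hv := p.v_psi
  have hr := p.r_nonneg
  have L := p.llg
  have hi := Frame.v_top topG p (by simp [pieceG]; linarith) (by simp [pieceG]; linarith)
    (by decide)
  simp only [pieceG] at hi; push_cast at hi
  have h : pieceG.toFrame.Has d u v := by
    refine ⟨?_, ?_, ?_, ?_, ?_, ?_, ?_⟩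
    all_goals simp only [pieceG, Frame.eR]
    all_goals push_cast
    all_goals linarith
  have hrm := r_le_rm p h okG.rm
  simp only [pieceG] at hrm; push_cast at hrm
  have g : InBox boxG (3 * S - 2) d v := by
    refine ⟨?_, ?_, ?_, ?_⟩
    all_goals simp only [boxG, Side.Mem]
    all_goals push_cast
    all_goals constructor
    all_goals linarith
  exact Piece.signs_full okG lowG highG p h g L

theorem signsH (p : EndPt d S u v t) (h0 : 11 / 50 ≤ d) (h1 : d ≤ 1 / 4) :
    ChartSigns d S u v t := by
  have hd := p.box.pos
  have hu1 := p.facts.u_lt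
  have hu := p.u_ge
  have hu' := p.u_ge'
  have hv := p.v_psi
  have hr := p.r_nonneg
  have L := p.llg
  rcases le_total v (27 / 20) with cv | cv
  · have h : pieceH1.toFrame.Has d u v := by
      refine ⟨?_, ?_, ?_, ?_, ?_, ?_, ?_⟩
      all_goals simp only [pieceH1, Frame.eR]
      all_goals push_cast
      all_goals linarith
    have hrm := r_le_rm p h okH1.rm
    simp only [pieceH1] at hrm; push_cast at hrm
    have g : InBox boxH (3 * S - 2) d v := by
      refine ⟨?_, ?_, ?_, ?_⟩
      all_goals simp only [boxH, Side.Mem]
      all_goals push_cast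
      all_goals constructor
      all_goals linarith
    exact Piece.signs_full okH1 lowH1 highH1 p h g L
  · rcases le_total v (41257 / 10000 + d * (-43893 / 5000)) with cv | cv
    · have h : pieceH5.toFrame.Has d u v := by
        refine ⟨?_, ?_, ?_, ?_, ?_, ?_, ?_⟩
        all_goals simp only [pieceH5, Frame.eR]
        all_goals push_cast
        all_goals linarith
      have hrm := r_le_rm p h okH5.rm
      simp only [pieceH5] at hrm; push_cast at hrm
      have g : InBox boxHM (3 * S - 2) d v := by
        refine ⟨?_, ?_, ?_, ?_⟩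
        all_goals simp only [boxHM, Side.Mem]
        all_goals push_cast
        all_goals constructor
        all_goals linarith
      exact Piece.signs_full okH5 lowH5 highH5 p h g L
    · have hi := Frame.v_top topH6 p (by simp [pieceH6]; linarith) (by simp [pieceH6]; linarith)
        (by decide)
      simp only [pieceH6] at hi; push_cast at hi
      have h : pieceH6.toFrame.Has d u v := by
        refine ⟨?_, ?_, ?_, ?_, ?_, ?_, ?_⟩
        all_goals simp only [pieceH6, Frame.eR]
        all_goals push_cast
        all_goals linarith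
      have hrm := r_le_rm p h okH6.rm
      simp only [pieceH6] at hrm; push_cast at hrm
      have g : InBox boxHM (3 * S - 2) d v := by
        refine ⟨?_, ?_, ?_, ?_⟩
        all_goals simp only [boxHM, Side.Mem]
        all_goals push_cast
        all_goals constructor
        all_goals linarith
      exact Piece.signs_full okH6 lowH6 highH6 p h g L

theorem signsH₂ (p : EndPt d S u v t) (h0 : 1 / 4 ≤ d) (h1 : d ≤ 7 / 25) :
    ChartSigns d S u v t := by
  have hd := p.box.pos
  have hu1 := p.facts.u_lt
  have hu := p.u_ge
  have hu' := p.u_ge'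
  have hv := p.v_psi
  have hr := p.r_nonneg
  have L := p.llg
  rcases le_total v (27 / 20) with cv | cv
  · have h : pieceH1.toFrame.Has d u v := by
      refine ⟨?_, ?_, ?_, ?_, ?_, ?_, ?_⟩
      all_goals simp only [pieceH1, Frame.eR]
      all_goals push_cast
      all_goals linarith
    have hrm := r_le_rm p h okH1.rm
    simp only [pieceH1] at hrm; push_cast at hrm
    have g : InBox boxH (3 * S - 2) d v := by
      refine ⟨?_, ?_, ?_, ?_⟩
      all_goals simp only [boxH, Side.Mem]
      all_goals push_cast
      all_goals constructor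
      all_goals linarith
    exact Piece.signs_full okH1 lowH1 highH1 p h g L
  · rcases le_total v (18293 / 5000 + d * (-13807 / 2000)) with cv | cv
    · have h : pieceH7.toFrame.Has d u v := by
        refine ⟨?_, ?_, ?_, ?_, ?_, ?_, ?_⟩
        all_goals simp only [pieceH7, Frame.eR]
        all_goals push_cast
        all_goals linarith
      have hrm := r_le_rm p h okH7.rm
      simp only [pieceH7] at hrm; push_cast at hrm
      have g : InBox boxHM (3 * S - 2) d v := by
        refine ⟨?_, ?_, ?_, ?_⟩
        all_goals simp only [boxHM, Side.Mem]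
        all_goals push_cast
        all_goals constructor
        all_goals linarith
      exact Piece.signs_full okH7 lowH7 highH7 p h g L
    · have hi := Frame.v_top topH8 p (by simp [pieceH8]; linarith) (by simp [pieceH8]; linarith)
        (by decide)
      simp only [pieceH8] at hi; push_cast at hi
      have h : pieceH8.toFrame.Has d u v := by
        refine ⟨?_, ?_, ?_, ?_, ?_, ?_, ?_⟩
        all_goals simp only [pieceH8, Frame.eR]
        all_goals push_cast
        all_goals linarith
      have hrm := r_le_rm p h okH8.rm
      simp only [pieceH8] at hrm; push_cast at hrm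
      have g : InBox boxHM (3 * S - 2) d v := by
        refine ⟨?_, ?_, ?_, ?_⟩
        all_goals simp only [boxHM, Side.Mem]
        all_goals push_cast
        all_goals constructor
        all_goals linarith
      exact Piece.signs_full okH8 lowH8 highH8 p h g L

theorem signsI (p : EndPt d S u v t) (h0 : 7 / 25 ≤ d) (h1 : d ≤ 59 / 200) :
    ChartSigns d S u v t := by
  have hd := p.box.pos
  have hu1 := p.facts.u_lt
  have hu := p.u_ge
  have hu' := p.u_ge'
  have hv := p.v_psi
  have hr := p.r_nonneg
  have L := p.llg
  rcases le_total v (1) with cv | cv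
  · have h : pieceI1.toFrame.Has d u v := by
      refine ⟨?_, ?_, ?_, ?_, ?_, ?_, ?_⟩
      all_goals simp only [pieceI1, Frame.eR]
      all_goals push_cast
      all_goals linarith
    have hrm := r_le_rm p h okI1.rm
    simp only [pieceI1] at hrm; push_cast at hrm
    have g : InBox boxI (3 * S - 2) d v := by
      refine ⟨?_, ?_, ?_, ?_⟩
      all_goals simp only [boxI, Side.Mem]
      all_goals push_cast
      all_goals constructor
      all_goals linarith
    exact Piece.signs_full okI1 lowI1 highI1 p h g L
  · rcases le_total v (33723 / 10000 + d * (-58653 / 10000)) with cv | cv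
    · have h : pieceI5.toFrame.Has d u v := by
        refine ⟨?_, ?_, ?_, ?_, ?_, ?_, ?_⟩
        all_goals simp only [pieceI5, Frame.eR]
        all_goals push_cast
        all_goals linarith
      have hrm := r_le_rm p h okI5.rm
      simp only [pieceI5] at hrm; push_cast at hrm
      have g : InBox boxIM (3 * S - 2) d v := by
        refine ⟨?_, ?_, ?_, ?_⟩
        all_goals simp only [boxIM, Side.Mem]
        all_goals push_cast
        all_goals constructor
        all_goals linarith
      exact Piece.signs_full okI5 lowI5 highI5 p h g L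
    · have hi := Frame.v_top topI6 p (by simp [pieceI6]; linarith) (by simp [pieceI6]; linarith)
        (by decide)
      simp only [pieceI6] at hi; push_cast at hi
      have h : pieceI6.toFrame.Has d u v := by
        refine ⟨?_, ?_, ?_, ?_, ?_, ?_, ?_⟩
        all_goals simp only [pieceI6, Frame.eR]
        all_goals push_cast
        all_goals linarith
      have hrm := r_le_rm p h okI6.rm
      simp only [pieceI6] at hrm; push_cast at hrm
      have g : InBox boxIM (3 * S - 2) d v := by
        refine ⟨?_, ?_, ?_, ?_⟩
        all_goals simp only [boxIM, Side.Mem]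
        all_goals push_cast
        all_goals constructor
        all_goals linarith
      exact Piece.signs_full okI6 lowI6 highI6 p h g L

theorem signsI₂ (p : EndPt d S u v t) (h0 : 59 / 200 ≤ d) (h1 : d ≤ 313 / 1000) :
    ChartSigns d S u v t := by
  have hd := p.box.pos
  have hu1 := p.facts.u_lt
  have hu := p.u_ge
  have hu' := p.u_ge'
  have hv := p.v_psi
  have hr := p.r_nonneg
  have L := p.llg
  rcases le_total v (1) with cv | cv
  · rcases le_total (chG d S u v t * chW d S u v t)
        (xAt pieceI7.X₁ ((1 - u) / pieceI7.eR d) d v * (1 + pieceI7.grp.mu * (3 * S - 2))) with c | c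
    · have h : pieceI7.toFrame.Has d u v := by
        refine ⟨?_, ?_, ?_, ?_, ?_, ?_, ?_⟩
        all_goals simp only [pieceI7, Frame.eR]
        all_goals push_cast
        all_goals linarith
      have hrm := r_le_rm p h okI7.rm
      simp only [pieceI7] at hrm; push_cast at hrm
      have g : InBox boxIZ (3 * S - 2) d v := by
        refine ⟨?_, ?_, ?_, ?_⟩
        all_goals simp only [boxIZ, Side.Mem]
        all_goals push_cast
        all_goals constructor
        all_goals linarith
      exact Piece.signs okI7 p h g L (Piece.lower lowI7 p h okI7.rm) c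
    · have h : pieceI8.toFrame.Has d u v := by
        refine ⟨?_, ?_, ?_, ?_, ?_, ?_, ?_⟩
        all_goals simp only [pieceI8, Frame.eR]
        all_goals push_cast
        all_goals linarith
      have hrm := r_le_rm p h okI8.rm
      simp only [pieceI8] at hrm; push_cast at hrm
      have g : InBox boxI (3 * S - 2) d v := by
        refine ⟨?_, ?_, ?_, ?_⟩
        all_goals simp only [boxI, Side.Mem]
        all_goals push_cast
        all_goals constructor
        all_goals linarith
      exact Piece.signs okI8 p h g L c (highI8.upper p h okI8.rm)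
  · rcases le_total v (7973 / 2500 + d * (-26229 / 5000)) with cv | cv
    · have h : pieceI9.toFrame.Has d u v := by
        refine ⟨?_, ?_, ?_, ?_, ?_, ?_, ?_⟩
        all_goals simp only [pieceI9, Frame.eR]
        all_goals push_cast
        all_goals linarith
      have hrm := r_le_rm p h okI9.rm
      simp only [pieceI9] at hrm; push_cast at hrm
      have g : InBox boxIM (3 * S - 2) d v := by
        refine ⟨?_, ?_, ?_, ?_⟩
        all_goals simp only [boxIM, Side.Mem]
        all_goals push_cast
        all_goals constructor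
        all_goals linarith
      exact Piece.signs_full okI9 lowI9 highI9 p h g L
    · have hi := Frame.v_top topI10 p (by simp [pieceI10]; linarith) (by simp [pieceI10]; linarith)
        (by decide)
      simp only [pieceI10] at hi; push_cast at hi
      have h : pieceI10.toFrame.Has d u v := by
        refine ⟨?_, ?_, ?_, ?_, ?_, ?_, ?_⟩
        all_goals simp only [pieceI10, Frame.eR]
        all_goals push_cast
        all_goals linarith
      have hrm := r_le_rm p h okI10.rm
      simp only [pieceI10] at hrm; push_cast at hrm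
      have g : InBox boxIM (3 * S - 2) d v := by
        refine ⟨?_, ?_, ?_, ?_⟩
        all_goals simp only [boxIM, Side.Mem]
        all_goals push_cast
        all_goals constructor
        all_goals linarith
      exact Piece.signs_full okI10 lowI10 highI10 p h g L

theorem signsJ (p : EndPt d S u v t) (h0 : 313 / 1000 ≤ d) (h1 : d ≤ 323 / 1000) :
    ChartSigns d S u v t := by
  have hd := p.box.pos
  have hu1 := p.facts.u_lt
  have hu := p.u_ge
  have hu' := p.u_ge'
  have hv := p.v_psi
  have hr := p.r_nonneg
  have L := p.llg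
  rcases le_total v (1) with cv | cv
  · rcases le_total (chG d S u v t * chW d S u v t)
        (xAt pieceJ5.X₁ ((1 - u) / pieceJ5.eR d) d v * (1 + pieceJ5.grp.mu * (3 * S - 2))) with c | c
    · have h : pieceJ5.toFrame.Has d u v := by
        refine ⟨?_, ?_, ?_, ?_, ?_, ?_, ?_⟩
        all_goals simp only [pieceJ5, Frame.eR]
        all_goals push_cast
        all_goals linarith
      have hrm := r_le_rm p h okJ5.rm
      simp only [pieceJ5] at hrm; push_cast at hrm
      have g : InBox boxJZ (3 * S - 2) d v := by
        refine ⟨?_, ?_, ?_, ?_⟩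
        all_goals simp only [boxJZ, Side.Mem]
        all_goals push_cast
        all_goals constructor
        all_goals linarith
      exact Piece.signs okJ5 p h g L (Piece.lower lowJ5 p h okJ5.rm) c
    · rcases le_total (chG d S u v t * chW d S u v t)
          (xAt pieceJ4.X₁ ((1 - u) / pieceJ4.eR d) d v * (1 + pieceJ4.grp.mu * (3 * S - 2))) with c₂ | c₂
      · have h : pieceJ4.toFrame.Has d u v := by
          refine ⟨?_, ?_, ?_, ?_, ?_, ?_, ?_⟩
          all_goals simp only [pieceJ4, Frame.eR]
          all_goals push_cast
          all_goals linarith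
        have hrm := r_le_rm p h okJ4.rm
        simp only [pieceJ4] at hrm; push_cast at hrm
        have g : InBox boxJY (3 * S - 2) d v := by
          refine ⟨?_, ?_, ?_, ?_⟩
          all_goals simp only [boxJY, Side.Mem]
          all_goals push_cast
          all_goals constructor
          all_goals linarith
        exact Piece.signs okJ4 p h g L c c₂
      · have h : pieceJ6.toFrame.Has d u v := by
          refine ⟨?_, ?_, ?_, ?_, ?_, ?_, ?_⟩
          all_goals simp only [pieceJ6, Frame.eR]
          all_goals push_cast
          all_goals linarith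
        have hrm := r_le_rm p h okJ6.rm
        simp only [pieceJ6] at hrm; push_cast at hrm
        have g : InBox boxJ (3 * S - 2) d v := by
          refine ⟨?_, ?_, ?_, ?_⟩
          all_goals simp only [boxJ, Side.Mem]
          all_goals push_cast
          all_goals constructor
          all_goals linarith
        exact Piece.signs okJ6 p h g L c₂ (highJ6.upper p h okJ6.rm)
  · rcases le_total v (3811 / 1250 + d * (-47941 / 10000)) with cv | cv
    · have h : pieceJ7.toFrame.Has d u v := by
        refine ⟨?_, ?_, ?_, ?_, ?_, ?_, ?_⟩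
        all_goals simp only [pieceJ7, Frame.eR]
        all_goals push_cast
        all_goals linarith
      have hrm := r_le_rm p h okJ7.rm
      simp only [pieceJ7] at hrm; push_cast at hrm
      have g : InBox boxJM (3 * S - 2) d v := by
        refine ⟨?_, ?_, ?_, ?_⟩
        all_goals simp only [boxJM, Side.Mem]
        all_goals push_cast
        all_goals constructor
        all_goals linarith
      exact Piece.signs_full okJ7 lowJ7 highJ7 p h g L
    · rcases le_total (1 - u) (3 / 200) with cx | cx
      · have hi := Frame.v_top topJ8 p (by simp [pieceJ8]; linarith) (by simp [pieceJ8]; linarith)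
          (by decide)
        simp only [pieceJ8] at hi; push_cast at hi
        have h : pieceJ8.toFrame.Has d u v := by
          refine ⟨?_, ?_, ?_, ?_, ?_, ?_, ?_⟩
          all_goals simp only [pieceJ8, Frame.eR]
          all_goals push_cast
          all_goals linarith
        have hrm := r_le_rm p h okJ8.rm
        simp only [pieceJ8] at hrm; push_cast at hrm
        have g : InBox boxJM (3 * S - 2) d v := by
          refine ⟨?_, ?_, ?_, ?_⟩
          all_goals simp only [boxJM, Side.Mem]
          all_goals push_cast
          all_goals constructor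
          all_goals linarith
        exact Piece.signs_full okJ8 lowJ8 highJ8 p h g L
      · have hi := Frame.v_top topJ11 p (by simp [pieceJ11]; linarith) (by simp [pieceJ11]; linarith)
          (by decide)
        simp only [pieceJ11] at hi; push_cast at hi
        have h : pieceJ11.toFrame.Has d u v := by
          refine ⟨?_, ?_, ?_, ?_, ?_, ?_, ?_⟩
          all_goals simp only [pieceJ11, Frame.eR]
          all_goals push_cast
          all_goals linarith
        have hrm := r_le_rm p h okJ11.rm
        simp only [pieceJ11] at hrm; push_cast at hrm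
        have g : InBox boxJX (3 * S - 2) d v := by
          refine ⟨?_, ?_, ?_, ?_⟩
          all_goals simp only [boxJX, Side.Mem]
          all_goals push_cast
          all_goals constructor
          all_goals linarith
        exact Piece.signs_full okJ11 lowJ11 highJ11 p h g L

theorem signsJ₂ (p : EndPt d S u v t) (h0 : 323 / 1000 ≤ d) (h1 : d ≤ 1667 / 5000) :
    ChartSigns d S u v t := by
  have hd := p.box.pos
  have hu1 := p.facts.u_lt
  have hu := p.u_ge
  have hu' := p.u_ge'
  have hv := p.v_psi
  have hr := p.r_nonneg
  have L := p.llg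
  rcases le_total v (1) with cv | cv
  · rcases le_total (chG d S u v t * chW d S u v t)
        (xAt pieceJ5.X₁ ((1 - u) / pieceJ5.eR d) d v * (1 + pieceJ5.grp.mu * (3 * S - 2))) with c | c
    · have h : pieceJ5.toFrame.Has d u v := by
        refine ⟨?_, ?_, ?_, ?_, ?_, ?_, ?_⟩
        all_goals simp only [pieceJ5, Frame.eR]
        all_goals push_cast
        all_goals linarith
      have hrm := r_le_rm p h okJ5.rm
      simp only [pieceJ5] at hrm; push_cast at hrm
      have g : InBox boxJZ (3 * S - 2) d v := by
        refine ⟨?_, ?_, ?_, ?_⟩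
        all_goals simp only [boxJZ, Side.Mem]
        all_goals push_cast
        all_goals constructor
        all_goals linarith
      exact Piece.signs okJ5 p h g L (Piece.lower lowJ5 p h okJ5.rm) c
    · rcases le_total (chG d S u v t * chW d S u v t)
          (xAt pieceJ4.X₁ ((1 - u) / pieceJ4.eR d) d v * (1 + pieceJ4.grp.mu * (3 * S - 2))) with c₂ | c₂
      · have h : pieceJ4.toFrame.Has d u v := by
          refine ⟨?_, ?_, ?_, ?_, ?_, ?_, ?_⟩
          all_goals simp only [pieceJ4, Frame.eR]
          all_goals push_cast
          all_goals linarith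
        have hrm := r_le_rm p h okJ4.rm
        simp only [pieceJ4] at hrm; push_cast at hrm
        have g : InBox boxJY (3 * S - 2) d v := by
          refine ⟨?_, ?_, ?_, ?_⟩
          all_goals simp only [boxJY, Side.Mem]
          all_goals push_cast
          all_goals constructor
          all_goals linarith
        exact Piece.signs okJ4 p h g L c c₂
      · have h : pieceJ6.toFrame.Has d u v := by
          refine ⟨?_, ?_, ?_, ?_, ?_, ?_, ?_⟩
          all_goals simp only [pieceJ6, Frame.eR]
          all_goals push_cast
          all_goals linarith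
        have hrm := r_le_rm p h okJ6.rm
        simp only [pieceJ6] at hrm; push_cast at hrm
        have g : InBox boxJ (3 * S - 2) d v := by
          refine ⟨?_, ?_, ?_, ?_⟩
          all_goals simp only [boxJ, Side.Mem]
          all_goals push_cast
          all_goals constructor
          all_goals linarith
        exact Piece.signs okJ6 p h g L c₂ (highJ6.upper p h okJ6.rm)
  · rcases le_total v (29543 / 10000 + d * (-45017 / 10000)) with cv | cv
    · have h : pieceJ9.toFrame.Has d u v := by
        refine ⟨?_, ?_, ?_, ?_, ?_, ?_, ?_⟩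
        all_goals simp only [pieceJ9, Frame.eR]
        all_goals push_cast
        all_goals linarith
      have hrm := r_le_rm p h okJ9.rm
      simp only [pieceJ9] at hrm; push_cast at hrm
      have g : InBox boxJM (3 * S - 2) d v := by
        refine ⟨?_, ?_, ?_, ?_⟩
        all_goals simp only [boxJM, Side.Mem]
        all_goals push_cast
        all_goals constructor
        all_goals linarith
      exact Piece.signs_full okJ9 lowJ9 highJ9 p h g L
    · rcases le_total (1 - u) (3 / 200) with cx | cx
      · have hi := Frame.v_top topJ10 p (by simp [pieceJ10]; linarith) (by simp [pieceJ10]; linarith)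
          (by decide)
        simp only [pieceJ10] at hi; push_cast at hi
        have h : pieceJ10.toFrame.Has d u v := by
          refine ⟨?_, ?_, ?_, ?_, ?_, ?_, ?_⟩
          all_goals simp only [pieceJ10, Frame.eR]
          all_goals push_cast
          all_goals linarith
        have hrm := r_le_rm p h okJ10.rm
        simp only [pieceJ10] at hrm; push_cast at hrm
        have g : InBox boxJM (3 * S - 2) d v := by
          refine ⟨?_, ?_, ?_, ?_⟩
          all_goals simp only [boxJM, Side.Mem]
          all_goals push_cast
          all_goals constructor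
          all_goals linarith
        exact Piece.signs_full okJ10 lowJ10 highJ10 p h g L
      · rcases le_total (1 - u) (41 / 2000) with cx | cx
        · have hi := Frame.v_top topJ12 p (by simp [pieceJ12]; linarith) (by simp [pieceJ12]; linarith)
            (by decide)
          simp only [pieceJ12] at hi; push_cast at hi
          have h : pieceJ12.toFrame.Has d u v := by
            refine ⟨?_, ?_, ?_, ?_, ?_, ?_, ?_⟩
            all_goals simp only [pieceJ12, Frame.eR]
            all_goals push_cast
            all_goals linarith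
          have hrm := r_le_rm p h okJ12.rm
          simp only [pieceJ12] at hrm; push_cast at hrm
          have g : InBox boxJX (3 * S - 2) d v := by
            refine ⟨?_, ?_, ?_, ?_⟩
            all_goals simp only [boxJX, Side.Mem]
            all_goals push_cast
            all_goals constructor
            all_goals linarith
          exact Piece.signs_full okJ12 lowJ12 highJ12 p h g L
        · have hi := Frame.v_top topJ13 p (by simp [pieceJ13]; linarith) (by simp [pieceJ13]; linarith)
            (by decide)
          simp only [pieceJ13] at hi; push_cast at hi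
          have h : pieceJ13.toFrame.Has d u v := by
            refine ⟨?_, ?_, ?_, ?_, ?_, ?_, ?_⟩
            all_goals simp only [pieceJ13, Frame.eR]
            all_goals push_cast
            all_goals linarith
          have hrm := r_le_rm p h okJ13.rm
          simp only [pieceJ13] at hrm; push_cast at hrm
          have g : InBox boxJW (3 * S - 2) d v := by
            refine ⟨?_, ?_, ?_, ?_⟩
            all_goals simp only [boxJW, Side.Mem]
            all_goals push_cast
            all_goals constructor
            all_goals linarith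
          exact Piece.signs_full okJ13 lowJ13 highJ13 p h g L

end

/-- The closed signs at every point of the end. -/
theorem EndPt.all {d S u v t : ℝ} (p : EndPt d S u v t) : ChartSigns d S u v t := by
  rcases le_total d (3 / 100) with c | h1
  · exact signsA p p.box.pos.le c
  rcases le_total d (1 / 16) with c | h2
  · exact signsB p h1 c
  rcases le_total d (1 / 10) with c | h3
  · exact signsC p h2 c
  rcases le_total d (27 / 200) with c | h4
  · exact signsE p h3 c
  rcases le_total d (17 / 100) with c | h5
  · exact signsF p h4 c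
  rcases le_total d (11 / 50) with c | h6
  · exact signsG p h5 c
  rcases le_total d (1 / 4) with c | h7
  · exact signsH p h6 c
  rcases le_total d (7 / 25) with c | h8
  · exact signsH₂ p h7 c
  rcases le_total d (59 / 200) with c | h9
  · exact signsI p h8 c
  rcases le_total d (313 / 1000) with c | h10
  · exact signsI₂ p h9 c
  rcases le_total d (323 / 1000) with c | h11
  · exact signsJ p h10 c
  exact signsJ₂ p h11 (by linarith [p.d_lt])

end Vale.Agent.P100.Calib.Closed.Six.End

namespace Vale.Agent.P100.Calib.Closed.Six

/-- **The closed signs from `uLast` on.** -/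
theorem signsEnd : SignsEnd := by
  intro d S u v t hB hu hF hv ht
  simp only [psi] at hv
  exact End.EndPt.all ⟨hB, hF, le_trans (le_max_left _ _) hu, le_trans (le_max_right _ _) hu, hv, ht⟩

end Vale.Agent.P100.Calib.Closed.Six
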