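import Vale.Agent.P100.Calib.SlabSixUpperAChecks

/-!
# The sign of the upper band of piece A
-/

namespace Vale.Agent.P100.Calib.Band

open BoxPos

theorem six_a_node_2 {u v d S' : ℝ}
    (hx0 : 5000 / 10000 ≤ u) (hx1 : u < 7000 / 10000) (hy0 : 2900 / 10000 ≤ v) (hy1 : v < 20200 / 10000)
    (hz0 : 0 / 10000 ≤ d) (hz1 : d < 301 / 10000) (hS : SixSide d S') (_hgap : 0 ≤ sixAP.val u v d S') :
    ∃ i j l : ℕ, 0 < (sixACond i j l).val u v d S' := by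
  exact ⟨0, 0, 0, Ex.pos_of_checkQuick six_a_up_0 (lowMem 10000 hx0 hx1) (lowMem 10000 hy0 hy1)
    (lowMem 10000 (by push_cast; linarith) hz1) (hS.mem_quad (s := 666894) (c := 301 / 10000) (by linarith) (by norm_num))⟩

theorem six_a_node_3 {u v d S' : ℝ}
    (hx0 : 5000 / 10000 ≤ u) (hx1 : u < 7000 / 10000) (hy0 : 20200 / 10000 ≤ v) (hy1 : v < 37501 / 10000)
    (hz0 : 0 / 10000 ≤ d) (hz1 : d < 301 / 10000) (hS : SixSide d S') (hgap : 0 ≤ sixAP.val u v d S') :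
    ∃ i j l : ℕ, 0 < (sixACond i j l).val u v d S' := by
  have k : 0 < (Ex.sub (eC 0) sixAP).val u v d S' := Ex.pos_of_checkQuick six_a_out_0 (lowMem 10000 hx0 hx1) (lowMem 10000 hy0 hy1)
    (lowMem 10000 (by push_cast; linarith) hz1) (hS.mem_quad (s := 666894) (c := 301 / 10000) (by linarith) (by norm_num))
  simp only [Ex.val] at k
  push_cast at k
  exact absurd hgap (not_le.2 (by linarith))

theorem six_a_node_1 {u v d S' : ℝ}
    (hx0 : 5000 / 10000 ≤ u) (hx1 : u < 7000 / 10000) (hy0 : 2900 / 10000 ≤ v) (hy1 : v < 37501 / 10000)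
    (hz0 : 0 / 10000 ≤ d) (hz1 : d < 301 / 10000) (hS : SixSide d S') (hgap : 0 ≤ sixAP.val u v d S') :
    ∃ i j l : ℕ, 0 < (sixACond i j l).val u v d S' := by
  rcases lt_or_ge v (20200 / 10000) with g | g
  · exact six_a_node_2 hx0 hx1 hy0 g hz0 hz1 hS hgap
  · exact six_a_node_3 hx0 hx1 g hy1 hz0 hz1 hS hgap

theorem six_a_node_6 {u v d S' : ℝ}
    (hx0 : 7000 / 10000 ≤ u) (hx1 : u < 7862 / 10000) (hy0 : 2900 / 10000 ≤ v) (hy1 : v < 20200 / 10000)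
    (hz0 : 0 / 10000 ≤ d) (hz1 : d < 301 / 10000) (hS : SixSide d S') (_hgap : 0 ≤ sixAP.val u v d S') :
    ∃ i j l : ℕ, 0 < (sixACond i j l).val u v d S' := by
  exact ⟨0, 89, 0, Ex.pos_of_checkQuick six_a_up_1 (lowMem 10000 hx0 hx1) (lowMem 10000 hy0 hy1)
    (lowMem 10000 (by push_cast; linarith) hz1) (hS.mem_quad (s := 666894) (c := 301 / 10000) (by linarith) (by norm_num))⟩

theorem six_a_node_9 {u v d S' : ℝ}
    (hx0 : 7862 / 10000 ≤ u) (hx1 : u < 8500 / 10000) (hy0 : 2900 / 10000 ≤ v) (hy1 : v < 11550 / 10000)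
    (hz0 : 0 / 10000 ≤ d) (hz1 : d < 150 / 10000) (hS : SixSide d S') (_hgap : 0 ≤ sixAP.val u v d S') :
    ∃ i j l : ℕ, 0 < (sixACond i j l).val u v d S' := by
  exact ⟨0, 175, 0, Ex.pos_of_checkQuick six_a_up_2 (lowMem 10000 hx0 hx1) (lowMem 10000 hy0 hy1)
    (lowMem 10000 (by push_cast; linarith) hz1) (hS.mem_quad (s := 666723) (c := 150 / 10000) (by linarith) (by norm_num))⟩

theorem six_a_node_10 {u v d S' : ℝ}
    (hx0 : 7862 / 10000 ≤ u) (hx1 : u < 8500 / 10000) (hy0 : 11550 / 10000 ≤ v) (hy1 : v < 20200 / 10000)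
    (hz0 : 0 / 10000 ≤ d) (hz1 : d < 150 / 10000) (hS : SixSide d S') (_hgap : 0 ≤ sixAP.val u v d S') :
    ∃ i j l : ℕ, 0 < (sixACond i j l).val u v d S' := by
  exact ⟨0, 0, 0, Ex.pos_of_checkQuick six_a_up_3 (lowMem 10000 hx0 hx1) (lowMem 10000 hy0 hy1)
    (lowMem 10000 (by push_cast; linarith) hz1) (hS.mem_quad (s := 666723) (c := 150 / 10000) (by linarith) (by norm_num))⟩

theorem six_a_node_8 {u v d S' : ℝ}
    (hx0 : 7862 / 10000 ≤ u) (hx1 : u < 8500 / 10000) (hy0 : 2900 / 10000 ≤ v) (hy1 : v < 20200 / 10000)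
    (hz0 : 0 / 10000 ≤ d) (hz1 : d < 150 / 10000) (hS : SixSide d S') (hgap : 0 ≤ sixAP.val u v d S') :
    ∃ i j l : ℕ, 0 < (sixACond i j l).val u v d S' := by
  rcases lt_or_ge v (11550 / 10000) with g | g
  · exact six_a_node_9 hx0 hx1 hy0 g hz0 hz1 hS hgap
  · exact six_a_node_10 hx0 hx1 g hy1 hz0 hz1 hS hgap

theorem six_a_node_11 {u v d S' : ℝ}
    (hx0 : 7862 / 10000 ≤ u) (hx1 : u < 8500 / 10000) (hy0 : 2900 / 10000 ≤ v) (hy1 : v < 20200 / 10000)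
    (hz0 : 150 / 10000 ≤ d) (hz1 : d < 301 / 10000) (hS : SixSide d S') (_hgap : 0 ≤ sixAP.val u v d S') :
    ∃ i j l : ℕ, 0 < (sixACond i j l).val u v d S' := by
  exact ⟨0, 0, 0, Ex.pos_of_checkQuick six_a_up_4 (lowMem 10000 hx0 hx1) (lowMem 10000 hy0 hy1)
    (lowMem 10000 (by push_cast; linarith) hz1) (hS.mem_quad (s := 666894) (c := 301 / 10000) (by linarith) (by norm_num))⟩

theorem six_a_node_7 {u v d S' : ℝ}
    (hx0 : 7862 / 10000 ≤ u) (hx1 : u < 8500 / 10000) (hy0 : 2900 / 10000 ≤ v) (hy1 : v < 20200 / 10000)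
    (hz0 : 0 / 10000 ≤ d) (hz1 : d < 301 / 10000) (hS : SixSide d S') (hgap : 0 ≤ sixAP.val u v d S') :
    ∃ i j l : ℕ, 0 < (sixACond i j l).val u v d S' := by
  rcases lt_or_ge d (150 / 10000) with g | g
  · exact six_a_node_8 hx0 hx1 hy0 hy1 hz0 g hS hgap
  · exact six_a_node_11 hx0 hx1 hy0 hy1 g hz1 hS hgap

theorem six_a_node_5 {u v d S' : ℝ}
    (hx0 : 7000 / 10000 ≤ u) (hx1 : u < 8500 / 10000) (hy0 : 2900 / 10000 ≤ v) (hy1 : v < 20200 / 10000)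
    (hz0 : 0 / 10000 ≤ d) (hz1 : d < 301 / 10000) (hS : SixSide d S') (hgap : 0 ≤ sixAP.val u v d S') :
    ∃ i j l : ℕ, 0 < (sixACond i j l).val u v d S' := by
  rcases lt_or_ge u (7862 / 10000) with g | g
  · exact six_a_node_6 hx0 g hy0 hy1 hz0 hz1 hS hgap
  · exact six_a_node_7 g hx1 hy0 hy1 hz0 hz1 hS hgap

theorem six_a_node_12 {u v d S' : ℝ}
    (hx0 : 7000 / 10000 ≤ u) (hx1 : u < 8500 / 10000) (hy0 : 20200 / 10000 ≤ v) (hy1 : v < 37501 / 10000)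
    (hz0 : 0 / 10000 ≤ d) (hz1 : d < 301 / 10000) (hS : SixSide d S') (hgap : 0 ≤ sixAP.val u v d S') :
    ∃ i j l : ℕ, 0 < (sixACond i j l).val u v d S' := by
  have k : 0 < (Ex.sub (eC 0) sixAP).val u v d S' := Ex.pos_of_checkQuick six_a_out_1 (lowMem 10000 hx0 hx1) (lowMem 10000 hy0 hy1)
    (lowMem 10000 (by push_cast; linarith) hz1) (hS.mem_quad (s := 666894) (c := 301 / 10000) (by linarith) (by norm_num))
  simp only [Ex.val] at k
  push_cast at k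
  exact absurd hgap (not_le.2 (by linarith))

theorem six_a_node_4 {u v d S' : ℝ}
    (hx0 : 7000 / 10000 ≤ u) (hx1 : u < 8500 / 10000) (hy0 : 2900 / 10000 ≤ v) (hy1 : v < 37501 / 10000)
    (hz0 : 0 / 10000 ≤ d) (hz1 : d < 301 / 10000) (hS : SixSide d S') (hgap : 0 ≤ sixAP.val u v d S') :
    ∃ i j l : ℕ, 0 < (sixACond i j l).val u v d S' := by
  rcases lt_or_ge v (20200 / 10000) with g | g
  · exact six_a_node_5 hx0 hx1 hy0 g hz0 hz1 hS hgap
  · exact six_a_node_12 hx0 hx1 g hy1 hz0 hz1 hS hgap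

theorem six_a_node_17 {u v d S' : ℝ}
    (hx0 : 8500 / 10000 ≤ u) (hx1 : u < 8958 / 10000) (hy0 : 2900 / 10000 ≤ v) (hy1 : v < 11550 / 10000)
    (hz0 : 0 / 10000 ≤ d) (hz1 : d < 150 / 10000) (hS : SixSide d S') (_hgap : 0 ≤ sixAP.val u v d S') :
    ∃ i j l : ℕ, 0 < (sixACond i j l).val u v d S' := by
  exact ⟨0, 242, 0, Ex.pos_of_checkQuick six_a_up_5 (lowMem 10000 hx0 hx1) (lowMem 10000 hy0 hy1)
    (lowMem 10000 (by push_cast; linarith) hz1) (hS.mem_quad (s := 666723) (c := 150 / 10000) (by linarith) (by norm_num))⟩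

theorem six_a_node_18 {u v d S' : ℝ}
    (hx0 : 8500 / 10000 ≤ u) (hx1 : u < 8958 / 10000) (hy0 : 11550 / 10000 ≤ v) (hy1 : v < 20200 / 10000)
    (hz0 : 0 / 10000 ≤ d) (hz1 : d < 150 / 10000) (hS : SixSide d S') (_hgap : 0 ≤ sixAP.val u v d S') :
    ∃ i j l : ℕ, 0 < (sixACond i j l).val u v d S' := by
  exact ⟨0, 86, 0, Ex.pos_of_checkQuick six_a_up_6 (lowMem 10000 hx0 hx1) (lowMem 10000 hy0 hy1)
    (lowMem 10000 (by push_cast; linarith) hz1) (hS.mem_quad (s := 666723) (c := 150 / 10000) (by linarith) (by norm_num))⟩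

theorem six_a_node_16 {u v d S' : ℝ}
    (hx0 : 8500 / 10000 ≤ u) (hx1 : u < 8958 / 10000) (hy0 : 2900 / 10000 ≤ v) (hy1 : v < 20200 / 10000)
    (hz0 : 0 / 10000 ≤ d) (hz1 : d < 150 / 10000) (hS : SixSide d S') (hgap : 0 ≤ sixAP.val u v d S') :
    ∃ i j l : ℕ, 0 < (sixACond i j l).val u v d S' := by
  rcases lt_or_ge v (11550 / 10000) with g | g
  · exact six_a_node_17 hx0 hx1 hy0 g hz0 hz1 hS hgap
  · exact six_a_node_18 hx0 hx1 g hy1 hz0 hz1 hS hgap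

theorem six_a_node_19 {u v d S' : ℝ}
    (hx0 : 8500 / 10000 ≤ u) (hx1 : u < 8958 / 10000) (hy0 : 2900 / 10000 ≤ v) (hy1 : v < 20200 / 10000)
    (hz0 : 150 / 10000 ≤ d) (hz1 : d < 301 / 10000) (hS : SixSide d S') (_hgap : 0 ≤ sixAP.val u v d S') :
    ∃ i j l : ℕ, 0 < (sixACond i j l).val u v d S' := by
  exact ⟨0, 0, 0, Ex.pos_of_checkQuick six_a_up_7 (lowMem 10000 hx0 hx1) (lowMem 10000 hy0 hy1)
    (lowMem 10000 (by push_cast; linarith) hz1) (hS.mem_quad (s := 666894) (c := 301 / 10000) (by linarith) (by norm_num))⟩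

theorem six_a_node_15 {u v d S' : ℝ}
    (hx0 : 8500 / 10000 ≤ u) (hx1 : u < 8958 / 10000) (hy0 : 2900 / 10000 ≤ v) (hy1 : v < 20200 / 10000)
    (hz0 : 0 / 10000 ≤ d) (hz1 : d < 301 / 10000) (hS : SixSide d S') (hgap : 0 ≤ sixAP.val u v d S') :
    ∃ i j l : ℕ, 0 < (sixACond i j l).val u v d S' := by
  rcases lt_or_ge d (150 / 10000) with g | g
  · exact six_a_node_16 hx0 hx1 hy0 hy1 hz0 g hS hgap
  · exact six_a_node_19 hx0 hx1 hy0 hy1 g hz1 hS hgap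

theorem six_a_node_22 {u v d S' : ℝ}
    (hx0 : 8958 / 10000 ≤ u) (hx1 : u < 9300 / 10000) (hy0 : 2900 / 10000 ≤ v) (hy1 : v < 11550 / 10000)
    (hz0 : 0 / 10000 ≤ d) (hz1 : d < 150 / 10000) (hS : SixSide d S') (_hgap : 0 ≤ sixAP.val u v d S') :
    ∃ i j l : ℕ, 0 < (sixACond i j l).val u v d S' := by
  exact ⟨0, 2105, 0, Ex.pos_of_checkQuick six_a_up_8 (lowMem 10000 hx0 hx1) (lowMem 10000 hy0 hy1)
    (lowMem 10000 (by push_cast; linarith) hz1) (hS.mem_quad (s := 666723) (c := 150 / 10000) (by linarith) (by norm_num))⟩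

theorem six_a_node_23 {u v d S' : ℝ}
    (hx0 : 8958 / 10000 ≤ u) (hx1 : u < 9300 / 10000) (hy0 : 11550 / 10000 ≤ v) (hy1 : v < 20200 / 10000)
    (hz0 : 0 / 10000 ≤ d) (hz1 : d < 150 / 10000) (hS : SixSide d S') (_hgap : 0 ≤ sixAP.val u v d S') :
    ∃ i j l : ℕ, 0 < (sixACond i j l).val u v d S' := by
  exact ⟨0, 225, 0, Ex.pos_of_checkQuick six_a_up_9 (lowMem 10000 hx0 hx1) (lowMem 10000 hy0 hy1)
    (lowMem 10000 (by push_cast; linarith) hz1) (hS.mem_quad (s := 666723) (c := 150 / 10000) (by linarith) (by norm_num))⟩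

theorem six_a_node_21 {u v d S' : ℝ}
    (hx0 : 8958 / 10000 ≤ u) (hx1 : u < 9300 / 10000) (hy0 : 2900 / 10000 ≤ v) (hy1 : v < 20200 / 10000)
    (hz0 : 0 / 10000 ≤ d) (hz1 : d < 150 / 10000) (hS : SixSide d S') (hgap : 0 ≤ sixAP.val u v d S') :
    ∃ i j l : ℕ, 0 < (sixACond i j l).val u v d S' := by
  rcases lt_or_ge v (11550 / 10000) with g | g
  · exact six_a_node_22 hx0 hx1 hy0 g hz0 hz1 hS hgap
  · exact six_a_node_23 hx0 hx1 g hy1 hz0 hz1 hS hgap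

theorem six_a_node_24 {u v d S' : ℝ}
    (hx0 : 8958 / 10000 ≤ u) (hx1 : u < 9300 / 10000) (hy0 : 2900 / 10000 ≤ v) (hy1 : v < 20200 / 10000)
    (hz0 : 150 / 10000 ≤ d) (hz1 : d < 301 / 10000) (hS : SixSide d S') (_hgap : 0 ≤ sixAP.val u v d S') :
    ∃ i j l : ℕ, 0 < (sixACond i j l).val u v d S' := by
  exact ⟨0, 0, 0, Ex.pos_of_checkQuick six_a_up_10 (lowMem 10000 hx0 hx1) (lowMem 10000 hy0 hy1)
    (lowMem 10000 (by push_cast; linarith) hz1) (hS.mem_quad (s := 666894) (c := 301 / 10000) (by linarith) (by norm_num))⟩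

theorem six_a_node_20 {u v d S' : ℝ}
    (hx0 : 8958 / 10000 ≤ u) (hx1 : u < 9300 / 10000) (hy0 : 2900 / 10000 ≤ v) (hy1 : v < 20200 / 10000)
    (hz0 : 0 / 10000 ≤ d) (hz1 : d < 301 / 10000) (hS : SixSide d S') (hgap : 0 ≤ sixAP.val u v d S') :
    ∃ i j l : ℕ, 0 < (sixACond i j l).val u v d S' := by
  rcases lt_or_ge d (150 / 10000) with g | g
  · exact six_a_node_21 hx0 hx1 hy0 hy1 hz0 g hS hgap
  · exact six_a_node_24 hx0 hx1 hy0 hy1 g hz1 hS hgap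

theorem six_a_node_14 {u v d S' : ℝ}
    (hx0 : 8500 / 10000 ≤ u) (hx1 : u < 9300 / 10000) (hy0 : 2900 / 10000 ≤ v) (hy1 : v < 20200 / 10000)
    (hz0 : 0 / 10000 ≤ d) (hz1 : d < 301 / 10000) (hS : SixSide d S') (hgap : 0 ≤ sixAP.val u v d S') :
    ∃ i j l : ℕ, 0 < (sixACond i j l).val u v d S' := by
  rcases lt_or_ge u (8958 / 10000) with g | g
  · exact six_a_node_15 hx0 g hy0 hy1 hz0 hz1 hS hgap
  · exact six_a_node_20 g hx1 hy0 hy1 hz0 hz1 hS hgap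

theorem six_a_node_25 {u v d S' : ℝ}
    (hx0 : 8500 / 10000 ≤ u) (hx1 : u < 9300 / 10000) (hy0 : 20200 / 10000 ≤ v) (hy1 : v < 37501 / 10000)
    (hz0 : 0 / 10000 ≤ d) (hz1 : d < 301 / 10000) (hS : SixSide d S') (hgap : 0 ≤ sixAP.val u v d S') :
    ∃ i j l : ℕ, 0 < (sixACond i j l).val u v d S' := by
  have k : 0 < (Ex.sub (eC 0) sixAP).val u v d S' := Ex.pos_of_checkQuick six_a_out_2 (lowMem 10000 hx0 hx1) (lowMem 10000 hy0 hy1)
    (lowMem 10000 (by push_cast; linarith) hz1) (hS.mem_quad (s := 666894) (c := 301 / 10000) (by linarith) (by norm_num))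
  simp only [Ex.val] at k
  push_cast at k
  exact absurd hgap (not_le.2 (by linarith))

theorem six_a_node_13 {u v d S' : ℝ}
    (hx0 : 8500 / 10000 ≤ u) (hx1 : u < 9300 / 10000) (hy0 : 2900 / 10000 ≤ v) (hy1 : v < 37501 / 10000)
    (hz0 : 0 / 10000 ≤ d) (hz1 : d < 301 / 10000) (hS : SixSide d S') (hgap : 0 ≤ sixAP.val u v d S') :
    ∃ i j l : ℕ, 0 < (sixACond i j l).val u v d S' := by
  rcases lt_or_ge v (20200 / 10000) with g | g
  · exact six_a_node_14 hx0 hx1 hy0 g hz0 hz1 hS hgap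
  · exact six_a_node_25 hx0 hx1 g hy1 hz0 hz1 hS hgap

theorem six_a_node_28 {u v d S' : ℝ}
    (hx0 : 9300 / 10000 ≤ u) (hx1 : u < 9559 / 10000) (hy0 : 2900 / 10000 ≤ v) (hy1 : v < 20200 / 10000)
    (hz0 : 0 / 10000 ≤ d) (hz1 : d < 301 / 10000) (hS : SixSide d S') (_hgap : 0 ≤ sixAP.val u v d S') :
    ∃ i j l : ℕ, 0 < (sixACond i j l).val u v d S' := by
  exact ⟨0, 511, 0, Ex.pos_of_checkQuick six_a_up_11 (lowMem 10000 hx0 hx1) (lowMem 10000 hy0 hy1)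
    (lowMem 10000 (by push_cast; linarith) hz1) (hS.mem_quad (s := 666894) (c := 301 / 10000) (by linarith) (by norm_num))⟩

theorem six_a_node_29 {u v d S' : ℝ}
    (hx0 : 9559 / 10000 ≤ u) (hx1 : u < 9751 / 10000) (hy0 : 2900 / 10000 ≤ v) (hy1 : v < 20200 / 10000)
    (hz0 : 0 / 10000 ≤ d) (hz1 : d < 301 / 10000) (hS : SixSide d S') (_hgap : 0 ≤ sixAP.val u v d S') :
    ∃ i j l : ℕ, 0 < (sixACond i j l).val u v d S' := by
  exact ⟨0, 851, 0, Ex.pos_of_checkQuick six_a_up_12 (lowMem 10000 hx0 hx1) (lowMem 10000 hy0 hy1)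
    (lowMem 10000 (by push_cast; linarith) hz1) (hS.mem_quad (s := 666894) (c := 301 / 10000) (by linarith) (by norm_num))⟩

theorem six_a_node_27 {u v d S' : ℝ}
    (hx0 : 9300 / 10000 ≤ u) (hx1 : u < 9751 / 10000) (hy0 : 2900 / 10000 ≤ v) (hy1 : v < 20200 / 10000)
    (hz0 : 0 / 10000 ≤ d) (hz1 : d < 301 / 10000) (hS : SixSide d S') (hgap : 0 ≤ sixAP.val u v d S') :
    ∃ i j l : ℕ, 0 < (sixACond i j l).val u v d S' := by
  rcases lt_or_ge u (9559 / 10000) with g | g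
  · exact six_a_node_28 hx0 g hy0 hy1 hz0 hz1 hS hgap
  · exact six_a_node_29 g hx1 hy0 hy1 hz0 hz1 hS hgap

theorem six_a_node_31 {u v d S' : ℝ}
    (hx0 : 9300 / 10000 ≤ u) (hx1 : u < 9559 / 10000) (hy0 : 20200 / 10000 ≤ v) (hy1 : v < 37501 / 10000)
    (hz0 : 0 / 10000 ≤ d) (hz1 : d < 301 / 10000) (hS : SixSide d S') (_hgap : 0 ≤ sixAP.val u v d S') :
    ∃ i j l : ℕ, 0 < (sixACond i j l).val u v d S' := by
  exact ⟨0, 0, 232, Ex.pos_of_checkQuick six_a_up_13 (lowMem 10000 hx0 hx1) (lowMem 10000 hy0 hy1)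
    (lowMem 10000 (by push_cast; linarith) hz1) (hS.mem_quad (s := 666894) (c := 301 / 10000) (by linarith) (by norm_num))⟩

theorem six_a_node_34 {u v d S' : ℝ}
    (hx0 : 9559 / 10000 ≤ u) (hx1 : u < 9751 / 10000) (hy0 : 20200 / 10000 ≤ v) (hy1 : v < 28850 / 10000)
    (hz0 : 0 / 10000 ≤ d) (hz1 : d < 150 / 10000) (hS : SixSide d S') (_hgap : 0 ≤ sixAP.val u v d S') :
    ∃ i j l : ℕ, 0 < (sixACond i j l).val u v d S' := by
  exact ⟨0, 0, 0, Ex.pos_of_checkQuick six_a_up_14 (lowMem 10000 hx0 hx1) (lowMem 10000 hy0 hy1)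
    (lowMem 10000 (by push_cast; linarith) hz1) (hS.mem_quad (s := 666723) (c := 150 / 10000) (by linarith) (by norm_num))⟩

theorem six_a_node_35 {u v d S' : ℝ}
    (hx0 : 9559 / 10000 ≤ u) (hx1 : u < 9751 / 10000) (hy0 : 28850 / 10000 ≤ v) (hy1 : v < 37501 / 10000)
    (hz0 : 0 / 10000 ≤ d) (hz1 : d < 150 / 10000) (hS : SixSide d S') (hgap : 0 ≤ sixAP.val u v d S') :
    ∃ i j l : ℕ, 0 < (sixACond i j l).val u v d S' := by
  have k : 0 < (Ex.sub (eC 0) sixAP).val u v d S' := Ex.pos_of_checkQuick six_a_out_3 (lowMem 10000 hx0 hx1) (lowMem 10000 hy0 hy1)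
    (lowMem 10000 (by push_cast; linarith) hz1) (hS.mem_quad (s := 666723) (c := 150 / 10000) (by linarith) (by norm_num))
  simp only [Ex.val] at k
  push_cast at k
  exact absurd hgap (not_le.2 (by linarith))

theorem six_a_node_33 {u v d S' : ℝ}
    (hx0 : 9559 / 10000 ≤ u) (hx1 : u < 9751 / 10000) (hy0 : 20200 / 10000 ≤ v) (hy1 : v < 37501 / 10000)
    (hz0 : 0 / 10000 ≤ d) (hz1 : d < 150 / 10000) (hS : SixSide d S') (hgap : 0 ≤ sixAP.val u v d S') :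
    ∃ i j l : ℕ, 0 < (sixACond i j l).val u v d S' := by
  rcases lt_or_ge v (28850 / 10000) with g | g
  · exact six_a_node_34 hx0 hx1 hy0 g hz0 hz1 hS hgap
  · exact six_a_node_35 hx0 hx1 g hy1 hz0 hz1 hS hgap

theorem six_a_node_38 {u v d S' : ℝ}
    (hx0 : 9559 / 10000 ≤ u) (hx1 : u < 9662 / 10000) (hy0 : 20200 / 10000 ≤ v) (hy1 : v < 28850 / 10000)
    (hz0 : 150 / 10000 ≤ d) (hz1 : d < 301 / 10000) (hS : SixSide d S') (_hgap : 0 ≤ sixAP.val u v d S') :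
    ∃ i j l : ℕ, 0 < (sixACond i j l).val u v d S' := by
  exact ⟨17428, 0, 198, Ex.pos_of_checkQuick six_a_up_15 (lowMem 10000 hx0 hx1) (lowMem 10000 hy0 hy1)
    (lowMem 10000 (by push_cast; linarith) hz1) (hS.mem_quad (s := 666894) (c := 301 / 10000) (by linarith) (by norm_num))⟩

theorem six_a_node_40 {u v d S' : ℝ}
    (hx0 : 9662 / 10000 ≤ u) (hx1 : u < 9751 / 10000) (hy0 : 20200 / 10000 ≤ v) (hy1 : v < 28850 / 10000)
    (hz0 : 150 / 10000 ≤ d) (hz1 : d < 225 / 10000) (hS : SixSide d S') (_hgap : 0 ≤ sixAP.val u v d S') :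
    ∃ i j l : ℕ, 0 < (sixACond i j l).val u v d S' := by
  exact ⟨0, 0, 282, Ex.pos_of_checkQuick six_a_up_16 (lowMem 10000 hx0 hx1) (lowMem 10000 hy0 hy1)
    (lowMem 10000 (by push_cast; linarith) hz1) (hS.mem_quad (s := 666794) (c := 225 / 10000) (by linarith) (by norm_num))⟩

theorem six_a_node_42 {u v d S' : ℝ}
    (hx0 : 9662 / 10000 ≤ u) (hx1 : u < 9751 / 10000) (hy0 : 20200 / 10000 ≤ v) (hy1 : v < 24525 / 10000)
    (hz0 : 225 / 10000 ≤ d) (hz1 : d < 301 / 10000) (hS : SixSide d S') (_hgap : 0 ≤ sixAP.val u v d S') :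
    ∃ i j l : ℕ, 0 < (sixACond i j l).val u v d S' := by
  exact ⟨0, 0, 0, Ex.pos_of_checkQuick six_a_up_17 (lowMem 10000 hx0 hx1) (lowMem 10000 hy0 hy1)
    (lowMem 10000 (by push_cast; linarith) hz1) (hS.mem_quad (s := 666894) (c := 301 / 10000) (by linarith) (by norm_num))⟩

theorem six_a_node_43 {u v d S' : ℝ}
    (hx0 : 9662 / 10000 ≤ u) (hx1 : u < 9751 / 10000) (hy0 : 24525 / 10000 ≤ v) (hy1 : v < 28850 / 10000)
    (hz0 : 225 / 10000 ≤ d) (hz1 : d < 301 / 10000) (hS : SixSide d S') (_hgap : 0 ≤ sixAP.val u v d S') :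
    ∃ i j l : ℕ, 0 < (sixACond i j l).val u v d S' := by
  exact ⟨51111, 0, 187, Ex.pos_of_checkQuick six_a_up_18 (lowMem 10000 hx0 hx1) (lowMem 10000 hy0 hy1)
    (lowMem 10000 (by push_cast; linarith) hz1) (hS.mem_quad (s := 666894) (c := 301 / 10000) (by linarith) (by norm_num))⟩

theorem six_a_node_41 {u v d S' : ℝ}
    (hx0 : 9662 / 10000 ≤ u) (hx1 : u < 9751 / 10000) (hy0 : 20200 / 10000 ≤ v) (hy1 : v < 28850 / 10000)
    (hz0 : 225 / 10000 ≤ d) (hz1 : d < 301 / 10000) (hS : SixSide d S') (hgap : 0 ≤ sixAP.val u v d S') :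
    ∃ i j l : ℕ, 0 < (sixACond i j l).val u v d S' := by
  rcases lt_or_ge v (24525 / 10000) with g | g
  · exact six_a_node_42 hx0 hx1 hy0 g hz0 hz1 hS hgap
  · exact six_a_node_43 hx0 hx1 g hy1 hz0 hz1 hS hgap

theorem six_a_node_39 {u v d S' : ℝ}
    (hx0 : 9662 / 10000 ≤ u) (hx1 : u < 9751 / 10000) (hy0 : 20200 / 10000 ≤ v) (hy1 : v < 28850 / 10000)
    (hz0 : 150 / 10000 ≤ d) (hz1 : d < 301 / 10000) (hS : SixSide d S') (hgap : 0 ≤ sixAP.val u v d S') :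
    ∃ i j l : ℕ, 0 < (sixACond i j l).val u v d S' := by
  rcases lt_or_ge d (225 / 10000) with g | g
  · exact six_a_node_40 hx0 hx1 hy0 hy1 hz0 g hS hgap
  · exact six_a_node_41 hx0 hx1 hy0 hy1 g hz1 hS hgap

theorem six_a_node_37 {u v d S' : ℝ}
    (hx0 : 9559 / 10000 ≤ u) (hx1 : u < 9751 / 10000) (hy0 : 20200 / 10000 ≤ v) (hy1 : v < 28850 / 10000)
    (hz0 : 150 / 10000 ≤ d) (hz1 : d < 301 / 10000) (hS : SixSide d S') (hgap : 0 ≤ sixAP.val u v d S') :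
    ∃ i j l : ℕ, 0 < (sixACond i j l).val u v d S' := by
  rcases lt_or_ge u (9662 / 10000) with g | g
  · exact six_a_node_38 hx0 g hy0 hy1 hz0 hz1 hS hgap
  · exact six_a_node_39 g hx1 hy0 hy1 hz0 hz1 hS hgap

theorem six_a_node_44 {u v d S' : ℝ}
    (hx0 : 9559 / 10000 ≤ u) (hx1 : u < 9751 / 10000) (hy0 : 28850 / 10000 ≤ v) (hy1 : v < 37501 / 10000)
    (hz0 : 150 / 10000 ≤ d) (hz1 : d < 301 / 10000) (hS : SixSide d S') (hgap : 0 ≤ sixAP.val u v d S') :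
    ∃ i j l : ℕ, 0 < (sixACond i j l).val u v d S' := by
  have k : 0 < (Ex.sub (eC 0) sixAP).val u v d S' := Ex.pos_of_checkQuick six_a_out_4 (lowMem 10000 hx0 hx1) (lowMem 10000 hy0 hy1)
    (lowMem 10000 (by push_cast; linarith) hz1) (hS.mem_quad (s := 666894) (c := 301 / 10000) (by linarith) (by norm_num))
  simp only [Ex.val] at k
  push_cast at k
  exact absurd hgap (not_le.2 (by linarith))

theorem six_a_node_36 {u v d S' : ℝ}
    (hx0 : 9559 / 10000 ≤ u) (hx1 : u < 9751 / 10000) (hy0 : 20200 / 10000 ≤ v) (hy1 : v < 37501 / 10000)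
    (hz0 : 150 / 10000 ≤ d) (hz1 : d < 301 / 10000) (hS : SixSide d S') (hgap : 0 ≤ sixAP.val u v d S') :
    ∃ i j l : ℕ, 0 < (sixACond i j l).val u v d S' := by
  rcases lt_or_ge v (28850 / 10000) with g | g
  · exact six_a_node_37 hx0 hx1 hy0 g hz0 hz1 hS hgap
  · exact six_a_node_44 hx0 hx1 g hy1 hz0 hz1 hS hgap

theorem six_a_node_32 {u v d S' : ℝ}
    (hx0 : 9559 / 10000 ≤ u) (hx1 : u < 9751 / 10000) (hy0 : 20200 / 10000 ≤ v) (hy1 : v < 37501 / 10000)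
    (hz0 : 0 / 10000 ≤ d) (hz1 : d < 301 / 10000) (hS : SixSide d S') (hgap : 0 ≤ sixAP.val u v d S') :
    ∃ i j l : ℕ, 0 < (sixACond i j l).val u v d S' := by
  rcases lt_or_ge d (150 / 10000) with g | g
  · exact six_a_node_33 hx0 hx1 hy0 hy1 hz0 g hS hgap
  · exact six_a_node_36 hx0 hx1 hy0 hy1 g hz1 hS hgap

theorem six_a_node_30 {u v d S' : ℝ}
    (hx0 : 9300 / 10000 ≤ u) (hx1 : u < 9751 / 10000) (hy0 : 20200 / 10000 ≤ v) (hy1 : v < 37501 / 10000)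
    (hz0 : 0 / 10000 ≤ d) (hz1 : d < 301 / 10000) (hS : SixSide d S') (hgap : 0 ≤ sixAP.val u v d S') :
    ∃ i j l : ℕ, 0 < (sixACond i j l).val u v d S' := by
  rcases lt_or_ge u (9559 / 10000) with g | g
  · exact six_a_node_31 hx0 g hy0 hy1 hz0 hz1 hS hgap
  · exact six_a_node_32 g hx1 hy0 hy1 hz0 hz1 hS hgap

theorem six_a_node_26 {u v d S' : ℝ}
    (hx0 : 9300 / 10000 ≤ u) (hx1 : u < 9751 / 10000) (hy0 : 2900 / 10000 ≤ v) (hy1 : v < 37501 / 10000)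
    (hz0 : 0 / 10000 ≤ d) (hz1 : d < 301 / 10000) (hS : SixSide d S') (hgap : 0 ≤ sixAP.val u v d S') :
    ∃ i j l : ℕ, 0 < (sixACond i j l).val u v d S' := by
  rcases lt_or_ge v (20200 / 10000) with g | g
  · exact six_a_node_27 hx0 hx1 hy0 g hz0 hz1 hS hgap
  · exact six_a_node_30 hx0 hx1 g hy1 hz0 hz1 hS hgap

/-- The rung condition on piece A. -/
theorem six_a_up_sign {u v d S' : ℝ} (hu : 1 / 2 ≤ u) (hu1 : u ≤ 39 / 40) (hv : 29 / 100 ≤ v)
    (hv1 : v ≤ 15 / 4) (h0 : 0 ≤ d) (h1 : d ≤ 3 / 100) (hS : SixSide d S')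
    (hgap : 0 ≤ sixAP.val u v d S') : ∃ i j l : ℕ, 0 < (sixACond i j l).val u v d S' := by
  rcases lt_or_ge u (7000 / 10000) with g0 | g0
  · exact six_a_node_1 (by linarith) (by linarith) (by linarith) (by linarith) (by linarith) (by linarith) hS hgap
  rcases lt_or_ge u (8500 / 10000) with g1 | g1
  · exact six_a_node_4 (by linarith) (by linarith) (by linarith) (by linarith) (by linarith) (by linarith) hS hgap
  rcases lt_or_ge u (9300 / 10000) with g2 | g2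
  · exact six_a_node_13 (by linarith) (by linarith) (by linarith) (by linarith) (by linarith) (by linarith) hS hgap
  exact six_a_node_26 (by linarith) (by linarith) (by linarith) (by linarith) (by linarith) (by linarith) hS hgap

end Vale.Agent.P100.Calib.Band
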