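import Mathlib

/-!
# The bands of the three pieces of dimension six past `u = 1/2`, as plain functions

The same formulas as `Closed.Six.bandsA`, `bandsB`, `bandsC`, without the chart.
-/

namespace Vale.Agent.P100.Calib.Band

/-- The exit curve of piece A. -/
noncomputable def sixPhiA (d u : ℝ) : ℝ :=
    ((4449 / 10000 + 11025 / 10000 * d + 450604 / 10000 * d ^ 2) +
      (1677 / 10000 - 63372 / 10000 * d + 257195 / 10000 * d ^ 2) * u +
      (-4134 / 10000 + 52233 / 10000 * d - 1111663 / 10000 * d ^ 2) * u ^ 2) /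
    (10613 / 10000 - 2562 / 10000 * d - 126334 / 10000 * d ^ 2 - u)

/-- The upper band of piece A. -/
noncomputable def sixUpA (d u : ℝ) : ℝ :=
    ((9899 / 10000 + 25384 / 10000 * d - 56770 / 10000 * d ^ 2) +
      (22367 / 10000 - 265277 / 10000 * d + 521275 / 10000 * d ^ 2) * u +
      (-23294 / 10000 + 218415 / 10000 * d - 445561 / 10000 * d ^ 2) * u ^ 2) /
    (10213 / 10000 + 4158 / 10000 * d + 60449 / 10000 * d ^ 2 - u)

/-- The tilt of piece A. -/
noncomputable def sixTiltA (d u : ℝ) : ℝ :=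
  (1047 / 10000 - 2664 / 10000 * d + 6386 / 10000 * d ^ 2) / (10213 / 10000 + 4158 / 10000 * d + 60449 / 10000 * d ^ 2 - u)

/-- The exit curve of piece B. -/
noncomputable def sixPhiB (d u : ℝ) : ℝ :=
    ((4688 / 10000 + 9807 / 10000 * d + 143445 / 10000 * d ^ 2) +
      (778 / 10000 + 42834 / 10000 * d - 818829 / 10000 * d ^ 2) * u +
      (-3339 / 10000 - 87629 / 10000 * d + 887392 / 10000 * d ^ 2) * u ^ 2) /
    (10679 / 10000 - 15531 / 10000 * d + 94429 / 10000 * d ^ 2 - u)

/-- The upper band of piece B. -/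
noncomputable def sixUpB (d u : ℝ) : ℝ :=
    ((10782 / 10000 + 12374 / 10000 * d + 38760 / 10000 * d ^ 2) +
      (25272 / 10000 - 275010 / 10000 * d + 503730 / 10000 * d ^ 2) * u +
      (-29700 / 10000 + 245756 / 10000 * d - 383337 / 10000 * d ^ 2) * u ^ 2) /
    (10235 / 10000 + 6592 / 10000 * d + 61782 / 10000 * d ^ 2 - u)

/-- The tilt of piece B. -/
noncomputable def sixTiltB (d u : ℝ) : ℝ :=
  (2012 / 10000 - 8887 / 10000 * d + 20378 / 10000 * d ^ 2) / (10235 / 10000 + 6592 / 10000 * d + 61782 / 10000 * d ^ 2 - u)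

/-- The exit curve of piece C. -/
noncomputable def sixPhiC (d u : ℝ) : ℝ :=
    ((1003 / 10000 + 82233 / 10000 * d - 211870 / 10000 * d ^ 2) +
      (10241 / 10000 - 191297 / 10000 * d + 483620 / 10000 * d ^ 2) * u +
      (-10414 / 10000 + 111314 / 10000 * d - 276523 / 10000 * d ^ 2) * u ^ 2) /
    (9993 / 10000 + 1635 / 10000 * d + 682 / 10000 * d ^ 2 - u)

/-- The upper band of piece C. -/
noncomputable def sixUpC (d u : ℝ) : ℝ :=
    ((9974 / 10000 + 31024 / 10000 * d - 37444 / 10000 * d ^ 2) +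
      (22172 / 10000 - 252383 / 10000 * d + 439811 / 10000 * d ^ 2) * u +
      (-28318 / 10000 + 252797 / 10000 * d - 453520 / 10000 * d ^ 2) * u ^ 2) /
    (10349 / 10000 + 5840 / 10000 * d + 65512 / 10000 * d ^ 2 - u)

/-- The tilt of piece C. -/
noncomputable def sixTiltC (d u : ℝ) : ℝ :=
  (2260 / 10000 - 10274 / 10000 * d + 16907 / 10000 * d ^ 2) / (10349 / 10000 + 5840 / 10000 * d + 65512 / 10000 * d ^ 2 - u)

end Vale.Agent.P100.Calib.Band
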