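import Vale.Agent.P100.Calib.SlabSixUpperBox

/-!
# The upper bands of dimension six against the band up to `u = 1/2`: certificates
-/

namespace Vale.Agent.P100.Calib.Band

open BoxPos

local instance sixStartAdd : Add Ex := ⟨Ex.add⟩
local instance sixStartSub : Sub Ex := ⟨Ex.sub⟩
local instance sixStartMul : Mul Ex := ⟨Ex.mul⟩

/-- The band up to `u = 1/2`. -/
def sixU0 : Ex :=
  eRatN (eQuad 17800 (-71100) 102700 10000) (eQuad (-9900) 109600 (-238300) 10000)
    (eQuad 67000 (-465900) 868700 10000)

/-- `G` times the gap between the bands at `v`. -/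
def sixStartGap (N Nb G : Ex) : Ex := N + Nb * eV - sixU0 * G

/-- The gap before `u = 1/2`, helped by `(1/2 - u)²`. -/
def sixStartBefore (N Nb G : Ex) : Ex :=
  (eC 1 2 - eU) * (eC 1 2 - eU) * G + eD * eU * sixStartGap N Nb G

theorem six_a_before : (sixStartBefore sixAN sixANb sixAG).checkQuick sixUpCfg
    (sixUpBox 0 4000 2900 2901 0 301 700000) = true := by decide +kernel

theorem six_a_gap : (sixStartGap sixAN sixANb sixAG).checkQuick sixUpCfg
    (sixUpBox 4000 5001 2900 2901 0 301 700000) = true := by decide +kernel

theorem six_a_tilt : sixANb.checkQuick sixUpCfg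
    (sixUpBox 0 9751 2900 2901 0 301 700000) = true := by decide +kernel

theorem six_a_den : sixAG.checkQuick sixUpCfg
    (sixUpBox 0 9751 2900 2901 0 301 700000) = true := by decide +kernel

theorem six_b_before : (sixStartBefore sixBN sixBNb sixBG).checkQuick sixUpCfg
    (sixUpBox 0 4000 2900 2901 300 1351 700000) = true := by decide +kernel

theorem six_b_gap_0_0 : (sixStartGap sixBN sixBNb sixBG).checkQuick sixUpCfg
    (sixUpBox 4000 4700 2900 2901 300 825 700000) = true := by decide +kernel

theorem six_b_gap_0_1 : (sixStartGap sixBN sixBNb sixBG).checkQuick sixUpCfg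
    (sixUpBox 4000 4700 2900 2901 825 1088 700000) = true := by decide +kernel

theorem six_b_gap_0_2 : (sixStartGap sixBN sixBNb sixBG).checkQuick sixUpCfg
    (sixUpBox 4000 4700 2900 2901 1088 1351 700000) = true := by decide +kernel

theorem six_b_gap_1_0 : (sixStartGap sixBN sixBNb sixBG).checkQuick sixUpCfg
    (sixUpBox 4700 5001 2900 2901 300 825 700000) = true := by decide +kernel

theorem six_b_gap_1_1 : (sixStartGap sixBN sixBNb sixBG).checkQuick sixUpCfg
    (sixUpBox 4700 5001 2900 2901 825 1088 700000) = true := by decide +kernel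

theorem six_b_gap_1_2 : (sixStartGap sixBN sixBNb sixBG).checkQuick sixUpCfg
    (sixUpBox 4700 5001 2900 2901 1088 1351 700000) = true := by decide +kernel

theorem six_b_tilt : sixBNb.checkQuick sixUpCfg
    (sixUpBox 0 9751 2900 2901 300 1351 700000) = true := by decide +kernel

theorem six_b_den : sixBG.checkQuick sixUpCfg
    (sixUpBox 0 9751 2900 2901 300 1351 700000) = true := by decide +kernel

theorem six_c_before : (sixStartBefore sixCN sixCNb sixCG).checkQuick sixUpCfg
    (sixUpBox 0 4000 2900 2901 1350 3334 700000) = true := by decide +kernel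

theorem six_c_gap_0_0 : (sixStartGap sixCN sixCNb sixCG).checkQuick sixUpCfg
    (sixUpBox 4000 4700 2900 2901 1350 2300 700000) = true := by decide +kernel

theorem six_c_gap_0_1 : (sixStartGap sixCN sixCNb sixCG).checkQuick sixUpCfg
    (sixUpBox 4000 4700 2900 2901 2300 3334 700000) = true := by decide +kernel

theorem six_c_gap_1_0 : (sixStartGap sixCN sixCNb sixCG).checkQuick sixUpCfg
    (sixUpBox 4700 5001 2900 2901 1350 2300 700000) = true := by decide +kernel

theorem six_c_gap_1_1 : (sixStartGap sixCN sixCNb sixCG).checkQuick sixUpCfg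
    (sixUpBox 4700 5001 2900 2901 2300 3334 700000) = true := by decide +kernel

theorem six_c_tilt : sixCNb.checkQuick sixUpCfg
    (sixUpBox 0 9751 2900 2901 1350 3334 700000) = true := by decide +kernel

theorem six_c_den : sixCG.checkQuick sixUpCfg
    (sixUpBox 0 9751 2900 2901 1350 3334 700000) = true := by decide +kernel

end Vale.Agent.P100.Calib.Band
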