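import Vale.Agent.P100.Calib.SlabSixUpperBox

/-!
# Certificates of the upper band of piece B
-/

-- The checks are definitions, so that they run one after another with little memory.
set_option linter.defProp false

namespace Vale.Agent.P100.Calib.Band

open BoxPos

def six_b_out_1 : (Ex.sub (eC 0) sixBP).checkQuick sixUpCfg
    (sixUpBox 7000 8500 20200 37501 300 1351 671230) = true := by decide +kernel

def six_b_out_2 : (Ex.sub (eC 0) sixBP).checkQuick sixUpCfg
    (sixUpBox 8500 8958 20200 37501 300 1351 671230) = true := by decide +kernel

def six_b_out_3 : (Ex.sub (eC 0) sixBP).checkQuick sixUpCfg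
    (sixUpBox 8958 9300 20200 37501 300 825 668369) = true := by decide +kernel

def six_b_out_4 : (Ex.sub (eC 0) sixBP).checkQuick sixUpCfg
    (sixUpBox 8958 9300 20200 37501 825 1351 671230) = true := by decide +kernel

end Vale.Agent.P100.Calib.Band
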