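import Vale.Agent.P100.Calib.SlabSixUpperBChecks
import Vale.Agent.P100.Calib.SlabSixUpperBChecks1

/-!
# The sign of the upper band of piece B
-/

namespace Vale.Agent.P100.Calib.Band

open BoxPos

theorem six_b_node_2 {u v d S' : ℝ}
    (hx0 : 5000 / 10000 ≤ u) (hx1 : u < 7000 / 10000) (hy0 : 2900 / 10000 ≤ v) (hy1 : v < 20200 / 10000)
    (hz0 : 300 / 10000 ≤ d) (hz1 : d < 1351 / 10000) (hS : SixSide d S') (_hgap : 0 ≤ sixBP.val u v d S') :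
    ∃ i j l : ℕ, 0 < (sixBCond i j l).val u v d S' := by
  exact ⟨0, 0, 0, Ex.pos_of_checkQuick six_b_up_19 (lowMem 10000 hx0 hx1) (lowMem 10000 hy0 hy1)
    (lowMem 10000 (by push_cast; linarith) hz1) (hS.mem_quad (s := 671230) (c := 1351 / 10000) (by linarith) (by norm_num))⟩

theorem six_b_node_3 {u v d S' : ℝ}
    (hx0 : 5000 / 10000 ≤ u) (hx1 : u < 7000 / 10000) (hy0 : 20200 / 10000 ≤ v) (hy1 : v < 37501 / 10000)
    (hz0 : 300 / 10000 ≤ d) (hz1 : d < 1351 / 10000) (hS : SixSide d S') (hgap : 0 ≤ sixBP.val u v d S') :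
    ∃ i j l : ℕ, 0 < (sixBCond i j l).val u v d S' := by
  have k : 0 < (Ex.sub (eC 0) sixBP).val u v d S' := Ex.pos_of_checkQuick six_b_out_0 (lowMem 10000 hx0 hx1) (lowMem 10000 hy0 hy1)
    (lowMem 10000 (by push_cast; linarith) hz1) (hS.mem_quad (s := 671230) (c := 1351 / 10000) (by linarith) (by norm_num))
  simp only [Ex.val] at k
  push_cast at k
  exact absurd hgap (not_le.2 (by linarith))

theorem six_b_node_1 {u v d S' : ℝ}
    (hx0 : 5000 / 10000 ≤ u) (hx1 : u < 7000 / 10000) (hy0 : 2900 / 10000 ≤ v) (hy1 : v < 37501 / 10000)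
    (hz0 : 300 / 10000 ≤ d) (hz1 : d < 1351 / 10000) (hS : SixSide d S') (hgap : 0 ≤ sixBP.val u v d S') :
    ∃ i j l : ℕ, 0 < (sixBCond i j l).val u v d S' := by
  rcases lt_or_ge v (20200 / 10000) with g | g
  · exact six_b_node_2 hx0 hx1 hy0 g hz0 hz1 hS hgap
  · exact six_b_node_3 hx0 hx1 g hy1 hz0 hz1 hS hgap

theorem six_b_node_7 {u v d S' : ℝ}
    (hx0 : 7000 / 10000 ≤ u) (hx1 : u < 7862 / 10000) (hy0 : 2900 / 10000 ≤ v) (hy1 : v < 20200 / 10000)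
    (hz0 : 300 / 10000 ≤ d) (hz1 : d < 825 / 10000) (hS : SixSide d S') (_hgap : 0 ≤ sixBP.val u v d S') :
    ∃ i j l : ℕ, 0 < (sixBCond i j l).val u v d S' := by
  exact ⟨0, 153, 0, Ex.pos_of_checkQuick six_b_up_20 (lowMem 10000 hx0 hx1) (lowMem 10000 hy0 hy1)
    (lowMem 10000 (by push_cast; linarith) hz1) (hS.mem_quad (s := 668369) (c := 825 / 10000) (by linarith) (by norm_num))⟩

theorem six_b_node_8 {u v d S' : ℝ}
    (hx0 : 7000 / 10000 ≤ u) (hx1 : u < 7862 / 10000) (hy0 : 2900 / 10000 ≤ v) (hy1 : v < 20200 / 10000)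
    (hz0 : 825 / 10000 ≤ d) (hz1 : d < 1351 / 10000) (hS : SixSide d S') (_hgap : 0 ≤ sixBP.val u v d S') :
    ∃ i j l : ℕ, 0 < (sixBCond i j l).val u v d S' := by
  exact ⟨0, 91, 0, Ex.pos_of_checkQuick six_b_up_21 (lowMem 10000 hx0 hx1) (lowMem 10000 hy0 hy1)
    (lowMem 10000 (by push_cast; linarith) hz1) (hS.mem_quad (s := 671230) (c := 1351 / 10000) (by linarith) (by norm_num))⟩

theorem six_b_node_6 {u v d S' : ℝ}
    (hx0 : 7000 / 10000 ≤ u) (hx1 : u < 7862 / 10000) (hy0 : 2900 / 10000 ≤ v) (hy1 : v < 20200 / 10000)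
    (hz0 : 300 / 10000 ≤ d) (hz1 : d < 1351 / 10000) (hS : SixSide d S') (hgap : 0 ≤ sixBP.val u v d S') :
    ∃ i j l : ℕ, 0 < (sixBCond i j l).val u v d S' := by
  rcases lt_or_ge d (825 / 10000) with g | g
  · exact six_b_node_7 hx0 hx1 hy0 hy1 hz0 g hS hgap
  · exact six_b_node_8 hx0 hx1 hy0 hy1 g hz1 hS hgap

theorem six_b_node_13 {u v d S' : ℝ}
    (hx0 : 7862 / 10000 ≤ u) (hx1 : u < 8205 / 10000) (hy0 : 2900 / 10000 ≤ v) (hy1 : v < 11550 / 10000)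
    (hz0 : 300 / 10000 ≤ d) (hz1 : d < 562 / 10000) (hS : SixSide d S') (_hgap : 0 ≤ sixBP.val u v d S') :
    ∃ i j l : ℕ, 0 < (sixBCond i j l).val u v d S' := by
  exact ⟨0, 267, 0, Ex.pos_of_checkQuick six_b_up_22 (lowMem 10000 hx0 hx1) (lowMem 10000 hy0 hy1)
    (lowMem 10000 (by push_cast; linarith) hz1) (hS.mem_quad (s := 667457) (c := 562 / 10000) (by linarith) (by norm_num))⟩

theorem six_b_node_14 {u v d S' : ℝ}
    (hx0 : 7862 / 10000 ≤ u) (hx1 : u < 8205 / 10000) (hy0 : 2900 / 10000 ≤ v) (hy1 : v < 11550 / 10000)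
    (hz0 : 562 / 10000 ≤ d) (hz1 : d < 825 / 10000) (hS : SixSide d S') (_hgap : 0 ≤ sixBP.val u v d S') :
    ∃ i j l : ℕ, 0 < (sixBCond i j l).val u v d S' := by
  exact ⟨0, 142, 0, Ex.pos_of_checkQuick six_b_up_23 (lowMem 10000 hx0 hx1) (lowMem 10000 hy0 hy1)
    (lowMem 10000 (by push_cast; linarith) hz1) (hS.mem_quad (s := 668369) (c := 825 / 10000) (by linarith) (by norm_num))⟩

theorem six_b_node_12 {u v d S' : ℝ}
    (hx0 : 7862 / 10000 ≤ u) (hx1 : u < 8205 / 10000) (hy0 : 2900 / 10000 ≤ v) (hy1 : v < 11550 / 10000)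
    (hz0 : 300 / 10000 ≤ d) (hz1 : d < 825 / 10000) (hS : SixSide d S') (hgap : 0 ≤ sixBP.val u v d S') :
    ∃ i j l : ℕ, 0 < (sixBCond i j l).val u v d S' := by
  rcases lt_or_ge d (562 / 10000) with g | g
  · exact six_b_node_13 hx0 hx1 hy0 hy1 hz0 g hS hgap
  · exact six_b_node_14 hx0 hx1 hy0 hy1 g hz1 hS hgap

theorem six_b_node_16 {u v d S' : ℝ}
    (hx0 : 8205 / 10000 ≤ u) (hx1 : u < 8500 / 10000) (hy0 : 2900 / 10000 ≤ v) (hy1 : v < 11550 / 10000)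
    (hz0 : 300 / 10000 ≤ d) (hz1 : d < 562 / 10000) (hS : SixSide d S') (_hgap : 0 ≤ sixBP.val u v d S') :
    ∃ i j l : ℕ, 0 < (sixBCond i j l).val u v d S' := by
  exact ⟨0, 288, 0, Ex.pos_of_checkQuick six_b_up_24 (lowMem 10000 hx0 hx1) (lowMem 10000 hy0 hy1)
    (lowMem 10000 (by push_cast; linarith) hz1) (hS.mem_quad (s := 667457) (c := 562 / 10000) (by linarith) (by norm_num))⟩

theorem six_b_node_17 {u v d S' : ℝ}
    (hx0 : 8205 / 10000 ≤ u) (hx1 : u < 8500 / 10000) (hy0 : 2900 / 10000 ≤ v) (hy1 : v < 11550 / 10000)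
    (hz0 : 562 / 10000 ≤ d) (hz1 : d < 825 / 10000) (hS : SixSide d S') (_hgap : 0 ≤ sixBP.val u v d S') :
    ∃ i j l : ℕ, 0 < (sixBCond i j l).val u v d S' := by
  exact ⟨0, 148, 0, Ex.pos_of_checkQuick six_b_up_25 (lowMem 10000 hx0 hx1) (lowMem 10000 hy0 hy1)
    (lowMem 10000 (by push_cast; linarith) hz1) (hS.mem_quad (s := 668369) (c := 825 / 10000) (by linarith) (by norm_num))⟩

theorem six_b_node_15 {u v d S' : ℝ}
    (hx0 : 8205 / 10000 ≤ u) (hx1 : u < 8500 / 10000) (hy0 : 2900 / 10000 ≤ v) (hy1 : v < 11550 / 10000)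
    (hz0 : 300 / 10000 ≤ d) (hz1 : d < 825 / 10000) (hS : SixSide d S') (hgap : 0 ≤ sixBP.val u v d S') :
    ∃ i j l : ℕ, 0 < (sixBCond i j l).val u v d S' := by
  rcases lt_or_ge d (562 / 10000) with g | g
  · exact six_b_node_16 hx0 hx1 hy0 hy1 hz0 g hS hgap
  · exact six_b_node_17 hx0 hx1 hy0 hy1 g hz1 hS hgap

theorem six_b_node_11 {u v d S' : ℝ}
    (hx0 : 7862 / 10000 ≤ u) (hx1 : u < 8500 / 10000) (hy0 : 2900 / 10000 ≤ v) (hy1 : v < 11550 / 10000)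
    (hz0 : 300 / 10000 ≤ d) (hz1 : d < 825 / 10000) (hS : SixSide d S') (hgap : 0 ≤ sixBP.val u v d S') :
    ∃ i j l : ℕ, 0 < (sixBCond i j l).val u v d S' := by
  rcases lt_or_ge u (8205 / 10000) with g | g
  · exact six_b_node_12 hx0 g hy0 hy1 hz0 hz1 hS hgap
  · exact six_b_node_15 g hx1 hy0 hy1 hz0 hz1 hS hgap

theorem six_b_node_18 {u v d S' : ℝ}
    (hx0 : 7862 / 10000 ≤ u) (hx1 : u < 8500 / 10000) (hy0 : 11550 / 10000 ≤ v) (hy1 : v < 20200 / 10000)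
    (hz0 : 300 / 10000 ≤ d) (hz1 : d < 825 / 10000) (hS : SixSide d S') (_hgap : 0 ≤ sixBP.val u v d S') :
    ∃ i j l : ℕ, 0 < (sixBCond i j l).val u v d S' := by
  exact ⟨0, 0, 0, Ex.pos_of_checkQuick six_b_up_26 (lowMem 10000 hx0 hx1) (lowMem 10000 hy0 hy1)
    (lowMem 10000 (by push_cast; linarith) hz1) (hS.mem_quad (s := 668369) (c := 825 / 10000) (by linarith) (by norm_num))⟩

theorem six_b_node_10 {u v d S' : ℝ}
    (hx0 : 7862 / 10000 ≤ u) (hx1 : u < 8500 / 10000) (hy0 : 2900 / 10000 ≤ v) (hy1 : v < 20200 / 10000)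
    (hz0 : 300 / 10000 ≤ d) (hz1 : d < 825 / 10000) (hS : SixSide d S') (hgap : 0 ≤ sixBP.val u v d S') :
    ∃ i j l : ℕ, 0 < (sixBCond i j l).val u v d S' := by
  rcases lt_or_ge v (11550 / 10000) with g | g
  · exact six_b_node_11 hx0 hx1 hy0 g hz0 hz1 hS hgap
  · exact six_b_node_18 hx0 hx1 g hy1 hz0 hz1 hS hgap

theorem six_b_node_20 {u v d S' : ℝ}
    (hx0 : 7862 / 10000 ≤ u) (hx1 : u < 8500 / 10000) (hy0 : 2900 / 10000 ≤ v) (hy1 : v < 11550 / 10000)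
    (hz0 : 825 / 10000 ≤ d) (hz1 : d < 1351 / 10000) (hS : SixSide d S') (_hgap : 0 ≤ sixBP.val u v d S') :
    ∃ i j l : ℕ, 0 < (sixBCond i j l).val u v d S' := by
  exact ⟨0, 82, 0, Ex.pos_of_checkQuick six_b_up_27 (lowMem 10000 hx0 hx1) (lowMem 10000 hy0 hy1)
    (lowMem 10000 (by push_cast; linarith) hz1) (hS.mem_quad (s := 671230) (c := 1351 / 10000) (by linarith) (by norm_num))⟩

theorem six_b_node_21 {u v d S' : ℝ}
    (hx0 : 7862 / 10000 ≤ u) (hx1 : u < 8500 / 10000) (hy0 : 11550 / 10000 ≤ v) (hy1 : v < 20200 / 10000)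
    (hz0 : 825 / 10000 ≤ d) (hz1 : d < 1351 / 10000) (hS : SixSide d S') (_hgap : 0 ≤ sixBP.val u v d S') :
    ∃ i j l : ℕ, 0 < (sixBCond i j l).val u v d S' := by
  exact ⟨0, 0, 0, Ex.pos_of_checkQuick six_b_up_28 (lowMem 10000 hx0 hx1) (lowMem 10000 hy0 hy1)
    (lowMem 10000 (by push_cast; linarith) hz1) (hS.mem_quad (s := 671230) (c := 1351 / 10000) (by linarith) (by norm_num))⟩

theorem six_b_node_19 {u v d S' : ℝ}
    (hx0 : 7862 / 10000 ≤ u) (hx1 : u < 8500 / 10000) (hy0 : 2900 / 10000 ≤ v) (hy1 : v < 20200 / 10000)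
    (hz0 : 825 / 10000 ≤ d) (hz1 : d < 1351 / 10000) (hS : SixSide d S') (hgap : 0 ≤ sixBP.val u v d S') :
    ∃ i j l : ℕ, 0 < (sixBCond i j l).val u v d S' := by
  rcases lt_or_ge v (11550 / 10000) with g | g
  · exact six_b_node_20 hx0 hx1 hy0 g hz0 hz1 hS hgap
  · exact six_b_node_21 hx0 hx1 g hy1 hz0 hz1 hS hgap

theorem six_b_node_9 {u v d S' : ℝ}
    (hx0 : 7862 / 10000 ≤ u) (hx1 : u < 8500 / 10000) (hy0 : 2900 / 10000 ≤ v) (hy1 : v < 20200 / 10000)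
    (hz0 : 300 / 10000 ≤ d) (hz1 : d < 1351 / 10000) (hS : SixSide d S') (hgap : 0 ≤ sixBP.val u v d S') :
    ∃ i j l : ℕ, 0 < (sixBCond i j l).val u v d S' := by
  rcases lt_or_ge d (825 / 10000) with g | g
  · exact six_b_node_10 hx0 hx1 hy0 hy1 hz0 g hS hgap
  · exact six_b_node_19 hx0 hx1 hy0 hy1 g hz1 hS hgap

theorem six_b_node_5 {u v d S' : ℝ}
    (hx0 : 7000 / 10000 ≤ u) (hx1 : u < 8500 / 10000) (hy0 : 2900 / 10000 ≤ v) (hy1 : v < 20200 / 10000)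
    (hz0 : 300 / 10000 ≤ d) (hz1 : d < 1351 / 10000) (hS : SixSide d S') (hgap : 0 ≤ sixBP.val u v d S') :
    ∃ i j l : ℕ, 0 < (sixBCond i j l).val u v d S' := by
  rcases lt_or_ge u (7862 / 10000) with g | g
  · exact six_b_node_6 hx0 g hy0 hy1 hz0 hz1 hS hgap
  · exact six_b_node_9 g hx1 hy0 hy1 hz0 hz1 hS hgap

theorem six_b_node_22 {u v d S' : ℝ}
    (hx0 : 7000 / 10000 ≤ u) (hx1 : u < 8500 / 10000) (hy0 : 20200 / 10000 ≤ v) (hy1 : v < 37501 / 10000)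
    (hz0 : 300 / 10000 ≤ d) (hz1 : d < 1351 / 10000) (hS : SixSide d S') (hgap : 0 ≤ sixBP.val u v d S') :
    ∃ i j l : ℕ, 0 < (sixBCond i j l).val u v d S' := by
  have k : 0 < (Ex.sub (eC 0) sixBP).val u v d S' := Ex.pos_of_checkQuick six_b_out_1 (lowMem 10000 hx0 hx1) (lowMem 10000 hy0 hy1)
    (lowMem 10000 (by push_cast; linarith) hz1) (hS.mem_quad (s := 671230) (c := 1351 / 10000) (by linarith) (by norm_num))
  simp only [Ex.val] at k
  push_cast at k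
  exact absurd hgap (not_le.2 (by linarith))

theorem six_b_node_4 {u v d S' : ℝ}
    (hx0 : 7000 / 10000 ≤ u) (hx1 : u < 8500 / 10000) (hy0 : 2900 / 10000 ≤ v) (hy1 : v < 37501 / 10000)
    (hz0 : 300 / 10000 ≤ d) (hz1 : d < 1351 / 10000) (hS : SixSide d S') (hgap : 0 ≤ sixBP.val u v d S') :
    ∃ i j l : ℕ, 0 < (sixBCond i j l).val u v d S' := by
  rcases lt_or_ge v (20200 / 10000) with g | g
  · exact six_b_node_5 hx0 hx1 hy0 g hz0 hz1 hS hgap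
  · exact six_b_node_22 hx0 hx1 g hy1 hz0 hz1 hS hgap

theorem six_b_node_30 {u v d S' : ℝ}
    (hx0 : 8500 / 10000 ≤ u) (hx1 : u < 8745 / 10000) (hy0 : 2900 / 10000 ≤ v) (hy1 : v < 7225 / 10000)
    (hz0 : 300 / 10000 ≤ d) (hz1 : d < 562 / 10000) (hS : SixSide d S') (_hgap : 0 ≤ sixBP.val u v d S') :
    ∃ i j l : ℕ, 0 < (sixBCond i j l).val u v d S' := by
  exact ⟨0, 5031503953, 0, Ex.pos_of_checkQuick six_b_up_29 (lowMem 10000 hx0 hx1) (lowMem 10000 hy0 hy1)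
    (lowMem 10000 (by push_cast; linarith) hz1) (hS.mem_quad (s := 667457) (c := 562 / 10000) (by linarith) (by norm_num))⟩

theorem six_b_node_31 {u v d S' : ℝ}
    (hx0 : 8500 / 10000 ≤ u) (hx1 : u < 8745 / 10000) (hy0 : 7225 / 10000 ≤ v) (hy1 : v < 11550 / 10000)
    (hz0 : 300 / 10000 ≤ d) (hz1 : d < 562 / 10000) (hS : SixSide d S') (_hgap : 0 ≤ sixBP.val u v d S') :
    ∃ i j l : ℕ, 0 < (sixBCond i j l).val u v d S' := by
  exact ⟨0, 299, 0, Ex.pos_of_checkQuick six_b_up_30 (lowMem 10000 hx0 hx1) (lowMem 10000 hy0 hy1)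
    (lowMem 10000 (by push_cast; linarith) hz1) (hS.mem_quad (s := 667457) (c := 562 / 10000) (by linarith) (by norm_num))⟩

theorem six_b_node_29 {u v d S' : ℝ}
    (hx0 : 8500 / 10000 ≤ u) (hx1 : u < 8745 / 10000) (hy0 : 2900 / 10000 ≤ v) (hy1 : v < 11550 / 10000)
    (hz0 : 300 / 10000 ≤ d) (hz1 : d < 562 / 10000) (hS : SixSide d S') (hgap : 0 ≤ sixBP.val u v d S') :
    ∃ i j l : ℕ, 0 < (sixBCond i j l).val u v d S' := by
  rcases lt_or_ge v (7225 / 10000) with g | g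
  · exact six_b_node_30 hx0 hx1 hy0 g hz0 hz1 hS hgap
  · exact six_b_node_31 hx0 hx1 g hy1 hz0 hz1 hS hgap

theorem six_b_node_32 {u v d S' : ℝ}
    (hx0 : 8500 / 10000 ≤ u) (hx1 : u < 8745 / 10000) (hy0 : 2900 / 10000 ≤ v) (hy1 : v < 11550 / 10000)
    (hz0 : 562 / 10000 ≤ d) (hz1 : d < 825 / 10000) (hS : SixSide d S') (_hgap : 0 ≤ sixBP.val u v d S') :
    ∃ i j l : ℕ, 0 < (sixBCond i j l).val u v d S' := by
  exact ⟨0, 155, 0, Ex.pos_of_checkQuick six_b_up_31 (lowMem 10000 hx0 hx1) (lowMem 10000 hy0 hy1)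
    (lowMem 10000 (by push_cast; linarith) hz1) (hS.mem_quad (s := 668369) (c := 825 / 10000) (by linarith) (by norm_num))⟩

theorem six_b_node_28 {u v d S' : ℝ}
    (hx0 : 8500 / 10000 ≤ u) (hx1 : u < 8745 / 10000) (hy0 : 2900 / 10000 ≤ v) (hy1 : v < 11550 / 10000)
    (hz0 : 300 / 10000 ≤ d) (hz1 : d < 825 / 10000) (hS : SixSide d S') (hgap : 0 ≤ sixBP.val u v d S') :
    ∃ i j l : ℕ, 0 < (sixBCond i j l).val u v d S' := by
  rcases lt_or_ge d (562 / 10000) with g | g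
  · exact six_b_node_29 hx0 hx1 hy0 hy1 hz0 g hS hgap
  · exact six_b_node_32 hx0 hx1 hy0 hy1 g hz1 hS hgap

theorem six_b_node_34 {u v d S' : ℝ}
    (hx0 : 8745 / 10000 ≤ u) (hx1 : u < 8958 / 10000) (hy0 : 2900 / 10000 ≤ v) (hy1 : v < 11550 / 10000)
    (hz0 : 300 / 10000 ≤ d) (hz1 : d < 562 / 10000) (hS : SixSide d S') (_hgap : 0 ≤ sixBP.val u v d S') :
    ∃ i j l : ℕ, 0 < (sixBCond i j l).val u v d S' := by
  exact ⟨0, 358, 0, Ex.pos_of_checkQuick six_b_up_32 (lowMem 10000 hx0 hx1) (lowMem 10000 hy0 hy1)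
    (lowMem 10000 (by push_cast; linarith) hz1) (hS.mem_quad (s := 667457) (c := 562 / 10000) (by linarith) (by norm_num))⟩

theorem six_b_node_35 {u v d S' : ℝ}
    (hx0 : 8745 / 10000 ≤ u) (hx1 : u < 8958 / 10000) (hy0 : 2900 / 10000 ≤ v) (hy1 : v < 11550 / 10000)
    (hz0 : 562 / 10000 ≤ d) (hz1 : d < 825 / 10000) (hS : SixSide d S') (_hgap : 0 ≤ sixBP.val u v d S') :
    ∃ i j l : ℕ, 0 < (sixBCond i j l).val u v d S' := by
  exact ⟨0, 152, 0, Ex.pos_of_checkQuick six_b_up_33 (lowMem 10000 hx0 hx1) (lowMem 10000 hy0 hy1)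
    (lowMem 10000 (by push_cast; linarith) hz1) (hS.mem_quad (s := 668369) (c := 825 / 10000) (by linarith) (by norm_num))⟩

theorem six_b_node_33 {u v d S' : ℝ}
    (hx0 : 8745 / 10000 ≤ u) (hx1 : u < 8958 / 10000) (hy0 : 2900 / 10000 ≤ v) (hy1 : v < 11550 / 10000)
    (hz0 : 300 / 10000 ≤ d) (hz1 : d < 825 / 10000) (hS : SixSide d S') (hgap : 0 ≤ sixBP.val u v d S') :
    ∃ i j l : ℕ, 0 < (sixBCond i j l).val u v d S' := by
  rcases lt_or_ge d (562 / 10000) with g | g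
  · exact six_b_node_34 hx0 hx1 hy0 hy1 hz0 g hS hgap
  · exact six_b_node_35 hx0 hx1 hy0 hy1 g hz1 hS hgap

theorem six_b_node_27 {u v d S' : ℝ}
    (hx0 : 8500 / 10000 ≤ u) (hx1 : u < 8958 / 10000) (hy0 : 2900 / 10000 ≤ v) (hy1 : v < 11550 / 10000)
    (hz0 : 300 / 10000 ≤ d) (hz1 : d < 825 / 10000) (hS : SixSide d S') (hgap : 0 ≤ sixBP.val u v d S') :
    ∃ i j l : ℕ, 0 < (sixBCond i j l).val u v d S' := by
  rcases lt_or_ge u (8745 / 10000) with g | g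
  · exact six_b_node_28 hx0 g hy0 hy1 hz0 hz1 hS hgap
  · exact six_b_node_33 g hx1 hy0 hy1 hz0 hz1 hS hgap

theorem six_b_node_36 {u v d S' : ℝ}
    (hx0 : 8500 / 10000 ≤ u) (hx1 : u < 8958 / 10000) (hy0 : 11550 / 10000 ≤ v) (hy1 : v < 20200 / 10000)
    (hz0 : 300 / 10000 ≤ d) (hz1 : d < 825 / 10000) (hS : SixSide d S') (_hgap : 0 ≤ sixBP.val u v d S') :
    ∃ i j l : ℕ, 0 < (sixBCond i j l).val u v d S' := by
  exact ⟨0, 0, 0, Ex.pos_of_checkQuick six_b_up_34 (lowMem 10000 hx0 hx1) (lowMem 10000 hy0 hy1)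
    (lowMem 10000 (by push_cast; linarith) hz1) (hS.mem_quad (s := 668369) (c := 825 / 10000) (by linarith) (by norm_num))⟩

theorem six_b_node_26 {u v d S' : ℝ}
    (hx0 : 8500 / 10000 ≤ u) (hx1 : u < 8958 / 10000) (hy0 : 2900 / 10000 ≤ v) (hy1 : v < 20200 / 10000)
    (hz0 : 300 / 10000 ≤ d) (hz1 : d < 825 / 10000) (hS : SixSide d S') (hgap : 0 ≤ sixBP.val u v d S') :
    ∃ i j l : ℕ, 0 < (sixBCond i j l).val u v d S' := by
  rcases lt_or_ge v (11550 / 10000) with g | g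
  · exact six_b_node_27 hx0 hx1 hy0 g hz0 hz1 hS hgap
  · exact six_b_node_36 hx0 hx1 g hy1 hz0 hz1 hS hgap

theorem six_b_node_39 {u v d S' : ℝ}
    (hx0 : 8500 / 10000 ≤ u) (hx1 : u < 8745 / 10000) (hy0 : 2900 / 10000 ≤ v) (hy1 : v < 11550 / 10000)
    (hz0 : 825 / 10000 ≤ d) (hz1 : d < 1351 / 10000) (hS : SixSide d S') (_hgap : 0 ≤ sixBP.val u v d S') :
    ∃ i j l : ℕ, 0 < (sixBCond i j l).val u v d S' := by
  exact ⟨0, 75, 0, Ex.pos_of_checkQuick six_b_up_35 (lowMem 10000 hx0 hx1) (lowMem 10000 hy0 hy1)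
    (lowMem 10000 (by push_cast; linarith) hz1) (hS.mem_quad (s := 671230) (c := 1351 / 10000) (by linarith) (by norm_num))⟩

theorem six_b_node_41 {u v d S' : ℝ}
    (hx0 : 8745 / 10000 ≤ u) (hx1 : u < 8958 / 10000) (hy0 : 2900 / 10000 ≤ v) (hy1 : v < 11550 / 10000)
    (hz0 : 825 / 10000 ≤ d) (hz1 : d < 1088 / 10000) (hS : SixSide d S') (_hgap : 0 ≤ sixBP.val u v d S') :
    ∃ i j l : ℕ, 0 < (sixBCond i j l).val u v d S' := by
  exact ⟨0, 71, 0, Ex.pos_of_checkQuick six_b_up_36 (lowMem 10000 hx0 hx1) (lowMem 10000 hy0 hy1)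
    (lowMem 10000 (by push_cast; linarith) hz1) (hS.mem_quad (s := 669627) (c := 1088 / 10000) (by linarith) (by norm_num))⟩

theorem six_b_node_42 {u v d S' : ℝ}
    (hx0 : 8745 / 10000 ≤ u) (hx1 : u < 8958 / 10000) (hy0 : 2900 / 10000 ≤ v) (hy1 : v < 11550 / 10000)
    (hz0 : 1088 / 10000 ≤ d) (hz1 : d < 1351 / 10000) (hS : SixSide d S') (_hgap : 0 ≤ sixBP.val u v d S') :
    ∃ i j l : ℕ, 0 < (sixBCond i j l).val u v d S' := by
  exact ⟨0, 25, 0, Ex.pos_of_checkQuick six_b_up_37 (lowMem 10000 hx0 hx1) (lowMem 10000 hy0 hy1)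
    (lowMem 10000 (by push_cast; linarith) hz1) (hS.mem_quad (s := 671230) (c := 1351 / 10000) (by linarith) (by norm_num))⟩

theorem six_b_node_40 {u v d S' : ℝ}
    (hx0 : 8745 / 10000 ≤ u) (hx1 : u < 8958 / 10000) (hy0 : 2900 / 10000 ≤ v) (hy1 : v < 11550 / 10000)
    (hz0 : 825 / 10000 ≤ d) (hz1 : d < 1351 / 10000) (hS : SixSide d S') (hgap : 0 ≤ sixBP.val u v d S') :
    ∃ i j l : ℕ, 0 < (sixBCond i j l).val u v d S' := by
  rcases lt_or_ge d (1088 / 10000) with g | g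
  · exact six_b_node_41 hx0 hx1 hy0 hy1 hz0 g hS hgap
  · exact six_b_node_42 hx0 hx1 hy0 hy1 g hz1 hS hgap

theorem six_b_node_38 {u v d S' : ℝ}
    (hx0 : 8500 / 10000 ≤ u) (hx1 : u < 8958 / 10000) (hy0 : 2900 / 10000 ≤ v) (hy1 : v < 11550 / 10000)
    (hz0 : 825 / 10000 ≤ d) (hz1 : d < 1351 / 10000) (hS : SixSide d S') (hgap : 0 ≤ sixBP.val u v d S') :
    ∃ i j l : ℕ, 0 < (sixBCond i j l).val u v d S' := by
  rcases lt_or_ge u (8745 / 10000) with g | g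
  · exact six_b_node_39 hx0 g hy0 hy1 hz0 hz1 hS hgap
  · exact six_b_node_40 g hx1 hy0 hy1 hz0 hz1 hS hgap

theorem six_b_node_43 {u v d S' : ℝ}
    (hx0 : 8500 / 10000 ≤ u) (hx1 : u < 8958 / 10000) (hy0 : 11550 / 10000 ≤ v) (hy1 : v < 20200 / 10000)
    (hz0 : 825 / 10000 ≤ d) (hz1 : d < 1351 / 10000) (hS : SixSide d S') (_hgap : 0 ≤ sixBP.val u v d S') :
    ∃ i j l : ℕ, 0 < (sixBCond i j l).val u v d S' := by
  exact ⟨0, 0, 0, Ex.pos_of_checkQuick six_b_up_38 (lowMem 10000 hx0 hx1) (lowMem 10000 hy0 hy1)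
    (lowMem 10000 (by push_cast; linarith) hz1) (hS.mem_quad (s := 671230) (c := 1351 / 10000) (by linarith) (by norm_num))⟩

theorem six_b_node_37 {u v d S' : ℝ}
    (hx0 : 8500 / 10000 ≤ u) (hx1 : u < 8958 / 10000) (hy0 : 2900 / 10000 ≤ v) (hy1 : v < 20200 / 10000)
    (hz0 : 825 / 10000 ≤ d) (hz1 : d < 1351 / 10000) (hS : SixSide d S') (hgap : 0 ≤ sixBP.val u v d S') :
    ∃ i j l : ℕ, 0 < (sixBCond i j l).val u v d S' := by
  rcases lt_or_ge v (11550 / 10000) with g | g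
  · exact six_b_node_38 hx0 hx1 hy0 g hz0 hz1 hS hgap
  · exact six_b_node_43 hx0 hx1 g hy1 hz0 hz1 hS hgap

theorem six_b_node_25 {u v d S' : ℝ}
    (hx0 : 8500 / 10000 ≤ u) (hx1 : u < 8958 / 10000) (hy0 : 2900 / 10000 ≤ v) (hy1 : v < 20200 / 10000)
    (hz0 : 300 / 10000 ≤ d) (hz1 : d < 1351 / 10000) (hS : SixSide d S') (hgap : 0 ≤ sixBP.val u v d S') :
    ∃ i j l : ℕ, 0 < (sixBCond i j l).val u v d S' := by
  rcases lt_or_ge d (825 / 10000) with g | g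
  · exact six_b_node_26 hx0 hx1 hy0 hy1 hz0 g hS hgap
  · exact six_b_node_37 hx0 hx1 hy0 hy1 g hz1 hS hgap

theorem six_b_node_48 {u v d S' : ℝ}
    (hx0 : 8958 / 10000 ≤ u) (hx1 : u < 9141 / 10000) (hy0 : 2900 / 10000 ≤ v) (hy1 : v < 11550 / 10000)
    (hz0 : 300 / 10000 ≤ d) (hz1 : d < 562 / 10000) (hS : SixSide d S') (_hgap : 0 ≤ sixBP.val u v d S') :
    ∃ i j l : ℕ, 0 < (sixBCond i j l).val u v d S' := by
  exact ⟨0, 414, 0, Ex.pos_of_checkQuick six_b_up_39 (lowMem 10000 hx0 hx1) (lowMem 10000 hy0 hy1)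
    (lowMem 10000 (by push_cast; linarith) hz1) (hS.mem_quad (s := 667457) (c := 562 / 10000) (by linarith) (by norm_num))⟩

theorem six_b_node_49 {u v d S' : ℝ}
    (hx0 : 8958 / 10000 ≤ u) (hx1 : u < 9141 / 10000) (hy0 : 2900 / 10000 ≤ v) (hy1 : v < 11550 / 10000)
    (hz0 : 562 / 10000 ≤ d) (hz1 : d < 825 / 10000) (hS : SixSide d S') (_hgap : 0 ≤ sixBP.val u v d S') :
    ∃ i j l : ℕ, 0 < (sixBCond i j l).val u v d S' := by
  exact ⟨0, 161, 0, Ex.pos_of_checkQuick six_b_up_40 (lowMem 10000 hx0 hx1) (lowMem 10000 hy0 hy1)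
    (lowMem 10000 (by push_cast; linarith) hz1) (hS.mem_quad (s := 668369) (c := 825 / 10000) (by linarith) (by norm_num))⟩

theorem six_b_node_47 {u v d S' : ℝ}
    (hx0 : 8958 / 10000 ≤ u) (hx1 : u < 9141 / 10000) (hy0 : 2900 / 10000 ≤ v) (hy1 : v < 11550 / 10000)
    (hz0 : 300 / 10000 ≤ d) (hz1 : d < 825 / 10000) (hS : SixSide d S') (hgap : 0 ≤ sixBP.val u v d S') :
    ∃ i j l : ℕ, 0 < (sixBCond i j l).val u v d S' := by
  rcases lt_or_ge d (562 / 10000) with g | g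
  · exact six_b_node_48 hx0 hx1 hy0 hy1 hz0 g hS hgap
  · exact six_b_node_49 hx0 hx1 hy0 hy1 g hz1 hS hgap

theorem six_b_node_51 {u v d S' : ℝ}
    (hx0 : 9141 / 10000 ≤ u) (hx1 : u < 9300 / 10000) (hy0 : 2900 / 10000 ≤ v) (hy1 : v < 11550 / 10000)
    (hz0 : 300 / 10000 ≤ d) (hz1 : d < 562 / 10000) (hS : SixSide d S') (_hgap : 0 ≤ sixBP.val u v d S') :
    ∃ i j l : ℕ, 0 < (sixBCond i j l).val u v d S' := by
  exact ⟨0, 490, 0, Ex.pos_of_checkQuick six_b_up_41 (lowMem 10000 hx0 hx1) (lowMem 10000 hy0 hy1)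
    (lowMem 10000 (by push_cast; linarith) hz1) (hS.mem_quad (s := 667457) (c := 562 / 10000) (by linarith) (by norm_num))⟩

theorem six_b_node_52 {u v d S' : ℝ}
    (hx0 : 9141 / 10000 ≤ u) (hx1 : u < 9300 / 10000) (hy0 : 2900 / 10000 ≤ v) (hy1 : v < 11550 / 10000)
    (hz0 : 562 / 10000 ≤ d) (hz1 : d < 825 / 10000) (hS : SixSide d S') (_hgap : 0 ≤ sixBP.val u v d S') :
    ∃ i j l : ℕ, 0 < (sixBCond i j l).val u v d S' := by
  exact ⟨0, 158, 0, Ex.pos_of_checkQuick six_b_up_42 (lowMem 10000 hx0 hx1) (lowMem 10000 hy0 hy1)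
    (lowMem 10000 (by push_cast; linarith) hz1) (hS.mem_quad (s := 668369) (c := 825 / 10000) (by linarith) (by norm_num))⟩

theorem six_b_node_50 {u v d S' : ℝ}
    (hx0 : 9141 / 10000 ≤ u) (hx1 : u < 9300 / 10000) (hy0 : 2900 / 10000 ≤ v) (hy1 : v < 11550 / 10000)
    (hz0 : 300 / 10000 ≤ d) (hz1 : d < 825 / 10000) (hS : SixSide d S') (hgap : 0 ≤ sixBP.val u v d S') :
    ∃ i j l : ℕ, 0 < (sixBCond i j l).val u v d S' := by
  rcases lt_or_ge d (562 / 10000) with g | g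
  · exact six_b_node_51 hx0 hx1 hy0 hy1 hz0 g hS hgap
  · exact six_b_node_52 hx0 hx1 hy0 hy1 g hz1 hS hgap

theorem six_b_node_46 {u v d S' : ℝ}
    (hx0 : 8958 / 10000 ≤ u) (hx1 : u < 9300 / 10000) (hy0 : 2900 / 10000 ≤ v) (hy1 : v < 11550 / 10000)
    (hz0 : 300 / 10000 ≤ d) (hz1 : d < 825 / 10000) (hS : SixSide d S') (hgap : 0 ≤ sixBP.val u v d S') :
    ∃ i j l : ℕ, 0 < (sixBCond i j l).val u v d S' := by
  rcases lt_or_ge u (9141 / 10000) with g | g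
  · exact six_b_node_47 hx0 g hy0 hy1 hz0 hz1 hS hgap
  · exact six_b_node_50 g hx1 hy0 hy1 hz0 hz1 hS hgap

theorem six_b_node_53 {u v d S' : ℝ}
    (hx0 : 8958 / 10000 ≤ u) (hx1 : u < 9300 / 10000) (hy0 : 11550 / 10000 ≤ v) (hy1 : v < 20200 / 10000)
    (hz0 : 300 / 10000 ≤ d) (hz1 : d < 825 / 10000) (hS : SixSide d S') (_hgap : 0 ≤ sixBP.val u v d S') :
    ∃ i j l : ℕ, 0 < (sixBCond i j l).val u v d S' := by
  exact ⟨0, 0, 0, Ex.pos_of_checkQuick six_b_up_43 (lowMem 10000 hx0 hx1) (lowMem 10000 hy0 hy1)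
    (lowMem 10000 (by push_cast; linarith) hz1) (hS.mem_quad (s := 668369) (c := 825 / 10000) (by linarith) (by norm_num))⟩

theorem six_b_node_45 {u v d S' : ℝ}
    (hx0 : 8958 / 10000 ≤ u) (hx1 : u < 9300 / 10000) (hy0 : 2900 / 10000 ≤ v) (hy1 : v < 20200 / 10000)
    (hz0 : 300 / 10000 ≤ d) (hz1 : d < 825 / 10000) (hS : SixSide d S') (hgap : 0 ≤ sixBP.val u v d S') :
    ∃ i j l : ℕ, 0 < (sixBCond i j l).val u v d S' := by
  rcases lt_or_ge v (11550 / 10000) with g | g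
  · exact six_b_node_46 hx0 hx1 hy0 g hz0 hz1 hS hgap
  · exact six_b_node_53 hx0 hx1 g hy1 hz0 hz1 hS hgap

theorem six_b_node_55 {u v d S' : ℝ}
    (hx0 : 8958 / 10000 ≤ u) (hx1 : u < 9300 / 10000) (hy0 : 2900 / 10000 ≤ v) (hy1 : v < 11550 / 10000)
    (hz0 : 825 / 10000 ≤ d) (hz1 : d < 1351 / 10000) (hS : SixSide d S') (_hgap : 0 ≤ sixBP.val u v d S') :
    ∃ i j l : ℕ, 0 < (sixBCond i j l).val u v d S' := by
  exact ⟨0, 66, 0, Ex.pos_of_checkQuick six_b_up_44 (lowMem 10000 hx0 hx1) (lowMem 10000 hy0 hy1)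
    (lowMem 10000 (by push_cast; linarith) hz1) (hS.mem_quad (s := 671230) (c := 1351 / 10000) (by linarith) (by norm_num))⟩

theorem six_b_node_56 {u v d S' : ℝ}
    (hx0 : 8958 / 10000 ≤ u) (hx1 : u < 9300 / 10000) (hy0 : 11550 / 10000 ≤ v) (hy1 : v < 20200 / 10000)
    (hz0 : 825 / 10000 ≤ d) (hz1 : d < 1351 / 10000) (hS : SixSide d S') (_hgap : 0 ≤ sixBP.val u v d S') :
    ∃ i j l : ℕ, 0 < (sixBCond i j l).val u v d S' := by
  exact ⟨0, 0, 0, Ex.pos_of_checkQuick six_b_up_45 (lowMem 10000 hx0 hx1) (lowMem 10000 hy0 hy1)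
    (lowMem 10000 (by push_cast; linarith) hz1) (hS.mem_quad (s := 671230) (c := 1351 / 10000) (by linarith) (by norm_num))⟩

theorem six_b_node_54 {u v d S' : ℝ}
    (hx0 : 8958 / 10000 ≤ u) (hx1 : u < 9300 / 10000) (hy0 : 2900 / 10000 ≤ v) (hy1 : v < 20200 / 10000)
    (hz0 : 825 / 10000 ≤ d) (hz1 : d < 1351 / 10000) (hS : SixSide d S') (hgap : 0 ≤ sixBP.val u v d S') :
    ∃ i j l : ℕ, 0 < (sixBCond i j l).val u v d S' := by
  rcases lt_or_ge v (11550 / 10000) with g | g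
  · exact six_b_node_55 hx0 hx1 hy0 g hz0 hz1 hS hgap
  · exact six_b_node_56 hx0 hx1 g hy1 hz0 hz1 hS hgap

theorem six_b_node_44 {u v d S' : ℝ}
    (hx0 : 8958 / 10000 ≤ u) (hx1 : u < 9300 / 10000) (hy0 : 2900 / 10000 ≤ v) (hy1 : v < 20200 / 10000)
    (hz0 : 300 / 10000 ≤ d) (hz1 : d < 1351 / 10000) (hS : SixSide d S') (hgap : 0 ≤ sixBP.val u v d S') :
    ∃ i j l : ℕ, 0 < (sixBCond i j l).val u v d S' := by
  rcases lt_or_ge d (825 / 10000) with g | g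
  · exact six_b_node_45 hx0 hx1 hy0 hy1 hz0 g hS hgap
  · exact six_b_node_54 hx0 hx1 hy0 hy1 g hz1 hS hgap

theorem six_b_node_24 {u v d S' : ℝ}
    (hx0 : 8500 / 10000 ≤ u) (hx1 : u < 9300 / 10000) (hy0 : 2900 / 10000 ≤ v) (hy1 : v < 20200 / 10000)
    (hz0 : 300 / 10000 ≤ d) (hz1 : d < 1351 / 10000) (hS : SixSide d S') (hgap : 0 ≤ sixBP.val u v d S') :
    ∃ i j l : ℕ, 0 < (sixBCond i j l).val u v d S' := by
  rcases lt_or_ge u (8958 / 10000) with g | g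
  · exact six_b_node_25 hx0 g hy0 hy1 hz0 hz1 hS hgap
  · exact six_b_node_44 g hx1 hy0 hy1 hz0 hz1 hS hgap

theorem six_b_node_58 {u v d S' : ℝ}
    (hx0 : 8500 / 10000 ≤ u) (hx1 : u < 8958 / 10000) (hy0 : 20200 / 10000 ≤ v) (hy1 : v < 37501 / 10000)
    (hz0 : 300 / 10000 ≤ d) (hz1 : d < 1351 / 10000) (hS : SixSide d S') (hgap : 0 ≤ sixBP.val u v d S') :
    ∃ i j l : ℕ, 0 < (sixBCond i j l).val u v d S' := by
  have k : 0 < (Ex.sub (eC 0) sixBP).val u v d S' := Ex.pos_of_checkQuick six_b_out_2 (lowMem 10000 hx0 hx1) (lowMem 10000 hy0 hy1)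
    (lowMem 10000 (by push_cast; linarith) hz1) (hS.mem_quad (s := 671230) (c := 1351 / 10000) (by linarith) (by norm_num))
  simp only [Ex.val] at k
  push_cast at k
  exact absurd hgap (not_le.2 (by linarith))

theorem six_b_node_60 {u v d S' : ℝ}
    (hx0 : 8958 / 10000 ≤ u) (hx1 : u < 9300 / 10000) (hy0 : 20200 / 10000 ≤ v) (hy1 : v < 37501 / 10000)
    (hz0 : 300 / 10000 ≤ d) (hz1 : d < 825 / 10000) (hS : SixSide d S') (hgap : 0 ≤ sixBP.val u v d S') :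
    ∃ i j l : ℕ, 0 < (sixBCond i j l).val u v d S' := by
  have k : 0 < (Ex.sub (eC 0) sixBP).val u v d S' := Ex.pos_of_checkQuick six_b_out_3 (lowMem 10000 hx0 hx1) (lowMem 10000 hy0 hy1)
    (lowMem 10000 (by push_cast; linarith) hz1) (hS.mem_quad (s := 668369) (c := 825 / 10000) (by linarith) (by norm_num))
  simp only [Ex.val] at k
  push_cast at k
  exact absurd hgap (not_le.2 (by linarith))

theorem six_b_node_61 {u v d S' : ℝ}
    (hx0 : 8958 / 10000 ≤ u) (hx1 : u < 9300 / 10000) (hy0 : 20200 / 10000 ≤ v) (hy1 : v < 37501 / 10000)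
    (hz0 : 825 / 10000 ≤ d) (hz1 : d < 1351 / 10000) (hS : SixSide d S') (hgap : 0 ≤ sixBP.val u v d S') :
    ∃ i j l : ℕ, 0 < (sixBCond i j l).val u v d S' := by
  have k : 0 < (Ex.sub (eC 0) sixBP).val u v d S' := Ex.pos_of_checkQuick six_b_out_4 (lowMem 10000 hx0 hx1) (lowMem 10000 hy0 hy1)
    (lowMem 10000 (by push_cast; linarith) hz1) (hS.mem_quad (s := 671230) (c := 1351 / 10000) (by linarith) (by norm_num))
  simp only [Ex.val] at k
  push_cast at k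
  exact absurd hgap (not_le.2 (by linarith))

theorem six_b_node_59 {u v d S' : ℝ}
    (hx0 : 8958 / 10000 ≤ u) (hx1 : u < 9300 / 10000) (hy0 : 20200 / 10000 ≤ v) (hy1 : v < 37501 / 10000)
    (hz0 : 300 / 10000 ≤ d) (hz1 : d < 1351 / 10000) (hS : SixSide d S') (hgap : 0 ≤ sixBP.val u v d S') :
    ∃ i j l : ℕ, 0 < (sixBCond i j l).val u v d S' := by
  rcases lt_or_ge d (825 / 10000) with g | g
  · exact six_b_node_60 hx0 hx1 hy0 hy1 hz0 g hS hgap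
  · exact six_b_node_61 hx0 hx1 hy0 hy1 g hz1 hS hgap

theorem six_b_node_57 {u v d S' : ℝ}
    (hx0 : 8500 / 10000 ≤ u) (hx1 : u < 9300 / 10000) (hy0 : 20200 / 10000 ≤ v) (hy1 : v < 37501 / 10000)
    (hz0 : 300 / 10000 ≤ d) (hz1 : d < 1351 / 10000) (hS : SixSide d S') (hgap : 0 ≤ sixBP.val u v d S') :
    ∃ i j l : ℕ, 0 < (sixBCond i j l).val u v d S' := by
  rcases lt_or_ge u (8958 / 10000) with g | g
  · exact six_b_node_58 hx0 g hy0 hy1 hz0 hz1 hS hgap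
  · exact six_b_node_59 g hx1 hy0 hy1 hz0 hz1 hS hgap

theorem six_b_node_23 {u v d S' : ℝ}
    (hx0 : 8500 / 10000 ≤ u) (hx1 : u < 9300 / 10000) (hy0 : 2900 / 10000 ≤ v) (hy1 : v < 37501 / 10000)
    (hz0 : 300 / 10000 ≤ d) (hz1 : d < 1351 / 10000) (hS : SixSide d S') (hgap : 0 ≤ sixBP.val u v d S') :
    ∃ i j l : ℕ, 0 < (sixBCond i j l).val u v d S' := by
  rcases lt_or_ge v (20200 / 10000) with g | g
  · exact six_b_node_24 hx0 hx1 hy0 g hz0 hz1 hS hgap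
  · exact six_b_node_57 hx0 hx1 g hy1 hz0 hz1 hS hgap

theorem six_b_node_66 {u v d S' : ℝ}
    (hx0 : 9300 / 10000 ≤ u) (hx1 : u < 9559 / 10000) (hy0 : 2900 / 10000 ≤ v) (hy1 : v < 11550 / 10000)
    (hz0 : 300 / 10000 ≤ d) (hz1 : d < 825 / 10000) (hS : SixSide d S') (_hgap : 0 ≤ sixBP.val u v d S') :
    ∃ i j l : ℕ, 0 < (sixBCond i j l).val u v d S' := by
  exact ⟨0, 415, 0, Ex.pos_of_checkQuick six_b_up_46 (lowMem 10000 hx0 hx1) (lowMem 10000 hy0 hy1)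
    (lowMem 10000 (by push_cast; linarith) hz1) (hS.mem_quad (s := 668369) (c := 825 / 10000) (by linarith) (by norm_num))⟩

theorem six_b_node_67 {u v d S' : ℝ}
    (hx0 : 9300 / 10000 ≤ u) (hx1 : u < 9559 / 10000) (hy0 : 11550 / 10000 ≤ v) (hy1 : v < 20200 / 10000)
    (hz0 : 300 / 10000 ≤ d) (hz1 : d < 825 / 10000) (hS : SixSide d S') (_hgap : 0 ≤ sixBP.val u v d S') :
    ∃ i j l : ℕ, 0 < (sixBCond i j l).val u v d S' := by
  exact ⟨0, 0, 0, Ex.pos_of_checkQuick six_b_up_47 (lowMem 10000 hx0 hx1) (lowMem 10000 hy0 hy1)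
    (lowMem 10000 (by push_cast; linarith) hz1) (hS.mem_quad (s := 668369) (c := 825 / 10000) (by linarith) (by norm_num))⟩

theorem six_b_node_65 {u v d S' : ℝ}
    (hx0 : 9300 / 10000 ≤ u) (hx1 : u < 9559 / 10000) (hy0 : 2900 / 10000 ≤ v) (hy1 : v < 20200 / 10000)
    (hz0 : 300 / 10000 ≤ d) (hz1 : d < 825 / 10000) (hS : SixSide d S') (hgap : 0 ≤ sixBP.val u v d S') :
    ∃ i j l : ℕ, 0 < (sixBCond i j l).val u v d S' := by
  rcases lt_or_ge v (11550 / 10000) with g | g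
  · exact six_b_node_66 hx0 hx1 hy0 g hz0 hz1 hS hgap
  · exact six_b_node_67 hx0 hx1 g hy1 hz0 hz1 hS hgap

theorem six_b_node_69 {u v d S' : ℝ}
    (hx0 : 9300 / 10000 ≤ u) (hx1 : u < 9559 / 10000) (hy0 : 2900 / 10000 ≤ v) (hy1 : v < 11550 / 10000)
    (hz0 : 825 / 10000 ≤ d) (hz1 : d < 1351 / 10000) (hS : SixSide d S') (_hgap : 0 ≤ sixBP.val u v d S') :
    ∃ i j l : ℕ, 0 < (sixBCond i j l).val u v d S' := by
  exact ⟨0, 41, 0, Ex.pos_of_checkQuick six_b_up_48 (lowMem 10000 hx0 hx1) (lowMem 10000 hy0 hy1)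
    (lowMem 10000 (by push_cast; linarith) hz1) (hS.mem_quad (s := 671230) (c := 1351 / 10000) (by linarith) (by norm_num))⟩

theorem six_b_node_70 {u v d S' : ℝ}
    (hx0 : 9300 / 10000 ≤ u) (hx1 : u < 9559 / 10000) (hy0 : 11550 / 10000 ≤ v) (hy1 : v < 20200 / 10000)
    (hz0 : 825 / 10000 ≤ d) (hz1 : d < 1351 / 10000) (hS : SixSide d S') (_hgap : 0 ≤ sixBP.val u v d S') :
    ∃ i j l : ℕ, 0 < (sixBCond i j l).val u v d S' := by
  exact ⟨0, 0, 0, Ex.pos_of_checkQuick six_b_up_49 (lowMem 10000 hx0 hx1) (lowMem 10000 hy0 hy1)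
    (lowMem 10000 (by push_cast; linarith) hz1) (hS.mem_quad (s := 671230) (c := 1351 / 10000) (by linarith) (by norm_num))⟩

theorem six_b_node_68 {u v d S' : ℝ}
    (hx0 : 9300 / 10000 ≤ u) (hx1 : u < 9559 / 10000) (hy0 : 2900 / 10000 ≤ v) (hy1 : v < 20200 / 10000)
    (hz0 : 825 / 10000 ≤ d) (hz1 : d < 1351 / 10000) (hS : SixSide d S') (hgap : 0 ≤ sixBP.val u v d S') :
    ∃ i j l : ℕ, 0 < (sixBCond i j l).val u v d S' := by
  rcases lt_or_ge v (11550 / 10000) with g | g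
  · exact six_b_node_69 hx0 hx1 hy0 g hz0 hz1 hS hgap
  · exact six_b_node_70 hx0 hx1 g hy1 hz0 hz1 hS hgap

theorem six_b_node_64 {u v d S' : ℝ}
    (hx0 : 9300 / 10000 ≤ u) (hx1 : u < 9559 / 10000) (hy0 : 2900 / 10000 ≤ v) (hy1 : v < 20200 / 10000)
    (hz0 : 300 / 10000 ≤ d) (hz1 : d < 1351 / 10000) (hS : SixSide d S') (hgap : 0 ≤ sixBP.val u v d S') :
    ∃ i j l : ℕ, 0 < (sixBCond i j l).val u v d S' := by
  rcases lt_or_ge d (825 / 10000) with g | g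
  · exact six_b_node_65 hx0 hx1 hy0 hy1 hz0 g hS hgap
  · exact six_b_node_68 hx0 hx1 hy0 hy1 g hz1 hS hgap

theorem six_b_node_73 {u v d S' : ℝ}
    (hx0 : 9559 / 10000 ≤ u) (hx1 : u < 9751 / 10000) (hy0 : 2900 / 10000 ≤ v) (hy1 : v < 11550 / 10000)
    (hz0 : 300 / 10000 ≤ d) (hz1 : d < 825 / 10000) (hS : SixSide d S') (_hgap : 0 ≤ sixBP.val u v d S') :
    ∃ i j l : ℕ, 0 < (sixBCond i j l).val u v d S' := by
  exact ⟨0, 8847096241, 0, Ex.pos_of_checkQuick six_b_up_50 (lowMem 10000 hx0 hx1) (lowMem 10000 hy0 hy1)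
    (lowMem 10000 (by push_cast; linarith) hz1) (hS.mem_quad (s := 668369) (c := 825 / 10000) (by linarith) (by norm_num))⟩

theorem six_b_node_74 {u v d S' : ℝ}
    (hx0 : 9559 / 10000 ≤ u) (hx1 : u < 9751 / 10000) (hy0 : 11550 / 10000 ≤ v) (hy1 : v < 20200 / 10000)
    (hz0 : 300 / 10000 ≤ d) (hz1 : d < 825 / 10000) (hS : SixSide d S') (_hgap : 0 ≤ sixBP.val u v d S') :
    ∃ i j l : ℕ, 0 < (sixBCond i j l).val u v d S' := by
  exact ⟨0, 0, 0, Ex.pos_of_checkQuick six_b_up_51 (lowMem 10000 hx0 hx1) (lowMem 10000 hy0 hy1)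
    (lowMem 10000 (by push_cast; linarith) hz1) (hS.mem_quad (s := 668369) (c := 825 / 10000) (by linarith) (by norm_num))⟩

theorem six_b_node_72 {u v d S' : ℝ}
    (hx0 : 9559 / 10000 ≤ u) (hx1 : u < 9751 / 10000) (hy0 : 2900 / 10000 ≤ v) (hy1 : v < 20200 / 10000)
    (hz0 : 300 / 10000 ≤ d) (hz1 : d < 825 / 10000) (hS : SixSide d S') (hgap : 0 ≤ sixBP.val u v d S') :
    ∃ i j l : ℕ, 0 < (sixBCond i j l).val u v d S' := by
  rcases lt_or_ge v (11550 / 10000) with g | g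
  · exact six_b_node_73 hx0 hx1 hy0 g hz0 hz1 hS hgap
  · exact six_b_node_74 hx0 hx1 g hy1 hz0 hz1 hS hgap

theorem six_b_node_76 {u v d S' : ℝ}
    (hx0 : 9559 / 10000 ≤ u) (hx1 : u < 9751 / 10000) (hy0 : 2900 / 10000 ≤ v) (hy1 : v < 11550 / 10000)
    (hz0 : 825 / 10000 ≤ d) (hz1 : d < 1351 / 10000) (hS : SixSide d S') (_hgap : 0 ≤ sixBP.val u v d S') :
    ∃ i j l : ℕ, 0 < (sixBCond i j l).val u v d S' := by
  exact ⟨0, 416, 0, Ex.pos_of_checkQuick six_b_up_52 (lowMem 10000 hx0 hx1) (lowMem 10000 hy0 hy1)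
    (lowMem 10000 (by push_cast; linarith) hz1) (hS.mem_quad (s := 671230) (c := 1351 / 10000) (by linarith) (by norm_num))⟩

theorem six_b_node_77 {u v d S' : ℝ}
    (hx0 : 9559 / 10000 ≤ u) (hx1 : u < 9751 / 10000) (hy0 : 11550 / 10000 ≤ v) (hy1 : v < 20200 / 10000)
    (hz0 : 825 / 10000 ≤ d) (hz1 : d < 1351 / 10000) (hS : SixSide d S') (_hgap : 0 ≤ sixBP.val u v d S') :
    ∃ i j l : ℕ, 0 < (sixBCond i j l).val u v d S' := by
  exact ⟨0, 0, 0, Ex.pos_of_checkQuick six_b_up_53 (lowMem 10000 hx0 hx1) (lowMem 10000 hy0 hy1)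
    (lowMem 10000 (by push_cast; linarith) hz1) (hS.mem_quad (s := 671230) (c := 1351 / 10000) (by linarith) (by norm_num))⟩

theorem six_b_node_75 {u v d S' : ℝ}
    (hx0 : 9559 / 10000 ≤ u) (hx1 : u < 9751 / 10000) (hy0 : 2900 / 10000 ≤ v) (hy1 : v < 20200 / 10000)
    (hz0 : 825 / 10000 ≤ d) (hz1 : d < 1351 / 10000) (hS : SixSide d S') (hgap : 0 ≤ sixBP.val u v d S') :
    ∃ i j l : ℕ, 0 < (sixBCond i j l).val u v d S' := by
  rcases lt_or_ge v (11550 / 10000) with g | g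
  · exact six_b_node_76 hx0 hx1 hy0 g hz0 hz1 hS hgap
  · exact six_b_node_77 hx0 hx1 g hy1 hz0 hz1 hS hgap

theorem six_b_node_71 {u v d S' : ℝ}
    (hx0 : 9559 / 10000 ≤ u) (hx1 : u < 9751 / 10000) (hy0 : 2900 / 10000 ≤ v) (hy1 : v < 20200 / 10000)
    (hz0 : 300 / 10000 ≤ d) (hz1 : d < 1351 / 10000) (hS : SixSide d S') (hgap : 0 ≤ sixBP.val u v d S') :
    ∃ i j l : ℕ, 0 < (sixBCond i j l).val u v d S' := by
  rcases lt_or_ge d (825 / 10000) with g | g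
  · exact six_b_node_72 hx0 hx1 hy0 hy1 hz0 g hS hgap
  · exact six_b_node_75 hx0 hx1 hy0 hy1 g hz1 hS hgap

theorem six_b_node_63 {u v d S' : ℝ}
    (hx0 : 9300 / 10000 ≤ u) (hx1 : u < 9751 / 10000) (hy0 : 2900 / 10000 ≤ v) (hy1 : v < 20200 / 10000)
    (hz0 : 300 / 10000 ≤ d) (hz1 : d < 1351 / 10000) (hS : SixSide d S') (hgap : 0 ≤ sixBP.val u v d S') :
    ∃ i j l : ℕ, 0 < (sixBCond i j l).val u v d S' := by
  rcases lt_or_ge u (9559 / 10000) with g | g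
  · exact six_b_node_64 hx0 g hy0 hy1 hz0 hz1 hS hgap
  · exact six_b_node_71 g hx1 hy0 hy1 hz0 hz1 hS hgap

theorem six_b_node_80 {u v d S' : ℝ}
    (hx0 : 9300 / 10000 ≤ u) (hx1 : u < 9559 / 10000) (hy0 : 20200 / 10000 ≤ v) (hy1 : v < 37501 / 10000)
    (hz0 : 300 / 10000 ≤ d) (hz1 : d < 825 / 10000) (hS : SixSide d S') (_hgap : 0 ≤ sixBP.val u v d S') :
    ∃ i j l : ℕ, 0 < (sixBCond i j l).val u v d S' := by
  exact ⟨1637, 0, 48, Ex.pos_of_checkQuick six_b_up_54 (lowMem 10000 hx0 hx1) (lowMem 10000 hy0 hy1)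
    (lowMem 10000 (by push_cast; linarith) hz1) (hS.mem_quad (s := 668369) (c := 825 / 10000) (by linarith) (by norm_num))⟩

theorem six_b_node_81 {u v d S' : ℝ}
    (hx0 : 9300 / 10000 ≤ u) (hx1 : u < 9559 / 10000) (hy0 : 20200 / 10000 ≤ v) (hy1 : v < 37501 / 10000)
    (hz0 : 825 / 10000 ≤ d) (hz1 : d < 1351 / 10000) (hS : SixSide d S') (_hgap : 0 ≤ sixBP.val u v d S') :
    ∃ i j l : ℕ, 0 < (sixBCond i j l).val u v d S' := by
  exact ⟨0, 0, 0, Ex.pos_of_checkQuick six_b_up_55 (lowMem 10000 hx0 hx1) (lowMem 10000 hy0 hy1)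
    (lowMem 10000 (by push_cast; linarith) hz1) (hS.mem_quad (s := 671230) (c := 1351 / 10000) (by linarith) (by norm_num))⟩

theorem six_b_node_79 {u v d S' : ℝ}
    (hx0 : 9300 / 10000 ≤ u) (hx1 : u < 9559 / 10000) (hy0 : 20200 / 10000 ≤ v) (hy1 : v < 37501 / 10000)
    (hz0 : 300 / 10000 ≤ d) (hz1 : d < 1351 / 10000) (hS : SixSide d S') (hgap : 0 ≤ sixBP.val u v d S') :
    ∃ i j l : ℕ, 0 < (sixBCond i j l).val u v d S' := by
  rcases lt_or_ge d (825 / 10000) with g | g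
  · exact six_b_node_80 hx0 hx1 hy0 hy1 hz0 g hS hgap
  · exact six_b_node_81 hx0 hx1 hy0 hy1 g hz1 hS hgap

theorem six_b_node_86 {u v d S' : ℝ}
    (hx0 : 9559 / 10000 ≤ u) (hx1 : u < 9662 / 10000) (hy0 : 20200 / 10000 ≤ v) (hy1 : v < 28850 / 10000)
    (hz0 : 300 / 10000 ≤ d) (hz1 : d < 562 / 10000) (hS : SixSide d S') (_hgap : 0 ≤ sixBP.val u v d S') :
    ∃ i j l : ℕ, 0 < (sixBCond i j l).val u v d S' := by
  exact ⟨4061, 0, 83, Ex.pos_of_checkQuick six_b_up_56 (lowMem 10000 hx0 hx1) (lowMem 10000 hy0 hy1)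
    (lowMem 10000 (by push_cast; linarith) hz1) (hS.mem_quad (s := 667457) (c := 562 / 10000) (by linarith) (by norm_num))⟩

theorem six_b_node_88 {u v d S' : ℝ}
    (hx0 : 9559 / 10000 ≤ u) (hx1 : u < 9662 / 10000) (hy0 : 20200 / 10000 ≤ v) (hy1 : v < 24525 / 10000)
    (hz0 : 562 / 10000 ≤ d) (hz1 : d < 825 / 10000) (hS : SixSide d S') (_hgap : 0 ≤ sixBP.val u v d S') :
    ∃ i j l : ℕ, 0 < (sixBCond i j l).val u v d S' := by
  exact ⟨0, 0, 0, Ex.pos_of_checkQuick six_b_up_57 (lowMem 10000 hx0 hx1) (lowMem 10000 hy0 hy1)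
    (lowMem 10000 (by push_cast; linarith) hz1) (hS.mem_quad (s := 668369) (c := 825 / 10000) (by linarith) (by norm_num))⟩

theorem six_b_node_89 {u v d S' : ℝ}
    (hx0 : 9559 / 10000 ≤ u) (hx1 : u < 9662 / 10000) (hy0 : 24525 / 10000 ≤ v) (hy1 : v < 28850 / 10000)
    (hz0 : 562 / 10000 ≤ d) (hz1 : d < 825 / 10000) (hS : SixSide d S') (_hgap : 0 ≤ sixBP.val u v d S') :
    ∃ i j l : ℕ, 0 < (sixBCond i j l).val u v d S' := by
  exact ⟨10515, 0, 0, Ex.pos_of_checkQuick six_b_up_58 (lowMem 10000 hx0 hx1) (lowMem 10000 hy0 hy1)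
    (lowMem 10000 (by push_cast; linarith) hz1) (hS.mem_quad (s := 668369) (c := 825 / 10000) (by linarith) (by norm_num))⟩

theorem six_b_node_87 {u v d S' : ℝ}
    (hx0 : 9559 / 10000 ≤ u) (hx1 : u < 9662 / 10000) (hy0 : 20200 / 10000 ≤ v) (hy1 : v < 28850 / 10000)
    (hz0 : 562 / 10000 ≤ d) (hz1 : d < 825 / 10000) (hS : SixSide d S') (hgap : 0 ≤ sixBP.val u v d S') :
    ∃ i j l : ℕ, 0 < (sixBCond i j l).val u v d S' := by
  rcases lt_or_ge v (24525 / 10000) with g | g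
  · exact six_b_node_88 hx0 hx1 hy0 g hz0 hz1 hS hgap
  · exact six_b_node_89 hx0 hx1 g hy1 hz0 hz1 hS hgap

theorem six_b_node_85 {u v d S' : ℝ}
    (hx0 : 9559 / 10000 ≤ u) (hx1 : u < 9662 / 10000) (hy0 : 20200 / 10000 ≤ v) (hy1 : v < 28850 / 10000)
    (hz0 : 300 / 10000 ≤ d) (hz1 : d < 825 / 10000) (hS : SixSide d S') (hgap : 0 ≤ sixBP.val u v d S') :
    ∃ i j l : ℕ, 0 < (sixBCond i j l).val u v d S' := by
  rcases lt_or_ge d (562 / 10000) with g | g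
  · exact six_b_node_86 hx0 hx1 hy0 hy1 hz0 g hS hgap
  · exact six_b_node_87 hx0 hx1 hy0 hy1 g hz1 hS hgap

theorem six_b_node_92 {u v d S' : ℝ}
    (hx0 : 9662 / 10000 ≤ u) (hx1 : u < 9751 / 10000) (hy0 : 20200 / 10000 ≤ v) (hy1 : v < 24525 / 10000)
    (hz0 : 300 / 10000 ≤ d) (hz1 : d < 562 / 10000) (hS : SixSide d S') (_hgap : 0 ≤ sixBP.val u v d S') :
    ∃ i j l : ℕ, 0 < (sixBCond i j l).val u v d S' := by
  exact ⟨0, 0, 0, Ex.pos_of_checkQuick six_b_up_59 (lowMem 10000 hx0 hx1) (lowMem 10000 hy0 hy1)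
    (lowMem 10000 (by push_cast; linarith) hz1) (hS.mem_quad (s := 667457) (c := 562 / 10000) (by linarith) (by norm_num))⟩

theorem six_b_node_93 {u v d S' : ℝ}
    (hx0 : 9662 / 10000 ≤ u) (hx1 : u < 9751 / 10000) (hy0 : 24525 / 10000 ≤ v) (hy1 : v < 28850 / 10000)
    (hz0 : 300 / 10000 ≤ d) (hz1 : d < 562 / 10000) (hS : SixSide d S') (_hgap : 0 ≤ sixBP.val u v d S') :
    ∃ i j l : ℕ, 0 < (sixBCond i j l).val u v d S' := by
  exact ⟨21358, 0, 0, Ex.pos_of_checkQuick six_b_up_60 (lowMem 10000 hx0 hx1) (lowMem 10000 hy0 hy1)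
    (lowMem 10000 (by push_cast; linarith) hz1) (hS.mem_quad (s := 667457) (c := 562 / 10000) (by linarith) (by norm_num))⟩

theorem six_b_node_91 {u v d S' : ℝ}
    (hx0 : 9662 / 10000 ≤ u) (hx1 : u < 9751 / 10000) (hy0 : 20200 / 10000 ≤ v) (hy1 : v < 28850 / 10000)
    (hz0 : 300 / 10000 ≤ d) (hz1 : d < 562 / 10000) (hS : SixSide d S') (hgap : 0 ≤ sixBP.val u v d S') :
    ∃ i j l : ℕ, 0 < (sixBCond i j l).val u v d S' := by
  rcases lt_or_ge v (24525 / 10000) with g | g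
  · exact six_b_node_92 hx0 hx1 hy0 g hz0 hz1 hS hgap
  · exact six_b_node_93 hx0 hx1 g hy1 hz0 hz1 hS hgap

theorem six_b_node_95 {u v d S' : ℝ}
    (hx0 : 9662 / 10000 ≤ u) (hx1 : u < 9751 / 10000) (hy0 : 20200 / 10000 ≤ v) (hy1 : v < 24525 / 10000)
    (hz0 : 562 / 10000 ≤ d) (hz1 : d < 825 / 10000) (hS : SixSide d S') (_hgap : 0 ≤ sixBP.val u v d S') :
    ∃ i j l : ℕ, 0 < (sixBCond i j l).val u v d S' := by
  exact ⟨0, 0, 0, Ex.pos_of_checkQuick six_b_up_61 (lowMem 10000 hx0 hx1) (lowMem 10000 hy0 hy1)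
    (lowMem 10000 (by push_cast; linarith) hz1) (hS.mem_quad (s := 668369) (c := 825 / 10000) (by linarith) (by norm_num))⟩

theorem six_b_node_96 {u v d S' : ℝ}
    (hx0 : 9662 / 10000 ≤ u) (hx1 : u < 9751 / 10000) (hy0 : 24525 / 10000 ≤ v) (hy1 : v < 28850 / 10000)
    (hz0 : 562 / 10000 ≤ d) (hz1 : d < 825 / 10000) (hS : SixSide d S') (_hgap : 0 ≤ sixBP.val u v d S') :
    ∃ i j l : ℕ, 0 < (sixBCond i j l).val u v d S' := by
  exact ⟨12495, 0, 0, Ex.pos_of_checkQuick six_b_up_62 (lowMem 10000 hx0 hx1) (lowMem 10000 hy0 hy1)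
    (lowMem 10000 (by push_cast; linarith) hz1) (hS.mem_quad (s := 668369) (c := 825 / 10000) (by linarith) (by norm_num))⟩

theorem six_b_node_94 {u v d S' : ℝ}
    (hx0 : 9662 / 10000 ≤ u) (hx1 : u < 9751 / 10000) (hy0 : 20200 / 10000 ≤ v) (hy1 : v < 28850 / 10000)
    (hz0 : 562 / 10000 ≤ d) (hz1 : d < 825 / 10000) (hS : SixSide d S') (hgap : 0 ≤ sixBP.val u v d S') :
    ∃ i j l : ℕ, 0 < (sixBCond i j l).val u v d S' := by
  rcases lt_or_ge v (24525 / 10000) with g | g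
  · exact six_b_node_95 hx0 hx1 hy0 g hz0 hz1 hS hgap
  · exact six_b_node_96 hx0 hx1 g hy1 hz0 hz1 hS hgap

theorem six_b_node_90 {u v d S' : ℝ}
    (hx0 : 9662 / 10000 ≤ u) (hx1 : u < 9751 / 10000) (hy0 : 20200 / 10000 ≤ v) (hy1 : v < 28850 / 10000)
    (hz0 : 300 / 10000 ≤ d) (hz1 : d < 825 / 10000) (hS : SixSide d S') (hgap : 0 ≤ sixBP.val u v d S') :
    ∃ i j l : ℕ, 0 < (sixBCond i j l).val u v d S' := by
  rcases lt_or_ge d (562 / 10000) with g | g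
  · exact six_b_node_91 hx0 hx1 hy0 hy1 hz0 g hS hgap
  · exact six_b_node_94 hx0 hx1 hy0 hy1 g hz1 hS hgap

theorem six_b_node_84 {u v d S' : ℝ}
    (hx0 : 9559 / 10000 ≤ u) (hx1 : u < 9751 / 10000) (hy0 : 20200 / 10000 ≤ v) (hy1 : v < 28850 / 10000)
    (hz0 : 300 / 10000 ≤ d) (hz1 : d < 825 / 10000) (hS : SixSide d S') (hgap : 0 ≤ sixBP.val u v d S') :
    ∃ i j l : ℕ, 0 < (sixBCond i j l).val u v d S' := by
  rcases lt_or_ge u (9662 / 10000) with g | g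
  · exact six_b_node_85 hx0 g hy0 hy1 hz0 hz1 hS hgap
  · exact six_b_node_90 g hx1 hy0 hy1 hz0 hz1 hS hgap

theorem six_b_node_97 {u v d S' : ℝ}
    (hx0 : 9559 / 10000 ≤ u) (hx1 : u < 9751 / 10000) (hy0 : 28850 / 10000 ≤ v) (hy1 : v < 37501 / 10000)
    (hz0 : 300 / 10000 ≤ d) (hz1 : d < 825 / 10000) (hS : SixSide d S') (_hgap : 0 ≤ sixBP.val u v d S') :
    ∃ i j l : ℕ, 0 < (sixBCond i j l).val u v d S' := by
  exact ⟨782083, 0, 8065, Ex.pos_of_checkQuick six_b_up_63 (lowMem 10000 hx0 hx1) (lowMem 10000 hy0 hy1)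
    (lowMem 10000 (by push_cast; linarith) hz1) (hS.mem_quad (s := 668369) (c := 825 / 10000) (by linarith) (by norm_num))⟩

theorem six_b_node_83 {u v d S' : ℝ}
    (hx0 : 9559 / 10000 ≤ u) (hx1 : u < 9751 / 10000) (hy0 : 20200 / 10000 ≤ v) (hy1 : v < 37501 / 10000)
    (hz0 : 300 / 10000 ≤ d) (hz1 : d < 825 / 10000) (hS : SixSide d S') (hgap : 0 ≤ sixBP.val u v d S') :
    ∃ i j l : ℕ, 0 < (sixBCond i j l).val u v d S' := by
  rcases lt_or_ge v (28850 / 10000) with g | g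
  · exact six_b_node_84 hx0 hx1 hy0 g hz0 hz1 hS hgap
  · exact six_b_node_97 hx0 hx1 g hy1 hz0 hz1 hS hgap

theorem six_b_node_99 {u v d S' : ℝ}
    (hx0 : 9559 / 10000 ≤ u) (hx1 : u < 9751 / 10000) (hy0 : 20200 / 10000 ≤ v) (hy1 : v < 28850 / 10000)
    (hz0 : 825 / 10000 ≤ d) (hz1 : d < 1351 / 10000) (hS : SixSide d S') (_hgap : 0 ≤ sixBP.val u v d S') :
    ∃ i j l : ℕ, 0 < (sixBCond i j l).val u v d S' := by
  exact ⟨747, 0, 0, Ex.pos_of_checkQuick six_b_up_64 (lowMem 10000 hx0 hx1) (lowMem 10000 hy0 hy1)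
    (lowMem 10000 (by push_cast; linarith) hz1) (hS.mem_quad (s := 671230) (c := 1351 / 10000) (by linarith) (by norm_num))⟩

theorem six_b_node_100 {u v d S' : ℝ}
    (hx0 : 9559 / 10000 ≤ u) (hx1 : u < 9751 / 10000) (hy0 : 28850 / 10000 ≤ v) (hy1 : v < 37501 / 10000)
    (hz0 : 825 / 10000 ≤ d) (hz1 : d < 1351 / 10000) (hS : SixSide d S') (_hgap : 0 ≤ sixBP.val u v d S') :
    ∃ i j l : ℕ, 0 < (sixBCond i j l).val u v d S' := by
  exact ⟨77798776113, 0, 0, Ex.pos_of_checkQuick six_b_up_65 (lowMem 10000 hx0 hx1) (lowMem 10000 hy0 hy1)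
    (lowMem 10000 (by push_cast; linarith) hz1) (hS.mem_quad (s := 671230) (c := 1351 / 10000) (by linarith) (by norm_num))⟩

theorem six_b_node_98 {u v d S' : ℝ}
    (hx0 : 9559 / 10000 ≤ u) (hx1 : u < 9751 / 10000) (hy0 : 20200 / 10000 ≤ v) (hy1 : v < 37501 / 10000)
    (hz0 : 825 / 10000 ≤ d) (hz1 : d < 1351 / 10000) (hS : SixSide d S') (hgap : 0 ≤ sixBP.val u v d S') :
    ∃ i j l : ℕ, 0 < (sixBCond i j l).val u v d S' := by
  rcases lt_or_ge v (28850 / 10000) with g | g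
  · exact six_b_node_99 hx0 hx1 hy0 g hz0 hz1 hS hgap
  · exact six_b_node_100 hx0 hx1 g hy1 hz0 hz1 hS hgap

theorem six_b_node_82 {u v d S' : ℝ}
    (hx0 : 9559 / 10000 ≤ u) (hx1 : u < 9751 / 10000) (hy0 : 20200 / 10000 ≤ v) (hy1 : v < 37501 / 10000)
    (hz0 : 300 / 10000 ≤ d) (hz1 : d < 1351 / 10000) (hS : SixSide d S') (hgap : 0 ≤ sixBP.val u v d S') :
    ∃ i j l : ℕ, 0 < (sixBCond i j l).val u v d S' := by
  rcases lt_or_ge d (825 / 10000) with g | g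
  · exact six_b_node_83 hx0 hx1 hy0 hy1 hz0 g hS hgap
  · exact six_b_node_98 hx0 hx1 hy0 hy1 g hz1 hS hgap

theorem six_b_node_78 {u v d S' : ℝ}
    (hx0 : 9300 / 10000 ≤ u) (hx1 : u < 9751 / 10000) (hy0 : 20200 / 10000 ≤ v) (hy1 : v < 37501 / 10000)
    (hz0 : 300 / 10000 ≤ d) (hz1 : d < 1351 / 10000) (hS : SixSide d S') (hgap : 0 ≤ sixBP.val u v d S') :
    ∃ i j l : ℕ, 0 < (sixBCond i j l).val u v d S' := by
  rcases lt_or_ge u (9559 / 10000) with g | g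
  · exact six_b_node_79 hx0 g hy0 hy1 hz0 hz1 hS hgap
  · exact six_b_node_82 g hx1 hy0 hy1 hz0 hz1 hS hgap

theorem six_b_node_62 {u v d S' : ℝ}
    (hx0 : 9300 / 10000 ≤ u) (hx1 : u < 9751 / 10000) (hy0 : 2900 / 10000 ≤ v) (hy1 : v < 37501 / 10000)
    (hz0 : 300 / 10000 ≤ d) (hz1 : d < 1351 / 10000) (hS : SixSide d S') (hgap : 0 ≤ sixBP.val u v d S') :
    ∃ i j l : ℕ, 0 < (sixBCond i j l).val u v d S' := by
  rcases lt_or_ge v (20200 / 10000) with g | g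
  · exact six_b_node_63 hx0 hx1 hy0 g hz0 hz1 hS hgap
  · exact six_b_node_78 hx0 hx1 g hy1 hz0 hz1 hS hgap

/-- The rung condition on piece B. -/
theorem six_b_up_sign {u v d S' : ℝ} (hu : 1 / 2 ≤ u) (hu1 : u ≤ 39 / 40) (hv : 29 / 100 ≤ v)
    (hv1 : v ≤ 15 / 4) (h0 : 3 / 100 ≤ d) (h1 : d ≤ 27 / 200) (hS : SixSide d S')
    (hgap : 0 ≤ sixBP.val u v d S') : ∃ i j l : ℕ, 0 < (sixBCond i j l).val u v d S' := by
  rcases lt_or_ge u (7000 / 10000) with g0 | g0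
  · exact six_b_node_1 (by linarith) (by linarith) (by linarith) (by linarith) (by linarith) (by linarith) hS hgap
  rcases lt_or_ge u (8500 / 10000) with g1 | g1
  · exact six_b_node_4 (by linarith) (by linarith) (by linarith) (by linarith) (by linarith) (by linarith) hS hgap
  rcases lt_or_ge u (9300 / 10000) with g2 | g2
  · exact six_b_node_23 (by linarith) (by linarith) (by linarith) (by linarith) (by linarith) (by linarith) hS hgap
  exact six_b_node_62 (by linarith) (by linarith) (by linarith) (by linarith) (by linarith) (by linarith) hS hgap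

end Vale.Agent.P100.Calib.Band
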