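import Vale.Agent.P100.Calib.SlabSixUpperTail
import Vale.Agent.P100.Calib.SlabSixUpperStart
import Vale.Agent.P100.Calib.SlabSixUpperBSigns
import Vale.Agent.P100.Calib.SlabSixUpperBands

/-!
# The upper band of piece B, dimension six

Under the exit curve of the piece; needs `al + be ≤ 2/3 + d²/4`.
-/

namespace Vale.Agent.P100.Calib.Band

open BoxPos Bubble Chart

variable {N p q : ℝ} {S : Set ℝ} {R x y s dx dy : ℝ → ℝ}

theorem six_b_val {u v d S' : ℝ} :
    sixBN.val u v d S' = (10782 / 10000 + 12374 / 10000 * d + 38760 / 10000 * (d * d)) + (25272 / 10000 + (-275010) / 10000 * d + 503730 / 10000 * (d * d)) * u +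
        ((-29700) / 10000 + 245756 / 10000 * d + (-383337) / 10000 * (d * d)) * u ^ 2 ∧
      sixBNb.val u v d S' = (2012 / 10000 + (-8887) / 10000 * d + 20378 / 10000 * (d * d)) ∧
      sixBG.val u v d S' = (10235 / 10000 + 6592 / 10000 * d + 61782 / 10000 * (d * d)) - u := by
  refine ⟨?_, ?_, ?_⟩ <;>
    simp only [sixBN, sixBNb, sixBG, eRatN, eQuad, Ex.val, val_addU, val_mulU, val_subU] <;>
    push_cast <;> ring

theorem six_b_M {u v d S' : ℝ} :
    sixBM.val u v d S' = ((25272 / 10000 + (-275010) / 10000 * d + 503730 / 10000 * (d * d)) + 2 * ((-29700) / 10000 + 245756 / 10000 * d + (-383337) / 10000 * (d * d)) * u) * sixBG.val u v d S' +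
      (sixBN.val u v d S' + sixBNb.val u v d S' * v) := by
  simp only [sixBM, eRatM, sixBN, sixBNb, sixBG, eRatN, eQuad, Ex.val, val_addU, val_mulU,
    val_subU]
  push_cast
  ring

theorem six_b_den_pos {d : ℝ} (h0 : 3 / 100 ≤ d) (h1 : d ≤ 27 / 200) :
    39 / 40 < (10235 / 10000 + 6592 / 10000 * d + 61782 / 10000 * (d * d)) := by
  have := Ex.pos_of_checkQuick six_b_den (y₀ := 39 / 40) (y₁ := 29 / 100) (y₂ := d) (y₃ := 2 / 3)
    (lowMem 10000 (by norm_num) (by norm_num)) (lowMem 10000 (by norm_num) (by norm_num))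
    (lowMem 10000 (by push_cast; linarith) (by push_cast; linarith)) (lowMem 1000000 (by norm_num) (by norm_num))
  rw [six_b_val.2.2] at this
  linarith

theorem six_b_start {u d S' : ℝ} (hu : 0 < u) (hu1 : u ≤ 1 / 2) (h0 : 3 / 100 ≤ d) (h1 : d ≤ 27 / 200)
    (hS : (⟨666666, 700000, 1000000⟩ : Side).Mem S') :
    0 ≤ (1 / 2 - u) ^ 2 * sixBG.val u (29 / 100) d S' +
      d * (u * (sixStartGap sixBN sixBNb sixBG).val u (29 / 100) d S') := by
  have hG := six_b_den_pos h0 h1
  have hd : 0 ≤ d := by linarith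
  have hv : (⟨2900, 2901, 10000⟩ : Side).Mem (29 / 100) := lowMem 10000 (by norm_num) (by norm_num)
  rcases lt_or_ge u (4000 / 10000) with g | g
  · have k : 0 < (sixStartBefore sixBN sixBNb sixBG).val u (29 / 100) d S' :=
      Ex.pos_of_checkQuick six_b_before (lowMem 10000 (by push_cast; linarith) (by push_cast; linarith)) hv
        (lowMem 10000 (by push_cast; linarith) (by push_cast; linarith)) hS
    simp only [sixStartBefore, val_addU, val_mulU, val_subU, Ex.val] at k
    push_cast at k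
    linarith
  · have hp : 0 < (sixStartGap sixBN sixBNb sixBG).val u (29 / 100) d S' := by
      rcases lt_or_ge u (4700 / 10000) with h | h
      · rcases lt_or_ge d (825 / 10000) with h | h
        · exact Ex.pos_of_checkQuick six_b_gap_0_0 (lowMem 10000 (by push_cast; linarith) (by push_cast; linarith)) hv (lowMem 10000 (by push_cast; linarith) (by push_cast; linarith)) hS
        · rcases lt_or_ge d (1088 / 10000) with h | h
          · exact Ex.pos_of_checkQuick six_b_gap_0_1 (lowMem 10000 (by push_cast; linarith) (by push_cast; linarith)) hv (lowMem 10000 (by push_cast; linarith) (by push_cast; linarith)) hS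
          · exact Ex.pos_of_checkQuick six_b_gap_0_2 (lowMem 10000 (by push_cast; linarith) (by push_cast; linarith)) hv (lowMem 10000 (by push_cast; linarith) (by push_cast; linarith)) hS
      · rcases lt_or_ge d (825 / 10000) with h | h
        · exact Ex.pos_of_checkQuick six_b_gap_1_0 (lowMem 10000 (by push_cast; linarith) (by push_cast; linarith)) hv (lowMem 10000 (by push_cast; linarith) (by push_cast; linarith)) hS
        · rcases lt_or_ge d (1088 / 10000) with h | h
          · exact Ex.pos_of_checkQuick six_b_gap_1_1 (lowMem 10000 (by push_cast; linarith) (by push_cast; linarith)) hv (lowMem 10000 (by push_cast; linarith) (by push_cast; linarith)) hS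
          · exact Ex.pos_of_checkQuick six_b_gap_1_2 (lowMem 10000 (by push_cast; linarith) (by push_cast; linarith)) hv (lowMem 10000 (by push_cast; linarith) (by push_cast; linarith)) hS
    have h2 : 0 ≤ (1 / 2 - u) ^ 2 * sixBG.val u (29 / 100) d S' := by
      rw [six_b_val.2.2]
      exact mul_nonneg (sq_nonneg _) (by linarith)
    linarith [mul_nonneg hd (mul_nonneg hu.le hp.le)]

theorem six_b_before_le {u v d S' : ℝ} (hu : 0 < u) (hu1 : u ≤ 1 / 2) (hv : 29 / 100 ≤ v)
    (h0 : 3 / 100 ≤ d) (h1 : d ≤ 27 / 200) (hS : (⟨666666, 700000, 1000000⟩ : Side).Mem S') :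
    d * (u * (sixUfun d u - ratA (10782 / 10000 + 12374 / 10000 * d + 38760 / 10000 * (d * d)) (25272 / 10000 + (-275010) / 10000 * d + 503730 / 10000 * (d * d)) ((-29700) / 10000 + 245756 / 10000 * d + (-383337) / 10000 * (d * d)) (10235 / 10000 + 6592 / 10000 * d + 61782 / 10000 * (d * d)) u -
      ratB (2012 / 10000 + (-8887) / 10000 * d + 20378 / 10000 * (d * d)) (10235 / 10000 + 6592 / 10000 * d + 61782 / 10000 * (d * d)) u * v)) ≤ (1 / 2 - u) ^ 2 := by
  have k := six_b_start hu hu1 h0 h1 hS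
  have ht : 0 < sixBNb.val u (29 / 100) d S' := Ex.pos_of_checkQuick six_b_tilt
    (lowMem 10000 (by push_cast; linarith) (by push_cast; linarith)) (lowMem 10000 (by norm_num) (by norm_num))
    (lowMem 10000 (by push_cast; linarith) (by push_cast; linarith)) hS
  obtain ⟨eN, eB, eG⟩ := six_b_val (u := u) (v := 29 / 100) (d := d) (S' := S')
  have hg : 0 < sixBG.val u (29 / 100) d S' := by
    rw [eG]; linarith [six_b_den_pos h0 h1]
  have hd : 0 ≤ d := by linarith
  have eU : sixU0.val u (29 / 100) d S' = sixUfun d u := by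
    simp only [sixU0, eRatN, eQuad, Ex.val, val_addU, val_mulU, sixUfun, sixUc₁, sixUc₂, sixUc₃]
    push_cast
    ring
  simp only [sixStartGap, val_addU, val_subU, val_mulU, Ex.val, eU] at k
  simp only [ratA, ratB, ← eN, ← eB, ← eG]
  generalize sixBN.val u (29 / 100) d S' = n at k ⊢
  generalize sixBNb.val u (29 / 100) d S' = b at k ht ⊢
  generalize sixBG.val u (29 / 100) d S' = g at k hg ⊢
  have hb := mul_nonneg (mul_nonneg hd hu.le) (mul_nonneg ht.le (sub_nonneg.2 hv))
  refine le_of_mul_le_mul_right ?_ hg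
  refine le_of_eq_of_le (b := d * (u * (sixUfun d u * g - n - b * v))) ?_ ?_
  · field_simp
  · linarith

theorem six_b_phi_gap {u v d S' : ℝ} (h0 : 3 / 100 ≤ d) (h1 : d ≤ 27 / 200) (hu : u ≤ 39 / 40)
    (hv : v < sixPhiB d u) : 0 ≤ sixBP.val u v d S' := by
  have hq : 39 / 40 < (10679 / 10000 + (-15531) / 10000 * d + 94429 / 10000 * (d * d)) := by
    linarith [mul_self_nonneg (d - 822 / 10000), mul_le_mul h1 h1 (by linarith) (by norm_num)]
  simp only [sixPhiB] at hv
  rw [lt_div_iff₀ (by linarith)] at hv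
  simp only [sixBP, eRatN, eQuad, Ex.val, val_addU, val_mulU, val_subU]
  push_cast
  linarith

/-- **The tilted upper band of piece B.** -/
theorem orbit_upperTail_sixB (hf : IsOrbitFns N p q S R x y s dx dy)
    (hb : SlabBoxSix N (1 / (p + 1)) (1 / (q + 1)))
    (h0 : 3 / 100 ≤ 1 / (q + 1) - 1 / (p + 1)) (h1 : 1 / (q + 1) - 1 / (p + 1) ≤ 27 / 200)
    (hS : 1 / (p + 1) + 1 / (q + 1) ≤ 2 / 3 + (1 / (q + 1) - 1 / (p + 1)) ^ 2 / 4)
    (hphi : ∀ w ∈ S, 0 < R w → 1 / 2 ≤ uOf N (R w) (x w) → uOf N (R w) (x w) ≤ 39 / 40 →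
      vOf (1 / (p + 1)) (1 / (q + 1)) (y w / x w) <
        sixPhiB (1 / (q + 1) - 1 / (p + 1)) (uOf N (R w) (x w)))
    {w : ℝ} (hw : w ∈ S) (hw0 : 0 < R w) (hu : 1 / 2 ≤ uOf N (R w) (x w))
    (hwu : uOf N (R w) (x w) ≤ 39 / 40) :
    hOf N (R w) (x w) (y w) w < bandT N (1 / (p + 1)) (1 / (q + 1))
        (1 / (q + 1) - 1 / (p + 1)) (sixUpB (1 / (q + 1) - 1 / (p + 1)))
        (uOf N (R w) (x w)) (y w / x w) +
      (1 / (q + 1) - 1 / (p + 1)) * uOf N (R w) (x w) *
        (sixTiltB (1 / (q + 1) - 1 / (p + 1)) (uOf N (R w) (x w)) *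
          vOf (1 / (p + 1)) (1 / (q + 1)) (y w / x w)) := by
  set al := 1 / (p + 1) with hald
  set be := 1 / (q + 1) with hbed
  set d := be - al with hdd
  have hside := hb.sixSide hS
  rw [← hdd] at hside
  have hq := six_b_den_pos h0 h1
  have hmemS : (⟨666666, 700000, 1000000⟩ : Side).Mem (al + be) :=
    hside.mem_high (by norm_num)
  have key := orbit_upper_ratio_six hf hb (n₀ := (10782 / 10000 + 12374 / 10000 * d + 38760 / 10000 * (d * d)))
    (n₁ := (25272 / 10000 + (-275010) / 10000 * d + 503730 / 10000 * (d * d))) (n₂ := ((-29700) / 10000 + 245756 / 10000 * d + (-383337) / 10000 * (d * d)))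
    (qq := (10235 / 10000 + 6592 / 10000 * d + 61782 / 10000 * (d * d))) (b := (2012 / 10000 + (-8887) / 10000 * d + 20378 / 10000 * (d * d)))
    hq hphi (fun u v hu hu1 hv => six_b_before_le hu hu1 hv h0 h1 hmemS)
    (fun u v hu hu1 hv hv1 hP he hp => ?_) hw hw0 hu hwu
  · refine lt_of_lt_of_eq key ?_
    simp only [bandT, ratA, ratB, sixUpB, sixTiltB, ← hald, ← hbed, ← hdd]
    ring
  · obtain ⟨i, j, l, hc⟩ := six_b_up_sign (S' := al + be) hu hu1 hv hv1 h0 h1 hside
      (six_b_phi_gap h0 h1 hu1 hP)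
    obtain ⟨eN, eB, eG⟩ := six_b_val (u := u) (v := v) (d := d) (S' := al + be)
    have hg : 0 < sixBG.val u v d (al + be) := by rw [eG]; linarith
    have hgap := six_b_phi_gap (S' := al + be) h0 h1 hu1 hP
    have hc' : 0 < (eUpRat sixBN sixBNb sixBG sixBM i j).val u v d (al + be) := by
      simp only [sixBCond, val_subU (eUpRat _ _ _ _ _ _), val_mulU (eC l 1000), val_mulU,
        Ex.val] at hc
      push_cast at hc
      have := mul_nonneg (show (0 : ℝ) ≤ (l : ℝ) / 1000 by positivity)
        (mul_nonneg (mul_self_nonneg (sixBG.val u v d (al + be))) hgap)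
      linarith
    refine upperV_pos_of_rat u v d (al + be) hc' hg ?_ ?_ ?_ he hp
    · rw [ratA, eN, eG, div_mul_cancel₀ _ (by linarith)]
    · rw [ratB, eB, eG, div_mul_cancel₀ _ (by linarith)]
    · rw [six_b_M, ratA', ratB', eN, eB, eG]
      rw [eG] at hg
      generalize (10235 / 10000 + 6592 / 10000 * d + 61782 / 10000 * (d * d)) - u = g at hg ⊢
      field_simp
      ring

end Vale.Agent.P100.Calib.Band
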