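import Vale.Agent.P100.Calib.SlabSixUpperBox

/-!
# Certificates of the upper band of piece C
-/

-- The checks are definitions, so that they run one after another with little memory.
set_option linter.defProp false

namespace Vale.Agent.P100.Calib.Band

open BoxPos

def six_c_up_114 : (sixCCond 0 0 0).checkQuick sixUpCfg
    (sixUpBox 8500 8626 7225 9387 2094 2342 673470) = true := by decide +kernel

def six_c_up_115 : (sixCCond 0 0 0).checkQuick sixUpCfg
    (sixUpBox 8500 8626 9387 11550 2094 2342 673470) = true := by decide +kernel

def six_c_up_116 : (sixCCond 0 0 0).checkQuick sixUpCfg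
    (sixUpBox 8626 8745 7225 9387 1846 2094 673470) = true := by decide +kernel

def six_c_up_117 : (sixCCond 0 0 0).checkQuick sixUpCfg
    (sixUpBox 8626 8745 9387 11550 1846 2094 673470) = true := by decide +kernel

def six_c_up_118 : (sixCCond 0 0 0).checkQuick sixUpCfg
    (sixUpBox 8626 8686 7225 9387 2094 2342 673470) = true := by decide +kernel

def six_c_up_119 : (sixCCond 0 0 0).checkQuick sixUpCfg
    (sixUpBox 8686 8745 7225 9387 2094 2342 673470) = true := by decide +kernel

def six_c_up_120 : (sixCCond 0 0 0).checkQuick sixUpCfg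
    (sixUpBox 8626 8745 9387 11550 2094 2342 673470) = true := by decide +kernel

def six_c_up_121 : (sixCCond 0 2871116906 0).checkQuick sixUpCfg
    (sixUpBox 8745 8958 2900 7225 1350 1846 673470) = true := by decide +kernel

def six_c_up_122 : (sixCCond 0 0 0).checkQuick sixUpCfg
    (sixUpBox 8745 8958 7225 11550 1350 1846 673470) = true := by decide +kernel

def six_c_up_123 : (sixCCond 0 2247304193 0).checkQuick sixUpCfg
    (sixUpBox 8745 8958 2900 7225 1846 2342 673470) = true := by decide +kernel

def six_c_up_124 : (sixCCond 0 0 0).checkQuick sixUpCfg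
    (sixUpBox 8745 8855 7225 9387 1846 2094 673470) = true := by decide +kernel

def six_c_up_125 : (sixCCond 0 0 0).checkQuick sixUpCfg
    (sixUpBox 8745 8855 9387 11550 1846 2094 673470) = true := by decide +kernel

def six_c_up_126 : (sixCCond 0 0 0).checkQuick sixUpCfg
    (sixUpBox 8745 8855 7225 9387 2094 2342 673470) = true := by decide +kernel

def six_c_up_127 : (sixCCond 0 0 0).checkQuick sixUpCfg
    (sixUpBox 8745 8855 9387 11550 2094 2342 673470) = true := by decide +kernel

def six_c_up_128 : (sixCCond 0 0 0).checkQuick sixUpCfg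
    (sixUpBox 8855 8958 7225 9387 1846 2094 673470) = true := by decide +kernel

def six_c_up_129 : (sixCCond 0 0 0).checkQuick sixUpCfg
    (sixUpBox 8855 8958 9387 11550 1846 2094 673470) = true := by decide +kernel

def six_c_up_130 : (sixCCond 0 0 0).checkQuick sixUpCfg
    (sixUpBox 8855 8958 7225 9387 2094 2342 673470) = true := by decide +kernel

def six_c_up_131 : (sixCCond 0 0 0).checkQuick sixUpCfg
    (sixUpBox 8855 8958 9387 11550 2094 2342 673470) = true := by decide +kernel

def six_c_up_132 : (sixCCond 0 0 0).checkQuick sixUpCfg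
    (sixUpBox 8500 8958 11550 20200 1350 2342 673470) = true := by decide +kernel

def six_c_up_133 : (sixCCond 0 0 0).checkQuick sixUpCfg
    (sixUpBox 8500 8745 2900 7225 2342 2838 673470) = true := by decide +kernel

def six_c_up_134 : (sixCCond 0 0 0).checkQuick sixUpCfg
    (sixUpBox 8500 8626 7225 9387 2342 2590 673470) = true := by decide +kernel

def six_c_up_135 : (sixCCond 0 0 0).checkQuick sixUpCfg
    (sixUpBox 8500 8626 9387 11550 2342 2590 673470) = true := by decide +kernel

def six_c_up_136 : (sixCCond 0 0 0).checkQuick sixUpCfg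
    (sixUpBox 8500 8626 7225 9387 2590 2838 673470) = true := by decide +kernel

def six_c_up_137 : (sixCCond 0 0 0).checkQuick sixUpCfg
    (sixUpBox 8500 8626 9387 11550 2590 2838 673470) = true := by decide +kernel

def six_c_up_138 : (sixCCond 0 0 0).checkQuick sixUpCfg
    (sixUpBox 8626 8745 7225 9387 2342 2590 673470) = true := by decide +kernel

def six_c_up_139 : (sixCCond 0 0 0).checkQuick sixUpCfg
    (sixUpBox 8626 8745 9387 11550 2342 2590 673470) = true := by decide +kernel

def six_c_up_140 : (sixCCond 0 0 0).checkQuick sixUpCfg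
    (sixUpBox 8626 8745 7225 9387 2590 2838 673470) = true := by decide +kernel

def six_c_up_141 : (sixCCond 0 0 0).checkQuick sixUpCfg
    (sixUpBox 8626 8745 9387 11550 2590 2838 673470) = true := by decide +kernel

def six_c_up_142 : (sixCCond 0 1300640744 0).checkQuick sixUpCfg
    (sixUpBox 8500 8626 2900 5062 2838 3086 673470) = true := by decide +kernel

def six_c_up_143 : (sixCCond 0 0 0).checkQuick sixUpCfg
    (sixUpBox 8500 8626 5062 7225 2838 3086 673470) = true := by decide +kernel

def six_c_up_144 : (sixCCond 0 27 0).checkQuick sixUpCfg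
    (sixUpBox 8500 8626 2900 7225 3086 3334 672851) = true := by decide +kernel

def six_c_up_145 : (sixCCond 0 1314816236 0).checkQuick sixUpCfg
    (sixUpBox 8626 8745 2900 5062 2838 3086 673470) = true := by decide +kernel

def six_c_up_146 : (sixCCond 0 0 0).checkQuick sixUpCfg
    (sixUpBox 8626 8745 5062 7225 2838 3086 673470) = true := by decide +kernel

def six_c_up_147 : (sixCCond 0 1072066694 0).checkQuick sixUpCfg
    (sixUpBox 8626 8745 2900 5062 3086 3334 672851) = true := by decide +kernel

def six_c_up_148 : (sixCCond 0 29 0).checkQuick sixUpCfg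
    (sixUpBox 8626 8745 5062 7225 3086 3334 672851) = true := by decide +kernel

def six_c_up_149 : (sixCCond 0 0 0).checkQuick sixUpCfg
    (sixUpBox 8500 8745 7225 11550 2838 3334 673470) = true := by decide +kernel

def six_c_up_150 : (sixCCond 0 0 0).checkQuick sixUpCfg
    (sixUpBox 8745 8958 2900 7225 2342 2838 673470) = true := by decide +kernel

def six_c_up_151 : (sixCCond 0 0 0).checkQuick sixUpCfg
    (sixUpBox 8745 8855 7225 9387 2342 2590 673470) = true := by decide +kernel

def six_c_up_152 : (sixCCond 0 0 0).checkQuick sixUpCfg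
    (sixUpBox 8745 8855 9387 11550 2342 2590 673470) = true := by decide +kernel

def six_c_up_153 : (sixCCond 0 0 0).checkQuick sixUpCfg
    (sixUpBox 8745 8855 7225 9387 2590 2838 673470) = true := by decide +kernel

def six_c_up_154 : (sixCCond 0 0 0).checkQuick sixUpCfg
    (sixUpBox 8745 8855 9387 11550 2590 2838 673470) = true := by decide +kernel

def six_c_up_155 : (sixCCond 0 0 0).checkQuick sixUpCfg
    (sixUpBox 8855 8958 7225 9387 2342 2590 673470) = true := by decide +kernel

def six_c_up_156 : (sixCCond 0 0 0).checkQuick sixUpCfg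
    (sixUpBox 8855 8958 9387 11550 2342 2590 673470) = true := by decide +kernel

def six_c_up_157 : (sixCCond 0 0 0).checkQuick sixUpCfg
    (sixUpBox 8855 8958 7225 9387 2590 2838 673470) = true := by decide +kernel

def six_c_up_158 : (sixCCond 0 0 0).checkQuick sixUpCfg
    (sixUpBox 8855 8958 9387 11550 2590 2838 673470) = true := by decide +kernel

def six_c_up_159 : (sixCCond 0 1326386945 0).checkQuick sixUpCfg
    (sixUpBox 8745 8855 2900 5062 2838 3086 673470) = true := by decide +kernel

def six_c_up_160 : (sixCCond 0 0 0).checkQuick sixUpCfg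
    (sixUpBox 8745 8855 5062 7225 2838 3086 673470) = true := by decide +kernel

def six_c_up_161 : (sixCCond 0 1087512601 0).checkQuick sixUpCfg
    (sixUpBox 8745 8855 2900 5062 3086 3334 672851) = true := by decide +kernel

end Vale.Agent.P100.Calib.Band
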