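import Vale.Agent.P100.Calib.SlabSixUpperBox

/-!
# Certificates of the upper band of piece C
-/

-- The checks are definitions, so that they run one after another with little memory.
set_option linter.defProp false

namespace Vale.Agent.P100.Calib.Band

open BoxPos

def six_c_up_162 : (sixCCond 0 32 0).checkQuick sixUpCfg
    (sixUpBox 8745 8855 5062 7225 3086 3334 672851) = true := by decide +kernel

def six_c_up_163 : (sixCCond 0 1335977047 0).checkQuick sixUpCfg
    (sixUpBox 8855 8958 2900 5062 2838 3086 673470) = true := by decide +kernel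

def six_c_up_164 : (sixCCond 0 16 0).checkQuick sixUpCfg
    (sixUpBox 8855 8958 5062 7225 2838 3086 673470) = true := by decide +kernel

def six_c_up_165 : (sixCCond 0 1100375811 0).checkQuick sixUpCfg
    (sixUpBox 8855 8958 2900 5062 3086 3334 672851) = true := by decide +kernel

def six_c_up_166 : (sixCCond 0 53 0).checkQuick sixUpCfg
    (sixUpBox 8855 8958 5062 7225 3086 3334 672851) = true := by decide +kernel

def six_c_up_167 : (sixCCond 0 0 0).checkQuick sixUpCfg
    (sixUpBox 8745 8958 7225 11550 2838 3334 673470) = true := by decide +kernel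

def six_c_up_168 : (sixCCond 0 0 0).checkQuick sixUpCfg
    (sixUpBox 8500 8958 11550 20200 2342 3334 673470) = true := by decide +kernel

def six_c_up_169 : (sixCCond 0 2942134026 0).checkQuick sixUpCfg
    (sixUpBox 8958 9141 2900 7225 1350 1846 673470) = true := by decide +kernel

def six_c_up_170 : (sixCCond 0 0 0).checkQuick sixUpCfg
    (sixUpBox 8958 9141 7225 11550 1350 1846 673470) = true := by decide +kernel

def six_c_up_171 : (sixCCond 0 2281532837 0).checkQuick sixUpCfg
    (sixUpBox 8958 9141 2900 7225 1846 2342 673470) = true := by decide +kernel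

def six_c_up_172 : (sixCCond 0 0 0).checkQuick sixUpCfg
    (sixUpBox 8958 9052 7225 9387 1846 2094 673470) = true := by decide +kernel

def six_c_up_173 : (sixCCond 0 0 0).checkQuick sixUpCfg
    (sixUpBox 8958 9052 9387 11550 1846 2094 673470) = true := by decide +kernel

def six_c_up_174 : (sixCCond 0 0 0).checkQuick sixUpCfg
    (sixUpBox 8958 9052 7225 9387 2094 2342 673470) = true := by decide +kernel

def six_c_up_175 : (sixCCond 0 0 0).checkQuick sixUpCfg
    (sixUpBox 8958 9052 9387 11550 2094 2342 673470) = true := by decide +kernel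

def six_c_up_176 : (sixCCond 0 0 0).checkQuick sixUpCfg
    (sixUpBox 9052 9141 7225 9387 1846 2094 673470) = true := by decide +kernel

def six_c_up_177 : (sixCCond 0 0 0).checkQuick sixUpCfg
    (sixUpBox 9052 9141 9387 11550 1846 2094 673470) = true := by decide +kernel

def six_c_up_178 : (sixCCond 0 0 0).checkQuick sixUpCfg
    (sixUpBox 9052 9141 7225 9387 2094 2342 673470) = true := by decide +kernel

def six_c_up_179 : (sixCCond 0 0 0).checkQuick sixUpCfg
    (sixUpBox 9052 9141 9387 11550 2094 2342 673470) = true := by decide +kernel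

def six_c_up_180 : (sixCCond 0 0 0).checkQuick sixUpCfg
    (sixUpBox 9141 9300 2900 11550 1350 1846 673470) = true := by decide +kernel

def six_c_up_181 : (sixCCond 0 2312701847 0).checkQuick sixUpCfg
    (sixUpBox 9141 9300 2900 7225 1846 2342 673470) = true := by decide +kernel

def six_c_up_182 : (sixCCond 0 0 0).checkQuick sixUpCfg
    (sixUpBox 9141 9223 7225 11550 1846 2094 673470) = true := by decide +kernel

def six_c_up_183 : (sixCCond 0 0 0).checkQuick sixUpCfg
    (sixUpBox 9141 9223 7225 9387 2094 2342 673470) = true := by decide +kernel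

def six_c_up_184 : (sixCCond 0 0 0).checkQuick sixUpCfg
    (sixUpBox 9141 9223 9387 11550 2094 2342 673470) = true := by decide +kernel

def six_c_up_185 : (sixCCond 0 0 0).checkQuick sixUpCfg
    (sixUpBox 9223 9300 7225 11550 1846 2342 673470) = true := by decide +kernel

def six_c_up_186 : (sixCCond 0 0 0).checkQuick sixUpCfg
    (sixUpBox 8958 9141 11550 20200 1350 2342 673470) = true := by decide +kernel

def six_c_up_187 : (sixCCond 0 0 0).checkQuick sixUpCfg
    (sixUpBox 9141 9300 11550 15875 1350 1846 673470) = true := by decide +kernel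

def six_c_up_188 : (sixCCond 0 0 0).checkQuick sixUpCfg
    (sixUpBox 9141 9300 15875 20200 1350 1846 673470) = true := by decide +kernel

def six_c_up_189 : (sixCCond 0 0 0).checkQuick sixUpCfg
    (sixUpBox 9141 9300 11550 20200 1846 2342 673470) = true := by decide +kernel

def six_c_up_190 : (sixCCond 0 1790125961 0).checkQuick sixUpCfg
    (sixUpBox 8958 9141 2900 7225 2342 2838 673470) = true := by decide +kernel

def six_c_up_191 : (sixCCond 0 0 0).checkQuick sixUpCfg
    (sixUpBox 8958 9052 7225 9387 2342 2590 673470) = true := by decide +kernel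

def six_c_up_192 : (sixCCond 0 0 0).checkQuick sixUpCfg
    (sixUpBox 8958 9052 9387 11550 2342 2590 673470) = true := by decide +kernel

def six_c_up_193 : (sixCCond 0 0 0).checkQuick sixUpCfg
    (sixUpBox 8958 9052 7225 9387 2590 2838 673470) = true := by decide +kernel

def six_c_up_194 : (sixCCond 0 0 0).checkQuick sixUpCfg
    (sixUpBox 8958 9052 9387 11550 2590 2838 673470) = true := by decide +kernel

def six_c_up_195 : (sixCCond 0 0 0).checkQuick sixUpCfg
    (sixUpBox 9052 9141 7225 9387 2342 2590 673470) = true := by decide +kernel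

def six_c_up_196 : (sixCCond 0 0 0).checkQuick sixUpCfg
    (sixUpBox 9052 9141 9387 11550 2342 2590 673470) = true := by decide +kernel

def six_c_up_197 : (sixCCond 0 0 0).checkQuick sixUpCfg
    (sixUpBox 9052 9141 7225 9387 2590 2838 673470) = true := by decide +kernel

def six_c_up_198 : (sixCCond 0 0 0).checkQuick sixUpCfg
    (sixUpBox 9052 9141 9387 11550 2590 2838 673470) = true := by decide +kernel

def six_c_up_199 : (sixCCond 0 25 0).checkQuick sixUpCfg
    (sixUpBox 8958 9052 2900 7225 2838 3086 673470) = true := by decide +kernel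

def six_c_up_200 : (sixCCond 0 1110846794 0).checkQuick sixUpCfg
    (sixUpBox 8958 9052 2900 5062 3086 3334 672851) = true := by decide +kernel

def six_c_up_201 : (sixCCond 0 62 0).checkQuick sixUpCfg
    (sixUpBox 8958 9052 5062 7225 3086 3334 672851) = true := by decide +kernel

def six_c_up_202 : (sixCCond 0 1350281369 0).checkQuick sixUpCfg
    (sixUpBox 9052 9141 2900 7225 2838 3086 673470) = true := by decide +kernel

def six_c_up_203 : (sixCCond 0 79 0).checkQuick sixUpCfg
    (sixUpBox 9052 9141 2900 7225 3086 3334 672851) = true := by decide +kernel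

def six_c_up_204 : (sixCCond 0 0 0).checkQuick sixUpCfg
    (sixUpBox 8958 9052 7225 11550 2838 3334 673470) = true := by decide +kernel

def six_c_up_205 : (sixCCond 0 27 0).checkQuick sixUpCfg
    (sixUpBox 9052 9141 7225 9387 2838 3086 673470) = true := by decide +kernel

def six_c_up_206 : (sixCCond 0 0 0).checkQuick sixUpCfg
    (sixUpBox 9052 9141 9387 11550 2838 3086 673470) = true := by decide +kernel

def six_c_up_207 : (sixCCond 0 70 0).checkQuick sixUpCfg
    (sixUpBox 9052 9141 7225 9387 3086 3334 672851) = true := by decide +kernel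

def six_c_up_208 : (sixCCond 0 0 0).checkQuick sixUpCfg
    (sixUpBox 9052 9141 9387 11550 3086 3334 672851) = true := by decide +kernel

def six_c_up_209 : (sixCCond 0 1803921995 0).checkQuick sixUpCfg
    (sixUpBox 9141 9300 2900 7225 2342 2838 673470) = true := by decide +kernel

end Vale.Agent.P100.Calib.Band
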