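import Vale.Agent.P100.Calib.SlabSixUpperBox

/-!
# Certificates of the upper band of piece C
-/

-- The checks are definitions, so that they run one after another with little memory.
set_option linter.defProp false

namespace Vale.Agent.P100.Calib.Band

open BoxPos

def six_c_up_210 : (sixCCond 0 0 0).checkQuick sixUpCfg
    (sixUpBox 9141 9300 7225 11550 2342 2838 673470) = true := by decide +kernel

def six_c_up_211 : (sixCCond 0 5689 0).checkQuick sixUpCfg
    (sixUpBox 9141 9300 2900 7225 2838 3334 673470) = true := by decide +kernel

def six_c_up_212 : (sixCCond 0 36 0).checkQuick sixUpCfg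
    (sixUpBox 9141 9223 7225 9387 2838 3086 673470) = true := by decide +kernel

def six_c_up_213 : (sixCCond 0 0 0).checkQuick sixUpCfg
    (sixUpBox 9141 9223 9387 11550 2838 3086 673470) = true := by decide +kernel

def six_c_up_214 : (sixCCond 0 79 0).checkQuick sixUpCfg
    (sixUpBox 9141 9223 7225 9387 3086 3334 672851) = true := by decide +kernel

def six_c_up_215 : (sixCCond 0 0 0).checkQuick sixUpCfg
    (sixUpBox 9141 9223 9387 11550 3086 3334 672851) = true := by decide +kernel

def six_c_up_216 : (sixCCond 0 38 0).checkQuick sixUpCfg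
    (sixUpBox 9223 9300 7225 9387 2838 3086 673470) = true := by decide +kernel

def six_c_up_217 : (sixCCond 0 0 0).checkQuick sixUpCfg
    (sixUpBox 9223 9300 9387 11550 2838 3086 673470) = true := by decide +kernel

def six_c_up_218 : (sixCCond 0 61 0).checkQuick sixUpCfg
    (sixUpBox 9223 9262 7225 9387 3086 3210 672851) = true := by decide +kernel

def six_c_up_219 : (sixCCond 0 88 0).checkQuick sixUpCfg
    (sixUpBox 9223 9262 7225 9387 3210 3334 669751) = true := by decide +kernel

def six_c_up_220 : (sixCCond 0 82 0).checkQuick sixUpCfg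
    (sixUpBox 9262 9300 7225 9387 3086 3334 672851) = true := by decide +kernel

def six_c_up_221 : (sixCCond 0 0 0).checkQuick sixUpCfg
    (sixUpBox 9223 9300 9387 11550 3086 3334 672851) = true := by decide +kernel

def six_c_up_222 : (sixCCond 0 0 0).checkQuick sixUpCfg
    (sixUpBox 8958 9300 11550 20200 2342 3334 673470) = true := by decide +kernel

def six_c_up_223 : (sixCCond 0 0 0).checkQuick sixUpCfg
    (sixUpBox 9300 9439 2900 11550 1350 1846 673470) = true := by decide +kernel

def six_c_up_224 : (sixCCond 0 2341526812 0).checkQuick sixUpCfg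
    (sixUpBox 9300 9439 2900 7225 1846 2342 673470) = true := by decide +kernel

def six_c_up_225 : (sixCCond 0 0 0).checkQuick sixUpCfg
    (sixUpBox 9300 9439 7225 11550 1846 2342 673470) = true := by decide +kernel

def six_c_up_226 : (sixCCond 0 0 0).checkQuick sixUpCfg
    (sixUpBox 9439 9559 2900 11550 1350 1846 673470) = true := by decide +kernel

def six_c_up_227 : (sixCCond 0 0 0).checkQuick sixUpCfg
    (sixUpBox 9439 9559 2900 7225 1846 2342 673470) = true := by decide +kernel

def six_c_up_228 : (sixCCond 0 0 0).checkQuick sixUpCfg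
    (sixUpBox 9439 9559 7225 11550 1846 2342 673470) = true := by decide +kernel

def six_c_up_229 : (sixCCond 0 0 0).checkQuick sixUpCfg
    (sixUpBox 9300 9439 11550 15875 1350 1846 673470) = true := by decide +kernel

def six_c_up_230 : (sixCCond 0 0 0).checkQuick sixUpCfg
    (sixUpBox 9300 9439 15875 20200 1350 1846 673470) = true := by decide +kernel

def six_c_up_231 : (sixCCond 0 0 0).checkQuick sixUpCfg
    (sixUpBox 9300 9439 11550 20200 1846 2342 673470) = true := by decide +kernel

def six_c_up_232 : (sixCCond 0 0 0).checkQuick sixUpCfg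
    (sixUpBox 9439 9559 11550 15875 1350 1846 673470) = true := by decide +kernel

def six_c_up_233 : (sixCCond 0 0 0).checkQuick sixUpCfg
    (sixUpBox 9439 9559 15875 20200 1350 1846 673470) = true := by decide +kernel

def six_c_up_234 : (sixCCond 0 0 0).checkQuick sixUpCfg
    (sixUpBox 9439 9559 11550 20200 1846 2342 673470) = true := by decide +kernel

def six_c_up_235 : (sixCCond 0 1815318062 0).checkQuick sixUpCfg
    (sixUpBox 9300 9439 2900 7225 2342 2838 673470) = true := by decide +kernel

def six_c_up_236 : (sixCCond 0 0 0).checkQuick sixUpCfg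
    (sixUpBox 9300 9439 7225 11550 2342 2838 673470) = true := by decide +kernel

def six_c_up_237 : (sixCCond 0 1359671123 0).checkQuick sixUpCfg
    (sixUpBox 9300 9439 2900 7225 2838 3334 673470) = true := by decide +kernel

def six_c_up_238 : (sixCCond 0 56 0).checkQuick sixUpCfg
    (sixUpBox 9300 9372 7225 9387 2838 3086 673470) = true := by decide +kernel

def six_c_up_239 : (sixCCond 0 0 0).checkQuick sixUpCfg
    (sixUpBox 9300 9372 9387 11550 2838 3086 673470) = true := by decide +kernel

def six_c_up_240 : (sixCCond 0 87 0).checkQuick sixUpCfg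
    (sixUpBox 9300 9372 7225 9387 3086 3334 672851) = true := by decide +kernel

def six_c_up_241 : (sixCCond 0 0 0).checkQuick sixUpCfg
    (sixUpBox 9300 9372 9387 11550 3086 3334 672851) = true := by decide +kernel

def six_c_up_242 : (sixCCond 0 53 0).checkQuick sixUpCfg
    (sixUpBox 9372 9439 7225 11550 2838 3086 673470) = true := by decide +kernel

def six_c_up_243 : (sixCCond 0 93 0).checkQuick sixUpCfg
    (sixUpBox 9372 9439 7225 9387 3086 3334 672851) = true := by decide +kernel

def six_c_up_244 : (sixCCond 0 0 0).checkQuick sixUpCfg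
    (sixUpBox 9372 9439 9387 11550 3086 3334 672851) = true := by decide +kernel

def six_c_up_245 : (sixCCond 0 1824783845 0).checkQuick sixUpCfg
    (sixUpBox 9439 9559 2900 7225 2342 2838 673470) = true := by decide +kernel

def six_c_up_246 : (sixCCond 0 0 0).checkQuick sixUpCfg
    (sixUpBox 9439 9559 7225 11550 2342 2838 673470) = true := by decide +kernel

def six_c_up_247 : (sixCCond 0 1353286887 0).checkQuick sixUpCfg
    (sixUpBox 9439 9559 2900 7225 2838 3334 673470) = true := by decide +kernel

def six_c_up_248 : (sixCCond 0 58 0).checkQuick sixUpCfg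
    (sixUpBox 9439 9501 7225 11550 2838 3086 673470) = true := by decide +kernel

def six_c_up_249 : (sixCCond 0 116 0).checkQuick sixUpCfg
    (sixUpBox 9439 9501 7225 9387 3086 3334 672851) = true := by decide +kernel

def six_c_up_250 : (sixCCond 0 0 0).checkQuick sixUpCfg
    (sixUpBox 9439 9501 9387 11550 3086 3334 672851) = true := by decide +kernel

def six_c_up_251 : (sixCCond 0 87 0).checkQuick sixUpCfg
    (sixUpBox 9501 9559 7225 11550 2838 3086 673470) = true := by decide +kernel

def six_c_up_252 : (sixCCond 0 134 0).checkQuick sixUpCfg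
    (sixUpBox 9501 9559 7225 9387 3086 3334 672851) = true := by decide +kernel

def six_c_up_253 : (sixCCond 0 0 0).checkQuick sixUpCfg
    (sixUpBox 9501 9559 9387 11550 3086 3334 672851) = true := by decide +kernel

def six_c_up_254 : (sixCCond 0 0 0).checkQuick sixUpCfg
    (sixUpBox 9300 9559 11550 20200 2342 3334 673470) = true := by decide +kernel

def six_c_up_255 : (sixCCond 0 0 0).checkQuick sixUpCfg
    (sixUpBox 9559 9751 2900 11550 1350 2342 673470) = true := by decide +kernel

def six_c_up_256 : (sixCCond 0 0 0).checkQuick sixUpCfg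
    (sixUpBox 9559 9662 11550 15875 1350 1846 673470) = true := by decide +kernel

def six_c_up_257 : (sixCCond 0 0 0).checkQuick sixUpCfg
    (sixUpBox 9559 9662 15875 20200 1350 1846 673470) = true := by decide +kernel

end Vale.Agent.P100.Calib.Band
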