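import Vale.Agent.P100.Calib.SlabSixUpperBox

/-!
# Certificates of the upper band of piece C
-/

-- The checks are definitions, so that they run one after another with little memory.
set_option linter.defProp false

namespace Vale.Agent.P100.Calib.Band

open BoxPos

def six_c_up_258 : (sixCCond 0 0 0).checkQuick sixUpCfg
    (sixUpBox 9559 9662 11550 20200 1846 2342 673470) = true := by decide +kernel

def six_c_up_259 : (sixCCond 0 0 0).checkQuick sixUpCfg
    (sixUpBox 9662 9751 11550 15875 1350 1846 673470) = true := by decide +kernel

def six_c_up_260 : (sixCCond 0 0 0).checkQuick sixUpCfg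
    (sixUpBox 9662 9751 15875 20200 1350 1846 673470) = true := by decide +kernel

def six_c_up_261 : (sixCCond 0 0 0).checkQuick sixUpCfg
    (sixUpBox 9662 9751 11550 20200 1846 2342 673470) = true := by decide +kernel

def six_c_up_262 : (sixCCond 0 1832713438 0).checkQuick sixUpCfg
    (sixUpBox 9559 9662 2900 7225 2342 2838 673470) = true := by decide +kernel

def six_c_up_263 : (sixCCond 0 0 0).checkQuick sixUpCfg
    (sixUpBox 9559 9662 7225 11550 2342 2838 673470) = true := by decide +kernel

def six_c_up_264 : (sixCCond 0 1346741342 0).checkQuick sixUpCfg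
    (sixUpBox 9559 9662 2900 7225 2838 3334 673470) = true := by decide +kernel

def six_c_up_265 : (sixCCond 0 104 0).checkQuick sixUpCfg
    (sixUpBox 9559 9612 7225 11550 2838 3086 673470) = true := by decide +kernel

def six_c_up_266 : (sixCCond 0 154 0).checkQuick sixUpCfg
    (sixUpBox 9559 9612 7225 9387 3086 3334 672851) = true := by decide +kernel

def six_c_up_267 : (sixCCond 0 0 0).checkQuick sixUpCfg
    (sixUpBox 9559 9612 9387 11550 3086 3334 672851) = true := by decide +kernel

def six_c_up_268 : (sixCCond 0 146 0).checkQuick sixUpCfg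
    (sixUpBox 9612 9662 7225 11550 2838 3334 673470) = true := by decide +kernel

def six_c_up_269 : (sixCCond 0 0 0).checkQuick sixUpCfg
    (sixUpBox 9662 9751 2900 7225 2342 2838 673470) = true := by decide +kernel

def six_c_up_270 : (sixCCond 0 0 0).checkQuick sixUpCfg
    (sixUpBox 9662 9751 7225 11550 2342 2838 673470) = true := by decide +kernel

def six_c_up_271 : (sixCCond 0 1340406250 0).checkQuick sixUpCfg
    (sixUpBox 9662 9751 2900 7225 2838 3334 673470) = true := by decide +kernel

def six_c_up_272 : (sixCCond 0 160 0).checkQuick sixUpCfg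
    (sixUpBox 9662 9751 7225 11550 2838 3334 673470) = true := by decide +kernel

def six_c_up_273 : (sixCCond 0 0 0).checkQuick sixUpCfg
    (sixUpBox 9559 9751 11550 20200 2342 3334 673470) = true := by decide +kernel

def six_c_up_274 : (sixCCond 0 0 0).checkQuick sixUpCfg
    (sixUpBox 9300 9751 20200 37501 1350 3334 673470) = true := by decide +kernel

def six_c_out_0 : (Ex.sub (eC 0) sixCP).checkQuick sixUpCfg
    (sixUpBox 6117 7000 11550 20200 2342 3334 673470) = true := by decide +kernel

def six_c_out_1 : (Ex.sub (eC 0) sixCP).checkQuick sixUpCfg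
    (sixUpBox 5000 7000 20200 37501 1350 3334 673470) = true := by decide +kernel

def six_c_out_2 : (Ex.sub (eC 0) sixCP).checkQuick sixUpCfg
    (sixUpBox 7000 7862 11550 20200 1350 2342 673470) = true := by decide +kernel

def six_c_out_3 : (Ex.sub (eC 0) sixCP).checkQuick sixUpCfg
    (sixUpBox 7000 7862 11550 20200 2342 3334 673470) = true := by decide +kernel

def six_c_out_4 : (Ex.sub (eC 0) sixCP).checkQuick sixUpCfg
    (sixUpBox 7862 8500 11550 20200 2342 3334 673470) = true := by decide +kernel

def six_c_out_5 : (Ex.sub (eC 0) sixCP).checkQuick sixUpCfg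
    (sixUpBox 7000 8500 20200 37501 1350 3334 673470) = true := by decide +kernel

def six_c_out_6 : (Ex.sub (eC 0) sixCP).checkQuick sixUpCfg
    (sixUpBox 8500 9300 20200 37501 1350 3334 673470) = true := by decide +kernel

end Vale.Agent.P100.Calib.Band
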