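import Vale.Agent.P100.Calib.SlabSixUpperCChecks
import Vale.Agent.P100.Calib.SlabSixUpperCChecks1
import Vale.Agent.P100.Calib.SlabSixUpperCChecks2
import Vale.Agent.P100.Calib.SlabSixUpperCChecks3
import Vale.Agent.P100.Calib.SlabSixUpperCChecks4

/-!
# The sign of the upper band of piece C
-/

namespace Vale.Agent.P100.Calib.Band

open BoxPos

theorem six_c_node_3 {u v d S' : ℝ}
    (hx0 : 5000 / 10000 ≤ u) (hx1 : u < 6117 / 10000) (hy0 : 2900 / 10000 ≤ v) (hy1 : v < 20200 / 10000)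
    (hz0 : 1350 / 10000 ≤ d) (hz1 : d < 3334 / 10000) (hS : SixSide d S') (_hgap : 0 ≤ sixCP.val u v d S') :
    ∃ i j l : ℕ, 0 < (sixCCond i j l).val u v d S' := by
  exact ⟨0, 0, 0, Ex.pos_of_checkQuick six_c_up_66 (lowMem 10000 hx0 hx1) (lowMem 10000 hy0 hy1)
    (lowMem 10000 (by push_cast; linarith) hz1) (hS.mem_high (s := 673470) (by norm_num))⟩

theorem six_c_node_5 {u v d S' : ℝ}
    (hx0 : 6117 / 10000 ≤ u) (hx1 : u < 7000 / 10000) (hy0 : 2900 / 10000 ≤ v) (hy1 : v < 20200 / 10000)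
    (hz0 : 1350 / 10000 ≤ d) (hz1 : d < 2342 / 10000) (hS : SixSide d S') (_hgap : 0 ≤ sixCP.val u v d S') :
    ∃ i j l : ℕ, 0 < (sixCCond i j l).val u v d S' := by
  exact ⟨0, 0, 0, Ex.pos_of_checkQuick six_c_up_67 (lowMem 10000 hx0 hx1) (lowMem 10000 hy0 hy1)
    (lowMem 10000 (by push_cast; linarith) hz1) (hS.mem_high (s := 673470) (by norm_num))⟩

theorem six_c_node_7 {u v d S' : ℝ}
    (hx0 : 6117 / 10000 ≤ u) (hx1 : u < 7000 / 10000) (hy0 : 2900 / 10000 ≤ v) (hy1 : v < 11550 / 10000)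
    (hz0 : 2342 / 10000 ≤ d) (hz1 : d < 3334 / 10000) (hS : SixSide d S') (_hgap : 0 ≤ sixCP.val u v d S') :
    ∃ i j l : ℕ, 0 < (sixCCond i j l).val u v d S' := by
  exact ⟨0, 0, 0, Ex.pos_of_checkQuick six_c_up_68 (lowMem 10000 hx0 hx1) (lowMem 10000 hy0 hy1)
    (lowMem 10000 (by push_cast; linarith) hz1) (hS.mem_high (s := 673470) (by norm_num))⟩

theorem six_c_node_8 {u v d S' : ℝ}
    (hx0 : 6117 / 10000 ≤ u) (hx1 : u < 7000 / 10000) (hy0 : 11550 / 10000 ≤ v) (hy1 : v < 20200 / 10000)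
    (hz0 : 2342 / 10000 ≤ d) (hz1 : d < 3334 / 10000) (hS : SixSide d S') (hgap : 0 ≤ sixCP.val u v d S') :
    ∃ i j l : ℕ, 0 < (sixCCond i j l).val u v d S' := by
  have k : 0 < (Ex.sub (eC 0) sixCP).val u v d S' := Ex.pos_of_checkQuick six_c_out_0 (lowMem 10000 hx0 hx1) (lowMem 10000 hy0 hy1)
    (lowMem 10000 (by push_cast; linarith) hz1) (hS.mem_high (s := 673470) (by norm_num))
  simp only [Ex.val] at k
  push_cast at k
  exact absurd hgap (not_le.2 (by linarith))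

theorem six_c_node_6 {u v d S' : ℝ}
    (hx0 : 6117 / 10000 ≤ u) (hx1 : u < 7000 / 10000) (hy0 : 2900 / 10000 ≤ v) (hy1 : v < 20200 / 10000)
    (hz0 : 2342 / 10000 ≤ d) (hz1 : d < 3334 / 10000) (hS : SixSide d S') (hgap : 0 ≤ sixCP.val u v d S') :
    ∃ i j l : ℕ, 0 < (sixCCond i j l).val u v d S' := by
  rcases lt_or_ge v (11550 / 10000) with g | g
  · exact six_c_node_7 hx0 hx1 hy0 g hz0 hz1 hS hgap
  · exact six_c_node_8 hx0 hx1 g hy1 hz0 hz1 hS hgap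

theorem six_c_node_4 {u v d S' : ℝ}
    (hx0 : 6117 / 10000 ≤ u) (hx1 : u < 7000 / 10000) (hy0 : 2900 / 10000 ≤ v) (hy1 : v < 20200 / 10000)
    (hz0 : 1350 / 10000 ≤ d) (hz1 : d < 3334 / 10000) (hS : SixSide d S') (hgap : 0 ≤ sixCP.val u v d S') :
    ∃ i j l : ℕ, 0 < (sixCCond i j l).val u v d S' := by
  rcases lt_or_ge d (2342 / 10000) with g | g
  · exact six_c_node_5 hx0 hx1 hy0 hy1 hz0 g hS hgap
  · exact six_c_node_6 hx0 hx1 hy0 hy1 g hz1 hS hgap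

theorem six_c_node_2 {u v d S' : ℝ}
    (hx0 : 5000 / 10000 ≤ u) (hx1 : u < 7000 / 10000) (hy0 : 2900 / 10000 ≤ v) (hy1 : v < 20200 / 10000)
    (hz0 : 1350 / 10000 ≤ d) (hz1 : d < 3334 / 10000) (hS : SixSide d S') (hgap : 0 ≤ sixCP.val u v d S') :
    ∃ i j l : ℕ, 0 < (sixCCond i j l).val u v d S' := by
  rcases lt_or_ge u (6117 / 10000) with g | g
  · exact six_c_node_3 hx0 g hy0 hy1 hz0 hz1 hS hgap
  · exact six_c_node_4 g hx1 hy0 hy1 hz0 hz1 hS hgap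

theorem six_c_node_9 {u v d S' : ℝ}
    (hx0 : 5000 / 10000 ≤ u) (hx1 : u < 7000 / 10000) (hy0 : 20200 / 10000 ≤ v) (hy1 : v < 37501 / 10000)
    (hz0 : 1350 / 10000 ≤ d) (hz1 : d < 3334 / 10000) (hS : SixSide d S') (hgap : 0 ≤ sixCP.val u v d S') :
    ∃ i j l : ℕ, 0 < (sixCCond i j l).val u v d S' := by
  have k : 0 < (Ex.sub (eC 0) sixCP).val u v d S' := Ex.pos_of_checkQuick six_c_out_1 (lowMem 10000 hx0 hx1) (lowMem 10000 hy0 hy1)
    (lowMem 10000 (by push_cast; linarith) hz1) (hS.mem_high (s := 673470) (by norm_num))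
  simp only [Ex.val] at k
  push_cast at k
  exact absurd hgap (not_le.2 (by linarith))

theorem six_c_node_1 {u v d S' : ℝ}
    (hx0 : 5000 / 10000 ≤ u) (hx1 : u < 7000 / 10000) (hy0 : 2900 / 10000 ≤ v) (hy1 : v < 37501 / 10000)
    (hz0 : 1350 / 10000 ≤ d) (hz1 : d < 3334 / 10000) (hS : SixSide d S') (hgap : 0 ≤ sixCP.val u v d S') :
    ∃ i j l : ℕ, 0 < (sixCCond i j l).val u v d S' := by
  rcases lt_or_ge v (20200 / 10000) with g | g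
  · exact six_c_node_2 hx0 hx1 hy0 g hz0 hz1 hS hgap
  · exact six_c_node_9 hx0 hx1 g hy1 hz0 hz1 hS hgap

theorem six_c_node_16 {u v d S' : ℝ}
    (hx0 : 7000 / 10000 ≤ u) (hx1 : u < 7463 / 10000) (hy0 : 2900 / 10000 ≤ v) (hy1 : v < 11550 / 10000)
    (hz0 : 1350 / 10000 ≤ d) (hz1 : d < 1846 / 10000) (hS : SixSide d S') (_hgap : 0 ≤ sixCP.val u v d S') :
    ∃ i j l : ℕ, 0 < (sixCCond i j l).val u v d S' := by
  exact ⟨0, 21, 0, Ex.pos_of_checkQuick six_c_up_69 (lowMem 10000 hx0 hx1) (lowMem 10000 hy0 hy1)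
    (lowMem 10000 (by push_cast; linarith) hz1) (hS.mem_high (s := 673470) (by norm_num))⟩

theorem six_c_node_18 {u v d S' : ℝ}
    (hx0 : 7000 / 10000 ≤ u) (hx1 : u < 7463 / 10000) (hy0 : 2900 / 10000 ≤ v) (hy1 : v < 7225 / 10000)
    (hz0 : 1846 / 10000 ≤ d) (hz1 : d < 2342 / 10000) (hS : SixSide d S') (_hgap : 0 ≤ sixCP.val u v d S') :
    ∃ i j l : ℕ, 0 < (sixCCond i j l).val u v d S' := by
  exact ⟨0, 0, 0, Ex.pos_of_checkQuick six_c_up_70 (lowMem 10000 hx0 hx1) (lowMem 10000 hy0 hy1)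
    (lowMem 10000 (by push_cast; linarith) hz1) (hS.mem_high (s := 673470) (by norm_num))⟩

theorem six_c_node_19 {u v d S' : ℝ}
    (hx0 : 7000 / 10000 ≤ u) (hx1 : u < 7463 / 10000) (hy0 : 7225 / 10000 ≤ v) (hy1 : v < 11550 / 10000)
    (hz0 : 1846 / 10000 ≤ d) (hz1 : d < 2342 / 10000) (hS : SixSide d S') (_hgap : 0 ≤ sixCP.val u v d S') :
    ∃ i j l : ℕ, 0 < (sixCCond i j l).val u v d S' := by
  exact ⟨0, 0, 0, Ex.pos_of_checkQuick six_c_up_71 (lowMem 10000 hx0 hx1) (lowMem 10000 hy0 hy1)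
    (lowMem 10000 (by push_cast; linarith) hz1) (hS.mem_high (s := 673470) (by norm_num))⟩

theorem six_c_node_17 {u v d S' : ℝ}
    (hx0 : 7000 / 10000 ≤ u) (hx1 : u < 7463 / 10000) (hy0 : 2900 / 10000 ≤ v) (hy1 : v < 11550 / 10000)
    (hz0 : 1846 / 10000 ≤ d) (hz1 : d < 2342 / 10000) (hS : SixSide d S') (hgap : 0 ≤ sixCP.val u v d S') :
    ∃ i j l : ℕ, 0 < (sixCCond i j l).val u v d S' := by
  rcases lt_or_ge v (7225 / 10000) with g | g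
  · exact six_c_node_18 hx0 hx1 hy0 g hz0 hz1 hS hgap
  · exact six_c_node_19 hx0 hx1 g hy1 hz0 hz1 hS hgap

theorem six_c_node_15 {u v d S' : ℝ}
    (hx0 : 7000 / 10000 ≤ u) (hx1 : u < 7463 / 10000) (hy0 : 2900 / 10000 ≤ v) (hy1 : v < 11550 / 10000)
    (hz0 : 1350 / 10000 ≤ d) (hz1 : d < 2342 / 10000) (hS : SixSide d S') (hgap : 0 ≤ sixCP.val u v d S') :
    ∃ i j l : ℕ, 0 < (sixCCond i j l).val u v d S' := by
  rcases lt_or_ge d (1846 / 10000) with g | g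
  · exact six_c_node_16 hx0 hx1 hy0 hy1 hz0 g hS hgap
  · exact six_c_node_17 hx0 hx1 hy0 hy1 g hz1 hS hgap

theorem six_c_node_21 {u v d S' : ℝ}
    (hx0 : 7463 / 10000 ≤ u) (hx1 : u < 7862 / 10000) (hy0 : 2900 / 10000 ≤ v) (hy1 : v < 11550 / 10000)
    (hz0 : 1350 / 10000 ≤ d) (hz1 : d < 1846 / 10000) (hS : SixSide d S') (_hgap : 0 ≤ sixCP.val u v d S') :
    ∃ i j l : ℕ, 0 < (sixCCond i j l).val u v d S' := by
  exact ⟨0, 7, 0, Ex.pos_of_checkQuick six_c_up_72 (lowMem 10000 hx0 hx1) (lowMem 10000 hy0 hy1)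
    (lowMem 10000 (by push_cast; linarith) hz1) (hS.mem_high (s := 673470) (by norm_num))⟩

theorem six_c_node_23 {u v d S' : ℝ}
    (hx0 : 7463 / 10000 ≤ u) (hx1 : u < 7862 / 10000) (hy0 : 2900 / 10000 ≤ v) (hy1 : v < 7225 / 10000)
    (hz0 : 1846 / 10000 ≤ d) (hz1 : d < 2342 / 10000) (hS : SixSide d S') (_hgap : 0 ≤ sixCP.val u v d S') :
    ∃ i j l : ℕ, 0 < (sixCCond i j l).val u v d S' := by
  exact ⟨0, 0, 0, Ex.pos_of_checkQuick six_c_up_73 (lowMem 10000 hx0 hx1) (lowMem 10000 hy0 hy1)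
    (lowMem 10000 (by push_cast; linarith) hz1) (hS.mem_high (s := 673470) (by norm_num))⟩

theorem six_c_node_24 {u v d S' : ℝ}
    (hx0 : 7463 / 10000 ≤ u) (hx1 : u < 7862 / 10000) (hy0 : 7225 / 10000 ≤ v) (hy1 : v < 11550 / 10000)
    (hz0 : 1846 / 10000 ≤ d) (hz1 : d < 2342 / 10000) (hS : SixSide d S') (_hgap : 0 ≤ sixCP.val u v d S') :
    ∃ i j l : ℕ, 0 < (sixCCond i j l).val u v d S' := by
  exact ⟨0, 0, 0, Ex.pos_of_checkQuick six_c_up_74 (lowMem 10000 hx0 hx1) (lowMem 10000 hy0 hy1)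
    (lowMem 10000 (by push_cast; linarith) hz1) (hS.mem_high (s := 673470) (by norm_num))⟩

theorem six_c_node_22 {u v d S' : ℝ}
    (hx0 : 7463 / 10000 ≤ u) (hx1 : u < 7862 / 10000) (hy0 : 2900 / 10000 ≤ v) (hy1 : v < 11550 / 10000)
    (hz0 : 1846 / 10000 ≤ d) (hz1 : d < 2342 / 10000) (hS : SixSide d S') (hgap : 0 ≤ sixCP.val u v d S') :
    ∃ i j l : ℕ, 0 < (sixCCond i j l).val u v d S' := by
  rcases lt_or_ge v (7225 / 10000) with g | g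
  · exact six_c_node_23 hx0 hx1 hy0 g hz0 hz1 hS hgap
  · exact six_c_node_24 hx0 hx1 g hy1 hz0 hz1 hS hgap

theorem six_c_node_20 {u v d S' : ℝ}
    (hx0 : 7463 / 10000 ≤ u) (hx1 : u < 7862 / 10000) (hy0 : 2900 / 10000 ≤ v) (hy1 : v < 11550 / 10000)
    (hz0 : 1350 / 10000 ≤ d) (hz1 : d < 2342 / 10000) (hS : SixSide d S') (hgap : 0 ≤ sixCP.val u v d S') :
    ∃ i j l : ℕ, 0 < (sixCCond i j l).val u v d S' := by
  rcases lt_or_ge d (1846 / 10000) with g | g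
  · exact six_c_node_21 hx0 hx1 hy0 hy1 hz0 g hS hgap
  · exact six_c_node_22 hx0 hx1 hy0 hy1 g hz1 hS hgap

theorem six_c_node_14 {u v d S' : ℝ}
    (hx0 : 7000 / 10000 ≤ u) (hx1 : u < 7862 / 10000) (hy0 : 2900 / 10000 ≤ v) (hy1 : v < 11550 / 10000)
    (hz0 : 1350 / 10000 ≤ d) (hz1 : d < 2342 / 10000) (hS : SixSide d S') (hgap : 0 ≤ sixCP.val u v d S') :
    ∃ i j l : ℕ, 0 < (sixCCond i j l).val u v d S' := by
  rcases lt_or_ge u (7463 / 10000) with g | g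
  · exact six_c_node_15 hx0 g hy0 hy1 hz0 hz1 hS hgap
  · exact six_c_node_20 g hx1 hy0 hy1 hz0 hz1 hS hgap

theorem six_c_node_25 {u v d S' : ℝ}
    (hx0 : 7000 / 10000 ≤ u) (hx1 : u < 7862 / 10000) (hy0 : 11550 / 10000 ≤ v) (hy1 : v < 20200 / 10000)
    (hz0 : 1350 / 10000 ≤ d) (hz1 : d < 2342 / 10000) (hS : SixSide d S') (hgap : 0 ≤ sixCP.val u v d S') :
    ∃ i j l : ℕ, 0 < (sixCCond i j l).val u v d S' := by
  have k : 0 < (Ex.sub (eC 0) sixCP).val u v d S' := Ex.pos_of_checkQuick six_c_out_2 (lowMem 10000 hx0 hx1) (lowMem 10000 hy0 hy1)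
    (lowMem 10000 (by push_cast; linarith) hz1) (hS.mem_high (s := 673470) (by norm_num))
  simp only [Ex.val] at k
  push_cast at k
  exact absurd hgap (not_le.2 (by linarith))

theorem six_c_node_13 {u v d S' : ℝ}
    (hx0 : 7000 / 10000 ≤ u) (hx1 : u < 7862 / 10000) (hy0 : 2900 / 10000 ≤ v) (hy1 : v < 20200 / 10000)
    (hz0 : 1350 / 10000 ≤ d) (hz1 : d < 2342 / 10000) (hS : SixSide d S') (hgap : 0 ≤ sixCP.val u v d S') :
    ∃ i j l : ℕ, 0 < (sixCCond i j l).val u v d S' := by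
  rcases lt_or_ge v (11550 / 10000) with g | g
  · exact six_c_node_14 hx0 hx1 hy0 g hz0 hz1 hS hgap
  · exact six_c_node_25 hx0 hx1 g hy1 hz0 hz1 hS hgap

theorem six_c_node_30 {u v d S' : ℝ}
    (hx0 : 7000 / 10000 ≤ u) (hx1 : u < 7463 / 10000) (hy0 : 2900 / 10000 ≤ v) (hy1 : v < 7225 / 10000)
    (hz0 : 2342 / 10000 ≤ d) (hz1 : d < 2838 / 10000) (hS : SixSide d S') (_hgap : 0 ≤ sixCP.val u v d S') :
    ∃ i j l : ℕ, 0 < (sixCCond i j l).val u v d S' := by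
  exact ⟨0, 8, 0, Ex.pos_of_checkQuick six_c_up_75 (lowMem 10000 hx0 hx1) (lowMem 10000 hy0 hy1)
    (lowMem 10000 (by push_cast; linarith) hz1) (hS.mem_high (s := 673470) (by norm_num))⟩

theorem six_c_node_31 {u v d S' : ℝ}
    (hx0 : 7000 / 10000 ≤ u) (hx1 : u < 7463 / 10000) (hy0 : 7225 / 10000 ≤ v) (hy1 : v < 11550 / 10000)
    (hz0 : 2342 / 10000 ≤ d) (hz1 : d < 2838 / 10000) (hS : SixSide d S') (_hgap : 0 ≤ sixCP.val u v d S') :
    ∃ i j l : ℕ, 0 < (sixCCond i j l).val u v d S' := by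
  exact ⟨0, 0, 0, Ex.pos_of_checkQuick six_c_up_76 (lowMem 10000 hx0 hx1) (lowMem 10000 hy0 hy1)
    (lowMem 10000 (by push_cast; linarith) hz1) (hS.mem_high (s := 673470) (by norm_num))⟩

theorem six_c_node_29 {u v d S' : ℝ}
    (hx0 : 7000 / 10000 ≤ u) (hx1 : u < 7463 / 10000) (hy0 : 2900 / 10000 ≤ v) (hy1 : v < 11550 / 10000)
    (hz0 : 2342 / 10000 ≤ d) (hz1 : d < 2838 / 10000) (hS : SixSide d S') (hgap : 0 ≤ sixCP.val u v d S') :
    ∃ i j l : ℕ, 0 < (sixCCond i j l).val u v d S' := by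
  rcases lt_or_ge v (7225 / 10000) with g | g
  · exact six_c_node_30 hx0 hx1 hy0 g hz0 hz1 hS hgap
  · exact six_c_node_31 hx0 hx1 g hy1 hz0 hz1 hS hgap

theorem six_c_node_32 {u v d S' : ℝ}
    (hx0 : 7000 / 10000 ≤ u) (hx1 : u < 7463 / 10000) (hy0 : 2900 / 10000 ≤ v) (hy1 : v < 11550 / 10000)
    (hz0 : 2838 / 10000 ≤ d) (hz1 : d < 3334 / 10000) (hS : SixSide d S') (_hgap : 0 ≤ sixCP.val u v d S') :
    ∃ i j l : ℕ, 0 < (sixCCond i j l).val u v d S' := by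
  exact ⟨0, 0, 0, Ex.pos_of_checkQuick six_c_up_77 (lowMem 10000 hx0 hx1) (lowMem 10000 hy0 hy1)
    (lowMem 10000 (by push_cast; linarith) hz1) (hS.mem_high (s := 673470) (by norm_num))⟩

theorem six_c_node_28 {u v d S' : ℝ}
    (hx0 : 7000 / 10000 ≤ u) (hx1 : u < 7463 / 10000) (hy0 : 2900 / 10000 ≤ v) (hy1 : v < 11550 / 10000)
    (hz0 : 2342 / 10000 ≤ d) (hz1 : d < 3334 / 10000) (hS : SixSide d S') (hgap : 0 ≤ sixCP.val u v d S') :
    ∃ i j l : ℕ, 0 < (sixCCond i j l).val u v d S' := by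
  rcases lt_or_ge d (2838 / 10000) with g | g
  · exact six_c_node_29 hx0 hx1 hy0 hy1 hz0 g hS hgap
  · exact six_c_node_32 hx0 hx1 hy0 hy1 g hz1 hS hgap

theorem six_c_node_35 {u v d S' : ℝ}
    (hx0 : 7463 / 10000 ≤ u) (hx1 : u < 7862 / 10000) (hy0 : 2900 / 10000 ≤ v) (hy1 : v < 7225 / 10000)
    (hz0 : 2342 / 10000 ≤ d) (hz1 : d < 2838 / 10000) (hS : SixSide d S') (_hgap : 0 ≤ sixCP.val u v d S') :
    ∃ i j l : ℕ, 0 < (sixCCond i j l).val u v d S' := by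
  exact ⟨0, 0, 0, Ex.pos_of_checkQuick six_c_up_78 (lowMem 10000 hx0 hx1) (lowMem 10000 hy0 hy1)
    (lowMem 10000 (by push_cast; linarith) hz1) (hS.mem_high (s := 673470) (by norm_num))⟩

theorem six_c_node_36 {u v d S' : ℝ}
    (hx0 : 7463 / 10000 ≤ u) (hx1 : u < 7862 / 10000) (hy0 : 7225 / 10000 ≤ v) (hy1 : v < 11550 / 10000)
    (hz0 : 2342 / 10000 ≤ d) (hz1 : d < 2838 / 10000) (hS : SixSide d S') (_hgap : 0 ≤ sixCP.val u v d S') :
    ∃ i j l : ℕ, 0 < (sixCCond i j l).val u v d S' := by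
  exact ⟨0, 0, 0, Ex.pos_of_checkQuick six_c_up_79 (lowMem 10000 hx0 hx1) (lowMem 10000 hy0 hy1)
    (lowMem 10000 (by push_cast; linarith) hz1) (hS.mem_high (s := 673470) (by norm_num))⟩

theorem six_c_node_34 {u v d S' : ℝ}
    (hx0 : 7463 / 10000 ≤ u) (hx1 : u < 7862 / 10000) (hy0 : 2900 / 10000 ≤ v) (hy1 : v < 11550 / 10000)
    (hz0 : 2342 / 10000 ≤ d) (hz1 : d < 2838 / 10000) (hS : SixSide d S') (hgap : 0 ≤ sixCP.val u v d S') :
    ∃ i j l : ℕ, 0 < (sixCCond i j l).val u v d S' := by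
  rcases lt_or_ge v (7225 / 10000) with g | g
  · exact six_c_node_35 hx0 hx1 hy0 g hz0 hz1 hS hgap
  · exact six_c_node_36 hx0 hx1 g hy1 hz0 hz1 hS hgap

theorem six_c_node_38 {u v d S' : ℝ}
    (hx0 : 7463 / 10000 ≤ u) (hx1 : u < 7862 / 10000) (hy0 : 2900 / 10000 ≤ v) (hy1 : v < 7225 / 10000)
    (hz0 : 2838 / 10000 ≤ d) (hz1 : d < 3334 / 10000) (hS : SixSide d S') (_hgap : 0 ≤ sixCP.val u v d S') :
    ∃ i j l : ℕ, 0 < (sixCCond i j l).val u v d S' := by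
  exact ⟨0, 9, 0, Ex.pos_of_checkQuick six_c_up_80 (lowMem 10000 hx0 hx1) (lowMem 10000 hy0 hy1)
    (lowMem 10000 (by push_cast; linarith) hz1) (hS.mem_high (s := 673470) (by norm_num))⟩

theorem six_c_node_39 {u v d S' : ℝ}
    (hx0 : 7463 / 10000 ≤ u) (hx1 : u < 7862 / 10000) (hy0 : 7225 / 10000 ≤ v) (hy1 : v < 11550 / 10000)
    (hz0 : 2838 / 10000 ≤ d) (hz1 : d < 3334 / 10000) (hS : SixSide d S') (_hgap : 0 ≤ sixCP.val u v d S') :
    ∃ i j l : ℕ, 0 < (sixCCond i j l).val u v d S' := by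
  exact ⟨0, 0, 0, Ex.pos_of_checkQuick six_c_up_81 (lowMem 10000 hx0 hx1) (lowMem 10000 hy0 hy1)
    (lowMem 10000 (by push_cast; linarith) hz1) (hS.mem_high (s := 673470) (by norm_num))⟩

theorem six_c_node_37 {u v d S' : ℝ}
    (hx0 : 7463 / 10000 ≤ u) (hx1 : u < 7862 / 10000) (hy0 : 2900 / 10000 ≤ v) (hy1 : v < 11550 / 10000)
    (hz0 : 2838 / 10000 ≤ d) (hz1 : d < 3334 / 10000) (hS : SixSide d S') (hgap : 0 ≤ sixCP.val u v d S') :
    ∃ i j l : ℕ, 0 < (sixCCond i j l).val u v d S' := by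
  rcases lt_or_ge v (7225 / 10000) with g | g
  · exact six_c_node_38 hx0 hx1 hy0 g hz0 hz1 hS hgap
  · exact six_c_node_39 hx0 hx1 g hy1 hz0 hz1 hS hgap

theorem six_c_node_33 {u v d S' : ℝ}
    (hx0 : 7463 / 10000 ≤ u) (hx1 : u < 7862 / 10000) (hy0 : 2900 / 10000 ≤ v) (hy1 : v < 11550 / 10000)
    (hz0 : 2342 / 10000 ≤ d) (hz1 : d < 3334 / 10000) (hS : SixSide d S') (hgap : 0 ≤ sixCP.val u v d S') :
    ∃ i j l : ℕ, 0 < (sixCCond i j l).val u v d S' := by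
  rcases lt_or_ge d (2838 / 10000) with g | g
  · exact six_c_node_34 hx0 hx1 hy0 hy1 hz0 g hS hgap
  · exact six_c_node_37 hx0 hx1 hy0 hy1 g hz1 hS hgap

theorem six_c_node_27 {u v d S' : ℝ}
    (hx0 : 7000 / 10000 ≤ u) (hx1 : u < 7862 / 10000) (hy0 : 2900 / 10000 ≤ v) (hy1 : v < 11550 / 10000)
    (hz0 : 2342 / 10000 ≤ d) (hz1 : d < 3334 / 10000) (hS : SixSide d S') (hgap : 0 ≤ sixCP.val u v d S') :
    ∃ i j l : ℕ, 0 < (sixCCond i j l).val u v d S' := by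
  rcases lt_or_ge u (7463 / 10000) with g | g
  · exact six_c_node_28 hx0 g hy0 hy1 hz0 hz1 hS hgap
  · exact six_c_node_33 g hx1 hy0 hy1 hz0 hz1 hS hgap

theorem six_c_node_40 {u v d S' : ℝ}
    (hx0 : 7000 / 10000 ≤ u) (hx1 : u < 7862 / 10000) (hy0 : 11550 / 10000 ≤ v) (hy1 : v < 20200 / 10000)
    (hz0 : 2342 / 10000 ≤ d) (hz1 : d < 3334 / 10000) (hS : SixSide d S') (hgap : 0 ≤ sixCP.val u v d S') :
    ∃ i j l : ℕ, 0 < (sixCCond i j l).val u v d S' := by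
  have k : 0 < (Ex.sub (eC 0) sixCP).val u v d S' := Ex.pos_of_checkQuick six_c_out_3 (lowMem 10000 hx0 hx1) (lowMem 10000 hy0 hy1)
    (lowMem 10000 (by push_cast; linarith) hz1) (hS.mem_high (s := 673470) (by norm_num))
  simp only [Ex.val] at k
  push_cast at k
  exact absurd hgap (not_le.2 (by linarith))

theorem six_c_node_26 {u v d S' : ℝ}
    (hx0 : 7000 / 10000 ≤ u) (hx1 : u < 7862 / 10000) (hy0 : 2900 / 10000 ≤ v) (hy1 : v < 20200 / 10000)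
    (hz0 : 2342 / 10000 ≤ d) (hz1 : d < 3334 / 10000) (hS : SixSide d S') (hgap : 0 ≤ sixCP.val u v d S') :
    ∃ i j l : ℕ, 0 < (sixCCond i j l).val u v d S' := by
  rcases lt_or_ge v (11550 / 10000) with g | g
  · exact six_c_node_27 hx0 hx1 hy0 g hz0 hz1 hS hgap
  · exact six_c_node_40 hx0 hx1 g hy1 hz0 hz1 hS hgap

theorem six_c_node_12 {u v d S' : ℝ}
    (hx0 : 7000 / 10000 ≤ u) (hx1 : u < 7862 / 10000) (hy0 : 2900 / 10000 ≤ v) (hy1 : v < 20200 / 10000)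
    (hz0 : 1350 / 10000 ≤ d) (hz1 : d < 3334 / 10000) (hS : SixSide d S') (hgap : 0 ≤ sixCP.val u v d S') :
    ∃ i j l : ℕ, 0 < (sixCCond i j l).val u v d S' := by
  rcases lt_or_ge d (2342 / 10000) with g | g
  · exact six_c_node_13 hx0 hx1 hy0 hy1 hz0 g hS hgap
  · exact six_c_node_26 hx0 hx1 hy0 hy1 g hz1 hS hgap

theorem six_c_node_45 {u v d S' : ℝ}
    (hx0 : 7862 / 10000 ≤ u) (hx1 : u < 8205 / 10000) (hy0 : 2900 / 10000 ≤ v) (hy1 : v < 11550 / 10000)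
    (hz0 : 1350 / 10000 ≤ d) (hz1 : d < 1846 / 10000) (hS : SixSide d S') (_hgap : 0 ≤ sixCP.val u v d S') :
    ∃ i j l : ℕ, 0 < (sixCCond i j l).val u v d S' := by
  exact ⟨0, 0, 0, Ex.pos_of_checkQuick six_c_up_82 (lowMem 10000 hx0 hx1) (lowMem 10000 hy0 hy1)
    (lowMem 10000 (by push_cast; linarith) hz1) (hS.mem_high (s := 673470) (by norm_num))⟩

theorem six_c_node_47 {u v d S' : ℝ}
    (hx0 : 7862 / 10000 ≤ u) (hx1 : u < 8205 / 10000) (hy0 : 2900 / 10000 ≤ v) (hy1 : v < 7225 / 10000)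
    (hz0 : 1846 / 10000 ≤ d) (hz1 : d < 2342 / 10000) (hS : SixSide d S') (_hgap : 0 ≤ sixCP.val u v d S') :
    ∃ i j l : ℕ, 0 < (sixCCond i j l).val u v d S' := by
  exact ⟨0, 0, 0, Ex.pos_of_checkQuick six_c_up_83 (lowMem 10000 hx0 hx1) (lowMem 10000 hy0 hy1)
    (lowMem 10000 (by push_cast; linarith) hz1) (hS.mem_high (s := 673470) (by norm_num))⟩

theorem six_c_node_48 {u v d S' : ℝ}
    (hx0 : 7862 / 10000 ≤ u) (hx1 : u < 8205 / 10000) (hy0 : 7225 / 10000 ≤ v) (hy1 : v < 11550 / 10000)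
    (hz0 : 1846 / 10000 ≤ d) (hz1 : d < 2342 / 10000) (hS : SixSide d S') (_hgap : 0 ≤ sixCP.val u v d S') :
    ∃ i j l : ℕ, 0 < (sixCCond i j l).val u v d S' := by
  exact ⟨0, 0, 0, Ex.pos_of_checkQuick six_c_up_84 (lowMem 10000 hx0 hx1) (lowMem 10000 hy0 hy1)
    (lowMem 10000 (by push_cast; linarith) hz1) (hS.mem_high (s := 673470) (by norm_num))⟩

theorem six_c_node_46 {u v d S' : ℝ}
    (hx0 : 7862 / 10000 ≤ u) (hx1 : u < 8205 / 10000) (hy0 : 2900 / 10000 ≤ v) (hy1 : v < 11550 / 10000)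
    (hz0 : 1846 / 10000 ≤ d) (hz1 : d < 2342 / 10000) (hS : SixSide d S') (hgap : 0 ≤ sixCP.val u v d S') :
    ∃ i j l : ℕ, 0 < (sixCCond i j l).val u v d S' := by
  rcases lt_or_ge v (7225 / 10000) with g | g
  · exact six_c_node_47 hx0 hx1 hy0 g hz0 hz1 hS hgap
  · exact six_c_node_48 hx0 hx1 g hy1 hz0 hz1 hS hgap

theorem six_c_node_44 {u v d S' : ℝ}
    (hx0 : 7862 / 10000 ≤ u) (hx1 : u < 8205 / 10000) (hy0 : 2900 / 10000 ≤ v) (hy1 : v < 11550 / 10000)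
    (hz0 : 1350 / 10000 ≤ d) (hz1 : d < 2342 / 10000) (hS : SixSide d S') (hgap : 0 ≤ sixCP.val u v d S') :
    ∃ i j l : ℕ, 0 < (sixCCond i j l).val u v d S' := by
  rcases lt_or_ge d (1846 / 10000) with g | g
  · exact six_c_node_45 hx0 hx1 hy0 hy1 hz0 g hS hgap
  · exact six_c_node_46 hx0 hx1 hy0 hy1 g hz1 hS hgap

theorem six_c_node_51 {u v d S' : ℝ}
    (hx0 : 8205 / 10000 ≤ u) (hx1 : u < 8500 / 10000) (hy0 : 2900 / 10000 ≤ v) (hy1 : v < 7225 / 10000)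
    (hz0 : 1350 / 10000 ≤ d) (hz1 : d < 1846 / 10000) (hS : SixSide d S') (_hgap : 0 ≤ sixCP.val u v d S') :
    ∃ i j l : ℕ, 0 < (sixCCond i j l).val u v d S' := by
  exact ⟨0, 0, 0, Ex.pos_of_checkQuick six_c_up_85 (lowMem 10000 hx0 hx1) (lowMem 10000 hy0 hy1)
    (lowMem 10000 (by push_cast; linarith) hz1) (hS.mem_high (s := 673470) (by norm_num))⟩

theorem six_c_node_52 {u v d S' : ℝ}
    (hx0 : 8205 / 10000 ≤ u) (hx1 : u < 8500 / 10000) (hy0 : 7225 / 10000 ≤ v) (hy1 : v < 11550 / 10000)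
    (hz0 : 1350 / 10000 ≤ d) (hz1 : d < 1846 / 10000) (hS : SixSide d S') (_hgap : 0 ≤ sixCP.val u v d S') :
    ∃ i j l : ℕ, 0 < (sixCCond i j l).val u v d S' := by
  exact ⟨0, 0, 0, Ex.pos_of_checkQuick six_c_up_86 (lowMem 10000 hx0 hx1) (lowMem 10000 hy0 hy1)
    (lowMem 10000 (by push_cast; linarith) hz1) (hS.mem_high (s := 673470) (by norm_num))⟩

theorem six_c_node_50 {u v d S' : ℝ}
    (hx0 : 8205 / 10000 ≤ u) (hx1 : u < 8500 / 10000) (hy0 : 2900 / 10000 ≤ v) (hy1 : v < 11550 / 10000)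
    (hz0 : 1350 / 10000 ≤ d) (hz1 : d < 1846 / 10000) (hS : SixSide d S') (hgap : 0 ≤ sixCP.val u v d S') :
    ∃ i j l : ℕ, 0 < (sixCCond i j l).val u v d S' := by
  rcases lt_or_ge v (7225 / 10000) with g | g
  · exact six_c_node_51 hx0 hx1 hy0 g hz0 hz1 hS hgap
  · exact six_c_node_52 hx0 hx1 g hy1 hz0 hz1 hS hgap

theorem six_c_node_54 {u v d S' : ℝ}
    (hx0 : 8205 / 10000 ≤ u) (hx1 : u < 8500 / 10000) (hy0 : 2900 / 10000 ≤ v) (hy1 : v < 7225 / 10000)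
    (hz0 : 1846 / 10000 ≤ d) (hz1 : d < 2342 / 10000) (hS : SixSide d S') (_hgap : 0 ≤ sixCP.val u v d S') :
    ∃ i j l : ℕ, 0 < (sixCCond i j l).val u v d S' := by
  exact ⟨0, 0, 0, Ex.pos_of_checkQuick six_c_up_87 (lowMem 10000 hx0 hx1) (lowMem 10000 hy0 hy1)
    (lowMem 10000 (by push_cast; linarith) hz1) (hS.mem_high (s := 673470) (by norm_num))⟩

theorem six_c_node_57 {u v d S' : ℝ}
    (hx0 : 8205 / 10000 ≤ u) (hx1 : u < 8358 / 10000) (hy0 : 7225 / 10000 ≤ v) (hy1 : v < 11550 / 10000)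
    (hz0 : 1846 / 10000 ≤ d) (hz1 : d < 2094 / 10000) (hS : SixSide d S') (_hgap : 0 ≤ sixCP.val u v d S') :
    ∃ i j l : ℕ, 0 < (sixCCond i j l).val u v d S' := by
  exact ⟨0, 0, 0, Ex.pos_of_checkQuick six_c_up_88 (lowMem 10000 hx0 hx1) (lowMem 10000 hy0 hy1)
    (lowMem 10000 (by push_cast; linarith) hz1) (hS.mem_high (s := 673470) (by norm_num))⟩

theorem six_c_node_59 {u v d S' : ℝ}
    (hx0 : 8205 / 10000 ≤ u) (hx1 : u < 8358 / 10000) (hy0 : 7225 / 10000 ≤ v) (hy1 : v < 9387 / 10000)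
    (hz0 : 2094 / 10000 ≤ d) (hz1 : d < 2342 / 10000) (hS : SixSide d S') (_hgap : 0 ≤ sixCP.val u v d S') :
    ∃ i j l : ℕ, 0 < (sixCCond i j l).val u v d S' := by
  exact ⟨0, 0, 0, Ex.pos_of_checkQuick six_c_up_89 (lowMem 10000 hx0 hx1) (lowMem 10000 hy0 hy1)
    (lowMem 10000 (by push_cast; linarith) hz1) (hS.mem_high (s := 673470) (by norm_num))⟩

theorem six_c_node_60 {u v d S' : ℝ}
    (hx0 : 8205 / 10000 ≤ u) (hx1 : u < 8358 / 10000) (hy0 : 9387 / 10000 ≤ v) (hy1 : v < 11550 / 10000)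
    (hz0 : 2094 / 10000 ≤ d) (hz1 : d < 2342 / 10000) (hS : SixSide d S') (_hgap : 0 ≤ sixCP.val u v d S') :
    ∃ i j l : ℕ, 0 < (sixCCond i j l).val u v d S' := by
  exact ⟨0, 0, 0, Ex.pos_of_checkQuick six_c_up_90 (lowMem 10000 hx0 hx1) (lowMem 10000 hy0 hy1)
    (lowMem 10000 (by push_cast; linarith) hz1) (hS.mem_high (s := 673470) (by norm_num))⟩

theorem six_c_node_58 {u v d S' : ℝ}
    (hx0 : 8205 / 10000 ≤ u) (hx1 : u < 8358 / 10000) (hy0 : 7225 / 10000 ≤ v) (hy1 : v < 11550 / 10000)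
    (hz0 : 2094 / 10000 ≤ d) (hz1 : d < 2342 / 10000) (hS : SixSide d S') (hgap : 0 ≤ sixCP.val u v d S') :
    ∃ i j l : ℕ, 0 < (sixCCond i j l).val u v d S' := by
  rcases lt_or_ge v (9387 / 10000) with g | g
  · exact six_c_node_59 hx0 hx1 hy0 g hz0 hz1 hS hgap
  · exact six_c_node_60 hx0 hx1 g hy1 hz0 hz1 hS hgap

theorem six_c_node_56 {u v d S' : ℝ}
    (hx0 : 8205 / 10000 ≤ u) (hx1 : u < 8358 / 10000) (hy0 : 7225 / 10000 ≤ v) (hy1 : v < 11550 / 10000)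
    (hz0 : 1846 / 10000 ≤ d) (hz1 : d < 2342 / 10000) (hS : SixSide d S') (hgap : 0 ≤ sixCP.val u v d S') :
    ∃ i j l : ℕ, 0 < (sixCCond i j l).val u v d S' := by
  rcases lt_or_ge d (2094 / 10000) with g | g
  · exact six_c_node_57 hx0 hx1 hy0 hy1 hz0 g hS hgap
  · exact six_c_node_58 hx0 hx1 hy0 hy1 g hz1 hS hgap

theorem six_c_node_63 {u v d S' : ℝ}
    (hx0 : 8358 / 10000 ≤ u) (hx1 : u < 8500 / 10000) (hy0 : 7225 / 10000 ≤ v) (hy1 : v < 9387 / 10000)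
    (hz0 : 1846 / 10000 ≤ d) (hz1 : d < 2094 / 10000) (hS : SixSide d S') (_hgap : 0 ≤ sixCP.val u v d S') :
    ∃ i j l : ℕ, 0 < (sixCCond i j l).val u v d S' := by
  exact ⟨0, 0, 0, Ex.pos_of_checkQuick six_c_up_91 (lowMem 10000 hx0 hx1) (lowMem 10000 hy0 hy1)
    (lowMem 10000 (by push_cast; linarith) hz1) (hS.mem_high (s := 673470) (by norm_num))⟩

theorem six_c_node_64 {u v d S' : ℝ}
    (hx0 : 8358 / 10000 ≤ u) (hx1 : u < 8500 / 10000) (hy0 : 9387 / 10000 ≤ v) (hy1 : v < 11550 / 10000)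
    (hz0 : 1846 / 10000 ≤ d) (hz1 : d < 2094 / 10000) (hS : SixSide d S') (_hgap : 0 ≤ sixCP.val u v d S') :
    ∃ i j l : ℕ, 0 < (sixCCond i j l).val u v d S' := by
  exact ⟨0, 0, 0, Ex.pos_of_checkQuick six_c_up_92 (lowMem 10000 hx0 hx1) (lowMem 10000 hy0 hy1)
    (lowMem 10000 (by push_cast; linarith) hz1) (hS.mem_high (s := 673470) (by norm_num))⟩

theorem six_c_node_62 {u v d S' : ℝ}
    (hx0 : 8358 / 10000 ≤ u) (hx1 : u < 8500 / 10000) (hy0 : 7225 / 10000 ≤ v) (hy1 : v < 11550 / 10000)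
    (hz0 : 1846 / 10000 ≤ d) (hz1 : d < 2094 / 10000) (hS : SixSide d S') (hgap : 0 ≤ sixCP.val u v d S') :
    ∃ i j l : ℕ, 0 < (sixCCond i j l).val u v d S' := by
  rcases lt_or_ge v (9387 / 10000) with g | g
  · exact six_c_node_63 hx0 hx1 hy0 g hz0 hz1 hS hgap
  · exact six_c_node_64 hx0 hx1 g hy1 hz0 hz1 hS hgap

theorem six_c_node_66 {u v d S' : ℝ}
    (hx0 : 8358 / 10000 ≤ u) (hx1 : u < 8500 / 10000) (hy0 : 7225 / 10000 ≤ v) (hy1 : v < 9387 / 10000)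
    (hz0 : 2094 / 10000 ≤ d) (hz1 : d < 2342 / 10000) (hS : SixSide d S') (_hgap : 0 ≤ sixCP.val u v d S') :
    ∃ i j l : ℕ, 0 < (sixCCond i j l).val u v d S' := by
  exact ⟨0, 0, 0, Ex.pos_of_checkQuick six_c_up_93 (lowMem 10000 hx0 hx1) (lowMem 10000 hy0 hy1)
    (lowMem 10000 (by push_cast; linarith) hz1) (hS.mem_high (s := 673470) (by norm_num))⟩

theorem six_c_node_67 {u v d S' : ℝ}
    (hx0 : 8358 / 10000 ≤ u) (hx1 : u < 8500 / 10000) (hy0 : 9387 / 10000 ≤ v) (hy1 : v < 11550 / 10000)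
    (hz0 : 2094 / 10000 ≤ d) (hz1 : d < 2342 / 10000) (hS : SixSide d S') (_hgap : 0 ≤ sixCP.val u v d S') :
    ∃ i j l : ℕ, 0 < (sixCCond i j l).val u v d S' := by
  exact ⟨0, 0, 0, Ex.pos_of_checkQuick six_c_up_94 (lowMem 10000 hx0 hx1) (lowMem 10000 hy0 hy1)
    (lowMem 10000 (by push_cast; linarith) hz1) (hS.mem_high (s := 673470) (by norm_num))⟩

theorem six_c_node_65 {u v d S' : ℝ}
    (hx0 : 8358 / 10000 ≤ u) (hx1 : u < 8500 / 10000) (hy0 : 7225 / 10000 ≤ v) (hy1 : v < 11550 / 10000)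
    (hz0 : 2094 / 10000 ≤ d) (hz1 : d < 2342 / 10000) (hS : SixSide d S') (hgap : 0 ≤ sixCP.val u v d S') :
    ∃ i j l : ℕ, 0 < (sixCCond i j l).val u v d S' := by
  rcases lt_or_ge v (9387 / 10000) with g | g
  · exact six_c_node_66 hx0 hx1 hy0 g hz0 hz1 hS hgap
  · exact six_c_node_67 hx0 hx1 g hy1 hz0 hz1 hS hgap

theorem six_c_node_61 {u v d S' : ℝ}
    (hx0 : 8358 / 10000 ≤ u) (hx1 : u < 8500 / 10000) (hy0 : 7225 / 10000 ≤ v) (hy1 : v < 11550 / 10000)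
    (hz0 : 1846 / 10000 ≤ d) (hz1 : d < 2342 / 10000) (hS : SixSide d S') (hgap : 0 ≤ sixCP.val u v d S') :
    ∃ i j l : ℕ, 0 < (sixCCond i j l).val u v d S' := by
  rcases lt_or_ge d (2094 / 10000) with g | g
  · exact six_c_node_62 hx0 hx1 hy0 hy1 hz0 g hS hgap
  · exact six_c_node_65 hx0 hx1 hy0 hy1 g hz1 hS hgap

theorem six_c_node_55 {u v d S' : ℝ}
    (hx0 : 8205 / 10000 ≤ u) (hx1 : u < 8500 / 10000) (hy0 : 7225 / 10000 ≤ v) (hy1 : v < 11550 / 10000)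
    (hz0 : 1846 / 10000 ≤ d) (hz1 : d < 2342 / 10000) (hS : SixSide d S') (hgap : 0 ≤ sixCP.val u v d S') :
    ∃ i j l : ℕ, 0 < (sixCCond i j l).val u v d S' := by
  rcases lt_or_ge u (8358 / 10000) with g | g
  · exact six_c_node_56 hx0 g hy0 hy1 hz0 hz1 hS hgap
  · exact six_c_node_61 g hx1 hy0 hy1 hz0 hz1 hS hgap

theorem six_c_node_53 {u v d S' : ℝ}
    (hx0 : 8205 / 10000 ≤ u) (hx1 : u < 8500 / 10000) (hy0 : 2900 / 10000 ≤ v) (hy1 : v < 11550 / 10000)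
    (hz0 : 1846 / 10000 ≤ d) (hz1 : d < 2342 / 10000) (hS : SixSide d S') (hgap : 0 ≤ sixCP.val u v d S') :
    ∃ i j l : ℕ, 0 < (sixCCond i j l).val u v d S' := by
  rcases lt_or_ge v (7225 / 10000) with g | g
  · exact six_c_node_54 hx0 hx1 hy0 g hz0 hz1 hS hgap
  · exact six_c_node_55 hx0 hx1 g hy1 hz0 hz1 hS hgap

theorem six_c_node_49 {u v d S' : ℝ}
    (hx0 : 8205 / 10000 ≤ u) (hx1 : u < 8500 / 10000) (hy0 : 2900 / 10000 ≤ v) (hy1 : v < 11550 / 10000)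
    (hz0 : 1350 / 10000 ≤ d) (hz1 : d < 2342 / 10000) (hS : SixSide d S') (hgap : 0 ≤ sixCP.val u v d S') :
    ∃ i j l : ℕ, 0 < (sixCCond i j l).val u v d S' := by
  rcases lt_or_ge d (1846 / 10000) with g | g
  · exact six_c_node_50 hx0 hx1 hy0 hy1 hz0 g hS hgap
  · exact six_c_node_53 hx0 hx1 hy0 hy1 g hz1 hS hgap

theorem six_c_node_43 {u v d S' : ℝ}
    (hx0 : 7862 / 10000 ≤ u) (hx1 : u < 8500 / 10000) (hy0 : 2900 / 10000 ≤ v) (hy1 : v < 11550 / 10000)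
    (hz0 : 1350 / 10000 ≤ d) (hz1 : d < 2342 / 10000) (hS : SixSide d S') (hgap : 0 ≤ sixCP.val u v d S') :
    ∃ i j l : ℕ, 0 < (sixCCond i j l).val u v d S' := by
  rcases lt_or_ge u (8205 / 10000) with g | g
  · exact six_c_node_44 hx0 g hy0 hy1 hz0 hz1 hS hgap
  · exact six_c_node_49 g hx1 hy0 hy1 hz0 hz1 hS hgap

theorem six_c_node_68 {u v d S' : ℝ}
    (hx0 : 7862 / 10000 ≤ u) (hx1 : u < 8500 / 10000) (hy0 : 11550 / 10000 ≤ v) (hy1 : v < 20200 / 10000)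
    (hz0 : 1350 / 10000 ≤ d) (hz1 : d < 2342 / 10000) (hS : SixSide d S') (_hgap : 0 ≤ sixCP.val u v d S') :
    ∃ i j l : ℕ, 0 < (sixCCond i j l).val u v d S' := by
  exact ⟨0, 0, 0, Ex.pos_of_checkQuick six_c_up_95 (lowMem 10000 hx0 hx1) (lowMem 10000 hy0 hy1)
    (lowMem 10000 (by push_cast; linarith) hz1) (hS.mem_high (s := 673470) (by norm_num))⟩

theorem six_c_node_42 {u v d S' : ℝ}
    (hx0 : 7862 / 10000 ≤ u) (hx1 : u < 8500 / 10000) (hy0 : 2900 / 10000 ≤ v) (hy1 : v < 20200 / 10000)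
    (hz0 : 1350 / 10000 ≤ d) (hz1 : d < 2342 / 10000) (hS : SixSide d S') (hgap : 0 ≤ sixCP.val u v d S') :
    ∃ i j l : ℕ, 0 < (sixCCond i j l).val u v d S' := by
  rcases lt_or_ge v (11550 / 10000) with g | g
  · exact six_c_node_43 hx0 hx1 hy0 g hz0 hz1 hS hgap
  · exact six_c_node_68 hx0 hx1 g hy1 hz0 hz1 hS hgap

theorem six_c_node_73 {u v d S' : ℝ}
    (hx0 : 7862 / 10000 ≤ u) (hx1 : u < 8205 / 10000) (hy0 : 2900 / 10000 ≤ v) (hy1 : v < 7225 / 10000)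
    (hz0 : 2342 / 10000 ≤ d) (hz1 : d < 2838 / 10000) (hS : SixSide d S') (_hgap : 0 ≤ sixCP.val u v d S') :
    ∃ i j l : ℕ, 0 < (sixCCond i j l).val u v d S' := by
  exact ⟨0, 0, 0, Ex.pos_of_checkQuick six_c_up_96 (lowMem 10000 hx0 hx1) (lowMem 10000 hy0 hy1)
    (lowMem 10000 (by push_cast; linarith) hz1) (hS.mem_high (s := 673470) (by norm_num))⟩

theorem six_c_node_74 {u v d S' : ℝ}
    (hx0 : 7862 / 10000 ≤ u) (hx1 : u < 8205 / 10000) (hy0 : 7225 / 10000 ≤ v) (hy1 : v < 11550 / 10000)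
    (hz0 : 2342 / 10000 ≤ d) (hz1 : d < 2838 / 10000) (hS : SixSide d S') (_hgap : 0 ≤ sixCP.val u v d S') :
    ∃ i j l : ℕ, 0 < (sixCCond i j l).val u v d S' := by
  exact ⟨0, 0, 0, Ex.pos_of_checkQuick six_c_up_97 (lowMem 10000 hx0 hx1) (lowMem 10000 hy0 hy1)
    (lowMem 10000 (by push_cast; linarith) hz1) (hS.mem_high (s := 673470) (by norm_num))⟩

theorem six_c_node_72 {u v d S' : ℝ}
    (hx0 : 7862 / 10000 ≤ u) (hx1 : u < 8205 / 10000) (hy0 : 2900 / 10000 ≤ v) (hy1 : v < 11550 / 10000)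
    (hz0 : 2342 / 10000 ≤ d) (hz1 : d < 2838 / 10000) (hS : SixSide d S') (hgap : 0 ≤ sixCP.val u v d S') :
    ∃ i j l : ℕ, 0 < (sixCCond i j l).val u v d S' := by
  rcases lt_or_ge v (7225 / 10000) with g | g
  · exact six_c_node_73 hx0 hx1 hy0 g hz0 hz1 hS hgap
  · exact six_c_node_74 hx0 hx1 g hy1 hz0 hz1 hS hgap

theorem six_c_node_76 {u v d S' : ℝ}
    (hx0 : 7862 / 10000 ≤ u) (hx1 : u < 8205 / 10000) (hy0 : 2900 / 10000 ≤ v) (hy1 : v < 7225 / 10000)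
    (hz0 : 2838 / 10000 ≤ d) (hz1 : d < 3334 / 10000) (hS : SixSide d S') (_hgap : 0 ≤ sixCP.val u v d S') :
    ∃ i j l : ℕ, 0 < (sixCCond i j l).val u v d S' := by
  exact ⟨0, 17, 0, Ex.pos_of_checkQuick six_c_up_98 (lowMem 10000 hx0 hx1) (lowMem 10000 hy0 hy1)
    (lowMem 10000 (by push_cast; linarith) hz1) (hS.mem_high (s := 673470) (by norm_num))⟩

theorem six_c_node_77 {u v d S' : ℝ}
    (hx0 : 7862 / 10000 ≤ u) (hx1 : u < 8205 / 10000) (hy0 : 7225 / 10000 ≤ v) (hy1 : v < 11550 / 10000)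
    (hz0 : 2838 / 10000 ≤ d) (hz1 : d < 3334 / 10000) (hS : SixSide d S') (_hgap : 0 ≤ sixCP.val u v d S') :
    ∃ i j l : ℕ, 0 < (sixCCond i j l).val u v d S' := by
  exact ⟨0, 0, 0, Ex.pos_of_checkQuick six_c_up_99 (lowMem 10000 hx0 hx1) (lowMem 10000 hy0 hy1)
    (lowMem 10000 (by push_cast; linarith) hz1) (hS.mem_high (s := 673470) (by norm_num))⟩

theorem six_c_node_75 {u v d S' : ℝ}
    (hx0 : 7862 / 10000 ≤ u) (hx1 : u < 8205 / 10000) (hy0 : 2900 / 10000 ≤ v) (hy1 : v < 11550 / 10000)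
    (hz0 : 2838 / 10000 ≤ d) (hz1 : d < 3334 / 10000) (hS : SixSide d S') (hgap : 0 ≤ sixCP.val u v d S') :
    ∃ i j l : ℕ, 0 < (sixCCond i j l).val u v d S' := by
  rcases lt_or_ge v (7225 / 10000) with g | g
  · exact six_c_node_76 hx0 hx1 hy0 g hz0 hz1 hS hgap
  · exact six_c_node_77 hx0 hx1 g hy1 hz0 hz1 hS hgap

theorem six_c_node_71 {u v d S' : ℝ}
    (hx0 : 7862 / 10000 ≤ u) (hx1 : u < 8205 / 10000) (hy0 : 2900 / 10000 ≤ v) (hy1 : v < 11550 / 10000)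
    (hz0 : 2342 / 10000 ≤ d) (hz1 : d < 3334 / 10000) (hS : SixSide d S') (hgap : 0 ≤ sixCP.val u v d S') :
    ∃ i j l : ℕ, 0 < (sixCCond i j l).val u v d S' := by
  rcases lt_or_ge d (2838 / 10000) with g | g
  · exact six_c_node_72 hx0 hx1 hy0 hy1 hz0 g hS hgap
  · exact six_c_node_75 hx0 hx1 hy0 hy1 g hz1 hS hgap

theorem six_c_node_80 {u v d S' : ℝ}
    (hx0 : 8205 / 10000 ≤ u) (hx1 : u < 8500 / 10000) (hy0 : 2900 / 10000 ≤ v) (hy1 : v < 7225 / 10000)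
    (hz0 : 2342 / 10000 ≤ d) (hz1 : d < 2838 / 10000) (hS : SixSide d S') (_hgap : 0 ≤ sixCP.val u v d S') :
    ∃ i j l : ℕ, 0 < (sixCCond i j l).val u v d S' := by
  exact ⟨0, 0, 0, Ex.pos_of_checkQuick six_c_up_100 (lowMem 10000 hx0 hx1) (lowMem 10000 hy0 hy1)
    (lowMem 10000 (by push_cast; linarith) hz1) (hS.mem_high (s := 673470) (by norm_num))⟩

theorem six_c_node_84 {u v d S' : ℝ}
    (hx0 : 8205 / 10000 ≤ u) (hx1 : u < 8358 / 10000) (hy0 : 7225 / 10000 ≤ v) (hy1 : v < 9387 / 10000)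
    (hz0 : 2342 / 10000 ≤ d) (hz1 : d < 2590 / 10000) (hS : SixSide d S') (_hgap : 0 ≤ sixCP.val u v d S') :
    ∃ i j l : ℕ, 0 < (sixCCond i j l).val u v d S' := by
  exact ⟨0, 0, 0, Ex.pos_of_checkQuick six_c_up_101 (lowMem 10000 hx0 hx1) (lowMem 10000 hy0 hy1)
    (lowMem 10000 (by push_cast; linarith) hz1) (hS.mem_high (s := 673470) (by norm_num))⟩

theorem six_c_node_85 {u v d S' : ℝ}
    (hx0 : 8205 / 10000 ≤ u) (hx1 : u < 8358 / 10000) (hy0 : 9387 / 10000 ≤ v) (hy1 : v < 11550 / 10000)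
    (hz0 : 2342 / 10000 ≤ d) (hz1 : d < 2590 / 10000) (hS : SixSide d S') (_hgap : 0 ≤ sixCP.val u v d S') :
    ∃ i j l : ℕ, 0 < (sixCCond i j l).val u v d S' := by
  exact ⟨0, 0, 0, Ex.pos_of_checkQuick six_c_up_102 (lowMem 10000 hx0 hx1) (lowMem 10000 hy0 hy1)
    (lowMem 10000 (by push_cast; linarith) hz1) (hS.mem_high (s := 673470) (by norm_num))⟩

theorem six_c_node_83 {u v d S' : ℝ}
    (hx0 : 8205 / 10000 ≤ u) (hx1 : u < 8358 / 10000) (hy0 : 7225 / 10000 ≤ v) (hy1 : v < 11550 / 10000)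
    (hz0 : 2342 / 10000 ≤ d) (hz1 : d < 2590 / 10000) (hS : SixSide d S') (hgap : 0 ≤ sixCP.val u v d S') :
    ∃ i j l : ℕ, 0 < (sixCCond i j l).val u v d S' := by
  rcases lt_or_ge v (9387 / 10000) with g | g
  · exact six_c_node_84 hx0 hx1 hy0 g hz0 hz1 hS hgap
  · exact six_c_node_85 hx0 hx1 g hy1 hz0 hz1 hS hgap

theorem six_c_node_86 {u v d S' : ℝ}
    (hx0 : 8205 / 10000 ≤ u) (hx1 : u < 8358 / 10000) (hy0 : 7225 / 10000 ≤ v) (hy1 : v < 11550 / 10000)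
    (hz0 : 2590 / 10000 ≤ d) (hz1 : d < 2838 / 10000) (hS : SixSide d S') (_hgap : 0 ≤ sixCP.val u v d S') :
    ∃ i j l : ℕ, 0 < (sixCCond i j l).val u v d S' := by
  exact ⟨0, 0, 0, Ex.pos_of_checkQuick six_c_up_103 (lowMem 10000 hx0 hx1) (lowMem 10000 hy0 hy1)
    (lowMem 10000 (by push_cast; linarith) hz1) (hS.mem_high (s := 673470) (by norm_num))⟩

theorem six_c_node_82 {u v d S' : ℝ}
    (hx0 : 8205 / 10000 ≤ u) (hx1 : u < 8358 / 10000) (hy0 : 7225 / 10000 ≤ v) (hy1 : v < 11550 / 10000)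
    (hz0 : 2342 / 10000 ≤ d) (hz1 : d < 2838 / 10000) (hS : SixSide d S') (hgap : 0 ≤ sixCP.val u v d S') :
    ∃ i j l : ℕ, 0 < (sixCCond i j l).val u v d S' := by
  rcases lt_or_ge d (2590 / 10000) with g | g
  · exact six_c_node_83 hx0 hx1 hy0 hy1 hz0 g hS hgap
  · exact six_c_node_86 hx0 hx1 hy0 hy1 g hz1 hS hgap

theorem six_c_node_89 {u v d S' : ℝ}
    (hx0 : 8358 / 10000 ≤ u) (hx1 : u < 8500 / 10000) (hy0 : 7225 / 10000 ≤ v) (hy1 : v < 9387 / 10000)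
    (hz0 : 2342 / 10000 ≤ d) (hz1 : d < 2590 / 10000) (hS : SixSide d S') (_hgap : 0 ≤ sixCP.val u v d S') :
    ∃ i j l : ℕ, 0 < (sixCCond i j l).val u v d S' := by
  exact ⟨0, 0, 0, Ex.pos_of_checkQuick six_c_up_104 (lowMem 10000 hx0 hx1) (lowMem 10000 hy0 hy1)
    (lowMem 10000 (by push_cast; linarith) hz1) (hS.mem_high (s := 673470) (by norm_num))⟩

theorem six_c_node_90 {u v d S' : ℝ}
    (hx0 : 8358 / 10000 ≤ u) (hx1 : u < 8500 / 10000) (hy0 : 9387 / 10000 ≤ v) (hy1 : v < 11550 / 10000)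
    (hz0 : 2342 / 10000 ≤ d) (hz1 : d < 2590 / 10000) (hS : SixSide d S') (_hgap : 0 ≤ sixCP.val u v d S') :
    ∃ i j l : ℕ, 0 < (sixCCond i j l).val u v d S' := by
  exact ⟨0, 0, 0, Ex.pos_of_checkQuick six_c_up_105 (lowMem 10000 hx0 hx1) (lowMem 10000 hy0 hy1)
    (lowMem 10000 (by push_cast; linarith) hz1) (hS.mem_high (s := 673470) (by norm_num))⟩

theorem six_c_node_88 {u v d S' : ℝ}
    (hx0 : 8358 / 10000 ≤ u) (hx1 : u < 8500 / 10000) (hy0 : 7225 / 10000 ≤ v) (hy1 : v < 11550 / 10000)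
    (hz0 : 2342 / 10000 ≤ d) (hz1 : d < 2590 / 10000) (hS : SixSide d S') (hgap : 0 ≤ sixCP.val u v d S') :
    ∃ i j l : ℕ, 0 < (sixCCond i j l).val u v d S' := by
  rcases lt_or_ge v (9387 / 10000) with g | g
  · exact six_c_node_89 hx0 hx1 hy0 g hz0 hz1 hS hgap
  · exact six_c_node_90 hx0 hx1 g hy1 hz0 hz1 hS hgap

theorem six_c_node_91 {u v d S' : ℝ}
    (hx0 : 8358 / 10000 ≤ u) (hx1 : u < 8500 / 10000) (hy0 : 7225 / 10000 ≤ v) (hy1 : v < 11550 / 10000)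
    (hz0 : 2590 / 10000 ≤ d) (hz1 : d < 2838 / 10000) (hS : SixSide d S') (_hgap : 0 ≤ sixCP.val u v d S') :
    ∃ i j l : ℕ, 0 < (sixCCond i j l).val u v d S' := by
  exact ⟨0, 0, 0, Ex.pos_of_checkQuick six_c_up_106 (lowMem 10000 hx0 hx1) (lowMem 10000 hy0 hy1)
    (lowMem 10000 (by push_cast; linarith) hz1) (hS.mem_high (s := 673470) (by norm_num))⟩

theorem six_c_node_87 {u v d S' : ℝ}
    (hx0 : 8358 / 10000 ≤ u) (hx1 : u < 8500 / 10000) (hy0 : 7225 / 10000 ≤ v) (hy1 : v < 11550 / 10000)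
    (hz0 : 2342 / 10000 ≤ d) (hz1 : d < 2838 / 10000) (hS : SixSide d S') (hgap : 0 ≤ sixCP.val u v d S') :
    ∃ i j l : ℕ, 0 < (sixCCond i j l).val u v d S' := by
  rcases lt_or_ge d (2590 / 10000) with g | g
  · exact six_c_node_88 hx0 hx1 hy0 hy1 hz0 g hS hgap
  · exact six_c_node_91 hx0 hx1 hy0 hy1 g hz1 hS hgap

theorem six_c_node_81 {u v d S' : ℝ}
    (hx0 : 8205 / 10000 ≤ u) (hx1 : u < 8500 / 10000) (hy0 : 7225 / 10000 ≤ v) (hy1 : v < 11550 / 10000)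
    (hz0 : 2342 / 10000 ≤ d) (hz1 : d < 2838 / 10000) (hS : SixSide d S') (hgap : 0 ≤ sixCP.val u v d S') :
    ∃ i j l : ℕ, 0 < (sixCCond i j l).val u v d S' := by
  rcases lt_or_ge u (8358 / 10000) with g | g
  · exact six_c_node_82 hx0 g hy0 hy1 hz0 hz1 hS hgap
  · exact six_c_node_87 g hx1 hy0 hy1 hz0 hz1 hS hgap

theorem six_c_node_79 {u v d S' : ℝ}
    (hx0 : 8205 / 10000 ≤ u) (hx1 : u < 8500 / 10000) (hy0 : 2900 / 10000 ≤ v) (hy1 : v < 11550 / 10000)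
    (hz0 : 2342 / 10000 ≤ d) (hz1 : d < 2838 / 10000) (hS : SixSide d S') (hgap : 0 ≤ sixCP.val u v d S') :
    ∃ i j l : ℕ, 0 < (sixCCond i j l).val u v d S' := by
  rcases lt_or_ge v (7225 / 10000) with g | g
  · exact six_c_node_80 hx0 hx1 hy0 g hz0 hz1 hS hgap
  · exact six_c_node_81 hx0 hx1 g hy1 hz0 hz1 hS hgap

theorem six_c_node_93 {u v d S' : ℝ}
    (hx0 : 8205 / 10000 ≤ u) (hx1 : u < 8500 / 10000) (hy0 : 2900 / 10000 ≤ v) (hy1 : v < 7225 / 10000)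
    (hz0 : 2838 / 10000 ≤ d) (hz1 : d < 3334 / 10000) (hS : SixSide d S') (_hgap : 0 ≤ sixCP.val u v d S') :
    ∃ i j l : ℕ, 0 < (sixCCond i j l).val u v d S' := by
  exact ⟨0, 0, 0, Ex.pos_of_checkQuick six_c_up_107 (lowMem 10000 hx0 hx1) (lowMem 10000 hy0 hy1)
    (lowMem 10000 (by push_cast; linarith) hz1) (hS.mem_high (s := 673470) (by norm_num))⟩

theorem six_c_node_94 {u v d S' : ℝ}
    (hx0 : 8205 / 10000 ≤ u) (hx1 : u < 8500 / 10000) (hy0 : 7225 / 10000 ≤ v) (hy1 : v < 11550 / 10000)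
    (hz0 : 2838 / 10000 ≤ d) (hz1 : d < 3334 / 10000) (hS : SixSide d S') (_hgap : 0 ≤ sixCP.val u v d S') :
    ∃ i j l : ℕ, 0 < (sixCCond i j l).val u v d S' := by
  exact ⟨0, 0, 0, Ex.pos_of_checkQuick six_c_up_108 (lowMem 10000 hx0 hx1) (lowMem 10000 hy0 hy1)
    (lowMem 10000 (by push_cast; linarith) hz1) (hS.mem_high (s := 673470) (by norm_num))⟩

theorem six_c_node_92 {u v d S' : ℝ}
    (hx0 : 8205 / 10000 ≤ u) (hx1 : u < 8500 / 10000) (hy0 : 2900 / 10000 ≤ v) (hy1 : v < 11550 / 10000)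
    (hz0 : 2838 / 10000 ≤ d) (hz1 : d < 3334 / 10000) (hS : SixSide d S') (hgap : 0 ≤ sixCP.val u v d S') :
    ∃ i j l : ℕ, 0 < (sixCCond i j l).val u v d S' := by
  rcases lt_or_ge v (7225 / 10000) with g | g
  · exact six_c_node_93 hx0 hx1 hy0 g hz0 hz1 hS hgap
  · exact six_c_node_94 hx0 hx1 g hy1 hz0 hz1 hS hgap

theorem six_c_node_78 {u v d S' : ℝ}
    (hx0 : 8205 / 10000 ≤ u) (hx1 : u < 8500 / 10000) (hy0 : 2900 / 10000 ≤ v) (hy1 : v < 11550 / 10000)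
    (hz0 : 2342 / 10000 ≤ d) (hz1 : d < 3334 / 10000) (hS : SixSide d S') (hgap : 0 ≤ sixCP.val u v d S') :
    ∃ i j l : ℕ, 0 < (sixCCond i j l).val u v d S' := by
  rcases lt_or_ge d (2838 / 10000) with g | g
  · exact six_c_node_79 hx0 hx1 hy0 hy1 hz0 g hS hgap
  · exact six_c_node_92 hx0 hx1 hy0 hy1 g hz1 hS hgap

theorem six_c_node_70 {u v d S' : ℝ}
    (hx0 : 7862 / 10000 ≤ u) (hx1 : u < 8500 / 10000) (hy0 : 2900 / 10000 ≤ v) (hy1 : v < 11550 / 10000)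
    (hz0 : 2342 / 10000 ≤ d) (hz1 : d < 3334 / 10000) (hS : SixSide d S') (hgap : 0 ≤ sixCP.val u v d S') :
    ∃ i j l : ℕ, 0 < (sixCCond i j l).val u v d S' := by
  rcases lt_or_ge u (8205 / 10000) with g | g
  · exact six_c_node_71 hx0 g hy0 hy1 hz0 hz1 hS hgap
  · exact six_c_node_78 g hx1 hy0 hy1 hz0 hz1 hS hgap

theorem six_c_node_95 {u v d S' : ℝ}
    (hx0 : 7862 / 10000 ≤ u) (hx1 : u < 8500 / 10000) (hy0 : 11550 / 10000 ≤ v) (hy1 : v < 20200 / 10000)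
    (hz0 : 2342 / 10000 ≤ d) (hz1 : d < 3334 / 10000) (hS : SixSide d S') (hgap : 0 ≤ sixCP.val u v d S') :
    ∃ i j l : ℕ, 0 < (sixCCond i j l).val u v d S' := by
  have k : 0 < (Ex.sub (eC 0) sixCP).val u v d S' := Ex.pos_of_checkQuick six_c_out_4 (lowMem 10000 hx0 hx1) (lowMem 10000 hy0 hy1)
    (lowMem 10000 (by push_cast; linarith) hz1) (hS.mem_high (s := 673470) (by norm_num))
  simp only [Ex.val] at k
  push_cast at k
  exact absurd hgap (not_le.2 (by linarith))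

theorem six_c_node_69 {u v d S' : ℝ}
    (hx0 : 7862 / 10000 ≤ u) (hx1 : u < 8500 / 10000) (hy0 : 2900 / 10000 ≤ v) (hy1 : v < 20200 / 10000)
    (hz0 : 2342 / 10000 ≤ d) (hz1 : d < 3334 / 10000) (hS : SixSide d S') (hgap : 0 ≤ sixCP.val u v d S') :
    ∃ i j l : ℕ, 0 < (sixCCond i j l).val u v d S' := by
  rcases lt_or_ge v (11550 / 10000) with g | g
  · exact six_c_node_70 hx0 hx1 hy0 g hz0 hz1 hS hgap
  · exact six_c_node_95 hx0 hx1 g hy1 hz0 hz1 hS hgap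

theorem six_c_node_41 {u v d S' : ℝ}
    (hx0 : 7862 / 10000 ≤ u) (hx1 : u < 8500 / 10000) (hy0 : 2900 / 10000 ≤ v) (hy1 : v < 20200 / 10000)
    (hz0 : 1350 / 10000 ≤ d) (hz1 : d < 3334 / 10000) (hS : SixSide d S') (hgap : 0 ≤ sixCP.val u v d S') :
    ∃ i j l : ℕ, 0 < (sixCCond i j l).val u v d S' := by
  rcases lt_or_ge d (2342 / 10000) with g | g
  · exact six_c_node_42 hx0 hx1 hy0 hy1 hz0 g hS hgap
  · exact six_c_node_69 hx0 hx1 hy0 hy1 g hz1 hS hgap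

theorem six_c_node_11 {u v d S' : ℝ}
    (hx0 : 7000 / 10000 ≤ u) (hx1 : u < 8500 / 10000) (hy0 : 2900 / 10000 ≤ v) (hy1 : v < 20200 / 10000)
    (hz0 : 1350 / 10000 ≤ d) (hz1 : d < 3334 / 10000) (hS : SixSide d S') (hgap : 0 ≤ sixCP.val u v d S') :
    ∃ i j l : ℕ, 0 < (sixCCond i j l).val u v d S' := by
  rcases lt_or_ge u (7862 / 10000) with g | g
  · exact six_c_node_12 hx0 g hy0 hy1 hz0 hz1 hS hgap
  · exact six_c_node_41 g hx1 hy0 hy1 hz0 hz1 hS hgap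

theorem six_c_node_96 {u v d S' : ℝ}
    (hx0 : 7000 / 10000 ≤ u) (hx1 : u < 8500 / 10000) (hy0 : 20200 / 10000 ≤ v) (hy1 : v < 37501 / 10000)
    (hz0 : 1350 / 10000 ≤ d) (hz1 : d < 3334 / 10000) (hS : SixSide d S') (hgap : 0 ≤ sixCP.val u v d S') :
    ∃ i j l : ℕ, 0 < (sixCCond i j l).val u v d S' := by
  have k : 0 < (Ex.sub (eC 0) sixCP).val u v d S' := Ex.pos_of_checkQuick six_c_out_5 (lowMem 10000 hx0 hx1) (lowMem 10000 hy0 hy1)
    (lowMem 10000 (by push_cast; linarith) hz1) (hS.mem_high (s := 673470) (by norm_num))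
  simp only [Ex.val] at k
  push_cast at k
  exact absurd hgap (not_le.2 (by linarith))

theorem six_c_node_10 {u v d S' : ℝ}
    (hx0 : 7000 / 10000 ≤ u) (hx1 : u < 8500 / 10000) (hy0 : 2900 / 10000 ≤ v) (hy1 : v < 37501 / 10000)
    (hz0 : 1350 / 10000 ≤ d) (hz1 : d < 3334 / 10000) (hS : SixSide d S') (hgap : 0 ≤ sixCP.val u v d S') :
    ∃ i j l : ℕ, 0 < (sixCCond i j l).val u v d S' := by
  rcases lt_or_ge v (20200 / 10000) with g | g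
  · exact six_c_node_11 hx0 hx1 hy0 g hz0 hz1 hS hgap
  · exact six_c_node_96 hx0 hx1 g hy1 hz0 hz1 hS hgap

theorem six_c_node_104 {u v d S' : ℝ}
    (hx0 : 8500 / 10000 ≤ u) (hx1 : u < 8745 / 10000) (hy0 : 2900 / 10000 ≤ v) (hy1 : v < 7225 / 10000)
    (hz0 : 1350 / 10000 ≤ d) (hz1 : d < 1846 / 10000) (hS : SixSide d S') (_hgap : 0 ≤ sixCP.val u v d S') :
    ∃ i j l : ℕ, 0 < (sixCCond i j l).val u v d S' := by
  exact ⟨0, 2798021191, 0, Ex.pos_of_checkQuick six_c_up_109 (lowMem 10000 hx0 hx1) (lowMem 10000 hy0 hy1)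
    (lowMem 10000 (by push_cast; linarith) hz1) (hS.mem_high (s := 673470) (by norm_num))⟩

theorem six_c_node_105 {u v d S' : ℝ}
    (hx0 : 8500 / 10000 ≤ u) (hx1 : u < 8745 / 10000) (hy0 : 7225 / 10000 ≤ v) (hy1 : v < 11550 / 10000)
    (hz0 : 1350 / 10000 ≤ d) (hz1 : d < 1846 / 10000) (hS : SixSide d S') (_hgap : 0 ≤ sixCP.val u v d S') :
    ∃ i j l : ℕ, 0 < (sixCCond i j l).val u v d S' := by
  exact ⟨0, 0, 0, Ex.pos_of_checkQuick six_c_up_110 (lowMem 10000 hx0 hx1) (lowMem 10000 hy0 hy1)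
    (lowMem 10000 (by push_cast; linarith) hz1) (hS.mem_high (s := 673470) (by norm_num))⟩

theorem six_c_node_103 {u v d S' : ℝ}
    (hx0 : 8500 / 10000 ≤ u) (hx1 : u < 8745 / 10000) (hy0 : 2900 / 10000 ≤ v) (hy1 : v < 11550 / 10000)
    (hz0 : 1350 / 10000 ≤ d) (hz1 : d < 1846 / 10000) (hS : SixSide d S') (hgap : 0 ≤ sixCP.val u v d S') :
    ∃ i j l : ℕ, 0 < (sixCCond i j l).val u v d S' := by
  rcases lt_or_ge v (7225 / 10000) with g | g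
  · exact six_c_node_104 hx0 hx1 hy0 g hz0 hz1 hS hgap
  · exact six_c_node_105 hx0 hx1 g hy1 hz0 hz1 hS hgap

theorem six_c_node_107 {u v d S' : ℝ}
    (hx0 : 8500 / 10000 ≤ u) (hx1 : u < 8745 / 10000) (hy0 : 2900 / 10000 ≤ v) (hy1 : v < 7225 / 10000)
    (hz0 : 1846 / 10000 ≤ d) (hz1 : d < 2342 / 10000) (hS : SixSide d S') (_hgap : 0 ≤ sixCP.val u v d S') :
    ∃ i j l : ℕ, 0 < (sixCCond i j l).val u v d S' := by
  exact ⟨0, 0, 0, Ex.pos_of_checkQuick six_c_up_111 (lowMem 10000 hx0 hx1) (lowMem 10000 hy0 hy1)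
    (lowMem 10000 (by push_cast; linarith) hz1) (hS.mem_high (s := 673470) (by norm_num))⟩

theorem six_c_node_111 {u v d S' : ℝ}
    (hx0 : 8500 / 10000 ≤ u) (hx1 : u < 8626 / 10000) (hy0 : 7225 / 10000 ≤ v) (hy1 : v < 9387 / 10000)
    (hz0 : 1846 / 10000 ≤ d) (hz1 : d < 2094 / 10000) (hS : SixSide d S') (_hgap : 0 ≤ sixCP.val u v d S') :
    ∃ i j l : ℕ, 0 < (sixCCond i j l).val u v d S' := by
  exact ⟨0, 0, 0, Ex.pos_of_checkQuick six_c_up_112 (lowMem 10000 hx0 hx1) (lowMem 10000 hy0 hy1)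
    (lowMem 10000 (by push_cast; linarith) hz1) (hS.mem_high (s := 673470) (by norm_num))⟩

theorem six_c_node_112 {u v d S' : ℝ}
    (hx0 : 8500 / 10000 ≤ u) (hx1 : u < 8626 / 10000) (hy0 : 9387 / 10000 ≤ v) (hy1 : v < 11550 / 10000)
    (hz0 : 1846 / 10000 ≤ d) (hz1 : d < 2094 / 10000) (hS : SixSide d S') (_hgap : 0 ≤ sixCP.val u v d S') :
    ∃ i j l : ℕ, 0 < (sixCCond i j l).val u v d S' := by
  exact ⟨0, 0, 0, Ex.pos_of_checkQuick six_c_up_113 (lowMem 10000 hx0 hx1) (lowMem 10000 hy0 hy1)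
    (lowMem 10000 (by push_cast; linarith) hz1) (hS.mem_high (s := 673470) (by norm_num))⟩

theorem six_c_node_110 {u v d S' : ℝ}
    (hx0 : 8500 / 10000 ≤ u) (hx1 : u < 8626 / 10000) (hy0 : 7225 / 10000 ≤ v) (hy1 : v < 11550 / 10000)
    (hz0 : 1846 / 10000 ≤ d) (hz1 : d < 2094 / 10000) (hS : SixSide d S') (hgap : 0 ≤ sixCP.val u v d S') :
    ∃ i j l : ℕ, 0 < (sixCCond i j l).val u v d S' := by
  rcases lt_or_ge v (9387 / 10000) with g | g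
  · exact six_c_node_111 hx0 hx1 hy0 g hz0 hz1 hS hgap
  · exact six_c_node_112 hx0 hx1 g hy1 hz0 hz1 hS hgap

theorem six_c_node_114 {u v d S' : ℝ}
    (hx0 : 8500 / 10000 ≤ u) (hx1 : u < 8626 / 10000) (hy0 : 7225 / 10000 ≤ v) (hy1 : v < 9387 / 10000)
    (hz0 : 2094 / 10000 ≤ d) (hz1 : d < 2342 / 10000) (hS : SixSide d S') (_hgap : 0 ≤ sixCP.val u v d S') :
    ∃ i j l : ℕ, 0 < (sixCCond i j l).val u v d S' := by
  exact ⟨0, 0, 0, Ex.pos_of_checkQuick six_c_up_114 (lowMem 10000 hx0 hx1) (lowMem 10000 hy0 hy1)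
    (lowMem 10000 (by push_cast; linarith) hz1) (hS.mem_high (s := 673470) (by norm_num))⟩

theorem six_c_node_115 {u v d S' : ℝ}
    (hx0 : 8500 / 10000 ≤ u) (hx1 : u < 8626 / 10000) (hy0 : 9387 / 10000 ≤ v) (hy1 : v < 11550 / 10000)
    (hz0 : 2094 / 10000 ≤ d) (hz1 : d < 2342 / 10000) (hS : SixSide d S') (_hgap : 0 ≤ sixCP.val u v d S') :
    ∃ i j l : ℕ, 0 < (sixCCond i j l).val u v d S' := by
  exact ⟨0, 0, 0, Ex.pos_of_checkQuick six_c_up_115 (lowMem 10000 hx0 hx1) (lowMem 10000 hy0 hy1)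
    (lowMem 10000 (by push_cast; linarith) hz1) (hS.mem_high (s := 673470) (by norm_num))⟩

theorem six_c_node_113 {u v d S' : ℝ}
    (hx0 : 8500 / 10000 ≤ u) (hx1 : u < 8626 / 10000) (hy0 : 7225 / 10000 ≤ v) (hy1 : v < 11550 / 10000)
    (hz0 : 2094 / 10000 ≤ d) (hz1 : d < 2342 / 10000) (hS : SixSide d S') (hgap : 0 ≤ sixCP.val u v d S') :
    ∃ i j l : ℕ, 0 < (sixCCond i j l).val u v d S' := by
  rcases lt_or_ge v (9387 / 10000) with g | g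
  · exact six_c_node_114 hx0 hx1 hy0 g hz0 hz1 hS hgap
  · exact six_c_node_115 hx0 hx1 g hy1 hz0 hz1 hS hgap

theorem six_c_node_109 {u v d S' : ℝ}
    (hx0 : 8500 / 10000 ≤ u) (hx1 : u < 8626 / 10000) (hy0 : 7225 / 10000 ≤ v) (hy1 : v < 11550 / 10000)
    (hz0 : 1846 / 10000 ≤ d) (hz1 : d < 2342 / 10000) (hS : SixSide d S') (hgap : 0 ≤ sixCP.val u v d S') :
    ∃ i j l : ℕ, 0 < (sixCCond i j l).val u v d S' := by
  rcases lt_or_ge d (2094 / 10000) with g | g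
  · exact six_c_node_110 hx0 hx1 hy0 hy1 hz0 g hS hgap
  · exact six_c_node_113 hx0 hx1 hy0 hy1 g hz1 hS hgap

theorem six_c_node_118 {u v d S' : ℝ}
    (hx0 : 8626 / 10000 ≤ u) (hx1 : u < 8745 / 10000) (hy0 : 7225 / 10000 ≤ v) (hy1 : v < 9387 / 10000)
    (hz0 : 1846 / 10000 ≤ d) (hz1 : d < 2094 / 10000) (hS : SixSide d S') (_hgap : 0 ≤ sixCP.val u v d S') :
    ∃ i j l : ℕ, 0 < (sixCCond i j l).val u v d S' := by
  exact ⟨0, 0, 0, Ex.pos_of_checkQuick six_c_up_116 (lowMem 10000 hx0 hx1) (lowMem 10000 hy0 hy1)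
    (lowMem 10000 (by push_cast; linarith) hz1) (hS.mem_high (s := 673470) (by norm_num))⟩

theorem six_c_node_119 {u v d S' : ℝ}
    (hx0 : 8626 / 10000 ≤ u) (hx1 : u < 8745 / 10000) (hy0 : 9387 / 10000 ≤ v) (hy1 : v < 11550 / 10000)
    (hz0 : 1846 / 10000 ≤ d) (hz1 : d < 2094 / 10000) (hS : SixSide d S') (_hgap : 0 ≤ sixCP.val u v d S') :
    ∃ i j l : ℕ, 0 < (sixCCond i j l).val u v d S' := by
  exact ⟨0, 0, 0, Ex.pos_of_checkQuick six_c_up_117 (lowMem 10000 hx0 hx1) (lowMem 10000 hy0 hy1)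
    (lowMem 10000 (by push_cast; linarith) hz1) (hS.mem_high (s := 673470) (by norm_num))⟩

theorem six_c_node_117 {u v d S' : ℝ}
    (hx0 : 8626 / 10000 ≤ u) (hx1 : u < 8745 / 10000) (hy0 : 7225 / 10000 ≤ v) (hy1 : v < 11550 / 10000)
    (hz0 : 1846 / 10000 ≤ d) (hz1 : d < 2094 / 10000) (hS : SixSide d S') (hgap : 0 ≤ sixCP.val u v d S') :
    ∃ i j l : ℕ, 0 < (sixCCond i j l).val u v d S' := by
  rcases lt_or_ge v (9387 / 10000) with g | g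
  · exact six_c_node_118 hx0 hx1 hy0 g hz0 hz1 hS hgap
  · exact six_c_node_119 hx0 hx1 g hy1 hz0 hz1 hS hgap

theorem six_c_node_122 {u v d S' : ℝ}
    (hx0 : 8626 / 10000 ≤ u) (hx1 : u < 8686 / 10000) (hy0 : 7225 / 10000 ≤ v) (hy1 : v < 9387 / 10000)
    (hz0 : 2094 / 10000 ≤ d) (hz1 : d < 2342 / 10000) (hS : SixSide d S') (_hgap : 0 ≤ sixCP.val u v d S') :
    ∃ i j l : ℕ, 0 < (sixCCond i j l).val u v d S' := by
  exact ⟨0, 0, 0, Ex.pos_of_checkQuick six_c_up_118 (lowMem 10000 hx0 hx1) (lowMem 10000 hy0 hy1)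
    (lowMem 10000 (by push_cast; linarith) hz1) (hS.mem_high (s := 673470) (by norm_num))⟩

theorem six_c_node_123 {u v d S' : ℝ}
    (hx0 : 8686 / 10000 ≤ u) (hx1 : u < 8745 / 10000) (hy0 : 7225 / 10000 ≤ v) (hy1 : v < 9387 / 10000)
    (hz0 : 2094 / 10000 ≤ d) (hz1 : d < 2342 / 10000) (hS : SixSide d S') (_hgap : 0 ≤ sixCP.val u v d S') :
    ∃ i j l : ℕ, 0 < (sixCCond i j l).val u v d S' := by
  exact ⟨0, 0, 0, Ex.pos_of_checkQuick six_c_up_119 (lowMem 10000 hx0 hx1) (lowMem 10000 hy0 hy1)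
    (lowMem 10000 (by push_cast; linarith) hz1) (hS.mem_high (s := 673470) (by norm_num))⟩

theorem six_c_node_121 {u v d S' : ℝ}
    (hx0 : 8626 / 10000 ≤ u) (hx1 : u < 8745 / 10000) (hy0 : 7225 / 10000 ≤ v) (hy1 : v < 9387 / 10000)
    (hz0 : 2094 / 10000 ≤ d) (hz1 : d < 2342 / 10000) (hS : SixSide d S') (hgap : 0 ≤ sixCP.val u v d S') :
    ∃ i j l : ℕ, 0 < (sixCCond i j l).val u v d S' := by
  rcases lt_or_ge u (8686 / 10000) with g | g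
  · exact six_c_node_122 hx0 g hy0 hy1 hz0 hz1 hS hgap
  · exact six_c_node_123 g hx1 hy0 hy1 hz0 hz1 hS hgap

theorem six_c_node_124 {u v d S' : ℝ}
    (hx0 : 8626 / 10000 ≤ u) (hx1 : u < 8745 / 10000) (hy0 : 9387 / 10000 ≤ v) (hy1 : v < 11550 / 10000)
    (hz0 : 2094 / 10000 ≤ d) (hz1 : d < 2342 / 10000) (hS : SixSide d S') (_hgap : 0 ≤ sixCP.val u v d S') :
    ∃ i j l : ℕ, 0 < (sixCCond i j l).val u v d S' := by
  exact ⟨0, 0, 0, Ex.pos_of_checkQuick six_c_up_120 (lowMem 10000 hx0 hx1) (lowMem 10000 hy0 hy1)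
    (lowMem 10000 (by push_cast; linarith) hz1) (hS.mem_high (s := 673470) (by norm_num))⟩

theorem six_c_node_120 {u v d S' : ℝ}
    (hx0 : 8626 / 10000 ≤ u) (hx1 : u < 8745 / 10000) (hy0 : 7225 / 10000 ≤ v) (hy1 : v < 11550 / 10000)
    (hz0 : 2094 / 10000 ≤ d) (hz1 : d < 2342 / 10000) (hS : SixSide d S') (hgap : 0 ≤ sixCP.val u v d S') :
    ∃ i j l : ℕ, 0 < (sixCCond i j l).val u v d S' := by
  rcases lt_or_ge v (9387 / 10000) with g | g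
  · exact six_c_node_121 hx0 hx1 hy0 g hz0 hz1 hS hgap
  · exact six_c_node_124 hx0 hx1 g hy1 hz0 hz1 hS hgap

theorem six_c_node_116 {u v d S' : ℝ}
    (hx0 : 8626 / 10000 ≤ u) (hx1 : u < 8745 / 10000) (hy0 : 7225 / 10000 ≤ v) (hy1 : v < 11550 / 10000)
    (hz0 : 1846 / 10000 ≤ d) (hz1 : d < 2342 / 10000) (hS : SixSide d S') (hgap : 0 ≤ sixCP.val u v d S') :
    ∃ i j l : ℕ, 0 < (sixCCond i j l).val u v d S' := by
  rcases lt_or_ge d (2094 / 10000) with g | g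
  · exact six_c_node_117 hx0 hx1 hy0 hy1 hz0 g hS hgap
  · exact six_c_node_120 hx0 hx1 hy0 hy1 g hz1 hS hgap

theorem six_c_node_108 {u v d S' : ℝ}
    (hx0 : 8500 / 10000 ≤ u) (hx1 : u < 8745 / 10000) (hy0 : 7225 / 10000 ≤ v) (hy1 : v < 11550 / 10000)
    (hz0 : 1846 / 10000 ≤ d) (hz1 : d < 2342 / 10000) (hS : SixSide d S') (hgap : 0 ≤ sixCP.val u v d S') :
    ∃ i j l : ℕ, 0 < (sixCCond i j l).val u v d S' := by
  rcases lt_or_ge u (8626 / 10000) with g | g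
  · exact six_c_node_109 hx0 g hy0 hy1 hz0 hz1 hS hgap
  · exact six_c_node_116 g hx1 hy0 hy1 hz0 hz1 hS hgap

theorem six_c_node_106 {u v d S' : ℝ}
    (hx0 : 8500 / 10000 ≤ u) (hx1 : u < 8745 / 10000) (hy0 : 2900 / 10000 ≤ v) (hy1 : v < 11550 / 10000)
    (hz0 : 1846 / 10000 ≤ d) (hz1 : d < 2342 / 10000) (hS : SixSide d S') (hgap : 0 ≤ sixCP.val u v d S') :
    ∃ i j l : ℕ, 0 < (sixCCond i j l).val u v d S' := by
  rcases lt_or_ge v (7225 / 10000) with g | g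
  · exact six_c_node_107 hx0 hx1 hy0 g hz0 hz1 hS hgap
  · exact six_c_node_108 hx0 hx1 g hy1 hz0 hz1 hS hgap

theorem six_c_node_102 {u v d S' : ℝ}
    (hx0 : 8500 / 10000 ≤ u) (hx1 : u < 8745 / 10000) (hy0 : 2900 / 10000 ≤ v) (hy1 : v < 11550 / 10000)
    (hz0 : 1350 / 10000 ≤ d) (hz1 : d < 2342 / 10000) (hS : SixSide d S') (hgap : 0 ≤ sixCP.val u v d S') :
    ∃ i j l : ℕ, 0 < (sixCCond i j l).val u v d S' := by
  rcases lt_or_ge d (1846 / 10000) with g | g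
  · exact six_c_node_103 hx0 hx1 hy0 hy1 hz0 g hS hgap
  · exact six_c_node_106 hx0 hx1 hy0 hy1 g hz1 hS hgap

theorem six_c_node_127 {u v d S' : ℝ}
    (hx0 : 8745 / 10000 ≤ u) (hx1 : u < 8958 / 10000) (hy0 : 2900 / 10000 ≤ v) (hy1 : v < 7225 / 10000)
    (hz0 : 1350 / 10000 ≤ d) (hz1 : d < 1846 / 10000) (hS : SixSide d S') (_hgap : 0 ≤ sixCP.val u v d S') :
    ∃ i j l : ℕ, 0 < (sixCCond i j l).val u v d S' := by
  exact ⟨0, 2871116906, 0, Ex.pos_of_checkQuick six_c_up_121 (lowMem 10000 hx0 hx1) (lowMem 10000 hy0 hy1)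
    (lowMem 10000 (by push_cast; linarith) hz1) (hS.mem_high (s := 673470) (by norm_num))⟩

theorem six_c_node_128 {u v d S' : ℝ}
    (hx0 : 8745 / 10000 ≤ u) (hx1 : u < 8958 / 10000) (hy0 : 7225 / 10000 ≤ v) (hy1 : v < 11550 / 10000)
    (hz0 : 1350 / 10000 ≤ d) (hz1 : d < 1846 / 10000) (hS : SixSide d S') (_hgap : 0 ≤ sixCP.val u v d S') :
    ∃ i j l : ℕ, 0 < (sixCCond i j l).val u v d S' := by
  exact ⟨0, 0, 0, Ex.pos_of_checkQuick six_c_up_122 (lowMem 10000 hx0 hx1) (lowMem 10000 hy0 hy1)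
    (lowMem 10000 (by push_cast; linarith) hz1) (hS.mem_high (s := 673470) (by norm_num))⟩

theorem six_c_node_126 {u v d S' : ℝ}
    (hx0 : 8745 / 10000 ≤ u) (hx1 : u < 8958 / 10000) (hy0 : 2900 / 10000 ≤ v) (hy1 : v < 11550 / 10000)
    (hz0 : 1350 / 10000 ≤ d) (hz1 : d < 1846 / 10000) (hS : SixSide d S') (hgap : 0 ≤ sixCP.val u v d S') :
    ∃ i j l : ℕ, 0 < (sixCCond i j l).val u v d S' := by
  rcases lt_or_ge v (7225 / 10000) with g | g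
  · exact six_c_node_127 hx0 hx1 hy0 g hz0 hz1 hS hgap
  · exact six_c_node_128 hx0 hx1 g hy1 hz0 hz1 hS hgap

theorem six_c_node_130 {u v d S' : ℝ}
    (hx0 : 8745 / 10000 ≤ u) (hx1 : u < 8958 / 10000) (hy0 : 2900 / 10000 ≤ v) (hy1 : v < 7225 / 10000)
    (hz0 : 1846 / 10000 ≤ d) (hz1 : d < 2342 / 10000) (hS : SixSide d S') (_hgap : 0 ≤ sixCP.val u v d S') :
    ∃ i j l : ℕ, 0 < (sixCCond i j l).val u v d S' := by
  exact ⟨0, 2247304193, 0, Ex.pos_of_checkQuick six_c_up_123 (lowMem 10000 hx0 hx1) (lowMem 10000 hy0 hy1)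
    (lowMem 10000 (by push_cast; linarith) hz1) (hS.mem_high (s := 673470) (by norm_num))⟩

theorem six_c_node_134 {u v d S' : ℝ}
    (hx0 : 8745 / 10000 ≤ u) (hx1 : u < 8855 / 10000) (hy0 : 7225 / 10000 ≤ v) (hy1 : v < 9387 / 10000)
    (hz0 : 1846 / 10000 ≤ d) (hz1 : d < 2094 / 10000) (hS : SixSide d S') (_hgap : 0 ≤ sixCP.val u v d S') :
    ∃ i j l : ℕ, 0 < (sixCCond i j l).val u v d S' := by
  exact ⟨0, 0, 0, Ex.pos_of_checkQuick six_c_up_124 (lowMem 10000 hx0 hx1) (lowMem 10000 hy0 hy1)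
    (lowMem 10000 (by push_cast; linarith) hz1) (hS.mem_high (s := 673470) (by norm_num))⟩

theorem six_c_node_135 {u v d S' : ℝ}
    (hx0 : 8745 / 10000 ≤ u) (hx1 : u < 8855 / 10000) (hy0 : 9387 / 10000 ≤ v) (hy1 : v < 11550 / 10000)
    (hz0 : 1846 / 10000 ≤ d) (hz1 : d < 2094 / 10000) (hS : SixSide d S') (_hgap : 0 ≤ sixCP.val u v d S') :
    ∃ i j l : ℕ, 0 < (sixCCond i j l).val u v d S' := by
  exact ⟨0, 0, 0, Ex.pos_of_checkQuick six_c_up_125 (lowMem 10000 hx0 hx1) (lowMem 10000 hy0 hy1)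
    (lowMem 10000 (by push_cast; linarith) hz1) (hS.mem_high (s := 673470) (by norm_num))⟩

theorem six_c_node_133 {u v d S' : ℝ}
    (hx0 : 8745 / 10000 ≤ u) (hx1 : u < 8855 / 10000) (hy0 : 7225 / 10000 ≤ v) (hy1 : v < 11550 / 10000)
    (hz0 : 1846 / 10000 ≤ d) (hz1 : d < 2094 / 10000) (hS : SixSide d S') (hgap : 0 ≤ sixCP.val u v d S') :
    ∃ i j l : ℕ, 0 < (sixCCond i j l).val u v d S' := by
  rcases lt_or_ge v (9387 / 10000) with g | g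
  · exact six_c_node_134 hx0 hx1 hy0 g hz0 hz1 hS hgap
  · exact six_c_node_135 hx0 hx1 g hy1 hz0 hz1 hS hgap

theorem six_c_node_137 {u v d S' : ℝ}
    (hx0 : 8745 / 10000 ≤ u) (hx1 : u < 8855 / 10000) (hy0 : 7225 / 10000 ≤ v) (hy1 : v < 9387 / 10000)
    (hz0 : 2094 / 10000 ≤ d) (hz1 : d < 2342 / 10000) (hS : SixSide d S') (_hgap : 0 ≤ sixCP.val u v d S') :
    ∃ i j l : ℕ, 0 < (sixCCond i j l).val u v d S' := by
  exact ⟨0, 0, 0, Ex.pos_of_checkQuick six_c_up_126 (lowMem 10000 hx0 hx1) (lowMem 10000 hy0 hy1)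
    (lowMem 10000 (by push_cast; linarith) hz1) (hS.mem_high (s := 673470) (by norm_num))⟩

theorem six_c_node_138 {u v d S' : ℝ}
    (hx0 : 8745 / 10000 ≤ u) (hx1 : u < 8855 / 10000) (hy0 : 9387 / 10000 ≤ v) (hy1 : v < 11550 / 10000)
    (hz0 : 2094 / 10000 ≤ d) (hz1 : d < 2342 / 10000) (hS : SixSide d S') (_hgap : 0 ≤ sixCP.val u v d S') :
    ∃ i j l : ℕ, 0 < (sixCCond i j l).val u v d S' := by
  exact ⟨0, 0, 0, Ex.pos_of_checkQuick six_c_up_127 (lowMem 10000 hx0 hx1) (lowMem 10000 hy0 hy1)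
    (lowMem 10000 (by push_cast; linarith) hz1) (hS.mem_high (s := 673470) (by norm_num))⟩

theorem six_c_node_136 {u v d S' : ℝ}
    (hx0 : 8745 / 10000 ≤ u) (hx1 : u < 8855 / 10000) (hy0 : 7225 / 10000 ≤ v) (hy1 : v < 11550 / 10000)
    (hz0 : 2094 / 10000 ≤ d) (hz1 : d < 2342 / 10000) (hS : SixSide d S') (hgap : 0 ≤ sixCP.val u v d S') :
    ∃ i j l : ℕ, 0 < (sixCCond i j l).val u v d S' := by
  rcases lt_or_ge v (9387 / 10000) with g | g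
  · exact six_c_node_137 hx0 hx1 hy0 g hz0 hz1 hS hgap
  · exact six_c_node_138 hx0 hx1 g hy1 hz0 hz1 hS hgap

theorem six_c_node_132 {u v d S' : ℝ}
    (hx0 : 8745 / 10000 ≤ u) (hx1 : u < 8855 / 10000) (hy0 : 7225 / 10000 ≤ v) (hy1 : v < 11550 / 10000)
    (hz0 : 1846 / 10000 ≤ d) (hz1 : d < 2342 / 10000) (hS : SixSide d S') (hgap : 0 ≤ sixCP.val u v d S') :
    ∃ i j l : ℕ, 0 < (sixCCond i j l).val u v d S' := by
  rcases lt_or_ge d (2094 / 10000) with g | g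
  · exact six_c_node_133 hx0 hx1 hy0 hy1 hz0 g hS hgap
  · exact six_c_node_136 hx0 hx1 hy0 hy1 g hz1 hS hgap

theorem six_c_node_141 {u v d S' : ℝ}
    (hx0 : 8855 / 10000 ≤ u) (hx1 : u < 8958 / 10000) (hy0 : 7225 / 10000 ≤ v) (hy1 : v < 9387 / 10000)
    (hz0 : 1846 / 10000 ≤ d) (hz1 : d < 2094 / 10000) (hS : SixSide d S') (_hgap : 0 ≤ sixCP.val u v d S') :
    ∃ i j l : ℕ, 0 < (sixCCond i j l).val u v d S' := by
  exact ⟨0, 0, 0, Ex.pos_of_checkQuick six_c_up_128 (lowMem 10000 hx0 hx1) (lowMem 10000 hy0 hy1)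
    (lowMem 10000 (by push_cast; linarith) hz1) (hS.mem_high (s := 673470) (by norm_num))⟩

theorem six_c_node_142 {u v d S' : ℝ}
    (hx0 : 8855 / 10000 ≤ u) (hx1 : u < 8958 / 10000) (hy0 : 9387 / 10000 ≤ v) (hy1 : v < 11550 / 10000)
    (hz0 : 1846 / 10000 ≤ d) (hz1 : d < 2094 / 10000) (hS : SixSide d S') (_hgap : 0 ≤ sixCP.val u v d S') :
    ∃ i j l : ℕ, 0 < (sixCCond i j l).val u v d S' := by
  exact ⟨0, 0, 0, Ex.pos_of_checkQuick six_c_up_129 (lowMem 10000 hx0 hx1) (lowMem 10000 hy0 hy1)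
    (lowMem 10000 (by push_cast; linarith) hz1) (hS.mem_high (s := 673470) (by norm_num))⟩

theorem six_c_node_140 {u v d S' : ℝ}
    (hx0 : 8855 / 10000 ≤ u) (hx1 : u < 8958 / 10000) (hy0 : 7225 / 10000 ≤ v) (hy1 : v < 11550 / 10000)
    (hz0 : 1846 / 10000 ≤ d) (hz1 : d < 2094 / 10000) (hS : SixSide d S') (hgap : 0 ≤ sixCP.val u v d S') :
    ∃ i j l : ℕ, 0 < (sixCCond i j l).val u v d S' := by
  rcases lt_or_ge v (9387 / 10000) with g | g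
  · exact six_c_node_141 hx0 hx1 hy0 g hz0 hz1 hS hgap
  · exact six_c_node_142 hx0 hx1 g hy1 hz0 hz1 hS hgap

theorem six_c_node_144 {u v d S' : ℝ}
    (hx0 : 8855 / 10000 ≤ u) (hx1 : u < 8958 / 10000) (hy0 : 7225 / 10000 ≤ v) (hy1 : v < 9387 / 10000)
    (hz0 : 2094 / 10000 ≤ d) (hz1 : d < 2342 / 10000) (hS : SixSide d S') (_hgap : 0 ≤ sixCP.val u v d S') :
    ∃ i j l : ℕ, 0 < (sixCCond i j l).val u v d S' := by
  exact ⟨0, 0, 0, Ex.pos_of_checkQuick six_c_up_130 (lowMem 10000 hx0 hx1) (lowMem 10000 hy0 hy1)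
    (lowMem 10000 (by push_cast; linarith) hz1) (hS.mem_high (s := 673470) (by norm_num))⟩

theorem six_c_node_145 {u v d S' : ℝ}
    (hx0 : 8855 / 10000 ≤ u) (hx1 : u < 8958 / 10000) (hy0 : 9387 / 10000 ≤ v) (hy1 : v < 11550 / 10000)
    (hz0 : 2094 / 10000 ≤ d) (hz1 : d < 2342 / 10000) (hS : SixSide d S') (_hgap : 0 ≤ sixCP.val u v d S') :
    ∃ i j l : ℕ, 0 < (sixCCond i j l).val u v d S' := by
  exact ⟨0, 0, 0, Ex.pos_of_checkQuick six_c_up_131 (lowMem 10000 hx0 hx1) (lowMem 10000 hy0 hy1)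
    (lowMem 10000 (by push_cast; linarith) hz1) (hS.mem_high (s := 673470) (by norm_num))⟩

theorem six_c_node_143 {u v d S' : ℝ}
    (hx0 : 8855 / 10000 ≤ u) (hx1 : u < 8958 / 10000) (hy0 : 7225 / 10000 ≤ v) (hy1 : v < 11550 / 10000)
    (hz0 : 2094 / 10000 ≤ d) (hz1 : d < 2342 / 10000) (hS : SixSide d S') (hgap : 0 ≤ sixCP.val u v d S') :
    ∃ i j l : ℕ, 0 < (sixCCond i j l).val u v d S' := by
  rcases lt_or_ge v (9387 / 10000) with g | g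
  · exact six_c_node_144 hx0 hx1 hy0 g hz0 hz1 hS hgap
  · exact six_c_node_145 hx0 hx1 g hy1 hz0 hz1 hS hgap

theorem six_c_node_139 {u v d S' : ℝ}
    (hx0 : 8855 / 10000 ≤ u) (hx1 : u < 8958 / 10000) (hy0 : 7225 / 10000 ≤ v) (hy1 : v < 11550 / 10000)
    (hz0 : 1846 / 10000 ≤ d) (hz1 : d < 2342 / 10000) (hS : SixSide d S') (hgap : 0 ≤ sixCP.val u v d S') :
    ∃ i j l : ℕ, 0 < (sixCCond i j l).val u v d S' := by
  rcases lt_or_ge d (2094 / 10000) with g | g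
  · exact six_c_node_140 hx0 hx1 hy0 hy1 hz0 g hS hgap
  · exact six_c_node_143 hx0 hx1 hy0 hy1 g hz1 hS hgap

theorem six_c_node_131 {u v d S' : ℝ}
    (hx0 : 8745 / 10000 ≤ u) (hx1 : u < 8958 / 10000) (hy0 : 7225 / 10000 ≤ v) (hy1 : v < 11550 / 10000)
    (hz0 : 1846 / 10000 ≤ d) (hz1 : d < 2342 / 10000) (hS : SixSide d S') (hgap : 0 ≤ sixCP.val u v d S') :
    ∃ i j l : ℕ, 0 < (sixCCond i j l).val u v d S' := by
  rcases lt_or_ge u (8855 / 10000) with g | g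
  · exact six_c_node_132 hx0 g hy0 hy1 hz0 hz1 hS hgap
  · exact six_c_node_139 g hx1 hy0 hy1 hz0 hz1 hS hgap

theorem six_c_node_129 {u v d S' : ℝ}
    (hx0 : 8745 / 10000 ≤ u) (hx1 : u < 8958 / 10000) (hy0 : 2900 / 10000 ≤ v) (hy1 : v < 11550 / 10000)
    (hz0 : 1846 / 10000 ≤ d) (hz1 : d < 2342 / 10000) (hS : SixSide d S') (hgap : 0 ≤ sixCP.val u v d S') :
    ∃ i j l : ℕ, 0 < (sixCCond i j l).val u v d S' := by
  rcases lt_or_ge v (7225 / 10000) with g | g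
  · exact six_c_node_130 hx0 hx1 hy0 g hz0 hz1 hS hgap
  · exact six_c_node_131 hx0 hx1 g hy1 hz0 hz1 hS hgap

theorem six_c_node_125 {u v d S' : ℝ}
    (hx0 : 8745 / 10000 ≤ u) (hx1 : u < 8958 / 10000) (hy0 : 2900 / 10000 ≤ v) (hy1 : v < 11550 / 10000)
    (hz0 : 1350 / 10000 ≤ d) (hz1 : d < 2342 / 10000) (hS : SixSide d S') (hgap : 0 ≤ sixCP.val u v d S') :
    ∃ i j l : ℕ, 0 < (sixCCond i j l).val u v d S' := by
  rcases lt_or_ge d (1846 / 10000) with g | g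
  · exact six_c_node_126 hx0 hx1 hy0 hy1 hz0 g hS hgap
  · exact six_c_node_129 hx0 hx1 hy0 hy1 g hz1 hS hgap

theorem six_c_node_101 {u v d S' : ℝ}
    (hx0 : 8500 / 10000 ≤ u) (hx1 : u < 8958 / 10000) (hy0 : 2900 / 10000 ≤ v) (hy1 : v < 11550 / 10000)
    (hz0 : 1350 / 10000 ≤ d) (hz1 : d < 2342 / 10000) (hS : SixSide d S') (hgap : 0 ≤ sixCP.val u v d S') :
    ∃ i j l : ℕ, 0 < (sixCCond i j l).val u v d S' := by
  rcases lt_or_ge u (8745 / 10000) with g | g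
  · exact six_c_node_102 hx0 g hy0 hy1 hz0 hz1 hS hgap
  · exact six_c_node_125 g hx1 hy0 hy1 hz0 hz1 hS hgap

theorem six_c_node_146 {u v d S' : ℝ}
    (hx0 : 8500 / 10000 ≤ u) (hx1 : u < 8958 / 10000) (hy0 : 11550 / 10000 ≤ v) (hy1 : v < 20200 / 10000)
    (hz0 : 1350 / 10000 ≤ d) (hz1 : d < 2342 / 10000) (hS : SixSide d S') (_hgap : 0 ≤ sixCP.val u v d S') :
    ∃ i j l : ℕ, 0 < (sixCCond i j l).val u v d S' := by
  exact ⟨0, 0, 0, Ex.pos_of_checkQuick six_c_up_132 (lowMem 10000 hx0 hx1) (lowMem 10000 hy0 hy1)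
    (lowMem 10000 (by push_cast; linarith) hz1) (hS.mem_high (s := 673470) (by norm_num))⟩

theorem six_c_node_100 {u v d S' : ℝ}
    (hx0 : 8500 / 10000 ≤ u) (hx1 : u < 8958 / 10000) (hy0 : 2900 / 10000 ≤ v) (hy1 : v < 20200 / 10000)
    (hz0 : 1350 / 10000 ≤ d) (hz1 : d < 2342 / 10000) (hS : SixSide d S') (hgap : 0 ≤ sixCP.val u v d S') :
    ∃ i j l : ℕ, 0 < (sixCCond i j l).val u v d S' := by
  rcases lt_or_ge v (11550 / 10000) with g | g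
  · exact six_c_node_101 hx0 hx1 hy0 g hz0 hz1 hS hgap
  · exact six_c_node_146 hx0 hx1 g hy1 hz0 hz1 hS hgap

theorem six_c_node_151 {u v d S' : ℝ}
    (hx0 : 8500 / 10000 ≤ u) (hx1 : u < 8745 / 10000) (hy0 : 2900 / 10000 ≤ v) (hy1 : v < 7225 / 10000)
    (hz0 : 2342 / 10000 ≤ d) (hz1 : d < 2838 / 10000) (hS : SixSide d S') (_hgap : 0 ≤ sixCP.val u v d S') :
    ∃ i j l : ℕ, 0 < (sixCCond i j l).val u v d S' := by
  exact ⟨0, 0, 0, Ex.pos_of_checkQuick six_c_up_133 (lowMem 10000 hx0 hx1) (lowMem 10000 hy0 hy1)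
    (lowMem 10000 (by push_cast; linarith) hz1) (hS.mem_high (s := 673470) (by norm_num))⟩

theorem six_c_node_155 {u v d S' : ℝ}
    (hx0 : 8500 / 10000 ≤ u) (hx1 : u < 8626 / 10000) (hy0 : 7225 / 10000 ≤ v) (hy1 : v < 9387 / 10000)
    (hz0 : 2342 / 10000 ≤ d) (hz1 : d < 2590 / 10000) (hS : SixSide d S') (_hgap : 0 ≤ sixCP.val u v d S') :
    ∃ i j l : ℕ, 0 < (sixCCond i j l).val u v d S' := by
  exact ⟨0, 0, 0, Ex.pos_of_checkQuick six_c_up_134 (lowMem 10000 hx0 hx1) (lowMem 10000 hy0 hy1)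
    (lowMem 10000 (by push_cast; linarith) hz1) (hS.mem_high (s := 673470) (by norm_num))⟩

theorem six_c_node_156 {u v d S' : ℝ}
    (hx0 : 8500 / 10000 ≤ u) (hx1 : u < 8626 / 10000) (hy0 : 9387 / 10000 ≤ v) (hy1 : v < 11550 / 10000)
    (hz0 : 2342 / 10000 ≤ d) (hz1 : d < 2590 / 10000) (hS : SixSide d S') (_hgap : 0 ≤ sixCP.val u v d S') :
    ∃ i j l : ℕ, 0 < (sixCCond i j l).val u v d S' := by
  exact ⟨0, 0, 0, Ex.pos_of_checkQuick six_c_up_135 (lowMem 10000 hx0 hx1) (lowMem 10000 hy0 hy1)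
    (lowMem 10000 (by push_cast; linarith) hz1) (hS.mem_high (s := 673470) (by norm_num))⟩

theorem six_c_node_154 {u v d S' : ℝ}
    (hx0 : 8500 / 10000 ≤ u) (hx1 : u < 8626 / 10000) (hy0 : 7225 / 10000 ≤ v) (hy1 : v < 11550 / 10000)
    (hz0 : 2342 / 10000 ≤ d) (hz1 : d < 2590 / 10000) (hS : SixSide d S') (hgap : 0 ≤ sixCP.val u v d S') :
    ∃ i j l : ℕ, 0 < (sixCCond i j l).val u v d S' := by
  rcases lt_or_ge v (9387 / 10000) with g | g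
  · exact six_c_node_155 hx0 hx1 hy0 g hz0 hz1 hS hgap
  · exact six_c_node_156 hx0 hx1 g hy1 hz0 hz1 hS hgap

theorem six_c_node_158 {u v d S' : ℝ}
    (hx0 : 8500 / 10000 ≤ u) (hx1 : u < 8626 / 10000) (hy0 : 7225 / 10000 ≤ v) (hy1 : v < 9387 / 10000)
    (hz0 : 2590 / 10000 ≤ d) (hz1 : d < 2838 / 10000) (hS : SixSide d S') (_hgap : 0 ≤ sixCP.val u v d S') :
    ∃ i j l : ℕ, 0 < (sixCCond i j l).val u v d S' := by
  exact ⟨0, 0, 0, Ex.pos_of_checkQuick six_c_up_136 (lowMem 10000 hx0 hx1) (lowMem 10000 hy0 hy1)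
    (lowMem 10000 (by push_cast; linarith) hz1) (hS.mem_high (s := 673470) (by norm_num))⟩

theorem six_c_node_159 {u v d S' : ℝ}
    (hx0 : 8500 / 10000 ≤ u) (hx1 : u < 8626 / 10000) (hy0 : 9387 / 10000 ≤ v) (hy1 : v < 11550 / 10000)
    (hz0 : 2590 / 10000 ≤ d) (hz1 : d < 2838 / 10000) (hS : SixSide d S') (_hgap : 0 ≤ sixCP.val u v d S') :
    ∃ i j l : ℕ, 0 < (sixCCond i j l).val u v d S' := by
  exact ⟨0, 0, 0, Ex.pos_of_checkQuick six_c_up_137 (lowMem 10000 hx0 hx1) (lowMem 10000 hy0 hy1)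
    (lowMem 10000 (by push_cast; linarith) hz1) (hS.mem_high (s := 673470) (by norm_num))⟩

theorem six_c_node_157 {u v d S' : ℝ}
    (hx0 : 8500 / 10000 ≤ u) (hx1 : u < 8626 / 10000) (hy0 : 7225 / 10000 ≤ v) (hy1 : v < 11550 / 10000)
    (hz0 : 2590 / 10000 ≤ d) (hz1 : d < 2838 / 10000) (hS : SixSide d S') (hgap : 0 ≤ sixCP.val u v d S') :
    ∃ i j l : ℕ, 0 < (sixCCond i j l).val u v d S' := by
  rcases lt_or_ge v (9387 / 10000) with g | g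
  · exact six_c_node_158 hx0 hx1 hy0 g hz0 hz1 hS hgap
  · exact six_c_node_159 hx0 hx1 g hy1 hz0 hz1 hS hgap

theorem six_c_node_153 {u v d S' : ℝ}
    (hx0 : 8500 / 10000 ≤ u) (hx1 : u < 8626 / 10000) (hy0 : 7225 / 10000 ≤ v) (hy1 : v < 11550 / 10000)
    (hz0 : 2342 / 10000 ≤ d) (hz1 : d < 2838 / 10000) (hS : SixSide d S') (hgap : 0 ≤ sixCP.val u v d S') :
    ∃ i j l : ℕ, 0 < (sixCCond i j l).val u v d S' := by
  rcases lt_or_ge d (2590 / 10000) with g | g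
  · exact six_c_node_154 hx0 hx1 hy0 hy1 hz0 g hS hgap
  · exact six_c_node_157 hx0 hx1 hy0 hy1 g hz1 hS hgap

theorem six_c_node_162 {u v d S' : ℝ}
    (hx0 : 8626 / 10000 ≤ u) (hx1 : u < 8745 / 10000) (hy0 : 7225 / 10000 ≤ v) (hy1 : v < 9387 / 10000)
    (hz0 : 2342 / 10000 ≤ d) (hz1 : d < 2590 / 10000) (hS : SixSide d S') (_hgap : 0 ≤ sixCP.val u v d S') :
    ∃ i j l : ℕ, 0 < (sixCCond i j l).val u v d S' := by
  exact ⟨0, 0, 0, Ex.pos_of_checkQuick six_c_up_138 (lowMem 10000 hx0 hx1) (lowMem 10000 hy0 hy1)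
    (lowMem 10000 (by push_cast; linarith) hz1) (hS.mem_high (s := 673470) (by norm_num))⟩

theorem six_c_node_163 {u v d S' : ℝ}
    (hx0 : 8626 / 10000 ≤ u) (hx1 : u < 8745 / 10000) (hy0 : 9387 / 10000 ≤ v) (hy1 : v < 11550 / 10000)
    (hz0 : 2342 / 10000 ≤ d) (hz1 : d < 2590 / 10000) (hS : SixSide d S') (_hgap : 0 ≤ sixCP.val u v d S') :
    ∃ i j l : ℕ, 0 < (sixCCond i j l).val u v d S' := by
  exact ⟨0, 0, 0, Ex.pos_of_checkQuick six_c_up_139 (lowMem 10000 hx0 hx1) (lowMem 10000 hy0 hy1)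
    (lowMem 10000 (by push_cast; linarith) hz1) (hS.mem_high (s := 673470) (by norm_num))⟩

theorem six_c_node_161 {u v d S' : ℝ}
    (hx0 : 8626 / 10000 ≤ u) (hx1 : u < 8745 / 10000) (hy0 : 7225 / 10000 ≤ v) (hy1 : v < 11550 / 10000)
    (hz0 : 2342 / 10000 ≤ d) (hz1 : d < 2590 / 10000) (hS : SixSide d S') (hgap : 0 ≤ sixCP.val u v d S') :
    ∃ i j l : ℕ, 0 < (sixCCond i j l).val u v d S' := by
  rcases lt_or_ge v (9387 / 10000) with g | g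
  · exact six_c_node_162 hx0 hx1 hy0 g hz0 hz1 hS hgap
  · exact six_c_node_163 hx0 hx1 g hy1 hz0 hz1 hS hgap

theorem six_c_node_165 {u v d S' : ℝ}
    (hx0 : 8626 / 10000 ≤ u) (hx1 : u < 8745 / 10000) (hy0 : 7225 / 10000 ≤ v) (hy1 : v < 9387 / 10000)
    (hz0 : 2590 / 10000 ≤ d) (hz1 : d < 2838 / 10000) (hS : SixSide d S') (_hgap : 0 ≤ sixCP.val u v d S') :
    ∃ i j l : ℕ, 0 < (sixCCond i j l).val u v d S' := by
  exact ⟨0, 0, 0, Ex.pos_of_checkQuick six_c_up_140 (lowMem 10000 hx0 hx1) (lowMem 10000 hy0 hy1)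
    (lowMem 10000 (by push_cast; linarith) hz1) (hS.mem_high (s := 673470) (by norm_num))⟩

theorem six_c_node_166 {u v d S' : ℝ}
    (hx0 : 8626 / 10000 ≤ u) (hx1 : u < 8745 / 10000) (hy0 : 9387 / 10000 ≤ v) (hy1 : v < 11550 / 10000)
    (hz0 : 2590 / 10000 ≤ d) (hz1 : d < 2838 / 10000) (hS : SixSide d S') (_hgap : 0 ≤ sixCP.val u v d S') :
    ∃ i j l : ℕ, 0 < (sixCCond i j l).val u v d S' := by
  exact ⟨0, 0, 0, Ex.pos_of_checkQuick six_c_up_141 (lowMem 10000 hx0 hx1) (lowMem 10000 hy0 hy1)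
    (lowMem 10000 (by push_cast; linarith) hz1) (hS.mem_high (s := 673470) (by norm_num))⟩

theorem six_c_node_164 {u v d S' : ℝ}
    (hx0 : 8626 / 10000 ≤ u) (hx1 : u < 8745 / 10000) (hy0 : 7225 / 10000 ≤ v) (hy1 : v < 11550 / 10000)
    (hz0 : 2590 / 10000 ≤ d) (hz1 : d < 2838 / 10000) (hS : SixSide d S') (hgap : 0 ≤ sixCP.val u v d S') :
    ∃ i j l : ℕ, 0 < (sixCCond i j l).val u v d S' := by
  rcases lt_or_ge v (9387 / 10000) with g | g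
  · exact six_c_node_165 hx0 hx1 hy0 g hz0 hz1 hS hgap
  · exact six_c_node_166 hx0 hx1 g hy1 hz0 hz1 hS hgap

theorem six_c_node_160 {u v d S' : ℝ}
    (hx0 : 8626 / 10000 ≤ u) (hx1 : u < 8745 / 10000) (hy0 : 7225 / 10000 ≤ v) (hy1 : v < 11550 / 10000)
    (hz0 : 2342 / 10000 ≤ d) (hz1 : d < 2838 / 10000) (hS : SixSide d S') (hgap : 0 ≤ sixCP.val u v d S') :
    ∃ i j l : ℕ, 0 < (sixCCond i j l).val u v d S' := by
  rcases lt_or_ge d (2590 / 10000) with g | g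
  · exact six_c_node_161 hx0 hx1 hy0 hy1 hz0 g hS hgap
  · exact six_c_node_164 hx0 hx1 hy0 hy1 g hz1 hS hgap

theorem six_c_node_152 {u v d S' : ℝ}
    (hx0 : 8500 / 10000 ≤ u) (hx1 : u < 8745 / 10000) (hy0 : 7225 / 10000 ≤ v) (hy1 : v < 11550 / 10000)
    (hz0 : 2342 / 10000 ≤ d) (hz1 : d < 2838 / 10000) (hS : SixSide d S') (hgap : 0 ≤ sixCP.val u v d S') :
    ∃ i j l : ℕ, 0 < (sixCCond i j l).val u v d S' := by
  rcases lt_or_ge u (8626 / 10000) with g | g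
  · exact six_c_node_153 hx0 g hy0 hy1 hz0 hz1 hS hgap
  · exact six_c_node_160 g hx1 hy0 hy1 hz0 hz1 hS hgap

theorem six_c_node_150 {u v d S' : ℝ}
    (hx0 : 8500 / 10000 ≤ u) (hx1 : u < 8745 / 10000) (hy0 : 2900 / 10000 ≤ v) (hy1 : v < 11550 / 10000)
    (hz0 : 2342 / 10000 ≤ d) (hz1 : d < 2838 / 10000) (hS : SixSide d S') (hgap : 0 ≤ sixCP.val u v d S') :
    ∃ i j l : ℕ, 0 < (sixCCond i j l).val u v d S' := by
  rcases lt_or_ge v (7225 / 10000) with g | g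
  · exact six_c_node_151 hx0 hx1 hy0 g hz0 hz1 hS hgap
  · exact six_c_node_152 hx0 hx1 g hy1 hz0 hz1 hS hgap

theorem six_c_node_171 {u v d S' : ℝ}
    (hx0 : 8500 / 10000 ≤ u) (hx1 : u < 8626 / 10000) (hy0 : 2900 / 10000 ≤ v) (hy1 : v < 5062 / 10000)
    (hz0 : 2838 / 10000 ≤ d) (hz1 : d < 3086 / 10000) (hS : SixSide d S') (_hgap : 0 ≤ sixCP.val u v d S') :
    ∃ i j l : ℕ, 0 < (sixCCond i j l).val u v d S' := by
  exact ⟨0, 1300640744, 0, Ex.pos_of_checkQuick six_c_up_142 (lowMem 10000 hx0 hx1) (lowMem 10000 hy0 hy1)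
    (lowMem 10000 (by push_cast; linarith) hz1) (hS.mem_high (s := 673470) (by norm_num))⟩

theorem six_c_node_172 {u v d S' : ℝ}
    (hx0 : 8500 / 10000 ≤ u) (hx1 : u < 8626 / 10000) (hy0 : 5062 / 10000 ≤ v) (hy1 : v < 7225 / 10000)
    (hz0 : 2838 / 10000 ≤ d) (hz1 : d < 3086 / 10000) (hS : SixSide d S') (_hgap : 0 ≤ sixCP.val u v d S') :
    ∃ i j l : ℕ, 0 < (sixCCond i j l).val u v d S' := by
  exact ⟨0, 0, 0, Ex.pos_of_checkQuick six_c_up_143 (lowMem 10000 hx0 hx1) (lowMem 10000 hy0 hy1)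
    (lowMem 10000 (by push_cast; linarith) hz1) (hS.mem_high (s := 673470) (by norm_num))⟩

theorem six_c_node_170 {u v d S' : ℝ}
    (hx0 : 8500 / 10000 ≤ u) (hx1 : u < 8626 / 10000) (hy0 : 2900 / 10000 ≤ v) (hy1 : v < 7225 / 10000)
    (hz0 : 2838 / 10000 ≤ d) (hz1 : d < 3086 / 10000) (hS : SixSide d S') (hgap : 0 ≤ sixCP.val u v d S') :
    ∃ i j l : ℕ, 0 < (sixCCond i j l).val u v d S' := by
  rcases lt_or_ge v (5062 / 10000) with g | g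
  · exact six_c_node_171 hx0 hx1 hy0 g hz0 hz1 hS hgap
  · exact six_c_node_172 hx0 hx1 g hy1 hz0 hz1 hS hgap

theorem six_c_node_173 {u v d S' : ℝ}
    (hx0 : 8500 / 10000 ≤ u) (hx1 : u < 8626 / 10000) (hy0 : 2900 / 10000 ≤ v) (hy1 : v < 7225 / 10000)
    (hz0 : 3086 / 10000 ≤ d) (hz1 : d < 3334 / 10000) (hS : SixSide d S') (_hgap : 0 ≤ sixCP.val u v d S') :
    ∃ i j l : ℕ, 0 < (sixCCond i j l).val u v d S' := by
  exact ⟨0, 27, 0, Ex.pos_of_checkQuick six_c_up_144 (lowMem 10000 hx0 hx1) (lowMem 10000 hy0 hy1)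
    (lowMem 10000 (by push_cast; linarith) hz1) (hS.mem_tri (s := 672851) (a := 3086 / 10000) (by linarith) (by norm_num))⟩

theorem six_c_node_169 {u v d S' : ℝ}
    (hx0 : 8500 / 10000 ≤ u) (hx1 : u < 8626 / 10000) (hy0 : 2900 / 10000 ≤ v) (hy1 : v < 7225 / 10000)
    (hz0 : 2838 / 10000 ≤ d) (hz1 : d < 3334 / 10000) (hS : SixSide d S') (hgap : 0 ≤ sixCP.val u v d S') :
    ∃ i j l : ℕ, 0 < (sixCCond i j l).val u v d S' := by
  rcases lt_or_ge d (3086 / 10000) with g | g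
  · exact six_c_node_170 hx0 hx1 hy0 hy1 hz0 g hS hgap
  · exact six_c_node_173 hx0 hx1 hy0 hy1 g hz1 hS hgap

theorem six_c_node_176 {u v d S' : ℝ}
    (hx0 : 8626 / 10000 ≤ u) (hx1 : u < 8745 / 10000) (hy0 : 2900 / 10000 ≤ v) (hy1 : v < 5062 / 10000)
    (hz0 : 2838 / 10000 ≤ d) (hz1 : d < 3086 / 10000) (hS : SixSide d S') (_hgap : 0 ≤ sixCP.val u v d S') :
    ∃ i j l : ℕ, 0 < (sixCCond i j l).val u v d S' := by
  exact ⟨0, 1314816236, 0, Ex.pos_of_checkQuick six_c_up_145 (lowMem 10000 hx0 hx1) (lowMem 10000 hy0 hy1)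
    (lowMem 10000 (by push_cast; linarith) hz1) (hS.mem_high (s := 673470) (by norm_num))⟩

theorem six_c_node_177 {u v d S' : ℝ}
    (hx0 : 8626 / 10000 ≤ u) (hx1 : u < 8745 / 10000) (hy0 : 5062 / 10000 ≤ v) (hy1 : v < 7225 / 10000)
    (hz0 : 2838 / 10000 ≤ d) (hz1 : d < 3086 / 10000) (hS : SixSide d S') (_hgap : 0 ≤ sixCP.val u v d S') :
    ∃ i j l : ℕ, 0 < (sixCCond i j l).val u v d S' := by
  exact ⟨0, 0, 0, Ex.pos_of_checkQuick six_c_up_146 (lowMem 10000 hx0 hx1) (lowMem 10000 hy0 hy1)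
    (lowMem 10000 (by push_cast; linarith) hz1) (hS.mem_high (s := 673470) (by norm_num))⟩

theorem six_c_node_175 {u v d S' : ℝ}
    (hx0 : 8626 / 10000 ≤ u) (hx1 : u < 8745 / 10000) (hy0 : 2900 / 10000 ≤ v) (hy1 : v < 7225 / 10000)
    (hz0 : 2838 / 10000 ≤ d) (hz1 : d < 3086 / 10000) (hS : SixSide d S') (hgap : 0 ≤ sixCP.val u v d S') :
    ∃ i j l : ℕ, 0 < (sixCCond i j l).val u v d S' := by
  rcases lt_or_ge v (5062 / 10000) with g | g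
  · exact six_c_node_176 hx0 hx1 hy0 g hz0 hz1 hS hgap
  · exact six_c_node_177 hx0 hx1 g hy1 hz0 hz1 hS hgap

theorem six_c_node_179 {u v d S' : ℝ}
    (hx0 : 8626 / 10000 ≤ u) (hx1 : u < 8745 / 10000) (hy0 : 2900 / 10000 ≤ v) (hy1 : v < 5062 / 10000)
    (hz0 : 3086 / 10000 ≤ d) (hz1 : d < 3334 / 10000) (hS : SixSide d S') (_hgap : 0 ≤ sixCP.val u v d S') :
    ∃ i j l : ℕ, 0 < (sixCCond i j l).val u v d S' := by
  exact ⟨0, 1072066694, 0, Ex.pos_of_checkQuick six_c_up_147 (lowMem 10000 hx0 hx1) (lowMem 10000 hy0 hy1)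
    (lowMem 10000 (by push_cast; linarith) hz1) (hS.mem_tri (s := 672851) (a := 3086 / 10000) (by linarith) (by norm_num))⟩

theorem six_c_node_180 {u v d S' : ℝ}
    (hx0 : 8626 / 10000 ≤ u) (hx1 : u < 8745 / 10000) (hy0 : 5062 / 10000 ≤ v) (hy1 : v < 7225 / 10000)
    (hz0 : 3086 / 10000 ≤ d) (hz1 : d < 3334 / 10000) (hS : SixSide d S') (_hgap : 0 ≤ sixCP.val u v d S') :
    ∃ i j l : ℕ, 0 < (sixCCond i j l).val u v d S' := by
  exact ⟨0, 29, 0, Ex.pos_of_checkQuick six_c_up_148 (lowMem 10000 hx0 hx1) (lowMem 10000 hy0 hy1)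
    (lowMem 10000 (by push_cast; linarith) hz1) (hS.mem_tri (s := 672851) (a := 3086 / 10000) (by linarith) (by norm_num))⟩

theorem six_c_node_178 {u v d S' : ℝ}
    (hx0 : 8626 / 10000 ≤ u) (hx1 : u < 8745 / 10000) (hy0 : 2900 / 10000 ≤ v) (hy1 : v < 7225 / 10000)
    (hz0 : 3086 / 10000 ≤ d) (hz1 : d < 3334 / 10000) (hS : SixSide d S') (hgap : 0 ≤ sixCP.val u v d S') :
    ∃ i j l : ℕ, 0 < (sixCCond i j l).val u v d S' := by
  rcases lt_or_ge v (5062 / 10000) with g | g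
  · exact six_c_node_179 hx0 hx1 hy0 g hz0 hz1 hS hgap
  · exact six_c_node_180 hx0 hx1 g hy1 hz0 hz1 hS hgap

theorem six_c_node_174 {u v d S' : ℝ}
    (hx0 : 8626 / 10000 ≤ u) (hx1 : u < 8745 / 10000) (hy0 : 2900 / 10000 ≤ v) (hy1 : v < 7225 / 10000)
    (hz0 : 2838 / 10000 ≤ d) (hz1 : d < 3334 / 10000) (hS : SixSide d S') (hgap : 0 ≤ sixCP.val u v d S') :
    ∃ i j l : ℕ, 0 < (sixCCond i j l).val u v d S' := by
  rcases lt_or_ge d (3086 / 10000) with g | g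
  · exact six_c_node_175 hx0 hx1 hy0 hy1 hz0 g hS hgap
  · exact six_c_node_178 hx0 hx1 hy0 hy1 g hz1 hS hgap

theorem six_c_node_168 {u v d S' : ℝ}
    (hx0 : 8500 / 10000 ≤ u) (hx1 : u < 8745 / 10000) (hy0 : 2900 / 10000 ≤ v) (hy1 : v < 7225 / 10000)
    (hz0 : 2838 / 10000 ≤ d) (hz1 : d < 3334 / 10000) (hS : SixSide d S') (hgap : 0 ≤ sixCP.val u v d S') :
    ∃ i j l : ℕ, 0 < (sixCCond i j l).val u v d S' := by
  rcases lt_or_ge u (8626 / 10000) with g | g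
  · exact six_c_node_169 hx0 g hy0 hy1 hz0 hz1 hS hgap
  · exact six_c_node_174 g hx1 hy0 hy1 hz0 hz1 hS hgap

theorem six_c_node_181 {u v d S' : ℝ}
    (hx0 : 8500 / 10000 ≤ u) (hx1 : u < 8745 / 10000) (hy0 : 7225 / 10000 ≤ v) (hy1 : v < 11550 / 10000)
    (hz0 : 2838 / 10000 ≤ d) (hz1 : d < 3334 / 10000) (hS : SixSide d S') (_hgap : 0 ≤ sixCP.val u v d S') :
    ∃ i j l : ℕ, 0 < (sixCCond i j l).val u v d S' := by
  exact ⟨0, 0, 0, Ex.pos_of_checkQuick six_c_up_149 (lowMem 10000 hx0 hx1) (lowMem 10000 hy0 hy1)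
    (lowMem 10000 (by push_cast; linarith) hz1) (hS.mem_high (s := 673470) (by norm_num))⟩

theorem six_c_node_167 {u v d S' : ℝ}
    (hx0 : 8500 / 10000 ≤ u) (hx1 : u < 8745 / 10000) (hy0 : 2900 / 10000 ≤ v) (hy1 : v < 11550 / 10000)
    (hz0 : 2838 / 10000 ≤ d) (hz1 : d < 3334 / 10000) (hS : SixSide d S') (hgap : 0 ≤ sixCP.val u v d S') :
    ∃ i j l : ℕ, 0 < (sixCCond i j l).val u v d S' := by
  rcases lt_or_ge v (7225 / 10000) with g | g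
  · exact six_c_node_168 hx0 hx1 hy0 g hz0 hz1 hS hgap
  · exact six_c_node_181 hx0 hx1 g hy1 hz0 hz1 hS hgap

theorem six_c_node_149 {u v d S' : ℝ}
    (hx0 : 8500 / 10000 ≤ u) (hx1 : u < 8745 / 10000) (hy0 : 2900 / 10000 ≤ v) (hy1 : v < 11550 / 10000)
    (hz0 : 2342 / 10000 ≤ d) (hz1 : d < 3334 / 10000) (hS : SixSide d S') (hgap : 0 ≤ sixCP.val u v d S') :
    ∃ i j l : ℕ, 0 < (sixCCond i j l).val u v d S' := by
  rcases lt_or_ge d (2838 / 10000) with g | g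
  · exact six_c_node_150 hx0 hx1 hy0 hy1 hz0 g hS hgap
  · exact six_c_node_167 hx0 hx1 hy0 hy1 g hz1 hS hgap

theorem six_c_node_184 {u v d S' : ℝ}
    (hx0 : 8745 / 10000 ≤ u) (hx1 : u < 8958 / 10000) (hy0 : 2900 / 10000 ≤ v) (hy1 : v < 7225 / 10000)
    (hz0 : 2342 / 10000 ≤ d) (hz1 : d < 2838 / 10000) (hS : SixSide d S') (_hgap : 0 ≤ sixCP.val u v d S') :
    ∃ i j l : ℕ, 0 < (sixCCond i j l).val u v d S' := by
  exact ⟨0, 0, 0, Ex.pos_of_checkQuick six_c_up_150 (lowMem 10000 hx0 hx1) (lowMem 10000 hy0 hy1)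
    (lowMem 10000 (by push_cast; linarith) hz1) (hS.mem_high (s := 673470) (by norm_num))⟩

theorem six_c_node_188 {u v d S' : ℝ}
    (hx0 : 8745 / 10000 ≤ u) (hx1 : u < 8855 / 10000) (hy0 : 7225 / 10000 ≤ v) (hy1 : v < 9387 / 10000)
    (hz0 : 2342 / 10000 ≤ d) (hz1 : d < 2590 / 10000) (hS : SixSide d S') (_hgap : 0 ≤ sixCP.val u v d S') :
    ∃ i j l : ℕ, 0 < (sixCCond i j l).val u v d S' := by
  exact ⟨0, 0, 0, Ex.pos_of_checkQuick six_c_up_151 (lowMem 10000 hx0 hx1) (lowMem 10000 hy0 hy1)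
    (lowMem 10000 (by push_cast; linarith) hz1) (hS.mem_high (s := 673470) (by norm_num))⟩

theorem six_c_node_189 {u v d S' : ℝ}
    (hx0 : 8745 / 10000 ≤ u) (hx1 : u < 8855 / 10000) (hy0 : 9387 / 10000 ≤ v) (hy1 : v < 11550 / 10000)
    (hz0 : 2342 / 10000 ≤ d) (hz1 : d < 2590 / 10000) (hS : SixSide d S') (_hgap : 0 ≤ sixCP.val u v d S') :
    ∃ i j l : ℕ, 0 < (sixCCond i j l).val u v d S' := by
  exact ⟨0, 0, 0, Ex.pos_of_checkQuick six_c_up_152 (lowMem 10000 hx0 hx1) (lowMem 10000 hy0 hy1)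
    (lowMem 10000 (by push_cast; linarith) hz1) (hS.mem_high (s := 673470) (by norm_num))⟩

theorem six_c_node_187 {u v d S' : ℝ}
    (hx0 : 8745 / 10000 ≤ u) (hx1 : u < 8855 / 10000) (hy0 : 7225 / 10000 ≤ v) (hy1 : v < 11550 / 10000)
    (hz0 : 2342 / 10000 ≤ d) (hz1 : d < 2590 / 10000) (hS : SixSide d S') (hgap : 0 ≤ sixCP.val u v d S') :
    ∃ i j l : ℕ, 0 < (sixCCond i j l).val u v d S' := by
  rcases lt_or_ge v (9387 / 10000) with g | g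
  · exact six_c_node_188 hx0 hx1 hy0 g hz0 hz1 hS hgap
  · exact six_c_node_189 hx0 hx1 g hy1 hz0 hz1 hS hgap

theorem six_c_node_191 {u v d S' : ℝ}
    (hx0 : 8745 / 10000 ≤ u) (hx1 : u < 8855 / 10000) (hy0 : 7225 / 10000 ≤ v) (hy1 : v < 9387 / 10000)
    (hz0 : 2590 / 10000 ≤ d) (hz1 : d < 2838 / 10000) (hS : SixSide d S') (_hgap : 0 ≤ sixCP.val u v d S') :
    ∃ i j l : ℕ, 0 < (sixCCond i j l).val u v d S' := by
  exact ⟨0, 0, 0, Ex.pos_of_checkQuick six_c_up_153 (lowMem 10000 hx0 hx1) (lowMem 10000 hy0 hy1)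
    (lowMem 10000 (by push_cast; linarith) hz1) (hS.mem_high (s := 673470) (by norm_num))⟩

theorem six_c_node_192 {u v d S' : ℝ}
    (hx0 : 8745 / 10000 ≤ u) (hx1 : u < 8855 / 10000) (hy0 : 9387 / 10000 ≤ v) (hy1 : v < 11550 / 10000)
    (hz0 : 2590 / 10000 ≤ d) (hz1 : d < 2838 / 10000) (hS : SixSide d S') (_hgap : 0 ≤ sixCP.val u v d S') :
    ∃ i j l : ℕ, 0 < (sixCCond i j l).val u v d S' := by
  exact ⟨0, 0, 0, Ex.pos_of_checkQuick six_c_up_154 (lowMem 10000 hx0 hx1) (lowMem 10000 hy0 hy1)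
    (lowMem 10000 (by push_cast; linarith) hz1) (hS.mem_high (s := 673470) (by norm_num))⟩

theorem six_c_node_190 {u v d S' : ℝ}
    (hx0 : 8745 / 10000 ≤ u) (hx1 : u < 8855 / 10000) (hy0 : 7225 / 10000 ≤ v) (hy1 : v < 11550 / 10000)
    (hz0 : 2590 / 10000 ≤ d) (hz1 : d < 2838 / 10000) (hS : SixSide d S') (hgap : 0 ≤ sixCP.val u v d S') :
    ∃ i j l : ℕ, 0 < (sixCCond i j l).val u v d S' := by
  rcases lt_or_ge v (9387 / 10000) with g | g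
  · exact six_c_node_191 hx0 hx1 hy0 g hz0 hz1 hS hgap
  · exact six_c_node_192 hx0 hx1 g hy1 hz0 hz1 hS hgap

theorem six_c_node_186 {u v d S' : ℝ}
    (hx0 : 8745 / 10000 ≤ u) (hx1 : u < 8855 / 10000) (hy0 : 7225 / 10000 ≤ v) (hy1 : v < 11550 / 10000)
    (hz0 : 2342 / 10000 ≤ d) (hz1 : d < 2838 / 10000) (hS : SixSide d S') (hgap : 0 ≤ sixCP.val u v d S') :
    ∃ i j l : ℕ, 0 < (sixCCond i j l).val u v d S' := by
  rcases lt_or_ge d (2590 / 10000) with g | g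
  · exact six_c_node_187 hx0 hx1 hy0 hy1 hz0 g hS hgap
  · exact six_c_node_190 hx0 hx1 hy0 hy1 g hz1 hS hgap

theorem six_c_node_195 {u v d S' : ℝ}
    (hx0 : 8855 / 10000 ≤ u) (hx1 : u < 8958 / 10000) (hy0 : 7225 / 10000 ≤ v) (hy1 : v < 9387 / 10000)
    (hz0 : 2342 / 10000 ≤ d) (hz1 : d < 2590 / 10000) (hS : SixSide d S') (_hgap : 0 ≤ sixCP.val u v d S') :
    ∃ i j l : ℕ, 0 < (sixCCond i j l).val u v d S' := by
  exact ⟨0, 0, 0, Ex.pos_of_checkQuick six_c_up_155 (lowMem 10000 hx0 hx1) (lowMem 10000 hy0 hy1)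
    (lowMem 10000 (by push_cast; linarith) hz1) (hS.mem_high (s := 673470) (by norm_num))⟩

theorem six_c_node_196 {u v d S' : ℝ}
    (hx0 : 8855 / 10000 ≤ u) (hx1 : u < 8958 / 10000) (hy0 : 9387 / 10000 ≤ v) (hy1 : v < 11550 / 10000)
    (hz0 : 2342 / 10000 ≤ d) (hz1 : d < 2590 / 10000) (hS : SixSide d S') (_hgap : 0 ≤ sixCP.val u v d S') :
    ∃ i j l : ℕ, 0 < (sixCCond i j l).val u v d S' := by
  exact ⟨0, 0, 0, Ex.pos_of_checkQuick six_c_up_156 (lowMem 10000 hx0 hx1) (lowMem 10000 hy0 hy1)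
    (lowMem 10000 (by push_cast; linarith) hz1) (hS.mem_high (s := 673470) (by norm_num))⟩

theorem six_c_node_194 {u v d S' : ℝ}
    (hx0 : 8855 / 10000 ≤ u) (hx1 : u < 8958 / 10000) (hy0 : 7225 / 10000 ≤ v) (hy1 : v < 11550 / 10000)
    (hz0 : 2342 / 10000 ≤ d) (hz1 : d < 2590 / 10000) (hS : SixSide d S') (hgap : 0 ≤ sixCP.val u v d S') :
    ∃ i j l : ℕ, 0 < (sixCCond i j l).val u v d S' := by
  rcases lt_or_ge v (9387 / 10000) with g | g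
  · exact six_c_node_195 hx0 hx1 hy0 g hz0 hz1 hS hgap
  · exact six_c_node_196 hx0 hx1 g hy1 hz0 hz1 hS hgap

theorem six_c_node_198 {u v d S' : ℝ}
    (hx0 : 8855 / 10000 ≤ u) (hx1 : u < 8958 / 10000) (hy0 : 7225 / 10000 ≤ v) (hy1 : v < 9387 / 10000)
    (hz0 : 2590 / 10000 ≤ d) (hz1 : d < 2838 / 10000) (hS : SixSide d S') (_hgap : 0 ≤ sixCP.val u v d S') :
    ∃ i j l : ℕ, 0 < (sixCCond i j l).val u v d S' := by
  exact ⟨0, 0, 0, Ex.pos_of_checkQuick six_c_up_157 (lowMem 10000 hx0 hx1) (lowMem 10000 hy0 hy1)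
    (lowMem 10000 (by push_cast; linarith) hz1) (hS.mem_high (s := 673470) (by norm_num))⟩

theorem six_c_node_199 {u v d S' : ℝ}
    (hx0 : 8855 / 10000 ≤ u) (hx1 : u < 8958 / 10000) (hy0 : 9387 / 10000 ≤ v) (hy1 : v < 11550 / 10000)
    (hz0 : 2590 / 10000 ≤ d) (hz1 : d < 2838 / 10000) (hS : SixSide d S') (_hgap : 0 ≤ sixCP.val u v d S') :
    ∃ i j l : ℕ, 0 < (sixCCond i j l).val u v d S' := by
  exact ⟨0, 0, 0, Ex.pos_of_checkQuick six_c_up_158 (lowMem 10000 hx0 hx1) (lowMem 10000 hy0 hy1)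
    (lowMem 10000 (by push_cast; linarith) hz1) (hS.mem_high (s := 673470) (by norm_num))⟩

theorem six_c_node_197 {u v d S' : ℝ}
    (hx0 : 8855 / 10000 ≤ u) (hx1 : u < 8958 / 10000) (hy0 : 7225 / 10000 ≤ v) (hy1 : v < 11550 / 10000)
    (hz0 : 2590 / 10000 ≤ d) (hz1 : d < 2838 / 10000) (hS : SixSide d S') (hgap : 0 ≤ sixCP.val u v d S') :
    ∃ i j l : ℕ, 0 < (sixCCond i j l).val u v d S' := by
  rcases lt_or_ge v (9387 / 10000) with g | g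
  · exact six_c_node_198 hx0 hx1 hy0 g hz0 hz1 hS hgap
  · exact six_c_node_199 hx0 hx1 g hy1 hz0 hz1 hS hgap

theorem six_c_node_193 {u v d S' : ℝ}
    (hx0 : 8855 / 10000 ≤ u) (hx1 : u < 8958 / 10000) (hy0 : 7225 / 10000 ≤ v) (hy1 : v < 11550 / 10000)
    (hz0 : 2342 / 10000 ≤ d) (hz1 : d < 2838 / 10000) (hS : SixSide d S') (hgap : 0 ≤ sixCP.val u v d S') :
    ∃ i j l : ℕ, 0 < (sixCCond i j l).val u v d S' := by
  rcases lt_or_ge d (2590 / 10000) with g | g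
  · exact six_c_node_194 hx0 hx1 hy0 hy1 hz0 g hS hgap
  · exact six_c_node_197 hx0 hx1 hy0 hy1 g hz1 hS hgap

theorem six_c_node_185 {u v d S' : ℝ}
    (hx0 : 8745 / 10000 ≤ u) (hx1 : u < 8958 / 10000) (hy0 : 7225 / 10000 ≤ v) (hy1 : v < 11550 / 10000)
    (hz0 : 2342 / 10000 ≤ d) (hz1 : d < 2838 / 10000) (hS : SixSide d S') (hgap : 0 ≤ sixCP.val u v d S') :
    ∃ i j l : ℕ, 0 < (sixCCond i j l).val u v d S' := by
  rcases lt_or_ge u (8855 / 10000) with g | g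
  · exact six_c_node_186 hx0 g hy0 hy1 hz0 hz1 hS hgap
  · exact six_c_node_193 g hx1 hy0 hy1 hz0 hz1 hS hgap

theorem six_c_node_183 {u v d S' : ℝ}
    (hx0 : 8745 / 10000 ≤ u) (hx1 : u < 8958 / 10000) (hy0 : 2900 / 10000 ≤ v) (hy1 : v < 11550 / 10000)
    (hz0 : 2342 / 10000 ≤ d) (hz1 : d < 2838 / 10000) (hS : SixSide d S') (hgap : 0 ≤ sixCP.val u v d S') :
    ∃ i j l : ℕ, 0 < (sixCCond i j l).val u v d S' := by
  rcases lt_or_ge v (7225 / 10000) with g | g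
  · exact six_c_node_184 hx0 hx1 hy0 g hz0 hz1 hS hgap
  · exact six_c_node_185 hx0 hx1 g hy1 hz0 hz1 hS hgap

theorem six_c_node_204 {u v d S' : ℝ}
    (hx0 : 8745 / 10000 ≤ u) (hx1 : u < 8855 / 10000) (hy0 : 2900 / 10000 ≤ v) (hy1 : v < 5062 / 10000)
    (hz0 : 2838 / 10000 ≤ d) (hz1 : d < 3086 / 10000) (hS : SixSide d S') (_hgap : 0 ≤ sixCP.val u v d S') :
    ∃ i j l : ℕ, 0 < (sixCCond i j l).val u v d S' := by
  exact ⟨0, 1326386945, 0, Ex.pos_of_checkQuick six_c_up_159 (lowMem 10000 hx0 hx1) (lowMem 10000 hy0 hy1)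
    (lowMem 10000 (by push_cast; linarith) hz1) (hS.mem_high (s := 673470) (by norm_num))⟩

theorem six_c_node_205 {u v d S' : ℝ}
    (hx0 : 8745 / 10000 ≤ u) (hx1 : u < 8855 / 10000) (hy0 : 5062 / 10000 ≤ v) (hy1 : v < 7225 / 10000)
    (hz0 : 2838 / 10000 ≤ d) (hz1 : d < 3086 / 10000) (hS : SixSide d S') (_hgap : 0 ≤ sixCP.val u v d S') :
    ∃ i j l : ℕ, 0 < (sixCCond i j l).val u v d S' := by
  exact ⟨0, 0, 0, Ex.pos_of_checkQuick six_c_up_160 (lowMem 10000 hx0 hx1) (lowMem 10000 hy0 hy1)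
    (lowMem 10000 (by push_cast; linarith) hz1) (hS.mem_high (s := 673470) (by norm_num))⟩

theorem six_c_node_203 {u v d S' : ℝ}
    (hx0 : 8745 / 10000 ≤ u) (hx1 : u < 8855 / 10000) (hy0 : 2900 / 10000 ≤ v) (hy1 : v < 7225 / 10000)
    (hz0 : 2838 / 10000 ≤ d) (hz1 : d < 3086 / 10000) (hS : SixSide d S') (hgap : 0 ≤ sixCP.val u v d S') :
    ∃ i j l : ℕ, 0 < (sixCCond i j l).val u v d S' := by
  rcases lt_or_ge v (5062 / 10000) with g | g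
  · exact six_c_node_204 hx0 hx1 hy0 g hz0 hz1 hS hgap
  · exact six_c_node_205 hx0 hx1 g hy1 hz0 hz1 hS hgap

theorem six_c_node_207 {u v d S' : ℝ}
    (hx0 : 8745 / 10000 ≤ u) (hx1 : u < 8855 / 10000) (hy0 : 2900 / 10000 ≤ v) (hy1 : v < 5062 / 10000)
    (hz0 : 3086 / 10000 ≤ d) (hz1 : d < 3334 / 10000) (hS : SixSide d S') (_hgap : 0 ≤ sixCP.val u v d S') :
    ∃ i j l : ℕ, 0 < (sixCCond i j l).val u v d S' := by
  exact ⟨0, 1087512601, 0, Ex.pos_of_checkQuick six_c_up_161 (lowMem 10000 hx0 hx1) (lowMem 10000 hy0 hy1)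
    (lowMem 10000 (by push_cast; linarith) hz1) (hS.mem_tri (s := 672851) (a := 3086 / 10000) (by linarith) (by norm_num))⟩

theorem six_c_node_208 {u v d S' : ℝ}
    (hx0 : 8745 / 10000 ≤ u) (hx1 : u < 8855 / 10000) (hy0 : 5062 / 10000 ≤ v) (hy1 : v < 7225 / 10000)
    (hz0 : 3086 / 10000 ≤ d) (hz1 : d < 3334 / 10000) (hS : SixSide d S') (_hgap : 0 ≤ sixCP.val u v d S') :
    ∃ i j l : ℕ, 0 < (sixCCond i j l).val u v d S' := by
  exact ⟨0, 32, 0, Ex.pos_of_checkQuick six_c_up_162 (lowMem 10000 hx0 hx1) (lowMem 10000 hy0 hy1)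
    (lowMem 10000 (by push_cast; linarith) hz1) (hS.mem_tri (s := 672851) (a := 3086 / 10000) (by linarith) (by norm_num))⟩

theorem six_c_node_206 {u v d S' : ℝ}
    (hx0 : 8745 / 10000 ≤ u) (hx1 : u < 8855 / 10000) (hy0 : 2900 / 10000 ≤ v) (hy1 : v < 7225 / 10000)
    (hz0 : 3086 / 10000 ≤ d) (hz1 : d < 3334 / 10000) (hS : SixSide d S') (hgap : 0 ≤ sixCP.val u v d S') :
    ∃ i j l : ℕ, 0 < (sixCCond i j l).val u v d S' := by
  rcases lt_or_ge v (5062 / 10000) with g | g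
  · exact six_c_node_207 hx0 hx1 hy0 g hz0 hz1 hS hgap
  · exact six_c_node_208 hx0 hx1 g hy1 hz0 hz1 hS hgap

theorem six_c_node_202 {u v d S' : ℝ}
    (hx0 : 8745 / 10000 ≤ u) (hx1 : u < 8855 / 10000) (hy0 : 2900 / 10000 ≤ v) (hy1 : v < 7225 / 10000)
    (hz0 : 2838 / 10000 ≤ d) (hz1 : d < 3334 / 10000) (hS : SixSide d S') (hgap : 0 ≤ sixCP.val u v d S') :
    ∃ i j l : ℕ, 0 < (sixCCond i j l).val u v d S' := by
  rcases lt_or_ge d (3086 / 10000) with g | g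
  · exact six_c_node_203 hx0 hx1 hy0 hy1 hz0 g hS hgap
  · exact six_c_node_206 hx0 hx1 hy0 hy1 g hz1 hS hgap

theorem six_c_node_211 {u v d S' : ℝ}
    (hx0 : 8855 / 10000 ≤ u) (hx1 : u < 8958 / 10000) (hy0 : 2900 / 10000 ≤ v) (hy1 : v < 5062 / 10000)
    (hz0 : 2838 / 10000 ≤ d) (hz1 : d < 3086 / 10000) (hS : SixSide d S') (_hgap : 0 ≤ sixCP.val u v d S') :
    ∃ i j l : ℕ, 0 < (sixCCond i j l).val u v d S' := by
  exact ⟨0, 1335977047, 0, Ex.pos_of_checkQuick six_c_up_163 (lowMem 10000 hx0 hx1) (lowMem 10000 hy0 hy1)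
    (lowMem 10000 (by push_cast; linarith) hz1) (hS.mem_high (s := 673470) (by norm_num))⟩

theorem six_c_node_212 {u v d S' : ℝ}
    (hx0 : 8855 / 10000 ≤ u) (hx1 : u < 8958 / 10000) (hy0 : 5062 / 10000 ≤ v) (hy1 : v < 7225 / 10000)
    (hz0 : 2838 / 10000 ≤ d) (hz1 : d < 3086 / 10000) (hS : SixSide d S') (_hgap : 0 ≤ sixCP.val u v d S') :
    ∃ i j l : ℕ, 0 < (sixCCond i j l).val u v d S' := by
  exact ⟨0, 16, 0, Ex.pos_of_checkQuick six_c_up_164 (lowMem 10000 hx0 hx1) (lowMem 10000 hy0 hy1)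
    (lowMem 10000 (by push_cast; linarith) hz1) (hS.mem_high (s := 673470) (by norm_num))⟩

theorem six_c_node_210 {u v d S' : ℝ}
    (hx0 : 8855 / 10000 ≤ u) (hx1 : u < 8958 / 10000) (hy0 : 2900 / 10000 ≤ v) (hy1 : v < 7225 / 10000)
    (hz0 : 2838 / 10000 ≤ d) (hz1 : d < 3086 / 10000) (hS : SixSide d S') (hgap : 0 ≤ sixCP.val u v d S') :
    ∃ i j l : ℕ, 0 < (sixCCond i j l).val u v d S' := by
  rcases lt_or_ge v (5062 / 10000) with g | g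
  · exact six_c_node_211 hx0 hx1 hy0 g hz0 hz1 hS hgap
  · exact six_c_node_212 hx0 hx1 g hy1 hz0 hz1 hS hgap

theorem six_c_node_214 {u v d S' : ℝ}
    (hx0 : 8855 / 10000 ≤ u) (hx1 : u < 8958 / 10000) (hy0 : 2900 / 10000 ≤ v) (hy1 : v < 5062 / 10000)
    (hz0 : 3086 / 10000 ≤ d) (hz1 : d < 3334 / 10000) (hS : SixSide d S') (_hgap : 0 ≤ sixCP.val u v d S') :
    ∃ i j l : ℕ, 0 < (sixCCond i j l).val u v d S' := by
  exact ⟨0, 1100375811, 0, Ex.pos_of_checkQuick six_c_up_165 (lowMem 10000 hx0 hx1) (lowMem 10000 hy0 hy1)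
    (lowMem 10000 (by push_cast; linarith) hz1) (hS.mem_tri (s := 672851) (a := 3086 / 10000) (by linarith) (by norm_num))⟩

theorem six_c_node_215 {u v d S' : ℝ}
    (hx0 : 8855 / 10000 ≤ u) (hx1 : u < 8958 / 10000) (hy0 : 5062 / 10000 ≤ v) (hy1 : v < 7225 / 10000)
    (hz0 : 3086 / 10000 ≤ d) (hz1 : d < 3334 / 10000) (hS : SixSide d S') (_hgap : 0 ≤ sixCP.val u v d S') :
    ∃ i j l : ℕ, 0 < (sixCCond i j l).val u v d S' := by
  exact ⟨0, 53, 0, Ex.pos_of_checkQuick six_c_up_166 (lowMem 10000 hx0 hx1) (lowMem 10000 hy0 hy1)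
    (lowMem 10000 (by push_cast; linarith) hz1) (hS.mem_tri (s := 672851) (a := 3086 / 10000) (by linarith) (by norm_num))⟩

theorem six_c_node_213 {u v d S' : ℝ}
    (hx0 : 8855 / 10000 ≤ u) (hx1 : u < 8958 / 10000) (hy0 : 2900 / 10000 ≤ v) (hy1 : v < 7225 / 10000)
    (hz0 : 3086 / 10000 ≤ d) (hz1 : d < 3334 / 10000) (hS : SixSide d S') (hgap : 0 ≤ sixCP.val u v d S') :
    ∃ i j l : ℕ, 0 < (sixCCond i j l).val u v d S' := by
  rcases lt_or_ge v (5062 / 10000) with g | g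
  · exact six_c_node_214 hx0 hx1 hy0 g hz0 hz1 hS hgap
  · exact six_c_node_215 hx0 hx1 g hy1 hz0 hz1 hS hgap

theorem six_c_node_209 {u v d S' : ℝ}
    (hx0 : 8855 / 10000 ≤ u) (hx1 : u < 8958 / 10000) (hy0 : 2900 / 10000 ≤ v) (hy1 : v < 7225 / 10000)
    (hz0 : 2838 / 10000 ≤ d) (hz1 : d < 3334 / 10000) (hS : SixSide d S') (hgap : 0 ≤ sixCP.val u v d S') :
    ∃ i j l : ℕ, 0 < (sixCCond i j l).val u v d S' := by
  rcases lt_or_ge d (3086 / 10000) with g | g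
  · exact six_c_node_210 hx0 hx1 hy0 hy1 hz0 g hS hgap
  · exact six_c_node_213 hx0 hx1 hy0 hy1 g hz1 hS hgap

theorem six_c_node_201 {u v d S' : ℝ}
    (hx0 : 8745 / 10000 ≤ u) (hx1 : u < 8958 / 10000) (hy0 : 2900 / 10000 ≤ v) (hy1 : v < 7225 / 10000)
    (hz0 : 2838 / 10000 ≤ d) (hz1 : d < 3334 / 10000) (hS : SixSide d S') (hgap : 0 ≤ sixCP.val u v d S') :
    ∃ i j l : ℕ, 0 < (sixCCond i j l).val u v d S' := by
  rcases lt_or_ge u (8855 / 10000) with g | g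
  · exact six_c_node_202 hx0 g hy0 hy1 hz0 hz1 hS hgap
  · exact six_c_node_209 g hx1 hy0 hy1 hz0 hz1 hS hgap

theorem six_c_node_216 {u v d S' : ℝ}
    (hx0 : 8745 / 10000 ≤ u) (hx1 : u < 8958 / 10000) (hy0 : 7225 / 10000 ≤ v) (hy1 : v < 11550 / 10000)
    (hz0 : 2838 / 10000 ≤ d) (hz1 : d < 3334 / 10000) (hS : SixSide d S') (_hgap : 0 ≤ sixCP.val u v d S') :
    ∃ i j l : ℕ, 0 < (sixCCond i j l).val u v d S' := by
  exact ⟨0, 0, 0, Ex.pos_of_checkQuick six_c_up_167 (lowMem 10000 hx0 hx1) (lowMem 10000 hy0 hy1)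
    (lowMem 10000 (by push_cast; linarith) hz1) (hS.mem_high (s := 673470) (by norm_num))⟩

theorem six_c_node_200 {u v d S' : ℝ}
    (hx0 : 8745 / 10000 ≤ u) (hx1 : u < 8958 / 10000) (hy0 : 2900 / 10000 ≤ v) (hy1 : v < 11550 / 10000)
    (hz0 : 2838 / 10000 ≤ d) (hz1 : d < 3334 / 10000) (hS : SixSide d S') (hgap : 0 ≤ sixCP.val u v d S') :
    ∃ i j l : ℕ, 0 < (sixCCond i j l).val u v d S' := by
  rcases lt_or_ge v (7225 / 10000) with g | g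
  · exact six_c_node_201 hx0 hx1 hy0 g hz0 hz1 hS hgap
  · exact six_c_node_216 hx0 hx1 g hy1 hz0 hz1 hS hgap

theorem six_c_node_182 {u v d S' : ℝ}
    (hx0 : 8745 / 10000 ≤ u) (hx1 : u < 8958 / 10000) (hy0 : 2900 / 10000 ≤ v) (hy1 : v < 11550 / 10000)
    (hz0 : 2342 / 10000 ≤ d) (hz1 : d < 3334 / 10000) (hS : SixSide d S') (hgap : 0 ≤ sixCP.val u v d S') :
    ∃ i j l : ℕ, 0 < (sixCCond i j l).val u v d S' := by
  rcases lt_or_ge d (2838 / 10000) with g | g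
  · exact six_c_node_183 hx0 hx1 hy0 hy1 hz0 g hS hgap
  · exact six_c_node_200 hx0 hx1 hy0 hy1 g hz1 hS hgap

theorem six_c_node_148 {u v d S' : ℝ}
    (hx0 : 8500 / 10000 ≤ u) (hx1 : u < 8958 / 10000) (hy0 : 2900 / 10000 ≤ v) (hy1 : v < 11550 / 10000)
    (hz0 : 2342 / 10000 ≤ d) (hz1 : d < 3334 / 10000) (hS : SixSide d S') (hgap : 0 ≤ sixCP.val u v d S') :
    ∃ i j l : ℕ, 0 < (sixCCond i j l).val u v d S' := by
  rcases lt_or_ge u (8745 / 10000) with g | g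
  · exact six_c_node_149 hx0 g hy0 hy1 hz0 hz1 hS hgap
  · exact six_c_node_182 g hx1 hy0 hy1 hz0 hz1 hS hgap

theorem six_c_node_217 {u v d S' : ℝ}
    (hx0 : 8500 / 10000 ≤ u) (hx1 : u < 8958 / 10000) (hy0 : 11550 / 10000 ≤ v) (hy1 : v < 20200 / 10000)
    (hz0 : 2342 / 10000 ≤ d) (hz1 : d < 3334 / 10000) (hS : SixSide d S') (_hgap : 0 ≤ sixCP.val u v d S') :
    ∃ i j l : ℕ, 0 < (sixCCond i j l).val u v d S' := by
  exact ⟨0, 0, 0, Ex.pos_of_checkQuick six_c_up_168 (lowMem 10000 hx0 hx1) (lowMem 10000 hy0 hy1)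
    (lowMem 10000 (by push_cast; linarith) hz1) (hS.mem_high (s := 673470) (by norm_num))⟩

theorem six_c_node_147 {u v d S' : ℝ}
    (hx0 : 8500 / 10000 ≤ u) (hx1 : u < 8958 / 10000) (hy0 : 2900 / 10000 ≤ v) (hy1 : v < 20200 / 10000)
    (hz0 : 2342 / 10000 ≤ d) (hz1 : d < 3334 / 10000) (hS : SixSide d S') (hgap : 0 ≤ sixCP.val u v d S') :
    ∃ i j l : ℕ, 0 < (sixCCond i j l).val u v d S' := by
  rcases lt_or_ge v (11550 / 10000) with g | g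
  · exact six_c_node_148 hx0 hx1 hy0 g hz0 hz1 hS hgap
  · exact six_c_node_217 hx0 hx1 g hy1 hz0 hz1 hS hgap

theorem six_c_node_99 {u v d S' : ℝ}
    (hx0 : 8500 / 10000 ≤ u) (hx1 : u < 8958 / 10000) (hy0 : 2900 / 10000 ≤ v) (hy1 : v < 20200 / 10000)
    (hz0 : 1350 / 10000 ≤ d) (hz1 : d < 3334 / 10000) (hS : SixSide d S') (hgap : 0 ≤ sixCP.val u v d S') :
    ∃ i j l : ℕ, 0 < (sixCCond i j l).val u v d S' := by
  rcases lt_or_ge d (2342 / 10000) with g | g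
  · exact six_c_node_100 hx0 hx1 hy0 hy1 hz0 g hS hgap
  · exact six_c_node_147 hx0 hx1 hy0 hy1 g hz1 hS hgap

theorem six_c_node_223 {u v d S' : ℝ}
    (hx0 : 8958 / 10000 ≤ u) (hx1 : u < 9141 / 10000) (hy0 : 2900 / 10000 ≤ v) (hy1 : v < 7225 / 10000)
    (hz0 : 1350 / 10000 ≤ d) (hz1 : d < 1846 / 10000) (hS : SixSide d S') (_hgap : 0 ≤ sixCP.val u v d S') :
    ∃ i j l : ℕ, 0 < (sixCCond i j l).val u v d S' := by
  exact ⟨0, 2942134026, 0, Ex.pos_of_checkQuick six_c_up_169 (lowMem 10000 hx0 hx1) (lowMem 10000 hy0 hy1)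
    (lowMem 10000 (by push_cast; linarith) hz1) (hS.mem_high (s := 673470) (by norm_num))⟩

theorem six_c_node_224 {u v d S' : ℝ}
    (hx0 : 8958 / 10000 ≤ u) (hx1 : u < 9141 / 10000) (hy0 : 7225 / 10000 ≤ v) (hy1 : v < 11550 / 10000)
    (hz0 : 1350 / 10000 ≤ d) (hz1 : d < 1846 / 10000) (hS : SixSide d S') (_hgap : 0 ≤ sixCP.val u v d S') :
    ∃ i j l : ℕ, 0 < (sixCCond i j l).val u v d S' := by
  exact ⟨0, 0, 0, Ex.pos_of_checkQuick six_c_up_170 (lowMem 10000 hx0 hx1) (lowMem 10000 hy0 hy1)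
    (lowMem 10000 (by push_cast; linarith) hz1) (hS.mem_high (s := 673470) (by norm_num))⟩

theorem six_c_node_222 {u v d S' : ℝ}
    (hx0 : 8958 / 10000 ≤ u) (hx1 : u < 9141 / 10000) (hy0 : 2900 / 10000 ≤ v) (hy1 : v < 11550 / 10000)
    (hz0 : 1350 / 10000 ≤ d) (hz1 : d < 1846 / 10000) (hS : SixSide d S') (hgap : 0 ≤ sixCP.val u v d S') :
    ∃ i j l : ℕ, 0 < (sixCCond i j l).val u v d S' := by
  rcases lt_or_ge v (7225 / 10000) with g | g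
  · exact six_c_node_223 hx0 hx1 hy0 g hz0 hz1 hS hgap
  · exact six_c_node_224 hx0 hx1 g hy1 hz0 hz1 hS hgap

theorem six_c_node_226 {u v d S' : ℝ}
    (hx0 : 8958 / 10000 ≤ u) (hx1 : u < 9141 / 10000) (hy0 : 2900 / 10000 ≤ v) (hy1 : v < 7225 / 10000)
    (hz0 : 1846 / 10000 ≤ d) (hz1 : d < 2342 / 10000) (hS : SixSide d S') (_hgap : 0 ≤ sixCP.val u v d S') :
    ∃ i j l : ℕ, 0 < (sixCCond i j l).val u v d S' := by
  exact ⟨0, 2281532837, 0, Ex.pos_of_checkQuick six_c_up_171 (lowMem 10000 hx0 hx1) (lowMem 10000 hy0 hy1)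
    (lowMem 10000 (by push_cast; linarith) hz1) (hS.mem_high (s := 673470) (by norm_num))⟩

theorem six_c_node_230 {u v d S' : ℝ}
    (hx0 : 8958 / 10000 ≤ u) (hx1 : u < 9052 / 10000) (hy0 : 7225 / 10000 ≤ v) (hy1 : v < 9387 / 10000)
    (hz0 : 1846 / 10000 ≤ d) (hz1 : d < 2094 / 10000) (hS : SixSide d S') (_hgap : 0 ≤ sixCP.val u v d S') :
    ∃ i j l : ℕ, 0 < (sixCCond i j l).val u v d S' := by
  exact ⟨0, 0, 0, Ex.pos_of_checkQuick six_c_up_172 (lowMem 10000 hx0 hx1) (lowMem 10000 hy0 hy1)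
    (lowMem 10000 (by push_cast; linarith) hz1) (hS.mem_high (s := 673470) (by norm_num))⟩

theorem six_c_node_231 {u v d S' : ℝ}
    (hx0 : 8958 / 10000 ≤ u) (hx1 : u < 9052 / 10000) (hy0 : 9387 / 10000 ≤ v) (hy1 : v < 11550 / 10000)
    (hz0 : 1846 / 10000 ≤ d) (hz1 : d < 2094 / 10000) (hS : SixSide d S') (_hgap : 0 ≤ sixCP.val u v d S') :
    ∃ i j l : ℕ, 0 < (sixCCond i j l).val u v d S' := by
  exact ⟨0, 0, 0, Ex.pos_of_checkQuick six_c_up_173 (lowMem 10000 hx0 hx1) (lowMem 10000 hy0 hy1)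
    (lowMem 10000 (by push_cast; linarith) hz1) (hS.mem_high (s := 673470) (by norm_num))⟩

theorem six_c_node_229 {u v d S' : ℝ}
    (hx0 : 8958 / 10000 ≤ u) (hx1 : u < 9052 / 10000) (hy0 : 7225 / 10000 ≤ v) (hy1 : v < 11550 / 10000)
    (hz0 : 1846 / 10000 ≤ d) (hz1 : d < 2094 / 10000) (hS : SixSide d S') (hgap : 0 ≤ sixCP.val u v d S') :
    ∃ i j l : ℕ, 0 < (sixCCond i j l).val u v d S' := by
  rcases lt_or_ge v (9387 / 10000) with g | g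
  · exact six_c_node_230 hx0 hx1 hy0 g hz0 hz1 hS hgap
  · exact six_c_node_231 hx0 hx1 g hy1 hz0 hz1 hS hgap

theorem six_c_node_233 {u v d S' : ℝ}
    (hx0 : 8958 / 10000 ≤ u) (hx1 : u < 9052 / 10000) (hy0 : 7225 / 10000 ≤ v) (hy1 : v < 9387 / 10000)
    (hz0 : 2094 / 10000 ≤ d) (hz1 : d < 2342 / 10000) (hS : SixSide d S') (_hgap : 0 ≤ sixCP.val u v d S') :
    ∃ i j l : ℕ, 0 < (sixCCond i j l).val u v d S' := by
  exact ⟨0, 0, 0, Ex.pos_of_checkQuick six_c_up_174 (lowMem 10000 hx0 hx1) (lowMem 10000 hy0 hy1)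
    (lowMem 10000 (by push_cast; linarith) hz1) (hS.mem_high (s := 673470) (by norm_num))⟩

theorem six_c_node_234 {u v d S' : ℝ}
    (hx0 : 8958 / 10000 ≤ u) (hx1 : u < 9052 / 10000) (hy0 : 9387 / 10000 ≤ v) (hy1 : v < 11550 / 10000)
    (hz0 : 2094 / 10000 ≤ d) (hz1 : d < 2342 / 10000) (hS : SixSide d S') (_hgap : 0 ≤ sixCP.val u v d S') :
    ∃ i j l : ℕ, 0 < (sixCCond i j l).val u v d S' := by
  exact ⟨0, 0, 0, Ex.pos_of_checkQuick six_c_up_175 (lowMem 10000 hx0 hx1) (lowMem 10000 hy0 hy1)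
    (lowMem 10000 (by push_cast; linarith) hz1) (hS.mem_high (s := 673470) (by norm_num))⟩

theorem six_c_node_232 {u v d S' : ℝ}
    (hx0 : 8958 / 10000 ≤ u) (hx1 : u < 9052 / 10000) (hy0 : 7225 / 10000 ≤ v) (hy1 : v < 11550 / 10000)
    (hz0 : 2094 / 10000 ≤ d) (hz1 : d < 2342 / 10000) (hS : SixSide d S') (hgap : 0 ≤ sixCP.val u v d S') :
    ∃ i j l : ℕ, 0 < (sixCCond i j l).val u v d S' := by
  rcases lt_or_ge v (9387 / 10000) with g | g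
  · exact six_c_node_233 hx0 hx1 hy0 g hz0 hz1 hS hgap
  · exact six_c_node_234 hx0 hx1 g hy1 hz0 hz1 hS hgap

theorem six_c_node_228 {u v d S' : ℝ}
    (hx0 : 8958 / 10000 ≤ u) (hx1 : u < 9052 / 10000) (hy0 : 7225 / 10000 ≤ v) (hy1 : v < 11550 / 10000)
    (hz0 : 1846 / 10000 ≤ d) (hz1 : d < 2342 / 10000) (hS : SixSide d S') (hgap : 0 ≤ sixCP.val u v d S') :
    ∃ i j l : ℕ, 0 < (sixCCond i j l).val u v d S' := by
  rcases lt_or_ge d (2094 / 10000) with g | g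
  · exact six_c_node_229 hx0 hx1 hy0 hy1 hz0 g hS hgap
  · exact six_c_node_232 hx0 hx1 hy0 hy1 g hz1 hS hgap

theorem six_c_node_237 {u v d S' : ℝ}
    (hx0 : 9052 / 10000 ≤ u) (hx1 : u < 9141 / 10000) (hy0 : 7225 / 10000 ≤ v) (hy1 : v < 9387 / 10000)
    (hz0 : 1846 / 10000 ≤ d) (hz1 : d < 2094 / 10000) (hS : SixSide d S') (_hgap : 0 ≤ sixCP.val u v d S') :
    ∃ i j l : ℕ, 0 < (sixCCond i j l).val u v d S' := by
  exact ⟨0, 0, 0, Ex.pos_of_checkQuick six_c_up_176 (lowMem 10000 hx0 hx1) (lowMem 10000 hy0 hy1)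
    (lowMem 10000 (by push_cast; linarith) hz1) (hS.mem_high (s := 673470) (by norm_num))⟩

theorem six_c_node_238 {u v d S' : ℝ}
    (hx0 : 9052 / 10000 ≤ u) (hx1 : u < 9141 / 10000) (hy0 : 9387 / 10000 ≤ v) (hy1 : v < 11550 / 10000)
    (hz0 : 1846 / 10000 ≤ d) (hz1 : d < 2094 / 10000) (hS : SixSide d S') (_hgap : 0 ≤ sixCP.val u v d S') :
    ∃ i j l : ℕ, 0 < (sixCCond i j l).val u v d S' := by
  exact ⟨0, 0, 0, Ex.pos_of_checkQuick six_c_up_177 (lowMem 10000 hx0 hx1) (lowMem 10000 hy0 hy1)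
    (lowMem 10000 (by push_cast; linarith) hz1) (hS.mem_high (s := 673470) (by norm_num))⟩

theorem six_c_node_236 {u v d S' : ℝ}
    (hx0 : 9052 / 10000 ≤ u) (hx1 : u < 9141 / 10000) (hy0 : 7225 / 10000 ≤ v) (hy1 : v < 11550 / 10000)
    (hz0 : 1846 / 10000 ≤ d) (hz1 : d < 2094 / 10000) (hS : SixSide d S') (hgap : 0 ≤ sixCP.val u v d S') :
    ∃ i j l : ℕ, 0 < (sixCCond i j l).val u v d S' := by
  rcases lt_or_ge v (9387 / 10000) with g | g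
  · exact six_c_node_237 hx0 hx1 hy0 g hz0 hz1 hS hgap
  · exact six_c_node_238 hx0 hx1 g hy1 hz0 hz1 hS hgap

theorem six_c_node_240 {u v d S' : ℝ}
    (hx0 : 9052 / 10000 ≤ u) (hx1 : u < 9141 / 10000) (hy0 : 7225 / 10000 ≤ v) (hy1 : v < 9387 / 10000)
    (hz0 : 2094 / 10000 ≤ d) (hz1 : d < 2342 / 10000) (hS : SixSide d S') (_hgap : 0 ≤ sixCP.val u v d S') :
    ∃ i j l : ℕ, 0 < (sixCCond i j l).val u v d S' := by
  exact ⟨0, 0, 0, Ex.pos_of_checkQuick six_c_up_178 (lowMem 10000 hx0 hx1) (lowMem 10000 hy0 hy1)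
    (lowMem 10000 (by push_cast; linarith) hz1) (hS.mem_high (s := 673470) (by norm_num))⟩

theorem six_c_node_241 {u v d S' : ℝ}
    (hx0 : 9052 / 10000 ≤ u) (hx1 : u < 9141 / 10000) (hy0 : 9387 / 10000 ≤ v) (hy1 : v < 11550 / 10000)
    (hz0 : 2094 / 10000 ≤ d) (hz1 : d < 2342 / 10000) (hS : SixSide d S') (_hgap : 0 ≤ sixCP.val u v d S') :
    ∃ i j l : ℕ, 0 < (sixCCond i j l).val u v d S' := by
  exact ⟨0, 0, 0, Ex.pos_of_checkQuick six_c_up_179 (lowMem 10000 hx0 hx1) (lowMem 10000 hy0 hy1)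
    (lowMem 10000 (by push_cast; linarith) hz1) (hS.mem_high (s := 673470) (by norm_num))⟩

theorem six_c_node_239 {u v d S' : ℝ}
    (hx0 : 9052 / 10000 ≤ u) (hx1 : u < 9141 / 10000) (hy0 : 7225 / 10000 ≤ v) (hy1 : v < 11550 / 10000)
    (hz0 : 2094 / 10000 ≤ d) (hz1 : d < 2342 / 10000) (hS : SixSide d S') (hgap : 0 ≤ sixCP.val u v d S') :
    ∃ i j l : ℕ, 0 < (sixCCond i j l).val u v d S' := by
  rcases lt_or_ge v (9387 / 10000) with g | g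
  · exact six_c_node_240 hx0 hx1 hy0 g hz0 hz1 hS hgap
  · exact six_c_node_241 hx0 hx1 g hy1 hz0 hz1 hS hgap

theorem six_c_node_235 {u v d S' : ℝ}
    (hx0 : 9052 / 10000 ≤ u) (hx1 : u < 9141 / 10000) (hy0 : 7225 / 10000 ≤ v) (hy1 : v < 11550 / 10000)
    (hz0 : 1846 / 10000 ≤ d) (hz1 : d < 2342 / 10000) (hS : SixSide d S') (hgap : 0 ≤ sixCP.val u v d S') :
    ∃ i j l : ℕ, 0 < (sixCCond i j l).val u v d S' := by
  rcases lt_or_ge d (2094 / 10000) with g | g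
  · exact six_c_node_236 hx0 hx1 hy0 hy1 hz0 g hS hgap
  · exact six_c_node_239 hx0 hx1 hy0 hy1 g hz1 hS hgap

theorem six_c_node_227 {u v d S' : ℝ}
    (hx0 : 8958 / 10000 ≤ u) (hx1 : u < 9141 / 10000) (hy0 : 7225 / 10000 ≤ v) (hy1 : v < 11550 / 10000)
    (hz0 : 1846 / 10000 ≤ d) (hz1 : d < 2342 / 10000) (hS : SixSide d S') (hgap : 0 ≤ sixCP.val u v d S') :
    ∃ i j l : ℕ, 0 < (sixCCond i j l).val u v d S' := by
  rcases lt_or_ge u (9052 / 10000) with g | g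
  · exact six_c_node_228 hx0 g hy0 hy1 hz0 hz1 hS hgap
  · exact six_c_node_235 g hx1 hy0 hy1 hz0 hz1 hS hgap

theorem six_c_node_225 {u v d S' : ℝ}
    (hx0 : 8958 / 10000 ≤ u) (hx1 : u < 9141 / 10000) (hy0 : 2900 / 10000 ≤ v) (hy1 : v < 11550 / 10000)
    (hz0 : 1846 / 10000 ≤ d) (hz1 : d < 2342 / 10000) (hS : SixSide d S') (hgap : 0 ≤ sixCP.val u v d S') :
    ∃ i j l : ℕ, 0 < (sixCCond i j l).val u v d S' := by
  rcases lt_or_ge v (7225 / 10000) with g | g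
  · exact six_c_node_226 hx0 hx1 hy0 g hz0 hz1 hS hgap
  · exact six_c_node_227 hx0 hx1 g hy1 hz0 hz1 hS hgap

theorem six_c_node_221 {u v d S' : ℝ}
    (hx0 : 8958 / 10000 ≤ u) (hx1 : u < 9141 / 10000) (hy0 : 2900 / 10000 ≤ v) (hy1 : v < 11550 / 10000)
    (hz0 : 1350 / 10000 ≤ d) (hz1 : d < 2342 / 10000) (hS : SixSide d S') (hgap : 0 ≤ sixCP.val u v d S') :
    ∃ i j l : ℕ, 0 < (sixCCond i j l).val u v d S' := by
  rcases lt_or_ge d (1846 / 10000) with g | g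
  · exact six_c_node_222 hx0 hx1 hy0 hy1 hz0 g hS hgap
  · exact six_c_node_225 hx0 hx1 hy0 hy1 g hz1 hS hgap

theorem six_c_node_243 {u v d S' : ℝ}
    (hx0 : 9141 / 10000 ≤ u) (hx1 : u < 9300 / 10000) (hy0 : 2900 / 10000 ≤ v) (hy1 : v < 11550 / 10000)
    (hz0 : 1350 / 10000 ≤ d) (hz1 : d < 1846 / 10000) (hS : SixSide d S') (_hgap : 0 ≤ sixCP.val u v d S') :
    ∃ i j l : ℕ, 0 < (sixCCond i j l).val u v d S' := by
  exact ⟨0, 0, 0, Ex.pos_of_checkQuick six_c_up_180 (lowMem 10000 hx0 hx1) (lowMem 10000 hy0 hy1)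
    (lowMem 10000 (by push_cast; linarith) hz1) (hS.mem_high (s := 673470) (by norm_num))⟩

theorem six_c_node_245 {u v d S' : ℝ}
    (hx0 : 9141 / 10000 ≤ u) (hx1 : u < 9300 / 10000) (hy0 : 2900 / 10000 ≤ v) (hy1 : v < 7225 / 10000)
    (hz0 : 1846 / 10000 ≤ d) (hz1 : d < 2342 / 10000) (hS : SixSide d S') (_hgap : 0 ≤ sixCP.val u v d S') :
    ∃ i j l : ℕ, 0 < (sixCCond i j l).val u v d S' := by
  exact ⟨0, 2312701847, 0, Ex.pos_of_checkQuick six_c_up_181 (lowMem 10000 hx0 hx1) (lowMem 10000 hy0 hy1)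
    (lowMem 10000 (by push_cast; linarith) hz1) (hS.mem_high (s := 673470) (by norm_num))⟩

theorem six_c_node_248 {u v d S' : ℝ}
    (hx0 : 9141 / 10000 ≤ u) (hx1 : u < 9223 / 10000) (hy0 : 7225 / 10000 ≤ v) (hy1 : v < 11550 / 10000)
    (hz0 : 1846 / 10000 ≤ d) (hz1 : d < 2094 / 10000) (hS : SixSide d S') (_hgap : 0 ≤ sixCP.val u v d S') :
    ∃ i j l : ℕ, 0 < (sixCCond i j l).val u v d S' := by
  exact ⟨0, 0, 0, Ex.pos_of_checkQuick six_c_up_182 (lowMem 10000 hx0 hx1) (lowMem 10000 hy0 hy1)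
    (lowMem 10000 (by push_cast; linarith) hz1) (hS.mem_high (s := 673470) (by norm_num))⟩

theorem six_c_node_250 {u v d S' : ℝ}
    (hx0 : 9141 / 10000 ≤ u) (hx1 : u < 9223 / 10000) (hy0 : 7225 / 10000 ≤ v) (hy1 : v < 9387 / 10000)
    (hz0 : 2094 / 10000 ≤ d) (hz1 : d < 2342 / 10000) (hS : SixSide d S') (_hgap : 0 ≤ sixCP.val u v d S') :
    ∃ i j l : ℕ, 0 < (sixCCond i j l).val u v d S' := by
  exact ⟨0, 0, 0, Ex.pos_of_checkQuick six_c_up_183 (lowMem 10000 hx0 hx1) (lowMem 10000 hy0 hy1)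
    (lowMem 10000 (by push_cast; linarith) hz1) (hS.mem_high (s := 673470) (by norm_num))⟩

theorem six_c_node_251 {u v d S' : ℝ}
    (hx0 : 9141 / 10000 ≤ u) (hx1 : u < 9223 / 10000) (hy0 : 9387 / 10000 ≤ v) (hy1 : v < 11550 / 10000)
    (hz0 : 2094 / 10000 ≤ d) (hz1 : d < 2342 / 10000) (hS : SixSide d S') (_hgap : 0 ≤ sixCP.val u v d S') :
    ∃ i j l : ℕ, 0 < (sixCCond i j l).val u v d S' := by
  exact ⟨0, 0, 0, Ex.pos_of_checkQuick six_c_up_184 (lowMem 10000 hx0 hx1) (lowMem 10000 hy0 hy1)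
    (lowMem 10000 (by push_cast; linarith) hz1) (hS.mem_high (s := 673470) (by norm_num))⟩

theorem six_c_node_249 {u v d S' : ℝ}
    (hx0 : 9141 / 10000 ≤ u) (hx1 : u < 9223 / 10000) (hy0 : 7225 / 10000 ≤ v) (hy1 : v < 11550 / 10000)
    (hz0 : 2094 / 10000 ≤ d) (hz1 : d < 2342 / 10000) (hS : SixSide d S') (hgap : 0 ≤ sixCP.val u v d S') :
    ∃ i j l : ℕ, 0 < (sixCCond i j l).val u v d S' := by
  rcases lt_or_ge v (9387 / 10000) with g | g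
  · exact six_c_node_250 hx0 hx1 hy0 g hz0 hz1 hS hgap
  · exact six_c_node_251 hx0 hx1 g hy1 hz0 hz1 hS hgap

theorem six_c_node_247 {u v d S' : ℝ}
    (hx0 : 9141 / 10000 ≤ u) (hx1 : u < 9223 / 10000) (hy0 : 7225 / 10000 ≤ v) (hy1 : v < 11550 / 10000)
    (hz0 : 1846 / 10000 ≤ d) (hz1 : d < 2342 / 10000) (hS : SixSide d S') (hgap : 0 ≤ sixCP.val u v d S') :
    ∃ i j l : ℕ, 0 < (sixCCond i j l).val u v d S' := by
  rcases lt_or_ge d (2094 / 10000) with g | g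
  · exact six_c_node_248 hx0 hx1 hy0 hy1 hz0 g hS hgap
  · exact six_c_node_249 hx0 hx1 hy0 hy1 g hz1 hS hgap

theorem six_c_node_252 {u v d S' : ℝ}
    (hx0 : 9223 / 10000 ≤ u) (hx1 : u < 9300 / 10000) (hy0 : 7225 / 10000 ≤ v) (hy1 : v < 11550 / 10000)
    (hz0 : 1846 / 10000 ≤ d) (hz1 : d < 2342 / 10000) (hS : SixSide d S') (_hgap : 0 ≤ sixCP.val u v d S') :
    ∃ i j l : ℕ, 0 < (sixCCond i j l).val u v d S' := by
  exact ⟨0, 0, 0, Ex.pos_of_checkQuick six_c_up_185 (lowMem 10000 hx0 hx1) (lowMem 10000 hy0 hy1)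
    (lowMem 10000 (by push_cast; linarith) hz1) (hS.mem_high (s := 673470) (by norm_num))⟩

theorem six_c_node_246 {u v d S' : ℝ}
    (hx0 : 9141 / 10000 ≤ u) (hx1 : u < 9300 / 10000) (hy0 : 7225 / 10000 ≤ v) (hy1 : v < 11550 / 10000)
    (hz0 : 1846 / 10000 ≤ d) (hz1 : d < 2342 / 10000) (hS : SixSide d S') (hgap : 0 ≤ sixCP.val u v d S') :
    ∃ i j l : ℕ, 0 < (sixCCond i j l).val u v d S' := by
  rcases lt_or_ge u (9223 / 10000) with g | g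
  · exact six_c_node_247 hx0 g hy0 hy1 hz0 hz1 hS hgap
  · exact six_c_node_252 g hx1 hy0 hy1 hz0 hz1 hS hgap

theorem six_c_node_244 {u v d S' : ℝ}
    (hx0 : 9141 / 10000 ≤ u) (hx1 : u < 9300 / 10000) (hy0 : 2900 / 10000 ≤ v) (hy1 : v < 11550 / 10000)
    (hz0 : 1846 / 10000 ≤ d) (hz1 : d < 2342 / 10000) (hS : SixSide d S') (hgap : 0 ≤ sixCP.val u v d S') :
    ∃ i j l : ℕ, 0 < (sixCCond i j l).val u v d S' := by
  rcases lt_or_ge v (7225 / 10000) with g | g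
  · exact six_c_node_245 hx0 hx1 hy0 g hz0 hz1 hS hgap
  · exact six_c_node_246 hx0 hx1 g hy1 hz0 hz1 hS hgap

theorem six_c_node_242 {u v d S' : ℝ}
    (hx0 : 9141 / 10000 ≤ u) (hx1 : u < 9300 / 10000) (hy0 : 2900 / 10000 ≤ v) (hy1 : v < 11550 / 10000)
    (hz0 : 1350 / 10000 ≤ d) (hz1 : d < 2342 / 10000) (hS : SixSide d S') (hgap : 0 ≤ sixCP.val u v d S') :
    ∃ i j l : ℕ, 0 < (sixCCond i j l).val u v d S' := by
  rcases lt_or_ge d (1846 / 10000) with g | g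
  · exact six_c_node_243 hx0 hx1 hy0 hy1 hz0 g hS hgap
  · exact six_c_node_244 hx0 hx1 hy0 hy1 g hz1 hS hgap

theorem six_c_node_220 {u v d S' : ℝ}
    (hx0 : 8958 / 10000 ≤ u) (hx1 : u < 9300 / 10000) (hy0 : 2900 / 10000 ≤ v) (hy1 : v < 11550 / 10000)
    (hz0 : 1350 / 10000 ≤ d) (hz1 : d < 2342 / 10000) (hS : SixSide d S') (hgap : 0 ≤ sixCP.val u v d S') :
    ∃ i j l : ℕ, 0 < (sixCCond i j l).val u v d S' := by
  rcases lt_or_ge u (9141 / 10000) with g | g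
  · exact six_c_node_221 hx0 g hy0 hy1 hz0 hz1 hS hgap
  · exact six_c_node_242 g hx1 hy0 hy1 hz0 hz1 hS hgap

theorem six_c_node_254 {u v d S' : ℝ}
    (hx0 : 8958 / 10000 ≤ u) (hx1 : u < 9141 / 10000) (hy0 : 11550 / 10000 ≤ v) (hy1 : v < 20200 / 10000)
    (hz0 : 1350 / 10000 ≤ d) (hz1 : d < 2342 / 10000) (hS : SixSide d S') (_hgap : 0 ≤ sixCP.val u v d S') :
    ∃ i j l : ℕ, 0 < (sixCCond i j l).val u v d S' := by
  exact ⟨0, 0, 0, Ex.pos_of_checkQuick six_c_up_186 (lowMem 10000 hx0 hx1) (lowMem 10000 hy0 hy1)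
    (lowMem 10000 (by push_cast; linarith) hz1) (hS.mem_high (s := 673470) (by norm_num))⟩

theorem six_c_node_257 {u v d S' : ℝ}
    (hx0 : 9141 / 10000 ≤ u) (hx1 : u < 9300 / 10000) (hy0 : 11550 / 10000 ≤ v) (hy1 : v < 15875 / 10000)
    (hz0 : 1350 / 10000 ≤ d) (hz1 : d < 1846 / 10000) (hS : SixSide d S') (_hgap : 0 ≤ sixCP.val u v d S') :
    ∃ i j l : ℕ, 0 < (sixCCond i j l).val u v d S' := by
  exact ⟨0, 0, 0, Ex.pos_of_checkQuick six_c_up_187 (lowMem 10000 hx0 hx1) (lowMem 10000 hy0 hy1)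
    (lowMem 10000 (by push_cast; linarith) hz1) (hS.mem_high (s := 673470) (by norm_num))⟩

theorem six_c_node_258 {u v d S' : ℝ}
    (hx0 : 9141 / 10000 ≤ u) (hx1 : u < 9300 / 10000) (hy0 : 15875 / 10000 ≤ v) (hy1 : v < 20200 / 10000)
    (hz0 : 1350 / 10000 ≤ d) (hz1 : d < 1846 / 10000) (hS : SixSide d S') (_hgap : 0 ≤ sixCP.val u v d S') :
    ∃ i j l : ℕ, 0 < (sixCCond i j l).val u v d S' := by
  exact ⟨0, 0, 0, Ex.pos_of_checkQuick six_c_up_188 (lowMem 10000 hx0 hx1) (lowMem 10000 hy0 hy1)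
    (lowMem 10000 (by push_cast; linarith) hz1) (hS.mem_high (s := 673470) (by norm_num))⟩

theorem six_c_node_256 {u v d S' : ℝ}
    (hx0 : 9141 / 10000 ≤ u) (hx1 : u < 9300 / 10000) (hy0 : 11550 / 10000 ≤ v) (hy1 : v < 20200 / 10000)
    (hz0 : 1350 / 10000 ≤ d) (hz1 : d < 1846 / 10000) (hS : SixSide d S') (hgap : 0 ≤ sixCP.val u v d S') :
    ∃ i j l : ℕ, 0 < (sixCCond i j l).val u v d S' := by
  rcases lt_or_ge v (15875 / 10000) with g | g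
  · exact six_c_node_257 hx0 hx1 hy0 g hz0 hz1 hS hgap
  · exact six_c_node_258 hx0 hx1 g hy1 hz0 hz1 hS hgap

theorem six_c_node_259 {u v d S' : ℝ}
    (hx0 : 9141 / 10000 ≤ u) (hx1 : u < 9300 / 10000) (hy0 : 11550 / 10000 ≤ v) (hy1 : v < 20200 / 10000)
    (hz0 : 1846 / 10000 ≤ d) (hz1 : d < 2342 / 10000) (hS : SixSide d S') (_hgap : 0 ≤ sixCP.val u v d S') :
    ∃ i j l : ℕ, 0 < (sixCCond i j l).val u v d S' := by
  exact ⟨0, 0, 0, Ex.pos_of_checkQuick six_c_up_189 (lowMem 10000 hx0 hx1) (lowMem 10000 hy0 hy1)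
    (lowMem 10000 (by push_cast; linarith) hz1) (hS.mem_high (s := 673470) (by norm_num))⟩

theorem six_c_node_255 {u v d S' : ℝ}
    (hx0 : 9141 / 10000 ≤ u) (hx1 : u < 9300 / 10000) (hy0 : 11550 / 10000 ≤ v) (hy1 : v < 20200 / 10000)
    (hz0 : 1350 / 10000 ≤ d) (hz1 : d < 2342 / 10000) (hS : SixSide d S') (hgap : 0 ≤ sixCP.val u v d S') :
    ∃ i j l : ℕ, 0 < (sixCCond i j l).val u v d S' := by
  rcases lt_or_ge d (1846 / 10000) with g | g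
  · exact six_c_node_256 hx0 hx1 hy0 hy1 hz0 g hS hgap
  · exact six_c_node_259 hx0 hx1 hy0 hy1 g hz1 hS hgap

theorem six_c_node_253 {u v d S' : ℝ}
    (hx0 : 8958 / 10000 ≤ u) (hx1 : u < 9300 / 10000) (hy0 : 11550 / 10000 ≤ v) (hy1 : v < 20200 / 10000)
    (hz0 : 1350 / 10000 ≤ d) (hz1 : d < 2342 / 10000) (hS : SixSide d S') (hgap : 0 ≤ sixCP.val u v d S') :
    ∃ i j l : ℕ, 0 < (sixCCond i j l).val u v d S' := by
  rcases lt_or_ge u (9141 / 10000) with g | g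
  · exact six_c_node_254 hx0 g hy0 hy1 hz0 hz1 hS hgap
  · exact six_c_node_255 g hx1 hy0 hy1 hz0 hz1 hS hgap

theorem six_c_node_219 {u v d S' : ℝ}
    (hx0 : 8958 / 10000 ≤ u) (hx1 : u < 9300 / 10000) (hy0 : 2900 / 10000 ≤ v) (hy1 : v < 20200 / 10000)
    (hz0 : 1350 / 10000 ≤ d) (hz1 : d < 2342 / 10000) (hS : SixSide d S') (hgap : 0 ≤ sixCP.val u v d S') :
    ∃ i j l : ℕ, 0 < (sixCCond i j l).val u v d S' := by
  rcases lt_or_ge v (11550 / 10000) with g | g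
  · exact six_c_node_220 hx0 hx1 hy0 g hz0 hz1 hS hgap
  · exact six_c_node_253 hx0 hx1 g hy1 hz0 hz1 hS hgap

theorem six_c_node_264 {u v d S' : ℝ}
    (hx0 : 8958 / 10000 ≤ u) (hx1 : u < 9141 / 10000) (hy0 : 2900 / 10000 ≤ v) (hy1 : v < 7225 / 10000)
    (hz0 : 2342 / 10000 ≤ d) (hz1 : d < 2838 / 10000) (hS : SixSide d S') (_hgap : 0 ≤ sixCP.val u v d S') :
    ∃ i j l : ℕ, 0 < (sixCCond i j l).val u v d S' := by
  exact ⟨0, 1790125961, 0, Ex.pos_of_checkQuick six_c_up_190 (lowMem 10000 hx0 hx1) (lowMem 10000 hy0 hy1)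
    (lowMem 10000 (by push_cast; linarith) hz1) (hS.mem_high (s := 673470) (by norm_num))⟩

theorem six_c_node_268 {u v d S' : ℝ}
    (hx0 : 8958 / 10000 ≤ u) (hx1 : u < 9052 / 10000) (hy0 : 7225 / 10000 ≤ v) (hy1 : v < 9387 / 10000)
    (hz0 : 2342 / 10000 ≤ d) (hz1 : d < 2590 / 10000) (hS : SixSide d S') (_hgap : 0 ≤ sixCP.val u v d S') :
    ∃ i j l : ℕ, 0 < (sixCCond i j l).val u v d S' := by
  exact ⟨0, 0, 0, Ex.pos_of_checkQuick six_c_up_191 (lowMem 10000 hx0 hx1) (lowMem 10000 hy0 hy1)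
    (lowMem 10000 (by push_cast; linarith) hz1) (hS.mem_high (s := 673470) (by norm_num))⟩

theorem six_c_node_269 {u v d S' : ℝ}
    (hx0 : 8958 / 10000 ≤ u) (hx1 : u < 9052 / 10000) (hy0 : 9387 / 10000 ≤ v) (hy1 : v < 11550 / 10000)
    (hz0 : 2342 / 10000 ≤ d) (hz1 : d < 2590 / 10000) (hS : SixSide d S') (_hgap : 0 ≤ sixCP.val u v d S') :
    ∃ i j l : ℕ, 0 < (sixCCond i j l).val u v d S' := by
  exact ⟨0, 0, 0, Ex.pos_of_checkQuick six_c_up_192 (lowMem 10000 hx0 hx1) (lowMem 10000 hy0 hy1)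
    (lowMem 10000 (by push_cast; linarith) hz1) (hS.mem_high (s := 673470) (by norm_num))⟩

theorem six_c_node_267 {u v d S' : ℝ}
    (hx0 : 8958 / 10000 ≤ u) (hx1 : u < 9052 / 10000) (hy0 : 7225 / 10000 ≤ v) (hy1 : v < 11550 / 10000)
    (hz0 : 2342 / 10000 ≤ d) (hz1 : d < 2590 / 10000) (hS : SixSide d S') (hgap : 0 ≤ sixCP.val u v d S') :
    ∃ i j l : ℕ, 0 < (sixCCond i j l).val u v d S' := by
  rcases lt_or_ge v (9387 / 10000) with g | g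
  · exact six_c_node_268 hx0 hx1 hy0 g hz0 hz1 hS hgap
  · exact six_c_node_269 hx0 hx1 g hy1 hz0 hz1 hS hgap

theorem six_c_node_271 {u v d S' : ℝ}
    (hx0 : 8958 / 10000 ≤ u) (hx1 : u < 9052 / 10000) (hy0 : 7225 / 10000 ≤ v) (hy1 : v < 9387 / 10000)
    (hz0 : 2590 / 10000 ≤ d) (hz1 : d < 2838 / 10000) (hS : SixSide d S') (_hgap : 0 ≤ sixCP.val u v d S') :
    ∃ i j l : ℕ, 0 < (sixCCond i j l).val u v d S' := by
  exact ⟨0, 0, 0, Ex.pos_of_checkQuick six_c_up_193 (lowMem 10000 hx0 hx1) (lowMem 10000 hy0 hy1)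
    (lowMem 10000 (by push_cast; linarith) hz1) (hS.mem_high (s := 673470) (by norm_num))⟩

theorem six_c_node_272 {u v d S' : ℝ}
    (hx0 : 8958 / 10000 ≤ u) (hx1 : u < 9052 / 10000) (hy0 : 9387 / 10000 ≤ v) (hy1 : v < 11550 / 10000)
    (hz0 : 2590 / 10000 ≤ d) (hz1 : d < 2838 / 10000) (hS : SixSide d S') (_hgap : 0 ≤ sixCP.val u v d S') :
    ∃ i j l : ℕ, 0 < (sixCCond i j l).val u v d S' := by
  exact ⟨0, 0, 0, Ex.pos_of_checkQuick six_c_up_194 (lowMem 10000 hx0 hx1) (lowMem 10000 hy0 hy1)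
    (lowMem 10000 (by push_cast; linarith) hz1) (hS.mem_high (s := 673470) (by norm_num))⟩

theorem six_c_node_270 {u v d S' : ℝ}
    (hx0 : 8958 / 10000 ≤ u) (hx1 : u < 9052 / 10000) (hy0 : 7225 / 10000 ≤ v) (hy1 : v < 11550 / 10000)
    (hz0 : 2590 / 10000 ≤ d) (hz1 : d < 2838 / 10000) (hS : SixSide d S') (hgap : 0 ≤ sixCP.val u v d S') :
    ∃ i j l : ℕ, 0 < (sixCCond i j l).val u v d S' := by
  rcases lt_or_ge v (9387 / 10000) with g | g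
  · exact six_c_node_271 hx0 hx1 hy0 g hz0 hz1 hS hgap
  · exact six_c_node_272 hx0 hx1 g hy1 hz0 hz1 hS hgap

theorem six_c_node_266 {u v d S' : ℝ}
    (hx0 : 8958 / 10000 ≤ u) (hx1 : u < 9052 / 10000) (hy0 : 7225 / 10000 ≤ v) (hy1 : v < 11550 / 10000)
    (hz0 : 2342 / 10000 ≤ d) (hz1 : d < 2838 / 10000) (hS : SixSide d S') (hgap : 0 ≤ sixCP.val u v d S') :
    ∃ i j l : ℕ, 0 < (sixCCond i j l).val u v d S' := by
  rcases lt_or_ge d (2590 / 10000) with g | g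
  · exact six_c_node_267 hx0 hx1 hy0 hy1 hz0 g hS hgap
  · exact six_c_node_270 hx0 hx1 hy0 hy1 g hz1 hS hgap

theorem six_c_node_275 {u v d S' : ℝ}
    (hx0 : 9052 / 10000 ≤ u) (hx1 : u < 9141 / 10000) (hy0 : 7225 / 10000 ≤ v) (hy1 : v < 9387 / 10000)
    (hz0 : 2342 / 10000 ≤ d) (hz1 : d < 2590 / 10000) (hS : SixSide d S') (_hgap : 0 ≤ sixCP.val u v d S') :
    ∃ i j l : ℕ, 0 < (sixCCond i j l).val u v d S' := by
  exact ⟨0, 0, 0, Ex.pos_of_checkQuick six_c_up_195 (lowMem 10000 hx0 hx1) (lowMem 10000 hy0 hy1)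
    (lowMem 10000 (by push_cast; linarith) hz1) (hS.mem_high (s := 673470) (by norm_num))⟩

theorem six_c_node_276 {u v d S' : ℝ}
    (hx0 : 9052 / 10000 ≤ u) (hx1 : u < 9141 / 10000) (hy0 : 9387 / 10000 ≤ v) (hy1 : v < 11550 / 10000)
    (hz0 : 2342 / 10000 ≤ d) (hz1 : d < 2590 / 10000) (hS : SixSide d S') (_hgap : 0 ≤ sixCP.val u v d S') :
    ∃ i j l : ℕ, 0 < (sixCCond i j l).val u v d S' := by
  exact ⟨0, 0, 0, Ex.pos_of_checkQuick six_c_up_196 (lowMem 10000 hx0 hx1) (lowMem 10000 hy0 hy1)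
    (lowMem 10000 (by push_cast; linarith) hz1) (hS.mem_high (s := 673470) (by norm_num))⟩

theorem six_c_node_274 {u v d S' : ℝ}
    (hx0 : 9052 / 10000 ≤ u) (hx1 : u < 9141 / 10000) (hy0 : 7225 / 10000 ≤ v) (hy1 : v < 11550 / 10000)
    (hz0 : 2342 / 10000 ≤ d) (hz1 : d < 2590 / 10000) (hS : SixSide d S') (hgap : 0 ≤ sixCP.val u v d S') :
    ∃ i j l : ℕ, 0 < (sixCCond i j l).val u v d S' := by
  rcases lt_or_ge v (9387 / 10000) with g | g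
  · exact six_c_node_275 hx0 hx1 hy0 g hz0 hz1 hS hgap
  · exact six_c_node_276 hx0 hx1 g hy1 hz0 hz1 hS hgap

theorem six_c_node_278 {u v d S' : ℝ}
    (hx0 : 9052 / 10000 ≤ u) (hx1 : u < 9141 / 10000) (hy0 : 7225 / 10000 ≤ v) (hy1 : v < 9387 / 10000)
    (hz0 : 2590 / 10000 ≤ d) (hz1 : d < 2838 / 10000) (hS : SixSide d S') (_hgap : 0 ≤ sixCP.val u v d S') :
    ∃ i j l : ℕ, 0 < (sixCCond i j l).val u v d S' := by
  exact ⟨0, 0, 0, Ex.pos_of_checkQuick six_c_up_197 (lowMem 10000 hx0 hx1) (lowMem 10000 hy0 hy1)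
    (lowMem 10000 (by push_cast; linarith) hz1) (hS.mem_high (s := 673470) (by norm_num))⟩

theorem six_c_node_279 {u v d S' : ℝ}
    (hx0 : 9052 / 10000 ≤ u) (hx1 : u < 9141 / 10000) (hy0 : 9387 / 10000 ≤ v) (hy1 : v < 11550 / 10000)
    (hz0 : 2590 / 10000 ≤ d) (hz1 : d < 2838 / 10000) (hS : SixSide d S') (_hgap : 0 ≤ sixCP.val u v d S') :
    ∃ i j l : ℕ, 0 < (sixCCond i j l).val u v d S' := by
  exact ⟨0, 0, 0, Ex.pos_of_checkQuick six_c_up_198 (lowMem 10000 hx0 hx1) (lowMem 10000 hy0 hy1)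
    (lowMem 10000 (by push_cast; linarith) hz1) (hS.mem_high (s := 673470) (by norm_num))⟩

theorem six_c_node_277 {u v d S' : ℝ}
    (hx0 : 9052 / 10000 ≤ u) (hx1 : u < 9141 / 10000) (hy0 : 7225 / 10000 ≤ v) (hy1 : v < 11550 / 10000)
    (hz0 : 2590 / 10000 ≤ d) (hz1 : d < 2838 / 10000) (hS : SixSide d S') (hgap : 0 ≤ sixCP.val u v d S') :
    ∃ i j l : ℕ, 0 < (sixCCond i j l).val u v d S' := by
  rcases lt_or_ge v (9387 / 10000) with g | g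
  · exact six_c_node_278 hx0 hx1 hy0 g hz0 hz1 hS hgap
  · exact six_c_node_279 hx0 hx1 g hy1 hz0 hz1 hS hgap

theorem six_c_node_273 {u v d S' : ℝ}
    (hx0 : 9052 / 10000 ≤ u) (hx1 : u < 9141 / 10000) (hy0 : 7225 / 10000 ≤ v) (hy1 : v < 11550 / 10000)
    (hz0 : 2342 / 10000 ≤ d) (hz1 : d < 2838 / 10000) (hS : SixSide d S') (hgap : 0 ≤ sixCP.val u v d S') :
    ∃ i j l : ℕ, 0 < (sixCCond i j l).val u v d S' := by
  rcases lt_or_ge d (2590 / 10000) with g | g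
  · exact six_c_node_274 hx0 hx1 hy0 hy1 hz0 g hS hgap
  · exact six_c_node_277 hx0 hx1 hy0 hy1 g hz1 hS hgap

theorem six_c_node_265 {u v d S' : ℝ}
    (hx0 : 8958 / 10000 ≤ u) (hx1 : u < 9141 / 10000) (hy0 : 7225 / 10000 ≤ v) (hy1 : v < 11550 / 10000)
    (hz0 : 2342 / 10000 ≤ d) (hz1 : d < 2838 / 10000) (hS : SixSide d S') (hgap : 0 ≤ sixCP.val u v d S') :
    ∃ i j l : ℕ, 0 < (sixCCond i j l).val u v d S' := by
  rcases lt_or_ge u (9052 / 10000) with g | g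
  · exact six_c_node_266 hx0 g hy0 hy1 hz0 hz1 hS hgap
  · exact six_c_node_273 g hx1 hy0 hy1 hz0 hz1 hS hgap

theorem six_c_node_263 {u v d S' : ℝ}
    (hx0 : 8958 / 10000 ≤ u) (hx1 : u < 9141 / 10000) (hy0 : 2900 / 10000 ≤ v) (hy1 : v < 11550 / 10000)
    (hz0 : 2342 / 10000 ≤ d) (hz1 : d < 2838 / 10000) (hS : SixSide d S') (hgap : 0 ≤ sixCP.val u v d S') :
    ∃ i j l : ℕ, 0 < (sixCCond i j l).val u v d S' := by
  rcases lt_or_ge v (7225 / 10000) with g | g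
  · exact six_c_node_264 hx0 hx1 hy0 g hz0 hz1 hS hgap
  · exact six_c_node_265 hx0 hx1 g hy1 hz0 hz1 hS hgap

theorem six_c_node_283 {u v d S' : ℝ}
    (hx0 : 8958 / 10000 ≤ u) (hx1 : u < 9052 / 10000) (hy0 : 2900 / 10000 ≤ v) (hy1 : v < 7225 / 10000)
    (hz0 : 2838 / 10000 ≤ d) (hz1 : d < 3086 / 10000) (hS : SixSide d S') (_hgap : 0 ≤ sixCP.val u v d S') :
    ∃ i j l : ℕ, 0 < (sixCCond i j l).val u v d S' := by
  exact ⟨0, 25, 0, Ex.pos_of_checkQuick six_c_up_199 (lowMem 10000 hx0 hx1) (lowMem 10000 hy0 hy1)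
    (lowMem 10000 (by push_cast; linarith) hz1) (hS.mem_high (s := 673470) (by norm_num))⟩

theorem six_c_node_285 {u v d S' : ℝ}
    (hx0 : 8958 / 10000 ≤ u) (hx1 : u < 9052 / 10000) (hy0 : 2900 / 10000 ≤ v) (hy1 : v < 5062 / 10000)
    (hz0 : 3086 / 10000 ≤ d) (hz1 : d < 3334 / 10000) (hS : SixSide d S') (_hgap : 0 ≤ sixCP.val u v d S') :
    ∃ i j l : ℕ, 0 < (sixCCond i j l).val u v d S' := by
  exact ⟨0, 1110846794, 0, Ex.pos_of_checkQuick six_c_up_200 (lowMem 10000 hx0 hx1) (lowMem 10000 hy0 hy1)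
    (lowMem 10000 (by push_cast; linarith) hz1) (hS.mem_tri (s := 672851) (a := 3086 / 10000) (by linarith) (by norm_num))⟩

theorem six_c_node_286 {u v d S' : ℝ}
    (hx0 : 8958 / 10000 ≤ u) (hx1 : u < 9052 / 10000) (hy0 : 5062 / 10000 ≤ v) (hy1 : v < 7225 / 10000)
    (hz0 : 3086 / 10000 ≤ d) (hz1 : d < 3334 / 10000) (hS : SixSide d S') (_hgap : 0 ≤ sixCP.val u v d S') :
    ∃ i j l : ℕ, 0 < (sixCCond i j l).val u v d S' := by
  exact ⟨0, 62, 0, Ex.pos_of_checkQuick six_c_up_201 (lowMem 10000 hx0 hx1) (lowMem 10000 hy0 hy1)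
    (lowMem 10000 (by push_cast; linarith) hz1) (hS.mem_tri (s := 672851) (a := 3086 / 10000) (by linarith) (by norm_num))⟩

theorem six_c_node_284 {u v d S' : ℝ}
    (hx0 : 8958 / 10000 ≤ u) (hx1 : u < 9052 / 10000) (hy0 : 2900 / 10000 ≤ v) (hy1 : v < 7225 / 10000)
    (hz0 : 3086 / 10000 ≤ d) (hz1 : d < 3334 / 10000) (hS : SixSide d S') (hgap : 0 ≤ sixCP.val u v d S') :
    ∃ i j l : ℕ, 0 < (sixCCond i j l).val u v d S' := by
  rcases lt_or_ge v (5062 / 10000) with g | g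
  · exact six_c_node_285 hx0 hx1 hy0 g hz0 hz1 hS hgap
  · exact six_c_node_286 hx0 hx1 g hy1 hz0 hz1 hS hgap

theorem six_c_node_282 {u v d S' : ℝ}
    (hx0 : 8958 / 10000 ≤ u) (hx1 : u < 9052 / 10000) (hy0 : 2900 / 10000 ≤ v) (hy1 : v < 7225 / 10000)
    (hz0 : 2838 / 10000 ≤ d) (hz1 : d < 3334 / 10000) (hS : SixSide d S') (hgap : 0 ≤ sixCP.val u v d S') :
    ∃ i j l : ℕ, 0 < (sixCCond i j l).val u v d S' := by
  rcases lt_or_ge d (3086 / 10000) with g | g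
  · exact six_c_node_283 hx0 hx1 hy0 hy1 hz0 g hS hgap
  · exact six_c_node_284 hx0 hx1 hy0 hy1 g hz1 hS hgap

theorem six_c_node_288 {u v d S' : ℝ}
    (hx0 : 9052 / 10000 ≤ u) (hx1 : u < 9141 / 10000) (hy0 : 2900 / 10000 ≤ v) (hy1 : v < 7225 / 10000)
    (hz0 : 2838 / 10000 ≤ d) (hz1 : d < 3086 / 10000) (hS : SixSide d S') (_hgap : 0 ≤ sixCP.val u v d S') :
    ∃ i j l : ℕ, 0 < (sixCCond i j l).val u v d S' := by
  exact ⟨0, 1350281369, 0, Ex.pos_of_checkQuick six_c_up_202 (lowMem 10000 hx0 hx1) (lowMem 10000 hy0 hy1)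
    (lowMem 10000 (by push_cast; linarith) hz1) (hS.mem_high (s := 673470) (by norm_num))⟩

theorem six_c_node_289 {u v d S' : ℝ}
    (hx0 : 9052 / 10000 ≤ u) (hx1 : u < 9141 / 10000) (hy0 : 2900 / 10000 ≤ v) (hy1 : v < 7225 / 10000)
    (hz0 : 3086 / 10000 ≤ d) (hz1 : d < 3334 / 10000) (hS : SixSide d S') (_hgap : 0 ≤ sixCP.val u v d S') :
    ∃ i j l : ℕ, 0 < (sixCCond i j l).val u v d S' := by
  exact ⟨0, 79, 0, Ex.pos_of_checkQuick six_c_up_203 (lowMem 10000 hx0 hx1) (lowMem 10000 hy0 hy1)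
    (lowMem 10000 (by push_cast; linarith) hz1) (hS.mem_tri (s := 672851) (a := 3086 / 10000) (by linarith) (by norm_num))⟩

theorem six_c_node_287 {u v d S' : ℝ}
    (hx0 : 9052 / 10000 ≤ u) (hx1 : u < 9141 / 10000) (hy0 : 2900 / 10000 ≤ v) (hy1 : v < 7225 / 10000)
    (hz0 : 2838 / 10000 ≤ d) (hz1 : d < 3334 / 10000) (hS : SixSide d S') (hgap : 0 ≤ sixCP.val u v d S') :
    ∃ i j l : ℕ, 0 < (sixCCond i j l).val u v d S' := by
  rcases lt_or_ge d (3086 / 10000) with g | g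
  · exact six_c_node_288 hx0 hx1 hy0 hy1 hz0 g hS hgap
  · exact six_c_node_289 hx0 hx1 hy0 hy1 g hz1 hS hgap

theorem six_c_node_281 {u v d S' : ℝ}
    (hx0 : 8958 / 10000 ≤ u) (hx1 : u < 9141 / 10000) (hy0 : 2900 / 10000 ≤ v) (hy1 : v < 7225 / 10000)
    (hz0 : 2838 / 10000 ≤ d) (hz1 : d < 3334 / 10000) (hS : SixSide d S') (hgap : 0 ≤ sixCP.val u v d S') :
    ∃ i j l : ℕ, 0 < (sixCCond i j l).val u v d S' := by
  rcases lt_or_ge u (9052 / 10000) with g | g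
  · exact six_c_node_282 hx0 g hy0 hy1 hz0 hz1 hS hgap
  · exact six_c_node_287 g hx1 hy0 hy1 hz0 hz1 hS hgap

theorem six_c_node_291 {u v d S' : ℝ}
    (hx0 : 8958 / 10000 ≤ u) (hx1 : u < 9052 / 10000) (hy0 : 7225 / 10000 ≤ v) (hy1 : v < 11550 / 10000)
    (hz0 : 2838 / 10000 ≤ d) (hz1 : d < 3334 / 10000) (hS : SixSide d S') (_hgap : 0 ≤ sixCP.val u v d S') :
    ∃ i j l : ℕ, 0 < (sixCCond i j l).val u v d S' := by
  exact ⟨0, 0, 0, Ex.pos_of_checkQuick six_c_up_204 (lowMem 10000 hx0 hx1) (lowMem 10000 hy0 hy1)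
    (lowMem 10000 (by push_cast; linarith) hz1) (hS.mem_high (s := 673470) (by norm_num))⟩

theorem six_c_node_294 {u v d S' : ℝ}
    (hx0 : 9052 / 10000 ≤ u) (hx1 : u < 9141 / 10000) (hy0 : 7225 / 10000 ≤ v) (hy1 : v < 9387 / 10000)
    (hz0 : 2838 / 10000 ≤ d) (hz1 : d < 3086 / 10000) (hS : SixSide d S') (_hgap : 0 ≤ sixCP.val u v d S') :
    ∃ i j l : ℕ, 0 < (sixCCond i j l).val u v d S' := by
  exact ⟨0, 27, 0, Ex.pos_of_checkQuick six_c_up_205 (lowMem 10000 hx0 hx1) (lowMem 10000 hy0 hy1)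
    (lowMem 10000 (by push_cast; linarith) hz1) (hS.mem_high (s := 673470) (by norm_num))⟩

theorem six_c_node_295 {u v d S' : ℝ}
    (hx0 : 9052 / 10000 ≤ u) (hx1 : u < 9141 / 10000) (hy0 : 9387 / 10000 ≤ v) (hy1 : v < 11550 / 10000)
    (hz0 : 2838 / 10000 ≤ d) (hz1 : d < 3086 / 10000) (hS : SixSide d S') (_hgap : 0 ≤ sixCP.val u v d S') :
    ∃ i j l : ℕ, 0 < (sixCCond i j l).val u v d S' := by
  exact ⟨0, 0, 0, Ex.pos_of_checkQuick six_c_up_206 (lowMem 10000 hx0 hx1) (lowMem 10000 hy0 hy1)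
    (lowMem 10000 (by push_cast; linarith) hz1) (hS.mem_high (s := 673470) (by norm_num))⟩

theorem six_c_node_293 {u v d S' : ℝ}
    (hx0 : 9052 / 10000 ≤ u) (hx1 : u < 9141 / 10000) (hy0 : 7225 / 10000 ≤ v) (hy1 : v < 11550 / 10000)
    (hz0 : 2838 / 10000 ≤ d) (hz1 : d < 3086 / 10000) (hS : SixSide d S') (hgap : 0 ≤ sixCP.val u v d S') :
    ∃ i j l : ℕ, 0 < (sixCCond i j l).val u v d S' := by
  rcases lt_or_ge v (9387 / 10000) with g | g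
  · exact six_c_node_294 hx0 hx1 hy0 g hz0 hz1 hS hgap
  · exact six_c_node_295 hx0 hx1 g hy1 hz0 hz1 hS hgap

theorem six_c_node_297 {u v d S' : ℝ}
    (hx0 : 9052 / 10000 ≤ u) (hx1 : u < 9141 / 10000) (hy0 : 7225 / 10000 ≤ v) (hy1 : v < 9387 / 10000)
    (hz0 : 3086 / 10000 ≤ d) (hz1 : d < 3334 / 10000) (hS : SixSide d S') (_hgap : 0 ≤ sixCP.val u v d S') :
    ∃ i j l : ℕ, 0 < (sixCCond i j l).val u v d S' := by
  exact ⟨0, 70, 0, Ex.pos_of_checkQuick six_c_up_207 (lowMem 10000 hx0 hx1) (lowMem 10000 hy0 hy1)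
    (lowMem 10000 (by push_cast; linarith) hz1) (hS.mem_tri (s := 672851) (a := 3086 / 10000) (by linarith) (by norm_num))⟩

theorem six_c_node_298 {u v d S' : ℝ}
    (hx0 : 9052 / 10000 ≤ u) (hx1 : u < 9141 / 10000) (hy0 : 9387 / 10000 ≤ v) (hy1 : v < 11550 / 10000)
    (hz0 : 3086 / 10000 ≤ d) (hz1 : d < 3334 / 10000) (hS : SixSide d S') (_hgap : 0 ≤ sixCP.val u v d S') :
    ∃ i j l : ℕ, 0 < (sixCCond i j l).val u v d S' := by
  exact ⟨0, 0, 0, Ex.pos_of_checkQuick six_c_up_208 (lowMem 10000 hx0 hx1) (lowMem 10000 hy0 hy1)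
    (lowMem 10000 (by push_cast; linarith) hz1) (hS.mem_tri (s := 672851) (a := 3086 / 10000) (by linarith) (by norm_num))⟩

theorem six_c_node_296 {u v d S' : ℝ}
    (hx0 : 9052 / 10000 ≤ u) (hx1 : u < 9141 / 10000) (hy0 : 7225 / 10000 ≤ v) (hy1 : v < 11550 / 10000)
    (hz0 : 3086 / 10000 ≤ d) (hz1 : d < 3334 / 10000) (hS : SixSide d S') (hgap : 0 ≤ sixCP.val u v d S') :
    ∃ i j l : ℕ, 0 < (sixCCond i j l).val u v d S' := by
  rcases lt_or_ge v (9387 / 10000) with g | g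
  · exact six_c_node_297 hx0 hx1 hy0 g hz0 hz1 hS hgap
  · exact six_c_node_298 hx0 hx1 g hy1 hz0 hz1 hS hgap

theorem six_c_node_292 {u v d S' : ℝ}
    (hx0 : 9052 / 10000 ≤ u) (hx1 : u < 9141 / 10000) (hy0 : 7225 / 10000 ≤ v) (hy1 : v < 11550 / 10000)
    (hz0 : 2838 / 10000 ≤ d) (hz1 : d < 3334 / 10000) (hS : SixSide d S') (hgap : 0 ≤ sixCP.val u v d S') :
    ∃ i j l : ℕ, 0 < (sixCCond i j l).val u v d S' := by
  rcases lt_or_ge d (3086 / 10000) with g | g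
  · exact six_c_node_293 hx0 hx1 hy0 hy1 hz0 g hS hgap
  · exact six_c_node_296 hx0 hx1 hy0 hy1 g hz1 hS hgap

theorem six_c_node_290 {u v d S' : ℝ}
    (hx0 : 8958 / 10000 ≤ u) (hx1 : u < 9141 / 10000) (hy0 : 7225 / 10000 ≤ v) (hy1 : v < 11550 / 10000)
    (hz0 : 2838 / 10000 ≤ d) (hz1 : d < 3334 / 10000) (hS : SixSide d S') (hgap : 0 ≤ sixCP.val u v d S') :
    ∃ i j l : ℕ, 0 < (sixCCond i j l).val u v d S' := by
  rcases lt_or_ge u (9052 / 10000) with g | g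
  · exact six_c_node_291 hx0 g hy0 hy1 hz0 hz1 hS hgap
  · exact six_c_node_292 g hx1 hy0 hy1 hz0 hz1 hS hgap

theorem six_c_node_280 {u v d S' : ℝ}
    (hx0 : 8958 / 10000 ≤ u) (hx1 : u < 9141 / 10000) (hy0 : 2900 / 10000 ≤ v) (hy1 : v < 11550 / 10000)
    (hz0 : 2838 / 10000 ≤ d) (hz1 : d < 3334 / 10000) (hS : SixSide d S') (hgap : 0 ≤ sixCP.val u v d S') :
    ∃ i j l : ℕ, 0 < (sixCCond i j l).val u v d S' := by
  rcases lt_or_ge v (7225 / 10000) with g | g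
  · exact six_c_node_281 hx0 hx1 hy0 g hz0 hz1 hS hgap
  · exact six_c_node_290 hx0 hx1 g hy1 hz0 hz1 hS hgap

theorem six_c_node_262 {u v d S' : ℝ}
    (hx0 : 8958 / 10000 ≤ u) (hx1 : u < 9141 / 10000) (hy0 : 2900 / 10000 ≤ v) (hy1 : v < 11550 / 10000)
    (hz0 : 2342 / 10000 ≤ d) (hz1 : d < 3334 / 10000) (hS : SixSide d S') (hgap : 0 ≤ sixCP.val u v d S') :
    ∃ i j l : ℕ, 0 < (sixCCond i j l).val u v d S' := by
  rcases lt_or_ge d (2838 / 10000) with g | g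
  · exact six_c_node_263 hx0 hx1 hy0 hy1 hz0 g hS hgap
  · exact six_c_node_280 hx0 hx1 hy0 hy1 g hz1 hS hgap

theorem six_c_node_301 {u v d S' : ℝ}
    (hx0 : 9141 / 10000 ≤ u) (hx1 : u < 9300 / 10000) (hy0 : 2900 / 10000 ≤ v) (hy1 : v < 7225 / 10000)
    (hz0 : 2342 / 10000 ≤ d) (hz1 : d < 2838 / 10000) (hS : SixSide d S') (_hgap : 0 ≤ sixCP.val u v d S') :
    ∃ i j l : ℕ, 0 < (sixCCond i j l).val u v d S' := by
  exact ⟨0, 1803921995, 0, Ex.pos_of_checkQuick six_c_up_209 (lowMem 10000 hx0 hx1) (lowMem 10000 hy0 hy1)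
    (lowMem 10000 (by push_cast; linarith) hz1) (hS.mem_high (s := 673470) (by norm_num))⟩

theorem six_c_node_302 {u v d S' : ℝ}
    (hx0 : 9141 / 10000 ≤ u) (hx1 : u < 9300 / 10000) (hy0 : 7225 / 10000 ≤ v) (hy1 : v < 11550 / 10000)
    (hz0 : 2342 / 10000 ≤ d) (hz1 : d < 2838 / 10000) (hS : SixSide d S') (_hgap : 0 ≤ sixCP.val u v d S') :
    ∃ i j l : ℕ, 0 < (sixCCond i j l).val u v d S' := by
  exact ⟨0, 0, 0, Ex.pos_of_checkQuick six_c_up_210 (lowMem 10000 hx0 hx1) (lowMem 10000 hy0 hy1)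
    (lowMem 10000 (by push_cast; linarith) hz1) (hS.mem_high (s := 673470) (by norm_num))⟩

theorem six_c_node_300 {u v d S' : ℝ}
    (hx0 : 9141 / 10000 ≤ u) (hx1 : u < 9300 / 10000) (hy0 : 2900 / 10000 ≤ v) (hy1 : v < 11550 / 10000)
    (hz0 : 2342 / 10000 ≤ d) (hz1 : d < 2838 / 10000) (hS : SixSide d S') (hgap : 0 ≤ sixCP.val u v d S') :
    ∃ i j l : ℕ, 0 < (sixCCond i j l).val u v d S' := by
  rcases lt_or_ge v (7225 / 10000) with g | g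
  · exact six_c_node_301 hx0 hx1 hy0 g hz0 hz1 hS hgap
  · exact six_c_node_302 hx0 hx1 g hy1 hz0 hz1 hS hgap

theorem six_c_node_304 {u v d S' : ℝ}
    (hx0 : 9141 / 10000 ≤ u) (hx1 : u < 9300 / 10000) (hy0 : 2900 / 10000 ≤ v) (hy1 : v < 7225 / 10000)
    (hz0 : 2838 / 10000 ≤ d) (hz1 : d < 3334 / 10000) (hS : SixSide d S') (_hgap : 0 ≤ sixCP.val u v d S') :
    ∃ i j l : ℕ, 0 < (sixCCond i j l).val u v d S' := by
  exact ⟨0, 5689, 0, Ex.pos_of_checkQuick six_c_up_211 (lowMem 10000 hx0 hx1) (lowMem 10000 hy0 hy1)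
    (lowMem 10000 (by push_cast; linarith) hz1) (hS.mem_high (s := 673470) (by norm_num))⟩

theorem six_c_node_308 {u v d S' : ℝ}
    (hx0 : 9141 / 10000 ≤ u) (hx1 : u < 9223 / 10000) (hy0 : 7225 / 10000 ≤ v) (hy1 : v < 9387 / 10000)
    (hz0 : 2838 / 10000 ≤ d) (hz1 : d < 3086 / 10000) (hS : SixSide d S') (_hgap : 0 ≤ sixCP.val u v d S') :
    ∃ i j l : ℕ, 0 < (sixCCond i j l).val u v d S' := by
  exact ⟨0, 36, 0, Ex.pos_of_checkQuick six_c_up_212 (lowMem 10000 hx0 hx1) (lowMem 10000 hy0 hy1)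
    (lowMem 10000 (by push_cast; linarith) hz1) (hS.mem_high (s := 673470) (by norm_num))⟩

theorem six_c_node_309 {u v d S' : ℝ}
    (hx0 : 9141 / 10000 ≤ u) (hx1 : u < 9223 / 10000) (hy0 : 9387 / 10000 ≤ v) (hy1 : v < 11550 / 10000)
    (hz0 : 2838 / 10000 ≤ d) (hz1 : d < 3086 / 10000) (hS : SixSide d S') (_hgap : 0 ≤ sixCP.val u v d S') :
    ∃ i j l : ℕ, 0 < (sixCCond i j l).val u v d S' := by
  exact ⟨0, 0, 0, Ex.pos_of_checkQuick six_c_up_213 (lowMem 10000 hx0 hx1) (lowMem 10000 hy0 hy1)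
    (lowMem 10000 (by push_cast; linarith) hz1) (hS.mem_high (s := 673470) (by norm_num))⟩

theorem six_c_node_307 {u v d S' : ℝ}
    (hx0 : 9141 / 10000 ≤ u) (hx1 : u < 9223 / 10000) (hy0 : 7225 / 10000 ≤ v) (hy1 : v < 11550 / 10000)
    (hz0 : 2838 / 10000 ≤ d) (hz1 : d < 3086 / 10000) (hS : SixSide d S') (hgap : 0 ≤ sixCP.val u v d S') :
    ∃ i j l : ℕ, 0 < (sixCCond i j l).val u v d S' := by
  rcases lt_or_ge v (9387 / 10000) with g | g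
  · exact six_c_node_308 hx0 hx1 hy0 g hz0 hz1 hS hgap
  · exact six_c_node_309 hx0 hx1 g hy1 hz0 hz1 hS hgap

theorem six_c_node_311 {u v d S' : ℝ}
    (hx0 : 9141 / 10000 ≤ u) (hx1 : u < 9223 / 10000) (hy0 : 7225 / 10000 ≤ v) (hy1 : v < 9387 / 10000)
    (hz0 : 3086 / 10000 ≤ d) (hz1 : d < 3334 / 10000) (hS : SixSide d S') (_hgap : 0 ≤ sixCP.val u v d S') :
    ∃ i j l : ℕ, 0 < (sixCCond i j l).val u v d S' := by
  exact ⟨0, 79, 0, Ex.pos_of_checkQuick six_c_up_214 (lowMem 10000 hx0 hx1) (lowMem 10000 hy0 hy1)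
    (lowMem 10000 (by push_cast; linarith) hz1) (hS.mem_tri (s := 672851) (a := 3086 / 10000) (by linarith) (by norm_num))⟩

theorem six_c_node_312 {u v d S' : ℝ}
    (hx0 : 9141 / 10000 ≤ u) (hx1 : u < 9223 / 10000) (hy0 : 9387 / 10000 ≤ v) (hy1 : v < 11550 / 10000)
    (hz0 : 3086 / 10000 ≤ d) (hz1 : d < 3334 / 10000) (hS : SixSide d S') (_hgap : 0 ≤ sixCP.val u v d S') :
    ∃ i j l : ℕ, 0 < (sixCCond i j l).val u v d S' := by
  exact ⟨0, 0, 0, Ex.pos_of_checkQuick six_c_up_215 (lowMem 10000 hx0 hx1) (lowMem 10000 hy0 hy1)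
    (lowMem 10000 (by push_cast; linarith) hz1) (hS.mem_tri (s := 672851) (a := 3086 / 10000) (by linarith) (by norm_num))⟩

theorem six_c_node_310 {u v d S' : ℝ}
    (hx0 : 9141 / 10000 ≤ u) (hx1 : u < 9223 / 10000) (hy0 : 7225 / 10000 ≤ v) (hy1 : v < 11550 / 10000)
    (hz0 : 3086 / 10000 ≤ d) (hz1 : d < 3334 / 10000) (hS : SixSide d S') (hgap : 0 ≤ sixCP.val u v d S') :
    ∃ i j l : ℕ, 0 < (sixCCond i j l).val u v d S' := by
  rcases lt_or_ge v (9387 / 10000) with g | g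
  · exact six_c_node_311 hx0 hx1 hy0 g hz0 hz1 hS hgap
  · exact six_c_node_312 hx0 hx1 g hy1 hz0 hz1 hS hgap

theorem six_c_node_306 {u v d S' : ℝ}
    (hx0 : 9141 / 10000 ≤ u) (hx1 : u < 9223 / 10000) (hy0 : 7225 / 10000 ≤ v) (hy1 : v < 11550 / 10000)
    (hz0 : 2838 / 10000 ≤ d) (hz1 : d < 3334 / 10000) (hS : SixSide d S') (hgap : 0 ≤ sixCP.val u v d S') :
    ∃ i j l : ℕ, 0 < (sixCCond i j l).val u v d S' := by
  rcases lt_or_ge d (3086 / 10000) with g | g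
  · exact six_c_node_307 hx0 hx1 hy0 hy1 hz0 g hS hgap
  · exact six_c_node_310 hx0 hx1 hy0 hy1 g hz1 hS hgap

theorem six_c_node_315 {u v d S' : ℝ}
    (hx0 : 9223 / 10000 ≤ u) (hx1 : u < 9300 / 10000) (hy0 : 7225 / 10000 ≤ v) (hy1 : v < 9387 / 10000)
    (hz0 : 2838 / 10000 ≤ d) (hz1 : d < 3086 / 10000) (hS : SixSide d S') (_hgap : 0 ≤ sixCP.val u v d S') :
    ∃ i j l : ℕ, 0 < (sixCCond i j l).val u v d S' := by
  exact ⟨0, 38, 0, Ex.pos_of_checkQuick six_c_up_216 (lowMem 10000 hx0 hx1) (lowMem 10000 hy0 hy1)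
    (lowMem 10000 (by push_cast; linarith) hz1) (hS.mem_high (s := 673470) (by norm_num))⟩

theorem six_c_node_316 {u v d S' : ℝ}
    (hx0 : 9223 / 10000 ≤ u) (hx1 : u < 9300 / 10000) (hy0 : 9387 / 10000 ≤ v) (hy1 : v < 11550 / 10000)
    (hz0 : 2838 / 10000 ≤ d) (hz1 : d < 3086 / 10000) (hS : SixSide d S') (_hgap : 0 ≤ sixCP.val u v d S') :
    ∃ i j l : ℕ, 0 < (sixCCond i j l).val u v d S' := by
  exact ⟨0, 0, 0, Ex.pos_of_checkQuick six_c_up_217 (lowMem 10000 hx0 hx1) (lowMem 10000 hy0 hy1)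
    (lowMem 10000 (by push_cast; linarith) hz1) (hS.mem_high (s := 673470) (by norm_num))⟩

theorem six_c_node_314 {u v d S' : ℝ}
    (hx0 : 9223 / 10000 ≤ u) (hx1 : u < 9300 / 10000) (hy0 : 7225 / 10000 ≤ v) (hy1 : v < 11550 / 10000)
    (hz0 : 2838 / 10000 ≤ d) (hz1 : d < 3086 / 10000) (hS : SixSide d S') (hgap : 0 ≤ sixCP.val u v d S') :
    ∃ i j l : ℕ, 0 < (sixCCond i j l).val u v d S' := by
  rcases lt_or_ge v (9387 / 10000) with g | g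
  · exact six_c_node_315 hx0 hx1 hy0 g hz0 hz1 hS hgap
  · exact six_c_node_316 hx0 hx1 g hy1 hz0 hz1 hS hgap

theorem six_c_node_320 {u v d S' : ℝ}
    (hx0 : 9223 / 10000 ≤ u) (hx1 : u < 9262 / 10000) (hy0 : 7225 / 10000 ≤ v) (hy1 : v < 9387 / 10000)
    (hz0 : 3086 / 10000 ≤ d) (hz1 : d < 3210 / 10000) (hS : SixSide d S') (_hgap : 0 ≤ sixCP.val u v d S') :
    ∃ i j l : ℕ, 0 < (sixCCond i j l).val u v d S' := by
  exact ⟨0, 61, 0, Ex.pos_of_checkQuick six_c_up_218 (lowMem 10000 hx0 hx1) (lowMem 10000 hy0 hy1)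
    (lowMem 10000 (by push_cast; linarith) hz1) (hS.mem_tri (s := 672851) (a := 3086 / 10000) (by linarith) (by norm_num))⟩

theorem six_c_node_321 {u v d S' : ℝ}
    (hx0 : 9223 / 10000 ≤ u) (hx1 : u < 9262 / 10000) (hy0 : 7225 / 10000 ≤ v) (hy1 : v < 9387 / 10000)
    (hz0 : 3210 / 10000 ≤ d) (hz1 : d < 3334 / 10000) (hS : SixSide d S') (_hgap : 0 ≤ sixCP.val u v d S') :
    ∃ i j l : ℕ, 0 < (sixCCond i j l).val u v d S' := by
  exact ⟨0, 88, 0, Ex.pos_of_checkQuick six_c_up_219 (lowMem 10000 hx0 hx1) (lowMem 10000 hy0 hy1)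
    (lowMem 10000 (by push_cast; linarith) hz1) (hS.mem_tri (s := 669751) (a := 3210 / 10000) (by linarith) (by norm_num))⟩

theorem six_c_node_319 {u v d S' : ℝ}
    (hx0 : 9223 / 10000 ≤ u) (hx1 : u < 9262 / 10000) (hy0 : 7225 / 10000 ≤ v) (hy1 : v < 9387 / 10000)
    (hz0 : 3086 / 10000 ≤ d) (hz1 : d < 3334 / 10000) (hS : SixSide d S') (hgap : 0 ≤ sixCP.val u v d S') :
    ∃ i j l : ℕ, 0 < (sixCCond i j l).val u v d S' := by
  rcases lt_or_ge d (3210 / 10000) with g | g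
  · exact six_c_node_320 hx0 hx1 hy0 hy1 hz0 g hS hgap
  · exact six_c_node_321 hx0 hx1 hy0 hy1 g hz1 hS hgap

theorem six_c_node_322 {u v d S' : ℝ}
    (hx0 : 9262 / 10000 ≤ u) (hx1 : u < 9300 / 10000) (hy0 : 7225 / 10000 ≤ v) (hy1 : v < 9387 / 10000)
    (hz0 : 3086 / 10000 ≤ d) (hz1 : d < 3334 / 10000) (hS : SixSide d S') (_hgap : 0 ≤ sixCP.val u v d S') :
    ∃ i j l : ℕ, 0 < (sixCCond i j l).val u v d S' := by
  exact ⟨0, 82, 0, Ex.pos_of_checkQuick six_c_up_220 (lowMem 10000 hx0 hx1) (lowMem 10000 hy0 hy1)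
    (lowMem 10000 (by push_cast; linarith) hz1) (hS.mem_tri (s := 672851) (a := 3086 / 10000) (by linarith) (by norm_num))⟩

theorem six_c_node_318 {u v d S' : ℝ}
    (hx0 : 9223 / 10000 ≤ u) (hx1 : u < 9300 / 10000) (hy0 : 7225 / 10000 ≤ v) (hy1 : v < 9387 / 10000)
    (hz0 : 3086 / 10000 ≤ d) (hz1 : d < 3334 / 10000) (hS : SixSide d S') (hgap : 0 ≤ sixCP.val u v d S') :
    ∃ i j l : ℕ, 0 < (sixCCond i j l).val u v d S' := by
  rcases lt_or_ge u (9262 / 10000) with g | g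
  · exact six_c_node_319 hx0 g hy0 hy1 hz0 hz1 hS hgap
  · exact six_c_node_322 g hx1 hy0 hy1 hz0 hz1 hS hgap

theorem six_c_node_323 {u v d S' : ℝ}
    (hx0 : 9223 / 10000 ≤ u) (hx1 : u < 9300 / 10000) (hy0 : 9387 / 10000 ≤ v) (hy1 : v < 11550 / 10000)
    (hz0 : 3086 / 10000 ≤ d) (hz1 : d < 3334 / 10000) (hS : SixSide d S') (_hgap : 0 ≤ sixCP.val u v d S') :
    ∃ i j l : ℕ, 0 < (sixCCond i j l).val u v d S' := by
  exact ⟨0, 0, 0, Ex.pos_of_checkQuick six_c_up_221 (lowMem 10000 hx0 hx1) (lowMem 10000 hy0 hy1)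
    (lowMem 10000 (by push_cast; linarith) hz1) (hS.mem_tri (s := 672851) (a := 3086 / 10000) (by linarith) (by norm_num))⟩

theorem six_c_node_317 {u v d S' : ℝ}
    (hx0 : 9223 / 10000 ≤ u) (hx1 : u < 9300 / 10000) (hy0 : 7225 / 10000 ≤ v) (hy1 : v < 11550 / 10000)
    (hz0 : 3086 / 10000 ≤ d) (hz1 : d < 3334 / 10000) (hS : SixSide d S') (hgap : 0 ≤ sixCP.val u v d S') :
    ∃ i j l : ℕ, 0 < (sixCCond i j l).val u v d S' := by
  rcases lt_or_ge v (9387 / 10000) with g | g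
  · exact six_c_node_318 hx0 hx1 hy0 g hz0 hz1 hS hgap
  · exact six_c_node_323 hx0 hx1 g hy1 hz0 hz1 hS hgap

theorem six_c_node_313 {u v d S' : ℝ}
    (hx0 : 9223 / 10000 ≤ u) (hx1 : u < 9300 / 10000) (hy0 : 7225 / 10000 ≤ v) (hy1 : v < 11550 / 10000)
    (hz0 : 2838 / 10000 ≤ d) (hz1 : d < 3334 / 10000) (hS : SixSide d S') (hgap : 0 ≤ sixCP.val u v d S') :
    ∃ i j l : ℕ, 0 < (sixCCond i j l).val u v d S' := by
  rcases lt_or_ge d (3086 / 10000) with g | g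
  · exact six_c_node_314 hx0 hx1 hy0 hy1 hz0 g hS hgap
  · exact six_c_node_317 hx0 hx1 hy0 hy1 g hz1 hS hgap

theorem six_c_node_305 {u v d S' : ℝ}
    (hx0 : 9141 / 10000 ≤ u) (hx1 : u < 9300 / 10000) (hy0 : 7225 / 10000 ≤ v) (hy1 : v < 11550 / 10000)
    (hz0 : 2838 / 10000 ≤ d) (hz1 : d < 3334 / 10000) (hS : SixSide d S') (hgap : 0 ≤ sixCP.val u v d S') :
    ∃ i j l : ℕ, 0 < (sixCCond i j l).val u v d S' := by
  rcases lt_or_ge u (9223 / 10000) with g | g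
  · exact six_c_node_306 hx0 g hy0 hy1 hz0 hz1 hS hgap
  · exact six_c_node_313 g hx1 hy0 hy1 hz0 hz1 hS hgap

theorem six_c_node_303 {u v d S' : ℝ}
    (hx0 : 9141 / 10000 ≤ u) (hx1 : u < 9300 / 10000) (hy0 : 2900 / 10000 ≤ v) (hy1 : v < 11550 / 10000)
    (hz0 : 2838 / 10000 ≤ d) (hz1 : d < 3334 / 10000) (hS : SixSide d S') (hgap : 0 ≤ sixCP.val u v d S') :
    ∃ i j l : ℕ, 0 < (sixCCond i j l).val u v d S' := by
  rcases lt_or_ge v (7225 / 10000) with g | g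
  · exact six_c_node_304 hx0 hx1 hy0 g hz0 hz1 hS hgap
  · exact six_c_node_305 hx0 hx1 g hy1 hz0 hz1 hS hgap

theorem six_c_node_299 {u v d S' : ℝ}
    (hx0 : 9141 / 10000 ≤ u) (hx1 : u < 9300 / 10000) (hy0 : 2900 / 10000 ≤ v) (hy1 : v < 11550 / 10000)
    (hz0 : 2342 / 10000 ≤ d) (hz1 : d < 3334 / 10000) (hS : SixSide d S') (hgap : 0 ≤ sixCP.val u v d S') :
    ∃ i j l : ℕ, 0 < (sixCCond i j l).val u v d S' := by
  rcases lt_or_ge d (2838 / 10000) with g | g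
  · exact six_c_node_300 hx0 hx1 hy0 hy1 hz0 g hS hgap
  · exact six_c_node_303 hx0 hx1 hy0 hy1 g hz1 hS hgap

theorem six_c_node_261 {u v d S' : ℝ}
    (hx0 : 8958 / 10000 ≤ u) (hx1 : u < 9300 / 10000) (hy0 : 2900 / 10000 ≤ v) (hy1 : v < 11550 / 10000)
    (hz0 : 2342 / 10000 ≤ d) (hz1 : d < 3334 / 10000) (hS : SixSide d S') (hgap : 0 ≤ sixCP.val u v d S') :
    ∃ i j l : ℕ, 0 < (sixCCond i j l).val u v d S' := by
  rcases lt_or_ge u (9141 / 10000) with g | g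
  · exact six_c_node_262 hx0 g hy0 hy1 hz0 hz1 hS hgap
  · exact six_c_node_299 g hx1 hy0 hy1 hz0 hz1 hS hgap

theorem six_c_node_324 {u v d S' : ℝ}
    (hx0 : 8958 / 10000 ≤ u) (hx1 : u < 9300 / 10000) (hy0 : 11550 / 10000 ≤ v) (hy1 : v < 20200 / 10000)
    (hz0 : 2342 / 10000 ≤ d) (hz1 : d < 3334 / 10000) (hS : SixSide d S') (_hgap : 0 ≤ sixCP.val u v d S') :
    ∃ i j l : ℕ, 0 < (sixCCond i j l).val u v d S' := by
  exact ⟨0, 0, 0, Ex.pos_of_checkQuick six_c_up_222 (lowMem 10000 hx0 hx1) (lowMem 10000 hy0 hy1)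
    (lowMem 10000 (by push_cast; linarith) hz1) (hS.mem_high (s := 673470) (by norm_num))⟩

theorem six_c_node_260 {u v d S' : ℝ}
    (hx0 : 8958 / 10000 ≤ u) (hx1 : u < 9300 / 10000) (hy0 : 2900 / 10000 ≤ v) (hy1 : v < 20200 / 10000)
    (hz0 : 2342 / 10000 ≤ d) (hz1 : d < 3334 / 10000) (hS : SixSide d S') (hgap : 0 ≤ sixCP.val u v d S') :
    ∃ i j l : ℕ, 0 < (sixCCond i j l).val u v d S' := by
  rcases lt_or_ge v (11550 / 10000) with g | g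
  · exact six_c_node_261 hx0 hx1 hy0 g hz0 hz1 hS hgap
  · exact six_c_node_324 hx0 hx1 g hy1 hz0 hz1 hS hgap

theorem six_c_node_218 {u v d S' : ℝ}
    (hx0 : 8958 / 10000 ≤ u) (hx1 : u < 9300 / 10000) (hy0 : 2900 / 10000 ≤ v) (hy1 : v < 20200 / 10000)
    (hz0 : 1350 / 10000 ≤ d) (hz1 : d < 3334 / 10000) (hS : SixSide d S') (hgap : 0 ≤ sixCP.val u v d S') :
    ∃ i j l : ℕ, 0 < (sixCCond i j l).val u v d S' := by
  rcases lt_or_ge d (2342 / 10000) with g | g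
  · exact six_c_node_219 hx0 hx1 hy0 hy1 hz0 g hS hgap
  · exact six_c_node_260 hx0 hx1 hy0 hy1 g hz1 hS hgap

theorem six_c_node_98 {u v d S' : ℝ}
    (hx0 : 8500 / 10000 ≤ u) (hx1 : u < 9300 / 10000) (hy0 : 2900 / 10000 ≤ v) (hy1 : v < 20200 / 10000)
    (hz0 : 1350 / 10000 ≤ d) (hz1 : d < 3334 / 10000) (hS : SixSide d S') (hgap : 0 ≤ sixCP.val u v d S') :
    ∃ i j l : ℕ, 0 < (sixCCond i j l).val u v d S' := by
  rcases lt_or_ge u (8958 / 10000) with g | g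
  · exact six_c_node_99 hx0 g hy0 hy1 hz0 hz1 hS hgap
  · exact six_c_node_218 g hx1 hy0 hy1 hz0 hz1 hS hgap

theorem six_c_node_325 {u v d S' : ℝ}
    (hx0 : 8500 / 10000 ≤ u) (hx1 : u < 9300 / 10000) (hy0 : 20200 / 10000 ≤ v) (hy1 : v < 37501 / 10000)
    (hz0 : 1350 / 10000 ≤ d) (hz1 : d < 3334 / 10000) (hS : SixSide d S') (hgap : 0 ≤ sixCP.val u v d S') :
    ∃ i j l : ℕ, 0 < (sixCCond i j l).val u v d S' := by
  have k : 0 < (Ex.sub (eC 0) sixCP).val u v d S' := Ex.pos_of_checkQuick six_c_out_6 (lowMem 10000 hx0 hx1) (lowMem 10000 hy0 hy1)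
    (lowMem 10000 (by push_cast; linarith) hz1) (hS.mem_high (s := 673470) (by norm_num))
  simp only [Ex.val] at k
  push_cast at k
  exact absurd hgap (not_le.2 (by linarith))

theorem six_c_node_97 {u v d S' : ℝ}
    (hx0 : 8500 / 10000 ≤ u) (hx1 : u < 9300 / 10000) (hy0 : 2900 / 10000 ≤ v) (hy1 : v < 37501 / 10000)
    (hz0 : 1350 / 10000 ≤ d) (hz1 : d < 3334 / 10000) (hS : SixSide d S') (hgap : 0 ≤ sixCP.val u v d S') :
    ∃ i j l : ℕ, 0 < (sixCCond i j l).val u v d S' := by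
  rcases lt_or_ge v (20200 / 10000) with g | g
  · exact six_c_node_98 hx0 hx1 hy0 g hz0 hz1 hS hgap
  · exact six_c_node_325 hx0 hx1 g hy1 hz0 hz1 hS hgap

theorem six_c_node_332 {u v d S' : ℝ}
    (hx0 : 9300 / 10000 ≤ u) (hx1 : u < 9439 / 10000) (hy0 : 2900 / 10000 ≤ v) (hy1 : v < 11550 / 10000)
    (hz0 : 1350 / 10000 ≤ d) (hz1 : d < 1846 / 10000) (hS : SixSide d S') (_hgap : 0 ≤ sixCP.val u v d S') :
    ∃ i j l : ℕ, 0 < (sixCCond i j l).val u v d S' := by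
  exact ⟨0, 0, 0, Ex.pos_of_checkQuick six_c_up_223 (lowMem 10000 hx0 hx1) (lowMem 10000 hy0 hy1)
    (lowMem 10000 (by push_cast; linarith) hz1) (hS.mem_high (s := 673470) (by norm_num))⟩

theorem six_c_node_334 {u v d S' : ℝ}
    (hx0 : 9300 / 10000 ≤ u) (hx1 : u < 9439 / 10000) (hy0 : 2900 / 10000 ≤ v) (hy1 : v < 7225 / 10000)
    (hz0 : 1846 / 10000 ≤ d) (hz1 : d < 2342 / 10000) (hS : SixSide d S') (_hgap : 0 ≤ sixCP.val u v d S') :
    ∃ i j l : ℕ, 0 < (sixCCond i j l).val u v d S' := by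
  exact ⟨0, 2341526812, 0, Ex.pos_of_checkQuick six_c_up_224 (lowMem 10000 hx0 hx1) (lowMem 10000 hy0 hy1)
    (lowMem 10000 (by push_cast; linarith) hz1) (hS.mem_high (s := 673470) (by norm_num))⟩

theorem six_c_node_335 {u v d S' : ℝ}
    (hx0 : 9300 / 10000 ≤ u) (hx1 : u < 9439 / 10000) (hy0 : 7225 / 10000 ≤ v) (hy1 : v < 11550 / 10000)
    (hz0 : 1846 / 10000 ≤ d) (hz1 : d < 2342 / 10000) (hS : SixSide d S') (_hgap : 0 ≤ sixCP.val u v d S') :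
    ∃ i j l : ℕ, 0 < (sixCCond i j l).val u v d S' := by
  exact ⟨0, 0, 0, Ex.pos_of_checkQuick six_c_up_225 (lowMem 10000 hx0 hx1) (lowMem 10000 hy0 hy1)
    (lowMem 10000 (by push_cast; linarith) hz1) (hS.mem_high (s := 673470) (by norm_num))⟩

theorem six_c_node_333 {u v d S' : ℝ}
    (hx0 : 9300 / 10000 ≤ u) (hx1 : u < 9439 / 10000) (hy0 : 2900 / 10000 ≤ v) (hy1 : v < 11550 / 10000)
    (hz0 : 1846 / 10000 ≤ d) (hz1 : d < 2342 / 10000) (hS : SixSide d S') (hgap : 0 ≤ sixCP.val u v d S') :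
    ∃ i j l : ℕ, 0 < (sixCCond i j l).val u v d S' := by
  rcases lt_or_ge v (7225 / 10000) with g | g
  · exact six_c_node_334 hx0 hx1 hy0 g hz0 hz1 hS hgap
  · exact six_c_node_335 hx0 hx1 g hy1 hz0 hz1 hS hgap

theorem six_c_node_331 {u v d S' : ℝ}
    (hx0 : 9300 / 10000 ≤ u) (hx1 : u < 9439 / 10000) (hy0 : 2900 / 10000 ≤ v) (hy1 : v < 11550 / 10000)
    (hz0 : 1350 / 10000 ≤ d) (hz1 : d < 2342 / 10000) (hS : SixSide d S') (hgap : 0 ≤ sixCP.val u v d S') :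
    ∃ i j l : ℕ, 0 < (sixCCond i j l).val u v d S' := by
  rcases lt_or_ge d (1846 / 10000) with g | g
  · exact six_c_node_332 hx0 hx1 hy0 hy1 hz0 g hS hgap
  · exact six_c_node_333 hx0 hx1 hy0 hy1 g hz1 hS hgap

theorem six_c_node_337 {u v d S' : ℝ}
    (hx0 : 9439 / 10000 ≤ u) (hx1 : u < 9559 / 10000) (hy0 : 2900 / 10000 ≤ v) (hy1 : v < 11550 / 10000)
    (hz0 : 1350 / 10000 ≤ d) (hz1 : d < 1846 / 10000) (hS : SixSide d S') (_hgap : 0 ≤ sixCP.val u v d S') :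
    ∃ i j l : ℕ, 0 < (sixCCond i j l).val u v d S' := by
  exact ⟨0, 0, 0, Ex.pos_of_checkQuick six_c_up_226 (lowMem 10000 hx0 hx1) (lowMem 10000 hy0 hy1)
    (lowMem 10000 (by push_cast; linarith) hz1) (hS.mem_high (s := 673470) (by norm_num))⟩

theorem six_c_node_339 {u v d S' : ℝ}
    (hx0 : 9439 / 10000 ≤ u) (hx1 : u < 9559 / 10000) (hy0 : 2900 / 10000 ≤ v) (hy1 : v < 7225 / 10000)
    (hz0 : 1846 / 10000 ≤ d) (hz1 : d < 2342 / 10000) (hS : SixSide d S') (_hgap : 0 ≤ sixCP.val u v d S') :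
    ∃ i j l : ℕ, 0 < (sixCCond i j l).val u v d S' := by
  exact ⟨0, 0, 0, Ex.pos_of_checkQuick six_c_up_227 (lowMem 10000 hx0 hx1) (lowMem 10000 hy0 hy1)
    (lowMem 10000 (by push_cast; linarith) hz1) (hS.mem_high (s := 673470) (by norm_num))⟩

theorem six_c_node_340 {u v d S' : ℝ}
    (hx0 : 9439 / 10000 ≤ u) (hx1 : u < 9559 / 10000) (hy0 : 7225 / 10000 ≤ v) (hy1 : v < 11550 / 10000)
    (hz0 : 1846 / 10000 ≤ d) (hz1 : d < 2342 / 10000) (hS : SixSide d S') (_hgap : 0 ≤ sixCP.val u v d S') :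
    ∃ i j l : ℕ, 0 < (sixCCond i j l).val u v d S' := by
  exact ⟨0, 0, 0, Ex.pos_of_checkQuick six_c_up_228 (lowMem 10000 hx0 hx1) (lowMem 10000 hy0 hy1)
    (lowMem 10000 (by push_cast; linarith) hz1) (hS.mem_high (s := 673470) (by norm_num))⟩

theorem six_c_node_338 {u v d S' : ℝ}
    (hx0 : 9439 / 10000 ≤ u) (hx1 : u < 9559 / 10000) (hy0 : 2900 / 10000 ≤ v) (hy1 : v < 11550 / 10000)
    (hz0 : 1846 / 10000 ≤ d) (hz1 : d < 2342 / 10000) (hS : SixSide d S') (hgap : 0 ≤ sixCP.val u v d S') :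
    ∃ i j l : ℕ, 0 < (sixCCond i j l).val u v d S' := by
  rcases lt_or_ge v (7225 / 10000) with g | g
  · exact six_c_node_339 hx0 hx1 hy0 g hz0 hz1 hS hgap
  · exact six_c_node_340 hx0 hx1 g hy1 hz0 hz1 hS hgap

theorem six_c_node_336 {u v d S' : ℝ}
    (hx0 : 9439 / 10000 ≤ u) (hx1 : u < 9559 / 10000) (hy0 : 2900 / 10000 ≤ v) (hy1 : v < 11550 / 10000)
    (hz0 : 1350 / 10000 ≤ d) (hz1 : d < 2342 / 10000) (hS : SixSide d S') (hgap : 0 ≤ sixCP.val u v d S') :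
    ∃ i j l : ℕ, 0 < (sixCCond i j l).val u v d S' := by
  rcases lt_or_ge d (1846 / 10000) with g | g
  · exact six_c_node_337 hx0 hx1 hy0 hy1 hz0 g hS hgap
  · exact six_c_node_338 hx0 hx1 hy0 hy1 g hz1 hS hgap

theorem six_c_node_330 {u v d S' : ℝ}
    (hx0 : 9300 / 10000 ≤ u) (hx1 : u < 9559 / 10000) (hy0 : 2900 / 10000 ≤ v) (hy1 : v < 11550 / 10000)
    (hz0 : 1350 / 10000 ≤ d) (hz1 : d < 2342 / 10000) (hS : SixSide d S') (hgap : 0 ≤ sixCP.val u v d S') :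
    ∃ i j l : ℕ, 0 < (sixCCond i j l).val u v d S' := by
  rcases lt_or_ge u (9439 / 10000) with g | g
  · exact six_c_node_331 hx0 g hy0 hy1 hz0 hz1 hS hgap
  · exact six_c_node_336 g hx1 hy0 hy1 hz0 hz1 hS hgap

theorem six_c_node_344 {u v d S' : ℝ}
    (hx0 : 9300 / 10000 ≤ u) (hx1 : u < 9439 / 10000) (hy0 : 11550 / 10000 ≤ v) (hy1 : v < 15875 / 10000)
    (hz0 : 1350 / 10000 ≤ d) (hz1 : d < 1846 / 10000) (hS : SixSide d S') (_hgap : 0 ≤ sixCP.val u v d S') :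
    ∃ i j l : ℕ, 0 < (sixCCond i j l).val u v d S' := by
  exact ⟨0, 0, 0, Ex.pos_of_checkQuick six_c_up_229 (lowMem 10000 hx0 hx1) (lowMem 10000 hy0 hy1)
    (lowMem 10000 (by push_cast; linarith) hz1) (hS.mem_high (s := 673470) (by norm_num))⟩

theorem six_c_node_345 {u v d S' : ℝ}
    (hx0 : 9300 / 10000 ≤ u) (hx1 : u < 9439 / 10000) (hy0 : 15875 / 10000 ≤ v) (hy1 : v < 20200 / 10000)
    (hz0 : 1350 / 10000 ≤ d) (hz1 : d < 1846 / 10000) (hS : SixSide d S') (_hgap : 0 ≤ sixCP.val u v d S') :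
    ∃ i j l : ℕ, 0 < (sixCCond i j l).val u v d S' := by
  exact ⟨0, 0, 0, Ex.pos_of_checkQuick six_c_up_230 (lowMem 10000 hx0 hx1) (lowMem 10000 hy0 hy1)
    (lowMem 10000 (by push_cast; linarith) hz1) (hS.mem_high (s := 673470) (by norm_num))⟩

theorem six_c_node_343 {u v d S' : ℝ}
    (hx0 : 9300 / 10000 ≤ u) (hx1 : u < 9439 / 10000) (hy0 : 11550 / 10000 ≤ v) (hy1 : v < 20200 / 10000)
    (hz0 : 1350 / 10000 ≤ d) (hz1 : d < 1846 / 10000) (hS : SixSide d S') (hgap : 0 ≤ sixCP.val u v d S') :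
    ∃ i j l : ℕ, 0 < (sixCCond i j l).val u v d S' := by
  rcases lt_or_ge v (15875 / 10000) with g | g
  · exact six_c_node_344 hx0 hx1 hy0 g hz0 hz1 hS hgap
  · exact six_c_node_345 hx0 hx1 g hy1 hz0 hz1 hS hgap

theorem six_c_node_346 {u v d S' : ℝ}
    (hx0 : 9300 / 10000 ≤ u) (hx1 : u < 9439 / 10000) (hy0 : 11550 / 10000 ≤ v) (hy1 : v < 20200 / 10000)
    (hz0 : 1846 / 10000 ≤ d) (hz1 : d < 2342 / 10000) (hS : SixSide d S') (_hgap : 0 ≤ sixCP.val u v d S') :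
    ∃ i j l : ℕ, 0 < (sixCCond i j l).val u v d S' := by
  exact ⟨0, 0, 0, Ex.pos_of_checkQuick six_c_up_231 (lowMem 10000 hx0 hx1) (lowMem 10000 hy0 hy1)
    (lowMem 10000 (by push_cast; linarith) hz1) (hS.mem_high (s := 673470) (by norm_num))⟩

theorem six_c_node_342 {u v d S' : ℝ}
    (hx0 : 9300 / 10000 ≤ u) (hx1 : u < 9439 / 10000) (hy0 : 11550 / 10000 ≤ v) (hy1 : v < 20200 / 10000)
    (hz0 : 1350 / 10000 ≤ d) (hz1 : d < 2342 / 10000) (hS : SixSide d S') (hgap : 0 ≤ sixCP.val u v d S') :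
    ∃ i j l : ℕ, 0 < (sixCCond i j l).val u v d S' := by
  rcases lt_or_ge d (1846 / 10000) with g | g
  · exact six_c_node_343 hx0 hx1 hy0 hy1 hz0 g hS hgap
  · exact six_c_node_346 hx0 hx1 hy0 hy1 g hz1 hS hgap

theorem six_c_node_349 {u v d S' : ℝ}
    (hx0 : 9439 / 10000 ≤ u) (hx1 : u < 9559 / 10000) (hy0 : 11550 / 10000 ≤ v) (hy1 : v < 15875 / 10000)
    (hz0 : 1350 / 10000 ≤ d) (hz1 : d < 1846 / 10000) (hS : SixSide d S') (_hgap : 0 ≤ sixCP.val u v d S') :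
    ∃ i j l : ℕ, 0 < (sixCCond i j l).val u v d S' := by
  exact ⟨0, 0, 0, Ex.pos_of_checkQuick six_c_up_232 (lowMem 10000 hx0 hx1) (lowMem 10000 hy0 hy1)
    (lowMem 10000 (by push_cast; linarith) hz1) (hS.mem_high (s := 673470) (by norm_num))⟩

theorem six_c_node_350 {u v d S' : ℝ}
    (hx0 : 9439 / 10000 ≤ u) (hx1 : u < 9559 / 10000) (hy0 : 15875 / 10000 ≤ v) (hy1 : v < 20200 / 10000)
    (hz0 : 1350 / 10000 ≤ d) (hz1 : d < 1846 / 10000) (hS : SixSide d S') (_hgap : 0 ≤ sixCP.val u v d S') :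
    ∃ i j l : ℕ, 0 < (sixCCond i j l).val u v d S' := by
  exact ⟨0, 0, 0, Ex.pos_of_checkQuick six_c_up_233 (lowMem 10000 hx0 hx1) (lowMem 10000 hy0 hy1)
    (lowMem 10000 (by push_cast; linarith) hz1) (hS.mem_high (s := 673470) (by norm_num))⟩

theorem six_c_node_348 {u v d S' : ℝ}
    (hx0 : 9439 / 10000 ≤ u) (hx1 : u < 9559 / 10000) (hy0 : 11550 / 10000 ≤ v) (hy1 : v < 20200 / 10000)
    (hz0 : 1350 / 10000 ≤ d) (hz1 : d < 1846 / 10000) (hS : SixSide d S') (hgap : 0 ≤ sixCP.val u v d S') :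
    ∃ i j l : ℕ, 0 < (sixCCond i j l).val u v d S' := by
  rcases lt_or_ge v (15875 / 10000) with g | g
  · exact six_c_node_349 hx0 hx1 hy0 g hz0 hz1 hS hgap
  · exact six_c_node_350 hx0 hx1 g hy1 hz0 hz1 hS hgap

theorem six_c_node_351 {u v d S' : ℝ}
    (hx0 : 9439 / 10000 ≤ u) (hx1 : u < 9559 / 10000) (hy0 : 11550 / 10000 ≤ v) (hy1 : v < 20200 / 10000)
    (hz0 : 1846 / 10000 ≤ d) (hz1 : d < 2342 / 10000) (hS : SixSide d S') (_hgap : 0 ≤ sixCP.val u v d S') :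
    ∃ i j l : ℕ, 0 < (sixCCond i j l).val u v d S' := by
  exact ⟨0, 0, 0, Ex.pos_of_checkQuick six_c_up_234 (lowMem 10000 hx0 hx1) (lowMem 10000 hy0 hy1)
    (lowMem 10000 (by push_cast; linarith) hz1) (hS.mem_high (s := 673470) (by norm_num))⟩

theorem six_c_node_347 {u v d S' : ℝ}
    (hx0 : 9439 / 10000 ≤ u) (hx1 : u < 9559 / 10000) (hy0 : 11550 / 10000 ≤ v) (hy1 : v < 20200 / 10000)
    (hz0 : 1350 / 10000 ≤ d) (hz1 : d < 2342 / 10000) (hS : SixSide d S') (hgap : 0 ≤ sixCP.val u v d S') :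
    ∃ i j l : ℕ, 0 < (sixCCond i j l).val u v d S' := by
  rcases lt_or_ge d (1846 / 10000) with g | g
  · exact six_c_node_348 hx0 hx1 hy0 hy1 hz0 g hS hgap
  · exact six_c_node_351 hx0 hx1 hy0 hy1 g hz1 hS hgap

theorem six_c_node_341 {u v d S' : ℝ}
    (hx0 : 9300 / 10000 ≤ u) (hx1 : u < 9559 / 10000) (hy0 : 11550 / 10000 ≤ v) (hy1 : v < 20200 / 10000)
    (hz0 : 1350 / 10000 ≤ d) (hz1 : d < 2342 / 10000) (hS : SixSide d S') (hgap : 0 ≤ sixCP.val u v d S') :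
    ∃ i j l : ℕ, 0 < (sixCCond i j l).val u v d S' := by
  rcases lt_or_ge u (9439 / 10000) with g | g
  · exact six_c_node_342 hx0 g hy0 hy1 hz0 hz1 hS hgap
  · exact six_c_node_347 g hx1 hy0 hy1 hz0 hz1 hS hgap

theorem six_c_node_329 {u v d S' : ℝ}
    (hx0 : 9300 / 10000 ≤ u) (hx1 : u < 9559 / 10000) (hy0 : 2900 / 10000 ≤ v) (hy1 : v < 20200 / 10000)
    (hz0 : 1350 / 10000 ≤ d) (hz1 : d < 2342 / 10000) (hS : SixSide d S') (hgap : 0 ≤ sixCP.val u v d S') :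
    ∃ i j l : ℕ, 0 < (sixCCond i j l).val u v d S' := by
  rcases lt_or_ge v (11550 / 10000) with g | g
  · exact six_c_node_330 hx0 hx1 hy0 g hz0 hz1 hS hgap
  · exact six_c_node_341 hx0 hx1 g hy1 hz0 hz1 hS hgap

theorem six_c_node_356 {u v d S' : ℝ}
    (hx0 : 9300 / 10000 ≤ u) (hx1 : u < 9439 / 10000) (hy0 : 2900 / 10000 ≤ v) (hy1 : v < 7225 / 10000)
    (hz0 : 2342 / 10000 ≤ d) (hz1 : d < 2838 / 10000) (hS : SixSide d S') (_hgap : 0 ≤ sixCP.val u v d S') :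
    ∃ i j l : ℕ, 0 < (sixCCond i j l).val u v d S' := by
  exact ⟨0, 1815318062, 0, Ex.pos_of_checkQuick six_c_up_235 (lowMem 10000 hx0 hx1) (lowMem 10000 hy0 hy1)
    (lowMem 10000 (by push_cast; linarith) hz1) (hS.mem_high (s := 673470) (by norm_num))⟩

theorem six_c_node_357 {u v d S' : ℝ}
    (hx0 : 9300 / 10000 ≤ u) (hx1 : u < 9439 / 10000) (hy0 : 7225 / 10000 ≤ v) (hy1 : v < 11550 / 10000)
    (hz0 : 2342 / 10000 ≤ d) (hz1 : d < 2838 / 10000) (hS : SixSide d S') (_hgap : 0 ≤ sixCP.val u v d S') :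
    ∃ i j l : ℕ, 0 < (sixCCond i j l).val u v d S' := by
  exact ⟨0, 0, 0, Ex.pos_of_checkQuick six_c_up_236 (lowMem 10000 hx0 hx1) (lowMem 10000 hy0 hy1)
    (lowMem 10000 (by push_cast; linarith) hz1) (hS.mem_high (s := 673470) (by norm_num))⟩

theorem six_c_node_355 {u v d S' : ℝ}
    (hx0 : 9300 / 10000 ≤ u) (hx1 : u < 9439 / 10000) (hy0 : 2900 / 10000 ≤ v) (hy1 : v < 11550 / 10000)
    (hz0 : 2342 / 10000 ≤ d) (hz1 : d < 2838 / 10000) (hS : SixSide d S') (hgap : 0 ≤ sixCP.val u v d S') :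
    ∃ i j l : ℕ, 0 < (sixCCond i j l).val u v d S' := by
  rcases lt_or_ge v (7225 / 10000) with g | g
  · exact six_c_node_356 hx0 hx1 hy0 g hz0 hz1 hS hgap
  · exact six_c_node_357 hx0 hx1 g hy1 hz0 hz1 hS hgap

theorem six_c_node_359 {u v d S' : ℝ}
    (hx0 : 9300 / 10000 ≤ u) (hx1 : u < 9439 / 10000) (hy0 : 2900 / 10000 ≤ v) (hy1 : v < 7225 / 10000)
    (hz0 : 2838 / 10000 ≤ d) (hz1 : d < 3334 / 10000) (hS : SixSide d S') (_hgap : 0 ≤ sixCP.val u v d S') :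
    ∃ i j l : ℕ, 0 < (sixCCond i j l).val u v d S' := by
  exact ⟨0, 1359671123, 0, Ex.pos_of_checkQuick six_c_up_237 (lowMem 10000 hx0 hx1) (lowMem 10000 hy0 hy1)
    (lowMem 10000 (by push_cast; linarith) hz1) (hS.mem_high (s := 673470) (by norm_num))⟩

theorem six_c_node_363 {u v d S' : ℝ}
    (hx0 : 9300 / 10000 ≤ u) (hx1 : u < 9372 / 10000) (hy0 : 7225 / 10000 ≤ v) (hy1 : v < 9387 / 10000)
    (hz0 : 2838 / 10000 ≤ d) (hz1 : d < 3086 / 10000) (hS : SixSide d S') (_hgap : 0 ≤ sixCP.val u v d S') :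
    ∃ i j l : ℕ, 0 < (sixCCond i j l).val u v d S' := by
  exact ⟨0, 56, 0, Ex.pos_of_checkQuick six_c_up_238 (lowMem 10000 hx0 hx1) (lowMem 10000 hy0 hy1)
    (lowMem 10000 (by push_cast; linarith) hz1) (hS.mem_high (s := 673470) (by norm_num))⟩

theorem six_c_node_364 {u v d S' : ℝ}
    (hx0 : 9300 / 10000 ≤ u) (hx1 : u < 9372 / 10000) (hy0 : 9387 / 10000 ≤ v) (hy1 : v < 11550 / 10000)
    (hz0 : 2838 / 10000 ≤ d) (hz1 : d < 3086 / 10000) (hS : SixSide d S') (_hgap : 0 ≤ sixCP.val u v d S') :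
    ∃ i j l : ℕ, 0 < (sixCCond i j l).val u v d S' := by
  exact ⟨0, 0, 0, Ex.pos_of_checkQuick six_c_up_239 (lowMem 10000 hx0 hx1) (lowMem 10000 hy0 hy1)
    (lowMem 10000 (by push_cast; linarith) hz1) (hS.mem_high (s := 673470) (by norm_num))⟩

theorem six_c_node_362 {u v d S' : ℝ}
    (hx0 : 9300 / 10000 ≤ u) (hx1 : u < 9372 / 10000) (hy0 : 7225 / 10000 ≤ v) (hy1 : v < 11550 / 10000)
    (hz0 : 2838 / 10000 ≤ d) (hz1 : d < 3086 / 10000) (hS : SixSide d S') (hgap : 0 ≤ sixCP.val u v d S') :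
    ∃ i j l : ℕ, 0 < (sixCCond i j l).val u v d S' := by
  rcases lt_or_ge v (9387 / 10000) with g | g
  · exact six_c_node_363 hx0 hx1 hy0 g hz0 hz1 hS hgap
  · exact six_c_node_364 hx0 hx1 g hy1 hz0 hz1 hS hgap

theorem six_c_node_366 {u v d S' : ℝ}
    (hx0 : 9300 / 10000 ≤ u) (hx1 : u < 9372 / 10000) (hy0 : 7225 / 10000 ≤ v) (hy1 : v < 9387 / 10000)
    (hz0 : 3086 / 10000 ≤ d) (hz1 : d < 3334 / 10000) (hS : SixSide d S') (_hgap : 0 ≤ sixCP.val u v d S') :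
    ∃ i j l : ℕ, 0 < (sixCCond i j l).val u v d S' := by
  exact ⟨0, 87, 0, Ex.pos_of_checkQuick six_c_up_240 (lowMem 10000 hx0 hx1) (lowMem 10000 hy0 hy1)
    (lowMem 10000 (by push_cast; linarith) hz1) (hS.mem_tri (s := 672851) (a := 3086 / 10000) (by linarith) (by norm_num))⟩

theorem six_c_node_367 {u v d S' : ℝ}
    (hx0 : 9300 / 10000 ≤ u) (hx1 : u < 9372 / 10000) (hy0 : 9387 / 10000 ≤ v) (hy1 : v < 11550 / 10000)
    (hz0 : 3086 / 10000 ≤ d) (hz1 : d < 3334 / 10000) (hS : SixSide d S') (_hgap : 0 ≤ sixCP.val u v d S') :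
    ∃ i j l : ℕ, 0 < (sixCCond i j l).val u v d S' := by
  exact ⟨0, 0, 0, Ex.pos_of_checkQuick six_c_up_241 (lowMem 10000 hx0 hx1) (lowMem 10000 hy0 hy1)
    (lowMem 10000 (by push_cast; linarith) hz1) (hS.mem_tri (s := 672851) (a := 3086 / 10000) (by linarith) (by norm_num))⟩

theorem six_c_node_365 {u v d S' : ℝ}
    (hx0 : 9300 / 10000 ≤ u) (hx1 : u < 9372 / 10000) (hy0 : 7225 / 10000 ≤ v) (hy1 : v < 11550 / 10000)
    (hz0 : 3086 / 10000 ≤ d) (hz1 : d < 3334 / 10000) (hS : SixSide d S') (hgap : 0 ≤ sixCP.val u v d S') :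
    ∃ i j l : ℕ, 0 < (sixCCond i j l).val u v d S' := by
  rcases lt_or_ge v (9387 / 10000) with g | g
  · exact six_c_node_366 hx0 hx1 hy0 g hz0 hz1 hS hgap
  · exact six_c_node_367 hx0 hx1 g hy1 hz0 hz1 hS hgap

theorem six_c_node_361 {u v d S' : ℝ}
    (hx0 : 9300 / 10000 ≤ u) (hx1 : u < 9372 / 10000) (hy0 : 7225 / 10000 ≤ v) (hy1 : v < 11550 / 10000)
    (hz0 : 2838 / 10000 ≤ d) (hz1 : d < 3334 / 10000) (hS : SixSide d S') (hgap : 0 ≤ sixCP.val u v d S') :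
    ∃ i j l : ℕ, 0 < (sixCCond i j l).val u v d S' := by
  rcases lt_or_ge d (3086 / 10000) with g | g
  · exact six_c_node_362 hx0 hx1 hy0 hy1 hz0 g hS hgap
  · exact six_c_node_365 hx0 hx1 hy0 hy1 g hz1 hS hgap

theorem six_c_node_369 {u v d S' : ℝ}
    (hx0 : 9372 / 10000 ≤ u) (hx1 : u < 9439 / 10000) (hy0 : 7225 / 10000 ≤ v) (hy1 : v < 11550 / 10000)
    (hz0 : 2838 / 10000 ≤ d) (hz1 : d < 3086 / 10000) (hS : SixSide d S') (_hgap : 0 ≤ sixCP.val u v d S') :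
    ∃ i j l : ℕ, 0 < (sixCCond i j l).val u v d S' := by
  exact ⟨0, 53, 0, Ex.pos_of_checkQuick six_c_up_242 (lowMem 10000 hx0 hx1) (lowMem 10000 hy0 hy1)
    (lowMem 10000 (by push_cast; linarith) hz1) (hS.mem_high (s := 673470) (by norm_num))⟩

theorem six_c_node_371 {u v d S' : ℝ}
    (hx0 : 9372 / 10000 ≤ u) (hx1 : u < 9439 / 10000) (hy0 : 7225 / 10000 ≤ v) (hy1 : v < 9387 / 10000)
    (hz0 : 3086 / 10000 ≤ d) (hz1 : d < 3334 / 10000) (hS : SixSide d S') (_hgap : 0 ≤ sixCP.val u v d S') :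
    ∃ i j l : ℕ, 0 < (sixCCond i j l).val u v d S' := by
  exact ⟨0, 93, 0, Ex.pos_of_checkQuick six_c_up_243 (lowMem 10000 hx0 hx1) (lowMem 10000 hy0 hy1)
    (lowMem 10000 (by push_cast; linarith) hz1) (hS.mem_tri (s := 672851) (a := 3086 / 10000) (by linarith) (by norm_num))⟩

theorem six_c_node_372 {u v d S' : ℝ}
    (hx0 : 9372 / 10000 ≤ u) (hx1 : u < 9439 / 10000) (hy0 : 9387 / 10000 ≤ v) (hy1 : v < 11550 / 10000)
    (hz0 : 3086 / 10000 ≤ d) (hz1 : d < 3334 / 10000) (hS : SixSide d S') (_hgap : 0 ≤ sixCP.val u v d S') :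
    ∃ i j l : ℕ, 0 < (sixCCond i j l).val u v d S' := by
  exact ⟨0, 0, 0, Ex.pos_of_checkQuick six_c_up_244 (lowMem 10000 hx0 hx1) (lowMem 10000 hy0 hy1)
    (lowMem 10000 (by push_cast; linarith) hz1) (hS.mem_tri (s := 672851) (a := 3086 / 10000) (by linarith) (by norm_num))⟩

theorem six_c_node_370 {u v d S' : ℝ}
    (hx0 : 9372 / 10000 ≤ u) (hx1 : u < 9439 / 10000) (hy0 : 7225 / 10000 ≤ v) (hy1 : v < 11550 / 10000)
    (hz0 : 3086 / 10000 ≤ d) (hz1 : d < 3334 / 10000) (hS : SixSide d S') (hgap : 0 ≤ sixCP.val u v d S') :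
    ∃ i j l : ℕ, 0 < (sixCCond i j l).val u v d S' := by
  rcases lt_or_ge v (9387 / 10000) with g | g
  · exact six_c_node_371 hx0 hx1 hy0 g hz0 hz1 hS hgap
  · exact six_c_node_372 hx0 hx1 g hy1 hz0 hz1 hS hgap

theorem six_c_node_368 {u v d S' : ℝ}
    (hx0 : 9372 / 10000 ≤ u) (hx1 : u < 9439 / 10000) (hy0 : 7225 / 10000 ≤ v) (hy1 : v < 11550 / 10000)
    (hz0 : 2838 / 10000 ≤ d) (hz1 : d < 3334 / 10000) (hS : SixSide d S') (hgap : 0 ≤ sixCP.val u v d S') :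
    ∃ i j l : ℕ, 0 < (sixCCond i j l).val u v d S' := by
  rcases lt_or_ge d (3086 / 10000) with g | g
  · exact six_c_node_369 hx0 hx1 hy0 hy1 hz0 g hS hgap
  · exact six_c_node_370 hx0 hx1 hy0 hy1 g hz1 hS hgap

theorem six_c_node_360 {u v d S' : ℝ}
    (hx0 : 9300 / 10000 ≤ u) (hx1 : u < 9439 / 10000) (hy0 : 7225 / 10000 ≤ v) (hy1 : v < 11550 / 10000)
    (hz0 : 2838 / 10000 ≤ d) (hz1 : d < 3334 / 10000) (hS : SixSide d S') (hgap : 0 ≤ sixCP.val u v d S') :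
    ∃ i j l : ℕ, 0 < (sixCCond i j l).val u v d S' := by
  rcases lt_or_ge u (9372 / 10000) with g | g
  · exact six_c_node_361 hx0 g hy0 hy1 hz0 hz1 hS hgap
  · exact six_c_node_368 g hx1 hy0 hy1 hz0 hz1 hS hgap

theorem six_c_node_358 {u v d S' : ℝ}
    (hx0 : 9300 / 10000 ≤ u) (hx1 : u < 9439 / 10000) (hy0 : 2900 / 10000 ≤ v) (hy1 : v < 11550 / 10000)
    (hz0 : 2838 / 10000 ≤ d) (hz1 : d < 3334 / 10000) (hS : SixSide d S') (hgap : 0 ≤ sixCP.val u v d S') :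
    ∃ i j l : ℕ, 0 < (sixCCond i j l).val u v d S' := by
  rcases lt_or_ge v (7225 / 10000) with g | g
  · exact six_c_node_359 hx0 hx1 hy0 g hz0 hz1 hS hgap
  · exact six_c_node_360 hx0 hx1 g hy1 hz0 hz1 hS hgap

theorem six_c_node_354 {u v d S' : ℝ}
    (hx0 : 9300 / 10000 ≤ u) (hx1 : u < 9439 / 10000) (hy0 : 2900 / 10000 ≤ v) (hy1 : v < 11550 / 10000)
    (hz0 : 2342 / 10000 ≤ d) (hz1 : d < 3334 / 10000) (hS : SixSide d S') (hgap : 0 ≤ sixCP.val u v d S') :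
    ∃ i j l : ℕ, 0 < (sixCCond i j l).val u v d S' := by
  rcases lt_or_ge d (2838 / 10000) with g | g
  · exact six_c_node_355 hx0 hx1 hy0 hy1 hz0 g hS hgap
  · exact six_c_node_358 hx0 hx1 hy0 hy1 g hz1 hS hgap

theorem six_c_node_375 {u v d S' : ℝ}
    (hx0 : 9439 / 10000 ≤ u) (hx1 : u < 9559 / 10000) (hy0 : 2900 / 10000 ≤ v) (hy1 : v < 7225 / 10000)
    (hz0 : 2342 / 10000 ≤ d) (hz1 : d < 2838 / 10000) (hS : SixSide d S') (_hgap : 0 ≤ sixCP.val u v d S') :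
    ∃ i j l : ℕ, 0 < (sixCCond i j l).val u v d S' := by
  exact ⟨0, 1824783845, 0, Ex.pos_of_checkQuick six_c_up_245 (lowMem 10000 hx0 hx1) (lowMem 10000 hy0 hy1)
    (lowMem 10000 (by push_cast; linarith) hz1) (hS.mem_high (s := 673470) (by norm_num))⟩

theorem six_c_node_376 {u v d S' : ℝ}
    (hx0 : 9439 / 10000 ≤ u) (hx1 : u < 9559 / 10000) (hy0 : 7225 / 10000 ≤ v) (hy1 : v < 11550 / 10000)
    (hz0 : 2342 / 10000 ≤ d) (hz1 : d < 2838 / 10000) (hS : SixSide d S') (_hgap : 0 ≤ sixCP.val u v d S') :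
    ∃ i j l : ℕ, 0 < (sixCCond i j l).val u v d S' := by
  exact ⟨0, 0, 0, Ex.pos_of_checkQuick six_c_up_246 (lowMem 10000 hx0 hx1) (lowMem 10000 hy0 hy1)
    (lowMem 10000 (by push_cast; linarith) hz1) (hS.mem_high (s := 673470) (by norm_num))⟩

theorem six_c_node_374 {u v d S' : ℝ}
    (hx0 : 9439 / 10000 ≤ u) (hx1 : u < 9559 / 10000) (hy0 : 2900 / 10000 ≤ v) (hy1 : v < 11550 / 10000)
    (hz0 : 2342 / 10000 ≤ d) (hz1 : d < 2838 / 10000) (hS : SixSide d S') (hgap : 0 ≤ sixCP.val u v d S') :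
    ∃ i j l : ℕ, 0 < (sixCCond i j l).val u v d S' := by
  rcases lt_or_ge v (7225 / 10000) with g | g
  · exact six_c_node_375 hx0 hx1 hy0 g hz0 hz1 hS hgap
  · exact six_c_node_376 hx0 hx1 g hy1 hz0 hz1 hS hgap

theorem six_c_node_378 {u v d S' : ℝ}
    (hx0 : 9439 / 10000 ≤ u) (hx1 : u < 9559 / 10000) (hy0 : 2900 / 10000 ≤ v) (hy1 : v < 7225 / 10000)
    (hz0 : 2838 / 10000 ≤ d) (hz1 : d < 3334 / 10000) (hS : SixSide d S') (_hgap : 0 ≤ sixCP.val u v d S') :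
    ∃ i j l : ℕ, 0 < (sixCCond i j l).val u v d S' := by
  exact ⟨0, 1353286887, 0, Ex.pos_of_checkQuick six_c_up_247 (lowMem 10000 hx0 hx1) (lowMem 10000 hy0 hy1)
    (lowMem 10000 (by push_cast; linarith) hz1) (hS.mem_high (s := 673470) (by norm_num))⟩

theorem six_c_node_381 {u v d S' : ℝ}
    (hx0 : 9439 / 10000 ≤ u) (hx1 : u < 9501 / 10000) (hy0 : 7225 / 10000 ≤ v) (hy1 : v < 11550 / 10000)
    (hz0 : 2838 / 10000 ≤ d) (hz1 : d < 3086 / 10000) (hS : SixSide d S') (_hgap : 0 ≤ sixCP.val u v d S') :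
    ∃ i j l : ℕ, 0 < (sixCCond i j l).val u v d S' := by
  exact ⟨0, 58, 0, Ex.pos_of_checkQuick six_c_up_248 (lowMem 10000 hx0 hx1) (lowMem 10000 hy0 hy1)
    (lowMem 10000 (by push_cast; linarith) hz1) (hS.mem_high (s := 673470) (by norm_num))⟩

theorem six_c_node_383 {u v d S' : ℝ}
    (hx0 : 9439 / 10000 ≤ u) (hx1 : u < 9501 / 10000) (hy0 : 7225 / 10000 ≤ v) (hy1 : v < 9387 / 10000)
    (hz0 : 3086 / 10000 ≤ d) (hz1 : d < 3334 / 10000) (hS : SixSide d S') (_hgap : 0 ≤ sixCP.val u v d S') :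
    ∃ i j l : ℕ, 0 < (sixCCond i j l).val u v d S' := by
  exact ⟨0, 116, 0, Ex.pos_of_checkQuick six_c_up_249 (lowMem 10000 hx0 hx1) (lowMem 10000 hy0 hy1)
    (lowMem 10000 (by push_cast; linarith) hz1) (hS.mem_tri (s := 672851) (a := 3086 / 10000) (by linarith) (by norm_num))⟩

theorem six_c_node_384 {u v d S' : ℝ}
    (hx0 : 9439 / 10000 ≤ u) (hx1 : u < 9501 / 10000) (hy0 : 9387 / 10000 ≤ v) (hy1 : v < 11550 / 10000)
    (hz0 : 3086 / 10000 ≤ d) (hz1 : d < 3334 / 10000) (hS : SixSide d S') (_hgap : 0 ≤ sixCP.val u v d S') :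
    ∃ i j l : ℕ, 0 < (sixCCond i j l).val u v d S' := by
  exact ⟨0, 0, 0, Ex.pos_of_checkQuick six_c_up_250 (lowMem 10000 hx0 hx1) (lowMem 10000 hy0 hy1)
    (lowMem 10000 (by push_cast; linarith) hz1) (hS.mem_tri (s := 672851) (a := 3086 / 10000) (by linarith) (by norm_num))⟩

theorem six_c_node_382 {u v d S' : ℝ}
    (hx0 : 9439 / 10000 ≤ u) (hx1 : u < 9501 / 10000) (hy0 : 7225 / 10000 ≤ v) (hy1 : v < 11550 / 10000)
    (hz0 : 3086 / 10000 ≤ d) (hz1 : d < 3334 / 10000) (hS : SixSide d S') (hgap : 0 ≤ sixCP.val u v d S') :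
    ∃ i j l : ℕ, 0 < (sixCCond i j l).val u v d S' := by
  rcases lt_or_ge v (9387 / 10000) with g | g
  · exact six_c_node_383 hx0 hx1 hy0 g hz0 hz1 hS hgap
  · exact six_c_node_384 hx0 hx1 g hy1 hz0 hz1 hS hgap

theorem six_c_node_380 {u v d S' : ℝ}
    (hx0 : 9439 / 10000 ≤ u) (hx1 : u < 9501 / 10000) (hy0 : 7225 / 10000 ≤ v) (hy1 : v < 11550 / 10000)
    (hz0 : 2838 / 10000 ≤ d) (hz1 : d < 3334 / 10000) (hS : SixSide d S') (hgap : 0 ≤ sixCP.val u v d S') :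
    ∃ i j l : ℕ, 0 < (sixCCond i j l).val u v d S' := by
  rcases lt_or_ge d (3086 / 10000) with g | g
  · exact six_c_node_381 hx0 hx1 hy0 hy1 hz0 g hS hgap
  · exact six_c_node_382 hx0 hx1 hy0 hy1 g hz1 hS hgap

theorem six_c_node_386 {u v d S' : ℝ}
    (hx0 : 9501 / 10000 ≤ u) (hx1 : u < 9559 / 10000) (hy0 : 7225 / 10000 ≤ v) (hy1 : v < 11550 / 10000)
    (hz0 : 2838 / 10000 ≤ d) (hz1 : d < 3086 / 10000) (hS : SixSide d S') (_hgap : 0 ≤ sixCP.val u v d S') :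
    ∃ i j l : ℕ, 0 < (sixCCond i j l).val u v d S' := by
  exact ⟨0, 87, 0, Ex.pos_of_checkQuick six_c_up_251 (lowMem 10000 hx0 hx1) (lowMem 10000 hy0 hy1)
    (lowMem 10000 (by push_cast; linarith) hz1) (hS.mem_high (s := 673470) (by norm_num))⟩

theorem six_c_node_388 {u v d S' : ℝ}
    (hx0 : 9501 / 10000 ≤ u) (hx1 : u < 9559 / 10000) (hy0 : 7225 / 10000 ≤ v) (hy1 : v < 9387 / 10000)
    (hz0 : 3086 / 10000 ≤ d) (hz1 : d < 3334 / 10000) (hS : SixSide d S') (_hgap : 0 ≤ sixCP.val u v d S') :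
    ∃ i j l : ℕ, 0 < (sixCCond i j l).val u v d S' := by
  exact ⟨0, 134, 0, Ex.pos_of_checkQuick six_c_up_252 (lowMem 10000 hx0 hx1) (lowMem 10000 hy0 hy1)
    (lowMem 10000 (by push_cast; linarith) hz1) (hS.mem_tri (s := 672851) (a := 3086 / 10000) (by linarith) (by norm_num))⟩

theorem six_c_node_389 {u v d S' : ℝ}
    (hx0 : 9501 / 10000 ≤ u) (hx1 : u < 9559 / 10000) (hy0 : 9387 / 10000 ≤ v) (hy1 : v < 11550 / 10000)
    (hz0 : 3086 / 10000 ≤ d) (hz1 : d < 3334 / 10000) (hS : SixSide d S') (_hgap : 0 ≤ sixCP.val u v d S') :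
    ∃ i j l : ℕ, 0 < (sixCCond i j l).val u v d S' := by
  exact ⟨0, 0, 0, Ex.pos_of_checkQuick six_c_up_253 (lowMem 10000 hx0 hx1) (lowMem 10000 hy0 hy1)
    (lowMem 10000 (by push_cast; linarith) hz1) (hS.mem_tri (s := 672851) (a := 3086 / 10000) (by linarith) (by norm_num))⟩

theorem six_c_node_387 {u v d S' : ℝ}
    (hx0 : 9501 / 10000 ≤ u) (hx1 : u < 9559 / 10000) (hy0 : 7225 / 10000 ≤ v) (hy1 : v < 11550 / 10000)
    (hz0 : 3086 / 10000 ≤ d) (hz1 : d < 3334 / 10000) (hS : SixSide d S') (hgap : 0 ≤ sixCP.val u v d S') :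
    ∃ i j l : ℕ, 0 < (sixCCond i j l).val u v d S' := by
  rcases lt_or_ge v (9387 / 10000) with g | g
  · exact six_c_node_388 hx0 hx1 hy0 g hz0 hz1 hS hgap
  · exact six_c_node_389 hx0 hx1 g hy1 hz0 hz1 hS hgap

theorem six_c_node_385 {u v d S' : ℝ}
    (hx0 : 9501 / 10000 ≤ u) (hx1 : u < 9559 / 10000) (hy0 : 7225 / 10000 ≤ v) (hy1 : v < 11550 / 10000)
    (hz0 : 2838 / 10000 ≤ d) (hz1 : d < 3334 / 10000) (hS : SixSide d S') (hgap : 0 ≤ sixCP.val u v d S') :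
    ∃ i j l : ℕ, 0 < (sixCCond i j l).val u v d S' := by
  rcases lt_or_ge d (3086 / 10000) with g | g
  · exact six_c_node_386 hx0 hx1 hy0 hy1 hz0 g hS hgap
  · exact six_c_node_387 hx0 hx1 hy0 hy1 g hz1 hS hgap

theorem six_c_node_379 {u v d S' : ℝ}
    (hx0 : 9439 / 10000 ≤ u) (hx1 : u < 9559 / 10000) (hy0 : 7225 / 10000 ≤ v) (hy1 : v < 11550 / 10000)
    (hz0 : 2838 / 10000 ≤ d) (hz1 : d < 3334 / 10000) (hS : SixSide d S') (hgap : 0 ≤ sixCP.val u v d S') :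
    ∃ i j l : ℕ, 0 < (sixCCond i j l).val u v d S' := by
  rcases lt_or_ge u (9501 / 10000) with g | g
  · exact six_c_node_380 hx0 g hy0 hy1 hz0 hz1 hS hgap
  · exact six_c_node_385 g hx1 hy0 hy1 hz0 hz1 hS hgap

theorem six_c_node_377 {u v d S' : ℝ}
    (hx0 : 9439 / 10000 ≤ u) (hx1 : u < 9559 / 10000) (hy0 : 2900 / 10000 ≤ v) (hy1 : v < 11550 / 10000)
    (hz0 : 2838 / 10000 ≤ d) (hz1 : d < 3334 / 10000) (hS : SixSide d S') (hgap : 0 ≤ sixCP.val u v d S') :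
    ∃ i j l : ℕ, 0 < (sixCCond i j l).val u v d S' := by
  rcases lt_or_ge v (7225 / 10000) with g | g
  · exact six_c_node_378 hx0 hx1 hy0 g hz0 hz1 hS hgap
  · exact six_c_node_379 hx0 hx1 g hy1 hz0 hz1 hS hgap

theorem six_c_node_373 {u v d S' : ℝ}
    (hx0 : 9439 / 10000 ≤ u) (hx1 : u < 9559 / 10000) (hy0 : 2900 / 10000 ≤ v) (hy1 : v < 11550 / 10000)
    (hz0 : 2342 / 10000 ≤ d) (hz1 : d < 3334 / 10000) (hS : SixSide d S') (hgap : 0 ≤ sixCP.val u v d S') :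
    ∃ i j l : ℕ, 0 < (sixCCond i j l).val u v d S' := by
  rcases lt_or_ge d (2838 / 10000) with g | g
  · exact six_c_node_374 hx0 hx1 hy0 hy1 hz0 g hS hgap
  · exact six_c_node_377 hx0 hx1 hy0 hy1 g hz1 hS hgap

theorem six_c_node_353 {u v d S' : ℝ}
    (hx0 : 9300 / 10000 ≤ u) (hx1 : u < 9559 / 10000) (hy0 : 2900 / 10000 ≤ v) (hy1 : v < 11550 / 10000)
    (hz0 : 2342 / 10000 ≤ d) (hz1 : d < 3334 / 10000) (hS : SixSide d S') (hgap : 0 ≤ sixCP.val u v d S') :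
    ∃ i j l : ℕ, 0 < (sixCCond i j l).val u v d S' := by
  rcases lt_or_ge u (9439 / 10000) with g | g
  · exact six_c_node_354 hx0 g hy0 hy1 hz0 hz1 hS hgap
  · exact six_c_node_373 g hx1 hy0 hy1 hz0 hz1 hS hgap

theorem six_c_node_390 {u v d S' : ℝ}
    (hx0 : 9300 / 10000 ≤ u) (hx1 : u < 9559 / 10000) (hy0 : 11550 / 10000 ≤ v) (hy1 : v < 20200 / 10000)
    (hz0 : 2342 / 10000 ≤ d) (hz1 : d < 3334 / 10000) (hS : SixSide d S') (_hgap : 0 ≤ sixCP.val u v d S') :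
    ∃ i j l : ℕ, 0 < (sixCCond i j l).val u v d S' := by
  exact ⟨0, 0, 0, Ex.pos_of_checkQuick six_c_up_254 (lowMem 10000 hx0 hx1) (lowMem 10000 hy0 hy1)
    (lowMem 10000 (by push_cast; linarith) hz1) (hS.mem_high (s := 673470) (by norm_num))⟩

theorem six_c_node_352 {u v d S' : ℝ}
    (hx0 : 9300 / 10000 ≤ u) (hx1 : u < 9559 / 10000) (hy0 : 2900 / 10000 ≤ v) (hy1 : v < 20200 / 10000)
    (hz0 : 2342 / 10000 ≤ d) (hz1 : d < 3334 / 10000) (hS : SixSide d S') (hgap : 0 ≤ sixCP.val u v d S') :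
    ∃ i j l : ℕ, 0 < (sixCCond i j l).val u v d S' := by
  rcases lt_or_ge v (11550 / 10000) with g | g
  · exact six_c_node_353 hx0 hx1 hy0 g hz0 hz1 hS hgap
  · exact six_c_node_390 hx0 hx1 g hy1 hz0 hz1 hS hgap

theorem six_c_node_328 {u v d S' : ℝ}
    (hx0 : 9300 / 10000 ≤ u) (hx1 : u < 9559 / 10000) (hy0 : 2900 / 10000 ≤ v) (hy1 : v < 20200 / 10000)
    (hz0 : 1350 / 10000 ≤ d) (hz1 : d < 3334 / 10000) (hS : SixSide d S') (hgap : 0 ≤ sixCP.val u v d S') :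
    ∃ i j l : ℕ, 0 < (sixCCond i j l).val u v d S' := by
  rcases lt_or_ge d (2342 / 10000) with g | g
  · exact six_c_node_329 hx0 hx1 hy0 hy1 hz0 g hS hgap
  · exact six_c_node_352 hx0 hx1 hy0 hy1 g hz1 hS hgap

theorem six_c_node_393 {u v d S' : ℝ}
    (hx0 : 9559 / 10000 ≤ u) (hx1 : u < 9751 / 10000) (hy0 : 2900 / 10000 ≤ v) (hy1 : v < 11550 / 10000)
    (hz0 : 1350 / 10000 ≤ d) (hz1 : d < 2342 / 10000) (hS : SixSide d S') (_hgap : 0 ≤ sixCP.val u v d S') :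
    ∃ i j l : ℕ, 0 < (sixCCond i j l).val u v d S' := by
  exact ⟨0, 0, 0, Ex.pos_of_checkQuick six_c_up_255 (lowMem 10000 hx0 hx1) (lowMem 10000 hy0 hy1)
    (lowMem 10000 (by push_cast; linarith) hz1) (hS.mem_high (s := 673470) (by norm_num))⟩

theorem six_c_node_397 {u v d S' : ℝ}
    (hx0 : 9559 / 10000 ≤ u) (hx1 : u < 9662 / 10000) (hy0 : 11550 / 10000 ≤ v) (hy1 : v < 15875 / 10000)
    (hz0 : 1350 / 10000 ≤ d) (hz1 : d < 1846 / 10000) (hS : SixSide d S') (_hgap : 0 ≤ sixCP.val u v d S') :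
    ∃ i j l : ℕ, 0 < (sixCCond i j l).val u v d S' := by
  exact ⟨0, 0, 0, Ex.pos_of_checkQuick six_c_up_256 (lowMem 10000 hx0 hx1) (lowMem 10000 hy0 hy1)
    (lowMem 10000 (by push_cast; linarith) hz1) (hS.mem_high (s := 673470) (by norm_num))⟩

theorem six_c_node_398 {u v d S' : ℝ}
    (hx0 : 9559 / 10000 ≤ u) (hx1 : u < 9662 / 10000) (hy0 : 15875 / 10000 ≤ v) (hy1 : v < 20200 / 10000)
    (hz0 : 1350 / 10000 ≤ d) (hz1 : d < 1846 / 10000) (hS : SixSide d S') (_hgap : 0 ≤ sixCP.val u v d S') :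
    ∃ i j l : ℕ, 0 < (sixCCond i j l).val u v d S' := by
  exact ⟨0, 0, 0, Ex.pos_of_checkQuick six_c_up_257 (lowMem 10000 hx0 hx1) (lowMem 10000 hy0 hy1)
    (lowMem 10000 (by push_cast; linarith) hz1) (hS.mem_high (s := 673470) (by norm_num))⟩

theorem six_c_node_396 {u v d S' : ℝ}
    (hx0 : 9559 / 10000 ≤ u) (hx1 : u < 9662 / 10000) (hy0 : 11550 / 10000 ≤ v) (hy1 : v < 20200 / 10000)
    (hz0 : 1350 / 10000 ≤ d) (hz1 : d < 1846 / 10000) (hS : SixSide d S') (hgap : 0 ≤ sixCP.val u v d S') :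
    ∃ i j l : ℕ, 0 < (sixCCond i j l).val u v d S' := by
  rcases lt_or_ge v (15875 / 10000) with g | g
  · exact six_c_node_397 hx0 hx1 hy0 g hz0 hz1 hS hgap
  · exact six_c_node_398 hx0 hx1 g hy1 hz0 hz1 hS hgap

theorem six_c_node_399 {u v d S' : ℝ}
    (hx0 : 9559 / 10000 ≤ u) (hx1 : u < 9662 / 10000) (hy0 : 11550 / 10000 ≤ v) (hy1 : v < 20200 / 10000)
    (hz0 : 1846 / 10000 ≤ d) (hz1 : d < 2342 / 10000) (hS : SixSide d S') (_hgap : 0 ≤ sixCP.val u v d S') :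
    ∃ i j l : ℕ, 0 < (sixCCond i j l).val u v d S' := by
  exact ⟨0, 0, 0, Ex.pos_of_checkQuick six_c_up_258 (lowMem 10000 hx0 hx1) (lowMem 10000 hy0 hy1)
    (lowMem 10000 (by push_cast; linarith) hz1) (hS.mem_high (s := 673470) (by norm_num))⟩

theorem six_c_node_395 {u v d S' : ℝ}
    (hx0 : 9559 / 10000 ≤ u) (hx1 : u < 9662 / 10000) (hy0 : 11550 / 10000 ≤ v) (hy1 : v < 20200 / 10000)
    (hz0 : 1350 / 10000 ≤ d) (hz1 : d < 2342 / 10000) (hS : SixSide d S') (hgap : 0 ≤ sixCP.val u v d S') :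
    ∃ i j l : ℕ, 0 < (sixCCond i j l).val u v d S' := by
  rcases lt_or_ge d (1846 / 10000) with g | g
  · exact six_c_node_396 hx0 hx1 hy0 hy1 hz0 g hS hgap
  · exact six_c_node_399 hx0 hx1 hy0 hy1 g hz1 hS hgap

theorem six_c_node_402 {u v d S' : ℝ}
    (hx0 : 9662 / 10000 ≤ u) (hx1 : u < 9751 / 10000) (hy0 : 11550 / 10000 ≤ v) (hy1 : v < 15875 / 10000)
    (hz0 : 1350 / 10000 ≤ d) (hz1 : d < 1846 / 10000) (hS : SixSide d S') (_hgap : 0 ≤ sixCP.val u v d S') :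
    ∃ i j l : ℕ, 0 < (sixCCond i j l).val u v d S' := by
  exact ⟨0, 0, 0, Ex.pos_of_checkQuick six_c_up_259 (lowMem 10000 hx0 hx1) (lowMem 10000 hy0 hy1)
    (lowMem 10000 (by push_cast; linarith) hz1) (hS.mem_high (s := 673470) (by norm_num))⟩

theorem six_c_node_403 {u v d S' : ℝ}
    (hx0 : 9662 / 10000 ≤ u) (hx1 : u < 9751 / 10000) (hy0 : 15875 / 10000 ≤ v) (hy1 : v < 20200 / 10000)
    (hz0 : 1350 / 10000 ≤ d) (hz1 : d < 1846 / 10000) (hS : SixSide d S') (_hgap : 0 ≤ sixCP.val u v d S') :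
    ∃ i j l : ℕ, 0 < (sixCCond i j l).val u v d S' := by
  exact ⟨0, 0, 0, Ex.pos_of_checkQuick six_c_up_260 (lowMem 10000 hx0 hx1) (lowMem 10000 hy0 hy1)
    (lowMem 10000 (by push_cast; linarith) hz1) (hS.mem_high (s := 673470) (by norm_num))⟩

theorem six_c_node_401 {u v d S' : ℝ}
    (hx0 : 9662 / 10000 ≤ u) (hx1 : u < 9751 / 10000) (hy0 : 11550 / 10000 ≤ v) (hy1 : v < 20200 / 10000)
    (hz0 : 1350 / 10000 ≤ d) (hz1 : d < 1846 / 10000) (hS : SixSide d S') (hgap : 0 ≤ sixCP.val u v d S') :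
    ∃ i j l : ℕ, 0 < (sixCCond i j l).val u v d S' := by
  rcases lt_or_ge v (15875 / 10000) with g | g
  · exact six_c_node_402 hx0 hx1 hy0 g hz0 hz1 hS hgap
  · exact six_c_node_403 hx0 hx1 g hy1 hz0 hz1 hS hgap

theorem six_c_node_404 {u v d S' : ℝ}
    (hx0 : 9662 / 10000 ≤ u) (hx1 : u < 9751 / 10000) (hy0 : 11550 / 10000 ≤ v) (hy1 : v < 20200 / 10000)
    (hz0 : 1846 / 10000 ≤ d) (hz1 : d < 2342 / 10000) (hS : SixSide d S') (_hgap : 0 ≤ sixCP.val u v d S') :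
    ∃ i j l : ℕ, 0 < (sixCCond i j l).val u v d S' := by
  exact ⟨0, 0, 0, Ex.pos_of_checkQuick six_c_up_261 (lowMem 10000 hx0 hx1) (lowMem 10000 hy0 hy1)
    (lowMem 10000 (by push_cast; linarith) hz1) (hS.mem_high (s := 673470) (by norm_num))⟩

theorem six_c_node_400 {u v d S' : ℝ}
    (hx0 : 9662 / 10000 ≤ u) (hx1 : u < 9751 / 10000) (hy0 : 11550 / 10000 ≤ v) (hy1 : v < 20200 / 10000)
    (hz0 : 1350 / 10000 ≤ d) (hz1 : d < 2342 / 10000) (hS : SixSide d S') (hgap : 0 ≤ sixCP.val u v d S') :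
    ∃ i j l : ℕ, 0 < (sixCCond i j l).val u v d S' := by
  rcases lt_or_ge d (1846 / 10000) with g | g
  · exact six_c_node_401 hx0 hx1 hy0 hy1 hz0 g hS hgap
  · exact six_c_node_404 hx0 hx1 hy0 hy1 g hz1 hS hgap

theorem six_c_node_394 {u v d S' : ℝ}
    (hx0 : 9559 / 10000 ≤ u) (hx1 : u < 9751 / 10000) (hy0 : 11550 / 10000 ≤ v) (hy1 : v < 20200 / 10000)
    (hz0 : 1350 / 10000 ≤ d) (hz1 : d < 2342 / 10000) (hS : SixSide d S') (hgap : 0 ≤ sixCP.val u v d S') :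
    ∃ i j l : ℕ, 0 < (sixCCond i j l).val u v d S' := by
  rcases lt_or_ge u (9662 / 10000) with g | g
  · exact six_c_node_395 hx0 g hy0 hy1 hz0 hz1 hS hgap
  · exact six_c_node_400 g hx1 hy0 hy1 hz0 hz1 hS hgap

theorem six_c_node_392 {u v d S' : ℝ}
    (hx0 : 9559 / 10000 ≤ u) (hx1 : u < 9751 / 10000) (hy0 : 2900 / 10000 ≤ v) (hy1 : v < 20200 / 10000)
    (hz0 : 1350 / 10000 ≤ d) (hz1 : d < 2342 / 10000) (hS : SixSide d S') (hgap : 0 ≤ sixCP.val u v d S') :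
    ∃ i j l : ℕ, 0 < (sixCCond i j l).val u v d S' := by
  rcases lt_or_ge v (11550 / 10000) with g | g
  · exact six_c_node_393 hx0 hx1 hy0 g hz0 hz1 hS hgap
  · exact six_c_node_394 hx0 hx1 g hy1 hz0 hz1 hS hgap

theorem six_c_node_409 {u v d S' : ℝ}
    (hx0 : 9559 / 10000 ≤ u) (hx1 : u < 9662 / 10000) (hy0 : 2900 / 10000 ≤ v) (hy1 : v < 7225 / 10000)
    (hz0 : 2342 / 10000 ≤ d) (hz1 : d < 2838 / 10000) (hS : SixSide d S') (_hgap : 0 ≤ sixCP.val u v d S') :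
    ∃ i j l : ℕ, 0 < (sixCCond i j l).val u v d S' := by
  exact ⟨0, 1832713438, 0, Ex.pos_of_checkQuick six_c_up_262 (lowMem 10000 hx0 hx1) (lowMem 10000 hy0 hy1)
    (lowMem 10000 (by push_cast; linarith) hz1) (hS.mem_high (s := 673470) (by norm_num))⟩

theorem six_c_node_410 {u v d S' : ℝ}
    (hx0 : 9559 / 10000 ≤ u) (hx1 : u < 9662 / 10000) (hy0 : 7225 / 10000 ≤ v) (hy1 : v < 11550 / 10000)
    (hz0 : 2342 / 10000 ≤ d) (hz1 : d < 2838 / 10000) (hS : SixSide d S') (_hgap : 0 ≤ sixCP.val u v d S') :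
    ∃ i j l : ℕ, 0 < (sixCCond i j l).val u v d S' := by
  exact ⟨0, 0, 0, Ex.pos_of_checkQuick six_c_up_263 (lowMem 10000 hx0 hx1) (lowMem 10000 hy0 hy1)
    (lowMem 10000 (by push_cast; linarith) hz1) (hS.mem_high (s := 673470) (by norm_num))⟩

theorem six_c_node_408 {u v d S' : ℝ}
    (hx0 : 9559 / 10000 ≤ u) (hx1 : u < 9662 / 10000) (hy0 : 2900 / 10000 ≤ v) (hy1 : v < 11550 / 10000)
    (hz0 : 2342 / 10000 ≤ d) (hz1 : d < 2838 / 10000) (hS : SixSide d S') (hgap : 0 ≤ sixCP.val u v d S') :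
    ∃ i j l : ℕ, 0 < (sixCCond i j l).val u v d S' := by
  rcases lt_or_ge v (7225 / 10000) with g | g
  · exact six_c_node_409 hx0 hx1 hy0 g hz0 hz1 hS hgap
  · exact six_c_node_410 hx0 hx1 g hy1 hz0 hz1 hS hgap

theorem six_c_node_412 {u v d S' : ℝ}
    (hx0 : 9559 / 10000 ≤ u) (hx1 : u < 9662 / 10000) (hy0 : 2900 / 10000 ≤ v) (hy1 : v < 7225 / 10000)
    (hz0 : 2838 / 10000 ≤ d) (hz1 : d < 3334 / 10000) (hS : SixSide d S') (_hgap : 0 ≤ sixCP.val u v d S') :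
    ∃ i j l : ℕ, 0 < (sixCCond i j l).val u v d S' := by
  exact ⟨0, 1346741342, 0, Ex.pos_of_checkQuick six_c_up_264 (lowMem 10000 hx0 hx1) (lowMem 10000 hy0 hy1)
    (lowMem 10000 (by push_cast; linarith) hz1) (hS.mem_high (s := 673470) (by norm_num))⟩

theorem six_c_node_415 {u v d S' : ℝ}
    (hx0 : 9559 / 10000 ≤ u) (hx1 : u < 9612 / 10000) (hy0 : 7225 / 10000 ≤ v) (hy1 : v < 11550 / 10000)
    (hz0 : 2838 / 10000 ≤ d) (hz1 : d < 3086 / 10000) (hS : SixSide d S') (_hgap : 0 ≤ sixCP.val u v d S') :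
    ∃ i j l : ℕ, 0 < (sixCCond i j l).val u v d S' := by
  exact ⟨0, 104, 0, Ex.pos_of_checkQuick six_c_up_265 (lowMem 10000 hx0 hx1) (lowMem 10000 hy0 hy1)
    (lowMem 10000 (by push_cast; linarith) hz1) (hS.mem_high (s := 673470) (by norm_num))⟩

theorem six_c_node_417 {u v d S' : ℝ}
    (hx0 : 9559 / 10000 ≤ u) (hx1 : u < 9612 / 10000) (hy0 : 7225 / 10000 ≤ v) (hy1 : v < 9387 / 10000)
    (hz0 : 3086 / 10000 ≤ d) (hz1 : d < 3334 / 10000) (hS : SixSide d S') (_hgap : 0 ≤ sixCP.val u v d S') :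
    ∃ i j l : ℕ, 0 < (sixCCond i j l).val u v d S' := by
  exact ⟨0, 154, 0, Ex.pos_of_checkQuick six_c_up_266 (lowMem 10000 hx0 hx1) (lowMem 10000 hy0 hy1)
    (lowMem 10000 (by push_cast; linarith) hz1) (hS.mem_tri (s := 672851) (a := 3086 / 10000) (by linarith) (by norm_num))⟩

theorem six_c_node_418 {u v d S' : ℝ}
    (hx0 : 9559 / 10000 ≤ u) (hx1 : u < 9612 / 10000) (hy0 : 9387 / 10000 ≤ v) (hy1 : v < 11550 / 10000)
    (hz0 : 3086 / 10000 ≤ d) (hz1 : d < 3334 / 10000) (hS : SixSide d S') (_hgap : 0 ≤ sixCP.val u v d S') :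
    ∃ i j l : ℕ, 0 < (sixCCond i j l).val u v d S' := by
  exact ⟨0, 0, 0, Ex.pos_of_checkQuick six_c_up_267 (lowMem 10000 hx0 hx1) (lowMem 10000 hy0 hy1)
    (lowMem 10000 (by push_cast; linarith) hz1) (hS.mem_tri (s := 672851) (a := 3086 / 10000) (by linarith) (by norm_num))⟩

theorem six_c_node_416 {u v d S' : ℝ}
    (hx0 : 9559 / 10000 ≤ u) (hx1 : u < 9612 / 10000) (hy0 : 7225 / 10000 ≤ v) (hy1 : v < 11550 / 10000)
    (hz0 : 3086 / 10000 ≤ d) (hz1 : d < 3334 / 10000) (hS : SixSide d S') (hgap : 0 ≤ sixCP.val u v d S') :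
    ∃ i j l : ℕ, 0 < (sixCCond i j l).val u v d S' := by
  rcases lt_or_ge v (9387 / 10000) with g | g
  · exact six_c_node_417 hx0 hx1 hy0 g hz0 hz1 hS hgap
  · exact six_c_node_418 hx0 hx1 g hy1 hz0 hz1 hS hgap

theorem six_c_node_414 {u v d S' : ℝ}
    (hx0 : 9559 / 10000 ≤ u) (hx1 : u < 9612 / 10000) (hy0 : 7225 / 10000 ≤ v) (hy1 : v < 11550 / 10000)
    (hz0 : 2838 / 10000 ≤ d) (hz1 : d < 3334 / 10000) (hS : SixSide d S') (hgap : 0 ≤ sixCP.val u v d S') :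
    ∃ i j l : ℕ, 0 < (sixCCond i j l).val u v d S' := by
  rcases lt_or_ge d (3086 / 10000) with g | g
  · exact six_c_node_415 hx0 hx1 hy0 hy1 hz0 g hS hgap
  · exact six_c_node_416 hx0 hx1 hy0 hy1 g hz1 hS hgap

theorem six_c_node_419 {u v d S' : ℝ}
    (hx0 : 9612 / 10000 ≤ u) (hx1 : u < 9662 / 10000) (hy0 : 7225 / 10000 ≤ v) (hy1 : v < 11550 / 10000)
    (hz0 : 2838 / 10000 ≤ d) (hz1 : d < 3334 / 10000) (hS : SixSide d S') (_hgap : 0 ≤ sixCP.val u v d S') :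
    ∃ i j l : ℕ, 0 < (sixCCond i j l).val u v d S' := by
  exact ⟨0, 146, 0, Ex.pos_of_checkQuick six_c_up_268 (lowMem 10000 hx0 hx1) (lowMem 10000 hy0 hy1)
    (lowMem 10000 (by push_cast; linarith) hz1) (hS.mem_high (s := 673470) (by norm_num))⟩

theorem six_c_node_413 {u v d S' : ℝ}
    (hx0 : 9559 / 10000 ≤ u) (hx1 : u < 9662 / 10000) (hy0 : 7225 / 10000 ≤ v) (hy1 : v < 11550 / 10000)
    (hz0 : 2838 / 10000 ≤ d) (hz1 : d < 3334 / 10000) (hS : SixSide d S') (hgap : 0 ≤ sixCP.val u v d S') :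
    ∃ i j l : ℕ, 0 < (sixCCond i j l).val u v d S' := by
  rcases lt_or_ge u (9612 / 10000) with g | g
  · exact six_c_node_414 hx0 g hy0 hy1 hz0 hz1 hS hgap
  · exact six_c_node_419 g hx1 hy0 hy1 hz0 hz1 hS hgap

theorem six_c_node_411 {u v d S' : ℝ}
    (hx0 : 9559 / 10000 ≤ u) (hx1 : u < 9662 / 10000) (hy0 : 2900 / 10000 ≤ v) (hy1 : v < 11550 / 10000)
    (hz0 : 2838 / 10000 ≤ d) (hz1 : d < 3334 / 10000) (hS : SixSide d S') (hgap : 0 ≤ sixCP.val u v d S') :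
    ∃ i j l : ℕ, 0 < (sixCCond i j l).val u v d S' := by
  rcases lt_or_ge v (7225 / 10000) with g | g
  · exact six_c_node_412 hx0 hx1 hy0 g hz0 hz1 hS hgap
  · exact six_c_node_413 hx0 hx1 g hy1 hz0 hz1 hS hgap

theorem six_c_node_407 {u v d S' : ℝ}
    (hx0 : 9559 / 10000 ≤ u) (hx1 : u < 9662 / 10000) (hy0 : 2900 / 10000 ≤ v) (hy1 : v < 11550 / 10000)
    (hz0 : 2342 / 10000 ≤ d) (hz1 : d < 3334 / 10000) (hS : SixSide d S') (hgap : 0 ≤ sixCP.val u v d S') :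
    ∃ i j l : ℕ, 0 < (sixCCond i j l).val u v d S' := by
  rcases lt_or_ge d (2838 / 10000) with g | g
  · exact six_c_node_408 hx0 hx1 hy0 hy1 hz0 g hS hgap
  · exact six_c_node_411 hx0 hx1 hy0 hy1 g hz1 hS hgap

theorem six_c_node_422 {u v d S' : ℝ}
    (hx0 : 9662 / 10000 ≤ u) (hx1 : u < 9751 / 10000) (hy0 : 2900 / 10000 ≤ v) (hy1 : v < 7225 / 10000)
    (hz0 : 2342 / 10000 ≤ d) (hz1 : d < 2838 / 10000) (hS : SixSide d S') (_hgap : 0 ≤ sixCP.val u v d S') :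
    ∃ i j l : ℕ, 0 < (sixCCond i j l).val u v d S' := by
  exact ⟨0, 0, 0, Ex.pos_of_checkQuick six_c_up_269 (lowMem 10000 hx0 hx1) (lowMem 10000 hy0 hy1)
    (lowMem 10000 (by push_cast; linarith) hz1) (hS.mem_high (s := 673470) (by norm_num))⟩

theorem six_c_node_423 {u v d S' : ℝ}
    (hx0 : 9662 / 10000 ≤ u) (hx1 : u < 9751 / 10000) (hy0 : 7225 / 10000 ≤ v) (hy1 : v < 11550 / 10000)
    (hz0 : 2342 / 10000 ≤ d) (hz1 : d < 2838 / 10000) (hS : SixSide d S') (_hgap : 0 ≤ sixCP.val u v d S') :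
    ∃ i j l : ℕ, 0 < (sixCCond i j l).val u v d S' := by
  exact ⟨0, 0, 0, Ex.pos_of_checkQuick six_c_up_270 (lowMem 10000 hx0 hx1) (lowMem 10000 hy0 hy1)
    (lowMem 10000 (by push_cast; linarith) hz1) (hS.mem_high (s := 673470) (by norm_num))⟩

theorem six_c_node_421 {u v d S' : ℝ}
    (hx0 : 9662 / 10000 ≤ u) (hx1 : u < 9751 / 10000) (hy0 : 2900 / 10000 ≤ v) (hy1 : v < 11550 / 10000)
    (hz0 : 2342 / 10000 ≤ d) (hz1 : d < 2838 / 10000) (hS : SixSide d S') (hgap : 0 ≤ sixCP.val u v d S') :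
    ∃ i j l : ℕ, 0 < (sixCCond i j l).val u v d S' := by
  rcases lt_or_ge v (7225 / 10000) with g | g
  · exact six_c_node_422 hx0 hx1 hy0 g hz0 hz1 hS hgap
  · exact six_c_node_423 hx0 hx1 g hy1 hz0 hz1 hS hgap

theorem six_c_node_425 {u v d S' : ℝ}
    (hx0 : 9662 / 10000 ≤ u) (hx1 : u < 9751 / 10000) (hy0 : 2900 / 10000 ≤ v) (hy1 : v < 7225 / 10000)
    (hz0 : 2838 / 10000 ≤ d) (hz1 : d < 3334 / 10000) (hS : SixSide d S') (_hgap : 0 ≤ sixCP.val u v d S') :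
    ∃ i j l : ℕ, 0 < (sixCCond i j l).val u v d S' := by
  exact ⟨0, 1340406250, 0, Ex.pos_of_checkQuick six_c_up_271 (lowMem 10000 hx0 hx1) (lowMem 10000 hy0 hy1)
    (lowMem 10000 (by push_cast; linarith) hz1) (hS.mem_high (s := 673470) (by norm_num))⟩

theorem six_c_node_426 {u v d S' : ℝ}
    (hx0 : 9662 / 10000 ≤ u) (hx1 : u < 9751 / 10000) (hy0 : 7225 / 10000 ≤ v) (hy1 : v < 11550 / 10000)
    (hz0 : 2838 / 10000 ≤ d) (hz1 : d < 3334 / 10000) (hS : SixSide d S') (_hgap : 0 ≤ sixCP.val u v d S') :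
    ∃ i j l : ℕ, 0 < (sixCCond i j l).val u v d S' := by
  exact ⟨0, 160, 0, Ex.pos_of_checkQuick six_c_up_272 (lowMem 10000 hx0 hx1) (lowMem 10000 hy0 hy1)
    (lowMem 10000 (by push_cast; linarith) hz1) (hS.mem_high (s := 673470) (by norm_num))⟩

theorem six_c_node_424 {u v d S' : ℝ}
    (hx0 : 9662 / 10000 ≤ u) (hx1 : u < 9751 / 10000) (hy0 : 2900 / 10000 ≤ v) (hy1 : v < 11550 / 10000)
    (hz0 : 2838 / 10000 ≤ d) (hz1 : d < 3334 / 10000) (hS : SixSide d S') (hgap : 0 ≤ sixCP.val u v d S') :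
    ∃ i j l : ℕ, 0 < (sixCCond i j l).val u v d S' := by
  rcases lt_or_ge v (7225 / 10000) with g | g
  · exact six_c_node_425 hx0 hx1 hy0 g hz0 hz1 hS hgap
  · exact six_c_node_426 hx0 hx1 g hy1 hz0 hz1 hS hgap

theorem six_c_node_420 {u v d S' : ℝ}
    (hx0 : 9662 / 10000 ≤ u) (hx1 : u < 9751 / 10000) (hy0 : 2900 / 10000 ≤ v) (hy1 : v < 11550 / 10000)
    (hz0 : 2342 / 10000 ≤ d) (hz1 : d < 3334 / 10000) (hS : SixSide d S') (hgap : 0 ≤ sixCP.val u v d S') :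
    ∃ i j l : ℕ, 0 < (sixCCond i j l).val u v d S' := by
  rcases lt_or_ge d (2838 / 10000) with g | g
  · exact six_c_node_421 hx0 hx1 hy0 hy1 hz0 g hS hgap
  · exact six_c_node_424 hx0 hx1 hy0 hy1 g hz1 hS hgap

theorem six_c_node_406 {u v d S' : ℝ}
    (hx0 : 9559 / 10000 ≤ u) (hx1 : u < 9751 / 10000) (hy0 : 2900 / 10000 ≤ v) (hy1 : v < 11550 / 10000)
    (hz0 : 2342 / 10000 ≤ d) (hz1 : d < 3334 / 10000) (hS : SixSide d S') (hgap : 0 ≤ sixCP.val u v d S') :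
    ∃ i j l : ℕ, 0 < (sixCCond i j l).val u v d S' := by
  rcases lt_or_ge u (9662 / 10000) with g | g
  · exact six_c_node_407 hx0 g hy0 hy1 hz0 hz1 hS hgap
  · exact six_c_node_420 g hx1 hy0 hy1 hz0 hz1 hS hgap

theorem six_c_node_427 {u v d S' : ℝ}
    (hx0 : 9559 / 10000 ≤ u) (hx1 : u < 9751 / 10000) (hy0 : 11550 / 10000 ≤ v) (hy1 : v < 20200 / 10000)
    (hz0 : 2342 / 10000 ≤ d) (hz1 : d < 3334 / 10000) (hS : SixSide d S') (_hgap : 0 ≤ sixCP.val u v d S') :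
    ∃ i j l : ℕ, 0 < (sixCCond i j l).val u v d S' := by
  exact ⟨0, 0, 0, Ex.pos_of_checkQuick six_c_up_273 (lowMem 10000 hx0 hx1) (lowMem 10000 hy0 hy1)
    (lowMem 10000 (by push_cast; linarith) hz1) (hS.mem_high (s := 673470) (by norm_num))⟩

theorem six_c_node_405 {u v d S' : ℝ}
    (hx0 : 9559 / 10000 ≤ u) (hx1 : u < 9751 / 10000) (hy0 : 2900 / 10000 ≤ v) (hy1 : v < 20200 / 10000)
    (hz0 : 2342 / 10000 ≤ d) (hz1 : d < 3334 / 10000) (hS : SixSide d S') (hgap : 0 ≤ sixCP.val u v d S') :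
    ∃ i j l : ℕ, 0 < (sixCCond i j l).val u v d S' := by
  rcases lt_or_ge v (11550 / 10000) with g | g
  · exact six_c_node_406 hx0 hx1 hy0 g hz0 hz1 hS hgap
  · exact six_c_node_427 hx0 hx1 g hy1 hz0 hz1 hS hgap

theorem six_c_node_391 {u v d S' : ℝ}
    (hx0 : 9559 / 10000 ≤ u) (hx1 : u < 9751 / 10000) (hy0 : 2900 / 10000 ≤ v) (hy1 : v < 20200 / 10000)
    (hz0 : 1350 / 10000 ≤ d) (hz1 : d < 3334 / 10000) (hS : SixSide d S') (hgap : 0 ≤ sixCP.val u v d S') :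
    ∃ i j l : ℕ, 0 < (sixCCond i j l).val u v d S' := by
  rcases lt_or_ge d (2342 / 10000) with g | g
  · exact six_c_node_392 hx0 hx1 hy0 hy1 hz0 g hS hgap
  · exact six_c_node_405 hx0 hx1 hy0 hy1 g hz1 hS hgap

theorem six_c_node_327 {u v d S' : ℝ}
    (hx0 : 9300 / 10000 ≤ u) (hx1 : u < 9751 / 10000) (hy0 : 2900 / 10000 ≤ v) (hy1 : v < 20200 / 10000)
    (hz0 : 1350 / 10000 ≤ d) (hz1 : d < 3334 / 10000) (hS : SixSide d S') (hgap : 0 ≤ sixCP.val u v d S') :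
    ∃ i j l : ℕ, 0 < (sixCCond i j l).val u v d S' := by
  rcases lt_or_ge u (9559 / 10000) with g | g
  · exact six_c_node_328 hx0 g hy0 hy1 hz0 hz1 hS hgap
  · exact six_c_node_391 g hx1 hy0 hy1 hz0 hz1 hS hgap

theorem six_c_node_428 {u v d S' : ℝ}
    (hx0 : 9300 / 10000 ≤ u) (hx1 : u < 9751 / 10000) (hy0 : 20200 / 10000 ≤ v) (hy1 : v < 37501 / 10000)
    (hz0 : 1350 / 10000 ≤ d) (hz1 : d < 3334 / 10000) (hS : SixSide d S') (_hgap : 0 ≤ sixCP.val u v d S') :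
    ∃ i j l : ℕ, 0 < (sixCCond i j l).val u v d S' := by
  exact ⟨0, 0, 0, Ex.pos_of_checkQuick six_c_up_274 (lowMem 10000 hx0 hx1) (lowMem 10000 hy0 hy1)
    (lowMem 10000 (by push_cast; linarith) hz1) (hS.mem_high (s := 673470) (by norm_num))⟩

theorem six_c_node_326 {u v d S' : ℝ}
    (hx0 : 9300 / 10000 ≤ u) (hx1 : u < 9751 / 10000) (hy0 : 2900 / 10000 ≤ v) (hy1 : v < 37501 / 10000)
    (hz0 : 1350 / 10000 ≤ d) (hz1 : d < 3334 / 10000) (hS : SixSide d S') (hgap : 0 ≤ sixCP.val u v d S') :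
    ∃ i j l : ℕ, 0 < (sixCCond i j l).val u v d S' := by
  rcases lt_or_ge v (20200 / 10000) with g | g
  · exact six_c_node_327 hx0 hx1 hy0 g hz0 hz1 hS hgap
  · exact six_c_node_428 hx0 hx1 g hy1 hz0 hz1 hS hgap

/-- The rung condition on piece C. -/
theorem six_c_up_sign {u v d S' : ℝ} (hu : 1 / 2 ≤ u) (hu1 : u ≤ 39 / 40) (hv : 29 / 100 ≤ v)
    (hv1 : v ≤ 15 / 4) (h0 : 27 / 200 ≤ d) (h1 : d ≤ 1 / 3) (hS : SixSide d S')
    (hgap : 0 ≤ sixCP.val u v d S') : ∃ i j l : ℕ, 0 < (sixCCond i j l).val u v d S' := by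
  rcases lt_or_ge u (7000 / 10000) with g0 | g0
  · exact six_c_node_1 (by linarith) (by linarith) (by linarith) (by linarith) (by linarith) (by linarith) hS hgap
  rcases lt_or_ge u (8500 / 10000) with g1 | g1
  · exact six_c_node_10 (by linarith) (by linarith) (by linarith) (by linarith) (by linarith) (by linarith) hS hgap
  rcases lt_or_ge u (9300 / 10000) with g2 | g2
  · exact six_c_node_97 (by linarith) (by linarith) (by linarith) (by linarith) (by linarith) (by linarith) hS hgap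
  exact six_c_node_326 (by linarith) (by linarith) (by linarith) (by linarith) (by linarith) (by linarith) hS hgap

end Vale.Agent.P100.Calib.Band
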