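import Vale.Agent.P100.Calib.SlabSixTop
import Vale.Agent.P100.Calib.SlabSixUpperA
import Vale.Agent.P100.Calib.SlabSixUpperB
import Vale.Agent.P100.Calib.SlabSixUpperC

/-!
# The threshold and the last strip on the pieces of dimension six
-/

namespace Vale.Agent.P100.Calib.Band

open BoxPos Bubble Chart

local instance sixTopPiecesAdd : Add Ex := ⟨Ex.add⟩
local instance sixTopPiecesMul : Mul Ex := ⟨Ex.mul⟩

variable {N p q : ℝ} {S : Set ℝ} {R x y s dx dy : ℝ → ℝ}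

theorem six_a_band_num {u v d S' : ℝ} (h0 : 0 ≤ d) (h1 : d ≤ 3 / 100) (hu : u ≤ 39 / 40) :
    0 < sixAG.val u v d S' ∧ (sixAN + sixANb * eV).val u v d S' =
      (sixUpA d u + sixTiltA d u * v) * sixAG.val u v d S' := by
  obtain ⟨eN, eB, eG⟩ := six_a_val (u := u) (v := v) (d := d) (S' := S')
  have hg : 0 < sixAG.val u v d S' := by
    rw [eG]; linarith [six_a_den_pos h0 h1]
  refine ⟨hg, ?_⟩
  have e1 : sixUpA d u = sixAN.val u v d S' / sixAG.val u v d S' := by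
    rw [eN, eG]; simp only [sixUpA]; ring
  have e2 : sixTiltA d u = sixANb.val u v d S' / sixAG.val u v d S' := by
    rw [eB, eG]; simp only [sixTiltA]; ring
  rw [e1, e2, add_mul, mul_assoc, mul_comm v, ← mul_assoc, div_mul_cancel₀ _ hg.ne',
    div_mul_cancel₀ _ hg.ne']
  simp only [val_addU, val_mulU, Ex.val]

theorem six_a_psi_neg {v d S' : ℝ} (hv : 29 / 100 ≤ v) (hlt : v < 11 / 10 - d) (h0 : 0 ≤ d)
    (h1 : d ≤ 3 / 100) (hS : SixSide d S') :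
    exitP S' d (39 / 40) v (sixUpA d (39 / 40) + sixTiltA d (39 / 40) * v) 1 0 < 0 := by
  obtain ⟨m, hc⟩ := six_a_psi_sign (S' := S') hv (show v < 11000 / 10000 by linarith) h0 h1 hS
  obtain ⟨hg, hn⟩ := six_a_band_num (u := 39 / 40) (v := v) (S' := S') h0 h1 le_rfl
  simp only [sixPsiCond, sixPsiGap, val_subU, val_mulU (eC m 1000), val_dvH_rat _ _ _ _ hn,
    Ex.val] at hc
  push_cast at hc
  have := mul_nonneg (show (0 : ℝ) ≤ (m : ℝ) / 1000 by positivity) (sub_pos.2 hlt).le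
  refine neg_pos.1 (pos_of_mul_pos_right (a := sixAG.val (39 / 40) v d S')
    (b := -exitP S' d (39 / 40) v (sixUpA d (39 / 40) + sixTiltA d (39 / 40) * v) 1 0) ?_ hg.le)
  linarith

/-- **`11/10 - d ≤ v` from `u = 39/40` on, piece A.** -/
theorem orbit_psi_sixA (hf : IsOrbitFns N p q S R x y s dx dy)
    (hb : SlabBoxSix N (1 / (p + 1)) (1 / (q + 1)))
    (h0 : 0 ≤ 1 / (q + 1) - 1 / (p + 1)) (h1 : 1 / (q + 1) - 1 / (p + 1) ≤ 3 / 100)
    (hS : 1 / (p + 1) + 1 / (q + 1) ≤ 2 / 3 + (1 / (q + 1) - 1 / (p + 1)) ^ 2 / 4)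
    (hphi : ∀ w ∈ S, 0 < R w → 1 / 2 ≤ uOf N (R w) (x w) → uOf N (R w) (x w) ≤ 39 / 40 →
      vOf (1 / (p + 1)) (1 / (q + 1)) (y w / x w) <
        sixPhiA (1 / (q + 1) - 1 / (p + 1)) (uOf N (R w) (x w)))
    {w : ℝ} (hw : w ∈ S) (hw0 : 0 < R w) (hu : 39 / 40 ≤ uOf N (R w) (x w)) :
    11 / 10 - (1 / (q + 1) - 1 / (p + 1)) ≤ vOf (1 / (p + 1)) (1 / (q + 1)) (y w / x w) :=
  orbit_psi_ratio_six hf hb
    (fun z hz hz0 hzu => orbit_upperTail_sixA hf hb h0 h1 hS hphi hz hz0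
      (by rw [hzu]; norm_num) hzu.le)
    (fun v hv hlt => six_a_psi_neg hv hlt h0 h1 (hb.sixSide hS)) hw hw0 hu

theorem six_a_join {u v d S' : ℝ} (hu : 9749 / 10000 ≤ u) (hu1 : u ≤ 39 / 40)
    (hv : 29 / 100 ≤ v) (hv1 : v ≤ 15 / 4) (h0 : 0 ≤ d) (h1 : d ≤ 3 / 100) (hS : SixSide d S')
    (hp : 0 < exitP S' d u v (sixUpA d u + sixTiltA d u * v) 1 0) :
    sixUpA d u + sixTiltA d u * v ≤ (sixLayC d + v / 10) / (1 + d - u) := by
  obtain ⟨m, hc⟩ := six_a_join_sign (S' := S') hu hu1 hv hv1 h0 h1 hS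
  obtain ⟨hg, hn⟩ := six_a_band_num (u := u) (v := v) (S' := S') h0 (show d ≤ 3 / 100 by linarith) hu1
  simp only [sixJoinCond, sixJoinGap, val_addU (Ex.sub _ _), val_subU, val_mulU (eC m 1000),
    val_dvH_rat _ _ _ _ hn, val_mulU, eQuad, val_addU, Ex.val] at hc
  simp only [val_addU, val_mulU, Ex.val] at hn
  rw [hn] at hc
  push_cast at hc
  have hq : 0 < 1 + d - u := by linarith
  rw [le_div_iff₀ hq, ← sub_nonneg]
  have h := mul_pos hg hp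
  refine le_of_lt (pos_of_mul_pos_right (a := (m : ℝ) / 1000 * sixAG.val u v d S') ?_
    (mul_nonneg (by positivity) hg.le))
  simp only [sixLayC]
  linarith

theorem six_a_crude_le {u v d S' : ℝ} (hu : 1 / 2 ≤ u) (hu1 : u ≤ 39 / 40)
    (hv : 29 / 100 ≤ v) (hv1 : v ≤ 15 / 4) (h0 : 0 ≤ d) (h1 : d ≤ 3 / 100)
    (hS : SixSide d S') : sixUpA d u + sixTiltA d u * v ≤ 160 := by
  have k : 0 < (sixCrude sixAN sixANb sixAG).val u v d S' :=
    Ex.pos_of_checkQuick six_a_crude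
      (lowMem 10000 (by push_cast; linarith) (by push_cast; linarith))
      (lowMem 10000 (by push_cast; linarith) (by push_cast; linarith))
      (lowMem 10000 (by push_cast; linarith) (by push_cast; linarith))
      (hS.mem_high (by norm_num))
  obtain ⟨hg, hn⟩ := six_a_band_num (u := u) (v := v) (S' := S') h0 (show d ≤ 3 / 100 by linarith) hu1
  simp only [sixCrude, val_subU, val_addU, val_mulU, Ex.val] at k
  simp only [val_addU, val_mulU, Ex.val] at hn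
  rw [hn] at k
  push_cast at k
  refine le_of_mul_le_mul_right ?_ hg
  linarith

/-- **The last strip, piece A.** -/
theorem orbit_layer_sixA (hf : IsOrbitFns N p q S R x y s dx dy)
    (hb : SlabBoxSix N (1 / (p + 1)) (1 / (q + 1)))
    (h0 : 0 ≤ 1 / (q + 1) - 1 / (p + 1)) (h1 : 1 / (q + 1) - 1 / (p + 1) ≤ 3 / 100)
    (hd : 1 / (q + 1) - 1 / (p + 1) < 1 / 16)
    (hS : 1 / (p + 1) + 1 / (q + 1) ≤ 2 / 3 + (1 / (q + 1) - 1 / (p + 1)) ^ 2 / 4)
    (hphi : ∀ w ∈ S, 0 < R w → 1 / 2 ≤ uOf N (R w) (x w) → uOf N (R w) (x w) ≤ 39 / 40 →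
      vOf (1 / (p + 1)) (1 / (q + 1)) (y w / x w) <
        sixPhiA (1 / (q + 1) - 1 / (p + 1)) (uOf N (R w) (x w)))
    {w : ℝ} (hw : w ∈ S) (hw0 : 0 < R w) (hu : 39 / 40 ≤ uOf N (R w) (x w))
    (hwu : uOf N (R w) (x w) ≤ 1 - 2 / 5 * (1 / (q + 1) - 1 / (p + 1))) :
    hOf N (R w) (x w) (y w) w < bandT N (1 / (p + 1)) (1 / (q + 1)) (1 / (q + 1) - 1 / (p + 1))
        (fun u => sixLayC (1 / (q + 1) - 1 / (p + 1)) / (1 - u + (1 / (q + 1) - 1 / (p + 1))))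
        (uOf N (R w) (x w)) (y w / x w) +
      (1 / (q + 1) - 1 / (p + 1)) * uOf N (R w) (x w) *
        (1 / 10 / (1 - uOf N (R w) (x w) + (1 / (q + 1) - 1 / (p + 1))) *
          vOf (1 / (p + 1)) (1 / (q + 1)) (y w / x w)) :=
  orbit_layer_ratio_six hf hb hd hS
    (fun z hz hz0 hzu hzu1 => orbit_upperTail_sixA hf hb h0 h1 hS hphi hz hz0 hzu hzu1)
    (fun u v hu hu1 hv hv1 hp =>
      six_a_join hu hu1 hv hv1 h0 (by linarith) (hb.sixSide hS) hp)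
    (fun u v hu hu1 hv hv1 =>
      six_a_crude_le hu hu1 hv hv1 h0 (by linarith) (hb.sixSide hS))
    hw hw0 hu hwu

theorem six_b_band_num {u v d S' : ℝ} (h0 : 3 / 100 ≤ d) (h1 : d ≤ 27 / 200) (hu : u ≤ 39 / 40) :
    0 < sixBG.val u v d S' ∧ (sixBN + sixBNb * eV).val u v d S' =
      (sixUpB d u + sixTiltB d u * v) * sixBG.val u v d S' := by
  obtain ⟨eN, eB, eG⟩ := six_b_val (u := u) (v := v) (d := d) (S' := S')
  have hg : 0 < sixBG.val u v d S' := by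
    rw [eG]; linarith [six_b_den_pos h0 h1]
  refine ⟨hg, ?_⟩
  have e1 : sixUpB d u = sixBN.val u v d S' / sixBG.val u v d S' := by
    rw [eN, eG]; simp only [sixUpB]; ring
  have e2 : sixTiltB d u = sixBNb.val u v d S' / sixBG.val u v d S' := by
    rw [eB, eG]; simp only [sixTiltB]; ring
  rw [e1, e2, add_mul, mul_assoc, mul_comm v, ← mul_assoc, div_mul_cancel₀ _ hg.ne',
    div_mul_cancel₀ _ hg.ne']
  simp only [val_addU, val_mulU, Ex.val]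

theorem six_b_psi_neg {v d S' : ℝ} (hv : 29 / 100 ≤ v) (hlt : v < 11 / 10 - d) (h0 : 3 / 100 ≤ d)
    (h1 : d ≤ 27 / 200) (hS : SixSide d S') :
    exitP S' d (39 / 40) v (sixUpB d (39 / 40) + sixTiltB d (39 / 40) * v) 1 0 < 0 := by
  obtain ⟨m, hc⟩ := six_b_psi_sign (S' := S') hv (show v < 10701 / 10000 by linarith) h0 h1 hS
  obtain ⟨hg, hn⟩ := six_b_band_num (u := 39 / 40) (v := v) (S' := S') h0 h1 le_rfl
  simp only [sixPsiCond, sixPsiGap, val_subU, val_mulU (eC m 1000), val_dvH_rat _ _ _ _ hn,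
    Ex.val] at hc
  push_cast at hc
  have := mul_nonneg (show (0 : ℝ) ≤ (m : ℝ) / 1000 by positivity) (sub_pos.2 hlt).le
  refine neg_pos.1 (pos_of_mul_pos_right (a := sixBG.val (39 / 40) v d S')
    (b := -exitP S' d (39 / 40) v (sixUpB d (39 / 40) + sixTiltB d (39 / 40) * v) 1 0) ?_ hg.le)
  linarith

/-- **`11/10 - d ≤ v` from `u = 39/40` on, piece B.** -/
theorem orbit_psi_sixB (hf : IsOrbitFns N p q S R x y s dx dy)
    (hb : SlabBoxSix N (1 / (p + 1)) (1 / (q + 1)))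
    (h0 : 3 / 100 ≤ 1 / (q + 1) - 1 / (p + 1)) (h1 : 1 / (q + 1) - 1 / (p + 1) ≤ 27 / 200)
    (hS : 1 / (p + 1) + 1 / (q + 1) ≤ 2 / 3 + (1 / (q + 1) - 1 / (p + 1)) ^ 2 / 4)
    (hphi : ∀ w ∈ S, 0 < R w → 1 / 2 ≤ uOf N (R w) (x w) → uOf N (R w) (x w) ≤ 39 / 40 →
      vOf (1 / (p + 1)) (1 / (q + 1)) (y w / x w) <
        sixPhiB (1 / (q + 1) - 1 / (p + 1)) (uOf N (R w) (x w)))
    {w : ℝ} (hw : w ∈ S) (hw0 : 0 < R w) (hu : 39 / 40 ≤ uOf N (R w) (x w)) :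
    11 / 10 - (1 / (q + 1) - 1 / (p + 1)) ≤ vOf (1 / (p + 1)) (1 / (q + 1)) (y w / x w) :=
  orbit_psi_ratio_six hf hb
    (fun z hz hz0 hzu => orbit_upperTail_sixB hf hb h0 h1 hS hphi hz hz0
      (by rw [hzu]; norm_num) hzu.le)
    (fun v hv hlt => six_b_psi_neg hv hlt h0 h1 (hb.sixSide hS)) hw hw0 hu

theorem six_b_join {u v d S' : ℝ} (hu : 9749 / 10000 ≤ u) (hu1 : u ≤ 39 / 40)
    (hv : 29 / 100 ≤ v) (hv1 : v ≤ 15 / 4) (h0 : 3 / 100 ≤ d) (h1 : d ≤ 1 / 16) (hS : SixSide d S')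
    (hp : 0 < exitP S' d u v (sixUpB d u + sixTiltB d u * v) 1 0) :
    sixUpB d u + sixTiltB d u * v ≤ (sixLayC d + v / 10) / (1 + d - u) := by
  obtain ⟨m, hc⟩ := six_b_join_sign (S' := S') hu hu1 hv hv1 h0 h1 hS
  obtain ⟨hg, hn⟩ := six_b_band_num (u := u) (v := v) (S' := S') h0 (show d ≤ 27 / 200 by linarith) hu1
  simp only [sixJoinCond, sixJoinGap, val_addU (Ex.sub _ _), val_subU, val_mulU (eC m 1000),
    val_dvH_rat _ _ _ _ hn, val_mulU, eQuad, val_addU, Ex.val] at hc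
  simp only [val_addU, val_mulU, Ex.val] at hn
  rw [hn] at hc
  push_cast at hc
  have hq : 0 < 1 + d - u := by linarith
  rw [le_div_iff₀ hq, ← sub_nonneg]
  have h := mul_pos hg hp
  refine le_of_lt (pos_of_mul_pos_right (a := (m : ℝ) / 1000 * sixBG.val u v d S') ?_
    (mul_nonneg (by positivity) hg.le))
  simp only [sixLayC]
  linarith

theorem six_b_crude_le {u v d S' : ℝ} (hu : 1 / 2 ≤ u) (hu1 : u ≤ 39 / 40)
    (hv : 29 / 100 ≤ v) (hv1 : v ≤ 15 / 4) (h0 : 3 / 100 ≤ d) (h1 : d ≤ 1 / 16)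
    (hS : SixSide d S') : sixUpB d u + sixTiltB d u * v ≤ 160 := by
  have k : 0 < (sixCrude sixBN sixBNb sixBG).val u v d S' :=
    Ex.pos_of_checkQuick six_b_crude
      (lowMem 10000 (by push_cast; linarith) (by push_cast; linarith))
      (lowMem 10000 (by push_cast; linarith) (by push_cast; linarith))
      (lowMem 10000 (by push_cast; linarith) (by push_cast; linarith))
      (hS.mem_high (by norm_num))
  obtain ⟨hg, hn⟩ := six_b_band_num (u := u) (v := v) (S' := S') h0 (show d ≤ 27 / 200 by linarith) hu1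
  simp only [sixCrude, val_subU, val_addU, val_mulU, Ex.val] at k
  simp only [val_addU, val_mulU, Ex.val] at hn
  rw [hn] at k
  push_cast at k
  refine le_of_mul_le_mul_right ?_ hg
  linarith

/-- **The last strip, piece B.** -/
theorem orbit_layer_sixB (hf : IsOrbitFns N p q S R x y s dx dy)
    (hb : SlabBoxSix N (1 / (p + 1)) (1 / (q + 1)))
    (h0 : 3 / 100 ≤ 1 / (q + 1) - 1 / (p + 1)) (h1 : 1 / (q + 1) - 1 / (p + 1) ≤ 27 / 200)
    (hd : 1 / (q + 1) - 1 / (p + 1) < 1 / 16)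
    (hS : 1 / (p + 1) + 1 / (q + 1) ≤ 2 / 3 + (1 / (q + 1) - 1 / (p + 1)) ^ 2 / 4)
    (hphi : ∀ w ∈ S, 0 < R w → 1 / 2 ≤ uOf N (R w) (x w) → uOf N (R w) (x w) ≤ 39 / 40 →
      vOf (1 / (p + 1)) (1 / (q + 1)) (y w / x w) <
        sixPhiB (1 / (q + 1) - 1 / (p + 1)) (uOf N (R w) (x w)))
    {w : ℝ} (hw : w ∈ S) (hw0 : 0 < R w) (hu : 39 / 40 ≤ uOf N (R w) (x w))
    (hwu : uOf N (R w) (x w) ≤ 1 - 2 / 5 * (1 / (q + 1) - 1 / (p + 1))) :
    hOf N (R w) (x w) (y w) w < bandT N (1 / (p + 1)) (1 / (q + 1)) (1 / (q + 1) - 1 / (p + 1))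
        (fun u => sixLayC (1 / (q + 1) - 1 / (p + 1)) / (1 - u + (1 / (q + 1) - 1 / (p + 1))))
        (uOf N (R w) (x w)) (y w / x w) +
      (1 / (q + 1) - 1 / (p + 1)) * uOf N (R w) (x w) *
        (1 / 10 / (1 - uOf N (R w) (x w) + (1 / (q + 1) - 1 / (p + 1))) *
          vOf (1 / (p + 1)) (1 / (q + 1)) (y w / x w)) :=
  orbit_layer_ratio_six hf hb hd hS
    (fun z hz hz0 hzu hzu1 => orbit_upperTail_sixB hf hb h0 h1 hS hphi hz hz0 hzu hzu1)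
    (fun u v hu hu1 hv hv1 hp =>
      six_b_join hu hu1 hv hv1 h0 (by linarith) (hb.sixSide hS) hp)
    (fun u v hu hu1 hv hv1 =>
      six_b_crude_le hu hu1 hv hv1 h0 (by linarith) (hb.sixSide hS))
    hw hw0 hu hwu

theorem six_c_band_num {u v d S' : ℝ} (h0 : 27 / 200 ≤ d) (h1 : d ≤ 1 / 3) (hu : u ≤ 39 / 40) :
    0 < sixCG.val u v d S' ∧ (sixCN + sixCNb * eV).val u v d S' =
      (sixUpC d u + sixTiltC d u * v) * sixCG.val u v d S' := by
  obtain ⟨eN, eB, eG⟩ := six_c_val (u := u) (v := v) (d := d) (S' := S')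
  have hg : 0 < sixCG.val u v d S' := by
    rw [eG]; linarith [six_c_den_pos h0 h1]
  refine ⟨hg, ?_⟩
  have e1 : sixUpC d u = sixCN.val u v d S' / sixCG.val u v d S' := by
    rw [eN, eG]; simp only [sixUpC]; ring
  have e2 : sixTiltC d u = sixCNb.val u v d S' / sixCG.val u v d S' := by
    rw [eB, eG]; simp only [sixTiltC]; ring
  rw [e1, e2, add_mul, mul_assoc, mul_comm v, ← mul_assoc, div_mul_cancel₀ _ hg.ne',
    div_mul_cancel₀ _ hg.ne']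
  simp only [val_addU, val_mulU, Ex.val]

theorem six_c_psi_neg {v d S' : ℝ} (hv : 29 / 100 ≤ v) (hlt : v < 11 / 10 - d) (h0 : 27 / 200 ≤ d)
    (h1 : d ≤ 1 / 3) (hS : SixSide d S') :
    exitP S' d (39 / 40) v (sixUpC d (39 / 40) + sixTiltC d (39 / 40) * v) 1 0 < 0 := by
  obtain ⟨m, hc⟩ := six_c_psi_sign (S' := S') hv (show v < 9651 / 10000 by linarith) h0 h1 hS
  obtain ⟨hg, hn⟩ := six_c_band_num (u := 39 / 40) (v := v) (S' := S') h0 h1 le_rfl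
  simp only [sixPsiCond, sixPsiGap, val_subU, val_mulU (eC m 1000), val_dvH_rat _ _ _ _ hn,
    Ex.val] at hc
  push_cast at hc
  have := mul_nonneg (show (0 : ℝ) ≤ (m : ℝ) / 1000 by positivity) (sub_pos.2 hlt).le
  refine neg_pos.1 (pos_of_mul_pos_right (a := sixCG.val (39 / 40) v d S')
    (b := -exitP S' d (39 / 40) v (sixUpC d (39 / 40) + sixTiltC d (39 / 40) * v) 1 0) ?_ hg.le)
  linarith

/-- **`11/10 - d ≤ v` from `u = 39/40` on, piece C.** -/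
theorem orbit_psi_sixC (hf : IsOrbitFns N p q S R x y s dx dy)
    (hb : SlabBoxSix N (1 / (p + 1)) (1 / (q + 1)))
    (h0 : 27 / 200 ≤ 1 / (q + 1) - 1 / (p + 1)) (h1 : 1 / (q + 1) - 1 / (p + 1) ≤ 1 / 3)
    (hS : 1 / (p + 1) + 1 / (q + 1) ≤ 2 / 3 + (1 / (q + 1) - 1 / (p + 1)) ^ 2 / 4)
    (hphi : ∀ w ∈ S, 0 < R w → 1 / 2 ≤ uOf N (R w) (x w) → uOf N (R w) (x w) ≤ 39 / 40 →
      vOf (1 / (p + 1)) (1 / (q + 1)) (y w / x w) <
        sixPhiC (1 / (q + 1) - 1 / (p + 1)) (uOf N (R w) (x w)))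
    {w : ℝ} (hw : w ∈ S) (hw0 : 0 < R w) (hu : 39 / 40 ≤ uOf N (R w) (x w)) :
    11 / 10 - (1 / (q + 1) - 1 / (p + 1)) ≤ vOf (1 / (p + 1)) (1 / (q + 1)) (y w / x w) :=
  orbit_psi_ratio_six hf hb
    (fun z hz hz0 hzu => orbit_upperTail_sixC hf hb h0 h1 hS hphi hz hz0
      (by rw [hzu]; norm_num) hzu.le)
    (fun v hv hlt => six_c_psi_neg hv hlt h0 h1 (hb.sixSide hS)) hw hw0 hu

end Vale.Agent.P100.Calib.Band
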