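import Vale.Agent.P100.Calib.SlabAssemblySix
import Vale.Agent.P100.Calib.SlabSixTopPieces

/-!
# The bands of dimension six beyond `u = 3/5` from the exit curves

With the exit curve of a piece on `[1/2, uLast]`, the tilted upper band, the last strip and the
threshold give the orbit inputs of the assembly.
-/

namespace Vale.Agent.P100.Calib.Closed.Six

/-- The pinch bounds `S`. -/
theorem ChartBox.S_le {d S : ℝ} (h : ChartBox d S) : S ≤ 2 / 3 + d ^ 2 / 4 := by
  by_contra hn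
  rw [not_le] at hn
  have h0 := h.S_low
  have h1 := h.tri
  have := h.pos
  have h2 : (S - d) ^ 2 ≤ S ^ 2 := pow_le_pow_left₀ (by linarith) (by linarith) 2
  have h3 := mul_le_mul_of_nonneg_right h2 (sq_nonneg d)
  have h4 : d ^ 2 * (3 / 4) * S ^ 3 < (3 * S - 2) * S ^ 3 :=
    mul_lt_mul_of_pos_right (by linarith) (pow_pos (by linarith) 3)
  have h5 := mul_le_mul_of_nonneg_left h0.le (mul_nonneg (sq_nonneg d) (sq_nonneg S))
  have := h.pinch
  linarith

/-- The triangle bounds `d`. -/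
theorem ChartBox.d_le {d S : ℝ} (h : ChartBox d S) : d ≤ 1 / 3 := by
  linarith [h.tri, h.S_low]

end Vale.Agent.P100.Calib.Closed.Six

namespace Vale.Agent.P100.Calib.Band

open Vale.Agent.P100.Bubble Chart Closed

/-- The exit curve of a piece from `u = 1/2` on. -/
def OrbitSixPhi (B : Six.Bands) (d₀ d₁ : ℝ) : Prop :=
  ∀ (N p q : ℝ) (S : Set ℝ) (R x y s dx dy : ℝ → ℝ), IsCrit N p q →
    IsOrbitFns N p q S R x y s dx dy → SlabBoxSix N (1 / (p + 1)) (1 / (q + 1)) →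
    Six.ChartBox (1 / (q + 1) - 1 / (p + 1)) (1 / (p + 1) + 1 / (q + 1)) →
    d₀ ≤ 1 / (q + 1) - 1 / (p + 1) → 1 / (q + 1) - 1 / (p + 1) ≤ d₁ →
    ∀ z ∈ S, 0 < R z →
      let d := 1 / (q + 1) - 1 / (p + 1)
      let u := uOf N (R z) (x z)
      1 / 2 ≤ u → u ≤ Six.uLast d → vOf (1 / (p + 1)) (1 / (q + 1)) (y z / x z) < B.phi d u

section
variable {N p q : ℝ} {S : Set ℝ} {R x y s dx dy : ℝ → ℝ} {B : Six.Bands} {d₀ d₁ : ℝ}

theorem OrbitSixPhi.half (hP : OrbitSixPhi B d₀ d₁) (hc : IsCrit N p q)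
    (h : IsOrbitFns N p q S R x y s dx dy) (hb : SlabBoxSix N (1 / (p + 1)) (1 / (q + 1)))
    (hcb : Six.ChartBox (1 / (q + 1) - 1 / (p + 1)) (1 / (p + 1) + 1 / (q + 1)))
    (g0 : d₀ ≤ 1 / (q + 1) - 1 / (p + 1)) (g1 : 1 / (q + 1) - 1 / (p + 1) ≤ d₁) :
    ∀ w ∈ S, 0 < R w → 1 / 2 ≤ uOf N (R w) (x w) → uOf N (R w) (x w) ≤ 39 / 40 →
      vOf (1 / (p + 1)) (1 / (q + 1)) (y w / x w) <
        B.phi (1 / (q + 1) - 1 / (p + 1)) (uOf N (R w) (x w)) := fun w hw hw0 hu hu' =>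
  hP N p q S R x y s dx dy hc h hb hcb g0 g1 w hw hw0 hu (hu'.trans (le_max_left _ _))

end

/-- The bands of piece A. -/
theorem orbitSixTail_A (hP : OrbitSixPhi Six.bandsA 0 (3 / 100)) :
    OrbitSixTail Six.bandsA 0 (3 / 100) := by
  intro N p q S R x y s dx dy hc h hb hcb g0 g1 z hz hR
  refine ⟨fun hu hu' => hP N p q S R x y s dx dy hc h hb hcb g0 g1 z hz hR (by linarith) hu',
    fun hu hu' => ((bandT_tau_six hc h hb hz hR _ _).2).1
      (orbit_upperTail_sixA h hb g0 g1 hcb.S_le (hP.half hc h hb hcb g0 g1) hz hR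
        (by linarith) hu'), fun hd hu hu' => ?_⟩
  refine lt_of_lt_of_eq (((bandT_tau_six hc h hb hz hR _ _).2).1
    (orbit_layer_sixA h hb g0 g1 hd hcb.S_le (hP.half hc h hb hcb g0 g1) hz hR hu hu')) ?_
  simp only [sixLayC]; ring

/-- The bands of piece B. -/
theorem orbitSixTail_B (hP : OrbitSixPhi Six.bandsB (3 / 100) (27 / 200)) :
    OrbitSixTail Six.bandsB (3 / 100) (27 / 200) := by
  intro N p q S R x y s dx dy hc h hb hcb g0 g1 z hz hR
  refine ⟨fun hu hu' => hP N p q S R x y s dx dy hc h hb hcb g0 g1 z hz hR (by linarith) hu',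
    fun hu hu' => ((bandT_tau_six hc h hb hz hR _ _).2).1
      (orbit_upperTail_sixB h hb g0 g1 hcb.S_le (hP.half hc h hb hcb g0 g1) hz hR
        (by linarith) hu'), fun hd hu hu' => ?_⟩
  refine lt_of_lt_of_eq (((bandT_tau_six hc h hb hz hR _ _).2).1
    (orbit_layer_sixB h hb g0 g1 hd hcb.S_le (hP.half hc h hb hcb g0 g1) hz hR hu hu')) ?_
  simp only [sixLayC]; ring

/-- The bands of piece C. -/
theorem orbitSixTail_C (hP : OrbitSixPhi Six.bandsC (27 / 200) (1 / 3)) :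
    OrbitSixTail Six.bandsC (27 / 200) (1 / 3) := by
  intro N p q S R x y s dx dy hc h hb hcb g0 g1 z hz hR
  exact ⟨fun hu hu' => hP N p q S R x y s dx dy hc h hb hcb g0 g1 z hz hR (by linarith) hu',
    fun hu hu' => ((bandT_tau_six hc h hb hz hR _ _).2).1
      (orbit_upperTail_sixC h hb g0 g1 hcb.S_le (hP.half hc h hb hcb g0 g1) hz hR
        (by linarith) hu'), fun hd => absurd hd (not_lt.2 (by linarith))⟩

/-- The threshold from the exit curves. -/
theorem orbitSixPsi (hA : OrbitSixPhi Six.bandsA 0 (3 / 100))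
    (hB : OrbitSixPhi Six.bandsB (3 / 100) (27 / 200))
    (hC : OrbitSixPhi Six.bandsC (27 / 200) (1 / 3)) : OrbitSixPsi := by
  intro N p q S R x y s dx dy hc h hb hcb z hz hR hu
  rcases le_total (1 / (q + 1) - 1 / (p + 1)) (3 / 100) with g | g
  · exact orbit_psi_sixA h hb hcb.pos.le g hcb.S_le (hA.half hc h hb hcb hcb.pos.le g) hz hR hu
  rcases le_total (1 / (q + 1) - 1 / (p + 1)) (27 / 200) with k | k
  · exact orbit_psi_sixB h hb g k hcb.S_le (hB.half hc h hb hcb g k) hz hR hu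
  · exact orbit_psi_sixC h hb k hcb.d_le hcb.S_le (hC.half hc h hb hcb k hcb.d_le) hz hR hu

/-- **Dimension six from the closed signs, the lower band and the exit curves.** -/
theorem slabClosedSix_of_phi (hn : Six.SignsNeg) (hl : Six.SignsLow)
    (tA : Six.SignsTail Six.bandsA 0 (3 / 100))
    (tB : Six.SignsTail Six.bandsB (3 / 100) (27 / 200))
    (tC : Six.SignsTail Six.bandsC (27 / 200) (1 / 3))
    (yA : Six.SignsLayer Six.bandsA 0 (3 / 100))
    (yB : Six.SignsLayer Six.bandsB (3 / 100) (27 / 200)) (he : Six.SignsEnd)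
    (oL : OrbitSixLow) (pA : OrbitSixPhi Six.bandsA 0 (3 / 100))
    (pB : OrbitSixPhi Six.bandsB (3 / 100) (27 / 200))
    (pC : OrbitSixPhi Six.bandsC (27 / 200) (1 / 3)) : SlabClosedSix :=
  slabClosedSix_of hn hl tA tB tC yA yB he oL (orbitSixTail_A pA) (orbitSixTail_B pB)
    (orbitSixTail_C pC) (orbitSixPsi pA pB pC)

end Vale.Agent.P100.Calib.Band
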