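import Vale.Agent.P100.Calib.SlabSixRatExit
import Vale.Agent.P100.Calib.SlabOrbitSixTail

/-!
# The lower band and the exit curves of dimension six as inputs of the assembly
-/

namespace Vale.Agent.P100.Calib.Band

open Vale.Agent.P100.Bubble Chart Closed

/-- **The slope is above the lower bands.** -/
theorem orbitSixLow : OrbitSixLow := by
  intro N p q S R x y s dx dy hc h hb _ z hz hR
  exact ⟨fun _ hu' => ((bandT_tau_six hc h hb hz hR _ 0).1).1 (orbit_lowT_six h hb hz hR hu'),
    fun hu => ((bandT_tau_six hc h hb hz hR _ 0).1).1 (orbit_lowEnd_six h hb hz hR hu)⟩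

/-- **The exit curve of piece A.** -/
theorem orbitSixPhi_A : OrbitSixPhi Six.bandsA 0 (3 / 100) := by
  intro N p q S R x y s dx dy _ h hb _ g0 g1 z hz hR d u _ hu'
  exact orbit_phiTail_sixA h hb g0 g1 hz hR hu'

/-- **The exit curve of piece B.** -/
theorem orbitSixPhi_B : OrbitSixPhi Six.bandsB (3 / 100) (27 / 200) := by
  intro N p q S R x y s dx dy _ h hb _ g0 g1 z hz hR d u _ hu'
  exact orbit_phiTail_sixB h hb g0 g1 hz hR hu'

/-- **The exit curve of piece C.** -/
theorem orbitSixPhi_C : OrbitSixPhi Six.bandsC (27 / 200) (1 / 3) := by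
  intro N p q S R x y s dx dy _ h hb _ g0 g1 z hz hR d u _ hu'
  exact orbit_phiTail_sixC h hb g0 g1 hz hR hu'

end Vale.Agent.P100.Calib.Band
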