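import Vale.Agent.P100.Calib.SlabSixTailDataA

/-!
# Checks shared by the pieces of one interval of `d`
-/

-- The checks are definitions, so that they run one after another with little memory.
set_option linter.defProp false

namespace Vale.Agent.P100.Calib.Closed.Six.Tail

open BoxPos Large

local instance sixTailGlobAAdd : Add Ex := ⟨Ex.add⟩
local instance sixTailGlobASub : Sub Ex := ⟨Ex.sub⟩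
local instance sixTailGlobAMul : Mul Ex := ⟨Ex.mul⟩

def tA_vG : PosD ⟨⟨0, 1, 1⟩, ⟨98, 99, 147⟩, ⟨0, 301, 10000⟩, ⟨290, 4000, 1000⟩⟩ (hVG) :=
  posD_of_check0 (c := ⟨193, ⟨0, 5, 8, 3⟩⟩) (by decide +kernel)

def tA_vMG : PosD ⟨⟨0, 1, 1⟩, ⟨98, 99, 147⟩, ⟨0, 301, 10000⟩, ⟨290, 4000, 1000⟩⟩ (hVMG) :=
  posD_of_check0 (c := ⟨197, ⟨0, 4, 8, 4⟩⟩) (by decide +kernel)

def tA_ak : PosD ⟨⟨0, 1, 1⟩, ⟨98, 99, 147⟩, ⟨0, 301, 10000⟩, ⟨290, 4000, 1000⟩⟩ (hAk) :=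
  posD_of_check0 (c := ⟨173, ⟨0, 4, 6, 4⟩⟩) (by decide +kernel)

def tA_aw : PosD ⟨⟨0, 1, 1⟩, ⟨98, 99, 147⟩, ⟨0, 301, 10000⟩, ⟨290, 4000, 1000⟩⟩ (hAw) :=
  posD_of_check0 (c := ⟨182, ⟨0, 5, 7, 3⟩⟩) (by decide +kernel)

def tA_gk : PosD ⟨⟨0, 1, 1⟩, ⟨98, 99, 147⟩, ⟨0, 301, 10000⟩, ⟨290, 4000, 1000⟩⟩ (hGk) :=
  posD_of_check0 (c := ⟨173, ⟨0, 4, 6, 4⟩⟩) (by decide +kernel)

def tA_gw : PosD ⟨⟨0, 1, 1⟩, ⟨98, 99, 147⟩, ⟨0, 301, 10000⟩, ⟨290, 4000, 1000⟩⟩ (hGw) :=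
  posD_of_check0 (c := ⟨182, ⟨0, 5, 7, 3⟩⟩) (by decide +kernel)

def tA_ek : PosD ⟨⟨0, 1, 1⟩, ⟨98, 99, 147⟩, ⟨0, 301, 10000⟩, ⟨290, 4000, 1000⟩⟩ (hMk) :=
  posD_of_check0 (c := ⟨100, ⟨0, 2, 3, 3⟩⟩) (by decide +kernel)

def tA_ew : PosD ⟨⟨0, 1, 1⟩, ⟨98, 99, 147⟩, ⟨0, 301, 10000⟩, ⟨290, 4000, 1000⟩⟩ (hMw) :=
  posD_of_check0 (c := ⟨110, ⟨0, 3, 4, 2⟩⟩) (by decide +kernel)

def tA_llgLo : PosD ⟨⟨600, 980, 1000⟩, ⟨98, 99, 147⟩, ⟨0, 301, 10000⟩, ⟨290, 4000, 1000⟩⟩ (hLLGlo) :=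
  posD_of_check0 (c := ⟨295, ⟨2, 7, 10, 5⟩⟩) (by decide +kernel)

def tA_llgHi : PosD ⟨⟨600, 980, 1000⟩, ⟨98, 99, 147⟩, ⟨0, 301, 10000⟩, ⟨290, 4000, 1000⟩⟩ (hLLGhi) :=
  posD_of_check0 (c := ⟨255, ⟨2, 5, 10, 4⟩⟩) (by decide +kernel)

def tA_lowN : PosD ⟨⟨600, 980, 1000⟩, ⟨98, 99, 147⟩, ⟨0, 301, 10000⟩, ⟨290, 4000, 1000⟩⟩ (lowTn xO) :=
  posD_of_check0 (c := ⟨69, ⟨2, 0, 2, 0⟩⟩) (by decide +kernel)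

def tA_lowD : PosD ⟨⟨600, 980, 1000⟩, ⟨98, 99, 147⟩, ⟨0, 301, 10000⟩, ⟨290, 4000, 1000⟩⟩ (lowTd xO) :=
  posD_of_check0 (c := ⟨46, ⟨1, 0, 2, 0⟩⟩) (by decide +kernel)

end Vale.Agent.P100.Calib.Closed.Six.Tail
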