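import Vale.Agent.P100.Calib.SlabSixTailDataA
import Vale.Agent.P100.Calib.SlabSixTailGlobA

/-!
# Checks of some pieces of the certificate

The checks are written as definitions so that they run one after another, which keeps the memory of the
kernel low.
-/

set_option linter.defProp false

namespace Vale.Agent.P100.Calib.Closed.Six.Tail

open BoxPos Large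

local instance sixTailCheckstA0Add : Add Ex := ⟨Ex.add⟩
local instance sixTailCheckstA0Sub : Sub Ex := ⟨Ex.sub⟩
local instance sixTailCheckstA0Mul : Mul Ex := ⟨Ex.mul⟩

def tA0_p0 : PosD ⟨⟨0, 1, 1⟩, ⟨98, 99, 147⟩, ⟨0, 301, 10000⟩, ⟨290, 500, 1000⟩⟩ (tA0.hP0) :=
  posD_of_check0 (c := ⟨81, ⟨0, 2, 3, 1⟩⟩) (by decide +kernel)

def tA0_gn : PosD ⟨⟨0, 1, 1⟩, ⟨98, 99, 147⟩, ⟨0, 301, 10000⟩, ⟨290, 500, 1000⟩⟩ (tA0.hGn) :=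
  posD_of_check0 (c := ⟨55, ⟨1, 1, 2, 1⟩⟩) (by decide +kernel)

def tA0_den0 : PosD ⟨⟨0, 1, 1⟩, ⟨98, 99, 147⟩, ⟨0, 301, 10000⟩, ⟨290, 500, 1000⟩⟩ (tA0.hDen false) :=
  posD_of_check0 (c := ⟨47, ⟨1, 0, 2, 0⟩⟩) (by decide +kernel)

def tA0_den1 : PosD ⟨⟨0, 1, 1⟩, ⟨98, 99, 147⟩, ⟨0, 301, 10000⟩, ⟨290, 500, 1000⟩⟩ (tA0.hDen true) :=
  posD_of_check0 (c := ⟨47, ⟨1, 0, 2, 0⟩⟩) (by decide +kernel)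

def tA0_ev0 : PosD ⟨⟨0, 1, 1⟩, ⟨98, 99, 147⟩, ⟨0, 301, 10000⟩, ⟨290, 500, 1000⟩⟩ (tA0.hEv false) :=
  posD_of_check0 (c := ⟨124, ⟨4, 2, 4, 1⟩⟩) (by decide +kernel)

def tA0_zL0 : PosD ⟨⟨0, 1, 1⟩, ⟨98, 99, 147⟩, ⟨0, 301, 10000⟩, ⟨290, 500, 1000⟩⟩ (tA0.hZL false) :=
  posD_of_check0 (c := ⟨160, ⟨4, 3, 6, 3⟩⟩) (by decide +kernel)

def tA0_zU0 : PosD ⟨⟨0, 1, 1⟩, ⟨98, 99, 147⟩, ⟨0, 301, 10000⟩, ⟨290, 500, 1000⟩⟩ (tA0.hZU false) :=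
  posD_of_check0 (c := ⟨160, ⟨4, 3, 6, 3⟩⟩) (by decide +kernel)

def tA0_eL0 : PosD ⟨⟨0, 1, 1⟩, ⟨98, 99, 147⟩, ⟨0, 301, 10000⟩, ⟨290, 500, 1000⟩⟩ (tA0.hEL false) :=
  posD_of_check0 (c := ⟨219, ⟨5, 6, 7, 3⟩⟩) (by decide +kernel)

def tA0_eH0 : PosD ⟨⟨0, 1, 1⟩, ⟨98, 99, 147⟩, ⟨0, 301, 10000⟩, ⟨290, 500, 1000⟩⟩ (tA0.hEH false) :=
  posD_of_check0 (c := ⟨236, ⟨5, 6, 7, 3⟩⟩) (by decide +kernel)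

def tA0_pL0 : PosD ⟨⟨0, 1, 1⟩, ⟨98, 99, 147⟩, ⟨0, 301, 10000⟩, ⟨290, 500, 1000⟩⟩ (tA0.hPL false) :=
  posD_of_check0 (c := ⟨233, ⟨5, 6, 7, 3⟩⟩) (by decide +kernel)

def tA0_pU0 : PosD ⟨⟨0, 1, 1⟩, ⟨98, 99, 147⟩, ⟨0, 301, 10000⟩, ⟨290, 500, 1000⟩⟩ (tA0.hPU false) :=
  posD_of_check0 (c := ⟨232, ⟨5, 6, 7, 3⟩⟩) (by decide +kernel)

def tA0_kU0 : PosD ⟨⟨0, 1, 1⟩, ⟨98, 99, 147⟩, ⟨0, 301, 10000⟩, ⟨290, 500, 1000⟩⟩ (tA0.hKU false) :=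
  posD_of_check0 (c := ⟨232, ⟨5, 6, 7, 3⟩⟩) (by decide +kernel)

def tA0_kL0a : PosD ⟨⟨0, 1, 1⟩, ⟨98, 99, 147⟩, ⟨0, 301, 10000⟩, ⟨290, 395, 1000⟩⟩ (tA0.hKL false) :=
  posD_of_check0 (c := ⟨230, ⟨5, 6, 7, 3⟩⟩) (by decide +kernel)

def tA0_kL0ba : PosD ⟨⟨0, 1, 2⟩, ⟨98, 99, 147⟩, ⟨0, 301, 10000⟩, ⟨395, 500, 1000⟩⟩ (tA0.hKL false) :=
  posD_of_check0 (c := ⟨234, ⟨5, 6, 7, 3⟩⟩) (by decide +kernel)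

def tA0_kL0bb : PosD ⟨⟨1, 2, 2⟩, ⟨98, 99, 147⟩, ⟨0, 301, 10000⟩, ⟨395, 500, 1000⟩⟩ (tA0.hKL false) :=
  posD_of_check0 (c := ⟨235, ⟨5, 6, 7, 3⟩⟩) (by decide +kernel)

def tA0_kL0b : PosD ⟨⟨0, 1, 1⟩, ⟨98, 99, 147⟩, ⟨0, 301, 10000⟩, ⟨395, 500, 1000⟩⟩ (tA0.hKL false) :=
  posD_units (b := ⟨⟨0, 2, 2⟩, ⟨98, 99, 147⟩, ⟨0, 301, 10000⟩, ⟨395, 500, 1000⟩⟩) (by decide +kernel) (posD_join₀ tA0_kL0ba tA0_kL0bb)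

def tA0_kL0 : PosD ⟨⟨0, 1, 1⟩, ⟨98, 99, 147⟩, ⟨0, 301, 10000⟩, ⟨290, 500, 1000⟩⟩ (tA0.hKL false) :=
  posD_join₃ tA0_kL0a tA0_kL0b

def tA0_wU0aa : PosD ⟨⟨0, 1, 1⟩, ⟨98, 99, 147⟩, ⟨0, 301, 10000⟩, ⟨290, 342, 1000⟩⟩ (tA0.hWU false) :=
  posD_of_check0 (c := ⟨264, ⟨5, 8, 8, 3⟩⟩) (by decide +kernel)

def tA0_wU0aba : PosD ⟨⟨0, 1, 1⟩, ⟨98, 99, 147⟩, ⟨0, 301, 10000⟩, ⟨342, 368, 1000⟩⟩ (tA0.hWU false) :=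
  posD_of_check0 (c := ⟨264, ⟨5, 8, 8, 3⟩⟩) (by decide +kernel)

def tA0_wU0abb : PosD ⟨⟨0, 1, 1⟩, ⟨98, 99, 147⟩, ⟨0, 301, 10000⟩, ⟨368, 395, 1000⟩⟩ (tA0.hWU false) :=
  posD_of_check0 (c := ⟨264, ⟨5, 8, 8, 3⟩⟩) (by decide +kernel)

def tA0_wU0ab : PosD ⟨⟨0, 1, 1⟩, ⟨98, 99, 147⟩, ⟨0, 301, 10000⟩, ⟨342, 395, 1000⟩⟩ (tA0.hWU false) :=
  posD_join₃ tA0_wU0aba tA0_wU0abb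

def tA0_wU0a : PosD ⟨⟨0, 1, 1⟩, ⟨98, 99, 147⟩, ⟨0, 301, 10000⟩, ⟨290, 395, 1000⟩⟩ (tA0.hWU false) :=
  posD_join₃ tA0_wU0aa tA0_wU0ab

def tA0_wU0b : PosD ⟨⟨0, 1, 1⟩, ⟨98, 99, 147⟩, ⟨0, 301, 10000⟩, ⟨395, 500, 1000⟩⟩ (tA0.hWU false) :=
  posD_of_check0 (c := ⟨264, ⟨5, 8, 8, 3⟩⟩) (by decide +kernel)

def tA0_wU0 : PosD ⟨⟨0, 1, 1⟩, ⟨98, 99, 147⟩, ⟨0, 301, 10000⟩, ⟨290, 500, 1000⟩⟩ (tA0.hWU false) :=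
  posD_join₃ tA0_wU0a tA0_wU0b

def tA0_wL0 : PosD ⟨⟨0, 1, 1⟩, ⟨98, 99, 147⟩, ⟨0, 301, 10000⟩, ⟨290, 500, 1000⟩⟩ (tA0.hWL false) :=
  posD_of_check0 (c := ⟨264, ⟨5, 8, 8, 3⟩⟩) (by decide +kernel)

def tA0_ev1 : PosD ⟨⟨0, 1, 1⟩, ⟨98, 99, 147⟩, ⟨0, 301, 10000⟩, ⟨290, 500, 1000⟩⟩ (tA0.hEv true) :=
  posD_of_check0 (c := ⟨126, ⟨4, 2, 4, 1⟩⟩) (by decide +kernel)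

def tA0_zL1a : PosD ⟨⟨0, 1, 1⟩, ⟨98, 99, 147⟩, ⟨0, 150, 10000⟩, ⟨290, 500, 1000⟩⟩ (tA0.hZL true) :=
  posD_of_check0 (c := ⟨160, ⟨4, 3, 6, 3⟩⟩) (by decide +kernel)

def tA0_zL1b : PosD ⟨⟨0, 1, 1⟩, ⟨98, 99, 147⟩, ⟨150, 301, 10000⟩, ⟨290, 500, 1000⟩⟩ (tA0.hZL true) :=
  posD_of_check (c := ⟨160, ⟨4, 3, 6, 3⟩⟩) (by decide +kernel)

def tA0_zL1 : PosD ⟨⟨0, 1, 1⟩, ⟨98, 99, 147⟩, ⟨0, 301, 10000⟩, ⟨290, 500, 1000⟩⟩ (tA0.hZL true) :=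
  posD_join₂ tA0_zL1a tA0_zL1b

def tA0_zU1 : PosD ⟨⟨0, 1, 1⟩, ⟨98, 99, 147⟩, ⟨0, 301, 10000⟩, ⟨290, 500, 1000⟩⟩ (tA0.hZU true) :=
  posD_of_check0 (c := ⟨160, ⟨4, 3, 6, 3⟩⟩) (by decide +kernel)

def tA0_eL1a : PosD ⟨⟨0, 1, 1⟩, ⟨98, 99, 147⟩, ⟨0, 150, 10000⟩, ⟨290, 500, 1000⟩⟩ (tA0.hEL true) :=
  posD_of_check0 (c := ⟨221, ⟨5, 6, 7, 3⟩⟩) (by decide +kernel)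

def tA0_eL1ba : PosD ⟨⟨0, 1, 1⟩, ⟨98, 99, 147⟩, ⟨150, 225, 10000⟩, ⟨290, 500, 1000⟩⟩ (tA0.hEL true) :=
  posD_of_check (c := ⟨221, ⟨5, 6, 7, 3⟩⟩) (by decide +kernel)

def tA0_eL1bb : PosD ⟨⟨0, 1, 1⟩, ⟨98, 99, 147⟩, ⟨225, 301, 10000⟩, ⟨290, 500, 1000⟩⟩ (tA0.hEL true) :=
  posD_of_check (c := ⟨222, ⟨5, 6, 7, 3⟩⟩) (by decide +kernel)

def tA0_eL1b : PosD ⟨⟨0, 1, 1⟩, ⟨98, 99, 147⟩, ⟨150, 301, 10000⟩, ⟨290, 500, 1000⟩⟩ (tA0.hEL true) :=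
  posD_join₂ tA0_eL1ba tA0_eL1bb

def tA0_eL1 : PosD ⟨⟨0, 1, 1⟩, ⟨98, 99, 147⟩, ⟨0, 301, 10000⟩, ⟨290, 500, 1000⟩⟩ (tA0.hEL true) :=
  posD_join₂ tA0_eL1a tA0_eL1b

def tA0_eH1 : PosD ⟨⟨0, 1, 1⟩, ⟨98, 99, 147⟩, ⟨0, 301, 10000⟩, ⟨290, 500, 1000⟩⟩ (tA0.hEH true) :=
  posD_of_check0 (c := ⟨238, ⟨5, 6, 7, 3⟩⟩) (by decide +kernel)

def tA0_pL1 : PosD ⟨⟨0, 1, 1⟩, ⟨98, 99, 147⟩, ⟨0, 301, 10000⟩, ⟨290, 500, 1000⟩⟩ (tA0.hPL true) :=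
  posD_of_check0 (c := ⟨235, ⟨5, 6, 7, 3⟩⟩) (by decide +kernel)

def tA0_pU1 : PosD ⟨⟨0, 1, 1⟩, ⟨98, 99, 147⟩, ⟨0, 301, 10000⟩, ⟨290, 500, 1000⟩⟩ (tA0.hPU true) :=
  posD_of_check0 (c := ⟨234, ⟨5, 6, 7, 3⟩⟩) (by decide +kernel)

def tA0_kU1a : PosD ⟨⟨0, 1, 1⟩, ⟨98, 99, 147⟩, ⟨0, 301, 10000⟩, ⟨290, 395, 1000⟩⟩ (tA0.hKU true) :=
  posD_of_check0 (c := ⟨235, ⟨5, 6, 7, 3⟩⟩) (by decide +kernel)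

def tA0_kU1ba : PosD ⟨⟨0, 1, 1⟩, ⟨98, 99, 147⟩, ⟨0, 301, 10000⟩, ⟨395, 447, 1000⟩⟩ (tA0.hKU true) :=
  posD_of_check0 (c := ⟨235, ⟨5, 6, 7, 3⟩⟩) (by decide +kernel)

def tA0_kU1bb : PosD ⟨⟨0, 1, 1⟩, ⟨98, 99, 147⟩, ⟨0, 301, 10000⟩, ⟨447, 500, 1000⟩⟩ (tA0.hKU true) :=
  posD_of_check0 (c := ⟨235, ⟨5, 6, 7, 3⟩⟩) (by decide +kernel)

def tA0_kU1b : PosD ⟨⟨0, 1, 1⟩, ⟨98, 99, 147⟩, ⟨0, 301, 10000⟩, ⟨395, 500, 1000⟩⟩ (tA0.hKU true) :=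
  posD_join₃ tA0_kU1ba tA0_kU1bb

def tA0_kU1 : PosD ⟨⟨0, 1, 1⟩, ⟨98, 99, 147⟩, ⟨0, 301, 10000⟩, ⟨290, 500, 1000⟩⟩ (tA0.hKU true) :=
  posD_join₃ tA0_kU1a tA0_kU1b

def tA0_kL1a : PosD ⟨⟨0, 1, 1⟩, ⟨98, 99, 147⟩, ⟨0, 301, 10000⟩, ⟨290, 395, 1000⟩⟩ (tA0.hKL true) :=
  posD_of_check0 (c := ⟨233, ⟨5, 6, 7, 3⟩⟩) (by decide +kernel)

def tA0_kL1baaa : PosD ⟨⟨0, 1, 4⟩, ⟨98, 99, 147⟩, ⟨0, 150, 10000⟩, ⟨395, 500, 1000⟩⟩ (tA0.hKL true) :=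
  posD_of_check0 (c := ⟨239, ⟨5, 6, 7, 3⟩⟩) (by decide +kernel)

def tA0_kL1baab : PosD ⟨⟨1, 2, 4⟩, ⟨98, 99, 147⟩, ⟨0, 150, 10000⟩, ⟨395, 500, 1000⟩⟩ (tA0.hKL true) :=
  posD_of_check0 (c := ⟨240, ⟨5, 6, 7, 3⟩⟩) (by decide +kernel)

def tA0_kL1baa : PosD ⟨⟨0, 1, 2⟩, ⟨98, 99, 147⟩, ⟨0, 150, 10000⟩, ⟨395, 500, 1000⟩⟩ (tA0.hKL true) :=
  posD_units (b := ⟨⟨0, 2, 4⟩, ⟨98, 99, 147⟩, ⟨0, 150, 10000⟩, ⟨395, 500, 1000⟩⟩) (by decide +kernel) (posD_join₀ tA0_kL1baaa tA0_kL1baab)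

def tA0_kL1bab : PosD ⟨⟨0, 1, 2⟩, ⟨98, 99, 147⟩, ⟨150, 301, 10000⟩, ⟨395, 500, 1000⟩⟩ (tA0.hKL true) :=
  posD_of_check (c := ⟨236, ⟨5, 6, 7, 3⟩⟩) (by decide +kernel)

def tA0_kL1ba : PosD ⟨⟨0, 1, 2⟩, ⟨98, 99, 147⟩, ⟨0, 301, 10000⟩, ⟨395, 500, 1000⟩⟩ (tA0.hKL true) :=
  posD_join₂ tA0_kL1baa tA0_kL1bab

def tA0_kL1bbaa : PosD ⟨⟨2, 3, 4⟩, ⟨98, 99, 147⟩, ⟨0, 301, 10000⟩, ⟨395, 447, 1000⟩⟩ (tA0.hKL true) :=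
  posD_of_check0 (c := ⟨241, ⟨5, 6, 7, 3⟩⟩) (by decide +kernel)

def tA0_kL1bbaba : PosD ⟨⟨2, 3, 4⟩, ⟨98, 99, 147⟩, ⟨0, 150, 10000⟩, ⟨447, 500, 1000⟩⟩ (tA0.hKL true) :=
  posD_of_check0 (c := ⟨241, ⟨5, 6, 7, 3⟩⟩) (by decide +kernel)

def tA0_kL1bbabb : PosD ⟨⟨2, 3, 4⟩, ⟨98, 99, 147⟩, ⟨150, 301, 10000⟩, ⟨447, 500, 1000⟩⟩ (tA0.hKL true) :=
  posD_of_check (c := ⟨241, ⟨5, 6, 7, 3⟩⟩) (by decide +kernel)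

def tA0_kL1bbab : PosD ⟨⟨2, 3, 4⟩, ⟨98, 99, 147⟩, ⟨0, 301, 10000⟩, ⟨447, 500, 1000⟩⟩ (tA0.hKL true) :=
  posD_join₂ tA0_kL1bbaba tA0_kL1bbabb

def tA0_kL1bba : PosD ⟨⟨2, 3, 4⟩, ⟨98, 99, 147⟩, ⟨0, 301, 10000⟩, ⟨395, 500, 1000⟩⟩ (tA0.hKL true) :=
  posD_join₃ tA0_kL1bbaa tA0_kL1bbab

def tA0_kL1bbbaa : PosD ⟨⟨3, 4, 4⟩, ⟨98, 99, 147⟩, ⟨0, 150, 10000⟩, ⟨395, 447, 1000⟩⟩ (tA0.hKL true) :=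
  posD_of_check0 (c := ⟨242, ⟨5, 6, 7, 3⟩⟩) (by decide +kernel)

def tA0_kL1bbbab : PosD ⟨⟨3, 4, 4⟩, ⟨98, 99, 147⟩, ⟨150, 301, 10000⟩, ⟨395, 447, 1000⟩⟩ (tA0.hKL true) :=
  posD_of_check (c := ⟨242, ⟨5, 6, 7, 3⟩⟩) (by decide +kernel)

def tA0_kL1bbba : PosD ⟨⟨3, 4, 4⟩, ⟨98, 99, 147⟩, ⟨0, 301, 10000⟩, ⟨395, 447, 1000⟩⟩ (tA0.hKL true) :=
  posD_join₂ tA0_kL1bbbaa tA0_kL1bbbab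

def tA0_kL1bbbbaa : PosD ⟨⟨3, 4, 4⟩, ⟨98, 99, 147⟩, ⟨0, 150, 10000⟩, ⟨447, 473, 1000⟩⟩ (tA0.hKL true) :=
  posD_of_check0 (c := ⟨242, ⟨5, 6, 7, 3⟩⟩) (by decide +kernel)

def tA0_kL1bbbbab : PosD ⟨⟨3, 4, 4⟩, ⟨98, 99, 147⟩, ⟨0, 150, 10000⟩, ⟨473, 500, 1000⟩⟩ (tA0.hKL true) :=
  posD_of_check0 (c := ⟨242, ⟨5, 6, 7, 3⟩⟩) (by decide +kernel)

def tA0_kL1bbbba : PosD ⟨⟨3, 4, 4⟩, ⟨98, 99, 147⟩, ⟨0, 150, 10000⟩, ⟨447, 500, 1000⟩⟩ (tA0.hKL true) :=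
  posD_join₃ tA0_kL1bbbbaa tA0_kL1bbbbab

def tA0_kL1bbbbbaa : PosD ⟨⟨3, 4, 4⟩, ⟨98, 99, 147⟩, ⟨150, 225, 10000⟩, ⟨447, 473, 1000⟩⟩ (tA0.hKL true) :=
  posD_of_check (c := ⟨242, ⟨5, 6, 7, 3⟩⟩) (by decide +kernel)

def tA0_kL1bbbbbab : PosD ⟨⟨3, 4, 4⟩, ⟨98, 99, 147⟩, ⟨225, 301, 10000⟩, ⟨447, 473, 1000⟩⟩ (tA0.hKL true) :=
  posD_of_check (c := ⟨242, ⟨5, 6, 7, 3⟩⟩) (by decide +kernel)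

def tA0_kL1bbbbba : PosD ⟨⟨3, 4, 4⟩, ⟨98, 99, 147⟩, ⟨150, 301, 10000⟩, ⟨447, 473, 1000⟩⟩ (tA0.hKL true) :=
  posD_join₂ tA0_kL1bbbbbaa tA0_kL1bbbbbab

def tA0_kL1bbbbbba : PosD ⟨⟨3, 4, 4⟩, ⟨98, 99, 147⟩, ⟨150, 225, 10000⟩, ⟨473, 500, 1000⟩⟩ (tA0.hKL true) :=
  posD_of_check (c := ⟨242, ⟨5, 6, 7, 3⟩⟩) (by decide +kernel)

def tA0_kL1bbbbbbb : PosD ⟨⟨3, 4, 4⟩, ⟨98, 99, 147⟩, ⟨225, 301, 10000⟩, ⟨473, 500, 1000⟩⟩ (tA0.hKL true) :=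
  posD_of_check (c := ⟨242, ⟨5, 6, 7, 3⟩⟩) (by decide +kernel)

def tA0_kL1bbbbbb : PosD ⟨⟨3, 4, 4⟩, ⟨98, 99, 147⟩, ⟨150, 301, 10000⟩, ⟨473, 500, 1000⟩⟩ (tA0.hKL true) :=
  posD_join₂ tA0_kL1bbbbbba tA0_kL1bbbbbbb

def tA0_kL1bbbbb : PosD ⟨⟨3, 4, 4⟩, ⟨98, 99, 147⟩, ⟨150, 301, 10000⟩, ⟨447, 500, 1000⟩⟩ (tA0.hKL true) :=
  posD_join₃ tA0_kL1bbbbba tA0_kL1bbbbbb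

def tA0_kL1bbbb : PosD ⟨⟨3, 4, 4⟩, ⟨98, 99, 147⟩, ⟨0, 301, 10000⟩, ⟨447, 500, 1000⟩⟩ (tA0.hKL true) :=
  posD_join₂ tA0_kL1bbbba tA0_kL1bbbbb

def tA0_kL1bbb : PosD ⟨⟨3, 4, 4⟩, ⟨98, 99, 147⟩, ⟨0, 301, 10000⟩, ⟨395, 500, 1000⟩⟩ (tA0.hKL true) :=
  posD_join₃ tA0_kL1bbba tA0_kL1bbbb

def tA0_kL1bb : PosD ⟨⟨1, 2, 2⟩, ⟨98, 99, 147⟩, ⟨0, 301, 10000⟩, ⟨395, 500, 1000⟩⟩ (tA0.hKL true) :=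
  posD_units (b := ⟨⟨2, 4, 4⟩, ⟨98, 99, 147⟩, ⟨0, 301, 10000⟩, ⟨395, 500, 1000⟩⟩) (by decide +kernel) (posD_join₀ tA0_kL1bba tA0_kL1bbb)

def tA0_kL1b : PosD ⟨⟨0, 1, 1⟩, ⟨98, 99, 147⟩, ⟨0, 301, 10000⟩, ⟨395, 500, 1000⟩⟩ (tA0.hKL true) :=
  posD_units (b := ⟨⟨0, 2, 2⟩, ⟨98, 99, 147⟩, ⟨0, 301, 10000⟩, ⟨395, 500, 1000⟩⟩) (by decide +kernel) (posD_join₀ tA0_kL1ba tA0_kL1bb)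

def tA0_kL1 : PosD ⟨⟨0, 1, 1⟩, ⟨98, 99, 147⟩, ⟨0, 301, 10000⟩, ⟨290, 500, 1000⟩⟩ (tA0.hKL true) :=
  posD_join₃ tA0_kL1a tA0_kL1b

def tA0_wU1a : PosD ⟨⟨0, 1, 1⟩, ⟨98, 99, 147⟩, ⟨0, 301, 10000⟩, ⟨290, 395, 1000⟩⟩ (tA0.hWU true) :=
  posD_of_check0 (c := ⟨266, ⟨5, 8, 8, 3⟩⟩) (by decide +kernel)

def tA0_wU1ba : PosD ⟨⟨0, 1, 1⟩, ⟨98, 99, 147⟩, ⟨0, 301, 10000⟩, ⟨395, 447, 1000⟩⟩ (tA0.hWU true) :=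
  posD_of_check0 (c := ⟨266, ⟨5, 8, 8, 3⟩⟩) (by decide +kernel)

def tA0_wU1bb : PosD ⟨⟨0, 1, 1⟩, ⟨98, 99, 147⟩, ⟨0, 301, 10000⟩, ⟨447, 500, 1000⟩⟩ (tA0.hWU true) :=
  posD_of_check0 (c := ⟨267, ⟨5, 8, 8, 3⟩⟩) (by decide +kernel)

def tA0_wU1b : PosD ⟨⟨0, 1, 1⟩, ⟨98, 99, 147⟩, ⟨0, 301, 10000⟩, ⟨395, 500, 1000⟩⟩ (tA0.hWU true) :=
  posD_join₃ tA0_wU1ba tA0_wU1bb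

def tA0_wU1 : PosD ⟨⟨0, 1, 1⟩, ⟨98, 99, 147⟩, ⟨0, 301, 10000⟩, ⟨290, 500, 1000⟩⟩ (tA0.hWU true) :=
  posD_join₃ tA0_wU1a tA0_wU1b

def tA0_wL1a : PosD ⟨⟨0, 1, 1⟩, ⟨98, 99, 147⟩, ⟨0, 301, 10000⟩, ⟨290, 395, 1000⟩⟩ (tA0.hWL true) :=
  posD_of_check0 (c := ⟨266, ⟨5, 8, 8, 3⟩⟩) (by decide +kernel)

def tA0_wL1ba : PosD ⟨⟨0, 1, 1⟩, ⟨98, 99, 147⟩, ⟨0, 301, 10000⟩, ⟨395, 447, 1000⟩⟩ (tA0.hWL true) :=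
  posD_of_check0 (c := ⟨266, ⟨5, 8, 8, 3⟩⟩) (by decide +kernel)

def tA0_wL1bb : PosD ⟨⟨0, 1, 1⟩, ⟨98, 99, 147⟩, ⟨0, 301, 10000⟩, ⟨447, 500, 1000⟩⟩ (tA0.hWL true) :=
  posD_of_check0 (c := ⟨266, ⟨5, 8, 8, 3⟩⟩) (by decide +kernel)

def tA0_wL1b : PosD ⟨⟨0, 1, 1⟩, ⟨98, 99, 147⟩, ⟨0, 301, 10000⟩, ⟨395, 500, 1000⟩⟩ (tA0.hWL true) :=
  posD_join₃ tA0_wL1ba tA0_wL1bb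

def tA0_wL1 : PosD ⟨⟨0, 1, 1⟩, ⟨98, 99, 147⟩, ⟨0, 301, 10000⟩, ⟨290, 500, 1000⟩⟩ (tA0.hWL true) :=
  posD_join₃ tA0_wL1a tA0_wL1b

def tA0_mueH : PosD ⟨⟨0, 1, 1⟩, ⟨98, 99, 147⟩, ⟨0, 301, 10000⟩, ⟨290, 500, 1000⟩⟩ (tA0.eH.μ) :=
  posD_of_check0 (c := ⟨20, ⟨0, 0, 0, 0⟩⟩) (by decide +kernel)

def tA0_mupL : PosD ⟨⟨0, 1, 1⟩, ⟨98, 99, 147⟩, ⟨0, 301, 10000⟩, ⟨290, 500, 1000⟩⟩ (tA0.pL.μ) :=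
  posD_of_check0 (c := ⟨16, ⟨0, 0, 0, 0⟩⟩) (by decide +kernel)

/-- The bounds of the piece. -/
def tA0_env : tA0.Env ⟨⟨0, 1, 1⟩, ⟨98, 99, 147⟩, ⟨0, 301, 10000⟩, ⟨290, 500, 1000⟩⟩ :=
  ⟨tA0_p0, Bool.forall_bool.2 ⟨tA0_den0, tA0_den1⟩, tA0_gn, Bool.forall_bool.2 ⟨tA0_ev0, tA0_ev1⟩, Bool.forall_bool.2 ⟨tA0_zL0, tA0_zL1⟩, Bool.forall_bool.2 ⟨tA0_zU0, tA0_zU1⟩, Bool.forall_bool.2 ⟨tA0_eL0, tA0_eL1⟩, ⟨.inr rfl, .inr rfl⟩, Bool.forall_bool.2 ⟨tA0_eH0, tA0_eH1⟩, ⟨.inl tA0_mueH, .inr rfl⟩, Bool.forall_bool.2 ⟨tA0_pL0, tA0_pL1⟩, ⟨.inl tA0_mupL, .inr rfl⟩, Bool.forall_bool.2 ⟨tA0_pU0, tA0_pU1⟩, ⟨.inr rfl, .inr rfl⟩, Bool.forall_bool.2 ⟨tA0_kU0, tA0_kU1⟩, ⟨.inr rfl, .inr rfl⟩, Bool.forall_bool.2 ⟨tA0_kL0,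 tA0_kL1⟩, ⟨.inr rfl, .inr rfl⟩, Bool.forall_bool.2 ⟨tA0_wU0, tA0_wU1⟩, ⟨.inr rfl, .inr rfl⟩, Bool.forall_bool.2 ⟨tA0_wL0, tA0_wL1⟩, ⟨.inr rfl, .inr rfl⟩⟩

def tA0_pp : PosD ⟨⟨0, 1, 1⟩, ⟨98, 99, 147⟩, ⟨0, 301, 10000⟩, ⟨290, 500, 1000⟩⟩ (tA0.xPL) :=
  posD_of_check0 (c := ⟨90, ⟨1, 1, 3, 3⟩⟩) (by decide +kernel)

def tA0_k2p : PosD ⟨⟨0, 1, 1⟩, ⟨98, 99, 147⟩, ⟨0, 301, 10000⟩, ⟨290, 500, 1000⟩⟩ (tA0.k2p tA0.xE) :=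
  posD_of_check0 (c := ⟨6, ⟨0, 0, 0, 0⟩⟩) (by decide +kernel)

def tA0_k2m : PosD ⟨⟨0, 1, 1⟩, ⟨98, 99, 147⟩, ⟨0, 301, 10000⟩, ⟨290, 500, 1000⟩⟩ (tA0.k2m tA0.xE) :=
  posD_of_check0 (c := ⟨68, ⟨1, 1, 2, 2⟩⟩) (by decide +kernel)

def tA0_v2p : PosD ⟨⟨0, 1, 1⟩, ⟨98, 99, 147⟩, ⟨0, 301, 10000⟩, ⟨290, 500, 1000⟩⟩ (tA0.hV2p) :=
  posD_of_check0 (c := ⟨224, ⟨0, 5, 10, 4⟩⟩) (by decide +kernel)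

def tA0_v2m : PosD ⟨⟨0, 1, 1⟩, ⟨98, 99, 147⟩, ⟨0, 301, 10000⟩, ⟨290, 500, 1000⟩⟩ (tA0.hV2m) :=
  posD_of_check0 (c := ⟨260, ⟨1, 6, 10, 5⟩⟩) (by decide +kernel)

def tA0_v3p : PosD ⟨⟨0, 1, 1⟩, ⟨98, 99, 147⟩, ⟨0, 301, 10000⟩, ⟨290, 500, 1000⟩⟩ (tA0.hV3p) :=
  posD_of_check0 (c := ⟨220, ⟨0, 5, 9, 4⟩⟩) (by decide +kernel)

def tA0_v3m : PosD ⟨⟨0, 1, 1⟩, ⟨98, 99, 147⟩, ⟨0, 301, 10000⟩, ⟨290, 500, 1000⟩⟩ (tA0.hV3m) :=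
  posD_of_check0 (c := ⟨246, ⟨1, 6, 9, 5⟩⟩) (by decide +kernel)

def tA0_kap0 : PosD ⟨⟨0, 1, 1⟩, ⟨98, 99, 147⟩, ⟨0, 301, 10000⟩, ⟨290, 500, 1000⟩⟩ (tA0.kap false) :=
  posD_of_check0 (c := ⟨24, ⟨0, 0, 1, 1⟩⟩) (by decide +kernel)

def tA0_c10 : PosD ⟨⟨0, 1, 1⟩, ⟨98, 99, 147⟩, ⟨0, 301, 10000⟩, ⟨290, 500, 1000⟩⟩ (tA0.hC1 false) :=
  posD_of_check0 (c := ⟨263, ⟨2, 5, 9, 7⟩⟩) (by decide +kernel)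

def tA0_c1h0 : PosD ⟨⟨0, 1, 1⟩, ⟨98, 99, 147⟩, ⟨0, 301, 10000⟩, ⟨290, 500, 1000⟩⟩ (tA0.hC1' false) :=
  posD_of_check0 (c := ⟨263, ⟨2, 5, 9, 7⟩⟩) (by decide +kernel)

def tA0_tg00 : PosD ⟨⟨0, 1, 1⟩, ⟨98, 99, 147⟩, ⟨0, 301, 10000⟩, ⟨290, 500, 1000⟩⟩ (tA0.hG false (tA0.pEnd false)) :=
  posD_of_check0 (c := ⟨368, ⟨2, 7, 14, 9⟩⟩) (by decide +kernel)

def tA0_c2p00 : PosD ⟨⟨0, 1, 1⟩, ⟨98, 99, 147⟩, ⟨0, 301, 10000⟩, ⟨290, 500, 1000⟩⟩ (tA0.hC2p false (tA0.pEnd false)) :=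
  posD_of_check0 (c := ⟨401, ⟨2, 7, 16, 10⟩⟩) (by decide +kernel)

def tA0_c2m00 : PosD ⟨⟨0, 1, 1⟩, ⟨98, 99, 147⟩, ⟨0, 301, 10000⟩, ⟨290, 500, 1000⟩⟩ (tA0.hC2m false (tA0.pEnd false)) :=
  posD_of_check0 (c := ⟨436, ⟨3, 8, 16, 11⟩⟩) (by decide +kernel)

def tA0_c3p00 : PosD ⟨⟨0, 1, 1⟩, ⟨98, 99, 147⟩, ⟨0, 301, 10000⟩, ⟨290, 500, 1000⟩⟩ (tA0.hC3p false false) :=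
  posD_of_check0 (c := ⟨400, ⟨2, 7, 15, 10⟩⟩) (by decide +kernel)

def tA0_c3m00 : PosD ⟨⟨0, 1, 1⟩, ⟨98, 99, 147⟩, ⟨0, 301, 10000⟩, ⟨290, 500, 1000⟩⟩ (tA0.hC3m false false) :=
  posD_of_check0 (c := ⟨427, ⟨3, 8, 15, 11⟩⟩) (by decide +kernel)

def tA0_c3ph00 : PosD ⟨⟨0, 1, 1⟩, ⟨98, 99, 147⟩, ⟨0, 301, 10000⟩, ⟨290, 500, 1000⟩⟩ (tA0.hC3p' false false) :=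
  posD_of_check0 (c := ⟨400, ⟨2, 7, 15, 10⟩⟩) (by decide +kernel)

def tA0_c3mh00 : PosD ⟨⟨0, 1, 1⟩, ⟨98, 99, 147⟩, ⟨0, 301, 10000⟩, ⟨290, 500, 1000⟩⟩ (tA0.hC3m' false false) :=
  posD_of_check0 (c := ⟨427, ⟨3, 8, 15, 11⟩⟩) (by decide +kernel)

def tA0_up00 : PosD ⟨⟨0, 1, 1⟩, ⟨98, 99, 147⟩, ⟨0, 301, 10000⟩, ⟨290, 500, 1000⟩⟩ (tA0.hUp false false) :=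
  posD_of_check0 (c := ⟨400, ⟨2, 7, 15, 10⟩⟩) (by decide +kernel)

def tA0_um00 : PosD ⟨⟨0, 1, 1⟩, ⟨98, 99, 147⟩, ⟨0, 301, 10000⟩, ⟨290, 500, 1000⟩⟩ (tA0.hUm false false) :=
  posD_of_check0 (c := ⟨426, ⟨3, 8, 15, 11⟩⟩) (by decide +kernel)

def tA0_tmg00 : PosD ⟨⟨0, 1, 1⟩, ⟨98, 99, 147⟩, ⟨0, 301, 10000⟩, ⟨290, 500, 1000⟩⟩ (tA0.hTMG false (tA0.pEnd false)) :=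
  posD_of_check0 (c := ⟨386, ⟨2, 7, 14, 10⟩⟩) (by decide +kernel)

def tA0_tg01 : PosD ⟨⟨0, 1, 1⟩, ⟨98, 99, 147⟩, ⟨0, 301, 10000⟩, ⟨290, 500, 1000⟩⟩ (tA0.hG true (tA0.pEnd false)) :=
  posD_of_check0 (c := ⟨368, ⟨2, 7, 14, 9⟩⟩) (by decide +kernel)

def tA0_c2p01 : PosD ⟨⟨0, 1, 1⟩, ⟨98, 99, 147⟩, ⟨0, 301, 10000⟩, ⟨290, 500, 1000⟩⟩ (tA0.hC2p true (tA0.pEnd false)) :=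
  posD_of_check0 (c := ⟨401, ⟨2, 7, 16, 10⟩⟩) (by decide +kernel)

def tA0_c2m01 : PosD ⟨⟨0, 1, 1⟩, ⟨98, 99, 147⟩, ⟨0, 301, 10000⟩, ⟨290, 500, 1000⟩⟩ (tA0.hC2m true (tA0.pEnd false)) :=
  posD_of_check0 (c := ⟨436, ⟨3, 8, 16, 11⟩⟩) (by decide +kernel)

def tA0_c3p01 : PosD ⟨⟨0, 1, 1⟩, ⟨98, 99, 147⟩, ⟨0, 301, 10000⟩, ⟨290, 500, 1000⟩⟩ (tA0.hC3p false true) :=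
  posD_of_check0 (c := ⟨400, ⟨2, 7, 15, 10⟩⟩) (by decide +kernel)

def tA0_c3m01 : PosD ⟨⟨0, 1, 1⟩, ⟨98, 99, 147⟩, ⟨0, 301, 10000⟩, ⟨290, 500, 1000⟩⟩ (tA0.hC3m false true) :=
  posD_of_check0 (c := ⟨427, ⟨3, 8, 15, 11⟩⟩) (by decide +kernel)

def tA0_c3ph01 : PosD ⟨⟨0, 1, 1⟩, ⟨98, 99, 147⟩, ⟨0, 301, 10000⟩, ⟨290, 500, 1000⟩⟩ (tA0.hC3p' false true) :=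
  posD_of_check0 (c := ⟨400, ⟨2, 7, 15, 10⟩⟩) (by decide +kernel)

def tA0_c3mh01 : PosD ⟨⟨0, 1, 1⟩, ⟨98, 99, 147⟩, ⟨0, 301, 10000⟩, ⟨290, 500, 1000⟩⟩ (tA0.hC3m' false true) :=
  posD_of_check0 (c := ⟨427, ⟨3, 8, 15, 11⟩⟩) (by decide +kernel)

def tA0_up01 : PosD ⟨⟨0, 1, 1⟩, ⟨98, 99, 147⟩, ⟨0, 301, 10000⟩, ⟨290, 500, 1000⟩⟩ (tA0.hUp false true) :=
  posD_of_check0 (c := ⟨400, ⟨2, 7, 15, 10⟩⟩) (by decide +kernel)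

def tA0_um01 : PosD ⟨⟨0, 1, 1⟩, ⟨98, 99, 147⟩, ⟨0, 301, 10000⟩, ⟨290, 500, 1000⟩⟩ (tA0.hUm false true) :=
  posD_of_check0 (c := ⟨426, ⟨3, 8, 15, 11⟩⟩) (by decide +kernel)

def tA0_tmg01 : PosD ⟨⟨0, 1, 1⟩, ⟨98, 99, 147⟩, ⟨0, 301, 10000⟩, ⟨290, 500, 1000⟩⟩ (tA0.hTMG true (tA0.pEnd false)) :=
  posD_of_check0 (c := ⟨386, ⟨2, 7, 14, 10⟩⟩) (by decide +kernel)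

def tA0_kap1 : PosD ⟨⟨0, 1, 1⟩, ⟨98, 99, 147⟩, ⟨0, 301, 10000⟩, ⟨290, 500, 1000⟩⟩ (tA0.kap true) :=
  posD_of_check0 (c := ⟨24, ⟨0, 0, 1, 1⟩⟩) (by decide +kernel)

def tA0_c11 : PosD ⟨⟨0, 1, 1⟩, ⟨98, 99, 147⟩, ⟨0, 301, 10000⟩, ⟨290, 500, 1000⟩⟩ (tA0.hC1 true) :=
  posD_of_check0 (c := ⟨264, ⟨2, 5, 9, 7⟩⟩) (by decide +kernel)

def tA0_c1h1 : PosD ⟨⟨0, 1, 1⟩, ⟨98, 99, 147⟩, ⟨0, 301, 10000⟩, ⟨290, 500, 1000⟩⟩ (tA0.hC1' true) :=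
  posD_of_check0 (c := ⟨264, ⟨2, 5, 9, 7⟩⟩) (by decide +kernel)

def tA0_tg10 : PosD ⟨⟨0, 1, 1⟩, ⟨98, 99, 147⟩, ⟨0, 301, 10000⟩, ⟨290, 500, 1000⟩⟩ (tA0.hG false (tA0.pEnd true)) :=
  posD_of_check0 (c := ⟨371, ⟨2, 7, 14, 9⟩⟩) (by decide +kernel)

def tA0_c2p10 : PosD ⟨⟨0, 1, 1⟩, ⟨98, 99, 147⟩, ⟨0, 301, 10000⟩, ⟨290, 500, 1000⟩⟩ (tA0.hC2p false (tA0.pEnd true)) :=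
  posD_of_check0 (c := ⟨403, ⟨2, 7, 16, 10⟩⟩) (by decide +kernel)

def tA0_c2m10 : PosD ⟨⟨0, 1, 1⟩, ⟨98, 99, 147⟩, ⟨0, 301, 10000⟩, ⟨290, 500, 1000⟩⟩ (tA0.hC2m false (tA0.pEnd true)) :=
  posD_of_check0 (c := ⟨438, ⟨3, 8, 16, 11⟩⟩) (by decide +kernel)

def tA0_c3p10 : PosD ⟨⟨0, 1, 1⟩, ⟨98, 99, 147⟩, ⟨0, 301, 10000⟩, ⟨290, 500, 1000⟩⟩ (tA0.hC3p true false) :=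
  posD_of_check0 (c := ⟨401, ⟨2, 7, 15, 10⟩⟩) (by decide +kernel)

def tA0_c3m10 : PosD ⟨⟨0, 1, 1⟩, ⟨98, 99, 147⟩, ⟨0, 301, 10000⟩, ⟨290, 500, 1000⟩⟩ (tA0.hC3m true false) :=
  posD_of_check0 (c := ⟨427, ⟨3, 8, 15, 11⟩⟩) (by decide +kernel)

def tA0_c3ph10 : PosD ⟨⟨0, 1, 1⟩, ⟨98, 99, 147⟩, ⟨0, 301, 10000⟩, ⟨290, 500, 1000⟩⟩ (tA0.hC3p' true false) :=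
  posD_of_check0 (c := ⟨401, ⟨2, 7, 15, 10⟩⟩) (by decide +kernel)

def tA0_c3mh10 : PosD ⟨⟨0, 1, 1⟩, ⟨98, 99, 147⟩, ⟨0, 301, 10000⟩, ⟨290, 500, 1000⟩⟩ (tA0.hC3m' true false) :=
  posD_of_check0 (c := ⟨427, ⟨3, 8, 15, 11⟩⟩) (by decide +kernel)

def tA0_up10 : PosD ⟨⟨0, 1, 1⟩, ⟨98, 99, 147⟩, ⟨0, 301, 10000⟩, ⟨290, 500, 1000⟩⟩ (tA0.hUp true false) :=
  posD_of_check0 (c := ⟨400, ⟨2, 7, 15, 10⟩⟩) (by decide +kernel)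

def tA0_um10 : PosD ⟨⟨0, 1, 1⟩, ⟨98, 99, 147⟩, ⟨0, 301, 10000⟩, ⟨290, 500, 1000⟩⟩ (tA0.hUm true false) :=
  posD_of_check0 (c := ⟨427, ⟨3, 8, 15, 11⟩⟩) (by decide +kernel)

def tA0_tmg10 : PosD ⟨⟨0, 1, 1⟩, ⟨98, 99, 147⟩, ⟨0, 301, 10000⟩, ⟨290, 500, 1000⟩⟩ (tA0.hTMG false (tA0.pEnd true)) :=
  posD_of_check0 (c := ⟨386, ⟨2, 7, 14, 10⟩⟩) (by decide +kernel)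

def tA0_tg11 : PosD ⟨⟨0, 1, 1⟩, ⟨98, 99, 147⟩, ⟨0, 301, 10000⟩, ⟨290, 500, 1000⟩⟩ (tA0.hG true (tA0.pEnd true)) :=
  posD_of_check0 (c := ⟨371, ⟨2, 7, 14, 9⟩⟩) (by decide +kernel)

def tA0_c2p11 : PosD ⟨⟨0, 1, 1⟩, ⟨98, 99, 147⟩, ⟨0, 301, 10000⟩, ⟨290, 500, 1000⟩⟩ (tA0.hC2p true (tA0.pEnd true)) :=
  posD_of_check0 (c := ⟨403, ⟨2, 7, 16, 10⟩⟩) (by decide +kernel)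

def tA0_c2m11 : PosD ⟨⟨0, 1, 1⟩, ⟨98, 99, 147⟩, ⟨0, 301, 10000⟩, ⟨290, 500, 1000⟩⟩ (tA0.hC2m true (tA0.pEnd true)) :=
  posD_of_check0 (c := ⟨438, ⟨3, 8, 16, 11⟩⟩) (by decide +kernel)

def tA0_c3p11 : PosD ⟨⟨0, 1, 1⟩, ⟨98, 99, 147⟩, ⟨0, 301, 10000⟩, ⟨290, 500, 1000⟩⟩ (tA0.hC3p true true) :=
  posD_of_check0 (c := ⟨401, ⟨2, 7, 15, 10⟩⟩) (by decide +kernel)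

def tA0_c3m11 : PosD ⟨⟨0, 1, 1⟩, ⟨98, 99, 147⟩, ⟨0, 301, 10000⟩, ⟨290, 500, 1000⟩⟩ (tA0.hC3m true true) :=
  posD_of_check0 (c := ⟨427, ⟨3, 8, 15, 11⟩⟩) (by decide +kernel)

def tA0_c3ph11 : PosD ⟨⟨0, 1, 1⟩, ⟨98, 99, 147⟩, ⟨0, 301, 10000⟩, ⟨290, 500, 1000⟩⟩ (tA0.hC3p' true true) :=
  posD_of_check0 (c := ⟨401, ⟨2, 7, 15, 10⟩⟩) (by decide +kernel)

def tA0_c3mh11 : PosD ⟨⟨0, 1, 1⟩, ⟨98, 99, 147⟩, ⟨0, 301, 10000⟩, ⟨290, 500, 1000⟩⟩ (tA0.hC3m' true true) :=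
  posD_of_check0 (c := ⟨427, ⟨3, 8, 15, 11⟩⟩) (by decide +kernel)

def tA0_up11 : PosD ⟨⟨0, 1, 1⟩, ⟨98, 99, 147⟩, ⟨0, 301, 10000⟩, ⟨290, 500, 1000⟩⟩ (tA0.hUp true true) :=
  posD_of_check0 (c := ⟨400, ⟨2, 7, 15, 10⟩⟩) (by decide +kernel)

def tA0_um11 : PosD ⟨⟨0, 1, 1⟩, ⟨98, 99, 147⟩, ⟨0, 301, 10000⟩, ⟨290, 500, 1000⟩⟩ (tA0.hUm true true) :=
  posD_of_check0 (c := ⟨427, ⟨3, 8, 15, 11⟩⟩) (by decide +kernel)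

def tA0_tmg11 : PosD ⟨⟨0, 1, 1⟩, ⟨98, 99, 147⟩, ⟨0, 301, 10000⟩, ⟨290, 500, 1000⟩⟩ (tA0.hTMG true (tA0.pEnd true)) :=
  posD_of_check0 (c := ⟨386, ⟨2, 7, 14, 10⟩⟩) (by decide +kernel)

/-- The signs of the piece. -/
def tA0_sign : tA0.Sign ⟨⟨0, 1, 1⟩, ⟨98, 99, 147⟩, ⟨0, 301, 10000⟩, ⟨290, 500, 1000⟩⟩ :=
  ⟨tA0_pp,
    tA0_k2p,
    tA0_k2m,
    Bool.forall_bool.2 ⟨(Bool.forall_bool.2 ⟨tA0_tg00, tA0_tg01⟩), (Bool.forall_bool.2 ⟨tA0_tg10, tA0_tg11⟩)⟩,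
    Bool.forall_bool.2 ⟨(Bool.forall_bool.2 ⟨tA0_c2p00, tA0_c2p01⟩), (Bool.forall_bool.2 ⟨tA0_c2p10, tA0_c2p11⟩)⟩,
    Bool.forall_bool.2 ⟨(Bool.forall_bool.2 ⟨tA0_c2m00, tA0_c2m01⟩), (Bool.forall_bool.2 ⟨tA0_c2m10, tA0_c2m11⟩)⟩,
    Bool.forall_bool.2 ⟨tA0_kap0, tA0_kap1⟩,
    Bool.forall_bool.2 ⟨tA0_c10, tA0_c11⟩,
    Bool.forall_bool.2 ⟨(Bool.forall_bool.2 ⟨tA0_c3p00, tA0_c3p01⟩), (Bool.forall_bool.2 ⟨tA0_c3p10, tA0_c3p11⟩)⟩,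
    Bool.forall_bool.2 ⟨(Bool.forall_bool.2 ⟨tA0_c3m00, tA0_c3m01⟩), (Bool.forall_bool.2 ⟨tA0_c3m10, tA0_c3m11⟩)⟩,
    Bool.forall_bool.2 ⟨(Bool.forall_bool.2 ⟨tA0_tmg00, tA0_tmg01⟩), (Bool.forall_bool.2 ⟨tA0_tmg10, tA0_tmg11⟩)⟩,
    .inr (Bool.forall_bool.2 ⟨⟨tA0_c1h0, Bool.forall_bool.2 ⟨⟨tA0_c3ph00, tA0_c3mh00, tA0_up00, tA0_um00⟩, ⟨tA0_c3ph01, tA0_c3mh01, tA0_up01, tA0_um01⟩⟩⟩, ⟨tA0_c1h1, Bool.forall_bool.2 ⟨⟨tA0_c3ph10, tA0_c3mh10, tA0_up10, tA0_um10⟩, ⟨tA0_c3ph11, tA0_c3mh11, tA0_up11, tA0_um11⟩⟩⟩⟩),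
    tA0_v2p,
    tA0_v2m,
    tA0_v3p,
    tA0_v3m,
    posD_sub (b := ⟨⟨0, 1, 1⟩, ⟨98, 99, 147⟩, ⟨0, 301, 10000⟩, ⟨290, 4000, 1000⟩⟩) (by decide +kernel) tA_vG,
    posD_sub (b := ⟨⟨0, 1, 1⟩, ⟨98, 99, 147⟩, ⟨0, 301, 10000⟩, ⟨290, 4000, 1000⟩⟩) (by decide +kernel) tA_vMG,
    posD_sub (b := ⟨⟨0, 1, 1⟩, ⟨98, 99, 147⟩, ⟨0, 301, 10000⟩, ⟨290, 4000, 1000⟩⟩) (by decide +kernel) tA_ak,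
    posD_sub (b := ⟨⟨0, 1, 1⟩, ⟨98, 99, 147⟩, ⟨0, 301, 10000⟩, ⟨290, 4000, 1000⟩⟩) (by decide +kernel) tA_aw,
    posD_sub (b := ⟨⟨0, 1, 1⟩, ⟨98, 99, 147⟩, ⟨0, 301, 10000⟩, ⟨290, 4000, 1000⟩⟩) (by decide +kernel) tA_gk,
    posD_sub (b := ⟨⟨0, 1, 1⟩, ⟨98, 99, 147⟩, ⟨0, 301, 10000⟩, ⟨290, 4000, 1000⟩⟩) (by decide +kernel) tA_gw,
    posD_sub (b := ⟨⟨0, 1, 1⟩, ⟨98, 99, 147⟩, ⟨0, 301, 10000⟩, ⟨290, 4000, 1000⟩⟩) (by decide +kernel) tA_ek,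
    posD_sub (b := ⟨⟨0, 1, 1⟩, ⟨98, 99, 147⟩, ⟨0, 301, 10000⟩, ⟨290, 4000, 1000⟩⟩) (by decide +kernel) tA_ew⟩

end Vale.Agent.P100.Calib.Closed.Six.Tail
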