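import Vale.Agent.P100.Calib.SlabSixTailDataA
import Vale.Agent.P100.Calib.SlabSixTailGlobA

/-!
# Checks of some pieces of the certificate

The checks are written as definitions so that they run one after another, which keeps the memory of the
kernel low.
-/

set_option linter.defProp false

namespace Vale.Agent.P100.Calib.Closed.Six.Tail

open BoxPos Large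

local instance sixTailCheckstA1Add : Add Ex := ⟨Ex.add⟩
local instance sixTailCheckstA1Sub : Sub Ex := ⟨Ex.sub⟩
local instance sixTailCheckstA1Mul : Mul Ex := ⟨Ex.mul⟩

def tA1_p0 : PosD ⟨⟨0, 1, 1⟩, ⟨98, 99, 147⟩, ⟨0, 301, 10000⟩, ⟨500, 1000, 1000⟩⟩ (tA1.hP0) :=
  posD_of_check0 (c := ⟨81, ⟨0, 2, 3, 1⟩⟩) (by decide +kernel)

def tA1_gn : PosD ⟨⟨0, 1, 1⟩, ⟨98, 99, 147⟩, ⟨0, 301, 10000⟩, ⟨500, 1000, 1000⟩⟩ (tA1.hGn) :=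
  posD_of_check0 (c := ⟨55, ⟨1, 1, 2, 1⟩⟩) (by decide +kernel)

def tA1_den0 : PosD ⟨⟨0, 1, 1⟩, ⟨98, 99, 147⟩, ⟨0, 301, 10000⟩, ⟨500, 1000, 1000⟩⟩ (tA1.hDen false) :=
  posD_of_check0 (c := ⟨47, ⟨1, 0, 2, 0⟩⟩) (by decide +kernel)

def tA1_den1 : PosD ⟨⟨0, 1, 1⟩, ⟨98, 99, 147⟩, ⟨0, 301, 10000⟩, ⟨500, 1000, 1000⟩⟩ (tA1.hDen true) :=
  posD_of_check0 (c := ⟨47, ⟨1, 0, 2, 0⟩⟩) (by decide +kernel)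

def tA1_ev0 : PosD ⟨⟨0, 1, 1⟩, ⟨98, 99, 147⟩, ⟨0, 301, 10000⟩, ⟨500, 1000, 1000⟩⟩ (tA1.hEv false) :=
  posD_of_check0 (c := ⟨124, ⟨4, 2, 4, 1⟩⟩) (by decide +kernel)

def tA1_zL0 : PosD ⟨⟨0, 1, 1⟩, ⟨98, 99, 147⟩, ⟨0, 301, 10000⟩, ⟨500, 1000, 1000⟩⟩ (tA1.hZL false) :=
  posD_of_check0 (c := ⟨160, ⟨4, 3, 6, 3⟩⟩) (by decide +kernel)

def tA1_zU0 : PosD ⟨⟨0, 1, 1⟩, ⟨98, 99, 147⟩, ⟨0, 301, 10000⟩, ⟨500, 1000, 1000⟩⟩ (tA1.hZU false) :=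
  posD_of_check0 (c := ⟨160, ⟨4, 3, 6, 3⟩⟩) (by decide +kernel)

def tA1_eL0 : PosD ⟨⟨0, 1, 1⟩, ⟨98, 99, 147⟩, ⟨0, 301, 10000⟩, ⟨500, 1000, 1000⟩⟩ (tA1.hEL false) :=
  posD_of_check0 (c := ⟨217, ⟨5, 6, 7, 3⟩⟩) (by decide +kernel)

def tA1_eH0 : PosD ⟨⟨0, 1, 1⟩, ⟨98, 99, 147⟩, ⟨0, 301, 10000⟩, ⟨500, 1000, 1000⟩⟩ (tA1.hEH false) :=
  posD_of_check0 (c := ⟨233, ⟨5, 6, 7, 3⟩⟩) (by decide +kernel)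

def tA1_pL0 : PosD ⟨⟨0, 1, 1⟩, ⟨98, 99, 147⟩, ⟨0, 301, 10000⟩, ⟨500, 1000, 1000⟩⟩ (tA1.hPL false) :=
  posD_of_check0 (c := ⟨232, ⟨5, 6, 7, 2⟩⟩) (by decide +kernel)

def tA1_pU0 : PosD ⟨⟨0, 1, 1⟩, ⟨98, 99, 147⟩, ⟨0, 301, 10000⟩, ⟨500, 1000, 1000⟩⟩ (tA1.hPU false) :=
  posD_of_check0 (c := ⟨232, ⟨5, 6, 7, 3⟩⟩) (by decide +kernel)

def tA1_kU0 : PosD ⟨⟨0, 1, 1⟩, ⟨98, 99, 147⟩, ⟨0, 301, 10000⟩, ⟨500, 1000, 1000⟩⟩ (tA1.hKU false) :=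
  posD_of_check0 (c := ⟨227, ⟨5, 6, 7, 3⟩⟩) (by decide +kernel)

def tA1_kL0a : PosD ⟨⟨0, 1, 2⟩, ⟨98, 99, 147⟩, ⟨0, 301, 10000⟩, ⟨500, 1000, 1000⟩⟩ (tA1.hKL false) :=
  posD_of_check0 (c := ⟨230, ⟨5, 6, 7, 3⟩⟩) (by decide +kernel)

def tA1_kL0b : PosD ⟨⟨1, 2, 2⟩, ⟨98, 99, 147⟩, ⟨0, 301, 10000⟩, ⟨500, 1000, 1000⟩⟩ (tA1.hKL false) :=
  posD_of_check0 (c := ⟨232, ⟨5, 6, 7, 3⟩⟩) (by decide +kernel)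

def tA1_kL0 : PosD ⟨⟨0, 1, 1⟩, ⟨98, 99, 147⟩, ⟨0, 301, 10000⟩, ⟨500, 1000, 1000⟩⟩ (tA1.hKL false) :=
  posD_units (b := ⟨⟨0, 2, 2⟩, ⟨98, 99, 147⟩, ⟨0, 301, 10000⟩, ⟨500, 1000, 1000⟩⟩) (by decide +kernel) (posD_join₀ tA1_kL0a tA1_kL0b)

def tA1_wU0a : PosD ⟨⟨0, 1, 2⟩, ⟨98, 99, 147⟩, ⟨0, 301, 10000⟩, ⟨500, 1000, 1000⟩⟩ (tA1.hWU false) :=
  posD_of_check0 (c := ⟨266, ⟨5, 8, 8, 3⟩⟩) (by decide +kernel)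

def tA1_wU0baa : PosD ⟨⟨2, 3, 4⟩, ⟨98, 99, 147⟩, ⟨0, 301, 10000⟩, ⟨500, 750, 1000⟩⟩ (tA1.hWU false) :=
  posD_of_check0 (c := ⟨272, ⟨5, 8, 8, 3⟩⟩) (by decide +kernel)

def tA1_wU0bab : PosD ⟨⟨3, 4, 4⟩, ⟨98, 99, 147⟩, ⟨0, 301, 10000⟩, ⟨500, 750, 1000⟩⟩ (tA1.hWU false) :=
  posD_of_check0 (c := ⟨272, ⟨5, 8, 8, 3⟩⟩) (by decide +kernel)

def tA1_wU0ba : PosD ⟨⟨1, 2, 2⟩, ⟨98, 99, 147⟩, ⟨0, 301, 10000⟩, ⟨500, 750, 1000⟩⟩ (tA1.hWU false) :=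
  posD_units (b := ⟨⟨2, 4, 4⟩, ⟨98, 99, 147⟩, ⟨0, 301, 10000⟩, ⟨500, 750, 1000⟩⟩) (by decide +kernel) (posD_join₀ tA1_wU0baa tA1_wU0bab)

def tA1_wU0bba : PosD ⟨⟨2, 3, 4⟩, ⟨98, 99, 147⟩, ⟨0, 301, 10000⟩, ⟨750, 1000, 1000⟩⟩ (tA1.hWU false) :=
  posD_of_check0 (c := ⟨272, ⟨5, 8, 8, 3⟩⟩) (by decide +kernel)

def tA1_wU0bbb : PosD ⟨⟨3, 4, 4⟩, ⟨98, 99, 147⟩, ⟨0, 301, 10000⟩, ⟨750, 1000, 1000⟩⟩ (tA1.hWU false) :=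
  posD_of_check0 (c := ⟨272, ⟨5, 8, 8, 3⟩⟩) (by decide +kernel)

def tA1_wU0bb : PosD ⟨⟨1, 2, 2⟩, ⟨98, 99, 147⟩, ⟨0, 301, 10000⟩, ⟨750, 1000, 1000⟩⟩ (tA1.hWU false) :=
  posD_units (b := ⟨⟨2, 4, 4⟩, ⟨98, 99, 147⟩, ⟨0, 301, 10000⟩, ⟨750, 1000, 1000⟩⟩) (by decide +kernel) (posD_join₀ tA1_wU0bba tA1_wU0bbb)

def tA1_wU0b : PosD ⟨⟨1, 2, 2⟩, ⟨98, 99, 147⟩, ⟨0, 301, 10000⟩, ⟨500, 1000, 1000⟩⟩ (tA1.hWU false) :=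
  posD_join₃ tA1_wU0ba tA1_wU0bb

def tA1_wU0 : PosD ⟨⟨0, 1, 1⟩, ⟨98, 99, 147⟩, ⟨0, 301, 10000⟩, ⟨500, 1000, 1000⟩⟩ (tA1.hWU false) :=
  posD_units (b := ⟨⟨0, 2, 2⟩, ⟨98, 99, 147⟩, ⟨0, 301, 10000⟩, ⟨500, 1000, 1000⟩⟩) (by decide +kernel) (posD_join₀ tA1_wU0a tA1_wU0b)

def tA1_wL0 : PosD ⟨⟨0, 1, 1⟩, ⟨98, 99, 147⟩, ⟨0, 301, 10000⟩, ⟨500, 1000, 1000⟩⟩ (tA1.hWL false) :=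
  posD_of_check0 (c := ⟨263, ⟨5, 8, 8, 3⟩⟩) (by decide +kernel)

def tA1_ev1 : PosD ⟨⟨0, 1, 1⟩, ⟨98, 99, 147⟩, ⟨0, 301, 10000⟩, ⟨500, 1000, 1000⟩⟩ (tA1.hEv true) :=
  posD_of_check0 (c := ⟨126, ⟨4, 2, 4, 1⟩⟩) (by decide +kernel)

def tA1_zL1a : PosD ⟨⟨0, 1, 1⟩, ⟨98, 99, 147⟩, ⟨0, 150, 10000⟩, ⟨500, 1000, 1000⟩⟩ (tA1.hZL true) :=
  posD_of_check0 (c := ⟨160, ⟨4, 3, 6, 3⟩⟩) (by decide +kernel)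

def tA1_zL1b : PosD ⟨⟨0, 1, 1⟩, ⟨98, 99, 147⟩, ⟨150, 301, 10000⟩, ⟨500, 1000, 1000⟩⟩ (tA1.hZL true) :=
  posD_of_check (c := ⟨160, ⟨4, 3, 6, 3⟩⟩) (by decide +kernel)

def tA1_zL1 : PosD ⟨⟨0, 1, 1⟩, ⟨98, 99, 147⟩, ⟨0, 301, 10000⟩, ⟨500, 1000, 1000⟩⟩ (tA1.hZL true) :=
  posD_join₂ tA1_zL1a tA1_zL1b

def tA1_zU1 : PosD ⟨⟨0, 1, 1⟩, ⟨98, 99, 147⟩, ⟨0, 301, 10000⟩, ⟨500, 1000, 1000⟩⟩ (tA1.hZU true) :=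
  posD_of_check0 (c := ⟨160, ⟨4, 3, 6, 3⟩⟩) (by decide +kernel)

def tA1_eL1 : PosD ⟨⟨0, 1, 1⟩, ⟨98, 99, 147⟩, ⟨0, 301, 10000⟩, ⟨500, 1000, 1000⟩⟩ (tA1.hEL true) :=
  posD_of_check0 (c := ⟨219, ⟨5, 6, 7, 3⟩⟩) (by decide +kernel)

def tA1_eH1aaa : PosD ⟨⟨0, 1, 2⟩, ⟨98, 99, 147⟩, ⟨0, 150, 10000⟩, ⟨500, 750, 1000⟩⟩ (tA1.hEH true) :=
  posD_of_check0 (c := ⟨238, ⟨5, 6, 7, 3⟩⟩) (by decide +kernel)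

def tA1_eH1aab : PosD ⟨⟨0, 1, 2⟩, ⟨98, 99, 147⟩, ⟨150, 301, 10000⟩, ⟨500, 750, 1000⟩⟩ (tA1.hEH true) :=
  posD_of_check (c := ⟨238, ⟨5, 6, 7, 3⟩⟩) (by decide +kernel)

def tA1_eH1aa : PosD ⟨⟨0, 1, 2⟩, ⟨98, 99, 147⟩, ⟨0, 301, 10000⟩, ⟨500, 750, 1000⟩⟩ (tA1.hEH true) :=
  posD_join₂ tA1_eH1aaa tA1_eH1aab

def tA1_eH1aba : PosD ⟨⟨0, 1, 2⟩, ⟨98, 99, 147⟩, ⟨0, 150, 10000⟩, ⟨750, 1000, 1000⟩⟩ (tA1.hEH true) :=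
  posD_of_check0 (c := ⟨238, ⟨5, 6, 7, 3⟩⟩) (by decide +kernel)

def tA1_eH1abb : PosD ⟨⟨0, 1, 2⟩, ⟨98, 99, 147⟩, ⟨150, 301, 10000⟩, ⟨750, 1000, 1000⟩⟩ (tA1.hEH true) :=
  posD_of_check (c := ⟨238, ⟨5, 6, 7, 3⟩⟩) (by decide +kernel)

def tA1_eH1ab : PosD ⟨⟨0, 1, 2⟩, ⟨98, 99, 147⟩, ⟨0, 301, 10000⟩, ⟨750, 1000, 1000⟩⟩ (tA1.hEH true) :=
  posD_join₂ tA1_eH1aba tA1_eH1abb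

def tA1_eH1a : PosD ⟨⟨0, 1, 2⟩, ⟨98, 99, 147⟩, ⟨0, 301, 10000⟩, ⟨500, 1000, 1000⟩⟩ (tA1.hEH true) :=
  posD_join₃ tA1_eH1aa tA1_eH1ab

def tA1_eH1baaaaa : PosD ⟨⟨4, 5, 8⟩, ⟨98, 99, 147⟩, ⟨0, 150, 10000⟩, ⟨500, 625, 1000⟩⟩ (tA1.hEH true) :=
  posD_of_check0 (c := ⟨247, ⟨5, 6, 7, 3⟩⟩) (by decide +kernel)

def tA1_eH1baaaaba : PosD ⟨⟨4, 5, 8⟩, ⟨98, 99, 147⟩, ⟨0, 75, 10000⟩, ⟨625, 750, 1000⟩⟩ (tA1.hEH true) :=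
  posD_of_check0 (c := ⟨247, ⟨5, 6, 7, 3⟩⟩) (by decide +kernel)

def tA1_eH1baaaabb : PosD ⟨⟨4, 5, 8⟩, ⟨98, 99, 147⟩, ⟨75, 150, 10000⟩, ⟨625, 750, 1000⟩⟩ (tA1.hEH true) :=
  posD_of_check (c := ⟨247, ⟨5, 6, 7, 3⟩⟩) (by decide +kernel)

def tA1_eH1baaaab : PosD ⟨⟨4, 5, 8⟩, ⟨98, 99, 147⟩, ⟨0, 150, 10000⟩, ⟨625, 750, 1000⟩⟩ (tA1.hEH true) :=
  posD_join₂ tA1_eH1baaaaba tA1_eH1baaaabb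

def tA1_eH1baaaa : PosD ⟨⟨4, 5, 8⟩, ⟨98, 99, 147⟩, ⟨0, 150, 10000⟩, ⟨500, 750, 1000⟩⟩ (tA1.hEH true) :=
  posD_join₃ tA1_eH1baaaaa tA1_eH1baaaab

def tA1_eH1baaab : PosD ⟨⟨5, 6, 8⟩, ⟨98, 99, 147⟩, ⟨0, 150, 10000⟩, ⟨500, 750, 1000⟩⟩ (tA1.hEH true) :=
  posD_of_check0 (c := ⟨248, ⟨5, 6, 7, 3⟩⟩) (by decide +kernel)

def tA1_eH1baaa : PosD ⟨⟨2, 3, 4⟩, ⟨98, 99, 147⟩, ⟨0, 150, 10000⟩, ⟨500, 750, 1000⟩⟩ (tA1.hEH true) :=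
  posD_units (b := ⟨⟨4, 6, 8⟩, ⟨98, 99, 147⟩, ⟨0, 150, 10000⟩, ⟨500, 750, 1000⟩⟩) (by decide +kernel) (posD_join₀ tA1_eH1baaaa tA1_eH1baaab)

def tA1_eH1baab : PosD ⟨⟨2, 3, 4⟩, ⟨98, 99, 147⟩, ⟨150, 301, 10000⟩, ⟨500, 750, 1000⟩⟩ (tA1.hEH true) :=
  posD_of_check (c := ⟨244, ⟨5, 6, 7, 3⟩⟩) (by decide +kernel)

def tA1_eH1baa : PosD ⟨⟨2, 3, 4⟩, ⟨98, 99, 147⟩, ⟨0, 301, 10000⟩, ⟨500, 750, 1000⟩⟩ (tA1.hEH true) :=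
  posD_join₂ tA1_eH1baaa tA1_eH1baab

def tA1_eH1babaaaa : PosD ⟨⟨4, 5, 8⟩, ⟨98, 99, 147⟩, ⟨0, 75, 10000⟩, ⟨750, 875, 1000⟩⟩ (tA1.hEH true) :=
  posD_of_check0 (c := ⟨247, ⟨5, 6, 7, 3⟩⟩) (by decide +kernel)

def tA1_eH1babaaab : PosD ⟨⟨4, 5, 8⟩, ⟨98, 99, 147⟩, ⟨75, 150, 10000⟩, ⟨750, 875, 1000⟩⟩ (tA1.hEH true) :=
  posD_of_check (c := ⟨247, ⟨5, 6, 7, 3⟩⟩) (by decide +kernel)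

def tA1_eH1babaaa : PosD ⟨⟨4, 5, 8⟩, ⟨98, 99, 147⟩, ⟨0, 150, 10000⟩, ⟨750, 875, 1000⟩⟩ (tA1.hEH true) :=
  posD_join₂ tA1_eH1babaaaa tA1_eH1babaaab

def tA1_eH1babaab : PosD ⟨⟨5, 6, 8⟩, ⟨98, 99, 147⟩, ⟨0, 150, 10000⟩, ⟨750, 875, 1000⟩⟩ (tA1.hEH true) :=
  posD_of_check0 (c := ⟨248, ⟨5, 6, 7, 3⟩⟩) (by decide +kernel)

def tA1_eH1babaa : PosD ⟨⟨2, 3, 4⟩, ⟨98, 99, 147⟩, ⟨0, 150, 10000⟩, ⟨750, 875, 1000⟩⟩ (tA1.hEH true) :=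
  posD_units (b := ⟨⟨4, 6, 8⟩, ⟨98, 99, 147⟩, ⟨0, 150, 10000⟩, ⟨750, 875, 1000⟩⟩) (by decide +kernel) (posD_join₀ tA1_eH1babaaa tA1_eH1babaab)

def tA1_eH1babab : PosD ⟨⟨2, 3, 4⟩, ⟨98, 99, 147⟩, ⟨150, 301, 10000⟩, ⟨750, 875, 1000⟩⟩ (tA1.hEH true) :=
  posD_of_check (c := ⟨244, ⟨5, 6, 7, 3⟩⟩) (by decide +kernel)

def tA1_eH1baba : PosD ⟨⟨2, 3, 4⟩, ⟨98, 99, 147⟩, ⟨0, 301, 10000⟩, ⟨750, 875, 1000⟩⟩ (tA1.hEH true) :=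
  posD_join₂ tA1_eH1babaa tA1_eH1babab

def tA1_eH1babbaa : PosD ⟨⟨4, 5, 8⟩, ⟨98, 99, 147⟩, ⟨0, 150, 10000⟩, ⟨875, 1000, 1000⟩⟩ (tA1.hEH true) :=
  posD_of_check0 (c := ⟨247, ⟨5, 6, 7, 3⟩⟩) (by decide +kernel)

def tA1_eH1babbab : PosD ⟨⟨5, 6, 8⟩, ⟨98, 99, 147⟩, ⟨0, 150, 10000⟩, ⟨875, 1000, 1000⟩⟩ (tA1.hEH true) :=
  posD_of_check0 (c := ⟨248, ⟨5, 6, 7, 3⟩⟩) (by decide +kernel)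

def tA1_eH1babba : PosD ⟨⟨2, 3, 4⟩, ⟨98, 99, 147⟩, ⟨0, 150, 10000⟩, ⟨875, 1000, 1000⟩⟩ (tA1.hEH true) :=
  posD_units (b := ⟨⟨4, 6, 8⟩, ⟨98, 99, 147⟩, ⟨0, 150, 10000⟩, ⟨875, 1000, 1000⟩⟩) (by decide +kernel) (posD_join₀ tA1_eH1babbaa tA1_eH1babbab)

def tA1_eH1babbba : PosD ⟨⟨4, 5, 8⟩, ⟨98, 99, 147⟩, ⟨150, 301, 10000⟩, ⟨875, 1000, 1000⟩⟩ (tA1.hEH true) :=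
  posD_of_check (c := ⟨247, ⟨5, 6, 7, 3⟩⟩) (by decide +kernel)

def tA1_eH1babbbb : PosD ⟨⟨5, 6, 8⟩, ⟨98, 99, 147⟩, ⟨150, 301, 10000⟩, ⟨875, 1000, 1000⟩⟩ (tA1.hEH true) :=
  posD_of_check (c := ⟨248, ⟨5, 6, 7, 3⟩⟩) (by decide +kernel)

def tA1_eH1babbb : PosD ⟨⟨2, 3, 4⟩, ⟨98, 99, 147⟩, ⟨150, 301, 10000⟩, ⟨875, 1000, 1000⟩⟩ (tA1.hEH true) :=
  posD_units (b := ⟨⟨4, 6, 8⟩, ⟨98, 99, 147⟩, ⟨150, 301, 10000⟩, ⟨875, 1000, 1000⟩⟩) (by decide +kernel) (posD_join₀ tA1_eH1babbba tA1_eH1babbbb)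

def tA1_eH1babb : PosD ⟨⟨2, 3, 4⟩, ⟨98, 99, 147⟩, ⟨0, 301, 10000⟩, ⟨875, 1000, 1000⟩⟩ (tA1.hEH true) :=
  posD_join₂ tA1_eH1babba tA1_eH1babbb

def tA1_eH1bab : PosD ⟨⟨2, 3, 4⟩, ⟨98, 99, 147⟩, ⟨0, 301, 10000⟩, ⟨750, 1000, 1000⟩⟩ (tA1.hEH true) :=
  posD_join₃ tA1_eH1baba tA1_eH1babb

def tA1_eH1ba : PosD ⟨⟨2, 3, 4⟩, ⟨98, 99, 147⟩, ⟨0, 301, 10000⟩, ⟨500, 1000, 1000⟩⟩ (tA1.hEH true) :=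
  posD_join₃ tA1_eH1baa tA1_eH1bab

def tA1_eH1bb : PosD ⟨⟨3, 4, 4⟩, ⟨98, 99, 147⟩, ⟨0, 301, 10000⟩, ⟨500, 1000, 1000⟩⟩ (tA1.hEH true) :=
  posD_of_check0 (c := ⟨244, ⟨5, 6, 7, 3⟩⟩) (by decide +kernel)

def tA1_eH1b : PosD ⟨⟨1, 2, 2⟩, ⟨98, 99, 147⟩, ⟨0, 301, 10000⟩, ⟨500, 1000, 1000⟩⟩ (tA1.hEH true) :=
  posD_units (b := ⟨⟨2, 4, 4⟩, ⟨98, 99, 147⟩, ⟨0, 301, 10000⟩, ⟨500, 1000, 1000⟩⟩) (by decide +kernel) (posD_join₀ tA1_eH1ba tA1_eH1bb)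

def tA1_eH1 : PosD ⟨⟨0, 1, 1⟩, ⟨98, 99, 147⟩, ⟨0, 301, 10000⟩, ⟨500, 1000, 1000⟩⟩ (tA1.hEH true) :=
  posD_units (b := ⟨⟨0, 2, 2⟩, ⟨98, 99, 147⟩, ⟨0, 301, 10000⟩, ⟨500, 1000, 1000⟩⟩) (by decide +kernel) (posD_join₀ tA1_eH1a tA1_eH1b)

def tA1_pL1 : PosD ⟨⟨0, 1, 1⟩, ⟨98, 99, 147⟩, ⟨0, 301, 10000⟩, ⟨500, 1000, 1000⟩⟩ (tA1.hPL true) :=
  posD_of_check0 (c := ⟨234, ⟨5, 6, 7, 2⟩⟩) (by decide +kernel)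

def tA1_pU1a : PosD ⟨⟨0, 1, 2⟩, ⟨98, 99, 147⟩, ⟨0, 301, 10000⟩, ⟨500, 1000, 1000⟩⟩ (tA1.hPU true) :=
  posD_of_check0 (c := ⟨237, ⟨5, 6, 7, 3⟩⟩) (by decide +kernel)

def tA1_pU1ba : PosD ⟨⟨1, 2, 2⟩, ⟨98, 99, 147⟩, ⟨0, 301, 10000⟩, ⟨500, 750, 1000⟩⟩ (tA1.hPU true) :=
  posD_of_check0 (c := ⟨239, ⟨5, 6, 7, 3⟩⟩) (by decide +kernel)

def tA1_pU1bbaa : PosD ⟨⟨2, 3, 4⟩, ⟨98, 99, 147⟩, ⟨0, 301, 10000⟩, ⟨750, 875, 1000⟩⟩ (tA1.hPU true) :=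
  posD_of_check0 (c := ⟨243, ⟨5, 6, 7, 3⟩⟩) (by decide +kernel)

def tA1_pU1bbab : PosD ⟨⟨3, 4, 4⟩, ⟨98, 99, 147⟩, ⟨0, 301, 10000⟩, ⟨750, 875, 1000⟩⟩ (tA1.hPU true) :=
  posD_of_check0 (c := ⟨243, ⟨5, 6, 7, 3⟩⟩) (by decide +kernel)

def tA1_pU1bba : PosD ⟨⟨1, 2, 2⟩, ⟨98, 99, 147⟩, ⟨0, 301, 10000⟩, ⟨750, 875, 1000⟩⟩ (tA1.hPU true) :=
  posD_units (b := ⟨⟨2, 4, 4⟩, ⟨98, 99, 147⟩, ⟨0, 301, 10000⟩, ⟨750, 875, 1000⟩⟩) (by decide +kernel) (posD_join₀ tA1_pU1bbaa tA1_pU1bbab)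

def tA1_pU1bbb : PosD ⟨⟨1, 2, 2⟩, ⟨98, 99, 147⟩, ⟨0, 301, 10000⟩, ⟨875, 1000, 1000⟩⟩ (tA1.hPU true) :=
  posD_of_check0 (c := ⟨239, ⟨5, 6, 7, 3⟩⟩) (by decide +kernel)

def tA1_pU1bb : PosD ⟨⟨1, 2, 2⟩, ⟨98, 99, 147⟩, ⟨0, 301, 10000⟩, ⟨750, 1000, 1000⟩⟩ (tA1.hPU true) :=
  posD_join₃ tA1_pU1bba tA1_pU1bbb

def tA1_pU1b : PosD ⟨⟨1, 2, 2⟩, ⟨98, 99, 147⟩, ⟨0, 301, 10000⟩, ⟨500, 1000, 1000⟩⟩ (tA1.hPU true) :=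
  posD_join₃ tA1_pU1ba tA1_pU1bb

def tA1_pU1 : PosD ⟨⟨0, 1, 1⟩, ⟨98, 99, 147⟩, ⟨0, 301, 10000⟩, ⟨500, 1000, 1000⟩⟩ (tA1.hPU true) :=
  posD_units (b := ⟨⟨0, 2, 2⟩, ⟨98, 99, 147⟩, ⟨0, 301, 10000⟩, ⟨500, 1000, 1000⟩⟩) (by decide +kernel) (posD_join₀ tA1_pU1a tA1_pU1b)

def tA1_kU1 : PosD ⟨⟨0, 1, 1⟩, ⟨98, 99, 147⟩, ⟨0, 301, 10000⟩, ⟨500, 1000, 1000⟩⟩ (tA1.hKU true) :=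
  posD_of_check0 (c := ⟨230, ⟨5, 6, 7, 3⟩⟩) (by decide +kernel)

def tA1_kL1a : PosD ⟨⟨0, 1, 2⟩, ⟨98, 99, 147⟩, ⟨0, 301, 10000⟩, ⟨500, 1000, 1000⟩⟩ (tA1.hKL true) :=
  posD_of_check0 (c := ⟨232, ⟨5, 6, 7, 3⟩⟩) (by decide +kernel)

def tA1_kL1ba : PosD ⟨⟨2, 3, 4⟩, ⟨98, 99, 147⟩, ⟨0, 301, 10000⟩, ⟨500, 1000, 1000⟩⟩ (tA1.hKL true) :=
  posD_of_check0 (c := ⟨237, ⟨5, 6, 7, 3⟩⟩) (by decide +kernel)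

def tA1_kL1bb : PosD ⟨⟨3, 4, 4⟩, ⟨98, 99, 147⟩, ⟨0, 301, 10000⟩, ⟨500, 1000, 1000⟩⟩ (tA1.hKL true) :=
  posD_of_check0 (c := ⟨238, ⟨5, 6, 7, 3⟩⟩) (by decide +kernel)

def tA1_kL1b : PosD ⟨⟨1, 2, 2⟩, ⟨98, 99, 147⟩, ⟨0, 301, 10000⟩, ⟨500, 1000, 1000⟩⟩ (tA1.hKL true) :=
  posD_units (b := ⟨⟨2, 4, 4⟩, ⟨98, 99, 147⟩, ⟨0, 301, 10000⟩, ⟨500, 1000, 1000⟩⟩) (by decide +kernel) (posD_join₀ tA1_kL1ba tA1_kL1bb)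

def tA1_kL1 : PosD ⟨⟨0, 1, 1⟩, ⟨98, 99, 147⟩, ⟨0, 301, 10000⟩, ⟨500, 1000, 1000⟩⟩ (tA1.hKL true) :=
  posD_units (b := ⟨⟨0, 2, 2⟩, ⟨98, 99, 147⟩, ⟨0, 301, 10000⟩, ⟨500, 1000, 1000⟩⟩) (by decide +kernel) (posD_join₀ tA1_kL1a tA1_kL1b)

def tA1_wU1aa : PosD ⟨⟨0, 1, 4⟩, ⟨98, 99, 147⟩, ⟨0, 301, 10000⟩, ⟨500, 1000, 1000⟩⟩ (tA1.hWU true) :=
  posD_of_check0 (c := ⟨272, ⟨5, 8, 8, 3⟩⟩) (by decide +kernel)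

def tA1_wU1aba : PosD ⟨⟨1, 2, 4⟩, ⟨98, 99, 147⟩, ⟨0, 301, 10000⟩, ⟨500, 750, 1000⟩⟩ (tA1.hWU true) :=
  posD_of_check0 (c := ⟨273, ⟨5, 8, 8, 3⟩⟩) (by decide +kernel)

def tA1_wU1abbaa : PosD ⟨⟨2, 3, 8⟩, ⟨98, 99, 147⟩, ⟨0, 150, 10000⟩, ⟨750, 1000, 1000⟩⟩ (tA1.hWU true) :=
  posD_of_check0 (c := ⟨278, ⟨5, 8, 8, 3⟩⟩) (by decide +kernel)

def tA1_wU1abbab : PosD ⟨⟨3, 4, 8⟩, ⟨98, 99, 147⟩, ⟨0, 150, 10000⟩, ⟨750, 1000, 1000⟩⟩ (tA1.hWU true) :=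
  posD_of_check0 (c := ⟨278, ⟨5, 8, 8, 3⟩⟩) (by decide +kernel)

def tA1_wU1abba : PosD ⟨⟨1, 2, 4⟩, ⟨98, 99, 147⟩, ⟨0, 150, 10000⟩, ⟨750, 1000, 1000⟩⟩ (tA1.hWU true) :=
  posD_units (b := ⟨⟨2, 4, 8⟩, ⟨98, 99, 147⟩, ⟨0, 150, 10000⟩, ⟨750, 1000, 1000⟩⟩) (by decide +kernel) (posD_join₀ tA1_wU1abbaa tA1_wU1abbab)

def tA1_wU1abbb : PosD ⟨⟨1, 2, 4⟩, ⟨98, 99, 147⟩, ⟨150, 301, 10000⟩, ⟨750, 1000, 1000⟩⟩ (tA1.hWU true) :=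
  posD_of_check (c := ⟨273, ⟨5, 8, 8, 3⟩⟩) (by decide +kernel)

def tA1_wU1abb : PosD ⟨⟨1, 2, 4⟩, ⟨98, 99, 147⟩, ⟨0, 301, 10000⟩, ⟨750, 1000, 1000⟩⟩ (tA1.hWU true) :=
  posD_join₂ tA1_wU1abba tA1_wU1abbb

def tA1_wU1ab : PosD ⟨⟨1, 2, 4⟩, ⟨98, 99, 147⟩, ⟨0, 301, 10000⟩, ⟨500, 1000, 1000⟩⟩ (tA1.hWU true) :=
  posD_join₃ tA1_wU1aba tA1_wU1abb

def tA1_wU1a : PosD ⟨⟨0, 1, 2⟩, ⟨98, 99, 147⟩, ⟨0, 301, 10000⟩, ⟨500, 1000, 1000⟩⟩ (tA1.hWU true) :=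
  posD_units (b := ⟨⟨0, 2, 4⟩, ⟨98, 99, 147⟩, ⟨0, 301, 10000⟩, ⟨500, 1000, 1000⟩⟩) (by decide +kernel) (posD_join₀ tA1_wU1aa tA1_wU1ab)

def tA1_wU1baa : PosD ⟨⟨2, 3, 4⟩, ⟨98, 99, 147⟩, ⟨0, 301, 10000⟩, ⟨500, 750, 1000⟩⟩ (tA1.hWU true) :=
  posD_of_check0 (c := ⟨274, ⟨5, 8, 8, 3⟩⟩) (by decide +kernel)

def tA1_wU1baba : PosD ⟨⟨2, 3, 4⟩, ⟨98, 99, 147⟩, ⟨0, 150, 10000⟩, ⟨750, 1000, 1000⟩⟩ (tA1.hWU true) :=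
  posD_of_check0 (c := ⟨274, ⟨5, 8, 8, 3⟩⟩) (by decide +kernel)

def tA1_wU1babb : PosD ⟨⟨2, 3, 4⟩, ⟨98, 99, 147⟩, ⟨150, 301, 10000⟩, ⟨750, 1000, 1000⟩⟩ (tA1.hWU true) :=
  posD_of_check (c := ⟨274, ⟨5, 8, 8, 3⟩⟩) (by decide +kernel)

def tA1_wU1bab : PosD ⟨⟨2, 3, 4⟩, ⟨98, 99, 147⟩, ⟨0, 301, 10000⟩, ⟨750, 1000, 1000⟩⟩ (tA1.hWU true) :=
  posD_join₂ tA1_wU1baba tA1_wU1babb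

def tA1_wU1ba : PosD ⟨⟨2, 3, 4⟩, ⟨98, 99, 147⟩, ⟨0, 301, 10000⟩, ⟨500, 1000, 1000⟩⟩ (tA1.hWU true) :=
  posD_join₃ tA1_wU1baa tA1_wU1bab

def tA1_wU1bb : PosD ⟨⟨3, 4, 4⟩, ⟨98, 99, 147⟩, ⟨0, 301, 10000⟩, ⟨500, 1000, 1000⟩⟩ (tA1.hWU true) :=
  posD_of_check0 (c := ⟨275, ⟨5, 8, 8, 3⟩⟩) (by decide +kernel)

def tA1_wU1b : PosD ⟨⟨1, 2, 2⟩, ⟨98, 99, 147⟩, ⟨0, 301, 10000⟩, ⟨500, 1000, 1000⟩⟩ (tA1.hWU true) :=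
  posD_units (b := ⟨⟨2, 4, 4⟩, ⟨98, 99, 147⟩, ⟨0, 301, 10000⟩, ⟨500, 1000, 1000⟩⟩) (by decide +kernel) (posD_join₀ tA1_wU1ba tA1_wU1bb)

def tA1_wU1 : PosD ⟨⟨0, 1, 1⟩, ⟨98, 99, 147⟩, ⟨0, 301, 10000⟩, ⟨500, 1000, 1000⟩⟩ (tA1.hWU true) :=
  posD_units (b := ⟨⟨0, 2, 2⟩, ⟨98, 99, 147⟩, ⟨0, 301, 10000⟩, ⟨500, 1000, 1000⟩⟩) (by decide +kernel) (posD_join₀ tA1_wU1a tA1_wU1b)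

def tA1_wL1aa : PosD ⟨⟨0, 1, 4⟩, ⟨98, 99, 147⟩, ⟨0, 301, 10000⟩, ⟨500, 1000, 1000⟩⟩ (tA1.hWL true) :=
  posD_of_check0 (c := ⟨272, ⟨5, 8, 8, 3⟩⟩) (by decide +kernel)

def tA1_wL1ab : PosD ⟨⟨1, 2, 4⟩, ⟨98, 99, 147⟩, ⟨0, 301, 10000⟩, ⟨500, 1000, 1000⟩⟩ (tA1.hWL true) :=
  posD_of_check0 (c := ⟨273, ⟨5, 8, 8, 3⟩⟩) (by decide +kernel)

def tA1_wL1a : PosD ⟨⟨0, 1, 2⟩, ⟨98, 99, 147⟩, ⟨0, 301, 10000⟩, ⟨500, 1000, 1000⟩⟩ (tA1.hWL true) :=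
  posD_units (b := ⟨⟨0, 2, 4⟩, ⟨98, 99, 147⟩, ⟨0, 301, 10000⟩, ⟨500, 1000, 1000⟩⟩) (by decide +kernel) (posD_join₀ tA1_wL1aa tA1_wL1ab)

def tA1_wL1b : PosD ⟨⟨1, 2, 2⟩, ⟨98, 99, 147⟩, ⟨0, 301, 10000⟩, ⟨500, 1000, 1000⟩⟩ (tA1.hWL true) :=
  posD_of_check0 (c := ⟨270, ⟨5, 8, 8, 3⟩⟩) (by decide +kernel)

def tA1_wL1 : PosD ⟨⟨0, 1, 1⟩, ⟨98, 99, 147⟩, ⟨0, 301, 10000⟩, ⟨500, 1000, 1000⟩⟩ (tA1.hWL true) :=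
  posD_units (b := ⟨⟨0, 2, 2⟩, ⟨98, 99, 147⟩, ⟨0, 301, 10000⟩, ⟨500, 1000, 1000⟩⟩) (by decide +kernel) (posD_join₀ tA1_wL1a tA1_wL1b)

def tA1_mueH : PosD ⟨⟨0, 1, 1⟩, ⟨98, 99, 147⟩, ⟨0, 301, 10000⟩, ⟨500, 1000, 1000⟩⟩ (tA1.eH.μ) :=
  posD_of_check0 (c := ⟨17, ⟨0, 0, 0, 0⟩⟩) (by decide +kernel)

def tA1_mupL : PosD ⟨⟨0, 1, 1⟩, ⟨98, 99, 147⟩, ⟨0, 301, 10000⟩, ⟨500, 1000, 1000⟩⟩ (tA1.pL.μ) :=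
  posD_of_check0 (c := ⟨16, ⟨0, 0, 0, 0⟩⟩) (by decide +kernel)

/-- The bounds of the piece. -/
def tA1_env : tA1.Env ⟨⟨0, 1, 1⟩, ⟨98, 99, 147⟩, ⟨0, 301, 10000⟩, ⟨500, 1000, 1000⟩⟩ :=
  ⟨tA1_p0, Bool.forall_bool.2 ⟨tA1_den0, tA1_den1⟩, tA1_gn, Bool.forall_bool.2 ⟨tA1_ev0, tA1_ev1⟩, Bool.forall_bool.2 ⟨tA1_zL0, tA1_zL1⟩, Bool.forall_bool.2 ⟨tA1_zU0, tA1_zU1⟩, Bool.forall_bool.2 ⟨tA1_eL0, tA1_eL1⟩, ⟨.inr rfl, .inr rfl⟩, Bool.forall_bool.2 ⟨tA1_eH0, tA1_eH1⟩, ⟨.inl tA1_mueH, .inr rfl⟩, Bool.forall_bool.2 ⟨tA1_pL0, tA1_pL1⟩, ⟨.inl tA1_mupL, .inr rfl⟩, Bool.forall_bool.2 ⟨tA1_pU0, tA1_pU1⟩, ⟨.inr rfl, .inr rfl⟩, Bool.forall_bool.2 ⟨tA1_kU0, tA1_kU1⟩, ⟨.inr rfl, .inr rfl⟩, Bool.forall_bool.2 ⟨tA1_kL0,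 tA1_kL1⟩, ⟨.inr rfl, .inr rfl⟩, Bool.forall_bool.2 ⟨tA1_wU0, tA1_wU1⟩, ⟨.inr rfl, .inr rfl⟩, Bool.forall_bool.2 ⟨tA1_wL0, tA1_wL1⟩, ⟨.inr rfl, .inr rfl⟩⟩

def tA1_pp : PosD ⟨⟨0, 1, 1⟩, ⟨98, 99, 147⟩, ⟨0, 301, 10000⟩, ⟨500, 1000, 1000⟩⟩ (tA1.xPL) :=
  posD_of_check0 (c := ⟨61, ⟨1, 1, 2, 2⟩⟩) (by decide +kernel)

def tA1_k2p : PosD ⟨⟨0, 1, 1⟩, ⟨98, 99, 147⟩, ⟨0, 301, 10000⟩, ⟨500, 1000, 1000⟩⟩ (tA1.k2p tA1.xE) :=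
  posD_of_check0 (c := ⟨65, ⟨1, 1, 2, 2⟩⟩) (by decide +kernel)

def tA1_k2m : PosD ⟨⟨0, 1, 1⟩, ⟨98, 99, 147⟩, ⟨0, 301, 10000⟩, ⟨500, 1000, 1000⟩⟩ (tA1.k2m tA1.xE) :=
  posD_of_check0 (c := ⟨22, ⟨0, 0, 1, 0⟩⟩) (by decide +kernel)

def tA1_v2p : PosD ⟨⟨0, 1, 1⟩, ⟨98, 99, 147⟩, ⟨0, 301, 10000⟩, ⟨500, 1000, 1000⟩⟩ (tA1.hV2p) :=
  posD_of_check0 (c := ⟨258, ⟨1, 6, 10, 5⟩⟩) (by decide +kernel)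

def tA1_v2m : PosD ⟨⟨0, 1, 1⟩, ⟨98, 99, 147⟩, ⟨0, 301, 10000⟩, ⟨500, 1000, 1000⟩⟩ (tA1.hV2m) :=
  posD_of_check0 (c := ⟨226, ⟨0, 5, 10, 4⟩⟩) (by decide +kernel)

def tA1_v3p : PosD ⟨⟨0, 1, 1⟩, ⟨98, 99, 147⟩, ⟨0, 301, 10000⟩, ⟨500, 1000, 1000⟩⟩ (tA1.hV3p) :=
  posD_of_check0 (c := ⟨246, ⟨1, 6, 9, 5⟩⟩) (by decide +kernel)

def tA1_v3m : PosD ⟨⟨0, 1, 1⟩, ⟨98, 99, 147⟩, ⟨0, 301, 10000⟩, ⟨500, 1000, 1000⟩⟩ (tA1.hV3m) :=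
  posD_of_check0 (c := ⟨220, ⟨0, 5, 9, 4⟩⟩) (by decide +kernel)

def tA1_kap0 : PosD ⟨⟨0, 1, 1⟩, ⟨98, 99, 147⟩, ⟨0, 301, 10000⟩, ⟨500, 1000, 1000⟩⟩ (tA1.kap false) :=
  posD_of_check0 (c := ⟨63, ⟨1, 1, 2, 2⟩⟩) (by decide +kernel)

def tA1_c10 : PosD ⟨⟨0, 1, 1⟩, ⟨98, 99, 147⟩, ⟨0, 301, 10000⟩, ⟨500, 1000, 1000⟩⟩ (tA1.hC1 false) :=
  posD_of_check0 (c := ⟨233, ⟨3, 5, 8, 6⟩⟩) (by decide +kernel)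

def tA1_c1h0 : PosD ⟨⟨0, 1, 1⟩, ⟨98, 99, 147⟩, ⟨0, 301, 10000⟩, ⟨500, 1000, 1000⟩⟩ (tA1.hC1' false) :=
  posD_of_check0 (c := ⟨233, ⟨3, 5, 8, 6⟩⟩) (by decide +kernel)

def tA1_tg00 : PosD ⟨⟨0, 1, 1⟩, ⟨98, 99, 147⟩, ⟨0, 301, 10000⟩, ⟨500, 1000, 1000⟩⟩ (tA1.hG false (tA1.pEnd false)) :=
  posD_of_check0 (c := ⟨360, ⟨2, 7, 14, 9⟩⟩) (by decide +kernel)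

def tA1_c2p00 : PosD ⟨⟨0, 1, 1⟩, ⟨98, 99, 147⟩, ⟨0, 301, 10000⟩, ⟨500, 1000, 1000⟩⟩ (tA1.hC2p false (tA1.pEnd false)) :=
  posD_of_check0 (c := ⟨425, ⟨3, 8, 16, 11⟩⟩) (by decide +kernel)

def tA1_c2m00 : PosD ⟨⟨0, 1, 1⟩, ⟨98, 99, 147⟩, ⟨0, 301, 10000⟩, ⟨500, 1000, 1000⟩⟩ (tA1.hC2m false (tA1.pEnd false)) :=
  posD_of_check0 (c := ⟨382, ⟨2, 7, 15, 9⟩⟩) (by decide +kernel)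

def tA1_c3p00 : PosD ⟨⟨0, 1, 1⟩, ⟨98, 99, 147⟩, ⟨0, 301, 10000⟩, ⟨500, 1000, 1000⟩⟩ (tA1.hC3p false false) :=
  posD_of_check0 (c := ⟨391, ⟨3, 8, 14, 10⟩⟩) (by decide +kernel)

def tA1_c3m00 : PosD ⟨⟨0, 1, 1⟩, ⟨98, 99, 147⟩, ⟨0, 301, 10000⟩, ⟨500, 1000, 1000⟩⟩ (tA1.hC3m false false) :=
  posD_of_check0 (c := ⟨355, ⟨3, 7, 14, 8⟩⟩) (by decide +kernel)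

def tA1_c3ph00 : PosD ⟨⟨0, 1, 1⟩, ⟨98, 99, 147⟩, ⟨0, 301, 10000⟩, ⟨500, 1000, 1000⟩⟩ (tA1.hC3p' false false) :=
  posD_of_check0 (c := ⟨391, ⟨3, 8, 14, 10⟩⟩) (by decide +kernel)

def tA1_c3mh00 : PosD ⟨⟨0, 1, 1⟩, ⟨98, 99, 147⟩, ⟨0, 301, 10000⟩, ⟨500, 1000, 1000⟩⟩ (tA1.hC3m' false false) :=
  posD_of_check0 (c := ⟨355, ⟨3, 7, 14, 8⟩⟩) (by decide +kernel)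

def tA1_up00 : PosD ⟨⟨0, 1, 1⟩, ⟨98, 99, 147⟩, ⟨0, 301, 10000⟩, ⟨500, 1000, 1000⟩⟩ (tA1.hUp false false) :=
  posD_of_check0 (c := ⟨391, ⟨3, 8, 14, 10⟩⟩) (by decide +kernel)

def tA1_um00 : PosD ⟨⟨0, 1, 1⟩, ⟨98, 99, 147⟩, ⟨0, 301, 10000⟩, ⟨500, 1000, 1000⟩⟩ (tA1.hUm false false) :=
  posD_of_check0 (c := ⟨354, ⟨2, 7, 14, 8⟩⟩) (by decide +kernel)

def tA1_tmg00 : PosD ⟨⟨0, 1, 1⟩, ⟨98, 99, 147⟩, ⟨0, 301, 10000⟩, ⟨500, 1000, 1000⟩⟩ (tA1.hTMG false (tA1.pEnd false)) :=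
  posD_of_check0 (c := ⟨339, ⟨2, 7, 13, 8⟩⟩) (by decide +kernel)

def tA1_tg01 : PosD ⟨⟨0, 1, 1⟩, ⟨98, 99, 147⟩, ⟨0, 301, 10000⟩, ⟨500, 1000, 1000⟩⟩ (tA1.hG true (tA1.pEnd false)) :=
  posD_of_check0 (c := ⟨360, ⟨2, 7, 14, 9⟩⟩) (by decide +kernel)

def tA1_c2p01 : PosD ⟨⟨0, 1, 1⟩, ⟨98, 99, 147⟩, ⟨0, 301, 10000⟩, ⟨500, 1000, 1000⟩⟩ (tA1.hC2p true (tA1.pEnd false)) :=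
  posD_of_check0 (c := ⟨425, ⟨3, 8, 16, 11⟩⟩) (by decide +kernel)

def tA1_c2m01 : PosD ⟨⟨0, 1, 1⟩, ⟨98, 99, 147⟩, ⟨0, 301, 10000⟩, ⟨500, 1000, 1000⟩⟩ (tA1.hC2m true (tA1.pEnd false)) :=
  posD_of_check0 (c := ⟨382, ⟨2, 7, 15, 9⟩⟩) (by decide +kernel)

def tA1_c3p01 : PosD ⟨⟨0, 1, 1⟩, ⟨98, 99, 147⟩, ⟨0, 301, 10000⟩, ⟨500, 1000, 1000⟩⟩ (tA1.hC3p false true) :=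
  posD_of_check0 (c := ⟨391, ⟨3, 8, 14, 10⟩⟩) (by decide +kernel)

def tA1_c3m01 : PosD ⟨⟨0, 1, 1⟩, ⟨98, 99, 147⟩, ⟨0, 301, 10000⟩, ⟨500, 1000, 1000⟩⟩ (tA1.hC3m false true) :=
  posD_of_check0 (c := ⟨355, ⟨3, 7, 14, 8⟩⟩) (by decide +kernel)

def tA1_c3ph01 : PosD ⟨⟨0, 1, 1⟩, ⟨98, 99, 147⟩, ⟨0, 301, 10000⟩, ⟨500, 1000, 1000⟩⟩ (tA1.hC3p' false true) :=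
  posD_of_check0 (c := ⟨391, ⟨3, 8, 14, 10⟩⟩) (by decide +kernel)

def tA1_c3mh01 : PosD ⟨⟨0, 1, 1⟩, ⟨98, 99, 147⟩, ⟨0, 301, 10000⟩, ⟨500, 1000, 1000⟩⟩ (tA1.hC3m' false true) :=
  posD_of_check0 (c := ⟨355, ⟨3, 7, 14, 8⟩⟩) (by decide +kernel)

def tA1_up01 : PosD ⟨⟨0, 1, 1⟩, ⟨98, 99, 147⟩, ⟨0, 301, 10000⟩, ⟨500, 1000, 1000⟩⟩ (tA1.hUp false true) :=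
  posD_of_check0 (c := ⟨391, ⟨3, 8, 14, 10⟩⟩) (by decide +kernel)

def tA1_um01 : PosD ⟨⟨0, 1, 1⟩, ⟨98, 99, 147⟩, ⟨0, 301, 10000⟩, ⟨500, 1000, 1000⟩⟩ (tA1.hUm false true) :=
  posD_of_check0 (c := ⟨354, ⟨2, 7, 14, 8⟩⟩) (by decide +kernel)

def tA1_tmg01 : PosD ⟨⟨0, 1, 1⟩, ⟨98, 99, 147⟩, ⟨0, 301, 10000⟩, ⟨500, 1000, 1000⟩⟩ (tA1.hTMG true (tA1.pEnd false)) :=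
  posD_of_check0 (c := ⟨339, ⟨2, 7, 13, 8⟩⟩) (by decide +kernel)

def tA1_kap1 : PosD ⟨⟨0, 1, 1⟩, ⟨98, 99, 147⟩, ⟨0, 301, 10000⟩, ⟨500, 1000, 1000⟩⟩ (tA1.kap true) :=
  posD_of_check0 (c := ⟨66, ⟨1, 1, 2, 2⟩⟩) (by decide +kernel)

def tA1_c11a : PosD ⟨⟨0, 1, 2⟩, ⟨98, 99, 147⟩, ⟨0, 301, 10000⟩, ⟨500, 1000, 1000⟩⟩ (tA1.hC1 true) :=
  posD_of_check0 (c := ⟨264, ⟨3, 5, 9, 7⟩⟩) (by decide +kernel)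

def tA1_c11b : PosD ⟨⟨1, 2, 2⟩, ⟨98, 99, 147⟩, ⟨0, 301, 10000⟩, ⟨500, 1000, 1000⟩⟩ (tA1.hC1 true) :=
  posD_of_check0 (c := ⟨265, ⟨3, 5, 9, 7⟩⟩) (by decide +kernel)

def tA1_c11 : PosD ⟨⟨0, 1, 1⟩, ⟨98, 99, 147⟩, ⟨0, 301, 10000⟩, ⟨500, 1000, 1000⟩⟩ (tA1.hC1 true) :=
  posD_units (b := ⟨⟨0, 2, 2⟩, ⟨98, 99, 147⟩, ⟨0, 301, 10000⟩, ⟨500, 1000, 1000⟩⟩) (by decide +kernel) (posD_join₀ tA1_c11a tA1_c11b)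

def tA1_c1h1 : PosD ⟨⟨0, 1, 1⟩, ⟨98, 99, 147⟩, ⟨0, 301, 10000⟩, ⟨500, 1000, 1000⟩⟩ (tA1.hC1' true) :=
  posD_of_check0 (c := ⟨263, ⟨3, 5, 9, 7⟩⟩) (by decide +kernel)

def tA1_tg10 : PosD ⟨⟨0, 1, 1⟩, ⟨98, 99, 147⟩, ⟨0, 301, 10000⟩, ⟨500, 1000, 1000⟩⟩ (tA1.hG false (tA1.pEnd true)) :=
  posD_of_check0 (c := ⟨370, ⟨2, 7, 14, 9⟩⟩) (by decide +kernel)

def tA1_c2p10 : PosD ⟨⟨0, 1, 1⟩, ⟨98, 99, 147⟩, ⟨0, 301, 10000⟩, ⟨500, 1000, 1000⟩⟩ (tA1.hC2p false (tA1.pEnd true)) :=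
  posD_of_check0 (c := ⟨435, ⟨3, 8, 16, 11⟩⟩) (by decide +kernel)

def tA1_c2m10 : PosD ⟨⟨0, 1, 1⟩, ⟨98, 99, 147⟩, ⟨0, 301, 10000⟩, ⟨500, 1000, 1000⟩⟩ (tA1.hC2m false (tA1.pEnd true)) :=
  posD_of_check0 (c := ⟨403, ⟨2, 7, 16, 10⟩⟩) (by decide +kernel)

def tA1_c3p10 : PosD ⟨⟨0, 1, 1⟩, ⟨98, 99, 147⟩, ⟨0, 301, 10000⟩, ⟨500, 1000, 1000⟩⟩ (tA1.hC3p true false) :=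
  posD_of_check0 (c := ⟨427, ⟨3, 8, 15, 11⟩⟩) (by decide +kernel)

def tA1_c3m10 : PosD ⟨⟨0, 1, 1⟩, ⟨98, 99, 147⟩, ⟨0, 301, 10000⟩, ⟨500, 1000, 1000⟩⟩ (tA1.hC3m true false) :=
  posD_of_check0 (c := ⟨402, ⟨3, 7, 15, 10⟩⟩) (by decide +kernel)

def tA1_c3ph10 : PosD ⟨⟨0, 1, 1⟩, ⟨98, 99, 147⟩, ⟨0, 301, 10000⟩, ⟨500, 1000, 1000⟩⟩ (tA1.hC3p' true false) :=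
  posD_of_check0 (c := ⟨427, ⟨3, 8, 15, 11⟩⟩) (by decide +kernel)

def tA1_c3mh10 : PosD ⟨⟨0, 1, 1⟩, ⟨98, 99, 147⟩, ⟨0, 301, 10000⟩, ⟨500, 1000, 1000⟩⟩ (tA1.hC3m' true false) :=
  posD_of_check0 (c := ⟨402, ⟨3, 7, 15, 10⟩⟩) (by decide +kernel)

def tA1_up10 : PosD ⟨⟨0, 1, 1⟩, ⟨98, 99, 147⟩, ⟨0, 301, 10000⟩, ⟨500, 1000, 1000⟩⟩ (tA1.hUp true false) :=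
  posD_of_check0 (c := ⟨425, ⟨3, 8, 15, 11⟩⟩) (by decide +kernel)

def tA1_um10 : PosD ⟨⟨0, 1, 1⟩, ⟨98, 99, 147⟩, ⟨0, 301, 10000⟩, ⟨500, 1000, 1000⟩⟩ (tA1.hUm true false) :=
  posD_of_check0 (c := ⟨399, ⟨2, 7, 15, 10⟩⟩) (by decide +kernel)

def tA1_tmg10 : PosD ⟨⟨0, 1, 1⟩, ⟨98, 99, 147⟩, ⟨0, 301, 10000⟩, ⟨500, 1000, 1000⟩⟩ (tA1.hTMG false (tA1.pEnd true)) :=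
  posD_of_check0 (c := ⟨384, ⟨2, 7, 14, 10⟩⟩) (by decide +kernel)

def tA1_tg11 : PosD ⟨⟨0, 1, 1⟩, ⟨98, 99, 147⟩, ⟨0, 301, 10000⟩, ⟨500, 1000, 1000⟩⟩ (tA1.hG true (tA1.pEnd true)) :=
  posD_of_check0 (c := ⟨370, ⟨2, 7, 14, 9⟩⟩) (by decide +kernel)

def tA1_c2p11 : PosD ⟨⟨0, 1, 1⟩, ⟨98, 99, 147⟩, ⟨0, 301, 10000⟩, ⟨500, 1000, 1000⟩⟩ (tA1.hC2p true (tA1.pEnd true)) :=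
  posD_of_check0 (c := ⟨435, ⟨3, 8, 16, 11⟩⟩) (by decide +kernel)

def tA1_c2m11 : PosD ⟨⟨0, 1, 1⟩, ⟨98, 99, 147⟩, ⟨0, 301, 10000⟩, ⟨500, 1000, 1000⟩⟩ (tA1.hC2m true (tA1.pEnd true)) :=
  posD_of_check0 (c := ⟨403, ⟨2, 7, 16, 10⟩⟩) (by decide +kernel)

def tA1_c3p11 : PosD ⟨⟨0, 1, 1⟩, ⟨98, 99, 147⟩, ⟨0, 301, 10000⟩, ⟨500, 1000, 1000⟩⟩ (tA1.hC3p true true) :=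
  posD_of_check0 (c := ⟨427, ⟨3, 8, 15, 11⟩⟩) (by decide +kernel)

def tA1_c3m11 : PosD ⟨⟨0, 1, 1⟩, ⟨98, 99, 147⟩, ⟨0, 301, 10000⟩, ⟨500, 1000, 1000⟩⟩ (tA1.hC3m true true) :=
  posD_of_check0 (c := ⟨402, ⟨3, 7, 15, 10⟩⟩) (by decide +kernel)

def tA1_c3ph11 : PosD ⟨⟨0, 1, 1⟩, ⟨98, 99, 147⟩, ⟨0, 301, 10000⟩, ⟨500, 1000, 1000⟩⟩ (tA1.hC3p' true true) :=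
  posD_of_check0 (c := ⟨427, ⟨3, 8, 15, 11⟩⟩) (by decide +kernel)

def tA1_c3mh11 : PosD ⟨⟨0, 1, 1⟩, ⟨98, 99, 147⟩, ⟨0, 301, 10000⟩, ⟨500, 1000, 1000⟩⟩ (tA1.hC3m' true true) :=
  posD_of_check0 (c := ⟨402, ⟨3, 7, 15, 10⟩⟩) (by decide +kernel)

def tA1_up11 : PosD ⟨⟨0, 1, 1⟩, ⟨98, 99, 147⟩, ⟨0, 301, 10000⟩, ⟨500, 1000, 1000⟩⟩ (tA1.hUp true true) :=
  posD_of_check0 (c := ⟨425, ⟨3, 8, 15, 11⟩⟩) (by decide +kernel)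

def tA1_um11 : PosD ⟨⟨0, 1, 1⟩, ⟨98, 99, 147⟩, ⟨0, 301, 10000⟩, ⟨500, 1000, 1000⟩⟩ (tA1.hUm true true) :=
  posD_of_check0 (c := ⟨399, ⟨2, 7, 15, 10⟩⟩) (by decide +kernel)

def tA1_tmg11 : PosD ⟨⟨0, 1, 1⟩, ⟨98, 99, 147⟩, ⟨0, 301, 10000⟩, ⟨500, 1000, 1000⟩⟩ (tA1.hTMG true (tA1.pEnd true)) :=
  posD_of_check0 (c := ⟨384, ⟨2, 7, 14, 10⟩⟩) (by decide +kernel)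

/-- The signs of the piece. -/
def tA1_sign : tA1.Sign ⟨⟨0, 1, 1⟩, ⟨98, 99, 147⟩, ⟨0, 301, 10000⟩, ⟨500, 1000, 1000⟩⟩ :=
  ⟨tA1_pp,
    tA1_k2p,
    tA1_k2m,
    Bool.forall_bool.2 ⟨(Bool.forall_bool.2 ⟨tA1_tg00, tA1_tg01⟩), (Bool.forall_bool.2 ⟨tA1_tg10, tA1_tg11⟩)⟩,
    Bool.forall_bool.2 ⟨(Bool.forall_bool.2 ⟨tA1_c2p00, tA1_c2p01⟩), (Bool.forall_bool.2 ⟨tA1_c2p10, tA1_c2p11⟩)⟩,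
    Bool.forall_bool.2 ⟨(Bool.forall_bool.2 ⟨tA1_c2m00, tA1_c2m01⟩), (Bool.forall_bool.2 ⟨tA1_c2m10, tA1_c2m11⟩)⟩,
    Bool.forall_bool.2 ⟨tA1_kap0, tA1_kap1⟩,
    Bool.forall_bool.2 ⟨tA1_c10, tA1_c11⟩,
    Bool.forall_bool.2 ⟨(Bool.forall_bool.2 ⟨tA1_c3p00, tA1_c3p01⟩), (Bool.forall_bool.2 ⟨tA1_c3p10, tA1_c3p11⟩)⟩,
    Bool.forall_bool.2 ⟨(Bool.forall_bool.2 ⟨tA1_c3m00, tA1_c3m01⟩), (Bool.forall_bool.2 ⟨tA1_c3m10, tA1_c3m11⟩)⟩,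
    Bool.forall_bool.2 ⟨(Bool.forall_bool.2 ⟨tA1_tmg00, tA1_tmg01⟩), (Bool.forall_bool.2 ⟨tA1_tmg10, tA1_tmg11⟩)⟩,
    .inr (Bool.forall_bool.2 ⟨⟨tA1_c1h0, Bool.forall_bool.2 ⟨⟨tA1_c3ph00, tA1_c3mh00, tA1_up00, tA1_um00⟩, ⟨tA1_c3ph01, tA1_c3mh01, tA1_up01, tA1_um01⟩⟩⟩, ⟨tA1_c1h1, Bool.forall_bool.2 ⟨⟨tA1_c3ph10, tA1_c3mh10, tA1_up10, tA1_um10⟩, ⟨tA1_c3ph11, tA1_c3mh11, tA1_up11, tA1_um11⟩⟩⟩⟩),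
    tA1_v2p,
    tA1_v2m,
    tA1_v3p,
    tA1_v3m,
    posD_sub (b := ⟨⟨0, 1, 1⟩, ⟨98, 99, 147⟩, ⟨0, 301, 10000⟩, ⟨290, 4000, 1000⟩⟩) (by decide +kernel) tA_vG,
    posD_sub (b := ⟨⟨0, 1, 1⟩, ⟨98, 99, 147⟩, ⟨0, 301, 10000⟩, ⟨290, 4000, 1000⟩⟩) (by decide +kernel) tA_vMG,
    posD_sub (b := ⟨⟨0, 1, 1⟩, ⟨98, 99, 147⟩, ⟨0, 301, 10000⟩, ⟨290, 4000, 1000⟩⟩) (by decide +kernel) tA_ak,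
    posD_sub (b := ⟨⟨0, 1, 1⟩, ⟨98, 99, 147⟩, ⟨0, 301, 10000⟩, ⟨290, 4000, 1000⟩⟩) (by decide +kernel) tA_aw,
    posD_sub (b := ⟨⟨0, 1, 1⟩, ⟨98, 99, 147⟩, ⟨0, 301, 10000⟩, ⟨290, 4000, 1000⟩⟩) (by decide +kernel) tA_gk,
    posD_sub (b := ⟨⟨0, 1, 1⟩, ⟨98, 99, 147⟩, ⟨0, 301, 10000⟩, ⟨290, 4000, 1000⟩⟩) (by decide +kernel) tA_gw,
    posD_sub (b := ⟨⟨0, 1, 1⟩, ⟨98, 99, 147⟩, ⟨0, 301, 10000⟩, ⟨290, 4000, 1000⟩⟩) (by decide +kernel) tA_ek,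
    posD_sub (b := ⟨⟨0, 1, 1⟩, ⟨98, 99, 147⟩, ⟨0, 301, 10000⟩, ⟨290, 4000, 1000⟩⟩) (by decide +kernel) tA_ew⟩

end Vale.Agent.P100.Calib.Closed.Six.Tail
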