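import Vale.Agent.P100.Calib.SlabSixTailDataA
import Vale.Agent.P100.Calib.SlabSixTailGlobA

/-!
# Checks of some pieces of the certificate

The checks are written as definitions so that they run one after another, which keeps the memory of the
kernel low.
-/

set_option linter.defProp false

namespace Vale.Agent.P100.Calib.Closed.Six.Tail

open BoxPos Large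

local instance sixTailCheckstA2Add : Add Ex := ⟨Ex.add⟩
local instance sixTailCheckstA2Sub : Sub Ex := ⟨Ex.sub⟩
local instance sixTailCheckstA2Mul : Mul Ex := ⟨Ex.mul⟩

def tA2_phx : PosIf ⟨⟨0, 1, 1⟩, ⟨98, 99, 147⟩, ⟨0, 301, 10000⟩, ⟨1000, 1342, 1000⟩⟩ (tA2.u₁ - tA2Lo) (phAn (tA2.u₁ + xO * (tA2Lo - tA2.u₁))) :=
  posIf_of_posD (posD_of_check0 (c := ⟨99, ⟨2, 0, 4, 2⟩⟩) (by decide +kernel))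

def tA2_phd : PosD ⟨⟨0, 1, 1⟩, ⟨98, 99, 147⟩, ⟨0, 301, 10000⟩, ⟨1000, 1342, 1000⟩⟩ (phAd (tA2.u₁ + xO * (tA2Lo - tA2.u₁))) :=
  posD_of_check0 (c := ⟨48, ⟨1, 0, 2, 1⟩⟩) (by decide +kernel)

def tA2_p0 : PosD ⟨⟨0, 1, 1⟩, ⟨98, 99, 147⟩, ⟨0, 301, 10000⟩, ⟨1000, 1342, 1000⟩⟩ (tA2.hP0) :=
  posD_of_check0 (c := ⟨81, ⟨0, 2, 3, 1⟩⟩) (by decide +kernel)

def tA2_gn : PosD ⟨⟨0, 1, 1⟩, ⟨98, 99, 147⟩, ⟨0, 301, 10000⟩, ⟨1000, 1342, 1000⟩⟩ (tA2.hGn) :=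
  posD_of_check0 (c := ⟨65, ⟨1, 1, 2, 2⟩⟩) (by decide +kernel)

def tA2_den0 : PosD ⟨⟨0, 1, 1⟩, ⟨98, 99, 147⟩, ⟨0, 301, 10000⟩, ⟨1000, 1342, 1000⟩⟩ (tA2.hDen false) :=
  posD_of_check0 (c := ⟨48, ⟨1, 0, 2, 1⟩⟩) (by decide +kernel)

def tA2_den1 : PosD ⟨⟨0, 1, 1⟩, ⟨98, 99, 147⟩, ⟨0, 301, 10000⟩, ⟨1000, 1342, 1000⟩⟩ (tA2.hDen true) :=
  posD_of_check0 (c := ⟨48, ⟨1, 0, 2, 1⟩⟩) (by decide +kernel)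

def tA2_ev0 : PosD ⟨⟨0, 1, 1⟩, ⟨98, 99, 147⟩, ⟨0, 301, 10000⟩, ⟨1000, 1342, 1000⟩⟩ (tA2.hEv false) :=
  posD_of_check0 (c := ⟨203, ⟨4, 2, 8, 4⟩⟩) (by decide +kernel)

def tA2_zL0 : PosD ⟨⟨0, 1, 1⟩, ⟨98, 99, 147⟩, ⟨0, 301, 10000⟩, ⟨1000, 1342, 1000⟩⟩ (tA2.hZL false) :=
  posD_of_check0 (c := ⟨206, ⟨4, 3, 8, 4⟩⟩) (by decide +kernel)

def tA2_zU0a : PosD ⟨⟨0, 1, 1⟩, ⟨98, 99, 147⟩, ⟨0, 301, 10000⟩, ⟨1000, 1171, 1000⟩⟩ (tA2.hZU false) :=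
  posD_of_check0 (c := ⟨206, ⟨4, 3, 8, 4⟩⟩) (by decide +kernel)

def tA2_zU0b : PosD ⟨⟨0, 1, 1⟩, ⟨98, 99, 147⟩, ⟨0, 301, 10000⟩, ⟨1171, 1342, 1000⟩⟩ (tA2.hZU false) :=
  posD_of_check0 (c := ⟨206, ⟨4, 3, 8, 4⟩⟩) (by decide +kernel)

def tA2_zU0 : PosD ⟨⟨0, 1, 1⟩, ⟨98, 99, 147⟩, ⟨0, 301, 10000⟩, ⟨1000, 1342, 1000⟩⟩ (tA2.hZU false) :=
  posD_join₃ tA2_zU0a tA2_zU0b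

def tA2_eL0 : PosD ⟨⟨0, 1, 1⟩, ⟨98, 99, 147⟩, ⟨0, 301, 10000⟩, ⟨1000, 1342, 1000⟩⟩ (tA2.hEL false) :=
  posD_of_check0 (c := ⟨296, ⟨5, 6, 11, 6⟩⟩) (by decide +kernel)

def tA2_eH0 : PosD ⟨⟨0, 1, 1⟩, ⟨98, 99, 147⟩, ⟨0, 301, 10000⟩, ⟨1000, 1342, 1000⟩⟩ (tA2.hEH false) :=
  posD_of_check0 (c := ⟨311, ⟨5, 6, 11, 6⟩⟩) (by decide +kernel)

def tA2_pL0 : PosD ⟨⟨0, 1, 1⟩, ⟨98, 99, 147⟩, ⟨0, 301, 10000⟩, ⟨1000, 1342, 1000⟩⟩ (tA2.hPL false) :=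
  posD_of_check0 (c := ⟨321, ⟨5, 6, 11, 7⟩⟩) (by decide +kernel)

def tA2_pU0 : PosD ⟨⟨0, 1, 1⟩, ⟨98, 99, 147⟩, ⟨0, 301, 10000⟩, ⟨1000, 1342, 1000⟩⟩ (tA2.hPU false) :=
  posD_of_check0 (c := ⟨321, ⟨5, 6, 11, 7⟩⟩) (by decide +kernel)

def tA2_kU0 : PosD ⟨⟨0, 1, 1⟩, ⟨98, 99, 147⟩, ⟨0, 301, 10000⟩, ⟨1000, 1342, 1000⟩⟩ (tA2.hKU false) :=
  posD_of_check0 (c := ⟨317, ⟨5, 6, 11, 7⟩⟩) (by decide +kernel)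

def tA2_kL0a : PosD ⟨⟨0, 1, 2⟩, ⟨98, 99, 147⟩, ⟨0, 301, 10000⟩, ⟨1000, 1342, 1000⟩⟩ (tA2.hKL false) :=
  posD_of_check0 (c := ⟨320, ⟨5, 6, 11, 7⟩⟩) (by decide +kernel)

def tA2_kL0b : PosD ⟨⟨1, 2, 2⟩, ⟨98, 99, 147⟩, ⟨0, 301, 10000⟩, ⟨1000, 1342, 1000⟩⟩ (tA2.hKL false) :=
  posD_of_check0 (c := ⟨322, ⟨5, 6, 11, 7⟩⟩) (by decide +kernel)

def tA2_kL0 : PosD ⟨⟨0, 1, 1⟩, ⟨98, 99, 147⟩, ⟨0, 301, 10000⟩, ⟨1000, 1342, 1000⟩⟩ (tA2.hKL false) :=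
  posD_units (b := ⟨⟨0, 2, 2⟩, ⟨98, 99, 147⟩, ⟨0, 301, 10000⟩, ⟨1000, 1342, 1000⟩⟩) (by decide +kernel) (posD_join₀ tA2_kL0a tA2_kL0b)

def tA2_wU0a : PosD ⟨⟨0, 1, 2⟩, ⟨98, 99, 147⟩, ⟨0, 301, 10000⟩, ⟨1000, 1342, 1000⟩⟩ (tA2.hWU false) :=
  posD_of_check0 (c := ⟨356, ⟨5, 8, 12, 7⟩⟩) (by decide +kernel)

def tA2_wU0b : PosD ⟨⟨1, 2, 2⟩, ⟨98, 99, 147⟩, ⟨0, 301, 10000⟩, ⟨1000, 1342, 1000⟩⟩ (tA2.hWU false) :=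
  posD_of_check0 (c := ⟨358, ⟨5, 8, 12, 7⟩⟩) (by decide +kernel)

def tA2_wU0 : PosD ⟨⟨0, 1, 1⟩, ⟨98, 99, 147⟩, ⟨0, 301, 10000⟩, ⟨1000, 1342, 1000⟩⟩ (tA2.hWU false) :=
  posD_units (b := ⟨⟨0, 2, 2⟩, ⟨98, 99, 147⟩, ⟨0, 301, 10000⟩, ⟨1000, 1342, 1000⟩⟩) (by decide +kernel) (posD_join₀ tA2_wU0a tA2_wU0b)

def tA2_wL0 : PosD ⟨⟨0, 1, 1⟩, ⟨98, 99, 147⟩, ⟨0, 301, 10000⟩, ⟨1000, 1342, 1000⟩⟩ (tA2.hWL false) :=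
  posD_of_check0 (c := ⟨352, ⟨5, 8, 12, 7⟩⟩) (by decide +kernel)

def tA2_ev1 : PosD ⟨⟨0, 1, 1⟩, ⟨98, 99, 147⟩, ⟨0, 301, 10000⟩, ⟨1000, 1342, 1000⟩⟩ (tA2.hEv true) :=
  posD_of_check0 (c := ⟨203, ⟨4, 2, 8, 4⟩⟩) (by decide +kernel)

def tA2_zL1a : PosD ⟨⟨0, 1, 1⟩, ⟨98, 99, 147⟩, ⟨0, 150, 10000⟩, ⟨1000, 1342, 1000⟩⟩ (tA2.hZL true) :=
  posD_of_check0 (c := ⟨206, ⟨4, 3, 8, 4⟩⟩) (by decide +kernel)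

def tA2_zL1b : PosD ⟨⟨0, 1, 1⟩, ⟨98, 99, 147⟩, ⟨150, 301, 10000⟩, ⟨1000, 1342, 1000⟩⟩ (tA2.hZL true) :=
  posD_of_check (c := ⟨207, ⟨4, 3, 8, 4⟩⟩) (by decide +kernel)

def tA2_zL1 : PosD ⟨⟨0, 1, 1⟩, ⟨98, 99, 147⟩, ⟨0, 301, 10000⟩, ⟨1000, 1342, 1000⟩⟩ (tA2.hZL true) :=
  posD_join₂ tA2_zL1a tA2_zL1b

def tA2_zU1 : PosD ⟨⟨0, 1, 1⟩, ⟨98, 99, 147⟩, ⟨0, 301, 10000⟩, ⟨1000, 1342, 1000⟩⟩ (tA2.hZU true) :=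
  posD_of_check0 (c := ⟨206, ⟨4, 3, 8, 4⟩⟩) (by decide +kernel)

def tA2_eL1 : PosD ⟨⟨0, 1, 1⟩, ⟨98, 99, 147⟩, ⟨0, 301, 10000⟩, ⟨1000, 1342, 1000⟩⟩ (tA2.hEL true) :=
  posD_of_check0 (c := ⟨295, ⟨5, 6, 11, 6⟩⟩) (by decide +kernel)

def tA2_eH1aaa : PosD ⟨⟨0, 1, 4⟩, ⟨98, 99, 147⟩, ⟨0, 150, 10000⟩, ⟨1000, 1342, 1000⟩⟩ (tA2.hEH true) :=
  posD_of_check0 (c := ⟨318, ⟨5, 6, 11, 6⟩⟩) (by decide +kernel)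

def tA2_eH1aab : PosD ⟨⟨0, 1, 4⟩, ⟨98, 99, 147⟩, ⟨150, 301, 10000⟩, ⟨1000, 1342, 1000⟩⟩ (tA2.hEH true) :=
  posD_of_check (c := ⟨318, ⟨5, 6, 11, 6⟩⟩) (by decide +kernel)

def tA2_eH1aa : PosD ⟨⟨0, 1, 4⟩, ⟨98, 99, 147⟩, ⟨0, 301, 10000⟩, ⟨1000, 1342, 1000⟩⟩ (tA2.hEH true) :=
  posD_join₂ tA2_eH1aaa tA2_eH1aab

def tA2_eH1abaaa : PosD ⟨⟨2, 3, 8⟩, ⟨98, 99, 147⟩, ⟨0, 150, 10000⟩, ⟨1000, 1171, 1000⟩⟩ (tA2.hEH true) :=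
  posD_of_check0 (c := ⟨322, ⟨5, 6, 11, 6⟩⟩) (by decide +kernel)

def tA2_eH1abaab : PosD ⟨⟨3, 4, 8⟩, ⟨98, 99, 147⟩, ⟨0, 150, 10000⟩, ⟨1000, 1171, 1000⟩⟩ (tA2.hEH true) :=
  posD_of_check0 (c := ⟨323, ⟨5, 6, 11, 6⟩⟩) (by decide +kernel)

def tA2_eH1abaa : PosD ⟨⟨1, 2, 4⟩, ⟨98, 99, 147⟩, ⟨0, 150, 10000⟩, ⟨1000, 1171, 1000⟩⟩ (tA2.hEH true) :=
  posD_units (b := ⟨⟨2, 4, 8⟩, ⟨98, 99, 147⟩, ⟨0, 150, 10000⟩, ⟨1000, 1171, 1000⟩⟩) (by decide +kernel) (posD_join₀ tA2_eH1abaaa tA2_eH1abaab)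

def tA2_eH1ababa : PosD ⟨⟨2, 3, 8⟩, ⟨98, 99, 147⟩, ⟨0, 150, 10000⟩, ⟨1171, 1342, 1000⟩⟩ (tA2.hEH true) :=
  posD_of_check0 (c := ⟨322, ⟨5, 6, 11, 6⟩⟩) (by decide +kernel)

def tA2_eH1ababb : PosD ⟨⟨3, 4, 8⟩, ⟨98, 99, 147⟩, ⟨0, 150, 10000⟩, ⟨1171, 1342, 1000⟩⟩ (tA2.hEH true) :=
  posD_of_check0 (c := ⟨323, ⟨5, 6, 11, 6⟩⟩) (by decide +kernel)

def tA2_eH1abab : PosD ⟨⟨1, 2, 4⟩, ⟨98, 99, 147⟩, ⟨0, 150, 10000⟩, ⟨1171, 1342, 1000⟩⟩ (tA2.hEH true) :=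
  posD_units (b := ⟨⟨2, 4, 8⟩, ⟨98, 99, 147⟩, ⟨0, 150, 10000⟩, ⟨1171, 1342, 1000⟩⟩) (by decide +kernel) (posD_join₀ tA2_eH1ababa tA2_eH1ababb)

def tA2_eH1aba : PosD ⟨⟨1, 2, 4⟩, ⟨98, 99, 147⟩, ⟨0, 150, 10000⟩, ⟨1000, 1342, 1000⟩⟩ (tA2.hEH true) :=
  posD_join₃ tA2_eH1abaa tA2_eH1abab

def tA2_eH1abb : PosD ⟨⟨1, 2, 4⟩, ⟨98, 99, 147⟩, ⟨150, 301, 10000⟩, ⟨1000, 1342, 1000⟩⟩ (tA2.hEH true) :=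
  posD_of_check (c := ⟨319, ⟨5, 6, 11, 6⟩⟩) (by decide +kernel)

def tA2_eH1ab : PosD ⟨⟨1, 2, 4⟩, ⟨98, 99, 147⟩, ⟨0, 301, 10000⟩, ⟨1000, 1342, 1000⟩⟩ (tA2.hEH true) :=
  posD_join₂ tA2_eH1aba tA2_eH1abb

def tA2_eH1a : PosD ⟨⟨0, 1, 2⟩, ⟨98, 99, 147⟩, ⟨0, 301, 10000⟩, ⟨1000, 1342, 1000⟩⟩ (tA2.hEH true) :=
  posD_units (b := ⟨⟨0, 2, 4⟩, ⟨98, 99, 147⟩, ⟨0, 301, 10000⟩, ⟨1000, 1342, 1000⟩⟩) (by decide +kernel) (posD_join₀ tA2_eH1aa tA2_eH1ab)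

def tA2_eH1ba : PosD ⟨⟨1, 2, 2⟩, ⟨98, 99, 147⟩, ⟨0, 150, 10000⟩, ⟨1000, 1342, 1000⟩⟩ (tA2.hEH true) :=
  posD_of_check0 (c := ⟨316, ⟨5, 6, 11, 6⟩⟩) (by decide +kernel)

def tA2_eH1bb : PosD ⟨⟨1, 2, 2⟩, ⟨98, 99, 147⟩, ⟨150, 301, 10000⟩, ⟨1000, 1342, 1000⟩⟩ (tA2.hEH true) :=
  posD_of_check (c := ⟨316, ⟨5, 6, 11, 6⟩⟩) (by decide +kernel)

def tA2_eH1b : PosD ⟨⟨1, 2, 2⟩, ⟨98, 99, 147⟩, ⟨0, 301, 10000⟩, ⟨1000, 1342, 1000⟩⟩ (tA2.hEH true) :=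
  posD_join₂ tA2_eH1ba tA2_eH1bb

def tA2_eH1 : PosD ⟨⟨0, 1, 1⟩, ⟨98, 99, 147⟩, ⟨0, 301, 10000⟩, ⟨1000, 1342, 1000⟩⟩ (tA2.hEH true) :=
  posD_units (b := ⟨⟨0, 2, 2⟩, ⟨98, 99, 147⟩, ⟨0, 301, 10000⟩, ⟨1000, 1342, 1000⟩⟩) (by decide +kernel) (posD_join₀ tA2_eH1a tA2_eH1b)

def tA2_pL1 : PosD ⟨⟨0, 1, 1⟩, ⟨98, 99, 147⟩, ⟨0, 301, 10000⟩, ⟨1000, 1342, 1000⟩⟩ (tA2.hPL true) :=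
  posD_of_check0 (c := ⟨321, ⟨5, 6, 11, 7⟩⟩) (by decide +kernel)

def tA2_pU1a : PosD ⟨⟨0, 1, 2⟩, ⟨98, 99, 147⟩, ⟨0, 301, 10000⟩, ⟨1000, 1342, 1000⟩⟩ (tA2.hPU true) :=
  posD_of_check0 (c := ⟨325, ⟨5, 6, 11, 7⟩⟩) (by decide +kernel)

def tA2_pU1ba : PosD ⟨⟨2, 3, 4⟩, ⟨98, 99, 147⟩, ⟨0, 301, 10000⟩, ⟨1000, 1342, 1000⟩⟩ (tA2.hPU true) :=
  posD_of_check0 (c := ⟨331, ⟨5, 6, 11, 7⟩⟩) (by decide +kernel)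

def tA2_pU1bb : PosD ⟨⟨3, 4, 4⟩, ⟨98, 99, 147⟩, ⟨0, 301, 10000⟩, ⟨1000, 1342, 1000⟩⟩ (tA2.hPU true) :=
  posD_of_check0 (c := ⟨332, ⟨5, 6, 11, 7⟩⟩) (by decide +kernel)

def tA2_pU1b : PosD ⟨⟨1, 2, 2⟩, ⟨98, 99, 147⟩, ⟨0, 301, 10000⟩, ⟨1000, 1342, 1000⟩⟩ (tA2.hPU true) :=
  posD_units (b := ⟨⟨2, 4, 4⟩, ⟨98, 99, 147⟩, ⟨0, 301, 10000⟩, ⟨1000, 1342, 1000⟩⟩) (by decide +kernel) (posD_join₀ tA2_pU1ba tA2_pU1bb)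

def tA2_pU1 : PosD ⟨⟨0, 1, 1⟩, ⟨98, 99, 147⟩, ⟨0, 301, 10000⟩, ⟨1000, 1342, 1000⟩⟩ (tA2.hPU true) :=
  posD_units (b := ⟨⟨0, 2, 2⟩, ⟨98, 99, 147⟩, ⟨0, 301, 10000⟩, ⟨1000, 1342, 1000⟩⟩) (by decide +kernel) (posD_join₀ tA2_pU1a tA2_pU1b)

def tA2_kU1 : PosD ⟨⟨0, 1, 1⟩, ⟨98, 99, 147⟩, ⟨0, 301, 10000⟩, ⟨1000, 1342, 1000⟩⟩ (tA2.hKU true) :=
  posD_of_check0 (c := ⟨317, ⟨5, 6, 11, 7⟩⟩) (by decide +kernel)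

def tA2_kL1a : PosD ⟨⟨0, 1, 2⟩, ⟨98, 99, 147⟩, ⟨0, 301, 10000⟩, ⟨1000, 1342, 1000⟩⟩ (tA2.hKL true) :=
  posD_of_check0 (c := ⟨320, ⟨5, 6, 11, 7⟩⟩) (by decide +kernel)

def tA2_kL1b : PosD ⟨⟨1, 2, 2⟩, ⟨98, 99, 147⟩, ⟨0, 301, 10000⟩, ⟨1000, 1342, 1000⟩⟩ (tA2.hKL true) :=
  posD_of_check0 (c := ⟨322, ⟨5, 6, 11, 7⟩⟩) (by decide +kernel)

def tA2_kL1 : PosD ⟨⟨0, 1, 1⟩, ⟨98, 99, 147⟩, ⟨0, 301, 10000⟩, ⟨1000, 1342, 1000⟩⟩ (tA2.hKL true) :=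
  posD_units (b := ⟨⟨0, 2, 2⟩, ⟨98, 99, 147⟩, ⟨0, 301, 10000⟩, ⟨1000, 1342, 1000⟩⟩) (by decide +kernel) (posD_join₀ tA2_kL1a tA2_kL1b)

def tA2_wU1aa : PosD ⟨⟨0, 1, 4⟩, ⟨98, 99, 147⟩, ⟨0, 301, 10000⟩, ⟨1000, 1342, 1000⟩⟩ (tA2.hWU true) :=
  posD_of_check0 (c := ⟨361, ⟨5, 8, 12, 7⟩⟩) (by decide +kernel)

def tA2_wU1ab : PosD ⟨⟨1, 2, 4⟩, ⟨98, 99, 147⟩, ⟨0, 301, 10000⟩, ⟨1000, 1342, 1000⟩⟩ (tA2.hWU true) :=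
  posD_of_check0 (c := ⟨362, ⟨5, 8, 12, 7⟩⟩) (by decide +kernel)

def tA2_wU1a : PosD ⟨⟨0, 1, 2⟩, ⟨98, 99, 147⟩, ⟨0, 301, 10000⟩, ⟨1000, 1342, 1000⟩⟩ (tA2.hWU true) :=
  posD_units (b := ⟨⟨0, 2, 4⟩, ⟨98, 99, 147⟩, ⟨0, 301, 10000⟩, ⟨1000, 1342, 1000⟩⟩) (by decide +kernel) (posD_join₀ tA2_wU1aa tA2_wU1ab)

def tA2_wU1b : PosD ⟨⟨1, 2, 2⟩, ⟨98, 99, 147⟩, ⟨0, 301, 10000⟩, ⟨1000, 1342, 1000⟩⟩ (tA2.hWU true) :=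
  posD_of_check0 (c := ⟨358, ⟨5, 8, 12, 7⟩⟩) (by decide +kernel)

def tA2_wU1 : PosD ⟨⟨0, 1, 1⟩, ⟨98, 99, 147⟩, ⟨0, 301, 10000⟩, ⟨1000, 1342, 1000⟩⟩ (tA2.hWU true) :=
  posD_units (b := ⟨⟨0, 2, 2⟩, ⟨98, 99, 147⟩, ⟨0, 301, 10000⟩, ⟨1000, 1342, 1000⟩⟩) (by decide +kernel) (posD_join₀ tA2_wU1a tA2_wU1b)

def tA2_wL1 : PosD ⟨⟨0, 1, 1⟩, ⟨98, 99, 147⟩, ⟨0, 301, 10000⟩, ⟨1000, 1342, 1000⟩⟩ (tA2.hWL true) :=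
  posD_of_check0 (c := ⟨352, ⟨5, 8, 12, 7⟩⟩) (by decide +kernel)

def tA2_mueH : PosD ⟨⟨0, 1, 1⟩, ⟨98, 99, 147⟩, ⟨0, 301, 10000⟩, ⟨1000, 1342, 1000⟩⟩ (tA2.eH.μ) :=
  posD_of_check0 (c := ⟨16, ⟨0, 0, 0, 0⟩⟩) (by decide +kernel)

def tA2_mupL : PosD ⟨⟨0, 1, 1⟩, ⟨98, 99, 147⟩, ⟨0, 301, 10000⟩, ⟨1000, 1342, 1000⟩⟩ (tA2.pL.μ) :=
  posD_of_check0 (c := ⟨13, ⟨0, 0, 0, 0⟩⟩) (by decide +kernel)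

/-- The bounds of the piece. -/
def tA2_env : tA2.Env ⟨⟨0, 1, 1⟩, ⟨98, 99, 147⟩, ⟨0, 301, 10000⟩, ⟨1000, 1342, 1000⟩⟩ :=
  ⟨tA2_p0, Bool.forall_bool.2 ⟨tA2_den0, tA2_den1⟩, tA2_gn, Bool.forall_bool.2 ⟨tA2_ev0, tA2_ev1⟩, Bool.forall_bool.2 ⟨tA2_zL0, tA2_zL1⟩, Bool.forall_bool.2 ⟨tA2_zU0, tA2_zU1⟩, Bool.forall_bool.2 ⟨tA2_eL0, tA2_eL1⟩, ⟨.inr rfl, .inr rfl⟩, Bool.forall_bool.2 ⟨tA2_eH0, tA2_eH1⟩, ⟨.inl tA2_mueH, .inr rfl⟩, Bool.forall_bool.2 ⟨tA2_pL0, tA2_pL1⟩, ⟨.inl tA2_mupL, .inr rfl⟩, Bool.forall_bool.2 ⟨tA2_pU0, tA2_pU1⟩, ⟨.inr rfl, .inr rfl⟩, Bool.forall_bool.2 ⟨tA2_kU0, tA2_kU1⟩, ⟨.inr rfl, .inr rfl⟩, Bool.forall_bool.2 ⟨tA2_kL0, tA2_kL1⟩, ⟨.inr rfl, .inr rfl⟩, Bool.forall_bool.2 ⟨tA2_wU0,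 tA2_wU1⟩, ⟨.inr rfl, .inr rfl⟩, Bool.forall_bool.2 ⟨tA2_wL0, tA2_wL1⟩, ⟨.inr rfl, .inr rfl⟩⟩

def tA2_pp : PosD ⟨⟨0, 1, 1⟩, ⟨98, 99, 147⟩, ⟨0, 301, 10000⟩, ⟨1000, 1342, 1000⟩⟩ (tA2.xPL) :=
  posD_of_check0 (c := ⟨91, ⟨1, 1, 3, 3⟩⟩) (by decide +kernel)

def tA2_k2p : PosD ⟨⟨0, 1, 1⟩, ⟨98, 99, 147⟩, ⟨0, 301, 10000⟩, ⟨1000, 1342, 1000⟩⟩ (tA2.k2p tA2.xE) :=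
  posD_of_check0 (c := ⟨64, ⟨1, 1, 2, 2⟩⟩) (by decide +kernel)

def tA2_k2m : PosD ⟨⟨0, 1, 1⟩, ⟨98, 99, 147⟩, ⟨0, 301, 10000⟩, ⟨1000, 1342, 1000⟩⟩ (tA2.k2m tA2.xE) :=
  posD_of_check0 (c := ⟨65, ⟨1, 1, 2, 2⟩⟩) (by decide +kernel)

def tA2_v2p : PosD ⟨⟨0, 1, 1⟩, ⟨98, 99, 147⟩, ⟨0, 301, 10000⟩, ⟨1000, 1342, 1000⟩⟩ (tA2.hV2p) :=
  posD_of_check0 (c := ⟨257, ⟨1, 6, 10, 5⟩⟩) (by decide +kernel)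

def tA2_v2m : PosD ⟨⟨0, 1, 1⟩, ⟨98, 99, 147⟩, ⟨0, 301, 10000⟩, ⟨1000, 1342, 1000⟩⟩ (tA2.hV2m) :=
  posD_of_check0 (c := ⟨258, ⟨1, 6, 10, 5⟩⟩) (by decide +kernel)

def tA2_v3p : PosD ⟨⟨0, 1, 1⟩, ⟨98, 99, 147⟩, ⟨0, 301, 10000⟩, ⟨1000, 1342, 1000⟩⟩ (tA2.hV3p) :=
  posD_of_check0 (c := ⟨246, ⟨1, 6, 9, 5⟩⟩) (by decide +kernel)

def tA2_v3m : PosD ⟨⟨0, 1, 1⟩, ⟨98, 99, 147⟩, ⟨0, 301, 10000⟩, ⟨1000, 1342, 1000⟩⟩ (tA2.hV3m) :=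
  posD_of_check0 (c := ⟨246, ⟨1, 6, 9, 5⟩⟩) (by decide +kernel)

def tA2_kap0 : PosD ⟨⟨0, 1, 1⟩, ⟨98, 99, 147⟩, ⟨0, 301, 10000⟩, ⟨1000, 1342, 1000⟩⟩ (tA2.kap false) :=
  posD_of_check0 (c := ⟨64, ⟨1, 1, 2, 2⟩⟩) (by decide +kernel)

def tA2_c10 : PosD ⟨⟨0, 1, 1⟩, ⟨98, 99, 147⟩, ⟨0, 301, 10000⟩, ⟨1000, 1342, 1000⟩⟩ (tA2.hC1 false) :=
  posD_of_check0 (c := ⟨262, ⟨3, 5, 9, 7⟩⟩) (by decide +kernel)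

def tA2_c1h0 : PosD ⟨⟨0, 1, 1⟩, ⟨98, 99, 147⟩, ⟨0, 301, 10000⟩, ⟨1000, 1342, 1000⟩⟩ (tA2.hC1' false) :=
  posD_of_check0 (c := ⟨262, ⟨3, 5, 9, 7⟩⟩) (by decide +kernel)

def tA2_tg00 : PosD ⟨⟨0, 1, 1⟩, ⟨98, 99, 147⟩, ⟨0, 301, 10000⟩, ⟨1000, 1342, 1000⟩⟩ (tA2.hG false (tA2.pEnd false)) :=
  posD_of_check0 (c := ⟨370, ⟨2, 7, 14, 9⟩⟩) (by decide +kernel)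

def tA2_c2p00 : PosD ⟨⟨0, 1, 1⟩, ⟨98, 99, 147⟩, ⟨0, 301, 10000⟩, ⟨1000, 1342, 1000⟩⟩ (tA2.hC2p false (tA2.pEnd false)) :=
  posD_of_check0 (c := ⟨434, ⟨3, 8, 16, 11⟩⟩) (by decide +kernel)

def tA2_c2m00 : PosD ⟨⟨0, 1, 1⟩, ⟨98, 99, 147⟩, ⟨0, 301, 10000⟩, ⟨1000, 1342, 1000⟩⟩ (tA2.hC2m false (tA2.pEnd false)) :=
  posD_of_check0 (c := ⟨435, ⟨3, 8, 16, 11⟩⟩) (by decide +kernel)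

def tA2_c3p00 : PosD ⟨⟨0, 1, 1⟩, ⟨98, 99, 147⟩, ⟨0, 301, 10000⟩, ⟨1000, 1342, 1000⟩⟩ (tA2.hC3p false false) :=
  posD_of_check0 (c := ⟨426, ⟨3, 8, 15, 11⟩⟩) (by decide +kernel)

def tA2_c3m00 : PosD ⟨⟨0, 1, 1⟩, ⟨98, 99, 147⟩, ⟨0, 301, 10000⟩, ⟨1000, 1342, 1000⟩⟩ (tA2.hC3m false false) :=
  posD_of_check0 (c := ⟨426, ⟨3, 8, 15, 11⟩⟩) (by decide +kernel)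

def tA2_c3ph00 : PosD ⟨⟨0, 1, 1⟩, ⟨98, 99, 147⟩, ⟨0, 301, 10000⟩, ⟨1000, 1342, 1000⟩⟩ (tA2.hC3p' false false) :=
  posD_of_check0 (c := ⟨426, ⟨3, 8, 15, 11⟩⟩) (by decide +kernel)

def tA2_c3mh00 : PosD ⟨⟨0, 1, 1⟩, ⟨98, 99, 147⟩, ⟨0, 301, 10000⟩, ⟨1000, 1342, 1000⟩⟩ (tA2.hC3m' false false) :=
  posD_of_check0 (c := ⟨426, ⟨3, 8, 15, 11⟩⟩) (by decide +kernel)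

def tA2_up00 : PosD ⟨⟨0, 1, 1⟩, ⟨98, 99, 147⟩, ⟨0, 301, 10000⟩, ⟨1000, 1342, 1000⟩⟩ (tA2.hUp false false) :=
  posD_of_check0 (c := ⟨425, ⟨3, 8, 15, 11⟩⟩) (by decide +kernel)

def tA2_um00 : PosD ⟨⟨0, 1, 1⟩, ⟨98, 99, 147⟩, ⟨0, 301, 10000⟩, ⟨1000, 1342, 1000⟩⟩ (tA2.hUm false false) :=
  posD_of_check0 (c := ⟨425, ⟨3, 8, 15, 11⟩⟩) (by decide +kernel)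

def tA2_tmg00 : PosD ⟨⟨0, 1, 1⟩, ⟨98, 99, 147⟩, ⟨0, 301, 10000⟩, ⟨1000, 1342, 1000⟩⟩ (tA2.hTMG false (tA2.pEnd false)) :=
  posD_of_check0 (c := ⟨385, ⟨2, 7, 14, 10⟩⟩) (by decide +kernel)

def tA2_tg01 : PosD ⟨⟨0, 1, 1⟩, ⟨98, 99, 147⟩, ⟨0, 301, 10000⟩, ⟨1000, 1342, 1000⟩⟩ (tA2.hG true (tA2.pEnd false)) :=
  posD_of_check0 (c := ⟨370, ⟨2, 7, 14, 9⟩⟩) (by decide +kernel)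

def tA2_c2p01 : PosD ⟨⟨0, 1, 1⟩, ⟨98, 99, 147⟩, ⟨0, 301, 10000⟩, ⟨1000, 1342, 1000⟩⟩ (tA2.hC2p true (tA2.pEnd false)) :=
  posD_of_check0 (c := ⟨434, ⟨3, 8, 16, 11⟩⟩) (by decide +kernel)

def tA2_c2m01 : PosD ⟨⟨0, 1, 1⟩, ⟨98, 99, 147⟩, ⟨0, 301, 10000⟩, ⟨1000, 1342, 1000⟩⟩ (tA2.hC2m true (tA2.pEnd false)) :=
  posD_of_check0 (c := ⟨435, ⟨3, 8, 16, 11⟩⟩) (by decide +kernel)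

def tA2_c3p01 : PosD ⟨⟨0, 1, 1⟩, ⟨98, 99, 147⟩, ⟨0, 301, 10000⟩, ⟨1000, 1342, 1000⟩⟩ (tA2.hC3p false true) :=
  posD_of_check0 (c := ⟨426, ⟨3, 8, 15, 11⟩⟩) (by decide +kernel)

def tA2_c3m01 : PosD ⟨⟨0, 1, 1⟩, ⟨98, 99, 147⟩, ⟨0, 301, 10000⟩, ⟨1000, 1342, 1000⟩⟩ (tA2.hC3m false true) :=
  posD_of_check0 (c := ⟨426, ⟨3, 8, 15, 11⟩⟩) (by decide +kernel)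

def tA2_c3ph01 : PosD ⟨⟨0, 1, 1⟩, ⟨98, 99, 147⟩, ⟨0, 301, 10000⟩, ⟨1000, 1342, 1000⟩⟩ (tA2.hC3p' false true) :=
  posD_of_check0 (c := ⟨426, ⟨3, 8, 15, 11⟩⟩) (by decide +kernel)

def tA2_c3mh01 : PosD ⟨⟨0, 1, 1⟩, ⟨98, 99, 147⟩, ⟨0, 301, 10000⟩, ⟨1000, 1342, 1000⟩⟩ (tA2.hC3m' false true) :=
  posD_of_check0 (c := ⟨426, ⟨3, 8, 15, 11⟩⟩) (by decide +kernel)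

def tA2_up01 : PosD ⟨⟨0, 1, 1⟩, ⟨98, 99, 147⟩, ⟨0, 301, 10000⟩, ⟨1000, 1342, 1000⟩⟩ (tA2.hUp false true) :=
  posD_of_check0 (c := ⟨425, ⟨3, 8, 15, 11⟩⟩) (by decide +kernel)

def tA2_um01 : PosD ⟨⟨0, 1, 1⟩, ⟨98, 99, 147⟩, ⟨0, 301, 10000⟩, ⟨1000, 1342, 1000⟩⟩ (tA2.hUm false true) :=
  posD_of_check0 (c := ⟨425, ⟨3, 8, 15, 11⟩⟩) (by decide +kernel)

def tA2_tmg01 : PosD ⟨⟨0, 1, 1⟩, ⟨98, 99, 147⟩, ⟨0, 301, 10000⟩, ⟨1000, 1342, 1000⟩⟩ (tA2.hTMG true (tA2.pEnd false)) :=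
  posD_of_check0 (c := ⟨385, ⟨2, 7, 14, 10⟩⟩) (by decide +kernel)

def tA2_kap1 : PosD ⟨⟨0, 1, 1⟩, ⟨98, 99, 147⟩, ⟨0, 301, 10000⟩, ⟨1000, 1342, 1000⟩⟩ (tA2.kap true) :=
  posD_of_check0 (c := ⟨66, ⟨1, 1, 2, 2⟩⟩) (by decide +kernel)

def tA2_c11 : PosD ⟨⟨0, 1, 1⟩, ⟨98, 99, 147⟩, ⟨0, 301, 10000⟩, ⟨1000, 1342, 1000⟩⟩ (tA2.hC1 true) :=
  posD_of_check0 (c := ⟨263, ⟨3, 5, 9, 7⟩⟩) (by decide +kernel)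

def tA2_c1h1 : PosD ⟨⟨0, 1, 1⟩, ⟨98, 99, 147⟩, ⟨0, 301, 10000⟩, ⟨1000, 1342, 1000⟩⟩ (tA2.hC1' true) :=
  posD_of_check0 (c := ⟨263, ⟨3, 5, 9, 7⟩⟩) (by decide +kernel)

def tA2_tg10 : PosD ⟨⟨0, 1, 1⟩, ⟨98, 99, 147⟩, ⟨0, 301, 10000⟩, ⟨1000, 1342, 1000⟩⟩ (tA2.hG false (tA2.pEnd true)) :=
  posD_of_check0 (c := ⟨370, ⟨2, 7, 14, 9⟩⟩) (by decide +kernel)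

def tA2_c2p10 : PosD ⟨⟨0, 1, 1⟩, ⟨98, 99, 147⟩, ⟨0, 301, 10000⟩, ⟨1000, 1342, 1000⟩⟩ (tA2.hC2p false (tA2.pEnd true)) :=
  posD_of_check0 (c := ⟨434, ⟨3, 8, 16, 11⟩⟩) (by decide +kernel)

def tA2_c2m10 : PosD ⟨⟨0, 1, 1⟩, ⟨98, 99, 147⟩, ⟨0, 301, 10000⟩, ⟨1000, 1342, 1000⟩⟩ (tA2.hC2m false (tA2.pEnd true)) :=
  posD_of_check0 (c := ⟨434, ⟨3, 8, 16, 11⟩⟩) (by decide +kernel)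

def tA2_c3p10 : PosD ⟨⟨0, 1, 1⟩, ⟨98, 99, 147⟩, ⟨0, 301, 10000⟩, ⟨1000, 1342, 1000⟩⟩ (tA2.hC3p true false) :=
  posD_of_check0 (c := ⟨426, ⟨3, 8, 15, 11⟩⟩) (by decide +kernel)

def tA2_c3m10 : PosD ⟨⟨0, 1, 1⟩, ⟨98, 99, 147⟩, ⟨0, 301, 10000⟩, ⟨1000, 1342, 1000⟩⟩ (tA2.hC3m true false) :=
  posD_of_check0 (c := ⟨426, ⟨3, 8, 15, 11⟩⟩) (by decide +kernel)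

def tA2_c3ph10 : PosD ⟨⟨0, 1, 1⟩, ⟨98, 99, 147⟩, ⟨0, 301, 10000⟩, ⟨1000, 1342, 1000⟩⟩ (tA2.hC3p' true false) :=
  posD_of_check0 (c := ⟨426, ⟨3, 8, 15, 11⟩⟩) (by decide +kernel)

def tA2_c3mh10 : PosD ⟨⟨0, 1, 1⟩, ⟨98, 99, 147⟩, ⟨0, 301, 10000⟩, ⟨1000, 1342, 1000⟩⟩ (tA2.hC3m' true false) :=
  posD_of_check0 (c := ⟨427, ⟨3, 8, 15, 11⟩⟩) (by decide +kernel)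

def tA2_up10 : PosD ⟨⟨0, 1, 1⟩, ⟨98, 99, 147⟩, ⟨0, 301, 10000⟩, ⟨1000, 1342, 1000⟩⟩ (tA2.hUp true false) :=
  posD_of_check0 (c := ⟨425, ⟨3, 8, 15, 11⟩⟩) (by decide +kernel)

def tA2_um10 : PosD ⟨⟨0, 1, 1⟩, ⟨98, 99, 147⟩, ⟨0, 301, 10000⟩, ⟨1000, 1342, 1000⟩⟩ (tA2.hUm true false) :=
  posD_of_check0 (c := ⟨425, ⟨3, 8, 15, 11⟩⟩) (by decide +kernel)

def tA2_tmg10 : PosD ⟨⟨0, 1, 1⟩, ⟨98, 99, 147⟩, ⟨0, 301, 10000⟩, ⟨1000, 1342, 1000⟩⟩ (tA2.hTMG false (tA2.pEnd true)) :=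
  posD_of_check0 (c := ⟨385, ⟨2, 7, 14, 10⟩⟩) (by decide +kernel)

def tA2_tg11 : PosD ⟨⟨0, 1, 1⟩, ⟨98, 99, 147⟩, ⟨0, 301, 10000⟩, ⟨1000, 1342, 1000⟩⟩ (tA2.hG true (tA2.pEnd true)) :=
  posD_of_check0 (c := ⟨370, ⟨2, 7, 14, 9⟩⟩) (by decide +kernel)

def tA2_c2p11 : PosD ⟨⟨0, 1, 1⟩, ⟨98, 99, 147⟩, ⟨0, 301, 10000⟩, ⟨1000, 1342, 1000⟩⟩ (tA2.hC2p true (tA2.pEnd true)) :=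
  posD_of_check0 (c := ⟨434, ⟨3, 8, 16, 11⟩⟩) (by decide +kernel)

def tA2_c2m11 : PosD ⟨⟨0, 1, 1⟩, ⟨98, 99, 147⟩, ⟨0, 301, 10000⟩, ⟨1000, 1342, 1000⟩⟩ (tA2.hC2m true (tA2.pEnd true)) :=
  posD_of_check0 (c := ⟨434, ⟨3, 8, 16, 11⟩⟩) (by decide +kernel)

def tA2_c3p11 : PosD ⟨⟨0, 1, 1⟩, ⟨98, 99, 147⟩, ⟨0, 301, 10000⟩, ⟨1000, 1342, 1000⟩⟩ (tA2.hC3p true true) :=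
  posD_of_check0 (c := ⟨426, ⟨3, 8, 15, 11⟩⟩) (by decide +kernel)

def tA2_c3m11 : PosD ⟨⟨0, 1, 1⟩, ⟨98, 99, 147⟩, ⟨0, 301, 10000⟩, ⟨1000, 1342, 1000⟩⟩ (tA2.hC3m true true) :=
  posD_of_check0 (c := ⟨426, ⟨3, 8, 15, 11⟩⟩) (by decide +kernel)

def tA2_c3ph11 : PosD ⟨⟨0, 1, 1⟩, ⟨98, 99, 147⟩, ⟨0, 301, 10000⟩, ⟨1000, 1342, 1000⟩⟩ (tA2.hC3p' true true) :=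
  posD_of_check0 (c := ⟨426, ⟨3, 8, 15, 11⟩⟩) (by decide +kernel)

def tA2_c3mh11 : PosD ⟨⟨0, 1, 1⟩, ⟨98, 99, 147⟩, ⟨0, 301, 10000⟩, ⟨1000, 1342, 1000⟩⟩ (tA2.hC3m' true true) :=
  posD_of_check0 (c := ⟨427, ⟨3, 8, 15, 11⟩⟩) (by decide +kernel)

def tA2_up11 : PosD ⟨⟨0, 1, 1⟩, ⟨98, 99, 147⟩, ⟨0, 301, 10000⟩, ⟨1000, 1342, 1000⟩⟩ (tA2.hUp true true) :=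
  posD_of_check0 (c := ⟨425, ⟨3, 8, 15, 11⟩⟩) (by decide +kernel)

def tA2_um11 : PosD ⟨⟨0, 1, 1⟩, ⟨98, 99, 147⟩, ⟨0, 301, 10000⟩, ⟨1000, 1342, 1000⟩⟩ (tA2.hUm true true) :=
  posD_of_check0 (c := ⟨425, ⟨3, 8, 15, 11⟩⟩) (by decide +kernel)

def tA2_tmg11 : PosD ⟨⟨0, 1, 1⟩, ⟨98, 99, 147⟩, ⟨0, 301, 10000⟩, ⟨1000, 1342, 1000⟩⟩ (tA2.hTMG true (tA2.pEnd true)) :=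
  posD_of_check0 (c := ⟨385, ⟨2, 7, 14, 10⟩⟩) (by decide +kernel)

/-- The signs of the piece. -/
def tA2_sign : tA2.Sign ⟨⟨0, 1, 1⟩, ⟨98, 99, 147⟩, ⟨0, 301, 10000⟩, ⟨1000, 1342, 1000⟩⟩ :=
  ⟨tA2_pp,
    tA2_k2p,
    tA2_k2m,
    Bool.forall_bool.2 ⟨(Bool.forall_bool.2 ⟨tA2_tg00, tA2_tg01⟩), (Bool.forall_bool.2 ⟨tA2_tg10, tA2_tg11⟩)⟩,
    Bool.forall_bool.2 ⟨(Bool.forall_bool.2 ⟨tA2_c2p00, tA2_c2p01⟩), (Bool.forall_bool.2 ⟨tA2_c2p10, tA2_c2p11⟩)⟩,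
    Bool.forall_bool.2 ⟨(Bool.forall_bool.2 ⟨tA2_c2m00, tA2_c2m01⟩), (Bool.forall_bool.2 ⟨tA2_c2m10, tA2_c2m11⟩)⟩,
    Bool.forall_bool.2 ⟨tA2_kap0, tA2_kap1⟩,
    Bool.forall_bool.2 ⟨tA2_c10, tA2_c11⟩,
    Bool.forall_bool.2 ⟨(Bool.forall_bool.2 ⟨tA2_c3p00, tA2_c3p01⟩), (Bool.forall_bool.2 ⟨tA2_c3p10, tA2_c3p11⟩)⟩,
    Bool.forall_bool.2 ⟨(Bool.forall_bool.2 ⟨tA2_c3m00, tA2_c3m01⟩), (Bool.forall_bool.2 ⟨tA2_c3m10, tA2_c3m11⟩)⟩,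
    Bool.forall_bool.2 ⟨(Bool.forall_bool.2 ⟨tA2_tmg00, tA2_tmg01⟩), (Bool.forall_bool.2 ⟨tA2_tmg10, tA2_tmg11⟩)⟩,
    .inr (Bool.forall_bool.2 ⟨⟨tA2_c1h0, Bool.forall_bool.2 ⟨⟨tA2_c3ph00, tA2_c3mh00, tA2_up00, tA2_um00⟩, ⟨tA2_c3ph01, tA2_c3mh01, tA2_up01, tA2_um01⟩⟩⟩, ⟨tA2_c1h1, Bool.forall_bool.2 ⟨⟨tA2_c3ph10, tA2_c3mh10, tA2_up10, tA2_um10⟩, ⟨tA2_c3ph11, tA2_c3mh11, tA2_up11, tA2_um11⟩⟩⟩⟩),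
    tA2_v2p,
    tA2_v2m,
    tA2_v3p,
    tA2_v3m,
    posD_sub (b := ⟨⟨0, 1, 1⟩, ⟨98, 99, 147⟩, ⟨0, 301, 10000⟩, ⟨290, 4000, 1000⟩⟩) (by decide +kernel) tA_vG,
    posD_sub (b := ⟨⟨0, 1, 1⟩, ⟨98, 99, 147⟩, ⟨0, 301, 10000⟩, ⟨290, 4000, 1000⟩⟩) (by decide +kernel) tA_vMG,
    posD_sub (b := ⟨⟨0, 1, 1⟩, ⟨98, 99, 147⟩, ⟨0, 301, 10000⟩, ⟨290, 4000, 1000⟩⟩) (by decide +kernel) tA_ak,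
    posD_sub (b := ⟨⟨0, 1, 1⟩, ⟨98, 99, 147⟩, ⟨0, 301, 10000⟩, ⟨290, 4000, 1000⟩⟩) (by decide +kernel) tA_aw,
    posD_sub (b := ⟨⟨0, 1, 1⟩, ⟨98, 99, 147⟩, ⟨0, 301, 10000⟩, ⟨290, 4000, 1000⟩⟩) (by decide +kernel) tA_gk,
    posD_sub (b := ⟨⟨0, 1, 1⟩, ⟨98, 99, 147⟩, ⟨0, 301, 10000⟩, ⟨290, 4000, 1000⟩⟩) (by decide +kernel) tA_gw,
    posD_sub (b := ⟨⟨0, 1, 1⟩, ⟨98, 99, 147⟩, ⟨0, 301, 10000⟩, ⟨290, 4000, 1000⟩⟩) (by decide +kernel) tA_ek,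
    posD_sub (b := ⟨⟨0, 1, 1⟩, ⟨98, 99, 147⟩, ⟨0, 301, 10000⟩, ⟨290, 4000, 1000⟩⟩) (by decide +kernel) tA_ew⟩

end Vale.Agent.P100.Calib.Closed.Six.Tail
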