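import Vale.Agent.P100.Calib.SlabSixTailDataA
import Vale.Agent.P100.Calib.SlabSixTailGlobA

/-!
# Checks of some pieces of the certificate

The checks are written as definitions so that they run one after another, which keeps the memory of the
kernel low.
-/

set_option linter.defProp false

namespace Vale.Agent.P100.Calib.Closed.Six.Tail

open BoxPos Large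

local instance sixTailCheckstA3Add : Add Ex := ⟨Ex.add⟩
local instance sixTailCheckstA3Sub : Sub Ex := ⟨Ex.sub⟩
local instance sixTailCheckstA3Mul : Mul Ex := ⟨Ex.mul⟩

def tA3_phx : PosIf ⟨⟨0, 1, 1⟩, ⟨98, 99, 147⟩, ⟨0, 301, 10000⟩, ⟨1342, 1800, 1000⟩⟩ (tA3.u₁ - tA3Lo) (phAn (tA3.u₁ + xO * (tA3Lo - tA3.u₁))) :=
  posIf_of_posD (posD_of_check0 (c := ⟨99, ⟨2, 0, 4, 2⟩⟩) (by decide +kernel))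

def tA3_phd : PosD ⟨⟨0, 1, 1⟩, ⟨98, 99, 147⟩, ⟨0, 301, 10000⟩, ⟨1342, 1800, 1000⟩⟩ (phAd (tA3.u₁ + xO * (tA3Lo - tA3.u₁))) :=
  posD_of_check0 (c := ⟨48, ⟨1, 0, 2, 1⟩⟩) (by decide +kernel)

def tA3_p0 : PosD ⟨⟨0, 1, 1⟩, ⟨98, 99, 147⟩, ⟨0, 301, 10000⟩, ⟨1342, 1800, 1000⟩⟩ (tA3.hP0) :=
  posD_of_check0 (c := ⟨81, ⟨0, 2, 3, 1⟩⟩) (by decide +kernel)

def tA3_gn : PosD ⟨⟨0, 1, 1⟩, ⟨98, 99, 147⟩, ⟨0, 301, 10000⟩, ⟨1342, 1800, 1000⟩⟩ (tA3.hGn) :=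
  posD_of_check0 (c := ⟨65, ⟨1, 1, 2, 2⟩⟩) (by decide +kernel)

def tA3_den0 : PosD ⟨⟨0, 1, 1⟩, ⟨98, 99, 147⟩, ⟨0, 301, 10000⟩, ⟨1342, 1800, 1000⟩⟩ (tA3.hDen false) :=
  posD_of_check0 (c := ⟨48, ⟨1, 0, 2, 1⟩⟩) (by decide +kernel)

def tA3_den1 : PosD ⟨⟨0, 1, 1⟩, ⟨98, 99, 147⟩, ⟨0, 301, 10000⟩, ⟨1342, 1800, 1000⟩⟩ (tA3.hDen true) :=
  posD_of_check0 (c := ⟨48, ⟨1, 0, 2, 1⟩⟩) (by decide +kernel)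

def tA3_ev0 : PosD ⟨⟨0, 1, 1⟩, ⟨98, 99, 147⟩, ⟨0, 301, 10000⟩, ⟨1342, 1800, 1000⟩⟩ (tA3.hEv false) :=
  posD_of_check0 (c := ⟨203, ⟨4, 2, 8, 4⟩⟩) (by decide +kernel)

def tA3_zL0 : PosD ⟨⟨0, 1, 1⟩, ⟨98, 99, 147⟩, ⟨0, 301, 10000⟩, ⟨1342, 1800, 1000⟩⟩ (tA3.hZL false) :=
  posD_of_check0 (c := ⟨207, ⟨4, 3, 8, 4⟩⟩) (by decide +kernel)

def tA3_zU0a : PosD ⟨⟨0, 1, 1⟩, ⟨98, 99, 147⟩, ⟨0, 301, 10000⟩, ⟨1342, 1571, 1000⟩⟩ (tA3.hZU false) :=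
  posD_of_check0 (c := ⟨206, ⟨4, 3, 8, 4⟩⟩) (by decide +kernel)

def tA3_zU0b : PosD ⟨⟨0, 1, 1⟩, ⟨98, 99, 147⟩, ⟨0, 301, 10000⟩, ⟨1571, 1800, 1000⟩⟩ (tA3.hZU false) :=
  posD_of_check0 (c := ⟨206, ⟨4, 3, 8, 4⟩⟩) (by decide +kernel)

def tA3_zU0 : PosD ⟨⟨0, 1, 1⟩, ⟨98, 99, 147⟩, ⟨0, 301, 10000⟩, ⟨1342, 1800, 1000⟩⟩ (tA3.hZU false) :=
  posD_join₃ tA3_zU0a tA3_zU0b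

def tA3_eL0 : PosD ⟨⟨0, 1, 1⟩, ⟨98, 99, 147⟩, ⟨0, 301, 10000⟩, ⟨1342, 1800, 1000⟩⟩ (tA3.hEL false) :=
  posD_of_check0 (c := ⟨295, ⟨5, 6, 11, 6⟩⟩) (by decide +kernel)

def tA3_eH0 : PosD ⟨⟨0, 1, 1⟩, ⟨98, 99, 147⟩, ⟨0, 301, 10000⟩, ⟨1342, 1800, 1000⟩⟩ (tA3.hEH false) :=
  posD_of_check0 (c := ⟨310, ⟨5, 6, 11, 6⟩⟩) (by decide +kernel)

def tA3_pL0 : PosD ⟨⟨0, 1, 1⟩, ⟨98, 99, 147⟩, ⟨0, 301, 10000⟩, ⟨1342, 1800, 1000⟩⟩ (tA3.hPL false) :=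
  posD_of_check0 (c := ⟨321, ⟨5, 6, 11, 7⟩⟩) (by decide +kernel)

def tA3_pU0 : PosD ⟨⟨0, 1, 1⟩, ⟨98, 99, 147⟩, ⟨0, 301, 10000⟩, ⟨1342, 1800, 1000⟩⟩ (tA3.hPU false) :=
  posD_of_check0 (c := ⟨321, ⟨5, 6, 11, 7⟩⟩) (by decide +kernel)

def tA3_kU0a : PosD ⟨⟨0, 1, 1⟩, ⟨98, 99, 147⟩, ⟨0, 301, 10000⟩, ⟨1342, 1571, 1000⟩⟩ (tA3.hKU false) :=
  posD_of_check0 (c := ⟨317, ⟨5, 6, 11, 7⟩⟩) (by decide +kernel)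

def tA3_kU0b : PosD ⟨⟨0, 1, 1⟩, ⟨98, 99, 147⟩, ⟨0, 301, 10000⟩, ⟨1571, 1800, 1000⟩⟩ (tA3.hKU false) :=
  posD_of_check0 (c := ⟨318, ⟨5, 6, 11, 7⟩⟩) (by decide +kernel)

def tA3_kU0 : PosD ⟨⟨0, 1, 1⟩, ⟨98, 99, 147⟩, ⟨0, 301, 10000⟩, ⟨1342, 1800, 1000⟩⟩ (tA3.hKU false) :=
  posD_join₃ tA3_kU0a tA3_kU0b

def tA3_kL0 : PosD ⟨⟨0, 1, 1⟩, ⟨98, 99, 147⟩, ⟨0, 301, 10000⟩, ⟨1342, 1800, 1000⟩⟩ (tA3.hKL false) :=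
  posD_of_check0 (c := ⟨316, ⟨5, 6, 11, 7⟩⟩) (by decide +kernel)

def tA3_wU0a : PosD ⟨⟨0, 1, 2⟩, ⟨98, 99, 147⟩, ⟨0, 301, 10000⟩, ⟨1342, 1800, 1000⟩⟩ (tA3.hWU false) :=
  posD_of_check0 (c := ⟨356, ⟨5, 8, 12, 7⟩⟩) (by decide +kernel)

def tA3_wU0b : PosD ⟨⟨1, 2, 2⟩, ⟨98, 99, 147⟩, ⟨0, 301, 10000⟩, ⟨1342, 1800, 1000⟩⟩ (tA3.hWU false) :=
  posD_of_check0 (c := ⟨358, ⟨5, 8, 12, 7⟩⟩) (by decide +kernel)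

def tA3_wU0 : PosD ⟨⟨0, 1, 1⟩, ⟨98, 99, 147⟩, ⟨0, 301, 10000⟩, ⟨1342, 1800, 1000⟩⟩ (tA3.hWU false) :=
  posD_units (b := ⟨⟨0, 2, 2⟩, ⟨98, 99, 147⟩, ⟨0, 301, 10000⟩, ⟨1342, 1800, 1000⟩⟩) (by decide +kernel) (posD_join₀ tA3_wU0a tA3_wU0b)

def tA3_wL0 : PosD ⟨⟨0, 1, 1⟩, ⟨98, 99, 147⟩, ⟨0, 301, 10000⟩, ⟨1342, 1800, 1000⟩⟩ (tA3.hWL false) :=
  posD_of_check0 (c := ⟨352, ⟨5, 8, 12, 7⟩⟩) (by decide +kernel)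

def tA3_ev1 : PosD ⟨⟨0, 1, 1⟩, ⟨98, 99, 147⟩, ⟨0, 301, 10000⟩, ⟨1342, 1800, 1000⟩⟩ (tA3.hEv true) :=
  posD_of_check0 (c := ⟨203, ⟨4, 2, 8, 4⟩⟩) (by decide +kernel)

def tA3_zL1a : PosD ⟨⟨0, 1, 1⟩, ⟨98, 99, 147⟩, ⟨0, 150, 10000⟩, ⟨1342, 1800, 1000⟩⟩ (tA3.hZL true) :=
  posD_of_check0 (c := ⟨206, ⟨4, 3, 8, 4⟩⟩) (by decide +kernel)

def tA3_zL1b : PosD ⟨⟨0, 1, 1⟩, ⟨98, 99, 147⟩, ⟨150, 301, 10000⟩, ⟨1342, 1800, 1000⟩⟩ (tA3.hZL true) :=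
  posD_of_check (c := ⟨207, ⟨4, 3, 8, 4⟩⟩) (by decide +kernel)

def tA3_zL1 : PosD ⟨⟨0, 1, 1⟩, ⟨98, 99, 147⟩, ⟨0, 301, 10000⟩, ⟨1342, 1800, 1000⟩⟩ (tA3.hZL true) :=
  posD_join₂ tA3_zL1a tA3_zL1b

def tA3_zU1 : PosD ⟨⟨0, 1, 1⟩, ⟨98, 99, 147⟩, ⟨0, 301, 10000⟩, ⟨1342, 1800, 1000⟩⟩ (tA3.hZU true) :=
  posD_of_check0 (c := ⟨206, ⟨4, 3, 8, 4⟩⟩) (by decide +kernel)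

def tA3_eL1 : PosD ⟨⟨0, 1, 1⟩, ⟨98, 99, 147⟩, ⟨0, 301, 10000⟩, ⟨1342, 1800, 1000⟩⟩ (tA3.hEL true) :=
  posD_of_check0 (c := ⟨295, ⟨5, 6, 11, 6⟩⟩) (by decide +kernel)

def tA3_eH1aa : PosD ⟨⟨0, 1, 4⟩, ⟨98, 99, 147⟩, ⟨0, 301, 10000⟩, ⟨1342, 1800, 1000⟩⟩ (tA3.hEH true) :=
  posD_of_check0 (c := ⟨317, ⟨5, 6, 11, 6⟩⟩) (by decide +kernel)

def tA3_eH1ab : PosD ⟨⟨1, 2, 4⟩, ⟨98, 99, 147⟩, ⟨0, 301, 10000⟩, ⟨1342, 1800, 1000⟩⟩ (tA3.hEH true) :=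
  posD_of_check0 (c := ⟨318, ⟨5, 6, 11, 6⟩⟩) (by decide +kernel)

def tA3_eH1a : PosD ⟨⟨0, 1, 2⟩, ⟨98, 99, 147⟩, ⟨0, 301, 10000⟩, ⟨1342, 1800, 1000⟩⟩ (tA3.hEH true) :=
  posD_units (b := ⟨⟨0, 2, 4⟩, ⟨98, 99, 147⟩, ⟨0, 301, 10000⟩, ⟨1342, 1800, 1000⟩⟩) (by decide +kernel) (posD_join₀ tA3_eH1aa tA3_eH1ab)

def tA3_eH1b : PosD ⟨⟨1, 2, 2⟩, ⟨98, 99, 147⟩, ⟨0, 301, 10000⟩, ⟨1342, 1800, 1000⟩⟩ (tA3.hEH true) :=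
  posD_of_check0 (c := ⟨315, ⟨5, 6, 11, 6⟩⟩) (by decide +kernel)

def tA3_eH1 : PosD ⟨⟨0, 1, 1⟩, ⟨98, 99, 147⟩, ⟨0, 301, 10000⟩, ⟨1342, 1800, 1000⟩⟩ (tA3.hEH true) :=
  posD_units (b := ⟨⟨0, 2, 2⟩, ⟨98, 99, 147⟩, ⟨0, 301, 10000⟩, ⟨1342, 1800, 1000⟩⟩) (by decide +kernel) (posD_join₀ tA3_eH1a tA3_eH1b)

def tA3_pL1 : PosD ⟨⟨0, 1, 1⟩, ⟨98, 99, 147⟩, ⟨0, 301, 10000⟩, ⟨1342, 1800, 1000⟩⟩ (tA3.hPL true) :=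
  posD_of_check0 (c := ⟨321, ⟨5, 6, 11, 7⟩⟩) (by decide +kernel)

def tA3_pU1aa : PosD ⟨⟨0, 1, 2⟩, ⟨98, 99, 147⟩, ⟨0, 301, 10000⟩, ⟨1342, 1571, 1000⟩⟩ (tA3.hPU true) :=
  posD_of_check0 (c := ⟨325, ⟨5, 6, 11, 7⟩⟩) (by decide +kernel)

def tA3_pU1ab : PosD ⟨⟨0, 1, 2⟩, ⟨98, 99, 147⟩, ⟨0, 301, 10000⟩, ⟨1571, 1800, 1000⟩⟩ (tA3.hPU true) :=
  posD_of_check0 (c := ⟨325, ⟨5, 6, 11, 7⟩⟩) (by decide +kernel)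

def tA3_pU1a : PosD ⟨⟨0, 1, 2⟩, ⟨98, 99, 147⟩, ⟨0, 301, 10000⟩, ⟨1342, 1800, 1000⟩⟩ (tA3.hPU true) :=
  posD_join₃ tA3_pU1aa tA3_pU1ab

def tA3_pU1b : PosD ⟨⟨1, 2, 2⟩, ⟨98, 99, 147⟩, ⟨0, 301, 10000⟩, ⟨1342, 1800, 1000⟩⟩ (tA3.hPU true) :=
  posD_of_check0 (c := ⟨327, ⟨5, 6, 11, 7⟩⟩) (by decide +kernel)

def tA3_pU1 : PosD ⟨⟨0, 1, 1⟩, ⟨98, 99, 147⟩, ⟨0, 301, 10000⟩, ⟨1342, 1800, 1000⟩⟩ (tA3.hPU true) :=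
  posD_units (b := ⟨⟨0, 2, 2⟩, ⟨98, 99, 147⟩, ⟨0, 301, 10000⟩, ⟨1342, 1800, 1000⟩⟩) (by decide +kernel) (posD_join₀ tA3_pU1a tA3_pU1b)

def tA3_kU1a : PosD ⟨⟨0, 1, 1⟩, ⟨98, 99, 147⟩, ⟨0, 301, 10000⟩, ⟨1342, 1571, 1000⟩⟩ (tA3.hKU true) :=
  posD_of_check0 (c := ⟨317, ⟨5, 6, 11, 7⟩⟩) (by decide +kernel)

def tA3_kU1b : PosD ⟨⟨0, 1, 1⟩, ⟨98, 99, 147⟩, ⟨0, 301, 10000⟩, ⟨1571, 1800, 1000⟩⟩ (tA3.hKU true) :=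
  posD_of_check0 (c := ⟨318, ⟨5, 6, 11, 7⟩⟩) (by decide +kernel)

def tA3_kU1 : PosD ⟨⟨0, 1, 1⟩, ⟨98, 99, 147⟩, ⟨0, 301, 10000⟩, ⟨1342, 1800, 1000⟩⟩ (tA3.hKU true) :=
  posD_join₃ tA3_kU1a tA3_kU1b

def tA3_kL1 : PosD ⟨⟨0, 1, 1⟩, ⟨98, 99, 147⟩, ⟨0, 301, 10000⟩, ⟨1342, 1800, 1000⟩⟩ (tA3.hKL true) :=
  posD_of_check0 (c := ⟨316, ⟨5, 6, 11, 7⟩⟩) (by decide +kernel)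

def tA3_wU1a : PosD ⟨⟨0, 1, 2⟩, ⟨98, 99, 147⟩, ⟨0, 301, 10000⟩, ⟨1342, 1800, 1000⟩⟩ (tA3.hWU true) :=
  posD_of_check0 (c := ⟨356, ⟨5, 8, 12, 7⟩⟩) (by decide +kernel)

def tA3_wU1b : PosD ⟨⟨1, 2, 2⟩, ⟨98, 99, 147⟩, ⟨0, 301, 10000⟩, ⟨1342, 1800, 1000⟩⟩ (tA3.hWU true) :=
  posD_of_check0 (c := ⟨358, ⟨5, 8, 12, 7⟩⟩) (by decide +kernel)

def tA3_wU1 : PosD ⟨⟨0, 1, 1⟩, ⟨98, 99, 147⟩, ⟨0, 301, 10000⟩, ⟨1342, 1800, 1000⟩⟩ (tA3.hWU true) :=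
  posD_units (b := ⟨⟨0, 2, 2⟩, ⟨98, 99, 147⟩, ⟨0, 301, 10000⟩, ⟨1342, 1800, 1000⟩⟩) (by decide +kernel) (posD_join₀ tA3_wU1a tA3_wU1b)

def tA3_wL1 : PosD ⟨⟨0, 1, 1⟩, ⟨98, 99, 147⟩, ⟨0, 301, 10000⟩, ⟨1342, 1800, 1000⟩⟩ (tA3.hWL true) :=
  posD_of_check0 (c := ⟨352, ⟨5, 8, 12, 7⟩⟩) (by decide +kernel)

def tA3_mueH : PosD ⟨⟨0, 1, 1⟩, ⟨98, 99, 147⟩, ⟨0, 301, 10000⟩, ⟨1342, 1800, 1000⟩⟩ (tA3.eH.μ) :=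
  posD_of_check0 (c := ⟨15, ⟨0, 0, 0, 0⟩⟩) (by decide +kernel)

/-- The bounds of the piece. -/
def tA3_env : tA3.Env ⟨⟨0, 1, 1⟩, ⟨98, 99, 147⟩, ⟨0, 301, 10000⟩, ⟨1342, 1800, 1000⟩⟩ :=
  ⟨tA3_p0, Bool.forall_bool.2 ⟨tA3_den0, tA3_den1⟩, tA3_gn, Bool.forall_bool.2 ⟨tA3_ev0, tA3_ev1⟩, Bool.forall_bool.2 ⟨tA3_zL0, tA3_zL1⟩, Bool.forall_bool.2 ⟨tA3_zU0, tA3_zU1⟩, Bool.forall_bool.2 ⟨tA3_eL0, tA3_eL1⟩, ⟨.inr rfl, .inr rfl⟩, Bool.forall_bool.2 ⟨tA3_eH0, tA3_eH1⟩, ⟨.inl tA3_mueH, .inr rfl⟩, Bool.forall_bool.2 ⟨tA3_pL0, tA3_pL1⟩, ⟨.inr rfl, .inr rfl⟩, Bool.forall_bool.2 ⟨tA3_pU0, tA3_pU1⟩, ⟨.inr rfl, .inr rfl⟩, Bool.forall_bool.2 ⟨tA3_kU0, tA3_kU1⟩, ⟨.inr rfl, .inr rfl⟩, Bool.forall_bool.2 ⟨tA3_kL0, tA3_kL1⟩,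 ⟨.inr rfl, .inr rfl⟩, Bool.forall_bool.2 ⟨tA3_wU0, tA3_wU1⟩, ⟨.inr rfl, .inr rfl⟩, Bool.forall_bool.2 ⟨tA3_wL0, tA3_wL1⟩, ⟨.inr rfl, .inr rfl⟩⟩

def tA3_pp : PosD ⟨⟨0, 1, 1⟩, ⟨98, 99, 147⟩, ⟨0, 301, 10000⟩, ⟨1342, 1800, 1000⟩⟩ (tA3.xPL) :=
  posD_of_check0 (c := ⟨90, ⟨1, 1, 3, 3⟩⟩) (by decide +kernel)

def tA3_k2p : PosD ⟨⟨0, 1, 1⟩, ⟨98, 99, 147⟩, ⟨0, 301, 10000⟩, ⟨1342, 1800, 1000⟩⟩ (tA3.k2p tA3.xE) :=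
  posD_of_check0 (c := ⟨64, ⟨1, 1, 2, 2⟩⟩) (by decide +kernel)

def tA3_k2m : PosD ⟨⟨0, 1, 1⟩, ⟨98, 99, 147⟩, ⟨0, 301, 10000⟩, ⟨1342, 1800, 1000⟩⟩ (tA3.k2m tA3.xE) :=
  posD_of_check0 (c := ⟨63, ⟨1, 1, 2, 2⟩⟩) (by decide +kernel)

def tA3_v2p : PosD ⟨⟨0, 1, 1⟩, ⟨98, 99, 147⟩, ⟨0, 301, 10000⟩, ⟨1342, 1800, 1000⟩⟩ (tA3.hV2p) :=
  posD_of_check0 (c := ⟨256, ⟨1, 6, 10, 5⟩⟩) (by decide +kernel)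

def tA3_v2m : PosD ⟨⟨0, 1, 1⟩, ⟨98, 99, 147⟩, ⟨0, 301, 10000⟩, ⟨1342, 1800, 1000⟩⟩ (tA3.hV2m) :=
  posD_of_check0 (c := ⟨256, ⟨1, 6, 10, 5⟩⟩) (by decide +kernel)

def tA3_v3p : PosD ⟨⟨0, 1, 1⟩, ⟨98, 99, 147⟩, ⟨0, 301, 10000⟩, ⟨1342, 1800, 1000⟩⟩ (tA3.hV3p) :=
  posD_of_check0 (c := ⟨246, ⟨1, 6, 9, 5⟩⟩) (by decide +kernel)

def tA3_v3m : PosD ⟨⟨0, 1, 1⟩, ⟨98, 99, 147⟩, ⟨0, 301, 10000⟩, ⟨1342, 1800, 1000⟩⟩ (tA3.hV3m) :=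
  posD_of_check0 (c := ⟨246, ⟨1, 6, 9, 5⟩⟩) (by decide +kernel)

def tA3_kap0 : PosD ⟨⟨0, 1, 1⟩, ⟨98, 99, 147⟩, ⟨0, 301, 10000⟩, ⟨1342, 1800, 1000⟩⟩ (tA3.kap false) :=
  posD_of_check0 (c := ⟨64, ⟨1, 1, 2, 2⟩⟩) (by decide +kernel)

def tA3_c10 : PosD ⟨⟨0, 1, 1⟩, ⟨98, 99, 147⟩, ⟨0, 301, 10000⟩, ⟨1342, 1800, 1000⟩⟩ (tA3.hC1 false) :=
  posD_of_check0 (c := ⟨261, ⟨3, 5, 9, 7⟩⟩) (by decide +kernel)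

def tA3_c1h0 : PosD ⟨⟨0, 1, 1⟩, ⟨98, 99, 147⟩, ⟨0, 301, 10000⟩, ⟨1342, 1800, 1000⟩⟩ (tA3.hC1' false) :=
  posD_of_check0 (c := ⟨261, ⟨3, 5, 9, 7⟩⟩) (by decide +kernel)

def tA3_tg00 : PosD ⟨⟨0, 1, 1⟩, ⟨98, 99, 147⟩, ⟨0, 301, 10000⟩, ⟨1342, 1800, 1000⟩⟩ (tA3.hG false (tA3.pEnd false)) :=
  posD_of_check0 (c := ⟨370, ⟨2, 7, 14, 9⟩⟩) (by decide +kernel)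

def tA3_c2p00 : PosD ⟨⟨0, 1, 1⟩, ⟨98, 99, 147⟩, ⟨0, 301, 10000⟩, ⟨1342, 1800, 1000⟩⟩ (tA3.hC2p false (tA3.pEnd false)) :=
  posD_of_check0 (c := ⟨433, ⟨3, 8, 16, 11⟩⟩) (by decide +kernel)

def tA3_c2m00 : PosD ⟨⟨0, 1, 1⟩, ⟨98, 99, 147⟩, ⟨0, 301, 10000⟩, ⟨1342, 1800, 1000⟩⟩ (tA3.hC2m false (tA3.pEnd false)) :=
  posD_of_check0 (c := ⟨432, ⟨3, 8, 16, 11⟩⟩) (by decide +kernel)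

def tA3_c3p00 : PosD ⟨⟨0, 1, 1⟩, ⟨98, 99, 147⟩, ⟨0, 301, 10000⟩, ⟨1342, 1800, 1000⟩⟩ (tA3.hC3p false false) :=
  posD_of_check0 (c := ⟨426, ⟨3, 8, 15, 11⟩⟩) (by decide +kernel)

def tA3_c3m00 : PosD ⟨⟨0, 1, 1⟩, ⟨98, 99, 147⟩, ⟨0, 301, 10000⟩, ⟨1342, 1800, 1000⟩⟩ (tA3.hC3m false false) :=
  posD_of_check0 (c := ⟨426, ⟨3, 8, 15, 11⟩⟩) (by decide +kernel)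

def tA3_c3ph00 : PosD ⟨⟨0, 1, 1⟩, ⟨98, 99, 147⟩, ⟨0, 301, 10000⟩, ⟨1342, 1800, 1000⟩⟩ (tA3.hC3p' false false) :=
  posD_of_check0 (c := ⟨426, ⟨3, 8, 15, 11⟩⟩) (by decide +kernel)

def tA3_c3mh00 : PosD ⟨⟨0, 1, 1⟩, ⟨98, 99, 147⟩, ⟨0, 301, 10000⟩, ⟨1342, 1800, 1000⟩⟩ (tA3.hC3m' false false) :=
  posD_of_check0 (c := ⟨426, ⟨3, 8, 15, 11⟩⟩) (by decide +kernel)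

def tA3_up00 : PosD ⟨⟨0, 1, 1⟩, ⟨98, 99, 147⟩, ⟨0, 301, 10000⟩, ⟨1342, 1800, 1000⟩⟩ (tA3.hUp false false) :=
  posD_of_check0 (c := ⟨425, ⟨3, 8, 15, 11⟩⟩) (by decide +kernel)

def tA3_um00 : PosD ⟨⟨0, 1, 1⟩, ⟨98, 99, 147⟩, ⟨0, 301, 10000⟩, ⟨1342, 1800, 1000⟩⟩ (tA3.hUm false false) :=
  posD_of_check0 (c := ⟨425, ⟨3, 8, 15, 11⟩⟩) (by decide +kernel)

def tA3_tmg00 : PosD ⟨⟨0, 1, 1⟩, ⟨98, 99, 147⟩, ⟨0, 301, 10000⟩, ⟨1342, 1800, 1000⟩⟩ (tA3.hTMG false (tA3.pEnd false)) :=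
  posD_of_check0 (c := ⟨385, ⟨2, 7, 14, 10⟩⟩) (by decide +kernel)

def tA3_tg01 : PosD ⟨⟨0, 1, 1⟩, ⟨98, 99, 147⟩, ⟨0, 301, 10000⟩, ⟨1342, 1800, 1000⟩⟩ (tA3.hG true (tA3.pEnd false)) :=
  posD_of_check0 (c := ⟨370, ⟨2, 7, 14, 9⟩⟩) (by decide +kernel)

def tA3_c2p01 : PosD ⟨⟨0, 1, 1⟩, ⟨98, 99, 147⟩, ⟨0, 301, 10000⟩, ⟨1342, 1800, 1000⟩⟩ (tA3.hC2p true (tA3.pEnd false)) :=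
  posD_of_check0 (c := ⟨433, ⟨3, 8, 16, 11⟩⟩) (by decide +kernel)

def tA3_c2m01 : PosD ⟨⟨0, 1, 1⟩, ⟨98, 99, 147⟩, ⟨0, 301, 10000⟩, ⟨1342, 1800, 1000⟩⟩ (tA3.hC2m true (tA3.pEnd false)) :=
  posD_of_check0 (c := ⟨432, ⟨3, 8, 16, 11⟩⟩) (by decide +kernel)

def tA3_c3p01 : PosD ⟨⟨0, 1, 1⟩, ⟨98, 99, 147⟩, ⟨0, 301, 10000⟩, ⟨1342, 1800, 1000⟩⟩ (tA3.hC3p false true) :=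
  posD_of_check0 (c := ⟨426, ⟨3, 8, 15, 11⟩⟩) (by decide +kernel)

def tA3_c3m01 : PosD ⟨⟨0, 1, 1⟩, ⟨98, 99, 147⟩, ⟨0, 301, 10000⟩, ⟨1342, 1800, 1000⟩⟩ (tA3.hC3m false true) :=
  posD_of_check0 (c := ⟨426, ⟨3, 8, 15, 11⟩⟩) (by decide +kernel)

def tA3_c3ph01 : PosD ⟨⟨0, 1, 1⟩, ⟨98, 99, 147⟩, ⟨0, 301, 10000⟩, ⟨1342, 1800, 1000⟩⟩ (tA3.hC3p' false true) :=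
  posD_of_check0 (c := ⟨426, ⟨3, 8, 15, 11⟩⟩) (by decide +kernel)

def tA3_c3mh01 : PosD ⟨⟨0, 1, 1⟩, ⟨98, 99, 147⟩, ⟨0, 301, 10000⟩, ⟨1342, 1800, 1000⟩⟩ (tA3.hC3m' false true) :=
  posD_of_check0 (c := ⟨426, ⟨3, 8, 15, 11⟩⟩) (by decide +kernel)

def tA3_up01 : PosD ⟨⟨0, 1, 1⟩, ⟨98, 99, 147⟩, ⟨0, 301, 10000⟩, ⟨1342, 1800, 1000⟩⟩ (tA3.hUp false true) :=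
  posD_of_check0 (c := ⟨425, ⟨3, 8, 15, 11⟩⟩) (by decide +kernel)

def tA3_um01 : PosD ⟨⟨0, 1, 1⟩, ⟨98, 99, 147⟩, ⟨0, 301, 10000⟩, ⟨1342, 1800, 1000⟩⟩ (tA3.hUm false true) :=
  posD_of_check0 (c := ⟨425, ⟨3, 8, 15, 11⟩⟩) (by decide +kernel)

def tA3_tmg01 : PosD ⟨⟨0, 1, 1⟩, ⟨98, 99, 147⟩, ⟨0, 301, 10000⟩, ⟨1342, 1800, 1000⟩⟩ (tA3.hTMG true (tA3.pEnd false)) :=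
  posD_of_check0 (c := ⟨385, ⟨2, 7, 14, 10⟩⟩) (by decide +kernel)

def tA3_kap1 : PosD ⟨⟨0, 1, 1⟩, ⟨98, 99, 147⟩, ⟨0, 301, 10000⟩, ⟨1342, 1800, 1000⟩⟩ (tA3.kap true) :=
  posD_of_check0 (c := ⟨64, ⟨1, 1, 2, 2⟩⟩) (by decide +kernel)

def tA3_c11 : PosD ⟨⟨0, 1, 1⟩, ⟨98, 99, 147⟩, ⟨0, 301, 10000⟩, ⟨1342, 1800, 1000⟩⟩ (tA3.hC1 true) :=
  posD_of_check0 (c := ⟨262, ⟨3, 5, 9, 7⟩⟩) (by decide +kernel)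

def tA3_c1h1 : PosD ⟨⟨0, 1, 1⟩, ⟨98, 99, 147⟩, ⟨0, 301, 10000⟩, ⟨1342, 1800, 1000⟩⟩ (tA3.hC1' true) :=
  posD_of_check0 (c := ⟨262, ⟨3, 5, 9, 7⟩⟩) (by decide +kernel)

def tA3_tg10 : PosD ⟨⟨0, 1, 1⟩, ⟨98, 99, 147⟩, ⟨0, 301, 10000⟩, ⟨1342, 1800, 1000⟩⟩ (tA3.hG false (tA3.pEnd true)) :=
  posD_of_check0 (c := ⟨371, ⟨2, 7, 14, 9⟩⟩) (by decide +kernel)

def tA3_c2p10 : PosD ⟨⟨0, 1, 1⟩, ⟨98, 99, 147⟩, ⟨0, 301, 10000⟩, ⟨1342, 1800, 1000⟩⟩ (tA3.hC2p false (tA3.pEnd true)) :=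
  posD_of_check0 (c := ⟨434, ⟨3, 8, 16, 11⟩⟩) (by decide +kernel)

def tA3_c2m10 : PosD ⟨⟨0, 1, 1⟩, ⟨98, 99, 147⟩, ⟨0, 301, 10000⟩, ⟨1342, 1800, 1000⟩⟩ (tA3.hC2m false (tA3.pEnd true)) :=
  posD_of_check0 (c := ⟨434, ⟨3, 8, 16, 11⟩⟩) (by decide +kernel)

def tA3_c3p10 : PosD ⟨⟨0, 1, 1⟩, ⟨98, 99, 147⟩, ⟨0, 301, 10000⟩, ⟨1342, 1800, 1000⟩⟩ (tA3.hC3p true false) :=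
  posD_of_check0 (c := ⟨426, ⟨3, 8, 15, 11⟩⟩) (by decide +kernel)

def tA3_c3m10 : PosD ⟨⟨0, 1, 1⟩, ⟨98, 99, 147⟩, ⟨0, 301, 10000⟩, ⟨1342, 1800, 1000⟩⟩ (tA3.hC3m true false) :=
  posD_of_check0 (c := ⟨426, ⟨3, 8, 15, 11⟩⟩) (by decide +kernel)

def tA3_c3ph10 : PosD ⟨⟨0, 1, 1⟩, ⟨98, 99, 147⟩, ⟨0, 301, 10000⟩, ⟨1342, 1800, 1000⟩⟩ (tA3.hC3p' true false) :=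
  posD_of_check0 (c := ⟨426, ⟨3, 8, 15, 11⟩⟩) (by decide +kernel)

def tA3_c3mh10 : PosD ⟨⟨0, 1, 1⟩, ⟨98, 99, 147⟩, ⟨0, 301, 10000⟩, ⟨1342, 1800, 1000⟩⟩ (tA3.hC3m' true false) :=
  posD_of_check0 (c := ⟨426, ⟨3, 8, 15, 11⟩⟩) (by decide +kernel)

def tA3_up10 : PosD ⟨⟨0, 1, 1⟩, ⟨98, 99, 147⟩, ⟨0, 301, 10000⟩, ⟨1342, 1800, 1000⟩⟩ (tA3.hUp true false) :=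
  posD_of_check0 (c := ⟨426, ⟨3, 8, 15, 11⟩⟩) (by decide +kernel)

def tA3_um10 : PosD ⟨⟨0, 1, 1⟩, ⟨98, 99, 147⟩, ⟨0, 301, 10000⟩, ⟨1342, 1800, 1000⟩⟩ (tA3.hUm true false) :=
  posD_of_check0 (c := ⟨426, ⟨3, 8, 15, 11⟩⟩) (by decide +kernel)

def tA3_tmg10 : PosD ⟨⟨0, 1, 1⟩, ⟨98, 99, 147⟩, ⟨0, 301, 10000⟩, ⟨1342, 1800, 1000⟩⟩ (tA3.hTMG false (tA3.pEnd true)) :=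
  posD_of_check0 (c := ⟨385, ⟨2, 7, 14, 10⟩⟩) (by decide +kernel)

def tA3_tg11 : PosD ⟨⟨0, 1, 1⟩, ⟨98, 99, 147⟩, ⟨0, 301, 10000⟩, ⟨1342, 1800, 1000⟩⟩ (tA3.hG true (tA3.pEnd true)) :=
  posD_of_check0 (c := ⟨371, ⟨2, 7, 14, 9⟩⟩) (by decide +kernel)

def tA3_c2p11 : PosD ⟨⟨0, 1, 1⟩, ⟨98, 99, 147⟩, ⟨0, 301, 10000⟩, ⟨1342, 1800, 1000⟩⟩ (tA3.hC2p true (tA3.pEnd true)) :=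
  posD_of_check0 (c := ⟨434, ⟨3, 8, 16, 11⟩⟩) (by decide +kernel)

def tA3_c2m11 : PosD ⟨⟨0, 1, 1⟩, ⟨98, 99, 147⟩, ⟨0, 301, 10000⟩, ⟨1342, 1800, 1000⟩⟩ (tA3.hC2m true (tA3.pEnd true)) :=
  posD_of_check0 (c := ⟨434, ⟨3, 8, 16, 11⟩⟩) (by decide +kernel)

def tA3_c3p11 : PosD ⟨⟨0, 1, 1⟩, ⟨98, 99, 147⟩, ⟨0, 301, 10000⟩, ⟨1342, 1800, 1000⟩⟩ (tA3.hC3p true true) :=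
  posD_of_check0 (c := ⟨426, ⟨3, 8, 15, 11⟩⟩) (by decide +kernel)

def tA3_c3m11 : PosD ⟨⟨0, 1, 1⟩, ⟨98, 99, 147⟩, ⟨0, 301, 10000⟩, ⟨1342, 1800, 1000⟩⟩ (tA3.hC3m true true) :=
  posD_of_check0 (c := ⟨426, ⟨3, 8, 15, 11⟩⟩) (by decide +kernel)

def tA3_c3ph11 : PosD ⟨⟨0, 1, 1⟩, ⟨98, 99, 147⟩, ⟨0, 301, 10000⟩, ⟨1342, 1800, 1000⟩⟩ (tA3.hC3p' true true) :=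
  posD_of_check0 (c := ⟨426, ⟨3, 8, 15, 11⟩⟩) (by decide +kernel)

def tA3_c3mh11 : PosD ⟨⟨0, 1, 1⟩, ⟨98, 99, 147⟩, ⟨0, 301, 10000⟩, ⟨1342, 1800, 1000⟩⟩ (tA3.hC3m' true true) :=
  posD_of_check0 (c := ⟨426, ⟨3, 8, 15, 11⟩⟩) (by decide +kernel)

def tA3_up11 : PosD ⟨⟨0, 1, 1⟩, ⟨98, 99, 147⟩, ⟨0, 301, 10000⟩, ⟨1342, 1800, 1000⟩⟩ (tA3.hUp true true) :=
  posD_of_check0 (c := ⟨426, ⟨3, 8, 15, 11⟩⟩) (by decide +kernel)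

def tA3_um11 : PosD ⟨⟨0, 1, 1⟩, ⟨98, 99, 147⟩, ⟨0, 301, 10000⟩, ⟨1342, 1800, 1000⟩⟩ (tA3.hUm true true) :=
  posD_of_check0 (c := ⟨426, ⟨3, 8, 15, 11⟩⟩) (by decide +kernel)

def tA3_tmg11 : PosD ⟨⟨0, 1, 1⟩, ⟨98, 99, 147⟩, ⟨0, 301, 10000⟩, ⟨1342, 1800, 1000⟩⟩ (tA3.hTMG true (tA3.pEnd true)) :=
  posD_of_check0 (c := ⟨385, ⟨2, 7, 14, 10⟩⟩) (by decide +kernel)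

/-- The signs of the piece. -/
def tA3_sign : tA3.Sign ⟨⟨0, 1, 1⟩, ⟨98, 99, 147⟩, ⟨0, 301, 10000⟩, ⟨1342, 1800, 1000⟩⟩ :=
  ⟨tA3_pp,
    tA3_k2p,
    tA3_k2m,
    Bool.forall_bool.2 ⟨(Bool.forall_bool.2 ⟨tA3_tg00, tA3_tg01⟩), (Bool.forall_bool.2 ⟨tA3_tg10, tA3_tg11⟩)⟩,
    Bool.forall_bool.2 ⟨(Bool.forall_bool.2 ⟨tA3_c2p00, tA3_c2p01⟩), (Bool.forall_bool.2 ⟨tA3_c2p10, tA3_c2p11⟩)⟩,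
    Bool.forall_bool.2 ⟨(Bool.forall_bool.2 ⟨tA3_c2m00, tA3_c2m01⟩), (Bool.forall_bool.2 ⟨tA3_c2m10, tA3_c2m11⟩)⟩,
    Bool.forall_bool.2 ⟨tA3_kap0, tA3_kap1⟩,
    Bool.forall_bool.2 ⟨tA3_c10, tA3_c11⟩,
    Bool.forall_bool.2 ⟨(Bool.forall_bool.2 ⟨tA3_c3p00, tA3_c3p01⟩), (Bool.forall_bool.2 ⟨tA3_c3p10, tA3_c3p11⟩)⟩,
    Bool.forall_bool.2 ⟨(Bool.forall_bool.2 ⟨tA3_c3m00, tA3_c3m01⟩), (Bool.forall_bool.2 ⟨tA3_c3m10, tA3_c3m11⟩)⟩,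
    Bool.forall_bool.2 ⟨(Bool.forall_bool.2 ⟨tA3_tmg00, tA3_tmg01⟩), (Bool.forall_bool.2 ⟨tA3_tmg10, tA3_tmg11⟩)⟩,
    .inr (Bool.forall_bool.2 ⟨⟨tA3_c1h0, Bool.forall_bool.2 ⟨⟨tA3_c3ph00, tA3_c3mh00, tA3_up00, tA3_um00⟩, ⟨tA3_c3ph01, tA3_c3mh01, tA3_up01, tA3_um01⟩⟩⟩, ⟨tA3_c1h1, Bool.forall_bool.2 ⟨⟨tA3_c3ph10, tA3_c3mh10, tA3_up10, tA3_um10⟩, ⟨tA3_c3ph11, tA3_c3mh11, tA3_up11, tA3_um11⟩⟩⟩⟩),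
    tA3_v2p,
    tA3_v2m,
    tA3_v3p,
    tA3_v3m,
    posD_sub (b := ⟨⟨0, 1, 1⟩, ⟨98, 99, 147⟩, ⟨0, 301, 10000⟩, ⟨290, 4000, 1000⟩⟩) (by decide +kernel) tA_vG,
    posD_sub (b := ⟨⟨0, 1, 1⟩, ⟨98, 99, 147⟩, ⟨0, 301, 10000⟩, ⟨290, 4000, 1000⟩⟩) (by decide +kernel) tA_vMG,
    posD_sub (b := ⟨⟨0, 1, 1⟩, ⟨98, 99, 147⟩, ⟨0, 301, 10000⟩, ⟨290, 4000, 1000⟩⟩) (by decide +kernel) tA_ak,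
    posD_sub (b := ⟨⟨0, 1, 1⟩, ⟨98, 99, 147⟩, ⟨0, 301, 10000⟩, ⟨290, 4000, 1000⟩⟩) (by decide +kernel) tA_aw,
    posD_sub (b := ⟨⟨0, 1, 1⟩, ⟨98, 99, 147⟩, ⟨0, 301, 10000⟩, ⟨290, 4000, 1000⟩⟩) (by decide +kernel) tA_gk,
    posD_sub (b := ⟨⟨0, 1, 1⟩, ⟨98, 99, 147⟩, ⟨0, 301, 10000⟩, ⟨290, 4000, 1000⟩⟩) (by decide +kernel) tA_gw,
    posD_sub (b := ⟨⟨0, 1, 1⟩, ⟨98, 99, 147⟩, ⟨0, 301, 10000⟩, ⟨290, 4000, 1000⟩⟩) (by decide +kernel) tA_ek,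
    posD_sub (b := ⟨⟨0, 1, 1⟩, ⟨98, 99, 147⟩, ⟨0, 301, 10000⟩, ⟨290, 4000, 1000⟩⟩) (by decide +kernel) tA_ew⟩

end Vale.Agent.P100.Calib.Closed.Six.Tail
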