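import Vale.Agent.P100.Calib.SlabSixTailDataA
import Vale.Agent.P100.Calib.SlabSixTailGlobA

/-!
# Checks of some pieces of the certificate

The checks are written as definitions so that they run one after another, which keeps the memory of the
kernel low.
-/

set_option linter.defProp false

namespace Vale.Agent.P100.Calib.Closed.Six.Tail

open BoxPos Large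

local instance sixTailCheckstA4Add : Add Ex := ⟨Ex.add⟩
local instance sixTailCheckstA4Sub : Sub Ex := ⟨Ex.sub⟩
local instance sixTailCheckstA4Mul : Mul Ex := ⟨Ex.mul⟩

def tA4_phx : PosIf ⟨⟨0, 1, 1⟩, ⟨98, 99, 147⟩, ⟨0, 150, 10000⟩, ⟨1800, 2683, 1000⟩⟩ (tA4.u₁ - tA4Lo) (phAn (tA4.u₁ + xO * (tA4Lo - tA4.u₁))) :=
  posIf_of_posD (posD_of_check0 (c := ⟨100, ⟨2, 0, 4, 2⟩⟩) (by decide +kernel))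

def tA4_phd : PosD ⟨⟨0, 1, 1⟩, ⟨98, 99, 147⟩, ⟨0, 150, 10000⟩, ⟨1800, 2683, 1000⟩⟩ (phAd (tA4.u₁ + xO * (tA4Lo - tA4.u₁))) :=
  posD_of_check0 (c := ⟨48, ⟨1, 0, 2, 1⟩⟩) (by decide +kernel)

def tA4_p0 : PosD ⟨⟨0, 1, 1⟩, ⟨98, 99, 147⟩, ⟨0, 150, 10000⟩, ⟨1800, 2683, 1000⟩⟩ (tA4.hP0) :=
  posD_of_check0 (c := ⟨82, ⟨0, 2, 3, 1⟩⟩) (by decide +kernel)

def tA4_gn : PosD ⟨⟨0, 1, 1⟩, ⟨98, 99, 147⟩, ⟨0, 150, 10000⟩, ⟨1800, 2683, 1000⟩⟩ (tA4.hGn) :=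
  posD_of_check0 (c := ⟨65, ⟨1, 1, 2, 2⟩⟩) (by decide +kernel)

def tA4_den0 : PosD ⟨⟨0, 1, 1⟩, ⟨98, 99, 147⟩, ⟨0, 150, 10000⟩, ⟨1800, 2683, 1000⟩⟩ (tA4.hDen false) :=
  posD_of_check0 (c := ⟨48, ⟨1, 0, 2, 1⟩⟩) (by decide +kernel)

def tA4_den1 : PosD ⟨⟨0, 1, 1⟩, ⟨98, 99, 147⟩, ⟨0, 150, 10000⟩, ⟨1800, 2683, 1000⟩⟩ (tA4.hDen true) :=
  posD_of_check0 (c := ⟨48, ⟨1, 0, 2, 1⟩⟩) (by decide +kernel)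

def tA4_ev0 : PosD ⟨⟨0, 1, 1⟩, ⟨98, 99, 147⟩, ⟨0, 150, 10000⟩, ⟨1800, 2683, 1000⟩⟩ (tA4.hEv false) :=
  posD_of_check0 (c := ⟨203, ⟨4, 2, 8, 4⟩⟩) (by decide +kernel)

def tA4_zL0 : PosD ⟨⟨0, 1, 1⟩, ⟨98, 99, 147⟩, ⟨0, 150, 10000⟩, ⟨1800, 2683, 1000⟩⟩ (tA4.hZL false) :=
  posD_of_check0 (c := ⟨206, ⟨4, 3, 8, 4⟩⟩) (by decide +kernel)

def tA4_zU0a : PosD ⟨⟨0, 1, 1⟩, ⟨98, 99, 147⟩, ⟨0, 150, 10000⟩, ⟨1800, 2241, 1000⟩⟩ (tA4.hZU false) :=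
  posD_of_check0 (c := ⟨206, ⟨4, 3, 8, 4⟩⟩) (by decide +kernel)

def tA4_zU0b : PosD ⟨⟨0, 1, 1⟩, ⟨98, 99, 147⟩, ⟨0, 150, 10000⟩, ⟨2241, 2683, 1000⟩⟩ (tA4.hZU false) :=
  posD_of_check0 (c := ⟨206, ⟨4, 3, 8, 4⟩⟩) (by decide +kernel)

def tA4_zU0 : PosD ⟨⟨0, 1, 1⟩, ⟨98, 99, 147⟩, ⟨0, 150, 10000⟩, ⟨1800, 2683, 1000⟩⟩ (tA4.hZU false) :=
  posD_join₃ tA4_zU0a tA4_zU0b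

def tA4_eL0 : PosD ⟨⟨0, 1, 1⟩, ⟨98, 99, 147⟩, ⟨0, 150, 10000⟩, ⟨1800, 2683, 1000⟩⟩ (tA4.hEL false) :=
  posD_of_check0 (c := ⟨295, ⟨5, 6, 11, 6⟩⟩) (by decide +kernel)

def tA4_eH0 : PosD ⟨⟨0, 1, 1⟩, ⟨98, 99, 147⟩, ⟨0, 150, 10000⟩, ⟨1800, 2683, 1000⟩⟩ (tA4.hEH false) :=
  posD_of_check0 (c := ⟨295, ⟨5, 6, 11, 6⟩⟩) (by decide +kernel)

def tA4_pL0 : PosD ⟨⟨0, 1, 1⟩, ⟨98, 99, 147⟩, ⟨0, 150, 10000⟩, ⟨1800, 2683, 1000⟩⟩ (tA4.hPL false) :=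
  posD_of_check0 (c := ⟨321, ⟨5, 6, 11, 7⟩⟩) (by decide +kernel)

def tA4_pU0 : PosD ⟨⟨0, 1, 1⟩, ⟨98, 99, 147⟩, ⟨0, 150, 10000⟩, ⟨1800, 2683, 1000⟩⟩ (tA4.hPU false) :=
  posD_of_check0 (c := ⟨321, ⟨5, 6, 11, 7⟩⟩) (by decide +kernel)

def tA4_kU0a : PosD ⟨⟨0, 1, 1⟩, ⟨98, 99, 147⟩, ⟨0, 150, 10000⟩, ⟨1800, 2241, 1000⟩⟩ (tA4.hKU false) :=
  posD_of_check0 (c := ⟨316, ⟨5, 6, 11, 7⟩⟩) (by decide +kernel)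

def tA4_kU0b : PosD ⟨⟨0, 1, 1⟩, ⟨98, 99, 147⟩, ⟨0, 150, 10000⟩, ⟨2241, 2683, 1000⟩⟩ (tA4.hKU false) :=
  posD_of_check0 (c := ⟨316, ⟨5, 6, 11, 7⟩⟩) (by decide +kernel)

def tA4_kU0 : PosD ⟨⟨0, 1, 1⟩, ⟨98, 99, 147⟩, ⟨0, 150, 10000⟩, ⟨1800, 2683, 1000⟩⟩ (tA4.hKU false) :=
  posD_join₃ tA4_kU0a tA4_kU0b

def tA4_kL0 : PosD ⟨⟨0, 1, 1⟩, ⟨98, 99, 147⟩, ⟨0, 150, 10000⟩, ⟨1800, 2683, 1000⟩⟩ (tA4.hKL false) :=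
  posD_of_check0 (c := ⟨316, ⟨5, 6, 11, 7⟩⟩) (by decide +kernel)

def tA4_wU0 : PosD ⟨⟨0, 1, 1⟩, ⟨98, 99, 147⟩, ⟨0, 150, 10000⟩, ⟨1800, 2683, 1000⟩⟩ (tA4.hWU false) :=
  posD_of_check0 (c := ⟨352, ⟨5, 8, 12, 7⟩⟩) (by decide +kernel)

def tA4_wL0 : PosD ⟨⟨0, 1, 1⟩, ⟨98, 99, 147⟩, ⟨0, 150, 10000⟩, ⟨1800, 2683, 1000⟩⟩ (tA4.hWL false) :=
  posD_of_check0 (c := ⟨352, ⟨5, 8, 12, 7⟩⟩) (by decide +kernel)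

def tA4_ev1 : PosD ⟨⟨0, 1, 1⟩, ⟨98, 99, 147⟩, ⟨0, 150, 10000⟩, ⟨1800, 2683, 1000⟩⟩ (tA4.hEv true) :=
  posD_of_check0 (c := ⟨203, ⟨4, 2, 8, 4⟩⟩) (by decide +kernel)

def tA4_zL1 : PosD ⟨⟨0, 1, 1⟩, ⟨98, 99, 147⟩, ⟨0, 150, 10000⟩, ⟨1800, 2683, 1000⟩⟩ (tA4.hZL true) :=
  posD_of_check0 (c := ⟨206, ⟨4, 3, 8, 4⟩⟩) (by decide +kernel)

def tA4_zU1 : PosD ⟨⟨0, 1, 1⟩, ⟨98, 99, 147⟩, ⟨0, 150, 10000⟩, ⟨1800, 2683, 1000⟩⟩ (tA4.hZU true) :=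
  posD_of_check0 (c := ⟨206, ⟨4, 3, 8, 4⟩⟩) (by decide +kernel)

def tA4_eL1a : PosD ⟨⟨0, 1, 1⟩, ⟨98, 99, 147⟩, ⟨0, 150, 10000⟩, ⟨1800, 2241, 1000⟩⟩ (tA4.hEL true) :=
  posD_of_check0 (c := ⟨295, ⟨5, 6, 11, 6⟩⟩) (by decide +kernel)

def tA4_eL1b : PosD ⟨⟨0, 1, 1⟩, ⟨98, 99, 147⟩, ⟨0, 150, 10000⟩, ⟨2241, 2683, 1000⟩⟩ (tA4.hEL true) :=
  posD_of_check0 (c := ⟨295, ⟨5, 6, 11, 6⟩⟩) (by decide +kernel)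

def tA4_eL1 : PosD ⟨⟨0, 1, 1⟩, ⟨98, 99, 147⟩, ⟨0, 150, 10000⟩, ⟨1800, 2683, 1000⟩⟩ (tA4.hEL true) :=
  posD_join₃ tA4_eL1a tA4_eL1b

def tA4_eH1 : PosD ⟨⟨0, 1, 1⟩, ⟨98, 99, 147⟩, ⟨0, 150, 10000⟩, ⟨1800, 2683, 1000⟩⟩ (tA4.hEH true) :=
  posD_of_check0 (c := ⟨295, ⟨5, 6, 11, 6⟩⟩) (by decide +kernel)

def tA4_pL1 : PosD ⟨⟨0, 1, 1⟩, ⟨98, 99, 147⟩, ⟨0, 150, 10000⟩, ⟨1800, 2683, 1000⟩⟩ (tA4.hPL true) :=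
  posD_of_check0 (c := ⟨321, ⟨5, 6, 11, 7⟩⟩) (by decide +kernel)

def tA4_pU1aa : PosD ⟨⟨0, 1, 2⟩, ⟨98, 99, 147⟩, ⟨0, 150, 10000⟩, ⟨1800, 2241, 1000⟩⟩ (tA4.hPU true) :=
  posD_of_check0 (c := ⟨325, ⟨5, 6, 11, 7⟩⟩) (by decide +kernel)

def tA4_pU1ab : PosD ⟨⟨0, 1, 2⟩, ⟨98, 99, 147⟩, ⟨0, 150, 10000⟩, ⟨2241, 2683, 1000⟩⟩ (tA4.hPU true) :=
  posD_of_check0 (c := ⟨325, ⟨5, 6, 11, 7⟩⟩) (by decide +kernel)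

def tA4_pU1a : PosD ⟨⟨0, 1, 2⟩, ⟨98, 99, 147⟩, ⟨0, 150, 10000⟩, ⟨1800, 2683, 1000⟩⟩ (tA4.hPU true) :=
  posD_join₃ tA4_pU1aa tA4_pU1ab

def tA4_pU1b : PosD ⟨⟨1, 2, 2⟩, ⟨98, 99, 147⟩, ⟨0, 150, 10000⟩, ⟨1800, 2683, 1000⟩⟩ (tA4.hPU true) :=
  posD_of_check0 (c := ⟨327, ⟨5, 6, 11, 7⟩⟩) (by decide +kernel)

def tA4_pU1 : PosD ⟨⟨0, 1, 1⟩, ⟨98, 99, 147⟩, ⟨0, 150, 10000⟩, ⟨1800, 2683, 1000⟩⟩ (tA4.hPU true) :=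
  posD_units (b := ⟨⟨0, 2, 2⟩, ⟨98, 99, 147⟩, ⟨0, 150, 10000⟩, ⟨1800, 2683, 1000⟩⟩) (by decide +kernel) (posD_join₀ tA4_pU1a tA4_pU1b)

def tA4_kU1a : PosD ⟨⟨0, 1, 1⟩, ⟨98, 99, 147⟩, ⟨0, 150, 10000⟩, ⟨1800, 2241, 1000⟩⟩ (tA4.hKU true) :=
  posD_of_check0 (c := ⟨316, ⟨5, 6, 11, 7⟩⟩) (by decide +kernel)

def tA4_kU1b : PosD ⟨⟨0, 1, 1⟩, ⟨98, 99, 147⟩, ⟨0, 150, 10000⟩, ⟨2241, 2683, 1000⟩⟩ (tA4.hKU true) :=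
  posD_of_check0 (c := ⟨316, ⟨5, 6, 11, 7⟩⟩) (by decide +kernel)

def tA4_kU1 : PosD ⟨⟨0, 1, 1⟩, ⟨98, 99, 147⟩, ⟨0, 150, 10000⟩, ⟨1800, 2683, 1000⟩⟩ (tA4.hKU true) :=
  posD_join₃ tA4_kU1a tA4_kU1b

def tA4_kL1a : PosD ⟨⟨0, 1, 1⟩, ⟨98, 99, 147⟩, ⟨0, 150, 10000⟩, ⟨1800, 2241, 1000⟩⟩ (tA4.hKL true) :=
  posD_of_check0 (c := ⟨316, ⟨5, 6, 11, 7⟩⟩) (by decide +kernel)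

def tA4_kL1b : PosD ⟨⟨0, 1, 1⟩, ⟨98, 99, 147⟩, ⟨0, 150, 10000⟩, ⟨2241, 2683, 1000⟩⟩ (tA4.hKL true) :=
  posD_of_check0 (c := ⟨316, ⟨5, 6, 11, 7⟩⟩) (by decide +kernel)

def tA4_kL1 : PosD ⟨⟨0, 1, 1⟩, ⟨98, 99, 147⟩, ⟨0, 150, 10000⟩, ⟨1800, 2683, 1000⟩⟩ (tA4.hKL true) :=
  posD_join₃ tA4_kL1a tA4_kL1b

def tA4_wU1 : PosD ⟨⟨0, 1, 1⟩, ⟨98, 99, 147⟩, ⟨0, 150, 10000⟩, ⟨1800, 2683, 1000⟩⟩ (tA4.hWU true) :=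
  posD_of_check0 (c := ⟨352, ⟨5, 8, 12, 7⟩⟩) (by decide +kernel)

def tA4_wL1 : PosD ⟨⟨0, 1, 1⟩, ⟨98, 99, 147⟩, ⟨0, 150, 10000⟩, ⟨1800, 2683, 1000⟩⟩ (tA4.hWL true) :=
  posD_of_check0 (c := ⟨352, ⟨5, 8, 12, 7⟩⟩) (by decide +kernel)

/-- The bounds of the piece. -/
def tA4_env : tA4.Env ⟨⟨0, 1, 1⟩, ⟨98, 99, 147⟩, ⟨0, 150, 10000⟩, ⟨1800, 2683, 1000⟩⟩ :=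
  ⟨tA4_p0, Bool.forall_bool.2 ⟨tA4_den0, tA4_den1⟩, tA4_gn, Bool.forall_bool.2 ⟨tA4_ev0, tA4_ev1⟩, Bool.forall_bool.2 ⟨tA4_zL0, tA4_zL1⟩, Bool.forall_bool.2 ⟨tA4_zU0, tA4_zU1⟩, Bool.forall_bool.2 ⟨tA4_eL0, tA4_eL1⟩, ⟨.inr rfl, .inr rfl⟩, Bool.forall_bool.2 ⟨tA4_eH0, tA4_eH1⟩, ⟨.inr rfl, .inr rfl⟩, Bool.forall_bool.2 ⟨tA4_pL0, tA4_pL1⟩, ⟨.inr rfl, .inr rfl⟩, Bool.forall_bool.2 ⟨tA4_pU0, tA4_pU1⟩, ⟨.inr rfl, .inr rfl⟩, Bool.forall_bool.2 ⟨tA4_kU0, tA4_kU1⟩, ⟨.inr rfl, .inr rfl⟩, Bool.forall_bool.2 ⟨tA4_kL0, tA4_kL1⟩, ⟨.inr rfl, .inr rfl⟩, Bool.forall_bool.2 ⟨tA4_wU0, tA4_wU1⟩, ⟨.inr rfl, .inr rfl⟩, Bool.forall_bool.2 ⟨tA4_wL0, tA4_wL1⟩, ⟨.inr rfl, .inr rfl⟩⟩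

def tA4_pp : PosD ⟨⟨0, 1, 1⟩, ⟨98, 99, 147⟩, ⟨0, 150, 10000⟩, ⟨1800, 2683, 1000⟩⟩ (tA4.xPL) :=
  posD_of_check0 (c := ⟨90, ⟨1, 1, 3, 3⟩⟩) (by decide +kernel)

def tA4_k2p : PosD ⟨⟨0, 1, 1⟩, ⟨98, 99, 147⟩, ⟨0, 150, 10000⟩, ⟨1800, 2683, 1000⟩⟩ (tA4.k2p tA4.xE) :=
  posD_of_check0 (c := ⟨61, ⟨1, 1, 2, 2⟩⟩) (by decide +kernel)

def tA4_k2m : PosD ⟨⟨0, 1, 1⟩, ⟨98, 99, 147⟩, ⟨0, 150, 10000⟩, ⟨1800, 2683, 1000⟩⟩ (tA4.k2m tA4.xE) :=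
  posD_of_check0 (c := ⟨20, ⟨0, 0, 1, 0⟩⟩) (by decide +kernel)

def tA4_v2p : PosD ⟨⟨0, 1, 1⟩, ⟨98, 99, 147⟩, ⟨0, 150, 10000⟩, ⟨1800, 2683, 1000⟩⟩ (tA4.hV2p) :=
  posD_of_check0 (c := ⟨253, ⟨1, 6, 10, 5⟩⟩) (by decide +kernel)

def tA4_v2m : PosD ⟨⟨0, 1, 1⟩, ⟨98, 99, 147⟩, ⟨0, 150, 10000⟩, ⟨1800, 2683, 1000⟩⟩ (tA4.hV2m) :=
  posD_of_check0 (c := ⟨224, ⟨0, 5, 10, 4⟩⟩) (by decide +kernel)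

def tA4_v3p : PosD ⟨⟨0, 1, 1⟩, ⟨98, 99, 147⟩, ⟨0, 150, 10000⟩, ⟨1800, 2683, 1000⟩⟩ (tA4.hV3p) :=
  posD_of_check0 (c := ⟨246, ⟨1, 6, 9, 5⟩⟩) (by decide +kernel)

def tA4_v3m : PosD ⟨⟨0, 1, 1⟩, ⟨98, 99, 147⟩, ⟨0, 150, 10000⟩, ⟨1800, 2683, 1000⟩⟩ (tA4.hV3m) :=
  posD_of_check0 (c := ⟨220, ⟨0, 5, 9, 4⟩⟩) (by decide +kernel)

def tA4_kap0 : PosD ⟨⟨0, 1, 1⟩, ⟨98, 99, 147⟩, ⟨0, 150, 10000⟩, ⟨1800, 2683, 1000⟩⟩ (tA4.kap false) :=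
  posD_of_check0 (c := ⟨66, ⟨1, 1, 2, 2⟩⟩) (by decide +kernel)

def tA4_c10 : PosD ⟨⟨0, 1, 1⟩, ⟨98, 99, 147⟩, ⟨0, 150, 10000⟩, ⟨1800, 2683, 1000⟩⟩ (tA4.hC1 false) :=
  posD_of_check0 (c := ⟨261, ⟨3, 5, 9, 7⟩⟩) (by decide +kernel)

def tA4_c1h0 : PosD ⟨⟨0, 1, 1⟩, ⟨98, 99, 147⟩, ⟨0, 150, 10000⟩, ⟨1800, 2683, 1000⟩⟩ (tA4.hC1' false) :=
  posD_of_check0 (c := ⟨261, ⟨3, 5, 9, 7⟩⟩) (by decide +kernel)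

def tA4_tg00 : PosD ⟨⟨0, 1, 1⟩, ⟨98, 99, 147⟩, ⟨0, 150, 10000⟩, ⟨1800, 2683, 1000⟩⟩ (tA4.hG false (tA4.pEnd false)) :=
  posD_of_check0 (c := ⟨369, ⟨2, 7, 14, 9⟩⟩) (by decide +kernel)

def tA4_c2p00 : PosD ⟨⟨0, 1, 1⟩, ⟨98, 99, 147⟩, ⟨0, 150, 10000⟩, ⟨1800, 2683, 1000⟩⟩ (tA4.hC2p false (tA4.pEnd false)) :=
  posD_of_check0 (c := ⟨430, ⟨3, 8, 16, 11⟩⟩) (by decide +kernel)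

def tA4_c2m00 : PosD ⟨⟨0, 1, 1⟩, ⟨98, 99, 147⟩, ⟨0, 150, 10000⟩, ⟨1800, 2683, 1000⟩⟩ (tA4.hC2m false (tA4.pEnd false)) :=
  posD_of_check0 (c := ⟨400, ⟨2, 7, 16, 10⟩⟩) (by decide +kernel)

def tA4_c3p00 : PosD ⟨⟨0, 1, 1⟩, ⟨98, 99, 147⟩, ⟨0, 150, 10000⟩, ⟨1800, 2683, 1000⟩⟩ (tA4.hC3p false false) :=
  posD_of_check0 (c := ⟨426, ⟨3, 8, 15, 11⟩⟩) (by decide +kernel)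

def tA4_c3m00 : PosD ⟨⟨0, 1, 1⟩, ⟨98, 99, 147⟩, ⟨0, 150, 10000⟩, ⟨1800, 2683, 1000⟩⟩ (tA4.hC3m false false) :=
  posD_of_check0 (c := ⟨401, ⟨3, 7, 15, 10⟩⟩) (by decide +kernel)

def tA4_c3ph00 : PosD ⟨⟨0, 1, 1⟩, ⟨98, 99, 147⟩, ⟨0, 150, 10000⟩, ⟨1800, 2683, 1000⟩⟩ (tA4.hC3p' false false) :=
  posD_of_check0 (c := ⟨426, ⟨3, 8, 15, 11⟩⟩) (by decide +kernel)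

def tA4_c3mh00 : PosD ⟨⟨0, 1, 1⟩, ⟨98, 99, 147⟩, ⟨0, 150, 10000⟩, ⟨1800, 2683, 1000⟩⟩ (tA4.hC3m' false false) :=
  posD_of_check0 (c := ⟨401, ⟨3, 7, 15, 10⟩⟩) (by decide +kernel)

def tA4_up00 : PosD ⟨⟨0, 1, 1⟩, ⟨98, 99, 147⟩, ⟨0, 150, 10000⟩, ⟨1800, 2683, 1000⟩⟩ (tA4.hUp false false) :=
  posD_of_check0 (c := ⟨425, ⟨3, 8, 15, 11⟩⟩) (by decide +kernel)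

def tA4_um00 : PosD ⟨⟨0, 1, 1⟩, ⟨98, 99, 147⟩, ⟨0, 150, 10000⟩, ⟨1800, 2683, 1000⟩⟩ (tA4.hUm false false) :=
  posD_of_check0 (c := ⟨399, ⟨2, 7, 15, 10⟩⟩) (by decide +kernel)

def tA4_tmg00 : PosD ⟨⟨0, 1, 1⟩, ⟨98, 99, 147⟩, ⟨0, 150, 10000⟩, ⟨1800, 2683, 1000⟩⟩ (tA4.hTMG false (tA4.pEnd false)) :=
  posD_of_check0 (c := ⟨384, ⟨2, 7, 14, 10⟩⟩) (by decide +kernel)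

def tA4_tg01 : PosD ⟨⟨0, 1, 1⟩, ⟨98, 99, 147⟩, ⟨0, 150, 10000⟩, ⟨1800, 2683, 1000⟩⟩ (tA4.hG true (tA4.pEnd false)) :=
  posD_of_check0 (c := ⟨369, ⟨2, 7, 14, 9⟩⟩) (by decide +kernel)

def tA4_c2p01 : PosD ⟨⟨0, 1, 1⟩, ⟨98, 99, 147⟩, ⟨0, 150, 10000⟩, ⟨1800, 2683, 1000⟩⟩ (tA4.hC2p true (tA4.pEnd false)) :=
  posD_of_check0 (c := ⟨430, ⟨3, 8, 16, 11⟩⟩) (by decide +kernel)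

def tA4_c2m01 : PosD ⟨⟨0, 1, 1⟩, ⟨98, 99, 147⟩, ⟨0, 150, 10000⟩, ⟨1800, 2683, 1000⟩⟩ (tA4.hC2m true (tA4.pEnd false)) :=
  posD_of_check0 (c := ⟨400, ⟨2, 7, 16, 10⟩⟩) (by decide +kernel)

def tA4_c3p01 : PosD ⟨⟨0, 1, 1⟩, ⟨98, 99, 147⟩, ⟨0, 150, 10000⟩, ⟨1800, 2683, 1000⟩⟩ (tA4.hC3p false true) :=
  posD_of_check0 (c := ⟨426, ⟨3, 8, 15, 11⟩⟩) (by decide +kernel)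

def tA4_c3m01 : PosD ⟨⟨0, 1, 1⟩, ⟨98, 99, 147⟩, ⟨0, 150, 10000⟩, ⟨1800, 2683, 1000⟩⟩ (tA4.hC3m false true) :=
  posD_of_check0 (c := ⟨401, ⟨3, 7, 15, 10⟩⟩) (by decide +kernel)

def tA4_c3ph01 : PosD ⟨⟨0, 1, 1⟩, ⟨98, 99, 147⟩, ⟨0, 150, 10000⟩, ⟨1800, 2683, 1000⟩⟩ (tA4.hC3p' false true) :=
  posD_of_check0 (c := ⟨426, ⟨3, 8, 15, 11⟩⟩) (by decide +kernel)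

def tA4_c3mh01 : PosD ⟨⟨0, 1, 1⟩, ⟨98, 99, 147⟩, ⟨0, 150, 10000⟩, ⟨1800, 2683, 1000⟩⟩ (tA4.hC3m' false true) :=
  posD_of_check0 (c := ⟨401, ⟨3, 7, 15, 10⟩⟩) (by decide +kernel)

def tA4_up01 : PosD ⟨⟨0, 1, 1⟩, ⟨98, 99, 147⟩, ⟨0, 150, 10000⟩, ⟨1800, 2683, 1000⟩⟩ (tA4.hUp false true) :=
  posD_of_check0 (c := ⟨425, ⟨3, 8, 15, 11⟩⟩) (by decide +kernel)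

def tA4_um01 : PosD ⟨⟨0, 1, 1⟩, ⟨98, 99, 147⟩, ⟨0, 150, 10000⟩, ⟨1800, 2683, 1000⟩⟩ (tA4.hUm false true) :=
  posD_of_check0 (c := ⟨399, ⟨2, 7, 15, 10⟩⟩) (by decide +kernel)

def tA4_tmg01 : PosD ⟨⟨0, 1, 1⟩, ⟨98, 99, 147⟩, ⟨0, 150, 10000⟩, ⟨1800, 2683, 1000⟩⟩ (tA4.hTMG true (tA4.pEnd false)) :=
  posD_of_check0 (c := ⟨384, ⟨2, 7, 14, 10⟩⟩) (by decide +kernel)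

def tA4_kap1 : PosD ⟨⟨0, 1, 1⟩, ⟨98, 99, 147⟩, ⟨0, 150, 10000⟩, ⟨1800, 2683, 1000⟩⟩ (tA4.kap true) :=
  posD_of_check0 (c := ⟨70, ⟨1, 1, 2, 2⟩⟩) (by decide +kernel)

def tA4_c11 : PosD ⟨⟨0, 1, 1⟩, ⟨98, 99, 147⟩, ⟨0, 150, 10000⟩, ⟨1800, 2683, 1000⟩⟩ (tA4.hC1 true) :=
  posD_of_check0 (c := ⟨265, ⟨3, 5, 9, 7⟩⟩) (by decide +kernel)

def tA4_c1h1 : PosD ⟨⟨0, 1, 1⟩, ⟨98, 99, 147⟩, ⟨0, 150, 10000⟩, ⟨1800, 2683, 1000⟩⟩ (tA4.hC1' true) :=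
  posD_of_check0 (c := ⟨265, ⟨3, 5, 9, 7⟩⟩) (by decide +kernel)

def tA4_tg10 : PosD ⟨⟨0, 1, 1⟩, ⟨98, 99, 147⟩, ⟨0, 150, 10000⟩, ⟨1800, 2683, 1000⟩⟩ (tA4.hG false (tA4.pEnd true)) :=
  posD_of_check0 (c := ⟨370, ⟨2, 7, 14, 9⟩⟩) (by decide +kernel)

def tA4_c2p10 : PosD ⟨⟨0, 1, 1⟩, ⟨98, 99, 147⟩, ⟨0, 150, 10000⟩, ⟨1800, 2683, 1000⟩⟩ (tA4.hC2p false (tA4.pEnd true)) :=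
  posD_of_check0 (c := ⟨431, ⟨3, 8, 16, 11⟩⟩) (by decide +kernel)

def tA4_c2m10 : PosD ⟨⟨0, 1, 1⟩, ⟨98, 99, 147⟩, ⟨0, 150, 10000⟩, ⟨1800, 2683, 1000⟩⟩ (tA4.hC2m false (tA4.pEnd true)) :=
  posD_of_check0 (c := ⟨402, ⟨2, 7, 16, 10⟩⟩) (by decide +kernel)

def tA4_c3p10 : PosD ⟨⟨0, 1, 1⟩, ⟨98, 99, 147⟩, ⟨0, 150, 10000⟩, ⟨1800, 2683, 1000⟩⟩ (tA4.hC3p true false) :=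
  posD_of_check0 (c := ⟨429, ⟨3, 8, 15, 11⟩⟩) (by decide +kernel)

def tA4_c3m10 : PosD ⟨⟨0, 1, 1⟩, ⟨98, 99, 147⟩, ⟨0, 150, 10000⟩, ⟨1800, 2683, 1000⟩⟩ (tA4.hC3m true false) :=
  posD_of_check0 (c := ⟨405, ⟨3, 7, 15, 10⟩⟩) (by decide +kernel)

def tA4_c3ph10 : PosD ⟨⟨0, 1, 1⟩, ⟨98, 99, 147⟩, ⟨0, 150, 10000⟩, ⟨1800, 2683, 1000⟩⟩ (tA4.hC3p' true false) :=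
  posD_of_check0 (c := ⟨429, ⟨3, 8, 15, 11⟩⟩) (by decide +kernel)

def tA4_c3mh10 : PosD ⟨⟨0, 1, 1⟩, ⟨98, 99, 147⟩, ⟨0, 150, 10000⟩, ⟨1800, 2683, 1000⟩⟩ (tA4.hC3m' true false) :=
  posD_of_check0 (c := ⟨405, ⟨3, 7, 15, 10⟩⟩) (by decide +kernel)

def tA4_up10 : PosD ⟨⟨0, 1, 1⟩, ⟨98, 99, 147⟩, ⟨0, 150, 10000⟩, ⟨1800, 2683, 1000⟩⟩ (tA4.hUp true false) :=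
  posD_of_check0 (c := ⟨425, ⟨3, 8, 15, 11⟩⟩) (by decide +kernel)

def tA4_um10 : PosD ⟨⟨0, 1, 1⟩, ⟨98, 99, 147⟩, ⟨0, 150, 10000⟩, ⟨1800, 2683, 1000⟩⟩ (tA4.hUm true false) :=
  posD_of_check0 (c := ⟨399, ⟨2, 7, 15, 10⟩⟩) (by decide +kernel)

def tA4_tmg10 : PosD ⟨⟨0, 1, 1⟩, ⟨98, 99, 147⟩, ⟨0, 150, 10000⟩, ⟨1800, 2683, 1000⟩⟩ (tA4.hTMG false (tA4.pEnd true)) :=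
  posD_of_check0 (c := ⟨385, ⟨2, 7, 14, 10⟩⟩) (by decide +kernel)

def tA4_tg11 : PosD ⟨⟨0, 1, 1⟩, ⟨98, 99, 147⟩, ⟨0, 150, 10000⟩, ⟨1800, 2683, 1000⟩⟩ (tA4.hG true (tA4.pEnd true)) :=
  posD_of_check0 (c := ⟨370, ⟨2, 7, 14, 9⟩⟩) (by decide +kernel)

def tA4_c2p11 : PosD ⟨⟨0, 1, 1⟩, ⟨98, 99, 147⟩, ⟨0, 150, 10000⟩, ⟨1800, 2683, 1000⟩⟩ (tA4.hC2p true (tA4.pEnd true)) :=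
  posD_of_check0 (c := ⟨431, ⟨3, 8, 16, 11⟩⟩) (by decide +kernel)

def tA4_c2m11 : PosD ⟨⟨0, 1, 1⟩, ⟨98, 99, 147⟩, ⟨0, 150, 10000⟩, ⟨1800, 2683, 1000⟩⟩ (tA4.hC2m true (tA4.pEnd true)) :=
  posD_of_check0 (c := ⟨402, ⟨2, 7, 16, 10⟩⟩) (by decide +kernel)

def tA4_c3p11 : PosD ⟨⟨0, 1, 1⟩, ⟨98, 99, 147⟩, ⟨0, 150, 10000⟩, ⟨1800, 2683, 1000⟩⟩ (tA4.hC3p true true) :=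
  posD_of_check0 (c := ⟨429, ⟨3, 8, 15, 11⟩⟩) (by decide +kernel)

def tA4_c3m11 : PosD ⟨⟨0, 1, 1⟩, ⟨98, 99, 147⟩, ⟨0, 150, 10000⟩, ⟨1800, 2683, 1000⟩⟩ (tA4.hC3m true true) :=
  posD_of_check0 (c := ⟨405, ⟨3, 7, 15, 10⟩⟩) (by decide +kernel)

def tA4_c3ph11 : PosD ⟨⟨0, 1, 1⟩, ⟨98, 99, 147⟩, ⟨0, 150, 10000⟩, ⟨1800, 2683, 1000⟩⟩ (tA4.hC3p' true true) :=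
  posD_of_check0 (c := ⟨429, ⟨3, 8, 15, 11⟩⟩) (by decide +kernel)

def tA4_c3mh11 : PosD ⟨⟨0, 1, 1⟩, ⟨98, 99, 147⟩, ⟨0, 150, 10000⟩, ⟨1800, 2683, 1000⟩⟩ (tA4.hC3m' true true) :=
  posD_of_check0 (c := ⟨405, ⟨3, 7, 15, 10⟩⟩) (by decide +kernel)

def tA4_up11 : PosD ⟨⟨0, 1, 1⟩, ⟨98, 99, 147⟩, ⟨0, 150, 10000⟩, ⟨1800, 2683, 1000⟩⟩ (tA4.hUp true true) :=
  posD_of_check0 (c := ⟨425, ⟨3, 8, 15, 11⟩⟩) (by decide +kernel)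

def tA4_um11 : PosD ⟨⟨0, 1, 1⟩, ⟨98, 99, 147⟩, ⟨0, 150, 10000⟩, ⟨1800, 2683, 1000⟩⟩ (tA4.hUm true true) :=
  posD_of_check0 (c := ⟨399, ⟨2, 7, 15, 10⟩⟩) (by decide +kernel)

def tA4_tmg11 : PosD ⟨⟨0, 1, 1⟩, ⟨98, 99, 147⟩, ⟨0, 150, 10000⟩, ⟨1800, 2683, 1000⟩⟩ (tA4.hTMG true (tA4.pEnd true)) :=
  posD_of_check0 (c := ⟨385, ⟨2, 7, 14, 10⟩⟩) (by decide +kernel)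

/-- The signs of the piece. -/
def tA4_sign : tA4.Sign ⟨⟨0, 1, 1⟩, ⟨98, 99, 147⟩, ⟨0, 150, 10000⟩, ⟨1800, 2683, 1000⟩⟩ :=
  ⟨tA4_pp,
    tA4_k2p,
    tA4_k2m,
    Bool.forall_bool.2 ⟨(Bool.forall_bool.2 ⟨tA4_tg00, tA4_tg01⟩), (Bool.forall_bool.2 ⟨tA4_tg10, tA4_tg11⟩)⟩,
    Bool.forall_bool.2 ⟨(Bool.forall_bool.2 ⟨tA4_c2p00, tA4_c2p01⟩), (Bool.forall_bool.2 ⟨tA4_c2p10, tA4_c2p11⟩)⟩,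
    Bool.forall_bool.2 ⟨(Bool.forall_bool.2 ⟨tA4_c2m00, tA4_c2m01⟩), (Bool.forall_bool.2 ⟨tA4_c2m10, tA4_c2m11⟩)⟩,
    Bool.forall_bool.2 ⟨tA4_kap0, tA4_kap1⟩,
    Bool.forall_bool.2 ⟨tA4_c10, tA4_c11⟩,
    Bool.forall_bool.2 ⟨(Bool.forall_bool.2 ⟨tA4_c3p00, tA4_c3p01⟩), (Bool.forall_bool.2 ⟨tA4_c3p10, tA4_c3p11⟩)⟩,
    Bool.forall_bool.2 ⟨(Bool.forall_bool.2 ⟨tA4_c3m00, tA4_c3m01⟩), (Bool.forall_bool.2 ⟨tA4_c3m10, tA4_c3m11⟩)⟩,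
    Bool.forall_bool.2 ⟨(Bool.forall_bool.2 ⟨tA4_tmg00, tA4_tmg01⟩), (Bool.forall_bool.2 ⟨tA4_tmg10, tA4_tmg11⟩)⟩,
    .inr (Bool.forall_bool.2 ⟨⟨tA4_c1h0, Bool.forall_bool.2 ⟨⟨tA4_c3ph00, tA4_c3mh00, tA4_up00, tA4_um00⟩, ⟨tA4_c3ph01, tA4_c3mh01, tA4_up01, tA4_um01⟩⟩⟩, ⟨tA4_c1h1, Bool.forall_bool.2 ⟨⟨tA4_c3ph10, tA4_c3mh10, tA4_up10, tA4_um10⟩, ⟨tA4_c3ph11, tA4_c3mh11, tA4_up11, tA4_um11⟩⟩⟩⟩),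
    tA4_v2p,
    tA4_v2m,
    tA4_v3p,
    tA4_v3m,
    posD_sub (b := ⟨⟨0, 1, 1⟩, ⟨98, 99, 147⟩, ⟨0, 301, 10000⟩, ⟨290, 4000, 1000⟩⟩) (by decide +kernel) tA_vG,
    posD_sub (b := ⟨⟨0, 1, 1⟩, ⟨98, 99, 147⟩, ⟨0, 301, 10000⟩, ⟨290, 4000, 1000⟩⟩) (by decide +kernel) tA_vMG,
    posD_sub (b := ⟨⟨0, 1, 1⟩, ⟨98, 99, 147⟩, ⟨0, 301, 10000⟩, ⟨290, 4000, 1000⟩⟩) (by decide +kernel) tA_ak,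
    posD_sub (b := ⟨⟨0, 1, 1⟩, ⟨98, 99, 147⟩, ⟨0, 301, 10000⟩, ⟨290, 4000, 1000⟩⟩) (by decide +kernel) tA_aw,
    posD_sub (b := ⟨⟨0, 1, 1⟩, ⟨98, 99, 147⟩, ⟨0, 301, 10000⟩, ⟨290, 4000, 1000⟩⟩) (by decide +kernel) tA_gk,
    posD_sub (b := ⟨⟨0, 1, 1⟩, ⟨98, 99, 147⟩, ⟨0, 301, 10000⟩, ⟨290, 4000, 1000⟩⟩) (by decide +kernel) tA_gw,
    posD_sub (b := ⟨⟨0, 1, 1⟩, ⟨98, 99, 147⟩, ⟨0, 301, 10000⟩, ⟨290, 4000, 1000⟩⟩) (by decide +kernel) tA_ek,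
    posD_sub (b := ⟨⟨0, 1, 1⟩, ⟨98, 99, 147⟩, ⟨0, 301, 10000⟩, ⟨290, 4000, 1000⟩⟩) (by decide +kernel) tA_ew⟩

end Vale.Agent.P100.Calib.Closed.Six.Tail
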