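import Vale.Agent.P100.Calib.SlabSixTailDataA
import Vale.Agent.P100.Calib.SlabSixTailGlobA

/-!
# Checks of some pieces of the certificate

The checks are written as definitions so that they run one after another, which keeps the memory of the
kernel low.
-/

set_option linter.defProp false

namespace Vale.Agent.P100.Calib.Closed.Six.Tail

open BoxPos Large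

local instance sixTailCheckstA5Add : Add Ex := ⟨Ex.add⟩
local instance sixTailCheckstA5Sub : Sub Ex := ⟨Ex.sub⟩
local instance sixTailCheckstA5Mul : Mul Ex := ⟨Ex.mul⟩

def tA5_phx : PosIf ⟨⟨0, 1, 1⟩, ⟨98, 99, 147⟩, ⟨150, 301, 10000⟩, ⟨1800, 2683, 1000⟩⟩ (tA5.u₁ - tA5Lo) (phAn (tA5.u₁ + xO * (tA5Lo - tA5.u₁))) :=
  posIf_of_posD (posD_of_check (c := ⟨100, ⟨2, 0, 4, 2⟩⟩) (by decide +kernel))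

def tA5_phd : PosD ⟨⟨0, 1, 1⟩, ⟨98, 99, 147⟩, ⟨150, 301, 10000⟩, ⟨1800, 2683, 1000⟩⟩ (phAd (tA5.u₁ + xO * (tA5Lo - tA5.u₁))) :=
  posD_of_check (c := ⟨48, ⟨1, 0, 2, 1⟩⟩) (by decide +kernel)

def tA5_p0 : PosD ⟨⟨0, 1, 1⟩, ⟨98, 99, 147⟩, ⟨150, 301, 10000⟩, ⟨1800, 2683, 1000⟩⟩ (tA5.hP0) :=
  posD_of_check (c := ⟨82, ⟨0, 2, 3, 1⟩⟩) (by decide +kernel)

def tA5_gn : PosD ⟨⟨0, 1, 1⟩, ⟨98, 99, 147⟩, ⟨150, 301, 10000⟩, ⟨1800, 2683, 1000⟩⟩ (tA5.hGn) :=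
  posD_of_check (c := ⟨65, ⟨1, 1, 2, 2⟩⟩) (by decide +kernel)

def tA5_den0 : PosD ⟨⟨0, 1, 1⟩, ⟨98, 99, 147⟩, ⟨150, 301, 10000⟩, ⟨1800, 2683, 1000⟩⟩ (tA5.hDen false) :=
  posD_of_check (c := ⟨48, ⟨1, 0, 2, 1⟩⟩) (by decide +kernel)

def tA5_den1 : PosD ⟨⟨0, 1, 1⟩, ⟨98, 99, 147⟩, ⟨150, 301, 10000⟩, ⟨1800, 2683, 1000⟩⟩ (tA5.hDen true) :=
  posD_of_check (c := ⟨48, ⟨1, 0, 2, 1⟩⟩) (by decide +kernel)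

def tA5_ev0 : PosD ⟨⟨0, 1, 1⟩, ⟨98, 99, 147⟩, ⟨150, 301, 10000⟩, ⟨1800, 2683, 1000⟩⟩ (tA5.hEv false) :=
  posD_of_check (c := ⟨203, ⟨4, 2, 8, 4⟩⟩) (by decide +kernel)

def tA5_zL0 : PosD ⟨⟨0, 1, 1⟩, ⟨98, 99, 147⟩, ⟨150, 301, 10000⟩, ⟨1800, 2683, 1000⟩⟩ (tA5.hZL false) :=
  posD_of_check (c := ⟨207, ⟨4, 3, 8, 4⟩⟩) (by decide +kernel)

def tA5_zU0a : PosD ⟨⟨0, 1, 1⟩, ⟨98, 99, 147⟩, ⟨150, 301, 10000⟩, ⟨1800, 2241, 1000⟩⟩ (tA5.hZU false) :=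
  posD_of_check (c := ⟨207, ⟨4, 3, 8, 4⟩⟩) (by decide +kernel)

def tA5_zU0b : PosD ⟨⟨0, 1, 1⟩, ⟨98, 99, 147⟩, ⟨150, 301, 10000⟩, ⟨2241, 2683, 1000⟩⟩ (tA5.hZU false) :=
  posD_of_check (c := ⟨207, ⟨4, 3, 8, 4⟩⟩) (by decide +kernel)

def tA5_zU0 : PosD ⟨⟨0, 1, 1⟩, ⟨98, 99, 147⟩, ⟨150, 301, 10000⟩, ⟨1800, 2683, 1000⟩⟩ (tA5.hZU false) :=
  posD_join₃ tA5_zU0a tA5_zU0b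

def tA5_eL0 : PosD ⟨⟨0, 1, 1⟩, ⟨98, 99, 147⟩, ⟨150, 301, 10000⟩, ⟨1800, 2683, 1000⟩⟩ (tA5.hEL false) :=
  posD_of_check (c := ⟨296, ⟨5, 6, 11, 6⟩⟩) (by decide +kernel)

def tA5_eH0 : PosD ⟨⟨0, 1, 1⟩, ⟨98, 99, 147⟩, ⟨150, 301, 10000⟩, ⟨1800, 2683, 1000⟩⟩ (tA5.hEH false) :=
  posD_of_check (c := ⟨295, ⟨5, 6, 11, 6⟩⟩) (by decide +kernel)

def tA5_pL0 : PosD ⟨⟨0, 1, 1⟩, ⟨98, 99, 147⟩, ⟨150, 301, 10000⟩, ⟨1800, 2683, 1000⟩⟩ (tA5.hPL false) :=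
  posD_of_check (c := ⟨321, ⟨5, 6, 11, 7⟩⟩) (by decide +kernel)

def tA5_pU0 : PosD ⟨⟨0, 1, 1⟩, ⟨98, 99, 147⟩, ⟨150, 301, 10000⟩, ⟨1800, 2683, 1000⟩⟩ (tA5.hPU false) :=
  posD_of_check (c := ⟨322, ⟨5, 6, 11, 7⟩⟩) (by decide +kernel)

def tA5_kU0 : PosD ⟨⟨0, 1, 1⟩, ⟨98, 99, 147⟩, ⟨150, 301, 10000⟩, ⟨1800, 2683, 1000⟩⟩ (tA5.hKU false) :=
  posD_of_check (c := ⟨317, ⟨5, 6, 11, 7⟩⟩) (by decide +kernel)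

def tA5_kL0a : PosD ⟨⟨0, 1, 1⟩, ⟨98, 99, 147⟩, ⟨150, 301, 10000⟩, ⟨1800, 2241, 1000⟩⟩ (tA5.hKL false) :=
  posD_of_check (c := ⟨316, ⟨5, 6, 11, 7⟩⟩) (by decide +kernel)

def tA5_kL0b : PosD ⟨⟨0, 1, 1⟩, ⟨98, 99, 147⟩, ⟨150, 301, 10000⟩, ⟨2241, 2683, 1000⟩⟩ (tA5.hKL false) :=
  posD_of_check (c := ⟨316, ⟨5, 6, 11, 7⟩⟩) (by decide +kernel)

def tA5_kL0 : PosD ⟨⟨0, 1, 1⟩, ⟨98, 99, 147⟩, ⟨150, 301, 10000⟩, ⟨1800, 2683, 1000⟩⟩ (tA5.hKL false) :=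
  posD_join₃ tA5_kL0a tA5_kL0b

def tA5_wU0 : PosD ⟨⟨0, 1, 1⟩, ⟨98, 99, 147⟩, ⟨150, 301, 10000⟩, ⟨1800, 2683, 1000⟩⟩ (tA5.hWU false) :=
  posD_of_check (c := ⟨353, ⟨5, 8, 12, 7⟩⟩) (by decide +kernel)

def tA5_wL0 : PosD ⟨⟨0, 1, 1⟩, ⟨98, 99, 147⟩, ⟨150, 301, 10000⟩, ⟨1800, 2683, 1000⟩⟩ (tA5.hWL false) :=
  posD_of_check (c := ⟨353, ⟨5, 8, 12, 7⟩⟩) (by decide +kernel)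

def tA5_ev1 : PosD ⟨⟨0, 1, 1⟩, ⟨98, 99, 147⟩, ⟨150, 301, 10000⟩, ⟨1800, 2683, 1000⟩⟩ (tA5.hEv true) :=
  posD_of_check (c := ⟨203, ⟨4, 2, 8, 4⟩⟩) (by decide +kernel)

def tA5_zL1 : PosD ⟨⟨0, 1, 1⟩, ⟨98, 99, 147⟩, ⟨150, 301, 10000⟩, ⟨1800, 2683, 1000⟩⟩ (tA5.hZL true) :=
  posD_of_check (c := ⟨207, ⟨4, 3, 8, 4⟩⟩) (by decide +kernel)

def tA5_zU1 : PosD ⟨⟨0, 1, 1⟩, ⟨98, 99, 147⟩, ⟨150, 301, 10000⟩, ⟨1800, 2683, 1000⟩⟩ (tA5.hZU true) :=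
  posD_of_check (c := ⟨207, ⟨4, 3, 8, 4⟩⟩) (by decide +kernel)

def tA5_eL1a : PosD ⟨⟨0, 1, 1⟩, ⟨98, 99, 147⟩, ⟨150, 301, 10000⟩, ⟨1800, 2241, 1000⟩⟩ (tA5.hEL true) :=
  posD_of_check (c := ⟨295, ⟨5, 6, 11, 6⟩⟩) (by decide +kernel)

def tA5_eL1b : PosD ⟨⟨0, 1, 1⟩, ⟨98, 99, 147⟩, ⟨150, 301, 10000⟩, ⟨2241, 2683, 1000⟩⟩ (tA5.hEL true) :=
  posD_of_check (c := ⟨296, ⟨5, 6, 11, 6⟩⟩) (by decide +kernel)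

def tA5_eL1 : PosD ⟨⟨0, 1, 1⟩, ⟨98, 99, 147⟩, ⟨150, 301, 10000⟩, ⟨1800, 2683, 1000⟩⟩ (tA5.hEL true) :=
  posD_join₃ tA5_eL1a tA5_eL1b

def tA5_eH1 : PosD ⟨⟨0, 1, 1⟩, ⟨98, 99, 147⟩, ⟨150, 301, 10000⟩, ⟨1800, 2683, 1000⟩⟩ (tA5.hEH true) :=
  posD_of_check (c := ⟨295, ⟨5, 6, 11, 6⟩⟩) (by decide +kernel)

def tA5_pL1 : PosD ⟨⟨0, 1, 1⟩, ⟨98, 99, 147⟩, ⟨150, 301, 10000⟩, ⟨1800, 2683, 1000⟩⟩ (tA5.hPL true) :=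
  posD_of_check (c := ⟨321, ⟨5, 6, 11, 7⟩⟩) (by decide +kernel)

def tA5_pU1 : PosD ⟨⟨0, 1, 1⟩, ⟨98, 99, 147⟩, ⟨150, 301, 10000⟩, ⟨1800, 2683, 1000⟩⟩ (tA5.hPU true) :=
  posD_of_check (c := ⟨322, ⟨5, 6, 11, 7⟩⟩) (by decide +kernel)

def tA5_kU1 : PosD ⟨⟨0, 1, 1⟩, ⟨98, 99, 147⟩, ⟨150, 301, 10000⟩, ⟨1800, 2683, 1000⟩⟩ (tA5.hKU true) :=
  posD_of_check (c := ⟨317, ⟨5, 6, 11, 7⟩⟩) (by decide +kernel)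

def tA5_kL1 : PosD ⟨⟨0, 1, 1⟩, ⟨98, 99, 147⟩, ⟨150, 301, 10000⟩, ⟨1800, 2683, 1000⟩⟩ (tA5.hKL true) :=
  posD_of_check (c := ⟨316, ⟨5, 6, 11, 7⟩⟩) (by decide +kernel)

def tA5_wU1 : PosD ⟨⟨0, 1, 1⟩, ⟨98, 99, 147⟩, ⟨150, 301, 10000⟩, ⟨1800, 2683, 1000⟩⟩ (tA5.hWU true) :=
  posD_of_check (c := ⟨352, ⟨5, 8, 12, 7⟩⟩) (by decide +kernel)

def tA5_wL1 : PosD ⟨⟨0, 1, 1⟩, ⟨98, 99, 147⟩, ⟨150, 301, 10000⟩, ⟨1800, 2683, 1000⟩⟩ (tA5.hWL true) :=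
  posD_of_check (c := ⟨352, ⟨5, 8, 12, 7⟩⟩) (by decide +kernel)

/-- The bounds of the piece. -/
def tA5_env : tA5.Env ⟨⟨0, 1, 1⟩, ⟨98, 99, 147⟩, ⟨150, 301, 10000⟩, ⟨1800, 2683, 1000⟩⟩ :=
  ⟨tA5_p0, Bool.forall_bool.2 ⟨tA5_den0, tA5_den1⟩, tA5_gn, Bool.forall_bool.2 ⟨tA5_ev0, tA5_ev1⟩, Bool.forall_bool.2 ⟨tA5_zL0, tA5_zL1⟩, Bool.forall_bool.2 ⟨tA5_zU0, tA5_zU1⟩, Bool.forall_bool.2 ⟨tA5_eL0, tA5_eL1⟩, ⟨.inr rfl, .inr rfl⟩, Bool.forall_bool.2 ⟨tA5_eH0, tA5_eH1⟩, ⟨.inr rfl, .inr rfl⟩, Bool.forall_bool.2 ⟨tA5_pL0, tA5_pL1⟩, ⟨.inr rfl, .inr rfl⟩, Bool.forall_bool.2 ⟨tA5_pU0, tA5_pU1⟩, ⟨.inr rfl, .inr rfl⟩, Bool.forall_bool.2 ⟨tA5_kU0, tA5_kU1⟩, ⟨.inr rfl, .inr rfl⟩, Bool.forall_bool.2 ⟨tA5_kL0, tA5_kL1⟩, ⟨.inr rfl,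 .inr rfl⟩, Bool.forall_bool.2 ⟨tA5_wU0, tA5_wU1⟩, ⟨.inr rfl, .inr rfl⟩, Bool.forall_bool.2 ⟨tA5_wL0, tA5_wL1⟩, ⟨.inr rfl, .inr rfl⟩⟩

def tA5_pU20 : PosD ⟨⟨0, 1, 1⟩, ⟨98, 99, 147⟩, ⟨150, 301, 10000⟩, ⟨1800, 2683, 1000⟩⟩ (({ tA5 with pU := tA5PU } : Piece).hPU false) :=
  posD_of_check (c := ⟨323, ⟨5, 6, 11, 7⟩⟩) (by decide +kernel)

def tA5_pU21a : PosD ⟨⟨0, 1, 1⟩, ⟨98, 99, 147⟩, ⟨150, 301, 10000⟩, ⟨1800, 2241, 1000⟩⟩ (({ tA5 with pU := tA5PU } : Piece).hPU true) :=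
  posD_of_check (c := ⟨322, ⟨5, 6, 11, 7⟩⟩) (by decide +kernel)

def tA5_pU21b : PosD ⟨⟨0, 1, 1⟩, ⟨98, 99, 147⟩, ⟨150, 301, 10000⟩, ⟨2241, 2683, 1000⟩⟩ (({ tA5 with pU := tA5PU } : Piece).hPU true) :=
  posD_of_check (c := ⟨323, ⟨5, 6, 11, 7⟩⟩) (by decide +kernel)

def tA5_pU21 : PosD ⟨⟨0, 1, 1⟩, ⟨98, 99, 147⟩, ⟨150, 301, 10000⟩, ⟨1800, 2683, 1000⟩⟩ (({ tA5 with pU := tA5PU } : Piece).hPU true) :=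
  posD_join₃ tA5_pU21a tA5_pU21b

/-- The bounds with the other bound of `p`. -/
def tA5_envU : ({ tA5 with pU := tA5PU } : Piece).Env ⟨⟨0, 1, 1⟩, ⟨98, 99, 147⟩, ⟨150, 301, 10000⟩, ⟨1800, 2683, 1000⟩⟩ :=
  tA5_env.withU tA5PU (Bool.forall_bool.2 ⟨tA5_pU20, tA5_pU21⟩) ⟨.inr rfl, .inr rfl⟩

def tA5A_pp : PosD ⟨⟨0, 1, 1⟩, ⟨98, 99, 147⟩, ⟨150, 301, 10000⟩, ⟨1800, 2683, 1000⟩⟩ (tA5A.xPL) :=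
  posD_of_check (c := ⟨90, ⟨1, 1, 3, 3⟩⟩) (by decide +kernel)

def tA5A_k2p : PosD ⟨⟨0, 1, 1⟩, ⟨98, 99, 147⟩, ⟨150, 301, 10000⟩, ⟨1800, 2683, 1000⟩⟩ (tA5A.k2p tA5A.xE) :=
  posD_of_check (c := ⟨62, ⟨1, 1, 2, 2⟩⟩) (by decide +kernel)

def tA5A_k2m : PosD ⟨⟨0, 1, 1⟩, ⟨98, 99, 147⟩, ⟨150, 301, 10000⟩, ⟨1800, 2683, 1000⟩⟩ (tA5A.k2m tA5A.xE) :=
  posD_of_check (c := ⟨21, ⟨0, 0, 1, 1⟩⟩) (by decide +kernel)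

def tA5A_v2p : PosD ⟨⟨0, 1, 1⟩, ⟨98, 99, 147⟩, ⟨150, 301, 10000⟩, ⟨1800, 2683, 1000⟩⟩ (tA5A.hV2p) :=
  posD_of_check (c := ⟨255, ⟨1, 6, 10, 5⟩⟩) (by decide +kernel)

def tA5A_v2m : PosD ⟨⟨0, 1, 1⟩, ⟨98, 99, 147⟩, ⟨150, 301, 10000⟩, ⟨1800, 2683, 1000⟩⟩ (tA5A.hV2m) :=
  posD_of_check (c := ⟨225, ⟨0, 5, 10, 4⟩⟩) (by decide +kernel)

def tA5A_v3p : PosD ⟨⟨0, 1, 1⟩, ⟨98, 99, 147⟩, ⟨150, 301, 10000⟩, ⟨1800, 2683, 1000⟩⟩ (tA5A.hV3p) :=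
  posD_of_check (c := ⟨246, ⟨1, 6, 9, 5⟩⟩) (by decide +kernel)

def tA5A_v3m : PosD ⟨⟨0, 1, 1⟩, ⟨98, 99, 147⟩, ⟨150, 301, 10000⟩, ⟨1800, 2683, 1000⟩⟩ (tA5A.hV3m) :=
  posD_of_check (c := ⟨220, ⟨0, 5, 9, 4⟩⟩) (by decide +kernel)

def tA5A_kap0 : PosD ⟨⟨0, 1, 1⟩, ⟨98, 99, 147⟩, ⟨150, 301, 10000⟩, ⟨1800, 2683, 1000⟩⟩ (tA5A.kap false) :=
  posD_of_check (c := ⟨68, ⟨1, 1, 2, 2⟩⟩) (by decide +kernel)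

def tA5A_c10a : PosD ⟨⟨0, 1, 2⟩, ⟨98, 99, 147⟩, ⟨150, 301, 10000⟩, ⟨1800, 2683, 1000⟩⟩ (tA5A.hC1 false) :=
  posD_of_check (c := ⟨263, ⟨3, 5, 9, 7⟩⟩) (by decide +kernel)

def tA5A_c10b : PosD ⟨⟨1, 2, 2⟩, ⟨98, 99, 147⟩, ⟨150, 301, 10000⟩, ⟨1800, 2683, 1000⟩⟩ (tA5A.hC1 false) :=
  posD_of_check (c := ⟨264, ⟨3, 5, 9, 7⟩⟩) (by decide +kernel)

def tA5A_c10 : PosD ⟨⟨0, 1, 1⟩, ⟨98, 99, 147⟩, ⟨150, 301, 10000⟩, ⟨1800, 2683, 1000⟩⟩ (tA5A.hC1 false) :=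
  posD_units (b := ⟨⟨0, 2, 2⟩, ⟨98, 99, 147⟩, ⟨150, 301, 10000⟩, ⟨1800, 2683, 1000⟩⟩) (by decide +kernel) (posD_join₀ tA5A_c10a tA5A_c10b)

def tA5A_c1h0 : PosD ⟨⟨0, 1, 1⟩, ⟨98, 99, 147⟩, ⟨150, 301, 10000⟩, ⟨1800, 2683, 1000⟩⟩ (tA5A.hC1' false) :=
  posD_of_check (c := ⟨262, ⟨3, 5, 9, 7⟩⟩) (by decide +kernel)

def tA5A_tg00 : PosD ⟨⟨0, 1, 1⟩, ⟨98, 99, 147⟩, ⟨150, 301, 10000⟩, ⟨1800, 2683, 1000⟩⟩ (tA5A.hG false (tA5A.pEnd false)) :=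
  posD_of_check (c := ⟨369, ⟨2, 7, 14, 9⟩⟩) (by decide +kernel)

def tA5A_c2p00 : PosD ⟨⟨0, 1, 1⟩, ⟨98, 99, 147⟩, ⟨150, 301, 10000⟩, ⟨1800, 2683, 1000⟩⟩ (tA5A.hC2p false (tA5A.pEnd false)) :=
  posD_of_check (c := ⟨432, ⟨3, 8, 16, 11⟩⟩) (by decide +kernel)

def tA5A_c2m00 : PosD ⟨⟨0, 1, 1⟩, ⟨98, 99, 147⟩, ⟨150, 301, 10000⟩, ⟨1800, 2683, 1000⟩⟩ (tA5A.hC2m false (tA5A.pEnd false)) :=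
  posD_of_check (c := ⟨402, ⟨2, 7, 16, 10⟩⟩) (by decide +kernel)

def tA5A_c3p00 : PosD ⟨⟨0, 1, 1⟩, ⟨98, 99, 147⟩, ⟨150, 301, 10000⟩, ⟨1800, 2683, 1000⟩⟩ (tA5A.hC3p false false) :=
  posD_of_check (c := ⟨427, ⟨3, 8, 15, 11⟩⟩) (by decide +kernel)

def tA5A_c3m00 : PosD ⟨⟨0, 1, 1⟩, ⟨98, 99, 147⟩, ⟨150, 301, 10000⟩, ⟨1800, 2683, 1000⟩⟩ (tA5A.hC3m false false) :=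
  posD_of_check (c := ⟨402, ⟨3, 7, 15, 10⟩⟩) (by decide +kernel)

def tA5A_c3ph00 : PosD ⟨⟨0, 1, 1⟩, ⟨98, 99, 147⟩, ⟨150, 301, 10000⟩, ⟨1800, 2683, 1000⟩⟩ (tA5A.hC3p' false false) :=
  posD_of_check (c := ⟨427, ⟨3, 8, 15, 11⟩⟩) (by decide +kernel)

def tA5A_c3mh00 : PosD ⟨⟨0, 1, 1⟩, ⟨98, 99, 147⟩, ⟨150, 301, 10000⟩, ⟨1800, 2683, 1000⟩⟩ (tA5A.hC3m' false false) :=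
  posD_of_check (c := ⟨402, ⟨3, 7, 15, 10⟩⟩) (by decide +kernel)

def tA5A_up00 : PosD ⟨⟨0, 1, 1⟩, ⟨98, 99, 147⟩, ⟨150, 301, 10000⟩, ⟨1800, 2683, 1000⟩⟩ (tA5A.hUp false false) :=
  posD_of_check (c := ⟨425, ⟨3, 8, 15, 11⟩⟩) (by decide +kernel)

def tA5A_um00 : PosD ⟨⟨0, 1, 1⟩, ⟨98, 99, 147⟩, ⟨150, 301, 10000⟩, ⟨1800, 2683, 1000⟩⟩ (tA5A.hUm false false) :=
  posD_of_check (c := ⟨399, ⟨2, 7, 15, 10⟩⟩) (by decide +kernel)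

def tA5A_tmg00 : PosD ⟨⟨0, 1, 1⟩, ⟨98, 99, 147⟩, ⟨150, 301, 10000⟩, ⟨1800, 2683, 1000⟩⟩ (tA5A.hTMG false (tA5A.pEnd false)) :=
  posD_of_check (c := ⟨385, ⟨2, 7, 14, 10⟩⟩) (by decide +kernel)

def tA5A_tg01 : PosD ⟨⟨0, 1, 1⟩, ⟨98, 99, 147⟩, ⟨150, 301, 10000⟩, ⟨1800, 2683, 1000⟩⟩ (tA5A.hG true (tA5A.pEnd false)) :=
  posD_of_check (c := ⟨369, ⟨2, 7, 14, 9⟩⟩) (by decide +kernel)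

def tA5A_c2p01 : PosD ⟨⟨0, 1, 1⟩, ⟨98, 99, 147⟩, ⟨150, 301, 10000⟩, ⟨1800, 2683, 1000⟩⟩ (tA5A.hC2p true (tA5A.pEnd false)) :=
  posD_of_check (c := ⟨432, ⟨3, 8, 16, 11⟩⟩) (by decide +kernel)

def tA5A_c2m01 : PosD ⟨⟨0, 1, 1⟩, ⟨98, 99, 147⟩, ⟨150, 301, 10000⟩, ⟨1800, 2683, 1000⟩⟩ (tA5A.hC2m true (tA5A.pEnd false)) :=
  posD_of_check (c := ⟨402, ⟨2, 7, 16, 10⟩⟩) (by decide +kernel)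

def tA5A_c3p01 : PosD ⟨⟨0, 1, 1⟩, ⟨98, 99, 147⟩, ⟨150, 301, 10000⟩, ⟨1800, 2683, 1000⟩⟩ (tA5A.hC3p false true) :=
  posD_of_check (c := ⟨427, ⟨3, 8, 15, 11⟩⟩) (by decide +kernel)

def tA5A_c3m01 : PosD ⟨⟨0, 1, 1⟩, ⟨98, 99, 147⟩, ⟨150, 301, 10000⟩, ⟨1800, 2683, 1000⟩⟩ (tA5A.hC3m false true) :=
  posD_of_check (c := ⟨402, ⟨3, 7, 15, 10⟩⟩) (by decide +kernel)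

def tA5A_c3ph01 : PosD ⟨⟨0, 1, 1⟩, ⟨98, 99, 147⟩, ⟨150, 301, 10000⟩, ⟨1800, 2683, 1000⟩⟩ (tA5A.hC3p' false true) :=
  posD_of_check (c := ⟨427, ⟨3, 8, 15, 11⟩⟩) (by decide +kernel)

def tA5A_c3mh01 : PosD ⟨⟨0, 1, 1⟩, ⟨98, 99, 147⟩, ⟨150, 301, 10000⟩, ⟨1800, 2683, 1000⟩⟩ (tA5A.hC3m' false true) :=
  posD_of_check (c := ⟨402, ⟨3, 7, 15, 10⟩⟩) (by decide +kernel)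

def tA5A_up01 : PosD ⟨⟨0, 1, 1⟩, ⟨98, 99, 147⟩, ⟨150, 301, 10000⟩, ⟨1800, 2683, 1000⟩⟩ (tA5A.hUp false true) :=
  posD_of_check (c := ⟨425, ⟨3, 8, 15, 11⟩⟩) (by decide +kernel)

def tA5A_um01 : PosD ⟨⟨0, 1, 1⟩, ⟨98, 99, 147⟩, ⟨150, 301, 10000⟩, ⟨1800, 2683, 1000⟩⟩ (tA5A.hUm false true) :=
  posD_of_check (c := ⟨399, ⟨2, 7, 15, 10⟩⟩) (by decide +kernel)

def tA5A_tmg01 : PosD ⟨⟨0, 1, 1⟩, ⟨98, 99, 147⟩, ⟨150, 301, 10000⟩, ⟨1800, 2683, 1000⟩⟩ (tA5A.hTMG true (tA5A.pEnd false)) :=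
  posD_of_check (c := ⟨385, ⟨2, 7, 14, 10⟩⟩) (by decide +kernel)

def tA5A_kap1 : PosD ⟨⟨0, 1, 1⟩, ⟨98, 99, 147⟩, ⟨150, 301, 10000⟩, ⟨1800, 2683, 1000⟩⟩ (tA5A.kap true) :=
  posD_of_check (c := ⟨70, ⟨1, 1, 2, 2⟩⟩) (by decide +kernel)

def tA5A_c11 : PosD ⟨⟨0, 1, 1⟩, ⟨98, 99, 147⟩, ⟨150, 301, 10000⟩, ⟨1800, 2683, 1000⟩⟩ (tA5A.hC1 true) :=
  posD_of_check (c := ⟨265, ⟨3, 5, 9, 7⟩⟩) (by decide +kernel)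

def tA5A_c1h1 : PosD ⟨⟨0, 1, 1⟩, ⟨98, 99, 147⟩, ⟨150, 301, 10000⟩, ⟨1800, 2683, 1000⟩⟩ (tA5A.hC1' true) :=
  posD_of_check (c := ⟨265, ⟨3, 5, 9, 7⟩⟩) (by decide +kernel)

def tA5A_tg10 : PosD ⟨⟨0, 1, 1⟩, ⟨98, 99, 147⟩, ⟨150, 301, 10000⟩, ⟨1800, 2683, 1000⟩⟩ (tA5A.hG false (tA5A.pEnd true)) :=
  posD_of_check (c := ⟨371, ⟨2, 7, 14, 9⟩⟩) (by decide +kernel)

def tA5A_c2p10 : PosD ⟨⟨0, 1, 1⟩, ⟨98, 99, 147⟩, ⟨150, 301, 10000⟩, ⟨1800, 2683, 1000⟩⟩ (tA5A.hC2p false (tA5A.pEnd true)) :=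
  posD_of_check (c := ⟨433, ⟨3, 8, 16, 11⟩⟩) (by decide +kernel)

def tA5A_c2m10 : PosD ⟨⟨0, 1, 1⟩, ⟨98, 99, 147⟩, ⟨150, 301, 10000⟩, ⟨1800, 2683, 1000⟩⟩ (tA5A.hC2m false (tA5A.pEnd true)) :=
  posD_of_check (c := ⟨403, ⟨2, 7, 16, 10⟩⟩) (by decide +kernel)

def tA5A_c3p10 : PosD ⟨⟨0, 1, 1⟩, ⟨98, 99, 147⟩, ⟨150, 301, 10000⟩, ⟨1800, 2683, 1000⟩⟩ (tA5A.hC3p true false) :=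
  posD_of_check (c := ⟨429, ⟨3, 8, 15, 11⟩⟩) (by decide +kernel)

def tA5A_c3m10 : PosD ⟨⟨0, 1, 1⟩, ⟨98, 99, 147⟩, ⟨150, 301, 10000⟩, ⟨1800, 2683, 1000⟩⟩ (tA5A.hC3m true false) :=
  posD_of_check (c := ⟨405, ⟨3, 7, 15, 10⟩⟩) (by decide +kernel)

def tA5A_c3ph10 : PosD ⟨⟨0, 1, 1⟩, ⟨98, 99, 147⟩, ⟨150, 301, 10000⟩, ⟨1800, 2683, 1000⟩⟩ (tA5A.hC3p' true false) :=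
  posD_of_check (c := ⟨429, ⟨3, 8, 15, 11⟩⟩) (by decide +kernel)

def tA5A_c3mh10 : PosD ⟨⟨0, 1, 1⟩, ⟨98, 99, 147⟩, ⟨150, 301, 10000⟩, ⟨1800, 2683, 1000⟩⟩ (tA5A.hC3m' true false) :=
  posD_of_check (c := ⟨405, ⟨3, 7, 15, 10⟩⟩) (by decide +kernel)

def tA5A_up10 : PosD ⟨⟨0, 1, 1⟩, ⟨98, 99, 147⟩, ⟨150, 301, 10000⟩, ⟨1800, 2683, 1000⟩⟩ (tA5A.hUp true false) :=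
  posD_of_check (c := ⟨426, ⟨3, 8, 15, 11⟩⟩) (by decide +kernel)

def tA5A_um10 : PosD ⟨⟨0, 1, 1⟩, ⟨98, 99, 147⟩, ⟨150, 301, 10000⟩, ⟨1800, 2683, 1000⟩⟩ (tA5A.hUm true false) :=
  posD_of_check (c := ⟨400, ⟨2, 7, 15, 10⟩⟩) (by decide +kernel)

def tA5A_tmg10 : PosD ⟨⟨0, 1, 1⟩, ⟨98, 99, 147⟩, ⟨150, 301, 10000⟩, ⟨1800, 2683, 1000⟩⟩ (tA5A.hTMG false (tA5A.pEnd true)) :=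
  posD_of_check (c := ⟨385, ⟨2, 7, 14, 10⟩⟩) (by decide +kernel)

def tA5A_tg11 : PosD ⟨⟨0, 1, 1⟩, ⟨98, 99, 147⟩, ⟨150, 301, 10000⟩, ⟨1800, 2683, 1000⟩⟩ (tA5A.hG true (tA5A.pEnd true)) :=
  posD_of_check (c := ⟨371, ⟨2, 7, 14, 9⟩⟩) (by decide +kernel)

def tA5A_c2p11 : PosD ⟨⟨0, 1, 1⟩, ⟨98, 99, 147⟩, ⟨150, 301, 10000⟩, ⟨1800, 2683, 1000⟩⟩ (tA5A.hC2p true (tA5A.pEnd true)) :=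
  posD_of_check (c := ⟨433, ⟨3, 8, 16, 11⟩⟩) (by decide +kernel)

def tA5A_c2m11 : PosD ⟨⟨0, 1, 1⟩, ⟨98, 99, 147⟩, ⟨150, 301, 10000⟩, ⟨1800, 2683, 1000⟩⟩ (tA5A.hC2m true (tA5A.pEnd true)) :=
  posD_of_check (c := ⟨403, ⟨2, 7, 16, 10⟩⟩) (by decide +kernel)

def tA5A_c3p11 : PosD ⟨⟨0, 1, 1⟩, ⟨98, 99, 147⟩, ⟨150, 301, 10000⟩, ⟨1800, 2683, 1000⟩⟩ (tA5A.hC3p true true) :=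
  posD_of_check (c := ⟨429, ⟨3, 8, 15, 11⟩⟩) (by decide +kernel)

def tA5A_c3m11 : PosD ⟨⟨0, 1, 1⟩, ⟨98, 99, 147⟩, ⟨150, 301, 10000⟩, ⟨1800, 2683, 1000⟩⟩ (tA5A.hC3m true true) :=
  posD_of_check (c := ⟨405, ⟨3, 7, 15, 10⟩⟩) (by decide +kernel)

def tA5A_c3ph11 : PosD ⟨⟨0, 1, 1⟩, ⟨98, 99, 147⟩, ⟨150, 301, 10000⟩, ⟨1800, 2683, 1000⟩⟩ (tA5A.hC3p' true true) :=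
  posD_of_check (c := ⟨429, ⟨3, 8, 15, 11⟩⟩) (by decide +kernel)

def tA5A_c3mh11 : PosD ⟨⟨0, 1, 1⟩, ⟨98, 99, 147⟩, ⟨150, 301, 10000⟩, ⟨1800, 2683, 1000⟩⟩ (tA5A.hC3m' true true) :=
  posD_of_check (c := ⟨405, ⟨3, 7, 15, 10⟩⟩) (by decide +kernel)

def tA5A_up11 : PosD ⟨⟨0, 1, 1⟩, ⟨98, 99, 147⟩, ⟨150, 301, 10000⟩, ⟨1800, 2683, 1000⟩⟩ (tA5A.hUp true true) :=
  posD_of_check (c := ⟨426, ⟨3, 8, 15, 11⟩⟩) (by decide +kernel)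

def tA5A_um11 : PosD ⟨⟨0, 1, 1⟩, ⟨98, 99, 147⟩, ⟨150, 301, 10000⟩, ⟨1800, 2683, 1000⟩⟩ (tA5A.hUm true true) :=
  posD_of_check (c := ⟨400, ⟨2, 7, 15, 10⟩⟩) (by decide +kernel)

def tA5A_tmg11 : PosD ⟨⟨0, 1, 1⟩, ⟨98, 99, 147⟩, ⟨150, 301, 10000⟩, ⟨1800, 2683, 1000⟩⟩ (tA5A.hTMG true (tA5A.pEnd true)) :=
  posD_of_check (c := ⟨385, ⟨2, 7, 14, 10⟩⟩) (by decide +kernel)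

/-- The signs of the piece. -/
def tA5A_sign : tA5A.Sign ⟨⟨0, 1, 1⟩, ⟨98, 99, 147⟩, ⟨150, 301, 10000⟩, ⟨1800, 2683, 1000⟩⟩ :=
  ⟨tA5A_pp,
    tA5A_k2p,
    tA5A_k2m,
    Bool.forall_bool.2 ⟨(Bool.forall_bool.2 ⟨tA5A_tg00, tA5A_tg01⟩), (Bool.forall_bool.2 ⟨tA5A_tg10, tA5A_tg11⟩)⟩,
    Bool.forall_bool.2 ⟨(Bool.forall_bool.2 ⟨tA5A_c2p00, tA5A_c2p01⟩), (Bool.forall_bool.2 ⟨tA5A_c2p10, tA5A_c2p11⟩)⟩,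
    Bool.forall_bool.2 ⟨(Bool.forall_bool.2 ⟨tA5A_c2m00, tA5A_c2m01⟩), (Bool.forall_bool.2 ⟨tA5A_c2m10, tA5A_c2m11⟩)⟩,
    Bool.forall_bool.2 ⟨tA5A_kap0, tA5A_kap1⟩,
    Bool.forall_bool.2 ⟨tA5A_c10, tA5A_c11⟩,
    Bool.forall_bool.2 ⟨(Bool.forall_bool.2 ⟨tA5A_c3p00, tA5A_c3p01⟩), (Bool.forall_bool.2 ⟨tA5A_c3p10, tA5A_c3p11⟩)⟩,
    Bool.forall_bool.2 ⟨(Bool.forall_bool.2 ⟨tA5A_c3m00, tA5A_c3m01⟩), (Bool.forall_bool.2 ⟨tA5A_c3m10, tA5A_c3m11⟩)⟩,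
    Bool.forall_bool.2 ⟨(Bool.forall_bool.2 ⟨tA5A_tmg00, tA5A_tmg01⟩), (Bool.forall_bool.2 ⟨tA5A_tmg10, tA5A_tmg11⟩)⟩,
    .inr (Bool.forall_bool.2 ⟨⟨tA5A_c1h0, Bool.forall_bool.2 ⟨⟨tA5A_c3ph00, tA5A_c3mh00, tA5A_up00, tA5A_um00⟩, ⟨tA5A_c3ph01, tA5A_c3mh01, tA5A_up01, tA5A_um01⟩⟩⟩, ⟨tA5A_c1h1, Bool.forall_bool.2 ⟨⟨tA5A_c3ph10, tA5A_c3mh10, tA5A_up10, tA5A_um10⟩, ⟨tA5A_c3ph11, tA5A_c3mh11, tA5A_up11, tA5A_um11⟩⟩⟩⟩),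
    tA5A_v2p,
    tA5A_v2m,
    tA5A_v3p,
    tA5A_v3m,
    posD_sub (b := ⟨⟨0, 1, 1⟩, ⟨98, 99, 147⟩, ⟨0, 301, 10000⟩, ⟨290, 4000, 1000⟩⟩) (by decide +kernel) tA_vG,
    posD_sub (b := ⟨⟨0, 1, 1⟩, ⟨98, 99, 147⟩, ⟨0, 301, 10000⟩, ⟨290, 4000, 1000⟩⟩) (by decide +kernel) tA_vMG,
    posD_sub (b := ⟨⟨0, 1, 1⟩, ⟨98, 99, 147⟩, ⟨0, 301, 10000⟩, ⟨290, 4000, 1000⟩⟩) (by decide +kernel) tA_ak,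
    posD_sub (b := ⟨⟨0, 1, 1⟩, ⟨98, 99, 147⟩, ⟨0, 301, 10000⟩, ⟨290, 4000, 1000⟩⟩) (by decide +kernel) tA_aw,
    posD_sub (b := ⟨⟨0, 1, 1⟩, ⟨98, 99, 147⟩, ⟨0, 301, 10000⟩, ⟨290, 4000, 1000⟩⟩) (by decide +kernel) tA_gk,
    posD_sub (b := ⟨⟨0, 1, 1⟩, ⟨98, 99, 147⟩, ⟨0, 301, 10000⟩, ⟨290, 4000, 1000⟩⟩) (by decide +kernel) tA_gw,
    posD_sub (b := ⟨⟨0, 1, 1⟩, ⟨98, 99, 147⟩, ⟨0, 301, 10000⟩, ⟨290, 4000, 1000⟩⟩) (by decide +kernel) tA_ek,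
    posD_sub (b := ⟨⟨0, 1, 1⟩, ⟨98, 99, 147⟩, ⟨0, 301, 10000⟩, ⟨290, 4000, 1000⟩⟩) (by decide +kernel) tA_ew⟩

def tA5B_pp : PosD ⟨⟨0, 1, 1⟩, ⟨98, 99, 147⟩, ⟨150, 301, 10000⟩, ⟨1800, 2683, 1000⟩⟩ (tA5B.xPL) :=
  posD_of_check (c := ⟨90, ⟨1, 1, 3, 3⟩⟩) (by decide +kernel)

def tA5B_k2p : PosD ⟨⟨0, 1, 1⟩, ⟨98, 99, 147⟩, ⟨150, 301, 10000⟩, ⟨1800, 2683, 1000⟩⟩ (tA5B.k2p tA5B.xE) :=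
  posD_of_check (c := ⟨66, ⟨1, 1, 2, 2⟩⟩) (by decide +kernel)

def tA5B_k2m : PosD ⟨⟨0, 1, 1⟩, ⟨98, 99, 147⟩, ⟨150, 301, 10000⟩, ⟨1800, 2683, 1000⟩⟩ (tA5B.k2m tA5B.xE) :=
  posD_of_check (c := ⟨61, ⟨1, 1, 2, 2⟩⟩) (by decide +kernel)

def tA5B_v2p : PosD ⟨⟨0, 1, 1⟩, ⟨98, 99, 147⟩, ⟨150, 301, 10000⟩, ⟨1800, 2683, 1000⟩⟩ (tA5B.hV2p) :=
  posD_of_check (c := ⟨258, ⟨1, 6, 10, 5⟩⟩) (by decide +kernel)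

def tA5B_v2m : PosD ⟨⟨0, 1, 1⟩, ⟨98, 99, 147⟩, ⟨150, 301, 10000⟩, ⟨1800, 2683, 1000⟩⟩ (tA5B.hV2m) :=
  posD_of_check (c := ⟨254, ⟨1, 6, 10, 5⟩⟩) (by decide +kernel)

def tA5B_v3p : PosD ⟨⟨0, 1, 1⟩, ⟨98, 99, 147⟩, ⟨150, 301, 10000⟩, ⟨1800, 2683, 1000⟩⟩ (tA5B.hV3p) :=
  posD_of_check (c := ⟨246, ⟨1, 6, 9, 5⟩⟩) (by decide +kernel)

def tA5B_v3m : PosD ⟨⟨0, 1, 1⟩, ⟨98, 99, 147⟩, ⟨150, 301, 10000⟩, ⟨1800, 2683, 1000⟩⟩ (tA5B.hV3m) :=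
  posD_of_check (c := ⟨246, ⟨1, 6, 9, 5⟩⟩) (by decide +kernel)

def tA5B_kap0 : PosD ⟨⟨0, 1, 1⟩, ⟨98, 99, 147⟩, ⟨150, 301, 10000⟩, ⟨1800, 2683, 1000⟩⟩ (tA5B.kap false) :=
  posD_of_check (c := ⟨68, ⟨1, 1, 2, 2⟩⟩) (by decide +kernel)

def tA5B_c10 : PosD ⟨⟨0, 1, 1⟩, ⟨98, 99, 147⟩, ⟨150, 301, 10000⟩, ⟨1800, 2683, 1000⟩⟩ (tA5B.hC1 false) :=
  posD_of_check (c := ⟨262, ⟨3, 5, 9, 7⟩⟩) (by decide +kernel)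

def tA5B_c1h0 : PosD ⟨⟨0, 1, 1⟩, ⟨98, 99, 147⟩, ⟨150, 301, 10000⟩, ⟨1800, 2683, 1000⟩⟩ (tA5B.hC1' false) :=
  posD_of_check (c := ⟨262, ⟨3, 5, 9, 7⟩⟩) (by decide +kernel)

def tA5B_tg00 : PosD ⟨⟨0, 1, 1⟩, ⟨98, 99, 147⟩, ⟨150, 301, 10000⟩, ⟨1800, 2683, 1000⟩⟩ (tA5B.hG false (tA5B.pEnd false)) :=
  posD_of_check (c := ⟨369, ⟨2, 7, 14, 9⟩⟩) (by decide +kernel)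

def tA5B_c2p00 : PosD ⟨⟨0, 1, 1⟩, ⟨98, 99, 147⟩, ⟨150, 301, 10000⟩, ⟨1800, 2683, 1000⟩⟩ (tA5B.hC2p false (tA5B.pEnd false)) :=
  posD_of_check (c := ⟨434, ⟨3, 8, 16, 11⟩⟩) (by decide +kernel)

def tA5B_c2m00 : PosD ⟨⟨0, 1, 1⟩, ⟨98, 99, 147⟩, ⟨150, 301, 10000⟩, ⟨1800, 2683, 1000⟩⟩ (tA5B.hC2m false (tA5B.pEnd false)) :=
  posD_of_check (c := ⟨431, ⟨3, 8, 16, 11⟩⟩) (by decide +kernel)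

def tA5B_c3p00 : PosD ⟨⟨0, 1, 1⟩, ⟨98, 99, 147⟩, ⟨150, 301, 10000⟩, ⟨1800, 2683, 1000⟩⟩ (tA5B.hC3p false false) :=
  posD_of_check (c := ⟨427, ⟨3, 8, 15, 11⟩⟩) (by decide +kernel)

def tA5B_c3m00 : PosD ⟨⟨0, 1, 1⟩, ⟨98, 99, 147⟩, ⟨150, 301, 10000⟩, ⟨1800, 2683, 1000⟩⟩ (tA5B.hC3m false false) :=
  posD_of_check (c := ⟨427, ⟨3, 8, 15, 11⟩⟩) (by decide +kernel)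

def tA5B_c3ph00 : PosD ⟨⟨0, 1, 1⟩, ⟨98, 99, 147⟩, ⟨150, 301, 10000⟩, ⟨1800, 2683, 1000⟩⟩ (tA5B.hC3p' false false) :=
  posD_of_check (c := ⟨427, ⟨3, 8, 15, 11⟩⟩) (by decide +kernel)

def tA5B_c3mh00 : PosD ⟨⟨0, 1, 1⟩, ⟨98, 99, 147⟩, ⟨150, 301, 10000⟩, ⟨1800, 2683, 1000⟩⟩ (tA5B.hC3m' false false) :=
  posD_of_check (c := ⟨427, ⟨3, 8, 15, 11⟩⟩) (by decide +kernel)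

def tA5B_up00 : PosD ⟨⟨0, 1, 1⟩, ⟨98, 99, 147⟩, ⟨150, 301, 10000⟩, ⟨1800, 2683, 1000⟩⟩ (tA5B.hUp false false) :=
  posD_of_check (c := ⟨425, ⟨3, 8, 15, 11⟩⟩) (by decide +kernel)

def tA5B_um00 : PosD ⟨⟨0, 1, 1⟩, ⟨98, 99, 147⟩, ⟨150, 301, 10000⟩, ⟨1800, 2683, 1000⟩⟩ (tA5B.hUm false false) :=
  posD_of_check (c := ⟨425, ⟨3, 8, 15, 11⟩⟩) (by decide +kernel)

def tA5B_tmg00 : PosD ⟨⟨0, 1, 1⟩, ⟨98, 99, 147⟩, ⟨150, 301, 10000⟩, ⟨1800, 2683, 1000⟩⟩ (tA5B.hTMG false (tA5B.pEnd false)) :=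
  posD_of_check (c := ⟨385, ⟨2, 7, 14, 10⟩⟩) (by decide +kernel)

def tA5B_tg01 : PosD ⟨⟨0, 1, 1⟩, ⟨98, 99, 147⟩, ⟨150, 301, 10000⟩, ⟨1800, 2683, 1000⟩⟩ (tA5B.hG true (tA5B.pEnd false)) :=
  posD_of_check (c := ⟨369, ⟨2, 7, 14, 9⟩⟩) (by decide +kernel)

def tA5B_c2p01 : PosD ⟨⟨0, 1, 1⟩, ⟨98, 99, 147⟩, ⟨150, 301, 10000⟩, ⟨1800, 2683, 1000⟩⟩ (tA5B.hC2p true (tA5B.pEnd false)) :=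
  posD_of_check (c := ⟨434, ⟨3, 8, 16, 11⟩⟩) (by decide +kernel)

def tA5B_c2m01 : PosD ⟨⟨0, 1, 1⟩, ⟨98, 99, 147⟩, ⟨150, 301, 10000⟩, ⟨1800, 2683, 1000⟩⟩ (tA5B.hC2m true (tA5B.pEnd false)) :=
  posD_of_check (c := ⟨431, ⟨3, 8, 16, 11⟩⟩) (by decide +kernel)

def tA5B_c3p01 : PosD ⟨⟨0, 1, 1⟩, ⟨98, 99, 147⟩, ⟨150, 301, 10000⟩, ⟨1800, 2683, 1000⟩⟩ (tA5B.hC3p false true) :=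
  posD_of_check (c := ⟨427, ⟨3, 8, 15, 11⟩⟩) (by decide +kernel)

def tA5B_c3m01 : PosD ⟨⟨0, 1, 1⟩, ⟨98, 99, 147⟩, ⟨150, 301, 10000⟩, ⟨1800, 2683, 1000⟩⟩ (tA5B.hC3m false true) :=
  posD_of_check (c := ⟨427, ⟨3, 8, 15, 11⟩⟩) (by decide +kernel)

def tA5B_c3ph01 : PosD ⟨⟨0, 1, 1⟩, ⟨98, 99, 147⟩, ⟨150, 301, 10000⟩, ⟨1800, 2683, 1000⟩⟩ (tA5B.hC3p' false true) :=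
  posD_of_check (c := ⟨427, ⟨3, 8, 15, 11⟩⟩) (by decide +kernel)

def tA5B_c3mh01 : PosD ⟨⟨0, 1, 1⟩, ⟨98, 99, 147⟩, ⟨150, 301, 10000⟩, ⟨1800, 2683, 1000⟩⟩ (tA5B.hC3m' false true) :=
  posD_of_check (c := ⟨427, ⟨3, 8, 15, 11⟩⟩) (by decide +kernel)

def tA5B_up01 : PosD ⟨⟨0, 1, 1⟩, ⟨98, 99, 147⟩, ⟨150, 301, 10000⟩, ⟨1800, 2683, 1000⟩⟩ (tA5B.hUp false true) :=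
  posD_of_check (c := ⟨425, ⟨3, 8, 15, 11⟩⟩) (by decide +kernel)

def tA5B_um01 : PosD ⟨⟨0, 1, 1⟩, ⟨98, 99, 147⟩, ⟨150, 301, 10000⟩, ⟨1800, 2683, 1000⟩⟩ (tA5B.hUm false true) :=
  posD_of_check (c := ⟨425, ⟨3, 8, 15, 11⟩⟩) (by decide +kernel)

def tA5B_tmg01 : PosD ⟨⟨0, 1, 1⟩, ⟨98, 99, 147⟩, ⟨150, 301, 10000⟩, ⟨1800, 2683, 1000⟩⟩ (tA5B.hTMG true (tA5B.pEnd false)) :=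
  posD_of_check (c := ⟨385, ⟨2, 7, 14, 10⟩⟩) (by decide +kernel)

def tA5B_kap1 : PosD ⟨⟨0, 1, 1⟩, ⟨98, 99, 147⟩, ⟨150, 301, 10000⟩, ⟨1800, 2683, 1000⟩⟩ (tA5B.kap true) :=
  posD_of_check (c := ⟨71, ⟨1, 1, 2, 2⟩⟩) (by decide +kernel)

def tA5B_c11 : PosD ⟨⟨0, 1, 1⟩, ⟨98, 99, 147⟩, ⟨150, 301, 10000⟩, ⟨1800, 2683, 1000⟩⟩ (tA5B.hC1 true) :=
  posD_of_check (c := ⟨267, ⟨3, 5, 9, 7⟩⟩) (by decide +kernel)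

def tA5B_c1h1 : PosD ⟨⟨0, 1, 1⟩, ⟨98, 99, 147⟩, ⟨150, 301, 10000⟩, ⟨1800, 2683, 1000⟩⟩ (tA5B.hC1' true) :=
  posD_of_check (c := ⟨267, ⟨3, 5, 9, 7⟩⟩) (by decide +kernel)

def tA5B_tg10 : PosD ⟨⟨0, 1, 1⟩, ⟨98, 99, 147⟩, ⟨150, 301, 10000⟩, ⟨1800, 2683, 1000⟩⟩ (tA5B.hG false (tA5B.pEnd true)) :=
  posD_of_check (c := ⟨373, ⟨2, 7, 14, 9⟩⟩) (by decide +kernel)

def tA5B_c2p10 : PosD ⟨⟨0, 1, 1⟩, ⟨98, 99, 147⟩, ⟨150, 301, 10000⟩, ⟨1800, 2683, 1000⟩⟩ (tA5B.hC2p false (tA5B.pEnd true)) :=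
  posD_of_check (c := ⟨438, ⟨3, 8, 16, 11⟩⟩) (by decide +kernel)

def tA5B_c2m10 : PosD ⟨⟨0, 1, 1⟩, ⟨98, 99, 147⟩, ⟨150, 301, 10000⟩, ⟨1800, 2683, 1000⟩⟩ (tA5B.hC2m false (tA5B.pEnd true)) :=
  posD_of_check (c := ⟨434, ⟨3, 8, 16, 11⟩⟩) (by decide +kernel)

def tA5B_c3p10 : PosD ⟨⟨0, 1, 1⟩, ⟨98, 99, 147⟩, ⟨150, 301, 10000⟩, ⟨1800, 2683, 1000⟩⟩ (tA5B.hC3p true false) :=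
  posD_of_check (c := ⟨431, ⟨3, 8, 15, 11⟩⟩) (by decide +kernel)

def tA5B_c3m10 : PosD ⟨⟨0, 1, 1⟩, ⟨98, 99, 147⟩, ⟨150, 301, 10000⟩, ⟨1800, 2683, 1000⟩⟩ (tA5B.hC3m true false) :=
  posD_of_check (c := ⟨431, ⟨3, 8, 15, 11⟩⟩) (by decide +kernel)

def tA5B_c3ph10 : PosD ⟨⟨0, 1, 1⟩, ⟨98, 99, 147⟩, ⟨150, 301, 10000⟩, ⟨1800, 2683, 1000⟩⟩ (tA5B.hC3p' true false) :=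
  posD_of_check (c := ⟨431, ⟨3, 8, 15, 11⟩⟩) (by decide +kernel)

def tA5B_c3mh10 : PosD ⟨⟨0, 1, 1⟩, ⟨98, 99, 147⟩, ⟨150, 301, 10000⟩, ⟨1800, 2683, 1000⟩⟩ (tA5B.hC3m' true false) :=
  posD_of_check (c := ⟨431, ⟨3, 8, 15, 11⟩⟩) (by decide +kernel)

def tA5B_up10 : PosD ⟨⟨0, 1, 1⟩, ⟨98, 99, 147⟩, ⟨150, 301, 10000⟩, ⟨1800, 2683, 1000⟩⟩ (tA5B.hUp true false) :=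
  posD_of_check (c := ⟨427, ⟨3, 8, 15, 11⟩⟩) (by decide +kernel)

def tA5B_um10 : PosD ⟨⟨0, 1, 1⟩, ⟨98, 99, 147⟩, ⟨150, 301, 10000⟩, ⟨1800, 2683, 1000⟩⟩ (tA5B.hUm true false) :=
  posD_of_check (c := ⟨427, ⟨3, 8, 15, 11⟩⟩) (by decide +kernel)

def tA5B_tmg10 : PosD ⟨⟨0, 1, 1⟩, ⟨98, 99, 147⟩, ⟨150, 301, 10000⟩, ⟨1800, 2683, 1000⟩⟩ (tA5B.hTMG false (tA5B.pEnd true)) :=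
  posD_of_check (c := ⟨386, ⟨2, 7, 14, 10⟩⟩) (by decide +kernel)

def tA5B_tg11 : PosD ⟨⟨0, 1, 1⟩, ⟨98, 99, 147⟩, ⟨150, 301, 10000⟩, ⟨1800, 2683, 1000⟩⟩ (tA5B.hG true (tA5B.pEnd true)) :=
  posD_of_check (c := ⟨373, ⟨2, 7, 14, 9⟩⟩) (by decide +kernel)

def tA5B_c2p11 : PosD ⟨⟨0, 1, 1⟩, ⟨98, 99, 147⟩, ⟨150, 301, 10000⟩, ⟨1800, 2683, 1000⟩⟩ (tA5B.hC2p true (tA5B.pEnd true)) :=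
  posD_of_check (c := ⟨438, ⟨3, 8, 16, 11⟩⟩) (by decide +kernel)

def tA5B_c2m11 : PosD ⟨⟨0, 1, 1⟩, ⟨98, 99, 147⟩, ⟨150, 301, 10000⟩, ⟨1800, 2683, 1000⟩⟩ (tA5B.hC2m true (tA5B.pEnd true)) :=
  posD_of_check (c := ⟨434, ⟨3, 8, 16, 11⟩⟩) (by decide +kernel)

def tA5B_c3p11 : PosD ⟨⟨0, 1, 1⟩, ⟨98, 99, 147⟩, ⟨150, 301, 10000⟩, ⟨1800, 2683, 1000⟩⟩ (tA5B.hC3p true true) :=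
  posD_of_check (c := ⟨431, ⟨3, 8, 15, 11⟩⟩) (by decide +kernel)

def tA5B_c3m11 : PosD ⟨⟨0, 1, 1⟩, ⟨98, 99, 147⟩, ⟨150, 301, 10000⟩, ⟨1800, 2683, 1000⟩⟩ (tA5B.hC3m true true) :=
  posD_of_check (c := ⟨431, ⟨3, 8, 15, 11⟩⟩) (by decide +kernel)

def tA5B_c3ph11 : PosD ⟨⟨0, 1, 1⟩, ⟨98, 99, 147⟩, ⟨150, 301, 10000⟩, ⟨1800, 2683, 1000⟩⟩ (tA5B.hC3p' true true) :=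
  posD_of_check (c := ⟨431, ⟨3, 8, 15, 11⟩⟩) (by decide +kernel)

def tA5B_c3mh11 : PosD ⟨⟨0, 1, 1⟩, ⟨98, 99, 147⟩, ⟨150, 301, 10000⟩, ⟨1800, 2683, 1000⟩⟩ (tA5B.hC3m' true true) :=
  posD_of_check (c := ⟨431, ⟨3, 8, 15, 11⟩⟩) (by decide +kernel)

def tA5B_up11 : PosD ⟨⟨0, 1, 1⟩, ⟨98, 99, 147⟩, ⟨150, 301, 10000⟩, ⟨1800, 2683, 1000⟩⟩ (tA5B.hUp true true) :=
  posD_of_check (c := ⟨427, ⟨3, 8, 15, 11⟩⟩) (by decide +kernel)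

def tA5B_um11 : PosD ⟨⟨0, 1, 1⟩, ⟨98, 99, 147⟩, ⟨150, 301, 10000⟩, ⟨1800, 2683, 1000⟩⟩ (tA5B.hUm true true) :=
  posD_of_check (c := ⟨427, ⟨3, 8, 15, 11⟩⟩) (by decide +kernel)

def tA5B_tmg11 : PosD ⟨⟨0, 1, 1⟩, ⟨98, 99, 147⟩, ⟨150, 301, 10000⟩, ⟨1800, 2683, 1000⟩⟩ (tA5B.hTMG true (tA5B.pEnd true)) :=
  posD_of_check (c := ⟨386, ⟨2, 7, 14, 10⟩⟩) (by decide +kernel)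

/-- The signs of the piece. -/
def tA5B_sign : tA5B.Sign ⟨⟨0, 1, 1⟩, ⟨98, 99, 147⟩, ⟨150, 301, 10000⟩, ⟨1800, 2683, 1000⟩⟩ :=
  ⟨tA5B_pp,
    tA5B_k2p,
    tA5B_k2m,
    Bool.forall_bool.2 ⟨(Bool.forall_bool.2 ⟨tA5B_tg00, tA5B_tg01⟩), (Bool.forall_bool.2 ⟨tA5B_tg10, tA5B_tg11⟩)⟩,
    Bool.forall_bool.2 ⟨(Bool.forall_bool.2 ⟨tA5B_c2p00, tA5B_c2p01⟩), (Bool.forall_bool.2 ⟨tA5B_c2p10, tA5B_c2p11⟩)⟩,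
    Bool.forall_bool.2 ⟨(Bool.forall_bool.2 ⟨tA5B_c2m00, tA5B_c2m01⟩), (Bool.forall_bool.2 ⟨tA5B_c2m10, tA5B_c2m11⟩)⟩,
    Bool.forall_bool.2 ⟨tA5B_kap0, tA5B_kap1⟩,
    Bool.forall_bool.2 ⟨tA5B_c10, tA5B_c11⟩,
    Bool.forall_bool.2 ⟨(Bool.forall_bool.2 ⟨tA5B_c3p00, tA5B_c3p01⟩), (Bool.forall_bool.2 ⟨tA5B_c3p10, tA5B_c3p11⟩)⟩,
    Bool.forall_bool.2 ⟨(Bool.forall_bool.2 ⟨tA5B_c3m00, tA5B_c3m01⟩), (Bool.forall_bool.2 ⟨tA5B_c3m10, tA5B_c3m11⟩)⟩,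
    Bool.forall_bool.2 ⟨(Bool.forall_bool.2 ⟨tA5B_tmg00, tA5B_tmg01⟩), (Bool.forall_bool.2 ⟨tA5B_tmg10, tA5B_tmg11⟩)⟩,
    .inr (Bool.forall_bool.2 ⟨⟨tA5B_c1h0, Bool.forall_bool.2 ⟨⟨tA5B_c3ph00, tA5B_c3mh00, tA5B_up00, tA5B_um00⟩, ⟨tA5B_c3ph01, tA5B_c3mh01, tA5B_up01, tA5B_um01⟩⟩⟩, ⟨tA5B_c1h1, Bool.forall_bool.2 ⟨⟨tA5B_c3ph10, tA5B_c3mh10, tA5B_up10, tA5B_um10⟩, ⟨tA5B_c3ph11, tA5B_c3mh11, tA5B_up11, tA5B_um11⟩⟩⟩⟩),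
    tA5B_v2p,
    tA5B_v2m,
    tA5B_v3p,
    tA5B_v3m,
    posD_sub (b := ⟨⟨0, 1, 1⟩, ⟨98, 99, 147⟩, ⟨0, 301, 10000⟩, ⟨290, 4000, 1000⟩⟩) (by decide +kernel) tA_vG,
    posD_sub (b := ⟨⟨0, 1, 1⟩, ⟨98, 99, 147⟩, ⟨0, 301, 10000⟩, ⟨290, 4000, 1000⟩⟩) (by decide +kernel) tA_vMG,
    posD_sub (b := ⟨⟨0, 1, 1⟩, ⟨98, 99, 147⟩, ⟨0, 301, 10000⟩, ⟨290, 4000, 1000⟩⟩) (by decide +kernel) tA_ak,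
    posD_sub (b := ⟨⟨0, 1, 1⟩, ⟨98, 99, 147⟩, ⟨0, 301, 10000⟩, ⟨290, 4000, 1000⟩⟩) (by decide +kernel) tA_aw,
    posD_sub (b := ⟨⟨0, 1, 1⟩, ⟨98, 99, 147⟩, ⟨0, 301, 10000⟩, ⟨290, 4000, 1000⟩⟩) (by decide +kernel) tA_gk,
    posD_sub (b := ⟨⟨0, 1, 1⟩, ⟨98, 99, 147⟩, ⟨0, 301, 10000⟩, ⟨290, 4000, 1000⟩⟩) (by decide +kernel) tA_gw,
    posD_sub (b := ⟨⟨0, 1, 1⟩, ⟨98, 99, 147⟩, ⟨0, 301, 10000⟩, ⟨290, 4000, 1000⟩⟩) (by decide +kernel) tA_ek,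
    posD_sub (b := ⟨⟨0, 1, 1⟩, ⟨98, 99, 147⟩, ⟨0, 301, 10000⟩, ⟨290, 4000, 1000⟩⟩) (by decide +kernel) tA_ew⟩

end Vale.Agent.P100.Calib.Closed.Six.Tail
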