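import Vale.Agent.P100.Calib.SlabSixTailDataA

/-!
# Checks of some pieces of the certificate

The checks are written as definitions so that they run one after another, which keeps the memory of the
kernel low.
-/

set_option linter.defProp false

namespace Vale.Agent.P100.Calib.Closed.Six.Tail

open BoxPos Large

local instance sixTailCheckstA6Add : Add Ex := ⟨Ex.add⟩
local instance sixTailCheckstA6Sub : Sub Ex := ⟨Ex.sub⟩
local instance sixTailCheckstA6Mul : Mul Ex := ⟨Ex.mul⟩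

def tA6_phx : PosD ⟨⟨0, 1, 1⟩, ⟨98, 99, 147⟩, ⟨0, 301, 10000⟩, ⟨2683, 4000, 1000⟩⟩ (phAn (tA6Hi + xO * (tA6Lo - tA6Hi))) :=
  posD_of_check0 (c := ⟨64, ⟨2, 0, 2, 1⟩⟩) (by decide +kernel)

def tA6_phd : PosD ⟨⟨0, 1, 1⟩, ⟨98, 99, 147⟩, ⟨0, 301, 10000⟩, ⟨2683, 4000, 1000⟩⟩ (phAd (tA6Hi + xO * (tA6Lo - tA6Hi))) :=
  posD_of_check0 (c := ⟨47, ⟨1, 0, 2, 0⟩⟩) (by decide +kernel)

end Vale.Agent.P100.Calib.Closed.Six.Tail
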