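import Vale.Agent.P100.Calib.SlabSixTailCorner
import Vale.Agent.P100.Calib.SlabSixTailCheckstA0
import Vale.Agent.P100.Calib.SlabSixTailCheckstA1
import Vale.Agent.P100.Calib.SlabSixTailCheckstA2
import Vale.Agent.P100.Calib.SlabSixTailCheckstA3
import Vale.Agent.P100.Calib.SlabSixTailCheckstA4
import Vale.Agent.P100.Calib.SlabSixTailCheckstA5
import Vale.Agent.P100.Calib.SlabSixTailCheckstA6

/-!
# The closed signs of dimension six on one part of the tail
-/

set_option linter.unusedVariables false

namespace Vale.Agent.P100.Calib.Closed.Six.Tail

open BoxPos Large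
local instance sixTailMainAAdd : Add Ex := ⟨Ex.add⟩
local instance sixTailMainASub : Sub Ex := ⟨Ex.sub⟩
local instance sixTailMainAMul : Mul Ex := ⟨Ex.mul⟩

/-- **The closed signs on this part of the tail.** -/
theorem signsTailA : Six.SignsTail Six.bandsA 0 (3 / 100) := by
  intro d S u v t hB h0 h1 hu hu1 hF hphi hlow hup
  have hd := hB.pos
  have hS0 : 0 < S := by linarith [hB.S_low]
  have hdS : d ≤ S := by linarith [hB.S_low, hB.tri]
  have hD := dom_of hB hF
  have hv := hF.v_low
  have hd3 : d < 1 / 3 := by linarith [hB.S_low, hB.tri]
  have hv0 : 29 / 100 ≤ v := by linarith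
  have hv4 : v < 4 := by
    by_contra hne
    have h4 := not_lt.1 hne
    nlinarith [hF.kap, hF.r_lt, hB.S_low, mul_le_mul_of_nonneg_left h4 (mul_nonneg hS0.le hd.le), mul_le_mul_of_nonneg_left h4 (sub_nonneg.2 hdS)]
  have mS : Side.Mem ⟨98, 99, 147⟩ S := by
    simp only [Side.Mem]; norm_num; constructor <;> linarith [hB.S_low, hB.S_high]
  have mu : Side.Mem ⟨600, 980, 1000⟩ u := by simp only [Side.Mem]; norm_num; constructor <;> linarith
  have md0 : Side.Mem ⟨0, 301, 10000⟩ d := by simp only [Side.Mem]; norm_num; constructor <;> linarith
  have mv0 : Side.Mem ⟨290, 4000, 1000⟩ v := by simp only [Side.Mem]; norm_num; constructor <;> linarith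
  have ht : 0 ≤ t := by
    have k1 := tA_lowN u S d v mu mS md0 mv0 hD
    have k2 := tA_lowD u S d v mu mS md0 mv0 hD
    have k := lowT_le (x := xO) (o := u) rfl k2 hlow
    exact (pos_of_mul_pos_left (k1.trans_le k) k2.le).le
  have T : Pt d S u v t := ⟨hd, hD, hB.S_low, hB.S_high, hdS, mS, hF,
    llg_nonneg tA_llgLo tA_llgHi mu mS md0 mv0 hd hD hS0 (by linarith [hB.S_high]) ht hdS (by linarith) hF⟩
  rcases lt_or_ge v (1342 / 1000 : ℝ) with h2 | h2
  · rcases lt_or_ge v (500 / 1000 : ℝ) with h4 | h4
    · have md : Side.Mem ⟨0, 301, 10000⟩ d := by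
        simp only [Side.Mem]; norm_num; constructor <;> linarith
      have mv : Side.Mem ⟨290, 500, 1000⟩ v := by
        simp only [Side.Mem]; norm_num; constructor <;> linarith
      exact piece_signs tA0_env tA0_sign (by decide +kernel) T
        ⟨rfl, mS, md, mv, by decide +kernel, by decide +kernel, by norm_num [tA0, ex_add, ex_sub, ex_mul, Ex.val]; linarith, by norm_num [tA0, ex_add, ex_sub, ex_mul, Ex.val]; linarith,
          fun o mo hx => by
            have hD := tA0_env.den false o S d v mo mS md mv T.dom
            have hD' := tA0_env.den true o S d v mo mS md mv T.dom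
            exact ⟨lowT_le hx hD hlow, upA_le hx hD' hup⟩⟩
    · rcases lt_or_ge v (1000 / 1000 : ℝ) with h6 | h6
      · have md : Side.Mem ⟨0, 301, 10000⟩ d := by
          simp only [Side.Mem]; norm_num; constructor <;> linarith
        have mv : Side.Mem ⟨500, 1000, 1000⟩ v := by
          simp only [Side.Mem]; norm_num; constructor <;> linarith
        exact piece_signs tA1_env tA1_sign (by decide +kernel) T
          ⟨rfl, mS, md, mv, by decide +kernel, by decide +kernel, by norm_num [tA1, ex_add, ex_sub, ex_mul, Ex.val]; linarith, by norm_num [tA1, ex_add, ex_sub, ex_mul, Ex.val]; linarith,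
            fun o mo hx => by
              have hD := tA1_env.den false o S d v mo mS md mv T.dom
              have hD' := tA1_env.den true o S d v mo mS md mv T.dom
              exact ⟨lowT_le hx hD hlow, upA_le hx hD' hup⟩⟩
      · have md : Side.Mem ⟨0, 301, 10000⟩ d := by
          simp only [Side.Mem]; norm_num; constructor <;> linarith
        have mv : Side.Mem ⟨1000, 1342, 1000⟩ v := by
          simp only [Side.Mem]; norm_num; constructor <;> linarith
        have hlo : tA2.u₁.val 0 S d v < u := by
          by_contra hne
          have hh := not_lt.1 hne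
          have hl : tA2Lo.val 0 S d v < u := by norm_num [tA2Lo, ex_add, ex_sub, ex_mul, Ex.val]; linarith
          obtain ⟨o, mo, hx⟩ := place (U := tA2.u₁) (L := tA2Lo) (by decide +kernel) (by decide +kernel) hl hh
          have hg : 0 < (tA2.u₁ - tA2Lo).val o S d v := by
            simp only [ex_sub, Ex.val, val_noO (e := tA2.u₁) (by decide +kernel) o 0, val_noO (e := tA2Lo) (by decide +kernel) o 0]
            linarith
          exact phA_false hx (tA2_phx o S d v mo mS md mv T.dom hg) (tA2_phd o S d v mo mS md mv T.dom) hphi
        exact piece_signs tA2_env tA2_sign (by decide +kernel) T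
          ⟨rfl, mS, md, mv, by decide +kernel, by decide +kernel, hlo, by norm_num [tA2, ex_add, ex_sub, ex_mul, Ex.val]; linarith,
            fun o mo hx => by
              have hD := tA2_env.den false o S d v mo mS md mv T.dom
              have hD' := tA2_env.den true o S d v mo mS md mv T.dom
              exact ⟨lowT_le hx hD hlow, upA_le hx hD' hup⟩⟩
  · rcases lt_or_ge v (1800 / 1000 : ℝ) with h4 | h4
    · have md : Side.Mem ⟨0, 301, 10000⟩ d := by
        simp only [Side.Mem]; norm_num; constructor <;> linarith
      have mv : Side.Mem ⟨1342, 1800, 1000⟩ v := by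
        simp only [Side.Mem]; norm_num; constructor <;> linarith
      have hlo : tA3.u₁.val 0 S d v < u := by
        by_contra hne
        have hh := not_lt.1 hne
        have hl : tA3Lo.val 0 S d v < u := by norm_num [tA3Lo, ex_add, ex_sub, ex_mul, Ex.val]; linarith
        obtain ⟨o, mo, hx⟩ := place (U := tA3.u₁) (L := tA3Lo) (by decide +kernel) (by decide +kernel) hl hh
        have hg : 0 < (tA3.u₁ - tA3Lo).val o S d v := by
          simp only [ex_sub, Ex.val, val_noO (e := tA3.u₁) (by decide +kernel) o 0, val_noO (e := tA3Lo) (by decide +kernel) o 0]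
          linarith
        exact phA_false hx (tA3_phx o S d v mo mS md mv T.dom hg) (tA3_phd o S d v mo mS md mv T.dom) hphi
      exact piece_signs tA3_env tA3_sign (by decide +kernel) T
        ⟨rfl, mS, md, mv, by decide +kernel, by decide +kernel, hlo, by norm_num [tA3, ex_add, ex_sub, ex_mul, Ex.val]; linarith,
          fun o mo hx => by
            have hD := tA3_env.den false o S d v mo mS md mv T.dom
            have hD' := tA3_env.den true o S d v mo mS md mv T.dom
            exact ⟨lowT_le hx hD hlow, upA_le hx hD' hup⟩⟩
    · rcases lt_or_ge v (2683 / 1000 : ℝ) with h6 | h6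
      · rcases lt_or_ge d (150 / 10000 : ℝ) with h8 | h8
        · have md : Side.Mem ⟨0, 150, 10000⟩ d := by
            simp only [Side.Mem]; norm_num; constructor <;> linarith
          have mv : Side.Mem ⟨1800, 2683, 1000⟩ v := by
            simp only [Side.Mem]; norm_num; constructor <;> linarith
          have hlo : tA4.u₁.val 0 S d v < u := by
            by_contra hne
            have hh := not_lt.1 hne
            have hl : tA4Lo.val 0 S d v < u := by norm_num [tA4Lo, ex_add, ex_sub, ex_mul, Ex.val]; linarith
            obtain ⟨o, mo, hx⟩ := place (U := tA4.u₁) (L := tA4Lo) (by decide +kernel) (by decide +kernel) hl hh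
            have hg : 0 < (tA4.u₁ - tA4Lo).val o S d v := by
              simp only [ex_sub, Ex.val, val_noO (e := tA4.u₁) (by decide +kernel) o 0, val_noO (e := tA4Lo) (by decide +kernel) o 0]
              linarith
            exact phA_false hx (tA4_phx o S d v mo mS md mv T.dom hg) (tA4_phd o S d v mo mS md mv T.dom) hphi
          exact piece_signs tA4_env tA4_sign (by decide +kernel) T
            ⟨rfl, mS, md, mv, by decide +kernel, by decide +kernel, hlo, by norm_num [tA4, ex_add, ex_sub, ex_mul, Ex.val]; linarith,
              fun o mo hx => by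
                have hD := tA4_env.den false o S d v mo mS md mv T.dom
                have hD' := tA4_env.den true o S d v mo mS md mv T.dom
                exact ⟨lowT_le hx hD hlow, upA_le hx hD' hup⟩⟩
        · have md : Side.Mem ⟨150, 301, 10000⟩ d := by
            simp only [Side.Mem]; norm_num; constructor <;> linarith
          have mv : Side.Mem ⟨1800, 2683, 1000⟩ v := by
            simp only [Side.Mem]; norm_num; constructor <;> linarith
          have hlo : tA5.u₁.val 0 S d v < u := by
            by_contra hne
            have hh := not_lt.1 hne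
            have hl : tA5Lo.val 0 S d v < u := by norm_num [tA5Lo, ex_add, ex_sub, ex_mul, Ex.val]; linarith
            obtain ⟨o, mo, hx⟩ := place (U := tA5.u₁) (L := tA5Lo) (by decide +kernel) (by decide +kernel) hl hh
            have hg : 0 < (tA5.u₁ - tA5Lo).val o S d v := by
              simp only [ex_sub, Ex.val, val_noO (e := tA5.u₁) (by decide +kernel) o 0, val_noO (e := tA5Lo) (by decide +kernel) o 0]
              linarith
            exact phA_false hx (tA5_phx o S d v mo mS md mv T.dom hg) (tA5_phd o S d v mo mS md mv T.dom) hphi
          exact piece_signs_cut tA5_env tA5_envU tA5A_sign tA5B_sign (by decide +kernel) (by decide +kernel) T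
            ⟨rfl, mS, md, mv, by decide +kernel, by decide +kernel, hlo, by norm_num [tA5, ex_add, ex_sub, ex_mul, Ex.val]; linarith,
              fun o mo hx => by
                have hD := tA5_env.den false o S d v mo mS md mv T.dom
                have hD' := tA5_env.den true o S d v mo mS md mv T.dom
                exact ⟨lowT_le hx hD hlow, upA_le hx hD' hup⟩⟩
      · have md : Side.Mem ⟨0, 301, 10000⟩ d := by
          simp only [Side.Mem]; norm_num; constructor <;> linarith
        have mv : Side.Mem ⟨2683, 4000, 1000⟩ v := by
          simp only [Side.Mem]; norm_num; constructor <;> linarith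
        have hl : tA6Lo.val 0 S d v < u := by norm_num [tA6Lo, ex_add, ex_sub, ex_mul, Ex.val]; linarith
        have hh : u ≤ tA6Hi.val 0 S d v := by norm_num [tA6Hi, ex_add, ex_sub, ex_mul, Ex.val]; linarith
        obtain ⟨o, mo, hx⟩ := place (by decide +kernel) (by decide +kernel) hl hh
        exact (phA_false hx (tA6_phx o S d v mo mS md mv T.dom) (tA6_phd o S d v mo mS md mv T.dom) hphi).elim

end Vale.Agent.P100.Calib.Closed.Six.Tail
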