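import Mathlib
import Vale.Agent.P100.Calib.SlabAssemblySix
import Vale.Agent.P100.Calib.SlabSignsSixNeg
import Vale.Agent.P100.Calib.SlabSignsSixLow
import Vale.Agent.P100.Calib.SlabSixTailA
import Vale.Agent.P100.Calib.SlabSixEndSigns
import Vale.Agent.P100.Calib.SlabSixRatOrbit

/-!
# Dimension six from the closed signs still to be checked on pieces B and C of the tail

All orbit inputs of `lane_emden_six_of` (the lower band, the exit curves, hence the tail bands
and the threshold) and the closed signs past the crossing, on `u ≤ 3/5`, on the tail of piece A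
and at the end are plugged in here.
-/

namespace Vale.Agent.P100.Calib.Band

open Vale.Agent.P100.Calib.Closed

/-- The closed inputs of dimension six from the remaining sign regions. -/
theorem slabClosedSix_of_signs
    (tB : Six.SignsTail Six.bandsB (3 / 100) (27 / 200))
    (tC : Six.SignsTail Six.bandsC (27 / 200) (1 / 3))
    (yA : Six.SignsLayer Six.bandsA 0 (3 / 100))
    (yB : Six.SignsLayer Six.bandsB (3 / 100) (27 / 200)) : SlabClosedSix :=
  slabClosedSix_of_phi Six.signsNeg Six.signsLow Six.Tail.signsTailA tB tC yA yB Six.signsEnd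
    orbitSixLow orbitSixPhi_A orbitSixPhi_B orbitSixPhi_C

/-- **The Lane–Emden conjecture in dimension six from the remaining sign regions.** -/
theorem lane_emden_six_of_signs
    (tB : Six.SignsTail Six.bandsB (3 / 100) (27 / 200))
    (tC : Six.SignsTail Six.bandsC (27 / 200) (1 / 3))
    (yA : Six.SignsLayer Six.bandsA 0 (3 / 100))
    (yB : Six.SignsLayer Six.bandsB (3 / 100) (27 / 200))
    {p q : ℝ} (hp : 0 < p) (hq : 0 < q) (hsub : (2 : ℝ) / 3 < 1 / (p + 1) + 1 / (q + 1)) :
    ¬ ∃ u v : EuclideanSpace ℝ (Fin 6) → ℝ,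
      Continuous u ∧ Continuous v ∧ ContDiffOn ℝ 2 u {0}ᶜ ∧ ContDiffOn ℝ 2 v {0}ᶜ ∧
      (∀ x, 0 < u x) ∧ (∀ x, 0 < v x) ∧
      (∀ x, x ≠ 0 → Laplacian.laplacian u x = -(v x) ^ p) ∧
      (∀ x, x ≠ 0 → Laplacian.laplacian v x = -(u x) ^ q) :=
  lane_emden_six (slabCalibSix_of_closed (slabClosedSix_of_signs tB tC yA yB)) hp hq hsub

end Vale.Agent.P100.Calib.Band
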