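import Vale.Agent.P100.Calib.SlabSixTailDataB
import Vale.Agent.P100.Calib.SlabSixTailGlobB

/-!
# Checks of some pieces of the certificate

The checks are written as definitions so that they run one after another, which keeps the memory of the
kernel low.
-/

set_option linter.defProp false

namespace Vale.Agent.P100.Calib.Closed.Six.Tail

open BoxPos Large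

local instance sixTailCheckstB0Add : Add Ex := ⟨Ex.add⟩
local instance sixTailCheckstB0Sub : Sub Ex := ⟨Ex.sub⟩
local instance sixTailCheckstB0Mul : Mul Ex := ⟨Ex.mul⟩

def tB0_p0 : PosD ⟨⟨0, 1, 1⟩, ⟨98, 99, 147⟩, ⟨300, 1351, 10000⟩, ⟨290, 550, 1000⟩⟩ (tB0.hP0) :=
  posD_of_check (c := ⟨81, ⟨0, 2, 3, 1⟩⟩) (by decide +kernel)

def tB0_gn : PosD ⟨⟨0, 1, 1⟩, ⟨98, 99, 147⟩, ⟨300, 1351, 10000⟩, ⟨290, 550, 1000⟩⟩ (tB0.hGn) :=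
  posD_of_check (c := ⟨55, ⟨1, 1, 2, 1⟩⟩) (by decide +kernel)

def tB0_den0 : PosD ⟨⟨0, 1, 1⟩, ⟨98, 99, 147⟩, ⟨300, 1351, 10000⟩, ⟨290, 550, 1000⟩⟩ (tB0.hDen false) :=
  posD_of_check (c := ⟨47, ⟨1, 0, 2, 0⟩⟩) (by decide +kernel)

def tB0_den1 : PosD ⟨⟨0, 1, 1⟩, ⟨98, 99, 147⟩, ⟨300, 1351, 10000⟩, ⟨290, 550, 1000⟩⟩ (tB0.hDen true) :=
  posD_of_check (c := ⟨47, ⟨1, 0, 2, 0⟩⟩) (by decide +kernel)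

def tB0_ev0 : PosD ⟨⟨0, 1, 1⟩, ⟨98, 99, 147⟩, ⟨300, 1351, 10000⟩, ⟨290, 550, 1000⟩⟩ (tB0.hEv false) :=
  posD_of_check (c := ⟨116, ⟨4, 2, 4, 1⟩⟩) (by decide +kernel)

def tB0_zL0 : PosD ⟨⟨0, 1, 1⟩, ⟨98, 99, 147⟩, ⟨300, 1351, 10000⟩, ⟨290, 550, 1000⟩⟩ (tB0.hZL false) :=
  posD_of_check (c := ⟨161, ⟨4, 3, 6, 3⟩⟩) (by decide +kernel)

def tB0_zU0a : PosD ⟨⟨0, 1, 1⟩, ⟨98, 99, 147⟩, ⟨300, 825, 10000⟩, ⟨290, 550, 1000⟩⟩ (tB0.hZU false) :=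
  posD_of_check (c := ⟨161, ⟨4, 3, 6, 3⟩⟩) (by decide +kernel)

def tB0_zU0b : PosD ⟨⟨0, 1, 1⟩, ⟨98, 99, 147⟩, ⟨825, 1351, 10000⟩, ⟨290, 550, 1000⟩⟩ (tB0.hZU false) :=
  posD_of_check (c := ⟨162, ⟨4, 3, 6, 3⟩⟩) (by decide +kernel)

def tB0_zU0 : PosD ⟨⟨0, 1, 1⟩, ⟨98, 99, 147⟩, ⟨300, 1351, 10000⟩, ⟨290, 550, 1000⟩⟩ (tB0.hZU false) :=
  posD_join₂ tB0_zU0a tB0_zU0b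

def tB0_eL0a : PosD ⟨⟨0, 1, 1⟩, ⟨98, 99, 147⟩, ⟨300, 1351, 10000⟩, ⟨290, 420, 1000⟩⟩ (tB0.hEL false) :=
  posD_of_check (c := ⟨224, ⟨5, 6, 7, 3⟩⟩) (by decide +kernel)

def tB0_eL0ba : PosD ⟨⟨0, 1, 1⟩, ⟨98, 99, 147⟩, ⟨300, 1351, 10000⟩, ⟨420, 485, 1000⟩⟩ (tB0.hEL false) :=
  posD_of_check (c := ⟨224, ⟨5, 6, 7, 3⟩⟩) (by decide +kernel)

def tB0_eL0bbaa : PosD ⟨⟨0, 1, 1⟩, ⟨98, 99, 147⟩, ⟨300, 1351, 10000⟩, ⟨485, 501, 1000⟩⟩ (tB0.hEL false) :=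
  posD_of_check (c := ⟨224, ⟨5, 6, 7, 3⟩⟩) (by decide +kernel)

def tB0_eL0bbab : PosD ⟨⟨0, 1, 1⟩, ⟨98, 99, 147⟩, ⟨300, 1351, 10000⟩, ⟨501, 517, 1000⟩⟩ (tB0.hEL false) :=
  posD_of_check (c := ⟨224, ⟨5, 6, 7, 3⟩⟩) (by decide +kernel)

def tB0_eL0bba : PosD ⟨⟨0, 1, 1⟩, ⟨98, 99, 147⟩, ⟨300, 1351, 10000⟩, ⟨485, 517, 1000⟩⟩ (tB0.hEL false) :=
  posD_join₃ tB0_eL0bbaa tB0_eL0bbab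

def tB0_eL0bbb : PosD ⟨⟨0, 1, 1⟩, ⟨98, 99, 147⟩, ⟨300, 1351, 10000⟩, ⟨517, 550, 1000⟩⟩ (tB0.hEL false) :=
  posD_of_check (c := ⟨224, ⟨5, 6, 7, 3⟩⟩) (by decide +kernel)

def tB0_eL0bb : PosD ⟨⟨0, 1, 1⟩, ⟨98, 99, 147⟩, ⟨300, 1351, 10000⟩, ⟨485, 550, 1000⟩⟩ (tB0.hEL false) :=
  posD_join₃ tB0_eL0bba tB0_eL0bbb

def tB0_eL0b : PosD ⟨⟨0, 1, 1⟩, ⟨98, 99, 147⟩, ⟨300, 1351, 10000⟩, ⟨420, 550, 1000⟩⟩ (tB0.hEL false) :=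
  posD_join₃ tB0_eL0ba tB0_eL0bb

def tB0_eL0 : PosD ⟨⟨0, 1, 1⟩, ⟨98, 99, 147⟩, ⟨300, 1351, 10000⟩, ⟨290, 550, 1000⟩⟩ (tB0.hEL false) :=
  posD_join₃ tB0_eL0a tB0_eL0b

def tB0_eH0 : PosD ⟨⟨0, 1, 1⟩, ⟨98, 99, 147⟩, ⟨300, 1351, 10000⟩, ⟨290, 550, 1000⟩⟩ (tB0.hEH false) :=
  posD_of_check (c := ⟨227, ⟨5, 6, 7, 3⟩⟩) (by decide +kernel)

def tB0_pL0 : PosD ⟨⟨0, 1, 1⟩, ⟨98, 99, 147⟩, ⟨300, 1351, 10000⟩, ⟨290, 550, 1000⟩⟩ (tB0.hPL false) :=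
  posD_of_check (c := ⟨225, ⟨5, 6, 7, 3⟩⟩) (by decide +kernel)

def tB0_pU0 : PosD ⟨⟨0, 1, 1⟩, ⟨98, 99, 147⟩, ⟨300, 1351, 10000⟩, ⟨290, 550, 1000⟩⟩ (tB0.hPU false) :=
  posD_of_check (c := ⟨224, ⟨5, 6, 7, 3⟩⟩) (by decide +kernel)

def tB0_kU0 : PosD ⟨⟨0, 1, 1⟩, ⟨98, 99, 147⟩, ⟨300, 1351, 10000⟩, ⟨290, 550, 1000⟩⟩ (tB0.hKU false) :=
  posD_of_check (c := ⟨224, ⟨5, 6, 7, 3⟩⟩) (by decide +kernel)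

def tB0_kL0 : PosD ⟨⟨0, 1, 1⟩, ⟨98, 99, 147⟩, ⟨300, 1351, 10000⟩, ⟨290, 550, 1000⟩⟩ (tB0.hKL false) :=
  posD_of_check (c := ⟨223, ⟨5, 6, 7, 3⟩⟩) (by decide +kernel)

def tB0_wU0aa : PosD ⟨⟨0, 1, 1⟩, ⟨98, 99, 147⟩, ⟨300, 825, 10000⟩, ⟨290, 420, 1000⟩⟩ (tB0.hWU false) :=
  posD_of_check (c := ⟨255, ⟨5, 8, 8, 3⟩⟩) (by decide +kernel)

def tB0_wU0ab : PosD ⟨⟨0, 1, 1⟩, ⟨98, 99, 147⟩, ⟨825, 1351, 10000⟩, ⟨290, 420, 1000⟩⟩ (tB0.hWU false) :=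
  posD_of_check (c := ⟨256, ⟨5, 8, 8, 3⟩⟩) (by decide +kernel)

def tB0_wU0a : PosD ⟨⟨0, 1, 1⟩, ⟨98, 99, 147⟩, ⟨300, 1351, 10000⟩, ⟨290, 420, 1000⟩⟩ (tB0.hWU false) :=
  posD_join₂ tB0_wU0aa tB0_wU0ab

def tB0_wU0b : PosD ⟨⟨0, 1, 1⟩, ⟨98, 99, 147⟩, ⟨300, 1351, 10000⟩, ⟨420, 550, 1000⟩⟩ (tB0.hWU false) :=
  posD_of_check (c := ⟨256, ⟨5, 8, 8, 3⟩⟩) (by decide +kernel)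

def tB0_wU0 : PosD ⟨⟨0, 1, 1⟩, ⟨98, 99, 147⟩, ⟨300, 1351, 10000⟩, ⟨290, 550, 1000⟩⟩ (tB0.hWU false) :=
  posD_join₃ tB0_wU0a tB0_wU0b

def tB0_wL0 : PosD ⟨⟨0, 1, 1⟩, ⟨98, 99, 147⟩, ⟨300, 1351, 10000⟩, ⟨290, 550, 1000⟩⟩ (tB0.hWL false) :=
  posD_of_check (c := ⟨258, ⟨5, 8, 8, 3⟩⟩) (by decide +kernel)

def tB0_ev1 : PosD ⟨⟨0, 1, 1⟩, ⟨98, 99, 147⟩, ⟨300, 1351, 10000⟩, ⟨290, 550, 1000⟩⟩ (tB0.hEv true) :=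
  posD_of_check (c := ⟨118, ⟨4, 2, 4, 1⟩⟩) (by decide +kernel)

def tB0_zL1aa : PosD ⟨⟨0, 1, 1⟩, ⟨98, 99, 147⟩, ⟨300, 562, 10000⟩, ⟨290, 550, 1000⟩⟩ (tB0.hZL true) :=
  posD_of_check (c := ⟨160, ⟨4, 3, 6, 3⟩⟩) (by decide +kernel)

def tB0_zL1ab : PosD ⟨⟨0, 1, 1⟩, ⟨98, 99, 147⟩, ⟨562, 825, 10000⟩, ⟨290, 550, 1000⟩⟩ (tB0.hZL true) :=
  posD_of_check (c := ⟨161, ⟨4, 3, 6, 3⟩⟩) (by decide +kernel)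

def tB0_zL1a : PosD ⟨⟨0, 1, 1⟩, ⟨98, 99, 147⟩, ⟨300, 825, 10000⟩, ⟨290, 550, 1000⟩⟩ (tB0.hZL true) :=
  posD_join₂ tB0_zL1aa tB0_zL1ab

def tB0_zL1b : PosD ⟨⟨0, 1, 1⟩, ⟨98, 99, 147⟩, ⟨825, 1351, 10000⟩, ⟨290, 550, 1000⟩⟩ (tB0.hZL true) :=
  posD_of_check (c := ⟨161, ⟨4, 3, 6, 3⟩⟩) (by decide +kernel)

def tB0_zL1 : PosD ⟨⟨0, 1, 1⟩, ⟨98, 99, 147⟩, ⟨300, 1351, 10000⟩, ⟨290, 550, 1000⟩⟩ (tB0.hZL true) :=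
  posD_join₂ tB0_zL1a tB0_zL1b

def tB0_zU1 : PosD ⟨⟨0, 1, 1⟩, ⟨98, 99, 147⟩, ⟨300, 1351, 10000⟩, ⟨290, 550, 1000⟩⟩ (tB0.hZU true) :=
  posD_of_check (c := ⟨161, ⟨4, 3, 6, 3⟩⟩) (by decide +kernel)

def tB0_eL1a : PosD ⟨⟨0, 1, 1⟩, ⟨98, 99, 147⟩, ⟨300, 1351, 10000⟩, ⟨290, 420, 1000⟩⟩ (tB0.hEL true) :=
  posD_of_check (c := ⟨225, ⟨5, 6, 7, 3⟩⟩) (by decide +kernel)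

def tB0_eL1ba : PosD ⟨⟨0, 1, 1⟩, ⟨98, 99, 147⟩, ⟨300, 1351, 10000⟩, ⟨420, 485, 1000⟩⟩ (tB0.hEL true) :=
  posD_of_check (c := ⟨226, ⟨5, 6, 7, 3⟩⟩) (by decide +kernel)

def tB0_eL1bbaa : PosD ⟨⟨0, 1, 1⟩, ⟨98, 99, 147⟩, ⟨300, 1351, 10000⟩, ⟨485, 501, 1000⟩⟩ (tB0.hEL true) :=
  posD_of_check (c := ⟨226, ⟨5, 6, 7, 3⟩⟩) (by decide +kernel)

def tB0_eL1bbab : PosD ⟨⟨0, 1, 1⟩, ⟨98, 99, 147⟩, ⟨300, 1351, 10000⟩, ⟨501, 517, 1000⟩⟩ (tB0.hEL true) :=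
  posD_of_check (c := ⟨226, ⟨5, 6, 7, 3⟩⟩) (by decide +kernel)

def tB0_eL1bba : PosD ⟨⟨0, 1, 1⟩, ⟨98, 99, 147⟩, ⟨300, 1351, 10000⟩, ⟨485, 517, 1000⟩⟩ (tB0.hEL true) :=
  posD_join₃ tB0_eL1bbaa tB0_eL1bbab

def tB0_eL1bbb : PosD ⟨⟨0, 1, 1⟩, ⟨98, 99, 147⟩, ⟨300, 1351, 10000⟩, ⟨517, 550, 1000⟩⟩ (tB0.hEL true) :=
  posD_of_check (c := ⟨226, ⟨5, 6, 7, 3⟩⟩) (by decide +kernel)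

def tB0_eL1bb : PosD ⟨⟨0, 1, 1⟩, ⟨98, 99, 147⟩, ⟨300, 1351, 10000⟩, ⟨485, 550, 1000⟩⟩ (tB0.hEL true) :=
  posD_join₃ tB0_eL1bba tB0_eL1bbb

def tB0_eL1b : PosD ⟨⟨0, 1, 1⟩, ⟨98, 99, 147⟩, ⟨300, 1351, 10000⟩, ⟨420, 550, 1000⟩⟩ (tB0.hEL true) :=
  posD_join₃ tB0_eL1ba tB0_eL1bb

def tB0_eL1 : PosD ⟨⟨0, 1, 1⟩, ⟨98, 99, 147⟩, ⟨300, 1351, 10000⟩, ⟨290, 550, 1000⟩⟩ (tB0.hEL true) :=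
  posD_join₃ tB0_eL1a tB0_eL1b

def tB0_eH1aa : PosD ⟨⟨0, 1, 1⟩, ⟨98, 99, 147⟩, ⟨300, 562, 10000⟩, ⟨290, 550, 1000⟩⟩ (tB0.hEH true) :=
  posD_of_check (c := ⟨228, ⟨5, 6, 7, 3⟩⟩) (by decide +kernel)

def tB0_eH1ab : PosD ⟨⟨0, 1, 1⟩, ⟨98, 99, 147⟩, ⟨562, 825, 10000⟩, ⟨290, 550, 1000⟩⟩ (tB0.hEH true) :=
  posD_of_check (c := ⟨228, ⟨5, 6, 7, 3⟩⟩) (by decide +kernel)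

def tB0_eH1a : PosD ⟨⟨0, 1, 1⟩, ⟨98, 99, 147⟩, ⟨300, 825, 10000⟩, ⟨290, 550, 1000⟩⟩ (tB0.hEH true) :=
  posD_join₂ tB0_eH1aa tB0_eH1ab

def tB0_eH1b : PosD ⟨⟨0, 1, 1⟩, ⟨98, 99, 147⟩, ⟨825, 1351, 10000⟩, ⟨290, 550, 1000⟩⟩ (tB0.hEH true) :=
  posD_of_check (c := ⟨229, ⟨5, 6, 7, 3⟩⟩) (by decide +kernel)

def tB0_eH1 : PosD ⟨⟨0, 1, 1⟩, ⟨98, 99, 147⟩, ⟨300, 1351, 10000⟩, ⟨290, 550, 1000⟩⟩ (tB0.hEH true) :=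
  posD_join₂ tB0_eH1a tB0_eH1b

def tB0_pL1 : PosD ⟨⟨0, 1, 1⟩, ⟨98, 99, 147⟩, ⟨300, 1351, 10000⟩, ⟨290, 550, 1000⟩⟩ (tB0.hPL true) :=
  posD_of_check (c := ⟨226, ⟨5, 6, 7, 3⟩⟩) (by decide +kernel)

def tB0_pU1a : PosD ⟨⟨0, 1, 1⟩, ⟨98, 99, 147⟩, ⟨300, 1351, 10000⟩, ⟨290, 420, 1000⟩⟩ (tB0.hPU true) :=
  posD_of_check (c := ⟨225, ⟨5, 6, 7, 3⟩⟩) (by decide +kernel)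

def tB0_pU1ba : PosD ⟨⟨0, 1, 1⟩, ⟨98, 99, 147⟩, ⟨300, 1351, 10000⟩, ⟨420, 485, 1000⟩⟩ (tB0.hPU true) :=
  posD_of_check (c := ⟨225, ⟨5, 6, 7, 3⟩⟩) (by decide +kernel)

def tB0_pU1bb : PosD ⟨⟨0, 1, 1⟩, ⟨98, 99, 147⟩, ⟨300, 1351, 10000⟩, ⟨485, 550, 1000⟩⟩ (tB0.hPU true) :=
  posD_of_check (c := ⟨225, ⟨5, 6, 7, 3⟩⟩) (by decide +kernel)

def tB0_pU1b : PosD ⟨⟨0, 1, 1⟩, ⟨98, 99, 147⟩, ⟨300, 1351, 10000⟩, ⟨420, 550, 1000⟩⟩ (tB0.hPU true) :=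
  posD_join₃ tB0_pU1ba tB0_pU1bb

def tB0_pU1 : PosD ⟨⟨0, 1, 1⟩, ⟨98, 99, 147⟩, ⟨300, 1351, 10000⟩, ⟨290, 550, 1000⟩⟩ (tB0.hPU true) :=
  posD_join₃ tB0_pU1a tB0_pU1b

def tB0_kU1aa : PosD ⟨⟨0, 1, 1⟩, ⟨98, 99, 147⟩, ⟨300, 825, 10000⟩, ⟨290, 420, 1000⟩⟩ (tB0.hKU true) :=
  posD_of_check (c := ⟨225, ⟨5, 6, 7, 3⟩⟩) (by decide +kernel)

def tB0_kU1abaa : PosD ⟨⟨0, 1, 2⟩, ⟨98, 99, 147⟩, ⟨825, 1351, 10000⟩, ⟨290, 355, 1000⟩⟩ (tB0.hKU true) :=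
  posD_of_check (c := ⟨227, ⟨5, 6, 7, 3⟩⟩) (by decide +kernel)

def tB0_kU1abab : PosD ⟨⟨0, 1, 2⟩, ⟨98, 99, 147⟩, ⟨825, 1351, 10000⟩, ⟨355, 420, 1000⟩⟩ (tB0.hKU true) :=
  posD_of_check (c := ⟨227, ⟨5, 6, 7, 3⟩⟩) (by decide +kernel)

def tB0_kU1aba : PosD ⟨⟨0, 1, 2⟩, ⟨98, 99, 147⟩, ⟨825, 1351, 10000⟩, ⟨290, 420, 1000⟩⟩ (tB0.hKU true) :=
  posD_join₃ tB0_kU1abaa tB0_kU1abab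

def tB0_kU1abb : PosD ⟨⟨1, 2, 2⟩, ⟨98, 99, 147⟩, ⟨825, 1351, 10000⟩, ⟨290, 420, 1000⟩⟩ (tB0.hKU true) :=
  posD_of_check (c := ⟨229, ⟨5, 6, 7, 3⟩⟩) (by decide +kernel)

def tB0_kU1ab : PosD ⟨⟨0, 1, 1⟩, ⟨98, 99, 147⟩, ⟨825, 1351, 10000⟩, ⟨290, 420, 1000⟩⟩ (tB0.hKU true) :=
  posD_units (b := ⟨⟨0, 2, 2⟩, ⟨98, 99, 147⟩, ⟨825, 1351, 10000⟩, ⟨290, 420, 1000⟩⟩) (by decide +kernel) (posD_join₀ tB0_kU1aba tB0_kU1abb)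

def tB0_kU1a : PosD ⟨⟨0, 1, 1⟩, ⟨98, 99, 147⟩, ⟨300, 1351, 10000⟩, ⟨290, 420, 1000⟩⟩ (tB0.hKU true) :=
  posD_join₂ tB0_kU1aa tB0_kU1ab

def tB0_kU1baa : PosD ⟨⟨0, 1, 1⟩, ⟨98, 99, 147⟩, ⟨300, 825, 10000⟩, ⟨420, 485, 1000⟩⟩ (tB0.hKU true) :=
  posD_of_check (c := ⟨225, ⟨5, 6, 7, 3⟩⟩) (by decide +kernel)

def tB0_kU1baba : PosD ⟨⟨0, 1, 2⟩, ⟨98, 99, 147⟩, ⟨825, 1351, 10000⟩, ⟨420, 485, 1000⟩⟩ (tB0.hKU true) :=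
  posD_of_check (c := ⟨227, ⟨5, 6, 7, 3⟩⟩) (by decide +kernel)

def tB0_kU1babb : PosD ⟨⟨1, 2, 2⟩, ⟨98, 99, 147⟩, ⟨825, 1351, 10000⟩, ⟨420, 485, 1000⟩⟩ (tB0.hKU true) :=
  posD_of_check (c := ⟨229, ⟨5, 6, 7, 3⟩⟩) (by decide +kernel)

def tB0_kU1bab : PosD ⟨⟨0, 1, 1⟩, ⟨98, 99, 147⟩, ⟨825, 1351, 10000⟩, ⟨420, 485, 1000⟩⟩ (tB0.hKU true) :=
  posD_units (b := ⟨⟨0, 2, 2⟩, ⟨98, 99, 147⟩, ⟨825, 1351, 10000⟩, ⟨420, 485, 1000⟩⟩) (by decide +kernel) (posD_join₀ tB0_kU1baba tB0_kU1babb)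

def tB0_kU1ba : PosD ⟨⟨0, 1, 1⟩, ⟨98, 99, 147⟩, ⟨300, 1351, 10000⟩, ⟨420, 485, 1000⟩⟩ (tB0.hKU true) :=
  posD_join₂ tB0_kU1baa tB0_kU1bab

def tB0_kU1bba : PosD ⟨⟨0, 1, 1⟩, ⟨98, 99, 147⟩, ⟨300, 825, 10000⟩, ⟨485, 550, 1000⟩⟩ (tB0.hKU true) :=
  posD_of_check (c := ⟨225, ⟨5, 6, 7, 3⟩⟩) (by decide +kernel)

def tB0_kU1bbba : PosD ⟨⟨0, 1, 2⟩, ⟨98, 99, 147⟩, ⟨825, 1351, 10000⟩, ⟨485, 550, 1000⟩⟩ (tB0.hKU true) :=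
  posD_of_check (c := ⟨227, ⟨5, 6, 7, 3⟩⟩) (by decide +kernel)

def tB0_kU1bbbb : PosD ⟨⟨1, 2, 2⟩, ⟨98, 99, 147⟩, ⟨825, 1351, 10000⟩, ⟨485, 550, 1000⟩⟩ (tB0.hKU true) :=
  posD_of_check (c := ⟨229, ⟨5, 6, 7, 3⟩⟩) (by decide +kernel)

def tB0_kU1bbb : PosD ⟨⟨0, 1, 1⟩, ⟨98, 99, 147⟩, ⟨825, 1351, 10000⟩, ⟨485, 550, 1000⟩⟩ (tB0.hKU true) :=
  posD_units (b := ⟨⟨0, 2, 2⟩, ⟨98, 99, 147⟩, ⟨825, 1351, 10000⟩, ⟨485, 550, 1000⟩⟩) (by decide +kernel) (posD_join₀ tB0_kU1bbba tB0_kU1bbbb)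

def tB0_kU1bb : PosD ⟨⟨0, 1, 1⟩, ⟨98, 99, 147⟩, ⟨300, 1351, 10000⟩, ⟨485, 550, 1000⟩⟩ (tB0.hKU true) :=
  posD_join₂ tB0_kU1bba tB0_kU1bbb

def tB0_kU1b : PosD ⟨⟨0, 1, 1⟩, ⟨98, 99, 147⟩, ⟨300, 1351, 10000⟩, ⟨420, 550, 1000⟩⟩ (tB0.hKU true) :=
  posD_join₃ tB0_kU1ba tB0_kU1bb

def tB0_kU1 : PosD ⟨⟨0, 1, 1⟩, ⟨98, 99, 147⟩, ⟨300, 1351, 10000⟩, ⟨290, 550, 1000⟩⟩ (tB0.hKU true) :=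
  posD_join₃ tB0_kU1a tB0_kU1b

def tB0_kL1a : PosD ⟨⟨0, 1, 2⟩, ⟨98, 99, 147⟩, ⟨300, 1351, 10000⟩, ⟨290, 550, 1000⟩⟩ (tB0.hKL true) :=
  posD_of_check (c := ⟨226, ⟨5, 6, 7, 3⟩⟩) (by decide +kernel)

def tB0_kL1baaa : PosD ⟨⟨2, 3, 4⟩, ⟨98, 99, 147⟩, ⟨300, 825, 10000⟩, ⟨290, 420, 1000⟩⟩ (tB0.hKL true) :=
  posD_of_check (c := ⟨230, ⟨5, 6, 7, 3⟩⟩) (by decide +kernel)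

def tB0_kL1baaba : PosD ⟨⟨3, 4, 4⟩, ⟨98, 99, 147⟩, ⟨300, 562, 10000⟩, ⟨290, 420, 1000⟩⟩ (tB0.hKL true) :=
  posD_of_check (c := ⟨230, ⟨5, 6, 7, 3⟩⟩) (by decide +kernel)

def tB0_kL1baabb : PosD ⟨⟨3, 4, 4⟩, ⟨98, 99, 147⟩, ⟨562, 825, 10000⟩, ⟨290, 420, 1000⟩⟩ (tB0.hKL true) :=
  posD_of_check (c := ⟨231, ⟨5, 6, 7, 3⟩⟩) (by decide +kernel)

def tB0_kL1baab : PosD ⟨⟨3, 4, 4⟩, ⟨98, 99, 147⟩, ⟨300, 825, 10000⟩, ⟨290, 420, 1000⟩⟩ (tB0.hKL true) :=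
  posD_join₂ tB0_kL1baaba tB0_kL1baabb

def tB0_kL1baa : PosD ⟨⟨1, 2, 2⟩, ⟨98, 99, 147⟩, ⟨300, 825, 10000⟩, ⟨290, 420, 1000⟩⟩ (tB0.hKL true) :=
  posD_units (b := ⟨⟨2, 4, 4⟩, ⟨98, 99, 147⟩, ⟨300, 825, 10000⟩, ⟨290, 420, 1000⟩⟩) (by decide +kernel) (posD_join₀ tB0_kL1baaa tB0_kL1baab)

def tB0_kL1bab : PosD ⟨⟨1, 2, 2⟩, ⟨98, 99, 147⟩, ⟨825, 1351, 10000⟩, ⟨290, 420, 1000⟩⟩ (tB0.hKL true) :=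
  posD_of_check (c := ⟨228, ⟨5, 6, 7, 3⟩⟩) (by decide +kernel)

def tB0_kL1ba : PosD ⟨⟨1, 2, 2⟩, ⟨98, 99, 147⟩, ⟨300, 1351, 10000⟩, ⟨290, 420, 1000⟩⟩ (tB0.hKL true) :=
  posD_join₂ tB0_kL1baa tB0_kL1bab

def tB0_kL1bbaa : PosD ⟨⟨1, 2, 2⟩, ⟨98, 99, 147⟩, ⟨300, 562, 10000⟩, ⟨420, 550, 1000⟩⟩ (tB0.hKL true) :=
  posD_of_check (c := ⟨227, ⟨5, 6, 7, 3⟩⟩) (by decide +kernel)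

def tB0_kL1bbab : PosD ⟨⟨1, 2, 2⟩, ⟨98, 99, 147⟩, ⟨562, 825, 10000⟩, ⟨420, 550, 1000⟩⟩ (tB0.hKL true) :=
  posD_of_check (c := ⟨228, ⟨5, 6, 7, 3⟩⟩) (by decide +kernel)

def tB0_kL1bba : PosD ⟨⟨1, 2, 2⟩, ⟨98, 99, 147⟩, ⟨300, 825, 10000⟩, ⟨420, 550, 1000⟩⟩ (tB0.hKL true) :=
  posD_join₂ tB0_kL1bbaa tB0_kL1bbab

def tB0_kL1bbb : PosD ⟨⟨1, 2, 2⟩, ⟨98, 99, 147⟩, ⟨825, 1351, 10000⟩, ⟨420, 550, 1000⟩⟩ (tB0.hKL true) :=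
  posD_of_check (c := ⟨228, ⟨5, 6, 7, 3⟩⟩) (by decide +kernel)

def tB0_kL1bb : PosD ⟨⟨1, 2, 2⟩, ⟨98, 99, 147⟩, ⟨300, 1351, 10000⟩, ⟨420, 550, 1000⟩⟩ (tB0.hKL true) :=
  posD_join₂ tB0_kL1bba tB0_kL1bbb

def tB0_kL1b : PosD ⟨⟨1, 2, 2⟩, ⟨98, 99, 147⟩, ⟨300, 1351, 10000⟩, ⟨290, 550, 1000⟩⟩ (tB0.hKL true) :=
  posD_join₃ tB0_kL1ba tB0_kL1bb

def tB0_kL1 : PosD ⟨⟨0, 1, 1⟩, ⟨98, 99, 147⟩, ⟨300, 1351, 10000⟩, ⟨290, 550, 1000⟩⟩ (tB0.hKL true) :=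
  posD_units (b := ⟨⟨0, 2, 2⟩, ⟨98, 99, 147⟩, ⟨300, 1351, 10000⟩, ⟨290, 550, 1000⟩⟩) (by decide +kernel) (posD_join₀ tB0_kL1a tB0_kL1b)

def tB0_wU1a : PosD ⟨⟨0, 1, 1⟩, ⟨98, 99, 147⟩, ⟨300, 1351, 10000⟩, ⟨290, 420, 1000⟩⟩ (tB0.hWU true) :=
  posD_of_check (c := ⟨257, ⟨5, 8, 8, 3⟩⟩) (by decide +kernel)

def tB0_wU1ba : PosD ⟨⟨0, 1, 1⟩, ⟨98, 99, 147⟩, ⟨300, 825, 10000⟩, ⟨420, 550, 1000⟩⟩ (tB0.hWU true) :=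
  posD_of_check (c := ⟨257, ⟨5, 8, 8, 3⟩⟩) (by decide +kernel)

def tB0_wU1bb : PosD ⟨⟨0, 1, 1⟩, ⟨98, 99, 147⟩, ⟨825, 1351, 10000⟩, ⟨420, 550, 1000⟩⟩ (tB0.hWU true) :=
  posD_of_check (c := ⟨258, ⟨5, 8, 8, 3⟩⟩) (by decide +kernel)

def tB0_wU1b : PosD ⟨⟨0, 1, 1⟩, ⟨98, 99, 147⟩, ⟨300, 1351, 10000⟩, ⟨420, 550, 1000⟩⟩ (tB0.hWU true) :=
  posD_join₂ tB0_wU1ba tB0_wU1bb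

def tB0_wU1 : PosD ⟨⟨0, 1, 1⟩, ⟨98, 99, 147⟩, ⟨300, 1351, 10000⟩, ⟨290, 550, 1000⟩⟩ (tB0.hWU true) :=
  posD_join₃ tB0_wU1a tB0_wU1b

def tB0_wL1a : PosD ⟨⟨0, 1, 2⟩, ⟨98, 99, 147⟩, ⟨300, 1351, 10000⟩, ⟨290, 550, 1000⟩⟩ (tB0.hWL true) :=
  posD_of_check (c := ⟨260, ⟨5, 8, 8, 3⟩⟩) (by decide +kernel)

def tB0_wL1ba : PosD ⟨⟨2, 3, 4⟩, ⟨98, 99, 147⟩, ⟨300, 1351, 10000⟩, ⟨290, 550, 1000⟩⟩ (tB0.hWL true) :=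
  posD_of_check (c := ⟨265, ⟨5, 8, 8, 3⟩⟩) (by decide +kernel)

def tB0_wL1bba : PosD ⟨⟨6, 7, 8⟩, ⟨98, 99, 147⟩, ⟨300, 1351, 10000⟩, ⟨290, 550, 1000⟩⟩ (tB0.hWL true) :=
  posD_of_check (c := ⟨269, ⟨5, 8, 8, 3⟩⟩) (by decide +kernel)

def tB0_wL1bbba : PosD ⟨⟨14, 15, 16⟩, ⟨98, 99, 147⟩, ⟨300, 1351, 10000⟩, ⟨290, 550, 1000⟩⟩ (tB0.hWL true) :=
  posD_of_check (c := ⟨274, ⟨5, 8, 8, 3⟩⟩) (by decide +kernel)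

def tB0_wL1bbbba : PosD ⟨⟨30, 31, 32⟩, ⟨98, 99, 147⟩, ⟨300, 1351, 10000⟩, ⟨290, 550, 1000⟩⟩ (tB0.hWL true) :=
  posD_of_check (c := ⟨278, ⟨5, 8, 8, 3⟩⟩) (by decide +kernel)

def tB0_wL1bbbbbaa : PosD ⟨⟨31, 32, 32⟩, ⟨98, 99, 147⟩, ⟨300, 825, 10000⟩, ⟨290, 420, 1000⟩⟩ (tB0.hWL true) :=
  posD_of_check (c := ⟨277, ⟨5, 8, 8, 3⟩⟩) (by decide +kernel)

def tB0_wL1bbbbbab : PosD ⟨⟨31, 32, 32⟩, ⟨98, 99, 147⟩, ⟨825, 1351, 10000⟩, ⟨290, 420, 1000⟩⟩ (tB0.hWL true) :=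
  posD_of_check (c := ⟨278, ⟨5, 8, 8, 3⟩⟩) (by decide +kernel)

def tB0_wL1bbbbba : PosD ⟨⟨31, 32, 32⟩, ⟨98, 99, 147⟩, ⟨300, 1351, 10000⟩, ⟨290, 420, 1000⟩⟩ (tB0.hWL true) :=
  posD_join₂ tB0_wL1bbbbbaa tB0_wL1bbbbbab

def tB0_wL1bbbbbba : PosD ⟨⟨31, 32, 32⟩, ⟨98, 99, 147⟩, ⟨300, 825, 10000⟩, ⟨420, 550, 1000⟩⟩ (tB0.hWL true) :=
  posD_of_check (c := ⟨277, ⟨5, 8, 8, 3⟩⟩) (by decide +kernel)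

def tB0_wL1bbbbbbb : PosD ⟨⟨31, 32, 32⟩, ⟨98, 99, 147⟩, ⟨825, 1351, 10000⟩, ⟨420, 550, 1000⟩⟩ (tB0.hWL true) :=
  posD_of_check (c := ⟨278, ⟨5, 8, 8, 3⟩⟩) (by decide +kernel)

def tB0_wL1bbbbbb : PosD ⟨⟨31, 32, 32⟩, ⟨98, 99, 147⟩, ⟨300, 1351, 10000⟩, ⟨420, 550, 1000⟩⟩ (tB0.hWL true) :=
  posD_join₂ tB0_wL1bbbbbba tB0_wL1bbbbbbb

def tB0_wL1bbbbb : PosD ⟨⟨31, 32, 32⟩, ⟨98, 99, 147⟩, ⟨300, 1351, 10000⟩, ⟨290, 550, 1000⟩⟩ (tB0.hWL true) :=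
  posD_join₃ tB0_wL1bbbbba tB0_wL1bbbbbb

def tB0_wL1bbbb : PosD ⟨⟨15, 16, 16⟩, ⟨98, 99, 147⟩, ⟨300, 1351, 10000⟩, ⟨290, 550, 1000⟩⟩ (tB0.hWL true) :=
  posD_units (b := ⟨⟨30, 32, 32⟩, ⟨98, 99, 147⟩, ⟨300, 1351, 10000⟩, ⟨290, 550, 1000⟩⟩) (by decide +kernel) (posD_join₀ tB0_wL1bbbba tB0_wL1bbbbb)

def tB0_wL1bbb : PosD ⟨⟨7, 8, 8⟩, ⟨98, 99, 147⟩, ⟨300, 1351, 10000⟩, ⟨290, 550, 1000⟩⟩ (tB0.hWL true) :=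
  posD_units (b := ⟨⟨14, 16, 16⟩, ⟨98, 99, 147⟩, ⟨300, 1351, 10000⟩, ⟨290, 550, 1000⟩⟩) (by decide +kernel) (posD_join₀ tB0_wL1bbba tB0_wL1bbbb)

def tB0_wL1bb : PosD ⟨⟨3, 4, 4⟩, ⟨98, 99, 147⟩, ⟨300, 1351, 10000⟩, ⟨290, 550, 1000⟩⟩ (tB0.hWL true) :=
  posD_units (b := ⟨⟨6, 8, 8⟩, ⟨98, 99, 147⟩, ⟨300, 1351, 10000⟩, ⟨290, 550, 1000⟩⟩) (by decide +kernel) (posD_join₀ tB0_wL1bba tB0_wL1bbb)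

def tB0_wL1b : PosD ⟨⟨1, 2, 2⟩, ⟨98, 99, 147⟩, ⟨300, 1351, 10000⟩, ⟨290, 550, 1000⟩⟩ (tB0.hWL true) :=
  posD_units (b := ⟨⟨2, 4, 4⟩, ⟨98, 99, 147⟩, ⟨300, 1351, 10000⟩, ⟨290, 550, 1000⟩⟩) (by decide +kernel) (posD_join₀ tB0_wL1ba tB0_wL1bb)

def tB0_wL1 : PosD ⟨⟨0, 1, 1⟩, ⟨98, 99, 147⟩, ⟨300, 1351, 10000⟩, ⟨290, 550, 1000⟩⟩ (tB0.hWL true) :=
  posD_units (b := ⟨⟨0, 2, 2⟩, ⟨98, 99, 147⟩, ⟨300, 1351, 10000⟩, ⟨290, 550, 1000⟩⟩) (by decide +kernel) (posD_join₀ tB0_wL1a tB0_wL1b)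

def tB0_mueL : PosD ⟨⟨0, 1, 1⟩, ⟨98, 99, 147⟩, ⟨300, 1351, 10000⟩, ⟨290, 550, 1000⟩⟩ (tB0.eL.μ) :=
  posD_of_check (c := ⟨10, ⟨0, 0, 0, 0⟩⟩) (by decide +kernel)

def tB0_mueH : PosD ⟨⟨0, 1, 1⟩, ⟨98, 99, 147⟩, ⟨300, 1351, 10000⟩, ⟨290, 550, 1000⟩⟩ (tB0.eH.μ) :=
  posD_of_check (c := ⟨19, ⟨0, 0, 0, 0⟩⟩) (by decide +kernel)

def tB0_mupL : PosD ⟨⟨0, 1, 1⟩, ⟨98, 99, 147⟩, ⟨300, 1351, 10000⟩, ⟨290, 550, 1000⟩⟩ (tB0.pL.μ) :=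
  posD_of_check (c := ⟨16, ⟨0, 0, 0, 0⟩⟩) (by decide +kernel)

/-- The bounds of the piece. -/
def tB0_env : tB0.Env ⟨⟨0, 1, 1⟩, ⟨98, 99, 147⟩, ⟨300, 1351, 10000⟩, ⟨290, 550, 1000⟩⟩ :=
  ⟨tB0_p0, Bool.forall_bool.2 ⟨tB0_den0, tB0_den1⟩, tB0_gn, Bool.forall_bool.2 ⟨tB0_ev0, tB0_ev1⟩, Bool.forall_bool.2 ⟨tB0_zL0, tB0_zL1⟩, Bool.forall_bool.2 ⟨tB0_zU0, tB0_zU1⟩, Bool.forall_bool.2 ⟨tB0_eL0, tB0_eL1⟩, ⟨.inl tB0_mueL, .inr rfl⟩, Bool.forall_bool.2 ⟨tB0_eH0, tB0_eH1⟩, ⟨.inl tB0_mueH, .inr rfl⟩, Bool.forall_bool.2 ⟨tB0_pL0, tB0_pL1⟩, ⟨.inl tB0_mupL, .inr rfl⟩, Bool.forall_bool.2 ⟨tB0_pU0, tB0_pU1⟩, ⟨.inr rfl, .inr rfl⟩, Bool.forall_bool.2 ⟨tB0_kU0, tB0_kU1⟩, ⟨.inr rfl, .inr rfl⟩, Bool.forall_bool.2 ⟨tB0_kL0,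 tB0_kL1⟩, ⟨.inr rfl, .inr rfl⟩, Bool.forall_bool.2 ⟨tB0_wU0, tB0_wU1⟩, ⟨.inr rfl, .inr rfl⟩, Bool.forall_bool.2 ⟨tB0_wL0, tB0_wL1⟩, ⟨.inr rfl, .inr rfl⟩⟩

def tB0_pp : PosD ⟨⟨0, 1, 1⟩, ⟨98, 99, 147⟩, ⟨300, 1351, 10000⟩, ⟨290, 550, 1000⟩⟩ (tB0.xPL) :=
  posD_of_check (c := ⟨90, ⟨1, 1, 3, 3⟩⟩) (by decide +kernel)

def tB0_k2p : PosD ⟨⟨0, 1, 1⟩, ⟨98, 99, 147⟩, ⟨300, 1351, 10000⟩, ⟨290, 550, 1000⟩⟩ (tB0.k2p tB0.xE) :=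
  posD_of_check (c := ⟨6, ⟨0, 0, 0, 0⟩⟩) (by decide +kernel)

def tB0_k2m : PosD ⟨⟨0, 1, 1⟩, ⟨98, 99, 147⟩, ⟨300, 1351, 10000⟩, ⟨290, 550, 1000⟩⟩ (tB0.k2m tB0.xE) :=
  posD_of_check (c := ⟨70, ⟨1, 1, 2, 2⟩⟩) (by decide +kernel)

def tB0_v2p : PosD ⟨⟨0, 1, 1⟩, ⟨98, 99, 147⟩, ⟨300, 1351, 10000⟩, ⟨290, 550, 1000⟩⟩ (tB0.hV2p) :=
  posD_of_check (c := ⟨227, ⟨0, 5, 10, 4⟩⟩) (by decide +kernel)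

def tB0_v2m : PosD ⟨⟨0, 1, 1⟩, ⟨98, 99, 147⟩, ⟨300, 1351, 10000⟩, ⟨290, 550, 1000⟩⟩ (tB0.hV2m) :=
  posD_of_check (c := ⟨263, ⟨1, 6, 10, 5⟩⟩) (by decide +kernel)

def tB0_v3p : PosD ⟨⟨0, 1, 1⟩, ⟨98, 99, 147⟩, ⟨300, 1351, 10000⟩, ⟨290, 550, 1000⟩⟩ (tB0.hV3p) :=
  posD_of_check (c := ⟨221, ⟨0, 5, 9, 4⟩⟩) (by decide +kernel)

def tB0_v3m : PosD ⟨⟨0, 1, 1⟩, ⟨98, 99, 147⟩, ⟨300, 1351, 10000⟩, ⟨290, 550, 1000⟩⟩ (tB0.hV3m) :=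
  posD_of_check (c := ⟨248, ⟨1, 6, 9, 5⟩⟩) (by decide +kernel)

def tB0_kap0 : PosD ⟨⟨0, 1, 1⟩, ⟨98, 99, 147⟩, ⟨300, 1351, 10000⟩, ⟨290, 550, 1000⟩⟩ (tB0.kap false) :=
  posD_of_check (c := ⟨65, ⟨1, 1, 2, 2⟩⟩) (by decide +kernel)

def tB0_c10 : PosD ⟨⟨0, 1, 1⟩, ⟨98, 99, 147⟩, ⟨300, 1351, 10000⟩, ⟨290, 550, 1000⟩⟩ (tB0.hC1 false) :=
  posD_of_check (c := ⟨264, ⟨3, 5, 9, 7⟩⟩) (by decide +kernel)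

def tB0_c1h0 : PosD ⟨⟨0, 1, 1⟩, ⟨98, 99, 147⟩, ⟨300, 1351, 10000⟩, ⟨290, 550, 1000⟩⟩ (tB0.hC1' false) :=
  posD_of_check (c := ⟨264, ⟨3, 5, 9, 7⟩⟩) (by decide +kernel)

def tB0_tg00 : PosD ⟨⟨0, 1, 1⟩, ⟨98, 99, 147⟩, ⟨300, 1351, 10000⟩, ⟨290, 550, 1000⟩⟩ (tB0.hG false (tB0.pEnd false)) :=
  posD_of_check (c := ⟨369, ⟨2, 7, 14, 9⟩⟩) (by decide +kernel)

def tB0_c2p00 : PosD ⟨⟨0, 1, 1⟩, ⟨98, 99, 147⟩, ⟨300, 1351, 10000⟩, ⟨290, 550, 1000⟩⟩ (tB0.hC2p false (tB0.pEnd false)) :=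
  posD_of_check (c := ⟨406, ⟨2, 7, 16, 10⟩⟩) (by decide +kernel)

def tB0_c2m00 : PosD ⟨⟨0, 1, 1⟩, ⟨98, 99, 147⟩, ⟨300, 1351, 10000⟩, ⟨290, 550, 1000⟩⟩ (tB0.hC2m false (tB0.pEnd false)) :=
  posD_of_check (c := ⟨438, ⟨3, 8, 16, 11⟩⟩) (by decide +kernel)

def tB0_c3p00 : PosD ⟨⟨0, 1, 1⟩, ⟨98, 99, 147⟩, ⟨300, 1351, 10000⟩, ⟨290, 550, 1000⟩⟩ (tB0.hC3p false false) :=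
  posD_of_check (c := ⟨403, ⟨3, 7, 15, 10⟩⟩) (by decide +kernel)

def tB0_c3m00 : PosD ⟨⟨0, 1, 1⟩, ⟨98, 99, 147⟩, ⟨300, 1351, 10000⟩, ⟨290, 550, 1000⟩⟩ (tB0.hC3m false false) :=
  posD_of_check (c := ⟨428, ⟨3, 8, 15, 11⟩⟩) (by decide +kernel)

def tB0_c3ph00 : PosD ⟨⟨0, 1, 1⟩, ⟨98, 99, 147⟩, ⟨300, 1351, 10000⟩, ⟨290, 550, 1000⟩⟩ (tB0.hC3p' false false) :=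
  posD_of_check (c := ⟨403, ⟨3, 7, 15, 10⟩⟩) (by decide +kernel)

def tB0_c3mh00 : PosD ⟨⟨0, 1, 1⟩, ⟨98, 99, 147⟩, ⟨300, 1351, 10000⟩, ⟨290, 550, 1000⟩⟩ (tB0.hC3m' false false) :=
  posD_of_check (c := ⟨428, ⟨3, 8, 15, 11⟩⟩) (by decide +kernel)

def tB0_up00 : PosD ⟨⟨0, 1, 1⟩, ⟨98, 99, 147⟩, ⟨300, 1351, 10000⟩, ⟨290, 550, 1000⟩⟩ (tB0.hUp false false) :=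
  posD_of_check (c := ⟨400, ⟨2, 7, 15, 10⟩⟩) (by decide +kernel)

def tB0_um00 : PosD ⟨⟨0, 1, 1⟩, ⟨98, 99, 147⟩, ⟨300, 1351, 10000⟩, ⟨290, 550, 1000⟩⟩ (tB0.hUm false false) :=
  posD_of_check (c := ⟨427, ⟨3, 8, 15, 11⟩⟩) (by decide +kernel)

def tB0_tmg00 : PosD ⟨⟨0, 1, 1⟩, ⟨98, 99, 147⟩, ⟨300, 1351, 10000⟩, ⟨290, 550, 1000⟩⟩ (tB0.hTMG false (tB0.pEnd false)) :=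
  posD_of_check (c := ⟨386, ⟨2, 7, 14, 10⟩⟩) (by decide +kernel)

def tB0_tg01 : PosD ⟨⟨0, 1, 1⟩, ⟨98, 99, 147⟩, ⟨300, 1351, 10000⟩, ⟨290, 550, 1000⟩⟩ (tB0.hG true (tB0.pEnd false)) :=
  posD_of_check (c := ⟨369, ⟨2, 7, 14, 9⟩⟩) (by decide +kernel)

def tB0_c2p01 : PosD ⟨⟨0, 1, 1⟩, ⟨98, 99, 147⟩, ⟨300, 1351, 10000⟩, ⟨290, 550, 1000⟩⟩ (tB0.hC2p true (tB0.pEnd false)) :=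
  posD_of_check (c := ⟨406, ⟨2, 7, 16, 10⟩⟩) (by decide +kernel)

def tB0_c2m01 : PosD ⟨⟨0, 1, 1⟩, ⟨98, 99, 147⟩, ⟨300, 1351, 10000⟩, ⟨290, 550, 1000⟩⟩ (tB0.hC2m true (tB0.pEnd false)) :=
  posD_of_check (c := ⟨438, ⟨3, 8, 16, 11⟩⟩) (by decide +kernel)

def tB0_c3p01 : PosD ⟨⟨0, 1, 1⟩, ⟨98, 99, 147⟩, ⟨300, 1351, 10000⟩, ⟨290, 550, 1000⟩⟩ (tB0.hC3p false true) :=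
  posD_of_check (c := ⟨403, ⟨3, 7, 15, 10⟩⟩) (by decide +kernel)

def tB0_c3m01 : PosD ⟨⟨0, 1, 1⟩, ⟨98, 99, 147⟩, ⟨300, 1351, 10000⟩, ⟨290, 550, 1000⟩⟩ (tB0.hC3m false true) :=
  posD_of_check (c := ⟨428, ⟨3, 8, 15, 11⟩⟩) (by decide +kernel)

def tB0_c3ph01 : PosD ⟨⟨0, 1, 1⟩, ⟨98, 99, 147⟩, ⟨300, 1351, 10000⟩, ⟨290, 550, 1000⟩⟩ (tB0.hC3p' false true) :=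
  posD_of_check (c := ⟨403, ⟨3, 7, 15, 10⟩⟩) (by decide +kernel)

def tB0_c3mh01 : PosD ⟨⟨0, 1, 1⟩, ⟨98, 99, 147⟩, ⟨300, 1351, 10000⟩, ⟨290, 550, 1000⟩⟩ (tB0.hC3m' false true) :=
  posD_of_check (c := ⟨428, ⟨3, 8, 15, 11⟩⟩) (by decide +kernel)

def tB0_up01 : PosD ⟨⟨0, 1, 1⟩, ⟨98, 99, 147⟩, ⟨300, 1351, 10000⟩, ⟨290, 550, 1000⟩⟩ (tB0.hUp false true) :=
  posD_of_check (c := ⟨400, ⟨2, 7, 15, 10⟩⟩) (by decide +kernel)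

def tB0_um01 : PosD ⟨⟨0, 1, 1⟩, ⟨98, 99, 147⟩, ⟨300, 1351, 10000⟩, ⟨290, 550, 1000⟩⟩ (tB0.hUm false true) :=
  posD_of_check (c := ⟨427, ⟨3, 8, 15, 11⟩⟩) (by decide +kernel)

def tB0_tmg01 : PosD ⟨⟨0, 1, 1⟩, ⟨98, 99, 147⟩, ⟨300, 1351, 10000⟩, ⟨290, 550, 1000⟩⟩ (tB0.hTMG true (tB0.pEnd false)) :=
  posD_of_check (c := ⟨386, ⟨2, 7, 14, 10⟩⟩) (by decide +kernel)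

def tB0_kap1 : PosD ⟨⟨0, 1, 1⟩, ⟨98, 99, 147⟩, ⟨300, 1351, 10000⟩, ⟨290, 550, 1000⟩⟩ (tB0.kap true) :=
  posD_of_check (c := ⟨67, ⟨1, 1, 2, 2⟩⟩) (by decide +kernel)

def tB0_c11 : PosD ⟨⟨0, 1, 1⟩, ⟨98, 99, 147⟩, ⟨300, 1351, 10000⟩, ⟨290, 550, 1000⟩⟩ (tB0.hC1 true) :=
  posD_of_check (c := ⟨266, ⟨3, 5, 9, 7⟩⟩) (by decide +kernel)

def tB0_c1h1 : PosD ⟨⟨0, 1, 1⟩, ⟨98, 99, 147⟩, ⟨300, 1351, 10000⟩, ⟨290, 550, 1000⟩⟩ (tB0.hC1' true) :=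
  posD_of_check (c := ⟨266, ⟨3, 5, 9, 7⟩⟩) (by decide +kernel)

def tB0_tg10 : PosD ⟨⟨0, 1, 1⟩, ⟨98, 99, 147⟩, ⟨300, 1351, 10000⟩, ⟨290, 550, 1000⟩⟩ (tB0.hG false (tB0.pEnd true)) :=
  posD_of_check (c := ⟨370, ⟨2, 7, 14, 9⟩⟩) (by decide +kernel)

def tB0_c2p10 : PosD ⟨⟨0, 1, 1⟩, ⟨98, 99, 147⟩, ⟨300, 1351, 10000⟩, ⟨290, 550, 1000⟩⟩ (tB0.hC2p false (tB0.pEnd true)) :=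
  posD_of_check (c := ⟨407, ⟨2, 7, 16, 10⟩⟩) (by decide +kernel)

def tB0_c2m10 : PosD ⟨⟨0, 1, 1⟩, ⟨98, 99, 147⟩, ⟨300, 1351, 10000⟩, ⟨290, 550, 1000⟩⟩ (tB0.hC2m false (tB0.pEnd true)) :=
  posD_of_check (c := ⟨440, ⟨3, 8, 16, 11⟩⟩) (by decide +kernel)

def tB0_c3p10 : PosD ⟨⟨0, 1, 1⟩, ⟨98, 99, 147⟩, ⟨300, 1351, 10000⟩, ⟨290, 550, 1000⟩⟩ (tB0.hC3p true false) :=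
  posD_of_check (c := ⟨405, ⟨3, 7, 15, 10⟩⟩) (by decide +kernel)

def tB0_c3m10 : PosD ⟨⟨0, 1, 1⟩, ⟨98, 99, 147⟩, ⟨300, 1351, 10000⟩, ⟨290, 550, 1000⟩⟩ (tB0.hC3m true false) :=
  posD_of_check (c := ⟨430, ⟨3, 8, 15, 11⟩⟩) (by decide +kernel)

def tB0_c3ph10 : PosD ⟨⟨0, 1, 1⟩, ⟨98, 99, 147⟩, ⟨300, 1351, 10000⟩, ⟨290, 550, 1000⟩⟩ (tB0.hC3p' true false) :=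
  posD_of_check (c := ⟨405, ⟨3, 7, 15, 10⟩⟩) (by decide +kernel)

def tB0_c3mh10 : PosD ⟨⟨0, 1, 1⟩, ⟨98, 99, 147⟩, ⟨300, 1351, 10000⟩, ⟨290, 550, 1000⟩⟩ (tB0.hC3m' true false) :=
  posD_of_check (c := ⟨430, ⟨3, 8, 15, 11⟩⟩) (by decide +kernel)

def tB0_up10 : PosD ⟨⟨0, 1, 1⟩, ⟨98, 99, 147⟩, ⟨300, 1351, 10000⟩, ⟨290, 550, 1000⟩⟩ (tB0.hUp true false) :=
  posD_of_check (c := ⟨401, ⟨2, 7, 15, 10⟩⟩) (by decide +kernel)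

def tB0_um10 : PosD ⟨⟨0, 1, 1⟩, ⟨98, 99, 147⟩, ⟨300, 1351, 10000⟩, ⟨290, 550, 1000⟩⟩ (tB0.hUm true false) :=
  posD_of_check (c := ⟨428, ⟨3, 8, 15, 11⟩⟩) (by decide +kernel)

def tB0_tmg10 : PosD ⟨⟨0, 1, 1⟩, ⟨98, 99, 147⟩, ⟨300, 1351, 10000⟩, ⟨290, 550, 1000⟩⟩ (tB0.hTMG false (tB0.pEnd true)) :=
  posD_of_check (c := ⟨386, ⟨2, 7, 14, 10⟩⟩) (by decide +kernel)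

def tB0_tg11 : PosD ⟨⟨0, 1, 1⟩, ⟨98, 99, 147⟩, ⟨300, 1351, 10000⟩, ⟨290, 550, 1000⟩⟩ (tB0.hG true (tB0.pEnd true)) :=
  posD_of_check (c := ⟨370, ⟨2, 7, 14, 9⟩⟩) (by decide +kernel)

def tB0_c2p11 : PosD ⟨⟨0, 1, 1⟩, ⟨98, 99, 147⟩, ⟨300, 1351, 10000⟩, ⟨290, 550, 1000⟩⟩ (tB0.hC2p true (tB0.pEnd true)) :=
  posD_of_check (c := ⟨407, ⟨2, 7, 16, 10⟩⟩) (by decide +kernel)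

def tB0_c2m11 : PosD ⟨⟨0, 1, 1⟩, ⟨98, 99, 147⟩, ⟨300, 1351, 10000⟩, ⟨290, 550, 1000⟩⟩ (tB0.hC2m true (tB0.pEnd true)) :=
  posD_of_check (c := ⟨440, ⟨3, 8, 16, 11⟩⟩) (by decide +kernel)

def tB0_c3p11 : PosD ⟨⟨0, 1, 1⟩, ⟨98, 99, 147⟩, ⟨300, 1351, 10000⟩, ⟨290, 550, 1000⟩⟩ (tB0.hC3p true true) :=
  posD_of_check (c := ⟨405, ⟨3, 7, 15, 10⟩⟩) (by decide +kernel)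

def tB0_c3m11 : PosD ⟨⟨0, 1, 1⟩, ⟨98, 99, 147⟩, ⟨300, 1351, 10000⟩, ⟨290, 550, 1000⟩⟩ (tB0.hC3m true true) :=
  posD_of_check (c := ⟨430, ⟨3, 8, 15, 11⟩⟩) (by decide +kernel)

def tB0_c3ph11 : PosD ⟨⟨0, 1, 1⟩, ⟨98, 99, 147⟩, ⟨300, 1351, 10000⟩, ⟨290, 550, 1000⟩⟩ (tB0.hC3p' true true) :=
  posD_of_check (c := ⟨405, ⟨3, 7, 15, 10⟩⟩) (by decide +kernel)

def tB0_c3mh11 : PosD ⟨⟨0, 1, 1⟩, ⟨98, 99, 147⟩, ⟨300, 1351, 10000⟩, ⟨290, 550, 1000⟩⟩ (tB0.hC3m' true true) :=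
  posD_of_check (c := ⟨430, ⟨3, 8, 15, 11⟩⟩) (by decide +kernel)

def tB0_up11 : PosD ⟨⟨0, 1, 1⟩, ⟨98, 99, 147⟩, ⟨300, 1351, 10000⟩, ⟨290, 550, 1000⟩⟩ (tB0.hUp true true) :=
  posD_of_check (c := ⟨401, ⟨2, 7, 15, 10⟩⟩) (by decide +kernel)

def tB0_um11 : PosD ⟨⟨0, 1, 1⟩, ⟨98, 99, 147⟩, ⟨300, 1351, 10000⟩, ⟨290, 550, 1000⟩⟩ (tB0.hUm true true) :=
  posD_of_check (c := ⟨428, ⟨3, 8, 15, 11⟩⟩) (by decide +kernel)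

def tB0_tmg11 : PosD ⟨⟨0, 1, 1⟩, ⟨98, 99, 147⟩, ⟨300, 1351, 10000⟩, ⟨290, 550, 1000⟩⟩ (tB0.hTMG true (tB0.pEnd true)) :=
  posD_of_check (c := ⟨386, ⟨2, 7, 14, 10⟩⟩) (by decide +kernel)

/-- The signs of the piece. -/
def tB0_sign : tB0.Sign ⟨⟨0, 1, 1⟩, ⟨98, 99, 147⟩, ⟨300, 1351, 10000⟩, ⟨290, 550, 1000⟩⟩ :=
  ⟨tB0_pp,
    tB0_k2p,
    tB0_k2m,
    Bool.forall_bool.2 ⟨(Bool.forall_bool.2 ⟨tB0_tg00, tB0_tg01⟩), (Bool.forall_bool.2 ⟨tB0_tg10, tB0_tg11⟩)⟩,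
    Bool.forall_bool.2 ⟨(Bool.forall_bool.2 ⟨tB0_c2p00, tB0_c2p01⟩), (Bool.forall_bool.2 ⟨tB0_c2p10, tB0_c2p11⟩)⟩,
    Bool.forall_bool.2 ⟨(Bool.forall_bool.2 ⟨tB0_c2m00, tB0_c2m01⟩), (Bool.forall_bool.2 ⟨tB0_c2m10, tB0_c2m11⟩)⟩,
    Bool.forall_bool.2 ⟨tB0_kap0, tB0_kap1⟩,
    Bool.forall_bool.2 ⟨tB0_c10, tB0_c11⟩,
    Bool.forall_bool.2 ⟨(Bool.forall_bool.2 ⟨tB0_c3p00, tB0_c3p01⟩), (Bool.forall_bool.2 ⟨tB0_c3p10, tB0_c3p11⟩)⟩,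
    Bool.forall_bool.2 ⟨(Bool.forall_bool.2 ⟨tB0_c3m00, tB0_c3m01⟩), (Bool.forall_bool.2 ⟨tB0_c3m10, tB0_c3m11⟩)⟩,
    Bool.forall_bool.2 ⟨(Bool.forall_bool.2 ⟨tB0_tmg00, tB0_tmg01⟩), (Bool.forall_bool.2 ⟨tB0_tmg10, tB0_tmg11⟩)⟩,
    .inr (Bool.forall_bool.2 ⟨⟨tB0_c1h0, Bool.forall_bool.2 ⟨⟨tB0_c3ph00, tB0_c3mh00, tB0_up00, tB0_um00⟩, ⟨tB0_c3ph01, tB0_c3mh01, tB0_up01, tB0_um01⟩⟩⟩, ⟨tB0_c1h1, Bool.forall_bool.2 ⟨⟨tB0_c3ph10, tB0_c3mh10, tB0_up10, tB0_um10⟩, ⟨tB0_c3ph11, tB0_c3mh11, tB0_up11, tB0_um11⟩⟩⟩⟩),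
    tB0_v2p,
    tB0_v2m,
    tB0_v3p,
    tB0_v3m,
    posD_sub (b := ⟨⟨0, 1, 1⟩, ⟨98, 99, 147⟩, ⟨300, 1351, 10000⟩, ⟨290, 4000, 1000⟩⟩) (by decide +kernel) tB_vG,
    posD_sub (b := ⟨⟨0, 1, 1⟩, ⟨98, 99, 147⟩, ⟨300, 1351, 10000⟩, ⟨290, 4000, 1000⟩⟩) (by decide +kernel) tB_vMG,
    posD_sub (b := ⟨⟨0, 1, 1⟩, ⟨98, 99, 147⟩, ⟨300, 1351, 10000⟩, ⟨290, 4000, 1000⟩⟩) (by decide +kernel) tB_ak,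
    posD_sub (b := ⟨⟨0, 1, 1⟩, ⟨98, 99, 147⟩, ⟨300, 1351, 10000⟩, ⟨290, 4000, 1000⟩⟩) (by decide +kernel) tB_aw,
    posD_sub (b := ⟨⟨0, 1, 1⟩, ⟨98, 99, 147⟩, ⟨300, 1351, 10000⟩, ⟨290, 4000, 1000⟩⟩) (by decide +kernel) tB_gk,
    posD_sub (b := ⟨⟨0, 1, 1⟩, ⟨98, 99, 147⟩, ⟨300, 1351, 10000⟩, ⟨290, 4000, 1000⟩⟩) (by decide +kernel) tB_gw,
    posD_sub (b := ⟨⟨0, 1, 1⟩, ⟨98, 99, 147⟩, ⟨300, 1351, 10000⟩, ⟨290, 4000, 1000⟩⟩) (by decide +kernel) tB_ek,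
    posD_sub (b := ⟨⟨0, 1, 1⟩, ⟨98, 99, 147⟩, ⟨300, 1351, 10000⟩, ⟨290, 4000, 1000⟩⟩) (by decide +kernel) tB_ew⟩

end Vale.Agent.P100.Calib.Closed.Six.Tail
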