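import Vale.Agent.P100.Calib.SlabSixTailDataB
import Vale.Agent.P100.Calib.SlabSixTailGlobB

/-!
# Checks of some pieces of the certificate

The checks are written as definitions so that they run one after another, which keeps the memory of the
kernel low.
-/

set_option linter.defProp false

namespace Vale.Agent.P100.Calib.Closed.Six.Tail

open BoxPos Large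

local instance sixTailCheckstB1Add : Add Ex := ⟨Ex.add⟩
local instance sixTailCheckstB1Sub : Sub Ex := ⟨Ex.sub⟩
local instance sixTailCheckstB1Mul : Mul Ex := ⟨Ex.mul⟩

def tB1_p0 : PosD ⟨⟨0, 1, 1⟩, ⟨98, 99, 147⟩, ⟨300, 1351, 10000⟩, ⟨550, 900, 1000⟩⟩ (tB1.hP0) :=
  posD_of_check (c := ⟨81, ⟨0, 2, 3, 1⟩⟩) (by decide +kernel)

def tB1_gn : PosD ⟨⟨0, 1, 1⟩, ⟨98, 99, 147⟩, ⟨300, 1351, 10000⟩, ⟨550, 900, 1000⟩⟩ (tB1.hGn) :=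
  posD_of_check (c := ⟨55, ⟨1, 1, 2, 1⟩⟩) (by decide +kernel)

def tB1_den0 : PosD ⟨⟨0, 1, 1⟩, ⟨98, 99, 147⟩, ⟨300, 1351, 10000⟩, ⟨550, 900, 1000⟩⟩ (tB1.hDen false) :=
  posD_of_check (c := ⟨47, ⟨1, 0, 2, 0⟩⟩) (by decide +kernel)

def tB1_den1 : PosD ⟨⟨0, 1, 1⟩, ⟨98, 99, 147⟩, ⟨300, 1351, 10000⟩, ⟨550, 900, 1000⟩⟩ (tB1.hDen true) :=
  posD_of_check (c := ⟨47, ⟨1, 0, 2, 0⟩⟩) (by decide +kernel)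

def tB1_ev0 : PosD ⟨⟨0, 1, 1⟩, ⟨98, 99, 147⟩, ⟨300, 1351, 10000⟩, ⟨550, 900, 1000⟩⟩ (tB1.hEv false) :=
  posD_of_check (c := ⟨116, ⟨4, 2, 4, 1⟩⟩) (by decide +kernel)

def tB1_zL0 : PosD ⟨⟨0, 1, 1⟩, ⟨98, 99, 147⟩, ⟨300, 1351, 10000⟩, ⟨550, 900, 1000⟩⟩ (tB1.hZL false) :=
  posD_of_check (c := ⟨161, ⟨4, 3, 6, 3⟩⟩) (by decide +kernel)

def tB1_zU0a : PosD ⟨⟨0, 1, 1⟩, ⟨98, 99, 147⟩, ⟨300, 825, 10000⟩, ⟨550, 900, 1000⟩⟩ (tB1.hZU false) :=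
  posD_of_check (c := ⟨161, ⟨4, 3, 6, 3⟩⟩) (by decide +kernel)

def tB1_zU0b : PosD ⟨⟨0, 1, 1⟩, ⟨98, 99, 147⟩, ⟨825, 1351, 10000⟩, ⟨550, 900, 1000⟩⟩ (tB1.hZU false) :=
  posD_of_check (c := ⟨162, ⟨4, 3, 6, 3⟩⟩) (by decide +kernel)

def tB1_zU0 : PosD ⟨⟨0, 1, 1⟩, ⟨98, 99, 147⟩, ⟨300, 1351, 10000⟩, ⟨550, 900, 1000⟩⟩ (tB1.hZU false) :=
  posD_join₂ tB1_zU0a tB1_zU0b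

def tB1_eL0 : PosD ⟨⟨0, 1, 1⟩, ⟨98, 99, 147⟩, ⟨300, 1351, 10000⟩, ⟨550, 900, 1000⟩⟩ (tB1.hEL false) :=
  posD_of_check (c := ⟨209, ⟨5, 6, 7, 3⟩⟩) (by decide +kernel)

def tB1_eH0 : PosD ⟨⟨0, 1, 1⟩, ⟨98, 99, 147⟩, ⟨300, 1351, 10000⟩, ⟨550, 900, 1000⟩⟩ (tB1.hEH false) :=
  posD_of_check (c := ⟨223, ⟨5, 6, 7, 3⟩⟩) (by decide +kernel)

def tB1_pL0 : PosD ⟨⟨0, 1, 1⟩, ⟨98, 99, 147⟩, ⟨300, 1351, 10000⟩, ⟨550, 900, 1000⟩⟩ (tB1.hPL false) :=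
  posD_of_check (c := ⟨224, ⟨5, 6, 7, 2⟩⟩) (by decide +kernel)

def tB1_pU0 : PosD ⟨⟨0, 1, 1⟩, ⟨98, 99, 147⟩, ⟨300, 1351, 10000⟩, ⟨550, 900, 1000⟩⟩ (tB1.hPU false) :=
  posD_of_check (c := ⟨224, ⟨5, 6, 7, 3⟩⟩) (by decide +kernel)

def tB1_kU0 : PosD ⟨⟨0, 1, 1⟩, ⟨98, 99, 147⟩, ⟨300, 1351, 10000⟩, ⟨550, 900, 1000⟩⟩ (tB1.hKU false) :=
  posD_of_check (c := ⟨220, ⟨5, 6, 7, 3⟩⟩) (by decide +kernel)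

def tB1_kL0 : PosD ⟨⟨0, 1, 1⟩, ⟨98, 99, 147⟩, ⟨300, 1351, 10000⟩, ⟨550, 900, 1000⟩⟩ (tB1.hKL false) :=
  posD_of_check (c := ⟨220, ⟨5, 6, 7, 3⟩⟩) (by decide +kernel)

def tB1_wU0a : PosD ⟨⟨0, 1, 2⟩, ⟨98, 99, 147⟩, ⟨300, 1351, 10000⟩, ⟨550, 900, 1000⟩⟩ (tB1.hWU false) :=
  posD_of_check (c := ⟨256, ⟨5, 8, 8, 3⟩⟩) (by decide +kernel)

def tB1_wU0ba : PosD ⟨⟨2, 3, 4⟩, ⟨98, 99, 147⟩, ⟨300, 1351, 10000⟩, ⟨550, 900, 1000⟩⟩ (tB1.hWU false) :=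
  posD_of_check (c := ⟨261, ⟨5, 8, 8, 3⟩⟩) (by decide +kernel)

def tB1_wU0bba : PosD ⟨⟨6, 7, 8⟩, ⟨98, 99, 147⟩, ⟨300, 1351, 10000⟩, ⟨550, 900, 1000⟩⟩ (tB1.hWU false) :=
  posD_of_check (c := ⟨266, ⟨5, 8, 8, 3⟩⟩) (by decide +kernel)

def tB1_wU0bbba : PosD ⟨⟨14, 15, 16⟩, ⟨98, 99, 147⟩, ⟨300, 1351, 10000⟩, ⟨550, 900, 1000⟩⟩ (tB1.hWU false) :=
  posD_of_check (c := ⟨270, ⟨5, 8, 8, 3⟩⟩) (by decide +kernel)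

def tB1_wU0bbbbaa : PosD ⟨⟨15, 16, 16⟩, ⟨98, 99, 147⟩, ⟨300, 825, 10000⟩, ⟨550, 725, 1000⟩⟩ (tB1.hWU false) :=
  posD_of_check (c := ⟨270, ⟨5, 8, 8, 3⟩⟩) (by decide +kernel)

def tB1_wU0bbbbab : PosD ⟨⟨15, 16, 16⟩, ⟨98, 99, 147⟩, ⟨825, 1351, 10000⟩, ⟨550, 725, 1000⟩⟩ (tB1.hWU false) :=
  posD_of_check (c := ⟨271, ⟨5, 8, 8, 3⟩⟩) (by decide +kernel)

def tB1_wU0bbbba : PosD ⟨⟨15, 16, 16⟩, ⟨98, 99, 147⟩, ⟨300, 1351, 10000⟩, ⟨550, 725, 1000⟩⟩ (tB1.hWU false) :=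
  posD_join₂ tB1_wU0bbbbaa tB1_wU0bbbbab

def tB1_wU0bbbbba : PosD ⟨⟨15, 16, 16⟩, ⟨98, 99, 147⟩, ⟨300, 825, 10000⟩, ⟨725, 900, 1000⟩⟩ (tB1.hWU false) :=
  posD_of_check (c := ⟨270, ⟨5, 8, 8, 3⟩⟩) (by decide +kernel)

def tB1_wU0bbbbbb : PosD ⟨⟨15, 16, 16⟩, ⟨98, 99, 147⟩, ⟨825, 1351, 10000⟩, ⟨725, 900, 1000⟩⟩ (tB1.hWU false) :=
  posD_of_check (c := ⟨271, ⟨5, 8, 8, 3⟩⟩) (by decide +kernel)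

def tB1_wU0bbbbb : PosD ⟨⟨15, 16, 16⟩, ⟨98, 99, 147⟩, ⟨300, 1351, 10000⟩, ⟨725, 900, 1000⟩⟩ (tB1.hWU false) :=
  posD_join₂ tB1_wU0bbbbba tB1_wU0bbbbbb

def tB1_wU0bbbb : PosD ⟨⟨15, 16, 16⟩, ⟨98, 99, 147⟩, ⟨300, 1351, 10000⟩, ⟨550, 900, 1000⟩⟩ (tB1.hWU false) :=
  posD_join₃ tB1_wU0bbbba tB1_wU0bbbbb

def tB1_wU0bbb : PosD ⟨⟨7, 8, 8⟩, ⟨98, 99, 147⟩, ⟨300, 1351, 10000⟩, ⟨550, 900, 1000⟩⟩ (tB1.hWU false) :=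
  posD_units (b := ⟨⟨14, 16, 16⟩, ⟨98, 99, 147⟩, ⟨300, 1351, 10000⟩, ⟨550, 900, 1000⟩⟩) (by decide +kernel) (posD_join₀ tB1_wU0bbba tB1_wU0bbbb)

def tB1_wU0bb : PosD ⟨⟨3, 4, 4⟩, ⟨98, 99, 147⟩, ⟨300, 1351, 10000⟩, ⟨550, 900, 1000⟩⟩ (tB1.hWU false) :=
  posD_units (b := ⟨⟨6, 8, 8⟩, ⟨98, 99, 147⟩, ⟨300, 1351, 10000⟩, ⟨550, 900, 1000⟩⟩) (by decide +kernel) (posD_join₀ tB1_wU0bba tB1_wU0bbb)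

def tB1_wU0b : PosD ⟨⟨1, 2, 2⟩, ⟨98, 99, 147⟩, ⟨300, 1351, 10000⟩, ⟨550, 900, 1000⟩⟩ (tB1.hWU false) :=
  posD_units (b := ⟨⟨2, 4, 4⟩, ⟨98, 99, 147⟩, ⟨300, 1351, 10000⟩, ⟨550, 900, 1000⟩⟩) (by decide +kernel) (posD_join₀ tB1_wU0ba tB1_wU0bb)

def tB1_wU0 : PosD ⟨⟨0, 1, 1⟩, ⟨98, 99, 147⟩, ⟨300, 1351, 10000⟩, ⟨550, 900, 1000⟩⟩ (tB1.hWU false) :=
  posD_units (b := ⟨⟨0, 2, 2⟩, ⟨98, 99, 147⟩, ⟨300, 1351, 10000⟩, ⟨550, 900, 1000⟩⟩) (by decide +kernel) (posD_join₀ tB1_wU0a tB1_wU0b)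

def tB1_wL0 : PosD ⟨⟨0, 1, 1⟩, ⟨98, 99, 147⟩, ⟨300, 1351, 10000⟩, ⟨550, 900, 1000⟩⟩ (tB1.hWL false) :=
  posD_of_check (c := ⟨256, ⟨5, 8, 8, 3⟩⟩) (by decide +kernel)

def tB1_ev1 : PosD ⟨⟨0, 1, 1⟩, ⟨98, 99, 147⟩, ⟨300, 1351, 10000⟩, ⟨550, 900, 1000⟩⟩ (tB1.hEv true) :=
  posD_of_check (c := ⟨118, ⟨4, 2, 4, 1⟩⟩) (by decide +kernel)

def tB1_zL1aa : PosD ⟨⟨0, 1, 1⟩, ⟨98, 99, 147⟩, ⟨300, 562, 10000⟩, ⟨550, 900, 1000⟩⟩ (tB1.hZL true) :=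
  posD_of_check (c := ⟨160, ⟨4, 3, 6, 3⟩⟩) (by decide +kernel)

def tB1_zL1ab : PosD ⟨⟨0, 1, 1⟩, ⟨98, 99, 147⟩, ⟨562, 825, 10000⟩, ⟨550, 900, 1000⟩⟩ (tB1.hZL true) :=
  posD_of_check (c := ⟨161, ⟨4, 3, 6, 3⟩⟩) (by decide +kernel)

def tB1_zL1a : PosD ⟨⟨0, 1, 1⟩, ⟨98, 99, 147⟩, ⟨300, 825, 10000⟩, ⟨550, 900, 1000⟩⟩ (tB1.hZL true) :=
  posD_join₂ tB1_zL1aa tB1_zL1ab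

def tB1_zL1b : PosD ⟨⟨0, 1, 1⟩, ⟨98, 99, 147⟩, ⟨825, 1351, 10000⟩, ⟨550, 900, 1000⟩⟩ (tB1.hZL true) :=
  posD_of_check (c := ⟨161, ⟨4, 3, 6, 3⟩⟩) (by decide +kernel)

def tB1_zL1 : PosD ⟨⟨0, 1, 1⟩, ⟨98, 99, 147⟩, ⟨300, 1351, 10000⟩, ⟨550, 900, 1000⟩⟩ (tB1.hZL true) :=
  posD_join₂ tB1_zL1a tB1_zL1b

def tB1_zU1 : PosD ⟨⟨0, 1, 1⟩, ⟨98, 99, 147⟩, ⟨300, 1351, 10000⟩, ⟨550, 900, 1000⟩⟩ (tB1.hZU true) :=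
  posD_of_check (c := ⟨161, ⟨4, 3, 6, 3⟩⟩) (by decide +kernel)

def tB1_eL1 : PosD ⟨⟨0, 1, 1⟩, ⟨98, 99, 147⟩, ⟨300, 1351, 10000⟩, ⟨550, 900, 1000⟩⟩ (tB1.hEL true) :=
  posD_of_check (c := ⟨211, ⟨5, 6, 7, 3⟩⟩) (by decide +kernel)

def tB1_eH1 : PosD ⟨⟨0, 1, 1⟩, ⟨98, 99, 147⟩, ⟨300, 1351, 10000⟩, ⟨550, 900, 1000⟩⟩ (tB1.hEH true) :=
  posD_of_check (c := ⟨224, ⟨5, 6, 7, 3⟩⟩) (by decide +kernel)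

def tB1_pL1 : PosD ⟨⟨0, 1, 1⟩, ⟨98, 99, 147⟩, ⟨300, 1351, 10000⟩, ⟨550, 900, 1000⟩⟩ (tB1.hPL true) :=
  posD_of_check (c := ⟨225, ⟨5, 6, 7, 2⟩⟩) (by decide +kernel)

def tB1_pU1aa : PosD ⟨⟨0, 1, 1⟩, ⟨98, 99, 147⟩, ⟨300, 825, 10000⟩, ⟨550, 725, 1000⟩⟩ (tB1.hPU true) :=
  posD_of_check (c := ⟨225, ⟨5, 6, 7, 3⟩⟩) (by decide +kernel)

def tB1_pU1ab : PosD ⟨⟨0, 1, 1⟩, ⟨98, 99, 147⟩, ⟨825, 1351, 10000⟩, ⟨550, 725, 1000⟩⟩ (tB1.hPU true) :=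
  posD_of_check (c := ⟨226, ⟨5, 6, 7, 3⟩⟩) (by decide +kernel)

def tB1_pU1a : PosD ⟨⟨0, 1, 1⟩, ⟨98, 99, 147⟩, ⟨300, 1351, 10000⟩, ⟨550, 725, 1000⟩⟩ (tB1.hPU true) :=
  posD_join₂ tB1_pU1aa tB1_pU1ab

def tB1_pU1baa : PosD ⟨⟨0, 1, 2⟩, ⟨98, 99, 147⟩, ⟨300, 1351, 10000⟩, ⟨725, 812, 1000⟩⟩ (tB1.hPU true) :=
  posD_of_check (c := ⟨227, ⟨5, 6, 7, 3⟩⟩) (by decide +kernel)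

def tB1_pU1bab : PosD ⟨⟨0, 1, 2⟩, ⟨98, 99, 147⟩, ⟨300, 1351, 10000⟩, ⟨812, 900, 1000⟩⟩ (tB1.hPU true) :=
  posD_of_check (c := ⟨227, ⟨5, 6, 7, 3⟩⟩) (by decide +kernel)

def tB1_pU1ba : PosD ⟨⟨0, 1, 2⟩, ⟨98, 99, 147⟩, ⟨300, 1351, 10000⟩, ⟨725, 900, 1000⟩⟩ (tB1.hPU true) :=
  posD_join₃ tB1_pU1baa tB1_pU1bab

def tB1_pU1bba : PosD ⟨⟨1, 2, 2⟩, ⟨98, 99, 147⟩, ⟨300, 1351, 10000⟩, ⟨725, 812, 1000⟩⟩ (tB1.hPU true) :=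
  posD_of_check (c := ⟨229, ⟨5, 6, 7, 3⟩⟩) (by decide +kernel)

def tB1_pU1bbb : PosD ⟨⟨1, 2, 2⟩, ⟨98, 99, 147⟩, ⟨300, 1351, 10000⟩, ⟨812, 900, 1000⟩⟩ (tB1.hPU true) :=
  posD_of_check (c := ⟨229, ⟨5, 6, 7, 3⟩⟩) (by decide +kernel)

def tB1_pU1bb : PosD ⟨⟨1, 2, 2⟩, ⟨98, 99, 147⟩, ⟨300, 1351, 10000⟩, ⟨725, 900, 1000⟩⟩ (tB1.hPU true) :=
  posD_join₃ tB1_pU1bba tB1_pU1bbb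

def tB1_pU1b : PosD ⟨⟨0, 1, 1⟩, ⟨98, 99, 147⟩, ⟨300, 1351, 10000⟩, ⟨725, 900, 1000⟩⟩ (tB1.hPU true) :=
  posD_units (b := ⟨⟨0, 2, 2⟩, ⟨98, 99, 147⟩, ⟨300, 1351, 10000⟩, ⟨725, 900, 1000⟩⟩) (by decide +kernel) (posD_join₀ tB1_pU1ba tB1_pU1bb)

def tB1_pU1 : PosD ⟨⟨0, 1, 1⟩, ⟨98, 99, 147⟩, ⟨300, 1351, 10000⟩, ⟨550, 900, 1000⟩⟩ (tB1.hPU true) :=
  posD_join₃ tB1_pU1a tB1_pU1b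

def tB1_kU1 : PosD ⟨⟨0, 1, 1⟩, ⟨98, 99, 147⟩, ⟨300, 1351, 10000⟩, ⟨550, 900, 1000⟩⟩ (tB1.hKU true) :=
  posD_of_check (c := ⟨222, ⟨5, 6, 7, 3⟩⟩) (by decide +kernel)

def tB1_kL1 : PosD ⟨⟨0, 1, 1⟩, ⟨98, 99, 147⟩, ⟨300, 1351, 10000⟩, ⟨550, 900, 1000⟩⟩ (tB1.hKL true) :=
  posD_of_check (c := ⟨221, ⟨5, 6, 7, 3⟩⟩) (by decide +kernel)

def tB1_wU1aaa : PosD ⟨⟨0, 1, 2⟩, ⟨98, 99, 147⟩, ⟨300, 1351, 10000⟩, ⟨550, 637, 1000⟩⟩ (tB1.hWU true) :=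
  posD_of_check (c := ⟨259, ⟨5, 8, 8, 3⟩⟩) (by decide +kernel)

def tB1_wU1aab : PosD ⟨⟨0, 1, 2⟩, ⟨98, 99, 147⟩, ⟨300, 1351, 10000⟩, ⟨637, 725, 1000⟩⟩ (tB1.hWU true) :=
  posD_of_check (c := ⟨259, ⟨5, 8, 8, 3⟩⟩) (by decide +kernel)

def tB1_wU1aa : PosD ⟨⟨0, 1, 2⟩, ⟨98, 99, 147⟩, ⟨300, 1351, 10000⟩, ⟨550, 725, 1000⟩⟩ (tB1.hWU true) :=
  posD_join₃ tB1_wU1aaa tB1_wU1aab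

def tB1_wU1ab : PosD ⟨⟨1, 2, 2⟩, ⟨98, 99, 147⟩, ⟨300, 1351, 10000⟩, ⟨550, 725, 1000⟩⟩ (tB1.hWU true) :=
  posD_of_check (c := ⟨260, ⟨5, 8, 8, 3⟩⟩) (by decide +kernel)

def tB1_wU1a : PosD ⟨⟨0, 1, 1⟩, ⟨98, 99, 147⟩, ⟨300, 1351, 10000⟩, ⟨550, 725, 1000⟩⟩ (tB1.hWU true) :=
  posD_units (b := ⟨⟨0, 2, 2⟩, ⟨98, 99, 147⟩, ⟨300, 1351, 10000⟩, ⟨550, 725, 1000⟩⟩) (by decide +kernel) (posD_join₀ tB1_wU1aa tB1_wU1ab)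

def tB1_wU1baaa : PosD ⟨⟨0, 1, 2⟩, ⟨98, 99, 147⟩, ⟨300, 825, 10000⟩, ⟨725, 812, 1000⟩⟩ (tB1.hWU true) :=
  posD_of_check (c := ⟨258, ⟨5, 8, 8, 3⟩⟩) (by decide +kernel)

def tB1_wU1baab : PosD ⟨⟨0, 1, 2⟩, ⟨98, 99, 147⟩, ⟨300, 825, 10000⟩, ⟨812, 900, 1000⟩⟩ (tB1.hWU true) :=
  posD_of_check (c := ⟨258, ⟨5, 8, 8, 3⟩⟩) (by decide +kernel)

def tB1_wU1baa : PosD ⟨⟨0, 1, 2⟩, ⟨98, 99, 147⟩, ⟨300, 825, 10000⟩, ⟨725, 900, 1000⟩⟩ (tB1.hWU true) :=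
  posD_join₃ tB1_wU1baaa tB1_wU1baab

def tB1_wU1baba : PosD ⟨⟨0, 1, 4⟩, ⟨98, 99, 147⟩, ⟨825, 1351, 10000⟩, ⟨725, 900, 1000⟩⟩ (tB1.hWU true) :=
  posD_of_check (c := ⟨262, ⟨5, 8, 8, 3⟩⟩) (by decide +kernel)

def tB1_wU1babb : PosD ⟨⟨1, 2, 4⟩, ⟨98, 99, 147⟩, ⟨825, 1351, 10000⟩, ⟨725, 900, 1000⟩⟩ (tB1.hWU true) :=
  posD_of_check (c := ⟨263, ⟨5, 8, 8, 3⟩⟩) (by decide +kernel)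

def tB1_wU1bab : PosD ⟨⟨0, 1, 2⟩, ⟨98, 99, 147⟩, ⟨825, 1351, 10000⟩, ⟨725, 900, 1000⟩⟩ (tB1.hWU true) :=
  posD_units (b := ⟨⟨0, 2, 4⟩, ⟨98, 99, 147⟩, ⟨825, 1351, 10000⟩, ⟨725, 900, 1000⟩⟩) (by decide +kernel) (posD_join₀ tB1_wU1baba tB1_wU1babb)

def tB1_wU1ba : PosD ⟨⟨0, 1, 2⟩, ⟨98, 99, 147⟩, ⟨300, 1351, 10000⟩, ⟨725, 900, 1000⟩⟩ (tB1.hWU true) :=
  posD_join₂ tB1_wU1baa tB1_wU1bab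

def tB1_wU1bb : PosD ⟨⟨1, 2, 2⟩, ⟨98, 99, 147⟩, ⟨300, 1351, 10000⟩, ⟨725, 900, 1000⟩⟩ (tB1.hWU true) :=
  posD_of_check (c := ⟨260, ⟨5, 8, 8, 3⟩⟩) (by decide +kernel)

def tB1_wU1b : PosD ⟨⟨0, 1, 1⟩, ⟨98, 99, 147⟩, ⟨300, 1351, 10000⟩, ⟨725, 900, 1000⟩⟩ (tB1.hWU true) :=
  posD_units (b := ⟨⟨0, 2, 2⟩, ⟨98, 99, 147⟩, ⟨300, 1351, 10000⟩, ⟨725, 900, 1000⟩⟩) (by decide +kernel) (posD_join₀ tB1_wU1ba tB1_wU1bb)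

def tB1_wU1 : PosD ⟨⟨0, 1, 1⟩, ⟨98, 99, 147⟩, ⟨300, 1351, 10000⟩, ⟨550, 900, 1000⟩⟩ (tB1.hWU true) :=
  posD_join₃ tB1_wU1a tB1_wU1b

def tB1_wL1 : PosD ⟨⟨0, 1, 1⟩, ⟨98, 99, 147⟩, ⟨300, 1351, 10000⟩, ⟨550, 900, 1000⟩⟩ (tB1.hWL true) :=
  posD_of_check (c := ⟨257, ⟨5, 8, 8, 3⟩⟩) (by decide +kernel)

def tB1_mueH : PosD ⟨⟨0, 1, 1⟩, ⟨98, 99, 147⟩, ⟨300, 1351, 10000⟩, ⟨550, 900, 1000⟩⟩ (tB1.eH.μ) :=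
  posD_of_check (c := ⟨13, ⟨0, 0, 0, 0⟩⟩) (by decide +kernel)

def tB1_mupL : PosD ⟨⟨0, 1, 1⟩, ⟨98, 99, 147⟩, ⟨300, 1351, 10000⟩, ⟨550, 900, 1000⟩⟩ (tB1.pL.μ) :=
  posD_of_check (c := ⟨16, ⟨0, 0, 0, 0⟩⟩) (by decide +kernel)

/-- The bounds of the piece. -/
def tB1_env : tB1.Env ⟨⟨0, 1, 1⟩, ⟨98, 99, 147⟩, ⟨300, 1351, 10000⟩, ⟨550, 900, 1000⟩⟩ :=
  ⟨tB1_p0, Bool.forall_bool.2 ⟨tB1_den0, tB1_den1⟩, tB1_gn, Bool.forall_bool.2 ⟨tB1_ev0, tB1_ev1⟩, Bool.forall_bool.2 ⟨tB1_zL0, tB1_zL1⟩, Bool.forall_bool.2 ⟨tB1_zU0, tB1_zU1⟩, Bool.forall_bool.2 ⟨tB1_eL0, tB1_eL1⟩, ⟨.inr rfl, .inr rfl⟩, Bool.forall_bool.2 ⟨tB1_eH0, tB1_eH1⟩, ⟨.inl tB1_mueH, .inr rfl⟩, Bool.forall_bool.2 ⟨tB1_pL0, tB1_pL1⟩, ⟨.inl tB1_mupL, .inr rfl⟩,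 Bool.forall_bool.2 ⟨tB1_pU0, tB1_pU1⟩, ⟨.inr rfl, .inr rfl⟩, Bool.forall_bool.2 ⟨tB1_kU0, tB1_kU1⟩, ⟨.inr rfl, .inr rfl⟩, Bool.forall_bool.2 ⟨tB1_kL0, tB1_kL1⟩, ⟨.inr rfl, .inr rfl⟩, Bool.forall_bool.2 ⟨tB1_wU0, tB1_wU1⟩, ⟨.inr rfl, .inr rfl⟩, Bool.forall_bool.2 ⟨tB1_wL0, tB1_wL1⟩, ⟨.inr rfl, .inr rfl⟩⟩

def tB1_pp : PosD ⟨⟨0, 1, 1⟩, ⟨98, 99, 147⟩, ⟨300, 1351, 10000⟩, ⟨550, 900, 1000⟩⟩ (tB1.xPL) :=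
  posD_of_check (c := ⟨61, ⟨1, 1, 2, 2⟩⟩) (by decide +kernel)

def tB1_k2p : PosD ⟨⟨0, 1, 1⟩, ⟨98, 99, 147⟩, ⟨300, 1351, 10000⟩, ⟨550, 900, 1000⟩⟩ (tB1.k2p tB1.xE) :=
  posD_of_check (c := ⟨69, ⟨1, 1, 2, 2⟩⟩) (by decide +kernel)

def tB1_k2m : PosD ⟨⟨0, 1, 1⟩, ⟨98, 99, 147⟩, ⟨300, 1351, 10000⟩, ⟨550, 900, 1000⟩⟩ (tB1.k2m tB1.xE) :=
  posD_of_check (c := ⟨29, ⟨0, 0, 1, 1⟩⟩) (by decide +kernel)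

def tB1_v2p : PosD ⟨⟨0, 1, 1⟩, ⟨98, 99, 147⟩, ⟨300, 1351, 10000⟩, ⟨550, 900, 1000⟩⟩ (tB1.hV2p) :=
  posD_of_check (c := ⟨262, ⟨1, 6, 10, 5⟩⟩) (by decide +kernel)

def tB1_v2m : PosD ⟨⟨0, 1, 1⟩, ⟨98, 99, 147⟩, ⟨300, 1351, 10000⟩, ⟨550, 900, 1000⟩⟩ (tB1.hV2m) :=
  posD_of_check (c := ⟨232, ⟨0, 5, 10, 4⟩⟩) (by decide +kernel)

def tB1_v3p : PosD ⟨⟨0, 1, 1⟩, ⟨98, 99, 147⟩, ⟨300, 1351, 10000⟩, ⟨550, 900, 1000⟩⟩ (tB1.hV3p) :=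
  posD_of_check (c := ⟨248, ⟨1, 6, 9, 5⟩⟩) (by decide +kernel)

def tB1_v3m : PosD ⟨⟨0, 1, 1⟩, ⟨98, 99, 147⟩, ⟨300, 1351, 10000⟩, ⟨550, 900, 1000⟩⟩ (tB1.hV3m) :=
  posD_of_check (c := ⟨222, ⟨0, 5, 9, 4⟩⟩) (by decide +kernel)

def tB1_kap0 : PosD ⟨⟨0, 1, 1⟩, ⟨98, 99, 147⟩, ⟨300, 1351, 10000⟩, ⟨550, 900, 1000⟩⟩ (tB1.kap false) :=
  posD_of_check (c := ⟨63, ⟨1, 1, 2, 2⟩⟩) (by decide +kernel)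

def tB1_c10 : PosD ⟨⟨0, 1, 1⟩, ⟨98, 99, 147⟩, ⟨300, 1351, 10000⟩, ⟨550, 900, 1000⟩⟩ (tB1.hC1 false) :=
  posD_of_check (c := ⟨233, ⟨3, 5, 8, 6⟩⟩) (by decide +kernel)

def tB1_c1h0 : PosD ⟨⟨0, 1, 1⟩, ⟨98, 99, 147⟩, ⟨300, 1351, 10000⟩, ⟨550, 900, 1000⟩⟩ (tB1.hC1' false) :=
  posD_of_check (c := ⟨233, ⟨3, 5, 8, 6⟩⟩) (by decide +kernel)

def tB1_tg00 : PosD ⟨⟨0, 1, 1⟩, ⟨98, 99, 147⟩, ⟨300, 1351, 10000⟩, ⟨550, 900, 1000⟩⟩ (tB1.hG false (tB1.pEnd false)) :=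
  posD_of_check (c := ⟨360, ⟨2, 7, 14, 9⟩⟩) (by decide +kernel)

def tB1_c2p00 : PosD ⟨⟨0, 1, 1⟩, ⟨98, 99, 147⟩, ⟨300, 1351, 10000⟩, ⟨550, 900, 1000⟩⟩ (tB1.hC2p false (tB1.pEnd false)) :=
  posD_of_check (c := ⟨429, ⟨3, 8, 16, 11⟩⟩) (by decide +kernel)

def tB1_c2m00 : PosD ⟨⟨0, 1, 1⟩, ⟨98, 99, 147⟩, ⟨300, 1351, 10000⟩, ⟨550, 900, 1000⟩⟩ (tB1.hC2m false (tB1.pEnd false)) :=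
  posD_of_check (c := ⟨389, ⟨2, 7, 15, 10⟩⟩) (by decide +kernel)

def tB1_c3p00 : PosD ⟨⟨0, 1, 1⟩, ⟨98, 99, 147⟩, ⟨300, 1351, 10000⟩, ⟨550, 900, 1000⟩⟩ (tB1.hC3p false false) :=
  posD_of_check (c := ⟨392, ⟨3, 8, 14, 10⟩⟩) (by decide +kernel)

def tB1_c3m00 : PosD ⟨⟨0, 1, 1⟩, ⟨98, 99, 147⟩, ⟨300, 1351, 10000⟩, ⟨550, 900, 1000⟩⟩ (tB1.hC3m false false) :=
  posD_of_check (c := ⟨357, ⟨3, 7, 14, 9⟩⟩) (by decide +kernel)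

def tB1_c3ph00 : PosD ⟨⟨0, 1, 1⟩, ⟨98, 99, 147⟩, ⟨300, 1351, 10000⟩, ⟨550, 900, 1000⟩⟩ (tB1.hC3p' false false) :=
  posD_of_check (c := ⟨392, ⟨3, 8, 14, 10⟩⟩) (by decide +kernel)

def tB1_c3mh00 : PosD ⟨⟨0, 1, 1⟩, ⟨98, 99, 147⟩, ⟨300, 1351, 10000⟩, ⟨550, 900, 1000⟩⟩ (tB1.hC3m' false false) :=
  posD_of_check (c := ⟨357, ⟨3, 7, 14, 9⟩⟩) (by decide +kernel)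

def tB1_up00 : PosD ⟨⟨0, 1, 1⟩, ⟨98, 99, 147⟩, ⟨300, 1351, 10000⟩, ⟨550, 900, 1000⟩⟩ (tB1.hUp false false) :=
  posD_of_check (c := ⟨392, ⟨3, 8, 14, 10⟩⟩) (by decide +kernel)

def tB1_um00 : PosD ⟨⟨0, 1, 1⟩, ⟨98, 99, 147⟩, ⟨300, 1351, 10000⟩, ⟨550, 900, 1000⟩⟩ (tB1.hUm false false) :=
  posD_of_check (c := ⟨356, ⟨2, 7, 14, 9⟩⟩) (by decide +kernel)

def tB1_tmg00 : PosD ⟨⟨0, 1, 1⟩, ⟨98, 99, 147⟩, ⟨300, 1351, 10000⟩, ⟨550, 900, 1000⟩⟩ (tB1.hTMG false (tB1.pEnd false)) :=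
  posD_of_check (c := ⟨340, ⟨2, 7, 13, 8⟩⟩) (by decide +kernel)

def tB1_tg01 : PosD ⟨⟨0, 1, 1⟩, ⟨98, 99, 147⟩, ⟨300, 1351, 10000⟩, ⟨550, 900, 1000⟩⟩ (tB1.hG true (tB1.pEnd false)) :=
  posD_of_check (c := ⟨360, ⟨2, 7, 14, 9⟩⟩) (by decide +kernel)

def tB1_c2p01 : PosD ⟨⟨0, 1, 1⟩, ⟨98, 99, 147⟩, ⟨300, 1351, 10000⟩, ⟨550, 900, 1000⟩⟩ (tB1.hC2p true (tB1.pEnd false)) :=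
  posD_of_check (c := ⟨429, ⟨3, 8, 16, 11⟩⟩) (by decide +kernel)

def tB1_c2m01 : PosD ⟨⟨0, 1, 1⟩, ⟨98, 99, 147⟩, ⟨300, 1351, 10000⟩, ⟨550, 900, 1000⟩⟩ (tB1.hC2m true (tB1.pEnd false)) :=
  posD_of_check (c := ⟨389, ⟨2, 7, 15, 10⟩⟩) (by decide +kernel)

def tB1_c3p01 : PosD ⟨⟨0, 1, 1⟩, ⟨98, 99, 147⟩, ⟨300, 1351, 10000⟩, ⟨550, 900, 1000⟩⟩ (tB1.hC3p false true) :=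
  posD_of_check (c := ⟨392, ⟨3, 8, 14, 10⟩⟩) (by decide +kernel)

def tB1_c3m01 : PosD ⟨⟨0, 1, 1⟩, ⟨98, 99, 147⟩, ⟨300, 1351, 10000⟩, ⟨550, 900, 1000⟩⟩ (tB1.hC3m false true) :=
  posD_of_check (c := ⟨357, ⟨3, 7, 14, 9⟩⟩) (by decide +kernel)

def tB1_c3ph01 : PosD ⟨⟨0, 1, 1⟩, ⟨98, 99, 147⟩, ⟨300, 1351, 10000⟩, ⟨550, 900, 1000⟩⟩ (tB1.hC3p' false true) :=
  posD_of_check (c := ⟨392, ⟨3, 8, 14, 10⟩⟩) (by decide +kernel)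

def tB1_c3mh01 : PosD ⟨⟨0, 1, 1⟩, ⟨98, 99, 147⟩, ⟨300, 1351, 10000⟩, ⟨550, 900, 1000⟩⟩ (tB1.hC3m' false true) :=
  posD_of_check (c := ⟨357, ⟨3, 7, 14, 9⟩⟩) (by decide +kernel)

def tB1_up01 : PosD ⟨⟨0, 1, 1⟩, ⟨98, 99, 147⟩, ⟨300, 1351, 10000⟩, ⟨550, 900, 1000⟩⟩ (tB1.hUp false true) :=
  posD_of_check (c := ⟨392, ⟨3, 8, 14, 10⟩⟩) (by decide +kernel)

def tB1_um01 : PosD ⟨⟨0, 1, 1⟩, ⟨98, 99, 147⟩, ⟨300, 1351, 10000⟩, ⟨550, 900, 1000⟩⟩ (tB1.hUm false true) :=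
  posD_of_check (c := ⟨356, ⟨2, 7, 14, 9⟩⟩) (by decide +kernel)

def tB1_tmg01 : PosD ⟨⟨0, 1, 1⟩, ⟨98, 99, 147⟩, ⟨300, 1351, 10000⟩, ⟨550, 900, 1000⟩⟩ (tB1.hTMG true (tB1.pEnd false)) :=
  posD_of_check (c := ⟨340, ⟨2, 7, 13, 8⟩⟩) (by decide +kernel)

def tB1_kap1 : PosD ⟨⟨0, 1, 1⟩, ⟨98, 99, 147⟩, ⟨300, 1351, 10000⟩, ⟨550, 900, 1000⟩⟩ (tB1.kap true) :=
  posD_of_check (c := ⟨66, ⟨1, 1, 2, 2⟩⟩) (by decide +kernel)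

def tB1_c11 : PosD ⟨⟨0, 1, 1⟩, ⟨98, 99, 147⟩, ⟨300, 1351, 10000⟩, ⟨550, 900, 1000⟩⟩ (tB1.hC1 true) :=
  posD_of_check (c := ⟨264, ⟨3, 5, 9, 7⟩⟩) (by decide +kernel)

def tB1_c1h1 : PosD ⟨⟨0, 1, 1⟩, ⟨98, 99, 147⟩, ⟨300, 1351, 10000⟩, ⟨550, 900, 1000⟩⟩ (tB1.hC1' true) :=
  posD_of_check (c := ⟨264, ⟨3, 5, 9, 7⟩⟩) (by decide +kernel)

def tB1_tg10 : PosD ⟨⟨0, 1, 1⟩, ⟨98, 99, 147⟩, ⟨300, 1351, 10000⟩, ⟨550, 900, 1000⟩⟩ (tB1.hG false (tB1.pEnd true)) :=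
  posD_of_check (c := ⟨371, ⟨2, 7, 14, 9⟩⟩) (by decide +kernel)

def tB1_c2p10 : PosD ⟨⟨0, 1, 1⟩, ⟨98, 99, 147⟩, ⟨300, 1351, 10000⟩, ⟨550, 900, 1000⟩⟩ (tB1.hC2p false (tB1.pEnd true)) :=
  posD_of_check (c := ⟨440, ⟨3, 8, 16, 11⟩⟩) (by decide +kernel)

def tB1_c2m10 : PosD ⟨⟨0, 1, 1⟩, ⟨98, 99, 147⟩, ⟨300, 1351, 10000⟩, ⟨550, 900, 1000⟩⟩ (tB1.hC2m false (tB1.pEnd true)) :=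
  posD_of_check (c := ⟨410, ⟨2, 7, 16, 10⟩⟩) (by decide +kernel)

def tB1_c3p10 : PosD ⟨⟨0, 1, 1⟩, ⟨98, 99, 147⟩, ⟨300, 1351, 10000⟩, ⟨550, 900, 1000⟩⟩ (tB1.hC3p true false) :=
  posD_of_check (c := ⟨428, ⟨3, 8, 15, 11⟩⟩) (by decide +kernel)

def tB1_c3m10 : PosD ⟨⟨0, 1, 1⟩, ⟨98, 99, 147⟩, ⟨300, 1351, 10000⟩, ⟨550, 900, 1000⟩⟩ (tB1.hC3m true false) :=
  posD_of_check (c := ⟨403, ⟨3, 7, 15, 10⟩⟩) (by decide +kernel)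

def tB1_c3ph10 : PosD ⟨⟨0, 1, 1⟩, ⟨98, 99, 147⟩, ⟨300, 1351, 10000⟩, ⟨550, 900, 1000⟩⟩ (tB1.hC3p' true false) :=
  posD_of_check (c := ⟨428, ⟨3, 8, 15, 11⟩⟩) (by decide +kernel)

def tB1_c3mh10 : PosD ⟨⟨0, 1, 1⟩, ⟨98, 99, 147⟩, ⟨300, 1351, 10000⟩, ⟨550, 900, 1000⟩⟩ (tB1.hC3m' true false) :=
  posD_of_check (c := ⟨403, ⟨3, 7, 15, 10⟩⟩) (by decide +kernel)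

def tB1_up10 : PosD ⟨⟨0, 1, 1⟩, ⟨98, 99, 147⟩, ⟨300, 1351, 10000⟩, ⟨550, 900, 1000⟩⟩ (tB1.hUp true false) :=
  posD_of_check (c := ⟨427, ⟨3, 8, 15, 11⟩⟩) (by decide +kernel)

def tB1_um10 : PosD ⟨⟨0, 1, 1⟩, ⟨98, 99, 147⟩, ⟨300, 1351, 10000⟩, ⟨550, 900, 1000⟩⟩ (tB1.hUm true false) :=
  posD_of_check (c := ⟨400, ⟨2, 7, 15, 10⟩⟩) (by decide +kernel)

def tB1_tmg10 : PosD ⟨⟨0, 1, 1⟩, ⟨98, 99, 147⟩, ⟨300, 1351, 10000⟩, ⟨550, 900, 1000⟩⟩ (tB1.hTMG false (tB1.pEnd true)) :=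
  posD_of_check (c := ⟨385, ⟨2, 7, 14, 10⟩⟩) (by decide +kernel)

def tB1_tg11 : PosD ⟨⟨0, 1, 1⟩, ⟨98, 99, 147⟩, ⟨300, 1351, 10000⟩, ⟨550, 900, 1000⟩⟩ (tB1.hG true (tB1.pEnd true)) :=
  posD_of_check (c := ⟨371, ⟨2, 7, 14, 9⟩⟩) (by decide +kernel)

def tB1_c2p11 : PosD ⟨⟨0, 1, 1⟩, ⟨98, 99, 147⟩, ⟨300, 1351, 10000⟩, ⟨550, 900, 1000⟩⟩ (tB1.hC2p true (tB1.pEnd true)) :=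
  posD_of_check (c := ⟨440, ⟨3, 8, 16, 11⟩⟩) (by decide +kernel)

def tB1_c2m11 : PosD ⟨⟨0, 1, 1⟩, ⟨98, 99, 147⟩, ⟨300, 1351, 10000⟩, ⟨550, 900, 1000⟩⟩ (tB1.hC2m true (tB1.pEnd true)) :=
  posD_of_check (c := ⟨410, ⟨2, 7, 16, 10⟩⟩) (by decide +kernel)

def tB1_c3p11 : PosD ⟨⟨0, 1, 1⟩, ⟨98, 99, 147⟩, ⟨300, 1351, 10000⟩, ⟨550, 900, 1000⟩⟩ (tB1.hC3p true true) :=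
  posD_of_check (c := ⟨428, ⟨3, 8, 15, 11⟩⟩) (by decide +kernel)

def tB1_c3m11 : PosD ⟨⟨0, 1, 1⟩, ⟨98, 99, 147⟩, ⟨300, 1351, 10000⟩, ⟨550, 900, 1000⟩⟩ (tB1.hC3m true true) :=
  posD_of_check (c := ⟨403, ⟨3, 7, 15, 10⟩⟩) (by decide +kernel)

def tB1_c3ph11 : PosD ⟨⟨0, 1, 1⟩, ⟨98, 99, 147⟩, ⟨300, 1351, 10000⟩, ⟨550, 900, 1000⟩⟩ (tB1.hC3p' true true) :=
  posD_of_check (c := ⟨428, ⟨3, 8, 15, 11⟩⟩) (by decide +kernel)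

def tB1_c3mh11 : PosD ⟨⟨0, 1, 1⟩, ⟨98, 99, 147⟩, ⟨300, 1351, 10000⟩, ⟨550, 900, 1000⟩⟩ (tB1.hC3m' true true) :=
  posD_of_check (c := ⟨403, ⟨3, 7, 15, 10⟩⟩) (by decide +kernel)

def tB1_up11 : PosD ⟨⟨0, 1, 1⟩, ⟨98, 99, 147⟩, ⟨300, 1351, 10000⟩, ⟨550, 900, 1000⟩⟩ (tB1.hUp true true) :=
  posD_of_check (c := ⟨427, ⟨3, 8, 15, 11⟩⟩) (by decide +kernel)

def tB1_um11 : PosD ⟨⟨0, 1, 1⟩, ⟨98, 99, 147⟩, ⟨300, 1351, 10000⟩, ⟨550, 900, 1000⟩⟩ (tB1.hUm true true) :=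
  posD_of_check (c := ⟨400, ⟨2, 7, 15, 10⟩⟩) (by decide +kernel)

def tB1_tmg11 : PosD ⟨⟨0, 1, 1⟩, ⟨98, 99, 147⟩, ⟨300, 1351, 10000⟩, ⟨550, 900, 1000⟩⟩ (tB1.hTMG true (tB1.pEnd true)) :=
  posD_of_check (c := ⟨385, ⟨2, 7, 14, 10⟩⟩) (by decide +kernel)

/-- The signs of the piece. -/
def tB1_sign : tB1.Sign ⟨⟨0, 1, 1⟩, ⟨98, 99, 147⟩, ⟨300, 1351, 10000⟩, ⟨550, 900, 1000⟩⟩ :=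
  ⟨tB1_pp,
    tB1_k2p,
    tB1_k2m,
    Bool.forall_bool.2 ⟨(Bool.forall_bool.2 ⟨tB1_tg00, tB1_tg01⟩), (Bool.forall_bool.2 ⟨tB1_tg10, tB1_tg11⟩)⟩,
    Bool.forall_bool.2 ⟨(Bool.forall_bool.2 ⟨tB1_c2p00, tB1_c2p01⟩), (Bool.forall_bool.2 ⟨tB1_c2p10, tB1_c2p11⟩)⟩,
    Bool.forall_bool.2 ⟨(Bool.forall_bool.2 ⟨tB1_c2m00, tB1_c2m01⟩), (Bool.forall_bool.2 ⟨tB1_c2m10, tB1_c2m11⟩)⟩,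
    Bool.forall_bool.2 ⟨tB1_kap0, tB1_kap1⟩,
    Bool.forall_bool.2 ⟨tB1_c10, tB1_c11⟩,
    Bool.forall_bool.2 ⟨(Bool.forall_bool.2 ⟨tB1_c3p00, tB1_c3p01⟩), (Bool.forall_bool.2 ⟨tB1_c3p10, tB1_c3p11⟩)⟩,
    Bool.forall_bool.2 ⟨(Bool.forall_bool.2 ⟨tB1_c3m00, tB1_c3m01⟩), (Bool.forall_bool.2 ⟨tB1_c3m10, tB1_c3m11⟩)⟩,
    Bool.forall_bool.2 ⟨(Bool.forall_bool.2 ⟨tB1_tmg00, tB1_tmg01⟩), (Bool.forall_bool.2 ⟨tB1_tmg10, tB1_tmg11⟩)⟩,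
    .inr (Bool.forall_bool.2 ⟨⟨tB1_c1h0, Bool.forall_bool.2 ⟨⟨tB1_c3ph00, tB1_c3mh00, tB1_up00, tB1_um00⟩, ⟨tB1_c3ph01, tB1_c3mh01, tB1_up01, tB1_um01⟩⟩⟩, ⟨tB1_c1h1, Bool.forall_bool.2 ⟨⟨tB1_c3ph10, tB1_c3mh10, tB1_up10, tB1_um10⟩, ⟨tB1_c3ph11, tB1_c3mh11, tB1_up11, tB1_um11⟩⟩⟩⟩),
    tB1_v2p,
    tB1_v2m,
    tB1_v3p,
    tB1_v3m,
    posD_sub (b := ⟨⟨0, 1, 1⟩, ⟨98, 99, 147⟩, ⟨300, 1351, 10000⟩, ⟨290, 4000, 1000⟩⟩) (by decide +kernel) tB_vG,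
    posD_sub (b := ⟨⟨0, 1, 1⟩, ⟨98, 99, 147⟩, ⟨300, 1351, 10000⟩, ⟨290, 4000, 1000⟩⟩) (by decide +kernel) tB_vMG,
    posD_sub (b := ⟨⟨0, 1, 1⟩, ⟨98, 99, 147⟩, ⟨300, 1351, 10000⟩, ⟨290, 4000, 1000⟩⟩) (by decide +kernel) tB_ak,
    posD_sub (b := ⟨⟨0, 1, 1⟩, ⟨98, 99, 147⟩, ⟨300, 1351, 10000⟩, ⟨290, 4000, 1000⟩⟩) (by decide +kernel) tB_aw,
    posD_sub (b := ⟨⟨0, 1, 1⟩, ⟨98, 99, 147⟩, ⟨300, 1351, 10000⟩, ⟨290, 4000, 1000⟩⟩) (by decide +kernel) tB_gk,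
    posD_sub (b := ⟨⟨0, 1, 1⟩, ⟨98, 99, 147⟩, ⟨300, 1351, 10000⟩, ⟨290, 4000, 1000⟩⟩) (by decide +kernel) tB_gw,
    posD_sub (b := ⟨⟨0, 1, 1⟩, ⟨98, 99, 147⟩, ⟨300, 1351, 10000⟩, ⟨290, 4000, 1000⟩⟩) (by decide +kernel) tB_ek,
    posD_sub (b := ⟨⟨0, 1, 1⟩, ⟨98, 99, 147⟩, ⟨300, 1351, 10000⟩, ⟨290, 4000, 1000⟩⟩) (by decide +kernel) tB_ew⟩

end Vale.Agent.P100.Calib.Closed.Six.Tail
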