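import Vale.Agent.P100.Calib.SlabSixTailDataB
import Vale.Agent.P100.Calib.SlabSixTailGlobB

/-!
# Checks of some pieces of the certificate

The checks are written as definitions so that they run one after another, which keeps the memory of the
kernel low.
-/

set_option linter.defProp false

namespace Vale.Agent.P100.Calib.Closed.Six.Tail

open BoxPos Large

local instance sixTailCheckstB10Add : Add Ex := ⟨Ex.add⟩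
local instance sixTailCheckstB10Sub : Sub Ex := ⟨Ex.sub⟩
local instance sixTailCheckstB10Mul : Mul Ex := ⟨Ex.mul⟩

def tB14_phx : PosIf ⟨⟨0, 1, 1⟩, ⟨98, 99, 147⟩, ⟨563, 825, 10000⟩, ⟨2289, 2512, 1000⟩⟩ (tB14.u₁ - tB14Lo) (phBn (tB14.u₁ + xO * (tB14Lo - tB14.u₁))) :=
  posIf_of_posD (posD_of_check (c := ⟨101, ⟨2, 0, 4, 2⟩⟩) (by decide +kernel))

def tB14_phd : PosD ⟨⟨0, 1, 1⟩, ⟨98, 99, 147⟩, ⟨563, 825, 10000⟩, ⟨2289, 2512, 1000⟩⟩ (phBd (tB14.u₁ + xO * (tB14Lo - tB14.u₁))) :=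
  posD_of_check (c := ⟨48, ⟨1, 0, 2, 1⟩⟩) (by decide +kernel)

def tB14_p0 : PosD ⟨⟨0, 1, 1⟩, ⟨98, 99, 147⟩, ⟨563, 825, 10000⟩, ⟨2289, 2512, 1000⟩⟩ (tB14.hP0) :=
  posD_of_check (c := ⟨82, ⟨0, 2, 3, 1⟩⟩) (by decide +kernel)

def tB14_gn : PosD ⟨⟨0, 1, 1⟩, ⟨98, 99, 147⟩, ⟨563, 825, 10000⟩, ⟨2289, 2512, 1000⟩⟩ (tB14.hGn) :=
  posD_of_check (c := ⟨65, ⟨1, 1, 2, 2⟩⟩) (by decide +kernel)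

def tB14_den0 : PosD ⟨⟨0, 1, 1⟩, ⟨98, 99, 147⟩, ⟨563, 825, 10000⟩, ⟨2289, 2512, 1000⟩⟩ (tB14.hDen false) :=
  posD_of_check (c := ⟨48, ⟨1, 0, 2, 1⟩⟩) (by decide +kernel)

def tB14_den1 : PosD ⟨⟨0, 1, 1⟩, ⟨98, 99, 147⟩, ⟨563, 825, 10000⟩, ⟨2289, 2512, 1000⟩⟩ (tB14.hDen true) :=
  posD_of_check (c := ⟨48, ⟨1, 0, 2, 1⟩⟩) (by decide +kernel)

def tB14_ev0 : PosD ⟨⟨0, 1, 1⟩, ⟨98, 99, 147⟩, ⟨563, 825, 10000⟩, ⟨2289, 2512, 1000⟩⟩ (tB14.hEv false) :=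
  posD_of_check (c := ⟨205, ⟨4, 2, 8, 4⟩⟩) (by decide +kernel)

def tB14_zL0 : PosD ⟨⟨0, 1, 1⟩, ⟨98, 99, 147⟩, ⟨563, 825, 10000⟩, ⟨2289, 2512, 1000⟩⟩ (tB14.hZL false) :=
  posD_of_check (c := ⟨208, ⟨4, 3, 8, 4⟩⟩) (by decide +kernel)

def tB14_zU0 : PosD ⟨⟨0, 1, 1⟩, ⟨98, 99, 147⟩, ⟨563, 825, 10000⟩, ⟨2289, 2512, 1000⟩⟩ (tB14.hZU false) :=
  posD_of_check (c := ⟨208, ⟨4, 3, 8, 4⟩⟩) (by decide +kernel)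

def tB14_eL0 : PosD ⟨⟨0, 1, 1⟩, ⟨98, 99, 147⟩, ⟨563, 825, 10000⟩, ⟨2289, 2512, 1000⟩⟩ (tB14.hEL false) :=
  posD_of_check (c := ⟨329, ⟨5, 6, 11, 7⟩⟩) (by decide +kernel)

def tB14_eH0 : PosD ⟨⟨0, 1, 1⟩, ⟨98, 99, 147⟩, ⟨563, 825, 10000⟩, ⟨2289, 2512, 1000⟩⟩ (tB14.hEH false) :=
  posD_of_check (c := ⟨297, ⟨5, 6, 11, 6⟩⟩) (by decide +kernel)

def tB14_pL0 : PosD ⟨⟨0, 1, 1⟩, ⟨98, 99, 147⟩, ⟨563, 825, 10000⟩, ⟨2289, 2512, 1000⟩⟩ (tB14.hPL false) :=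
  posD_of_check (c := ⟨323, ⟨5, 6, 11, 7⟩⟩) (by decide +kernel)

def tB14_pU0 : PosD ⟨⟨0, 1, 1⟩, ⟨98, 99, 147⟩, ⟨563, 825, 10000⟩, ⟨2289, 2512, 1000⟩⟩ (tB14.hPU false) :=
  posD_of_check (c := ⟨333, ⟨5, 6, 11, 7⟩⟩) (by decide +kernel)

def tB14_kU0 : PosD ⟨⟨0, 1, 1⟩, ⟨98, 99, 147⟩, ⟨563, 825, 10000⟩, ⟨2289, 2512, 1000⟩⟩ (tB14.hKU false) :=
  posD_of_check (c := ⟨319, ⟨5, 6, 11, 7⟩⟩) (by decide +kernel)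

def tB14_kL0 : PosD ⟨⟨0, 1, 1⟩, ⟨98, 99, 147⟩, ⟨563, 825, 10000⟩, ⟨2289, 2512, 1000⟩⟩ (tB14.hKL false) :=
  posD_of_check (c := ⟨319, ⟨5, 6, 11, 7⟩⟩) (by decide +kernel)

def tB14_wU0 : PosD ⟨⟨0, 1, 1⟩, ⟨98, 99, 147⟩, ⟨563, 825, 10000⟩, ⟨2289, 2512, 1000⟩⟩ (tB14.hWU false) :=
  posD_of_check (c := ⟨354, ⟨5, 8, 12, 7⟩⟩) (by decide +kernel)

def tB14_wL0 : PosD ⟨⟨0, 1, 1⟩, ⟨98, 99, 147⟩, ⟨563, 825, 10000⟩, ⟨2289, 2512, 1000⟩⟩ (tB14.hWL false) :=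
  posD_of_check (c := ⟨354, ⟨5, 8, 12, 7⟩⟩) (by decide +kernel)

def tB14_ev1 : PosD ⟨⟨0, 1, 1⟩, ⟨98, 99, 147⟩, ⟨563, 825, 10000⟩, ⟨2289, 2512, 1000⟩⟩ (tB14.hEv true) :=
  posD_of_check (c := ⟨204, ⟨4, 2, 8, 4⟩⟩) (by decide +kernel)

def tB14_zL1 : PosD ⟨⟨0, 1, 1⟩, ⟨98, 99, 147⟩, ⟨563, 825, 10000⟩, ⟨2289, 2512, 1000⟩⟩ (tB14.hZL true) :=
  posD_of_check (c := ⟨208, ⟨4, 3, 8, 4⟩⟩) (by decide +kernel)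

def tB14_zU1 : PosD ⟨⟨0, 1, 1⟩, ⟨98, 99, 147⟩, ⟨563, 825, 10000⟩, ⟨2289, 2512, 1000⟩⟩ (tB14.hZU true) :=
  posD_of_check (c := ⟨208, ⟨4, 3, 8, 4⟩⟩) (by decide +kernel)

def tB14_eL1 : PosD ⟨⟨0, 1, 1⟩, ⟨98, 99, 147⟩, ⟨563, 825, 10000⟩, ⟨2289, 2512, 1000⟩⟩ (tB14.hEL true) :=
  posD_of_check (c := ⟨329, ⟨5, 6, 11, 7⟩⟩) (by decide +kernel)

def tB14_eH1 : PosD ⟨⟨0, 1, 1⟩, ⟨98, 99, 147⟩, ⟨563, 825, 10000⟩, ⟨2289, 2512, 1000⟩⟩ (tB14.hEH true) :=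
  posD_of_check (c := ⟨297, ⟨5, 6, 11, 6⟩⟩) (by decide +kernel)

def tB14_pL1 : PosD ⟨⟨0, 1, 1⟩, ⟨98, 99, 147⟩, ⟨563, 825, 10000⟩, ⟨2289, 2512, 1000⟩⟩ (tB14.hPL true) :=
  posD_of_check (c := ⟨322, ⟨5, 6, 11, 7⟩⟩) (by decide +kernel)

def tB14_pU1 : PosD ⟨⟨0, 1, 1⟩, ⟨98, 99, 147⟩, ⟨563, 825, 10000⟩, ⟨2289, 2512, 1000⟩⟩ (tB14.hPU true) :=
  posD_of_check (c := ⟨332, ⟨5, 6, 11, 7⟩⟩) (by decide +kernel)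

def tB14_kU1 : PosD ⟨⟨0, 1, 1⟩, ⟨98, 99, 147⟩, ⟨563, 825, 10000⟩, ⟨2289, 2512, 1000⟩⟩ (tB14.hKU true) :=
  posD_of_check (c := ⟨318, ⟨5, 6, 11, 7⟩⟩) (by decide +kernel)

def tB14_kL1 : PosD ⟨⟨0, 1, 1⟩, ⟨98, 99, 147⟩, ⟨563, 825, 10000⟩, ⟨2289, 2512, 1000⟩⟩ (tB14.hKL true) :=
  posD_of_check (c := ⟨318, ⟨5, 6, 11, 7⟩⟩) (by decide +kernel)

def tB14_wU1 : PosD ⟨⟨0, 1, 1⟩, ⟨98, 99, 147⟩, ⟨563, 825, 10000⟩, ⟨2289, 2512, 1000⟩⟩ (tB14.hWU true) :=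
  posD_of_check (c := ⟨354, ⟨5, 8, 12, 7⟩⟩) (by decide +kernel)

def tB14_wL1 : PosD ⟨⟨0, 1, 1⟩, ⟨98, 99, 147⟩, ⟨563, 825, 10000⟩, ⟨2289, 2512, 1000⟩⟩ (tB14.hWL true) :=
  posD_of_check (c := ⟨354, ⟨5, 8, 12, 7⟩⟩) (by decide +kernel)

def tB14_nueL : PosD ⟨⟨0, 1, 1⟩, ⟨98, 99, 147⟩, ⟨563, 825, 10000⟩, ⟨2289, 2512, 1000⟩⟩ (tB14.eL.ν) :=
  posD_of_check (c := ⟨44, ⟨0, 0, 1, 1⟩⟩) (by decide +kernel)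

def tB14_nupU : PosD ⟨⟨0, 1, 1⟩, ⟨98, 99, 147⟩, ⟨563, 825, 10000⟩, ⟨2289, 2512, 1000⟩⟩ (tB14.pU.ν) :=
  posD_of_check (c := ⟨48, ⟨0, 0, 1, 1⟩⟩) (by decide +kernel)

/-- The bounds of the piece. -/
def tB14_env : tB14.Env ⟨⟨0, 1, 1⟩, ⟨98, 99, 147⟩, ⟨563, 825, 10000⟩, ⟨2289, 2512, 1000⟩⟩ :=
  ⟨tB14_p0, Bool.forall_bool.2 ⟨tB14_den0, tB14_den1⟩, tB14_gn, Bool.forall_bool.2 ⟨tB14_ev0, tB14_ev1⟩, Bool.forall_bool.2 ⟨tB14_zL0, tB14_zL1⟩, Bool.forall_bool.2 ⟨tB14_zU0, tB14_zU1⟩, Bool.forall_bool.2 ⟨tB14_eL0, tB14_eL1⟩, ⟨.inr rfl, .inl tB14_nueL⟩, Bool.forall_bool.2 ⟨tB14_eH0, tB14_eH1⟩, ⟨.inr rfl, .inr rfl⟩, Bool.forall_bool.2 ⟨tB14_pL0, tB14_pL1⟩, ⟨.inr rfl, .inr rfl⟩, Bool.forall_bool.2 ⟨tB14_pU0, tB14_pU1⟩, ⟨.inr rfl, .inl tB14_nupU⟩,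 Bool.forall_bool.2 ⟨tB14_kU0, tB14_kU1⟩, ⟨.inr rfl, .inr rfl⟩, Bool.forall_bool.2 ⟨tB14_kL0, tB14_kL1⟩, ⟨.inr rfl, .inr rfl⟩, Bool.forall_bool.2 ⟨tB14_wU0, tB14_wU1⟩, ⟨.inr rfl, .inr rfl⟩, Bool.forall_bool.2 ⟨tB14_wL0, tB14_wL1⟩, ⟨.inr rfl, .inr rfl⟩⟩

def tB14_pp : PosD ⟨⟨0, 1, 1⟩, ⟨98, 99, 147⟩, ⟨563, 825, 10000⟩, ⟨2289, 2512, 1000⟩⟩ (tB14.xPL) :=
  posD_of_check (c := ⟨90, ⟨1, 1, 3, 3⟩⟩) (by decide +kernel)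

def tB14_k2p : PosD ⟨⟨0, 1, 1⟩, ⟨98, 99, 147⟩, ⟨563, 825, 10000⟩, ⟨2289, 2512, 1000⟩⟩ (tB14.k2p tB14.xE) :=
  posD_of_check (c := ⟨67, ⟨1, 1, 2, 2⟩⟩) (by decide +kernel)

def tB14_k2m : PosD ⟨⟨0, 1, 1⟩, ⟨98, 99, 147⟩, ⟨563, 825, 10000⟩, ⟨2289, 2512, 1000⟩⟩ (tB14.k2m tB14.xE) :=
  posD_of_check (c := ⟨24, ⟨0, 0, 1, 1⟩⟩) (by decide +kernel)

def tB14_v2p : PosD ⟨⟨0, 1, 1⟩, ⟨98, 99, 147⟩, ⟨563, 825, 10000⟩, ⟨2289, 2512, 1000⟩⟩ (tB14.hV2p) :=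
  posD_of_check (c := ⟨261, ⟨1, 6, 10, 5⟩⟩) (by decide +kernel)

def tB14_v2m : PosD ⟨⟨0, 1, 1⟩, ⟨98, 99, 147⟩, ⟨563, 825, 10000⟩, ⟨2289, 2512, 1000⟩⟩ (tB14.hV2m) :=
  posD_of_check (c := ⟨229, ⟨0, 5, 10, 4⟩⟩) (by decide +kernel)

def tB14_v3p : PosD ⟨⟨0, 1, 1⟩, ⟨98, 99, 147⟩, ⟨563, 825, 10000⟩, ⟨2289, 2512, 1000⟩⟩ (tB14.hV3p) :=
  posD_of_check (c := ⟨248, ⟨1, 6, 9, 5⟩⟩) (by decide +kernel)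

def tB14_v3m : PosD ⟨⟨0, 1, 1⟩, ⟨98, 99, 147⟩, ⟨563, 825, 10000⟩, ⟨2289, 2512, 1000⟩⟩ (tB14.hV3m) :=
  posD_of_check (c := ⟨221, ⟨0, 5, 9, 4⟩⟩) (by decide +kernel)

def tB14_kap0 : PosD ⟨⟨0, 1, 1⟩, ⟨98, 99, 147⟩, ⟨563, 825, 10000⟩, ⟨2289, 2512, 1000⟩⟩ (tB14.kap false) :=
  posD_of_check (c := ⟨67, ⟨1, 1, 2, 2⟩⟩) (by decide +kernel)

def tB14_c10 : PosD ⟨⟨0, 1, 1⟩, ⟨98, 99, 147⟩, ⟨563, 825, 10000⟩, ⟨2289, 2512, 1000⟩⟩ (tB14.hC1 false) :=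
  posD_of_check (c := ⟨263, ⟨3, 5, 9, 7⟩⟩) (by decide +kernel)

def tB14_c1h0 : PosD ⟨⟨0, 1, 1⟩, ⟨98, 99, 147⟩, ⟨563, 825, 10000⟩, ⟨2289, 2512, 1000⟩⟩ (tB14.hC1' false) :=
  posD_of_check (c := ⟨263, ⟨3, 5, 9, 7⟩⟩) (by decide +kernel)

def tB14_tg00 : PosD ⟨⟨0, 1, 1⟩, ⟨98, 99, 147⟩, ⟨563, 825, 10000⟩, ⟨2289, 2512, 1000⟩⟩ (tB14.hG false (tB14.pEnd false)) :=
  posD_of_check (c := ⟨371, ⟨2, 7, 14, 9⟩⟩) (by decide +kernel)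

def tB14_c2p00 : PosD ⟨⟨0, 1, 1⟩, ⟨98, 99, 147⟩, ⟨563, 825, 10000⟩, ⟨2289, 2512, 1000⟩⟩ (tB14.hC2p false (tB14.pEnd false)) :=
  posD_of_check (c := ⟨438, ⟨3, 8, 16, 11⟩⟩) (by decide +kernel)

def tB14_c2m00 : PosD ⟨⟨0, 1, 1⟩, ⟨98, 99, 147⟩, ⟨563, 825, 10000⟩, ⟨2289, 2512, 1000⟩⟩ (tB14.hC2m false (tB14.pEnd false)) :=
  posD_of_check (c := ⟨407, ⟨2, 7, 16, 10⟩⟩) (by decide +kernel)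

def tB14_c3p00 : PosD ⟨⟨0, 1, 1⟩, ⟨98, 99, 147⟩, ⟨563, 825, 10000⟩, ⟨2289, 2512, 1000⟩⟩ (tB14.hC3p false false) :=
  posD_of_check (c := ⟨428, ⟨3, 8, 15, 11⟩⟩) (by decide +kernel)

def tB14_c3m00 : PosD ⟨⟨0, 1, 1⟩, ⟨98, 99, 147⟩, ⟨563, 825, 10000⟩, ⟨2289, 2512, 1000⟩⟩ (tB14.hC3m false false) :=
  posD_of_check (c := ⟨403, ⟨3, 7, 15, 10⟩⟩) (by decide +kernel)

def tB14_c3ph00 : PosD ⟨⟨0, 1, 1⟩, ⟨98, 99, 147⟩, ⟨563, 825, 10000⟩, ⟨2289, 2512, 1000⟩⟩ (tB14.hC3p' false false) :=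
  posD_of_check (c := ⟨428, ⟨3, 8, 15, 11⟩⟩) (by decide +kernel)

def tB14_c3mh00 : PosD ⟨⟨0, 1, 1⟩, ⟨98, 99, 147⟩, ⟨563, 825, 10000⟩, ⟨2289, 2512, 1000⟩⟩ (tB14.hC3m' false false) :=
  posD_of_check (c := ⟨403, ⟨3, 7, 15, 10⟩⟩) (by decide +kernel)

def tB14_up00 : PosD ⟨⟨0, 1, 1⟩, ⟨98, 99, 147⟩, ⟨563, 825, 10000⟩, ⟨2289, 2512, 1000⟩⟩ (tB14.hUp false false) :=
  posD_of_check (c := ⟨427, ⟨3, 8, 15, 11⟩⟩) (by decide +kernel)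

def tB14_um00 : PosD ⟨⟨0, 1, 1⟩, ⟨98, 99, 147⟩, ⟨563, 825, 10000⟩, ⟨2289, 2512, 1000⟩⟩ (tB14.hUm false false) :=
  posD_of_check (c := ⟨401, ⟨2, 7, 15, 10⟩⟩) (by decide +kernel)

def tB14_tmg00 : PosD ⟨⟨0, 1, 1⟩, ⟨98, 99, 147⟩, ⟨563, 825, 10000⟩, ⟨2289, 2512, 1000⟩⟩ (tB14.hTMG false (tB14.pEnd false)) :=
  posD_of_check (c := ⟨386, ⟨2, 7, 14, 10⟩⟩) (by decide +kernel)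

def tB14_tg01 : PosD ⟨⟨0, 1, 1⟩, ⟨98, 99, 147⟩, ⟨563, 825, 10000⟩, ⟨2289, 2512, 1000⟩⟩ (tB14.hG true (tB14.pEnd false)) :=
  posD_of_check (c := ⟨371, ⟨2, 7, 14, 9⟩⟩) (by decide +kernel)

def tB14_c2p01 : PosD ⟨⟨0, 1, 1⟩, ⟨98, 99, 147⟩, ⟨563, 825, 10000⟩, ⟨2289, 2512, 1000⟩⟩ (tB14.hC2p true (tB14.pEnd false)) :=
  posD_of_check (c := ⟨438, ⟨3, 8, 16, 11⟩⟩) (by decide +kernel)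

def tB14_c2m01 : PosD ⟨⟨0, 1, 1⟩, ⟨98, 99, 147⟩, ⟨563, 825, 10000⟩, ⟨2289, 2512, 1000⟩⟩ (tB14.hC2m true (tB14.pEnd false)) :=
  posD_of_check (c := ⟨407, ⟨2, 7, 16, 10⟩⟩) (by decide +kernel)

def tB14_c3p01 : PosD ⟨⟨0, 1, 1⟩, ⟨98, 99, 147⟩, ⟨563, 825, 10000⟩, ⟨2289, 2512, 1000⟩⟩ (tB14.hC3p false true) :=
  posD_of_check (c := ⟨428, ⟨3, 8, 15, 11⟩⟩) (by decide +kernel)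

def tB14_c3m01 : PosD ⟨⟨0, 1, 1⟩, ⟨98, 99, 147⟩, ⟨563, 825, 10000⟩, ⟨2289, 2512, 1000⟩⟩ (tB14.hC3m false true) :=
  posD_of_check (c := ⟨403, ⟨3, 7, 15, 10⟩⟩) (by decide +kernel)

def tB14_c3ph01 : PosD ⟨⟨0, 1, 1⟩, ⟨98, 99, 147⟩, ⟨563, 825, 10000⟩, ⟨2289, 2512, 1000⟩⟩ (tB14.hC3p' false true) :=
  posD_of_check (c := ⟨428, ⟨3, 8, 15, 11⟩⟩) (by decide +kernel)

def tB14_c3mh01 : PosD ⟨⟨0, 1, 1⟩, ⟨98, 99, 147⟩, ⟨563, 825, 10000⟩, ⟨2289, 2512, 1000⟩⟩ (tB14.hC3m' false true) :=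
  posD_of_check (c := ⟨403, ⟨3, 7, 15, 10⟩⟩) (by decide +kernel)

def tB14_up01 : PosD ⟨⟨0, 1, 1⟩, ⟨98, 99, 147⟩, ⟨563, 825, 10000⟩, ⟨2289, 2512, 1000⟩⟩ (tB14.hUp false true) :=
  posD_of_check (c := ⟨427, ⟨3, 8, 15, 11⟩⟩) (by decide +kernel)

def tB14_um01 : PosD ⟨⟨0, 1, 1⟩, ⟨98, 99, 147⟩, ⟨563, 825, 10000⟩, ⟨2289, 2512, 1000⟩⟩ (tB14.hUm false true) :=
  posD_of_check (c := ⟨401, ⟨2, 7, 15, 10⟩⟩) (by decide +kernel)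

def tB14_tmg01 : PosD ⟨⟨0, 1, 1⟩, ⟨98, 99, 147⟩, ⟨563, 825, 10000⟩, ⟨2289, 2512, 1000⟩⟩ (tB14.hTMG true (tB14.pEnd false)) :=
  posD_of_check (c := ⟨386, ⟨2, 7, 14, 10⟩⟩) (by decide +kernel)

def tB14_kap1 : PosD ⟨⟨0, 1, 1⟩, ⟨98, 99, 147⟩, ⟨563, 825, 10000⟩, ⟨2289, 2512, 1000⟩⟩ (tB14.kap true) :=
  posD_of_check (c := ⟨71, ⟨1, 1, 2, 2⟩⟩) (by decide +kernel)

def tB14_c11 : PosD ⟨⟨0, 1, 1⟩, ⟨98, 99, 147⟩, ⟨563, 825, 10000⟩, ⟨2289, 2512, 1000⟩⟩ (tB14.hC1 true) :=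
  posD_of_check (c := ⟨268, ⟨3, 5, 9, 7⟩⟩) (by decide +kernel)

def tB14_c1h1 : PosD ⟨⟨0, 1, 1⟩, ⟨98, 99, 147⟩, ⟨563, 825, 10000⟩, ⟨2289, 2512, 1000⟩⟩ (tB14.hC1' true) :=
  posD_of_check (c := ⟨268, ⟨3, 5, 9, 7⟩⟩) (by decide +kernel)

def tB14_tg10 : PosD ⟨⟨0, 1, 1⟩, ⟨98, 99, 147⟩, ⟨563, 825, 10000⟩, ⟨2289, 2512, 1000⟩⟩ (tB14.hG false (tB14.pEnd true)) :=
  posD_of_check (c := ⟨373, ⟨2, 7, 14, 9⟩⟩) (by decide +kernel)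

def tB14_c2p10 : PosD ⟨⟨0, 1, 1⟩, ⟨98, 99, 147⟩, ⟨563, 825, 10000⟩, ⟨2289, 2512, 1000⟩⟩ (tB14.hC2p false (tB14.pEnd true)) :=
  posD_of_check (c := ⟨440, ⟨3, 8, 16, 11⟩⟩) (by decide +kernel)

def tB14_c2m10 : PosD ⟨⟨0, 1, 1⟩, ⟨98, 99, 147⟩, ⟨563, 825, 10000⟩, ⟨2289, 2512, 1000⟩⟩ (tB14.hC2m false (tB14.pEnd true)) :=
  posD_of_check (c := ⟨409, ⟨2, 7, 16, 10⟩⟩) (by decide +kernel)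

def tB14_c3p10 : PosD ⟨⟨0, 1, 1⟩, ⟨98, 99, 147⟩, ⟨563, 825, 10000⟩, ⟨2289, 2512, 1000⟩⟩ (tB14.hC3p true false) :=
  posD_of_check (c := ⟨432, ⟨3, 8, 15, 11⟩⟩) (by decide +kernel)

def tB14_c3m10 : PosD ⟨⟨0, 1, 1⟩, ⟨98, 99, 147⟩, ⟨563, 825, 10000⟩, ⟨2289, 2512, 1000⟩⟩ (tB14.hC3m true false) :=
  posD_of_check (c := ⟨408, ⟨3, 7, 15, 10⟩⟩) (by decide +kernel)

def tB14_c3ph10 : PosD ⟨⟨0, 1, 1⟩, ⟨98, 99, 147⟩, ⟨563, 825, 10000⟩, ⟨2289, 2512, 1000⟩⟩ (tB14.hC3p' true false) :=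
  posD_of_check (c := ⟨432, ⟨3, 8, 15, 11⟩⟩) (by decide +kernel)

def tB14_c3mh10 : PosD ⟨⟨0, 1, 1⟩, ⟨98, 99, 147⟩, ⟨563, 825, 10000⟩, ⟨2289, 2512, 1000⟩⟩ (tB14.hC3m' true false) :=
  posD_of_check (c := ⟨408, ⟨3, 7, 15, 10⟩⟩) (by decide +kernel)

def tB14_up10 : PosD ⟨⟨0, 1, 1⟩, ⟨98, 99, 147⟩, ⟨563, 825, 10000⟩, ⟨2289, 2512, 1000⟩⟩ (tB14.hUp true false) :=
  posD_of_check (c := ⟨428, ⟨3, 8, 15, 11⟩⟩) (by decide +kernel)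

def tB14_um10 : PosD ⟨⟨0, 1, 1⟩, ⟨98, 99, 147⟩, ⟨563, 825, 10000⟩, ⟨2289, 2512, 1000⟩⟩ (tB14.hUm true false) :=
  posD_of_check (c := ⟨402, ⟨2, 7, 15, 10⟩⟩) (by decide +kernel)

def tB14_tmg10 : PosD ⟨⟨0, 1, 1⟩, ⟨98, 99, 147⟩, ⟨563, 825, 10000⟩, ⟨2289, 2512, 1000⟩⟩ (tB14.hTMG false (tB14.pEnd true)) :=
  posD_of_check (c := ⟨387, ⟨2, 7, 14, 10⟩⟩) (by decide +kernel)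

def tB14_tg11 : PosD ⟨⟨0, 1, 1⟩, ⟨98, 99, 147⟩, ⟨563, 825, 10000⟩, ⟨2289, 2512, 1000⟩⟩ (tB14.hG true (tB14.pEnd true)) :=
  posD_of_check (c := ⟨373, ⟨2, 7, 14, 9⟩⟩) (by decide +kernel)

def tB14_c2p11 : PosD ⟨⟨0, 1, 1⟩, ⟨98, 99, 147⟩, ⟨563, 825, 10000⟩, ⟨2289, 2512, 1000⟩⟩ (tB14.hC2p true (tB14.pEnd true)) :=
  posD_of_check (c := ⟨440, ⟨3, 8, 16, 11⟩⟩) (by decide +kernel)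

def tB14_c2m11 : PosD ⟨⟨0, 1, 1⟩, ⟨98, 99, 147⟩, ⟨563, 825, 10000⟩, ⟨2289, 2512, 1000⟩⟩ (tB14.hC2m true (tB14.pEnd true)) :=
  posD_of_check (c := ⟨409, ⟨2, 7, 16, 10⟩⟩) (by decide +kernel)

def tB14_c3p11 : PosD ⟨⟨0, 1, 1⟩, ⟨98, 99, 147⟩, ⟨563, 825, 10000⟩, ⟨2289, 2512, 1000⟩⟩ (tB14.hC3p true true) :=
  posD_of_check (c := ⟨432, ⟨3, 8, 15, 11⟩⟩) (by decide +kernel)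

def tB14_c3m11 : PosD ⟨⟨0, 1, 1⟩, ⟨98, 99, 147⟩, ⟨563, 825, 10000⟩, ⟨2289, 2512, 1000⟩⟩ (tB14.hC3m true true) :=
  posD_of_check (c := ⟨408, ⟨3, 7, 15, 10⟩⟩) (by decide +kernel)

def tB14_c3ph11 : PosD ⟨⟨0, 1, 1⟩, ⟨98, 99, 147⟩, ⟨563, 825, 10000⟩, ⟨2289, 2512, 1000⟩⟩ (tB14.hC3p' true true) :=
  posD_of_check (c := ⟨432, ⟨3, 8, 15, 11⟩⟩) (by decide +kernel)

def tB14_c3mh11 : PosD ⟨⟨0, 1, 1⟩, ⟨98, 99, 147⟩, ⟨563, 825, 10000⟩, ⟨2289, 2512, 1000⟩⟩ (tB14.hC3m' true true) :=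
  posD_of_check (c := ⟨408, ⟨3, 7, 15, 10⟩⟩) (by decide +kernel)

def tB14_up11 : PosD ⟨⟨0, 1, 1⟩, ⟨98, 99, 147⟩, ⟨563, 825, 10000⟩, ⟨2289, 2512, 1000⟩⟩ (tB14.hUp true true) :=
  posD_of_check (c := ⟨428, ⟨3, 8, 15, 11⟩⟩) (by decide +kernel)

def tB14_um11 : PosD ⟨⟨0, 1, 1⟩, ⟨98, 99, 147⟩, ⟨563, 825, 10000⟩, ⟨2289, 2512, 1000⟩⟩ (tB14.hUm true true) :=
  posD_of_check (c := ⟨402, ⟨2, 7, 15, 10⟩⟩) (by decide +kernel)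

def tB14_tmg11 : PosD ⟨⟨0, 1, 1⟩, ⟨98, 99, 147⟩, ⟨563, 825, 10000⟩, ⟨2289, 2512, 1000⟩⟩ (tB14.hTMG true (tB14.pEnd true)) :=
  posD_of_check (c := ⟨387, ⟨2, 7, 14, 10⟩⟩) (by decide +kernel)

/-- The signs of the piece. -/
def tB14_sign : tB14.Sign ⟨⟨0, 1, 1⟩, ⟨98, 99, 147⟩, ⟨563, 825, 10000⟩, ⟨2289, 2512, 1000⟩⟩ :=
  ⟨tB14_pp,
    tB14_k2p,
    tB14_k2m,
    Bool.forall_bool.2 ⟨(Bool.forall_bool.2 ⟨tB14_tg00, tB14_tg01⟩), (Bool.forall_bool.2 ⟨tB14_tg10, tB14_tg11⟩)⟩,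
    Bool.forall_bool.2 ⟨(Bool.forall_bool.2 ⟨tB14_c2p00, tB14_c2p01⟩), (Bool.forall_bool.2 ⟨tB14_c2p10, tB14_c2p11⟩)⟩,
    Bool.forall_bool.2 ⟨(Bool.forall_bool.2 ⟨tB14_c2m00, tB14_c2m01⟩), (Bool.forall_bool.2 ⟨tB14_c2m10, tB14_c2m11⟩)⟩,
    Bool.forall_bool.2 ⟨tB14_kap0, tB14_kap1⟩,
    Bool.forall_bool.2 ⟨tB14_c10, tB14_c11⟩,
    Bool.forall_bool.2 ⟨(Bool.forall_bool.2 ⟨tB14_c3p00, tB14_c3p01⟩), (Bool.forall_bool.2 ⟨tB14_c3p10, tB14_c3p11⟩)⟩,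
    Bool.forall_bool.2 ⟨(Bool.forall_bool.2 ⟨tB14_c3m00, tB14_c3m01⟩), (Bool.forall_bool.2 ⟨tB14_c3m10, tB14_c3m11⟩)⟩,
    Bool.forall_bool.2 ⟨(Bool.forall_bool.2 ⟨tB14_tmg00, tB14_tmg01⟩), (Bool.forall_bool.2 ⟨tB14_tmg10, tB14_tmg11⟩)⟩,
    .inr (Bool.forall_bool.2 ⟨⟨tB14_c1h0, Bool.forall_bool.2 ⟨⟨tB14_c3ph00, tB14_c3mh00, tB14_up00, tB14_um00⟩, ⟨tB14_c3ph01, tB14_c3mh01, tB14_up01, tB14_um01⟩⟩⟩, ⟨tB14_c1h1, Bool.forall_bool.2 ⟨⟨tB14_c3ph10, tB14_c3mh10, tB14_up10, tB14_um10⟩, ⟨tB14_c3ph11, tB14_c3mh11, tB14_up11, tB14_um11⟩⟩⟩⟩),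
    tB14_v2p,
    tB14_v2m,
    tB14_v3p,
    tB14_v3m,
    posD_sub (b := ⟨⟨0, 1, 1⟩, ⟨98, 99, 147⟩, ⟨300, 1351, 10000⟩, ⟨290, 4000, 1000⟩⟩) (by decide +kernel) tB_vG,
    posD_sub (b := ⟨⟨0, 1, 1⟩, ⟨98, 99, 147⟩, ⟨300, 1351, 10000⟩, ⟨290, 4000, 1000⟩⟩) (by decide +kernel) tB_vMG,
    posD_sub (b := ⟨⟨0, 1, 1⟩, ⟨98, 99, 147⟩, ⟨300, 1351, 10000⟩, ⟨290, 4000, 1000⟩⟩) (by decide +kernel) tB_ak,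
    posD_sub (b := ⟨⟨0, 1, 1⟩, ⟨98, 99, 147⟩, ⟨300, 1351, 10000⟩, ⟨290, 4000, 1000⟩⟩) (by decide +kernel) tB_aw,
    posD_sub (b := ⟨⟨0, 1, 1⟩, ⟨98, 99, 147⟩, ⟨300, 1351, 10000⟩, ⟨290, 4000, 1000⟩⟩) (by decide +kernel) tB_gk,
    posD_sub (b := ⟨⟨0, 1, 1⟩, ⟨98, 99, 147⟩, ⟨300, 1351, 10000⟩, ⟨290, 4000, 1000⟩⟩) (by decide +kernel) tB_gw,
    posD_sub (b := ⟨⟨0, 1, 1⟩, ⟨98, 99, 147⟩, ⟨300, 1351, 10000⟩, ⟨290, 4000, 1000⟩⟩) (by decide +kernel) tB_ek,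
    posD_sub (b := ⟨⟨0, 1, 1⟩, ⟨98, 99, 147⟩, ⟨300, 1351, 10000⟩, ⟨290, 4000, 1000⟩⟩) (by decide +kernel) tB_ew⟩

end Vale.Agent.P100.Calib.Closed.Six.Tail
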