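import Vale.Agent.P100.Calib.SlabSixTailDataB
import Vale.Agent.P100.Calib.SlabSixTailGlobB

/-!
# Checks of some pieces of the certificate

The checks are written as definitions so that they run one after another, which keeps the memory of the
kernel low.
-/

set_option linter.defProp false

namespace Vale.Agent.P100.Calib.Closed.Six.Tail

open BoxPos Large

local instance sixTailCheckstB11Add : Add Ex := ⟨Ex.add⟩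
local instance sixTailCheckstB11Sub : Sub Ex := ⟨Ex.sub⟩
local instance sixTailCheckstB11Mul : Mul Ex := ⟨Ex.mul⟩

def tB15_phx : PosIf ⟨⟨0, 1, 1⟩, ⟨98, 99, 147⟩, ⟨563, 825, 10000⟩, ⟨2512, 2757, 1000⟩⟩ (tB15.u₁ - tB15Lo) (phBn (tB15.u₁ + xO * (tB15Lo - tB15.u₁))) :=
  posIf_of_posD (posD_of_check (c := ⟨101, ⟨2, 0, 4, 2⟩⟩) (by decide +kernel))

def tB15_phd : PosD ⟨⟨0, 1, 1⟩, ⟨98, 99, 147⟩, ⟨563, 825, 10000⟩, ⟨2512, 2757, 1000⟩⟩ (phBd (tB15.u₁ + xO * (tB15Lo - tB15.u₁))) :=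
  posD_of_check (c := ⟨48, ⟨1, 0, 2, 1⟩⟩) (by decide +kernel)

def tB15_p0 : PosD ⟨⟨0, 1, 1⟩, ⟨98, 99, 147⟩, ⟨563, 825, 10000⟩, ⟨2512, 2757, 1000⟩⟩ (tB15.hP0) :=
  posD_of_check (c := ⟨82, ⟨0, 2, 3, 1⟩⟩) (by decide +kernel)

def tB15_gn : PosD ⟨⟨0, 1, 1⟩, ⟨98, 99, 147⟩, ⟨563, 825, 10000⟩, ⟨2512, 2757, 1000⟩⟩ (tB15.hGn) :=
  posD_of_check (c := ⟨65, ⟨1, 1, 2, 2⟩⟩) (by decide +kernel)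

def tB15_den0 : PosD ⟨⟨0, 1, 1⟩, ⟨98, 99, 147⟩, ⟨563, 825, 10000⟩, ⟨2512, 2757, 1000⟩⟩ (tB15.hDen false) :=
  posD_of_check (c := ⟨48, ⟨1, 0, 2, 1⟩⟩) (by decide +kernel)

def tB15_den1 : PosD ⟨⟨0, 1, 1⟩, ⟨98, 99, 147⟩, ⟨563, 825, 10000⟩, ⟨2512, 2757, 1000⟩⟩ (tB15.hDen true) :=
  posD_of_check (c := ⟨48, ⟨1, 0, 2, 1⟩⟩) (by decide +kernel)

def tB15_ev0 : PosD ⟨⟨0, 1, 1⟩, ⟨98, 99, 147⟩, ⟨563, 825, 10000⟩, ⟨2512, 2757, 1000⟩⟩ (tB15.hEv false) :=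
  posD_of_check (c := ⟨205, ⟨4, 2, 8, 4⟩⟩) (by decide +kernel)

def tB15_zL0 : PosD ⟨⟨0, 1, 1⟩, ⟨98, 99, 147⟩, ⟨563, 825, 10000⟩, ⟨2512, 2757, 1000⟩⟩ (tB15.hZL false) :=
  posD_of_check (c := ⟨208, ⟨4, 3, 8, 4⟩⟩) (by decide +kernel)

def tB15_zU0 : PosD ⟨⟨0, 1, 1⟩, ⟨98, 99, 147⟩, ⟨563, 825, 10000⟩, ⟨2512, 2757, 1000⟩⟩ (tB15.hZU false) :=
  posD_of_check (c := ⟨208, ⟨4, 3, 8, 4⟩⟩) (by decide +kernel)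

def tB15_eL0 : PosD ⟨⟨0, 1, 1⟩, ⟨98, 99, 147⟩, ⟨563, 825, 10000⟩, ⟨2512, 2757, 1000⟩⟩ (tB15.hEL false) :=
  posD_of_check (c := ⟨329, ⟨5, 6, 11, 7⟩⟩) (by decide +kernel)

def tB15_eH0 : PosD ⟨⟨0, 1, 1⟩, ⟨98, 99, 147⟩, ⟨563, 825, 10000⟩, ⟨2512, 2757, 1000⟩⟩ (tB15.hEH false) :=
  posD_of_check (c := ⟨297, ⟨5, 6, 11, 6⟩⟩) (by decide +kernel)

def tB15_pL0 : PosD ⟨⟨0, 1, 1⟩, ⟨98, 99, 147⟩, ⟨563, 825, 10000⟩, ⟨2512, 2757, 1000⟩⟩ (tB15.hPL false) :=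
  posD_of_check (c := ⟨323, ⟨5, 6, 11, 7⟩⟩) (by decide +kernel)

def tB15_pU0 : PosD ⟨⟨0, 1, 1⟩, ⟨98, 99, 147⟩, ⟨563, 825, 10000⟩, ⟨2512, 2757, 1000⟩⟩ (tB15.hPU false) :=
  posD_of_check (c := ⟨331, ⟨5, 6, 11, 7⟩⟩) (by decide +kernel)

def tB15_kU0 : PosD ⟨⟨0, 1, 1⟩, ⟨98, 99, 147⟩, ⟨563, 825, 10000⟩, ⟨2512, 2757, 1000⟩⟩ (tB15.hKU false) :=
  posD_of_check (c := ⟨319, ⟨5, 6, 11, 7⟩⟩) (by decide +kernel)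

def tB15_kL0 : PosD ⟨⟨0, 1, 1⟩, ⟨98, 99, 147⟩, ⟨563, 825, 10000⟩, ⟨2512, 2757, 1000⟩⟩ (tB15.hKL false) :=
  posD_of_check (c := ⟨319, ⟨5, 6, 11, 7⟩⟩) (by decide +kernel)

def tB15_wU0 : PosD ⟨⟨0, 1, 1⟩, ⟨98, 99, 147⟩, ⟨563, 825, 10000⟩, ⟨2512, 2757, 1000⟩⟩ (tB15.hWU false) :=
  posD_of_check (c := ⟨354, ⟨5, 8, 12, 7⟩⟩) (by decide +kernel)

def tB15_wL0 : PosD ⟨⟨0, 1, 1⟩, ⟨98, 99, 147⟩, ⟨563, 825, 10000⟩, ⟨2512, 2757, 1000⟩⟩ (tB15.hWL false) :=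
  posD_of_check (c := ⟨354, ⟨5, 8, 12, 7⟩⟩) (by decide +kernel)

def tB15_ev1 : PosD ⟨⟨0, 1, 1⟩, ⟨98, 99, 147⟩, ⟨563, 825, 10000⟩, ⟨2512, 2757, 1000⟩⟩ (tB15.hEv true) :=
  posD_of_check (c := ⟨204, ⟨4, 2, 8, 4⟩⟩) (by decide +kernel)

def tB15_zL1 : PosD ⟨⟨0, 1, 1⟩, ⟨98, 99, 147⟩, ⟨563, 825, 10000⟩, ⟨2512, 2757, 1000⟩⟩ (tB15.hZL true) :=
  posD_of_check (c := ⟨208, ⟨4, 3, 8, 4⟩⟩) (by decide +kernel)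

def tB15_zU1 : PosD ⟨⟨0, 1, 1⟩, ⟨98, 99, 147⟩, ⟨563, 825, 10000⟩, ⟨2512, 2757, 1000⟩⟩ (tB15.hZU true) :=
  posD_of_check (c := ⟨208, ⟨4, 3, 8, 4⟩⟩) (by decide +kernel)

def tB15_eL1 : PosD ⟨⟨0, 1, 1⟩, ⟨98, 99, 147⟩, ⟨563, 825, 10000⟩, ⟨2512, 2757, 1000⟩⟩ (tB15.hEL true) :=
  posD_of_check (c := ⟨329, ⟨5, 6, 11, 7⟩⟩) (by decide +kernel)

def tB15_eH1 : PosD ⟨⟨0, 1, 1⟩, ⟨98, 99, 147⟩, ⟨563, 825, 10000⟩, ⟨2512, 2757, 1000⟩⟩ (tB15.hEH true) :=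
  posD_of_check (c := ⟨297, ⟨5, 6, 11, 6⟩⟩) (by decide +kernel)

def tB15_pL1 : PosD ⟨⟨0, 1, 1⟩, ⟨98, 99, 147⟩, ⟨563, 825, 10000⟩, ⟨2512, 2757, 1000⟩⟩ (tB15.hPL true) :=
  posD_of_check (c := ⟨322, ⟨5, 6, 11, 7⟩⟩) (by decide +kernel)

def tB15_pU1 : PosD ⟨⟨0, 1, 1⟩, ⟨98, 99, 147⟩, ⟨563, 825, 10000⟩, ⟨2512, 2757, 1000⟩⟩ (tB15.hPU true) :=
  posD_of_check (c := ⟨331, ⟨5, 6, 11, 7⟩⟩) (by decide +kernel)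

def tB15_kU1 : PosD ⟨⟨0, 1, 1⟩, ⟨98, 99, 147⟩, ⟨563, 825, 10000⟩, ⟨2512, 2757, 1000⟩⟩ (tB15.hKU true) :=
  posD_of_check (c := ⟨318, ⟨5, 6, 11, 7⟩⟩) (by decide +kernel)

def tB15_kL1 : PosD ⟨⟨0, 1, 1⟩, ⟨98, 99, 147⟩, ⟨563, 825, 10000⟩, ⟨2512, 2757, 1000⟩⟩ (tB15.hKL true) :=
  posD_of_check (c := ⟨318, ⟨5, 6, 11, 7⟩⟩) (by decide +kernel)

def tB15_wU1 : PosD ⟨⟨0, 1, 1⟩, ⟨98, 99, 147⟩, ⟨563, 825, 10000⟩, ⟨2512, 2757, 1000⟩⟩ (tB15.hWU true) :=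
  posD_of_check (c := ⟨354, ⟨5, 8, 12, 7⟩⟩) (by decide +kernel)

def tB15_wL1 : PosD ⟨⟨0, 1, 1⟩, ⟨98, 99, 147⟩, ⟨563, 825, 10000⟩, ⟨2512, 2757, 1000⟩⟩ (tB15.hWL true) :=
  posD_of_check (c := ⟨354, ⟨5, 8, 12, 7⟩⟩) (by decide +kernel)

def tB15_nueL : PosD ⟨⟨0, 1, 1⟩, ⟨98, 99, 147⟩, ⟨563, 825, 10000⟩, ⟨2512, 2757, 1000⟩⟩ (tB15.eL.ν) :=
  posD_of_check (c := ⟨44, ⟨0, 0, 1, 1⟩⟩) (by decide +kernel)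

def tB15_nupU : PosD ⟨⟨0, 1, 1⟩, ⟨98, 99, 147⟩, ⟨563, 825, 10000⟩, ⟨2512, 2757, 1000⟩⟩ (tB15.pU.ν) :=
  posD_of_check (c := ⟨46, ⟨0, 0, 1, 1⟩⟩) (by decide +kernel)

/-- The bounds of the piece. -/
def tB15_env : tB15.Env ⟨⟨0, 1, 1⟩, ⟨98, 99, 147⟩, ⟨563, 825, 10000⟩, ⟨2512, 2757, 1000⟩⟩ :=
  ⟨tB15_p0, Bool.forall_bool.2 ⟨tB15_den0, tB15_den1⟩, tB15_gn, Bool.forall_bool.2 ⟨tB15_ev0, tB15_ev1⟩, Bool.forall_bool.2 ⟨tB15_zL0, tB15_zL1⟩, Bool.forall_bool.2 ⟨tB15_zU0, tB15_zU1⟩, Bool.forall_bool.2 ⟨tB15_eL0, tB15_eL1⟩, ⟨.inr rfl, .inl tB15_nueL⟩, Bool.forall_bool.2 ⟨tB15_eH0, tB15_eH1⟩, ⟨.inr rfl, .inr rfl⟩, Bool.forall_bool.2 ⟨tB15_pL0, tB15_pL1⟩, ⟨.inr rfl, .inr rfl⟩, Bool.forall_bool.2 ⟨tB15_pU0, tB15_pU1⟩, ⟨.inr rfl, .inl tB15_nupU⟩,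 Bool.forall_bool.2 ⟨tB15_kU0, tB15_kU1⟩, ⟨.inr rfl, .inr rfl⟩, Bool.forall_bool.2 ⟨tB15_kL0, tB15_kL1⟩, ⟨.inr rfl, .inr rfl⟩, Bool.forall_bool.2 ⟨tB15_wU0, tB15_wU1⟩, ⟨.inr rfl, .inr rfl⟩, Bool.forall_bool.2 ⟨tB15_wL0, tB15_wL1⟩, ⟨.inr rfl, .inr rfl⟩⟩

def tB15_pp : PosD ⟨⟨0, 1, 1⟩, ⟨98, 99, 147⟩, ⟨563, 825, 10000⟩, ⟨2512, 2757, 1000⟩⟩ (tB15.xPL) :=
  posD_of_check (c := ⟨91, ⟨1, 1, 3, 3⟩⟩) (by decide +kernel)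

def tB15_k2p : PosD ⟨⟨0, 1, 1⟩, ⟨98, 99, 147⟩, ⟨563, 825, 10000⟩, ⟨2512, 2757, 1000⟩⟩ (tB15.k2p tB15.xE) :=
  posD_of_check (c := ⟨66, ⟨1, 1, 2, 2⟩⟩) (by decide +kernel)

def tB15_k2m : PosD ⟨⟨0, 1, 1⟩, ⟨98, 99, 147⟩, ⟨563, 825, 10000⟩, ⟨2512, 2757, 1000⟩⟩ (tB15.k2m tB15.xE) :=
  posD_of_check (c := ⟨24, ⟨0, 0, 1, 1⟩⟩) (by decide +kernel)

def tB15_v2p : PosD ⟨⟨0, 1, 1⟩, ⟨98, 99, 147⟩, ⟨563, 825, 10000⟩, ⟨2512, 2757, 1000⟩⟩ (tB15.hV2p) :=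
  posD_of_check (c := ⟨260, ⟨1, 6, 10, 5⟩⟩) (by decide +kernel)

def tB15_v2m : PosD ⟨⟨0, 1, 1⟩, ⟨98, 99, 147⟩, ⟨563, 825, 10000⟩, ⟨2512, 2757, 1000⟩⟩ (tB15.hV2m) :=
  posD_of_check (c := ⟨229, ⟨0, 5, 10, 4⟩⟩) (by decide +kernel)

def tB15_v3p : PosD ⟨⟨0, 1, 1⟩, ⟨98, 99, 147⟩, ⟨563, 825, 10000⟩, ⟨2512, 2757, 1000⟩⟩ (tB15.hV3p) :=
  posD_of_check (c := ⟨248, ⟨1, 6, 9, 5⟩⟩) (by decide +kernel)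

def tB15_v3m : PosD ⟨⟨0, 1, 1⟩, ⟨98, 99, 147⟩, ⟨563, 825, 10000⟩, ⟨2512, 2757, 1000⟩⟩ (tB15.hV3m) :=
  posD_of_check (c := ⟨221, ⟨0, 5, 9, 4⟩⟩) (by decide +kernel)

def tB15_kap0 : PosD ⟨⟨0, 1, 1⟩, ⟨98, 99, 147⟩, ⟨563, 825, 10000⟩, ⟨2512, 2757, 1000⟩⟩ (tB15.kap false) :=
  posD_of_check (c := ⟨68, ⟨1, 1, 2, 2⟩⟩) (by decide +kernel)

def tB15_c10 : PosD ⟨⟨0, 1, 1⟩, ⟨98, 99, 147⟩, ⟨563, 825, 10000⟩, ⟨2512, 2757, 1000⟩⟩ (tB15.hC1 false) :=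
  posD_of_check (c := ⟨265, ⟨3, 5, 9, 7⟩⟩) (by decide +kernel)

def tB15_c1h0 : PosD ⟨⟨0, 1, 1⟩, ⟨98, 99, 147⟩, ⟨563, 825, 10000⟩, ⟨2512, 2757, 1000⟩⟩ (tB15.hC1' false) :=
  posD_of_check (c := ⟨265, ⟨3, 5, 9, 7⟩⟩) (by decide +kernel)

def tB15_tg00 : PosD ⟨⟨0, 1, 1⟩, ⟨98, 99, 147⟩, ⟨563, 825, 10000⟩, ⟨2512, 2757, 1000⟩⟩ (tB15.hG false (tB15.pEnd false)) :=
  posD_of_check (c := ⟨372, ⟨2, 7, 14, 9⟩⟩) (by decide +kernel)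

def tB15_c2p00 : PosD ⟨⟨0, 1, 1⟩, ⟨98, 99, 147⟩, ⟨563, 825, 10000⟩, ⟨2512, 2757, 1000⟩⟩ (tB15.hC2p false (tB15.pEnd false)) :=
  posD_of_check (c := ⟨438, ⟨3, 8, 16, 11⟩⟩) (by decide +kernel)

def tB15_c2m00 : PosD ⟨⟨0, 1, 1⟩, ⟨98, 99, 147⟩, ⟨563, 825, 10000⟩, ⟨2512, 2757, 1000⟩⟩ (tB15.hC2m false (tB15.pEnd false)) :=
  posD_of_check (c := ⟨408, ⟨2, 7, 16, 10⟩⟩) (by decide +kernel)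

def tB15_c3p00 : PosD ⟨⟨0, 1, 1⟩, ⟨98, 99, 147⟩, ⟨563, 825, 10000⟩, ⟨2512, 2757, 1000⟩⟩ (tB15.hC3p false false) :=
  posD_of_check (c := ⟨430, ⟨3, 8, 15, 11⟩⟩) (by decide +kernel)

def tB15_c3m00 : PosD ⟨⟨0, 1, 1⟩, ⟨98, 99, 147⟩, ⟨563, 825, 10000⟩, ⟨2512, 2757, 1000⟩⟩ (tB15.hC3m false false) :=
  posD_of_check (c := ⟨405, ⟨3, 7, 15, 10⟩⟩) (by decide +kernel)

def tB15_c3ph00 : PosD ⟨⟨0, 1, 1⟩, ⟨98, 99, 147⟩, ⟨563, 825, 10000⟩, ⟨2512, 2757, 1000⟩⟩ (tB15.hC3p' false false) :=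
  posD_of_check (c := ⟨430, ⟨3, 8, 15, 11⟩⟩) (by decide +kernel)

def tB15_c3mh00 : PosD ⟨⟨0, 1, 1⟩, ⟨98, 99, 147⟩, ⟨563, 825, 10000⟩, ⟨2512, 2757, 1000⟩⟩ (tB15.hC3m' false false) :=
  posD_of_check (c := ⟨405, ⟨3, 7, 15, 10⟩⟩) (by decide +kernel)

def tB15_up00 : PosD ⟨⟨0, 1, 1⟩, ⟨98, 99, 147⟩, ⟨563, 825, 10000⟩, ⟨2512, 2757, 1000⟩⟩ (tB15.hUp false false) :=
  posD_of_check (c := ⟨428, ⟨3, 8, 15, 11⟩⟩) (by decide +kernel)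

def tB15_um00 : PosD ⟨⟨0, 1, 1⟩, ⟨98, 99, 147⟩, ⟨563, 825, 10000⟩, ⟨2512, 2757, 1000⟩⟩ (tB15.hUm false false) :=
  posD_of_check (c := ⟨402, ⟨2, 7, 15, 10⟩⟩) (by decide +kernel)

def tB15_tmg00 : PosD ⟨⟨0, 1, 1⟩, ⟨98, 99, 147⟩, ⟨563, 825, 10000⟩, ⟨2512, 2757, 1000⟩⟩ (tB15.hTMG false (tB15.pEnd false)) :=
  posD_of_check (c := ⟨387, ⟨2, 7, 14, 10⟩⟩) (by decide +kernel)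

def tB15_tg01 : PosD ⟨⟨0, 1, 1⟩, ⟨98, 99, 147⟩, ⟨563, 825, 10000⟩, ⟨2512, 2757, 1000⟩⟩ (tB15.hG true (tB15.pEnd false)) :=
  posD_of_check (c := ⟨372, ⟨2, 7, 14, 9⟩⟩) (by decide +kernel)

def tB15_c2p01 : PosD ⟨⟨0, 1, 1⟩, ⟨98, 99, 147⟩, ⟨563, 825, 10000⟩, ⟨2512, 2757, 1000⟩⟩ (tB15.hC2p true (tB15.pEnd false)) :=
  posD_of_check (c := ⟨438, ⟨3, 8, 16, 11⟩⟩) (by decide +kernel)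

def tB15_c2m01 : PosD ⟨⟨0, 1, 1⟩, ⟨98, 99, 147⟩, ⟨563, 825, 10000⟩, ⟨2512, 2757, 1000⟩⟩ (tB15.hC2m true (tB15.pEnd false)) :=
  posD_of_check (c := ⟨408, ⟨2, 7, 16, 10⟩⟩) (by decide +kernel)

def tB15_c3p01 : PosD ⟨⟨0, 1, 1⟩, ⟨98, 99, 147⟩, ⟨563, 825, 10000⟩, ⟨2512, 2757, 1000⟩⟩ (tB15.hC3p false true) :=
  posD_of_check (c := ⟨430, ⟨3, 8, 15, 11⟩⟩) (by decide +kernel)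

def tB15_c3m01 : PosD ⟨⟨0, 1, 1⟩, ⟨98, 99, 147⟩, ⟨563, 825, 10000⟩, ⟨2512, 2757, 1000⟩⟩ (tB15.hC3m false true) :=
  posD_of_check (c := ⟨405, ⟨3, 7, 15, 10⟩⟩) (by decide +kernel)

def tB15_c3ph01 : PosD ⟨⟨0, 1, 1⟩, ⟨98, 99, 147⟩, ⟨563, 825, 10000⟩, ⟨2512, 2757, 1000⟩⟩ (tB15.hC3p' false true) :=
  posD_of_check (c := ⟨430, ⟨3, 8, 15, 11⟩⟩) (by decide +kernel)

def tB15_c3mh01 : PosD ⟨⟨0, 1, 1⟩, ⟨98, 99, 147⟩, ⟨563, 825, 10000⟩, ⟨2512, 2757, 1000⟩⟩ (tB15.hC3m' false true) :=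
  posD_of_check (c := ⟨405, ⟨3, 7, 15, 10⟩⟩) (by decide +kernel)

def tB15_up01 : PosD ⟨⟨0, 1, 1⟩, ⟨98, 99, 147⟩, ⟨563, 825, 10000⟩, ⟨2512, 2757, 1000⟩⟩ (tB15.hUp false true) :=
  posD_of_check (c := ⟨428, ⟨3, 8, 15, 11⟩⟩) (by decide +kernel)

def tB15_um01 : PosD ⟨⟨0, 1, 1⟩, ⟨98, 99, 147⟩, ⟨563, 825, 10000⟩, ⟨2512, 2757, 1000⟩⟩ (tB15.hUm false true) :=
  posD_of_check (c := ⟨402, ⟨2, 7, 15, 10⟩⟩) (by decide +kernel)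

def tB15_tmg01 : PosD ⟨⟨0, 1, 1⟩, ⟨98, 99, 147⟩, ⟨563, 825, 10000⟩, ⟨2512, 2757, 1000⟩⟩ (tB15.hTMG true (tB15.pEnd false)) :=
  posD_of_check (c := ⟨387, ⟨2, 7, 14, 10⟩⟩) (by decide +kernel)

def tB15_kap1 : PosD ⟨⟨0, 1, 1⟩, ⟨98, 99, 147⟩, ⟨563, 825, 10000⟩, ⟨2512, 2757, 1000⟩⟩ (tB15.kap true) :=
  posD_of_check (c := ⟨68, ⟨1, 1, 2, 2⟩⟩) (by decide +kernel)

def tB15_c11 : PosD ⟨⟨0, 1, 1⟩, ⟨98, 99, 147⟩, ⟨563, 825, 10000⟩, ⟨2512, 2757, 1000⟩⟩ (tB15.hC1 true) :=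
  posD_of_check (c := ⟨266, ⟨3, 5, 9, 7⟩⟩) (by decide +kernel)

def tB15_c1h1 : PosD ⟨⟨0, 1, 1⟩, ⟨98, 99, 147⟩, ⟨563, 825, 10000⟩, ⟨2512, 2757, 1000⟩⟩ (tB15.hC1' true) :=
  posD_of_check (c := ⟨266, ⟨3, 5, 9, 7⟩⟩) (by decide +kernel)

def tB15_tg10 : PosD ⟨⟨0, 1, 1⟩, ⟨98, 99, 147⟩, ⟨563, 825, 10000⟩, ⟨2512, 2757, 1000⟩⟩ (tB15.hG false (tB15.pEnd true)) :=
  posD_of_check (c := ⟨374, ⟨2, 7, 14, 9⟩⟩) (by decide +kernel)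

def tB15_c2p10 : PosD ⟨⟨0, 1, 1⟩, ⟨98, 99, 147⟩, ⟨563, 825, 10000⟩, ⟨2512, 2757, 1000⟩⟩ (tB15.hC2p false (tB15.pEnd true)) :=
  posD_of_check (c := ⟨440, ⟨3, 8, 16, 11⟩⟩) (by decide +kernel)

def tB15_c2m10 : PosD ⟨⟨0, 1, 1⟩, ⟨98, 99, 147⟩, ⟨563, 825, 10000⟩, ⟨2512, 2757, 1000⟩⟩ (tB15.hC2m false (tB15.pEnd true)) :=
  posD_of_check (c := ⟨410, ⟨2, 7, 16, 10⟩⟩) (by decide +kernel)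

def tB15_c3p10 : PosD ⟨⟨0, 1, 1⟩, ⟨98, 99, 147⟩, ⟨563, 825, 10000⟩, ⟨2512, 2757, 1000⟩⟩ (tB15.hC3p true false) :=
  posD_of_check (c := ⟨431, ⟨3, 8, 15, 11⟩⟩) (by decide +kernel)

def tB15_c3m10 : PosD ⟨⟨0, 1, 1⟩, ⟨98, 99, 147⟩, ⟨563, 825, 10000⟩, ⟨2512, 2757, 1000⟩⟩ (tB15.hC3m true false) :=
  posD_of_check (c := ⟨406, ⟨3, 7, 15, 10⟩⟩) (by decide +kernel)

def tB15_c3ph10 : PosD ⟨⟨0, 1, 1⟩, ⟨98, 99, 147⟩, ⟨563, 825, 10000⟩, ⟨2512, 2757, 1000⟩⟩ (tB15.hC3p' true false) :=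
  posD_of_check (c := ⟨431, ⟨3, 8, 15, 11⟩⟩) (by decide +kernel)

def tB15_c3mh10 : PosD ⟨⟨0, 1, 1⟩, ⟨98, 99, 147⟩, ⟨563, 825, 10000⟩, ⟨2512, 2757, 1000⟩⟩ (tB15.hC3m' true false) :=
  posD_of_check (c := ⟨406, ⟨3, 7, 15, 10⟩⟩) (by decide +kernel)

def tB15_up10 : PosD ⟨⟨0, 1, 1⟩, ⟨98, 99, 147⟩, ⟨563, 825, 10000⟩, ⟨2512, 2757, 1000⟩⟩ (tB15.hUp true false) :=
  posD_of_check (c := ⟨429, ⟨3, 8, 15, 11⟩⟩) (by decide +kernel)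

def tB15_um10 : PosD ⟨⟨0, 1, 1⟩, ⟨98, 99, 147⟩, ⟨563, 825, 10000⟩, ⟨2512, 2757, 1000⟩⟩ (tB15.hUm true false) :=
  posD_of_check (c := ⟨403, ⟨2, 7, 15, 10⟩⟩) (by decide +kernel)

def tB15_tmg10 : PosD ⟨⟨0, 1, 1⟩, ⟨98, 99, 147⟩, ⟨563, 825, 10000⟩, ⟨2512, 2757, 1000⟩⟩ (tB15.hTMG false (tB15.pEnd true)) :=
  posD_of_check (c := ⟨388, ⟨2, 7, 14, 10⟩⟩) (by decide +kernel)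

def tB15_tg11 : PosD ⟨⟨0, 1, 1⟩, ⟨98, 99, 147⟩, ⟨563, 825, 10000⟩, ⟨2512, 2757, 1000⟩⟩ (tB15.hG true (tB15.pEnd true)) :=
  posD_of_check (c := ⟨374, ⟨2, 7, 14, 9⟩⟩) (by decide +kernel)

def tB15_c2p11 : PosD ⟨⟨0, 1, 1⟩, ⟨98, 99, 147⟩, ⟨563, 825, 10000⟩, ⟨2512, 2757, 1000⟩⟩ (tB15.hC2p true (tB15.pEnd true)) :=
  posD_of_check (c := ⟨440, ⟨3, 8, 16, 11⟩⟩) (by decide +kernel)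

def tB15_c2m11 : PosD ⟨⟨0, 1, 1⟩, ⟨98, 99, 147⟩, ⟨563, 825, 10000⟩, ⟨2512, 2757, 1000⟩⟩ (tB15.hC2m true (tB15.pEnd true)) :=
  posD_of_check (c := ⟨410, ⟨2, 7, 16, 10⟩⟩) (by decide +kernel)

def tB15_c3p11 : PosD ⟨⟨0, 1, 1⟩, ⟨98, 99, 147⟩, ⟨563, 825, 10000⟩, ⟨2512, 2757, 1000⟩⟩ (tB15.hC3p true true) :=
  posD_of_check (c := ⟨431, ⟨3, 8, 15, 11⟩⟩) (by decide +kernel)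

def tB15_c3m11 : PosD ⟨⟨0, 1, 1⟩, ⟨98, 99, 147⟩, ⟨563, 825, 10000⟩, ⟨2512, 2757, 1000⟩⟩ (tB15.hC3m true true) :=
  posD_of_check (c := ⟨406, ⟨3, 7, 15, 10⟩⟩) (by decide +kernel)

def tB15_c3ph11 : PosD ⟨⟨0, 1, 1⟩, ⟨98, 99, 147⟩, ⟨563, 825, 10000⟩, ⟨2512, 2757, 1000⟩⟩ (tB15.hC3p' true true) :=
  posD_of_check (c := ⟨431, ⟨3, 8, 15, 11⟩⟩) (by decide +kernel)

def tB15_c3mh11 : PosD ⟨⟨0, 1, 1⟩, ⟨98, 99, 147⟩, ⟨563, 825, 10000⟩, ⟨2512, 2757, 1000⟩⟩ (tB15.hC3m' true true) :=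
  posD_of_check (c := ⟨406, ⟨3, 7, 15, 10⟩⟩) (by decide +kernel)

def tB15_up11 : PosD ⟨⟨0, 1, 1⟩, ⟨98, 99, 147⟩, ⟨563, 825, 10000⟩, ⟨2512, 2757, 1000⟩⟩ (tB15.hUp true true) :=
  posD_of_check (c := ⟨429, ⟨3, 8, 15, 11⟩⟩) (by decide +kernel)

def tB15_um11 : PosD ⟨⟨0, 1, 1⟩, ⟨98, 99, 147⟩, ⟨563, 825, 10000⟩, ⟨2512, 2757, 1000⟩⟩ (tB15.hUm true true) :=
  posD_of_check (c := ⟨403, ⟨2, 7, 15, 10⟩⟩) (by decide +kernel)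

def tB15_tmg11 : PosD ⟨⟨0, 1, 1⟩, ⟨98, 99, 147⟩, ⟨563, 825, 10000⟩, ⟨2512, 2757, 1000⟩⟩ (tB15.hTMG true (tB15.pEnd true)) :=
  posD_of_check (c := ⟨388, ⟨2, 7, 14, 10⟩⟩) (by decide +kernel)

/-- The signs of the piece. -/
def tB15_sign : tB15.Sign ⟨⟨0, 1, 1⟩, ⟨98, 99, 147⟩, ⟨563, 825, 10000⟩, ⟨2512, 2757, 1000⟩⟩ :=
  ⟨tB15_pp,
    tB15_k2p,
    tB15_k2m,
    Bool.forall_bool.2 ⟨(Bool.forall_bool.2 ⟨tB15_tg00, tB15_tg01⟩), (Bool.forall_bool.2 ⟨tB15_tg10, tB15_tg11⟩)⟩,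
    Bool.forall_bool.2 ⟨(Bool.forall_bool.2 ⟨tB15_c2p00, tB15_c2p01⟩), (Bool.forall_bool.2 ⟨tB15_c2p10, tB15_c2p11⟩)⟩,
    Bool.forall_bool.2 ⟨(Bool.forall_bool.2 ⟨tB15_c2m00, tB15_c2m01⟩), (Bool.forall_bool.2 ⟨tB15_c2m10, tB15_c2m11⟩)⟩,
    Bool.forall_bool.2 ⟨tB15_kap0, tB15_kap1⟩,
    Bool.forall_bool.2 ⟨tB15_c10, tB15_c11⟩,
    Bool.forall_bool.2 ⟨(Bool.forall_bool.2 ⟨tB15_c3p00, tB15_c3p01⟩), (Bool.forall_bool.2 ⟨tB15_c3p10, tB15_c3p11⟩)⟩,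
    Bool.forall_bool.2 ⟨(Bool.forall_bool.2 ⟨tB15_c3m00, tB15_c3m01⟩), (Bool.forall_bool.2 ⟨tB15_c3m10, tB15_c3m11⟩)⟩,
    Bool.forall_bool.2 ⟨(Bool.forall_bool.2 ⟨tB15_tmg00, tB15_tmg01⟩), (Bool.forall_bool.2 ⟨tB15_tmg10, tB15_tmg11⟩)⟩,
    .inr (Bool.forall_bool.2 ⟨⟨tB15_c1h0, Bool.forall_bool.2 ⟨⟨tB15_c3ph00, tB15_c3mh00, tB15_up00, tB15_um00⟩, ⟨tB15_c3ph01, tB15_c3mh01, tB15_up01, tB15_um01⟩⟩⟩, ⟨tB15_c1h1, Bool.forall_bool.2 ⟨⟨tB15_c3ph10, tB15_c3mh10, tB15_up10, tB15_um10⟩, ⟨tB15_c3ph11, tB15_c3mh11, tB15_up11, tB15_um11⟩⟩⟩⟩),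
    tB15_v2p,
    tB15_v2m,
    tB15_v3p,
    tB15_v3m,
    posD_sub (b := ⟨⟨0, 1, 1⟩, ⟨98, 99, 147⟩, ⟨300, 1351, 10000⟩, ⟨290, 4000, 1000⟩⟩) (by decide +kernel) tB_vG,
    posD_sub (b := ⟨⟨0, 1, 1⟩, ⟨98, 99, 147⟩, ⟨300, 1351, 10000⟩, ⟨290, 4000, 1000⟩⟩) (by decide +kernel) tB_vMG,
    posD_sub (b := ⟨⟨0, 1, 1⟩, ⟨98, 99, 147⟩, ⟨300, 1351, 10000⟩, ⟨290, 4000, 1000⟩⟩) (by decide +kernel) tB_ak,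
    posD_sub (b := ⟨⟨0, 1, 1⟩, ⟨98, 99, 147⟩, ⟨300, 1351, 10000⟩, ⟨290, 4000, 1000⟩⟩) (by decide +kernel) tB_aw,
    posD_sub (b := ⟨⟨0, 1, 1⟩, ⟨98, 99, 147⟩, ⟨300, 1351, 10000⟩, ⟨290, 4000, 1000⟩⟩) (by decide +kernel) tB_gk,
    posD_sub (b := ⟨⟨0, 1, 1⟩, ⟨98, 99, 147⟩, ⟨300, 1351, 10000⟩, ⟨290, 4000, 1000⟩⟩) (by decide +kernel) tB_gw,
    posD_sub (b := ⟨⟨0, 1, 1⟩, ⟨98, 99, 147⟩, ⟨300, 1351, 10000⟩, ⟨290, 4000, 1000⟩⟩) (by decide +kernel) tB_ek,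
    posD_sub (b := ⟨⟨0, 1, 1⟩, ⟨98, 99, 147⟩, ⟨300, 1351, 10000⟩, ⟨290, 4000, 1000⟩⟩) (by decide +kernel) tB_ew⟩

end Vale.Agent.P100.Calib.Closed.Six.Tail
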