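import Vale.Agent.P100.Calib.SlabSixTailDataB
import Vale.Agent.P100.Calib.SlabSixTailGlobB

/-!
# Checks of some pieces of the certificate

The checks are written as definitions so that they run one after another, which keeps the memory of the
kernel low.
-/

set_option linter.defProp false

namespace Vale.Agent.P100.Calib.Closed.Six.Tail

open BoxPos Large

local instance sixTailCheckstB12Add : Add Ex := ⟨Ex.add⟩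
local instance sixTailCheckstB12Sub : Sub Ex := ⟨Ex.sub⟩
local instance sixTailCheckstB12Mul : Mul Ex := ⟨Ex.mul⟩

def tB16_phx : PosIf ⟨⟨0, 1, 1⟩, ⟨98, 99, 147⟩, ⟨563, 825, 10000⟩, ⟨2757, 3425, 1000⟩⟩ (tB16.u₁ - tB16Lo) (phBn (tB16.u₁ + xO * (tB16Lo - tB16.u₁))) :=
  posIf_of_posD (posD_of_check (c := ⟨101, ⟨2, 0, 4, 2⟩⟩) (by decide +kernel))

def tB16_phd : PosD ⟨⟨0, 1, 1⟩, ⟨98, 99, 147⟩, ⟨563, 825, 10000⟩, ⟨2757, 3425, 1000⟩⟩ (phBd (tB16.u₁ + xO * (tB16Lo - tB16.u₁))) :=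
  posD_of_check (c := ⟨48, ⟨1, 0, 2, 1⟩⟩) (by decide +kernel)

def tB16_p0 : PosD ⟨⟨0, 1, 1⟩, ⟨98, 99, 147⟩, ⟨563, 825, 10000⟩, ⟨2757, 3425, 1000⟩⟩ (tB16.hP0) :=
  posD_of_check (c := ⟨82, ⟨0, 2, 3, 1⟩⟩) (by decide +kernel)

def tB16_gn : PosD ⟨⟨0, 1, 1⟩, ⟨98, 99, 147⟩, ⟨563, 825, 10000⟩, ⟨2757, 3425, 1000⟩⟩ (tB16.hGn) :=
  posD_of_check (c := ⟨65, ⟨1, 1, 2, 2⟩⟩) (by decide +kernel)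

def tB16_den0 : PosD ⟨⟨0, 1, 1⟩, ⟨98, 99, 147⟩, ⟨563, 825, 10000⟩, ⟨2757, 3425, 1000⟩⟩ (tB16.hDen false) :=
  posD_of_check (c := ⟨48, ⟨1, 0, 2, 1⟩⟩) (by decide +kernel)

def tB16_den1 : PosD ⟨⟨0, 1, 1⟩, ⟨98, 99, 147⟩, ⟨563, 825, 10000⟩, ⟨2757, 3425, 1000⟩⟩ (tB16.hDen true) :=
  posD_of_check (c := ⟨171, ⟨3, 4, 6, 4⟩⟩) (by decide +kernel)

def tB16_ev0 : PosD ⟨⟨0, 1, 1⟩, ⟨98, 99, 147⟩, ⟨563, 825, 10000⟩, ⟨2757, 3425, 1000⟩⟩ (tB16.hEv false) :=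
  posD_of_check (c := ⟨205, ⟨4, 2, 8, 4⟩⟩) (by decide +kernel)

def tB16_zL0a : PosD ⟨⟨0, 1, 1⟩, ⟨98, 99, 147⟩, ⟨563, 825, 10000⟩, ⟨2757, 3091, 1000⟩⟩ (tB16.hZL false) :=
  posD_of_check (c := ⟨210, ⟨4, 3, 8, 4⟩⟩) (by decide +kernel)

def tB16_zL0ba : PosD ⟨⟨0, 1, 1⟩, ⟨98, 99, 147⟩, ⟨563, 825, 10000⟩, ⟨3091, 3258, 1000⟩⟩ (tB16.hZL false) :=
  posD_of_check (c := ⟨210, ⟨4, 3, 8, 4⟩⟩) (by decide +kernel)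

def tB16_zL0bb : PosD ⟨⟨0, 1, 1⟩, ⟨98, 99, 147⟩, ⟨563, 825, 10000⟩, ⟨3258, 3425, 1000⟩⟩ (tB16.hZL false) :=
  posD_of_check (c := ⟨210, ⟨4, 3, 8, 4⟩⟩) (by decide +kernel)

def tB16_zL0b : PosD ⟨⟨0, 1, 1⟩, ⟨98, 99, 147⟩, ⟨563, 825, 10000⟩, ⟨3091, 3425, 1000⟩⟩ (tB16.hZL false) :=
  posD_join₃ tB16_zL0ba tB16_zL0bb

def tB16_zL0 : PosD ⟨⟨0, 1, 1⟩, ⟨98, 99, 147⟩, ⟨563, 825, 10000⟩, ⟨2757, 3425, 1000⟩⟩ (tB16.hZL false) :=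
  posD_join₃ tB16_zL0a tB16_zL0b

def tB16_zU0aa : PosD ⟨⟨0, 1, 1⟩, ⟨98, 99, 147⟩, ⟨563, 825, 10000⟩, ⟨2757, 2924, 1000⟩⟩ (tB16.hZU false) :=
  posD_of_check (c := ⟨210, ⟨4, 3, 8, 4⟩⟩) (by decide +kernel)

def tB16_zU0ab : PosD ⟨⟨0, 1, 1⟩, ⟨98, 99, 147⟩, ⟨563, 825, 10000⟩, ⟨2924, 3091, 1000⟩⟩ (tB16.hZU false) :=
  posD_of_check (c := ⟨210, ⟨4, 3, 8, 4⟩⟩) (by decide +kernel)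

def tB16_zU0a : PosD ⟨⟨0, 1, 1⟩, ⟨98, 99, 147⟩, ⟨563, 825, 10000⟩, ⟨2757, 3091, 1000⟩⟩ (tB16.hZU false) :=
  posD_join₃ tB16_zU0aa tB16_zU0ab

def tB16_zU0b : PosD ⟨⟨0, 1, 1⟩, ⟨98, 99, 147⟩, ⟨563, 825, 10000⟩, ⟨3091, 3425, 1000⟩⟩ (tB16.hZU false) :=
  posD_of_check (c := ⟨210, ⟨4, 3, 8, 4⟩⟩) (by decide +kernel)

def tB16_zU0 : PosD ⟨⟨0, 1, 1⟩, ⟨98, 99, 147⟩, ⟨563, 825, 10000⟩, ⟨2757, 3425, 1000⟩⟩ (tB16.hZU false) :=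
  posD_join₃ tB16_zU0a tB16_zU0b

def tB16_eL0 : PosD ⟨⟨0, 1, 1⟩, ⟨98, 99, 147⟩, ⟨563, 825, 10000⟩, ⟨2757, 3425, 1000⟩⟩ (tB16.hEL false) :=
  posD_of_check (c := ⟨329, ⟨5, 6, 11, 7⟩⟩) (by decide +kernel)

def tB16_eH0 : PosD ⟨⟨0, 1, 1⟩, ⟨98, 99, 147⟩, ⟨563, 825, 10000⟩, ⟨2757, 3425, 1000⟩⟩ (tB16.hEH false) :=
  posD_of_check (c := ⟨297, ⟨5, 6, 11, 6⟩⟩) (by decide +kernel)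

def tB16_pL0 : PosD ⟨⟨0, 1, 1⟩, ⟨98, 99, 147⟩, ⟨563, 825, 10000⟩, ⟨2757, 3425, 1000⟩⟩ (tB16.hPL false) :=
  posD_of_check (c := ⟨324, ⟨5, 6, 11, 7⟩⟩) (by decide +kernel)

def tB16_pU0a : PosD ⟨⟨0, 1, 1⟩, ⟨98, 99, 147⟩, ⟨563, 825, 10000⟩, ⟨2757, 3091, 1000⟩⟩ (tB16.hPU false) :=
  posD_of_check (c := ⟨333, ⟨5, 6, 11, 7⟩⟩) (by decide +kernel)

def tB16_pU0b : PosD ⟨⟨0, 1, 1⟩, ⟨98, 99, 147⟩, ⟨563, 825, 10000⟩, ⟨3091, 3425, 1000⟩⟩ (tB16.hPU false) :=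
  posD_of_check (c := ⟨333, ⟨5, 6, 11, 7⟩⟩) (by decide +kernel)

def tB16_pU0 : PosD ⟨⟨0, 1, 1⟩, ⟨98, 99, 147⟩, ⟨563, 825, 10000⟩, ⟨2757, 3425, 1000⟩⟩ (tB16.hPU false) :=
  posD_join₃ tB16_pU0a tB16_pU0b

def tB16_kU0 : PosD ⟨⟨0, 1, 1⟩, ⟨98, 99, 147⟩, ⟨563, 825, 10000⟩, ⟨2757, 3425, 1000⟩⟩ (tB16.hKU false) :=
  posD_of_check (c := ⟨326, ⟨5, 6, 11, 7⟩⟩) (by decide +kernel)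

def tB16_kL0 : PosD ⟨⟨0, 1, 1⟩, ⟨98, 99, 147⟩, ⟨563, 825, 10000⟩, ⟨2757, 3425, 1000⟩⟩ (tB16.hKL false) :=
  posD_of_check (c := ⟨326, ⟨5, 6, 11, 7⟩⟩) (by decide +kernel)

def tB16_wU0a : PosD ⟨⟨0, 1, 1⟩, ⟨98, 99, 147⟩, ⟨563, 825, 10000⟩, ⟨2757, 3091, 1000⟩⟩ (tB16.hWU false) :=
  posD_of_check (c := ⟨355, ⟨5, 8, 12, 7⟩⟩) (by decide +kernel)

def tB16_wU0b : PosD ⟨⟨0, 1, 1⟩, ⟨98, 99, 147⟩, ⟨563, 825, 10000⟩, ⟨3091, 3425, 1000⟩⟩ (tB16.hWU false) :=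
  posD_of_check (c := ⟨355, ⟨5, 8, 12, 7⟩⟩) (by decide +kernel)

def tB16_wU0 : PosD ⟨⟨0, 1, 1⟩, ⟨98, 99, 147⟩, ⟨563, 825, 10000⟩, ⟨2757, 3425, 1000⟩⟩ (tB16.hWU false) :=
  posD_join₃ tB16_wU0a tB16_wU0b

def tB16_wL0 : PosD ⟨⟨0, 1, 1⟩, ⟨98, 99, 147⟩, ⟨563, 825, 10000⟩, ⟨2757, 3425, 1000⟩⟩ (tB16.hWL false) :=
  posD_of_check (c := ⟨362, ⟨5, 8, 12, 7⟩⟩) (by decide +kernel)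

def tB16_ev1 : PosD ⟨⟨0, 1, 1⟩, ⟨98, 99, 147⟩, ⟨563, 825, 10000⟩, ⟨2757, 3425, 1000⟩⟩ (tB16.hEv true) :=
  posD_of_check (c := ⟨261, ⟨4, 6, 9, 6⟩⟩) (by decide +kernel)

def tB16_zL1a : PosD ⟨⟨0, 1, 1⟩, ⟨98, 99, 147⟩, ⟨563, 825, 10000⟩, ⟨2757, 3091, 1000⟩⟩ (tB16.hZL true) :=
  posD_of_check (c := ⟨285, ⟨4, 7, 10, 7⟩⟩) (by decide +kernel)

def tB16_zL1b : PosD ⟨⟨0, 1, 1⟩, ⟨98, 99, 147⟩, ⟨563, 825, 10000⟩, ⟨3091, 3425, 1000⟩⟩ (tB16.hZL true) :=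
  posD_of_check (c := ⟨285, ⟨4, 7, 10, 7⟩⟩) (by decide +kernel)

def tB16_zL1 : PosD ⟨⟨0, 1, 1⟩, ⟨98, 99, 147⟩, ⟨563, 825, 10000⟩, ⟨2757, 3425, 1000⟩⟩ (tB16.hZL true) :=
  posD_join₃ tB16_zL1a tB16_zL1b

def tB16_zU1a : PosD ⟨⟨0, 1, 1⟩, ⟨98, 99, 147⟩, ⟨563, 825, 10000⟩, ⟨2757, 3091, 1000⟩⟩ (tB16.hZU true) :=
  posD_of_check (c := ⟨286, ⟨4, 7, 10, 7⟩⟩) (by decide +kernel)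

def tB16_zU1b : PosD ⟨⟨0, 1, 1⟩, ⟨98, 99, 147⟩, ⟨563, 825, 10000⟩, ⟨3091, 3425, 1000⟩⟩ (tB16.hZU true) :=
  posD_of_check (c := ⟨286, ⟨4, 7, 10, 7⟩⟩) (by decide +kernel)

def tB16_zU1 : PosD ⟨⟨0, 1, 1⟩, ⟨98, 99, 147⟩, ⟨563, 825, 10000⟩, ⟨2757, 3425, 1000⟩⟩ (tB16.hZU true) :=
  posD_join₃ tB16_zU1a tB16_zU1b

def tB16_eL1 : PosD ⟨⟨0, 1, 1⟩, ⟨98, 99, 147⟩, ⟨563, 825, 10000⟩, ⟨2757, 3425, 1000⟩⟩ (tB16.hEL true) :=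
  posD_of_check (c := ⟨385, ⟨5, 10, 12, 9⟩⟩) (by decide +kernel)

def tB16_eH1a : PosD ⟨⟨0, 1, 1⟩, ⟨98, 99, 147⟩, ⟨563, 825, 10000⟩, ⟨2757, 3091, 1000⟩⟩ (tB16.hEH true) :=
  posD_of_check (c := ⟨353, ⟨5, 10, 12, 8⟩⟩) (by decide +kernel)

def tB16_eH1b : PosD ⟨⟨0, 1, 1⟩, ⟨98, 99, 147⟩, ⟨563, 825, 10000⟩, ⟨3091, 3425, 1000⟩⟩ (tB16.hEH true) :=
  posD_of_check (c := ⟨353, ⟨5, 10, 12, 8⟩⟩) (by decide +kernel)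

def tB16_eH1 : PosD ⟨⟨0, 1, 1⟩, ⟨98, 99, 147⟩, ⟨563, 825, 10000⟩, ⟨2757, 3425, 1000⟩⟩ (tB16.hEH true) :=
  posD_join₃ tB16_eH1a tB16_eH1b

def tB16_pL1a : PosD ⟨⟨0, 1, 1⟩, ⟨98, 99, 147⟩, ⟨563, 825, 10000⟩, ⟨2757, 3091, 1000⟩⟩ (tB16.hPL true) :=
  posD_of_check (c := ⟨380, ⟨5, 10, 12, 9⟩⟩) (by decide +kernel)

def tB16_pL1b : PosD ⟨⟨0, 1, 1⟩, ⟨98, 99, 147⟩, ⟨563, 825, 10000⟩, ⟨3091, 3425, 1000⟩⟩ (tB16.hPL true) :=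
  posD_of_check (c := ⟨380, ⟨5, 10, 12, 9⟩⟩) (by decide +kernel)

def tB16_pL1 : PosD ⟨⟨0, 1, 1⟩, ⟨98, 99, 147⟩, ⟨563, 825, 10000⟩, ⟨2757, 3425, 1000⟩⟩ (tB16.hPL true) :=
  posD_join₃ tB16_pL1a tB16_pL1b

def tB16_pU1 : PosD ⟨⟨0, 1, 1⟩, ⟨98, 99, 147⟩, ⟨563, 825, 10000⟩, ⟨2757, 3425, 1000⟩⟩ (tB16.hPU true) :=
  posD_of_check (c := ⟨389, ⟨5, 10, 12, 9⟩⟩) (by decide +kernel)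

def tB16_kU1 : PosD ⟨⟨0, 1, 1⟩, ⟨98, 99, 147⟩, ⟨563, 825, 10000⟩, ⟨2757, 3425, 1000⟩⟩ (tB16.hKU true) :=
  posD_of_check (c := ⟨382, ⟨5, 10, 12, 9⟩⟩) (by decide +kernel)

def tB16_kL1 : PosD ⟨⟨0, 1, 1⟩, ⟨98, 99, 147⟩, ⟨563, 825, 10000⟩, ⟨2757, 3425, 1000⟩⟩ (tB16.hKL true) :=
  posD_of_check (c := ⟨382, ⟨5, 10, 12, 9⟩⟩) (by decide +kernel)

def tB16_wU1 : PosD ⟨⟨0, 1, 1⟩, ⟨98, 99, 147⟩, ⟨563, 825, 10000⟩, ⟨2757, 3425, 1000⟩⟩ (tB16.hWU true) :=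
  posD_of_check (c := ⟨410, ⟨5, 12, 13, 9⟩⟩) (by decide +kernel)

def tB16_wL1 : PosD ⟨⟨0, 1, 1⟩, ⟨98, 99, 147⟩, ⟨563, 825, 10000⟩, ⟨2757, 3425, 1000⟩⟩ (tB16.hWL true) :=
  posD_of_check (c := ⟨418, ⟨5, 12, 13, 9⟩⟩) (by decide +kernel)

def tB16_nueL : PosD ⟨⟨0, 1, 1⟩, ⟨98, 99, 147⟩, ⟨563, 825, 10000⟩, ⟨2757, 3425, 1000⟩⟩ (tB16.eL.ν) :=
  posD_of_check (c := ⟨44, ⟨0, 0, 1, 1⟩⟩) (by decide +kernel)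

def tB16_nupU : PosD ⟨⟨0, 1, 1⟩, ⟨98, 99, 147⟩, ⟨563, 825, 10000⟩, ⟨2757, 3425, 1000⟩⟩ (tB16.pU.ν) :=
  posD_of_check (c := ⟨47, ⟨0, 0, 1, 1⟩⟩) (by decide +kernel)

def tB16_nukU : PosD ⟨⟨0, 1, 1⟩, ⟨98, 99, 147⟩, ⟨563, 825, 10000⟩, ⟨2757, 3425, 1000⟩⟩ (tB16.kU.ν) :=
  posD_of_check (c := ⟨39, ⟨0, 0, 1, 1⟩⟩) (by decide +kernel)

def tB16_nukL : PosD ⟨⟨0, 1, 1⟩, ⟨98, 99, 147⟩, ⟨563, 825, 10000⟩, ⟨2757, 3425, 1000⟩⟩ (tB16.kL.ν) :=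
  posD_of_check (c := ⟨38, ⟨0, 0, 1, 1⟩⟩) (by decide +kernel)

def tB16_nuwL : PosD ⟨⟨0, 1, 1⟩, ⟨98, 99, 147⟩, ⟨563, 825, 10000⟩, ⟨2757, 3425, 1000⟩⟩ (tB16.wL.ν) :=
  posD_of_check (c := ⟨46, ⟨0, 0, 1, 1⟩⟩) (by decide +kernel)

/-- The bounds of the piece. -/
def tB16_env : tB16.Env ⟨⟨0, 1, 1⟩, ⟨98, 99, 147⟩, ⟨563, 825, 10000⟩, ⟨2757, 3425, 1000⟩⟩ :=
  ⟨tB16_p0, Bool.forall_bool.2 ⟨tB16_den0, tB16_den1⟩, tB16_gn, Bool.forall_bool.2 ⟨tB16_ev0, tB16_ev1⟩, Bool.forall_bool.2 ⟨tB16_zL0, tB16_zL1⟩, Bool.forall_bool.2 ⟨tB16_zU0, tB16_zU1⟩, Bool.forall_bool.2 ⟨tB16_eL0, tB16_eL1⟩, ⟨.inr rfl, .inl tB16_nueL⟩, Bool.forall_bool.2 ⟨tB16_eH0, tB16_eH1⟩, ⟨.inr rfl, .inr rfl⟩, Bool.forall_bool.2 ⟨tB16_pL0, tB16_pL1⟩, ⟨.inr rfl, .inr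 rfl⟩, Bool.forall_bool.2 ⟨tB16_pU0, tB16_pU1⟩, ⟨.inr rfl, .inl tB16_nupU⟩, Bool.forall_bool.2 ⟨tB16_kU0, tB16_kU1⟩, ⟨.inr rfl, .inl tB16_nukU⟩, Bool.forall_bool.2 ⟨tB16_kL0, tB16_kL1⟩, ⟨.inr rfl, .inl tB16_nukL⟩, Bool.forall_bool.2 ⟨tB16_wU0, tB16_wU1⟩, ⟨.inr rfl, .inr rfl⟩, Bool.forall_bool.2 ⟨tB16_wL0, tB16_wL1⟩, ⟨.inr rfl, .inl tB16_nuwL⟩⟩

def tB16_pp : PosD ⟨⟨0, 1, 1⟩, ⟨98, 99, 147⟩, ⟨563, 825, 10000⟩, ⟨2757, 3425, 1000⟩⟩ (tB16.xPL) :=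
  posD_of_check (c := ⟨93, ⟨1, 1, 3, 3⟩⟩) (by decide +kernel)

def tB16_k2p : PosD ⟨⟨0, 1, 1⟩, ⟨98, 99, 147⟩, ⟨563, 825, 10000⟩, ⟨2757, 3425, 1000⟩⟩ (tB16.k2p tB16.xE) :=
  posD_of_check (c := ⟨67, ⟨1, 1, 2, 2⟩⟩) (by decide +kernel)

def tB16_k2m : PosD ⟨⟨0, 1, 1⟩, ⟨98, 99, 147⟩, ⟨563, 825, 10000⟩, ⟨2757, 3425, 1000⟩⟩ (tB16.k2m tB16.xE) :=
  posD_of_check (c := ⟨65, ⟨1, 1, 2, 2⟩⟩) (by decide +kernel)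

def tB16_v2p : PosD ⟨⟨0, 1, 1⟩, ⟨98, 99, 147⟩, ⟨563, 825, 10000⟩, ⟨2757, 3425, 1000⟩⟩ (tB16.hV2p) :=
  posD_of_check (c := ⟨261, ⟨1, 6, 10, 5⟩⟩) (by decide +kernel)

def tB16_v2m : PosD ⟨⟨0, 1, 1⟩, ⟨98, 99, 147⟩, ⟨563, 825, 10000⟩, ⟨2757, 3425, 1000⟩⟩ (tB16.hV2m) :=
  posD_of_check (c := ⟨259, ⟨1, 6, 10, 5⟩⟩) (by decide +kernel)

def tB16_v3p : PosD ⟨⟨0, 1, 1⟩, ⟨98, 99, 147⟩, ⟨563, 825, 10000⟩, ⟨2757, 3425, 1000⟩⟩ (tB16.hV3p) :=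
  posD_of_check (c := ⟨248, ⟨1, 6, 9, 5⟩⟩) (by decide +kernel)

def tB16_v3m : PosD ⟨⟨0, 1, 1⟩, ⟨98, 99, 147⟩, ⟨563, 825, 10000⟩, ⟨2757, 3425, 1000⟩⟩ (tB16.hV3m) :=
  posD_of_check (c := ⟨248, ⟨1, 6, 9, 5⟩⟩) (by decide +kernel)

def tB16_kap0 : PosD ⟨⟨0, 1, 1⟩, ⟨98, 99, 147⟩, ⟨563, 825, 10000⟩, ⟨2757, 3425, 1000⟩⟩ (tB16.kap false) :=
  posD_of_check (c := ⟨74, ⟨1, 1, 2, 2⟩⟩) (by decide +kernel)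

def tB16_c10 : PosD ⟨⟨0, 1, 1⟩, ⟨98, 99, 147⟩, ⟨563, 825, 10000⟩, ⟨2757, 3425, 1000⟩⟩ (tB16.hC1 false) :=
  posD_of_check (c := ⟨272, ⟨3, 5, 9, 7⟩⟩) (by decide +kernel)

def tB16_c1h0a : PosD ⟨⟨0, 1, 1⟩, ⟨98, 99, 147⟩, ⟨563, 825, 10000⟩, ⟨2757, 3091, 1000⟩⟩ (tB16.hC1' false) :=
  posD_of_check (c := ⟨272, ⟨3, 5, 9, 7⟩⟩) (by decide +kernel)

def tB16_c1h0ba : PosD ⟨⟨0, 1, 1⟩, ⟨98, 99, 147⟩, ⟨563, 825, 10000⟩, ⟨3091, 3258, 1000⟩⟩ (tB16.hC1' false) :=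
  posD_of_check (c := ⟨272, ⟨3, 5, 9, 7⟩⟩) (by decide +kernel)

def tB16_c1h0bba : PosD ⟨⟨0, 1, 1⟩, ⟨98, 99, 147⟩, ⟨563, 825, 10000⟩, ⟨3258, 3341, 1000⟩⟩ (tB16.hC1' false) :=
  posD_of_check (c := ⟨272, ⟨3, 5, 9, 7⟩⟩) (by decide +kernel)

def tB16_c1h0bbba : PosD ⟨⟨0, 1, 1⟩, ⟨98, 99, 147⟩, ⟨563, 825, 10000⟩, ⟨3341, 3383, 1000⟩⟩ (tB16.hC1' false) :=
  posD_of_check (c := ⟨272, ⟨3, 5, 9, 7⟩⟩) (by decide +kernel)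

def tB16_c1h0bbbb : PosD ⟨⟨0, 1, 1⟩, ⟨98, 99, 147⟩, ⟨563, 825, 10000⟩, ⟨3383, 3425, 1000⟩⟩ (tB16.hC1' false) :=
  posD_of_relax (k₁ := 0) (k₂ := 202) (k₃ := 0) (n := 16) (posD_of_check (c := ⟨272, ⟨3, 5, 9, 7⟩⟩) (by decide +kernel))

def tB16_c1h0bbb : PosD ⟨⟨0, 1, 1⟩, ⟨98, 99, 147⟩, ⟨563, 825, 10000⟩, ⟨3341, 3425, 1000⟩⟩ (tB16.hC1' false) :=
  posD_join₃ tB16_c1h0bbba tB16_c1h0bbbb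

def tB16_c1h0bb : PosD ⟨⟨0, 1, 1⟩, ⟨98, 99, 147⟩, ⟨563, 825, 10000⟩, ⟨3258, 3425, 1000⟩⟩ (tB16.hC1' false) :=
  posD_join₃ tB16_c1h0bba tB16_c1h0bbb

def tB16_c1h0b : PosD ⟨⟨0, 1, 1⟩, ⟨98, 99, 147⟩, ⟨563, 825, 10000⟩, ⟨3091, 3425, 1000⟩⟩ (tB16.hC1' false) :=
  posD_join₃ tB16_c1h0ba tB16_c1h0bb

def tB16_c1h0 : PosD ⟨⟨0, 1, 1⟩, ⟨98, 99, 147⟩, ⟨563, 825, 10000⟩, ⟨2757, 3425, 1000⟩⟩ (tB16.hC1' false) :=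
  posD_join₃ tB16_c1h0a tB16_c1h0b

def tB16_tg00 : PosD ⟨⟨0, 1, 1⟩, ⟨98, 99, 147⟩, ⟨563, 825, 10000⟩, ⟨2757, 3425, 1000⟩⟩ (tB16.hG false (tB16.pEnd false)) :=
  posD_of_check (c := ⟨374, ⟨2, 7, 14, 9⟩⟩) (by decide +kernel)

def tB16_c2p00 : PosD ⟨⟨0, 1, 1⟩, ⟨98, 99, 147⟩, ⟨563, 825, 10000⟩, ⟨2757, 3425, 1000⟩⟩ (tB16.hC2p false (tB16.pEnd false)) :=
  posD_of_check (c := ⟨441, ⟨3, 8, 16, 11⟩⟩) (by decide +kernel)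

def tB16_c2m00 : PosD ⟨⟨0, 1, 1⟩, ⟨98, 99, 147⟩, ⟨563, 825, 10000⟩, ⟨2757, 3425, 1000⟩⟩ (tB16.hC2m false (tB16.pEnd false)) :=
  posD_of_check (c := ⟨440, ⟨3, 8, 16, 11⟩⟩) (by decide +kernel)

def tB16_c3p00 : PosD ⟨⟨0, 1, 1⟩, ⟨98, 99, 147⟩, ⟨563, 825, 10000⟩, ⟨2757, 3425, 1000⟩⟩ (tB16.hC3p false false) :=
  posD_of_check (c := ⟨437, ⟨3, 8, 15, 11⟩⟩) (by decide +kernel)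

def tB16_c3m00 : PosD ⟨⟨0, 1, 1⟩, ⟨98, 99, 147⟩, ⟨563, 825, 10000⟩, ⟨2757, 3425, 1000⟩⟩ (tB16.hC3m false false) :=
  posD_of_check (c := ⟨437, ⟨3, 8, 15, 11⟩⟩) (by decide +kernel)

def tB16_c3ph00 : PosD ⟨⟨0, 1, 1⟩, ⟨98, 99, 147⟩, ⟨563, 825, 10000⟩, ⟨2757, 3425, 1000⟩⟩ (tB16.hC3p' false false) :=
  posD_of_check (c := ⟨437, ⟨3, 8, 15, 11⟩⟩) (by decide +kernel)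

def tB16_c3mh00 : PosD ⟨⟨0, 1, 1⟩, ⟨98, 99, 147⟩, ⟨563, 825, 10000⟩, ⟨2757, 3425, 1000⟩⟩ (tB16.hC3m' false false) :=
  posD_of_check (c := ⟨437, ⟨3, 8, 15, 11⟩⟩) (by decide +kernel)

def tB16_up00 : PosD ⟨⟨0, 1, 1⟩, ⟨98, 99, 147⟩, ⟨563, 825, 10000⟩, ⟨2757, 3425, 1000⟩⟩ (tB16.hUp false false) :=
  posD_of_check (c := ⟨430, ⟨3, 8, 15, 11⟩⟩) (by decide +kernel)

def tB16_um00 : PosD ⟨⟨0, 1, 1⟩, ⟨98, 99, 147⟩, ⟨563, 825, 10000⟩, ⟨2757, 3425, 1000⟩⟩ (tB16.hUm false false) :=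
  posD_of_check (c := ⟨429, ⟨3, 8, 15, 11⟩⟩) (by decide +kernel)

def tB16_tmg00 : PosD ⟨⟨0, 1, 1⟩, ⟨98, 99, 147⟩, ⟨563, 825, 10000⟩, ⟨2757, 3425, 1000⟩⟩ (tB16.hTMG false (tB16.pEnd false)) :=
  posD_of_check (c := ⟨388, ⟨2, 7, 14, 10⟩⟩) (by decide +kernel)

def tB16_tg01 : PosD ⟨⟨0, 1, 1⟩, ⟨98, 99, 147⟩, ⟨563, 825, 10000⟩, ⟨2757, 3425, 1000⟩⟩ (tB16.hG true (tB16.pEnd false)) :=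
  posD_of_check (c := ⟨375, ⟨2, 7, 14, 9⟩⟩) (by decide +kernel)

def tB16_c2p01 : PosD ⟨⟨0, 1, 1⟩, ⟨98, 99, 147⟩, ⟨563, 825, 10000⟩, ⟨2757, 3425, 1000⟩⟩ (tB16.hC2p true (tB16.pEnd false)) :=
  posD_of_check (c := ⟨441, ⟨3, 8, 16, 11⟩⟩) (by decide +kernel)

def tB16_c2m01 : PosD ⟨⟨0, 1, 1⟩, ⟨98, 99, 147⟩, ⟨563, 825, 10000⟩, ⟨2757, 3425, 1000⟩⟩ (tB16.hC2m true (tB16.pEnd false)) :=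
  posD_of_check (c := ⟨440, ⟨3, 8, 16, 11⟩⟩) (by decide +kernel)

def tB16_c3p01 : PosD ⟨⟨0, 1, 1⟩, ⟨98, 99, 147⟩, ⟨563, 825, 10000⟩, ⟨2757, 3425, 1000⟩⟩ (tB16.hC3p false true) :=
  posD_of_check (c := ⟨437, ⟨3, 8, 15, 11⟩⟩) (by decide +kernel)

def tB16_c3m01 : PosD ⟨⟨0, 1, 1⟩, ⟨98, 99, 147⟩, ⟨563, 825, 10000⟩, ⟨2757, 3425, 1000⟩⟩ (tB16.hC3m false true) :=
  posD_of_check (c := ⟨437, ⟨3, 8, 15, 11⟩⟩) (by decide +kernel)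

def tB16_c3ph01 : PosD ⟨⟨0, 1, 1⟩, ⟨98, 99, 147⟩, ⟨563, 825, 10000⟩, ⟨2757, 3425, 1000⟩⟩ (tB16.hC3p' false true) :=
  posD_of_check (c := ⟨437, ⟨3, 8, 15, 11⟩⟩) (by decide +kernel)

def tB16_c3mh01 : PosD ⟨⟨0, 1, 1⟩, ⟨98, 99, 147⟩, ⟨563, 825, 10000⟩, ⟨2757, 3425, 1000⟩⟩ (tB16.hC3m' false true) :=
  posD_of_check (c := ⟨437, ⟨3, 8, 15, 11⟩⟩) (by decide +kernel)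

def tB16_up01 : PosD ⟨⟨0, 1, 1⟩, ⟨98, 99, 147⟩, ⟨563, 825, 10000⟩, ⟨2757, 3425, 1000⟩⟩ (tB16.hUp false true) :=
  posD_of_check (c := ⟨430, ⟨3, 8, 15, 11⟩⟩) (by decide +kernel)

def tB16_um01 : PosD ⟨⟨0, 1, 1⟩, ⟨98, 99, 147⟩, ⟨563, 825, 10000⟩, ⟨2757, 3425, 1000⟩⟩ (tB16.hUm false true) :=
  posD_of_check (c := ⟨429, ⟨3, 8, 15, 11⟩⟩) (by decide +kernel)

def tB16_tmg01 : PosD ⟨⟨0, 1, 1⟩, ⟨98, 99, 147⟩, ⟨563, 825, 10000⟩, ⟨2757, 3425, 1000⟩⟩ (tB16.hTMG true (tB16.pEnd false)) :=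
  posD_of_check (c := ⟨388, ⟨2, 7, 14, 10⟩⟩) (by decide +kernel)

def tB16_kap1 : PosD ⟨⟨0, 1, 1⟩, ⟨98, 99, 147⟩, ⟨563, 825, 10000⟩, ⟨2757, 3425, 1000⟩⟩ (tB16.kap true) :=
  posD_of_check (c := ⟨71, ⟨1, 1, 2, 2⟩⟩) (by decide +kernel)

def tB16_c11 : PosD ⟨⟨0, 1, 1⟩, ⟨98, 99, 147⟩, ⟨563, 825, 10000⟩, ⟨2757, 3425, 1000⟩⟩ (tB16.hC1 true) :=
  posD_of_check (c := ⟨269, ⟨3, 5, 9, 7⟩⟩) (by decide +kernel)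

def tB16_c1h1a : PosD ⟨⟨0, 1, 1⟩, ⟨98, 99, 147⟩, ⟨563, 825, 10000⟩, ⟨2757, 3091, 1000⟩⟩ (tB16.hC1' true) :=
  posD_of_check (c := ⟨269, ⟨3, 5, 9, 7⟩⟩) (by decide +kernel)

def tB16_c1h1ba : PosD ⟨⟨0, 1, 1⟩, ⟨98, 99, 147⟩, ⟨563, 825, 10000⟩, ⟨3091, 3258, 1000⟩⟩ (tB16.hC1' true) :=
  posD_of_check (c := ⟨269, ⟨3, 5, 9, 7⟩⟩) (by decide +kernel)

def tB16_c1h1bb : PosD ⟨⟨0, 1, 1⟩, ⟨98, 99, 147⟩, ⟨563, 825, 10000⟩, ⟨3258, 3425, 1000⟩⟩ (tB16.hC1' true) :=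
  posD_of_relax (k₁ := 0) (k₂ := 93) (k₃ := 0) (n := 16) (posD_of_check (c := ⟨269, ⟨3, 5, 9, 7⟩⟩) (by decide +kernel))

def tB16_c1h1b : PosD ⟨⟨0, 1, 1⟩, ⟨98, 99, 147⟩, ⟨563, 825, 10000⟩, ⟨3091, 3425, 1000⟩⟩ (tB16.hC1' true) :=
  posD_join₃ tB16_c1h1ba tB16_c1h1bb

def tB16_c1h1 : PosD ⟨⟨0, 1, 1⟩, ⟨98, 99, 147⟩, ⟨563, 825, 10000⟩, ⟨2757, 3425, 1000⟩⟩ (tB16.hC1' true) :=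
  posD_join₃ tB16_c1h1a tB16_c1h1b

def tB16_tg10 : PosD ⟨⟨0, 1, 1⟩, ⟨98, 99, 147⟩, ⟨563, 825, 10000⟩, ⟨2757, 3425, 1000⟩⟩ (tB16.hG false (tB16.pEnd true)) :=
  posD_of_check (c := ⟨374, ⟨2, 7, 14, 9⟩⟩) (by decide +kernel)

def tB16_c2p10 : PosD ⟨⟨0, 1, 1⟩, ⟨98, 99, 147⟩, ⟨563, 825, 10000⟩, ⟨2757, 3425, 1000⟩⟩ (tB16.hC2p false (tB16.pEnd true)) :=
  posD_of_check (c := ⟨441, ⟨3, 8, 16, 11⟩⟩) (by decide +kernel)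

def tB16_c2m10 : PosD ⟨⟨0, 1, 1⟩, ⟨98, 99, 147⟩, ⟨563, 825, 10000⟩, ⟨2757, 3425, 1000⟩⟩ (tB16.hC2m false (tB16.pEnd true)) :=
  posD_of_check (c := ⟨440, ⟨3, 8, 16, 11⟩⟩) (by decide +kernel)

def tB16_c3p10 : PosD ⟨⟨0, 1, 1⟩, ⟨98, 99, 147⟩, ⟨563, 825, 10000⟩, ⟨2757, 3425, 1000⟩⟩ (tB16.hC3p true false) :=
  posD_of_check (c := ⟨433, ⟨3, 8, 15, 11⟩⟩) (by decide +kernel)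

def tB16_c3m10 : PosD ⟨⟨0, 1, 1⟩, ⟨98, 99, 147⟩, ⟨563, 825, 10000⟩, ⟨2757, 3425, 1000⟩⟩ (tB16.hC3m true false) :=
  posD_of_check (c := ⟨433, ⟨3, 8, 15, 11⟩⟩) (by decide +kernel)

def tB16_c3ph10 : PosD ⟨⟨0, 1, 1⟩, ⟨98, 99, 147⟩, ⟨563, 825, 10000⟩, ⟨2757, 3425, 1000⟩⟩ (tB16.hC3p' true false) :=
  posD_of_check (c := ⟨433, ⟨3, 8, 15, 11⟩⟩) (by decide +kernel)

def tB16_c3mh10 : PosD ⟨⟨0, 1, 1⟩, ⟨98, 99, 147⟩, ⟨563, 825, 10000⟩, ⟨2757, 3425, 1000⟩⟩ (tB16.hC3m' true false) :=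
  posD_of_check (c := ⟨433, ⟨3, 8, 15, 11⟩⟩) (by decide +kernel)

def tB16_up10 : PosD ⟨⟨0, 1, 1⟩, ⟨98, 99, 147⟩, ⟨563, 825, 10000⟩, ⟨2757, 3425, 1000⟩⟩ (tB16.hUp true false) :=
  posD_of_check (c := ⟨429, ⟨3, 8, 15, 11⟩⟩) (by decide +kernel)

def tB16_um10 : PosD ⟨⟨0, 1, 1⟩, ⟨98, 99, 147⟩, ⟨563, 825, 10000⟩, ⟨2757, 3425, 1000⟩⟩ (tB16.hUm true false) :=
  posD_of_check (c := ⟨429, ⟨3, 8, 15, 11⟩⟩) (by decide +kernel)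

def tB16_tmg10 : PosD ⟨⟨0, 1, 1⟩, ⟨98, 99, 147⟩, ⟨563, 825, 10000⟩, ⟨2757, 3425, 1000⟩⟩ (tB16.hTMG false (tB16.pEnd true)) :=
  posD_of_check (c := ⟨388, ⟨2, 7, 14, 10⟩⟩) (by decide +kernel)

def tB16_tg11 : PosD ⟨⟨0, 1, 1⟩, ⟨98, 99, 147⟩, ⟨563, 825, 10000⟩, ⟨2757, 3425, 1000⟩⟩ (tB16.hG true (tB16.pEnd true)) :=
  posD_of_check (c := ⟨374, ⟨2, 7, 14, 9⟩⟩) (by decide +kernel)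

def tB16_c2p11 : PosD ⟨⟨0, 1, 1⟩, ⟨98, 99, 147⟩, ⟨563, 825, 10000⟩, ⟨2757, 3425, 1000⟩⟩ (tB16.hC2p true (tB16.pEnd true)) :=
  posD_of_check (c := ⟨441, ⟨3, 8, 16, 11⟩⟩) (by decide +kernel)

def tB16_c2m11 : PosD ⟨⟨0, 1, 1⟩, ⟨98, 99, 147⟩, ⟨563, 825, 10000⟩, ⟨2757, 3425, 1000⟩⟩ (tB16.hC2m true (tB16.pEnd true)) :=
  posD_of_check (c := ⟨440, ⟨3, 8, 16, 11⟩⟩) (by decide +kernel)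

def tB16_c3p11 : PosD ⟨⟨0, 1, 1⟩, ⟨98, 99, 147⟩, ⟨563, 825, 10000⟩, ⟨2757, 3425, 1000⟩⟩ (tB16.hC3p true true) :=
  posD_of_check (c := ⟨433, ⟨3, 8, 15, 11⟩⟩) (by decide +kernel)

def tB16_c3m11 : PosD ⟨⟨0, 1, 1⟩, ⟨98, 99, 147⟩, ⟨563, 825, 10000⟩, ⟨2757, 3425, 1000⟩⟩ (tB16.hC3m true true) :=
  posD_of_check (c := ⟨433, ⟨3, 8, 15, 11⟩⟩) (by decide +kernel)

def tB16_c3ph11 : PosD ⟨⟨0, 1, 1⟩, ⟨98, 99, 147⟩, ⟨563, 825, 10000⟩, ⟨2757, 3425, 1000⟩⟩ (tB16.hC3p' true true) :=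
  posD_of_check (c := ⟨433, ⟨3, 8, 15, 11⟩⟩) (by decide +kernel)

def tB16_c3mh11 : PosD ⟨⟨0, 1, 1⟩, ⟨98, 99, 147⟩, ⟨563, 825, 10000⟩, ⟨2757, 3425, 1000⟩⟩ (tB16.hC3m' true true) :=
  posD_of_check (c := ⟨433, ⟨3, 8, 15, 11⟩⟩) (by decide +kernel)

def tB16_up11 : PosD ⟨⟨0, 1, 1⟩, ⟨98, 99, 147⟩, ⟨563, 825, 10000⟩, ⟨2757, 3425, 1000⟩⟩ (tB16.hUp true true) :=
  posD_of_check (c := ⟨430, ⟨3, 8, 15, 11⟩⟩) (by decide +kernel)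

def tB16_um11 : PosD ⟨⟨0, 1, 1⟩, ⟨98, 99, 147⟩, ⟨563, 825, 10000⟩, ⟨2757, 3425, 1000⟩⟩ (tB16.hUm true true) :=
  posD_of_check (c := ⟨429, ⟨3, 8, 15, 11⟩⟩) (by decide +kernel)

def tB16_tmg11 : PosD ⟨⟨0, 1, 1⟩, ⟨98, 99, 147⟩, ⟨563, 825, 10000⟩, ⟨2757, 3425, 1000⟩⟩ (tB16.hTMG true (tB16.pEnd true)) :=
  posD_of_check (c := ⟨388, ⟨2, 7, 14, 10⟩⟩) (by decide +kernel)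

/-- The signs of the piece. -/
def tB16_sign : tB16.Sign ⟨⟨0, 1, 1⟩, ⟨98, 99, 147⟩, ⟨563, 825, 10000⟩, ⟨2757, 3425, 1000⟩⟩ :=
  ⟨tB16_pp,
    tB16_k2p,
    tB16_k2m,
    Bool.forall_bool.2 ⟨(Bool.forall_bool.2 ⟨tB16_tg00, tB16_tg01⟩), (Bool.forall_bool.2 ⟨tB16_tg10, tB16_tg11⟩)⟩,
    Bool.forall_bool.2 ⟨(Bool.forall_bool.2 ⟨tB16_c2p00, tB16_c2p01⟩), (Bool.forall_bool.2 ⟨tB16_c2p10, tB16_c2p11⟩)⟩,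
    Bool.forall_bool.2 ⟨(Bool.forall_bool.2 ⟨tB16_c2m00, tB16_c2m01⟩), (Bool.forall_bool.2 ⟨tB16_c2m10, tB16_c2m11⟩)⟩,
    Bool.forall_bool.2 ⟨tB16_kap0, tB16_kap1⟩,
    Bool.forall_bool.2 ⟨tB16_c10, tB16_c11⟩,
    Bool.forall_bool.2 ⟨(Bool.forall_bool.2 ⟨tB16_c3p00, tB16_c3p01⟩), (Bool.forall_bool.2 ⟨tB16_c3p10, tB16_c3p11⟩)⟩,
    Bool.forall_bool.2 ⟨(Bool.forall_bool.2 ⟨tB16_c3m00, tB16_c3m01⟩), (Bool.forall_bool.2 ⟨tB16_c3m10, tB16_c3m11⟩)⟩,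
    Bool.forall_bool.2 ⟨(Bool.forall_bool.2 ⟨tB16_tmg00, tB16_tmg01⟩), (Bool.forall_bool.2 ⟨tB16_tmg10, tB16_tmg11⟩)⟩,
    .inr (Bool.forall_bool.2 ⟨⟨tB16_c1h0, Bool.forall_bool.2 ⟨⟨tB16_c3ph00, tB16_c3mh00, tB16_up00, tB16_um00⟩, ⟨tB16_c3ph01, tB16_c3mh01, tB16_up01, tB16_um01⟩⟩⟩, ⟨tB16_c1h1, Bool.forall_bool.2 ⟨⟨tB16_c3ph10, tB16_c3mh10, tB16_up10, tB16_um10⟩, ⟨tB16_c3ph11, tB16_c3mh11, tB16_up11, tB16_um11⟩⟩⟩⟩),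
    tB16_v2p,
    tB16_v2m,
    tB16_v3p,
    tB16_v3m,
    posD_sub (b := ⟨⟨0, 1, 1⟩, ⟨98, 99, 147⟩, ⟨300, 1351, 10000⟩, ⟨290, 4000, 1000⟩⟩) (by decide +kernel) tB_vG,
    posD_sub (b := ⟨⟨0, 1, 1⟩, ⟨98, 99, 147⟩, ⟨300, 1351, 10000⟩, ⟨290, 4000, 1000⟩⟩) (by decide +kernel) tB_vMG,
    posD_sub (b := ⟨⟨0, 1, 1⟩, ⟨98, 99, 147⟩, ⟨300, 1351, 10000⟩, ⟨290, 4000, 1000⟩⟩) (by decide +kernel) tB_ak,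
    posD_sub (b := ⟨⟨0, 1, 1⟩, ⟨98, 99, 147⟩, ⟨300, 1351, 10000⟩, ⟨290, 4000, 1000⟩⟩) (by decide +kernel) tB_aw,
    posD_sub (b := ⟨⟨0, 1, 1⟩, ⟨98, 99, 147⟩, ⟨300, 1351, 10000⟩, ⟨290, 4000, 1000⟩⟩) (by decide +kernel) tB_gk,
    posD_sub (b := ⟨⟨0, 1, 1⟩, ⟨98, 99, 147⟩, ⟨300, 1351, 10000⟩, ⟨290, 4000, 1000⟩⟩) (by decide +kernel) tB_gw,
    posD_sub (b := ⟨⟨0, 1, 1⟩, ⟨98, 99, 147⟩, ⟨300, 1351, 10000⟩, ⟨290, 4000, 1000⟩⟩) (by decide +kernel) tB_ek,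
    posD_sub (b := ⟨⟨0, 1, 1⟩, ⟨98, 99, 147⟩, ⟨300, 1351, 10000⟩, ⟨290, 4000, 1000⟩⟩) (by decide +kernel) tB_ew⟩

def tB17_phx : PosD ⟨⟨0, 1, 1⟩, ⟨98, 99, 147⟩, ⟨825, 1351, 10000⟩, ⟨1900, 4000, 1000⟩⟩ (phBn (tB17Hi + xO * (tB17Lo - tB17Hi))) :=
  posD_of_check (c := ⟨69, ⟨2, 0, 2, 1⟩⟩) (by decide +kernel)

def tB17_phd : PosD ⟨⟨0, 1, 1⟩, ⟨98, 99, 147⟩, ⟨825, 1351, 10000⟩, ⟨1900, 4000, 1000⟩⟩ (phBd (tB17Hi + xO * (tB17Lo - tB17Hi))) :=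
  posD_of_check (c := ⟨47, ⟨1, 0, 2, 0⟩⟩) (by decide +kernel)

end Vale.Agent.P100.Calib.Closed.Six.Tail
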