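import Vale.Agent.P100.Calib.SlabSixTailDataB
import Vale.Agent.P100.Calib.SlabSixTailGlobB

/-!
# Checks of some pieces of the certificate

The checks are written as definitions so that they run one after another, which keeps the memory of the
kernel low.
-/

set_option linter.defProp false

namespace Vale.Agent.P100.Calib.Closed.Six.Tail

open BoxPos Large

local instance sixTailCheckstB13Add : Add Ex := ⟨Ex.add⟩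
local instance sixTailCheckstB13Sub : Sub Ex := ⟨Ex.sub⟩
local instance sixTailCheckstB13Mul : Mul Ex := ⟨Ex.mul⟩

def tB18_phx : PosIf ⟨⟨0, 1, 1⟩, ⟨98, 99, 147⟩, ⟨825, 1351, 10000⟩, ⟨1900, 2289, 1000⟩⟩ (tB18.u₁ - tB18Lo) (phBn (tB18.u₁ + xO * (tB18Lo - tB18.u₁))) :=
  posIf_of_posD (posD_of_check (c := ⟨101, ⟨2, 0, 4, 2⟩⟩) (by decide +kernel))

def tB18_phd : PosD ⟨⟨0, 1, 1⟩, ⟨98, 99, 147⟩, ⟨825, 1351, 10000⟩, ⟨1900, 2289, 1000⟩⟩ (phBd (tB18.u₁ + xO * (tB18Lo - tB18.u₁))) :=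
  posD_of_check (c := ⟨48, ⟨1, 0, 2, 1⟩⟩) (by decide +kernel)

def tB18_p0 : PosD ⟨⟨0, 1, 1⟩, ⟨98, 99, 147⟩, ⟨825, 1351, 10000⟩, ⟨1900, 2289, 1000⟩⟩ (tB18.hP0) :=
  posD_of_check (c := ⟨82, ⟨0, 2, 3, 1⟩⟩) (by decide +kernel)

def tB18_gn : PosD ⟨⟨0, 1, 1⟩, ⟨98, 99, 147⟩, ⟨825, 1351, 10000⟩, ⟨1900, 2289, 1000⟩⟩ (tB18.hGn) :=
  posD_of_check (c := ⟨66, ⟨1, 1, 2, 2⟩⟩) (by decide +kernel)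

def tB18_den0 : PosD ⟨⟨0, 1, 1⟩, ⟨98, 99, 147⟩, ⟨825, 1351, 10000⟩, ⟨1900, 2289, 1000⟩⟩ (tB18.hDen false) :=
  posD_of_check (c := ⟨48, ⟨1, 0, 2, 1⟩⟩) (by decide +kernel)

def tB18_den1 : PosD ⟨⟨0, 1, 1⟩, ⟨98, 99, 147⟩, ⟨825, 1351, 10000⟩, ⟨1900, 2289, 1000⟩⟩ (tB18.hDen true) :=
  posD_of_check (c := ⟨48, ⟨1, 0, 2, 1⟩⟩) (by decide +kernel)

def tB18_ev0 : PosD ⟨⟨0, 1, 1⟩, ⟨98, 99, 147⟩, ⟨825, 1351, 10000⟩, ⟨1900, 2289, 1000⟩⟩ (tB18.hEv false) :=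
  posD_of_check (c := ⟨206, ⟨4, 2, 8, 4⟩⟩) (by decide +kernel)

def tB18_zL0 : PosD ⟨⟨0, 1, 1⟩, ⟨98, 99, 147⟩, ⟨825, 1351, 10000⟩, ⟨1900, 2289, 1000⟩⟩ (tB18.hZL false) :=
  posD_of_check (c := ⟨209, ⟨4, 3, 8, 4⟩⟩) (by decide +kernel)

def tB18_zU0a : PosD ⟨⟨0, 1, 1⟩, ⟨98, 99, 147⟩, ⟨825, 1088, 10000⟩, ⟨1900, 2289, 1000⟩⟩ (tB18.hZU false) :=
  posD_of_check (c := ⟨209, ⟨4, 3, 8, 4⟩⟩) (by decide +kernel)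

def tB18_zU0b : PosD ⟨⟨0, 1, 1⟩, ⟨98, 99, 147⟩, ⟨1088, 1351, 10000⟩, ⟨1900, 2289, 1000⟩⟩ (tB18.hZU false) :=
  posD_of_check (c := ⟨209, ⟨4, 3, 8, 4⟩⟩) (by decide +kernel)

def tB18_zU0 : PosD ⟨⟨0, 1, 1⟩, ⟨98, 99, 147⟩, ⟨825, 1351, 10000⟩, ⟨1900, 2289, 1000⟩⟩ (tB18.hZU false) :=
  posD_join₂ tB18_zU0a tB18_zU0b

def tB18_eL0 : PosD ⟨⟨0, 1, 1⟩, ⟨98, 99, 147⟩, ⟨825, 1351, 10000⟩, ⟨1900, 2289, 1000⟩⟩ (tB18.hEL false) :=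
  posD_of_check (c := ⟨298, ⟨5, 6, 11, 6⟩⟩) (by decide +kernel)

def tB18_eH0 : PosD ⟨⟨0, 1, 1⟩, ⟨98, 99, 147⟩, ⟨825, 1351, 10000⟩, ⟨1900, 2289, 1000⟩⟩ (tB18.hEH false) :=
  posD_of_check (c := ⟨298, ⟨5, 6, 11, 6⟩⟩) (by decide +kernel)

def tB18_pL0 : PosD ⟨⟨0, 1, 1⟩, ⟨98, 99, 147⟩, ⟨825, 1351, 10000⟩, ⟨1900, 2289, 1000⟩⟩ (tB18.hPL false) :=
  posD_of_check (c := ⟨324, ⟨5, 6, 11, 7⟩⟩) (by decide +kernel)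

def tB18_pU0 : PosD ⟨⟨0, 1, 1⟩, ⟨98, 99, 147⟩, ⟨825, 1351, 10000⟩, ⟨1900, 2289, 1000⟩⟩ (tB18.hPU false) :=
  posD_of_check (c := ⟨332, ⟨5, 6, 11, 7⟩⟩) (by decide +kernel)

def tB18_kU0 : PosD ⟨⟨0, 1, 1⟩, ⟨98, 99, 147⟩, ⟨825, 1351, 10000⟩, ⟨1900, 2289, 1000⟩⟩ (tB18.hKU false) :=
  posD_of_check (c := ⟨320, ⟨5, 6, 11, 7⟩⟩) (by decide +kernel)

def tB18_kL0 : PosD ⟨⟨0, 1, 1⟩, ⟨98, 99, 147⟩, ⟨825, 1351, 10000⟩, ⟨1900, 2289, 1000⟩⟩ (tB18.hKL false) :=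
  posD_of_check (c := ⟨320, ⟨5, 6, 11, 7⟩⟩) (by decide +kernel)

def tB18_wU0 : PosD ⟨⟨0, 1, 1⟩, ⟨98, 99, 147⟩, ⟨825, 1351, 10000⟩, ⟨1900, 2289, 1000⟩⟩ (tB18.hWU false) :=
  posD_of_check (c := ⟨355, ⟨5, 8, 12, 7⟩⟩) (by decide +kernel)

def tB18_wL0 : PosD ⟨⟨0, 1, 1⟩, ⟨98, 99, 147⟩, ⟨825, 1351, 10000⟩, ⟨1900, 2289, 1000⟩⟩ (tB18.hWL false) :=
  posD_of_check (c := ⟨355, ⟨5, 8, 12, 7⟩⟩) (by decide +kernel)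

def tB18_ev1 : PosD ⟨⟨0, 1, 1⟩, ⟨98, 99, 147⟩, ⟨825, 1351, 10000⟩, ⟨1900, 2289, 1000⟩⟩ (tB18.hEv true) :=
  posD_of_check (c := ⟨205, ⟨4, 2, 8, 4⟩⟩) (by decide +kernel)

def tB18_zL1a : PosD ⟨⟨0, 1, 1⟩, ⟨98, 99, 147⟩, ⟨825, 1088, 10000⟩, ⟨1900, 2289, 1000⟩⟩ (tB18.hZL true) :=
  posD_of_check (c := ⟨208, ⟨4, 3, 8, 4⟩⟩) (by decide +kernel)

def tB18_zL1b : PosD ⟨⟨0, 1, 1⟩, ⟨98, 99, 147⟩, ⟨1088, 1351, 10000⟩, ⟨1900, 2289, 1000⟩⟩ (tB18.hZL true) :=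
  posD_of_check (c := ⟨209, ⟨4, 3, 8, 4⟩⟩) (by decide +kernel)

def tB18_zL1 : PosD ⟨⟨0, 1, 1⟩, ⟨98, 99, 147⟩, ⟨825, 1351, 10000⟩, ⟨1900, 2289, 1000⟩⟩ (tB18.hZL true) :=
  posD_join₂ tB18_zL1a tB18_zL1b

def tB18_zU1 : PosD ⟨⟨0, 1, 1⟩, ⟨98, 99, 147⟩, ⟨825, 1351, 10000⟩, ⟨1900, 2289, 1000⟩⟩ (tB18.hZU true) :=
  posD_of_check (c := ⟨209, ⟨4, 3, 8, 4⟩⟩) (by decide +kernel)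

def tB18_eL1 : PosD ⟨⟨0, 1, 1⟩, ⟨98, 99, 147⟩, ⟨825, 1351, 10000⟩, ⟨1900, 2289, 1000⟩⟩ (tB18.hEL true) :=
  posD_of_check (c := ⟨298, ⟨5, 6, 11, 6⟩⟩) (by decide +kernel)

def tB18_eH1 : PosD ⟨⟨0, 1, 1⟩, ⟨98, 99, 147⟩, ⟨825, 1351, 10000⟩, ⟨1900, 2289, 1000⟩⟩ (tB18.hEH true) :=
  posD_of_check (c := ⟨297, ⟨5, 6, 11, 6⟩⟩) (by decide +kernel)

def tB18_pL1 : PosD ⟨⟨0, 1, 1⟩, ⟨98, 99, 147⟩, ⟨825, 1351, 10000⟩, ⟨1900, 2289, 1000⟩⟩ (tB18.hPL true) :=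
  posD_of_check (c := ⟨323, ⟨5, 6, 11, 7⟩⟩) (by decide +kernel)

def tB18_pU1 : PosD ⟨⟨0, 1, 1⟩, ⟨98, 99, 147⟩, ⟨825, 1351, 10000⟩, ⟨1900, 2289, 1000⟩⟩ (tB18.hPU true) :=
  posD_of_check (c := ⟨332, ⟨5, 6, 11, 7⟩⟩) (by decide +kernel)

def tB18_kU1 : PosD ⟨⟨0, 1, 1⟩, ⟨98, 99, 147⟩, ⟨825, 1351, 10000⟩, ⟨1900, 2289, 1000⟩⟩ (tB18.hKU true) :=
  posD_of_check (c := ⟨319, ⟨5, 6, 11, 7⟩⟩) (by decide +kernel)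

def tB18_kL1 : PosD ⟨⟨0, 1, 1⟩, ⟨98, 99, 147⟩, ⟨825, 1351, 10000⟩, ⟨1900, 2289, 1000⟩⟩ (tB18.hKL true) :=
  posD_of_check (c := ⟨319, ⟨5, 6, 11, 7⟩⟩) (by decide +kernel)

def tB18_wU1 : PosD ⟨⟨0, 1, 1⟩, ⟨98, 99, 147⟩, ⟨825, 1351, 10000⟩, ⟨1900, 2289, 1000⟩⟩ (tB18.hWU true) :=
  posD_of_check (c := ⟨354, ⟨5, 8, 12, 7⟩⟩) (by decide +kernel)

def tB18_wL1 : PosD ⟨⟨0, 1, 1⟩, ⟨98, 99, 147⟩, ⟨825, 1351, 10000⟩, ⟨1900, 2289, 1000⟩⟩ (tB18.hWL true) :=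
  posD_of_check (c := ⟨354, ⟨5, 8, 12, 7⟩⟩) (by decide +kernel)

def tB18_nupU : PosD ⟨⟨0, 1, 1⟩, ⟨98, 99, 147⟩, ⟨825, 1351, 10000⟩, ⟨1900, 2289, 1000⟩⟩ (tB18.pU.ν) :=
  posD_of_check (c := ⟨46, ⟨0, 0, 1, 1⟩⟩) (by decide +kernel)

/-- The bounds of the piece. -/
def tB18_env : tB18.Env ⟨⟨0, 1, 1⟩, ⟨98, 99, 147⟩, ⟨825, 1351, 10000⟩, ⟨1900, 2289, 1000⟩⟩ :=
  ⟨tB18_p0, Bool.forall_bool.2 ⟨tB18_den0, tB18_den1⟩, tB18_gn, Bool.forall_bool.2 ⟨tB18_ev0, tB18_ev1⟩, Bool.forall_bool.2 ⟨tB18_zL0, tB18_zL1⟩, Bool.forall_bool.2 ⟨tB18_zU0, tB18_zU1⟩, Bool.forall_bool.2 ⟨tB18_eL0, tB18_eL1⟩, ⟨.inr rfl, .inr rfl⟩, Bool.forall_bool.2 ⟨tB18_eH0, tB18_eH1⟩, ⟨.inr rfl, .inr rfl⟩, Bool.forall_bool.2 ⟨tB18_pL0, tB18_pL1⟩, ⟨.inr rfl, .inr rfl⟩,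 Bool.forall_bool.2 ⟨tB18_pU0, tB18_pU1⟩, ⟨.inr rfl, .inl tB18_nupU⟩, Bool.forall_bool.2 ⟨tB18_kU0, tB18_kU1⟩, ⟨.inr rfl, .inr rfl⟩, Bool.forall_bool.2 ⟨tB18_kL0, tB18_kL1⟩, ⟨.inr rfl, .inr rfl⟩, Bool.forall_bool.2 ⟨tB18_wU0, tB18_wU1⟩, ⟨.inr rfl, .inr rfl⟩, Bool.forall_bool.2 ⟨tB18_wL0, tB18_wL1⟩, ⟨.inr rfl, .inr rfl⟩⟩

def tB18_pp : PosD ⟨⟨0, 1, 1⟩, ⟨98, 99, 147⟩, ⟨825, 1351, 10000⟩, ⟨1900, 2289, 1000⟩⟩ (tB18.xPL) :=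
  posD_of_check (c := ⟨91, ⟨1, 1, 3, 3⟩⟩) (by decide +kernel)

def tB18_k2p : PosD ⟨⟨0, 1, 1⟩, ⟨98, 99, 147⟩, ⟨825, 1351, 10000⟩, ⟨1900, 2289, 1000⟩⟩ (tB18.k2p tB18.xE) :=
  posD_of_check (c := ⟨69, ⟨1, 1, 2, 2⟩⟩) (by decide +kernel)

def tB18_k2m : PosD ⟨⟨0, 1, 1⟩, ⟨98, 99, 147⟩, ⟨825, 1351, 10000⟩, ⟨1900, 2289, 1000⟩⟩ (tB18.k2m tB18.xE) :=
  posD_of_check (c := ⟨25, ⟨0, 0, 1, 1⟩⟩) (by decide +kernel)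

def tB18_v2p : PosD ⟨⟨0, 1, 1⟩, ⟨98, 99, 147⟩, ⟨825, 1351, 10000⟩, ⟨1900, 2289, 1000⟩⟩ (tB18.hV2p) :=
  posD_of_check (c := ⟨263, ⟨1, 6, 10, 5⟩⟩) (by decide +kernel)

def tB18_v2m : PosD ⟨⟨0, 1, 1⟩, ⟨98, 99, 147⟩, ⟨825, 1351, 10000⟩, ⟨1900, 2289, 1000⟩⟩ (tB18.hV2m) :=
  posD_of_check (c := ⟨231, ⟨0, 5, 10, 4⟩⟩) (by decide +kernel)

def tB18_v3p : PosD ⟨⟨0, 1, 1⟩, ⟨98, 99, 147⟩, ⟨825, 1351, 10000⟩, ⟨1900, 2289, 1000⟩⟩ (tB18.hV3p) :=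
  posD_of_check (c := ⟨250, ⟨1, 6, 9, 5⟩⟩) (by decide +kernel)

def tB18_v3m : PosD ⟨⟨0, 1, 1⟩, ⟨98, 99, 147⟩, ⟨825, 1351, 10000⟩, ⟨1900, 2289, 1000⟩⟩ (tB18.hV3m) :=
  posD_of_check (c := ⟨222, ⟨0, 5, 9, 4⟩⟩) (by decide +kernel)

def tB18_kap0 : PosD ⟨⟨0, 1, 1⟩, ⟨98, 99, 147⟩, ⟨825, 1351, 10000⟩, ⟨1900, 2289, 1000⟩⟩ (tB18.kap false) :=
  posD_of_check (c := ⟨67, ⟨1, 1, 2, 2⟩⟩) (by decide +kernel)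

def tB18_c10 : PosD ⟨⟨0, 1, 1⟩, ⟨98, 99, 147⟩, ⟨825, 1351, 10000⟩, ⟨1900, 2289, 1000⟩⟩ (tB18.hC1 false) :=
  posD_of_check (c := ⟨263, ⟨3, 5, 9, 7⟩⟩) (by decide +kernel)

def tB18_c1h0 : PosD ⟨⟨0, 1, 1⟩, ⟨98, 99, 147⟩, ⟨825, 1351, 10000⟩, ⟨1900, 2289, 1000⟩⟩ (tB18.hC1' false) :=
  posD_of_check (c := ⟨263, ⟨3, 5, 9, 7⟩⟩) (by decide +kernel)

def tB18_tg00 : PosD ⟨⟨0, 1, 1⟩, ⟨98, 99, 147⟩, ⟨825, 1351, 10000⟩, ⟨1900, 2289, 1000⟩⟩ (tB18.hG false (tB18.pEnd false)) :=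
  posD_of_check (c := ⟨372, ⟨2, 7, 14, 9⟩⟩) (by decide +kernel)

def tB18_c2p00 : PosD ⟨⟨0, 1, 1⟩, ⟨98, 99, 147⟩, ⟨825, 1351, 10000⟩, ⟨1900, 2289, 1000⟩⟩ (tB18.hC2p false (tB18.pEnd false)) :=
  posD_of_check (c := ⟨440, ⟨3, 8, 16, 11⟩⟩) (by decide +kernel)

def tB18_c2m00 : PosD ⟨⟨0, 1, 1⟩, ⟨98, 99, 147⟩, ⟨825, 1351, 10000⟩, ⟨1900, 2289, 1000⟩⟩ (tB18.hC2m false (tB18.pEnd false)) :=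
  posD_of_check (c := ⟨409, ⟨2, 7, 16, 10⟩⟩) (by decide +kernel)

def tB18_c3p00 : PosD ⟨⟨0, 1, 1⟩, ⟨98, 99, 147⟩, ⟨825, 1351, 10000⟩, ⟨1900, 2289, 1000⟩⟩ (tB18.hC3p false false) :=
  posD_of_check (c := ⟨429, ⟨3, 8, 15, 11⟩⟩) (by decide +kernel)

def tB18_c3m00 : PosD ⟨⟨0, 1, 1⟩, ⟨98, 99, 147⟩, ⟨825, 1351, 10000⟩, ⟨1900, 2289, 1000⟩⟩ (tB18.hC3m false false) :=
  posD_of_check (c := ⟨404, ⟨3, 7, 15, 10⟩⟩) (by decide +kernel)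

def tB18_c3ph00 : PosD ⟨⟨0, 1, 1⟩, ⟨98, 99, 147⟩, ⟨825, 1351, 10000⟩, ⟨1900, 2289, 1000⟩⟩ (tB18.hC3p' false false) :=
  posD_of_check (c := ⟨429, ⟨3, 8, 15, 11⟩⟩) (by decide +kernel)

def tB18_c3mh00 : PosD ⟨⟨0, 1, 1⟩, ⟨98, 99, 147⟩, ⟨825, 1351, 10000⟩, ⟨1900, 2289, 1000⟩⟩ (tB18.hC3m' false false) :=
  posD_of_check (c := ⟨404, ⟨3, 7, 15, 10⟩⟩) (by decide +kernel)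

def tB18_up00 : PosD ⟨⟨0, 1, 1⟩, ⟨98, 99, 147⟩, ⟨825, 1351, 10000⟩, ⟨1900, 2289, 1000⟩⟩ (tB18.hUp false false) :=
  posD_of_check (c := ⟨428, ⟨3, 8, 15, 11⟩⟩) (by decide +kernel)

def tB18_um00 : PosD ⟨⟨0, 1, 1⟩, ⟨98, 99, 147⟩, ⟨825, 1351, 10000⟩, ⟨1900, 2289, 1000⟩⟩ (tB18.hUm false false) :=
  posD_of_check (c := ⟨402, ⟨2, 7, 15, 10⟩⟩) (by decide +kernel)

def tB18_tmg00 : PosD ⟨⟨0, 1, 1⟩, ⟨98, 99, 147⟩, ⟨825, 1351, 10000⟩, ⟨1900, 2289, 1000⟩⟩ (tB18.hTMG false (tB18.pEnd false)) :=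
  posD_of_check (c := ⟨387, ⟨2, 7, 14, 10⟩⟩) (by decide +kernel)

def tB18_tg01 : PosD ⟨⟨0, 1, 1⟩, ⟨98, 99, 147⟩, ⟨825, 1351, 10000⟩, ⟨1900, 2289, 1000⟩⟩ (tB18.hG true (tB18.pEnd false)) :=
  posD_of_check (c := ⟨372, ⟨2, 7, 14, 9⟩⟩) (by decide +kernel)

def tB18_c2p01 : PosD ⟨⟨0, 1, 1⟩, ⟨98, 99, 147⟩, ⟨825, 1351, 10000⟩, ⟨1900, 2289, 1000⟩⟩ (tB18.hC2p true (tB18.pEnd false)) :=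
  posD_of_check (c := ⟨441, ⟨3, 8, 16, 11⟩⟩) (by decide +kernel)

def tB18_c2m01 : PosD ⟨⟨0, 1, 1⟩, ⟨98, 99, 147⟩, ⟨825, 1351, 10000⟩, ⟨1900, 2289, 1000⟩⟩ (tB18.hC2m true (tB18.pEnd false)) :=
  posD_of_check (c := ⟨409, ⟨2, 7, 16, 10⟩⟩) (by decide +kernel)

def tB18_c3p01 : PosD ⟨⟨0, 1, 1⟩, ⟨98, 99, 147⟩, ⟨825, 1351, 10000⟩, ⟨1900, 2289, 1000⟩⟩ (tB18.hC3p false true) :=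
  posD_of_check (c := ⟨429, ⟨3, 8, 15, 11⟩⟩) (by decide +kernel)

def tB18_c3m01 : PosD ⟨⟨0, 1, 1⟩, ⟨98, 99, 147⟩, ⟨825, 1351, 10000⟩, ⟨1900, 2289, 1000⟩⟩ (tB18.hC3m false true) :=
  posD_of_check (c := ⟨404, ⟨3, 7, 15, 10⟩⟩) (by decide +kernel)

def tB18_c3ph01 : PosD ⟨⟨0, 1, 1⟩, ⟨98, 99, 147⟩, ⟨825, 1351, 10000⟩, ⟨1900, 2289, 1000⟩⟩ (tB18.hC3p' false true) :=
  posD_of_check (c := ⟨429, ⟨3, 8, 15, 11⟩⟩) (by decide +kernel)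

def tB18_c3mh01 : PosD ⟨⟨0, 1, 1⟩, ⟨98, 99, 147⟩, ⟨825, 1351, 10000⟩, ⟨1900, 2289, 1000⟩⟩ (tB18.hC3m' false true) :=
  posD_of_check (c := ⟨404, ⟨3, 7, 15, 10⟩⟩) (by decide +kernel)

def tB18_up01 : PosD ⟨⟨0, 1, 1⟩, ⟨98, 99, 147⟩, ⟨825, 1351, 10000⟩, ⟨1900, 2289, 1000⟩⟩ (tB18.hUp false true) :=
  posD_of_check (c := ⟨429, ⟨3, 8, 15, 11⟩⟩) (by decide +kernel)

def tB18_um01 : PosD ⟨⟨0, 1, 1⟩, ⟨98, 99, 147⟩, ⟨825, 1351, 10000⟩, ⟨1900, 2289, 1000⟩⟩ (tB18.hUm false true) :=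
  posD_of_check (c := ⟨402, ⟨2, 7, 15, 10⟩⟩) (by decide +kernel)

def tB18_tmg01 : PosD ⟨⟨0, 1, 1⟩, ⟨98, 99, 147⟩, ⟨825, 1351, 10000⟩, ⟨1900, 2289, 1000⟩⟩ (tB18.hTMG true (tB18.pEnd false)) :=
  posD_of_check (c := ⟨387, ⟨2, 7, 14, 10⟩⟩) (by decide +kernel)

def tB18_kap1 : PosD ⟨⟨0, 1, 1⟩, ⟨98, 99, 147⟩, ⟨825, 1351, 10000⟩, ⟨1900, 2289, 1000⟩⟩ (tB18.kap true) :=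
  posD_of_check (c := ⟨70, ⟨1, 1, 2, 2⟩⟩) (by decide +kernel)

def tB18_c11 : PosD ⟨⟨0, 1, 1⟩, ⟨98, 99, 147⟩, ⟨825, 1351, 10000⟩, ⟨1900, 2289, 1000⟩⟩ (tB18.hC1 true) :=
  posD_of_check (c := ⟨266, ⟨3, 5, 9, 7⟩⟩) (by decide +kernel)

def tB18_c1h1 : PosD ⟨⟨0, 1, 1⟩, ⟨98, 99, 147⟩, ⟨825, 1351, 10000⟩, ⟨1900, 2289, 1000⟩⟩ (tB18.hC1' true) :=
  posD_of_check (c := ⟨266, ⟨3, 5, 9, 7⟩⟩) (by decide +kernel)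

def tB18_tg10 : PosD ⟨⟨0, 1, 1⟩, ⟨98, 99, 147⟩, ⟨825, 1351, 10000⟩, ⟨1900, 2289, 1000⟩⟩ (tB18.hG false (tB18.pEnd true)) :=
  posD_of_check (c := ⟨373, ⟨2, 7, 14, 9⟩⟩) (by decide +kernel)

def tB18_c2p10 : PosD ⟨⟨0, 1, 1⟩, ⟨98, 99, 147⟩, ⟨825, 1351, 10000⟩, ⟨1900, 2289, 1000⟩⟩ (tB18.hC2p false (tB18.pEnd true)) :=
  posD_of_check (c := ⟨441, ⟨3, 8, 16, 11⟩⟩) (by decide +kernel)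

def tB18_c2m10 : PosD ⟨⟨0, 1, 1⟩, ⟨98, 99, 147⟩, ⟨825, 1351, 10000⟩, ⟨1900, 2289, 1000⟩⟩ (tB18.hC2m false (tB18.pEnd true)) :=
  posD_of_check (c := ⟨410, ⟨2, 7, 16, 10⟩⟩) (by decide +kernel)

def tB18_c3p10 : PosD ⟨⟨0, 1, 1⟩, ⟨98, 99, 147⟩, ⟨825, 1351, 10000⟩, ⟨1900, 2289, 1000⟩⟩ (tB18.hC3p true false) :=
  posD_of_check (c := ⟨431, ⟨3, 8, 15, 11⟩⟩) (by decide +kernel)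

def tB18_c3m10 : PosD ⟨⟨0, 1, 1⟩, ⟨98, 99, 147⟩, ⟨825, 1351, 10000⟩, ⟨1900, 2289, 1000⟩⟩ (tB18.hC3m true false) :=
  posD_of_check (c := ⟨406, ⟨3, 7, 15, 10⟩⟩) (by decide +kernel)

def tB18_c3ph10 : PosD ⟨⟨0, 1, 1⟩, ⟨98, 99, 147⟩, ⟨825, 1351, 10000⟩, ⟨1900, 2289, 1000⟩⟩ (tB18.hC3p' true false) :=
  posD_of_check (c := ⟨431, ⟨3, 8, 15, 11⟩⟩) (by decide +kernel)

def tB18_c3mh10 : PosD ⟨⟨0, 1, 1⟩, ⟨98, 99, 147⟩, ⟨825, 1351, 10000⟩, ⟨1900, 2289, 1000⟩⟩ (tB18.hC3m' true false) :=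
  posD_of_check (c := ⟨406, ⟨3, 7, 15, 10⟩⟩) (by decide +kernel)

def tB18_up10 : PosD ⟨⟨0, 1, 1⟩, ⟨98, 99, 147⟩, ⟨825, 1351, 10000⟩, ⟨1900, 2289, 1000⟩⟩ (tB18.hUp true false) :=
  posD_of_check (c := ⟨429, ⟨3, 8, 15, 11⟩⟩) (by decide +kernel)

def tB18_um10 : PosD ⟨⟨0, 1, 1⟩, ⟨98, 99, 147⟩, ⟨825, 1351, 10000⟩, ⟨1900, 2289, 1000⟩⟩ (tB18.hUm true false) :=
  posD_of_check (c := ⟨402, ⟨2, 7, 15, 10⟩⟩) (by decide +kernel)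

def tB18_tmg10 : PosD ⟨⟨0, 1, 1⟩, ⟨98, 99, 147⟩, ⟨825, 1351, 10000⟩, ⟨1900, 2289, 1000⟩⟩ (tB18.hTMG false (tB18.pEnd true)) :=
  posD_of_check (c := ⟨387, ⟨2, 7, 14, 10⟩⟩) (by decide +kernel)

def tB18_tg11 : PosD ⟨⟨0, 1, 1⟩, ⟨98, 99, 147⟩, ⟨825, 1351, 10000⟩, ⟨1900, 2289, 1000⟩⟩ (tB18.hG true (tB18.pEnd true)) :=
  posD_of_check (c := ⟨373, ⟨2, 7, 14, 9⟩⟩) (by decide +kernel)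

def tB18_c2p11 : PosD ⟨⟨0, 1, 1⟩, ⟨98, 99, 147⟩, ⟨825, 1351, 10000⟩, ⟨1900, 2289, 1000⟩⟩ (tB18.hC2p true (tB18.pEnd true)) :=
  posD_of_check (c := ⟨441, ⟨3, 8, 16, 11⟩⟩) (by decide +kernel)

def tB18_c2m11 : PosD ⟨⟨0, 1, 1⟩, ⟨98, 99, 147⟩, ⟨825, 1351, 10000⟩, ⟨1900, 2289, 1000⟩⟩ (tB18.hC2m true (tB18.pEnd true)) :=
  posD_of_check (c := ⟨410, ⟨2, 7, 16, 10⟩⟩) (by decide +kernel)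

def tB18_c3p11 : PosD ⟨⟨0, 1, 1⟩, ⟨98, 99, 147⟩, ⟨825, 1351, 10000⟩, ⟨1900, 2289, 1000⟩⟩ (tB18.hC3p true true) :=
  posD_of_check (c := ⟨431, ⟨3, 8, 15, 11⟩⟩) (by decide +kernel)

def tB18_c3m11 : PosD ⟨⟨0, 1, 1⟩, ⟨98, 99, 147⟩, ⟨825, 1351, 10000⟩, ⟨1900, 2289, 1000⟩⟩ (tB18.hC3m true true) :=
  posD_of_check (c := ⟨406, ⟨3, 7, 15, 10⟩⟩) (by decide +kernel)

def tB18_c3ph11 : PosD ⟨⟨0, 1, 1⟩, ⟨98, 99, 147⟩, ⟨825, 1351, 10000⟩, ⟨1900, 2289, 1000⟩⟩ (tB18.hC3p' true true) :=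
  posD_of_check (c := ⟨431, ⟨3, 8, 15, 11⟩⟩) (by decide +kernel)

def tB18_c3mh11 : PosD ⟨⟨0, 1, 1⟩, ⟨98, 99, 147⟩, ⟨825, 1351, 10000⟩, ⟨1900, 2289, 1000⟩⟩ (tB18.hC3m' true true) :=
  posD_of_check (c := ⟨406, ⟨3, 7, 15, 10⟩⟩) (by decide +kernel)

def tB18_up11 : PosD ⟨⟨0, 1, 1⟩, ⟨98, 99, 147⟩, ⟨825, 1351, 10000⟩, ⟨1900, 2289, 1000⟩⟩ (tB18.hUp true true) :=
  posD_of_check (c := ⟨429, ⟨3, 8, 15, 11⟩⟩) (by decide +kernel)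

def tB18_um11 : PosD ⟨⟨0, 1, 1⟩, ⟨98, 99, 147⟩, ⟨825, 1351, 10000⟩, ⟨1900, 2289, 1000⟩⟩ (tB18.hUm true true) :=
  posD_of_check (c := ⟨402, ⟨2, 7, 15, 10⟩⟩) (by decide +kernel)

def tB18_tmg11 : PosD ⟨⟨0, 1, 1⟩, ⟨98, 99, 147⟩, ⟨825, 1351, 10000⟩, ⟨1900, 2289, 1000⟩⟩ (tB18.hTMG true (tB18.pEnd true)) :=
  posD_of_check (c := ⟨387, ⟨2, 7, 14, 10⟩⟩) (by decide +kernel)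

/-- The signs of the piece. -/
def tB18_sign : tB18.Sign ⟨⟨0, 1, 1⟩, ⟨98, 99, 147⟩, ⟨825, 1351, 10000⟩, ⟨1900, 2289, 1000⟩⟩ :=
  ⟨tB18_pp,
    tB18_k2p,
    tB18_k2m,
    Bool.forall_bool.2 ⟨(Bool.forall_bool.2 ⟨tB18_tg00, tB18_tg01⟩), (Bool.forall_bool.2 ⟨tB18_tg10, tB18_tg11⟩)⟩,
    Bool.forall_bool.2 ⟨(Bool.forall_bool.2 ⟨tB18_c2p00, tB18_c2p01⟩), (Bool.forall_bool.2 ⟨tB18_c2p10, tB18_c2p11⟩)⟩,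
    Bool.forall_bool.2 ⟨(Bool.forall_bool.2 ⟨tB18_c2m00, tB18_c2m01⟩), (Bool.forall_bool.2 ⟨tB18_c2m10, tB18_c2m11⟩)⟩,
    Bool.forall_bool.2 ⟨tB18_kap0, tB18_kap1⟩,
    Bool.forall_bool.2 ⟨tB18_c10, tB18_c11⟩,
    Bool.forall_bool.2 ⟨(Bool.forall_bool.2 ⟨tB18_c3p00, tB18_c3p01⟩), (Bool.forall_bool.2 ⟨tB18_c3p10, tB18_c3p11⟩)⟩,
    Bool.forall_bool.2 ⟨(Bool.forall_bool.2 ⟨tB18_c3m00, tB18_c3m01⟩), (Bool.forall_bool.2 ⟨tB18_c3m10, tB18_c3m11⟩)⟩,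
    Bool.forall_bool.2 ⟨(Bool.forall_bool.2 ⟨tB18_tmg00, tB18_tmg01⟩), (Bool.forall_bool.2 ⟨tB18_tmg10, tB18_tmg11⟩)⟩,
    .inr (Bool.forall_bool.2 ⟨⟨tB18_c1h0, Bool.forall_bool.2 ⟨⟨tB18_c3ph00, tB18_c3mh00, tB18_up00, tB18_um00⟩, ⟨tB18_c3ph01, tB18_c3mh01, tB18_up01, tB18_um01⟩⟩⟩, ⟨tB18_c1h1, Bool.forall_bool.2 ⟨⟨tB18_c3ph10, tB18_c3mh10, tB18_up10, tB18_um10⟩, ⟨tB18_c3ph11, tB18_c3mh11, tB18_up11, tB18_um11⟩⟩⟩⟩),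
    tB18_v2p,
    tB18_v2m,
    tB18_v3p,
    tB18_v3m,
    posD_sub (b := ⟨⟨0, 1, 1⟩, ⟨98, 99, 147⟩, ⟨300, 1351, 10000⟩, ⟨290, 4000, 1000⟩⟩) (by decide +kernel) tB_vG,
    posD_sub (b := ⟨⟨0, 1, 1⟩, ⟨98, 99, 147⟩, ⟨300, 1351, 10000⟩, ⟨290, 4000, 1000⟩⟩) (by decide +kernel) tB_vMG,
    posD_sub (b := ⟨⟨0, 1, 1⟩, ⟨98, 99, 147⟩, ⟨300, 1351, 10000⟩, ⟨290, 4000, 1000⟩⟩) (by decide +kernel) tB_ak,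
    posD_sub (b := ⟨⟨0, 1, 1⟩, ⟨98, 99, 147⟩, ⟨300, 1351, 10000⟩, ⟨290, 4000, 1000⟩⟩) (by decide +kernel) tB_aw,
    posD_sub (b := ⟨⟨0, 1, 1⟩, ⟨98, 99, 147⟩, ⟨300, 1351, 10000⟩, ⟨290, 4000, 1000⟩⟩) (by decide +kernel) tB_gk,
    posD_sub (b := ⟨⟨0, 1, 1⟩, ⟨98, 99, 147⟩, ⟨300, 1351, 10000⟩, ⟨290, 4000, 1000⟩⟩) (by decide +kernel) tB_gw,
    posD_sub (b := ⟨⟨0, 1, 1⟩, ⟨98, 99, 147⟩, ⟨300, 1351, 10000⟩, ⟨290, 4000, 1000⟩⟩) (by decide +kernel) tB_ek,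
    posD_sub (b := ⟨⟨0, 1, 1⟩, ⟨98, 99, 147⟩, ⟨300, 1351, 10000⟩, ⟨290, 4000, 1000⟩⟩) (by decide +kernel) tB_ew⟩

end Vale.Agent.P100.Calib.Closed.Six.Tail
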