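import Vale.Agent.P100.Calib.SlabSixTailDataB
import Vale.Agent.P100.Calib.SlabSixTailGlobB

/-!
# Checks of some pieces of the certificate

The checks are written as definitions so that they run one after another, which keeps the memory of the
kernel low.
-/

set_option linter.defProp false

namespace Vale.Agent.P100.Calib.Closed.Six.Tail

open BoxPos Large

local instance sixTailCheckstB14Add : Add Ex := ⟨Ex.add⟩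
local instance sixTailCheckstB14Sub : Sub Ex := ⟨Ex.sub⟩
local instance sixTailCheckstB14Mul : Mul Ex := ⟨Ex.mul⟩

def tB19_phx : PosIf ⟨⟨0, 1, 1⟩, ⟨98, 99, 147⟩, ⟨825, 1088, 10000⟩, ⟨2289, 2757, 1000⟩⟩ (tB19.u₁ - tB19Lo) (phBn (tB19.u₁ + xO * (tB19Lo - tB19.u₁))) :=
  posIf_of_posD (posD_of_check (c := ⟨101, ⟨2, 0, 4, 2⟩⟩) (by decide +kernel))

def tB19_phd : PosD ⟨⟨0, 1, 1⟩, ⟨98, 99, 147⟩, ⟨825, 1088, 10000⟩, ⟨2289, 2757, 1000⟩⟩ (phBd (tB19.u₁ + xO * (tB19Lo - tB19.u₁))) :=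
  posD_of_check (c := ⟨48, ⟨1, 0, 2, 1⟩⟩) (by decide +kernel)

def tB19_p0 : PosD ⟨⟨0, 1, 1⟩, ⟨98, 99, 147⟩, ⟨825, 1088, 10000⟩, ⟨2289, 2757, 1000⟩⟩ (tB19.hP0) :=
  posD_of_check (c := ⟨82, ⟨0, 2, 3, 1⟩⟩) (by decide +kernel)

def tB19_gn : PosD ⟨⟨0, 1, 1⟩, ⟨98, 99, 147⟩, ⟨825, 1088, 10000⟩, ⟨2289, 2757, 1000⟩⟩ (tB19.hGn) :=
  posD_of_check (c := ⟨66, ⟨1, 1, 2, 2⟩⟩) (by decide +kernel)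

def tB19_den0 : PosD ⟨⟨0, 1, 1⟩, ⟨98, 99, 147⟩, ⟨825, 1088, 10000⟩, ⟨2289, 2757, 1000⟩⟩ (tB19.hDen false) :=
  posD_of_check (c := ⟨48, ⟨1, 0, 2, 1⟩⟩) (by decide +kernel)

def tB19_den1 : PosD ⟨⟨0, 1, 1⟩, ⟨98, 99, 147⟩, ⟨825, 1088, 10000⟩, ⟨2289, 2757, 1000⟩⟩ (tB19.hDen true) :=
  posD_of_check (c := ⟨48, ⟨1, 0, 2, 1⟩⟩) (by decide +kernel)

def tB19_ev0 : PosD ⟨⟨0, 1, 1⟩, ⟨98, 99, 147⟩, ⟨825, 1088, 10000⟩, ⟨2289, 2757, 1000⟩⟩ (tB19.hEv false) :=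
  posD_of_check (c := ⟨205, ⟨4, 2, 8, 4⟩⟩) (by decide +kernel)

def tB19_zL0 : PosD ⟨⟨0, 1, 1⟩, ⟨98, 99, 147⟩, ⟨825, 1088, 10000⟩, ⟨2289, 2757, 1000⟩⟩ (tB19.hZL false) :=
  posD_of_check (c := ⟨209, ⟨4, 3, 8, 4⟩⟩) (by decide +kernel)

def tB19_zU0 : PosD ⟨⟨0, 1, 1⟩, ⟨98, 99, 147⟩, ⟨825, 1088, 10000⟩, ⟨2289, 2757, 1000⟩⟩ (tB19.hZU false) :=
  posD_of_check (c := ⟨209, ⟨4, 3, 8, 4⟩⟩) (by decide +kernel)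

def tB19_eL0 : PosD ⟨⟨0, 1, 1⟩, ⟨98, 99, 147⟩, ⟨825, 1088, 10000⟩, ⟨2289, 2757, 1000⟩⟩ (tB19.hEL false) :=
  posD_of_check (c := ⟨330, ⟨5, 6, 11, 7⟩⟩) (by decide +kernel)

def tB19_eH0 : PosD ⟨⟨0, 1, 1⟩, ⟨98, 99, 147⟩, ⟨825, 1088, 10000⟩, ⟨2289, 2757, 1000⟩⟩ (tB19.hEH false) :=
  posD_of_check (c := ⟨298, ⟨5, 6, 11, 6⟩⟩) (by decide +kernel)

def tB19_pL0 : PosD ⟨⟨0, 1, 1⟩, ⟨98, 99, 147⟩, ⟨825, 1088, 10000⟩, ⟨2289, 2757, 1000⟩⟩ (tB19.hPL false) :=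
  posD_of_check (c := ⟨323, ⟨5, 6, 11, 7⟩⟩) (by decide +kernel)

def tB19_pU0 : PosD ⟨⟨0, 1, 1⟩, ⟨98, 99, 147⟩, ⟨825, 1088, 10000⟩, ⟨2289, 2757, 1000⟩⟩ (tB19.hPU false) :=
  posD_of_check (c := ⟨332, ⟨5, 6, 11, 7⟩⟩) (by decide +kernel)

def tB19_kU0 : PosD ⟨⟨0, 1, 1⟩, ⟨98, 99, 147⟩, ⟨825, 1088, 10000⟩, ⟨2289, 2757, 1000⟩⟩ (tB19.hKU false) :=
  posD_of_check (c := ⟨320, ⟨5, 6, 11, 7⟩⟩) (by decide +kernel)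

def tB19_kL0 : PosD ⟨⟨0, 1, 1⟩, ⟨98, 99, 147⟩, ⟨825, 1088, 10000⟩, ⟨2289, 2757, 1000⟩⟩ (tB19.hKL false) :=
  posD_of_check (c := ⟨320, ⟨5, 6, 11, 7⟩⟩) (by decide +kernel)

def tB19_wU0 : PosD ⟨⟨0, 1, 1⟩, ⟨98, 99, 147⟩, ⟨825, 1088, 10000⟩, ⟨2289, 2757, 1000⟩⟩ (tB19.hWU false) :=
  posD_of_check (c := ⟨355, ⟨5, 8, 12, 7⟩⟩) (by decide +kernel)

def tB19_wL0 : PosD ⟨⟨0, 1, 1⟩, ⟨98, 99, 147⟩, ⟨825, 1088, 10000⟩, ⟨2289, 2757, 1000⟩⟩ (tB19.hWL false) :=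
  posD_of_check (c := ⟨355, ⟨5, 8, 12, 7⟩⟩) (by decide +kernel)

def tB19_ev1 : PosD ⟨⟨0, 1, 1⟩, ⟨98, 99, 147⟩, ⟨825, 1088, 10000⟩, ⟨2289, 2757, 1000⟩⟩ (tB19.hEv true) :=
  posD_of_check (c := ⟨205, ⟨4, 2, 8, 4⟩⟩) (by decide +kernel)

def tB19_zL1 : PosD ⟨⟨0, 1, 1⟩, ⟨98, 99, 147⟩, ⟨825, 1088, 10000⟩, ⟨2289, 2757, 1000⟩⟩ (tB19.hZL true) :=
  posD_of_check (c := ⟨208, ⟨4, 3, 8, 4⟩⟩) (by decide +kernel)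

def tB19_zU1 : PosD ⟨⟨0, 1, 1⟩, ⟨98, 99, 147⟩, ⟨825, 1088, 10000⟩, ⟨2289, 2757, 1000⟩⟩ (tB19.hZU true) :=
  posD_of_check (c := ⟨208, ⟨4, 3, 8, 4⟩⟩) (by decide +kernel)

def tB19_eL1 : PosD ⟨⟨0, 1, 1⟩, ⟨98, 99, 147⟩, ⟨825, 1088, 10000⟩, ⟨2289, 2757, 1000⟩⟩ (tB19.hEL true) :=
  posD_of_check (c := ⟨329, ⟨5, 6, 11, 7⟩⟩) (by decide +kernel)

def tB19_eH1 : PosD ⟨⟨0, 1, 1⟩, ⟨98, 99, 147⟩, ⟨825, 1088, 10000⟩, ⟨2289, 2757, 1000⟩⟩ (tB19.hEH true) :=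
  posD_of_check (c := ⟨297, ⟨5, 6, 11, 6⟩⟩) (by decide +kernel)

def tB19_pL1 : PosD ⟨⟨0, 1, 1⟩, ⟨98, 99, 147⟩, ⟨825, 1088, 10000⟩, ⟨2289, 2757, 1000⟩⟩ (tB19.hPL true) :=
  posD_of_check (c := ⟨323, ⟨5, 6, 11, 7⟩⟩) (by decide +kernel)

def tB19_pU1 : PosD ⟨⟨0, 1, 1⟩, ⟨98, 99, 147⟩, ⟨825, 1088, 10000⟩, ⟨2289, 2757, 1000⟩⟩ (tB19.hPU true) :=
  posD_of_check (c := ⟨331, ⟨5, 6, 11, 7⟩⟩) (by decide +kernel)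

def tB19_kU1 : PosD ⟨⟨0, 1, 1⟩, ⟨98, 99, 147⟩, ⟨825, 1088, 10000⟩, ⟨2289, 2757, 1000⟩⟩ (tB19.hKU true) :=
  posD_of_check (c := ⟨319, ⟨5, 6, 11, 7⟩⟩) (by decide +kernel)

def tB19_kL1 : PosD ⟨⟨0, 1, 1⟩, ⟨98, 99, 147⟩, ⟨825, 1088, 10000⟩, ⟨2289, 2757, 1000⟩⟩ (tB19.hKL true) :=
  posD_of_check (c := ⟨319, ⟨5, 6, 11, 7⟩⟩) (by decide +kernel)

def tB19_wU1 : PosD ⟨⟨0, 1, 1⟩, ⟨98, 99, 147⟩, ⟨825, 1088, 10000⟩, ⟨2289, 2757, 1000⟩⟩ (tB19.hWU true) :=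
  posD_of_check (c := ⟨354, ⟨5, 8, 12, 7⟩⟩) (by decide +kernel)

def tB19_wL1 : PosD ⟨⟨0, 1, 1⟩, ⟨98, 99, 147⟩, ⟨825, 1088, 10000⟩, ⟨2289, 2757, 1000⟩⟩ (tB19.hWL true) :=
  posD_of_check (c := ⟨354, ⟨5, 8, 12, 7⟩⟩) (by decide +kernel)

def tB19_nueL : PosD ⟨⟨0, 1, 1⟩, ⟨98, 99, 147⟩, ⟨825, 1088, 10000⟩, ⟨2289, 2757, 1000⟩⟩ (tB19.eL.ν) :=
  posD_of_check (c := ⟨43, ⟨0, 0, 1, 1⟩⟩) (by decide +kernel)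

def tB19_nupU : PosD ⟨⟨0, 1, 1⟩, ⟨98, 99, 147⟩, ⟨825, 1088, 10000⟩, ⟨2289, 2757, 1000⟩⟩ (tB19.pU.ν) :=
  posD_of_check (c := ⟨45, ⟨0, 0, 1, 1⟩⟩) (by decide +kernel)

/-- The bounds of the piece. -/
def tB19_env : tB19.Env ⟨⟨0, 1, 1⟩, ⟨98, 99, 147⟩, ⟨825, 1088, 10000⟩, ⟨2289, 2757, 1000⟩⟩ :=
  ⟨tB19_p0, Bool.forall_bool.2 ⟨tB19_den0, tB19_den1⟩, tB19_gn, Bool.forall_bool.2 ⟨tB19_ev0, tB19_ev1⟩, Bool.forall_bool.2 ⟨tB19_zL0, tB19_zL1⟩, Bool.forall_bool.2 ⟨tB19_zU0, tB19_zU1⟩, Bool.forall_bool.2 ⟨tB19_eL0, tB19_eL1⟩, ⟨.inr rfl, .inl tB19_nueL⟩, Bool.forall_bool.2 ⟨tB19_eH0, tB19_eH1⟩, ⟨.inr rfl, .inr rfl⟩, Bool.forall_bool.2 ⟨tB19_pL0, tB19_pL1⟩, ⟨.inr rfl, .inr rfl⟩, Bool.forall_bool.2 ⟨tB19_pU0, tB19_pU1⟩, ⟨.inr rfl, .inl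 tB19_nupU⟩, Bool.forall_bool.2 ⟨tB19_kU0, tB19_kU1⟩, ⟨.inr rfl, .inr rfl⟩, Bool.forall_bool.2 ⟨tB19_kL0, tB19_kL1⟩, ⟨.inr rfl, .inr rfl⟩, Bool.forall_bool.2 ⟨tB19_wU0, tB19_wU1⟩, ⟨.inr rfl, .inr rfl⟩, Bool.forall_bool.2 ⟨tB19_wL0, tB19_wL1⟩, ⟨.inr rfl, .inr rfl⟩⟩

def tB19_pp : PosD ⟨⟨0, 1, 1⟩, ⟨98, 99, 147⟩, ⟨825, 1088, 10000⟩, ⟨2289, 2757, 1000⟩⟩ (tB19.xPL) :=
  posD_of_check (c := ⟨91, ⟨1, 1, 3, 3⟩⟩) (by decide +kernel)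

def tB19_k2p : PosD ⟨⟨0, 1, 1⟩, ⟨98, 99, 147⟩, ⟨825, 1088, 10000⟩, ⟨2289, 2757, 1000⟩⟩ (tB19.k2p tB19.xE) :=
  posD_of_check (c := ⟨71, ⟨1, 1, 2, 2⟩⟩) (by decide +kernel)

def tB19_k2m : PosD ⟨⟨0, 1, 1⟩, ⟨98, 99, 147⟩, ⟨825, 1088, 10000⟩, ⟨2289, 2757, 1000⟩⟩ (tB19.k2m tB19.xE) :=
  posD_of_check (c := ⟨25, ⟨0, 0, 1, 1⟩⟩) (by decide +kernel)

def tB19_v2p : PosD ⟨⟨0, 1, 1⟩, ⟨98, 99, 147⟩, ⟨825, 1088, 10000⟩, ⟨2289, 2757, 1000⟩⟩ (tB19.hV2p) :=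
  posD_of_check (c := ⟨266, ⟨1, 6, 10, 5⟩⟩) (by decide +kernel)

def tB19_v2m : PosD ⟨⟨0, 1, 1⟩, ⟨98, 99, 147⟩, ⟨825, 1088, 10000⟩, ⟨2289, 2757, 1000⟩⟩ (tB19.hV2m) :=
  posD_of_check (c := ⟨231, ⟨0, 5, 10, 4⟩⟩) (by decide +kernel)

def tB19_v3p : PosD ⟨⟨0, 1, 1⟩, ⟨98, 99, 147⟩, ⟨825, 1088, 10000⟩, ⟨2289, 2757, 1000⟩⟩ (tB19.hV3p) :=
  posD_of_check (c := ⟨252, ⟨1, 6, 9, 5⟩⟩) (by decide +kernel)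

def tB19_v3m : PosD ⟨⟨0, 1, 1⟩, ⟨98, 99, 147⟩, ⟨825, 1088, 10000⟩, ⟨2289, 2757, 1000⟩⟩ (tB19.hV3m) :=
  posD_of_check (c := ⟨222, ⟨0, 5, 9, 4⟩⟩) (by decide +kernel)

def tB19_kap0 : PosD ⟨⟨0, 1, 1⟩, ⟨98, 99, 147⟩, ⟨825, 1088, 10000⟩, ⟨2289, 2757, 1000⟩⟩ (tB19.kap false) :=
  posD_of_check (c := ⟨70, ⟨1, 1, 2, 2⟩⟩) (by decide +kernel)

def tB19_c10 : PosD ⟨⟨0, 1, 1⟩, ⟨98, 99, 147⟩, ⟨825, 1088, 10000⟩, ⟨2289, 2757, 1000⟩⟩ (tB19.hC1 false) :=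
  posD_of_check (c := ⟨266, ⟨3, 5, 9, 7⟩⟩) (by decide +kernel)

def tB19_c1h0 : PosD ⟨⟨0, 1, 1⟩, ⟨98, 99, 147⟩, ⟨825, 1088, 10000⟩, ⟨2289, 2757, 1000⟩⟩ (tB19.hC1' false) :=
  posD_of_check (c := ⟨266, ⟨3, 5, 9, 7⟩⟩) (by decide +kernel)

def tB19_tg00 : PosD ⟨⟨0, 1, 1⟩, ⟨98, 99, 147⟩, ⟨825, 1088, 10000⟩, ⟨2289, 2757, 1000⟩⟩ (tB19.hG false (tB19.pEnd false)) :=
  posD_of_check (c := ⟨372, ⟨2, 7, 14, 9⟩⟩) (by decide +kernel)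

def tB19_c2p00 : PosD ⟨⟨0, 1, 1⟩, ⟨98, 99, 147⟩, ⟨825, 1088, 10000⟩, ⟨2289, 2757, 1000⟩⟩ (tB19.hC2p false (tB19.pEnd false)) :=
  posD_of_check (c := ⟨443, ⟨3, 8, 16, 11⟩⟩) (by decide +kernel)

def tB19_c2m00 : PosD ⟨⟨0, 1, 1⟩, ⟨98, 99, 147⟩, ⟨825, 1088, 10000⟩, ⟨2289, 2757, 1000⟩⟩ (tB19.hC2m false (tB19.pEnd false)) :=
  posD_of_check (c := ⟨409, ⟨2, 7, 16, 10⟩⟩) (by decide +kernel)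

def tB19_c3p00 : PosD ⟨⟨0, 1, 1⟩, ⟨98, 99, 147⟩, ⟨825, 1088, 10000⟩, ⟨2289, 2757, 1000⟩⟩ (tB19.hC3p false false) :=
  posD_of_check (c := ⟨432, ⟨3, 8, 15, 11⟩⟩) (by decide +kernel)

def tB19_c3m00 : PosD ⟨⟨0, 1, 1⟩, ⟨98, 99, 147⟩, ⟨825, 1088, 10000⟩, ⟨2289, 2757, 1000⟩⟩ (tB19.hC3m false false) :=
  posD_of_check (c := ⟨406, ⟨3, 7, 15, 10⟩⟩) (by decide +kernel)

def tB19_c3ph00 : PosD ⟨⟨0, 1, 1⟩, ⟨98, 99, 147⟩, ⟨825, 1088, 10000⟩, ⟨2289, 2757, 1000⟩⟩ (tB19.hC3p' false false) :=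
  posD_of_check (c := ⟨432, ⟨3, 8, 15, 11⟩⟩) (by decide +kernel)

def tB19_c3mh00 : PosD ⟨⟨0, 1, 1⟩, ⟨98, 99, 147⟩, ⟨825, 1088, 10000⟩, ⟨2289, 2757, 1000⟩⟩ (tB19.hC3m' false false) :=
  posD_of_check (c := ⟨406, ⟨3, 7, 15, 10⟩⟩) (by decide +kernel)

def tB19_up00 : PosD ⟨⟨0, 1, 1⟩, ⟨98, 99, 147⟩, ⟨825, 1088, 10000⟩, ⟨2289, 2757, 1000⟩⟩ (tB19.hUp false false) :=
  posD_of_check (c := ⟨431, ⟨3, 8, 15, 11⟩⟩) (by decide +kernel)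

def tB19_um00 : PosD ⟨⟨0, 1, 1⟩, ⟨98, 99, 147⟩, ⟨825, 1088, 10000⟩, ⟨2289, 2757, 1000⟩⟩ (tB19.hUm false false) :=
  posD_of_check (c := ⟨402, ⟨2, 7, 15, 10⟩⟩) (by decide +kernel)

def tB19_tmg00 : PosD ⟨⟨0, 1, 1⟩, ⟨98, 99, 147⟩, ⟨825, 1088, 10000⟩, ⟨2289, 2757, 1000⟩⟩ (tB19.hTMG false (tB19.pEnd false)) :=
  posD_of_check (c := ⟨387, ⟨2, 7, 14, 10⟩⟩) (by decide +kernel)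

def tB19_tg01 : PosD ⟨⟨0, 1, 1⟩, ⟨98, 99, 147⟩, ⟨825, 1088, 10000⟩, ⟨2289, 2757, 1000⟩⟩ (tB19.hG true (tB19.pEnd false)) :=
  posD_of_check (c := ⟨372, ⟨2, 7, 14, 9⟩⟩) (by decide +kernel)

def tB19_c2p01 : PosD ⟨⟨0, 1, 1⟩, ⟨98, 99, 147⟩, ⟨825, 1088, 10000⟩, ⟨2289, 2757, 1000⟩⟩ (tB19.hC2p true (tB19.pEnd false)) :=
  posD_of_check (c := ⟨443, ⟨3, 8, 16, 11⟩⟩) (by decide +kernel)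

def tB19_c2m01 : PosD ⟨⟨0, 1, 1⟩, ⟨98, 99, 147⟩, ⟨825, 1088, 10000⟩, ⟨2289, 2757, 1000⟩⟩ (tB19.hC2m true (tB19.pEnd false)) :=
  posD_of_check (c := ⟨409, ⟨2, 7, 16, 10⟩⟩) (by decide +kernel)

def tB19_c3p01 : PosD ⟨⟨0, 1, 1⟩, ⟨98, 99, 147⟩, ⟨825, 1088, 10000⟩, ⟨2289, 2757, 1000⟩⟩ (tB19.hC3p false true) :=
  posD_of_check (c := ⟨432, ⟨3, 8, 15, 11⟩⟩) (by decide +kernel)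

def tB19_c3m01 : PosD ⟨⟨0, 1, 1⟩, ⟨98, 99, 147⟩, ⟨825, 1088, 10000⟩, ⟨2289, 2757, 1000⟩⟩ (tB19.hC3m false true) :=
  posD_of_check (c := ⟨406, ⟨3, 7, 15, 10⟩⟩) (by decide +kernel)

def tB19_c3ph01 : PosD ⟨⟨0, 1, 1⟩, ⟨98, 99, 147⟩, ⟨825, 1088, 10000⟩, ⟨2289, 2757, 1000⟩⟩ (tB19.hC3p' false true) :=
  posD_of_check (c := ⟨432, ⟨3, 8, 15, 11⟩⟩) (by decide +kernel)

def tB19_c3mh01 : PosD ⟨⟨0, 1, 1⟩, ⟨98, 99, 147⟩, ⟨825, 1088, 10000⟩, ⟨2289, 2757, 1000⟩⟩ (tB19.hC3m' false true) :=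
  posD_of_check (c := ⟨406, ⟨3, 7, 15, 10⟩⟩) (by decide +kernel)

def tB19_up01 : PosD ⟨⟨0, 1, 1⟩, ⟨98, 99, 147⟩, ⟨825, 1088, 10000⟩, ⟨2289, 2757, 1000⟩⟩ (tB19.hUp false true) :=
  posD_of_check (c := ⟨431, ⟨3, 8, 15, 11⟩⟩) (by decide +kernel)

def tB19_um01 : PosD ⟨⟨0, 1, 1⟩, ⟨98, 99, 147⟩, ⟨825, 1088, 10000⟩, ⟨2289, 2757, 1000⟩⟩ (tB19.hUm false true) :=
  posD_of_check (c := ⟨402, ⟨2, 7, 15, 10⟩⟩) (by decide +kernel)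

def tB19_tmg01 : PosD ⟨⟨0, 1, 1⟩, ⟨98, 99, 147⟩, ⟨825, 1088, 10000⟩, ⟨2289, 2757, 1000⟩⟩ (tB19.hTMG true (tB19.pEnd false)) :=
  posD_of_check (c := ⟨387, ⟨2, 7, 14, 10⟩⟩) (by decide +kernel)

def tB19_kap1 : PosD ⟨⟨0, 1, 1⟩, ⟨98, 99, 147⟩, ⟨825, 1088, 10000⟩, ⟨2289, 2757, 1000⟩⟩ (tB19.kap true) :=
  posD_of_check (c := ⟨70, ⟨1, 1, 2, 2⟩⟩) (by decide +kernel)

def tB19_c11 : PosD ⟨⟨0, 1, 1⟩, ⟨98, 99, 147⟩, ⟨825, 1088, 10000⟩, ⟨2289, 2757, 1000⟩⟩ (tB19.hC1 true) :=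
  posD_of_check (c := ⟨267, ⟨3, 5, 9, 7⟩⟩) (by decide +kernel)

def tB19_c1h1 : PosD ⟨⟨0, 1, 1⟩, ⟨98, 99, 147⟩, ⟨825, 1088, 10000⟩, ⟨2289, 2757, 1000⟩⟩ (tB19.hC1' true) :=
  posD_of_check (c := ⟨267, ⟨3, 5, 9, 7⟩⟩) (by decide +kernel)

def tB19_tg10 : PosD ⟨⟨0, 1, 1⟩, ⟨98, 99, 147⟩, ⟨825, 1088, 10000⟩, ⟨2289, 2757, 1000⟩⟩ (tB19.hG false (tB19.pEnd true)) :=
  posD_of_check (c := ⟨374, ⟨2, 7, 14, 9⟩⟩) (by decide +kernel)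

def tB19_c2p10 : PosD ⟨⟨0, 1, 1⟩, ⟨98, 99, 147⟩, ⟨825, 1088, 10000⟩, ⟨2289, 2757, 1000⟩⟩ (tB19.hC2p false (tB19.pEnd true)) :=
  posD_of_check (c := ⟨445, ⟨3, 8, 16, 11⟩⟩) (by decide +kernel)

def tB19_c2m10 : PosD ⟨⟨0, 1, 1⟩, ⟨98, 99, 147⟩, ⟨825, 1088, 10000⟩, ⟨2289, 2757, 1000⟩⟩ (tB19.hC2m false (tB19.pEnd true)) :=
  posD_of_check (c := ⟨411, ⟨2, 7, 16, 10⟩⟩) (by decide +kernel)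

def tB19_c3p10 : PosD ⟨⟨0, 1, 1⟩, ⟨98, 99, 147⟩, ⟨825, 1088, 10000⟩, ⟨2289, 2757, 1000⟩⟩ (tB19.hC3p true false) :=
  posD_of_check (c := ⟨433, ⟨3, 8, 15, 11⟩⟩) (by decide +kernel)

def tB19_c3m10 : PosD ⟨⟨0, 1, 1⟩, ⟨98, 99, 147⟩, ⟨825, 1088, 10000⟩, ⟨2289, 2757, 1000⟩⟩ (tB19.hC3m true false) :=
  posD_of_check (c := ⟨407, ⟨3, 7, 15, 10⟩⟩) (by decide +kernel)

def tB19_c3ph10 : PosD ⟨⟨0, 1, 1⟩, ⟨98, 99, 147⟩, ⟨825, 1088, 10000⟩, ⟨2289, 2757, 1000⟩⟩ (tB19.hC3p' true false) :=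
  posD_of_check (c := ⟨433, ⟨3, 8, 15, 11⟩⟩) (by decide +kernel)

def tB19_c3mh10 : PosD ⟨⟨0, 1, 1⟩, ⟨98, 99, 147⟩, ⟨825, 1088, 10000⟩, ⟨2289, 2757, 1000⟩⟩ (tB19.hC3m' true false) :=
  posD_of_check (c := ⟨407, ⟨3, 7, 15, 10⟩⟩) (by decide +kernel)

def tB19_up10 : PosD ⟨⟨0, 1, 1⟩, ⟨98, 99, 147⟩, ⟨825, 1088, 10000⟩, ⟨2289, 2757, 1000⟩⟩ (tB19.hUp true false) :=
  posD_of_check (c := ⟨432, ⟨3, 8, 15, 11⟩⟩) (by decide +kernel)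

def tB19_um10 : PosD ⟨⟨0, 1, 1⟩, ⟨98, 99, 147⟩, ⟨825, 1088, 10000⟩, ⟨2289, 2757, 1000⟩⟩ (tB19.hUm true false) :=
  posD_of_check (c := ⟨403, ⟨2, 7, 15, 10⟩⟩) (by decide +kernel)

def tB19_tmg10 : PosD ⟨⟨0, 1, 1⟩, ⟨98, 99, 147⟩, ⟨825, 1088, 10000⟩, ⟨2289, 2757, 1000⟩⟩ (tB19.hTMG false (tB19.pEnd true)) :=
  posD_of_check (c := ⟨388, ⟨2, 7, 14, 10⟩⟩) (by decide +kernel)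

def tB19_tg11 : PosD ⟨⟨0, 1, 1⟩, ⟨98, 99, 147⟩, ⟨825, 1088, 10000⟩, ⟨2289, 2757, 1000⟩⟩ (tB19.hG true (tB19.pEnd true)) :=
  posD_of_check (c := ⟨374, ⟨2, 7, 14, 9⟩⟩) (by decide +kernel)

def tB19_c2p11 : PosD ⟨⟨0, 1, 1⟩, ⟨98, 99, 147⟩, ⟨825, 1088, 10000⟩, ⟨2289, 2757, 1000⟩⟩ (tB19.hC2p true (tB19.pEnd true)) :=
  posD_of_check (c := ⟨445, ⟨3, 8, 16, 11⟩⟩) (by decide +kernel)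

def tB19_c2m11 : PosD ⟨⟨0, 1, 1⟩, ⟨98, 99, 147⟩, ⟨825, 1088, 10000⟩, ⟨2289, 2757, 1000⟩⟩ (tB19.hC2m true (tB19.pEnd true)) :=
  posD_of_check (c := ⟨411, ⟨2, 7, 16, 10⟩⟩) (by decide +kernel)

def tB19_c3p11 : PosD ⟨⟨0, 1, 1⟩, ⟨98, 99, 147⟩, ⟨825, 1088, 10000⟩, ⟨2289, 2757, 1000⟩⟩ (tB19.hC3p true true) :=
  posD_of_check (c := ⟨433, ⟨3, 8, 15, 11⟩⟩) (by decide +kernel)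

def tB19_c3m11 : PosD ⟨⟨0, 1, 1⟩, ⟨98, 99, 147⟩, ⟨825, 1088, 10000⟩, ⟨2289, 2757, 1000⟩⟩ (tB19.hC3m true true) :=
  posD_of_check (c := ⟨407, ⟨3, 7, 15, 10⟩⟩) (by decide +kernel)

def tB19_c3ph11 : PosD ⟨⟨0, 1, 1⟩, ⟨98, 99, 147⟩, ⟨825, 1088, 10000⟩, ⟨2289, 2757, 1000⟩⟩ (tB19.hC3p' true true) :=
  posD_of_check (c := ⟨433, ⟨3, 8, 15, 11⟩⟩) (by decide +kernel)

def tB19_c3mh11 : PosD ⟨⟨0, 1, 1⟩, ⟨98, 99, 147⟩, ⟨825, 1088, 10000⟩, ⟨2289, 2757, 1000⟩⟩ (tB19.hC3m' true true) :=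
  posD_of_check (c := ⟨407, ⟨3, 7, 15, 10⟩⟩) (by decide +kernel)

def tB19_up11 : PosD ⟨⟨0, 1, 1⟩, ⟨98, 99, 147⟩, ⟨825, 1088, 10000⟩, ⟨2289, 2757, 1000⟩⟩ (tB19.hUp true true) :=
  posD_of_check (c := ⟨432, ⟨3, 8, 15, 11⟩⟩) (by decide +kernel)

def tB19_um11 : PosD ⟨⟨0, 1, 1⟩, ⟨98, 99, 147⟩, ⟨825, 1088, 10000⟩, ⟨2289, 2757, 1000⟩⟩ (tB19.hUm true true) :=
  posD_of_check (c := ⟨403, ⟨2, 7, 15, 10⟩⟩) (by decide +kernel)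

def tB19_tmg11 : PosD ⟨⟨0, 1, 1⟩, ⟨98, 99, 147⟩, ⟨825, 1088, 10000⟩, ⟨2289, 2757, 1000⟩⟩ (tB19.hTMG true (tB19.pEnd true)) :=
  posD_of_check (c := ⟨388, ⟨2, 7, 14, 10⟩⟩) (by decide +kernel)

/-- The signs of the piece. -/
def tB19_sign : tB19.Sign ⟨⟨0, 1, 1⟩, ⟨98, 99, 147⟩, ⟨825, 1088, 10000⟩, ⟨2289, 2757, 1000⟩⟩ :=
  ⟨tB19_pp,
    tB19_k2p,
    tB19_k2m,
    Bool.forall_bool.2 ⟨(Bool.forall_bool.2 ⟨tB19_tg00, tB19_tg01⟩), (Bool.forall_bool.2 ⟨tB19_tg10, tB19_tg11⟩)⟩,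
    Bool.forall_bool.2 ⟨(Bool.forall_bool.2 ⟨tB19_c2p00, tB19_c2p01⟩), (Bool.forall_bool.2 ⟨tB19_c2p10, tB19_c2p11⟩)⟩,
    Bool.forall_bool.2 ⟨(Bool.forall_bool.2 ⟨tB19_c2m00, tB19_c2m01⟩), (Bool.forall_bool.2 ⟨tB19_c2m10, tB19_c2m11⟩)⟩,
    Bool.forall_bool.2 ⟨tB19_kap0, tB19_kap1⟩,
    Bool.forall_bool.2 ⟨tB19_c10, tB19_c11⟩,
    Bool.forall_bool.2 ⟨(Bool.forall_bool.2 ⟨tB19_c3p00, tB19_c3p01⟩), (Bool.forall_bool.2 ⟨tB19_c3p10, tB19_c3p11⟩)⟩,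
    Bool.forall_bool.2 ⟨(Bool.forall_bool.2 ⟨tB19_c3m00, tB19_c3m01⟩), (Bool.forall_bool.2 ⟨tB19_c3m10, tB19_c3m11⟩)⟩,
    Bool.forall_bool.2 ⟨(Bool.forall_bool.2 ⟨tB19_tmg00, tB19_tmg01⟩), (Bool.forall_bool.2 ⟨tB19_tmg10, tB19_tmg11⟩)⟩,
    .inr (Bool.forall_bool.2 ⟨⟨tB19_c1h0, Bool.forall_bool.2 ⟨⟨tB19_c3ph00, tB19_c3mh00, tB19_up00, tB19_um00⟩, ⟨tB19_c3ph01, tB19_c3mh01, tB19_up01, tB19_um01⟩⟩⟩, ⟨tB19_c1h1, Bool.forall_bool.2 ⟨⟨tB19_c3ph10, tB19_c3mh10, tB19_up10, tB19_um10⟩, ⟨tB19_c3ph11, tB19_c3mh11, tB19_up11, tB19_um11⟩⟩⟩⟩),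
    tB19_v2p,
    tB19_v2m,
    tB19_v3p,
    tB19_v3m,
    posD_sub (b := ⟨⟨0, 1, 1⟩, ⟨98, 99, 147⟩, ⟨300, 1351, 10000⟩, ⟨290, 4000, 1000⟩⟩) (by decide +kernel) tB_vG,
    posD_sub (b := ⟨⟨0, 1, 1⟩, ⟨98, 99, 147⟩, ⟨300, 1351, 10000⟩, ⟨290, 4000, 1000⟩⟩) (by decide +kernel) tB_vMG,
    posD_sub (b := ⟨⟨0, 1, 1⟩, ⟨98, 99, 147⟩, ⟨300, 1351, 10000⟩, ⟨290, 4000, 1000⟩⟩) (by decide +kernel) tB_ak,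
    posD_sub (b := ⟨⟨0, 1, 1⟩, ⟨98, 99, 147⟩, ⟨300, 1351, 10000⟩, ⟨290, 4000, 1000⟩⟩) (by decide +kernel) tB_aw,
    posD_sub (b := ⟨⟨0, 1, 1⟩, ⟨98, 99, 147⟩, ⟨300, 1351, 10000⟩, ⟨290, 4000, 1000⟩⟩) (by decide +kernel) tB_gk,
    posD_sub (b := ⟨⟨0, 1, 1⟩, ⟨98, 99, 147⟩, ⟨300, 1351, 10000⟩, ⟨290, 4000, 1000⟩⟩) (by decide +kernel) tB_gw,
    posD_sub (b := ⟨⟨0, 1, 1⟩, ⟨98, 99, 147⟩, ⟨300, 1351, 10000⟩, ⟨290, 4000, 1000⟩⟩) (by decide +kernel) tB_ek,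
    posD_sub (b := ⟨⟨0, 1, 1⟩, ⟨98, 99, 147⟩, ⟨300, 1351, 10000⟩, ⟨290, 4000, 1000⟩⟩) (by decide +kernel) tB_ew⟩

end Vale.Agent.P100.Calib.Closed.Six.Tail
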