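import Vale.Agent.P100.Calib.SlabSixTailDataB
import Vale.Agent.P100.Calib.SlabSixTailGlobB

/-!
# Checks of some pieces of the certificate

The checks are written as definitions so that they run one after another, which keeps the memory of the
kernel low.
-/

set_option linter.defProp false

namespace Vale.Agent.P100.Calib.Closed.Six.Tail

open BoxPos Large

local instance sixTailCheckstB15Add : Add Ex := ⟨Ex.add⟩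
local instance sixTailCheckstB15Sub : Sub Ex := ⟨Ex.sub⟩
local instance sixTailCheckstB15Mul : Mul Ex := ⟨Ex.mul⟩

def tB20_phx : PosIf ⟨⟨0, 1, 1⟩, ⟨98, 99, 147⟩, ⟨1088, 1351, 10000⟩, ⟨2289, 2757, 1000⟩⟩ (tB20.u₁ - tB20Lo) (phBn (tB20.u₁ + xO * (tB20Lo - tB20.u₁))) :=
  posIf_of_posD (posD_of_check (c := ⟨101, ⟨2, 0, 4, 2⟩⟩) (by decide +kernel))

def tB20_phd : PosD ⟨⟨0, 1, 1⟩, ⟨98, 99, 147⟩, ⟨1088, 1351, 10000⟩, ⟨2289, 2757, 1000⟩⟩ (phBd (tB20.u₁ + xO * (tB20Lo - tB20.u₁))) :=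
  posD_of_check (c := ⟨48, ⟨1, 0, 2, 1⟩⟩) (by decide +kernel)

def tB20_p0 : PosD ⟨⟨0, 1, 1⟩, ⟨98, 99, 147⟩, ⟨1088, 1351, 10000⟩, ⟨2289, 2757, 1000⟩⟩ (tB20.hP0) :=
  posD_of_check (c := ⟨82, ⟨0, 2, 3, 1⟩⟩) (by decide +kernel)

def tB20_gn : PosD ⟨⟨0, 1, 1⟩, ⟨98, 99, 147⟩, ⟨1088, 1351, 10000⟩, ⟨2289, 2757, 1000⟩⟩ (tB20.hGn) :=
  posD_of_check (c := ⟨66, ⟨1, 1, 2, 2⟩⟩) (by decide +kernel)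

def tB20_den0 : PosD ⟨⟨0, 1, 1⟩, ⟨98, 99, 147⟩, ⟨1088, 1351, 10000⟩, ⟨2289, 2757, 1000⟩⟩ (tB20.hDen false) :=
  posD_of_check (c := ⟨48, ⟨1, 0, 2, 1⟩⟩) (by decide +kernel)

def tB20_den1 : PosD ⟨⟨0, 1, 1⟩, ⟨98, 99, 147⟩, ⟨1088, 1351, 10000⟩, ⟨2289, 2757, 1000⟩⟩ (tB20.hDen true) :=
  posD_of_check (c := ⟨172, ⟨3, 4, 6, 4⟩⟩) (by decide +kernel)

def tB20_ev0 : PosD ⟨⟨0, 1, 1⟩, ⟨98, 99, 147⟩, ⟨1088, 1351, 10000⟩, ⟨2289, 2757, 1000⟩⟩ (tB20.hEv false) :=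
  posD_of_check (c := ⟨206, ⟨4, 2, 8, 4⟩⟩) (by decide +kernel)

def tB20_zL0 : PosD ⟨⟨0, 1, 1⟩, ⟨98, 99, 147⟩, ⟨1088, 1351, 10000⟩, ⟨2289, 2757, 1000⟩⟩ (tB20.hZL false) :=
  posD_of_check (c := ⟨210, ⟨4, 3, 8, 4⟩⟩) (by decide +kernel)

def tB20_zU0a : PosD ⟨⟨0, 1, 1⟩, ⟨98, 99, 147⟩, ⟨1088, 1351, 10000⟩, ⟨2289, 2523, 1000⟩⟩ (tB20.hZU false) :=
  posD_of_check (c := ⟨210, ⟨4, 3, 8, 4⟩⟩) (by decide +kernel)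

def tB20_zU0b : PosD ⟨⟨0, 1, 1⟩, ⟨98, 99, 147⟩, ⟨1088, 1351, 10000⟩, ⟨2523, 2757, 1000⟩⟩ (tB20.hZU false) :=
  posD_of_check (c := ⟨210, ⟨4, 3, 8, 4⟩⟩) (by decide +kernel)

def tB20_zU0 : PosD ⟨⟨0, 1, 1⟩, ⟨98, 99, 147⟩, ⟨1088, 1351, 10000⟩, ⟨2289, 2757, 1000⟩⟩ (tB20.hZU false) :=
  posD_join₃ tB20_zU0a tB20_zU0b

def tB20_eL0 : PosD ⟨⟨0, 1, 1⟩, ⟨98, 99, 147⟩, ⟨1088, 1351, 10000⟩, ⟨2289, 2757, 1000⟩⟩ (tB20.hEL false) :=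
  posD_of_check (c := ⟨331, ⟨5, 6, 11, 7⟩⟩) (by decide +kernel)

def tB20_eH0 : PosD ⟨⟨0, 1, 1⟩, ⟨98, 99, 147⟩, ⟨1088, 1351, 10000⟩, ⟨2289, 2757, 1000⟩⟩ (tB20.hEH false) :=
  posD_of_check (c := ⟨330, ⟨5, 6, 11, 7⟩⟩) (by decide +kernel)

def tB20_pL0a : PosD ⟨⟨0, 1, 1⟩, ⟨98, 99, 147⟩, ⟨1088, 1351, 10000⟩, ⟨2289, 2523, 1000⟩⟩ (tB20.hPL false) :=
  posD_of_check (c := ⟨325, ⟨5, 6, 11, 7⟩⟩) (by decide +kernel)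

def tB20_pL0b : PosD ⟨⟨0, 1, 1⟩, ⟨98, 99, 147⟩, ⟨1088, 1351, 10000⟩, ⟨2523, 2757, 1000⟩⟩ (tB20.hPL false) :=
  posD_of_check (c := ⟨325, ⟨5, 6, 11, 7⟩⟩) (by decide +kernel)

def tB20_pL0 : PosD ⟨⟨0, 1, 1⟩, ⟨98, 99, 147⟩, ⟨1088, 1351, 10000⟩, ⟨2289, 2757, 1000⟩⟩ (tB20.hPL false) :=
  posD_join₃ tB20_pL0a tB20_pL0b

def tB20_pU0 : PosD ⟨⟨0, 1, 1⟩, ⟨98, 99, 147⟩, ⟨1088, 1351, 10000⟩, ⟨2289, 2757, 1000⟩⟩ (tB20.hPU false) :=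
  posD_of_check (c := ⟨332, ⟨5, 6, 11, 7⟩⟩) (by decide +kernel)

def tB20_kU0 : PosD ⟨⟨0, 1, 1⟩, ⟨98, 99, 147⟩, ⟨1088, 1351, 10000⟩, ⟨2289, 2757, 1000⟩⟩ (tB20.hKU false) :=
  posD_of_check (c := ⟨321, ⟨5, 6, 11, 7⟩⟩) (by decide +kernel)

def tB20_kL0 : PosD ⟨⟨0, 1, 1⟩, ⟨98, 99, 147⟩, ⟨1088, 1351, 10000⟩, ⟨2289, 2757, 1000⟩⟩ (tB20.hKL false) :=
  posD_of_check (c := ⟨321, ⟨5, 6, 11, 7⟩⟩) (by decide +kernel)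

def tB20_wU0 : PosD ⟨⟨0, 1, 1⟩, ⟨98, 99, 147⟩, ⟨1088, 1351, 10000⟩, ⟨2289, 2757, 1000⟩⟩ (tB20.hWU false) :=
  posD_of_check (c := ⟨356, ⟨5, 8, 12, 7⟩⟩) (by decide +kernel)

def tB20_wL0 : PosD ⟨⟨0, 1, 1⟩, ⟨98, 99, 147⟩, ⟨1088, 1351, 10000⟩, ⟨2289, 2757, 1000⟩⟩ (tB20.hWL false) :=
  posD_of_check (c := ⟨356, ⟨5, 8, 12, 7⟩⟩) (by decide +kernel)

def tB20_ev1 : PosD ⟨⟨0, 1, 1⟩, ⟨98, 99, 147⟩, ⟨1088, 1351, 10000⟩, ⟨2289, 2757, 1000⟩⟩ (tB20.hEv true) :=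
  posD_of_check (c := ⟨262, ⟨4, 6, 9, 6⟩⟩) (by decide +kernel)

def tB20_zL1a : PosD ⟨⟨0, 1, 1⟩, ⟨98, 99, 147⟩, ⟨1088, 1351, 10000⟩, ⟨2289, 2523, 1000⟩⟩ (tB20.hZL true) :=
  posD_of_check (c := ⟨286, ⟨4, 7, 10, 7⟩⟩) (by decide +kernel)

def tB20_zL1b : PosD ⟨⟨0, 1, 1⟩, ⟨98, 99, 147⟩, ⟨1088, 1351, 10000⟩, ⟨2523, 2757, 1000⟩⟩ (tB20.hZL true) :=
  posD_of_check (c := ⟨286, ⟨4, 7, 10, 7⟩⟩) (by decide +kernel)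

def tB20_zL1 : PosD ⟨⟨0, 1, 1⟩, ⟨98, 99, 147⟩, ⟨1088, 1351, 10000⟩, ⟨2289, 2757, 1000⟩⟩ (tB20.hZL true) :=
  posD_join₃ tB20_zL1a tB20_zL1b

def tB20_zU1 : PosD ⟨⟨0, 1, 1⟩, ⟨98, 99, 147⟩, ⟨1088, 1351, 10000⟩, ⟨2289, 2757, 1000⟩⟩ (tB20.hZU true) :=
  posD_of_check (c := ⟨286, ⟨4, 7, 10, 7⟩⟩) (by decide +kernel)

def tB20_eL1 : PosD ⟨⟨0, 1, 1⟩, ⟨98, 99, 147⟩, ⟨1088, 1351, 10000⟩, ⟨2289, 2757, 1000⟩⟩ (tB20.hEL true) :=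
  posD_of_check (c := ⟨387, ⟨5, 10, 12, 9⟩⟩) (by decide +kernel)

def tB20_eH1 : PosD ⟨⟨0, 1, 1⟩, ⟨98, 99, 147⟩, ⟨1088, 1351, 10000⟩, ⟨2289, 2757, 1000⟩⟩ (tB20.hEH true) :=
  posD_of_check (c := ⟨386, ⟨5, 10, 12, 9⟩⟩) (by decide +kernel)

def tB20_pL1 : PosD ⟨⟨0, 1, 1⟩, ⟨98, 99, 147⟩, ⟨1088, 1351, 10000⟩, ⟨2289, 2757, 1000⟩⟩ (tB20.hPL true) :=
  posD_of_check (c := ⟨381, ⟨5, 10, 12, 9⟩⟩) (by decide +kernel)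

def tB20_pU1 : PosD ⟨⟨0, 1, 1⟩, ⟨98, 99, 147⟩, ⟨1088, 1351, 10000⟩, ⟨2289, 2757, 1000⟩⟩ (tB20.hPU true) :=
  posD_of_check (c := ⟨388, ⟨5, 10, 12, 9⟩⟩) (by decide +kernel)

def tB20_kU1 : PosD ⟨⟨0, 1, 1⟩, ⟨98, 99, 147⟩, ⟨1088, 1351, 10000⟩, ⟨2289, 2757, 1000⟩⟩ (tB20.hKU true) :=
  posD_of_check (c := ⟨376, ⟨5, 10, 12, 9⟩⟩) (by decide +kernel)

def tB20_kL1 : PosD ⟨⟨0, 1, 1⟩, ⟨98, 99, 147⟩, ⟨1088, 1351, 10000⟩, ⟨2289, 2757, 1000⟩⟩ (tB20.hKL true) :=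
  posD_of_check (c := ⟨376, ⟨5, 10, 12, 9⟩⟩) (by decide +kernel)

def tB20_wU1 : PosD ⟨⟨0, 1, 1⟩, ⟨98, 99, 147⟩, ⟨1088, 1351, 10000⟩, ⟨2289, 2757, 1000⟩⟩ (tB20.hWU true) :=
  posD_of_check (c := ⟨411, ⟨5, 12, 13, 9⟩⟩) (by decide +kernel)

def tB20_wL1 : PosD ⟨⟨0, 1, 1⟩, ⟨98, 99, 147⟩, ⟨1088, 1351, 10000⟩, ⟨2289, 2757, 1000⟩⟩ (tB20.hWL true) :=
  posD_of_check (c := ⟨412, ⟨5, 12, 13, 9⟩⟩) (by decide +kernel)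

def tB20_nueL : PosD ⟨⟨0, 1, 1⟩, ⟨98, 99, 147⟩, ⟨1088, 1351, 10000⟩, ⟨2289, 2757, 1000⟩⟩ (tB20.eL.ν) :=
  posD_of_check (c := ⟨44, ⟨0, 0, 1, 1⟩⟩) (by decide +kernel)

def tB20_nueH : PosD ⟨⟨0, 1, 1⟩, ⟨98, 99, 147⟩, ⟨1088, 1351, 10000⟩, ⟨2289, 2757, 1000⟩⟩ (tB20.eH.ν) :=
  posD_of_check (c := ⟨43, ⟨0, 0, 1, 1⟩⟩) (by decide +kernel)

def tB20_nupU : PosD ⟨⟨0, 1, 1⟩, ⟨98, 99, 147⟩, ⟨1088, 1351, 10000⟩, ⟨2289, 2757, 1000⟩⟩ (tB20.pU.ν) :=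
  posD_of_check (c := ⟨45, ⟨0, 0, 1, 1⟩⟩) (by decide +kernel)

/-- The bounds of the piece. -/
def tB20_env : tB20.Env ⟨⟨0, 1, 1⟩, ⟨98, 99, 147⟩, ⟨1088, 1351, 10000⟩, ⟨2289, 2757, 1000⟩⟩ :=
  ⟨tB20_p0, Bool.forall_bool.2 ⟨tB20_den0, tB20_den1⟩, tB20_gn, Bool.forall_bool.2 ⟨tB20_ev0, tB20_ev1⟩, Bool.forall_bool.2 ⟨tB20_zL0, tB20_zL1⟩, Bool.forall_bool.2 ⟨tB20_zU0, tB20_zU1⟩, Bool.forall_bool.2 ⟨tB20_eL0, tB20_eL1⟩, ⟨.inr rfl, .inl tB20_nueL⟩, Bool.forall_bool.2 ⟨tB20_eH0, tB20_eH1⟩, ⟨.inr rfl, .inl tB20_nueH⟩, Bool.forall_bool.2 ⟨tB20_pL0, tB20_pL1⟩, ⟨.inr rfl, .inr rfl⟩, Bool.forall_bool.2 ⟨tB20_pU0, tB20_pU1⟩, ⟨.inr rfl, .inl tB20_nupU⟩, Bool.forall_bool.2 ⟨tB20_kU0, tB20_kU1⟩, ⟨.inr rfl, .inr rfl⟩, Bool.forall_bool.2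 ⟨tB20_kL0, tB20_kL1⟩, ⟨.inr rfl, .inr rfl⟩, Bool.forall_bool.2 ⟨tB20_wU0, tB20_wU1⟩, ⟨.inr rfl, .inr rfl⟩, Bool.forall_bool.2 ⟨tB20_wL0, tB20_wL1⟩, ⟨.inr rfl, .inr rfl⟩⟩

def tB20_pp : PosD ⟨⟨0, 1, 1⟩, ⟨98, 99, 147⟩, ⟨1088, 1351, 10000⟩, ⟨2289, 2757, 1000⟩⟩ (tB20.xPL) :=
  posD_of_check (c := ⟨93, ⟨1, 1, 3, 3⟩⟩) (by decide +kernel)

def tB20_k2p : PosD ⟨⟨0, 1, 1⟩, ⟨98, 99, 147⟩, ⟨1088, 1351, 10000⟩, ⟨2289, 2757, 1000⟩⟩ (tB20.k2p tB20.xE) :=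
  posD_of_check (c := ⟨68, ⟨1, 1, 2, 2⟩⟩) (by decide +kernel)

def tB20_k2m : PosD ⟨⟨0, 1, 1⟩, ⟨98, 99, 147⟩, ⟨1088, 1351, 10000⟩, ⟨2289, 2757, 1000⟩⟩ (tB20.k2m tB20.xE) :=
  posD_of_check (c := ⟨73, ⟨1, 1, 2, 2⟩⟩) (by decide +kernel)

def tB20_v2p : PosD ⟨⟨0, 1, 1⟩, ⟨98, 99, 147⟩, ⟨1088, 1351, 10000⟩, ⟨2289, 2757, 1000⟩⟩ (tB20.hV2p) :=
  posD_of_check (c := ⟨262, ⟨1, 6, 10, 5⟩⟩) (by decide +kernel)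

def tB20_v2m : PosD ⟨⟨0, 1, 1⟩, ⟨98, 99, 147⟩, ⟨1088, 1351, 10000⟩, ⟨2289, 2757, 1000⟩⟩ (tB20.hV2m) :=
  posD_of_check (c := ⟨267, ⟨1, 6, 10, 5⟩⟩) (by decide +kernel)

def tB20_v3p : PosD ⟨⟨0, 1, 1⟩, ⟨98, 99, 147⟩, ⟨1088, 1351, 10000⟩, ⟨2289, 2757, 1000⟩⟩ (tB20.hV3p) :=
  posD_of_check (c := ⟨250, ⟨1, 6, 9, 5⟩⟩) (by decide +kernel)

def tB20_v3m : PosD ⟨⟨0, 1, 1⟩, ⟨98, 99, 147⟩, ⟨1088, 1351, 10000⟩, ⟨2289, 2757, 1000⟩⟩ (tB20.hV3m) :=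
  posD_of_check (c := ⟨254, ⟨1, 6, 9, 5⟩⟩) (by decide +kernel)

def tB20_kap0 : PosD ⟨⟨0, 1, 1⟩, ⟨98, 99, 147⟩, ⟨1088, 1351, 10000⟩, ⟨2289, 2757, 1000⟩⟩ (tB20.kap false) :=
  posD_of_check (c := ⟨71, ⟨1, 1, 2, 2⟩⟩) (by decide +kernel)

def tB20_c10 : PosD ⟨⟨0, 1, 1⟩, ⟨98, 99, 147⟩, ⟨1088, 1351, 10000⟩, ⟨2289, 2757, 1000⟩⟩ (tB20.hC1 false) :=
  posD_of_check (c := ⟨269, ⟨3, 5, 9, 7⟩⟩) (by decide +kernel)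

def tB20_c1h0 : PosD ⟨⟨0, 1, 1⟩, ⟨98, 99, 147⟩, ⟨1088, 1351, 10000⟩, ⟨2289, 2757, 1000⟩⟩ (tB20.hC1' false) :=
  posD_of_check (c := ⟨269, ⟨3, 5, 9, 7⟩⟩) (by decide +kernel)

def tB20_tg00 : PosD ⟨⟨0, 1, 1⟩, ⟨98, 99, 147⟩, ⟨1088, 1351, 10000⟩, ⟨2289, 2757, 1000⟩⟩ (tB20.hG false (tB20.pEnd false)) :=
  posD_of_check (c := ⟨376, ⟨2, 7, 14, 9⟩⟩) (by decide +kernel)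

def tB20_c2p00 : PosD ⟨⟨0, 1, 1⟩, ⟨98, 99, 147⟩, ⟨1088, 1351, 10000⟩, ⟨2289, 2757, 1000⟩⟩ (tB20.hC2p false (tB20.pEnd false)) :=
  posD_of_check (c := ⟨444, ⟨3, 8, 16, 11⟩⟩) (by decide +kernel)

def tB20_c2m00 : PosD ⟨⟨0, 1, 1⟩, ⟨98, 99, 147⟩, ⟨1088, 1351, 10000⟩, ⟨2289, 2757, 1000⟩⟩ (tB20.hC2m false (tB20.pEnd false)) :=
  posD_of_check (c := ⟨448, ⟨3, 8, 16, 11⟩⟩) (by decide +kernel)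

def tB20_c3p00 : PosD ⟨⟨0, 1, 1⟩, ⟨98, 99, 147⟩, ⟨1088, 1351, 10000⟩, ⟨2289, 2757, 1000⟩⟩ (tB20.hC3p false false) :=
  posD_of_check (c := ⟨434, ⟨3, 8, 15, 11⟩⟩) (by decide +kernel)

def tB20_c3m00 : PosD ⟨⟨0, 1, 1⟩, ⟨98, 99, 147⟩, ⟨1088, 1351, 10000⟩, ⟨2289, 2757, 1000⟩⟩ (tB20.hC3m false false) :=
  posD_of_check (c := ⟨436, ⟨3, 8, 15, 11⟩⟩) (by decide +kernel)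

def tB20_c3ph00 : PosD ⟨⟨0, 1, 1⟩, ⟨98, 99, 147⟩, ⟨1088, 1351, 10000⟩, ⟨2289, 2757, 1000⟩⟩ (tB20.hC3p' false false) :=
  posD_of_check (c := ⟨434, ⟨3, 8, 15, 11⟩⟩) (by decide +kernel)

def tB20_c3mh00 : PosD ⟨⟨0, 1, 1⟩, ⟨98, 99, 147⟩, ⟨1088, 1351, 10000⟩, ⟨2289, 2757, 1000⟩⟩ (tB20.hC3m' false false) :=
  posD_of_check (c := ⟨436, ⟨3, 8, 15, 11⟩⟩) (by decide +kernel)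

def tB20_up00 : PosD ⟨⟨0, 1, 1⟩, ⟨98, 99, 147⟩, ⟨1088, 1351, 10000⟩, ⟨2289, 2757, 1000⟩⟩ (tB20.hUp false false) :=
  posD_of_check (c := ⟨431, ⟨3, 8, 15, 11⟩⟩) (by decide +kernel)

def tB20_um00 : PosD ⟨⟨0, 1, 1⟩, ⟨98, 99, 147⟩, ⟨1088, 1351, 10000⟩, ⟨2289, 2757, 1000⟩⟩ (tB20.hUm false false) :=
  posD_of_check (c := ⟨435, ⟨3, 8, 15, 11⟩⟩) (by decide +kernel)

def tB20_tmg00 : PosD ⟨⟨0, 1, 1⟩, ⟨98, 99, 147⟩, ⟨1088, 1351, 10000⟩, ⟨2289, 2757, 1000⟩⟩ (tB20.hTMG false (tB20.pEnd false)) :=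
  posD_of_check (c := ⟨390, ⟨2, 7, 14, 10⟩⟩) (by decide +kernel)

def tB20_tg01 : PosD ⟨⟨0, 1, 1⟩, ⟨98, 99, 147⟩, ⟨1088, 1351, 10000⟩, ⟨2289, 2757, 1000⟩⟩ (tB20.hG true (tB20.pEnd false)) :=
  posD_of_check (c := ⟨376, ⟨2, 7, 14, 9⟩⟩) (by decide +kernel)

def tB20_c2p01 : PosD ⟨⟨0, 1, 1⟩, ⟨98, 99, 147⟩, ⟨1088, 1351, 10000⟩, ⟨2289, 2757, 1000⟩⟩ (tB20.hC2p true (tB20.pEnd false)) :=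
  posD_of_check (c := ⟨444, ⟨3, 8, 16, 11⟩⟩) (by decide +kernel)

def tB20_c2m01 : PosD ⟨⟨0, 1, 1⟩, ⟨98, 99, 147⟩, ⟨1088, 1351, 10000⟩, ⟨2289, 2757, 1000⟩⟩ (tB20.hC2m true (tB20.pEnd false)) :=
  posD_of_check (c := ⟨448, ⟨3, 8, 16, 11⟩⟩) (by decide +kernel)

def tB20_c3p01 : PosD ⟨⟨0, 1, 1⟩, ⟨98, 99, 147⟩, ⟨1088, 1351, 10000⟩, ⟨2289, 2757, 1000⟩⟩ (tB20.hC3p false true) :=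
  posD_of_check (c := ⟨434, ⟨3, 8, 15, 11⟩⟩) (by decide +kernel)

def tB20_c3m01 : PosD ⟨⟨0, 1, 1⟩, ⟨98, 99, 147⟩, ⟨1088, 1351, 10000⟩, ⟨2289, 2757, 1000⟩⟩ (tB20.hC3m false true) :=
  posD_of_check (c := ⟨436, ⟨3, 8, 15, 11⟩⟩) (by decide +kernel)

def tB20_c3ph01 : PosD ⟨⟨0, 1, 1⟩, ⟨98, 99, 147⟩, ⟨1088, 1351, 10000⟩, ⟨2289, 2757, 1000⟩⟩ (tB20.hC3p' false true) :=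
  posD_of_check (c := ⟨434, ⟨3, 8, 15, 11⟩⟩) (by decide +kernel)

def tB20_c3mh01 : PosD ⟨⟨0, 1, 1⟩, ⟨98, 99, 147⟩, ⟨1088, 1351, 10000⟩, ⟨2289, 2757, 1000⟩⟩ (tB20.hC3m' false true) :=
  posD_of_check (c := ⟨436, ⟨3, 8, 15, 11⟩⟩) (by decide +kernel)

def tB20_up01 : PosD ⟨⟨0, 1, 1⟩, ⟨98, 99, 147⟩, ⟨1088, 1351, 10000⟩, ⟨2289, 2757, 1000⟩⟩ (tB20.hUp false true) :=
  posD_of_check (c := ⟨431, ⟨3, 8, 15, 11⟩⟩) (by decide +kernel)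

def tB20_um01 : PosD ⟨⟨0, 1, 1⟩, ⟨98, 99, 147⟩, ⟨1088, 1351, 10000⟩, ⟨2289, 2757, 1000⟩⟩ (tB20.hUm false true) :=
  posD_of_check (c := ⟨435, ⟨3, 8, 15, 11⟩⟩) (by decide +kernel)

def tB20_tmg01 : PosD ⟨⟨0, 1, 1⟩, ⟨98, 99, 147⟩, ⟨1088, 1351, 10000⟩, ⟨2289, 2757, 1000⟩⟩ (tB20.hTMG true (tB20.pEnd false)) :=
  posD_of_check (c := ⟨390, ⟨2, 7, 14, 10⟩⟩) (by decide +kernel)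

def tB20_kap1 : PosD ⟨⟨0, 1, 1⟩, ⟨98, 99, 147⟩, ⟨1088, 1351, 10000⟩, ⟨2289, 2757, 1000⟩⟩ (tB20.kap true) :=
  posD_of_check (c := ⟨71, ⟨1, 1, 2, 2⟩⟩) (by decide +kernel)

def tB20_c11 : PosD ⟨⟨0, 1, 1⟩, ⟨98, 99, 147⟩, ⟨1088, 1351, 10000⟩, ⟨2289, 2757, 1000⟩⟩ (tB20.hC1 true) :=
  posD_of_check (c := ⟨268, ⟨3, 5, 9, 7⟩⟩) (by decide +kernel)

def tB20_c1h1 : PosD ⟨⟨0, 1, 1⟩, ⟨98, 99, 147⟩, ⟨1088, 1351, 10000⟩, ⟨2289, 2757, 1000⟩⟩ (tB20.hC1' true) :=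
  posD_of_check (c := ⟨268, ⟨3, 5, 9, 7⟩⟩) (by decide +kernel)

def tB20_tg10 : PosD ⟨⟨0, 1, 1⟩, ⟨98, 99, 147⟩, ⟨1088, 1351, 10000⟩, ⟨2289, 2757, 1000⟩⟩ (tB20.hG false (tB20.pEnd true)) :=
  posD_of_check (c := ⟨374, ⟨2, 7, 14, 9⟩⟩) (by decide +kernel)

def tB20_c2p10 : PosD ⟨⟨0, 1, 1⟩, ⟨98, 99, 147⟩, ⟨1088, 1351, 10000⟩, ⟨2289, 2757, 1000⟩⟩ (tB20.hC2p false (tB20.pEnd true)) :=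
  posD_of_check (c := ⟨442, ⟨3, 8, 16, 11⟩⟩) (by decide +kernel)

def tB20_c2m10 : PosD ⟨⟨0, 1, 1⟩, ⟨98, 99, 147⟩, ⟨1088, 1351, 10000⟩, ⟨2289, 2757, 1000⟩⟩ (tB20.hC2m false (tB20.pEnd true)) :=
  posD_of_check (c := ⟨447, ⟨3, 8, 16, 11⟩⟩) (by decide +kernel)

def tB20_c3p10 : PosD ⟨⟨0, 1, 1⟩, ⟨98, 99, 147⟩, ⟨1088, 1351, 10000⟩, ⟨2289, 2757, 1000⟩⟩ (tB20.hC3p true false) :=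
  posD_of_check (c := ⟨433, ⟨3, 8, 15, 11⟩⟩) (by decide +kernel)

def tB20_c3m10 : PosD ⟨⟨0, 1, 1⟩, ⟨98, 99, 147⟩, ⟨1088, 1351, 10000⟩, ⟨2289, 2757, 1000⟩⟩ (tB20.hC3m true false) :=
  posD_of_check (c := ⟨434, ⟨3, 8, 15, 11⟩⟩) (by decide +kernel)

def tB20_c3ph10 : PosD ⟨⟨0, 1, 1⟩, ⟨98, 99, 147⟩, ⟨1088, 1351, 10000⟩, ⟨2289, 2757, 1000⟩⟩ (tB20.hC3p' true false) :=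
  posD_of_check (c := ⟨433, ⟨3, 8, 15, 11⟩⟩) (by decide +kernel)

def tB20_c3mh10 : PosD ⟨⟨0, 1, 1⟩, ⟨98, 99, 147⟩, ⟨1088, 1351, 10000⟩, ⟨2289, 2757, 1000⟩⟩ (tB20.hC3m' true false) :=
  posD_of_check (c := ⟨434, ⟨3, 8, 15, 11⟩⟩) (by decide +kernel)

def tB20_up10 : PosD ⟨⟨0, 1, 1⟩, ⟨98, 99, 147⟩, ⟨1088, 1351, 10000⟩, ⟨2289, 2757, 1000⟩⟩ (tB20.hUp true false) :=
  posD_of_check (c := ⟨430, ⟨3, 8, 15, 11⟩⟩) (by decide +kernel)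

def tB20_um10 : PosD ⟨⟨0, 1, 1⟩, ⟨98, 99, 147⟩, ⟨1088, 1351, 10000⟩, ⟨2289, 2757, 1000⟩⟩ (tB20.hUm true false) :=
  posD_of_check (c := ⟨434, ⟨3, 8, 15, 11⟩⟩) (by decide +kernel)

def tB20_tmg10 : PosD ⟨⟨0, 1, 1⟩, ⟨98, 99, 147⟩, ⟨1088, 1351, 10000⟩, ⟨2289, 2757, 1000⟩⟩ (tB20.hTMG false (tB20.pEnd true)) :=
  posD_of_check (c := ⟨389, ⟨2, 7, 14, 10⟩⟩) (by decide +kernel)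

def tB20_tg11 : PosD ⟨⟨0, 1, 1⟩, ⟨98, 99, 147⟩, ⟨1088, 1351, 10000⟩, ⟨2289, 2757, 1000⟩⟩ (tB20.hG true (tB20.pEnd true)) :=
  posD_of_check (c := ⟨374, ⟨2, 7, 14, 9⟩⟩) (by decide +kernel)

def tB20_c2p11 : PosD ⟨⟨0, 1, 1⟩, ⟨98, 99, 147⟩, ⟨1088, 1351, 10000⟩, ⟨2289, 2757, 1000⟩⟩ (tB20.hC2p true (tB20.pEnd true)) :=
  posD_of_check (c := ⟨442, ⟨3, 8, 16, 11⟩⟩) (by decide +kernel)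

def tB20_c2m11 : PosD ⟨⟨0, 1, 1⟩, ⟨98, 99, 147⟩, ⟨1088, 1351, 10000⟩, ⟨2289, 2757, 1000⟩⟩ (tB20.hC2m true (tB20.pEnd true)) :=
  posD_of_check (c := ⟨447, ⟨3, 8, 16, 11⟩⟩) (by decide +kernel)

def tB20_c3p11 : PosD ⟨⟨0, 1, 1⟩, ⟨98, 99, 147⟩, ⟨1088, 1351, 10000⟩, ⟨2289, 2757, 1000⟩⟩ (tB20.hC3p true true) :=
  posD_of_check (c := ⟨433, ⟨3, 8, 15, 11⟩⟩) (by decide +kernel)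

def tB20_c3m11 : PosD ⟨⟨0, 1, 1⟩, ⟨98, 99, 147⟩, ⟨1088, 1351, 10000⟩, ⟨2289, 2757, 1000⟩⟩ (tB20.hC3m true true) :=
  posD_of_check (c := ⟨434, ⟨3, 8, 15, 11⟩⟩) (by decide +kernel)

def tB20_c3ph11 : PosD ⟨⟨0, 1, 1⟩, ⟨98, 99, 147⟩, ⟨1088, 1351, 10000⟩, ⟨2289, 2757, 1000⟩⟩ (tB20.hC3p' true true) :=
  posD_of_check (c := ⟨433, ⟨3, 8, 15, 11⟩⟩) (by decide +kernel)

def tB20_c3mh11 : PosD ⟨⟨0, 1, 1⟩, ⟨98, 99, 147⟩, ⟨1088, 1351, 10000⟩, ⟨2289, 2757, 1000⟩⟩ (tB20.hC3m' true true) :=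
  posD_of_check (c := ⟨434, ⟨3, 8, 15, 11⟩⟩) (by decide +kernel)

def tB20_up11 : PosD ⟨⟨0, 1, 1⟩, ⟨98, 99, 147⟩, ⟨1088, 1351, 10000⟩, ⟨2289, 2757, 1000⟩⟩ (tB20.hUp true true) :=
  posD_of_check (c := ⟨430, ⟨3, 8, 15, 11⟩⟩) (by decide +kernel)

def tB20_um11 : PosD ⟨⟨0, 1, 1⟩, ⟨98, 99, 147⟩, ⟨1088, 1351, 10000⟩, ⟨2289, 2757, 1000⟩⟩ (tB20.hUm true true) :=
  posD_of_check (c := ⟨434, ⟨3, 8, 15, 11⟩⟩) (by decide +kernel)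

def tB20_tmg11 : PosD ⟨⟨0, 1, 1⟩, ⟨98, 99, 147⟩, ⟨1088, 1351, 10000⟩, ⟨2289, 2757, 1000⟩⟩ (tB20.hTMG true (tB20.pEnd true)) :=
  posD_of_check (c := ⟨389, ⟨2, 7, 14, 10⟩⟩) (by decide +kernel)

/-- The signs of the piece. -/
def tB20_sign : tB20.Sign ⟨⟨0, 1, 1⟩, ⟨98, 99, 147⟩, ⟨1088, 1351, 10000⟩, ⟨2289, 2757, 1000⟩⟩ :=
  ⟨tB20_pp,
    tB20_k2p,
    tB20_k2m,
    Bool.forall_bool.2 ⟨(Bool.forall_bool.2 ⟨tB20_tg00, tB20_tg01⟩), (Bool.forall_bool.2 ⟨tB20_tg10, tB20_tg11⟩)⟩,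
    Bool.forall_bool.2 ⟨(Bool.forall_bool.2 ⟨tB20_c2p00, tB20_c2p01⟩), (Bool.forall_bool.2 ⟨tB20_c2p10, tB20_c2p11⟩)⟩,
    Bool.forall_bool.2 ⟨(Bool.forall_bool.2 ⟨tB20_c2m00, tB20_c2m01⟩), (Bool.forall_bool.2 ⟨tB20_c2m10, tB20_c2m11⟩)⟩,
    Bool.forall_bool.2 ⟨tB20_kap0, tB20_kap1⟩,
    Bool.forall_bool.2 ⟨tB20_c10, tB20_c11⟩,
    Bool.forall_bool.2 ⟨(Bool.forall_bool.2 ⟨tB20_c3p00, tB20_c3p01⟩), (Bool.forall_bool.2 ⟨tB20_c3p10, tB20_c3p11⟩)⟩,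
    Bool.forall_bool.2 ⟨(Bool.forall_bool.2 ⟨tB20_c3m00, tB20_c3m01⟩), (Bool.forall_bool.2 ⟨tB20_c3m10, tB20_c3m11⟩)⟩,
    Bool.forall_bool.2 ⟨(Bool.forall_bool.2 ⟨tB20_tmg00, tB20_tmg01⟩), (Bool.forall_bool.2 ⟨tB20_tmg10, tB20_tmg11⟩)⟩,
    .inr (Bool.forall_bool.2 ⟨⟨tB20_c1h0, Bool.forall_bool.2 ⟨⟨tB20_c3ph00, tB20_c3mh00, tB20_up00, tB20_um00⟩, ⟨tB20_c3ph01, tB20_c3mh01, tB20_up01, tB20_um01⟩⟩⟩, ⟨tB20_c1h1, Bool.forall_bool.2 ⟨⟨tB20_c3ph10, tB20_c3mh10, tB20_up10, tB20_um10⟩, ⟨tB20_c3ph11, tB20_c3mh11, tB20_up11, tB20_um11⟩⟩⟩⟩),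
    tB20_v2p,
    tB20_v2m,
    tB20_v3p,
    tB20_v3m,
    posD_sub (b := ⟨⟨0, 1, 1⟩, ⟨98, 99, 147⟩, ⟨300, 1351, 10000⟩, ⟨290, 4000, 1000⟩⟩) (by decide +kernel) tB_vG,
    posD_sub (b := ⟨⟨0, 1, 1⟩, ⟨98, 99, 147⟩, ⟨300, 1351, 10000⟩, ⟨290, 4000, 1000⟩⟩) (by decide +kernel) tB_vMG,
    posD_sub (b := ⟨⟨0, 1, 1⟩, ⟨98, 99, 147⟩, ⟨300, 1351, 10000⟩, ⟨290, 4000, 1000⟩⟩) (by decide +kernel) tB_ak,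
    posD_sub (b := ⟨⟨0, 1, 1⟩, ⟨98, 99, 147⟩, ⟨300, 1351, 10000⟩, ⟨290, 4000, 1000⟩⟩) (by decide +kernel) tB_aw,
    posD_sub (b := ⟨⟨0, 1, 1⟩, ⟨98, 99, 147⟩, ⟨300, 1351, 10000⟩, ⟨290, 4000, 1000⟩⟩) (by decide +kernel) tB_gk,
    posD_sub (b := ⟨⟨0, 1, 1⟩, ⟨98, 99, 147⟩, ⟨300, 1351, 10000⟩, ⟨290, 4000, 1000⟩⟩) (by decide +kernel) tB_gw,
    posD_sub (b := ⟨⟨0, 1, 1⟩, ⟨98, 99, 147⟩, ⟨300, 1351, 10000⟩, ⟨290, 4000, 1000⟩⟩) (by decide +kernel) tB_ek,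
    posD_sub (b := ⟨⟨0, 1, 1⟩, ⟨98, 99, 147⟩, ⟨300, 1351, 10000⟩, ⟨290, 4000, 1000⟩⟩) (by decide +kernel) tB_ew⟩

def tB21_phx : PosD ⟨⟨0, 1, 1⟩, ⟨98, 99, 147⟩, ⟨825, 1351, 10000⟩, ⟨3321, 4000, 1000⟩⟩ (phBn (tB21Hi + xO * (tB21Lo - tB21Hi))) :=
  posD_of_check (c := ⟨69, ⟨2, 0, 2, 1⟩⟩) (by decide +kernel)

def tB21_phd : PosD ⟨⟨0, 1, 1⟩, ⟨98, 99, 147⟩, ⟨825, 1351, 10000⟩, ⟨3321, 4000, 1000⟩⟩ (phBd (tB21Hi + xO * (tB21Lo - tB21Hi))) :=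
  posD_of_check (c := ⟨47, ⟨1, 0, 2, 0⟩⟩) (by decide +kernel)

end Vale.Agent.P100.Calib.Closed.Six.Tail
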