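import Vale.Agent.P100.Calib.SlabSixTailDataB
import Vale.Agent.P100.Calib.SlabSixTailGlobB

/-!
# Checks of some pieces of the certificate

The checks are written as definitions so that they run one after another, which keeps the memory of the
kernel low.
-/

set_option linter.defProp false

namespace Vale.Agent.P100.Calib.Closed.Six.Tail

open BoxPos Large

local instance sixTailCheckstB16Add : Add Ex := ⟨Ex.add⟩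
local instance sixTailCheckstB16Sub : Sub Ex := ⟨Ex.sub⟩
local instance sixTailCheckstB16Mul : Mul Ex := ⟨Ex.mul⟩

def tB22_phx : PosIf ⟨⟨0, 1, 1⟩, ⟨98, 99, 147⟩, ⟨825, 1351, 10000⟩, ⟨2757, 3321, 1000⟩⟩ (tB22.u₁ - tB22Lo) (phBn (tB22.u₁ + xO * (tB22Lo - tB22.u₁))) :=
  posIf_of_posD (posD_of_check (c := ⟨101, ⟨2, 0, 4, 2⟩⟩) (by decide +kernel))

def tB22_phd : PosD ⟨⟨0, 1, 1⟩, ⟨98, 99, 147⟩, ⟨825, 1351, 10000⟩, ⟨2757, 3321, 1000⟩⟩ (phBd (tB22.u₁ + xO * (tB22Lo - tB22.u₁))) :=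
  posD_of_check (c := ⟨48, ⟨1, 0, 2, 1⟩⟩) (by decide +kernel)

def tB22_p0 : PosD ⟨⟨0, 1, 1⟩, ⟨98, 99, 147⟩, ⟨825, 1351, 10000⟩, ⟨2757, 3321, 1000⟩⟩ (tB22.hP0) :=
  posD_of_check (c := ⟨82, ⟨0, 2, 3, 1⟩⟩) (by decide +kernel)

def tB22_gn : PosD ⟨⟨0, 1, 1⟩, ⟨98, 99, 147⟩, ⟨825, 1351, 10000⟩, ⟨2757, 3321, 1000⟩⟩ (tB22.hGn) :=
  posD_of_check (c := ⟨66, ⟨1, 1, 2, 2⟩⟩) (by decide +kernel)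

def tB22_den0 : PosD ⟨⟨0, 1, 1⟩, ⟨98, 99, 147⟩, ⟨825, 1351, 10000⟩, ⟨2757, 3321, 1000⟩⟩ (tB22.hDen false) :=
  posD_of_check (c := ⟨48, ⟨1, 0, 2, 1⟩⟩) (by decide +kernel)

def tB22_den1 : PosD ⟨⟨0, 1, 1⟩, ⟨98, 99, 147⟩, ⟨825, 1351, 10000⟩, ⟨2757, 3321, 1000⟩⟩ (tB22.hDen true) :=
  posD_of_check (c := ⟨171, ⟨3, 4, 6, 4⟩⟩) (by decide +kernel)

def tB22_ev0 : PosD ⟨⟨0, 1, 1⟩, ⟨98, 99, 147⟩, ⟨825, 1351, 10000⟩, ⟨2757, 3321, 1000⟩⟩ (tB22.hEv false) :=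
  posD_of_check (c := ⟨206, ⟨4, 2, 8, 4⟩⟩) (by decide +kernel)

def tB22_zL0a : PosD ⟨⟨0, 1, 1⟩, ⟨98, 99, 147⟩, ⟨825, 1351, 10000⟩, ⟨2757, 3039, 1000⟩⟩ (tB22.hZL false) :=
  posD_of_check (c := ⟨209, ⟨4, 3, 8, 4⟩⟩) (by decide +kernel)

def tB22_zL0ba : PosD ⟨⟨0, 1, 1⟩, ⟨98, 99, 147⟩, ⟨825, 1088, 10000⟩, ⟨3039, 3321, 1000⟩⟩ (tB22.hZL false) :=
  posD_of_check (c := ⟨209, ⟨4, 3, 8, 4⟩⟩) (by decide +kernel)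

def tB22_zL0bb : PosD ⟨⟨0, 1, 1⟩, ⟨98, 99, 147⟩, ⟨1088, 1351, 10000⟩, ⟨3039, 3321, 1000⟩⟩ (tB22.hZL false) :=
  posD_of_check (c := ⟨209, ⟨4, 3, 8, 4⟩⟩) (by decide +kernel)

def tB22_zL0b : PosD ⟨⟨0, 1, 1⟩, ⟨98, 99, 147⟩, ⟨825, 1351, 10000⟩, ⟨3039, 3321, 1000⟩⟩ (tB22.hZL false) :=
  posD_join₂ tB22_zL0ba tB22_zL0bb

def tB22_zL0 : PosD ⟨⟨0, 1, 1⟩, ⟨98, 99, 147⟩, ⟨825, 1351, 10000⟩, ⟨2757, 3321, 1000⟩⟩ (tB22.hZL false) :=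
  posD_join₃ tB22_zL0a tB22_zL0b

def tB22_zU0 : PosD ⟨⟨0, 1, 1⟩, ⟨98, 99, 147⟩, ⟨825, 1351, 10000⟩, ⟨2757, 3321, 1000⟩⟩ (tB22.hZU false) :=
  posD_of_check (c := ⟨210, ⟨4, 3, 8, 4⟩⟩) (by decide +kernel)

def tB22_eL0 : PosD ⟨⟨0, 1, 1⟩, ⟨98, 99, 147⟩, ⟨825, 1351, 10000⟩, ⟨2757, 3321, 1000⟩⟩ (tB22.hEL false) :=
  posD_of_check (c := ⟨330, ⟨5, 6, 11, 7⟩⟩) (by decide +kernel)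

def tB22_eH0 : PosD ⟨⟨0, 1, 1⟩, ⟨98, 99, 147⟩, ⟨825, 1351, 10000⟩, ⟨2757, 3321, 1000⟩⟩ (tB22.hEH false) :=
  posD_of_check (c := ⟨329, ⟨5, 6, 11, 7⟩⟩) (by decide +kernel)

def tB22_pL0 : PosD ⟨⟨0, 1, 1⟩, ⟨98, 99, 147⟩, ⟨825, 1351, 10000⟩, ⟨2757, 3321, 1000⟩⟩ (tB22.hPL false) :=
  posD_of_check (c := ⟨325, ⟨5, 6, 11, 7⟩⟩) (by decide +kernel)

def tB22_pU0 : PosD ⟨⟨0, 1, 1⟩, ⟨98, 99, 147⟩, ⟨825, 1351, 10000⟩, ⟨2757, 3321, 1000⟩⟩ (tB22.hPU false) :=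
  posD_of_check (c := ⟨332, ⟨5, 6, 11, 7⟩⟩) (by decide +kernel)

def tB22_kU0 : PosD ⟨⟨0, 1, 1⟩, ⟨98, 99, 147⟩, ⟨825, 1351, 10000⟩, ⟨2757, 3321, 1000⟩⟩ (tB22.hKU false) :=
  posD_of_check (c := ⟨328, ⟨5, 6, 11, 7⟩⟩) (by decide +kernel)

def tB22_kL0 : PosD ⟨⟨0, 1, 1⟩, ⟨98, 99, 147⟩, ⟨825, 1351, 10000⟩, ⟨2757, 3321, 1000⟩⟩ (tB22.hKL false) :=
  posD_of_check (c := ⟨327, ⟨5, 6, 11, 7⟩⟩) (by decide +kernel)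

def tB22_wU0 : PosD ⟨⟨0, 1, 1⟩, ⟨98, 99, 147⟩, ⟨825, 1351, 10000⟩, ⟨2757, 3321, 1000⟩⟩ (tB22.hWU false) :=
  posD_of_check (c := ⟨363, ⟨5, 8, 12, 7⟩⟩) (by decide +kernel)

def tB22_wL0 : PosD ⟨⟨0, 1, 1⟩, ⟨98, 99, 147⟩, ⟨825, 1351, 10000⟩, ⟨2757, 3321, 1000⟩⟩ (tB22.hWL false) :=
  posD_of_check (c := ⟨363, ⟨5, 8, 12, 7⟩⟩) (by decide +kernel)

def tB22_ev1 : PosD ⟨⟨0, 1, 1⟩, ⟨98, 99, 147⟩, ⟨825, 1351, 10000⟩, ⟨2757, 3321, 1000⟩⟩ (tB22.hEv true) :=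
  posD_of_check (c := ⟨262, ⟨4, 6, 9, 6⟩⟩) (by decide +kernel)

def tB22_zL1 : PosD ⟨⟨0, 1, 1⟩, ⟨98, 99, 147⟩, ⟨825, 1351, 10000⟩, ⟨2757, 3321, 1000⟩⟩ (tB22.hZL true) :=
  posD_of_check (c := ⟨284, ⟨4, 7, 10, 7⟩⟩) (by decide +kernel)

def tB22_zU1a : PosD ⟨⟨0, 1, 1⟩, ⟨98, 99, 147⟩, ⟨825, 1351, 10000⟩, ⟨2757, 3039, 1000⟩⟩ (tB22.hZU true) :=
  posD_of_check (c := ⟨285, ⟨4, 7, 10, 7⟩⟩) (by decide +kernel)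

def tB22_zU1b : PosD ⟨⟨0, 1, 1⟩, ⟨98, 99, 147⟩, ⟨825, 1351, 10000⟩, ⟨3039, 3321, 1000⟩⟩ (tB22.hZU true) :=
  posD_of_check (c := ⟨285, ⟨4, 7, 10, 7⟩⟩) (by decide +kernel)

def tB22_zU1 : PosD ⟨⟨0, 1, 1⟩, ⟨98, 99, 147⟩, ⟨825, 1351, 10000⟩, ⟨2757, 3321, 1000⟩⟩ (tB22.hZU true) :=
  posD_join₃ tB22_zU1a tB22_zU1b

def tB22_eL1 : PosD ⟨⟨0, 1, 1⟩, ⟨98, 99, 147⟩, ⟨825, 1351, 10000⟩, ⟨2757, 3321, 1000⟩⟩ (tB22.hEL true) :=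
  posD_of_check (c := ⟨386, ⟨5, 10, 12, 9⟩⟩) (by decide +kernel)

def tB22_eH1 : PosD ⟨⟨0, 1, 1⟩, ⟨98, 99, 147⟩, ⟨825, 1351, 10000⟩, ⟨2757, 3321, 1000⟩⟩ (tB22.hEH true) :=
  posD_of_check (c := ⟨385, ⟨5, 10, 12, 9⟩⟩) (by decide +kernel)

def tB22_pL1 : PosD ⟨⟨0, 1, 1⟩, ⟨98, 99, 147⟩, ⟨825, 1351, 10000⟩, ⟨2757, 3321, 1000⟩⟩ (tB22.hPL true) :=
  posD_of_check (c := ⟨381, ⟨5, 10, 12, 9⟩⟩) (by decide +kernel)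

def tB22_pU1 : PosD ⟨⟨0, 1, 1⟩, ⟨98, 99, 147⟩, ⟨825, 1351, 10000⟩, ⟨2757, 3321, 1000⟩⟩ (tB22.hPU true) :=
  posD_of_check (c := ⟨388, ⟨5, 10, 12, 9⟩⟩) (by decide +kernel)

def tB22_kU1 : PosD ⟨⟨0, 1, 1⟩, ⟨98, 99, 147⟩, ⟨825, 1351, 10000⟩, ⟨2757, 3321, 1000⟩⟩ (tB22.hKU true) :=
  posD_of_check (c := ⟨384, ⟨5, 10, 12, 9⟩⟩) (by decide +kernel)

def tB22_kL1 : PosD ⟨⟨0, 1, 1⟩, ⟨98, 99, 147⟩, ⟨825, 1351, 10000⟩, ⟨2757, 3321, 1000⟩⟩ (tB22.hKL true) :=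
  posD_of_check (c := ⟨383, ⟨5, 10, 12, 9⟩⟩) (by decide +kernel)

def tB22_wU1 : PosD ⟨⟨0, 1, 1⟩, ⟨98, 99, 147⟩, ⟨825, 1351, 10000⟩, ⟨2757, 3321, 1000⟩⟩ (tB22.hWU true) :=
  posD_of_check (c := ⟨418, ⟨5, 12, 13, 9⟩⟩) (by decide +kernel)

def tB22_wL1 : PosD ⟨⟨0, 1, 1⟩, ⟨98, 99, 147⟩, ⟨825, 1351, 10000⟩, ⟨2757, 3321, 1000⟩⟩ (tB22.hWL true) :=
  posD_of_check (c := ⟨419, ⟨5, 12, 13, 9⟩⟩) (by decide +kernel)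

def tB22_nueL : PosD ⟨⟨0, 1, 1⟩, ⟨98, 99, 147⟩, ⟨825, 1351, 10000⟩, ⟨2757, 3321, 1000⟩⟩ (tB22.eL.ν) :=
  posD_of_check (c := ⟨43, ⟨0, 0, 1, 1⟩⟩) (by decide +kernel)

def tB22_nueH : PosD ⟨⟨0, 1, 1⟩, ⟨98, 99, 147⟩, ⟨825, 1351, 10000⟩, ⟨2757, 3321, 1000⟩⟩ (tB22.eH.ν) :=
  posD_of_check (c := ⟨42, ⟨0, 0, 1, 1⟩⟩) (by decide +kernel)

def tB22_nupU : PosD ⟨⟨0, 1, 1⟩, ⟨98, 99, 147⟩, ⟨825, 1351, 10000⟩, ⟨2757, 3321, 1000⟩⟩ (tB22.pU.ν) :=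
  posD_of_check (c := ⟨45, ⟨0, 0, 1, 1⟩⟩) (by decide +kernel)

def tB22_nukU : PosD ⟨⟨0, 1, 1⟩, ⟨98, 99, 147⟩, ⟨825, 1351, 10000⟩, ⟨2757, 3321, 1000⟩⟩ (tB22.kU.ν) :=
  posD_of_check (c := ⟨40, ⟨0, 0, 1, 1⟩⟩) (by decide +kernel)

def tB22_nukL : PosD ⟨⟨0, 1, 1⟩, ⟨98, 99, 147⟩, ⟨825, 1351, 10000⟩, ⟨2757, 3321, 1000⟩⟩ (tB22.kL.ν) :=
  posD_of_check (c := ⟨40, ⟨0, 0, 1, 1⟩⟩) (by decide +kernel)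

def tB22_nuwU : PosD ⟨⟨0, 1, 1⟩, ⟨98, 99, 147⟩, ⟨825, 1351, 10000⟩, ⟨2757, 3321, 1000⟩⟩ (tB22.wU.ν) :=
  posD_of_check (c := ⟨44, ⟨0, 0, 1, 1⟩⟩) (by decide +kernel)

def tB22_nuwL : PosD ⟨⟨0, 1, 1⟩, ⟨98, 99, 147⟩, ⟨825, 1351, 10000⟩, ⟨2757, 3321, 1000⟩⟩ (tB22.wL.ν) :=
  posD_of_check (c := ⟨46, ⟨0, 0, 1, 1⟩⟩) (by decide +kernel)

/-- The bounds of the piece. -/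
def tB22_env : tB22.Env ⟨⟨0, 1, 1⟩, ⟨98, 99, 147⟩, ⟨825, 1351, 10000⟩, ⟨2757, 3321, 1000⟩⟩ :=
  ⟨tB22_p0, Bool.forall_bool.2 ⟨tB22_den0, tB22_den1⟩, tB22_gn, Bool.forall_bool.2 ⟨tB22_ev0, tB22_ev1⟩, Bool.forall_bool.2 ⟨tB22_zL0, tB22_zL1⟩, Bool.forall_bool.2 ⟨tB22_zU0, tB22_zU1⟩, Bool.forall_bool.2 ⟨tB22_eL0, tB22_eL1⟩, ⟨.inr rfl, .inl tB22_nueL⟩, Bool.forall_bool.2 ⟨tB22_eH0, tB22_eH1⟩, ⟨.inr rfl, .inl tB22_nueH⟩, Bool.forall_bool.2 ⟨tB22_pL0, tB22_pL1⟩, ⟨.inr rfl, .inr rfl⟩, Bool.forall_bool.2 ⟨tB22_pU0, tB22_pU1⟩, ⟨.inr rfl, .inl tB22_nupU⟩, Bool.forall_bool.2 ⟨tB22_kU0, tB22_kU1⟩, ⟨.inr rfl, .inl tB22_nukU⟩, Bool.forall_bool.2 ⟨tB22_kL0, tB22_kL1⟩, ⟨.inr rfl, .inl tB22_nukL⟩, Bool.forall_bool.2 ⟨tB22_wU0, tB22_wU1⟩,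 ⟨.inr rfl, .inl tB22_nuwU⟩, Bool.forall_bool.2 ⟨tB22_wL0, tB22_wL1⟩, ⟨.inr rfl, .inl tB22_nuwL⟩⟩

def tB22_pp : PosD ⟨⟨0, 1, 1⟩, ⟨98, 99, 147⟩, ⟨825, 1351, 10000⟩, ⟨2757, 3321, 1000⟩⟩ (tB22.xPL) :=
  posD_of_check (c := ⟨93, ⟨1, 1, 3, 3⟩⟩) (by decide +kernel)

def tB22_k2p : PosD ⟨⟨0, 1, 1⟩, ⟨98, 99, 147⟩, ⟨825, 1351, 10000⟩, ⟨2757, 3321, 1000⟩⟩ (tB22.k2p tB22.xE) :=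
  posD_of_check (c := ⟨66, ⟨1, 1, 2, 2⟩⟩) (by decide +kernel)

def tB22_k2m : PosD ⟨⟨0, 1, 1⟩, ⟨98, 99, 147⟩, ⟨825, 1351, 10000⟩, ⟨2757, 3321, 1000⟩⟩ (tB22.k2m tB22.xE) :=
  posD_of_check (c := ⟨71, ⟨1, 1, 2, 2⟩⟩) (by decide +kernel)

def tB22_v2p : PosD ⟨⟨0, 1, 1⟩, ⟨98, 99, 147⟩, ⟨825, 1351, 10000⟩, ⟨2757, 3321, 1000⟩⟩ (tB22.hV2p) :=
  posD_of_check (c := ⟨261, ⟨1, 6, 10, 5⟩⟩) (by decide +kernel)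

def tB22_v2m : PosD ⟨⟨0, 1, 1⟩, ⟨98, 99, 147⟩, ⟨825, 1351, 10000⟩, ⟨2757, 3321, 1000⟩⟩ (tB22.hV2m) :=
  posD_of_check (c := ⟨266, ⟨1, 6, 10, 5⟩⟩) (by decide +kernel)

def tB22_v3p : PosD ⟨⟨0, 1, 1⟩, ⟨98, 99, 147⟩, ⟨825, 1351, 10000⟩, ⟨2757, 3321, 1000⟩⟩ (tB22.hV3p) :=
  posD_of_check (c := ⟨249, ⟨1, 6, 9, 5⟩⟩) (by decide +kernel)

def tB22_v3m : PosD ⟨⟨0, 1, 1⟩, ⟨98, 99, 147⟩, ⟨825, 1351, 10000⟩, ⟨2757, 3321, 1000⟩⟩ (tB22.hV3m) :=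
  posD_of_check (c := ⟨253, ⟨1, 6, 9, 5⟩⟩) (by decide +kernel)

def tB22_kap0 : PosD ⟨⟨0, 1, 1⟩, ⟨98, 99, 147⟩, ⟨825, 1351, 10000⟩, ⟨2757, 3321, 1000⟩⟩ (tB22.kap false) :=
  posD_of_check (c := ⟨72, ⟨1, 1, 2, 2⟩⟩) (by decide +kernel)

def tB22_c10 : PosD ⟨⟨0, 1, 1⟩, ⟨98, 99, 147⟩, ⟨825, 1351, 10000⟩, ⟨2757, 3321, 1000⟩⟩ (tB22.hC1 false) :=
  posD_of_check (c := ⟨270, ⟨3, 5, 9, 7⟩⟩) (by decide +kernel)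

def tB22_c1h0 : PosD ⟨⟨0, 1, 1⟩, ⟨98, 99, 147⟩, ⟨825, 1351, 10000⟩, ⟨2757, 3321, 1000⟩⟩ (tB22.hC1' false) :=
  posD_of_check (c := ⟨270, ⟨3, 5, 9, 7⟩⟩) (by decide +kernel)

def tB22_tg00 : PosD ⟨⟨0, 1, 1⟩, ⟨98, 99, 147⟩, ⟨825, 1351, 10000⟩, ⟨2757, 3321, 1000⟩⟩ (tB22.hG false (tB22.pEnd false)) :=
  posD_of_check (c := ⟨375, ⟨2, 7, 14, 9⟩⟩) (by decide +kernel)

def tB22_c2p00 : PosD ⟨⟨0, 1, 1⟩, ⟨98, 99, 147⟩, ⟨825, 1351, 10000⟩, ⟨2757, 3321, 1000⟩⟩ (tB22.hC2p false (tB22.pEnd false)) :=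
  posD_of_check (c := ⟨442, ⟨3, 8, 16, 11⟩⟩) (by decide +kernel)

def tB22_c2m00 : PosD ⟨⟨0, 1, 1⟩, ⟨98, 99, 147⟩, ⟨825, 1351, 10000⟩, ⟨2757, 3321, 1000⟩⟩ (tB22.hC2m false (tB22.pEnd false)) :=
  posD_of_check (c := ⟨446, ⟨3, 8, 16, 11⟩⟩) (by decide +kernel)

def tB22_c3p00 : PosD ⟨⟨0, 1, 1⟩, ⟨98, 99, 147⟩, ⟨825, 1351, 10000⟩, ⟨2757, 3321, 1000⟩⟩ (tB22.hC3p false false) :=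
  posD_of_check (c := ⟨435, ⟨3, 8, 15, 11⟩⟩) (by decide +kernel)

def tB22_c3m00 : PosD ⟨⟨0, 1, 1⟩, ⟨98, 99, 147⟩, ⟨825, 1351, 10000⟩, ⟨2757, 3321, 1000⟩⟩ (tB22.hC3m false false) :=
  posD_of_check (c := ⟨435, ⟨3, 8, 15, 11⟩⟩) (by decide +kernel)

def tB22_c3ph00 : PosD ⟨⟨0, 1, 1⟩, ⟨98, 99, 147⟩, ⟨825, 1351, 10000⟩, ⟨2757, 3321, 1000⟩⟩ (tB22.hC3p' false false) :=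
  posD_of_check (c := ⟨435, ⟨3, 8, 15, 11⟩⟩) (by decide +kernel)

def tB22_c3mh00 : PosD ⟨⟨0, 1, 1⟩, ⟨98, 99, 147⟩, ⟨825, 1351, 10000⟩, ⟨2757, 3321, 1000⟩⟩ (tB22.hC3m' false false) :=
  posD_of_check (c := ⟨435, ⟨3, 8, 15, 11⟩⟩) (by decide +kernel)

def tB22_up00 : PosD ⟨⟨0, 1, 1⟩, ⟨98, 99, 147⟩, ⟨825, 1351, 10000⟩, ⟨2757, 3321, 1000⟩⟩ (tB22.hUp false false) :=
  posD_of_check (c := ⟨430, ⟨3, 8, 15, 11⟩⟩) (by decide +kernel)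

def tB22_um00 : PosD ⟨⟨0, 1, 1⟩, ⟨98, 99, 147⟩, ⟨825, 1351, 10000⟩, ⟨2757, 3321, 1000⟩⟩ (tB22.hUm false false) :=
  posD_of_check (c := ⟨433, ⟨3, 8, 15, 11⟩⟩) (by decide +kernel)

def tB22_tmg00 : PosD ⟨⟨0, 1, 1⟩, ⟨98, 99, 147⟩, ⟨825, 1351, 10000⟩, ⟨2757, 3321, 1000⟩⟩ (tB22.hTMG false (tB22.pEnd false)) :=
  posD_of_check (c := ⟨390, ⟨2, 7, 14, 10⟩⟩) (by decide +kernel)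

def tB22_tg01 : PosD ⟨⟨0, 1, 1⟩, ⟨98, 99, 147⟩, ⟨825, 1351, 10000⟩, ⟨2757, 3321, 1000⟩⟩ (tB22.hG true (tB22.pEnd false)) :=
  posD_of_check (c := ⟨375, ⟨2, 7, 14, 9⟩⟩) (by decide +kernel)

def tB22_c2p01 : PosD ⟨⟨0, 1, 1⟩, ⟨98, 99, 147⟩, ⟨825, 1351, 10000⟩, ⟨2757, 3321, 1000⟩⟩ (tB22.hC2p true (tB22.pEnd false)) :=
  posD_of_check (c := ⟨442, ⟨3, 8, 16, 11⟩⟩) (by decide +kernel)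

def tB22_c2m01 : PosD ⟨⟨0, 1, 1⟩, ⟨98, 99, 147⟩, ⟨825, 1351, 10000⟩, ⟨2757, 3321, 1000⟩⟩ (tB22.hC2m true (tB22.pEnd false)) :=
  posD_of_check (c := ⟨446, ⟨3, 8, 16, 11⟩⟩) (by decide +kernel)

def tB22_c3p01 : PosD ⟨⟨0, 1, 1⟩, ⟨98, 99, 147⟩, ⟨825, 1351, 10000⟩, ⟨2757, 3321, 1000⟩⟩ (tB22.hC3p false true) :=
  posD_of_check (c := ⟨435, ⟨3, 8, 15, 11⟩⟩) (by decide +kernel)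

def tB22_c3m01 : PosD ⟨⟨0, 1, 1⟩, ⟨98, 99, 147⟩, ⟨825, 1351, 10000⟩, ⟨2757, 3321, 1000⟩⟩ (tB22.hC3m false true) :=
  posD_of_check (c := ⟨435, ⟨3, 8, 15, 11⟩⟩) (by decide +kernel)

def tB22_c3ph01 : PosD ⟨⟨0, 1, 1⟩, ⟨98, 99, 147⟩, ⟨825, 1351, 10000⟩, ⟨2757, 3321, 1000⟩⟩ (tB22.hC3p' false true) :=
  posD_of_check (c := ⟨435, ⟨3, 8, 15, 11⟩⟩) (by decide +kernel)

def tB22_c3mh01 : PosD ⟨⟨0, 1, 1⟩, ⟨98, 99, 147⟩, ⟨825, 1351, 10000⟩, ⟨2757, 3321, 1000⟩⟩ (tB22.hC3m' false true) :=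
  posD_of_check (c := ⟨435, ⟨3, 8, 15, 11⟩⟩) (by decide +kernel)

def tB22_up01 : PosD ⟨⟨0, 1, 1⟩, ⟨98, 99, 147⟩, ⟨825, 1351, 10000⟩, ⟨2757, 3321, 1000⟩⟩ (tB22.hUp false true) :=
  posD_of_check (c := ⟨430, ⟨3, 8, 15, 11⟩⟩) (by decide +kernel)

def tB22_um01 : PosD ⟨⟨0, 1, 1⟩, ⟨98, 99, 147⟩, ⟨825, 1351, 10000⟩, ⟨2757, 3321, 1000⟩⟩ (tB22.hUm false true) :=
  posD_of_check (c := ⟨434, ⟨3, 8, 15, 11⟩⟩) (by decide +kernel)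

def tB22_tmg01 : PosD ⟨⟨0, 1, 1⟩, ⟨98, 99, 147⟩, ⟨825, 1351, 10000⟩, ⟨2757, 3321, 1000⟩⟩ (tB22.hTMG true (tB22.pEnd false)) :=
  posD_of_check (c := ⟨390, ⟨2, 7, 14, 10⟩⟩) (by decide +kernel)

def tB22_kap1 : PosD ⟨⟨0, 1, 1⟩, ⟨98, 99, 147⟩, ⟨825, 1351, 10000⟩, ⟨2757, 3321, 1000⟩⟩ (tB22.kap true) :=
  posD_of_check (c := ⟨73, ⟨1, 1, 2, 2⟩⟩) (by decide +kernel)

def tB22_c11 : PosD ⟨⟨0, 1, 1⟩, ⟨98, 99, 147⟩, ⟨825, 1351, 10000⟩, ⟨2757, 3321, 1000⟩⟩ (tB22.hC1 true) :=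
  posD_of_check (c := ⟨270, ⟨3, 5, 9, 7⟩⟩) (by decide +kernel)

def tB22_c1h1 : PosD ⟨⟨0, 1, 1⟩, ⟨98, 99, 147⟩, ⟨825, 1351, 10000⟩, ⟨2757, 3321, 1000⟩⟩ (tB22.hC1' true) :=
  posD_of_check (c := ⟨270, ⟨3, 5, 9, 7⟩⟩) (by decide +kernel)

def tB22_tg10 : PosD ⟨⟨0, 1, 1⟩, ⟨98, 99, 147⟩, ⟨825, 1351, 10000⟩, ⟨2757, 3321, 1000⟩⟩ (tB22.hG false (tB22.pEnd true)) :=
  posD_of_check (c := ⟨374, ⟨2, 7, 14, 9⟩⟩) (by decide +kernel)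

def tB22_c2p10 : PosD ⟨⟨0, 1, 1⟩, ⟨98, 99, 147⟩, ⟨825, 1351, 10000⟩, ⟨2757, 3321, 1000⟩⟩ (tB22.hC2p false (tB22.pEnd true)) :=
  posD_of_check (c := ⟨441, ⟨3, 8, 16, 11⟩⟩) (by decide +kernel)

def tB22_c2m10 : PosD ⟨⟨0, 1, 1⟩, ⟨98, 99, 147⟩, ⟨825, 1351, 10000⟩, ⟨2757, 3321, 1000⟩⟩ (tB22.hC2m false (tB22.pEnd true)) :=
  posD_of_check (c := ⟨445, ⟨3, 8, 16, 11⟩⟩) (by decide +kernel)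

def tB22_c3p10 : PosD ⟨⟨0, 1, 1⟩, ⟨98, 99, 147⟩, ⟨825, 1351, 10000⟩, ⟨2757, 3321, 1000⟩⟩ (tB22.hC3p true false) :=
  posD_of_check (c := ⟨435, ⟨3, 8, 15, 11⟩⟩) (by decide +kernel)

def tB22_c3m10 : PosD ⟨⟨0, 1, 1⟩, ⟨98, 99, 147⟩, ⟨825, 1351, 10000⟩, ⟨2757, 3321, 1000⟩⟩ (tB22.hC3m true false) :=
  posD_of_check (c := ⟨435, ⟨3, 8, 15, 11⟩⟩) (by decide +kernel)

def tB22_c3ph10 : PosD ⟨⟨0, 1, 1⟩, ⟨98, 99, 147⟩, ⟨825, 1351, 10000⟩, ⟨2757, 3321, 1000⟩⟩ (tB22.hC3p' true false) :=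
  posD_of_check (c := ⟨435, ⟨3, 8, 15, 11⟩⟩) (by decide +kernel)

def tB22_c3mh10 : PosD ⟨⟨0, 1, 1⟩, ⟨98, 99, 147⟩, ⟨825, 1351, 10000⟩, ⟨2757, 3321, 1000⟩⟩ (tB22.hC3m' true false) :=
  posD_of_check (c := ⟨435, ⟨3, 8, 15, 11⟩⟩) (by decide +kernel)

def tB22_up10 : PosD ⟨⟨0, 1, 1⟩, ⟨98, 99, 147⟩, ⟨825, 1351, 10000⟩, ⟨2757, 3321, 1000⟩⟩ (tB22.hUp true false) :=
  posD_of_check (c := ⟨430, ⟨3, 8, 15, 11⟩⟩) (by decide +kernel)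

def tB22_um10 : PosD ⟨⟨0, 1, 1⟩, ⟨98, 99, 147⟩, ⟨825, 1351, 10000⟩, ⟨2757, 3321, 1000⟩⟩ (tB22.hUm true false) :=
  posD_of_check (c := ⟨433, ⟨3, 8, 15, 11⟩⟩) (by decide +kernel)

def tB22_tmg10 : PosD ⟨⟨0, 1, 1⟩, ⟨98, 99, 147⟩, ⟨825, 1351, 10000⟩, ⟨2757, 3321, 1000⟩⟩ (tB22.hTMG false (tB22.pEnd true)) :=
  posD_of_check (c := ⟨389, ⟨2, 7, 14, 10⟩⟩) (by decide +kernel)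

def tB22_tg11 : PosD ⟨⟨0, 1, 1⟩, ⟨98, 99, 147⟩, ⟨825, 1351, 10000⟩, ⟨2757, 3321, 1000⟩⟩ (tB22.hG true (tB22.pEnd true)) :=
  posD_of_check (c := ⟨374, ⟨2, 7, 14, 9⟩⟩) (by decide +kernel)

def tB22_c2p11 : PosD ⟨⟨0, 1, 1⟩, ⟨98, 99, 147⟩, ⟨825, 1351, 10000⟩, ⟨2757, 3321, 1000⟩⟩ (tB22.hC2p true (tB22.pEnd true)) :=
  posD_of_check (c := ⟨441, ⟨3, 8, 16, 11⟩⟩) (by decide +kernel)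

def tB22_c2m11 : PosD ⟨⟨0, 1, 1⟩, ⟨98, 99, 147⟩, ⟨825, 1351, 10000⟩, ⟨2757, 3321, 1000⟩⟩ (tB22.hC2m true (tB22.pEnd true)) :=
  posD_of_check (c := ⟨445, ⟨3, 8, 16, 11⟩⟩) (by decide +kernel)

def tB22_c3p11 : PosD ⟨⟨0, 1, 1⟩, ⟨98, 99, 147⟩, ⟨825, 1351, 10000⟩, ⟨2757, 3321, 1000⟩⟩ (tB22.hC3p true true) :=
  posD_of_check (c := ⟨435, ⟨3, 8, 15, 11⟩⟩) (by decide +kernel)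

def tB22_c3m11 : PosD ⟨⟨0, 1, 1⟩, ⟨98, 99, 147⟩, ⟨825, 1351, 10000⟩, ⟨2757, 3321, 1000⟩⟩ (tB22.hC3m true true) :=
  posD_of_check (c := ⟨435, ⟨3, 8, 15, 11⟩⟩) (by decide +kernel)

def tB22_c3ph11 : PosD ⟨⟨0, 1, 1⟩, ⟨98, 99, 147⟩, ⟨825, 1351, 10000⟩, ⟨2757, 3321, 1000⟩⟩ (tB22.hC3p' true true) :=
  posD_of_check (c := ⟨435, ⟨3, 8, 15, 11⟩⟩) (by decide +kernel)

def tB22_c3mh11 : PosD ⟨⟨0, 1, 1⟩, ⟨98, 99, 147⟩, ⟨825, 1351, 10000⟩, ⟨2757, 3321, 1000⟩⟩ (tB22.hC3m' true true) :=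
  posD_of_check (c := ⟨435, ⟨3, 8, 15, 11⟩⟩) (by decide +kernel)

def tB22_up11 : PosD ⟨⟨0, 1, 1⟩, ⟨98, 99, 147⟩, ⟨825, 1351, 10000⟩, ⟨2757, 3321, 1000⟩⟩ (tB22.hUp true true) :=
  posD_of_check (c := ⟨430, ⟨3, 8, 15, 11⟩⟩) (by decide +kernel)

def tB22_um11 : PosD ⟨⟨0, 1, 1⟩, ⟨98, 99, 147⟩, ⟨825, 1351, 10000⟩, ⟨2757, 3321, 1000⟩⟩ (tB22.hUm true true) :=
  posD_of_check (c := ⟨433, ⟨3, 8, 15, 11⟩⟩) (by decide +kernel)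

def tB22_tmg11 : PosD ⟨⟨0, 1, 1⟩, ⟨98, 99, 147⟩, ⟨825, 1351, 10000⟩, ⟨2757, 3321, 1000⟩⟩ (tB22.hTMG true (tB22.pEnd true)) :=
  posD_of_check (c := ⟨389, ⟨2, 7, 14, 10⟩⟩) (by decide +kernel)

/-- The signs of the piece. -/
def tB22_sign : tB22.Sign ⟨⟨0, 1, 1⟩, ⟨98, 99, 147⟩, ⟨825, 1351, 10000⟩, ⟨2757, 3321, 1000⟩⟩ :=
  ⟨tB22_pp,
    tB22_k2p,
    tB22_k2m,
    Bool.forall_bool.2 ⟨(Bool.forall_bool.2 ⟨tB22_tg00, tB22_tg01⟩), (Bool.forall_bool.2 ⟨tB22_tg10, tB22_tg11⟩)⟩,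
    Bool.forall_bool.2 ⟨(Bool.forall_bool.2 ⟨tB22_c2p00, tB22_c2p01⟩), (Bool.forall_bool.2 ⟨tB22_c2p10, tB22_c2p11⟩)⟩,
    Bool.forall_bool.2 ⟨(Bool.forall_bool.2 ⟨tB22_c2m00, tB22_c2m01⟩), (Bool.forall_bool.2 ⟨tB22_c2m10, tB22_c2m11⟩)⟩,
    Bool.forall_bool.2 ⟨tB22_kap0, tB22_kap1⟩,
    Bool.forall_bool.2 ⟨tB22_c10, tB22_c11⟩,
    Bool.forall_bool.2 ⟨(Bool.forall_bool.2 ⟨tB22_c3p00, tB22_c3p01⟩), (Bool.forall_bool.2 ⟨tB22_c3p10, tB22_c3p11⟩)⟩,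
    Bool.forall_bool.2 ⟨(Bool.forall_bool.2 ⟨tB22_c3m00, tB22_c3m01⟩), (Bool.forall_bool.2 ⟨tB22_c3m10, tB22_c3m11⟩)⟩,
    Bool.forall_bool.2 ⟨(Bool.forall_bool.2 ⟨tB22_tmg00, tB22_tmg01⟩), (Bool.forall_bool.2 ⟨tB22_tmg10, tB22_tmg11⟩)⟩,
    .inr (Bool.forall_bool.2 ⟨⟨tB22_c1h0, Bool.forall_bool.2 ⟨⟨tB22_c3ph00, tB22_c3mh00, tB22_up00, tB22_um00⟩, ⟨tB22_c3ph01, tB22_c3mh01, tB22_up01, tB22_um01⟩⟩⟩, ⟨tB22_c1h1, Bool.forall_bool.2 ⟨⟨tB22_c3ph10, tB22_c3mh10, tB22_up10, tB22_um10⟩, ⟨tB22_c3ph11, tB22_c3mh11, tB22_up11, tB22_um11⟩⟩⟩⟩),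
    tB22_v2p,
    tB22_v2m,
    tB22_v3p,
    tB22_v3m,
    posD_sub (b := ⟨⟨0, 1, 1⟩, ⟨98, 99, 147⟩, ⟨300, 1351, 10000⟩, ⟨290, 4000, 1000⟩⟩) (by decide +kernel) tB_vG,
    posD_sub (b := ⟨⟨0, 1, 1⟩, ⟨98, 99, 147⟩, ⟨300, 1351, 10000⟩, ⟨290, 4000, 1000⟩⟩) (by decide +kernel) tB_vMG,
    posD_sub (b := ⟨⟨0, 1, 1⟩, ⟨98, 99, 147⟩, ⟨300, 1351, 10000⟩, ⟨290, 4000, 1000⟩⟩) (by decide +kernel) tB_ak,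
    posD_sub (b := ⟨⟨0, 1, 1⟩, ⟨98, 99, 147⟩, ⟨300, 1351, 10000⟩, ⟨290, 4000, 1000⟩⟩) (by decide +kernel) tB_aw,
    posD_sub (b := ⟨⟨0, 1, 1⟩, ⟨98, 99, 147⟩, ⟨300, 1351, 10000⟩, ⟨290, 4000, 1000⟩⟩) (by decide +kernel) tB_gk,
    posD_sub (b := ⟨⟨0, 1, 1⟩, ⟨98, 99, 147⟩, ⟨300, 1351, 10000⟩, ⟨290, 4000, 1000⟩⟩) (by decide +kernel) tB_gw,
    posD_sub (b := ⟨⟨0, 1, 1⟩, ⟨98, 99, 147⟩, ⟨300, 1351, 10000⟩, ⟨290, 4000, 1000⟩⟩) (by decide +kernel) tB_ek,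
    posD_sub (b := ⟨⟨0, 1, 1⟩, ⟨98, 99, 147⟩, ⟨300, 1351, 10000⟩, ⟨290, 4000, 1000⟩⟩) (by decide +kernel) tB_ew⟩

def tB23_phx : PosD ⟨⟨0, 1, 1⟩, ⟨98, 99, 147⟩, ⟨300, 1351, 10000⟩, ⟨1500, 4000, 1000⟩⟩ (phBn (tB23Hi + xO * (tB23Lo - tB23Hi))) :=
  posD_of_check (c := ⟨61, ⟨2, 0, 2, 1⟩⟩) (by decide +kernel)

def tB23_phd : PosD ⟨⟨0, 1, 1⟩, ⟨98, 99, 147⟩, ⟨300, 1351, 10000⟩, ⟨1500, 4000, 1000⟩⟩ (phBd (tB23Hi + xO * (tB23Lo - tB23Hi))) :=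
  posD_of_check (c := ⟨47, ⟨1, 0, 2, 0⟩⟩) (by decide +kernel)

end Vale.Agent.P100.Calib.Closed.Six.Tail
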