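import Vale.Agent.P100.Calib.SlabSixTailDataB
import Vale.Agent.P100.Calib.SlabSixTailGlobB

/-!
# Checks of some pieces of the certificate

The checks are written as definitions so that they run one after another, which keeps the memory of the
kernel low.
-/

set_option linter.defProp false

namespace Vale.Agent.P100.Calib.Closed.Six.Tail

open BoxPos Large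

local instance sixTailCheckstB2Add : Add Ex := ⟨Ex.add⟩
local instance sixTailCheckstB2Sub : Sub Ex := ⟨Ex.sub⟩
local instance sixTailCheckstB2Mul : Mul Ex := ⟨Ex.mul⟩

def tB2_phxaa : PosIf ⟨⟨0, 1, 1⟩, ⟨98, 99, 147⟩, ⟨300, 1351, 10000⟩, ⟨900, 965, 1000⟩⟩ (tB2.u₁ - tB2Lo) (phBn (tB2.u₁ + xO * (tB2Lo - tB2.u₁))) :=
  posIf_of_mul (k := 1) (n := 1) (posD_of_check (c := ⟨100, ⟨2, 0, 4, 2⟩⟩) (by decide +kernel))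

def tB2_phxaba : PosIf ⟨⟨0, 1, 1⟩, ⟨98, 99, 147⟩, ⟨300, 1351, 10000⟩, ⟨965, 998, 1000⟩⟩ (tB2.u₁ - tB2Lo) (phBn (tB2.u₁ + xO * (tB2Lo - tB2.u₁))) :=
  posIf_of_mul (k := 1) (n := 1) (posD_of_check (c := ⟨100, ⟨2, 0, 4, 2⟩⟩) (by decide +kernel))

def tB2_phxabbaa : PosIf ⟨⟨0, 1, 1⟩, ⟨98, 99, 147⟩, ⟨300, 825, 10000⟩, ⟨998, 1014, 1000⟩⟩ (tB2.u₁ - tB2Lo) (phBn (tB2.u₁ + xO * (tB2Lo - tB2.u₁))) :=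
  posIf_of_mul (k := 1) (n := 2) (posD_of_check (c := ⟨100, ⟨2, 0, 4, 2⟩⟩) (by decide +kernel))

def tB2_phxabbab : PosIf ⟨⟨0, 1, 1⟩, ⟨98, 99, 147⟩, ⟨300, 825, 10000⟩, ⟨1014, 1031, 1000⟩⟩ (tB2.u₁ - tB2Lo) (phBn (tB2.u₁ + xO * (tB2Lo - tB2.u₁))) :=
  posIf_of_posD (posD_of_check (c := ⟨100, ⟨2, 0, 4, 2⟩⟩) (by decide +kernel))

def tB2_phxabba : PosIf ⟨⟨0, 1, 1⟩, ⟨98, 99, 147⟩, ⟨300, 825, 10000⟩, ⟨998, 1031, 1000⟩⟩ (tB2.u₁ - tB2Lo) (phBn (tB2.u₁ + xO * (tB2Lo - tB2.u₁))) :=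
  posIf_join₃ tB2_phxabbaa tB2_phxabbab

def tB2_phxabbbaa : PosIf ⟨⟨0, 1, 1⟩, ⟨98, 99, 147⟩, ⟨825, 1088, 10000⟩, ⟨998, 1014, 1000⟩⟩ (tB2.u₁ - tB2Lo) (phBn (tB2.u₁ + xO * (tB2Lo - tB2.u₁))) :=
  posIf_of_mul (k := 1) (n := 2) (posD_of_check (c := ⟨100, ⟨2, 0, 4, 2⟩⟩) (by decide +kernel))

def tB2_phxabbbab : PosIf ⟨⟨0, 1, 1⟩, ⟨98, 99, 147⟩, ⟨1088, 1351, 10000⟩, ⟨998, 1014, 1000⟩⟩ (tB2.u₁ - tB2Lo) (phBn (tB2.u₁ + xO * (tB2Lo - tB2.u₁))) :=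
  posIf_of_posD (posD_of_check (c := ⟨101, ⟨2, 0, 4, 2⟩⟩) (by decide +kernel))

def tB2_phxabbba : PosIf ⟨⟨0, 1, 1⟩, ⟨98, 99, 147⟩, ⟨825, 1351, 10000⟩, ⟨998, 1014, 1000⟩⟩ (tB2.u₁ - tB2Lo) (phBn (tB2.u₁ + xO * (tB2Lo - tB2.u₁))) :=
  posIf_join₂ tB2_phxabbbaa tB2_phxabbbab

def tB2_phxabbbb : PosIf ⟨⟨0, 1, 1⟩, ⟨98, 99, 147⟩, ⟨825, 1351, 10000⟩, ⟨1014, 1031, 1000⟩⟩ (tB2.u₁ - tB2Lo) (phBn (tB2.u₁ + xO * (tB2Lo - tB2.u₁))) :=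
  posIf_of_posD (posD_of_check (c := ⟨100, ⟨2, 0, 4, 2⟩⟩) (by decide +kernel))

def tB2_phxabbb : PosIf ⟨⟨0, 1, 1⟩, ⟨98, 99, 147⟩, ⟨825, 1351, 10000⟩, ⟨998, 1031, 1000⟩⟩ (tB2.u₁ - tB2Lo) (phBn (tB2.u₁ + xO * (tB2Lo - tB2.u₁))) :=
  posIf_join₃ tB2_phxabbba tB2_phxabbbb

def tB2_phxabb : PosIf ⟨⟨0, 1, 1⟩, ⟨98, 99, 147⟩, ⟨300, 1351, 10000⟩, ⟨998, 1031, 1000⟩⟩ (tB2.u₁ - tB2Lo) (phBn (tB2.u₁ + xO * (tB2Lo - tB2.u₁))) :=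
  posIf_join₂ tB2_phxabba tB2_phxabbb

def tB2_phxab : PosIf ⟨⟨0, 1, 1⟩, ⟨98, 99, 147⟩, ⟨300, 1351, 10000⟩, ⟨965, 1031, 1000⟩⟩ (tB2.u₁ - tB2Lo) (phBn (tB2.u₁ + xO * (tB2Lo - tB2.u₁))) :=
  posIf_join₃ tB2_phxaba tB2_phxabb

def tB2_phxa : PosIf ⟨⟨0, 1, 1⟩, ⟨98, 99, 147⟩, ⟨300, 1351, 10000⟩, ⟨900, 1031, 1000⟩⟩ (tB2.u₁ - tB2Lo) (phBn (tB2.u₁ + xO * (tB2Lo - tB2.u₁))) :=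
  posIf_join₃ tB2_phxaa tB2_phxab

def tB2_phxba : PosIf ⟨⟨0, 1, 1⟩, ⟨98, 99, 147⟩, ⟨300, 825, 10000⟩, ⟨1031, 1162, 1000⟩⟩ (tB2.u₁ - tB2Lo) (phBn (tB2.u₁ + xO * (tB2Lo - tB2.u₁))) :=
  posIf_of_posD (posD_of_check (c := ⟨100, ⟨2, 0, 4, 2⟩⟩) (by decide +kernel))

def tB2_phxbb : PosIf ⟨⟨0, 1, 1⟩, ⟨98, 99, 147⟩, ⟨825, 1351, 10000⟩, ⟨1031, 1162, 1000⟩⟩ (tB2.u₁ - tB2Lo) (phBn (tB2.u₁ + xO * (tB2Lo - tB2.u₁))) :=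
  posIf_of_posD (posD_of_check (c := ⟨101, ⟨2, 0, 4, 2⟩⟩) (by decide +kernel))

def tB2_phxb : PosIf ⟨⟨0, 1, 1⟩, ⟨98, 99, 147⟩, ⟨300, 1351, 10000⟩, ⟨1031, 1162, 1000⟩⟩ (tB2.u₁ - tB2Lo) (phBn (tB2.u₁ + xO * (tB2Lo - tB2.u₁))) :=
  posIf_join₂ tB2_phxba tB2_phxbb

def tB2_phx : PosIf ⟨⟨0, 1, 1⟩, ⟨98, 99, 147⟩, ⟨300, 1351, 10000⟩, ⟨900, 1162, 1000⟩⟩ (tB2.u₁ - tB2Lo) (phBn (tB2.u₁ + xO * (tB2Lo - tB2.u₁))) :=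
  posIf_join₃ tB2_phxa tB2_phxb

def tB2_phd : PosD ⟨⟨0, 1, 1⟩, ⟨98, 99, 147⟩, ⟨300, 1351, 10000⟩, ⟨900, 1162, 1000⟩⟩ (phBd (tB2.u₁ + xO * (tB2Lo - tB2.u₁))) :=
  posD_of_check (c := ⟨48, ⟨1, 0, 2, 1⟩⟩) (by decide +kernel)

def tB2_p0 : PosD ⟨⟨0, 1, 1⟩, ⟨98, 99, 147⟩, ⟨300, 1351, 10000⟩, ⟨900, 1162, 1000⟩⟩ (tB2.hP0) :=
  posD_of_check (c := ⟨81, ⟨0, 2, 3, 1⟩⟩) (by decide +kernel)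

def tB2_gn : PosD ⟨⟨0, 1, 1⟩, ⟨98, 99, 147⟩, ⟨300, 1351, 10000⟩, ⟨900, 1162, 1000⟩⟩ (tB2.hGn) :=
  posD_of_check (c := ⟨65, ⟨1, 1, 2, 2⟩⟩) (by decide +kernel)

def tB2_den0 : PosD ⟨⟨0, 1, 1⟩, ⟨98, 99, 147⟩, ⟨300, 1351, 10000⟩, ⟨900, 1162, 1000⟩⟩ (tB2.hDen false) :=
  posD_of_check (c := ⟨48, ⟨1, 0, 2, 1⟩⟩) (by decide +kernel)

def tB2_den1 : PosD ⟨⟨0, 1, 1⟩, ⟨98, 99, 147⟩, ⟨300, 1351, 10000⟩, ⟨900, 1162, 1000⟩⟩ (tB2.hDen true) :=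
  posD_of_check (c := ⟨48, ⟨1, 0, 2, 1⟩⟩) (by decide +kernel)

def tB2_ev0 : PosD ⟨⟨0, 1, 1⟩, ⟨98, 99, 147⟩, ⟨300, 1351, 10000⟩, ⟨900, 1162, 1000⟩⟩ (tB2.hEv false) :=
  posD_of_check (c := ⟨205, ⟨4, 2, 8, 4⟩⟩) (by decide +kernel)

def tB2_zL0 : PosD ⟨⟨0, 1, 1⟩, ⟨98, 99, 147⟩, ⟨300, 1351, 10000⟩, ⟨900, 1162, 1000⟩⟩ (tB2.hZL false) :=
  posD_of_check (c := ⟨208, ⟨4, 3, 8, 4⟩⟩) (by decide +kernel)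

def tB2_zU0a : PosD ⟨⟨0, 1, 2⟩, ⟨98, 99, 147⟩, ⟨300, 1351, 10000⟩, ⟨900, 1162, 1000⟩⟩ (tB2.hZU false) :=
  posD_of_check (c := ⟨212, ⟨4, 3, 8, 4⟩⟩) (by decide +kernel)

def tB2_zU0ba : PosD ⟨⟨2, 3, 4⟩, ⟨98, 99, 147⟩, ⟨300, 1351, 10000⟩, ⟨900, 1162, 1000⟩⟩ (tB2.hZU false) :=
  posD_of_check (c := ⟨217, ⟨4, 3, 8, 4⟩⟩) (by decide +kernel)

def tB2_zU0bba : PosD ⟨⟨6, 7, 8⟩, ⟨98, 99, 147⟩, ⟨300, 1351, 10000⟩, ⟨900, 1162, 1000⟩⟩ (tB2.hZU false) :=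
  posD_of_check (c := ⟨222, ⟨4, 3, 8, 4⟩⟩) (by decide +kernel)

def tB2_zU0bbba : PosD ⟨⟨14, 15, 16⟩, ⟨98, 99, 147⟩, ⟨300, 1351, 10000⟩, ⟨900, 1162, 1000⟩⟩ (tB2.hZU false) :=
  posD_of_check (c := ⟨226, ⟨4, 3, 8, 4⟩⟩) (by decide +kernel)

def tB2_zU0bbbba : PosD ⟨⟨30, 31, 32⟩, ⟨98, 99, 147⟩, ⟨300, 1351, 10000⟩, ⟨900, 1162, 1000⟩⟩ (tB2.hZU false) :=
  posD_of_check (c := ⟨230, ⟨4, 3, 8, 4⟩⟩) (by decide +kernel)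

def tB2_zU0bbbbbaa : PosD ⟨⟨31, 32, 32⟩, ⟨98, 99, 147⟩, ⟨300, 825, 10000⟩, ⟨900, 1031, 1000⟩⟩ (tB2.hZU false) :=
  posD_of_check (c := ⟨229, ⟨4, 3, 8, 4⟩⟩) (by decide +kernel)

def tB2_zU0bbbbbab : PosD ⟨⟨31, 32, 32⟩, ⟨98, 99, 147⟩, ⟨825, 1351, 10000⟩, ⟨900, 1031, 1000⟩⟩ (tB2.hZU false) :=
  posD_of_check (c := ⟨231, ⟨4, 3, 8, 4⟩⟩) (by decide +kernel)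

def tB2_zU0bbbbba : PosD ⟨⟨31, 32, 32⟩, ⟨98, 99, 147⟩, ⟨300, 1351, 10000⟩, ⟨900, 1031, 1000⟩⟩ (tB2.hZU false) :=
  posD_join₂ tB2_zU0bbbbbaa tB2_zU0bbbbbab

def tB2_zU0bbbbbba : PosD ⟨⟨31, 32, 32⟩, ⟨98, 99, 147⟩, ⟨300, 825, 10000⟩, ⟨1031, 1162, 1000⟩⟩ (tB2.hZU false) :=
  posD_of_check (c := ⟨229, ⟨4, 3, 8, 4⟩⟩) (by decide +kernel)

def tB2_zU0bbbbbbb : PosD ⟨⟨31, 32, 32⟩, ⟨98, 99, 147⟩, ⟨825, 1351, 10000⟩, ⟨1031, 1162, 1000⟩⟩ (tB2.hZU false) :=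
  posD_of_check (c := ⟨231, ⟨4, 3, 8, 4⟩⟩) (by decide +kernel)

def tB2_zU0bbbbbb : PosD ⟨⟨31, 32, 32⟩, ⟨98, 99, 147⟩, ⟨300, 1351, 10000⟩, ⟨1031, 1162, 1000⟩⟩ (tB2.hZU false) :=
  posD_join₂ tB2_zU0bbbbbba tB2_zU0bbbbbbb

def tB2_zU0bbbbb : PosD ⟨⟨31, 32, 32⟩, ⟨98, 99, 147⟩, ⟨300, 1351, 10000⟩, ⟨900, 1162, 1000⟩⟩ (tB2.hZU false) :=
  posD_join₃ tB2_zU0bbbbba tB2_zU0bbbbbb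

def tB2_zU0bbbb : PosD ⟨⟨15, 16, 16⟩, ⟨98, 99, 147⟩, ⟨300, 1351, 10000⟩, ⟨900, 1162, 1000⟩⟩ (tB2.hZU false) :=
  posD_units (b := ⟨⟨30, 32, 32⟩, ⟨98, 99, 147⟩, ⟨300, 1351, 10000⟩, ⟨900, 1162, 1000⟩⟩) (by decide +kernel) (posD_join₀ tB2_zU0bbbba tB2_zU0bbbbb)

def tB2_zU0bbb : PosD ⟨⟨7, 8, 8⟩, ⟨98, 99, 147⟩, ⟨300, 1351, 10000⟩, ⟨900, 1162, 1000⟩⟩ (tB2.hZU false) :=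
  posD_units (b := ⟨⟨14, 16, 16⟩, ⟨98, 99, 147⟩, ⟨300, 1351, 10000⟩, ⟨900, 1162, 1000⟩⟩) (by decide +kernel) (posD_join₀ tB2_zU0bbba tB2_zU0bbbb)

def tB2_zU0bb : PosD ⟨⟨3, 4, 4⟩, ⟨98, 99, 147⟩, ⟨300, 1351, 10000⟩, ⟨900, 1162, 1000⟩⟩ (tB2.hZU false) :=
  posD_units (b := ⟨⟨6, 8, 8⟩, ⟨98, 99, 147⟩, ⟨300, 1351, 10000⟩, ⟨900, 1162, 1000⟩⟩) (by decide +kernel) (posD_join₀ tB2_zU0bba tB2_zU0bbb)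

def tB2_zU0b : PosD ⟨⟨1, 2, 2⟩, ⟨98, 99, 147⟩, ⟨300, 1351, 10000⟩, ⟨900, 1162, 1000⟩⟩ (tB2.hZU false) :=
  posD_units (b := ⟨⟨2, 4, 4⟩, ⟨98, 99, 147⟩, ⟨300, 1351, 10000⟩, ⟨900, 1162, 1000⟩⟩) (by decide +kernel) (posD_join₀ tB2_zU0ba tB2_zU0bb)

def tB2_zU0 : PosD ⟨⟨0, 1, 1⟩, ⟨98, 99, 147⟩, ⟨300, 1351, 10000⟩, ⟨900, 1162, 1000⟩⟩ (tB2.hZU false) :=
  posD_units (b := ⟨⟨0, 2, 2⟩, ⟨98, 99, 147⟩, ⟨300, 1351, 10000⟩, ⟨900, 1162, 1000⟩⟩) (by decide +kernel) (posD_join₀ tB2_zU0a tB2_zU0b)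

def tB2_eL0 : PosD ⟨⟨0, 1, 1⟩, ⟨98, 99, 147⟩, ⟨300, 1351, 10000⟩, ⟨900, 1162, 1000⟩⟩ (tB2.hEL false) :=
  posD_of_check (c := ⟨298, ⟨5, 6, 11, 6⟩⟩) (by decide +kernel)

def tB2_eH0 : PosD ⟨⟨0, 1, 1⟩, ⟨98, 99, 147⟩, ⟨300, 1351, 10000⟩, ⟨900, 1162, 1000⟩⟩ (tB2.hEH false) :=
  posD_of_check (c := ⟨298, ⟨5, 6, 11, 6⟩⟩) (by decide +kernel)

def tB2_pL0a : PosD ⟨⟨0, 1, 1⟩, ⟨98, 99, 147⟩, ⟨300, 825, 10000⟩, ⟨900, 1162, 1000⟩⟩ (tB2.hPL false) :=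
  posD_of_check (c := ⟨322, ⟨5, 6, 11, 7⟩⟩) (by decide +kernel)

def tB2_pL0b : PosD ⟨⟨0, 1, 1⟩, ⟨98, 99, 147⟩, ⟨825, 1351, 10000⟩, ⟨900, 1162, 1000⟩⟩ (tB2.hPL false) :=
  posD_of_check (c := ⟨323, ⟨5, 6, 11, 7⟩⟩) (by decide +kernel)

def tB2_pL0 : PosD ⟨⟨0, 1, 1⟩, ⟨98, 99, 147⟩, ⟨300, 1351, 10000⟩, ⟨900, 1162, 1000⟩⟩ (tB2.hPL false) :=
  posD_join₂ tB2_pL0a tB2_pL0b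

def tB2_pU0 : PosD ⟨⟨0, 1, 1⟩, ⟨98, 99, 147⟩, ⟨300, 1351, 10000⟩, ⟨900, 1162, 1000⟩⟩ (tB2.hPU false) :=
  posD_of_check (c := ⟨323, ⟨5, 6, 11, 7⟩⟩) (by decide +kernel)

def tB2_kU0 : PosD ⟨⟨0, 1, 1⟩, ⟨98, 99, 147⟩, ⟨300, 1351, 10000⟩, ⟨900, 1162, 1000⟩⟩ (tB2.hKU false) :=
  posD_of_check (c := ⟨319, ⟨5, 6, 11, 7⟩⟩) (by decide +kernel)

def tB2_kL0 : PosD ⟨⟨0, 1, 1⟩, ⟨98, 99, 147⟩, ⟨300, 1351, 10000⟩, ⟨900, 1162, 1000⟩⟩ (tB2.hKL false) :=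
  posD_of_check (c := ⟨319, ⟨5, 6, 11, 7⟩⟩) (by decide +kernel)

def tB2_wU0 : PosD ⟨⟨0, 1, 1⟩, ⟨98, 99, 147⟩, ⟨300, 1351, 10000⟩, ⟨900, 1162, 1000⟩⟩ (tB2.hWU false) :=
  posD_of_check (c := ⟨356, ⟨5, 8, 12, 7⟩⟩) (by decide +kernel)

def tB2_wL0a : PosD ⟨⟨0, 1, 2⟩, ⟨98, 99, 147⟩, ⟨300, 1351, 10000⟩, ⟨900, 1162, 1000⟩⟩ (tB2.hWL false) :=
  posD_of_check (c := ⟨359, ⟨5, 8, 12, 7⟩⟩) (by decide +kernel)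

def tB2_wL0ba : PosD ⟨⟨1, 2, 2⟩, ⟨98, 99, 147⟩, ⟨300, 1351, 10000⟩, ⟨900, 1031, 1000⟩⟩ (tB2.hWL false) :=
  posD_of_check (c := ⟨361, ⟨5, 8, 12, 7⟩⟩) (by decide +kernel)

def tB2_wL0bb : PosD ⟨⟨1, 2, 2⟩, ⟨98, 99, 147⟩, ⟨300, 1351, 10000⟩, ⟨1031, 1162, 1000⟩⟩ (tB2.hWL false) :=
  posD_of_check (c := ⟨362, ⟨5, 8, 12, 7⟩⟩) (by decide +kernel)

def tB2_wL0b : PosD ⟨⟨1, 2, 2⟩, ⟨98, 99, 147⟩, ⟨300, 1351, 10000⟩, ⟨900, 1162, 1000⟩⟩ (tB2.hWL false) :=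
  posD_join₃ tB2_wL0ba tB2_wL0bb

def tB2_wL0 : PosD ⟨⟨0, 1, 1⟩, ⟨98, 99, 147⟩, ⟨300, 1351, 10000⟩, ⟨900, 1162, 1000⟩⟩ (tB2.hWL false) :=
  posD_units (b := ⟨⟨0, 2, 2⟩, ⟨98, 99, 147⟩, ⟨300, 1351, 10000⟩, ⟨900, 1162, 1000⟩⟩) (by decide +kernel) (posD_join₀ tB2_wL0a tB2_wL0b)

def tB2_ev1 : PosD ⟨⟨0, 1, 1⟩, ⟨98, 99, 147⟩, ⟨300, 1351, 10000⟩, ⟨900, 1162, 1000⟩⟩ (tB2.hEv true) :=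
  posD_of_check (c := ⟨204, ⟨4, 2, 8, 4⟩⟩) (by decide +kernel)

def tB2_zL1aa : PosD ⟨⟨0, 1, 1⟩, ⟨98, 99, 147⟩, ⟨300, 562, 10000⟩, ⟨900, 1162, 1000⟩⟩ (tB2.hZL true) :=
  posD_of_check (c := ⟨207, ⟨4, 3, 8, 4⟩⟩) (by decide +kernel)

def tB2_zL1ab : PosD ⟨⟨0, 1, 1⟩, ⟨98, 99, 147⟩, ⟨562, 825, 10000⟩, ⟨900, 1162, 1000⟩⟩ (tB2.hZL true) :=
  posD_of_check (c := ⟨207, ⟨4, 3, 8, 4⟩⟩) (by decide +kernel)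

def tB2_zL1a : PosD ⟨⟨0, 1, 1⟩, ⟨98, 99, 147⟩, ⟨300, 825, 10000⟩, ⟨900, 1162, 1000⟩⟩ (tB2.hZL true) :=
  posD_join₂ tB2_zL1aa tB2_zL1ab

def tB2_zL1b : PosD ⟨⟨0, 1, 1⟩, ⟨98, 99, 147⟩, ⟨825, 1351, 10000⟩, ⟨900, 1162, 1000⟩⟩ (tB2.hZL true) :=
  posD_of_check (c := ⟨208, ⟨4, 3, 8, 4⟩⟩) (by decide +kernel)

def tB2_zL1 : PosD ⟨⟨0, 1, 1⟩, ⟨98, 99, 147⟩, ⟨300, 1351, 10000⟩, ⟨900, 1162, 1000⟩⟩ (tB2.hZL true) :=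
  posD_join₂ tB2_zL1a tB2_zL1b

def tB2_zU1 : PosD ⟨⟨0, 1, 1⟩, ⟨98, 99, 147⟩, ⟨300, 1351, 10000⟩, ⟨900, 1162, 1000⟩⟩ (tB2.hZU true) :=
  posD_of_check (c := ⟨208, ⟨4, 3, 8, 4⟩⟩) (by decide +kernel)

def tB2_eL1 : PosD ⟨⟨0, 1, 1⟩, ⟨98, 99, 147⟩, ⟨300, 1351, 10000⟩, ⟨900, 1162, 1000⟩⟩ (tB2.hEL true) :=
  posD_of_check (c := ⟨298, ⟨5, 6, 11, 6⟩⟩) (by decide +kernel)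

def tB2_eH1 : PosD ⟨⟨0, 1, 1⟩, ⟨98, 99, 147⟩, ⟨300, 1351, 10000⟩, ⟨900, 1162, 1000⟩⟩ (tB2.hEH true) :=
  posD_of_check (c := ⟨297, ⟨5, 6, 11, 6⟩⟩) (by decide +kernel)

def tB2_pL1 : PosD ⟨⟨0, 1, 1⟩, ⟨98, 99, 147⟩, ⟨300, 1351, 10000⟩, ⟨900, 1162, 1000⟩⟩ (tB2.hPL true) :=
  posD_of_check (c := ⟨322, ⟨5, 6, 11, 7⟩⟩) (by decide +kernel)

def tB2_pU1a : PosD ⟨⟨0, 1, 2⟩, ⟨98, 99, 147⟩, ⟨300, 1351, 10000⟩, ⟨900, 1162, 1000⟩⟩ (tB2.hPU true) :=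
  posD_of_check (c := ⟨326, ⟨5, 6, 11, 7⟩⟩) (by decide +kernel)

def tB2_pU1b : PosD ⟨⟨1, 2, 2⟩, ⟨98, 99, 147⟩, ⟨300, 1351, 10000⟩, ⟨900, 1162, 1000⟩⟩ (tB2.hPU true) :=
  posD_of_check (c := ⟨328, ⟨5, 6, 11, 7⟩⟩) (by decide +kernel)

def tB2_pU1 : PosD ⟨⟨0, 1, 1⟩, ⟨98, 99, 147⟩, ⟨300, 1351, 10000⟩, ⟨900, 1162, 1000⟩⟩ (tB2.hPU true) :=
  posD_units (b := ⟨⟨0, 2, 2⟩, ⟨98, 99, 147⟩, ⟨300, 1351, 10000⟩, ⟨900, 1162, 1000⟩⟩) (by decide +kernel) (posD_join₀ tB2_pU1a tB2_pU1b)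

def tB2_kU1 : PosD ⟨⟨0, 1, 1⟩, ⟨98, 99, 147⟩, ⟨300, 1351, 10000⟩, ⟨900, 1162, 1000⟩⟩ (tB2.hKU true) :=
  posD_of_check (c := ⟨318, ⟨5, 6, 11, 7⟩⟩) (by decide +kernel)

def tB2_kL1 : PosD ⟨⟨0, 1, 1⟩, ⟨98, 99, 147⟩, ⟨300, 1351, 10000⟩, ⟨900, 1162, 1000⟩⟩ (tB2.hKL true) :=
  posD_of_check (c := ⟨318, ⟨5, 6, 11, 7⟩⟩) (by decide +kernel)

def tB2_wU1aa : PosD ⟨⟨0, 1, 4⟩, ⟨98, 99, 147⟩, ⟨300, 1351, 10000⟩, ⟨900, 1162, 1000⟩⟩ (tB2.hWU true) :=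
  posD_of_check (c := ⟨363, ⟨5, 8, 12, 7⟩⟩) (by decide +kernel)

def tB2_wU1ab : PosD ⟨⟨1, 2, 4⟩, ⟨98, 99, 147⟩, ⟨300, 1351, 10000⟩, ⟨900, 1162, 1000⟩⟩ (tB2.hWU true) :=
  posD_of_check (c := ⟨364, ⟨5, 8, 12, 7⟩⟩) (by decide +kernel)

def tB2_wU1a : PosD ⟨⟨0, 1, 2⟩, ⟨98, 99, 147⟩, ⟨300, 1351, 10000⟩, ⟨900, 1162, 1000⟩⟩ (tB2.hWU true) :=
  posD_units (b := ⟨⟨0, 2, 4⟩, ⟨98, 99, 147⟩, ⟨300, 1351, 10000⟩, ⟨900, 1162, 1000⟩⟩) (by decide +kernel) (posD_join₀ tB2_wU1aa tB2_wU1ab)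

def tB2_wU1b : PosD ⟨⟨1, 2, 2⟩, ⟨98, 99, 147⟩, ⟨300, 1351, 10000⟩, ⟨900, 1162, 1000⟩⟩ (tB2.hWU true) :=
  posD_of_check (c := ⟨361, ⟨5, 8, 12, 7⟩⟩) (by decide +kernel)

def tB2_wU1 : PosD ⟨⟨0, 1, 1⟩, ⟨98, 99, 147⟩, ⟨300, 1351, 10000⟩, ⟨900, 1162, 1000⟩⟩ (tB2.hWU true) :=
  posD_units (b := ⟨⟨0, 2, 2⟩, ⟨98, 99, 147⟩, ⟨300, 1351, 10000⟩, ⟨900, 1162, 1000⟩⟩) (by decide +kernel) (posD_join₀ tB2_wU1a tB2_wU1b)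

def tB2_wL1 : PosD ⟨⟨0, 1, 1⟩, ⟨98, 99, 147⟩, ⟨300, 1351, 10000⟩, ⟨900, 1162, 1000⟩⟩ (tB2.hWL true) :=
  posD_of_check (c := ⟨355, ⟨5, 8, 12, 7⟩⟩) (by decide +kernel)

/-- The bounds of the piece. -/
def tB2_env : tB2.Env ⟨⟨0, 1, 1⟩, ⟨98, 99, 147⟩, ⟨300, 1351, 10000⟩, ⟨900, 1162, 1000⟩⟩ :=
  ⟨tB2_p0, Bool.forall_bool.2 ⟨tB2_den0, tB2_den1⟩, tB2_gn, Bool.forall_bool.2 ⟨tB2_ev0, tB2_ev1⟩, Bool.forall_bool.2 ⟨tB2_zL0, tB2_zL1⟩, Bool.forall_bool.2 ⟨tB2_zU0, tB2_zU1⟩, Bool.forall_bool.2 ⟨tB2_eL0, tB2_eL1⟩, ⟨.inr rfl, .inr rfl⟩, Bool.forall_bool.2 ⟨tB2_eH0, tB2_eH1⟩, ⟨.inr rfl, .inr rfl⟩, Bool.forall_bool.2 ⟨tB2_pL0, tB2_pL1⟩, ⟨.inr rfl, .inr rfl⟩, Bool.forall_bool.2 ⟨tB2_pU0, tB2_pU1⟩, ⟨.inr rfl, .inr rfl⟩,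 Bool.forall_bool.2 ⟨tB2_kU0, tB2_kU1⟩, ⟨.inr rfl, .inr rfl⟩, Bool.forall_bool.2 ⟨tB2_kL0, tB2_kL1⟩, ⟨.inr rfl, .inr rfl⟩, Bool.forall_bool.2 ⟨tB2_wU0, tB2_wU1⟩, ⟨.inr rfl, .inr rfl⟩, Bool.forall_bool.2 ⟨tB2_wL0, tB2_wL1⟩, ⟨.inr rfl, .inr rfl⟩⟩

def tB2_pp : PosD ⟨⟨0, 1, 1⟩, ⟨98, 99, 147⟩, ⟨300, 1351, 10000⟩, ⟨900, 1162, 1000⟩⟩ (tB2.xPL) :=
  posD_of_check (c := ⟨91, ⟨1, 1, 3, 3⟩⟩) (by decide +kernel)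

def tB2_k2p : PosD ⟨⟨0, 1, 1⟩, ⟨98, 99, 147⟩, ⟨300, 1351, 10000⟩, ⟨900, 1162, 1000⟩⟩ (tB2.k2p tB2.xE) :=
  posD_of_check (c := ⟨68, ⟨1, 1, 2, 2⟩⟩) (by decide +kernel)

def tB2_k2m : PosD ⟨⟨0, 1, 1⟩, ⟨98, 99, 147⟩, ⟨300, 1351, 10000⟩, ⟨900, 1162, 1000⟩⟩ (tB2.k2m tB2.xE) :=
  posD_of_check (c := ⟨65, ⟨1, 1, 2, 2⟩⟩) (by decide +kernel)

def tB2_v2p : PosD ⟨⟨0, 1, 1⟩, ⟨98, 99, 147⟩, ⟨300, 1351, 10000⟩, ⟨900, 1162, 1000⟩⟩ (tB2.hV2p) :=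
  posD_of_check (c := ⟨261, ⟨1, 6, 10, 5⟩⟩) (by decide +kernel)

def tB2_v2m : PosD ⟨⟨0, 1, 1⟩, ⟨98, 99, 147⟩, ⟨300, 1351, 10000⟩, ⟨900, 1162, 1000⟩⟩ (tB2.hV2m) :=
  posD_of_check (c := ⟨259, ⟨1, 6, 10, 5⟩⟩) (by decide +kernel)

def tB2_v3p : PosD ⟨⟨0, 1, 1⟩, ⟨98, 99, 147⟩, ⟨300, 1351, 10000⟩, ⟨900, 1162, 1000⟩⟩ (tB2.hV3p) :=
  posD_of_check (c := ⟨248, ⟨1, 6, 9, 5⟩⟩) (by decide +kernel)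

def tB2_v3m : PosD ⟨⟨0, 1, 1⟩, ⟨98, 99, 147⟩, ⟨300, 1351, 10000⟩, ⟨900, 1162, 1000⟩⟩ (tB2.hV3m) :=
  posD_of_check (c := ⟨247, ⟨1, 6, 9, 5⟩⟩) (by decide +kernel)

def tB2_kap0 : PosD ⟨⟨0, 1, 1⟩, ⟨98, 99, 147⟩, ⟨300, 1351, 10000⟩, ⟨900, 1162, 1000⟩⟩ (tB2.kap false) :=
  posD_of_check (c := ⟨66, ⟨1, 1, 2, 2⟩⟩) (by decide +kernel)

def tB2_c10 : PosD ⟨⟨0, 1, 1⟩, ⟨98, 99, 147⟩, ⟨300, 1351, 10000⟩, ⟨900, 1162, 1000⟩⟩ (tB2.hC1 false) :=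
  posD_of_check (c := ⟨265, ⟨3, 5, 9, 7⟩⟩) (by decide +kernel)

def tB2_neg0 : PosD ⟨⟨0, 1, 1⟩, ⟨98, 99, 147⟩, ⟨300, 1351, 10000⟩, ⟨900, 1162, 1000⟩⟩ (tB2.hNeg (tB2.pEnd false)) :=
  posD_of_check (c := ⟨261, ⟨2, 5, 9, 7⟩⟩) (by decide +kernel)

def tB2_neglo0 : PosD ⟨⟨0, 1, 1⟩, ⟨98, 99, 147⟩, ⟨300, 1351, 10000⟩, ⟨900, 1162, 1000⟩⟩ (tB2.hNegLo (tB2.pEnd false)) :=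
  posD_of_check (c := ⟨261, ⟨2, 5, 9, 7⟩⟩) (by decide +kernel)

def tB2_tg00 : PosD ⟨⟨0, 1, 1⟩, ⟨98, 99, 147⟩, ⟨300, 1351, 10000⟩, ⟨900, 1162, 1000⟩⟩ (tB2.hG false (tB2.pEnd false)) :=
  posD_of_check (c := ⟨372, ⟨2, 7, 14, 9⟩⟩) (by decide +kernel)

def tB2_c2p00 : PosD ⟨⟨0, 1, 1⟩, ⟨98, 99, 147⟩, ⟨300, 1351, 10000⟩, ⟨900, 1162, 1000⟩⟩ (tB2.hC2p false (tB2.pEnd false)) :=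
  posD_of_check (c := ⟨439, ⟨3, 8, 16, 11⟩⟩) (by decide +kernel)

def tB2_c2m00 : PosD ⟨⟨0, 1, 1⟩, ⟨98, 99, 147⟩, ⟨300, 1351, 10000⟩, ⟨900, 1162, 1000⟩⟩ (tB2.hC2m false (tB2.pEnd false)) :=
  posD_of_check (c := ⟨437, ⟨3, 8, 16, 11⟩⟩) (by decide +kernel)

def tB2_c3p00 : PosD ⟨⟨0, 1, 1⟩, ⟨98, 99, 147⟩, ⟨300, 1351, 10000⟩, ⟨900, 1162, 1000⟩⟩ (tB2.hC3p false false) :=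
  posD_of_check (c := ⟨429, ⟨3, 8, 15, 11⟩⟩) (by decide +kernel)

def tB2_c3m00 : PosD ⟨⟨0, 1, 1⟩, ⟨98, 99, 147⟩, ⟨300, 1351, 10000⟩, ⟨900, 1162, 1000⟩⟩ (tB2.hC3m false false) :=
  posD_of_check (c := ⟨429, ⟨3, 8, 15, 11⟩⟩) (by decide +kernel)

def tB2_tmg00 : PosD ⟨⟨0, 1, 1⟩, ⟨98, 99, 147⟩, ⟨300, 1351, 10000⟩, ⟨900, 1162, 1000⟩⟩ (tB2.hTMG false (tB2.pEnd false)) :=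
  posD_of_check (c := ⟨387, ⟨2, 7, 14, 10⟩⟩) (by decide +kernel)

def tB2_tg01 : PosD ⟨⟨0, 1, 1⟩, ⟨98, 99, 147⟩, ⟨300, 1351, 10000⟩, ⟨900, 1162, 1000⟩⟩ (tB2.hG true (tB2.pEnd false)) :=
  posD_of_check (c := ⟨372, ⟨2, 7, 14, 9⟩⟩) (by decide +kernel)

def tB2_c2p01 : PosD ⟨⟨0, 1, 1⟩, ⟨98, 99, 147⟩, ⟨300, 1351, 10000⟩, ⟨900, 1162, 1000⟩⟩ (tB2.hC2p true (tB2.pEnd false)) :=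
  posD_of_check (c := ⟨439, ⟨3, 8, 16, 11⟩⟩) (by decide +kernel)

def tB2_c2m01 : PosD ⟨⟨0, 1, 1⟩, ⟨98, 99, 147⟩, ⟨300, 1351, 10000⟩, ⟨900, 1162, 1000⟩⟩ (tB2.hC2m true (tB2.pEnd false)) :=
  posD_of_check (c := ⟨437, ⟨3, 8, 16, 11⟩⟩) (by decide +kernel)

def tB2_c3p01 : PosD ⟨⟨0, 1, 1⟩, ⟨98, 99, 147⟩, ⟨300, 1351, 10000⟩, ⟨900, 1162, 1000⟩⟩ (tB2.hC3p false true) :=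
  posD_of_check (c := ⟨429, ⟨3, 8, 15, 11⟩⟩) (by decide +kernel)

def tB2_c3m01 : PosD ⟨⟨0, 1, 1⟩, ⟨98, 99, 147⟩, ⟨300, 1351, 10000⟩, ⟨900, 1162, 1000⟩⟩ (tB2.hC3m false true) :=
  posD_of_check (c := ⟨429, ⟨3, 8, 15, 11⟩⟩) (by decide +kernel)

def tB2_tmg01 : PosD ⟨⟨0, 1, 1⟩, ⟨98, 99, 147⟩, ⟨300, 1351, 10000⟩, ⟨900, 1162, 1000⟩⟩ (tB2.hTMG true (tB2.pEnd false)) :=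
  posD_of_check (c := ⟨387, ⟨2, 7, 14, 10⟩⟩) (by decide +kernel)

def tB2_kap1 : PosD ⟨⟨0, 1, 1⟩, ⟨98, 99, 147⟩, ⟨300, 1351, 10000⟩, ⟨900, 1162, 1000⟩⟩ (tB2.kap true) :=
  posD_of_check (c := ⟨66, ⟨1, 1, 2, 2⟩⟩) (by decide +kernel)

def tB2_c11 : PosD ⟨⟨0, 1, 1⟩, ⟨98, 99, 147⟩, ⟨300, 1351, 10000⟩, ⟨900, 1162, 1000⟩⟩ (tB2.hC1 true) :=
  posD_of_check (c := ⟨265, ⟨3, 5, 9, 7⟩⟩) (by decide +kernel)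

def tB2_neg1 : PosD ⟨⟨0, 1, 1⟩, ⟨98, 99, 147⟩, ⟨300, 1351, 10000⟩, ⟨900, 1162, 1000⟩⟩ (tB2.hNeg (tB2.pEnd true)) :=
  posD_of_check (c := ⟨260, ⟨2, 5, 9, 7⟩⟩) (by decide +kernel)

def tB2_neglo1 : PosD ⟨⟨0, 1, 1⟩, ⟨98, 99, 147⟩, ⟨300, 1351, 10000⟩, ⟨900, 1162, 1000⟩⟩ (tB2.hNegLo (tB2.pEnd true)) :=
  posD_of_check (c := ⟨260, ⟨2, 5, 9, 7⟩⟩) (by decide +kernel)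

def tB2_tg10 : PosD ⟨⟨0, 1, 1⟩, ⟨98, 99, 147⟩, ⟨300, 1351, 10000⟩, ⟨900, 1162, 1000⟩⟩ (tB2.hG false (tB2.pEnd true)) :=
  posD_of_check (c := ⟨372, ⟨2, 7, 14, 9⟩⟩) (by decide +kernel)

def tB2_c2p10a : PosD ⟨⟨0, 1, 1⟩, ⟨98, 99, 147⟩, ⟨300, 825, 10000⟩, ⟨900, 1162, 1000⟩⟩ (tB2.hC2p false (tB2.pEnd true)) :=
  posD_of_check (c := ⟨438, ⟨3, 8, 16, 11⟩⟩) (by decide +kernel)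

def tB2_c2p10b : PosD ⟨⟨0, 1, 1⟩, ⟨98, 99, 147⟩, ⟨825, 1351, 10000⟩, ⟨900, 1162, 1000⟩⟩ (tB2.hC2p false (tB2.pEnd true)) :=
  posD_of_check (c := ⟨439, ⟨3, 8, 16, 11⟩⟩) (by decide +kernel)

def tB2_c2p10 : PosD ⟨⟨0, 1, 1⟩, ⟨98, 99, 147⟩, ⟨300, 1351, 10000⟩, ⟨900, 1162, 1000⟩⟩ (tB2.hC2p false (tB2.pEnd true)) :=
  posD_join₂ tB2_c2p10a tB2_c2p10b

def tB2_c2m10 : PosD ⟨⟨0, 1, 1⟩, ⟨98, 99, 147⟩, ⟨300, 1351, 10000⟩, ⟨900, 1162, 1000⟩⟩ (tB2.hC2m false (tB2.pEnd true)) :=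
  posD_of_check (c := ⟨437, ⟨3, 8, 16, 11⟩⟩) (by decide +kernel)

def tB2_c3p10 : PosD ⟨⟨0, 1, 1⟩, ⟨98, 99, 147⟩, ⟨300, 1351, 10000⟩, ⟨900, 1162, 1000⟩⟩ (tB2.hC3p true false) :=
  posD_of_check (c := ⟨429, ⟨3, 8, 15, 11⟩⟩) (by decide +kernel)

def tB2_c3m10 : PosD ⟨⟨0, 1, 1⟩, ⟨98, 99, 147⟩, ⟨300, 1351, 10000⟩, ⟨900, 1162, 1000⟩⟩ (tB2.hC3m true false) :=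
  posD_of_check (c := ⟨429, ⟨3, 8, 15, 11⟩⟩) (by decide +kernel)

def tB2_tmg10 : PosD ⟨⟨0, 1, 1⟩, ⟨98, 99, 147⟩, ⟨300, 1351, 10000⟩, ⟨900, 1162, 1000⟩⟩ (tB2.hTMG false (tB2.pEnd true)) :=
  posD_of_check (c := ⟨387, ⟨2, 7, 14, 10⟩⟩) (by decide +kernel)

def tB2_tg11 : PosD ⟨⟨0, 1, 1⟩, ⟨98, 99, 147⟩, ⟨300, 1351, 10000⟩, ⟨900, 1162, 1000⟩⟩ (tB2.hG true (tB2.pEnd true)) :=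
  posD_of_check (c := ⟨372, ⟨2, 7, 14, 9⟩⟩) (by decide +kernel)

def tB2_c2p11 : PosD ⟨⟨0, 1, 1⟩, ⟨98, 99, 147⟩, ⟨300, 1351, 10000⟩, ⟨900, 1162, 1000⟩⟩ (tB2.hC2p true (tB2.pEnd true)) :=
  posD_of_check (c := ⟨439, ⟨3, 8, 16, 11⟩⟩) (by decide +kernel)

def tB2_c2m11 : PosD ⟨⟨0, 1, 1⟩, ⟨98, 99, 147⟩, ⟨300, 1351, 10000⟩, ⟨900, 1162, 1000⟩⟩ (tB2.hC2m true (tB2.pEnd true)) :=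
  posD_of_check (c := ⟨437, ⟨3, 8, 16, 11⟩⟩) (by decide +kernel)

def tB2_c3p11 : PosD ⟨⟨0, 1, 1⟩, ⟨98, 99, 147⟩, ⟨300, 1351, 10000⟩, ⟨900, 1162, 1000⟩⟩ (tB2.hC3p true true) :=
  posD_of_check (c := ⟨429, ⟨3, 8, 15, 11⟩⟩) (by decide +kernel)

def tB2_c3m11 : PosD ⟨⟨0, 1, 1⟩, ⟨98, 99, 147⟩, ⟨300, 1351, 10000⟩, ⟨900, 1162, 1000⟩⟩ (tB2.hC3m true true) :=
  posD_of_check (c := ⟨429, ⟨3, 8, 15, 11⟩⟩) (by decide +kernel)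

def tB2_tmg11 : PosD ⟨⟨0, 1, 1⟩, ⟨98, 99, 147⟩, ⟨300, 1351, 10000⟩, ⟨900, 1162, 1000⟩⟩ (tB2.hTMG true (tB2.pEnd true)) :=
  posD_of_check (c := ⟨387, ⟨2, 7, 14, 10⟩⟩) (by decide +kernel)

/-- The signs of the piece. -/
def tB2_sign : tB2.Sign ⟨⟨0, 1, 1⟩, ⟨98, 99, 147⟩, ⟨300, 1351, 10000⟩, ⟨900, 1162, 1000⟩⟩ :=
  ⟨tB2_pp,
    tB2_k2p,
    tB2_k2m,
    Bool.forall_bool.2 ⟨(Bool.forall_bool.2 ⟨tB2_tg00, tB2_tg01⟩), (Bool.forall_bool.2 ⟨tB2_tg10, tB2_tg11⟩)⟩,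
    Bool.forall_bool.2 ⟨(Bool.forall_bool.2 ⟨tB2_c2p00, tB2_c2p01⟩), (Bool.forall_bool.2 ⟨tB2_c2p10, tB2_c2p11⟩)⟩,
    Bool.forall_bool.2 ⟨(Bool.forall_bool.2 ⟨tB2_c2m00, tB2_c2m01⟩), (Bool.forall_bool.2 ⟨tB2_c2m10, tB2_c2m11⟩)⟩,
    Bool.forall_bool.2 ⟨tB2_kap0, tB2_kap1⟩,
    Bool.forall_bool.2 ⟨tB2_c10, tB2_c11⟩,
    Bool.forall_bool.2 ⟨(Bool.forall_bool.2 ⟨tB2_c3p00, tB2_c3p01⟩), (Bool.forall_bool.2 ⟨tB2_c3p10, tB2_c3p11⟩)⟩,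
    Bool.forall_bool.2 ⟨(Bool.forall_bool.2 ⟨tB2_c3m00, tB2_c3m01⟩), (Bool.forall_bool.2 ⟨tB2_c3m10, tB2_c3m11⟩)⟩,
    Bool.forall_bool.2 ⟨(Bool.forall_bool.2 ⟨tB2_tmg00, tB2_tmg01⟩), (Bool.forall_bool.2 ⟨tB2_tmg10, tB2_tmg11⟩)⟩,
    .inl (Bool.forall_bool.2 ⟨⟨tB2_neg0, tB2_neglo0⟩, ⟨tB2_neg1, tB2_neglo1⟩⟩),
    tB2_v2p,
    tB2_v2m,
    tB2_v3p,
    tB2_v3m,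
    posD_sub (b := ⟨⟨0, 1, 1⟩, ⟨98, 99, 147⟩, ⟨300, 1351, 10000⟩, ⟨290, 4000, 1000⟩⟩) (by decide +kernel) tB_vG,
    posD_sub (b := ⟨⟨0, 1, 1⟩, ⟨98, 99, 147⟩, ⟨300, 1351, 10000⟩, ⟨290, 4000, 1000⟩⟩) (by decide +kernel) tB_vMG,
    posD_sub (b := ⟨⟨0, 1, 1⟩, ⟨98, 99, 147⟩, ⟨300, 1351, 10000⟩, ⟨290, 4000, 1000⟩⟩) (by decide +kernel) tB_ak,
    posD_sub (b := ⟨⟨0, 1, 1⟩, ⟨98, 99, 147⟩, ⟨300, 1351, 10000⟩, ⟨290, 4000, 1000⟩⟩) (by decide +kernel) tB_aw,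
    posD_sub (b := ⟨⟨0, 1, 1⟩, ⟨98, 99, 147⟩, ⟨300, 1351, 10000⟩, ⟨290, 4000, 1000⟩⟩) (by decide +kernel) tB_gk,
    posD_sub (b := ⟨⟨0, 1, 1⟩, ⟨98, 99, 147⟩, ⟨300, 1351, 10000⟩, ⟨290, 4000, 1000⟩⟩) (by decide +kernel) tB_gw,
    posD_sub (b := ⟨⟨0, 1, 1⟩, ⟨98, 99, 147⟩, ⟨300, 1351, 10000⟩, ⟨290, 4000, 1000⟩⟩) (by decide +kernel) tB_ek,
    posD_sub (b := ⟨⟨0, 1, 1⟩, ⟨98, 99, 147⟩, ⟨300, 1351, 10000⟩, ⟨290, 4000, 1000⟩⟩) (by decide +kernel) tB_ew⟩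

def tB3_phxaa : PosIf ⟨⟨0, 1, 1⟩, ⟨98, 99, 147⟩, ⟨300, 562, 10000⟩, ⟨1162, 1320, 1000⟩⟩ (tB3.u₁ - tB3Lo) (phBn (tB3.u₁ + xO * (tB3Lo - tB3.u₁))) :=
  posIf_of_posD (posD_of_check (c := ⟨99, ⟨2, 0, 4, 2⟩⟩) (by decide +kernel))

def tB3_phxaba : PosIf ⟨⟨0, 1, 1⟩, ⟨98, 99, 147⟩, ⟨562, 693, 10000⟩, ⟨1162, 1320, 1000⟩⟩ (tB3.u₁ - tB3Lo) (phBn (tB3.u₁ + xO * (tB3Lo - tB3.u₁))) :=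
  posIf_of_posD (posD_of_check (c := ⟨100, ⟨2, 0, 4, 2⟩⟩) (by decide +kernel))

def tB3_phxabb : PosIf ⟨⟨0, 1, 1⟩, ⟨98, 99, 147⟩, ⟨693, 825, 10000⟩, ⟨1162, 1320, 1000⟩⟩ (tB3.u₁ - tB3Lo) (phBn (tB3.u₁ + xO * (tB3Lo - tB3.u₁))) :=
  posIf_of_posD (posD_of_check (c := ⟨100, ⟨2, 0, 4, 2⟩⟩) (by decide +kernel))

def tB3_phxab : PosIf ⟨⟨0, 1, 1⟩, ⟨98, 99, 147⟩, ⟨562, 825, 10000⟩, ⟨1162, 1320, 1000⟩⟩ (tB3.u₁ - tB3Lo) (phBn (tB3.u₁ + xO * (tB3Lo - tB3.u₁))) :=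
  posIf_join₂ tB3_phxaba tB3_phxabb

def tB3_phxa : PosIf ⟨⟨0, 1, 1⟩, ⟨98, 99, 147⟩, ⟨300, 825, 10000⟩, ⟨1162, 1320, 1000⟩⟩ (tB3.u₁ - tB3Lo) (phBn (tB3.u₁ + xO * (tB3Lo - tB3.u₁))) :=
  posIf_join₂ tB3_phxaa tB3_phxab

def tB3_phxb : PosIf ⟨⟨0, 1, 1⟩, ⟨98, 99, 147⟩, ⟨825, 1351, 10000⟩, ⟨1162, 1320, 1000⟩⟩ (tB3.u₁ - tB3Lo) (phBn (tB3.u₁ + xO * (tB3Lo - tB3.u₁))) :=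
  posIf_of_posD (posD_of_check (c := ⟨100, ⟨2, 0, 4, 2⟩⟩) (by decide +kernel))

def tB3_phx : PosIf ⟨⟨0, 1, 1⟩, ⟨98, 99, 147⟩, ⟨300, 1351, 10000⟩, ⟨1162, 1320, 1000⟩⟩ (tB3.u₁ - tB3Lo) (phBn (tB3.u₁ + xO * (tB3Lo - tB3.u₁))) :=
  posIf_join₂ tB3_phxa tB3_phxb

def tB3_phd : PosD ⟨⟨0, 1, 1⟩, ⟨98, 99, 147⟩, ⟨300, 1351, 10000⟩, ⟨1162, 1320, 1000⟩⟩ (phBd (tB3.u₁ + xO * (tB3Lo - tB3.u₁))) :=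
  posD_of_check (c := ⟨48, ⟨1, 0, 2, 1⟩⟩) (by decide +kernel)

def tB3_p0 : PosD ⟨⟨0, 1, 1⟩, ⟨98, 99, 147⟩, ⟨300, 1351, 10000⟩, ⟨1162, 1320, 1000⟩⟩ (tB3.hP0) :=
  posD_of_check (c := ⟨81, ⟨0, 2, 3, 1⟩⟩) (by decide +kernel)

def tB3_gn : PosD ⟨⟨0, 1, 1⟩, ⟨98, 99, 147⟩, ⟨300, 1351, 10000⟩, ⟨1162, 1320, 1000⟩⟩ (tB3.hGn) :=
  posD_of_check (c := ⟨65, ⟨1, 1, 2, 2⟩⟩) (by decide +kernel)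

def tB3_den0 : PosD ⟨⟨0, 1, 1⟩, ⟨98, 99, 147⟩, ⟨300, 1351, 10000⟩, ⟨1162, 1320, 1000⟩⟩ (tB3.hDen false) :=
  posD_of_check (c := ⟨48, ⟨1, 0, 2, 1⟩⟩) (by decide +kernel)

def tB3_den1 : PosD ⟨⟨0, 1, 1⟩, ⟨98, 99, 147⟩, ⟨300, 1351, 10000⟩, ⟨1162, 1320, 1000⟩⟩ (tB3.hDen true) :=
  posD_of_check (c := ⟨48, ⟨1, 0, 2, 1⟩⟩) (by decide +kernel)

def tB3_ev0 : PosD ⟨⟨0, 1, 1⟩, ⟨98, 99, 147⟩, ⟨300, 1351, 10000⟩, ⟨1162, 1320, 1000⟩⟩ (tB3.hEv false) :=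
  posD_of_check (c := ⟨204, ⟨4, 2, 8, 4⟩⟩) (by decide +kernel)

def tB3_zL0 : PosD ⟨⟨0, 1, 1⟩, ⟨98, 99, 147⟩, ⟨300, 1351, 10000⟩, ⟨1162, 1320, 1000⟩⟩ (tB3.hZL false) :=
  posD_of_check (c := ⟨208, ⟨4, 3, 8, 4⟩⟩) (by decide +kernel)

def tB3_zU0a : PosD ⟨⟨0, 1, 1⟩, ⟨98, 99, 147⟩, ⟨300, 825, 10000⟩, ⟨1162, 1320, 1000⟩⟩ (tB3.hZU false) :=
  posD_of_check (c := ⟨207, ⟨4, 3, 8, 4⟩⟩) (by decide +kernel)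

def tB3_zU0b : PosD ⟨⟨0, 1, 1⟩, ⟨98, 99, 147⟩, ⟨825, 1351, 10000⟩, ⟨1162, 1320, 1000⟩⟩ (tB3.hZU false) :=
  posD_of_check (c := ⟨208, ⟨4, 3, 8, 4⟩⟩) (by decide +kernel)

def tB3_zU0 : PosD ⟨⟨0, 1, 1⟩, ⟨98, 99, 147⟩, ⟨300, 1351, 10000⟩, ⟨1162, 1320, 1000⟩⟩ (tB3.hZU false) :=
  posD_join₂ tB3_zU0a tB3_zU0b

def tB3_eL0 : PosD ⟨⟨0, 1, 1⟩, ⟨98, 99, 147⟩, ⟨300, 1351, 10000⟩, ⟨1162, 1320, 1000⟩⟩ (tB3.hEL false) :=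
  posD_of_check (c := ⟨297, ⟨5, 6, 11, 6⟩⟩) (by decide +kernel)

def tB3_eH0 : PosD ⟨⟨0, 1, 1⟩, ⟨98, 99, 147⟩, ⟨300, 1351, 10000⟩, ⟨1162, 1320, 1000⟩⟩ (tB3.hEH false) :=
  posD_of_check (c := ⟨297, ⟨5, 6, 11, 6⟩⟩) (by decide +kernel)

def tB3_pL0 : PosD ⟨⟨0, 1, 1⟩, ⟨98, 99, 147⟩, ⟨300, 1351, 10000⟩, ⟨1162, 1320, 1000⟩⟩ (tB3.hPL false) :=
  posD_of_check (c := ⟨322, ⟨5, 6, 11, 7⟩⟩) (by decide +kernel)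

def tB3_pU0 : PosD ⟨⟨0, 1, 1⟩, ⟨98, 99, 147⟩, ⟨300, 1351, 10000⟩, ⟨1162, 1320, 1000⟩⟩ (tB3.hPU false) :=
  posD_of_check (c := ⟨322, ⟨5, 6, 11, 7⟩⟩) (by decide +kernel)

def tB3_kU0 : PosD ⟨⟨0, 1, 1⟩, ⟨98, 99, 147⟩, ⟨300, 1351, 10000⟩, ⟨1162, 1320, 1000⟩⟩ (tB3.hKU false) :=
  posD_of_check (c := ⟨318, ⟨5, 6, 11, 7⟩⟩) (by decide +kernel)

def tB3_kL0 : PosD ⟨⟨0, 1, 1⟩, ⟨98, 99, 147⟩, ⟨300, 1351, 10000⟩, ⟨1162, 1320, 1000⟩⟩ (tB3.hKL false) :=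
  posD_of_check (c := ⟨318, ⟨5, 6, 11, 7⟩⟩) (by decide +kernel)

def tB3_wU0 : PosD ⟨⟨0, 1, 1⟩, ⟨98, 99, 147⟩, ⟨300, 1351, 10000⟩, ⟨1162, 1320, 1000⟩⟩ (tB3.hWU false) :=
  posD_of_check (c := ⟨354, ⟨5, 8, 12, 7⟩⟩) (by decide +kernel)

def tB3_wL0 : PosD ⟨⟨0, 1, 1⟩, ⟨98, 99, 147⟩, ⟨300, 1351, 10000⟩, ⟨1162, 1320, 1000⟩⟩ (tB3.hWL false) :=
  posD_of_check (c := ⟨354, ⟨5, 8, 12, 7⟩⟩) (by decide +kernel)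

def tB3_ev1 : PosD ⟨⟨0, 1, 1⟩, ⟨98, 99, 147⟩, ⟨300, 1351, 10000⟩, ⟨1162, 1320, 1000⟩⟩ (tB3.hEv true) :=
  posD_of_check (c := ⟨203, ⟨4, 2, 8, 4⟩⟩) (by decide +kernel)

def tB3_zL1aa : PosD ⟨⟨0, 1, 1⟩, ⟨98, 99, 147⟩, ⟨300, 562, 10000⟩, ⟨1162, 1320, 1000⟩⟩ (tB3.hZL true) :=
  posD_of_check (c := ⟨207, ⟨4, 3, 8, 4⟩⟩) (by decide +kernel)

def tB3_zL1ab : PosD ⟨⟨0, 1, 1⟩, ⟨98, 99, 147⟩, ⟨562, 825, 10000⟩, ⟨1162, 1320, 1000⟩⟩ (tB3.hZL true) :=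
  posD_of_check (c := ⟨207, ⟨4, 3, 8, 4⟩⟩) (by decide +kernel)

def tB3_zL1a : PosD ⟨⟨0, 1, 1⟩, ⟨98, 99, 147⟩, ⟨300, 825, 10000⟩, ⟨1162, 1320, 1000⟩⟩ (tB3.hZL true) :=
  posD_join₂ tB3_zL1aa tB3_zL1ab

def tB3_zL1b : PosD ⟨⟨0, 1, 1⟩, ⟨98, 99, 147⟩, ⟨825, 1351, 10000⟩, ⟨1162, 1320, 1000⟩⟩ (tB3.hZL true) :=
  posD_of_check (c := ⟨208, ⟨4, 3, 8, 4⟩⟩) (by decide +kernel)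

def tB3_zL1 : PosD ⟨⟨0, 1, 1⟩, ⟨98, 99, 147⟩, ⟨300, 1351, 10000⟩, ⟨1162, 1320, 1000⟩⟩ (tB3.hZL true) :=
  posD_join₂ tB3_zL1a tB3_zL1b

def tB3_zU1 : PosD ⟨⟨0, 1, 1⟩, ⟨98, 99, 147⟩, ⟨300, 1351, 10000⟩, ⟨1162, 1320, 1000⟩⟩ (tB3.hZU true) :=
  posD_of_check (c := ⟨207, ⟨4, 3, 8, 4⟩⟩) (by decide +kernel)

def tB3_eL1 : PosD ⟨⟨0, 1, 1⟩, ⟨98, 99, 147⟩, ⟨300, 1351, 10000⟩, ⟨1162, 1320, 1000⟩⟩ (tB3.hEL true) :=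
  posD_of_check (c := ⟨296, ⟨5, 6, 11, 6⟩⟩) (by decide +kernel)

def tB3_eH1 : PosD ⟨⟨0, 1, 1⟩, ⟨98, 99, 147⟩, ⟨300, 1351, 10000⟩, ⟨1162, 1320, 1000⟩⟩ (tB3.hEH true) :=
  posD_of_check (c := ⟨296, ⟨5, 6, 11, 6⟩⟩) (by decide +kernel)

def tB3_pL1 : PosD ⟨⟨0, 1, 1⟩, ⟨98, 99, 147⟩, ⟨300, 1351, 10000⟩, ⟨1162, 1320, 1000⟩⟩ (tB3.hPL true) :=
  posD_of_check (c := ⟨321, ⟨5, 6, 11, 7⟩⟩) (by decide +kernel)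

def tB3_pU1 : PosD ⟨⟨0, 1, 1⟩, ⟨98, 99, 147⟩, ⟨300, 1351, 10000⟩, ⟨1162, 1320, 1000⟩⟩ (tB3.hPU true) :=
  posD_of_check (c := ⟨321, ⟨5, 6, 11, 7⟩⟩) (by decide +kernel)

def tB3_kU1 : PosD ⟨⟨0, 1, 1⟩, ⟨98, 99, 147⟩, ⟨300, 1351, 10000⟩, ⟨1162, 1320, 1000⟩⟩ (tB3.hKU true) :=
  posD_of_check (c := ⟨317, ⟨5, 6, 11, 7⟩⟩) (by decide +kernel)

def tB3_kL1 : PosD ⟨⟨0, 1, 1⟩, ⟨98, 99, 147⟩, ⟨300, 1351, 10000⟩, ⟨1162, 1320, 1000⟩⟩ (tB3.hKL true) :=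
  posD_of_check (c := ⟨317, ⟨5, 6, 11, 7⟩⟩) (by decide +kernel)

def tB3_wU1 : PosD ⟨⟨0, 1, 1⟩, ⟨98, 99, 147⟩, ⟨300, 1351, 10000⟩, ⟨1162, 1320, 1000⟩⟩ (tB3.hWU true) :=
  posD_of_check (c := ⟨353, ⟨5, 8, 12, 7⟩⟩) (by decide +kernel)

def tB3_wL1 : PosD ⟨⟨0, 1, 1⟩, ⟨98, 99, 147⟩, ⟨300, 1351, 10000⟩, ⟨1162, 1320, 1000⟩⟩ (tB3.hWL true) :=
  posD_of_check (c := ⟨353, ⟨5, 8, 12, 7⟩⟩) (by decide +kernel)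

/-- The bounds of the piece. -/
def tB3_env : tB3.Env ⟨⟨0, 1, 1⟩, ⟨98, 99, 147⟩, ⟨300, 1351, 10000⟩, ⟨1162, 1320, 1000⟩⟩ :=
  ⟨tB3_p0, Bool.forall_bool.2 ⟨tB3_den0, tB3_den1⟩, tB3_gn, Bool.forall_bool.2 ⟨tB3_ev0, tB3_ev1⟩, Bool.forall_bool.2 ⟨tB3_zL0, tB3_zL1⟩, Bool.forall_bool.2 ⟨tB3_zU0, tB3_zU1⟩, Bool.forall_bool.2 ⟨tB3_eL0, tB3_eL1⟩, ⟨.inr rfl, .inr rfl⟩, Bool.forall_bool.2 ⟨tB3_eH0, tB3_eH1⟩, ⟨.inr rfl, .inr rfl⟩, Bool.forall_bool.2 ⟨tB3_pL0, tB3_pL1⟩, ⟨.inr rfl, .inr rfl⟩, Bool.forall_bool.2 ⟨tB3_pU0, tB3_pU1⟩, ⟨.inr rfl, .inr rfl⟩, Bool.forall_bool.2 ⟨tB3_kU0, tB3_kU1⟩, ⟨.inr rfl, .inr rfl⟩, Bool.forall_bool.2 ⟨tB3_kL0, tB3_kL1⟩, ⟨.inr rfl, .inr rfl⟩, Bool.forall_bool.2 ⟨tB3_wU0, tB3_wU1⟩, ⟨.inr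 rfl, .inr rfl⟩, Bool.forall_bool.2 ⟨tB3_wL0, tB3_wL1⟩, ⟨.inr rfl, .inr rfl⟩⟩

def tB3_pp : PosD ⟨⟨0, 1, 1⟩, ⟨98, 99, 147⟩, ⟨300, 1351, 10000⟩, ⟨1162, 1320, 1000⟩⟩ (tB3.xPL) :=
  posD_of_check (c := ⟨91, ⟨1, 1, 3, 3⟩⟩) (by decide +kernel)

def tB3_k2p : PosD ⟨⟨0, 1, 1⟩, ⟨98, 99, 147⟩, ⟨300, 1351, 10000⟩, ⟨1162, 1320, 1000⟩⟩ (tB3.k2p tB3.xE) :=
  posD_of_check (c := ⟨27, ⟨0, 0, 1, 1⟩⟩) (by decide +kernel)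

def tB3_k2m : PosD ⟨⟨0, 1, 1⟩, ⟨98, 99, 147⟩, ⟨300, 1351, 10000⟩, ⟨1162, 1320, 1000⟩⟩ (tB3.k2m tB3.xE) :=
  posD_of_check (c := ⟨23, ⟨0, 0, 1, 1⟩⟩) (by decide +kernel)

def tB3_v2p : PosD ⟨⟨0, 1, 1⟩, ⟨98, 99, 147⟩, ⟨300, 1351, 10000⟩, ⟨1162, 1320, 1000⟩⟩ (tB3.hV2p) :=
  posD_of_check (c := ⟨231, ⟨0, 5, 10, 4⟩⟩) (by decide +kernel)

def tB3_v2m : PosD ⟨⟨0, 1, 1⟩, ⟨98, 99, 147⟩, ⟨300, 1351, 10000⟩, ⟨1162, 1320, 1000⟩⟩ (tB3.hV2m) :=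
  posD_of_check (c := ⟨229, ⟨0, 5, 10, 4⟩⟩) (by decide +kernel)

def tB3_v3p : PosD ⟨⟨0, 1, 1⟩, ⟨98, 99, 147⟩, ⟨300, 1351, 10000⟩, ⟨1162, 1320, 1000⟩⟩ (tB3.hV3p) :=
  posD_of_check (c := ⟨222, ⟨0, 5, 9, 4⟩⟩) (by decide +kernel)

def tB3_v3m : PosD ⟨⟨0, 1, 1⟩, ⟨98, 99, 147⟩, ⟨300, 1351, 10000⟩, ⟨1162, 1320, 1000⟩⟩ (tB3.hV3m) :=
  posD_of_check (c := ⟨222, ⟨0, 5, 9, 4⟩⟩) (by decide +kernel)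

def tB3_kap0 : PosD ⟨⟨0, 1, 1⟩, ⟨98, 99, 147⟩, ⟨300, 1351, 10000⟩, ⟨1162, 1320, 1000⟩⟩ (tB3.kap false) :=
  posD_of_check (c := ⟨67, ⟨1, 1, 2, 2⟩⟩) (by decide +kernel)

def tB3_c10 : PosD ⟨⟨0, 1, 1⟩, ⟨98, 99, 147⟩, ⟨300, 1351, 10000⟩, ⟨1162, 1320, 1000⟩⟩ (tB3.hC1 false) :=
  posD_of_check (c := ⟨264, ⟨3, 5, 9, 7⟩⟩) (by decide +kernel)

def tB3_neg0 : PosD ⟨⟨0, 1, 1⟩, ⟨98, 99, 147⟩, ⟨300, 1351, 10000⟩, ⟨1162, 1320, 1000⟩⟩ (tB3.hNeg (tB3.pEnd false)) :=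
  posD_of_check (c := ⟨260, ⟨2, 5, 9, 7⟩⟩) (by decide +kernel)

def tB3_neglo0 : PosD ⟨⟨0, 1, 1⟩, ⟨98, 99, 147⟩, ⟨300, 1351, 10000⟩, ⟨1162, 1320, 1000⟩⟩ (tB3.hNegLo (tB3.pEnd false)) :=
  posD_of_check (c := ⟨260, ⟨2, 5, 9, 7⟩⟩) (by decide +kernel)

def tB3_tg00 : PosD ⟨⟨0, 1, 1⟩, ⟨98, 99, 147⟩, ⟨300, 1351, 10000⟩, ⟨1162, 1320, 1000⟩⟩ (tB3.hG false (tB3.pEnd false)) :=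
  posD_of_check (c := ⟨372, ⟨2, 7, 14, 9⟩⟩) (by decide +kernel)

def tB3_c2p00 : PosD ⟨⟨0, 1, 1⟩, ⟨98, 99, 147⟩, ⟨300, 1351, 10000⟩, ⟨1162, 1320, 1000⟩⟩ (tB3.hC2p false (tB3.pEnd false)) :=
  posD_of_check (c := ⟨409, ⟨2, 7, 16, 10⟩⟩) (by decide +kernel)

def tB3_c2m00 : PosD ⟨⟨0, 1, 1⟩, ⟨98, 99, 147⟩, ⟨300, 1351, 10000⟩, ⟨1162, 1320, 1000⟩⟩ (tB3.hC2m false (tB3.pEnd false)) :=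
  posD_of_check (c := ⟨407, ⟨2, 7, 16, 10⟩⟩) (by decide +kernel)

def tB3_c3p00 : PosD ⟨⟨0, 1, 1⟩, ⟨98, 99, 147⟩, ⟨300, 1351, 10000⟩, ⟨1162, 1320, 1000⟩⟩ (tB3.hC3p false false) :=
  posD_of_check (c := ⟨404, ⟨3, 7, 15, 10⟩⟩) (by decide +kernel)

def tB3_c3m00 : PosD ⟨⟨0, 1, 1⟩, ⟨98, 99, 147⟩, ⟨300, 1351, 10000⟩, ⟨1162, 1320, 1000⟩⟩ (tB3.hC3m false false) :=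
  posD_of_check (c := ⟨404, ⟨3, 7, 15, 10⟩⟩) (by decide +kernel)

def tB3_tmg00 : PosD ⟨⟨0, 1, 1⟩, ⟨98, 99, 147⟩, ⟨300, 1351, 10000⟩, ⟨1162, 1320, 1000⟩⟩ (tB3.hTMG false (tB3.pEnd false)) :=
  posD_of_check (c := ⟨386, ⟨2, 7, 14, 10⟩⟩) (by decide +kernel)

def tB3_tg01 : PosD ⟨⟨0, 1, 1⟩, ⟨98, 99, 147⟩, ⟨300, 1351, 10000⟩, ⟨1162, 1320, 1000⟩⟩ (tB3.hG true (tB3.pEnd false)) :=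
  posD_of_check (c := ⟨372, ⟨2, 7, 14, 9⟩⟩) (by decide +kernel)

def tB3_c2p01 : PosD ⟨⟨0, 1, 1⟩, ⟨98, 99, 147⟩, ⟨300, 1351, 10000⟩, ⟨1162, 1320, 1000⟩⟩ (tB3.hC2p true (tB3.pEnd false)) :=
  posD_of_check (c := ⟨409, ⟨2, 7, 16, 10⟩⟩) (by decide +kernel)

def tB3_c2m01 : PosD ⟨⟨0, 1, 1⟩, ⟨98, 99, 147⟩, ⟨300, 1351, 10000⟩, ⟨1162, 1320, 1000⟩⟩ (tB3.hC2m true (tB3.pEnd false)) :=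
  posD_of_check (c := ⟨407, ⟨2, 7, 16, 10⟩⟩) (by decide +kernel)

def tB3_c3p01 : PosD ⟨⟨0, 1, 1⟩, ⟨98, 99, 147⟩, ⟨300, 1351, 10000⟩, ⟨1162, 1320, 1000⟩⟩ (tB3.hC3p false true) :=
  posD_of_check (c := ⟨404, ⟨3, 7, 15, 10⟩⟩) (by decide +kernel)

def tB3_c3m01 : PosD ⟨⟨0, 1, 1⟩, ⟨98, 99, 147⟩, ⟨300, 1351, 10000⟩, ⟨1162, 1320, 1000⟩⟩ (tB3.hC3m false true) :=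
  posD_of_check (c := ⟨404, ⟨3, 7, 15, 10⟩⟩) (by decide +kernel)

def tB3_tmg01 : PosD ⟨⟨0, 1, 1⟩, ⟨98, 99, 147⟩, ⟨300, 1351, 10000⟩, ⟨1162, 1320, 1000⟩⟩ (tB3.hTMG true (tB3.pEnd false)) :=
  posD_of_check (c := ⟨386, ⟨2, 7, 14, 10⟩⟩) (by decide +kernel)

def tB3_kap1 : PosD ⟨⟨0, 1, 1⟩, ⟨98, 99, 147⟩, ⟨300, 1351, 10000⟩, ⟨1162, 1320, 1000⟩⟩ (tB3.kap true) :=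
  posD_of_check (c := ⟨65, ⟨1, 1, 2, 2⟩⟩) (by decide +kernel)

def tB3_c11 : PosD ⟨⟨0, 1, 1⟩, ⟨98, 99, 147⟩, ⟨300, 1351, 10000⟩, ⟨1162, 1320, 1000⟩⟩ (tB3.hC1 true) :=
  posD_of_check (c := ⟨263, ⟨3, 5, 9, 7⟩⟩) (by decide +kernel)

def tB3_neg1 : PosD ⟨⟨0, 1, 1⟩, ⟨98, 99, 147⟩, ⟨300, 1351, 10000⟩, ⟨1162, 1320, 1000⟩⟩ (tB3.hNeg (tB3.pEnd true)) :=
  posD_of_check (c := ⟨259, ⟨2, 5, 9, 7⟩⟩) (by decide +kernel)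

def tB3_neglo1 : PosD ⟨⟨0, 1, 1⟩, ⟨98, 99, 147⟩, ⟨300, 1351, 10000⟩, ⟨1162, 1320, 1000⟩⟩ (tB3.hNegLo (tB3.pEnd true)) :=
  posD_of_check (c := ⟨259, ⟨2, 5, 9, 7⟩⟩) (by decide +kernel)

def tB3_tg10 : PosD ⟨⟨0, 1, 1⟩, ⟨98, 99, 147⟩, ⟨300, 1351, 10000⟩, ⟨1162, 1320, 1000⟩⟩ (tB3.hG false (tB3.pEnd true)) :=
  posD_of_check (c := ⟨371, ⟨2, 7, 14, 9⟩⟩) (by decide +kernel)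

def tB3_c2p10 : PosD ⟨⟨0, 1, 1⟩, ⟨98, 99, 147⟩, ⟨300, 1351, 10000⟩, ⟨1162, 1320, 1000⟩⟩ (tB3.hC2p false (tB3.pEnd true)) :=
  posD_of_check (c := ⟨409, ⟨2, 7, 16, 10⟩⟩) (by decide +kernel)

def tB3_c2m10 : PosD ⟨⟨0, 1, 1⟩, ⟨98, 99, 147⟩, ⟨300, 1351, 10000⟩, ⟨1162, 1320, 1000⟩⟩ (tB3.hC2m false (tB3.pEnd true)) :=
  posD_of_check (c := ⟨407, ⟨2, 7, 16, 10⟩⟩) (by decide +kernel)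

def tB3_c3p10 : PosD ⟨⟨0, 1, 1⟩, ⟨98, 99, 147⟩, ⟨300, 1351, 10000⟩, ⟨1162, 1320, 1000⟩⟩ (tB3.hC3p true false) :=
  posD_of_check (c := ⟨403, ⟨3, 7, 15, 10⟩⟩) (by decide +kernel)

def tB3_c3m10 : PosD ⟨⟨0, 1, 1⟩, ⟨98, 99, 147⟩, ⟨300, 1351, 10000⟩, ⟨1162, 1320, 1000⟩⟩ (tB3.hC3m true false) :=
  posD_of_check (c := ⟨403, ⟨3, 7, 15, 10⟩⟩) (by decide +kernel)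

def tB3_tmg10 : PosD ⟨⟨0, 1, 1⟩, ⟨98, 99, 147⟩, ⟨300, 1351, 10000⟩, ⟨1162, 1320, 1000⟩⟩ (tB3.hTMG false (tB3.pEnd true)) :=
  posD_of_check (c := ⟨386, ⟨2, 7, 14, 10⟩⟩) (by decide +kernel)

def tB3_tg11 : PosD ⟨⟨0, 1, 1⟩, ⟨98, 99, 147⟩, ⟨300, 1351, 10000⟩, ⟨1162, 1320, 1000⟩⟩ (tB3.hG true (tB3.pEnd true)) :=
  posD_of_check (c := ⟨371, ⟨2, 7, 14, 9⟩⟩) (by decide +kernel)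

def tB3_c2p11 : PosD ⟨⟨0, 1, 1⟩, ⟨98, 99, 147⟩, ⟨300, 1351, 10000⟩, ⟨1162, 1320, 1000⟩⟩ (tB3.hC2p true (tB3.pEnd true)) :=
  posD_of_check (c := ⟨409, ⟨2, 7, 16, 10⟩⟩) (by decide +kernel)

def tB3_c2m11 : PosD ⟨⟨0, 1, 1⟩, ⟨98, 99, 147⟩, ⟨300, 1351, 10000⟩, ⟨1162, 1320, 1000⟩⟩ (tB3.hC2m true (tB3.pEnd true)) :=
  posD_of_check (c := ⟨407, ⟨2, 7, 16, 10⟩⟩) (by decide +kernel)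

def tB3_c3p11 : PosD ⟨⟨0, 1, 1⟩, ⟨98, 99, 147⟩, ⟨300, 1351, 10000⟩, ⟨1162, 1320, 1000⟩⟩ (tB3.hC3p true true) :=
  posD_of_check (c := ⟨403, ⟨3, 7, 15, 10⟩⟩) (by decide +kernel)

def tB3_c3m11 : PosD ⟨⟨0, 1, 1⟩, ⟨98, 99, 147⟩, ⟨300, 1351, 10000⟩, ⟨1162, 1320, 1000⟩⟩ (tB3.hC3m true true) :=
  posD_of_check (c := ⟨403, ⟨3, 7, 15, 10⟩⟩) (by decide +kernel)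

def tB3_tmg11 : PosD ⟨⟨0, 1, 1⟩, ⟨98, 99, 147⟩, ⟨300, 1351, 10000⟩, ⟨1162, 1320, 1000⟩⟩ (tB3.hTMG true (tB3.pEnd true)) :=
  posD_of_check (c := ⟨386, ⟨2, 7, 14, 10⟩⟩) (by decide +kernel)

/-- The signs of the piece. -/
def tB3_sign : tB3.Sign ⟨⟨0, 1, 1⟩, ⟨98, 99, 147⟩, ⟨300, 1351, 10000⟩, ⟨1162, 1320, 1000⟩⟩ :=
  ⟨tB3_pp,
    tB3_k2p,
    tB3_k2m,
    Bool.forall_bool.2 ⟨(Bool.forall_bool.2 ⟨tB3_tg00, tB3_tg01⟩), (Bool.forall_bool.2 ⟨tB3_tg10, tB3_tg11⟩)⟩,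
    Bool.forall_bool.2 ⟨(Bool.forall_bool.2 ⟨tB3_c2p00, tB3_c2p01⟩), (Bool.forall_bool.2 ⟨tB3_c2p10, tB3_c2p11⟩)⟩,
    Bool.forall_bool.2 ⟨(Bool.forall_bool.2 ⟨tB3_c2m00, tB3_c2m01⟩), (Bool.forall_bool.2 ⟨tB3_c2m10, tB3_c2m11⟩)⟩,
    Bool.forall_bool.2 ⟨tB3_kap0, tB3_kap1⟩,
    Bool.forall_bool.2 ⟨tB3_c10, tB3_c11⟩,
    Bool.forall_bool.2 ⟨(Bool.forall_bool.2 ⟨tB3_c3p00, tB3_c3p01⟩), (Bool.forall_bool.2 ⟨tB3_c3p10, tB3_c3p11⟩)⟩,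
    Bool.forall_bool.2 ⟨(Bool.forall_bool.2 ⟨tB3_c3m00, tB3_c3m01⟩), (Bool.forall_bool.2 ⟨tB3_c3m10, tB3_c3m11⟩)⟩,
    Bool.forall_bool.2 ⟨(Bool.forall_bool.2 ⟨tB3_tmg00, tB3_tmg01⟩), (Bool.forall_bool.2 ⟨tB3_tmg10, tB3_tmg11⟩)⟩,
    .inl (Bool.forall_bool.2 ⟨⟨tB3_neg0, tB3_neglo0⟩, ⟨tB3_neg1, tB3_neglo1⟩⟩),
    tB3_v2p,
    tB3_v2m,
    tB3_v3p,
    tB3_v3m,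
    posD_sub (b := ⟨⟨0, 1, 1⟩, ⟨98, 99, 147⟩, ⟨300, 1351, 10000⟩, ⟨290, 4000, 1000⟩⟩) (by decide +kernel) tB_vG,
    posD_sub (b := ⟨⟨0, 1, 1⟩, ⟨98, 99, 147⟩, ⟨300, 1351, 10000⟩, ⟨290, 4000, 1000⟩⟩) (by decide +kernel) tB_vMG,
    posD_sub (b := ⟨⟨0, 1, 1⟩, ⟨98, 99, 147⟩, ⟨300, 1351, 10000⟩, ⟨290, 4000, 1000⟩⟩) (by decide +kernel) tB_ak,
    posD_sub (b := ⟨⟨0, 1, 1⟩, ⟨98, 99, 147⟩, ⟨300, 1351, 10000⟩, ⟨290, 4000, 1000⟩⟩) (by decide +kernel) tB_aw,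
    posD_sub (b := ⟨⟨0, 1, 1⟩, ⟨98, 99, 147⟩, ⟨300, 1351, 10000⟩, ⟨290, 4000, 1000⟩⟩) (by decide +kernel) tB_gk,
    posD_sub (b := ⟨⟨0, 1, 1⟩, ⟨98, 99, 147⟩, ⟨300, 1351, 10000⟩, ⟨290, 4000, 1000⟩⟩) (by decide +kernel) tB_gw,
    posD_sub (b := ⟨⟨0, 1, 1⟩, ⟨98, 99, 147⟩, ⟨300, 1351, 10000⟩, ⟨290, 4000, 1000⟩⟩) (by decide +kernel) tB_ek,
    posD_sub (b := ⟨⟨0, 1, 1⟩, ⟨98, 99, 147⟩, ⟨300, 1351, 10000⟩, ⟨290, 4000, 1000⟩⟩) (by decide +kernel) tB_ew⟩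

def tB4_phxa : PosD ⟨⟨0, 1, 1⟩, ⟨98, 99, 147⟩, ⟨300, 825, 10000⟩, ⟨1320, 1500, 1000⟩⟩ (phBn (tB4Hi + xO * (tB4Lo - tB4Hi))) :=
  posD_of_check (c := ⟨60, ⟨2, 0, 2, 1⟩⟩) (by decide +kernel)

def tB4_phxb : PosD ⟨⟨0, 1, 1⟩, ⟨98, 99, 147⟩, ⟨825, 1351, 10000⟩, ⟨1320, 1500, 1000⟩⟩ (phBn (tB4Hi + xO * (tB4Lo - tB4Hi))) :=
  posD_of_check (c := ⟨61, ⟨2, 0, 2, 1⟩⟩) (by decide +kernel)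

def tB4_phx : PosD ⟨⟨0, 1, 1⟩, ⟨98, 99, 147⟩, ⟨300, 1351, 10000⟩, ⟨1320, 1500, 1000⟩⟩ (phBn (tB4Hi + xO * (tB4Lo - tB4Hi))) :=
  posD_join₂ tB4_phxa tB4_phxb

def tB4_phd : PosD ⟨⟨0, 1, 1⟩, ⟨98, 99, 147⟩, ⟨300, 1351, 10000⟩, ⟨1320, 1500, 1000⟩⟩ (phBd (tB4Hi + xO * (tB4Lo - tB4Hi))) :=
  posD_of_check (c := ⟨47, ⟨1, 0, 2, 0⟩⟩) (by decide +kernel)

def tB5_p0 : PosD ⟨⟨0, 1, 1⟩, ⟨98, 99, 147⟩, ⟨300, 1351, 10000⟩, ⟨290, 600, 1000⟩⟩ (tB5.hP0) :=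
  posD_of_check (c := ⟨81, ⟨0, 2, 3, 1⟩⟩) (by decide +kernel)

def tB5_gn : PosD ⟨⟨0, 1, 1⟩, ⟨98, 99, 147⟩, ⟨300, 1351, 10000⟩, ⟨290, 600, 1000⟩⟩ (tB5.hGn) :=
  posD_of_check (c := ⟨55, ⟨1, 1, 2, 1⟩⟩) (by decide +kernel)

def tB5_den0 : PosD ⟨⟨0, 1, 1⟩, ⟨98, 99, 147⟩, ⟨300, 1351, 10000⟩, ⟨290, 600, 1000⟩⟩ (tB5.hDen false) :=
  posD_of_check (c := ⟨47, ⟨1, 0, 2, 0⟩⟩) (by decide +kernel)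

def tB5_den1 : PosD ⟨⟨0, 1, 1⟩, ⟨98, 99, 147⟩, ⟨300, 1351, 10000⟩, ⟨290, 600, 1000⟩⟩ (tB5.hDen true) :=
  posD_of_check (c := ⟨47, ⟨1, 0, 2, 0⟩⟩) (by decide +kernel)

def tB5_none0 : PosD ⟨⟨0, 1, 1⟩, ⟨98, 99, 147⟩, ⟨300, 1351, 10000⟩, ⟨290, 600, 1000⟩⟩ (tB5.hNone false) :=
  posD_of_check (c := ⟨241, ⟨5, 6, 7, 3⟩⟩) (by decide +kernel)

def tB5_none1 : PosD ⟨⟨0, 1, 1⟩, ⟨98, 99, 147⟩, ⟨300, 1351, 10000⟩, ⟨290, 600, 1000⟩⟩ (tB5.hNone true) :=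
  posD_of_check (c := ⟨242, ⟨5, 6, 7, 3⟩⟩) (by decide +kernel)

def tB5_mupU : PosD ⟨⟨0, 1, 1⟩, ⟨98, 99, 147⟩, ⟨300, 1351, 10000⟩, ⟨290, 600, 1000⟩⟩ (tB5.pU.μ) :=
  posD_of_check (c := ⟨16, ⟨0, 0, 0, 0⟩⟩) (by decide +kernel)

def tB5_nupU : PosD ⟨⟨0, 1, 1⟩, ⟨98, 99, 147⟩, ⟨300, 1351, 10000⟩, ⟨290, 600, 1000⟩⟩ (tB5.pU.ν) :=
  posD_of_check (c := ⟨43, ⟨0, 0, 1, 1⟩⟩) (by decide +kernel)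

/-- No point in the piece. -/
def tB5_empty : tB5.Empty ⟨⟨0, 1, 1⟩, ⟨98, 99, 147⟩, ⟨300, 1351, 10000⟩, ⟨290, 600, 1000⟩⟩ :=
  ⟨tB5_p0, Bool.forall_bool.2 ⟨tB5_den0, tB5_den1⟩, tB5_gn, ⟨.inl tB5_mupU, .inl tB5_nupU⟩, Bool.forall_bool.2 ⟨tB5_none0, tB5_none1⟩⟩

end Vale.Agent.P100.Calib.Closed.Six.Tail
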