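import Vale.Agent.P100.Calib.SlabSixTailDataB
import Vale.Agent.P100.Calib.SlabSixTailGlobB

/-!
# Checks of some pieces of the certificate

The checks are written as definitions so that they run one after another, which keeps the memory of the
kernel low.
-/

set_option linter.defProp false

namespace Vale.Agent.P100.Calib.Closed.Six.Tail

open BoxPos Large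

local instance sixTailCheckstB3Add : Add Ex := ⟨Ex.add⟩
local instance sixTailCheckstB3Sub : Sub Ex := ⟨Ex.sub⟩
local instance sixTailCheckstB3Mul : Mul Ex := ⟨Ex.mul⟩

def tB6_p0 : PosD ⟨⟨0, 1, 1⟩, ⟨98, 99, 147⟩, ⟨300, 1351, 10000⟩, ⟨600, 670, 1000⟩⟩ (tB6.hP0) :=
  posD_of_check (c := ⟨81, ⟨0, 2, 3, 1⟩⟩) (by decide +kernel)

def tB6_gn : PosD ⟨⟨0, 1, 1⟩, ⟨98, 99, 147⟩, ⟨300, 1351, 10000⟩, ⟨600, 670, 1000⟩⟩ (tB6.hGn) :=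
  posD_of_check (c := ⟨55, ⟨1, 1, 2, 1⟩⟩) (by decide +kernel)

def tB6_den0 : PosD ⟨⟨0, 1, 1⟩, ⟨98, 99, 147⟩, ⟨300, 1351, 10000⟩, ⟨600, 670, 1000⟩⟩ (tB6.hDen false) :=
  posD_of_check (c := ⟨47, ⟨1, 0, 2, 0⟩⟩) (by decide +kernel)

def tB6_den1 : PosD ⟨⟨0, 1, 1⟩, ⟨98, 99, 147⟩, ⟨300, 1351, 10000⟩, ⟨600, 670, 1000⟩⟩ (tB6.hDen true) :=
  posD_of_check (c := ⟨47, ⟨1, 0, 2, 0⟩⟩) (by decide +kernel)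

def tB6_ev0 : PosD ⟨⟨0, 1, 1⟩, ⟨98, 99, 147⟩, ⟨300, 1351, 10000⟩, ⟨600, 670, 1000⟩⟩ (tB6.hEv false) :=
  posD_of_check (c := ⟨126, ⟨4, 2, 4, 1⟩⟩) (by decide +kernel)

def tB6_zL0a : PosD ⟨⟨0, 1, 1⟩, ⟨98, 99, 147⟩, ⟨300, 825, 10000⟩, ⟨600, 670, 1000⟩⟩ (tB6.hZL false) :=
  posD_of_check (c := ⟨161, ⟨4, 3, 6, 3⟩⟩) (by decide +kernel)

def tB6_zL0b : PosD ⟨⟨0, 1, 1⟩, ⟨98, 99, 147⟩, ⟨825, 1351, 10000⟩, ⟨600, 670, 1000⟩⟩ (tB6.hZL false) :=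
  posD_of_check (c := ⟨163, ⟨4, 3, 6, 3⟩⟩) (by decide +kernel)

def tB6_zL0 : PosD ⟨⟨0, 1, 1⟩, ⟨98, 99, 147⟩, ⟨300, 1351, 10000⟩, ⟨600, 670, 1000⟩⟩ (tB6.hZL false) :=
  posD_join₂ tB6_zL0a tB6_zL0b

def tB6_zU0a : PosD ⟨⟨0, 1, 1⟩, ⟨98, 99, 147⟩, ⟨300, 825, 10000⟩, ⟨600, 670, 1000⟩⟩ (tB6.hZU false) :=
  posD_of_check (c := ⟨161, ⟨4, 3, 6, 3⟩⟩) (by decide +kernel)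

def tB6_zU0b : PosD ⟨⟨0, 1, 1⟩, ⟨98, 99, 147⟩, ⟨825, 1351, 10000⟩, ⟨600, 670, 1000⟩⟩ (tB6.hZU false) :=
  posD_of_check (c := ⟨163, ⟨4, 3, 6, 3⟩⟩) (by decide +kernel)

def tB6_zU0 : PosD ⟨⟨0, 1, 1⟩, ⟨98, 99, 147⟩, ⟨300, 1351, 10000⟩, ⟨600, 670, 1000⟩⟩ (tB6.hZU false) :=
  posD_join₂ tB6_zU0a tB6_zU0b

def tB6_eL0 : PosD ⟨⟨0, 1, 1⟩, ⟨98, 99, 147⟩, ⟨300, 1351, 10000⟩, ⟨600, 670, 1000⟩⟩ (tB6.hEL false) :=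
  posD_of_check (c := ⟨236, ⟨5, 6, 7, 3⟩⟩) (by decide +kernel)

def tB6_eH0 : PosD ⟨⟨0, 1, 1⟩, ⟨98, 99, 147⟩, ⟨300, 1351, 10000⟩, ⟨600, 670, 1000⟩⟩ (tB6.hEH false) :=
  posD_of_check (c := ⟨238, ⟨5, 6, 7, 3⟩⟩) (by decide +kernel)

def tB6_pL0 : PosD ⟨⟨0, 1, 1⟩, ⟨98, 99, 147⟩, ⟨300, 1351, 10000⟩, ⟨600, 670, 1000⟩⟩ (tB6.hPL false) :=
  posD_of_check (c := ⟨235, ⟨5, 6, 7, 3⟩⟩) (by decide +kernel)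

def tB6_pU0 : PosD ⟨⟨0, 1, 1⟩, ⟨98, 99, 147⟩, ⟨300, 1351, 10000⟩, ⟨600, 670, 1000⟩⟩ (tB6.hPU false) :=
  posD_of_check (c := ⟨234, ⟨5, 6, 7, 3⟩⟩) (by decide +kernel)

def tB6_kU0 : PosD ⟨⟨0, 1, 1⟩, ⟨98, 99, 147⟩, ⟨300, 1351, 10000⟩, ⟨600, 670, 1000⟩⟩ (tB6.hKU false) :=
  posD_of_check (c := ⟨236, ⟨5, 6, 7, 3⟩⟩) (by decide +kernel)

def tB6_kL0 : PosD ⟨⟨0, 1, 1⟩, ⟨98, 99, 147⟩, ⟨300, 1351, 10000⟩, ⟨600, 670, 1000⟩⟩ (tB6.hKL false) :=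
  posD_of_check (c := ⟨236, ⟨5, 6, 7, 3⟩⟩) (by decide +kernel)

def tB6_wU0a : PosD ⟨⟨0, 1, 1⟩, ⟨98, 99, 147⟩, ⟨300, 825, 10000⟩, ⟨600, 670, 1000⟩⟩ (tB6.hWU false) :=
  posD_of_check (c := ⟨267, ⟨5, 8, 8, 3⟩⟩) (by decide +kernel)

def tB6_wU0ba : PosD ⟨⟨0, 1, 1⟩, ⟨98, 99, 147⟩, ⟨825, 1351, 10000⟩, ⟨600, 635, 1000⟩⟩ (tB6.hWU false) :=
  posD_of_check (c := ⟨268, ⟨5, 8, 8, 3⟩⟩) (by decide +kernel)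

def tB6_wU0bb : PosD ⟨⟨0, 1, 1⟩, ⟨98, 99, 147⟩, ⟨825, 1351, 10000⟩, ⟨635, 670, 1000⟩⟩ (tB6.hWU false) :=
  posD_of_check (c := ⟨268, ⟨5, 8, 8, 3⟩⟩) (by decide +kernel)

def tB6_wU0b : PosD ⟨⟨0, 1, 1⟩, ⟨98, 99, 147⟩, ⟨825, 1351, 10000⟩, ⟨600, 670, 1000⟩⟩ (tB6.hWU false) :=
  posD_join₃ tB6_wU0ba tB6_wU0bb

def tB6_wU0 : PosD ⟨⟨0, 1, 1⟩, ⟨98, 99, 147⟩, ⟨300, 1351, 10000⟩, ⟨600, 670, 1000⟩⟩ (tB6.hWU false) :=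
  posD_join₂ tB6_wU0a tB6_wU0b

def tB6_wL0 : PosD ⟨⟨0, 1, 1⟩, ⟨98, 99, 147⟩, ⟨300, 1351, 10000⟩, ⟨600, 670, 1000⟩⟩ (tB6.hWL false) :=
  posD_of_check (c := ⟨267, ⟨5, 8, 8, 3⟩⟩) (by decide +kernel)

def tB6_ev1 : PosD ⟨⟨0, 1, 1⟩, ⟨98, 99, 147⟩, ⟨300, 1351, 10000⟩, ⟨600, 670, 1000⟩⟩ (tB6.hEv true) :=
  posD_of_check (c := ⟨128, ⟨4, 2, 4, 1⟩⟩) (by decide +kernel)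

def tB6_zL1aa : PosD ⟨⟨0, 1, 1⟩, ⟨98, 99, 147⟩, ⟨300, 562, 10000⟩, ⟨600, 670, 1000⟩⟩ (tB6.hZL true) :=
  posD_of_check (c := ⟨161, ⟨4, 3, 6, 3⟩⟩) (by decide +kernel)

def tB6_zL1ab : PosD ⟨⟨0, 1, 1⟩, ⟨98, 99, 147⟩, ⟨562, 825, 10000⟩, ⟨600, 670, 1000⟩⟩ (tB6.hZL true) :=
  posD_of_check (c := ⟨161, ⟨4, 3, 6, 3⟩⟩) (by decide +kernel)

def tB6_zL1a : PosD ⟨⟨0, 1, 1⟩, ⟨98, 99, 147⟩, ⟨300, 825, 10000⟩, ⟨600, 670, 1000⟩⟩ (tB6.hZL true) :=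
  posD_join₂ tB6_zL1aa tB6_zL1ab

def tB6_zL1b : PosD ⟨⟨0, 1, 1⟩, ⟨98, 99, 147⟩, ⟨825, 1351, 10000⟩, ⟨600, 670, 1000⟩⟩ (tB6.hZL true) :=
  posD_of_check (c := ⟨162, ⟨4, 3, 6, 3⟩⟩) (by decide +kernel)

def tB6_zL1 : PosD ⟨⟨0, 1, 1⟩, ⟨98, 99, 147⟩, ⟨300, 1351, 10000⟩, ⟨600, 670, 1000⟩⟩ (tB6.hZL true) :=
  posD_join₂ tB6_zL1a tB6_zL1b

def tB6_zU1 : PosD ⟨⟨0, 1, 1⟩, ⟨98, 99, 147⟩, ⟨300, 1351, 10000⟩, ⟨600, 670, 1000⟩⟩ (tB6.hZU true) :=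
  posD_of_check (c := ⟨161, ⟨4, 3, 6, 3⟩⟩) (by decide +kernel)

def tB6_eL1 : PosD ⟨⟨0, 1, 1⟩, ⟨98, 99, 147⟩, ⟨300, 1351, 10000⟩, ⟨600, 670, 1000⟩⟩ (tB6.hEL true) :=
  posD_of_check (c := ⟨238, ⟨5, 6, 7, 3⟩⟩) (by decide +kernel)

def tB6_eH1aa : PosD ⟨⟨0, 1, 1⟩, ⟨98, 99, 147⟩, ⟨300, 562, 10000⟩, ⟨600, 670, 1000⟩⟩ (tB6.hEH true) :=
  posD_of_check (c := ⟨239, ⟨5, 6, 7, 3⟩⟩) (by decide +kernel)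

def tB6_eH1aba : PosD ⟨⟨0, 1, 1⟩, ⟨98, 99, 147⟩, ⟨562, 693, 10000⟩, ⟨600, 670, 1000⟩⟩ (tB6.hEH true) :=
  posD_of_check (c := ⟨240, ⟨5, 6, 7, 3⟩⟩) (by decide +kernel)

def tB6_eH1abb : PosD ⟨⟨0, 1, 1⟩, ⟨98, 99, 147⟩, ⟨693, 825, 10000⟩, ⟨600, 670, 1000⟩⟩ (tB6.hEH true) :=
  posD_of_check (c := ⟨240, ⟨5, 6, 7, 3⟩⟩) (by decide +kernel)

def tB6_eH1ab : PosD ⟨⟨0, 1, 1⟩, ⟨98, 99, 147⟩, ⟨562, 825, 10000⟩, ⟨600, 670, 1000⟩⟩ (tB6.hEH true) :=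
  posD_join₂ tB6_eH1aba tB6_eH1abb

def tB6_eH1a : PosD ⟨⟨0, 1, 1⟩, ⟨98, 99, 147⟩, ⟨300, 825, 10000⟩, ⟨600, 670, 1000⟩⟩ (tB6.hEH true) :=
  posD_join₂ tB6_eH1aa tB6_eH1ab

def tB6_eH1b : PosD ⟨⟨0, 1, 1⟩, ⟨98, 99, 147⟩, ⟨825, 1351, 10000⟩, ⟨600, 670, 1000⟩⟩ (tB6.hEH true) :=
  posD_of_check (c := ⟨240, ⟨5, 6, 7, 3⟩⟩) (by decide +kernel)

def tB6_eH1 : PosD ⟨⟨0, 1, 1⟩, ⟨98, 99, 147⟩, ⟨300, 1351, 10000⟩, ⟨600, 670, 1000⟩⟩ (tB6.hEH true) :=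
  posD_join₂ tB6_eH1a tB6_eH1b

def tB6_pL1 : PosD ⟨⟨0, 1, 1⟩, ⟨98, 99, 147⟩, ⟨300, 1351, 10000⟩, ⟨600, 670, 1000⟩⟩ (tB6.hPL true) :=
  posD_of_check (c := ⟨236, ⟨5, 6, 7, 3⟩⟩) (by decide +kernel)

def tB6_pU1 : PosD ⟨⟨0, 1, 1⟩, ⟨98, 99, 147⟩, ⟨300, 1351, 10000⟩, ⟨600, 670, 1000⟩⟩ (tB6.hPU true) :=
  posD_of_check (c := ⟨235, ⟨5, 6, 7, 3⟩⟩) (by decide +kernel)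

def tB6_kU1a : PosD ⟨⟨0, 1, 1⟩, ⟨98, 99, 147⟩, ⟨300, 825, 10000⟩, ⟨600, 670, 1000⟩⟩ (tB6.hKU true) :=
  posD_of_check (c := ⟨237, ⟨5, 6, 7, 3⟩⟩) (by decide +kernel)

def tB6_kU1b : PosD ⟨⟨0, 1, 1⟩, ⟨98, 99, 147⟩, ⟨825, 1351, 10000⟩, ⟨600, 670, 1000⟩⟩ (tB6.hKU true) :=
  posD_of_check (c := ⟨238, ⟨5, 6, 7, 3⟩⟩) (by decide +kernel)

def tB6_kU1 : PosD ⟨⟨0, 1, 1⟩, ⟨98, 99, 147⟩, ⟨300, 1351, 10000⟩, ⟨600, 670, 1000⟩⟩ (tB6.hKU true) :=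
  posD_join₂ tB6_kU1a tB6_kU1b

def tB6_kL1a : PosD ⟨⟨0, 1, 1⟩, ⟨98, 99, 147⟩, ⟨300, 1351, 10000⟩, ⟨600, 635, 1000⟩⟩ (tB6.hKL true) :=
  posD_of_check (c := ⟨238, ⟨5, 6, 7, 3⟩⟩) (by decide +kernel)

def tB6_kL1ba : PosD ⟨⟨0, 1, 1⟩, ⟨98, 99, 147⟩, ⟨300, 1351, 10000⟩, ⟨635, 652, 1000⟩⟩ (tB6.hKL true) :=
  posD_of_check (c := ⟨238, ⟨5, 6, 7, 3⟩⟩) (by decide +kernel)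

def tB6_kL1bba : PosD ⟨⟨0, 1, 1⟩, ⟨98, 99, 147⟩, ⟨300, 825, 10000⟩, ⟨652, 670, 1000⟩⟩ (tB6.hKL true) :=
  posD_of_check (c := ⟨237, ⟨5, 6, 7, 3⟩⟩) (by decide +kernel)

def tB6_kL1bbbaaaa : PosD ⟨⟨0, 1, 1⟩, ⟨98, 99, 147⟩, ⟨825, 1351, 10000⟩, ⟨652, 653, 1000⟩⟩ (tB6.hKL true) :=
  posD_of_check (c := ⟨238, ⟨5, 6, 7, 3⟩⟩) (by decide +kernel)

def tB6_kL1bbbaaab : PosD ⟨⟨0, 1, 1⟩, ⟨98, 99, 147⟩, ⟨825, 1351, 10000⟩, ⟨653, 654, 1000⟩⟩ (tB6.hKL true) :=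
  posD_of_check (c := ⟨238, ⟨5, 6, 7, 3⟩⟩) (by decide +kernel)

def tB6_kL1bbbaaa : PosD ⟨⟨0, 1, 1⟩, ⟨98, 99, 147⟩, ⟨825, 1351, 10000⟩, ⟨652, 654, 1000⟩⟩ (tB6.hKL true) :=
  posD_join₃ tB6_kL1bbbaaaa tB6_kL1bbbaaab

def tB6_kL1bbbaab : PosD ⟨⟨0, 1, 1⟩, ⟨98, 99, 147⟩, ⟨825, 1351, 10000⟩, ⟨654, 656, 1000⟩⟩ (tB6.hKL true) :=
  posD_of_check (c := ⟨238, ⟨5, 6, 7, 3⟩⟩) (by decide +kernel)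

def tB6_kL1bbbaa : PosD ⟨⟨0, 1, 1⟩, ⟨98, 99, 147⟩, ⟨825, 1351, 10000⟩, ⟨652, 656, 1000⟩⟩ (tB6.hKL true) :=
  posD_join₃ tB6_kL1bbbaaa tB6_kL1bbbaab

def tB6_kL1bbbab : PosD ⟨⟨0, 1, 1⟩, ⟨98, 99, 147⟩, ⟨825, 1351, 10000⟩, ⟨656, 661, 1000⟩⟩ (tB6.hKL true) :=
  posD_of_check (c := ⟨238, ⟨5, 6, 7, 3⟩⟩) (by decide +kernel)

def tB6_kL1bbba : PosD ⟨⟨0, 1, 1⟩, ⟨98, 99, 147⟩, ⟨825, 1351, 10000⟩, ⟨652, 661, 1000⟩⟩ (tB6.hKL true) :=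
  posD_join₃ tB6_kL1bbbaa tB6_kL1bbbab

def tB6_kL1bbbb : PosD ⟨⟨0, 1, 1⟩, ⟨98, 99, 147⟩, ⟨825, 1351, 10000⟩, ⟨661, 670, 1000⟩⟩ (tB6.hKL true) :=
  posD_of_check (c := ⟨238, ⟨5, 6, 7, 3⟩⟩) (by decide +kernel)

def tB6_kL1bbb : PosD ⟨⟨0, 1, 1⟩, ⟨98, 99, 147⟩, ⟨825, 1351, 10000⟩, ⟨652, 670, 1000⟩⟩ (tB6.hKL true) :=
  posD_join₃ tB6_kL1bbba tB6_kL1bbbb

def tB6_kL1bb : PosD ⟨⟨0, 1, 1⟩, ⟨98, 99, 147⟩, ⟨300, 1351, 10000⟩, ⟨652, 670, 1000⟩⟩ (tB6.hKL true) :=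
  posD_join₂ tB6_kL1bba tB6_kL1bbb

def tB6_kL1b : PosD ⟨⟨0, 1, 1⟩, ⟨98, 99, 147⟩, ⟨300, 1351, 10000⟩, ⟨635, 670, 1000⟩⟩ (tB6.hKL true) :=
  posD_join₃ tB6_kL1ba tB6_kL1bb

def tB6_kL1 : PosD ⟨⟨0, 1, 1⟩, ⟨98, 99, 147⟩, ⟨300, 1351, 10000⟩, ⟨600, 670, 1000⟩⟩ (tB6.hKL true) :=
  posD_join₃ tB6_kL1a tB6_kL1b

def tB6_wU1a : PosD ⟨⟨0, 1, 1⟩, ⟨98, 99, 147⟩, ⟨300, 1351, 10000⟩, ⟨600, 635, 1000⟩⟩ (tB6.hWU true) :=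
  posD_of_check (c := ⟨269, ⟨5, 8, 8, 3⟩⟩) (by decide +kernel)

def tB6_wU1ba : PosD ⟨⟨0, 1, 1⟩, ⟨98, 99, 147⟩, ⟨300, 825, 10000⟩, ⟨635, 670, 1000⟩⟩ (tB6.hWU true) :=
  posD_of_check (c := ⟨269, ⟨5, 8, 8, 3⟩⟩) (by decide +kernel)

def tB6_wU1bb : PosD ⟨⟨0, 1, 1⟩, ⟨98, 99, 147⟩, ⟨825, 1351, 10000⟩, ⟨635, 670, 1000⟩⟩ (tB6.hWU true) :=
  posD_of_check (c := ⟨270, ⟨5, 8, 8, 3⟩⟩) (by decide +kernel)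

def tB6_wU1b : PosD ⟨⟨0, 1, 1⟩, ⟨98, 99, 147⟩, ⟨300, 1351, 10000⟩, ⟨635, 670, 1000⟩⟩ (tB6.hWU true) :=
  posD_join₂ tB6_wU1ba tB6_wU1bb

def tB6_wU1 : PosD ⟨⟨0, 1, 1⟩, ⟨98, 99, 147⟩, ⟨300, 1351, 10000⟩, ⟨600, 670, 1000⟩⟩ (tB6.hWU true) :=
  posD_join₃ tB6_wU1a tB6_wU1b

def tB6_wL1a : PosD ⟨⟨0, 1, 1⟩, ⟨98, 99, 147⟩, ⟨300, 1351, 10000⟩, ⟨600, 635, 1000⟩⟩ (tB6.hWL true) :=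
  posD_of_check (c := ⟨269, ⟨5, 8, 8, 3⟩⟩) (by decide +kernel)

def tB6_wL1b : PosD ⟨⟨0, 1, 1⟩, ⟨98, 99, 147⟩, ⟨300, 1351, 10000⟩, ⟨635, 670, 1000⟩⟩ (tB6.hWL true) :=
  posD_of_check (c := ⟨269, ⟨5, 8, 8, 3⟩⟩) (by decide +kernel)

def tB6_wL1 : PosD ⟨⟨0, 1, 1⟩, ⟨98, 99, 147⟩, ⟨300, 1351, 10000⟩, ⟨600, 670, 1000⟩⟩ (tB6.hWL true) :=
  posD_join₃ tB6_wL1a tB6_wL1b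

def tB6_mueL : PosD ⟨⟨0, 1, 1⟩, ⟨98, 99, 147⟩, ⟨300, 1351, 10000⟩, ⟨600, 670, 1000⟩⟩ (tB6.eL.μ) :=
  posD_of_check (c := ⟨11, ⟨0, 0, 0, 0⟩⟩) (by decide +kernel)

def tB6_mueH : PosD ⟨⟨0, 1, 1⟩, ⟨98, 99, 147⟩, ⟨300, 1351, 10000⟩, ⟨600, 670, 1000⟩⟩ (tB6.eH.μ) :=
  posD_of_check (c := ⟨21, ⟨0, 0, 0, 0⟩⟩) (by decide +kernel)

def tB6_mupL : PosD ⟨⟨0, 1, 1⟩, ⟨98, 99, 147⟩, ⟨300, 1351, 10000⟩, ⟨600, 670, 1000⟩⟩ (tB6.pL.μ) :=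
  posD_of_check (c := ⟨16, ⟨0, 0, 0, 0⟩⟩) (by decide +kernel)

def tB6_mukU : PosD ⟨⟨0, 1, 1⟩, ⟨98, 99, 147⟩, ⟨300, 1351, 10000⟩, ⟨600, 670, 1000⟩⟩ (tB6.kU.μ) :=
  posD_of_check (c := ⟨15, ⟨0, 0, 0, 0⟩⟩) (by decide +kernel)

def tB6_muwU : PosD ⟨⟨0, 1, 1⟩, ⟨98, 99, 147⟩, ⟨300, 1351, 10000⟩, ⟨600, 670, 1000⟩⟩ (tB6.wU.μ) :=
  posD_of_check (c := ⟨13, ⟨0, 0, 0, 0⟩⟩) (by decide +kernel)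

/-- The bounds of the piece. -/
def tB6_env : tB6.Env ⟨⟨0, 1, 1⟩, ⟨98, 99, 147⟩, ⟨300, 1351, 10000⟩, ⟨600, 670, 1000⟩⟩ :=
  ⟨tB6_p0, Bool.forall_bool.2 ⟨tB6_den0, tB6_den1⟩, tB6_gn, Bool.forall_bool.2 ⟨tB6_ev0, tB6_ev1⟩, Bool.forall_bool.2 ⟨tB6_zL0, tB6_zL1⟩, Bool.forall_bool.2 ⟨tB6_zU0, tB6_zU1⟩, Bool.forall_bool.2 ⟨tB6_eL0, tB6_eL1⟩, ⟨.inl tB6_mueL, .inr rfl⟩, Bool.forall_bool.2 ⟨tB6_eH0, tB6_eH1⟩, ⟨.inl tB6_mueH, .inr rfl⟩, Bool.forall_bool.2 ⟨tB6_pL0, tB6_pL1⟩, ⟨.inl tB6_mupL, .inr rfl⟩, Bool.forall_bool.2 ⟨tB6_pU0, tB6_pU1⟩, ⟨.inr rfl, .inr rfl⟩, Bool.forall_bool.2 ⟨tB6_kU0, tB6_kU1⟩, ⟨.inl tB6_mukU, .inr rfl⟩, Bool.forall_bool.2 ⟨tB6_kL0, tB6_kL1⟩, ⟨.inr rfl, .inr rfl⟩, Bool.forall_bool.2 ⟨tB6_wU0,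 tB6_wU1⟩, ⟨.inl tB6_muwU, .inr rfl⟩, Bool.forall_bool.2 ⟨tB6_wL0, tB6_wL1⟩, ⟨.inr rfl, .inr rfl⟩⟩

def tB6_pp : PosD ⟨⟨0, 1, 1⟩, ⟨98, 99, 147⟩, ⟨300, 1351, 10000⟩, ⟨600, 670, 1000⟩⟩ (tB6.xPL) :=
  posD_of_check (c := ⟨93, ⟨1, 1, 3, 3⟩⟩) (by decide +kernel)

def tB6_k2p : PosD ⟨⟨0, 1, 1⟩, ⟨98, 99, 147⟩, ⟨300, 1351, 10000⟩, ⟨600, 670, 1000⟩⟩ (tB6.k2p tB6.xE) :=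
  posD_of_check (c := ⟨6, ⟨0, 0, 0, 0⟩⟩) (by decide +kernel)

def tB6_k2m : PosD ⟨⟨0, 1, 1⟩, ⟨98, 99, 147⟩, ⟨300, 1351, 10000⟩, ⟨600, 670, 1000⟩⟩ (tB6.k2m tB6.xE) :=
  posD_of_check (c := ⟨72, ⟨1, 1, 2, 2⟩⟩) (by decide +kernel)

def tB6_v2p : PosD ⟨⟨0, 1, 1⟩, ⟨98, 99, 147⟩, ⟨300, 1351, 10000⟩, ⟨600, 670, 1000⟩⟩ (tB6.hV2p) :=
  posD_of_check (c := ⟨228, ⟨0, 5, 10, 4⟩⟩) (by decide +kernel)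

def tB6_v2m : PosD ⟨⟨0, 1, 1⟩, ⟨98, 99, 147⟩, ⟨300, 1351, 10000⟩, ⟨600, 670, 1000⟩⟩ (tB6.hV2m) :=
  posD_of_check (c := ⟨266, ⟨1, 6, 10, 5⟩⟩) (by decide +kernel)

def tB6_v3p : PosD ⟨⟨0, 1, 1⟩, ⟨98, 99, 147⟩, ⟨300, 1351, 10000⟩, ⟨600, 670, 1000⟩⟩ (tB6.hV3p) :=
  posD_of_check (c := ⟨221, ⟨0, 5, 9, 4⟩⟩) (by decide +kernel)

def tB6_v3m : PosD ⟨⟨0, 1, 1⟩, ⟨98, 99, 147⟩, ⟨300, 1351, 10000⟩, ⟨600, 670, 1000⟩⟩ (tB6.hV3m) :=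
  posD_of_check (c := ⟨251, ⟨1, 6, 9, 5⟩⟩) (by decide +kernel)

def tB6_kap0 : PosD ⟨⟨0, 1, 1⟩, ⟨98, 99, 147⟩, ⟨300, 1351, 10000⟩, ⟨600, 670, 1000⟩⟩ (tB6.kap false) :=
  posD_of_check (c := ⟨71, ⟨1, 1, 2, 2⟩⟩) (by decide +kernel)

def tB6_c10 : PosD ⟨⟨0, 1, 1⟩, ⟨98, 99, 147⟩, ⟨300, 1351, 10000⟩, ⟨600, 670, 1000⟩⟩ (tB6.hC1 false) :=
  posD_of_check (c := ⟨275, ⟨3, 5, 9, 7⟩⟩) (by decide +kernel)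

def tB6_c1h0 : PosD ⟨⟨0, 1, 1⟩, ⟨98, 99, 147⟩, ⟨300, 1351, 10000⟩, ⟨600, 670, 1000⟩⟩ (tB6.hC1' false) :=
  posD_of_check (c := ⟨275, ⟨3, 5, 9, 7⟩⟩) (by decide +kernel)

def tB6_tg00 : PosD ⟨⟨0, 1, 1⟩, ⟨98, 99, 147⟩, ⟨300, 1351, 10000⟩, ⟨600, 670, 1000⟩⟩ (tB6.hG false (tB6.pEnd false)) :=
  posD_of_check (c := ⟨375, ⟨2, 7, 14, 9⟩⟩) (by decide +kernel)

def tB6_c2p00 : PosD ⟨⟨0, 1, 1⟩, ⟨98, 99, 147⟩, ⟨300, 1351, 10000⟩, ⟨600, 670, 1000⟩⟩ (tB6.hC2p false (tB6.pEnd false)) :=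
  posD_of_check (c := ⟨412, ⟨2, 7, 16, 10⟩⟩) (by decide +kernel)

def tB6_c2m00 : PosD ⟨⟨0, 1, 1⟩, ⟨98, 99, 147⟩, ⟨300, 1351, 10000⟩, ⟨600, 670, 1000⟩⟩ (tB6.hC2m false (tB6.pEnd false)) :=
  posD_of_check (c := ⟨447, ⟨3, 8, 16, 11⟩⟩) (by decide +kernel)

def tB6_c3p00 : PosD ⟨⟨0, 1, 1⟩, ⟨98, 99, 147⟩, ⟨300, 1351, 10000⟩, ⟨600, 670, 1000⟩⟩ (tB6.hC3p false false) :=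
  posD_of_check (c := ⟨415, ⟨3, 7, 15, 10⟩⟩) (by decide +kernel)

def tB6_c3m00 : PosD ⟨⟨0, 1, 1⟩, ⟨98, 99, 147⟩, ⟨300, 1351, 10000⟩, ⟨600, 670, 1000⟩⟩ (tB6.hC3m false false) :=
  posD_of_check (c := ⟨440, ⟨3, 8, 15, 11⟩⟩) (by decide +kernel)

def tB6_c3ph00 : PosD ⟨⟨0, 1, 1⟩, ⟨98, 99, 147⟩, ⟨300, 1351, 10000⟩, ⟨600, 670, 1000⟩⟩ (tB6.hC3p' false false) :=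
  posD_of_check (c := ⟨415, ⟨3, 7, 15, 10⟩⟩) (by decide +kernel)

def tB6_c3mh00 : PosD ⟨⟨0, 1, 1⟩, ⟨98, 99, 147⟩, ⟨300, 1351, 10000⟩, ⟨600, 670, 1000⟩⟩ (tB6.hC3m' false false) :=
  posD_of_check (c := ⟨440, ⟨3, 8, 15, 11⟩⟩) (by decide +kernel)

def tB6_up00 : PosD ⟨⟨0, 1, 1⟩, ⟨98, 99, 147⟩, ⟨300, 1351, 10000⟩, ⟨600, 670, 1000⟩⟩ (tB6.hUp false false) :=
  posD_of_check (c := ⟨405, ⟨2, 7, 15, 10⟩⟩) (by decide +kernel)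

def tB6_um00 : PosD ⟨⟨0, 1, 1⟩, ⟨98, 99, 147⟩, ⟨300, 1351, 10000⟩, ⟨600, 670, 1000⟩⟩ (tB6.hUm false false) :=
  posD_of_check (c := ⟨436, ⟨3, 8, 15, 11⟩⟩) (by decide +kernel)

def tB6_tmg00 : PosD ⟨⟨0, 1, 1⟩, ⟨98, 99, 147⟩, ⟨300, 1351, 10000⟩, ⟨600, 670, 1000⟩⟩ (tB6.hTMG false (tB6.pEnd false)) :=
  posD_of_check (c := ⟨391, ⟨2, 7, 14, 10⟩⟩) (by decide +kernel)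

def tB6_tg01 : PosD ⟨⟨0, 1, 1⟩, ⟨98, 99, 147⟩, ⟨300, 1351, 10000⟩, ⟨600, 670, 1000⟩⟩ (tB6.hG true (tB6.pEnd false)) :=
  posD_of_check (c := ⟨375, ⟨2, 7, 14, 9⟩⟩) (by decide +kernel)

def tB6_c2p01 : PosD ⟨⟨0, 1, 1⟩, ⟨98, 99, 147⟩, ⟨300, 1351, 10000⟩, ⟨600, 670, 1000⟩⟩ (tB6.hC2p true (tB6.pEnd false)) :=
  posD_of_check (c := ⟨412, ⟨2, 7, 16, 10⟩⟩) (by decide +kernel)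

def tB6_c2m01 : PosD ⟨⟨0, 1, 1⟩, ⟨98, 99, 147⟩, ⟨300, 1351, 10000⟩, ⟨600, 670, 1000⟩⟩ (tB6.hC2m true (tB6.pEnd false)) :=
  posD_of_check (c := ⟨447, ⟨3, 8, 16, 11⟩⟩) (by decide +kernel)

def tB6_c3p01 : PosD ⟨⟨0, 1, 1⟩, ⟨98, 99, 147⟩, ⟨300, 1351, 10000⟩, ⟨600, 670, 1000⟩⟩ (tB6.hC3p false true) :=
  posD_of_check (c := ⟨415, ⟨3, 7, 15, 10⟩⟩) (by decide +kernel)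

def tB6_c3m01 : PosD ⟨⟨0, 1, 1⟩, ⟨98, 99, 147⟩, ⟨300, 1351, 10000⟩, ⟨600, 670, 1000⟩⟩ (tB6.hC3m false true) :=
  posD_of_check (c := ⟨440, ⟨3, 8, 15, 11⟩⟩) (by decide +kernel)

def tB6_c3ph01 : PosD ⟨⟨0, 1, 1⟩, ⟨98, 99, 147⟩, ⟨300, 1351, 10000⟩, ⟨600, 670, 1000⟩⟩ (tB6.hC3p' false true) :=
  posD_of_check (c := ⟨415, ⟨3, 7, 15, 10⟩⟩) (by decide +kernel)

def tB6_c3mh01 : PosD ⟨⟨0, 1, 1⟩, ⟨98, 99, 147⟩, ⟨300, 1351, 10000⟩, ⟨600, 670, 1000⟩⟩ (tB6.hC3m' false true) :=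
  posD_of_check (c := ⟨440, ⟨3, 8, 15, 11⟩⟩) (by decide +kernel)

def tB6_up01 : PosD ⟨⟨0, 1, 1⟩, ⟨98, 99, 147⟩, ⟨300, 1351, 10000⟩, ⟨600, 670, 1000⟩⟩ (tB6.hUp false true) :=
  posD_of_check (c := ⟨405, ⟨2, 7, 15, 10⟩⟩) (by decide +kernel)

def tB6_um01 : PosD ⟨⟨0, 1, 1⟩, ⟨98, 99, 147⟩, ⟨300, 1351, 10000⟩, ⟨600, 670, 1000⟩⟩ (tB6.hUm false true) :=
  posD_of_check (c := ⟨436, ⟨3, 8, 15, 11⟩⟩) (by decide +kernel)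

def tB6_tmg01 : PosD ⟨⟨0, 1, 1⟩, ⟨98, 99, 147⟩, ⟨300, 1351, 10000⟩, ⟨600, 670, 1000⟩⟩ (tB6.hTMG true (tB6.pEnd false)) :=
  posD_of_check (c := ⟨391, ⟨2, 7, 14, 10⟩⟩) (by decide +kernel)

def tB6_kap1 : PosD ⟨⟨0, 1, 1⟩, ⟨98, 99, 147⟩, ⟨300, 1351, 10000⟩, ⟨600, 670, 1000⟩⟩ (tB6.kap true) :=
  posD_of_check (c := ⟨72, ⟨1, 1, 2, 2⟩⟩) (by decide +kernel)

def tB6_c11 : PosD ⟨⟨0, 1, 1⟩, ⟨98, 99, 147⟩, ⟨300, 1351, 10000⟩, ⟨600, 670, 1000⟩⟩ (tB6.hC1 true) :=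
  posD_of_check (c := ⟨275, ⟨3, 5, 9, 7⟩⟩) (by decide +kernel)

def tB6_c1h1 : PosD ⟨⟨0, 1, 1⟩, ⟨98, 99, 147⟩, ⟨300, 1351, 10000⟩, ⟨600, 670, 1000⟩⟩ (tB6.hC1' true) :=
  posD_of_check (c := ⟨275, ⟨3, 5, 9, 7⟩⟩) (by decide +kernel)

def tB6_tg10 : PosD ⟨⟨0, 1, 1⟩, ⟨98, 99, 147⟩, ⟨300, 1351, 10000⟩, ⟨600, 670, 1000⟩⟩ (tB6.hG false (tB6.pEnd true)) :=
  posD_of_check (c := ⟨373, ⟨2, 7, 14, 9⟩⟩) (by decide +kernel)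

def tB6_c2p10 : PosD ⟨⟨0, 1, 1⟩, ⟨98, 99, 147⟩, ⟨300, 1351, 10000⟩, ⟨600, 670, 1000⟩⟩ (tB6.hC2p false (tB6.pEnd true)) :=
  posD_of_check (c := ⟨411, ⟨2, 7, 16, 10⟩⟩) (by decide +kernel)

def tB6_c2m10 : PosD ⟨⟨0, 1, 1⟩, ⟨98, 99, 147⟩, ⟨300, 1351, 10000⟩, ⟨600, 670, 1000⟩⟩ (tB6.hC2m false (tB6.pEnd true)) :=
  posD_of_check (c := ⟨445, ⟨3, 8, 16, 11⟩⟩) (by decide +kernel)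

def tB6_c3p10 : PosD ⟨⟨0, 1, 1⟩, ⟨98, 99, 147⟩, ⟨300, 1351, 10000⟩, ⟨600, 670, 1000⟩⟩ (tB6.hC3p true false) :=
  posD_of_check (c := ⟨414, ⟨3, 7, 15, 10⟩⟩) (by decide +kernel)

def tB6_c3m10 : PosD ⟨⟨0, 1, 1⟩, ⟨98, 99, 147⟩, ⟨300, 1351, 10000⟩, ⟨600, 670, 1000⟩⟩ (tB6.hC3m true false) :=
  posD_of_check (c := ⟨439, ⟨3, 8, 15, 11⟩⟩) (by decide +kernel)

def tB6_c3ph10 : PosD ⟨⟨0, 1, 1⟩, ⟨98, 99, 147⟩, ⟨300, 1351, 10000⟩, ⟨600, 670, 1000⟩⟩ (tB6.hC3p' true false) :=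
  posD_of_check (c := ⟨414, ⟨3, 7, 15, 10⟩⟩) (by decide +kernel)

def tB6_c3mh10 : PosD ⟨⟨0, 1, 1⟩, ⟨98, 99, 147⟩, ⟨300, 1351, 10000⟩, ⟨600, 670, 1000⟩⟩ (tB6.hC3m' true false) :=
  posD_of_check (c := ⟨439, ⟨3, 8, 15, 11⟩⟩) (by decide +kernel)

def tB6_up10 : PosD ⟨⟨0, 1, 1⟩, ⟨98, 99, 147⟩, ⟨300, 1351, 10000⟩, ⟨600, 670, 1000⟩⟩ (tB6.hUp true false) :=
  posD_of_check (c := ⟨405, ⟨2, 7, 15, 10⟩⟩) (by decide +kernel)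

def tB6_um10 : PosD ⟨⟨0, 1, 1⟩, ⟨98, 99, 147⟩, ⟨300, 1351, 10000⟩, ⟨600, 670, 1000⟩⟩ (tB6.hUm true false) :=
  posD_of_check (c := ⟨434, ⟨3, 8, 15, 11⟩⟩) (by decide +kernel)

def tB6_tmg10 : PosD ⟨⟨0, 1, 1⟩, ⟨98, 99, 147⟩, ⟨300, 1351, 10000⟩, ⟨600, 670, 1000⟩⟩ (tB6.hTMG false (tB6.pEnd true)) :=
  posD_of_check (c := ⟨391, ⟨2, 7, 14, 10⟩⟩) (by decide +kernel)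

def tB6_tg11 : PosD ⟨⟨0, 1, 1⟩, ⟨98, 99, 147⟩, ⟨300, 1351, 10000⟩, ⟨600, 670, 1000⟩⟩ (tB6.hG true (tB6.pEnd true)) :=
  posD_of_check (c := ⟨373, ⟨2, 7, 14, 9⟩⟩) (by decide +kernel)

def tB6_c2p11 : PosD ⟨⟨0, 1, 1⟩, ⟨98, 99, 147⟩, ⟨300, 1351, 10000⟩, ⟨600, 670, 1000⟩⟩ (tB6.hC2p true (tB6.pEnd true)) :=
  posD_of_check (c := ⟨411, ⟨2, 7, 16, 10⟩⟩) (by decide +kernel)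

def tB6_c2m11 : PosD ⟨⟨0, 1, 1⟩, ⟨98, 99, 147⟩, ⟨300, 1351, 10000⟩, ⟨600, 670, 1000⟩⟩ (tB6.hC2m true (tB6.pEnd true)) :=
  posD_of_check (c := ⟨445, ⟨3, 8, 16, 11⟩⟩) (by decide +kernel)

def tB6_c3p11 : PosD ⟨⟨0, 1, 1⟩, ⟨98, 99, 147⟩, ⟨300, 1351, 10000⟩, ⟨600, 670, 1000⟩⟩ (tB6.hC3p true true) :=
  posD_of_check (c := ⟨414, ⟨3, 7, 15, 10⟩⟩) (by decide +kernel)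

def tB6_c3m11 : PosD ⟨⟨0, 1, 1⟩, ⟨98, 99, 147⟩, ⟨300, 1351, 10000⟩, ⟨600, 670, 1000⟩⟩ (tB6.hC3m true true) :=
  posD_of_check (c := ⟨439, ⟨3, 8, 15, 11⟩⟩) (by decide +kernel)

def tB6_c3ph11 : PosD ⟨⟨0, 1, 1⟩, ⟨98, 99, 147⟩, ⟨300, 1351, 10000⟩, ⟨600, 670, 1000⟩⟩ (tB6.hC3p' true true) :=
  posD_of_check (c := ⟨414, ⟨3, 7, 15, 10⟩⟩) (by decide +kernel)

def tB6_c3mh11 : PosD ⟨⟨0, 1, 1⟩, ⟨98, 99, 147⟩, ⟨300, 1351, 10000⟩, ⟨600, 670, 1000⟩⟩ (tB6.hC3m' true true) :=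
  posD_of_check (c := ⟨439, ⟨3, 8, 15, 11⟩⟩) (by decide +kernel)

def tB6_up11 : PosD ⟨⟨0, 1, 1⟩, ⟨98, 99, 147⟩, ⟨300, 1351, 10000⟩, ⟨600, 670, 1000⟩⟩ (tB6.hUp true true) :=
  posD_of_check (c := ⟨405, ⟨2, 7, 15, 10⟩⟩) (by decide +kernel)

def tB6_um11 : PosD ⟨⟨0, 1, 1⟩, ⟨98, 99, 147⟩, ⟨300, 1351, 10000⟩, ⟨600, 670, 1000⟩⟩ (tB6.hUm true true) :=
  posD_of_check (c := ⟨434, ⟨3, 8, 15, 11⟩⟩) (by decide +kernel)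

def tB6_tmg11 : PosD ⟨⟨0, 1, 1⟩, ⟨98, 99, 147⟩, ⟨300, 1351, 10000⟩, ⟨600, 670, 1000⟩⟩ (tB6.hTMG true (tB6.pEnd true)) :=
  posD_of_check (c := ⟨391, ⟨2, 7, 14, 10⟩⟩) (by decide +kernel)

/-- The signs of the piece. -/
def tB6_sign : tB6.Sign ⟨⟨0, 1, 1⟩, ⟨98, 99, 147⟩, ⟨300, 1351, 10000⟩, ⟨600, 670, 1000⟩⟩ :=
  ⟨tB6_pp,
    tB6_k2p,
    tB6_k2m,
    Bool.forall_bool.2 ⟨(Bool.forall_bool.2 ⟨tB6_tg00, tB6_tg01⟩), (Bool.forall_bool.2 ⟨tB6_tg10, tB6_tg11⟩)⟩,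
    Bool.forall_bool.2 ⟨(Bool.forall_bool.2 ⟨tB6_c2p00, tB6_c2p01⟩), (Bool.forall_bool.2 ⟨tB6_c2p10, tB6_c2p11⟩)⟩,
    Bool.forall_bool.2 ⟨(Bool.forall_bool.2 ⟨tB6_c2m00, tB6_c2m01⟩), (Bool.forall_bool.2 ⟨tB6_c2m10, tB6_c2m11⟩)⟩,
    Bool.forall_bool.2 ⟨tB6_kap0, tB6_kap1⟩,
    Bool.forall_bool.2 ⟨tB6_c10, tB6_c11⟩,
    Bool.forall_bool.2 ⟨(Bool.forall_bool.2 ⟨tB6_c3p00, tB6_c3p01⟩), (Bool.forall_bool.2 ⟨tB6_c3p10, tB6_c3p11⟩)⟩,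
    Bool.forall_bool.2 ⟨(Bool.forall_bool.2 ⟨tB6_c3m00, tB6_c3m01⟩), (Bool.forall_bool.2 ⟨tB6_c3m10, tB6_c3m11⟩)⟩,
    Bool.forall_bool.2 ⟨(Bool.forall_bool.2 ⟨tB6_tmg00, tB6_tmg01⟩), (Bool.forall_bool.2 ⟨tB6_tmg10, tB6_tmg11⟩)⟩,
    .inr (Bool.forall_bool.2 ⟨⟨tB6_c1h0, Bool.forall_bool.2 ⟨⟨tB6_c3ph00, tB6_c3mh00, tB6_up00, tB6_um00⟩, ⟨tB6_c3ph01, tB6_c3mh01, tB6_up01, tB6_um01⟩⟩⟩, ⟨tB6_c1h1, Bool.forall_bool.2 ⟨⟨tB6_c3ph10, tB6_c3mh10, tB6_up10, tB6_um10⟩, ⟨tB6_c3ph11, tB6_c3mh11, tB6_up11, tB6_um11⟩⟩⟩⟩),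
    tB6_v2p,
    tB6_v2m,
    tB6_v3p,
    tB6_v3m,
    posD_sub (b := ⟨⟨0, 1, 1⟩, ⟨98, 99, 147⟩, ⟨300, 1351, 10000⟩, ⟨290, 4000, 1000⟩⟩) (by decide +kernel) tB_vG,
    posD_sub (b := ⟨⟨0, 1, 1⟩, ⟨98, 99, 147⟩, ⟨300, 1351, 10000⟩, ⟨290, 4000, 1000⟩⟩) (by decide +kernel) tB_vMG,
    posD_sub (b := ⟨⟨0, 1, 1⟩, ⟨98, 99, 147⟩, ⟨300, 1351, 10000⟩, ⟨290, 4000, 1000⟩⟩) (by decide +kernel) tB_ak,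
    posD_sub (b := ⟨⟨0, 1, 1⟩, ⟨98, 99, 147⟩, ⟨300, 1351, 10000⟩, ⟨290, 4000, 1000⟩⟩) (by decide +kernel) tB_aw,
    posD_sub (b := ⟨⟨0, 1, 1⟩, ⟨98, 99, 147⟩, ⟨300, 1351, 10000⟩, ⟨290, 4000, 1000⟩⟩) (by decide +kernel) tB_gk,
    posD_sub (b := ⟨⟨0, 1, 1⟩, ⟨98, 99, 147⟩, ⟨300, 1351, 10000⟩, ⟨290, 4000, 1000⟩⟩) (by decide +kernel) tB_gw,
    posD_sub (b := ⟨⟨0, 1, 1⟩, ⟨98, 99, 147⟩, ⟨300, 1351, 10000⟩, ⟨290, 4000, 1000⟩⟩) (by decide +kernel) tB_ek,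
    posD_sub (b := ⟨⟨0, 1, 1⟩, ⟨98, 99, 147⟩, ⟨300, 1351, 10000⟩, ⟨290, 4000, 1000⟩⟩) (by decide +kernel) tB_ew⟩

end Vale.Agent.P100.Calib.Closed.Six.Tail
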