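import Vale.Agent.P100.Calib.SlabSixTailDataB
import Vale.Agent.P100.Calib.SlabSixTailGlobB

/-!
# Checks of some pieces of the certificate

The checks are written as definitions so that they run one after another, which keeps the memory of the
kernel low.
-/

set_option linter.defProp false

namespace Vale.Agent.P100.Calib.Closed.Six.Tail

open BoxPos Large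

local instance sixTailCheckstB4Add : Add Ex := ⟨Ex.add⟩
local instance sixTailCheckstB4Sub : Sub Ex := ⟨Ex.sub⟩
local instance sixTailCheckstB4Mul : Mul Ex := ⟨Ex.mul⟩

def tB7_p0a : PosD ⟨⟨0, 1, 1⟩, ⟨98, 99, 147⟩, ⟨300, 825, 10000⟩, ⟨670, 1200, 1000⟩⟩ (tB7.hP0) :=
  posD_of_check (c := ⟨81, ⟨0, 2, 3, 1⟩⟩) (by decide +kernel)

def tB7_p0b : PosD ⟨⟨0, 1, 1⟩, ⟨98, 99, 147⟩, ⟨825, 1351, 10000⟩, ⟨670, 1200, 1000⟩⟩ (tB7.hP0) :=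
  posD_of_check (c := ⟨81, ⟨0, 2, 3, 1⟩⟩) (by decide +kernel)

def tB7_p0 : PosD ⟨⟨0, 1, 1⟩, ⟨98, 99, 147⟩, ⟨300, 1351, 10000⟩, ⟨670, 1200, 1000⟩⟩ (tB7.hP0) :=
  posD_join₂ tB7_p0a tB7_p0b

def tB7_gn : PosD ⟨⟨0, 1, 1⟩, ⟨98, 99, 147⟩, ⟨300, 1351, 10000⟩, ⟨670, 1200, 1000⟩⟩ (tB7.hGn) :=
  posD_of_check (c := ⟨55, ⟨1, 1, 2, 1⟩⟩) (by decide +kernel)

def tB7_den0 : PosD ⟨⟨0, 1, 1⟩, ⟨98, 99, 147⟩, ⟨300, 1351, 10000⟩, ⟨670, 1200, 1000⟩⟩ (tB7.hDen false) :=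
  posD_of_check (c := ⟨47, ⟨1, 0, 2, 0⟩⟩) (by decide +kernel)

def tB7_den1 : PosD ⟨⟨0, 1, 1⟩, ⟨98, 99, 147⟩, ⟨300, 1351, 10000⟩, ⟨670, 1200, 1000⟩⟩ (tB7.hDen true) :=
  posD_of_check (c := ⟨47, ⟨1, 0, 2, 0⟩⟩) (by decide +kernel)

def tB7_ev0 : PosD ⟨⟨0, 1, 1⟩, ⟨98, 99, 147⟩, ⟨300, 1351, 10000⟩, ⟨670, 1200, 1000⟩⟩ (tB7.hEv false) :=
  posD_of_check (c := ⟨126, ⟨4, 2, 4, 1⟩⟩) (by decide +kernel)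

def tB7_zL0 : PosD ⟨⟨0, 1, 1⟩, ⟨98, 99, 147⟩, ⟨300, 1351, 10000⟩, ⟨670, 1200, 1000⟩⟩ (tB7.hZL false) :=
  posD_of_check (c := ⟨162, ⟨4, 3, 6, 3⟩⟩) (by decide +kernel)

def tB7_zU0a : PosD ⟨⟨0, 1, 1⟩, ⟨98, 99, 147⟩, ⟨300, 825, 10000⟩, ⟨670, 1200, 1000⟩⟩ (tB7.hZU false) :=
  posD_of_check (c := ⟨161, ⟨4, 3, 6, 3⟩⟩) (by decide +kernel)

def tB7_zU0ba : PosD ⟨⟨0, 1, 1⟩, ⟨98, 99, 147⟩, ⟨825, 1088, 10000⟩, ⟨670, 1200, 1000⟩⟩ (tB7.hZU false) :=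
  posD_of_check (c := ⟨162, ⟨4, 3, 6, 3⟩⟩) (by decide +kernel)

def tB7_zU0bb : PosD ⟨⟨0, 1, 1⟩, ⟨98, 99, 147⟩, ⟨1088, 1351, 10000⟩, ⟨670, 1200, 1000⟩⟩ (tB7.hZU false) :=
  posD_of_check (c := ⟨163, ⟨4, 3, 6, 3⟩⟩) (by decide +kernel)

def tB7_zU0b : PosD ⟨⟨0, 1, 1⟩, ⟨98, 99, 147⟩, ⟨825, 1351, 10000⟩, ⟨670, 1200, 1000⟩⟩ (tB7.hZU false) :=
  posD_join₂ tB7_zU0ba tB7_zU0bb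

def tB7_zU0 : PosD ⟨⟨0, 1, 1⟩, ⟨98, 99, 147⟩, ⟨300, 1351, 10000⟩, ⟨670, 1200, 1000⟩⟩ (tB7.hZU false) :=
  posD_join₂ tB7_zU0a tB7_zU0b

def tB7_eL0 : PosD ⟨⟨0, 1, 1⟩, ⟨98, 99, 147⟩, ⟨300, 1351, 10000⟩, ⟨670, 1200, 1000⟩⟩ (tB7.hEL false) :=
  posD_of_check (c := ⟨219, ⟨5, 6, 7, 3⟩⟩) (by decide +kernel)

def tB7_eH0 : PosD ⟨⟨0, 1, 1⟩, ⟨98, 99, 147⟩, ⟨300, 1351, 10000⟩, ⟨670, 1200, 1000⟩⟩ (tB7.hEH false) :=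
  posD_of_check (c := ⟨235, ⟨5, 6, 7, 3⟩⟩) (by decide +kernel)

def tB7_pL0 : PosD ⟨⟨0, 1, 1⟩, ⟨98, 99, 147⟩, ⟨300, 1351, 10000⟩, ⟨670, 1200, 1000⟩⟩ (tB7.hPL false) :=
  posD_of_check (c := ⟨234, ⟨5, 6, 7, 2⟩⟩) (by decide +kernel)

def tB7_pU0 : PosD ⟨⟨0, 1, 1⟩, ⟨98, 99, 147⟩, ⟨300, 1351, 10000⟩, ⟨670, 1200, 1000⟩⟩ (tB7.hPU false) :=
  posD_of_check (c := ⟨234, ⟨5, 6, 7, 3⟩⟩) (by decide +kernel)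

def tB7_kU0 : PosD ⟨⟨0, 1, 1⟩, ⟨98, 99, 147⟩, ⟨300, 1351, 10000⟩, ⟨670, 1200, 1000⟩⟩ (tB7.hKU false) :=
  posD_of_check (c := ⟨230, ⟨5, 6, 7, 3⟩⟩) (by decide +kernel)

def tB7_kL0a : PosD ⟨⟨0, 1, 1⟩, ⟨98, 99, 147⟩, ⟨300, 825, 10000⟩, ⟨670, 1200, 1000⟩⟩ (tB7.hKL false) :=
  posD_of_check (c := ⟨229, ⟨5, 6, 7, 3⟩⟩) (by decide +kernel)

def tB7_kL0ba : PosD ⟨⟨0, 1, 1⟩, ⟨98, 99, 147⟩, ⟨825, 1351, 10000⟩, ⟨670, 935, 1000⟩⟩ (tB7.hKL false) :=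
  posD_of_check (c := ⟨231, ⟨5, 6, 7, 3⟩⟩) (by decide +kernel)

def tB7_kL0bb : PosD ⟨⟨0, 1, 1⟩, ⟨98, 99, 147⟩, ⟨825, 1351, 10000⟩, ⟨935, 1200, 1000⟩⟩ (tB7.hKL false) :=
  posD_of_check (c := ⟨231, ⟨5, 6, 7, 3⟩⟩) (by decide +kernel)

def tB7_kL0b : PosD ⟨⟨0, 1, 1⟩, ⟨98, 99, 147⟩, ⟨825, 1351, 10000⟩, ⟨670, 1200, 1000⟩⟩ (tB7.hKL false) :=
  posD_join₃ tB7_kL0ba tB7_kL0bb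

def tB7_kL0 : PosD ⟨⟨0, 1, 1⟩, ⟨98, 99, 147⟩, ⟨300, 1351, 10000⟩, ⟨670, 1200, 1000⟩⟩ (tB7.hKL false) :=
  posD_join₂ tB7_kL0a tB7_kL0b

def tB7_wU0a : PosD ⟨⟨0, 1, 2⟩, ⟨98, 99, 147⟩, ⟨300, 1351, 10000⟩, ⟨670, 1200, 1000⟩⟩ (tB7.hWU false) :=
  posD_of_check (c := ⟨269, ⟨5, 8, 8, 3⟩⟩) (by decide +kernel)

def tB7_wU0b : PosD ⟨⟨1, 2, 2⟩, ⟨98, 99, 147⟩, ⟨300, 1351, 10000⟩, ⟨670, 1200, 1000⟩⟩ (tB7.hWU false) :=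
  posD_of_check (c := ⟨270, ⟨5, 8, 8, 3⟩⟩) (by decide +kernel)

def tB7_wU0 : PosD ⟨⟨0, 1, 1⟩, ⟨98, 99, 147⟩, ⟨300, 1351, 10000⟩, ⟨670, 1200, 1000⟩⟩ (tB7.hWU false) :=
  posD_units (b := ⟨⟨0, 2, 2⟩, ⟨98, 99, 147⟩, ⟨300, 1351, 10000⟩, ⟨670, 1200, 1000⟩⟩) (by decide +kernel) (posD_join₀ tB7_wU0a tB7_wU0b)

def tB7_wL0 : PosD ⟨⟨0, 1, 1⟩, ⟨98, 99, 147⟩, ⟨300, 1351, 10000⟩, ⟨670, 1200, 1000⟩⟩ (tB7.hWL false) :=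
  posD_of_check (c := ⟨265, ⟨5, 8, 8, 3⟩⟩) (by decide +kernel)

def tB7_ev1 : PosD ⟨⟨0, 1, 1⟩, ⟨98, 99, 147⟩, ⟨300, 1351, 10000⟩, ⟨670, 1200, 1000⟩⟩ (tB7.hEv true) :=
  posD_of_check (c := ⟨128, ⟨4, 2, 4, 1⟩⟩) (by decide +kernel)

def tB7_zL1aa : PosD ⟨⟨0, 1, 1⟩, ⟨98, 99, 147⟩, ⟨300, 562, 10000⟩, ⟨670, 1200, 1000⟩⟩ (tB7.hZL true) :=
  posD_of_check (c := ⟨161, ⟨4, 3, 6, 3⟩⟩) (by decide +kernel)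

def tB7_zL1ab : PosD ⟨⟨0, 1, 1⟩, ⟨98, 99, 147⟩, ⟨562, 825, 10000⟩, ⟨670, 1200, 1000⟩⟩ (tB7.hZL true) :=
  posD_of_check (c := ⟨161, ⟨4, 3, 6, 3⟩⟩) (by decide +kernel)

def tB7_zL1a : PosD ⟨⟨0, 1, 1⟩, ⟨98, 99, 147⟩, ⟨300, 825, 10000⟩, ⟨670, 1200, 1000⟩⟩ (tB7.hZL true) :=
  posD_join₂ tB7_zL1aa tB7_zL1ab

def tB7_zL1b : PosD ⟨⟨0, 1, 1⟩, ⟨98, 99, 147⟩, ⟨825, 1351, 10000⟩, ⟨670, 1200, 1000⟩⟩ (tB7.hZL true) :=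
  posD_of_check (c := ⟨162, ⟨4, 3, 6, 3⟩⟩) (by decide +kernel)

def tB7_zL1 : PosD ⟨⟨0, 1, 1⟩, ⟨98, 99, 147⟩, ⟨300, 1351, 10000⟩, ⟨670, 1200, 1000⟩⟩ (tB7.hZL true) :=
  posD_join₂ tB7_zL1a tB7_zL1b

def tB7_zU1 : PosD ⟨⟨0, 1, 1⟩, ⟨98, 99, 147⟩, ⟨300, 1351, 10000⟩, ⟨670, 1200, 1000⟩⟩ (tB7.hZU true) :=
  posD_of_check (c := ⟨161, ⟨4, 3, 6, 3⟩⟩) (by decide +kernel)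

def tB7_eL1a : PosD ⟨⟨0, 1, 1⟩, ⟨98, 99, 147⟩, ⟨300, 1351, 10000⟩, ⟨670, 935, 1000⟩⟩ (tB7.hEL true) :=
  posD_of_check (c := ⟨220, ⟨5, 6, 7, 3⟩⟩) (by decide +kernel)

def tB7_eL1b : PosD ⟨⟨0, 1, 1⟩, ⟨98, 99, 147⟩, ⟨300, 1351, 10000⟩, ⟨935, 1200, 1000⟩⟩ (tB7.hEL true) :=
  posD_of_check (c := ⟨220, ⟨5, 6, 7, 3⟩⟩) (by decide +kernel)

def tB7_eL1 : PosD ⟨⟨0, 1, 1⟩, ⟨98, 99, 147⟩, ⟨300, 1351, 10000⟩, ⟨670, 1200, 1000⟩⟩ (tB7.hEL true) :=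
  posD_join₃ tB7_eL1a tB7_eL1b

def tB7_eH1aaa : PosD ⟨⟨0, 1, 2⟩, ⟨98, 99, 147⟩, ⟨300, 825, 10000⟩, ⟨670, 935, 1000⟩⟩ (tB7.hEH true) :=
  posD_of_check (c := ⟨239, ⟨5, 6, 7, 3⟩⟩) (by decide +kernel)

def tB7_eH1aab : PosD ⟨⟨1, 2, 2⟩, ⟨98, 99, 147⟩, ⟨300, 825, 10000⟩, ⟨670, 935, 1000⟩⟩ (tB7.hEH true) :=
  posD_of_check (c := ⟨241, ⟨5, 6, 7, 3⟩⟩) (by decide +kernel)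

def tB7_eH1aa : PosD ⟨⟨0, 1, 1⟩, ⟨98, 99, 147⟩, ⟨300, 825, 10000⟩, ⟨670, 935, 1000⟩⟩ (tB7.hEH true) :=
  posD_units (b := ⟨⟨0, 2, 2⟩, ⟨98, 99, 147⟩, ⟨300, 825, 10000⟩, ⟨670, 935, 1000⟩⟩) (by decide +kernel) (posD_join₀ tB7_eH1aaa tB7_eH1aab)

def tB7_eH1ab : PosD ⟨⟨0, 1, 1⟩, ⟨98, 99, 147⟩, ⟨825, 1351, 10000⟩, ⟨670, 935, 1000⟩⟩ (tB7.hEH true) :=
  posD_of_check (c := ⟨237, ⟨5, 6, 7, 3⟩⟩) (by decide +kernel)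

def tB7_eH1a : PosD ⟨⟨0, 1, 1⟩, ⟨98, 99, 147⟩, ⟨300, 1351, 10000⟩, ⟨670, 935, 1000⟩⟩ (tB7.hEH true) :=
  posD_join₂ tB7_eH1aa tB7_eH1ab

def tB7_eH1baa : PosD ⟨⟨0, 1, 2⟩, ⟨98, 99, 147⟩, ⟨300, 825, 10000⟩, ⟨935, 1200, 1000⟩⟩ (tB7.hEH true) :=
  posD_of_check (c := ⟨239, ⟨5, 6, 7, 3⟩⟩) (by decide +kernel)

def tB7_eH1bab : PosD ⟨⟨0, 1, 2⟩, ⟨98, 99, 147⟩, ⟨825, 1351, 10000⟩, ⟨935, 1200, 1000⟩⟩ (tB7.hEH true) :=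
  posD_of_check (c := ⟨239, ⟨5, 6, 7, 3⟩⟩) (by decide +kernel)

def tB7_eH1ba : PosD ⟨⟨0, 1, 2⟩, ⟨98, 99, 147⟩, ⟨300, 1351, 10000⟩, ⟨935, 1200, 1000⟩⟩ (tB7.hEH true) :=
  posD_join₂ tB7_eH1baa tB7_eH1bab

def tB7_eH1bba : PosD ⟨⟨1, 2, 2⟩, ⟨98, 99, 147⟩, ⟨300, 825, 10000⟩, ⟨935, 1200, 1000⟩⟩ (tB7.hEH true) :=
  posD_of_check (c := ⟨241, ⟨5, 6, 7, 3⟩⟩) (by decide +kernel)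

def tB7_eH1bbb : PosD ⟨⟨1, 2, 2⟩, ⟨98, 99, 147⟩, ⟨825, 1351, 10000⟩, ⟨935, 1200, 1000⟩⟩ (tB7.hEH true) :=
  posD_of_check (c := ⟨242, ⟨5, 6, 7, 3⟩⟩) (by decide +kernel)

def tB7_eH1bb : PosD ⟨⟨1, 2, 2⟩, ⟨98, 99, 147⟩, ⟨300, 1351, 10000⟩, ⟨935, 1200, 1000⟩⟩ (tB7.hEH true) :=
  posD_join₂ tB7_eH1bba tB7_eH1bbb

def tB7_eH1b : PosD ⟨⟨0, 1, 1⟩, ⟨98, 99, 147⟩, ⟨300, 1351, 10000⟩, ⟨935, 1200, 1000⟩⟩ (tB7.hEH true) :=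
  posD_units (b := ⟨⟨0, 2, 2⟩, ⟨98, 99, 147⟩, ⟨300, 1351, 10000⟩, ⟨935, 1200, 1000⟩⟩) (by decide +kernel) (posD_join₀ tB7_eH1ba tB7_eH1bb)

def tB7_eH1 : PosD ⟨⟨0, 1, 1⟩, ⟨98, 99, 147⟩, ⟨300, 1351, 10000⟩, ⟨670, 1200, 1000⟩⟩ (tB7.hEH true) :=
  posD_join₃ tB7_eH1a tB7_eH1b

def tB7_pL1 : PosD ⟨⟨0, 1, 1⟩, ⟨98, 99, 147⟩, ⟨300, 1351, 10000⟩, ⟨670, 1200, 1000⟩⟩ (tB7.hPL true) :=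
  posD_of_check (c := ⟨235, ⟨5, 6, 7, 2⟩⟩) (by decide +kernel)

def tB7_pU1aa : PosD ⟨⟨0, 1, 2⟩, ⟨98, 99, 147⟩, ⟨300, 1351, 10000⟩, ⟨670, 935, 1000⟩⟩ (tB7.hPU true) :=
  posD_of_check (c := ⟨238, ⟨5, 6, 7, 3⟩⟩) (by decide +kernel)

def tB7_pU1ab : PosD ⟨⟨0, 1, 2⟩, ⟨98, 99, 147⟩, ⟨300, 1351, 10000⟩, ⟨935, 1200, 1000⟩⟩ (tB7.hPU true) :=
  posD_of_check (c := ⟨239, ⟨5, 6, 7, 3⟩⟩) (by decide +kernel)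

def tB7_pU1a : PosD ⟨⟨0, 1, 2⟩, ⟨98, 99, 147⟩, ⟨300, 1351, 10000⟩, ⟨670, 1200, 1000⟩⟩ (tB7.hPU true) :=
  posD_join₃ tB7_pU1aa tB7_pU1ab

def tB7_pU1baa : PosD ⟨⟨2, 3, 4⟩, ⟨98, 99, 147⟩, ⟨300, 1351, 10000⟩, ⟨670, 935, 1000⟩⟩ (tB7.hPU true) :=
  posD_of_check (c := ⟨244, ⟨5, 6, 7, 3⟩⟩) (by decide +kernel)

def tB7_pU1baba : PosD ⟨⟨2, 3, 4⟩, ⟨98, 99, 147⟩, ⟨300, 825, 10000⟩, ⟨935, 1200, 1000⟩⟩ (tB7.hPU true) :=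
  posD_of_check (c := ⟨244, ⟨5, 6, 7, 3⟩⟩) (by decide +kernel)

def tB7_pU1babb : PosD ⟨⟨2, 3, 4⟩, ⟨98, 99, 147⟩, ⟨825, 1351, 10000⟩, ⟨935, 1200, 1000⟩⟩ (tB7.hPU true) :=
  posD_of_check (c := ⟨244, ⟨5, 6, 7, 3⟩⟩) (by decide +kernel)

def tB7_pU1bab : PosD ⟨⟨2, 3, 4⟩, ⟨98, 99, 147⟩, ⟨300, 1351, 10000⟩, ⟨935, 1200, 1000⟩⟩ (tB7.hPU true) :=
  posD_join₂ tB7_pU1baba tB7_pU1babb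

def tB7_pU1ba : PosD ⟨⟨2, 3, 4⟩, ⟨98, 99, 147⟩, ⟨300, 1351, 10000⟩, ⟨670, 1200, 1000⟩⟩ (tB7.hPU true) :=
  posD_join₃ tB7_pU1baa tB7_pU1bab

def tB7_pU1bbaa : PosD ⟨⟨3, 4, 4⟩, ⟨98, 99, 147⟩, ⟨300, 825, 10000⟩, ⟨670, 935, 1000⟩⟩ (tB7.hPU true) :=
  posD_of_check (c := ⟨244, ⟨5, 6, 7, 3⟩⟩) (by decide +kernel)

def tB7_pU1bbab : PosD ⟨⟨3, 4, 4⟩, ⟨98, 99, 147⟩, ⟨825, 1351, 10000⟩, ⟨670, 935, 1000⟩⟩ (tB7.hPU true) :=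
  posD_of_check (c := ⟨245, ⟨5, 6, 7, 3⟩⟩) (by decide +kernel)

def tB7_pU1bba : PosD ⟨⟨3, 4, 4⟩, ⟨98, 99, 147⟩, ⟨300, 1351, 10000⟩, ⟨670, 935, 1000⟩⟩ (tB7.hPU true) :=
  posD_join₂ tB7_pU1bbaa tB7_pU1bbab

def tB7_pU1bbbaa : PosD ⟨⟨3, 4, 4⟩, ⟨98, 99, 147⟩, ⟨300, 825, 10000⟩, ⟨935, 1067, 1000⟩⟩ (tB7.hPU true) :=
  posD_of_check (c := ⟨245, ⟨5, 6, 7, 3⟩⟩) (by decide +kernel)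

def tB7_pU1bbbab : PosD ⟨⟨3, 4, 4⟩, ⟨98, 99, 147⟩, ⟨300, 825, 10000⟩, ⟨1067, 1200, 1000⟩⟩ (tB7.hPU true) :=
  posD_of_check (c := ⟨245, ⟨5, 6, 7, 3⟩⟩) (by decide +kernel)

def tB7_pU1bbba : PosD ⟨⟨3, 4, 4⟩, ⟨98, 99, 147⟩, ⟨300, 825, 10000⟩, ⟨935, 1200, 1000⟩⟩ (tB7.hPU true) :=
  posD_join₃ tB7_pU1bbbaa tB7_pU1bbbab

def tB7_pU1bbbb : PosD ⟨⟨3, 4, 4⟩, ⟨98, 99, 147⟩, ⟨825, 1351, 10000⟩, ⟨935, 1200, 1000⟩⟩ (tB7.hPU true) :=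
  posD_of_check (c := ⟨245, ⟨5, 6, 7, 3⟩⟩) (by decide +kernel)

def tB7_pU1bbb : PosD ⟨⟨3, 4, 4⟩, ⟨98, 99, 147⟩, ⟨300, 1351, 10000⟩, ⟨935, 1200, 1000⟩⟩ (tB7.hPU true) :=
  posD_join₂ tB7_pU1bbba tB7_pU1bbbb

def tB7_pU1bb : PosD ⟨⟨3, 4, 4⟩, ⟨98, 99, 147⟩, ⟨300, 1351, 10000⟩, ⟨670, 1200, 1000⟩⟩ (tB7.hPU true) :=
  posD_join₃ tB7_pU1bba tB7_pU1bbb

def tB7_pU1b : PosD ⟨⟨1, 2, 2⟩, ⟨98, 99, 147⟩, ⟨300, 1351, 10000⟩, ⟨670, 1200, 1000⟩⟩ (tB7.hPU true) :=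
  posD_units (b := ⟨⟨2, 4, 4⟩, ⟨98, 99, 147⟩, ⟨300, 1351, 10000⟩, ⟨670, 1200, 1000⟩⟩) (by decide +kernel) (posD_join₀ tB7_pU1ba tB7_pU1bb)

def tB7_pU1 : PosD ⟨⟨0, 1, 1⟩, ⟨98, 99, 147⟩, ⟨300, 1351, 10000⟩, ⟨670, 1200, 1000⟩⟩ (tB7.hPU true) :=
  posD_units (b := ⟨⟨0, 2, 2⟩, ⟨98, 99, 147⟩, ⟨300, 1351, 10000⟩, ⟨670, 1200, 1000⟩⟩) (by decide +kernel) (posD_join₀ tB7_pU1a tB7_pU1b)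

def tB7_kU1a : PosD ⟨⟨0, 1, 1⟩, ⟨98, 99, 147⟩, ⟨300, 825, 10000⟩, ⟨670, 1200, 1000⟩⟩ (tB7.hKU true) :=
  posD_of_check (c := ⟨231, ⟨5, 6, 7, 3⟩⟩) (by decide +kernel)

def tB7_kU1b : PosD ⟨⟨0, 1, 1⟩, ⟨98, 99, 147⟩, ⟨825, 1351, 10000⟩, ⟨670, 1200, 1000⟩⟩ (tB7.hKU true) :=
  posD_of_check (c := ⟨232, ⟨5, 6, 7, 3⟩⟩) (by decide +kernel)

def tB7_kU1 : PosD ⟨⟨0, 1, 1⟩, ⟨98, 99, 147⟩, ⟨300, 1351, 10000⟩, ⟨670, 1200, 1000⟩⟩ (tB7.hKU true) :=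
  posD_join₂ tB7_kU1a tB7_kU1b

def tB7_kL1aa : PosD ⟨⟨0, 1, 1⟩, ⟨98, 99, 147⟩, ⟨300, 825, 10000⟩, ⟨670, 935, 1000⟩⟩ (tB7.hKL true) :=
  posD_of_check (c := ⟨231, ⟨5, 6, 7, 3⟩⟩) (by decide +kernel)

def tB7_kL1ab : PosD ⟨⟨0, 1, 1⟩, ⟨98, 99, 147⟩, ⟨825, 1351, 10000⟩, ⟨670, 935, 1000⟩⟩ (tB7.hKL true) :=
  posD_of_check (c := ⟨232, ⟨5, 6, 7, 3⟩⟩) (by decide +kernel)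

def tB7_kL1a : PosD ⟨⟨0, 1, 1⟩, ⟨98, 99, 147⟩, ⟨300, 1351, 10000⟩, ⟨670, 935, 1000⟩⟩ (tB7.hKL true) :=
  posD_join₂ tB7_kL1aa tB7_kL1ab

def tB7_kL1baa : PosD ⟨⟨0, 1, 1⟩, ⟨98, 99, 147⟩, ⟨300, 562, 10000⟩, ⟨935, 1200, 1000⟩⟩ (tB7.hKL true) :=
  posD_of_check (c := ⟨230, ⟨5, 6, 7, 3⟩⟩) (by decide +kernel)

def tB7_kL1bab : PosD ⟨⟨0, 1, 1⟩, ⟨98, 99, 147⟩, ⟨562, 825, 10000⟩, ⟨935, 1200, 1000⟩⟩ (tB7.hKL true) :=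
  posD_of_check (c := ⟨231, ⟨5, 6, 7, 3⟩⟩) (by decide +kernel)

def tB7_kL1ba : PosD ⟨⟨0, 1, 1⟩, ⟨98, 99, 147⟩, ⟨300, 825, 10000⟩, ⟨935, 1200, 1000⟩⟩ (tB7.hKL true) :=
  posD_join₂ tB7_kL1baa tB7_kL1bab

def tB7_kL1bb : PosD ⟨⟨0, 1, 1⟩, ⟨98, 99, 147⟩, ⟨825, 1351, 10000⟩, ⟨935, 1200, 1000⟩⟩ (tB7.hKL true) :=
  posD_of_check (c := ⟨232, ⟨5, 6, 7, 3⟩⟩) (by decide +kernel)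

def tB7_kL1b : PosD ⟨⟨0, 1, 1⟩, ⟨98, 99, 147⟩, ⟨300, 1351, 10000⟩, ⟨935, 1200, 1000⟩⟩ (tB7.hKL true) :=
  posD_join₂ tB7_kL1ba tB7_kL1bb

def tB7_kL1 : PosD ⟨⟨0, 1, 1⟩, ⟨98, 99, 147⟩, ⟨300, 1351, 10000⟩, ⟨670, 1200, 1000⟩⟩ (tB7.hKL true) :=
  posD_join₃ tB7_kL1a tB7_kL1b

def tB7_wU1a : PosD ⟨⟨0, 1, 2⟩, ⟨98, 99, 147⟩, ⟨300, 1351, 10000⟩, ⟨670, 1200, 1000⟩⟩ (tB7.hWU true) :=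
  posD_of_check (c := ⟨270, ⟨5, 8, 8, 3⟩⟩) (by decide +kernel)

def tB7_wU1baa : PosD ⟨⟨2, 3, 4⟩, ⟨98, 99, 147⟩, ⟨300, 1351, 10000⟩, ⟨670, 935, 1000⟩⟩ (tB7.hWU true) :=
  posD_of_check (c := ⟨276, ⟨5, 8, 8, 3⟩⟩) (by decide +kernel)

def tB7_wU1bab : PosD ⟨⟨3, 4, 4⟩, ⟨98, 99, 147⟩, ⟨300, 1351, 10000⟩, ⟨670, 935, 1000⟩⟩ (tB7.hWU true) :=
  posD_of_check (c := ⟨276, ⟨5, 8, 8, 3⟩⟩) (by decide +kernel)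

def tB7_wU1ba : PosD ⟨⟨1, 2, 2⟩, ⟨98, 99, 147⟩, ⟨300, 1351, 10000⟩, ⟨670, 935, 1000⟩⟩ (tB7.hWU true) :=
  posD_units (b := ⟨⟨2, 4, 4⟩, ⟨98, 99, 147⟩, ⟨300, 1351, 10000⟩, ⟨670, 935, 1000⟩⟩) (by decide +kernel) (posD_join₀ tB7_wU1baa tB7_wU1bab)

def tB7_wU1bb : PosD ⟨⟨1, 2, 2⟩, ⟨98, 99, 147⟩, ⟨300, 1351, 10000⟩, ⟨935, 1200, 1000⟩⟩ (tB7.hWU true) :=
  posD_of_check (c := ⟨272, ⟨5, 8, 8, 3⟩⟩) (by decide +kernel)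

def tB7_wU1b : PosD ⟨⟨1, 2, 2⟩, ⟨98, 99, 147⟩, ⟨300, 1351, 10000⟩, ⟨670, 1200, 1000⟩⟩ (tB7.hWU true) :=
  posD_join₃ tB7_wU1ba tB7_wU1bb

def tB7_wU1 : PosD ⟨⟨0, 1, 1⟩, ⟨98, 99, 147⟩, ⟨300, 1351, 10000⟩, ⟨670, 1200, 1000⟩⟩ (tB7.hWU true) :=
  posD_units (b := ⟨⟨0, 2, 2⟩, ⟨98, 99, 147⟩, ⟨300, 1351, 10000⟩, ⟨670, 1200, 1000⟩⟩) (by decide +kernel) (posD_join₀ tB7_wU1a tB7_wU1b)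

def tB7_wL1 : PosD ⟨⟨0, 1, 1⟩, ⟨98, 99, 147⟩, ⟨300, 1351, 10000⟩, ⟨670, 1200, 1000⟩⟩ (tB7.hWL true) :=
  posD_of_check (c := ⟨267, ⟨5, 8, 8, 3⟩⟩) (by decide +kernel)

def tB7_mueH : PosD ⟨⟨0, 1, 1⟩, ⟨98, 99, 147⟩, ⟨300, 1351, 10000⟩, ⟨670, 1200, 1000⟩⟩ (tB7.eH.μ) :=
  posD_of_check (c := ⟨16, ⟨0, 0, 0, 0⟩⟩) (by decide +kernel)

def tB7_mupL : PosD ⟨⟨0, 1, 1⟩, ⟨98, 99, 147⟩, ⟨300, 1351, 10000⟩, ⟨670, 1200, 1000⟩⟩ (tB7.pL.μ) :=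
  posD_of_check (c := ⟨16, ⟨0, 0, 0, 0⟩⟩) (by decide +kernel)

/-- The bounds of the piece. -/
def tB7_env : tB7.Env ⟨⟨0, 1, 1⟩, ⟨98, 99, 147⟩, ⟨300, 1351, 10000⟩, ⟨670, 1200, 1000⟩⟩ :=
  ⟨tB7_p0, Bool.forall_bool.2 ⟨tB7_den0, tB7_den1⟩, tB7_gn, Bool.forall_bool.2 ⟨tB7_ev0, tB7_ev1⟩, Bool.forall_bool.2 ⟨tB7_zL0, tB7_zL1⟩, Bool.forall_bool.2 ⟨tB7_zU0, tB7_zU1⟩, Bool.forall_bool.2 ⟨tB7_eL0, tB7_eL1⟩, ⟨.inr rfl, .inr rfl⟩, Bool.forall_bool.2 ⟨tB7_eH0, tB7_eH1⟩, ⟨.inl tB7_mueH, .inr rfl⟩, Bool.forall_bool.2 ⟨tB7_pL0, tB7_pL1⟩, ⟨.inl tB7_mupL, .inr rfl⟩, Bool.forall_bool.2 ⟨tB7_pU0, tB7_pU1⟩, ⟨.inr rfl, .inr rfl⟩, Bool.forall_bool.2 ⟨tB7_kU0, tB7_kU1⟩, ⟨.inr rfl, .inr rfl⟩, Bool.forall_bool.2 ⟨tB7_kL0, tB7_kL1⟩,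 ⟨.inr rfl, .inr rfl⟩, Bool.forall_bool.2 ⟨tB7_wU0, tB7_wU1⟩, ⟨.inr rfl, .inr rfl⟩, Bool.forall_bool.2 ⟨tB7_wL0, tB7_wL1⟩, ⟨.inr rfl, .inr rfl⟩⟩

def tB7_pp : PosD ⟨⟨0, 1, 1⟩, ⟨98, 99, 147⟩, ⟨300, 1351, 10000⟩, ⟨670, 1200, 1000⟩⟩ (tB7.xPL) :=
  posD_of_check (c := ⟨61, ⟨1, 1, 2, 2⟩⟩) (by decide +kernel)

def tB7_k2p : PosD ⟨⟨0, 1, 1⟩, ⟨98, 99, 147⟩, ⟨300, 1351, 10000⟩, ⟨670, 1200, 1000⟩⟩ (tB7.k2p tB7.xE) :=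
  posD_of_check (c := ⟨67, ⟨1, 1, 2, 2⟩⟩) (by decide +kernel)

def tB7_k2m : PosD ⟨⟨0, 1, 1⟩, ⟨98, 99, 147⟩, ⟨300, 1351, 10000⟩, ⟨670, 1200, 1000⟩⟩ (tB7.k2m tB7.xE) :=
  posD_of_check (c := ⟨27, ⟨0, 0, 1, 1⟩⟩) (by decide +kernel)

def tB7_v2p : PosD ⟨⟨0, 1, 1⟩, ⟨98, 99, 147⟩, ⟨300, 1351, 10000⟩, ⟨670, 1200, 1000⟩⟩ (tB7.hV2p) :=
  posD_of_check (c := ⟨261, ⟨1, 6, 10, 5⟩⟩) (by decide +kernel)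

def tB7_v2m : PosD ⟨⟨0, 1, 1⟩, ⟨98, 99, 147⟩, ⟨300, 1351, 10000⟩, ⟨670, 1200, 1000⟩⟩ (tB7.hV2m) :=
  posD_of_check (c := ⟨230, ⟨0, 5, 10, 4⟩⟩) (by decide +kernel)

def tB7_v3p : PosD ⟨⟨0, 1, 1⟩, ⟨98, 99, 147⟩, ⟨300, 1351, 10000⟩, ⟨670, 1200, 1000⟩⟩ (tB7.hV3p) :=
  posD_of_check (c := ⟨248, ⟨1, 6, 9, 5⟩⟩) (by decide +kernel)

def tB7_v3m : PosD ⟨⟨0, 1, 1⟩, ⟨98, 99, 147⟩, ⟨300, 1351, 10000⟩, ⟨670, 1200, 1000⟩⟩ (tB7.hV3m) :=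
  posD_of_check (c := ⟨222, ⟨0, 5, 9, 4⟩⟩) (by decide +kernel)

def tB7_kap0 : PosD ⟨⟨0, 1, 1⟩, ⟨98, 99, 147⟩, ⟨300, 1351, 10000⟩, ⟨670, 1200, 1000⟩⟩ (tB7.kap false) :=
  posD_of_check (c := ⟨64, ⟨1, 1, 2, 2⟩⟩) (by decide +kernel)

def tB7_c10 : PosD ⟨⟨0, 1, 1⟩, ⟨98, 99, 147⟩, ⟨300, 1351, 10000⟩, ⟨670, 1200, 1000⟩⟩ (tB7.hC1 false) :=
  posD_of_check (c := ⟨232, ⟨3, 5, 8, 6⟩⟩) (by decide +kernel)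

def tB7_c1h0 : PosD ⟨⟨0, 1, 1⟩, ⟨98, 99, 147⟩, ⟨300, 1351, 10000⟩, ⟨670, 1200, 1000⟩⟩ (tB7.hC1' false) :=
  posD_of_check (c := ⟨232, ⟨3, 5, 8, 6⟩⟩) (by decide +kernel)

def tB7_tg00 : PosD ⟨⟨0, 1, 1⟩, ⟨98, 99, 147⟩, ⟨300, 1351, 10000⟩, ⟨670, 1200, 1000⟩⟩ (tB7.hG false (tB7.pEnd false)) :=
  posD_of_check (c := ⟨361, ⟨2, 7, 14, 9⟩⟩) (by decide +kernel)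

def tB7_c2p00 : PosD ⟨⟨0, 1, 1⟩, ⟨98, 99, 147⟩, ⟨300, 1351, 10000⟩, ⟨670, 1200, 1000⟩⟩ (tB7.hC2p false (tB7.pEnd false)) :=
  posD_of_check (c := ⟨428, ⟨3, 8, 16, 11⟩⟩) (by decide +kernel)

def tB7_c2m00 : PosD ⟨⟨0, 1, 1⟩, ⟨98, 99, 147⟩, ⟨300, 1351, 10000⟩, ⟨670, 1200, 1000⟩⟩ (tB7.hC2m false (tB7.pEnd false)) :=
  posD_of_check (c := ⟨388, ⟨2, 7, 15, 10⟩⟩) (by decide +kernel)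

def tB7_c3p00 : PosD ⟨⟨0, 1, 1⟩, ⟨98, 99, 147⟩, ⟨300, 1351, 10000⟩, ⟨670, 1200, 1000⟩⟩ (tB7.hC3p false false) :=
  posD_of_check (c := ⟨392, ⟨3, 8, 14, 10⟩⟩) (by decide +kernel)

def tB7_c3m00 : PosD ⟨⟨0, 1, 1⟩, ⟨98, 99, 147⟩, ⟨300, 1351, 10000⟩, ⟨670, 1200, 1000⟩⟩ (tB7.hC3m false false) :=
  posD_of_check (c := ⟨357, ⟨3, 7, 14, 9⟩⟩) (by decide +kernel)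

def tB7_c3ph00 : PosD ⟨⟨0, 1, 1⟩, ⟨98, 99, 147⟩, ⟨300, 1351, 10000⟩, ⟨670, 1200, 1000⟩⟩ (tB7.hC3p' false false) :=
  posD_of_check (c := ⟨392, ⟨3, 8, 14, 10⟩⟩) (by decide +kernel)

def tB7_c3mh00 : PosD ⟨⟨0, 1, 1⟩, ⟨98, 99, 147⟩, ⟨300, 1351, 10000⟩, ⟨670, 1200, 1000⟩⟩ (tB7.hC3m' false false) :=
  posD_of_check (c := ⟨357, ⟨3, 7, 14, 9⟩⟩) (by decide +kernel)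

def tB7_up00 : PosD ⟨⟨0, 1, 1⟩, ⟨98, 99, 147⟩, ⟨300, 1351, 10000⟩, ⟨670, 1200, 1000⟩⟩ (tB7.hUp false false) :=
  posD_of_check (c := ⟨392, ⟨3, 8, 14, 10⟩⟩) (by decide +kernel)

def tB7_um00 : PosD ⟨⟨0, 1, 1⟩, ⟨98, 99, 147⟩, ⟨300, 1351, 10000⟩, ⟨670, 1200, 1000⟩⟩ (tB7.hUm false false) :=
  posD_of_check (c := ⟨356, ⟨2, 7, 14, 9⟩⟩) (by decide +kernel)

def tB7_tmg00 : PosD ⟨⟨0, 1, 1⟩, ⟨98, 99, 147⟩, ⟨300, 1351, 10000⟩, ⟨670, 1200, 1000⟩⟩ (tB7.hTMG false (tB7.pEnd false)) :=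
  posD_of_check (c := ⟨340, ⟨2, 7, 13, 8⟩⟩) (by decide +kernel)

def tB7_tg01 : PosD ⟨⟨0, 1, 1⟩, ⟨98, 99, 147⟩, ⟨300, 1351, 10000⟩, ⟨670, 1200, 1000⟩⟩ (tB7.hG true (tB7.pEnd false)) :=
  posD_of_check (c := ⟨361, ⟨2, 7, 14, 9⟩⟩) (by decide +kernel)

def tB7_c2p01 : PosD ⟨⟨0, 1, 1⟩, ⟨98, 99, 147⟩, ⟨300, 1351, 10000⟩, ⟨670, 1200, 1000⟩⟩ (tB7.hC2p true (tB7.pEnd false)) :=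
  posD_of_check (c := ⟨428, ⟨3, 8, 16, 11⟩⟩) (by decide +kernel)

def tB7_c2m01 : PosD ⟨⟨0, 1, 1⟩, ⟨98, 99, 147⟩, ⟨300, 1351, 10000⟩, ⟨670, 1200, 1000⟩⟩ (tB7.hC2m true (tB7.pEnd false)) :=
  posD_of_check (c := ⟨388, ⟨2, 7, 15, 10⟩⟩) (by decide +kernel)

def tB7_c3p01 : PosD ⟨⟨0, 1, 1⟩, ⟨98, 99, 147⟩, ⟨300, 1351, 10000⟩, ⟨670, 1200, 1000⟩⟩ (tB7.hC3p false true) :=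
  posD_of_check (c := ⟨392, ⟨3, 8, 14, 10⟩⟩) (by decide +kernel)

def tB7_c3m01 : PosD ⟨⟨0, 1, 1⟩, ⟨98, 99, 147⟩, ⟨300, 1351, 10000⟩, ⟨670, 1200, 1000⟩⟩ (tB7.hC3m false true) :=
  posD_of_check (c := ⟨357, ⟨3, 7, 14, 9⟩⟩) (by decide +kernel)

def tB7_c3ph01 : PosD ⟨⟨0, 1, 1⟩, ⟨98, 99, 147⟩, ⟨300, 1351, 10000⟩, ⟨670, 1200, 1000⟩⟩ (tB7.hC3p' false true) :=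
  posD_of_check (c := ⟨392, ⟨3, 8, 14, 10⟩⟩) (by decide +kernel)

def tB7_c3mh01 : PosD ⟨⟨0, 1, 1⟩, ⟨98, 99, 147⟩, ⟨300, 1351, 10000⟩, ⟨670, 1200, 1000⟩⟩ (tB7.hC3m' false true) :=
  posD_of_check (c := ⟨357, ⟨3, 7, 14, 9⟩⟩) (by decide +kernel)

def tB7_up01 : PosD ⟨⟨0, 1, 1⟩, ⟨98, 99, 147⟩, ⟨300, 1351, 10000⟩, ⟨670, 1200, 1000⟩⟩ (tB7.hUp false true) :=
  posD_of_check (c := ⟨392, ⟨3, 8, 14, 10⟩⟩) (by decide +kernel)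

def tB7_um01 : PosD ⟨⟨0, 1, 1⟩, ⟨98, 99, 147⟩, ⟨300, 1351, 10000⟩, ⟨670, 1200, 1000⟩⟩ (tB7.hUm false true) :=
  posD_of_check (c := ⟨356, ⟨2, 7, 14, 9⟩⟩) (by decide +kernel)

def tB7_tmg01 : PosD ⟨⟨0, 1, 1⟩, ⟨98, 99, 147⟩, ⟨300, 1351, 10000⟩, ⟨670, 1200, 1000⟩⟩ (tB7.hTMG true (tB7.pEnd false)) :=
  posD_of_check (c := ⟨340, ⟨2, 7, 13, 8⟩⟩) (by decide +kernel)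

def tB7_kap1 : PosD ⟨⟨0, 1, 1⟩, ⟨98, 99, 147⟩, ⟨300, 1351, 10000⟩, ⟨670, 1200, 1000⟩⟩ (tB7.kap true) :=
  posD_of_check (c := ⟨64, ⟨1, 1, 2, 2⟩⟩) (by decide +kernel)

def tB7_c11 : PosD ⟨⟨0, 1, 1⟩, ⟨98, 99, 147⟩, ⟨300, 1351, 10000⟩, ⟨670, 1200, 1000⟩⟩ (tB7.hC1 true) :=
  posD_of_check (c := ⟨262, ⟨3, 5, 9, 7⟩⟩) (by decide +kernel)

def tB7_c1h1 : PosD ⟨⟨0, 1, 1⟩, ⟨98, 99, 147⟩, ⟨300, 1351, 10000⟩, ⟨670, 1200, 1000⟩⟩ (tB7.hC1' true) :=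
  posD_of_check (c := ⟨262, ⟨3, 5, 9, 7⟩⟩) (by decide +kernel)

def tB7_tg10 : PosD ⟨⟨0, 1, 1⟩, ⟨98, 99, 147⟩, ⟨300, 1351, 10000⟩, ⟨670, 1200, 1000⟩⟩ (tB7.hG false (tB7.pEnd true)) :=
  posD_of_check (c := ⟨370, ⟨2, 7, 14, 9⟩⟩) (by decide +kernel)

def tB7_c2p10 : PosD ⟨⟨0, 1, 1⟩, ⟨98, 99, 147⟩, ⟨300, 1351, 10000⟩, ⟨670, 1200, 1000⟩⟩ (tB7.hC2p false (tB7.pEnd true)) :=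
  posD_of_check (c := ⟨437, ⟨3, 8, 16, 11⟩⟩) (by decide +kernel)

def tB7_c2m10 : PosD ⟨⟨0, 1, 1⟩, ⟨98, 99, 147⟩, ⟨300, 1351, 10000⟩, ⟨670, 1200, 1000⟩⟩ (tB7.hC2m false (tB7.pEnd true)) :=
  posD_of_check (c := ⟨407, ⟨2, 7, 16, 10⟩⟩) (by decide +kernel)

def tB7_c3p10 : PosD ⟨⟨0, 1, 1⟩, ⟨98, 99, 147⟩, ⟨300, 1351, 10000⟩, ⟨670, 1200, 1000⟩⟩ (tB7.hC3p true false) :=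
  posD_of_check (c := ⟨426, ⟨3, 8, 15, 11⟩⟩) (by decide +kernel)

def tB7_c3m10 : PosD ⟨⟨0, 1, 1⟩, ⟨98, 99, 147⟩, ⟨300, 1351, 10000⟩, ⟨670, 1200, 1000⟩⟩ (tB7.hC3m true false) :=
  posD_of_check (c := ⟨401, ⟨3, 7, 15, 10⟩⟩) (by decide +kernel)

def tB7_c3ph10 : PosD ⟨⟨0, 1, 1⟩, ⟨98, 99, 147⟩, ⟨300, 1351, 10000⟩, ⟨670, 1200, 1000⟩⟩ (tB7.hC3p' true false) :=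
  posD_of_check (c := ⟨426, ⟨3, 8, 15, 11⟩⟩) (by decide +kernel)

def tB7_c3mh10 : PosD ⟨⟨0, 1, 1⟩, ⟨98, 99, 147⟩, ⟨300, 1351, 10000⟩, ⟨670, 1200, 1000⟩⟩ (tB7.hC3m' true false) :=
  posD_of_check (c := ⟨401, ⟨3, 7, 15, 10⟩⟩) (by decide +kernel)

def tB7_up10 : PosD ⟨⟨0, 1, 1⟩, ⟨98, 99, 147⟩, ⟨300, 1351, 10000⟩, ⟨670, 1200, 1000⟩⟩ (tB7.hUp true false) :=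
  posD_of_check (c := ⟨426, ⟨3, 8, 15, 11⟩⟩) (by decide +kernel)

def tB7_um10 : PosD ⟨⟨0, 1, 1⟩, ⟨98, 99, 147⟩, ⟨300, 1351, 10000⟩, ⟨670, 1200, 1000⟩⟩ (tB7.hUm true false) :=
  posD_of_check (c := ⟨400, ⟨2, 7, 15, 10⟩⟩) (by decide +kernel)

def tB7_tmg10 : PosD ⟨⟨0, 1, 1⟩, ⟨98, 99, 147⟩, ⟨300, 1351, 10000⟩, ⟨670, 1200, 1000⟩⟩ (tB7.hTMG false (tB7.pEnd true)) :=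
  posD_of_check (c := ⟨385, ⟨2, 7, 14, 10⟩⟩) (by decide +kernel)

def tB7_tg11 : PosD ⟨⟨0, 1, 1⟩, ⟨98, 99, 147⟩, ⟨300, 1351, 10000⟩, ⟨670, 1200, 1000⟩⟩ (tB7.hG true (tB7.pEnd true)) :=
  posD_of_check (c := ⟨370, ⟨2, 7, 14, 9⟩⟩) (by decide +kernel)

def tB7_c2p11 : PosD ⟨⟨0, 1, 1⟩, ⟨98, 99, 147⟩, ⟨300, 1351, 10000⟩, ⟨670, 1200, 1000⟩⟩ (tB7.hC2p true (tB7.pEnd true)) :=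
  posD_of_check (c := ⟨437, ⟨3, 8, 16, 11⟩⟩) (by decide +kernel)

def tB7_c2m11 : PosD ⟨⟨0, 1, 1⟩, ⟨98, 99, 147⟩, ⟨300, 1351, 10000⟩, ⟨670, 1200, 1000⟩⟩ (tB7.hC2m true (tB7.pEnd true)) :=
  posD_of_check (c := ⟨407, ⟨2, 7, 16, 10⟩⟩) (by decide +kernel)

def tB7_c3p11 : PosD ⟨⟨0, 1, 1⟩, ⟨98, 99, 147⟩, ⟨300, 1351, 10000⟩, ⟨670, 1200, 1000⟩⟩ (tB7.hC3p true true) :=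
  posD_of_check (c := ⟨426, ⟨3, 8, 15, 11⟩⟩) (by decide +kernel)

def tB7_c3m11 : PosD ⟨⟨0, 1, 1⟩, ⟨98, 99, 147⟩, ⟨300, 1351, 10000⟩, ⟨670, 1200, 1000⟩⟩ (tB7.hC3m true true) :=
  posD_of_check (c := ⟨401, ⟨3, 7, 15, 10⟩⟩) (by decide +kernel)

def tB7_c3ph11 : PosD ⟨⟨0, 1, 1⟩, ⟨98, 99, 147⟩, ⟨300, 1351, 10000⟩, ⟨670, 1200, 1000⟩⟩ (tB7.hC3p' true true) :=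
  posD_of_check (c := ⟨426, ⟨3, 8, 15, 11⟩⟩) (by decide +kernel)

def tB7_c3mh11 : PosD ⟨⟨0, 1, 1⟩, ⟨98, 99, 147⟩, ⟨300, 1351, 10000⟩, ⟨670, 1200, 1000⟩⟩ (tB7.hC3m' true true) :=
  posD_of_check (c := ⟨401, ⟨3, 7, 15, 10⟩⟩) (by decide +kernel)

def tB7_up11 : PosD ⟨⟨0, 1, 1⟩, ⟨98, 99, 147⟩, ⟨300, 1351, 10000⟩, ⟨670, 1200, 1000⟩⟩ (tB7.hUp true true) :=
  posD_of_check (c := ⟨426, ⟨3, 8, 15, 11⟩⟩) (by decide +kernel)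

def tB7_um11 : PosD ⟨⟨0, 1, 1⟩, ⟨98, 99, 147⟩, ⟨300, 1351, 10000⟩, ⟨670, 1200, 1000⟩⟩ (tB7.hUm true true) :=
  posD_of_check (c := ⟨400, ⟨2, 7, 15, 10⟩⟩) (by decide +kernel)

def tB7_tmg11 : PosD ⟨⟨0, 1, 1⟩, ⟨98, 99, 147⟩, ⟨300, 1351, 10000⟩, ⟨670, 1200, 1000⟩⟩ (tB7.hTMG true (tB7.pEnd true)) :=
  posD_of_check (c := ⟨385, ⟨2, 7, 14, 10⟩⟩) (by decide +kernel)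

/-- The signs of the piece. -/
def tB7_sign : tB7.Sign ⟨⟨0, 1, 1⟩, ⟨98, 99, 147⟩, ⟨300, 1351, 10000⟩, ⟨670, 1200, 1000⟩⟩ :=
  ⟨tB7_pp,
    tB7_k2p,
    tB7_k2m,
    Bool.forall_bool.2 ⟨(Bool.forall_bool.2 ⟨tB7_tg00, tB7_tg01⟩), (Bool.forall_bool.2 ⟨tB7_tg10, tB7_tg11⟩)⟩,
    Bool.forall_bool.2 ⟨(Bool.forall_bool.2 ⟨tB7_c2p00, tB7_c2p01⟩), (Bool.forall_bool.2 ⟨tB7_c2p10, tB7_c2p11⟩)⟩,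
    Bool.forall_bool.2 ⟨(Bool.forall_bool.2 ⟨tB7_c2m00, tB7_c2m01⟩), (Bool.forall_bool.2 ⟨tB7_c2m10, tB7_c2m11⟩)⟩,
    Bool.forall_bool.2 ⟨tB7_kap0, tB7_kap1⟩,
    Bool.forall_bool.2 ⟨tB7_c10, tB7_c11⟩,
    Bool.forall_bool.2 ⟨(Bool.forall_bool.2 ⟨tB7_c3p00, tB7_c3p01⟩), (Bool.forall_bool.2 ⟨tB7_c3p10, tB7_c3p11⟩)⟩,
    Bool.forall_bool.2 ⟨(Bool.forall_bool.2 ⟨tB7_c3m00, tB7_c3m01⟩), (Bool.forall_bool.2 ⟨tB7_c3m10, tB7_c3m11⟩)⟩,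
    Bool.forall_bool.2 ⟨(Bool.forall_bool.2 ⟨tB7_tmg00, tB7_tmg01⟩), (Bool.forall_bool.2 ⟨tB7_tmg10, tB7_tmg11⟩)⟩,
    .inr (Bool.forall_bool.2 ⟨⟨tB7_c1h0, Bool.forall_bool.2 ⟨⟨tB7_c3ph00, tB7_c3mh00, tB7_up00, tB7_um00⟩, ⟨tB7_c3ph01, tB7_c3mh01, tB7_up01, tB7_um01⟩⟩⟩, ⟨tB7_c1h1, Bool.forall_bool.2 ⟨⟨tB7_c3ph10, tB7_c3mh10, tB7_up10, tB7_um10⟩, ⟨tB7_c3ph11, tB7_c3mh11, tB7_up11, tB7_um11⟩⟩⟩⟩),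
    tB7_v2p,
    tB7_v2m,
    tB7_v3p,
    tB7_v3m,
    posD_sub (b := ⟨⟨0, 1, 1⟩, ⟨98, 99, 147⟩, ⟨300, 1351, 10000⟩, ⟨290, 4000, 1000⟩⟩) (by decide +kernel) tB_vG,
    posD_sub (b := ⟨⟨0, 1, 1⟩, ⟨98, 99, 147⟩, ⟨300, 1351, 10000⟩, ⟨290, 4000, 1000⟩⟩) (by decide +kernel) tB_vMG,
    posD_sub (b := ⟨⟨0, 1, 1⟩, ⟨98, 99, 147⟩, ⟨300, 1351, 10000⟩, ⟨290, 4000, 1000⟩⟩) (by decide +kernel) tB_ak,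
    posD_sub (b := ⟨⟨0, 1, 1⟩, ⟨98, 99, 147⟩, ⟨300, 1351, 10000⟩, ⟨290, 4000, 1000⟩⟩) (by decide +kernel) tB_aw,
    posD_sub (b := ⟨⟨0, 1, 1⟩, ⟨98, 99, 147⟩, ⟨300, 1351, 10000⟩, ⟨290, 4000, 1000⟩⟩) (by decide +kernel) tB_gk,
    posD_sub (b := ⟨⟨0, 1, 1⟩, ⟨98, 99, 147⟩, ⟨300, 1351, 10000⟩, ⟨290, 4000, 1000⟩⟩) (by decide +kernel) tB_gw,
    posD_sub (b := ⟨⟨0, 1, 1⟩, ⟨98, 99, 147⟩, ⟨300, 1351, 10000⟩, ⟨290, 4000, 1000⟩⟩) (by decide +kernel) tB_ek,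
    posD_sub (b := ⟨⟨0, 1, 1⟩, ⟨98, 99, 147⟩, ⟨300, 1351, 10000⟩, ⟨290, 4000, 1000⟩⟩) (by decide +kernel) tB_ew⟩

end Vale.Agent.P100.Calib.Closed.Six.Tail
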