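import Vale.Agent.P100.Calib.SlabSixTailDataB
import Vale.Agent.P100.Calib.SlabSixTailGlobB

/-!
# Checks of some pieces of the certificate

The checks are written as definitions so that they run one after another, which keeps the memory of the
kernel low.
-/

set_option linter.defProp false

namespace Vale.Agent.P100.Calib.Closed.Six.Tail

open BoxPos Large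

local instance sixTailCheckstB5Add : Add Ex := ⟨Ex.add⟩
local instance sixTailCheckstB5Sub : Sub Ex := ⟨Ex.sub⟩
local instance sixTailCheckstB5Mul : Mul Ex := ⟨Ex.mul⟩

def tB8_phxaaa : PosIf ⟨⟨0, 1, 1⟩, ⟨98, 99, 147⟩, ⟨300, 825, 10000⟩, ⟨1200, 1277, 1000⟩⟩ (tB8.u₁ - tB8Lo) (phBn (tB8.u₁ + xO * (tB8Lo - tB8.u₁))) :=
  posIf_of_mul (k := 1) (n := 1) (posD_of_check (c := ⟨100, ⟨2, 0, 4, 2⟩⟩) (by decide +kernel))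

def tB8_phxaab : PosIf ⟨⟨0, 1, 1⟩, ⟨98, 99, 147⟩, ⟨825, 1351, 10000⟩, ⟨1200, 1277, 1000⟩⟩ (tB8.u₁ - tB8Lo) (phBn (tB8.u₁ + xO * (tB8Lo - tB8.u₁))) :=
  posIf_of_mul (k := 1) (n := 2) (posD_of_check (c := ⟨101, ⟨2, 0, 4, 2⟩⟩) (by decide +kernel))

def tB8_phxaa : PosIf ⟨⟨0, 1, 1⟩, ⟨98, 99, 147⟩, ⟨300, 1351, 10000⟩, ⟨1200, 1277, 1000⟩⟩ (tB8.u₁ - tB8Lo) (phBn (tB8.u₁ + xO * (tB8Lo - tB8.u₁))) :=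
  posIf_join₂ tB8_phxaaa tB8_phxaab

def tB8_phxaba : PosIf ⟨⟨0, 1, 1⟩, ⟨98, 99, 147⟩, ⟨300, 825, 10000⟩, ⟨1277, 1355, 1000⟩⟩ (tB8.u₁ - tB8Lo) (phBn (tB8.u₁ + xO * (tB8Lo - tB8.u₁))) :=
  posIf_of_mul (k := 1) (n := 4) (posD_of_check (c := ⟨100, ⟨2, 0, 4, 2⟩⟩) (by decide +kernel))

def tB8_phxabb : PosIf ⟨⟨0, 1, 1⟩, ⟨98, 99, 147⟩, ⟨825, 1351, 10000⟩, ⟨1277, 1355, 1000⟩⟩ (tB8.u₁ - tB8Lo) (phBn (tB8.u₁ + xO * (tB8Lo - tB8.u₁))) :=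
  posIf_of_posD (posD_of_check (c := ⟨101, ⟨2, 0, 4, 2⟩⟩) (by decide +kernel))

def tB8_phxab : PosIf ⟨⟨0, 1, 1⟩, ⟨98, 99, 147⟩, ⟨300, 1351, 10000⟩, ⟨1277, 1355, 1000⟩⟩ (tB8.u₁ - tB8Lo) (phBn (tB8.u₁ + xO * (tB8Lo - tB8.u₁))) :=
  posIf_join₂ tB8_phxaba tB8_phxabb

def tB8_phxa : PosIf ⟨⟨0, 1, 1⟩, ⟨98, 99, 147⟩, ⟨300, 1351, 10000⟩, ⟨1200, 1355, 1000⟩⟩ (tB8.u₁ - tB8Lo) (phBn (tB8.u₁ + xO * (tB8Lo - tB8.u₁))) :=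
  posIf_join₃ tB8_phxaa tB8_phxab

def tB8_phxb : PosIf ⟨⟨0, 1, 1⟩, ⟨98, 99, 147⟩, ⟨300, 1351, 10000⟩, ⟨1355, 1510, 1000⟩⟩ (tB8.u₁ - tB8Lo) (phBn (tB8.u₁ + xO * (tB8Lo - tB8.u₁))) :=
  posIf_of_posD (posD_of_check (c := ⟨100, ⟨2, 0, 4, 2⟩⟩) (by decide +kernel))

def tB8_phx : PosIf ⟨⟨0, 1, 1⟩, ⟨98, 99, 147⟩, ⟨300, 1351, 10000⟩, ⟨1200, 1510, 1000⟩⟩ (tB8.u₁ - tB8Lo) (phBn (tB8.u₁ + xO * (tB8Lo - tB8.u₁))) :=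
  posIf_join₃ tB8_phxa tB8_phxb

def tB8_phd : PosD ⟨⟨0, 1, 1⟩, ⟨98, 99, 147⟩, ⟨300, 1351, 10000⟩, ⟨1200, 1510, 1000⟩⟩ (phBd (tB8.u₁ + xO * (tB8Lo - tB8.u₁))) :=
  posD_of_check (c := ⟨48, ⟨1, 0, 2, 1⟩⟩) (by decide +kernel)

def tB8_p0 : PosD ⟨⟨0, 1, 1⟩, ⟨98, 99, 147⟩, ⟨300, 1351, 10000⟩, ⟨1200, 1510, 1000⟩⟩ (tB8.hP0) :=
  posD_of_check (c := ⟨81, ⟨0, 2, 3, 1⟩⟩) (by decide +kernel)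

def tB8_gn : PosD ⟨⟨0, 1, 1⟩, ⟨98, 99, 147⟩, ⟨300, 1351, 10000⟩, ⟨1200, 1510, 1000⟩⟩ (tB8.hGn) :=
  posD_of_check (c := ⟨65, ⟨1, 1, 2, 2⟩⟩) (by decide +kernel)

def tB8_den0 : PosD ⟨⟨0, 1, 1⟩, ⟨98, 99, 147⟩, ⟨300, 1351, 10000⟩, ⟨1200, 1510, 1000⟩⟩ (tB8.hDen false) :=
  posD_of_check (c := ⟨48, ⟨1, 0, 2, 1⟩⟩) (by decide +kernel)

def tB8_den1 : PosD ⟨⟨0, 1, 1⟩, ⟨98, 99, 147⟩, ⟨300, 1351, 10000⟩, ⟨1200, 1510, 1000⟩⟩ (tB8.hDen true) :=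
  posD_of_check (c := ⟨48, ⟨1, 0, 2, 1⟩⟩) (by decide +kernel)

def tB8_ev0 : PosD ⟨⟨0, 1, 1⟩, ⟨98, 99, 147⟩, ⟨300, 1351, 10000⟩, ⟨1200, 1510, 1000⟩⟩ (tB8.hEv false) :=
  posD_of_check (c := ⟨205, ⟨4, 2, 8, 4⟩⟩) (by decide +kernel)

def tB8_zL0 : PosD ⟨⟨0, 1, 1⟩, ⟨98, 99, 147⟩, ⟨300, 1351, 10000⟩, ⟨1200, 1510, 1000⟩⟩ (tB8.hZL false) :=
  posD_of_check (c := ⟨208, ⟨4, 3, 8, 4⟩⟩) (by decide +kernel)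

def tB8_zU0a : PosD ⟨⟨0, 1, 1⟩, ⟨98, 99, 147⟩, ⟨300, 825, 10000⟩, ⟨1200, 1510, 1000⟩⟩ (tB8.hZU false) :=
  posD_of_check (c := ⟨208, ⟨4, 3, 8, 4⟩⟩) (by decide +kernel)

def tB8_zU0b : PosD ⟨⟨0, 1, 1⟩, ⟨98, 99, 147⟩, ⟨825, 1351, 10000⟩, ⟨1200, 1510, 1000⟩⟩ (tB8.hZU false) :=
  posD_of_check (c := ⟨209, ⟨4, 3, 8, 4⟩⟩) (by decide +kernel)

def tB8_zU0 : PosD ⟨⟨0, 1, 1⟩, ⟨98, 99, 147⟩, ⟨300, 1351, 10000⟩, ⟨1200, 1510, 1000⟩⟩ (tB8.hZU false) :=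
  posD_join₂ tB8_zU0a tB8_zU0b

def tB8_eL0 : PosD ⟨⟨0, 1, 1⟩, ⟨98, 99, 147⟩, ⟨300, 1351, 10000⟩, ⟨1200, 1510, 1000⟩⟩ (tB8.hEL false) :=
  posD_of_check (c := ⟨298, ⟨5, 6, 11, 6⟩⟩) (by decide +kernel)

def tB8_eH0 : PosD ⟨⟨0, 1, 1⟩, ⟨98, 99, 147⟩, ⟨300, 1351, 10000⟩, ⟨1200, 1510, 1000⟩⟩ (tB8.hEH false) :=
  posD_of_check (c := ⟨313, ⟨5, 6, 11, 6⟩⟩) (by decide +kernel)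

def tB8_pL0 : PosD ⟨⟨0, 1, 1⟩, ⟨98, 99, 147⟩, ⟨300, 1351, 10000⟩, ⟨1200, 1510, 1000⟩⟩ (tB8.hPL false) :=
  posD_of_check (c := ⟨323, ⟨5, 6, 11, 7⟩⟩) (by decide +kernel)

def tB8_pU0 : PosD ⟨⟨0, 1, 1⟩, ⟨98, 99, 147⟩, ⟨300, 1351, 10000⟩, ⟨1200, 1510, 1000⟩⟩ (tB8.hPU false) :=
  posD_of_check (c := ⟨323, ⟨5, 6, 11, 7⟩⟩) (by decide +kernel)

def tB8_kU0 : PosD ⟨⟨0, 1, 1⟩, ⟨98, 99, 147⟩, ⟨300, 1351, 10000⟩, ⟨1200, 1510, 1000⟩⟩ (tB8.hKU false) :=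
  posD_of_check (c := ⟨319, ⟨5, 6, 11, 7⟩⟩) (by decide +kernel)

def tB8_kL0 : PosD ⟨⟨0, 1, 1⟩, ⟨98, 99, 147⟩, ⟨300, 1351, 10000⟩, ⟨1200, 1510, 1000⟩⟩ (tB8.hKL false) :=
  posD_of_check (c := ⟨319, ⟨5, 6, 11, 7⟩⟩) (by decide +kernel)

def tB8_wU0a : PosD ⟨⟨0, 1, 2⟩, ⟨98, 99, 147⟩, ⟨300, 1351, 10000⟩, ⟨1200, 1510, 1000⟩⟩ (tB8.hWU false) :=
  posD_of_check (c := ⟨358, ⟨5, 8, 12, 7⟩⟩) (by decide +kernel)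

def tB8_wU0b : PosD ⟨⟨1, 2, 2⟩, ⟨98, 99, 147⟩, ⟨300, 1351, 10000⟩, ⟨1200, 1510, 1000⟩⟩ (tB8.hWU false) :=
  posD_of_check (c := ⟨360, ⟨5, 8, 12, 7⟩⟩) (by decide +kernel)

def tB8_wU0 : PosD ⟨⟨0, 1, 1⟩, ⟨98, 99, 147⟩, ⟨300, 1351, 10000⟩, ⟨1200, 1510, 1000⟩⟩ (tB8.hWU false) :=
  posD_units (b := ⟨⟨0, 2, 2⟩, ⟨98, 99, 147⟩, ⟨300, 1351, 10000⟩, ⟨1200, 1510, 1000⟩⟩) (by decide +kernel) (posD_join₀ tB8_wU0a tB8_wU0b)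

def tB8_wL0 : PosD ⟨⟨0, 1, 1⟩, ⟨98, 99, 147⟩, ⟨300, 1351, 10000⟩, ⟨1200, 1510, 1000⟩⟩ (tB8.hWL false) :=
  posD_of_check (c := ⟨354, ⟨5, 8, 12, 7⟩⟩) (by decide +kernel)

def tB8_ev1 : PosD ⟨⟨0, 1, 1⟩, ⟨98, 99, 147⟩, ⟨300, 1351, 10000⟩, ⟨1200, 1510, 1000⟩⟩ (tB8.hEv true) :=
  posD_of_check (c := ⟨204, ⟨4, 2, 8, 4⟩⟩) (by decide +kernel)

def tB8_zL1aa : PosD ⟨⟨0, 1, 1⟩, ⟨98, 99, 147⟩, ⟨300, 562, 10000⟩, ⟨1200, 1510, 1000⟩⟩ (tB8.hZL true) :=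
  posD_of_check (c := ⟨207, ⟨4, 3, 8, 4⟩⟩) (by decide +kernel)

def tB8_zL1ab : PosD ⟨⟨0, 1, 1⟩, ⟨98, 99, 147⟩, ⟨562, 825, 10000⟩, ⟨1200, 1510, 1000⟩⟩ (tB8.hZL true) :=
  posD_of_check (c := ⟨208, ⟨4, 3, 8, 4⟩⟩) (by decide +kernel)

def tB8_zL1a : PosD ⟨⟨0, 1, 1⟩, ⟨98, 99, 147⟩, ⟨300, 825, 10000⟩, ⟨1200, 1510, 1000⟩⟩ (tB8.hZL true) :=
  posD_join₂ tB8_zL1aa tB8_zL1ab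

def tB8_zL1b : PosD ⟨⟨0, 1, 1⟩, ⟨98, 99, 147⟩, ⟨825, 1351, 10000⟩, ⟨1200, 1510, 1000⟩⟩ (tB8.hZL true) :=
  posD_of_check (c := ⟨208, ⟨4, 3, 8, 4⟩⟩) (by decide +kernel)

def tB8_zL1 : PosD ⟨⟨0, 1, 1⟩, ⟨98, 99, 147⟩, ⟨300, 1351, 10000⟩, ⟨1200, 1510, 1000⟩⟩ (tB8.hZL true) :=
  posD_join₂ tB8_zL1a tB8_zL1b

def tB8_zU1 : PosD ⟨⟨0, 1, 1⟩, ⟨98, 99, 147⟩, ⟨300, 1351, 10000⟩, ⟨1200, 1510, 1000⟩⟩ (tB8.hZU true) :=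
  posD_of_check (c := ⟨208, ⟨4, 3, 8, 4⟩⟩) (by decide +kernel)

def tB8_eL1 : PosD ⟨⟨0, 1, 1⟩, ⟨98, 99, 147⟩, ⟨300, 1351, 10000⟩, ⟨1200, 1510, 1000⟩⟩ (tB8.hEL true) :=
  posD_of_check (c := ⟨297, ⟨5, 6, 11, 6⟩⟩) (by decide +kernel)

def tB8_eH1aaaa : PosD ⟨⟨0, 1, 4⟩, ⟨98, 99, 147⟩, ⟨300, 562, 10000⟩, ⟨1200, 1510, 1000⟩⟩ (tB8.hEH true) :=
  posD_of_check (c := ⟨318, ⟨5, 6, 11, 6⟩⟩) (by decide +kernel)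

def tB8_eH1aaab : PosD ⟨⟨0, 1, 4⟩, ⟨98, 99, 147⟩, ⟨562, 825, 10000⟩, ⟨1200, 1510, 1000⟩⟩ (tB8.hEH true) :=
  posD_of_check (c := ⟨318, ⟨5, 6, 11, 6⟩⟩) (by decide +kernel)

def tB8_eH1aaa : PosD ⟨⟨0, 1, 4⟩, ⟨98, 99, 147⟩, ⟨300, 825, 10000⟩, ⟨1200, 1510, 1000⟩⟩ (tB8.hEH true) :=
  posD_join₂ tB8_eH1aaaa tB8_eH1aaab

def tB8_eH1aab : PosD ⟨⟨1, 2, 4⟩, ⟨98, 99, 147⟩, ⟨300, 825, 10000⟩, ⟨1200, 1510, 1000⟩⟩ (tB8.hEH true) :=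
  posD_of_check (c := ⟨319, ⟨5, 6, 11, 6⟩⟩) (by decide +kernel)

def tB8_eH1aa : PosD ⟨⟨0, 1, 2⟩, ⟨98, 99, 147⟩, ⟨300, 825, 10000⟩, ⟨1200, 1510, 1000⟩⟩ (tB8.hEH true) :=
  posD_units (b := ⟨⟨0, 2, 4⟩, ⟨98, 99, 147⟩, ⟨300, 825, 10000⟩, ⟨1200, 1510, 1000⟩⟩) (by decide +kernel) (posD_join₀ tB8_eH1aaa tB8_eH1aab)

def tB8_eH1ab : PosD ⟨⟨1, 2, 2⟩, ⟨98, 99, 147⟩, ⟨300, 825, 10000⟩, ⟨1200, 1510, 1000⟩⟩ (tB8.hEH true) :=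
  posD_of_check (c := ⟨317, ⟨5, 6, 11, 6⟩⟩) (by decide +kernel)

def tB8_eH1a : PosD ⟨⟨0, 1, 1⟩, ⟨98, 99, 147⟩, ⟨300, 825, 10000⟩, ⟨1200, 1510, 1000⟩⟩ (tB8.hEH true) :=
  posD_units (b := ⟨⟨0, 2, 2⟩, ⟨98, 99, 147⟩, ⟨300, 825, 10000⟩, ⟨1200, 1510, 1000⟩⟩) (by decide +kernel) (posD_join₀ tB8_eH1aa tB8_eH1ab)

def tB8_eH1b : PosD ⟨⟨0, 1, 1⟩, ⟨98, 99, 147⟩, ⟨825, 1351, 10000⟩, ⟨1200, 1510, 1000⟩⟩ (tB8.hEH true) :=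
  posD_of_check (c := ⟨312, ⟨5, 6, 11, 6⟩⟩) (by decide +kernel)

def tB8_eH1 : PosD ⟨⟨0, 1, 1⟩, ⟨98, 99, 147⟩, ⟨300, 1351, 10000⟩, ⟨1200, 1510, 1000⟩⟩ (tB8.hEH true) :=
  posD_join₂ tB8_eH1a tB8_eH1b

def tB8_pL1 : PosD ⟨⟨0, 1, 1⟩, ⟨98, 99, 147⟩, ⟨300, 1351, 10000⟩, ⟨1200, 1510, 1000⟩⟩ (tB8.hPL true) :=
  posD_of_check (c := ⟨322, ⟨5, 6, 11, 7⟩⟩) (by decide +kernel)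

def tB8_pU1aa : PosD ⟨⟨0, 1, 2⟩, ⟨98, 99, 147⟩, ⟨300, 825, 10000⟩, ⟨1200, 1510, 1000⟩⟩ (tB8.hPU true) :=
  posD_of_check (c := ⟨326, ⟨5, 6, 11, 7⟩⟩) (by decide +kernel)

def tB8_pU1ab : PosD ⟨⟨0, 1, 2⟩, ⟨98, 99, 147⟩, ⟨825, 1351, 10000⟩, ⟨1200, 1510, 1000⟩⟩ (tB8.hPU true) :=
  posD_of_check (c := ⟨326, ⟨5, 6, 11, 7⟩⟩) (by decide +kernel)

def tB8_pU1a : PosD ⟨⟨0, 1, 2⟩, ⟨98, 99, 147⟩, ⟨300, 1351, 10000⟩, ⟨1200, 1510, 1000⟩⟩ (tB8.hPU true) :=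
  posD_join₂ tB8_pU1aa tB8_pU1ab

def tB8_pU1ba : PosD ⟨⟨1, 2, 2⟩, ⟨98, 99, 147⟩, ⟨300, 825, 10000⟩, ⟨1200, 1510, 1000⟩⟩ (tB8.hPU true) :=
  posD_of_check (c := ⟨328, ⟨5, 6, 11, 7⟩⟩) (by decide +kernel)

def tB8_pU1bb : PosD ⟨⟨1, 2, 2⟩, ⟨98, 99, 147⟩, ⟨825, 1351, 10000⟩, ⟨1200, 1510, 1000⟩⟩ (tB8.hPU true) :=
  posD_of_check (c := ⟨329, ⟨5, 6, 11, 7⟩⟩) (by decide +kernel)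

def tB8_pU1b : PosD ⟨⟨1, 2, 2⟩, ⟨98, 99, 147⟩, ⟨300, 1351, 10000⟩, ⟨1200, 1510, 1000⟩⟩ (tB8.hPU true) :=
  posD_join₂ tB8_pU1ba tB8_pU1bb

def tB8_pU1 : PosD ⟨⟨0, 1, 1⟩, ⟨98, 99, 147⟩, ⟨300, 1351, 10000⟩, ⟨1200, 1510, 1000⟩⟩ (tB8.hPU true) :=
  posD_units (b := ⟨⟨0, 2, 2⟩, ⟨98, 99, 147⟩, ⟨300, 1351, 10000⟩, ⟨1200, 1510, 1000⟩⟩) (by decide +kernel) (posD_join₀ tB8_pU1a tB8_pU1b)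

def tB8_kU1 : PosD ⟨⟨0, 1, 1⟩, ⟨98, 99, 147⟩, ⟨300, 1351, 10000⟩, ⟨1200, 1510, 1000⟩⟩ (tB8.hKU true) :=
  posD_of_check (c := ⟨318, ⟨5, 6, 11, 7⟩⟩) (by decide +kernel)

def tB8_kL1aa : PosD ⟨⟨0, 1, 2⟩, ⟨98, 99, 147⟩, ⟨300, 825, 10000⟩, ⟨1200, 1510, 1000⟩⟩ (tB8.hKL true) :=
  posD_of_check (c := ⟨321, ⟨5, 6, 11, 7⟩⟩) (by decide +kernel)

def tB8_kL1ab : PosD ⟨⟨0, 1, 2⟩, ⟨98, 99, 147⟩, ⟨825, 1351, 10000⟩, ⟨1200, 1510, 1000⟩⟩ (tB8.hKL true) :=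
  posD_of_check (c := ⟨323, ⟨5, 6, 11, 7⟩⟩) (by decide +kernel)

def tB8_kL1a : PosD ⟨⟨0, 1, 2⟩, ⟨98, 99, 147⟩, ⟨300, 1351, 10000⟩, ⟨1200, 1510, 1000⟩⟩ (tB8.hKL true) :=
  posD_join₂ tB8_kL1aa tB8_kL1ab

def tB8_kL1b : PosD ⟨⟨1, 2, 2⟩, ⟨98, 99, 147⟩, ⟨300, 1351, 10000⟩, ⟨1200, 1510, 1000⟩⟩ (tB8.hKL true) :=
  posD_of_check (c := ⟨324, ⟨5, 6, 11, 7⟩⟩) (by decide +kernel)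

def tB8_kL1 : PosD ⟨⟨0, 1, 1⟩, ⟨98, 99, 147⟩, ⟨300, 1351, 10000⟩, ⟨1200, 1510, 1000⟩⟩ (tB8.hKL true) :=
  posD_units (b := ⟨⟨0, 2, 2⟩, ⟨98, 99, 147⟩, ⟨300, 1351, 10000⟩, ⟨1200, 1510, 1000⟩⟩) (by decide +kernel) (posD_join₀ tB8_kL1a tB8_kL1b)

def tB8_wU1a : PosD ⟨⟨0, 1, 2⟩, ⟨98, 99, 147⟩, ⟨300, 1351, 10000⟩, ⟨1200, 1510, 1000⟩⟩ (tB8.hWU true) :=
  posD_of_check (c := ⟨358, ⟨5, 8, 12, 7⟩⟩) (by decide +kernel)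

def tB8_wU1b : PosD ⟨⟨1, 2, 2⟩, ⟨98, 99, 147⟩, ⟨300, 1351, 10000⟩, ⟨1200, 1510, 1000⟩⟩ (tB8.hWU true) :=
  posD_of_check (c := ⟨359, ⟨5, 8, 12, 7⟩⟩) (by decide +kernel)

def tB8_wU1 : PosD ⟨⟨0, 1, 1⟩, ⟨98, 99, 147⟩, ⟨300, 1351, 10000⟩, ⟨1200, 1510, 1000⟩⟩ (tB8.hWU true) :=
  posD_units (b := ⟨⟨0, 2, 2⟩, ⟨98, 99, 147⟩, ⟨300, 1351, 10000⟩, ⟨1200, 1510, 1000⟩⟩) (by decide +kernel) (posD_join₀ tB8_wU1a tB8_wU1b)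

def tB8_wL1 : PosD ⟨⟨0, 1, 1⟩, ⟨98, 99, 147⟩, ⟨300, 1351, 10000⟩, ⟨1200, 1510, 1000⟩⟩ (tB8.hWL true) :=
  posD_of_check (c := ⟨353, ⟨5, 8, 12, 7⟩⟩) (by decide +kernel)

def tB8_mueH : PosD ⟨⟨0, 1, 1⟩, ⟨98, 99, 147⟩, ⟨300, 1351, 10000⟩, ⟨1200, 1510, 1000⟩⟩ (tB8.eH.μ) :=
  posD_of_check (c := ⟨16, ⟨0, 0, 0, 0⟩⟩) (by decide +kernel)

/-- The bounds of the piece. -/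
def tB8_env : tB8.Env ⟨⟨0, 1, 1⟩, ⟨98, 99, 147⟩, ⟨300, 1351, 10000⟩, ⟨1200, 1510, 1000⟩⟩ :=
  ⟨tB8_p0, Bool.forall_bool.2 ⟨tB8_den0, tB8_den1⟩, tB8_gn, Bool.forall_bool.2 ⟨tB8_ev0, tB8_ev1⟩, Bool.forall_bool.2 ⟨tB8_zL0, tB8_zL1⟩, Bool.forall_bool.2 ⟨tB8_zU0, tB8_zU1⟩, Bool.forall_bool.2 ⟨tB8_eL0, tB8_eL1⟩, ⟨.inr rfl, .inr rfl⟩, Bool.forall_bool.2 ⟨tB8_eH0, tB8_eH1⟩, ⟨.inl tB8_mueH, .inr rfl⟩, Bool.forall_bool.2 ⟨tB8_pL0, tB8_pL1⟩, ⟨.inr rfl, .inr rfl⟩, Bool.forall_bool.2 ⟨tB8_pU0, tB8_pU1⟩, ⟨.inr rfl, .inr rfl⟩, Bool.forall_bool.2 ⟨tB8_kU0, tB8_kU1⟩, ⟨.inr rfl, .inr rfl⟩, Bool.forall_bool.2 ⟨tB8_kL0, tB8_kL1⟩, ⟨.inr rfl, .inr rfl⟩, Bool.forall_bool.2 ⟨tB8_wU0, tB8_wU1⟩, ⟨.inr rfl, .inr rfl⟩, Bool.forall_bool.2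 ⟨tB8_wL0, tB8_wL1⟩, ⟨.inr rfl, .inr rfl⟩⟩

def tB8_pp : PosD ⟨⟨0, 1, 1⟩, ⟨98, 99, 147⟩, ⟨300, 1351, 10000⟩, ⟨1200, 1510, 1000⟩⟩ (tB8.xPL) :=
  posD_of_check (c := ⟨91, ⟨1, 1, 3, 3⟩⟩) (by decide +kernel)

def tB8_k2p : PosD ⟨⟨0, 1, 1⟩, ⟨98, 99, 147⟩, ⟨300, 1351, 10000⟩, ⟨1200, 1510, 1000⟩⟩ (tB8.k2p tB8.xE) :=
  posD_of_check (c := ⟨65, ⟨1, 1, 2, 2⟩⟩) (by decide +kernel)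

def tB8_k2m : PosD ⟨⟨0, 1, 1⟩, ⟨98, 99, 147⟩, ⟨300, 1351, 10000⟩, ⟨1200, 1510, 1000⟩⟩ (tB8.k2m tB8.xE) :=
  posD_of_check (c := ⟨67, ⟨1, 1, 2, 2⟩⟩) (by decide +kernel)

def tB8_v2p : PosD ⟨⟨0, 1, 1⟩, ⟨98, 99, 147⟩, ⟨300, 1351, 10000⟩, ⟨1200, 1510, 1000⟩⟩ (tB8.hV2p) :=
  posD_of_check (c := ⟨259, ⟨1, 6, 10, 5⟩⟩) (by decide +kernel)

def tB8_v2m : PosD ⟨⟨0, 1, 1⟩, ⟨98, 99, 147⟩, ⟨300, 1351, 10000⟩, ⟨1200, 1510, 1000⟩⟩ (tB8.hV2m) :=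
  posD_of_check (c := ⟨260, ⟨1, 6, 10, 5⟩⟩) (by decide +kernel)

def tB8_v3p : PosD ⟨⟨0, 1, 1⟩, ⟨98, 99, 147⟩, ⟨300, 1351, 10000⟩, ⟨1200, 1510, 1000⟩⟩ (tB8.hV3p) :=
  posD_of_check (c := ⟨248, ⟨1, 6, 9, 5⟩⟩) (by decide +kernel)

def tB8_v3m : PosD ⟨⟨0, 1, 1⟩, ⟨98, 99, 147⟩, ⟨300, 1351, 10000⟩, ⟨1200, 1510, 1000⟩⟩ (tB8.hV3m) :=
  posD_of_check (c := ⟨248, ⟨1, 6, 9, 5⟩⟩) (by decide +kernel)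

def tB8_kap0 : PosD ⟨⟨0, 1, 1⟩, ⟨98, 99, 147⟩, ⟨300, 1351, 10000⟩, ⟨1200, 1510, 1000⟩⟩ (tB8.kap false) :=
  posD_of_check (c := ⟨67, ⟨1, 1, 2, 2⟩⟩) (by decide +kernel)

def tB8_c10 : PosD ⟨⟨0, 1, 1⟩, ⟨98, 99, 147⟩, ⟨300, 1351, 10000⟩, ⟨1200, 1510, 1000⟩⟩ (tB8.hC1 false) :=
  posD_of_check (c := ⟨264, ⟨3, 5, 9, 7⟩⟩) (by decide +kernel)

def tB8_c1h0 : PosD ⟨⟨0, 1, 1⟩, ⟨98, 99, 147⟩, ⟨300, 1351, 10000⟩, ⟨1200, 1510, 1000⟩⟩ (tB8.hC1' false) :=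
  posD_of_check (c := ⟨264, ⟨3, 5, 9, 7⟩⟩) (by decide +kernel)

def tB8_tg00 : PosD ⟨⟨0, 1, 1⟩, ⟨98, 99, 147⟩, ⟨300, 1351, 10000⟩, ⟨1200, 1510, 1000⟩⟩ (tB8.hG false (tB8.pEnd false)) :=
  posD_of_check (c := ⟨372, ⟨2, 7, 14, 9⟩⟩) (by decide +kernel)

def tB8_c2p00 : PosD ⟨⟨0, 1, 1⟩, ⟨98, 99, 147⟩, ⟨300, 1351, 10000⟩, ⟨1200, 1510, 1000⟩⟩ (tB8.hC2p false (tB8.pEnd false)) :=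
  posD_of_check (c := ⟨437, ⟨3, 8, 16, 11⟩⟩) (by decide +kernel)

def tB8_c2m00 : PosD ⟨⟨0, 1, 1⟩, ⟨98, 99, 147⟩, ⟨300, 1351, 10000⟩, ⟨1200, 1510, 1000⟩⟩ (tB8.hC2m false (tB8.pEnd false)) :=
  posD_of_check (c := ⟨438, ⟨3, 8, 16, 11⟩⟩) (by decide +kernel)

def tB8_c3p00 : PosD ⟨⟨0, 1, 1⟩, ⟨98, 99, 147⟩, ⟨300, 1351, 10000⟩, ⟨1200, 1510, 1000⟩⟩ (tB8.hC3p false false) :=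
  posD_of_check (c := ⟨428, ⟨3, 8, 15, 11⟩⟩) (by decide +kernel)

def tB8_c3m00 : PosD ⟨⟨0, 1, 1⟩, ⟨98, 99, 147⟩, ⟨300, 1351, 10000⟩, ⟨1200, 1510, 1000⟩⟩ (tB8.hC3m false false) :=
  posD_of_check (c := ⟨428, ⟨3, 8, 15, 11⟩⟩) (by decide +kernel)

def tB8_c3ph00 : PosD ⟨⟨0, 1, 1⟩, ⟨98, 99, 147⟩, ⟨300, 1351, 10000⟩, ⟨1200, 1510, 1000⟩⟩ (tB8.hC3p' false false) :=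
  posD_of_check (c := ⟨428, ⟨3, 8, 15, 11⟩⟩) (by decide +kernel)

def tB8_c3mh00 : PosD ⟨⟨0, 1, 1⟩, ⟨98, 99, 147⟩, ⟨300, 1351, 10000⟩, ⟨1200, 1510, 1000⟩⟩ (tB8.hC3m' false false) :=
  posD_of_check (c := ⟨428, ⟨3, 8, 15, 11⟩⟩) (by decide +kernel)

def tB8_up00 : PosD ⟨⟨0, 1, 1⟩, ⟨98, 99, 147⟩, ⟨300, 1351, 10000⟩, ⟨1200, 1510, 1000⟩⟩ (tB8.hUp false false) :=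
  posD_of_check (c := ⟨427, ⟨3, 8, 15, 11⟩⟩) (by decide +kernel)

def tB8_um00 : PosD ⟨⟨0, 1, 1⟩, ⟨98, 99, 147⟩, ⟨300, 1351, 10000⟩, ⟨1200, 1510, 1000⟩⟩ (tB8.hUm false false) :=
  posD_of_check (c := ⟨427, ⟨3, 8, 15, 11⟩⟩) (by decide +kernel)

def tB8_tmg00 : PosD ⟨⟨0, 1, 1⟩, ⟨98, 99, 147⟩, ⟨300, 1351, 10000⟩, ⟨1200, 1510, 1000⟩⟩ (tB8.hTMG false (tB8.pEnd false)) :=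
  posD_of_check (c := ⟨386, ⟨2, 7, 14, 10⟩⟩) (by decide +kernel)

def tB8_tg01 : PosD ⟨⟨0, 1, 1⟩, ⟨98, 99, 147⟩, ⟨300, 1351, 10000⟩, ⟨1200, 1510, 1000⟩⟩ (tB8.hG true (tB8.pEnd false)) :=
  posD_of_check (c := ⟨372, ⟨2, 7, 14, 9⟩⟩) (by decide +kernel)

def tB8_c2p01 : PosD ⟨⟨0, 1, 1⟩, ⟨98, 99, 147⟩, ⟨300, 1351, 10000⟩, ⟨1200, 1510, 1000⟩⟩ (tB8.hC2p true (tB8.pEnd false)) :=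
  posD_of_check (c := ⟨437, ⟨3, 8, 16, 11⟩⟩) (by decide +kernel)

def tB8_c2m01 : PosD ⟨⟨0, 1, 1⟩, ⟨98, 99, 147⟩, ⟨300, 1351, 10000⟩, ⟨1200, 1510, 1000⟩⟩ (tB8.hC2m true (tB8.pEnd false)) :=
  posD_of_check (c := ⟨438, ⟨3, 8, 16, 11⟩⟩) (by decide +kernel)

def tB8_c3p01 : PosD ⟨⟨0, 1, 1⟩, ⟨98, 99, 147⟩, ⟨300, 1351, 10000⟩, ⟨1200, 1510, 1000⟩⟩ (tB8.hC3p false true) :=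
  posD_of_check (c := ⟨428, ⟨3, 8, 15, 11⟩⟩) (by decide +kernel)

def tB8_c3m01 : PosD ⟨⟨0, 1, 1⟩, ⟨98, 99, 147⟩, ⟨300, 1351, 10000⟩, ⟨1200, 1510, 1000⟩⟩ (tB8.hC3m false true) :=
  posD_of_check (c := ⟨428, ⟨3, 8, 15, 11⟩⟩) (by decide +kernel)

def tB8_c3ph01 : PosD ⟨⟨0, 1, 1⟩, ⟨98, 99, 147⟩, ⟨300, 1351, 10000⟩, ⟨1200, 1510, 1000⟩⟩ (tB8.hC3p' false true) :=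
  posD_of_check (c := ⟨428, ⟨3, 8, 15, 11⟩⟩) (by decide +kernel)

def tB8_c3mh01 : PosD ⟨⟨0, 1, 1⟩, ⟨98, 99, 147⟩, ⟨300, 1351, 10000⟩, ⟨1200, 1510, 1000⟩⟩ (tB8.hC3m' false true) :=
  posD_of_check (c := ⟨428, ⟨3, 8, 15, 11⟩⟩) (by decide +kernel)

def tB8_up01 : PosD ⟨⟨0, 1, 1⟩, ⟨98, 99, 147⟩, ⟨300, 1351, 10000⟩, ⟨1200, 1510, 1000⟩⟩ (tB8.hUp false true) :=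
  posD_of_check (c := ⟨427, ⟨3, 8, 15, 11⟩⟩) (by decide +kernel)

def tB8_um01 : PosD ⟨⟨0, 1, 1⟩, ⟨98, 99, 147⟩, ⟨300, 1351, 10000⟩, ⟨1200, 1510, 1000⟩⟩ (tB8.hUm false true) :=
  posD_of_check (c := ⟨427, ⟨3, 8, 15, 11⟩⟩) (by decide +kernel)

def tB8_tmg01 : PosD ⟨⟨0, 1, 1⟩, ⟨98, 99, 147⟩, ⟨300, 1351, 10000⟩, ⟨1200, 1510, 1000⟩⟩ (tB8.hTMG true (tB8.pEnd false)) :=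
  posD_of_check (c := ⟨386, ⟨2, 7, 14, 10⟩⟩) (by decide +kernel)

def tB8_kap1 : PosD ⟨⟨0, 1, 1⟩, ⟨98, 99, 147⟩, ⟨300, 1351, 10000⟩, ⟨1200, 1510, 1000⟩⟩ (tB8.kap true) :=
  posD_of_check (c := ⟨66, ⟨1, 1, 2, 2⟩⟩) (by decide +kernel)

def tB8_c11 : PosD ⟨⟨0, 1, 1⟩, ⟨98, 99, 147⟩, ⟨300, 1351, 10000⟩, ⟨1200, 1510, 1000⟩⟩ (tB8.hC1 true) :=
  posD_of_check (c := ⟨263, ⟨3, 5, 9, 7⟩⟩) (by decide +kernel)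

def tB8_c1h1 : PosD ⟨⟨0, 1, 1⟩, ⟨98, 99, 147⟩, ⟨300, 1351, 10000⟩, ⟨1200, 1510, 1000⟩⟩ (tB8.hC1' true) :=
  posD_of_check (c := ⟨263, ⟨3, 5, 9, 7⟩⟩) (by decide +kernel)

def tB8_tg10 : PosD ⟨⟨0, 1, 1⟩, ⟨98, 99, 147⟩, ⟨300, 1351, 10000⟩, ⟨1200, 1510, 1000⟩⟩ (tB8.hG false (tB8.pEnd true)) :=
  posD_of_check (c := ⟨371, ⟨2, 7, 14, 9⟩⟩) (by decide +kernel)

def tB8_c2p10 : PosD ⟨⟨0, 1, 1⟩, ⟨98, 99, 147⟩, ⟨300, 1351, 10000⟩, ⟨1200, 1510, 1000⟩⟩ (tB8.hC2p false (tB8.pEnd true)) :=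
  posD_of_check (c := ⟨437, ⟨3, 8, 16, 11⟩⟩) (by decide +kernel)

def tB8_c2m10 : PosD ⟨⟨0, 1, 1⟩, ⟨98, 99, 147⟩, ⟨300, 1351, 10000⟩, ⟨1200, 1510, 1000⟩⟩ (tB8.hC2m false (tB8.pEnd true)) :=
  posD_of_check (c := ⟨438, ⟨3, 8, 16, 11⟩⟩) (by decide +kernel)

def tB8_c3p10 : PosD ⟨⟨0, 1, 1⟩, ⟨98, 99, 147⟩, ⟨300, 1351, 10000⟩, ⟨1200, 1510, 1000⟩⟩ (tB8.hC3p true false) :=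
  posD_of_check (c := ⟨428, ⟨3, 8, 15, 11⟩⟩) (by decide +kernel)

def tB8_c3m10 : PosD ⟨⟨0, 1, 1⟩, ⟨98, 99, 147⟩, ⟨300, 1351, 10000⟩, ⟨1200, 1510, 1000⟩⟩ (tB8.hC3m true false) :=
  posD_of_check (c := ⟨428, ⟨3, 8, 15, 11⟩⟩) (by decide +kernel)

def tB8_c3ph10 : PosD ⟨⟨0, 1, 1⟩, ⟨98, 99, 147⟩, ⟨300, 1351, 10000⟩, ⟨1200, 1510, 1000⟩⟩ (tB8.hC3p' true false) :=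
  posD_of_check (c := ⟨428, ⟨3, 8, 15, 11⟩⟩) (by decide +kernel)

def tB8_c3mh10 : PosD ⟨⟨0, 1, 1⟩, ⟨98, 99, 147⟩, ⟨300, 1351, 10000⟩, ⟨1200, 1510, 1000⟩⟩ (tB8.hC3m' true false) :=
  posD_of_check (c := ⟨428, ⟨3, 8, 15, 11⟩⟩) (by decide +kernel)

def tB8_up10 : PosD ⟨⟨0, 1, 1⟩, ⟨98, 99, 147⟩, ⟨300, 1351, 10000⟩, ⟨1200, 1510, 1000⟩⟩ (tB8.hUp true false) :=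
  posD_of_check (c := ⟨427, ⟨3, 8, 15, 11⟩⟩) (by decide +kernel)

def tB8_um10 : PosD ⟨⟨0, 1, 1⟩, ⟨98, 99, 147⟩, ⟨300, 1351, 10000⟩, ⟨1200, 1510, 1000⟩⟩ (tB8.hUm true false) :=
  posD_of_check (c := ⟨427, ⟨3, 8, 15, 11⟩⟩) (by decide +kernel)

def tB8_tmg10 : PosD ⟨⟨0, 1, 1⟩, ⟨98, 99, 147⟩, ⟨300, 1351, 10000⟩, ⟨1200, 1510, 1000⟩⟩ (tB8.hTMG false (tB8.pEnd true)) :=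
  posD_of_check (c := ⟨386, ⟨2, 7, 14, 10⟩⟩) (by decide +kernel)

def tB8_tg11 : PosD ⟨⟨0, 1, 1⟩, ⟨98, 99, 147⟩, ⟨300, 1351, 10000⟩, ⟨1200, 1510, 1000⟩⟩ (tB8.hG true (tB8.pEnd true)) :=
  posD_of_check (c := ⟨371, ⟨2, 7, 14, 9⟩⟩) (by decide +kernel)

def tB8_c2p11 : PosD ⟨⟨0, 1, 1⟩, ⟨98, 99, 147⟩, ⟨300, 1351, 10000⟩, ⟨1200, 1510, 1000⟩⟩ (tB8.hC2p true (tB8.pEnd true)) :=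
  posD_of_check (c := ⟨437, ⟨3, 8, 16, 11⟩⟩) (by decide +kernel)

def tB8_c2m11 : PosD ⟨⟨0, 1, 1⟩, ⟨98, 99, 147⟩, ⟨300, 1351, 10000⟩, ⟨1200, 1510, 1000⟩⟩ (tB8.hC2m true (tB8.pEnd true)) :=
  posD_of_check (c := ⟨438, ⟨3, 8, 16, 11⟩⟩) (by decide +kernel)

def tB8_c3p11 : PosD ⟨⟨0, 1, 1⟩, ⟨98, 99, 147⟩, ⟨300, 1351, 10000⟩, ⟨1200, 1510, 1000⟩⟩ (tB8.hC3p true true) :=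
  posD_of_check (c := ⟨428, ⟨3, 8, 15, 11⟩⟩) (by decide +kernel)

def tB8_c3m11 : PosD ⟨⟨0, 1, 1⟩, ⟨98, 99, 147⟩, ⟨300, 1351, 10000⟩, ⟨1200, 1510, 1000⟩⟩ (tB8.hC3m true true) :=
  posD_of_check (c := ⟨428, ⟨3, 8, 15, 11⟩⟩) (by decide +kernel)

def tB8_c3ph11 : PosD ⟨⟨0, 1, 1⟩, ⟨98, 99, 147⟩, ⟨300, 1351, 10000⟩, ⟨1200, 1510, 1000⟩⟩ (tB8.hC3p' true true) :=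
  posD_of_check (c := ⟨428, ⟨3, 8, 15, 11⟩⟩) (by decide +kernel)

def tB8_c3mh11 : PosD ⟨⟨0, 1, 1⟩, ⟨98, 99, 147⟩, ⟨300, 1351, 10000⟩, ⟨1200, 1510, 1000⟩⟩ (tB8.hC3m' true true) :=
  posD_of_check (c := ⟨428, ⟨3, 8, 15, 11⟩⟩) (by decide +kernel)

def tB8_up11 : PosD ⟨⟨0, 1, 1⟩, ⟨98, 99, 147⟩, ⟨300, 1351, 10000⟩, ⟨1200, 1510, 1000⟩⟩ (tB8.hUp true true) :=
  posD_of_check (c := ⟨427, ⟨3, 8, 15, 11⟩⟩) (by decide +kernel)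

def tB8_um11 : PosD ⟨⟨0, 1, 1⟩, ⟨98, 99, 147⟩, ⟨300, 1351, 10000⟩, ⟨1200, 1510, 1000⟩⟩ (tB8.hUm true true) :=
  posD_of_check (c := ⟨427, ⟨3, 8, 15, 11⟩⟩) (by decide +kernel)

def tB8_tmg11 : PosD ⟨⟨0, 1, 1⟩, ⟨98, 99, 147⟩, ⟨300, 1351, 10000⟩, ⟨1200, 1510, 1000⟩⟩ (tB8.hTMG true (tB8.pEnd true)) :=
  posD_of_check (c := ⟨386, ⟨2, 7, 14, 10⟩⟩) (by decide +kernel)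

/-- The signs of the piece. -/
def tB8_sign : tB8.Sign ⟨⟨0, 1, 1⟩, ⟨98, 99, 147⟩, ⟨300, 1351, 10000⟩, ⟨1200, 1510, 1000⟩⟩ :=
  ⟨tB8_pp,
    tB8_k2p,
    tB8_k2m,
    Bool.forall_bool.2 ⟨(Bool.forall_bool.2 ⟨tB8_tg00, tB8_tg01⟩), (Bool.forall_bool.2 ⟨tB8_tg10, tB8_tg11⟩)⟩,
    Bool.forall_bool.2 ⟨(Bool.forall_bool.2 ⟨tB8_c2p00, tB8_c2p01⟩), (Bool.forall_bool.2 ⟨tB8_c2p10, tB8_c2p11⟩)⟩,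
    Bool.forall_bool.2 ⟨(Bool.forall_bool.2 ⟨tB8_c2m00, tB8_c2m01⟩), (Bool.forall_bool.2 ⟨tB8_c2m10, tB8_c2m11⟩)⟩,
    Bool.forall_bool.2 ⟨tB8_kap0, tB8_kap1⟩,
    Bool.forall_bool.2 ⟨tB8_c10, tB8_c11⟩,
    Bool.forall_bool.2 ⟨(Bool.forall_bool.2 ⟨tB8_c3p00, tB8_c3p01⟩), (Bool.forall_bool.2 ⟨tB8_c3p10, tB8_c3p11⟩)⟩,
    Bool.forall_bool.2 ⟨(Bool.forall_bool.2 ⟨tB8_c3m00, tB8_c3m01⟩), (Bool.forall_bool.2 ⟨tB8_c3m10, tB8_c3m11⟩)⟩,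
    Bool.forall_bool.2 ⟨(Bool.forall_bool.2 ⟨tB8_tmg00, tB8_tmg01⟩), (Bool.forall_bool.2 ⟨tB8_tmg10, tB8_tmg11⟩)⟩,
    .inr (Bool.forall_bool.2 ⟨⟨tB8_c1h0, Bool.forall_bool.2 ⟨⟨tB8_c3ph00, tB8_c3mh00, tB8_up00, tB8_um00⟩, ⟨tB8_c3ph01, tB8_c3mh01, tB8_up01, tB8_um01⟩⟩⟩, ⟨tB8_c1h1, Bool.forall_bool.2 ⟨⟨tB8_c3ph10, tB8_c3mh10, tB8_up10, tB8_um10⟩, ⟨tB8_c3ph11, tB8_c3mh11, tB8_up11, tB8_um11⟩⟩⟩⟩),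
    tB8_v2p,
    tB8_v2m,
    tB8_v3p,
    tB8_v3m,
    posD_sub (b := ⟨⟨0, 1, 1⟩, ⟨98, 99, 147⟩, ⟨300, 1351, 10000⟩, ⟨290, 4000, 1000⟩⟩) (by decide +kernel) tB_vG,
    posD_sub (b := ⟨⟨0, 1, 1⟩, ⟨98, 99, 147⟩, ⟨300, 1351, 10000⟩, ⟨290, 4000, 1000⟩⟩) (by decide +kernel) tB_vMG,
    posD_sub (b := ⟨⟨0, 1, 1⟩, ⟨98, 99, 147⟩, ⟨300, 1351, 10000⟩, ⟨290, 4000, 1000⟩⟩) (by decide +kernel) tB_ak,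
    posD_sub (b := ⟨⟨0, 1, 1⟩, ⟨98, 99, 147⟩, ⟨300, 1351, 10000⟩, ⟨290, 4000, 1000⟩⟩) (by decide +kernel) tB_aw,
    posD_sub (b := ⟨⟨0, 1, 1⟩, ⟨98, 99, 147⟩, ⟨300, 1351, 10000⟩, ⟨290, 4000, 1000⟩⟩) (by decide +kernel) tB_gk,
    posD_sub (b := ⟨⟨0, 1, 1⟩, ⟨98, 99, 147⟩, ⟨300, 1351, 10000⟩, ⟨290, 4000, 1000⟩⟩) (by decide +kernel) tB_gw,
    posD_sub (b := ⟨⟨0, 1, 1⟩, ⟨98, 99, 147⟩, ⟨300, 1351, 10000⟩, ⟨290, 4000, 1000⟩⟩) (by decide +kernel) tB_ek,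
    posD_sub (b := ⟨⟨0, 1, 1⟩, ⟨98, 99, 147⟩, ⟨300, 1351, 10000⟩, ⟨290, 4000, 1000⟩⟩) (by decide +kernel) tB_ew⟩

end Vale.Agent.P100.Calib.Closed.Six.Tail
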