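import Vale.Agent.P100.Calib.SlabSixTailDataB
import Vale.Agent.P100.Calib.SlabSixTailGlobB

/-!
# Checks of some pieces of the certificate

The checks are written as definitions so that they run one after another, which keeps the memory of the
kernel low.
-/

set_option linter.defProp false

namespace Vale.Agent.P100.Calib.Closed.Six.Tail

open BoxPos Large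

local instance sixTailCheckstB6Add : Add Ex := ⟨Ex.add⟩
local instance sixTailCheckstB6Sub : Sub Ex := ⟨Ex.sub⟩
local instance sixTailCheckstB6Mul : Mul Ex := ⟨Ex.mul⟩

def tB9_phxa : PosIf ⟨⟨0, 1, 1⟩, ⟨98, 99, 147⟩, ⟨300, 825, 10000⟩, ⟨1510, 1900, 1000⟩⟩ (tB9.u₁ - tB9Lo) (phBn (tB9.u₁ + xO * (tB9Lo - tB9.u₁))) :=
  posIf_of_posD (posD_of_check (c := ⟨100, ⟨2, 0, 4, 2⟩⟩) (by decide +kernel))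

def tB9_phxb : PosIf ⟨⟨0, 1, 1⟩, ⟨98, 99, 147⟩, ⟨825, 1351, 10000⟩, ⟨1510, 1900, 1000⟩⟩ (tB9.u₁ - tB9Lo) (phBn (tB9.u₁ + xO * (tB9Lo - tB9.u₁))) :=
  posIf_of_posD (posD_of_check (c := ⟨101, ⟨2, 0, 4, 2⟩⟩) (by decide +kernel))

def tB9_phx : PosIf ⟨⟨0, 1, 1⟩, ⟨98, 99, 147⟩, ⟨300, 1351, 10000⟩, ⟨1510, 1900, 1000⟩⟩ (tB9.u₁ - tB9Lo) (phBn (tB9.u₁ + xO * (tB9Lo - tB9.u₁))) :=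
  posIf_join₂ tB9_phxa tB9_phxb

def tB9_phd : PosD ⟨⟨0, 1, 1⟩, ⟨98, 99, 147⟩, ⟨300, 1351, 10000⟩, ⟨1510, 1900, 1000⟩⟩ (phBd (tB9.u₁ + xO * (tB9Lo - tB9.u₁))) :=
  posD_of_check (c := ⟨48, ⟨1, 0, 2, 1⟩⟩) (by decide +kernel)

def tB9_p0a : PosD ⟨⟨0, 1, 1⟩, ⟨98, 99, 147⟩, ⟨300, 825, 10000⟩, ⟨1510, 1900, 1000⟩⟩ (tB9.hP0) :=
  posD_of_check (c := ⟨81, ⟨0, 2, 3, 1⟩⟩) (by decide +kernel)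

def tB9_p0b : PosD ⟨⟨0, 1, 1⟩, ⟨98, 99, 147⟩, ⟨825, 1351, 10000⟩, ⟨1510, 1900, 1000⟩⟩ (tB9.hP0) :=
  posD_of_check (c := ⟨82, ⟨0, 2, 3, 1⟩⟩) (by decide +kernel)

def tB9_p0 : PosD ⟨⟨0, 1, 1⟩, ⟨98, 99, 147⟩, ⟨300, 1351, 10000⟩, ⟨1510, 1900, 1000⟩⟩ (tB9.hP0) :=
  posD_join₂ tB9_p0a tB9_p0b

def tB9_gn : PosD ⟨⟨0, 1, 1⟩, ⟨98, 99, 147⟩, ⟨300, 1351, 10000⟩, ⟨1510, 1900, 1000⟩⟩ (tB9.hGn) :=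
  posD_of_check (c := ⟨65, ⟨1, 1, 2, 2⟩⟩) (by decide +kernel)

def tB9_den0 : PosD ⟨⟨0, 1, 1⟩, ⟨98, 99, 147⟩, ⟨300, 1351, 10000⟩, ⟨1510, 1900, 1000⟩⟩ (tB9.hDen false) :=
  posD_of_check (c := ⟨48, ⟨1, 0, 2, 1⟩⟩) (by decide +kernel)

def tB9_den1 : PosD ⟨⟨0, 1, 1⟩, ⟨98, 99, 147⟩, ⟨300, 1351, 10000⟩, ⟨1510, 1900, 1000⟩⟩ (tB9.hDen true) :=
  posD_of_check (c := ⟨48, ⟨1, 0, 2, 1⟩⟩) (by decide +kernel)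

def tB9_ev0 : PosD ⟨⟨0, 1, 1⟩, ⟨98, 99, 147⟩, ⟨300, 1351, 10000⟩, ⟨1510, 1900, 1000⟩⟩ (tB9.hEv false) :=
  posD_of_check (c := ⟨205, ⟨4, 2, 8, 4⟩⟩) (by decide +kernel)

def tB9_zL0 : PosD ⟨⟨0, 1, 1⟩, ⟨98, 99, 147⟩, ⟨300, 1351, 10000⟩, ⟨1510, 1900, 1000⟩⟩ (tB9.hZL false) :=
  posD_of_check (c := ⟨208, ⟨4, 3, 8, 4⟩⟩) (by decide +kernel)

def tB9_zU0a : PosD ⟨⟨0, 1, 1⟩, ⟨98, 99, 147⟩, ⟨300, 825, 10000⟩, ⟨1510, 1900, 1000⟩⟩ (tB9.hZU false) :=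
  posD_of_check (c := ⟨208, ⟨4, 3, 8, 4⟩⟩) (by decide +kernel)

def tB9_zU0b : PosD ⟨⟨0, 1, 1⟩, ⟨98, 99, 147⟩, ⟨825, 1351, 10000⟩, ⟨1510, 1900, 1000⟩⟩ (tB9.hZU false) :=
  posD_of_check (c := ⟨209, ⟨4, 3, 8, 4⟩⟩) (by decide +kernel)

def tB9_zU0 : PosD ⟨⟨0, 1, 1⟩, ⟨98, 99, 147⟩, ⟨300, 1351, 10000⟩, ⟨1510, 1900, 1000⟩⟩ (tB9.hZU false) :=
  posD_join₂ tB9_zU0a tB9_zU0b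

def tB9_eL0 : PosD ⟨⟨0, 1, 1⟩, ⟨98, 99, 147⟩, ⟨300, 1351, 10000⟩, ⟨1510, 1900, 1000⟩⟩ (tB9.hEL false) :=
  posD_of_check (c := ⟨298, ⟨5, 6, 11, 6⟩⟩) (by decide +kernel)

def tB9_eH0 : PosD ⟨⟨0, 1, 1⟩, ⟨98, 99, 147⟩, ⟨300, 1351, 10000⟩, ⟨1510, 1900, 1000⟩⟩ (tB9.hEH false) :=
  posD_of_check (c := ⟨311, ⟨5, 6, 11, 6⟩⟩) (by decide +kernel)

def tB9_pL0 : PosD ⟨⟨0, 1, 1⟩, ⟨98, 99, 147⟩, ⟨300, 1351, 10000⟩, ⟨1510, 1900, 1000⟩⟩ (tB9.hPL false) :=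
  posD_of_check (c := ⟨323, ⟨5, 6, 11, 7⟩⟩) (by decide +kernel)

def tB9_pU0 : PosD ⟨⟨0, 1, 1⟩, ⟨98, 99, 147⟩, ⟨300, 1351, 10000⟩, ⟨1510, 1900, 1000⟩⟩ (tB9.hPU false) :=
  posD_of_check (c := ⟨323, ⟨5, 6, 11, 7⟩⟩) (by decide +kernel)

def tB9_kU0a : PosD ⟨⟨0, 1, 1⟩, ⟨98, 99, 147⟩, ⟨300, 825, 10000⟩, ⟨1510, 1900, 1000⟩⟩ (tB9.hKU false) :=
  posD_of_check (c := ⟨318, ⟨5, 6, 11, 7⟩⟩) (by decide +kernel)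

def tB9_kU0b : PosD ⟨⟨0, 1, 1⟩, ⟨98, 99, 147⟩, ⟨825, 1351, 10000⟩, ⟨1510, 1900, 1000⟩⟩ (tB9.hKU false) :=
  posD_of_check (c := ⟨320, ⟨5, 6, 11, 7⟩⟩) (by decide +kernel)

def tB9_kU0 : PosD ⟨⟨0, 1, 1⟩, ⟨98, 99, 147⟩, ⟨300, 1351, 10000⟩, ⟨1510, 1900, 1000⟩⟩ (tB9.hKU false) :=
  posD_join₂ tB9_kU0a tB9_kU0b

def tB9_kL0a : PosD ⟨⟨0, 1, 1⟩, ⟨98, 99, 147⟩, ⟨300, 825, 10000⟩, ⟨1510, 1900, 1000⟩⟩ (tB9.hKL false) :=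
  posD_of_check (c := ⟨318, ⟨5, 6, 11, 7⟩⟩) (by decide +kernel)

def tB9_kL0b : PosD ⟨⟨0, 1, 1⟩, ⟨98, 99, 147⟩, ⟨825, 1351, 10000⟩, ⟨1510, 1900, 1000⟩⟩ (tB9.hKL false) :=
  posD_of_check (c := ⟨320, ⟨5, 6, 11, 7⟩⟩) (by decide +kernel)

def tB9_kL0 : PosD ⟨⟨0, 1, 1⟩, ⟨98, 99, 147⟩, ⟨300, 1351, 10000⟩, ⟨1510, 1900, 1000⟩⟩ (tB9.hKL false) :=
  posD_join₂ tB9_kL0a tB9_kL0b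

def tB9_wU0 : PosD ⟨⟨0, 1, 1⟩, ⟨98, 99, 147⟩, ⟨300, 1351, 10000⟩, ⟨1510, 1900, 1000⟩⟩ (tB9.hWU false) :=
  posD_of_check (c := ⟨354, ⟨5, 8, 12, 7⟩⟩) (by decide +kernel)

def tB9_wL0 : PosD ⟨⟨0, 1, 1⟩, ⟨98, 99, 147⟩, ⟨300, 1351, 10000⟩, ⟨1510, 1900, 1000⟩⟩ (tB9.hWL false) :=
  posD_of_check (c := ⟨354, ⟨5, 8, 12, 7⟩⟩) (by decide +kernel)

def tB9_ev1 : PosD ⟨⟨0, 1, 1⟩, ⟨98, 99, 147⟩, ⟨300, 1351, 10000⟩, ⟨1510, 1900, 1000⟩⟩ (tB9.hEv true) :=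
  posD_of_check (c := ⟨204, ⟨4, 2, 8, 4⟩⟩) (by decide +kernel)

def tB9_zL1aa : PosD ⟨⟨0, 1, 1⟩, ⟨98, 99, 147⟩, ⟨300, 562, 10000⟩, ⟨1510, 1900, 1000⟩⟩ (tB9.hZL true) :=
  posD_of_check (c := ⟨207, ⟨4, 3, 8, 4⟩⟩) (by decide +kernel)

def tB9_zL1ab : PosD ⟨⟨0, 1, 1⟩, ⟨98, 99, 147⟩, ⟨562, 825, 10000⟩, ⟨1510, 1900, 1000⟩⟩ (tB9.hZL true) :=
  posD_of_check (c := ⟨208, ⟨4, 3, 8, 4⟩⟩) (by decide +kernel)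

def tB9_zL1a : PosD ⟨⟨0, 1, 1⟩, ⟨98, 99, 147⟩, ⟨300, 825, 10000⟩, ⟨1510, 1900, 1000⟩⟩ (tB9.hZL true) :=
  posD_join₂ tB9_zL1aa tB9_zL1ab

def tB9_zL1b : PosD ⟨⟨0, 1, 1⟩, ⟨98, 99, 147⟩, ⟨825, 1351, 10000⟩, ⟨1510, 1900, 1000⟩⟩ (tB9.hZL true) :=
  posD_of_check (c := ⟨208, ⟨4, 3, 8, 4⟩⟩) (by decide +kernel)

def tB9_zL1 : PosD ⟨⟨0, 1, 1⟩, ⟨98, 99, 147⟩, ⟨300, 1351, 10000⟩, ⟨1510, 1900, 1000⟩⟩ (tB9.hZL true) :=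
  posD_join₂ tB9_zL1a tB9_zL1b

def tB9_zU1 : PosD ⟨⟨0, 1, 1⟩, ⟨98, 99, 147⟩, ⟨300, 1351, 10000⟩, ⟨1510, 1900, 1000⟩⟩ (tB9.hZU true) :=
  posD_of_check (c := ⟨208, ⟨4, 3, 8, 4⟩⟩) (by decide +kernel)

def tB9_eL1 : PosD ⟨⟨0, 1, 1⟩, ⟨98, 99, 147⟩, ⟨300, 1351, 10000⟩, ⟨1510, 1900, 1000⟩⟩ (tB9.hEL true) :=
  posD_of_check (c := ⟨297, ⟨5, 6, 11, 6⟩⟩) (by decide +kernel)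

def tB9_eH1 : PosD ⟨⟨0, 1, 1⟩, ⟨98, 99, 147⟩, ⟨300, 1351, 10000⟩, ⟨1510, 1900, 1000⟩⟩ (tB9.hEH true) :=
  posD_of_check (c := ⟨310, ⟨5, 6, 11, 6⟩⟩) (by decide +kernel)

def tB9_pL1 : PosD ⟨⟨0, 1, 1⟩, ⟨98, 99, 147⟩, ⟨300, 1351, 10000⟩, ⟨1510, 1900, 1000⟩⟩ (tB9.hPL true) :=
  posD_of_check (c := ⟨322, ⟨5, 6, 11, 7⟩⟩) (by decide +kernel)

def tB9_pU1aa : PosD ⟨⟨0, 1, 2⟩, ⟨98, 99, 147⟩, ⟨300, 825, 10000⟩, ⟨1510, 1900, 1000⟩⟩ (tB9.hPU true) :=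
  posD_of_check (c := ⟨326, ⟨5, 6, 11, 7⟩⟩) (by decide +kernel)

def tB9_pU1ab : PosD ⟨⟨1, 2, 2⟩, ⟨98, 99, 147⟩, ⟨300, 825, 10000⟩, ⟨1510, 1900, 1000⟩⟩ (tB9.hPU true) :=
  posD_of_check (c := ⟨328, ⟨5, 6, 11, 7⟩⟩) (by decide +kernel)

def tB9_pU1a : PosD ⟨⟨0, 1, 1⟩, ⟨98, 99, 147⟩, ⟨300, 825, 10000⟩, ⟨1510, 1900, 1000⟩⟩ (tB9.hPU true) :=
  posD_units (b := ⟨⟨0, 2, 2⟩, ⟨98, 99, 147⟩, ⟨300, 825, 10000⟩, ⟨1510, 1900, 1000⟩⟩) (by decide +kernel) (posD_join₀ tB9_pU1aa tB9_pU1ab)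

def tB9_pU1b : PosD ⟨⟨0, 1, 1⟩, ⟨98, 99, 147⟩, ⟨825, 1351, 10000⟩, ⟨1510, 1900, 1000⟩⟩ (tB9.hPU true) :=
  posD_of_check (c := ⟨323, ⟨5, 6, 11, 7⟩⟩) (by decide +kernel)

def tB9_pU1 : PosD ⟨⟨0, 1, 1⟩, ⟨98, 99, 147⟩, ⟨300, 1351, 10000⟩, ⟨1510, 1900, 1000⟩⟩ (tB9.hPU true) :=
  posD_join₂ tB9_pU1a tB9_pU1b

def tB9_kU1a : PosD ⟨⟨0, 1, 1⟩, ⟨98, 99, 147⟩, ⟨300, 825, 10000⟩, ⟨1510, 1900, 1000⟩⟩ (tB9.hKU true) :=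
  posD_of_check (c := ⟨318, ⟨5, 6, 11, 7⟩⟩) (by decide +kernel)

def tB9_kU1b : PosD ⟨⟨0, 1, 1⟩, ⟨98, 99, 147⟩, ⟨825, 1351, 10000⟩, ⟨1510, 1900, 1000⟩⟩ (tB9.hKU true) :=
  posD_of_check (c := ⟨319, ⟨5, 6, 11, 7⟩⟩) (by decide +kernel)

def tB9_kU1 : PosD ⟨⟨0, 1, 1⟩, ⟨98, 99, 147⟩, ⟨300, 1351, 10000⟩, ⟨1510, 1900, 1000⟩⟩ (tB9.hKU true) :=
  posD_join₂ tB9_kU1a tB9_kU1b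

def tB9_kL1a : PosD ⟨⟨0, 1, 1⟩, ⟨98, 99, 147⟩, ⟨300, 825, 10000⟩, ⟨1510, 1900, 1000⟩⟩ (tB9.hKL true) :=
  posD_of_check (c := ⟨318, ⟨5, 6, 11, 7⟩⟩) (by decide +kernel)

def tB9_kL1b : PosD ⟨⟨0, 1, 1⟩, ⟨98, 99, 147⟩, ⟨825, 1351, 10000⟩, ⟨1510, 1900, 1000⟩⟩ (tB9.hKL true) :=
  posD_of_check (c := ⟨319, ⟨5, 6, 11, 7⟩⟩) (by decide +kernel)

def tB9_kL1 : PosD ⟨⟨0, 1, 1⟩, ⟨98, 99, 147⟩, ⟨300, 1351, 10000⟩, ⟨1510, 1900, 1000⟩⟩ (tB9.hKL true) :=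
  posD_join₂ tB9_kL1a tB9_kL1b

def tB9_wU1 : PosD ⟨⟨0, 1, 1⟩, ⟨98, 99, 147⟩, ⟨300, 1351, 10000⟩, ⟨1510, 1900, 1000⟩⟩ (tB9.hWU true) :=
  posD_of_check (c := ⟨354, ⟨5, 8, 12, 7⟩⟩) (by decide +kernel)

def tB9_wL1 : PosD ⟨⟨0, 1, 1⟩, ⟨98, 99, 147⟩, ⟨300, 1351, 10000⟩, ⟨1510, 1900, 1000⟩⟩ (tB9.hWL true) :=
  posD_of_check (c := ⟨354, ⟨5, 8, 12, 7⟩⟩) (by decide +kernel)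

def tB9_mueH : PosD ⟨⟨0, 1, 1⟩, ⟨98, 99, 147⟩, ⟨300, 1351, 10000⟩, ⟨1510, 1900, 1000⟩⟩ (tB9.eH.μ) :=
  posD_of_check (c := ⟨12, ⟨0, 0, 0, 0⟩⟩) (by decide +kernel)

/-- The bounds of the piece. -/
def tB9_env : tB9.Env ⟨⟨0, 1, 1⟩, ⟨98, 99, 147⟩, ⟨300, 1351, 10000⟩, ⟨1510, 1900, 1000⟩⟩ :=
  ⟨tB9_p0, Bool.forall_bool.2 ⟨tB9_den0, tB9_den1⟩, tB9_gn, Bool.forall_bool.2 ⟨tB9_ev0, tB9_ev1⟩, Bool.forall_bool.2 ⟨tB9_zL0, tB9_zL1⟩, Bool.forall_bool.2 ⟨tB9_zU0, tB9_zU1⟩, Bool.forall_bool.2 ⟨tB9_eL0, tB9_eL1⟩, ⟨.inr rfl, .inr rfl⟩, Bool.forall_bool.2 ⟨tB9_eH0, tB9_eH1⟩, ⟨.inl tB9_mueH, .inr rfl⟩, Bool.forall_bool.2 ⟨tB9_pL0, tB9_pL1⟩, ⟨.inr rfl, .inr rfl⟩, Bool.forall_bool.2 ⟨tB9_pU0, tB9_pU1⟩, ⟨.inr rfl, .inr rfl⟩, Bool.forall_bool.2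 ⟨tB9_kU0, tB9_kU1⟩, ⟨.inr rfl, .inr rfl⟩, Bool.forall_bool.2 ⟨tB9_kL0, tB9_kL1⟩, ⟨.inr rfl, .inr rfl⟩, Bool.forall_bool.2 ⟨tB9_wU0, tB9_wU1⟩, ⟨.inr rfl, .inr rfl⟩, Bool.forall_bool.2 ⟨tB9_wL0, tB9_wL1⟩, ⟨.inr rfl, .inr rfl⟩⟩

def tB9_pp : PosD ⟨⟨0, 1, 1⟩, ⟨98, 99, 147⟩, ⟨300, 1351, 10000⟩, ⟨1510, 1900, 1000⟩⟩ (tB9.xPL) :=
  posD_of_check (c := ⟨90, ⟨1, 1, 3, 3⟩⟩) (by decide +kernel)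

def tB9_k2p : PosD ⟨⟨0, 1, 1⟩, ⟨98, 99, 147⟩, ⟨300, 1351, 10000⟩, ⟨1510, 1900, 1000⟩⟩ (tB9.k2p tB9.xE) :=
  posD_of_check (c := ⟨65, ⟨1, 1, 2, 2⟩⟩) (by decide +kernel)

def tB9_k2m : PosD ⟨⟨0, 1, 1⟩, ⟨98, 99, 147⟩, ⟨300, 1351, 10000⟩, ⟨1510, 1900, 1000⟩⟩ (tB9.k2m tB9.xE) :=
  posD_of_check (c := ⟨62, ⟨1, 1, 2, 2⟩⟩) (by decide +kernel)

def tB9_v2p : PosD ⟨⟨0, 1, 1⟩, ⟨98, 99, 147⟩, ⟨300, 1351, 10000⟩, ⟨1510, 1900, 1000⟩⟩ (tB9.hV2p) :=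
  posD_of_check (c := ⟨259, ⟨1, 6, 10, 5⟩⟩) (by decide +kernel)

def tB9_v2m : PosD ⟨⟨0, 1, 1⟩, ⟨98, 99, 147⟩, ⟨300, 1351, 10000⟩, ⟨1510, 1900, 1000⟩⟩ (tB9.hV2m) :=
  posD_of_check (c := ⟨258, ⟨1, 6, 10, 5⟩⟩) (by decide +kernel)

def tB9_v3p : PosD ⟨⟨0, 1, 1⟩, ⟨98, 99, 147⟩, ⟨300, 1351, 10000⟩, ⟨1510, 1900, 1000⟩⟩ (tB9.hV3p) :=
  posD_of_check (c := ⟨248, ⟨1, 6, 9, 5⟩⟩) (by decide +kernel)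

def tB9_v3m : PosD ⟨⟨0, 1, 1⟩, ⟨98, 99, 147⟩, ⟨300, 1351, 10000⟩, ⟨1510, 1900, 1000⟩⟩ (tB9.hV3m) :=
  posD_of_check (c := ⟨247, ⟨1, 6, 9, 5⟩⟩) (by decide +kernel)

def tB9_kap0 : PosD ⟨⟨0, 1, 1⟩, ⟨98, 99, 147⟩, ⟨300, 1351, 10000⟩, ⟨1510, 1900, 1000⟩⟩ (tB9.kap false) :=
  posD_of_check (c := ⟨66, ⟨1, 1, 2, 2⟩⟩) (by decide +kernel)

def tB9_c10 : PosD ⟨⟨0, 1, 1⟩, ⟨98, 99, 147⟩, ⟨300, 1351, 10000⟩, ⟨1510, 1900, 1000⟩⟩ (tB9.hC1 false) :=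
  posD_of_check (c := ⟨262, ⟨3, 5, 9, 7⟩⟩) (by decide +kernel)

def tB9_c1h0 : PosD ⟨⟨0, 1, 1⟩, ⟨98, 99, 147⟩, ⟨300, 1351, 10000⟩, ⟨1510, 1900, 1000⟩⟩ (tB9.hC1' false) :=
  posD_of_check (c := ⟨262, ⟨3, 5, 9, 7⟩⟩) (by decide +kernel)

def tB9_tg00 : PosD ⟨⟨0, 1, 1⟩, ⟨98, 99, 147⟩, ⟨300, 1351, 10000⟩, ⟨1510, 1900, 1000⟩⟩ (tB9.hG false (tB9.pEnd false)) :=
  posD_of_check (c := ⟨370, ⟨2, 7, 14, 9⟩⟩) (by decide +kernel)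

def tB9_c2p00 : PosD ⟨⟨0, 1, 1⟩, ⟨98, 99, 147⟩, ⟨300, 1351, 10000⟩, ⟨1510, 1900, 1000⟩⟩ (tB9.hC2p false (tB9.pEnd false)) :=
  posD_of_check (c := ⟨435, ⟨3, 8, 16, 11⟩⟩) (by decide +kernel)

def tB9_c2m00 : PosD ⟨⟨0, 1, 1⟩, ⟨98, 99, 147⟩, ⟨300, 1351, 10000⟩, ⟨1510, 1900, 1000⟩⟩ (tB9.hC2m false (tB9.pEnd false)) :=
  posD_of_check (c := ⟨435, ⟨3, 8, 16, 11⟩⟩) (by decide +kernel)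

def tB9_c3p00 : PosD ⟨⟨0, 1, 1⟩, ⟨98, 99, 147⟩, ⟨300, 1351, 10000⟩, ⟨1510, 1900, 1000⟩⟩ (tB9.hC3p false false) :=
  posD_of_check (c := ⟨427, ⟨3, 8, 15, 11⟩⟩) (by decide +kernel)

def tB9_c3m00 : PosD ⟨⟨0, 1, 1⟩, ⟨98, 99, 147⟩, ⟨300, 1351, 10000⟩, ⟨1510, 1900, 1000⟩⟩ (tB9.hC3m false false) :=
  posD_of_check (c := ⟨427, ⟨3, 8, 15, 11⟩⟩) (by decide +kernel)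

def tB9_c3ph00 : PosD ⟨⟨0, 1, 1⟩, ⟨98, 99, 147⟩, ⟨300, 1351, 10000⟩, ⟨1510, 1900, 1000⟩⟩ (tB9.hC3p' false false) :=
  posD_of_check (c := ⟨427, ⟨3, 8, 15, 11⟩⟩) (by decide +kernel)

def tB9_c3mh00 : PosD ⟨⟨0, 1, 1⟩, ⟨98, 99, 147⟩, ⟨300, 1351, 10000⟩, ⟨1510, 1900, 1000⟩⟩ (tB9.hC3m' false false) :=
  posD_of_check (c := ⟨427, ⟨3, 8, 15, 11⟩⟩) (by decide +kernel)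

def tB9_up00 : PosD ⟨⟨0, 1, 1⟩, ⟨98, 99, 147⟩, ⟨300, 1351, 10000⟩, ⟨1510, 1900, 1000⟩⟩ (tB9.hUp false false) :=
  posD_of_check (c := ⟨426, ⟨3, 8, 15, 11⟩⟩) (by decide +kernel)

def tB9_um00 : PosD ⟨⟨0, 1, 1⟩, ⟨98, 99, 147⟩, ⟨300, 1351, 10000⟩, ⟨1510, 1900, 1000⟩⟩ (tB9.hUm false false) :=
  posD_of_check (c := ⟨426, ⟨3, 8, 15, 11⟩⟩) (by decide +kernel)

def tB9_tmg00 : PosD ⟨⟨0, 1, 1⟩, ⟨98, 99, 147⟩, ⟨300, 1351, 10000⟩, ⟨1510, 1900, 1000⟩⟩ (tB9.hTMG false (tB9.pEnd false)) :=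
  posD_of_check (c := ⟨386, ⟨2, 7, 14, 10⟩⟩) (by decide +kernel)

def tB9_tg01 : PosD ⟨⟨0, 1, 1⟩, ⟨98, 99, 147⟩, ⟨300, 1351, 10000⟩, ⟨1510, 1900, 1000⟩⟩ (tB9.hG true (tB9.pEnd false)) :=
  posD_of_check (c := ⟨370, ⟨2, 7, 14, 9⟩⟩) (by decide +kernel)

def tB9_c2p01 : PosD ⟨⟨0, 1, 1⟩, ⟨98, 99, 147⟩, ⟨300, 1351, 10000⟩, ⟨1510, 1900, 1000⟩⟩ (tB9.hC2p true (tB9.pEnd false)) :=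
  posD_of_check (c := ⟨435, ⟨3, 8, 16, 11⟩⟩) (by decide +kernel)

def tB9_c2m01 : PosD ⟨⟨0, 1, 1⟩, ⟨98, 99, 147⟩, ⟨300, 1351, 10000⟩, ⟨1510, 1900, 1000⟩⟩ (tB9.hC2m true (tB9.pEnd false)) :=
  posD_of_check (c := ⟨435, ⟨3, 8, 16, 11⟩⟩) (by decide +kernel)

def tB9_c3p01 : PosD ⟨⟨0, 1, 1⟩, ⟨98, 99, 147⟩, ⟨300, 1351, 10000⟩, ⟨1510, 1900, 1000⟩⟩ (tB9.hC3p false true) :=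
  posD_of_check (c := ⟨427, ⟨3, 8, 15, 11⟩⟩) (by decide +kernel)

def tB9_c3m01 : PosD ⟨⟨0, 1, 1⟩, ⟨98, 99, 147⟩, ⟨300, 1351, 10000⟩, ⟨1510, 1900, 1000⟩⟩ (tB9.hC3m false true) :=
  posD_of_check (c := ⟨427, ⟨3, 8, 15, 11⟩⟩) (by decide +kernel)

def tB9_c3ph01 : PosD ⟨⟨0, 1, 1⟩, ⟨98, 99, 147⟩, ⟨300, 1351, 10000⟩, ⟨1510, 1900, 1000⟩⟩ (tB9.hC3p' false true) :=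
  posD_of_check (c := ⟨427, ⟨3, 8, 15, 11⟩⟩) (by decide +kernel)

def tB9_c3mh01 : PosD ⟨⟨0, 1, 1⟩, ⟨98, 99, 147⟩, ⟨300, 1351, 10000⟩, ⟨1510, 1900, 1000⟩⟩ (tB9.hC3m' false true) :=
  posD_of_check (c := ⟨427, ⟨3, 8, 15, 11⟩⟩) (by decide +kernel)

def tB9_up01 : PosD ⟨⟨0, 1, 1⟩, ⟨98, 99, 147⟩, ⟨300, 1351, 10000⟩, ⟨1510, 1900, 1000⟩⟩ (tB9.hUp false true) :=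
  posD_of_check (c := ⟨426, ⟨3, 8, 15, 11⟩⟩) (by decide +kernel)

def tB9_um01 : PosD ⟨⟨0, 1, 1⟩, ⟨98, 99, 147⟩, ⟨300, 1351, 10000⟩, ⟨1510, 1900, 1000⟩⟩ (tB9.hUm false true) :=
  posD_of_check (c := ⟨426, ⟨3, 8, 15, 11⟩⟩) (by decide +kernel)

def tB9_tmg01 : PosD ⟨⟨0, 1, 1⟩, ⟨98, 99, 147⟩, ⟨300, 1351, 10000⟩, ⟨1510, 1900, 1000⟩⟩ (tB9.hTMG true (tB9.pEnd false)) :=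
  posD_of_check (c := ⟨386, ⟨2, 7, 14, 10⟩⟩) (by decide +kernel)

def tB9_kap1 : PosD ⟨⟨0, 1, 1⟩, ⟨98, 99, 147⟩, ⟨300, 1351, 10000⟩, ⟨1510, 1900, 1000⟩⟩ (tB9.kap true) :=
  posD_of_check (c := ⟨69, ⟨1, 1, 2, 2⟩⟩) (by decide +kernel)

def tB9_c11a : PosD ⟨⟨0, 1, 1⟩, ⟨98, 99, 147⟩, ⟨300, 1351, 10000⟩, ⟨1510, 1705, 1000⟩⟩ (tB9.hC1 true) :=
  posD_of_check (c := ⟨265, ⟨3, 5, 9, 7⟩⟩) (by decide +kernel)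

def tB9_c11b : PosD ⟨⟨0, 1, 1⟩, ⟨98, 99, 147⟩, ⟨300, 1351, 10000⟩, ⟨1705, 1900, 1000⟩⟩ (tB9.hC1 true) :=
  posD_of_check (c := ⟨265, ⟨3, 5, 9, 7⟩⟩) (by decide +kernel)

def tB9_c11 : PosD ⟨⟨0, 1, 1⟩, ⟨98, 99, 147⟩, ⟨300, 1351, 10000⟩, ⟨1510, 1900, 1000⟩⟩ (tB9.hC1 true) :=
  posD_join₃ tB9_c11a tB9_c11b

def tB9_c1h1 : PosD ⟨⟨0, 1, 1⟩, ⟨98, 99, 147⟩, ⟨300, 1351, 10000⟩, ⟨1510, 1900, 1000⟩⟩ (tB9.hC1' true) :=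
  posD_of_check (c := ⟨265, ⟨3, 5, 9, 7⟩⟩) (by decide +kernel)

def tB9_tg10 : PosD ⟨⟨0, 1, 1⟩, ⟨98, 99, 147⟩, ⟨300, 1351, 10000⟩, ⟨1510, 1900, 1000⟩⟩ (tB9.hG false (tB9.pEnd true)) :=
  posD_of_check (c := ⟨372, ⟨2, 7, 14, 9⟩⟩) (by decide +kernel)

def tB9_c2p10 : PosD ⟨⟨0, 1, 1⟩, ⟨98, 99, 147⟩, ⟨300, 1351, 10000⟩, ⟨1510, 1900, 1000⟩⟩ (tB9.hC2p false (tB9.pEnd true)) :=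
  posD_of_check (c := ⟨437, ⟨3, 8, 16, 11⟩⟩) (by decide +kernel)

def tB9_c2m10 : PosD ⟨⟨0, 1, 1⟩, ⟨98, 99, 147⟩, ⟨300, 1351, 10000⟩, ⟨1510, 1900, 1000⟩⟩ (tB9.hC2m false (tB9.pEnd true)) :=
  posD_of_check (c := ⟨436, ⟨3, 8, 16, 11⟩⟩) (by decide +kernel)

def tB9_c3p10 : PosD ⟨⟨0, 1, 1⟩, ⟨98, 99, 147⟩, ⟨300, 1351, 10000⟩, ⟨1510, 1900, 1000⟩⟩ (tB9.hC3p true false) :=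
  posD_of_check (c := ⟨429, ⟨3, 8, 15, 11⟩⟩) (by decide +kernel)

def tB9_c3m10 : PosD ⟨⟨0, 1, 1⟩, ⟨98, 99, 147⟩, ⟨300, 1351, 10000⟩, ⟨1510, 1900, 1000⟩⟩ (tB9.hC3m true false) :=
  posD_of_check (c := ⟨429, ⟨3, 8, 15, 11⟩⟩) (by decide +kernel)

def tB9_c3ph10 : PosD ⟨⟨0, 1, 1⟩, ⟨98, 99, 147⟩, ⟨300, 1351, 10000⟩, ⟨1510, 1900, 1000⟩⟩ (tB9.hC3p' true false) :=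
  posD_of_check (c := ⟨429, ⟨3, 8, 15, 11⟩⟩) (by decide +kernel)

def tB9_c3mh10 : PosD ⟨⟨0, 1, 1⟩, ⟨98, 99, 147⟩, ⟨300, 1351, 10000⟩, ⟨1510, 1900, 1000⟩⟩ (tB9.hC3m' true false) :=
  posD_of_check (c := ⟨429, ⟨3, 8, 15, 11⟩⟩) (by decide +kernel)

def tB9_up10 : PosD ⟨⟨0, 1, 1⟩, ⟨98, 99, 147⟩, ⟨300, 1351, 10000⟩, ⟨1510, 1900, 1000⟩⟩ (tB9.hUp true false) :=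
  posD_of_check (c := ⟨427, ⟨3, 8, 15, 11⟩⟩) (by decide +kernel)

def tB9_um10 : PosD ⟨⟨0, 1, 1⟩, ⟨98, 99, 147⟩, ⟨300, 1351, 10000⟩, ⟨1510, 1900, 1000⟩⟩ (tB9.hUm true false) :=
  posD_of_check (c := ⟨427, ⟨3, 8, 15, 11⟩⟩) (by decide +kernel)

def tB9_tmg10 : PosD ⟨⟨0, 1, 1⟩, ⟨98, 99, 147⟩, ⟨300, 1351, 10000⟩, ⟨1510, 1900, 1000⟩⟩ (tB9.hTMG false (tB9.pEnd true)) :=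
  posD_of_check (c := ⟨386, ⟨2, 7, 14, 10⟩⟩) (by decide +kernel)

def tB9_tg11 : PosD ⟨⟨0, 1, 1⟩, ⟨98, 99, 147⟩, ⟨300, 1351, 10000⟩, ⟨1510, 1900, 1000⟩⟩ (tB9.hG true (tB9.pEnd true)) :=
  posD_of_check (c := ⟨372, ⟨2, 7, 14, 9⟩⟩) (by decide +kernel)

def tB9_c2p11 : PosD ⟨⟨0, 1, 1⟩, ⟨98, 99, 147⟩, ⟨300, 1351, 10000⟩, ⟨1510, 1900, 1000⟩⟩ (tB9.hC2p true (tB9.pEnd true)) :=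
  posD_of_check (c := ⟨437, ⟨3, 8, 16, 11⟩⟩) (by decide +kernel)

def tB9_c2m11 : PosD ⟨⟨0, 1, 1⟩, ⟨98, 99, 147⟩, ⟨300, 1351, 10000⟩, ⟨1510, 1900, 1000⟩⟩ (tB9.hC2m true (tB9.pEnd true)) :=
  posD_of_check (c := ⟨436, ⟨3, 8, 16, 11⟩⟩) (by decide +kernel)

def tB9_c3p11 : PosD ⟨⟨0, 1, 1⟩, ⟨98, 99, 147⟩, ⟨300, 1351, 10000⟩, ⟨1510, 1900, 1000⟩⟩ (tB9.hC3p true true) :=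
  posD_of_check (c := ⟨429, ⟨3, 8, 15, 11⟩⟩) (by decide +kernel)

def tB9_c3m11 : PosD ⟨⟨0, 1, 1⟩, ⟨98, 99, 147⟩, ⟨300, 1351, 10000⟩, ⟨1510, 1900, 1000⟩⟩ (tB9.hC3m true true) :=
  posD_of_check (c := ⟨429, ⟨3, 8, 15, 11⟩⟩) (by decide +kernel)

def tB9_c3ph11 : PosD ⟨⟨0, 1, 1⟩, ⟨98, 99, 147⟩, ⟨300, 1351, 10000⟩, ⟨1510, 1900, 1000⟩⟩ (tB9.hC3p' true true) :=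
  posD_of_check (c := ⟨429, ⟨3, 8, 15, 11⟩⟩) (by decide +kernel)

def tB9_c3mh11 : PosD ⟨⟨0, 1, 1⟩, ⟨98, 99, 147⟩, ⟨300, 1351, 10000⟩, ⟨1510, 1900, 1000⟩⟩ (tB9.hC3m' true true) :=
  posD_of_check (c := ⟨429, ⟨3, 8, 15, 11⟩⟩) (by decide +kernel)

def tB9_up11 : PosD ⟨⟨0, 1, 1⟩, ⟨98, 99, 147⟩, ⟨300, 1351, 10000⟩, ⟨1510, 1900, 1000⟩⟩ (tB9.hUp true true) :=
  posD_of_check (c := ⟨427, ⟨3, 8, 15, 11⟩⟩) (by decide +kernel)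

def tB9_um11 : PosD ⟨⟨0, 1, 1⟩, ⟨98, 99, 147⟩, ⟨300, 1351, 10000⟩, ⟨1510, 1900, 1000⟩⟩ (tB9.hUm true true) :=
  posD_of_check (c := ⟨427, ⟨3, 8, 15, 11⟩⟩) (by decide +kernel)

def tB9_tmg11 : PosD ⟨⟨0, 1, 1⟩, ⟨98, 99, 147⟩, ⟨300, 1351, 10000⟩, ⟨1510, 1900, 1000⟩⟩ (tB9.hTMG true (tB9.pEnd true)) :=
  posD_of_check (c := ⟨386, ⟨2, 7, 14, 10⟩⟩) (by decide +kernel)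

/-- The signs of the piece. -/
def tB9_sign : tB9.Sign ⟨⟨0, 1, 1⟩, ⟨98, 99, 147⟩, ⟨300, 1351, 10000⟩, ⟨1510, 1900, 1000⟩⟩ :=
  ⟨tB9_pp,
    tB9_k2p,
    tB9_k2m,
    Bool.forall_bool.2 ⟨(Bool.forall_bool.2 ⟨tB9_tg00, tB9_tg01⟩), (Bool.forall_bool.2 ⟨tB9_tg10, tB9_tg11⟩)⟩,
    Bool.forall_bool.2 ⟨(Bool.forall_bool.2 ⟨tB9_c2p00, tB9_c2p01⟩), (Bool.forall_bool.2 ⟨tB9_c2p10, tB9_c2p11⟩)⟩,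
    Bool.forall_bool.2 ⟨(Bool.forall_bool.2 ⟨tB9_c2m00, tB9_c2m01⟩), (Bool.forall_bool.2 ⟨tB9_c2m10, tB9_c2m11⟩)⟩,
    Bool.forall_bool.2 ⟨tB9_kap0, tB9_kap1⟩,
    Bool.forall_bool.2 ⟨tB9_c10, tB9_c11⟩,
    Bool.forall_bool.2 ⟨(Bool.forall_bool.2 ⟨tB9_c3p00, tB9_c3p01⟩), (Bool.forall_bool.2 ⟨tB9_c3p10, tB9_c3p11⟩)⟩,
    Bool.forall_bool.2 ⟨(Bool.forall_bool.2 ⟨tB9_c3m00, tB9_c3m01⟩), (Bool.forall_bool.2 ⟨tB9_c3m10, tB9_c3m11⟩)⟩,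
    Bool.forall_bool.2 ⟨(Bool.forall_bool.2 ⟨tB9_tmg00, tB9_tmg01⟩), (Bool.forall_bool.2 ⟨tB9_tmg10, tB9_tmg11⟩)⟩,
    .inr (Bool.forall_bool.2 ⟨⟨tB9_c1h0, Bool.forall_bool.2 ⟨⟨tB9_c3ph00, tB9_c3mh00, tB9_up00, tB9_um00⟩, ⟨tB9_c3ph01, tB9_c3mh01, tB9_up01, tB9_um01⟩⟩⟩, ⟨tB9_c1h1, Bool.forall_bool.2 ⟨⟨tB9_c3ph10, tB9_c3mh10, tB9_up10, tB9_um10⟩, ⟨tB9_c3ph11, tB9_c3mh11, tB9_up11, tB9_um11⟩⟩⟩⟩),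
    tB9_v2p,
    tB9_v2m,
    tB9_v3p,
    tB9_v3m,
    posD_sub (b := ⟨⟨0, 1, 1⟩, ⟨98, 99, 147⟩, ⟨300, 1351, 10000⟩, ⟨290, 4000, 1000⟩⟩) (by decide +kernel) tB_vG,
    posD_sub (b := ⟨⟨0, 1, 1⟩, ⟨98, 99, 147⟩, ⟨300, 1351, 10000⟩, ⟨290, 4000, 1000⟩⟩) (by decide +kernel) tB_vMG,
    posD_sub (b := ⟨⟨0, 1, 1⟩, ⟨98, 99, 147⟩, ⟨300, 1351, 10000⟩, ⟨290, 4000, 1000⟩⟩) (by decide +kernel) tB_ak,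
    posD_sub (b := ⟨⟨0, 1, 1⟩, ⟨98, 99, 147⟩, ⟨300, 1351, 10000⟩, ⟨290, 4000, 1000⟩⟩) (by decide +kernel) tB_aw,
    posD_sub (b := ⟨⟨0, 1, 1⟩, ⟨98, 99, 147⟩, ⟨300, 1351, 10000⟩, ⟨290, 4000, 1000⟩⟩) (by decide +kernel) tB_gk,
    posD_sub (b := ⟨⟨0, 1, 1⟩, ⟨98, 99, 147⟩, ⟨300, 1351, 10000⟩, ⟨290, 4000, 1000⟩⟩) (by decide +kernel) tB_gw,
    posD_sub (b := ⟨⟨0, 1, 1⟩, ⟨98, 99, 147⟩, ⟨300, 1351, 10000⟩, ⟨290, 4000, 1000⟩⟩) (by decide +kernel) tB_ek,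
    posD_sub (b := ⟨⟨0, 1, 1⟩, ⟨98, 99, 147⟩, ⟨300, 1351, 10000⟩, ⟨290, 4000, 1000⟩⟩) (by decide +kernel) tB_ew⟩

def tB10_phx : PosD ⟨⟨0, 1, 1⟩, ⟨98, 99, 147⟩, ⟨300, 1351, 10000⟩, ⟨1900, 4000, 1000⟩⟩ (phBn (tB10Hi + xO * (tB10Lo - tB10Hi))) :=
  posD_of_check (c := ⟨66, ⟨2, 0, 2, 1⟩⟩) (by decide +kernel)

def tB10_phd : PosD ⟨⟨0, 1, 1⟩, ⟨98, 99, 147⟩, ⟨300, 1351, 10000⟩, ⟨1900, 4000, 1000⟩⟩ (phBd (tB10Hi + xO * (tB10Lo - tB10Hi))) :=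
  posD_of_check (c := ⟨47, ⟨1, 0, 2, 0⟩⟩) (by decide +kernel)

end Vale.Agent.P100.Calib.Closed.Six.Tail
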