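import Vale.Agent.P100.Calib.SlabSixTailDataB
import Vale.Agent.P100.Calib.SlabSixTailGlobB

/-!
# Checks of some pieces of the certificate

The checks are written as definitions so that they run one after another, which keeps the memory of the
kernel low.
-/

set_option linter.defProp false

namespace Vale.Agent.P100.Calib.Closed.Six.Tail

open BoxPos Large

local instance sixTailCheckstB7Add : Add Ex := ⟨Ex.add⟩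
local instance sixTailCheckstB7Sub : Sub Ex := ⟨Ex.sub⟩
local instance sixTailCheckstB7Mul : Mul Ex := ⟨Ex.mul⟩

def tB11_phx : PosIf ⟨⟨0, 1, 1⟩, ⟨98, 99, 147⟩, ⟨300, 563, 10000⟩, ⟨1900, 2757, 1000⟩⟩ (tB11.u₁ - tB11Lo) (phBn (tB11.u₁ + xO * (tB11Lo - tB11.u₁))) :=
  posIf_of_posD (posD_of_check (c := ⟨100, ⟨2, 0, 4, 2⟩⟩) (by decide +kernel))

def tB11_phd : PosD ⟨⟨0, 1, 1⟩, ⟨98, 99, 147⟩, ⟨300, 563, 10000⟩, ⟨1900, 2757, 1000⟩⟩ (phBd (tB11.u₁ + xO * (tB11Lo - tB11.u₁))) :=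
  posD_of_check (c := ⟨48, ⟨1, 0, 2, 1⟩⟩) (by decide +kernel)

def tB11_p0 : PosD ⟨⟨0, 1, 1⟩, ⟨98, 99, 147⟩, ⟨300, 563, 10000⟩, ⟨1900, 2757, 1000⟩⟩ (tB11.hP0) :=
  posD_of_check (c := ⟨82, ⟨0, 2, 3, 1⟩⟩) (by decide +kernel)

def tB11_gn : PosD ⟨⟨0, 1, 1⟩, ⟨98, 99, 147⟩, ⟨300, 563, 10000⟩, ⟨1900, 2757, 1000⟩⟩ (tB11.hGn) :=
  posD_of_check (c := ⟨65, ⟨1, 1, 2, 2⟩⟩) (by decide +kernel)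

def tB11_den0 : PosD ⟨⟨0, 1, 1⟩, ⟨98, 99, 147⟩, ⟨300, 563, 10000⟩, ⟨1900, 2757, 1000⟩⟩ (tB11.hDen false) :=
  posD_of_check (c := ⟨48, ⟨1, 0, 2, 1⟩⟩) (by decide +kernel)

def tB11_den1 : PosD ⟨⟨0, 1, 1⟩, ⟨98, 99, 147⟩, ⟨300, 563, 10000⟩, ⟨1900, 2757, 1000⟩⟩ (tB11.hDen true) :=
  posD_of_check (c := ⟨48, ⟨1, 0, 2, 1⟩⟩) (by decide +kernel)

def tB11_ev0 : PosD ⟨⟨0, 1, 1⟩, ⟨98, 99, 147⟩, ⟨300, 563, 10000⟩, ⟨1900, 2757, 1000⟩⟩ (tB11.hEv false) :=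
  posD_of_check (c := ⟨204, ⟨4, 2, 8, 4⟩⟩) (by decide +kernel)

def tB11_zL0 : PosD ⟨⟨0, 1, 1⟩, ⟨98, 99, 147⟩, ⟨300, 563, 10000⟩, ⟨1900, 2757, 1000⟩⟩ (tB11.hZL false) :=
  posD_of_check (c := ⟨208, ⟨4, 3, 8, 4⟩⟩) (by decide +kernel)

def tB11_zU0a : PosD ⟨⟨0, 1, 1⟩, ⟨98, 99, 147⟩, ⟨300, 563, 10000⟩, ⟨1900, 2328, 1000⟩⟩ (tB11.hZU false) :=
  posD_of_check (c := ⟨207, ⟨4, 3, 8, 4⟩⟩) (by decide +kernel)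

def tB11_zU0b : PosD ⟨⟨0, 1, 1⟩, ⟨98, 99, 147⟩, ⟨300, 563, 10000⟩, ⟨2328, 2757, 1000⟩⟩ (tB11.hZU false) :=
  posD_of_check (c := ⟨207, ⟨4, 3, 8, 4⟩⟩) (by decide +kernel)

def tB11_zU0 : PosD ⟨⟨0, 1, 1⟩, ⟨98, 99, 147⟩, ⟨300, 563, 10000⟩, ⟨1900, 2757, 1000⟩⟩ (tB11.hZU false) :=
  posD_join₃ tB11_zU0a tB11_zU0b

def tB11_eL0 : PosD ⟨⟨0, 1, 1⟩, ⟨98, 99, 147⟩, ⟨300, 563, 10000⟩, ⟨1900, 2757, 1000⟩⟩ (tB11.hEL false) :=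
  posD_of_check (c := ⟨296, ⟨5, 6, 11, 6⟩⟩) (by decide +kernel)

def tB11_eH0 : PosD ⟨⟨0, 1, 1⟩, ⟨98, 99, 147⟩, ⟨300, 563, 10000⟩, ⟨1900, 2757, 1000⟩⟩ (tB11.hEH false) :=
  posD_of_check (c := ⟨296, ⟨5, 6, 11, 6⟩⟩) (by decide +kernel)

def tB11_pL0 : PosD ⟨⟨0, 1, 1⟩, ⟨98, 99, 147⟩, ⟨300, 563, 10000⟩, ⟨1900, 2757, 1000⟩⟩ (tB11.hPL false) :=
  posD_of_check (c := ⟨322, ⟨5, 6, 11, 7⟩⟩) (by decide +kernel)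

def tB11_pU0 : PosD ⟨⟨0, 1, 1⟩, ⟨98, 99, 147⟩, ⟨300, 563, 10000⟩, ⟨1900, 2757, 1000⟩⟩ (tB11.hPU false) :=
  posD_of_check (c := ⟨322, ⟨5, 6, 11, 7⟩⟩) (by decide +kernel)

def tB11_kU0 : PosD ⟨⟨0, 1, 1⟩, ⟨98, 99, 147⟩, ⟨300, 563, 10000⟩, ⟨1900, 2757, 1000⟩⟩ (tB11.hKU false) :=
  posD_of_check (c := ⟨318, ⟨5, 6, 11, 7⟩⟩) (by decide +kernel)

def tB11_kL0 : PosD ⟨⟨0, 1, 1⟩, ⟨98, 99, 147⟩, ⟨300, 563, 10000⟩, ⟨1900, 2757, 1000⟩⟩ (tB11.hKL false) :=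
  posD_of_check (c := ⟨318, ⟨5, 6, 11, 7⟩⟩) (by decide +kernel)

def tB11_wU0 : PosD ⟨⟨0, 1, 1⟩, ⟨98, 99, 147⟩, ⟨300, 563, 10000⟩, ⟨1900, 2757, 1000⟩⟩ (tB11.hWU false) :=
  posD_of_check (c := ⟨353, ⟨5, 8, 12, 7⟩⟩) (by decide +kernel)

def tB11_wL0 : PosD ⟨⟨0, 1, 1⟩, ⟨98, 99, 147⟩, ⟨300, 563, 10000⟩, ⟨1900, 2757, 1000⟩⟩ (tB11.hWL false) :=
  posD_of_check (c := ⟨353, ⟨5, 8, 12, 7⟩⟩) (by decide +kernel)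

def tB11_ev1 : PosD ⟨⟨0, 1, 1⟩, ⟨98, 99, 147⟩, ⟨300, 563, 10000⟩, ⟨1900, 2757, 1000⟩⟩ (tB11.hEv true) :=
  posD_of_check (c := ⟨204, ⟨4, 2, 8, 4⟩⟩) (by decide +kernel)

def tB11_zL1a : PosD ⟨⟨0, 1, 1⟩, ⟨98, 99, 147⟩, ⟨300, 431, 10000⟩, ⟨1900, 2757, 1000⟩⟩ (tB11.hZL true) :=
  posD_of_check (c := ⟨207, ⟨4, 3, 8, 4⟩⟩) (by decide +kernel)

def tB11_zL1b : PosD ⟨⟨0, 1, 1⟩, ⟨98, 99, 147⟩, ⟨431, 563, 10000⟩, ⟨1900, 2757, 1000⟩⟩ (tB11.hZL true) :=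
  posD_of_check (c := ⟨208, ⟨4, 3, 8, 4⟩⟩) (by decide +kernel)

def tB11_zL1 : PosD ⟨⟨0, 1, 1⟩, ⟨98, 99, 147⟩, ⟨300, 563, 10000⟩, ⟨1900, 2757, 1000⟩⟩ (tB11.hZL true) :=
  posD_join₂ tB11_zL1a tB11_zL1b

def tB11_zU1 : PosD ⟨⟨0, 1, 1⟩, ⟨98, 99, 147⟩, ⟨300, 563, 10000⟩, ⟨1900, 2757, 1000⟩⟩ (tB11.hZU true) :=
  posD_of_check (c := ⟨207, ⟨4, 3, 8, 4⟩⟩) (by decide +kernel)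

def tB11_eL1 : PosD ⟨⟨0, 1, 1⟩, ⟨98, 99, 147⟩, ⟨300, 563, 10000⟩, ⟨1900, 2757, 1000⟩⟩ (tB11.hEL true) :=
  posD_of_check (c := ⟨296, ⟨5, 6, 11, 6⟩⟩) (by decide +kernel)

def tB11_eH1 : PosD ⟨⟨0, 1, 1⟩, ⟨98, 99, 147⟩, ⟨300, 563, 10000⟩, ⟨1900, 2757, 1000⟩⟩ (tB11.hEH true) :=
  posD_of_check (c := ⟨296, ⟨5, 6, 11, 6⟩⟩) (by decide +kernel)

def tB11_pL1 : PosD ⟨⟨0, 1, 1⟩, ⟨98, 99, 147⟩, ⟨300, 563, 10000⟩, ⟨1900, 2757, 1000⟩⟩ (tB11.hPL true) :=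
  posD_of_check (c := ⟨322, ⟨5, 6, 11, 7⟩⟩) (by decide +kernel)

def tB11_pU1 : PosD ⟨⟨0, 1, 1⟩, ⟨98, 99, 147⟩, ⟨300, 563, 10000⟩, ⟨1900, 2757, 1000⟩⟩ (tB11.hPU true) :=
  posD_of_check (c := ⟨322, ⟨5, 6, 11, 7⟩⟩) (by decide +kernel)

def tB11_kU1 : PosD ⟨⟨0, 1, 1⟩, ⟨98, 99, 147⟩, ⟨300, 563, 10000⟩, ⟨1900, 2757, 1000⟩⟩ (tB11.hKU true) :=
  posD_of_check (c := ⟨317, ⟨5, 6, 11, 7⟩⟩) (by decide +kernel)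

def tB11_kL1 : PosD ⟨⟨0, 1, 1⟩, ⟨98, 99, 147⟩, ⟨300, 563, 10000⟩, ⟨1900, 2757, 1000⟩⟩ (tB11.hKL true) :=
  posD_of_check (c := ⟨317, ⟨5, 6, 11, 7⟩⟩) (by decide +kernel)

def tB11_wU1 : PosD ⟨⟨0, 1, 1⟩, ⟨98, 99, 147⟩, ⟨300, 563, 10000⟩, ⟨1900, 2757, 1000⟩⟩ (tB11.hWU true) :=
  posD_of_check (c := ⟨353, ⟨5, 8, 12, 7⟩⟩) (by decide +kernel)

def tB11_wL1 : PosD ⟨⟨0, 1, 1⟩, ⟨98, 99, 147⟩, ⟨300, 563, 10000⟩, ⟨1900, 2757, 1000⟩⟩ (tB11.hWL true) :=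
  posD_of_check (c := ⟨353, ⟨5, 8, 12, 7⟩⟩) (by decide +kernel)

/-- The bounds of the piece. -/
def tB11_env : tB11.Env ⟨⟨0, 1, 1⟩, ⟨98, 99, 147⟩, ⟨300, 563, 10000⟩, ⟨1900, 2757, 1000⟩⟩ :=
  ⟨tB11_p0, Bool.forall_bool.2 ⟨tB11_den0, tB11_den1⟩, tB11_gn, Bool.forall_bool.2 ⟨tB11_ev0, tB11_ev1⟩, Bool.forall_bool.2 ⟨tB11_zL0, tB11_zL1⟩, Bool.forall_bool.2 ⟨tB11_zU0, tB11_zU1⟩, Bool.forall_bool.2 ⟨tB11_eL0, tB11_eL1⟩, ⟨.inr rfl, .inr rfl⟩, Bool.forall_bool.2 ⟨tB11_eH0, tB11_eH1⟩, ⟨.inr rfl, .inr rfl⟩, Bool.forall_bool.2 ⟨tB11_pL0, tB11_pL1⟩, ⟨.inr rfl, .inr rfl⟩, Bool.forall_bool.2 ⟨tB11_pU0, tB11_pU1⟩, ⟨.inr rfl, .inr rfl⟩, Bool.forall_bool.2 ⟨tB11_kU0, tB11_kU1⟩, ⟨.inr rfl, .inr rfl⟩, Bool.forall_bool.2 ⟨tB11_kL0, tB11_kL1⟩,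 ⟨.inr rfl, .inr rfl⟩, Bool.forall_bool.2 ⟨tB11_wU0, tB11_wU1⟩, ⟨.inr rfl, .inr rfl⟩, Bool.forall_bool.2 ⟨tB11_wL0, tB11_wL1⟩, ⟨.inr rfl, .inr rfl⟩⟩

def tB11_pp : PosD ⟨⟨0, 1, 1⟩, ⟨98, 99, 147⟩, ⟨300, 563, 10000⟩, ⟨1900, 2757, 1000⟩⟩ (tB11.xPL) :=
  posD_of_check (c := ⟨90, ⟨1, 1, 3, 3⟩⟩) (by decide +kernel)

def tB11_k2p : PosD ⟨⟨0, 1, 1⟩, ⟨98, 99, 147⟩, ⟨300, 563, 10000⟩, ⟨1900, 2757, 1000⟩⟩ (tB11.k2p tB11.xE) :=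
  posD_of_check (c := ⟨64, ⟨1, 1, 2, 2⟩⟩) (by decide +kernel)

def tB11_k2m : PosD ⟨⟨0, 1, 1⟩, ⟨98, 99, 147⟩, ⟨300, 563, 10000⟩, ⟨1900, 2757, 1000⟩⟩ (tB11.k2m tB11.xE) :=
  posD_of_check (c := ⟨22, ⟨0, 0, 1, 1⟩⟩) (by decide +kernel)

def tB11_v2p : PosD ⟨⟨0, 1, 1⟩, ⟨98, 99, 147⟩, ⟨300, 563, 10000⟩, ⟨1900, 2757, 1000⟩⟩ (tB11.hV2p) :=
  posD_of_check (c := ⟨258, ⟨1, 6, 10, 5⟩⟩) (by decide +kernel)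

def tB11_v2m : PosD ⟨⟨0, 1, 1⟩, ⟨98, 99, 147⟩, ⟨300, 563, 10000⟩, ⟨1900, 2757, 1000⟩⟩ (tB11.hV2m) :=
  posD_of_check (c := ⟨227, ⟨0, 5, 10, 4⟩⟩) (by decide +kernel)

def tB11_v3p : PosD ⟨⟨0, 1, 1⟩, ⟨98, 99, 147⟩, ⟨300, 563, 10000⟩, ⟨1900, 2757, 1000⟩⟩ (tB11.hV3p) :=
  posD_of_check (c := ⟨247, ⟨1, 6, 9, 5⟩⟩) (by decide +kernel)

def tB11_v3m : PosD ⟨⟨0, 1, 1⟩, ⟨98, 99, 147⟩, ⟨300, 563, 10000⟩, ⟨1900, 2757, 1000⟩⟩ (tB11.hV3m) :=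
  posD_of_check (c := ⟨221, ⟨0, 5, 9, 4⟩⟩) (by decide +kernel)

def tB11_kap0 : PosD ⟨⟨0, 1, 1⟩, ⟨98, 99, 147⟩, ⟨300, 563, 10000⟩, ⟨1900, 2757, 1000⟩⟩ (tB11.kap false) :=
  posD_of_check (c := ⟨66, ⟨1, 1, 2, 2⟩⟩) (by decide +kernel)

def tB11_c10 : PosD ⟨⟨0, 1, 1⟩, ⟨98, 99, 147⟩, ⟨300, 563, 10000⟩, ⟨1900, 2757, 1000⟩⟩ (tB11.hC1 false) :=
  posD_of_check (c := ⟨261, ⟨3, 5, 9, 7⟩⟩) (by decide +kernel)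

def tB11_c1h0 : PosD ⟨⟨0, 1, 1⟩, ⟨98, 99, 147⟩, ⟨300, 563, 10000⟩, ⟨1900, 2757, 1000⟩⟩ (tB11.hC1' false) :=
  posD_of_check (c := ⟨261, ⟨3, 5, 9, 7⟩⟩) (by decide +kernel)

def tB11_tg00 : PosD ⟨⟨0, 1, 1⟩, ⟨98, 99, 147⟩, ⟨300, 563, 10000⟩, ⟨1900, 2757, 1000⟩⟩ (tB11.hG false (tB11.pEnd false)) :=
  posD_of_check (c := ⟨370, ⟨2, 7, 14, 9⟩⟩) (by decide +kernel)

def tB11_c2p00 : PosD ⟨⟨0, 1, 1⟩, ⟨98, 99, 147⟩, ⟨300, 563, 10000⟩, ⟨1900, 2757, 1000⟩⟩ (tB11.hC2p false (tB11.pEnd false)) :=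
  posD_of_check (c := ⟨434, ⟨3, 8, 16, 11⟩⟩) (by decide +kernel)

def tB11_c2m00 : PosD ⟨⟨0, 1, 1⟩, ⟨98, 99, 147⟩, ⟨300, 563, 10000⟩, ⟨1900, 2757, 1000⟩⟩ (tB11.hC2m false (tB11.pEnd false)) :=
  posD_of_check (c := ⟨404, ⟨2, 7, 16, 10⟩⟩) (by decide +kernel)

def tB11_c3p00 : PosD ⟨⟨0, 1, 1⟩, ⟨98, 99, 147⟩, ⟨300, 563, 10000⟩, ⟨1900, 2757, 1000⟩⟩ (tB11.hC3p false false) :=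
  posD_of_check (c := ⟨426, ⟨3, 8, 15, 11⟩⟩) (by decide +kernel)

def tB11_c3m00 : PosD ⟨⟨0, 1, 1⟩, ⟨98, 99, 147⟩, ⟨300, 563, 10000⟩, ⟨1900, 2757, 1000⟩⟩ (tB11.hC3m false false) :=
  posD_of_check (c := ⟨401, ⟨3, 7, 15, 10⟩⟩) (by decide +kernel)

def tB11_c3ph00 : PosD ⟨⟨0, 1, 1⟩, ⟨98, 99, 147⟩, ⟨300, 563, 10000⟩, ⟨1900, 2757, 1000⟩⟩ (tB11.hC3p' false false) :=
  posD_of_check (c := ⟨426, ⟨3, 8, 15, 11⟩⟩) (by decide +kernel)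

def tB11_c3mh00 : PosD ⟨⟨0, 1, 1⟩, ⟨98, 99, 147⟩, ⟨300, 563, 10000⟩, ⟨1900, 2757, 1000⟩⟩ (tB11.hC3m' false false) :=
  posD_of_check (c := ⟨401, ⟨3, 7, 15, 10⟩⟩) (by decide +kernel)

def tB11_up00 : PosD ⟨⟨0, 1, 1⟩, ⟨98, 99, 147⟩, ⟨300, 563, 10000⟩, ⟨1900, 2757, 1000⟩⟩ (tB11.hUp false false) :=
  posD_of_check (c := ⟨425, ⟨3, 8, 15, 11⟩⟩) (by decide +kernel)

def tB11_um00 : PosD ⟨⟨0, 1, 1⟩, ⟨98, 99, 147⟩, ⟨300, 563, 10000⟩, ⟨1900, 2757, 1000⟩⟩ (tB11.hUm false false) :=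
  posD_of_check (c := ⟨399, ⟨2, 7, 15, 10⟩⟩) (by decide +kernel)

def tB11_tmg00 : PosD ⟨⟨0, 1, 1⟩, ⟨98, 99, 147⟩, ⟨300, 563, 10000⟩, ⟨1900, 2757, 1000⟩⟩ (tB11.hTMG false (tB11.pEnd false)) :=
  posD_of_check (c := ⟨385, ⟨2, 7, 14, 10⟩⟩) (by decide +kernel)

def tB11_tg01 : PosD ⟨⟨0, 1, 1⟩, ⟨98, 99, 147⟩, ⟨300, 563, 10000⟩, ⟨1900, 2757, 1000⟩⟩ (tB11.hG true (tB11.pEnd false)) :=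
  posD_of_check (c := ⟨370, ⟨2, 7, 14, 9⟩⟩) (by decide +kernel)

def tB11_c2p01 : PosD ⟨⟨0, 1, 1⟩, ⟨98, 99, 147⟩, ⟨300, 563, 10000⟩, ⟨1900, 2757, 1000⟩⟩ (tB11.hC2p true (tB11.pEnd false)) :=
  posD_of_check (c := ⟨434, ⟨3, 8, 16, 11⟩⟩) (by decide +kernel)

def tB11_c2m01 : PosD ⟨⟨0, 1, 1⟩, ⟨98, 99, 147⟩, ⟨300, 563, 10000⟩, ⟨1900, 2757, 1000⟩⟩ (tB11.hC2m true (tB11.pEnd false)) :=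
  posD_of_check (c := ⟨404, ⟨2, 7, 16, 10⟩⟩) (by decide +kernel)

def tB11_c3p01 : PosD ⟨⟨0, 1, 1⟩, ⟨98, 99, 147⟩, ⟨300, 563, 10000⟩, ⟨1900, 2757, 1000⟩⟩ (tB11.hC3p false true) :=
  posD_of_check (c := ⟨426, ⟨3, 8, 15, 11⟩⟩) (by decide +kernel)

def tB11_c3m01 : PosD ⟨⟨0, 1, 1⟩, ⟨98, 99, 147⟩, ⟨300, 563, 10000⟩, ⟨1900, 2757, 1000⟩⟩ (tB11.hC3m false true) :=
  posD_of_check (c := ⟨401, ⟨3, 7, 15, 10⟩⟩) (by decide +kernel)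

def tB11_c3ph01 : PosD ⟨⟨0, 1, 1⟩, ⟨98, 99, 147⟩, ⟨300, 563, 10000⟩, ⟨1900, 2757, 1000⟩⟩ (tB11.hC3p' false true) :=
  posD_of_check (c := ⟨426, ⟨3, 8, 15, 11⟩⟩) (by decide +kernel)

def tB11_c3mh01 : PosD ⟨⟨0, 1, 1⟩, ⟨98, 99, 147⟩, ⟨300, 563, 10000⟩, ⟨1900, 2757, 1000⟩⟩ (tB11.hC3m' false true) :=
  posD_of_check (c := ⟨401, ⟨3, 7, 15, 10⟩⟩) (by decide +kernel)

def tB11_up01 : PosD ⟨⟨0, 1, 1⟩, ⟨98, 99, 147⟩, ⟨300, 563, 10000⟩, ⟨1900, 2757, 1000⟩⟩ (tB11.hUp false true) :=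
  posD_of_check (c := ⟨425, ⟨3, 8, 15, 11⟩⟩) (by decide +kernel)

def tB11_um01 : PosD ⟨⟨0, 1, 1⟩, ⟨98, 99, 147⟩, ⟨300, 563, 10000⟩, ⟨1900, 2757, 1000⟩⟩ (tB11.hUm false true) :=
  posD_of_check (c := ⟨399, ⟨2, 7, 15, 10⟩⟩) (by decide +kernel)

def tB11_tmg01 : PosD ⟨⟨0, 1, 1⟩, ⟨98, 99, 147⟩, ⟨300, 563, 10000⟩, ⟨1900, 2757, 1000⟩⟩ (tB11.hTMG true (tB11.pEnd false)) :=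
  posD_of_check (c := ⟨385, ⟨2, 7, 14, 10⟩⟩) (by decide +kernel)

def tB11_kap1 : PosD ⟨⟨0, 1, 1⟩, ⟨98, 99, 147⟩, ⟨300, 563, 10000⟩, ⟨1900, 2757, 1000⟩⟩ (tB11.kap true) :=
  posD_of_check (c := ⟨69, ⟨1, 1, 2, 2⟩⟩) (by decide +kernel)

def tB11_c11a : PosD ⟨⟨0, 1, 1⟩, ⟨98, 99, 147⟩, ⟨300, 563, 10000⟩, ⟨1900, 2328, 1000⟩⟩ (tB11.hC1 true) :=
  posD_of_check (c := ⟨263, ⟨3, 5, 9, 7⟩⟩) (by decide +kernel)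

def tB11_c11b : PosD ⟨⟨0, 1, 1⟩, ⟨98, 99, 147⟩, ⟨300, 563, 10000⟩, ⟨2328, 2757, 1000⟩⟩ (tB11.hC1 true) :=
  posD_of_check (c := ⟨264, ⟨3, 5, 9, 7⟩⟩) (by decide +kernel)

def tB11_c11 : PosD ⟨⟨0, 1, 1⟩, ⟨98, 99, 147⟩, ⟨300, 563, 10000⟩, ⟨1900, 2757, 1000⟩⟩ (tB11.hC1 true) :=
  posD_join₃ tB11_c11a tB11_c11b

def tB11_c1h1 : PosD ⟨⟨0, 1, 1⟩, ⟨98, 99, 147⟩, ⟨300, 563, 10000⟩, ⟨1900, 2757, 1000⟩⟩ (tB11.hC1' true) :=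
  posD_of_check (c := ⟨264, ⟨3, 5, 9, 7⟩⟩) (by decide +kernel)

def tB11_tg10 : PosD ⟨⟨0, 1, 1⟩, ⟨98, 99, 147⟩, ⟨300, 563, 10000⟩, ⟨1900, 2757, 1000⟩⟩ (tB11.hG false (tB11.pEnd true)) :=
  posD_of_check (c := ⟨370, ⟨2, 7, 14, 9⟩⟩) (by decide +kernel)

def tB11_c2p10 : PosD ⟨⟨0, 1, 1⟩, ⟨98, 99, 147⟩, ⟨300, 563, 10000⟩, ⟨1900, 2757, 1000⟩⟩ (tB11.hC2p false (tB11.pEnd true)) :=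
  posD_of_check (c := ⟨434, ⟨3, 8, 16, 11⟩⟩) (by decide +kernel)

def tB11_c2m10 : PosD ⟨⟨0, 1, 1⟩, ⟨98, 99, 147⟩, ⟨300, 563, 10000⟩, ⟨1900, 2757, 1000⟩⟩ (tB11.hC2m false (tB11.pEnd true)) :=
  posD_of_check (c := ⟨405, ⟨2, 7, 16, 10⟩⟩) (by decide +kernel)

def tB11_c3p10 : PosD ⟨⟨0, 1, 1⟩, ⟨98, 99, 147⟩, ⟨300, 563, 10000⟩, ⟨1900, 2757, 1000⟩⟩ (tB11.hC3p true false) :=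
  posD_of_check (c := ⟨428, ⟨3, 8, 15, 11⟩⟩) (by decide +kernel)

def tB11_c3m10 : PosD ⟨⟨0, 1, 1⟩, ⟨98, 99, 147⟩, ⟨300, 563, 10000⟩, ⟨1900, 2757, 1000⟩⟩ (tB11.hC3m true false) :=
  posD_of_check (c := ⟨404, ⟨3, 7, 15, 10⟩⟩) (by decide +kernel)

def tB11_c3ph10 : PosD ⟨⟨0, 1, 1⟩, ⟨98, 99, 147⟩, ⟨300, 563, 10000⟩, ⟨1900, 2757, 1000⟩⟩ (tB11.hC3p' true false) :=
  posD_of_check (c := ⟨428, ⟨3, 8, 15, 11⟩⟩) (by decide +kernel)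

def tB11_c3mh10 : PosD ⟨⟨0, 1, 1⟩, ⟨98, 99, 147⟩, ⟨300, 563, 10000⟩, ⟨1900, 2757, 1000⟩⟩ (tB11.hC3m' true false) :=
  posD_of_check (c := ⟨404, ⟨3, 7, 15, 10⟩⟩) (by decide +kernel)

def tB11_up10 : PosD ⟨⟨0, 1, 1⟩, ⟨98, 99, 147⟩, ⟨300, 563, 10000⟩, ⟨1900, 2757, 1000⟩⟩ (tB11.hUp true false) :=
  posD_of_check (c := ⟨426, ⟨3, 8, 15, 11⟩⟩) (by decide +kernel)

def tB11_um10 : PosD ⟨⟨0, 1, 1⟩, ⟨98, 99, 147⟩, ⟨300, 563, 10000⟩, ⟨1900, 2757, 1000⟩⟩ (tB11.hUm true false) :=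
  posD_of_check (c := ⟨400, ⟨2, 7, 15, 10⟩⟩) (by decide +kernel)

def tB11_tmg10 : PosD ⟨⟨0, 1, 1⟩, ⟨98, 99, 147⟩, ⟨300, 563, 10000⟩, ⟨1900, 2757, 1000⟩⟩ (tB11.hTMG false (tB11.pEnd true)) :=
  posD_of_check (c := ⟨385, ⟨2, 7, 14, 10⟩⟩) (by decide +kernel)

def tB11_tg11 : PosD ⟨⟨0, 1, 1⟩, ⟨98, 99, 147⟩, ⟨300, 563, 10000⟩, ⟨1900, 2757, 1000⟩⟩ (tB11.hG true (tB11.pEnd true)) :=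
  posD_of_check (c := ⟨370, ⟨2, 7, 14, 9⟩⟩) (by decide +kernel)

def tB11_c2p11 : PosD ⟨⟨0, 1, 1⟩, ⟨98, 99, 147⟩, ⟨300, 563, 10000⟩, ⟨1900, 2757, 1000⟩⟩ (tB11.hC2p true (tB11.pEnd true)) :=
  posD_of_check (c := ⟨434, ⟨3, 8, 16, 11⟩⟩) (by decide +kernel)

def tB11_c2m11 : PosD ⟨⟨0, 1, 1⟩, ⟨98, 99, 147⟩, ⟨300, 563, 10000⟩, ⟨1900, 2757, 1000⟩⟩ (tB11.hC2m true (tB11.pEnd true)) :=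
  posD_of_check (c := ⟨405, ⟨2, 7, 16, 10⟩⟩) (by decide +kernel)

def tB11_c3p11 : PosD ⟨⟨0, 1, 1⟩, ⟨98, 99, 147⟩, ⟨300, 563, 10000⟩, ⟨1900, 2757, 1000⟩⟩ (tB11.hC3p true true) :=
  posD_of_check (c := ⟨428, ⟨3, 8, 15, 11⟩⟩) (by decide +kernel)

def tB11_c3m11 : PosD ⟨⟨0, 1, 1⟩, ⟨98, 99, 147⟩, ⟨300, 563, 10000⟩, ⟨1900, 2757, 1000⟩⟩ (tB11.hC3m true true) :=
  posD_of_check (c := ⟨404, ⟨3, 7, 15, 10⟩⟩) (by decide +kernel)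

def tB11_c3ph11 : PosD ⟨⟨0, 1, 1⟩, ⟨98, 99, 147⟩, ⟨300, 563, 10000⟩, ⟨1900, 2757, 1000⟩⟩ (tB11.hC3p' true true) :=
  posD_of_check (c := ⟨428, ⟨3, 8, 15, 11⟩⟩) (by decide +kernel)

def tB11_c3mh11 : PosD ⟨⟨0, 1, 1⟩, ⟨98, 99, 147⟩, ⟨300, 563, 10000⟩, ⟨1900, 2757, 1000⟩⟩ (tB11.hC3m' true true) :=
  posD_of_check (c := ⟨404, ⟨3, 7, 15, 10⟩⟩) (by decide +kernel)

def tB11_up11 : PosD ⟨⟨0, 1, 1⟩, ⟨98, 99, 147⟩, ⟨300, 563, 10000⟩, ⟨1900, 2757, 1000⟩⟩ (tB11.hUp true true) :=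
  posD_of_check (c := ⟨426, ⟨3, 8, 15, 11⟩⟩) (by decide +kernel)

def tB11_um11 : PosD ⟨⟨0, 1, 1⟩, ⟨98, 99, 147⟩, ⟨300, 563, 10000⟩, ⟨1900, 2757, 1000⟩⟩ (tB11.hUm true true) :=
  posD_of_check (c := ⟨400, ⟨2, 7, 15, 10⟩⟩) (by decide +kernel)

def tB11_tmg11 : PosD ⟨⟨0, 1, 1⟩, ⟨98, 99, 147⟩, ⟨300, 563, 10000⟩, ⟨1900, 2757, 1000⟩⟩ (tB11.hTMG true (tB11.pEnd true)) :=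
  posD_of_check (c := ⟨385, ⟨2, 7, 14, 10⟩⟩) (by decide +kernel)

/-- The signs of the piece. -/
def tB11_sign : tB11.Sign ⟨⟨0, 1, 1⟩, ⟨98, 99, 147⟩, ⟨300, 563, 10000⟩, ⟨1900, 2757, 1000⟩⟩ :=
  ⟨tB11_pp,
    tB11_k2p,
    tB11_k2m,
    Bool.forall_bool.2 ⟨(Bool.forall_bool.2 ⟨tB11_tg00, tB11_tg01⟩), (Bool.forall_bool.2 ⟨tB11_tg10, tB11_tg11⟩)⟩,
    Bool.forall_bool.2 ⟨(Bool.forall_bool.2 ⟨tB11_c2p00, tB11_c2p01⟩), (Bool.forall_bool.2 ⟨tB11_c2p10, tB11_c2p11⟩)⟩,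
    Bool.forall_bool.2 ⟨(Bool.forall_bool.2 ⟨tB11_c2m00, tB11_c2m01⟩), (Bool.forall_bool.2 ⟨tB11_c2m10, tB11_c2m11⟩)⟩,
    Bool.forall_bool.2 ⟨tB11_kap0, tB11_kap1⟩,
    Bool.forall_bool.2 ⟨tB11_c10, tB11_c11⟩,
    Bool.forall_bool.2 ⟨(Bool.forall_bool.2 ⟨tB11_c3p00, tB11_c3p01⟩), (Bool.forall_bool.2 ⟨tB11_c3p10, tB11_c3p11⟩)⟩,
    Bool.forall_bool.2 ⟨(Bool.forall_bool.2 ⟨tB11_c3m00, tB11_c3m01⟩), (Bool.forall_bool.2 ⟨tB11_c3m10, tB11_c3m11⟩)⟩,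
    Bool.forall_bool.2 ⟨(Bool.forall_bool.2 ⟨tB11_tmg00, tB11_tmg01⟩), (Bool.forall_bool.2 ⟨tB11_tmg10, tB11_tmg11⟩)⟩,
    .inr (Bool.forall_bool.2 ⟨⟨tB11_c1h0, Bool.forall_bool.2 ⟨⟨tB11_c3ph00, tB11_c3mh00, tB11_up00, tB11_um00⟩, ⟨tB11_c3ph01, tB11_c3mh01, tB11_up01, tB11_um01⟩⟩⟩, ⟨tB11_c1h1, Bool.forall_bool.2 ⟨⟨tB11_c3ph10, tB11_c3mh10, tB11_up10, tB11_um10⟩, ⟨tB11_c3ph11, tB11_c3mh11, tB11_up11, tB11_um11⟩⟩⟩⟩),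
    tB11_v2p,
    tB11_v2m,
    tB11_v3p,
    tB11_v3m,
    posD_sub (b := ⟨⟨0, 1, 1⟩, ⟨98, 99, 147⟩, ⟨300, 1351, 10000⟩, ⟨290, 4000, 1000⟩⟩) (by decide +kernel) tB_vG,
    posD_sub (b := ⟨⟨0, 1, 1⟩, ⟨98, 99, 147⟩, ⟨300, 1351, 10000⟩, ⟨290, 4000, 1000⟩⟩) (by decide +kernel) tB_vMG,
    posD_sub (b := ⟨⟨0, 1, 1⟩, ⟨98, 99, 147⟩, ⟨300, 1351, 10000⟩, ⟨290, 4000, 1000⟩⟩) (by decide +kernel) tB_ak,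
    posD_sub (b := ⟨⟨0, 1, 1⟩, ⟨98, 99, 147⟩, ⟨300, 1351, 10000⟩, ⟨290, 4000, 1000⟩⟩) (by decide +kernel) tB_aw,
    posD_sub (b := ⟨⟨0, 1, 1⟩, ⟨98, 99, 147⟩, ⟨300, 1351, 10000⟩, ⟨290, 4000, 1000⟩⟩) (by decide +kernel) tB_gk,
    posD_sub (b := ⟨⟨0, 1, 1⟩, ⟨98, 99, 147⟩, ⟨300, 1351, 10000⟩, ⟨290, 4000, 1000⟩⟩) (by decide +kernel) tB_gw,
    posD_sub (b := ⟨⟨0, 1, 1⟩, ⟨98, 99, 147⟩, ⟨300, 1351, 10000⟩, ⟨290, 4000, 1000⟩⟩) (by decide +kernel) tB_ek,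
    posD_sub (b := ⟨⟨0, 1, 1⟩, ⟨98, 99, 147⟩, ⟨300, 1351, 10000⟩, ⟨290, 4000, 1000⟩⟩) (by decide +kernel) tB_ew⟩

end Vale.Agent.P100.Calib.Closed.Six.Tail
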