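import Vale.Agent.P100.Calib.SlabSixTailDataB
import Vale.Agent.P100.Calib.SlabSixTailGlobB

/-!
# Checks of some pieces of the certificate

The checks are written as definitions so that they run one after another, which keeps the memory of the
kernel low.
-/

set_option linter.defProp false

namespace Vale.Agent.P100.Calib.Closed.Six.Tail

open BoxPos Large

local instance sixTailCheckstB8Add : Add Ex := ⟨Ex.add⟩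
local instance sixTailCheckstB8Sub : Sub Ex := ⟨Ex.sub⟩
local instance sixTailCheckstB8Mul : Mul Ex := ⟨Ex.mul⟩

def tB12_phx : PosIf ⟨⟨0, 1, 1⟩, ⟨98, 99, 147⟩, ⟨300, 563, 10000⟩, ⟨2757, 3278, 1000⟩⟩ (tB12.u₁ - tB12Lo) (phBn (tB12.u₁ + xO * (tB12Lo - tB12.u₁))) :=
  posIf_of_posD (posD_of_check (c := ⟨101, ⟨2, 0, 4, 2⟩⟩) (by decide +kernel))

def tB12_phd : PosD ⟨⟨0, 1, 1⟩, ⟨98, 99, 147⟩, ⟨300, 563, 10000⟩, ⟨2757, 3278, 1000⟩⟩ (phBd (tB12.u₁ + xO * (tB12Lo - tB12.u₁))) :=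
  posD_of_check (c := ⟨48, ⟨1, 0, 2, 1⟩⟩) (by decide +kernel)

def tB12_p0 : PosD ⟨⟨0, 1, 1⟩, ⟨98, 99, 147⟩, ⟨300, 563, 10000⟩, ⟨2757, 3278, 1000⟩⟩ (tB12.hP0) :=
  posD_of_check (c := ⟨82, ⟨0, 2, 3, 1⟩⟩) (by decide +kernel)

def tB12_gn : PosD ⟨⟨0, 1, 1⟩, ⟨98, 99, 147⟩, ⟨300, 563, 10000⟩, ⟨2757, 3278, 1000⟩⟩ (tB12.hGn) :=
  posD_of_check (c := ⟨65, ⟨1, 1, 2, 2⟩⟩) (by decide +kernel)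

def tB12_den0 : PosD ⟨⟨0, 1, 1⟩, ⟨98, 99, 147⟩, ⟨300, 563, 10000⟩, ⟨2757, 3278, 1000⟩⟩ (tB12.hDen false) :=
  posD_of_check (c := ⟨48, ⟨1, 0, 2, 1⟩⟩) (by decide +kernel)

def tB12_den1 : PosD ⟨⟨0, 1, 1⟩, ⟨98, 99, 147⟩, ⟨300, 563, 10000⟩, ⟨2757, 3278, 1000⟩⟩ (tB12.hDen true) :=
  posD_of_check (c := ⟨170, ⟨3, 4, 6, 4⟩⟩) (by decide +kernel)

def tB12_ev0 : PosD ⟨⟨0, 1, 1⟩, ⟨98, 99, 147⟩, ⟨300, 563, 10000⟩, ⟨2757, 3278, 1000⟩⟩ (tB12.hEv false) :=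
  posD_of_check (c := ⟨204, ⟨4, 2, 8, 4⟩⟩) (by decide +kernel)

def tB12_zL0a : PosD ⟨⟨0, 1, 1⟩, ⟨98, 99, 147⟩, ⟨300, 563, 10000⟩, ⟨2757, 3017, 1000⟩⟩ (tB12.hZL false) :=
  posD_of_check (c := ⟨210, ⟨4, 3, 8, 4⟩⟩) (by decide +kernel)

def tB12_zL0ba : PosD ⟨⟨0, 1, 1⟩, ⟨98, 99, 147⟩, ⟨300, 563, 10000⟩, ⟨3017, 3147, 1000⟩⟩ (tB12.hZL false) :=
  posD_of_check (c := ⟨210, ⟨4, 3, 8, 4⟩⟩) (by decide +kernel)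

def tB12_zL0bb : PosD ⟨⟨0, 1, 1⟩, ⟨98, 99, 147⟩, ⟨300, 563, 10000⟩, ⟨3147, 3278, 1000⟩⟩ (tB12.hZL false) :=
  posD_of_check (c := ⟨210, ⟨4, 3, 8, 4⟩⟩) (by decide +kernel)

def tB12_zL0b : PosD ⟨⟨0, 1, 1⟩, ⟨98, 99, 147⟩, ⟨300, 563, 10000⟩, ⟨3017, 3278, 1000⟩⟩ (tB12.hZL false) :=
  posD_join₃ tB12_zL0ba tB12_zL0bb

def tB12_zL0 : PosD ⟨⟨0, 1, 1⟩, ⟨98, 99, 147⟩, ⟨300, 563, 10000⟩, ⟨2757, 3278, 1000⟩⟩ (tB12.hZL false) :=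
  posD_join₃ tB12_zL0a tB12_zL0b

def tB12_zU0aa : PosD ⟨⟨0, 1, 1⟩, ⟨98, 99, 147⟩, ⟨300, 563, 10000⟩, ⟨2757, 2887, 1000⟩⟩ (tB12.hZU false) :=
  posD_of_check (c := ⟨210, ⟨4, 3, 8, 4⟩⟩) (by decide +kernel)

def tB12_zU0ab : PosD ⟨⟨0, 1, 1⟩, ⟨98, 99, 147⟩, ⟨300, 563, 10000⟩, ⟨2887, 3017, 1000⟩⟩ (tB12.hZU false) :=
  posD_of_check (c := ⟨210, ⟨4, 3, 8, 4⟩⟩) (by decide +kernel)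

def tB12_zU0a : PosD ⟨⟨0, 1, 1⟩, ⟨98, 99, 147⟩, ⟨300, 563, 10000⟩, ⟨2757, 3017, 1000⟩⟩ (tB12.hZU false) :=
  posD_join₃ tB12_zU0aa tB12_zU0ab

def tB12_zU0b : PosD ⟨⟨0, 1, 1⟩, ⟨98, 99, 147⟩, ⟨300, 563, 10000⟩, ⟨3017, 3278, 1000⟩⟩ (tB12.hZU false) :=
  posD_of_check (c := ⟨211, ⟨4, 3, 8, 4⟩⟩) (by decide +kernel)

def tB12_zU0 : PosD ⟨⟨0, 1, 1⟩, ⟨98, 99, 147⟩, ⟨300, 563, 10000⟩, ⟨2757, 3278, 1000⟩⟩ (tB12.hZU false) :=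
  posD_join₃ tB12_zU0a tB12_zU0b

def tB12_eL0 : PosD ⟨⟨0, 1, 1⟩, ⟨98, 99, 147⟩, ⟨300, 563, 10000⟩, ⟨2757, 3278, 1000⟩⟩ (tB12.hEL false) :=
  posD_of_check (c := ⟨330, ⟨5, 6, 11, 7⟩⟩) (by decide +kernel)

def tB12_eH0a : PosD ⟨⟨0, 1, 1⟩, ⟨98, 99, 147⟩, ⟨300, 563, 10000⟩, ⟨2757, 3017, 1000⟩⟩ (tB12.hEH false) :=
  posD_of_check (c := ⟨297, ⟨5, 6, 11, 6⟩⟩) (by decide +kernel)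

def tB12_eH0b : PosD ⟨⟨0, 1, 1⟩, ⟨98, 99, 147⟩, ⟨300, 563, 10000⟩, ⟨3017, 3278, 1000⟩⟩ (tB12.hEH false) :=
  posD_of_check (c := ⟨297, ⟨5, 6, 11, 6⟩⟩) (by decide +kernel)

def tB12_eH0 : PosD ⟨⟨0, 1, 1⟩, ⟨98, 99, 147⟩, ⟨300, 563, 10000⟩, ⟨2757, 3278, 1000⟩⟩ (tB12.hEH false) :=
  posD_join₃ tB12_eH0a tB12_eH0b

def tB12_pL0a : PosD ⟨⟨0, 1, 1⟩, ⟨98, 99, 147⟩, ⟨300, 563, 10000⟩, ⟨2757, 3017, 1000⟩⟩ (tB12.hPL false) :=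
  posD_of_check (c := ⟨323, ⟨5, 6, 11, 7⟩⟩) (by decide +kernel)

def tB12_pL0b : PosD ⟨⟨0, 1, 1⟩, ⟨98, 99, 147⟩, ⟨300, 563, 10000⟩, ⟨3017, 3278, 1000⟩⟩ (tB12.hPL false) :=
  posD_of_check (c := ⟨323, ⟨5, 6, 11, 7⟩⟩) (by decide +kernel)

def tB12_pL0 : PosD ⟨⟨0, 1, 1⟩, ⟨98, 99, 147⟩, ⟨300, 563, 10000⟩, ⟨2757, 3278, 1000⟩⟩ (tB12.hPL false) :=
  posD_join₃ tB12_pL0a tB12_pL0b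

def tB12_pU0 : PosD ⟨⟨0, 1, 1⟩, ⟨98, 99, 147⟩, ⟨300, 563, 10000⟩, ⟨2757, 3278, 1000⟩⟩ (tB12.hPU false) :=
  posD_of_check (c := ⟨332, ⟨5, 6, 11, 7⟩⟩) (by decide +kernel)

def tB12_kU0 : PosD ⟨⟨0, 1, 1⟩, ⟨98, 99, 147⟩, ⟨300, 563, 10000⟩, ⟨2757, 3278, 1000⟩⟩ (tB12.hKU false) :=
  posD_of_check (c := ⟨318, ⟨5, 6, 11, 7⟩⟩) (by decide +kernel)

def tB12_kL0 : PosD ⟨⟨0, 1, 1⟩, ⟨98, 99, 147⟩, ⟨300, 563, 10000⟩, ⟨2757, 3278, 1000⟩⟩ (tB12.hKL false) :=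
  posD_of_check (c := ⟨318, ⟨5, 6, 11, 7⟩⟩) (by decide +kernel)

def tB12_wU0 : PosD ⟨⟨0, 1, 1⟩, ⟨98, 99, 147⟩, ⟨300, 563, 10000⟩, ⟨2757, 3278, 1000⟩⟩ (tB12.hWU false) :=
  posD_of_check (c := ⟨354, ⟨5, 8, 12, 7⟩⟩) (by decide +kernel)

def tB12_wL0 : PosD ⟨⟨0, 1, 1⟩, ⟨98, 99, 147⟩, ⟨300, 563, 10000⟩, ⟨2757, 3278, 1000⟩⟩ (tB12.hWL false) :=
  posD_of_check (c := ⟨354, ⟨5, 8, 12, 7⟩⟩) (by decide +kernel)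

def tB12_ev1 : PosD ⟨⟨0, 1, 1⟩, ⟨98, 99, 147⟩, ⟨300, 563, 10000⟩, ⟨2757, 3278, 1000⟩⟩ (tB12.hEv true) :=
  posD_of_check (c := ⟨260, ⟨4, 6, 9, 6⟩⟩) (by decide +kernel)

def tB12_zL1a : PosD ⟨⟨0, 1, 1⟩, ⟨98, 99, 147⟩, ⟨300, 563, 10000⟩, ⟨2757, 3017, 1000⟩⟩ (tB12.hZL true) :=
  posD_of_check (c := ⟨284, ⟨4, 7, 10, 7⟩⟩) (by decide +kernel)

def tB12_zL1b : PosD ⟨⟨0, 1, 1⟩, ⟨98, 99, 147⟩, ⟨300, 563, 10000⟩, ⟨3017, 3278, 1000⟩⟩ (tB12.hZL true) :=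
  posD_of_check (c := ⟨285, ⟨4, 7, 10, 7⟩⟩) (by decide +kernel)

def tB12_zL1 : PosD ⟨⟨0, 1, 1⟩, ⟨98, 99, 147⟩, ⟨300, 563, 10000⟩, ⟨2757, 3278, 1000⟩⟩ (tB12.hZL true) :=
  posD_join₃ tB12_zL1a tB12_zL1b

def tB12_zU1a : PosD ⟨⟨0, 1, 1⟩, ⟨98, 99, 147⟩, ⟨300, 563, 10000⟩, ⟨2757, 3017, 1000⟩⟩ (tB12.hZU true) :=
  posD_of_check (c := ⟨285, ⟨4, 7, 10, 7⟩⟩) (by decide +kernel)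

def tB12_zU1b : PosD ⟨⟨0, 1, 1⟩, ⟨98, 99, 147⟩, ⟨300, 563, 10000⟩, ⟨3017, 3278, 1000⟩⟩ (tB12.hZU true) :=
  posD_of_check (c := ⟨285, ⟨4, 7, 10, 7⟩⟩) (by decide +kernel)

def tB12_zU1 : PosD ⟨⟨0, 1, 1⟩, ⟨98, 99, 147⟩, ⟨300, 563, 10000⟩, ⟨2757, 3278, 1000⟩⟩ (tB12.hZU true) :=
  posD_join₃ tB12_zU1a tB12_zU1b

def tB12_eL1 : PosD ⟨⟨0, 1, 1⟩, ⟨98, 99, 147⟩, ⟨300, 563, 10000⟩, ⟨2757, 3278, 1000⟩⟩ (tB12.hEL true) :=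
  posD_of_check (c := ⟨386, ⟨5, 10, 12, 9⟩⟩) (by decide +kernel)

def tB12_eH1a : PosD ⟨⟨0, 1, 1⟩, ⟨98, 99, 147⟩, ⟨300, 563, 10000⟩, ⟨2757, 3017, 1000⟩⟩ (tB12.hEH true) :=
  posD_of_check (c := ⟨353, ⟨5, 10, 12, 8⟩⟩) (by decide +kernel)

def tB12_eH1b : PosD ⟨⟨0, 1, 1⟩, ⟨98, 99, 147⟩, ⟨300, 563, 10000⟩, ⟨3017, 3278, 1000⟩⟩ (tB12.hEH true) :=
  posD_of_check (c := ⟨353, ⟨5, 10, 12, 8⟩⟩) (by decide +kernel)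

def tB12_eH1 : PosD ⟨⟨0, 1, 1⟩, ⟨98, 99, 147⟩, ⟨300, 563, 10000⟩, ⟨2757, 3278, 1000⟩⟩ (tB12.hEH true) :=
  posD_join₃ tB12_eH1a tB12_eH1b

def tB12_pL1a : PosD ⟨⟨0, 1, 1⟩, ⟨98, 99, 147⟩, ⟨300, 563, 10000⟩, ⟨2757, 3017, 1000⟩⟩ (tB12.hPL true) :=
  posD_of_check (c := ⟨379, ⟨5, 10, 12, 9⟩⟩) (by decide +kernel)

def tB12_pL1b : PosD ⟨⟨0, 1, 1⟩, ⟨98, 99, 147⟩, ⟨300, 563, 10000⟩, ⟨3017, 3278, 1000⟩⟩ (tB12.hPL true) :=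
  posD_of_check (c := ⟨379, ⟨5, 10, 12, 9⟩⟩) (by decide +kernel)

def tB12_pL1 : PosD ⟨⟨0, 1, 1⟩, ⟨98, 99, 147⟩, ⟨300, 563, 10000⟩, ⟨2757, 3278, 1000⟩⟩ (tB12.hPL true) :=
  posD_join₃ tB12_pL1a tB12_pL1b

def tB12_pU1 : PosD ⟨⟨0, 1, 1⟩, ⟨98, 99, 147⟩, ⟨300, 563, 10000⟩, ⟨2757, 3278, 1000⟩⟩ (tB12.hPU true) :=
  posD_of_check (c := ⟨388, ⟨5, 10, 12, 9⟩⟩) (by decide +kernel)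

def tB12_kU1 : PosD ⟨⟨0, 1, 1⟩, ⟨98, 99, 147⟩, ⟨300, 563, 10000⟩, ⟨2757, 3278, 1000⟩⟩ (tB12.hKU true) :=
  posD_of_check (c := ⟨374, ⟨5, 10, 12, 9⟩⟩) (by decide +kernel)

def tB12_kL1 : PosD ⟨⟨0, 1, 1⟩, ⟨98, 99, 147⟩, ⟨300, 563, 10000⟩, ⟨2757, 3278, 1000⟩⟩ (tB12.hKL true) :=
  posD_of_check (c := ⟨374, ⟨5, 10, 12, 9⟩⟩) (by decide +kernel)

def tB12_wU1 : PosD ⟨⟨0, 1, 1⟩, ⟨98, 99, 147⟩, ⟨300, 563, 10000⟩, ⟨2757, 3278, 1000⟩⟩ (tB12.hWU true) :=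
  posD_of_check (c := ⟨409, ⟨5, 12, 13, 9⟩⟩) (by decide +kernel)

def tB12_wL1 : PosD ⟨⟨0, 1, 1⟩, ⟨98, 99, 147⟩, ⟨300, 563, 10000⟩, ⟨2757, 3278, 1000⟩⟩ (tB12.hWL true) :=
  posD_of_check (c := ⟨409, ⟨5, 12, 13, 9⟩⟩) (by decide +kernel)

def tB12_nueL : PosD ⟨⟨0, 1, 1⟩, ⟨98, 99, 147⟩, ⟨300, 563, 10000⟩, ⟨2757, 3278, 1000⟩⟩ (tB12.eL.ν) :=
  posD_of_check (c := ⟨46, ⟨0, 0, 1, 1⟩⟩) (by decide +kernel)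

def tB12_nupU : PosD ⟨⟨0, 1, 1⟩, ⟨98, 99, 147⟩, ⟨300, 563, 10000⟩, ⟨2757, 3278, 1000⟩⟩ (tB12.pU.ν) :=
  posD_of_check (c := ⟨48, ⟨0, 0, 1, 1⟩⟩) (by decide +kernel)

/-- The bounds of the piece. -/
def tB12_env : tB12.Env ⟨⟨0, 1, 1⟩, ⟨98, 99, 147⟩, ⟨300, 563, 10000⟩, ⟨2757, 3278, 1000⟩⟩ :=
  ⟨tB12_p0, Bool.forall_bool.2 ⟨tB12_den0, tB12_den1⟩, tB12_gn, Bool.forall_bool.2 ⟨tB12_ev0, tB12_ev1⟩, Bool.forall_bool.2 ⟨tB12_zL0, tB12_zL1⟩, Bool.forall_bool.2 ⟨tB12_zU0, tB12_zU1⟩, Bool.forall_bool.2 ⟨tB12_eL0, tB12_eL1⟩, ⟨.inr rfl, .inl tB12_nueL⟩, Bool.forall_bool.2 ⟨tB12_eH0, tB12_eH1⟩, ⟨.inr rfl, .inr rfl⟩, Bool.forall_bool.2 ⟨tB12_pL0, tB12_pL1⟩, ⟨.inr rfl, .inr rfl⟩, Bool.forall_bool.2 ⟨tB12_pU0, tB12_pU1⟩, ⟨.inr rfl, .inl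 tB12_nupU⟩, Bool.forall_bool.2 ⟨tB12_kU0, tB12_kU1⟩, ⟨.inr rfl, .inr rfl⟩, Bool.forall_bool.2 ⟨tB12_kL0, tB12_kL1⟩, ⟨.inr rfl, .inr rfl⟩, Bool.forall_bool.2 ⟨tB12_wU0, tB12_wU1⟩, ⟨.inr rfl, .inr rfl⟩, Bool.forall_bool.2 ⟨tB12_wL0, tB12_wL1⟩, ⟨.inr rfl, .inr rfl⟩⟩

def tB12_pp : PosD ⟨⟨0, 1, 1⟩, ⟨98, 99, 147⟩, ⟨300, 563, 10000⟩, ⟨2757, 3278, 1000⟩⟩ (tB12.xPL) :=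
  posD_of_check (c := ⟨93, ⟨1, 1, 3, 3⟩⟩) (by decide +kernel)

def tB12_k2p : PosD ⟨⟨0, 1, 1⟩, ⟨98, 99, 147⟩, ⟨300, 563, 10000⟩, ⟨2757, 3278, 1000⟩⟩ (tB12.k2p tB12.xE) :=
  posD_of_check (c := ⟨65, ⟨1, 1, 2, 2⟩⟩) (by decide +kernel)

def tB12_k2m : PosD ⟨⟨0, 1, 1⟩, ⟨98, 99, 147⟩, ⟨300, 563, 10000⟩, ⟨2757, 3278, 1000⟩⟩ (tB12.k2m tB12.xE) :=
  posD_of_check (c := ⟨25, ⟨0, 0, 1, 1⟩⟩) (by decide +kernel)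

def tB12_v2p : PosD ⟨⟨0, 1, 1⟩, ⟨98, 99, 147⟩, ⟨300, 563, 10000⟩, ⟨2757, 3278, 1000⟩⟩ (tB12.hV2p) :=
  posD_of_check (c := ⟨259, ⟨1, 6, 10, 5⟩⟩) (by decide +kernel)

def tB12_v2m : PosD ⟨⟨0, 1, 1⟩, ⟨98, 99, 147⟩, ⟨300, 563, 10000⟩, ⟨2757, 3278, 1000⟩⟩ (tB12.hV2m) :=
  posD_of_check (c := ⟨229, ⟨0, 5, 10, 4⟩⟩) (by decide +kernel)

def tB12_v3p : PosD ⟨⟨0, 1, 1⟩, ⟨98, 99, 147⟩, ⟨300, 563, 10000⟩, ⟨2757, 3278, 1000⟩⟩ (tB12.hV3p) :=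
  posD_of_check (c := ⟨247, ⟨1, 6, 9, 5⟩⟩) (by decide +kernel)

def tB12_v3m : PosD ⟨⟨0, 1, 1⟩, ⟨98, 99, 147⟩, ⟨300, 563, 10000⟩, ⟨2757, 3278, 1000⟩⟩ (tB12.hV3m) :=
  posD_of_check (c := ⟨221, ⟨0, 5, 9, 4⟩⟩) (by decide +kernel)

def tB12_kap0 : PosD ⟨⟨0, 1, 1⟩, ⟨98, 99, 147⟩, ⟨300, 563, 10000⟩, ⟨2757, 3278, 1000⟩⟩ (tB12.kap false) :=
  posD_of_check (c := ⟨71, ⟨1, 1, 2, 2⟩⟩) (by decide +kernel)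

def tB12_c10 : PosD ⟨⟨0, 1, 1⟩, ⟨98, 99, 147⟩, ⟨300, 563, 10000⟩, ⟨2757, 3278, 1000⟩⟩ (tB12.hC1 false) :=
  posD_of_check (c := ⟨269, ⟨3, 5, 9, 7⟩⟩) (by decide +kernel)

def tB12_c1h0a : PosD ⟨⟨0, 1, 1⟩, ⟨98, 99, 147⟩, ⟨300, 563, 10000⟩, ⟨2757, 3017, 1000⟩⟩ (tB12.hC1' false) :=
  posD_of_check (c := ⟨269, ⟨3, 5, 9, 7⟩⟩) (by decide +kernel)

def tB12_c1h0ba : PosD ⟨⟨0, 1, 1⟩, ⟨98, 99, 147⟩, ⟨300, 563, 10000⟩, ⟨3017, 3147, 1000⟩⟩ (tB12.hC1' false) :=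
  posD_of_check (c := ⟨269, ⟨3, 5, 9, 7⟩⟩) (by decide +kernel)

def tB12_c1h0bba : PosD ⟨⟨0, 1, 1⟩, ⟨98, 99, 147⟩, ⟨300, 563, 10000⟩, ⟨3147, 3212, 1000⟩⟩ (tB12.hC1' false) :=
  posD_of_check (c := ⟨269, ⟨3, 5, 9, 7⟩⟩) (by decide +kernel)

def tB12_c1h0bbb : PosD ⟨⟨0, 1, 1⟩, ⟨98, 99, 147⟩, ⟨300, 563, 10000⟩, ⟨3212, 3278, 1000⟩⟩ (tB12.hC1' false) :=
  posD_of_relax (k₁ := 0) (k₂ := 99) (k₃ := 0) (n := 16) (posD_of_check (c := ⟨269, ⟨3, 5, 9, 7⟩⟩) (by decide +kernel))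

def tB12_c1h0bb : PosD ⟨⟨0, 1, 1⟩, ⟨98, 99, 147⟩, ⟨300, 563, 10000⟩, ⟨3147, 3278, 1000⟩⟩ (tB12.hC1' false) :=
  posD_join₃ tB12_c1h0bba tB12_c1h0bbb

def tB12_c1h0b : PosD ⟨⟨0, 1, 1⟩, ⟨98, 99, 147⟩, ⟨300, 563, 10000⟩, ⟨3017, 3278, 1000⟩⟩ (tB12.hC1' false) :=
  posD_join₃ tB12_c1h0ba tB12_c1h0bb

def tB12_c1h0 : PosD ⟨⟨0, 1, 1⟩, ⟨98, 99, 147⟩, ⟨300, 563, 10000⟩, ⟨2757, 3278, 1000⟩⟩ (tB12.hC1' false) :=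
  posD_join₃ tB12_c1h0a tB12_c1h0b

def tB12_tg00 : PosD ⟨⟨0, 1, 1⟩, ⟨98, 99, 147⟩, ⟨300, 563, 10000⟩, ⟨2757, 3278, 1000⟩⟩ (tB12.hG false (tB12.pEnd false)) :=
  posD_of_check (c := ⟨374, ⟨2, 7, 14, 9⟩⟩) (by decide +kernel)

def tB12_c2p00 : PosD ⟨⟨0, 1, 1⟩, ⟨98, 99, 147⟩, ⟨300, 563, 10000⟩, ⟨2757, 3278, 1000⟩⟩ (tB12.hC2p false (tB12.pEnd false)) :=
  posD_of_check (c := ⟨439, ⟨3, 8, 16, 11⟩⟩) (by decide +kernel)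

def tB12_c2m00 : PosD ⟨⟨0, 1, 1⟩, ⟨98, 99, 147⟩, ⟨300, 563, 10000⟩, ⟨2757, 3278, 1000⟩⟩ (tB12.hC2m false (tB12.pEnd false)) :=
  posD_of_check (c := ⟨410, ⟨2, 7, 16, 10⟩⟩) (by decide +kernel)

def tB12_c3p00 : PosD ⟨⟨0, 1, 1⟩, ⟨98, 99, 147⟩, ⟨300, 563, 10000⟩, ⟨2757, 3278, 1000⟩⟩ (tB12.hC3p false false) :=
  posD_of_check (c := ⟨433, ⟨3, 8, 15, 11⟩⟩) (by decide +kernel)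

def tB12_c3m00 : PosD ⟨⟨0, 1, 1⟩, ⟨98, 99, 147⟩, ⟨300, 563, 10000⟩, ⟨2757, 3278, 1000⟩⟩ (tB12.hC3m false false) :=
  posD_of_check (c := ⟨409, ⟨3, 7, 15, 10⟩⟩) (by decide +kernel)

def tB12_c3ph00 : PosD ⟨⟨0, 1, 1⟩, ⟨98, 99, 147⟩, ⟨300, 563, 10000⟩, ⟨2757, 3278, 1000⟩⟩ (tB12.hC3p' false false) :=
  posD_of_check (c := ⟨433, ⟨3, 8, 15, 11⟩⟩) (by decide +kernel)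

def tB12_c3mh00 : PosD ⟨⟨0, 1, 1⟩, ⟨98, 99, 147⟩, ⟨300, 563, 10000⟩, ⟨2757, 3278, 1000⟩⟩ (tB12.hC3m' false false) :=
  posD_of_check (c := ⟨409, ⟨3, 7, 15, 10⟩⟩) (by decide +kernel)

def tB12_up00 : PosD ⟨⟨0, 1, 1⟩, ⟨98, 99, 147⟩, ⟨300, 563, 10000⟩, ⟨2757, 3278, 1000⟩⟩ (tB12.hUp false false) :=
  posD_of_check (c := ⟨429, ⟨3, 8, 15, 11⟩⟩) (by decide +kernel)

def tB12_um00 : PosD ⟨⟨0, 1, 1⟩, ⟨98, 99, 147⟩, ⟨300, 563, 10000⟩, ⟨2757, 3278, 1000⟩⟩ (tB12.hUm false false) :=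
  posD_of_check (c := ⟨403, ⟨2, 7, 15, 10⟩⟩) (by decide +kernel)

def tB12_tmg00 : PosD ⟨⟨0, 1, 1⟩, ⟨98, 99, 147⟩, ⟨300, 563, 10000⟩, ⟨2757, 3278, 1000⟩⟩ (tB12.hTMG false (tB12.pEnd false)) :=
  posD_of_check (c := ⟨388, ⟨2, 7, 14, 10⟩⟩) (by decide +kernel)

def tB12_tg01 : PosD ⟨⟨0, 1, 1⟩, ⟨98, 99, 147⟩, ⟨300, 563, 10000⟩, ⟨2757, 3278, 1000⟩⟩ (tB12.hG true (tB12.pEnd false)) :=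
  posD_of_check (c := ⟨374, ⟨2, 7, 14, 9⟩⟩) (by decide +kernel)

def tB12_c2p01 : PosD ⟨⟨0, 1, 1⟩, ⟨98, 99, 147⟩, ⟨300, 563, 10000⟩, ⟨2757, 3278, 1000⟩⟩ (tB12.hC2p true (tB12.pEnd false)) :=
  posD_of_check (c := ⟨439, ⟨3, 8, 16, 11⟩⟩) (by decide +kernel)

def tB12_c2m01 : PosD ⟨⟨0, 1, 1⟩, ⟨98, 99, 147⟩, ⟨300, 563, 10000⟩, ⟨2757, 3278, 1000⟩⟩ (tB12.hC2m true (tB12.pEnd false)) :=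
  posD_of_check (c := ⟨410, ⟨2, 7, 16, 10⟩⟩) (by decide +kernel)

def tB12_c3p01 : PosD ⟨⟨0, 1, 1⟩, ⟨98, 99, 147⟩, ⟨300, 563, 10000⟩, ⟨2757, 3278, 1000⟩⟩ (tB12.hC3p false true) :=
  posD_of_check (c := ⟨433, ⟨3, 8, 15, 11⟩⟩) (by decide +kernel)

def tB12_c3m01 : PosD ⟨⟨0, 1, 1⟩, ⟨98, 99, 147⟩, ⟨300, 563, 10000⟩, ⟨2757, 3278, 1000⟩⟩ (tB12.hC3m false true) :=
  posD_of_check (c := ⟨409, ⟨3, 7, 15, 10⟩⟩) (by decide +kernel)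

def tB12_c3ph01 : PosD ⟨⟨0, 1, 1⟩, ⟨98, 99, 147⟩, ⟨300, 563, 10000⟩, ⟨2757, 3278, 1000⟩⟩ (tB12.hC3p' false true) :=
  posD_of_check (c := ⟨433, ⟨3, 8, 15, 11⟩⟩) (by decide +kernel)

def tB12_c3mh01 : PosD ⟨⟨0, 1, 1⟩, ⟨98, 99, 147⟩, ⟨300, 563, 10000⟩, ⟨2757, 3278, 1000⟩⟩ (tB12.hC3m' false true) :=
  posD_of_check (c := ⟨409, ⟨3, 7, 15, 10⟩⟩) (by decide +kernel)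

def tB12_up01 : PosD ⟨⟨0, 1, 1⟩, ⟨98, 99, 147⟩, ⟨300, 563, 10000⟩, ⟨2757, 3278, 1000⟩⟩ (tB12.hUp false true) :=
  posD_of_check (c := ⟨429, ⟨3, 8, 15, 11⟩⟩) (by decide +kernel)

def tB12_um01 : PosD ⟨⟨0, 1, 1⟩, ⟨98, 99, 147⟩, ⟨300, 563, 10000⟩, ⟨2757, 3278, 1000⟩⟩ (tB12.hUm false true) :=
  posD_of_check (c := ⟨403, ⟨2, 7, 15, 10⟩⟩) (by decide +kernel)

def tB12_tmg01 : PosD ⟨⟨0, 1, 1⟩, ⟨98, 99, 147⟩, ⟨300, 563, 10000⟩, ⟨2757, 3278, 1000⟩⟩ (tB12.hTMG true (tB12.pEnd false)) :=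
  posD_of_check (c := ⟨388, ⟨2, 7, 14, 10⟩⟩) (by decide +kernel)

def tB12_kap1 : PosD ⟨⟨0, 1, 1⟩, ⟨98, 99, 147⟩, ⟨300, 563, 10000⟩, ⟨2757, 3278, 1000⟩⟩ (tB12.kap true) :=
  posD_of_check (c := ⟨68, ⟨1, 1, 2, 2⟩⟩) (by decide +kernel)

def tB12_c11 : PosD ⟨⟨0, 1, 1⟩, ⟨98, 99, 147⟩, ⟨300, 563, 10000⟩, ⟨2757, 3278, 1000⟩⟩ (tB12.hC1 true) :=
  posD_of_check (c := ⟨267, ⟨3, 5, 9, 7⟩⟩) (by decide +kernel)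

def tB12_c1h1a : PosD ⟨⟨0, 1, 2⟩, ⟨98, 99, 147⟩, ⟨300, 563, 10000⟩, ⟨2757, 3278, 1000⟩⟩ (tB12.hC1' true) :=
  posD_of_check (c := ⟨267, ⟨3, 5, 9, 7⟩⟩) (by decide +kernel)

def tB12_c1h1ba : PosD ⟨⟨1, 2, 2⟩, ⟨98, 99, 147⟩, ⟨300, 563, 10000⟩, ⟨2757, 3017, 1000⟩⟩ (tB12.hC1' true) :=
  posD_of_check (c := ⟨268, ⟨3, 5, 9, 7⟩⟩) (by decide +kernel)

def tB12_c1h1bba : PosD ⟨⟨1, 2, 2⟩, ⟨98, 99, 147⟩, ⟨300, 563, 10000⟩, ⟨3017, 3147, 1000⟩⟩ (tB12.hC1' true) :=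
  posD_of_check (c := ⟨269, ⟨3, 5, 9, 7⟩⟩) (by decide +kernel)

def tB12_c1h1bbba : PosD ⟨⟨1, 2, 2⟩, ⟨98, 99, 147⟩, ⟨300, 563, 10000⟩, ⟨3147, 3212, 1000⟩⟩ (tB12.hC1' true) :=
  posD_of_check (c := ⟨269, ⟨3, 5, 9, 7⟩⟩) (by decide +kernel)

def tB12_c1h1bbbba : PosD ⟨⟨1, 2, 2⟩, ⟨98, 99, 147⟩, ⟨300, 563, 10000⟩, ⟨3212, 3245, 1000⟩⟩ (tB12.hC1' true) :=
  posD_of_check (c := ⟨269, ⟨3, 5, 9, 7⟩⟩) (by decide +kernel)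

def tB12_c1h1bbbbb : PosD ⟨⟨1, 2, 2⟩, ⟨98, 99, 147⟩, ⟨300, 563, 10000⟩, ⟨3245, 3278, 1000⟩⟩ (tB12.hC1' true) :=
  posD_of_relax (k₁ := 0) (k₂ := 113) (k₃ := 0) (n := 16) (posD_of_check (c := ⟨269, ⟨3, 5, 9, 7⟩⟩) (by decide +kernel))

def tB12_c1h1bbbb : PosD ⟨⟨1, 2, 2⟩, ⟨98, 99, 147⟩, ⟨300, 563, 10000⟩, ⟨3212, 3278, 1000⟩⟩ (tB12.hC1' true) :=
  posD_join₃ tB12_c1h1bbbba tB12_c1h1bbbbb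

def tB12_c1h1bbb : PosD ⟨⟨1, 2, 2⟩, ⟨98, 99, 147⟩, ⟨300, 563, 10000⟩, ⟨3147, 3278, 1000⟩⟩ (tB12.hC1' true) :=
  posD_join₃ tB12_c1h1bbba tB12_c1h1bbbb

def tB12_c1h1bb : PosD ⟨⟨1, 2, 2⟩, ⟨98, 99, 147⟩, ⟨300, 563, 10000⟩, ⟨3017, 3278, 1000⟩⟩ (tB12.hC1' true) :=
  posD_join₃ tB12_c1h1bba tB12_c1h1bbb

def tB12_c1h1b : PosD ⟨⟨1, 2, 2⟩, ⟨98, 99, 147⟩, ⟨300, 563, 10000⟩, ⟨2757, 3278, 1000⟩⟩ (tB12.hC1' true) :=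
  posD_join₃ tB12_c1h1ba tB12_c1h1bb

def tB12_c1h1 : PosD ⟨⟨0, 1, 1⟩, ⟨98, 99, 147⟩, ⟨300, 563, 10000⟩, ⟨2757, 3278, 1000⟩⟩ (tB12.hC1' true) :=
  posD_units (b := ⟨⟨0, 2, 2⟩, ⟨98, 99, 147⟩, ⟨300, 563, 10000⟩, ⟨2757, 3278, 1000⟩⟩) (by decide +kernel) (posD_join₀ tB12_c1h1a tB12_c1h1b)

def tB12_tg10 : PosD ⟨⟨0, 1, 1⟩, ⟨98, 99, 147⟩, ⟨300, 563, 10000⟩, ⟨2757, 3278, 1000⟩⟩ (tB12.hG false (tB12.pEnd true)) :=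
  posD_of_check (c := ⟨374, ⟨2, 7, 14, 9⟩⟩) (by decide +kernel)

def tB12_c2p10 : PosD ⟨⟨0, 1, 1⟩, ⟨98, 99, 147⟩, ⟨300, 563, 10000⟩, ⟨2757, 3278, 1000⟩⟩ (tB12.hC2p false (tB12.pEnd true)) :=
  posD_of_check (c := ⟨439, ⟨3, 8, 16, 11⟩⟩) (by decide +kernel)

def tB12_c2m10 : PosD ⟨⟨0, 1, 1⟩, ⟨98, 99, 147⟩, ⟨300, 563, 10000⟩, ⟨2757, 3278, 1000⟩⟩ (tB12.hC2m false (tB12.pEnd true)) :=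
  posD_of_check (c := ⟨410, ⟨2, 7, 16, 10⟩⟩) (by decide +kernel)

def tB12_c3p10 : PosD ⟨⟨0, 1, 1⟩, ⟨98, 99, 147⟩, ⟨300, 563, 10000⟩, ⟨2757, 3278, 1000⟩⟩ (tB12.hC3p true false) :=
  posD_of_check (c := ⟨431, ⟨3, 8, 15, 11⟩⟩) (by decide +kernel)

def tB12_c3m10 : PosD ⟨⟨0, 1, 1⟩, ⟨98, 99, 147⟩, ⟨300, 563, 10000⟩, ⟨2757, 3278, 1000⟩⟩ (tB12.hC3m true false) :=
  posD_of_check (c := ⟨406, ⟨3, 7, 15, 10⟩⟩) (by decide +kernel)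

def tB12_c3ph10 : PosD ⟨⟨0, 1, 1⟩, ⟨98, 99, 147⟩, ⟨300, 563, 10000⟩, ⟨2757, 3278, 1000⟩⟩ (tB12.hC3p' true false) :=
  posD_of_check (c := ⟨431, ⟨3, 8, 15, 11⟩⟩) (by decide +kernel)

def tB12_c3mh10 : PosD ⟨⟨0, 1, 1⟩, ⟨98, 99, 147⟩, ⟨300, 563, 10000⟩, ⟨2757, 3278, 1000⟩⟩ (tB12.hC3m' true false) :=
  posD_of_check (c := ⟨406, ⟨3, 7, 15, 10⟩⟩) (by decide +kernel)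

def tB12_up10 : PosD ⟨⟨0, 1, 1⟩, ⟨98, 99, 147⟩, ⟨300, 563, 10000⟩, ⟨2757, 3278, 1000⟩⟩ (tB12.hUp true false) :=
  posD_of_check (c := ⟨429, ⟨3, 8, 15, 11⟩⟩) (by decide +kernel)

def tB12_um10 : PosD ⟨⟨0, 1, 1⟩, ⟨98, 99, 147⟩, ⟨300, 563, 10000⟩, ⟨2757, 3278, 1000⟩⟩ (tB12.hUm true false) :=
  posD_of_check (c := ⟨403, ⟨2, 7, 15, 10⟩⟩) (by decide +kernel)

def tB12_tmg10 : PosD ⟨⟨0, 1, 1⟩, ⟨98, 99, 147⟩, ⟨300, 563, 10000⟩, ⟨2757, 3278, 1000⟩⟩ (tB12.hTMG false (tB12.pEnd true)) :=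
  posD_of_check (c := ⟨388, ⟨2, 7, 14, 10⟩⟩) (by decide +kernel)

def tB12_tg11 : PosD ⟨⟨0, 1, 1⟩, ⟨98, 99, 147⟩, ⟨300, 563, 10000⟩, ⟨2757, 3278, 1000⟩⟩ (tB12.hG true (tB12.pEnd true)) :=
  posD_of_check (c := ⟨374, ⟨2, 7, 14, 9⟩⟩) (by decide +kernel)

def tB12_c2p11 : PosD ⟨⟨0, 1, 1⟩, ⟨98, 99, 147⟩, ⟨300, 563, 10000⟩, ⟨2757, 3278, 1000⟩⟩ (tB12.hC2p true (tB12.pEnd true)) :=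
  posD_of_check (c := ⟨439, ⟨3, 8, 16, 11⟩⟩) (by decide +kernel)

def tB12_c2m11 : PosD ⟨⟨0, 1, 1⟩, ⟨98, 99, 147⟩, ⟨300, 563, 10000⟩, ⟨2757, 3278, 1000⟩⟩ (tB12.hC2m true (tB12.pEnd true)) :=
  posD_of_check (c := ⟨410, ⟨2, 7, 16, 10⟩⟩) (by decide +kernel)

def tB12_c3p11 : PosD ⟨⟨0, 1, 1⟩, ⟨98, 99, 147⟩, ⟨300, 563, 10000⟩, ⟨2757, 3278, 1000⟩⟩ (tB12.hC3p true true) :=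
  posD_of_check (c := ⟨431, ⟨3, 8, 15, 11⟩⟩) (by decide +kernel)

def tB12_c3m11 : PosD ⟨⟨0, 1, 1⟩, ⟨98, 99, 147⟩, ⟨300, 563, 10000⟩, ⟨2757, 3278, 1000⟩⟩ (tB12.hC3m true true) :=
  posD_of_check (c := ⟨406, ⟨3, 7, 15, 10⟩⟩) (by decide +kernel)

def tB12_c3ph11 : PosD ⟨⟨0, 1, 1⟩, ⟨98, 99, 147⟩, ⟨300, 563, 10000⟩, ⟨2757, 3278, 1000⟩⟩ (tB12.hC3p' true true) :=
  posD_of_check (c := ⟨431, ⟨3, 8, 15, 11⟩⟩) (by decide +kernel)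

def tB12_c3mh11 : PosD ⟨⟨0, 1, 1⟩, ⟨98, 99, 147⟩, ⟨300, 563, 10000⟩, ⟨2757, 3278, 1000⟩⟩ (tB12.hC3m' true true) :=
  posD_of_check (c := ⟨406, ⟨3, 7, 15, 10⟩⟩) (by decide +kernel)

def tB12_up11 : PosD ⟨⟨0, 1, 1⟩, ⟨98, 99, 147⟩, ⟨300, 563, 10000⟩, ⟨2757, 3278, 1000⟩⟩ (tB12.hUp true true) :=
  posD_of_check (c := ⟨429, ⟨3, 8, 15, 11⟩⟩) (by decide +kernel)

def tB12_um11 : PosD ⟨⟨0, 1, 1⟩, ⟨98, 99, 147⟩, ⟨300, 563, 10000⟩, ⟨2757, 3278, 1000⟩⟩ (tB12.hUm true true) :=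
  posD_of_check (c := ⟨403, ⟨2, 7, 15, 10⟩⟩) (by decide +kernel)

def tB12_tmg11 : PosD ⟨⟨0, 1, 1⟩, ⟨98, 99, 147⟩, ⟨300, 563, 10000⟩, ⟨2757, 3278, 1000⟩⟩ (tB12.hTMG true (tB12.pEnd true)) :=
  posD_of_check (c := ⟨388, ⟨2, 7, 14, 10⟩⟩) (by decide +kernel)

/-- The signs of the piece. -/
def tB12_sign : tB12.Sign ⟨⟨0, 1, 1⟩, ⟨98, 99, 147⟩, ⟨300, 563, 10000⟩, ⟨2757, 3278, 1000⟩⟩ :=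
  ⟨tB12_pp,
    tB12_k2p,
    tB12_k2m,
    Bool.forall_bool.2 ⟨(Bool.forall_bool.2 ⟨tB12_tg00, tB12_tg01⟩), (Bool.forall_bool.2 ⟨tB12_tg10, tB12_tg11⟩)⟩,
    Bool.forall_bool.2 ⟨(Bool.forall_bool.2 ⟨tB12_c2p00, tB12_c2p01⟩), (Bool.forall_bool.2 ⟨tB12_c2p10, tB12_c2p11⟩)⟩,
    Bool.forall_bool.2 ⟨(Bool.forall_bool.2 ⟨tB12_c2m00, tB12_c2m01⟩), (Bool.forall_bool.2 ⟨tB12_c2m10, tB12_c2m11⟩)⟩,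
    Bool.forall_bool.2 ⟨tB12_kap0, tB12_kap1⟩,
    Bool.forall_bool.2 ⟨tB12_c10, tB12_c11⟩,
    Bool.forall_bool.2 ⟨(Bool.forall_bool.2 ⟨tB12_c3p00, tB12_c3p01⟩), (Bool.forall_bool.2 ⟨tB12_c3p10, tB12_c3p11⟩)⟩,
    Bool.forall_bool.2 ⟨(Bool.forall_bool.2 ⟨tB12_c3m00, tB12_c3m01⟩), (Bool.forall_bool.2 ⟨tB12_c3m10, tB12_c3m11⟩)⟩,
    Bool.forall_bool.2 ⟨(Bool.forall_bool.2 ⟨tB12_tmg00, tB12_tmg01⟩), (Bool.forall_bool.2 ⟨tB12_tmg10, tB12_tmg11⟩)⟩,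
    .inr (Bool.forall_bool.2 ⟨⟨tB12_c1h0, Bool.forall_bool.2 ⟨⟨tB12_c3ph00, tB12_c3mh00, tB12_up00, tB12_um00⟩, ⟨tB12_c3ph01, tB12_c3mh01, tB12_up01, tB12_um01⟩⟩⟩, ⟨tB12_c1h1, Bool.forall_bool.2 ⟨⟨tB12_c3ph10, tB12_c3mh10, tB12_up10, tB12_um10⟩, ⟨tB12_c3ph11, tB12_c3mh11, tB12_up11, tB12_um11⟩⟩⟩⟩),
    tB12_v2p,
    tB12_v2m,
    tB12_v3p,
    tB12_v3m,
    posD_sub (b := ⟨⟨0, 1, 1⟩, ⟨98, 99, 147⟩, ⟨300, 1351, 10000⟩, ⟨290, 4000, 1000⟩⟩) (by decide +kernel) tB_vG,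
    posD_sub (b := ⟨⟨0, 1, 1⟩, ⟨98, 99, 147⟩, ⟨300, 1351, 10000⟩, ⟨290, 4000, 1000⟩⟩) (by decide +kernel) tB_vMG,
    posD_sub (b := ⟨⟨0, 1, 1⟩, ⟨98, 99, 147⟩, ⟨300, 1351, 10000⟩, ⟨290, 4000, 1000⟩⟩) (by decide +kernel) tB_ak,
    posD_sub (b := ⟨⟨0, 1, 1⟩, ⟨98, 99, 147⟩, ⟨300, 1351, 10000⟩, ⟨290, 4000, 1000⟩⟩) (by decide +kernel) tB_aw,
    posD_sub (b := ⟨⟨0, 1, 1⟩, ⟨98, 99, 147⟩, ⟨300, 1351, 10000⟩, ⟨290, 4000, 1000⟩⟩) (by decide +kernel) tB_gk,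
    posD_sub (b := ⟨⟨0, 1, 1⟩, ⟨98, 99, 147⟩, ⟨300, 1351, 10000⟩, ⟨290, 4000, 1000⟩⟩) (by decide +kernel) tB_gw,
    posD_sub (b := ⟨⟨0, 1, 1⟩, ⟨98, 99, 147⟩, ⟨300, 1351, 10000⟩, ⟨290, 4000, 1000⟩⟩) (by decide +kernel) tB_ek,
    posD_sub (b := ⟨⟨0, 1, 1⟩, ⟨98, 99, 147⟩, ⟨300, 1351, 10000⟩, ⟨290, 4000, 1000⟩⟩) (by decide +kernel) tB_ew⟩

end Vale.Agent.P100.Calib.Closed.Six.Tail
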