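import Vale.Agent.P100.Calib.SlabSixTailCorner
import Vale.Agent.P100.Calib.SlabSixTailCheckstB0
import Vale.Agent.P100.Calib.SlabSixTailCheckstB1
import Vale.Agent.P100.Calib.SlabSixTailCheckstB2
import Vale.Agent.P100.Calib.SlabSixTailCheckstB3
import Vale.Agent.P100.Calib.SlabSixTailCheckstB4
import Vale.Agent.P100.Calib.SlabSixTailCheckstB5
import Vale.Agent.P100.Calib.SlabSixTailCheckstB6
import Vale.Agent.P100.Calib.SlabSixTailCheckstB7
import Vale.Agent.P100.Calib.SlabSixTailCheckstB8
import Vale.Agent.P100.Calib.SlabSixTailCheckstB9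
import Vale.Agent.P100.Calib.SlabSixTailCheckstB10
import Vale.Agent.P100.Calib.SlabSixTailCheckstB11
import Vale.Agent.P100.Calib.SlabSixTailCheckstB12
import Vale.Agent.P100.Calib.SlabSixTailCheckstB13
import Vale.Agent.P100.Calib.SlabSixTailCheckstB14
import Vale.Agent.P100.Calib.SlabSixTailCheckstB15
import Vale.Agent.P100.Calib.SlabSixTailCheckstB16

/-!
# The closed signs of dimension six on one part of the tail
-/

set_option linter.unusedVariables false

namespace Vale.Agent.P100.Calib.Closed.Six.Tail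

open BoxPos Large
local instance sixTailMainBAdd : Add Ex := ⟨Ex.add⟩
local instance sixTailMainBSub : Sub Ex := ⟨Ex.sub⟩
local instance sixTailMainBMul : Mul Ex := ⟨Ex.mul⟩

theorem tB0_ok {d S u v t : ℝ} (hB : Six.ChartBox d S) (hd : 0 < d) (hS0 : 0 < S) (T : Pt d S u v t)
    (md : Side.Mem ⟨300, 1351, 10000⟩ d) (mv : Side.Mem ⟨290, 550, 1000⟩ v) (hul : (3 / 5 : ℝ) < u) (huh : u ≤ (4 / 5 : ℝ))
    (hphi : v < Six.bandsB.phi d u) (hlow : lowT d u < t)
    (hup : t < Six.bandsB.up d u + Six.bandsB.tilt d u * v) :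
    Six.ChartSigns d S u v t := by
  have mS := T.S_mem
  exact piece_signs tB0_env tB0_sign (by decide +kernel) T
    ⟨rfl, mS, md, mv, by decide +kernel, by decide +kernel, by norm_num [tB0, ex_add, ex_sub, ex_mul, Ex.val]; linarith, by norm_num [tB0, ex_add, ex_sub, ex_mul, Ex.val]; linarith,
      fun o mo hx => by
        have hD := tB0_env.den false o S d v mo mS md mv T.dom
        have hD' := tB0_env.den true o S d v mo mS md mv T.dom
        exact ⟨lowT_le hx hD hlow, upB_le hx hD' hup⟩⟩

theorem tB1_ok {d S u v t : ℝ} (hB : Six.ChartBox d S) (hd : 0 < d) (hS0 : 0 < S) (T : Pt d S u v t)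
    (md : Side.Mem ⟨300, 1351, 10000⟩ d) (mv : Side.Mem ⟨550, 900, 1000⟩ v) (hul : (3 / 5 : ℝ) < u) (huh : u ≤ (4 / 5 : ℝ))
    (hphi : v < Six.bandsB.phi d u) (hlow : lowT d u < t)
    (hup : t < Six.bandsB.up d u + Six.bandsB.tilt d u * v) :
    Six.ChartSigns d S u v t := by
  have mS := T.S_mem
  exact piece_signs tB1_env tB1_sign (by decide +kernel) T
    ⟨rfl, mS, md, mv, by decide +kernel, by decide +kernel, by norm_num [tB1, ex_add, ex_sub, ex_mul, Ex.val]; linarith, by norm_num [tB1, ex_add, ex_sub, ex_mul, Ex.val]; linarith,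
      fun o mo hx => by
        have hD := tB1_env.den false o S d v mo mS md mv T.dom
        have hD' := tB1_env.den true o S d v mo mS md mv T.dom
        exact ⟨lowT_le hx hD hlow, upB_le hx hD' hup⟩⟩

theorem tB10_ok {d S u v t : ℝ} (hB : Six.ChartBox d S) (hd : 0 < d) (hS0 : 0 < S) (T : Pt d S u v t)
    (md : Side.Mem ⟨300, 1351, 10000⟩ d) (mv : Side.Mem ⟨1900, 4000, 1000⟩ v) (hul : (4 / 5 : ℝ) < u) (huh : u ≤ (71 / 80 : ℝ))
    (hphi : v < Six.bandsB.phi d u) (hlow : lowT d u < t)
    (hup : t < Six.bandsB.up d u + Six.bandsB.tilt d u * v) :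
    Six.ChartSigns d S u v t := by
  have mS := T.S_mem
  have hl : tB10Lo.val 0 S d v < u := by norm_num [tB10Lo, ex_add, ex_sub, ex_mul, Ex.val]; linarith
  have hh : u ≤ tB10Hi.val 0 S d v := by norm_num [tB10Hi, ex_add, ex_sub, ex_mul, Ex.val]; linarith
  obtain ⟨o, mo, hx⟩ := place (by decide +kernel) (by decide +kernel) hl hh
  exact (phB_false hx (tB10_phx o S d v mo mS md mv T.dom) (tB10_phd o S d v mo mS md mv T.dom) hphi).elim

theorem tB11_ok {d S u v t : ℝ} (hB : Six.ChartBox d S) (hd : 0 < d) (hS0 : 0 < S) (T : Pt d S u v t)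
    (md : Side.Mem ⟨300, 563, 10000⟩ d) (mv : Side.Mem ⟨1900, 2757, 1000⟩ v) (hul : (71 / 80 : ℝ) < u) (huh : u ≤ (39 / 40 : ℝ))
    (hphi : v < Six.bandsB.phi d u) (hlow : lowT d u < t)
    (hup : t < Six.bandsB.up d u + Six.bandsB.tilt d u * v) :
    Six.ChartSigns d S u v t := by
  have mS := T.S_mem
  have hlo : tB11.u₁.val 0 S d v < u := by
    by_contra hne
    have hh := not_lt.1 hne
    have hl : tB11Lo.val 0 S d v < u := by norm_num [tB11Lo, ex_add, ex_sub, ex_mul, Ex.val]; linarith
    obtain ⟨o, mo, hx⟩ := place (U := tB11.u₁) (L := tB11Lo) (by decide +kernel) (by decide +kernel) hl hh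
    have hg : 0 < (tB11.u₁ - tB11Lo).val o S d v := by
      simp only [ex_sub, Ex.val, val_noO (e := tB11.u₁) (by decide +kernel) o 0, val_noO (e := tB11Lo) (by decide +kernel) o 0]
      linarith
    exact phB_false hx (tB11_phx o S d v mo mS md mv T.dom hg) (tB11_phd o S d v mo mS md mv T.dom) hphi
  exact piece_signs tB11_env tB11_sign (by decide +kernel) T
    ⟨rfl, mS, md, mv, by decide +kernel, by decide +kernel, hlo, by norm_num [tB11, ex_add, ex_sub, ex_mul, Ex.val]; linarith,
      fun o mo hx => by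
        have hD := tB11_env.den false o S d v mo mS md mv T.dom
        have hD' := tB11_env.den true o S d v mo mS md mv T.dom
        exact ⟨lowT_le hx hD hlow, upB_le hx hD' hup⟩⟩

theorem tB12_ok {d S u v t : ℝ} (hB : Six.ChartBox d S) (hd : 0 < d) (hS0 : 0 < S) (T : Pt d S u v t)
    (md : Side.Mem ⟨300, 563, 10000⟩ d) (mv : Side.Mem ⟨2757, 3278, 1000⟩ v) (hul : (71 / 80 : ℝ) < u) (huh : u ≤ (39 / 40 : ℝ))
    (hphi : v < Six.bandsB.phi d u) (hlow : lowT d u < t)
    (hup : t < Six.bandsB.up d u + Six.bandsB.tilt d u * v) :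
    Six.ChartSigns d S u v t := by
  have mS := T.S_mem
  have hlo : tB12.u₁.val 0 S d v < u := by
    by_contra hne
    have hh := not_lt.1 hne
    have hl : tB12Lo.val 0 S d v < u := by norm_num [tB12Lo, ex_add, ex_sub, ex_mul, Ex.val]; linarith
    obtain ⟨o, mo, hx⟩ := place (U := tB12.u₁) (L := tB12Lo) (by decide +kernel) (by decide +kernel) hl hh
    have hg : 0 < (tB12.u₁ - tB12Lo).val o S d v := by
      simp only [ex_sub, Ex.val, val_noO (e := tB12.u₁) (by decide +kernel) o 0, val_noO (e := tB12Lo) (by decide +kernel) o 0]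
      linarith
    exact phB_false hx (tB12_phx o S d v mo mS md mv T.dom hg) (tB12_phd o S d v mo mS md mv T.dom) hphi
  exact piece_signs tB12_env tB12_sign (by decide +kernel) T
    ⟨rfl, mS, md, mv, by decide +kernel, by decide +kernel, hlo, by norm_num [tB12, ex_add, ex_sub, ex_mul, Ex.val]; linarith,
      fun o mo hx => by
        have hD := tB12_env.den false o S d v mo mS md mv T.dom
        have hD' := tB12_env.den true o S d v mo mS md mv T.dom
        exact ⟨lowT_le hx hD hlow, evU tB12_env.p0 tB12_env.gn rfl rfl mo mS md mv T hx⟩⟩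

theorem tB13_ok {d S u v t : ℝ} (hB : Six.ChartBox d S) (hd : 0 < d) (hS0 : 0 < S) (T : Pt d S u v t)
    (md : Side.Mem ⟨563, 825, 10000⟩ d) (mv : Side.Mem ⟨1900, 2289, 1000⟩ v) (hul : (71 / 80 : ℝ) < u) (huh : u ≤ (39 / 40 : ℝ))
    (hphi : v < Six.bandsB.phi d u) (hlow : lowT d u < t)
    (hup : t < Six.bandsB.up d u + Six.bandsB.tilt d u * v) :
    Six.ChartSigns d S u v t := by
  have mS := T.S_mem
  have hlo : tB13.u₁.val 0 S d v < u := by
    by_contra hne
    have hh := not_lt.1 hne
    have hl : tB13Lo.val 0 S d v < u := by norm_num [tB13Lo, ex_add, ex_sub, ex_mul, Ex.val]; linarith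
    obtain ⟨o, mo, hx⟩ := place (U := tB13.u₁) (L := tB13Lo) (by decide +kernel) (by decide +kernel) hl hh
    have hg : 0 < (tB13.u₁ - tB13Lo).val o S d v := by
      simp only [ex_sub, Ex.val, val_noO (e := tB13.u₁) (by decide +kernel) o 0, val_noO (e := tB13Lo) (by decide +kernel) o 0]
      linarith
    exact phB_false hx (tB13_phx o S d v mo mS md mv T.dom hg) (tB13_phd o S d v mo mS md mv T.dom) hphi
  exact piece_signs tB13_env tB13_sign (by decide +kernel) T
    ⟨rfl, mS, md, mv, by decide +kernel, by decide +kernel, hlo, by norm_num [tB13, ex_add, ex_sub, ex_mul, Ex.val]; linarith,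
      fun o mo hx => by
        have hD := tB13_env.den false o S d v mo mS md mv T.dom
        have hD' := tB13_env.den true o S d v mo mS md mv T.dom
        exact ⟨lowT_le hx hD hlow, upB_le hx hD' hup⟩⟩

theorem tB14_ok {d S u v t : ℝ} (hB : Six.ChartBox d S) (hd : 0 < d) (hS0 : 0 < S) (T : Pt d S u v t)
    (md : Side.Mem ⟨563, 825, 10000⟩ d) (mv : Side.Mem ⟨2289, 2512, 1000⟩ v) (hul : (71 / 80 : ℝ) < u) (huh : u ≤ (39 / 40 : ℝ))
    (hphi : v < Six.bandsB.phi d u) (hlow : lowT d u < t)
    (hup : t < Six.bandsB.up d u + Six.bandsB.tilt d u * v) :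
    Six.ChartSigns d S u v t := by
  have mS := T.S_mem
  have hlo : tB14.u₁.val 0 S d v < u := by
    by_contra hne
    have hh := not_lt.1 hne
    have hl : tB14Lo.val 0 S d v < u := by norm_num [tB14Lo, ex_add, ex_sub, ex_mul, Ex.val]; linarith
    obtain ⟨o, mo, hx⟩ := place (U := tB14.u₁) (L := tB14Lo) (by decide +kernel) (by decide +kernel) hl hh
    have hg : 0 < (tB14.u₁ - tB14Lo).val o S d v := by
      simp only [ex_sub, Ex.val, val_noO (e := tB14.u₁) (by decide +kernel) o 0, val_noO (e := tB14Lo) (by decide +kernel) o 0]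
      linarith
    exact phB_false hx (tB14_phx o S d v mo mS md mv T.dom hg) (tB14_phd o S d v mo mS md mv T.dom) hphi
  exact piece_signs tB14_env tB14_sign (by decide +kernel) T
    ⟨rfl, mS, md, mv, by decide +kernel, by decide +kernel, hlo, by norm_num [tB14, ex_add, ex_sub, ex_mul, Ex.val]; linarith,
      fun o mo hx => by
        have hD := tB14_env.den false o S d v mo mS md mv T.dom
        have hD' := tB14_env.den true o S d v mo mS md mv T.dom
        exact ⟨lowT_le hx hD hlow, upB_le hx hD' hup⟩⟩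

theorem tB15_ok {d S u v t : ℝ} (hB : Six.ChartBox d S) (hd : 0 < d) (hS0 : 0 < S) (T : Pt d S u v t)
    (md : Side.Mem ⟨563, 825, 10000⟩ d) (mv : Side.Mem ⟨2512, 2757, 1000⟩ v) (hul : (71 / 80 : ℝ) < u) (huh : u ≤ (39 / 40 : ℝ))
    (hphi : v < Six.bandsB.phi d u) (hlow : lowT d u < t)
    (hup : t < Six.bandsB.up d u + Six.bandsB.tilt d u * v) :
    Six.ChartSigns d S u v t := by
  have mS := T.S_mem
  have hlo : tB15.u₁.val 0 S d v < u := by
    by_contra hne
    have hh := not_lt.1 hne
    have hl : tB15Lo.val 0 S d v < u := by norm_num [tB15Lo, ex_add, ex_sub, ex_mul, Ex.val]; linarith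
    obtain ⟨o, mo, hx⟩ := place (U := tB15.u₁) (L := tB15Lo) (by decide +kernel) (by decide +kernel) hl hh
    have hg : 0 < (tB15.u₁ - tB15Lo).val o S d v := by
      simp only [ex_sub, Ex.val, val_noO (e := tB15.u₁) (by decide +kernel) o 0, val_noO (e := tB15Lo) (by decide +kernel) o 0]
      linarith
    exact phB_false hx (tB15_phx o S d v mo mS md mv T.dom hg) (tB15_phd o S d v mo mS md mv T.dom) hphi
  exact piece_signs tB15_env tB15_sign (by decide +kernel) T
    ⟨rfl, mS, md, mv, by decide +kernel, by decide +kernel, hlo, by norm_num [tB15, ex_add, ex_sub, ex_mul, Ex.val]; linarith,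
      fun o mo hx => by
        have hD := tB15_env.den false o S d v mo mS md mv T.dom
        have hD' := tB15_env.den true o S d v mo mS md mv T.dom
        exact ⟨lowT_le hx hD hlow, upB_le hx hD' hup⟩⟩

theorem tB16_ok {d S u v t : ℝ} (hB : Six.ChartBox d S) (hd : 0 < d) (hS0 : 0 < S) (T : Pt d S u v t)
    (md : Side.Mem ⟨563, 825, 10000⟩ d) (mv : Side.Mem ⟨2757, 3425, 1000⟩ v) (hul : (71 / 80 : ℝ) < u) (huh : u ≤ (39 / 40 : ℝ))
    (hphi : v < Six.bandsB.phi d u) (hlow : lowT d u < t)
    (hup : t < Six.bandsB.up d u + Six.bandsB.tilt d u * v) :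
    Six.ChartSigns d S u v t := by
  have mS := T.S_mem
  have hlo : tB16.u₁.val 0 S d v < u := by
    by_contra hne
    have hh := not_lt.1 hne
    have hl : tB16Lo.val 0 S d v < u := by norm_num [tB16Lo, ex_add, ex_sub, ex_mul, Ex.val]; linarith
    obtain ⟨o, mo, hx⟩ := place (U := tB16.u₁) (L := tB16Lo) (by decide +kernel) (by decide +kernel) hl hh
    have hg : 0 < (tB16.u₁ - tB16Lo).val o S d v := by
      simp only [ex_sub, Ex.val, val_noO (e := tB16.u₁) (by decide +kernel) o 0, val_noO (e := tB16Lo) (by decide +kernel) o 0]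
      linarith
    exact phB_false hx (tB16_phx o S d v mo mS md mv T.dom hg) (tB16_phd o S d v mo mS md mv T.dom) hphi
  exact piece_signs tB16_env tB16_sign (by decide +kernel) T
    ⟨rfl, mS, md, mv, by decide +kernel, by decide +kernel, hlo, by norm_num [tB16, ex_add, ex_sub, ex_mul, Ex.val]; linarith,
      fun o mo hx => by
        have hD := tB16_env.den false o S d v mo mS md mv T.dom
        have hD' := tB16_env.den true o S d v mo mS md mv T.dom
        exact ⟨lowT_le hx hD hlow, evU tB16_env.p0 tB16_env.gn rfl rfl mo mS md mv T hx⟩⟩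

theorem tB17_ok {d S u v t : ℝ} (hB : Six.ChartBox d S) (hd : 0 < d) (hS0 : 0 < S) (T : Pt d S u v t)
    (md : Side.Mem ⟨825, 1351, 10000⟩ d) (mv : Side.Mem ⟨1900, 4000, 1000⟩ v) (hul : (71 / 80 : ℝ) < u) (huh : u ≤ (149 / 160 : ℝ))
    (hphi : v < Six.bandsB.phi d u) (hlow : lowT d u < t)
    (hup : t < Six.bandsB.up d u + Six.bandsB.tilt d u * v) :
    Six.ChartSigns d S u v t := by
  have mS := T.S_mem
  have hl : tB17Lo.val 0 S d v < u := by norm_num [tB17Lo, ex_add, ex_sub, ex_mul, Ex.val]; linarith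
  have hh : u ≤ tB17Hi.val 0 S d v := by norm_num [tB17Hi, ex_add, ex_sub, ex_mul, Ex.val]; linarith
  obtain ⟨o, mo, hx⟩ := place (by decide +kernel) (by decide +kernel) hl hh
  exact (phB_false hx (tB17_phx o S d v mo mS md mv T.dom) (tB17_phd o S d v mo mS md mv T.dom) hphi).elim

theorem tB18_ok {d S u v t : ℝ} (hB : Six.ChartBox d S) (hd : 0 < d) (hS0 : 0 < S) (T : Pt d S u v t)
    (md : Side.Mem ⟨825, 1351, 10000⟩ d) (mv : Side.Mem ⟨1900, 2289, 1000⟩ v) (hul : (149 / 160 : ℝ) < u) (huh : u ≤ (39 / 40 : ℝ))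
    (hphi : v < Six.bandsB.phi d u) (hlow : lowT d u < t)
    (hup : t < Six.bandsB.up d u + Six.bandsB.tilt d u * v) :
    Six.ChartSigns d S u v t := by
  have mS := T.S_mem
  have hlo : tB18.u₁.val 0 S d v < u := by
    by_contra hne
    have hh := not_lt.1 hne
    have hl : tB18Lo.val 0 S d v < u := by norm_num [tB18Lo, ex_add, ex_sub, ex_mul, Ex.val]; linarith
    obtain ⟨o, mo, hx⟩ := place (U := tB18.u₁) (L := tB18Lo) (by decide +kernel) (by decide +kernel) hl hh
    have hg : 0 < (tB18.u₁ - tB18Lo).val o S d v := by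
      simp only [ex_sub, Ex.val, val_noO (e := tB18.u₁) (by decide +kernel) o 0, val_noO (e := tB18Lo) (by decide +kernel) o 0]
      linarith
    exact phB_false hx (tB18_phx o S d v mo mS md mv T.dom hg) (tB18_phd o S d v mo mS md mv T.dom) hphi
  exact piece_signs tB18_env tB18_sign (by decide +kernel) T
    ⟨rfl, mS, md, mv, by decide +kernel, by decide +kernel, hlo, by norm_num [tB18, ex_add, ex_sub, ex_mul, Ex.val]; linarith,
      fun o mo hx => by
        have hD := tB18_env.den false o S d v mo mS md mv T.dom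
        have hD' := tB18_env.den true o S d v mo mS md mv T.dom
        exact ⟨lowT_le hx hD hlow, upB_le hx hD' hup⟩⟩

theorem tB19_ok {d S u v t : ℝ} (hB : Six.ChartBox d S) (hd : 0 < d) (hS0 : 0 < S) (T : Pt d S u v t)
    (md : Side.Mem ⟨825, 1088, 10000⟩ d) (mv : Side.Mem ⟨2289, 2757, 1000⟩ v) (hul : (149 / 160 : ℝ) < u) (huh : u ≤ (39 / 40 : ℝ))
    (hphi : v < Six.bandsB.phi d u) (hlow : lowT d u < t)
    (hup : t < Six.bandsB.up d u + Six.bandsB.tilt d u * v) :
    Six.ChartSigns d S u v t := by
  have mS := T.S_mem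
  have hlo : tB19.u₁.val 0 S d v < u := by
    by_contra hne
    have hh := not_lt.1 hne
    have hl : tB19Lo.val 0 S d v < u := by norm_num [tB19Lo, ex_add, ex_sub, ex_mul, Ex.val]; linarith
    obtain ⟨o, mo, hx⟩ := place (U := tB19.u₁) (L := tB19Lo) (by decide +kernel) (by decide +kernel) hl hh
    have hg : 0 < (tB19.u₁ - tB19Lo).val o S d v := by
      simp only [ex_sub, Ex.val, val_noO (e := tB19.u₁) (by decide +kernel) o 0, val_noO (e := tB19Lo) (by decide +kernel) o 0]
      linarith
    exact phB_false hx (tB19_phx o S d v mo mS md mv T.dom hg) (tB19_phd o S d v mo mS md mv T.dom) hphi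
  exact piece_signs tB19_env tB19_sign (by decide +kernel) T
    ⟨rfl, mS, md, mv, by decide +kernel, by decide +kernel, hlo, by norm_num [tB19, ex_add, ex_sub, ex_mul, Ex.val]; linarith,
      fun o mo hx => by
        have hD := tB19_env.den false o S d v mo mS md mv T.dom
        have hD' := tB19_env.den true o S d v mo mS md mv T.dom
        exact ⟨lowT_le hx hD hlow, upB_le hx hD' hup⟩⟩

theorem tB2_ok {d S u v t : ℝ} (hB : Six.ChartBox d S) (hd : 0 < d) (hS0 : 0 < S) (T : Pt d S u v t)
    (md : Side.Mem ⟨300, 1351, 10000⟩ d) (mv : Side.Mem ⟨900, 1162, 1000⟩ v) (hul : (3 / 5 : ℝ) < u) (huh : u ≤ (4 / 5 : ℝ))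
    (hphi : v < Six.bandsB.phi d u) (hlow : lowT d u < t)
    (hup : t < Six.bandsB.up d u + Six.bandsB.tilt d u * v) :
    Six.ChartSigns d S u v t := by
  have mS := T.S_mem
  have hlo : tB2.u₁.val 0 S d v < u := by
    by_contra hne
    have hh := not_lt.1 hne
    have hl : tB2Lo.val 0 S d v < u := by norm_num [tB2Lo, ex_add, ex_sub, ex_mul, Ex.val]; linarith
    obtain ⟨o, mo, hx⟩ := place (U := tB2.u₁) (L := tB2Lo) (by decide +kernel) (by decide +kernel) hl hh
    have hg : 0 < (tB2.u₁ - tB2Lo).val o S d v := by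
      simp only [ex_sub, Ex.val, val_noO (e := tB2.u₁) (by decide +kernel) o 0, val_noO (e := tB2Lo) (by decide +kernel) o 0]
      linarith
    exact phB_false hx (tB2_phx o S d v mo mS md mv T.dom hg) (tB2_phd o S d v mo mS md mv T.dom) hphi
  exact piece_signs tB2_env tB2_sign (by decide +kernel) T
    ⟨rfl, mS, md, mv, by decide +kernel, by decide +kernel, hlo, by norm_num [tB2, ex_add, ex_sub, ex_mul, Ex.val]; linarith,
      fun o mo hx => by
        have hD := tB2_env.den false o S d v mo mS md mv T.dom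
        have hD' := tB2_env.den true o S d v mo mS md mv T.dom
        exact ⟨lowT_le hx hD hlow, upB_le hx hD' hup⟩⟩

theorem tB20_ok {d S u v t : ℝ} (hB : Six.ChartBox d S) (hd : 0 < d) (hS0 : 0 < S) (T : Pt d S u v t)
    (md : Side.Mem ⟨1088, 1351, 10000⟩ d) (mv : Side.Mem ⟨2289, 2757, 1000⟩ v) (hul : (149 / 160 : ℝ) < u) (huh : u ≤ (39 / 40 : ℝ))
    (hphi : v < Six.bandsB.phi d u) (hlow : lowT d u < t)
    (hup : t < Six.bandsB.up d u + Six.bandsB.tilt d u * v) :
    Six.ChartSigns d S u v t := by
  have mS := T.S_mem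
  have hlo : tB20.u₁.val 0 S d v < u := by
    by_contra hne
    have hh := not_lt.1 hne
    have hl : tB20Lo.val 0 S d v < u := by norm_num [tB20Lo, ex_add, ex_sub, ex_mul, Ex.val]; linarith
    obtain ⟨o, mo, hx⟩ := place (U := tB20.u₁) (L := tB20Lo) (by decide +kernel) (by decide +kernel) hl hh
    have hg : 0 < (tB20.u₁ - tB20Lo).val o S d v := by
      simp only [ex_sub, Ex.val, val_noO (e := tB20.u₁) (by decide +kernel) o 0, val_noO (e := tB20Lo) (by decide +kernel) o 0]
      linarith
    exact phB_false hx (tB20_phx o S d v mo mS md mv T.dom hg) (tB20_phd o S d v mo mS md mv T.dom) hphi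
  exact piece_signs tB20_env tB20_sign (by decide +kernel) T
    ⟨rfl, mS, md, mv, by decide +kernel, by decide +kernel, hlo, by norm_num [tB20, ex_add, ex_sub, ex_mul, Ex.val]; linarith,
      fun o mo hx => by
        have hD := tB20_env.den false o S d v mo mS md mv T.dom
        have hD' := tB20_env.den true o S d v mo mS md mv T.dom
        exact ⟨lowT_le hx hD hlow, evU tB20_env.p0 tB20_env.gn rfl rfl mo mS md mv T hx⟩⟩

theorem tB21_ok {d S u v t : ℝ} (hB : Six.ChartBox d S) (hd : 0 < d) (hS0 : 0 < S) (T : Pt d S u v t)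
    (md : Side.Mem ⟨825, 1351, 10000⟩ d) (mv : Side.Mem ⟨3321, 4000, 1000⟩ v) (hul : (149 / 160 : ℝ) < u) (huh : u ≤ (39 / 40 : ℝ))
    (hphi : v < Six.bandsB.phi d u) (hlow : lowT d u < t)
    (hup : t < Six.bandsB.up d u + Six.bandsB.tilt d u * v) :
    Six.ChartSigns d S u v t := by
  have mS := T.S_mem
  have hl : tB21Lo.val 0 S d v < u := by norm_num [tB21Lo, ex_add, ex_sub, ex_mul, Ex.val]; linarith
  have hh : u ≤ tB21Hi.val 0 S d v := by norm_num [tB21Hi, ex_add, ex_sub, ex_mul, Ex.val]; linarith
  obtain ⟨o, mo, hx⟩ := place (by decide +kernel) (by decide +kernel) hl hh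
  exact (phB_false hx (tB21_phx o S d v mo mS md mv T.dom) (tB21_phd o S d v mo mS md mv T.dom) hphi).elim

theorem tB22_ok {d S u v t : ℝ} (hB : Six.ChartBox d S) (hd : 0 < d) (hS0 : 0 < S) (T : Pt d S u v t)
    (md : Side.Mem ⟨825, 1351, 10000⟩ d) (mv : Side.Mem ⟨2757, 3321, 1000⟩ v) (hul : (149 / 160 : ℝ) < u) (huh : u ≤ (39 / 40 : ℝ))
    (hphi : v < Six.bandsB.phi d u) (hlow : lowT d u < t)
    (hup : t < Six.bandsB.up d u + Six.bandsB.tilt d u * v) :
    Six.ChartSigns d S u v t := by
  have mS := T.S_mem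
  have hlo : tB22.u₁.val 0 S d v < u := by
    by_contra hne
    have hh := not_lt.1 hne
    have hl : tB22Lo.val 0 S d v < u := by norm_num [tB22Lo, ex_add, ex_sub, ex_mul, Ex.val]; linarith
    obtain ⟨o, mo, hx⟩ := place (U := tB22.u₁) (L := tB22Lo) (by decide +kernel) (by decide +kernel) hl hh
    have hg : 0 < (tB22.u₁ - tB22Lo).val o S d v := by
      simp only [ex_sub, Ex.val, val_noO (e := tB22.u₁) (by decide +kernel) o 0, val_noO (e := tB22Lo) (by decide +kernel) o 0]
      linarith
    exact phB_false hx (tB22_phx o S d v mo mS md mv T.dom hg) (tB22_phd o S d v mo mS md mv T.dom) hphi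
  exact piece_signs tB22_env tB22_sign (by decide +kernel) T
    ⟨rfl, mS, md, mv, by decide +kernel, by decide +kernel, hlo, by norm_num [tB22, ex_add, ex_sub, ex_mul, Ex.val]; linarith,
      fun o mo hx => by
        have hD := tB22_env.den false o S d v mo mS md mv T.dom
        have hD' := tB22_env.den true o S d v mo mS md mv T.dom
        exact ⟨lowT_le hx hD hlow, evU tB22_env.p0 tB22_env.gn rfl rfl mo mS md mv T hx⟩⟩

theorem tB23_ok {d S u v t : ℝ} (hB : Six.ChartBox d S) (hd : 0 < d) (hS0 : 0 < S) (T : Pt d S u v t)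
    (md : Side.Mem ⟨300, 1351, 10000⟩ d) (mv : Side.Mem ⟨1500, 4000, 1000⟩ v) (hul : (3 / 5 : ℝ) < u) (huh : u ≤ (4 / 5 : ℝ))
    (hphi : v < Six.bandsB.phi d u) (hlow : lowT d u < t)
    (hup : t < Six.bandsB.up d u + Six.bandsB.tilt d u * v) :
    Six.ChartSigns d S u v t := by
  have mS := T.S_mem
  have hl : tB23Lo.val 0 S d v < u := by norm_num [tB23Lo, ex_add, ex_sub, ex_mul, Ex.val]; linarith
  have hh : u ≤ tB23Hi.val 0 S d v := by norm_num [tB23Hi, ex_add, ex_sub, ex_mul, Ex.val]; linarith
  obtain ⟨o, mo, hx⟩ := place (by decide +kernel) (by decide +kernel) hl hh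
  exact (phB_false hx (tB23_phx o S d v mo mS md mv T.dom) (tB23_phd o S d v mo mS md mv T.dom) hphi).elim

theorem tB3_ok {d S u v t : ℝ} (hB : Six.ChartBox d S) (hd : 0 < d) (hS0 : 0 < S) (T : Pt d S u v t)
    (md : Side.Mem ⟨300, 1351, 10000⟩ d) (mv : Side.Mem ⟨1162, 1320, 1000⟩ v) (hul : (3 / 5 : ℝ) < u) (huh : u ≤ (4 / 5 : ℝ))
    (hphi : v < Six.bandsB.phi d u) (hlow : lowT d u < t)
    (hup : t < Six.bandsB.up d u + Six.bandsB.tilt d u * v) :
    Six.ChartSigns d S u v t := by
  have mS := T.S_mem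
  have hlo : tB3.u₁.val 0 S d v < u := by
    by_contra hne
    have hh := not_lt.1 hne
    have hl : tB3Lo.val 0 S d v < u := by norm_num [tB3Lo, ex_add, ex_sub, ex_mul, Ex.val]; linarith
    obtain ⟨o, mo, hx⟩ := place (U := tB3.u₁) (L := tB3Lo) (by decide +kernel) (by decide +kernel) hl hh
    have hg : 0 < (tB3.u₁ - tB3Lo).val o S d v := by
      simp only [ex_sub, Ex.val, val_noO (e := tB3.u₁) (by decide +kernel) o 0, val_noO (e := tB3Lo) (by decide +kernel) o 0]
      linarith
    exact phB_false hx (tB3_phx o S d v mo mS md mv T.dom hg) (tB3_phd o S d v mo mS md mv T.dom) hphi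
  exact piece_signs tB3_env tB3_sign (by decide +kernel) T
    ⟨rfl, mS, md, mv, by decide +kernel, by decide +kernel, hlo, by norm_num [tB3, ex_add, ex_sub, ex_mul, Ex.val]; linarith,
      fun o mo hx => by
        have hD := tB3_env.den false o S d v mo mS md mv T.dom
        have hD' := tB3_env.den true o S d v mo mS md mv T.dom
        exact ⟨lowT_le hx hD hlow, upB_le hx hD' hup⟩⟩

theorem tB4_ok {d S u v t : ℝ} (hB : Six.ChartBox d S) (hd : 0 < d) (hS0 : 0 < S) (T : Pt d S u v t)
    (md : Side.Mem ⟨300, 1351, 10000⟩ d) (mv : Side.Mem ⟨1320, 1500, 1000⟩ v) (hul : (3 / 5 : ℝ) < u) (huh : u ≤ (4 / 5 : ℝ))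
    (hphi : v < Six.bandsB.phi d u) (hlow : lowT d u < t)
    (hup : t < Six.bandsB.up d u + Six.bandsB.tilt d u * v) :
    Six.ChartSigns d S u v t := by
  have mS := T.S_mem
  have hl : tB4Lo.val 0 S d v < u := by norm_num [tB4Lo, ex_add, ex_sub, ex_mul, Ex.val]; linarith
  have hh : u ≤ tB4Hi.val 0 S d v := by norm_num [tB4Hi, ex_add, ex_sub, ex_mul, Ex.val]; linarith
  obtain ⟨o, mo, hx⟩ := place (by decide +kernel) (by decide +kernel) hl hh
  exact (phB_false hx (tB4_phx o S d v mo mS md mv T.dom) (tB4_phd o S d v mo mS md mv T.dom) hphi).elim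

theorem tB5_ok {d S u v t : ℝ} (hB : Six.ChartBox d S) (hd : 0 < d) (hS0 : 0 < S) (T : Pt d S u v t)
    (md : Side.Mem ⟨300, 1351, 10000⟩ d) (mv : Side.Mem ⟨290, 600, 1000⟩ v) (hul : (4 / 5 : ℝ) < u) (huh : u ≤ (39 / 40 : ℝ))
    (hphi : v < Six.bandsB.phi d u) (hlow : lowT d u < t)
    (hup : t < Six.bandsB.up d u + Six.bandsB.tilt d u * v) :
    Six.ChartSigns d S u v t := by
  have mS := T.S_mem
  refine (piece_false tB5_empty T
    ⟨rfl, mS, md, mv, by decide +kernel, by decide +kernel, by norm_num [tB5, ex_add, ex_sub, ex_mul, Ex.val]; linarith, by norm_num [tB5, ex_add, ex_sub, ex_mul, Ex.val]; linarith,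
      fun o mo hx => by
        have hD := tB5_empty.den false o S d v mo mS md mv T.dom
        have hD' := tB5_empty.den true o S d v mo mS md mv T.dom
        exact ⟨lowT_le hx hD hlow, upB_le hx hD' hup⟩⟩).elim

theorem tB6_ok {d S u v t : ℝ} (hB : Six.ChartBox d S) (hd : 0 < d) (hS0 : 0 < S) (T : Pt d S u v t)
    (md : Side.Mem ⟨300, 1351, 10000⟩ d) (mv : Side.Mem ⟨600, 670, 1000⟩ v) (hul : (4 / 5 : ℝ) < u) (huh : u ≤ (39 / 40 : ℝ))
    (hphi : v < Six.bandsB.phi d u) (hlow : lowT d u < t)
    (hup : t < Six.bandsB.up d u + Six.bandsB.tilt d u * v) :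
    Six.ChartSigns d S u v t := by
  have mS := T.S_mem
  exact piece_signs tB6_env tB6_sign (by decide +kernel) T
    ⟨rfl, mS, md, mv, by decide +kernel, by decide +kernel, by norm_num [tB6, ex_add, ex_sub, ex_mul, Ex.val]; linarith, by norm_num [tB6, ex_add, ex_sub, ex_mul, Ex.val]; linarith,
      fun o mo hx => by
        have hD := tB6_env.den false o S d v mo mS md mv T.dom
        have hD' := tB6_env.den true o S d v mo mS md mv T.dom
        exact ⟨lowT_le hx hD hlow, upB_le hx hD' hup⟩⟩

theorem tB7_ok {d S u v t : ℝ} (hB : Six.ChartBox d S) (hd : 0 < d) (hS0 : 0 < S) (T : Pt d S u v t)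
    (md : Side.Mem ⟨300, 1351, 10000⟩ d) (mv : Side.Mem ⟨670, 1200, 1000⟩ v) (hul : (4 / 5 : ℝ) < u) (huh : u ≤ (39 / 40 : ℝ))
    (hphi : v < Six.bandsB.phi d u) (hlow : lowT d u < t)
    (hup : t < Six.bandsB.up d u + Six.bandsB.tilt d u * v) :
    Six.ChartSigns d S u v t := by
  have mS := T.S_mem
  exact piece_signs tB7_env tB7_sign (by decide +kernel) T
    ⟨rfl, mS, md, mv, by decide +kernel, by decide +kernel, by norm_num [tB7, ex_add, ex_sub, ex_mul, Ex.val]; linarith, by norm_num [tB7, ex_add, ex_sub, ex_mul, Ex.val]; linarith,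
      fun o mo hx => by
        have hD := tB7_env.den false o S d v mo mS md mv T.dom
        have hD' := tB7_env.den true o S d v mo mS md mv T.dom
        exact ⟨lowT_le hx hD hlow, upB_le hx hD' hup⟩⟩

theorem tB8_ok {d S u v t : ℝ} (hB : Six.ChartBox d S) (hd : 0 < d) (hS0 : 0 < S) (T : Pt d S u v t)
    (md : Side.Mem ⟨300, 1351, 10000⟩ d) (mv : Side.Mem ⟨1200, 1510, 1000⟩ v) (hul : (4 / 5 : ℝ) < u) (huh : u ≤ (39 / 40 : ℝ))
    (hphi : v < Six.bandsB.phi d u) (hlow : lowT d u < t)
    (hup : t < Six.bandsB.up d u + Six.bandsB.tilt d u * v) :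
    Six.ChartSigns d S u v t := by
  have mS := T.S_mem
  have hlo : tB8.u₁.val 0 S d v < u := by
    by_contra hne
    have hh := not_lt.1 hne
    have hl : tB8Lo.val 0 S d v < u := by norm_num [tB8Lo, ex_add, ex_sub, ex_mul, Ex.val]; linarith
    obtain ⟨o, mo, hx⟩ := place (U := tB8.u₁) (L := tB8Lo) (by decide +kernel) (by decide +kernel) hl hh
    have hg : 0 < (tB8.u₁ - tB8Lo).val o S d v := by
      simp only [ex_sub, Ex.val, val_noO (e := tB8.u₁) (by decide +kernel) o 0, val_noO (e := tB8Lo) (by decide +kernel) o 0]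
      linarith
    exact phB_false hx (tB8_phx o S d v mo mS md mv T.dom hg) (tB8_phd o S d v mo mS md mv T.dom) hphi
  exact piece_signs tB8_env tB8_sign (by decide +kernel) T
    ⟨rfl, mS, md, mv, by decide +kernel, by decide +kernel, hlo, by norm_num [tB8, ex_add, ex_sub, ex_mul, Ex.val]; linarith,
      fun o mo hx => by
        have hD := tB8_env.den false o S d v mo mS md mv T.dom
        have hD' := tB8_env.den true o S d v mo mS md mv T.dom
        exact ⟨lowT_le hx hD hlow, upB_le hx hD' hup⟩⟩

theorem tB9_ok {d S u v t : ℝ} (hB : Six.ChartBox d S) (hd : 0 < d) (hS0 : 0 < S) (T : Pt d S u v t)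
    (md : Side.Mem ⟨300, 1351, 10000⟩ d) (mv : Side.Mem ⟨1510, 1900, 1000⟩ v) (hul : (4 / 5 : ℝ) < u) (huh : u ≤ (39 / 40 : ℝ))
    (hphi : v < Six.bandsB.phi d u) (hlow : lowT d u < t)
    (hup : t < Six.bandsB.up d u + Six.bandsB.tilt d u * v) :
    Six.ChartSigns d S u v t := by
  have mS := T.S_mem
  have hlo : tB9.u₁.val 0 S d v < u := by
    by_contra hne
    have hh := not_lt.1 hne
    have hl : tB9Lo.val 0 S d v < u := by norm_num [tB9Lo, ex_add, ex_sub, ex_mul, Ex.val]; linarith
    obtain ⟨o, mo, hx⟩ := place (U := tB9.u₁) (L := tB9Lo) (by decide +kernel) (by decide +kernel) hl hh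
    have hg : 0 < (tB9.u₁ - tB9Lo).val o S d v := by
      simp only [ex_sub, Ex.val, val_noO (e := tB9.u₁) (by decide +kernel) o 0, val_noO (e := tB9Lo) (by decide +kernel) o 0]
      linarith
    exact phB_false hx (tB9_phx o S d v mo mS md mv T.dom hg) (tB9_phd o S d v mo mS md mv T.dom) hphi
  exact piece_signs tB9_env tB9_sign (by decide +kernel) T
    ⟨rfl, mS, md, mv, by decide +kernel, by decide +kernel, hlo, by norm_num [tB9, ex_add, ex_sub, ex_mul, Ex.val]; linarith,
      fun o mo hx => by
        have hD := tB9_env.den false o S d v mo mS md mv T.dom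
        have hD' := tB9_env.den true o S d v mo mS md mv T.dom
        exact ⟨lowT_le hx hD hlow, upB_le hx hD' hup⟩⟩

set_option maxHeartbeats 4000000 in
/-- **The closed signs on this part of the tail.** -/
theorem signsTailB : Six.SignsTail Six.bandsB (3 / 100) (27 / 200) := by
  intro d S u v t hB h0 h1 hu hu1 hF hphi hlow hup
  have hd := hB.pos
  have hS0 : 0 < S := by linarith [hB.S_low]
  have hdS : d ≤ S := by linarith [hB.S_low, hB.tri]
  have hD := dom_of hB hF
  have hv := hF.v_low
  have hd3 : d < 1 / 3 := by linarith [hB.S_low, hB.tri]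
  have hv0 : 29 / 100 ≤ v := by linarith
  have hv4 : v < 4 := by
    by_contra hne
    have h4 := not_lt.1 hne
    nlinarith [hF.kap, hF.r_lt, hB.S_low, mul_le_mul_of_nonneg_left h4 (mul_nonneg hS0.le hd.le), mul_le_mul_of_nonneg_left h4 (sub_nonneg.2 hdS)]
  have mS : Side.Mem ⟨98, 99, 147⟩ S := by
    simp only [Side.Mem]; norm_num; constructor <;> linarith [hB.S_low, hB.S_high]
  have mu : Side.Mem ⟨600, 980, 1000⟩ u := by simp only [Side.Mem]; norm_num; constructor <;> linarith
  have md0 : Side.Mem ⟨300, 1351, 10000⟩ d := by simp only [Side.Mem]; norm_num; constructor <;> linarith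
  have mv0 : Side.Mem ⟨290, 4000, 1000⟩ v := by simp only [Side.Mem]; norm_num; constructor <;> linarith
  have ht : 0 ≤ t := by
    have k1 := tB_lowN u S d v mu mS md0 mv0 hD
    have k2 := tB_lowD u S d v mu mS md0 mv0 hD
    have k := lowT_le (x := xO) (o := u) rfl k2 hlow
    exact (pos_of_mul_pos_left (k1.trans_le k) k2.le).le
  have T : Pt d S u v t := ⟨hd, hD, hB.S_low, hB.S_high, hdS, mS, hF,
    llg_nonneg tB_llgLo tB_llgHi mu mS md0 mv0 hd hD hS0 (by linarith [hB.S_high]) ht hdS (by linarith) hF⟩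
  rcases le_or_gt u (4 / 5 : ℝ) with h2 | h2
  · rcases lt_or_ge v (1162 / 1000 : ℝ) with h4 | h4
    · rcases lt_or_ge v (550 / 1000 : ℝ) with h6 | h6
      · exact tB0_ok hB hd hS0 T (by simp only [Side.Mem]; norm_num; constructor <;> linarith) (by simp only [Side.Mem]; norm_num; constructor <;> linarith) (by linarith) (by linarith) hphi hlow hup
      · rcases lt_or_ge v (900 / 1000 : ℝ) with h8 | h8
        · exact tB1_ok hB hd hS0 T (by simp only [Side.Mem]; norm_num; constructor <;> linarith) (by simp only [Side.Mem]; norm_num; constructor <;> linarith) (by linarith) (by linarith) hphi hlow hup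
        · exact tB2_ok hB hd hS0 T (by simp only [Side.Mem]; norm_num; constructor <;> linarith) (by simp only [Side.Mem]; norm_num; constructor <;> linarith) (by linarith) (by linarith) hphi hlow hup
    · rcases lt_or_ge v (1320 / 1000 : ℝ) with h6 | h6
      · exact tB3_ok hB hd hS0 T (by simp only [Side.Mem]; norm_num; constructor <;> linarith) (by simp only [Side.Mem]; norm_num; constructor <;> linarith) (by linarith) (by linarith) hphi hlow hup
      · rcases lt_or_ge v (1500 / 1000 : ℝ) with h8 | h8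
        · exact tB4_ok hB hd hS0 T (by simp only [Side.Mem]; norm_num; constructor <;> linarith) (by simp only [Side.Mem]; norm_num; constructor <;> linarith) (by linarith) (by linarith) hphi hlow hup
        · exact tB23_ok hB hd hS0 T (by simp only [Side.Mem]; norm_num; constructor <;> linarith) (by simp only [Side.Mem]; norm_num; constructor <;> linarith) (by linarith) (by linarith) hphi hlow hup
  · rcases lt_or_ge v (1900 / 1000 : ℝ) with h4 | h4
    · rcases lt_or_ge v (670 / 1000 : ℝ) with h6 | h6
      · rcases lt_or_ge v (600 / 1000 : ℝ) with h8 | h8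
        · exact tB5_ok hB hd hS0 T (by simp only [Side.Mem]; norm_num; constructor <;> linarith) (by simp only [Side.Mem]; norm_num; constructor <;> linarith) (by linarith) (by linarith) hphi hlow hup
        · exact tB6_ok hB hd hS0 T (by simp only [Side.Mem]; norm_num; constructor <;> linarith) (by simp only [Side.Mem]; norm_num; constructor <;> linarith) (by linarith) (by linarith) hphi hlow hup
      · rcases lt_or_ge v (1200 / 1000 : ℝ) with h8 | h8
        · exact tB7_ok hB hd hS0 T (by simp only [Side.Mem]; norm_num; constructor <;> linarith) (by simp only [Side.Mem]; norm_num; constructor <;> linarith) (by linarith) (by linarith) hphi hlow hup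
        · rcases lt_or_ge v (1510 / 1000 : ℝ) with h10 | h10
          · exact tB8_ok hB hd hS0 T (by simp only [Side.Mem]; norm_num; constructor <;> linarith) (by simp only [Side.Mem]; norm_num; constructor <;> linarith) (by linarith) (by linarith) hphi hlow hup
          · exact tB9_ok hB hd hS0 T (by simp only [Side.Mem]; norm_num; constructor <;> linarith) (by simp only [Side.Mem]; norm_num; constructor <;> linarith) (by linarith) (by linarith) hphi hlow hup
    · rcases le_or_gt u (71 / 80 : ℝ) with h6 | h6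
      · exact tB10_ok hB hd hS0 T (by simp only [Side.Mem]; norm_num; constructor <;> linarith) (by simp only [Side.Mem]; norm_num; constructor <;> linarith) (by linarith) (by linarith) hphi hlow hup
      · rcases lt_or_ge d (825 / 10000 : ℝ) with h8 | h8
        · rcases lt_or_ge v (2757 / 1000 : ℝ) with h10 | h10
          · rcases lt_or_ge d (563 / 10000 : ℝ) with h12 | h12
            · exact tB11_ok hB hd hS0 T (by simp only [Side.Mem]; norm_num; constructor <;> linarith) (by simp only [Side.Mem]; norm_num; constructor <;> linarith) (by linarith) (by linarith) hphi hlow hup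
            · rcases lt_or_ge v (2289 / 1000 : ℝ) with h14 | h14
              · exact tB13_ok hB hd hS0 T (by simp only [Side.Mem]; norm_num; constructor <;> linarith) (by simp only [Side.Mem]; norm_num; constructor <;> linarith) (by linarith) (by linarith) hphi hlow hup
              · rcases lt_or_ge v (2512 / 1000 : ℝ) with h16 | h16
                · exact tB14_ok hB hd hS0 T (by simp only [Side.Mem]; norm_num; constructor <;> linarith) (by simp only [Side.Mem]; norm_num; constructor <;> linarith) (by linarith) (by linarith) hphi hlow hup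
                · exact tB15_ok hB hd hS0 T (by simp only [Side.Mem]; norm_num; constructor <;> linarith) (by simp only [Side.Mem]; norm_num; constructor <;> linarith) (by linarith) (by linarith) hphi hlow hup
          · rcases lt_or_ge d (563 / 10000 : ℝ) with h12 | h12
            · rcases lt_or_ge v (3278 / 1000 : ℝ) with h14 | h14
              · exact tB12_ok hB hd hS0 T (by simp only [Side.Mem]; norm_num; constructor <;> linarith) (by simp only [Side.Mem]; norm_num; constructor <;> linarith) (by linarith) (by linarith) hphi hlow hup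
              · exfalso
                have k : (2 / 3 - 563 / 10000) * (1639 / 500 : ℝ) ≤ (S - d) * v := mul_le_mul (by linarith [T.S_low]) (by linarith) (by norm_num) (by linarith [T.S_low])
                linarith [T.dom.rlt]
            · rcases lt_or_ge v (3425 / 1000 : ℝ) with h14 | h14
              · exact tB16_ok hB hd hS0 T (by simp only [Side.Mem]; norm_num; constructor <;> linarith) (by simp only [Side.Mem]; norm_num; constructor <;> linarith) (by linarith) (by linarith) hphi hlow hup
              · exfalso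
                have k : (2 / 3 - 33 / 400) * (137 / 40 : ℝ) ≤ (S - d) * v := mul_le_mul (by linarith [T.S_low]) (by linarith) (by norm_num) (by linarith [T.S_low])
                linarith [T.dom.rlt]
        · rcases le_or_gt u (149 / 160 : ℝ) with h10 | h10
          · exact tB17_ok hB hd hS0 T (by simp only [Side.Mem]; norm_num; constructor <;> linarith) (by simp only [Side.Mem]; norm_num; constructor <;> linarith) (by linarith) (by linarith) hphi hlow hup
          · rcases lt_or_ge v (2757 / 1000 : ℝ) with h12 | h12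
            · rcases lt_or_ge v (2289 / 1000 : ℝ) with h14 | h14
              · exact tB18_ok hB hd hS0 T (by simp only [Side.Mem]; norm_num; constructor <;> linarith) (by simp only [Side.Mem]; norm_num; constructor <;> linarith) (by linarith) (by linarith) hphi hlow hup
              · rcases lt_or_ge d (1088 / 10000 : ℝ) with h16 | h16
                · exact tB19_ok hB hd hS0 T (by simp only [Side.Mem]; norm_num; constructor <;> linarith) (by simp only [Side.Mem]; norm_num; constructor <;> linarith) (by linarith) (by linarith) hphi hlow hup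
                · exact tB20_ok hB hd hS0 T (by simp only [Side.Mem]; norm_num; constructor <;> linarith) (by simp only [Side.Mem]; norm_num; constructor <;> linarith) (by linarith) (by linarith) hphi hlow hup
            · rcases lt_or_ge v (3321 / 1000 : ℝ) with h14 | h14
              · exact tB22_ok hB hd hS0 T (by simp only [Side.Mem]; norm_num; constructor <;> linarith) (by simp only [Side.Mem]; norm_num; constructor <;> linarith) (by linarith) (by linarith) hphi hlow hup
              · exact tB21_ok hB hd hS0 T (by simp only [Side.Mem]; norm_num; constructor <;> linarith) (by simp only [Side.Mem]; norm_num; constructor <;> linarith) (by linarith) (by linarith) hphi hlow hup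

end Vale.Agent.P100.Calib.Closed.Six.Tail
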