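import Vale.Agent.P100.Calib.SlabSixTailDataC
import Vale.Agent.P100.Calib.SlabSixTailGlobC

/-!
# Checks of some pieces of the certificate

The checks are written as definitions so that they run one after another, which keeps the memory of the
kernel low.
-/

set_option linter.defProp false

namespace Vale.Agent.P100.Calib.Closed.Six.Tail

open BoxPos Large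

local instance sixTailCheckstC0Add : Add Ex := ⟨Ex.add⟩
local instance sixTailCheckstC0Sub : Sub Ex := ⟨Ex.sub⟩
local instance sixTailCheckstC0Mul : Mul Ex := ⟨Ex.mul⟩

def tC0_p0a : PosD ⟨⟨0, 1, 1⟩, ⟨98, 99, 147⟩, ⟨4050, 7025, 30000⟩, ⟨290, 353, 1000⟩⟩ (tC0.hP0) :=
  posD_of_check (c := ⟨83, ⟨0, 2, 3, 1⟩⟩) (by decide +kernel)

def tC0_p0b : PosD ⟨⟨0, 1, 1⟩, ⟨98, 99, 147⟩, ⟨7025, 10000, 30000⟩, ⟨290, 353, 1000⟩⟩ (tC0.hP0) :=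
  posD_of_check (c := ⟨83, ⟨0, 2, 3, 1⟩⟩) (by decide +kernel)

def tC0_p0 : PosD ⟨⟨0, 1, 1⟩, ⟨98, 99, 147⟩, ⟨4050, 10000, 30000⟩, ⟨290, 353, 1000⟩⟩ (tC0.hP0) :=
  posD_join₂ tC0_p0a tC0_p0b

def tC0_gn : PosD ⟨⟨0, 1, 1⟩, ⟨98, 99, 147⟩, ⟨4050, 10000, 30000⟩, ⟨290, 353, 1000⟩⟩ (tC0.hGn) :=
  posD_of_check (c := ⟨57, ⟨1, 1, 2, 1⟩⟩) (by decide +kernel)

def tC0_den0 : PosD ⟨⟨0, 1, 1⟩, ⟨98, 99, 147⟩, ⟨4050, 10000, 30000⟩, ⟨290, 353, 1000⟩⟩ (tC0.hDen false) :=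
  posD_of_check (c := ⟨50, ⟨1, 0, 2, 0⟩⟩) (by decide +kernel)

def tC0_den1 : PosD ⟨⟨0, 1, 1⟩, ⟨98, 99, 147⟩, ⟨4050, 10000, 30000⟩, ⟨290, 353, 1000⟩⟩ (tC0.hDen true) :=
  posD_of_check (c := ⟨50, ⟨1, 0, 2, 0⟩⟩) (by decide +kernel)

def tC0_none0 : PosD ⟨⟨0, 1, 1⟩, ⟨98, 99, 147⟩, ⟨4050, 10000, 30000⟩, ⟨290, 353, 1000⟩⟩ (tC0.hNone false) :=
  posD_of_check (c := ⟨240, ⟨5, 6, 7, 3⟩⟩) (by decide +kernel)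

def tC0_none1 : PosD ⟨⟨0, 1, 1⟩, ⟨98, 99, 147⟩, ⟨4050, 10000, 30000⟩, ⟨290, 353, 1000⟩⟩ (tC0.hNone true) :=
  posD_of_check (c := ⟨241, ⟨5, 6, 7, 3⟩⟩) (by decide +kernel)

def tC0_mupU : PosD ⟨⟨0, 1, 1⟩, ⟨98, 99, 147⟩, ⟨4050, 10000, 30000⟩, ⟨290, 353, 1000⟩⟩ (tC0.pU.μ) :=
  posD_of_check (c := ⟨16, ⟨0, 0, 0, 0⟩⟩) (by decide +kernel)

def tC0_nupU : PosD ⟨⟨0, 1, 1⟩, ⟨98, 99, 147⟩, ⟨4050, 10000, 30000⟩, ⟨290, 353, 1000⟩⟩ (tC0.pU.ν) :=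
  posD_of_check (c := ⟨45, ⟨0, 0, 1, 1⟩⟩) (by decide +kernel)

/-- No point in the piece. -/
def tC0_empty : tC0.Empty ⟨⟨0, 1, 1⟩, ⟨98, 99, 147⟩, ⟨4050, 10000, 30000⟩, ⟨290, 353, 1000⟩⟩ :=
  ⟨tC0_p0, Bool.forall_bool.2 ⟨tC0_den0, tC0_den1⟩, tC0_gn, ⟨.inl tC0_mupU, .inl tC0_nupU⟩, Bool.forall_bool.2 ⟨tC0_none0, tC0_none1⟩⟩

def tC1_p0a : PosD ⟨⟨0, 1, 1⟩, ⟨98, 99, 147⟩, ⟨4050, 7025, 30000⟩, ⟨353, 430, 1000⟩⟩ (tC1.hP0) :=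
  posD_of_check (c := ⟨83, ⟨0, 2, 3, 1⟩⟩) (by decide +kernel)

def tC1_p0b : PosD ⟨⟨0, 1, 1⟩, ⟨98, 99, 147⟩, ⟨7025, 10000, 30000⟩, ⟨353, 430, 1000⟩⟩ (tC1.hP0) :=
  posD_of_check (c := ⟨83, ⟨0, 2, 3, 1⟩⟩) (by decide +kernel)

def tC1_p0 : PosD ⟨⟨0, 1, 1⟩, ⟨98, 99, 147⟩, ⟨4050, 10000, 30000⟩, ⟨353, 430, 1000⟩⟩ (tC1.hP0) :=
  posD_join₂ tC1_p0a tC1_p0b

def tC1_gn : PosD ⟨⟨0, 1, 1⟩, ⟨98, 99, 147⟩, ⟨4050, 10000, 30000⟩, ⟨353, 430, 1000⟩⟩ (tC1.hGn) :=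
  posD_of_check (c := ⟨57, ⟨1, 1, 2, 1⟩⟩) (by decide +kernel)

def tC1_den0 : PosD ⟨⟨0, 1, 1⟩, ⟨98, 99, 147⟩, ⟨4050, 10000, 30000⟩, ⟨353, 430, 1000⟩⟩ (tC1.hDen false) :=
  posD_of_check (c := ⟨50, ⟨1, 0, 2, 0⟩⟩) (by decide +kernel)

def tC1_den1 : PosD ⟨⟨0, 1, 1⟩, ⟨98, 99, 147⟩, ⟨4050, 10000, 30000⟩, ⟨353, 430, 1000⟩⟩ (tC1.hDen true) :=
  posD_of_check (c := ⟨50, ⟨1, 0, 2, 0⟩⟩) (by decide +kernel)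

def tC1_none0 : PosD ⟨⟨0, 1, 1⟩, ⟨98, 99, 147⟩, ⟨4050, 10000, 30000⟩, ⟨353, 430, 1000⟩⟩ (tC1.hNone false) :=
  posD_of_check (c := ⟨242, ⟨5, 6, 7, 3⟩⟩) (by decide +kernel)

def tC1_none1 : PosD ⟨⟨0, 1, 1⟩, ⟨98, 99, 147⟩, ⟨4050, 10000, 30000⟩, ⟨353, 430, 1000⟩⟩ (tC1.hNone true) :=
  posD_of_check (c := ⟨243, ⟨5, 6, 7, 3⟩⟩) (by decide +kernel)

def tC1_mupU : PosD ⟨⟨0, 1, 1⟩, ⟨98, 99, 147⟩, ⟨4050, 10000, 30000⟩, ⟨353, 430, 1000⟩⟩ (tC1.pU.μ) :=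
  posD_of_check (c := ⟨16, ⟨0, 0, 0, 0⟩⟩) (by decide +kernel)

def tC1_nupU : PosD ⟨⟨0, 1, 1⟩, ⟨98, 99, 147⟩, ⟨4050, 10000, 30000⟩, ⟨353, 430, 1000⟩⟩ (tC1.pU.ν) :=
  posD_of_check (c := ⟨45, ⟨0, 0, 1, 1⟩⟩) (by decide +kernel)

/-- No point in the piece. -/
def tC1_empty : tC1.Empty ⟨⟨0, 1, 1⟩, ⟨98, 99, 147⟩, ⟨4050, 10000, 30000⟩, ⟨353, 430, 1000⟩⟩ :=
  ⟨tC1_p0, Bool.forall_bool.2 ⟨tC1_den0, tC1_den1⟩, tC1_gn, ⟨.inl tC1_mupU, .inl tC1_nupU⟩, Bool.forall_bool.2 ⟨tC1_none0, tC1_none1⟩⟩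

def tC2_p0a : PosD ⟨⟨0, 1, 1⟩, ⟨98, 99, 147⟩, ⟨4050, 7025, 30000⟩, ⟨430, 550, 1000⟩⟩ (tC2.hP0) :=
  posD_of_check (c := ⟨83, ⟨0, 2, 3, 1⟩⟩) (by decide +kernel)

def tC2_p0b : PosD ⟨⟨0, 1, 1⟩, ⟨98, 99, 147⟩, ⟨7025, 10000, 30000⟩, ⟨430, 550, 1000⟩⟩ (tC2.hP0) :=
  posD_of_check (c := ⟨83, ⟨0, 2, 3, 1⟩⟩) (by decide +kernel)

def tC2_p0 : PosD ⟨⟨0, 1, 1⟩, ⟨98, 99, 147⟩, ⟨4050, 10000, 30000⟩, ⟨430, 550, 1000⟩⟩ (tC2.hP0) :=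
  posD_join₂ tC2_p0a tC2_p0b

def tC2_gn : PosD ⟨⟨0, 1, 1⟩, ⟨98, 99, 147⟩, ⟨4050, 10000, 30000⟩, ⟨430, 550, 1000⟩⟩ (tC2.hGn) :=
  posD_of_check (c := ⟨57, ⟨1, 1, 2, 1⟩⟩) (by decide +kernel)

def tC2_den0 : PosD ⟨⟨0, 1, 1⟩, ⟨98, 99, 147⟩, ⟨4050, 10000, 30000⟩, ⟨430, 550, 1000⟩⟩ (tC2.hDen false) :=
  posD_of_check (c := ⟨50, ⟨1, 0, 2, 0⟩⟩) (by decide +kernel)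

def tC2_den1 : PosD ⟨⟨0, 1, 1⟩, ⟨98, 99, 147⟩, ⟨4050, 10000, 30000⟩, ⟨430, 550, 1000⟩⟩ (tC2.hDen true) :=
  posD_of_check (c := ⟨50, ⟨1, 0, 2, 0⟩⟩) (by decide +kernel)

def tC2_ev0 : PosD ⟨⟨0, 1, 1⟩, ⟨98, 99, 147⟩, ⟨4050, 10000, 30000⟩, ⟨430, 550, 1000⟩⟩ (tC2.hEv false) :=
  posD_of_check (c := ⟨124, ⟨4, 2, 4, 1⟩⟩) (by decide +kernel)

def tC2_zL0 : PosD ⟨⟨0, 1, 1⟩, ⟨98, 99, 147⟩, ⟨4050, 10000, 30000⟩, ⟨430, 550, 1000⟩⟩ (tC2.hZL false) :=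
  posD_of_check (c := ⟨170, ⟨4, 3, 6, 3⟩⟩) (by decide +kernel)

def tC2_zU0a : PosD ⟨⟨0, 1, 1⟩, ⟨98, 99, 147⟩, ⟨4050, 7025, 30000⟩, ⟨430, 550, 1000⟩⟩ (tC2.hZU false) :=
  posD_of_check (c := ⟨169, ⟨4, 3, 6, 3⟩⟩) (by decide +kernel)

def tC2_zU0b : PosD ⟨⟨0, 1, 1⟩, ⟨98, 99, 147⟩, ⟨7025, 10000, 30000⟩, ⟨430, 550, 1000⟩⟩ (tC2.hZU false) :=
  posD_of_check (c := ⟨171, ⟨4, 3, 6, 3⟩⟩) (by decide +kernel)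

def tC2_zU0 : PosD ⟨⟨0, 1, 1⟩, ⟨98, 99, 147⟩, ⟨4050, 10000, 30000⟩, ⟨430, 550, 1000⟩⟩ (tC2.hZU false) :=
  posD_join₂ tC2_zU0a tC2_zU0b

def tC2_eL0a : PosD ⟨⟨0, 1, 1⟩, ⟨98, 99, 147⟩, ⟨4050, 10000, 30000⟩, ⟨430, 490, 1000⟩⟩ (tC2.hEL false) :=
  posD_of_check (c := ⟨233, ⟨5, 6, 7, 3⟩⟩) (by decide +kernel)

def tC2_eL0b : PosD ⟨⟨0, 1, 1⟩, ⟨98, 99, 147⟩, ⟨4050, 10000, 30000⟩, ⟨490, 550, 1000⟩⟩ (tC2.hEL false) :=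
  posD_of_check (c := ⟨233, ⟨5, 6, 7, 3⟩⟩) (by decide +kernel)

def tC2_eL0 : PosD ⟨⟨0, 1, 1⟩, ⟨98, 99, 147⟩, ⟨4050, 10000, 30000⟩, ⟨430, 550, 1000⟩⟩ (tC2.hEL false) :=
  posD_join₃ tC2_eL0a tC2_eL0b

def tC2_eH0 : PosD ⟨⟨0, 1, 1⟩, ⟨98, 99, 147⟩, ⟨4050, 10000, 30000⟩, ⟨430, 550, 1000⟩⟩ (tC2.hEH false) :=
  posD_of_check (c := ⟨235, ⟨5, 6, 7, 3⟩⟩) (by decide +kernel)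

def tC2_pL0 : PosD ⟨⟨0, 1, 1⟩, ⟨98, 99, 147⟩, ⟨4050, 10000, 30000⟩, ⟨430, 550, 1000⟩⟩ (tC2.hPL false) :=
  posD_of_check (c := ⟨232, ⟨5, 6, 7, 2⟩⟩) (by decide +kernel)

def tC2_pU0 : PosD ⟨⟨0, 1, 1⟩, ⟨98, 99, 147⟩, ⟨4050, 10000, 30000⟩, ⟨430, 550, 1000⟩⟩ (tC2.hPU false) :=
  posD_of_check (c := ⟨233, ⟨5, 6, 7, 3⟩⟩) (by decide +kernel)

def tC2_kU0 : PosD ⟨⟨0, 1, 1⟩, ⟨98, 99, 147⟩, ⟨4050, 10000, 30000⟩, ⟨430, 550, 1000⟩⟩ (tC2.hKU false) :=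
  posD_of_check (c := ⟨230, ⟨5, 6, 7, 3⟩⟩) (by decide +kernel)

def tC2_kL0 : PosD ⟨⟨0, 1, 1⟩, ⟨98, 99, 147⟩, ⟨4050, 10000, 30000⟩, ⟨430, 550, 1000⟩⟩ (tC2.hKL false) :=
  posD_of_check (c := ⟨231, ⟨5, 6, 7, 3⟩⟩) (by decide +kernel)

def tC2_wU0a : PosD ⟨⟨0, 1, 1⟩, ⟨98, 99, 147⟩, ⟨4050, 7025, 30000⟩, ⟨430, 550, 1000⟩⟩ (tC2.hWU false) :=
  posD_of_check (c := ⟨264, ⟨5, 8, 8, 3⟩⟩) (by decide +kernel)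

def tC2_wU0b : PosD ⟨⟨0, 1, 1⟩, ⟨98, 99, 147⟩, ⟨7025, 10000, 30000⟩, ⟨430, 550, 1000⟩⟩ (tC2.hWU false) :=
  posD_of_check (c := ⟨265, ⟨5, 8, 8, 3⟩⟩) (by decide +kernel)

def tC2_wU0 : PosD ⟨⟨0, 1, 1⟩, ⟨98, 99, 147⟩, ⟨4050, 10000, 30000⟩, ⟨430, 550, 1000⟩⟩ (tC2.hWU false) :=
  posD_join₂ tC2_wU0a tC2_wU0b

def tC2_wL0 : PosD ⟨⟨0, 1, 1⟩, ⟨98, 99, 147⟩, ⟨4050, 10000, 30000⟩, ⟨430, 550, 1000⟩⟩ (tC2.hWL false) :=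
  posD_of_check (c := ⟨265, ⟨5, 8, 8, 3⟩⟩) (by decide +kernel)

def tC2_ev1 : PosD ⟨⟨0, 1, 1⟩, ⟨98, 99, 147⟩, ⟨4050, 10000, 30000⟩, ⟨430, 550, 1000⟩⟩ (tC2.hEv true) :=
  posD_of_check (c := ⟨124, ⟨4, 2, 4, 1⟩⟩) (by decide +kernel)

def tC2_zL1 : PosD ⟨⟨0, 1, 1⟩, ⟨98, 99, 147⟩, ⟨4050, 10000, 30000⟩, ⟨430, 550, 1000⟩⟩ (tC2.hZL true) :=
  posD_of_check (c := ⟨169, ⟨4, 3, 6, 3⟩⟩) (by decide +kernel)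

def tC2_zU1 : PosD ⟨⟨0, 1, 1⟩, ⟨98, 99, 147⟩, ⟨4050, 10000, 30000⟩, ⟨430, 550, 1000⟩⟩ (tC2.hZU true) :=
  posD_of_check (c := ⟨169, ⟨4, 3, 6, 3⟩⟩) (by decide +kernel)

def tC2_eL1a : PosD ⟨⟨0, 1, 1⟩, ⟨98, 99, 147⟩, ⟨4050, 10000, 30000⟩, ⟨430, 490, 1000⟩⟩ (tC2.hEL true) :=
  posD_of_check (c := ⟨234, ⟨5, 6, 7, 3⟩⟩) (by decide +kernel)

def tC2_eL1ba : PosD ⟨⟨0, 1, 1⟩, ⟨98, 99, 147⟩, ⟨4050, 10000, 30000⟩, ⟨490, 520, 1000⟩⟩ (tC2.hEL true) :=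
  posD_of_check (c := ⟨234, ⟨5, 6, 7, 3⟩⟩) (by decide +kernel)

def tC2_eL1bb : PosD ⟨⟨0, 1, 1⟩, ⟨98, 99, 147⟩, ⟨4050, 10000, 30000⟩, ⟨520, 550, 1000⟩⟩ (tC2.hEL true) :=
  posD_of_check (c := ⟨234, ⟨5, 6, 7, 3⟩⟩) (by decide +kernel)

def tC2_eL1b : PosD ⟨⟨0, 1, 1⟩, ⟨98, 99, 147⟩, ⟨4050, 10000, 30000⟩, ⟨490, 550, 1000⟩⟩ (tC2.hEL true) :=
  posD_join₃ tC2_eL1ba tC2_eL1bb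

def tC2_eL1 : PosD ⟨⟨0, 1, 1⟩, ⟨98, 99, 147⟩, ⟨4050, 10000, 30000⟩, ⟨430, 550, 1000⟩⟩ (tC2.hEL true) :=
  posD_join₃ tC2_eL1a tC2_eL1b

def tC2_eH1aa : PosD ⟨⟨0, 1, 1⟩, ⟨98, 99, 147⟩, ⟨4050, 7025, 30000⟩, ⟨430, 490, 1000⟩⟩ (tC2.hEH true) :=
  posD_of_check (c := ⟨235, ⟨5, 6, 7, 3⟩⟩) (by decide +kernel)

def tC2_eH1ab : PosD ⟨⟨0, 1, 1⟩, ⟨98, 99, 147⟩, ⟨4050, 7025, 30000⟩, ⟨490, 550, 1000⟩⟩ (tC2.hEH true) :=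
  posD_of_check (c := ⟨235, ⟨5, 6, 7, 3⟩⟩) (by decide +kernel)

def tC2_eH1a : PosD ⟨⟨0, 1, 1⟩, ⟨98, 99, 147⟩, ⟨4050, 7025, 30000⟩, ⟨430, 550, 1000⟩⟩ (tC2.hEH true) :=
  posD_join₃ tC2_eH1aa tC2_eH1ab

def tC2_eH1baa : PosD ⟨⟨0, 1, 2⟩, ⟨98, 99, 147⟩, ⟨7025, 10000, 30000⟩, ⟨430, 490, 1000⟩⟩ (tC2.hEH true) :=
  posD_of_check (c := ⟨237, ⟨5, 6, 7, 3⟩⟩) (by decide +kernel)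

def tC2_eH1bab : PosD ⟨⟨0, 1, 2⟩, ⟨98, 99, 147⟩, ⟨7025, 10000, 30000⟩, ⟨490, 550, 1000⟩⟩ (tC2.hEH true) :=
  posD_of_check (c := ⟨237, ⟨5, 6, 7, 3⟩⟩) (by decide +kernel)

def tC2_eH1ba : PosD ⟨⟨0, 1, 2⟩, ⟨98, 99, 147⟩, ⟨7025, 10000, 30000⟩, ⟨430, 550, 1000⟩⟩ (tC2.hEH true) :=
  posD_join₃ tC2_eH1baa tC2_eH1bab

def tC2_eH1bb : PosD ⟨⟨1, 2, 2⟩, ⟨98, 99, 147⟩, ⟨7025, 10000, 30000⟩, ⟨430, 550, 1000⟩⟩ (tC2.hEH true) :=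
  posD_of_check (c := ⟨239, ⟨5, 6, 7, 3⟩⟩) (by decide +kernel)

def tC2_eH1b : PosD ⟨⟨0, 1, 1⟩, ⟨98, 99, 147⟩, ⟨7025, 10000, 30000⟩, ⟨430, 550, 1000⟩⟩ (tC2.hEH true) :=
  posD_units (b := ⟨⟨0, 2, 2⟩, ⟨98, 99, 147⟩, ⟨7025, 10000, 30000⟩, ⟨430, 550, 1000⟩⟩) (by decide +kernel) (posD_join₀ tC2_eH1ba tC2_eH1bb)

def tC2_eH1 : PosD ⟨⟨0, 1, 1⟩, ⟨98, 99, 147⟩, ⟨4050, 10000, 30000⟩, ⟨430, 550, 1000⟩⟩ (tC2.hEH true) :=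
  posD_join₂ tC2_eH1a tC2_eH1b

def tC2_pL1 : PosD ⟨⟨0, 1, 1⟩, ⟨98, 99, 147⟩, ⟨4050, 10000, 30000⟩, ⟨430, 550, 1000⟩⟩ (tC2.hPL true) :=
  posD_of_check (c := ⟨233, ⟨5, 6, 7, 2⟩⟩) (by decide +kernel)

def tC2_pU1a : PosD ⟨⟨0, 1, 1⟩, ⟨98, 99, 147⟩, ⟨4050, 10000, 30000⟩, ⟨430, 490, 1000⟩⟩ (tC2.hPU true) :=
  posD_of_check (c := ⟨234, ⟨5, 6, 7, 3⟩⟩) (by decide +kernel)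

def tC2_pU1b : PosD ⟨⟨0, 1, 1⟩, ⟨98, 99, 147⟩, ⟨4050, 10000, 30000⟩, ⟨490, 550, 1000⟩⟩ (tC2.hPU true) :=
  posD_of_check (c := ⟨234, ⟨5, 6, 7, 3⟩⟩) (by decide +kernel)

def tC2_pU1 : PosD ⟨⟨0, 1, 1⟩, ⟨98, 99, 147⟩, ⟨4050, 10000, 30000⟩, ⟨430, 550, 1000⟩⟩ (tC2.hPU true) :=
  posD_join₃ tC2_pU1a tC2_pU1b

def tC2_kU1 : PosD ⟨⟨0, 1, 1⟩, ⟨98, 99, 147⟩, ⟨4050, 10000, 30000⟩, ⟨430, 550, 1000⟩⟩ (tC2.hKU true) :=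
  posD_of_check (c := ⟨231, ⟨5, 6, 7, 3⟩⟩) (by decide +kernel)

def tC2_kL1 : PosD ⟨⟨0, 1, 1⟩, ⟨98, 99, 147⟩, ⟨4050, 10000, 30000⟩, ⟨430, 550, 1000⟩⟩ (tC2.hKL true) :=
  posD_of_check (c := ⟨231, ⟨5, 6, 7, 3⟩⟩) (by decide +kernel)

def tC2_wU1a : PosD ⟨⟨0, 1, 2⟩, ⟨98, 99, 147⟩, ⟨4050, 10000, 30000⟩, ⟨430, 550, 1000⟩⟩ (tC2.hWU true) :=
  posD_of_check (c := ⟨267, ⟨5, 8, 8, 3⟩⟩) (by decide +kernel)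

def tC2_wU1ba : PosD ⟨⟨1, 2, 2⟩, ⟨98, 99, 147⟩, ⟨4050, 7025, 30000⟩, ⟨430, 550, 1000⟩⟩ (tC2.hWU true) :=
  posD_of_check (c := ⟨268, ⟨5, 8, 8, 3⟩⟩) (by decide +kernel)

def tC2_wU1bb : PosD ⟨⟨1, 2, 2⟩, ⟨98, 99, 147⟩, ⟨7025, 10000, 30000⟩, ⟨430, 550, 1000⟩⟩ (tC2.hWU true) :=
  posD_of_check (c := ⟨269, ⟨5, 8, 8, 3⟩⟩) (by decide +kernel)

def tC2_wU1b : PosD ⟨⟨1, 2, 2⟩, ⟨98, 99, 147⟩, ⟨4050, 10000, 30000⟩, ⟨430, 550, 1000⟩⟩ (tC2.hWU true) :=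
  posD_join₂ tC2_wU1ba tC2_wU1bb

def tC2_wU1 : PosD ⟨⟨0, 1, 1⟩, ⟨98, 99, 147⟩, ⟨4050, 10000, 30000⟩, ⟨430, 550, 1000⟩⟩ (tC2.hWU true) :=
  posD_units (b := ⟨⟨0, 2, 2⟩, ⟨98, 99, 147⟩, ⟨4050, 10000, 30000⟩, ⟨430, 550, 1000⟩⟩) (by decide +kernel) (posD_join₀ tC2_wU1a tC2_wU1b)

def tC2_wL1 : PosD ⟨⟨0, 1, 1⟩, ⟨98, 99, 147⟩, ⟨4050, 10000, 30000⟩, ⟨430, 550, 1000⟩⟩ (tC2.hWL true) :=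
  posD_of_check (c := ⟨265, ⟨5, 8, 8, 3⟩⟩) (by decide +kernel)

def tC2_mueL : PosD ⟨⟨0, 1, 1⟩, ⟨98, 99, 147⟩, ⟨4050, 10000, 30000⟩, ⟨430, 550, 1000⟩⟩ (tC2.eL.μ) :=
  posD_of_check (c := ⟨14, ⟨0, 0, 0, 0⟩⟩) (by decide +kernel)

def tC2_mueH : PosD ⟨⟨0, 1, 1⟩, ⟨98, 99, 147⟩, ⟨4050, 10000, 30000⟩, ⟨430, 550, 1000⟩⟩ (tC2.eH.μ) :=
  posD_of_check (c := ⟨18, ⟨0, 0, 0, 0⟩⟩) (by decide +kernel)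

def tC2_mupL : PosD ⟨⟨0, 1, 1⟩, ⟨98, 99, 147⟩, ⟨4050, 10000, 30000⟩, ⟨430, 550, 1000⟩⟩ (tC2.pL.μ) :=
  posD_of_check (c := ⟨16, ⟨0, 0, 0, 0⟩⟩) (by decide +kernel)

/-- The bounds of the piece. -/
def tC2_env : tC2.Env ⟨⟨0, 1, 1⟩, ⟨98, 99, 147⟩, ⟨4050, 10000, 30000⟩, ⟨430, 550, 1000⟩⟩ :=
  ⟨tC2_p0, Bool.forall_bool.2 ⟨tC2_den0, tC2_den1⟩, tC2_gn, Bool.forall_bool.2 ⟨tC2_ev0, tC2_ev1⟩, Bool.forall_bool.2 ⟨tC2_zL0, tC2_zL1⟩, Bool.forall_bool.2 ⟨tC2_zU0, tC2_zU1⟩, Bool.forall_bool.2 ⟨tC2_eL0, tC2_eL1⟩, ⟨.inl tC2_mueL, .inr rfl⟩, Bool.forall_bool.2 ⟨tC2_eH0, tC2_eH1⟩, ⟨.inl tC2_mueH, .inr rfl⟩, Bool.forall_bool.2 ⟨tC2_pL0, tC2_pL1⟩, ⟨.inl tC2_mupL, .inr rfl⟩, Bool.forall_bool.2 ⟨tC2_pU0, tC2_pU1⟩, ⟨.inr rfl,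 .inr rfl⟩, Bool.forall_bool.2 ⟨tC2_kU0, tC2_kU1⟩, ⟨.inr rfl, .inr rfl⟩, Bool.forall_bool.2 ⟨tC2_kL0, tC2_kL1⟩, ⟨.inr rfl, .inr rfl⟩, Bool.forall_bool.2 ⟨tC2_wU0, tC2_wU1⟩, ⟨.inr rfl, .inr rfl⟩, Bool.forall_bool.2 ⟨tC2_wL0, tC2_wL1⟩, ⟨.inr rfl, .inr rfl⟩⟩

def tC2_pp : PosD ⟨⟨0, 1, 1⟩, ⟨98, 99, 147⟩, ⟨4050, 10000, 30000⟩, ⟨430, 550, 1000⟩⟩ (tC2.xPL) :=
  posD_of_check (c := ⟨62, ⟨1, 1, 2, 2⟩⟩) (by decide +kernel)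

def tC2_k2p : PosD ⟨⟨0, 1, 1⟩, ⟨98, 99, 147⟩, ⟨4050, 10000, 30000⟩, ⟨430, 550, 1000⟩⟩ (tC2.k2p tC2.xE) :=
  posD_of_check (c := ⟨6, ⟨0, 0, 0, 0⟩⟩) (by decide +kernel)

def tC2_k2m : PosD ⟨⟨0, 1, 1⟩, ⟨98, 99, 147⟩, ⟨4050, 10000, 30000⟩, ⟨430, 550, 1000⟩⟩ (tC2.k2m tC2.xE) :=
  posD_of_check (c := ⟨72, ⟨1, 1, 2, 2⟩⟩) (by decide +kernel)

def tC2_v2p : PosD ⟨⟨0, 1, 1⟩, ⟨98, 99, 147⟩, ⟨4050, 10000, 30000⟩, ⟨430, 550, 1000⟩⟩ (tC2.hV2p) :=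
  posD_of_check (c := ⟨240, ⟨0, 5, 10, 4⟩⟩) (by decide +kernel)

def tC2_v2m : PosD ⟨⟨0, 1, 1⟩, ⟨98, 99, 147⟩, ⟨4050, 10000, 30000⟩, ⟨430, 550, 1000⟩⟩ (tC2.hV2m) :=
  posD_of_check (c := ⟨271, ⟨1, 6, 10, 5⟩⟩) (by decide +kernel)

def tC2_v3p : PosD ⟨⟨0, 1, 1⟩, ⟨98, 99, 147⟩, ⟨4050, 10000, 30000⟩, ⟨430, 550, 1000⟩⟩ (tC2.hV3p) :=
  posD_of_check (c := ⟨230, ⟨0, 5, 9, 4⟩⟩) (by decide +kernel)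

def tC2_v3m : PosD ⟨⟨0, 1, 1⟩, ⟨98, 99, 147⟩, ⟨4050, 10000, 30000⟩, ⟨430, 550, 1000⟩⟩ (tC2.hV3m) :=
  posD_of_check (c := ⟨255, ⟨1, 6, 9, 5⟩⟩) (by decide +kernel)

def tC2_kap0 : PosD ⟨⟨0, 1, 1⟩, ⟨98, 99, 147⟩, ⟨4050, 10000, 30000⟩, ⟨430, 550, 1000⟩⟩ (tC2.kap false) :=
  posD_of_check (c := ⟨65, ⟨1, 1, 2, 2⟩⟩) (by decide +kernel)

def tC2_c10 : PosD ⟨⟨0, 1, 1⟩, ⟨98, 99, 147⟩, ⟨4050, 10000, 30000⟩, ⟨430, 550, 1000⟩⟩ (tC2.hC1 false) :=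
  posD_of_check (c := ⟨240, ⟨3, 5, 8, 6⟩⟩) (by decide +kernel)

def tC2_neg0 : PosD ⟨⟨0, 1, 1⟩, ⟨98, 99, 147⟩, ⟨4050, 10000, 30000⟩, ⟨430, 550, 1000⟩⟩ (tC2.hNeg (tC2.pEnd false)) :=
  posD_of_check (c := ⟨237, ⟨2, 5, 8, 6⟩⟩) (by decide +kernel)

def tC2_neglo0 : PosD ⟨⟨0, 1, 1⟩, ⟨98, 99, 147⟩, ⟨4050, 10000, 30000⟩, ⟨430, 550, 1000⟩⟩ (tC2.hNegLo (tC2.pEnd false)) :=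
  posD_of_check (c := ⟨237, ⟨2, 5, 8, 6⟩⟩) (by decide +kernel)

def tC2_tg00 : PosD ⟨⟨0, 1, 1⟩, ⟨98, 99, 147⟩, ⟨4050, 10000, 30000⟩, ⟨430, 550, 1000⟩⟩ (tC2.hG false (tC2.pEnd false)) :=
  posD_of_check (c := ⟨373, ⟨2, 7, 14, 9⟩⟩) (by decide +kernel)

def tC2_c2p00 : PosD ⟨⟨0, 1, 1⟩, ⟨98, 99, 147⟩, ⟨4050, 10000, 30000⟩, ⟨430, 550, 1000⟩⟩ (tC2.hC2p false (tC2.pEnd false)) :=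
  posD_of_check (c := ⟨391, ⟨2, 7, 15, 9⟩⟩) (by decide +kernel)

def tC2_c2m00 : PosD ⟨⟨0, 1, 1⟩, ⟨98, 99, 147⟩, ⟨4050, 10000, 30000⟩, ⟨430, 550, 1000⟩⟩ (tC2.hC2m false (tC2.pEnd false)) :=
  posD_of_check (c := ⟨444, ⟨3, 8, 16, 11⟩⟩) (by decide +kernel)

def tC2_c3p00 : PosD ⟨⟨0, 1, 1⟩, ⟨98, 99, 147⟩, ⟨4050, 10000, 30000⟩, ⟨430, 550, 1000⟩⟩ (tC2.hC3p false false) :=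
  posD_of_check (c := ⟨360, ⟨3, 7, 14, 8⟩⟩) (by decide +kernel)

def tC2_c3m00 : PosD ⟨⟨0, 1, 1⟩, ⟨98, 99, 147⟩, ⟨4050, 10000, 30000⟩, ⟨430, 550, 1000⟩⟩ (tC2.hC3m false false) :=
  posD_of_check (c := ⟨405, ⟨3, 8, 14, 10⟩⟩) (by decide +kernel)

def tC2_tmg00 : PosD ⟨⟨0, 1, 1⟩, ⟨98, 99, 147⟩, ⟨4050, 10000, 30000⟩, ⟨430, 550, 1000⟩⟩ (tC2.hTMG false (tC2.pEnd false)) :=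
  posD_of_check (c := ⟨352, ⟨2, 7, 13, 8⟩⟩) (by decide +kernel)

def tC2_tg01 : PosD ⟨⟨0, 1, 1⟩, ⟨98, 99, 147⟩, ⟨4050, 10000, 30000⟩, ⟨430, 550, 1000⟩⟩ (tC2.hG true (tC2.pEnd false)) :=
  posD_of_check (c := ⟨373, ⟨2, 7, 14, 9⟩⟩) (by decide +kernel)

def tC2_c2p01 : PosD ⟨⟨0, 1, 1⟩, ⟨98, 99, 147⟩, ⟨4050, 10000, 30000⟩, ⟨430, 550, 1000⟩⟩ (tC2.hC2p true (tC2.pEnd false)) :=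
  posD_of_check (c := ⟨391, ⟨2, 7, 15, 9⟩⟩) (by decide +kernel)

def tC2_c2m01 : PosD ⟨⟨0, 1, 1⟩, ⟨98, 99, 147⟩, ⟨4050, 10000, 30000⟩, ⟨430, 550, 1000⟩⟩ (tC2.hC2m true (tC2.pEnd false)) :=
  posD_of_check (c := ⟨444, ⟨3, 8, 16, 11⟩⟩) (by decide +kernel)

def tC2_c3p01 : PosD ⟨⟨0, 1, 1⟩, ⟨98, 99, 147⟩, ⟨4050, 10000, 30000⟩, ⟨430, 550, 1000⟩⟩ (tC2.hC3p false true) :=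
  posD_of_check (c := ⟨360, ⟨3, 7, 14, 8⟩⟩) (by decide +kernel)

def tC2_c3m01 : PosD ⟨⟨0, 1, 1⟩, ⟨98, 99, 147⟩, ⟨4050, 10000, 30000⟩, ⟨430, 550, 1000⟩⟩ (tC2.hC3m false true) :=
  posD_of_check (c := ⟨405, ⟨3, 8, 14, 10⟩⟩) (by decide +kernel)

def tC2_tmg01 : PosD ⟨⟨0, 1, 1⟩, ⟨98, 99, 147⟩, ⟨4050, 10000, 30000⟩, ⟨430, 550, 1000⟩⟩ (tC2.hTMG true (tC2.pEnd false)) :=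
  posD_of_check (c := ⟨352, ⟨2, 7, 13, 8⟩⟩) (by decide +kernel)

def tC2_kap1 : PosD ⟨⟨0, 1, 1⟩, ⟨98, 99, 147⟩, ⟨4050, 10000, 30000⟩, ⟨430, 550, 1000⟩⟩ (tC2.kap true) :=
  posD_of_check (c := ⟨68, ⟨1, 1, 2, 2⟩⟩) (by decide +kernel)

def tC2_c11 : PosD ⟨⟨0, 1, 1⟩, ⟨98, 99, 147⟩, ⟨4050, 10000, 30000⟩, ⟨430, 550, 1000⟩⟩ (tC2.hC1 true) :=
  posD_of_check (c := ⟨272, ⟨3, 5, 9, 7⟩⟩) (by decide +kernel)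

def tC2_neg1 : PosD ⟨⟨0, 1, 1⟩, ⟨98, 99, 147⟩, ⟨4050, 10000, 30000⟩, ⟨430, 550, 1000⟩⟩ (tC2.hNeg (tC2.pEnd true)) :=
  posD_of_check (c := ⟨268, ⟨2, 5, 9, 7⟩⟩) (by decide +kernel)

def tC2_neglo1 : PosD ⟨⟨0, 1, 1⟩, ⟨98, 99, 147⟩, ⟨4050, 10000, 30000⟩, ⟨430, 550, 1000⟩⟩ (tC2.hNegLo (tC2.pEnd true)) :=
  posD_of_check (c := ⟨268, ⟨2, 5, 9, 7⟩⟩) (by decide +kernel)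

def tC2_tg10 : PosD ⟨⟨0, 1, 1⟩, ⟨98, 99, 147⟩, ⟨4050, 10000, 30000⟩, ⟨430, 550, 1000⟩⟩ (tC2.hG false (tC2.pEnd true)) :=
  posD_of_check (c := ⟨383, ⟨2, 7, 14, 9⟩⟩) (by decide +kernel)

def tC2_c2p10 : PosD ⟨⟨0, 1, 1⟩, ⟨98, 99, 147⟩, ⟨4050, 10000, 30000⟩, ⟨430, 550, 1000⟩⟩ (tC2.hC2p false (tC2.pEnd true)) :=
  posD_of_check (c := ⟨425, ⟨2, 7, 16, 10⟩⟩) (by decide +kernel)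

def tC2_c2m10 : PosD ⟨⟨0, 1, 1⟩, ⟨98, 99, 147⟩, ⟨4050, 10000, 30000⟩, ⟨430, 550, 1000⟩⟩ (tC2.hC2m false (tC2.pEnd true)) :=
  posD_of_check (c := ⟨455, ⟨3, 8, 16, 11⟩⟩) (by decide +kernel)

def tC2_c3p10 : PosD ⟨⟨0, 1, 1⟩, ⟨98, 99, 147⟩, ⟨4050, 10000, 30000⟩, ⟨430, 550, 1000⟩⟩ (tC2.hC3p true false) :=
  posD_of_check (c := ⟨418, ⟨3, 7, 15, 10⟩⟩) (by decide +kernel)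

def tC2_c3m10 : PosD ⟨⟨0, 1, 1⟩, ⟨98, 99, 147⟩, ⟨4050, 10000, 30000⟩, ⟨430, 550, 1000⟩⟩ (tC2.hC3m true false) :=
  posD_of_check (c := ⟨442, ⟨3, 8, 15, 11⟩⟩) (by decide +kernel)

def tC2_tmg10 : PosD ⟨⟨0, 1, 1⟩, ⟨98, 99, 147⟩, ⟨4050, 10000, 30000⟩, ⟨430, 550, 1000⟩⟩ (tC2.hTMG false (tC2.pEnd true)) :=
  posD_of_check (c := ⟨399, ⟨2, 7, 14, 10⟩⟩) (by decide +kernel)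

def tC2_tg11 : PosD ⟨⟨0, 1, 1⟩, ⟨98, 99, 147⟩, ⟨4050, 10000, 30000⟩, ⟨430, 550, 1000⟩⟩ (tC2.hG true (tC2.pEnd true)) :=
  posD_of_check (c := ⟨383, ⟨2, 7, 14, 9⟩⟩) (by decide +kernel)

def tC2_c2p11 : PosD ⟨⟨0, 1, 1⟩, ⟨98, 99, 147⟩, ⟨4050, 10000, 30000⟩, ⟨430, 550, 1000⟩⟩ (tC2.hC2p true (tC2.pEnd true)) :=
  posD_of_check (c := ⟨425, ⟨2, 7, 16, 10⟩⟩) (by decide +kernel)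

def tC2_c2m11 : PosD ⟨⟨0, 1, 1⟩, ⟨98, 99, 147⟩, ⟨4050, 10000, 30000⟩, ⟨430, 550, 1000⟩⟩ (tC2.hC2m true (tC2.pEnd true)) :=
  posD_of_check (c := ⟨455, ⟨3, 8, 16, 11⟩⟩) (by decide +kernel)

def tC2_c3p11 : PosD ⟨⟨0, 1, 1⟩, ⟨98, 99, 147⟩, ⟨4050, 10000, 30000⟩, ⟨430, 550, 1000⟩⟩ (tC2.hC3p true true) :=
  posD_of_check (c := ⟨418, ⟨3, 7, 15, 10⟩⟩) (by decide +kernel)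

def tC2_c3m11 : PosD ⟨⟨0, 1, 1⟩, ⟨98, 99, 147⟩, ⟨4050, 10000, 30000⟩, ⟨430, 550, 1000⟩⟩ (tC2.hC3m true true) :=
  posD_of_check (c := ⟨442, ⟨3, 8, 15, 11⟩⟩) (by decide +kernel)

def tC2_tmg11 : PosD ⟨⟨0, 1, 1⟩, ⟨98, 99, 147⟩, ⟨4050, 10000, 30000⟩, ⟨430, 550, 1000⟩⟩ (tC2.hTMG true (tC2.pEnd true)) :=
  posD_of_check (c := ⟨399, ⟨2, 7, 14, 10⟩⟩) (by decide +kernel)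

/-- The signs of the piece. -/
def tC2_sign : tC2.Sign ⟨⟨0, 1, 1⟩, ⟨98, 99, 147⟩, ⟨4050, 10000, 30000⟩, ⟨430, 550, 1000⟩⟩ :=
  ⟨tC2_pp,
    tC2_k2p,
    tC2_k2m,
    Bool.forall_bool.2 ⟨(Bool.forall_bool.2 ⟨tC2_tg00, tC2_tg01⟩), (Bool.forall_bool.2 ⟨tC2_tg10, tC2_tg11⟩)⟩,
    Bool.forall_bool.2 ⟨(Bool.forall_bool.2 ⟨tC2_c2p00, tC2_c2p01⟩), (Bool.forall_bool.2 ⟨tC2_c2p10, tC2_c2p11⟩)⟩,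
    Bool.forall_bool.2 ⟨(Bool.forall_bool.2 ⟨tC2_c2m00, tC2_c2m01⟩), (Bool.forall_bool.2 ⟨tC2_c2m10, tC2_c2m11⟩)⟩,
    Bool.forall_bool.2 ⟨tC2_kap0, tC2_kap1⟩,
    Bool.forall_bool.2 ⟨tC2_c10, tC2_c11⟩,
    Bool.forall_bool.2 ⟨(Bool.forall_bool.2 ⟨tC2_c3p00, tC2_c3p01⟩), (Bool.forall_bool.2 ⟨tC2_c3p10, tC2_c3p11⟩)⟩,
    Bool.forall_bool.2 ⟨(Bool.forall_bool.2 ⟨tC2_c3m00, tC2_c3m01⟩), (Bool.forall_bool.2 ⟨tC2_c3m10, tC2_c3m11⟩)⟩,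
    Bool.forall_bool.2 ⟨(Bool.forall_bool.2 ⟨tC2_tmg00, tC2_tmg01⟩), (Bool.forall_bool.2 ⟨tC2_tmg10, tC2_tmg11⟩)⟩,
    .inl (Bool.forall_bool.2 ⟨⟨tC2_neg0, tC2_neglo0⟩, ⟨tC2_neg1, tC2_neglo1⟩⟩),
    tC2_v2p,
    tC2_v2m,
    tC2_v3p,
    tC2_v3m,
    posD_sub (b := ⟨⟨0, 1, 1⟩, ⟨98, 99, 147⟩, ⟨4050, 10000, 30000⟩, ⟨290, 4000, 1000⟩⟩) (by decide +kernel) tC_vG,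
    posD_sub (b := ⟨⟨0, 1, 1⟩, ⟨98, 99, 147⟩, ⟨4050, 10000, 30000⟩, ⟨290, 4000, 1000⟩⟩) (by decide +kernel) tC_vMG,
    posD_sub (b := ⟨⟨0, 1, 1⟩, ⟨98, 99, 147⟩, ⟨4050, 10000, 30000⟩, ⟨290, 4000, 1000⟩⟩) (by decide +kernel) tC_ak,
    posD_sub (b := ⟨⟨0, 1, 1⟩, ⟨98, 99, 147⟩, ⟨4050, 10000, 30000⟩, ⟨290, 4000, 1000⟩⟩) (by decide +kernel) tC_aw,
    posD_sub (b := ⟨⟨0, 1, 1⟩, ⟨98, 99, 147⟩, ⟨4050, 10000, 30000⟩, ⟨290, 4000, 1000⟩⟩) (by decide +kernel) tC_gk,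
    posD_sub (b := ⟨⟨0, 1, 1⟩, ⟨98, 99, 147⟩, ⟨4050, 10000, 30000⟩, ⟨290, 4000, 1000⟩⟩) (by decide +kernel) tC_gw,
    posD_sub (b := ⟨⟨0, 1, 1⟩, ⟨98, 99, 147⟩, ⟨4050, 10000, 30000⟩, ⟨290, 4000, 1000⟩⟩) (by decide +kernel) tC_ek,
    posD_sub (b := ⟨⟨0, 1, 1⟩, ⟨98, 99, 147⟩, ⟨4050, 10000, 30000⟩, ⟨290, 4000, 1000⟩⟩) (by decide +kernel) tC_ew⟩

def tC3_p0a : PosD ⟨⟨0, 1, 1⟩, ⟨98, 99, 147⟩, ⟨4050, 7025, 30000⟩, ⟨550, 900, 1000⟩⟩ (tC3.hP0) :=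
  posD_of_check (c := ⟨83, ⟨0, 2, 3, 1⟩⟩) (by decide +kernel)

def tC3_p0b : PosD ⟨⟨0, 1, 1⟩, ⟨98, 99, 147⟩, ⟨7025, 10000, 30000⟩, ⟨550, 900, 1000⟩⟩ (tC3.hP0) :=
  posD_of_check (c := ⟨83, ⟨0, 2, 3, 1⟩⟩) (by decide +kernel)

def tC3_p0 : PosD ⟨⟨0, 1, 1⟩, ⟨98, 99, 147⟩, ⟨4050, 10000, 30000⟩, ⟨550, 900, 1000⟩⟩ (tC3.hP0) :=
  posD_join₂ tC3_p0a tC3_p0b

def tC3_gn : PosD ⟨⟨0, 1, 1⟩, ⟨98, 99, 147⟩, ⟨4050, 10000, 30000⟩, ⟨550, 900, 1000⟩⟩ (tC3.hGn) :=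
  posD_of_check (c := ⟨57, ⟨1, 1, 2, 1⟩⟩) (by decide +kernel)

def tC3_den0 : PosD ⟨⟨0, 1, 1⟩, ⟨98, 99, 147⟩, ⟨4050, 10000, 30000⟩, ⟨550, 900, 1000⟩⟩ (tC3.hDen false) :=
  posD_of_check (c := ⟨50, ⟨1, 0, 2, 0⟩⟩) (by decide +kernel)

def tC3_den1 : PosD ⟨⟨0, 1, 1⟩, ⟨98, 99, 147⟩, ⟨4050, 10000, 30000⟩, ⟨550, 900, 1000⟩⟩ (tC3.hDen true) :=
  posD_of_check (c := ⟨50, ⟨1, 0, 2, 0⟩⟩) (by decide +kernel)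

def tC3_ev0 : PosD ⟨⟨0, 1, 1⟩, ⟨98, 99, 147⟩, ⟨4050, 10000, 30000⟩, ⟨550, 900, 1000⟩⟩ (tC3.hEv false) :=
  posD_of_check (c := ⟨124, ⟨4, 2, 4, 1⟩⟩) (by decide +kernel)

def tC3_zL0 : PosD ⟨⟨0, 1, 1⟩, ⟨98, 99, 147⟩, ⟨4050, 10000, 30000⟩, ⟨550, 900, 1000⟩⟩ (tC3.hZL false) :=
  posD_of_check (c := ⟨170, ⟨4, 3, 6, 3⟩⟩) (by decide +kernel)

def tC3_zU0 : PosD ⟨⟨0, 1, 1⟩, ⟨98, 99, 147⟩, ⟨4050, 10000, 30000⟩, ⟨550, 900, 1000⟩⟩ (tC3.hZU false) :=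
  posD_of_check (c := ⟨170, ⟨4, 3, 6, 3⟩⟩) (by decide +kernel)

def tC3_eL0 : PosD ⟨⟨0, 1, 1⟩, ⟨98, 99, 147⟩, ⟨4050, 10000, 30000⟩, ⟨550, 900, 1000⟩⟩ (tC3.hEL false) :=
  posD_of_check (c := ⟨232, ⟨5, 6, 7, 3⟩⟩) (by decide +kernel)

def tC3_eH0 : PosD ⟨⟨0, 1, 1⟩, ⟨98, 99, 147⟩, ⟨4050, 10000, 30000⟩, ⟨550, 900, 1000⟩⟩ (tC3.hEH false) :=
  posD_of_check (c := ⟨218, ⟨5, 6, 7, 3⟩⟩) (by decide +kernel)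

def tC3_pL0 : PosD ⟨⟨0, 1, 1⟩, ⟨98, 99, 147⟩, ⟨4050, 10000, 30000⟩, ⟨550, 900, 1000⟩⟩ (tC3.hPL false) :=
  posD_of_check (c := ⟨232, ⟨5, 6, 7, 2⟩⟩) (by decide +kernel)

def tC3_pU0 : PosD ⟨⟨0, 1, 1⟩, ⟨98, 99, 147⟩, ⟨4050, 10000, 30000⟩, ⟨550, 900, 1000⟩⟩ (tC3.hPU false) :=
  posD_of_check (c := ⟨233, ⟨5, 6, 7, 3⟩⟩) (by decide +kernel)

def tC3_kU0 : PosD ⟨⟨0, 1, 1⟩, ⟨98, 99, 147⟩, ⟨4050, 10000, 30000⟩, ⟨550, 900, 1000⟩⟩ (tC3.hKU false) :=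
  posD_of_check (c := ⟨230, ⟨5, 6, 7, 3⟩⟩) (by decide +kernel)

def tC3_kL0 : PosD ⟨⟨0, 1, 1⟩, ⟨98, 99, 147⟩, ⟨4050, 10000, 30000⟩, ⟨550, 900, 1000⟩⟩ (tC3.hKL false) :=
  posD_of_check (c := ⟨230, ⟨5, 6, 7, 3⟩⟩) (by decide +kernel)

def tC3_wU0a : PosD ⟨⟨0, 1, 1⟩, ⟨98, 99, 147⟩, ⟨4050, 10000, 30000⟩, ⟨550, 725, 1000⟩⟩ (tC3.hWU false) :=
  posD_of_check (c := ⟨265, ⟨5, 8, 8, 3⟩⟩) (by decide +kernel)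

def tC3_wU0ba : PosD ⟨⟨0, 1, 1⟩, ⟨98, 99, 147⟩, ⟨4050, 7025, 30000⟩, ⟨725, 900, 1000⟩⟩ (tC3.hWU false) :=
  posD_of_check (c := ⟨264, ⟨5, 8, 8, 3⟩⟩) (by decide +kernel)

def tC3_wU0bb : PosD ⟨⟨0, 1, 1⟩, ⟨98, 99, 147⟩, ⟨7025, 10000, 30000⟩, ⟨725, 900, 1000⟩⟩ (tC3.hWU false) :=
  posD_of_check (c := ⟨266, ⟨5, 8, 8, 3⟩⟩) (by decide +kernel)

def tC3_wU0b : PosD ⟨⟨0, 1, 1⟩, ⟨98, 99, 147⟩, ⟨4050, 10000, 30000⟩, ⟨725, 900, 1000⟩⟩ (tC3.hWU false) :=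
  posD_join₂ tC3_wU0ba tC3_wU0bb

def tC3_wU0 : PosD ⟨⟨0, 1, 1⟩, ⟨98, 99, 147⟩, ⟨4050, 10000, 30000⟩, ⟨550, 900, 1000⟩⟩ (tC3.hWU false) :=
  posD_join₃ tC3_wU0a tC3_wU0b

def tC3_wL0a : PosD ⟨⟨0, 1, 1⟩, ⟨98, 99, 147⟩, ⟨4050, 7025, 30000⟩, ⟨550, 900, 1000⟩⟩ (tC3.hWL false) :=
  posD_of_check (c := ⟨264, ⟨5, 8, 8, 3⟩⟩) (by decide +kernel)

def tC3_wL0b : PosD ⟨⟨0, 1, 1⟩, ⟨98, 99, 147⟩, ⟨7025, 10000, 30000⟩, ⟨550, 900, 1000⟩⟩ (tC3.hWL false) :=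
  posD_of_check (c := ⟨265, ⟨5, 8, 8, 3⟩⟩) (by decide +kernel)

def tC3_wL0 : PosD ⟨⟨0, 1, 1⟩, ⟨98, 99, 147⟩, ⟨4050, 10000, 30000⟩, ⟨550, 900, 1000⟩⟩ (tC3.hWL false) :=
  posD_join₂ tC3_wL0a tC3_wL0b

def tC3_ev1 : PosD ⟨⟨0, 1, 1⟩, ⟨98, 99, 147⟩, ⟨4050, 10000, 30000⟩, ⟨550, 900, 1000⟩⟩ (tC3.hEv true) :=
  posD_of_check (c := ⟨124, ⟨4, 2, 4, 1⟩⟩) (by decide +kernel)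

def tC3_zL1 : PosD ⟨⟨0, 1, 1⟩, ⟨98, 99, 147⟩, ⟨4050, 10000, 30000⟩, ⟨550, 900, 1000⟩⟩ (tC3.hZL true) :=
  posD_of_check (c := ⟨169, ⟨4, 3, 6, 3⟩⟩) (by decide +kernel)

def tC3_zU1 : PosD ⟨⟨0, 1, 1⟩, ⟨98, 99, 147⟩, ⟨4050, 10000, 30000⟩, ⟨550, 900, 1000⟩⟩ (tC3.hZU true) :=
  posD_of_check (c := ⟨169, ⟨4, 3, 6, 3⟩⟩) (by decide +kernel)

def tC3_eL1 : PosD ⟨⟨0, 1, 1⟩, ⟨98, 99, 147⟩, ⟨4050, 10000, 30000⟩, ⟨550, 900, 1000⟩⟩ (tC3.hEL true) :=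
  posD_of_check (c := ⟨233, ⟨5, 6, 7, 3⟩⟩) (by decide +kernel)

def tC3_eH1 : PosD ⟨⟨0, 1, 1⟩, ⟨98, 99, 147⟩, ⟨4050, 10000, 30000⟩, ⟨550, 900, 1000⟩⟩ (tC3.hEH true) :=
  posD_of_check (c := ⟨219, ⟨5, 6, 7, 3⟩⟩) (by decide +kernel)

def tC3_pL1 : PosD ⟨⟨0, 1, 1⟩, ⟨98, 99, 147⟩, ⟨4050, 10000, 30000⟩, ⟨550, 900, 1000⟩⟩ (tC3.hPL true) :=
  posD_of_check (c := ⟨233, ⟨5, 6, 7, 2⟩⟩) (by decide +kernel)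

def tC3_pU1a : PosD ⟨⟨0, 1, 1⟩, ⟨98, 99, 147⟩, ⟨4050, 10000, 30000⟩, ⟨550, 725, 1000⟩⟩ (tC3.hPU true) :=
  posD_of_check (c := ⟨234, ⟨5, 6, 7, 3⟩⟩) (by decide +kernel)

def tC3_pU1ba : PosD ⟨⟨0, 1, 1⟩, ⟨98, 99, 147⟩, ⟨4050, 7025, 30000⟩, ⟨725, 900, 1000⟩⟩ (tC3.hPU true) :=
  posD_of_check (c := ⟨233, ⟨5, 6, 7, 3⟩⟩) (by decide +kernel)

def tC3_pU1bb : PosD ⟨⟨0, 1, 1⟩, ⟨98, 99, 147⟩, ⟨7025, 10000, 30000⟩, ⟨725, 900, 1000⟩⟩ (tC3.hPU true) :=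
  posD_of_check (c := ⟨234, ⟨5, 6, 7, 3⟩⟩) (by decide +kernel)

def tC3_pU1b : PosD ⟨⟨0, 1, 1⟩, ⟨98, 99, 147⟩, ⟨4050, 10000, 30000⟩, ⟨725, 900, 1000⟩⟩ (tC3.hPU true) :=
  posD_join₂ tC3_pU1ba tC3_pU1bb

def tC3_pU1 : PosD ⟨⟨0, 1, 1⟩, ⟨98, 99, 147⟩, ⟨4050, 10000, 30000⟩, ⟨550, 900, 1000⟩⟩ (tC3.hPU true) :=
  posD_join₃ tC3_pU1a tC3_pU1b

def tC3_kU1 : PosD ⟨⟨0, 1, 1⟩, ⟨98, 99, 147⟩, ⟨4050, 10000, 30000⟩, ⟨550, 900, 1000⟩⟩ (tC3.hKU true) :=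
  posD_of_check (c := ⟨231, ⟨5, 6, 7, 3⟩⟩) (by decide +kernel)

def tC3_kL1 : PosD ⟨⟨0, 1, 1⟩, ⟨98, 99, 147⟩, ⟨4050, 10000, 30000⟩, ⟨550, 900, 1000⟩⟩ (tC3.hKL true) :=
  posD_of_check (c := ⟨231, ⟨5, 6, 7, 3⟩⟩) (by decide +kernel)

def tC3_wU1aa : PosD ⟨⟨0, 1, 2⟩, ⟨98, 99, 147⟩, ⟨4050, 10000, 30000⟩, ⟨550, 725, 1000⟩⟩ (tC3.hWU true) :=
  posD_of_check (c := ⟨267, ⟨5, 8, 8, 3⟩⟩) (by decide +kernel)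

def tC3_wU1ab : PosD ⟨⟨0, 1, 2⟩, ⟨98, 99, 147⟩, ⟨4050, 10000, 30000⟩, ⟨725, 900, 1000⟩⟩ (tC3.hWU true) :=
  posD_of_check (c := ⟨267, ⟨5, 8, 8, 3⟩⟩) (by decide +kernel)

def tC3_wU1a : PosD ⟨⟨0, 1, 2⟩, ⟨98, 99, 147⟩, ⟨4050, 10000, 30000⟩, ⟨550, 900, 1000⟩⟩ (tC3.hWU true) :=
  posD_join₃ tC3_wU1aa tC3_wU1ab

def tC3_wU1b : PosD ⟨⟨1, 2, 2⟩, ⟨98, 99, 147⟩, ⟨4050, 10000, 30000⟩, ⟨550, 900, 1000⟩⟩ (tC3.hWU true) :=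
  posD_of_check (c := ⟨269, ⟨5, 8, 8, 3⟩⟩) (by decide +kernel)

def tC3_wU1 : PosD ⟨⟨0, 1, 1⟩, ⟨98, 99, 147⟩, ⟨4050, 10000, 30000⟩, ⟨550, 900, 1000⟩⟩ (tC3.hWU true) :=
  posD_units (b := ⟨⟨0, 2, 2⟩, ⟨98, 99, 147⟩, ⟨4050, 10000, 30000⟩, ⟨550, 900, 1000⟩⟩) (by decide +kernel) (posD_join₀ tC3_wU1a tC3_wU1b)

def tC3_wL1a : PosD ⟨⟨0, 1, 1⟩, ⟨98, 99, 147⟩, ⟨4050, 10000, 30000⟩, ⟨550, 725, 1000⟩⟩ (tC3.hWL true) :=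
  posD_of_check (c := ⟨265, ⟨5, 8, 8, 3⟩⟩) (by decide +kernel)

def tC3_wL1b : PosD ⟨⟨0, 1, 1⟩, ⟨98, 99, 147⟩, ⟨4050, 10000, 30000⟩, ⟨725, 900, 1000⟩⟩ (tC3.hWL true) :=
  posD_of_check (c := ⟨266, ⟨5, 8, 8, 3⟩⟩) (by decide +kernel)

def tC3_wL1 : PosD ⟨⟨0, 1, 1⟩, ⟨98, 99, 147⟩, ⟨4050, 10000, 30000⟩, ⟨550, 900, 1000⟩⟩ (tC3.hWL true) :=
  posD_join₃ tC3_wL1a tC3_wL1b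

def tC3_mueL : PosD ⟨⟨0, 1, 1⟩, ⟨98, 99, 147⟩, ⟨4050, 10000, 30000⟩, ⟨550, 900, 1000⟩⟩ (tC3.eL.μ) :=
  posD_of_check (c := ⟨10, ⟨0, 0, 0, 0⟩⟩) (by decide +kernel)

def tC3_mupL : PosD ⟨⟨0, 1, 1⟩, ⟨98, 99, 147⟩, ⟨4050, 10000, 30000⟩, ⟨550, 900, 1000⟩⟩ (tC3.pL.μ) :=
  posD_of_check (c := ⟨16, ⟨0, 0, 0, 0⟩⟩) (by decide +kernel)

/-- The bounds of the piece. -/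
def tC3_env : tC3.Env ⟨⟨0, 1, 1⟩, ⟨98, 99, 147⟩, ⟨4050, 10000, 30000⟩, ⟨550, 900, 1000⟩⟩ :=
  ⟨tC3_p0, Bool.forall_bool.2 ⟨tC3_den0, tC3_den1⟩, tC3_gn, Bool.forall_bool.2 ⟨tC3_ev0, tC3_ev1⟩, Bool.forall_bool.2 ⟨tC3_zL0, tC3_zL1⟩, Bool.forall_bool.2 ⟨tC3_zU0, tC3_zU1⟩, Bool.forall_bool.2 ⟨tC3_eL0, tC3_eL1⟩, ⟨.inl tC3_mueL, .inr rfl⟩, Bool.forall_bool.2 ⟨tC3_eH0, tC3_eH1⟩, ⟨.inr rfl, .inr rfl⟩, Bool.forall_bool.2 ⟨tC3_pL0, tC3_pL1⟩, ⟨.inl tC3_mupL, .inr rfl⟩, Bool.forall_bool.2 ⟨tC3_pU0, tC3_pU1⟩, ⟨.inr rfl, .inr rfl⟩, Bool.forall_bool.2 ⟨tC3_kU0, tC3_kU1⟩, ⟨.inr rfl, .inr rfl⟩, Bool.forall_bool.2 ⟨tC3_kL0, tC3_kL1⟩, ⟨.inr rfl, .inr rfl⟩, Bool.forall_bool.2 ⟨tC3_wU0, tC3_wU1⟩, ⟨.inr rfl, .inr rfl⟩, Bool.forall_bool.2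 ⟨tC3_wL0, tC3_wL1⟩, ⟨.inr rfl, .inr rfl⟩⟩

def tC3_pp : PosD ⟨⟨0, 1, 1⟩, ⟨98, 99, 147⟩, ⟨4050, 10000, 30000⟩, ⟨550, 900, 1000⟩⟩ (tC3.xPL) :=
  posD_of_check (c := ⟨62, ⟨1, 1, 2, 2⟩⟩) (by decide +kernel)

def tC3_k2p : PosD ⟨⟨0, 1, 1⟩, ⟨98, 99, 147⟩, ⟨4050, 10000, 30000⟩, ⟨550, 900, 1000⟩⟩ (tC3.k2p tC3.xE) :=
  posD_of_check (c := ⟨69, ⟨1, 1, 2, 2⟩⟩) (by decide +kernel)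

def tC3_k2m : PosD ⟨⟨0, 1, 1⟩, ⟨98, 99, 147⟩, ⟨4050, 10000, 30000⟩, ⟨550, 900, 1000⟩⟩ (tC3.k2m tC3.xE) :=
  posD_of_check (c := ⟨70, ⟨1, 1, 2, 2⟩⟩) (by decide +kernel)

def tC3_v2p : PosD ⟨⟨0, 1, 1⟩, ⟨98, 99, 147⟩, ⟨4050, 10000, 30000⟩, ⟨550, 900, 1000⟩⟩ (tC3.hV2p) :=
  posD_of_check (c := ⟨269, ⟨1, 6, 10, 5⟩⟩) (by decide +kernel)

def tC3_v2m : PosD ⟨⟨0, 1, 1⟩, ⟨98, 99, 147⟩, ⟨4050, 10000, 30000⟩, ⟨550, 900, 1000⟩⟩ (tC3.hV2m) :=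
  posD_of_check (c := ⟨270, ⟨1, 6, 10, 5⟩⟩) (by decide +kernel)

def tC3_v3p : PosD ⟨⟨0, 1, 1⟩, ⟨98, 99, 147⟩, ⟨4050, 10000, 30000⟩, ⟨550, 900, 1000⟩⟩ (tC3.hV3p) :=
  posD_of_check (c := ⟨255, ⟨1, 6, 9, 5⟩⟩) (by decide +kernel)

def tC3_v3m : PosD ⟨⟨0, 1, 1⟩, ⟨98, 99, 147⟩, ⟨4050, 10000, 30000⟩, ⟨550, 900, 1000⟩⟩ (tC3.hV3m) :=
  posD_of_check (c := ⟨255, ⟨1, 6, 9, 5⟩⟩) (by decide +kernel)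

def tC3_kap0 : PosD ⟨⟨0, 1, 1⟩, ⟨98, 99, 147⟩, ⟨4050, 10000, 30000⟩, ⟨550, 900, 1000⟩⟩ (tC3.kap false) :=
  posD_of_check (c := ⟨66, ⟨1, 1, 2, 2⟩⟩) (by decide +kernel)

def tC3_c10 : PosD ⟨⟨0, 1, 1⟩, ⟨98, 99, 147⟩, ⟨4050, 10000, 30000⟩, ⟨550, 900, 1000⟩⟩ (tC3.hC1 false) :=
  posD_of_check (c := ⟨239, ⟨3, 5, 8, 6⟩⟩) (by decide +kernel)

def tC3_c1h0 : PosD ⟨⟨0, 1, 1⟩, ⟨98, 99, 147⟩, ⟨4050, 10000, 30000⟩, ⟨550, 900, 1000⟩⟩ (tC3.hC1' false) :=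
  posD_of_check (c := ⟨239, ⟨3, 5, 8, 6⟩⟩) (by decide +kernel)

def tC3_tg00 : PosD ⟨⟨0, 1, 1⟩, ⟨98, 99, 147⟩, ⟨4050, 10000, 30000⟩, ⟨550, 900, 1000⟩⟩ (tC3.hG false (tC3.pEnd false)) :=
  posD_of_check (c := ⟨373, ⟨2, 7, 14, 9⟩⟩) (by decide +kernel)

def tC3_c2p00 : PosD ⟨⟨0, 1, 1⟩, ⟨98, 99, 147⟩, ⟨4050, 10000, 30000⟩, ⟨550, 900, 1000⟩⟩ (tC3.hC2p false (tC3.pEnd false)) :=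
  posD_of_check (c := ⟨443, ⟨3, 8, 16, 11⟩⟩) (by decide +kernel)

def tC3_c2m00 : PosD ⟨⟨0, 1, 1⟩, ⟨98, 99, 147⟩, ⟨4050, 10000, 30000⟩, ⟨550, 900, 1000⟩⟩ (tC3.hC2m false (tC3.pEnd false)) :=
  posD_of_check (c := ⟨444, ⟨3, 8, 16, 11⟩⟩) (by decide +kernel)

def tC3_c3p00 : PosD ⟨⟨0, 1, 1⟩, ⟨98, 99, 147⟩, ⟨4050, 10000, 30000⟩, ⟨550, 900, 1000⟩⟩ (tC3.hC3p false false) :=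
  posD_of_check (c := ⟨404, ⟨3, 8, 14, 10⟩⟩) (by decide +kernel)

def tC3_c3m00 : PosD ⟨⟨0, 1, 1⟩, ⟨98, 99, 147⟩, ⟨4050, 10000, 30000⟩, ⟨550, 900, 1000⟩⟩ (tC3.hC3m false false) :=
  posD_of_check (c := ⟨404, ⟨3, 8, 14, 10⟩⟩) (by decide +kernel)

def tC3_c3ph00 : PosD ⟨⟨0, 1, 1⟩, ⟨98, 99, 147⟩, ⟨4050, 10000, 30000⟩, ⟨550, 900, 1000⟩⟩ (tC3.hC3p' false false) :=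
  posD_of_check (c := ⟨404, ⟨3, 8, 14, 10⟩⟩) (by decide +kernel)

def tC3_c3mh00 : PosD ⟨⟨0, 1, 1⟩, ⟨98, 99, 147⟩, ⟨4050, 10000, 30000⟩, ⟨550, 900, 1000⟩⟩ (tC3.hC3m' false false) :=
  posD_of_check (c := ⟨404, ⟨3, 8, 14, 10⟩⟩) (by decide +kernel)

def tC3_up00 : PosD ⟨⟨0, 1, 1⟩, ⟨98, 99, 147⟩, ⟨4050, 10000, 30000⟩, ⟨550, 900, 1000⟩⟩ (tC3.hUp false false) :=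
  posD_of_check (c := ⟨403, ⟨3, 8, 14, 10⟩⟩) (by decide +kernel)

def tC3_um00 : PosD ⟨⟨0, 1, 1⟩, ⟨98, 99, 147⟩, ⟨4050, 10000, 30000⟩, ⟨550, 900, 1000⟩⟩ (tC3.hUm false false) :=
  posD_of_check (c := ⟨404, ⟨3, 8, 14, 10⟩⟩) (by decide +kernel)

def tC3_tmg00 : PosD ⟨⟨0, 1, 1⟩, ⟨98, 99, 147⟩, ⟨4050, 10000, 30000⟩, ⟨550, 900, 1000⟩⟩ (tC3.hTMG false (tC3.pEnd false)) :=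
  posD_of_check (c := ⟨352, ⟨2, 7, 13, 8⟩⟩) (by decide +kernel)

def tC3_tg01 : PosD ⟨⟨0, 1, 1⟩, ⟨98, 99, 147⟩, ⟨4050, 10000, 30000⟩, ⟨550, 900, 1000⟩⟩ (tC3.hG true (tC3.pEnd false)) :=
  posD_of_check (c := ⟨373, ⟨2, 7, 14, 9⟩⟩) (by decide +kernel)

def tC3_c2p01 : PosD ⟨⟨0, 1, 1⟩, ⟨98, 99, 147⟩, ⟨4050, 10000, 30000⟩, ⟨550, 900, 1000⟩⟩ (tC3.hC2p true (tC3.pEnd false)) :=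
  posD_of_check (c := ⟨443, ⟨3, 8, 16, 11⟩⟩) (by decide +kernel)

def tC3_c2m01 : PosD ⟨⟨0, 1, 1⟩, ⟨98, 99, 147⟩, ⟨4050, 10000, 30000⟩, ⟨550, 900, 1000⟩⟩ (tC3.hC2m true (tC3.pEnd false)) :=
  posD_of_check (c := ⟨444, ⟨3, 8, 16, 11⟩⟩) (by decide +kernel)

def tC3_c3p01 : PosD ⟨⟨0, 1, 1⟩, ⟨98, 99, 147⟩, ⟨4050, 10000, 30000⟩, ⟨550, 900, 1000⟩⟩ (tC3.hC3p false true) :=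
  posD_of_check (c := ⟨404, ⟨3, 8, 14, 10⟩⟩) (by decide +kernel)

def tC3_c3m01 : PosD ⟨⟨0, 1, 1⟩, ⟨98, 99, 147⟩, ⟨4050, 10000, 30000⟩, ⟨550, 900, 1000⟩⟩ (tC3.hC3m false true) :=
  posD_of_check (c := ⟨404, ⟨3, 8, 14, 10⟩⟩) (by decide +kernel)

def tC3_c3ph01 : PosD ⟨⟨0, 1, 1⟩, ⟨98, 99, 147⟩, ⟨4050, 10000, 30000⟩, ⟨550, 900, 1000⟩⟩ (tC3.hC3p' false true) :=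
  posD_of_check (c := ⟨404, ⟨3, 8, 14, 10⟩⟩) (by decide +kernel)

def tC3_c3mh01 : PosD ⟨⟨0, 1, 1⟩, ⟨98, 99, 147⟩, ⟨4050, 10000, 30000⟩, ⟨550, 900, 1000⟩⟩ (tC3.hC3m' false true) :=
  posD_of_check (c := ⟨404, ⟨3, 8, 14, 10⟩⟩) (by decide +kernel)

def tC3_up01 : PosD ⟨⟨0, 1, 1⟩, ⟨98, 99, 147⟩, ⟨4050, 10000, 30000⟩, ⟨550, 900, 1000⟩⟩ (tC3.hUp false true) :=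
  posD_of_check (c := ⟨403, ⟨3, 8, 14, 10⟩⟩) (by decide +kernel)

def tC3_um01 : PosD ⟨⟨0, 1, 1⟩, ⟨98, 99, 147⟩, ⟨4050, 10000, 30000⟩, ⟨550, 900, 1000⟩⟩ (tC3.hUm false true) :=
  posD_of_check (c := ⟨404, ⟨3, 8, 14, 10⟩⟩) (by decide +kernel)

def tC3_tmg01 : PosD ⟨⟨0, 1, 1⟩, ⟨98, 99, 147⟩, ⟨4050, 10000, 30000⟩, ⟨550, 900, 1000⟩⟩ (tC3.hTMG true (tC3.pEnd false)) :=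
  posD_of_check (c := ⟨352, ⟨2, 7, 13, 8⟩⟩) (by decide +kernel)

def tC3_kap1 : PosD ⟨⟨0, 1, 1⟩, ⟨98, 99, 147⟩, ⟨4050, 10000, 30000⟩, ⟨550, 900, 1000⟩⟩ (tC3.kap true) :=
  posD_of_check (c := ⟨67, ⟨1, 1, 2, 2⟩⟩) (by decide +kernel)

def tC3_c11 : PosD ⟨⟨0, 1, 1⟩, ⟨98, 99, 147⟩, ⟨4050, 10000, 30000⟩, ⟨550, 900, 1000⟩⟩ (tC3.hC1 true) :=
  posD_of_check (c := ⟨270, ⟨3, 5, 9, 7⟩⟩) (by decide +kernel)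

def tC3_c1h1 : PosD ⟨⟨0, 1, 1⟩, ⟨98, 99, 147⟩, ⟨4050, 10000, 30000⟩, ⟨550, 900, 1000⟩⟩ (tC3.hC1' true) :=
  posD_of_check (c := ⟨270, ⟨3, 5, 9, 7⟩⟩) (by decide +kernel)

def tC3_tg10 : PosD ⟨⟨0, 1, 1⟩, ⟨98, 99, 147⟩, ⟨4050, 10000, 30000⟩, ⟨550, 900, 1000⟩⟩ (tC3.hG false (tC3.pEnd true)) :=
  posD_of_check (c := ⟨383, ⟨2, 7, 14, 9⟩⟩) (by decide +kernel)

def tC3_c2p10a : PosD ⟨⟨0, 1, 1⟩, ⟨98, 99, 147⟩, ⟨4050, 7025, 30000⟩, ⟨550, 900, 1000⟩⟩ (tC3.hC2p false (tC3.pEnd true)) :=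
  posD_of_check (c := ⟨451, ⟨3, 8, 16, 11⟩⟩) (by decide +kernel)

def tC3_c2p10ba : PosD ⟨⟨0, 1, 1⟩, ⟨98, 99, 147⟩, ⟨7025, 8512, 30000⟩, ⟨550, 900, 1000⟩⟩ (tC3.hC2p false (tC3.pEnd true)) :=
  posD_of_check (c := ⟨453, ⟨3, 8, 16, 11⟩⟩) (by decide +kernel)

def tC3_c2p10bba : PosD ⟨⟨0, 1, 1⟩, ⟨98, 99, 147⟩, ⟨8512, 9256, 30000⟩, ⟨550, 900, 1000⟩⟩ (tC3.hC2p false (tC3.pEnd true)) :=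
  posD_of_check (c := ⟨454, ⟨3, 8, 16, 11⟩⟩) (by decide +kernel)

def tC3_c2p10bbb : PosD ⟨⟨0, 1, 1⟩, ⟨98, 99, 147⟩, ⟨9256, 10000, 30000⟩, ⟨550, 900, 1000⟩⟩ (tC3.hC2p false (tC3.pEnd true)) :=
  posD_of_check (c := ⟨454, ⟨3, 8, 16, 11⟩⟩) (by decide +kernel)

def tC3_c2p10bb : PosD ⟨⟨0, 1, 1⟩, ⟨98, 99, 147⟩, ⟨8512, 10000, 30000⟩, ⟨550, 900, 1000⟩⟩ (tC3.hC2p false (tC3.pEnd true)) :=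
  posD_join₂ tC3_c2p10bba tC3_c2p10bbb

def tC3_c2p10b : PosD ⟨⟨0, 1, 1⟩, ⟨98, 99, 147⟩, ⟨7025, 10000, 30000⟩, ⟨550, 900, 1000⟩⟩ (tC3.hC2p false (tC3.pEnd true)) :=
  posD_join₂ tC3_c2p10ba tC3_c2p10bb

def tC3_c2p10 : PosD ⟨⟨0, 1, 1⟩, ⟨98, 99, 147⟩, ⟨4050, 10000, 30000⟩, ⟨550, 900, 1000⟩⟩ (tC3.hC2p false (tC3.pEnd true)) :=
  posD_join₂ tC3_c2p10a tC3_c2p10b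

def tC3_c2m10 : PosD ⟨⟨0, 1, 1⟩, ⟨98, 99, 147⟩, ⟨4050, 10000, 30000⟩, ⟨550, 900, 1000⟩⟩ (tC3.hC2m false (tC3.pEnd true)) :=
  posD_of_check (c := ⟨453, ⟨3, 8, 16, 11⟩⟩) (by decide +kernel)

def tC3_c3p10 : PosD ⟨⟨0, 1, 1⟩, ⟨98, 99, 147⟩, ⟨4050, 10000, 30000⟩, ⟨550, 900, 1000⟩⟩ (tC3.hC3p true false) :=
  posD_of_check (c := ⟨440, ⟨3, 8, 15, 11⟩⟩) (by decide +kernel)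

def tC3_c3m10 : PosD ⟨⟨0, 1, 1⟩, ⟨98, 99, 147⟩, ⟨4050, 10000, 30000⟩, ⟨550, 900, 1000⟩⟩ (tC3.hC3m true false) :=
  posD_of_check (c := ⟨440, ⟨3, 8, 15, 11⟩⟩) (by decide +kernel)

def tC3_c3ph10 : PosD ⟨⟨0, 1, 1⟩, ⟨98, 99, 147⟩, ⟨4050, 10000, 30000⟩, ⟨550, 900, 1000⟩⟩ (tC3.hC3p' true false) :=
  posD_of_check (c := ⟨440, ⟨3, 8, 15, 11⟩⟩) (by decide +kernel)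

def tC3_c3mh10 : PosD ⟨⟨0, 1, 1⟩, ⟨98, 99, 147⟩, ⟨4050, 10000, 30000⟩, ⟨550, 900, 1000⟩⟩ (tC3.hC3m' true false) :=
  posD_of_check (c := ⟨440, ⟨3, 8, 15, 11⟩⟩) (by decide +kernel)

def tC3_up10 : PosD ⟨⟨0, 1, 1⟩, ⟨98, 99, 147⟩, ⟨4050, 10000, 30000⟩, ⟨550, 900, 1000⟩⟩ (tC3.hUp true false) :=
  posD_of_check (c := ⟨439, ⟨3, 8, 15, 11⟩⟩) (by decide +kernel)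

def tC3_um10 : PosD ⟨⟨0, 1, 1⟩, ⟨98, 99, 147⟩, ⟨4050, 10000, 30000⟩, ⟨550, 900, 1000⟩⟩ (tC3.hUm true false) :=
  posD_of_check (c := ⟨440, ⟨3, 8, 15, 11⟩⟩) (by decide +kernel)

def tC3_tmg10 : PosD ⟨⟨0, 1, 1⟩, ⟨98, 99, 147⟩, ⟨4050, 10000, 30000⟩, ⟨550, 900, 1000⟩⟩ (tC3.hTMG false (tC3.pEnd true)) :=
  posD_of_check (c := ⟨398, ⟨2, 7, 14, 10⟩⟩) (by decide +kernel)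

def tC3_tg11 : PosD ⟨⟨0, 1, 1⟩, ⟨98, 99, 147⟩, ⟨4050, 10000, 30000⟩, ⟨550, 900, 1000⟩⟩ (tC3.hG true (tC3.pEnd true)) :=
  posD_of_check (c := ⟨383, ⟨2, 7, 14, 9⟩⟩) (by decide +kernel)

def tC3_c2p11 : PosD ⟨⟨0, 1, 1⟩, ⟨98, 99, 147⟩, ⟨4050, 10000, 30000⟩, ⟨550, 900, 1000⟩⟩ (tC3.hC2p true (tC3.pEnd true)) :=
  posD_of_check (c := ⟨452, ⟨3, 8, 16, 11⟩⟩) (by decide +kernel)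

def tC3_c2m11 : PosD ⟨⟨0, 1, 1⟩, ⟨98, 99, 147⟩, ⟨4050, 10000, 30000⟩, ⟨550, 900, 1000⟩⟩ (tC3.hC2m true (tC3.pEnd true)) :=
  posD_of_check (c := ⟨453, ⟨3, 8, 16, 11⟩⟩) (by decide +kernel)

def tC3_c3p11 : PosD ⟨⟨0, 1, 1⟩, ⟨98, 99, 147⟩, ⟨4050, 10000, 30000⟩, ⟨550, 900, 1000⟩⟩ (tC3.hC3p true true) :=
  posD_of_check (c := ⟨440, ⟨3, 8, 15, 11⟩⟩) (by decide +kernel)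

def tC3_c3m11 : PosD ⟨⟨0, 1, 1⟩, ⟨98, 99, 147⟩, ⟨4050, 10000, 30000⟩, ⟨550, 900, 1000⟩⟩ (tC3.hC3m true true) :=
  posD_of_check (c := ⟨440, ⟨3, 8, 15, 11⟩⟩) (by decide +kernel)

def tC3_c3ph11 : PosD ⟨⟨0, 1, 1⟩, ⟨98, 99, 147⟩, ⟨4050, 10000, 30000⟩, ⟨550, 900, 1000⟩⟩ (tC3.hC3p' true true) :=
  posD_of_check (c := ⟨440, ⟨3, 8, 15, 11⟩⟩) (by decide +kernel)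

def tC3_c3mh11 : PosD ⟨⟨0, 1, 1⟩, ⟨98, 99, 147⟩, ⟨4050, 10000, 30000⟩, ⟨550, 900, 1000⟩⟩ (tC3.hC3m' true true) :=
  posD_of_check (c := ⟨440, ⟨3, 8, 15, 11⟩⟩) (by decide +kernel)

def tC3_up11 : PosD ⟨⟨0, 1, 1⟩, ⟨98, 99, 147⟩, ⟨4050, 10000, 30000⟩, ⟨550, 900, 1000⟩⟩ (tC3.hUp true true) :=
  posD_of_check (c := ⟨439, ⟨3, 8, 15, 11⟩⟩) (by decide +kernel)

def tC3_um11 : PosD ⟨⟨0, 1, 1⟩, ⟨98, 99, 147⟩, ⟨4050, 10000, 30000⟩, ⟨550, 900, 1000⟩⟩ (tC3.hUm true true) :=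
  posD_of_check (c := ⟨440, ⟨3, 8, 15, 11⟩⟩) (by decide +kernel)

def tC3_tmg11 : PosD ⟨⟨0, 1, 1⟩, ⟨98, 99, 147⟩, ⟨4050, 10000, 30000⟩, ⟨550, 900, 1000⟩⟩ (tC3.hTMG true (tC3.pEnd true)) :=
  posD_of_check (c := ⟨398, ⟨2, 7, 14, 10⟩⟩) (by decide +kernel)

/-- The signs of the piece. -/
def tC3_sign : tC3.Sign ⟨⟨0, 1, 1⟩, ⟨98, 99, 147⟩, ⟨4050, 10000, 30000⟩, ⟨550, 900, 1000⟩⟩ :=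
  ⟨tC3_pp,
    tC3_k2p,
    tC3_k2m,
    Bool.forall_bool.2 ⟨(Bool.forall_bool.2 ⟨tC3_tg00, tC3_tg01⟩), (Bool.forall_bool.2 ⟨tC3_tg10, tC3_tg11⟩)⟩,
    Bool.forall_bool.2 ⟨(Bool.forall_bool.2 ⟨tC3_c2p00, tC3_c2p01⟩), (Bool.forall_bool.2 ⟨tC3_c2p10, tC3_c2p11⟩)⟩,
    Bool.forall_bool.2 ⟨(Bool.forall_bool.2 ⟨tC3_c2m00, tC3_c2m01⟩), (Bool.forall_bool.2 ⟨tC3_c2m10, tC3_c2m11⟩)⟩,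
    Bool.forall_bool.2 ⟨tC3_kap0, tC3_kap1⟩,
    Bool.forall_bool.2 ⟨tC3_c10, tC3_c11⟩,
    Bool.forall_bool.2 ⟨(Bool.forall_bool.2 ⟨tC3_c3p00, tC3_c3p01⟩), (Bool.forall_bool.2 ⟨tC3_c3p10, tC3_c3p11⟩)⟩,
    Bool.forall_bool.2 ⟨(Bool.forall_bool.2 ⟨tC3_c3m00, tC3_c3m01⟩), (Bool.forall_bool.2 ⟨tC3_c3m10, tC3_c3m11⟩)⟩,
    Bool.forall_bool.2 ⟨(Bool.forall_bool.2 ⟨tC3_tmg00, tC3_tmg01⟩), (Bool.forall_bool.2 ⟨tC3_tmg10, tC3_tmg11⟩)⟩,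
    .inr (Bool.forall_bool.2 ⟨⟨tC3_c1h0, Bool.forall_bool.2 ⟨⟨tC3_c3ph00, tC3_c3mh00, tC3_up00, tC3_um00⟩, ⟨tC3_c3ph01, tC3_c3mh01, tC3_up01, tC3_um01⟩⟩⟩, ⟨tC3_c1h1, Bool.forall_bool.2 ⟨⟨tC3_c3ph10, tC3_c3mh10, tC3_up10, tC3_um10⟩, ⟨tC3_c3ph11, tC3_c3mh11, tC3_up11, tC3_um11⟩⟩⟩⟩),
    tC3_v2p,
    tC3_v2m,
    tC3_v3p,
    tC3_v3m,
    posD_sub (b := ⟨⟨0, 1, 1⟩, ⟨98, 99, 147⟩, ⟨4050, 10000, 30000⟩, ⟨290, 4000, 1000⟩⟩) (by decide +kernel) tC_vG,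
    posD_sub (b := ⟨⟨0, 1, 1⟩, ⟨98, 99, 147⟩, ⟨4050, 10000, 30000⟩, ⟨290, 4000, 1000⟩⟩) (by decide +kernel) tC_vMG,
    posD_sub (b := ⟨⟨0, 1, 1⟩, ⟨98, 99, 147⟩, ⟨4050, 10000, 30000⟩, ⟨290, 4000, 1000⟩⟩) (by decide +kernel) tC_ak,
    posD_sub (b := ⟨⟨0, 1, 1⟩, ⟨98, 99, 147⟩, ⟨4050, 10000, 30000⟩, ⟨290, 4000, 1000⟩⟩) (by decide +kernel) tC_aw,
    posD_sub (b := ⟨⟨0, 1, 1⟩, ⟨98, 99, 147⟩, ⟨4050, 10000, 30000⟩, ⟨290, 4000, 1000⟩⟩) (by decide +kernel) tC_gk,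
    posD_sub (b := ⟨⟨0, 1, 1⟩, ⟨98, 99, 147⟩, ⟨4050, 10000, 30000⟩, ⟨290, 4000, 1000⟩⟩) (by decide +kernel) tC_gw,
    posD_sub (b := ⟨⟨0, 1, 1⟩, ⟨98, 99, 147⟩, ⟨4050, 10000, 30000⟩, ⟨290, 4000, 1000⟩⟩) (by decide +kernel) tC_ek,
    posD_sub (b := ⟨⟨0, 1, 1⟩, ⟨98, 99, 147⟩, ⟨4050, 10000, 30000⟩, ⟨290, 4000, 1000⟩⟩) (by decide +kernel) tC_ew⟩

end Vale.Agent.P100.Calib.Closed.Six.Tail
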