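import Vale.Agent.P100.Calib.SlabSixTailDataC
import Vale.Agent.P100.Calib.SlabSixTailGlobC

/-!
# Checks of some pieces of the certificate

The checks are written as definitions so that they run one after another, which keeps the memory of the
kernel low.
-/

set_option linter.defProp false

namespace Vale.Agent.P100.Calib.Closed.Six.Tail

open BoxPos Large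

local instance sixTailCheckstC1Add : Add Ex := ⟨Ex.add⟩
local instance sixTailCheckstC1Sub : Sub Ex := ⟨Ex.sub⟩
local instance sixTailCheckstC1Mul : Mul Ex := ⟨Ex.mul⟩

def tC4_phxaa : PosIf ⟨⟨0, 1, 1⟩, ⟨98, 99, 147⟩, ⟨4050, 7026, 30000⟩, ⟨900, 965, 1000⟩⟩ (tC4.u₁ - tC4Lo) (phCn (tC4.u₁ + xO * (tC4Lo - tC4.u₁))) :=
  posIf_of_mul (k := 1) (n := 2) (posD_of_check (c := ⟨108, ⟨2, 0, 4, 2⟩⟩) (by decide +kernel))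

def tC4_phxab : PosIf ⟨⟨0, 1, 1⟩, ⟨98, 99, 147⟩, ⟨4050, 7026, 30000⟩, ⟨965, 1031, 1000⟩⟩ (tC4.u₁ - tC4Lo) (phCn (tC4.u₁ + xO * (tC4Lo - tC4.u₁))) :=
  posIf_of_posD (posD_of_check (c := ⟨108, ⟨2, 0, 4, 2⟩⟩) (by decide +kernel))

def tC4_phxa : PosIf ⟨⟨0, 1, 1⟩, ⟨98, 99, 147⟩, ⟨4050, 7026, 30000⟩, ⟨900, 1031, 1000⟩⟩ (tC4.u₁ - tC4Lo) (phCn (tC4.u₁ + xO * (tC4Lo - tC4.u₁))) :=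
  posIf_join₃ tC4_phxaa tC4_phxab

def tC4_phxb : PosIf ⟨⟨0, 1, 1⟩, ⟨98, 99, 147⟩, ⟨4050, 7026, 30000⟩, ⟨1031, 1162, 1000⟩⟩ (tC4.u₁ - tC4Lo) (phCn (tC4.u₁ + xO * (tC4Lo - tC4.u₁))) :=
  posIf_of_posD (posD_of_check (c := ⟨108, ⟨2, 0, 4, 2⟩⟩) (by decide +kernel))

def tC4_phx : PosIf ⟨⟨0, 1, 1⟩, ⟨98, 99, 147⟩, ⟨4050, 7026, 30000⟩, ⟨900, 1162, 1000⟩⟩ (tC4.u₁ - tC4Lo) (phCn (tC4.u₁ + xO * (tC4Lo - tC4.u₁))) :=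
  posIf_join₃ tC4_phxa tC4_phxb

def tC4_phd : PosD ⟨⟨0, 1, 1⟩, ⟨98, 99, 147⟩, ⟨4050, 7026, 30000⟩, ⟨900, 1162, 1000⟩⟩ (phCd (tC4.u₁ + xO * (tC4Lo - tC4.u₁))) :=
  posD_of_check (c := ⟨51, ⟨1, 0, 2, 1⟩⟩) (by decide +kernel)

def tC4_p0 : PosD ⟨⟨0, 1, 1⟩, ⟨98, 99, 147⟩, ⟨4050, 7026, 30000⟩, ⟨900, 1162, 1000⟩⟩ (tC4.hP0) :=
  posD_of_check (c := ⟨83, ⟨0, 2, 3, 1⟩⟩) (by decide +kernel)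

def tC4_gn : PosD ⟨⟨0, 1, 1⟩, ⟨98, 99, 147⟩, ⟨4050, 7026, 30000⟩, ⟨900, 1162, 1000⟩⟩ (tC4.hGn) :=
  posD_of_check (c := ⟨69, ⟨1, 1, 2, 2⟩⟩) (by decide +kernel)

def tC4_den0 : PosD ⟨⟨0, 1, 1⟩, ⟨98, 99, 147⟩, ⟨4050, 7026, 30000⟩, ⟨900, 1162, 1000⟩⟩ (tC4.hDen false) :=
  posD_of_check (c := ⟨51, ⟨1, 0, 2, 1⟩⟩) (by decide +kernel)

def tC4_den1 : PosD ⟨⟨0, 1, 1⟩, ⟨98, 99, 147⟩, ⟨4050, 7026, 30000⟩, ⟨900, 1162, 1000⟩⟩ (tC4.hDen true) :=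
  posD_of_check (c := ⟨51, ⟨1, 0, 2, 1⟩⟩) (by decide +kernel)

def tC4_ev0 : PosD ⟨⟨0, 1, 1⟩, ⟨98, 99, 147⟩, ⟨4050, 7026, 30000⟩, ⟨900, 1162, 1000⟩⟩ (tC4.hEv false) :=
  posD_of_check (c := ⟨218, ⟨4, 2, 8, 4⟩⟩) (by decide +kernel)

def tC4_zL0 : PosD ⟨⟨0, 1, 1⟩, ⟨98, 99, 147⟩, ⟨4050, 7026, 30000⟩, ⟨900, 1162, 1000⟩⟩ (tC4.hZL false) :=
  posD_of_check (c := ⟨220, ⟨4, 3, 8, 4⟩⟩) (by decide +kernel)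

def tC4_zU0aa : PosD ⟨⟨0, 1, 1⟩, ⟨98, 99, 147⟩, ⟨4050, 5538, 30000⟩, ⟨900, 1031, 1000⟩⟩ (tC4.hZU false) :=
  posD_of_check (c := ⟨219, ⟨4, 3, 8, 4⟩⟩) (by decide +kernel)

def tC4_zU0ab : PosD ⟨⟨0, 1, 1⟩, ⟨98, 99, 147⟩, ⟨5538, 7026, 30000⟩, ⟨900, 1031, 1000⟩⟩ (tC4.hZU false) :=
  posD_of_check (c := ⟨220, ⟨4, 3, 8, 4⟩⟩) (by decide +kernel)

def tC4_zU0a : PosD ⟨⟨0, 1, 1⟩, ⟨98, 99, 147⟩, ⟨4050, 7026, 30000⟩, ⟨900, 1031, 1000⟩⟩ (tC4.hZU false) :=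
  posD_join₂ tC4_zU0aa tC4_zU0ab

def tC4_zU0b : PosD ⟨⟨0, 1, 1⟩, ⟨98, 99, 147⟩, ⟨4050, 7026, 30000⟩, ⟨1031, 1162, 1000⟩⟩ (tC4.hZU false) :=
  posD_of_check (c := ⟨220, ⟨4, 3, 8, 4⟩⟩) (by decide +kernel)

def tC4_zU0 : PosD ⟨⟨0, 1, 1⟩, ⟨98, 99, 147⟩, ⟨4050, 7026, 30000⟩, ⟨900, 1162, 1000⟩⟩ (tC4.hZU false) :=
  posD_join₃ tC4_zU0a tC4_zU0b

def tC4_eL0 : PosD ⟨⟨0, 1, 1⟩, ⟨98, 99, 147⟩, ⟨4050, 7026, 30000⟩, ⟨900, 1162, 1000⟩⟩ (tC4.hEL false) :=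
  posD_of_check (c := ⟨313, ⟨5, 6, 11, 6⟩⟩) (by decide +kernel)

def tC4_eH0 : PosD ⟨⟨0, 1, 1⟩, ⟨98, 99, 147⟩, ⟨4050, 7026, 30000⟩, ⟨900, 1162, 1000⟩⟩ (tC4.hEH false) :=
  posD_of_check (c := ⟨312, ⟨5, 6, 11, 6⟩⟩) (by decide +kernel)

def tC4_pL0 : PosD ⟨⟨0, 1, 1⟩, ⟨98, 99, 147⟩, ⟨4050, 7026, 30000⟩, ⟨900, 1162, 1000⟩⟩ (tC4.hPL false) :=
  posD_of_check (c := ⟨337, ⟨5, 6, 11, 7⟩⟩) (by decide +kernel)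

def tC4_pU0 : PosD ⟨⟨0, 1, 1⟩, ⟨98, 99, 147⟩, ⟨4050, 7026, 30000⟩, ⟨900, 1162, 1000⟩⟩ (tC4.hPU false) :=
  posD_of_check (c := ⟨337, ⟨5, 6, 11, 7⟩⟩) (by decide +kernel)

def tC4_kU0 : PosD ⟨⟨0, 1, 1⟩, ⟨98, 99, 147⟩, ⟨4050, 7026, 30000⟩, ⟨900, 1162, 1000⟩⟩ (tC4.hKU false) :=
  posD_of_check (c := ⟨334, ⟨5, 6, 11, 7⟩⟩) (by decide +kernel)

def tC4_kL0 : PosD ⟨⟨0, 1, 1⟩, ⟨98, 99, 147⟩, ⟨4050, 7026, 30000⟩, ⟨900, 1162, 1000⟩⟩ (tC4.hKL false) :=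
  posD_of_check (c := ⟨334, ⟨5, 6, 11, 7⟩⟩) (by decide +kernel)

def tC4_wU0 : PosD ⟨⟨0, 1, 1⟩, ⟨98, 99, 147⟩, ⟨4050, 7026, 30000⟩, ⟨900, 1162, 1000⟩⟩ (tC4.hWU false) :=
  posD_of_check (c := ⟨370, ⟨5, 8, 12, 7⟩⟩) (by decide +kernel)

def tC4_wL0a : PosD ⟨⟨0, 1, 2⟩, ⟨98, 99, 147⟩, ⟨4050, 7026, 30000⟩, ⟨900, 1162, 1000⟩⟩ (tC4.hWL false) :=
  posD_of_check (c := ⟨373, ⟨5, 8, 12, 7⟩⟩) (by decide +kernel)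

def tC4_wL0b : PosD ⟨⟨1, 2, 2⟩, ⟨98, 99, 147⟩, ⟨4050, 7026, 30000⟩, ⟨900, 1162, 1000⟩⟩ (tC4.hWL false) :=
  posD_of_check (c := ⟨376, ⟨5, 8, 12, 7⟩⟩) (by decide +kernel)

def tC4_wL0 : PosD ⟨⟨0, 1, 1⟩, ⟨98, 99, 147⟩, ⟨4050, 7026, 30000⟩, ⟨900, 1162, 1000⟩⟩ (tC4.hWL false) :=
  posD_units (b := ⟨⟨0, 2, 2⟩, ⟨98, 99, 147⟩, ⟨4050, 7026, 30000⟩, ⟨900, 1162, 1000⟩⟩) (by decide +kernel) (posD_join₀ tC4_wL0a tC4_wL0b)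

def tC4_ev1 : PosD ⟨⟨0, 1, 1⟩, ⟨98, 99, 147⟩, ⟨4050, 7026, 30000⟩, ⟨900, 1162, 1000⟩⟩ (tC4.hEv true) :=
  posD_of_check (c := ⟨216, ⟨4, 2, 8, 4⟩⟩) (by decide +kernel)

def tC4_zL1 : PosD ⟨⟨0, 1, 1⟩, ⟨98, 99, 147⟩, ⟨4050, 7026, 30000⟩, ⟨900, 1162, 1000⟩⟩ (tC4.hZL true) :=
  posD_of_check (c := ⟨219, ⟨4, 3, 8, 4⟩⟩) (by decide +kernel)

def tC4_zU1 : PosD ⟨⟨0, 1, 1⟩, ⟨98, 99, 147⟩, ⟨4050, 7026, 30000⟩, ⟨900, 1162, 1000⟩⟩ (tC4.hZU true) :=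
  posD_of_check (c := ⟨219, ⟨4, 3, 8, 4⟩⟩) (by decide +kernel)

def tC4_eL1 : PosD ⟨⟨0, 1, 1⟩, ⟨98, 99, 147⟩, ⟨4050, 7026, 30000⟩, ⟨900, 1162, 1000⟩⟩ (tC4.hEL true) :=
  posD_of_check (c := ⟨312, ⟨5, 6, 11, 6⟩⟩) (by decide +kernel)

def tC4_eH1 : PosD ⟨⟨0, 1, 1⟩, ⟨98, 99, 147⟩, ⟨4050, 7026, 30000⟩, ⟨900, 1162, 1000⟩⟩ (tC4.hEH true) :=
  posD_of_check (c := ⟨311, ⟨5, 6, 11, 6⟩⟩) (by decide +kernel)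

def tC4_pL1 : PosD ⟨⟨0, 1, 1⟩, ⟨98, 99, 147⟩, ⟨4050, 7026, 30000⟩, ⟨900, 1162, 1000⟩⟩ (tC4.hPL true) :=
  posD_of_check (c := ⟨336, ⟨5, 6, 11, 7⟩⟩) (by decide +kernel)

def tC4_pU1 : PosD ⟨⟨0, 1, 1⟩, ⟨98, 99, 147⟩, ⟨4050, 7026, 30000⟩, ⟨900, 1162, 1000⟩⟩ (tC4.hPU true) :=
  posD_of_check (c := ⟨336, ⟨5, 6, 11, 7⟩⟩) (by decide +kernel)

def tC4_kU1 : PosD ⟨⟨0, 1, 1⟩, ⟨98, 99, 147⟩, ⟨4050, 7026, 30000⟩, ⟨900, 1162, 1000⟩⟩ (tC4.hKU true) :=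
  posD_of_check (c := ⟨333, ⟨5, 6, 11, 7⟩⟩) (by decide +kernel)

def tC4_kL1 : PosD ⟨⟨0, 1, 1⟩, ⟨98, 99, 147⟩, ⟨4050, 7026, 30000⟩, ⟨900, 1162, 1000⟩⟩ (tC4.hKL true) :=
  posD_of_check (c := ⟨333, ⟨5, 6, 11, 7⟩⟩) (by decide +kernel)

def tC4_wU1a : PosD ⟨⟨0, 1, 2⟩, ⟨98, 99, 147⟩, ⟨4050, 7026, 30000⟩, ⟨900, 1162, 1000⟩⟩ (tC4.hWU true) :=
  posD_of_check (c := ⟨372, ⟨5, 8, 12, 7⟩⟩) (by decide +kernel)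

def tC4_wU1b : PosD ⟨⟨1, 2, 2⟩, ⟨98, 99, 147⟩, ⟨4050, 7026, 30000⟩, ⟨900, 1162, 1000⟩⟩ (tC4.hWU true) :=
  posD_of_check (c := ⟨375, ⟨5, 8, 12, 7⟩⟩) (by decide +kernel)

def tC4_wU1 : PosD ⟨⟨0, 1, 1⟩, ⟨98, 99, 147⟩, ⟨4050, 7026, 30000⟩, ⟨900, 1162, 1000⟩⟩ (tC4.hWU true) :=
  posD_units (b := ⟨⟨0, 2, 2⟩, ⟨98, 99, 147⟩, ⟨4050, 7026, 30000⟩, ⟨900, 1162, 1000⟩⟩) (by decide +kernel) (posD_join₀ tC4_wU1a tC4_wU1b)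

def tC4_wL1 : PosD ⟨⟨0, 1, 1⟩, ⟨98, 99, 147⟩, ⟨4050, 7026, 30000⟩, ⟨900, 1162, 1000⟩⟩ (tC4.hWL true) :=
  posD_of_check (c := ⟨368, ⟨5, 8, 12, 7⟩⟩) (by decide +kernel)

/-- The bounds of the piece. -/
def tC4_env : tC4.Env ⟨⟨0, 1, 1⟩, ⟨98, 99, 147⟩, ⟨4050, 7026, 30000⟩, ⟨900, 1162, 1000⟩⟩ :=
  ⟨tC4_p0, Bool.forall_bool.2 ⟨tC4_den0, tC4_den1⟩, tC4_gn, Bool.forall_bool.2 ⟨tC4_ev0, tC4_ev1⟩, Bool.forall_bool.2 ⟨tC4_zL0, tC4_zL1⟩, Bool.forall_bool.2 ⟨tC4_zU0, tC4_zU1⟩, Bool.forall_bool.2 ⟨tC4_eL0, tC4_eL1⟩, ⟨.inr rfl, .inr rfl⟩, Bool.forall_bool.2 ⟨tC4_eH0, tC4_eH1⟩, ⟨.inr rfl, .inr rfl⟩, Bool.forall_bool.2 ⟨tC4_pL0, tC4_pL1⟩, ⟨.inr rfl, .inr rfl⟩, Bool.forall_bool.2 ⟨tC4_pU0, tC4_pU1⟩, ⟨.inr rfl, .inr rfl⟩,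 Bool.forall_bool.2 ⟨tC4_kU0, tC4_kU1⟩, ⟨.inr rfl, .inr rfl⟩, Bool.forall_bool.2 ⟨tC4_kL0, tC4_kL1⟩, ⟨.inr rfl, .inr rfl⟩, Bool.forall_bool.2 ⟨tC4_wU0, tC4_wU1⟩, ⟨.inr rfl, .inr rfl⟩, Bool.forall_bool.2 ⟨tC4_wL0, tC4_wL1⟩, ⟨.inr rfl, .inr rfl⟩⟩

def tC4_pp : PosD ⟨⟨0, 1, 1⟩, ⟨98, 99, 147⟩, ⟨4050, 7026, 30000⟩, ⟨900, 1162, 1000⟩⟩ (tC4.xPL) :=
  posD_of_check (c := ⟨95, ⟨1, 1, 3, 3⟩⟩) (by decide +kernel)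

def tC4_k2p : PosD ⟨⟨0, 1, 1⟩, ⟨98, 99, 147⟩, ⟨4050, 7026, 30000⟩, ⟨900, 1162, 1000⟩⟩ (tC4.k2p tC4.xE) :=
  posD_of_check (c := ⟨71, ⟨1, 1, 2, 2⟩⟩) (by decide +kernel)

def tC4_k2m : PosD ⟨⟨0, 1, 1⟩, ⟨98, 99, 147⟩, ⟨4050, 7026, 30000⟩, ⟨900, 1162, 1000⟩⟩ (tC4.k2m tC4.xE) :=
  posD_of_check (c := ⟨69, ⟨1, 1, 2, 2⟩⟩) (by decide +kernel)

def tC4_v2p : PosD ⟨⟨0, 1, 1⟩, ⟨98, 99, 147⟩, ⟨4050, 7026, 30000⟩, ⟨900, 1162, 1000⟩⟩ (tC4.hV2p) :=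
  posD_of_check (c := ⟨270, ⟨1, 6, 10, 5⟩⟩) (by decide +kernel)

def tC4_v2m : PosD ⟨⟨0, 1, 1⟩, ⟨98, 99, 147⟩, ⟨4050, 7026, 30000⟩, ⟨900, 1162, 1000⟩⟩ (tC4.hV2m) :=
  posD_of_check (c := ⟨269, ⟨1, 6, 10, 5⟩⟩) (by decide +kernel)

def tC4_v3p : PosD ⟨⟨0, 1, 1⟩, ⟨98, 99, 147⟩, ⟨4050, 7026, 30000⟩, ⟨900, 1162, 1000⟩⟩ (tC4.hV3p) :=
  posD_of_check (c := ⟨255, ⟨1, 6, 9, 5⟩⟩) (by decide +kernel)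

def tC4_v3m : PosD ⟨⟨0, 1, 1⟩, ⟨98, 99, 147⟩, ⟨4050, 7026, 30000⟩, ⟨900, 1162, 1000⟩⟩ (tC4.hV3m) :=
  posD_of_check (c := ⟨254, ⟨1, 6, 9, 5⟩⟩) (by decide +kernel)

def tC4_kap0 : PosD ⟨⟨0, 1, 1⟩, ⟨98, 99, 147⟩, ⟨4050, 7026, 30000⟩, ⟨900, 1162, 1000⟩⟩ (tC4.kap false) :=
  posD_of_check (c := ⟨67, ⟨1, 1, 2, 2⟩⟩) (by decide +kernel)

def tC4_c10 : PosD ⟨⟨0, 1, 1⟩, ⟨98, 99, 147⟩, ⟨4050, 7026, 30000⟩, ⟨900, 1162, 1000⟩⟩ (tC4.hC1 false) :=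
  posD_of_check (c := ⟨272, ⟨3, 5, 9, 7⟩⟩) (by decide +kernel)

def tC4_neg0 : PosD ⟨⟨0, 1, 1⟩, ⟨98, 99, 147⟩, ⟨4050, 7026, 30000⟩, ⟨900, 1162, 1000⟩⟩ (tC4.hNeg (tC4.pEnd false)) :=
  posD_of_check (c := ⟨268, ⟨2, 5, 9, 7⟩⟩) (by decide +kernel)

def tC4_neglo0 : PosD ⟨⟨0, 1, 1⟩, ⟨98, 99, 147⟩, ⟨4050, 7026, 30000⟩, ⟨900, 1162, 1000⟩⟩ (tC4.hNegLo (tC4.pEnd false)) :=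
  posD_of_check (c := ⟨268, ⟨2, 5, 9, 7⟩⟩) (by decide +kernel)

def tC4_tg00 : PosD ⟨⟨0, 1, 1⟩, ⟨98, 99, 147⟩, ⟨4050, 7026, 30000⟩, ⟨900, 1162, 1000⟩⟩ (tC4.hG false (tC4.pEnd false)) :=
  posD_of_check (c := ⟨385, ⟨2, 7, 14, 9⟩⟩) (by decide +kernel)

def tC4_c2p00 : PosD ⟨⟨0, 1, 1⟩, ⟨98, 99, 147⟩, ⟨4050, 7026, 30000⟩, ⟨900, 1162, 1000⟩⟩ (tC4.hC2p false (tC4.pEnd false)) :=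
  posD_of_check (c := ⟨455, ⟨3, 8, 16, 11⟩⟩) (by decide +kernel)

def tC4_c2m00 : PosD ⟨⟨0, 1, 1⟩, ⟨98, 99, 147⟩, ⟨4050, 7026, 30000⟩, ⟨900, 1162, 1000⟩⟩ (tC4.hC2m false (tC4.pEnd false)) :=
  posD_of_check (c := ⟨454, ⟨3, 8, 16, 11⟩⟩) (by decide +kernel)

def tC4_c3p00 : PosD ⟨⟨0, 1, 1⟩, ⟨98, 99, 147⟩, ⟨4050, 7026, 30000⟩, ⟨900, 1162, 1000⟩⟩ (tC4.hC3p false false) :=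
  posD_of_check (c := ⟨442, ⟨3, 8, 15, 11⟩⟩) (by decide +kernel)

def tC4_c3m00 : PosD ⟨⟨0, 1, 1⟩, ⟨98, 99, 147⟩, ⟨4050, 7026, 30000⟩, ⟨900, 1162, 1000⟩⟩ (tC4.hC3m false false) :=
  posD_of_check (c := ⟨441, ⟨3, 8, 15, 11⟩⟩) (by decide +kernel)

def tC4_tmg00 : PosD ⟨⟨0, 1, 1⟩, ⟨98, 99, 147⟩, ⟨4050, 7026, 30000⟩, ⟨900, 1162, 1000⟩⟩ (tC4.hTMG false (tC4.pEnd false)) :=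
  posD_of_check (c := ⟨400, ⟨2, 7, 14, 10⟩⟩) (by decide +kernel)

def tC4_tg01 : PosD ⟨⟨0, 1, 1⟩, ⟨98, 99, 147⟩, ⟨4050, 7026, 30000⟩, ⟨900, 1162, 1000⟩⟩ (tC4.hG true (tC4.pEnd false)) :=
  posD_of_check (c := ⟨385, ⟨2, 7, 14, 9⟩⟩) (by decide +kernel)

def tC4_c2p01 : PosD ⟨⟨0, 1, 1⟩, ⟨98, 99, 147⟩, ⟨4050, 7026, 30000⟩, ⟨900, 1162, 1000⟩⟩ (tC4.hC2p true (tC4.pEnd false)) :=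
  posD_of_check (c := ⟨455, ⟨3, 8, 16, 11⟩⟩) (by decide +kernel)

def tC4_c2m01 : PosD ⟨⟨0, 1, 1⟩, ⟨98, 99, 147⟩, ⟨4050, 7026, 30000⟩, ⟨900, 1162, 1000⟩⟩ (tC4.hC2m true (tC4.pEnd false)) :=
  posD_of_check (c := ⟨454, ⟨3, 8, 16, 11⟩⟩) (by decide +kernel)

def tC4_c3p01 : PosD ⟨⟨0, 1, 1⟩, ⟨98, 99, 147⟩, ⟨4050, 7026, 30000⟩, ⟨900, 1162, 1000⟩⟩ (tC4.hC3p false true) :=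
  posD_of_check (c := ⟨442, ⟨3, 8, 15, 11⟩⟩) (by decide +kernel)

def tC4_c3m01 : PosD ⟨⟨0, 1, 1⟩, ⟨98, 99, 147⟩, ⟨4050, 7026, 30000⟩, ⟨900, 1162, 1000⟩⟩ (tC4.hC3m false true) :=
  posD_of_check (c := ⟨441, ⟨3, 8, 15, 11⟩⟩) (by decide +kernel)

def tC4_tmg01 : PosD ⟨⟨0, 1, 1⟩, ⟨98, 99, 147⟩, ⟨4050, 7026, 30000⟩, ⟨900, 1162, 1000⟩⟩ (tC4.hTMG true (tC4.pEnd false)) :=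
  posD_of_check (c := ⟨400, ⟨2, 7, 14, 10⟩⟩) (by decide +kernel)

def tC4_kap1 : PosD ⟨⟨0, 1, 1⟩, ⟨98, 99, 147⟩, ⟨4050, 7026, 30000⟩, ⟨900, 1162, 1000⟩⟩ (tC4.kap true) :=
  posD_of_check (c := ⟨68, ⟨1, 1, 2, 2⟩⟩) (by decide +kernel)

def tC4_c11 : PosD ⟨⟨0, 1, 1⟩, ⟨98, 99, 147⟩, ⟨4050, 7026, 30000⟩, ⟨900, 1162, 1000⟩⟩ (tC4.hC1 true) :=
  posD_of_check (c := ⟨271, ⟨3, 5, 9, 7⟩⟩) (by decide +kernel)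

def tC4_neg1 : PosD ⟨⟨0, 1, 1⟩, ⟨98, 99, 147⟩, ⟨4050, 7026, 30000⟩, ⟨900, 1162, 1000⟩⟩ (tC4.hNeg (tC4.pEnd true)) :=
  posD_of_check (c := ⟨267, ⟨2, 5, 9, 7⟩⟩) (by decide +kernel)

def tC4_neglo1 : PosD ⟨⟨0, 1, 1⟩, ⟨98, 99, 147⟩, ⟨4050, 7026, 30000⟩, ⟨900, 1162, 1000⟩⟩ (tC4.hNegLo (tC4.pEnd true)) :=
  posD_of_check (c := ⟨267, ⟨2, 5, 9, 7⟩⟩) (by decide +kernel)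

def tC4_tg10 : PosD ⟨⟨0, 1, 1⟩, ⟨98, 99, 147⟩, ⟨4050, 7026, 30000⟩, ⟨900, 1162, 1000⟩⟩ (tC4.hG false (tC4.pEnd true)) :=
  posD_of_check (c := ⟨384, ⟨2, 7, 14, 9⟩⟩) (by decide +kernel)

def tC4_c2p10 : PosD ⟨⟨0, 1, 1⟩, ⟨98, 99, 147⟩, ⟨4050, 7026, 30000⟩, ⟨900, 1162, 1000⟩⟩ (tC4.hC2p false (tC4.pEnd true)) :=
  posD_of_check (c := ⟨454, ⟨3, 8, 16, 11⟩⟩) (by decide +kernel)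

def tC4_c2m10 : PosD ⟨⟨0, 1, 1⟩, ⟨98, 99, 147⟩, ⟨4050, 7026, 30000⟩, ⟨900, 1162, 1000⟩⟩ (tC4.hC2m false (tC4.pEnd true)) :=
  posD_of_check (c := ⟨453, ⟨3, 8, 16, 11⟩⟩) (by decide +kernel)

def tC4_c3p10 : PosD ⟨⟨0, 1, 1⟩, ⟨98, 99, 147⟩, ⟨4050, 7026, 30000⟩, ⟨900, 1162, 1000⟩⟩ (tC4.hC3p true false) :=
  posD_of_check (c := ⟨441, ⟨3, 8, 15, 11⟩⟩) (by decide +kernel)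

def tC4_c3m10 : PosD ⟨⟨0, 1, 1⟩, ⟨98, 99, 147⟩, ⟨4050, 7026, 30000⟩, ⟨900, 1162, 1000⟩⟩ (tC4.hC3m true false) :=
  posD_of_check (c := ⟨441, ⟨3, 8, 15, 11⟩⟩) (by decide +kernel)

def tC4_tmg10 : PosD ⟨⟨0, 1, 1⟩, ⟨98, 99, 147⟩, ⟨4050, 7026, 30000⟩, ⟨900, 1162, 1000⟩⟩ (tC4.hTMG false (tC4.pEnd true)) :=
  posD_of_check (c := ⟨399, ⟨2, 7, 14, 10⟩⟩) (by decide +kernel)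

def tC4_tg11 : PosD ⟨⟨0, 1, 1⟩, ⟨98, 99, 147⟩, ⟨4050, 7026, 30000⟩, ⟨900, 1162, 1000⟩⟩ (tC4.hG true (tC4.pEnd true)) :=
  posD_of_check (c := ⟨384, ⟨2, 7, 14, 9⟩⟩) (by decide +kernel)

def tC4_c2p11 : PosD ⟨⟨0, 1, 1⟩, ⟨98, 99, 147⟩, ⟨4050, 7026, 30000⟩, ⟨900, 1162, 1000⟩⟩ (tC4.hC2p true (tC4.pEnd true)) :=
  posD_of_check (c := ⟨454, ⟨3, 8, 16, 11⟩⟩) (by decide +kernel)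

def tC4_c2m11 : PosD ⟨⟨0, 1, 1⟩, ⟨98, 99, 147⟩, ⟨4050, 7026, 30000⟩, ⟨900, 1162, 1000⟩⟩ (tC4.hC2m true (tC4.pEnd true)) :=
  posD_of_check (c := ⟨453, ⟨3, 8, 16, 11⟩⟩) (by decide +kernel)

def tC4_c3p11 : PosD ⟨⟨0, 1, 1⟩, ⟨98, 99, 147⟩, ⟨4050, 7026, 30000⟩, ⟨900, 1162, 1000⟩⟩ (tC4.hC3p true true) :=
  posD_of_check (c := ⟨441, ⟨3, 8, 15, 11⟩⟩) (by decide +kernel)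

def tC4_c3m11 : PosD ⟨⟨0, 1, 1⟩, ⟨98, 99, 147⟩, ⟨4050, 7026, 30000⟩, ⟨900, 1162, 1000⟩⟩ (tC4.hC3m true true) :=
  posD_of_check (c := ⟨441, ⟨3, 8, 15, 11⟩⟩) (by decide +kernel)

def tC4_tmg11 : PosD ⟨⟨0, 1, 1⟩, ⟨98, 99, 147⟩, ⟨4050, 7026, 30000⟩, ⟨900, 1162, 1000⟩⟩ (tC4.hTMG true (tC4.pEnd true)) :=
  posD_of_check (c := ⟨399, ⟨2, 7, 14, 10⟩⟩) (by decide +kernel)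

/-- The signs of the piece. -/
def tC4_sign : tC4.Sign ⟨⟨0, 1, 1⟩, ⟨98, 99, 147⟩, ⟨4050, 7026, 30000⟩, ⟨900, 1162, 1000⟩⟩ :=
  ⟨tC4_pp,
    tC4_k2p,
    tC4_k2m,
    Bool.forall_bool.2 ⟨(Bool.forall_bool.2 ⟨tC4_tg00, tC4_tg01⟩), (Bool.forall_bool.2 ⟨tC4_tg10, tC4_tg11⟩)⟩,
    Bool.forall_bool.2 ⟨(Bool.forall_bool.2 ⟨tC4_c2p00, tC4_c2p01⟩), (Bool.forall_bool.2 ⟨tC4_c2p10, tC4_c2p11⟩)⟩,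
    Bool.forall_bool.2 ⟨(Bool.forall_bool.2 ⟨tC4_c2m00, tC4_c2m01⟩), (Bool.forall_bool.2 ⟨tC4_c2m10, tC4_c2m11⟩)⟩,
    Bool.forall_bool.2 ⟨tC4_kap0, tC4_kap1⟩,
    Bool.forall_bool.2 ⟨tC4_c10, tC4_c11⟩,
    Bool.forall_bool.2 ⟨(Bool.forall_bool.2 ⟨tC4_c3p00, tC4_c3p01⟩), (Bool.forall_bool.2 ⟨tC4_c3p10, tC4_c3p11⟩)⟩,
    Bool.forall_bool.2 ⟨(Bool.forall_bool.2 ⟨tC4_c3m00, tC4_c3m01⟩), (Bool.forall_bool.2 ⟨tC4_c3m10, tC4_c3m11⟩)⟩,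
    Bool.forall_bool.2 ⟨(Bool.forall_bool.2 ⟨tC4_tmg00, tC4_tmg01⟩), (Bool.forall_bool.2 ⟨tC4_tmg10, tC4_tmg11⟩)⟩,
    .inl (Bool.forall_bool.2 ⟨⟨tC4_neg0, tC4_neglo0⟩, ⟨tC4_neg1, tC4_neglo1⟩⟩),
    tC4_v2p,
    tC4_v2m,
    tC4_v3p,
    tC4_v3m,
    posD_sub (b := ⟨⟨0, 1, 1⟩, ⟨98, 99, 147⟩, ⟨4050, 10000, 30000⟩, ⟨290, 4000, 1000⟩⟩) (by decide +kernel) tC_vG,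
    posD_sub (b := ⟨⟨0, 1, 1⟩, ⟨98, 99, 147⟩, ⟨4050, 10000, 30000⟩, ⟨290, 4000, 1000⟩⟩) (by decide +kernel) tC_vMG,
    posD_sub (b := ⟨⟨0, 1, 1⟩, ⟨98, 99, 147⟩, ⟨4050, 10000, 30000⟩, ⟨290, 4000, 1000⟩⟩) (by decide +kernel) tC_ak,
    posD_sub (b := ⟨⟨0, 1, 1⟩, ⟨98, 99, 147⟩, ⟨4050, 10000, 30000⟩, ⟨290, 4000, 1000⟩⟩) (by decide +kernel) tC_aw,
    posD_sub (b := ⟨⟨0, 1, 1⟩, ⟨98, 99, 147⟩, ⟨4050, 10000, 30000⟩, ⟨290, 4000, 1000⟩⟩) (by decide +kernel) tC_gk,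
    posD_sub (b := ⟨⟨0, 1, 1⟩, ⟨98, 99, 147⟩, ⟨4050, 10000, 30000⟩, ⟨290, 4000, 1000⟩⟩) (by decide +kernel) tC_gw,
    posD_sub (b := ⟨⟨0, 1, 1⟩, ⟨98, 99, 147⟩, ⟨4050, 10000, 30000⟩, ⟨290, 4000, 1000⟩⟩) (by decide +kernel) tC_ek,
    posD_sub (b := ⟨⟨0, 1, 1⟩, ⟨98, 99, 147⟩, ⟨4050, 10000, 30000⟩, ⟨290, 4000, 1000⟩⟩) (by decide +kernel) tC_ew⟩

def tC5_phxaaaaaaaa : PosIf ⟨⟨0, 1, 1⟩, ⟨98, 99, 147⟩, ⟨7026, 7211, 30000⟩, ⟨900, 907, 1000⟩⟩ (tC5.u₁ - tC5Lo) (phCn (tC5.u₁ + xO * (tC5Lo - tC5.u₁))) :=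
  posIf_of_mul (k := 1) (n := 2) (posD_of_check (c := ⟨108, ⟨2, 0, 4, 2⟩⟩) (by decide +kernel))

def tC5_phxaaaaaaab : PosIf ⟨⟨0, 1, 1⟩, ⟨98, 99, 147⟩, ⟨7211, 7397, 30000⟩, ⟨900, 907, 1000⟩⟩ (tC5.u₁ - tC5Lo) (phCn (tC5.u₁ + xO * (tC5Lo - tC5.u₁))) :=
  posIf_of_posD (posD_of_check (c := ⟨108, ⟨2, 0, 4, 2⟩⟩) (by decide +kernel))

def tC5_phxaaaaaaa : PosIf ⟨⟨0, 1, 1⟩, ⟨98, 99, 147⟩, ⟨7026, 7397, 30000⟩, ⟨900, 907, 1000⟩⟩ (tC5.u₁ - tC5Lo) (phCn (tC5.u₁ + xO * (tC5Lo - tC5.u₁))) :=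
  posIf_join₂ tC5_phxaaaaaaaa tC5_phxaaaaaaab

def tC5_phxaaaaaab : PosIf ⟨⟨0, 1, 1⟩, ⟨98, 99, 147⟩, ⟨7397, 7769, 30000⟩, ⟨900, 907, 1000⟩⟩ (tC5.u₁ - tC5Lo) (phCn (tC5.u₁ + xO * (tC5Lo - tC5.u₁))) :=
  posIf_of_posD (posD_of_check (c := ⟨108, ⟨2, 0, 4, 2⟩⟩) (by decide +kernel))

def tC5_phxaaaaaa : PosIf ⟨⟨0, 1, 1⟩, ⟨98, 99, 147⟩, ⟨7026, 7769, 30000⟩, ⟨900, 907, 1000⟩⟩ (tC5.u₁ - tC5Lo) (phCn (tC5.u₁ + xO * (tC5Lo - tC5.u₁))) :=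
  posIf_join₂ tC5_phxaaaaaaa tC5_phxaaaaaab

def tC5_phxaaaaab : PosIf ⟨⟨0, 1, 1⟩, ⟨98, 99, 147⟩, ⟨7769, 8513, 30000⟩, ⟨900, 907, 1000⟩⟩ (tC5.u₁ - tC5Lo) (phCn (tC5.u₁ + xO * (tC5Lo - tC5.u₁))) :=
  posIf_of_posD (posD_of_check (c := ⟨108, ⟨2, 0, 4, 2⟩⟩) (by decide +kernel))

def tC5_phxaaaaa : PosIf ⟨⟨0, 1, 1⟩, ⟨98, 99, 147⟩, ⟨7026, 8513, 30000⟩, ⟨900, 907, 1000⟩⟩ (tC5.u₁ - tC5Lo) (phCn (tC5.u₁ + xO * (tC5Lo - tC5.u₁))) :=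
  posIf_join₂ tC5_phxaaaaaa tC5_phxaaaaab

def tC5_phxaaaab : PosIf ⟨⟨0, 1, 1⟩, ⟨98, 99, 147⟩, ⟨8513, 10000, 30000⟩, ⟨900, 907, 1000⟩⟩ (tC5.u₁ - tC5Lo) (phCn (tC5.u₁ + xO * (tC5Lo - tC5.u₁))) :=
  posIf_of_posD (posD_of_check (c := ⟨108, ⟨2, 0, 4, 2⟩⟩) (by decide +kernel))

def tC5_phxaaaa : PosIf ⟨⟨0, 1, 1⟩, ⟨98, 99, 147⟩, ⟨7026, 10000, 30000⟩, ⟨900, 907, 1000⟩⟩ (tC5.u₁ - tC5Lo) (phCn (tC5.u₁ + xO * (tC5Lo - tC5.u₁))) :=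
  posIf_join₂ tC5_phxaaaaa tC5_phxaaaab

def tC5_phxaaab : PosIf ⟨⟨0, 1, 1⟩, ⟨98, 99, 147⟩, ⟨7026, 10000, 30000⟩, ⟨907, 915, 1000⟩⟩ (tC5.u₁ - tC5Lo) (phCn (tC5.u₁ + xO * (tC5Lo - tC5.u₁))) :=
  posIf_of_posD (posD_of_check (c := ⟨108, ⟨2, 0, 4, 2⟩⟩) (by decide +kernel))

def tC5_phxaaa : PosIf ⟨⟨0, 1, 1⟩, ⟨98, 99, 147⟩, ⟨7026, 10000, 30000⟩, ⟨900, 915, 1000⟩⟩ (tC5.u₁ - tC5Lo) (phCn (tC5.u₁ + xO * (tC5Lo - tC5.u₁))) :=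
  posIf_join₃ tC5_phxaaaa tC5_phxaaab

def tC5_phxaab : PosIf ⟨⟨0, 1, 1⟩, ⟨98, 99, 147⟩, ⟨7026, 10000, 30000⟩, ⟨915, 930, 1000⟩⟩ (tC5.u₁ - tC5Lo) (phCn (tC5.u₁ + xO * (tC5Lo - tC5.u₁))) :=
  posIf_of_posD (posD_of_check (c := ⟨108, ⟨2, 0, 4, 2⟩⟩) (by decide +kernel))

def tC5_phxaa : PosIf ⟨⟨0, 1, 1⟩, ⟨98, 99, 147⟩, ⟨7026, 10000, 30000⟩, ⟨900, 930, 1000⟩⟩ (tC5.u₁ - tC5Lo) (phCn (tC5.u₁ + xO * (tC5Lo - tC5.u₁))) :=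
  posIf_join₃ tC5_phxaaa tC5_phxaab

def tC5_phxab : PosIf ⟨⟨0, 1, 1⟩, ⟨98, 99, 147⟩, ⟨7026, 10000, 30000⟩, ⟨930, 961, 1000⟩⟩ (tC5.u₁ - tC5Lo) (phCn (tC5.u₁ + xO * (tC5Lo - tC5.u₁))) :=
  posIf_of_posD (posD_of_check (c := ⟨108, ⟨2, 0, 4, 2⟩⟩) (by decide +kernel))

def tC5_phxa : PosIf ⟨⟨0, 1, 1⟩, ⟨98, 99, 147⟩, ⟨7026, 10000, 30000⟩, ⟨900, 961, 1000⟩⟩ (tC5.u₁ - tC5Lo) (phCn (tC5.u₁ + xO * (tC5Lo - tC5.u₁))) :=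
  posIf_join₃ tC5_phxaa tC5_phxab

def tC5_phxb : PosIf ⟨⟨0, 1, 1⟩, ⟨98, 99, 147⟩, ⟨7026, 10000, 30000⟩, ⟨961, 1023, 1000⟩⟩ (tC5.u₁ - tC5Lo) (phCn (tC5.u₁ + xO * (tC5Lo - tC5.u₁))) :=
  posIf_of_posD (posD_of_check (c := ⟨108, ⟨2, 0, 4, 2⟩⟩) (by decide +kernel))

def tC5_phx : PosIf ⟨⟨0, 1, 1⟩, ⟨98, 99, 147⟩, ⟨7026, 10000, 30000⟩, ⟨900, 1023, 1000⟩⟩ (tC5.u₁ - tC5Lo) (phCn (tC5.u₁ + xO * (tC5Lo - tC5.u₁))) :=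
  posIf_join₃ tC5_phxa tC5_phxb

def tC5_phd : PosD ⟨⟨0, 1, 1⟩, ⟨98, 99, 147⟩, ⟨7026, 10000, 30000⟩, ⟨900, 1023, 1000⟩⟩ (phCd (tC5.u₁ + xO * (tC5Lo - tC5.u₁))) :=
  posD_of_check (c := ⟨51, ⟨1, 0, 2, 1⟩⟩) (by decide +kernel)

def tC5_p0 : PosD ⟨⟨0, 1, 1⟩, ⟨98, 99, 147⟩, ⟨7026, 10000, 30000⟩, ⟨900, 1023, 1000⟩⟩ (tC5.hP0) :=
  posD_of_check (c := ⟨83, ⟨0, 2, 3, 1⟩⟩) (by decide +kernel)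

def tC5_gn : PosD ⟨⟨0, 1, 1⟩, ⟨98, 99, 147⟩, ⟨7026, 10000, 30000⟩, ⟨900, 1023, 1000⟩⟩ (tC5.hGn) :=
  posD_of_check (c := ⟨69, ⟨1, 1, 2, 2⟩⟩) (by decide +kernel)

def tC5_den0 : PosD ⟨⟨0, 1, 1⟩, ⟨98, 99, 147⟩, ⟨7026, 10000, 30000⟩, ⟨900, 1023, 1000⟩⟩ (tC5.hDen false) :=
  posD_of_check (c := ⟨51, ⟨1, 0, 2, 1⟩⟩) (by decide +kernel)

def tC5_den1 : PosD ⟨⟨0, 1, 1⟩, ⟨98, 99, 147⟩, ⟨7026, 10000, 30000⟩, ⟨900, 1023, 1000⟩⟩ (tC5.hDen true) :=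
  posD_of_check (c := ⟨51, ⟨1, 0, 2, 1⟩⟩) (by decide +kernel)

def tC5_ev0 : PosD ⟨⟨0, 1, 1⟩, ⟨98, 99, 147⟩, ⟨7026, 10000, 30000⟩, ⟨900, 1023, 1000⟩⟩ (tC5.hEv false) :=
  posD_of_check (c := ⟨219, ⟨4, 2, 8, 4⟩⟩) (by decide +kernel)

def tC5_zL0 : PosD ⟨⟨0, 1, 1⟩, ⟨98, 99, 147⟩, ⟨7026, 10000, 30000⟩, ⟨900, 1023, 1000⟩⟩ (tC5.hZL false) :=
  posD_of_check (c := ⟨221, ⟨4, 3, 8, 4⟩⟩) (by decide +kernel)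

def tC5_zU0a : PosD ⟨⟨0, 1, 1⟩, ⟨98, 99, 147⟩, ⟨7026, 8513, 30000⟩, ⟨900, 1023, 1000⟩⟩ (tC5.hZU false) :=
  posD_of_check (c := ⟨221, ⟨4, 3, 8, 4⟩⟩) (by decide +kernel)

def tC5_zU0b : PosD ⟨⟨0, 1, 1⟩, ⟨98, 99, 147⟩, ⟨8513, 10000, 30000⟩, ⟨900, 1023, 1000⟩⟩ (tC5.hZU false) :=
  posD_of_check (c := ⟨221, ⟨4, 3, 8, 4⟩⟩) (by decide +kernel)

def tC5_zU0 : PosD ⟨⟨0, 1, 1⟩, ⟨98, 99, 147⟩, ⟨7026, 10000, 30000⟩, ⟨900, 1023, 1000⟩⟩ (tC5.hZU false) :=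
  posD_join₂ tC5_zU0a tC5_zU0b

def tC5_eL0 : PosD ⟨⟨0, 1, 1⟩, ⟨98, 99, 147⟩, ⟨7026, 10000, 30000⟩, ⟨900, 1023, 1000⟩⟩ (tC5.hEL false) :=
  posD_of_check (c := ⟨314, ⟨5, 6, 11, 6⟩⟩) (by decide +kernel)

def tC5_eH0 : PosD ⟨⟨0, 1, 1⟩, ⟨98, 99, 147⟩, ⟨7026, 10000, 30000⟩, ⟨900, 1023, 1000⟩⟩ (tC5.hEH false) :=
  posD_of_check (c := ⟨314, ⟨5, 6, 11, 6⟩⟩) (by decide +kernel)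

def tC5_pL0 : PosD ⟨⟨0, 1, 1⟩, ⟨98, 99, 147⟩, ⟨7026, 10000, 30000⟩, ⟨900, 1023, 1000⟩⟩ (tC5.hPL false) :=
  posD_of_check (c := ⟨339, ⟨5, 6, 11, 7⟩⟩) (by decide +kernel)

def tC5_pU0 : PosD ⟨⟨0, 1, 1⟩, ⟨98, 99, 147⟩, ⟨7026, 10000, 30000⟩, ⟨900, 1023, 1000⟩⟩ (tC5.hPU false) :=
  posD_of_check (c := ⟨338, ⟨5, 6, 11, 7⟩⟩) (by decide +kernel)

def tC5_kU0 : PosD ⟨⟨0, 1, 1⟩, ⟨98, 99, 147⟩, ⟨7026, 10000, 30000⟩, ⟨900, 1023, 1000⟩⟩ (tC5.hKU false) :=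
  posD_of_check (c := ⟨336, ⟨5, 6, 11, 7⟩⟩) (by decide +kernel)

def tC5_kL0 : PosD ⟨⟨0, 1, 1⟩, ⟨98, 99, 147⟩, ⟨7026, 10000, 30000⟩, ⟨900, 1023, 1000⟩⟩ (tC5.hKL false) :=
  posD_of_check (c := ⟨336, ⟨5, 6, 11, 7⟩⟩) (by decide +kernel)

def tC5_wU0 : PosD ⟨⟨0, 1, 1⟩, ⟨98, 99, 147⟩, ⟨7026, 10000, 30000⟩, ⟨900, 1023, 1000⟩⟩ (tC5.hWU false) :=
  posD_of_check (c := ⟨371, ⟨5, 8, 12, 7⟩⟩) (by decide +kernel)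

def tC5_wL0a : PosD ⟨⟨0, 1, 2⟩, ⟨98, 99, 147⟩, ⟨7026, 10000, 30000⟩, ⟨900, 1023, 1000⟩⟩ (tC5.hWL false) :=
  posD_of_check (c := ⟨375, ⟨5, 8, 12, 7⟩⟩) (by decide +kernel)

def tC5_wL0b : PosD ⟨⟨1, 2, 2⟩, ⟨98, 99, 147⟩, ⟨7026, 10000, 30000⟩, ⟨900, 1023, 1000⟩⟩ (tC5.hWL false) :=
  posD_of_check (c := ⟨377, ⟨5, 8, 12, 7⟩⟩) (by decide +kernel)

def tC5_wL0 : PosD ⟨⟨0, 1, 1⟩, ⟨98, 99, 147⟩, ⟨7026, 10000, 30000⟩, ⟨900, 1023, 1000⟩⟩ (tC5.hWL false) :=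
  posD_units (b := ⟨⟨0, 2, 2⟩, ⟨98, 99, 147⟩, ⟨7026, 10000, 30000⟩, ⟨900, 1023, 1000⟩⟩) (by decide +kernel) (posD_join₀ tC5_wL0a tC5_wL0b)

def tC5_ev1 : PosD ⟨⟨0, 1, 1⟩, ⟨98, 99, 147⟩, ⟨7026, 10000, 30000⟩, ⟨900, 1023, 1000⟩⟩ (tC5.hEv true) :=
  posD_of_check (c := ⟨217, ⟨4, 2, 8, 4⟩⟩) (by decide +kernel)

def tC5_zL1a : PosD ⟨⟨0, 1, 1⟩, ⟨98, 99, 147⟩, ⟨7026, 8513, 30000⟩, ⟨900, 1023, 1000⟩⟩ (tC5.hZL true) :=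
  posD_of_check (c := ⟨219, ⟨4, 3, 8, 4⟩⟩) (by decide +kernel)

def tC5_zL1ba : PosD ⟨⟨0, 1, 1⟩, ⟨98, 99, 147⟩, ⟨8513, 9256, 30000⟩, ⟨900, 1023, 1000⟩⟩ (tC5.hZL true) :=
  posD_of_check (c := ⟨220, ⟨4, 3, 8, 4⟩⟩) (by decide +kernel)

def tC5_zL1bba : PosD ⟨⟨0, 1, 1⟩, ⟨98, 99, 147⟩, ⟨9256, 9628, 30000⟩, ⟨900, 1023, 1000⟩⟩ (tC5.hZL true) :=
  posD_of_check (c := ⟨220, ⟨4, 3, 8, 4⟩⟩) (by decide +kernel)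

def tC5_zL1bbba : PosD ⟨⟨0, 1, 1⟩, ⟨98, 99, 147⟩, ⟨9628, 9814, 30000⟩, ⟨900, 1023, 1000⟩⟩ (tC5.hZL true) :=
  posD_of_check (c := ⟨220, ⟨4, 3, 8, 4⟩⟩) (by decide +kernel)

def tC5_zL1bbbb : PosD ⟨⟨0, 1, 1⟩, ⟨98, 99, 147⟩, ⟨9814, 10000, 30000⟩, ⟨900, 1023, 1000⟩⟩ (tC5.hZL true) :=
  posD_of_relax (k₁ := 0) (k₂ := 0) (k₃ := 1) (n := 16) (posD_of_check (c := ⟨220, ⟨4, 3, 8, 4⟩⟩) (by decide +kernel))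

def tC5_zL1bbb : PosD ⟨⟨0, 1, 1⟩, ⟨98, 99, 147⟩, ⟨9628, 10000, 30000⟩, ⟨900, 1023, 1000⟩⟩ (tC5.hZL true) :=
  posD_join₂ tC5_zL1bbba tC5_zL1bbbb

def tC5_zL1bb : PosD ⟨⟨0, 1, 1⟩, ⟨98, 99, 147⟩, ⟨9256, 10000, 30000⟩, ⟨900, 1023, 1000⟩⟩ (tC5.hZL true) :=
  posD_join₂ tC5_zL1bba tC5_zL1bbb

def tC5_zL1b : PosD ⟨⟨0, 1, 1⟩, ⟨98, 99, 147⟩, ⟨8513, 10000, 30000⟩, ⟨900, 1023, 1000⟩⟩ (tC5.hZL true) :=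
  posD_join₂ tC5_zL1ba tC5_zL1bb

def tC5_zL1 : PosD ⟨⟨0, 1, 1⟩, ⟨98, 99, 147⟩, ⟨7026, 10000, 30000⟩, ⟨900, 1023, 1000⟩⟩ (tC5.hZL true) :=
  posD_join₂ tC5_zL1a tC5_zL1b

def tC5_zU1 : PosD ⟨⟨0, 1, 1⟩, ⟨98, 99, 147⟩, ⟨7026, 10000, 30000⟩, ⟨900, 1023, 1000⟩⟩ (tC5.hZU true) :=
  posD_of_check (c := ⟨220, ⟨4, 3, 8, 4⟩⟩) (by decide +kernel)

def tC5_eL1 : PosD ⟨⟨0, 1, 1⟩, ⟨98, 99, 147⟩, ⟨7026, 10000, 30000⟩, ⟨900, 1023, 1000⟩⟩ (tC5.hEL true) :=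
  posD_of_check (c := ⟨313, ⟨5, 6, 11, 6⟩⟩) (by decide +kernel)

def tC5_eH1 : PosD ⟨⟨0, 1, 1⟩, ⟨98, 99, 147⟩, ⟨7026, 10000, 30000⟩, ⟨900, 1023, 1000⟩⟩ (tC5.hEH true) :=
  posD_of_check (c := ⟨312, ⟨5, 6, 11, 6⟩⟩) (by decide +kernel)

def tC5_pL1 : PosD ⟨⟨0, 1, 1⟩, ⟨98, 99, 147⟩, ⟨7026, 10000, 30000⟩, ⟨900, 1023, 1000⟩⟩ (tC5.hPL true) :=
  posD_of_check (c := ⟨337, ⟨5, 6, 11, 7⟩⟩) (by decide +kernel)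

def tC5_pU1 : PosD ⟨⟨0, 1, 1⟩, ⟨98, 99, 147⟩, ⟨7026, 10000, 30000⟩, ⟨900, 1023, 1000⟩⟩ (tC5.hPU true) :=
  posD_of_check (c := ⟨337, ⟨5, 6, 11, 7⟩⟩) (by decide +kernel)

def tC5_kU1 : PosD ⟨⟨0, 1, 1⟩, ⟨98, 99, 147⟩, ⟨7026, 10000, 30000⟩, ⟨900, 1023, 1000⟩⟩ (tC5.hKU true) :=
  posD_of_check (c := ⟨335, ⟨5, 6, 11, 7⟩⟩) (by decide +kernel)

def tC5_kL1 : PosD ⟨⟨0, 1, 1⟩, ⟨98, 99, 147⟩, ⟨7026, 10000, 30000⟩, ⟨900, 1023, 1000⟩⟩ (tC5.hKL true) :=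
  posD_of_check (c := ⟨334, ⟨5, 6, 11, 7⟩⟩) (by decide +kernel)

def tC5_wU1 : PosD ⟨⟨0, 1, 1⟩, ⟨98, 99, 147⟩, ⟨7026, 10000, 30000⟩, ⟨900, 1023, 1000⟩⟩ (tC5.hWU true) :=
  posD_of_check (c := ⟨369, ⟨5, 8, 12, 7⟩⟩) (by decide +kernel)

def tC5_wL1 : PosD ⟨⟨0, 1, 1⟩, ⟨98, 99, 147⟩, ⟨7026, 10000, 30000⟩, ⟨900, 1023, 1000⟩⟩ (tC5.hWL true) :=
  posD_of_check (c := ⟨369, ⟨5, 8, 12, 7⟩⟩) (by decide +kernel)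

/-- The bounds of the piece. -/
def tC5_env : tC5.Env ⟨⟨0, 1, 1⟩, ⟨98, 99, 147⟩, ⟨7026, 10000, 30000⟩, ⟨900, 1023, 1000⟩⟩ :=
  ⟨tC5_p0, Bool.forall_bool.2 ⟨tC5_den0, tC5_den1⟩, tC5_gn, Bool.forall_bool.2 ⟨tC5_ev0, tC5_ev1⟩, Bool.forall_bool.2 ⟨tC5_zL0, tC5_zL1⟩, Bool.forall_bool.2 ⟨tC5_zU0, tC5_zU1⟩, Bool.forall_bool.2 ⟨tC5_eL0, tC5_eL1⟩, ⟨.inr rfl, .inr rfl⟩, Bool.forall_bool.2 ⟨tC5_eH0, tC5_eH1⟩, ⟨.inr rfl, .inr rfl⟩, Bool.forall_bool.2 ⟨tC5_pL0, tC5_pL1⟩, ⟨.inr rfl, .inr rfl⟩, Bool.forall_bool.2 ⟨tC5_pU0, tC5_pU1⟩, ⟨.inr rfl, .inr rfl⟩, Bool.forall_bool.2 ⟨tC5_kU0, tC5_kU1⟩, ⟨.inr rfl, .inr rfl⟩, Bool.forall_bool.2 ⟨tC5_kL0, tC5_kL1⟩, ⟨.inr rfl, .inr rfl⟩, Bool.forall_bool.2 ⟨tC5_wU0, tC5_wU1⟩, ⟨.inr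 rfl, .inr rfl⟩, Bool.forall_bool.2 ⟨tC5_wL0, tC5_wL1⟩, ⟨.inr rfl, .inr rfl⟩⟩

def tC5_pp : PosD ⟨⟨0, 1, 1⟩, ⟨98, 99, 147⟩, ⟨7026, 10000, 30000⟩, ⟨900, 1023, 1000⟩⟩ (tC5.xPL) :=
  posD_of_check (c := ⟨95, ⟨1, 1, 3, 3⟩⟩) (by decide +kernel)

def tC5_k2p : PosD ⟨⟨0, 1, 1⟩, ⟨98, 99, 147⟩, ⟨7026, 10000, 30000⟩, ⟨900, 1023, 1000⟩⟩ (tC5.k2p tC5.xE) :=
  posD_of_check (c := ⟨70, ⟨1, 1, 2, 2⟩⟩) (by decide +kernel)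

def tC5_k2m : PosD ⟨⟨0, 1, 1⟩, ⟨98, 99, 147⟩, ⟨7026, 10000, 30000⟩, ⟨900, 1023, 1000⟩⟩ (tC5.k2m tC5.xE) :=
  posD_of_check (c := ⟨70, ⟨1, 1, 2, 2⟩⟩) (by decide +kernel)

def tC5_v2p : PosD ⟨⟨0, 1, 1⟩, ⟨98, 99, 147⟩, ⟨7026, 10000, 30000⟩, ⟨900, 1023, 1000⟩⟩ (tC5.hV2p) :=
  posD_of_check (c := ⟨271, ⟨1, 6, 10, 5⟩⟩) (by decide +kernel)

def tC5_v2m : PosD ⟨⟨0, 1, 1⟩, ⟨98, 99, 147⟩, ⟨7026, 10000, 30000⟩, ⟨900, 1023, 1000⟩⟩ (tC5.hV2m) :=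
  posD_of_check (c := ⟨271, ⟨1, 6, 10, 5⟩⟩) (by decide +kernel)

def tC5_v3p : PosD ⟨⟨0, 1, 1⟩, ⟨98, 99, 147⟩, ⟨7026, 10000, 30000⟩, ⟨900, 1023, 1000⟩⟩ (tC5.hV3p) :=
  posD_of_check (c := ⟨256, ⟨1, 6, 9, 5⟩⟩) (by decide +kernel)

def tC5_v3m : PosD ⟨⟨0, 1, 1⟩, ⟨98, 99, 147⟩, ⟨7026, 10000, 30000⟩, ⟨900, 1023, 1000⟩⟩ (tC5.hV3m) :=
  posD_of_check (c := ⟨256, ⟨1, 6, 9, 5⟩⟩) (by decide +kernel)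

def tC5_kap0 : PosD ⟨⟨0, 1, 1⟩, ⟨98, 99, 147⟩, ⟨7026, 10000, 30000⟩, ⟨900, 1023, 1000⟩⟩ (tC5.kap false) :=
  posD_of_check (c := ⟨68, ⟨1, 1, 2, 2⟩⟩) (by decide +kernel)

def tC5_c10 : PosD ⟨⟨0, 1, 1⟩, ⟨98, 99, 147⟩, ⟨7026, 10000, 30000⟩, ⟨900, 1023, 1000⟩⟩ (tC5.hC1 false) :=
  posD_of_check (c := ⟨273, ⟨3, 5, 9, 7⟩⟩) (by decide +kernel)

def tC5_neg0 : PosD ⟨⟨0, 1, 1⟩, ⟨98, 99, 147⟩, ⟨7026, 10000, 30000⟩, ⟨900, 1023, 1000⟩⟩ (tC5.hNeg (tC5.pEnd false)) :=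
  posD_of_check (c := ⟨269, ⟨2, 5, 9, 7⟩⟩) (by decide +kernel)

def tC5_neglo0 : PosD ⟨⟨0, 1, 1⟩, ⟨98, 99, 147⟩, ⟨7026, 10000, 30000⟩, ⟨900, 1023, 1000⟩⟩ (tC5.hNegLo (tC5.pEnd false)) :=
  posD_of_check (c := ⟨269, ⟨2, 5, 9, 7⟩⟩) (by decide +kernel)

def tC5_tg00 : PosD ⟨⟨0, 1, 1⟩, ⟨98, 99, 147⟩, ⟨7026, 10000, 30000⟩, ⟨900, 1023, 1000⟩⟩ (tC5.hG false (tC5.pEnd false)) :=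
  posD_of_check (c := ⟨387, ⟨2, 7, 14, 9⟩⟩) (by decide +kernel)

def tC5_c2p00 : PosD ⟨⟨0, 1, 1⟩, ⟨98, 99, 147⟩, ⟨7026, 10000, 30000⟩, ⟨900, 1023, 1000⟩⟩ (tC5.hC2p false (tC5.pEnd false)) :=
  posD_of_check (c := ⟨457, ⟨3, 8, 16, 11⟩⟩) (by decide +kernel)

def tC5_c2m00 : PosD ⟨⟨0, 1, 1⟩, ⟨98, 99, 147⟩, ⟨7026, 10000, 30000⟩, ⟨900, 1023, 1000⟩⟩ (tC5.hC2m false (tC5.pEnd false)) :=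
  posD_of_check (c := ⟨457, ⟨3, 8, 16, 11⟩⟩) (by decide +kernel)

def tC5_c3p00 : PosD ⟨⟨0, 1, 1⟩, ⟨98, 99, 147⟩, ⟨7026, 10000, 30000⟩, ⟨900, 1023, 1000⟩⟩ (tC5.hC3p false false) :=
  posD_of_check (c := ⟨443, ⟨3, 8, 15, 11⟩⟩) (by decide +kernel)

def tC5_c3m00 : PosD ⟨⟨0, 1, 1⟩, ⟨98, 99, 147⟩, ⟨7026, 10000, 30000⟩, ⟨900, 1023, 1000⟩⟩ (tC5.hC3m false false) :=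
  posD_of_check (c := ⟨443, ⟨3, 8, 15, 11⟩⟩) (by decide +kernel)

def tC5_tmg00 : PosD ⟨⟨0, 1, 1⟩, ⟨98, 99, 147⟩, ⟨7026, 10000, 30000⟩, ⟨900, 1023, 1000⟩⟩ (tC5.hTMG false (tC5.pEnd false)) :=
  posD_of_check (c := ⟨401, ⟨2, 7, 14, 10⟩⟩) (by decide +kernel)

def tC5_tg01 : PosD ⟨⟨0, 1, 1⟩, ⟨98, 99, 147⟩, ⟨7026, 10000, 30000⟩, ⟨900, 1023, 1000⟩⟩ (tC5.hG true (tC5.pEnd false)) :=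
  posD_of_check (c := ⟨387, ⟨2, 7, 14, 9⟩⟩) (by decide +kernel)

def tC5_c2p01 : PosD ⟨⟨0, 1, 1⟩, ⟨98, 99, 147⟩, ⟨7026, 10000, 30000⟩, ⟨900, 1023, 1000⟩⟩ (tC5.hC2p true (tC5.pEnd false)) :=
  posD_of_check (c := ⟨457, ⟨3, 8, 16, 11⟩⟩) (by decide +kernel)

def tC5_c2m01 : PosD ⟨⟨0, 1, 1⟩, ⟨98, 99, 147⟩, ⟨7026, 10000, 30000⟩, ⟨900, 1023, 1000⟩⟩ (tC5.hC2m true (tC5.pEnd false)) :=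
  posD_of_check (c := ⟨457, ⟨3, 8, 16, 11⟩⟩) (by decide +kernel)

def tC5_c3p01 : PosD ⟨⟨0, 1, 1⟩, ⟨98, 99, 147⟩, ⟨7026, 10000, 30000⟩, ⟨900, 1023, 1000⟩⟩ (tC5.hC3p false true) :=
  posD_of_check (c := ⟨443, ⟨3, 8, 15, 11⟩⟩) (by decide +kernel)

def tC5_c3m01 : PosD ⟨⟨0, 1, 1⟩, ⟨98, 99, 147⟩, ⟨7026, 10000, 30000⟩, ⟨900, 1023, 1000⟩⟩ (tC5.hC3m false true) :=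
  posD_of_check (c := ⟨443, ⟨3, 8, 15, 11⟩⟩) (by decide +kernel)

def tC5_tmg01 : PosD ⟨⟨0, 1, 1⟩, ⟨98, 99, 147⟩, ⟨7026, 10000, 30000⟩, ⟨900, 1023, 1000⟩⟩ (tC5.hTMG true (tC5.pEnd false)) :=
  posD_of_check (c := ⟨401, ⟨2, 7, 14, 10⟩⟩) (by decide +kernel)

def tC5_kap1 : PosD ⟨⟨0, 1, 1⟩, ⟨98, 99, 147⟩, ⟨7026, 10000, 30000⟩, ⟨900, 1023, 1000⟩⟩ (tC5.kap true) :=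
  posD_of_check (c := ⟨68, ⟨1, 1, 2, 2⟩⟩) (by decide +kernel)

def tC5_c11 : PosD ⟨⟨0, 1, 1⟩, ⟨98, 99, 147⟩, ⟨7026, 10000, 30000⟩, ⟨900, 1023, 1000⟩⟩ (tC5.hC1 true) :=
  posD_of_check (c := ⟨272, ⟨3, 5, 9, 7⟩⟩) (by decide +kernel)

def tC5_neg1 : PosD ⟨⟨0, 1, 1⟩, ⟨98, 99, 147⟩, ⟨7026, 10000, 30000⟩, ⟨900, 1023, 1000⟩⟩ (tC5.hNeg (tC5.pEnd true)) :=
  posD_of_check (c := ⟨268, ⟨2, 5, 9, 7⟩⟩) (by decide +kernel)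

def tC5_neglo1 : PosD ⟨⟨0, 1, 1⟩, ⟨98, 99, 147⟩, ⟨7026, 10000, 30000⟩, ⟨900, 1023, 1000⟩⟩ (tC5.hNegLo (tC5.pEnd true)) :=
  posD_of_check (c := ⟨268, ⟨2, 5, 9, 7⟩⟩) (by decide +kernel)

def tC5_tg10 : PosD ⟨⟨0, 1, 1⟩, ⟨98, 99, 147⟩, ⟨7026, 10000, 30000⟩, ⟨900, 1023, 1000⟩⟩ (tC5.hG false (tC5.pEnd true)) :=
  posD_of_check (c := ⟨384, ⟨2, 7, 14, 9⟩⟩) (by decide +kernel)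

def tC5_c2p10 : PosD ⟨⟨0, 1, 1⟩, ⟨98, 99, 147⟩, ⟨7026, 10000, 30000⟩, ⟨900, 1023, 1000⟩⟩ (tC5.hC2p false (tC5.pEnd true)) :=
  posD_of_check (c := ⟨455, ⟨3, 8, 16, 11⟩⟩) (by decide +kernel)

def tC5_c2m10 : PosD ⟨⟨0, 1, 1⟩, ⟨98, 99, 147⟩, ⟨7026, 10000, 30000⟩, ⟨900, 1023, 1000⟩⟩ (tC5.hC2m false (tC5.pEnd true)) :=
  posD_of_check (c := ⟨455, ⟨3, 8, 16, 11⟩⟩) (by decide +kernel)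

def tC5_c3p10 : PosD ⟨⟨0, 1, 1⟩, ⟨98, 99, 147⟩, ⟨7026, 10000, 30000⟩, ⟨900, 1023, 1000⟩⟩ (tC5.hC3p true false) :=
  posD_of_check (c := ⟨442, ⟨3, 8, 15, 11⟩⟩) (by decide +kernel)

def tC5_c3m10 : PosD ⟨⟨0, 1, 1⟩, ⟨98, 99, 147⟩, ⟨7026, 10000, 30000⟩, ⟨900, 1023, 1000⟩⟩ (tC5.hC3m true false) :=
  posD_of_check (c := ⟨442, ⟨3, 8, 15, 11⟩⟩) (by decide +kernel)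

def tC5_tmg10 : PosD ⟨⟨0, 1, 1⟩, ⟨98, 99, 147⟩, ⟨7026, 10000, 30000⟩, ⟨900, 1023, 1000⟩⟩ (tC5.hTMG false (tC5.pEnd true)) :=
  posD_of_check (c := ⟨400, ⟨2, 7, 14, 10⟩⟩) (by decide +kernel)

def tC5_tg11 : PosD ⟨⟨0, 1, 1⟩, ⟨98, 99, 147⟩, ⟨7026, 10000, 30000⟩, ⟨900, 1023, 1000⟩⟩ (tC5.hG true (tC5.pEnd true)) :=
  posD_of_check (c := ⟨384, ⟨2, 7, 14, 9⟩⟩) (by decide +kernel)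

def tC5_c2p11 : PosD ⟨⟨0, 1, 1⟩, ⟨98, 99, 147⟩, ⟨7026, 10000, 30000⟩, ⟨900, 1023, 1000⟩⟩ (tC5.hC2p true (tC5.pEnd true)) :=
  posD_of_check (c := ⟨455, ⟨3, 8, 16, 11⟩⟩) (by decide +kernel)

def tC5_c2m11 : PosD ⟨⟨0, 1, 1⟩, ⟨98, 99, 147⟩, ⟨7026, 10000, 30000⟩, ⟨900, 1023, 1000⟩⟩ (tC5.hC2m true (tC5.pEnd true)) :=
  posD_of_check (c := ⟨455, ⟨3, 8, 16, 11⟩⟩) (by decide +kernel)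

def tC5_c3p11 : PosD ⟨⟨0, 1, 1⟩, ⟨98, 99, 147⟩, ⟨7026, 10000, 30000⟩, ⟨900, 1023, 1000⟩⟩ (tC5.hC3p true true) :=
  posD_of_check (c := ⟨442, ⟨3, 8, 15, 11⟩⟩) (by decide +kernel)

def tC5_c3m11 : PosD ⟨⟨0, 1, 1⟩, ⟨98, 99, 147⟩, ⟨7026, 10000, 30000⟩, ⟨900, 1023, 1000⟩⟩ (tC5.hC3m true true) :=
  posD_of_check (c := ⟨442, ⟨3, 8, 15, 11⟩⟩) (by decide +kernel)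

def tC5_tmg11 : PosD ⟨⟨0, 1, 1⟩, ⟨98, 99, 147⟩, ⟨7026, 10000, 30000⟩, ⟨900, 1023, 1000⟩⟩ (tC5.hTMG true (tC5.pEnd true)) :=
  posD_of_check (c := ⟨400, ⟨2, 7, 14, 10⟩⟩) (by decide +kernel)

/-- The signs of the piece. -/
def tC5_sign : tC5.Sign ⟨⟨0, 1, 1⟩, ⟨98, 99, 147⟩, ⟨7026, 10000, 30000⟩, ⟨900, 1023, 1000⟩⟩ :=
  ⟨tC5_pp,
    tC5_k2p,
    tC5_k2m,
    Bool.forall_bool.2 ⟨(Bool.forall_bool.2 ⟨tC5_tg00, tC5_tg01⟩), (Bool.forall_bool.2 ⟨tC5_tg10, tC5_tg11⟩)⟩,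
    Bool.forall_bool.2 ⟨(Bool.forall_bool.2 ⟨tC5_c2p00, tC5_c2p01⟩), (Bool.forall_bool.2 ⟨tC5_c2p10, tC5_c2p11⟩)⟩,
    Bool.forall_bool.2 ⟨(Bool.forall_bool.2 ⟨tC5_c2m00, tC5_c2m01⟩), (Bool.forall_bool.2 ⟨tC5_c2m10, tC5_c2m11⟩)⟩,
    Bool.forall_bool.2 ⟨tC5_kap0, tC5_kap1⟩,
    Bool.forall_bool.2 ⟨tC5_c10, tC5_c11⟩,
    Bool.forall_bool.2 ⟨(Bool.forall_bool.2 ⟨tC5_c3p00, tC5_c3p01⟩), (Bool.forall_bool.2 ⟨tC5_c3p10, tC5_c3p11⟩)⟩,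
    Bool.forall_bool.2 ⟨(Bool.forall_bool.2 ⟨tC5_c3m00, tC5_c3m01⟩), (Bool.forall_bool.2 ⟨tC5_c3m10, tC5_c3m11⟩)⟩,
    Bool.forall_bool.2 ⟨(Bool.forall_bool.2 ⟨tC5_tmg00, tC5_tmg01⟩), (Bool.forall_bool.2 ⟨tC5_tmg10, tC5_tmg11⟩)⟩,
    .inl (Bool.forall_bool.2 ⟨⟨tC5_neg0, tC5_neglo0⟩, ⟨tC5_neg1, tC5_neglo1⟩⟩),
    tC5_v2p,
    tC5_v2m,
    tC5_v3p,
    tC5_v3m,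
    posD_sub (b := ⟨⟨0, 1, 1⟩, ⟨98, 99, 147⟩, ⟨4050, 10000, 30000⟩, ⟨290, 4000, 1000⟩⟩) (by decide +kernel) tC_vG,
    posD_sub (b := ⟨⟨0, 1, 1⟩, ⟨98, 99, 147⟩, ⟨4050, 10000, 30000⟩, ⟨290, 4000, 1000⟩⟩) (by decide +kernel) tC_vMG,
    posD_sub (b := ⟨⟨0, 1, 1⟩, ⟨98, 99, 147⟩, ⟨4050, 10000, 30000⟩, ⟨290, 4000, 1000⟩⟩) (by decide +kernel) tC_ak,
    posD_sub (b := ⟨⟨0, 1, 1⟩, ⟨98, 99, 147⟩, ⟨4050, 10000, 30000⟩, ⟨290, 4000, 1000⟩⟩) (by decide +kernel) tC_aw,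
    posD_sub (b := ⟨⟨0, 1, 1⟩, ⟨98, 99, 147⟩, ⟨4050, 10000, 30000⟩, ⟨290, 4000, 1000⟩⟩) (by decide +kernel) tC_gk,
    posD_sub (b := ⟨⟨0, 1, 1⟩, ⟨98, 99, 147⟩, ⟨4050, 10000, 30000⟩, ⟨290, 4000, 1000⟩⟩) (by decide +kernel) tC_gw,
    posD_sub (b := ⟨⟨0, 1, 1⟩, ⟨98, 99, 147⟩, ⟨4050, 10000, 30000⟩, ⟨290, 4000, 1000⟩⟩) (by decide +kernel) tC_ek,
    posD_sub (b := ⟨⟨0, 1, 1⟩, ⟨98, 99, 147⟩, ⟨4050, 10000, 30000⟩, ⟨290, 4000, 1000⟩⟩) (by decide +kernel) tC_ew⟩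

end Vale.Agent.P100.Calib.Closed.Six.Tail
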