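import Vale.Agent.P100.Calib.SlabSixTailDataC
import Vale.Agent.P100.Calib.SlabSixTailGlobC

/-!
# Checks of some pieces of the certificate

The checks are written as definitions so that they run one after another, which keeps the memory of the
kernel low.
-/

set_option linter.defProp false

namespace Vale.Agent.P100.Calib.Closed.Six.Tail

open BoxPos Large

local instance sixTailCheckstC10Add : Add Ex := ⟨Ex.add⟩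
local instance sixTailCheckstC10Sub : Sub Ex := ⟨Ex.sub⟩
local instance sixTailCheckstC10Mul : Mul Ex := ⟨Ex.mul⟩

def tC20_phx : PosIf ⟨⟨0, 1, 1⟩, ⟨98, 99, 147⟩, ⟨9630, 10000, 30000⟩, ⟨1037, 1116, 1000⟩⟩ (tC20.u₁ - tC20Lo) (phCn (tC20.u₁ + xO * (tC20Lo - tC20.u₁))) :=
  posIf_of_posD (posD_of_check (c := ⟨109, ⟨2, 0, 4, 2⟩⟩) (by decide +kernel))

def tC20_phd : PosD ⟨⟨0, 1, 1⟩, ⟨98, 99, 147⟩, ⟨9630, 10000, 30000⟩, ⟨1037, 1116, 1000⟩⟩ (phCd (tC20.u₁ + xO * (tC20Lo - tC20.u₁))) :=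
  posD_of_check (c := ⟨51, ⟨1, 0, 2, 1⟩⟩) (by decide +kernel)

def tC20_p0 : PosD ⟨⟨0, 1, 1⟩, ⟨98, 99, 147⟩, ⟨9630, 10000, 30000⟩, ⟨1037, 1116, 1000⟩⟩ (tC20.hP0) :=
  posD_of_check (c := ⟨83, ⟨0, 2, 3, 1⟩⟩) (by decide +kernel)

def tC20_gn : PosD ⟨⟨0, 1, 1⟩, ⟨98, 99, 147⟩, ⟨9630, 10000, 30000⟩, ⟨1037, 1116, 1000⟩⟩ (tC20.hGn) :=
  posD_of_check (c := ⟨69, ⟨1, 1, 2, 2⟩⟩) (by decide +kernel)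

def tC20_den0 : PosD ⟨⟨0, 1, 1⟩, ⟨98, 99, 147⟩, ⟨9630, 10000, 30000⟩, ⟨1037, 1116, 1000⟩⟩ (tC20.hDen false) :=
  posD_of_check (c := ⟨51, ⟨1, 0, 2, 1⟩⟩) (by decide +kernel)

def tC20_den1 : PosD ⟨⟨0, 1, 1⟩, ⟨98, 99, 147⟩, ⟨9630, 10000, 30000⟩, ⟨1037, 1116, 1000⟩⟩ (tC20.hDen true) :=
  posD_of_check (c := ⟨51, ⟨1, 0, 2, 1⟩⟩) (by decide +kernel)

def tC20_ev0 : PosD ⟨⟨0, 1, 1⟩, ⟨98, 99, 147⟩, ⟨9630, 10000, 30000⟩, ⟨1037, 1116, 1000⟩⟩ (tC20.hEv false) :=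
  posD_of_check (c := ⟨220, ⟨4, 2, 8, 4⟩⟩) (by decide +kernel)

def tC20_zL0 : PosD ⟨⟨0, 1, 1⟩, ⟨98, 99, 147⟩, ⟨9630, 10000, 30000⟩, ⟨1037, 1116, 1000⟩⟩ (tC20.hZL false) :=
  posD_of_check (c := ⟨222, ⟨4, 3, 8, 4⟩⟩) (by decide +kernel)

def tC20_zU0 : PosD ⟨⟨0, 1, 1⟩, ⟨98, 99, 147⟩, ⟨9630, 10000, 30000⟩, ⟨1037, 1116, 1000⟩⟩ (tC20.hZU false) :=
  posD_of_check (c := ⟨222, ⟨4, 3, 8, 4⟩⟩) (by decide +kernel)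

def tC20_eL0 : PosD ⟨⟨0, 1, 1⟩, ⟨98, 99, 147⟩, ⟨9630, 10000, 30000⟩, ⟨1037, 1116, 1000⟩⟩ (tC20.hEL false) :=
  posD_of_check (c := ⟨316, ⟨5, 6, 11, 6⟩⟩) (by decide +kernel)

def tC20_eH0 : PosD ⟨⟨0, 1, 1⟩, ⟨98, 99, 147⟩, ⟨9630, 10000, 30000⟩, ⟨1037, 1116, 1000⟩⟩ (tC20.hEH false) :=
  posD_of_check (c := ⟨315, ⟨5, 6, 11, 6⟩⟩) (by decide +kernel)

def tC20_pL0 : PosD ⟨⟨0, 1, 1⟩, ⟨98, 99, 147⟩, ⟨9630, 10000, 30000⟩, ⟨1037, 1116, 1000⟩⟩ (tC20.hPL false) :=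
  posD_of_check (c := ⟨340, ⟨5, 6, 11, 7⟩⟩) (by decide +kernel)

def tC20_pU0 : PosD ⟨⟨0, 1, 1⟩, ⟨98, 99, 147⟩, ⟨9630, 10000, 30000⟩, ⟨1037, 1116, 1000⟩⟩ (tC20.hPU false) :=
  posD_of_check (c := ⟨342, ⟨5, 6, 11, 7⟩⟩) (by decide +kernel)

def tC20_kU0 : PosD ⟨⟨0, 1, 1⟩, ⟨98, 99, 147⟩, ⟨9630, 10000, 30000⟩, ⟨1037, 1116, 1000⟩⟩ (tC20.hKU false) :=
  posD_of_check (c := ⟨338, ⟨5, 6, 11, 7⟩⟩) (by decide +kernel)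

def tC20_kL0 : PosD ⟨⟨0, 1, 1⟩, ⟨98, 99, 147⟩, ⟨9630, 10000, 30000⟩, ⟨1037, 1116, 1000⟩⟩ (tC20.hKL false) :=
  posD_of_check (c := ⟨337, ⟨5, 6, 11, 7⟩⟩) (by decide +kernel)

def tC20_wU0 : PosD ⟨⟨0, 1, 1⟩, ⟨98, 99, 147⟩, ⟨9630, 10000, 30000⟩, ⟨1037, 1116, 1000⟩⟩ (tC20.hWU false) :=
  posD_of_check (c := ⟨371, ⟨5, 8, 12, 7⟩⟩) (by decide +kernel)

def tC20_wL0 : PosD ⟨⟨0, 1, 1⟩, ⟨98, 99, 147⟩, ⟨9630, 10000, 30000⟩, ⟨1037, 1116, 1000⟩⟩ (tC20.hWL false) :=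
  posD_of_check (c := ⟨372, ⟨5, 8, 12, 7⟩⟩) (by decide +kernel)

def tC20_ev1 : PosD ⟨⟨0, 1, 1⟩, ⟨98, 99, 147⟩, ⟨9630, 10000, 30000⟩, ⟨1037, 1116, 1000⟩⟩ (tC20.hEv true) :=
  posD_of_check (c := ⟨218, ⟨4, 2, 8, 4⟩⟩) (by decide +kernel)

def tC20_zL1 : PosD ⟨⟨0, 1, 1⟩, ⟨98, 99, 147⟩, ⟨9630, 10000, 30000⟩, ⟨1037, 1116, 1000⟩⟩ (tC20.hZL true) :=
  posD_of_check (c := ⟨220, ⟨4, 3, 8, 4⟩⟩) (by decide +kernel)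

def tC20_zU1 : PosD ⟨⟨0, 1, 1⟩, ⟨98, 99, 147⟩, ⟨9630, 10000, 30000⟩, ⟨1037, 1116, 1000⟩⟩ (tC20.hZU true) :=
  posD_of_check (c := ⟨221, ⟨4, 3, 8, 4⟩⟩) (by decide +kernel)

def tC20_eL1 : PosD ⟨⟨0, 1, 1⟩, ⟨98, 99, 147⟩, ⟨9630, 10000, 30000⟩, ⟨1037, 1116, 1000⟩⟩ (tC20.hEL true) :=
  posD_of_check (c := ⟨314, ⟨5, 6, 11, 6⟩⟩) (by decide +kernel)

def tC20_eH1 : PosD ⟨⟨0, 1, 1⟩, ⟨98, 99, 147⟩, ⟨9630, 10000, 30000⟩, ⟨1037, 1116, 1000⟩⟩ (tC20.hEH true) :=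
  posD_of_check (c := ⟨313, ⟨5, 6, 11, 6⟩⟩) (by decide +kernel)

def tC20_pL1 : PosD ⟨⟨0, 1, 1⟩, ⟨98, 99, 147⟩, ⟨9630, 10000, 30000⟩, ⟨1037, 1116, 1000⟩⟩ (tC20.hPL true) :=
  posD_of_check (c := ⟨338, ⟨5, 6, 11, 7⟩⟩) (by decide +kernel)

def tC20_pU1 : PosD ⟨⟨0, 1, 1⟩, ⟨98, 99, 147⟩, ⟨9630, 10000, 30000⟩, ⟨1037, 1116, 1000⟩⟩ (tC20.hPU true) :=
  posD_of_check (c := ⟨341, ⟨5, 6, 11, 7⟩⟩) (by decide +kernel)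

def tC20_kU1 : PosD ⟨⟨0, 1, 1⟩, ⟨98, 99, 147⟩, ⟨9630, 10000, 30000⟩, ⟨1037, 1116, 1000⟩⟩ (tC20.hKU true) :=
  posD_of_check (c := ⟨336, ⟨5, 6, 11, 7⟩⟩) (by decide +kernel)

def tC20_kL1 : PosD ⟨⟨0, 1, 1⟩, ⟨98, 99, 147⟩, ⟨9630, 10000, 30000⟩, ⟨1037, 1116, 1000⟩⟩ (tC20.hKL true) :=
  posD_of_check (c := ⟨336, ⟨5, 6, 11, 7⟩⟩) (by decide +kernel)

def tC20_wU1 : PosD ⟨⟨0, 1, 1⟩, ⟨98, 99, 147⟩, ⟨9630, 10000, 30000⟩, ⟨1037, 1116, 1000⟩⟩ (tC20.hWU true) :=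
  posD_of_relax (k₁ := 0) (k₂ := 0) (k₃ := 1) (n := 16) (posD_of_check (c := ⟨370, ⟨5, 8, 12, 7⟩⟩) (by decide +kernel))

def tC20_wL1 : PosD ⟨⟨0, 1, 1⟩, ⟨98, 99, 147⟩, ⟨9630, 10000, 30000⟩, ⟨1037, 1116, 1000⟩⟩ (tC20.hWL true) :=
  posD_of_check (c := ⟨371, ⟨5, 8, 12, 7⟩⟩) (by decide +kernel)

def tC20_mupL : PosD ⟨⟨0, 1, 1⟩, ⟨98, 99, 147⟩, ⟨9630, 10000, 30000⟩, ⟨1037, 1116, 1000⟩⟩ (tC20.pL.μ) :=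
  posD_of_check (c := ⟨11, ⟨0, 0, 0, 0⟩⟩) (by decide +kernel)

/-- The bounds of the piece. -/
def tC20_env : tC20.Env ⟨⟨0, 1, 1⟩, ⟨98, 99, 147⟩, ⟨9630, 10000, 30000⟩, ⟨1037, 1116, 1000⟩⟩ :=
  ⟨tC20_p0, Bool.forall_bool.2 ⟨tC20_den0, tC20_den1⟩, tC20_gn, Bool.forall_bool.2 ⟨tC20_ev0, tC20_ev1⟩, Bool.forall_bool.2 ⟨tC20_zL0, tC20_zL1⟩, Bool.forall_bool.2 ⟨tC20_zU0, tC20_zU1⟩, Bool.forall_bool.2 ⟨tC20_eL0, tC20_eL1⟩, ⟨.inr rfl, .inr rfl⟩, Bool.forall_bool.2 ⟨tC20_eH0, tC20_eH1⟩, ⟨.inr rfl, .inr rfl⟩, Bool.forall_bool.2 ⟨tC20_pL0, tC20_pL1⟩, ⟨.inl tC20_mupL, .inr rfl⟩, Bool.forall_bool.2 ⟨tC20_pU0, tC20_pU1⟩, ⟨.inr rfl, .inr rfl⟩, Bool.forall_bool.2 ⟨tC20_kU0, tC20_kU1⟩, ⟨.inr rfl, .inr rfl⟩, Bool.forall_bool.2 ⟨tC20_kL0, tC20_kL1⟩,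 ⟨.inr rfl, .inr rfl⟩, Bool.forall_bool.2 ⟨tC20_wU0, tC20_wU1⟩, ⟨.inr rfl, .inr rfl⟩, Bool.forall_bool.2 ⟨tC20_wL0, tC20_wL1⟩, ⟨.inr rfl, .inr rfl⟩⟩

def tC20_pU20 : PosD ⟨⟨0, 1, 1⟩, ⟨98, 99, 147⟩, ⟨9630, 10000, 30000⟩, ⟨1037, 1116, 1000⟩⟩ (({ tC20 with pU := tC20PU } : Piece).hPU false) :=
  posD_of_check (c := ⟨340, ⟨5, 6, 11, 7⟩⟩) (by decide +kernel)

def tC20_pU21 : PosD ⟨⟨0, 1, 1⟩, ⟨98, 99, 147⟩, ⟨9630, 10000, 30000⟩, ⟨1037, 1116, 1000⟩⟩ (({ tC20 with pU := tC20PU } : Piece).hPU true) :=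
  posD_of_check (c := ⟨338, ⟨5, 6, 11, 7⟩⟩) (by decide +kernel)

/-- The bounds with the other bound of `p`. -/
def tC20_envU : ({ tC20 with pU := tC20PU } : Piece).Env ⟨⟨0, 1, 1⟩, ⟨98, 99, 147⟩, ⟨9630, 10000, 30000⟩, ⟨1037, 1116, 1000⟩⟩ :=
  tC20_env.withU tC20PU (Bool.forall_bool.2 ⟨tC20_pU20, tC20_pU21⟩) ⟨.inr rfl, .inr rfl⟩

def tC20A_pp : PosD ⟨⟨0, 1, 1⟩, ⟨98, 99, 147⟩, ⟨9630, 10000, 30000⟩, ⟨1037, 1116, 1000⟩⟩ (tC20A.xPL) :=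
  posD_of_check (c := ⟨96, ⟨1, 1, 3, 3⟩⟩) (by decide +kernel)

def tC20A_k2p : PosD ⟨⟨0, 1, 1⟩, ⟨98, 99, 147⟩, ⟨9630, 10000, 30000⟩, ⟨1037, 1116, 1000⟩⟩ (tC20A.k2p tC20A.xE) :=
  posD_of_check (c := ⟨6, ⟨0, 0, 0, 0⟩⟩) (by decide +kernel)

def tC20A_k2m : PosD ⟨⟨0, 1, 1⟩, ⟨98, 99, 147⟩, ⟨9630, 10000, 30000⟩, ⟨1037, 1116, 1000⟩⟩ (tC20A.k2m tC20A.xE) :=
  posD_of_check (c := ⟨74, ⟨1, 1, 2, 2⟩⟩) (by decide +kernel)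

def tC20A_v2p : PosD ⟨⟨0, 1, 1⟩, ⟨98, 99, 147⟩, ⟨9630, 10000, 30000⟩, ⟨1037, 1116, 1000⟩⟩ (tC20A.hV2p) :=
  posD_of_check (c := ⟨244, ⟨0, 5, 10, 4⟩⟩) (by decide +kernel)

def tC20A_v2m : PosD ⟨⟨0, 1, 1⟩, ⟨98, 99, 147⟩, ⟨9630, 10000, 30000⟩, ⟨1037, 1116, 1000⟩⟩ (tC20A.hV2m) :=
  posD_of_check (c := ⟨275, ⟨1, 6, 10, 5⟩⟩) (by decide +kernel)

def tC20A_v3p : PosD ⟨⟨0, 1, 1⟩, ⟨98, 99, 147⟩, ⟨9630, 10000, 30000⟩, ⟨1037, 1116, 1000⟩⟩ (tC20A.hV3p) :=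
  posD_of_check (c := ⟨232, ⟨0, 5, 9, 4⟩⟩) (by decide +kernel)

def tC20A_v3m : PosD ⟨⟨0, 1, 1⟩, ⟨98, 99, 147⟩, ⟨9630, 10000, 30000⟩, ⟨1037, 1116, 1000⟩⟩ (tC20A.hV3m) :=
  posD_of_check (c := ⟨259, ⟨1, 6, 9, 5⟩⟩) (by decide +kernel)

def tC20A_kap0 : PosD ⟨⟨0, 1, 1⟩, ⟨98, 99, 147⟩, ⟨9630, 10000, 30000⟩, ⟨1037, 1116, 1000⟩⟩ (tC20A.kap false) :=
  posD_of_check (c := ⟨71, ⟨1, 1, 2, 2⟩⟩) (by decide +kernel)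

def tC20A_c10 : PosD ⟨⟨0, 1, 1⟩, ⟨98, 99, 147⟩, ⟨9630, 10000, 30000⟩, ⟨1037, 1116, 1000⟩⟩ (tC20A.hC1 false) :=
  posD_of_check (c := ⟨276, ⟨3, 5, 9, 7⟩⟩) (by decide +kernel)

def tC20A_neg0 : PosD ⟨⟨0, 1, 1⟩, ⟨98, 99, 147⟩, ⟨9630, 10000, 30000⟩, ⟨1037, 1116, 1000⟩⟩ (tC20A.hNeg (tC20A.pEnd false)) :=
  posD_of_check (c := ⟨270, ⟨2, 5, 9, 7⟩⟩) (by decide +kernel)

def tC20A_neglo0 : PosD ⟨⟨0, 1, 1⟩, ⟨98, 99, 147⟩, ⟨9630, 10000, 30000⟩, ⟨1037, 1116, 1000⟩⟩ (tC20A.hNegLo (tC20A.pEnd false)) :=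
  posD_of_check (c := ⟨270, ⟨2, 5, 9, 7⟩⟩) (by decide +kernel)

def tC20A_tg00 : PosD ⟨⟨0, 1, 1⟩, ⟨98, 99, 147⟩, ⟨9630, 10000, 30000⟩, ⟨1037, 1116, 1000⟩⟩ (tC20A.hG false (tC20A.pEnd false)) :=
  posD_of_check (c := ⟨388, ⟨2, 7, 14, 9⟩⟩) (by decide +kernel)

def tC20A_c2p00 : PosD ⟨⟨0, 1, 1⟩, ⟨98, 99, 147⟩, ⟨9630, 10000, 30000⟩, ⟨1037, 1116, 1000⟩⟩ (tC20A.hC2p false (tC20A.pEnd false)) :=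
  posD_of_check (c := ⟨431, ⟨2, 7, 16, 10⟩⟩) (by decide +kernel)

def tC20A_c2m00 : PosD ⟨⟨0, 1, 1⟩, ⟨98, 99, 147⟩, ⟨9630, 10000, 30000⟩, ⟨1037, 1116, 1000⟩⟩ (tC20A.hC2m false (tC20A.pEnd false)) :=
  posD_of_check (c := ⟨461, ⟨3, 8, 16, 11⟩⟩) (by decide +kernel)

def tC20A_c3p00 : PosD ⟨⟨0, 1, 1⟩, ⟨98, 99, 147⟩, ⟨9630, 10000, 30000⟩, ⟨1037, 1116, 1000⟩⟩ (tC20A.hC3p false false) :=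
  posD_of_check (c := ⟨423, ⟨3, 7, 15, 10⟩⟩) (by decide +kernel)

def tC20A_c3m00 : PosD ⟨⟨0, 1, 1⟩, ⟨98, 99, 147⟩, ⟨9630, 10000, 30000⟩, ⟨1037, 1116, 1000⟩⟩ (tC20A.hC3m false false) :=
  posD_of_check (c := ⟨447, ⟨3, 8, 15, 11⟩⟩) (by decide +kernel)

def tC20A_tmg00 : PosD ⟨⟨0, 1, 1⟩, ⟨98, 99, 147⟩, ⟨9630, 10000, 30000⟩, ⟨1037, 1116, 1000⟩⟩ (tC20A.hTMG false (tC20A.pEnd false)) :=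
  posD_of_check (c := ⟨403, ⟨2, 7, 14, 10⟩⟩) (by decide +kernel)

def tC20A_tg01 : PosD ⟨⟨0, 1, 1⟩, ⟨98, 99, 147⟩, ⟨9630, 10000, 30000⟩, ⟨1037, 1116, 1000⟩⟩ (tC20A.hG true (tC20A.pEnd false)) :=
  posD_of_check (c := ⟨388, ⟨2, 7, 14, 9⟩⟩) (by decide +kernel)

def tC20A_c2p01 : PosD ⟨⟨0, 1, 1⟩, ⟨98, 99, 147⟩, ⟨9630, 10000, 30000⟩, ⟨1037, 1116, 1000⟩⟩ (tC20A.hC2p true (tC20A.pEnd false)) :=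
  posD_of_check (c := ⟨431, ⟨2, 7, 16, 10⟩⟩) (by decide +kernel)

def tC20A_c2m01 : PosD ⟨⟨0, 1, 1⟩, ⟨98, 99, 147⟩, ⟨9630, 10000, 30000⟩, ⟨1037, 1116, 1000⟩⟩ (tC20A.hC2m true (tC20A.pEnd false)) :=
  posD_of_check (c := ⟨462, ⟨3, 8, 16, 11⟩⟩) (by decide +kernel)

def tC20A_c3p01 : PosD ⟨⟨0, 1, 1⟩, ⟨98, 99, 147⟩, ⟨9630, 10000, 30000⟩, ⟨1037, 1116, 1000⟩⟩ (tC20A.hC3p false true) :=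
  posD_of_check (c := ⟨423, ⟨3, 7, 15, 10⟩⟩) (by decide +kernel)

def tC20A_c3m01 : PosD ⟨⟨0, 1, 1⟩, ⟨98, 99, 147⟩, ⟨9630, 10000, 30000⟩, ⟨1037, 1116, 1000⟩⟩ (tC20A.hC3m false true) :=
  posD_of_check (c := ⟨447, ⟨3, 8, 15, 11⟩⟩) (by decide +kernel)

def tC20A_tmg01 : PosD ⟨⟨0, 1, 1⟩, ⟨98, 99, 147⟩, ⟨9630, 10000, 30000⟩, ⟨1037, 1116, 1000⟩⟩ (tC20A.hTMG true (tC20A.pEnd false)) :=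
  posD_of_check (c := ⟨403, ⟨2, 7, 14, 10⟩⟩) (by decide +kernel)

def tC20A_kap1 : PosD ⟨⟨0, 1, 1⟩, ⟨98, 99, 147⟩, ⟨9630, 10000, 30000⟩, ⟨1037, 1116, 1000⟩⟩ (tC20A.kap true) :=
  posD_of_check (c := ⟨73, ⟨1, 1, 2, 2⟩⟩) (by decide +kernel)

def tC20A_c11 : PosD ⟨⟨0, 1, 1⟩, ⟨98, 99, 147⟩, ⟨9630, 10000, 30000⟩, ⟨1037, 1116, 1000⟩⟩ (tC20A.hC1 true) :=
  posD_of_check (c := ⟨280, ⟨3, 5, 9, 7⟩⟩) (by decide +kernel)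

def tC20A_neg1 : PosD ⟨⟨0, 1, 1⟩, ⟨98, 99, 147⟩, ⟨9630, 10000, 30000⟩, ⟨1037, 1116, 1000⟩⟩ (tC20A.hNeg (tC20A.pEnd true)) :=
  posD_of_check (c := ⟨273, ⟨2, 5, 9, 7⟩⟩) (by decide +kernel)

def tC20A_neglo1 : PosD ⟨⟨0, 1, 1⟩, ⟨98, 99, 147⟩, ⟨9630, 10000, 30000⟩, ⟨1037, 1116, 1000⟩⟩ (tC20A.hNegLo (tC20A.pEnd true)) :=
  posD_of_check (c := ⟨273, ⟨2, 5, 9, 7⟩⟩) (by decide +kernel)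

def tC20A_tg10 : PosD ⟨⟨0, 1, 1⟩, ⟨98, 99, 147⟩, ⟨9630, 10000, 30000⟩, ⟨1037, 1116, 1000⟩⟩ (tC20A.hG false (tC20A.pEnd true)) :=
  posD_of_check (c := ⟨394, ⟨2, 7, 14, 9⟩⟩) (by decide +kernel)

def tC20A_c2p10 : PosD ⟨⟨0, 1, 1⟩, ⟨98, 99, 147⟩, ⟨9630, 10000, 30000⟩, ⟨1037, 1116, 1000⟩⟩ (tC20A.hC2p false (tC20A.pEnd true)) :=
  posD_of_check (c := ⟨436, ⟨2, 7, 16, 10⟩⟩) (by decide +kernel)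

def tC20A_c2m10 : PosD ⟨⟨0, 1, 1⟩, ⟨98, 99, 147⟩, ⟨9630, 10000, 30000⟩, ⟨1037, 1116, 1000⟩⟩ (tC20A.hC2m false (tC20A.pEnd true)) :=
  posD_of_check (c := ⟨467, ⟨3, 8, 16, 11⟩⟩) (by decide +kernel)

def tC20A_c3p10 : PosD ⟨⟨0, 1, 1⟩, ⟨98, 99, 147⟩, ⟨9630, 10000, 30000⟩, ⟨1037, 1116, 1000⟩⟩ (tC20A.hC3p true false) :=
  posD_of_check (c := ⟨428, ⟨3, 7, 15, 10⟩⟩) (by decide +kernel)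

def tC20A_c3m10 : PosD ⟨⟨0, 1, 1⟩, ⟨98, 99, 147⟩, ⟨9630, 10000, 30000⟩, ⟨1037, 1116, 1000⟩⟩ (tC20A.hC3m true false) :=
  posD_of_check (c := ⟨452, ⟨3, 8, 15, 11⟩⟩) (by decide +kernel)

def tC20A_tmg10 : PosD ⟨⟨0, 1, 1⟩, ⟨98, 99, 147⟩, ⟨9630, 10000, 30000⟩, ⟨1037, 1116, 1000⟩⟩ (tC20A.hTMG false (tC20A.pEnd true)) :=
  posD_of_check (c := ⟨407, ⟨2, 7, 14, 10⟩⟩) (by decide +kernel)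

def tC20A_tg11 : PosD ⟨⟨0, 1, 1⟩, ⟨98, 99, 147⟩, ⟨9630, 10000, 30000⟩, ⟨1037, 1116, 1000⟩⟩ (tC20A.hG true (tC20A.pEnd true)) :=
  posD_of_check (c := ⟨394, ⟨2, 7, 14, 9⟩⟩) (by decide +kernel)

def tC20A_c2p11 : PosD ⟨⟨0, 1, 1⟩, ⟨98, 99, 147⟩, ⟨9630, 10000, 30000⟩, ⟨1037, 1116, 1000⟩⟩ (tC20A.hC2p true (tC20A.pEnd true)) :=
  posD_of_check (c := ⟨436, ⟨2, 7, 16, 10⟩⟩) (by decide +kernel)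

def tC20A_c2m11 : PosD ⟨⟨0, 1, 1⟩, ⟨98, 99, 147⟩, ⟨9630, 10000, 30000⟩, ⟨1037, 1116, 1000⟩⟩ (tC20A.hC2m true (tC20A.pEnd true)) :=
  posD_of_check (c := ⟨467, ⟨3, 8, 16, 11⟩⟩) (by decide +kernel)

def tC20A_c3p11 : PosD ⟨⟨0, 1, 1⟩, ⟨98, 99, 147⟩, ⟨9630, 10000, 30000⟩, ⟨1037, 1116, 1000⟩⟩ (tC20A.hC3p true true) :=
  posD_of_check (c := ⟨428, ⟨3, 7, 15, 10⟩⟩) (by decide +kernel)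

def tC20A_c3m11 : PosD ⟨⟨0, 1, 1⟩, ⟨98, 99, 147⟩, ⟨9630, 10000, 30000⟩, ⟨1037, 1116, 1000⟩⟩ (tC20A.hC3m true true) :=
  posD_of_check (c := ⟨452, ⟨3, 8, 15, 11⟩⟩) (by decide +kernel)

def tC20A_tmg11 : PosD ⟨⟨0, 1, 1⟩, ⟨98, 99, 147⟩, ⟨9630, 10000, 30000⟩, ⟨1037, 1116, 1000⟩⟩ (tC20A.hTMG true (tC20A.pEnd true)) :=
  posD_of_check (c := ⟨407, ⟨2, 7, 14, 10⟩⟩) (by decide +kernel)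

/-- The signs of the piece. -/
def tC20A_sign : tC20A.Sign ⟨⟨0, 1, 1⟩, ⟨98, 99, 147⟩, ⟨9630, 10000, 30000⟩, ⟨1037, 1116, 1000⟩⟩ :=
  ⟨tC20A_pp,
    tC20A_k2p,
    tC20A_k2m,
    Bool.forall_bool.2 ⟨(Bool.forall_bool.2 ⟨tC20A_tg00, tC20A_tg01⟩), (Bool.forall_bool.2 ⟨tC20A_tg10, tC20A_tg11⟩)⟩,
    Bool.forall_bool.2 ⟨(Bool.forall_bool.2 ⟨tC20A_c2p00, tC20A_c2p01⟩), (Bool.forall_bool.2 ⟨tC20A_c2p10, tC20A_c2p11⟩)⟩,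
    Bool.forall_bool.2 ⟨(Bool.forall_bool.2 ⟨tC20A_c2m00, tC20A_c2m01⟩), (Bool.forall_bool.2 ⟨tC20A_c2m10, tC20A_c2m11⟩)⟩,
    Bool.forall_bool.2 ⟨tC20A_kap0, tC20A_kap1⟩,
    Bool.forall_bool.2 ⟨tC20A_c10, tC20A_c11⟩,
    Bool.forall_bool.2 ⟨(Bool.forall_bool.2 ⟨tC20A_c3p00, tC20A_c3p01⟩), (Bool.forall_bool.2 ⟨tC20A_c3p10, tC20A_c3p11⟩)⟩,
    Bool.forall_bool.2 ⟨(Bool.forall_bool.2 ⟨tC20A_c3m00, tC20A_c3m01⟩), (Bool.forall_bool.2 ⟨tC20A_c3m10, tC20A_c3m11⟩)⟩,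
    Bool.forall_bool.2 ⟨(Bool.forall_bool.2 ⟨tC20A_tmg00, tC20A_tmg01⟩), (Bool.forall_bool.2 ⟨tC20A_tmg10, tC20A_tmg11⟩)⟩,
    .inl (Bool.forall_bool.2 ⟨⟨tC20A_neg0, tC20A_neglo0⟩, ⟨tC20A_neg1, tC20A_neglo1⟩⟩),
    tC20A_v2p,
    tC20A_v2m,
    tC20A_v3p,
    tC20A_v3m,
    posD_sub (b := ⟨⟨0, 1, 1⟩, ⟨98, 99, 147⟩, ⟨4050, 10000, 30000⟩, ⟨290, 4000, 1000⟩⟩) (by decide +kernel) tC_vG,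
    posD_sub (b := ⟨⟨0, 1, 1⟩, ⟨98, 99, 147⟩, ⟨4050, 10000, 30000⟩, ⟨290, 4000, 1000⟩⟩) (by decide +kernel) tC_vMG,
    posD_sub (b := ⟨⟨0, 1, 1⟩, ⟨98, 99, 147⟩, ⟨4050, 10000, 30000⟩, ⟨290, 4000, 1000⟩⟩) (by decide +kernel) tC_ak,
    posD_sub (b := ⟨⟨0, 1, 1⟩, ⟨98, 99, 147⟩, ⟨4050, 10000, 30000⟩, ⟨290, 4000, 1000⟩⟩) (by decide +kernel) tC_aw,
    posD_sub (b := ⟨⟨0, 1, 1⟩, ⟨98, 99, 147⟩, ⟨4050, 10000, 30000⟩, ⟨290, 4000, 1000⟩⟩) (by decide +kernel) tC_gk,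
    posD_sub (b := ⟨⟨0, 1, 1⟩, ⟨98, 99, 147⟩, ⟨4050, 10000, 30000⟩, ⟨290, 4000, 1000⟩⟩) (by decide +kernel) tC_gw,
    posD_sub (b := ⟨⟨0, 1, 1⟩, ⟨98, 99, 147⟩, ⟨4050, 10000, 30000⟩, ⟨290, 4000, 1000⟩⟩) (by decide +kernel) tC_ek,
    posD_sub (b := ⟨⟨0, 1, 1⟩, ⟨98, 99, 147⟩, ⟨4050, 10000, 30000⟩, ⟨290, 4000, 1000⟩⟩) (by decide +kernel) tC_ew⟩

def tC20B_pp : PosD ⟨⟨0, 1, 1⟩, ⟨98, 99, 147⟩, ⟨9630, 10000, 30000⟩, ⟨1037, 1116, 1000⟩⟩ (tC20B.xPL) :=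
  posD_of_check (c := ⟨95, ⟨1, 1, 3, 3⟩⟩) (by decide +kernel)

def tC20B_k2p : PosD ⟨⟨0, 1, 1⟩, ⟨98, 99, 147⟩, ⟨9630, 10000, 30000⟩, ⟨1037, 1116, 1000⟩⟩ (tC20B.k2p tC20B.xE) :=
  posD_of_check (c := ⟨6, ⟨0, 0, 0, 0⟩⟩) (by decide +kernel)

def tC20B_k2m : PosD ⟨⟨0, 1, 1⟩, ⟨98, 99, 147⟩, ⟨9630, 10000, 30000⟩, ⟨1037, 1116, 1000⟩⟩ (tC20B.k2m tC20B.xE) :=
  posD_of_check (c := ⟨74, ⟨1, 1, 2, 2⟩⟩) (by decide +kernel)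

def tC20B_v2p : PosD ⟨⟨0, 1, 1⟩, ⟨98, 99, 147⟩, ⟨9630, 10000, 30000⟩, ⟨1037, 1116, 1000⟩⟩ (tC20B.hV2p) :=
  posD_of_check (c := ⟨244, ⟨0, 5, 10, 4⟩⟩) (by decide +kernel)

def tC20B_v2m : PosD ⟨⟨0, 1, 1⟩, ⟨98, 99, 147⟩, ⟨9630, 10000, 30000⟩, ⟨1037, 1116, 1000⟩⟩ (tC20B.hV2m) :=
  posD_of_check (c := ⟨276, ⟨1, 6, 10, 5⟩⟩) (by decide +kernel)

def tC20B_v3p : PosD ⟨⟨0, 1, 1⟩, ⟨98, 99, 147⟩, ⟨9630, 10000, 30000⟩, ⟨1037, 1116, 1000⟩⟩ (tC20B.hV3p) :=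
  posD_of_check (c := ⟨232, ⟨0, 5, 9, 4⟩⟩) (by decide +kernel)

def tC20B_v3m : PosD ⟨⟨0, 1, 1⟩, ⟨98, 99, 147⟩, ⟨9630, 10000, 30000⟩, ⟨1037, 1116, 1000⟩⟩ (tC20B.hV3m) :=
  posD_of_check (c := ⟨260, ⟨1, 6, 9, 5⟩⟩) (by decide +kernel)

def tC20B_kap0 : PosD ⟨⟨0, 1, 1⟩, ⟨98, 99, 147⟩, ⟨9630, 10000, 30000⟩, ⟨1037, 1116, 1000⟩⟩ (tC20B.kap false) :=
  posD_of_check (c := ⟨69, ⟨1, 1, 2, 2⟩⟩) (by decide +kernel)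

def tC20B_c10 : PosD ⟨⟨0, 1, 1⟩, ⟨98, 99, 147⟩, ⟨9630, 10000, 30000⟩, ⟨1037, 1116, 1000⟩⟩ (tC20B.hC1 false) :=
  posD_of_check (c := ⟨274, ⟨3, 5, 9, 7⟩⟩) (by decide +kernel)

def tC20B_c1h0 : PosD ⟨⟨0, 1, 1⟩, ⟨98, 99, 147⟩, ⟨9630, 10000, 30000⟩, ⟨1037, 1116, 1000⟩⟩ (tC20B.hC1' false) :=
  posD_of_check (c := ⟨274, ⟨3, 5, 9, 7⟩⟩) (by decide +kernel)

def tC20B_tg00 : PosD ⟨⟨0, 1, 1⟩, ⟨98, 99, 147⟩, ⟨9630, 10000, 30000⟩, ⟨1037, 1116, 1000⟩⟩ (tC20B.hG false (tC20B.pEnd false)) :=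
  posD_of_check (c := ⟨388, ⟨2, 7, 14, 9⟩⟩) (by decide +kernel)

def tC20B_c2p00 : PosD ⟨⟨0, 1, 1⟩, ⟨98, 99, 147⟩, ⟨9630, 10000, 30000⟩, ⟨1037, 1116, 1000⟩⟩ (tC20B.hC2p false (tC20B.pEnd false)) :=
  posD_of_check (c := ⟨430, ⟨2, 7, 16, 10⟩⟩) (by decide +kernel)

def tC20B_c2m00 : PosD ⟨⟨0, 1, 1⟩, ⟨98, 99, 147⟩, ⟨9630, 10000, 30000⟩, ⟨1037, 1116, 1000⟩⟩ (tC20B.hC2m false (tC20B.pEnd false)) :=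
  posD_of_check (c := ⟨461, ⟨3, 8, 16, 11⟩⟩) (by decide +kernel)

def tC20B_c3p00 : PosD ⟨⟨0, 1, 1⟩, ⟨98, 99, 147⟩, ⟨9630, 10000, 30000⟩, ⟨1037, 1116, 1000⟩⟩ (tC20B.hC3p false false) :=
  posD_of_check (c := ⟨421, ⟨3, 7, 15, 10⟩⟩) (by decide +kernel)

def tC20B_c3m00 : PosD ⟨⟨0, 1, 1⟩, ⟨98, 99, 147⟩, ⟨9630, 10000, 30000⟩, ⟨1037, 1116, 1000⟩⟩ (tC20B.hC3m false false) :=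
  posD_of_check (c := ⟨447, ⟨3, 8, 15, 11⟩⟩) (by decide +kernel)

def tC20B_c3ph00 : PosD ⟨⟨0, 1, 1⟩, ⟨98, 99, 147⟩, ⟨9630, 10000, 30000⟩, ⟨1037, 1116, 1000⟩⟩ (tC20B.hC3p' false false) :=
  posD_of_check (c := ⟨421, ⟨3, 7, 15, 10⟩⟩) (by decide +kernel)

def tC20B_c3mh00 : PosD ⟨⟨0, 1, 1⟩, ⟨98, 99, 147⟩, ⟨9630, 10000, 30000⟩, ⟨1037, 1116, 1000⟩⟩ (tC20B.hC3m' false false) :=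
  posD_of_check (c := ⟨447, ⟨3, 8, 15, 11⟩⟩) (by decide +kernel)

def tC20B_up00 : PosD ⟨⟨0, 1, 1⟩, ⟨98, 99, 147⟩, ⟨9630, 10000, 30000⟩, ⟨1037, 1116, 1000⟩⟩ (tC20B.hUp false false) :=
  posD_of_check (c := ⟨419, ⟨2, 7, 15, 10⟩⟩) (by decide +kernel)

def tC20B_um00 : PosD ⟨⟨0, 1, 1⟩, ⟨98, 99, 147⟩, ⟨9630, 10000, 30000⟩, ⟨1037, 1116, 1000⟩⟩ (tC20B.hUm false false) :=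
  posD_of_check (c := ⟨447, ⟨3, 8, 15, 11⟩⟩) (by decide +kernel)

def tC20B_tmg00 : PosD ⟨⟨0, 1, 1⟩, ⟨98, 99, 147⟩, ⟨9630, 10000, 30000⟩, ⟨1037, 1116, 1000⟩⟩ (tC20B.hTMG false (tC20B.pEnd false)) :=
  posD_of_check (c := ⟨402, ⟨2, 7, 14, 10⟩⟩) (by decide +kernel)

def tC20B_tg01 : PosD ⟨⟨0, 1, 1⟩, ⟨98, 99, 147⟩, ⟨9630, 10000, 30000⟩, ⟨1037, 1116, 1000⟩⟩ (tC20B.hG true (tC20B.pEnd false)) :=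
  posD_of_check (c := ⟨388, ⟨2, 7, 14, 9⟩⟩) (by decide +kernel)

def tC20B_c2p01 : PosD ⟨⟨0, 1, 1⟩, ⟨98, 99, 147⟩, ⟨9630, 10000, 30000⟩, ⟨1037, 1116, 1000⟩⟩ (tC20B.hC2p true (tC20B.pEnd false)) :=
  posD_of_check (c := ⟨431, ⟨2, 7, 16, 10⟩⟩) (by decide +kernel)

def tC20B_c2m01 : PosD ⟨⟨0, 1, 1⟩, ⟨98, 99, 147⟩, ⟨9630, 10000, 30000⟩, ⟨1037, 1116, 1000⟩⟩ (tC20B.hC2m true (tC20B.pEnd false)) :=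
  posD_of_check (c := ⟨462, ⟨3, 8, 16, 11⟩⟩) (by decide +kernel)

def tC20B_c3p01 : PosD ⟨⟨0, 1, 1⟩, ⟨98, 99, 147⟩, ⟨9630, 10000, 30000⟩, ⟨1037, 1116, 1000⟩⟩ (tC20B.hC3p false true) :=
  posD_of_check (c := ⟨421, ⟨3, 7, 15, 10⟩⟩) (by decide +kernel)

def tC20B_c3m01 : PosD ⟨⟨0, 1, 1⟩, ⟨98, 99, 147⟩, ⟨9630, 10000, 30000⟩, ⟨1037, 1116, 1000⟩⟩ (tC20B.hC3m false true) :=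
  posD_of_check (c := ⟨447, ⟨3, 8, 15, 11⟩⟩) (by decide +kernel)

def tC20B_c3ph01 : PosD ⟨⟨0, 1, 1⟩, ⟨98, 99, 147⟩, ⟨9630, 10000, 30000⟩, ⟨1037, 1116, 1000⟩⟩ (tC20B.hC3p' false true) :=
  posD_of_check (c := ⟨421, ⟨3, 7, 15, 10⟩⟩) (by decide +kernel)

def tC20B_c3mh01 : PosD ⟨⟨0, 1, 1⟩, ⟨98, 99, 147⟩, ⟨9630, 10000, 30000⟩, ⟨1037, 1116, 1000⟩⟩ (tC20B.hC3m' false true) :=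
  posD_of_check (c := ⟨447, ⟨3, 8, 15, 11⟩⟩) (by decide +kernel)

def tC20B_up01 : PosD ⟨⟨0, 1, 1⟩, ⟨98, 99, 147⟩, ⟨9630, 10000, 30000⟩, ⟨1037, 1116, 1000⟩⟩ (tC20B.hUp false true) :=
  posD_of_check (c := ⟨419, ⟨2, 7, 15, 10⟩⟩) (by decide +kernel)

def tC20B_um01 : PosD ⟨⟨0, 1, 1⟩, ⟨98, 99, 147⟩, ⟨9630, 10000, 30000⟩, ⟨1037, 1116, 1000⟩⟩ (tC20B.hUm false true) :=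
  posD_of_check (c := ⟨447, ⟨3, 8, 15, 11⟩⟩) (by decide +kernel)

def tC20B_tmg01 : PosD ⟨⟨0, 1, 1⟩, ⟨98, 99, 147⟩, ⟨9630, 10000, 30000⟩, ⟨1037, 1116, 1000⟩⟩ (tC20B.hTMG true (tC20B.pEnd false)) :=
  posD_of_check (c := ⟨402, ⟨2, 7, 14, 10⟩⟩) (by decide +kernel)

def tC20B_kap1 : PosD ⟨⟨0, 1, 1⟩, ⟨98, 99, 147⟩, ⟨9630, 10000, 30000⟩, ⟨1037, 1116, 1000⟩⟩ (tC20B.kap true) :=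
  posD_of_check (c := ⟨70, ⟨1, 1, 2, 2⟩⟩) (by decide +kernel)

def tC20B_c11 : PosD ⟨⟨0, 1, 1⟩, ⟨98, 99, 147⟩, ⟨9630, 10000, 30000⟩, ⟨1037, 1116, 1000⟩⟩ (tC20B.hC1 true) :=
  posD_of_check (c := ⟨274, ⟨3, 5, 9, 7⟩⟩) (by decide +kernel)

def tC20B_c1h1 : PosD ⟨⟨0, 1, 1⟩, ⟨98, 99, 147⟩, ⟨9630, 10000, 30000⟩, ⟨1037, 1116, 1000⟩⟩ (tC20B.hC1' true) :=
  posD_of_check (c := ⟨274, ⟨3, 5, 9, 7⟩⟩) (by decide +kernel)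

def tC20B_tg10 : PosD ⟨⟨0, 1, 1⟩, ⟨98, 99, 147⟩, ⟨9630, 10000, 30000⟩, ⟨1037, 1116, 1000⟩⟩ (tC20B.hG false (tC20B.pEnd true)) :=
  posD_of_check (c := ⟨387, ⟨2, 7, 14, 9⟩⟩) (by decide +kernel)

def tC20B_c2p10 : PosD ⟨⟨0, 1, 1⟩, ⟨98, 99, 147⟩, ⟨9630, 10000, 30000⟩, ⟨1037, 1116, 1000⟩⟩ (tC20B.hC2p false (tC20B.pEnd true)) :=
  posD_of_check (c := ⟨430, ⟨2, 7, 16, 10⟩⟩) (by decide +kernel)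

def tC20B_c2m10 : PosD ⟨⟨0, 1, 1⟩, ⟨98, 99, 147⟩, ⟨9630, 10000, 30000⟩, ⟨1037, 1116, 1000⟩⟩ (tC20B.hC2m false (tC20B.pEnd true)) :=
  posD_of_check (c := ⟨461, ⟨3, 8, 16, 11⟩⟩) (by decide +kernel)

def tC20B_c3p10 : PosD ⟨⟨0, 1, 1⟩, ⟨98, 99, 147⟩, ⟨9630, 10000, 30000⟩, ⟨1037, 1116, 1000⟩⟩ (tC20B.hC3p true false) :=
  posD_of_check (c := ⟨421, ⟨3, 7, 15, 10⟩⟩) (by decide +kernel)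

def tC20B_c3m10 : PosD ⟨⟨0, 1, 1⟩, ⟨98, 99, 147⟩, ⟨9630, 10000, 30000⟩, ⟨1037, 1116, 1000⟩⟩ (tC20B.hC3m true false) :=
  posD_of_check (c := ⟨447, ⟨3, 8, 15, 11⟩⟩) (by decide +kernel)

def tC20B_c3ph10 : PosD ⟨⟨0, 1, 1⟩, ⟨98, 99, 147⟩, ⟨9630, 10000, 30000⟩, ⟨1037, 1116, 1000⟩⟩ (tC20B.hC3p' true false) :=
  posD_of_check (c := ⟨421, ⟨3, 7, 15, 10⟩⟩) (by decide +kernel)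

def tC20B_c3mh10 : PosD ⟨⟨0, 1, 1⟩, ⟨98, 99, 147⟩, ⟨9630, 10000, 30000⟩, ⟨1037, 1116, 1000⟩⟩ (tC20B.hC3m' true false) :=
  posD_of_check (c := ⟨447, ⟨3, 8, 15, 11⟩⟩) (by decide +kernel)

def tC20B_up10 : PosD ⟨⟨0, 1, 1⟩, ⟨98, 99, 147⟩, ⟨9630, 10000, 30000⟩, ⟨1037, 1116, 1000⟩⟩ (tC20B.hUp true false) :=
  posD_of_check (c := ⟨419, ⟨2, 7, 15, 10⟩⟩) (by decide +kernel)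

def tC20B_um10 : PosD ⟨⟨0, 1, 1⟩, ⟨98, 99, 147⟩, ⟨9630, 10000, 30000⟩, ⟨1037, 1116, 1000⟩⟩ (tC20B.hUm true false) :=
  posD_of_check (c := ⟨446, ⟨3, 8, 15, 11⟩⟩) (by decide +kernel)

def tC20B_tmg10 : PosD ⟨⟨0, 1, 1⟩, ⟨98, 99, 147⟩, ⟨9630, 10000, 30000⟩, ⟨1037, 1116, 1000⟩⟩ (tC20B.hTMG false (tC20B.pEnd true)) :=
  posD_of_check (c := ⟨402, ⟨2, 7, 14, 10⟩⟩) (by decide +kernel)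

def tC20B_tg11 : PosD ⟨⟨0, 1, 1⟩, ⟨98, 99, 147⟩, ⟨9630, 10000, 30000⟩, ⟨1037, 1116, 1000⟩⟩ (tC20B.hG true (tC20B.pEnd true)) :=
  posD_of_check (c := ⟨387, ⟨2, 7, 14, 9⟩⟩) (by decide +kernel)

def tC20B_c2p11 : PosD ⟨⟨0, 1, 1⟩, ⟨98, 99, 147⟩, ⟨9630, 10000, 30000⟩, ⟨1037, 1116, 1000⟩⟩ (tC20B.hC2p true (tC20B.pEnd true)) :=
  posD_of_check (c := ⟨430, ⟨2, 7, 16, 10⟩⟩) (by decide +kernel)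

def tC20B_c2m11 : PosD ⟨⟨0, 1, 1⟩, ⟨98, 99, 147⟩, ⟨9630, 10000, 30000⟩, ⟨1037, 1116, 1000⟩⟩ (tC20B.hC2m true (tC20B.pEnd true)) :=
  posD_of_check (c := ⟨461, ⟨3, 8, 16, 11⟩⟩) (by decide +kernel)

def tC20B_c3p11 : PosD ⟨⟨0, 1, 1⟩, ⟨98, 99, 147⟩, ⟨9630, 10000, 30000⟩, ⟨1037, 1116, 1000⟩⟩ (tC20B.hC3p true true) :=
  posD_of_check (c := ⟨421, ⟨3, 7, 15, 10⟩⟩) (by decide +kernel)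

def tC20B_c3m11 : PosD ⟨⟨0, 1, 1⟩, ⟨98, 99, 147⟩, ⟨9630, 10000, 30000⟩, ⟨1037, 1116, 1000⟩⟩ (tC20B.hC3m true true) :=
  posD_of_check (c := ⟨447, ⟨3, 8, 15, 11⟩⟩) (by decide +kernel)

def tC20B_c3ph11 : PosD ⟨⟨0, 1, 1⟩, ⟨98, 99, 147⟩, ⟨9630, 10000, 30000⟩, ⟨1037, 1116, 1000⟩⟩ (tC20B.hC3p' true true) :=
  posD_of_check (c := ⟨421, ⟨3, 7, 15, 10⟩⟩) (by decide +kernel)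

def tC20B_c3mh11 : PosD ⟨⟨0, 1, 1⟩, ⟨98, 99, 147⟩, ⟨9630, 10000, 30000⟩, ⟨1037, 1116, 1000⟩⟩ (tC20B.hC3m' true true) :=
  posD_of_check (c := ⟨447, ⟨3, 8, 15, 11⟩⟩) (by decide +kernel)

def tC20B_up11 : PosD ⟨⟨0, 1, 1⟩, ⟨98, 99, 147⟩, ⟨9630, 10000, 30000⟩, ⟨1037, 1116, 1000⟩⟩ (tC20B.hUp true true) :=
  posD_of_check (c := ⟨419, ⟨2, 7, 15, 10⟩⟩) (by decide +kernel)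

def tC20B_um11 : PosD ⟨⟨0, 1, 1⟩, ⟨98, 99, 147⟩, ⟨9630, 10000, 30000⟩, ⟨1037, 1116, 1000⟩⟩ (tC20B.hUm true true) :=
  posD_of_check (c := ⟨446, ⟨3, 8, 15, 11⟩⟩) (by decide +kernel)

def tC20B_tmg11 : PosD ⟨⟨0, 1, 1⟩, ⟨98, 99, 147⟩, ⟨9630, 10000, 30000⟩, ⟨1037, 1116, 1000⟩⟩ (tC20B.hTMG true (tC20B.pEnd true)) :=
  posD_of_check (c := ⟨402, ⟨2, 7, 14, 10⟩⟩) (by decide +kernel)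

/-- The signs of the piece. -/
def tC20B_sign : tC20B.Sign ⟨⟨0, 1, 1⟩, ⟨98, 99, 147⟩, ⟨9630, 10000, 30000⟩, ⟨1037, 1116, 1000⟩⟩ :=
  ⟨tC20B_pp,
    tC20B_k2p,
    tC20B_k2m,
    Bool.forall_bool.2 ⟨(Bool.forall_bool.2 ⟨tC20B_tg00, tC20B_tg01⟩), (Bool.forall_bool.2 ⟨tC20B_tg10, tC20B_tg11⟩)⟩,
    Bool.forall_bool.2 ⟨(Bool.forall_bool.2 ⟨tC20B_c2p00, tC20B_c2p01⟩), (Bool.forall_bool.2 ⟨tC20B_c2p10, tC20B_c2p11⟩)⟩,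
    Bool.forall_bool.2 ⟨(Bool.forall_bool.2 ⟨tC20B_c2m00, tC20B_c2m01⟩), (Bool.forall_bool.2 ⟨tC20B_c2m10, tC20B_c2m11⟩)⟩,
    Bool.forall_bool.2 ⟨tC20B_kap0, tC20B_kap1⟩,
    Bool.forall_bool.2 ⟨tC20B_c10, tC20B_c11⟩,
    Bool.forall_bool.2 ⟨(Bool.forall_bool.2 ⟨tC20B_c3p00, tC20B_c3p01⟩), (Bool.forall_bool.2 ⟨tC20B_c3p10, tC20B_c3p11⟩)⟩,
    Bool.forall_bool.2 ⟨(Bool.forall_bool.2 ⟨tC20B_c3m00, tC20B_c3m01⟩), (Bool.forall_bool.2 ⟨tC20B_c3m10, tC20B_c3m11⟩)⟩,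
    Bool.forall_bool.2 ⟨(Bool.forall_bool.2 ⟨tC20B_tmg00, tC20B_tmg01⟩), (Bool.forall_bool.2 ⟨tC20B_tmg10, tC20B_tmg11⟩)⟩,
    .inr (Bool.forall_bool.2 ⟨⟨tC20B_c1h0, Bool.forall_bool.2 ⟨⟨tC20B_c3ph00, tC20B_c3mh00, tC20B_up00, tC20B_um00⟩, ⟨tC20B_c3ph01, tC20B_c3mh01, tC20B_up01, tC20B_um01⟩⟩⟩, ⟨tC20B_c1h1, Bool.forall_bool.2 ⟨⟨tC20B_c3ph10, tC20B_c3mh10, tC20B_up10, tC20B_um10⟩, ⟨tC20B_c3ph11, tC20B_c3mh11, tC20B_up11, tC20B_um11⟩⟩⟩⟩),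
    tC20B_v2p,
    tC20B_v2m,
    tC20B_v3p,
    tC20B_v3m,
    posD_sub (b := ⟨⟨0, 1, 1⟩, ⟨98, 99, 147⟩, ⟨4050, 10000, 30000⟩, ⟨290, 4000, 1000⟩⟩) (by decide +kernel) tC_vG,
    posD_sub (b := ⟨⟨0, 1, 1⟩, ⟨98, 99, 147⟩, ⟨4050, 10000, 30000⟩, ⟨290, 4000, 1000⟩⟩) (by decide +kernel) tC_vMG,
    posD_sub (b := ⟨⟨0, 1, 1⟩, ⟨98, 99, 147⟩, ⟨4050, 10000, 30000⟩, ⟨290, 4000, 1000⟩⟩) (by decide +kernel) tC_ak,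
    posD_sub (b := ⟨⟨0, 1, 1⟩, ⟨98, 99, 147⟩, ⟨4050, 10000, 30000⟩, ⟨290, 4000, 1000⟩⟩) (by decide +kernel) tC_aw,
    posD_sub (b := ⟨⟨0, 1, 1⟩, ⟨98, 99, 147⟩, ⟨4050, 10000, 30000⟩, ⟨290, 4000, 1000⟩⟩) (by decide +kernel) tC_gk,
    posD_sub (b := ⟨⟨0, 1, 1⟩, ⟨98, 99, 147⟩, ⟨4050, 10000, 30000⟩, ⟨290, 4000, 1000⟩⟩) (by decide +kernel) tC_gw,
    posD_sub (b := ⟨⟨0, 1, 1⟩, ⟨98, 99, 147⟩, ⟨4050, 10000, 30000⟩, ⟨290, 4000, 1000⟩⟩) (by decide +kernel) tC_ek,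
    posD_sub (b := ⟨⟨0, 1, 1⟩, ⟨98, 99, 147⟩, ⟨4050, 10000, 30000⟩, ⟨290, 4000, 1000⟩⟩) (by decide +kernel) tC_ew⟩

def tC21_phx : PosD ⟨⟨0, 1, 1⟩, ⟨98, 99, 147⟩, ⟨9630, 10000, 30000⟩, ⟨1116, 1200, 1000⟩⟩ (phCn (tC21Hi + xO * (tC21Lo - tC21Hi))) :=
  posD_of_check (c := ⟨71, ⟨2, 0, 2, 1⟩⟩) (by decide +kernel)

def tC21_phd : PosD ⟨⟨0, 1, 1⟩, ⟨98, 99, 147⟩, ⟨9630, 10000, 30000⟩, ⟨1116, 1200, 1000⟩⟩ (phCd (tC21Hi + xO * (tC21Lo - tC21Hi))) :=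
  posD_of_check (c := ⟨50, ⟨1, 0, 2, 0⟩⟩) (by decide +kernel)

end Vale.Agent.P100.Calib.Closed.Six.Tail
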