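import Vale.Agent.P100.Calib.SlabSixTailDataC
import Vale.Agent.P100.Calib.SlabSixTailGlobC

/-!
# Checks of some pieces of the certificate

The checks are written as definitions so that they run one after another, which keeps the memory of the
kernel low.
-/

set_option linter.defProp false

namespace Vale.Agent.P100.Calib.Closed.Six.Tail

open BoxPos Large

local instance sixTailCheckstC12Add : Add Ex := ⟨Ex.add⟩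
local instance sixTailCheckstC12Sub : Sub Ex := ⟨Ex.sub⟩
local instance sixTailCheckstC12Mul : Mul Ex := ⟨Ex.mul⟩

def tC23_p0 : PosD ⟨⟨0, 1, 1⟩, ⟨98, 99, 147⟩, ⟨9630, 10000, 30000⟩, ⟨1116, 1200, 1000⟩⟩ (tC23.hP0) :=
  posD_of_check (c := ⟨83, ⟨0, 2, 3, 1⟩⟩) (by decide +kernel)

def tC23_gn : PosD ⟨⟨0, 1, 1⟩, ⟨98, 99, 147⟩, ⟨9630, 10000, 30000⟩, ⟨1116, 1200, 1000⟩⟩ (tC23.hGn) :=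
  posD_of_check (c := ⟨57, ⟨1, 1, 2, 1⟩⟩) (by decide +kernel)

def tC23_den0 : PosD ⟨⟨0, 1, 1⟩, ⟨98, 99, 147⟩, ⟨9630, 10000, 30000⟩, ⟨1116, 1200, 1000⟩⟩ (tC23.hDen false) :=
  posD_of_check (c := ⟨50, ⟨1, 0, 2, 0⟩⟩) (by decide +kernel)

def tC23_den1 : PosD ⟨⟨0, 1, 1⟩, ⟨98, 99, 147⟩, ⟨9630, 10000, 30000⟩, ⟨1116, 1200, 1000⟩⟩ (tC23.hDen true) :=
  posD_of_check (c := ⟨50, ⟨1, 0, 2, 0⟩⟩) (by decide +kernel)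

def tC23_ev0 : PosD ⟨⟨0, 1, 1⟩, ⟨98, 99, 147⟩, ⟨9630, 10000, 30000⟩, ⟨1116, 1200, 1000⟩⟩ (tC23.hEv false) :=
  posD_of_check (c := ⟨143, ⟨4, 2, 4, 1⟩⟩) (by decide +kernel)

def tC23_zL0 : PosD ⟨⟨0, 1, 1⟩, ⟨98, 99, 147⟩, ⟨9630, 10000, 30000⟩, ⟨1116, 1200, 1000⟩⟩ (tC23.hZL false) :=
  posD_of_check (c := ⟨178, ⟨4, 3, 6, 3⟩⟩) (by decide +kernel)

def tC23_zU0 : PosD ⟨⟨0, 1, 1⟩, ⟨98, 99, 147⟩, ⟨9630, 10000, 30000⟩, ⟨1116, 1200, 1000⟩⟩ (tC23.hZU false) :=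
  posD_of_check (c := ⟨178, ⟨4, 3, 6, 3⟩⟩) (by decide +kernel)

def tC23_eL0 : PosD ⟨⟨0, 1, 1⟩, ⟨98, 99, 147⟩, ⟨9630, 10000, 30000⟩, ⟨1116, 1200, 1000⟩⟩ (tC23.hEL false) :=
  posD_of_check (c := ⟨238, ⟨5, 6, 7, 3⟩⟩) (by decide +kernel)

def tC23_eH0 : PosD ⟨⟨0, 1, 1⟩, ⟨98, 99, 147⟩, ⟨9630, 10000, 30000⟩, ⟨1116, 1200, 1000⟩⟩ (tC23.hEH false) :=
  posD_of_check (c := ⟨238, ⟨5, 6, 7, 3⟩⟩) (by decide +kernel)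

def tC23_pL0 : PosD ⟨⟨0, 1, 1⟩, ⟨98, 99, 147⟩, ⟨9630, 10000, 30000⟩, ⟨1116, 1200, 1000⟩⟩ (tC23.hPL false) :=
  posD_of_check (c := ⟨252, ⟨5, 6, 7, 2⟩⟩) (by decide +kernel)

def tC23_pU0 : PosD ⟨⟨0, 1, 1⟩, ⟨98, 99, 147⟩, ⟨9630, 10000, 30000⟩, ⟨1116, 1200, 1000⟩⟩ (tC23.hPU false) :=
  posD_of_check (c := ⟨254, ⟨5, 6, 7, 3⟩⟩) (by decide +kernel)

def tC23_kU0a : PosD ⟨⟨0, 1, 1⟩, ⟨98, 99, 147⟩, ⟨9630, 10000, 30000⟩, ⟨1116, 1158, 1000⟩⟩ (tC23.hKU false) :=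
  posD_of_check (c := ⟨251, ⟨5, 6, 7, 3⟩⟩) (by decide +kernel)

def tC23_kU0b : PosD ⟨⟨0, 1, 1⟩, ⟨98, 99, 147⟩, ⟨9630, 10000, 30000⟩, ⟨1158, 1200, 1000⟩⟩ (tC23.hKU false) :=
  posD_of_check (c := ⟨251, ⟨5, 6, 7, 3⟩⟩) (by decide +kernel)

def tC23_kU0 : PosD ⟨⟨0, 1, 1⟩, ⟨98, 99, 147⟩, ⟨9630, 10000, 30000⟩, ⟨1116, 1200, 1000⟩⟩ (tC23.hKU false) :=
  posD_join₃ tC23_kU0a tC23_kU0b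

def tC23_kL0 : PosD ⟨⟨0, 1, 1⟩, ⟨98, 99, 147⟩, ⟨9630, 10000, 30000⟩, ⟨1116, 1200, 1000⟩⟩ (tC23.hKL false) :=
  posD_of_check (c := ⟨250, ⟨5, 6, 7, 3⟩⟩) (by decide +kernel)

def tC23_wU0 : PosD ⟨⟨0, 1, 1⟩, ⟨98, 99, 147⟩, ⟨9630, 10000, 30000⟩, ⟨1116, 1200, 1000⟩⟩ (tC23.hWU false) :=
  posD_of_check (c := ⟨284, ⟨5, 8, 8, 3⟩⟩) (by decide +kernel)

def tC23_wL0 : PosD ⟨⟨0, 1, 1⟩, ⟨98, 99, 147⟩, ⟨9630, 10000, 30000⟩, ⟨1116, 1200, 1000⟩⟩ (tC23.hWL false) :=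
  posD_of_check (c := ⟨284, ⟨5, 8, 8, 3⟩⟩) (by decide +kernel)

def tC23_ev1 : PosD ⟨⟨0, 1, 1⟩, ⟨98, 99, 147⟩, ⟨9630, 10000, 30000⟩, ⟨1116, 1200, 1000⟩⟩ (tC23.hEv true) :=
  posD_of_check (c := ⟨144, ⟨4, 2, 4, 1⟩⟩) (by decide +kernel)

def tC23_zL1 : PosD ⟨⟨0, 1, 1⟩, ⟨98, 99, 147⟩, ⟨9630, 10000, 30000⟩, ⟨1116, 1200, 1000⟩⟩ (tC23.hZL true) :=
  posD_of_check (c := ⟨176, ⟨4, 3, 6, 3⟩⟩) (by decide +kernel)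

def tC23_zU1 : PosD ⟨⟨0, 1, 1⟩, ⟨98, 99, 147⟩, ⟨9630, 10000, 30000⟩, ⟨1116, 1200, 1000⟩⟩ (tC23.hZU true) :=
  posD_of_check (c := ⟨176, ⟨4, 3, 6, 3⟩⟩) (by decide +kernel)

def tC23_eL1 : PosD ⟨⟨0, 1, 1⟩, ⟨98, 99, 147⟩, ⟨9630, 10000, 30000⟩, ⟨1116, 1200, 1000⟩⟩ (tC23.hEL true) :=
  posD_of_check (c := ⟨238, ⟨5, 6, 7, 3⟩⟩) (by decide +kernel)

def tC23_eH1 : PosD ⟨⟨0, 1, 1⟩, ⟨98, 99, 147⟩, ⟨9630, 10000, 30000⟩, ⟨1116, 1200, 1000⟩⟩ (tC23.hEH true) :=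
  posD_of_check (c := ⟨238, ⟨5, 6, 7, 3⟩⟩) (by decide +kernel)

def tC23_pL1 : PosD ⟨⟨0, 1, 1⟩, ⟨98, 99, 147⟩, ⟨9630, 10000, 30000⟩, ⟨1116, 1200, 1000⟩⟩ (tC23.hPL true) :=
  posD_of_check (c := ⟨252, ⟨5, 6, 7, 2⟩⟩) (by decide +kernel)

def tC23_pU1 : PosD ⟨⟨0, 1, 1⟩, ⟨98, 99, 147⟩, ⟨9630, 10000, 30000⟩, ⟨1116, 1200, 1000⟩⟩ (tC23.hPU true) :=
  posD_of_check (c := ⟨255, ⟨5, 6, 7, 3⟩⟩) (by decide +kernel)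

def tC23_kU1a : PosD ⟨⟨0, 1, 1⟩, ⟨98, 99, 147⟩, ⟨9630, 10000, 30000⟩, ⟨1116, 1158, 1000⟩⟩ (tC23.hKU true) :=
  posD_of_check (c := ⟨252, ⟨5, 6, 7, 3⟩⟩) (by decide +kernel)

def tC23_kU1b : PosD ⟨⟨0, 1, 1⟩, ⟨98, 99, 147⟩, ⟨9630, 10000, 30000⟩, ⟨1158, 1200, 1000⟩⟩ (tC23.hKU true) :=
  posD_of_check (c := ⟨252, ⟨5, 6, 7, 3⟩⟩) (by decide +kernel)

def tC23_kU1 : PosD ⟨⟨0, 1, 1⟩, ⟨98, 99, 147⟩, ⟨9630, 10000, 30000⟩, ⟨1116, 1200, 1000⟩⟩ (tC23.hKU true) :=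
  posD_join₃ tC23_kU1a tC23_kU1b

def tC23_kL1 : PosD ⟨⟨0, 1, 1⟩, ⟨98, 99, 147⟩, ⟨9630, 10000, 30000⟩, ⟨1116, 1200, 1000⟩⟩ (tC23.hKL true) :=
  posD_of_check (c := ⟨251, ⟨5, 6, 7, 3⟩⟩) (by decide +kernel)

def tC23_wU1 : PosD ⟨⟨0, 1, 1⟩, ⟨98, 99, 147⟩, ⟨9630, 10000, 30000⟩, ⟨1116, 1200, 1000⟩⟩ (tC23.hWU true) :=
  posD_of_relax (k₁ := 0) (k₂ := 0) (k₃ := 1) (n := 16) (posD_of_check (c := ⟨285, ⟨5, 8, 8, 3⟩⟩) (by decide +kernel))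

def tC23_wL1 : PosD ⟨⟨0, 1, 1⟩, ⟨98, 99, 147⟩, ⟨9630, 10000, 30000⟩, ⟨1116, 1200, 1000⟩⟩ (tC23.hWL true) :=
  posD_of_check (c := ⟨285, ⟨5, 8, 8, 3⟩⟩) (by decide +kernel)

def tC23_mupL : PosD ⟨⟨0, 1, 1⟩, ⟨98, 99, 147⟩, ⟨9630, 10000, 30000⟩, ⟨1116, 1200, 1000⟩⟩ (tC23.pL.μ) :=
  posD_of_check (c := ⟨16, ⟨0, 0, 0, 0⟩⟩) (by decide +kernel)

/-- The bounds of the piece. -/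
def tC23_env : tC23.Env ⟨⟨0, 1, 1⟩, ⟨98, 99, 147⟩, ⟨9630, 10000, 30000⟩, ⟨1116, 1200, 1000⟩⟩ :=
  ⟨tC23_p0, Bool.forall_bool.2 ⟨tC23_den0, tC23_den1⟩, tC23_gn, Bool.forall_bool.2 ⟨tC23_ev0, tC23_ev1⟩, Bool.forall_bool.2 ⟨tC23_zL0, tC23_zL1⟩, Bool.forall_bool.2 ⟨tC23_zU0, tC23_zU1⟩, Bool.forall_bool.2 ⟨tC23_eL0, tC23_eL1⟩, ⟨.inr rfl, .inr rfl⟩, Bool.forall_bool.2 ⟨tC23_eH0, tC23_eH1⟩, ⟨.inr rfl, .inr rfl⟩, Bool.forall_bool.2 ⟨tC23_pL0, tC23_pL1⟩, ⟨.inl tC23_mupL, .inr rfl⟩, Bool.forall_bool.2 ⟨tC23_pU0, tC23_pU1⟩, ⟨.inr rfl, .inr rfl⟩, Bool.forall_bool.2 ⟨tC23_kU0, tC23_kU1⟩, ⟨.inr rfl, .inr rfl⟩, Bool.forall_bool.2 ⟨tC23_kL0, tC23_kL1⟩, ⟨.inr rfl, .inr rfl⟩, Bool.forall_bool.2 ⟨tC23_wU0, tC23_wU1⟩, ⟨.inr rfl, .inr rfl⟩, Bool.forall_bool.2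 ⟨tC23_wL0, tC23_wL1⟩, ⟨.inr rfl, .inr rfl⟩⟩

def tC23_pU20 : PosD ⟨⟨0, 1, 1⟩, ⟨98, 99, 147⟩, ⟨9630, 10000, 30000⟩, ⟨1116, 1200, 1000⟩⟩ (({ tC23 with pU := tC23PU } : Piece).hPU false) :=
  posD_of_check (c := ⟨253, ⟨5, 6, 7, 3⟩⟩) (by decide +kernel)

def tC23_pU21 : PosD ⟨⟨0, 1, 1⟩, ⟨98, 99, 147⟩, ⟨9630, 10000, 30000⟩, ⟨1116, 1200, 1000⟩⟩ (({ tC23 with pU := tC23PU } : Piece).hPU true) :=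
  posD_of_check (c := ⟨253, ⟨5, 6, 7, 3⟩⟩) (by decide +kernel)

/-- The bounds with the other bound of `p`. -/
def tC23_envU : ({ tC23 with pU := tC23PU } : Piece).Env ⟨⟨0, 1, 1⟩, ⟨98, 99, 147⟩, ⟨9630, 10000, 30000⟩, ⟨1116, 1200, 1000⟩⟩ :=
  tC23_env.withU tC23PU (Bool.forall_bool.2 ⟨tC23_pU20, tC23_pU21⟩) ⟨.inr rfl, .inr rfl⟩

def tC23A_pp : PosD ⟨⟨0, 1, 1⟩, ⟨98, 99, 147⟩, ⟨9630, 10000, 30000⟩, ⟨1116, 1200, 1000⟩⟩ (tC23A.xPL) :=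
  posD_of_check (c := ⟨62, ⟨1, 1, 2, 2⟩⟩) (by decide +kernel)

def tC23A_k2p : PosD ⟨⟨0, 1, 1⟩, ⟨98, 99, 147⟩, ⟨9630, 10000, 30000⟩, ⟨1116, 1200, 1000⟩⟩ (tC23A.k2p tC23A.xE) :=
  posD_of_check (c := ⟨30, ⟨0, 0, 1, 1⟩⟩) (by decide +kernel)

def tC23A_k2m : PosD ⟨⟨0, 1, 1⟩, ⟨98, 99, 147⟩, ⟨9630, 10000, 30000⟩, ⟨1116, 1200, 1000⟩⟩ (tC23A.k2m tC23A.xE) :=
  posD_of_check (c := ⟨72, ⟨1, 1, 2, 2⟩⟩) (by decide +kernel)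

def tC23A_v2p : PosD ⟨⟨0, 1, 1⟩, ⟨98, 99, 147⟩, ⟨9630, 10000, 30000⟩, ⟨1116, 1200, 1000⟩⟩ (tC23A.hV2p) :=
  posD_of_check (c := ⟨244, ⟨0, 5, 10, 4⟩⟩) (by decide +kernel)

def tC23A_v2m : PosD ⟨⟨0, 1, 1⟩, ⟨98, 99, 147⟩, ⟨9630, 10000, 30000⟩, ⟨1116, 1200, 1000⟩⟩ (tC23A.hV2m) :=
  posD_of_check (c := ⟨273, ⟨1, 6, 10, 5⟩⟩) (by decide +kernel)

def tC23A_v3p : PosD ⟨⟨0, 1, 1⟩, ⟨98, 99, 147⟩, ⟨9630, 10000, 30000⟩, ⟨1116, 1200, 1000⟩⟩ (tC23A.hV3p) :=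
  posD_of_check (c := ⟨232, ⟨0, 5, 9, 4⟩⟩) (by decide +kernel)

def tC23A_v3m : PosD ⟨⟨0, 1, 1⟩, ⟨98, 99, 147⟩, ⟨9630, 10000, 30000⟩, ⟨1116, 1200, 1000⟩⟩ (tC23A.hV3m) :=
  posD_of_check (c := ⟨258, ⟨1, 6, 9, 5⟩⟩) (by decide +kernel)

def tC23A_kap0 : PosD ⟨⟨0, 1, 1⟩, ⟨98, 99, 147⟩, ⟨9630, 10000, 30000⟩, ⟨1116, 1200, 1000⟩⟩ (tC23A.kap false) :=
  posD_of_check (c := ⟨68, ⟨1, 1, 2, 2⟩⟩) (by decide +kernel)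

def tC23A_c10 : PosD ⟨⟨0, 1, 1⟩, ⟨98, 99, 147⟩, ⟨9630, 10000, 30000⟩, ⟨1116, 1200, 1000⟩⟩ (tC23A.hC1 false) :=
  posD_of_check (c := ⟨239, ⟨3, 5, 8, 6⟩⟩) (by decide +kernel)

def tC23A_c1h0 : PosD ⟨⟨0, 1, 1⟩, ⟨98, 99, 147⟩, ⟨9630, 10000, 30000⟩, ⟨1116, 1200, 1000⟩⟩ (tC23A.hC1' false) :=
  posD_of_check (c := ⟨239, ⟨3, 5, 8, 6⟩⟩) (by decide +kernel)

def tC23A_tg00 : PosD ⟨⟨0, 1, 1⟩, ⟨98, 99, 147⟩, ⟨9630, 10000, 30000⟩, ⟨1116, 1200, 1000⟩⟩ (tC23A.hG false (tC23A.pEnd false)) :=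
  posD_of_check (c := ⟨376, ⟨2, 7, 14, 9⟩⟩) (by decide +kernel)

def tC23A_c2p00 : PosD ⟨⟨0, 1, 1⟩, ⟨98, 99, 147⟩, ⟨9630, 10000, 30000⟩, ⟨1116, 1200, 1000⟩⟩ (tC23A.hC2p false (tC23A.pEnd false)) :=
  posD_of_check (c := ⟨407, ⟨2, 7, 15, 10⟩⟩) (by decide +kernel)

def tC23A_c2m00 : PosD ⟨⟨0, 1, 1⟩, ⟨98, 99, 147⟩, ⟨9630, 10000, 30000⟩, ⟨1116, 1200, 1000⟩⟩ (tC23A.hC2m false (tC23A.pEnd false)) :=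
  posD_of_check (c := ⟨447, ⟨3, 8, 16, 11⟩⟩) (by decide +kernel)

def tC23A_c3p00 : PosD ⟨⟨0, 1, 1⟩, ⟨98, 99, 147⟩, ⟨9630, 10000, 30000⟩, ⟨1116, 1200, 1000⟩⟩ (tC23A.hC3p false false) :=
  posD_of_check (c := ⟨372, ⟨3, 7, 14, 9⟩⟩) (by decide +kernel)

def tC23A_c3m00 : PosD ⟨⟨0, 1, 1⟩, ⟨98, 99, 147⟩, ⟨9630, 10000, 30000⟩, ⟨1116, 1200, 1000⟩⟩ (tC23A.hC3m false false) :=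
  posD_of_check (c := ⟨406, ⟨3, 8, 14, 10⟩⟩) (by decide +kernel)

def tC23A_c3ph00 : PosD ⟨⟨0, 1, 1⟩, ⟨98, 99, 147⟩, ⟨9630, 10000, 30000⟩, ⟨1116, 1200, 1000⟩⟩ (tC23A.hC3p' false false) :=
  posD_of_check (c := ⟨372, ⟨3, 7, 14, 9⟩⟩) (by decide +kernel)

def tC23A_c3mh00 : PosD ⟨⟨0, 1, 1⟩, ⟨98, 99, 147⟩, ⟨9630, 10000, 30000⟩, ⟨1116, 1200, 1000⟩⟩ (tC23A.hC3m' false false) :=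
  posD_of_check (c := ⟨406, ⟨3, 8, 14, 10⟩⟩) (by decide +kernel)

def tC23A_up00 : PosD ⟨⟨0, 1, 1⟩, ⟨98, 99, 147⟩, ⟨9630, 10000, 30000⟩, ⟨1116, 1200, 1000⟩⟩ (tC23A.hUp false false) :=
  posD_of_check (c := ⟨371, ⟨2, 7, 14, 9⟩⟩) (by decide +kernel)

def tC23A_um00 : PosD ⟨⟨0, 1, 1⟩, ⟨98, 99, 147⟩, ⟨9630, 10000, 30000⟩, ⟨1116, 1200, 1000⟩⟩ (tC23A.hUm false false) :=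
  posD_of_check (c := ⟨406, ⟨3, 8, 14, 10⟩⟩) (by decide +kernel)

def tC23A_tmg00 : PosD ⟨⟨0, 1, 1⟩, ⟨98, 99, 147⟩, ⟨9630, 10000, 30000⟩, ⟨1116, 1200, 1000⟩⟩ (tC23A.hTMG false (tC23A.pEnd false)) :=
  posD_of_check (c := ⟨354, ⟨2, 7, 13, 8⟩⟩) (by decide +kernel)

def tC23A_tg01 : PosD ⟨⟨0, 1, 1⟩, ⟨98, 99, 147⟩, ⟨9630, 10000, 30000⟩, ⟨1116, 1200, 1000⟩⟩ (tC23A.hG true (tC23A.pEnd false)) :=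
  posD_of_check (c := ⟨375, ⟨2, 7, 14, 9⟩⟩) (by decide +kernel)

def tC23A_c2p01 : PosD ⟨⟨0, 1, 1⟩, ⟨98, 99, 147⟩, ⟨9630, 10000, 30000⟩, ⟨1116, 1200, 1000⟩⟩ (tC23A.hC2p true (tC23A.pEnd false)) :=
  posD_of_check (c := ⟨407, ⟨2, 7, 15, 10⟩⟩) (by decide +kernel)

def tC23A_c2m01 : PosD ⟨⟨0, 1, 1⟩, ⟨98, 99, 147⟩, ⟨9630, 10000, 30000⟩, ⟨1116, 1200, 1000⟩⟩ (tC23A.hC2m true (tC23A.pEnd false)) :=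
  posD_of_check (c := ⟨447, ⟨3, 8, 16, 11⟩⟩) (by decide +kernel)

def tC23A_c3p01 : PosD ⟨⟨0, 1, 1⟩, ⟨98, 99, 147⟩, ⟨9630, 10000, 30000⟩, ⟨1116, 1200, 1000⟩⟩ (tC23A.hC3p false true) :=
  posD_of_check (c := ⟨372, ⟨3, 7, 14, 9⟩⟩) (by decide +kernel)

def tC23A_c3m01 : PosD ⟨⟨0, 1, 1⟩, ⟨98, 99, 147⟩, ⟨9630, 10000, 30000⟩, ⟨1116, 1200, 1000⟩⟩ (tC23A.hC3m false true) :=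
  posD_of_check (c := ⟨406, ⟨3, 8, 14, 10⟩⟩) (by decide +kernel)

def tC23A_c3ph01 : PosD ⟨⟨0, 1, 1⟩, ⟨98, 99, 147⟩, ⟨9630, 10000, 30000⟩, ⟨1116, 1200, 1000⟩⟩ (tC23A.hC3p' false true) :=
  posD_of_check (c := ⟨372, ⟨3, 7, 14, 9⟩⟩) (by decide +kernel)

def tC23A_c3mh01 : PosD ⟨⟨0, 1, 1⟩, ⟨98, 99, 147⟩, ⟨9630, 10000, 30000⟩, ⟨1116, 1200, 1000⟩⟩ (tC23A.hC3m' false true) :=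
  posD_of_check (c := ⟨406, ⟨3, 8, 14, 10⟩⟩) (by decide +kernel)

def tC23A_up01 : PosD ⟨⟨0, 1, 1⟩, ⟨98, 99, 147⟩, ⟨9630, 10000, 30000⟩, ⟨1116, 1200, 1000⟩⟩ (tC23A.hUp false true) :=
  posD_of_check (c := ⟨371, ⟨2, 7, 14, 9⟩⟩) (by decide +kernel)

def tC23A_um01 : PosD ⟨⟨0, 1, 1⟩, ⟨98, 99, 147⟩, ⟨9630, 10000, 30000⟩, ⟨1116, 1200, 1000⟩⟩ (tC23A.hUm false true) :=
  posD_of_check (c := ⟨406, ⟨3, 8, 14, 10⟩⟩) (by decide +kernel)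

def tC23A_tmg01 : PosD ⟨⟨0, 1, 1⟩, ⟨98, 99, 147⟩, ⟨9630, 10000, 30000⟩, ⟨1116, 1200, 1000⟩⟩ (tC23A.hTMG true (tC23A.pEnd false)) :=
  posD_of_check (c := ⟨354, ⟨2, 7, 13, 8⟩⟩) (by decide +kernel)

def tC23A_kap1 : PosD ⟨⟨0, 1, 1⟩, ⟨98, 99, 147⟩, ⟨9630, 10000, 30000⟩, ⟨1116, 1200, 1000⟩⟩ (tC23A.kap true) :=
  posD_of_check (c := ⟨71, ⟨1, 1, 2, 2⟩⟩) (by decide +kernel)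

def tC23A_c11 : PosD ⟨⟨0, 1, 1⟩, ⟨98, 99, 147⟩, ⟨9630, 10000, 30000⟩, ⟨1116, 1200, 1000⟩⟩ (tC23A.hC1 true) :=
  posD_of_check (c := ⟨273, ⟨3, 5, 9, 7⟩⟩) (by decide +kernel)

def tC23A_c1h1 : PosD ⟨⟨0, 1, 1⟩, ⟨98, 99, 147⟩, ⟨9630, 10000, 30000⟩, ⟨1116, 1200, 1000⟩⟩ (tC23A.hC1' true) :=
  posD_of_check (c := ⟨273, ⟨3, 5, 9, 7⟩⟩) (by decide +kernel)

def tC23A_tg10 : PosD ⟨⟨0, 1, 1⟩, ⟨98, 99, 147⟩, ⟨9630, 10000, 30000⟩, ⟨1116, 1200, 1000⟩⟩ (tC23A.hG false (tC23A.pEnd true)) :=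
  posD_of_check (c := ⟨389, ⟨2, 7, 14, 9⟩⟩) (by decide +kernel)

def tC23A_c2p10 : PosD ⟨⟨0, 1, 1⟩, ⟨98, 99, 147⟩, ⟨9630, 10000, 30000⟩, ⟨1116, 1200, 1000⟩⟩ (tC23A.hC2p false (tC23A.pEnd true)) :=
  posD_of_check (c := ⟨431, ⟨2, 7, 16, 10⟩⟩) (by decide +kernel)

def tC23A_c2m10 : PosD ⟨⟨0, 1, 1⟩, ⟨98, 99, 147⟩, ⟨9630, 10000, 30000⟩, ⟨1116, 1200, 1000⟩⟩ (tC23A.hC2m false (tC23A.pEnd true)) :=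
  posD_of_check (c := ⟨460, ⟨3, 8, 16, 11⟩⟩) (by decide +kernel)

def tC23A_c3p10 : PosD ⟨⟨0, 1, 1⟩, ⟨98, 99, 147⟩, ⟨9630, 10000, 30000⟩, ⟨1116, 1200, 1000⟩⟩ (tC23A.hC3p true false) :=
  posD_of_relax (k₁ := 0) (k₂ := 0) (k₃ := 1) (n := 16) (posD_of_check (c := ⟨421, ⟨3, 7, 15, 10⟩⟩) (by decide +kernel))

def tC23A_c3m10 : PosD ⟨⟨0, 1, 1⟩, ⟨98, 99, 147⟩, ⟨9630, 10000, 30000⟩, ⟨1116, 1200, 1000⟩⟩ (tC23A.hC3m true false) :=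
  posD_of_relax (k₁ := 0) (k₂ := 0) (k₃ := 1) (n := 16) (posD_of_check (c := ⟨445, ⟨3, 8, 15, 11⟩⟩) (by decide +kernel))

def tC23A_c3ph10 : PosD ⟨⟨0, 1, 1⟩, ⟨98, 99, 147⟩, ⟨9630, 10000, 30000⟩, ⟨1116, 1200, 1000⟩⟩ (tC23A.hC3p' true false) :=
  posD_of_check (c := ⟨421, ⟨3, 7, 15, 10⟩⟩) (by decide +kernel)

def tC23A_c3mh10 : PosD ⟨⟨0, 1, 1⟩, ⟨98, 99, 147⟩, ⟨9630, 10000, 30000⟩, ⟨1116, 1200, 1000⟩⟩ (tC23A.hC3m' true false) :=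
  posD_of_check (c := ⟨445, ⟨3, 8, 15, 11⟩⟩) (by decide +kernel)

def tC23A_up10 : PosD ⟨⟨0, 1, 1⟩, ⟨98, 99, 147⟩, ⟨9630, 10000, 30000⟩, ⟨1116, 1200, 1000⟩⟩ (tC23A.hUp true false) :=
  posD_of_check (c := ⟨419, ⟨2, 7, 15, 10⟩⟩) (by decide +kernel)

def tC23A_um10 : PosD ⟨⟨0, 1, 1⟩, ⟨98, 99, 147⟩, ⟨9630, 10000, 30000⟩, ⟨1116, 1200, 1000⟩⟩ (tC23A.hUm true false) :=
  posD_of_check (c := ⟨445, ⟨3, 8, 15, 11⟩⟩) (by decide +kernel)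

def tC23A_tmg10 : PosD ⟨⟨0, 1, 1⟩, ⟨98, 99, 147⟩, ⟨9630, 10000, 30000⟩, ⟨1116, 1200, 1000⟩⟩ (tC23A.hTMG false (tC23A.pEnd true)) :=
  posD_of_check (c := ⟨402, ⟨2, 7, 14, 10⟩⟩) (by decide +kernel)

def tC23A_tg11 : PosD ⟨⟨0, 1, 1⟩, ⟨98, 99, 147⟩, ⟨9630, 10000, 30000⟩, ⟨1116, 1200, 1000⟩⟩ (tC23A.hG true (tC23A.pEnd true)) :=
  posD_of_check (c := ⟨389, ⟨2, 7, 14, 9⟩⟩) (by decide +kernel)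

def tC23A_c2p11 : PosD ⟨⟨0, 1, 1⟩, ⟨98, 99, 147⟩, ⟨9630, 10000, 30000⟩, ⟨1116, 1200, 1000⟩⟩ (tC23A.hC2p true (tC23A.pEnd true)) :=
  posD_of_check (c := ⟨431, ⟨2, 7, 16, 10⟩⟩) (by decide +kernel)

def tC23A_c2m11 : PosD ⟨⟨0, 1, 1⟩, ⟨98, 99, 147⟩, ⟨9630, 10000, 30000⟩, ⟨1116, 1200, 1000⟩⟩ (tC23A.hC2m true (tC23A.pEnd true)) :=
  posD_of_check (c := ⟨460, ⟨3, 8, 16, 11⟩⟩) (by decide +kernel)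

def tC23A_c3p11 : PosD ⟨⟨0, 1, 1⟩, ⟨98, 99, 147⟩, ⟨9630, 10000, 30000⟩, ⟨1116, 1200, 1000⟩⟩ (tC23A.hC3p true true) :=
  posD_of_check (c := ⟨421, ⟨3, 7, 15, 10⟩⟩) (by decide +kernel)

def tC23A_c3m11 : PosD ⟨⟨0, 1, 1⟩, ⟨98, 99, 147⟩, ⟨9630, 10000, 30000⟩, ⟨1116, 1200, 1000⟩⟩ (tC23A.hC3m true true) :=
  posD_of_check (c := ⟨445, ⟨3, 8, 15, 11⟩⟩) (by decide +kernel)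

def tC23A_c3ph11 : PosD ⟨⟨0, 1, 1⟩, ⟨98, 99, 147⟩, ⟨9630, 10000, 30000⟩, ⟨1116, 1200, 1000⟩⟩ (tC23A.hC3p' true true) :=
  posD_of_check (c := ⟨421, ⟨3, 7, 15, 10⟩⟩) (by decide +kernel)

def tC23A_c3mh11 : PosD ⟨⟨0, 1, 1⟩, ⟨98, 99, 147⟩, ⟨9630, 10000, 30000⟩, ⟨1116, 1200, 1000⟩⟩ (tC23A.hC3m' true true) :=
  posD_of_check (c := ⟨445, ⟨3, 8, 15, 11⟩⟩) (by decide +kernel)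

def tC23A_up11 : PosD ⟨⟨0, 1, 1⟩, ⟨98, 99, 147⟩, ⟨9630, 10000, 30000⟩, ⟨1116, 1200, 1000⟩⟩ (tC23A.hUp true true) :=
  posD_of_check (c := ⟨419, ⟨2, 7, 15, 10⟩⟩) (by decide +kernel)

def tC23A_um11 : PosD ⟨⟨0, 1, 1⟩, ⟨98, 99, 147⟩, ⟨9630, 10000, 30000⟩, ⟨1116, 1200, 1000⟩⟩ (tC23A.hUm true true) :=
  posD_of_check (c := ⟨445, ⟨3, 8, 15, 11⟩⟩) (by decide +kernel)

def tC23A_tmg11 : PosD ⟨⟨0, 1, 1⟩, ⟨98, 99, 147⟩, ⟨9630, 10000, 30000⟩, ⟨1116, 1200, 1000⟩⟩ (tC23A.hTMG true (tC23A.pEnd true)) :=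
  posD_of_check (c := ⟨402, ⟨2, 7, 14, 10⟩⟩) (by decide +kernel)

/-- The signs of the piece. -/
def tC23A_sign : tC23A.Sign ⟨⟨0, 1, 1⟩, ⟨98, 99, 147⟩, ⟨9630, 10000, 30000⟩, ⟨1116, 1200, 1000⟩⟩ :=
  ⟨tC23A_pp,
    tC23A_k2p,
    tC23A_k2m,
    Bool.forall_bool.2 ⟨(Bool.forall_bool.2 ⟨tC23A_tg00, tC23A_tg01⟩), (Bool.forall_bool.2 ⟨tC23A_tg10, tC23A_tg11⟩)⟩,
    Bool.forall_bool.2 ⟨(Bool.forall_bool.2 ⟨tC23A_c2p00, tC23A_c2p01⟩), (Bool.forall_bool.2 ⟨tC23A_c2p10, tC23A_c2p11⟩)⟩,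
    Bool.forall_bool.2 ⟨(Bool.forall_bool.2 ⟨tC23A_c2m00, tC23A_c2m01⟩), (Bool.forall_bool.2 ⟨tC23A_c2m10, tC23A_c2m11⟩)⟩,
    Bool.forall_bool.2 ⟨tC23A_kap0, tC23A_kap1⟩,
    Bool.forall_bool.2 ⟨tC23A_c10, tC23A_c11⟩,
    Bool.forall_bool.2 ⟨(Bool.forall_bool.2 ⟨tC23A_c3p00, tC23A_c3p01⟩), (Bool.forall_bool.2 ⟨tC23A_c3p10, tC23A_c3p11⟩)⟩,
    Bool.forall_bool.2 ⟨(Bool.forall_bool.2 ⟨tC23A_c3m00, tC23A_c3m01⟩), (Bool.forall_bool.2 ⟨tC23A_c3m10, tC23A_c3m11⟩)⟩,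
    Bool.forall_bool.2 ⟨(Bool.forall_bool.2 ⟨tC23A_tmg00, tC23A_tmg01⟩), (Bool.forall_bool.2 ⟨tC23A_tmg10, tC23A_tmg11⟩)⟩,
    .inr (Bool.forall_bool.2 ⟨⟨tC23A_c1h0, Bool.forall_bool.2 ⟨⟨tC23A_c3ph00, tC23A_c3mh00, tC23A_up00, tC23A_um00⟩, ⟨tC23A_c3ph01, tC23A_c3mh01, tC23A_up01, tC23A_um01⟩⟩⟩, ⟨tC23A_c1h1, Bool.forall_bool.2 ⟨⟨tC23A_c3ph10, tC23A_c3mh10, tC23A_up10, tC23A_um10⟩, ⟨tC23A_c3ph11, tC23A_c3mh11, tC23A_up11, tC23A_um11⟩⟩⟩⟩),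
    tC23A_v2p,
    tC23A_v2m,
    tC23A_v3p,
    tC23A_v3m,
    posD_sub (b := ⟨⟨0, 1, 1⟩, ⟨98, 99, 147⟩, ⟨4050, 10000, 30000⟩, ⟨290, 4000, 1000⟩⟩) (by decide +kernel) tC_vG,
    posD_sub (b := ⟨⟨0, 1, 1⟩, ⟨98, 99, 147⟩, ⟨4050, 10000, 30000⟩, ⟨290, 4000, 1000⟩⟩) (by decide +kernel) tC_vMG,
    posD_sub (b := ⟨⟨0, 1, 1⟩, ⟨98, 99, 147⟩, ⟨4050, 10000, 30000⟩, ⟨290, 4000, 1000⟩⟩) (by decide +kernel) tC_ak,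
    posD_sub (b := ⟨⟨0, 1, 1⟩, ⟨98, 99, 147⟩, ⟨4050, 10000, 30000⟩, ⟨290, 4000, 1000⟩⟩) (by decide +kernel) tC_aw,
    posD_sub (b := ⟨⟨0, 1, 1⟩, ⟨98, 99, 147⟩, ⟨4050, 10000, 30000⟩, ⟨290, 4000, 1000⟩⟩) (by decide +kernel) tC_gk,
    posD_sub (b := ⟨⟨0, 1, 1⟩, ⟨98, 99, 147⟩, ⟨4050, 10000, 30000⟩, ⟨290, 4000, 1000⟩⟩) (by decide +kernel) tC_gw,
    posD_sub (b := ⟨⟨0, 1, 1⟩, ⟨98, 99, 147⟩, ⟨4050, 10000, 30000⟩, ⟨290, 4000, 1000⟩⟩) (by decide +kernel) tC_ek,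
    posD_sub (b := ⟨⟨0, 1, 1⟩, ⟨98, 99, 147⟩, ⟨4050, 10000, 30000⟩, ⟨290, 4000, 1000⟩⟩) (by decide +kernel) tC_ew⟩

def tC23B_pp : PosD ⟨⟨0, 1, 1⟩, ⟨98, 99, 147⟩, ⟨9630, 10000, 30000⟩, ⟨1116, 1200, 1000⟩⟩ (tC23B.xPL) :=
  posD_of_check (c := ⟨62, ⟨1, 1, 2, 2⟩⟩) (by decide +kernel)

def tC23B_k2p : PosD ⟨⟨0, 1, 1⟩, ⟨98, 99, 147⟩, ⟨9630, 10000, 30000⟩, ⟨1116, 1200, 1000⟩⟩ (tC23B.k2p tC23B.xE) :=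
  posD_of_check (c := ⟨68, ⟨1, 1, 2, 2⟩⟩) (by decide +kernel)

def tC23B_k2m : PosD ⟨⟨0, 1, 1⟩, ⟨98, 99, 147⟩, ⟨9630, 10000, 30000⟩, ⟨1116, 1200, 1000⟩⟩ (tC23B.k2m tC23B.xE) :=
  posD_of_check (c := ⟨72, ⟨1, 1, 2, 2⟩⟩) (by decide +kernel)

def tC23B_v2p : PosD ⟨⟨0, 1, 1⟩, ⟨98, 99, 147⟩, ⟨9630, 10000, 30000⟩, ⟨1116, 1200, 1000⟩⟩ (tC23B.hV2p) :=
  posD_of_check (c := ⟨271, ⟨1, 6, 10, 5⟩⟩) (by decide +kernel)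

def tC23B_v2m : PosD ⟨⟨0, 1, 1⟩, ⟨98, 99, 147⟩, ⟨9630, 10000, 30000⟩, ⟨1116, 1200, 1000⟩⟩ (tC23B.hV2m) :=
  posD_of_check (c := ⟨273, ⟨1, 6, 10, 5⟩⟩) (by decide +kernel)

def tC23B_v3p : PosD ⟨⟨0, 1, 1⟩, ⟨98, 99, 147⟩, ⟨9630, 10000, 30000⟩, ⟨1116, 1200, 1000⟩⟩ (tC23B.hV3p) :=
  posD_of_check (c := ⟨256, ⟨1, 6, 9, 5⟩⟩) (by decide +kernel)

def tC23B_v3m : PosD ⟨⟨0, 1, 1⟩, ⟨98, 99, 147⟩, ⟨9630, 10000, 30000⟩, ⟨1116, 1200, 1000⟩⟩ (tC23B.hV3m) :=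
  posD_of_check (c := ⟨258, ⟨1, 6, 9, 5⟩⟩) (by decide +kernel)

def tC23B_kap0 : PosD ⟨⟨0, 1, 1⟩, ⟨98, 99, 147⟩, ⟨9630, 10000, 30000⟩, ⟨1116, 1200, 1000⟩⟩ (tC23B.kap false) :=
  posD_of_check (c := ⟨69, ⟨1, 1, 2, 2⟩⟩) (by decide +kernel)

def tC23B_c10 : PosD ⟨⟨0, 1, 1⟩, ⟨98, 99, 147⟩, ⟨9630, 10000, 30000⟩, ⟨1116, 1200, 1000⟩⟩ (tC23B.hC1 false) :=
  posD_of_check (c := ⟨239, ⟨3, 5, 8, 6⟩⟩) (by decide +kernel)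

def tC23B_c1h0 : PosD ⟨⟨0, 1, 1⟩, ⟨98, 99, 147⟩, ⟨9630, 10000, 30000⟩, ⟨1116, 1200, 1000⟩⟩ (tC23B.hC1' false) :=
  posD_of_check (c := ⟨239, ⟨3, 5, 8, 6⟩⟩) (by decide +kernel)

def tC23B_tg00 : PosD ⟨⟨0, 1, 1⟩, ⟨98, 99, 147⟩, ⟨9630, 10000, 30000⟩, ⟨1116, 1200, 1000⟩⟩ (tC23B.hG false (tC23B.pEnd false)) :=
  posD_of_check (c := ⟨376, ⟨2, 7, 14, 9⟩⟩) (by decide +kernel)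

def tC23B_c2p00 : PosD ⟨⟨0, 1, 1⟩, ⟨98, 99, 147⟩, ⟨9630, 10000, 30000⟩, ⟨1116, 1200, 1000⟩⟩ (tC23B.hC2p false (tC23B.pEnd false)) :=
  posD_of_check (c := ⟨445, ⟨3, 8, 16, 11⟩⟩) (by decide +kernel)

def tC23B_c2m00 : PosD ⟨⟨0, 1, 1⟩, ⟨98, 99, 147⟩, ⟨9630, 10000, 30000⟩, ⟨1116, 1200, 1000⟩⟩ (tC23B.hC2m false (tC23B.pEnd false)) :=
  posD_of_check (c := ⟨447, ⟨3, 8, 16, 11⟩⟩) (by decide +kernel)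

def tC23B_c3p00 : PosD ⟨⟨0, 1, 1⟩, ⟨98, 99, 147⟩, ⟨9630, 10000, 30000⟩, ⟨1116, 1200, 1000⟩⟩ (tC23B.hC3p false false) :=
  posD_of_check (c := ⟨405, ⟨3, 8, 14, 10⟩⟩) (by decide +kernel)

def tC23B_c3m00 : PosD ⟨⟨0, 1, 1⟩, ⟨98, 99, 147⟩, ⟨9630, 10000, 30000⟩, ⟨1116, 1200, 1000⟩⟩ (tC23B.hC3m false false) :=
  posD_of_check (c := ⟨406, ⟨3, 8, 14, 10⟩⟩) (by decide +kernel)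

def tC23B_c3ph00 : PosD ⟨⟨0, 1, 1⟩, ⟨98, 99, 147⟩, ⟨9630, 10000, 30000⟩, ⟨1116, 1200, 1000⟩⟩ (tC23B.hC3p' false false) :=
  posD_of_check (c := ⟨406, ⟨3, 8, 14, 10⟩⟩) (by decide +kernel)

def tC23B_c3mh00 : PosD ⟨⟨0, 1, 1⟩, ⟨98, 99, 147⟩, ⟨9630, 10000, 30000⟩, ⟨1116, 1200, 1000⟩⟩ (tC23B.hC3m' false false) :=
  posD_of_check (c := ⟨406, ⟨3, 8, 14, 10⟩⟩) (by decide +kernel)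

def tC23B_up00 : PosD ⟨⟨0, 1, 1⟩, ⟨98, 99, 147⟩, ⟨9630, 10000, 30000⟩, ⟨1116, 1200, 1000⟩⟩ (tC23B.hUp false false) :=
  posD_of_check (c := ⟨405, ⟨3, 8, 14, 10⟩⟩) (by decide +kernel)

def tC23B_um00 : PosD ⟨⟨0, 1, 1⟩, ⟨98, 99, 147⟩, ⟨9630, 10000, 30000⟩, ⟨1116, 1200, 1000⟩⟩ (tC23B.hUm false false) :=
  posD_of_check (c := ⟨406, ⟨3, 8, 14, 10⟩⟩) (by decide +kernel)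

def tC23B_tmg00 : PosD ⟨⟨0, 1, 1⟩, ⟨98, 99, 147⟩, ⟨9630, 10000, 30000⟩, ⟨1116, 1200, 1000⟩⟩ (tC23B.hTMG false (tC23B.pEnd false)) :=
  posD_of_check (c := ⟨354, ⟨2, 7, 13, 8⟩⟩) (by decide +kernel)

def tC23B_tg01 : PosD ⟨⟨0, 1, 1⟩, ⟨98, 99, 147⟩, ⟨9630, 10000, 30000⟩, ⟨1116, 1200, 1000⟩⟩ (tC23B.hG true (tC23B.pEnd false)) :=
  posD_of_check (c := ⟨375, ⟨2, 7, 14, 9⟩⟩) (by decide +kernel)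

def tC23B_c2p01 : PosD ⟨⟨0, 1, 1⟩, ⟨98, 99, 147⟩, ⟨9630, 10000, 30000⟩, ⟨1116, 1200, 1000⟩⟩ (tC23B.hC2p true (tC23B.pEnd false)) :=
  posD_of_check (c := ⟨445, ⟨3, 8, 16, 11⟩⟩) (by decide +kernel)

def tC23B_c2m01 : PosD ⟨⟨0, 1, 1⟩, ⟨98, 99, 147⟩, ⟨9630, 10000, 30000⟩, ⟨1116, 1200, 1000⟩⟩ (tC23B.hC2m true (tC23B.pEnd false)) :=
  posD_of_check (c := ⟨447, ⟨3, 8, 16, 11⟩⟩) (by decide +kernel)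

def tC23B_c3p01 : PosD ⟨⟨0, 1, 1⟩, ⟨98, 99, 147⟩, ⟨9630, 10000, 30000⟩, ⟨1116, 1200, 1000⟩⟩ (tC23B.hC3p false true) :=
  posD_of_check (c := ⟨405, ⟨3, 8, 14, 10⟩⟩) (by decide +kernel)

def tC23B_c3m01 : PosD ⟨⟨0, 1, 1⟩, ⟨98, 99, 147⟩, ⟨9630, 10000, 30000⟩, ⟨1116, 1200, 1000⟩⟩ (tC23B.hC3m false true) :=
  posD_of_check (c := ⟨406, ⟨3, 8, 14, 10⟩⟩) (by decide +kernel)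

def tC23B_c3ph01 : PosD ⟨⟨0, 1, 1⟩, ⟨98, 99, 147⟩, ⟨9630, 10000, 30000⟩, ⟨1116, 1200, 1000⟩⟩ (tC23B.hC3p' false true) :=
  posD_of_check (c := ⟨406, ⟨3, 8, 14, 10⟩⟩) (by decide +kernel)

def tC23B_c3mh01 : PosD ⟨⟨0, 1, 1⟩, ⟨98, 99, 147⟩, ⟨9630, 10000, 30000⟩, ⟨1116, 1200, 1000⟩⟩ (tC23B.hC3m' false true) :=
  posD_of_check (c := ⟨406, ⟨3, 8, 14, 10⟩⟩) (by decide +kernel)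

def tC23B_up01 : PosD ⟨⟨0, 1, 1⟩, ⟨98, 99, 147⟩, ⟨9630, 10000, 30000⟩, ⟨1116, 1200, 1000⟩⟩ (tC23B.hUp false true) :=
  posD_of_check (c := ⟨405, ⟨3, 8, 14, 10⟩⟩) (by decide +kernel)

def tC23B_um01 : PosD ⟨⟨0, 1, 1⟩, ⟨98, 99, 147⟩, ⟨9630, 10000, 30000⟩, ⟨1116, 1200, 1000⟩⟩ (tC23B.hUm false true) :=
  posD_of_check (c := ⟨406, ⟨3, 8, 14, 10⟩⟩) (by decide +kernel)

def tC23B_tmg01 : PosD ⟨⟨0, 1, 1⟩, ⟨98, 99, 147⟩, ⟨9630, 10000, 30000⟩, ⟨1116, 1200, 1000⟩⟩ (tC23B.hTMG true (tC23B.pEnd false)) :=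
  posD_of_check (c := ⟨354, ⟨2, 7, 13, 8⟩⟩) (by decide +kernel)

def tC23B_kap1 : PosD ⟨⟨0, 1, 1⟩, ⟨98, 99, 147⟩, ⟨9630, 10000, 30000⟩, ⟨1116, 1200, 1000⟩⟩ (tC23B.kap true) :=
  posD_of_check (c := ⟨69, ⟨1, 1, 2, 2⟩⟩) (by decide +kernel)

def tC23B_c11 : PosD ⟨⟨0, 1, 1⟩, ⟨98, 99, 147⟩, ⟨9630, 10000, 30000⟩, ⟨1116, 1200, 1000⟩⟩ (tC23B.hC1 true) :=
  posD_of_check (c := ⟨271, ⟨3, 5, 9, 7⟩⟩) (by decide +kernel)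

def tC23B_c1h1 : PosD ⟨⟨0, 1, 1⟩, ⟨98, 99, 147⟩, ⟨9630, 10000, 30000⟩, ⟨1116, 1200, 1000⟩⟩ (tC23B.hC1' true) :=
  posD_of_check (c := ⟨271, ⟨3, 5, 9, 7⟩⟩) (by decide +kernel)

def tC23B_tg10 : PosD ⟨⟨0, 1, 1⟩, ⟨98, 99, 147⟩, ⟨9630, 10000, 30000⟩, ⟨1116, 1200, 1000⟩⟩ (tC23B.hG false (tC23B.pEnd true)) :=
  posD_of_check (c := ⟨385, ⟨2, 7, 14, 9⟩⟩) (by decide +kernel)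

def tC23B_c2p10 : PosD ⟨⟨0, 1, 1⟩, ⟨98, 99, 147⟩, ⟨9630, 10000, 30000⟩, ⟨1116, 1200, 1000⟩⟩ (tC23B.hC2p false (tC23B.pEnd true)) :=
  posD_of_check (c := ⟨455, ⟨3, 8, 16, 11⟩⟩) (by decide +kernel)

def tC23B_c2m10 : PosD ⟨⟨0, 1, 1⟩, ⟨98, 99, 147⟩, ⟨9630, 10000, 30000⟩, ⟨1116, 1200, 1000⟩⟩ (tC23B.hC2m false (tC23B.pEnd true)) :=
  posD_of_check (c := ⟨457, ⟨3, 8, 16, 11⟩⟩) (by decide +kernel)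

def tC23B_c3p10 : PosD ⟨⟨0, 1, 1⟩, ⟨98, 99, 147⟩, ⟨9630, 10000, 30000⟩, ⟨1116, 1200, 1000⟩⟩ (tC23B.hC3p true false) :=
  posD_of_relax (k₁ := 0) (k₂ := 0) (k₃ := 2) (n := 16) (posD_of_check (c := ⟨442, ⟨3, 8, 15, 11⟩⟩) (by decide +kernel))

def tC23B_c3m10 : PosD ⟨⟨0, 1, 1⟩, ⟨98, 99, 147⟩, ⟨9630, 10000, 30000⟩, ⟨1116, 1200, 1000⟩⟩ (tC23B.hC3m true false) :=
  posD_of_relax (k₁ := 0) (k₂ := 0) (k₃ := 1) (n := 16) (posD_of_check (c := ⟨443, ⟨3, 8, 15, 11⟩⟩) (by decide +kernel))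

def tC23B_c3ph10 : PosD ⟨⟨0, 1, 1⟩, ⟨98, 99, 147⟩, ⟨9630, 10000, 30000⟩, ⟨1116, 1200, 1000⟩⟩ (tC23B.hC3p' true false) :=
  posD_of_check (c := ⟨442, ⟨3, 8, 15, 11⟩⟩) (by decide +kernel)

def tC23B_c3mh10 : PosD ⟨⟨0, 1, 1⟩, ⟨98, 99, 147⟩, ⟨9630, 10000, 30000⟩, ⟨1116, 1200, 1000⟩⟩ (tC23B.hC3m' true false) :=
  posD_of_check (c := ⟨443, ⟨3, 8, 15, 11⟩⟩) (by decide +kernel)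

def tC23B_up10 : PosD ⟨⟨0, 1, 1⟩, ⟨98, 99, 147⟩, ⟨9630, 10000, 30000⟩, ⟨1116, 1200, 1000⟩⟩ (tC23B.hUp true false) :=
  posD_of_check (c := ⟨441, ⟨3, 8, 15, 11⟩⟩) (by decide +kernel)

def tC23B_um10 : PosD ⟨⟨0, 1, 1⟩, ⟨98, 99, 147⟩, ⟨9630, 10000, 30000⟩, ⟨1116, 1200, 1000⟩⟩ (tC23B.hUm true false) :=
  posD_of_check (c := ⟨442, ⟨3, 8, 15, 11⟩⟩) (by decide +kernel)

def tC23B_tmg10 : PosD ⟨⟨0, 1, 1⟩, ⟨98, 99, 147⟩, ⟨9630, 10000, 30000⟩, ⟨1116, 1200, 1000⟩⟩ (tC23B.hTMG false (tC23B.pEnd true)) :=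
  posD_of_check (c := ⟨400, ⟨2, 7, 14, 10⟩⟩) (by decide +kernel)

def tC23B_tg11 : PosD ⟨⟨0, 1, 1⟩, ⟨98, 99, 147⟩, ⟨9630, 10000, 30000⟩, ⟨1116, 1200, 1000⟩⟩ (tC23B.hG true (tC23B.pEnd true)) :=
  posD_of_check (c := ⟨385, ⟨2, 7, 14, 9⟩⟩) (by decide +kernel)

def tC23B_c2p11 : PosD ⟨⟨0, 1, 1⟩, ⟨98, 99, 147⟩, ⟨9630, 10000, 30000⟩, ⟨1116, 1200, 1000⟩⟩ (tC23B.hC2p true (tC23B.pEnd true)) :=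
  posD_of_check (c := ⟨455, ⟨3, 8, 16, 11⟩⟩) (by decide +kernel)

def tC23B_c2m11 : PosD ⟨⟨0, 1, 1⟩, ⟨98, 99, 147⟩, ⟨9630, 10000, 30000⟩, ⟨1116, 1200, 1000⟩⟩ (tC23B.hC2m true (tC23B.pEnd true)) :=
  posD_of_check (c := ⟨457, ⟨3, 8, 16, 11⟩⟩) (by decide +kernel)

def tC23B_c3p11 : PosD ⟨⟨0, 1, 1⟩, ⟨98, 99, 147⟩, ⟨9630, 10000, 30000⟩, ⟨1116, 1200, 1000⟩⟩ (tC23B.hC3p true true) :=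
  posD_of_check (c := ⟨442, ⟨3, 8, 15, 11⟩⟩) (by decide +kernel)

def tC23B_c3m11 : PosD ⟨⟨0, 1, 1⟩, ⟨98, 99, 147⟩, ⟨9630, 10000, 30000⟩, ⟨1116, 1200, 1000⟩⟩ (tC23B.hC3m true true) :=
  posD_of_check (c := ⟨443, ⟨3, 8, 15, 11⟩⟩) (by decide +kernel)

def tC23B_c3ph11 : PosD ⟨⟨0, 1, 1⟩, ⟨98, 99, 147⟩, ⟨9630, 10000, 30000⟩, ⟨1116, 1200, 1000⟩⟩ (tC23B.hC3p' true true) :=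
  posD_of_check (c := ⟨442, ⟨3, 8, 15, 11⟩⟩) (by decide +kernel)

def tC23B_c3mh11 : PosD ⟨⟨0, 1, 1⟩, ⟨98, 99, 147⟩, ⟨9630, 10000, 30000⟩, ⟨1116, 1200, 1000⟩⟩ (tC23B.hC3m' true true) :=
  posD_of_check (c := ⟨443, ⟨3, 8, 15, 11⟩⟩) (by decide +kernel)

def tC23B_up11 : PosD ⟨⟨0, 1, 1⟩, ⟨98, 99, 147⟩, ⟨9630, 10000, 30000⟩, ⟨1116, 1200, 1000⟩⟩ (tC23B.hUp true true) :=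
  posD_of_check (c := ⟨441, ⟨3, 8, 15, 11⟩⟩) (by decide +kernel)

def tC23B_um11 : PosD ⟨⟨0, 1, 1⟩, ⟨98, 99, 147⟩, ⟨9630, 10000, 30000⟩, ⟨1116, 1200, 1000⟩⟩ (tC23B.hUm true true) :=
  posD_of_check (c := ⟨442, ⟨3, 8, 15, 11⟩⟩) (by decide +kernel)

def tC23B_tmg11 : PosD ⟨⟨0, 1, 1⟩, ⟨98, 99, 147⟩, ⟨9630, 10000, 30000⟩, ⟨1116, 1200, 1000⟩⟩ (tC23B.hTMG true (tC23B.pEnd true)) :=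
  posD_of_check (c := ⟨400, ⟨2, 7, 14, 10⟩⟩) (by decide +kernel)

/-- The signs of the piece. -/
def tC23B_sign : tC23B.Sign ⟨⟨0, 1, 1⟩, ⟨98, 99, 147⟩, ⟨9630, 10000, 30000⟩, ⟨1116, 1200, 1000⟩⟩ :=
  ⟨tC23B_pp,
    tC23B_k2p,
    tC23B_k2m,
    Bool.forall_bool.2 ⟨(Bool.forall_bool.2 ⟨tC23B_tg00, tC23B_tg01⟩), (Bool.forall_bool.2 ⟨tC23B_tg10, tC23B_tg11⟩)⟩,
    Bool.forall_bool.2 ⟨(Bool.forall_bool.2 ⟨tC23B_c2p00, tC23B_c2p01⟩), (Bool.forall_bool.2 ⟨tC23B_c2p10, tC23B_c2p11⟩)⟩,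
    Bool.forall_bool.2 ⟨(Bool.forall_bool.2 ⟨tC23B_c2m00, tC23B_c2m01⟩), (Bool.forall_bool.2 ⟨tC23B_c2m10, tC23B_c2m11⟩)⟩,
    Bool.forall_bool.2 ⟨tC23B_kap0, tC23B_kap1⟩,
    Bool.forall_bool.2 ⟨tC23B_c10, tC23B_c11⟩,
    Bool.forall_bool.2 ⟨(Bool.forall_bool.2 ⟨tC23B_c3p00, tC23B_c3p01⟩), (Bool.forall_bool.2 ⟨tC23B_c3p10, tC23B_c3p11⟩)⟩,
    Bool.forall_bool.2 ⟨(Bool.forall_bool.2 ⟨tC23B_c3m00, tC23B_c3m01⟩), (Bool.forall_bool.2 ⟨tC23B_c3m10, tC23B_c3m11⟩)⟩,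
    Bool.forall_bool.2 ⟨(Bool.forall_bool.2 ⟨tC23B_tmg00, tC23B_tmg01⟩), (Bool.forall_bool.2 ⟨tC23B_tmg10, tC23B_tmg11⟩)⟩,
    .inr (Bool.forall_bool.2 ⟨⟨tC23B_c1h0, Bool.forall_bool.2 ⟨⟨tC23B_c3ph00, tC23B_c3mh00, tC23B_up00, tC23B_um00⟩, ⟨tC23B_c3ph01, tC23B_c3mh01, tC23B_up01, tC23B_um01⟩⟩⟩, ⟨tC23B_c1h1, Bool.forall_bool.2 ⟨⟨tC23B_c3ph10, tC23B_c3mh10, tC23B_up10, tC23B_um10⟩, ⟨tC23B_c3ph11, tC23B_c3mh11, tC23B_up11, tC23B_um11⟩⟩⟩⟩),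
    tC23B_v2p,
    tC23B_v2m,
    tC23B_v3p,
    tC23B_v3m,
    posD_sub (b := ⟨⟨0, 1, 1⟩, ⟨98, 99, 147⟩, ⟨4050, 10000, 30000⟩, ⟨290, 4000, 1000⟩⟩) (by decide +kernel) tC_vG,
    posD_sub (b := ⟨⟨0, 1, 1⟩, ⟨98, 99, 147⟩, ⟨4050, 10000, 30000⟩, ⟨290, 4000, 1000⟩⟩) (by decide +kernel) tC_vMG,
    posD_sub (b := ⟨⟨0, 1, 1⟩, ⟨98, 99, 147⟩, ⟨4050, 10000, 30000⟩, ⟨290, 4000, 1000⟩⟩) (by decide +kernel) tC_ak,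
    posD_sub (b := ⟨⟨0, 1, 1⟩, ⟨98, 99, 147⟩, ⟨4050, 10000, 30000⟩, ⟨290, 4000, 1000⟩⟩) (by decide +kernel) tC_aw,
    posD_sub (b := ⟨⟨0, 1, 1⟩, ⟨98, 99, 147⟩, ⟨4050, 10000, 30000⟩, ⟨290, 4000, 1000⟩⟩) (by decide +kernel) tC_gk,
    posD_sub (b := ⟨⟨0, 1, 1⟩, ⟨98, 99, 147⟩, ⟨4050, 10000, 30000⟩, ⟨290, 4000, 1000⟩⟩) (by decide +kernel) tC_gw,
    posD_sub (b := ⟨⟨0, 1, 1⟩, ⟨98, 99, 147⟩, ⟨4050, 10000, 30000⟩, ⟨290, 4000, 1000⟩⟩) (by decide +kernel) tC_ek,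
    posD_sub (b := ⟨⟨0, 1, 1⟩, ⟨98, 99, 147⟩, ⟨4050, 10000, 30000⟩, ⟨290, 4000, 1000⟩⟩) (by decide +kernel) tC_ew⟩

end Vale.Agent.P100.Calib.Closed.Six.Tail
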