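import Vale.Agent.P100.Calib.SlabSixTailDataC
import Vale.Agent.P100.Calib.SlabSixTailGlobC

/-!
# Checks of some pieces of the certificate

The checks are written as definitions so that they run one after another, which keeps the memory of the
kernel low.
-/

set_option linter.defProp false

namespace Vale.Agent.P100.Calib.Closed.Six.Tail

open BoxPos Large

local instance sixTailCheckstC13Add : Add Ex := ⟨Ex.add⟩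
local instance sixTailCheckstC13Sub : Sub Ex := ⟨Ex.sub⟩
local instance sixTailCheckstC13Mul : Mul Ex := ⟨Ex.mul⟩

def tC24_phx : PosIf ⟨⟨0, 1, 1⟩, ⟨98, 99, 147⟩, ⟨4050, 7026, 30000⟩, ⟨1200, 1271, 1000⟩⟩ (tC24.u₁ - tC24Lo) (phCn (tC24.u₁ + xO * (tC24Lo - tC24.u₁))) :=
  posIf_of_posD (posD_of_check (c := ⟨108, ⟨2, 0, 4, 2⟩⟩) (by decide +kernel))

def tC24_phd : PosD ⟨⟨0, 1, 1⟩, ⟨98, 99, 147⟩, ⟨4050, 7026, 30000⟩, ⟨1200, 1271, 1000⟩⟩ (phCd (tC24.u₁ + xO * (tC24Lo - tC24.u₁))) :=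
  posD_of_check (c := ⟨51, ⟨1, 0, 2, 1⟩⟩) (by decide +kernel)

def tC24_p0 : PosD ⟨⟨0, 1, 1⟩, ⟨98, 99, 147⟩, ⟨4050, 7026, 30000⟩, ⟨1200, 1271, 1000⟩⟩ (tC24.hP0) :=
  posD_of_check (c := ⟨83, ⟨0, 2, 3, 1⟩⟩) (by decide +kernel)

def tC24_gn : PosD ⟨⟨0, 1, 1⟩, ⟨98, 99, 147⟩, ⟨4050, 7026, 30000⟩, ⟨1200, 1271, 1000⟩⟩ (tC24.hGn) :=
  posD_of_check (c := ⟨69, ⟨1, 1, 2, 2⟩⟩) (by decide +kernel)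

def tC24_den0 : PosD ⟨⟨0, 1, 1⟩, ⟨98, 99, 147⟩, ⟨4050, 7026, 30000⟩, ⟨1200, 1271, 1000⟩⟩ (tC24.hDen false) :=
  posD_of_check (c := ⟨51, ⟨1, 0, 2, 1⟩⟩) (by decide +kernel)

def tC24_den1 : PosD ⟨⟨0, 1, 1⟩, ⟨98, 99, 147⟩, ⟨4050, 7026, 30000⟩, ⟨1200, 1271, 1000⟩⟩ (tC24.hDen true) :=
  posD_of_check (c := ⟨51, ⟨1, 0, 2, 1⟩⟩) (by decide +kernel)

def tC24_ev0 : PosD ⟨⟨0, 1, 1⟩, ⟨98, 99, 147⟩, ⟨4050, 7026, 30000⟩, ⟨1200, 1271, 1000⟩⟩ (tC24.hEv false) :=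
  posD_of_check (c := ⟨218, ⟨4, 2, 8, 4⟩⟩) (by decide +kernel)

def tC24_zL0 : PosD ⟨⟨0, 1, 1⟩, ⟨98, 99, 147⟩, ⟨4050, 7026, 30000⟩, ⟨1200, 1271, 1000⟩⟩ (tC24.hZL false) :=
  posD_of_check (c := ⟨220, ⟨4, 3, 8, 4⟩⟩) (by decide +kernel)

def tC24_zU0 : PosD ⟨⟨0, 1, 1⟩, ⟨98, 99, 147⟩, ⟨4050, 7026, 30000⟩, ⟨1200, 1271, 1000⟩⟩ (tC24.hZU false) :=
  posD_of_check (c := ⟨220, ⟨4, 3, 8, 4⟩⟩) (by decide +kernel)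

def tC24_eL0 : PosD ⟨⟨0, 1, 1⟩, ⟨98, 99, 147⟩, ⟨4050, 7026, 30000⟩, ⟨1200, 1271, 1000⟩⟩ (tC24.hEL false) :=
  posD_of_check (c := ⟨313, ⟨5, 6, 11, 6⟩⟩) (by decide +kernel)

def tC24_eH0 : PosD ⟨⟨0, 1, 1⟩, ⟨98, 99, 147⟩, ⟨4050, 7026, 30000⟩, ⟨1200, 1271, 1000⟩⟩ (tC24.hEH false) :=
  posD_of_check (c := ⟨312, ⟨5, 6, 11, 6⟩⟩) (by decide +kernel)

def tC24_pL0 : PosD ⟨⟨0, 1, 1⟩, ⟨98, 99, 147⟩, ⟨4050, 7026, 30000⟩, ⟨1200, 1271, 1000⟩⟩ (tC24.hPL false) :=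
  posD_of_check (c := ⟨338, ⟨5, 6, 11, 7⟩⟩) (by decide +kernel)

def tC24_pU0 : PosD ⟨⟨0, 1, 1⟩, ⟨98, 99, 147⟩, ⟨4050, 7026, 30000⟩, ⟨1200, 1271, 1000⟩⟩ (tC24.hPU false) :=
  posD_of_check (c := ⟨338, ⟨5, 6, 11, 7⟩⟩) (by decide +kernel)

def tC24_kU0 : PosD ⟨⟨0, 1, 1⟩, ⟨98, 99, 147⟩, ⟨4050, 7026, 30000⟩, ⟨1200, 1271, 1000⟩⟩ (tC24.hKU false) :=
  posD_of_check (c := ⟨335, ⟨5, 6, 11, 7⟩⟩) (by decide +kernel)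

def tC24_kL0 : PosD ⟨⟨0, 1, 1⟩, ⟨98, 99, 147⟩, ⟨4050, 7026, 30000⟩, ⟨1200, 1271, 1000⟩⟩ (tC24.hKL false) :=
  posD_of_check (c := ⟨335, ⟨5, 6, 11, 7⟩⟩) (by decide +kernel)

def tC24_wU0 : PosD ⟨⟨0, 1, 1⟩, ⟨98, 99, 147⟩, ⟨4050, 7026, 30000⟩, ⟨1200, 1271, 1000⟩⟩ (tC24.hWU false) :=
  posD_of_check (c := ⟨369, ⟨5, 8, 12, 7⟩⟩) (by decide +kernel)

def tC24_wL0 : PosD ⟨⟨0, 1, 1⟩, ⟨98, 99, 147⟩, ⟨4050, 7026, 30000⟩, ⟨1200, 1271, 1000⟩⟩ (tC24.hWL false) :=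
  posD_of_check (c := ⟨369, ⟨5, 8, 12, 7⟩⟩) (by decide +kernel)

def tC24_ev1 : PosD ⟨⟨0, 1, 1⟩, ⟨98, 99, 147⟩, ⟨4050, 7026, 30000⟩, ⟨1200, 1271, 1000⟩⟩ (tC24.hEv true) :=
  posD_of_check (c := ⟨217, ⟨4, 2, 8, 4⟩⟩) (by decide +kernel)

def tC24_zL1a : PosD ⟨⟨0, 1, 1⟩, ⟨98, 99, 147⟩, ⟨4050, 5538, 30000⟩, ⟨1200, 1271, 1000⟩⟩ (tC24.hZL true) :=
  posD_of_check (c := ⟨218, ⟨4, 3, 8, 4⟩⟩) (by decide +kernel)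

def tC24_zL1b : PosD ⟨⟨0, 1, 1⟩, ⟨98, 99, 147⟩, ⟨5538, 7026, 30000⟩, ⟨1200, 1271, 1000⟩⟩ (tC24.hZL true) :=
  posD_of_check (c := ⟨219, ⟨4, 3, 8, 4⟩⟩) (by decide +kernel)

def tC24_zL1 : PosD ⟨⟨0, 1, 1⟩, ⟨98, 99, 147⟩, ⟨4050, 7026, 30000⟩, ⟨1200, 1271, 1000⟩⟩ (tC24.hZL true) :=
  posD_join₂ tC24_zL1a tC24_zL1b

def tC24_zU1 : PosD ⟨⟨0, 1, 1⟩, ⟨98, 99, 147⟩, ⟨4050, 7026, 30000⟩, ⟨1200, 1271, 1000⟩⟩ (tC24.hZU true) :=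
  posD_of_check (c := ⟨219, ⟨4, 3, 8, 4⟩⟩) (by decide +kernel)

def tC24_eL1 : PosD ⟨⟨0, 1, 1⟩, ⟨98, 99, 147⟩, ⟨4050, 7026, 30000⟩, ⟨1200, 1271, 1000⟩⟩ (tC24.hEL true) :=
  posD_of_check (c := ⟨312, ⟨5, 6, 11, 6⟩⟩) (by decide +kernel)

def tC24_eH1 : PosD ⟨⟨0, 1, 1⟩, ⟨98, 99, 147⟩, ⟨4050, 7026, 30000⟩, ⟨1200, 1271, 1000⟩⟩ (tC24.hEH true) :=
  posD_of_check (c := ⟨311, ⟨5, 6, 11, 6⟩⟩) (by decide +kernel)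

def tC24_pL1 : PosD ⟨⟨0, 1, 1⟩, ⟨98, 99, 147⟩, ⟨4050, 7026, 30000⟩, ⟨1200, 1271, 1000⟩⟩ (tC24.hPL true) :=
  posD_of_check (c := ⟨337, ⟨5, 6, 11, 7⟩⟩) (by decide +kernel)

def tC24_pU1 : PosD ⟨⟨0, 1, 1⟩, ⟨98, 99, 147⟩, ⟨4050, 7026, 30000⟩, ⟨1200, 1271, 1000⟩⟩ (tC24.hPU true) :=
  posD_of_check (c := ⟨336, ⟨5, 6, 11, 7⟩⟩) (by decide +kernel)

def tC24_kU1 : PosD ⟨⟨0, 1, 1⟩, ⟨98, 99, 147⟩, ⟨4050, 7026, 30000⟩, ⟨1200, 1271, 1000⟩⟩ (tC24.hKU true) :=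
  posD_of_check (c := ⟨333, ⟨5, 6, 11, 7⟩⟩) (by decide +kernel)

def tC24_kL1 : PosD ⟨⟨0, 1, 1⟩, ⟨98, 99, 147⟩, ⟨4050, 7026, 30000⟩, ⟨1200, 1271, 1000⟩⟩ (tC24.hKL true) :=
  posD_of_check (c := ⟨333, ⟨5, 6, 11, 7⟩⟩) (by decide +kernel)

def tC24_wU1 : PosD ⟨⟨0, 1, 1⟩, ⟨98, 99, 147⟩, ⟨4050, 7026, 30000⟩, ⟨1200, 1271, 1000⟩⟩ (tC24.hWU true) :=
  posD_of_check (c := ⟨368, ⟨5, 8, 12, 7⟩⟩) (by decide +kernel)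

def tC24_wL1 : PosD ⟨⟨0, 1, 1⟩, ⟨98, 99, 147⟩, ⟨4050, 7026, 30000⟩, ⟨1200, 1271, 1000⟩⟩ (tC24.hWL true) :=
  posD_of_check (c := ⟨368, ⟨5, 8, 12, 7⟩⟩) (by decide +kernel)

/-- The bounds of the piece. -/
def tC24_env : tC24.Env ⟨⟨0, 1, 1⟩, ⟨98, 99, 147⟩, ⟨4050, 7026, 30000⟩, ⟨1200, 1271, 1000⟩⟩ :=
  ⟨tC24_p0, Bool.forall_bool.2 ⟨tC24_den0, tC24_den1⟩, tC24_gn, Bool.forall_bool.2 ⟨tC24_ev0, tC24_ev1⟩, Bool.forall_bool.2 ⟨tC24_zL0, tC24_zL1⟩, Bool.forall_bool.2 ⟨tC24_zU0, tC24_zU1⟩, Bool.forall_bool.2 ⟨tC24_eL0, tC24_eL1⟩, ⟨.inr rfl, .inr rfl⟩, Bool.forall_bool.2 ⟨tC24_eH0, tC24_eH1⟩, ⟨.inr rfl, .inr rfl⟩, Bool.forall_bool.2 ⟨tC24_pL0, tC24_pL1⟩, ⟨.inr rfl, .inr rfl⟩, Bool.forall_bool.2 ⟨tC24_pU0, tC24_pU1⟩, ⟨.inr rfl, .inr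 rfl⟩, Bool.forall_bool.2 ⟨tC24_kU0, tC24_kU1⟩, ⟨.inr rfl, .inr rfl⟩, Bool.forall_bool.2 ⟨tC24_kL0, tC24_kL1⟩, ⟨.inr rfl, .inr rfl⟩, Bool.forall_bool.2 ⟨tC24_wU0, tC24_wU1⟩, ⟨.inr rfl, .inr rfl⟩, Bool.forall_bool.2 ⟨tC24_wL0, tC24_wL1⟩, ⟨.inr rfl, .inr rfl⟩⟩

def tC24_pp : PosD ⟨⟨0, 1, 1⟩, ⟨98, 99, 147⟩, ⟨4050, 7026, 30000⟩, ⟨1200, 1271, 1000⟩⟩ (tC24.xPL) :=
  posD_of_check (c := ⟨95, ⟨1, 1, 3, 3⟩⟩) (by decide +kernel)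

def tC24_k2p : PosD ⟨⟨0, 1, 1⟩, ⟨98, 99, 147⟩, ⟨4050, 7026, 30000⟩, ⟨1200, 1271, 1000⟩⟩ (tC24.k2p tC24.xE) :=
  posD_of_check (c := ⟨68, ⟨1, 1, 2, 2⟩⟩) (by decide +kernel)

def tC24_k2m : PosD ⟨⟨0, 1, 1⟩, ⟨98, 99, 147⟩, ⟨4050, 7026, 30000⟩, ⟨1200, 1271, 1000⟩⟩ (tC24.k2m tC24.xE) :=
  posD_of_check (c := ⟨69, ⟨1, 1, 2, 2⟩⟩) (by decide +kernel)

def tC24_v2p : PosD ⟨⟨0, 1, 1⟩, ⟨98, 99, 147⟩, ⟨4050, 7026, 30000⟩, ⟨1200, 1271, 1000⟩⟩ (tC24.hV2p) :=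
  posD_of_check (c := ⟨269, ⟨1, 6, 10, 5⟩⟩) (by decide +kernel)

def tC24_v2m : PosD ⟨⟨0, 1, 1⟩, ⟨98, 99, 147⟩, ⟨4050, 7026, 30000⟩, ⟨1200, 1271, 1000⟩⟩ (tC24.hV2m) :=
  posD_of_check (c := ⟨269, ⟨1, 6, 10, 5⟩⟩) (by decide +kernel)

def tC24_v3p : PosD ⟨⟨0, 1, 1⟩, ⟨98, 99, 147⟩, ⟨4050, 7026, 30000⟩, ⟨1200, 1271, 1000⟩⟩ (tC24.hV3p) :=
  posD_of_check (c := ⟨254, ⟨1, 6, 9, 5⟩⟩) (by decide +kernel)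

def tC24_v3m : PosD ⟨⟨0, 1, 1⟩, ⟨98, 99, 147⟩, ⟨4050, 7026, 30000⟩, ⟨1200, 1271, 1000⟩⟩ (tC24.hV3m) :=
  posD_of_check (c := ⟨254, ⟨1, 6, 9, 5⟩⟩) (by decide +kernel)

def tC24_kap0 : PosD ⟨⟨0, 1, 1⟩, ⟨98, 99, 147⟩, ⟨4050, 7026, 30000⟩, ⟨1200, 1271, 1000⟩⟩ (tC24.kap false) :=
  posD_of_check (c := ⟨67, ⟨1, 1, 2, 2⟩⟩) (by decide +kernel)

def tC24_c10 : PosD ⟨⟨0, 1, 1⟩, ⟨98, 99, 147⟩, ⟨4050, 7026, 30000⟩, ⟨1200, 1271, 1000⟩⟩ (tC24.hC1 false) :=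
  posD_of_check (c := ⟨271, ⟨3, 5, 9, 7⟩⟩) (by decide +kernel)

def tC24_c1h0 : PosD ⟨⟨0, 1, 1⟩, ⟨98, 99, 147⟩, ⟨4050, 7026, 30000⟩, ⟨1200, 1271, 1000⟩⟩ (tC24.hC1' false) :=
  posD_of_check (c := ⟨271, ⟨3, 5, 9, 7⟩⟩) (by decide +kernel)

def tC24_tg00 : PosD ⟨⟨0, 1, 1⟩, ⟨98, 99, 147⟩, ⟨4050, 7026, 30000⟩, ⟨1200, 1271, 1000⟩⟩ (tC24.hG false (tC24.pEnd false)) :=
  posD_of_check (c := ⟨386, ⟨2, 7, 14, 9⟩⟩) (by decide +kernel)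

def tC24_c2p00 : PosD ⟨⟨0, 1, 1⟩, ⟨98, 99, 147⟩, ⟨4050, 7026, 30000⟩, ⟨1200, 1271, 1000⟩⟩ (tC24.hC2p false (tC24.pEnd false)) :=
  posD_of_check (c := ⟨454, ⟨3, 8, 16, 11⟩⟩) (by decide +kernel)

def tC24_c2m00 : PosD ⟨⟨0, 1, 1⟩, ⟨98, 99, 147⟩, ⟨4050, 7026, 30000⟩, ⟨1200, 1271, 1000⟩⟩ (tC24.hC2m false (tC24.pEnd false)) :=
  posD_of_check (c := ⟨454, ⟨3, 8, 16, 11⟩⟩) (by decide +kernel)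

def tC24_c3p00 : PosD ⟨⟨0, 1, 1⟩, ⟨98, 99, 147⟩, ⟨4050, 7026, 30000⟩, ⟨1200, 1271, 1000⟩⟩ (tC24.hC3p false false) :=
  posD_of_check (c := ⟨441, ⟨3, 8, 15, 11⟩⟩) (by decide +kernel)

def tC24_c3m00 : PosD ⟨⟨0, 1, 1⟩, ⟨98, 99, 147⟩, ⟨4050, 7026, 30000⟩, ⟨1200, 1271, 1000⟩⟩ (tC24.hC3m false false) :=
  posD_of_check (c := ⟨441, ⟨3, 8, 15, 11⟩⟩) (by decide +kernel)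

def tC24_c3ph00 : PosD ⟨⟨0, 1, 1⟩, ⟨98, 99, 147⟩, ⟨4050, 7026, 30000⟩, ⟨1200, 1271, 1000⟩⟩ (tC24.hC3p' false false) :=
  posD_of_check (c := ⟨441, ⟨3, 8, 15, 11⟩⟩) (by decide +kernel)

def tC24_c3mh00 : PosD ⟨⟨0, 1, 1⟩, ⟨98, 99, 147⟩, ⟨4050, 7026, 30000⟩, ⟨1200, 1271, 1000⟩⟩ (tC24.hC3m' false false) :=
  posD_of_check (c := ⟨441, ⟨3, 8, 15, 11⟩⟩) (by decide +kernel)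

def tC24_up00 : PosD ⟨⟨0, 1, 1⟩, ⟨98, 99, 147⟩, ⟨4050, 7026, 30000⟩, ⟨1200, 1271, 1000⟩⟩ (tC24.hUp false false) :=
  posD_of_check (c := ⟨441, ⟨3, 8, 15, 11⟩⟩) (by decide +kernel)

def tC24_um00 : PosD ⟨⟨0, 1, 1⟩, ⟨98, 99, 147⟩, ⟨4050, 7026, 30000⟩, ⟨1200, 1271, 1000⟩⟩ (tC24.hUm false false) :=
  posD_of_check (c := ⟨441, ⟨3, 8, 15, 11⟩⟩) (by decide +kernel)

def tC24_tmg00 : PosD ⟨⟨0, 1, 1⟩, ⟨98, 99, 147⟩, ⟨4050, 7026, 30000⟩, ⟨1200, 1271, 1000⟩⟩ (tC24.hTMG false (tC24.pEnd false)) :=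
  posD_of_check (c := ⟨400, ⟨2, 7, 14, 10⟩⟩) (by decide +kernel)

def tC24_tg01 : PosD ⟨⟨0, 1, 1⟩, ⟨98, 99, 147⟩, ⟨4050, 7026, 30000⟩, ⟨1200, 1271, 1000⟩⟩ (tC24.hG true (tC24.pEnd false)) :=
  posD_of_check (c := ⟨386, ⟨2, 7, 14, 9⟩⟩) (by decide +kernel)

def tC24_c2p01 : PosD ⟨⟨0, 1, 1⟩, ⟨98, 99, 147⟩, ⟨4050, 7026, 30000⟩, ⟨1200, 1271, 1000⟩⟩ (tC24.hC2p true (tC24.pEnd false)) :=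
  posD_of_check (c := ⟨454, ⟨3, 8, 16, 11⟩⟩) (by decide +kernel)

def tC24_c2m01 : PosD ⟨⟨0, 1, 1⟩, ⟨98, 99, 147⟩, ⟨4050, 7026, 30000⟩, ⟨1200, 1271, 1000⟩⟩ (tC24.hC2m true (tC24.pEnd false)) :=
  posD_of_check (c := ⟨455, ⟨3, 8, 16, 11⟩⟩) (by decide +kernel)

def tC24_c3p01 : PosD ⟨⟨0, 1, 1⟩, ⟨98, 99, 147⟩, ⟨4050, 7026, 30000⟩, ⟨1200, 1271, 1000⟩⟩ (tC24.hC3p false true) :=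
  posD_of_check (c := ⟨441, ⟨3, 8, 15, 11⟩⟩) (by decide +kernel)

def tC24_c3m01 : PosD ⟨⟨0, 1, 1⟩, ⟨98, 99, 147⟩, ⟨4050, 7026, 30000⟩, ⟨1200, 1271, 1000⟩⟩ (tC24.hC3m false true) :=
  posD_of_check (c := ⟨441, ⟨3, 8, 15, 11⟩⟩) (by decide +kernel)

def tC24_c3ph01 : PosD ⟨⟨0, 1, 1⟩, ⟨98, 99, 147⟩, ⟨4050, 7026, 30000⟩, ⟨1200, 1271, 1000⟩⟩ (tC24.hC3p' false true) :=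
  posD_of_check (c := ⟨441, ⟨3, 8, 15, 11⟩⟩) (by decide +kernel)

def tC24_c3mh01 : PosD ⟨⟨0, 1, 1⟩, ⟨98, 99, 147⟩, ⟨4050, 7026, 30000⟩, ⟨1200, 1271, 1000⟩⟩ (tC24.hC3m' false true) :=
  posD_of_check (c := ⟨441, ⟨3, 8, 15, 11⟩⟩) (by decide +kernel)

def tC24_up01 : PosD ⟨⟨0, 1, 1⟩, ⟨98, 99, 147⟩, ⟨4050, 7026, 30000⟩, ⟨1200, 1271, 1000⟩⟩ (tC24.hUp false true) :=
  posD_of_check (c := ⟨441, ⟨3, 8, 15, 11⟩⟩) (by decide +kernel)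

def tC24_um01 : PosD ⟨⟨0, 1, 1⟩, ⟨98, 99, 147⟩, ⟨4050, 7026, 30000⟩, ⟨1200, 1271, 1000⟩⟩ (tC24.hUm false true) :=
  posD_of_check (c := ⟨441, ⟨3, 8, 15, 11⟩⟩) (by decide +kernel)

def tC24_tmg01 : PosD ⟨⟨0, 1, 1⟩, ⟨98, 99, 147⟩, ⟨4050, 7026, 30000⟩, ⟨1200, 1271, 1000⟩⟩ (tC24.hTMG true (tC24.pEnd false)) :=
  posD_of_check (c := ⟨400, ⟨2, 7, 14, 10⟩⟩) (by decide +kernel)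

def tC24_kap1 : PosD ⟨⟨0, 1, 1⟩, ⟨98, 99, 147⟩, ⟨4050, 7026, 30000⟩, ⟨1200, 1271, 1000⟩⟩ (tC24.kap true) :=
  posD_of_check (c := ⟨70, ⟨1, 1, 2, 2⟩⟩) (by decide +kernel)

def tC24_c11 : PosD ⟨⟨0, 1, 1⟩, ⟨98, 99, 147⟩, ⟨4050, 7026, 30000⟩, ⟨1200, 1271, 1000⟩⟩ (tC24.hC1 true) :=
  posD_of_check (c := ⟨272, ⟨3, 5, 9, 7⟩⟩) (by decide +kernel)

def tC24_c1h1 : PosD ⟨⟨0, 1, 1⟩, ⟨98, 99, 147⟩, ⟨4050, 7026, 30000⟩, ⟨1200, 1271, 1000⟩⟩ (tC24.hC1' true) :=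
  posD_of_check (c := ⟨272, ⟨3, 5, 9, 7⟩⟩) (by decide +kernel)

def tC24_tg10 : PosD ⟨⟨0, 1, 1⟩, ⟨98, 99, 147⟩, ⟨4050, 7026, 30000⟩, ⟨1200, 1271, 1000⟩⟩ (tC24.hG false (tC24.pEnd true)) :=
  posD_of_check (c := ⟨385, ⟨2, 7, 14, 9⟩⟩) (by decide +kernel)

def tC24_c2p10 : PosD ⟨⟨0, 1, 1⟩, ⟨98, 99, 147⟩, ⟨4050, 7026, 30000⟩, ⟨1200, 1271, 1000⟩⟩ (tC24.hC2p false (tC24.pEnd true)) :=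
  posD_of_check (c := ⟨454, ⟨3, 8, 16, 11⟩⟩) (by decide +kernel)

def tC24_c2m10 : PosD ⟨⟨0, 1, 1⟩, ⟨98, 99, 147⟩, ⟨4050, 7026, 30000⟩, ⟨1200, 1271, 1000⟩⟩ (tC24.hC2m false (tC24.pEnd true)) :=
  posD_of_check (c := ⟨454, ⟨3, 8, 16, 11⟩⟩) (by decide +kernel)

def tC24_c3p10 : PosD ⟨⟨0, 1, 1⟩, ⟨98, 99, 147⟩, ⟨4050, 7026, 30000⟩, ⟨1200, 1271, 1000⟩⟩ (tC24.hC3p true false) :=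
  posD_of_check (c := ⟨442, ⟨3, 8, 15, 11⟩⟩) (by decide +kernel)

def tC24_c3m10 : PosD ⟨⟨0, 1, 1⟩, ⟨98, 99, 147⟩, ⟨4050, 7026, 30000⟩, ⟨1200, 1271, 1000⟩⟩ (tC24.hC3m true false) :=
  posD_of_check (c := ⟨442, ⟨3, 8, 15, 11⟩⟩) (by decide +kernel)

def tC24_c3ph10 : PosD ⟨⟨0, 1, 1⟩, ⟨98, 99, 147⟩, ⟨4050, 7026, 30000⟩, ⟨1200, 1271, 1000⟩⟩ (tC24.hC3p' true false) :=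
  posD_of_check (c := ⟨442, ⟨3, 8, 15, 11⟩⟩) (by decide +kernel)

def tC24_c3mh10 : PosD ⟨⟨0, 1, 1⟩, ⟨98, 99, 147⟩, ⟨4050, 7026, 30000⟩, ⟨1200, 1271, 1000⟩⟩ (tC24.hC3m' true false) :=
  posD_of_check (c := ⟨442, ⟨3, 8, 15, 11⟩⟩) (by decide +kernel)

def tC24_up10 : PosD ⟨⟨0, 1, 1⟩, ⟨98, 99, 147⟩, ⟨4050, 7026, 30000⟩, ⟨1200, 1271, 1000⟩⟩ (tC24.hUp true false) :=
  posD_of_check (c := ⟨440, ⟨3, 8, 15, 11⟩⟩) (by decide +kernel)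

def tC24_um10 : PosD ⟨⟨0, 1, 1⟩, ⟨98, 99, 147⟩, ⟨4050, 7026, 30000⟩, ⟨1200, 1271, 1000⟩⟩ (tC24.hUm true false) :=
  posD_of_check (c := ⟨440, ⟨3, 8, 15, 11⟩⟩) (by decide +kernel)

def tC24_tmg10 : PosD ⟨⟨0, 1, 1⟩, ⟨98, 99, 147⟩, ⟨4050, 7026, 30000⟩, ⟨1200, 1271, 1000⟩⟩ (tC24.hTMG false (tC24.pEnd true)) :=
  posD_of_check (c := ⟨399, ⟨2, 7, 14, 10⟩⟩) (by decide +kernel)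

def tC24_tg11 : PosD ⟨⟨0, 1, 1⟩, ⟨98, 99, 147⟩, ⟨4050, 7026, 30000⟩, ⟨1200, 1271, 1000⟩⟩ (tC24.hG true (tC24.pEnd true)) :=
  posD_of_check (c := ⟨385, ⟨2, 7, 14, 9⟩⟩) (by decide +kernel)

def tC24_c2p11 : PosD ⟨⟨0, 1, 1⟩, ⟨98, 99, 147⟩, ⟨4050, 7026, 30000⟩, ⟨1200, 1271, 1000⟩⟩ (tC24.hC2p true (tC24.pEnd true)) :=
  posD_of_check (c := ⟨454, ⟨3, 8, 16, 11⟩⟩) (by decide +kernel)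

def tC24_c2m11 : PosD ⟨⟨0, 1, 1⟩, ⟨98, 99, 147⟩, ⟨4050, 7026, 30000⟩, ⟨1200, 1271, 1000⟩⟩ (tC24.hC2m true (tC24.pEnd true)) :=
  posD_of_check (c := ⟨454, ⟨3, 8, 16, 11⟩⟩) (by decide +kernel)

def tC24_c3p11 : PosD ⟨⟨0, 1, 1⟩, ⟨98, 99, 147⟩, ⟨4050, 7026, 30000⟩, ⟨1200, 1271, 1000⟩⟩ (tC24.hC3p true true) :=
  posD_of_check (c := ⟨442, ⟨3, 8, 15, 11⟩⟩) (by decide +kernel)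

def tC24_c3m11 : PosD ⟨⟨0, 1, 1⟩, ⟨98, 99, 147⟩, ⟨4050, 7026, 30000⟩, ⟨1200, 1271, 1000⟩⟩ (tC24.hC3m true true) :=
  posD_of_check (c := ⟨442, ⟨3, 8, 15, 11⟩⟩) (by decide +kernel)

def tC24_c3ph11 : PosD ⟨⟨0, 1, 1⟩, ⟨98, 99, 147⟩, ⟨4050, 7026, 30000⟩, ⟨1200, 1271, 1000⟩⟩ (tC24.hC3p' true true) :=
  posD_of_check (c := ⟨442, ⟨3, 8, 15, 11⟩⟩) (by decide +kernel)

def tC24_c3mh11 : PosD ⟨⟨0, 1, 1⟩, ⟨98, 99, 147⟩, ⟨4050, 7026, 30000⟩, ⟨1200, 1271, 1000⟩⟩ (tC24.hC3m' true true) :=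
  posD_of_check (c := ⟨442, ⟨3, 8, 15, 11⟩⟩) (by decide +kernel)

def tC24_up11 : PosD ⟨⟨0, 1, 1⟩, ⟨98, 99, 147⟩, ⟨4050, 7026, 30000⟩, ⟨1200, 1271, 1000⟩⟩ (tC24.hUp true true) :=
  posD_of_check (c := ⟨440, ⟨3, 8, 15, 11⟩⟩) (by decide +kernel)

def tC24_um11 : PosD ⟨⟨0, 1, 1⟩, ⟨98, 99, 147⟩, ⟨4050, 7026, 30000⟩, ⟨1200, 1271, 1000⟩⟩ (tC24.hUm true true) :=
  posD_of_check (c := ⟨440, ⟨3, 8, 15, 11⟩⟩) (by decide +kernel)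

def tC24_tmg11 : PosD ⟨⟨0, 1, 1⟩, ⟨98, 99, 147⟩, ⟨4050, 7026, 30000⟩, ⟨1200, 1271, 1000⟩⟩ (tC24.hTMG true (tC24.pEnd true)) :=
  posD_of_check (c := ⟨399, ⟨2, 7, 14, 10⟩⟩) (by decide +kernel)

/-- The signs of the piece. -/
def tC24_sign : tC24.Sign ⟨⟨0, 1, 1⟩, ⟨98, 99, 147⟩, ⟨4050, 7026, 30000⟩, ⟨1200, 1271, 1000⟩⟩ :=
  ⟨tC24_pp,
    tC24_k2p,
    tC24_k2m,
    Bool.forall_bool.2 ⟨(Bool.forall_bool.2 ⟨tC24_tg00, tC24_tg01⟩), (Bool.forall_bool.2 ⟨tC24_tg10, tC24_tg11⟩)⟩,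
    Bool.forall_bool.2 ⟨(Bool.forall_bool.2 ⟨tC24_c2p00, tC24_c2p01⟩), (Bool.forall_bool.2 ⟨tC24_c2p10, tC24_c2p11⟩)⟩,
    Bool.forall_bool.2 ⟨(Bool.forall_bool.2 ⟨tC24_c2m00, tC24_c2m01⟩), (Bool.forall_bool.2 ⟨tC24_c2m10, tC24_c2m11⟩)⟩,
    Bool.forall_bool.2 ⟨tC24_kap0, tC24_kap1⟩,
    Bool.forall_bool.2 ⟨tC24_c10, tC24_c11⟩,
    Bool.forall_bool.2 ⟨(Bool.forall_bool.2 ⟨tC24_c3p00, tC24_c3p01⟩), (Bool.forall_bool.2 ⟨tC24_c3p10, tC24_c3p11⟩)⟩,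
    Bool.forall_bool.2 ⟨(Bool.forall_bool.2 ⟨tC24_c3m00, tC24_c3m01⟩), (Bool.forall_bool.2 ⟨tC24_c3m10, tC24_c3m11⟩)⟩,
    Bool.forall_bool.2 ⟨(Bool.forall_bool.2 ⟨tC24_tmg00, tC24_tmg01⟩), (Bool.forall_bool.2 ⟨tC24_tmg10, tC24_tmg11⟩)⟩,
    .inr (Bool.forall_bool.2 ⟨⟨tC24_c1h0, Bool.forall_bool.2 ⟨⟨tC24_c3ph00, tC24_c3mh00, tC24_up00, tC24_um00⟩, ⟨tC24_c3ph01, tC24_c3mh01, tC24_up01, tC24_um01⟩⟩⟩, ⟨tC24_c1h1, Bool.forall_bool.2 ⟨⟨tC24_c3ph10, tC24_c3mh10, tC24_up10, tC24_um10⟩, ⟨tC24_c3ph11, tC24_c3mh11, tC24_up11, tC24_um11⟩⟩⟩⟩),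
    tC24_v2p,
    tC24_v2m,
    tC24_v3p,
    tC24_v3m,
    posD_sub (b := ⟨⟨0, 1, 1⟩, ⟨98, 99, 147⟩, ⟨4050, 10000, 30000⟩, ⟨290, 4000, 1000⟩⟩) (by decide +kernel) tC_vG,
    posD_sub (b := ⟨⟨0, 1, 1⟩, ⟨98, 99, 147⟩, ⟨4050, 10000, 30000⟩, ⟨290, 4000, 1000⟩⟩) (by decide +kernel) tC_vMG,
    posD_sub (b := ⟨⟨0, 1, 1⟩, ⟨98, 99, 147⟩, ⟨4050, 10000, 30000⟩, ⟨290, 4000, 1000⟩⟩) (by decide +kernel) tC_ak,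
    posD_sub (b := ⟨⟨0, 1, 1⟩, ⟨98, 99, 147⟩, ⟨4050, 10000, 30000⟩, ⟨290, 4000, 1000⟩⟩) (by decide +kernel) tC_aw,
    posD_sub (b := ⟨⟨0, 1, 1⟩, ⟨98, 99, 147⟩, ⟨4050, 10000, 30000⟩, ⟨290, 4000, 1000⟩⟩) (by decide +kernel) tC_gk,
    posD_sub (b := ⟨⟨0, 1, 1⟩, ⟨98, 99, 147⟩, ⟨4050, 10000, 30000⟩, ⟨290, 4000, 1000⟩⟩) (by decide +kernel) tC_gw,
    posD_sub (b := ⟨⟨0, 1, 1⟩, ⟨98, 99, 147⟩, ⟨4050, 10000, 30000⟩, ⟨290, 4000, 1000⟩⟩) (by decide +kernel) tC_ek,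
    posD_sub (b := ⟨⟨0, 1, 1⟩, ⟨98, 99, 147⟩, ⟨4050, 10000, 30000⟩, ⟨290, 4000, 1000⟩⟩) (by decide +kernel) tC_ew⟩

end Vale.Agent.P100.Calib.Closed.Six.Tail
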