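import Vale.Agent.P100.Calib.SlabSixTailDataC
import Vale.Agent.P100.Calib.SlabSixTailGlobC

/-!
# Checks of some pieces of the certificate

The checks are written as definitions so that they run one after another, which keeps the memory of the
kernel low.
-/

set_option linter.defProp false

namespace Vale.Agent.P100.Calib.Closed.Six.Tail

open BoxPos Large

local instance sixTailCheckstC14Add : Add Ex := ⟨Ex.add⟩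
local instance sixTailCheckstC14Sub : Sub Ex := ⟨Ex.sub⟩
local instance sixTailCheckstC14Mul : Mul Ex := ⟨Ex.mul⟩

def tC25_phx : PosIf ⟨⟨0, 1, 1⟩, ⟨98, 99, 147⟩, ⟨7026, 8514, 30000⟩, ⟨1200, 1271, 1000⟩⟩ (tC25.u₁ - tC25Lo) (phCn (tC25.u₁ + xO * (tC25Lo - tC25.u₁))) :=
  posIf_of_posD (posD_of_check (c := ⟨108, ⟨2, 0, 4, 2⟩⟩) (by decide +kernel))

def tC25_phd : PosD ⟨⟨0, 1, 1⟩, ⟨98, 99, 147⟩, ⟨7026, 8514, 30000⟩, ⟨1200, 1271, 1000⟩⟩ (phCd (tC25.u₁ + xO * (tC25Lo - tC25.u₁))) :=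
  posD_of_check (c := ⟨51, ⟨1, 0, 2, 1⟩⟩) (by decide +kernel)

def tC25_p0 : PosD ⟨⟨0, 1, 1⟩, ⟨98, 99, 147⟩, ⟨7026, 8514, 30000⟩, ⟨1200, 1271, 1000⟩⟩ (tC25.hP0) :=
  posD_of_check (c := ⟨83, ⟨0, 2, 3, 1⟩⟩) (by decide +kernel)

def tC25_gn : PosD ⟨⟨0, 1, 1⟩, ⟨98, 99, 147⟩, ⟨7026, 8514, 30000⟩, ⟨1200, 1271, 1000⟩⟩ (tC25.hGn) :=
  posD_of_check (c := ⟨69, ⟨1, 1, 2, 2⟩⟩) (by decide +kernel)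

def tC25_den0 : PosD ⟨⟨0, 1, 1⟩, ⟨98, 99, 147⟩, ⟨7026, 8514, 30000⟩, ⟨1200, 1271, 1000⟩⟩ (tC25.hDen false) :=
  posD_of_check (c := ⟨51, ⟨1, 0, 2, 1⟩⟩) (by decide +kernel)

def tC25_den1 : PosD ⟨⟨0, 1, 1⟩, ⟨98, 99, 147⟩, ⟨7026, 8514, 30000⟩, ⟨1200, 1271, 1000⟩⟩ (tC25.hDen true) :=
  posD_of_check (c := ⟨51, ⟨1, 0, 2, 1⟩⟩) (by decide +kernel)

def tC25_ev0 : PosD ⟨⟨0, 1, 1⟩, ⟨98, 99, 147⟩, ⟨7026, 8514, 30000⟩, ⟨1200, 1271, 1000⟩⟩ (tC25.hEv false) :=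
  posD_of_check (c := ⟨219, ⟨4, 2, 8, 4⟩⟩) (by decide +kernel)

def tC25_zL0 : PosD ⟨⟨0, 1, 1⟩, ⟨98, 99, 147⟩, ⟨7026, 8514, 30000⟩, ⟨1200, 1271, 1000⟩⟩ (tC25.hZL false) :=
  posD_of_check (c := ⟨221, ⟨4, 3, 8, 4⟩⟩) (by decide +kernel)

def tC25_zU0 : PosD ⟨⟨0, 1, 1⟩, ⟨98, 99, 147⟩, ⟨7026, 8514, 30000⟩, ⟨1200, 1271, 1000⟩⟩ (tC25.hZU false) :=
  posD_of_check (c := ⟨221, ⟨4, 3, 8, 4⟩⟩) (by decide +kernel)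

def tC25_eL0 : PosD ⟨⟨0, 1, 1⟩, ⟨98, 99, 147⟩, ⟨7026, 8514, 30000⟩, ⟨1200, 1271, 1000⟩⟩ (tC25.hEL false) :=
  posD_of_check (c := ⟨314, ⟨5, 6, 11, 6⟩⟩) (by decide +kernel)

def tC25_eH0 : PosD ⟨⟨0, 1, 1⟩, ⟨98, 99, 147⟩, ⟨7026, 8514, 30000⟩, ⟨1200, 1271, 1000⟩⟩ (tC25.hEH false) :=
  posD_of_check (c := ⟨314, ⟨5, 6, 11, 6⟩⟩) (by decide +kernel)

def tC25_pL0 : PosD ⟨⟨0, 1, 1⟩, ⟨98, 99, 147⟩, ⟨7026, 8514, 30000⟩, ⟨1200, 1271, 1000⟩⟩ (tC25.hPL false) :=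
  posD_of_check (c := ⟨339, ⟨5, 6, 11, 7⟩⟩) (by decide +kernel)

def tC25_pU0 : PosD ⟨⟨0, 1, 1⟩, ⟨98, 99, 147⟩, ⟨7026, 8514, 30000⟩, ⟨1200, 1271, 1000⟩⟩ (tC25.hPU false) :=
  posD_of_check (c := ⟨339, ⟨5, 6, 11, 7⟩⟩) (by decide +kernel)

def tC25_kU0 : PosD ⟨⟨0, 1, 1⟩, ⟨98, 99, 147⟩, ⟨7026, 8514, 30000⟩, ⟨1200, 1271, 1000⟩⟩ (tC25.hKU false) :=
  posD_of_check (c := ⟨336, ⟨5, 6, 11, 7⟩⟩) (by decide +kernel)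

def tC25_kL0 : PosD ⟨⟨0, 1, 1⟩, ⟨98, 99, 147⟩, ⟨7026, 8514, 30000⟩, ⟨1200, 1271, 1000⟩⟩ (tC25.hKL false) :=
  posD_of_check (c := ⟨336, ⟨5, 6, 11, 7⟩⟩) (by decide +kernel)

def tC25_wU0 : PosD ⟨⟨0, 1, 1⟩, ⟨98, 99, 147⟩, ⟨7026, 8514, 30000⟩, ⟨1200, 1271, 1000⟩⟩ (tC25.hWU false) :=
  posD_of_check (c := ⟨371, ⟨5, 8, 12, 7⟩⟩) (by decide +kernel)

def tC25_wL0 : PosD ⟨⟨0, 1, 1⟩, ⟨98, 99, 147⟩, ⟨7026, 8514, 30000⟩, ⟨1200, 1271, 1000⟩⟩ (tC25.hWL false) :=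
  posD_of_check (c := ⟨370, ⟨5, 8, 12, 7⟩⟩) (by decide +kernel)

def tC25_ev1 : PosD ⟨⟨0, 1, 1⟩, ⟨98, 99, 147⟩, ⟨7026, 8514, 30000⟩, ⟨1200, 1271, 1000⟩⟩ (tC25.hEv true) :=
  posD_of_check (c := ⟨218, ⟨4, 2, 8, 4⟩⟩) (by decide +kernel)

def tC25_zL1 : PosD ⟨⟨0, 1, 1⟩, ⟨98, 99, 147⟩, ⟨7026, 8514, 30000⟩, ⟨1200, 1271, 1000⟩⟩ (tC25.hZL true) :=
  posD_of_check (c := ⟨220, ⟨4, 3, 8, 4⟩⟩) (by decide +kernel)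

def tC25_zU1 : PosD ⟨⟨0, 1, 1⟩, ⟨98, 99, 147⟩, ⟨7026, 8514, 30000⟩, ⟨1200, 1271, 1000⟩⟩ (tC25.hZU true) :=
  posD_of_check (c := ⟨220, ⟨4, 3, 8, 4⟩⟩) (by decide +kernel)

def tC25_eL1 : PosD ⟨⟨0, 1, 1⟩, ⟨98, 99, 147⟩, ⟨7026, 8514, 30000⟩, ⟨1200, 1271, 1000⟩⟩ (tC25.hEL true) :=
  posD_of_check (c := ⟨313, ⟨5, 6, 11, 6⟩⟩) (by decide +kernel)

def tC25_eH1 : PosD ⟨⟨0, 1, 1⟩, ⟨98, 99, 147⟩, ⟨7026, 8514, 30000⟩, ⟨1200, 1271, 1000⟩⟩ (tC25.hEH true) :=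
  posD_of_check (c := ⟨312, ⟨5, 6, 11, 6⟩⟩) (by decide +kernel)

def tC25_pL1 : PosD ⟨⟨0, 1, 1⟩, ⟨98, 99, 147⟩, ⟨7026, 8514, 30000⟩, ⟨1200, 1271, 1000⟩⟩ (tC25.hPL true) :=
  posD_of_check (c := ⟨338, ⟨5, 6, 11, 7⟩⟩) (by decide +kernel)

def tC25_pU1 : PosD ⟨⟨0, 1, 1⟩, ⟨98, 99, 147⟩, ⟨7026, 8514, 30000⟩, ⟨1200, 1271, 1000⟩⟩ (tC25.hPU true) :=
  posD_of_check (c := ⟨337, ⟨5, 6, 11, 7⟩⟩) (by decide +kernel)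

def tC25_kU1 : PosD ⟨⟨0, 1, 1⟩, ⟨98, 99, 147⟩, ⟨7026, 8514, 30000⟩, ⟨1200, 1271, 1000⟩⟩ (tC25.hKU true) :=
  posD_of_check (c := ⟨335, ⟨5, 6, 11, 7⟩⟩) (by decide +kernel)

def tC25_kL1 : PosD ⟨⟨0, 1, 1⟩, ⟨98, 99, 147⟩, ⟨7026, 8514, 30000⟩, ⟨1200, 1271, 1000⟩⟩ (tC25.hKL true) :=
  posD_of_check (c := ⟨335, ⟨5, 6, 11, 7⟩⟩) (by decide +kernel)

def tC25_wU1 : PosD ⟨⟨0, 1, 1⟩, ⟨98, 99, 147⟩, ⟨7026, 8514, 30000⟩, ⟨1200, 1271, 1000⟩⟩ (tC25.hWU true) :=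
  posD_of_check (c := ⟨369, ⟨5, 8, 12, 7⟩⟩) (by decide +kernel)

def tC25_wL1 : PosD ⟨⟨0, 1, 1⟩, ⟨98, 99, 147⟩, ⟨7026, 8514, 30000⟩, ⟨1200, 1271, 1000⟩⟩ (tC25.hWL true) :=
  posD_of_check (c := ⟨369, ⟨5, 8, 12, 7⟩⟩) (by decide +kernel)

/-- The bounds of the piece. -/
def tC25_env : tC25.Env ⟨⟨0, 1, 1⟩, ⟨98, 99, 147⟩, ⟨7026, 8514, 30000⟩, ⟨1200, 1271, 1000⟩⟩ :=
  ⟨tC25_p0, Bool.forall_bool.2 ⟨tC25_den0, tC25_den1⟩, tC25_gn, Bool.forall_bool.2 ⟨tC25_ev0, tC25_ev1⟩, Bool.forall_bool.2 ⟨tC25_zL0, tC25_zL1⟩, Bool.forall_bool.2 ⟨tC25_zU0, tC25_zU1⟩, Bool.forall_bool.2 ⟨tC25_eL0, tC25_eL1⟩, ⟨.inr rfl, .inr rfl⟩, Bool.forall_bool.2 ⟨tC25_eH0, tC25_eH1⟩, ⟨.inr rfl, .inr rfl⟩, Bool.forall_bool.2 ⟨tC25_pL0, tC25_pL1⟩, ⟨.inr rfl, .inr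 rfl⟩, Bool.forall_bool.2 ⟨tC25_pU0, tC25_pU1⟩, ⟨.inr rfl, .inr rfl⟩, Bool.forall_bool.2 ⟨tC25_kU0, tC25_kU1⟩, ⟨.inr rfl, .inr rfl⟩, Bool.forall_bool.2 ⟨tC25_kL0, tC25_kL1⟩, ⟨.inr rfl, .inr rfl⟩, Bool.forall_bool.2 ⟨tC25_wU0, tC25_wU1⟩, ⟨.inr rfl, .inr rfl⟩, Bool.forall_bool.2 ⟨tC25_wL0, tC25_wL1⟩, ⟨.inr rfl, .inr rfl⟩⟩

def tC25_pp : PosD ⟨⟨0, 1, 1⟩, ⟨98, 99, 147⟩, ⟨7026, 8514, 30000⟩, ⟨1200, 1271, 1000⟩⟩ (tC25.xPL) :=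
  posD_of_check (c := ⟨95, ⟨1, 1, 3, 3⟩⟩) (by decide +kernel)

def tC25_k2p : PosD ⟨⟨0, 1, 1⟩, ⟨98, 99, 147⟩, ⟨7026, 8514, 30000⟩, ⟨1200, 1271, 1000⟩⟩ (tC25.k2p tC25.xE) :=
  posD_of_check (c := ⟨70, ⟨1, 1, 2, 2⟩⟩) (by decide +kernel)

def tC25_k2m : PosD ⟨⟨0, 1, 1⟩, ⟨98, 99, 147⟩, ⟨7026, 8514, 30000⟩, ⟨1200, 1271, 1000⟩⟩ (tC25.k2m tC25.xE) :=
  posD_of_check (c := ⟨71, ⟨1, 1, 2, 2⟩⟩) (by decide +kernel)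

def tC25_v2p : PosD ⟨⟨0, 1, 1⟩, ⟨98, 99, 147⟩, ⟨7026, 8514, 30000⟩, ⟨1200, 1271, 1000⟩⟩ (tC25.hV2p) :=
  posD_of_check (c := ⟨271, ⟨1, 6, 10, 5⟩⟩) (by decide +kernel)

def tC25_v2m : PosD ⟨⟨0, 1, 1⟩, ⟨98, 99, 147⟩, ⟨7026, 8514, 30000⟩, ⟨1200, 1271, 1000⟩⟩ (tC25.hV2m) :=
  posD_of_check (c := ⟨272, ⟨1, 6, 10, 5⟩⟩) (by decide +kernel)

def tC25_v3p : PosD ⟨⟨0, 1, 1⟩, ⟨98, 99, 147⟩, ⟨7026, 8514, 30000⟩, ⟨1200, 1271, 1000⟩⟩ (tC25.hV3p) :=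
  posD_of_check (c := ⟨256, ⟨1, 6, 9, 5⟩⟩) (by decide +kernel)

def tC25_v3m : PosD ⟨⟨0, 1, 1⟩, ⟨98, 99, 147⟩, ⟨7026, 8514, 30000⟩, ⟨1200, 1271, 1000⟩⟩ (tC25.hV3m) :=
  posD_of_check (c := ⟨257, ⟨1, 6, 9, 5⟩⟩) (by decide +kernel)

def tC25_kap0 : PosD ⟨⟨0, 1, 1⟩, ⟨98, 99, 147⟩, ⟨7026, 8514, 30000⟩, ⟨1200, 1271, 1000⟩⟩ (tC25.kap false) :=
  posD_of_check (c := ⟨70, ⟨1, 1, 2, 2⟩⟩) (by decide +kernel)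

def tC25_c10 : PosD ⟨⟨0, 1, 1⟩, ⟨98, 99, 147⟩, ⟨7026, 8514, 30000⟩, ⟨1200, 1271, 1000⟩⟩ (tC25.hC1 false) :=
  posD_of_check (c := ⟨274, ⟨3, 5, 9, 7⟩⟩) (by decide +kernel)

def tC25_c1h0 : PosD ⟨⟨0, 1, 1⟩, ⟨98, 99, 147⟩, ⟨7026, 8514, 30000⟩, ⟨1200, 1271, 1000⟩⟩ (tC25.hC1' false) :=
  posD_of_check (c := ⟨274, ⟨3, 5, 9, 7⟩⟩) (by decide +kernel)

def tC25_tg00 : PosD ⟨⟨0, 1, 1⟩, ⟨98, 99, 147⟩, ⟨7026, 8514, 30000⟩, ⟨1200, 1271, 1000⟩⟩ (tC25.hG false (tC25.pEnd false)) :=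
  posD_of_check (c := ⟨387, ⟨2, 7, 14, 9⟩⟩) (by decide +kernel)

def tC25_c2p00 : PosD ⟨⟨0, 1, 1⟩, ⟨98, 99, 147⟩, ⟨7026, 8514, 30000⟩, ⟨1200, 1271, 1000⟩⟩ (tC25.hC2p false (tC25.pEnd false)) :=
  posD_of_check (c := ⟨457, ⟨3, 8, 16, 11⟩⟩) (by decide +kernel)

def tC25_c2m00 : PosD ⟨⟨0, 1, 1⟩, ⟨98, 99, 147⟩, ⟨7026, 8514, 30000⟩, ⟨1200, 1271, 1000⟩⟩ (tC25.hC2m false (tC25.pEnd false)) :=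
  posD_of_check (c := ⟨458, ⟨3, 8, 16, 11⟩⟩) (by decide +kernel)

def tC25_c3p00 : PosD ⟨⟨0, 1, 1⟩, ⟨98, 99, 147⟩, ⟨7026, 8514, 30000⟩, ⟨1200, 1271, 1000⟩⟩ (tC25.hC3p false false) :=
  posD_of_check (c := ⟨444, ⟨3, 8, 15, 11⟩⟩) (by decide +kernel)

def tC25_c3m00 : PosD ⟨⟨0, 1, 1⟩, ⟨98, 99, 147⟩, ⟨7026, 8514, 30000⟩, ⟨1200, 1271, 1000⟩⟩ (tC25.hC3m false false) :=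
  posD_of_check (c := ⟨444, ⟨3, 8, 15, 11⟩⟩) (by decide +kernel)

def tC25_c3ph00 : PosD ⟨⟨0, 1, 1⟩, ⟨98, 99, 147⟩, ⟨7026, 8514, 30000⟩, ⟨1200, 1271, 1000⟩⟩ (tC25.hC3p' false false) :=
  posD_of_check (c := ⟨444, ⟨3, 8, 15, 11⟩⟩) (by decide +kernel)

def tC25_c3mh00 : PosD ⟨⟨0, 1, 1⟩, ⟨98, 99, 147⟩, ⟨7026, 8514, 30000⟩, ⟨1200, 1271, 1000⟩⟩ (tC25.hC3m' false false) :=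
  posD_of_check (c := ⟨444, ⟨3, 8, 15, 11⟩⟩) (by decide +kernel)

def tC25_up00 : PosD ⟨⟨0, 1, 1⟩, ⟨98, 99, 147⟩, ⟨7026, 8514, 30000⟩, ⟨1200, 1271, 1000⟩⟩ (tC25.hUp false false) :=
  posD_of_check (c := ⟨443, ⟨3, 8, 15, 11⟩⟩) (by decide +kernel)

def tC25_um00 : PosD ⟨⟨0, 1, 1⟩, ⟨98, 99, 147⟩, ⟨7026, 8514, 30000⟩, ⟨1200, 1271, 1000⟩⟩ (tC25.hUm false false) :=
  posD_of_check (c := ⟨444, ⟨3, 8, 15, 11⟩⟩) (by decide +kernel)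

def tC25_tmg00 : PosD ⟨⟨0, 1, 1⟩, ⟨98, 99, 147⟩, ⟨7026, 8514, 30000⟩, ⟨1200, 1271, 1000⟩⟩ (tC25.hTMG false (tC25.pEnd false)) :=
  posD_of_check (c := ⟨401, ⟨2, 7, 14, 10⟩⟩) (by decide +kernel)

def tC25_tg01 : PosD ⟨⟨0, 1, 1⟩, ⟨98, 99, 147⟩, ⟨7026, 8514, 30000⟩, ⟨1200, 1271, 1000⟩⟩ (tC25.hG true (tC25.pEnd false)) :=
  posD_of_check (c := ⟨387, ⟨2, 7, 14, 9⟩⟩) (by decide +kernel)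

def tC25_c2p01 : PosD ⟨⟨0, 1, 1⟩, ⟨98, 99, 147⟩, ⟨7026, 8514, 30000⟩, ⟨1200, 1271, 1000⟩⟩ (tC25.hC2p true (tC25.pEnd false)) :=
  posD_of_check (c := ⟨457, ⟨3, 8, 16, 11⟩⟩) (by decide +kernel)

def tC25_c2m01 : PosD ⟨⟨0, 1, 1⟩, ⟨98, 99, 147⟩, ⟨7026, 8514, 30000⟩, ⟨1200, 1271, 1000⟩⟩ (tC25.hC2m true (tC25.pEnd false)) :=
  posD_of_check (c := ⟨458, ⟨3, 8, 16, 11⟩⟩) (by decide +kernel)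

def tC25_c3p01 : PosD ⟨⟨0, 1, 1⟩, ⟨98, 99, 147⟩, ⟨7026, 8514, 30000⟩, ⟨1200, 1271, 1000⟩⟩ (tC25.hC3p false true) :=
  posD_of_check (c := ⟨444, ⟨3, 8, 15, 11⟩⟩) (by decide +kernel)

def tC25_c3m01 : PosD ⟨⟨0, 1, 1⟩, ⟨98, 99, 147⟩, ⟨7026, 8514, 30000⟩, ⟨1200, 1271, 1000⟩⟩ (tC25.hC3m false true) :=
  posD_of_check (c := ⟨444, ⟨3, 8, 15, 11⟩⟩) (by decide +kernel)

def tC25_c3ph01 : PosD ⟨⟨0, 1, 1⟩, ⟨98, 99, 147⟩, ⟨7026, 8514, 30000⟩, ⟨1200, 1271, 1000⟩⟩ (tC25.hC3p' false true) :=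
  posD_of_check (c := ⟨444, ⟨3, 8, 15, 11⟩⟩) (by decide +kernel)

def tC25_c3mh01 : PosD ⟨⟨0, 1, 1⟩, ⟨98, 99, 147⟩, ⟨7026, 8514, 30000⟩, ⟨1200, 1271, 1000⟩⟩ (tC25.hC3m' false true) :=
  posD_of_check (c := ⟨444, ⟨3, 8, 15, 11⟩⟩) (by decide +kernel)

def tC25_up01 : PosD ⟨⟨0, 1, 1⟩, ⟨98, 99, 147⟩, ⟨7026, 8514, 30000⟩, ⟨1200, 1271, 1000⟩⟩ (tC25.hUp false true) :=
  posD_of_check (c := ⟨443, ⟨3, 8, 15, 11⟩⟩) (by decide +kernel)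

def tC25_um01 : PosD ⟨⟨0, 1, 1⟩, ⟨98, 99, 147⟩, ⟨7026, 8514, 30000⟩, ⟨1200, 1271, 1000⟩⟩ (tC25.hUm false true) :=
  posD_of_check (c := ⟨444, ⟨3, 8, 15, 11⟩⟩) (by decide +kernel)

def tC25_tmg01 : PosD ⟨⟨0, 1, 1⟩, ⟨98, 99, 147⟩, ⟨7026, 8514, 30000⟩, ⟨1200, 1271, 1000⟩⟩ (tC25.hTMG true (tC25.pEnd false)) :=
  posD_of_check (c := ⟨401, ⟨2, 7, 14, 10⟩⟩) (by decide +kernel)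

def tC25_kap1 : PosD ⟨⟨0, 1, 1⟩, ⟨98, 99, 147⟩, ⟨7026, 8514, 30000⟩, ⟨1200, 1271, 1000⟩⟩ (tC25.kap true) :=
  posD_of_check (c := ⟨73, ⟨1, 1, 2, 2⟩⟩) (by decide +kernel)

def tC25_c11 : PosD ⟨⟨0, 1, 1⟩, ⟨98, 99, 147⟩, ⟨7026, 8514, 30000⟩, ⟨1200, 1271, 1000⟩⟩ (tC25.hC1 true) :=
  posD_of_check (c := ⟨276, ⟨3, 5, 9, 7⟩⟩) (by decide +kernel)

def tC25_c1h1 : PosD ⟨⟨0, 1, 1⟩, ⟨98, 99, 147⟩, ⟨7026, 8514, 30000⟩, ⟨1200, 1271, 1000⟩⟩ (tC25.hC1' true) :=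
  posD_of_check (c := ⟨276, ⟨3, 5, 9, 7⟩⟩) (by decide +kernel)

def tC25_tg10 : PosD ⟨⟨0, 1, 1⟩, ⟨98, 99, 147⟩, ⟨7026, 8514, 30000⟩, ⟨1200, 1271, 1000⟩⟩ (tC25.hG false (tC25.pEnd true)) :=
  posD_of_check (c := ⟨386, ⟨2, 7, 14, 9⟩⟩) (by decide +kernel)

def tC25_c2p10 : PosD ⟨⟨0, 1, 1⟩, ⟨98, 99, 147⟩, ⟨7026, 8514, 30000⟩, ⟨1200, 1271, 1000⟩⟩ (tC25.hC2p false (tC25.pEnd true)) :=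
  posD_of_check (c := ⟨456, ⟨3, 8, 16, 11⟩⟩) (by decide +kernel)

def tC25_c2m10 : PosD ⟨⟨0, 1, 1⟩, ⟨98, 99, 147⟩, ⟨7026, 8514, 30000⟩, ⟨1200, 1271, 1000⟩⟩ (tC25.hC2m false (tC25.pEnd true)) :=
  posD_of_check (c := ⟨457, ⟨3, 8, 16, 11⟩⟩) (by decide +kernel)

def tC25_c3p10 : PosD ⟨⟨0, 1, 1⟩, ⟨98, 99, 147⟩, ⟨7026, 8514, 30000⟩, ⟨1200, 1271, 1000⟩⟩ (tC25.hC3p true false) :=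
  posD_of_check (c := ⟨446, ⟨3, 8, 15, 11⟩⟩) (by decide +kernel)

def tC25_c3m10 : PosD ⟨⟨0, 1, 1⟩, ⟨98, 99, 147⟩, ⟨7026, 8514, 30000⟩, ⟨1200, 1271, 1000⟩⟩ (tC25.hC3m true false) :=
  posD_of_check (c := ⟨446, ⟨3, 8, 15, 11⟩⟩) (by decide +kernel)

def tC25_c3ph10 : PosD ⟨⟨0, 1, 1⟩, ⟨98, 99, 147⟩, ⟨7026, 8514, 30000⟩, ⟨1200, 1271, 1000⟩⟩ (tC25.hC3p' true false) :=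
  posD_of_check (c := ⟨446, ⟨3, 8, 15, 11⟩⟩) (by decide +kernel)

def tC25_c3mh10 : PosD ⟨⟨0, 1, 1⟩, ⟨98, 99, 147⟩, ⟨7026, 8514, 30000⟩, ⟨1200, 1271, 1000⟩⟩ (tC25.hC3m' true false) :=
  posD_of_check (c := ⟨446, ⟨3, 8, 15, 11⟩⟩) (by decide +kernel)

def tC25_up10 : PosD ⟨⟨0, 1, 1⟩, ⟨98, 99, 147⟩, ⟨7026, 8514, 30000⟩, ⟨1200, 1271, 1000⟩⟩ (tC25.hUp true false) :=
  posD_of_check (c := ⟨442, ⟨3, 8, 15, 11⟩⟩) (by decide +kernel)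

def tC25_um10 : PosD ⟨⟨0, 1, 1⟩, ⟨98, 99, 147⟩, ⟨7026, 8514, 30000⟩, ⟨1200, 1271, 1000⟩⟩ (tC25.hUm true false) :=
  posD_of_check (c := ⟨443, ⟨3, 8, 15, 11⟩⟩) (by decide +kernel)

def tC25_tmg10 : PosD ⟨⟨0, 1, 1⟩, ⟨98, 99, 147⟩, ⟨7026, 8514, 30000⟩, ⟨1200, 1271, 1000⟩⟩ (tC25.hTMG false (tC25.pEnd true)) :=
  posD_of_check (c := ⟨401, ⟨2, 7, 14, 10⟩⟩) (by decide +kernel)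

def tC25_tg11 : PosD ⟨⟨0, 1, 1⟩, ⟨98, 99, 147⟩, ⟨7026, 8514, 30000⟩, ⟨1200, 1271, 1000⟩⟩ (tC25.hG true (tC25.pEnd true)) :=
  posD_of_check (c := ⟨386, ⟨2, 7, 14, 9⟩⟩) (by decide +kernel)

def tC25_c2p11 : PosD ⟨⟨0, 1, 1⟩, ⟨98, 99, 147⟩, ⟨7026, 8514, 30000⟩, ⟨1200, 1271, 1000⟩⟩ (tC25.hC2p true (tC25.pEnd true)) :=
  posD_of_check (c := ⟨456, ⟨3, 8, 16, 11⟩⟩) (by decide +kernel)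

def tC25_c2m11 : PosD ⟨⟨0, 1, 1⟩, ⟨98, 99, 147⟩, ⟨7026, 8514, 30000⟩, ⟨1200, 1271, 1000⟩⟩ (tC25.hC2m true (tC25.pEnd true)) :=
  posD_of_check (c := ⟨457, ⟨3, 8, 16, 11⟩⟩) (by decide +kernel)

def tC25_c3p11 : PosD ⟨⟨0, 1, 1⟩, ⟨98, 99, 147⟩, ⟨7026, 8514, 30000⟩, ⟨1200, 1271, 1000⟩⟩ (tC25.hC3p true true) :=
  posD_of_check (c := ⟨446, ⟨3, 8, 15, 11⟩⟩) (by decide +kernel)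

def tC25_c3m11 : PosD ⟨⟨0, 1, 1⟩, ⟨98, 99, 147⟩, ⟨7026, 8514, 30000⟩, ⟨1200, 1271, 1000⟩⟩ (tC25.hC3m true true) :=
  posD_of_check (c := ⟨446, ⟨3, 8, 15, 11⟩⟩) (by decide +kernel)

def tC25_c3ph11 : PosD ⟨⟨0, 1, 1⟩, ⟨98, 99, 147⟩, ⟨7026, 8514, 30000⟩, ⟨1200, 1271, 1000⟩⟩ (tC25.hC3p' true true) :=
  posD_of_check (c := ⟨446, ⟨3, 8, 15, 11⟩⟩) (by decide +kernel)

def tC25_c3mh11 : PosD ⟨⟨0, 1, 1⟩, ⟨98, 99, 147⟩, ⟨7026, 8514, 30000⟩, ⟨1200, 1271, 1000⟩⟩ (tC25.hC3m' true true) :=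
  posD_of_check (c := ⟨446, ⟨3, 8, 15, 11⟩⟩) (by decide +kernel)

def tC25_up11 : PosD ⟨⟨0, 1, 1⟩, ⟨98, 99, 147⟩, ⟨7026, 8514, 30000⟩, ⟨1200, 1271, 1000⟩⟩ (tC25.hUp true true) :=
  posD_of_check (c := ⟨442, ⟨3, 8, 15, 11⟩⟩) (by decide +kernel)

def tC25_um11 : PosD ⟨⟨0, 1, 1⟩, ⟨98, 99, 147⟩, ⟨7026, 8514, 30000⟩, ⟨1200, 1271, 1000⟩⟩ (tC25.hUm true true) :=
  posD_of_check (c := ⟨443, ⟨3, 8, 15, 11⟩⟩) (by decide +kernel)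

def tC25_tmg11 : PosD ⟨⟨0, 1, 1⟩, ⟨98, 99, 147⟩, ⟨7026, 8514, 30000⟩, ⟨1200, 1271, 1000⟩⟩ (tC25.hTMG true (tC25.pEnd true)) :=
  posD_of_check (c := ⟨401, ⟨2, 7, 14, 10⟩⟩) (by decide +kernel)

/-- The signs of the piece. -/
def tC25_sign : tC25.Sign ⟨⟨0, 1, 1⟩, ⟨98, 99, 147⟩, ⟨7026, 8514, 30000⟩, ⟨1200, 1271, 1000⟩⟩ :=
  ⟨tC25_pp,
    tC25_k2p,
    tC25_k2m,
    Bool.forall_bool.2 ⟨(Bool.forall_bool.2 ⟨tC25_tg00, tC25_tg01⟩), (Bool.forall_bool.2 ⟨tC25_tg10, tC25_tg11⟩)⟩,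
    Bool.forall_bool.2 ⟨(Bool.forall_bool.2 ⟨tC25_c2p00, tC25_c2p01⟩), (Bool.forall_bool.2 ⟨tC25_c2p10, tC25_c2p11⟩)⟩,
    Bool.forall_bool.2 ⟨(Bool.forall_bool.2 ⟨tC25_c2m00, tC25_c2m01⟩), (Bool.forall_bool.2 ⟨tC25_c2m10, tC25_c2m11⟩)⟩,
    Bool.forall_bool.2 ⟨tC25_kap0, tC25_kap1⟩,
    Bool.forall_bool.2 ⟨tC25_c10, tC25_c11⟩,
    Bool.forall_bool.2 ⟨(Bool.forall_bool.2 ⟨tC25_c3p00, tC25_c3p01⟩), (Bool.forall_bool.2 ⟨tC25_c3p10, tC25_c3p11⟩)⟩,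
    Bool.forall_bool.2 ⟨(Bool.forall_bool.2 ⟨tC25_c3m00, tC25_c3m01⟩), (Bool.forall_bool.2 ⟨tC25_c3m10, tC25_c3m11⟩)⟩,
    Bool.forall_bool.2 ⟨(Bool.forall_bool.2 ⟨tC25_tmg00, tC25_tmg01⟩), (Bool.forall_bool.2 ⟨tC25_tmg10, tC25_tmg11⟩)⟩,
    .inr (Bool.forall_bool.2 ⟨⟨tC25_c1h0, Bool.forall_bool.2 ⟨⟨tC25_c3ph00, tC25_c3mh00, tC25_up00, tC25_um00⟩, ⟨tC25_c3ph01, tC25_c3mh01, tC25_up01, tC25_um01⟩⟩⟩, ⟨tC25_c1h1, Bool.forall_bool.2 ⟨⟨tC25_c3ph10, tC25_c3mh10, tC25_up10, tC25_um10⟩, ⟨tC25_c3ph11, tC25_c3mh11, tC25_up11, tC25_um11⟩⟩⟩⟩),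
    tC25_v2p,
    tC25_v2m,
    tC25_v3p,
    tC25_v3m,
    posD_sub (b := ⟨⟨0, 1, 1⟩, ⟨98, 99, 147⟩, ⟨4050, 10000, 30000⟩, ⟨290, 4000, 1000⟩⟩) (by decide +kernel) tC_vG,
    posD_sub (b := ⟨⟨0, 1, 1⟩, ⟨98, 99, 147⟩, ⟨4050, 10000, 30000⟩, ⟨290, 4000, 1000⟩⟩) (by decide +kernel) tC_vMG,
    posD_sub (b := ⟨⟨0, 1, 1⟩, ⟨98, 99, 147⟩, ⟨4050, 10000, 30000⟩, ⟨290, 4000, 1000⟩⟩) (by decide +kernel) tC_ak,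
    posD_sub (b := ⟨⟨0, 1, 1⟩, ⟨98, 99, 147⟩, ⟨4050, 10000, 30000⟩, ⟨290, 4000, 1000⟩⟩) (by decide +kernel) tC_aw,
    posD_sub (b := ⟨⟨0, 1, 1⟩, ⟨98, 99, 147⟩, ⟨4050, 10000, 30000⟩, ⟨290, 4000, 1000⟩⟩) (by decide +kernel) tC_gk,
    posD_sub (b := ⟨⟨0, 1, 1⟩, ⟨98, 99, 147⟩, ⟨4050, 10000, 30000⟩, ⟨290, 4000, 1000⟩⟩) (by decide +kernel) tC_gw,
    posD_sub (b := ⟨⟨0, 1, 1⟩, ⟨98, 99, 147⟩, ⟨4050, 10000, 30000⟩, ⟨290, 4000, 1000⟩⟩) (by decide +kernel) tC_ek,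
    posD_sub (b := ⟨⟨0, 1, 1⟩, ⟨98, 99, 147⟩, ⟨4050, 10000, 30000⟩, ⟨290, 4000, 1000⟩⟩) (by decide +kernel) tC_ew⟩

end Vale.Agent.P100.Calib.Closed.Six.Tail
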