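import Vale.Agent.P100.Calib.SlabSixTailDataC
import Vale.Agent.P100.Calib.SlabSixTailGlobC

/-!
# Checks of some pieces of the certificate

The checks are written as definitions so that they run one after another, which keeps the memory of the
kernel low.
-/

set_option linter.defProp false

namespace Vale.Agent.P100.Calib.Closed.Six.Tail

open BoxPos Large

local instance sixTailCheckstC15Add : Add Ex := ⟨Ex.add⟩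
local instance sixTailCheckstC15Sub : Sub Ex := ⟨Ex.sub⟩
local instance sixTailCheckstC15Mul : Mul Ex := ⟨Ex.mul⟩

def tC26_phx : PosIf ⟨⟨0, 1, 1⟩, ⟨98, 99, 147⟩, ⟨8514, 9258, 30000⟩, ⟨1200, 1271, 1000⟩⟩ (tC26.u₁ - tC26Lo) (phCn (tC26.u₁ + xO * (tC26Lo - tC26.u₁))) :=
  posIf_of_posD (posD_of_check (c := ⟨109, ⟨2, 0, 4, 2⟩⟩) (by decide +kernel))

def tC26_phd : PosD ⟨⟨0, 1, 1⟩, ⟨98, 99, 147⟩, ⟨8514, 9258, 30000⟩, ⟨1200, 1271, 1000⟩⟩ (phCd (tC26.u₁ + xO * (tC26Lo - tC26.u₁))) :=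
  posD_of_check (c := ⟨51, ⟨1, 0, 2, 1⟩⟩) (by decide +kernel)

def tC26_p0 : PosD ⟨⟨0, 1, 1⟩, ⟨98, 99, 147⟩, ⟨8514, 9258, 30000⟩, ⟨1200, 1271, 1000⟩⟩ (tC26.hP0) :=
  posD_of_check (c := ⟨83, ⟨0, 2, 3, 1⟩⟩) (by decide +kernel)

def tC26_gn : PosD ⟨⟨0, 1, 1⟩, ⟨98, 99, 147⟩, ⟨8514, 9258, 30000⟩, ⟨1200, 1271, 1000⟩⟩ (tC26.hGn) :=
  posD_of_check (c := ⟨69, ⟨1, 1, 2, 2⟩⟩) (by decide +kernel)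

def tC26_den0 : PosD ⟨⟨0, 1, 1⟩, ⟨98, 99, 147⟩, ⟨8514, 9258, 30000⟩, ⟨1200, 1271, 1000⟩⟩ (tC26.hDen false) :=
  posD_of_check (c := ⟨51, ⟨1, 0, 2, 1⟩⟩) (by decide +kernel)

def tC26_den1 : PosD ⟨⟨0, 1, 1⟩, ⟨98, 99, 147⟩, ⟨8514, 9258, 30000⟩, ⟨1200, 1271, 1000⟩⟩ (tC26.hDen true) :=
  posD_of_check (c := ⟨51, ⟨1, 0, 2, 1⟩⟩) (by decide +kernel)

def tC26_ev0 : PosD ⟨⟨0, 1, 1⟩, ⟨98, 99, 147⟩, ⟨8514, 9258, 30000⟩, ⟨1200, 1271, 1000⟩⟩ (tC26.hEv false) :=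
  posD_of_check (c := ⟨220, ⟨4, 2, 8, 4⟩⟩) (by decide +kernel)

def tC26_zL0 : PosD ⟨⟨0, 1, 1⟩, ⟨98, 99, 147⟩, ⟨8514, 9258, 30000⟩, ⟨1200, 1271, 1000⟩⟩ (tC26.hZL false) :=
  posD_of_check (c := ⟨222, ⟨4, 3, 8, 4⟩⟩) (by decide +kernel)

def tC26_zU0 : PosD ⟨⟨0, 1, 1⟩, ⟨98, 99, 147⟩, ⟨8514, 9258, 30000⟩, ⟨1200, 1271, 1000⟩⟩ (tC26.hZU false) :=
  posD_of_check (c := ⟨222, ⟨4, 3, 8, 4⟩⟩) (by decide +kernel)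

def tC26_eL0 : PosD ⟨⟨0, 1, 1⟩, ⟨98, 99, 147⟩, ⟨8514, 9258, 30000⟩, ⟨1200, 1271, 1000⟩⟩ (tC26.hEL false) :=
  posD_of_check (c := ⟨315, ⟨5, 6, 11, 6⟩⟩) (by decide +kernel)

def tC26_eH0 : PosD ⟨⟨0, 1, 1⟩, ⟨98, 99, 147⟩, ⟨8514, 9258, 30000⟩, ⟨1200, 1271, 1000⟩⟩ (tC26.hEH false) :=
  posD_of_check (c := ⟨314, ⟨5, 6, 11, 6⟩⟩) (by decide +kernel)

def tC26_pL0 : PosD ⟨⟨0, 1, 1⟩, ⟨98, 99, 147⟩, ⟨8514, 9258, 30000⟩, ⟨1200, 1271, 1000⟩⟩ (tC26.hPL false) :=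
  posD_of_check (c := ⟨340, ⟨5, 6, 11, 7⟩⟩) (by decide +kernel)

def tC26_pU0 : PosD ⟨⟨0, 1, 1⟩, ⟨98, 99, 147⟩, ⟨8514, 9258, 30000⟩, ⟨1200, 1271, 1000⟩⟩ (tC26.hPU false) :=
  posD_of_check (c := ⟨341, ⟨5, 6, 11, 7⟩⟩) (by decide +kernel)

def tC26_kU0 : PosD ⟨⟨0, 1, 1⟩, ⟨98, 99, 147⟩, ⟨8514, 9258, 30000⟩, ⟨1200, 1271, 1000⟩⟩ (tC26.hKU false) :=
  posD_of_check (c := ⟨337, ⟨5, 6, 11, 7⟩⟩) (by decide +kernel)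

def tC26_kL0 : PosD ⟨⟨0, 1, 1⟩, ⟨98, 99, 147⟩, ⟨8514, 9258, 30000⟩, ⟨1200, 1271, 1000⟩⟩ (tC26.hKL false) :=
  posD_of_check (c := ⟨337, ⟨5, 6, 11, 7⟩⟩) (by decide +kernel)

def tC26_wU0 : PosD ⟨⟨0, 1, 1⟩, ⟨98, 99, 147⟩, ⟨8514, 9258, 30000⟩, ⟨1200, 1271, 1000⟩⟩ (tC26.hWU false) :=
  posD_of_check (c := ⟨371, ⟨5, 8, 12, 7⟩⟩) (by decide +kernel)

def tC26_wL0 : PosD ⟨⟨0, 1, 1⟩, ⟨98, 99, 147⟩, ⟨8514, 9258, 30000⟩, ⟨1200, 1271, 1000⟩⟩ (tC26.hWL false) :=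
  posD_of_check (c := ⟨371, ⟨5, 8, 12, 7⟩⟩) (by decide +kernel)

def tC26_ev1 : PosD ⟨⟨0, 1, 1⟩, ⟨98, 99, 147⟩, ⟨8514, 9258, 30000⟩, ⟨1200, 1271, 1000⟩⟩ (tC26.hEv true) :=
  posD_of_check (c := ⟨218, ⟨4, 2, 8, 4⟩⟩) (by decide +kernel)

def tC26_zL1 : PosD ⟨⟨0, 1, 1⟩, ⟨98, 99, 147⟩, ⟨8514, 9258, 30000⟩, ⟨1200, 1271, 1000⟩⟩ (tC26.hZL true) :=
  posD_of_check (c := ⟨220, ⟨4, 3, 8, 4⟩⟩) (by decide +kernel)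

def tC26_zU1 : PosD ⟨⟨0, 1, 1⟩, ⟨98, 99, 147⟩, ⟨8514, 9258, 30000⟩, ⟨1200, 1271, 1000⟩⟩ (tC26.hZU true) :=
  posD_of_check (c := ⟨220, ⟨4, 3, 8, 4⟩⟩) (by decide +kernel)

def tC26_eL1 : PosD ⟨⟨0, 1, 1⟩, ⟨98, 99, 147⟩, ⟨8514, 9258, 30000⟩, ⟨1200, 1271, 1000⟩⟩ (tC26.hEL true) :=
  posD_of_check (c := ⟨314, ⟨5, 6, 11, 6⟩⟩) (by decide +kernel)

def tC26_eH1 : PosD ⟨⟨0, 1, 1⟩, ⟨98, 99, 147⟩, ⟨8514, 9258, 30000⟩, ⟨1200, 1271, 1000⟩⟩ (tC26.hEH true) :=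
  posD_of_check (c := ⟨313, ⟨5, 6, 11, 6⟩⟩) (by decide +kernel)

def tC26_pL1 : PosD ⟨⟨0, 1, 1⟩, ⟨98, 99, 147⟩, ⟨8514, 9258, 30000⟩, ⟨1200, 1271, 1000⟩⟩ (tC26.hPL true) :=
  posD_of_check (c := ⟨338, ⟨5, 6, 11, 7⟩⟩) (by decide +kernel)

def tC26_pU1 : PosD ⟨⟨0, 1, 1⟩, ⟨98, 99, 147⟩, ⟨8514, 9258, 30000⟩, ⟨1200, 1271, 1000⟩⟩ (tC26.hPU true) :=
  posD_of_check (c := ⟨340, ⟨5, 6, 11, 7⟩⟩) (by decide +kernel)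

def tC26_kU1 : PosD ⟨⟨0, 1, 1⟩, ⟨98, 99, 147⟩, ⟨8514, 9258, 30000⟩, ⟨1200, 1271, 1000⟩⟩ (tC26.hKU true) :=
  posD_of_check (c := ⟨336, ⟨5, 6, 11, 7⟩⟩) (by decide +kernel)

def tC26_kL1 : PosD ⟨⟨0, 1, 1⟩, ⟨98, 99, 147⟩, ⟨8514, 9258, 30000⟩, ⟨1200, 1271, 1000⟩⟩ (tC26.hKL true) :=
  posD_of_check (c := ⟨335, ⟨5, 6, 11, 7⟩⟩) (by decide +kernel)

def tC26_wU1 : PosD ⟨⟨0, 1, 1⟩, ⟨98, 99, 147⟩, ⟨8514, 9258, 30000⟩, ⟨1200, 1271, 1000⟩⟩ (tC26.hWU true) :=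
  posD_of_check (c := ⟨369, ⟨5, 8, 12, 7⟩⟩) (by decide +kernel)

def tC26_wL1 : PosD ⟨⟨0, 1, 1⟩, ⟨98, 99, 147⟩, ⟨8514, 9258, 30000⟩, ⟨1200, 1271, 1000⟩⟩ (tC26.hWL true) :=
  posD_of_check (c := ⟨370, ⟨5, 8, 12, 7⟩⟩) (by decide +kernel)

def tC26_mupL : PosD ⟨⟨0, 1, 1⟩, ⟨98, 99, 147⟩, ⟨8514, 9258, 30000⟩, ⟨1200, 1271, 1000⟩⟩ (tC26.pL.μ) :=
  posD_of_check (c := ⟨12, ⟨0, 0, 0, 0⟩⟩) (by decide +kernel)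

/-- The bounds of the piece. -/
def tC26_env : tC26.Env ⟨⟨0, 1, 1⟩, ⟨98, 99, 147⟩, ⟨8514, 9258, 30000⟩, ⟨1200, 1271, 1000⟩⟩ :=
  ⟨tC26_p0, Bool.forall_bool.2 ⟨tC26_den0, tC26_den1⟩, tC26_gn, Bool.forall_bool.2 ⟨tC26_ev0, tC26_ev1⟩, Bool.forall_bool.2 ⟨tC26_zL0, tC26_zL1⟩, Bool.forall_bool.2 ⟨tC26_zU0, tC26_zU1⟩, Bool.forall_bool.2 ⟨tC26_eL0, tC26_eL1⟩, ⟨.inr rfl, .inr rfl⟩, Bool.forall_bool.2 ⟨tC26_eH0, tC26_eH1⟩, ⟨.inr rfl, .inr rfl⟩, Bool.forall_bool.2 ⟨tC26_pL0, tC26_pL1⟩, ⟨.inl tC26_mupL, .inr rfl⟩, Bool.forall_bool.2 ⟨tC26_pU0, tC26_pU1⟩, ⟨.inr rfl, .inr rfl⟩, Bool.forall_bool.2 ⟨tC26_kU0, tC26_kU1⟩, ⟨.inr rfl, .inr rfl⟩, Bool.forall_bool.2 ⟨tC26_kL0, tC26_kL1⟩, ⟨.inr rfl, .inr rfl⟩, Bool.forall_bool.2 ⟨tC26_wU0, tC26_wU1⟩,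 ⟨.inr rfl, .inr rfl⟩, Bool.forall_bool.2 ⟨tC26_wL0, tC26_wL1⟩, ⟨.inr rfl, .inr rfl⟩⟩

def tC26_pU20 : PosD ⟨⟨0, 1, 1⟩, ⟨98, 99, 147⟩, ⟨8514, 9258, 30000⟩, ⟨1200, 1271, 1000⟩⟩ (({ tC26 with pU := tC26PU } : Piece).hPU false) :=
  posD_of_check (c := ⟨339, ⟨5, 6, 11, 7⟩⟩) (by decide +kernel)

def tC26_pU21 : PosD ⟨⟨0, 1, 1⟩, ⟨98, 99, 147⟩, ⟨8514, 9258, 30000⟩, ⟨1200, 1271, 1000⟩⟩ (({ tC26 with pU := tC26PU } : Piece).hPU true) :=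
  posD_of_check (c := ⟨338, ⟨5, 6, 11, 7⟩⟩) (by decide +kernel)

/-- The bounds with the other bound of `p`. -/
def tC26_envU : ({ tC26 with pU := tC26PU } : Piece).Env ⟨⟨0, 1, 1⟩, ⟨98, 99, 147⟩, ⟨8514, 9258, 30000⟩, ⟨1200, 1271, 1000⟩⟩ :=
  tC26_env.withU tC26PU (Bool.forall_bool.2 ⟨tC26_pU20, tC26_pU21⟩) ⟨.inr rfl, .inr rfl⟩

def tC26A_pp : PosD ⟨⟨0, 1, 1⟩, ⟨98, 99, 147⟩, ⟨8514, 9258, 30000⟩, ⟨1200, 1271, 1000⟩⟩ (tC26A.xPL) :=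
  posD_of_check (c := ⟨96, ⟨1, 1, 3, 3⟩⟩) (by decide +kernel)

def tC26A_k2p : PosD ⟨⟨0, 1, 1⟩, ⟨98, 99, 147⟩, ⟨8514, 9258, 30000⟩, ⟨1200, 1271, 1000⟩⟩ (tC26A.k2p tC26A.xE) :=
  posD_of_check (c := ⟨73, ⟨1, 1, 2, 2⟩⟩) (by decide +kernel)

def tC26A_k2m : PosD ⟨⟨0, 1, 1⟩, ⟨98, 99, 147⟩, ⟨8514, 9258, 30000⟩, ⟨1200, 1271, 1000⟩⟩ (tC26A.k2m tC26A.xE) :=
  posD_of_check (c := ⟨73, ⟨1, 1, 2, 2⟩⟩) (by decide +kernel)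

def tC26A_v2p : PosD ⟨⟨0, 1, 1⟩, ⟨98, 99, 147⟩, ⟨8514, 9258, 30000⟩, ⟨1200, 1271, 1000⟩⟩ (tC26A.hV2p) :=
  posD_of_check (c := ⟨274, ⟨1, 6, 10, 5⟩⟩) (by decide +kernel)

def tC26A_v2m : PosD ⟨⟨0, 1, 1⟩, ⟨98, 99, 147⟩, ⟨8514, 9258, 30000⟩, ⟨1200, 1271, 1000⟩⟩ (tC26A.hV2m) :=
  posD_of_check (c := ⟨274, ⟨1, 6, 10, 5⟩⟩) (by decide +kernel)

def tC26A_v3p : PosD ⟨⟨0, 1, 1⟩, ⟨98, 99, 147⟩, ⟨8514, 9258, 30000⟩, ⟨1200, 1271, 1000⟩⟩ (tC26A.hV3p) :=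
  posD_of_check (c := ⟨259, ⟨1, 6, 9, 5⟩⟩) (by decide +kernel)

def tC26A_v3m : PosD ⟨⟨0, 1, 1⟩, ⟨98, 99, 147⟩, ⟨8514, 9258, 30000⟩, ⟨1200, 1271, 1000⟩⟩ (tC26A.hV3m) :=
  posD_of_check (c := ⟨258, ⟨1, 6, 9, 5⟩⟩) (by decide +kernel)

def tC26A_kap0 : PosD ⟨⟨0, 1, 1⟩, ⟨98, 99, 147⟩, ⟨8514, 9258, 30000⟩, ⟨1200, 1271, 1000⟩⟩ (tC26A.kap false) :=
  posD_of_check (c := ⟨70, ⟨1, 1, 2, 2⟩⟩) (by decide +kernel)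

def tC26A_c10 : PosD ⟨⟨0, 1, 1⟩, ⟨98, 99, 147⟩, ⟨8514, 9258, 30000⟩, ⟨1200, 1271, 1000⟩⟩ (tC26A.hC1 false) :=
  posD_of_check (c := ⟨274, ⟨3, 5, 9, 7⟩⟩) (by decide +kernel)

def tC26A_c1h0 : PosD ⟨⟨0, 1, 1⟩, ⟨98, 99, 147⟩, ⟨8514, 9258, 30000⟩, ⟨1200, 1271, 1000⟩⟩ (tC26A.hC1' false) :=
  posD_of_check (c := ⟨274, ⟨3, 5, 9, 7⟩⟩) (by decide +kernel)

def tC26A_tg00 : PosD ⟨⟨0, 1, 1⟩, ⟨98, 99, 147⟩, ⟨8514, 9258, 30000⟩, ⟨1200, 1271, 1000⟩⟩ (tC26A.hG false (tC26A.pEnd false)) :=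
  posD_of_check (c := ⟨388, ⟨2, 7, 14, 9⟩⟩) (by decide +kernel)

def tC26A_c2p00 : PosD ⟨⟨0, 1, 1⟩, ⟨98, 99, 147⟩, ⟨8514, 9258, 30000⟩, ⟨1200, 1271, 1000⟩⟩ (tC26A.hC2p false (tC26A.pEnd false)) :=
  posD_of_check (c := ⟨461, ⟨3, 8, 16, 11⟩⟩) (by decide +kernel)

def tC26A_c2m00 : PosD ⟨⟨0, 1, 1⟩, ⟨98, 99, 147⟩, ⟨8514, 9258, 30000⟩, ⟨1200, 1271, 1000⟩⟩ (tC26A.hC2m false (tC26A.pEnd false)) :=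
  posD_of_check (c := ⟨460, ⟨3, 8, 16, 11⟩⟩) (by decide +kernel)

def tC26A_c3p00 : PosD ⟨⟨0, 1, 1⟩, ⟨98, 99, 147⟩, ⟨8514, 9258, 30000⟩, ⟨1200, 1271, 1000⟩⟩ (tC26A.hC3p false false) :=
  posD_of_check (c := ⟨446, ⟨3, 8, 15, 11⟩⟩) (by decide +kernel)

def tC26A_c3m00 : PosD ⟨⟨0, 1, 1⟩, ⟨98, 99, 147⟩, ⟨8514, 9258, 30000⟩, ⟨1200, 1271, 1000⟩⟩ (tC26A.hC3m false false) :=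
  posD_of_check (c := ⟨446, ⟨3, 8, 15, 11⟩⟩) (by decide +kernel)

def tC26A_c3ph00 : PosD ⟨⟨0, 1, 1⟩, ⟨98, 99, 147⟩, ⟨8514, 9258, 30000⟩, ⟨1200, 1271, 1000⟩⟩ (tC26A.hC3p' false false) :=
  posD_of_check (c := ⟨446, ⟨3, 8, 15, 11⟩⟩) (by decide +kernel)

def tC26A_c3mh00 : PosD ⟨⟨0, 1, 1⟩, ⟨98, 99, 147⟩, ⟨8514, 9258, 30000⟩, ⟨1200, 1271, 1000⟩⟩ (tC26A.hC3m' false false) :=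
  posD_of_check (c := ⟨446, ⟨3, 8, 15, 11⟩⟩) (by decide +kernel)

def tC26A_up00 : PosD ⟨⟨0, 1, 1⟩, ⟨98, 99, 147⟩, ⟨8514, 9258, 30000⟩, ⟨1200, 1271, 1000⟩⟩ (tC26A.hUp false false) :=
  posD_of_check (c := ⟨446, ⟨3, 8, 15, 11⟩⟩) (by decide +kernel)

def tC26A_um00 : PosD ⟨⟨0, 1, 1⟩, ⟨98, 99, 147⟩, ⟨8514, 9258, 30000⟩, ⟨1200, 1271, 1000⟩⟩ (tC26A.hUm false false) :=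
  posD_of_check (c := ⟨445, ⟨3, 8, 15, 11⟩⟩) (by decide +kernel)

def tC26A_tmg00 : PosD ⟨⟨0, 1, 1⟩, ⟨98, 99, 147⟩, ⟨8514, 9258, 30000⟩, ⟨1200, 1271, 1000⟩⟩ (tC26A.hTMG false (tC26A.pEnd false)) :=
  posD_of_check (c := ⟨402, ⟨2, 7, 14, 10⟩⟩) (by decide +kernel)

def tC26A_tg01 : PosD ⟨⟨0, 1, 1⟩, ⟨98, 99, 147⟩, ⟨8514, 9258, 30000⟩, ⟨1200, 1271, 1000⟩⟩ (tC26A.hG true (tC26A.pEnd false)) :=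
  posD_of_check (c := ⟨388, ⟨2, 7, 14, 9⟩⟩) (by decide +kernel)

def tC26A_c2p01 : PosD ⟨⟨0, 1, 1⟩, ⟨98, 99, 147⟩, ⟨8514, 9258, 30000⟩, ⟨1200, 1271, 1000⟩⟩ (tC26A.hC2p true (tC26A.pEnd false)) :=
  posD_of_check (c := ⟨461, ⟨3, 8, 16, 11⟩⟩) (by decide +kernel)

def tC26A_c2m01 : PosD ⟨⟨0, 1, 1⟩, ⟨98, 99, 147⟩, ⟨8514, 9258, 30000⟩, ⟨1200, 1271, 1000⟩⟩ (tC26A.hC2m true (tC26A.pEnd false)) :=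
  posD_of_check (c := ⟨460, ⟨3, 8, 16, 11⟩⟩) (by decide +kernel)

def tC26A_c3p01 : PosD ⟨⟨0, 1, 1⟩, ⟨98, 99, 147⟩, ⟨8514, 9258, 30000⟩, ⟨1200, 1271, 1000⟩⟩ (tC26A.hC3p false true) :=
  posD_of_check (c := ⟨446, ⟨3, 8, 15, 11⟩⟩) (by decide +kernel)

def tC26A_c3m01 : PosD ⟨⟨0, 1, 1⟩, ⟨98, 99, 147⟩, ⟨8514, 9258, 30000⟩, ⟨1200, 1271, 1000⟩⟩ (tC26A.hC3m false true) :=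
  posD_of_check (c := ⟨446, ⟨3, 8, 15, 11⟩⟩) (by decide +kernel)

def tC26A_c3ph01 : PosD ⟨⟨0, 1, 1⟩, ⟨98, 99, 147⟩, ⟨8514, 9258, 30000⟩, ⟨1200, 1271, 1000⟩⟩ (tC26A.hC3p' false true) :=
  posD_of_check (c := ⟨446, ⟨3, 8, 15, 11⟩⟩) (by decide +kernel)

def tC26A_c3mh01 : PosD ⟨⟨0, 1, 1⟩, ⟨98, 99, 147⟩, ⟨8514, 9258, 30000⟩, ⟨1200, 1271, 1000⟩⟩ (tC26A.hC3m' false true) :=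
  posD_of_check (c := ⟨446, ⟨3, 8, 15, 11⟩⟩) (by decide +kernel)

def tC26A_up01 : PosD ⟨⟨0, 1, 1⟩, ⟨98, 99, 147⟩, ⟨8514, 9258, 30000⟩, ⟨1200, 1271, 1000⟩⟩ (tC26A.hUp false true) :=
  posD_of_check (c := ⟨446, ⟨3, 8, 15, 11⟩⟩) (by decide +kernel)

def tC26A_um01 : PosD ⟨⟨0, 1, 1⟩, ⟨98, 99, 147⟩, ⟨8514, 9258, 30000⟩, ⟨1200, 1271, 1000⟩⟩ (tC26A.hUm false true) :=
  posD_of_check (c := ⟨446, ⟨3, 8, 15, 11⟩⟩) (by decide +kernel)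

def tC26A_tmg01 : PosD ⟨⟨0, 1, 1⟩, ⟨98, 99, 147⟩, ⟨8514, 9258, 30000⟩, ⟨1200, 1271, 1000⟩⟩ (tC26A.hTMG true (tC26A.pEnd false)) :=
  posD_of_check (c := ⟨402, ⟨2, 7, 14, 10⟩⟩) (by decide +kernel)

def tC26A_kap1 : PosD ⟨⟨0, 1, 1⟩, ⟨98, 99, 147⟩, ⟨8514, 9258, 30000⟩, ⟨1200, 1271, 1000⟩⟩ (tC26A.kap true) :=
  posD_of_check (c := ⟨73, ⟨1, 1, 2, 2⟩⟩) (by decide +kernel)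

def tC26A_c11 : PosD ⟨⟨0, 1, 1⟩, ⟨98, 99, 147⟩, ⟨8514, 9258, 30000⟩, ⟨1200, 1271, 1000⟩⟩ (tC26A.hC1 true) :=
  posD_of_check (c := ⟨279, ⟨3, 5, 9, 7⟩⟩) (by decide +kernel)

def tC26A_c1h1 : PosD ⟨⟨0, 1, 1⟩, ⟨98, 99, 147⟩, ⟨8514, 9258, 30000⟩, ⟨1200, 1271, 1000⟩⟩ (tC26A.hC1' true) :=
  posD_of_check (c := ⟨279, ⟨3, 5, 9, 7⟩⟩) (by decide +kernel)

def tC26A_tg10 : PosD ⟨⟨0, 1, 1⟩, ⟨98, 99, 147⟩, ⟨8514, 9258, 30000⟩, ⟨1200, 1271, 1000⟩⟩ (tC26A.hG false (tC26A.pEnd true)) :=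
  posD_of_check (c := ⟨392, ⟨2, 7, 14, 9⟩⟩) (by decide +kernel)

def tC26A_c2p10 : PosD ⟨⟨0, 1, 1⟩, ⟨98, 99, 147⟩, ⟨8514, 9258, 30000⟩, ⟨1200, 1271, 1000⟩⟩ (tC26A.hC2p false (tC26A.pEnd true)) :=
  posD_of_check (c := ⟨465, ⟨3, 8, 16, 11⟩⟩) (by decide +kernel)

def tC26A_c2m10 : PosD ⟨⟨0, 1, 1⟩, ⟨98, 99, 147⟩, ⟨8514, 9258, 30000⟩, ⟨1200, 1271, 1000⟩⟩ (tC26A.hC2m false (tC26A.pEnd true)) :=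
  posD_of_check (c := ⟨464, ⟨3, 8, 16, 11⟩⟩) (by decide +kernel)

def tC26A_c3p10 : PosD ⟨⟨0, 1, 1⟩, ⟨98, 99, 147⟩, ⟨8514, 9258, 30000⟩, ⟨1200, 1271, 1000⟩⟩ (tC26A.hC3p true false) :=
  posD_of_check (c := ⟨450, ⟨3, 8, 15, 11⟩⟩) (by decide +kernel)

def tC26A_c3m10 : PosD ⟨⟨0, 1, 1⟩, ⟨98, 99, 147⟩, ⟨8514, 9258, 30000⟩, ⟨1200, 1271, 1000⟩⟩ (tC26A.hC3m true false) :=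
  posD_of_check (c := ⟨450, ⟨3, 8, 15, 11⟩⟩) (by decide +kernel)

def tC26A_c3ph10 : PosD ⟨⟨0, 1, 1⟩, ⟨98, 99, 147⟩, ⟨8514, 9258, 30000⟩, ⟨1200, 1271, 1000⟩⟩ (tC26A.hC3p' true false) :=
  posD_of_check (c := ⟨450, ⟨3, 8, 15, 11⟩⟩) (by decide +kernel)

def tC26A_c3mh10 : PosD ⟨⟨0, 1, 1⟩, ⟨98, 99, 147⟩, ⟨8514, 9258, 30000⟩, ⟨1200, 1271, 1000⟩⟩ (tC26A.hC3m' true false) :=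
  posD_of_check (c := ⟨450, ⟨3, 8, 15, 11⟩⟩) (by decide +kernel)

def tC26A_up10 : PosD ⟨⟨0, 1, 1⟩, ⟨98, 99, 147⟩, ⟨8514, 9258, 30000⟩, ⟨1200, 1271, 1000⟩⟩ (tC26A.hUp true false) :=
  posD_of_check (c := ⟨449, ⟨3, 8, 15, 11⟩⟩) (by decide +kernel)

def tC26A_um10 : PosD ⟨⟨0, 1, 1⟩, ⟨98, 99, 147⟩, ⟨8514, 9258, 30000⟩, ⟨1200, 1271, 1000⟩⟩ (tC26A.hUm true false) :=
  posD_of_check (c := ⟨449, ⟨3, 8, 15, 11⟩⟩) (by decide +kernel)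

def tC26A_tmg10 : PosD ⟨⟨0, 1, 1⟩, ⟨98, 99, 147⟩, ⟨8514, 9258, 30000⟩, ⟨1200, 1271, 1000⟩⟩ (tC26A.hTMG false (tC26A.pEnd true)) :=
  posD_of_check (c := ⟨405, ⟨2, 7, 14, 10⟩⟩) (by decide +kernel)

def tC26A_tg11 : PosD ⟨⟨0, 1, 1⟩, ⟨98, 99, 147⟩, ⟨8514, 9258, 30000⟩, ⟨1200, 1271, 1000⟩⟩ (tC26A.hG true (tC26A.pEnd true)) :=
  posD_of_check (c := ⟨392, ⟨2, 7, 14, 9⟩⟩) (by decide +kernel)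

def tC26A_c2p11 : PosD ⟨⟨0, 1, 1⟩, ⟨98, 99, 147⟩, ⟨8514, 9258, 30000⟩, ⟨1200, 1271, 1000⟩⟩ (tC26A.hC2p true (tC26A.pEnd true)) :=
  posD_of_check (c := ⟨465, ⟨3, 8, 16, 11⟩⟩) (by decide +kernel)

def tC26A_c2m11 : PosD ⟨⟨0, 1, 1⟩, ⟨98, 99, 147⟩, ⟨8514, 9258, 30000⟩, ⟨1200, 1271, 1000⟩⟩ (tC26A.hC2m true (tC26A.pEnd true)) :=
  posD_of_check (c := ⟨464, ⟨3, 8, 16, 11⟩⟩) (by decide +kernel)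

def tC26A_c3p11 : PosD ⟨⟨0, 1, 1⟩, ⟨98, 99, 147⟩, ⟨8514, 9258, 30000⟩, ⟨1200, 1271, 1000⟩⟩ (tC26A.hC3p true true) :=
  posD_of_check (c := ⟨450, ⟨3, 8, 15, 11⟩⟩) (by decide +kernel)

def tC26A_c3m11 : PosD ⟨⟨0, 1, 1⟩, ⟨98, 99, 147⟩, ⟨8514, 9258, 30000⟩, ⟨1200, 1271, 1000⟩⟩ (tC26A.hC3m true true) :=
  posD_of_check (c := ⟨450, ⟨3, 8, 15, 11⟩⟩) (by decide +kernel)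

def tC26A_c3ph11 : PosD ⟨⟨0, 1, 1⟩, ⟨98, 99, 147⟩, ⟨8514, 9258, 30000⟩, ⟨1200, 1271, 1000⟩⟩ (tC26A.hC3p' true true) :=
  posD_of_check (c := ⟨450, ⟨3, 8, 15, 11⟩⟩) (by decide +kernel)

def tC26A_c3mh11 : PosD ⟨⟨0, 1, 1⟩, ⟨98, 99, 147⟩, ⟨8514, 9258, 30000⟩, ⟨1200, 1271, 1000⟩⟩ (tC26A.hC3m' true true) :=
  posD_of_check (c := ⟨450, ⟨3, 8, 15, 11⟩⟩) (by decide +kernel)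

def tC26A_up11 : PosD ⟨⟨0, 1, 1⟩, ⟨98, 99, 147⟩, ⟨8514, 9258, 30000⟩, ⟨1200, 1271, 1000⟩⟩ (tC26A.hUp true true) :=
  posD_of_check (c := ⟨449, ⟨3, 8, 15, 11⟩⟩) (by decide +kernel)

def tC26A_um11 : PosD ⟨⟨0, 1, 1⟩, ⟨98, 99, 147⟩, ⟨8514, 9258, 30000⟩, ⟨1200, 1271, 1000⟩⟩ (tC26A.hUm true true) :=
  posD_of_check (c := ⟨449, ⟨3, 8, 15, 11⟩⟩) (by decide +kernel)

def tC26A_tmg11 : PosD ⟨⟨0, 1, 1⟩, ⟨98, 99, 147⟩, ⟨8514, 9258, 30000⟩, ⟨1200, 1271, 1000⟩⟩ (tC26A.hTMG true (tC26A.pEnd true)) :=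
  posD_of_check (c := ⟨405, ⟨2, 7, 14, 10⟩⟩) (by decide +kernel)

/-- The signs of the piece. -/
def tC26A_sign : tC26A.Sign ⟨⟨0, 1, 1⟩, ⟨98, 99, 147⟩, ⟨8514, 9258, 30000⟩, ⟨1200, 1271, 1000⟩⟩ :=
  ⟨tC26A_pp,
    tC26A_k2p,
    tC26A_k2m,
    Bool.forall_bool.2 ⟨(Bool.forall_bool.2 ⟨tC26A_tg00, tC26A_tg01⟩), (Bool.forall_bool.2 ⟨tC26A_tg10, tC26A_tg11⟩)⟩,
    Bool.forall_bool.2 ⟨(Bool.forall_bool.2 ⟨tC26A_c2p00, tC26A_c2p01⟩), (Bool.forall_bool.2 ⟨tC26A_c2p10, tC26A_c2p11⟩)⟩,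
    Bool.forall_bool.2 ⟨(Bool.forall_bool.2 ⟨tC26A_c2m00, tC26A_c2m01⟩), (Bool.forall_bool.2 ⟨tC26A_c2m10, tC26A_c2m11⟩)⟩,
    Bool.forall_bool.2 ⟨tC26A_kap0, tC26A_kap1⟩,
    Bool.forall_bool.2 ⟨tC26A_c10, tC26A_c11⟩,
    Bool.forall_bool.2 ⟨(Bool.forall_bool.2 ⟨tC26A_c3p00, tC26A_c3p01⟩), (Bool.forall_bool.2 ⟨tC26A_c3p10, tC26A_c3p11⟩)⟩,
    Bool.forall_bool.2 ⟨(Bool.forall_bool.2 ⟨tC26A_c3m00, tC26A_c3m01⟩), (Bool.forall_bool.2 ⟨tC26A_c3m10, tC26A_c3m11⟩)⟩,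
    Bool.forall_bool.2 ⟨(Bool.forall_bool.2 ⟨tC26A_tmg00, tC26A_tmg01⟩), (Bool.forall_bool.2 ⟨tC26A_tmg10, tC26A_tmg11⟩)⟩,
    .inr (Bool.forall_bool.2 ⟨⟨tC26A_c1h0, Bool.forall_bool.2 ⟨⟨tC26A_c3ph00, tC26A_c3mh00, tC26A_up00, tC26A_um00⟩, ⟨tC26A_c3ph01, tC26A_c3mh01, tC26A_up01, tC26A_um01⟩⟩⟩, ⟨tC26A_c1h1, Bool.forall_bool.2 ⟨⟨tC26A_c3ph10, tC26A_c3mh10, tC26A_up10, tC26A_um10⟩, ⟨tC26A_c3ph11, tC26A_c3mh11, tC26A_up11, tC26A_um11⟩⟩⟩⟩),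
    tC26A_v2p,
    tC26A_v2m,
    tC26A_v3p,
    tC26A_v3m,
    posD_sub (b := ⟨⟨0, 1, 1⟩, ⟨98, 99, 147⟩, ⟨4050, 10000, 30000⟩, ⟨290, 4000, 1000⟩⟩) (by decide +kernel) tC_vG,
    posD_sub (b := ⟨⟨0, 1, 1⟩, ⟨98, 99, 147⟩, ⟨4050, 10000, 30000⟩, ⟨290, 4000, 1000⟩⟩) (by decide +kernel) tC_vMG,
    posD_sub (b := ⟨⟨0, 1, 1⟩, ⟨98, 99, 147⟩, ⟨4050, 10000, 30000⟩, ⟨290, 4000, 1000⟩⟩) (by decide +kernel) tC_ak,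
    posD_sub (b := ⟨⟨0, 1, 1⟩, ⟨98, 99, 147⟩, ⟨4050, 10000, 30000⟩, ⟨290, 4000, 1000⟩⟩) (by decide +kernel) tC_aw,
    posD_sub (b := ⟨⟨0, 1, 1⟩, ⟨98, 99, 147⟩, ⟨4050, 10000, 30000⟩, ⟨290, 4000, 1000⟩⟩) (by decide +kernel) tC_gk,
    posD_sub (b := ⟨⟨0, 1, 1⟩, ⟨98, 99, 147⟩, ⟨4050, 10000, 30000⟩, ⟨290, 4000, 1000⟩⟩) (by decide +kernel) tC_gw,
    posD_sub (b := ⟨⟨0, 1, 1⟩, ⟨98, 99, 147⟩, ⟨4050, 10000, 30000⟩, ⟨290, 4000, 1000⟩⟩) (by decide +kernel) tC_ek,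
    posD_sub (b := ⟨⟨0, 1, 1⟩, ⟨98, 99, 147⟩, ⟨4050, 10000, 30000⟩, ⟨290, 4000, 1000⟩⟩) (by decide +kernel) tC_ew⟩

def tC26B_pp : PosD ⟨⟨0, 1, 1⟩, ⟨98, 99, 147⟩, ⟨8514, 9258, 30000⟩, ⟨1200, 1271, 1000⟩⟩ (tC26B.xPL) :=
  posD_of_check (c := ⟨95, ⟨1, 1, 3, 3⟩⟩) (by decide +kernel)

def tC26B_k2p : PosD ⟨⟨0, 1, 1⟩, ⟨98, 99, 147⟩, ⟨8514, 9258, 30000⟩, ⟨1200, 1271, 1000⟩⟩ (tC26B.k2p tC26B.xE) :=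
  posD_of_check (c := ⟨72, ⟨1, 1, 2, 2⟩⟩) (by decide +kernel)

def tC26B_k2m : PosD ⟨⟨0, 1, 1⟩, ⟨98, 99, 147⟩, ⟨8514, 9258, 30000⟩, ⟨1200, 1271, 1000⟩⟩ (tC26B.k2m tC26B.xE) :=
  posD_of_check (c := ⟨73, ⟨1, 1, 2, 2⟩⟩) (by decide +kernel)

def tC26B_v2p : PosD ⟨⟨0, 1, 1⟩, ⟨98, 99, 147⟩, ⟨8514, 9258, 30000⟩, ⟨1200, 1271, 1000⟩⟩ (tC26B.hV2p) :=
  posD_of_check (c := ⟨273, ⟨1, 6, 10, 5⟩⟩) (by decide +kernel)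

def tC26B_v2m : PosD ⟨⟨0, 1, 1⟩, ⟨98, 99, 147⟩, ⟨8514, 9258, 30000⟩, ⟨1200, 1271, 1000⟩⟩ (tC26B.hV2m) :=
  posD_of_check (c := ⟨274, ⟨1, 6, 10, 5⟩⟩) (by decide +kernel)

def tC26B_v3p : PosD ⟨⟨0, 1, 1⟩, ⟨98, 99, 147⟩, ⟨8514, 9258, 30000⟩, ⟨1200, 1271, 1000⟩⟩ (tC26B.hV3p) :=
  posD_of_check (c := ⟨257, ⟨1, 6, 9, 5⟩⟩) (by decide +kernel)

def tC26B_v3m : PosD ⟨⟨0, 1, 1⟩, ⟨98, 99, 147⟩, ⟨8514, 9258, 30000⟩, ⟨1200, 1271, 1000⟩⟩ (tC26B.hV3m) :=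
  posD_of_check (c := ⟨259, ⟨1, 6, 9, 5⟩⟩) (by decide +kernel)

def tC26B_kap0 : PosD ⟨⟨0, 1, 1⟩, ⟨98, 99, 147⟩, ⟨8514, 9258, 30000⟩, ⟨1200, 1271, 1000⟩⟩ (tC26B.kap false) :=
  posD_of_check (c := ⟨71, ⟨1, 1, 2, 2⟩⟩) (by decide +kernel)

def tC26B_c10 : PosD ⟨⟨0, 1, 1⟩, ⟨98, 99, 147⟩, ⟨8514, 9258, 30000⟩, ⟨1200, 1271, 1000⟩⟩ (tC26B.hC1 false) :=
  posD_of_check (c := ⟨274, ⟨3, 5, 9, 7⟩⟩) (by decide +kernel)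

def tC26B_c1h0 : PosD ⟨⟨0, 1, 1⟩, ⟨98, 99, 147⟩, ⟨8514, 9258, 30000⟩, ⟨1200, 1271, 1000⟩⟩ (tC26B.hC1' false) :=
  posD_of_check (c := ⟨274, ⟨3, 5, 9, 7⟩⟩) (by decide +kernel)

def tC26B_tg00 : PosD ⟨⟨0, 1, 1⟩, ⟨98, 99, 147⟩, ⟨8514, 9258, 30000⟩, ⟨1200, 1271, 1000⟩⟩ (tC26B.hG false (tC26B.pEnd false)) :=
  posD_of_check (c := ⟨387, ⟨2, 7, 14, 9⟩⟩) (by decide +kernel)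

def tC26B_c2p00 : PosD ⟨⟨0, 1, 1⟩, ⟨98, 99, 147⟩, ⟨8514, 9258, 30000⟩, ⟨1200, 1271, 1000⟩⟩ (tC26B.hC2p false (tC26B.pEnd false)) :=
  posD_of_check (c := ⟨459, ⟨3, 8, 16, 11⟩⟩) (by decide +kernel)

def tC26B_c2m00 : PosD ⟨⟨0, 1, 1⟩, ⟨98, 99, 147⟩, ⟨8514, 9258, 30000⟩, ⟨1200, 1271, 1000⟩⟩ (tC26B.hC2m false (tC26B.pEnd false)) :=
  posD_of_check (c := ⟨460, ⟨3, 8, 16, 11⟩⟩) (by decide +kernel)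

def tC26B_c3p00 : PosD ⟨⟨0, 1, 1⟩, ⟨98, 99, 147⟩, ⟨8514, 9258, 30000⟩, ⟨1200, 1271, 1000⟩⟩ (tC26B.hC3p false false) :=
  posD_of_check (c := ⟨445, ⟨3, 8, 15, 11⟩⟩) (by decide +kernel)

def tC26B_c3m00 : PosD ⟨⟨0, 1, 1⟩, ⟨98, 99, 147⟩, ⟨8514, 9258, 30000⟩, ⟨1200, 1271, 1000⟩⟩ (tC26B.hC3m false false) :=
  posD_of_check (c := ⟨446, ⟨3, 8, 15, 11⟩⟩) (by decide +kernel)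

def tC26B_c3ph00 : PosD ⟨⟨0, 1, 1⟩, ⟨98, 99, 147⟩, ⟨8514, 9258, 30000⟩, ⟨1200, 1271, 1000⟩⟩ (tC26B.hC3p' false false) :=
  posD_of_check (c := ⟨445, ⟨3, 8, 15, 11⟩⟩) (by decide +kernel)

def tC26B_c3mh00 : PosD ⟨⟨0, 1, 1⟩, ⟨98, 99, 147⟩, ⟨8514, 9258, 30000⟩, ⟨1200, 1271, 1000⟩⟩ (tC26B.hC3m' false false) :=
  posD_of_check (c := ⟨446, ⟨3, 8, 15, 11⟩⟩) (by decide +kernel)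

def tC26B_up00 : PosD ⟨⟨0, 1, 1⟩, ⟨98, 99, 147⟩, ⟨8514, 9258, 30000⟩, ⟨1200, 1271, 1000⟩⟩ (tC26B.hUp false false) :=
  posD_of_check (c := ⟨444, ⟨3, 8, 15, 11⟩⟩) (by decide +kernel)

def tC26B_um00 : PosD ⟨⟨0, 1, 1⟩, ⟨98, 99, 147⟩, ⟨8514, 9258, 30000⟩, ⟨1200, 1271, 1000⟩⟩ (tC26B.hUm false false) :=
  posD_of_check (c := ⟨445, ⟨3, 8, 15, 11⟩⟩) (by decide +kernel)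

def tC26B_tmg00 : PosD ⟨⟨0, 1, 1⟩, ⟨98, 99, 147⟩, ⟨8514, 9258, 30000⟩, ⟨1200, 1271, 1000⟩⟩ (tC26B.hTMG false (tC26B.pEnd false)) :=
  posD_of_check (c := ⟨402, ⟨2, 7, 14, 10⟩⟩) (by decide +kernel)

def tC26B_tg01 : PosD ⟨⟨0, 1, 1⟩, ⟨98, 99, 147⟩, ⟨8514, 9258, 30000⟩, ⟨1200, 1271, 1000⟩⟩ (tC26B.hG true (tC26B.pEnd false)) :=
  posD_of_check (c := ⟨387, ⟨2, 7, 14, 9⟩⟩) (by decide +kernel)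

def tC26B_c2p01 : PosD ⟨⟨0, 1, 1⟩, ⟨98, 99, 147⟩, ⟨8514, 9258, 30000⟩, ⟨1200, 1271, 1000⟩⟩ (tC26B.hC2p true (tC26B.pEnd false)) :=
  posD_of_check (c := ⟨459, ⟨3, 8, 16, 11⟩⟩) (by decide +kernel)

def tC26B_c2m01 : PosD ⟨⟨0, 1, 1⟩, ⟨98, 99, 147⟩, ⟨8514, 9258, 30000⟩, ⟨1200, 1271, 1000⟩⟩ (tC26B.hC2m true (tC26B.pEnd false)) :=
  posD_of_check (c := ⟨460, ⟨3, 8, 16, 11⟩⟩) (by decide +kernel)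

def tC26B_c3p01 : PosD ⟨⟨0, 1, 1⟩, ⟨98, 99, 147⟩, ⟨8514, 9258, 30000⟩, ⟨1200, 1271, 1000⟩⟩ (tC26B.hC3p false true) :=
  posD_of_check (c := ⟨445, ⟨3, 8, 15, 11⟩⟩) (by decide +kernel)

def tC26B_c3m01 : PosD ⟨⟨0, 1, 1⟩, ⟨98, 99, 147⟩, ⟨8514, 9258, 30000⟩, ⟨1200, 1271, 1000⟩⟩ (tC26B.hC3m false true) :=
  posD_of_check (c := ⟨446, ⟨3, 8, 15, 11⟩⟩) (by decide +kernel)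

def tC26B_c3ph01 : PosD ⟨⟨0, 1, 1⟩, ⟨98, 99, 147⟩, ⟨8514, 9258, 30000⟩, ⟨1200, 1271, 1000⟩⟩ (tC26B.hC3p' false true) :=
  posD_of_check (c := ⟨445, ⟨3, 8, 15, 11⟩⟩) (by decide +kernel)

def tC26B_c3mh01 : PosD ⟨⟨0, 1, 1⟩, ⟨98, 99, 147⟩, ⟨8514, 9258, 30000⟩, ⟨1200, 1271, 1000⟩⟩ (tC26B.hC3m' false true) :=
  posD_of_check (c := ⟨446, ⟨3, 8, 15, 11⟩⟩) (by decide +kernel)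

def tC26B_up01 : PosD ⟨⟨0, 1, 1⟩, ⟨98, 99, 147⟩, ⟨8514, 9258, 30000⟩, ⟨1200, 1271, 1000⟩⟩ (tC26B.hUp false true) :=
  posD_of_check (c := ⟨444, ⟨3, 8, 15, 11⟩⟩) (by decide +kernel)

def tC26B_um01 : PosD ⟨⟨0, 1, 1⟩, ⟨98, 99, 147⟩, ⟨8514, 9258, 30000⟩, ⟨1200, 1271, 1000⟩⟩ (tC26B.hUm false true) :=
  posD_of_check (c := ⟨445, ⟨3, 8, 15, 11⟩⟩) (by decide +kernel)

def tC26B_tmg01 : PosD ⟨⟨0, 1, 1⟩, ⟨98, 99, 147⟩, ⟨8514, 9258, 30000⟩, ⟨1200, 1271, 1000⟩⟩ (tC26B.hTMG true (tC26B.pEnd false)) :=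
  posD_of_check (c := ⟨402, ⟨2, 7, 14, 10⟩⟩) (by decide +kernel)

def tC26B_kap1 : PosD ⟨⟨0, 1, 1⟩, ⟨98, 99, 147⟩, ⟨8514, 9258, 30000⟩, ⟨1200, 1271, 1000⟩⟩ (tC26B.kap true) :=
  posD_of_check (c := ⟨74, ⟨1, 1, 2, 2⟩⟩) (by decide +kernel)

def tC26B_c11 : PosD ⟨⟨0, 1, 1⟩, ⟨98, 99, 147⟩, ⟨8514, 9258, 30000⟩, ⟨1200, 1271, 1000⟩⟩ (tC26B.hC1 true) :=
  posD_of_check (c := ⟨277, ⟨3, 5, 9, 7⟩⟩) (by decide +kernel)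

def tC26B_c1h1 : PosD ⟨⟨0, 1, 1⟩, ⟨98, 99, 147⟩, ⟨8514, 9258, 30000⟩, ⟨1200, 1271, 1000⟩⟩ (tC26B.hC1' true) :=
  posD_of_check (c := ⟨277, ⟨3, 5, 9, 7⟩⟩) (by decide +kernel)

def tC26B_tg10 : PosD ⟨⟨0, 1, 1⟩, ⟨98, 99, 147⟩, ⟨8514, 9258, 30000⟩, ⟨1200, 1271, 1000⟩⟩ (tC26B.hG false (tC26B.pEnd true)) :=
  posD_of_check (c := ⟨386, ⟨2, 7, 14, 9⟩⟩) (by decide +kernel)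

def tC26B_c2p10 : PosD ⟨⟨0, 1, 1⟩, ⟨98, 99, 147⟩, ⟨8514, 9258, 30000⟩, ⟨1200, 1271, 1000⟩⟩ (tC26B.hC2p false (tC26B.pEnd true)) :=
  posD_of_check (c := ⟨458, ⟨3, 8, 16, 11⟩⟩) (by decide +kernel)

def tC26B_c2m10 : PosD ⟨⟨0, 1, 1⟩, ⟨98, 99, 147⟩, ⟨8514, 9258, 30000⟩, ⟨1200, 1271, 1000⟩⟩ (tC26B.hC2m false (tC26B.pEnd true)) :=
  posD_of_check (c := ⟨459, ⟨3, 8, 16, 11⟩⟩) (by decide +kernel)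

def tC26B_c3p10 : PosD ⟨⟨0, 1, 1⟩, ⟨98, 99, 147⟩, ⟨8514, 9258, 30000⟩, ⟨1200, 1271, 1000⟩⟩ (tC26B.hC3p true false) :=
  posD_of_check (c := ⟨447, ⟨3, 8, 15, 11⟩⟩) (by decide +kernel)

def tC26B_c3m10 : PosD ⟨⟨0, 1, 1⟩, ⟨98, 99, 147⟩, ⟨8514, 9258, 30000⟩, ⟨1200, 1271, 1000⟩⟩ (tC26B.hC3m true false) :=
  posD_of_check (c := ⟨448, ⟨3, 8, 15, 11⟩⟩) (by decide +kernel)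

def tC26B_c3ph10 : PosD ⟨⟨0, 1, 1⟩, ⟨98, 99, 147⟩, ⟨8514, 9258, 30000⟩, ⟨1200, 1271, 1000⟩⟩ (tC26B.hC3p' true false) :=
  posD_of_check (c := ⟨447, ⟨3, 8, 15, 11⟩⟩) (by decide +kernel)

def tC26B_c3mh10 : PosD ⟨⟨0, 1, 1⟩, ⟨98, 99, 147⟩, ⟨8514, 9258, 30000⟩, ⟨1200, 1271, 1000⟩⟩ (tC26B.hC3m' true false) :=
  posD_of_check (c := ⟨448, ⟨3, 8, 15, 11⟩⟩) (by decide +kernel)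

def tC26B_up10 : PosD ⟨⟨0, 1, 1⟩, ⟨98, 99, 147⟩, ⟨8514, 9258, 30000⟩, ⟨1200, 1271, 1000⟩⟩ (tC26B.hUp true false) :=
  posD_of_check (c := ⟨443, ⟨3, 8, 15, 11⟩⟩) (by decide +kernel)

def tC26B_um10 : PosD ⟨⟨0, 1, 1⟩, ⟨98, 99, 147⟩, ⟨8514, 9258, 30000⟩, ⟨1200, 1271, 1000⟩⟩ (tC26B.hUm true false) :=
  posD_of_check (c := ⟨444, ⟨3, 8, 15, 11⟩⟩) (by decide +kernel)

def tC26B_tmg10 : PosD ⟨⟨0, 1, 1⟩, ⟨98, 99, 147⟩, ⟨8514, 9258, 30000⟩, ⟨1200, 1271, 1000⟩⟩ (tC26B.hTMG false (tC26B.pEnd true)) :=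
  posD_of_check (c := ⟨401, ⟨2, 7, 14, 10⟩⟩) (by decide +kernel)

def tC26B_tg11 : PosD ⟨⟨0, 1, 1⟩, ⟨98, 99, 147⟩, ⟨8514, 9258, 30000⟩, ⟨1200, 1271, 1000⟩⟩ (tC26B.hG true (tC26B.pEnd true)) :=
  posD_of_check (c := ⟨386, ⟨2, 7, 14, 9⟩⟩) (by decide +kernel)

def tC26B_c2p11 : PosD ⟨⟨0, 1, 1⟩, ⟨98, 99, 147⟩, ⟨8514, 9258, 30000⟩, ⟨1200, 1271, 1000⟩⟩ (tC26B.hC2p true (tC26B.pEnd true)) :=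
  posD_of_check (c := ⟨458, ⟨3, 8, 16, 11⟩⟩) (by decide +kernel)

def tC26B_c2m11 : PosD ⟨⟨0, 1, 1⟩, ⟨98, 99, 147⟩, ⟨8514, 9258, 30000⟩, ⟨1200, 1271, 1000⟩⟩ (tC26B.hC2m true (tC26B.pEnd true)) :=
  posD_of_check (c := ⟨459, ⟨3, 8, 16, 11⟩⟩) (by decide +kernel)

def tC26B_c3p11 : PosD ⟨⟨0, 1, 1⟩, ⟨98, 99, 147⟩, ⟨8514, 9258, 30000⟩, ⟨1200, 1271, 1000⟩⟩ (tC26B.hC3p true true) :=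
  posD_of_check (c := ⟨447, ⟨3, 8, 15, 11⟩⟩) (by decide +kernel)

def tC26B_c3m11 : PosD ⟨⟨0, 1, 1⟩, ⟨98, 99, 147⟩, ⟨8514, 9258, 30000⟩, ⟨1200, 1271, 1000⟩⟩ (tC26B.hC3m true true) :=
  posD_of_check (c := ⟨448, ⟨3, 8, 15, 11⟩⟩) (by decide +kernel)

def tC26B_c3ph11 : PosD ⟨⟨0, 1, 1⟩, ⟨98, 99, 147⟩, ⟨8514, 9258, 30000⟩, ⟨1200, 1271, 1000⟩⟩ (tC26B.hC3p' true true) :=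
  posD_of_check (c := ⟨447, ⟨3, 8, 15, 11⟩⟩) (by decide +kernel)

def tC26B_c3mh11 : PosD ⟨⟨0, 1, 1⟩, ⟨98, 99, 147⟩, ⟨8514, 9258, 30000⟩, ⟨1200, 1271, 1000⟩⟩ (tC26B.hC3m' true true) :=
  posD_of_check (c := ⟨448, ⟨3, 8, 15, 11⟩⟩) (by decide +kernel)

def tC26B_up11 : PosD ⟨⟨0, 1, 1⟩, ⟨98, 99, 147⟩, ⟨8514, 9258, 30000⟩, ⟨1200, 1271, 1000⟩⟩ (tC26B.hUp true true) :=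
  posD_of_check (c := ⟨443, ⟨3, 8, 15, 11⟩⟩) (by decide +kernel)

def tC26B_um11 : PosD ⟨⟨0, 1, 1⟩, ⟨98, 99, 147⟩, ⟨8514, 9258, 30000⟩, ⟨1200, 1271, 1000⟩⟩ (tC26B.hUm true true) :=
  posD_of_check (c := ⟨444, ⟨3, 8, 15, 11⟩⟩) (by decide +kernel)

def tC26B_tmg11 : PosD ⟨⟨0, 1, 1⟩, ⟨98, 99, 147⟩, ⟨8514, 9258, 30000⟩, ⟨1200, 1271, 1000⟩⟩ (tC26B.hTMG true (tC26B.pEnd true)) :=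
  posD_of_check (c := ⟨401, ⟨2, 7, 14, 10⟩⟩) (by decide +kernel)

/-- The signs of the piece. -/
def tC26B_sign : tC26B.Sign ⟨⟨0, 1, 1⟩, ⟨98, 99, 147⟩, ⟨8514, 9258, 30000⟩, ⟨1200, 1271, 1000⟩⟩ :=
  ⟨tC26B_pp,
    tC26B_k2p,
    tC26B_k2m,
    Bool.forall_bool.2 ⟨(Bool.forall_bool.2 ⟨tC26B_tg00, tC26B_tg01⟩), (Bool.forall_bool.2 ⟨tC26B_tg10, tC26B_tg11⟩)⟩,
    Bool.forall_bool.2 ⟨(Bool.forall_bool.2 ⟨tC26B_c2p00, tC26B_c2p01⟩), (Bool.forall_bool.2 ⟨tC26B_c2p10, tC26B_c2p11⟩)⟩,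
    Bool.forall_bool.2 ⟨(Bool.forall_bool.2 ⟨tC26B_c2m00, tC26B_c2m01⟩), (Bool.forall_bool.2 ⟨tC26B_c2m10, tC26B_c2m11⟩)⟩,
    Bool.forall_bool.2 ⟨tC26B_kap0, tC26B_kap1⟩,
    Bool.forall_bool.2 ⟨tC26B_c10, tC26B_c11⟩,
    Bool.forall_bool.2 ⟨(Bool.forall_bool.2 ⟨tC26B_c3p00, tC26B_c3p01⟩), (Bool.forall_bool.2 ⟨tC26B_c3p10, tC26B_c3p11⟩)⟩,
    Bool.forall_bool.2 ⟨(Bool.forall_bool.2 ⟨tC26B_c3m00, tC26B_c3m01⟩), (Bool.forall_bool.2 ⟨tC26B_c3m10, tC26B_c3m11⟩)⟩,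
    Bool.forall_bool.2 ⟨(Bool.forall_bool.2 ⟨tC26B_tmg00, tC26B_tmg01⟩), (Bool.forall_bool.2 ⟨tC26B_tmg10, tC26B_tmg11⟩)⟩,
    .inr (Bool.forall_bool.2 ⟨⟨tC26B_c1h0, Bool.forall_bool.2 ⟨⟨tC26B_c3ph00, tC26B_c3mh00, tC26B_up00, tC26B_um00⟩, ⟨tC26B_c3ph01, tC26B_c3mh01, tC26B_up01, tC26B_um01⟩⟩⟩, ⟨tC26B_c1h1, Bool.forall_bool.2 ⟨⟨tC26B_c3ph10, tC26B_c3mh10, tC26B_up10, tC26B_um10⟩, ⟨tC26B_c3ph11, tC26B_c3mh11, tC26B_up11, tC26B_um11⟩⟩⟩⟩),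
    tC26B_v2p,
    tC26B_v2m,
    tC26B_v3p,
    tC26B_v3m,
    posD_sub (b := ⟨⟨0, 1, 1⟩, ⟨98, 99, 147⟩, ⟨4050, 10000, 30000⟩, ⟨290, 4000, 1000⟩⟩) (by decide +kernel) tC_vG,
    posD_sub (b := ⟨⟨0, 1, 1⟩, ⟨98, 99, 147⟩, ⟨4050, 10000, 30000⟩, ⟨290, 4000, 1000⟩⟩) (by decide +kernel) tC_vMG,
    posD_sub (b := ⟨⟨0, 1, 1⟩, ⟨98, 99, 147⟩, ⟨4050, 10000, 30000⟩, ⟨290, 4000, 1000⟩⟩) (by decide +kernel) tC_ak,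
    posD_sub (b := ⟨⟨0, 1, 1⟩, ⟨98, 99, 147⟩, ⟨4050, 10000, 30000⟩, ⟨290, 4000, 1000⟩⟩) (by decide +kernel) tC_aw,
    posD_sub (b := ⟨⟨0, 1, 1⟩, ⟨98, 99, 147⟩, ⟨4050, 10000, 30000⟩, ⟨290, 4000, 1000⟩⟩) (by decide +kernel) tC_gk,
    posD_sub (b := ⟨⟨0, 1, 1⟩, ⟨98, 99, 147⟩, ⟨4050, 10000, 30000⟩, ⟨290, 4000, 1000⟩⟩) (by decide +kernel) tC_gw,
    posD_sub (b := ⟨⟨0, 1, 1⟩, ⟨98, 99, 147⟩, ⟨4050, 10000, 30000⟩, ⟨290, 4000, 1000⟩⟩) (by decide +kernel) tC_ek,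
    posD_sub (b := ⟨⟨0, 1, 1⟩, ⟨98, 99, 147⟩, ⟨4050, 10000, 30000⟩, ⟨290, 4000, 1000⟩⟩) (by decide +kernel) tC_ew⟩

end Vale.Agent.P100.Calib.Closed.Six.Tail
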