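import Vale.Agent.P100.Calib.SlabSixTailDataC
import Vale.Agent.P100.Calib.SlabSixTailGlobC

/-!
# Checks of some pieces of the certificate

The checks are written as definitions so that they run one after another, which keeps the memory of the
kernel low.
-/

set_option linter.defProp false

namespace Vale.Agent.P100.Calib.Closed.Six.Tail

open BoxPos Large

local instance sixTailCheckstC17Add : Add Ex := ⟨Ex.add⟩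
local instance sixTailCheckstC17Sub : Sub Ex := ⟨Ex.sub⟩
local instance sixTailCheckstC17Mul : Mul Ex := ⟨Ex.mul⟩

def tC28_phxaa : PosIf ⟨⟨0, 1, 1⟩, ⟨98, 99, 147⟩, ⟨9258, 9629, 30000⟩, ⟨1200, 1235, 1000⟩⟩ (tC28.u₁ - tC28Lo) (phCn (tC28.u₁ + xO * (tC28Lo - tC28.u₁))) :=
  posIf_of_mul (k := 1) (n := 1) (posD_of_check (c := ⟨109, ⟨2, 0, 4, 2⟩⟩) (by decide +kernel))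

def tC28_phxabaaa : PosIf ⟨⟨0, 1, 4⟩, ⟨98, 99, 147⟩, ⟨9629, 10000, 30000⟩, ⟨1200, 1217, 1000⟩⟩ (tC28.u₁ - tC28Lo) (phCn (tC28.u₁ + xO * (tC28Lo - tC28.u₁))) :=
  posIf_of_mul (k := 1) (n := 4) (posD_of_check (c := ⟨112, ⟨2, 0, 4, 2⟩⟩) (by decide +kernel))

def tC28_phxabaabaa : PosIf ⟨⟨0, 1, 4⟩, ⟨98, 99, 147⟩, ⟨9629, 9814, 30000⟩, ⟨1217, 1226, 1000⟩⟩ (tC28.u₁ - tC28Lo) (phCn (tC28.u₁ + xO * (tC28Lo - tC28.u₁))) :=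
  posIf_of_mul (k := 1) (n := 4) (posD_of_check (c := ⟨112, ⟨2, 0, 4, 2⟩⟩) (by decide +kernel))

def tC28_phxabaababa : PosIf ⟨⟨0, 1, 4⟩, ⟨98, 99, 147⟩, ⟨9629, 9721, 30000⟩, ⟨1226, 1235, 1000⟩⟩ (tC28.u₁ - tC28Lo) (phCn (tC28.u₁ + xO * (tC28Lo - tC28.u₁))) :=
  posIf_of_mul (k := 1) (n := 4) (posD_of_check (c := ⟨112, ⟨2, 0, 4, 2⟩⟩) (by decide +kernel))

def tC28_phxabaababb : PosIf ⟨⟨0, 1, 4⟩, ⟨98, 99, 147⟩, ⟨9721, 9814, 30000⟩, ⟨1226, 1235, 1000⟩⟩ (tC28.u₁ - tC28Lo) (phCn (tC28.u₁ + xO * (tC28Lo - tC28.u₁))) :=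
  posIf_of_posD (posD_of_check (c := ⟨112, ⟨2, 0, 4, 2⟩⟩) (by decide +kernel))

def tC28_phxabaabab : PosIf ⟨⟨0, 1, 4⟩, ⟨98, 99, 147⟩, ⟨9629, 9814, 30000⟩, ⟨1226, 1235, 1000⟩⟩ (tC28.u₁ - tC28Lo) (phCn (tC28.u₁ + xO * (tC28Lo - tC28.u₁))) :=
  posIf_join₂ tC28_phxabaababa tC28_phxabaababb

def tC28_phxabaaba : PosIf ⟨⟨0, 1, 4⟩, ⟨98, 99, 147⟩, ⟨9629, 9814, 30000⟩, ⟨1217, 1235, 1000⟩⟩ (tC28.u₁ - tC28Lo) (phCn (tC28.u₁ + xO * (tC28Lo - tC28.u₁))) :=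
  posIf_join₃ tC28_phxabaabaa tC28_phxabaabab

def tC28_phxabaabb : PosIf ⟨⟨0, 1, 4⟩, ⟨98, 99, 147⟩, ⟨9814, 10000, 30000⟩, ⟨1217, 1235, 1000⟩⟩ (tC28.u₁ - tC28Lo) (phCn (tC28.u₁ + xO * (tC28Lo - tC28.u₁))) :=
  posIf_of_posD (posD_of_check (c := ⟨112, ⟨2, 0, 4, 2⟩⟩) (by decide +kernel))

def tC28_phxabaab : PosIf ⟨⟨0, 1, 4⟩, ⟨98, 99, 147⟩, ⟨9629, 10000, 30000⟩, ⟨1217, 1235, 1000⟩⟩ (tC28.u₁ - tC28Lo) (phCn (tC28.u₁ + xO * (tC28Lo - tC28.u₁))) :=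
  posIf_join₂ tC28_phxabaaba tC28_phxabaabb

def tC28_phxabaa : PosIf ⟨⟨0, 1, 4⟩, ⟨98, 99, 147⟩, ⟨9629, 10000, 30000⟩, ⟨1200, 1235, 1000⟩⟩ (tC28.u₁ - tC28Lo) (phCn (tC28.u₁ + xO * (tC28Lo - tC28.u₁))) :=
  posIf_join₃ tC28_phxabaaa tC28_phxabaab

def tC28_phxababaa : PosIf ⟨⟨2, 3, 8⟩, ⟨98, 99, 147⟩, ⟨9629, 10000, 30000⟩, ⟨1200, 1217, 1000⟩⟩ (tC28.u₁ - tC28Lo) (phCn (tC28.u₁ + xO * (tC28Lo - tC28.u₁))) :=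
  posIf_of_mul (k := 1) (n := 4) (posD_of_check (c := ⟨115, ⟨2, 0, 4, 2⟩⟩) (by decide +kernel))

def tC28_phxabababa : PosIf ⟨⟨6, 7, 16⟩, ⟨98, 99, 147⟩, ⟨9629, 10000, 30000⟩, ⟨1200, 1217, 1000⟩⟩ (tC28.u₁ - tC28Lo) (phCn (tC28.u₁ + xO * (tC28Lo - tC28.u₁))) :=
  posIf_of_mul (k := 1) (n := 4) (posD_of_check (c := ⟨117, ⟨2, 0, 4, 2⟩⟩) (by decide +kernel))

def tC28_phxabababbaa : PosIf ⟨⟨14, 15, 32⟩, ⟨98, 99, 147⟩, ⟨9629, 10000, 30000⟩, ⟨1200, 1208, 1000⟩⟩ (tC28.u₁ - tC28Lo) (phCn (tC28.u₁ + xO * (tC28Lo - tC28.u₁))) :=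
  posIf_of_mul (k := 1) (n := 2) (posD_of_check (c := ⟨119, ⟨2, 0, 4, 2⟩⟩) (by decide +kernel))

def tC28_phxabababbab : PosIf ⟨⟨14, 15, 32⟩, ⟨98, 99, 147⟩, ⟨9629, 10000, 30000⟩, ⟨1208, 1217, 1000⟩⟩ (tC28.u₁ - tC28Lo) (phCn (tC28.u₁ + xO * (tC28Lo - tC28.u₁))) :=
  posIf_of_mul (k := 1) (n := 4) (posD_of_check (c := ⟨119, ⟨2, 0, 4, 2⟩⟩) (by decide +kernel))

def tC28_phxabababba : PosIf ⟨⟨14, 15, 32⟩, ⟨98, 99, 147⟩, ⟨9629, 10000, 30000⟩, ⟨1200, 1217, 1000⟩⟩ (tC28.u₁ - tC28Lo) (phCn (tC28.u₁ + xO * (tC28Lo - tC28.u₁))) :=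
  posIf_join₃ tC28_phxabababbaa tC28_phxabababbab

def tC28_phxabababbb : PosIf ⟨⟨15, 16, 32⟩, ⟨98, 99, 147⟩, ⟨9629, 10000, 30000⟩, ⟨1200, 1217, 1000⟩⟩ (tC28.u₁ - tC28Lo) (phCn (tC28.u₁ + xO * (tC28Lo - tC28.u₁))) :=
  posIf_of_mul (k := 1) (n := 2) (posD_of_check (c := ⟨119, ⟨2, 0, 4, 2⟩⟩) (by decide +kernel))

def tC28_phxabababb : PosIf ⟨⟨7, 8, 16⟩, ⟨98, 99, 147⟩, ⟨9629, 10000, 30000⟩, ⟨1200, 1217, 1000⟩⟩ (tC28.u₁ - tC28Lo) (phCn (tC28.u₁ + xO * (tC28Lo - tC28.u₁))) :=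
  posIf_units (b := ⟨⟨14, 16, 32⟩, ⟨98, 99, 147⟩, ⟨9629, 10000, 30000⟩, ⟨1200, 1217, 1000⟩⟩) (by decide +kernel) (posIf_join₀ tC28_phxabababba tC28_phxabababbb)

def tC28_phxababab : PosIf ⟨⟨3, 4, 8⟩, ⟨98, 99, 147⟩, ⟨9629, 10000, 30000⟩, ⟨1200, 1217, 1000⟩⟩ (tC28.u₁ - tC28Lo) (phCn (tC28.u₁ + xO * (tC28Lo - tC28.u₁))) :=
  posIf_units (b := ⟨⟨6, 8, 16⟩, ⟨98, 99, 147⟩, ⟨9629, 10000, 30000⟩, ⟨1200, 1217, 1000⟩⟩) (by decide +kernel) (posIf_join₀ tC28_phxabababa tC28_phxabababb)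

def tC28_phxababa : PosIf ⟨⟨1, 2, 4⟩, ⟨98, 99, 147⟩, ⟨9629, 10000, 30000⟩, ⟨1200, 1217, 1000⟩⟩ (tC28.u₁ - tC28Lo) (phCn (tC28.u₁ + xO * (tC28Lo - tC28.u₁))) :=
  posIf_units (b := ⟨⟨2, 4, 8⟩, ⟨98, 99, 147⟩, ⟨9629, 10000, 30000⟩, ⟨1200, 1217, 1000⟩⟩) (by decide +kernel) (posIf_join₀ tC28_phxababaa tC28_phxababab)

def tC28_phxababb : PosIf ⟨⟨1, 2, 4⟩, ⟨98, 99, 147⟩, ⟨9629, 10000, 30000⟩, ⟨1217, 1235, 1000⟩⟩ (tC28.u₁ - tC28Lo) (phCn (tC28.u₁ + xO * (tC28Lo - tC28.u₁))) :=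
  posIf_of_mul (k := 1) (n := 4) (posD_of_check (c := ⟨113, ⟨2, 0, 4, 2⟩⟩) (by decide +kernel))

def tC28_phxabab : PosIf ⟨⟨1, 2, 4⟩, ⟨98, 99, 147⟩, ⟨9629, 10000, 30000⟩, ⟨1200, 1235, 1000⟩⟩ (tC28.u₁ - tC28Lo) (phCn (tC28.u₁ + xO * (tC28Lo - tC28.u₁))) :=
  posIf_join₃ tC28_phxababa tC28_phxababb

def tC28_phxaba : PosIf ⟨⟨0, 1, 2⟩, ⟨98, 99, 147⟩, ⟨9629, 10000, 30000⟩, ⟨1200, 1235, 1000⟩⟩ (tC28.u₁ - tC28Lo) (phCn (tC28.u₁ + xO * (tC28Lo - tC28.u₁))) :=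
  posIf_units (b := ⟨⟨0, 2, 4⟩, ⟨98, 99, 147⟩, ⟨9629, 10000, 30000⟩, ⟨1200, 1235, 1000⟩⟩) (by decide +kernel) (posIf_join₀ tC28_phxabaa tC28_phxabab)

def tC28_phxabbaa : PosIf ⟨⟨2, 3, 4⟩, ⟨98, 99, 147⟩, ⟨9629, 10000, 30000⟩, ⟨1200, 1217, 1000⟩⟩ (tC28.u₁ - tC28Lo) (phCn (tC28.u₁ + xO * (tC28Lo - tC28.u₁))) :=
  posIf_of_mul (k := 1) (n := 2) (posD_of_check (c := ⟨113, ⟨2, 0, 4, 2⟩⟩) (by decide +kernel))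

def tC28_phxabbabaa : PosIf ⟨⟨2, 3, 4⟩, ⟨98, 99, 147⟩, ⟨9629, 9814, 30000⟩, ⟨1217, 1226, 1000⟩⟩ (tC28.u₁ - tC28Lo) (phCn (tC28.u₁ + xO * (tC28Lo - tC28.u₁))) :=
  posIf_of_mul (k := 1) (n := 2) (posD_of_check (c := ⟨113, ⟨2, 0, 4, 2⟩⟩) (by decide +kernel))

def tC28_phxabbababa : PosIf ⟨⟨2, 3, 4⟩, ⟨98, 99, 147⟩, ⟨9629, 9721, 30000⟩, ⟨1226, 1235, 1000⟩⟩ (tC28.u₁ - tC28Lo) (phCn (tC28.u₁ + xO * (tC28Lo - tC28.u₁))) :=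
  posIf_of_mul (k := 1) (n := 2) (posD_of_check (c := ⟨113, ⟨2, 0, 4, 2⟩⟩) (by decide +kernel))

def tC28_phxabbababb : PosIf ⟨⟨2, 3, 4⟩, ⟨98, 99, 147⟩, ⟨9721, 9814, 30000⟩, ⟨1226, 1235, 1000⟩⟩ (tC28.u₁ - tC28Lo) (phCn (tC28.u₁ + xO * (tC28Lo - tC28.u₁))) :=
  posIf_of_mul (k := 1) (n := 4) (posD_of_check (c := ⟨113, ⟨2, 0, 4, 2⟩⟩) (by decide +kernel))

def tC28_phxabbabab : PosIf ⟨⟨2, 3, 4⟩, ⟨98, 99, 147⟩, ⟨9629, 9814, 30000⟩, ⟨1226, 1235, 1000⟩⟩ (tC28.u₁ - tC28Lo) (phCn (tC28.u₁ + xO * (tC28Lo - tC28.u₁))) :=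
  posIf_join₂ tC28_phxabbababa tC28_phxabbababb

def tC28_phxabbaba : PosIf ⟨⟨2, 3, 4⟩, ⟨98, 99, 147⟩, ⟨9629, 9814, 30000⟩, ⟨1217, 1235, 1000⟩⟩ (tC28.u₁ - tC28Lo) (phCn (tC28.u₁ + xO * (tC28Lo - tC28.u₁))) :=
  posIf_join₃ tC28_phxabbabaa tC28_phxabbabab

def tC28_phxabbabb : PosIf ⟨⟨2, 3, 4⟩, ⟨98, 99, 147⟩, ⟨9814, 10000, 30000⟩, ⟨1217, 1235, 1000⟩⟩ (tC28.u₁ - tC28Lo) (phCn (tC28.u₁ + xO * (tC28Lo - tC28.u₁))) :=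
  posIf_of_mul (k := 1) (n := 4) (posD_of_check (c := ⟨113, ⟨2, 0, 4, 2⟩⟩) (by decide +kernel))

def tC28_phxabbab : PosIf ⟨⟨2, 3, 4⟩, ⟨98, 99, 147⟩, ⟨9629, 10000, 30000⟩, ⟨1217, 1235, 1000⟩⟩ (tC28.u₁ - tC28Lo) (phCn (tC28.u₁ + xO * (tC28Lo - tC28.u₁))) :=
  posIf_join₂ tC28_phxabbaba tC28_phxabbabb

def tC28_phxabba : PosIf ⟨⟨2, 3, 4⟩, ⟨98, 99, 147⟩, ⟨9629, 10000, 30000⟩, ⟨1200, 1235, 1000⟩⟩ (tC28.u₁ - tC28Lo) (phCn (tC28.u₁ + xO * (tC28Lo - tC28.u₁))) :=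
  posIf_join₃ tC28_phxabbaa tC28_phxabbab

def tC28_phxabbbaa : PosIf ⟨⟨3, 4, 4⟩, ⟨98, 99, 147⟩, ⟨9629, 9814, 30000⟩, ⟨1200, 1217, 1000⟩⟩ (tC28.u₁ - tC28Lo) (phCn (tC28.u₁ + xO * (tC28Lo - tC28.u₁))) :=
  posIf_of_mul (k := 1) (n := 1) (posD_of_check (c := ⟨114, ⟨2, 0, 4, 2⟩⟩) (by decide +kernel))

def tC28_phxabbbab : PosIf ⟨⟨3, 4, 4⟩, ⟨98, 99, 147⟩, ⟨9629, 9814, 30000⟩, ⟨1217, 1235, 1000⟩⟩ (tC28.u₁ - tC28Lo) (phCn (tC28.u₁ + xO * (tC28Lo - tC28.u₁))) :=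
  posIf_of_mul (k := 1) (n := 2) (posD_of_check (c := ⟨114, ⟨2, 0, 4, 2⟩⟩) (by decide +kernel))

def tC28_phxabbba : PosIf ⟨⟨3, 4, 4⟩, ⟨98, 99, 147⟩, ⟨9629, 9814, 30000⟩, ⟨1200, 1235, 1000⟩⟩ (tC28.u₁ - tC28Lo) (phCn (tC28.u₁ + xO * (tC28Lo - tC28.u₁))) :=
  posIf_join₃ tC28_phxabbbaa tC28_phxabbbab

def tC28_phxabbbb : PosIf ⟨⟨3, 4, 4⟩, ⟨98, 99, 147⟩, ⟨9814, 10000, 30000⟩, ⟨1200, 1235, 1000⟩⟩ (tC28.u₁ - tC28Lo) (phCn (tC28.u₁ + xO * (tC28Lo - tC28.u₁))) :=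
  posIf_of_mul (k := 1) (n := 2) (posD_of_check (c := ⟨114, ⟨2, 0, 4, 2⟩⟩) (by decide +kernel))

def tC28_phxabbb : PosIf ⟨⟨3, 4, 4⟩, ⟨98, 99, 147⟩, ⟨9629, 10000, 30000⟩, ⟨1200, 1235, 1000⟩⟩ (tC28.u₁ - tC28Lo) (phCn (tC28.u₁ + xO * (tC28Lo - tC28.u₁))) :=
  posIf_join₂ tC28_phxabbba tC28_phxabbbb

def tC28_phxabb : PosIf ⟨⟨1, 2, 2⟩, ⟨98, 99, 147⟩, ⟨9629, 10000, 30000⟩, ⟨1200, 1235, 1000⟩⟩ (tC28.u₁ - tC28Lo) (phCn (tC28.u₁ + xO * (tC28Lo - tC28.u₁))) :=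
  posIf_units (b := ⟨⟨2, 4, 4⟩, ⟨98, 99, 147⟩, ⟨9629, 10000, 30000⟩, ⟨1200, 1235, 1000⟩⟩) (by decide +kernel) (posIf_join₀ tC28_phxabba tC28_phxabbb)

def tC28_phxab : PosIf ⟨⟨0, 1, 1⟩, ⟨98, 99, 147⟩, ⟨9629, 10000, 30000⟩, ⟨1200, 1235, 1000⟩⟩ (tC28.u₁ - tC28Lo) (phCn (tC28.u₁ + xO * (tC28Lo - tC28.u₁))) :=
  posIf_units (b := ⟨⟨0, 2, 2⟩, ⟨98, 99, 147⟩, ⟨9629, 10000, 30000⟩, ⟨1200, 1235, 1000⟩⟩) (by decide +kernel) (posIf_join₀ tC28_phxaba tC28_phxabb)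

def tC28_phxa : PosIf ⟨⟨0, 1, 1⟩, ⟨98, 99, 147⟩, ⟨9258, 10000, 30000⟩, ⟨1200, 1235, 1000⟩⟩ (tC28.u₁ - tC28Lo) (phCn (tC28.u₁ + xO * (tC28Lo - tC28.u₁))) :=
  posIf_join₂ tC28_phxaa tC28_phxab

def tC28_phxbaaa : PosIf ⟨⟨0, 1, 1⟩, ⟨98, 99, 147⟩, ⟨9258, 9443, 30000⟩, ⟨1235, 1253, 1000⟩⟩ (tC28.u₁ - tC28Lo) (phCn (tC28.u₁ + xO * (tC28Lo - tC28.u₁))) :=
  posIf_of_mul (k := 1) (n := 2) (posD_of_check (c := ⟨109, ⟨2, 0, 4, 2⟩⟩) (by decide +kernel))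

def tC28_phxbaabaa : PosIf ⟨⟨0, 1, 2⟩, ⟨98, 99, 147⟩, ⟨9443, 9629, 30000⟩, ⟨1235, 1244, 1000⟩⟩ (tC28.u₁ - tC28Lo) (phCn (tC28.u₁ + xO * (tC28Lo - tC28.u₁))) :=
  posIf_of_mul (k := 1) (n := 4) (posD_of_check (c := ⟨111, ⟨2, 0, 4, 2⟩⟩) (by decide +kernel))

def tC28_phxbaabab : PosIf ⟨⟨1, 2, 2⟩, ⟨98, 99, 147⟩, ⟨9443, 9629, 30000⟩, ⟨1235, 1244, 1000⟩⟩ (tC28.u₁ - tC28Lo) (phCn (tC28.u₁ + xO * (tC28Lo - tC28.u₁))) :=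
  posIf_of_mul (k := 1) (n := 2) (posD_of_check (c := ⟨111, ⟨2, 0, 4, 2⟩⟩) (by decide +kernel))

def tC28_phxbaaba : PosIf ⟨⟨0, 1, 1⟩, ⟨98, 99, 147⟩, ⟨9443, 9629, 30000⟩, ⟨1235, 1244, 1000⟩⟩ (tC28.u₁ - tC28Lo) (phCn (tC28.u₁ + xO * (tC28Lo - tC28.u₁))) :=
  posIf_units (b := ⟨⟨0, 2, 2⟩, ⟨98, 99, 147⟩, ⟨9443, 9629, 30000⟩, ⟨1235, 1244, 1000⟩⟩) (by decide +kernel) (posIf_join₀ tC28_phxbaabaa tC28_phxbaabab)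

def tC28_phxbaabbaaa : PosIf ⟨⟨0, 1, 2⟩, ⟨98, 99, 147⟩, ⟨9443, 9536, 30000⟩, ⟨1244, 1248, 1000⟩⟩ (tC28.u₁ - tC28Lo) (phCn (tC28.u₁ + xO * (tC28Lo - tC28.u₁))) :=
  posIf_of_mul (k := 1) (n := 4) (posD_of_check (c := ⟨111, ⟨2, 0, 4, 2⟩⟩) (by decide +kernel))

def tC28_phxbaabbaab : PosIf ⟨⟨1, 2, 2⟩, ⟨98, 99, 147⟩, ⟨9443, 9536, 30000⟩, ⟨1244, 1248, 1000⟩⟩ (tC28.u₁ - tC28Lo) (phCn (tC28.u₁ + xO * (tC28Lo - tC28.u₁))) :=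
  posIf_of_mul (k := 1) (n := 2) (posD_of_check (c := ⟨111, ⟨2, 0, 4, 2⟩⟩) (by decide +kernel))

def tC28_phxbaabbaa : PosIf ⟨⟨0, 1, 1⟩, ⟨98, 99, 147⟩, ⟨9443, 9536, 30000⟩, ⟨1244, 1248, 1000⟩⟩ (tC28.u₁ - tC28Lo) (phCn (tC28.u₁ + xO * (tC28Lo - tC28.u₁))) :=
  posIf_units (b := ⟨⟨0, 2, 2⟩, ⟨98, 99, 147⟩, ⟨9443, 9536, 30000⟩, ⟨1244, 1248, 1000⟩⟩) (by decide +kernel) (posIf_join₀ tC28_phxbaabbaaa tC28_phxbaabbaab)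

def tC28_phxbaabbab : PosIf ⟨⟨0, 1, 1⟩, ⟨98, 99, 147⟩, ⟨9443, 9536, 30000⟩, ⟨1248, 1253, 1000⟩⟩ (tC28.u₁ - tC28Lo) (phCn (tC28.u₁ + xO * (tC28Lo - tC28.u₁))) :=
  posIf_of_posD (posD_of_check (c := ⟨109, ⟨2, 0, 4, 2⟩⟩) (by decide +kernel))

def tC28_phxbaabba : PosIf ⟨⟨0, 1, 1⟩, ⟨98, 99, 147⟩, ⟨9443, 9536, 30000⟩, ⟨1244, 1253, 1000⟩⟩ (tC28.u₁ - tC28Lo) (phCn (tC28.u₁ + xO * (tC28Lo - tC28.u₁))) :=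
  posIf_join₃ tC28_phxbaabbaa tC28_phxbaabbab

def tC28_phxbaabbb : PosIf ⟨⟨0, 1, 1⟩, ⟨98, 99, 147⟩, ⟨9536, 9629, 30000⟩, ⟨1244, 1253, 1000⟩⟩ (tC28.u₁ - tC28Lo) (phCn (tC28.u₁ + xO * (tC28Lo - tC28.u₁))) :=
  posIf_of_posD (posD_of_check (c := ⟨109, ⟨2, 0, 4, 2⟩⟩) (by decide +kernel))

def tC28_phxbaabb : PosIf ⟨⟨0, 1, 1⟩, ⟨98, 99, 147⟩, ⟨9443, 9629, 30000⟩, ⟨1244, 1253, 1000⟩⟩ (tC28.u₁ - tC28Lo) (phCn (tC28.u₁ + xO * (tC28Lo - tC28.u₁))) :=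
  posIf_join₂ tC28_phxbaabba tC28_phxbaabbb

def tC28_phxbaab : PosIf ⟨⟨0, 1, 1⟩, ⟨98, 99, 147⟩, ⟨9443, 9629, 30000⟩, ⟨1235, 1253, 1000⟩⟩ (tC28.u₁ - tC28Lo) (phCn (tC28.u₁ + xO * (tC28Lo - tC28.u₁))) :=
  posIf_join₃ tC28_phxbaaba tC28_phxbaabb

def tC28_phxbaa : PosIf ⟨⟨0, 1, 1⟩, ⟨98, 99, 147⟩, ⟨9258, 9629, 30000⟩, ⟨1235, 1253, 1000⟩⟩ (tC28.u₁ - tC28Lo) (phCn (tC28.u₁ + xO * (tC28Lo - tC28.u₁))) :=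
  posIf_join₂ tC28_phxbaaa tC28_phxbaab

def tC28_phxbabaaaa : PosIf ⟨⟨0, 1, 2⟩, ⟨98, 99, 147⟩, ⟨9258, 9350, 30000⟩, ⟨1253, 1262, 1000⟩⟩ (tC28.u₁ - tC28Lo) (phCn (tC28.u₁ + xO * (tC28Lo - tC28.u₁))) :=
  posIf_of_mul (k := 1) (n := 4) (posD_of_check (c := ⟨110, ⟨2, 0, 4, 2⟩⟩) (by decide +kernel))

def tC28_phxbabaaab : PosIf ⟨⟨1, 2, 2⟩, ⟨98, 99, 147⟩, ⟨9258, 9350, 30000⟩, ⟨1253, 1262, 1000⟩⟩ (tC28.u₁ - tC28Lo) (phCn (tC28.u₁ + xO * (tC28Lo - tC28.u₁))) :=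
  posIf_of_mul (k := 1) (n := 2) (posD_of_check (c := ⟨111, ⟨2, 0, 4, 2⟩⟩) (by decide +kernel))

def tC28_phxbabaaa : PosIf ⟨⟨0, 1, 1⟩, ⟨98, 99, 147⟩, ⟨9258, 9350, 30000⟩, ⟨1253, 1262, 1000⟩⟩ (tC28.u₁ - tC28Lo) (phCn (tC28.u₁ + xO * (tC28Lo - tC28.u₁))) :=
  posIf_units (b := ⟨⟨0, 2, 2⟩, ⟨98, 99, 147⟩, ⟨9258, 9350, 30000⟩, ⟨1253, 1262, 1000⟩⟩) (by decide +kernel) (posIf_join₀ tC28_phxbabaaaa tC28_phxbabaaab)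

def tC28_phxbabaaba : PosIf ⟨⟨0, 1, 1⟩, ⟨98, 99, 147⟩, ⟨9350, 9443, 30000⟩, ⟨1253, 1257, 1000⟩⟩ (tC28.u₁ - tC28Lo) (phCn (tC28.u₁ + xO * (tC28Lo - tC28.u₁))) :=
  posIf_of_mul (k := 1) (n := 4) (posD_of_check (c := ⟨109, ⟨2, 0, 4, 2⟩⟩) (by decide +kernel))

def tC28_phxbabaabb : PosIf ⟨⟨0, 1, 1⟩, ⟨98, 99, 147⟩, ⟨9350, 9443, 30000⟩, ⟨1257, 1262, 1000⟩⟩ (tC28.u₁ - tC28Lo) (phCn (tC28.u₁ + xO * (tC28Lo - tC28.u₁))) :=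
  posIf_of_posD (posD_of_check (c := ⟨109, ⟨2, 0, 4, 2⟩⟩) (by decide +kernel))

def tC28_phxbabaab : PosIf ⟨⟨0, 1, 1⟩, ⟨98, 99, 147⟩, ⟨9350, 9443, 30000⟩, ⟨1253, 1262, 1000⟩⟩ (tC28.u₁ - tC28Lo) (phCn (tC28.u₁ + xO * (tC28Lo - tC28.u₁))) :=
  posIf_join₃ tC28_phxbabaaba tC28_phxbabaabb

def tC28_phxbabaa : PosIf ⟨⟨0, 1, 1⟩, ⟨98, 99, 147⟩, ⟨9258, 9443, 30000⟩, ⟨1253, 1262, 1000⟩⟩ (tC28.u₁ - tC28Lo) (phCn (tC28.u₁ + xO * (tC28Lo - tC28.u₁))) :=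
  posIf_join₂ tC28_phxbabaaa tC28_phxbabaab

def tC28_phxbabab : PosIf ⟨⟨0, 1, 1⟩, ⟨98, 99, 147⟩, ⟨9443, 9629, 30000⟩, ⟨1253, 1262, 1000⟩⟩ (tC28.u₁ - tC28Lo) (phCn (tC28.u₁ + xO * (tC28Lo - tC28.u₁))) :=
  posIf_of_posD (posD_of_check (c := ⟨109, ⟨2, 0, 4, 2⟩⟩) (by decide +kernel))

def tC28_phxbaba : PosIf ⟨⟨0, 1, 1⟩, ⟨98, 99, 147⟩, ⟨9258, 9629, 30000⟩, ⟨1253, 1262, 1000⟩⟩ (tC28.u₁ - tC28Lo) (phCn (tC28.u₁ + xO * (tC28Lo - tC28.u₁))) :=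
  posIf_join₂ tC28_phxbabaa tC28_phxbabab

def tC28_phxbabb : PosIf ⟨⟨0, 1, 1⟩, ⟨98, 99, 147⟩, ⟨9258, 9629, 30000⟩, ⟨1262, 1271, 1000⟩⟩ (tC28.u₁ - tC28Lo) (phCn (tC28.u₁ + xO * (tC28Lo - tC28.u₁))) :=
  posIf_of_posD (posD_of_check (c := ⟨109, ⟨2, 0, 4, 2⟩⟩) (by decide +kernel))

def tC28_phxbab : PosIf ⟨⟨0, 1, 1⟩, ⟨98, 99, 147⟩, ⟨9258, 9629, 30000⟩, ⟨1253, 1271, 1000⟩⟩ (tC28.u₁ - tC28Lo) (phCn (tC28.u₁ + xO * (tC28Lo - tC28.u₁))) :=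
  posIf_join₃ tC28_phxbaba tC28_phxbabb

def tC28_phxba : PosIf ⟨⟨0, 1, 1⟩, ⟨98, 99, 147⟩, ⟨9258, 9629, 30000⟩, ⟨1235, 1271, 1000⟩⟩ (tC28.u₁ - tC28Lo) (phCn (tC28.u₁ + xO * (tC28Lo - tC28.u₁))) :=
  posIf_join₃ tC28_phxbaa tC28_phxbab

def tC28_phxbb : PosIf ⟨⟨0, 1, 1⟩, ⟨98, 99, 147⟩, ⟨9629, 10000, 30000⟩, ⟨1235, 1271, 1000⟩⟩ (tC28.u₁ - tC28Lo) (phCn (tC28.u₁ + xO * (tC28Lo - tC28.u₁))) :=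
  posIf_of_posD (posD_of_check (c := ⟨109, ⟨2, 0, 4, 2⟩⟩) (by decide +kernel))

def tC28_phxb : PosIf ⟨⟨0, 1, 1⟩, ⟨98, 99, 147⟩, ⟨9258, 10000, 30000⟩, ⟨1235, 1271, 1000⟩⟩ (tC28.u₁ - tC28Lo) (phCn (tC28.u₁ + xO * (tC28Lo - tC28.u₁))) :=
  posIf_join₂ tC28_phxba tC28_phxbb

def tC28_phx : PosIf ⟨⟨0, 1, 1⟩, ⟨98, 99, 147⟩, ⟨9258, 10000, 30000⟩, ⟨1200, 1271, 1000⟩⟩ (tC28.u₁ - tC28Lo) (phCn (tC28.u₁ + xO * (tC28Lo - tC28.u₁))) :=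
  posIf_join₃ tC28_phxa tC28_phxb

def tC28_phd : PosD ⟨⟨0, 1, 1⟩, ⟨98, 99, 147⟩, ⟨9258, 10000, 30000⟩, ⟨1200, 1271, 1000⟩⟩ (phCd (tC28.u₁ + xO * (tC28Lo - tC28.u₁))) :=
  posD_of_check (c := ⟨51, ⟨1, 0, 2, 1⟩⟩) (by decide +kernel)

def tC28_p0 : PosD ⟨⟨0, 1, 1⟩, ⟨98, 99, 147⟩, ⟨9258, 10000, 30000⟩, ⟨1200, 1271, 1000⟩⟩ (tC28.hP0) :=
  posD_of_check (c := ⟨83, ⟨0, 2, 3, 1⟩⟩) (by decide +kernel)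

def tC28_gn : PosD ⟨⟨0, 1, 1⟩, ⟨98, 99, 147⟩, ⟨9258, 10000, 30000⟩, ⟨1200, 1271, 1000⟩⟩ (tC28.hGn) :=
  posD_of_check (c := ⟨69, ⟨1, 1, 2, 2⟩⟩) (by decide +kernel)

def tC28_den0 : PosD ⟨⟨0, 1, 1⟩, ⟨98, 99, 147⟩, ⟨9258, 10000, 30000⟩, ⟨1200, 1271, 1000⟩⟩ (tC28.hDen false) :=
  posD_of_check (c := ⟨51, ⟨1, 0, 2, 1⟩⟩) (by decide +kernel)

def tC28_den1 : PosD ⟨⟨0, 1, 1⟩, ⟨98, 99, 147⟩, ⟨9258, 10000, 30000⟩, ⟨1200, 1271, 1000⟩⟩ (tC28.hDen true) :=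
  posD_of_check (c := ⟨51, ⟨1, 0, 2, 1⟩⟩) (by decide +kernel)

def tC28_ev0 : PosD ⟨⟨0, 1, 1⟩, ⟨98, 99, 147⟩, ⟨9258, 10000, 30000⟩, ⟨1200, 1271, 1000⟩⟩ (tC28.hEv false) :=
  posD_of_check (c := ⟨220, ⟨4, 2, 8, 4⟩⟩) (by decide +kernel)

def tC28_zL0 : PosD ⟨⟨0, 1, 1⟩, ⟨98, 99, 147⟩, ⟨9258, 10000, 30000⟩, ⟨1200, 1271, 1000⟩⟩ (tC28.hZL false) :=
  posD_of_check (c := ⟨222, ⟨4, 3, 8, 4⟩⟩) (by decide +kernel)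

def tC28_zU0 : PosD ⟨⟨0, 1, 1⟩, ⟨98, 99, 147⟩, ⟨9258, 10000, 30000⟩, ⟨1200, 1271, 1000⟩⟩ (tC28.hZU false) :=
  posD_of_check (c := ⟨222, ⟨4, 3, 8, 4⟩⟩) (by decide +kernel)

def tC28_eL0 : PosD ⟨⟨0, 1, 1⟩, ⟨98, 99, 147⟩, ⟨9258, 10000, 30000⟩, ⟨1200, 1271, 1000⟩⟩ (tC28.hEL false) :=
  posD_of_check (c := ⟨315, ⟨5, 6, 11, 6⟩⟩) (by decide +kernel)

def tC28_eH0 : PosD ⟨⟨0, 1, 1⟩, ⟨98, 99, 147⟩, ⟨9258, 10000, 30000⟩, ⟨1200, 1271, 1000⟩⟩ (tC28.hEH false) :=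
  posD_of_check (c := ⟨351, ⟨5, 6, 11, 7⟩⟩) (by decide +kernel)

def tC28_pL0 : PosD ⟨⟨0, 1, 1⟩, ⟨98, 99, 147⟩, ⟨9258, 10000, 30000⟩, ⟨1200, 1271, 1000⟩⟩ (tC28.hPL false) :=
  posD_of_check (c := ⟨344, ⟨5, 6, 11, 7⟩⟩) (by decide +kernel)

def tC28_pU0 : PosD ⟨⟨0, 1, 1⟩, ⟨98, 99, 147⟩, ⟨9258, 10000, 30000⟩, ⟨1200, 1271, 1000⟩⟩ (tC28.hPU false) :=
  posD_of_check (c := ⟨342, ⟨5, 6, 11, 7⟩⟩) (by decide +kernel)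

def tC28_kU0 : PosD ⟨⟨0, 1, 1⟩, ⟨98, 99, 147⟩, ⟨9258, 10000, 30000⟩, ⟨1200, 1271, 1000⟩⟩ (tC28.hKU false) :=
  posD_of_check (c := ⟨338, ⟨5, 6, 11, 7⟩⟩) (by decide +kernel)

def tC28_kL0 : PosD ⟨⟨0, 1, 1⟩, ⟨98, 99, 147⟩, ⟨9258, 10000, 30000⟩, ⟨1200, 1271, 1000⟩⟩ (tC28.hKL false) :=
  posD_of_check (c := ⟨337, ⟨5, 6, 11, 7⟩⟩) (by decide +kernel)

def tC28_wU0 : PosD ⟨⟨0, 1, 1⟩, ⟨98, 99, 147⟩, ⟨9258, 10000, 30000⟩, ⟨1200, 1271, 1000⟩⟩ (tC28.hWU false) :=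
  posD_of_check (c := ⟨371, ⟨5, 8, 12, 7⟩⟩) (by decide +kernel)

def tC28_wL0 : PosD ⟨⟨0, 1, 1⟩, ⟨98, 99, 147⟩, ⟨9258, 10000, 30000⟩, ⟨1200, 1271, 1000⟩⟩ (tC28.hWL false) :=
  posD_of_relax (k₁ := 0) (k₂ := 0) (k₃ := 1) (n := 16) (posD_of_check (c := ⟨380, ⟨5, 8, 12, 7⟩⟩) (by decide +kernel))

def tC28_ev1 : PosD ⟨⟨0, 1, 1⟩, ⟨98, 99, 147⟩, ⟨9258, 10000, 30000⟩, ⟨1200, 1271, 1000⟩⟩ (tC28.hEv true) :=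
  posD_of_check (c := ⟨218, ⟨4, 2, 8, 4⟩⟩) (by decide +kernel)

def tC28_zL1a : PosD ⟨⟨0, 1, 1⟩, ⟨98, 99, 147⟩, ⟨9258, 9629, 30000⟩, ⟨1200, 1271, 1000⟩⟩ (tC28.hZL true) :=
  posD_of_check (c := ⟨220, ⟨4, 3, 8, 4⟩⟩) (by decide +kernel)

def tC28_zL1ba : PosD ⟨⟨0, 1, 1⟩, ⟨98, 99, 147⟩, ⟨9629, 9814, 30000⟩, ⟨1200, 1271, 1000⟩⟩ (tC28.hZL true) :=
  posD_of_check (c := ⟨220, ⟨4, 3, 8, 4⟩⟩) (by decide +kernel)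

def tC28_zL1bba : PosD ⟨⟨0, 1, 1⟩, ⟨98, 99, 147⟩, ⟨9814, 9907, 30000⟩, ⟨1200, 1271, 1000⟩⟩ (tC28.hZL true) :=
  posD_of_check (c := ⟨220, ⟨4, 3, 8, 4⟩⟩) (by decide +kernel)

def tC28_zL1bbba : PosD ⟨⟨0, 1, 1⟩, ⟨98, 99, 147⟩, ⟨9907, 9953, 30000⟩, ⟨1200, 1271, 1000⟩⟩ (tC28.hZL true) :=
  posD_of_check (c := ⟨220, ⟨4, 3, 8, 4⟩⟩) (by decide +kernel)

def tC28_zL1bbbb : PosD ⟨⟨0, 1, 1⟩, ⟨98, 99, 147⟩, ⟨9953, 10000, 30000⟩, ⟨1200, 1271, 1000⟩⟩ (tC28.hZL true) :=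
  posD_of_relax (k₁ := 0) (k₂ := 0) (k₃ := 1) (n := 16) (posD_of_check (c := ⟨220, ⟨4, 3, 8, 4⟩⟩) (by decide +kernel))

def tC28_zL1bbb : PosD ⟨⟨0, 1, 1⟩, ⟨98, 99, 147⟩, ⟨9907, 10000, 30000⟩, ⟨1200, 1271, 1000⟩⟩ (tC28.hZL true) :=
  posD_join₂ tC28_zL1bbba tC28_zL1bbbb

def tC28_zL1bb : PosD ⟨⟨0, 1, 1⟩, ⟨98, 99, 147⟩, ⟨9814, 10000, 30000⟩, ⟨1200, 1271, 1000⟩⟩ (tC28.hZL true) :=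
  posD_join₂ tC28_zL1bba tC28_zL1bbb

def tC28_zL1b : PosD ⟨⟨0, 1, 1⟩, ⟨98, 99, 147⟩, ⟨9629, 10000, 30000⟩, ⟨1200, 1271, 1000⟩⟩ (tC28.hZL true) :=
  posD_join₂ tC28_zL1ba tC28_zL1bb

def tC28_zL1 : PosD ⟨⟨0, 1, 1⟩, ⟨98, 99, 147⟩, ⟨9258, 10000, 30000⟩, ⟨1200, 1271, 1000⟩⟩ (tC28.hZL true) :=
  posD_join₂ tC28_zL1a tC28_zL1b

def tC28_zU1 : PosD ⟨⟨0, 1, 1⟩, ⟨98, 99, 147⟩, ⟨9258, 10000, 30000⟩, ⟨1200, 1271, 1000⟩⟩ (tC28.hZU true) :=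
  posD_of_check (c := ⟨220, ⟨4, 3, 8, 4⟩⟩) (by decide +kernel)

def tC28_eL1 : PosD ⟨⟨0, 1, 1⟩, ⟨98, 99, 147⟩, ⟨9258, 10000, 30000⟩, ⟨1200, 1271, 1000⟩⟩ (tC28.hEL true) :=
  posD_of_check (c := ⟨314, ⟨5, 6, 11, 6⟩⟩) (by decide +kernel)

def tC28_eH1 : PosD ⟨⟨0, 1, 1⟩, ⟨98, 99, 147⟩, ⟨9258, 10000, 30000⟩, ⟨1200, 1271, 1000⟩⟩ (tC28.hEH true) :=
  posD_of_check (c := ⟨350, ⟨5, 6, 11, 7⟩⟩) (by decide +kernel)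

def tC28_pL1 : PosD ⟨⟨0, 1, 1⟩, ⟨98, 99, 147⟩, ⟨9258, 10000, 30000⟩, ⟨1200, 1271, 1000⟩⟩ (tC28.hPL true) :=
  posD_of_check (c := ⟨343, ⟨5, 6, 11, 7⟩⟩) (by decide +kernel)

def tC28_pU1 : PosD ⟨⟨0, 1, 1⟩, ⟨98, 99, 147⟩, ⟨9258, 10000, 30000⟩, ⟨1200, 1271, 1000⟩⟩ (tC28.hPU true) :=
  posD_of_check (c := ⟨340, ⟨5, 6, 11, 7⟩⟩) (by decide +kernel)

def tC28_kU1 : PosD ⟨⟨0, 1, 1⟩, ⟨98, 99, 147⟩, ⟨9258, 10000, 30000⟩, ⟨1200, 1271, 1000⟩⟩ (tC28.hKU true) :=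
  posD_of_check (c := ⟨336, ⟨5, 6, 11, 7⟩⟩) (by decide +kernel)

def tC28_kL1 : PosD ⟨⟨0, 1, 1⟩, ⟨98, 99, 147⟩, ⟨9258, 10000, 30000⟩, ⟨1200, 1271, 1000⟩⟩ (tC28.hKL true) :=
  posD_of_check (c := ⟨336, ⟨5, 6, 11, 7⟩⟩) (by decide +kernel)

def tC28_wU1 : PosD ⟨⟨0, 1, 1⟩, ⟨98, 99, 147⟩, ⟨9258, 10000, 30000⟩, ⟨1200, 1271, 1000⟩⟩ (tC28.hWU true) :=
  posD_of_relax (k₁ := 0) (k₂ := 0) (k₃ := 1) (n := 16) (posD_of_check (c := ⟨369, ⟨5, 8, 12, 7⟩⟩) (by decide +kernel))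

def tC28_wL1 : PosD ⟨⟨0, 1, 1⟩, ⟨98, 99, 147⟩, ⟨9258, 10000, 30000⟩, ⟨1200, 1271, 1000⟩⟩ (tC28.hWL true) :=
  posD_of_check (c := ⟨378, ⟨5, 8, 12, 7⟩⟩) (by decide +kernel)

def tC28_nueH : PosD ⟨⟨0, 1, 1⟩, ⟨98, 99, 147⟩, ⟨9258, 10000, 30000⟩, ⟨1200, 1271, 1000⟩⟩ (tC28.eH.ν) :=
  posD_of_check (c := ⟨50, ⟨0, 0, 1, 1⟩⟩) (by decide +kernel)

def tC28_nuwL : PosD ⟨⟨0, 1, 1⟩, ⟨98, 99, 147⟩, ⟨9258, 10000, 30000⟩, ⟨1200, 1271, 1000⟩⟩ (tC28.wL.ν) :=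
  posD_of_check (c := ⟨47, ⟨0, 0, 1, 1⟩⟩) (by decide +kernel)

/-- The bounds of the piece. -/
def tC28_env : tC28.Env ⟨⟨0, 1, 1⟩, ⟨98, 99, 147⟩, ⟨9258, 10000, 30000⟩, ⟨1200, 1271, 1000⟩⟩ :=
  ⟨tC28_p0, Bool.forall_bool.2 ⟨tC28_den0, tC28_den1⟩, tC28_gn, Bool.forall_bool.2 ⟨tC28_ev0, tC28_ev1⟩, Bool.forall_bool.2 ⟨tC28_zL0, tC28_zL1⟩, Bool.forall_bool.2 ⟨tC28_zU0, tC28_zU1⟩, Bool.forall_bool.2 ⟨tC28_eL0, tC28_eL1⟩, ⟨.inr rfl, .inr rfl⟩, Bool.forall_bool.2 ⟨tC28_eH0, tC28_eH1⟩, ⟨.inr rfl, .inl tC28_nueH⟩, Bool.forall_bool.2 ⟨tC28_pL0, tC28_pL1⟩, ⟨.inr rfl, .inr rfl⟩, Bool.forall_bool.2 ⟨tC28_pU0, tC28_pU1⟩, ⟨.inr rfl, .inr rfl⟩, Bool.forall_bool.2 ⟨tC28_kU0, tC28_kU1⟩, ⟨.inr rfl, .inr rfl⟩, Bool.forall_bool.2 ⟨tC28_kL0, tC28_kL1⟩,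 ⟨.inr rfl, .inr rfl⟩, Bool.forall_bool.2 ⟨tC28_wU0, tC28_wU1⟩, ⟨.inr rfl, .inr rfl⟩, Bool.forall_bool.2 ⟨tC28_wL0, tC28_wL1⟩, ⟨.inr rfl, .inl tC28_nuwL⟩⟩

def tC28_pU20 : PosD ⟨⟨0, 1, 1⟩, ⟨98, 99, 147⟩, ⟨9258, 10000, 30000⟩, ⟨1200, 1271, 1000⟩⟩ (({ tC28 with pU := tC28PU } : Piece).hPU false) :=
  posD_of_check (c := ⟨352, ⟨5, 6, 11, 7⟩⟩) (by decide +kernel)

def tC28_pU21 : PosD ⟨⟨0, 1, 1⟩, ⟨98, 99, 147⟩, ⟨9258, 10000, 30000⟩, ⟨1200, 1271, 1000⟩⟩ (({ tC28 with pU := tC28PU } : Piece).hPU true) :=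
  posD_of_check (c := ⟨350, ⟨5, 6, 11, 7⟩⟩) (by decide +kernel)

def tC28_nupU2 : PosD ⟨⟨0, 1, 1⟩, ⟨98, 99, 147⟩, ⟨9258, 10000, 30000⟩, ⟨1200, 1271, 1000⟩⟩ (tC28PU.ν) :=
  posD_of_check (c := ⟨51, ⟨0, 0, 1, 1⟩⟩) (by decide +kernel)

/-- The bounds with the other bound of `p`. -/
def tC28_envU : ({ tC28 with pU := tC28PU } : Piece).Env ⟨⟨0, 1, 1⟩, ⟨98, 99, 147⟩, ⟨9258, 10000, 30000⟩, ⟨1200, 1271, 1000⟩⟩ :=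
  tC28_env.withU tC28PU (Bool.forall_bool.2 ⟨tC28_pU20, tC28_pU21⟩) ⟨.inr rfl, .inl tC28_nupU2⟩

def tC28A_pp : PosD ⟨⟨0, 1, 1⟩, ⟨98, 99, 147⟩, ⟨9258, 10000, 30000⟩, ⟨1200, 1271, 1000⟩⟩ (tC28A.xPL) :=
  posD_of_check (c := ⟨102, ⟨1, 1, 3, 3⟩⟩) (by decide +kernel)

def tC28A_k2p : PosD ⟨⟨0, 1, 1⟩, ⟨98, 99, 147⟩, ⟨9258, 10000, 30000⟩, ⟨1200, 1271, 1000⟩⟩ (tC28A.k2p tC28A.xE) :=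
  posD_of_check (c := ⟨73, ⟨1, 1, 2, 2⟩⟩) (by decide +kernel)

def tC28A_k2m : PosD ⟨⟨0, 1, 1⟩, ⟨98, 99, 147⟩, ⟨9258, 10000, 30000⟩, ⟨1200, 1271, 1000⟩⟩ (tC28A.k2m tC28A.xE) :=
  posD_of_check (c := ⟨75, ⟨1, 1, 2, 2⟩⟩) (by decide +kernel)

def tC28A_v2p : PosD ⟨⟨0, 1, 1⟩, ⟨98, 99, 147⟩, ⟨9258, 10000, 30000⟩, ⟨1200, 1271, 1000⟩⟩ (tC28A.hV2p) :=
  posD_of_check (c := ⟨275, ⟨1, 6, 10, 5⟩⟩) (by decide +kernel)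

def tC28A_v2m : PosD ⟨⟨0, 1, 1⟩, ⟨98, 99, 147⟩, ⟨9258, 10000, 30000⟩, ⟨1200, 1271, 1000⟩⟩ (tC28A.hV2m) :=
  posD_of_check (c := ⟨276, ⟨1, 6, 10, 5⟩⟩) (by decide +kernel)

def tC28A_v3p : PosD ⟨⟨0, 1, 1⟩, ⟨98, 99, 147⟩, ⟨9258, 10000, 30000⟩, ⟨1200, 1271, 1000⟩⟩ (tC28A.hV3p) :=
  posD_of_check (c := ⟨259, ⟨1, 6, 9, 5⟩⟩) (by decide +kernel)

def tC28A_v3m : PosD ⟨⟨0, 1, 1⟩, ⟨98, 99, 147⟩, ⟨9258, 10000, 30000⟩, ⟨1200, 1271, 1000⟩⟩ (tC28A.hV3m) :=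
  posD_of_check (c := ⟨261, ⟨1, 6, 9, 5⟩⟩) (by decide +kernel)

def tC28A_kap0 : PosD ⟨⟨0, 1, 1⟩, ⟨98, 99, 147⟩, ⟨9258, 10000, 30000⟩, ⟨1200, 1271, 1000⟩⟩ (tC28A.kap false) :=
  posD_of_check (c := ⟨72, ⟨1, 1, 2, 2⟩⟩) (by decide +kernel)

def tC28A_c10 : PosD ⟨⟨0, 1, 1⟩, ⟨98, 99, 147⟩, ⟨9258, 10000, 30000⟩, ⟨1200, 1271, 1000⟩⟩ (tC28A.hC1 false) :=
  posD_of_check (c := ⟨283, ⟨3, 5, 9, 7⟩⟩) (by decide +kernel)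

def tC28A_c1h0 : PosD ⟨⟨0, 1, 1⟩, ⟨98, 99, 147⟩, ⟨9258, 10000, 30000⟩, ⟨1200, 1271, 1000⟩⟩ (tC28A.hC1' false) :=
  posD_of_check (c := ⟨283, ⟨3, 5, 9, 7⟩⟩) (by decide +kernel)

def tC28A_tg00 : PosD ⟨⟨0, 1, 1⟩, ⟨98, 99, 147⟩, ⟨9258, 10000, 30000⟩, ⟨1200, 1271, 1000⟩⟩ (tC28A.hG false (tC28A.pEnd false)) :=
  posD_of_check (c := ⟨400, ⟨2, 7, 14, 9⟩⟩) (by decide +kernel)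

def tC28A_c2p00 : PosD ⟨⟨0, 1, 1⟩, ⟨98, 99, 147⟩, ⟨9258, 10000, 30000⟩, ⟨1200, 1271, 1000⟩⟩ (tC28A.hC2p false (tC28A.pEnd false)) :=
  posD_of_check (c := ⟨473, ⟨3, 8, 16, 11⟩⟩) (by decide +kernel)

def tC28A_c2m00 : PosD ⟨⟨0, 1, 1⟩, ⟨98, 99, 147⟩, ⟨9258, 10000, 30000⟩, ⟨1200, 1271, 1000⟩⟩ (tC28A.hC2m false (tC28A.pEnd false)) :=
  posD_of_check (c := ⟨474, ⟨3, 8, 16, 11⟩⟩) (by decide +kernel)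

def tC28A_c3p00 : PosD ⟨⟨0, 1, 1⟩, ⟨98, 99, 147⟩, ⟨9258, 10000, 30000⟩, ⟨1200, 1271, 1000⟩⟩ (tC28A.hC3p false false) :=
  posD_of_check (c := ⟨457, ⟨3, 8, 15, 11⟩⟩) (by decide +kernel)

def tC28A_c3m00 : PosD ⟨⟨0, 1, 1⟩, ⟨98, 99, 147⟩, ⟨9258, 10000, 30000⟩, ⟨1200, 1271, 1000⟩⟩ (tC28A.hC3m false false) :=
  posD_of_check (c := ⟨459, ⟨3, 8, 15, 11⟩⟩) (by decide +kernel)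

def tC28A_c3ph00 : PosD ⟨⟨0, 1, 1⟩, ⟨98, 99, 147⟩, ⟨9258, 10000, 30000⟩, ⟨1200, 1271, 1000⟩⟩ (tC28A.hC3p' false false) :=
  posD_of_check (c := ⟨457, ⟨3, 8, 15, 11⟩⟩) (by decide +kernel)

def tC28A_c3mh00 : PosD ⟨⟨0, 1, 1⟩, ⟨98, 99, 147⟩, ⟨9258, 10000, 30000⟩, ⟨1200, 1271, 1000⟩⟩ (tC28A.hC3m' false false) :=
  posD_of_check (c := ⟨459, ⟨3, 8, 15, 11⟩⟩) (by decide +kernel)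

def tC28A_up00 : PosD ⟨⟨0, 1, 1⟩, ⟨98, 99, 147⟩, ⟨9258, 10000, 30000⟩, ⟨1200, 1271, 1000⟩⟩ (tC28A.hUp false false) :=
  posD_of_check (c := ⟨457, ⟨3, 8, 15, 11⟩⟩) (by decide +kernel)

def tC28A_um00 : PosD ⟨⟨0, 1, 1⟩, ⟨98, 99, 147⟩, ⟨9258, 10000, 30000⟩, ⟨1200, 1271, 1000⟩⟩ (tC28A.hUm false false) :=
  posD_of_check (c := ⟨459, ⟨3, 8, 15, 11⟩⟩) (by decide +kernel)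

def tC28A_tmg00 : PosD ⟨⟨0, 1, 1⟩, ⟨98, 99, 147⟩, ⟨9258, 10000, 30000⟩, ⟨1200, 1271, 1000⟩⟩ (tC28A.hTMG false (tC28A.pEnd false)) :=
  posD_of_check (c := ⟨413, ⟨2, 7, 14, 10⟩⟩) (by decide +kernel)

def tC28A_tg01 : PosD ⟨⟨0, 1, 1⟩, ⟨98, 99, 147⟩, ⟨9258, 10000, 30000⟩, ⟨1200, 1271, 1000⟩⟩ (tC28A.hG true (tC28A.pEnd false)) :=
  posD_of_check (c := ⟨400, ⟨2, 7, 14, 9⟩⟩) (by decide +kernel)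

def tC28A_c2p01 : PosD ⟨⟨0, 1, 1⟩, ⟨98, 99, 147⟩, ⟨9258, 10000, 30000⟩, ⟨1200, 1271, 1000⟩⟩ (tC28A.hC2p true (tC28A.pEnd false)) :=
  posD_of_check (c := ⟨473, ⟨3, 8, 16, 11⟩⟩) (by decide +kernel)

def tC28A_c2m01 : PosD ⟨⟨0, 1, 1⟩, ⟨98, 99, 147⟩, ⟨9258, 10000, 30000⟩, ⟨1200, 1271, 1000⟩⟩ (tC28A.hC2m true (tC28A.pEnd false)) :=
  posD_of_check (c := ⟨474, ⟨3, 8, 16, 11⟩⟩) (by decide +kernel)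

def tC28A_c3p01 : PosD ⟨⟨0, 1, 1⟩, ⟨98, 99, 147⟩, ⟨9258, 10000, 30000⟩, ⟨1200, 1271, 1000⟩⟩ (tC28A.hC3p false true) :=
  posD_of_check (c := ⟨457, ⟨3, 8, 15, 11⟩⟩) (by decide +kernel)

def tC28A_c3m01 : PosD ⟨⟨0, 1, 1⟩, ⟨98, 99, 147⟩, ⟨9258, 10000, 30000⟩, ⟨1200, 1271, 1000⟩⟩ (tC28A.hC3m false true) :=
  posD_of_check (c := ⟨459, ⟨3, 8, 15, 11⟩⟩) (by decide +kernel)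

def tC28A_c3ph01 : PosD ⟨⟨0, 1, 1⟩, ⟨98, 99, 147⟩, ⟨9258, 10000, 30000⟩, ⟨1200, 1271, 1000⟩⟩ (tC28A.hC3p' false true) :=
  posD_of_check (c := ⟨457, ⟨3, 8, 15, 11⟩⟩) (by decide +kernel)

def tC28A_c3mh01 : PosD ⟨⟨0, 1, 1⟩, ⟨98, 99, 147⟩, ⟨9258, 10000, 30000⟩, ⟨1200, 1271, 1000⟩⟩ (tC28A.hC3m' false true) :=
  posD_of_check (c := ⟨459, ⟨3, 8, 15, 11⟩⟩) (by decide +kernel)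

def tC28A_up01 : PosD ⟨⟨0, 1, 1⟩, ⟨98, 99, 147⟩, ⟨9258, 10000, 30000⟩, ⟨1200, 1271, 1000⟩⟩ (tC28A.hUp false true) :=
  posD_of_check (c := ⟨457, ⟨3, 8, 15, 11⟩⟩) (by decide +kernel)

def tC28A_um01 : PosD ⟨⟨0, 1, 1⟩, ⟨98, 99, 147⟩, ⟨9258, 10000, 30000⟩, ⟨1200, 1271, 1000⟩⟩ (tC28A.hUm false true) :=
  posD_of_check (c := ⟨459, ⟨3, 8, 15, 11⟩⟩) (by decide +kernel)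

def tC28A_tmg01 : PosD ⟨⟨0, 1, 1⟩, ⟨98, 99, 147⟩, ⟨9258, 10000, 30000⟩, ⟨1200, 1271, 1000⟩⟩ (tC28A.hTMG true (tC28A.pEnd false)) :=
  posD_of_check (c := ⟨413, ⟨2, 7, 14, 10⟩⟩) (by decide +kernel)

def tC28A_kap1 : PosD ⟨⟨0, 1, 1⟩, ⟨98, 99, 147⟩, ⟨9258, 10000, 30000⟩, ⟨1200, 1271, 1000⟩⟩ (tC28A.kap true) :=
  posD_of_check (c := ⟨73, ⟨1, 1, 2, 2⟩⟩) (by decide +kernel)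

def tC28A_c11 : PosD ⟨⟨0, 1, 1⟩, ⟨98, 99, 147⟩, ⟨9258, 10000, 30000⟩, ⟨1200, 1271, 1000⟩⟩ (tC28A.hC1 true) :=
  posD_of_check (c := ⟨281, ⟨3, 5, 9, 7⟩⟩) (by decide +kernel)

def tC28A_c1h1 : PosD ⟨⟨0, 1, 1⟩, ⟨98, 99, 147⟩, ⟨9258, 10000, 30000⟩, ⟨1200, 1271, 1000⟩⟩ (tC28A.hC1' true) :=
  posD_of_check (c := ⟨281, ⟨3, 5, 9, 7⟩⟩) (by decide +kernel)

def tC28A_tg10 : PosD ⟨⟨0, 1, 1⟩, ⟨98, 99, 147⟩, ⟨9258, 10000, 30000⟩, ⟨1200, 1271, 1000⟩⟩ (tC28A.hG false (tC28A.pEnd true)) :=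
  posD_of_check (c := ⟨394, ⟨2, 7, 14, 9⟩⟩) (by decide +kernel)

def tC28A_c2p10 : PosD ⟨⟨0, 1, 1⟩, ⟨98, 99, 147⟩, ⟨9258, 10000, 30000⟩, ⟨1200, 1271, 1000⟩⟩ (tC28A.hC2p false (tC28A.pEnd true)) :=
  posD_of_check (c := ⟨467, ⟨3, 8, 16, 11⟩⟩) (by decide +kernel)

def tC28A_c2m10 : PosD ⟨⟨0, 1, 1⟩, ⟨98, 99, 147⟩, ⟨9258, 10000, 30000⟩, ⟨1200, 1271, 1000⟩⟩ (tC28A.hC2m false (tC28A.pEnd true)) :=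
  posD_of_check (c := ⟨468, ⟨3, 8, 16, 11⟩⟩) (by decide +kernel)

def tC28A_c3p10 : PosD ⟨⟨0, 1, 1⟩, ⟨98, 99, 147⟩, ⟨9258, 10000, 30000⟩, ⟨1200, 1271, 1000⟩⟩ (tC28A.hC3p true false) :=
  posD_of_check (c := ⟨453, ⟨3, 8, 15, 11⟩⟩) (by decide +kernel)

def tC28A_c3m10 : PosD ⟨⟨0, 1, 1⟩, ⟨98, 99, 147⟩, ⟨9258, 10000, 30000⟩, ⟨1200, 1271, 1000⟩⟩ (tC28A.hC3m true false) :=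
  posD_of_check (c := ⟨453, ⟨3, 8, 15, 11⟩⟩) (by decide +kernel)

def tC28A_c3ph10 : PosD ⟨⟨0, 1, 1⟩, ⟨98, 99, 147⟩, ⟨9258, 10000, 30000⟩, ⟨1200, 1271, 1000⟩⟩ (tC28A.hC3p' true false) :=
  posD_of_check (c := ⟨453, ⟨3, 8, 15, 11⟩⟩) (by decide +kernel)

def tC28A_c3mh10 : PosD ⟨⟨0, 1, 1⟩, ⟨98, 99, 147⟩, ⟨9258, 10000, 30000⟩, ⟨1200, 1271, 1000⟩⟩ (tC28A.hC3m' true false) :=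
  posD_of_check (c := ⟨453, ⟨3, 8, 15, 11⟩⟩) (by decide +kernel)

def tC28A_up10 : PosD ⟨⟨0, 1, 1⟩, ⟨98, 99, 147⟩, ⟨9258, 10000, 30000⟩, ⟨1200, 1271, 1000⟩⟩ (tC28A.hUp true false) :=
  posD_of_check (c := ⟨451, ⟨3, 8, 15, 11⟩⟩) (by decide +kernel)

def tC28A_um10 : PosD ⟨⟨0, 1, 1⟩, ⟨98, 99, 147⟩, ⟨9258, 10000, 30000⟩, ⟨1200, 1271, 1000⟩⟩ (tC28A.hUm true false) :=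
  posD_of_check (c := ⟨453, ⟨3, 8, 15, 11⟩⟩) (by decide +kernel)

def tC28A_tmg10 : PosD ⟨⟨0, 1, 1⟩, ⟨98, 99, 147⟩, ⟨9258, 10000, 30000⟩, ⟨1200, 1271, 1000⟩⟩ (tC28A.hTMG false (tC28A.pEnd true)) :=
  posD_of_check (c := ⟨407, ⟨2, 7, 14, 10⟩⟩) (by decide +kernel)

def tC28A_tg11 : PosD ⟨⟨0, 1, 1⟩, ⟨98, 99, 147⟩, ⟨9258, 10000, 30000⟩, ⟨1200, 1271, 1000⟩⟩ (tC28A.hG true (tC28A.pEnd true)) :=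
  posD_of_check (c := ⟨394, ⟨2, 7, 14, 9⟩⟩) (by decide +kernel)

def tC28A_c2p11 : PosD ⟨⟨0, 1, 1⟩, ⟨98, 99, 147⟩, ⟨9258, 10000, 30000⟩, ⟨1200, 1271, 1000⟩⟩ (tC28A.hC2p true (tC28A.pEnd true)) :=
  posD_of_check (c := ⟨467, ⟨3, 8, 16, 11⟩⟩) (by decide +kernel)

def tC28A_c2m11 : PosD ⟨⟨0, 1, 1⟩, ⟨98, 99, 147⟩, ⟨9258, 10000, 30000⟩, ⟨1200, 1271, 1000⟩⟩ (tC28A.hC2m true (tC28A.pEnd true)) :=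
  posD_of_check (c := ⟨468, ⟨3, 8, 16, 11⟩⟩) (by decide +kernel)

def tC28A_c3p11 : PosD ⟨⟨0, 1, 1⟩, ⟨98, 99, 147⟩, ⟨9258, 10000, 30000⟩, ⟨1200, 1271, 1000⟩⟩ (tC28A.hC3p true true) :=
  posD_of_check (c := ⟨453, ⟨3, 8, 15, 11⟩⟩) (by decide +kernel)

def tC28A_c3m11 : PosD ⟨⟨0, 1, 1⟩, ⟨98, 99, 147⟩, ⟨9258, 10000, 30000⟩, ⟨1200, 1271, 1000⟩⟩ (tC28A.hC3m true true) :=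
  posD_of_check (c := ⟨453, ⟨3, 8, 15, 11⟩⟩) (by decide +kernel)

def tC28A_c3ph11 : PosD ⟨⟨0, 1, 1⟩, ⟨98, 99, 147⟩, ⟨9258, 10000, 30000⟩, ⟨1200, 1271, 1000⟩⟩ (tC28A.hC3p' true true) :=
  posD_of_check (c := ⟨453, ⟨3, 8, 15, 11⟩⟩) (by decide +kernel)

def tC28A_c3mh11 : PosD ⟨⟨0, 1, 1⟩, ⟨98, 99, 147⟩, ⟨9258, 10000, 30000⟩, ⟨1200, 1271, 1000⟩⟩ (tC28A.hC3m' true true) :=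
  posD_of_check (c := ⟨453, ⟨3, 8, 15, 11⟩⟩) (by decide +kernel)

def tC28A_up11 : PosD ⟨⟨0, 1, 1⟩, ⟨98, 99, 147⟩, ⟨9258, 10000, 30000⟩, ⟨1200, 1271, 1000⟩⟩ (tC28A.hUp true true) :=
  posD_of_check (c := ⟨451, ⟨3, 8, 15, 11⟩⟩) (by decide +kernel)

def tC28A_um11 : PosD ⟨⟨0, 1, 1⟩, ⟨98, 99, 147⟩, ⟨9258, 10000, 30000⟩, ⟨1200, 1271, 1000⟩⟩ (tC28A.hUm true true) :=
  posD_of_check (c := ⟨453, ⟨3, 8, 15, 11⟩⟩) (by decide +kernel)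

def tC28A_tmg11 : PosD ⟨⟨0, 1, 1⟩, ⟨98, 99, 147⟩, ⟨9258, 10000, 30000⟩, ⟨1200, 1271, 1000⟩⟩ (tC28A.hTMG true (tC28A.pEnd true)) :=
  posD_of_check (c := ⟨407, ⟨2, 7, 14, 10⟩⟩) (by decide +kernel)

/-- The signs of the piece. -/
def tC28A_sign : tC28A.Sign ⟨⟨0, 1, 1⟩, ⟨98, 99, 147⟩, ⟨9258, 10000, 30000⟩, ⟨1200, 1271, 1000⟩⟩ :=
  ⟨tC28A_pp,
    tC28A_k2p,
    tC28A_k2m,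
    Bool.forall_bool.2 ⟨(Bool.forall_bool.2 ⟨tC28A_tg00, tC28A_tg01⟩), (Bool.forall_bool.2 ⟨tC28A_tg10, tC28A_tg11⟩)⟩,
    Bool.forall_bool.2 ⟨(Bool.forall_bool.2 ⟨tC28A_c2p00, tC28A_c2p01⟩), (Bool.forall_bool.2 ⟨tC28A_c2p10, tC28A_c2p11⟩)⟩,
    Bool.forall_bool.2 ⟨(Bool.forall_bool.2 ⟨tC28A_c2m00, tC28A_c2m01⟩), (Bool.forall_bool.2 ⟨tC28A_c2m10, tC28A_c2m11⟩)⟩,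
    Bool.forall_bool.2 ⟨tC28A_kap0, tC28A_kap1⟩,
    Bool.forall_bool.2 ⟨tC28A_c10, tC28A_c11⟩,
    Bool.forall_bool.2 ⟨(Bool.forall_bool.2 ⟨tC28A_c3p00, tC28A_c3p01⟩), (Bool.forall_bool.2 ⟨tC28A_c3p10, tC28A_c3p11⟩)⟩,
    Bool.forall_bool.2 ⟨(Bool.forall_bool.2 ⟨tC28A_c3m00, tC28A_c3m01⟩), (Bool.forall_bool.2 ⟨tC28A_c3m10, tC28A_c3m11⟩)⟩,
    Bool.forall_bool.2 ⟨(Bool.forall_bool.2 ⟨tC28A_tmg00, tC28A_tmg01⟩), (Bool.forall_bool.2 ⟨tC28A_tmg10, tC28A_tmg11⟩)⟩,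
    .inr (Bool.forall_bool.2 ⟨⟨tC28A_c1h0, Bool.forall_bool.2 ⟨⟨tC28A_c3ph00, tC28A_c3mh00, tC28A_up00, tC28A_um00⟩, ⟨tC28A_c3ph01, tC28A_c3mh01, tC28A_up01, tC28A_um01⟩⟩⟩, ⟨tC28A_c1h1, Bool.forall_bool.2 ⟨⟨tC28A_c3ph10, tC28A_c3mh10, tC28A_up10, tC28A_um10⟩, ⟨tC28A_c3ph11, tC28A_c3mh11, tC28A_up11, tC28A_um11⟩⟩⟩⟩),
    tC28A_v2p,
    tC28A_v2m,
    tC28A_v3p,
    tC28A_v3m,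
    posD_sub (b := ⟨⟨0, 1, 1⟩, ⟨98, 99, 147⟩, ⟨4050, 10000, 30000⟩, ⟨290, 4000, 1000⟩⟩) (by decide +kernel) tC_vG,
    posD_sub (b := ⟨⟨0, 1, 1⟩, ⟨98, 99, 147⟩, ⟨4050, 10000, 30000⟩, ⟨290, 4000, 1000⟩⟩) (by decide +kernel) tC_vMG,
    posD_sub (b := ⟨⟨0, 1, 1⟩, ⟨98, 99, 147⟩, ⟨4050, 10000, 30000⟩, ⟨290, 4000, 1000⟩⟩) (by decide +kernel) tC_ak,
    posD_sub (b := ⟨⟨0, 1, 1⟩, ⟨98, 99, 147⟩, ⟨4050, 10000, 30000⟩, ⟨290, 4000, 1000⟩⟩) (by decide +kernel) tC_aw,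
    posD_sub (b := ⟨⟨0, 1, 1⟩, ⟨98, 99, 147⟩, ⟨4050, 10000, 30000⟩, ⟨290, 4000, 1000⟩⟩) (by decide +kernel) tC_gk,
    posD_sub (b := ⟨⟨0, 1, 1⟩, ⟨98, 99, 147⟩, ⟨4050, 10000, 30000⟩, ⟨290, 4000, 1000⟩⟩) (by decide +kernel) tC_gw,
    posD_sub (b := ⟨⟨0, 1, 1⟩, ⟨98, 99, 147⟩, ⟨4050, 10000, 30000⟩, ⟨290, 4000, 1000⟩⟩) (by decide +kernel) tC_ek,
    posD_sub (b := ⟨⟨0, 1, 1⟩, ⟨98, 99, 147⟩, ⟨4050, 10000, 30000⟩, ⟨290, 4000, 1000⟩⟩) (by decide +kernel) tC_ew⟩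

def tC28B_pp : PosD ⟨⟨0, 1, 1⟩, ⟨98, 99, 147⟩, ⟨9258, 10000, 30000⟩, ⟨1200, 1271, 1000⟩⟩ (tC28B.xPL) :=
  posD_of_check (c := ⟨103, ⟨1, 1, 3, 3⟩⟩) (by decide +kernel)

def tC28B_k2p : PosD ⟨⟨0, 1, 1⟩, ⟨98, 99, 147⟩, ⟨9258, 10000, 30000⟩, ⟨1200, 1271, 1000⟩⟩ (tC28B.k2p tC28B.xE) :=
  posD_of_check (c := ⟨31, ⟨0, 0, 1, 1⟩⟩) (by decide +kernel)

def tC28B_k2m : PosD ⟨⟨0, 1, 1⟩, ⟨98, 99, 147⟩, ⟨9258, 10000, 30000⟩, ⟨1200, 1271, 1000⟩⟩ (tC28B.k2m tC28B.xE) :=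
  posD_of_check (c := ⟨75, ⟨1, 1, 2, 2⟩⟩) (by decide +kernel)

def tC28B_v2p : PosD ⟨⟨0, 1, 1⟩, ⟨98, 99, 147⟩, ⟨9258, 10000, 30000⟩, ⟨1200, 1271, 1000⟩⟩ (tC28B.hV2p) :=
  posD_of_check (c := ⟨245, ⟨0, 5, 10, 4⟩⟩) (by decide +kernel)

def tC28B_v2m : PosD ⟨⟨0, 1, 1⟩, ⟨98, 99, 147⟩, ⟨9258, 10000, 30000⟩, ⟨1200, 1271, 1000⟩⟩ (tC28B.hV2m) :=
  posD_of_check (c := ⟨276, ⟨1, 6, 10, 5⟩⟩) (by decide +kernel)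

def tC28B_v3p : PosD ⟨⟨0, 1, 1⟩, ⟨98, 99, 147⟩, ⟨9258, 10000, 30000⟩, ⟨1200, 1271, 1000⟩⟩ (tC28B.hV3p) :=
  posD_of_check (c := ⟨232, ⟨0, 5, 9, 4⟩⟩) (by decide +kernel)

def tC28B_v3m : PosD ⟨⟨0, 1, 1⟩, ⟨98, 99, 147⟩, ⟨9258, 10000, 30000⟩, ⟨1200, 1271, 1000⟩⟩ (tC28B.hV3m) :=
  posD_of_check (c := ⟨261, ⟨1, 6, 9, 5⟩⟩) (by decide +kernel)

def tC28B_kap0 : PosD ⟨⟨0, 1, 1⟩, ⟨98, 99, 147⟩, ⟨9258, 10000, 30000⟩, ⟨1200, 1271, 1000⟩⟩ (tC28B.kap false) :=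
  posD_of_check (c := ⟨73, ⟨1, 1, 2, 2⟩⟩) (by decide +kernel)

def tC28B_c10 : PosD ⟨⟨0, 1, 1⟩, ⟨98, 99, 147⟩, ⟨9258, 10000, 30000⟩, ⟨1200, 1271, 1000⟩⟩ (tC28B.hC1 false) :=
  posD_of_check (c := ⟨286, ⟨3, 5, 9, 7⟩⟩) (by decide +kernel)

def tC28B_c1h0 : PosD ⟨⟨0, 1, 1⟩, ⟨98, 99, 147⟩, ⟨9258, 10000, 30000⟩, ⟨1200, 1271, 1000⟩⟩ (tC28B.hC1' false) :=
  posD_of_relax (k₁ := 0) (k₂ := 0) (k₃ := 35) (n := 16) (posD_of_check (c := ⟨286, ⟨3, 5, 9, 7⟩⟩) (by decide +kernel))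

def tC28B_tg00 : PosD ⟨⟨0, 1, 1⟩, ⟨98, 99, 147⟩, ⟨9258, 10000, 30000⟩, ⟨1200, 1271, 1000⟩⟩ (tC28B.hG false (tC28B.pEnd false)) :=
  posD_of_check (c := ⟨403, ⟨2, 7, 14, 9⟩⟩) (by decide +kernel)

def tC28B_c2p00 : PosD ⟨⟨0, 1, 1⟩, ⟨98, 99, 147⟩, ⟨9258, 10000, 30000⟩, ⟨1200, 1271, 1000⟩⟩ (tC28B.hC2p false (tC28B.pEnd false)) :=
  posD_of_check (c := ⟨446, ⟨2, 7, 16, 10⟩⟩) (by decide +kernel)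

def tC28B_c2m00 : PosD ⟨⟨0, 1, 1⟩, ⟨98, 99, 147⟩, ⟨9258, 10000, 30000⟩, ⟨1200, 1271, 1000⟩⟩ (tC28B.hC2m false (tC28B.pEnd false)) :=
  posD_of_check (c := ⟨477, ⟨3, 8, 16, 11⟩⟩) (by decide +kernel)

def tC28B_c3p00 : PosD ⟨⟨0, 1, 1⟩, ⟨98, 99, 147⟩, ⟨9258, 10000, 30000⟩, ⟨1200, 1271, 1000⟩⟩ (tC28B.hC3p false false) :=
  posD_of_check (c := ⟨435, ⟨3, 7, 15, 10⟩⟩) (by decide +kernel)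

def tC28B_c3m00 : PosD ⟨⟨0, 1, 1⟩, ⟨98, 99, 147⟩, ⟨9258, 10000, 30000⟩, ⟨1200, 1271, 1000⟩⟩ (tC28B.hC3m false false) :=
  posD_of_check (c := ⟨462, ⟨3, 8, 15, 11⟩⟩) (by decide +kernel)

def tC28B_c3ph00 : PosD ⟨⟨0, 1, 1⟩, ⟨98, 99, 147⟩, ⟨9258, 10000, 30000⟩, ⟨1200, 1271, 1000⟩⟩ (tC28B.hC3p' false false) :=
  posD_of_check (c := ⟨435, ⟨3, 7, 15, 10⟩⟩) (by decide +kernel)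

def tC28B_c3mh00 : PosD ⟨⟨0, 1, 1⟩, ⟨98, 99, 147⟩, ⟨9258, 10000, 30000⟩, ⟨1200, 1271, 1000⟩⟩ (tC28B.hC3m' false false) :=
  posD_of_check (c := ⟨462, ⟨3, 8, 15, 11⟩⟩) (by decide +kernel)

def tC28B_up00 : PosD ⟨⟨0, 1, 1⟩, ⟨98, 99, 147⟩, ⟨9258, 10000, 30000⟩, ⟨1200, 1271, 1000⟩⟩ (tC28B.hUp false false) :=
  posD_of_check (c := ⟨433, ⟨2, 7, 15, 10⟩⟩) (by decide +kernel)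

def tC28B_um00 : PosD ⟨⟨0, 1, 1⟩, ⟨98, 99, 147⟩, ⟨9258, 10000, 30000⟩, ⟨1200, 1271, 1000⟩⟩ (tC28B.hUm false false) :=
  posD_of_check (c := ⟨462, ⟨3, 8, 15, 11⟩⟩) (by decide +kernel)

def tC28B_tmg00 : PosD ⟨⟨0, 1, 1⟩, ⟨98, 99, 147⟩, ⟨9258, 10000, 30000⟩, ⟨1200, 1271, 1000⟩⟩ (tC28B.hTMG false (tC28B.pEnd false)) :=
  posD_of_check (c := ⟨416, ⟨2, 7, 14, 10⟩⟩) (by decide +kernel)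

def tC28B_tg01 : PosD ⟨⟨0, 1, 1⟩, ⟨98, 99, 147⟩, ⟨9258, 10000, 30000⟩, ⟨1200, 1271, 1000⟩⟩ (tC28B.hG true (tC28B.pEnd false)) :=
  posD_of_check (c := ⟨403, ⟨2, 7, 14, 9⟩⟩) (by decide +kernel)

def tC28B_c2p01 : PosD ⟨⟨0, 1, 1⟩, ⟨98, 99, 147⟩, ⟨9258, 10000, 30000⟩, ⟨1200, 1271, 1000⟩⟩ (tC28B.hC2p true (tC28B.pEnd false)) :=
  posD_of_check (c := ⟨446, ⟨2, 7, 16, 10⟩⟩) (by decide +kernel)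

def tC28B_c2m01 : PosD ⟨⟨0, 1, 1⟩, ⟨98, 99, 147⟩, ⟨9258, 10000, 30000⟩, ⟨1200, 1271, 1000⟩⟩ (tC28B.hC2m true (tC28B.pEnd false)) :=
  posD_of_check (c := ⟨477, ⟨3, 8, 16, 11⟩⟩) (by decide +kernel)

def tC28B_c3p01 : PosD ⟨⟨0, 1, 1⟩, ⟨98, 99, 147⟩, ⟨9258, 10000, 30000⟩, ⟨1200, 1271, 1000⟩⟩ (tC28B.hC3p false true) :=
  posD_of_check (c := ⟨435, ⟨3, 7, 15, 10⟩⟩) (by decide +kernel)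

def tC28B_c3m01 : PosD ⟨⟨0, 1, 1⟩, ⟨98, 99, 147⟩, ⟨9258, 10000, 30000⟩, ⟨1200, 1271, 1000⟩⟩ (tC28B.hC3m false true) :=
  posD_of_check (c := ⟨462, ⟨3, 8, 15, 11⟩⟩) (by decide +kernel)

def tC28B_c3ph01 : PosD ⟨⟨0, 1, 1⟩, ⟨98, 99, 147⟩, ⟨9258, 10000, 30000⟩, ⟨1200, 1271, 1000⟩⟩ (tC28B.hC3p' false true) :=
  posD_of_check (c := ⟨435, ⟨3, 7, 15, 10⟩⟩) (by decide +kernel)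

def tC28B_c3mh01 : PosD ⟨⟨0, 1, 1⟩, ⟨98, 99, 147⟩, ⟨9258, 10000, 30000⟩, ⟨1200, 1271, 1000⟩⟩ (tC28B.hC3m' false true) :=
  posD_of_check (c := ⟨462, ⟨3, 8, 15, 11⟩⟩) (by decide +kernel)

def tC28B_up01 : PosD ⟨⟨0, 1, 1⟩, ⟨98, 99, 147⟩, ⟨9258, 10000, 30000⟩, ⟨1200, 1271, 1000⟩⟩ (tC28B.hUp false true) :=
  posD_of_check (c := ⟨433, ⟨2, 7, 15, 10⟩⟩) (by decide +kernel)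

def tC28B_um01 : PosD ⟨⟨0, 1, 1⟩, ⟨98, 99, 147⟩, ⟨9258, 10000, 30000⟩, ⟨1200, 1271, 1000⟩⟩ (tC28B.hUm false true) :=
  posD_of_check (c := ⟨462, ⟨3, 8, 15, 11⟩⟩) (by decide +kernel)

def tC28B_tmg01 : PosD ⟨⟨0, 1, 1⟩, ⟨98, 99, 147⟩, ⟨9258, 10000, 30000⟩, ⟨1200, 1271, 1000⟩⟩ (tC28B.hTMG true (tC28B.pEnd false)) :=
  posD_of_check (c := ⟨416, ⟨2, 7, 14, 10⟩⟩) (by decide +kernel)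

def tC28B_kap1 : PosD ⟨⟨0, 1, 1⟩, ⟨98, 99, 147⟩, ⟨9258, 10000, 30000⟩, ⟨1200, 1271, 1000⟩⟩ (tC28B.kap true) :=
  posD_of_check (c := ⟨73, ⟨1, 1, 2, 2⟩⟩) (by decide +kernel)

def tC28B_c11 : PosD ⟨⟨0, 1, 1⟩, ⟨98, 99, 147⟩, ⟨9258, 10000, 30000⟩, ⟨1200, 1271, 1000⟩⟩ (tC28B.hC1 true) :=
  posD_of_check (c := ⟨283, ⟨3, 5, 9, 7⟩⟩) (by decide +kernel)

def tC28B_c1h1 : PosD ⟨⟨0, 1, 1⟩, ⟨98, 99, 147⟩, ⟨9258, 10000, 30000⟩, ⟨1200, 1271, 1000⟩⟩ (tC28B.hC1' true) :=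
  posD_of_check (c := ⟨283, ⟨3, 5, 9, 7⟩⟩) (by decide +kernel)

def tC28B_tg10 : PosD ⟨⟨0, 1, 1⟩, ⟨98, 99, 147⟩, ⟨9258, 10000, 30000⟩, ⟨1200, 1271, 1000⟩⟩ (tC28B.hG false (tC28B.pEnd true)) :=
  posD_of_check (c := ⟨394, ⟨2, 7, 14, 9⟩⟩) (by decide +kernel)

def tC28B_c2p10 : PosD ⟨⟨0, 1, 1⟩, ⟨98, 99, 147⟩, ⟨9258, 10000, 30000⟩, ⟨1200, 1271, 1000⟩⟩ (tC28B.hC2p false (tC28B.pEnd true)) :=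
  posD_of_check (c := ⟨437, ⟨2, 7, 16, 10⟩⟩) (by decide +kernel)

def tC28B_c2m10 : PosD ⟨⟨0, 1, 1⟩, ⟨98, 99, 147⟩, ⟨9258, 10000, 30000⟩, ⟨1200, 1271, 1000⟩⟩ (tC28B.hC2m false (tC28B.pEnd true)) :=
  posD_of_check (c := ⟨469, ⟨3, 8, 16, 11⟩⟩) (by decide +kernel)

def tC28B_c3p10 : PosD ⟨⟨0, 1, 1⟩, ⟨98, 99, 147⟩, ⟨9258, 10000, 30000⟩, ⟨1200, 1271, 1000⟩⟩ (tC28B.hC3p true false) :=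
  posD_of_check (c := ⟨430, ⟨3, 7, 15, 10⟩⟩) (by decide +kernel)

def tC28B_c3m10 : PosD ⟨⟨0, 1, 1⟩, ⟨98, 99, 147⟩, ⟨9258, 10000, 30000⟩, ⟨1200, 1271, 1000⟩⟩ (tC28B.hC3m true false) :=
  posD_of_check (c := ⟨454, ⟨3, 8, 15, 11⟩⟩) (by decide +kernel)

def tC28B_c3ph10 : PosD ⟨⟨0, 1, 1⟩, ⟨98, 99, 147⟩, ⟨9258, 10000, 30000⟩, ⟨1200, 1271, 1000⟩⟩ (tC28B.hC3p' true false) :=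
  posD_of_check (c := ⟨430, ⟨3, 7, 15, 10⟩⟩) (by decide +kernel)

def tC28B_c3mh10 : PosD ⟨⟨0, 1, 1⟩, ⟨98, 99, 147⟩, ⟨9258, 10000, 30000⟩, ⟨1200, 1271, 1000⟩⟩ (tC28B.hC3m' true false) :=
  posD_of_check (c := ⟨454, ⟨3, 8, 15, 11⟩⟩) (by decide +kernel)

def tC28B_up10 : PosD ⟨⟨0, 1, 1⟩, ⟨98, 99, 147⟩, ⟨9258, 10000, 30000⟩, ⟨1200, 1271, 1000⟩⟩ (tC28B.hUp true false) :=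
  posD_of_check (c := ⟨425, ⟨2, 7, 15, 10⟩⟩) (by decide +kernel)

def tC28B_um10 : PosD ⟨⟨0, 1, 1⟩, ⟨98, 99, 147⟩, ⟨9258, 10000, 30000⟩, ⟨1200, 1271, 1000⟩⟩ (tC28B.hUm true false) :=
  posD_of_check (c := ⟨454, ⟨3, 8, 15, 11⟩⟩) (by decide +kernel)

def tC28B_tmg10 : PosD ⟨⟨0, 1, 1⟩, ⟨98, 99, 147⟩, ⟨9258, 10000, 30000⟩, ⟨1200, 1271, 1000⟩⟩ (tC28B.hTMG false (tC28B.pEnd true)) :=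
  posD_of_check (c := ⟨408, ⟨2, 7, 14, 10⟩⟩) (by decide +kernel)

def tC28B_tg11 : PosD ⟨⟨0, 1, 1⟩, ⟨98, 99, 147⟩, ⟨9258, 10000, 30000⟩, ⟨1200, 1271, 1000⟩⟩ (tC28B.hG true (tC28B.pEnd true)) :=
  posD_of_check (c := ⟨394, ⟨2, 7, 14, 9⟩⟩) (by decide +kernel)

def tC28B_c2p11 : PosD ⟨⟨0, 1, 1⟩, ⟨98, 99, 147⟩, ⟨9258, 10000, 30000⟩, ⟨1200, 1271, 1000⟩⟩ (tC28B.hC2p true (tC28B.pEnd true)) :=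
  posD_of_check (c := ⟨437, ⟨2, 7, 16, 10⟩⟩) (by decide +kernel)

def tC28B_c2m11 : PosD ⟨⟨0, 1, 1⟩, ⟨98, 99, 147⟩, ⟨9258, 10000, 30000⟩, ⟨1200, 1271, 1000⟩⟩ (tC28B.hC2m true (tC28B.pEnd true)) :=
  posD_of_check (c := ⟨469, ⟨3, 8, 16, 11⟩⟩) (by decide +kernel)

def tC28B_c3p11 : PosD ⟨⟨0, 1, 1⟩, ⟨98, 99, 147⟩, ⟨9258, 10000, 30000⟩, ⟨1200, 1271, 1000⟩⟩ (tC28B.hC3p true true) :=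
  posD_of_check (c := ⟨430, ⟨3, 7, 15, 10⟩⟩) (by decide +kernel)

def tC28B_c3m11 : PosD ⟨⟨0, 1, 1⟩, ⟨98, 99, 147⟩, ⟨9258, 10000, 30000⟩, ⟨1200, 1271, 1000⟩⟩ (tC28B.hC3m true true) :=
  posD_of_check (c := ⟨454, ⟨3, 8, 15, 11⟩⟩) (by decide +kernel)

def tC28B_c3ph11 : PosD ⟨⟨0, 1, 1⟩, ⟨98, 99, 147⟩, ⟨9258, 10000, 30000⟩, ⟨1200, 1271, 1000⟩⟩ (tC28B.hC3p' true true) :=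
  posD_of_check (c := ⟨430, ⟨3, 7, 15, 10⟩⟩) (by decide +kernel)

def tC28B_c3mh11 : PosD ⟨⟨0, 1, 1⟩, ⟨98, 99, 147⟩, ⟨9258, 10000, 30000⟩, ⟨1200, 1271, 1000⟩⟩ (tC28B.hC3m' true true) :=
  posD_of_check (c := ⟨454, ⟨3, 8, 15, 11⟩⟩) (by decide +kernel)

def tC28B_up11 : PosD ⟨⟨0, 1, 1⟩, ⟨98, 99, 147⟩, ⟨9258, 10000, 30000⟩, ⟨1200, 1271, 1000⟩⟩ (tC28B.hUp true true) :=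
  posD_of_check (c := ⟨425, ⟨2, 7, 15, 10⟩⟩) (by decide +kernel)

def tC28B_um11 : PosD ⟨⟨0, 1, 1⟩, ⟨98, 99, 147⟩, ⟨9258, 10000, 30000⟩, ⟨1200, 1271, 1000⟩⟩ (tC28B.hUm true true) :=
  posD_of_check (c := ⟨454, ⟨3, 8, 15, 11⟩⟩) (by decide +kernel)

def tC28B_tmg11 : PosD ⟨⟨0, 1, 1⟩, ⟨98, 99, 147⟩, ⟨9258, 10000, 30000⟩, ⟨1200, 1271, 1000⟩⟩ (tC28B.hTMG true (tC28B.pEnd true)) :=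
  posD_of_check (c := ⟨408, ⟨2, 7, 14, 10⟩⟩) (by decide +kernel)

/-- The signs of the piece. -/
def tC28B_sign : tC28B.Sign ⟨⟨0, 1, 1⟩, ⟨98, 99, 147⟩, ⟨9258, 10000, 30000⟩, ⟨1200, 1271, 1000⟩⟩ :=
  ⟨tC28B_pp,
    tC28B_k2p,
    tC28B_k2m,
    Bool.forall_bool.2 ⟨(Bool.forall_bool.2 ⟨tC28B_tg00, tC28B_tg01⟩), (Bool.forall_bool.2 ⟨tC28B_tg10, tC28B_tg11⟩)⟩,
    Bool.forall_bool.2 ⟨(Bool.forall_bool.2 ⟨tC28B_c2p00, tC28B_c2p01⟩), (Bool.forall_bool.2 ⟨tC28B_c2p10, tC28B_c2p11⟩)⟩,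
    Bool.forall_bool.2 ⟨(Bool.forall_bool.2 ⟨tC28B_c2m00, tC28B_c2m01⟩), (Bool.forall_bool.2 ⟨tC28B_c2m10, tC28B_c2m11⟩)⟩,
    Bool.forall_bool.2 ⟨tC28B_kap0, tC28B_kap1⟩,
    Bool.forall_bool.2 ⟨tC28B_c10, tC28B_c11⟩,
    Bool.forall_bool.2 ⟨(Bool.forall_bool.2 ⟨tC28B_c3p00, tC28B_c3p01⟩), (Bool.forall_bool.2 ⟨tC28B_c3p10, tC28B_c3p11⟩)⟩,
    Bool.forall_bool.2 ⟨(Bool.forall_bool.2 ⟨tC28B_c3m00, tC28B_c3m01⟩), (Bool.forall_bool.2 ⟨tC28B_c3m10, tC28B_c3m11⟩)⟩,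
    Bool.forall_bool.2 ⟨(Bool.forall_bool.2 ⟨tC28B_tmg00, tC28B_tmg01⟩), (Bool.forall_bool.2 ⟨tC28B_tmg10, tC28B_tmg11⟩)⟩,
    .inr (Bool.forall_bool.2 ⟨⟨tC28B_c1h0, Bool.forall_bool.2 ⟨⟨tC28B_c3ph00, tC28B_c3mh00, tC28B_up00, tC28B_um00⟩, ⟨tC28B_c3ph01, tC28B_c3mh01, tC28B_up01, tC28B_um01⟩⟩⟩, ⟨tC28B_c1h1, Bool.forall_bool.2 ⟨⟨tC28B_c3ph10, tC28B_c3mh10, tC28B_up10, tC28B_um10⟩, ⟨tC28B_c3ph11, tC28B_c3mh11, tC28B_up11, tC28B_um11⟩⟩⟩⟩),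
    tC28B_v2p,
    tC28B_v2m,
    tC28B_v3p,
    tC28B_v3m,
    posD_sub (b := ⟨⟨0, 1, 1⟩, ⟨98, 99, 147⟩, ⟨4050, 10000, 30000⟩, ⟨290, 4000, 1000⟩⟩) (by decide +kernel) tC_vG,
    posD_sub (b := ⟨⟨0, 1, 1⟩, ⟨98, 99, 147⟩, ⟨4050, 10000, 30000⟩, ⟨290, 4000, 1000⟩⟩) (by decide +kernel) tC_vMG,
    posD_sub (b := ⟨⟨0, 1, 1⟩, ⟨98, 99, 147⟩, ⟨4050, 10000, 30000⟩, ⟨290, 4000, 1000⟩⟩) (by decide +kernel) tC_ak,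
    posD_sub (b := ⟨⟨0, 1, 1⟩, ⟨98, 99, 147⟩, ⟨4050, 10000, 30000⟩, ⟨290, 4000, 1000⟩⟩) (by decide +kernel) tC_aw,
    posD_sub (b := ⟨⟨0, 1, 1⟩, ⟨98, 99, 147⟩, ⟨4050, 10000, 30000⟩, ⟨290, 4000, 1000⟩⟩) (by decide +kernel) tC_gk,
    posD_sub (b := ⟨⟨0, 1, 1⟩, ⟨98, 99, 147⟩, ⟨4050, 10000, 30000⟩, ⟨290, 4000, 1000⟩⟩) (by decide +kernel) tC_gw,
    posD_sub (b := ⟨⟨0, 1, 1⟩, ⟨98, 99, 147⟩, ⟨4050, 10000, 30000⟩, ⟨290, 4000, 1000⟩⟩) (by decide +kernel) tC_ek,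
    posD_sub (b := ⟨⟨0, 1, 1⟩, ⟨98, 99, 147⟩, ⟨4050, 10000, 30000⟩, ⟨290, 4000, 1000⟩⟩) (by decide +kernel) tC_ew⟩

end Vale.Agent.P100.Calib.Closed.Six.Tail
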