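import Vale.Agent.P100.Calib.SlabSixTailDataC
import Vale.Agent.P100.Calib.SlabSixTailGlobC

/-!
# Checks of some pieces of the certificate

The checks are written as definitions so that they run one after another, which keeps the memory of the
kernel low.
-/

set_option linter.defProp false

namespace Vale.Agent.P100.Calib.Closed.Six.Tail

open BoxPos Large

local instance sixTailCheckstC18Add : Add Ex := ⟨Ex.add⟩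
local instance sixTailCheckstC18Sub : Sub Ex := ⟨Ex.sub⟩
local instance sixTailCheckstC18Mul : Mul Ex := ⟨Ex.mul⟩

def tC29_p0 : PosD ⟨⟨0, 1, 1⟩, ⟨98, 99, 147⟩, ⟨9258, 10000, 30000⟩, ⟨1200, 1271, 1000⟩⟩ (tC29.hP0) :=
  posD_of_check (c := ⟨83, ⟨0, 2, 3, 1⟩⟩) (by decide +kernel)

def tC29_gn : PosD ⟨⟨0, 1, 1⟩, ⟨98, 99, 147⟩, ⟨9258, 10000, 30000⟩, ⟨1200, 1271, 1000⟩⟩ (tC29.hGn) :=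
  posD_of_check (c := ⟨58, ⟨1, 1, 2, 1⟩⟩) (by decide +kernel)

def tC29_den0 : PosD ⟨⟨0, 1, 1⟩, ⟨98, 99, 147⟩, ⟨9258, 10000, 30000⟩, ⟨1200, 1271, 1000⟩⟩ (tC29.hDen false) :=
  posD_of_check (c := ⟨50, ⟨1, 0, 2, 0⟩⟩) (by decide +kernel)

def tC29_den1 : PosD ⟨⟨0, 1, 1⟩, ⟨98, 99, 147⟩, ⟨9258, 10000, 30000⟩, ⟨1200, 1271, 1000⟩⟩ (tC29.hDen true) :=
  posD_of_check (c := ⟨50, ⟨1, 0, 2, 0⟩⟩) (by decide +kernel)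

def tC29_ev0 : PosD ⟨⟨0, 1, 1⟩, ⟨98, 99, 147⟩, ⟨9258, 10000, 30000⟩, ⟨1200, 1271, 1000⟩⟩ (tC29.hEv false) :=
  posD_of_check (c := ⟨147, ⟨4, 2, 4, 1⟩⟩) (by decide +kernel)

def tC29_zL0 : PosD ⟨⟨0, 1, 1⟩, ⟨98, 99, 147⟩, ⟨9258, 10000, 30000⟩, ⟨1200, 1271, 1000⟩⟩ (tC29.hZL false) :=
  posD_of_check (c := ⟨182, ⟨4, 3, 6, 3⟩⟩) (by decide +kernel)

def tC29_zU0 : PosD ⟨⟨0, 1, 1⟩, ⟨98, 99, 147⟩, ⟨9258, 10000, 30000⟩, ⟨1200, 1271, 1000⟩⟩ (tC29.hZU false) :=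
  posD_of_check (c := ⟨182, ⟨4, 3, 6, 3⟩⟩) (by decide +kernel)

def tC29_eL0 : PosD ⟨⟨0, 1, 1⟩, ⟨98, 99, 147⟩, ⟨9258, 10000, 30000⟩, ⟨1200, 1271, 1000⟩⟩ (tC29.hEL false) :=
  posD_of_check (c := ⟨242, ⟨5, 6, 7, 3⟩⟩) (by decide +kernel)

def tC29_eH0 : PosD ⟨⟨0, 1, 1⟩, ⟨98, 99, 147⟩, ⟨9258, 10000, 30000⟩, ⟨1200, 1271, 1000⟩⟩ (tC29.hEH false) :=
  posD_of_check (c := ⟨269, ⟨5, 6, 7, 3⟩⟩) (by decide +kernel)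

def tC29_pL0 : PosD ⟨⟨0, 1, 1⟩, ⟨98, 99, 147⟩, ⟨9258, 10000, 30000⟩, ⟨1200, 1271, 1000⟩⟩ (tC29.hPL false) :=
  posD_of_check (c := ⟨256, ⟨5, 6, 7, 2⟩⟩) (by decide +kernel)

def tC29_pU0 : PosD ⟨⟨0, 1, 1⟩, ⟨98, 99, 147⟩, ⟨9258, 10000, 30000⟩, ⟨1200, 1271, 1000⟩⟩ (tC29.hPU false) :=
  posD_of_check (c := ⟨259, ⟨5, 6, 7, 3⟩⟩) (by decide +kernel)

def tC29_kU0 : PosD ⟨⟨0, 1, 1⟩, ⟨98, 99, 147⟩, ⟨9258, 10000, 30000⟩, ⟨1200, 1271, 1000⟩⟩ (tC29.hKU false) :=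
  posD_of_check (c := ⟨256, ⟨5, 6, 7, 3⟩⟩) (by decide +kernel)

def tC29_kL0 : PosD ⟨⟨0, 1, 1⟩, ⟨98, 99, 147⟩, ⟨9258, 10000, 30000⟩, ⟨1200, 1271, 1000⟩⟩ (tC29.hKL false) :=
  posD_of_check (c := ⟨255, ⟨5, 6, 7, 3⟩⟩) (by decide +kernel)

def tC29_wU0 : PosD ⟨⟨0, 1, 1⟩, ⟨98, 99, 147⟩, ⟨9258, 10000, 30000⟩, ⟨1200, 1271, 1000⟩⟩ (tC29.hWU false) :=
  posD_of_check (c := ⟨289, ⟨5, 8, 8, 3⟩⟩) (by decide +kernel)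

def tC29_wL0 : PosD ⟨⟨0, 1, 1⟩, ⟨98, 99, 147⟩, ⟨9258, 10000, 30000⟩, ⟨1200, 1271, 1000⟩⟩ (tC29.hWL false) :=
  posD_of_check (c := ⟨289, ⟨5, 8, 8, 3⟩⟩) (by decide +kernel)

def tC29_ev1 : PosD ⟨⟨0, 1, 1⟩, ⟨98, 99, 147⟩, ⟨9258, 10000, 30000⟩, ⟨1200, 1271, 1000⟩⟩ (tC29.hEv true) :=
  posD_of_check (c := ⟨148, ⟨4, 2, 4, 1⟩⟩) (by decide +kernel)

def tC29_zL1 : PosD ⟨⟨0, 1, 1⟩, ⟨98, 99, 147⟩, ⟨9258, 10000, 30000⟩, ⟨1200, 1271, 1000⟩⟩ (tC29.hZL true) :=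
  posD_of_check (c := ⟨180, ⟨4, 3, 6, 3⟩⟩) (by decide +kernel)

def tC29_zU1 : PosD ⟨⟨0, 1, 1⟩, ⟨98, 99, 147⟩, ⟨9258, 10000, 30000⟩, ⟨1200, 1271, 1000⟩⟩ (tC29.hZU true) :=
  posD_of_check (c := ⟨180, ⟨4, 3, 6, 3⟩⟩) (by decide +kernel)

def tC29_eL1 : PosD ⟨⟨0, 1, 1⟩, ⟨98, 99, 147⟩, ⟨9258, 10000, 30000⟩, ⟨1200, 1271, 1000⟩⟩ (tC29.hEL true) :=
  posD_of_check (c := ⟨242, ⟨5, 6, 7, 3⟩⟩) (by decide +kernel)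

def tC29_eH1 : PosD ⟨⟨0, 1, 1⟩, ⟨98, 99, 147⟩, ⟨9258, 10000, 30000⟩, ⟨1200, 1271, 1000⟩⟩ (tC29.hEH true) :=
  posD_of_check (c := ⟨270, ⟨5, 6, 7, 3⟩⟩) (by decide +kernel)

def tC29_pL1 : PosD ⟨⟨0, 1, 1⟩, ⟨98, 99, 147⟩, ⟨9258, 10000, 30000⟩, ⟨1200, 1271, 1000⟩⟩ (tC29.hPL true) :=
  posD_of_check (c := ⟨256, ⟨5, 6, 7, 2⟩⟩) (by decide +kernel)

def tC29_pU1 : PosD ⟨⟨0, 1, 1⟩, ⟨98, 99, 147⟩, ⟨9258, 10000, 30000⟩, ⟨1200, 1271, 1000⟩⟩ (tC29.hPU true) :=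
  posD_of_check (c := ⟨260, ⟨5, 6, 7, 3⟩⟩) (by decide +kernel)

def tC29_kU1 : PosD ⟨⟨0, 1, 1⟩, ⟨98, 99, 147⟩, ⟨9258, 10000, 30000⟩, ⟨1200, 1271, 1000⟩⟩ (tC29.hKU true) :=
  posD_of_check (c := ⟨257, ⟨5, 6, 7, 3⟩⟩) (by decide +kernel)

def tC29_kL1 : PosD ⟨⟨0, 1, 1⟩, ⟨98, 99, 147⟩, ⟨9258, 10000, 30000⟩, ⟨1200, 1271, 1000⟩⟩ (tC29.hKL true) :=
  posD_of_check (c := ⟨256, ⟨5, 6, 7, 3⟩⟩) (by decide +kernel)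

def tC29_wU1a : PosD ⟨⟨0, 1, 1⟩, ⟨98, 99, 147⟩, ⟨9258, 9629, 30000⟩, ⟨1200, 1271, 1000⟩⟩ (tC29.hWU true) :=
  posD_of_check (c := ⟨290, ⟨5, 8, 8, 3⟩⟩) (by decide +kernel)

def tC29_wU1b : PosD ⟨⟨0, 1, 1⟩, ⟨98, 99, 147⟩, ⟨9629, 10000, 30000⟩, ⟨1200, 1271, 1000⟩⟩ (tC29.hWU true) :=
  posD_of_relax (k₁ := 0) (k₂ := 0) (k₃ := 1) (n := 16) (posD_of_check (c := ⟨290, ⟨5, 8, 8, 3⟩⟩) (by decide +kernel))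

def tC29_wU1 : PosD ⟨⟨0, 1, 1⟩, ⟨98, 99, 147⟩, ⟨9258, 10000, 30000⟩, ⟨1200, 1271, 1000⟩⟩ (tC29.hWU true) :=
  posD_join₂ tC29_wU1a tC29_wU1b

def tC29_wL1 : PosD ⟨⟨0, 1, 1⟩, ⟨98, 99, 147⟩, ⟨9258, 10000, 30000⟩, ⟨1200, 1271, 1000⟩⟩ (tC29.hWL true) :=
  posD_of_check (c := ⟨290, ⟨5, 8, 8, 3⟩⟩) (by decide +kernel)

def tC29_nueH : PosD ⟨⟨0, 1, 1⟩, ⟨98, 99, 147⟩, ⟨9258, 10000, 30000⟩, ⟨1200, 1271, 1000⟩⟩ (tC29.eH.ν) :=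
  posD_of_check (c := ⟨50, ⟨0, 0, 1, 1⟩⟩) (by decide +kernel)

def tC29_mupL : PosD ⟨⟨0, 1, 1⟩, ⟨98, 99, 147⟩, ⟨9258, 10000, 30000⟩, ⟨1200, 1271, 1000⟩⟩ (tC29.pL.μ) :=
  posD_of_check (c := ⟨16, ⟨0, 0, 0, 0⟩⟩) (by decide +kernel)

/-- The bounds of the piece. -/
def tC29_env : tC29.Env ⟨⟨0, 1, 1⟩, ⟨98, 99, 147⟩, ⟨9258, 10000, 30000⟩, ⟨1200, 1271, 1000⟩⟩ :=
  ⟨tC29_p0, Bool.forall_bool.2 ⟨tC29_den0, tC29_den1⟩, tC29_gn, Bool.forall_bool.2 ⟨tC29_ev0, tC29_ev1⟩, Bool.forall_bool.2 ⟨tC29_zL0, tC29_zL1⟩, Bool.forall_bool.2 ⟨tC29_zU0, tC29_zU1⟩, Bool.forall_bool.2 ⟨tC29_eL0, tC29_eL1⟩, ⟨.inr rfl, .inr rfl⟩, Bool.forall_bool.2 ⟨tC29_eH0, tC29_eH1⟩, ⟨.inr rfl, .inl tC29_nueH⟩, Bool.forall_bool.2 ⟨tC29_pL0, tC29_pL1⟩, ⟨.inl tC29_mupL,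 .inr rfl⟩, Bool.forall_bool.2 ⟨tC29_pU0, tC29_pU1⟩, ⟨.inr rfl, .inr rfl⟩, Bool.forall_bool.2 ⟨tC29_kU0, tC29_kU1⟩, ⟨.inr rfl, .inr rfl⟩, Bool.forall_bool.2 ⟨tC29_kL0, tC29_kL1⟩, ⟨.inr rfl, .inr rfl⟩, Bool.forall_bool.2 ⟨tC29_wU0, tC29_wU1⟩, ⟨.inr rfl, .inr rfl⟩, Bool.forall_bool.2 ⟨tC29_wL0, tC29_wL1⟩, ⟨.inr rfl, .inr rfl⟩⟩

def tC29_pU20 : PosD ⟨⟨0, 1, 1⟩, ⟨98, 99, 147⟩, ⟨9258, 10000, 30000⟩, ⟨1200, 1271, 1000⟩⟩ (({ tC29 with pU := tC29PU } : Piece).hPU false) :=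
  posD_of_check (c := ⟨271, ⟨5, 6, 7, 3⟩⟩) (by decide +kernel)

def tC29_pU21 : PosD ⟨⟨0, 1, 1⟩, ⟨98, 99, 147⟩, ⟨9258, 10000, 30000⟩, ⟨1200, 1271, 1000⟩⟩ (({ tC29 with pU := tC29PU } : Piece).hPU true) :=
  posD_of_check (c := ⟨271, ⟨5, 6, 7, 3⟩⟩) (by decide +kernel)

def tC29_nupU2 : PosD ⟨⟨0, 1, 1⟩, ⟨98, 99, 147⟩, ⟨9258, 10000, 30000⟩, ⟨1200, 1271, 1000⟩⟩ (tC29PU.ν) :=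
  posD_of_check (c := ⟨51, ⟨0, 0, 1, 1⟩⟩) (by decide +kernel)

/-- The bounds with the other bound of `p`. -/
def tC29_envU : ({ tC29 with pU := tC29PU } : Piece).Env ⟨⟨0, 1, 1⟩, ⟨98, 99, 147⟩, ⟨9258, 10000, 30000⟩, ⟨1200, 1271, 1000⟩⟩ :=
  tC29_env.withU tC29PU (Bool.forall_bool.2 ⟨tC29_pU20, tC29_pU21⟩) ⟨.inr rfl, .inl tC29_nupU2⟩

def tC29A_pp : PosD ⟨⟨0, 1, 1⟩, ⟨98, 99, 147⟩, ⟨9258, 10000, 30000⟩, ⟨1200, 1271, 1000⟩⟩ (tC29A.xPL) :=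
  posD_of_check (c := ⟨62, ⟨1, 1, 2, 2⟩⟩) (by decide +kernel)

def tC29A_k2p : PosD ⟨⟨0, 1, 1⟩, ⟨98, 99, 147⟩, ⟨9258, 10000, 30000⟩, ⟨1200, 1271, 1000⟩⟩ (tC29A.k2p tC29A.xE) :=
  posD_of_check (c := ⟨74, ⟨1, 1, 2, 2⟩⟩) (by decide +kernel)

def tC29A_k2m : PosD ⟨⟨0, 1, 1⟩, ⟨98, 99, 147⟩, ⟨9258, 10000, 30000⟩, ⟨1200, 1271, 1000⟩⟩ (tC29A.k2m tC29A.xE) :=
  posD_of_check (c := ⟨72, ⟨1, 1, 2, 2⟩⟩) (by decide +kernel)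

def tC29A_v2p : PosD ⟨⟨0, 1, 1⟩, ⟨98, 99, 147⟩, ⟨9258, 10000, 30000⟩, ⟨1200, 1271, 1000⟩⟩ (tC29A.hV2p) :=
  posD_of_check (c := ⟨275, ⟨1, 6, 10, 5⟩⟩) (by decide +kernel)

def tC29A_v2m : PosD ⟨⟨0, 1, 1⟩, ⟨98, 99, 147⟩, ⟨9258, 10000, 30000⟩, ⟨1200, 1271, 1000⟩⟩ (tC29A.hV2m) :=
  posD_of_check (c := ⟨274, ⟨1, 6, 10, 5⟩⟩) (by decide +kernel)

def tC29A_v3p : PosD ⟨⟨0, 1, 1⟩, ⟨98, 99, 147⟩, ⟨9258, 10000, 30000⟩, ⟨1200, 1271, 1000⟩⟩ (tC29A.hV3p) :=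
  posD_of_check (c := ⟨260, ⟨1, 6, 9, 5⟩⟩) (by decide +kernel)

def tC29A_v3m : PosD ⟨⟨0, 1, 1⟩, ⟨98, 99, 147⟩, ⟨9258, 10000, 30000⟩, ⟨1200, 1271, 1000⟩⟩ (tC29A.hV3m) :=
  posD_of_check (c := ⟨258, ⟨1, 6, 9, 5⟩⟩) (by decide +kernel)

def tC29A_kap0 : PosD ⟨⟨0, 1, 1⟩, ⟨98, 99, 147⟩, ⟨9258, 10000, 30000⟩, ⟨1200, 1271, 1000⟩⟩ (tC29A.kap false) :=
  posD_of_check (c := ⟨70, ⟨1, 1, 2, 2⟩⟩) (by decide +kernel)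

def tC29A_c10 : PosD ⟨⟨0, 1, 1⟩, ⟨98, 99, 147⟩, ⟨9258, 10000, 30000⟩, ⟨1200, 1271, 1000⟩⟩ (tC29A.hC1 false) :=
  posD_of_check (c := ⟨242, ⟨3, 5, 8, 6⟩⟩) (by decide +kernel)

def tC29A_c1h0 : PosD ⟨⟨0, 1, 1⟩, ⟨98, 99, 147⟩, ⟨9258, 10000, 30000⟩, ⟨1200, 1271, 1000⟩⟩ (tC29A.hC1' false) :=
  posD_of_check (c := ⟨242, ⟨3, 5, 8, 6⟩⟩) (by decide +kernel)

def tC29A_tg00 : PosD ⟨⟨0, 1, 1⟩, ⟨98, 99, 147⟩, ⟨9258, 10000, 30000⟩, ⟨1200, 1271, 1000⟩⟩ (tC29A.hG false (tC29A.pEnd false)) :=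
  posD_of_check (c := ⟨376, ⟨2, 7, 14, 9⟩⟩) (by decide +kernel)

def tC29A_c2p00 : PosD ⟨⟨0, 1, 1⟩, ⟨98, 99, 147⟩, ⟨9258, 10000, 30000⟩, ⟨1200, 1271, 1000⟩⟩ (tC29A.hC2p false (tC29A.pEnd false)) :=
  posD_of_check (c := ⟨449, ⟨3, 8, 16, 11⟩⟩) (by decide +kernel)

def tC29A_c2m00 : PosD ⟨⟨0, 1, 1⟩, ⟨98, 99, 147⟩, ⟨9258, 10000, 30000⟩, ⟨1200, 1271, 1000⟩⟩ (tC29A.hC2m false (tC29A.pEnd false)) :=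
  posD_of_check (c := ⟨448, ⟨3, 8, 16, 11⟩⟩) (by decide +kernel)

def tC29A_c3p00 : PosD ⟨⟨0, 1, 1⟩, ⟨98, 99, 147⟩, ⟨9258, 10000, 30000⟩, ⟨1200, 1271, 1000⟩⟩ (tC29A.hC3p false false) :=
  posD_of_check (c := ⟨410, ⟨3, 8, 14, 10⟩⟩) (by decide +kernel)

def tC29A_c3m00 : PosD ⟨⟨0, 1, 1⟩, ⟨98, 99, 147⟩, ⟨9258, 10000, 30000⟩, ⟨1200, 1271, 1000⟩⟩ (tC29A.hC3m false false) :=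
  posD_of_check (c := ⟨409, ⟨3, 8, 14, 10⟩⟩) (by decide +kernel)

def tC29A_c3ph00 : PosD ⟨⟨0, 1, 1⟩, ⟨98, 99, 147⟩, ⟨9258, 10000, 30000⟩, ⟨1200, 1271, 1000⟩⟩ (tC29A.hC3p' false false) :=
  posD_of_check (c := ⟨410, ⟨3, 8, 14, 10⟩⟩) (by decide +kernel)

def tC29A_c3mh00 : PosD ⟨⟨0, 1, 1⟩, ⟨98, 99, 147⟩, ⟨9258, 10000, 30000⟩, ⟨1200, 1271, 1000⟩⟩ (tC29A.hC3m' false false) :=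
  posD_of_check (c := ⟨409, ⟨3, 8, 14, 10⟩⟩) (by decide +kernel)

def tC29A_up00 : PosD ⟨⟨0, 1, 1⟩, ⟨98, 99, 147⟩, ⟨9258, 10000, 30000⟩, ⟨1200, 1271, 1000⟩⟩ (tC29A.hUp false false) :=
  posD_of_check (c := ⟨409, ⟨3, 8, 14, 10⟩⟩) (by decide +kernel)

def tC29A_um00 : PosD ⟨⟨0, 1, 1⟩, ⟨98, 99, 147⟩, ⟨9258, 10000, 30000⟩, ⟨1200, 1271, 1000⟩⟩ (tC29A.hUm false false) :=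
  posD_of_check (c := ⟨408, ⟨3, 8, 14, 10⟩⟩) (by decide +kernel)

def tC29A_tmg00 : PosD ⟨⟨0, 1, 1⟩, ⟨98, 99, 147⟩, ⟨9258, 10000, 30000⟩, ⟨1200, 1271, 1000⟩⟩ (tC29A.hTMG false (tC29A.pEnd false)) :=
  posD_of_check (c := ⟨356, ⟨2, 7, 13, 8⟩⟩) (by decide +kernel)

def tC29A_tg01 : PosD ⟨⟨0, 1, 1⟩, ⟨98, 99, 147⟩, ⟨9258, 10000, 30000⟩, ⟨1200, 1271, 1000⟩⟩ (tC29A.hG true (tC29A.pEnd false)) :=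
  posD_of_check (c := ⟨376, ⟨2, 7, 14, 9⟩⟩) (by decide +kernel)

def tC29A_c2p01 : PosD ⟨⟨0, 1, 1⟩, ⟨98, 99, 147⟩, ⟨9258, 10000, 30000⟩, ⟨1200, 1271, 1000⟩⟩ (tC29A.hC2p true (tC29A.pEnd false)) :=
  posD_of_check (c := ⟨449, ⟨3, 8, 16, 11⟩⟩) (by decide +kernel)

def tC29A_c2m01 : PosD ⟨⟨0, 1, 1⟩, ⟨98, 99, 147⟩, ⟨9258, 10000, 30000⟩, ⟨1200, 1271, 1000⟩⟩ (tC29A.hC2m true (tC29A.pEnd false)) :=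
  posD_of_check (c := ⟨448, ⟨3, 8, 16, 11⟩⟩) (by decide +kernel)

def tC29A_c3p01 : PosD ⟨⟨0, 1, 1⟩, ⟨98, 99, 147⟩, ⟨9258, 10000, 30000⟩, ⟨1200, 1271, 1000⟩⟩ (tC29A.hC3p false true) :=
  posD_of_check (c := ⟨410, ⟨3, 8, 14, 10⟩⟩) (by decide +kernel)

def tC29A_c3m01 : PosD ⟨⟨0, 1, 1⟩, ⟨98, 99, 147⟩, ⟨9258, 10000, 30000⟩, ⟨1200, 1271, 1000⟩⟩ (tC29A.hC3m false true) :=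
  posD_of_check (c := ⟨409, ⟨3, 8, 14, 10⟩⟩) (by decide +kernel)

def tC29A_c3ph01 : PosD ⟨⟨0, 1, 1⟩, ⟨98, 99, 147⟩, ⟨9258, 10000, 30000⟩, ⟨1200, 1271, 1000⟩⟩ (tC29A.hC3p' false true) :=
  posD_of_check (c := ⟨410, ⟨3, 8, 14, 10⟩⟩) (by decide +kernel)

def tC29A_c3mh01 : PosD ⟨⟨0, 1, 1⟩, ⟨98, 99, 147⟩, ⟨9258, 10000, 30000⟩, ⟨1200, 1271, 1000⟩⟩ (tC29A.hC3m' false true) :=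
  posD_of_check (c := ⟨409, ⟨3, 8, 14, 10⟩⟩) (by decide +kernel)

def tC29A_up01 : PosD ⟨⟨0, 1, 1⟩, ⟨98, 99, 147⟩, ⟨9258, 10000, 30000⟩, ⟨1200, 1271, 1000⟩⟩ (tC29A.hUp false true) :=
  posD_of_check (c := ⟨409, ⟨3, 8, 14, 10⟩⟩) (by decide +kernel)

def tC29A_um01 : PosD ⟨⟨0, 1, 1⟩, ⟨98, 99, 147⟩, ⟨9258, 10000, 30000⟩, ⟨1200, 1271, 1000⟩⟩ (tC29A.hUm false true) :=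
  posD_of_check (c := ⟨408, ⟨3, 8, 14, 10⟩⟩) (by decide +kernel)

def tC29A_tmg01 : PosD ⟨⟨0, 1, 1⟩, ⟨98, 99, 147⟩, ⟨9258, 10000, 30000⟩, ⟨1200, 1271, 1000⟩⟩ (tC29A.hTMG true (tC29A.pEnd false)) :=
  posD_of_check (c := ⟨356, ⟨2, 7, 13, 8⟩⟩) (by decide +kernel)

def tC29A_kap1 : PosD ⟨⟨0, 1, 1⟩, ⟨98, 99, 147⟩, ⟨9258, 10000, 30000⟩, ⟨1200, 1271, 1000⟩⟩ (tC29A.kap true) :=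
  posD_of_check (c := ⟨73, ⟨1, 1, 2, 2⟩⟩) (by decide +kernel)

def tC29A_c11 : PosD ⟨⟨0, 1, 1⟩, ⟨98, 99, 147⟩, ⟨9258, 10000, 30000⟩, ⟨1200, 1271, 1000⟩⟩ (tC29A.hC1 true) :=
  posD_of_check (c := ⟨279, ⟨3, 5, 9, 7⟩⟩) (by decide +kernel)

def tC29A_c1h1 : PosD ⟨⟨0, 1, 1⟩, ⟨98, 99, 147⟩, ⟨9258, 10000, 30000⟩, ⟨1200, 1271, 1000⟩⟩ (tC29A.hC1' true) :=
  posD_of_check (c := ⟨279, ⟨3, 5, 9, 7⟩⟩) (by decide +kernel)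

def tC29A_tg10 : PosD ⟨⟨0, 1, 1⟩, ⟨98, 99, 147⟩, ⟨9258, 10000, 30000⟩, ⟨1200, 1271, 1000⟩⟩ (tC29A.hG false (tC29A.pEnd true)) :=
  posD_of_check (c := ⟨392, ⟨2, 7, 14, 9⟩⟩) (by decide +kernel)

def tC29A_c2p10 : PosD ⟨⟨0, 1, 1⟩, ⟨98, 99, 147⟩, ⟨9258, 10000, 30000⟩, ⟨1200, 1271, 1000⟩⟩ (tC29A.hC2p false (tC29A.pEnd true)) :=
  posD_of_check (c := ⟨466, ⟨3, 8, 16, 11⟩⟩) (by decide +kernel)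

def tC29A_c2m10 : PosD ⟨⟨0, 1, 1⟩, ⟨98, 99, 147⟩, ⟨9258, 10000, 30000⟩, ⟨1200, 1271, 1000⟩⟩ (tC29A.hC2m false (tC29A.pEnd true)) :=
  posD_of_check (c := ⟨464, ⟨3, 8, 16, 11⟩⟩) (by decide +kernel)

def tC29A_c3p10 : PosD ⟨⟨0, 1, 1⟩, ⟨98, 99, 147⟩, ⟨9258, 10000, 30000⟩, ⟨1200, 1271, 1000⟩⟩ (tC29A.hC3p true false) :=
  posD_of_check (c := ⟨451, ⟨3, 8, 15, 11⟩⟩) (by decide +kernel)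

def tC29A_c3m10 : PosD ⟨⟨0, 1, 1⟩, ⟨98, 99, 147⟩, ⟨9258, 10000, 30000⟩, ⟨1200, 1271, 1000⟩⟩ (tC29A.hC3m true false) :=
  posD_of_check (c := ⟨450, ⟨3, 8, 15, 11⟩⟩) (by decide +kernel)

def tC29A_c3ph10 : PosD ⟨⟨0, 1, 1⟩, ⟨98, 99, 147⟩, ⟨9258, 10000, 30000⟩, ⟨1200, 1271, 1000⟩⟩ (tC29A.hC3p' true false) :=
  posD_of_check (c := ⟨451, ⟨3, 8, 15, 11⟩⟩) (by decide +kernel)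

def tC29A_c3mh10 : PosD ⟨⟨0, 1, 1⟩, ⟨98, 99, 147⟩, ⟨9258, 10000, 30000⟩, ⟨1200, 1271, 1000⟩⟩ (tC29A.hC3m' true false) :=
  posD_of_check (c := ⟨450, ⟨3, 8, 15, 11⟩⟩) (by decide +kernel)

def tC29A_up10 : PosD ⟨⟨0, 1, 1⟩, ⟨98, 99, 147⟩, ⟨9258, 10000, 30000⟩, ⟨1200, 1271, 1000⟩⟩ (tC29A.hUp true false) :=
  posD_of_check (c := ⟨450, ⟨3, 8, 15, 11⟩⟩) (by decide +kernel)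

def tC29A_um10 : PosD ⟨⟨0, 1, 1⟩, ⟨98, 99, 147⟩, ⟨9258, 10000, 30000⟩, ⟨1200, 1271, 1000⟩⟩ (tC29A.hUm true false) :=
  posD_of_check (c := ⟨449, ⟨3, 8, 15, 11⟩⟩) (by decide +kernel)

def tC29A_tmg10 : PosD ⟨⟨0, 1, 1⟩, ⟨98, 99, 147⟩, ⟨9258, 10000, 30000⟩, ⟨1200, 1271, 1000⟩⟩ (tC29A.hTMG false (tC29A.pEnd true)) :=
  posD_of_check (c := ⟨405, ⟨2, 7, 14, 10⟩⟩) (by decide +kernel)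

def tC29A_tg11 : PosD ⟨⟨0, 1, 1⟩, ⟨98, 99, 147⟩, ⟨9258, 10000, 30000⟩, ⟨1200, 1271, 1000⟩⟩ (tC29A.hG true (tC29A.pEnd true)) :=
  posD_of_check (c := ⟨392, ⟨2, 7, 14, 9⟩⟩) (by decide +kernel)

def tC29A_c2p11 : PosD ⟨⟨0, 1, 1⟩, ⟨98, 99, 147⟩, ⟨9258, 10000, 30000⟩, ⟨1200, 1271, 1000⟩⟩ (tC29A.hC2p true (tC29A.pEnd true)) :=
  posD_of_check (c := ⟨466, ⟨3, 8, 16, 11⟩⟩) (by decide +kernel)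

def tC29A_c2m11 : PosD ⟨⟨0, 1, 1⟩, ⟨98, 99, 147⟩, ⟨9258, 10000, 30000⟩, ⟨1200, 1271, 1000⟩⟩ (tC29A.hC2m true (tC29A.pEnd true)) :=
  posD_of_check (c := ⟨464, ⟨3, 8, 16, 11⟩⟩) (by decide +kernel)

def tC29A_c3p11 : PosD ⟨⟨0, 1, 1⟩, ⟨98, 99, 147⟩, ⟨9258, 10000, 30000⟩, ⟨1200, 1271, 1000⟩⟩ (tC29A.hC3p true true) :=
  posD_of_check (c := ⟨451, ⟨3, 8, 15, 11⟩⟩) (by decide +kernel)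

def tC29A_c3m11 : PosD ⟨⟨0, 1, 1⟩, ⟨98, 99, 147⟩, ⟨9258, 10000, 30000⟩, ⟨1200, 1271, 1000⟩⟩ (tC29A.hC3m true true) :=
  posD_of_check (c := ⟨450, ⟨3, 8, 15, 11⟩⟩) (by decide +kernel)

def tC29A_c3ph11 : PosD ⟨⟨0, 1, 1⟩, ⟨98, 99, 147⟩, ⟨9258, 10000, 30000⟩, ⟨1200, 1271, 1000⟩⟩ (tC29A.hC3p' true true) :=
  posD_of_check (c := ⟨451, ⟨3, 8, 15, 11⟩⟩) (by decide +kernel)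

def tC29A_c3mh11 : PosD ⟨⟨0, 1, 1⟩, ⟨98, 99, 147⟩, ⟨9258, 10000, 30000⟩, ⟨1200, 1271, 1000⟩⟩ (tC29A.hC3m' true true) :=
  posD_of_check (c := ⟨450, ⟨3, 8, 15, 11⟩⟩) (by decide +kernel)

def tC29A_up11 : PosD ⟨⟨0, 1, 1⟩, ⟨98, 99, 147⟩, ⟨9258, 10000, 30000⟩, ⟨1200, 1271, 1000⟩⟩ (tC29A.hUp true true) :=
  posD_of_check (c := ⟨450, ⟨3, 8, 15, 11⟩⟩) (by decide +kernel)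

def tC29A_um11 : PosD ⟨⟨0, 1, 1⟩, ⟨98, 99, 147⟩, ⟨9258, 10000, 30000⟩, ⟨1200, 1271, 1000⟩⟩ (tC29A.hUm true true) :=
  posD_of_check (c := ⟨449, ⟨3, 8, 15, 11⟩⟩) (by decide +kernel)

def tC29A_tmg11 : PosD ⟨⟨0, 1, 1⟩, ⟨98, 99, 147⟩, ⟨9258, 10000, 30000⟩, ⟨1200, 1271, 1000⟩⟩ (tC29A.hTMG true (tC29A.pEnd true)) :=
  posD_of_check (c := ⟨405, ⟨2, 7, 14, 10⟩⟩) (by decide +kernel)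

/-- The signs of the piece. -/
def tC29A_sign : tC29A.Sign ⟨⟨0, 1, 1⟩, ⟨98, 99, 147⟩, ⟨9258, 10000, 30000⟩, ⟨1200, 1271, 1000⟩⟩ :=
  ⟨tC29A_pp,
    tC29A_k2p,
    tC29A_k2m,
    Bool.forall_bool.2 ⟨(Bool.forall_bool.2 ⟨tC29A_tg00, tC29A_tg01⟩), (Bool.forall_bool.2 ⟨tC29A_tg10, tC29A_tg11⟩)⟩,
    Bool.forall_bool.2 ⟨(Bool.forall_bool.2 ⟨tC29A_c2p00, tC29A_c2p01⟩), (Bool.forall_bool.2 ⟨tC29A_c2p10, tC29A_c2p11⟩)⟩,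
    Bool.forall_bool.2 ⟨(Bool.forall_bool.2 ⟨tC29A_c2m00, tC29A_c2m01⟩), (Bool.forall_bool.2 ⟨tC29A_c2m10, tC29A_c2m11⟩)⟩,
    Bool.forall_bool.2 ⟨tC29A_kap0, tC29A_kap1⟩,
    Bool.forall_bool.2 ⟨tC29A_c10, tC29A_c11⟩,
    Bool.forall_bool.2 ⟨(Bool.forall_bool.2 ⟨tC29A_c3p00, tC29A_c3p01⟩), (Bool.forall_bool.2 ⟨tC29A_c3p10, tC29A_c3p11⟩)⟩,
    Bool.forall_bool.2 ⟨(Bool.forall_bool.2 ⟨tC29A_c3m00, tC29A_c3m01⟩), (Bool.forall_bool.2 ⟨tC29A_c3m10, tC29A_c3m11⟩)⟩,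
    Bool.forall_bool.2 ⟨(Bool.forall_bool.2 ⟨tC29A_tmg00, tC29A_tmg01⟩), (Bool.forall_bool.2 ⟨tC29A_tmg10, tC29A_tmg11⟩)⟩,
    .inr (Bool.forall_bool.2 ⟨⟨tC29A_c1h0, Bool.forall_bool.2 ⟨⟨tC29A_c3ph00, tC29A_c3mh00, tC29A_up00, tC29A_um00⟩, ⟨tC29A_c3ph01, tC29A_c3mh01, tC29A_up01, tC29A_um01⟩⟩⟩, ⟨tC29A_c1h1, Bool.forall_bool.2 ⟨⟨tC29A_c3ph10, tC29A_c3mh10, tC29A_up10, tC29A_um10⟩, ⟨tC29A_c3ph11, tC29A_c3mh11, tC29A_up11, tC29A_um11⟩⟩⟩⟩),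
    tC29A_v2p,
    tC29A_v2m,
    tC29A_v3p,
    tC29A_v3m,
    posD_sub (b := ⟨⟨0, 1, 1⟩, ⟨98, 99, 147⟩, ⟨4050, 10000, 30000⟩, ⟨290, 4000, 1000⟩⟩) (by decide +kernel) tC_vG,
    posD_sub (b := ⟨⟨0, 1, 1⟩, ⟨98, 99, 147⟩, ⟨4050, 10000, 30000⟩, ⟨290, 4000, 1000⟩⟩) (by decide +kernel) tC_vMG,
    posD_sub (b := ⟨⟨0, 1, 1⟩, ⟨98, 99, 147⟩, ⟨4050, 10000, 30000⟩, ⟨290, 4000, 1000⟩⟩) (by decide +kernel) tC_ak,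
    posD_sub (b := ⟨⟨0, 1, 1⟩, ⟨98, 99, 147⟩, ⟨4050, 10000, 30000⟩, ⟨290, 4000, 1000⟩⟩) (by decide +kernel) tC_aw,
    posD_sub (b := ⟨⟨0, 1, 1⟩, ⟨98, 99, 147⟩, ⟨4050, 10000, 30000⟩, ⟨290, 4000, 1000⟩⟩) (by decide +kernel) tC_gk,
    posD_sub (b := ⟨⟨0, 1, 1⟩, ⟨98, 99, 147⟩, ⟨4050, 10000, 30000⟩, ⟨290, 4000, 1000⟩⟩) (by decide +kernel) tC_gw,
    posD_sub (b := ⟨⟨0, 1, 1⟩, ⟨98, 99, 147⟩, ⟨4050, 10000, 30000⟩, ⟨290, 4000, 1000⟩⟩) (by decide +kernel) tC_ek,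
    posD_sub (b := ⟨⟨0, 1, 1⟩, ⟨98, 99, 147⟩, ⟨4050, 10000, 30000⟩, ⟨290, 4000, 1000⟩⟩) (by decide +kernel) tC_ew⟩

def tC29B_pp : PosD ⟨⟨0, 1, 1⟩, ⟨98, 99, 147⟩, ⟨9258, 10000, 30000⟩, ⟨1200, 1271, 1000⟩⟩ (tC29B.xPL) :=
  posD_of_check (c := ⟨62, ⟨1, 1, 2, 2⟩⟩) (by decide +kernel)

def tC29B_k2p : PosD ⟨⟨0, 1, 1⟩, ⟨98, 99, 147⟩, ⟨9258, 10000, 30000⟩, ⟨1200, 1271, 1000⟩⟩ (tC29B.k2p tC29B.xE) :=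
  posD_of_check (c := ⟨32, ⟨0, 0, 1, 1⟩⟩) (by decide +kernel)

def tC29B_k2m : PosD ⟨⟨0, 1, 1⟩, ⟨98, 99, 147⟩, ⟨9258, 10000, 30000⟩, ⟨1200, 1271, 1000⟩⟩ (tC29B.k2m tC29B.xE) :=
  posD_of_check (c := ⟨74, ⟨1, 1, 2, 2⟩⟩) (by decide +kernel)

def tC29B_v2p : PosD ⟨⟨0, 1, 1⟩, ⟨98, 99, 147⟩, ⟨9258, 10000, 30000⟩, ⟨1200, 1271, 1000⟩⟩ (tC29B.hV2p) :=
  posD_of_check (c := ⟨245, ⟨0, 5, 10, 4⟩⟩) (by decide +kernel)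

def tC29B_v2m : PosD ⟨⟨0, 1, 1⟩, ⟨98, 99, 147⟩, ⟨9258, 10000, 30000⟩, ⟨1200, 1271, 1000⟩⟩ (tC29B.hV2m) :=
  posD_of_check (c := ⟨276, ⟨1, 6, 10, 5⟩⟩) (by decide +kernel)

def tC29B_v3p : PosD ⟨⟨0, 1, 1⟩, ⟨98, 99, 147⟩, ⟨9258, 10000, 30000⟩, ⟨1200, 1271, 1000⟩⟩ (tC29B.hV3p) :=
  posD_of_check (c := ⟨232, ⟨0, 5, 9, 4⟩⟩) (by decide +kernel)

def tC29B_v3m : PosD ⟨⟨0, 1, 1⟩, ⟨98, 99, 147⟩, ⟨9258, 10000, 30000⟩, ⟨1200, 1271, 1000⟩⟩ (tC29B.hV3m) :=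
  posD_of_check (c := ⟨260, ⟨1, 6, 9, 5⟩⟩) (by decide +kernel)

def tC29B_kap0 : PosD ⟨⟨0, 1, 1⟩, ⟨98, 99, 147⟩, ⟨9258, 10000, 30000⟩, ⟨1200, 1271, 1000⟩⟩ (tC29B.kap false) :=
  posD_of_check (c := ⟨73, ⟨1, 1, 2, 2⟩⟩) (by decide +kernel)

def tC29B_c10 : PosD ⟨⟨0, 1, 1⟩, ⟨98, 99, 147⟩, ⟨9258, 10000, 30000⟩, ⟨1200, 1271, 1000⟩⟩ (tC29B.hC1 false) :=
  posD_of_check (c := ⟨246, ⟨3, 5, 8, 6⟩⟩) (by decide +kernel)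

def tC29B_c1h0 : PosD ⟨⟨0, 1, 1⟩, ⟨98, 99, 147⟩, ⟨9258, 10000, 30000⟩, ⟨1200, 1271, 1000⟩⟩ (tC29B.hC1' false) :=
  posD_of_check (c := ⟨246, ⟨3, 5, 8, 6⟩⟩) (by decide +kernel)

def tC29B_tg00 : PosD ⟨⟨0, 1, 1⟩, ⟨98, 99, 147⟩, ⟨9258, 10000, 30000⟩, ⟨1200, 1271, 1000⟩⟩ (tC29B.hG false (tC29B.pEnd false)) :=
  posD_of_check (c := ⟨376, ⟨2, 7, 14, 9⟩⟩) (by decide +kernel)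

def tC29B_c2p00 : PosD ⟨⟨0, 1, 1⟩, ⟨98, 99, 147⟩, ⟨9258, 10000, 30000⟩, ⟨1200, 1271, 1000⟩⟩ (tC29B.hC2p false (tC29B.pEnd false)) :=
  posD_of_check (c := ⟨410, ⟨2, 7, 15, 10⟩⟩) (by decide +kernel)

def tC29B_c2m00 : PosD ⟨⟨0, 1, 1⟩, ⟨98, 99, 147⟩, ⟨9258, 10000, 30000⟩, ⟨1200, 1271, 1000⟩⟩ (tC29B.hC2m false (tC29B.pEnd false)) :=
  posD_of_check (c := ⟨450, ⟨3, 8, 16, 11⟩⟩) (by decide +kernel)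

def tC29B_c3p00 : PosD ⟨⟨0, 1, 1⟩, ⟨98, 99, 147⟩, ⟨9258, 10000, 30000⟩, ⟨1200, 1271, 1000⟩⟩ (tC29B.hC3p false false) :=
  posD_of_check (c := ⟨379, ⟨3, 7, 14, 9⟩⟩) (by decide +kernel)

def tC29B_c3m00 : PosD ⟨⟨0, 1, 1⟩, ⟨98, 99, 147⟩, ⟨9258, 10000, 30000⟩, ⟨1200, 1271, 1000⟩⟩ (tC29B.hC3m false false) :=
  posD_of_check (c := ⟨413, ⟨3, 8, 14, 10⟩⟩) (by decide +kernel)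

def tC29B_c3ph00 : PosD ⟨⟨0, 1, 1⟩, ⟨98, 99, 147⟩, ⟨9258, 10000, 30000⟩, ⟨1200, 1271, 1000⟩⟩ (tC29B.hC3p' false false) :=
  posD_of_check (c := ⟨379, ⟨3, 7, 14, 9⟩⟩) (by decide +kernel)

def tC29B_c3mh00 : PosD ⟨⟨0, 1, 1⟩, ⟨98, 99, 147⟩, ⟨9258, 10000, 30000⟩, ⟨1200, 1271, 1000⟩⟩ (tC29B.hC3m' false false) :=
  posD_of_check (c := ⟨413, ⟨3, 8, 14, 10⟩⟩) (by decide +kernel)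

def tC29B_up00 : PosD ⟨⟨0, 1, 1⟩, ⟨98, 99, 147⟩, ⟨9258, 10000, 30000⟩, ⟨1200, 1271, 1000⟩⟩ (tC29B.hUp false false) :=
  posD_of_check (c := ⟨376, ⟨2, 7, 14, 9⟩⟩) (by decide +kernel)

def tC29B_um00 : PosD ⟨⟨0, 1, 1⟩, ⟨98, 99, 147⟩, ⟨9258, 10000, 30000⟩, ⟨1200, 1271, 1000⟩⟩ (tC29B.hUm false false) :=
  posD_of_check (c := ⟨411, ⟨3, 8, 14, 10⟩⟩) (by decide +kernel)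

def tC29B_tmg00 : PosD ⟨⟨0, 1, 1⟩, ⟨98, 99, 147⟩, ⟨9258, 10000, 30000⟩, ⟨1200, 1271, 1000⟩⟩ (tC29B.hTMG false (tC29B.pEnd false)) :=
  posD_of_check (c := ⟨359, ⟨2, 7, 13, 8⟩⟩) (by decide +kernel)

def tC29B_tg01 : PosD ⟨⟨0, 1, 1⟩, ⟨98, 99, 147⟩, ⟨9258, 10000, 30000⟩, ⟨1200, 1271, 1000⟩⟩ (tC29B.hG true (tC29B.pEnd false)) :=
  posD_of_check (c := ⟨376, ⟨2, 7, 14, 9⟩⟩) (by decide +kernel)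

def tC29B_c2p01 : PosD ⟨⟨0, 1, 1⟩, ⟨98, 99, 147⟩, ⟨9258, 10000, 30000⟩, ⟨1200, 1271, 1000⟩⟩ (tC29B.hC2p true (tC29B.pEnd false)) :=
  posD_of_check (c := ⟨410, ⟨2, 7, 15, 10⟩⟩) (by decide +kernel)

def tC29B_c2m01 : PosD ⟨⟨0, 1, 1⟩, ⟨98, 99, 147⟩, ⟨9258, 10000, 30000⟩, ⟨1200, 1271, 1000⟩⟩ (tC29B.hC2m true (tC29B.pEnd false)) :=
  posD_of_check (c := ⟨450, ⟨3, 8, 16, 11⟩⟩) (by decide +kernel)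

def tC29B_c3p01 : PosD ⟨⟨0, 1, 1⟩, ⟨98, 99, 147⟩, ⟨9258, 10000, 30000⟩, ⟨1200, 1271, 1000⟩⟩ (tC29B.hC3p false true) :=
  posD_of_check (c := ⟨379, ⟨3, 7, 14, 9⟩⟩) (by decide +kernel)

def tC29B_c3m01 : PosD ⟨⟨0, 1, 1⟩, ⟨98, 99, 147⟩, ⟨9258, 10000, 30000⟩, ⟨1200, 1271, 1000⟩⟩ (tC29B.hC3m false true) :=
  posD_of_check (c := ⟨413, ⟨3, 8, 14, 10⟩⟩) (by decide +kernel)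

def tC29B_c3ph01 : PosD ⟨⟨0, 1, 1⟩, ⟨98, 99, 147⟩, ⟨9258, 10000, 30000⟩, ⟨1200, 1271, 1000⟩⟩ (tC29B.hC3p' false true) :=
  posD_of_check (c := ⟨379, ⟨3, 7, 14, 9⟩⟩) (by decide +kernel)

def tC29B_c3mh01 : PosD ⟨⟨0, 1, 1⟩, ⟨98, 99, 147⟩, ⟨9258, 10000, 30000⟩, ⟨1200, 1271, 1000⟩⟩ (tC29B.hC3m' false true) :=
  posD_of_check (c := ⟨413, ⟨3, 8, 14, 10⟩⟩) (by decide +kernel)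

def tC29B_up01 : PosD ⟨⟨0, 1, 1⟩, ⟨98, 99, 147⟩, ⟨9258, 10000, 30000⟩, ⟨1200, 1271, 1000⟩⟩ (tC29B.hUp false true) :=
  posD_of_check (c := ⟨376, ⟨2, 7, 14, 9⟩⟩) (by decide +kernel)

def tC29B_um01 : PosD ⟨⟨0, 1, 1⟩, ⟨98, 99, 147⟩, ⟨9258, 10000, 30000⟩, ⟨1200, 1271, 1000⟩⟩ (tC29B.hUm false true) :=
  posD_of_check (c := ⟨411, ⟨3, 8, 14, 10⟩⟩) (by decide +kernel)

def tC29B_tmg01 : PosD ⟨⟨0, 1, 1⟩, ⟨98, 99, 147⟩, ⟨9258, 10000, 30000⟩, ⟨1200, 1271, 1000⟩⟩ (tC29B.hTMG true (tC29B.pEnd false)) :=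
  posD_of_check (c := ⟨359, ⟨2, 7, 13, 8⟩⟩) (by decide +kernel)

def tC29B_kap1 : PosD ⟨⟨0, 1, 1⟩, ⟨98, 99, 147⟩, ⟨9258, 10000, 30000⟩, ⟨1200, 1271, 1000⟩⟩ (tC29B.kap true) :=
  posD_of_check (c := ⟨73, ⟨1, 1, 2, 2⟩⟩) (by decide +kernel)

def tC29B_c11 : PosD ⟨⟨0, 1, 1⟩, ⟨98, 99, 147⟩, ⟨9258, 10000, 30000⟩, ⟨1200, 1271, 1000⟩⟩ (tC29B.hC1 true) :=
  posD_of_check (c := ⟨281, ⟨3, 5, 9, 7⟩⟩) (by decide +kernel)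

def tC29B_c1h1 : PosD ⟨⟨0, 1, 1⟩, ⟨98, 99, 147⟩, ⟨9258, 10000, 30000⟩, ⟨1200, 1271, 1000⟩⟩ (tC29B.hC1' true) :=
  posD_of_check (c := ⟨281, ⟨3, 5, 9, 7⟩⟩) (by decide +kernel)

def tC29B_tg10 : PosD ⟨⟨0, 1, 1⟩, ⟨98, 99, 147⟩, ⟨9258, 10000, 30000⟩, ⟨1200, 1271, 1000⟩⟩ (tC29B.hG false (tC29B.pEnd true)) :=
  posD_of_check (c := ⟨392, ⟨2, 7, 14, 9⟩⟩) (by decide +kernel)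

def tC29B_c2p10 : PosD ⟨⟨0, 1, 1⟩, ⟨98, 99, 147⟩, ⟨9258, 10000, 30000⟩, ⟨1200, 1271, 1000⟩⟩ (tC29B.hC2p false (tC29B.pEnd true)) :=
  posD_of_check (c := ⟨435, ⟨2, 7, 16, 10⟩⟩) (by decide +kernel)

def tC29B_c2m10 : PosD ⟨⟨0, 1, 1⟩, ⟨98, 99, 147⟩, ⟨9258, 10000, 30000⟩, ⟨1200, 1271, 1000⟩⟩ (tC29B.hC2m false (tC29B.pEnd true)) :=
  posD_of_check (c := ⟨466, ⟨3, 8, 16, 11⟩⟩) (by decide +kernel)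

def tC29B_c3p10 : PosD ⟨⟨0, 1, 1⟩, ⟨98, 99, 147⟩, ⟨9258, 10000, 30000⟩, ⟨1200, 1271, 1000⟩⟩ (tC29B.hC3p true false) :=
  posD_of_check (c := ⟨429, ⟨3, 7, 15, 10⟩⟩) (by decide +kernel)

def tC29B_c3m10 : PosD ⟨⟨0, 1, 1⟩, ⟨98, 99, 147⟩, ⟨9258, 10000, 30000⟩, ⟨1200, 1271, 1000⟩⟩ (tC29B.hC3m true false) :=
  posD_of_check (c := ⟨452, ⟨3, 8, 15, 11⟩⟩) (by decide +kernel)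

def tC29B_c3ph10 : PosD ⟨⟨0, 1, 1⟩, ⟨98, 99, 147⟩, ⟨9258, 10000, 30000⟩, ⟨1200, 1271, 1000⟩⟩ (tC29B.hC3p' true false) :=
  posD_of_check (c := ⟨429, ⟨3, 7, 15, 10⟩⟩) (by decide +kernel)

def tC29B_c3mh10 : PosD ⟨⟨0, 1, 1⟩, ⟨98, 99, 147⟩, ⟨9258, 10000, 30000⟩, ⟨1200, 1271, 1000⟩⟩ (tC29B.hC3m' true false) :=
  posD_of_check (c := ⟨452, ⟨3, 8, 15, 11⟩⟩) (by decide +kernel)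

def tC29B_up10 : PosD ⟨⟨0, 1, 1⟩, ⟨98, 99, 147⟩, ⟨9258, 10000, 30000⟩, ⟨1200, 1271, 1000⟩⟩ (tC29B.hUp true false) :=
  posD_of_check (c := ⟨423, ⟨2, 7, 15, 10⟩⟩) (by decide +kernel)

def tC29B_um10 : PosD ⟨⟨0, 1, 1⟩, ⟨98, 99, 147⟩, ⟨9258, 10000, 30000⟩, ⟨1200, 1271, 1000⟩⟩ (tC29B.hUm true false) :=
  posD_of_check (c := ⟨451, ⟨3, 8, 15, 11⟩⟩) (by decide +kernel)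

def tC29B_tmg10 : PosD ⟨⟨0, 1, 1⟩, ⟨98, 99, 147⟩, ⟨9258, 10000, 30000⟩, ⟨1200, 1271, 1000⟩⟩ (tC29B.hTMG false (tC29B.pEnd true)) :=
  posD_of_check (c := ⟨406, ⟨2, 7, 14, 10⟩⟩) (by decide +kernel)

def tC29B_tg11 : PosD ⟨⟨0, 1, 1⟩, ⟨98, 99, 147⟩, ⟨9258, 10000, 30000⟩, ⟨1200, 1271, 1000⟩⟩ (tC29B.hG true (tC29B.pEnd true)) :=
  posD_of_check (c := ⟨392, ⟨2, 7, 14, 9⟩⟩) (by decide +kernel)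

def tC29B_c2p11 : PosD ⟨⟨0, 1, 1⟩, ⟨98, 99, 147⟩, ⟨9258, 10000, 30000⟩, ⟨1200, 1271, 1000⟩⟩ (tC29B.hC2p true (tC29B.pEnd true)) :=
  posD_of_check (c := ⟨435, ⟨2, 7, 16, 10⟩⟩) (by decide +kernel)

def tC29B_c2m11 : PosD ⟨⟨0, 1, 1⟩, ⟨98, 99, 147⟩, ⟨9258, 10000, 30000⟩, ⟨1200, 1271, 1000⟩⟩ (tC29B.hC2m true (tC29B.pEnd true)) :=
  posD_of_check (c := ⟨466, ⟨3, 8, 16, 11⟩⟩) (by decide +kernel)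

def tC29B_c3p11 : PosD ⟨⟨0, 1, 1⟩, ⟨98, 99, 147⟩, ⟨9258, 10000, 30000⟩, ⟨1200, 1271, 1000⟩⟩ (tC29B.hC3p true true) :=
  posD_of_check (c := ⟨429, ⟨3, 7, 15, 10⟩⟩) (by decide +kernel)

def tC29B_c3m11 : PosD ⟨⟨0, 1, 1⟩, ⟨98, 99, 147⟩, ⟨9258, 10000, 30000⟩, ⟨1200, 1271, 1000⟩⟩ (tC29B.hC3m true true) :=
  posD_of_check (c := ⟨452, ⟨3, 8, 15, 11⟩⟩) (by decide +kernel)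

def tC29B_c3ph11 : PosD ⟨⟨0, 1, 1⟩, ⟨98, 99, 147⟩, ⟨9258, 10000, 30000⟩, ⟨1200, 1271, 1000⟩⟩ (tC29B.hC3p' true true) :=
  posD_of_check (c := ⟨429, ⟨3, 7, 15, 10⟩⟩) (by decide +kernel)

def tC29B_c3mh11 : PosD ⟨⟨0, 1, 1⟩, ⟨98, 99, 147⟩, ⟨9258, 10000, 30000⟩, ⟨1200, 1271, 1000⟩⟩ (tC29B.hC3m' true true) :=
  posD_of_check (c := ⟨452, ⟨3, 8, 15, 11⟩⟩) (by decide +kernel)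

def tC29B_up11 : PosD ⟨⟨0, 1, 1⟩, ⟨98, 99, 147⟩, ⟨9258, 10000, 30000⟩, ⟨1200, 1271, 1000⟩⟩ (tC29B.hUp true true) :=
  posD_of_check (c := ⟨423, ⟨2, 7, 15, 10⟩⟩) (by decide +kernel)

def tC29B_um11 : PosD ⟨⟨0, 1, 1⟩, ⟨98, 99, 147⟩, ⟨9258, 10000, 30000⟩, ⟨1200, 1271, 1000⟩⟩ (tC29B.hUm true true) :=
  posD_of_check (c := ⟨451, ⟨3, 8, 15, 11⟩⟩) (by decide +kernel)

def tC29B_tmg11 : PosD ⟨⟨0, 1, 1⟩, ⟨98, 99, 147⟩, ⟨9258, 10000, 30000⟩, ⟨1200, 1271, 1000⟩⟩ (tC29B.hTMG true (tC29B.pEnd true)) :=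
  posD_of_check (c := ⟨406, ⟨2, 7, 14, 10⟩⟩) (by decide +kernel)

/-- The signs of the piece. -/
def tC29B_sign : tC29B.Sign ⟨⟨0, 1, 1⟩, ⟨98, 99, 147⟩, ⟨9258, 10000, 30000⟩, ⟨1200, 1271, 1000⟩⟩ :=
  ⟨tC29B_pp,
    tC29B_k2p,
    tC29B_k2m,
    Bool.forall_bool.2 ⟨(Bool.forall_bool.2 ⟨tC29B_tg00, tC29B_tg01⟩), (Bool.forall_bool.2 ⟨tC29B_tg10, tC29B_tg11⟩)⟩,
    Bool.forall_bool.2 ⟨(Bool.forall_bool.2 ⟨tC29B_c2p00, tC29B_c2p01⟩), (Bool.forall_bool.2 ⟨tC29B_c2p10, tC29B_c2p11⟩)⟩,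
    Bool.forall_bool.2 ⟨(Bool.forall_bool.2 ⟨tC29B_c2m00, tC29B_c2m01⟩), (Bool.forall_bool.2 ⟨tC29B_c2m10, tC29B_c2m11⟩)⟩,
    Bool.forall_bool.2 ⟨tC29B_kap0, tC29B_kap1⟩,
    Bool.forall_bool.2 ⟨tC29B_c10, tC29B_c11⟩,
    Bool.forall_bool.2 ⟨(Bool.forall_bool.2 ⟨tC29B_c3p00, tC29B_c3p01⟩), (Bool.forall_bool.2 ⟨tC29B_c3p10, tC29B_c3p11⟩)⟩,
    Bool.forall_bool.2 ⟨(Bool.forall_bool.2 ⟨tC29B_c3m00, tC29B_c3m01⟩), (Bool.forall_bool.2 ⟨tC29B_c3m10, tC29B_c3m11⟩)⟩,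
    Bool.forall_bool.2 ⟨(Bool.forall_bool.2 ⟨tC29B_tmg00, tC29B_tmg01⟩), (Bool.forall_bool.2 ⟨tC29B_tmg10, tC29B_tmg11⟩)⟩,
    .inr (Bool.forall_bool.2 ⟨⟨tC29B_c1h0, Bool.forall_bool.2 ⟨⟨tC29B_c3ph00, tC29B_c3mh00, tC29B_up00, tC29B_um00⟩, ⟨tC29B_c3ph01, tC29B_c3mh01, tC29B_up01, tC29B_um01⟩⟩⟩, ⟨tC29B_c1h1, Bool.forall_bool.2 ⟨⟨tC29B_c3ph10, tC29B_c3mh10, tC29B_up10, tC29B_um10⟩, ⟨tC29B_c3ph11, tC29B_c3mh11, tC29B_up11, tC29B_um11⟩⟩⟩⟩),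
    tC29B_v2p,
    tC29B_v2m,
    tC29B_v3p,
    tC29B_v3m,
    posD_sub (b := ⟨⟨0, 1, 1⟩, ⟨98, 99, 147⟩, ⟨4050, 10000, 30000⟩, ⟨290, 4000, 1000⟩⟩) (by decide +kernel) tC_vG,
    posD_sub (b := ⟨⟨0, 1, 1⟩, ⟨98, 99, 147⟩, ⟨4050, 10000, 30000⟩, ⟨290, 4000, 1000⟩⟩) (by decide +kernel) tC_vMG,
    posD_sub (b := ⟨⟨0, 1, 1⟩, ⟨98, 99, 147⟩, ⟨4050, 10000, 30000⟩, ⟨290, 4000, 1000⟩⟩) (by decide +kernel) tC_ak,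
    posD_sub (b := ⟨⟨0, 1, 1⟩, ⟨98, 99, 147⟩, ⟨4050, 10000, 30000⟩, ⟨290, 4000, 1000⟩⟩) (by decide +kernel) tC_aw,
    posD_sub (b := ⟨⟨0, 1, 1⟩, ⟨98, 99, 147⟩, ⟨4050, 10000, 30000⟩, ⟨290, 4000, 1000⟩⟩) (by decide +kernel) tC_gk,
    posD_sub (b := ⟨⟨0, 1, 1⟩, ⟨98, 99, 147⟩, ⟨4050, 10000, 30000⟩, ⟨290, 4000, 1000⟩⟩) (by decide +kernel) tC_gw,
    posD_sub (b := ⟨⟨0, 1, 1⟩, ⟨98, 99, 147⟩, ⟨4050, 10000, 30000⟩, ⟨290, 4000, 1000⟩⟩) (by decide +kernel) tC_ek,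
    posD_sub (b := ⟨⟨0, 1, 1⟩, ⟨98, 99, 147⟩, ⟨4050, 10000, 30000⟩, ⟨290, 4000, 1000⟩⟩) (by decide +kernel) tC_ew⟩

end Vale.Agent.P100.Calib.Closed.Six.Tail
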