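import Vale.Agent.P100.Calib.SlabSixTailDataC
import Vale.Agent.P100.Calib.SlabSixTailGlobC

/-!
# Checks of some pieces of the certificate

The checks are written as definitions so that they run one after another, which keeps the memory of the
kernel low.
-/

set_option linter.defProp false

namespace Vale.Agent.P100.Calib.Closed.Six.Tail

open BoxPos Large

local instance sixTailCheckstC19Add : Add Ex := ⟨Ex.add⟩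
local instance sixTailCheckstC19Sub : Sub Ex := ⟨Ex.sub⟩
local instance sixTailCheckstC19Mul : Mul Ex := ⟨Ex.mul⟩

def tC30_phx : PosIf ⟨⟨0, 1, 1⟩, ⟨98, 99, 147⟩, ⟨4050, 7026, 30000⟩, ⟨1271, 1346, 1000⟩⟩ (tC30.u₁ - tC30Lo) (phCn (tC30.u₁ + xO * (tC30Lo - tC30.u₁))) :=
  posIf_of_posD (posD_of_check (c := ⟨108, ⟨2, 0, 4, 2⟩⟩) (by decide +kernel))

def tC30_phd : PosD ⟨⟨0, 1, 1⟩, ⟨98, 99, 147⟩, ⟨4050, 7026, 30000⟩, ⟨1271, 1346, 1000⟩⟩ (phCd (tC30.u₁ + xO * (tC30Lo - tC30.u₁))) :=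
  posD_of_check (c := ⟨51, ⟨1, 0, 2, 1⟩⟩) (by decide +kernel)

def tC30_p0 : PosD ⟨⟨0, 1, 1⟩, ⟨98, 99, 147⟩, ⟨4050, 7026, 30000⟩, ⟨1271, 1346, 1000⟩⟩ (tC30.hP0) :=
  posD_of_check (c := ⟨83, ⟨0, 2, 3, 1⟩⟩) (by decide +kernel)

def tC30_gn : PosD ⟨⟨0, 1, 1⟩, ⟨98, 99, 147⟩, ⟨4050, 7026, 30000⟩, ⟨1271, 1346, 1000⟩⟩ (tC30.hGn) :=
  posD_of_check (c := ⟨69, ⟨1, 1, 2, 2⟩⟩) (by decide +kernel)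

def tC30_den0 : PosD ⟨⟨0, 1, 1⟩, ⟨98, 99, 147⟩, ⟨4050, 7026, 30000⟩, ⟨1271, 1346, 1000⟩⟩ (tC30.hDen false) :=
  posD_of_check (c := ⟨51, ⟨1, 0, 2, 1⟩⟩) (by decide +kernel)

def tC30_den1 : PosD ⟨⟨0, 1, 1⟩, ⟨98, 99, 147⟩, ⟨4050, 7026, 30000⟩, ⟨1271, 1346, 1000⟩⟩ (tC30.hDen true) :=
  posD_of_check (c := ⟨51, ⟨1, 0, 2, 1⟩⟩) (by decide +kernel)

def tC30_ev0 : PosD ⟨⟨0, 1, 1⟩, ⟨98, 99, 147⟩, ⟨4050, 7026, 30000⟩, ⟨1271, 1346, 1000⟩⟩ (tC30.hEv false) :=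
  posD_of_check (c := ⟨218, ⟨4, 2, 8, 4⟩⟩) (by decide +kernel)

def tC30_zL0 : PosD ⟨⟨0, 1, 1⟩, ⟨98, 99, 147⟩, ⟨4050, 7026, 30000⟩, ⟨1271, 1346, 1000⟩⟩ (tC30.hZL false) :=
  posD_of_check (c := ⟨220, ⟨4, 3, 8, 4⟩⟩) (by decide +kernel)

def tC30_zU0a : PosD ⟨⟨0, 1, 1⟩, ⟨98, 99, 147⟩, ⟨4050, 5538, 30000⟩, ⟨1271, 1346, 1000⟩⟩ (tC30.hZU false) :=
  posD_of_check (c := ⟨220, ⟨4, 3, 8, 4⟩⟩) (by decide +kernel)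

def tC30_zU0b : PosD ⟨⟨0, 1, 1⟩, ⟨98, 99, 147⟩, ⟨5538, 7026, 30000⟩, ⟨1271, 1346, 1000⟩⟩ (tC30.hZU false) :=
  posD_of_check (c := ⟨220, ⟨4, 3, 8, 4⟩⟩) (by decide +kernel)

def tC30_zU0 : PosD ⟨⟨0, 1, 1⟩, ⟨98, 99, 147⟩, ⟨4050, 7026, 30000⟩, ⟨1271, 1346, 1000⟩⟩ (tC30.hZU false) :=
  posD_join₂ tC30_zU0a tC30_zU0b

def tC30_eL0 : PosD ⟨⟨0, 1, 1⟩, ⟨98, 99, 147⟩, ⟨4050, 7026, 30000⟩, ⟨1271, 1346, 1000⟩⟩ (tC30.hEL false) :=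
  posD_of_check (c := ⟨313, ⟨5, 6, 11, 6⟩⟩) (by decide +kernel)

def tC30_eH0 : PosD ⟨⟨0, 1, 1⟩, ⟨98, 99, 147⟩, ⟨4050, 7026, 30000⟩, ⟨1271, 1346, 1000⟩⟩ (tC30.hEH false) :=
  posD_of_check (c := ⟨312, ⟨5, 6, 11, 6⟩⟩) (by decide +kernel)

def tC30_pL0 : PosD ⟨⟨0, 1, 1⟩, ⟨98, 99, 147⟩, ⟨4050, 7026, 30000⟩, ⟨1271, 1346, 1000⟩⟩ (tC30.hPL false) :=
  posD_of_check (c := ⟨338, ⟨5, 6, 11, 7⟩⟩) (by decide +kernel)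

def tC30_pU0 : PosD ⟨⟨0, 1, 1⟩, ⟨98, 99, 147⟩, ⟨4050, 7026, 30000⟩, ⟨1271, 1346, 1000⟩⟩ (tC30.hPU false) :=
  posD_of_check (c := ⟨338, ⟨5, 6, 11, 7⟩⟩) (by decide +kernel)

def tC30_kU0 : PosD ⟨⟨0, 1, 1⟩, ⟨98, 99, 147⟩, ⟨4050, 7026, 30000⟩, ⟨1271, 1346, 1000⟩⟩ (tC30.hKU false) :=
  posD_of_check (c := ⟨335, ⟨5, 6, 11, 7⟩⟩) (by decide +kernel)

def tC30_kL0 : PosD ⟨⟨0, 1, 1⟩, ⟨98, 99, 147⟩, ⟨4050, 7026, 30000⟩, ⟨1271, 1346, 1000⟩⟩ (tC30.hKL false) :=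
  posD_of_check (c := ⟨335, ⟨5, 6, 11, 7⟩⟩) (by decide +kernel)

def tC30_wU0 : PosD ⟨⟨0, 1, 1⟩, ⟨98, 99, 147⟩, ⟨4050, 7026, 30000⟩, ⟨1271, 1346, 1000⟩⟩ (tC30.hWU false) :=
  posD_of_check (c := ⟨369, ⟨5, 8, 12, 7⟩⟩) (by decide +kernel)

def tC30_wL0 : PosD ⟨⟨0, 1, 1⟩, ⟨98, 99, 147⟩, ⟨4050, 7026, 30000⟩, ⟨1271, 1346, 1000⟩⟩ (tC30.hWL false) :=
  posD_of_check (c := ⟨369, ⟨5, 8, 12, 7⟩⟩) (by decide +kernel)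

def tC30_ev1 : PosD ⟨⟨0, 1, 1⟩, ⟨98, 99, 147⟩, ⟨4050, 7026, 30000⟩, ⟨1271, 1346, 1000⟩⟩ (tC30.hEv true) :=
  posD_of_check (c := ⟨217, ⟨4, 2, 8, 4⟩⟩) (by decide +kernel)

def tC30_zL1a : PosD ⟨⟨0, 1, 1⟩, ⟨98, 99, 147⟩, ⟨4050, 5538, 30000⟩, ⟨1271, 1346, 1000⟩⟩ (tC30.hZL true) :=
  posD_of_check (c := ⟨218, ⟨4, 3, 8, 4⟩⟩) (by decide +kernel)

def tC30_zL1b : PosD ⟨⟨0, 1, 1⟩, ⟨98, 99, 147⟩, ⟨5538, 7026, 30000⟩, ⟨1271, 1346, 1000⟩⟩ (tC30.hZL true) :=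
  posD_of_check (c := ⟨219, ⟨4, 3, 8, 4⟩⟩) (by decide +kernel)

def tC30_zL1 : PosD ⟨⟨0, 1, 1⟩, ⟨98, 99, 147⟩, ⟨4050, 7026, 30000⟩, ⟨1271, 1346, 1000⟩⟩ (tC30.hZL true) :=
  posD_join₂ tC30_zL1a tC30_zL1b

def tC30_zU1 : PosD ⟨⟨0, 1, 1⟩, ⟨98, 99, 147⟩, ⟨4050, 7026, 30000⟩, ⟨1271, 1346, 1000⟩⟩ (tC30.hZU true) :=
  posD_of_check (c := ⟨219, ⟨4, 3, 8, 4⟩⟩) (by decide +kernel)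

def tC30_eL1 : PosD ⟨⟨0, 1, 1⟩, ⟨98, 99, 147⟩, ⟨4050, 7026, 30000⟩, ⟨1271, 1346, 1000⟩⟩ (tC30.hEL true) :=
  posD_of_check (c := ⟨312, ⟨5, 6, 11, 6⟩⟩) (by decide +kernel)

def tC30_eH1 : PosD ⟨⟨0, 1, 1⟩, ⟨98, 99, 147⟩, ⟨4050, 7026, 30000⟩, ⟨1271, 1346, 1000⟩⟩ (tC30.hEH true) :=
  posD_of_check (c := ⟨311, ⟨5, 6, 11, 6⟩⟩) (by decide +kernel)

def tC30_pL1 : PosD ⟨⟨0, 1, 1⟩, ⟨98, 99, 147⟩, ⟨4050, 7026, 30000⟩, ⟨1271, 1346, 1000⟩⟩ (tC30.hPL true) :=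
  posD_of_check (c := ⟨337, ⟨5, 6, 11, 7⟩⟩) (by decide +kernel)

def tC30_pU1 : PosD ⟨⟨0, 1, 1⟩, ⟨98, 99, 147⟩, ⟨4050, 7026, 30000⟩, ⟨1271, 1346, 1000⟩⟩ (tC30.hPU true) :=
  posD_of_check (c := ⟨336, ⟨5, 6, 11, 7⟩⟩) (by decide +kernel)

def tC30_kU1 : PosD ⟨⟨0, 1, 1⟩, ⟨98, 99, 147⟩, ⟨4050, 7026, 30000⟩, ⟨1271, 1346, 1000⟩⟩ (tC30.hKU true) :=
  posD_of_check (c := ⟨333, ⟨5, 6, 11, 7⟩⟩) (by decide +kernel)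

def tC30_kL1 : PosD ⟨⟨0, 1, 1⟩, ⟨98, 99, 147⟩, ⟨4050, 7026, 30000⟩, ⟨1271, 1346, 1000⟩⟩ (tC30.hKL true) :=
  posD_of_check (c := ⟨333, ⟨5, 6, 11, 7⟩⟩) (by decide +kernel)

def tC30_wU1 : PosD ⟨⟨0, 1, 1⟩, ⟨98, 99, 147⟩, ⟨4050, 7026, 30000⟩, ⟨1271, 1346, 1000⟩⟩ (tC30.hWU true) :=
  posD_of_check (c := ⟨368, ⟨5, 8, 12, 7⟩⟩) (by decide +kernel)

def tC30_wL1 : PosD ⟨⟨0, 1, 1⟩, ⟨98, 99, 147⟩, ⟨4050, 7026, 30000⟩, ⟨1271, 1346, 1000⟩⟩ (tC30.hWL true) :=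
  posD_of_check (c := ⟨368, ⟨5, 8, 12, 7⟩⟩) (by decide +kernel)

/-- The bounds of the piece. -/
def tC30_env : tC30.Env ⟨⟨0, 1, 1⟩, ⟨98, 99, 147⟩, ⟨4050, 7026, 30000⟩, ⟨1271, 1346, 1000⟩⟩ :=
  ⟨tC30_p0, Bool.forall_bool.2 ⟨tC30_den0, tC30_den1⟩, tC30_gn, Bool.forall_bool.2 ⟨tC30_ev0, tC30_ev1⟩, Bool.forall_bool.2 ⟨tC30_zL0, tC30_zL1⟩, Bool.forall_bool.2 ⟨tC30_zU0, tC30_zU1⟩, Bool.forall_bool.2 ⟨tC30_eL0, tC30_eL1⟩, ⟨.inr rfl, .inr rfl⟩, Bool.forall_bool.2 ⟨tC30_eH0, tC30_eH1⟩, ⟨.inr rfl, .inr rfl⟩, Bool.forall_bool.2 ⟨tC30_pL0, tC30_pL1⟩, ⟨.inr rfl, .inr rfl⟩, Bool.forall_bool.2 ⟨tC30_pU0, tC30_pU1⟩, ⟨.inr rfl, .inr rfl⟩, Bool.forall_bool.2 ⟨tC30_kU0, tC30_kU1⟩, ⟨.inr rfl, .inr rfl⟩, Bool.forall_bool.2 ⟨tC30_kL0, tC30_kL1⟩,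 ⟨.inr rfl, .inr rfl⟩, Bool.forall_bool.2 ⟨tC30_wU0, tC30_wU1⟩, ⟨.inr rfl, .inr rfl⟩, Bool.forall_bool.2 ⟨tC30_wL0, tC30_wL1⟩, ⟨.inr rfl, .inr rfl⟩⟩

def tC30_pp : PosD ⟨⟨0, 1, 1⟩, ⟨98, 99, 147⟩, ⟨4050, 7026, 30000⟩, ⟨1271, 1346, 1000⟩⟩ (tC30.xPL) :=
  posD_of_check (c := ⟨95, ⟨1, 1, 3, 3⟩⟩) (by decide +kernel)

def tC30_k2p : PosD ⟨⟨0, 1, 1⟩, ⟨98, 99, 147⟩, ⟨4050, 7026, 30000⟩, ⟨1271, 1346, 1000⟩⟩ (tC30.k2p tC30.xE) :=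
  posD_of_check (c := ⟨70, ⟨1, 1, 2, 2⟩⟩) (by decide +kernel)

def tC30_k2m : PosD ⟨⟨0, 1, 1⟩, ⟨98, 99, 147⟩, ⟨4050, 7026, 30000⟩, ⟨1271, 1346, 1000⟩⟩ (tC30.k2m tC30.xE) :=
  posD_of_check (c := ⟨69, ⟨1, 1, 2, 2⟩⟩) (by decide +kernel)

def tC30_v2p : PosD ⟨⟨0, 1, 1⟩, ⟨98, 99, 147⟩, ⟨4050, 7026, 30000⟩, ⟨1271, 1346, 1000⟩⟩ (tC30.hV2p) :=
  posD_of_check (c := ⟨270, ⟨1, 6, 10, 5⟩⟩) (by decide +kernel)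

def tC30_v2m : PosD ⟨⟨0, 1, 1⟩, ⟨98, 99, 147⟩, ⟨4050, 7026, 30000⟩, ⟨1271, 1346, 1000⟩⟩ (tC30.hV2m) :=
  posD_of_check (c := ⟨269, ⟨1, 6, 10, 5⟩⟩) (by decide +kernel)

def tC30_v3p : PosD ⟨⟨0, 1, 1⟩, ⟨98, 99, 147⟩, ⟨4050, 7026, 30000⟩, ⟨1271, 1346, 1000⟩⟩ (tC30.hV3p) :=
  posD_of_check (c := ⟨255, ⟨1, 6, 9, 5⟩⟩) (by decide +kernel)

def tC30_v3m : PosD ⟨⟨0, 1, 1⟩, ⟨98, 99, 147⟩, ⟨4050, 7026, 30000⟩, ⟨1271, 1346, 1000⟩⟩ (tC30.hV3m) :=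
  posD_of_check (c := ⟨255, ⟨1, 6, 9, 5⟩⟩) (by decide +kernel)

def tC30_kap0 : PosD ⟨⟨0, 1, 1⟩, ⟨98, 99, 147⟩, ⟨4050, 7026, 30000⟩, ⟨1271, 1346, 1000⟩⟩ (tC30.kap false) :=
  posD_of_check (c := ⟨67, ⟨1, 1, 2, 2⟩⟩) (by decide +kernel)

def tC30_c10 : PosD ⟨⟨0, 1, 1⟩, ⟨98, 99, 147⟩, ⟨4050, 7026, 30000⟩, ⟨1271, 1346, 1000⟩⟩ (tC30.hC1 false) :=
  posD_of_check (c := ⟨271, ⟨3, 5, 9, 7⟩⟩) (by decide +kernel)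

def tC30_c1h0 : PosD ⟨⟨0, 1, 1⟩, ⟨98, 99, 147⟩, ⟨4050, 7026, 30000⟩, ⟨1271, 1346, 1000⟩⟩ (tC30.hC1' false) :=
  posD_of_check (c := ⟨271, ⟨3, 5, 9, 7⟩⟩) (by decide +kernel)

def tC30_tg00 : PosD ⟨⟨0, 1, 1⟩, ⟨98, 99, 147⟩, ⟨4050, 7026, 30000⟩, ⟨1271, 1346, 1000⟩⟩ (tC30.hG false (tC30.pEnd false)) :=
  posD_of_check (c := ⟨385, ⟨2, 7, 14, 9⟩⟩) (by decide +kernel)

def tC30_c2p00 : PosD ⟨⟨0, 1, 1⟩, ⟨98, 99, 147⟩, ⟨4050, 7026, 30000⟩, ⟨1271, 1346, 1000⟩⟩ (tC30.hC2p false (tC30.pEnd false)) :=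
  posD_of_check (c := ⟨455, ⟨3, 8, 16, 11⟩⟩) (by decide +kernel)

def tC30_c2m00 : PosD ⟨⟨0, 1, 1⟩, ⟨98, 99, 147⟩, ⟨4050, 7026, 30000⟩, ⟨1271, 1346, 1000⟩⟩ (tC30.hC2m false (tC30.pEnd false)) :=
  posD_of_check (c := ⟨455, ⟨3, 8, 16, 11⟩⟩) (by decide +kernel)

def tC30_c3p00 : PosD ⟨⟨0, 1, 1⟩, ⟨98, 99, 147⟩, ⟨4050, 7026, 30000⟩, ⟨1271, 1346, 1000⟩⟩ (tC30.hC3p false false) :=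
  posD_of_check (c := ⟨441, ⟨3, 8, 15, 11⟩⟩) (by decide +kernel)

def tC30_c3m00 : PosD ⟨⟨0, 1, 1⟩, ⟨98, 99, 147⟩, ⟨4050, 7026, 30000⟩, ⟨1271, 1346, 1000⟩⟩ (tC30.hC3m false false) :=
  posD_of_check (c := ⟨441, ⟨3, 8, 15, 11⟩⟩) (by decide +kernel)

def tC30_c3ph00 : PosD ⟨⟨0, 1, 1⟩, ⟨98, 99, 147⟩, ⟨4050, 7026, 30000⟩, ⟨1271, 1346, 1000⟩⟩ (tC30.hC3p' false false) :=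
  posD_of_check (c := ⟨441, ⟨3, 8, 15, 11⟩⟩) (by decide +kernel)

def tC30_c3mh00 : PosD ⟨⟨0, 1, 1⟩, ⟨98, 99, 147⟩, ⟨4050, 7026, 30000⟩, ⟨1271, 1346, 1000⟩⟩ (tC30.hC3m' false false) :=
  posD_of_check (c := ⟨441, ⟨3, 8, 15, 11⟩⟩) (by decide +kernel)

def tC30_up00 : PosD ⟨⟨0, 1, 1⟩, ⟨98, 99, 147⟩, ⟨4050, 7026, 30000⟩, ⟨1271, 1346, 1000⟩⟩ (tC30.hUp false false) :=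
  posD_of_check (c := ⟨441, ⟨3, 8, 15, 11⟩⟩) (by decide +kernel)

def tC30_um00 : PosD ⟨⟨0, 1, 1⟩, ⟨98, 99, 147⟩, ⟨4050, 7026, 30000⟩, ⟨1271, 1346, 1000⟩⟩ (tC30.hUm false false) :=
  posD_of_check (c := ⟨441, ⟨3, 8, 15, 11⟩⟩) (by decide +kernel)

def tC30_tmg00 : PosD ⟨⟨0, 1, 1⟩, ⟨98, 99, 147⟩, ⟨4050, 7026, 30000⟩, ⟨1271, 1346, 1000⟩⟩ (tC30.hTMG false (tC30.pEnd false)) :=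
  posD_of_check (c := ⟨399, ⟨2, 7, 14, 10⟩⟩) (by decide +kernel)

def tC30_tg01 : PosD ⟨⟨0, 1, 1⟩, ⟨98, 99, 147⟩, ⟨4050, 7026, 30000⟩, ⟨1271, 1346, 1000⟩⟩ (tC30.hG true (tC30.pEnd false)) :=
  posD_of_check (c := ⟨385, ⟨2, 7, 14, 9⟩⟩) (by decide +kernel)

def tC30_c2p01 : PosD ⟨⟨0, 1, 1⟩, ⟨98, 99, 147⟩, ⟨4050, 7026, 30000⟩, ⟨1271, 1346, 1000⟩⟩ (tC30.hC2p true (tC30.pEnd false)) :=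
  posD_of_check (c := ⟨455, ⟨3, 8, 16, 11⟩⟩) (by decide +kernel)

def tC30_c2m01 : PosD ⟨⟨0, 1, 1⟩, ⟨98, 99, 147⟩, ⟨4050, 7026, 30000⟩, ⟨1271, 1346, 1000⟩⟩ (tC30.hC2m true (tC30.pEnd false)) :=
  posD_of_check (c := ⟨455, ⟨3, 8, 16, 11⟩⟩) (by decide +kernel)

def tC30_c3p01 : PosD ⟨⟨0, 1, 1⟩, ⟨98, 99, 147⟩, ⟨4050, 7026, 30000⟩, ⟨1271, 1346, 1000⟩⟩ (tC30.hC3p false true) :=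
  posD_of_check (c := ⟨442, ⟨3, 8, 15, 11⟩⟩) (by decide +kernel)

def tC30_c3m01 : PosD ⟨⟨0, 1, 1⟩, ⟨98, 99, 147⟩, ⟨4050, 7026, 30000⟩, ⟨1271, 1346, 1000⟩⟩ (tC30.hC3m false true) :=
  posD_of_check (c := ⟨441, ⟨3, 8, 15, 11⟩⟩) (by decide +kernel)

def tC30_c3ph01 : PosD ⟨⟨0, 1, 1⟩, ⟨98, 99, 147⟩, ⟨4050, 7026, 30000⟩, ⟨1271, 1346, 1000⟩⟩ (tC30.hC3p' false true) :=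
  posD_of_check (c := ⟨442, ⟨3, 8, 15, 11⟩⟩) (by decide +kernel)

def tC30_c3mh01 : PosD ⟨⟨0, 1, 1⟩, ⟨98, 99, 147⟩, ⟨4050, 7026, 30000⟩, ⟨1271, 1346, 1000⟩⟩ (tC30.hC3m' false true) :=
  posD_of_check (c := ⟨441, ⟨3, 8, 15, 11⟩⟩) (by decide +kernel)

def tC30_up01 : PosD ⟨⟨0, 1, 1⟩, ⟨98, 99, 147⟩, ⟨4050, 7026, 30000⟩, ⟨1271, 1346, 1000⟩⟩ (tC30.hUp false true) :=
  posD_of_check (c := ⟨441, ⟨3, 8, 15, 11⟩⟩) (by decide +kernel)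

def tC30_um01 : PosD ⟨⟨0, 1, 1⟩, ⟨98, 99, 147⟩, ⟨4050, 7026, 30000⟩, ⟨1271, 1346, 1000⟩⟩ (tC30.hUm false true) :=
  posD_of_check (c := ⟨441, ⟨3, 8, 15, 11⟩⟩) (by decide +kernel)

def tC30_tmg01 : PosD ⟨⟨0, 1, 1⟩, ⟨98, 99, 147⟩, ⟨4050, 7026, 30000⟩, ⟨1271, 1346, 1000⟩⟩ (tC30.hTMG true (tC30.pEnd false)) :=
  posD_of_check (c := ⟨399, ⟨2, 7, 14, 10⟩⟩) (by decide +kernel)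

def tC30_kap1 : PosD ⟨⟨0, 1, 1⟩, ⟨98, 99, 147⟩, ⟨4050, 7026, 30000⟩, ⟨1271, 1346, 1000⟩⟩ (tC30.kap true) :=
  posD_of_check (c := ⟨71, ⟨1, 1, 2, 2⟩⟩) (by decide +kernel)

def tC30_c11 : PosD ⟨⟨0, 1, 1⟩, ⟨98, 99, 147⟩, ⟨4050, 7026, 30000⟩, ⟨1271, 1346, 1000⟩⟩ (tC30.hC1 true) :=
  posD_of_check (c := ⟨273, ⟨3, 5, 9, 7⟩⟩) (by decide +kernel)

def tC30_c1h1 : PosD ⟨⟨0, 1, 1⟩, ⟨98, 99, 147⟩, ⟨4050, 7026, 30000⟩, ⟨1271, 1346, 1000⟩⟩ (tC30.hC1' true) :=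
  posD_of_check (c := ⟨273, ⟨3, 5, 9, 7⟩⟩) (by decide +kernel)

def tC30_tg10 : PosD ⟨⟨0, 1, 1⟩, ⟨98, 99, 147⟩, ⟨4050, 7026, 30000⟩, ⟨1271, 1346, 1000⟩⟩ (tC30.hG false (tC30.pEnd true)) :=
  posD_of_check (c := ⟨385, ⟨2, 7, 14, 9⟩⟩) (by decide +kernel)

def tC30_c2p10 : PosD ⟨⟨0, 1, 1⟩, ⟨98, 99, 147⟩, ⟨4050, 7026, 30000⟩, ⟨1271, 1346, 1000⟩⟩ (tC30.hC2p false (tC30.pEnd true)) :=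
  posD_of_check (c := ⟨454, ⟨3, 8, 16, 11⟩⟩) (by decide +kernel)

def tC30_c2m10 : PosD ⟨⟨0, 1, 1⟩, ⟨98, 99, 147⟩, ⟨4050, 7026, 30000⟩, ⟨1271, 1346, 1000⟩⟩ (tC30.hC2m false (tC30.pEnd true)) :=
  posD_of_check (c := ⟨454, ⟨3, 8, 16, 11⟩⟩) (by decide +kernel)

def tC30_c3p10 : PosD ⟨⟨0, 1, 1⟩, ⟨98, 99, 147⟩, ⟨4050, 7026, 30000⟩, ⟨1271, 1346, 1000⟩⟩ (tC30.hC3p true false) :=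
  posD_of_check (c := ⟨443, ⟨3, 8, 15, 11⟩⟩) (by decide +kernel)

def tC30_c3m10 : PosD ⟨⟨0, 1, 1⟩, ⟨98, 99, 147⟩, ⟨4050, 7026, 30000⟩, ⟨1271, 1346, 1000⟩⟩ (tC30.hC3m true false) :=
  posD_of_check (c := ⟨443, ⟨3, 8, 15, 11⟩⟩) (by decide +kernel)

def tC30_c3ph10 : PosD ⟨⟨0, 1, 1⟩, ⟨98, 99, 147⟩, ⟨4050, 7026, 30000⟩, ⟨1271, 1346, 1000⟩⟩ (tC30.hC3p' true false) :=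
  posD_of_check (c := ⟨443, ⟨3, 8, 15, 11⟩⟩) (by decide +kernel)

def tC30_c3mh10 : PosD ⟨⟨0, 1, 1⟩, ⟨98, 99, 147⟩, ⟨4050, 7026, 30000⟩, ⟨1271, 1346, 1000⟩⟩ (tC30.hC3m' true false) :=
  posD_of_check (c := ⟨443, ⟨3, 8, 15, 11⟩⟩) (by decide +kernel)

def tC30_up10 : PosD ⟨⟨0, 1, 1⟩, ⟨98, 99, 147⟩, ⟨4050, 7026, 30000⟩, ⟨1271, 1346, 1000⟩⟩ (tC30.hUp true false) :=
  posD_of_check (c := ⟨441, ⟨3, 8, 15, 11⟩⟩) (by decide +kernel)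

def tC30_um10 : PosD ⟨⟨0, 1, 1⟩, ⟨98, 99, 147⟩, ⟨4050, 7026, 30000⟩, ⟨1271, 1346, 1000⟩⟩ (tC30.hUm true false) :=
  posD_of_check (c := ⟨440, ⟨3, 8, 15, 11⟩⟩) (by decide +kernel)

def tC30_tmg10 : PosD ⟨⟨0, 1, 1⟩, ⟨98, 99, 147⟩, ⟨4050, 7026, 30000⟩, ⟨1271, 1346, 1000⟩⟩ (tC30.hTMG false (tC30.pEnd true)) :=
  posD_of_check (c := ⟨399, ⟨2, 7, 14, 10⟩⟩) (by decide +kernel)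

def tC30_tg11 : PosD ⟨⟨0, 1, 1⟩, ⟨98, 99, 147⟩, ⟨4050, 7026, 30000⟩, ⟨1271, 1346, 1000⟩⟩ (tC30.hG true (tC30.pEnd true)) :=
  posD_of_check (c := ⟨385, ⟨2, 7, 14, 9⟩⟩) (by decide +kernel)

def tC30_c2p11 : PosD ⟨⟨0, 1, 1⟩, ⟨98, 99, 147⟩, ⟨4050, 7026, 30000⟩, ⟨1271, 1346, 1000⟩⟩ (tC30.hC2p true (tC30.pEnd true)) :=
  posD_of_check (c := ⟨454, ⟨3, 8, 16, 11⟩⟩) (by decide +kernel)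

def tC30_c2m11 : PosD ⟨⟨0, 1, 1⟩, ⟨98, 99, 147⟩, ⟨4050, 7026, 30000⟩, ⟨1271, 1346, 1000⟩⟩ (tC30.hC2m true (tC30.pEnd true)) :=
  posD_of_check (c := ⟨454, ⟨3, 8, 16, 11⟩⟩) (by decide +kernel)

def tC30_c3p11 : PosD ⟨⟨0, 1, 1⟩, ⟨98, 99, 147⟩, ⟨4050, 7026, 30000⟩, ⟨1271, 1346, 1000⟩⟩ (tC30.hC3p true true) :=
  posD_of_check (c := ⟨443, ⟨3, 8, 15, 11⟩⟩) (by decide +kernel)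

def tC30_c3m11 : PosD ⟨⟨0, 1, 1⟩, ⟨98, 99, 147⟩, ⟨4050, 7026, 30000⟩, ⟨1271, 1346, 1000⟩⟩ (tC30.hC3m true true) :=
  posD_of_check (c := ⟨443, ⟨3, 8, 15, 11⟩⟩) (by decide +kernel)

def tC30_c3ph11 : PosD ⟨⟨0, 1, 1⟩, ⟨98, 99, 147⟩, ⟨4050, 7026, 30000⟩, ⟨1271, 1346, 1000⟩⟩ (tC30.hC3p' true true) :=
  posD_of_check (c := ⟨443, ⟨3, 8, 15, 11⟩⟩) (by decide +kernel)

def tC30_c3mh11 : PosD ⟨⟨0, 1, 1⟩, ⟨98, 99, 147⟩, ⟨4050, 7026, 30000⟩, ⟨1271, 1346, 1000⟩⟩ (tC30.hC3m' true true) :=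
  posD_of_check (c := ⟨443, ⟨3, 8, 15, 11⟩⟩) (by decide +kernel)

def tC30_up11 : PosD ⟨⟨0, 1, 1⟩, ⟨98, 99, 147⟩, ⟨4050, 7026, 30000⟩, ⟨1271, 1346, 1000⟩⟩ (tC30.hUp true true) :=
  posD_of_check (c := ⟨441, ⟨3, 8, 15, 11⟩⟩) (by decide +kernel)

def tC30_um11 : PosD ⟨⟨0, 1, 1⟩, ⟨98, 99, 147⟩, ⟨4050, 7026, 30000⟩, ⟨1271, 1346, 1000⟩⟩ (tC30.hUm true true) :=
  posD_of_check (c := ⟨440, ⟨3, 8, 15, 11⟩⟩) (by decide +kernel)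

def tC30_tmg11 : PosD ⟨⟨0, 1, 1⟩, ⟨98, 99, 147⟩, ⟨4050, 7026, 30000⟩, ⟨1271, 1346, 1000⟩⟩ (tC30.hTMG true (tC30.pEnd true)) :=
  posD_of_check (c := ⟨399, ⟨2, 7, 14, 10⟩⟩) (by decide +kernel)

/-- The signs of the piece. -/
def tC30_sign : tC30.Sign ⟨⟨0, 1, 1⟩, ⟨98, 99, 147⟩, ⟨4050, 7026, 30000⟩, ⟨1271, 1346, 1000⟩⟩ :=
  ⟨tC30_pp,
    tC30_k2p,
    tC30_k2m,
    Bool.forall_bool.2 ⟨(Bool.forall_bool.2 ⟨tC30_tg00, tC30_tg01⟩), (Bool.forall_bool.2 ⟨tC30_tg10, tC30_tg11⟩)⟩,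
    Bool.forall_bool.2 ⟨(Bool.forall_bool.2 ⟨tC30_c2p00, tC30_c2p01⟩), (Bool.forall_bool.2 ⟨tC30_c2p10, tC30_c2p11⟩)⟩,
    Bool.forall_bool.2 ⟨(Bool.forall_bool.2 ⟨tC30_c2m00, tC30_c2m01⟩), (Bool.forall_bool.2 ⟨tC30_c2m10, tC30_c2m11⟩)⟩,
    Bool.forall_bool.2 ⟨tC30_kap0, tC30_kap1⟩,
    Bool.forall_bool.2 ⟨tC30_c10, tC30_c11⟩,
    Bool.forall_bool.2 ⟨(Bool.forall_bool.2 ⟨tC30_c3p00, tC30_c3p01⟩), (Bool.forall_bool.2 ⟨tC30_c3p10, tC30_c3p11⟩)⟩,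
    Bool.forall_bool.2 ⟨(Bool.forall_bool.2 ⟨tC30_c3m00, tC30_c3m01⟩), (Bool.forall_bool.2 ⟨tC30_c3m10, tC30_c3m11⟩)⟩,
    Bool.forall_bool.2 ⟨(Bool.forall_bool.2 ⟨tC30_tmg00, tC30_tmg01⟩), (Bool.forall_bool.2 ⟨tC30_tmg10, tC30_tmg11⟩)⟩,
    .inr (Bool.forall_bool.2 ⟨⟨tC30_c1h0, Bool.forall_bool.2 ⟨⟨tC30_c3ph00, tC30_c3mh00, tC30_up00, tC30_um00⟩, ⟨tC30_c3ph01, tC30_c3mh01, tC30_up01, tC30_um01⟩⟩⟩, ⟨tC30_c1h1, Bool.forall_bool.2 ⟨⟨tC30_c3ph10, tC30_c3mh10, tC30_up10, tC30_um10⟩, ⟨tC30_c3ph11, tC30_c3mh11, tC30_up11, tC30_um11⟩⟩⟩⟩),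
    tC30_v2p,
    tC30_v2m,
    tC30_v3p,
    tC30_v3m,
    posD_sub (b := ⟨⟨0, 1, 1⟩, ⟨98, 99, 147⟩, ⟨4050, 10000, 30000⟩, ⟨290, 4000, 1000⟩⟩) (by decide +kernel) tC_vG,
    posD_sub (b := ⟨⟨0, 1, 1⟩, ⟨98, 99, 147⟩, ⟨4050, 10000, 30000⟩, ⟨290, 4000, 1000⟩⟩) (by decide +kernel) tC_vMG,
    posD_sub (b := ⟨⟨0, 1, 1⟩, ⟨98, 99, 147⟩, ⟨4050, 10000, 30000⟩, ⟨290, 4000, 1000⟩⟩) (by decide +kernel) tC_ak,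
    posD_sub (b := ⟨⟨0, 1, 1⟩, ⟨98, 99, 147⟩, ⟨4050, 10000, 30000⟩, ⟨290, 4000, 1000⟩⟩) (by decide +kernel) tC_aw,
    posD_sub (b := ⟨⟨0, 1, 1⟩, ⟨98, 99, 147⟩, ⟨4050, 10000, 30000⟩, ⟨290, 4000, 1000⟩⟩) (by decide +kernel) tC_gk,
    posD_sub (b := ⟨⟨0, 1, 1⟩, ⟨98, 99, 147⟩, ⟨4050, 10000, 30000⟩, ⟨290, 4000, 1000⟩⟩) (by decide +kernel) tC_gw,
    posD_sub (b := ⟨⟨0, 1, 1⟩, ⟨98, 99, 147⟩, ⟨4050, 10000, 30000⟩, ⟨290, 4000, 1000⟩⟩) (by decide +kernel) tC_ek,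
    posD_sub (b := ⟨⟨0, 1, 1⟩, ⟨98, 99, 147⟩, ⟨4050, 10000, 30000⟩, ⟨290, 4000, 1000⟩⟩) (by decide +kernel) tC_ew⟩

end Vale.Agent.P100.Calib.Closed.Six.Tail
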