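import Vale.Agent.P100.Calib.SlabSixTailDataC
import Vale.Agent.P100.Calib.SlabSixTailGlobC

/-!
# Checks of some pieces of the certificate

The checks are written as definitions so that they run one after another, which keeps the memory of the
kernel low.
-/

set_option linter.defProp false

namespace Vale.Agent.P100.Calib.Closed.Six.Tail

open BoxPos Large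

local instance sixTailCheckstC2Add : Add Ex := ⟨Ex.add⟩
local instance sixTailCheckstC2Sub : Sub Ex := ⟨Ex.sub⟩
local instance sixTailCheckstC2Mul : Mul Ex := ⟨Ex.mul⟩

def tC6_phx : PosIf ⟨⟨0, 1, 1⟩, ⟨98, 99, 147⟩, ⟨7026, 8514, 30000⟩, ⟨1023, 1162, 1000⟩⟩ (tC6.u₁ - tC6Lo) (phCn (tC6.u₁ + xO * (tC6Lo - tC6.u₁))) :=
  posIf_of_posD (posD_of_check (c := ⟨108, ⟨2, 0, 4, 2⟩⟩) (by decide +kernel))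

def tC6_phd : PosD ⟨⟨0, 1, 1⟩, ⟨98, 99, 147⟩, ⟨7026, 8514, 30000⟩, ⟨1023, 1162, 1000⟩⟩ (phCd (tC6.u₁ + xO * (tC6Lo - tC6.u₁))) :=
  posD_of_check (c := ⟨51, ⟨1, 0, 2, 1⟩⟩) (by decide +kernel)

def tC6_p0 : PosD ⟨⟨0, 1, 1⟩, ⟨98, 99, 147⟩, ⟨7026, 8514, 30000⟩, ⟨1023, 1162, 1000⟩⟩ (tC6.hP0) :=
  posD_of_check (c := ⟨83, ⟨0, 2, 3, 1⟩⟩) (by decide +kernel)

def tC6_gn : PosD ⟨⟨0, 1, 1⟩, ⟨98, 99, 147⟩, ⟨7026, 8514, 30000⟩, ⟨1023, 1162, 1000⟩⟩ (tC6.hGn) :=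
  posD_of_check (c := ⟨69, ⟨1, 1, 2, 2⟩⟩) (by decide +kernel)

def tC6_den0 : PosD ⟨⟨0, 1, 1⟩, ⟨98, 99, 147⟩, ⟨7026, 8514, 30000⟩, ⟨1023, 1162, 1000⟩⟩ (tC6.hDen false) :=
  posD_of_check (c := ⟨51, ⟨1, 0, 2, 1⟩⟩) (by decide +kernel)

def tC6_den1 : PosD ⟨⟨0, 1, 1⟩, ⟨98, 99, 147⟩, ⟨7026, 8514, 30000⟩, ⟨1023, 1162, 1000⟩⟩ (tC6.hDen true) :=
  posD_of_check (c := ⟨51, ⟨1, 0, 2, 1⟩⟩) (by decide +kernel)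

def tC6_ev0 : PosD ⟨⟨0, 1, 1⟩, ⟨98, 99, 147⟩, ⟨7026, 8514, 30000⟩, ⟨1023, 1162, 1000⟩⟩ (tC6.hEv false) :=
  posD_of_check (c := ⟨218, ⟨4, 2, 8, 4⟩⟩) (by decide +kernel)

def tC6_zL0 : PosD ⟨⟨0, 1, 1⟩, ⟨98, 99, 147⟩, ⟨7026, 8514, 30000⟩, ⟨1023, 1162, 1000⟩⟩ (tC6.hZL false) :=
  posD_of_check (c := ⟨220, ⟨4, 3, 8, 4⟩⟩) (by decide +kernel)

def tC6_zU0 : PosD ⟨⟨0, 1, 1⟩, ⟨98, 99, 147⟩, ⟨7026, 8514, 30000⟩, ⟨1023, 1162, 1000⟩⟩ (tC6.hZU false) :=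
  posD_of_check (c := ⟨220, ⟨4, 3, 8, 4⟩⟩) (by decide +kernel)

def tC6_eL0 : PosD ⟨⟨0, 1, 1⟩, ⟨98, 99, 147⟩, ⟨7026, 8514, 30000⟩, ⟨1023, 1162, 1000⟩⟩ (tC6.hEL false) :=
  posD_of_check (c := ⟨313, ⟨5, 6, 11, 6⟩⟩) (by decide +kernel)

def tC6_eH0 : PosD ⟨⟨0, 1, 1⟩, ⟨98, 99, 147⟩, ⟨7026, 8514, 30000⟩, ⟨1023, 1162, 1000⟩⟩ (tC6.hEH false) :=
  posD_of_check (c := ⟨313, ⟨5, 6, 11, 6⟩⟩) (by decide +kernel)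

def tC6_pL0 : PosD ⟨⟨0, 1, 1⟩, ⟨98, 99, 147⟩, ⟨7026, 8514, 30000⟩, ⟨1023, 1162, 1000⟩⟩ (tC6.hPL false) :=
  posD_of_check (c := ⟨341, ⟨5, 6, 11, 7⟩⟩) (by decide +kernel)

def tC6_pU0 : PosD ⟨⟨0, 1, 1⟩, ⟨98, 99, 147⟩, ⟨7026, 8514, 30000⟩, ⟨1023, 1162, 1000⟩⟩ (tC6.hPU false) :=
  posD_of_check (c := ⟨339, ⟨5, 6, 11, 7⟩⟩) (by decide +kernel)

def tC6_kU0 : PosD ⟨⟨0, 1, 1⟩, ⟨98, 99, 147⟩, ⟨7026, 8514, 30000⟩, ⟨1023, 1162, 1000⟩⟩ (tC6.hKU false) :=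
  posD_of_check (c := ⟨336, ⟨5, 6, 11, 7⟩⟩) (by decide +kernel)

def tC6_kL0 : PosD ⟨⟨0, 1, 1⟩, ⟨98, 99, 147⟩, ⟨7026, 8514, 30000⟩, ⟨1023, 1162, 1000⟩⟩ (tC6.hKL false) :=
  posD_of_check (c := ⟨335, ⟨5, 6, 11, 7⟩⟩) (by decide +kernel)

def tC6_wU0 : PosD ⟨⟨0, 1, 1⟩, ⟨98, 99, 147⟩, ⟨7026, 8514, 30000⟩, ⟨1023, 1162, 1000⟩⟩ (tC6.hWU false) :=
  posD_of_check (c := ⟨370, ⟨5, 8, 12, 7⟩⟩) (by decide +kernel)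

def tC6_wL0 : PosD ⟨⟨0, 1, 1⟩, ⟨98, 99, 147⟩, ⟨7026, 8514, 30000⟩, ⟨1023, 1162, 1000⟩⟩ (tC6.hWL false) :=
  posD_of_check (c := ⟨370, ⟨5, 8, 12, 7⟩⟩) (by decide +kernel)

def tC6_ev1 : PosD ⟨⟨0, 1, 1⟩, ⟨98, 99, 147⟩, ⟨7026, 8514, 30000⟩, ⟨1023, 1162, 1000⟩⟩ (tC6.hEv true) :=
  posD_of_check (c := ⟨217, ⟨4, 2, 8, 4⟩⟩) (by decide +kernel)

def tC6_zL1 : PosD ⟨⟨0, 1, 1⟩, ⟨98, 99, 147⟩, ⟨7026, 8514, 30000⟩, ⟨1023, 1162, 1000⟩⟩ (tC6.hZL true) :=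
  posD_of_check (c := ⟨219, ⟨4, 3, 8, 4⟩⟩) (by decide +kernel)

def tC6_zU1 : PosD ⟨⟨0, 1, 1⟩, ⟨98, 99, 147⟩, ⟨7026, 8514, 30000⟩, ⟨1023, 1162, 1000⟩⟩ (tC6.hZU true) :=
  posD_of_check (c := ⟨219, ⟨4, 3, 8, 4⟩⟩) (by decide +kernel)

def tC6_eL1 : PosD ⟨⟨0, 1, 1⟩, ⟨98, 99, 147⟩, ⟨7026, 8514, 30000⟩, ⟨1023, 1162, 1000⟩⟩ (tC6.hEL true) :=
  posD_of_check (c := ⟨311, ⟨5, 6, 11, 6⟩⟩) (by decide +kernel)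

def tC6_eH1 : PosD ⟨⟨0, 1, 1⟩, ⟨98, 99, 147⟩, ⟨7026, 8514, 30000⟩, ⟨1023, 1162, 1000⟩⟩ (tC6.hEH true) :=
  posD_of_check (c := ⟨311, ⟨5, 6, 11, 6⟩⟩) (by decide +kernel)

def tC6_pL1 : PosD ⟨⟨0, 1, 1⟩, ⟨98, 99, 147⟩, ⟨7026, 8514, 30000⟩, ⟨1023, 1162, 1000⟩⟩ (tC6.hPL true) :=
  posD_of_check (c := ⟨339, ⟨5, 6, 11, 7⟩⟩) (by decide +kernel)

def tC6_pU1 : PosD ⟨⟨0, 1, 1⟩, ⟨98, 99, 147⟩, ⟨7026, 8514, 30000⟩, ⟨1023, 1162, 1000⟩⟩ (tC6.hPU true) :=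
  posD_of_check (c := ⟨338, ⟨5, 6, 11, 7⟩⟩) (by decide +kernel)

def tC6_kU1 : PosD ⟨⟨0, 1, 1⟩, ⟨98, 99, 147⟩, ⟨7026, 8514, 30000⟩, ⟨1023, 1162, 1000⟩⟩ (tC6.hKU true) :=
  posD_of_check (c := ⟨334, ⟨5, 6, 11, 7⟩⟩) (by decide +kernel)

def tC6_kL1 : PosD ⟨⟨0, 1, 1⟩, ⟨98, 99, 147⟩, ⟨7026, 8514, 30000⟩, ⟨1023, 1162, 1000⟩⟩ (tC6.hKL true) :=
  posD_of_check (c := ⟨334, ⟨5, 6, 11, 7⟩⟩) (by decide +kernel)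

def tC6_wU1 : PosD ⟨⟨0, 1, 1⟩, ⟨98, 99, 147⟩, ⟨7026, 8514, 30000⟩, ⟨1023, 1162, 1000⟩⟩ (tC6.hWU true) :=
  posD_of_check (c := ⟨368, ⟨5, 8, 12, 7⟩⟩) (by decide +kernel)

def tC6_wL1 : PosD ⟨⟨0, 1, 1⟩, ⟨98, 99, 147⟩, ⟨7026, 8514, 30000⟩, ⟨1023, 1162, 1000⟩⟩ (tC6.hWL true) :=
  posD_of_check (c := ⟨368, ⟨5, 8, 12, 7⟩⟩) (by decide +kernel)

/-- The bounds of the piece. -/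
def tC6_env : tC6.Env ⟨⟨0, 1, 1⟩, ⟨98, 99, 147⟩, ⟨7026, 8514, 30000⟩, ⟨1023, 1162, 1000⟩⟩ :=
  ⟨tC6_p0, Bool.forall_bool.2 ⟨tC6_den0, tC6_den1⟩, tC6_gn, Bool.forall_bool.2 ⟨tC6_ev0, tC6_ev1⟩, Bool.forall_bool.2 ⟨tC6_zL0, tC6_zL1⟩, Bool.forall_bool.2 ⟨tC6_zU0, tC6_zU1⟩, Bool.forall_bool.2 ⟨tC6_eL0, tC6_eL1⟩, ⟨.inr rfl, .inr rfl⟩, Bool.forall_bool.2 ⟨tC6_eH0, tC6_eH1⟩, ⟨.inr rfl, .inr rfl⟩, Bool.forall_bool.2 ⟨tC6_pL0, tC6_pL1⟩, ⟨.inr rfl, .inr rfl⟩, Bool.forall_bool.2 ⟨tC6_pU0, tC6_pU1⟩, ⟨.inr rfl, .inr rfl⟩, Bool.forall_bool.2 ⟨tC6_kU0, tC6_kU1⟩, ⟨.inr rfl, .inr rfl⟩, Bool.forall_bool.2 ⟨tC6_kL0, tC6_kL1⟩, ⟨.inr rfl, .inr rfl⟩, Bool.forall_bool.2 ⟨tC6_wU0, tC6_wU1⟩, ⟨.inr rfl, .inr rfl⟩, Bool.forall_bool.2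 ⟨tC6_wL0, tC6_wL1⟩, ⟨.inr rfl, .inr rfl⟩⟩

def tC6_pU20 : PosD ⟨⟨0, 1, 1⟩, ⟨98, 99, 147⟩, ⟨7026, 8514, 30000⟩, ⟨1023, 1162, 1000⟩⟩ (({ tC6 with pU := tC6PU } : Piece).hPU false) :=
  posD_of_check (c := ⟨337, ⟨5, 6, 11, 7⟩⟩) (by decide +kernel)

def tC6_pU21 : PosD ⟨⟨0, 1, 1⟩, ⟨98, 99, 147⟩, ⟨7026, 8514, 30000⟩, ⟨1023, 1162, 1000⟩⟩ (({ tC6 with pU := tC6PU } : Piece).hPU true) :=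
  posD_of_check (c := ⟨336, ⟨5, 6, 11, 7⟩⟩) (by decide +kernel)

/-- The bounds with the other bound of `p`. -/
def tC6_envU : ({ tC6 with pU := tC6PU } : Piece).Env ⟨⟨0, 1, 1⟩, ⟨98, 99, 147⟩, ⟨7026, 8514, 30000⟩, ⟨1023, 1162, 1000⟩⟩ :=
  tC6_env.withU tC6PU (Bool.forall_bool.2 ⟨tC6_pU20, tC6_pU21⟩) ⟨.inr rfl, .inr rfl⟩

def tC6A_pp : PosD ⟨⟨0, 1, 1⟩, ⟨98, 99, 147⟩, ⟨7026, 8514, 30000⟩, ⟨1023, 1162, 1000⟩⟩ (tC6A.xPL) :=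
  posD_of_check (c := ⟨97, ⟨1, 1, 3, 3⟩⟩) (by decide +kernel)

def tC6A_k2p : PosD ⟨⟨0, 1, 1⟩, ⟨98, 99, 147⟩, ⟨7026, 8514, 30000⟩, ⟨1023, 1162, 1000⟩⟩ (tC6A.k2p tC6A.xE) :=
  posD_of_check (c := ⟨70, ⟨1, 1, 2, 2⟩⟩) (by decide +kernel)

def tC6A_k2m : PosD ⟨⟨0, 1, 1⟩, ⟨98, 99, 147⟩, ⟨7026, 8514, 30000⟩, ⟨1023, 1162, 1000⟩⟩ (tC6A.k2m tC6A.xE) :=
  posD_of_check (c := ⟨70, ⟨1, 1, 2, 2⟩⟩) (by decide +kernel)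

def tC6A_v2p : PosD ⟨⟨0, 1, 1⟩, ⟨98, 99, 147⟩, ⟨7026, 8514, 30000⟩, ⟨1023, 1162, 1000⟩⟩ (tC6A.hV2p) :=
  posD_of_check (c := ⟨271, ⟨1, 6, 10, 5⟩⟩) (by decide +kernel)

def tC6A_v2m : PosD ⟨⟨0, 1, 1⟩, ⟨98, 99, 147⟩, ⟨7026, 8514, 30000⟩, ⟨1023, 1162, 1000⟩⟩ (tC6A.hV2m) :=
  posD_of_check (c := ⟨270, ⟨1, 6, 10, 5⟩⟩) (by decide +kernel)

def tC6A_v3p : PosD ⟨⟨0, 1, 1⟩, ⟨98, 99, 147⟩, ⟨7026, 8514, 30000⟩, ⟨1023, 1162, 1000⟩⟩ (tC6A.hV3p) :=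
  posD_of_check (c := ⟨256, ⟨1, 6, 9, 5⟩⟩) (by decide +kernel)

def tC6A_v3m : PosD ⟨⟨0, 1, 1⟩, ⟨98, 99, 147⟩, ⟨7026, 8514, 30000⟩, ⟨1023, 1162, 1000⟩⟩ (tC6A.hV3m) :=
  posD_of_check (c := ⟨256, ⟨1, 6, 9, 5⟩⟩) (by decide +kernel)

def tC6A_kap0 : PosD ⟨⟨0, 1, 1⟩, ⟨98, 99, 147⟩, ⟨7026, 8514, 30000⟩, ⟨1023, 1162, 1000⟩⟩ (tC6A.kap false) :=
  posD_of_check (c := ⟨69, ⟨1, 1, 2, 2⟩⟩) (by decide +kernel)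

def tC6A_c10 : PosD ⟨⟨0, 1, 1⟩, ⟨98, 99, 147⟩, ⟨7026, 8514, 30000⟩, ⟨1023, 1162, 1000⟩⟩ (tC6A.hC1 false) :=
  posD_of_check (c := ⟨273, ⟨3, 5, 9, 7⟩⟩) (by decide +kernel)

def tC6A_neg0 : PosD ⟨⟨0, 1, 1⟩, ⟨98, 99, 147⟩, ⟨7026, 8514, 30000⟩, ⟨1023, 1162, 1000⟩⟩ (tC6A.hNeg (tC6A.pEnd false)) :=
  posD_of_check (c := ⟨269, ⟨2, 5, 9, 7⟩⟩) (by decide +kernel)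

def tC6A_neglo0 : PosD ⟨⟨0, 1, 1⟩, ⟨98, 99, 147⟩, ⟨7026, 8514, 30000⟩, ⟨1023, 1162, 1000⟩⟩ (tC6A.hNegLo (tC6A.pEnd false)) :=
  posD_of_check (c := ⟨269, ⟨2, 5, 9, 7⟩⟩) (by decide +kernel)

def tC6A_tg00 : PosD ⟨⟨0, 1, 1⟩, ⟨98, 99, 147⟩, ⟨7026, 8514, 30000⟩, ⟨1023, 1162, 1000⟩⟩ (tC6A.hG false (tC6A.pEnd false)) :=
  posD_of_check (c := ⟨391, ⟨2, 7, 14, 9⟩⟩) (by decide +kernel)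

def tC6A_c2p00 : PosD ⟨⟨0, 1, 1⟩, ⟨98, 99, 147⟩, ⟨7026, 8514, 30000⟩, ⟨1023, 1162, 1000⟩⟩ (tC6A.hC2p false (tC6A.pEnd false)) :=
  posD_of_check (c := ⟨460, ⟨3, 8, 16, 11⟩⟩) (by decide +kernel)

def tC6A_c2m00 : PosD ⟨⟨0, 1, 1⟩, ⟨98, 99, 147⟩, ⟨7026, 8514, 30000⟩, ⟨1023, 1162, 1000⟩⟩ (tC6A.hC2m false (tC6A.pEnd false)) :=
  posD_of_check (c := ⟨460, ⟨3, 8, 16, 11⟩⟩) (by decide +kernel)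

def tC6A_c3p00 : PosD ⟨⟨0, 1, 1⟩, ⟨98, 99, 147⟩, ⟨7026, 8514, 30000⟩, ⟨1023, 1162, 1000⟩⟩ (tC6A.hC3p false false) :=
  posD_of_check (c := ⟨446, ⟨3, 8, 15, 11⟩⟩) (by decide +kernel)

def tC6A_c3m00 : PosD ⟨⟨0, 1, 1⟩, ⟨98, 99, 147⟩, ⟨7026, 8514, 30000⟩, ⟨1023, 1162, 1000⟩⟩ (tC6A.hC3m false false) :=
  posD_of_check (c := ⟨446, ⟨3, 8, 15, 11⟩⟩) (by decide +kernel)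

def tC6A_tmg00 : PosD ⟨⟨0, 1, 1⟩, ⟨98, 99, 147⟩, ⟨7026, 8514, 30000⟩, ⟨1023, 1162, 1000⟩⟩ (tC6A.hTMG false (tC6A.pEnd false)) :=
  posD_of_check (c := ⟨404, ⟨2, 7, 14, 10⟩⟩) (by decide +kernel)

def tC6A_tg01 : PosD ⟨⟨0, 1, 1⟩, ⟨98, 99, 147⟩, ⟨7026, 8514, 30000⟩, ⟨1023, 1162, 1000⟩⟩ (tC6A.hG true (tC6A.pEnd false)) :=
  posD_of_check (c := ⟨391, ⟨2, 7, 14, 9⟩⟩) (by decide +kernel)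

def tC6A_c2p01 : PosD ⟨⟨0, 1, 1⟩, ⟨98, 99, 147⟩, ⟨7026, 8514, 30000⟩, ⟨1023, 1162, 1000⟩⟩ (tC6A.hC2p true (tC6A.pEnd false)) :=
  posD_of_check (c := ⟨460, ⟨3, 8, 16, 11⟩⟩) (by decide +kernel)

def tC6A_c2m01 : PosD ⟨⟨0, 1, 1⟩, ⟨98, 99, 147⟩, ⟨7026, 8514, 30000⟩, ⟨1023, 1162, 1000⟩⟩ (tC6A.hC2m true (tC6A.pEnd false)) :=
  posD_of_check (c := ⟨460, ⟨3, 8, 16, 11⟩⟩) (by decide +kernel)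

def tC6A_c3p01 : PosD ⟨⟨0, 1, 1⟩, ⟨98, 99, 147⟩, ⟨7026, 8514, 30000⟩, ⟨1023, 1162, 1000⟩⟩ (tC6A.hC3p false true) :=
  posD_of_check (c := ⟨446, ⟨3, 8, 15, 11⟩⟩) (by decide +kernel)

def tC6A_c3m01 : PosD ⟨⟨0, 1, 1⟩, ⟨98, 99, 147⟩, ⟨7026, 8514, 30000⟩, ⟨1023, 1162, 1000⟩⟩ (tC6A.hC3m false true) :=
  posD_of_check (c := ⟨446, ⟨3, 8, 15, 11⟩⟩) (by decide +kernel)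

def tC6A_tmg01 : PosD ⟨⟨0, 1, 1⟩, ⟨98, 99, 147⟩, ⟨7026, 8514, 30000⟩, ⟨1023, 1162, 1000⟩⟩ (tC6A.hTMG true (tC6A.pEnd false)) :=
  posD_of_check (c := ⟨404, ⟨2, 7, 14, 10⟩⟩) (by decide +kernel)

def tC6A_kap1 : PosD ⟨⟨0, 1, 1⟩, ⟨98, 99, 147⟩, ⟨7026, 8514, 30000⟩, ⟨1023, 1162, 1000⟩⟩ (tC6A.kap true) :=
  posD_of_check (c := ⟨70, ⟨1, 1, 2, 2⟩⟩) (by decide +kernel)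

def tC6A_c11 : PosD ⟨⟨0, 1, 1⟩, ⟨98, 99, 147⟩, ⟨7026, 8514, 30000⟩, ⟨1023, 1162, 1000⟩⟩ (tC6A.hC1 true) :=
  posD_of_check (c := ⟨273, ⟨3, 5, 9, 7⟩⟩) (by decide +kernel)

def tC6A_neg1 : PosD ⟨⟨0, 1, 1⟩, ⟨98, 99, 147⟩, ⟨7026, 8514, 30000⟩, ⟨1023, 1162, 1000⟩⟩ (tC6A.hNeg (tC6A.pEnd true)) :=
  posD_of_check (c := ⟨268, ⟨2, 5, 9, 7⟩⟩) (by decide +kernel)

def tC6A_neglo1 : PosD ⟨⟨0, 1, 1⟩, ⟨98, 99, 147⟩, ⟨7026, 8514, 30000⟩, ⟨1023, 1162, 1000⟩⟩ (tC6A.hNegLo (tC6A.pEnd true)) :=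
  posD_of_check (c := ⟨268, ⟨2, 5, 9, 7⟩⟩) (by decide +kernel)

def tC6A_tg10 : PosD ⟨⟨0, 1, 1⟩, ⟨98, 99, 147⟩, ⟨7026, 8514, 30000⟩, ⟨1023, 1162, 1000⟩⟩ (tC6A.hG false (tC6A.pEnd true)) :=
  posD_of_check (c := ⟨387, ⟨2, 7, 14, 9⟩⟩) (by decide +kernel)

def tC6A_c2p10 : PosD ⟨⟨0, 1, 1⟩, ⟨98, 99, 147⟩, ⟨7026, 8514, 30000⟩, ⟨1023, 1162, 1000⟩⟩ (tC6A.hC2p false (tC6A.pEnd true)) :=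
  posD_of_check (c := ⟨457, ⟨3, 8, 16, 11⟩⟩) (by decide +kernel)

def tC6A_c2m10 : PosD ⟨⟨0, 1, 1⟩, ⟨98, 99, 147⟩, ⟨7026, 8514, 30000⟩, ⟨1023, 1162, 1000⟩⟩ (tC6A.hC2m false (tC6A.pEnd true)) :=
  posD_of_check (c := ⟨457, ⟨3, 8, 16, 11⟩⟩) (by decide +kernel)

def tC6A_c3p10 : PosD ⟨⟨0, 1, 1⟩, ⟨98, 99, 147⟩, ⟨7026, 8514, 30000⟩, ⟨1023, 1162, 1000⟩⟩ (tC6A.hC3p true false) :=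
  posD_of_check (c := ⟨444, ⟨3, 8, 15, 11⟩⟩) (by decide +kernel)

def tC6A_c3m10 : PosD ⟨⟨0, 1, 1⟩, ⟨98, 99, 147⟩, ⟨7026, 8514, 30000⟩, ⟨1023, 1162, 1000⟩⟩ (tC6A.hC3m true false) :=
  posD_of_check (c := ⟨444, ⟨3, 8, 15, 11⟩⟩) (by decide +kernel)

def tC6A_tmg10 : PosD ⟨⟨0, 1, 1⟩, ⟨98, 99, 147⟩, ⟨7026, 8514, 30000⟩, ⟨1023, 1162, 1000⟩⟩ (tC6A.hTMG false (tC6A.pEnd true)) :=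
  posD_of_check (c := ⟨401, ⟨2, 7, 14, 10⟩⟩) (by decide +kernel)

def tC6A_tg11 : PosD ⟨⟨0, 1, 1⟩, ⟨98, 99, 147⟩, ⟨7026, 8514, 30000⟩, ⟨1023, 1162, 1000⟩⟩ (tC6A.hG true (tC6A.pEnd true)) :=
  posD_of_check (c := ⟨387, ⟨2, 7, 14, 9⟩⟩) (by decide +kernel)

def tC6A_c2p11 : PosD ⟨⟨0, 1, 1⟩, ⟨98, 99, 147⟩, ⟨7026, 8514, 30000⟩, ⟨1023, 1162, 1000⟩⟩ (tC6A.hC2p true (tC6A.pEnd true)) :=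
  posD_of_check (c := ⟨457, ⟨3, 8, 16, 11⟩⟩) (by decide +kernel)

def tC6A_c2m11 : PosD ⟨⟨0, 1, 1⟩, ⟨98, 99, 147⟩, ⟨7026, 8514, 30000⟩, ⟨1023, 1162, 1000⟩⟩ (tC6A.hC2m true (tC6A.pEnd true)) :=
  posD_of_check (c := ⟨457, ⟨3, 8, 16, 11⟩⟩) (by decide +kernel)

def tC6A_c3p11 : PosD ⟨⟨0, 1, 1⟩, ⟨98, 99, 147⟩, ⟨7026, 8514, 30000⟩, ⟨1023, 1162, 1000⟩⟩ (tC6A.hC3p true true) :=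
  posD_of_check (c := ⟨444, ⟨3, 8, 15, 11⟩⟩) (by decide +kernel)

def tC6A_c3m11 : PosD ⟨⟨0, 1, 1⟩, ⟨98, 99, 147⟩, ⟨7026, 8514, 30000⟩, ⟨1023, 1162, 1000⟩⟩ (tC6A.hC3m true true) :=
  posD_of_check (c := ⟨444, ⟨3, 8, 15, 11⟩⟩) (by decide +kernel)

def tC6A_tmg11 : PosD ⟨⟨0, 1, 1⟩, ⟨98, 99, 147⟩, ⟨7026, 8514, 30000⟩, ⟨1023, 1162, 1000⟩⟩ (tC6A.hTMG true (tC6A.pEnd true)) :=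
  posD_of_check (c := ⟨401, ⟨2, 7, 14, 10⟩⟩) (by decide +kernel)

/-- The signs of the piece. -/
def tC6A_sign : tC6A.Sign ⟨⟨0, 1, 1⟩, ⟨98, 99, 147⟩, ⟨7026, 8514, 30000⟩, ⟨1023, 1162, 1000⟩⟩ :=
  ⟨tC6A_pp,
    tC6A_k2p,
    tC6A_k2m,
    Bool.forall_bool.2 ⟨(Bool.forall_bool.2 ⟨tC6A_tg00, tC6A_tg01⟩), (Bool.forall_bool.2 ⟨tC6A_tg10, tC6A_tg11⟩)⟩,
    Bool.forall_bool.2 ⟨(Bool.forall_bool.2 ⟨tC6A_c2p00, tC6A_c2p01⟩), (Bool.forall_bool.2 ⟨tC6A_c2p10, tC6A_c2p11⟩)⟩,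
    Bool.forall_bool.2 ⟨(Bool.forall_bool.2 ⟨tC6A_c2m00, tC6A_c2m01⟩), (Bool.forall_bool.2 ⟨tC6A_c2m10, tC6A_c2m11⟩)⟩,
    Bool.forall_bool.2 ⟨tC6A_kap0, tC6A_kap1⟩,
    Bool.forall_bool.2 ⟨tC6A_c10, tC6A_c11⟩,
    Bool.forall_bool.2 ⟨(Bool.forall_bool.2 ⟨tC6A_c3p00, tC6A_c3p01⟩), (Bool.forall_bool.2 ⟨tC6A_c3p10, tC6A_c3p11⟩)⟩,
    Bool.forall_bool.2 ⟨(Bool.forall_bool.2 ⟨tC6A_c3m00, tC6A_c3m01⟩), (Bool.forall_bool.2 ⟨tC6A_c3m10, tC6A_c3m11⟩)⟩,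
    Bool.forall_bool.2 ⟨(Bool.forall_bool.2 ⟨tC6A_tmg00, tC6A_tmg01⟩), (Bool.forall_bool.2 ⟨tC6A_tmg10, tC6A_tmg11⟩)⟩,
    .inl (Bool.forall_bool.2 ⟨⟨tC6A_neg0, tC6A_neglo0⟩, ⟨tC6A_neg1, tC6A_neglo1⟩⟩),
    tC6A_v2p,
    tC6A_v2m,
    tC6A_v3p,
    tC6A_v3m,
    posD_sub (b := ⟨⟨0, 1, 1⟩, ⟨98, 99, 147⟩, ⟨4050, 10000, 30000⟩, ⟨290, 4000, 1000⟩⟩) (by decide +kernel) tC_vG,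
    posD_sub (b := ⟨⟨0, 1, 1⟩, ⟨98, 99, 147⟩, ⟨4050, 10000, 30000⟩, ⟨290, 4000, 1000⟩⟩) (by decide +kernel) tC_vMG,
    posD_sub (b := ⟨⟨0, 1, 1⟩, ⟨98, 99, 147⟩, ⟨4050, 10000, 30000⟩, ⟨290, 4000, 1000⟩⟩) (by decide +kernel) tC_ak,
    posD_sub (b := ⟨⟨0, 1, 1⟩, ⟨98, 99, 147⟩, ⟨4050, 10000, 30000⟩, ⟨290, 4000, 1000⟩⟩) (by decide +kernel) tC_aw,
    posD_sub (b := ⟨⟨0, 1, 1⟩, ⟨98, 99, 147⟩, ⟨4050, 10000, 30000⟩, ⟨290, 4000, 1000⟩⟩) (by decide +kernel) tC_gk,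
    posD_sub (b := ⟨⟨0, 1, 1⟩, ⟨98, 99, 147⟩, ⟨4050, 10000, 30000⟩, ⟨290, 4000, 1000⟩⟩) (by decide +kernel) tC_gw,
    posD_sub (b := ⟨⟨0, 1, 1⟩, ⟨98, 99, 147⟩, ⟨4050, 10000, 30000⟩, ⟨290, 4000, 1000⟩⟩) (by decide +kernel) tC_ek,
    posD_sub (b := ⟨⟨0, 1, 1⟩, ⟨98, 99, 147⟩, ⟨4050, 10000, 30000⟩, ⟨290, 4000, 1000⟩⟩) (by decide +kernel) tC_ew⟩

def tC6B_pp : PosD ⟨⟨0, 1, 1⟩, ⟨98, 99, 147⟩, ⟨7026, 8514, 30000⟩, ⟨1023, 1162, 1000⟩⟩ (tC6B.xPL) :=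
  posD_of_check (c := ⟨97, ⟨1, 1, 3, 3⟩⟩) (by decide +kernel)

def tC6B_k2p : PosD ⟨⟨0, 1, 1⟩, ⟨98, 99, 147⟩, ⟨7026, 8514, 30000⟩, ⟨1023, 1162, 1000⟩⟩ (tC6B.k2p tC6B.xE) :=
  posD_of_check (c := ⟨69, ⟨1, 1, 2, 2⟩⟩) (by decide +kernel)

def tC6B_k2m : PosD ⟨⟨0, 1, 1⟩, ⟨98, 99, 147⟩, ⟨7026, 8514, 30000⟩, ⟨1023, 1162, 1000⟩⟩ (tC6B.k2m tC6B.xE) :=
  posD_of_check (c := ⟨29, ⟨0, 0, 1, 1⟩⟩) (by decide +kernel)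

def tC6B_v2p : PosD ⟨⟨0, 1, 1⟩, ⟨98, 99, 147⟩, ⟨7026, 8514, 30000⟩, ⟨1023, 1162, 1000⟩⟩ (tC6B.hV2p) :=
  posD_of_check (c := ⟨270, ⟨1, 6, 10, 5⟩⟩) (by decide +kernel)

def tC6B_v2m : PosD ⟨⟨0, 1, 1⟩, ⟨98, 99, 147⟩, ⟨7026, 8514, 30000⟩, ⟨1023, 1162, 1000⟩⟩ (tC6B.hV2m) :=
  posD_of_check (c := ⟨243, ⟨0, 5, 10, 4⟩⟩) (by decide +kernel)

def tC6B_v3p : PosD ⟨⟨0, 1, 1⟩, ⟨98, 99, 147⟩, ⟨7026, 8514, 30000⟩, ⟨1023, 1162, 1000⟩⟩ (tC6B.hV3p) :=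
  posD_of_check (c := ⟨256, ⟨1, 6, 9, 5⟩⟩) (by decide +kernel)

def tC6B_v3m : PosD ⟨⟨0, 1, 1⟩, ⟨98, 99, 147⟩, ⟨7026, 8514, 30000⟩, ⟨1023, 1162, 1000⟩⟩ (tC6B.hV3m) :=
  posD_of_check (c := ⟨231, ⟨0, 5, 9, 4⟩⟩) (by decide +kernel)

def tC6B_kap0 : PosD ⟨⟨0, 1, 1⟩, ⟨98, 99, 147⟩, ⟨7026, 8514, 30000⟩, ⟨1023, 1162, 1000⟩⟩ (tC6B.kap false) :=
  posD_of_check (c := ⟨68, ⟨1, 1, 2, 2⟩⟩) (by decide +kernel)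

def tC6B_c10 : PosD ⟨⟨0, 1, 1⟩, ⟨98, 99, 147⟩, ⟨7026, 8514, 30000⟩, ⟨1023, 1162, 1000⟩⟩ (tC6B.hC1 false) :=
  posD_of_check (c := ⟨273, ⟨3, 5, 9, 7⟩⟩) (by decide +kernel)

def tC6B_neg0 : PosD ⟨⟨0, 1, 1⟩, ⟨98, 99, 147⟩, ⟨7026, 8514, 30000⟩, ⟨1023, 1162, 1000⟩⟩ (tC6B.hNeg (tC6B.pEnd false)) :=
  posD_of_check (c := ⟨270, ⟨2, 5, 9, 7⟩⟩) (by decide +kernel)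

def tC6B_neglo0 : PosD ⟨⟨0, 1, 1⟩, ⟨98, 99, 147⟩, ⟨7026, 8514, 30000⟩, ⟨1023, 1162, 1000⟩⟩ (tC6B.hNegLo (tC6B.pEnd false)) :=
  posD_of_check (c := ⟨270, ⟨2, 5, 9, 7⟩⟩) (by decide +kernel)

def tC6B_tg00 : PosD ⟨⟨0, 1, 1⟩, ⟨98, 99, 147⟩, ⟨7026, 8514, 30000⟩, ⟨1023, 1162, 1000⟩⟩ (tC6B.hG false (tC6B.pEnd false)) :=
  posD_of_check (c := ⟨391, ⟨2, 7, 14, 9⟩⟩) (by decide +kernel)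

def tC6B_c2p00 : PosD ⟨⟨0, 1, 1⟩, ⟨98, 99, 147⟩, ⟨7026, 8514, 30000⟩, ⟨1023, 1162, 1000⟩⟩ (tC6B.hC2p false (tC6B.pEnd false)) :=
  posD_of_check (c := ⟨460, ⟨3, 8, 16, 11⟩⟩) (by decide +kernel)

def tC6B_c2m00 : PosD ⟨⟨0, 1, 1⟩, ⟨98, 99, 147⟩, ⟨7026, 8514, 30000⟩, ⟨1023, 1162, 1000⟩⟩ (tC6B.hC2m false (tC6B.pEnd false)) :=
  posD_of_check (c := ⟨433, ⟨2, 7, 16, 10⟩⟩) (by decide +kernel)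

def tC6B_c3p00 : PosD ⟨⟨0, 1, 1⟩, ⟨98, 99, 147⟩, ⟨7026, 8514, 30000⟩, ⟨1023, 1162, 1000⟩⟩ (tC6B.hC3p false false) :=
  posD_of_check (c := ⟨446, ⟨3, 8, 15, 11⟩⟩) (by decide +kernel)

def tC6B_c3m00 : PosD ⟨⟨0, 1, 1⟩, ⟨98, 99, 147⟩, ⟨7026, 8514, 30000⟩, ⟨1023, 1162, 1000⟩⟩ (tC6B.hC3m false false) :=
  posD_of_check (c := ⟨422, ⟨3, 7, 15, 10⟩⟩) (by decide +kernel)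

def tC6B_tmg00 : PosD ⟨⟨0, 1, 1⟩, ⟨98, 99, 147⟩, ⟨7026, 8514, 30000⟩, ⟨1023, 1162, 1000⟩⟩ (tC6B.hTMG false (tC6B.pEnd false)) :=
  posD_of_check (c := ⟨404, ⟨2, 7, 14, 10⟩⟩) (by decide +kernel)

def tC6B_tg01 : PosD ⟨⟨0, 1, 1⟩, ⟨98, 99, 147⟩, ⟨7026, 8514, 30000⟩, ⟨1023, 1162, 1000⟩⟩ (tC6B.hG true (tC6B.pEnd false)) :=
  posD_of_check (c := ⟨391, ⟨2, 7, 14, 9⟩⟩) (by decide +kernel)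

def tC6B_c2p01 : PosD ⟨⟨0, 1, 1⟩, ⟨98, 99, 147⟩, ⟨7026, 8514, 30000⟩, ⟨1023, 1162, 1000⟩⟩ (tC6B.hC2p true (tC6B.pEnd false)) :=
  posD_of_check (c := ⟨460, ⟨3, 8, 16, 11⟩⟩) (by decide +kernel)

def tC6B_c2m01 : PosD ⟨⟨0, 1, 1⟩, ⟨98, 99, 147⟩, ⟨7026, 8514, 30000⟩, ⟨1023, 1162, 1000⟩⟩ (tC6B.hC2m true (tC6B.pEnd false)) :=
  posD_of_check (c := ⟨433, ⟨2, 7, 16, 10⟩⟩) (by decide +kernel)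

def tC6B_c3p01 : PosD ⟨⟨0, 1, 1⟩, ⟨98, 99, 147⟩, ⟨7026, 8514, 30000⟩, ⟨1023, 1162, 1000⟩⟩ (tC6B.hC3p false true) :=
  posD_of_check (c := ⟨446, ⟨3, 8, 15, 11⟩⟩) (by decide +kernel)

def tC6B_c3m01 : PosD ⟨⟨0, 1, 1⟩, ⟨98, 99, 147⟩, ⟨7026, 8514, 30000⟩, ⟨1023, 1162, 1000⟩⟩ (tC6B.hC3m false true) :=
  posD_of_check (c := ⟨422, ⟨3, 7, 15, 10⟩⟩) (by decide +kernel)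

def tC6B_tmg01 : PosD ⟨⟨0, 1, 1⟩, ⟨98, 99, 147⟩, ⟨7026, 8514, 30000⟩, ⟨1023, 1162, 1000⟩⟩ (tC6B.hTMG true (tC6B.pEnd false)) :=
  posD_of_check (c := ⟨404, ⟨2, 7, 14, 10⟩⟩) (by decide +kernel)

def tC6B_kap1 : PosD ⟨⟨0, 1, 1⟩, ⟨98, 99, 147⟩, ⟨7026, 8514, 30000⟩, ⟨1023, 1162, 1000⟩⟩ (tC6B.kap true) :=
  posD_of_check (c := ⟨68, ⟨1, 1, 2, 2⟩⟩) (by decide +kernel)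

def tC6B_c11 : PosD ⟨⟨0, 1, 1⟩, ⟨98, 99, 147⟩, ⟨7026, 8514, 30000⟩, ⟨1023, 1162, 1000⟩⟩ (tC6B.hC1 true) :=
  posD_of_check (c := ⟨269, ⟨3, 5, 9, 7⟩⟩) (by decide +kernel)

def tC6B_neg1 : PosD ⟨⟨0, 1, 1⟩, ⟨98, 99, 147⟩, ⟨7026, 8514, 30000⟩, ⟨1023, 1162, 1000⟩⟩ (tC6B.hNeg (tC6B.pEnd true)) :=
  posD_of_check (c := ⟨266, ⟨2, 5, 9, 7⟩⟩) (by decide +kernel)

def tC6B_neglo1 : PosD ⟨⟨0, 1, 1⟩, ⟨98, 99, 147⟩, ⟨7026, 8514, 30000⟩, ⟨1023, 1162, 1000⟩⟩ (tC6B.hNegLo (tC6B.pEnd true)) :=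
  posD_of_check (c := ⟨266, ⟨2, 5, 9, 7⟩⟩) (by decide +kernel)

def tC6B_tg10 : PosD ⟨⟨0, 1, 1⟩, ⟨98, 99, 147⟩, ⟨7026, 8514, 30000⟩, ⟨1023, 1162, 1000⟩⟩ (tC6B.hG false (tC6B.pEnd true)) :=
  posD_of_check (c := ⟨383, ⟨2, 7, 14, 9⟩⟩) (by decide +kernel)

def tC6B_c2p10 : PosD ⟨⟨0, 1, 1⟩, ⟨98, 99, 147⟩, ⟨7026, 8514, 30000⟩, ⟨1023, 1162, 1000⟩⟩ (tC6B.hC2p false (tC6B.pEnd true)) :=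
  posD_of_check (c := ⟨453, ⟨3, 8, 16, 11⟩⟩) (by decide +kernel)

def tC6B_c2m10 : PosD ⟨⟨0, 1, 1⟩, ⟨98, 99, 147⟩, ⟨7026, 8514, 30000⟩, ⟨1023, 1162, 1000⟩⟩ (tC6B.hC2m false (tC6B.pEnd true)) :=
  posD_of_check (c := ⟨426, ⟨2, 7, 16, 10⟩⟩) (by decide +kernel)

def tC6B_c3p10 : PosD ⟨⟨0, 1, 1⟩, ⟨98, 99, 147⟩, ⟨7026, 8514, 30000⟩, ⟨1023, 1162, 1000⟩⟩ (tC6B.hC3p true false) :=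
  posD_of_check (c := ⟨440, ⟨3, 8, 15, 11⟩⟩) (by decide +kernel)

def tC6B_c3m10 : PosD ⟨⟨0, 1, 1⟩, ⟨98, 99, 147⟩, ⟨7026, 8514, 30000⟩, ⟨1023, 1162, 1000⟩⟩ (tC6B.hC3m true false) :=
  posD_of_check (c := ⟨417, ⟨3, 7, 15, 10⟩⟩) (by decide +kernel)

def tC6B_tmg10 : PosD ⟨⟨0, 1, 1⟩, ⟨98, 99, 147⟩, ⟨7026, 8514, 30000⟩, ⟨1023, 1162, 1000⟩⟩ (tC6B.hTMG false (tC6B.pEnd true)) :=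
  posD_of_check (c := ⟨399, ⟨2, 7, 14, 10⟩⟩) (by decide +kernel)

def tC6B_tg11 : PosD ⟨⟨0, 1, 1⟩, ⟨98, 99, 147⟩, ⟨7026, 8514, 30000⟩, ⟨1023, 1162, 1000⟩⟩ (tC6B.hG true (tC6B.pEnd true)) :=
  posD_of_check (c := ⟨383, ⟨2, 7, 14, 9⟩⟩) (by decide +kernel)

def tC6B_c2p11 : PosD ⟨⟨0, 1, 1⟩, ⟨98, 99, 147⟩, ⟨7026, 8514, 30000⟩, ⟨1023, 1162, 1000⟩⟩ (tC6B.hC2p true (tC6B.pEnd true)) :=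
  posD_of_check (c := ⟨453, ⟨3, 8, 16, 11⟩⟩) (by decide +kernel)

def tC6B_c2m11 : PosD ⟨⟨0, 1, 1⟩, ⟨98, 99, 147⟩, ⟨7026, 8514, 30000⟩, ⟨1023, 1162, 1000⟩⟩ (tC6B.hC2m true (tC6B.pEnd true)) :=
  posD_of_check (c := ⟨426, ⟨2, 7, 16, 10⟩⟩) (by decide +kernel)

def tC6B_c3p11 : PosD ⟨⟨0, 1, 1⟩, ⟨98, 99, 147⟩, ⟨7026, 8514, 30000⟩, ⟨1023, 1162, 1000⟩⟩ (tC6B.hC3p true true) :=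
  posD_of_check (c := ⟨440, ⟨3, 8, 15, 11⟩⟩) (by decide +kernel)

def tC6B_c3m11 : PosD ⟨⟨0, 1, 1⟩, ⟨98, 99, 147⟩, ⟨7026, 8514, 30000⟩, ⟨1023, 1162, 1000⟩⟩ (tC6B.hC3m true true) :=
  posD_of_check (c := ⟨417, ⟨3, 7, 15, 10⟩⟩) (by decide +kernel)

def tC6B_tmg11 : PosD ⟨⟨0, 1, 1⟩, ⟨98, 99, 147⟩, ⟨7026, 8514, 30000⟩, ⟨1023, 1162, 1000⟩⟩ (tC6B.hTMG true (tC6B.pEnd true)) :=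
  posD_of_check (c := ⟨399, ⟨2, 7, 14, 10⟩⟩) (by decide +kernel)

/-- The signs of the piece. -/
def tC6B_sign : tC6B.Sign ⟨⟨0, 1, 1⟩, ⟨98, 99, 147⟩, ⟨7026, 8514, 30000⟩, ⟨1023, 1162, 1000⟩⟩ :=
  ⟨tC6B_pp,
    tC6B_k2p,
    tC6B_k2m,
    Bool.forall_bool.2 ⟨(Bool.forall_bool.2 ⟨tC6B_tg00, tC6B_tg01⟩), (Bool.forall_bool.2 ⟨tC6B_tg10, tC6B_tg11⟩)⟩,
    Bool.forall_bool.2 ⟨(Bool.forall_bool.2 ⟨tC6B_c2p00, tC6B_c2p01⟩), (Bool.forall_bool.2 ⟨tC6B_c2p10, tC6B_c2p11⟩)⟩,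
    Bool.forall_bool.2 ⟨(Bool.forall_bool.2 ⟨tC6B_c2m00, tC6B_c2m01⟩), (Bool.forall_bool.2 ⟨tC6B_c2m10, tC6B_c2m11⟩)⟩,
    Bool.forall_bool.2 ⟨tC6B_kap0, tC6B_kap1⟩,
    Bool.forall_bool.2 ⟨tC6B_c10, tC6B_c11⟩,
    Bool.forall_bool.2 ⟨(Bool.forall_bool.2 ⟨tC6B_c3p00, tC6B_c3p01⟩), (Bool.forall_bool.2 ⟨tC6B_c3p10, tC6B_c3p11⟩)⟩,
    Bool.forall_bool.2 ⟨(Bool.forall_bool.2 ⟨tC6B_c3m00, tC6B_c3m01⟩), (Bool.forall_bool.2 ⟨tC6B_c3m10, tC6B_c3m11⟩)⟩,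
    Bool.forall_bool.2 ⟨(Bool.forall_bool.2 ⟨tC6B_tmg00, tC6B_tmg01⟩), (Bool.forall_bool.2 ⟨tC6B_tmg10, tC6B_tmg11⟩)⟩,
    .inl (Bool.forall_bool.2 ⟨⟨tC6B_neg0, tC6B_neglo0⟩, ⟨tC6B_neg1, tC6B_neglo1⟩⟩),
    tC6B_v2p,
    tC6B_v2m,
    tC6B_v3p,
    tC6B_v3m,
    posD_sub (b := ⟨⟨0, 1, 1⟩, ⟨98, 99, 147⟩, ⟨4050, 10000, 30000⟩, ⟨290, 4000, 1000⟩⟩) (by decide +kernel) tC_vG,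
    posD_sub (b := ⟨⟨0, 1, 1⟩, ⟨98, 99, 147⟩, ⟨4050, 10000, 30000⟩, ⟨290, 4000, 1000⟩⟩) (by decide +kernel) tC_vMG,
    posD_sub (b := ⟨⟨0, 1, 1⟩, ⟨98, 99, 147⟩, ⟨4050, 10000, 30000⟩, ⟨290, 4000, 1000⟩⟩) (by decide +kernel) tC_ak,
    posD_sub (b := ⟨⟨0, 1, 1⟩, ⟨98, 99, 147⟩, ⟨4050, 10000, 30000⟩, ⟨290, 4000, 1000⟩⟩) (by decide +kernel) tC_aw,
    posD_sub (b := ⟨⟨0, 1, 1⟩, ⟨98, 99, 147⟩, ⟨4050, 10000, 30000⟩, ⟨290, 4000, 1000⟩⟩) (by decide +kernel) tC_gk,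
    posD_sub (b := ⟨⟨0, 1, 1⟩, ⟨98, 99, 147⟩, ⟨4050, 10000, 30000⟩, ⟨290, 4000, 1000⟩⟩) (by decide +kernel) tC_gw,
    posD_sub (b := ⟨⟨0, 1, 1⟩, ⟨98, 99, 147⟩, ⟨4050, 10000, 30000⟩, ⟨290, 4000, 1000⟩⟩) (by decide +kernel) tC_ek,
    posD_sub (b := ⟨⟨0, 1, 1⟩, ⟨98, 99, 147⟩, ⟨4050, 10000, 30000⟩, ⟨290, 4000, 1000⟩⟩) (by decide +kernel) tC_ew⟩

def tC7_phx : PosD ⟨⟨0, 1, 1⟩, ⟨98, 99, 147⟩, ⟨8514, 10000, 30000⟩, ⟨1023, 1162, 1000⟩⟩ (phCn (tC7Hi + xO * (tC7Lo - tC7Hi))) :=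
  posD_of_check (c := ⟨66, ⟨2, 0, 2, 1⟩⟩) (by decide +kernel)

def tC7_phd : PosD ⟨⟨0, 1, 1⟩, ⟨98, 99, 147⟩, ⟨8514, 10000, 30000⟩, ⟨1023, 1162, 1000⟩⟩ (phCd (tC7Hi + xO * (tC7Lo - tC7Hi))) :=
  posD_of_check (c := ⟨50, ⟨1, 0, 2, 0⟩⟩) (by decide +kernel)

def tC8_phx : PosD ⟨⟨0, 1, 1⟩, ⟨98, 99, 147⟩, ⟨4050, 10000, 30000⟩, ⟨1162, 1500, 1000⟩⟩ (phCn (tC8Hi + xO * (tC8Lo - tC8Hi))) :=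
  posD_of_check (c := ⟨65, ⟨2, 0, 2, 1⟩⟩) (by decide +kernel)

def tC8_phd : PosD ⟨⟨0, 1, 1⟩, ⟨98, 99, 147⟩, ⟨4050, 10000, 30000⟩, ⟨1162, 1500, 1000⟩⟩ (phCd (tC8Hi + xO * (tC8Lo - tC8Hi))) :=
  posD_of_check (c := ⟨50, ⟨1, 0, 2, 0⟩⟩) (by decide +kernel)

def tC9_p0a : PosD ⟨⟨0, 1, 1⟩, ⟨98, 99, 147⟩, ⟨4050, 7025, 30000⟩, ⟨290, 417, 1000⟩⟩ (tC9.hP0) :=
  posD_of_check (c := ⟨83, ⟨0, 2, 3, 1⟩⟩) (by decide +kernel)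

def tC9_p0b : PosD ⟨⟨0, 1, 1⟩, ⟨98, 99, 147⟩, ⟨7025, 10000, 30000⟩, ⟨290, 417, 1000⟩⟩ (tC9.hP0) :=
  posD_of_check (c := ⟨83, ⟨0, 2, 3, 1⟩⟩) (by decide +kernel)

def tC9_p0 : PosD ⟨⟨0, 1, 1⟩, ⟨98, 99, 147⟩, ⟨4050, 10000, 30000⟩, ⟨290, 417, 1000⟩⟩ (tC9.hP0) :=
  posD_join₂ tC9_p0a tC9_p0b

def tC9_gn : PosD ⟨⟨0, 1, 1⟩, ⟨98, 99, 147⟩, ⟨4050, 10000, 30000⟩, ⟨290, 417, 1000⟩⟩ (tC9.hGn) :=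
  posD_of_check (c := ⟨57, ⟨1, 1, 2, 1⟩⟩) (by decide +kernel)

def tC9_den0 : PosD ⟨⟨0, 1, 1⟩, ⟨98, 99, 147⟩, ⟨4050, 10000, 30000⟩, ⟨290, 417, 1000⟩⟩ (tC9.hDen false) :=
  posD_of_check (c := ⟨50, ⟨1, 0, 2, 0⟩⟩) (by decide +kernel)

def tC9_den1 : PosD ⟨⟨0, 1, 1⟩, ⟨98, 99, 147⟩, ⟨4050, 10000, 30000⟩, ⟨290, 417, 1000⟩⟩ (tC9.hDen true) :=
  posD_of_check (c := ⟨50, ⟨1, 0, 2, 0⟩⟩) (by decide +kernel)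

def tC9_none0 : PosD ⟨⟨0, 1, 1⟩, ⟨98, 99, 147⟩, ⟨4050, 10000, 30000⟩, ⟨290, 417, 1000⟩⟩ (tC9.hNone false) :=
  posD_of_check (c := ⟨250, ⟨5, 6, 7, 3⟩⟩) (by decide +kernel)

def tC9_none1 : PosD ⟨⟨0, 1, 1⟩, ⟨98, 99, 147⟩, ⟨4050, 10000, 30000⟩, ⟨290, 417, 1000⟩⟩ (tC9.hNone true) :=
  posD_of_check (c := ⟨251, ⟨5, 6, 7, 3⟩⟩) (by decide +kernel)

def tC9_mupU : PosD ⟨⟨0, 1, 1⟩, ⟨98, 99, 147⟩, ⟨4050, 10000, 30000⟩, ⟨290, 417, 1000⟩⟩ (tC9.pU.μ) :=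
  posD_of_check (c := ⟨16, ⟨0, 0, 0, 0⟩⟩) (by decide +kernel)

def tC9_nupU : PosD ⟨⟨0, 1, 1⟩, ⟨98, 99, 147⟩, ⟨4050, 10000, 30000⟩, ⟨290, 417, 1000⟩⟩ (tC9.pU.ν) :=
  posD_of_check (c := ⟨45, ⟨0, 0, 1, 1⟩⟩) (by decide +kernel)

/-- No point in the piece. -/
def tC9_empty : tC9.Empty ⟨⟨0, 1, 1⟩, ⟨98, 99, 147⟩, ⟨4050, 10000, 30000⟩, ⟨290, 417, 1000⟩⟩ :=
  ⟨tC9_p0, Bool.forall_bool.2 ⟨tC9_den0, tC9_den1⟩, tC9_gn, ⟨.inl tC9_mupU, .inl tC9_nupU⟩, Bool.forall_bool.2 ⟨tC9_none0, tC9_none1⟩⟩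

end Vale.Agent.P100.Calib.Closed.Six.Tail
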