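import Vale.Agent.P100.Calib.SlabSixTailDataC
import Vale.Agent.P100.Calib.SlabSixTailGlobC

/-!
# Checks of some pieces of the certificate

The checks are written as definitions so that they run one after another, which keeps the memory of the
kernel low.
-/

set_option linter.defProp false

namespace Vale.Agent.P100.Calib.Closed.Six.Tail

open BoxPos Large

local instance sixTailCheckstC23Add : Add Ex := ⟨Ex.add⟩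
local instance sixTailCheckstC23Sub : Sub Ex := ⟨Ex.sub⟩
local instance sixTailCheckstC23Mul : Mul Ex := ⟨Ex.mul⟩

def tC34_phx : PosIf ⟨⟨0, 1, 1⟩, ⟨98, 99, 147⟩, ⟨4050, 5538, 30000⟩, ⟨1346, 1599, 1000⟩⟩ (tC34.u₁ - tC34Lo) (phCn (tC34.u₁ + xO * (tC34Lo - tC34.u₁))) :=
  posIf_of_posD (posD_of_check (c := ⟨108, ⟨2, 0, 4, 2⟩⟩) (by decide +kernel))

def tC34_phd : PosD ⟨⟨0, 1, 1⟩, ⟨98, 99, 147⟩, ⟨4050, 5538, 30000⟩, ⟨1346, 1599, 1000⟩⟩ (phCd (tC34.u₁ + xO * (tC34Lo - tC34.u₁))) :=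
  posD_of_check (c := ⟨51, ⟨1, 0, 2, 1⟩⟩) (by decide +kernel)

def tC34_p0 : PosD ⟨⟨0, 1, 1⟩, ⟨98, 99, 147⟩, ⟨4050, 5538, 30000⟩, ⟨1346, 1599, 1000⟩⟩ (tC34.hP0) :=
  posD_of_check (c := ⟨83, ⟨0, 2, 3, 1⟩⟩) (by decide +kernel)

def tC34_gn : PosD ⟨⟨0, 1, 1⟩, ⟨98, 99, 147⟩, ⟨4050, 5538, 30000⟩, ⟨1346, 1599, 1000⟩⟩ (tC34.hGn) :=
  posD_of_check (c := ⟨69, ⟨1, 1, 2, 2⟩⟩) (by decide +kernel)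

def tC34_den0 : PosD ⟨⟨0, 1, 1⟩, ⟨98, 99, 147⟩, ⟨4050, 5538, 30000⟩, ⟨1346, 1599, 1000⟩⟩ (tC34.hDen false) :=
  posD_of_check (c := ⟨51, ⟨1, 0, 2, 1⟩⟩) (by decide +kernel)

def tC34_den1 : PosD ⟨⟨0, 1, 1⟩, ⟨98, 99, 147⟩, ⟨4050, 5538, 30000⟩, ⟨1346, 1599, 1000⟩⟩ (tC34.hDen true) :=
  posD_of_check (c := ⟨51, ⟨1, 0, 2, 1⟩⟩) (by decide +kernel)

def tC34_ev0 : PosD ⟨⟨0, 1, 1⟩, ⟨98, 99, 147⟩, ⟨4050, 5538, 30000⟩, ⟨1346, 1599, 1000⟩⟩ (tC34.hEv false) :=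
  posD_of_check (c := ⟨218, ⟨4, 2, 8, 4⟩⟩) (by decide +kernel)

def tC34_zL0 : PosD ⟨⟨0, 1, 1⟩, ⟨98, 99, 147⟩, ⟨4050, 5538, 30000⟩, ⟨1346, 1599, 1000⟩⟩ (tC34.hZL false) :=
  posD_of_check (c := ⟨219, ⟨4, 3, 8, 4⟩⟩) (by decide +kernel)

def tC34_zU0 : PosD ⟨⟨0, 1, 1⟩, ⟨98, 99, 147⟩, ⟨4050, 5538, 30000⟩, ⟨1346, 1599, 1000⟩⟩ (tC34.hZU false) :=
  posD_of_check (c := ⟨220, ⟨4, 3, 8, 4⟩⟩) (by decide +kernel)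

def tC34_eL0 : PosD ⟨⟨0, 1, 1⟩, ⟨98, 99, 147⟩, ⟨4050, 5538, 30000⟩, ⟨1346, 1599, 1000⟩⟩ (tC34.hEL false) :=
  posD_of_check (c := ⟨312, ⟨5, 6, 11, 6⟩⟩) (by decide +kernel)

def tC34_eH0 : PosD ⟨⟨0, 1, 1⟩, ⟨98, 99, 147⟩, ⟨4050, 5538, 30000⟩, ⟨1346, 1599, 1000⟩⟩ (tC34.hEH false) :=
  posD_of_check (c := ⟨312, ⟨5, 6, 11, 6⟩⟩) (by decide +kernel)

def tC34_pL0 : PosD ⟨⟨0, 1, 1⟩, ⟨98, 99, 147⟩, ⟨4050, 5538, 30000⟩, ⟨1346, 1599, 1000⟩⟩ (tC34.hPL false) :=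
  posD_of_check (c := ⟨338, ⟨5, 6, 11, 7⟩⟩) (by decide +kernel)

def tC34_pU0 : PosD ⟨⟨0, 1, 1⟩, ⟨98, 99, 147⟩, ⟨4050, 5538, 30000⟩, ⟨1346, 1599, 1000⟩⟩ (tC34.hPU false) :=
  posD_of_check (c := ⟨337, ⟨5, 6, 11, 7⟩⟩) (by decide +kernel)

def tC34_kU0 : PosD ⟨⟨0, 1, 1⟩, ⟨98, 99, 147⟩, ⟨4050, 5538, 30000⟩, ⟨1346, 1599, 1000⟩⟩ (tC34.hKU false) :=
  posD_of_check (c := ⟨334, ⟨5, 6, 11, 7⟩⟩) (by decide +kernel)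

def tC34_kL0 : PosD ⟨⟨0, 1, 1⟩, ⟨98, 99, 147⟩, ⟨4050, 5538, 30000⟩, ⟨1346, 1599, 1000⟩⟩ (tC34.hKL false) :=
  posD_of_check (c := ⟨334, ⟨5, 6, 11, 7⟩⟩) (by decide +kernel)

def tC34_wU0 : PosD ⟨⟨0, 1, 1⟩, ⟨98, 99, 147⟩, ⟨4050, 5538, 30000⟩, ⟨1346, 1599, 1000⟩⟩ (tC34.hWU false) :=
  posD_of_check (c := ⟨369, ⟨5, 8, 12, 7⟩⟩) (by decide +kernel)

def tC34_wL0 : PosD ⟨⟨0, 1, 1⟩, ⟨98, 99, 147⟩, ⟨4050, 5538, 30000⟩, ⟨1346, 1599, 1000⟩⟩ (tC34.hWL false) :=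
  posD_of_check (c := ⟨369, ⟨5, 8, 12, 7⟩⟩) (by decide +kernel)

def tC34_ev1 : PosD ⟨⟨0, 1, 1⟩, ⟨98, 99, 147⟩, ⟨4050, 5538, 30000⟩, ⟨1346, 1599, 1000⟩⟩ (tC34.hEv true) :=
  posD_of_check (c := ⟨216, ⟨4, 2, 8, 4⟩⟩) (by decide +kernel)

def tC34_zL1 : PosD ⟨⟨0, 1, 1⟩, ⟨98, 99, 147⟩, ⟨4050, 5538, 30000⟩, ⟨1346, 1599, 1000⟩⟩ (tC34.hZL true) :=
  posD_of_check (c := ⟨219, ⟨4, 3, 8, 4⟩⟩) (by decide +kernel)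

def tC34_zU1 : PosD ⟨⟨0, 1, 1⟩, ⟨98, 99, 147⟩, ⟨4050, 5538, 30000⟩, ⟨1346, 1599, 1000⟩⟩ (tC34.hZU true) :=
  posD_of_check (c := ⟨219, ⟨4, 3, 8, 4⟩⟩) (by decide +kernel)

def tC34_eL1 : PosD ⟨⟨0, 1, 1⟩, ⟨98, 99, 147⟩, ⟨4050, 5538, 30000⟩, ⟨1346, 1599, 1000⟩⟩ (tC34.hEL true) :=
  posD_of_check (c := ⟨311, ⟨5, 6, 11, 6⟩⟩) (by decide +kernel)

def tC34_eH1 : PosD ⟨⟨0, 1, 1⟩, ⟨98, 99, 147⟩, ⟨4050, 5538, 30000⟩, ⟨1346, 1599, 1000⟩⟩ (tC34.hEH true) :=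
  posD_of_check (c := ⟨311, ⟨5, 6, 11, 6⟩⟩) (by decide +kernel)

def tC34_pL1 : PosD ⟨⟨0, 1, 1⟩, ⟨98, 99, 147⟩, ⟨4050, 5538, 30000⟩, ⟨1346, 1599, 1000⟩⟩ (tC34.hPL true) :=
  posD_of_check (c := ⟨336, ⟨5, 6, 11, 7⟩⟩) (by decide +kernel)

def tC34_pU1 : PosD ⟨⟨0, 1, 1⟩, ⟨98, 99, 147⟩, ⟨4050, 5538, 30000⟩, ⟨1346, 1599, 1000⟩⟩ (tC34.hPU true) :=
  posD_of_check (c := ⟨336, ⟨5, 6, 11, 7⟩⟩) (by decide +kernel)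

def tC34_kU1 : PosD ⟨⟨0, 1, 1⟩, ⟨98, 99, 147⟩, ⟨4050, 5538, 30000⟩, ⟨1346, 1599, 1000⟩⟩ (tC34.hKU true) :=
  posD_of_check (c := ⟨333, ⟨5, 6, 11, 7⟩⟩) (by decide +kernel)

def tC34_kL1 : PosD ⟨⟨0, 1, 1⟩, ⟨98, 99, 147⟩, ⟨4050, 5538, 30000⟩, ⟨1346, 1599, 1000⟩⟩ (tC34.hKL true) :=
  posD_of_check (c := ⟨333, ⟨5, 6, 11, 7⟩⟩) (by decide +kernel)

def tC34_wU1 : PosD ⟨⟨0, 1, 1⟩, ⟨98, 99, 147⟩, ⟨4050, 5538, 30000⟩, ⟨1346, 1599, 1000⟩⟩ (tC34.hWU true) :=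
  posD_of_check (c := ⟨368, ⟨5, 8, 12, 7⟩⟩) (by decide +kernel)

def tC34_wL1 : PosD ⟨⟨0, 1, 1⟩, ⟨98, 99, 147⟩, ⟨4050, 5538, 30000⟩, ⟨1346, 1599, 1000⟩⟩ (tC34.hWL true) :=
  posD_of_check (c := ⟨367, ⟨5, 8, 12, 7⟩⟩) (by decide +kernel)

/-- The bounds of the piece. -/
def tC34_env : tC34.Env ⟨⟨0, 1, 1⟩, ⟨98, 99, 147⟩, ⟨4050, 5538, 30000⟩, ⟨1346, 1599, 1000⟩⟩ :=
  ⟨tC34_p0, Bool.forall_bool.2 ⟨tC34_den0, tC34_den1⟩, tC34_gn, Bool.forall_bool.2 ⟨tC34_ev0, tC34_ev1⟩, Bool.forall_bool.2 ⟨tC34_zL0, tC34_zL1⟩, Bool.forall_bool.2 ⟨tC34_zU0, tC34_zU1⟩, Bool.forall_bool.2 ⟨tC34_eL0, tC34_eL1⟩, ⟨.inr rfl, .inr rfl⟩, Bool.forall_bool.2 ⟨tC34_eH0, tC34_eH1⟩, ⟨.inr rfl, .inr rfl⟩, Bool.forall_bool.2 ⟨tC34_pL0, tC34_pL1⟩, ⟨.inr rfl, .inr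 rfl⟩, Bool.forall_bool.2 ⟨tC34_pU0, tC34_pU1⟩, ⟨.inr rfl, .inr rfl⟩, Bool.forall_bool.2 ⟨tC34_kU0, tC34_kU1⟩, ⟨.inr rfl, .inr rfl⟩, Bool.forall_bool.2 ⟨tC34_kL0, tC34_kL1⟩, ⟨.inr rfl, .inr rfl⟩, Bool.forall_bool.2 ⟨tC34_wU0, tC34_wU1⟩, ⟨.inr rfl, .inr rfl⟩, Bool.forall_bool.2 ⟨tC34_wL0, tC34_wL1⟩, ⟨.inr rfl, .inr rfl⟩⟩

def tC34_pp : PosD ⟨⟨0, 1, 1⟩, ⟨98, 99, 147⟩, ⟨4050, 5538, 30000⟩, ⟨1346, 1599, 1000⟩⟩ (tC34.xPL) :=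
  posD_of_check (c := ⟨95, ⟨1, 1, 3, 3⟩⟩) (by decide +kernel)

def tC34_k2p : PosD ⟨⟨0, 1, 1⟩, ⟨98, 99, 147⟩, ⟨4050, 5538, 30000⟩, ⟨1346, 1599, 1000⟩⟩ (tC34.k2p tC34.xE) :=
  posD_of_check (c := ⟨67, ⟨1, 1, 2, 2⟩⟩) (by decide +kernel)

def tC34_k2m : PosD ⟨⟨0, 1, 1⟩, ⟨98, 99, 147⟩, ⟨4050, 5538, 30000⟩, ⟨1346, 1599, 1000⟩⟩ (tC34.k2m tC34.xE) :=
  posD_of_check (c := ⟨66, ⟨1, 1, 2, 2⟩⟩) (by decide +kernel)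

def tC34_v2p : PosD ⟨⟨0, 1, 1⟩, ⟨98, 99, 147⟩, ⟨4050, 5538, 30000⟩, ⟨1346, 1599, 1000⟩⟩ (tC34.hV2p) :=
  posD_of_check (c := ⟨267, ⟨1, 6, 10, 5⟩⟩) (by decide +kernel)

def tC34_v2m : PosD ⟨⟨0, 1, 1⟩, ⟨98, 99, 147⟩, ⟨4050, 5538, 30000⟩, ⟨1346, 1599, 1000⟩⟩ (tC34.hV2m) :=
  posD_of_check (c := ⟨267, ⟨1, 6, 10, 5⟩⟩) (by decide +kernel)

def tC34_v3p : PosD ⟨⟨0, 1, 1⟩, ⟨98, 99, 147⟩, ⟨4050, 5538, 30000⟩, ⟨1346, 1599, 1000⟩⟩ (tC34.hV3p) :=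
  posD_of_check (c := ⟨254, ⟨1, 6, 9, 5⟩⟩) (by decide +kernel)

def tC34_v3m : PosD ⟨⟨0, 1, 1⟩, ⟨98, 99, 147⟩, ⟨4050, 5538, 30000⟩, ⟨1346, 1599, 1000⟩⟩ (tC34.hV3m) :=
  posD_of_check (c := ⟨254, ⟨1, 6, 9, 5⟩⟩) (by decide +kernel)

def tC34_kap0 : PosD ⟨⟨0, 1, 1⟩, ⟨98, 99, 147⟩, ⟨4050, 5538, 30000⟩, ⟨1346, 1599, 1000⟩⟩ (tC34.kap false) :=
  posD_of_check (c := ⟨68, ⟨1, 1, 2, 2⟩⟩) (by decide +kernel)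

def tC34_c10 : PosD ⟨⟨0, 1, 1⟩, ⟨98, 99, 147⟩, ⟨4050, 5538, 30000⟩, ⟨1346, 1599, 1000⟩⟩ (tC34.hC1 false) :=
  posD_of_check (c := ⟨271, ⟨3, 5, 9, 7⟩⟩) (by decide +kernel)

def tC34_c1h0 : PosD ⟨⟨0, 1, 1⟩, ⟨98, 99, 147⟩, ⟨4050, 5538, 30000⟩, ⟨1346, 1599, 1000⟩⟩ (tC34.hC1' false) :=
  posD_of_check (c := ⟨271, ⟨3, 5, 9, 7⟩⟩) (by decide +kernel)

def tC34_tg00 : PosD ⟨⟨0, 1, 1⟩, ⟨98, 99, 147⟩, ⟨4050, 5538, 30000⟩, ⟨1346, 1599, 1000⟩⟩ (tC34.hG false (tC34.pEnd false)) :=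
  posD_of_check (c := ⟨385, ⟨2, 7, 14, 9⟩⟩) (by decide +kernel)

def tC34_c2p00 : PosD ⟨⟨0, 1, 1⟩, ⟨98, 99, 147⟩, ⟨4050, 5538, 30000⟩, ⟨1346, 1599, 1000⟩⟩ (tC34.hC2p false (tC34.pEnd false)) :=
  posD_of_check (c := ⟨452, ⟨3, 8, 16, 11⟩⟩) (by decide +kernel)

def tC34_c2m00 : PosD ⟨⟨0, 1, 1⟩, ⟨98, 99, 147⟩, ⟨4050, 5538, 30000⟩, ⟨1346, 1599, 1000⟩⟩ (tC34.hC2m false (tC34.pEnd false)) :=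
  posD_of_check (c := ⟨452, ⟨3, 8, 16, 11⟩⟩) (by decide +kernel)

def tC34_c3p00 : PosD ⟨⟨0, 1, 1⟩, ⟨98, 99, 147⟩, ⟨4050, 5538, 30000⟩, ⟨1346, 1599, 1000⟩⟩ (tC34.hC3p false false) :=
  posD_of_check (c := ⟨441, ⟨3, 8, 15, 11⟩⟩) (by decide +kernel)

def tC34_c3m00 : PosD ⟨⟨0, 1, 1⟩, ⟨98, 99, 147⟩, ⟨4050, 5538, 30000⟩, ⟨1346, 1599, 1000⟩⟩ (tC34.hC3m false false) :=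
  posD_of_check (c := ⟨441, ⟨3, 8, 15, 11⟩⟩) (by decide +kernel)

def tC34_c3ph00 : PosD ⟨⟨0, 1, 1⟩, ⟨98, 99, 147⟩, ⟨4050, 5538, 30000⟩, ⟨1346, 1599, 1000⟩⟩ (tC34.hC3p' false false) :=
  posD_of_check (c := ⟨441, ⟨3, 8, 15, 11⟩⟩) (by decide +kernel)

def tC34_c3mh00 : PosD ⟨⟨0, 1, 1⟩, ⟨98, 99, 147⟩, ⟨4050, 5538, 30000⟩, ⟨1346, 1599, 1000⟩⟩ (tC34.hC3m' false false) :=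
  posD_of_check (c := ⟨441, ⟨3, 8, 15, 11⟩⟩) (by decide +kernel)

def tC34_up00 : PosD ⟨⟨0, 1, 1⟩, ⟨98, 99, 147⟩, ⟨4050, 5538, 30000⟩, ⟨1346, 1599, 1000⟩⟩ (tC34.hUp false false) :=
  posD_of_check (c := ⟨440, ⟨3, 8, 15, 11⟩⟩) (by decide +kernel)

def tC34_um00 : PosD ⟨⟨0, 1, 1⟩, ⟨98, 99, 147⟩, ⟨4050, 5538, 30000⟩, ⟨1346, 1599, 1000⟩⟩ (tC34.hUm false false) :=
  posD_of_check (c := ⟨440, ⟨3, 8, 15, 11⟩⟩) (by decide +kernel)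

def tC34_tmg00 : PosD ⟨⟨0, 1, 1⟩, ⟨98, 99, 147⟩, ⟨4050, 5538, 30000⟩, ⟨1346, 1599, 1000⟩⟩ (tC34.hTMG false (tC34.pEnd false)) :=
  posD_of_check (c := ⟨399, ⟨2, 7, 14, 10⟩⟩) (by decide +kernel)

def tC34_tg01 : PosD ⟨⟨0, 1, 1⟩, ⟨98, 99, 147⟩, ⟨4050, 5538, 30000⟩, ⟨1346, 1599, 1000⟩⟩ (tC34.hG true (tC34.pEnd false)) :=
  posD_of_check (c := ⟨385, ⟨2, 7, 14, 9⟩⟩) (by decide +kernel)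

def tC34_c2p01 : PosD ⟨⟨0, 1, 1⟩, ⟨98, 99, 147⟩, ⟨4050, 5538, 30000⟩, ⟨1346, 1599, 1000⟩⟩ (tC34.hC2p true (tC34.pEnd false)) :=
  posD_of_check (c := ⟨452, ⟨3, 8, 16, 11⟩⟩) (by decide +kernel)

def tC34_c2m01 : PosD ⟨⟨0, 1, 1⟩, ⟨98, 99, 147⟩, ⟨4050, 5538, 30000⟩, ⟨1346, 1599, 1000⟩⟩ (tC34.hC2m true (tC34.pEnd false)) :=
  posD_of_check (c := ⟨452, ⟨3, 8, 16, 11⟩⟩) (by decide +kernel)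

def tC34_c3p01 : PosD ⟨⟨0, 1, 1⟩, ⟨98, 99, 147⟩, ⟨4050, 5538, 30000⟩, ⟨1346, 1599, 1000⟩⟩ (tC34.hC3p false true) :=
  posD_of_check (c := ⟨441, ⟨3, 8, 15, 11⟩⟩) (by decide +kernel)

def tC34_c3m01 : PosD ⟨⟨0, 1, 1⟩, ⟨98, 99, 147⟩, ⟨4050, 5538, 30000⟩, ⟨1346, 1599, 1000⟩⟩ (tC34.hC3m false true) :=
  posD_of_check (c := ⟨441, ⟨3, 8, 15, 11⟩⟩) (by decide +kernel)

def tC34_c3ph01 : PosD ⟨⟨0, 1, 1⟩, ⟨98, 99, 147⟩, ⟨4050, 5538, 30000⟩, ⟨1346, 1599, 1000⟩⟩ (tC34.hC3p' false true) :=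
  posD_of_check (c := ⟨441, ⟨3, 8, 15, 11⟩⟩) (by decide +kernel)

def tC34_c3mh01 : PosD ⟨⟨0, 1, 1⟩, ⟨98, 99, 147⟩, ⟨4050, 5538, 30000⟩, ⟨1346, 1599, 1000⟩⟩ (tC34.hC3m' false true) :=
  posD_of_check (c := ⟨441, ⟨3, 8, 15, 11⟩⟩) (by decide +kernel)

def tC34_up01 : PosD ⟨⟨0, 1, 1⟩, ⟨98, 99, 147⟩, ⟨4050, 5538, 30000⟩, ⟨1346, 1599, 1000⟩⟩ (tC34.hUp false true) :=
  posD_of_check (c := ⟨440, ⟨3, 8, 15, 11⟩⟩) (by decide +kernel)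

def tC34_um01 : PosD ⟨⟨0, 1, 1⟩, ⟨98, 99, 147⟩, ⟨4050, 5538, 30000⟩, ⟨1346, 1599, 1000⟩⟩ (tC34.hUm false true) :=
  posD_of_check (c := ⟨440, ⟨3, 8, 15, 11⟩⟩) (by decide +kernel)

def tC34_tmg01 : PosD ⟨⟨0, 1, 1⟩, ⟨98, 99, 147⟩, ⟨4050, 5538, 30000⟩, ⟨1346, 1599, 1000⟩⟩ (tC34.hTMG true (tC34.pEnd false)) :=
  posD_of_check (c := ⟨399, ⟨2, 7, 14, 10⟩⟩) (by decide +kernel)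

def tC34_kap1 : PosD ⟨⟨0, 1, 1⟩, ⟨98, 99, 147⟩, ⟨4050, 5538, 30000⟩, ⟨1346, 1599, 1000⟩⟩ (tC34.kap true) :=
  posD_of_check (c := ⟨72, ⟨1, 1, 2, 2⟩⟩) (by decide +kernel)

def tC34_c11 : PosD ⟨⟨0, 1, 1⟩, ⟨98, 99, 147⟩, ⟨4050, 5538, 30000⟩, ⟨1346, 1599, 1000⟩⟩ (tC34.hC1 true) :=
  posD_of_check (c := ⟨273, ⟨3, 5, 9, 7⟩⟩) (by decide +kernel)

def tC34_c1h1 : PosD ⟨⟨0, 1, 1⟩, ⟨98, 99, 147⟩, ⟨4050, 5538, 30000⟩, ⟨1346, 1599, 1000⟩⟩ (tC34.hC1' true) :=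
  posD_of_check (c := ⟨273, ⟨3, 5, 9, 7⟩⟩) (by decide +kernel)

def tC34_tg10 : PosD ⟨⟨0, 1, 1⟩, ⟨98, 99, 147⟩, ⟨4050, 5538, 30000⟩, ⟨1346, 1599, 1000⟩⟩ (tC34.hG false (tC34.pEnd true)) :=
  posD_of_check (c := ⟨384, ⟨2, 7, 14, 9⟩⟩) (by decide +kernel)

def tC34_c2p10 : PosD ⟨⟨0, 1, 1⟩, ⟨98, 99, 147⟩, ⟨4050, 5538, 30000⟩, ⟨1346, 1599, 1000⟩⟩ (tC34.hC2p false (tC34.pEnd true)) :=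
  posD_of_check (c := ⟨452, ⟨3, 8, 16, 11⟩⟩) (by decide +kernel)

def tC34_c2m10 : PosD ⟨⟨0, 1, 1⟩, ⟨98, 99, 147⟩, ⟨4050, 5538, 30000⟩, ⟨1346, 1599, 1000⟩⟩ (tC34.hC2m false (tC34.pEnd true)) :=
  posD_of_check (c := ⟨452, ⟨3, 8, 16, 11⟩⟩) (by decide +kernel)

def tC34_c3p10 : PosD ⟨⟨0, 1, 1⟩, ⟨98, 99, 147⟩, ⟨4050, 5538, 30000⟩, ⟨1346, 1599, 1000⟩⟩ (tC34.hC3p true false) :=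
  posD_of_check (c := ⟨443, ⟨3, 8, 15, 11⟩⟩) (by decide +kernel)

def tC34_c3m10 : PosD ⟨⟨0, 1, 1⟩, ⟨98, 99, 147⟩, ⟨4050, 5538, 30000⟩, ⟨1346, 1599, 1000⟩⟩ (tC34.hC3m true false) :=
  posD_of_check (c := ⟨443, ⟨3, 8, 15, 11⟩⟩) (by decide +kernel)

def tC34_c3ph10 : PosD ⟨⟨0, 1, 1⟩, ⟨98, 99, 147⟩, ⟨4050, 5538, 30000⟩, ⟨1346, 1599, 1000⟩⟩ (tC34.hC3p' true false) :=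
  posD_of_check (c := ⟨443, ⟨3, 8, 15, 11⟩⟩) (by decide +kernel)

def tC34_c3mh10 : PosD ⟨⟨0, 1, 1⟩, ⟨98, 99, 147⟩, ⟨4050, 5538, 30000⟩, ⟨1346, 1599, 1000⟩⟩ (tC34.hC3m' true false) :=
  posD_of_check (c := ⟨443, ⟨3, 8, 15, 11⟩⟩) (by decide +kernel)

def tC34_up10 : PosD ⟨⟨0, 1, 1⟩, ⟨98, 99, 147⟩, ⟨4050, 5538, 30000⟩, ⟨1346, 1599, 1000⟩⟩ (tC34.hUp true false) :=
  posD_of_check (c := ⟨439, ⟨3, 8, 15, 11⟩⟩) (by decide +kernel)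

def tC34_um10 : PosD ⟨⟨0, 1, 1⟩, ⟨98, 99, 147⟩, ⟨4050, 5538, 30000⟩, ⟨1346, 1599, 1000⟩⟩ (tC34.hUm true false) :=
  posD_of_check (c := ⟨439, ⟨3, 8, 15, 11⟩⟩) (by decide +kernel)

def tC34_tmg10 : PosD ⟨⟨0, 1, 1⟩, ⟨98, 99, 147⟩, ⟨4050, 5538, 30000⟩, ⟨1346, 1599, 1000⟩⟩ (tC34.hTMG false (tC34.pEnd true)) :=
  posD_of_check (c := ⟨399, ⟨2, 7, 14, 10⟩⟩) (by decide +kernel)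

def tC34_tg11 : PosD ⟨⟨0, 1, 1⟩, ⟨98, 99, 147⟩, ⟨4050, 5538, 30000⟩, ⟨1346, 1599, 1000⟩⟩ (tC34.hG true (tC34.pEnd true)) :=
  posD_of_check (c := ⟨384, ⟨2, 7, 14, 9⟩⟩) (by decide +kernel)

def tC34_c2p11 : PosD ⟨⟨0, 1, 1⟩, ⟨98, 99, 147⟩, ⟨4050, 5538, 30000⟩, ⟨1346, 1599, 1000⟩⟩ (tC34.hC2p true (tC34.pEnd true)) :=
  posD_of_check (c := ⟨452, ⟨3, 8, 16, 11⟩⟩) (by decide +kernel)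

def tC34_c2m11 : PosD ⟨⟨0, 1, 1⟩, ⟨98, 99, 147⟩, ⟨4050, 5538, 30000⟩, ⟨1346, 1599, 1000⟩⟩ (tC34.hC2m true (tC34.pEnd true)) :=
  posD_of_check (c := ⟨452, ⟨3, 8, 16, 11⟩⟩) (by decide +kernel)

def tC34_c3p11 : PosD ⟨⟨0, 1, 1⟩, ⟨98, 99, 147⟩, ⟨4050, 5538, 30000⟩, ⟨1346, 1599, 1000⟩⟩ (tC34.hC3p true true) :=
  posD_of_check (c := ⟨443, ⟨3, 8, 15, 11⟩⟩) (by decide +kernel)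

def tC34_c3m11 : PosD ⟨⟨0, 1, 1⟩, ⟨98, 99, 147⟩, ⟨4050, 5538, 30000⟩, ⟨1346, 1599, 1000⟩⟩ (tC34.hC3m true true) :=
  posD_of_check (c := ⟨443, ⟨3, 8, 15, 11⟩⟩) (by decide +kernel)

def tC34_c3ph11 : PosD ⟨⟨0, 1, 1⟩, ⟨98, 99, 147⟩, ⟨4050, 5538, 30000⟩, ⟨1346, 1599, 1000⟩⟩ (tC34.hC3p' true true) :=
  posD_of_check (c := ⟨443, ⟨3, 8, 15, 11⟩⟩) (by decide +kernel)

def tC34_c3mh11 : PosD ⟨⟨0, 1, 1⟩, ⟨98, 99, 147⟩, ⟨4050, 5538, 30000⟩, ⟨1346, 1599, 1000⟩⟩ (tC34.hC3m' true true) :=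
  posD_of_check (c := ⟨443, ⟨3, 8, 15, 11⟩⟩) (by decide +kernel)

def tC34_up11 : PosD ⟨⟨0, 1, 1⟩, ⟨98, 99, 147⟩, ⟨4050, 5538, 30000⟩, ⟨1346, 1599, 1000⟩⟩ (tC34.hUp true true) :=
  posD_of_check (c := ⟨439, ⟨3, 8, 15, 11⟩⟩) (by decide +kernel)

def tC34_um11 : PosD ⟨⟨0, 1, 1⟩, ⟨98, 99, 147⟩, ⟨4050, 5538, 30000⟩, ⟨1346, 1599, 1000⟩⟩ (tC34.hUm true true) :=
  posD_of_check (c := ⟨439, ⟨3, 8, 15, 11⟩⟩) (by decide +kernel)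

def tC34_tmg11 : PosD ⟨⟨0, 1, 1⟩, ⟨98, 99, 147⟩, ⟨4050, 5538, 30000⟩, ⟨1346, 1599, 1000⟩⟩ (tC34.hTMG true (tC34.pEnd true)) :=
  posD_of_check (c := ⟨399, ⟨2, 7, 14, 10⟩⟩) (by decide +kernel)

/-- The signs of the piece. -/
def tC34_sign : tC34.Sign ⟨⟨0, 1, 1⟩, ⟨98, 99, 147⟩, ⟨4050, 5538, 30000⟩, ⟨1346, 1599, 1000⟩⟩ :=
  ⟨tC34_pp,
    tC34_k2p,
    tC34_k2m,
    Bool.forall_bool.2 ⟨(Bool.forall_bool.2 ⟨tC34_tg00, tC34_tg01⟩), (Bool.forall_bool.2 ⟨tC34_tg10, tC34_tg11⟩)⟩,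
    Bool.forall_bool.2 ⟨(Bool.forall_bool.2 ⟨tC34_c2p00, tC34_c2p01⟩), (Bool.forall_bool.2 ⟨tC34_c2p10, tC34_c2p11⟩)⟩,
    Bool.forall_bool.2 ⟨(Bool.forall_bool.2 ⟨tC34_c2m00, tC34_c2m01⟩), (Bool.forall_bool.2 ⟨tC34_c2m10, tC34_c2m11⟩)⟩,
    Bool.forall_bool.2 ⟨tC34_kap0, tC34_kap1⟩,
    Bool.forall_bool.2 ⟨tC34_c10, tC34_c11⟩,
    Bool.forall_bool.2 ⟨(Bool.forall_bool.2 ⟨tC34_c3p00, tC34_c3p01⟩), (Bool.forall_bool.2 ⟨tC34_c3p10, tC34_c3p11⟩)⟩,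
    Bool.forall_bool.2 ⟨(Bool.forall_bool.2 ⟨tC34_c3m00, tC34_c3m01⟩), (Bool.forall_bool.2 ⟨tC34_c3m10, tC34_c3m11⟩)⟩,
    Bool.forall_bool.2 ⟨(Bool.forall_bool.2 ⟨tC34_tmg00, tC34_tmg01⟩), (Bool.forall_bool.2 ⟨tC34_tmg10, tC34_tmg11⟩)⟩,
    .inr (Bool.forall_bool.2 ⟨⟨tC34_c1h0, Bool.forall_bool.2 ⟨⟨tC34_c3ph00, tC34_c3mh00, tC34_up00, tC34_um00⟩, ⟨tC34_c3ph01, tC34_c3mh01, tC34_up01, tC34_um01⟩⟩⟩, ⟨tC34_c1h1, Bool.forall_bool.2 ⟨⟨tC34_c3ph10, tC34_c3mh10, tC34_up10, tC34_um10⟩, ⟨tC34_c3ph11, tC34_c3mh11, tC34_up11, tC34_um11⟩⟩⟩⟩),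
    tC34_v2p,
    tC34_v2m,
    tC34_v3p,
    tC34_v3m,
    posD_sub (b := ⟨⟨0, 1, 1⟩, ⟨98, 99, 147⟩, ⟨4050, 10000, 30000⟩, ⟨290, 4000, 1000⟩⟩) (by decide +kernel) tC_vG,
    posD_sub (b := ⟨⟨0, 1, 1⟩, ⟨98, 99, 147⟩, ⟨4050, 10000, 30000⟩, ⟨290, 4000, 1000⟩⟩) (by decide +kernel) tC_vMG,
    posD_sub (b := ⟨⟨0, 1, 1⟩, ⟨98, 99, 147⟩, ⟨4050, 10000, 30000⟩, ⟨290, 4000, 1000⟩⟩) (by decide +kernel) tC_ak,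
    posD_sub (b := ⟨⟨0, 1, 1⟩, ⟨98, 99, 147⟩, ⟨4050, 10000, 30000⟩, ⟨290, 4000, 1000⟩⟩) (by decide +kernel) tC_aw,
    posD_sub (b := ⟨⟨0, 1, 1⟩, ⟨98, 99, 147⟩, ⟨4050, 10000, 30000⟩, ⟨290, 4000, 1000⟩⟩) (by decide +kernel) tC_gk,
    posD_sub (b := ⟨⟨0, 1, 1⟩, ⟨98, 99, 147⟩, ⟨4050, 10000, 30000⟩, ⟨290, 4000, 1000⟩⟩) (by decide +kernel) tC_gw,
    posD_sub (b := ⟨⟨0, 1, 1⟩, ⟨98, 99, 147⟩, ⟨4050, 10000, 30000⟩, ⟨290, 4000, 1000⟩⟩) (by decide +kernel) tC_ek,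
    posD_sub (b := ⟨⟨0, 1, 1⟩, ⟨98, 99, 147⟩, ⟨4050, 10000, 30000⟩, ⟨290, 4000, 1000⟩⟩) (by decide +kernel) tC_ew⟩

def tC35_phx : PosD ⟨⟨0, 1, 1⟩, ⟨98, 99, 147⟩, ⟨5538, 7026, 30000⟩, ⟨1346, 1599, 1000⟩⟩ (phCn (tC35Hi + xO * (tC35Lo - tC35Hi))) :=
  posD_of_check (c := ⟨70, ⟨2, 0, 2, 1⟩⟩) (by decide +kernel)

def tC35_phd : PosD ⟨⟨0, 1, 1⟩, ⟨98, 99, 147⟩, ⟨5538, 7026, 30000⟩, ⟨1346, 1599, 1000⟩⟩ (phCd (tC35Hi + xO * (tC35Lo - tC35Hi))) :=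
  posD_of_check (c := ⟨50, ⟨1, 0, 2, 0⟩⟩) (by decide +kernel)

end Vale.Agent.P100.Calib.Closed.Six.Tail
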