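import Vale.Agent.P100.Calib.SlabSixTailDataC
import Vale.Agent.P100.Calib.SlabSixTailGlobC

/-!
# Checks of some pieces of the certificate

The checks are written as definitions so that they run one after another, which keeps the memory of the
kernel low.
-/

set_option linter.defProp false

namespace Vale.Agent.P100.Calib.Closed.Six.Tail

open BoxPos Large

local instance sixTailCheckstC24Add : Add Ex := ⟨Ex.add⟩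
local instance sixTailCheckstC24Sub : Sub Ex := ⟨Ex.sub⟩
local instance sixTailCheckstC24Mul : Mul Ex := ⟨Ex.mul⟩

def tC36_phx : PosIf ⟨⟨0, 1, 1⟩, ⟨98, 99, 147⟩, ⟨5538, 6282, 30000⟩, ⟨1346, 1599, 1000⟩⟩ (tC36.u₁ - tC36Lo) (phCn (tC36.u₁ + xO * (tC36Lo - tC36.u₁))) :=
  posIf_of_posD (posD_of_check (c := ⟨108, ⟨2, 0, 4, 2⟩⟩) (by decide +kernel))

def tC36_phd : PosD ⟨⟨0, 1, 1⟩, ⟨98, 99, 147⟩, ⟨5538, 6282, 30000⟩, ⟨1346, 1599, 1000⟩⟩ (phCd (tC36.u₁ + xO * (tC36Lo - tC36.u₁))) :=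
  posD_of_check (c := ⟨51, ⟨1, 0, 2, 1⟩⟩) (by decide +kernel)

def tC36_p0 : PosD ⟨⟨0, 1, 1⟩, ⟨98, 99, 147⟩, ⟨5538, 6282, 30000⟩, ⟨1346, 1599, 1000⟩⟩ (tC36.hP0) :=
  posD_of_check (c := ⟨83, ⟨0, 2, 3, 1⟩⟩) (by decide +kernel)

def tC36_gn : PosD ⟨⟨0, 1, 1⟩, ⟨98, 99, 147⟩, ⟨5538, 6282, 30000⟩, ⟨1346, 1599, 1000⟩⟩ (tC36.hGn) :=
  posD_of_check (c := ⟨69, ⟨1, 1, 2, 2⟩⟩) (by decide +kernel)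

def tC36_den0 : PosD ⟨⟨0, 1, 1⟩, ⟨98, 99, 147⟩, ⟨5538, 6282, 30000⟩, ⟨1346, 1599, 1000⟩⟩ (tC36.hDen false) :=
  posD_of_check (c := ⟨51, ⟨1, 0, 2, 1⟩⟩) (by decide +kernel)

def tC36_den1 : PosD ⟨⟨0, 1, 1⟩, ⟨98, 99, 147⟩, ⟨5538, 6282, 30000⟩, ⟨1346, 1599, 1000⟩⟩ (tC36.hDen true) :=
  posD_of_check (c := ⟨51, ⟨1, 0, 2, 1⟩⟩) (by decide +kernel)

def tC36_ev0 : PosD ⟨⟨0, 1, 1⟩, ⟨98, 99, 147⟩, ⟨5538, 6282, 30000⟩, ⟨1346, 1599, 1000⟩⟩ (tC36.hEv false) :=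
  posD_of_check (c := ⟨218, ⟨4, 2, 8, 4⟩⟩) (by decide +kernel)

def tC36_zL0 : PosD ⟨⟨0, 1, 1⟩, ⟨98, 99, 147⟩, ⟨5538, 6282, 30000⟩, ⟨1346, 1599, 1000⟩⟩ (tC36.hZL false) :=
  posD_of_check (c := ⟨220, ⟨4, 3, 8, 4⟩⟩) (by decide +kernel)

def tC36_zU0 : PosD ⟨⟨0, 1, 1⟩, ⟨98, 99, 147⟩, ⟨5538, 6282, 30000⟩, ⟨1346, 1599, 1000⟩⟩ (tC36.hZU false) :=
  posD_of_check (c := ⟨220, ⟨4, 3, 8, 4⟩⟩) (by decide +kernel)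

def tC36_eL0 : PosD ⟨⟨0, 1, 1⟩, ⟨98, 99, 147⟩, ⟨5538, 6282, 30000⟩, ⟨1346, 1599, 1000⟩⟩ (tC36.hEL false) :=
  posD_of_check (c := ⟨313, ⟨5, 6, 11, 6⟩⟩) (by decide +kernel)

def tC36_eH0 : PosD ⟨⟨0, 1, 1⟩, ⟨98, 99, 147⟩, ⟨5538, 6282, 30000⟩, ⟨1346, 1599, 1000⟩⟩ (tC36.hEH false) :=
  posD_of_check (c := ⟨313, ⟨5, 6, 11, 6⟩⟩) (by decide +kernel)

def tC36_pL0 : PosD ⟨⟨0, 1, 1⟩, ⟨98, 99, 147⟩, ⟨5538, 6282, 30000⟩, ⟨1346, 1599, 1000⟩⟩ (tC36.hPL false) :=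
  posD_of_check (c := ⟨338, ⟨5, 6, 11, 7⟩⟩) (by decide +kernel)

def tC36_pU0 : PosD ⟨⟨0, 1, 1⟩, ⟨98, 99, 147⟩, ⟨5538, 6282, 30000⟩, ⟨1346, 1599, 1000⟩⟩ (tC36.hPU false) :=
  posD_of_check (c := ⟨338, ⟨5, 6, 11, 7⟩⟩) (by decide +kernel)

def tC36_kU0 : PosD ⟨⟨0, 1, 1⟩, ⟨98, 99, 147⟩, ⟨5538, 6282, 30000⟩, ⟨1346, 1599, 1000⟩⟩ (tC36.hKU false) :=
  posD_of_check (c := ⟨335, ⟨5, 6, 11, 7⟩⟩) (by decide +kernel)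

def tC36_kL0 : PosD ⟨⟨0, 1, 1⟩, ⟨98, 99, 147⟩, ⟨5538, 6282, 30000⟩, ⟨1346, 1599, 1000⟩⟩ (tC36.hKL false) :=
  posD_of_check (c := ⟨335, ⟨5, 6, 11, 7⟩⟩) (by decide +kernel)

def tC36_wU0 : PosD ⟨⟨0, 1, 1⟩, ⟨98, 99, 147⟩, ⟨5538, 6282, 30000⟩, ⟨1346, 1599, 1000⟩⟩ (tC36.hWU false) :=
  posD_of_check (c := ⟨370, ⟨5, 8, 12, 7⟩⟩) (by decide +kernel)

def tC36_wL0 : PosD ⟨⟨0, 1, 1⟩, ⟨98, 99, 147⟩, ⟨5538, 6282, 30000⟩, ⟨1346, 1599, 1000⟩⟩ (tC36.hWL false) :=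
  posD_of_check (c := ⟨369, ⟨5, 8, 12, 7⟩⟩) (by decide +kernel)

def tC36_ev1 : PosD ⟨⟨0, 1, 1⟩, ⟨98, 99, 147⟩, ⟨5538, 6282, 30000⟩, ⟨1346, 1599, 1000⟩⟩ (tC36.hEv true) :=
  posD_of_check (c := ⟨217, ⟨4, 2, 8, 4⟩⟩) (by decide +kernel)

def tC36_zL1 : PosD ⟨⟨0, 1, 1⟩, ⟨98, 99, 147⟩, ⟨5538, 6282, 30000⟩, ⟨1346, 1599, 1000⟩⟩ (tC36.hZL true) :=
  posD_of_check (c := ⟨219, ⟨4, 3, 8, 4⟩⟩) (by decide +kernel)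

def tC36_zU1 : PosD ⟨⟨0, 1, 1⟩, ⟨98, 99, 147⟩, ⟨5538, 6282, 30000⟩, ⟨1346, 1599, 1000⟩⟩ (tC36.hZU true) :=
  posD_of_check (c := ⟨219, ⟨4, 3, 8, 4⟩⟩) (by decide +kernel)

def tC36_eL1 : PosD ⟨⟨0, 1, 1⟩, ⟨98, 99, 147⟩, ⟨5538, 6282, 30000⟩, ⟨1346, 1599, 1000⟩⟩ (tC36.hEL true) :=
  posD_of_check (c := ⟨312, ⟨5, 6, 11, 6⟩⟩) (by decide +kernel)

def tC36_eH1 : PosD ⟨⟨0, 1, 1⟩, ⟨98, 99, 147⟩, ⟨5538, 6282, 30000⟩, ⟨1346, 1599, 1000⟩⟩ (tC36.hEH true) :=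
  posD_of_check (c := ⟨311, ⟨5, 6, 11, 6⟩⟩) (by decide +kernel)

def tC36_pL1 : PosD ⟨⟨0, 1, 1⟩, ⟨98, 99, 147⟩, ⟨5538, 6282, 30000⟩, ⟨1346, 1599, 1000⟩⟩ (tC36.hPL true) :=
  posD_of_check (c := ⟨337, ⟨5, 6, 11, 7⟩⟩) (by decide +kernel)

def tC36_pU1 : PosD ⟨⟨0, 1, 1⟩, ⟨98, 99, 147⟩, ⟨5538, 6282, 30000⟩, ⟨1346, 1599, 1000⟩⟩ (tC36.hPU true) :=
  posD_of_check (c := ⟨337, ⟨5, 6, 11, 7⟩⟩) (by decide +kernel)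

def tC36_kU1 : PosD ⟨⟨0, 1, 1⟩, ⟨98, 99, 147⟩, ⟨5538, 6282, 30000⟩, ⟨1346, 1599, 1000⟩⟩ (tC36.hKU true) :=
  posD_of_check (c := ⟨334, ⟨5, 6, 11, 7⟩⟩) (by decide +kernel)

def tC36_kL1 : PosD ⟨⟨0, 1, 1⟩, ⟨98, 99, 147⟩, ⟨5538, 6282, 30000⟩, ⟨1346, 1599, 1000⟩⟩ (tC36.hKL true) :=
  posD_of_check (c := ⟨333, ⟨5, 6, 11, 7⟩⟩) (by decide +kernel)

def tC36_wU1 : PosD ⟨⟨0, 1, 1⟩, ⟨98, 99, 147⟩, ⟨5538, 6282, 30000⟩, ⟨1346, 1599, 1000⟩⟩ (tC36.hWU true) :=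
  posD_of_check (c := ⟨368, ⟨5, 8, 12, 7⟩⟩) (by decide +kernel)

def tC36_wL1 : PosD ⟨⟨0, 1, 1⟩, ⟨98, 99, 147⟩, ⟨5538, 6282, 30000⟩, ⟨1346, 1599, 1000⟩⟩ (tC36.hWL true) :=
  posD_of_check (c := ⟨368, ⟨5, 8, 12, 7⟩⟩) (by decide +kernel)

/-- The bounds of the piece. -/
def tC36_env : tC36.Env ⟨⟨0, 1, 1⟩, ⟨98, 99, 147⟩, ⟨5538, 6282, 30000⟩, ⟨1346, 1599, 1000⟩⟩ :=
  ⟨tC36_p0, Bool.forall_bool.2 ⟨tC36_den0, tC36_den1⟩, tC36_gn, Bool.forall_bool.2 ⟨tC36_ev0, tC36_ev1⟩, Bool.forall_bool.2 ⟨tC36_zL0, tC36_zL1⟩, Bool.forall_bool.2 ⟨tC36_zU0, tC36_zU1⟩, Bool.forall_bool.2 ⟨tC36_eL0, tC36_eL1⟩, ⟨.inr rfl, .inr rfl⟩, Bool.forall_bool.2 ⟨tC36_eH0, tC36_eH1⟩, ⟨.inr rfl, .inr rfl⟩, Bool.forall_bool.2 ⟨tC36_pL0, tC36_pL1⟩, ⟨.inr rfl, .inr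 rfl⟩, Bool.forall_bool.2 ⟨tC36_pU0, tC36_pU1⟩, ⟨.inr rfl, .inr rfl⟩, Bool.forall_bool.2 ⟨tC36_kU0, tC36_kU1⟩, ⟨.inr rfl, .inr rfl⟩, Bool.forall_bool.2 ⟨tC36_kL0, tC36_kL1⟩, ⟨.inr rfl, .inr rfl⟩, Bool.forall_bool.2 ⟨tC36_wU0, tC36_wU1⟩, ⟨.inr rfl, .inr rfl⟩, Bool.forall_bool.2 ⟨tC36_wL0, tC36_wL1⟩, ⟨.inr rfl, .inr rfl⟩⟩

def tC36_pp : PosD ⟨⟨0, 1, 1⟩, ⟨98, 99, 147⟩, ⟨5538, 6282, 30000⟩, ⟨1346, 1599, 1000⟩⟩ (tC36.xPL) :=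
  posD_of_check (c := ⟨95, ⟨1, 1, 3, 3⟩⟩) (by decide +kernel)

def tC36_k2p : PosD ⟨⟨0, 1, 1⟩, ⟨98, 99, 147⟩, ⟨5538, 6282, 30000⟩, ⟨1346, 1599, 1000⟩⟩ (tC36.k2p tC36.xE) :=
  posD_of_check (c := ⟨68, ⟨1, 1, 2, 2⟩⟩) (by decide +kernel)

def tC36_k2m : PosD ⟨⟨0, 1, 1⟩, ⟨98, 99, 147⟩, ⟨5538, 6282, 30000⟩, ⟨1346, 1599, 1000⟩⟩ (tC36.k2m tC36.xE) :=
  posD_of_check (c := ⟨67, ⟨1, 1, 2, 2⟩⟩) (by decide +kernel)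

def tC36_v2p : PosD ⟨⟨0, 1, 1⟩, ⟨98, 99, 147⟩, ⟨5538, 6282, 30000⟩, ⟨1346, 1599, 1000⟩⟩ (tC36.hV2p) :=
  posD_of_check (c := ⟨269, ⟨1, 6, 10, 5⟩⟩) (by decide +kernel)

def tC36_v2m : PosD ⟨⟨0, 1, 1⟩, ⟨98, 99, 147⟩, ⟨5538, 6282, 30000⟩, ⟨1346, 1599, 1000⟩⟩ (tC36.hV2m) :=
  posD_of_check (c := ⟨268, ⟨1, 6, 10, 5⟩⟩) (by decide +kernel)

def tC36_v3p : PosD ⟨⟨0, 1, 1⟩, ⟨98, 99, 147⟩, ⟨5538, 6282, 30000⟩, ⟨1346, 1599, 1000⟩⟩ (tC36.hV3p) :=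
  posD_of_check (c := ⟨255, ⟨1, 6, 9, 5⟩⟩) (by decide +kernel)

def tC36_v3m : PosD ⟨⟨0, 1, 1⟩, ⟨98, 99, 147⟩, ⟨5538, 6282, 30000⟩, ⟨1346, 1599, 1000⟩⟩ (tC36.hV3m) :=
  posD_of_check (c := ⟨254, ⟨1, 6, 9, 5⟩⟩) (by decide +kernel)

def tC36_kap0 : PosD ⟨⟨0, 1, 1⟩, ⟨98, 99, 147⟩, ⟨5538, 6282, 30000⟩, ⟨1346, 1599, 1000⟩⟩ (tC36.kap false) :=
  posD_of_check (c := ⟨69, ⟨1, 1, 2, 2⟩⟩) (by decide +kernel)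

def tC36_c10 : PosD ⟨⟨0, 1, 1⟩, ⟨98, 99, 147⟩, ⟨5538, 6282, 30000⟩, ⟨1346, 1599, 1000⟩⟩ (tC36.hC1 false) :=
  posD_of_check (c := ⟨272, ⟨3, 5, 9, 7⟩⟩) (by decide +kernel)

def tC36_c1h0 : PosD ⟨⟨0, 1, 1⟩, ⟨98, 99, 147⟩, ⟨5538, 6282, 30000⟩, ⟨1346, 1599, 1000⟩⟩ (tC36.hC1' false) :=
  posD_of_check (c := ⟨272, ⟨3, 5, 9, 7⟩⟩) (by decide +kernel)

def tC36_tg00 : PosD ⟨⟨0, 1, 1⟩, ⟨98, 99, 147⟩, ⟨5538, 6282, 30000⟩, ⟨1346, 1599, 1000⟩⟩ (tC36.hG false (tC36.pEnd false)) :=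
  posD_of_check (c := ⟨386, ⟨2, 7, 14, 9⟩⟩) (by decide +kernel)

def tC36_c2p00 : PosD ⟨⟨0, 1, 1⟩, ⟨98, 99, 147⟩, ⟨5538, 6282, 30000⟩, ⟨1346, 1599, 1000⟩⟩ (tC36.hC2p false (tC36.pEnd false)) :=
  posD_of_check (c := ⟨455, ⟨3, 8, 16, 11⟩⟩) (by decide +kernel)

def tC36_c2m00 : PosD ⟨⟨0, 1, 1⟩, ⟨98, 99, 147⟩, ⟨5538, 6282, 30000⟩, ⟨1346, 1599, 1000⟩⟩ (tC36.hC2m false (tC36.pEnd false)) :=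
  posD_of_check (c := ⟨454, ⟨3, 8, 16, 11⟩⟩) (by decide +kernel)

def tC36_c3p00 : PosD ⟨⟨0, 1, 1⟩, ⟨98, 99, 147⟩, ⟨5538, 6282, 30000⟩, ⟨1346, 1599, 1000⟩⟩ (tC36.hC3p false false) :=
  posD_of_check (c := ⟨442, ⟨3, 8, 15, 11⟩⟩) (by decide +kernel)

def tC36_c3m00 : PosD ⟨⟨0, 1, 1⟩, ⟨98, 99, 147⟩, ⟨5538, 6282, 30000⟩, ⟨1346, 1599, 1000⟩⟩ (tC36.hC3m false false) :=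
  posD_of_check (c := ⟨442, ⟨3, 8, 15, 11⟩⟩) (by decide +kernel)

def tC36_c3ph00 : PosD ⟨⟨0, 1, 1⟩, ⟨98, 99, 147⟩, ⟨5538, 6282, 30000⟩, ⟨1346, 1599, 1000⟩⟩ (tC36.hC3p' false false) :=
  posD_of_check (c := ⟨442, ⟨3, 8, 15, 11⟩⟩) (by decide +kernel)

def tC36_c3mh00 : PosD ⟨⟨0, 1, 1⟩, ⟨98, 99, 147⟩, ⟨5538, 6282, 30000⟩, ⟨1346, 1599, 1000⟩⟩ (tC36.hC3m' false false) :=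
  posD_of_check (c := ⟨442, ⟨3, 8, 15, 11⟩⟩) (by decide +kernel)

def tC36_up00 : PosD ⟨⟨0, 1, 1⟩, ⟨98, 99, 147⟩, ⟨5538, 6282, 30000⟩, ⟨1346, 1599, 1000⟩⟩ (tC36.hUp false false) :=
  posD_of_check (c := ⟨441, ⟨3, 8, 15, 11⟩⟩) (by decide +kernel)

def tC36_um00 : PosD ⟨⟨0, 1, 1⟩, ⟨98, 99, 147⟩, ⟨5538, 6282, 30000⟩, ⟨1346, 1599, 1000⟩⟩ (tC36.hUm false false) :=
  posD_of_check (c := ⟨441, ⟨3, 8, 15, 11⟩⟩) (by decide +kernel)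

def tC36_tmg00 : PosD ⟨⟨0, 1, 1⟩, ⟨98, 99, 147⟩, ⟨5538, 6282, 30000⟩, ⟨1346, 1599, 1000⟩⟩ (tC36.hTMG false (tC36.pEnd false)) :=
  posD_of_check (c := ⟨400, ⟨2, 7, 14, 10⟩⟩) (by decide +kernel)

def tC36_tg01 : PosD ⟨⟨0, 1, 1⟩, ⟨98, 99, 147⟩, ⟨5538, 6282, 30000⟩, ⟨1346, 1599, 1000⟩⟩ (tC36.hG true (tC36.pEnd false)) :=
  posD_of_check (c := ⟨386, ⟨2, 7, 14, 9⟩⟩) (by decide +kernel)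

def tC36_c2p01 : PosD ⟨⟨0, 1, 1⟩, ⟨98, 99, 147⟩, ⟨5538, 6282, 30000⟩, ⟨1346, 1599, 1000⟩⟩ (tC36.hC2p true (tC36.pEnd false)) :=
  posD_of_check (c := ⟨455, ⟨3, 8, 16, 11⟩⟩) (by decide +kernel)

def tC36_c2m01 : PosD ⟨⟨0, 1, 1⟩, ⟨98, 99, 147⟩, ⟨5538, 6282, 30000⟩, ⟨1346, 1599, 1000⟩⟩ (tC36.hC2m true (tC36.pEnd false)) :=
  posD_of_check (c := ⟨454, ⟨3, 8, 16, 11⟩⟩) (by decide +kernel)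

def tC36_c3p01 : PosD ⟨⟨0, 1, 1⟩, ⟨98, 99, 147⟩, ⟨5538, 6282, 30000⟩, ⟨1346, 1599, 1000⟩⟩ (tC36.hC3p false true) :=
  posD_of_check (c := ⟨442, ⟨3, 8, 15, 11⟩⟩) (by decide +kernel)

def tC36_c3m01 : PosD ⟨⟨0, 1, 1⟩, ⟨98, 99, 147⟩, ⟨5538, 6282, 30000⟩, ⟨1346, 1599, 1000⟩⟩ (tC36.hC3m false true) :=
  posD_of_check (c := ⟨442, ⟨3, 8, 15, 11⟩⟩) (by decide +kernel)

def tC36_c3ph01 : PosD ⟨⟨0, 1, 1⟩, ⟨98, 99, 147⟩, ⟨5538, 6282, 30000⟩, ⟨1346, 1599, 1000⟩⟩ (tC36.hC3p' false true) :=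
  posD_of_check (c := ⟨442, ⟨3, 8, 15, 11⟩⟩) (by decide +kernel)

def tC36_c3mh01 : PosD ⟨⟨0, 1, 1⟩, ⟨98, 99, 147⟩, ⟨5538, 6282, 30000⟩, ⟨1346, 1599, 1000⟩⟩ (tC36.hC3m' false true) :=
  posD_of_check (c := ⟨442, ⟨3, 8, 15, 11⟩⟩) (by decide +kernel)

def tC36_up01 : PosD ⟨⟨0, 1, 1⟩, ⟨98, 99, 147⟩, ⟨5538, 6282, 30000⟩, ⟨1346, 1599, 1000⟩⟩ (tC36.hUp false true) :=
  posD_of_check (c := ⟨441, ⟨3, 8, 15, 11⟩⟩) (by decide +kernel)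

def tC36_um01 : PosD ⟨⟨0, 1, 1⟩, ⟨98, 99, 147⟩, ⟨5538, 6282, 30000⟩, ⟨1346, 1599, 1000⟩⟩ (tC36.hUm false true) :=
  posD_of_check (c := ⟨441, ⟨3, 8, 15, 11⟩⟩) (by decide +kernel)

def tC36_tmg01 : PosD ⟨⟨0, 1, 1⟩, ⟨98, 99, 147⟩, ⟨5538, 6282, 30000⟩, ⟨1346, 1599, 1000⟩⟩ (tC36.hTMG true (tC36.pEnd false)) :=
  posD_of_check (c := ⟨400, ⟨2, 7, 14, 10⟩⟩) (by decide +kernel)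

def tC36_kap1 : PosD ⟨⟨0, 1, 1⟩, ⟨98, 99, 147⟩, ⟨5538, 6282, 30000⟩, ⟨1346, 1599, 1000⟩⟩ (tC36.kap true) :=
  posD_of_check (c := ⟨73, ⟨1, 1, 2, 2⟩⟩) (by decide +kernel)

def tC36_c11 : PosD ⟨⟨0, 1, 1⟩, ⟨98, 99, 147⟩, ⟨5538, 6282, 30000⟩, ⟨1346, 1599, 1000⟩⟩ (tC36.hC1 true) :=
  posD_of_check (c := ⟨275, ⟨3, 5, 9, 7⟩⟩) (by decide +kernel)

def tC36_c1h1 : PosD ⟨⟨0, 1, 1⟩, ⟨98, 99, 147⟩, ⟨5538, 6282, 30000⟩, ⟨1346, 1599, 1000⟩⟩ (tC36.hC1' true) :=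
  posD_of_check (c := ⟨275, ⟨3, 5, 9, 7⟩⟩) (by decide +kernel)

def tC36_tg10 : PosD ⟨⟨0, 1, 1⟩, ⟨98, 99, 147⟩, ⟨5538, 6282, 30000⟩, ⟨1346, 1599, 1000⟩⟩ (tC36.hG false (tC36.pEnd true)) :=
  posD_of_check (c := ⟨385, ⟨2, 7, 14, 9⟩⟩) (by decide +kernel)

def tC36_c2p10 : PosD ⟨⟨0, 1, 1⟩, ⟨98, 99, 147⟩, ⟨5538, 6282, 30000⟩, ⟨1346, 1599, 1000⟩⟩ (tC36.hC2p false (tC36.pEnd true)) :=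
  posD_of_check (c := ⟨454, ⟨3, 8, 16, 11⟩⟩) (by decide +kernel)

def tC36_c2m10 : PosD ⟨⟨0, 1, 1⟩, ⟨98, 99, 147⟩, ⟨5538, 6282, 30000⟩, ⟨1346, 1599, 1000⟩⟩ (tC36.hC2m false (tC36.pEnd true)) :=
  posD_of_check (c := ⟨453, ⟨3, 8, 16, 11⟩⟩) (by decide +kernel)

def tC36_c3p10 : PosD ⟨⟨0, 1, 1⟩, ⟨98, 99, 147⟩, ⟨5538, 6282, 30000⟩, ⟨1346, 1599, 1000⟩⟩ (tC36.hC3p true false) :=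
  posD_of_check (c := ⟨445, ⟨3, 8, 15, 11⟩⟩) (by decide +kernel)

def tC36_c3m10 : PosD ⟨⟨0, 1, 1⟩, ⟨98, 99, 147⟩, ⟨5538, 6282, 30000⟩, ⟨1346, 1599, 1000⟩⟩ (tC36.hC3m true false) :=
  posD_of_check (c := ⟨445, ⟨3, 8, 15, 11⟩⟩) (by decide +kernel)

def tC36_c3ph10 : PosD ⟨⟨0, 1, 1⟩, ⟨98, 99, 147⟩, ⟨5538, 6282, 30000⟩, ⟨1346, 1599, 1000⟩⟩ (tC36.hC3p' true false) :=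
  posD_of_check (c := ⟨445, ⟨3, 8, 15, 11⟩⟩) (by decide +kernel)

def tC36_c3mh10 : PosD ⟨⟨0, 1, 1⟩, ⟨98, 99, 147⟩, ⟨5538, 6282, 30000⟩, ⟨1346, 1599, 1000⟩⟩ (tC36.hC3m' true false) :=
  posD_of_check (c := ⟨445, ⟨3, 8, 15, 11⟩⟩) (by decide +kernel)

def tC36_up10 : PosD ⟨⟨0, 1, 1⟩, ⟨98, 99, 147⟩, ⟨5538, 6282, 30000⟩, ⟨1346, 1599, 1000⟩⟩ (tC36.hUp true false) :=
  posD_of_check (c := ⟨441, ⟨3, 8, 15, 11⟩⟩) (by decide +kernel)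

def tC36_um10 : PosD ⟨⟨0, 1, 1⟩, ⟨98, 99, 147⟩, ⟨5538, 6282, 30000⟩, ⟨1346, 1599, 1000⟩⟩ (tC36.hUm true false) :=
  posD_of_check (c := ⟨440, ⟨3, 8, 15, 11⟩⟩) (by decide +kernel)

def tC36_tmg10 : PosD ⟨⟨0, 1, 1⟩, ⟨98, 99, 147⟩, ⟨5538, 6282, 30000⟩, ⟨1346, 1599, 1000⟩⟩ (tC36.hTMG false (tC36.pEnd true)) :=
  posD_of_check (c := ⟨400, ⟨2, 7, 14, 10⟩⟩) (by decide +kernel)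

def tC36_tg11 : PosD ⟨⟨0, 1, 1⟩, ⟨98, 99, 147⟩, ⟨5538, 6282, 30000⟩, ⟨1346, 1599, 1000⟩⟩ (tC36.hG true (tC36.pEnd true)) :=
  posD_of_check (c := ⟨385, ⟨2, 7, 14, 9⟩⟩) (by decide +kernel)

def tC36_c2p11 : PosD ⟨⟨0, 1, 1⟩, ⟨98, 99, 147⟩, ⟨5538, 6282, 30000⟩, ⟨1346, 1599, 1000⟩⟩ (tC36.hC2p true (tC36.pEnd true)) :=
  posD_of_check (c := ⟨454, ⟨3, 8, 16, 11⟩⟩) (by decide +kernel)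

def tC36_c2m11 : PosD ⟨⟨0, 1, 1⟩, ⟨98, 99, 147⟩, ⟨5538, 6282, 30000⟩, ⟨1346, 1599, 1000⟩⟩ (tC36.hC2m true (tC36.pEnd true)) :=
  posD_of_check (c := ⟨453, ⟨3, 8, 16, 11⟩⟩) (by decide +kernel)

def tC36_c3p11 : PosD ⟨⟨0, 1, 1⟩, ⟨98, 99, 147⟩, ⟨5538, 6282, 30000⟩, ⟨1346, 1599, 1000⟩⟩ (tC36.hC3p true true) :=
  posD_of_check (c := ⟨445, ⟨3, 8, 15, 11⟩⟩) (by decide +kernel)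

def tC36_c3m11 : PosD ⟨⟨0, 1, 1⟩, ⟨98, 99, 147⟩, ⟨5538, 6282, 30000⟩, ⟨1346, 1599, 1000⟩⟩ (tC36.hC3m true true) :=
  posD_of_check (c := ⟨445, ⟨3, 8, 15, 11⟩⟩) (by decide +kernel)

def tC36_c3ph11 : PosD ⟨⟨0, 1, 1⟩, ⟨98, 99, 147⟩, ⟨5538, 6282, 30000⟩, ⟨1346, 1599, 1000⟩⟩ (tC36.hC3p' true true) :=
  posD_of_check (c := ⟨445, ⟨3, 8, 15, 11⟩⟩) (by decide +kernel)

def tC36_c3mh11 : PosD ⟨⟨0, 1, 1⟩, ⟨98, 99, 147⟩, ⟨5538, 6282, 30000⟩, ⟨1346, 1599, 1000⟩⟩ (tC36.hC3m' true true) :=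
  posD_of_check (c := ⟨445, ⟨3, 8, 15, 11⟩⟩) (by decide +kernel)

def tC36_up11 : PosD ⟨⟨0, 1, 1⟩, ⟨98, 99, 147⟩, ⟨5538, 6282, 30000⟩, ⟨1346, 1599, 1000⟩⟩ (tC36.hUp true true) :=
  posD_of_check (c := ⟨441, ⟨3, 8, 15, 11⟩⟩) (by decide +kernel)

def tC36_um11 : PosD ⟨⟨0, 1, 1⟩, ⟨98, 99, 147⟩, ⟨5538, 6282, 30000⟩, ⟨1346, 1599, 1000⟩⟩ (tC36.hUm true true) :=
  posD_of_check (c := ⟨440, ⟨3, 8, 15, 11⟩⟩) (by decide +kernel)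

def tC36_tmg11 : PosD ⟨⟨0, 1, 1⟩, ⟨98, 99, 147⟩, ⟨5538, 6282, 30000⟩, ⟨1346, 1599, 1000⟩⟩ (tC36.hTMG true (tC36.pEnd true)) :=
  posD_of_check (c := ⟨400, ⟨2, 7, 14, 10⟩⟩) (by decide +kernel)

/-- The signs of the piece. -/
def tC36_sign : tC36.Sign ⟨⟨0, 1, 1⟩, ⟨98, 99, 147⟩, ⟨5538, 6282, 30000⟩, ⟨1346, 1599, 1000⟩⟩ :=
  ⟨tC36_pp,
    tC36_k2p,
    tC36_k2m,
    Bool.forall_bool.2 ⟨(Bool.forall_bool.2 ⟨tC36_tg00, tC36_tg01⟩), (Bool.forall_bool.2 ⟨tC36_tg10, tC36_tg11⟩)⟩,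
    Bool.forall_bool.2 ⟨(Bool.forall_bool.2 ⟨tC36_c2p00, tC36_c2p01⟩), (Bool.forall_bool.2 ⟨tC36_c2p10, tC36_c2p11⟩)⟩,
    Bool.forall_bool.2 ⟨(Bool.forall_bool.2 ⟨tC36_c2m00, tC36_c2m01⟩), (Bool.forall_bool.2 ⟨tC36_c2m10, tC36_c2m11⟩)⟩,
    Bool.forall_bool.2 ⟨tC36_kap0, tC36_kap1⟩,
    Bool.forall_bool.2 ⟨tC36_c10, tC36_c11⟩,
    Bool.forall_bool.2 ⟨(Bool.forall_bool.2 ⟨tC36_c3p00, tC36_c3p01⟩), (Bool.forall_bool.2 ⟨tC36_c3p10, tC36_c3p11⟩)⟩,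
    Bool.forall_bool.2 ⟨(Bool.forall_bool.2 ⟨tC36_c3m00, tC36_c3m01⟩), (Bool.forall_bool.2 ⟨tC36_c3m10, tC36_c3m11⟩)⟩,
    Bool.forall_bool.2 ⟨(Bool.forall_bool.2 ⟨tC36_tmg00, tC36_tmg01⟩), (Bool.forall_bool.2 ⟨tC36_tmg10, tC36_tmg11⟩)⟩,
    .inr (Bool.forall_bool.2 ⟨⟨tC36_c1h0, Bool.forall_bool.2 ⟨⟨tC36_c3ph00, tC36_c3mh00, tC36_up00, tC36_um00⟩, ⟨tC36_c3ph01, tC36_c3mh01, tC36_up01, tC36_um01⟩⟩⟩, ⟨tC36_c1h1, Bool.forall_bool.2 ⟨⟨tC36_c3ph10, tC36_c3mh10, tC36_up10, tC36_um10⟩, ⟨tC36_c3ph11, tC36_c3mh11, tC36_up11, tC36_um11⟩⟩⟩⟩),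
    tC36_v2p,
    tC36_v2m,
    tC36_v3p,
    tC36_v3m,
    posD_sub (b := ⟨⟨0, 1, 1⟩, ⟨98, 99, 147⟩, ⟨4050, 10000, 30000⟩, ⟨290, 4000, 1000⟩⟩) (by decide +kernel) tC_vG,
    posD_sub (b := ⟨⟨0, 1, 1⟩, ⟨98, 99, 147⟩, ⟨4050, 10000, 30000⟩, ⟨290, 4000, 1000⟩⟩) (by decide +kernel) tC_vMG,
    posD_sub (b := ⟨⟨0, 1, 1⟩, ⟨98, 99, 147⟩, ⟨4050, 10000, 30000⟩, ⟨290, 4000, 1000⟩⟩) (by decide +kernel) tC_ak,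
    posD_sub (b := ⟨⟨0, 1, 1⟩, ⟨98, 99, 147⟩, ⟨4050, 10000, 30000⟩, ⟨290, 4000, 1000⟩⟩) (by decide +kernel) tC_aw,
    posD_sub (b := ⟨⟨0, 1, 1⟩, ⟨98, 99, 147⟩, ⟨4050, 10000, 30000⟩, ⟨290, 4000, 1000⟩⟩) (by decide +kernel) tC_gk,
    posD_sub (b := ⟨⟨0, 1, 1⟩, ⟨98, 99, 147⟩, ⟨4050, 10000, 30000⟩, ⟨290, 4000, 1000⟩⟩) (by decide +kernel) tC_gw,
    posD_sub (b := ⟨⟨0, 1, 1⟩, ⟨98, 99, 147⟩, ⟨4050, 10000, 30000⟩, ⟨290, 4000, 1000⟩⟩) (by decide +kernel) tC_ek,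
    posD_sub (b := ⟨⟨0, 1, 1⟩, ⟨98, 99, 147⟩, ⟨4050, 10000, 30000⟩, ⟨290, 4000, 1000⟩⟩) (by decide +kernel) tC_ew⟩

end Vale.Agent.P100.Calib.Closed.Six.Tail
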