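import Vale.Agent.P100.Calib.SlabSixTailDataC
import Vale.Agent.P100.Calib.SlabSixTailGlobC

/-!
# Checks of some pieces of the certificate

The checks are written as definitions so that they run one after another, which keeps the memory of the
kernel low.
-/

set_option linter.defProp false

namespace Vale.Agent.P100.Calib.Closed.Six.Tail

open BoxPos Large

local instance sixTailCheckstC25Add : Add Ex := ⟨Ex.add⟩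
local instance sixTailCheckstC25Sub : Sub Ex := ⟨Ex.sub⟩
local instance sixTailCheckstC25Mul : Mul Ex := ⟨Ex.mul⟩

def tC37_phx : PosIf ⟨⟨0, 1, 1⟩, ⟨98, 99, 147⟩, ⟨6282, 7026, 30000⟩, ⟨1346, 1467, 1000⟩⟩ (tC37.u₁ - tC37Lo) (phCn (tC37.u₁ + xO * (tC37Lo - tC37.u₁))) :=
  posIf_of_posD (posD_of_check (c := ⟨108, ⟨2, 0, 4, 2⟩⟩) (by decide +kernel))

def tC37_phd : PosD ⟨⟨0, 1, 1⟩, ⟨98, 99, 147⟩, ⟨6282, 7026, 30000⟩, ⟨1346, 1467, 1000⟩⟩ (phCd (tC37.u₁ + xO * (tC37Lo - tC37.u₁))) :=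
  posD_of_check (c := ⟨51, ⟨1, 0, 2, 1⟩⟩) (by decide +kernel)

def tC37_p0 : PosD ⟨⟨0, 1, 1⟩, ⟨98, 99, 147⟩, ⟨6282, 7026, 30000⟩, ⟨1346, 1467, 1000⟩⟩ (tC37.hP0) :=
  posD_of_check (c := ⟨83, ⟨0, 2, 3, 1⟩⟩) (by decide +kernel)

def tC37_gn : PosD ⟨⟨0, 1, 1⟩, ⟨98, 99, 147⟩, ⟨6282, 7026, 30000⟩, ⟨1346, 1467, 1000⟩⟩ (tC37.hGn) :=
  posD_of_check (c := ⟨69, ⟨1, 1, 2, 2⟩⟩) (by decide +kernel)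

def tC37_den0 : PosD ⟨⟨0, 1, 1⟩, ⟨98, 99, 147⟩, ⟨6282, 7026, 30000⟩, ⟨1346, 1467, 1000⟩⟩ (tC37.hDen false) :=
  posD_of_check (c := ⟨51, ⟨1, 0, 2, 1⟩⟩) (by decide +kernel)

def tC37_den1 : PosD ⟨⟨0, 1, 1⟩, ⟨98, 99, 147⟩, ⟨6282, 7026, 30000⟩, ⟨1346, 1467, 1000⟩⟩ (tC37.hDen true) :=
  posD_of_check (c := ⟨51, ⟨1, 0, 2, 1⟩⟩) (by decide +kernel)

def tC37_ev0 : PosD ⟨⟨0, 1, 1⟩, ⟨98, 99, 147⟩, ⟨6282, 7026, 30000⟩, ⟨1346, 1467, 1000⟩⟩ (tC37.hEv false) :=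
  posD_of_check (c := ⟨219, ⟨4, 2, 8, 4⟩⟩) (by decide +kernel)

def tC37_zL0 : PosD ⟨⟨0, 1, 1⟩, ⟨98, 99, 147⟩, ⟨6282, 7026, 30000⟩, ⟨1346, 1467, 1000⟩⟩ (tC37.hZL false) :=
  posD_of_check (c := ⟨221, ⟨4, 3, 8, 4⟩⟩) (by decide +kernel)

def tC37_zU0 : PosD ⟨⟨0, 1, 1⟩, ⟨98, 99, 147⟩, ⟨6282, 7026, 30000⟩, ⟨1346, 1467, 1000⟩⟩ (tC37.hZU false) :=
  posD_of_check (c := ⟨221, ⟨4, 3, 8, 4⟩⟩) (by decide +kernel)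

def tC37_eL0 : PosD ⟨⟨0, 1, 1⟩, ⟨98, 99, 147⟩, ⟨6282, 7026, 30000⟩, ⟨1346, 1467, 1000⟩⟩ (tC37.hEL false) :=
  posD_of_check (c := ⟨314, ⟨5, 6, 11, 6⟩⟩) (by decide +kernel)

def tC37_eH0 : PosD ⟨⟨0, 1, 1⟩, ⟨98, 99, 147⟩, ⟨6282, 7026, 30000⟩, ⟨1346, 1467, 1000⟩⟩ (tC37.hEH false) :=
  posD_of_check (c := ⟨313, ⟨5, 6, 11, 6⟩⟩) (by decide +kernel)

def tC37_pL0 : PosD ⟨⟨0, 1, 1⟩, ⟨98, 99, 147⟩, ⟨6282, 7026, 30000⟩, ⟨1346, 1467, 1000⟩⟩ (tC37.hPL false) :=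
  posD_of_check (c := ⟨339, ⟨5, 6, 11, 7⟩⟩) (by decide +kernel)

def tC37_pU0 : PosD ⟨⟨0, 1, 1⟩, ⟨98, 99, 147⟩, ⟨6282, 7026, 30000⟩, ⟨1346, 1467, 1000⟩⟩ (tC37.hPU false) :=
  posD_of_check (c := ⟨338, ⟨5, 6, 11, 7⟩⟩) (by decide +kernel)

def tC37_kU0 : PosD ⟨⟨0, 1, 1⟩, ⟨98, 99, 147⟩, ⟨6282, 7026, 30000⟩, ⟨1346, 1467, 1000⟩⟩ (tC37.hKU false) :=
  posD_of_check (c := ⟨335, ⟨5, 6, 11, 7⟩⟩) (by decide +kernel)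

def tC37_kL0 : PosD ⟨⟨0, 1, 1⟩, ⟨98, 99, 147⟩, ⟨6282, 7026, 30000⟩, ⟨1346, 1467, 1000⟩⟩ (tC37.hKL false) :=
  posD_of_check (c := ⟨335, ⟨5, 6, 11, 7⟩⟩) (by decide +kernel)

def tC37_wU0 : PosD ⟨⟨0, 1, 1⟩, ⟨98, 99, 147⟩, ⟨6282, 7026, 30000⟩, ⟨1346, 1467, 1000⟩⟩ (tC37.hWU false) :=
  posD_of_check (c := ⟨370, ⟨5, 8, 12, 7⟩⟩) (by decide +kernel)

def tC37_wL0 : PosD ⟨⟨0, 1, 1⟩, ⟨98, 99, 147⟩, ⟨6282, 7026, 30000⟩, ⟨1346, 1467, 1000⟩⟩ (tC37.hWL false) :=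
  posD_of_check (c := ⟨370, ⟨5, 8, 12, 7⟩⟩) (by decide +kernel)

def tC37_ev1 : PosD ⟨⟨0, 1, 1⟩, ⟨98, 99, 147⟩, ⟨6282, 7026, 30000⟩, ⟨1346, 1467, 1000⟩⟩ (tC37.hEv true) :=
  posD_of_check (c := ⟨217, ⟨4, 2, 8, 4⟩⟩) (by decide +kernel)

def tC37_zL1 : PosD ⟨⟨0, 1, 1⟩, ⟨98, 99, 147⟩, ⟨6282, 7026, 30000⟩, ⟨1346, 1467, 1000⟩⟩ (tC37.hZL true) :=
  posD_of_check (c := ⟨219, ⟨4, 3, 8, 4⟩⟩) (by decide +kernel)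

def tC37_zU1 : PosD ⟨⟨0, 1, 1⟩, ⟨98, 99, 147⟩, ⟨6282, 7026, 30000⟩, ⟨1346, 1467, 1000⟩⟩ (tC37.hZU true) :=
  posD_of_check (c := ⟨219, ⟨4, 3, 8, 4⟩⟩) (by decide +kernel)

def tC37_eL1 : PosD ⟨⟨0, 1, 1⟩, ⟨98, 99, 147⟩, ⟨6282, 7026, 30000⟩, ⟨1346, 1467, 1000⟩⟩ (tC37.hEL true) :=
  posD_of_check (c := ⟨312, ⟨5, 6, 11, 6⟩⟩) (by decide +kernel)

def tC37_eH1 : PosD ⟨⟨0, 1, 1⟩, ⟨98, 99, 147⟩, ⟨6282, 7026, 30000⟩, ⟨1346, 1467, 1000⟩⟩ (tC37.hEH true) :=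
  posD_of_check (c := ⟨312, ⟨5, 6, 11, 6⟩⟩) (by decide +kernel)

def tC37_pL1 : PosD ⟨⟨0, 1, 1⟩, ⟨98, 99, 147⟩, ⟨6282, 7026, 30000⟩, ⟨1346, 1467, 1000⟩⟩ (tC37.hPL true) :=
  posD_of_check (c := ⟨337, ⟨5, 6, 11, 7⟩⟩) (by decide +kernel)

def tC37_pU1 : PosD ⟨⟨0, 1, 1⟩, ⟨98, 99, 147⟩, ⟨6282, 7026, 30000⟩, ⟨1346, 1467, 1000⟩⟩ (tC37.hPU true) :=
  posD_of_check (c := ⟨337, ⟨5, 6, 11, 7⟩⟩) (by decide +kernel)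

def tC37_kU1 : PosD ⟨⟨0, 1, 1⟩, ⟨98, 99, 147⟩, ⟨6282, 7026, 30000⟩, ⟨1346, 1467, 1000⟩⟩ (tC37.hKU true) :=
  posD_of_check (c := ⟨334, ⟨5, 6, 11, 7⟩⟩) (by decide +kernel)

def tC37_kL1 : PosD ⟨⟨0, 1, 1⟩, ⟨98, 99, 147⟩, ⟨6282, 7026, 30000⟩, ⟨1346, 1467, 1000⟩⟩ (tC37.hKL true) :=
  posD_of_check (c := ⟨334, ⟨5, 6, 11, 7⟩⟩) (by decide +kernel)

def tC37_wU1 : PosD ⟨⟨0, 1, 1⟩, ⟨98, 99, 147⟩, ⟨6282, 7026, 30000⟩, ⟨1346, 1467, 1000⟩⟩ (tC37.hWU true) :=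
  posD_of_check (c := ⟨369, ⟨5, 8, 12, 7⟩⟩) (by decide +kernel)

def tC37_wL1 : PosD ⟨⟨0, 1, 1⟩, ⟨98, 99, 147⟩, ⟨6282, 7026, 30000⟩, ⟨1346, 1467, 1000⟩⟩ (tC37.hWL true) :=
  posD_of_check (c := ⟨368, ⟨5, 8, 12, 7⟩⟩) (by decide +kernel)

/-- The bounds of the piece. -/
def tC37_env : tC37.Env ⟨⟨0, 1, 1⟩, ⟨98, 99, 147⟩, ⟨6282, 7026, 30000⟩, ⟨1346, 1467, 1000⟩⟩ :=
  ⟨tC37_p0, Bool.forall_bool.2 ⟨tC37_den0, tC37_den1⟩, tC37_gn, Bool.forall_bool.2 ⟨tC37_ev0, tC37_ev1⟩, Bool.forall_bool.2 ⟨tC37_zL0, tC37_zL1⟩, Bool.forall_bool.2 ⟨tC37_zU0, tC37_zU1⟩, Bool.forall_bool.2 ⟨tC37_eL0, tC37_eL1⟩, ⟨.inr rfl, .inr rfl⟩, Bool.forall_bool.2 ⟨tC37_eH0, tC37_eH1⟩, ⟨.inr rfl, .inr rfl⟩, Bool.forall_bool.2 ⟨tC37_pL0, tC37_pL1⟩, ⟨.inr rfl, .inr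 rfl⟩, Bool.forall_bool.2 ⟨tC37_pU0, tC37_pU1⟩, ⟨.inr rfl, .inr rfl⟩, Bool.forall_bool.2 ⟨tC37_kU0, tC37_kU1⟩, ⟨.inr rfl, .inr rfl⟩, Bool.forall_bool.2 ⟨tC37_kL0, tC37_kL1⟩, ⟨.inr rfl, .inr rfl⟩, Bool.forall_bool.2 ⟨tC37_wU0, tC37_wU1⟩, ⟨.inr rfl, .inr rfl⟩, Bool.forall_bool.2 ⟨tC37_wL0, tC37_wL1⟩, ⟨.inr rfl, .inr rfl⟩⟩

def tC37_pp : PosD ⟨⟨0, 1, 1⟩, ⟨98, 99, 147⟩, ⟨6282, 7026, 30000⟩, ⟨1346, 1467, 1000⟩⟩ (tC37.xPL) :=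
  posD_of_check (c := ⟨95, ⟨1, 1, 3, 3⟩⟩) (by decide +kernel)

def tC37_k2p : PosD ⟨⟨0, 1, 1⟩, ⟨98, 99, 147⟩, ⟨6282, 7026, 30000⟩, ⟨1346, 1467, 1000⟩⟩ (tC37.k2p tC37.xE) :=
  posD_of_check (c := ⟨69, ⟨1, 1, 2, 2⟩⟩) (by decide +kernel)

def tC37_k2m : PosD ⟨⟨0, 1, 1⟩, ⟨98, 99, 147⟩, ⟨6282, 7026, 30000⟩, ⟨1346, 1467, 1000⟩⟩ (tC37.k2m tC37.xE) :=
  posD_of_check (c := ⟨68, ⟨1, 1, 2, 2⟩⟩) (by decide +kernel)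

def tC37_v2p : PosD ⟨⟨0, 1, 1⟩, ⟨98, 99, 147⟩, ⟨6282, 7026, 30000⟩, ⟨1346, 1467, 1000⟩⟩ (tC37.hV2p) :=
  posD_of_check (c := ⟨269, ⟨1, 6, 10, 5⟩⟩) (by decide +kernel)

def tC37_v2m : PosD ⟨⟨0, 1, 1⟩, ⟨98, 99, 147⟩, ⟨6282, 7026, 30000⟩, ⟨1346, 1467, 1000⟩⟩ (tC37.hV2m) :=
  posD_of_check (c := ⟨269, ⟨1, 6, 10, 5⟩⟩) (by decide +kernel)

def tC37_v3p : PosD ⟨⟨0, 1, 1⟩, ⟨98, 99, 147⟩, ⟨6282, 7026, 30000⟩, ⟨1346, 1467, 1000⟩⟩ (tC37.hV3p) :=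
  posD_of_check (c := ⟨255, ⟨1, 6, 9, 5⟩⟩) (by decide +kernel)

def tC37_v3m : PosD ⟨⟨0, 1, 1⟩, ⟨98, 99, 147⟩, ⟨6282, 7026, 30000⟩, ⟨1346, 1467, 1000⟩⟩ (tC37.hV3m) :=
  posD_of_check (c := ⟨255, ⟨1, 6, 9, 5⟩⟩) (by decide +kernel)

def tC37_kap0 : PosD ⟨⟨0, 1, 1⟩, ⟨98, 99, 147⟩, ⟨6282, 7026, 30000⟩, ⟨1346, 1467, 1000⟩⟩ (tC37.kap false) :=
  posD_of_check (c := ⟨70, ⟨1, 1, 2, 2⟩⟩) (by decide +kernel)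

def tC37_c10 : PosD ⟨⟨0, 1, 1⟩, ⟨98, 99, 147⟩, ⟨6282, 7026, 30000⟩, ⟨1346, 1467, 1000⟩⟩ (tC37.hC1 false) :=
  posD_of_check (c := ⟨273, ⟨3, 5, 9, 7⟩⟩) (by decide +kernel)

def tC37_c1h0 : PosD ⟨⟨0, 1, 1⟩, ⟨98, 99, 147⟩, ⟨6282, 7026, 30000⟩, ⟨1346, 1467, 1000⟩⟩ (tC37.hC1' false) :=
  posD_of_check (c := ⟨273, ⟨3, 5, 9, 7⟩⟩) (by decide +kernel)

def tC37_tg00 : PosD ⟨⟨0, 1, 1⟩, ⟨98, 99, 147⟩, ⟨6282, 7026, 30000⟩, ⟨1346, 1467, 1000⟩⟩ (tC37.hG false (tC37.pEnd false)) :=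
  posD_of_check (c := ⟨387, ⟨2, 7, 14, 9⟩⟩) (by decide +kernel)

def tC37_c2p00 : PosD ⟨⟨0, 1, 1⟩, ⟨98, 99, 147⟩, ⟨6282, 7026, 30000⟩, ⟨1346, 1467, 1000⟩⟩ (tC37.hC2p false (tC37.pEnd false)) :=
  posD_of_check (c := ⟨456, ⟨3, 8, 16, 11⟩⟩) (by decide +kernel)

def tC37_c2m00 : PosD ⟨⟨0, 1, 1⟩, ⟨98, 99, 147⟩, ⟨6282, 7026, 30000⟩, ⟨1346, 1467, 1000⟩⟩ (tC37.hC2m false (tC37.pEnd false)) :=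
  posD_of_check (c := ⟨455, ⟨3, 8, 16, 11⟩⟩) (by decide +kernel)

def tC37_c3p00 : PosD ⟨⟨0, 1, 1⟩, ⟨98, 99, 147⟩, ⟨6282, 7026, 30000⟩, ⟨1346, 1467, 1000⟩⟩ (tC37.hC3p false false) :=
  posD_of_check (c := ⟨444, ⟨3, 8, 15, 11⟩⟩) (by decide +kernel)

def tC37_c3m00 : PosD ⟨⟨0, 1, 1⟩, ⟨98, 99, 147⟩, ⟨6282, 7026, 30000⟩, ⟨1346, 1467, 1000⟩⟩ (tC37.hC3m false false) :=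
  posD_of_check (c := ⟨444, ⟨3, 8, 15, 11⟩⟩) (by decide +kernel)

def tC37_c3ph00 : PosD ⟨⟨0, 1, 1⟩, ⟨98, 99, 147⟩, ⟨6282, 7026, 30000⟩, ⟨1346, 1467, 1000⟩⟩ (tC37.hC3p' false false) :=
  posD_of_check (c := ⟨444, ⟨3, 8, 15, 11⟩⟩) (by decide +kernel)

def tC37_c3mh00 : PosD ⟨⟨0, 1, 1⟩, ⟨98, 99, 147⟩, ⟨6282, 7026, 30000⟩, ⟨1346, 1467, 1000⟩⟩ (tC37.hC3m' false false) :=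
  posD_of_check (c := ⟨444, ⟨3, 8, 15, 11⟩⟩) (by decide +kernel)

def tC37_up00 : PosD ⟨⟨0, 1, 1⟩, ⟨98, 99, 147⟩, ⟨6282, 7026, 30000⟩, ⟨1346, 1467, 1000⟩⟩ (tC37.hUp false false) :=
  posD_of_check (c := ⟨442, ⟨3, 8, 15, 11⟩⟩) (by decide +kernel)

def tC37_um00 : PosD ⟨⟨0, 1, 1⟩, ⟨98, 99, 147⟩, ⟨6282, 7026, 30000⟩, ⟨1346, 1467, 1000⟩⟩ (tC37.hUm false false) :=
  posD_of_check (c := ⟨442, ⟨3, 8, 15, 11⟩⟩) (by decide +kernel)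

def tC37_tmg00 : PosD ⟨⟨0, 1, 1⟩, ⟨98, 99, 147⟩, ⟨6282, 7026, 30000⟩, ⟨1346, 1467, 1000⟩⟩ (tC37.hTMG false (tC37.pEnd false)) :=
  posD_of_check (c := ⟨401, ⟨2, 7, 14, 10⟩⟩) (by decide +kernel)

def tC37_tg01 : PosD ⟨⟨0, 1, 1⟩, ⟨98, 99, 147⟩, ⟨6282, 7026, 30000⟩, ⟨1346, 1467, 1000⟩⟩ (tC37.hG true (tC37.pEnd false)) :=
  posD_of_check (c := ⟨387, ⟨2, 7, 14, 9⟩⟩) (by decide +kernel)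

def tC37_c2p01 : PosD ⟨⟨0, 1, 1⟩, ⟨98, 99, 147⟩, ⟨6282, 7026, 30000⟩, ⟨1346, 1467, 1000⟩⟩ (tC37.hC2p true (tC37.pEnd false)) :=
  posD_of_check (c := ⟨456, ⟨3, 8, 16, 11⟩⟩) (by decide +kernel)

def tC37_c2m01 : PosD ⟨⟨0, 1, 1⟩, ⟨98, 99, 147⟩, ⟨6282, 7026, 30000⟩, ⟨1346, 1467, 1000⟩⟩ (tC37.hC2m true (tC37.pEnd false)) :=
  posD_of_check (c := ⟨455, ⟨3, 8, 16, 11⟩⟩) (by decide +kernel)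

def tC37_c3p01 : PosD ⟨⟨0, 1, 1⟩, ⟨98, 99, 147⟩, ⟨6282, 7026, 30000⟩, ⟨1346, 1467, 1000⟩⟩ (tC37.hC3p false true) :=
  posD_of_check (c := ⟨444, ⟨3, 8, 15, 11⟩⟩) (by decide +kernel)

def tC37_c3m01 : PosD ⟨⟨0, 1, 1⟩, ⟨98, 99, 147⟩, ⟨6282, 7026, 30000⟩, ⟨1346, 1467, 1000⟩⟩ (tC37.hC3m false true) :=
  posD_of_check (c := ⟨444, ⟨3, 8, 15, 11⟩⟩) (by decide +kernel)

def tC37_c3ph01 : PosD ⟨⟨0, 1, 1⟩, ⟨98, 99, 147⟩, ⟨6282, 7026, 30000⟩, ⟨1346, 1467, 1000⟩⟩ (tC37.hC3p' false true) :=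
  posD_of_check (c := ⟨444, ⟨3, 8, 15, 11⟩⟩) (by decide +kernel)

def tC37_c3mh01 : PosD ⟨⟨0, 1, 1⟩, ⟨98, 99, 147⟩, ⟨6282, 7026, 30000⟩, ⟨1346, 1467, 1000⟩⟩ (tC37.hC3m' false true) :=
  posD_of_check (c := ⟨444, ⟨3, 8, 15, 11⟩⟩) (by decide +kernel)

def tC37_up01 : PosD ⟨⟨0, 1, 1⟩, ⟨98, 99, 147⟩, ⟨6282, 7026, 30000⟩, ⟨1346, 1467, 1000⟩⟩ (tC37.hUp false true) :=
  posD_of_check (c := ⟨442, ⟨3, 8, 15, 11⟩⟩) (by decide +kernel)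

def tC37_um01 : PosD ⟨⟨0, 1, 1⟩, ⟨98, 99, 147⟩, ⟨6282, 7026, 30000⟩, ⟨1346, 1467, 1000⟩⟩ (tC37.hUm false true) :=
  posD_of_check (c := ⟨442, ⟨3, 8, 15, 11⟩⟩) (by decide +kernel)

def tC37_tmg01 : PosD ⟨⟨0, 1, 1⟩, ⟨98, 99, 147⟩, ⟨6282, 7026, 30000⟩, ⟨1346, 1467, 1000⟩⟩ (tC37.hTMG true (tC37.pEnd false)) :=
  posD_of_check (c := ⟨401, ⟨2, 7, 14, 10⟩⟩) (by decide +kernel)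

def tC37_kap1 : PosD ⟨⟨0, 1, 1⟩, ⟨98, 99, 147⟩, ⟨6282, 7026, 30000⟩, ⟨1346, 1467, 1000⟩⟩ (tC37.kap true) :=
  posD_of_check (c := ⟨73, ⟨1, 1, 2, 2⟩⟩) (by decide +kernel)

def tC37_c11 : PosD ⟨⟨0, 1, 1⟩, ⟨98, 99, 147⟩, ⟨6282, 7026, 30000⟩, ⟨1346, 1467, 1000⟩⟩ (tC37.hC1 true) :=
  posD_of_check (c := ⟨275, ⟨3, 5, 9, 7⟩⟩) (by decide +kernel)

def tC37_c1h1 : PosD ⟨⟨0, 1, 1⟩, ⟨98, 99, 147⟩, ⟨6282, 7026, 30000⟩, ⟨1346, 1467, 1000⟩⟩ (tC37.hC1' true) :=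
  posD_of_check (c := ⟨275, ⟨3, 5, 9, 7⟩⟩) (by decide +kernel)

def tC37_tg10 : PosD ⟨⟨0, 1, 1⟩, ⟨98, 99, 147⟩, ⟨6282, 7026, 30000⟩, ⟨1346, 1467, 1000⟩⟩ (tC37.hG false (tC37.pEnd true)) :=
  posD_of_check (c := ⟨385, ⟨2, 7, 14, 9⟩⟩) (by decide +kernel)

def tC37_c2p10 : PosD ⟨⟨0, 1, 1⟩, ⟨98, 99, 147⟩, ⟨6282, 7026, 30000⟩, ⟨1346, 1467, 1000⟩⟩ (tC37.hC2p false (tC37.pEnd true)) :=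
  posD_of_check (c := ⟨454, ⟨3, 8, 16, 11⟩⟩) (by decide +kernel)

def tC37_c2m10 : PosD ⟨⟨0, 1, 1⟩, ⟨98, 99, 147⟩, ⟨6282, 7026, 30000⟩, ⟨1346, 1467, 1000⟩⟩ (tC37.hC2m false (tC37.pEnd true)) :=
  posD_of_check (c := ⟨454, ⟨3, 8, 16, 11⟩⟩) (by decide +kernel)

def tC37_c3p10 : PosD ⟨⟨0, 1, 1⟩, ⟨98, 99, 147⟩, ⟨6282, 7026, 30000⟩, ⟨1346, 1467, 1000⟩⟩ (tC37.hC3p true false) :=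
  posD_of_check (c := ⟨446, ⟨3, 8, 15, 11⟩⟩) (by decide +kernel)

def tC37_c3m10 : PosD ⟨⟨0, 1, 1⟩, ⟨98, 99, 147⟩, ⟨6282, 7026, 30000⟩, ⟨1346, 1467, 1000⟩⟩ (tC37.hC3m true false) :=
  posD_of_check (c := ⟨446, ⟨3, 8, 15, 11⟩⟩) (by decide +kernel)

def tC37_c3ph10 : PosD ⟨⟨0, 1, 1⟩, ⟨98, 99, 147⟩, ⟨6282, 7026, 30000⟩, ⟨1346, 1467, 1000⟩⟩ (tC37.hC3p' true false) :=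
  posD_of_check (c := ⟨446, ⟨3, 8, 15, 11⟩⟩) (by decide +kernel)

def tC37_c3mh10 : PosD ⟨⟨0, 1, 1⟩, ⟨98, 99, 147⟩, ⟨6282, 7026, 30000⟩, ⟨1346, 1467, 1000⟩⟩ (tC37.hC3m' true false) :=
  posD_of_check (c := ⟨446, ⟨3, 8, 15, 11⟩⟩) (by decide +kernel)

def tC37_up10 : PosD ⟨⟨0, 1, 1⟩, ⟨98, 99, 147⟩, ⟨6282, 7026, 30000⟩, ⟨1346, 1467, 1000⟩⟩ (tC37.hUp true false) :=
  posD_of_check (c := ⟨441, ⟨3, 8, 15, 11⟩⟩) (by decide +kernel)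

def tC37_um10 : PosD ⟨⟨0, 1, 1⟩, ⟨98, 99, 147⟩, ⟨6282, 7026, 30000⟩, ⟨1346, 1467, 1000⟩⟩ (tC37.hUm true false) :=
  posD_of_check (c := ⟨441, ⟨3, 8, 15, 11⟩⟩) (by decide +kernel)

def tC37_tmg10 : PosD ⟨⟨0, 1, 1⟩, ⟨98, 99, 147⟩, ⟨6282, 7026, 30000⟩, ⟨1346, 1467, 1000⟩⟩ (tC37.hTMG false (tC37.pEnd true)) :=
  posD_of_check (c := ⟨400, ⟨2, 7, 14, 10⟩⟩) (by decide +kernel)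

def tC37_tg11 : PosD ⟨⟨0, 1, 1⟩, ⟨98, 99, 147⟩, ⟨6282, 7026, 30000⟩, ⟨1346, 1467, 1000⟩⟩ (tC37.hG true (tC37.pEnd true)) :=
  posD_of_check (c := ⟨385, ⟨2, 7, 14, 9⟩⟩) (by decide +kernel)

def tC37_c2p11 : PosD ⟨⟨0, 1, 1⟩, ⟨98, 99, 147⟩, ⟨6282, 7026, 30000⟩, ⟨1346, 1467, 1000⟩⟩ (tC37.hC2p true (tC37.pEnd true)) :=
  posD_of_check (c := ⟨454, ⟨3, 8, 16, 11⟩⟩) (by decide +kernel)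

def tC37_c2m11 : PosD ⟨⟨0, 1, 1⟩, ⟨98, 99, 147⟩, ⟨6282, 7026, 30000⟩, ⟨1346, 1467, 1000⟩⟩ (tC37.hC2m true (tC37.pEnd true)) :=
  posD_of_check (c := ⟨454, ⟨3, 8, 16, 11⟩⟩) (by decide +kernel)

def tC37_c3p11 : PosD ⟨⟨0, 1, 1⟩, ⟨98, 99, 147⟩, ⟨6282, 7026, 30000⟩, ⟨1346, 1467, 1000⟩⟩ (tC37.hC3p true true) :=
  posD_of_check (c := ⟨446, ⟨3, 8, 15, 11⟩⟩) (by decide +kernel)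

def tC37_c3m11 : PosD ⟨⟨0, 1, 1⟩, ⟨98, 99, 147⟩, ⟨6282, 7026, 30000⟩, ⟨1346, 1467, 1000⟩⟩ (tC37.hC3m true true) :=
  posD_of_check (c := ⟨446, ⟨3, 8, 15, 11⟩⟩) (by decide +kernel)

def tC37_c3ph11 : PosD ⟨⟨0, 1, 1⟩, ⟨98, 99, 147⟩, ⟨6282, 7026, 30000⟩, ⟨1346, 1467, 1000⟩⟩ (tC37.hC3p' true true) :=
  posD_of_check (c := ⟨446, ⟨3, 8, 15, 11⟩⟩) (by decide +kernel)

def tC37_c3mh11 : PosD ⟨⟨0, 1, 1⟩, ⟨98, 99, 147⟩, ⟨6282, 7026, 30000⟩, ⟨1346, 1467, 1000⟩⟩ (tC37.hC3m' true true) :=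
  posD_of_check (c := ⟨446, ⟨3, 8, 15, 11⟩⟩) (by decide +kernel)

def tC37_up11 : PosD ⟨⟨0, 1, 1⟩, ⟨98, 99, 147⟩, ⟨6282, 7026, 30000⟩, ⟨1346, 1467, 1000⟩⟩ (tC37.hUp true true) :=
  posD_of_check (c := ⟨441, ⟨3, 8, 15, 11⟩⟩) (by decide +kernel)

def tC37_um11 : PosD ⟨⟨0, 1, 1⟩, ⟨98, 99, 147⟩, ⟨6282, 7026, 30000⟩, ⟨1346, 1467, 1000⟩⟩ (tC37.hUm true true) :=
  posD_of_check (c := ⟨441, ⟨3, 8, 15, 11⟩⟩) (by decide +kernel)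

def tC37_tmg11 : PosD ⟨⟨0, 1, 1⟩, ⟨98, 99, 147⟩, ⟨6282, 7026, 30000⟩, ⟨1346, 1467, 1000⟩⟩ (tC37.hTMG true (tC37.pEnd true)) :=
  posD_of_check (c := ⟨400, ⟨2, 7, 14, 10⟩⟩) (by decide +kernel)

/-- The signs of the piece. -/
def tC37_sign : tC37.Sign ⟨⟨0, 1, 1⟩, ⟨98, 99, 147⟩, ⟨6282, 7026, 30000⟩, ⟨1346, 1467, 1000⟩⟩ :=
  ⟨tC37_pp,
    tC37_k2p,
    tC37_k2m,
    Bool.forall_bool.2 ⟨(Bool.forall_bool.2 ⟨tC37_tg00, tC37_tg01⟩), (Bool.forall_bool.2 ⟨tC37_tg10, tC37_tg11⟩)⟩,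
    Bool.forall_bool.2 ⟨(Bool.forall_bool.2 ⟨tC37_c2p00, tC37_c2p01⟩), (Bool.forall_bool.2 ⟨tC37_c2p10, tC37_c2p11⟩)⟩,
    Bool.forall_bool.2 ⟨(Bool.forall_bool.2 ⟨tC37_c2m00, tC37_c2m01⟩), (Bool.forall_bool.2 ⟨tC37_c2m10, tC37_c2m11⟩)⟩,
    Bool.forall_bool.2 ⟨tC37_kap0, tC37_kap1⟩,
    Bool.forall_bool.2 ⟨tC37_c10, tC37_c11⟩,
    Bool.forall_bool.2 ⟨(Bool.forall_bool.2 ⟨tC37_c3p00, tC37_c3p01⟩), (Bool.forall_bool.2 ⟨tC37_c3p10, tC37_c3p11⟩)⟩,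
    Bool.forall_bool.2 ⟨(Bool.forall_bool.2 ⟨tC37_c3m00, tC37_c3m01⟩), (Bool.forall_bool.2 ⟨tC37_c3m10, tC37_c3m11⟩)⟩,
    Bool.forall_bool.2 ⟨(Bool.forall_bool.2 ⟨tC37_tmg00, tC37_tmg01⟩), (Bool.forall_bool.2 ⟨tC37_tmg10, tC37_tmg11⟩)⟩,
    .inr (Bool.forall_bool.2 ⟨⟨tC37_c1h0, Bool.forall_bool.2 ⟨⟨tC37_c3ph00, tC37_c3mh00, tC37_up00, tC37_um00⟩, ⟨tC37_c3ph01, tC37_c3mh01, tC37_up01, tC37_um01⟩⟩⟩, ⟨tC37_c1h1, Bool.forall_bool.2 ⟨⟨tC37_c3ph10, tC37_c3mh10, tC37_up10, tC37_um10⟩, ⟨tC37_c3ph11, tC37_c3mh11, tC37_up11, tC37_um11⟩⟩⟩⟩),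
    tC37_v2p,
    tC37_v2m,
    tC37_v3p,
    tC37_v3m,
    posD_sub (b := ⟨⟨0, 1, 1⟩, ⟨98, 99, 147⟩, ⟨4050, 10000, 30000⟩, ⟨290, 4000, 1000⟩⟩) (by decide +kernel) tC_vG,
    posD_sub (b := ⟨⟨0, 1, 1⟩, ⟨98, 99, 147⟩, ⟨4050, 10000, 30000⟩, ⟨290, 4000, 1000⟩⟩) (by decide +kernel) tC_vMG,
    posD_sub (b := ⟨⟨0, 1, 1⟩, ⟨98, 99, 147⟩, ⟨4050, 10000, 30000⟩, ⟨290, 4000, 1000⟩⟩) (by decide +kernel) tC_ak,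
    posD_sub (b := ⟨⟨0, 1, 1⟩, ⟨98, 99, 147⟩, ⟨4050, 10000, 30000⟩, ⟨290, 4000, 1000⟩⟩) (by decide +kernel) tC_aw,
    posD_sub (b := ⟨⟨0, 1, 1⟩, ⟨98, 99, 147⟩, ⟨4050, 10000, 30000⟩, ⟨290, 4000, 1000⟩⟩) (by decide +kernel) tC_gk,
    posD_sub (b := ⟨⟨0, 1, 1⟩, ⟨98, 99, 147⟩, ⟨4050, 10000, 30000⟩, ⟨290, 4000, 1000⟩⟩) (by decide +kernel) tC_gw,
    posD_sub (b := ⟨⟨0, 1, 1⟩, ⟨98, 99, 147⟩, ⟨4050, 10000, 30000⟩, ⟨290, 4000, 1000⟩⟩) (by decide +kernel) tC_ek,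
    posD_sub (b := ⟨⟨0, 1, 1⟩, ⟨98, 99, 147⟩, ⟨4050, 10000, 30000⟩, ⟨290, 4000, 1000⟩⟩) (by decide +kernel) tC_ew⟩

end Vale.Agent.P100.Calib.Closed.Six.Tail
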