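import Vale.Agent.P100.Calib.SlabSixTailDataC
import Vale.Agent.P100.Calib.SlabSixTailGlobC

/-!
# Checks of some pieces of the certificate

The checks are written as definitions so that they run one after another, which keeps the memory of the
kernel low.
-/

set_option linter.defProp false

namespace Vale.Agent.P100.Calib.Closed.Six.Tail

open BoxPos Large

local instance sixTailCheckstC26Add : Add Ex := ⟨Ex.add⟩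
local instance sixTailCheckstC26Sub : Sub Ex := ⟨Ex.sub⟩
local instance sixTailCheckstC26Mul : Mul Ex := ⟨Ex.mul⟩

def tC38_phx : PosIf ⟨⟨0, 1, 1⟩, ⟨98, 99, 147⟩, ⟨6282, 6654, 30000⟩, ⟨1467, 1599, 1000⟩⟩ (tC38.u₁ - tC38Lo) (phCn (tC38.u₁ + xO * (tC38Lo - tC38.u₁))) :=
  posIf_of_posD (posD_of_check (c := ⟨108, ⟨2, 0, 4, 2⟩⟩) (by decide +kernel))

def tC38_phd : PosD ⟨⟨0, 1, 1⟩, ⟨98, 99, 147⟩, ⟨6282, 6654, 30000⟩, ⟨1467, 1599, 1000⟩⟩ (phCd (tC38.u₁ + xO * (tC38Lo - tC38.u₁))) :=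
  posD_of_check (c := ⟨51, ⟨1, 0, 2, 1⟩⟩) (by decide +kernel)

def tC38_p0 : PosD ⟨⟨0, 1, 1⟩, ⟨98, 99, 147⟩, ⟨6282, 6654, 30000⟩, ⟨1467, 1599, 1000⟩⟩ (tC38.hP0) :=
  posD_of_check (c := ⟨83, ⟨0, 2, 3, 1⟩⟩) (by decide +kernel)

def tC38_gn : PosD ⟨⟨0, 1, 1⟩, ⟨98, 99, 147⟩, ⟨6282, 6654, 30000⟩, ⟨1467, 1599, 1000⟩⟩ (tC38.hGn) :=
  posD_of_check (c := ⟨69, ⟨1, 1, 2, 2⟩⟩) (by decide +kernel)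

def tC38_den0 : PosD ⟨⟨0, 1, 1⟩, ⟨98, 99, 147⟩, ⟨6282, 6654, 30000⟩, ⟨1467, 1599, 1000⟩⟩ (tC38.hDen false) :=
  posD_of_check (c := ⟨51, ⟨1, 0, 2, 1⟩⟩) (by decide +kernel)

def tC38_den1 : PosD ⟨⟨0, 1, 1⟩, ⟨98, 99, 147⟩, ⟨6282, 6654, 30000⟩, ⟨1467, 1599, 1000⟩⟩ (tC38.hDen true) :=
  posD_of_check (c := ⟨51, ⟨1, 0, 2, 1⟩⟩) (by decide +kernel)

def tC38_ev0 : PosD ⟨⟨0, 1, 1⟩, ⟨98, 99, 147⟩, ⟨6282, 6654, 30000⟩, ⟨1467, 1599, 1000⟩⟩ (tC38.hEv false) :=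
  posD_of_check (c := ⟨219, ⟨4, 2, 8, 4⟩⟩) (by decide +kernel)

def tC38_zL0 : PosD ⟨⟨0, 1, 1⟩, ⟨98, 99, 147⟩, ⟨6282, 6654, 30000⟩, ⟨1467, 1599, 1000⟩⟩ (tC38.hZL false) :=
  posD_of_check (c := ⟨220, ⟨4, 3, 8, 4⟩⟩) (by decide +kernel)

def tC38_zU0 : PosD ⟨⟨0, 1, 1⟩, ⟨98, 99, 147⟩, ⟨6282, 6654, 30000⟩, ⟨1467, 1599, 1000⟩⟩ (tC38.hZU false) :=
  posD_of_check (c := ⟨221, ⟨4, 3, 8, 4⟩⟩) (by decide +kernel)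

def tC38_eL0 : PosD ⟨⟨0, 1, 1⟩, ⟨98, 99, 147⟩, ⟨6282, 6654, 30000⟩, ⟨1467, 1599, 1000⟩⟩ (tC38.hEL false) :=
  posD_of_check (c := ⟨314, ⟨5, 6, 11, 6⟩⟩) (by decide +kernel)

def tC38_eH0 : PosD ⟨⟨0, 1, 1⟩, ⟨98, 99, 147⟩, ⟨6282, 6654, 30000⟩, ⟨1467, 1599, 1000⟩⟩ (tC38.hEH false) :=
  posD_of_check (c := ⟨313, ⟨5, 6, 11, 6⟩⟩) (by decide +kernel)

def tC38_pL0 : PosD ⟨⟨0, 1, 1⟩, ⟨98, 99, 147⟩, ⟨6282, 6654, 30000⟩, ⟨1467, 1599, 1000⟩⟩ (tC38.hPL false) :=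
  posD_of_check (c := ⟨339, ⟨5, 6, 11, 7⟩⟩) (by decide +kernel)

def tC38_pU0 : PosD ⟨⟨0, 1, 1⟩, ⟨98, 99, 147⟩, ⟨6282, 6654, 30000⟩, ⟨1467, 1599, 1000⟩⟩ (tC38.hPU false) :=
  posD_of_check (c := ⟨341, ⟨5, 6, 11, 7⟩⟩) (by decide +kernel)

def tC38_kU0 : PosD ⟨⟨0, 1, 1⟩, ⟨98, 99, 147⟩, ⟨6282, 6654, 30000⟩, ⟨1467, 1599, 1000⟩⟩ (tC38.hKU false) :=
  posD_of_check (c := ⟨336, ⟨5, 6, 11, 7⟩⟩) (by decide +kernel)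

def tC38_kL0 : PosD ⟨⟨0, 1, 1⟩, ⟨98, 99, 147⟩, ⟨6282, 6654, 30000⟩, ⟨1467, 1599, 1000⟩⟩ (tC38.hKL false) :=
  posD_of_check (c := ⟨335, ⟨5, 6, 11, 7⟩⟩) (by decide +kernel)

def tC38_wU0 : PosD ⟨⟨0, 1, 1⟩, ⟨98, 99, 147⟩, ⟨6282, 6654, 30000⟩, ⟨1467, 1599, 1000⟩⟩ (tC38.hWU false) :=
  posD_of_check (c := ⟨370, ⟨5, 8, 12, 7⟩⟩) (by decide +kernel)

def tC38_wL0 : PosD ⟨⟨0, 1, 1⟩, ⟨98, 99, 147⟩, ⟨6282, 6654, 30000⟩, ⟨1467, 1599, 1000⟩⟩ (tC38.hWL false) :=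
  posD_of_check (c := ⟨370, ⟨5, 8, 12, 7⟩⟩) (by decide +kernel)

def tC38_ev1 : PosD ⟨⟨0, 1, 1⟩, ⟨98, 99, 147⟩, ⟨6282, 6654, 30000⟩, ⟨1467, 1599, 1000⟩⟩ (tC38.hEv true) :=
  posD_of_check (c := ⟨217, ⟨4, 2, 8, 4⟩⟩) (by decide +kernel)

def tC38_zL1 : PosD ⟨⟨0, 1, 1⟩, ⟨98, 99, 147⟩, ⟨6282, 6654, 30000⟩, ⟨1467, 1599, 1000⟩⟩ (tC38.hZL true) :=
  posD_of_check (c := ⟨219, ⟨4, 3, 8, 4⟩⟩) (by decide +kernel)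

def tC38_zU1 : PosD ⟨⟨0, 1, 1⟩, ⟨98, 99, 147⟩, ⟨6282, 6654, 30000⟩, ⟨1467, 1599, 1000⟩⟩ (tC38.hZU true) :=
  posD_of_check (c := ⟨219, ⟨4, 3, 8, 4⟩⟩) (by decide +kernel)

def tC38_eL1 : PosD ⟨⟨0, 1, 1⟩, ⟨98, 99, 147⟩, ⟨6282, 6654, 30000⟩, ⟨1467, 1599, 1000⟩⟩ (tC38.hEL true) :=
  posD_of_check (c := ⟨312, ⟨5, 6, 11, 6⟩⟩) (by decide +kernel)

def tC38_eH1 : PosD ⟨⟨0, 1, 1⟩, ⟨98, 99, 147⟩, ⟨6282, 6654, 30000⟩, ⟨1467, 1599, 1000⟩⟩ (tC38.hEH true) :=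
  posD_of_check (c := ⟨312, ⟨5, 6, 11, 6⟩⟩) (by decide +kernel)

def tC38_pL1 : PosD ⟨⟨0, 1, 1⟩, ⟨98, 99, 147⟩, ⟨6282, 6654, 30000⟩, ⟨1467, 1599, 1000⟩⟩ (tC38.hPL true) :=
  posD_of_check (c := ⟨337, ⟨5, 6, 11, 7⟩⟩) (by decide +kernel)

def tC38_pU1 : PosD ⟨⟨0, 1, 1⟩, ⟨98, 99, 147⟩, ⟨6282, 6654, 30000⟩, ⟨1467, 1599, 1000⟩⟩ (tC38.hPU true) :=
  posD_of_check (c := ⟨340, ⟨5, 6, 11, 7⟩⟩) (by decide +kernel)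

def tC38_kU1 : PosD ⟨⟨0, 1, 1⟩, ⟨98, 99, 147⟩, ⟨6282, 6654, 30000⟩, ⟨1467, 1599, 1000⟩⟩ (tC38.hKU true) :=
  posD_of_check (c := ⟨334, ⟨5, 6, 11, 7⟩⟩) (by decide +kernel)

def tC38_kL1 : PosD ⟨⟨0, 1, 1⟩, ⟨98, 99, 147⟩, ⟨6282, 6654, 30000⟩, ⟨1467, 1599, 1000⟩⟩ (tC38.hKL true) :=
  posD_of_check (c := ⟨334, ⟨5, 6, 11, 7⟩⟩) (by decide +kernel)

def tC38_wU1 : PosD ⟨⟨0, 1, 1⟩, ⟨98, 99, 147⟩, ⟨6282, 6654, 30000⟩, ⟨1467, 1599, 1000⟩⟩ (tC38.hWU true) :=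
  posD_of_check (c := ⟨368, ⟨5, 8, 12, 7⟩⟩) (by decide +kernel)

def tC38_wL1 : PosD ⟨⟨0, 1, 1⟩, ⟨98, 99, 147⟩, ⟨6282, 6654, 30000⟩, ⟨1467, 1599, 1000⟩⟩ (tC38.hWL true) :=
  posD_of_check (c := ⟨369, ⟨5, 8, 12, 7⟩⟩) (by decide +kernel)

def tC38_mupL : PosD ⟨⟨0, 1, 1⟩, ⟨98, 99, 147⟩, ⟨6282, 6654, 30000⟩, ⟨1467, 1599, 1000⟩⟩ (tC38.pL.μ) :=
  posD_of_check (c := ⟨11, ⟨0, 0, 0, 0⟩⟩) (by decide +kernel)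

/-- The bounds of the piece. -/
def tC38_env : tC38.Env ⟨⟨0, 1, 1⟩, ⟨98, 99, 147⟩, ⟨6282, 6654, 30000⟩, ⟨1467, 1599, 1000⟩⟩ :=
  ⟨tC38_p0, Bool.forall_bool.2 ⟨tC38_den0, tC38_den1⟩, tC38_gn, Bool.forall_bool.2 ⟨tC38_ev0, tC38_ev1⟩, Bool.forall_bool.2 ⟨tC38_zL0, tC38_zL1⟩, Bool.forall_bool.2 ⟨tC38_zU0, tC38_zU1⟩, Bool.forall_bool.2 ⟨tC38_eL0, tC38_eL1⟩, ⟨.inr rfl, .inr rfl⟩, Bool.forall_bool.2 ⟨tC38_eH0, tC38_eH1⟩, ⟨.inr rfl, .inr rfl⟩, Bool.forall_bool.2 ⟨tC38_pL0, tC38_pL1⟩, ⟨.inl tC38_mupL, .inr rfl⟩, Bool.forall_bool.2 ⟨tC38_pU0, tC38_pU1⟩, ⟨.inr rfl, .inr rfl⟩, Bool.forall_bool.2 ⟨tC38_kU0, tC38_kU1⟩, ⟨.inr rfl, .inr rfl⟩, Bool.forall_bool.2 ⟨tC38_kL0, tC38_kL1⟩, ⟨.inr rfl, .inr rfl⟩, Bool.forall_bool.2 ⟨tC38_wU0, tC38_wU1⟩,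 ⟨.inr rfl, .inr rfl⟩, Bool.forall_bool.2 ⟨tC38_wL0, tC38_wL1⟩, ⟨.inr rfl, .inr rfl⟩⟩

def tC38_pU20 : PosD ⟨⟨0, 1, 1⟩, ⟨98, 99, 147⟩, ⟨6282, 6654, 30000⟩, ⟨1467, 1599, 1000⟩⟩ (({ tC38 with pU := tC38PU } : Piece).hPU false) :=
  posD_of_check (c := ⟨345, ⟨5, 6, 11, 7⟩⟩) (by decide +kernel)

def tC38_pU21 : PosD ⟨⟨0, 1, 1⟩, ⟨98, 99, 147⟩, ⟨6282, 6654, 30000⟩, ⟨1467, 1599, 1000⟩⟩ (({ tC38 with pU := tC38PU } : Piece).hPU true) :=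
  posD_of_check (c := ⟨344, ⟨5, 6, 11, 7⟩⟩) (by decide +kernel)

def tC38_nupU2 : PosD ⟨⟨0, 1, 1⟩, ⟨98, 99, 147⟩, ⟨6282, 6654, 30000⟩, ⟨1467, 1599, 1000⟩⟩ (tC38PU.ν) :=
  posD_of_check (c := ⟨44, ⟨0, 0, 1, 1⟩⟩) (by decide +kernel)

/-- The bounds with the other bound of `p`. -/
def tC38_envU : ({ tC38 with pU := tC38PU } : Piece).Env ⟨⟨0, 1, 1⟩, ⟨98, 99, 147⟩, ⟨6282, 6654, 30000⟩, ⟨1467, 1599, 1000⟩⟩ :=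
  tC38_env.withU tC38PU (Bool.forall_bool.2 ⟨tC38_pU20, tC38_pU21⟩) ⟨.inr rfl, .inl tC38_nupU2⟩

def tC38A_pp : PosD ⟨⟨0, 1, 1⟩, ⟨98, 99, 147⟩, ⟨6282, 6654, 30000⟩, ⟨1467, 1599, 1000⟩⟩ (tC38A.xPL) :=
  posD_of_check (c := ⟨95, ⟨1, 1, 3, 3⟩⟩) (by decide +kernel)

def tC38A_k2p : PosD ⟨⟨0, 1, 1⟩, ⟨98, 99, 147⟩, ⟨6282, 6654, 30000⟩, ⟨1467, 1599, 1000⟩⟩ (tC38A.k2p tC38A.xE) :=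
  posD_of_check (c := ⟨73, ⟨1, 1, 2, 2⟩⟩) (by decide +kernel)

def tC38A_k2m : PosD ⟨⟨0, 1, 1⟩, ⟨98, 99, 147⟩, ⟨6282, 6654, 30000⟩, ⟨1467, 1599, 1000⟩⟩ (tC38A.k2m tC38A.xE) :=
  posD_of_check (c := ⟨29, ⟨0, 0, 1, 1⟩⟩) (by decide +kernel)

def tC38A_v2p : PosD ⟨⟨0, 1, 1⟩, ⟨98, 99, 147⟩, ⟨6282, 6654, 30000⟩, ⟨1467, 1599, 1000⟩⟩ (tC38A.hV2p) :=
  posD_of_check (c := ⟨273, ⟨1, 6, 10, 5⟩⟩) (by decide +kernel)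

def tC38A_v2m : PosD ⟨⟨0, 1, 1⟩, ⟨98, 99, 147⟩, ⟨6282, 6654, 30000⟩, ⟨1467, 1599, 1000⟩⟩ (tC38A.hV2m) :=
  posD_of_check (c := ⟨242, ⟨0, 5, 10, 4⟩⟩) (by decide +kernel)

def tC38A_v3p : PosD ⟨⟨0, 1, 1⟩, ⟨98, 99, 147⟩, ⟨6282, 6654, 30000⟩, ⟨1467, 1599, 1000⟩⟩ (tC38A.hV3p) :=
  posD_of_check (c := ⟨258, ⟨1, 6, 9, 5⟩⟩) (by decide +kernel)

def tC38A_v3m : PosD ⟨⟨0, 1, 1⟩, ⟨98, 99, 147⟩, ⟨6282, 6654, 30000⟩, ⟨1467, 1599, 1000⟩⟩ (tC38A.hV3m) :=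
  posD_of_check (c := ⟨231, ⟨0, 5, 9, 4⟩⟩) (by decide +kernel)

def tC38A_kap0 : PosD ⟨⟨0, 1, 1⟩, ⟨98, 99, 147⟩, ⟨6282, 6654, 30000⟩, ⟨1467, 1599, 1000⟩⟩ (tC38A.kap false) :=
  posD_of_check (c := ⟨72, ⟨1, 1, 2, 2⟩⟩) (by decide +kernel)

def tC38A_c10 : PosD ⟨⟨0, 1, 1⟩, ⟨98, 99, 147⟩, ⟨6282, 6654, 30000⟩, ⟨1467, 1599, 1000⟩⟩ (tC38A.hC1 false) :=
  posD_of_check (c := ⟨275, ⟨3, 5, 9, 7⟩⟩) (by decide +kernel)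

def tC38A_c1h0 : PosD ⟨⟨0, 1, 1⟩, ⟨98, 99, 147⟩, ⟨6282, 6654, 30000⟩, ⟨1467, 1599, 1000⟩⟩ (tC38A.hC1' false) :=
  posD_of_check (c := ⟨275, ⟨3, 5, 9, 7⟩⟩) (by decide +kernel)

def tC38A_tg00 : PosD ⟨⟨0, 1, 1⟩, ⟨98, 99, 147⟩, ⟨6282, 6654, 30000⟩, ⟨1467, 1599, 1000⟩⟩ (tC38A.hG false (tC38A.pEnd false)) :=
  posD_of_check (c := ⟨386, ⟨2, 7, 14, 9⟩⟩) (by decide +kernel)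

def tC38A_c2p00 : PosD ⟨⟨0, 1, 1⟩, ⟨98, 99, 147⟩, ⟨6282, 6654, 30000⟩, ⟨1467, 1599, 1000⟩⟩ (tC38A.hC2p false (tC38A.pEnd false)) :=
  posD_of_check (c := ⟨459, ⟨3, 8, 16, 11⟩⟩) (by decide +kernel)

def tC38A_c2m00 : PosD ⟨⟨0, 1, 1⟩, ⟨98, 99, 147⟩, ⟨6282, 6654, 30000⟩, ⟨1467, 1599, 1000⟩⟩ (tC38A.hC2m false (tC38A.pEnd false)) :=
  posD_of_check (c := ⟨428, ⟨2, 7, 16, 10⟩⟩) (by decide +kernel)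

def tC38A_c3p00 : PosD ⟨⟨0, 1, 1⟩, ⟨98, 99, 147⟩, ⟨6282, 6654, 30000⟩, ⟨1467, 1599, 1000⟩⟩ (tC38A.hC3p false false) :=
  posD_of_check (c := ⟨446, ⟨3, 8, 15, 11⟩⟩) (by decide +kernel)

def tC38A_c3m00 : PosD ⟨⟨0, 1, 1⟩, ⟨98, 99, 147⟩, ⟨6282, 6654, 30000⟩, ⟨1467, 1599, 1000⟩⟩ (tC38A.hC3m false false) :=
  posD_of_check (c := ⟨422, ⟨3, 7, 15, 10⟩⟩) (by decide +kernel)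

def tC38A_c3ph00 : PosD ⟨⟨0, 1, 1⟩, ⟨98, 99, 147⟩, ⟨6282, 6654, 30000⟩, ⟨1467, 1599, 1000⟩⟩ (tC38A.hC3p' false false) :=
  posD_of_check (c := ⟨446, ⟨3, 8, 15, 11⟩⟩) (by decide +kernel)

def tC38A_c3mh00 : PosD ⟨⟨0, 1, 1⟩, ⟨98, 99, 147⟩, ⟨6282, 6654, 30000⟩, ⟨1467, 1599, 1000⟩⟩ (tC38A.hC3m' false false) :=
  posD_of_check (c := ⟨422, ⟨3, 7, 15, 10⟩⟩) (by decide +kernel)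

def tC38A_up00 : PosD ⟨⟨0, 1, 1⟩, ⟨98, 99, 147⟩, ⟨6282, 6654, 30000⟩, ⟨1467, 1599, 1000⟩⟩ (tC38A.hUp false false) :=
  posD_of_check (c := ⟨444, ⟨3, 8, 15, 11⟩⟩) (by decide +kernel)

def tC38A_um00 : PosD ⟨⟨0, 1, 1⟩, ⟨98, 99, 147⟩, ⟨6282, 6654, 30000⟩, ⟨1467, 1599, 1000⟩⟩ (tC38A.hUm false false) :=
  posD_of_check (c := ⟨417, ⟨2, 7, 15, 10⟩⟩) (by decide +kernel)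

def tC38A_tmg00 : PosD ⟨⟨0, 1, 1⟩, ⟨98, 99, 147⟩, ⟨6282, 6654, 30000⟩, ⟨1467, 1599, 1000⟩⟩ (tC38A.hTMG false (tC38A.pEnd false)) :=
  posD_of_check (c := ⟨401, ⟨2, 7, 14, 10⟩⟩) (by decide +kernel)

def tC38A_tg01 : PosD ⟨⟨0, 1, 1⟩, ⟨98, 99, 147⟩, ⟨6282, 6654, 30000⟩, ⟨1467, 1599, 1000⟩⟩ (tC38A.hG true (tC38A.pEnd false)) :=
  posD_of_check (c := ⟨386, ⟨2, 7, 14, 9⟩⟩) (by decide +kernel)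

def tC38A_c2p01 : PosD ⟨⟨0, 1, 1⟩, ⟨98, 99, 147⟩, ⟨6282, 6654, 30000⟩, ⟨1467, 1599, 1000⟩⟩ (tC38A.hC2p true (tC38A.pEnd false)) :=
  posD_of_check (c := ⟨459, ⟨3, 8, 16, 11⟩⟩) (by decide +kernel)

def tC38A_c2m01 : PosD ⟨⟨0, 1, 1⟩, ⟨98, 99, 147⟩, ⟨6282, 6654, 30000⟩, ⟨1467, 1599, 1000⟩⟩ (tC38A.hC2m true (tC38A.pEnd false)) :=
  posD_of_check (c := ⟨428, ⟨2, 7, 16, 10⟩⟩) (by decide +kernel)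

def tC38A_c3p01 : PosD ⟨⟨0, 1, 1⟩, ⟨98, 99, 147⟩, ⟨6282, 6654, 30000⟩, ⟨1467, 1599, 1000⟩⟩ (tC38A.hC3p false true) :=
  posD_of_check (c := ⟨446, ⟨3, 8, 15, 11⟩⟩) (by decide +kernel)

def tC38A_c3m01 : PosD ⟨⟨0, 1, 1⟩, ⟨98, 99, 147⟩, ⟨6282, 6654, 30000⟩, ⟨1467, 1599, 1000⟩⟩ (tC38A.hC3m false true) :=
  posD_of_check (c := ⟨422, ⟨3, 7, 15, 10⟩⟩) (by decide +kernel)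

def tC38A_c3ph01 : PosD ⟨⟨0, 1, 1⟩, ⟨98, 99, 147⟩, ⟨6282, 6654, 30000⟩, ⟨1467, 1599, 1000⟩⟩ (tC38A.hC3p' false true) :=
  posD_of_check (c := ⟨446, ⟨3, 8, 15, 11⟩⟩) (by decide +kernel)

def tC38A_c3mh01 : PosD ⟨⟨0, 1, 1⟩, ⟨98, 99, 147⟩, ⟨6282, 6654, 30000⟩, ⟨1467, 1599, 1000⟩⟩ (tC38A.hC3m' false true) :=
  posD_of_check (c := ⟨422, ⟨3, 7, 15, 10⟩⟩) (by decide +kernel)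

def tC38A_up01 : PosD ⟨⟨0, 1, 1⟩, ⟨98, 99, 147⟩, ⟨6282, 6654, 30000⟩, ⟨1467, 1599, 1000⟩⟩ (tC38A.hUp false true) :=
  posD_of_check (c := ⟨444, ⟨3, 8, 15, 11⟩⟩) (by decide +kernel)

def tC38A_um01 : PosD ⟨⟨0, 1, 1⟩, ⟨98, 99, 147⟩, ⟨6282, 6654, 30000⟩, ⟨1467, 1599, 1000⟩⟩ (tC38A.hUm false true) :=
  posD_of_check (c := ⟨417, ⟨2, 7, 15, 10⟩⟩) (by decide +kernel)

def tC38A_tmg01 : PosD ⟨⟨0, 1, 1⟩, ⟨98, 99, 147⟩, ⟨6282, 6654, 30000⟩, ⟨1467, 1599, 1000⟩⟩ (tC38A.hTMG true (tC38A.pEnd false)) :=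
  posD_of_check (c := ⟨401, ⟨2, 7, 14, 10⟩⟩) (by decide +kernel)

def tC38A_kap1 : PosD ⟨⟨0, 1, 1⟩, ⟨98, 99, 147⟩, ⟨6282, 6654, 30000⟩, ⟨1467, 1599, 1000⟩⟩ (tC38A.kap true) :=
  posD_of_check (c := ⟨70, ⟨1, 1, 2, 2⟩⟩) (by decide +kernel)

def tC38A_c11 : PosD ⟨⟨0, 1, 1⟩, ⟨98, 99, 147⟩, ⟨6282, 6654, 30000⟩, ⟨1467, 1599, 1000⟩⟩ (tC38A.hC1 true) :=
  posD_of_check (c := ⟨276, ⟨3, 5, 9, 7⟩⟩) (by decide +kernel)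

def tC38A_c1h1 : PosD ⟨⟨0, 1, 1⟩, ⟨98, 99, 147⟩, ⟨6282, 6654, 30000⟩, ⟨1467, 1599, 1000⟩⟩ (tC38A.hC1' true) :=
  posD_of_check (c := ⟨276, ⟨3, 5, 9, 7⟩⟩) (by decide +kernel)

def tC38A_tg10 : PosD ⟨⟨0, 1, 1⟩, ⟨98, 99, 147⟩, ⟨6282, 6654, 30000⟩, ⟨1467, 1599, 1000⟩⟩ (tC38A.hG false (tC38A.pEnd true)) :=
  posD_of_check (c := ⟨392, ⟨2, 7, 14, 9⟩⟩) (by decide +kernel)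

def tC38A_c2p10 : PosD ⟨⟨0, 1, 1⟩, ⟨98, 99, 147⟩, ⟨6282, 6654, 30000⟩, ⟨1467, 1599, 1000⟩⟩ (tC38A.hC2p false (tC38A.pEnd true)) :=
  posD_of_check (c := ⟨465, ⟨3, 8, 16, 11⟩⟩) (by decide +kernel)

def tC38A_c2m10 : PosD ⟨⟨0, 1, 1⟩, ⟨98, 99, 147⟩, ⟨6282, 6654, 30000⟩, ⟨1467, 1599, 1000⟩⟩ (tC38A.hC2m false (tC38A.pEnd true)) :=
  posD_of_check (c := ⟨434, ⟨2, 7, 16, 10⟩⟩) (by decide +kernel)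

def tC38A_c3p10 : PosD ⟨⟨0, 1, 1⟩, ⟨98, 99, 147⟩, ⟨6282, 6654, 30000⟩, ⟨1467, 1599, 1000⟩⟩ (tC38A.hC3p true false) :=
  posD_of_check (c := ⟨450, ⟨3, 8, 15, 11⟩⟩) (by decide +kernel)

def tC38A_c3m10 : PosD ⟨⟨0, 1, 1⟩, ⟨98, 99, 147⟩, ⟨6282, 6654, 30000⟩, ⟨1467, 1599, 1000⟩⟩ (tC38A.hC3m true false) :=
  posD_of_check (c := ⟨424, ⟨3, 7, 15, 10⟩⟩) (by decide +kernel)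

def tC38A_c3ph10 : PosD ⟨⟨0, 1, 1⟩, ⟨98, 99, 147⟩, ⟨6282, 6654, 30000⟩, ⟨1467, 1599, 1000⟩⟩ (tC38A.hC3p' true false) :=
  posD_of_check (c := ⟨450, ⟨3, 8, 15, 11⟩⟩) (by decide +kernel)

def tC38A_c3mh10 : PosD ⟨⟨0, 1, 1⟩, ⟨98, 99, 147⟩, ⟨6282, 6654, 30000⟩, ⟨1467, 1599, 1000⟩⟩ (tC38A.hC3m' true false) :=
  posD_of_check (c := ⟨424, ⟨3, 7, 15, 10⟩⟩) (by decide +kernel)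

def tC38A_up10 : PosD ⟨⟨0, 1, 1⟩, ⟨98, 99, 147⟩, ⟨6282, 6654, 30000⟩, ⟨1467, 1599, 1000⟩⟩ (tC38A.hUp true false) :=
  posD_of_check (c := ⟨450, ⟨3, 8, 15, 11⟩⟩) (by decide +kernel)

def tC38A_um10 : PosD ⟨⟨0, 1, 1⟩, ⟨98, 99, 147⟩, ⟨6282, 6654, 30000⟩, ⟨1467, 1599, 1000⟩⟩ (tC38A.hUm true false) :=
  posD_of_check (c := ⟨422, ⟨2, 7, 15, 10⟩⟩) (by decide +kernel)

def tC38A_tmg10 : PosD ⟨⟨0, 1, 1⟩, ⟨98, 99, 147⟩, ⟨6282, 6654, 30000⟩, ⟨1467, 1599, 1000⟩⟩ (tC38A.hTMG false (tC38A.pEnd true)) :=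
  posD_of_check (c := ⟨405, ⟨2, 7, 14, 10⟩⟩) (by decide +kernel)

def tC38A_tg11 : PosD ⟨⟨0, 1, 1⟩, ⟨98, 99, 147⟩, ⟨6282, 6654, 30000⟩, ⟨1467, 1599, 1000⟩⟩ (tC38A.hG true (tC38A.pEnd true)) :=
  posD_of_check (c := ⟨392, ⟨2, 7, 14, 9⟩⟩) (by decide +kernel)

def tC38A_c2p11 : PosD ⟨⟨0, 1, 1⟩, ⟨98, 99, 147⟩, ⟨6282, 6654, 30000⟩, ⟨1467, 1599, 1000⟩⟩ (tC38A.hC2p true (tC38A.pEnd true)) :=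
  posD_of_check (c := ⟨465, ⟨3, 8, 16, 11⟩⟩) (by decide +kernel)

def tC38A_c2m11 : PosD ⟨⟨0, 1, 1⟩, ⟨98, 99, 147⟩, ⟨6282, 6654, 30000⟩, ⟨1467, 1599, 1000⟩⟩ (tC38A.hC2m true (tC38A.pEnd true)) :=
  posD_of_check (c := ⟨434, ⟨2, 7, 16, 10⟩⟩) (by decide +kernel)

def tC38A_c3p11 : PosD ⟨⟨0, 1, 1⟩, ⟨98, 99, 147⟩, ⟨6282, 6654, 30000⟩, ⟨1467, 1599, 1000⟩⟩ (tC38A.hC3p true true) :=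
  posD_of_check (c := ⟨450, ⟨3, 8, 15, 11⟩⟩) (by decide +kernel)

def tC38A_c3m11 : PosD ⟨⟨0, 1, 1⟩, ⟨98, 99, 147⟩, ⟨6282, 6654, 30000⟩, ⟨1467, 1599, 1000⟩⟩ (tC38A.hC3m true true) :=
  posD_of_check (c := ⟨424, ⟨3, 7, 15, 10⟩⟩) (by decide +kernel)

def tC38A_c3ph11 : PosD ⟨⟨0, 1, 1⟩, ⟨98, 99, 147⟩, ⟨6282, 6654, 30000⟩, ⟨1467, 1599, 1000⟩⟩ (tC38A.hC3p' true true) :=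
  posD_of_check (c := ⟨450, ⟨3, 8, 15, 11⟩⟩) (by decide +kernel)

def tC38A_c3mh11 : PosD ⟨⟨0, 1, 1⟩, ⟨98, 99, 147⟩, ⟨6282, 6654, 30000⟩, ⟨1467, 1599, 1000⟩⟩ (tC38A.hC3m' true true) :=
  posD_of_check (c := ⟨424, ⟨3, 7, 15, 10⟩⟩) (by decide +kernel)

def tC38A_up11 : PosD ⟨⟨0, 1, 1⟩, ⟨98, 99, 147⟩, ⟨6282, 6654, 30000⟩, ⟨1467, 1599, 1000⟩⟩ (tC38A.hUp true true) :=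
  posD_of_check (c := ⟨450, ⟨3, 8, 15, 11⟩⟩) (by decide +kernel)

def tC38A_um11 : PosD ⟨⟨0, 1, 1⟩, ⟨98, 99, 147⟩, ⟨6282, 6654, 30000⟩, ⟨1467, 1599, 1000⟩⟩ (tC38A.hUm true true) :=
  posD_of_check (c := ⟨422, ⟨2, 7, 15, 10⟩⟩) (by decide +kernel)

def tC38A_tmg11 : PosD ⟨⟨0, 1, 1⟩, ⟨98, 99, 147⟩, ⟨6282, 6654, 30000⟩, ⟨1467, 1599, 1000⟩⟩ (tC38A.hTMG true (tC38A.pEnd true)) :=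
  posD_of_check (c := ⟨405, ⟨2, 7, 14, 10⟩⟩) (by decide +kernel)

/-- The signs of the piece. -/
def tC38A_sign : tC38A.Sign ⟨⟨0, 1, 1⟩, ⟨98, 99, 147⟩, ⟨6282, 6654, 30000⟩, ⟨1467, 1599, 1000⟩⟩ :=
  ⟨tC38A_pp,
    tC38A_k2p,
    tC38A_k2m,
    Bool.forall_bool.2 ⟨(Bool.forall_bool.2 ⟨tC38A_tg00, tC38A_tg01⟩), (Bool.forall_bool.2 ⟨tC38A_tg10, tC38A_tg11⟩)⟩,
    Bool.forall_bool.2 ⟨(Bool.forall_bool.2 ⟨tC38A_c2p00, tC38A_c2p01⟩), (Bool.forall_bool.2 ⟨tC38A_c2p10, tC38A_c2p11⟩)⟩,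
    Bool.forall_bool.2 ⟨(Bool.forall_bool.2 ⟨tC38A_c2m00, tC38A_c2m01⟩), (Bool.forall_bool.2 ⟨tC38A_c2m10, tC38A_c2m11⟩)⟩,
    Bool.forall_bool.2 ⟨tC38A_kap0, tC38A_kap1⟩,
    Bool.forall_bool.2 ⟨tC38A_c10, tC38A_c11⟩,
    Bool.forall_bool.2 ⟨(Bool.forall_bool.2 ⟨tC38A_c3p00, tC38A_c3p01⟩), (Bool.forall_bool.2 ⟨tC38A_c3p10, tC38A_c3p11⟩)⟩,
    Bool.forall_bool.2 ⟨(Bool.forall_bool.2 ⟨tC38A_c3m00, tC38A_c3m01⟩), (Bool.forall_bool.2 ⟨tC38A_c3m10, tC38A_c3m11⟩)⟩,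
    Bool.forall_bool.2 ⟨(Bool.forall_bool.2 ⟨tC38A_tmg00, tC38A_tmg01⟩), (Bool.forall_bool.2 ⟨tC38A_tmg10, tC38A_tmg11⟩)⟩,
    .inr (Bool.forall_bool.2 ⟨⟨tC38A_c1h0, Bool.forall_bool.2 ⟨⟨tC38A_c3ph00, tC38A_c3mh00, tC38A_up00, tC38A_um00⟩, ⟨tC38A_c3ph01, tC38A_c3mh01, tC38A_up01, tC38A_um01⟩⟩⟩, ⟨tC38A_c1h1, Bool.forall_bool.2 ⟨⟨tC38A_c3ph10, tC38A_c3mh10, tC38A_up10, tC38A_um10⟩, ⟨tC38A_c3ph11, tC38A_c3mh11, tC38A_up11, tC38A_um11⟩⟩⟩⟩),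
    tC38A_v2p,
    tC38A_v2m,
    tC38A_v3p,
    tC38A_v3m,
    posD_sub (b := ⟨⟨0, 1, 1⟩, ⟨98, 99, 147⟩, ⟨4050, 10000, 30000⟩, ⟨290, 4000, 1000⟩⟩) (by decide +kernel) tC_vG,
    posD_sub (b := ⟨⟨0, 1, 1⟩, ⟨98, 99, 147⟩, ⟨4050, 10000, 30000⟩, ⟨290, 4000, 1000⟩⟩) (by decide +kernel) tC_vMG,
    posD_sub (b := ⟨⟨0, 1, 1⟩, ⟨98, 99, 147⟩, ⟨4050, 10000, 30000⟩, ⟨290, 4000, 1000⟩⟩) (by decide +kernel) tC_ak,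
    posD_sub (b := ⟨⟨0, 1, 1⟩, ⟨98, 99, 147⟩, ⟨4050, 10000, 30000⟩, ⟨290, 4000, 1000⟩⟩) (by decide +kernel) tC_aw,
    posD_sub (b := ⟨⟨0, 1, 1⟩, ⟨98, 99, 147⟩, ⟨4050, 10000, 30000⟩, ⟨290, 4000, 1000⟩⟩) (by decide +kernel) tC_gk,
    posD_sub (b := ⟨⟨0, 1, 1⟩, ⟨98, 99, 147⟩, ⟨4050, 10000, 30000⟩, ⟨290, 4000, 1000⟩⟩) (by decide +kernel) tC_gw,
    posD_sub (b := ⟨⟨0, 1, 1⟩, ⟨98, 99, 147⟩, ⟨4050, 10000, 30000⟩, ⟨290, 4000, 1000⟩⟩) (by decide +kernel) tC_ek,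
    posD_sub (b := ⟨⟨0, 1, 1⟩, ⟨98, 99, 147⟩, ⟨4050, 10000, 30000⟩, ⟨290, 4000, 1000⟩⟩) (by decide +kernel) tC_ew⟩

def tC38B_pp : PosD ⟨⟨0, 1, 1⟩, ⟨98, 99, 147⟩, ⟨6282, 6654, 30000⟩, ⟨1467, 1599, 1000⟩⟩ (tC38B.xPL) :=
  posD_of_check (c := ⟨95, ⟨1, 1, 3, 3⟩⟩) (by decide +kernel)

def tC38B_k2p : PosD ⟨⟨0, 1, 1⟩, ⟨98, 99, 147⟩, ⟨6282, 6654, 30000⟩, ⟨1467, 1599, 1000⟩⟩ (tC38B.k2p tC38B.xE) :=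
  posD_of_check (c := ⟨69, ⟨1, 1, 2, 2⟩⟩) (by decide +kernel)

def tC38B_k2m : PosD ⟨⟨0, 1, 1⟩, ⟨98, 99, 147⟩, ⟨6282, 6654, 30000⟩, ⟨1467, 1599, 1000⟩⟩ (tC38B.k2m tC38B.xE) :=
  posD_of_check (c := ⟨29, ⟨0, 0, 1, 1⟩⟩) (by decide +kernel)

def tC38B_v2p : PosD ⟨⟨0, 1, 1⟩, ⟨98, 99, 147⟩, ⟨6282, 6654, 30000⟩, ⟨1467, 1599, 1000⟩⟩ (tC38B.hV2p) :=
  posD_of_check (c := ⟨270, ⟨1, 6, 10, 5⟩⟩) (by decide +kernel)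

def tC38B_v2m : PosD ⟨⟨0, 1, 1⟩, ⟨98, 99, 147⟩, ⟨6282, 6654, 30000⟩, ⟨1467, 1599, 1000⟩⟩ (tC38B.hV2m) :=
  posD_of_check (c := ⟨242, ⟨0, 5, 10, 4⟩⟩) (by decide +kernel)

def tC38B_v3p : PosD ⟨⟨0, 1, 1⟩, ⟨98, 99, 147⟩, ⟨6282, 6654, 30000⟩, ⟨1467, 1599, 1000⟩⟩ (tC38B.hV3p) :=
  posD_of_check (c := ⟨255, ⟨1, 6, 9, 5⟩⟩) (by decide +kernel)

def tC38B_v3m : PosD ⟨⟨0, 1, 1⟩, ⟨98, 99, 147⟩, ⟨6282, 6654, 30000⟩, ⟨1467, 1599, 1000⟩⟩ (tC38B.hV3m) :=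
  posD_of_check (c := ⟨231, ⟨0, 5, 9, 4⟩⟩) (by decide +kernel)

def tC38B_kap0 : PosD ⟨⟨0, 1, 1⟩, ⟨98, 99, 147⟩, ⟨6282, 6654, 30000⟩, ⟨1467, 1599, 1000⟩⟩ (tC38B.kap false) :=
  posD_of_check (c := ⟨71, ⟨1, 1, 2, 2⟩⟩) (by decide +kernel)

def tC38B_c10 : PosD ⟨⟨0, 1, 1⟩, ⟨98, 99, 147⟩, ⟨6282, 6654, 30000⟩, ⟨1467, 1599, 1000⟩⟩ (tC38B.hC1 false) :=
  posD_of_check (c := ⟨273, ⟨3, 5, 9, 7⟩⟩) (by decide +kernel)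

def tC38B_c1h0 : PosD ⟨⟨0, 1, 1⟩, ⟨98, 99, 147⟩, ⟨6282, 6654, 30000⟩, ⟨1467, 1599, 1000⟩⟩ (tC38B.hC1' false) :=
  posD_of_check (c := ⟨273, ⟨3, 5, 9, 7⟩⟩) (by decide +kernel)

def tC38B_tg00 : PosD ⟨⟨0, 1, 1⟩, ⟨98, 99, 147⟩, ⟨6282, 6654, 30000⟩, ⟨1467, 1599, 1000⟩⟩ (tC38B.hG false (tC38B.pEnd false)) :=
  posD_of_check (c := ⟨386, ⟨2, 7, 14, 9⟩⟩) (by decide +kernel)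

def tC38B_c2p00 : PosD ⟨⟨0, 1, 1⟩, ⟨98, 99, 147⟩, ⟨6282, 6654, 30000⟩, ⟨1467, 1599, 1000⟩⟩ (tC38B.hC2p false (tC38B.pEnd false)) :=
  posD_of_check (c := ⟨455, ⟨3, 8, 16, 11⟩⟩) (by decide +kernel)

def tC38B_c2m00 : PosD ⟨⟨0, 1, 1⟩, ⟨98, 99, 147⟩, ⟨6282, 6654, 30000⟩, ⟨1467, 1599, 1000⟩⟩ (tC38B.hC2m false (tC38B.pEnd false)) :=
  posD_of_check (c := ⟨428, ⟨2, 7, 16, 10⟩⟩) (by decide +kernel)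

def tC38B_c3p00 : PosD ⟨⟨0, 1, 1⟩, ⟨98, 99, 147⟩, ⟨6282, 6654, 30000⟩, ⟨1467, 1599, 1000⟩⟩ (tC38B.hC3p false false) :=
  posD_of_check (c := ⟨444, ⟨3, 8, 15, 11⟩⟩) (by decide +kernel)

def tC38B_c3m00 : PosD ⟨⟨0, 1, 1⟩, ⟨98, 99, 147⟩, ⟨6282, 6654, 30000⟩, ⟨1467, 1599, 1000⟩⟩ (tC38B.hC3m false false) :=
  posD_of_check (c := ⟨421, ⟨3, 7, 15, 10⟩⟩) (by decide +kernel)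

def tC38B_c3ph00 : PosD ⟨⟨0, 1, 1⟩, ⟨98, 99, 147⟩, ⟨6282, 6654, 30000⟩, ⟨1467, 1599, 1000⟩⟩ (tC38B.hC3p' false false) :=
  posD_of_check (c := ⟨444, ⟨3, 8, 15, 11⟩⟩) (by decide +kernel)

def tC38B_c3mh00 : PosD ⟨⟨0, 1, 1⟩, ⟨98, 99, 147⟩, ⟨6282, 6654, 30000⟩, ⟨1467, 1599, 1000⟩⟩ (tC38B.hC3m' false false) :=
  posD_of_check (c := ⟨421, ⟨3, 7, 15, 10⟩⟩) (by decide +kernel)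

def tC38B_up00 : PosD ⟨⟨0, 1, 1⟩, ⟨98, 99, 147⟩, ⟨6282, 6654, 30000⟩, ⟨1467, 1599, 1000⟩⟩ (tC38B.hUp false false) :=
  posD_of_check (c := ⟨441, ⟨3, 8, 15, 11⟩⟩) (by decide +kernel)

def tC38B_um00 : PosD ⟨⟨0, 1, 1⟩, ⟨98, 99, 147⟩, ⟨6282, 6654, 30000⟩, ⟨1467, 1599, 1000⟩⟩ (tC38B.hUm false false) :=
  posD_of_check (c := ⟨417, ⟨2, 7, 15, 10⟩⟩) (by decide +kernel)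

def tC38B_tmg00 : PosD ⟨⟨0, 1, 1⟩, ⟨98, 99, 147⟩, ⟨6282, 6654, 30000⟩, ⟨1467, 1599, 1000⟩⟩ (tC38B.hTMG false (tC38B.pEnd false)) :=
  posD_of_check (c := ⟨400, ⟨2, 7, 14, 10⟩⟩) (by decide +kernel)

def tC38B_tg01 : PosD ⟨⟨0, 1, 1⟩, ⟨98, 99, 147⟩, ⟨6282, 6654, 30000⟩, ⟨1467, 1599, 1000⟩⟩ (tC38B.hG true (tC38B.pEnd false)) :=
  posD_of_check (c := ⟨386, ⟨2, 7, 14, 9⟩⟩) (by decide +kernel)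

def tC38B_c2p01 : PosD ⟨⟨0, 1, 1⟩, ⟨98, 99, 147⟩, ⟨6282, 6654, 30000⟩, ⟨1467, 1599, 1000⟩⟩ (tC38B.hC2p true (tC38B.pEnd false)) :=
  posD_of_check (c := ⟨455, ⟨3, 8, 16, 11⟩⟩) (by decide +kernel)

def tC38B_c2m01 : PosD ⟨⟨0, 1, 1⟩, ⟨98, 99, 147⟩, ⟨6282, 6654, 30000⟩, ⟨1467, 1599, 1000⟩⟩ (tC38B.hC2m true (tC38B.pEnd false)) :=
  posD_of_check (c := ⟨428, ⟨2, 7, 16, 10⟩⟩) (by decide +kernel)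

def tC38B_c3p01 : PosD ⟨⟨0, 1, 1⟩, ⟨98, 99, 147⟩, ⟨6282, 6654, 30000⟩, ⟨1467, 1599, 1000⟩⟩ (tC38B.hC3p false true) :=
  posD_of_check (c := ⟨444, ⟨3, 8, 15, 11⟩⟩) (by decide +kernel)

def tC38B_c3m01 : PosD ⟨⟨0, 1, 1⟩, ⟨98, 99, 147⟩, ⟨6282, 6654, 30000⟩, ⟨1467, 1599, 1000⟩⟩ (tC38B.hC3m false true) :=
  posD_of_check (c := ⟨421, ⟨3, 7, 15, 10⟩⟩) (by decide +kernel)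

def tC38B_c3ph01 : PosD ⟨⟨0, 1, 1⟩, ⟨98, 99, 147⟩, ⟨6282, 6654, 30000⟩, ⟨1467, 1599, 1000⟩⟩ (tC38B.hC3p' false true) :=
  posD_of_check (c := ⟨444, ⟨3, 8, 15, 11⟩⟩) (by decide +kernel)

def tC38B_c3mh01 : PosD ⟨⟨0, 1, 1⟩, ⟨98, 99, 147⟩, ⟨6282, 6654, 30000⟩, ⟨1467, 1599, 1000⟩⟩ (tC38B.hC3m' false true) :=
  posD_of_check (c := ⟨421, ⟨3, 7, 15, 10⟩⟩) (by decide +kernel)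

def tC38B_up01 : PosD ⟨⟨0, 1, 1⟩, ⟨98, 99, 147⟩, ⟨6282, 6654, 30000⟩, ⟨1467, 1599, 1000⟩⟩ (tC38B.hUp false true) :=
  posD_of_check (c := ⟨441, ⟨3, 8, 15, 11⟩⟩) (by decide +kernel)

def tC38B_um01 : PosD ⟨⟨0, 1, 1⟩, ⟨98, 99, 147⟩, ⟨6282, 6654, 30000⟩, ⟨1467, 1599, 1000⟩⟩ (tC38B.hUm false true) :=
  posD_of_check (c := ⟨417, ⟨2, 7, 15, 10⟩⟩) (by decide +kernel)

def tC38B_tmg01 : PosD ⟨⟨0, 1, 1⟩, ⟨98, 99, 147⟩, ⟨6282, 6654, 30000⟩, ⟨1467, 1599, 1000⟩⟩ (tC38B.hTMG true (tC38B.pEnd false)) :=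
  posD_of_check (c := ⟨400, ⟨2, 7, 14, 10⟩⟩) (by decide +kernel)

def tC38B_kap1 : PosD ⟨⟨0, 1, 1⟩, ⟨98, 99, 147⟩, ⟨6282, 6654, 30000⟩, ⟨1467, 1599, 1000⟩⟩ (tC38B.kap true) :=
  posD_of_check (c := ⟨74, ⟨1, 1, 2, 2⟩⟩) (by decide +kernel)

def tC38B_c11 : PosD ⟨⟨0, 1, 1⟩, ⟨98, 99, 147⟩, ⟨6282, 6654, 30000⟩, ⟨1467, 1599, 1000⟩⟩ (tC38B.hC1 true) :=
  posD_of_check (c := ⟨276, ⟨3, 5, 9, 7⟩⟩) (by decide +kernel)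

def tC38B_c1h1 : PosD ⟨⟨0, 1, 1⟩, ⟨98, 99, 147⟩, ⟨6282, 6654, 30000⟩, ⟨1467, 1599, 1000⟩⟩ (tC38B.hC1' true) :=
  posD_of_check (c := ⟨276, ⟨3, 5, 9, 7⟩⟩) (by decide +kernel)

def tC38B_tg10 : PosD ⟨⟨0, 1, 1⟩, ⟨98, 99, 147⟩, ⟨6282, 6654, 30000⟩, ⟨1467, 1599, 1000⟩⟩ (tC38B.hG false (tC38B.pEnd true)) :=
  posD_of_check (c := ⟨385, ⟨2, 7, 14, 9⟩⟩) (by decide +kernel)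

def tC38B_c2p10 : PosD ⟨⟨0, 1, 1⟩, ⟨98, 99, 147⟩, ⟨6282, 6654, 30000⟩, ⟨1467, 1599, 1000⟩⟩ (tC38B.hC2p false (tC38B.pEnd true)) :=
  posD_of_check (c := ⟨455, ⟨3, 8, 16, 11⟩⟩) (by decide +kernel)

def tC38B_c2m10 : PosD ⟨⟨0, 1, 1⟩, ⟨98, 99, 147⟩, ⟨6282, 6654, 30000⟩, ⟨1467, 1599, 1000⟩⟩ (tC38B.hC2m false (tC38B.pEnd true)) :=
  posD_of_check (c := ⟨428, ⟨2, 7, 16, 10⟩⟩) (by decide +kernel)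

def tC38B_c3p10 : PosD ⟨⟨0, 1, 1⟩, ⟨98, 99, 147⟩, ⟨6282, 6654, 30000⟩, ⟨1467, 1599, 1000⟩⟩ (tC38B.hC3p true false) :=
  posD_of_check (c := ⟨446, ⟨3, 8, 15, 11⟩⟩) (by decide +kernel)

def tC38B_c3m10 : PosD ⟨⟨0, 1, 1⟩, ⟨98, 99, 147⟩, ⟨6282, 6654, 30000⟩, ⟨1467, 1599, 1000⟩⟩ (tC38B.hC3m true false) :=
  posD_of_check (c := ⟨423, ⟨3, 7, 15, 10⟩⟩) (by decide +kernel)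

def tC38B_c3ph10 : PosD ⟨⟨0, 1, 1⟩, ⟨98, 99, 147⟩, ⟨6282, 6654, 30000⟩, ⟨1467, 1599, 1000⟩⟩ (tC38B.hC3p' true false) :=
  posD_of_check (c := ⟨446, ⟨3, 8, 15, 11⟩⟩) (by decide +kernel)

def tC38B_c3mh10 : PosD ⟨⟨0, 1, 1⟩, ⟨98, 99, 147⟩, ⟨6282, 6654, 30000⟩, ⟨1467, 1599, 1000⟩⟩ (tC38B.hC3m' true false) :=
  posD_of_check (c := ⟨423, ⟨3, 7, 15, 10⟩⟩) (by decide +kernel)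

def tC38B_up10 : PosD ⟨⟨0, 1, 1⟩, ⟨98, 99, 147⟩, ⟨6282, 6654, 30000⟩, ⟨1467, 1599, 1000⟩⟩ (tC38B.hUp true false) :=
  posD_of_check (c := ⟨441, ⟨3, 8, 15, 11⟩⟩) (by decide +kernel)

def tC38B_um10 : PosD ⟨⟨0, 1, 1⟩, ⟨98, 99, 147⟩, ⟨6282, 6654, 30000⟩, ⟨1467, 1599, 1000⟩⟩ (tC38B.hUm true false) :=
  posD_of_check (c := ⟨417, ⟨2, 7, 15, 10⟩⟩) (by decide +kernel)

def tC38B_tmg10 : PosD ⟨⟨0, 1, 1⟩, ⟨98, 99, 147⟩, ⟨6282, 6654, 30000⟩, ⟨1467, 1599, 1000⟩⟩ (tC38B.hTMG false (tC38B.pEnd true)) :=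
  posD_of_check (c := ⟨400, ⟨2, 7, 14, 10⟩⟩) (by decide +kernel)

def tC38B_tg11 : PosD ⟨⟨0, 1, 1⟩, ⟨98, 99, 147⟩, ⟨6282, 6654, 30000⟩, ⟨1467, 1599, 1000⟩⟩ (tC38B.hG true (tC38B.pEnd true)) :=
  posD_of_check (c := ⟨386, ⟨2, 7, 14, 9⟩⟩) (by decide +kernel)

def tC38B_c2p11 : PosD ⟨⟨0, 1, 1⟩, ⟨98, 99, 147⟩, ⟨6282, 6654, 30000⟩, ⟨1467, 1599, 1000⟩⟩ (tC38B.hC2p true (tC38B.pEnd true)) :=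
  posD_of_check (c := ⟨455, ⟨3, 8, 16, 11⟩⟩) (by decide +kernel)

def tC38B_c2m11 : PosD ⟨⟨0, 1, 1⟩, ⟨98, 99, 147⟩, ⟨6282, 6654, 30000⟩, ⟨1467, 1599, 1000⟩⟩ (tC38B.hC2m true (tC38B.pEnd true)) :=
  posD_of_check (c := ⟨428, ⟨2, 7, 16, 10⟩⟩) (by decide +kernel)

def tC38B_c3p11 : PosD ⟨⟨0, 1, 1⟩, ⟨98, 99, 147⟩, ⟨6282, 6654, 30000⟩, ⟨1467, 1599, 1000⟩⟩ (tC38B.hC3p true true) :=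
  posD_of_check (c := ⟨446, ⟨3, 8, 15, 11⟩⟩) (by decide +kernel)

def tC38B_c3m11 : PosD ⟨⟨0, 1, 1⟩, ⟨98, 99, 147⟩, ⟨6282, 6654, 30000⟩, ⟨1467, 1599, 1000⟩⟩ (tC38B.hC3m true true) :=
  posD_of_check (c := ⟨423, ⟨3, 7, 15, 10⟩⟩) (by decide +kernel)

def tC38B_c3ph11 : PosD ⟨⟨0, 1, 1⟩, ⟨98, 99, 147⟩, ⟨6282, 6654, 30000⟩, ⟨1467, 1599, 1000⟩⟩ (tC38B.hC3p' true true) :=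
  posD_of_check (c := ⟨446, ⟨3, 8, 15, 11⟩⟩) (by decide +kernel)

def tC38B_c3mh11 : PosD ⟨⟨0, 1, 1⟩, ⟨98, 99, 147⟩, ⟨6282, 6654, 30000⟩, ⟨1467, 1599, 1000⟩⟩ (tC38B.hC3m' true true) :=
  posD_of_check (c := ⟨423, ⟨3, 7, 15, 10⟩⟩) (by decide +kernel)

def tC38B_up11 : PosD ⟨⟨0, 1, 1⟩, ⟨98, 99, 147⟩, ⟨6282, 6654, 30000⟩, ⟨1467, 1599, 1000⟩⟩ (tC38B.hUp true true) :=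
  posD_of_check (c := ⟨441, ⟨3, 8, 15, 11⟩⟩) (by decide +kernel)

def tC38B_um11 : PosD ⟨⟨0, 1, 1⟩, ⟨98, 99, 147⟩, ⟨6282, 6654, 30000⟩, ⟨1467, 1599, 1000⟩⟩ (tC38B.hUm true true) :=
  posD_of_check (c := ⟨417, ⟨2, 7, 15, 10⟩⟩) (by decide +kernel)

def tC38B_tmg11 : PosD ⟨⟨0, 1, 1⟩, ⟨98, 99, 147⟩, ⟨6282, 6654, 30000⟩, ⟨1467, 1599, 1000⟩⟩ (tC38B.hTMG true (tC38B.pEnd true)) :=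
  posD_of_check (c := ⟨400, ⟨2, 7, 14, 10⟩⟩) (by decide +kernel)

/-- The signs of the piece. -/
def tC38B_sign : tC38B.Sign ⟨⟨0, 1, 1⟩, ⟨98, 99, 147⟩, ⟨6282, 6654, 30000⟩, ⟨1467, 1599, 1000⟩⟩ :=
  ⟨tC38B_pp,
    tC38B_k2p,
    tC38B_k2m,
    Bool.forall_bool.2 ⟨(Bool.forall_bool.2 ⟨tC38B_tg00, tC38B_tg01⟩), (Bool.forall_bool.2 ⟨tC38B_tg10, tC38B_tg11⟩)⟩,
    Bool.forall_bool.2 ⟨(Bool.forall_bool.2 ⟨tC38B_c2p00, tC38B_c2p01⟩), (Bool.forall_bool.2 ⟨tC38B_c2p10, tC38B_c2p11⟩)⟩,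
    Bool.forall_bool.2 ⟨(Bool.forall_bool.2 ⟨tC38B_c2m00, tC38B_c2m01⟩), (Bool.forall_bool.2 ⟨tC38B_c2m10, tC38B_c2m11⟩)⟩,
    Bool.forall_bool.2 ⟨tC38B_kap0, tC38B_kap1⟩,
    Bool.forall_bool.2 ⟨tC38B_c10, tC38B_c11⟩,
    Bool.forall_bool.2 ⟨(Bool.forall_bool.2 ⟨tC38B_c3p00, tC38B_c3p01⟩), (Bool.forall_bool.2 ⟨tC38B_c3p10, tC38B_c3p11⟩)⟩,
    Bool.forall_bool.2 ⟨(Bool.forall_bool.2 ⟨tC38B_c3m00, tC38B_c3m01⟩), (Bool.forall_bool.2 ⟨tC38B_c3m10, tC38B_c3m11⟩)⟩,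
    Bool.forall_bool.2 ⟨(Bool.forall_bool.2 ⟨tC38B_tmg00, tC38B_tmg01⟩), (Bool.forall_bool.2 ⟨tC38B_tmg10, tC38B_tmg11⟩)⟩,
    .inr (Bool.forall_bool.2 ⟨⟨tC38B_c1h0, Bool.forall_bool.2 ⟨⟨tC38B_c3ph00, tC38B_c3mh00, tC38B_up00, tC38B_um00⟩, ⟨tC38B_c3ph01, tC38B_c3mh01, tC38B_up01, tC38B_um01⟩⟩⟩, ⟨tC38B_c1h1, Bool.forall_bool.2 ⟨⟨tC38B_c3ph10, tC38B_c3mh10, tC38B_up10, tC38B_um10⟩, ⟨tC38B_c3ph11, tC38B_c3mh11, tC38B_up11, tC38B_um11⟩⟩⟩⟩),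
    tC38B_v2p,
    tC38B_v2m,
    tC38B_v3p,
    tC38B_v3m,
    posD_sub (b := ⟨⟨0, 1, 1⟩, ⟨98, 99, 147⟩, ⟨4050, 10000, 30000⟩, ⟨290, 4000, 1000⟩⟩) (by decide +kernel) tC_vG,
    posD_sub (b := ⟨⟨0, 1, 1⟩, ⟨98, 99, 147⟩, ⟨4050, 10000, 30000⟩, ⟨290, 4000, 1000⟩⟩) (by decide +kernel) tC_vMG,
    posD_sub (b := ⟨⟨0, 1, 1⟩, ⟨98, 99, 147⟩, ⟨4050, 10000, 30000⟩, ⟨290, 4000, 1000⟩⟩) (by decide +kernel) tC_ak,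
    posD_sub (b := ⟨⟨0, 1, 1⟩, ⟨98, 99, 147⟩, ⟨4050, 10000, 30000⟩, ⟨290, 4000, 1000⟩⟩) (by decide +kernel) tC_aw,
    posD_sub (b := ⟨⟨0, 1, 1⟩, ⟨98, 99, 147⟩, ⟨4050, 10000, 30000⟩, ⟨290, 4000, 1000⟩⟩) (by decide +kernel) tC_gk,
    posD_sub (b := ⟨⟨0, 1, 1⟩, ⟨98, 99, 147⟩, ⟨4050, 10000, 30000⟩, ⟨290, 4000, 1000⟩⟩) (by decide +kernel) tC_gw,
    posD_sub (b := ⟨⟨0, 1, 1⟩, ⟨98, 99, 147⟩, ⟨4050, 10000, 30000⟩, ⟨290, 4000, 1000⟩⟩) (by decide +kernel) tC_ek,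
    posD_sub (b := ⟨⟨0, 1, 1⟩, ⟨98, 99, 147⟩, ⟨4050, 10000, 30000⟩, ⟨290, 4000, 1000⟩⟩) (by decide +kernel) tC_ew⟩

end Vale.Agent.P100.Calib.Closed.Six.Tail
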