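import Vale.Agent.P100.Calib.SlabSixTailDataC
import Vale.Agent.P100.Calib.SlabSixTailGlobC

/-!
# Checks of some pieces of the certificate

The checks are written as definitions so that they run one after another, which keeps the memory of the
kernel low.
-/

set_option linter.defProp false

namespace Vale.Agent.P100.Calib.Closed.Six.Tail

open BoxPos Large

local instance sixTailCheckstC28Add : Add Ex := ⟨Ex.add⟩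
local instance sixTailCheckstC28Sub : Sub Ex := ⟨Ex.sub⟩
local instance sixTailCheckstC28Mul : Mul Ex := ⟨Ex.mul⟩

def tC40_phx : PosIf ⟨⟨0, 1, 1⟩, ⟨98, 99, 147⟩, ⟨4050, 7026, 30000⟩, ⟨1599, 1900, 1000⟩⟩ (tC40.u₁ - tC40Lo) (phCn (tC40.u₁ + xO * (tC40Lo - tC40.u₁))) :=
  posIf_of_posD (posD_of_check (c := ⟨108, ⟨2, 0, 4, 2⟩⟩) (by decide +kernel))

def tC40_phd : PosD ⟨⟨0, 1, 1⟩, ⟨98, 99, 147⟩, ⟨4050, 7026, 30000⟩, ⟨1599, 1900, 1000⟩⟩ (phCd (tC40.u₁ + xO * (tC40Lo - tC40.u₁))) :=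
  posD_of_check (c := ⟨51, ⟨1, 0, 2, 1⟩⟩) (by decide +kernel)

def tC40_p0 : PosD ⟨⟨0, 1, 1⟩, ⟨98, 99, 147⟩, ⟨4050, 7026, 30000⟩, ⟨1599, 1900, 1000⟩⟩ (tC40.hP0) :=
  posD_of_check (c := ⟨83, ⟨0, 2, 3, 1⟩⟩) (by decide +kernel)

def tC40_gn : PosD ⟨⟨0, 1, 1⟩, ⟨98, 99, 147⟩, ⟨4050, 7026, 30000⟩, ⟨1599, 1900, 1000⟩⟩ (tC40.hGn) :=
  posD_of_check (c := ⟨69, ⟨1, 1, 2, 2⟩⟩) (by decide +kernel)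

def tC40_den0 : PosD ⟨⟨0, 1, 1⟩, ⟨98, 99, 147⟩, ⟨4050, 7026, 30000⟩, ⟨1599, 1900, 1000⟩⟩ (tC40.hDen false) :=
  posD_of_check (c := ⟨51, ⟨1, 0, 2, 1⟩⟩) (by decide +kernel)

def tC40_den1 : PosD ⟨⟨0, 1, 1⟩, ⟨98, 99, 147⟩, ⟨4050, 7026, 30000⟩, ⟨1599, 1900, 1000⟩⟩ (tC40.hDen true) :=
  posD_of_check (c := ⟨51, ⟨1, 0, 2, 1⟩⟩) (by decide +kernel)

def tC40_ev0 : PosD ⟨⟨0, 1, 1⟩, ⟨98, 99, 147⟩, ⟨4050, 7026, 30000⟩, ⟨1599, 1900, 1000⟩⟩ (tC40.hEv false) :=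
  posD_of_check (c := ⟨218, ⟨4, 2, 8, 4⟩⟩) (by decide +kernel)

def tC40_zL0 : PosD ⟨⟨0, 1, 1⟩, ⟨98, 99, 147⟩, ⟨4050, 7026, 30000⟩, ⟨1599, 1900, 1000⟩⟩ (tC40.hZL false) :=
  posD_of_check (c := ⟨220, ⟨4, 3, 8, 4⟩⟩) (by decide +kernel)

def tC40_zU0a : PosD ⟨⟨0, 1, 2⟩, ⟨98, 99, 147⟩, ⟨4050, 7026, 30000⟩, ⟨1599, 1900, 1000⟩⟩ (tC40.hZU false) :=
  posD_of_check (c := ⟨223, ⟨4, 3, 8, 4⟩⟩) (by decide +kernel)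

def tC40_zU0ba : PosD ⟨⟨2, 3, 4⟩, ⟨98, 99, 147⟩, ⟨4050, 7026, 30000⟩, ⟨1599, 1900, 1000⟩⟩ (tC40.hZU false) :=
  posD_of_check (c := ⟨229, ⟨4, 3, 8, 4⟩⟩) (by decide +kernel)

def tC40_zU0bba : PosD ⟨⟨6, 7, 8⟩, ⟨98, 99, 147⟩, ⟨4050, 7026, 30000⟩, ⟨1599, 1900, 1000⟩⟩ (tC40.hZU false) :=
  posD_of_check (c := ⟨233, ⟨4, 3, 8, 4⟩⟩) (by decide +kernel)

def tC40_zU0bbba : PosD ⟨⟨14, 15, 16⟩, ⟨98, 99, 147⟩, ⟨4050, 7026, 30000⟩, ⟨1599, 1900, 1000⟩⟩ (tC40.hZU false) :=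
  posD_of_check (c := ⟨238, ⟨4, 3, 8, 4⟩⟩) (by decide +kernel)

def tC40_zU0bbbbaa : PosD ⟨⟨15, 16, 16⟩, ⟨98, 99, 147⟩, ⟨4050, 5538, 30000⟩, ⟨1599, 1749, 1000⟩⟩ (tC40.hZU false) :=
  posD_of_check (c := ⟨237, ⟨4, 3, 8, 4⟩⟩) (by decide +kernel)

def tC40_zU0bbbbab : PosD ⟨⟨15, 16, 16⟩, ⟨98, 99, 147⟩, ⟨4050, 5538, 30000⟩, ⟨1749, 1900, 1000⟩⟩ (tC40.hZU false) :=
  posD_of_check (c := ⟨237, ⟨4, 3, 8, 4⟩⟩) (by decide +kernel)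

def tC40_zU0bbbba : PosD ⟨⟨15, 16, 16⟩, ⟨98, 99, 147⟩, ⟨4050, 5538, 30000⟩, ⟨1599, 1900, 1000⟩⟩ (tC40.hZU false) :=
  posD_join₃ tC40_zU0bbbbaa tC40_zU0bbbbab

def tC40_zU0bbbbba : PosD ⟨⟨15, 16, 16⟩, ⟨98, 99, 147⟩, ⟨5538, 6282, 30000⟩, ⟨1599, 1900, 1000⟩⟩ (tC40.hZU false) :=
  posD_of_check (c := ⟨238, ⟨4, 3, 8, 4⟩⟩) (by decide +kernel)

def tC40_zU0bbbbbb : PosD ⟨⟨15, 16, 16⟩, ⟨98, 99, 147⟩, ⟨6282, 7026, 30000⟩, ⟨1599, 1900, 1000⟩⟩ (tC40.hZU false) :=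
  posD_of_check (c := ⟨238, ⟨4, 3, 8, 4⟩⟩) (by decide +kernel)

def tC40_zU0bbbbb : PosD ⟨⟨15, 16, 16⟩, ⟨98, 99, 147⟩, ⟨5538, 7026, 30000⟩, ⟨1599, 1900, 1000⟩⟩ (tC40.hZU false) :=
  posD_join₂ tC40_zU0bbbbba tC40_zU0bbbbbb

def tC40_zU0bbbb : PosD ⟨⟨15, 16, 16⟩, ⟨98, 99, 147⟩, ⟨4050, 7026, 30000⟩, ⟨1599, 1900, 1000⟩⟩ (tC40.hZU false) :=
  posD_join₂ tC40_zU0bbbba tC40_zU0bbbbb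

def tC40_zU0bbb : PosD ⟨⟨7, 8, 8⟩, ⟨98, 99, 147⟩, ⟨4050, 7026, 30000⟩, ⟨1599, 1900, 1000⟩⟩ (tC40.hZU false) :=
  posD_units (b := ⟨⟨14, 16, 16⟩, ⟨98, 99, 147⟩, ⟨4050, 7026, 30000⟩, ⟨1599, 1900, 1000⟩⟩) (by decide +kernel) (posD_join₀ tC40_zU0bbba tC40_zU0bbbb)

def tC40_zU0bb : PosD ⟨⟨3, 4, 4⟩, ⟨98, 99, 147⟩, ⟨4050, 7026, 30000⟩, ⟨1599, 1900, 1000⟩⟩ (tC40.hZU false) :=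
  posD_units (b := ⟨⟨6, 8, 8⟩, ⟨98, 99, 147⟩, ⟨4050, 7026, 30000⟩, ⟨1599, 1900, 1000⟩⟩) (by decide +kernel) (posD_join₀ tC40_zU0bba tC40_zU0bbb)

def tC40_zU0b : PosD ⟨⟨1, 2, 2⟩, ⟨98, 99, 147⟩, ⟨4050, 7026, 30000⟩, ⟨1599, 1900, 1000⟩⟩ (tC40.hZU false) :=
  posD_units (b := ⟨⟨2, 4, 4⟩, ⟨98, 99, 147⟩, ⟨4050, 7026, 30000⟩, ⟨1599, 1900, 1000⟩⟩) (by decide +kernel) (posD_join₀ tC40_zU0ba tC40_zU0bb)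

def tC40_zU0 : PosD ⟨⟨0, 1, 1⟩, ⟨98, 99, 147⟩, ⟨4050, 7026, 30000⟩, ⟨1599, 1900, 1000⟩⟩ (tC40.hZU false) :=
  posD_units (b := ⟨⟨0, 2, 2⟩, ⟨98, 99, 147⟩, ⟨4050, 7026, 30000⟩, ⟨1599, 1900, 1000⟩⟩) (by decide +kernel) (posD_join₀ tC40_zU0a tC40_zU0b)

def tC40_eL0 : PosD ⟨⟨0, 1, 1⟩, ⟨98, 99, 147⟩, ⟨4050, 7026, 30000⟩, ⟨1599, 1900, 1000⟩⟩ (tC40.hEL false) :=
  posD_of_check (c := ⟨313, ⟨5, 6, 11, 6⟩⟩) (by decide +kernel)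

def tC40_eH0 : PosD ⟨⟨0, 1, 1⟩, ⟨98, 99, 147⟩, ⟨4050, 7026, 30000⟩, ⟨1599, 1900, 1000⟩⟩ (tC40.hEH false) :=
  posD_of_check (c := ⟨344, ⟨5, 6, 11, 7⟩⟩) (by decide +kernel)

def tC40_pL0 : PosD ⟨⟨0, 1, 1⟩, ⟨98, 99, 147⟩, ⟨4050, 7026, 30000⟩, ⟨1599, 1900, 1000⟩⟩ (tC40.hPL false) :=
  posD_of_check (c := ⟨338, ⟨5, 6, 11, 7⟩⟩) (by decide +kernel)

def tC40_pU0 : PosD ⟨⟨0, 1, 1⟩, ⟨98, 99, 147⟩, ⟨4050, 7026, 30000⟩, ⟨1599, 1900, 1000⟩⟩ (tC40.hPU false) :=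
  posD_of_check (c := ⟨346, ⟨5, 6, 11, 7⟩⟩) (by decide +kernel)

def tC40_kU0 : PosD ⟨⟨0, 1, 1⟩, ⟨98, 99, 147⟩, ⟨4050, 7026, 30000⟩, ⟨1599, 1900, 1000⟩⟩ (tC40.hKU false) :=
  posD_of_check (c := ⟨335, ⟨5, 6, 11, 7⟩⟩) (by decide +kernel)

def tC40_kL0 : PosD ⟨⟨0, 1, 1⟩, ⟨98, 99, 147⟩, ⟨4050, 7026, 30000⟩, ⟨1599, 1900, 1000⟩⟩ (tC40.hKL false) :=
  posD_of_check (c := ⟨335, ⟨5, 6, 11, 7⟩⟩) (by decide +kernel)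

def tC40_wU0 : PosD ⟨⟨0, 1, 1⟩, ⟨98, 99, 147⟩, ⟨4050, 7026, 30000⟩, ⟨1599, 1900, 1000⟩⟩ (tC40.hWU false) :=
  posD_of_check (c := ⟨369, ⟨5, 8, 12, 7⟩⟩) (by decide +kernel)

def tC40_wL0 : PosD ⟨⟨0, 1, 1⟩, ⟨98, 99, 147⟩, ⟨4050, 7026, 30000⟩, ⟨1599, 1900, 1000⟩⟩ (tC40.hWL false) :=
  posD_of_check (c := ⟨369, ⟨5, 8, 12, 7⟩⟩) (by decide +kernel)

def tC40_ev1 : PosD ⟨⟨0, 1, 1⟩, ⟨98, 99, 147⟩, ⟨4050, 7026, 30000⟩, ⟨1599, 1900, 1000⟩⟩ (tC40.hEv true) :=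
  posD_of_check (c := ⟨217, ⟨4, 2, 8, 4⟩⟩) (by decide +kernel)

def tC40_zL1aa : PosD ⟨⟨0, 1, 1⟩, ⟨98, 99, 147⟩, ⟨4050, 4794, 30000⟩, ⟨1599, 1900, 1000⟩⟩ (tC40.hZL true) :=
  posD_of_check (c := ⟨218, ⟨4, 3, 8, 4⟩⟩) (by decide +kernel)

def tC40_zL1ab : PosD ⟨⟨0, 1, 1⟩, ⟨98, 99, 147⟩, ⟨4794, 5538, 30000⟩, ⟨1599, 1900, 1000⟩⟩ (tC40.hZL true) :=
  posD_of_check (c := ⟨219, ⟨4, 3, 8, 4⟩⟩) (by decide +kernel)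

def tC40_zL1a : PosD ⟨⟨0, 1, 1⟩, ⟨98, 99, 147⟩, ⟨4050, 5538, 30000⟩, ⟨1599, 1900, 1000⟩⟩ (tC40.hZL true) :=
  posD_join₂ tC40_zL1aa tC40_zL1ab

def tC40_zL1b : PosD ⟨⟨0, 1, 1⟩, ⟨98, 99, 147⟩, ⟨5538, 7026, 30000⟩, ⟨1599, 1900, 1000⟩⟩ (tC40.hZL true) :=
  posD_of_check (c := ⟨219, ⟨4, 3, 8, 4⟩⟩) (by decide +kernel)

def tC40_zL1 : PosD ⟨⟨0, 1, 1⟩, ⟨98, 99, 147⟩, ⟨4050, 7026, 30000⟩, ⟨1599, 1900, 1000⟩⟩ (tC40.hZL true) :=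
  posD_join₂ tC40_zL1a tC40_zL1b

def tC40_zU1 : PosD ⟨⟨0, 1, 1⟩, ⟨98, 99, 147⟩, ⟨4050, 7026, 30000⟩, ⟨1599, 1900, 1000⟩⟩ (tC40.hZU true) :=
  posD_of_check (c := ⟨219, ⟨4, 3, 8, 4⟩⟩) (by decide +kernel)

def tC40_eL1 : PosD ⟨⟨0, 1, 1⟩, ⟨98, 99, 147⟩, ⟨4050, 7026, 30000⟩, ⟨1599, 1900, 1000⟩⟩ (tC40.hEL true) :=
  posD_of_check (c := ⟨312, ⟨5, 6, 11, 6⟩⟩) (by decide +kernel)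

def tC40_eH1 : PosD ⟨⟨0, 1, 1⟩, ⟨98, 99, 147⟩, ⟨4050, 7026, 30000⟩, ⟨1599, 1900, 1000⟩⟩ (tC40.hEH true) :=
  posD_of_check (c := ⟨342, ⟨5, 6, 11, 7⟩⟩) (by decide +kernel)

def tC40_pL1 : PosD ⟨⟨0, 1, 1⟩, ⟨98, 99, 147⟩, ⟨4050, 7026, 30000⟩, ⟨1599, 1900, 1000⟩⟩ (tC40.hPL true) :=
  posD_of_check (c := ⟨337, ⟨5, 6, 11, 7⟩⟩) (by decide +kernel)

def tC40_pU1 : PosD ⟨⟨0, 1, 1⟩, ⟨98, 99, 147⟩, ⟨4050, 7026, 30000⟩, ⟨1599, 1900, 1000⟩⟩ (tC40.hPU true) :=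
  posD_of_check (c := ⟨345, ⟨5, 6, 11, 7⟩⟩) (by decide +kernel)

def tC40_kU1 : PosD ⟨⟨0, 1, 1⟩, ⟨98, 99, 147⟩, ⟨4050, 7026, 30000⟩, ⟨1599, 1900, 1000⟩⟩ (tC40.hKU true) :=
  posD_of_check (c := ⟨334, ⟨5, 6, 11, 7⟩⟩) (by decide +kernel)

def tC40_kL1 : PosD ⟨⟨0, 1, 1⟩, ⟨98, 99, 147⟩, ⟨4050, 7026, 30000⟩, ⟨1599, 1900, 1000⟩⟩ (tC40.hKL true) :=
  posD_of_check (c := ⟨334, ⟨5, 6, 11, 7⟩⟩) (by decide +kernel)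

def tC40_wU1 : PosD ⟨⟨0, 1, 1⟩, ⟨98, 99, 147⟩, ⟨4050, 7026, 30000⟩, ⟨1599, 1900, 1000⟩⟩ (tC40.hWU true) :=
  posD_of_check (c := ⟨368, ⟨5, 8, 12, 7⟩⟩) (by decide +kernel)

def tC40_wL1 : PosD ⟨⟨0, 1, 1⟩, ⟨98, 99, 147⟩, ⟨4050, 7026, 30000⟩, ⟨1599, 1900, 1000⟩⟩ (tC40.hWL true) :=
  posD_of_check (c := ⟨368, ⟨5, 8, 12, 7⟩⟩) (by decide +kernel)

def tC40_nueH : PosD ⟨⟨0, 1, 1⟩, ⟨98, 99, 147⟩, ⟨4050, 7026, 30000⟩, ⟨1599, 1900, 1000⟩⟩ (tC40.eH.ν) :=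
  posD_of_check (c := ⟨44, ⟨0, 0, 1, 1⟩⟩) (by decide +kernel)

def tC40_nupU : PosD ⟨⟨0, 1, 1⟩, ⟨98, 99, 147⟩, ⟨4050, 7026, 30000⟩, ⟨1599, 1900, 1000⟩⟩ (tC40.pU.ν) :=
  posD_of_check (c := ⟨46, ⟨0, 0, 1, 1⟩⟩) (by decide +kernel)

/-- The bounds of the piece. -/
def tC40_env : tC40.Env ⟨⟨0, 1, 1⟩, ⟨98, 99, 147⟩, ⟨4050, 7026, 30000⟩, ⟨1599, 1900, 1000⟩⟩ :=
  ⟨tC40_p0, Bool.forall_bool.2 ⟨tC40_den0, tC40_den1⟩, tC40_gn, Bool.forall_bool.2 ⟨tC40_ev0, tC40_ev1⟩, Bool.forall_bool.2 ⟨tC40_zL0, tC40_zL1⟩, Bool.forall_bool.2 ⟨tC40_zU0, tC40_zU1⟩, Bool.forall_bool.2 ⟨tC40_eL0, tC40_eL1⟩, ⟨.inr rfl, .inr rfl⟩, Bool.forall_bool.2 ⟨tC40_eH0, tC40_eH1⟩, ⟨.inr rfl, .inl tC40_nueH⟩, Bool.forall_bool.2 ⟨tC40_pL0, tC40_pL1⟩, ⟨.inr rfl,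 .inr rfl⟩, Bool.forall_bool.2 ⟨tC40_pU0, tC40_pU1⟩, ⟨.inr rfl, .inl tC40_nupU⟩, Bool.forall_bool.2 ⟨tC40_kU0, tC40_kU1⟩, ⟨.inr rfl, .inr rfl⟩, Bool.forall_bool.2 ⟨tC40_kL0, tC40_kL1⟩, ⟨.inr rfl, .inr rfl⟩, Bool.forall_bool.2 ⟨tC40_wU0, tC40_wU1⟩, ⟨.inr rfl, .inr rfl⟩, Bool.forall_bool.2 ⟨tC40_wL0, tC40_wL1⟩, ⟨.inr rfl, .inr rfl⟩⟩

def tC40_pp : PosD ⟨⟨0, 1, 1⟩, ⟨98, 99, 147⟩, ⟨4050, 7026, 30000⟩, ⟨1599, 1900, 1000⟩⟩ (tC40.xPL) :=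
  posD_of_check (c := ⟨95, ⟨1, 1, 3, 3⟩⟩) (by decide +kernel)

def tC40_k2p : PosD ⟨⟨0, 1, 1⟩, ⟨98, 99, 147⟩, ⟨4050, 7026, 30000⟩, ⟨1599, 1900, 1000⟩⟩ (tC40.k2p tC40.xE) :=
  posD_of_check (c := ⟨73, ⟨1, 1, 2, 2⟩⟩) (by decide +kernel)

def tC40_k2m : PosD ⟨⟨0, 1, 1⟩, ⟨98, 99, 147⟩, ⟨4050, 7026, 30000⟩, ⟨1599, 1900, 1000⟩⟩ (tC40.k2m tC40.xE) :=
  posD_of_check (c := ⟨29, ⟨0, 0, 1, 1⟩⟩) (by decide +kernel)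

def tC40_v2p : PosD ⟨⟨0, 1, 1⟩, ⟨98, 99, 147⟩, ⟨4050, 7026, 30000⟩, ⟨1599, 1900, 1000⟩⟩ (tC40.hV2p) :=
  posD_of_check (c := ⟨273, ⟨1, 6, 10, 5⟩⟩) (by decide +kernel)

def tC40_v2m : PosD ⟨⟨0, 1, 1⟩, ⟨98, 99, 147⟩, ⟨4050, 7026, 30000⟩, ⟨1599, 1900, 1000⟩⟩ (tC40.hV2m) :=
  posD_of_check (c := ⟨242, ⟨0, 5, 10, 4⟩⟩) (by decide +kernel)

def tC40_v3p : PosD ⟨⟨0, 1, 1⟩, ⟨98, 99, 147⟩, ⟨4050, 7026, 30000⟩, ⟨1599, 1900, 1000⟩⟩ (tC40.hV3p) :=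
  posD_of_check (c := ⟨258, ⟨1, 6, 9, 5⟩⟩) (by decide +kernel)

def tC40_v3m : PosD ⟨⟨0, 1, 1⟩, ⟨98, 99, 147⟩, ⟨4050, 7026, 30000⟩, ⟨1599, 1900, 1000⟩⟩ (tC40.hV3m) :=
  posD_of_check (c := ⟨230, ⟨0, 5, 9, 4⟩⟩) (by decide +kernel)

def tC40_kap0 : PosD ⟨⟨0, 1, 1⟩, ⟨98, 99, 147⟩, ⟨4050, 7026, 30000⟩, ⟨1599, 1900, 1000⟩⟩ (tC40.kap false) :=
  posD_of_check (c := ⟨70, ⟨1, 1, 2, 2⟩⟩) (by decide +kernel)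

def tC40_c10 : PosD ⟨⟨0, 1, 1⟩, ⟨98, 99, 147⟩, ⟨4050, 7026, 30000⟩, ⟨1599, 1900, 1000⟩⟩ (tC40.hC1 false) :=
  posD_of_check (c := ⟨272, ⟨3, 5, 9, 7⟩⟩) (by decide +kernel)

def tC40_c1h0 : PosD ⟨⟨0, 1, 1⟩, ⟨98, 99, 147⟩, ⟨4050, 7026, 30000⟩, ⟨1599, 1900, 1000⟩⟩ (tC40.hC1' false) :=
  posD_of_check (c := ⟨272, ⟨3, 5, 9, 7⟩⟩) (by decide +kernel)

def tC40_tg00 : PosD ⟨⟨0, 1, 1⟩, ⟨98, 99, 147⟩, ⟨4050, 7026, 30000⟩, ⟨1599, 1900, 1000⟩⟩ (tC40.hG false (tC40.pEnd false)) :=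
  posD_of_check (c := ⟨385, ⟨2, 7, 14, 9⟩⟩) (by decide +kernel)

def tC40_c2p00 : PosD ⟨⟨0, 1, 1⟩, ⟨98, 99, 147⟩, ⟨4050, 7026, 30000⟩, ⟨1599, 1900, 1000⟩⟩ (tC40.hC2p false (tC40.pEnd false)) :=
  posD_of_check (c := ⟨458, ⟨3, 8, 16, 11⟩⟩) (by decide +kernel)

def tC40_c2m00 : PosD ⟨⟨0, 1, 1⟩, ⟨98, 99, 147⟩, ⟨4050, 7026, 30000⟩, ⟨1599, 1900, 1000⟩⟩ (tC40.hC2m false (tC40.pEnd false)) :=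
  posD_of_check (c := ⟨427, ⟨2, 7, 16, 10⟩⟩) (by decide +kernel)

def tC40_c3p00 : PosD ⟨⟨0, 1, 1⟩, ⟨98, 99, 147⟩, ⟨4050, 7026, 30000⟩, ⟨1599, 1900, 1000⟩⟩ (tC40.hC3p false false) :=
  posD_of_check (c := ⟨444, ⟨3, 8, 15, 11⟩⟩) (by decide +kernel)

def tC40_c3m00 : PosD ⟨⟨0, 1, 1⟩, ⟨98, 99, 147⟩, ⟨4050, 7026, 30000⟩, ⟨1599, 1900, 1000⟩⟩ (tC40.hC3m false false) :=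
  posD_of_check (c := ⟨419, ⟨3, 7, 15, 10⟩⟩) (by decide +kernel)

def tC40_c3ph00 : PosD ⟨⟨0, 1, 1⟩, ⟨98, 99, 147⟩, ⟨4050, 7026, 30000⟩, ⟨1599, 1900, 1000⟩⟩ (tC40.hC3p' false false) :=
  posD_of_check (c := ⟨444, ⟨3, 8, 15, 11⟩⟩) (by decide +kernel)

def tC40_c3mh00 : PosD ⟨⟨0, 1, 1⟩, ⟨98, 99, 147⟩, ⟨4050, 7026, 30000⟩, ⟨1599, 1900, 1000⟩⟩ (tC40.hC3m' false false) :=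
  posD_of_check (c := ⟨419, ⟨3, 7, 15, 10⟩⟩) (by decide +kernel)

def tC40_up00 : PosD ⟨⟨0, 1, 1⟩, ⟨98, 99, 147⟩, ⟨4050, 7026, 30000⟩, ⟨1599, 1900, 1000⟩⟩ (tC40.hUp false false) :=
  posD_of_check (c := ⟨443, ⟨3, 8, 15, 11⟩⟩) (by decide +kernel)

def tC40_um00 : PosD ⟨⟨0, 1, 1⟩, ⟨98, 99, 147⟩, ⟨4050, 7026, 30000⟩, ⟨1599, 1900, 1000⟩⟩ (tC40.hUm false false) :=
  posD_of_check (c := ⟨416, ⟨2, 7, 15, 10⟩⟩) (by decide +kernel)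

def tC40_tmg00 : PosD ⟨⟨0, 1, 1⟩, ⟨98, 99, 147⟩, ⟨4050, 7026, 30000⟩, ⟨1599, 1900, 1000⟩⟩ (tC40.hTMG false (tC40.pEnd false)) :=
  posD_of_check (c := ⟨400, ⟨2, 7, 14, 10⟩⟩) (by decide +kernel)

def tC40_tg01 : PosD ⟨⟨0, 1, 1⟩, ⟨98, 99, 147⟩, ⟨4050, 7026, 30000⟩, ⟨1599, 1900, 1000⟩⟩ (tC40.hG true (tC40.pEnd false)) :=
  posD_of_check (c := ⟨385, ⟨2, 7, 14, 9⟩⟩) (by decide +kernel)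

def tC40_c2p01 : PosD ⟨⟨0, 1, 1⟩, ⟨98, 99, 147⟩, ⟨4050, 7026, 30000⟩, ⟨1599, 1900, 1000⟩⟩ (tC40.hC2p true (tC40.pEnd false)) :=
  posD_of_check (c := ⟨458, ⟨3, 8, 16, 11⟩⟩) (by decide +kernel)

def tC40_c2m01 : PosD ⟨⟨0, 1, 1⟩, ⟨98, 99, 147⟩, ⟨4050, 7026, 30000⟩, ⟨1599, 1900, 1000⟩⟩ (tC40.hC2m true (tC40.pEnd false)) :=
  posD_of_check (c := ⟨427, ⟨2, 7, 16, 10⟩⟩) (by decide +kernel)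

def tC40_c3p01 : PosD ⟨⟨0, 1, 1⟩, ⟨98, 99, 147⟩, ⟨4050, 7026, 30000⟩, ⟨1599, 1900, 1000⟩⟩ (tC40.hC3p false true) :=
  posD_of_check (c := ⟨444, ⟨3, 8, 15, 11⟩⟩) (by decide +kernel)

def tC40_c3m01 : PosD ⟨⟨0, 1, 1⟩, ⟨98, 99, 147⟩, ⟨4050, 7026, 30000⟩, ⟨1599, 1900, 1000⟩⟩ (tC40.hC3m false true) :=
  posD_of_check (c := ⟨419, ⟨3, 7, 15, 10⟩⟩) (by decide +kernel)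

def tC40_c3ph01 : PosD ⟨⟨0, 1, 1⟩, ⟨98, 99, 147⟩, ⟨4050, 7026, 30000⟩, ⟨1599, 1900, 1000⟩⟩ (tC40.hC3p' false true) :=
  posD_of_check (c := ⟨444, ⟨3, 8, 15, 11⟩⟩) (by decide +kernel)

def tC40_c3mh01 : PosD ⟨⟨0, 1, 1⟩, ⟨98, 99, 147⟩, ⟨4050, 7026, 30000⟩, ⟨1599, 1900, 1000⟩⟩ (tC40.hC3m' false true) :=
  posD_of_check (c := ⟨419, ⟨3, 7, 15, 10⟩⟩) (by decide +kernel)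

def tC40_up01 : PosD ⟨⟨0, 1, 1⟩, ⟨98, 99, 147⟩, ⟨4050, 7026, 30000⟩, ⟨1599, 1900, 1000⟩⟩ (tC40.hUp false true) :=
  posD_of_check (c := ⟨443, ⟨3, 8, 15, 11⟩⟩) (by decide +kernel)

def tC40_um01 : PosD ⟨⟨0, 1, 1⟩, ⟨98, 99, 147⟩, ⟨4050, 7026, 30000⟩, ⟨1599, 1900, 1000⟩⟩ (tC40.hUm false true) :=
  posD_of_check (c := ⟨416, ⟨2, 7, 15, 10⟩⟩) (by decide +kernel)

def tC40_tmg01 : PosD ⟨⟨0, 1, 1⟩, ⟨98, 99, 147⟩, ⟨4050, 7026, 30000⟩, ⟨1599, 1900, 1000⟩⟩ (tC40.hTMG true (tC40.pEnd false)) :=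
  posD_of_check (c := ⟨400, ⟨2, 7, 14, 10⟩⟩) (by decide +kernel)

def tC40_kap1 : PosD ⟨⟨0, 1, 1⟩, ⟨98, 99, 147⟩, ⟨4050, 7026, 30000⟩, ⟨1599, 1900, 1000⟩⟩ (tC40.kap true) :=
  posD_of_check (c := ⟨73, ⟨1, 1, 2, 2⟩⟩) (by decide +kernel)

def tC40_c11 : PosD ⟨⟨0, 1, 1⟩, ⟨98, 99, 147⟩, ⟨4050, 7026, 30000⟩, ⟨1599, 1900, 1000⟩⟩ (tC40.hC1 true) :=
  posD_of_check (c := ⟨274, ⟨3, 5, 9, 7⟩⟩) (by decide +kernel)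

def tC40_c1h1 : PosD ⟨⟨0, 1, 1⟩, ⟨98, 99, 147⟩, ⟨4050, 7026, 30000⟩, ⟨1599, 1900, 1000⟩⟩ (tC40.hC1' true) :=
  posD_of_check (c := ⟨274, ⟨3, 5, 9, 7⟩⟩) (by decide +kernel)

def tC40_tg10 : PosD ⟨⟨0, 1, 1⟩, ⟨98, 99, 147⟩, ⟨4050, 7026, 30000⟩, ⟨1599, 1900, 1000⟩⟩ (tC40.hG false (tC40.pEnd true)) :=
  posD_of_check (c := ⟨385, ⟨2, 7, 14, 9⟩⟩) (by decide +kernel)

def tC40_c2p10 : PosD ⟨⟨0, 1, 1⟩, ⟨98, 99, 147⟩, ⟨4050, 7026, 30000⟩, ⟨1599, 1900, 1000⟩⟩ (tC40.hC2p false (tC40.pEnd true)) :=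
  posD_of_check (c := ⟨457, ⟨3, 8, 16, 11⟩⟩) (by decide +kernel)

def tC40_c2m10 : PosD ⟨⟨0, 1, 1⟩, ⟨98, 99, 147⟩, ⟨4050, 7026, 30000⟩, ⟨1599, 1900, 1000⟩⟩ (tC40.hC2m false (tC40.pEnd true)) :=
  posD_of_check (c := ⟨427, ⟨2, 7, 16, 10⟩⟩) (by decide +kernel)

def tC40_c3p10 : PosD ⟨⟨0, 1, 1⟩, ⟨98, 99, 147⟩, ⟨4050, 7026, 30000⟩, ⟨1599, 1900, 1000⟩⟩ (tC40.hC3p true false) :=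
  posD_of_check (c := ⟨445, ⟨3, 8, 15, 11⟩⟩) (by decide +kernel)

def tC40_c3m10 : PosD ⟨⟨0, 1, 1⟩, ⟨98, 99, 147⟩, ⟨4050, 7026, 30000⟩, ⟨1599, 1900, 1000⟩⟩ (tC40.hC3m true false) :=
  posD_of_check (c := ⟨421, ⟨3, 7, 15, 10⟩⟩) (by decide +kernel)

def tC40_c3ph10 : PosD ⟨⟨0, 1, 1⟩, ⟨98, 99, 147⟩, ⟨4050, 7026, 30000⟩, ⟨1599, 1900, 1000⟩⟩ (tC40.hC3p' true false) :=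
  posD_of_check (c := ⟨445, ⟨3, 8, 15, 11⟩⟩) (by decide +kernel)

def tC40_c3mh10 : PosD ⟨⟨0, 1, 1⟩, ⟨98, 99, 147⟩, ⟨4050, 7026, 30000⟩, ⟨1599, 1900, 1000⟩⟩ (tC40.hC3m' true false) :=
  posD_of_check (c := ⟨421, ⟨3, 7, 15, 10⟩⟩) (by decide +kernel)

def tC40_up10 : PosD ⟨⟨0, 1, 1⟩, ⟨98, 99, 147⟩, ⟨4050, 7026, 30000⟩, ⟨1599, 1900, 1000⟩⟩ (tC40.hUp true false) :=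
  posD_of_check (c := ⟨443, ⟨3, 8, 15, 11⟩⟩) (by decide +kernel)

def tC40_um10 : PosD ⟨⟨0, 1, 1⟩, ⟨98, 99, 147⟩, ⟨4050, 7026, 30000⟩, ⟨1599, 1900, 1000⟩⟩ (tC40.hUm true false) :=
  posD_of_check (c := ⟨416, ⟨2, 7, 15, 10⟩⟩) (by decide +kernel)

def tC40_tmg10 : PosD ⟨⟨0, 1, 1⟩, ⟨98, 99, 147⟩, ⟨4050, 7026, 30000⟩, ⟨1599, 1900, 1000⟩⟩ (tC40.hTMG false (tC40.pEnd true)) :=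
  posD_of_check (c := ⟨400, ⟨2, 7, 14, 10⟩⟩) (by decide +kernel)

def tC40_tg11 : PosD ⟨⟨0, 1, 1⟩, ⟨98, 99, 147⟩, ⟨4050, 7026, 30000⟩, ⟨1599, 1900, 1000⟩⟩ (tC40.hG true (tC40.pEnd true)) :=
  posD_of_check (c := ⟨385, ⟨2, 7, 14, 9⟩⟩) (by decide +kernel)

def tC40_c2p11 : PosD ⟨⟨0, 1, 1⟩, ⟨98, 99, 147⟩, ⟨4050, 7026, 30000⟩, ⟨1599, 1900, 1000⟩⟩ (tC40.hC2p true (tC40.pEnd true)) :=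
  posD_of_check (c := ⟨457, ⟨3, 8, 16, 11⟩⟩) (by decide +kernel)

def tC40_c2m11 : PosD ⟨⟨0, 1, 1⟩, ⟨98, 99, 147⟩, ⟨4050, 7026, 30000⟩, ⟨1599, 1900, 1000⟩⟩ (tC40.hC2m true (tC40.pEnd true)) :=
  posD_of_check (c := ⟨427, ⟨2, 7, 16, 10⟩⟩) (by decide +kernel)

def tC40_c3p11 : PosD ⟨⟨0, 1, 1⟩, ⟨98, 99, 147⟩, ⟨4050, 7026, 30000⟩, ⟨1599, 1900, 1000⟩⟩ (tC40.hC3p true true) :=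
  posD_of_check (c := ⟨445, ⟨3, 8, 15, 11⟩⟩) (by decide +kernel)

def tC40_c3m11 : PosD ⟨⟨0, 1, 1⟩, ⟨98, 99, 147⟩, ⟨4050, 7026, 30000⟩, ⟨1599, 1900, 1000⟩⟩ (tC40.hC3m true true) :=
  posD_of_check (c := ⟨421, ⟨3, 7, 15, 10⟩⟩) (by decide +kernel)

def tC40_c3ph11 : PosD ⟨⟨0, 1, 1⟩, ⟨98, 99, 147⟩, ⟨4050, 7026, 30000⟩, ⟨1599, 1900, 1000⟩⟩ (tC40.hC3p' true true) :=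
  posD_of_check (c := ⟨445, ⟨3, 8, 15, 11⟩⟩) (by decide +kernel)

def tC40_c3mh11 : PosD ⟨⟨0, 1, 1⟩, ⟨98, 99, 147⟩, ⟨4050, 7026, 30000⟩, ⟨1599, 1900, 1000⟩⟩ (tC40.hC3m' true true) :=
  posD_of_check (c := ⟨421, ⟨3, 7, 15, 10⟩⟩) (by decide +kernel)

def tC40_up11 : PosD ⟨⟨0, 1, 1⟩, ⟨98, 99, 147⟩, ⟨4050, 7026, 30000⟩, ⟨1599, 1900, 1000⟩⟩ (tC40.hUp true true) :=
  posD_of_check (c := ⟨443, ⟨3, 8, 15, 11⟩⟩) (by decide +kernel)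

def tC40_um11 : PosD ⟨⟨0, 1, 1⟩, ⟨98, 99, 147⟩, ⟨4050, 7026, 30000⟩, ⟨1599, 1900, 1000⟩⟩ (tC40.hUm true true) :=
  posD_of_check (c := ⟨416, ⟨2, 7, 15, 10⟩⟩) (by decide +kernel)

def tC40_tmg11 : PosD ⟨⟨0, 1, 1⟩, ⟨98, 99, 147⟩, ⟨4050, 7026, 30000⟩, ⟨1599, 1900, 1000⟩⟩ (tC40.hTMG true (tC40.pEnd true)) :=
  posD_of_check (c := ⟨400, ⟨2, 7, 14, 10⟩⟩) (by decide +kernel)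

/-- The signs of the piece. -/
def tC40_sign : tC40.Sign ⟨⟨0, 1, 1⟩, ⟨98, 99, 147⟩, ⟨4050, 7026, 30000⟩, ⟨1599, 1900, 1000⟩⟩ :=
  ⟨tC40_pp,
    tC40_k2p,
    tC40_k2m,
    Bool.forall_bool.2 ⟨(Bool.forall_bool.2 ⟨tC40_tg00, tC40_tg01⟩), (Bool.forall_bool.2 ⟨tC40_tg10, tC40_tg11⟩)⟩,
    Bool.forall_bool.2 ⟨(Bool.forall_bool.2 ⟨tC40_c2p00, tC40_c2p01⟩), (Bool.forall_bool.2 ⟨tC40_c2p10, tC40_c2p11⟩)⟩,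
    Bool.forall_bool.2 ⟨(Bool.forall_bool.2 ⟨tC40_c2m00, tC40_c2m01⟩), (Bool.forall_bool.2 ⟨tC40_c2m10, tC40_c2m11⟩)⟩,
    Bool.forall_bool.2 ⟨tC40_kap0, tC40_kap1⟩,
    Bool.forall_bool.2 ⟨tC40_c10, tC40_c11⟩,
    Bool.forall_bool.2 ⟨(Bool.forall_bool.2 ⟨tC40_c3p00, tC40_c3p01⟩), (Bool.forall_bool.2 ⟨tC40_c3p10, tC40_c3p11⟩)⟩,
    Bool.forall_bool.2 ⟨(Bool.forall_bool.2 ⟨tC40_c3m00, tC40_c3m01⟩), (Bool.forall_bool.2 ⟨tC40_c3m10, tC40_c3m11⟩)⟩,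
    Bool.forall_bool.2 ⟨(Bool.forall_bool.2 ⟨tC40_tmg00, tC40_tmg01⟩), (Bool.forall_bool.2 ⟨tC40_tmg10, tC40_tmg11⟩)⟩,
    .inr (Bool.forall_bool.2 ⟨⟨tC40_c1h0, Bool.forall_bool.2 ⟨⟨tC40_c3ph00, tC40_c3mh00, tC40_up00, tC40_um00⟩, ⟨tC40_c3ph01, tC40_c3mh01, tC40_up01, tC40_um01⟩⟩⟩, ⟨tC40_c1h1, Bool.forall_bool.2 ⟨⟨tC40_c3ph10, tC40_c3mh10, tC40_up10, tC40_um10⟩, ⟨tC40_c3ph11, tC40_c3mh11, tC40_up11, tC40_um11⟩⟩⟩⟩),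
    tC40_v2p,
    tC40_v2m,
    tC40_v3p,
    tC40_v3m,
    posD_sub (b := ⟨⟨0, 1, 1⟩, ⟨98, 99, 147⟩, ⟨4050, 10000, 30000⟩, ⟨290, 4000, 1000⟩⟩) (by decide +kernel) tC_vG,
    posD_sub (b := ⟨⟨0, 1, 1⟩, ⟨98, 99, 147⟩, ⟨4050, 10000, 30000⟩, ⟨290, 4000, 1000⟩⟩) (by decide +kernel) tC_vMG,
    posD_sub (b := ⟨⟨0, 1, 1⟩, ⟨98, 99, 147⟩, ⟨4050, 10000, 30000⟩, ⟨290, 4000, 1000⟩⟩) (by decide +kernel) tC_ak,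
    posD_sub (b := ⟨⟨0, 1, 1⟩, ⟨98, 99, 147⟩, ⟨4050, 10000, 30000⟩, ⟨290, 4000, 1000⟩⟩) (by decide +kernel) tC_aw,
    posD_sub (b := ⟨⟨0, 1, 1⟩, ⟨98, 99, 147⟩, ⟨4050, 10000, 30000⟩, ⟨290, 4000, 1000⟩⟩) (by decide +kernel) tC_gk,
    posD_sub (b := ⟨⟨0, 1, 1⟩, ⟨98, 99, 147⟩, ⟨4050, 10000, 30000⟩, ⟨290, 4000, 1000⟩⟩) (by decide +kernel) tC_gw,
    posD_sub (b := ⟨⟨0, 1, 1⟩, ⟨98, 99, 147⟩, ⟨4050, 10000, 30000⟩, ⟨290, 4000, 1000⟩⟩) (by decide +kernel) tC_ek,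
    posD_sub (b := ⟨⟨0, 1, 1⟩, ⟨98, 99, 147⟩, ⟨4050, 10000, 30000⟩, ⟨290, 4000, 1000⟩⟩) (by decide +kernel) tC_ew⟩

def tC41_phx : PosD ⟨⟨0, 1, 1⟩, ⟨98, 99, 147⟩, ⟨7026, 10000, 30000⟩, ⟨1346, 1900, 1000⟩⟩ (phCn (tC41Hi + xO * (tC41Lo - tC41Hi))) :=
  posD_of_check (c := ⟨71, ⟨2, 0, 2, 1⟩⟩) (by decide +kernel)

def tC41_phd : PosD ⟨⟨0, 1, 1⟩, ⟨98, 99, 147⟩, ⟨7026, 10000, 30000⟩, ⟨1346, 1900, 1000⟩⟩ (phCd (tC41Hi + xO * (tC41Lo - tC41Hi))) :=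
  posD_of_check (c := ⟨50, ⟨1, 0, 2, 0⟩⟩) (by decide +kernel)

end Vale.Agent.P100.Calib.Closed.Six.Tail
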