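import Vale.Agent.P100.Calib.SlabSixTailDataC
import Vale.Agent.P100.Calib.SlabSixTailGlobC

/-!
# Checks of some pieces of the certificate

The checks are written as definitions so that they run one after another, which keeps the memory of the
kernel low.
-/

set_option linter.defProp false

namespace Vale.Agent.P100.Calib.Closed.Six.Tail

open BoxPos Large

local instance sixTailCheckstC3Add : Add Ex := ⟨Ex.add⟩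
local instance sixTailCheckstC3Sub : Sub Ex := ⟨Ex.sub⟩
local instance sixTailCheckstC3Mul : Mul Ex := ⟨Ex.mul⟩

def tC10_p0a : PosD ⟨⟨0, 1, 1⟩, ⟨98, 99, 147⟩, ⟨4050, 7025, 30000⟩, ⟨417, 600, 1000⟩⟩ (tC10.hP0) :=
  posD_of_check (c := ⟨83, ⟨0, 2, 3, 1⟩⟩) (by decide +kernel)

def tC10_p0b : PosD ⟨⟨0, 1, 1⟩, ⟨98, 99, 147⟩, ⟨7025, 10000, 30000⟩, ⟨417, 600, 1000⟩⟩ (tC10.hP0) :=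
  posD_of_check (c := ⟨83, ⟨0, 2, 3, 1⟩⟩) (by decide +kernel)

def tC10_p0 : PosD ⟨⟨0, 1, 1⟩, ⟨98, 99, 147⟩, ⟨4050, 10000, 30000⟩, ⟨417, 600, 1000⟩⟩ (tC10.hP0) :=
  posD_join₂ tC10_p0a tC10_p0b

def tC10_gn : PosD ⟨⟨0, 1, 1⟩, ⟨98, 99, 147⟩, ⟨4050, 10000, 30000⟩, ⟨417, 600, 1000⟩⟩ (tC10.hGn) :=
  posD_of_check (c := ⟨57, ⟨1, 1, 2, 1⟩⟩) (by decide +kernel)

def tC10_den0 : PosD ⟨⟨0, 1, 1⟩, ⟨98, 99, 147⟩, ⟨4050, 10000, 30000⟩, ⟨417, 600, 1000⟩⟩ (tC10.hDen false) :=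
  posD_of_check (c := ⟨50, ⟨1, 0, 2, 0⟩⟩) (by decide +kernel)

def tC10_den1 : PosD ⟨⟨0, 1, 1⟩, ⟨98, 99, 147⟩, ⟨4050, 10000, 30000⟩, ⟨417, 600, 1000⟩⟩ (tC10.hDen true) :=
  posD_of_check (c := ⟨50, ⟨1, 0, 2, 0⟩⟩) (by decide +kernel)

def tC10_ev0 : PosD ⟨⟨0, 1, 1⟩, ⟨98, 99, 147⟩, ⟨4050, 10000, 30000⟩, ⟨417, 600, 1000⟩⟩ (tC10.hEv false) :=
  posD_of_check (c := ⟨137, ⟨4, 2, 4, 1⟩⟩) (by decide +kernel)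

def tC10_zL0 : PosD ⟨⟨0, 1, 1⟩, ⟨98, 99, 147⟩, ⟨4050, 10000, 30000⟩, ⟨417, 600, 1000⟩⟩ (tC10.hZL false) :=
  posD_of_check (c := ⟨172, ⟨4, 3, 6, 3⟩⟩) (by decide +kernel)

def tC10_zU0a : PosD ⟨⟨0, 1, 1⟩, ⟨98, 99, 147⟩, ⟨4050, 7025, 30000⟩, ⟨417, 600, 1000⟩⟩ (tC10.hZU false) :=
  posD_of_check (c := ⟨171, ⟨4, 3, 6, 3⟩⟩) (by decide +kernel)

def tC10_zU0ba : PosD ⟨⟨0, 1, 1⟩, ⟨98, 99, 147⟩, ⟨7025, 8512, 30000⟩, ⟨417, 600, 1000⟩⟩ (tC10.hZU false) :=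
  posD_of_check (c := ⟨172, ⟨4, 3, 6, 3⟩⟩) (by decide +kernel)

def tC10_zU0bb : PosD ⟨⟨0, 1, 1⟩, ⟨98, 99, 147⟩, ⟨8512, 10000, 30000⟩, ⟨417, 600, 1000⟩⟩ (tC10.hZU false) :=
  posD_of_check (c := ⟨173, ⟨4, 3, 6, 3⟩⟩) (by decide +kernel)

def tC10_zU0b : PosD ⟨⟨0, 1, 1⟩, ⟨98, 99, 147⟩, ⟨7025, 10000, 30000⟩, ⟨417, 600, 1000⟩⟩ (tC10.hZU false) :=
  posD_join₂ tC10_zU0ba tC10_zU0bb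

def tC10_zU0 : PosD ⟨⟨0, 1, 1⟩, ⟨98, 99, 147⟩, ⟨4050, 10000, 30000⟩, ⟨417, 600, 1000⟩⟩ (tC10.hZU false) :=
  posD_join₂ tC10_zU0a tC10_zU0b

def tC10_eL0 : PosD ⟨⟨0, 1, 1⟩, ⟨98, 99, 147⟩, ⟨4050, 10000, 30000⟩, ⟨417, 600, 1000⟩⟩ (tC10.hEL false) :=
  posD_of_check (c := ⟨248, ⟨5, 6, 7, 3⟩⟩) (by decide +kernel)

def tC10_eH0 : PosD ⟨⟨0, 1, 1⟩, ⟨98, 99, 147⟩, ⟨4050, 10000, 30000⟩, ⟨417, 600, 1000⟩⟩ (tC10.hEH false) :=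
  posD_of_check (c := ⟨250, ⟨5, 6, 7, 3⟩⟩) (by decide +kernel)

def tC10_pL0 : PosD ⟨⟨0, 1, 1⟩, ⟨98, 99, 147⟩, ⟨4050, 10000, 30000⟩, ⟨417, 600, 1000⟩⟩ (tC10.hPL false) :=
  posD_of_check (c := ⟨247, ⟨5, 6, 7, 3⟩⟩) (by decide +kernel)

def tC10_pU0 : PosD ⟨⟨0, 1, 1⟩, ⟨98, 99, 147⟩, ⟨4050, 10000, 30000⟩, ⟨417, 600, 1000⟩⟩ (tC10.hPU false) :=
  posD_of_check (c := ⟨246, ⟨5, 6, 7, 3⟩⟩) (by decide +kernel)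

def tC10_kU0 : PosD ⟨⟨0, 1, 1⟩, ⟨98, 99, 147⟩, ⟨4050, 10000, 30000⟩, ⟨417, 600, 1000⟩⟩ (tC10.hKU false) :=
  posD_of_check (c := ⟨248, ⟨5, 6, 7, 3⟩⟩) (by decide +kernel)

def tC10_kL0a : PosD ⟨⟨0, 1, 1⟩, ⟨98, 99, 147⟩, ⟨4050, 7025, 30000⟩, ⟨417, 600, 1000⟩⟩ (tC10.hKL false) :=
  posD_of_check (c := ⟨246, ⟨5, 6, 7, 3⟩⟩) (by decide +kernel)

def tC10_kL0ba : PosD ⟨⟨0, 1, 1⟩, ⟨98, 99, 147⟩, ⟨7025, 8512, 30000⟩, ⟨417, 600, 1000⟩⟩ (tC10.hKL false) :=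
  posD_of_check (c := ⟨248, ⟨5, 6, 7, 3⟩⟩) (by decide +kernel)

def tC10_kL0bb : PosD ⟨⟨0, 1, 1⟩, ⟨98, 99, 147⟩, ⟨8512, 10000, 30000⟩, ⟨417, 600, 1000⟩⟩ (tC10.hKL false) :=
  posD_of_check (c := ⟨248, ⟨5, 6, 7, 3⟩⟩) (by decide +kernel)

def tC10_kL0b : PosD ⟨⟨0, 1, 1⟩, ⟨98, 99, 147⟩, ⟨7025, 10000, 30000⟩, ⟨417, 600, 1000⟩⟩ (tC10.hKL false) :=
  posD_join₂ tC10_kL0ba tC10_kL0bb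

def tC10_kL0 : PosD ⟨⟨0, 1, 1⟩, ⟨98, 99, 147⟩, ⟨4050, 10000, 30000⟩, ⟨417, 600, 1000⟩⟩ (tC10.hKL false) :=
  posD_join₂ tC10_kL0a tC10_kL0b

def tC10_wU0a : PosD ⟨⟨0, 1, 1⟩, ⟨98, 99, 147⟩, ⟨4050, 7025, 30000⟩, ⟨417, 600, 1000⟩⟩ (tC10.hWU false) :=
  posD_of_check (c := ⟨278, ⟨5, 8, 8, 3⟩⟩) (by decide +kernel)

def tC10_wU0b : PosD ⟨⟨0, 1, 1⟩, ⟨98, 99, 147⟩, ⟨7025, 10000, 30000⟩, ⟨417, 600, 1000⟩⟩ (tC10.hWU false) :=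
  posD_of_check (c := ⟨280, ⟨5, 8, 8, 3⟩⟩) (by decide +kernel)

def tC10_wU0 : PosD ⟨⟨0, 1, 1⟩, ⟨98, 99, 147⟩, ⟨4050, 10000, 30000⟩, ⟨417, 600, 1000⟩⟩ (tC10.hWU false) :=
  posD_join₂ tC10_wU0a tC10_wU0b

def tC10_wL0 : PosD ⟨⟨0, 1, 1⟩, ⟨98, 99, 147⟩, ⟨4050, 10000, 30000⟩, ⟨417, 600, 1000⟩⟩ (tC10.hWL false) :=
  posD_of_check (c := ⟨280, ⟨5, 8, 8, 3⟩⟩) (by decide +kernel)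

def tC10_ev1 : PosD ⟨⟨0, 1, 1⟩, ⟨98, 99, 147⟩, ⟨4050, 10000, 30000⟩, ⟨417, 600, 1000⟩⟩ (tC10.hEv true) :=
  posD_of_check (c := ⟨138, ⟨4, 2, 4, 1⟩⟩) (by decide +kernel)

def tC10_zL1aa : PosD ⟨⟨0, 1, 1⟩, ⟨98, 99, 147⟩, ⟨4050, 5537, 30000⟩, ⟨417, 600, 1000⟩⟩ (tC10.hZL true) :=
  posD_of_check (c := ⟨170, ⟨4, 3, 6, 3⟩⟩) (by decide +kernel)

def tC10_zL1ab : PosD ⟨⟨0, 1, 1⟩, ⟨98, 99, 147⟩, ⟨5537, 7025, 30000⟩, ⟨417, 600, 1000⟩⟩ (tC10.hZL true) :=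
  posD_of_check (c := ⟨170, ⟨4, 3, 6, 3⟩⟩) (by decide +kernel)

def tC10_zL1a : PosD ⟨⟨0, 1, 1⟩, ⟨98, 99, 147⟩, ⟨4050, 7025, 30000⟩, ⟨417, 600, 1000⟩⟩ (tC10.hZL true) :=
  posD_join₂ tC10_zL1aa tC10_zL1ab

def tC10_zL1b : PosD ⟨⟨0, 1, 1⟩, ⟨98, 99, 147⟩, ⟨7025, 10000, 30000⟩, ⟨417, 600, 1000⟩⟩ (tC10.hZL true) :=
  posD_of_check (c := ⟨171, ⟨4, 3, 6, 3⟩⟩) (by decide +kernel)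

def tC10_zL1 : PosD ⟨⟨0, 1, 1⟩, ⟨98, 99, 147⟩, ⟨4050, 10000, 30000⟩, ⟨417, 600, 1000⟩⟩ (tC10.hZL true) :=
  posD_join₂ tC10_zL1a tC10_zL1b

def tC10_zU1 : PosD ⟨⟨0, 1, 1⟩, ⟨98, 99, 147⟩, ⟨4050, 10000, 30000⟩, ⟨417, 600, 1000⟩⟩ (tC10.hZU true) :=
  posD_of_check (c := ⟨171, ⟨4, 3, 6, 3⟩⟩) (by decide +kernel)

def tC10_eL1 : PosD ⟨⟨0, 1, 1⟩, ⟨98, 99, 147⟩, ⟨4050, 10000, 30000⟩, ⟨417, 600, 1000⟩⟩ (tC10.hEL true) :=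
  posD_of_check (c := ⟨249, ⟨5, 6, 7, 3⟩⟩) (by decide +kernel)

def tC10_eH1aa : PosD ⟨⟨0, 1, 1⟩, ⟨98, 99, 147⟩, ⟨4050, 5537, 30000⟩, ⟨417, 600, 1000⟩⟩ (tC10.hEH true) :=
  posD_of_check (c := ⟨250, ⟨5, 6, 7, 3⟩⟩) (by decide +kernel)

def tC10_eH1ab : PosD ⟨⟨0, 1, 1⟩, ⟨98, 99, 147⟩, ⟨5537, 7025, 30000⟩, ⟨417, 600, 1000⟩⟩ (tC10.hEH true) :=
  posD_of_check (c := ⟨251, ⟨5, 6, 7, 3⟩⟩) (by decide +kernel)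

def tC10_eH1a : PosD ⟨⟨0, 1, 1⟩, ⟨98, 99, 147⟩, ⟨4050, 7025, 30000⟩, ⟨417, 600, 1000⟩⟩ (tC10.hEH true) :=
  posD_join₂ tC10_eH1aa tC10_eH1ab

def tC10_eH1b : PosD ⟨⟨0, 1, 1⟩, ⟨98, 99, 147⟩, ⟨7025, 10000, 30000⟩, ⟨417, 600, 1000⟩⟩ (tC10.hEH true) :=
  posD_of_check (c := ⟨252, ⟨5, 6, 7, 3⟩⟩) (by decide +kernel)

def tC10_eH1 : PosD ⟨⟨0, 1, 1⟩, ⟨98, 99, 147⟩, ⟨4050, 10000, 30000⟩, ⟨417, 600, 1000⟩⟩ (tC10.hEH true) :=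
  posD_join₂ tC10_eH1a tC10_eH1b

def tC10_pL1 : PosD ⟨⟨0, 1, 1⟩, ⟨98, 99, 147⟩, ⟨4050, 10000, 30000⟩, ⟨417, 600, 1000⟩⟩ (tC10.hPL true) :=
  posD_of_check (c := ⟨248, ⟨5, 6, 7, 3⟩⟩) (by decide +kernel)

def tC10_pU1 : PosD ⟨⟨0, 1, 1⟩, ⟨98, 99, 147⟩, ⟨4050, 10000, 30000⟩, ⟨417, 600, 1000⟩⟩ (tC10.hPU true) :=
  posD_of_check (c := ⟨247, ⟨5, 6, 7, 3⟩⟩) (by decide +kernel)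

def tC10_kU1a : PosD ⟨⟨0, 1, 1⟩, ⟨98, 99, 147⟩, ⟨4050, 7025, 30000⟩, ⟨417, 600, 1000⟩⟩ (tC10.hKU true) :=
  posD_of_check (c := ⟨249, ⟨5, 6, 7, 3⟩⟩) (by decide +kernel)

def tC10_kU1b : PosD ⟨⟨0, 1, 1⟩, ⟨98, 99, 147⟩, ⟨7025, 10000, 30000⟩, ⟨417, 600, 1000⟩⟩ (tC10.hKU true) :=
  posD_of_check (c := ⟨250, ⟨5, 6, 7, 3⟩⟩) (by decide +kernel)

def tC10_kU1 : PosD ⟨⟨0, 1, 1⟩, ⟨98, 99, 147⟩, ⟨4050, 10000, 30000⟩, ⟨417, 600, 1000⟩⟩ (tC10.hKU true) :=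
  posD_join₂ tC10_kU1a tC10_kU1b

def tC10_kL1a : PosD ⟨⟨0, 1, 1⟩, ⟨98, 99, 147⟩, ⟨4050, 7025, 30000⟩, ⟨417, 600, 1000⟩⟩ (tC10.hKL true) :=
  posD_of_check (c := ⟨247, ⟨5, 6, 7, 3⟩⟩) (by decide +kernel)

def tC10_kL1b : PosD ⟨⟨0, 1, 1⟩, ⟨98, 99, 147⟩, ⟨7025, 10000, 30000⟩, ⟨417, 600, 1000⟩⟩ (tC10.hKL true) :=
  posD_of_check (c := ⟨249, ⟨5, 6, 7, 3⟩⟩) (by decide +kernel)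

def tC10_kL1 : PosD ⟨⟨0, 1, 1⟩, ⟨98, 99, 147⟩, ⟨4050, 10000, 30000⟩, ⟨417, 600, 1000⟩⟩ (tC10.hKL true) :=
  posD_join₂ tC10_kL1a tC10_kL1b

def tC10_wU1a : PosD ⟨⟨0, 1, 1⟩, ⟨98, 99, 147⟩, ⟨4050, 10000, 30000⟩, ⟨417, 508, 1000⟩⟩ (tC10.hWU true) :=
  posD_of_check (c := ⟨280, ⟨5, 8, 8, 3⟩⟩) (by decide +kernel)

def tC10_wU1b : PosD ⟨⟨0, 1, 1⟩, ⟨98, 99, 147⟩, ⟨4050, 10000, 30000⟩, ⟨508, 600, 1000⟩⟩ (tC10.hWU true) :=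
  posD_of_check (c := ⟨280, ⟨5, 8, 8, 3⟩⟩) (by decide +kernel)

def tC10_wU1 : PosD ⟨⟨0, 1, 1⟩, ⟨98, 99, 147⟩, ⟨4050, 10000, 30000⟩, ⟨417, 600, 1000⟩⟩ (tC10.hWU true) :=
  posD_join₃ tC10_wU1a tC10_wU1b

def tC10_wL1a : PosD ⟨⟨0, 1, 1⟩, ⟨98, 99, 147⟩, ⟨4050, 10000, 30000⟩, ⟨417, 508, 1000⟩⟩ (tC10.hWL true) :=
  posD_of_check (c := ⟨280, ⟨5, 8, 8, 3⟩⟩) (by decide +kernel)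

def tC10_wL1ba : PosD ⟨⟨0, 1, 1⟩, ⟨98, 99, 147⟩, ⟨4050, 10000, 30000⟩, ⟨508, 554, 1000⟩⟩ (tC10.hWL true) :=
  posD_of_check (c := ⟨280, ⟨5, 8, 8, 3⟩⟩) (by decide +kernel)

def tC10_wL1bba : PosD ⟨⟨0, 1, 1⟩, ⟨98, 99, 147⟩, ⟨4050, 7025, 30000⟩, ⟨554, 600, 1000⟩⟩ (tC10.hWL true) :=
  posD_of_check (c := ⟨280, ⟨5, 8, 8, 3⟩⟩) (by decide +kernel)

def tC10_wL1bbbaa : PosD ⟨⟨0, 1, 1⟩, ⟨98, 99, 147⟩, ⟨7025, 10000, 30000⟩, ⟨554, 565, 1000⟩⟩ (tC10.hWL true) :=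
  posD_of_check (c := ⟨281, ⟨5, 8, 8, 3⟩⟩) (by decide +kernel)

def tC10_wL1bbbab : PosD ⟨⟨0, 1, 1⟩, ⟨98, 99, 147⟩, ⟨7025, 10000, 30000⟩, ⟨565, 577, 1000⟩⟩ (tC10.hWL true) :=
  posD_of_check (c := ⟨281, ⟨5, 8, 8, 3⟩⟩) (by decide +kernel)

def tC10_wL1bbba : PosD ⟨⟨0, 1, 1⟩, ⟨98, 99, 147⟩, ⟨7025, 10000, 30000⟩, ⟨554, 577, 1000⟩⟩ (tC10.hWL true) :=
  posD_join₃ tC10_wL1bbbaa tC10_wL1bbbab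

def tC10_wL1bbbb : PosD ⟨⟨0, 1, 1⟩, ⟨98, 99, 147⟩, ⟨7025, 10000, 30000⟩, ⟨577, 600, 1000⟩⟩ (tC10.hWL true) :=
  posD_of_check (c := ⟨281, ⟨5, 8, 8, 3⟩⟩) (by decide +kernel)

def tC10_wL1bbb : PosD ⟨⟨0, 1, 1⟩, ⟨98, 99, 147⟩, ⟨7025, 10000, 30000⟩, ⟨554, 600, 1000⟩⟩ (tC10.hWL true) :=
  posD_join₃ tC10_wL1bbba tC10_wL1bbbb

def tC10_wL1bb : PosD ⟨⟨0, 1, 1⟩, ⟨98, 99, 147⟩, ⟨4050, 10000, 30000⟩, ⟨554, 600, 1000⟩⟩ (tC10.hWL true) :=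
  posD_join₂ tC10_wL1bba tC10_wL1bbb

def tC10_wL1b : PosD ⟨⟨0, 1, 1⟩, ⟨98, 99, 147⟩, ⟨4050, 10000, 30000⟩, ⟨508, 600, 1000⟩⟩ (tC10.hWL true) :=
  posD_join₃ tC10_wL1ba tC10_wL1bb

def tC10_wL1 : PosD ⟨⟨0, 1, 1⟩, ⟨98, 99, 147⟩, ⟨4050, 10000, 30000⟩, ⟨417, 600, 1000⟩⟩ (tC10.hWL true) :=
  posD_join₃ tC10_wL1a tC10_wL1b

def tC10_mueL : PosD ⟨⟨0, 1, 1⟩, ⟨98, 99, 147⟩, ⟨4050, 10000, 30000⟩, ⟨417, 600, 1000⟩⟩ (tC10.eL.μ) :=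
  posD_of_check (c := ⟨15, ⟨0, 0, 0, 0⟩⟩) (by decide +kernel)

def tC10_mueH : PosD ⟨⟨0, 1, 1⟩, ⟨98, 99, 147⟩, ⟨4050, 10000, 30000⟩, ⟨417, 600, 1000⟩⟩ (tC10.eH.μ) :=
  posD_of_check (c := ⟨20, ⟨0, 0, 0, 0⟩⟩) (by decide +kernel)

def tC10_mupL : PosD ⟨⟨0, 1, 1⟩, ⟨98, 99, 147⟩, ⟨4050, 10000, 30000⟩, ⟨417, 600, 1000⟩⟩ (tC10.pL.μ) :=
  posD_of_check (c := ⟨16, ⟨0, 0, 0, 0⟩⟩) (by decide +kernel)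

def tC10_muwU : PosD ⟨⟨0, 1, 1⟩, ⟨98, 99, 147⟩, ⟨4050, 10000, 30000⟩, ⟨417, 600, 1000⟩⟩ (tC10.wU.μ) :=
  posD_of_check (c := ⟨16, ⟨0, 0, 0, 0⟩⟩) (by decide +kernel)

/-- The bounds of the piece. -/
def tC10_env : tC10.Env ⟨⟨0, 1, 1⟩, ⟨98, 99, 147⟩, ⟨4050, 10000, 30000⟩, ⟨417, 600, 1000⟩⟩ :=
  ⟨tC10_p0, Bool.forall_bool.2 ⟨tC10_den0, tC10_den1⟩, tC10_gn, Bool.forall_bool.2 ⟨tC10_ev0, tC10_ev1⟩, Bool.forall_bool.2 ⟨tC10_zL0, tC10_zL1⟩, Bool.forall_bool.2 ⟨tC10_zU0, tC10_zU1⟩, Bool.forall_bool.2 ⟨tC10_eL0, tC10_eL1⟩, ⟨.inl tC10_mueL, .inr rfl⟩, Bool.forall_bool.2 ⟨tC10_eH0, tC10_eH1⟩, ⟨.inl tC10_mueH, .inr rfl⟩, Bool.forall_bool.2 ⟨tC10_pL0, tC10_pL1⟩, ⟨.inl tC10_mupL, .inr rfl⟩, Bool.forall_bool.2 ⟨tC10_pU0, tC10_pU1⟩,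 ⟨.inr rfl, .inr rfl⟩, Bool.forall_bool.2 ⟨tC10_kU0, tC10_kU1⟩, ⟨.inr rfl, .inr rfl⟩, Bool.forall_bool.2 ⟨tC10_kL0, tC10_kL1⟩, ⟨.inr rfl, .inr rfl⟩, Bool.forall_bool.2 ⟨tC10_wU0, tC10_wU1⟩, ⟨.inl tC10_muwU, .inr rfl⟩, Bool.forall_bool.2 ⟨tC10_wL0, tC10_wL1⟩, ⟨.inr rfl, .inr rfl⟩⟩

def tC10_pp : PosD ⟨⟨0, 1, 1⟩, ⟨98, 99, 147⟩, ⟨4050, 10000, 30000⟩, ⟨417, 600, 1000⟩⟩ (tC10.xPL) :=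
  posD_of_check (c := ⟨94, ⟨1, 1, 3, 3⟩⟩) (by decide +kernel)

def tC10_k2p : PosD ⟨⟨0, 1, 1⟩, ⟨98, 99, 147⟩, ⟨4050, 10000, 30000⟩, ⟨417, 600, 1000⟩⟩ (tC10.k2p tC10.xE) :=
  posD_of_check (c := ⟨6, ⟨0, 0, 0, 0⟩⟩) (by decide +kernel)

def tC10_k2m : PosD ⟨⟨0, 1, 1⟩, ⟨98, 99, 147⟩, ⟨4050, 10000, 30000⟩, ⟨417, 600, 1000⟩⟩ (tC10.k2m tC10.xE) :=
  posD_of_check (c := ⟨72, ⟨1, 1, 2, 2⟩⟩) (by decide +kernel)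

def tC10_v2p : PosD ⟨⟨0, 1, 1⟩, ⟨98, 99, 147⟩, ⟨4050, 10000, 30000⟩, ⟨417, 600, 1000⟩⟩ (tC10.hV2p) :=
  posD_of_check (c := ⟨240, ⟨0, 5, 10, 4⟩⟩) (by decide +kernel)

def tC10_v2m : PosD ⟨⟨0, 1, 1⟩, ⟨98, 99, 147⟩, ⟨4050, 10000, 30000⟩, ⟨417, 600, 1000⟩⟩ (tC10.hV2m) :=
  posD_of_check (c := ⟨272, ⟨1, 6, 10, 5⟩⟩) (by decide +kernel)

def tC10_v3p : PosD ⟨⟨0, 1, 1⟩, ⟨98, 99, 147⟩, ⟨4050, 10000, 30000⟩, ⟨417, 600, 1000⟩⟩ (tC10.hV3p) :=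
  posD_of_check (c := ⟨230, ⟨0, 5, 9, 4⟩⟩) (by decide +kernel)

def tC10_v3m : PosD ⟨⟨0, 1, 1⟩, ⟨98, 99, 147⟩, ⟨4050, 10000, 30000⟩, ⟨417, 600, 1000⟩⟩ (tC10.hV3m) :=
  posD_of_check (c := ⟨256, ⟨1, 6, 9, 5⟩⟩) (by decide +kernel)

def tC10_kap0 : PosD ⟨⟨0, 1, 1⟩, ⟨98, 99, 147⟩, ⟨4050, 10000, 30000⟩, ⟨417, 600, 1000⟩⟩ (tC10.kap false) :=
  posD_of_check (c := ⟨68, ⟨1, 1, 2, 2⟩⟩) (by decide +kernel)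

def tC10_c10a : PosD ⟨⟨0, 1, 2⟩, ⟨98, 99, 147⟩, ⟨4050, 10000, 30000⟩, ⟨417, 600, 1000⟩⟩ (tC10.hC1 false) :=
  posD_of_check (c := ⟨274, ⟨3, 5, 9, 7⟩⟩) (by decide +kernel)

def tC10_c10ba : PosD ⟨⟨2, 3, 4⟩, ⟨98, 99, 147⟩, ⟨4050, 10000, 30000⟩, ⟨417, 600, 1000⟩⟩ (tC10.hC1 false) :=
  posD_of_check (c := ⟨276, ⟨3, 5, 9, 7⟩⟩) (by decide +kernel)

def tC10_c10bba : PosD ⟨⟨6, 7, 8⟩, ⟨98, 99, 147⟩, ⟨4050, 10000, 30000⟩, ⟨417, 600, 1000⟩⟩ (tC10.hC1 false) :=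
  posD_of_check (c := ⟨277, ⟨3, 5, 9, 7⟩⟩) (by decide +kernel)

def tC10_c10bbba : PosD ⟨⟨14, 15, 16⟩, ⟨98, 99, 147⟩, ⟨4050, 10000, 30000⟩, ⟨417, 600, 1000⟩⟩ (tC10.hC1 false) :=
  posD_of_check (c := ⟨280, ⟨3, 5, 9, 7⟩⟩) (by decide +kernel)

def tC10_c10bbbba : PosD ⟨⟨30, 31, 32⟩, ⟨98, 99, 147⟩, ⟨4050, 10000, 30000⟩, ⟨417, 600, 1000⟩⟩ (tC10.hC1 false) :=
  posD_of_check (c := ⟨283, ⟨3, 5, 9, 7⟩⟩) (by decide +kernel)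

def tC10_c10bbbbba : PosD ⟨⟨31, 32, 32⟩, ⟨98, 99, 147⟩, ⟨4050, 10000, 30000⟩, ⟨417, 508, 1000⟩⟩ (tC10.hC1 false) :=
  posD_of_check (c := ⟨283, ⟨3, 5, 9, 7⟩⟩) (by decide +kernel)

def tC10_c10bbbbbb : PosD ⟨⟨31, 32, 32⟩, ⟨98, 99, 147⟩, ⟨4050, 10000, 30000⟩, ⟨508, 600, 1000⟩⟩ (tC10.hC1 false) :=
  posD_of_relax (k₁ := 0) (k₂ := 0) (k₃ := 54) (n := 16) (posD_of_check (c := ⟨284, ⟨3, 5, 9, 7⟩⟩) (by decide +kernel))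

def tC10_c10bbbbb : PosD ⟨⟨31, 32, 32⟩, ⟨98, 99, 147⟩, ⟨4050, 10000, 30000⟩, ⟨417, 600, 1000⟩⟩ (tC10.hC1 false) :=
  posD_join₃ tC10_c10bbbbba tC10_c10bbbbbb

def tC10_c10bbbb : PosD ⟨⟨15, 16, 16⟩, ⟨98, 99, 147⟩, ⟨4050, 10000, 30000⟩, ⟨417, 600, 1000⟩⟩ (tC10.hC1 false) :=
  posD_units (b := ⟨⟨30, 32, 32⟩, ⟨98, 99, 147⟩, ⟨4050, 10000, 30000⟩, ⟨417, 600, 1000⟩⟩) (by decide +kernel) (posD_join₀ tC10_c10bbbba tC10_c10bbbbb)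

def tC10_c10bbb : PosD ⟨⟨7, 8, 8⟩, ⟨98, 99, 147⟩, ⟨4050, 10000, 30000⟩, ⟨417, 600, 1000⟩⟩ (tC10.hC1 false) :=
  posD_units (b := ⟨⟨14, 16, 16⟩, ⟨98, 99, 147⟩, ⟨4050, 10000, 30000⟩, ⟨417, 600, 1000⟩⟩) (by decide +kernel) (posD_join₀ tC10_c10bbba tC10_c10bbbb)

def tC10_c10bb : PosD ⟨⟨3, 4, 4⟩, ⟨98, 99, 147⟩, ⟨4050, 10000, 30000⟩, ⟨417, 600, 1000⟩⟩ (tC10.hC1 false) :=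
  posD_units (b := ⟨⟨6, 8, 8⟩, ⟨98, 99, 147⟩, ⟨4050, 10000, 30000⟩, ⟨417, 600, 1000⟩⟩) (by decide +kernel) (posD_join₀ tC10_c10bba tC10_c10bbb)

def tC10_c10b : PosD ⟨⟨1, 2, 2⟩, ⟨98, 99, 147⟩, ⟨4050, 10000, 30000⟩, ⟨417, 600, 1000⟩⟩ (tC10.hC1 false) :=
  posD_units (b := ⟨⟨2, 4, 4⟩, ⟨98, 99, 147⟩, ⟨4050, 10000, 30000⟩, ⟨417, 600, 1000⟩⟩) (by decide +kernel) (posD_join₀ tC10_c10ba tC10_c10bb)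

def tC10_c10 : PosD ⟨⟨0, 1, 1⟩, ⟨98, 99, 147⟩, ⟨4050, 10000, 30000⟩, ⟨417, 600, 1000⟩⟩ (tC10.hC1 false) :=
  posD_units (b := ⟨⟨0, 2, 2⟩, ⟨98, 99, 147⟩, ⟨4050, 10000, 30000⟩, ⟨417, 600, 1000⟩⟩) (by decide +kernel) (posD_join₀ tC10_c10a tC10_c10b)

def tC10_neg0 : PosD ⟨⟨0, 1, 1⟩, ⟨98, 99, 147⟩, ⟨4050, 10000, 30000⟩, ⟨417, 600, 1000⟩⟩ (tC10.hNeg (tC10.pEnd false)) :=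
  posD_of_check (c := ⟨270, ⟨2, 5, 9, 7⟩⟩) (by decide +kernel)

def tC10_neglo0 : PosD ⟨⟨0, 1, 1⟩, ⟨98, 99, 147⟩, ⟨4050, 10000, 30000⟩, ⟨417, 600, 1000⟩⟩ (tC10.hNegLo (tC10.pEnd false)) :=
  posD_of_check (c := ⟨270, ⟨2, 5, 9, 7⟩⟩) (by decide +kernel)

def tC10_tg00 : PosD ⟨⟨0, 1, 1⟩, ⟨98, 99, 147⟩, ⟨4050, 10000, 30000⟩, ⟨417, 600, 1000⟩⟩ (tC10.hG false (tC10.pEnd false)) :=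
  posD_of_check (c := ⟨383, ⟨2, 7, 14, 9⟩⟩) (by decide +kernel)

def tC10_c2p00 : PosD ⟨⟨0, 1, 1⟩, ⟨98, 99, 147⟩, ⟨4050, 10000, 30000⟩, ⟨417, 600, 1000⟩⟩ (tC10.hC2p false (tC10.pEnd false)) :=
  posD_of_check (c := ⟨426, ⟨2, 7, 16, 10⟩⟩) (by decide +kernel)

def tC10_c2m00 : PosD ⟨⟨0, 1, 1⟩, ⟨98, 99, 147⟩, ⟨4050, 10000, 30000⟩, ⟨417, 600, 1000⟩⟩ (tC10.hC2m false (tC10.pEnd false)) :=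
  posD_of_check (c := ⟨455, ⟨3, 8, 16, 11⟩⟩) (by decide +kernel)

def tC10_c3p00 : PosD ⟨⟨0, 1, 1⟩, ⟨98, 99, 147⟩, ⟨4050, 10000, 30000⟩, ⟨417, 600, 1000⟩⟩ (tC10.hC3p false false) :=
  posD_of_check (c := ⟨420, ⟨3, 7, 15, 10⟩⟩) (by decide +kernel)

def tC10_c3m00 : PosD ⟨⟨0, 1, 1⟩, ⟨98, 99, 147⟩, ⟨4050, 10000, 30000⟩, ⟨417, 600, 1000⟩⟩ (tC10.hC3m false false) :=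
  posD_of_check (c := ⟨444, ⟨3, 8, 15, 11⟩⟩) (by decide +kernel)

def tC10_tmg00 : PosD ⟨⟨0, 1, 1⟩, ⟨98, 99, 147⟩, ⟨4050, 10000, 30000⟩, ⟨417, 600, 1000⟩⟩ (tC10.hTMG false (tC10.pEnd false)) :=
  posD_of_check (c := ⟨401, ⟨2, 7, 14, 10⟩⟩) (by decide +kernel)

def tC10_tg01 : PosD ⟨⟨0, 1, 1⟩, ⟨98, 99, 147⟩, ⟨4050, 10000, 30000⟩, ⟨417, 600, 1000⟩⟩ (tC10.hG true (tC10.pEnd false)) :=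
  posD_of_check (c := ⟨383, ⟨2, 7, 14, 9⟩⟩) (by decide +kernel)

def tC10_c2p01 : PosD ⟨⟨0, 1, 1⟩, ⟨98, 99, 147⟩, ⟨4050, 10000, 30000⟩, ⟨417, 600, 1000⟩⟩ (tC10.hC2p true (tC10.pEnd false)) :=
  posD_of_check (c := ⟨426, ⟨2, 7, 16, 10⟩⟩) (by decide +kernel)

def tC10_c2m01 : PosD ⟨⟨0, 1, 1⟩, ⟨98, 99, 147⟩, ⟨4050, 10000, 30000⟩, ⟨417, 600, 1000⟩⟩ (tC10.hC2m true (tC10.pEnd false)) :=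
  posD_of_check (c := ⟨455, ⟨3, 8, 16, 11⟩⟩) (by decide +kernel)

def tC10_c3p01 : PosD ⟨⟨0, 1, 1⟩, ⟨98, 99, 147⟩, ⟨4050, 10000, 30000⟩, ⟨417, 600, 1000⟩⟩ (tC10.hC3p false true) :=
  posD_of_check (c := ⟨420, ⟨3, 7, 15, 10⟩⟩) (by decide +kernel)

def tC10_c3m01 : PosD ⟨⟨0, 1, 1⟩, ⟨98, 99, 147⟩, ⟨4050, 10000, 30000⟩, ⟨417, 600, 1000⟩⟩ (tC10.hC3m false true) :=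
  posD_of_check (c := ⟨444, ⟨3, 8, 15, 11⟩⟩) (by decide +kernel)

def tC10_tmg01 : PosD ⟨⟨0, 1, 1⟩, ⟨98, 99, 147⟩, ⟨4050, 10000, 30000⟩, ⟨417, 600, 1000⟩⟩ (tC10.hTMG true (tC10.pEnd false)) :=
  posD_of_check (c := ⟨401, ⟨2, 7, 14, 10⟩⟩) (by decide +kernel)

def tC10_kap1 : PosD ⟨⟨0, 1, 1⟩, ⟨98, 99, 147⟩, ⟨4050, 10000, 30000⟩, ⟨417, 600, 1000⟩⟩ (tC10.kap true) :=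
  posD_of_check (c := ⟨69, ⟨1, 1, 2, 2⟩⟩) (by decide +kernel)

def tC10_c11a : PosD ⟨⟨0, 1, 1⟩, ⟨98, 99, 147⟩, ⟨4050, 7025, 30000⟩, ⟨417, 600, 1000⟩⟩ (tC10.hC1 true) :=
  posD_of_check (c := ⟨274, ⟨3, 5, 9, 7⟩⟩) (by decide +kernel)

def tC10_c11b : PosD ⟨⟨0, 1, 1⟩, ⟨98, 99, 147⟩, ⟨7025, 10000, 30000⟩, ⟨417, 600, 1000⟩⟩ (tC10.hC1 true) :=
  posD_of_relax (k₁ := 0) (k₂ := 0) (k₃ := 46) (n := 16) (posD_of_check (c := ⟨275, ⟨3, 5, 9, 7⟩⟩) (by decide +kernel))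

def tC10_c11 : PosD ⟨⟨0, 1, 1⟩, ⟨98, 99, 147⟩, ⟨4050, 10000, 30000⟩, ⟨417, 600, 1000⟩⟩ (tC10.hC1 true) :=
  posD_join₂ tC10_c11a tC10_c11b

def tC10_neg1 : PosD ⟨⟨0, 1, 1⟩, ⟨98, 99, 147⟩, ⟨4050, 10000, 30000⟩, ⟨417, 600, 1000⟩⟩ (tC10.hNeg (tC10.pEnd true)) :=
  posD_of_check (c := ⟨270, ⟨2, 5, 9, 7⟩⟩) (by decide +kernel)

def tC10_neglo1 : PosD ⟨⟨0, 1, 1⟩, ⟨98, 99, 147⟩, ⟨4050, 10000, 30000⟩, ⟨417, 600, 1000⟩⟩ (tC10.hNegLo (tC10.pEnd true)) :=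
  posD_of_check (c := ⟨270, ⟨2, 5, 9, 7⟩⟩) (by decide +kernel)

def tC10_tg10 : PosD ⟨⟨0, 1, 1⟩, ⟨98, 99, 147⟩, ⟨4050, 10000, 30000⟩, ⟨417, 600, 1000⟩⟩ (tC10.hG false (tC10.pEnd true)) :=
  posD_of_check (c := ⟨384, ⟨2, 7, 14, 9⟩⟩) (by decide +kernel)

def tC10_c2p10 : PosD ⟨⟨0, 1, 1⟩, ⟨98, 99, 147⟩, ⟨4050, 10000, 30000⟩, ⟨417, 600, 1000⟩⟩ (tC10.hC2p false (tC10.pEnd true)) :=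
  posD_of_check (c := ⟨427, ⟨2, 7, 16, 10⟩⟩) (by decide +kernel)

def tC10_c2m10 : PosD ⟨⟨0, 1, 1⟩, ⟨98, 99, 147⟩, ⟨4050, 10000, 30000⟩, ⟨417, 600, 1000⟩⟩ (tC10.hC2m false (tC10.pEnd true)) :=
  posD_of_check (c := ⟨456, ⟨3, 8, 16, 11⟩⟩) (by decide +kernel)

def tC10_c3p10 : PosD ⟨⟨0, 1, 1⟩, ⟨98, 99, 147⟩, ⟨4050, 10000, 30000⟩, ⟨417, 600, 1000⟩⟩ (tC10.hC3p true false) :=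
  posD_of_check (c := ⟨421, ⟨3, 7, 15, 10⟩⟩) (by decide +kernel)

def tC10_c3m10 : PosD ⟨⟨0, 1, 1⟩, ⟨98, 99, 147⟩, ⟨4050, 10000, 30000⟩, ⟨417, 600, 1000⟩⟩ (tC10.hC3m true false) :=
  posD_of_check (c := ⟨444, ⟨3, 8, 15, 11⟩⟩) (by decide +kernel)

def tC10_tmg10 : PosD ⟨⟨0, 1, 1⟩, ⟨98, 99, 147⟩, ⟨4050, 10000, 30000⟩, ⟨417, 600, 1000⟩⟩ (tC10.hTMG false (tC10.pEnd true)) :=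
  posD_of_check (c := ⟨402, ⟨2, 7, 14, 10⟩⟩) (by decide +kernel)

def tC10_tg11 : PosD ⟨⟨0, 1, 1⟩, ⟨98, 99, 147⟩, ⟨4050, 10000, 30000⟩, ⟨417, 600, 1000⟩⟩ (tC10.hG true (tC10.pEnd true)) :=
  posD_of_check (c := ⟨384, ⟨2, 7, 14, 9⟩⟩) (by decide +kernel)

def tC10_c2p11 : PosD ⟨⟨0, 1, 1⟩, ⟨98, 99, 147⟩, ⟨4050, 10000, 30000⟩, ⟨417, 600, 1000⟩⟩ (tC10.hC2p true (tC10.pEnd true)) :=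
  posD_of_check (c := ⟨427, ⟨2, 7, 16, 10⟩⟩) (by decide +kernel)

def tC10_c2m11 : PosD ⟨⟨0, 1, 1⟩, ⟨98, 99, 147⟩, ⟨4050, 10000, 30000⟩, ⟨417, 600, 1000⟩⟩ (tC10.hC2m true (tC10.pEnd true)) :=
  posD_of_check (c := ⟨456, ⟨3, 8, 16, 11⟩⟩) (by decide +kernel)

def tC10_c3p11 : PosD ⟨⟨0, 1, 1⟩, ⟨98, 99, 147⟩, ⟨4050, 10000, 30000⟩, ⟨417, 600, 1000⟩⟩ (tC10.hC3p true true) :=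
  posD_of_check (c := ⟨421, ⟨3, 7, 15, 10⟩⟩) (by decide +kernel)

def tC10_c3m11 : PosD ⟨⟨0, 1, 1⟩, ⟨98, 99, 147⟩, ⟨4050, 10000, 30000⟩, ⟨417, 600, 1000⟩⟩ (tC10.hC3m true true) :=
  posD_of_check (c := ⟨444, ⟨3, 8, 15, 11⟩⟩) (by decide +kernel)

def tC10_tmg11 : PosD ⟨⟨0, 1, 1⟩, ⟨98, 99, 147⟩, ⟨4050, 10000, 30000⟩, ⟨417, 600, 1000⟩⟩ (tC10.hTMG true (tC10.pEnd true)) :=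
  posD_of_check (c := ⟨402, ⟨2, 7, 14, 10⟩⟩) (by decide +kernel)

/-- The signs of the piece. -/
def tC10_sign : tC10.Sign ⟨⟨0, 1, 1⟩, ⟨98, 99, 147⟩, ⟨4050, 10000, 30000⟩, ⟨417, 600, 1000⟩⟩ :=
  ⟨tC10_pp,
    tC10_k2p,
    tC10_k2m,
    Bool.forall_bool.2 ⟨(Bool.forall_bool.2 ⟨tC10_tg00, tC10_tg01⟩), (Bool.forall_bool.2 ⟨tC10_tg10, tC10_tg11⟩)⟩,
    Bool.forall_bool.2 ⟨(Bool.forall_bool.2 ⟨tC10_c2p00, tC10_c2p01⟩), (Bool.forall_bool.2 ⟨tC10_c2p10, tC10_c2p11⟩)⟩,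
    Bool.forall_bool.2 ⟨(Bool.forall_bool.2 ⟨tC10_c2m00, tC10_c2m01⟩), (Bool.forall_bool.2 ⟨tC10_c2m10, tC10_c2m11⟩)⟩,
    Bool.forall_bool.2 ⟨tC10_kap0, tC10_kap1⟩,
    Bool.forall_bool.2 ⟨tC10_c10, tC10_c11⟩,
    Bool.forall_bool.2 ⟨(Bool.forall_bool.2 ⟨tC10_c3p00, tC10_c3p01⟩), (Bool.forall_bool.2 ⟨tC10_c3p10, tC10_c3p11⟩)⟩,
    Bool.forall_bool.2 ⟨(Bool.forall_bool.2 ⟨tC10_c3m00, tC10_c3m01⟩), (Bool.forall_bool.2 ⟨tC10_c3m10, tC10_c3m11⟩)⟩,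
    Bool.forall_bool.2 ⟨(Bool.forall_bool.2 ⟨tC10_tmg00, tC10_tmg01⟩), (Bool.forall_bool.2 ⟨tC10_tmg10, tC10_tmg11⟩)⟩,
    .inl (Bool.forall_bool.2 ⟨⟨tC10_neg0, tC10_neglo0⟩, ⟨tC10_neg1, tC10_neglo1⟩⟩),
    tC10_v2p,
    tC10_v2m,
    tC10_v3p,
    tC10_v3m,
    posD_sub (b := ⟨⟨0, 1, 1⟩, ⟨98, 99, 147⟩, ⟨4050, 10000, 30000⟩, ⟨290, 4000, 1000⟩⟩) (by decide +kernel) tC_vG,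
    posD_sub (b := ⟨⟨0, 1, 1⟩, ⟨98, 99, 147⟩, ⟨4050, 10000, 30000⟩, ⟨290, 4000, 1000⟩⟩) (by decide +kernel) tC_vMG,
    posD_sub (b := ⟨⟨0, 1, 1⟩, ⟨98, 99, 147⟩, ⟨4050, 10000, 30000⟩, ⟨290, 4000, 1000⟩⟩) (by decide +kernel) tC_ak,
    posD_sub (b := ⟨⟨0, 1, 1⟩, ⟨98, 99, 147⟩, ⟨4050, 10000, 30000⟩, ⟨290, 4000, 1000⟩⟩) (by decide +kernel) tC_aw,
    posD_sub (b := ⟨⟨0, 1, 1⟩, ⟨98, 99, 147⟩, ⟨4050, 10000, 30000⟩, ⟨290, 4000, 1000⟩⟩) (by decide +kernel) tC_gk,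
    posD_sub (b := ⟨⟨0, 1, 1⟩, ⟨98, 99, 147⟩, ⟨4050, 10000, 30000⟩, ⟨290, 4000, 1000⟩⟩) (by decide +kernel) tC_gw,
    posD_sub (b := ⟨⟨0, 1, 1⟩, ⟨98, 99, 147⟩, ⟨4050, 10000, 30000⟩, ⟨290, 4000, 1000⟩⟩) (by decide +kernel) tC_ek,
    posD_sub (b := ⟨⟨0, 1, 1⟩, ⟨98, 99, 147⟩, ⟨4050, 10000, 30000⟩, ⟨290, 4000, 1000⟩⟩) (by decide +kernel) tC_ew⟩

def tC11_p0a : PosD ⟨⟨0, 1, 1⟩, ⟨98, 99, 147⟩, ⟨4050, 7025, 30000⟩, ⟨417, 600, 1000⟩⟩ (tC11.hP0) :=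
  posD_of_check (c := ⟨83, ⟨0, 2, 3, 1⟩⟩) (by decide +kernel)

def tC11_p0b : PosD ⟨⟨0, 1, 1⟩, ⟨98, 99, 147⟩, ⟨7025, 10000, 30000⟩, ⟨417, 600, 1000⟩⟩ (tC11.hP0) :=
  posD_of_check (c := ⟨83, ⟨0, 2, 3, 1⟩⟩) (by decide +kernel)

def tC11_p0 : PosD ⟨⟨0, 1, 1⟩, ⟨98, 99, 147⟩, ⟨4050, 10000, 30000⟩, ⟨417, 600, 1000⟩⟩ (tC11.hP0) :=
  posD_join₂ tC11_p0a tC11_p0b

def tC11_gn : PosD ⟨⟨0, 1, 1⟩, ⟨98, 99, 147⟩, ⟨4050, 10000, 30000⟩, ⟨417, 600, 1000⟩⟩ (tC11.hGn) :=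
  posD_of_check (c := ⟨57, ⟨1, 1, 2, 1⟩⟩) (by decide +kernel)

def tC11_den0 : PosD ⟨⟨0, 1, 1⟩, ⟨98, 99, 147⟩, ⟨4050, 10000, 30000⟩, ⟨417, 600, 1000⟩⟩ (tC11.hDen false) :=
  posD_of_check (c := ⟨50, ⟨1, 0, 2, 0⟩⟩) (by decide +kernel)

def tC11_den1 : PosD ⟨⟨0, 1, 1⟩, ⟨98, 99, 147⟩, ⟨4050, 10000, 30000⟩, ⟨417, 600, 1000⟩⟩ (tC11.hDen true) :=
  posD_of_check (c := ⟨50, ⟨1, 0, 2, 0⟩⟩) (by decide +kernel)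

def tC11_none0 : PosD ⟨⟨0, 1, 1⟩, ⟨98, 99, 147⟩, ⟨4050, 10000, 30000⟩, ⟨417, 600, 1000⟩⟩ (tC11.hNone false) :=
  posD_of_check (c := ⟨255, ⟨5, 6, 7, 3⟩⟩) (by decide +kernel)

def tC11_none1 : PosD ⟨⟨0, 1, 1⟩, ⟨98, 99, 147⟩, ⟨4050, 10000, 30000⟩, ⟨417, 600, 1000⟩⟩ (tC11.hNone true) :=
  posD_of_check (c := ⟨256, ⟨5, 6, 7, 3⟩⟩) (by decide +kernel)

def tC11_mupU : PosD ⟨⟨0, 1, 1⟩, ⟨98, 99, 147⟩, ⟨4050, 10000, 30000⟩, ⟨417, 600, 1000⟩⟩ (tC11.pU.μ) :=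
  posD_of_check (c := ⟨16, ⟨0, 0, 0, 0⟩⟩) (by decide +kernel)

def tC11_nupU : PosD ⟨⟨0, 1, 1⟩, ⟨98, 99, 147⟩, ⟨4050, 10000, 30000⟩, ⟨417, 600, 1000⟩⟩ (tC11.pU.ν) :=
  posD_of_check (c := ⟨46, ⟨0, 0, 1, 1⟩⟩) (by decide +kernel)

/-- No point in the piece. -/
def tC11_empty : tC11.Empty ⟨⟨0, 1, 1⟩, ⟨98, 99, 147⟩, ⟨4050, 10000, 30000⟩, ⟨417, 600, 1000⟩⟩ :=
  ⟨tC11_p0, Bool.forall_bool.2 ⟨tC11_den0, tC11_den1⟩, tC11_gn, ⟨.inl tC11_mupU, .inl tC11_nupU⟩, Bool.forall_bool.2 ⟨tC11_none0, tC11_none1⟩⟩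

def tC12_p0a : PosD ⟨⟨0, 1, 1⟩, ⟨98, 99, 147⟩, ⟨4050, 7025, 30000⟩, ⟨600, 670, 1000⟩⟩ (tC12.hP0) :=
  posD_of_check (c := ⟨83, ⟨0, 2, 3, 1⟩⟩) (by decide +kernel)

def tC12_p0b : PosD ⟨⟨0, 1, 1⟩, ⟨98, 99, 147⟩, ⟨7025, 10000, 30000⟩, ⟨600, 670, 1000⟩⟩ (tC12.hP0) :=
  posD_of_check (c := ⟨83, ⟨0, 2, 3, 1⟩⟩) (by decide +kernel)

def tC12_p0 : PosD ⟨⟨0, 1, 1⟩, ⟨98, 99, 147⟩, ⟨4050, 10000, 30000⟩, ⟨600, 670, 1000⟩⟩ (tC12.hP0) :=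
  posD_join₂ tC12_p0a tC12_p0b

def tC12_gn : PosD ⟨⟨0, 1, 1⟩, ⟨98, 99, 147⟩, ⟨4050, 10000, 30000⟩, ⟨600, 670, 1000⟩⟩ (tC12.hGn) :=
  posD_of_check (c := ⟨57, ⟨1, 1, 2, 1⟩⟩) (by decide +kernel)

def tC12_den0 : PosD ⟨⟨0, 1, 1⟩, ⟨98, 99, 147⟩, ⟨4050, 10000, 30000⟩, ⟨600, 670, 1000⟩⟩ (tC12.hDen false) :=
  posD_of_check (c := ⟨50, ⟨1, 0, 2, 0⟩⟩) (by decide +kernel)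

def tC12_den1 : PosD ⟨⟨0, 1, 1⟩, ⟨98, 99, 147⟩, ⟨4050, 10000, 30000⟩, ⟨600, 670, 1000⟩⟩ (tC12.hDen true) :=
  posD_of_check (c := ⟨50, ⟨1, 0, 2, 0⟩⟩) (by decide +kernel)

def tC12_ev0 : PosD ⟨⟨0, 1, 1⟩, ⟨98, 99, 147⟩, ⟨4050, 10000, 30000⟩, ⟨600, 670, 1000⟩⟩ (tC12.hEv false) :=
  posD_of_check (c := ⟨134, ⟨4, 2, 4, 1⟩⟩) (by decide +kernel)

def tC12_zL0 : PosD ⟨⟨0, 1, 1⟩, ⟨98, 99, 147⟩, ⟨4050, 10000, 30000⟩, ⟨600, 670, 1000⟩⟩ (tC12.hZL false) :=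
  posD_of_check (c := ⟨171, ⟨4, 3, 6, 3⟩⟩) (by decide +kernel)

def tC12_zU0a : PosD ⟨⟨0, 1, 1⟩, ⟨98, 99, 147⟩, ⟨4050, 7025, 30000⟩, ⟨600, 670, 1000⟩⟩ (tC12.hZU false) :=
  posD_of_check (c := ⟨170, ⟨4, 3, 6, 3⟩⟩) (by decide +kernel)

def tC12_zU0ba : PosD ⟨⟨0, 1, 1⟩, ⟨98, 99, 147⟩, ⟨7025, 8512, 30000⟩, ⟨600, 670, 1000⟩⟩ (tC12.hZU false) :=
  posD_of_check (c := ⟨172, ⟨4, 3, 6, 3⟩⟩) (by decide +kernel)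

def tC12_zU0bb : PosD ⟨⟨0, 1, 1⟩, ⟨98, 99, 147⟩, ⟨8512, 10000, 30000⟩, ⟨600, 670, 1000⟩⟩ (tC12.hZU false) :=
  posD_of_check (c := ⟨172, ⟨4, 3, 6, 3⟩⟩) (by decide +kernel)

def tC12_zU0b : PosD ⟨⟨0, 1, 1⟩, ⟨98, 99, 147⟩, ⟨7025, 10000, 30000⟩, ⟨600, 670, 1000⟩⟩ (tC12.hZU false) :=
  posD_join₂ tC12_zU0ba tC12_zU0bb

def tC12_zU0 : PosD ⟨⟨0, 1, 1⟩, ⟨98, 99, 147⟩, ⟨4050, 10000, 30000⟩, ⟨600, 670, 1000⟩⟩ (tC12.hZU false) :=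
  posD_join₂ tC12_zU0a tC12_zU0b

def tC12_eL0a : PosD ⟨⟨0, 1, 1⟩, ⟨98, 99, 147⟩, ⟨4050, 10000, 30000⟩, ⟨600, 635, 1000⟩⟩ (tC12.hEL false) :=
  posD_of_check (c := ⟨244, ⟨5, 6, 7, 3⟩⟩) (by decide +kernel)

def tC12_eL0b : PosD ⟨⟨0, 1, 1⟩, ⟨98, 99, 147⟩, ⟨4050, 10000, 30000⟩, ⟨635, 670, 1000⟩⟩ (tC12.hEL false) :=
  posD_of_check (c := ⟨244, ⟨5, 6, 7, 3⟩⟩) (by decide +kernel)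

def tC12_eL0 : PosD ⟨⟨0, 1, 1⟩, ⟨98, 99, 147⟩, ⟨4050, 10000, 30000⟩, ⟨600, 670, 1000⟩⟩ (tC12.hEL false) :=
  posD_join₃ tC12_eL0a tC12_eL0b

def tC12_eH0 : PosD ⟨⟨0, 1, 1⟩, ⟨98, 99, 147⟩, ⟨4050, 10000, 30000⟩, ⟨600, 670, 1000⟩⟩ (tC12.hEH false) :=
  posD_of_check (c := ⟨245, ⟨5, 6, 7, 3⟩⟩) (by decide +kernel)

def tC12_pL0 : PosD ⟨⟨0, 1, 1⟩, ⟨98, 99, 147⟩, ⟨4050, 10000, 30000⟩, ⟨600, 670, 1000⟩⟩ (tC12.hPL false) :=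
  posD_of_check (c := ⟨243, ⟨5, 6, 7, 3⟩⟩) (by decide +kernel)

def tC12_pU0 : PosD ⟨⟨0, 1, 1⟩, ⟨98, 99, 147⟩, ⟨4050, 10000, 30000⟩, ⟨600, 670, 1000⟩⟩ (tC12.hPU false) :=
  posD_of_check (c := ⟨243, ⟨5, 6, 7, 3⟩⟩) (by decide +kernel)

def tC12_kU0 : PosD ⟨⟨0, 1, 1⟩, ⟨98, 99, 147⟩, ⟨4050, 10000, 30000⟩, ⟨600, 670, 1000⟩⟩ (tC12.hKU false) :=
  posD_of_check (c := ⟨244, ⟨5, 6, 7, 3⟩⟩) (by decide +kernel)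

def tC12_kL0 : PosD ⟨⟨0, 1, 1⟩, ⟨98, 99, 147⟩, ⟨4050, 10000, 30000⟩, ⟨600, 670, 1000⟩⟩ (tC12.hKL false) :=
  posD_of_check (c := ⟨243, ⟨5, 6, 7, 3⟩⟩) (by decide +kernel)

def tC12_wU0a : PosD ⟨⟨0, 1, 1⟩, ⟨98, 99, 147⟩, ⟨4050, 7025, 30000⟩, ⟨600, 670, 1000⟩⟩ (tC12.hWU false) :=
  posD_of_check (c := ⟨274, ⟨5, 8, 8, 3⟩⟩) (by decide +kernel)

def tC12_wU0b : PosD ⟨⟨0, 1, 1⟩, ⟨98, 99, 147⟩, ⟨7025, 10000, 30000⟩, ⟨600, 670, 1000⟩⟩ (tC12.hWU false) :=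
  posD_of_check (c := ⟨276, ⟨5, 8, 8, 3⟩⟩) (by decide +kernel)

def tC12_wU0 : PosD ⟨⟨0, 1, 1⟩, ⟨98, 99, 147⟩, ⟨4050, 10000, 30000⟩, ⟨600, 670, 1000⟩⟩ (tC12.hWU false) :=
  posD_join₂ tC12_wU0a tC12_wU0b

def tC12_wL0a : PosD ⟨⟨0, 1, 2⟩, ⟨98, 99, 147⟩, ⟨4050, 10000, 30000⟩, ⟨600, 670, 1000⟩⟩ (tC12.hWL false) :=
  posD_of_relax (k₁ := 0) (k₂ := 0) (k₃ := 1) (n := 16) (posD_of_check (c := ⟨278, ⟨5, 8, 8, 3⟩⟩) (by decide +kernel))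

def tC12_wL0b : PosD ⟨⟨1, 2, 2⟩, ⟨98, 99, 147⟩, ⟨4050, 10000, 30000⟩, ⟨600, 670, 1000⟩⟩ (tC12.hWL false) :=
  posD_of_check (c := ⟨280, ⟨5, 8, 8, 3⟩⟩) (by decide +kernel)

def tC12_wL0 : PosD ⟨⟨0, 1, 1⟩, ⟨98, 99, 147⟩, ⟨4050, 10000, 30000⟩, ⟨600, 670, 1000⟩⟩ (tC12.hWL false) :=
  posD_units (b := ⟨⟨0, 2, 2⟩, ⟨98, 99, 147⟩, ⟨4050, 10000, 30000⟩, ⟨600, 670, 1000⟩⟩) (by decide +kernel) (posD_join₀ tC12_wL0a tC12_wL0b)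

def tC12_ev1 : PosD ⟨⟨0, 1, 1⟩, ⟨98, 99, 147⟩, ⟨4050, 10000, 30000⟩, ⟨600, 670, 1000⟩⟩ (tC12.hEv true) :=
  posD_of_check (c := ⟨134, ⟨4, 2, 4, 1⟩⟩) (by decide +kernel)

def tC12_zL1 : PosD ⟨⟨0, 1, 1⟩, ⟨98, 99, 147⟩, ⟨4050, 10000, 30000⟩, ⟨600, 670, 1000⟩⟩ (tC12.hZL true) :=
  posD_of_check (c := ⟨170, ⟨4, 3, 6, 3⟩⟩) (by decide +kernel)

def tC12_zU1 : PosD ⟨⟨0, 1, 1⟩, ⟨98, 99, 147⟩, ⟨4050, 10000, 30000⟩, ⟨600, 670, 1000⟩⟩ (tC12.hZU true) :=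
  posD_of_check (c := ⟨170, ⟨4, 3, 6, 3⟩⟩) (by decide +kernel)

def tC12_eL1a : PosD ⟨⟨0, 1, 1⟩, ⟨98, 99, 147⟩, ⟨4050, 10000, 30000⟩, ⟨600, 635, 1000⟩⟩ (tC12.hEL true) :=
  posD_of_check (c := ⟨245, ⟨5, 6, 7, 3⟩⟩) (by decide +kernel)

def tC12_eL1ba : PosD ⟨⟨0, 1, 1⟩, ⟨98, 99, 147⟩, ⟨4050, 7025, 30000⟩, ⟨635, 670, 1000⟩⟩ (tC12.hEL true) :=
  posD_of_check (c := ⟨244, ⟨5, 6, 7, 3⟩⟩) (by decide +kernel)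

def tC12_eL1bb : PosD ⟨⟨0, 1, 1⟩, ⟨98, 99, 147⟩, ⟨7025, 10000, 30000⟩, ⟨635, 670, 1000⟩⟩ (tC12.hEL true) :=
  posD_of_check (c := ⟨246, ⟨5, 6, 7, 3⟩⟩) (by decide +kernel)

def tC12_eL1b : PosD ⟨⟨0, 1, 1⟩, ⟨98, 99, 147⟩, ⟨4050, 10000, 30000⟩, ⟨635, 670, 1000⟩⟩ (tC12.hEL true) :=
  posD_join₂ tC12_eL1ba tC12_eL1bb

def tC12_eL1 : PosD ⟨⟨0, 1, 1⟩, ⟨98, 99, 147⟩, ⟨4050, 10000, 30000⟩, ⟨600, 670, 1000⟩⟩ (tC12.hEL true) :=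
  posD_join₃ tC12_eL1a tC12_eL1b

def tC12_eH1a : PosD ⟨⟨0, 1, 1⟩, ⟨98, 99, 147⟩, ⟨4050, 7025, 30000⟩, ⟨600, 670, 1000⟩⟩ (tC12.hEH true) :=
  posD_of_check (c := ⟨245, ⟨5, 6, 7, 3⟩⟩) (by decide +kernel)

def tC12_eH1ba : PosD ⟨⟨0, 1, 1⟩, ⟨98, 99, 147⟩, ⟨7025, 8512, 30000⟩, ⟨600, 670, 1000⟩⟩ (tC12.hEH true) :=
  posD_of_check (c := ⟨246, ⟨5, 6, 7, 3⟩⟩) (by decide +kernel)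

def tC12_eH1bba : PosD ⟨⟨0, 1, 2⟩, ⟨98, 99, 147⟩, ⟨8512, 10000, 30000⟩, ⟨600, 670, 1000⟩⟩ (tC12.hEH true) :=
  posD_of_check (c := ⟨249, ⟨5, 6, 7, 3⟩⟩) (by decide +kernel)

def tC12_eH1bbba : PosD ⟨⟨2, 3, 4⟩, ⟨98, 99, 147⟩, ⟨8512, 10000, 30000⟩, ⟨600, 670, 1000⟩⟩ (tC12.hEH true) :=
  posD_of_check (c := ⟨255, ⟨5, 6, 7, 3⟩⟩) (by decide +kernel)

def tC12_eH1bbbb : PosD ⟨⟨3, 4, 4⟩, ⟨98, 99, 147⟩, ⟨8512, 10000, 30000⟩, ⟨600, 670, 1000⟩⟩ (tC12.hEH true) :=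
  posD_of_relax (k₁ := 0) (k₂ := 0) (k₃ := 2) (n := 16) (posD_of_check (c := ⟨256, ⟨5, 6, 7, 3⟩⟩) (by decide +kernel))

def tC12_eH1bbb : PosD ⟨⟨1, 2, 2⟩, ⟨98, 99, 147⟩, ⟨8512, 10000, 30000⟩, ⟨600, 670, 1000⟩⟩ (tC12.hEH true) :=
  posD_units (b := ⟨⟨2, 4, 4⟩, ⟨98, 99, 147⟩, ⟨8512, 10000, 30000⟩, ⟨600, 670, 1000⟩⟩) (by decide +kernel) (posD_join₀ tC12_eH1bbba tC12_eH1bbbb)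

def tC12_eH1bb : PosD ⟨⟨0, 1, 1⟩, ⟨98, 99, 147⟩, ⟨8512, 10000, 30000⟩, ⟨600, 670, 1000⟩⟩ (tC12.hEH true) :=
  posD_units (b := ⟨⟨0, 2, 2⟩, ⟨98, 99, 147⟩, ⟨8512, 10000, 30000⟩, ⟨600, 670, 1000⟩⟩) (by decide +kernel) (posD_join₀ tC12_eH1bba tC12_eH1bbb)

def tC12_eH1b : PosD ⟨⟨0, 1, 1⟩, ⟨98, 99, 147⟩, ⟨7025, 10000, 30000⟩, ⟨600, 670, 1000⟩⟩ (tC12.hEH true) :=
  posD_join₂ tC12_eH1ba tC12_eH1bb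

def tC12_eH1 : PosD ⟨⟨0, 1, 1⟩, ⟨98, 99, 147⟩, ⟨4050, 10000, 30000⟩, ⟨600, 670, 1000⟩⟩ (tC12.hEH true) :=
  posD_join₂ tC12_eH1a tC12_eH1b

def tC12_pL1 : PosD ⟨⟨0, 1, 1⟩, ⟨98, 99, 147⟩, ⟨4050, 10000, 30000⟩, ⟨600, 670, 1000⟩⟩ (tC12.hPL true) :=
  posD_of_check (c := ⟨244, ⟨5, 6, 7, 3⟩⟩) (by decide +kernel)

def tC12_pU1 : PosD ⟨⟨0, 1, 1⟩, ⟨98, 99, 147⟩, ⟨4050, 10000, 30000⟩, ⟨600, 670, 1000⟩⟩ (tC12.hPU true) :=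
  posD_of_check (c := ⟨244, ⟨5, 6, 7, 3⟩⟩) (by decide +kernel)

def tC12_kU1aa : PosD ⟨⟨0, 1, 1⟩, ⟨98, 99, 147⟩, ⟨4050, 5537, 30000⟩, ⟨600, 670, 1000⟩⟩ (tC12.hKU true) :=
  posD_of_check (c := ⟨244, ⟨5, 6, 7, 3⟩⟩) (by decide +kernel)

def tC12_kU1ab : PosD ⟨⟨0, 1, 1⟩, ⟨98, 99, 147⟩, ⟨5537, 7025, 30000⟩, ⟨600, 670, 1000⟩⟩ (tC12.hKU true) :=
  posD_of_check (c := ⟨245, ⟨5, 6, 7, 3⟩⟩) (by decide +kernel)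

def tC12_kU1a : PosD ⟨⟨0, 1, 1⟩, ⟨98, 99, 147⟩, ⟨4050, 7025, 30000⟩, ⟨600, 670, 1000⟩⟩ (tC12.hKU true) :=
  posD_join₂ tC12_kU1aa tC12_kU1ab

def tC12_kU1b : PosD ⟨⟨0, 1, 1⟩, ⟨98, 99, 147⟩, ⟨7025, 10000, 30000⟩, ⟨600, 670, 1000⟩⟩ (tC12.hKU true) :=
  posD_of_check (c := ⟨246, ⟨5, 6, 7, 3⟩⟩) (by decide +kernel)

def tC12_kU1 : PosD ⟨⟨0, 1, 1⟩, ⟨98, 99, 147⟩, ⟨4050, 10000, 30000⟩, ⟨600, 670, 1000⟩⟩ (tC12.hKU true) :=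
  posD_join₂ tC12_kU1a tC12_kU1b

def tC12_kL1a : PosD ⟨⟨0, 1, 1⟩, ⟨98, 99, 147⟩, ⟨4050, 7025, 30000⟩, ⟨600, 670, 1000⟩⟩ (tC12.hKL true) :=
  posD_of_check (c := ⟨243, ⟨5, 6, 7, 3⟩⟩) (by decide +kernel)

def tC12_kL1b : PosD ⟨⟨0, 1, 1⟩, ⟨98, 99, 147⟩, ⟨7025, 10000, 30000⟩, ⟨600, 670, 1000⟩⟩ (tC12.hKL true) :=
  posD_of_check (c := ⟨244, ⟨5, 6, 7, 3⟩⟩) (by decide +kernel)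

def tC12_kL1 : PosD ⟨⟨0, 1, 1⟩, ⟨98, 99, 147⟩, ⟨4050, 10000, 30000⟩, ⟨600, 670, 1000⟩⟩ (tC12.hKL true) :=
  posD_join₂ tC12_kL1a tC12_kL1b

def tC12_wU1a : PosD ⟨⟨0, 1, 1⟩, ⟨98, 99, 147⟩, ⟨4050, 7025, 30000⟩, ⟨600, 670, 1000⟩⟩ (tC12.hWU true) :=
  posD_of_check (c := ⟨275, ⟨5, 8, 8, 3⟩⟩) (by decide +kernel)

def tC12_wU1ba : PosD ⟨⟨0, 1, 2⟩, ⟨98, 99, 147⟩, ⟨7025, 10000, 30000⟩, ⟨600, 670, 1000⟩⟩ (tC12.hWU true) :=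
  posD_of_check (c := ⟨279, ⟨5, 8, 8, 3⟩⟩) (by decide +kernel)

def tC12_wU1bb : PosD ⟨⟨1, 2, 2⟩, ⟨98, 99, 147⟩, ⟨7025, 10000, 30000⟩, ⟨600, 670, 1000⟩⟩ (tC12.hWU true) :=
  posD_of_check (c := ⟨281, ⟨5, 8, 8, 3⟩⟩) (by decide +kernel)

def tC12_wU1b : PosD ⟨⟨0, 1, 1⟩, ⟨98, 99, 147⟩, ⟨7025, 10000, 30000⟩, ⟨600, 670, 1000⟩⟩ (tC12.hWU true) :=
  posD_units (b := ⟨⟨0, 2, 2⟩, ⟨98, 99, 147⟩, ⟨7025, 10000, 30000⟩, ⟨600, 670, 1000⟩⟩) (by decide +kernel) (posD_join₀ tC12_wU1ba tC12_wU1bb)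

def tC12_wU1 : PosD ⟨⟨0, 1, 1⟩, ⟨98, 99, 147⟩, ⟨4050, 10000, 30000⟩, ⟨600, 670, 1000⟩⟩ (tC12.hWU true) :=
  posD_join₂ tC12_wU1a tC12_wU1b

def tC12_wL1a : PosD ⟨⟨0, 1, 1⟩, ⟨98, 99, 147⟩, ⟨4050, 7025, 30000⟩, ⟨600, 670, 1000⟩⟩ (tC12.hWL true) :=
  posD_of_check (c := ⟨276, ⟨5, 8, 8, 3⟩⟩) (by decide +kernel)

def tC12_wL1b : PosD ⟨⟨0, 1, 1⟩, ⟨98, 99, 147⟩, ⟨7025, 10000, 30000⟩, ⟨600, 670, 1000⟩⟩ (tC12.hWL true) :=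
  posD_of_check (c := ⟨277, ⟨5, 8, 8, 3⟩⟩) (by decide +kernel)

def tC12_wL1 : PosD ⟨⟨0, 1, 1⟩, ⟨98, 99, 147⟩, ⟨4050, 10000, 30000⟩, ⟨600, 670, 1000⟩⟩ (tC12.hWL true) :=
  posD_join₂ tC12_wL1a tC12_wL1b

def tC12_mueL : PosD ⟨⟨0, 1, 1⟩, ⟨98, 99, 147⟩, ⟨4050, 10000, 30000⟩, ⟨600, 670, 1000⟩⟩ (tC12.eL.μ) :=
  posD_of_check (c := ⟨15, ⟨0, 0, 0, 0⟩⟩) (by decide +kernel)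

def tC12_mueH : PosD ⟨⟨0, 1, 1⟩, ⟨98, 99, 147⟩, ⟨4050, 10000, 30000⟩, ⟨600, 670, 1000⟩⟩ (tC12.eH.μ) :=
  posD_of_check (c := ⟨18, ⟨0, 0, 0, 0⟩⟩) (by decide +kernel)

def tC12_mupL : PosD ⟨⟨0, 1, 1⟩, ⟨98, 99, 147⟩, ⟨4050, 10000, 30000⟩, ⟨600, 670, 1000⟩⟩ (tC12.pL.μ) :=
  posD_of_check (c := ⟨16, ⟨0, 0, 0, 0⟩⟩) (by decide +kernel)

/-- The bounds of the piece. -/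
def tC12_env : tC12.Env ⟨⟨0, 1, 1⟩, ⟨98, 99, 147⟩, ⟨4050, 10000, 30000⟩, ⟨600, 670, 1000⟩⟩ :=
  ⟨tC12_p0, Bool.forall_bool.2 ⟨tC12_den0, tC12_den1⟩, tC12_gn, Bool.forall_bool.2 ⟨tC12_ev0, tC12_ev1⟩, Bool.forall_bool.2 ⟨tC12_zL0, tC12_zL1⟩, Bool.forall_bool.2 ⟨tC12_zU0, tC12_zU1⟩, Bool.forall_bool.2 ⟨tC12_eL0, tC12_eL1⟩, ⟨.inl tC12_mueL, .inr rfl⟩, Bool.forall_bool.2 ⟨tC12_eH0, tC12_eH1⟩, ⟨.inl tC12_mueH, .inr rfl⟩, Bool.forall_bool.2 ⟨tC12_pL0, tC12_pL1⟩, ⟨.inl tC12_mupL, .inr rfl⟩, Bool.forall_bool.2 ⟨tC12_pU0, tC12_pU1⟩, ⟨.inr rfl, .inr rfl⟩, Bool.forall_bool.2 ⟨tC12_kU0, tC12_kU1⟩, ⟨.inr rfl, .inr rfl⟩, Bool.forall_bool.2 ⟨tC12_kL0, tC12_kL1⟩, ⟨.inr rfl, .inr rfl⟩, Bool.forall_bool.2 ⟨tC12_wU0, tC12_wU1⟩, ⟨.inr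 rfl, .inr rfl⟩, Bool.forall_bool.2 ⟨tC12_wL0, tC12_wL1⟩, ⟨.inr rfl, .inr rfl⟩⟩

def tC12_pp : PosD ⟨⟨0, 1, 1⟩, ⟨98, 99, 147⟩, ⟨4050, 10000, 30000⟩, ⟨600, 670, 1000⟩⟩ (tC12.xPL) :=
  posD_of_check (c := ⟨95, ⟨1, 1, 3, 3⟩⟩) (by decide +kernel)

def tC12_k2p : PosD ⟨⟨0, 1, 1⟩, ⟨98, 99, 147⟩, ⟨4050, 10000, 30000⟩, ⟨600, 670, 1000⟩⟩ (tC12.k2p tC12.xE) :=
  posD_of_check (c := ⟨6, ⟨0, 0, 0, 0⟩⟩) (by decide +kernel)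

def tC12_k2m : PosD ⟨⟨0, 1, 1⟩, ⟨98, 99, 147⟩, ⟨4050, 10000, 30000⟩, ⟨600, 670, 1000⟩⟩ (tC12.k2m tC12.xE) :=
  posD_of_check (c := ⟨72, ⟨1, 1, 2, 2⟩⟩) (by decide +kernel)

def tC12_v2p : PosD ⟨⟨0, 1, 1⟩, ⟨98, 99, 147⟩, ⟨4050, 10000, 30000⟩, ⟨600, 670, 1000⟩⟩ (tC12.hV2p) :=
  posD_of_check (c := ⟨241, ⟨0, 5, 10, 4⟩⟩) (by decide +kernel)

def tC12_v2m : PosD ⟨⟨0, 1, 1⟩, ⟨98, 99, 147⟩, ⟨4050, 10000, 30000⟩, ⟨600, 670, 1000⟩⟩ (tC12.hV2m) :=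
  posD_of_check (c := ⟨272, ⟨1, 6, 10, 5⟩⟩) (by decide +kernel)

def tC12_v3p : PosD ⟨⟨0, 1, 1⟩, ⟨98, 99, 147⟩, ⟨4050, 10000, 30000⟩, ⟨600, 670, 1000⟩⟩ (tC12.hV3p) :=
  posD_of_check (c := ⟨230, ⟨0, 5, 9, 4⟩⟩) (by decide +kernel)

def tC12_v3m : PosD ⟨⟨0, 1, 1⟩, ⟨98, 99, 147⟩, ⟨4050, 10000, 30000⟩, ⟨600, 670, 1000⟩⟩ (tC12.hV3m) :=
  posD_of_check (c := ⟨256, ⟨1, 6, 9, 5⟩⟩) (by decide +kernel)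

def tC12_kap0 : PosD ⟨⟨0, 1, 1⟩, ⟨98, 99, 147⟩, ⟨4050, 10000, 30000⟩, ⟨600, 670, 1000⟩⟩ (tC12.kap false) :=
  posD_of_check (c := ⟨69, ⟨1, 1, 2, 2⟩⟩) (by decide +kernel)

def tC12_c10 : PosD ⟨⟨0, 1, 1⟩, ⟨98, 99, 147⟩, ⟨4050, 10000, 30000⟩, ⟨600, 670, 1000⟩⟩ (tC12.hC1 false) :=
  posD_of_check (c := ⟨275, ⟨3, 5, 9, 7⟩⟩) (by decide +kernel)

def tC12_neg0 : PosD ⟨⟨0, 1, 1⟩, ⟨98, 99, 147⟩, ⟨4050, 10000, 30000⟩, ⟨600, 670, 1000⟩⟩ (tC12.hNeg (tC12.pEnd false)) :=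
  posD_of_check (c := ⟨270, ⟨2, 5, 9, 7⟩⟩) (by decide +kernel)

def tC12_neglo0 : PosD ⟨⟨0, 1, 1⟩, ⟨98, 99, 147⟩, ⟨4050, 10000, 30000⟩, ⟨600, 670, 1000⟩⟩ (tC12.hNegLo (tC12.pEnd false)) :=
  posD_of_check (c := ⟨270, ⟨2, 5, 9, 7⟩⟩) (by decide +kernel)

def tC12_tg00 : PosD ⟨⟨0, 1, 1⟩, ⟨98, 99, 147⟩, ⟨4050, 10000, 30000⟩, ⟨600, 670, 1000⟩⟩ (tC12.hG false (tC12.pEnd false)) :=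
  posD_of_check (c := ⟨385, ⟨2, 7, 14, 9⟩⟩) (by decide +kernel)

def tC12_c2p00 : PosD ⟨⟨0, 1, 1⟩, ⟨98, 99, 147⟩, ⟨4050, 10000, 30000⟩, ⟨600, 670, 1000⟩⟩ (tC12.hC2p false (tC12.pEnd false)) :=
  posD_of_check (c := ⟨428, ⟨2, 7, 16, 10⟩⟩) (by decide +kernel)

def tC12_c2m00 : PosD ⟨⟨0, 1, 1⟩, ⟨98, 99, 147⟩, ⟨4050, 10000, 30000⟩, ⟨600, 670, 1000⟩⟩ (tC12.hC2m false (tC12.pEnd false)) :=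
  posD_of_check (c := ⟨456, ⟨3, 8, 16, 11⟩⟩) (by decide +kernel)

def tC12_c3p00 : PosD ⟨⟨0, 1, 1⟩, ⟨98, 99, 147⟩, ⟨4050, 10000, 30000⟩, ⟨600, 670, 1000⟩⟩ (tC12.hC3p false false) :=
  posD_of_check (c := ⟨421, ⟨3, 7, 15, 10⟩⟩) (by decide +kernel)

def tC12_c3m00 : PosD ⟨⟨0, 1, 1⟩, ⟨98, 99, 147⟩, ⟨4050, 10000, 30000⟩, ⟨600, 670, 1000⟩⟩ (tC12.hC3m false false) :=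
  posD_of_check (c := ⟨445, ⟨3, 8, 15, 11⟩⟩) (by decide +kernel)

def tC12_tmg00 : PosD ⟨⟨0, 1, 1⟩, ⟨98, 99, 147⟩, ⟨4050, 10000, 30000⟩, ⟨600, 670, 1000⟩⟩ (tC12.hTMG false (tC12.pEnd false)) :=
  posD_of_check (c := ⟨402, ⟨2, 7, 14, 10⟩⟩) (by decide +kernel)

def tC12_tg01 : PosD ⟨⟨0, 1, 1⟩, ⟨98, 99, 147⟩, ⟨4050, 10000, 30000⟩, ⟨600, 670, 1000⟩⟩ (tC12.hG true (tC12.pEnd false)) :=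
  posD_of_check (c := ⟨385, ⟨2, 7, 14, 9⟩⟩) (by decide +kernel)

def tC12_c2p01 : PosD ⟨⟨0, 1, 1⟩, ⟨98, 99, 147⟩, ⟨4050, 10000, 30000⟩, ⟨600, 670, 1000⟩⟩ (tC12.hC2p true (tC12.pEnd false)) :=
  posD_of_check (c := ⟨428, ⟨2, 7, 16, 10⟩⟩) (by decide +kernel)

def tC12_c2m01 : PosD ⟨⟨0, 1, 1⟩, ⟨98, 99, 147⟩, ⟨4050, 10000, 30000⟩, ⟨600, 670, 1000⟩⟩ (tC12.hC2m true (tC12.pEnd false)) :=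
  posD_of_check (c := ⟨456, ⟨3, 8, 16, 11⟩⟩) (by decide +kernel)

def tC12_c3p01 : PosD ⟨⟨0, 1, 1⟩, ⟨98, 99, 147⟩, ⟨4050, 10000, 30000⟩, ⟨600, 670, 1000⟩⟩ (tC12.hC3p false true) :=
  posD_of_check (c := ⟨421, ⟨3, 7, 15, 10⟩⟩) (by decide +kernel)

def tC12_c3m01 : PosD ⟨⟨0, 1, 1⟩, ⟨98, 99, 147⟩, ⟨4050, 10000, 30000⟩, ⟨600, 670, 1000⟩⟩ (tC12.hC3m false true) :=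
  posD_of_check (c := ⟨445, ⟨3, 8, 15, 11⟩⟩) (by decide +kernel)

def tC12_tmg01 : PosD ⟨⟨0, 1, 1⟩, ⟨98, 99, 147⟩, ⟨4050, 10000, 30000⟩, ⟨600, 670, 1000⟩⟩ (tC12.hTMG true (tC12.pEnd false)) :=
  posD_of_check (c := ⟨402, ⟨2, 7, 14, 10⟩⟩) (by decide +kernel)

def tC12_kap1 : PosD ⟨⟨0, 1, 1⟩, ⟨98, 99, 147⟩, ⟨4050, 10000, 30000⟩, ⟨600, 670, 1000⟩⟩ (tC12.kap true) :=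
  posD_of_check (c := ⟨68, ⟨1, 1, 2, 2⟩⟩) (by decide +kernel)

def tC12_c11 : PosD ⟨⟨0, 1, 1⟩, ⟨98, 99, 147⟩, ⟨4050, 10000, 30000⟩, ⟨600, 670, 1000⟩⟩ (tC12.hC1 true) :=
  posD_of_check (c := ⟨276, ⟨3, 5, 9, 7⟩⟩) (by decide +kernel)

def tC12_neg1 : PosD ⟨⟨0, 1, 1⟩, ⟨98, 99, 147⟩, ⟨4050, 10000, 30000⟩, ⟨600, 670, 1000⟩⟩ (tC12.hNeg (tC12.pEnd true)) :=
  posD_of_check (c := ⟨272, ⟨2, 5, 9, 7⟩⟩) (by decide +kernel)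

def tC12_neglo1 : PosD ⟨⟨0, 1, 1⟩, ⟨98, 99, 147⟩, ⟨4050, 10000, 30000⟩, ⟨600, 670, 1000⟩⟩ (tC12.hNegLo (tC12.pEnd true)) :=
  posD_of_check (c := ⟨272, ⟨2, 5, 9, 7⟩⟩) (by decide +kernel)

def tC12_tg10 : PosD ⟨⟨0, 1, 1⟩, ⟨98, 99, 147⟩, ⟨4050, 10000, 30000⟩, ⟨600, 670, 1000⟩⟩ (tC12.hG false (tC12.pEnd true)) :=
  posD_of_check (c := ⟨389, ⟨2, 7, 14, 9⟩⟩) (by decide +kernel)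

def tC12_c2p10 : PosD ⟨⟨0, 1, 1⟩, ⟨98, 99, 147⟩, ⟨4050, 10000, 30000⟩, ⟨600, 670, 1000⟩⟩ (tC12.hC2p false (tC12.pEnd true)) :=
  posD_of_check (c := ⟨430, ⟨2, 7, 16, 10⟩⟩) (by decide +kernel)

def tC12_c2m10 : PosD ⟨⟨0, 1, 1⟩, ⟨98, 99, 147⟩, ⟨4050, 10000, 30000⟩, ⟨600, 670, 1000⟩⟩ (tC12.hC2m false (tC12.pEnd true)) :=
  posD_of_check (c := ⟨460, ⟨3, 8, 16, 11⟩⟩) (by decide +kernel)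

def tC12_c3p10 : PosD ⟨⟨0, 1, 1⟩, ⟨98, 99, 147⟩, ⟨4050, 10000, 30000⟩, ⟨600, 670, 1000⟩⟩ (tC12.hC3p true false) :=
  posD_of_check (c := ⟨423, ⟨3, 7, 15, 10⟩⟩) (by decide +kernel)

def tC12_c3m10 : PosD ⟨⟨0, 1, 1⟩, ⟨98, 99, 147⟩, ⟨4050, 10000, 30000⟩, ⟨600, 670, 1000⟩⟩ (tC12.hC3m true false) :=
  posD_of_check (c := ⟨446, ⟨3, 8, 15, 11⟩⟩) (by decide +kernel)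

def tC12_tmg10 : PosD ⟨⟨0, 1, 1⟩, ⟨98, 99, 147⟩, ⟨4050, 10000, 30000⟩, ⟨600, 670, 1000⟩⟩ (tC12.hTMG false (tC12.pEnd true)) :=
  posD_of_check (c := ⟨403, ⟨2, 7, 14, 10⟩⟩) (by decide +kernel)

def tC12_tg11 : PosD ⟨⟨0, 1, 1⟩, ⟨98, 99, 147⟩, ⟨4050, 10000, 30000⟩, ⟨600, 670, 1000⟩⟩ (tC12.hG true (tC12.pEnd true)) :=
  posD_of_check (c := ⟨389, ⟨2, 7, 14, 9⟩⟩) (by decide +kernel)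

def tC12_c2p11 : PosD ⟨⟨0, 1, 1⟩, ⟨98, 99, 147⟩, ⟨4050, 10000, 30000⟩, ⟨600, 670, 1000⟩⟩ (tC12.hC2p true (tC12.pEnd true)) :=
  posD_of_check (c := ⟨430, ⟨2, 7, 16, 10⟩⟩) (by decide +kernel)

def tC12_c2m11 : PosD ⟨⟨0, 1, 1⟩, ⟨98, 99, 147⟩, ⟨4050, 10000, 30000⟩, ⟨600, 670, 1000⟩⟩ (tC12.hC2m true (tC12.pEnd true)) :=
  posD_of_check (c := ⟨460, ⟨3, 8, 16, 11⟩⟩) (by decide +kernel)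

def tC12_c3p11 : PosD ⟨⟨0, 1, 1⟩, ⟨98, 99, 147⟩, ⟨4050, 10000, 30000⟩, ⟨600, 670, 1000⟩⟩ (tC12.hC3p true true) :=
  posD_of_check (c := ⟨423, ⟨3, 7, 15, 10⟩⟩) (by decide +kernel)

def tC12_c3m11 : PosD ⟨⟨0, 1, 1⟩, ⟨98, 99, 147⟩, ⟨4050, 10000, 30000⟩, ⟨600, 670, 1000⟩⟩ (tC12.hC3m true true) :=
  posD_of_check (c := ⟨446, ⟨3, 8, 15, 11⟩⟩) (by decide +kernel)

def tC12_tmg11 : PosD ⟨⟨0, 1, 1⟩, ⟨98, 99, 147⟩, ⟨4050, 10000, 30000⟩, ⟨600, 670, 1000⟩⟩ (tC12.hTMG true (tC12.pEnd true)) :=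
  posD_of_check (c := ⟨403, ⟨2, 7, 14, 10⟩⟩) (by decide +kernel)

/-- The signs of the piece. -/
def tC12_sign : tC12.Sign ⟨⟨0, 1, 1⟩, ⟨98, 99, 147⟩, ⟨4050, 10000, 30000⟩, ⟨600, 670, 1000⟩⟩ :=
  ⟨tC12_pp,
    tC12_k2p,
    tC12_k2m,
    Bool.forall_bool.2 ⟨(Bool.forall_bool.2 ⟨tC12_tg00, tC12_tg01⟩), (Bool.forall_bool.2 ⟨tC12_tg10, tC12_tg11⟩)⟩,
    Bool.forall_bool.2 ⟨(Bool.forall_bool.2 ⟨tC12_c2p00, tC12_c2p01⟩), (Bool.forall_bool.2 ⟨tC12_c2p10, tC12_c2p11⟩)⟩,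
    Bool.forall_bool.2 ⟨(Bool.forall_bool.2 ⟨tC12_c2m00, tC12_c2m01⟩), (Bool.forall_bool.2 ⟨tC12_c2m10, tC12_c2m11⟩)⟩,
    Bool.forall_bool.2 ⟨tC12_kap0, tC12_kap1⟩,
    Bool.forall_bool.2 ⟨tC12_c10, tC12_c11⟩,
    Bool.forall_bool.2 ⟨(Bool.forall_bool.2 ⟨tC12_c3p00, tC12_c3p01⟩), (Bool.forall_bool.2 ⟨tC12_c3p10, tC12_c3p11⟩)⟩,
    Bool.forall_bool.2 ⟨(Bool.forall_bool.2 ⟨tC12_c3m00, tC12_c3m01⟩), (Bool.forall_bool.2 ⟨tC12_c3m10, tC12_c3m11⟩)⟩,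
    Bool.forall_bool.2 ⟨(Bool.forall_bool.2 ⟨tC12_tmg00, tC12_tmg01⟩), (Bool.forall_bool.2 ⟨tC12_tmg10, tC12_tmg11⟩)⟩,
    .inl (Bool.forall_bool.2 ⟨⟨tC12_neg0, tC12_neglo0⟩, ⟨tC12_neg1, tC12_neglo1⟩⟩),
    tC12_v2p,
    tC12_v2m,
    tC12_v3p,
    tC12_v3m,
    posD_sub (b := ⟨⟨0, 1, 1⟩, ⟨98, 99, 147⟩, ⟨4050, 10000, 30000⟩, ⟨290, 4000, 1000⟩⟩) (by decide +kernel) tC_vG,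
    posD_sub (b := ⟨⟨0, 1, 1⟩, ⟨98, 99, 147⟩, ⟨4050, 10000, 30000⟩, ⟨290, 4000, 1000⟩⟩) (by decide +kernel) tC_vMG,
    posD_sub (b := ⟨⟨0, 1, 1⟩, ⟨98, 99, 147⟩, ⟨4050, 10000, 30000⟩, ⟨290, 4000, 1000⟩⟩) (by decide +kernel) tC_ak,
    posD_sub (b := ⟨⟨0, 1, 1⟩, ⟨98, 99, 147⟩, ⟨4050, 10000, 30000⟩, ⟨290, 4000, 1000⟩⟩) (by decide +kernel) tC_aw,
    posD_sub (b := ⟨⟨0, 1, 1⟩, ⟨98, 99, 147⟩, ⟨4050, 10000, 30000⟩, ⟨290, 4000, 1000⟩⟩) (by decide +kernel) tC_gk,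
    posD_sub (b := ⟨⟨0, 1, 1⟩, ⟨98, 99, 147⟩, ⟨4050, 10000, 30000⟩, ⟨290, 4000, 1000⟩⟩) (by decide +kernel) tC_gw,
    posD_sub (b := ⟨⟨0, 1, 1⟩, ⟨98, 99, 147⟩, ⟨4050, 10000, 30000⟩, ⟨290, 4000, 1000⟩⟩) (by decide +kernel) tC_ek,
    posD_sub (b := ⟨⟨0, 1, 1⟩, ⟨98, 99, 147⟩, ⟨4050, 10000, 30000⟩, ⟨290, 4000, 1000⟩⟩) (by decide +kernel) tC_ew⟩

end Vale.Agent.P100.Calib.Closed.Six.Tail
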