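import Vale.Agent.P100.Calib.SlabSixTailDataC
import Vale.Agent.P100.Calib.SlabSixTailGlobC

/-!
# Checks of some pieces of the certificate

The checks are written as definitions so that they run one after another, which keeps the memory of the
kernel low.
-/

set_option linter.defProp false

namespace Vale.Agent.P100.Calib.Closed.Six.Tail

open BoxPos Large

local instance sixTailCheckstC32Add : Add Ex := ⟨Ex.add⟩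
local instance sixTailCheckstC32Sub : Sub Ex := ⟨Ex.sub⟩
local instance sixTailCheckstC32Mul : Mul Ex := ⟨Ex.mul⟩

def tC45_phx : PosIf ⟨⟨0, 1, 1⟩, ⟨98, 99, 147⟩, ⟨8514, 9258, 30000⟩, ⟨1346, 1467, 1000⟩⟩ (tC45.u₁ - tC45Lo) (phCn (tC45.u₁ + xO * (tC45Lo - tC45.u₁))) :=
  posIf_of_posD (posD_of_check (c := ⟨109, ⟨2, 0, 4, 2⟩⟩) (by decide +kernel))

def tC45_phd : PosD ⟨⟨0, 1, 1⟩, ⟨98, 99, 147⟩, ⟨8514, 9258, 30000⟩, ⟨1346, 1467, 1000⟩⟩ (phCd (tC45.u₁ + xO * (tC45Lo - tC45.u₁))) :=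
  posD_of_check (c := ⟨51, ⟨1, 0, 2, 1⟩⟩) (by decide +kernel)

def tC45_p0 : PosD ⟨⟨0, 1, 1⟩, ⟨98, 99, 147⟩, ⟨8514, 9258, 30000⟩, ⟨1346, 1467, 1000⟩⟩ (tC45.hP0) :=
  posD_of_check (c := ⟨83, ⟨0, 2, 3, 1⟩⟩) (by decide +kernel)

def tC45_gn : PosD ⟨⟨0, 1, 1⟩, ⟨98, 99, 147⟩, ⟨8514, 9258, 30000⟩, ⟨1346, 1467, 1000⟩⟩ (tC45.hGn) :=
  posD_of_check (c := ⟨69, ⟨1, 1, 2, 2⟩⟩) (by decide +kernel)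

def tC45_den0 : PosD ⟨⟨0, 1, 1⟩, ⟨98, 99, 147⟩, ⟨8514, 9258, 30000⟩, ⟨1346, 1467, 1000⟩⟩ (tC45.hDen false) :=
  posD_of_check (c := ⟨51, ⟨1, 0, 2, 1⟩⟩) (by decide +kernel)

def tC45_den1 : PosD ⟨⟨0, 1, 1⟩, ⟨98, 99, 147⟩, ⟨8514, 9258, 30000⟩, ⟨1346, 1467, 1000⟩⟩ (tC45.hDen true) :=
  posD_of_check (c := ⟨51, ⟨1, 0, 2, 1⟩⟩) (by decide +kernel)

def tC45_ev0 : PosD ⟨⟨0, 1, 1⟩, ⟨98, 99, 147⟩, ⟨8514, 9258, 30000⟩, ⟨1346, 1467, 1000⟩⟩ (tC45.hEv false) :=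
  posD_of_check (c := ⟨220, ⟨4, 2, 8, 4⟩⟩) (by decide +kernel)

def tC45_zL0 : PosD ⟨⟨0, 1, 1⟩, ⟨98, 99, 147⟩, ⟨8514, 9258, 30000⟩, ⟨1346, 1467, 1000⟩⟩ (tC45.hZL false) :=
  posD_of_check (c := ⟨222, ⟨4, 3, 8, 4⟩⟩) (by decide +kernel)

def tC45_zU0 : PosD ⟨⟨0, 1, 1⟩, ⟨98, 99, 147⟩, ⟨8514, 9258, 30000⟩, ⟨1346, 1467, 1000⟩⟩ (tC45.hZU false) :=
  posD_of_check (c := ⟨222, ⟨4, 3, 8, 4⟩⟩) (by decide +kernel)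

def tC45_eL0 : PosD ⟨⟨0, 1, 1⟩, ⟨98, 99, 147⟩, ⟨8514, 9258, 30000⟩, ⟨1346, 1467, 1000⟩⟩ (tC45.hEL false) :=
  posD_of_check (c := ⟨315, ⟨5, 6, 11, 6⟩⟩) (by decide +kernel)

def tC45_eH0 : PosD ⟨⟨0, 1, 1⟩, ⟨98, 99, 147⟩, ⟨8514, 9258, 30000⟩, ⟨1346, 1467, 1000⟩⟩ (tC45.hEH false) :=
  posD_of_check (c := ⟨345, ⟨5, 6, 11, 7⟩⟩) (by decide +kernel)

def tC45_pL0 : PosD ⟨⟨0, 1, 1⟩, ⟨98, 99, 147⟩, ⟨8514, 9258, 30000⟩, ⟨1346, 1467, 1000⟩⟩ (tC45.hPL false) :=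
  posD_of_check (c := ⟨340, ⟨5, 6, 11, 7⟩⟩) (by decide +kernel)

def tC45_pU0 : PosD ⟨⟨0, 1, 1⟩, ⟨98, 99, 147⟩, ⟨8514, 9258, 30000⟩, ⟨1346, 1467, 1000⟩⟩ (tC45.hPU false) :=
  posD_of_check (c := ⟨341, ⟨5, 6, 11, 7⟩⟩) (by decide +kernel)

def tC45_kU0 : PosD ⟨⟨0, 1, 1⟩, ⟨98, 99, 147⟩, ⟨8514, 9258, 30000⟩, ⟨1346, 1467, 1000⟩⟩ (tC45.hKU false) :=
  posD_of_check (c := ⟨337, ⟨5, 6, 11, 7⟩⟩) (by decide +kernel)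

def tC45_kL0 : PosD ⟨⟨0, 1, 1⟩, ⟨98, 99, 147⟩, ⟨8514, 9258, 30000⟩, ⟨1346, 1467, 1000⟩⟩ (tC45.hKL false) :=
  posD_of_check (c := ⟨337, ⟨5, 6, 11, 7⟩⟩) (by decide +kernel)

def tC45_wU0 : PosD ⟨⟨0, 1, 1⟩, ⟨98, 99, 147⟩, ⟨8514, 9258, 30000⟩, ⟨1346, 1467, 1000⟩⟩ (tC45.hWU false) :=
  posD_of_check (c := ⟨371, ⟨5, 8, 12, 7⟩⟩) (by decide +kernel)

def tC45_wL0 : PosD ⟨⟨0, 1, 1⟩, ⟨98, 99, 147⟩, ⟨8514, 9258, 30000⟩, ⟨1346, 1467, 1000⟩⟩ (tC45.hWL false) :=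
  posD_of_check (c := ⟨372, ⟨5, 8, 12, 7⟩⟩) (by decide +kernel)

def tC45_ev1 : PosD ⟨⟨0, 1, 1⟩, ⟨98, 99, 147⟩, ⟨8514, 9258, 30000⟩, ⟨1346, 1467, 1000⟩⟩ (tC45.hEv true) :=
  posD_of_check (c := ⟨218, ⟨4, 2, 8, 4⟩⟩) (by decide +kernel)

def tC45_zL1 : PosD ⟨⟨0, 1, 1⟩, ⟨98, 99, 147⟩, ⟨8514, 9258, 30000⟩, ⟨1346, 1467, 1000⟩⟩ (tC45.hZL true) :=
  posD_of_check (c := ⟨220, ⟨4, 3, 8, 4⟩⟩) (by decide +kernel)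

def tC45_zU1 : PosD ⟨⟨0, 1, 1⟩, ⟨98, 99, 147⟩, ⟨8514, 9258, 30000⟩, ⟨1346, 1467, 1000⟩⟩ (tC45.hZU true) :=
  posD_of_check (c := ⟨220, ⟨4, 3, 8, 4⟩⟩) (by decide +kernel)

def tC45_eL1 : PosD ⟨⟨0, 1, 1⟩, ⟨98, 99, 147⟩, ⟨8514, 9258, 30000⟩, ⟨1346, 1467, 1000⟩⟩ (tC45.hEL true) :=
  posD_of_check (c := ⟨313, ⟨5, 6, 11, 6⟩⟩) (by decide +kernel)

def tC45_eH1 : PosD ⟨⟨0, 1, 1⟩, ⟨98, 99, 147⟩, ⟨8514, 9258, 30000⟩, ⟨1346, 1467, 1000⟩⟩ (tC45.hEH true) :=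
  posD_of_check (c := ⟨343, ⟨5, 6, 11, 7⟩⟩) (by decide +kernel)

def tC45_pL1 : PosD ⟨⟨0, 1, 1⟩, ⟨98, 99, 147⟩, ⟨8514, 9258, 30000⟩, ⟨1346, 1467, 1000⟩⟩ (tC45.hPL true) :=
  posD_of_check (c := ⟨338, ⟨5, 6, 11, 7⟩⟩) (by decide +kernel)

def tC45_pU1 : PosD ⟨⟨0, 1, 1⟩, ⟨98, 99, 147⟩, ⟨8514, 9258, 30000⟩, ⟨1346, 1467, 1000⟩⟩ (tC45.hPU true) :=
  posD_of_check (c := ⟨340, ⟨5, 6, 11, 7⟩⟩) (by decide +kernel)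

def tC45_kU1 : PosD ⟨⟨0, 1, 1⟩, ⟨98, 99, 147⟩, ⟨8514, 9258, 30000⟩, ⟨1346, 1467, 1000⟩⟩ (tC45.hKU true) :=
  posD_of_check (c := ⟨336, ⟨5, 6, 11, 7⟩⟩) (by decide +kernel)

def tC45_kL1 : PosD ⟨⟨0, 1, 1⟩, ⟨98, 99, 147⟩, ⟨8514, 9258, 30000⟩, ⟨1346, 1467, 1000⟩⟩ (tC45.hKL true) :=
  posD_of_check (c := ⟨336, ⟨5, 6, 11, 7⟩⟩) (by decide +kernel)

def tC45_wU1 : PosD ⟨⟨0, 1, 1⟩, ⟨98, 99, 147⟩, ⟨8514, 9258, 30000⟩, ⟨1346, 1467, 1000⟩⟩ (tC45.hWU true) :=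
  posD_of_check (c := ⟨369, ⟨5, 8, 12, 7⟩⟩) (by decide +kernel)

def tC45_wL1 : PosD ⟨⟨0, 1, 1⟩, ⟨98, 99, 147⟩, ⟨8514, 9258, 30000⟩, ⟨1346, 1467, 1000⟩⟩ (tC45.hWL true) :=
  posD_of_check (c := ⟨371, ⟨5, 8, 12, 7⟩⟩) (by decide +kernel)

def tC45_nueH : PosD ⟨⟨0, 1, 1⟩, ⟨98, 99, 147⟩, ⟨8514, 9258, 30000⟩, ⟨1346, 1467, 1000⟩⟩ (tC45.eH.ν) :=
  posD_of_check (c := ⟨43, ⟨0, 0, 1, 1⟩⟩) (by decide +kernel)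

/-- The bounds of the piece. -/
def tC45_env : tC45.Env ⟨⟨0, 1, 1⟩, ⟨98, 99, 147⟩, ⟨8514, 9258, 30000⟩, ⟨1346, 1467, 1000⟩⟩ :=
  ⟨tC45_p0, Bool.forall_bool.2 ⟨tC45_den0, tC45_den1⟩, tC45_gn, Bool.forall_bool.2 ⟨tC45_ev0, tC45_ev1⟩, Bool.forall_bool.2 ⟨tC45_zL0, tC45_zL1⟩, Bool.forall_bool.2 ⟨tC45_zU0, tC45_zU1⟩, Bool.forall_bool.2 ⟨tC45_eL0, tC45_eL1⟩, ⟨.inr rfl, .inr rfl⟩, Bool.forall_bool.2 ⟨tC45_eH0, tC45_eH1⟩, ⟨.inr rfl, .inl tC45_nueH⟩, Bool.forall_bool.2 ⟨tC45_pL0, tC45_pL1⟩, ⟨.inr rfl, .inr rfl⟩, Bool.forall_bool.2 ⟨tC45_pU0, tC45_pU1⟩, ⟨.inr rfl, .inr rfl⟩, Bool.forall_bool.2 ⟨tC45_kU0, tC45_kU1⟩, ⟨.inr rfl, .inr rfl⟩, Bool.forall_bool.2 ⟨tC45_kL0, tC45_kL1⟩, ⟨.inr rfl, .inr rfl⟩, Bool.forall_bool.2 ⟨tC45_wU0, tC45_wU1⟩,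 ⟨.inr rfl, .inr rfl⟩, Bool.forall_bool.2 ⟨tC45_wL0, tC45_wL1⟩, ⟨.inr rfl, .inr rfl⟩⟩

def tC45_pU20 : PosD ⟨⟨0, 1, 1⟩, ⟨98, 99, 147⟩, ⟨8514, 9258, 30000⟩, ⟨1346, 1467, 1000⟩⟩ (({ tC45 with pU := tC45PU } : Piece).hPU false) :=
  posD_of_check (c := ⟨347, ⟨5, 6, 11, 7⟩⟩) (by decide +kernel)

def tC45_pU21 : PosD ⟨⟨0, 1, 1⟩, ⟨98, 99, 147⟩, ⟨8514, 9258, 30000⟩, ⟨1346, 1467, 1000⟩⟩ (({ tC45 with pU := tC45PU } : Piece).hPU true) :=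
  posD_of_check (c := ⟨346, ⟨5, 6, 11, 7⟩⟩) (by decide +kernel)

def tC45_nupU2 : PosD ⟨⟨0, 1, 1⟩, ⟨98, 99, 147⟩, ⟨8514, 9258, 30000⟩, ⟨1346, 1467, 1000⟩⟩ (tC45PU.ν) :=
  posD_of_check (c := ⟨45, ⟨0, 0, 1, 1⟩⟩) (by decide +kernel)

/-- The bounds with the other bound of `p`. -/
def tC45_envU : ({ tC45 with pU := tC45PU } : Piece).Env ⟨⟨0, 1, 1⟩, ⟨98, 99, 147⟩, ⟨8514, 9258, 30000⟩, ⟨1346, 1467, 1000⟩⟩ :=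
  tC45_env.withU tC45PU (Bool.forall_bool.2 ⟨tC45_pU20, tC45_pU21⟩) ⟨.inr rfl, .inl tC45_nupU2⟩

def tC45A_pp : PosD ⟨⟨0, 1, 1⟩, ⟨98, 99, 147⟩, ⟨8514, 9258, 30000⟩, ⟨1346, 1467, 1000⟩⟩ (tC45A.xPL) :=
  posD_of_check (c := ⟨95, ⟨1, 1, 3, 3⟩⟩) (by decide +kernel)

def tC45A_k2p : PosD ⟨⟨0, 1, 1⟩, ⟨98, 99, 147⟩, ⟨8514, 9258, 30000⟩, ⟨1346, 1467, 1000⟩⟩ (tC45A.k2p tC45A.xE) :=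
  posD_of_check (c := ⟨73, ⟨1, 1, 2, 2⟩⟩) (by decide +kernel)

def tC45A_k2m : PosD ⟨⟨0, 1, 1⟩, ⟨98, 99, 147⟩, ⟨8514, 9258, 30000⟩, ⟨1346, 1467, 1000⟩⟩ (tC45A.k2m tC45A.xE) :=
  posD_of_check (c := ⟨31, ⟨0, 0, 1, 1⟩⟩) (by decide +kernel)

def tC45A_v2p : PosD ⟨⟨0, 1, 1⟩, ⟨98, 99, 147⟩, ⟨8514, 9258, 30000⟩, ⟨1346, 1467, 1000⟩⟩ (tC45A.hV2p) :=
  posD_of_check (c := ⟨275, ⟨1, 6, 10, 5⟩⟩) (by decide +kernel)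

def tC45A_v2m : PosD ⟨⟨0, 1, 1⟩, ⟨98, 99, 147⟩, ⟨8514, 9258, 30000⟩, ⟨1346, 1467, 1000⟩⟩ (tC45A.hV2m) :=
  posD_of_check (c := ⟨245, ⟨0, 5, 10, 4⟩⟩) (by decide +kernel)

def tC45A_v3p : PosD ⟨⟨0, 1, 1⟩, ⟨98, 99, 147⟩, ⟨8514, 9258, 30000⟩, ⟨1346, 1467, 1000⟩⟩ (tC45A.hV3p) :=
  posD_of_check (c := ⟨259, ⟨1, 6, 9, 5⟩⟩) (by decide +kernel)

def tC45A_v3m : PosD ⟨⟨0, 1, 1⟩, ⟨98, 99, 147⟩, ⟨8514, 9258, 30000⟩, ⟨1346, 1467, 1000⟩⟩ (tC45A.hV3m) :=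
  posD_of_check (c := ⟨232, ⟨0, 5, 9, 4⟩⟩) (by decide +kernel)

def tC45A_kap0 : PosD ⟨⟨0, 1, 1⟩, ⟨98, 99, 147⟩, ⟨8514, 9258, 30000⟩, ⟨1346, 1467, 1000⟩⟩ (tC45A.kap false) :=
  posD_of_check (c := ⟨71, ⟨1, 1, 2, 2⟩⟩) (by decide +kernel)

def tC45A_c10 : PosD ⟨⟨0, 1, 1⟩, ⟨98, 99, 147⟩, ⟨8514, 9258, 30000⟩, ⟨1346, 1467, 1000⟩⟩ (tC45A.hC1 false) :=
  posD_of_check (c := ⟨275, ⟨3, 5, 9, 7⟩⟩) (by decide +kernel)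

def tC45A_c1h0 : PosD ⟨⟨0, 1, 1⟩, ⟨98, 99, 147⟩, ⟨8514, 9258, 30000⟩, ⟨1346, 1467, 1000⟩⟩ (tC45A.hC1' false) :=
  posD_of_check (c := ⟨275, ⟨3, 5, 9, 7⟩⟩) (by decide +kernel)

def tC45A_tg00 : PosD ⟨⟨0, 1, 1⟩, ⟨98, 99, 147⟩, ⟨8514, 9258, 30000⟩, ⟨1346, 1467, 1000⟩⟩ (tC45A.hG false (tC45A.pEnd false)) :=
  posD_of_check (c := ⟨387, ⟨2, 7, 14, 9⟩⟩) (by decide +kernel)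

def tC45A_c2p00 : PosD ⟨⟨0, 1, 1⟩, ⟨98, 99, 147⟩, ⟨8514, 9258, 30000⟩, ⟨1346, 1467, 1000⟩⟩ (tC45A.hC2p false (tC45A.pEnd false)) :=
  posD_of_check (c := ⟨460, ⟨3, 8, 16, 11⟩⟩) (by decide +kernel)

def tC45A_c2m00 : PosD ⟨⟨0, 1, 1⟩, ⟨98, 99, 147⟩, ⟨8514, 9258, 30000⟩, ⟨1346, 1467, 1000⟩⟩ (tC45A.hC2m false (tC45A.pEnd false)) :=
  posD_of_check (c := ⟨431, ⟨2, 7, 16, 10⟩⟩) (by decide +kernel)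

def tC45A_c3p00 : PosD ⟨⟨0, 1, 1⟩, ⟨98, 99, 147⟩, ⟨8514, 9258, 30000⟩, ⟨1346, 1467, 1000⟩⟩ (tC45A.hC3p false false) :=
  posD_of_check (c := ⟨446, ⟨3, 8, 15, 11⟩⟩) (by decide +kernel)

def tC45A_c3m00 : PosD ⟨⟨0, 1, 1⟩, ⟨98, 99, 147⟩, ⟨8514, 9258, 30000⟩, ⟨1346, 1467, 1000⟩⟩ (tC45A.hC3m false false) :=
  posD_of_check (c := ⟨422, ⟨3, 7, 15, 10⟩⟩) (by decide +kernel)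

def tC45A_c3ph00 : PosD ⟨⟨0, 1, 1⟩, ⟨98, 99, 147⟩, ⟨8514, 9258, 30000⟩, ⟨1346, 1467, 1000⟩⟩ (tC45A.hC3p' false false) :=
  posD_of_check (c := ⟨446, ⟨3, 8, 15, 11⟩⟩) (by decide +kernel)

def tC45A_c3mh00 : PosD ⟨⟨0, 1, 1⟩, ⟨98, 99, 147⟩, ⟨8514, 9258, 30000⟩, ⟨1346, 1467, 1000⟩⟩ (tC45A.hC3m' false false) :=
  posD_of_check (c := ⟨422, ⟨3, 7, 15, 10⟩⟩) (by decide +kernel)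

def tC45A_up00 : PosD ⟨⟨0, 1, 1⟩, ⟨98, 99, 147⟩, ⟨8514, 9258, 30000⟩, ⟨1346, 1467, 1000⟩⟩ (tC45A.hUp false false) :=
  posD_of_check (c := ⟨445, ⟨3, 8, 15, 11⟩⟩) (by decide +kernel)

def tC45A_um00 : PosD ⟨⟨0, 1, 1⟩, ⟨98, 99, 147⟩, ⟨8514, 9258, 30000⟩, ⟨1346, 1467, 1000⟩⟩ (tC45A.hUm false false) :=
  posD_of_check (c := ⟨419, ⟨2, 7, 15, 10⟩⟩) (by decide +kernel)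

def tC45A_tmg00 : PosD ⟨⟨0, 1, 1⟩, ⟨98, 99, 147⟩, ⟨8514, 9258, 30000⟩, ⟨1346, 1467, 1000⟩⟩ (tC45A.hTMG false (tC45A.pEnd false)) :=
  posD_of_check (c := ⟨402, ⟨2, 7, 14, 10⟩⟩) (by decide +kernel)

def tC45A_tg01 : PosD ⟨⟨0, 1, 1⟩, ⟨98, 99, 147⟩, ⟨8514, 9258, 30000⟩, ⟨1346, 1467, 1000⟩⟩ (tC45A.hG true (tC45A.pEnd false)) :=
  posD_of_check (c := ⟨387, ⟨2, 7, 14, 9⟩⟩) (by decide +kernel)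

def tC45A_c2p01 : PosD ⟨⟨0, 1, 1⟩, ⟨98, 99, 147⟩, ⟨8514, 9258, 30000⟩, ⟨1346, 1467, 1000⟩⟩ (tC45A.hC2p true (tC45A.pEnd false)) :=
  posD_of_check (c := ⟨460, ⟨3, 8, 16, 11⟩⟩) (by decide +kernel)

def tC45A_c2m01 : PosD ⟨⟨0, 1, 1⟩, ⟨98, 99, 147⟩, ⟨8514, 9258, 30000⟩, ⟨1346, 1467, 1000⟩⟩ (tC45A.hC2m true (tC45A.pEnd false)) :=
  posD_of_check (c := ⟨431, ⟨2, 7, 16, 10⟩⟩) (by decide +kernel)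

def tC45A_c3p01 : PosD ⟨⟨0, 1, 1⟩, ⟨98, 99, 147⟩, ⟨8514, 9258, 30000⟩, ⟨1346, 1467, 1000⟩⟩ (tC45A.hC3p false true) :=
  posD_of_check (c := ⟨446, ⟨3, 8, 15, 11⟩⟩) (by decide +kernel)

def tC45A_c3m01 : PosD ⟨⟨0, 1, 1⟩, ⟨98, 99, 147⟩, ⟨8514, 9258, 30000⟩, ⟨1346, 1467, 1000⟩⟩ (tC45A.hC3m false true) :=
  posD_of_check (c := ⟨422, ⟨3, 7, 15, 10⟩⟩) (by decide +kernel)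

def tC45A_c3ph01 : PosD ⟨⟨0, 1, 1⟩, ⟨98, 99, 147⟩, ⟨8514, 9258, 30000⟩, ⟨1346, 1467, 1000⟩⟩ (tC45A.hC3p' false true) :=
  posD_of_check (c := ⟨446, ⟨3, 8, 15, 11⟩⟩) (by decide +kernel)

def tC45A_c3mh01 : PosD ⟨⟨0, 1, 1⟩, ⟨98, 99, 147⟩, ⟨8514, 9258, 30000⟩, ⟨1346, 1467, 1000⟩⟩ (tC45A.hC3m' false true) :=
  posD_of_check (c := ⟨422, ⟨3, 7, 15, 10⟩⟩) (by decide +kernel)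

def tC45A_up01 : PosD ⟨⟨0, 1, 1⟩, ⟨98, 99, 147⟩, ⟨8514, 9258, 30000⟩, ⟨1346, 1467, 1000⟩⟩ (tC45A.hUp false true) :=
  posD_of_check (c := ⟨445, ⟨3, 8, 15, 11⟩⟩) (by decide +kernel)

def tC45A_um01 : PosD ⟨⟨0, 1, 1⟩, ⟨98, 99, 147⟩, ⟨8514, 9258, 30000⟩, ⟨1346, 1467, 1000⟩⟩ (tC45A.hUm false true) :=
  posD_of_check (c := ⟨419, ⟨2, 7, 15, 10⟩⟩) (by decide +kernel)

def tC45A_tmg01 : PosD ⟨⟨0, 1, 1⟩, ⟨98, 99, 147⟩, ⟨8514, 9258, 30000⟩, ⟨1346, 1467, 1000⟩⟩ (tC45A.hTMG true (tC45A.pEnd false)) :=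
  posD_of_check (c := ⟨402, ⟨2, 7, 14, 10⟩⟩) (by decide +kernel)

def tC45A_kap1 : PosD ⟨⟨0, 1, 1⟩, ⟨98, 99, 147⟩, ⟨8514, 9258, 30000⟩, ⟨1346, 1467, 1000⟩⟩ (tC45A.kap true) :=
  posD_of_check (c := ⟨72, ⟨1, 1, 2, 2⟩⟩) (by decide +kernel)

def tC45A_c11 : PosD ⟨⟨0, 1, 1⟩, ⟨98, 99, 147⟩, ⟨8514, 9258, 30000⟩, ⟨1346, 1467, 1000⟩⟩ (tC45A.hC1 true) :=
  posD_of_check (c := ⟨277, ⟨3, 5, 9, 7⟩⟩) (by decide +kernel)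

def tC45A_c1h1 : PosD ⟨⟨0, 1, 1⟩, ⟨98, 99, 147⟩, ⟨8514, 9258, 30000⟩, ⟨1346, 1467, 1000⟩⟩ (tC45A.hC1' true) :=
  posD_of_relax (k₁ := 0) (k₂ := 0) (k₃ := 69) (n := 16) (posD_of_check (c := ⟨277, ⟨3, 5, 9, 7⟩⟩) (by decide +kernel))

def tC45A_tg10 : PosD ⟨⟨0, 1, 1⟩, ⟨98, 99, 147⟩, ⟨8514, 9258, 30000⟩, ⟨1346, 1467, 1000⟩⟩ (tC45A.hG false (tC45A.pEnd true)) :=
  posD_of_check (c := ⟨391, ⟨2, 7, 14, 9⟩⟩) (by decide +kernel)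

def tC45A_c2p10 : PosD ⟨⟨0, 1, 1⟩, ⟨98, 99, 147⟩, ⟨8514, 9258, 30000⟩, ⟨1346, 1467, 1000⟩⟩ (tC45A.hC2p false (tC45A.pEnd true)) :=
  posD_of_check (c := ⟨464, ⟨3, 8, 16, 11⟩⟩) (by decide +kernel)

def tC45A_c2m10 : PosD ⟨⟨0, 1, 1⟩, ⟨98, 99, 147⟩, ⟨8514, 9258, 30000⟩, ⟨1346, 1467, 1000⟩⟩ (tC45A.hC2m false (tC45A.pEnd true)) :=
  posD_of_check (c := ⟨434, ⟨2, 7, 16, 10⟩⟩) (by decide +kernel)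

def tC45A_c3p10 : PosD ⟨⟨0, 1, 1⟩, ⟨98, 99, 147⟩, ⟨8514, 9258, 30000⟩, ⟨1346, 1467, 1000⟩⟩ (tC45A.hC3p true false) :=
  posD_of_check (c := ⟨449, ⟨3, 8, 15, 11⟩⟩) (by decide +kernel)

def tC45A_c3m10 : PosD ⟨⟨0, 1, 1⟩, ⟨98, 99, 147⟩, ⟨8514, 9258, 30000⟩, ⟨1346, 1467, 1000⟩⟩ (tC45A.hC3m true false) :=
  posD_of_check (c := ⟨425, ⟨3, 7, 15, 10⟩⟩) (by decide +kernel)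

def tC45A_c3ph10 : PosD ⟨⟨0, 1, 1⟩, ⟨98, 99, 147⟩, ⟨8514, 9258, 30000⟩, ⟨1346, 1467, 1000⟩⟩ (tC45A.hC3p' true false) :=
  posD_of_check (c := ⟨449, ⟨3, 8, 15, 11⟩⟩) (by decide +kernel)

def tC45A_c3mh10 : PosD ⟨⟨0, 1, 1⟩, ⟨98, 99, 147⟩, ⟨8514, 9258, 30000⟩, ⟨1346, 1467, 1000⟩⟩ (tC45A.hC3m' true false) :=
  posD_of_check (c := ⟨425, ⟨3, 7, 15, 10⟩⟩) (by decide +kernel)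

def tC45A_up10 : PosD ⟨⟨0, 1, 1⟩, ⟨98, 99, 147⟩, ⟨8514, 9258, 30000⟩, ⟨1346, 1467, 1000⟩⟩ (tC45A.hUp true false) :=
  posD_of_check (c := ⟨449, ⟨3, 8, 15, 11⟩⟩) (by decide +kernel)

def tC45A_um10 : PosD ⟨⟨0, 1, 1⟩, ⟨98, 99, 147⟩, ⟨8514, 9258, 30000⟩, ⟨1346, 1467, 1000⟩⟩ (tC45A.hUm true false) :=
  posD_of_check (c := ⟨422, ⟨2, 7, 15, 10⟩⟩) (by decide +kernel)

def tC45A_tmg10 : PosD ⟨⟨0, 1, 1⟩, ⟨98, 99, 147⟩, ⟨8514, 9258, 30000⟩, ⟨1346, 1467, 1000⟩⟩ (tC45A.hTMG false (tC45A.pEnd true)) :=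
  posD_of_check (c := ⟨404, ⟨2, 7, 14, 10⟩⟩) (by decide +kernel)

def tC45A_tg11 : PosD ⟨⟨0, 1, 1⟩, ⟨98, 99, 147⟩, ⟨8514, 9258, 30000⟩, ⟨1346, 1467, 1000⟩⟩ (tC45A.hG true (tC45A.pEnd true)) :=
  posD_of_check (c := ⟨391, ⟨2, 7, 14, 9⟩⟩) (by decide +kernel)

def tC45A_c2p11 : PosD ⟨⟨0, 1, 1⟩, ⟨98, 99, 147⟩, ⟨8514, 9258, 30000⟩, ⟨1346, 1467, 1000⟩⟩ (tC45A.hC2p true (tC45A.pEnd true)) :=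
  posD_of_check (c := ⟨464, ⟨3, 8, 16, 11⟩⟩) (by decide +kernel)

def tC45A_c2m11 : PosD ⟨⟨0, 1, 1⟩, ⟨98, 99, 147⟩, ⟨8514, 9258, 30000⟩, ⟨1346, 1467, 1000⟩⟩ (tC45A.hC2m true (tC45A.pEnd true)) :=
  posD_of_check (c := ⟨434, ⟨2, 7, 16, 10⟩⟩) (by decide +kernel)

def tC45A_c3p11 : PosD ⟨⟨0, 1, 1⟩, ⟨98, 99, 147⟩, ⟨8514, 9258, 30000⟩, ⟨1346, 1467, 1000⟩⟩ (tC45A.hC3p true true) :=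
  posD_of_check (c := ⟨449, ⟨3, 8, 15, 11⟩⟩) (by decide +kernel)

def tC45A_c3m11 : PosD ⟨⟨0, 1, 1⟩, ⟨98, 99, 147⟩, ⟨8514, 9258, 30000⟩, ⟨1346, 1467, 1000⟩⟩ (tC45A.hC3m true true) :=
  posD_of_check (c := ⟨425, ⟨3, 7, 15, 10⟩⟩) (by decide +kernel)

def tC45A_c3ph11 : PosD ⟨⟨0, 1, 1⟩, ⟨98, 99, 147⟩, ⟨8514, 9258, 30000⟩, ⟨1346, 1467, 1000⟩⟩ (tC45A.hC3p' true true) :=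
  posD_of_check (c := ⟨449, ⟨3, 8, 15, 11⟩⟩) (by decide +kernel)

def tC45A_c3mh11 : PosD ⟨⟨0, 1, 1⟩, ⟨98, 99, 147⟩, ⟨8514, 9258, 30000⟩, ⟨1346, 1467, 1000⟩⟩ (tC45A.hC3m' true true) :=
  posD_of_check (c := ⟨425, ⟨3, 7, 15, 10⟩⟩) (by decide +kernel)

def tC45A_up11 : PosD ⟨⟨0, 1, 1⟩, ⟨98, 99, 147⟩, ⟨8514, 9258, 30000⟩, ⟨1346, 1467, 1000⟩⟩ (tC45A.hUp true true) :=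
  posD_of_check (c := ⟨449, ⟨3, 8, 15, 11⟩⟩) (by decide +kernel)

def tC45A_um11 : PosD ⟨⟨0, 1, 1⟩, ⟨98, 99, 147⟩, ⟨8514, 9258, 30000⟩, ⟨1346, 1467, 1000⟩⟩ (tC45A.hUm true true) :=
  posD_of_check (c := ⟨422, ⟨2, 7, 15, 10⟩⟩) (by decide +kernel)

def tC45A_tmg11 : PosD ⟨⟨0, 1, 1⟩, ⟨98, 99, 147⟩, ⟨8514, 9258, 30000⟩, ⟨1346, 1467, 1000⟩⟩ (tC45A.hTMG true (tC45A.pEnd true)) :=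
  posD_of_check (c := ⟨404, ⟨2, 7, 14, 10⟩⟩) (by decide +kernel)

/-- The signs of the piece. -/
def tC45A_sign : tC45A.Sign ⟨⟨0, 1, 1⟩, ⟨98, 99, 147⟩, ⟨8514, 9258, 30000⟩, ⟨1346, 1467, 1000⟩⟩ :=
  ⟨tC45A_pp,
    tC45A_k2p,
    tC45A_k2m,
    Bool.forall_bool.2 ⟨(Bool.forall_bool.2 ⟨tC45A_tg00, tC45A_tg01⟩), (Bool.forall_bool.2 ⟨tC45A_tg10, tC45A_tg11⟩)⟩,
    Bool.forall_bool.2 ⟨(Bool.forall_bool.2 ⟨tC45A_c2p00, tC45A_c2p01⟩), (Bool.forall_bool.2 ⟨tC45A_c2p10, tC45A_c2p11⟩)⟩,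
    Bool.forall_bool.2 ⟨(Bool.forall_bool.2 ⟨tC45A_c2m00, tC45A_c2m01⟩), (Bool.forall_bool.2 ⟨tC45A_c2m10, tC45A_c2m11⟩)⟩,
    Bool.forall_bool.2 ⟨tC45A_kap0, tC45A_kap1⟩,
    Bool.forall_bool.2 ⟨tC45A_c10, tC45A_c11⟩,
    Bool.forall_bool.2 ⟨(Bool.forall_bool.2 ⟨tC45A_c3p00, tC45A_c3p01⟩), (Bool.forall_bool.2 ⟨tC45A_c3p10, tC45A_c3p11⟩)⟩,
    Bool.forall_bool.2 ⟨(Bool.forall_bool.2 ⟨tC45A_c3m00, tC45A_c3m01⟩), (Bool.forall_bool.2 ⟨tC45A_c3m10, tC45A_c3m11⟩)⟩,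
    Bool.forall_bool.2 ⟨(Bool.forall_bool.2 ⟨tC45A_tmg00, tC45A_tmg01⟩), (Bool.forall_bool.2 ⟨tC45A_tmg10, tC45A_tmg11⟩)⟩,
    .inr (Bool.forall_bool.2 ⟨⟨tC45A_c1h0, Bool.forall_bool.2 ⟨⟨tC45A_c3ph00, tC45A_c3mh00, tC45A_up00, tC45A_um00⟩, ⟨tC45A_c3ph01, tC45A_c3mh01, tC45A_up01, tC45A_um01⟩⟩⟩, ⟨tC45A_c1h1, Bool.forall_bool.2 ⟨⟨tC45A_c3ph10, tC45A_c3mh10, tC45A_up10, tC45A_um10⟩, ⟨tC45A_c3ph11, tC45A_c3mh11, tC45A_up11, tC45A_um11⟩⟩⟩⟩),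
    tC45A_v2p,
    tC45A_v2m,
    tC45A_v3p,
    tC45A_v3m,
    posD_sub (b := ⟨⟨0, 1, 1⟩, ⟨98, 99, 147⟩, ⟨4050, 10000, 30000⟩, ⟨290, 4000, 1000⟩⟩) (by decide +kernel) tC_vG,
    posD_sub (b := ⟨⟨0, 1, 1⟩, ⟨98, 99, 147⟩, ⟨4050, 10000, 30000⟩, ⟨290, 4000, 1000⟩⟩) (by decide +kernel) tC_vMG,
    posD_sub (b := ⟨⟨0, 1, 1⟩, ⟨98, 99, 147⟩, ⟨4050, 10000, 30000⟩, ⟨290, 4000, 1000⟩⟩) (by decide +kernel) tC_ak,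
    posD_sub (b := ⟨⟨0, 1, 1⟩, ⟨98, 99, 147⟩, ⟨4050, 10000, 30000⟩, ⟨290, 4000, 1000⟩⟩) (by decide +kernel) tC_aw,
    posD_sub (b := ⟨⟨0, 1, 1⟩, ⟨98, 99, 147⟩, ⟨4050, 10000, 30000⟩, ⟨290, 4000, 1000⟩⟩) (by decide +kernel) tC_gk,
    posD_sub (b := ⟨⟨0, 1, 1⟩, ⟨98, 99, 147⟩, ⟨4050, 10000, 30000⟩, ⟨290, 4000, 1000⟩⟩) (by decide +kernel) tC_gw,
    posD_sub (b := ⟨⟨0, 1, 1⟩, ⟨98, 99, 147⟩, ⟨4050, 10000, 30000⟩, ⟨290, 4000, 1000⟩⟩) (by decide +kernel) tC_ek,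
    posD_sub (b := ⟨⟨0, 1, 1⟩, ⟨98, 99, 147⟩, ⟨4050, 10000, 30000⟩, ⟨290, 4000, 1000⟩⟩) (by decide +kernel) tC_ew⟩

def tC45B_pp : PosD ⟨⟨0, 1, 1⟩, ⟨98, 99, 147⟩, ⟨8514, 9258, 30000⟩, ⟨1346, 1467, 1000⟩⟩ (tC45B.xPL) :=
  posD_of_check (c := ⟨95, ⟨1, 1, 3, 3⟩⟩) (by decide +kernel)

def tC45B_k2p : PosD ⟨⟨0, 1, 1⟩, ⟨98, 99, 147⟩, ⟨8514, 9258, 30000⟩, ⟨1346, 1467, 1000⟩⟩ (tC45B.k2p tC45B.xE) :=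
  posD_of_check (c := ⟨71, ⟨1, 1, 2, 2⟩⟩) (by decide +kernel)

def tC45B_k2m : PosD ⟨⟨0, 1, 1⟩, ⟨98, 99, 147⟩, ⟨8514, 9258, 30000⟩, ⟨1346, 1467, 1000⟩⟩ (tC45B.k2m tC45B.xE) :=
  posD_of_check (c := ⟨70, ⟨1, 1, 2, 2⟩⟩) (by decide +kernel)

def tC45B_v2p : PosD ⟨⟨0, 1, 1⟩, ⟨98, 99, 147⟩, ⟨8514, 9258, 30000⟩, ⟨1346, 1467, 1000⟩⟩ (tC45B.hV2p) :=
  posD_of_check (c := ⟨273, ⟨1, 6, 10, 5⟩⟩) (by decide +kernel)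

def tC45B_v2m : PosD ⟨⟨0, 1, 1⟩, ⟨98, 99, 147⟩, ⟨8514, 9258, 30000⟩, ⟨1346, 1467, 1000⟩⟩ (tC45B.hV2m) :=
  posD_of_check (c := ⟨271, ⟨1, 6, 10, 5⟩⟩) (by decide +kernel)

def tC45B_v3p : PosD ⟨⟨0, 1, 1⟩, ⟨98, 99, 147⟩, ⟨8514, 9258, 30000⟩, ⟨1346, 1467, 1000⟩⟩ (tC45B.hV3p) :=
  posD_of_check (c := ⟨258, ⟨1, 6, 9, 5⟩⟩) (by decide +kernel)

def tC45B_v3m : PosD ⟨⟨0, 1, 1⟩, ⟨98, 99, 147⟩, ⟨8514, 9258, 30000⟩, ⟨1346, 1467, 1000⟩⟩ (tC45B.hV3m) :=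
  posD_of_check (c := ⟨256, ⟨1, 6, 9, 5⟩⟩) (by decide +kernel)

def tC45B_kap0 : PosD ⟨⟨0, 1, 1⟩, ⟨98, 99, 147⟩, ⟨8514, 9258, 30000⟩, ⟨1346, 1467, 1000⟩⟩ (tC45B.kap false) :=
  posD_of_check (c := ⟨72, ⟨1, 1, 2, 2⟩⟩) (by decide +kernel)

def tC45B_c10 : PosD ⟨⟨0, 1, 1⟩, ⟨98, 99, 147⟩, ⟨8514, 9258, 30000⟩, ⟨1346, 1467, 1000⟩⟩ (tC45B.hC1 false) :=
  posD_of_check (c := ⟨274, ⟨3, 5, 9, 7⟩⟩) (by decide +kernel)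

def tC45B_c1h0 : PosD ⟨⟨0, 1, 1⟩, ⟨98, 99, 147⟩, ⟨8514, 9258, 30000⟩, ⟨1346, 1467, 1000⟩⟩ (tC45B.hC1' false) :=
  posD_of_check (c := ⟨274, ⟨3, 5, 9, 7⟩⟩) (by decide +kernel)

def tC45B_tg00 : PosD ⟨⟨0, 1, 1⟩, ⟨98, 99, 147⟩, ⟨8514, 9258, 30000⟩, ⟨1346, 1467, 1000⟩⟩ (tC45B.hG false (tC45B.pEnd false)) :=
  posD_of_check (c := ⟨387, ⟨2, 7, 14, 9⟩⟩) (by decide +kernel)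

def tC45B_c2p00 : PosD ⟨⟨0, 1, 1⟩, ⟨98, 99, 147⟩, ⟨8514, 9258, 30000⟩, ⟨1346, 1467, 1000⟩⟩ (tC45B.hC2p false (tC45B.pEnd false)) :=
  posD_of_check (c := ⟨458, ⟨3, 8, 16, 11⟩⟩) (by decide +kernel)

def tC45B_c2m00 : PosD ⟨⟨0, 1, 1⟩, ⟨98, 99, 147⟩, ⟨8514, 9258, 30000⟩, ⟨1346, 1467, 1000⟩⟩ (tC45B.hC2m false (tC45B.pEnd false)) :=
  posD_of_check (c := ⟨457, ⟨3, 8, 16, 11⟩⟩) (by decide +kernel)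

def tC45B_c3p00 : PosD ⟨⟨0, 1, 1⟩, ⟨98, 99, 147⟩, ⟨8514, 9258, 30000⟩, ⟨1346, 1467, 1000⟩⟩ (tC45B.hC3p false false) :=
  posD_of_check (c := ⟨445, ⟨3, 8, 15, 11⟩⟩) (by decide +kernel)

def tC45B_c3m00 : PosD ⟨⟨0, 1, 1⟩, ⟨98, 99, 147⟩, ⟨8514, 9258, 30000⟩, ⟨1346, 1467, 1000⟩⟩ (tC45B.hC3m false false) :=
  posD_of_check (c := ⟨445, ⟨3, 8, 15, 11⟩⟩) (by decide +kernel)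

def tC45B_c3ph00 : PosD ⟨⟨0, 1, 1⟩, ⟨98, 99, 147⟩, ⟨8514, 9258, 30000⟩, ⟨1346, 1467, 1000⟩⟩ (tC45B.hC3p' false false) :=
  posD_of_check (c := ⟨445, ⟨3, 8, 15, 11⟩⟩) (by decide +kernel)

def tC45B_c3mh00 : PosD ⟨⟨0, 1, 1⟩, ⟨98, 99, 147⟩, ⟨8514, 9258, 30000⟩, ⟨1346, 1467, 1000⟩⟩ (tC45B.hC3m' false false) :=
  posD_of_check (c := ⟨445, ⟨3, 8, 15, 11⟩⟩) (by decide +kernel)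

def tC45B_up00 : PosD ⟨⟨0, 1, 1⟩, ⟨98, 99, 147⟩, ⟨8514, 9258, 30000⟩, ⟨1346, 1467, 1000⟩⟩ (tC45B.hUp false false) :=
  posD_of_check (c := ⟨444, ⟨3, 8, 15, 11⟩⟩) (by decide +kernel)

def tC45B_um00 : PosD ⟨⟨0, 1, 1⟩, ⟨98, 99, 147⟩, ⟨8514, 9258, 30000⟩, ⟨1346, 1467, 1000⟩⟩ (tC45B.hUm false false) :=
  posD_of_check (c := ⟨443, ⟨3, 8, 15, 11⟩⟩) (by decide +kernel)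

def tC45B_tmg00 : PosD ⟨⟨0, 1, 1⟩, ⟨98, 99, 147⟩, ⟨8514, 9258, 30000⟩, ⟨1346, 1467, 1000⟩⟩ (tC45B.hTMG false (tC45B.pEnd false)) :=
  posD_of_check (c := ⟨402, ⟨2, 7, 14, 10⟩⟩) (by decide +kernel)

def tC45B_tg01 : PosD ⟨⟨0, 1, 1⟩, ⟨98, 99, 147⟩, ⟨8514, 9258, 30000⟩, ⟨1346, 1467, 1000⟩⟩ (tC45B.hG true (tC45B.pEnd false)) :=
  posD_of_check (c := ⟨387, ⟨2, 7, 14, 9⟩⟩) (by decide +kernel)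

def tC45B_c2p01 : PosD ⟨⟨0, 1, 1⟩, ⟨98, 99, 147⟩, ⟨8514, 9258, 30000⟩, ⟨1346, 1467, 1000⟩⟩ (tC45B.hC2p true (tC45B.pEnd false)) :=
  posD_of_check (c := ⟨458, ⟨3, 8, 16, 11⟩⟩) (by decide +kernel)

def tC45B_c2m01 : PosD ⟨⟨0, 1, 1⟩, ⟨98, 99, 147⟩, ⟨8514, 9258, 30000⟩, ⟨1346, 1467, 1000⟩⟩ (tC45B.hC2m true (tC45B.pEnd false)) :=
  posD_of_check (c := ⟨457, ⟨3, 8, 16, 11⟩⟩) (by decide +kernel)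

def tC45B_c3p01 : PosD ⟨⟨0, 1, 1⟩, ⟨98, 99, 147⟩, ⟨8514, 9258, 30000⟩, ⟨1346, 1467, 1000⟩⟩ (tC45B.hC3p false true) :=
  posD_of_check (c := ⟨445, ⟨3, 8, 15, 11⟩⟩) (by decide +kernel)

def tC45B_c3m01 : PosD ⟨⟨0, 1, 1⟩, ⟨98, 99, 147⟩, ⟨8514, 9258, 30000⟩, ⟨1346, 1467, 1000⟩⟩ (tC45B.hC3m false true) :=
  posD_of_check (c := ⟨445, ⟨3, 8, 15, 11⟩⟩) (by decide +kernel)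

def tC45B_c3ph01 : PosD ⟨⟨0, 1, 1⟩, ⟨98, 99, 147⟩, ⟨8514, 9258, 30000⟩, ⟨1346, 1467, 1000⟩⟩ (tC45B.hC3p' false true) :=
  posD_of_check (c := ⟨445, ⟨3, 8, 15, 11⟩⟩) (by decide +kernel)

def tC45B_c3mh01 : PosD ⟨⟨0, 1, 1⟩, ⟨98, 99, 147⟩, ⟨8514, 9258, 30000⟩, ⟨1346, 1467, 1000⟩⟩ (tC45B.hC3m' false true) :=
  posD_of_check (c := ⟨445, ⟨3, 8, 15, 11⟩⟩) (by decide +kernel)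

def tC45B_up01 : PosD ⟨⟨0, 1, 1⟩, ⟨98, 99, 147⟩, ⟨8514, 9258, 30000⟩, ⟨1346, 1467, 1000⟩⟩ (tC45B.hUp false true) :=
  posD_of_check (c := ⟨444, ⟨3, 8, 15, 11⟩⟩) (by decide +kernel)

def tC45B_um01 : PosD ⟨⟨0, 1, 1⟩, ⟨98, 99, 147⟩, ⟨8514, 9258, 30000⟩, ⟨1346, 1467, 1000⟩⟩ (tC45B.hUm false true) :=
  posD_of_check (c := ⟨443, ⟨3, 8, 15, 11⟩⟩) (by decide +kernel)

def tC45B_tmg01 : PosD ⟨⟨0, 1, 1⟩, ⟨98, 99, 147⟩, ⟨8514, 9258, 30000⟩, ⟨1346, 1467, 1000⟩⟩ (tC45B.hTMG true (tC45B.pEnd false)) :=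
  posD_of_check (c := ⟨402, ⟨2, 7, 14, 10⟩⟩) (by decide +kernel)

def tC45B_kap1 : PosD ⟨⟨0, 1, 1⟩, ⟨98, 99, 147⟩, ⟨8514, 9258, 30000⟩, ⟨1346, 1467, 1000⟩⟩ (tC45B.kap true) :=
  posD_of_check (c := ⟨72, ⟨1, 1, 2, 2⟩⟩) (by decide +kernel)

def tC45B_c11 : PosD ⟨⟨0, 1, 1⟩, ⟨98, 99, 147⟩, ⟨8514, 9258, 30000⟩, ⟨1346, 1467, 1000⟩⟩ (tC45B.hC1 true) :=
  posD_of_check (c := ⟨274, ⟨3, 5, 9, 7⟩⟩) (by decide +kernel)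

def tC45B_c1h1 : PosD ⟨⟨0, 1, 1⟩, ⟨98, 99, 147⟩, ⟨8514, 9258, 30000⟩, ⟨1346, 1467, 1000⟩⟩ (tC45B.hC1' true) :=
  posD_of_relax (k₁ := 0) (k₂ := 0) (k₃ := 115) (n := 16) (posD_of_check (c := ⟨274, ⟨3, 5, 9, 7⟩⟩) (by decide +kernel))

def tC45B_tg10 : PosD ⟨⟨0, 1, 1⟩, ⟨98, 99, 147⟩, ⟨8514, 9258, 30000⟩, ⟨1346, 1467, 1000⟩⟩ (tC45B.hG false (tC45B.pEnd true)) :=
  posD_of_check (c := ⟨387, ⟨2, 7, 14, 9⟩⟩) (by decide +kernel)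

def tC45B_c2p10 : PosD ⟨⟨0, 1, 1⟩, ⟨98, 99, 147⟩, ⟨8514, 9258, 30000⟩, ⟨1346, 1467, 1000⟩⟩ (tC45B.hC2p false (tC45B.pEnd true)) :=
  posD_of_check (c := ⟨458, ⟨3, 8, 16, 11⟩⟩) (by decide +kernel)

def tC45B_c2m10 : PosD ⟨⟨0, 1, 1⟩, ⟨98, 99, 147⟩, ⟨8514, 9258, 30000⟩, ⟨1346, 1467, 1000⟩⟩ (tC45B.hC2m false (tC45B.pEnd true)) :=
  posD_of_check (c := ⟨457, ⟨3, 8, 16, 11⟩⟩) (by decide +kernel)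

def tC45B_c3p10 : PosD ⟨⟨0, 1, 1⟩, ⟨98, 99, 147⟩, ⟨8514, 9258, 30000⟩, ⟨1346, 1467, 1000⟩⟩ (tC45B.hC3p true false) :=
  posD_of_check (c := ⟨445, ⟨3, 8, 15, 11⟩⟩) (by decide +kernel)

def tC45B_c3m10 : PosD ⟨⟨0, 1, 1⟩, ⟨98, 99, 147⟩, ⟨8514, 9258, 30000⟩, ⟨1346, 1467, 1000⟩⟩ (tC45B.hC3m true false) :=
  posD_of_check (c := ⟨445, ⟨3, 8, 15, 11⟩⟩) (by decide +kernel)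

def tC45B_c3ph10 : PosD ⟨⟨0, 1, 1⟩, ⟨98, 99, 147⟩, ⟨8514, 9258, 30000⟩, ⟨1346, 1467, 1000⟩⟩ (tC45B.hC3p' true false) :=
  posD_of_check (c := ⟨445, ⟨3, 8, 15, 11⟩⟩) (by decide +kernel)

def tC45B_c3mh10 : PosD ⟨⟨0, 1, 1⟩, ⟨98, 99, 147⟩, ⟨8514, 9258, 30000⟩, ⟨1346, 1467, 1000⟩⟩ (tC45B.hC3m' true false) :=
  posD_of_check (c := ⟨445, ⟨3, 8, 15, 11⟩⟩) (by decide +kernel)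

def tC45B_up10 : PosD ⟨⟨0, 1, 1⟩, ⟨98, 99, 147⟩, ⟨8514, 9258, 30000⟩, ⟨1346, 1467, 1000⟩⟩ (tC45B.hUp true false) :=
  posD_of_check (c := ⟨443, ⟨3, 8, 15, 11⟩⟩) (by decide +kernel)

def tC45B_um10 : PosD ⟨⟨0, 1, 1⟩, ⟨98, 99, 147⟩, ⟨8514, 9258, 30000⟩, ⟨1346, 1467, 1000⟩⟩ (tC45B.hUm true false) :=
  posD_of_check (c := ⟨442, ⟨3, 8, 15, 11⟩⟩) (by decide +kernel)

def tC45B_tmg10 : PosD ⟨⟨0, 1, 1⟩, ⟨98, 99, 147⟩, ⟨8514, 9258, 30000⟩, ⟨1346, 1467, 1000⟩⟩ (tC45B.hTMG false (tC45B.pEnd true)) :=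
  posD_of_check (c := ⟨402, ⟨2, 7, 14, 10⟩⟩) (by decide +kernel)

def tC45B_tg11 : PosD ⟨⟨0, 1, 1⟩, ⟨98, 99, 147⟩, ⟨8514, 9258, 30000⟩, ⟨1346, 1467, 1000⟩⟩ (tC45B.hG true (tC45B.pEnd true)) :=
  posD_of_check (c := ⟨387, ⟨2, 7, 14, 9⟩⟩) (by decide +kernel)

def tC45B_c2p11 : PosD ⟨⟨0, 1, 1⟩, ⟨98, 99, 147⟩, ⟨8514, 9258, 30000⟩, ⟨1346, 1467, 1000⟩⟩ (tC45B.hC2p true (tC45B.pEnd true)) :=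
  posD_of_check (c := ⟨458, ⟨3, 8, 16, 11⟩⟩) (by decide +kernel)

def tC45B_c2m11 : PosD ⟨⟨0, 1, 1⟩, ⟨98, 99, 147⟩, ⟨8514, 9258, 30000⟩, ⟨1346, 1467, 1000⟩⟩ (tC45B.hC2m true (tC45B.pEnd true)) :=
  posD_of_check (c := ⟨457, ⟨3, 8, 16, 11⟩⟩) (by decide +kernel)

def tC45B_c3p11 : PosD ⟨⟨0, 1, 1⟩, ⟨98, 99, 147⟩, ⟨8514, 9258, 30000⟩, ⟨1346, 1467, 1000⟩⟩ (tC45B.hC3p true true) :=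
  posD_of_check (c := ⟨445, ⟨3, 8, 15, 11⟩⟩) (by decide +kernel)

def tC45B_c3m11 : PosD ⟨⟨0, 1, 1⟩, ⟨98, 99, 147⟩, ⟨8514, 9258, 30000⟩, ⟨1346, 1467, 1000⟩⟩ (tC45B.hC3m true true) :=
  posD_of_check (c := ⟨445, ⟨3, 8, 15, 11⟩⟩) (by decide +kernel)

def tC45B_c3ph11 : PosD ⟨⟨0, 1, 1⟩, ⟨98, 99, 147⟩, ⟨8514, 9258, 30000⟩, ⟨1346, 1467, 1000⟩⟩ (tC45B.hC3p' true true) :=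
  posD_of_check (c := ⟨445, ⟨3, 8, 15, 11⟩⟩) (by decide +kernel)

def tC45B_c3mh11 : PosD ⟨⟨0, 1, 1⟩, ⟨98, 99, 147⟩, ⟨8514, 9258, 30000⟩, ⟨1346, 1467, 1000⟩⟩ (tC45B.hC3m' true true) :=
  posD_of_check (c := ⟨445, ⟨3, 8, 15, 11⟩⟩) (by decide +kernel)

def tC45B_up11 : PosD ⟨⟨0, 1, 1⟩, ⟨98, 99, 147⟩, ⟨8514, 9258, 30000⟩, ⟨1346, 1467, 1000⟩⟩ (tC45B.hUp true true) :=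
  posD_of_check (c := ⟨443, ⟨3, 8, 15, 11⟩⟩) (by decide +kernel)

def tC45B_um11 : PosD ⟨⟨0, 1, 1⟩, ⟨98, 99, 147⟩, ⟨8514, 9258, 30000⟩, ⟨1346, 1467, 1000⟩⟩ (tC45B.hUm true true) :=
  posD_of_check (c := ⟨442, ⟨3, 8, 15, 11⟩⟩) (by decide +kernel)

def tC45B_tmg11 : PosD ⟨⟨0, 1, 1⟩, ⟨98, 99, 147⟩, ⟨8514, 9258, 30000⟩, ⟨1346, 1467, 1000⟩⟩ (tC45B.hTMG true (tC45B.pEnd true)) :=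
  posD_of_check (c := ⟨402, ⟨2, 7, 14, 10⟩⟩) (by decide +kernel)

/-- The signs of the piece. -/
def tC45B_sign : tC45B.Sign ⟨⟨0, 1, 1⟩, ⟨98, 99, 147⟩, ⟨8514, 9258, 30000⟩, ⟨1346, 1467, 1000⟩⟩ :=
  ⟨tC45B_pp,
    tC45B_k2p,
    tC45B_k2m,
    Bool.forall_bool.2 ⟨(Bool.forall_bool.2 ⟨tC45B_tg00, tC45B_tg01⟩), (Bool.forall_bool.2 ⟨tC45B_tg10, tC45B_tg11⟩)⟩,
    Bool.forall_bool.2 ⟨(Bool.forall_bool.2 ⟨tC45B_c2p00, tC45B_c2p01⟩), (Bool.forall_bool.2 ⟨tC45B_c2p10, tC45B_c2p11⟩)⟩,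
    Bool.forall_bool.2 ⟨(Bool.forall_bool.2 ⟨tC45B_c2m00, tC45B_c2m01⟩), (Bool.forall_bool.2 ⟨tC45B_c2m10, tC45B_c2m11⟩)⟩,
    Bool.forall_bool.2 ⟨tC45B_kap0, tC45B_kap1⟩,
    Bool.forall_bool.2 ⟨tC45B_c10, tC45B_c11⟩,
    Bool.forall_bool.2 ⟨(Bool.forall_bool.2 ⟨tC45B_c3p00, tC45B_c3p01⟩), (Bool.forall_bool.2 ⟨tC45B_c3p10, tC45B_c3p11⟩)⟩,
    Bool.forall_bool.2 ⟨(Bool.forall_bool.2 ⟨tC45B_c3m00, tC45B_c3m01⟩), (Bool.forall_bool.2 ⟨tC45B_c3m10, tC45B_c3m11⟩)⟩,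
    Bool.forall_bool.2 ⟨(Bool.forall_bool.2 ⟨tC45B_tmg00, tC45B_tmg01⟩), (Bool.forall_bool.2 ⟨tC45B_tmg10, tC45B_tmg11⟩)⟩,
    .inr (Bool.forall_bool.2 ⟨⟨tC45B_c1h0, Bool.forall_bool.2 ⟨⟨tC45B_c3ph00, tC45B_c3mh00, tC45B_up00, tC45B_um00⟩, ⟨tC45B_c3ph01, tC45B_c3mh01, tC45B_up01, tC45B_um01⟩⟩⟩, ⟨tC45B_c1h1, Bool.forall_bool.2 ⟨⟨tC45B_c3ph10, tC45B_c3mh10, tC45B_up10, tC45B_um10⟩, ⟨tC45B_c3ph11, tC45B_c3mh11, tC45B_up11, tC45B_um11⟩⟩⟩⟩),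
    tC45B_v2p,
    tC45B_v2m,
    tC45B_v3p,
    tC45B_v3m,
    posD_sub (b := ⟨⟨0, 1, 1⟩, ⟨98, 99, 147⟩, ⟨4050, 10000, 30000⟩, ⟨290, 4000, 1000⟩⟩) (by decide +kernel) tC_vG,
    posD_sub (b := ⟨⟨0, 1, 1⟩, ⟨98, 99, 147⟩, ⟨4050, 10000, 30000⟩, ⟨290, 4000, 1000⟩⟩) (by decide +kernel) tC_vMG,
    posD_sub (b := ⟨⟨0, 1, 1⟩, ⟨98, 99, 147⟩, ⟨4050, 10000, 30000⟩, ⟨290, 4000, 1000⟩⟩) (by decide +kernel) tC_ak,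
    posD_sub (b := ⟨⟨0, 1, 1⟩, ⟨98, 99, 147⟩, ⟨4050, 10000, 30000⟩, ⟨290, 4000, 1000⟩⟩) (by decide +kernel) tC_aw,
    posD_sub (b := ⟨⟨0, 1, 1⟩, ⟨98, 99, 147⟩, ⟨4050, 10000, 30000⟩, ⟨290, 4000, 1000⟩⟩) (by decide +kernel) tC_gk,
    posD_sub (b := ⟨⟨0, 1, 1⟩, ⟨98, 99, 147⟩, ⟨4050, 10000, 30000⟩, ⟨290, 4000, 1000⟩⟩) (by decide +kernel) tC_gw,
    posD_sub (b := ⟨⟨0, 1, 1⟩, ⟨98, 99, 147⟩, ⟨4050, 10000, 30000⟩, ⟨290, 4000, 1000⟩⟩) (by decide +kernel) tC_ek,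
    posD_sub (b := ⟨⟨0, 1, 1⟩, ⟨98, 99, 147⟩, ⟨4050, 10000, 30000⟩, ⟨290, 4000, 1000⟩⟩) (by decide +kernel) tC_ew⟩

end Vale.Agent.P100.Calib.Closed.Six.Tail
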