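import Vale.Agent.P100.Calib.SlabSixTailDataC
import Vale.Agent.P100.Calib.SlabSixTailGlobC

/-!
# Checks of some pieces of the certificate

The checks are written as definitions so that they run one after another, which keeps the memory of the
kernel low.
-/

set_option linter.defProp false

namespace Vale.Agent.P100.Calib.Closed.Six.Tail

open BoxPos Large

local instance sixTailCheckstC34Add : Add Ex := ⟨Ex.add⟩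
local instance sixTailCheckstC34Sub : Sub Ex := ⟨Ex.sub⟩
local instance sixTailCheckstC34Mul : Mul Ex := ⟨Ex.mul⟩

def tC47_phx : PosIf ⟨⟨0, 1, 1⟩, ⟨98, 99, 147⟩, ⟨9258, 10000, 30000⟩, ⟨1405, 1436, 1000⟩⟩ (tC47.u₁ - tC47Lo) (phCn (tC47.u₁ + xO * (tC47Lo - tC47.u₁))) :=
  posIf_of_posD (posD_of_check (c := ⟨109, ⟨2, 0, 4, 2⟩⟩) (by decide +kernel))

def tC47_phd : PosD ⟨⟨0, 1, 1⟩, ⟨98, 99, 147⟩, ⟨9258, 10000, 30000⟩, ⟨1405, 1436, 1000⟩⟩ (phCd (tC47.u₁ + xO * (tC47Lo - tC47.u₁))) :=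
  posD_of_check (c := ⟨51, ⟨1, 0, 2, 1⟩⟩) (by decide +kernel)

def tC47_p0 : PosD ⟨⟨0, 1, 1⟩, ⟨98, 99, 147⟩, ⟨9258, 10000, 30000⟩, ⟨1405, 1436, 1000⟩⟩ (tC47.hP0) :=
  posD_of_check (c := ⟨83, ⟨0, 2, 3, 1⟩⟩) (by decide +kernel)

def tC47_gn : PosD ⟨⟨0, 1, 1⟩, ⟨98, 99, 147⟩, ⟨9258, 10000, 30000⟩, ⟨1405, 1436, 1000⟩⟩ (tC47.hGn) :=
  posD_of_check (c := ⟨69, ⟨1, 1, 2, 2⟩⟩) (by decide +kernel)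

def tC47_den0 : PosD ⟨⟨0, 1, 1⟩, ⟨98, 99, 147⟩, ⟨9258, 10000, 30000⟩, ⟨1405, 1436, 1000⟩⟩ (tC47.hDen false) :=
  posD_of_check (c := ⟨51, ⟨1, 0, 2, 1⟩⟩) (by decide +kernel)

def tC47_den1 : PosD ⟨⟨0, 1, 1⟩, ⟨98, 99, 147⟩, ⟨9258, 10000, 30000⟩, ⟨1405, 1436, 1000⟩⟩ (tC47.hDen true) :=
  posD_of_check (c := ⟨180, ⟨3, 4, 6, 4⟩⟩) (by decide +kernel)

def tC47_ev0 : PosD ⟨⟨0, 1, 1⟩, ⟨98, 99, 147⟩, ⟨9258, 10000, 30000⟩, ⟨1405, 1436, 1000⟩⟩ (tC47.hEv false) :=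
  posD_of_check (c := ⟨220, ⟨4, 2, 8, 4⟩⟩) (by decide +kernel)

def tC47_zL0 : PosD ⟨⟨0, 1, 1⟩, ⟨98, 99, 147⟩, ⟨9258, 10000, 30000⟩, ⟨1405, 1436, 1000⟩⟩ (tC47.hZL false) :=
  posD_of_relax (k₁ := 0) (k₂ := 0) (k₃ := 1) (n := 16) (posD_of_check (c := ⟨222, ⟨4, 3, 8, 4⟩⟩) (by decide +kernel))

def tC47_zU0a : PosD ⟨⟨0, 1, 1⟩, ⟨98, 99, 147⟩, ⟨9258, 10000, 30000⟩, ⟨1405, 1420, 1000⟩⟩ (tC47.hZU false) :=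
  posD_of_check (c := ⟨222, ⟨4, 3, 8, 4⟩⟩) (by decide +kernel)

def tC47_zU0b : PosD ⟨⟨0, 1, 1⟩, ⟨98, 99, 147⟩, ⟨9258, 10000, 30000⟩, ⟨1420, 1436, 1000⟩⟩ (tC47.hZU false) :=
  posD_of_check (c := ⟨222, ⟨4, 3, 8, 4⟩⟩) (by decide +kernel)

def tC47_zU0 : PosD ⟨⟨0, 1, 1⟩, ⟨98, 99, 147⟩, ⟨9258, 10000, 30000⟩, ⟨1405, 1436, 1000⟩⟩ (tC47.hZU false) :=
  posD_join₃ tC47_zU0a tC47_zU0b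

def tC47_eL0 : PosD ⟨⟨0, 1, 1⟩, ⟨98, 99, 147⟩, ⟨9258, 10000, 30000⟩, ⟨1405, 1436, 1000⟩⟩ (tC47.hEL false) :=
  posD_of_check (c := ⟨317, ⟨5, 6, 11, 6⟩⟩) (by decide +kernel)

def tC47_eH0 : PosD ⟨⟨0, 1, 1⟩, ⟨98, 99, 147⟩, ⟨9258, 10000, 30000⟩, ⟨1405, 1436, 1000⟩⟩ (tC47.hEH false) :=
  posD_of_check (c := ⟨349, ⟨5, 6, 11, 7⟩⟩) (by decide +kernel)

def tC47_pL0 : PosD ⟨⟨0, 1, 1⟩, ⟨98, 99, 147⟩, ⟨9258, 10000, 30000⟩, ⟨1405, 1436, 1000⟩⟩ (tC47.hPL false) :=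
  posD_of_check (c := ⟨342, ⟨5, 6, 11, 7⟩⟩) (by decide +kernel)

def tC47_pU0 : PosD ⟨⟨0, 1, 1⟩, ⟨98, 99, 147⟩, ⟨9258, 10000, 30000⟩, ⟨1405, 1436, 1000⟩⟩ (tC47.hPU false) :=
  posD_of_check (c := ⟨341, ⟨5, 6, 11, 7⟩⟩) (by decide +kernel)

def tC47_kU0 : PosD ⟨⟨0, 1, 1⟩, ⟨98, 99, 147⟩, ⟨9258, 10000, 30000⟩, ⟨1405, 1436, 1000⟩⟩ (tC47.hKU false) :=
  posD_of_check (c := ⟨339, ⟨5, 6, 11, 7⟩⟩) (by decide +kernel)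

def tC47_kL0 : PosD ⟨⟨0, 1, 1⟩, ⟨98, 99, 147⟩, ⟨9258, 10000, 30000⟩, ⟨1405, 1436, 1000⟩⟩ (tC47.hKL false) :=
  posD_of_check (c := ⟨338, ⟨5, 6, 11, 7⟩⟩) (by decide +kernel)

def tC47_wU0 : PosD ⟨⟨0, 1, 1⟩, ⟨98, 99, 147⟩, ⟨9258, 10000, 30000⟩, ⟨1405, 1436, 1000⟩⟩ (tC47.hWU false) :=
  posD_of_check (c := ⟨371, ⟨5, 8, 12, 7⟩⟩) (by decide +kernel)

def tC47_wL0 : PosD ⟨⟨0, 1, 1⟩, ⟨98, 99, 147⟩, ⟨9258, 10000, 30000⟩, ⟨1405, 1436, 1000⟩⟩ (tC47.hWL false) :=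
  posD_of_check (c := ⟨374, ⟨5, 8, 12, 7⟩⟩) (by decide +kernel)

def tC47_ev1 : PosD ⟨⟨0, 1, 1⟩, ⟨98, 99, 147⟩, ⟨9258, 10000, 30000⟩, ⟨1405, 1436, 1000⟩⟩ (tC47.hEv true) :=
  posD_of_check (c := ⟨273, ⟨4, 6, 9, 6⟩⟩) (by decide +kernel)

def tC47_zL1a : PosD ⟨⟨0, 1, 1⟩, ⟨98, 99, 147⟩, ⟨9258, 10000, 30000⟩, ⟨1405, 1420, 1000⟩⟩ (tC47.hZL true) :=
  posD_of_check (c := ⟨299, ⟨4, 7, 10, 7⟩⟩) (by decide +kernel)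

def tC47_zL1b : PosD ⟨⟨0, 1, 1⟩, ⟨98, 99, 147⟩, ⟨9258, 10000, 30000⟩, ⟨1420, 1436, 1000⟩⟩ (tC47.hZL true) :=
  posD_of_check (c := ⟨299, ⟨4, 7, 10, 7⟩⟩) (by decide +kernel)

def tC47_zL1 : PosD ⟨⟨0, 1, 1⟩, ⟨98, 99, 147⟩, ⟨9258, 10000, 30000⟩, ⟨1405, 1436, 1000⟩⟩ (tC47.hZL true) :=
  posD_join₃ tC47_zL1a tC47_zL1b

def tC47_zU1 : PosD ⟨⟨0, 1, 1⟩, ⟨98, 99, 147⟩, ⟨9258, 10000, 30000⟩, ⟨1405, 1436, 1000⟩⟩ (tC47.hZU true) :=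
  posD_of_relax (k₁ := 0) (k₂ := 0) (k₃ := 1) (n := 16) (posD_of_check (c := ⟨299, ⟨4, 7, 10, 7⟩⟩) (by decide +kernel))

def tC47_eL1 : PosD ⟨⟨0, 1, 1⟩, ⟨98, 99, 147⟩, ⟨9258, 10000, 30000⟩, ⟨1405, 1436, 1000⟩⟩ (tC47.hEL true) :=
  posD_of_relax (k₁ := 0) (k₂ := 0) (k₃ := 1) (n := 16) (posD_of_check (c := ⟨371, ⟨5, 10, 12, 8⟩⟩) (by decide +kernel))

def tC47_eH1 : PosD ⟨⟨0, 1, 1⟩, ⟨98, 99, 147⟩, ⟨9258, 10000, 30000⟩, ⟨1405, 1436, 1000⟩⟩ (tC47.hEH true) :=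
  posD_of_check (c := ⟨402, ⟨5, 10, 12, 9⟩⟩) (by decide +kernel)

def tC47_pL1 : PosD ⟨⟨0, 1, 1⟩, ⟨98, 99, 147⟩, ⟨9258, 10000, 30000⟩, ⟨1405, 1436, 1000⟩⟩ (tC47.hPL true) :=
  posD_of_relax (k₁ := 0) (k₂ := 0) (k₃ := 1) (n := 16) (posD_of_check (c := ⟨396, ⟨5, 10, 12, 9⟩⟩) (by decide +kernel))

def tC47_pU1 : PosD ⟨⟨0, 1, 1⟩, ⟨98, 99, 147⟩, ⟨9258, 10000, 30000⟩, ⟨1405, 1436, 1000⟩⟩ (tC47.hPU true) :=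
  posD_of_check (c := ⟨395, ⟨5, 10, 12, 9⟩⟩) (by decide +kernel)

def tC47_kU1 : PosD ⟨⟨0, 1, 1⟩, ⟨98, 99, 147⟩, ⟨9258, 10000, 30000⟩, ⟨1405, 1436, 1000⟩⟩ (tC47.hKU true) :=
  posD_of_check (c := ⟨392, ⟨5, 10, 12, 9⟩⟩) (by decide +kernel)

def tC47_kL1 : PosD ⟨⟨0, 1, 1⟩, ⟨98, 99, 147⟩, ⟨9258, 10000, 30000⟩, ⟨1405, 1436, 1000⟩⟩ (tC47.hKL true) :=
  posD_of_check (c := ⟨391, ⟨5, 10, 12, 9⟩⟩) (by decide +kernel)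

def tC47_wU1 : PosD ⟨⟨0, 1, 1⟩, ⟨98, 99, 147⟩, ⟨9258, 10000, 30000⟩, ⟨1405, 1436, 1000⟩⟩ (tC47.hWU true) :=
  posD_of_check (c := ⟨425, ⟨5, 12, 13, 9⟩⟩) (by decide +kernel)

def tC47_wL1 : PosD ⟨⟨0, 1, 1⟩, ⟨98, 99, 147⟩, ⟨9258, 10000, 30000⟩, ⟨1405, 1436, 1000⟩⟩ (tC47.hWL true) :=
  posD_of_check (c := ⟨427, ⟨5, 12, 13, 9⟩⟩) (by decide +kernel)

def tC47_nueH : PosD ⟨⟨0, 1, 1⟩, ⟨98, 99, 147⟩, ⟨9258, 10000, 30000⟩, ⟨1405, 1436, 1000⟩⟩ (tC47.eH.ν) :=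
  posD_of_check (c := ⟨47, ⟨0, 0, 1, 1⟩⟩) (by decide +kernel)

/-- The bounds of the piece. -/
def tC47_env : tC47.Env ⟨⟨0, 1, 1⟩, ⟨98, 99, 147⟩, ⟨9258, 10000, 30000⟩, ⟨1405, 1436, 1000⟩⟩ :=
  ⟨tC47_p0, Bool.forall_bool.2 ⟨tC47_den0, tC47_den1⟩, tC47_gn, Bool.forall_bool.2 ⟨tC47_ev0, tC47_ev1⟩, Bool.forall_bool.2 ⟨tC47_zL0, tC47_zL1⟩, Bool.forall_bool.2 ⟨tC47_zU0, tC47_zU1⟩, Bool.forall_bool.2 ⟨tC47_eL0, tC47_eL1⟩, ⟨.inr rfl, .inr rfl⟩, Bool.forall_bool.2 ⟨tC47_eH0, tC47_eH1⟩, ⟨.inr rfl, .inl tC47_nueH⟩, Bool.forall_bool.2 ⟨tC47_pL0, tC47_pL1⟩, ⟨.inr rfl, .inr rfl⟩, Bool.forall_bool.2 ⟨tC47_pU0, tC47_pU1⟩, ⟨.inr rfl, .inr rfl⟩, Bool.forall_bool.2 ⟨tC47_kU0, tC47_kU1⟩, ⟨.inr rfl, .inr rfl⟩, Bool.forall_bool.2 ⟨tC47_kL0, tC47_kL1⟩,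 ⟨.inr rfl, .inr rfl⟩, Bool.forall_bool.2 ⟨tC47_wU0, tC47_wU1⟩, ⟨.inr rfl, .inr rfl⟩, Bool.forall_bool.2 ⟨tC47_wL0, tC47_wL1⟩, ⟨.inr rfl, .inr rfl⟩⟩

def tC47_pU20 : PosD ⟨⟨0, 1, 1⟩, ⟨98, 99, 147⟩, ⟨9258, 10000, 30000⟩, ⟨1405, 1436, 1000⟩⟩ (({ tC47 with pU := tC47PU } : Piece).hPU false) :=
  posD_of_check (c := ⟨355, ⟨5, 6, 11, 7⟩⟩) (by decide +kernel)

def tC47_pU21 : PosD ⟨⟨0, 1, 1⟩, ⟨98, 99, 147⟩, ⟨9258, 10000, 30000⟩, ⟨1405, 1436, 1000⟩⟩ (({ tC47 with pU := tC47PU } : Piece).hPU true) :=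
  posD_of_check (c := ⟨409, ⟨5, 10, 12, 9⟩⟩) (by decide +kernel)

def tC47_nupU2 : PosD ⟨⟨0, 1, 1⟩, ⟨98, 99, 147⟩, ⟨9258, 10000, 30000⟩, ⟨1405, 1436, 1000⟩⟩ (tC47PU.ν) :=
  posD_of_check (c := ⟨54, ⟨0, 0, 1, 1⟩⟩) (by decide +kernel)

/-- The bounds with the other bound of `p`. -/
def tC47_envU : ({ tC47 with pU := tC47PU } : Piece).Env ⟨⟨0, 1, 1⟩, ⟨98, 99, 147⟩, ⟨9258, 10000, 30000⟩, ⟨1405, 1436, 1000⟩⟩ :=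
  tC47_env.withU tC47PU (Bool.forall_bool.2 ⟨tC47_pU20, tC47_pU21⟩) ⟨.inr rfl, .inl tC47_nupU2⟩

def tC47A_pp : PosD ⟨⟨0, 1, 1⟩, ⟨98, 99, 147⟩, ⟨9258, 10000, 30000⟩, ⟨1405, 1436, 1000⟩⟩ (tC47A.xPL) :=
  posD_of_check (c := ⟨99, ⟨1, 1, 3, 3⟩⟩) (by decide +kernel)

def tC47A_k2p : PosD ⟨⟨0, 1, 1⟩, ⟨98, 99, 147⟩, ⟨9258, 10000, 30000⟩, ⟨1405, 1436, 1000⟩⟩ (tC47A.k2p tC47A.xE) :=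
  posD_of_check (c := ⟨75, ⟨1, 1, 2, 2⟩⟩) (by decide +kernel)

def tC47A_k2m : PosD ⟨⟨0, 1, 1⟩, ⟨98, 99, 147⟩, ⟨9258, 10000, 30000⟩, ⟨1405, 1436, 1000⟩⟩ (tC47A.k2m tC47A.xE) :=
  posD_of_check (c := ⟨31, ⟨0, 0, 1, 1⟩⟩) (by decide +kernel)

def tC47A_v2p : PosD ⟨⟨0, 1, 1⟩, ⟨98, 99, 147⟩, ⟨9258, 10000, 30000⟩, ⟨1405, 1436, 1000⟩⟩ (tC47A.hV2p) :=
  posD_of_check (c := ⟨277, ⟨1, 6, 10, 5⟩⟩) (by decide +kernel)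

def tC47A_v2m : PosD ⟨⟨0, 1, 1⟩, ⟨98, 99, 147⟩, ⟨9258, 10000, 30000⟩, ⟨1405, 1436, 1000⟩⟩ (tC47A.hV2m) :=
  posD_of_check (c := ⟨245, ⟨0, 5, 10, 4⟩⟩) (by decide +kernel)

def tC47A_v3p : PosD ⟨⟨0, 1, 1⟩, ⟨98, 99, 147⟩, ⟨9258, 10000, 30000⟩, ⟨1405, 1436, 1000⟩⟩ (tC47A.hV3p) :=
  posD_of_check (c := ⟨261, ⟨1, 6, 9, 5⟩⟩) (by decide +kernel)

def tC47A_v3m : PosD ⟨⟨0, 1, 1⟩, ⟨98, 99, 147⟩, ⟨9258, 10000, 30000⟩, ⟨1405, 1436, 1000⟩⟩ (tC47A.hV3m) :=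
  posD_of_check (c := ⟨232, ⟨0, 5, 9, 4⟩⟩) (by decide +kernel)

def tC47A_kap0 : PosD ⟨⟨0, 1, 1⟩, ⟨98, 99, 147⟩, ⟨9258, 10000, 30000⟩, ⟨1405, 1436, 1000⟩⟩ (tC47A.kap false) :=
  posD_of_check (c := ⟨74, ⟨1, 1, 2, 2⟩⟩) (by decide +kernel)

def tC47A_c10 : PosD ⟨⟨0, 1, 1⟩, ⟨98, 99, 147⟩, ⟨9258, 10000, 30000⟩, ⟨1405, 1436, 1000⟩⟩ (tC47A.hC1 false) :=
  posD_of_check (c := ⟨282, ⟨3, 5, 9, 7⟩⟩) (by decide +kernel)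

def tC47A_c1h0 : PosD ⟨⟨0, 1, 1⟩, ⟨98, 99, 147⟩, ⟨9258, 10000, 30000⟩, ⟨1405, 1436, 1000⟩⟩ (tC47A.hC1' false) :=
  posD_of_check (c := ⟨282, ⟨3, 5, 9, 7⟩⟩) (by decide +kernel)

def tC47A_tg00 : PosD ⟨⟨0, 1, 1⟩, ⟨98, 99, 147⟩, ⟨9258, 10000, 30000⟩, ⟨1405, 1436, 1000⟩⟩ (tC47A.hG false (tC47A.pEnd false)) :=
  posD_of_check (c := ⟨394, ⟨2, 7, 14, 9⟩⟩) (by decide +kernel)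

def tC47A_c2p00 : PosD ⟨⟨0, 1, 1⟩, ⟨98, 99, 147⟩, ⟨9258, 10000, 30000⟩, ⟨1405, 1436, 1000⟩⟩ (tC47A.hC2p false (tC47A.pEnd false)) :=
  posD_of_check (c := ⟨469, ⟨3, 8, 16, 11⟩⟩) (by decide +kernel)

def tC47A_c2m00 : PosD ⟨⟨0, 1, 1⟩, ⟨98, 99, 147⟩, ⟨9258, 10000, 30000⟩, ⟨1405, 1436, 1000⟩⟩ (tC47A.hC2m false (tC47A.pEnd false)) :=
  posD_of_check (c := ⟨438, ⟨2, 7, 16, 10⟩⟩) (by decide +kernel)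

def tC47A_c3p00 : PosD ⟨⟨0, 1, 1⟩, ⟨98, 99, 147⟩, ⟨9258, 10000, 30000⟩, ⟨1405, 1436, 1000⟩⟩ (tC47A.hC3p false false) :=
  posD_of_check (c := ⟨454, ⟨3, 8, 15, 11⟩⟩) (by decide +kernel)

def tC47A_c3m00 : PosD ⟨⟨0, 1, 1⟩, ⟨98, 99, 147⟩, ⟨9258, 10000, 30000⟩, ⟨1405, 1436, 1000⟩⟩ (tC47A.hC3m false false) :=
  posD_of_check (c := ⟨430, ⟨3, 7, 15, 10⟩⟩) (by decide +kernel)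

def tC47A_c3ph00 : PosD ⟨⟨0, 1, 1⟩, ⟨98, 99, 147⟩, ⟨9258, 10000, 30000⟩, ⟨1405, 1436, 1000⟩⟩ (tC47A.hC3p' false false) :=
  posD_of_relax (k₁ := 0) (k₂ := 0) (k₃ := 3) (n := 16) (posD_of_check (c := ⟨454, ⟨3, 8, 15, 11⟩⟩) (by decide +kernel))

def tC47A_c3mh00 : PosD ⟨⟨0, 1, 1⟩, ⟨98, 99, 147⟩, ⟨9258, 10000, 30000⟩, ⟨1405, 1436, 1000⟩⟩ (tC47A.hC3m' false false) :=
  posD_of_relax (k₁ := 0) (k₂ := 0) (k₃ := 2) (n := 16) (posD_of_check (c := ⟨430, ⟨3, 7, 15, 10⟩⟩) (by decide +kernel))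

def tC47A_up00 : PosD ⟨⟨0, 1, 1⟩, ⟨98, 99, 147⟩, ⟨9258, 10000, 30000⟩, ⟨1405, 1436, 1000⟩⟩ (tC47A.hUp false false) :=
  posD_of_check (c := ⟨454, ⟨3, 8, 15, 11⟩⟩) (by decide +kernel)

def tC47A_um00 : PosD ⟨⟨0, 1, 1⟩, ⟨98, 99, 147⟩, ⟨9258, 10000, 30000⟩, ⟨1405, 1436, 1000⟩⟩ (tC47A.hUm false false) :=
  posD_of_check (c := ⟨425, ⟨2, 7, 15, 10⟩⟩) (by decide +kernel)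

def tC47A_tmg00 : PosD ⟨⟨0, 1, 1⟩, ⟨98, 99, 147⟩, ⟨9258, 10000, 30000⟩, ⟨1405, 1436, 1000⟩⟩ (tC47A.hTMG false (tC47A.pEnd false)) :=
  posD_of_check (c := ⟨408, ⟨2, 7, 14, 10⟩⟩) (by decide +kernel)

def tC47A_tg01 : PosD ⟨⟨0, 1, 1⟩, ⟨98, 99, 147⟩, ⟨9258, 10000, 30000⟩, ⟨1405, 1436, 1000⟩⟩ (tC47A.hG true (tC47A.pEnd false)) :=
  posD_of_check (c := ⟨394, ⟨2, 7, 14, 9⟩⟩) (by decide +kernel)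

def tC47A_c2p01 : PosD ⟨⟨0, 1, 1⟩, ⟨98, 99, 147⟩, ⟨9258, 10000, 30000⟩, ⟨1405, 1436, 1000⟩⟩ (tC47A.hC2p true (tC47A.pEnd false)) :=
  posD_of_check (c := ⟨469, ⟨3, 8, 16, 11⟩⟩) (by decide +kernel)

def tC47A_c2m01 : PosD ⟨⟨0, 1, 1⟩, ⟨98, 99, 147⟩, ⟨9258, 10000, 30000⟩, ⟨1405, 1436, 1000⟩⟩ (tC47A.hC2m true (tC47A.pEnd false)) :=
  posD_of_check (c := ⟨438, ⟨2, 7, 16, 10⟩⟩) (by decide +kernel)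

def tC47A_c3p01 : PosD ⟨⟨0, 1, 1⟩, ⟨98, 99, 147⟩, ⟨9258, 10000, 30000⟩, ⟨1405, 1436, 1000⟩⟩ (tC47A.hC3p false true) :=
  posD_of_check (c := ⟨454, ⟨3, 8, 15, 11⟩⟩) (by decide +kernel)

def tC47A_c3m01 : PosD ⟨⟨0, 1, 1⟩, ⟨98, 99, 147⟩, ⟨9258, 10000, 30000⟩, ⟨1405, 1436, 1000⟩⟩ (tC47A.hC3m false true) :=
  posD_of_check (c := ⟨430, ⟨3, 7, 15, 10⟩⟩) (by decide +kernel)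

def tC47A_c3ph01 : PosD ⟨⟨0, 1, 1⟩, ⟨98, 99, 147⟩, ⟨9258, 10000, 30000⟩, ⟨1405, 1436, 1000⟩⟩ (tC47A.hC3p' false true) :=
  posD_of_relax (k₁ := 0) (k₂ := 0) (k₃ := 3) (n := 16) (posD_of_check (c := ⟨454, ⟨3, 8, 15, 11⟩⟩) (by decide +kernel))

def tC47A_c3mh01 : PosD ⟨⟨0, 1, 1⟩, ⟨98, 99, 147⟩, ⟨9258, 10000, 30000⟩, ⟨1405, 1436, 1000⟩⟩ (tC47A.hC3m' false true) :=
  posD_of_relax (k₁ := 0) (k₂ := 0) (k₃ := 2) (n := 16) (posD_of_check (c := ⟨430, ⟨3, 7, 15, 10⟩⟩) (by decide +kernel))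

def tC47A_up01 : PosD ⟨⟨0, 1, 1⟩, ⟨98, 99, 147⟩, ⟨9258, 10000, 30000⟩, ⟨1405, 1436, 1000⟩⟩ (tC47A.hUp false true) :=
  posD_of_check (c := ⟨454, ⟨3, 8, 15, 11⟩⟩) (by decide +kernel)

def tC47A_um01 : PosD ⟨⟨0, 1, 1⟩, ⟨98, 99, 147⟩, ⟨9258, 10000, 30000⟩, ⟨1405, 1436, 1000⟩⟩ (tC47A.hUm false true) :=
  posD_of_check (c := ⟨425, ⟨2, 7, 15, 10⟩⟩) (by decide +kernel)

def tC47A_tmg01 : PosD ⟨⟨0, 1, 1⟩, ⟨98, 99, 147⟩, ⟨9258, 10000, 30000⟩, ⟨1405, 1436, 1000⟩⟩ (tC47A.hTMG true (tC47A.pEnd false)) :=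
  posD_of_check (c := ⟨408, ⟨2, 7, 14, 10⟩⟩) (by decide +kernel)

def tC47A_kap1 : PosD ⟨⟨0, 1, 1⟩, ⟨98, 99, 147⟩, ⟨9258, 10000, 30000⟩, ⟨1405, 1436, 1000⟩⟩ (tC47A.kap true) :=
  posD_of_check (c := ⟨74, ⟨1, 1, 2, 2⟩⟩) (by decide +kernel)

def tC47A_c11 : PosD ⟨⟨0, 1, 1⟩, ⟨98, 99, 147⟩, ⟨9258, 10000, 30000⟩, ⟨1405, 1436, 1000⟩⟩ (tC47A.hC1 true) :=
  posD_of_check (c := ⟨282, ⟨3, 5, 9, 7⟩⟩) (by decide +kernel)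

def tC47A_c1h1 : PosD ⟨⟨0, 1, 1⟩, ⟨98, 99, 147⟩, ⟨9258, 10000, 30000⟩, ⟨1405, 1436, 1000⟩⟩ (tC47A.hC1' true) :=
  posD_of_check (c := ⟨282, ⟨3, 5, 9, 7⟩⟩) (by decide +kernel)

def tC47A_tg10 : PosD ⟨⟨0, 1, 1⟩, ⟨98, 99, 147⟩, ⟨9258, 10000, 30000⟩, ⟨1405, 1436, 1000⟩⟩ (tC47A.hG false (tC47A.pEnd true)) :=
  posD_of_check (c := ⟨394, ⟨2, 7, 14, 9⟩⟩) (by decide +kernel)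

def tC47A_c2p10 : PosD ⟨⟨0, 1, 1⟩, ⟨98, 99, 147⟩, ⟨9258, 10000, 30000⟩, ⟨1405, 1436, 1000⟩⟩ (tC47A.hC2p false (tC47A.pEnd true)) :=
  posD_of_check (c := ⟨469, ⟨3, 8, 16, 11⟩⟩) (by decide +kernel)

def tC47A_c2m10 : PosD ⟨⟨0, 1, 1⟩, ⟨98, 99, 147⟩, ⟨9258, 10000, 30000⟩, ⟨1405, 1436, 1000⟩⟩ (tC47A.hC2m false (tC47A.pEnd true)) :=
  posD_of_check (c := ⟨438, ⟨2, 7, 16, 10⟩⟩) (by decide +kernel)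

def tC47A_c3p10 : PosD ⟨⟨0, 1, 1⟩, ⟨98, 99, 147⟩, ⟨9258, 10000, 30000⟩, ⟨1405, 1436, 1000⟩⟩ (tC47A.hC3p true false) :=
  posD_of_check (c := ⟨454, ⟨3, 8, 15, 11⟩⟩) (by decide +kernel)

def tC47A_c3m10 : PosD ⟨⟨0, 1, 1⟩, ⟨98, 99, 147⟩, ⟨9258, 10000, 30000⟩, ⟨1405, 1436, 1000⟩⟩ (tC47A.hC3m true false) :=
  posD_of_check (c := ⟨430, ⟨3, 7, 15, 10⟩⟩) (by decide +kernel)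

def tC47A_c3ph10 : PosD ⟨⟨0, 1, 1⟩, ⟨98, 99, 147⟩, ⟨9258, 10000, 30000⟩, ⟨1405, 1436, 1000⟩⟩ (tC47A.hC3p' true false) :=
  posD_of_relax (k₁ := 0) (k₂ := 0) (k₃ := 2) (n := 16) (posD_of_check (c := ⟨454, ⟨3, 8, 15, 11⟩⟩) (by decide +kernel))

def tC47A_c3mh10 : PosD ⟨⟨0, 1, 1⟩, ⟨98, 99, 147⟩, ⟨9258, 10000, 30000⟩, ⟨1405, 1436, 1000⟩⟩ (tC47A.hC3m' true false) :=
  posD_of_relax (k₁ := 0) (k₂ := 0) (k₃ := 3) (n := 16) (posD_of_check (c := ⟨430, ⟨3, 7, 15, 10⟩⟩) (by decide +kernel))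

def tC47A_up10 : PosD ⟨⟨0, 1, 1⟩, ⟨98, 99, 147⟩, ⟨9258, 10000, 30000⟩, ⟨1405, 1436, 1000⟩⟩ (tC47A.hUp true false) :=
  posD_of_check (c := ⟨454, ⟨3, 8, 15, 11⟩⟩) (by decide +kernel)

def tC47A_um10 : PosD ⟨⟨0, 1, 1⟩, ⟨98, 99, 147⟩, ⟨9258, 10000, 30000⟩, ⟨1405, 1436, 1000⟩⟩ (tC47A.hUm true false) :=
  posD_of_check (c := ⟨425, ⟨2, 7, 15, 10⟩⟩) (by decide +kernel)

def tC47A_tmg10 : PosD ⟨⟨0, 1, 1⟩, ⟨98, 99, 147⟩, ⟨9258, 10000, 30000⟩, ⟨1405, 1436, 1000⟩⟩ (tC47A.hTMG false (tC47A.pEnd true)) :=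
  posD_of_check (c := ⟨408, ⟨2, 7, 14, 10⟩⟩) (by decide +kernel)

def tC47A_tg11 : PosD ⟨⟨0, 1, 1⟩, ⟨98, 99, 147⟩, ⟨9258, 10000, 30000⟩, ⟨1405, 1436, 1000⟩⟩ (tC47A.hG true (tC47A.pEnd true)) :=
  posD_of_check (c := ⟨394, ⟨2, 7, 14, 9⟩⟩) (by decide +kernel)

def tC47A_c2p11 : PosD ⟨⟨0, 1, 1⟩, ⟨98, 99, 147⟩, ⟨9258, 10000, 30000⟩, ⟨1405, 1436, 1000⟩⟩ (tC47A.hC2p true (tC47A.pEnd true)) :=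
  posD_of_check (c := ⟨469, ⟨3, 8, 16, 11⟩⟩) (by decide +kernel)

def tC47A_c2m11 : PosD ⟨⟨0, 1, 1⟩, ⟨98, 99, 147⟩, ⟨9258, 10000, 30000⟩, ⟨1405, 1436, 1000⟩⟩ (tC47A.hC2m true (tC47A.pEnd true)) :=
  posD_of_check (c := ⟨438, ⟨2, 7, 16, 10⟩⟩) (by decide +kernel)

def tC47A_c3p11 : PosD ⟨⟨0, 1, 1⟩, ⟨98, 99, 147⟩, ⟨9258, 10000, 30000⟩, ⟨1405, 1436, 1000⟩⟩ (tC47A.hC3p true true) :=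
  posD_of_check (c := ⟨454, ⟨3, 8, 15, 11⟩⟩) (by decide +kernel)

def tC47A_c3m11 : PosD ⟨⟨0, 1, 1⟩, ⟨98, 99, 147⟩, ⟨9258, 10000, 30000⟩, ⟨1405, 1436, 1000⟩⟩ (tC47A.hC3m true true) :=
  posD_of_check (c := ⟨430, ⟨3, 7, 15, 10⟩⟩) (by decide +kernel)

def tC47A_c3ph11 : PosD ⟨⟨0, 1, 1⟩, ⟨98, 99, 147⟩, ⟨9258, 10000, 30000⟩, ⟨1405, 1436, 1000⟩⟩ (tC47A.hC3p' true true) :=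
  posD_of_relax (k₁ := 0) (k₂ := 0) (k₃ := 2) (n := 16) (posD_of_check (c := ⟨454, ⟨3, 8, 15, 11⟩⟩) (by decide +kernel))

def tC47A_c3mh11 : PosD ⟨⟨0, 1, 1⟩, ⟨98, 99, 147⟩, ⟨9258, 10000, 30000⟩, ⟨1405, 1436, 1000⟩⟩ (tC47A.hC3m' true true) :=
  posD_of_relax (k₁ := 0) (k₂ := 0) (k₃ := 3) (n := 16) (posD_of_check (c := ⟨430, ⟨3, 7, 15, 10⟩⟩) (by decide +kernel))

def tC47A_up11 : PosD ⟨⟨0, 1, 1⟩, ⟨98, 99, 147⟩, ⟨9258, 10000, 30000⟩, ⟨1405, 1436, 1000⟩⟩ (tC47A.hUp true true) :=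
  posD_of_check (c := ⟨454, ⟨3, 8, 15, 11⟩⟩) (by decide +kernel)

def tC47A_um11 : PosD ⟨⟨0, 1, 1⟩, ⟨98, 99, 147⟩, ⟨9258, 10000, 30000⟩, ⟨1405, 1436, 1000⟩⟩ (tC47A.hUm true true) :=
  posD_of_check (c := ⟨425, ⟨2, 7, 15, 10⟩⟩) (by decide +kernel)

def tC47A_tmg11 : PosD ⟨⟨0, 1, 1⟩, ⟨98, 99, 147⟩, ⟨9258, 10000, 30000⟩, ⟨1405, 1436, 1000⟩⟩ (tC47A.hTMG true (tC47A.pEnd true)) :=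
  posD_of_check (c := ⟨408, ⟨2, 7, 14, 10⟩⟩) (by decide +kernel)

/-- The signs of the piece. -/
def tC47A_sign : tC47A.Sign ⟨⟨0, 1, 1⟩, ⟨98, 99, 147⟩, ⟨9258, 10000, 30000⟩, ⟨1405, 1436, 1000⟩⟩ :=
  ⟨tC47A_pp,
    tC47A_k2p,
    tC47A_k2m,
    Bool.forall_bool.2 ⟨(Bool.forall_bool.2 ⟨tC47A_tg00, tC47A_tg01⟩), (Bool.forall_bool.2 ⟨tC47A_tg10, tC47A_tg11⟩)⟩,
    Bool.forall_bool.2 ⟨(Bool.forall_bool.2 ⟨tC47A_c2p00, tC47A_c2p01⟩), (Bool.forall_bool.2 ⟨tC47A_c2p10, tC47A_c2p11⟩)⟩,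
    Bool.forall_bool.2 ⟨(Bool.forall_bool.2 ⟨tC47A_c2m00, tC47A_c2m01⟩), (Bool.forall_bool.2 ⟨tC47A_c2m10, tC47A_c2m11⟩)⟩,
    Bool.forall_bool.2 ⟨tC47A_kap0, tC47A_kap1⟩,
    Bool.forall_bool.2 ⟨tC47A_c10, tC47A_c11⟩,
    Bool.forall_bool.2 ⟨(Bool.forall_bool.2 ⟨tC47A_c3p00, tC47A_c3p01⟩), (Bool.forall_bool.2 ⟨tC47A_c3p10, tC47A_c3p11⟩)⟩,
    Bool.forall_bool.2 ⟨(Bool.forall_bool.2 ⟨tC47A_c3m00, tC47A_c3m01⟩), (Bool.forall_bool.2 ⟨tC47A_c3m10, tC47A_c3m11⟩)⟩,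
    Bool.forall_bool.2 ⟨(Bool.forall_bool.2 ⟨tC47A_tmg00, tC47A_tmg01⟩), (Bool.forall_bool.2 ⟨tC47A_tmg10, tC47A_tmg11⟩)⟩,
    .inr (Bool.forall_bool.2 ⟨⟨tC47A_c1h0, Bool.forall_bool.2 ⟨⟨tC47A_c3ph00, tC47A_c3mh00, tC47A_up00, tC47A_um00⟩, ⟨tC47A_c3ph01, tC47A_c3mh01, tC47A_up01, tC47A_um01⟩⟩⟩, ⟨tC47A_c1h1, Bool.forall_bool.2 ⟨⟨tC47A_c3ph10, tC47A_c3mh10, tC47A_up10, tC47A_um10⟩, ⟨tC47A_c3ph11, tC47A_c3mh11, tC47A_up11, tC47A_um11⟩⟩⟩⟩),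
    tC47A_v2p,
    tC47A_v2m,
    tC47A_v3p,
    tC47A_v3m,
    posD_sub (b := ⟨⟨0, 1, 1⟩, ⟨98, 99, 147⟩, ⟨4050, 10000, 30000⟩, ⟨290, 4000, 1000⟩⟩) (by decide +kernel) tC_vG,
    posD_sub (b := ⟨⟨0, 1, 1⟩, ⟨98, 99, 147⟩, ⟨4050, 10000, 30000⟩, ⟨290, 4000, 1000⟩⟩) (by decide +kernel) tC_vMG,
    posD_sub (b := ⟨⟨0, 1, 1⟩, ⟨98, 99, 147⟩, ⟨4050, 10000, 30000⟩, ⟨290, 4000, 1000⟩⟩) (by decide +kernel) tC_ak,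
    posD_sub (b := ⟨⟨0, 1, 1⟩, ⟨98, 99, 147⟩, ⟨4050, 10000, 30000⟩, ⟨290, 4000, 1000⟩⟩) (by decide +kernel) tC_aw,
    posD_sub (b := ⟨⟨0, 1, 1⟩, ⟨98, 99, 147⟩, ⟨4050, 10000, 30000⟩, ⟨290, 4000, 1000⟩⟩) (by decide +kernel) tC_gk,
    posD_sub (b := ⟨⟨0, 1, 1⟩, ⟨98, 99, 147⟩, ⟨4050, 10000, 30000⟩, ⟨290, 4000, 1000⟩⟩) (by decide +kernel) tC_gw,
    posD_sub (b := ⟨⟨0, 1, 1⟩, ⟨98, 99, 147⟩, ⟨4050, 10000, 30000⟩, ⟨290, 4000, 1000⟩⟩) (by decide +kernel) tC_ek,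
    posD_sub (b := ⟨⟨0, 1, 1⟩, ⟨98, 99, 147⟩, ⟨4050, 10000, 30000⟩, ⟨290, 4000, 1000⟩⟩) (by decide +kernel) tC_ew⟩

def tC47B_pp : PosD ⟨⟨0, 1, 1⟩, ⟨98, 99, 147⟩, ⟨9258, 10000, 30000⟩, ⟨1405, 1436, 1000⟩⟩ (tC47B.xPL) :=
  posD_of_check (c := ⟨97, ⟨1, 1, 3, 3⟩⟩) (by decide +kernel)

def tC47B_k2p : PosD ⟨⟨0, 1, 1⟩, ⟨98, 99, 147⟩, ⟨9258, 10000, 30000⟩, ⟨1405, 1436, 1000⟩⟩ (tC47B.k2p tC47B.xE) :=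
  posD_of_check (c := ⟨70, ⟨1, 1, 2, 2⟩⟩) (by decide +kernel)

def tC47B_k2m : PosD ⟨⟨0, 1, 1⟩, ⟨98, 99, 147⟩, ⟨9258, 10000, 30000⟩, ⟨1405, 1436, 1000⟩⟩ (tC47B.k2m tC47B.xE) :=
  posD_of_check (c := ⟨31, ⟨0, 0, 1, 1⟩⟩) (by decide +kernel)

def tC47B_v2p : PosD ⟨⟨0, 1, 1⟩, ⟨98, 99, 147⟩, ⟨9258, 10000, 30000⟩, ⟨1405, 1436, 1000⟩⟩ (tC47B.hV2p) :=
  posD_of_check (c := ⟨272, ⟨1, 6, 10, 5⟩⟩) (by decide +kernel)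

def tC47B_v2m : PosD ⟨⟨0, 1, 1⟩, ⟨98, 99, 147⟩, ⟨9258, 10000, 30000⟩, ⟨1405, 1436, 1000⟩⟩ (tC47B.hV2m) :=
  posD_of_check (c := ⟨245, ⟨0, 5, 10, 4⟩⟩) (by decide +kernel)

def tC47B_v3p : PosD ⟨⟨0, 1, 1⟩, ⟨98, 99, 147⟩, ⟨9258, 10000, 30000⟩, ⟨1405, 1436, 1000⟩⟩ (tC47B.hV3p) :=
  posD_of_check (c := ⟨257, ⟨1, 6, 9, 5⟩⟩) (by decide +kernel)

def tC47B_v3m : PosD ⟨⟨0, 1, 1⟩, ⟨98, 99, 147⟩, ⟨9258, 10000, 30000⟩, ⟨1405, 1436, 1000⟩⟩ (tC47B.hV3m) :=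
  posD_of_check (c := ⟨232, ⟨0, 5, 9, 4⟩⟩) (by decide +kernel)

def tC47B_kap0 : PosD ⟨⟨0, 1, 1⟩, ⟨98, 99, 147⟩, ⟨9258, 10000, 30000⟩, ⟨1405, 1436, 1000⟩⟩ (tC47B.kap false) :=
  posD_of_check (c := ⟨72, ⟨1, 1, 2, 2⟩⟩) (by decide +kernel)

def tC47B_c10 : PosD ⟨⟨0, 1, 1⟩, ⟨98, 99, 147⟩, ⟨9258, 10000, 30000⟩, ⟨1405, 1436, 1000⟩⟩ (tC47B.hC1 false) :=
  posD_of_check (c := ⟨276, ⟨3, 5, 9, 7⟩⟩) (by decide +kernel)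

def tC47B_c1h0 : PosD ⟨⟨0, 1, 1⟩, ⟨98, 99, 147⟩, ⟨9258, 10000, 30000⟩, ⟨1405, 1436, 1000⟩⟩ (tC47B.hC1' false) :=
  posD_of_check (c := ⟨276, ⟨3, 5, 9, 7⟩⟩) (by decide +kernel)

def tC47B_tg00 : PosD ⟨⟨0, 1, 1⟩, ⟨98, 99, 147⟩, ⟨9258, 10000, 30000⟩, ⟨1405, 1436, 1000⟩⟩ (tC47B.hG false (tC47B.pEnd false)) :=
  posD_of_check (c := ⟨391, ⟨2, 7, 14, 9⟩⟩) (by decide +kernel)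

def tC47B_c2p00 : PosD ⟨⟨0, 1, 1⟩, ⟨98, 99, 147⟩, ⟨9258, 10000, 30000⟩, ⟨1405, 1436, 1000⟩⟩ (tC47B.hC2p false (tC47B.pEnd false)) :=
  posD_of_check (c := ⟨461, ⟨3, 8, 16, 11⟩⟩) (by decide +kernel)

def tC47B_c2m00 : PosD ⟨⟨0, 1, 1⟩, ⟨98, 99, 147⟩, ⟨9258, 10000, 30000⟩, ⟨1405, 1436, 1000⟩⟩ (tC47B.hC2m false (tC47B.pEnd false)) :=
  posD_of_check (c := ⟨435, ⟨2, 7, 16, 10⟩⟩) (by decide +kernel)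

def tC47B_c3p00 : PosD ⟨⟨0, 1, 1⟩, ⟨98, 99, 147⟩, ⟨9258, 10000, 30000⟩, ⟨1405, 1436, 1000⟩⟩ (tC47B.hC3p false false) :=
  posD_of_check (c := ⟨448, ⟨3, 8, 15, 11⟩⟩) (by decide +kernel)

def tC47B_c3m00 : PosD ⟨⟨0, 1, 1⟩, ⟨98, 99, 147⟩, ⟨9258, 10000, 30000⟩, ⟨1405, 1436, 1000⟩⟩ (tC47B.hC3m false false) :=
  posD_of_check (c := ⟨424, ⟨3, 7, 15, 10⟩⟩) (by decide +kernel)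

def tC47B_c3ph00 : PosD ⟨⟨0, 1, 1⟩, ⟨98, 99, 147⟩, ⟨9258, 10000, 30000⟩, ⟨1405, 1436, 1000⟩⟩ (tC47B.hC3p' false false) :=
  posD_of_relax (k₁ := 0) (k₂ := 0) (k₃ := 3) (n := 16) (posD_of_check (c := ⟨448, ⟨3, 8, 15, 11⟩⟩) (by decide +kernel))

def tC47B_c3mh00 : PosD ⟨⟨0, 1, 1⟩, ⟨98, 99, 147⟩, ⟨9258, 10000, 30000⟩, ⟨1405, 1436, 1000⟩⟩ (tC47B.hC3m' false false) :=
  posD_of_relax (k₁ := 0) (k₂ := 0) (k₃ := 2) (n := 16) (posD_of_check (c := ⟨424, ⟨3, 7, 15, 10⟩⟩) (by decide +kernel))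

def tC47B_up00 : PosD ⟨⟨0, 1, 1⟩, ⟨98, 99, 147⟩, ⟨9258, 10000, 30000⟩, ⟨1405, 1436, 1000⟩⟩ (tC47B.hUp false false) :=
  posD_of_check (c := ⟨447, ⟨3, 8, 15, 11⟩⟩) (by decide +kernel)

def tC47B_um00 : PosD ⟨⟨0, 1, 1⟩, ⟨98, 99, 147⟩, ⟨9258, 10000, 30000⟩, ⟨1405, 1436, 1000⟩⟩ (tC47B.hUm false false) :=
  posD_of_check (c := ⟨422, ⟨2, 7, 15, 10⟩⟩) (by decide +kernel)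

def tC47B_tmg00 : PosD ⟨⟨0, 1, 1⟩, ⟨98, 99, 147⟩, ⟨9258, 10000, 30000⟩, ⟨1405, 1436, 1000⟩⟩ (tC47B.hTMG false (tC47B.pEnd false)) :=
  posD_of_check (c := ⟨405, ⟨2, 7, 14, 10⟩⟩) (by decide +kernel)

def tC47B_tg01 : PosD ⟨⟨0, 1, 1⟩, ⟨98, 99, 147⟩, ⟨9258, 10000, 30000⟩, ⟨1405, 1436, 1000⟩⟩ (tC47B.hG true (tC47B.pEnd false)) :=
  posD_of_check (c := ⟨391, ⟨2, 7, 14, 9⟩⟩) (by decide +kernel)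

def tC47B_c2p01 : PosD ⟨⟨0, 1, 1⟩, ⟨98, 99, 147⟩, ⟨9258, 10000, 30000⟩, ⟨1405, 1436, 1000⟩⟩ (tC47B.hC2p true (tC47B.pEnd false)) :=
  posD_of_check (c := ⟨462, ⟨3, 8, 16, 11⟩⟩) (by decide +kernel)

def tC47B_c2m01 : PosD ⟨⟨0, 1, 1⟩, ⟨98, 99, 147⟩, ⟨9258, 10000, 30000⟩, ⟨1405, 1436, 1000⟩⟩ (tC47B.hC2m true (tC47B.pEnd false)) :=
  posD_of_check (c := ⟨435, ⟨2, 7, 16, 10⟩⟩) (by decide +kernel)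

def tC47B_c3p01 : PosD ⟨⟨0, 1, 1⟩, ⟨98, 99, 147⟩, ⟨9258, 10000, 30000⟩, ⟨1405, 1436, 1000⟩⟩ (tC47B.hC3p false true) :=
  posD_of_check (c := ⟨448, ⟨3, 8, 15, 11⟩⟩) (by decide +kernel)

def tC47B_c3m01 : PosD ⟨⟨0, 1, 1⟩, ⟨98, 99, 147⟩, ⟨9258, 10000, 30000⟩, ⟨1405, 1436, 1000⟩⟩ (tC47B.hC3m false true) :=
  posD_of_check (c := ⟨424, ⟨3, 7, 15, 10⟩⟩) (by decide +kernel)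

def tC47B_c3ph01 : PosD ⟨⟨0, 1, 1⟩, ⟨98, 99, 147⟩, ⟨9258, 10000, 30000⟩, ⟨1405, 1436, 1000⟩⟩ (tC47B.hC3p' false true) :=
  posD_of_relax (k₁ := 0) (k₂ := 0) (k₃ := 3) (n := 16) (posD_of_check (c := ⟨448, ⟨3, 8, 15, 11⟩⟩) (by decide +kernel))

def tC47B_c3mh01 : PosD ⟨⟨0, 1, 1⟩, ⟨98, 99, 147⟩, ⟨9258, 10000, 30000⟩, ⟨1405, 1436, 1000⟩⟩ (tC47B.hC3m' false true) :=
  posD_of_relax (k₁ := 0) (k₂ := 0) (k₃ := 2) (n := 16) (posD_of_check (c := ⟨424, ⟨3, 7, 15, 10⟩⟩) (by decide +kernel))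

def tC47B_up01 : PosD ⟨⟨0, 1, 1⟩, ⟨98, 99, 147⟩, ⟨9258, 10000, 30000⟩, ⟨1405, 1436, 1000⟩⟩ (tC47B.hUp false true) :=
  posD_of_check (c := ⟨447, ⟨3, 8, 15, 11⟩⟩) (by decide +kernel)

def tC47B_um01 : PosD ⟨⟨0, 1, 1⟩, ⟨98, 99, 147⟩, ⟨9258, 10000, 30000⟩, ⟨1405, 1436, 1000⟩⟩ (tC47B.hUm false true) :=
  posD_of_check (c := ⟨422, ⟨2, 7, 15, 10⟩⟩) (by decide +kernel)

def tC47B_tmg01 : PosD ⟨⟨0, 1, 1⟩, ⟨98, 99, 147⟩, ⟨9258, 10000, 30000⟩, ⟨1405, 1436, 1000⟩⟩ (tC47B.hTMG true (tC47B.pEnd false)) :=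
  posD_of_check (c := ⟨405, ⟨2, 7, 14, 10⟩⟩) (by decide +kernel)

def tC47B_kap1 : PosD ⟨⟨0, 1, 1⟩, ⟨98, 99, 147⟩, ⟨9258, 10000, 30000⟩, ⟨1405, 1436, 1000⟩⟩ (tC47B.kap true) :=
  posD_of_check (c := ⟨71, ⟨1, 1, 2, 2⟩⟩) (by decide +kernel)

def tC47B_c11 : PosD ⟨⟨0, 1, 1⟩, ⟨98, 99, 147⟩, ⟨9258, 10000, 30000⟩, ⟨1405, 1436, 1000⟩⟩ (tC47B.hC1 true) :=
  posD_of_check (c := ⟨273, ⟨3, 5, 9, 7⟩⟩) (by decide +kernel)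

def tC47B_c1h1 : PosD ⟨⟨0, 1, 1⟩, ⟨98, 99, 147⟩, ⟨9258, 10000, 30000⟩, ⟨1405, 1436, 1000⟩⟩ (tC47B.hC1' true) :=
  posD_of_check (c := ⟨273, ⟨3, 5, 9, 7⟩⟩) (by decide +kernel)

def tC47B_tg10 : PosD ⟨⟨0, 1, 1⟩, ⟨98, 99, 147⟩, ⟨9258, 10000, 30000⟩, ⟨1405, 1436, 1000⟩⟩ (tC47B.hG false (tC47B.pEnd true)) :=
  posD_of_check (c := ⟨388, ⟨2, 7, 14, 9⟩⟩) (by decide +kernel)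

def tC47B_c2p10 : PosD ⟨⟨0, 1, 1⟩, ⟨98, 99, 147⟩, ⟨9258, 10000, 30000⟩, ⟨1405, 1436, 1000⟩⟩ (tC47B.hC2p false (tC47B.pEnd true)) :=
  posD_of_check (c := ⟨458, ⟨3, 8, 16, 11⟩⟩) (by decide +kernel)

def tC47B_c2m10 : PosD ⟨⟨0, 1, 1⟩, ⟨98, 99, 147⟩, ⟨9258, 10000, 30000⟩, ⟨1405, 1436, 1000⟩⟩ (tC47B.hC2m false (tC47B.pEnd true)) :=
  posD_of_check (c := ⟨431, ⟨2, 7, 16, 10⟩⟩) (by decide +kernel)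

def tC47B_c3p10 : PosD ⟨⟨0, 1, 1⟩, ⟨98, 99, 147⟩, ⟨9258, 10000, 30000⟩, ⟨1405, 1436, 1000⟩⟩ (tC47B.hC3p true false) :=
  posD_of_check (c := ⟨445, ⟨3, 8, 15, 11⟩⟩) (by decide +kernel)

def tC47B_c3m10 : PosD ⟨⟨0, 1, 1⟩, ⟨98, 99, 147⟩, ⟨9258, 10000, 30000⟩, ⟨1405, 1436, 1000⟩⟩ (tC47B.hC3m true false) :=
  posD_of_check (c := ⟨422, ⟨3, 7, 15, 10⟩⟩) (by decide +kernel)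

def tC47B_c3ph10 : PosD ⟨⟨0, 1, 1⟩, ⟨98, 99, 147⟩, ⟨9258, 10000, 30000⟩, ⟨1405, 1436, 1000⟩⟩ (tC47B.hC3p' true false) :=
  posD_of_relax (k₁ := 0) (k₂ := 0) (k₃ := 1) (n := 16) (posD_of_check (c := ⟨445, ⟨3, 8, 15, 11⟩⟩) (by decide +kernel))

def tC47B_c3mh10 : PosD ⟨⟨0, 1, 1⟩, ⟨98, 99, 147⟩, ⟨9258, 10000, 30000⟩, ⟨1405, 1436, 1000⟩⟩ (tC47B.hC3m' true false) :=
  posD_of_relax (k₁ := 0) (k₂ := 0) (k₃ := 1) (n := 16) (posD_of_check (c := ⟨421, ⟨3, 7, 15, 10⟩⟩) (by decide +kernel))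

def tC47B_up10 : PosD ⟨⟨0, 1, 1⟩, ⟨98, 99, 147⟩, ⟨9258, 10000, 30000⟩, ⟨1405, 1436, 1000⟩⟩ (tC47B.hUp true false) :=
  posD_of_check (c := ⟨444, ⟨3, 8, 15, 11⟩⟩) (by decide +kernel)

def tC47B_um10 : PosD ⟨⟨0, 1, 1⟩, ⟨98, 99, 147⟩, ⟨9258, 10000, 30000⟩, ⟨1405, 1436, 1000⟩⟩ (tC47B.hUm true false) :=
  posD_of_check (c := ⟨419, ⟨2, 7, 15, 10⟩⟩) (by decide +kernel)

def tC47B_tmg10 : PosD ⟨⟨0, 1, 1⟩, ⟨98, 99, 147⟩, ⟨9258, 10000, 30000⟩, ⟨1405, 1436, 1000⟩⟩ (tC47B.hTMG false (tC47B.pEnd true)) :=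
  posD_of_check (c := ⟨403, ⟨2, 7, 14, 10⟩⟩) (by decide +kernel)

def tC47B_tg11 : PosD ⟨⟨0, 1, 1⟩, ⟨98, 99, 147⟩, ⟨9258, 10000, 30000⟩, ⟨1405, 1436, 1000⟩⟩ (tC47B.hG true (tC47B.pEnd true)) :=
  posD_of_check (c := ⟨388, ⟨2, 7, 14, 9⟩⟩) (by decide +kernel)

def tC47B_c2p11 : PosD ⟨⟨0, 1, 1⟩, ⟨98, 99, 147⟩, ⟨9258, 10000, 30000⟩, ⟨1405, 1436, 1000⟩⟩ (tC47B.hC2p true (tC47B.pEnd true)) :=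
  posD_of_check (c := ⟨458, ⟨3, 8, 16, 11⟩⟩) (by decide +kernel)

def tC47B_c2m11 : PosD ⟨⟨0, 1, 1⟩, ⟨98, 99, 147⟩, ⟨9258, 10000, 30000⟩, ⟨1405, 1436, 1000⟩⟩ (tC47B.hC2m true (tC47B.pEnd true)) :=
  posD_of_check (c := ⟨432, ⟨2, 7, 16, 10⟩⟩) (by decide +kernel)

def tC47B_c3p11 : PosD ⟨⟨0, 1, 1⟩, ⟨98, 99, 147⟩, ⟨9258, 10000, 30000⟩, ⟨1405, 1436, 1000⟩⟩ (tC47B.hC3p true true) :=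
  posD_of_check (c := ⟨445, ⟨3, 8, 15, 11⟩⟩) (by decide +kernel)

def tC47B_c3m11 : PosD ⟨⟨0, 1, 1⟩, ⟨98, 99, 147⟩, ⟨9258, 10000, 30000⟩, ⟨1405, 1436, 1000⟩⟩ (tC47B.hC3m true true) :=
  posD_of_check (c := ⟨422, ⟨3, 7, 15, 10⟩⟩) (by decide +kernel)

def tC47B_c3ph11 : PosD ⟨⟨0, 1, 1⟩, ⟨98, 99, 147⟩, ⟨9258, 10000, 30000⟩, ⟨1405, 1436, 1000⟩⟩ (tC47B.hC3p' true true) :=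
  posD_of_relax (k₁ := 0) (k₂ := 0) (k₃ := 1) (n := 16) (posD_of_check (c := ⟨445, ⟨3, 8, 15, 11⟩⟩) (by decide +kernel))

def tC47B_c3mh11 : PosD ⟨⟨0, 1, 1⟩, ⟨98, 99, 147⟩, ⟨9258, 10000, 30000⟩, ⟨1405, 1436, 1000⟩⟩ (tC47B.hC3m' true true) :=
  posD_of_relax (k₁ := 0) (k₂ := 0) (k₃ := 1) (n := 16) (posD_of_check (c := ⟨421, ⟨3, 7, 15, 10⟩⟩) (by decide +kernel))

def tC47B_up11 : PosD ⟨⟨0, 1, 1⟩, ⟨98, 99, 147⟩, ⟨9258, 10000, 30000⟩, ⟨1405, 1436, 1000⟩⟩ (tC47B.hUp true true) :=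
  posD_of_check (c := ⟨444, ⟨3, 8, 15, 11⟩⟩) (by decide +kernel)

def tC47B_um11 : PosD ⟨⟨0, 1, 1⟩, ⟨98, 99, 147⟩, ⟨9258, 10000, 30000⟩, ⟨1405, 1436, 1000⟩⟩ (tC47B.hUm true true) :=
  posD_of_check (c := ⟨419, ⟨2, 7, 15, 10⟩⟩) (by decide +kernel)

def tC47B_tmg11 : PosD ⟨⟨0, 1, 1⟩, ⟨98, 99, 147⟩, ⟨9258, 10000, 30000⟩, ⟨1405, 1436, 1000⟩⟩ (tC47B.hTMG true (tC47B.pEnd true)) :=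
  posD_of_check (c := ⟨403, ⟨2, 7, 14, 10⟩⟩) (by decide +kernel)

/-- The signs of the piece. -/
def tC47B_sign : tC47B.Sign ⟨⟨0, 1, 1⟩, ⟨98, 99, 147⟩, ⟨9258, 10000, 30000⟩, ⟨1405, 1436, 1000⟩⟩ :=
  ⟨tC47B_pp,
    tC47B_k2p,
    tC47B_k2m,
    Bool.forall_bool.2 ⟨(Bool.forall_bool.2 ⟨tC47B_tg00, tC47B_tg01⟩), (Bool.forall_bool.2 ⟨tC47B_tg10, tC47B_tg11⟩)⟩,
    Bool.forall_bool.2 ⟨(Bool.forall_bool.2 ⟨tC47B_c2p00, tC47B_c2p01⟩), (Bool.forall_bool.2 ⟨tC47B_c2p10, tC47B_c2p11⟩)⟩,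
    Bool.forall_bool.2 ⟨(Bool.forall_bool.2 ⟨tC47B_c2m00, tC47B_c2m01⟩), (Bool.forall_bool.2 ⟨tC47B_c2m10, tC47B_c2m11⟩)⟩,
    Bool.forall_bool.2 ⟨tC47B_kap0, tC47B_kap1⟩,
    Bool.forall_bool.2 ⟨tC47B_c10, tC47B_c11⟩,
    Bool.forall_bool.2 ⟨(Bool.forall_bool.2 ⟨tC47B_c3p00, tC47B_c3p01⟩), (Bool.forall_bool.2 ⟨tC47B_c3p10, tC47B_c3p11⟩)⟩,
    Bool.forall_bool.2 ⟨(Bool.forall_bool.2 ⟨tC47B_c3m00, tC47B_c3m01⟩), (Bool.forall_bool.2 ⟨tC47B_c3m10, tC47B_c3m11⟩)⟩,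
    Bool.forall_bool.2 ⟨(Bool.forall_bool.2 ⟨tC47B_tmg00, tC47B_tmg01⟩), (Bool.forall_bool.2 ⟨tC47B_tmg10, tC47B_tmg11⟩)⟩,
    .inr (Bool.forall_bool.2 ⟨⟨tC47B_c1h0, Bool.forall_bool.2 ⟨⟨tC47B_c3ph00, tC47B_c3mh00, tC47B_up00, tC47B_um00⟩, ⟨tC47B_c3ph01, tC47B_c3mh01, tC47B_up01, tC47B_um01⟩⟩⟩, ⟨tC47B_c1h1, Bool.forall_bool.2 ⟨⟨tC47B_c3ph10, tC47B_c3mh10, tC47B_up10, tC47B_um10⟩, ⟨tC47B_c3ph11, tC47B_c3mh11, tC47B_up11, tC47B_um11⟩⟩⟩⟩),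
    tC47B_v2p,
    tC47B_v2m,
    tC47B_v3p,
    tC47B_v3m,
    posD_sub (b := ⟨⟨0, 1, 1⟩, ⟨98, 99, 147⟩, ⟨4050, 10000, 30000⟩, ⟨290, 4000, 1000⟩⟩) (by decide +kernel) tC_vG,
    posD_sub (b := ⟨⟨0, 1, 1⟩, ⟨98, 99, 147⟩, ⟨4050, 10000, 30000⟩, ⟨290, 4000, 1000⟩⟩) (by decide +kernel) tC_vMG,
    posD_sub (b := ⟨⟨0, 1, 1⟩, ⟨98, 99, 147⟩, ⟨4050, 10000, 30000⟩, ⟨290, 4000, 1000⟩⟩) (by decide +kernel) tC_ak,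
    posD_sub (b := ⟨⟨0, 1, 1⟩, ⟨98, 99, 147⟩, ⟨4050, 10000, 30000⟩, ⟨290, 4000, 1000⟩⟩) (by decide +kernel) tC_aw,
    posD_sub (b := ⟨⟨0, 1, 1⟩, ⟨98, 99, 147⟩, ⟨4050, 10000, 30000⟩, ⟨290, 4000, 1000⟩⟩) (by decide +kernel) tC_gk,
    posD_sub (b := ⟨⟨0, 1, 1⟩, ⟨98, 99, 147⟩, ⟨4050, 10000, 30000⟩, ⟨290, 4000, 1000⟩⟩) (by decide +kernel) tC_gw,
    posD_sub (b := ⟨⟨0, 1, 1⟩, ⟨98, 99, 147⟩, ⟨4050, 10000, 30000⟩, ⟨290, 4000, 1000⟩⟩) (by decide +kernel) tC_ek,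
    posD_sub (b := ⟨⟨0, 1, 1⟩, ⟨98, 99, 147⟩, ⟨4050, 10000, 30000⟩, ⟨290, 4000, 1000⟩⟩) (by decide +kernel) tC_ew⟩

end Vale.Agent.P100.Calib.Closed.Six.Tail
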