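import Vale.Agent.P100.Calib.SlabSixTailDataC
import Vale.Agent.P100.Calib.SlabSixTailGlobC

/-!
# Checks of some pieces of the certificate

The checks are written as definitions so that they run one after another, which keeps the memory of the
kernel low.
-/

set_option linter.defProp false

namespace Vale.Agent.P100.Calib.Closed.Six.Tail

open BoxPos Large

local instance sixTailCheckstC36Add : Add Ex := ⟨Ex.add⟩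
local instance sixTailCheckstC36Sub : Sub Ex := ⟨Ex.sub⟩
local instance sixTailCheckstC36Mul : Mul Ex := ⟨Ex.mul⟩

def tC49_phx : PosD ⟨⟨0, 1, 1⟩, ⟨98, 99, 147⟩, ⟨9258, 10000, 30000⟩, ⟨1446, 1467, 1000⟩⟩ (phCn (tC49Hi + xO * (tC49Lo - tC49Hi))) :=
  posD_of_check (c := ⟨75, ⟨2, 0, 2, 1⟩⟩) (by decide +kernel)

def tC49_phd : PosD ⟨⟨0, 1, 1⟩, ⟨98, 99, 147⟩, ⟨9258, 10000, 30000⟩, ⟨1446, 1467, 1000⟩⟩ (phCd (tC49Hi + xO * (tC49Lo - tC49Hi))) :=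
  posD_of_check (c := ⟨50, ⟨1, 0, 2, 0⟩⟩) (by decide +kernel)

def tC50_phx : PosIf ⟨⟨0, 1, 1⟩, ⟨98, 99, 147⟩, ⟨9258, 9444, 30000⟩, ⟨1446, 1467, 1000⟩⟩ (tC50.u₁ - tC50Lo) (phCn (tC50.u₁ + xO * (tC50Lo - tC50.u₁))) :=
  posIf_of_posD (posD_of_check (c := ⟨109, ⟨2, 0, 4, 2⟩⟩) (by decide +kernel))

def tC50_phd : PosD ⟨⟨0, 1, 1⟩, ⟨98, 99, 147⟩, ⟨9258, 9444, 30000⟩, ⟨1446, 1467, 1000⟩⟩ (phCd (tC50.u₁ + xO * (tC50Lo - tC50.u₁))) :=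
  posD_of_check (c := ⟨51, ⟨1, 0, 2, 1⟩⟩) (by decide +kernel)

def tC50_p0 : PosD ⟨⟨0, 1, 1⟩, ⟨98, 99, 147⟩, ⟨9258, 9444, 30000⟩, ⟨1446, 1467, 1000⟩⟩ (tC50.hP0) :=
  posD_of_check (c := ⟨83, ⟨0, 2, 3, 1⟩⟩) (by decide +kernel)

def tC50_gn : PosD ⟨⟨0, 1, 1⟩, ⟨98, 99, 147⟩, ⟨9258, 9444, 30000⟩, ⟨1446, 1467, 1000⟩⟩ (tC50.hGn) :=
  posD_of_check (c := ⟨69, ⟨1, 1, 2, 2⟩⟩) (by decide +kernel)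

def tC50_den0 : PosD ⟨⟨0, 1, 1⟩, ⟨98, 99, 147⟩, ⟨9258, 9444, 30000⟩, ⟨1446, 1467, 1000⟩⟩ (tC50.hDen false) :=
  posD_of_check (c := ⟨51, ⟨1, 0, 2, 1⟩⟩) (by decide +kernel)

def tC50_den1 : PosD ⟨⟨0, 1, 1⟩, ⟨98, 99, 147⟩, ⟨9258, 9444, 30000⟩, ⟨1446, 1467, 1000⟩⟩ (tC50.hDen true) :=
  posD_of_check (c := ⟨180, ⟨3, 4, 6, 4⟩⟩) (by decide +kernel)

def tC50_ev0 : PosD ⟨⟨0, 1, 1⟩, ⟨98, 99, 147⟩, ⟨9258, 9444, 30000⟩, ⟨1446, 1467, 1000⟩⟩ (tC50.hEv false) :=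
  posD_of_check (c := ⟨220, ⟨4, 2, 8, 4⟩⟩) (by decide +kernel)

def tC50_zL0 : PosD ⟨⟨0, 1, 1⟩, ⟨98, 99, 147⟩, ⟨9258, 9444, 30000⟩, ⟨1446, 1467, 1000⟩⟩ (tC50.hZL false) :=
  posD_of_check (c := ⟨222, ⟨4, 3, 8, 4⟩⟩) (by decide +kernel)

def tC50_zU0 : PosD ⟨⟨0, 1, 1⟩, ⟨98, 99, 147⟩, ⟨9258, 9444, 30000⟩, ⟨1446, 1467, 1000⟩⟩ (tC50.hZU false) :=
  posD_of_check (c := ⟨222, ⟨4, 3, 8, 4⟩⟩) (by decide +kernel)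

def tC50_eL0 : PosD ⟨⟨0, 1, 1⟩, ⟨98, 99, 147⟩, ⟨9258, 9444, 30000⟩, ⟨1446, 1467, 1000⟩⟩ (tC50.hEL false) :=
  posD_of_check (c := ⟨315, ⟨5, 6, 11, 6⟩⟩) (by decide +kernel)

def tC50_eH0 : PosD ⟨⟨0, 1, 1⟩, ⟨98, 99, 147⟩, ⟨9258, 9444, 30000⟩, ⟨1446, 1467, 1000⟩⟩ (tC50.hEH false) :=
  posD_of_check (c := ⟨314, ⟨5, 6, 11, 6⟩⟩) (by decide +kernel)

def tC50_pL0 : PosD ⟨⟨0, 1, 1⟩, ⟨98, 99, 147⟩, ⟨9258, 9444, 30000⟩, ⟨1446, 1467, 1000⟩⟩ (tC50.hPL false) :=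
  posD_of_check (c := ⟨340, ⟨5, 6, 11, 7⟩⟩) (by decide +kernel)

def tC50_pU0 : PosD ⟨⟨0, 1, 1⟩, ⟨98, 99, 147⟩, ⟨9258, 9444, 30000⟩, ⟨1446, 1467, 1000⟩⟩ (tC50.hPU false) :=
  posD_of_check (c := ⟨340, ⟨5, 6, 11, 7⟩⟩) (by decide +kernel)

def tC50_kU0 : PosD ⟨⟨0, 1, 1⟩, ⟨98, 99, 147⟩, ⟨9258, 9444, 30000⟩, ⟨1446, 1467, 1000⟩⟩ (tC50.hKU false) :=
  posD_of_check (c := ⟨339, ⟨5, 6, 11, 7⟩⟩) (by decide +kernel)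

def tC50_kL0 : PosD ⟨⟨0, 1, 1⟩, ⟨98, 99, 147⟩, ⟨9258, 9444, 30000⟩, ⟨1446, 1467, 1000⟩⟩ (tC50.hKL false) :=
  posD_of_check (c := ⟨338, ⟨5, 6, 11, 7⟩⟩) (by decide +kernel)

def tC50_wU0 : PosD ⟨⟨0, 1, 1⟩, ⟨98, 99, 147⟩, ⟨9258, 9444, 30000⟩, ⟨1446, 1467, 1000⟩⟩ (tC50.hWU false) :=
  posD_of_check (c := ⟨373, ⟨5, 8, 12, 7⟩⟩) (by decide +kernel)

def tC50_wL0 : PosD ⟨⟨0, 1, 1⟩, ⟨98, 99, 147⟩, ⟨9258, 9444, 30000⟩, ⟨1446, 1467, 1000⟩⟩ (tC50.hWL false) :=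
  posD_of_check (c := ⟨374, ⟨5, 8, 12, 7⟩⟩) (by decide +kernel)

def tC50_ev1 : PosD ⟨⟨0, 1, 1⟩, ⟨98, 99, 147⟩, ⟨9258, 9444, 30000⟩, ⟨1446, 1467, 1000⟩⟩ (tC50.hEv true) :=
  posD_of_check (c := ⟨273, ⟨4, 6, 9, 6⟩⟩) (by decide +kernel)

def tC50_zL1 : PosD ⟨⟨0, 1, 1⟩, ⟨98, 99, 147⟩, ⟨9258, 9444, 30000⟩, ⟨1446, 1467, 1000⟩⟩ (tC50.hZL true) :=
  posD_of_check (c := ⟨295, ⟨4, 7, 10, 6⟩⟩) (by decide +kernel)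

def tC50_zU1 : PosD ⟨⟨0, 1, 1⟩, ⟨98, 99, 147⟩, ⟨9258, 9444, 30000⟩, ⟨1446, 1467, 1000⟩⟩ (tC50.hZU true) :=
  posD_of_check (c := ⟨296, ⟨4, 7, 10, 6⟩⟩) (by decide +kernel)

def tC50_eL1 : PosD ⟨⟨0, 1, 1⟩, ⟨98, 99, 147⟩, ⟨9258, 9444, 30000⟩, ⟨1446, 1467, 1000⟩⟩ (tC50.hEL true) :=
  posD_of_check (c := ⟨369, ⟨5, 10, 12, 8⟩⟩) (by decide +kernel)

def tC50_eH1 : PosD ⟨⟨0, 1, 1⟩, ⟨98, 99, 147⟩, ⟨9258, 9444, 30000⟩, ⟨1446, 1467, 1000⟩⟩ (tC50.hEH true) :=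
  posD_of_check (c := ⟨368, ⟨5, 10, 12, 8⟩⟩) (by decide +kernel)

def tC50_pL1 : PosD ⟨⟨0, 1, 1⟩, ⟨98, 99, 147⟩, ⟨9258, 9444, 30000⟩, ⟨1446, 1467, 1000⟩⟩ (tC50.hPL true) :=
  posD_of_check (c := ⟨394, ⟨5, 10, 12, 9⟩⟩) (by decide +kernel)

def tC50_pU1 : PosD ⟨⟨0, 1, 1⟩, ⟨98, 99, 147⟩, ⟨9258, 9444, 30000⟩, ⟨1446, 1467, 1000⟩⟩ (tC50.hPU true) :=
  posD_of_check (c := ⟨394, ⟨5, 10, 12, 9⟩⟩) (by decide +kernel)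

def tC50_kU1 : PosD ⟨⟨0, 1, 1⟩, ⟨98, 99, 147⟩, ⟨9258, 9444, 30000⟩, ⟨1446, 1467, 1000⟩⟩ (tC50.hKU true) :=
  posD_of_check (c := ⟨392, ⟨5, 10, 12, 9⟩⟩) (by decide +kernel)

def tC50_kL1 : PosD ⟨⟨0, 1, 1⟩, ⟨98, 99, 147⟩, ⟨9258, 9444, 30000⟩, ⟨1446, 1467, 1000⟩⟩ (tC50.hKL true) :=
  posD_of_check (c := ⟨392, ⟨5, 10, 12, 9⟩⟩) (by decide +kernel)

def tC50_wU1 : PosD ⟨⟨0, 1, 1⟩, ⟨98, 99, 147⟩, ⟨9258, 9444, 30000⟩, ⟨1446, 1467, 1000⟩⟩ (tC50.hWU true) :=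
  posD_of_check (c := ⟨426, ⟨5, 12, 13, 9⟩⟩) (by decide +kernel)

def tC50_wL1 : PosD ⟨⟨0, 1, 1⟩, ⟨98, 99, 147⟩, ⟨9258, 9444, 30000⟩, ⟨1446, 1467, 1000⟩⟩ (tC50.hWL true) :=
  posD_of_check (c := ⟨428, ⟨5, 12, 13, 9⟩⟩) (by decide +kernel)

/-- The bounds of the piece. -/
def tC50_env : tC50.Env ⟨⟨0, 1, 1⟩, ⟨98, 99, 147⟩, ⟨9258, 9444, 30000⟩, ⟨1446, 1467, 1000⟩⟩ :=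
  ⟨tC50_p0, Bool.forall_bool.2 ⟨tC50_den0, tC50_den1⟩, tC50_gn, Bool.forall_bool.2 ⟨tC50_ev0, tC50_ev1⟩, Bool.forall_bool.2 ⟨tC50_zL0, tC50_zL1⟩, Bool.forall_bool.2 ⟨tC50_zU0, tC50_zU1⟩, Bool.forall_bool.2 ⟨tC50_eL0, tC50_eL1⟩, ⟨.inr rfl, .inr rfl⟩, Bool.forall_bool.2 ⟨tC50_eH0, tC50_eH1⟩, ⟨.inr rfl, .inr rfl⟩, Bool.forall_bool.2 ⟨tC50_pL0, tC50_pL1⟩, ⟨.inr rfl, .inr rfl⟩, Bool.forall_bool.2 ⟨tC50_pU0, tC50_pU1⟩, ⟨.inr rfl, .inr rfl⟩, Bool.forall_bool.2 ⟨tC50_kU0, tC50_kU1⟩, ⟨.inr rfl, .inr rfl⟩, Bool.forall_bool.2 ⟨tC50_kL0, tC50_kL1⟩, ⟨.inr rfl, .inr rfl⟩, Bool.forall_bool.2 ⟨tC50_wU0, tC50_wU1⟩, ⟨.inr rfl, .inr rfl⟩, Bool.forall_bool.2 ⟨tC50_wL0, tC50_wL1⟩, ⟨.inr rfl, .inr rfl⟩⟩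

def tC50_pp : PosD ⟨⟨0, 1, 1⟩, ⟨98, 99, 147⟩, ⟨9258, 9444, 30000⟩, ⟨1446, 1467, 1000⟩⟩ (tC50.xPL) :=
  posD_of_check (c := ⟨94, ⟨1, 1, 3, 2⟩⟩) (by decide +kernel)

def tC50_k2p : PosD ⟨⟨0, 1, 1⟩, ⟨98, 99, 147⟩, ⟨9258, 9444, 30000⟩, ⟨1446, 1467, 1000⟩⟩ (tC50.k2p tC50.xE) :=
  posD_of_check (c := ⟨69, ⟨1, 1, 2, 1⟩⟩) (by decide +kernel)

def tC50_k2m : PosD ⟨⟨0, 1, 1⟩, ⟨98, 99, 147⟩, ⟨9258, 9444, 30000⟩, ⟨1446, 1467, 1000⟩⟩ (tC50.k2m tC50.xE) :=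
  posD_of_check (c := ⟨31, ⟨0, 0, 1, 1⟩⟩) (by decide +kernel)

def tC50_v2p : PosD ⟨⟨0, 1, 1⟩, ⟨98, 99, 147⟩, ⟨9258, 9444, 30000⟩, ⟨1446, 1467, 1000⟩⟩ (tC50.hV2p) :=
  posD_of_check (c := ⟨271, ⟨1, 6, 10, 4⟩⟩) (by decide +kernel)

def tC50_v2m : PosD ⟨⟨0, 1, 1⟩, ⟨98, 99, 147⟩, ⟨9258, 9444, 30000⟩, ⟨1446, 1467, 1000⟩⟩ (tC50.hV2m) :=
  posD_of_check (c := ⟨245, ⟨0, 5, 10, 4⟩⟩) (by decide +kernel)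

def tC50_v3p : PosD ⟨⟨0, 1, 1⟩, ⟨98, 99, 147⟩, ⟨9258, 9444, 30000⟩, ⟨1446, 1467, 1000⟩⟩ (tC50.hV3p) :=
  posD_of_check (c := ⟨256, ⟨1, 6, 9, 4⟩⟩) (by decide +kernel)

def tC50_v3m : PosD ⟨⟨0, 1, 1⟩, ⟨98, 99, 147⟩, ⟨9258, 9444, 30000⟩, ⟨1446, 1467, 1000⟩⟩ (tC50.hV3m) :=
  posD_of_check (c := ⟨232, ⟨0, 5, 9, 4⟩⟩) (by decide +kernel)

def tC50_kap0 : PosD ⟨⟨0, 1, 1⟩, ⟨98, 99, 147⟩, ⟨9258, 9444, 30000⟩, ⟨1446, 1467, 1000⟩⟩ (tC50.kap false) :=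
  posD_of_check (c := ⟨70, ⟨1, 1, 2, 1⟩⟩) (by decide +kernel)

def tC50_c10 : PosD ⟨⟨0, 1, 1⟩, ⟨98, 99, 147⟩, ⟨9258, 9444, 30000⟩, ⟨1446, 1467, 1000⟩⟩ (tC50.hC1 false) :=
  posD_of_check (c := ⟨273, ⟨3, 5, 9, 6⟩⟩) (by decide +kernel)

def tC50_c1h0 : PosD ⟨⟨0, 1, 1⟩, ⟨98, 99, 147⟩, ⟨9258, 9444, 30000⟩, ⟨1446, 1467, 1000⟩⟩ (tC50.hC1' false) :=
  posD_of_relax (k₁ := 0) (k₂ := 0) (k₃ := 93) (n := 16) (posD_of_check (c := ⟨273, ⟨3, 5, 9, 6⟩⟩) (by decide +kernel))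

def tC50_tg00 : PosD ⟨⟨0, 1, 1⟩, ⟨98, 99, 147⟩, ⟨9258, 9444, 30000⟩, ⟨1446, 1467, 1000⟩⟩ (tC50.hG false (tC50.pEnd false)) :=
  posD_of_check (c := ⟨385, ⟨2, 7, 14, 7⟩⟩) (by decide +kernel)

def tC50_c2p00 : PosD ⟨⟨0, 1, 1⟩, ⟨98, 99, 147⟩, ⟨9258, 9444, 30000⟩, ⟨1446, 1467, 1000⟩⟩ (tC50.hC2p false (tC50.pEnd false)) :=
  posD_of_check (c := ⟨455, ⟨3, 8, 16, 8⟩⟩) (by decide +kernel)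

def tC50_c2m00 : PosD ⟨⟨0, 1, 1⟩, ⟨98, 99, 147⟩, ⟨9258, 9444, 30000⟩, ⟨1446, 1467, 1000⟩⟩ (tC50.hC2m false (tC50.pEnd false)) :=
  posD_of_check (c := ⟨429, ⟨2, 7, 16, 8⟩⟩) (by decide +kernel)

def tC50_c3p00 : PosD ⟨⟨0, 1, 1⟩, ⟨98, 99, 147⟩, ⟨9258, 9444, 30000⟩, ⟨1446, 1467, 1000⟩⟩ (tC50.hC3p false false) :=
  posD_of_check (c := ⟨442, ⟨3, 8, 15, 8⟩⟩) (by decide +kernel)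

def tC50_c3m00 : PosD ⟨⟨0, 1, 1⟩, ⟨98, 99, 147⟩, ⟨9258, 9444, 30000⟩, ⟨1446, 1467, 1000⟩⟩ (tC50.hC3m false false) :=
  posD_of_check (c := ⟨420, ⟨3, 7, 15, 8⟩⟩) (by decide +kernel)

def tC50_c3ph00 : PosD ⟨⟨0, 1, 1⟩, ⟨98, 99, 147⟩, ⟨9258, 9444, 30000⟩, ⟨1446, 1467, 1000⟩⟩ (tC50.hC3p' false false) :=
  posD_of_check (c := ⟨442, ⟨3, 8, 15, 8⟩⟩) (by decide +kernel)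

def tC50_c3mh00 : PosD ⟨⟨0, 1, 1⟩, ⟨98, 99, 147⟩, ⟨9258, 9444, 30000⟩, ⟨1446, 1467, 1000⟩⟩ (tC50.hC3m' false false) :=
  posD_of_check (c := ⟨420, ⟨3, 7, 15, 8⟩⟩) (by decide +kernel)

def tC50_up00 : PosD ⟨⟨0, 1, 1⟩, ⟨98, 99, 147⟩, ⟨9258, 9444, 30000⟩, ⟨1446, 1467, 1000⟩⟩ (tC50.hUp false false) :=
  posD_of_check (c := ⟨441, ⟨3, 8, 15, 8⟩⟩) (by decide +kernel)

def tC50_um00 : PosD ⟨⟨0, 1, 1⟩, ⟨98, 99, 147⟩, ⟨9258, 9444, 30000⟩, ⟨1446, 1467, 1000⟩⟩ (tC50.hUm false false) :=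
  posD_of_check (c := ⟨417, ⟨2, 7, 15, 8⟩⟩) (by decide +kernel)

def tC50_tmg00 : PosD ⟨⟨0, 1, 1⟩, ⟨98, 99, 147⟩, ⟨9258, 9444, 30000⟩, ⟨1446, 1467, 1000⟩⟩ (tC50.hTMG false (tC50.pEnd false)) :=
  posD_of_check (c := ⟨401, ⟨2, 7, 14, 8⟩⟩) (by decide +kernel)

def tC50_tg01 : PosD ⟨⟨0, 1, 1⟩, ⟨98, 99, 147⟩, ⟨9258, 9444, 30000⟩, ⟨1446, 1467, 1000⟩⟩ (tC50.hG true (tC50.pEnd false)) :=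
  posD_of_check (c := ⟨385, ⟨2, 7, 14, 7⟩⟩) (by decide +kernel)

def tC50_c2p01 : PosD ⟨⟨0, 1, 1⟩, ⟨98, 99, 147⟩, ⟨9258, 9444, 30000⟩, ⟨1446, 1467, 1000⟩⟩ (tC50.hC2p true (tC50.pEnd false)) :=
  posD_of_check (c := ⟨455, ⟨3, 8, 16, 8⟩⟩) (by decide +kernel)

def tC50_c2m01 : PosD ⟨⟨0, 1, 1⟩, ⟨98, 99, 147⟩, ⟨9258, 9444, 30000⟩, ⟨1446, 1467, 1000⟩⟩ (tC50.hC2m true (tC50.pEnd false)) :=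
  posD_of_check (c := ⟨429, ⟨2, 7, 16, 8⟩⟩) (by decide +kernel)

def tC50_c3p01 : PosD ⟨⟨0, 1, 1⟩, ⟨98, 99, 147⟩, ⟨9258, 9444, 30000⟩, ⟨1446, 1467, 1000⟩⟩ (tC50.hC3p false true) :=
  posD_of_check (c := ⟨442, ⟨3, 8, 15, 8⟩⟩) (by decide +kernel)

def tC50_c3m01 : PosD ⟨⟨0, 1, 1⟩, ⟨98, 99, 147⟩, ⟨9258, 9444, 30000⟩, ⟨1446, 1467, 1000⟩⟩ (tC50.hC3m false true) :=
  posD_of_check (c := ⟨420, ⟨3, 7, 15, 8⟩⟩) (by decide +kernel)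

def tC50_c3ph01 : PosD ⟨⟨0, 1, 1⟩, ⟨98, 99, 147⟩, ⟨9258, 9444, 30000⟩, ⟨1446, 1467, 1000⟩⟩ (tC50.hC3p' false true) :=
  posD_of_check (c := ⟨442, ⟨3, 8, 15, 8⟩⟩) (by decide +kernel)

def tC50_c3mh01 : PosD ⟨⟨0, 1, 1⟩, ⟨98, 99, 147⟩, ⟨9258, 9444, 30000⟩, ⟨1446, 1467, 1000⟩⟩ (tC50.hC3m' false true) :=
  posD_of_check (c := ⟨420, ⟨3, 7, 15, 8⟩⟩) (by decide +kernel)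

def tC50_up01 : PosD ⟨⟨0, 1, 1⟩, ⟨98, 99, 147⟩, ⟨9258, 9444, 30000⟩, ⟨1446, 1467, 1000⟩⟩ (tC50.hUp false true) :=
  posD_of_check (c := ⟨441, ⟨3, 8, 15, 8⟩⟩) (by decide +kernel)

def tC50_um01 : PosD ⟨⟨0, 1, 1⟩, ⟨98, 99, 147⟩, ⟨9258, 9444, 30000⟩, ⟨1446, 1467, 1000⟩⟩ (tC50.hUm false true) :=
  posD_of_check (c := ⟨417, ⟨2, 7, 15, 8⟩⟩) (by decide +kernel)

def tC50_tmg01 : PosD ⟨⟨0, 1, 1⟩, ⟨98, 99, 147⟩, ⟨9258, 9444, 30000⟩, ⟨1446, 1467, 1000⟩⟩ (tC50.hTMG true (tC50.pEnd false)) :=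
  posD_of_check (c := ⟨401, ⟨2, 7, 14, 8⟩⟩) (by decide +kernel)

def tC50_kap1 : PosD ⟨⟨0, 1, 1⟩, ⟨98, 99, 147⟩, ⟨9258, 9444, 30000⟩, ⟨1446, 1467, 1000⟩⟩ (tC50.kap true) :=
  posD_of_check (c := ⟨70, ⟨1, 1, 2, 1⟩⟩) (by decide +kernel)

def tC50_c11 : PosD ⟨⟨0, 1, 1⟩, ⟨98, 99, 147⟩, ⟨9258, 9444, 30000⟩, ⟨1446, 1467, 1000⟩⟩ (tC50.hC1 true) :=
  posD_of_check (c := ⟨273, ⟨3, 5, 9, 6⟩⟩) (by decide +kernel)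

def tC50_c1h1 : PosD ⟨⟨0, 1, 1⟩, ⟨98, 99, 147⟩, ⟨9258, 9444, 30000⟩, ⟨1446, 1467, 1000⟩⟩ (tC50.hC1' true) :=
  posD_of_relax (k₁ := 0) (k₂ := 0) (k₃ := 126) (n := 16) (posD_of_check (c := ⟨273, ⟨3, 5, 9, 6⟩⟩) (by decide +kernel))

def tC50_tg10 : PosD ⟨⟨0, 1, 1⟩, ⟨98, 99, 147⟩, ⟨9258, 9444, 30000⟩, ⟨1446, 1467, 1000⟩⟩ (tC50.hG false (tC50.pEnd true)) :=
  posD_of_check (c := ⟨386, ⟨2, 7, 14, 7⟩⟩) (by decide +kernel)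

def tC50_c2p10 : PosD ⟨⟨0, 1, 1⟩, ⟨98, 99, 147⟩, ⟨9258, 9444, 30000⟩, ⟨1446, 1467, 1000⟩⟩ (tC50.hC2p false (tC50.pEnd true)) :=
  posD_of_check (c := ⟨455, ⟨3, 8, 16, 8⟩⟩) (by decide +kernel)

def tC50_c2m10 : PosD ⟨⟨0, 1, 1⟩, ⟨98, 99, 147⟩, ⟨9258, 9444, 30000⟩, ⟨1446, 1467, 1000⟩⟩ (tC50.hC2m false (tC50.pEnd true)) :=
  posD_of_check (c := ⟨429, ⟨2, 7, 16, 8⟩⟩) (by decide +kernel)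

def tC50_c3p10 : PosD ⟨⟨0, 1, 1⟩, ⟨98, 99, 147⟩, ⟨9258, 9444, 30000⟩, ⟨1446, 1467, 1000⟩⟩ (tC50.hC3p true false) :=
  posD_of_check (c := ⟨442, ⟨3, 8, 15, 8⟩⟩) (by decide +kernel)

def tC50_c3m10 : PosD ⟨⟨0, 1, 1⟩, ⟨98, 99, 147⟩, ⟨9258, 9444, 30000⟩, ⟨1446, 1467, 1000⟩⟩ (tC50.hC3m true false) :=
  posD_of_check (c := ⟨420, ⟨3, 7, 15, 8⟩⟩) (by decide +kernel)

def tC50_c3ph10 : PosD ⟨⟨0, 1, 1⟩, ⟨98, 99, 147⟩, ⟨9258, 9444, 30000⟩, ⟨1446, 1467, 1000⟩⟩ (tC50.hC3p' true false) :=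
  posD_of_check (c := ⟨442, ⟨3, 8, 15, 8⟩⟩) (by decide +kernel)

def tC50_c3mh10 : PosD ⟨⟨0, 1, 1⟩, ⟨98, 99, 147⟩, ⟨9258, 9444, 30000⟩, ⟨1446, 1467, 1000⟩⟩ (tC50.hC3m' true false) :=
  posD_of_check (c := ⟨420, ⟨3, 7, 15, 8⟩⟩) (by decide +kernel)

def tC50_up10 : PosD ⟨⟨0, 1, 1⟩, ⟨98, 99, 147⟩, ⟨9258, 9444, 30000⟩, ⟨1446, 1467, 1000⟩⟩ (tC50.hUp true false) :=
  posD_of_check (c := ⟨441, ⟨3, 8, 15, 8⟩⟩) (by decide +kernel)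

def tC50_um10 : PosD ⟨⟨0, 1, 1⟩, ⟨98, 99, 147⟩, ⟨9258, 9444, 30000⟩, ⟨1446, 1467, 1000⟩⟩ (tC50.hUm true false) :=
  posD_of_check (c := ⟨417, ⟨2, 7, 15, 8⟩⟩) (by decide +kernel)

def tC50_tmg10 : PosD ⟨⟨0, 1, 1⟩, ⟨98, 99, 147⟩, ⟨9258, 9444, 30000⟩, ⟨1446, 1467, 1000⟩⟩ (tC50.hTMG false (tC50.pEnd true)) :=
  posD_of_check (c := ⟨401, ⟨2, 7, 14, 8⟩⟩) (by decide +kernel)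

def tC50_tg11 : PosD ⟨⟨0, 1, 1⟩, ⟨98, 99, 147⟩, ⟨9258, 9444, 30000⟩, ⟨1446, 1467, 1000⟩⟩ (tC50.hG true (tC50.pEnd true)) :=
  posD_of_check (c := ⟨386, ⟨2, 7, 14, 7⟩⟩) (by decide +kernel)

def tC50_c2p11 : PosD ⟨⟨0, 1, 1⟩, ⟨98, 99, 147⟩, ⟨9258, 9444, 30000⟩, ⟨1446, 1467, 1000⟩⟩ (tC50.hC2p true (tC50.pEnd true)) :=
  posD_of_check (c := ⟨455, ⟨3, 8, 16, 8⟩⟩) (by decide +kernel)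

def tC50_c2m11 : PosD ⟨⟨0, 1, 1⟩, ⟨98, 99, 147⟩, ⟨9258, 9444, 30000⟩, ⟨1446, 1467, 1000⟩⟩ (tC50.hC2m true (tC50.pEnd true)) :=
  posD_of_check (c := ⟨429, ⟨2, 7, 16, 8⟩⟩) (by decide +kernel)

def tC50_c3p11 : PosD ⟨⟨0, 1, 1⟩, ⟨98, 99, 147⟩, ⟨9258, 9444, 30000⟩, ⟨1446, 1467, 1000⟩⟩ (tC50.hC3p true true) :=
  posD_of_check (c := ⟨442, ⟨3, 8, 15, 8⟩⟩) (by decide +kernel)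

def tC50_c3m11 : PosD ⟨⟨0, 1, 1⟩, ⟨98, 99, 147⟩, ⟨9258, 9444, 30000⟩, ⟨1446, 1467, 1000⟩⟩ (tC50.hC3m true true) :=
  posD_of_check (c := ⟨420, ⟨3, 7, 15, 8⟩⟩) (by decide +kernel)

def tC50_c3ph11 : PosD ⟨⟨0, 1, 1⟩, ⟨98, 99, 147⟩, ⟨9258, 9444, 30000⟩, ⟨1446, 1467, 1000⟩⟩ (tC50.hC3p' true true) :=
  posD_of_check (c := ⟨442, ⟨3, 8, 15, 8⟩⟩) (by decide +kernel)

def tC50_c3mh11 : PosD ⟨⟨0, 1, 1⟩, ⟨98, 99, 147⟩, ⟨9258, 9444, 30000⟩, ⟨1446, 1467, 1000⟩⟩ (tC50.hC3m' true true) :=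
  posD_of_check (c := ⟨420, ⟨3, 7, 15, 8⟩⟩) (by decide +kernel)

def tC50_up11 : PosD ⟨⟨0, 1, 1⟩, ⟨98, 99, 147⟩, ⟨9258, 9444, 30000⟩, ⟨1446, 1467, 1000⟩⟩ (tC50.hUp true true) :=
  posD_of_check (c := ⟨441, ⟨3, 8, 15, 8⟩⟩) (by decide +kernel)

def tC50_um11 : PosD ⟨⟨0, 1, 1⟩, ⟨98, 99, 147⟩, ⟨9258, 9444, 30000⟩, ⟨1446, 1467, 1000⟩⟩ (tC50.hUm true true) :=
  posD_of_check (c := ⟨417, ⟨2, 7, 15, 8⟩⟩) (by decide +kernel)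

def tC50_tmg11 : PosD ⟨⟨0, 1, 1⟩, ⟨98, 99, 147⟩, ⟨9258, 9444, 30000⟩, ⟨1446, 1467, 1000⟩⟩ (tC50.hTMG true (tC50.pEnd true)) :=
  posD_of_check (c := ⟨401, ⟨2, 7, 14, 8⟩⟩) (by decide +kernel)

/-- The signs of the piece. -/
def tC50_sign : tC50.Sign ⟨⟨0, 1, 1⟩, ⟨98, 99, 147⟩, ⟨9258, 9444, 30000⟩, ⟨1446, 1467, 1000⟩⟩ :=
  ⟨tC50_pp,
    tC50_k2p,
    tC50_k2m,
    Bool.forall_bool.2 ⟨(Bool.forall_bool.2 ⟨tC50_tg00, tC50_tg01⟩), (Bool.forall_bool.2 ⟨tC50_tg10, tC50_tg11⟩)⟩,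
    Bool.forall_bool.2 ⟨(Bool.forall_bool.2 ⟨tC50_c2p00, tC50_c2p01⟩), (Bool.forall_bool.2 ⟨tC50_c2p10, tC50_c2p11⟩)⟩,
    Bool.forall_bool.2 ⟨(Bool.forall_bool.2 ⟨tC50_c2m00, tC50_c2m01⟩), (Bool.forall_bool.2 ⟨tC50_c2m10, tC50_c2m11⟩)⟩,
    Bool.forall_bool.2 ⟨tC50_kap0, tC50_kap1⟩,
    Bool.forall_bool.2 ⟨tC50_c10, tC50_c11⟩,
    Bool.forall_bool.2 ⟨(Bool.forall_bool.2 ⟨tC50_c3p00, tC50_c3p01⟩), (Bool.forall_bool.2 ⟨tC50_c3p10, tC50_c3p11⟩)⟩,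
    Bool.forall_bool.2 ⟨(Bool.forall_bool.2 ⟨tC50_c3m00, tC50_c3m01⟩), (Bool.forall_bool.2 ⟨tC50_c3m10, tC50_c3m11⟩)⟩,
    Bool.forall_bool.2 ⟨(Bool.forall_bool.2 ⟨tC50_tmg00, tC50_tmg01⟩), (Bool.forall_bool.2 ⟨tC50_tmg10, tC50_tmg11⟩)⟩,
    .inr (Bool.forall_bool.2 ⟨⟨tC50_c1h0, Bool.forall_bool.2 ⟨⟨tC50_c3ph00, tC50_c3mh00, tC50_up00, tC50_um00⟩, ⟨tC50_c3ph01, tC50_c3mh01, tC50_up01, tC50_um01⟩⟩⟩, ⟨tC50_c1h1, Bool.forall_bool.2 ⟨⟨tC50_c3ph10, tC50_c3mh10, tC50_up10, tC50_um10⟩, ⟨tC50_c3ph11, tC50_c3mh11, tC50_up11, tC50_um11⟩⟩⟩⟩),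
    tC50_v2p,
    tC50_v2m,
    tC50_v3p,
    tC50_v3m,
    posD_sub (b := ⟨⟨0, 1, 1⟩, ⟨98, 99, 147⟩, ⟨4050, 10000, 30000⟩, ⟨290, 4000, 1000⟩⟩) (by decide +kernel) tC_vG,
    posD_sub (b := ⟨⟨0, 1, 1⟩, ⟨98, 99, 147⟩, ⟨4050, 10000, 30000⟩, ⟨290, 4000, 1000⟩⟩) (by decide +kernel) tC_vMG,
    posD_sub (b := ⟨⟨0, 1, 1⟩, ⟨98, 99, 147⟩, ⟨4050, 10000, 30000⟩, ⟨290, 4000, 1000⟩⟩) (by decide +kernel) tC_ak,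
    posD_sub (b := ⟨⟨0, 1, 1⟩, ⟨98, 99, 147⟩, ⟨4050, 10000, 30000⟩, ⟨290, 4000, 1000⟩⟩) (by decide +kernel) tC_aw,
    posD_sub (b := ⟨⟨0, 1, 1⟩, ⟨98, 99, 147⟩, ⟨4050, 10000, 30000⟩, ⟨290, 4000, 1000⟩⟩) (by decide +kernel) tC_gk,
    posD_sub (b := ⟨⟨0, 1, 1⟩, ⟨98, 99, 147⟩, ⟨4050, 10000, 30000⟩, ⟨290, 4000, 1000⟩⟩) (by decide +kernel) tC_gw,
    posD_sub (b := ⟨⟨0, 1, 1⟩, ⟨98, 99, 147⟩, ⟨4050, 10000, 30000⟩, ⟨290, 4000, 1000⟩⟩) (by decide +kernel) tC_ek,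
    posD_sub (b := ⟨⟨0, 1, 1⟩, ⟨98, 99, 147⟩, ⟨4050, 10000, 30000⟩, ⟨290, 4000, 1000⟩⟩) (by decide +kernel) tC_ew⟩

end Vale.Agent.P100.Calib.Closed.Six.Tail
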