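import Vale.Agent.P100.Calib.SlabSixTailDataC
import Vale.Agent.P100.Calib.SlabSixTailGlobC

/-!
# Checks of some pieces of the certificate

The checks are written as definitions so that they run one after another, which keeps the memory of the
kernel low.
-/

set_option linter.defProp false

namespace Vale.Agent.P100.Calib.Closed.Six.Tail

open BoxPos Large

local instance sixTailCheckstC37Add : Add Ex := ⟨Ex.add⟩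
local instance sixTailCheckstC37Sub : Sub Ex := ⟨Ex.sub⟩
local instance sixTailCheckstC37Mul : Mul Ex := ⟨Ex.mul⟩

def tC51_phx : PosIf ⟨⟨0, 1, 1⟩, ⟨98, 99, 147⟩, ⟨9444, 9630, 30000⟩, ⟨1446, 1467, 1000⟩⟩ (tC51.u₁ - tC51Lo) (phCn (tC51.u₁ + xO * (tC51Lo - tC51.u₁))) :=
  posIf_of_posD (posD_of_check (c := ⟨109, ⟨2, 0, 4, 2⟩⟩) (by decide +kernel))

def tC51_phd : PosD ⟨⟨0, 1, 1⟩, ⟨98, 99, 147⟩, ⟨9444, 9630, 30000⟩, ⟨1446, 1467, 1000⟩⟩ (phCd (tC51.u₁ + xO * (tC51Lo - tC51.u₁))) :=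
  posD_of_check (c := ⟨51, ⟨1, 0, 2, 1⟩⟩) (by decide +kernel)

def tC51_p0 : PosD ⟨⟨0, 1, 1⟩, ⟨98, 99, 147⟩, ⟨9444, 9630, 30000⟩, ⟨1446, 1467, 1000⟩⟩ (tC51.hP0) :=
  posD_of_check (c := ⟨83, ⟨0, 2, 3, 1⟩⟩) (by decide +kernel)

def tC51_gn : PosD ⟨⟨0, 1, 1⟩, ⟨98, 99, 147⟩, ⟨9444, 9630, 30000⟩, ⟨1446, 1467, 1000⟩⟩ (tC51.hGn) :=
  posD_of_check (c := ⟨69, ⟨1, 1, 2, 2⟩⟩) (by decide +kernel)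

def tC51_den0 : PosD ⟨⟨0, 1, 1⟩, ⟨98, 99, 147⟩, ⟨9444, 9630, 30000⟩, ⟨1446, 1467, 1000⟩⟩ (tC51.hDen false) :=
  posD_of_check (c := ⟨51, ⟨1, 0, 2, 1⟩⟩) (by decide +kernel)

def tC51_den1 : PosD ⟨⟨0, 1, 1⟩, ⟨98, 99, 147⟩, ⟨9444, 9630, 30000⟩, ⟨1446, 1467, 1000⟩⟩ (tC51.hDen true) :=
  posD_of_check (c := ⟨180, ⟨3, 4, 6, 4⟩⟩) (by decide +kernel)

def tC51_ev0 : PosD ⟨⟨0, 1, 1⟩, ⟨98, 99, 147⟩, ⟨9444, 9630, 30000⟩, ⟨1446, 1467, 1000⟩⟩ (tC51.hEv false) :=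
  posD_of_check (c := ⟨220, ⟨4, 2, 8, 4⟩⟩) (by decide +kernel)

def tC51_zL0 : PosD ⟨⟨0, 1, 1⟩, ⟨98, 99, 147⟩, ⟨9444, 9630, 30000⟩, ⟨1446, 1467, 1000⟩⟩ (tC51.hZL false) :=
  posD_of_relax (k₁ := 0) (k₂ := 0) (k₃ := 1) (n := 16) (posD_of_check (c := ⟨222, ⟨4, 3, 8, 4⟩⟩) (by decide +kernel))

def tC51_zU0 : PosD ⟨⟨0, 1, 1⟩, ⟨98, 99, 147⟩, ⟨9444, 9630, 30000⟩, ⟨1446, 1467, 1000⟩⟩ (tC51.hZU false) :=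
  posD_of_check (c := ⟨222, ⟨4, 3, 8, 4⟩⟩) (by decide +kernel)

def tC51_eL0 : PosD ⟨⟨0, 1, 1⟩, ⟨98, 99, 147⟩, ⟨9444, 9630, 30000⟩, ⟨1446, 1467, 1000⟩⟩ (tC51.hEL false) :=
  posD_of_check (c := ⟨316, ⟨5, 6, 11, 6⟩⟩) (by decide +kernel)

def tC51_eH0 : PosD ⟨⟨0, 1, 1⟩, ⟨98, 99, 147⟩, ⟨9444, 9630, 30000⟩, ⟨1446, 1467, 1000⟩⟩ (tC51.hEH false) :=
  posD_of_relax (k₁ := 0) (k₂ := 0) (k₃ := 1) (n := 16) (posD_of_check (c := ⟨314, ⟨5, 6, 11, 6⟩⟩) (by decide +kernel))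

def tC51_pL0 : PosD ⟨⟨0, 1, 1⟩, ⟨98, 99, 147⟩, ⟨9444, 9630, 30000⟩, ⟨1446, 1467, 1000⟩⟩ (tC51.hPL false) :=
  posD_of_check (c := ⟨342, ⟨5, 6, 11, 7⟩⟩) (by decide +kernel)

def tC51_pU0 : PosD ⟨⟨0, 1, 1⟩, ⟨98, 99, 147⟩, ⟨9444, 9630, 30000⟩, ⟨1446, 1467, 1000⟩⟩ (tC51.hPU false) :=
  posD_of_check (c := ⟨340, ⟨5, 6, 11, 7⟩⟩) (by decide +kernel)

def tC51_kU0 : PosD ⟨⟨0, 1, 1⟩, ⟨98, 99, 147⟩, ⟨9444, 9630, 30000⟩, ⟨1446, 1467, 1000⟩⟩ (tC51.hKU false) :=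
  posD_of_check (c := ⟨340, ⟨5, 6, 11, 7⟩⟩) (by decide +kernel)

def tC51_kL0 : PosD ⟨⟨0, 1, 1⟩, ⟨98, 99, 147⟩, ⟨9444, 9630, 30000⟩, ⟨1446, 1467, 1000⟩⟩ (tC51.hKL false) :=
  posD_of_check (c := ⟨339, ⟨5, 6, 11, 7⟩⟩) (by decide +kernel)

def tC51_wU0 : PosD ⟨⟨0, 1, 1⟩, ⟨98, 99, 147⟩, ⟨9444, 9630, 30000⟩, ⟨1446, 1467, 1000⟩⟩ (tC51.hWU false) :=
  posD_of_check (c := ⟨373, ⟨5, 8, 12, 7⟩⟩) (by decide +kernel)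

def tC51_wL0 : PosD ⟨⟨0, 1, 1⟩, ⟨98, 99, 147⟩, ⟨9444, 9630, 30000⟩, ⟨1446, 1467, 1000⟩⟩ (tC51.hWL false) :=
  posD_of_check (c := ⟨374, ⟨5, 8, 12, 7⟩⟩) (by decide +kernel)

def tC51_ev1 : PosD ⟨⟨0, 1, 1⟩, ⟨98, 99, 147⟩, ⟨9444, 9630, 30000⟩, ⟨1446, 1467, 1000⟩⟩ (tC51.hEv true) :=
  posD_of_check (c := ⟨273, ⟨4, 6, 9, 6⟩⟩) (by decide +kernel)

def tC51_zL1 : PosD ⟨⟨0, 1, 1⟩, ⟨98, 99, 147⟩, ⟨9444, 9630, 30000⟩, ⟨1446, 1467, 1000⟩⟩ (tC51.hZL true) :=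
  posD_of_check (c := ⟨295, ⟨4, 7, 10, 6⟩⟩) (by decide +kernel)

def tC51_zU1 : PosD ⟨⟨0, 1, 1⟩, ⟨98, 99, 147⟩, ⟨9444, 9630, 30000⟩, ⟨1446, 1467, 1000⟩⟩ (tC51.hZU true) :=
  posD_of_check (c := ⟨297, ⟨4, 7, 10, 6⟩⟩) (by decide +kernel)

def tC51_eL1 : PosD ⟨⟨0, 1, 1⟩, ⟨98, 99, 147⟩, ⟨9444, 9630, 30000⟩, ⟨1446, 1467, 1000⟩⟩ (tC51.hEL true) :=
  posD_of_check (c := ⟨369, ⟨5, 10, 12, 8⟩⟩) (by decide +kernel)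

def tC51_eH1 : PosD ⟨⟨0, 1, 1⟩, ⟨98, 99, 147⟩, ⟨9444, 9630, 30000⟩, ⟨1446, 1467, 1000⟩⟩ (tC51.hEH true) :=
  posD_of_check (c := ⟨368, ⟨5, 10, 12, 8⟩⟩) (by decide +kernel)

def tC51_pL1 : PosD ⟨⟨0, 1, 1⟩, ⟨98, 99, 147⟩, ⟨9444, 9630, 30000⟩, ⟨1446, 1467, 1000⟩⟩ (tC51.hPL true) :=
  posD_of_relax (k₁ := 0) (k₂ := 0) (k₃ := 1) (n := 16) (posD_of_check (c := ⟨396, ⟨5, 10, 12, 9⟩⟩) (by decide +kernel))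

def tC51_pU1 : PosD ⟨⟨0, 1, 1⟩, ⟨98, 99, 147⟩, ⟨9444, 9630, 30000⟩, ⟨1446, 1467, 1000⟩⟩ (tC51.hPU true) :=
  posD_of_check (c := ⟨394, ⟨5, 10, 12, 9⟩⟩) (by decide +kernel)

def tC51_kU1 : PosD ⟨⟨0, 1, 1⟩, ⟨98, 99, 147⟩, ⟨9444, 9630, 30000⟩, ⟨1446, 1467, 1000⟩⟩ (tC51.hKU true) :=
  posD_of_check (c := ⟨393, ⟨5, 10, 12, 9⟩⟩) (by decide +kernel)

def tC51_kL1 : PosD ⟨⟨0, 1, 1⟩, ⟨98, 99, 147⟩, ⟨9444, 9630, 30000⟩, ⟨1446, 1467, 1000⟩⟩ (tC51.hKL true) :=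
  posD_of_check (c := ⟨392, ⟨5, 10, 12, 9⟩⟩) (by decide +kernel)

def tC51_wU1 : PosD ⟨⟨0, 1, 1⟩, ⟨98, 99, 147⟩, ⟨9444, 9630, 30000⟩, ⟨1446, 1467, 1000⟩⟩ (tC51.hWU true) :=
  posD_of_check (c := ⟨426, ⟨5, 12, 13, 9⟩⟩) (by decide +kernel)

def tC51_wL1 : PosD ⟨⟨0, 1, 1⟩, ⟨98, 99, 147⟩, ⟨9444, 9630, 30000⟩, ⟨1446, 1467, 1000⟩⟩ (tC51.hWL true) :=
  posD_of_check (c := ⟨428, ⟨5, 12, 13, 9⟩⟩) (by decide +kernel)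

/-- The bounds of the piece. -/
def tC51_env : tC51.Env ⟨⟨0, 1, 1⟩, ⟨98, 99, 147⟩, ⟨9444, 9630, 30000⟩, ⟨1446, 1467, 1000⟩⟩ :=
  ⟨tC51_p0, Bool.forall_bool.2 ⟨tC51_den0, tC51_den1⟩, tC51_gn, Bool.forall_bool.2 ⟨tC51_ev0, tC51_ev1⟩, Bool.forall_bool.2 ⟨tC51_zL0, tC51_zL1⟩, Bool.forall_bool.2 ⟨tC51_zU0, tC51_zU1⟩, Bool.forall_bool.2 ⟨tC51_eL0, tC51_eL1⟩, ⟨.inr rfl, .inr rfl⟩, Bool.forall_bool.2 ⟨tC51_eH0, tC51_eH1⟩, ⟨.inr rfl, .inr rfl⟩, Bool.forall_bool.2 ⟨tC51_pL0, tC51_pL1⟩, ⟨.inr rfl, .inr rfl⟩, Bool.forall_bool.2 ⟨tC51_pU0, tC51_pU1⟩, ⟨.inr rfl, .inr rfl⟩, Bool.forall_bool.2 ⟨tC51_kU0, tC51_kU1⟩, ⟨.inr rfl, .inr rfl⟩, Bool.forall_bool.2 ⟨tC51_kL0, tC51_kL1⟩, ⟨.inr rfl, .inr rfl⟩, Bool.forall_bool.2 ⟨tC51_wU0, tC51_wU1⟩,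 ⟨.inr rfl, .inr rfl⟩, Bool.forall_bool.2 ⟨tC51_wL0, tC51_wL1⟩, ⟨.inr rfl, .inr rfl⟩⟩

def tC51_pU20 : PosD ⟨⟨0, 1, 1⟩, ⟨98, 99, 147⟩, ⟨9444, 9630, 30000⟩, ⟨1446, 1467, 1000⟩⟩ (({ tC51 with pU := tC51PU } : Piece).hPU false) :=
  posD_of_check (c := ⟨345, ⟨5, 6, 11, 7⟩⟩) (by decide +kernel)

def tC51_pU21 : PosD ⟨⟨0, 1, 1⟩, ⟨98, 99, 147⟩, ⟨9444, 9630, 30000⟩, ⟨1446, 1467, 1000⟩⟩ (({ tC51 with pU := tC51PU } : Piece).hPU true) :=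
  posD_of_check (c := ⟨399, ⟨5, 10, 12, 9⟩⟩) (by decide +kernel)

def tC51_nupU2 : PosD ⟨⟨0, 1, 1⟩, ⟨98, 99, 147⟩, ⟨9444, 9630, 30000⟩, ⟨1446, 1467, 1000⟩⟩ (tC51PU.ν) :=
  posD_of_check (c := ⟨35, ⟨0, 0, 0, 1⟩⟩) (by decide +kernel)

/-- The bounds with the other bound of `p`. -/
def tC51_envU : ({ tC51 with pU := tC51PU } : Piece).Env ⟨⟨0, 1, 1⟩, ⟨98, 99, 147⟩, ⟨9444, 9630, 30000⟩, ⟨1446, 1467, 1000⟩⟩ :=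
  tC51_env.withU tC51PU (Bool.forall_bool.2 ⟨tC51_pU20, tC51_pU21⟩) ⟨.inr rfl, .inl tC51_nupU2⟩

def tC51A_pp : PosD ⟨⟨0, 1, 1⟩, ⟨98, 99, 147⟩, ⟨9444, 9630, 30000⟩, ⟨1446, 1467, 1000⟩⟩ (tC51A.xPL) :=
  posD_of_check (c := ⟨99, ⟨1, 1, 3, 3⟩⟩) (by decide +kernel)

def tC51A_k2p : PosD ⟨⟨0, 1, 1⟩, ⟨98, 99, 147⟩, ⟨9444, 9630, 30000⟩, ⟨1446, 1467, 1000⟩⟩ (tC51A.k2p tC51A.xE) :=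
  posD_of_check (c := ⟨74, ⟨1, 1, 2, 2⟩⟩) (by decide +kernel)

def tC51A_k2m : PosD ⟨⟨0, 1, 1⟩, ⟨98, 99, 147⟩, ⟨9444, 9630, 30000⟩, ⟨1446, 1467, 1000⟩⟩ (tC51A.k2m tC51A.xE) :=
  posD_of_check (c := ⟨31, ⟨0, 0, 1, 1⟩⟩) (by decide +kernel)

def tC51A_v2p : PosD ⟨⟨0, 1, 1⟩, ⟨98, 99, 147⟩, ⟨9444, 9630, 30000⟩, ⟨1446, 1467, 1000⟩⟩ (tC51A.hV2p) :=
  posD_of_check (c := ⟨275, ⟨1, 6, 10, 5⟩⟩) (by decide +kernel)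

def tC51A_v2m : PosD ⟨⟨0, 1, 1⟩, ⟨98, 99, 147⟩, ⟨9444, 9630, 30000⟩, ⟨1446, 1467, 1000⟩⟩ (tC51A.hV2m) :=
  posD_of_check (c := ⟨245, ⟨0, 5, 10, 4⟩⟩) (by decide +kernel)

def tC51A_v3p : PosD ⟨⟨0, 1, 1⟩, ⟨98, 99, 147⟩, ⟨9444, 9630, 30000⟩, ⟨1446, 1467, 1000⟩⟩ (tC51A.hV3p) :=
  posD_of_check (c := ⟨260, ⟨1, 6, 9, 5⟩⟩) (by decide +kernel)

def tC51A_v3m : PosD ⟨⟨0, 1, 1⟩, ⟨98, 99, 147⟩, ⟨9444, 9630, 30000⟩, ⟨1446, 1467, 1000⟩⟩ (tC51A.hV3m) :=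
  posD_of_check (c := ⟨232, ⟨0, 5, 9, 4⟩⟩) (by decide +kernel)

def tC51A_kap0 : PosD ⟨⟨0, 1, 1⟩, ⟨98, 99, 147⟩, ⟨9444, 9630, 30000⟩, ⟨1446, 1467, 1000⟩⟩ (tC51A.kap false) :=
  posD_of_check (c := ⟨72, ⟨1, 1, 2, 2⟩⟩) (by decide +kernel)

def tC51A_c10 : PosD ⟨⟨0, 1, 1⟩, ⟨98, 99, 147⟩, ⟨9444, 9630, 30000⟩, ⟨1446, 1467, 1000⟩⟩ (tC51A.hC1 false) :=
  posD_of_check (c := ⟨279, ⟨3, 5, 9, 7⟩⟩) (by decide +kernel)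

def tC51A_c1h0 : PosD ⟨⟨0, 1, 1⟩, ⟨98, 99, 147⟩, ⟨9444, 9630, 30000⟩, ⟨1446, 1467, 1000⟩⟩ (tC51A.hC1' false) :=
  posD_of_check (c := ⟨279, ⟨3, 5, 9, 7⟩⟩) (by decide +kernel)

def tC51A_tg00 : PosD ⟨⟨0, 1, 1⟩, ⟨98, 99, 147⟩, ⟨9444, 9630, 30000⟩, ⟨1446, 1467, 1000⟩⟩ (tC51A.hG false (tC51A.pEnd false)) :=
  posD_of_check (c := ⟨394, ⟨2, 7, 14, 9⟩⟩) (by decide +kernel)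

def tC51A_c2p00 : PosD ⟨⟨0, 1, 1⟩, ⟨98, 99, 147⟩, ⟨9444, 9630, 30000⟩, ⟨1446, 1467, 1000⟩⟩ (tC51A.hC2p false (tC51A.pEnd false)) :=
  posD_of_check (c := ⟨467, ⟨3, 8, 16, 11⟩⟩) (by decide +kernel)

def tC51A_c2m00 : PosD ⟨⟨0, 1, 1⟩, ⟨98, 99, 147⟩, ⟨9444, 9630, 30000⟩, ⟨1446, 1467, 1000⟩⟩ (tC51A.hC2m false (tC51A.pEnd false)) :=
  posD_of_check (c := ⟨437, ⟨2, 7, 16, 10⟩⟩) (by decide +kernel)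

def tC51A_c3p00 : PosD ⟨⟨0, 1, 1⟩, ⟨98, 99, 147⟩, ⟨9444, 9630, 30000⟩, ⟨1446, 1467, 1000⟩⟩ (tC51A.hC3p false false) :=
  posD_of_check (c := ⟨452, ⟨3, 8, 15, 11⟩⟩) (by decide +kernel)

def tC51A_c3m00 : PosD ⟨⟨0, 1, 1⟩, ⟨98, 99, 147⟩, ⟨9444, 9630, 30000⟩, ⟨1446, 1467, 1000⟩⟩ (tC51A.hC3m false false) :=
  posD_of_check (c := ⟨428, ⟨3, 7, 15, 10⟩⟩) (by decide +kernel)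

def tC51A_c3ph00 : PosD ⟨⟨0, 1, 1⟩, ⟨98, 99, 147⟩, ⟨9444, 9630, 30000⟩, ⟨1446, 1467, 1000⟩⟩ (tC51A.hC3p' false false) :=
  posD_of_check (c := ⟨452, ⟨3, 8, 15, 11⟩⟩) (by decide +kernel)

def tC51A_c3mh00 : PosD ⟨⟨0, 1, 1⟩, ⟨98, 99, 147⟩, ⟨9444, 9630, 30000⟩, ⟨1446, 1467, 1000⟩⟩ (tC51A.hC3m' false false) :=
  posD_of_check (c := ⟨427, ⟨3, 7, 15, 10⟩⟩) (by decide +kernel)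

def tC51A_up00 : PosD ⟨⟨0, 1, 1⟩, ⟨98, 99, 147⟩, ⟨9444, 9630, 30000⟩, ⟨1446, 1467, 1000⟩⟩ (tC51A.hUp false false) :=
  posD_of_check (c := ⟨452, ⟨3, 8, 15, 11⟩⟩) (by decide +kernel)

def tC51A_um00 : PosD ⟨⟨0, 1, 1⟩, ⟨98, 99, 147⟩, ⟨9444, 9630, 30000⟩, ⟨1446, 1467, 1000⟩⟩ (tC51A.hUm false false) :=
  posD_of_check (c := ⟨425, ⟨2, 7, 15, 10⟩⟩) (by decide +kernel)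

def tC51A_tmg00 : PosD ⟨⟨0, 1, 1⟩, ⟨98, 99, 147⟩, ⟨9444, 9630, 30000⟩, ⟨1446, 1467, 1000⟩⟩ (tC51A.hTMG false (tC51A.pEnd false)) :=
  posD_of_check (c := ⟨408, ⟨2, 7, 14, 10⟩⟩) (by decide +kernel)

def tC51A_tg01 : PosD ⟨⟨0, 1, 1⟩, ⟨98, 99, 147⟩, ⟨9444, 9630, 30000⟩, ⟨1446, 1467, 1000⟩⟩ (tC51A.hG true (tC51A.pEnd false)) :=
  posD_of_check (c := ⟨394, ⟨2, 7, 14, 9⟩⟩) (by decide +kernel)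

def tC51A_c2p01 : PosD ⟨⟨0, 1, 1⟩, ⟨98, 99, 147⟩, ⟨9444, 9630, 30000⟩, ⟨1446, 1467, 1000⟩⟩ (tC51A.hC2p true (tC51A.pEnd false)) :=
  posD_of_check (c := ⟨467, ⟨3, 8, 16, 11⟩⟩) (by decide +kernel)

def tC51A_c2m01 : PosD ⟨⟨0, 1, 1⟩, ⟨98, 99, 147⟩, ⟨9444, 9630, 30000⟩, ⟨1446, 1467, 1000⟩⟩ (tC51A.hC2m true (tC51A.pEnd false)) :=
  posD_of_check (c := ⟨437, ⟨2, 7, 16, 10⟩⟩) (by decide +kernel)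

def tC51A_c3p01 : PosD ⟨⟨0, 1, 1⟩, ⟨98, 99, 147⟩, ⟨9444, 9630, 30000⟩, ⟨1446, 1467, 1000⟩⟩ (tC51A.hC3p false true) :=
  posD_of_check (c := ⟨452, ⟨3, 8, 15, 11⟩⟩) (by decide +kernel)

def tC51A_c3m01 : PosD ⟨⟨0, 1, 1⟩, ⟨98, 99, 147⟩, ⟨9444, 9630, 30000⟩, ⟨1446, 1467, 1000⟩⟩ (tC51A.hC3m false true) :=
  posD_of_check (c := ⟨428, ⟨3, 7, 15, 10⟩⟩) (by decide +kernel)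

def tC51A_c3ph01 : PosD ⟨⟨0, 1, 1⟩, ⟨98, 99, 147⟩, ⟨9444, 9630, 30000⟩, ⟨1446, 1467, 1000⟩⟩ (tC51A.hC3p' false true) :=
  posD_of_check (c := ⟨452, ⟨3, 8, 15, 11⟩⟩) (by decide +kernel)

def tC51A_c3mh01 : PosD ⟨⟨0, 1, 1⟩, ⟨98, 99, 147⟩, ⟨9444, 9630, 30000⟩, ⟨1446, 1467, 1000⟩⟩ (tC51A.hC3m' false true) :=
  posD_of_check (c := ⟨428, ⟨3, 7, 15, 10⟩⟩) (by decide +kernel)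

def tC51A_up01 : PosD ⟨⟨0, 1, 1⟩, ⟨98, 99, 147⟩, ⟨9444, 9630, 30000⟩, ⟨1446, 1467, 1000⟩⟩ (tC51A.hUp false true) :=
  posD_of_check (c := ⟨452, ⟨3, 8, 15, 11⟩⟩) (by decide +kernel)

def tC51A_um01 : PosD ⟨⟨0, 1, 1⟩, ⟨98, 99, 147⟩, ⟨9444, 9630, 30000⟩, ⟨1446, 1467, 1000⟩⟩ (tC51A.hUm false true) :=
  posD_of_check (c := ⟨425, ⟨2, 7, 15, 10⟩⟩) (by decide +kernel)

def tC51A_tmg01 : PosD ⟨⟨0, 1, 1⟩, ⟨98, 99, 147⟩, ⟨9444, 9630, 30000⟩, ⟨1446, 1467, 1000⟩⟩ (tC51A.hTMG true (tC51A.pEnd false)) :=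
  posD_of_check (c := ⟨408, ⟨2, 7, 14, 10⟩⟩) (by decide +kernel)

def tC51A_kap1 : PosD ⟨⟨0, 1, 1⟩, ⟨98, 99, 147⟩, ⟨9444, 9630, 30000⟩, ⟨1446, 1467, 1000⟩⟩ (tC51A.kap true) :=
  posD_of_check (c := ⟨72, ⟨1, 1, 2, 2⟩⟩) (by decide +kernel)

def tC51A_c11 : PosD ⟨⟨0, 1, 1⟩, ⟨98, 99, 147⟩, ⟨9444, 9630, 30000⟩, ⟨1446, 1467, 1000⟩⟩ (tC51A.hC1 true) :=
  posD_of_check (c := ⟨276, ⟨3, 5, 9, 7⟩⟩) (by decide +kernel)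

def tC51A_c1h1 : PosD ⟨⟨0, 1, 1⟩, ⟨98, 99, 147⟩, ⟨9444, 9630, 30000⟩, ⟨1446, 1467, 1000⟩⟩ (tC51A.hC1' true) :=
  posD_of_check (c := ⟨276, ⟨3, 5, 9, 7⟩⟩) (by decide +kernel)

def tC51A_tg10 : PosD ⟨⟨0, 1, 1⟩, ⟨98, 99, 147⟩, ⟨9444, 9630, 30000⟩, ⟨1446, 1467, 1000⟩⟩ (tC51A.hG false (tC51A.pEnd true)) :=
  posD_of_check (c := ⟨388, ⟨2, 7, 14, 9⟩⟩) (by decide +kernel)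

def tC51A_c2p10 : PosD ⟨⟨0, 1, 1⟩, ⟨98, 99, 147⟩, ⟨9444, 9630, 30000⟩, ⟨1446, 1467, 1000⟩⟩ (tC51A.hC2p false (tC51A.pEnd true)) :=
  posD_of_check (c := ⟨461, ⟨3, 8, 16, 11⟩⟩) (by decide +kernel)

def tC51A_c2m10 : PosD ⟨⟨0, 1, 1⟩, ⟨98, 99, 147⟩, ⟨9444, 9630, 30000⟩, ⟨1446, 1467, 1000⟩⟩ (tC51A.hC2m false (tC51A.pEnd true)) :=
  posD_of_check (c := ⟨432, ⟨2, 7, 16, 10⟩⟩) (by decide +kernel)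

def tC51A_c3p10 : PosD ⟨⟨0, 1, 1⟩, ⟨98, 99, 147⟩, ⟨9444, 9630, 30000⟩, ⟨1446, 1467, 1000⟩⟩ (tC51A.hC3p true false) :=
  posD_of_check (c := ⟨448, ⟨3, 8, 15, 11⟩⟩) (by decide +kernel)

def tC51A_c3m10 : PosD ⟨⟨0, 1, 1⟩, ⟨98, 99, 147⟩, ⟨9444, 9630, 30000⟩, ⟨1446, 1467, 1000⟩⟩ (tC51A.hC3m true false) :=
  posD_of_check (c := ⟨424, ⟨3, 7, 15, 10⟩⟩) (by decide +kernel)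

def tC51A_c3ph10 : PosD ⟨⟨0, 1, 1⟩, ⟨98, 99, 147⟩, ⟨9444, 9630, 30000⟩, ⟨1446, 1467, 1000⟩⟩ (tC51A.hC3p' true false) :=
  posD_of_check (c := ⟨448, ⟨3, 8, 15, 11⟩⟩) (by decide +kernel)

def tC51A_c3mh10 : PosD ⟨⟨0, 1, 1⟩, ⟨98, 99, 147⟩, ⟨9444, 9630, 30000⟩, ⟨1446, 1467, 1000⟩⟩ (tC51A.hC3m' true false) :=
  posD_of_check (c := ⟨424, ⟨3, 7, 15, 10⟩⟩) (by decide +kernel)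

def tC51A_up10 : PosD ⟨⟨0, 1, 1⟩, ⟨98, 99, 147⟩, ⟨9444, 9630, 30000⟩, ⟨1446, 1467, 1000⟩⟩ (tC51A.hUp true false) :=
  posD_of_check (c := ⟨446, ⟨3, 8, 15, 11⟩⟩) (by decide +kernel)

def tC51A_um10 : PosD ⟨⟨0, 1, 1⟩, ⟨98, 99, 147⟩, ⟨9444, 9630, 30000⟩, ⟨1446, 1467, 1000⟩⟩ (tC51A.hUm true false) :=
  posD_of_check (c := ⟨420, ⟨2, 7, 15, 10⟩⟩) (by decide +kernel)

def tC51A_tmg10 : PosD ⟨⟨0, 1, 1⟩, ⟨98, 99, 147⟩, ⟨9444, 9630, 30000⟩, ⟨1446, 1467, 1000⟩⟩ (tC51A.hTMG false (tC51A.pEnd true)) :=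
  posD_of_check (c := ⟨404, ⟨2, 7, 14, 10⟩⟩) (by decide +kernel)

def tC51A_tg11 : PosD ⟨⟨0, 1, 1⟩, ⟨98, 99, 147⟩, ⟨9444, 9630, 30000⟩, ⟨1446, 1467, 1000⟩⟩ (tC51A.hG true (tC51A.pEnd true)) :=
  posD_of_check (c := ⟨388, ⟨2, 7, 14, 9⟩⟩) (by decide +kernel)

def tC51A_c2p11 : PosD ⟨⟨0, 1, 1⟩, ⟨98, 99, 147⟩, ⟨9444, 9630, 30000⟩, ⟨1446, 1467, 1000⟩⟩ (tC51A.hC2p true (tC51A.pEnd true)) :=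
  posD_of_check (c := ⟨461, ⟨3, 8, 16, 11⟩⟩) (by decide +kernel)

def tC51A_c2m11 : PosD ⟨⟨0, 1, 1⟩, ⟨98, 99, 147⟩, ⟨9444, 9630, 30000⟩, ⟨1446, 1467, 1000⟩⟩ (tC51A.hC2m true (tC51A.pEnd true)) :=
  posD_of_check (c := ⟨432, ⟨2, 7, 16, 10⟩⟩) (by decide +kernel)

def tC51A_c3p11 : PosD ⟨⟨0, 1, 1⟩, ⟨98, 99, 147⟩, ⟨9444, 9630, 30000⟩, ⟨1446, 1467, 1000⟩⟩ (tC51A.hC3p true true) :=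
  posD_of_check (c := ⟨448, ⟨3, 8, 15, 11⟩⟩) (by decide +kernel)

def tC51A_c3m11 : PosD ⟨⟨0, 1, 1⟩, ⟨98, 99, 147⟩, ⟨9444, 9630, 30000⟩, ⟨1446, 1467, 1000⟩⟩ (tC51A.hC3m true true) :=
  posD_of_check (c := ⟨424, ⟨3, 7, 15, 10⟩⟩) (by decide +kernel)

def tC51A_c3ph11 : PosD ⟨⟨0, 1, 1⟩, ⟨98, 99, 147⟩, ⟨9444, 9630, 30000⟩, ⟨1446, 1467, 1000⟩⟩ (tC51A.hC3p' true true) :=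
  posD_of_check (c := ⟨448, ⟨3, 8, 15, 11⟩⟩) (by decide +kernel)

def tC51A_c3mh11 : PosD ⟨⟨0, 1, 1⟩, ⟨98, 99, 147⟩, ⟨9444, 9630, 30000⟩, ⟨1446, 1467, 1000⟩⟩ (tC51A.hC3m' true true) :=
  posD_of_check (c := ⟨424, ⟨3, 7, 15, 10⟩⟩) (by decide +kernel)

def tC51A_up11 : PosD ⟨⟨0, 1, 1⟩, ⟨98, 99, 147⟩, ⟨9444, 9630, 30000⟩, ⟨1446, 1467, 1000⟩⟩ (tC51A.hUp true true) :=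
  posD_of_check (c := ⟨447, ⟨3, 8, 15, 11⟩⟩) (by decide +kernel)

def tC51A_um11 : PosD ⟨⟨0, 1, 1⟩, ⟨98, 99, 147⟩, ⟨9444, 9630, 30000⟩, ⟨1446, 1467, 1000⟩⟩ (tC51A.hUm true true) :=
  posD_of_check (c := ⟨420, ⟨2, 7, 15, 10⟩⟩) (by decide +kernel)

def tC51A_tmg11 : PosD ⟨⟨0, 1, 1⟩, ⟨98, 99, 147⟩, ⟨9444, 9630, 30000⟩, ⟨1446, 1467, 1000⟩⟩ (tC51A.hTMG true (tC51A.pEnd true)) :=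
  posD_of_check (c := ⟨404, ⟨2, 7, 14, 10⟩⟩) (by decide +kernel)

/-- The signs of the piece. -/
def tC51A_sign : tC51A.Sign ⟨⟨0, 1, 1⟩, ⟨98, 99, 147⟩, ⟨9444, 9630, 30000⟩, ⟨1446, 1467, 1000⟩⟩ :=
  ⟨tC51A_pp,
    tC51A_k2p,
    tC51A_k2m,
    Bool.forall_bool.2 ⟨(Bool.forall_bool.2 ⟨tC51A_tg00, tC51A_tg01⟩), (Bool.forall_bool.2 ⟨tC51A_tg10, tC51A_tg11⟩)⟩,
    Bool.forall_bool.2 ⟨(Bool.forall_bool.2 ⟨tC51A_c2p00, tC51A_c2p01⟩), (Bool.forall_bool.2 ⟨tC51A_c2p10, tC51A_c2p11⟩)⟩,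
    Bool.forall_bool.2 ⟨(Bool.forall_bool.2 ⟨tC51A_c2m00, tC51A_c2m01⟩), (Bool.forall_bool.2 ⟨tC51A_c2m10, tC51A_c2m11⟩)⟩,
    Bool.forall_bool.2 ⟨tC51A_kap0, tC51A_kap1⟩,
    Bool.forall_bool.2 ⟨tC51A_c10, tC51A_c11⟩,
    Bool.forall_bool.2 ⟨(Bool.forall_bool.2 ⟨tC51A_c3p00, tC51A_c3p01⟩), (Bool.forall_bool.2 ⟨tC51A_c3p10, tC51A_c3p11⟩)⟩,
    Bool.forall_bool.2 ⟨(Bool.forall_bool.2 ⟨tC51A_c3m00, tC51A_c3m01⟩), (Bool.forall_bool.2 ⟨tC51A_c3m10, tC51A_c3m11⟩)⟩,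
    Bool.forall_bool.2 ⟨(Bool.forall_bool.2 ⟨tC51A_tmg00, tC51A_tmg01⟩), (Bool.forall_bool.2 ⟨tC51A_tmg10, tC51A_tmg11⟩)⟩,
    .inr (Bool.forall_bool.2 ⟨⟨tC51A_c1h0, Bool.forall_bool.2 ⟨⟨tC51A_c3ph00, tC51A_c3mh00, tC51A_up00, tC51A_um00⟩, ⟨tC51A_c3ph01, tC51A_c3mh01, tC51A_up01, tC51A_um01⟩⟩⟩, ⟨tC51A_c1h1, Bool.forall_bool.2 ⟨⟨tC51A_c3ph10, tC51A_c3mh10, tC51A_up10, tC51A_um10⟩, ⟨tC51A_c3ph11, tC51A_c3mh11, tC51A_up11, tC51A_um11⟩⟩⟩⟩),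
    tC51A_v2p,
    tC51A_v2m,
    tC51A_v3p,
    tC51A_v3m,
    posD_sub (b := ⟨⟨0, 1, 1⟩, ⟨98, 99, 147⟩, ⟨4050, 10000, 30000⟩, ⟨290, 4000, 1000⟩⟩) (by decide +kernel) tC_vG,
    posD_sub (b := ⟨⟨0, 1, 1⟩, ⟨98, 99, 147⟩, ⟨4050, 10000, 30000⟩, ⟨290, 4000, 1000⟩⟩) (by decide +kernel) tC_vMG,
    posD_sub (b := ⟨⟨0, 1, 1⟩, ⟨98, 99, 147⟩, ⟨4050, 10000, 30000⟩, ⟨290, 4000, 1000⟩⟩) (by decide +kernel) tC_ak,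
    posD_sub (b := ⟨⟨0, 1, 1⟩, ⟨98, 99, 147⟩, ⟨4050, 10000, 30000⟩, ⟨290, 4000, 1000⟩⟩) (by decide +kernel) tC_aw,
    posD_sub (b := ⟨⟨0, 1, 1⟩, ⟨98, 99, 147⟩, ⟨4050, 10000, 30000⟩, ⟨290, 4000, 1000⟩⟩) (by decide +kernel) tC_gk,
    posD_sub (b := ⟨⟨0, 1, 1⟩, ⟨98, 99, 147⟩, ⟨4050, 10000, 30000⟩, ⟨290, 4000, 1000⟩⟩) (by decide +kernel) tC_gw,
    posD_sub (b := ⟨⟨0, 1, 1⟩, ⟨98, 99, 147⟩, ⟨4050, 10000, 30000⟩, ⟨290, 4000, 1000⟩⟩) (by decide +kernel) tC_ek,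
    posD_sub (b := ⟨⟨0, 1, 1⟩, ⟨98, 99, 147⟩, ⟨4050, 10000, 30000⟩, ⟨290, 4000, 1000⟩⟩) (by decide +kernel) tC_ew⟩

def tC51B_pp : PosD ⟨⟨0, 1, 1⟩, ⟨98, 99, 147⟩, ⟨9444, 9630, 30000⟩, ⟨1446, 1467, 1000⟩⟩ (tC51B.xPL) :=
  posD_of_check (c := ⟨97, ⟨1, 1, 3, 3⟩⟩) (by decide +kernel)

def tC51B_k2p : PosD ⟨⟨0, 1, 1⟩, ⟨98, 99, 147⟩, ⟨9444, 9630, 30000⟩, ⟨1446, 1467, 1000⟩⟩ (tC51B.k2p tC51B.xE) :=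
  posD_of_check (c := ⟨72, ⟨1, 1, 2, 2⟩⟩) (by decide +kernel)

def tC51B_k2m : PosD ⟨⟨0, 1, 1⟩, ⟨98, 99, 147⟩, ⟨9444, 9630, 30000⟩, ⟨1446, 1467, 1000⟩⟩ (tC51B.k2m tC51B.xE) :=
  posD_of_check (c := ⟨31, ⟨0, 0, 1, 1⟩⟩) (by decide +kernel)

def tC51B_v2p : PosD ⟨⟨0, 1, 1⟩, ⟨98, 99, 147⟩, ⟨9444, 9630, 30000⟩, ⟨1446, 1467, 1000⟩⟩ (tC51B.hV2p) :=
  posD_of_check (c := ⟨274, ⟨1, 6, 10, 5⟩⟩) (by decide +kernel)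

def tC51B_v2m : PosD ⟨⟨0, 1, 1⟩, ⟨98, 99, 147⟩, ⟨9444, 9630, 30000⟩, ⟨1446, 1467, 1000⟩⟩ (tC51B.hV2m) :=
  posD_of_check (c := ⟨245, ⟨0, 5, 10, 4⟩⟩) (by decide +kernel)

def tC51B_v3p : PosD ⟨⟨0, 1, 1⟩, ⟨98, 99, 147⟩, ⟨9444, 9630, 30000⟩, ⟨1446, 1467, 1000⟩⟩ (tC51B.hV3p) :=
  posD_of_check (c := ⟨258, ⟨1, 6, 9, 5⟩⟩) (by decide +kernel)

def tC51B_v3m : PosD ⟨⟨0, 1, 1⟩, ⟨98, 99, 147⟩, ⟨9444, 9630, 30000⟩, ⟨1446, 1467, 1000⟩⟩ (tC51B.hV3m) :=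
  posD_of_check (c := ⟨232, ⟨0, 5, 9, 4⟩⟩) (by decide +kernel)

def tC51B_kap0 : PosD ⟨⟨0, 1, 1⟩, ⟨98, 99, 147⟩, ⟨9444, 9630, 30000⟩, ⟨1446, 1467, 1000⟩⟩ (tC51B.kap false) :=
  posD_of_check (c := ⟨71, ⟨1, 1, 2, 2⟩⟩) (by decide +kernel)

def tC51B_c10 : PosD ⟨⟨0, 1, 1⟩, ⟨98, 99, 147⟩, ⟨9444, 9630, 30000⟩, ⟨1446, 1467, 1000⟩⟩ (tC51B.hC1 false) :=
  posD_of_check (c := ⟨275, ⟨3, 5, 9, 7⟩⟩) (by decide +kernel)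

def tC51B_c1h0 : PosD ⟨⟨0, 1, 1⟩, ⟨98, 99, 147⟩, ⟨9444, 9630, 30000⟩, ⟨1446, 1467, 1000⟩⟩ (tC51B.hC1' false) :=
  posD_of_check (c := ⟨275, ⟨3, 5, 9, 7⟩⟩) (by decide +kernel)

def tC51B_tg00 : PosD ⟨⟨0, 1, 1⟩, ⟨98, 99, 147⟩, ⟨9444, 9630, 30000⟩, ⟨1446, 1467, 1000⟩⟩ (tC51B.hG false (tC51B.pEnd false)) :=
  posD_of_check (c := ⟨391, ⟨2, 7, 14, 9⟩⟩) (by decide +kernel)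

def tC51B_c2p00 : PosD ⟨⟨0, 1, 1⟩, ⟨98, 99, 147⟩, ⟨9444, 9630, 30000⟩, ⟨1446, 1467, 1000⟩⟩ (tC51B.hC2p false (tC51B.pEnd false)) :=
  posD_of_check (c := ⟨463, ⟨3, 8, 16, 11⟩⟩) (by decide +kernel)

def tC51B_c2m00 : PosD ⟨⟨0, 1, 1⟩, ⟨98, 99, 147⟩, ⟨9444, 9630, 30000⟩, ⟨1446, 1467, 1000⟩⟩ (tC51B.hC2m false (tC51B.pEnd false)) :=
  posD_of_check (c := ⟨434, ⟨2, 7, 16, 10⟩⟩) (by decide +kernel)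

def tC51B_c3p00 : PosD ⟨⟨0, 1, 1⟩, ⟨98, 99, 147⟩, ⟨9444, 9630, 30000⟩, ⟨1446, 1467, 1000⟩⟩ (tC51B.hC3p false false) :=
  posD_of_check (c := ⟨448, ⟨3, 8, 15, 11⟩⟩) (by decide +kernel)

def tC51B_c3m00 : PosD ⟨⟨0, 1, 1⟩, ⟨98, 99, 147⟩, ⟨9444, 9630, 30000⟩, ⟨1446, 1467, 1000⟩⟩ (tC51B.hC3m false false) :=
  posD_of_check (c := ⟨424, ⟨3, 7, 15, 10⟩⟩) (by decide +kernel)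

def tC51B_c3ph00 : PosD ⟨⟨0, 1, 1⟩, ⟨98, 99, 147⟩, ⟨9444, 9630, 30000⟩, ⟨1446, 1467, 1000⟩⟩ (tC51B.hC3p' false false) :=
  posD_of_check (c := ⟨448, ⟨3, 8, 15, 11⟩⟩) (by decide +kernel)

def tC51B_c3mh00 : PosD ⟨⟨0, 1, 1⟩, ⟨98, 99, 147⟩, ⟨9444, 9630, 30000⟩, ⟨1446, 1467, 1000⟩⟩ (tC51B.hC3m' false false) :=
  posD_of_check (c := ⟨424, ⟨3, 7, 15, 10⟩⟩) (by decide +kernel)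

def tC51B_up00 : PosD ⟨⟨0, 1, 1⟩, ⟨98, 99, 147⟩, ⟨9444, 9630, 30000⟩, ⟨1446, 1467, 1000⟩⟩ (tC51B.hUp false false) :=
  posD_of_check (c := ⟨448, ⟨3, 8, 15, 11⟩⟩) (by decide +kernel)

def tC51B_um00 : PosD ⟨⟨0, 1, 1⟩, ⟨98, 99, 147⟩, ⟨9444, 9630, 30000⟩, ⟨1446, 1467, 1000⟩⟩ (tC51B.hUm false false) :=
  posD_of_check (c := ⟨422, ⟨2, 7, 15, 10⟩⟩) (by decide +kernel)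

def tC51B_tmg00 : PosD ⟨⟨0, 1, 1⟩, ⟨98, 99, 147⟩, ⟨9444, 9630, 30000⟩, ⟨1446, 1467, 1000⟩⟩ (tC51B.hTMG false (tC51B.pEnd false)) :=
  posD_of_check (c := ⟨405, ⟨2, 7, 14, 10⟩⟩) (by decide +kernel)

def tC51B_tg01 : PosD ⟨⟨0, 1, 1⟩, ⟨98, 99, 147⟩, ⟨9444, 9630, 30000⟩, ⟨1446, 1467, 1000⟩⟩ (tC51B.hG true (tC51B.pEnd false)) :=
  posD_of_check (c := ⟨391, ⟨2, 7, 14, 9⟩⟩) (by decide +kernel)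

def tC51B_c2p01 : PosD ⟨⟨0, 1, 1⟩, ⟨98, 99, 147⟩, ⟨9444, 9630, 30000⟩, ⟨1446, 1467, 1000⟩⟩ (tC51B.hC2p true (tC51B.pEnd false)) :=
  posD_of_check (c := ⟨463, ⟨3, 8, 16, 11⟩⟩) (by decide +kernel)

def tC51B_c2m01 : PosD ⟨⟨0, 1, 1⟩, ⟨98, 99, 147⟩, ⟨9444, 9630, 30000⟩, ⟨1446, 1467, 1000⟩⟩ (tC51B.hC2m true (tC51B.pEnd false)) :=
  posD_of_check (c := ⟨435, ⟨2, 7, 16, 10⟩⟩) (by decide +kernel)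

def tC51B_c3p01 : PosD ⟨⟨0, 1, 1⟩, ⟨98, 99, 147⟩, ⟨9444, 9630, 30000⟩, ⟨1446, 1467, 1000⟩⟩ (tC51B.hC3p false true) :=
  posD_of_check (c := ⟨448, ⟨3, 8, 15, 11⟩⟩) (by decide +kernel)

def tC51B_c3m01 : PosD ⟨⟨0, 1, 1⟩, ⟨98, 99, 147⟩, ⟨9444, 9630, 30000⟩, ⟨1446, 1467, 1000⟩⟩ (tC51B.hC3m false true) :=
  posD_of_check (c := ⟨424, ⟨3, 7, 15, 10⟩⟩) (by decide +kernel)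

def tC51B_c3ph01 : PosD ⟨⟨0, 1, 1⟩, ⟨98, 99, 147⟩, ⟨9444, 9630, 30000⟩, ⟨1446, 1467, 1000⟩⟩ (tC51B.hC3p' false true) :=
  posD_of_check (c := ⟨448, ⟨3, 8, 15, 11⟩⟩) (by decide +kernel)

def tC51B_c3mh01 : PosD ⟨⟨0, 1, 1⟩, ⟨98, 99, 147⟩, ⟨9444, 9630, 30000⟩, ⟨1446, 1467, 1000⟩⟩ (tC51B.hC3m' false true) :=
  posD_of_check (c := ⟨424, ⟨3, 7, 15, 10⟩⟩) (by decide +kernel)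

def tC51B_up01 : PosD ⟨⟨0, 1, 1⟩, ⟨98, 99, 147⟩, ⟨9444, 9630, 30000⟩, ⟨1446, 1467, 1000⟩⟩ (tC51B.hUp false true) :=
  posD_of_check (c := ⟨448, ⟨3, 8, 15, 11⟩⟩) (by decide +kernel)

def tC51B_um01 : PosD ⟨⟨0, 1, 1⟩, ⟨98, 99, 147⟩, ⟨9444, 9630, 30000⟩, ⟨1446, 1467, 1000⟩⟩ (tC51B.hUm false true) :=
  posD_of_check (c := ⟨422, ⟨2, 7, 15, 10⟩⟩) (by decide +kernel)

def tC51B_tmg01 : PosD ⟨⟨0, 1, 1⟩, ⟨98, 99, 147⟩, ⟨9444, 9630, 30000⟩, ⟨1446, 1467, 1000⟩⟩ (tC51B.hTMG true (tC51B.pEnd false)) :=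
  posD_of_check (c := ⟨405, ⟨2, 7, 14, 10⟩⟩) (by decide +kernel)

def tC51B_kap1 : PosD ⟨⟨0, 1, 1⟩, ⟨98, 99, 147⟩, ⟨9444, 9630, 30000⟩, ⟨1446, 1467, 1000⟩⟩ (tC51B.kap true) :=
  posD_of_check (c := ⟨71, ⟨1, 1, 2, 2⟩⟩) (by decide +kernel)

def tC51B_c11 : PosD ⟨⟨0, 1, 1⟩, ⟨98, 99, 147⟩, ⟨9444, 9630, 30000⟩, ⟨1446, 1467, 1000⟩⟩ (tC51B.hC1 true) :=
  posD_of_check (c := ⟨272, ⟨3, 5, 9, 7⟩⟩) (by decide +kernel)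

def tC51B_c1h1 : PosD ⟨⟨0, 1, 1⟩, ⟨98, 99, 147⟩, ⟨9444, 9630, 30000⟩, ⟨1446, 1467, 1000⟩⟩ (tC51B.hC1' true) :=
  posD_of_check (c := ⟨272, ⟨3, 5, 9, 7⟩⟩) (by decide +kernel)

def tC51B_tg10 : PosD ⟨⟨0, 1, 1⟩, ⟨98, 99, 147⟩, ⟨9444, 9630, 30000⟩, ⟨1446, 1467, 1000⟩⟩ (tC51B.hG false (tC51B.pEnd true)) :=
  posD_of_check (c := ⟨387, ⟨2, 7, 14, 9⟩⟩) (by decide +kernel)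

def tC51B_c2p10 : PosD ⟨⟨0, 1, 1⟩, ⟨98, 99, 147⟩, ⟨9444, 9630, 30000⟩, ⟨1446, 1467, 1000⟩⟩ (tC51B.hC2p false (tC51B.pEnd true)) :=
  posD_of_check (c := ⟨458, ⟨3, 8, 16, 11⟩⟩) (by decide +kernel)

def tC51B_c2m10 : PosD ⟨⟨0, 1, 1⟩, ⟨98, 99, 147⟩, ⟨9444, 9630, 30000⟩, ⟨1446, 1467, 1000⟩⟩ (tC51B.hC2m false (tC51B.pEnd true)) :=
  posD_of_check (c := ⟨430, ⟨2, 7, 16, 10⟩⟩) (by decide +kernel)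

def tC51B_c3p10 : PosD ⟨⟨0, 1, 1⟩, ⟨98, 99, 147⟩, ⟨9444, 9630, 30000⟩, ⟨1446, 1467, 1000⟩⟩ (tC51B.hC3p true false) :=
  posD_of_check (c := ⟨445, ⟨3, 8, 15, 11⟩⟩) (by decide +kernel)

def tC51B_c3m10 : PosD ⟨⟨0, 1, 1⟩, ⟨98, 99, 147⟩, ⟨9444, 9630, 30000⟩, ⟨1446, 1467, 1000⟩⟩ (tC51B.hC3m true false) :=
  posD_of_check (c := ⟨421, ⟨3, 7, 15, 10⟩⟩) (by decide +kernel)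

def tC51B_c3ph10 : PosD ⟨⟨0, 1, 1⟩, ⟨98, 99, 147⟩, ⟨9444, 9630, 30000⟩, ⟨1446, 1467, 1000⟩⟩ (tC51B.hC3p' true false) :=
  posD_of_check (c := ⟨445, ⟨3, 8, 15, 11⟩⟩) (by decide +kernel)

def tC51B_c3mh10 : PosD ⟨⟨0, 1, 1⟩, ⟨98, 99, 147⟩, ⟨9444, 9630, 30000⟩, ⟨1446, 1467, 1000⟩⟩ (tC51B.hC3m' true false) :=
  posD_of_check (c := ⟨421, ⟨3, 7, 15, 10⟩⟩) (by decide +kernel)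

def tC51B_up10 : PosD ⟨⟨0, 1, 1⟩, ⟨98, 99, 147⟩, ⟨9444, 9630, 30000⟩, ⟨1446, 1467, 1000⟩⟩ (tC51B.hUp true false) :=
  posD_of_check (c := ⟨444, ⟨3, 8, 15, 11⟩⟩) (by decide +kernel)

def tC51B_um10 : PosD ⟨⟨0, 1, 1⟩, ⟨98, 99, 147⟩, ⟨9444, 9630, 30000⟩, ⟨1446, 1467, 1000⟩⟩ (tC51B.hUm true false) :=
  posD_of_check (c := ⟨419, ⟨2, 7, 15, 10⟩⟩) (by decide +kernel)

def tC51B_tmg10 : PosD ⟨⟨0, 1, 1⟩, ⟨98, 99, 147⟩, ⟨9444, 9630, 30000⟩, ⟨1446, 1467, 1000⟩⟩ (tC51B.hTMG false (tC51B.pEnd true)) :=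
  posD_of_check (c := ⟨403, ⟨2, 7, 14, 10⟩⟩) (by decide +kernel)

def tC51B_tg11 : PosD ⟨⟨0, 1, 1⟩, ⟨98, 99, 147⟩, ⟨9444, 9630, 30000⟩, ⟨1446, 1467, 1000⟩⟩ (tC51B.hG true (tC51B.pEnd true)) :=
  posD_of_check (c := ⟨387, ⟨2, 7, 14, 9⟩⟩) (by decide +kernel)

def tC51B_c2p11 : PosD ⟨⟨0, 1, 1⟩, ⟨98, 99, 147⟩, ⟨9444, 9630, 30000⟩, ⟨1446, 1467, 1000⟩⟩ (tC51B.hC2p true (tC51B.pEnd true)) :=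
  posD_of_check (c := ⟨459, ⟨3, 8, 16, 11⟩⟩) (by decide +kernel)

def tC51B_c2m11 : PosD ⟨⟨0, 1, 1⟩, ⟨98, 99, 147⟩, ⟨9444, 9630, 30000⟩, ⟨1446, 1467, 1000⟩⟩ (tC51B.hC2m true (tC51B.pEnd true)) :=
  posD_of_check (c := ⟨431, ⟨2, 7, 16, 10⟩⟩) (by decide +kernel)

def tC51B_c3p11 : PosD ⟨⟨0, 1, 1⟩, ⟨98, 99, 147⟩, ⟨9444, 9630, 30000⟩, ⟨1446, 1467, 1000⟩⟩ (tC51B.hC3p true true) :=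
  posD_of_check (c := ⟨445, ⟨3, 8, 15, 11⟩⟩) (by decide +kernel)

def tC51B_c3m11 : PosD ⟨⟨0, 1, 1⟩, ⟨98, 99, 147⟩, ⟨9444, 9630, 30000⟩, ⟨1446, 1467, 1000⟩⟩ (tC51B.hC3m true true) :=
  posD_of_check (c := ⟨421, ⟨3, 7, 15, 10⟩⟩) (by decide +kernel)

def tC51B_c3ph11 : PosD ⟨⟨0, 1, 1⟩, ⟨98, 99, 147⟩, ⟨9444, 9630, 30000⟩, ⟨1446, 1467, 1000⟩⟩ (tC51B.hC3p' true true) :=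
  posD_of_check (c := ⟨445, ⟨3, 8, 15, 11⟩⟩) (by decide +kernel)

def tC51B_c3mh11 : PosD ⟨⟨0, 1, 1⟩, ⟨98, 99, 147⟩, ⟨9444, 9630, 30000⟩, ⟨1446, 1467, 1000⟩⟩ (tC51B.hC3m' true true) :=
  posD_of_check (c := ⟨421, ⟨3, 7, 15, 10⟩⟩) (by decide +kernel)

def tC51B_up11 : PosD ⟨⟨0, 1, 1⟩, ⟨98, 99, 147⟩, ⟨9444, 9630, 30000⟩, ⟨1446, 1467, 1000⟩⟩ (tC51B.hUp true true) :=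
  posD_of_check (c := ⟨445, ⟨3, 8, 15, 11⟩⟩) (by decide +kernel)

def tC51B_um11 : PosD ⟨⟨0, 1, 1⟩, ⟨98, 99, 147⟩, ⟨9444, 9630, 30000⟩, ⟨1446, 1467, 1000⟩⟩ (tC51B.hUm true true) :=
  posD_of_check (c := ⟨419, ⟨2, 7, 15, 10⟩⟩) (by decide +kernel)

def tC51B_tmg11 : PosD ⟨⟨0, 1, 1⟩, ⟨98, 99, 147⟩, ⟨9444, 9630, 30000⟩, ⟨1446, 1467, 1000⟩⟩ (tC51B.hTMG true (tC51B.pEnd true)) :=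
  posD_of_check (c := ⟨403, ⟨2, 7, 14, 10⟩⟩) (by decide +kernel)

/-- The signs of the piece. -/
def tC51B_sign : tC51B.Sign ⟨⟨0, 1, 1⟩, ⟨98, 99, 147⟩, ⟨9444, 9630, 30000⟩, ⟨1446, 1467, 1000⟩⟩ :=
  ⟨tC51B_pp,
    tC51B_k2p,
    tC51B_k2m,
    Bool.forall_bool.2 ⟨(Bool.forall_bool.2 ⟨tC51B_tg00, tC51B_tg01⟩), (Bool.forall_bool.2 ⟨tC51B_tg10, tC51B_tg11⟩)⟩,
    Bool.forall_bool.2 ⟨(Bool.forall_bool.2 ⟨tC51B_c2p00, tC51B_c2p01⟩), (Bool.forall_bool.2 ⟨tC51B_c2p10, tC51B_c2p11⟩)⟩,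
    Bool.forall_bool.2 ⟨(Bool.forall_bool.2 ⟨tC51B_c2m00, tC51B_c2m01⟩), (Bool.forall_bool.2 ⟨tC51B_c2m10, tC51B_c2m11⟩)⟩,
    Bool.forall_bool.2 ⟨tC51B_kap0, tC51B_kap1⟩,
    Bool.forall_bool.2 ⟨tC51B_c10, tC51B_c11⟩,
    Bool.forall_bool.2 ⟨(Bool.forall_bool.2 ⟨tC51B_c3p00, tC51B_c3p01⟩), (Bool.forall_bool.2 ⟨tC51B_c3p10, tC51B_c3p11⟩)⟩,
    Bool.forall_bool.2 ⟨(Bool.forall_bool.2 ⟨tC51B_c3m00, tC51B_c3m01⟩), (Bool.forall_bool.2 ⟨tC51B_c3m10, tC51B_c3m11⟩)⟩,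
    Bool.forall_bool.2 ⟨(Bool.forall_bool.2 ⟨tC51B_tmg00, tC51B_tmg01⟩), (Bool.forall_bool.2 ⟨tC51B_tmg10, tC51B_tmg11⟩)⟩,
    .inr (Bool.forall_bool.2 ⟨⟨tC51B_c1h0, Bool.forall_bool.2 ⟨⟨tC51B_c3ph00, tC51B_c3mh00, tC51B_up00, tC51B_um00⟩, ⟨tC51B_c3ph01, tC51B_c3mh01, tC51B_up01, tC51B_um01⟩⟩⟩, ⟨tC51B_c1h1, Bool.forall_bool.2 ⟨⟨tC51B_c3ph10, tC51B_c3mh10, tC51B_up10, tC51B_um10⟩, ⟨tC51B_c3ph11, tC51B_c3mh11, tC51B_up11, tC51B_um11⟩⟩⟩⟩),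
    tC51B_v2p,
    tC51B_v2m,
    tC51B_v3p,
    tC51B_v3m,
    posD_sub (b := ⟨⟨0, 1, 1⟩, ⟨98, 99, 147⟩, ⟨4050, 10000, 30000⟩, ⟨290, 4000, 1000⟩⟩) (by decide +kernel) tC_vG,
    posD_sub (b := ⟨⟨0, 1, 1⟩, ⟨98, 99, 147⟩, ⟨4050, 10000, 30000⟩, ⟨290, 4000, 1000⟩⟩) (by decide +kernel) tC_vMG,
    posD_sub (b := ⟨⟨0, 1, 1⟩, ⟨98, 99, 147⟩, ⟨4050, 10000, 30000⟩, ⟨290, 4000, 1000⟩⟩) (by decide +kernel) tC_ak,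
    posD_sub (b := ⟨⟨0, 1, 1⟩, ⟨98, 99, 147⟩, ⟨4050, 10000, 30000⟩, ⟨290, 4000, 1000⟩⟩) (by decide +kernel) tC_aw,
    posD_sub (b := ⟨⟨0, 1, 1⟩, ⟨98, 99, 147⟩, ⟨4050, 10000, 30000⟩, ⟨290, 4000, 1000⟩⟩) (by decide +kernel) tC_gk,
    posD_sub (b := ⟨⟨0, 1, 1⟩, ⟨98, 99, 147⟩, ⟨4050, 10000, 30000⟩, ⟨290, 4000, 1000⟩⟩) (by decide +kernel) tC_gw,
    posD_sub (b := ⟨⟨0, 1, 1⟩, ⟨98, 99, 147⟩, ⟨4050, 10000, 30000⟩, ⟨290, 4000, 1000⟩⟩) (by decide +kernel) tC_ek,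
    posD_sub (b := ⟨⟨0, 1, 1⟩, ⟨98, 99, 147⟩, ⟨4050, 10000, 30000⟩, ⟨290, 4000, 1000⟩⟩) (by decide +kernel) tC_ew⟩

end Vale.Agent.P100.Calib.Closed.Six.Tail
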