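import Vale.Agent.P100.Calib.SlabSixTailDataC
import Vale.Agent.P100.Calib.SlabSixTailGlobC

/-!
# Checks of some pieces of the certificate

The checks are written as definitions so that they run one after another, which keeps the memory of the
kernel low.
-/

set_option linter.defProp false

namespace Vale.Agent.P100.Calib.Closed.Six.Tail

open BoxPos Large

local instance sixTailCheckstC38Add : Add Ex := ⟨Ex.add⟩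
local instance sixTailCheckstC38Sub : Sub Ex := ⟨Ex.sub⟩
local instance sixTailCheckstC38Mul : Mul Ex := ⟨Ex.mul⟩

def tC52_phx : PosIf ⟨⟨0, 1, 1⟩, ⟨98, 99, 147⟩, ⟨9816, 9909, 30000⟩, ⟨1446, 1456, 1000⟩⟩ (tC52.u₁ - tC52Lo) (phCn (tC52.u₁ + xO * (tC52Lo - tC52.u₁))) :=
  posIf_of_posD (posD_of_check (c := ⟨109, ⟨2, 0, 4, 2⟩⟩) (by decide +kernel))

def tC52_phd : PosD ⟨⟨0, 1, 1⟩, ⟨98, 99, 147⟩, ⟨9816, 9909, 30000⟩, ⟨1446, 1456, 1000⟩⟩ (phCd (tC52.u₁ + xO * (tC52Lo - tC52.u₁))) :=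
  posD_of_check (c := ⟨51, ⟨1, 0, 2, 1⟩⟩) (by decide +kernel)

def tC52_p0 : PosD ⟨⟨0, 1, 1⟩, ⟨98, 99, 147⟩, ⟨9816, 9909, 30000⟩, ⟨1446, 1456, 1000⟩⟩ (tC52.hP0) :=
  posD_of_check (c := ⟨67, ⟨0, 2, 2, 1⟩⟩) (by decide +kernel)

def tC52_gn : PosD ⟨⟨0, 1, 1⟩, ⟨98, 99, 147⟩, ⟨9816, 9909, 30000⟩, ⟨1446, 1456, 1000⟩⟩ (tC52.hGn) :=
  posD_of_check (c := ⟨69, ⟨1, 1, 2, 2⟩⟩) (by decide +kernel)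

def tC52_den0 : PosD ⟨⟨0, 1, 1⟩, ⟨98, 99, 147⟩, ⟨9816, 9909, 30000⟩, ⟨1446, 1456, 1000⟩⟩ (tC52.hDen false) :=
  posD_of_check (c := ⟨51, ⟨1, 0, 2, 1⟩⟩) (by decide +kernel)

def tC52_den1 : PosD ⟨⟨0, 1, 1⟩, ⟨98, 99, 147⟩, ⟨9816, 9909, 30000⟩, ⟨1446, 1456, 1000⟩⟩ (tC52.hDen true) :=
  posD_of_check (c := ⟨180, ⟨3, 4, 6, 4⟩⟩) (by decide +kernel)

def tC52_ev0 : PosD ⟨⟨0, 1, 1⟩, ⟨98, 99, 147⟩, ⟨9816, 9909, 30000⟩, ⟨1446, 1456, 1000⟩⟩ (tC52.hEv false) :=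
  posD_of_check (c := ⟨220, ⟨4, 2, 8, 4⟩⟩) (by decide +kernel)

def tC52_zL0 : PosD ⟨⟨0, 1, 1⟩, ⟨98, 99, 147⟩, ⟨9816, 9909, 30000⟩, ⟨1446, 1456, 1000⟩⟩ (tC52.hZL false) :=
  posD_of_relax (k₁ := 0) (k₂ := 0) (k₃ := 1) (n := 16) (posD_of_check (c := ⟨222, ⟨4, 3, 8, 4⟩⟩) (by decide +kernel))

def tC52_zU0 : PosD ⟨⟨0, 1, 1⟩, ⟨98, 99, 147⟩, ⟨9816, 9909, 30000⟩, ⟨1446, 1456, 1000⟩⟩ (tC52.hZU false) :=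
  posD_of_check (c := ⟨222, ⟨4, 3, 8, 4⟩⟩) (by decide +kernel)

def tC52_eL0 : PosD ⟨⟨0, 1, 1⟩, ⟨98, 99, 147⟩, ⟨9816, 9909, 30000⟩, ⟨1446, 1456, 1000⟩⟩ (tC52.hEL false) :=
  posD_of_check (c := ⟨308, ⟨5, 6, 10, 6⟩⟩) (by decide +kernel)

def tC52_eH0 : PosD ⟨⟨0, 1, 1⟩, ⟨98, 99, 147⟩, ⟨9816, 9909, 30000⟩, ⟨1446, 1456, 1000⟩⟩ (tC52.hEH false) :=
  posD_of_check (c := ⟨334, ⟨5, 6, 11, 7⟩⟩) (by decide +kernel)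

def tC52_pL0 : PosD ⟨⟨0, 1, 1⟩, ⟨98, 99, 147⟩, ⟨9816, 9909, 30000⟩, ⟨1446, 1456, 1000⟩⟩ (tC52.hPL false) :=
  posD_of_check (c := ⟨339, ⟨5, 6, 11, 6⟩⟩) (by decide +kernel)

def tC52_pU0 : PosD ⟨⟨0, 1, 1⟩, ⟨98, 99, 147⟩, ⟨9816, 9909, 30000⟩, ⟨1446, 1456, 1000⟩⟩ (tC52.hPU false) :=
  posD_of_check (c := ⟨341, ⟨5, 6, 11, 7⟩⟩) (by decide +kernel)

def tC52_kU0 : PosD ⟨⟨0, 1, 1⟩, ⟨98, 99, 147⟩, ⟨9816, 9909, 30000⟩, ⟨1446, 1456, 1000⟩⟩ (tC52.hKU false) :=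
  posD_of_check (c := ⟨341, ⟨5, 6, 11, 7⟩⟩) (by decide +kernel)

def tC52_kL0 : PosD ⟨⟨0, 1, 1⟩, ⟨98, 99, 147⟩, ⟨9816, 9909, 30000⟩, ⟨1446, 1456, 1000⟩⟩ (tC52.hKL false) :=
  posD_of_check (c := ⟨336, ⟨5, 6, 11, 6⟩⟩) (by decide +kernel)

def tC52_wU0 : PosD ⟨⟨0, 1, 1⟩, ⟨98, 99, 147⟩, ⟨9816, 9909, 30000⟩, ⟨1446, 1456, 1000⟩⟩ (tC52.hWU false) :=
  posD_of_check (c := ⟨370, ⟨5, 8, 12, 6⟩⟩) (by decide +kernel)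

def tC52_wL0 : PosD ⟨⟨0, 1, 1⟩, ⟨98, 99, 147⟩, ⟨9816, 9909, 30000⟩, ⟨1446, 1456, 1000⟩⟩ (tC52.hWL false) :=
  posD_of_check (c := ⟨372, ⟨5, 8, 12, 7⟩⟩) (by decide +kernel)

def tC52_ev1 : PosD ⟨⟨0, 1, 1⟩, ⟨98, 99, 147⟩, ⟨9816, 9909, 30000⟩, ⟨1446, 1456, 1000⟩⟩ (tC52.hEv true) :=
  posD_of_check (c := ⟨274, ⟨4, 6, 9, 6⟩⟩) (by decide +kernel)

def tC52_zL1 : PosD ⟨⟨0, 1, 1⟩, ⟨98, 99, 147⟩, ⟨9816, 9909, 30000⟩, ⟨1446, 1456, 1000⟩⟩ (tC52.hZL true) :=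
  posD_of_check (c := ⟨279, ⟨4, 7, 9, 6⟩⟩) (by decide +kernel)

def tC52_zU1 : PosD ⟨⟨0, 1, 1⟩, ⟨98, 99, 147⟩, ⟨9816, 9909, 30000⟩, ⟨1446, 1456, 1000⟩⟩ (tC52.hZU true) :=
  posD_of_check (c := ⟨279, ⟨4, 7, 9, 6⟩⟩) (by decide +kernel)

def tC52_eL1 : PosD ⟨⟨0, 1, 1⟩, ⟨98, 99, 147⟩, ⟨9816, 9909, 30000⟩, ⟨1446, 1456, 1000⟩⟩ (tC52.hEL true) :=
  posD_of_check (c := ⟨362, ⟨5, 10, 11, 8⟩⟩) (by decide +kernel)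

def tC52_eH1 : PosD ⟨⟨0, 1, 1⟩, ⟨98, 99, 147⟩, ⟨9816, 9909, 30000⟩, ⟨1446, 1456, 1000⟩⟩ (tC52.hEH true) :=
  posD_of_check (c := ⟨387, ⟨5, 10, 12, 9⟩⟩) (by decide +kernel)

def tC52_pL1 : PosD ⟨⟨0, 1, 1⟩, ⟨98, 99, 147⟩, ⟨9816, 9909, 30000⟩, ⟨1446, 1456, 1000⟩⟩ (tC52.hPL true) :=
  posD_of_relax (k₁ := 0) (k₂ := 0) (k₃ := 1) (n := 16) (posD_of_check (c := ⟨393, ⟨5, 10, 12, 8⟩⟩) (by decide +kernel))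

def tC52_pU1 : PosD ⟨⟨0, 1, 1⟩, ⟨98, 99, 147⟩, ⟨9816, 9909, 30000⟩, ⟨1446, 1456, 1000⟩⟩ (tC52.hPU true) :=
  posD_of_check (c := ⟨395, ⟨5, 10, 12, 9⟩⟩) (by decide +kernel)

def tC52_kU1 : PosD ⟨⟨0, 1, 1⟩, ⟨98, 99, 147⟩, ⟨9816, 9909, 30000⟩, ⟨1446, 1456, 1000⟩⟩ (tC52.hKU true) :=
  posD_of_check (c := ⟨395, ⟨5, 10, 12, 9⟩⟩) (by decide +kernel)

def tC52_kL1 : PosD ⟨⟨0, 1, 1⟩, ⟨98, 99, 147⟩, ⟨9816, 9909, 30000⟩, ⟨1446, 1456, 1000⟩⟩ (tC52.hKL true) :=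
  posD_of_check (c := ⟨390, ⟨5, 10, 12, 8⟩⟩) (by decide +kernel)

def tC52_wU1 : PosD ⟨⟨0, 1, 1⟩, ⟨98, 99, 147⟩, ⟨9816, 9909, 30000⟩, ⟨1446, 1456, 1000⟩⟩ (tC52.hWU true) :=
  posD_of_check (c := ⟨423, ⟨5, 12, 13, 8⟩⟩) (by decide +kernel)

def tC52_wL1 : PosD ⟨⟨0, 1, 1⟩, ⟨98, 99, 147⟩, ⟨9816, 9909, 30000⟩, ⟨1446, 1456, 1000⟩⟩ (tC52.hWL true) :=
  posD_of_check (c := ⟨425, ⟨5, 12, 13, 9⟩⟩) (by decide +kernel)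

def tC52_nueH : PosD ⟨⟨0, 1, 1⟩, ⟨98, 99, 147⟩, ⟨9816, 9909, 30000⟩, ⟨1446, 1456, 1000⟩⟩ (tC52.eH.ν) :=
  posD_of_check (c := ⟨33, ⟨0, 0, 1, 1⟩⟩) (by decide +kernel)

def tC52_nupU : PosD ⟨⟨0, 1, 1⟩, ⟨98, 99, 147⟩, ⟨9816, 9909, 30000⟩, ⟨1446, 1456, 1000⟩⟩ (tC52.pU.ν) :=
  posD_of_check (c := ⟨35, ⟨0, 0, 1, 1⟩⟩) (by decide +kernel)

def tC52_nukU : PosD ⟨⟨0, 1, 1⟩, ⟨98, 99, 147⟩, ⟨9816, 9909, 30000⟩, ⟨1446, 1456, 1000⟩⟩ (tC52.kU.ν) :=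
  posD_of_check (c := ⟨35, ⟨0, 0, 1, 1⟩⟩) (by decide +kernel)

def tC52_nuwU : PosD ⟨⟨0, 1, 1⟩, ⟨98, 99, 147⟩, ⟨9816, 9909, 30000⟩, ⟨1446, 1456, 1000⟩⟩ (tC52.wU.ν) :=
  posD_of_check (c := ⟨30, ⟨0, 0, 1, 0⟩⟩) (by decide +kernel)

def tC52_nuwL : PosD ⟨⟨0, 1, 1⟩, ⟨98, 99, 147⟩, ⟨9816, 9909, 30000⟩, ⟨1446, 1456, 1000⟩⟩ (tC52.wL.ν) :=
  posD_of_check (c := ⟨36, ⟨0, 0, 1, 1⟩⟩) (by decide +kernel)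

/-- The bounds of the piece. -/
def tC52_env : tC52.Env ⟨⟨0, 1, 1⟩, ⟨98, 99, 147⟩, ⟨9816, 9909, 30000⟩, ⟨1446, 1456, 1000⟩⟩ :=
  ⟨tC52_p0, Bool.forall_bool.2 ⟨tC52_den0, tC52_den1⟩, tC52_gn, Bool.forall_bool.2 ⟨tC52_ev0, tC52_ev1⟩, Bool.forall_bool.2 ⟨tC52_zL0, tC52_zL1⟩, Bool.forall_bool.2 ⟨tC52_zU0, tC52_zU1⟩, Bool.forall_bool.2 ⟨tC52_eL0, tC52_eL1⟩, ⟨.inr rfl, .inr rfl⟩, Bool.forall_bool.2 ⟨tC52_eH0, tC52_eH1⟩, ⟨.inr rfl, .inl tC52_nueH⟩, Bool.forall_bool.2 ⟨tC52_pL0, tC52_pL1⟩, ⟨.inr rfl, .inr rfl⟩, Bool.forall_bool.2 ⟨tC52_pU0, tC52_pU1⟩, ⟨.inr rfl, .inl tC52_nupU⟩, Bool.forall_bool.2 ⟨tC52_kU0, tC52_kU1⟩, ⟨.inr rfl, .inl tC52_nukU⟩, Bool.forall_bool.2 ⟨tC52_kL0, tC52_kL1⟩, ⟨.inr rfl, .inr rfl⟩, Bool.forall_bool.2 ⟨tC52_wU0,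 tC52_wU1⟩, ⟨.inr rfl, .inl tC52_nuwU⟩, Bool.forall_bool.2 ⟨tC52_wL0, tC52_wL1⟩, ⟨.inr rfl, .inl tC52_nuwL⟩⟩

def tC52_pp : PosD ⟨⟨0, 1, 1⟩, ⟨98, 99, 147⟩, ⟨9816, 9909, 30000⟩, ⟨1446, 1456, 1000⟩⟩ (tC52.xPL) :=
  posD_of_check (c := ⟨76, ⟨1, 1, 2, 1⟩⟩) (by decide +kernel)

def tC52_k2p : PosD ⟨⟨0, 1, 1⟩, ⟨98, 99, 147⟩, ⟨9816, 9909, 30000⟩, ⟨1446, 1456, 1000⟩⟩ (tC52.k2p tC52.xE) :=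
  posD_of_check (c := ⟨57, ⟨1, 1, 1, 1⟩⟩) (by decide +kernel)

def tC52_k2m : PosD ⟨⟨0, 1, 1⟩, ⟨98, 99, 147⟩, ⟨9816, 9909, 30000⟩, ⟨1446, 1456, 1000⟩⟩ (tC52.k2m tC52.xE) :=
  posD_of_check (c := ⟨31, ⟨0, 0, 1, 1⟩⟩) (by decide +kernel)

def tC52_v2p : PosD ⟨⟨0, 1, 1⟩, ⟨98, 99, 147⟩, ⟨9816, 9909, 30000⟩, ⟨1446, 1456, 1000⟩⟩ (tC52.hV2p) :=
  posD_of_check (c := ⟨261, ⟨1, 6, 10, 4⟩⟩) (by decide +kernel)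

def tC52_v2m : PosD ⟨⟨0, 1, 1⟩, ⟨98, 99, 147⟩, ⟨9816, 9909, 30000⟩, ⟨1446, 1456, 1000⟩⟩ (tC52.hV2m) :=
  posD_of_check (c := ⟨245, ⟨0, 5, 10, 4⟩⟩) (by decide +kernel)

def tC52_v3p : PosD ⟨⟨0, 1, 1⟩, ⟨98, 99, 147⟩, ⟨9816, 9909, 30000⟩, ⟨1446, 1456, 1000⟩⟩ (tC52.hV3p) :=
  posD_of_check (c := ⟨246, ⟨1, 6, 9, 4⟩⟩) (by decide +kernel)

def tC52_v3m : PosD ⟨⟨0, 1, 1⟩, ⟨98, 99, 147⟩, ⟨9816, 9909, 30000⟩, ⟨1446, 1456, 1000⟩⟩ (tC52.hV3m) :=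
  posD_of_check (c := ⟨232, ⟨0, 5, 9, 4⟩⟩) (by decide +kernel)

def tC52_kap0 : PosD ⟨⟨0, 1, 1⟩, ⟨98, 99, 147⟩, ⟨9816, 9909, 30000⟩, ⟨1446, 1456, 1000⟩⟩ (tC52.kap false) :=
  posD_of_check (c := ⟨54, ⟨1, 1, 1, 1⟩⟩) (by decide +kernel)

def tC52_c10 : PosD ⟨⟨0, 1, 1⟩, ⟨98, 99, 147⟩, ⟨9816, 9909, 30000⟩, ⟨1446, 1456, 1000⟩⟩ (tC52.hC1 false) :=
  posD_of_check (c := ⟨253, ⟨3, 5, 8, 4⟩⟩) (by decide +kernel)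

def tC52_c1h0 : PosD ⟨⟨0, 1, 1⟩, ⟨98, 99, 147⟩, ⟨9816, 9909, 30000⟩, ⟨1446, 1456, 1000⟩⟩ (tC52.hC1' false) :=
  posD_of_check (c := ⟨253, ⟨3, 5, 8, 4⟩⟩) (by decide +kernel)

def tC52_tg00 : PosD ⟨⟨0, 1, 1⟩, ⟨98, 99, 147⟩, ⟨9816, 9909, 30000⟩, ⟨1446, 1456, 1000⟩⟩ (tC52.hG false (tC52.pEnd false)) :=
  posD_of_check (c := ⟨352, ⟨2, 7, 12, 7⟩⟩) (by decide +kernel)

def tC52_c2p00 : PosD ⟨⟨0, 1, 1⟩, ⟨98, 99, 147⟩, ⟨9816, 9909, 30000⟩, ⟨1446, 1456, 1000⟩⟩ (tC52.hC2p false (tC52.pEnd false)) :=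
  posD_of_check (c := ⟨412, ⟨3, 8, 14, 8⟩⟩) (by decide +kernel)

def tC52_c2m00 : PosD ⟨⟨0, 1, 1⟩, ⟨98, 99, 147⟩, ⟨9816, 9909, 30000⟩, ⟨1446, 1456, 1000⟩⟩ (tC52.hC2m false (tC52.pEnd false)) :=
  posD_of_check (c := ⟨396, ⟨2, 7, 14, 8⟩⟩) (by decide +kernel)

def tC52_c3p00 : PosD ⟨⟨0, 1, 1⟩, ⟨98, 99, 147⟩, ⟨9816, 9909, 30000⟩, ⟨1446, 1456, 1000⟩⟩ (tC52.hC3p false false) :=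
  posD_of_check (c := ⟨399, ⟨3, 8, 14, 7⟩⟩) (by decide +kernel)

def tC52_c3m00 : PosD ⟨⟨0, 1, 1⟩, ⟨98, 99, 147⟩, ⟨9816, 9909, 30000⟩, ⟨1446, 1456, 1000⟩⟩ (tC52.hC3m false false) :=
  posD_of_check (c := ⟨388, ⟨3, 7, 14, 7⟩⟩) (by decide +kernel)

def tC52_c3ph00 : PosD ⟨⟨0, 1, 1⟩, ⟨98, 99, 147⟩, ⟨9816, 9909, 30000⟩, ⟨1446, 1456, 1000⟩⟩ (tC52.hC3p' false false) :=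
  posD_of_relax (k₁ := 0) (k₂ := 0) (k₃ := 2) (n := 16) (posD_of_check (c := ⟨399, ⟨3, 8, 14, 7⟩⟩) (by decide +kernel))

def tC52_c3mh00 : PosD ⟨⟨0, 1, 1⟩, ⟨98, 99, 147⟩, ⟨9816, 9909, 30000⟩, ⟨1446, 1456, 1000⟩⟩ (tC52.hC3m' false false) :=
  posD_of_relax (k₁ := 0) (k₂ := 0) (k₃ := 2) (n := 16) (posD_of_check (c := ⟨388, ⟨3, 7, 14, 7⟩⟩) (by decide +kernel))

def tC52_up00 : PosD ⟨⟨0, 1, 1⟩, ⟨98, 99, 147⟩, ⟨9816, 9909, 30000⟩, ⟨1446, 1456, 1000⟩⟩ (tC52.hUp false false) :=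
  posD_of_check (c := ⟨398, ⟨3, 8, 14, 7⟩⟩) (by decide +kernel)

def tC52_um00 : PosD ⟨⟨0, 1, 1⟩, ⟨98, 99, 147⟩, ⟨9816, 9909, 30000⟩, ⟨1446, 1456, 1000⟩⟩ (tC52.hUm false false) :=
  posD_of_check (c := ⟨386, ⟨2, 7, 14, 7⟩⟩) (by decide +kernel)

def tC52_tmg00 : PosD ⟨⟨0, 1, 1⟩, ⟨98, 99, 147⟩, ⟨9816, 9909, 30000⟩, ⟨1446, 1456, 1000⟩⟩ (tC52.hTMG false (tC52.pEnd false)) :=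
  posD_of_check (c := ⟨369, ⟨2, 7, 13, 6⟩⟩) (by decide +kernel)

def tC52_tg01 : PosD ⟨⟨0, 1, 1⟩, ⟨98, 99, 147⟩, ⟨9816, 9909, 30000⟩, ⟨1446, 1456, 1000⟩⟩ (tC52.hG true (tC52.pEnd false)) :=
  posD_of_check (c := ⟨352, ⟨2, 7, 12, 7⟩⟩) (by decide +kernel)

def tC52_c2p01 : PosD ⟨⟨0, 1, 1⟩, ⟨98, 99, 147⟩, ⟨9816, 9909, 30000⟩, ⟨1446, 1456, 1000⟩⟩ (tC52.hC2p true (tC52.pEnd false)) :=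
  posD_of_check (c := ⟨412, ⟨3, 8, 14, 8⟩⟩) (by decide +kernel)

def tC52_c2m01 : PosD ⟨⟨0, 1, 1⟩, ⟨98, 99, 147⟩, ⟨9816, 9909, 30000⟩, ⟨1446, 1456, 1000⟩⟩ (tC52.hC2m true (tC52.pEnd false)) :=
  posD_of_check (c := ⟨396, ⟨2, 7, 14, 8⟩⟩) (by decide +kernel)

def tC52_c3p01 : PosD ⟨⟨0, 1, 1⟩, ⟨98, 99, 147⟩, ⟨9816, 9909, 30000⟩, ⟨1446, 1456, 1000⟩⟩ (tC52.hC3p false true) :=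
  posD_of_check (c := ⟨399, ⟨3, 8, 14, 7⟩⟩) (by decide +kernel)

def tC52_c3m01 : PosD ⟨⟨0, 1, 1⟩, ⟨98, 99, 147⟩, ⟨9816, 9909, 30000⟩, ⟨1446, 1456, 1000⟩⟩ (tC52.hC3m false true) :=
  posD_of_check (c := ⟨388, ⟨3, 7, 14, 7⟩⟩) (by decide +kernel)

def tC52_c3ph01 : PosD ⟨⟨0, 1, 1⟩, ⟨98, 99, 147⟩, ⟨9816, 9909, 30000⟩, ⟨1446, 1456, 1000⟩⟩ (tC52.hC3p' false true) :=
  posD_of_relax (k₁ := 0) (k₂ := 0) (k₃ := 2) (n := 16) (posD_of_check (c := ⟨399, ⟨3, 8, 14, 7⟩⟩) (by decide +kernel))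

def tC52_c3mh01 : PosD ⟨⟨0, 1, 1⟩, ⟨98, 99, 147⟩, ⟨9816, 9909, 30000⟩, ⟨1446, 1456, 1000⟩⟩ (tC52.hC3m' false true) :=
  posD_of_relax (k₁ := 0) (k₂ := 0) (k₃ := 1) (n := 16) (posD_of_check (c := ⟨388, ⟨3, 7, 14, 7⟩⟩) (by decide +kernel))

def tC52_up01 : PosD ⟨⟨0, 1, 1⟩, ⟨98, 99, 147⟩, ⟨9816, 9909, 30000⟩, ⟨1446, 1456, 1000⟩⟩ (tC52.hUp false true) :=
  posD_of_check (c := ⟨398, ⟨3, 8, 14, 7⟩⟩) (by decide +kernel)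

def tC52_um01 : PosD ⟨⟨0, 1, 1⟩, ⟨98, 99, 147⟩, ⟨9816, 9909, 30000⟩, ⟨1446, 1456, 1000⟩⟩ (tC52.hUm false true) :=
  posD_of_check (c := ⟨386, ⟨2, 7, 14, 7⟩⟩) (by decide +kernel)

def tC52_tmg01 : PosD ⟨⟨0, 1, 1⟩, ⟨98, 99, 147⟩, ⟨9816, 9909, 30000⟩, ⟨1446, 1456, 1000⟩⟩ (tC52.hTMG true (tC52.pEnd false)) :=
  posD_of_check (c := ⟨369, ⟨2, 7, 13, 6⟩⟩) (by decide +kernel)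

def tC52_kap1 : PosD ⟨⟨0, 1, 1⟩, ⟨98, 99, 147⟩, ⟨9816, 9909, 30000⟩, ⟨1446, 1456, 1000⟩⟩ (tC52.kap true) :=
  posD_of_check (c := ⟨54, ⟨1, 1, 1, 1⟩⟩) (by decide +kernel)

def tC52_c11 : PosD ⟨⟨0, 1, 1⟩, ⟨98, 99, 147⟩, ⟨9816, 9909, 30000⟩, ⟨1446, 1456, 1000⟩⟩ (tC52.hC1 true) :=
  posD_of_check (c := ⟨253, ⟨3, 5, 8, 4⟩⟩) (by decide +kernel)

def tC52_c1h1 : PosD ⟨⟨0, 1, 1⟩, ⟨98, 99, 147⟩, ⟨9816, 9909, 30000⟩, ⟨1446, 1456, 1000⟩⟩ (tC52.hC1' true) :=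
  posD_of_check (c := ⟨253, ⟨3, 5, 8, 4⟩⟩) (by decide +kernel)

def tC52_tg10 : PosD ⟨⟨0, 1, 1⟩, ⟨98, 99, 147⟩, ⟨9816, 9909, 30000⟩, ⟨1446, 1456, 1000⟩⟩ (tC52.hG false (tC52.pEnd true)) :=
  posD_of_check (c := ⟨352, ⟨2, 7, 12, 7⟩⟩) (by decide +kernel)

def tC52_c2p10 : PosD ⟨⟨0, 1, 1⟩, ⟨98, 99, 147⟩, ⟨9816, 9909, 30000⟩, ⟨1446, 1456, 1000⟩⟩ (tC52.hC2p false (tC52.pEnd true)) :=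
  posD_of_check (c := ⟨412, ⟨3, 8, 14, 8⟩⟩) (by decide +kernel)

def tC52_c2m10 : PosD ⟨⟨0, 1, 1⟩, ⟨98, 99, 147⟩, ⟨9816, 9909, 30000⟩, ⟨1446, 1456, 1000⟩⟩ (tC52.hC2m false (tC52.pEnd true)) :=
  posD_of_check (c := ⟨396, ⟨2, 7, 14, 8⟩⟩) (by decide +kernel)

def tC52_c3p10 : PosD ⟨⟨0, 1, 1⟩, ⟨98, 99, 147⟩, ⟨9816, 9909, 30000⟩, ⟨1446, 1456, 1000⟩⟩ (tC52.hC3p true false) :=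
  posD_of_check (c := ⟨399, ⟨3, 8, 14, 7⟩⟩) (by decide +kernel)

def tC52_c3m10 : PosD ⟨⟨0, 1, 1⟩, ⟨98, 99, 147⟩, ⟨9816, 9909, 30000⟩, ⟨1446, 1456, 1000⟩⟩ (tC52.hC3m true false) :=
  posD_of_check (c := ⟨388, ⟨3, 7, 14, 7⟩⟩) (by decide +kernel)

def tC52_c3ph10 : PosD ⟨⟨0, 1, 1⟩, ⟨98, 99, 147⟩, ⟨9816, 9909, 30000⟩, ⟨1446, 1456, 1000⟩⟩ (tC52.hC3p' true false) :=
  posD_of_relax (k₁ := 0) (k₂ := 0) (k₃ := 1) (n := 16) (posD_of_check (c := ⟨399, ⟨3, 8, 14, 7⟩⟩) (by decide +kernel))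

def tC52_c3mh10 : PosD ⟨⟨0, 1, 1⟩, ⟨98, 99, 147⟩, ⟨9816, 9909, 30000⟩, ⟨1446, 1456, 1000⟩⟩ (tC52.hC3m' true false) :=
  posD_of_relax (k₁ := 0) (k₂ := 0) (k₃ := 1) (n := 16) (posD_of_check (c := ⟨388, ⟨3, 7, 14, 7⟩⟩) (by decide +kernel))

def tC52_up10 : PosD ⟨⟨0, 1, 1⟩, ⟨98, 99, 147⟩, ⟨9816, 9909, 30000⟩, ⟨1446, 1456, 1000⟩⟩ (tC52.hUp true false) :=
  posD_of_check (c := ⟨398, ⟨3, 8, 14, 7⟩⟩) (by decide +kernel)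

def tC52_um10 : PosD ⟨⟨0, 1, 1⟩, ⟨98, 99, 147⟩, ⟨9816, 9909, 30000⟩, ⟨1446, 1456, 1000⟩⟩ (tC52.hUm true false) :=
  posD_of_check (c := ⟨386, ⟨2, 7, 14, 7⟩⟩) (by decide +kernel)

def tC52_tmg10 : PosD ⟨⟨0, 1, 1⟩, ⟨98, 99, 147⟩, ⟨9816, 9909, 30000⟩, ⟨1446, 1456, 1000⟩⟩ (tC52.hTMG false (tC52.pEnd true)) :=
  posD_of_check (c := ⟨369, ⟨2, 7, 13, 6⟩⟩) (by decide +kernel)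

def tC52_tg11 : PosD ⟨⟨0, 1, 1⟩, ⟨98, 99, 147⟩, ⟨9816, 9909, 30000⟩, ⟨1446, 1456, 1000⟩⟩ (tC52.hG true (tC52.pEnd true)) :=
  posD_of_check (c := ⟨352, ⟨2, 7, 12, 7⟩⟩) (by decide +kernel)

def tC52_c2p11 : PosD ⟨⟨0, 1, 1⟩, ⟨98, 99, 147⟩, ⟨9816, 9909, 30000⟩, ⟨1446, 1456, 1000⟩⟩ (tC52.hC2p true (tC52.pEnd true)) :=
  posD_of_check (c := ⟨412, ⟨3, 8, 14, 8⟩⟩) (by decide +kernel)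

def tC52_c2m11 : PosD ⟨⟨0, 1, 1⟩, ⟨98, 99, 147⟩, ⟨9816, 9909, 30000⟩, ⟨1446, 1456, 1000⟩⟩ (tC52.hC2m true (tC52.pEnd true)) :=
  posD_of_check (c := ⟨396, ⟨2, 7, 14, 8⟩⟩) (by decide +kernel)

def tC52_c3p11 : PosD ⟨⟨0, 1, 1⟩, ⟨98, 99, 147⟩, ⟨9816, 9909, 30000⟩, ⟨1446, 1456, 1000⟩⟩ (tC52.hC3p true true) :=
  posD_of_check (c := ⟨399, ⟨3, 8, 14, 7⟩⟩) (by decide +kernel)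

def tC52_c3m11 : PosD ⟨⟨0, 1, 1⟩, ⟨98, 99, 147⟩, ⟨9816, 9909, 30000⟩, ⟨1446, 1456, 1000⟩⟩ (tC52.hC3m true true) :=
  posD_of_check (c := ⟨388, ⟨3, 7, 14, 7⟩⟩) (by decide +kernel)

def tC52_c3ph11 : PosD ⟨⟨0, 1, 1⟩, ⟨98, 99, 147⟩, ⟨9816, 9909, 30000⟩, ⟨1446, 1456, 1000⟩⟩ (tC52.hC3p' true true) :=
  posD_of_relax (k₁ := 0) (k₂ := 0) (k₃ := 1) (n := 16) (posD_of_check (c := ⟨399, ⟨3, 8, 14, 7⟩⟩) (by decide +kernel))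

def tC52_c3mh11 : PosD ⟨⟨0, 1, 1⟩, ⟨98, 99, 147⟩, ⟨9816, 9909, 30000⟩, ⟨1446, 1456, 1000⟩⟩ (tC52.hC3m' true true) :=
  posD_of_relax (k₁ := 0) (k₂ := 0) (k₃ := 1) (n := 16) (posD_of_check (c := ⟨388, ⟨3, 7, 14, 7⟩⟩) (by decide +kernel))

def tC52_up11 : PosD ⟨⟨0, 1, 1⟩, ⟨98, 99, 147⟩, ⟨9816, 9909, 30000⟩, ⟨1446, 1456, 1000⟩⟩ (tC52.hUp true true) :=
  posD_of_check (c := ⟨398, ⟨3, 8, 14, 7⟩⟩) (by decide +kernel)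

def tC52_um11 : PosD ⟨⟨0, 1, 1⟩, ⟨98, 99, 147⟩, ⟨9816, 9909, 30000⟩, ⟨1446, 1456, 1000⟩⟩ (tC52.hUm true true) :=
  posD_of_check (c := ⟨386, ⟨2, 7, 14, 7⟩⟩) (by decide +kernel)

def tC52_tmg11 : PosD ⟨⟨0, 1, 1⟩, ⟨98, 99, 147⟩, ⟨9816, 9909, 30000⟩, ⟨1446, 1456, 1000⟩⟩ (tC52.hTMG true (tC52.pEnd true)) :=
  posD_of_check (c := ⟨369, ⟨2, 7, 13, 6⟩⟩) (by decide +kernel)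

/-- The signs of the piece. -/
def tC52_sign : tC52.Sign ⟨⟨0, 1, 1⟩, ⟨98, 99, 147⟩, ⟨9816, 9909, 30000⟩, ⟨1446, 1456, 1000⟩⟩ :=
  ⟨tC52_pp,
    tC52_k2p,
    tC52_k2m,
    Bool.forall_bool.2 ⟨(Bool.forall_bool.2 ⟨tC52_tg00, tC52_tg01⟩), (Bool.forall_bool.2 ⟨tC52_tg10, tC52_tg11⟩)⟩,
    Bool.forall_bool.2 ⟨(Bool.forall_bool.2 ⟨tC52_c2p00, tC52_c2p01⟩), (Bool.forall_bool.2 ⟨tC52_c2p10, tC52_c2p11⟩)⟩,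
    Bool.forall_bool.2 ⟨(Bool.forall_bool.2 ⟨tC52_c2m00, tC52_c2m01⟩), (Bool.forall_bool.2 ⟨tC52_c2m10, tC52_c2m11⟩)⟩,
    Bool.forall_bool.2 ⟨tC52_kap0, tC52_kap1⟩,
    Bool.forall_bool.2 ⟨tC52_c10, tC52_c11⟩,
    Bool.forall_bool.2 ⟨(Bool.forall_bool.2 ⟨tC52_c3p00, tC52_c3p01⟩), (Bool.forall_bool.2 ⟨tC52_c3p10, tC52_c3p11⟩)⟩,
    Bool.forall_bool.2 ⟨(Bool.forall_bool.2 ⟨tC52_c3m00, tC52_c3m01⟩), (Bool.forall_bool.2 ⟨tC52_c3m10, tC52_c3m11⟩)⟩,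
    Bool.forall_bool.2 ⟨(Bool.forall_bool.2 ⟨tC52_tmg00, tC52_tmg01⟩), (Bool.forall_bool.2 ⟨tC52_tmg10, tC52_tmg11⟩)⟩,
    .inr (Bool.forall_bool.2 ⟨⟨tC52_c1h0, Bool.forall_bool.2 ⟨⟨tC52_c3ph00, tC52_c3mh00, tC52_up00, tC52_um00⟩, ⟨tC52_c3ph01, tC52_c3mh01, tC52_up01, tC52_um01⟩⟩⟩, ⟨tC52_c1h1, Bool.forall_bool.2 ⟨⟨tC52_c3ph10, tC52_c3mh10, tC52_up10, tC52_um10⟩, ⟨tC52_c3ph11, tC52_c3mh11, tC52_up11, tC52_um11⟩⟩⟩⟩),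
    tC52_v2p,
    tC52_v2m,
    tC52_v3p,
    tC52_v3m,
    posD_sub (b := ⟨⟨0, 1, 1⟩, ⟨98, 99, 147⟩, ⟨4050, 10000, 30000⟩, ⟨290, 4000, 1000⟩⟩) (by decide +kernel) tC_vG,
    posD_sub (b := ⟨⟨0, 1, 1⟩, ⟨98, 99, 147⟩, ⟨4050, 10000, 30000⟩, ⟨290, 4000, 1000⟩⟩) (by decide +kernel) tC_vMG,
    posD_sub (b := ⟨⟨0, 1, 1⟩, ⟨98, 99, 147⟩, ⟨4050, 10000, 30000⟩, ⟨290, 4000, 1000⟩⟩) (by decide +kernel) tC_ak,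
    posD_sub (b := ⟨⟨0, 1, 1⟩, ⟨98, 99, 147⟩, ⟨4050, 10000, 30000⟩, ⟨290, 4000, 1000⟩⟩) (by decide +kernel) tC_aw,
    posD_sub (b := ⟨⟨0, 1, 1⟩, ⟨98, 99, 147⟩, ⟨4050, 10000, 30000⟩, ⟨290, 4000, 1000⟩⟩) (by decide +kernel) tC_gk,
    posD_sub (b := ⟨⟨0, 1, 1⟩, ⟨98, 99, 147⟩, ⟨4050, 10000, 30000⟩, ⟨290, 4000, 1000⟩⟩) (by decide +kernel) tC_gw,
    posD_sub (b := ⟨⟨0, 1, 1⟩, ⟨98, 99, 147⟩, ⟨4050, 10000, 30000⟩, ⟨290, 4000, 1000⟩⟩) (by decide +kernel) tC_ek,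
    posD_sub (b := ⟨⟨0, 1, 1⟩, ⟨98, 99, 147⟩, ⟨4050, 10000, 30000⟩, ⟨290, 4000, 1000⟩⟩) (by decide +kernel) tC_ew⟩

end Vale.Agent.P100.Calib.Closed.Six.Tail
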