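import Vale.Agent.P100.Calib.SlabSixTailDataC
import Vale.Agent.P100.Calib.SlabSixTailGlobC

/-!
# Checks of some pieces of the certificate

The checks are written as definitions so that they run one after another, which keeps the memory of the
kernel low.
-/

set_option linter.defProp false

namespace Vale.Agent.P100.Calib.Closed.Six.Tail

open BoxPos Large

local instance sixTailCheckstC39Add : Add Ex := ⟨Ex.add⟩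
local instance sixTailCheckstC39Sub : Sub Ex := ⟨Ex.sub⟩
local instance sixTailCheckstC39Mul : Mul Ex := ⟨Ex.mul⟩

def tC53_phx : PosIf ⟨⟨0, 1, 1⟩, ⟨98, 99, 147⟩, ⟨9816, 9909, 30000⟩, ⟨1456, 1467, 1000⟩⟩ (tC53.u₁ - tC53Lo) (phCn (tC53.u₁ + xO * (tC53Lo - tC53.u₁))) :=
  posIf_of_posD (posD_of_check (c := ⟨109, ⟨2, 0, 4, 2⟩⟩) (by decide +kernel))

def tC53_phd : PosD ⟨⟨0, 1, 1⟩, ⟨98, 99, 147⟩, ⟨9816, 9909, 30000⟩, ⟨1456, 1467, 1000⟩⟩ (phCd (tC53.u₁ + xO * (tC53Lo - tC53.u₁))) :=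
  posD_of_check (c := ⟨51, ⟨1, 0, 2, 1⟩⟩) (by decide +kernel)

def tC53_p0 : PosD ⟨⟨0, 1, 1⟩, ⟨98, 99, 147⟩, ⟨9816, 9909, 30000⟩, ⟨1456, 1467, 1000⟩⟩ (tC53.hP0) :=
  posD_of_check (c := ⟨67, ⟨0, 2, 2, 1⟩⟩) (by decide +kernel)

def tC53_gn : PosD ⟨⟨0, 1, 1⟩, ⟨98, 99, 147⟩, ⟨9816, 9909, 30000⟩, ⟨1456, 1467, 1000⟩⟩ (tC53.hGn) :=
  posD_of_check (c := ⟨69, ⟨1, 1, 2, 2⟩⟩) (by decide +kernel)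

def tC53_den0 : PosD ⟨⟨0, 1, 1⟩, ⟨98, 99, 147⟩, ⟨9816, 9909, 30000⟩, ⟨1456, 1467, 1000⟩⟩ (tC53.hDen false) :=
  posD_of_check (c := ⟨51, ⟨1, 0, 2, 1⟩⟩) (by decide +kernel)

def tC53_den1 : PosD ⟨⟨0, 1, 1⟩, ⟨98, 99, 147⟩, ⟨9816, 9909, 30000⟩, ⟨1456, 1467, 1000⟩⟩ (tC53.hDen true) :=
  posD_of_check (c := ⟨51, ⟨1, 0, 2, 1⟩⟩) (by decide +kernel)

def tC53_ev0 : PosD ⟨⟨0, 1, 1⟩, ⟨98, 99, 147⟩, ⟨9816, 9909, 30000⟩, ⟨1456, 1467, 1000⟩⟩ (tC53.hEv false) :=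
  posD_of_check (c := ⟨220, ⟨4, 2, 8, 4⟩⟩) (by decide +kernel)

def tC53_zL0 : PosD ⟨⟨0, 1, 1⟩, ⟨98, 99, 147⟩, ⟨9816, 9909, 30000⟩, ⟨1456, 1467, 1000⟩⟩ (tC53.hZL false) :=
  posD_of_check (c := ⟨222, ⟨4, 3, 8, 4⟩⟩) (by decide +kernel)

def tC53_zU0 : PosD ⟨⟨0, 1, 1⟩, ⟨98, 99, 147⟩, ⟨9816, 9909, 30000⟩, ⟨1456, 1467, 1000⟩⟩ (tC53.hZU false) :=
  posD_of_check (c := ⟨222, ⟨4, 3, 8, 4⟩⟩) (by decide +kernel)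

def tC53_eL0 : PosD ⟨⟨0, 1, 1⟩, ⟨98, 99, 147⟩, ⟨9816, 9909, 30000⟩, ⟨1456, 1467, 1000⟩⟩ (tC53.hEL false) :=
  posD_of_check (c := ⟨311, ⟨5, 6, 10, 6⟩⟩) (by decide +kernel)

def tC53_eH0 : PosD ⟨⟨0, 1, 1⟩, ⟨98, 99, 147⟩, ⟨9816, 9909, 30000⟩, ⟨1456, 1467, 1000⟩⟩ (tC53.hEH false) :=
  posD_of_check (c := ⟨322, ⟨5, 6, 10, 6⟩⟩) (by decide +kernel)

def tC53_pL0 : PosD ⟨⟨0, 1, 1⟩, ⟨98, 99, 147⟩, ⟨9816, 9909, 30000⟩, ⟨1456, 1467, 1000⟩⟩ (tC53.hPL false) :=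
  posD_of_relax (k₁ := 0) (k₂ := 0) (k₃ := 11) (n := 16) (posD_of_check (c := ⟨342, ⟨5, 6, 11, 7⟩⟩) (by decide +kernel))

def tC53_pU0 : PosD ⟨⟨0, 1, 1⟩, ⟨98, 99, 147⟩, ⟨9816, 9909, 30000⟩, ⟨1456, 1467, 1000⟩⟩ (tC53.hPU false) :=
  posD_of_check (c := ⟨345, ⟨5, 6, 11, 7⟩⟩) (by decide +kernel)

def tC53_kU0 : PosD ⟨⟨0, 1, 1⟩, ⟨98, 99, 147⟩, ⟨9816, 9909, 30000⟩, ⟨1456, 1467, 1000⟩⟩ (tC53.hKU false) :=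
  posD_of_check (c := ⟨341, ⟨5, 6, 11, 7⟩⟩) (by decide +kernel)

def tC53_kL0 : PosD ⟨⟨0, 1, 1⟩, ⟨98, 99, 147⟩, ⟨9816, 9909, 30000⟩, ⟨1456, 1467, 1000⟩⟩ (tC53.hKL false) :=
  posD_of_check (c := ⟨346, ⟨5, 6, 11, 7⟩⟩) (by decide +kernel)

def tC53_wU0 : PosD ⟨⟨0, 1, 1⟩, ⟨98, 99, 147⟩, ⟨9816, 9909, 30000⟩, ⟨1456, 1467, 1000⟩⟩ (tC53.hWU false) :=
  posD_of_check (c := ⟨374, ⟨5, 8, 12, 6⟩⟩) (by decide +kernel)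

def tC53_wL0 : PosD ⟨⟨0, 1, 1⟩, ⟨98, 99, 147⟩, ⟨9816, 9909, 30000⟩, ⟨1456, 1467, 1000⟩⟩ (tC53.hWL false) :=
  posD_of_check (c := ⟨372, ⟨5, 8, 12, 7⟩⟩) (by decide +kernel)

def tC53_ev1 : PosD ⟨⟨0, 1, 1⟩, ⟨98, 99, 147⟩, ⟨9816, 9909, 30000⟩, ⟨1456, 1467, 1000⟩⟩ (tC53.hEv true) :=
  posD_of_check (c := ⟨218, ⟨4, 2, 8, 4⟩⟩) (by decide +kernel)

def tC53_zL1 : PosD ⟨⟨0, 1, 1⟩, ⟨98, 99, 147⟩, ⟨9816, 9909, 30000⟩, ⟨1456, 1467, 1000⟩⟩ (tC53.hZL true) :=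
  posD_of_check (c := ⟨221, ⟨4, 3, 8, 4⟩⟩) (by decide +kernel)

def tC53_zU1 : PosD ⟨⟨0, 1, 1⟩, ⟨98, 99, 147⟩, ⟨9816, 9909, 30000⟩, ⟨1456, 1467, 1000⟩⟩ (tC53.hZU true) :=
  posD_of_check (c := ⟨221, ⟨4, 3, 8, 4⟩⟩) (by decide +kernel)

def tC53_eL1 : PosD ⟨⟨0, 1, 1⟩, ⟨98, 99, 147⟩, ⟨9816, 9909, 30000⟩, ⟨1456, 1467, 1000⟩⟩ (tC53.hEL true) :=
  posD_of_check (c := ⟨309, ⟨5, 6, 10, 6⟩⟩) (by decide +kernel)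

def tC53_eH1 : PosD ⟨⟨0, 1, 1⟩, ⟨98, 99, 147⟩, ⟨9816, 9909, 30000⟩, ⟨1456, 1467, 1000⟩⟩ (tC53.hEH true) :=
  posD_of_check (c := ⟨321, ⟨5, 6, 10, 6⟩⟩) (by decide +kernel)

def tC53_pL1 : PosD ⟨⟨0, 1, 1⟩, ⟨98, 99, 147⟩, ⟨9816, 9909, 30000⟩, ⟨1456, 1467, 1000⟩⟩ (tC53.hPL true) :=
  posD_of_check (c := ⟨341, ⟨5, 6, 11, 7⟩⟩) (by decide +kernel)

def tC53_pU1 : PosD ⟨⟨0, 1, 1⟩, ⟨98, 99, 147⟩, ⟨9816, 9909, 30000⟩, ⟨1456, 1467, 1000⟩⟩ (tC53.hPU true) :=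
  posD_of_check (c := ⟨343, ⟨5, 6, 11, 7⟩⟩) (by decide +kernel)

def tC53_kU1 : PosD ⟨⟨0, 1, 1⟩, ⟨98, 99, 147⟩, ⟨9816, 9909, 30000⟩, ⟨1456, 1467, 1000⟩⟩ (tC53.hKU true) :=
  posD_of_check (c := ⟨339, ⟨5, 6, 11, 7⟩⟩) (by decide +kernel)

def tC53_kL1 : PosD ⟨⟨0, 1, 1⟩, ⟨98, 99, 147⟩, ⟨9816, 9909, 30000⟩, ⟨1456, 1467, 1000⟩⟩ (tC53.hKL true) :=
  posD_of_check (c := ⟨345, ⟨5, 6, 11, 7⟩⟩) (by decide +kernel)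

def tC53_wU1 : PosD ⟨⟨0, 1, 1⟩, ⟨98, 99, 147⟩, ⟨9816, 9909, 30000⟩, ⟨1456, 1467, 1000⟩⟩ (tC53.hWU true) :=
  posD_of_check (c := ⟨372, ⟨5, 8, 12, 6⟩⟩) (by decide +kernel)

def tC53_wL1 : PosD ⟨⟨0, 1, 1⟩, ⟨98, 99, 147⟩, ⟨9816, 9909, 30000⟩, ⟨1456, 1467, 1000⟩⟩ (tC53.hWL true) :=
  posD_of_check (c := ⟨371, ⟨5, 8, 12, 7⟩⟩) (by decide +kernel)

def tC53_nueH : PosD ⟨⟨0, 1, 1⟩, ⟨98, 99, 147⟩, ⟨9816, 9909, 30000⟩, ⟨1456, 1467, 1000⟩⟩ (tC53.eH.ν) :=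
  posD_of_check (c := ⟨20, ⟨0, 0, 0, 0⟩⟩) (by decide +kernel)

def tC53_nupL : PosD ⟨⟨0, 1, 1⟩, ⟨98, 99, 147⟩, ⟨9816, 9909, 30000⟩, ⟨1456, 1467, 1000⟩⟩ (tC53.pL.ν) :=
  posD_of_check (c := ⟨43, ⟨0, 0, 1, 1⟩⟩) (by decide +kernel)

def tC53_nupU : PosD ⟨⟨0, 1, 1⟩, ⟨98, 99, 147⟩, ⟨9816, 9909, 30000⟩, ⟨1456, 1467, 1000⟩⟩ (tC53.pU.ν) :=
  posD_of_check (c := ⟨45, ⟨0, 0, 1, 1⟩⟩) (by decide +kernel)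

def tC53_nukU : PosD ⟨⟨0, 1, 1⟩, ⟨98, 99, 147⟩, ⟨9816, 9909, 30000⟩, ⟨1456, 1467, 1000⟩⟩ (tC53.kU.ν) :=
  posD_of_check (c := ⟨40, ⟨0, 0, 1, 1⟩⟩) (by decide +kernel)

def tC53_nukL : PosD ⟨⟨0, 1, 1⟩, ⟨98, 99, 147⟩, ⟨9816, 9909, 30000⟩, ⟨1456, 1467, 1000⟩⟩ (tC53.kL.ν) :=
  posD_of_check (c := ⟨45, ⟨0, 0, 1, 1⟩⟩) (by decide +kernel)

def tC53_nuwU : PosD ⟨⟨0, 1, 1⟩, ⟨98, 99, 147⟩, ⟨9816, 9909, 30000⟩, ⟨1456, 1467, 1000⟩⟩ (tC53.wU.ν) :=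
  posD_of_check (c := ⟨44, ⟨0, 0, 1, 0⟩⟩) (by decide +kernel)

def tC53_nuwL : PosD ⟨⟨0, 1, 1⟩, ⟨98, 99, 147⟩, ⟨9816, 9909, 30000⟩, ⟨1456, 1467, 1000⟩⟩ (tC53.wL.ν) :=
  posD_of_check (c := ⟨42, ⟨0, 0, 1, 1⟩⟩) (by decide +kernel)

/-- The bounds of the piece. -/
def tC53_env : tC53.Env ⟨⟨0, 1, 1⟩, ⟨98, 99, 147⟩, ⟨9816, 9909, 30000⟩, ⟨1456, 1467, 1000⟩⟩ :=
  ⟨tC53_p0, Bool.forall_bool.2 ⟨tC53_den0, tC53_den1⟩, tC53_gn, Bool.forall_bool.2 ⟨tC53_ev0, tC53_ev1⟩, Bool.forall_bool.2 ⟨tC53_zL0, tC53_zL1⟩, Bool.forall_bool.2 ⟨tC53_zU0, tC53_zU1⟩, Bool.forall_bool.2 ⟨tC53_eL0, tC53_eL1⟩, ⟨.inr rfl, .inr rfl⟩, Bool.forall_bool.2 ⟨tC53_eH0, tC53_eH1⟩, ⟨.inr rfl, .inl tC53_nueH⟩, Bool.forall_bool.2 ⟨tC53_pL0, tC53_pL1⟩, ⟨.inr rfl,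 .inl tC53_nupL⟩, Bool.forall_bool.2 ⟨tC53_pU0, tC53_pU1⟩, ⟨.inr rfl, .inl tC53_nupU⟩, Bool.forall_bool.2 ⟨tC53_kU0, tC53_kU1⟩, ⟨.inr rfl, .inl tC53_nukU⟩, Bool.forall_bool.2 ⟨tC53_kL0, tC53_kL1⟩, ⟨.inr rfl, .inl tC53_nukL⟩, Bool.forall_bool.2 ⟨tC53_wU0, tC53_wU1⟩, ⟨.inr rfl, .inl tC53_nuwU⟩, Bool.forall_bool.2 ⟨tC53_wL0, tC53_wL1⟩, ⟨.inr rfl, .inl tC53_nuwL⟩⟩

def tC53_pU20 : PosD ⟨⟨0, 1, 1⟩, ⟨98, 99, 147⟩, ⟨9816, 9909, 30000⟩, ⟨1456, 1467, 1000⟩⟩ (({ tC53 with pU := tC53PU } : Piece).hPU false) :=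
  posD_of_check (c := ⟨345, ⟨5, 6, 11, 7⟩⟩) (by decide +kernel)

def tC53_pU21 : PosD ⟨⟨0, 1, 1⟩, ⟨98, 99, 147⟩, ⟨9816, 9909, 30000⟩, ⟨1456, 1467, 1000⟩⟩ (({ tC53 with pU := tC53PU } : Piece).hPU true) :=
  posD_of_check (c := ⟨343, ⟨5, 6, 11, 7⟩⟩) (by decide +kernel)

def tC53_nupU2 : PosD ⟨⟨0, 1, 1⟩, ⟨98, 99, 147⟩, ⟨9816, 9909, 30000⟩, ⟨1456, 1467, 1000⟩⟩ (tC53PU.ν) :=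
  posD_of_check (c := ⟨45, ⟨0, 0, 1, 1⟩⟩) (by decide +kernel)

/-- The bounds with the other bound of `p`. -/
def tC53_envU : ({ tC53 with pU := tC53PU } : Piece).Env ⟨⟨0, 1, 1⟩, ⟨98, 99, 147⟩, ⟨9816, 9909, 30000⟩, ⟨1456, 1467, 1000⟩⟩ :=
  tC53_env.withU tC53PU (Bool.forall_bool.2 ⟨tC53_pU20, tC53_pU21⟩) ⟨.inr rfl, .inl tC53_nupU2⟩

def tC53A_pp : PosD ⟨⟨0, 1, 1⟩, ⟨98, 99, 147⟩, ⟨9816, 9909, 30000⟩, ⟨1456, 1467, 1000⟩⟩ (tC53A.xPL) :=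
  posD_of_check (c := ⟨63, ⟨1, 1, 1, 1⟩⟩) (by decide +kernel)

def tC53A_k2p : PosD ⟨⟨0, 1, 1⟩, ⟨98, 99, 147⟩, ⟨9816, 9909, 30000⟩, ⟨1456, 1467, 1000⟩⟩ (tC53A.k2p tC53A.xE) :=
  posD_of_check (c := ⟨59, ⟨1, 1, 1, 1⟩⟩) (by decide +kernel)

def tC53A_k2m : PosD ⟨⟨0, 1, 1⟩, ⟨98, 99, 147⟩, ⟨9816, 9909, 30000⟩, ⟨1456, 1467, 1000⟩⟩ (tC53A.k2m tC53A.xE) :=
  posD_of_check (c := ⟨55, ⟨1, 1, 1, 1⟩⟩) (by decide +kernel)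

def tC53A_v2p : PosD ⟨⟨0, 1, 1⟩, ⟨98, 99, 147⟩, ⟨9816, 9909, 30000⟩, ⟨1456, 1467, 1000⟩⟩ (tC53A.hV2p) :=
  posD_of_check (c := ⟨263, ⟨1, 6, 10, 4⟩⟩) (by decide +kernel)

def tC53A_v2m : PosD ⟨⟨0, 1, 1⟩, ⟨98, 99, 147⟩, ⟨9816, 9909, 30000⟩, ⟨1456, 1467, 1000⟩⟩ (tC53A.hV2m) :=
  posD_of_check (c := ⟨259, ⟨1, 6, 10, 4⟩⟩) (by decide +kernel)

def tC53A_v3p : PosD ⟨⟨0, 1, 1⟩, ⟨98, 99, 147⟩, ⟨9816, 9909, 30000⟩, ⟨1456, 1467, 1000⟩⟩ (tC53A.hV3p) :=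
  posD_of_check (c := ⟨248, ⟨1, 6, 9, 4⟩⟩) (by decide +kernel)

def tC53A_v3m : PosD ⟨⟨0, 1, 1⟩, ⟨98, 99, 147⟩, ⟨9816, 9909, 30000⟩, ⟨1456, 1467, 1000⟩⟩ (tC53A.hV3m) :=
  posD_of_check (c := ⟨244, ⟨1, 6, 9, 4⟩⟩) (by decide +kernel)

def tC53A_kap0 : PosD ⟨⟨0, 1, 1⟩, ⟨98, 99, 147⟩, ⟨9816, 9909, 30000⟩, ⟨1456, 1467, 1000⟩⟩ (tC53A.kap false) :=
  posD_of_check (c := ⟨4, ⟨0, 0, 0, 0⟩⟩) (by decide +kernel)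

def tC53A_c10 : PosD ⟨⟨0, 1, 1⟩, ⟨98, 99, 147⟩, ⟨9816, 9909, 30000⟩, ⟨1456, 1467, 1000⟩⟩ (tC53A.hC1 false) :=
  posD_of_check (c := ⟨242, ⟨2, 5, 7, 4⟩⟩) (by decide +kernel)

def tC53A_c1h0 : PosD ⟨⟨0, 1, 1⟩, ⟨98, 99, 147⟩, ⟨9816, 9909, 30000⟩, ⟨1456, 1467, 1000⟩⟩ (tC53A.hC1' false) :=
  posD_of_check (c := ⟨242, ⟨2, 5, 7, 4⟩⟩) (by decide +kernel)

def tC53A_tg00 : PosD ⟨⟨0, 1, 1⟩, ⟨98, 99, 147⟩, ⟨9816, 9909, 30000⟩, ⟨1456, 1467, 1000⟩⟩ (tC53A.hG false (tC53A.pEnd false)) :=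
  posD_of_check (c := ⟨349, ⟨2, 7, 12, 7⟩⟩) (by decide +kernel)

def tC53A_c2p00 : PosD ⟨⟨0, 1, 1⟩, ⟨98, 99, 147⟩, ⟨9816, 9909, 30000⟩, ⟨1456, 1467, 1000⟩⟩ (tC53A.hC2p false (tC53A.pEnd false)) :=
  posD_of_check (c := ⟨408, ⟨3, 8, 13, 8⟩⟩) (by decide +kernel)

def tC53A_c2m00 : PosD ⟨⟨0, 1, 1⟩, ⟨98, 99, 147⟩, ⟨9816, 9909, 30000⟩, ⟨1456, 1467, 1000⟩⟩ (tC53A.hC2m false (tC53A.pEnd false)) :=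
  posD_of_relax (k₁ := 0) (k₂ := 0) (k₃ := 1) (n := 16) (posD_of_check (c := ⟨404, ⟨3, 8, 13, 8⟩⟩) (by decide +kernel))

def tC53A_c3p00 : PosD ⟨⟨0, 1, 1⟩, ⟨98, 99, 147⟩, ⟨9816, 9909, 30000⟩, ⟨1456, 1467, 1000⟩⟩ (tC53A.hC3p false false) :=
  posD_of_check (c := ⟨389, ⟨3, 8, 14, 7⟩⟩) (by decide +kernel)

def tC53A_c3m00 : PosD ⟨⟨0, 1, 1⟩, ⟨98, 99, 147⟩, ⟨9816, 9909, 30000⟩, ⟨1456, 1467, 1000⟩⟩ (tC53A.hC3m false false) :=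
  posD_of_check (c := ⟨385, ⟨3, 8, 14, 7⟩⟩) (by decide +kernel)

def tC53A_c3ph00 : PosD ⟨⟨0, 1, 1⟩, ⟨98, 99, 147⟩, ⟨9816, 9909, 30000⟩, ⟨1456, 1467, 1000⟩⟩ (tC53A.hC3p' false false) :=
  posD_of_check (c := ⟨389, ⟨3, 8, 14, 7⟩⟩) (by decide +kernel)

def tC53A_c3mh00 : PosD ⟨⟨0, 1, 1⟩, ⟨98, 99, 147⟩, ⟨9816, 9909, 30000⟩, ⟨1456, 1467, 1000⟩⟩ (tC53A.hC3m' false false) :=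
  posD_of_check (c := ⟨385, ⟨3, 8, 14, 7⟩⟩) (by decide +kernel)

def tC53A_up00 : PosD ⟨⟨0, 1, 1⟩, ⟨98, 99, 147⟩, ⟨9816, 9909, 30000⟩, ⟨1456, 1467, 1000⟩⟩ (tC53A.hUp false false) :=
  posD_of_check (c := ⟨389, ⟨3, 8, 14, 7⟩⟩) (by decide +kernel)

def tC53A_um00 : PosD ⟨⟨0, 1, 1⟩, ⟨98, 99, 147⟩, ⟨9816, 9909, 30000⟩, ⟨1456, 1467, 1000⟩⟩ (tC53A.hUm false false) :=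
  posD_of_check (c := ⟨385, ⟨3, 8, 14, 7⟩⟩) (by decide +kernel)

def tC53A_tmg00 : PosD ⟨⟨0, 1, 1⟩, ⟨98, 99, 147⟩, ⟨9816, 9909, 30000⟩, ⟨1456, 1467, 1000⟩⟩ (tC53A.hTMG false (tC53A.pEnd false)) :=
  posD_of_check (c := ⟨349, ⟨2, 7, 13, 6⟩⟩) (by decide +kernel)

def tC53A_tg01 : PosD ⟨⟨0, 1, 1⟩, ⟨98, 99, 147⟩, ⟨9816, 9909, 30000⟩, ⟨1456, 1467, 1000⟩⟩ (tC53A.hG true (tC53A.pEnd false)) :=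
  posD_of_check (c := ⟨349, ⟨2, 7, 12, 7⟩⟩) (by decide +kernel)

def tC53A_c2p01 : PosD ⟨⟨0, 1, 1⟩, ⟨98, 99, 147⟩, ⟨9816, 9909, 30000⟩, ⟨1456, 1467, 1000⟩⟩ (tC53A.hC2p true (tC53A.pEnd false)) :=
  posD_of_check (c := ⟨408, ⟨3, 8, 13, 8⟩⟩) (by decide +kernel)

def tC53A_c2m01 : PosD ⟨⟨0, 1, 1⟩, ⟨98, 99, 147⟩, ⟨9816, 9909, 30000⟩, ⟨1456, 1467, 1000⟩⟩ (tC53A.hC2m true (tC53A.pEnd false)) :=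
  posD_of_check (c := ⟨404, ⟨3, 8, 13, 8⟩⟩) (by decide +kernel)

def tC53A_c3p01 : PosD ⟨⟨0, 1, 1⟩, ⟨98, 99, 147⟩, ⟨9816, 9909, 30000⟩, ⟨1456, 1467, 1000⟩⟩ (tC53A.hC3p false true) :=
  posD_of_check (c := ⟨389, ⟨3, 8, 14, 7⟩⟩) (by decide +kernel)

def tC53A_c3m01 : PosD ⟨⟨0, 1, 1⟩, ⟨98, 99, 147⟩, ⟨9816, 9909, 30000⟩, ⟨1456, 1467, 1000⟩⟩ (tC53A.hC3m false true) :=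
  posD_of_check (c := ⟨385, ⟨3, 8, 14, 7⟩⟩) (by decide +kernel)

def tC53A_c3ph01 : PosD ⟨⟨0, 1, 1⟩, ⟨98, 99, 147⟩, ⟨9816, 9909, 30000⟩, ⟨1456, 1467, 1000⟩⟩ (tC53A.hC3p' false true) :=
  posD_of_check (c := ⟨389, ⟨3, 8, 14, 7⟩⟩) (by decide +kernel)

def tC53A_c3mh01 : PosD ⟨⟨0, 1, 1⟩, ⟨98, 99, 147⟩, ⟨9816, 9909, 30000⟩, ⟨1456, 1467, 1000⟩⟩ (tC53A.hC3m' false true) :=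
  posD_of_check (c := ⟨385, ⟨3, 8, 14, 7⟩⟩) (by decide +kernel)

def tC53A_up01 : PosD ⟨⟨0, 1, 1⟩, ⟨98, 99, 147⟩, ⟨9816, 9909, 30000⟩, ⟨1456, 1467, 1000⟩⟩ (tC53A.hUp false true) :=
  posD_of_check (c := ⟨389, ⟨3, 8, 14, 7⟩⟩) (by decide +kernel)

def tC53A_um01 : PosD ⟨⟨0, 1, 1⟩, ⟨98, 99, 147⟩, ⟨9816, 9909, 30000⟩, ⟨1456, 1467, 1000⟩⟩ (tC53A.hUm false true) :=
  posD_of_check (c := ⟨385, ⟨3, 8, 14, 7⟩⟩) (by decide +kernel)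

def tC53A_tmg01 : PosD ⟨⟨0, 1, 1⟩, ⟨98, 99, 147⟩, ⟨9816, 9909, 30000⟩, ⟨1456, 1467, 1000⟩⟩ (tC53A.hTMG true (tC53A.pEnd false)) :=
  posD_of_check (c := ⟨349, ⟨2, 7, 13, 6⟩⟩) (by decide +kernel)

def tC53A_kap1 : PosD ⟨⟨0, 1, 1⟩, ⟨98, 99, 147⟩, ⟨9816, 9909, 30000⟩, ⟨1456, 1467, 1000⟩⟩ (tC53A.kap true) :=
  posD_of_check (c := ⟨4, ⟨0, 0, 0, 0⟩⟩) (by decide +kernel)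

def tC53A_c11 : PosD ⟨⟨0, 1, 1⟩, ⟨98, 99, 147⟩, ⟨9816, 9909, 30000⟩, ⟨1456, 1467, 1000⟩⟩ (tC53A.hC1 true) :=
  posD_of_check (c := ⟨242, ⟨2, 5, 7, 4⟩⟩) (by decide +kernel)

def tC53A_c1h1 : PosD ⟨⟨0, 1, 1⟩, ⟨98, 99, 147⟩, ⟨9816, 9909, 30000⟩, ⟨1456, 1467, 1000⟩⟩ (tC53A.hC1' true) :=
  posD_of_check (c := ⟨242, ⟨2, 5, 7, 4⟩⟩) (by decide +kernel)

def tC53A_tg10 : PosD ⟨⟨0, 1, 1⟩, ⟨98, 99, 147⟩, ⟨9816, 9909, 30000⟩, ⟨1456, 1467, 1000⟩⟩ (tC53A.hG false (tC53A.pEnd true)) :=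
  posD_of_check (c := ⟨349, ⟨2, 7, 12, 7⟩⟩) (by decide +kernel)

def tC53A_c2p10 : PosD ⟨⟨0, 1, 1⟩, ⟨98, 99, 147⟩, ⟨9816, 9909, 30000⟩, ⟨1456, 1467, 1000⟩⟩ (tC53A.hC2p false (tC53A.pEnd true)) :=
  posD_of_check (c := ⟨408, ⟨3, 8, 13, 8⟩⟩) (by decide +kernel)

def tC53A_c2m10 : PosD ⟨⟨0, 1, 1⟩, ⟨98, 99, 147⟩, ⟨9816, 9909, 30000⟩, ⟨1456, 1467, 1000⟩⟩ (tC53A.hC2m false (tC53A.pEnd true)) :=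
  posD_of_relax (k₁ := 0) (k₂ := 0) (k₃ := 1) (n := 16) (posD_of_check (c := ⟨404, ⟨3, 8, 13, 8⟩⟩) (by decide +kernel))

def tC53A_c3p10 : PosD ⟨⟨0, 1, 1⟩, ⟨98, 99, 147⟩, ⟨9816, 9909, 30000⟩, ⟨1456, 1467, 1000⟩⟩ (tC53A.hC3p true false) :=
  posD_of_check (c := ⟨389, ⟨3, 8, 14, 7⟩⟩) (by decide +kernel)

def tC53A_c3m10 : PosD ⟨⟨0, 1, 1⟩, ⟨98, 99, 147⟩, ⟨9816, 9909, 30000⟩, ⟨1456, 1467, 1000⟩⟩ (tC53A.hC3m true false) :=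
  posD_of_check (c := ⟨385, ⟨3, 8, 14, 7⟩⟩) (by decide +kernel)

def tC53A_c3ph10 : PosD ⟨⟨0, 1, 1⟩, ⟨98, 99, 147⟩, ⟨9816, 9909, 30000⟩, ⟨1456, 1467, 1000⟩⟩ (tC53A.hC3p' true false) :=
  posD_of_check (c := ⟨389, ⟨3, 8, 14, 7⟩⟩) (by decide +kernel)

def tC53A_c3mh10 : PosD ⟨⟨0, 1, 1⟩, ⟨98, 99, 147⟩, ⟨9816, 9909, 30000⟩, ⟨1456, 1467, 1000⟩⟩ (tC53A.hC3m' true false) :=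
  posD_of_check (c := ⟨385, ⟨3, 8, 14, 7⟩⟩) (by decide +kernel)

def tC53A_up10 : PosD ⟨⟨0, 1, 1⟩, ⟨98, 99, 147⟩, ⟨9816, 9909, 30000⟩, ⟨1456, 1467, 1000⟩⟩ (tC53A.hUp true false) :=
  posD_of_check (c := ⟨389, ⟨3, 8, 14, 7⟩⟩) (by decide +kernel)

def tC53A_um10 : PosD ⟨⟨0, 1, 1⟩, ⟨98, 99, 147⟩, ⟨9816, 9909, 30000⟩, ⟨1456, 1467, 1000⟩⟩ (tC53A.hUm true false) :=
  posD_of_check (c := ⟨385, ⟨3, 8, 14, 7⟩⟩) (by decide +kernel)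

def tC53A_tmg10 : PosD ⟨⟨0, 1, 1⟩, ⟨98, 99, 147⟩, ⟨9816, 9909, 30000⟩, ⟨1456, 1467, 1000⟩⟩ (tC53A.hTMG false (tC53A.pEnd true)) :=
  posD_of_check (c := ⟨349, ⟨2, 7, 13, 6⟩⟩) (by decide +kernel)

def tC53A_tg11 : PosD ⟨⟨0, 1, 1⟩, ⟨98, 99, 147⟩, ⟨9816, 9909, 30000⟩, ⟨1456, 1467, 1000⟩⟩ (tC53A.hG true (tC53A.pEnd true)) :=
  posD_of_check (c := ⟨349, ⟨2, 7, 12, 7⟩⟩) (by decide +kernel)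

def tC53A_c2p11 : PosD ⟨⟨0, 1, 1⟩, ⟨98, 99, 147⟩, ⟨9816, 9909, 30000⟩, ⟨1456, 1467, 1000⟩⟩ (tC53A.hC2p true (tC53A.pEnd true)) :=
  posD_of_check (c := ⟨408, ⟨3, 8, 13, 8⟩⟩) (by decide +kernel)

def tC53A_c2m11 : PosD ⟨⟨0, 1, 1⟩, ⟨98, 99, 147⟩, ⟨9816, 9909, 30000⟩, ⟨1456, 1467, 1000⟩⟩ (tC53A.hC2m true (tC53A.pEnd true)) :=
  posD_of_check (c := ⟨404, ⟨3, 8, 13, 8⟩⟩) (by decide +kernel)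

def tC53A_c3p11 : PosD ⟨⟨0, 1, 1⟩, ⟨98, 99, 147⟩, ⟨9816, 9909, 30000⟩, ⟨1456, 1467, 1000⟩⟩ (tC53A.hC3p true true) :=
  posD_of_check (c := ⟨389, ⟨3, 8, 14, 7⟩⟩) (by decide +kernel)

def tC53A_c3m11 : PosD ⟨⟨0, 1, 1⟩, ⟨98, 99, 147⟩, ⟨9816, 9909, 30000⟩, ⟨1456, 1467, 1000⟩⟩ (tC53A.hC3m true true) :=
  posD_of_check (c := ⟨385, ⟨3, 8, 14, 7⟩⟩) (by decide +kernel)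

def tC53A_c3ph11 : PosD ⟨⟨0, 1, 1⟩, ⟨98, 99, 147⟩, ⟨9816, 9909, 30000⟩, ⟨1456, 1467, 1000⟩⟩ (tC53A.hC3p' true true) :=
  posD_of_check (c := ⟨389, ⟨3, 8, 14, 7⟩⟩) (by decide +kernel)

def tC53A_c3mh11 : PosD ⟨⟨0, 1, 1⟩, ⟨98, 99, 147⟩, ⟨9816, 9909, 30000⟩, ⟨1456, 1467, 1000⟩⟩ (tC53A.hC3m' true true) :=
  posD_of_check (c := ⟨385, ⟨3, 8, 14, 7⟩⟩) (by decide +kernel)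

def tC53A_up11 : PosD ⟨⟨0, 1, 1⟩, ⟨98, 99, 147⟩, ⟨9816, 9909, 30000⟩, ⟨1456, 1467, 1000⟩⟩ (tC53A.hUp true true) :=
  posD_of_check (c := ⟨389, ⟨3, 8, 14, 7⟩⟩) (by decide +kernel)

def tC53A_um11 : PosD ⟨⟨0, 1, 1⟩, ⟨98, 99, 147⟩, ⟨9816, 9909, 30000⟩, ⟨1456, 1467, 1000⟩⟩ (tC53A.hUm true true) :=
  posD_of_check (c := ⟨385, ⟨3, 8, 14, 7⟩⟩) (by decide +kernel)

def tC53A_tmg11 : PosD ⟨⟨0, 1, 1⟩, ⟨98, 99, 147⟩, ⟨9816, 9909, 30000⟩, ⟨1456, 1467, 1000⟩⟩ (tC53A.hTMG true (tC53A.pEnd true)) :=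
  posD_of_check (c := ⟨349, ⟨2, 7, 13, 6⟩⟩) (by decide +kernel)

/-- The signs of the piece. -/
def tC53A_sign : tC53A.Sign ⟨⟨0, 1, 1⟩, ⟨98, 99, 147⟩, ⟨9816, 9909, 30000⟩, ⟨1456, 1467, 1000⟩⟩ :=
  ⟨tC53A_pp,
    tC53A_k2p,
    tC53A_k2m,
    Bool.forall_bool.2 ⟨(Bool.forall_bool.2 ⟨tC53A_tg00, tC53A_tg01⟩), (Bool.forall_bool.2 ⟨tC53A_tg10, tC53A_tg11⟩)⟩,
    Bool.forall_bool.2 ⟨(Bool.forall_bool.2 ⟨tC53A_c2p00, tC53A_c2p01⟩), (Bool.forall_bool.2 ⟨tC53A_c2p10, tC53A_c2p11⟩)⟩,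
    Bool.forall_bool.2 ⟨(Bool.forall_bool.2 ⟨tC53A_c2m00, tC53A_c2m01⟩), (Bool.forall_bool.2 ⟨tC53A_c2m10, tC53A_c2m11⟩)⟩,
    Bool.forall_bool.2 ⟨tC53A_kap0, tC53A_kap1⟩,
    Bool.forall_bool.2 ⟨tC53A_c10, tC53A_c11⟩,
    Bool.forall_bool.2 ⟨(Bool.forall_bool.2 ⟨tC53A_c3p00, tC53A_c3p01⟩), (Bool.forall_bool.2 ⟨tC53A_c3p10, tC53A_c3p11⟩)⟩,
    Bool.forall_bool.2 ⟨(Bool.forall_bool.2 ⟨tC53A_c3m00, tC53A_c3m01⟩), (Bool.forall_bool.2 ⟨tC53A_c3m10, tC53A_c3m11⟩)⟩,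
    Bool.forall_bool.2 ⟨(Bool.forall_bool.2 ⟨tC53A_tmg00, tC53A_tmg01⟩), (Bool.forall_bool.2 ⟨tC53A_tmg10, tC53A_tmg11⟩)⟩,
    .inr (Bool.forall_bool.2 ⟨⟨tC53A_c1h0, Bool.forall_bool.2 ⟨⟨tC53A_c3ph00, tC53A_c3mh00, tC53A_up00, tC53A_um00⟩, ⟨tC53A_c3ph01, tC53A_c3mh01, tC53A_up01, tC53A_um01⟩⟩⟩, ⟨tC53A_c1h1, Bool.forall_bool.2 ⟨⟨tC53A_c3ph10, tC53A_c3mh10, tC53A_up10, tC53A_um10⟩, ⟨tC53A_c3ph11, tC53A_c3mh11, tC53A_up11, tC53A_um11⟩⟩⟩⟩),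
    tC53A_v2p,
    tC53A_v2m,
    tC53A_v3p,
    tC53A_v3m,
    posD_sub (b := ⟨⟨0, 1, 1⟩, ⟨98, 99, 147⟩, ⟨4050, 10000, 30000⟩, ⟨290, 4000, 1000⟩⟩) (by decide +kernel) tC_vG,
    posD_sub (b := ⟨⟨0, 1, 1⟩, ⟨98, 99, 147⟩, ⟨4050, 10000, 30000⟩, ⟨290, 4000, 1000⟩⟩) (by decide +kernel) tC_vMG,
    posD_sub (b := ⟨⟨0, 1, 1⟩, ⟨98, 99, 147⟩, ⟨4050, 10000, 30000⟩, ⟨290, 4000, 1000⟩⟩) (by decide +kernel) tC_ak,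
    posD_sub (b := ⟨⟨0, 1, 1⟩, ⟨98, 99, 147⟩, ⟨4050, 10000, 30000⟩, ⟨290, 4000, 1000⟩⟩) (by decide +kernel) tC_aw,
    posD_sub (b := ⟨⟨0, 1, 1⟩, ⟨98, 99, 147⟩, ⟨4050, 10000, 30000⟩, ⟨290, 4000, 1000⟩⟩) (by decide +kernel) tC_gk,
    posD_sub (b := ⟨⟨0, 1, 1⟩, ⟨98, 99, 147⟩, ⟨4050, 10000, 30000⟩, ⟨290, 4000, 1000⟩⟩) (by decide +kernel) tC_gw,
    posD_sub (b := ⟨⟨0, 1, 1⟩, ⟨98, 99, 147⟩, ⟨4050, 10000, 30000⟩, ⟨290, 4000, 1000⟩⟩) (by decide +kernel) tC_ek,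
    posD_sub (b := ⟨⟨0, 1, 1⟩, ⟨98, 99, 147⟩, ⟨4050, 10000, 30000⟩, ⟨290, 4000, 1000⟩⟩) (by decide +kernel) tC_ew⟩

def tC53B_pp : PosD ⟨⟨0, 1, 1⟩, ⟨98, 99, 147⟩, ⟨9816, 9909, 30000⟩, ⟨1456, 1467, 1000⟩⟩ (tC53B.xPL) :=
  posD_of_check (c := ⟨63, ⟨1, 1, 1, 1⟩⟩) (by decide +kernel)

def tC53B_k2p : PosD ⟨⟨0, 1, 1⟩, ⟨98, 99, 147⟩, ⟨9816, 9909, 30000⟩, ⟨1456, 1467, 1000⟩⟩ (tC53B.k2p tC53B.xE) :=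
  posD_of_check (c := ⟨59, ⟨1, 1, 1, 1⟩⟩) (by decide +kernel)

def tC53B_k2m : PosD ⟨⟨0, 1, 1⟩, ⟨98, 99, 147⟩, ⟨9816, 9909, 30000⟩, ⟨1456, 1467, 1000⟩⟩ (tC53B.k2m tC53B.xE) :=
  posD_of_check (c := ⟨55, ⟨1, 1, 1, 1⟩⟩) (by decide +kernel)

def tC53B_v2p : PosD ⟨⟨0, 1, 1⟩, ⟨98, 99, 147⟩, ⟨9816, 9909, 30000⟩, ⟨1456, 1467, 1000⟩⟩ (tC53B.hV2p) :=
  posD_of_check (c := ⟨263, ⟨1, 6, 10, 4⟩⟩) (by decide +kernel)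

def tC53B_v2m : PosD ⟨⟨0, 1, 1⟩, ⟨98, 99, 147⟩, ⟨9816, 9909, 30000⟩, ⟨1456, 1467, 1000⟩⟩ (tC53B.hV2m) :=
  posD_of_check (c := ⟨259, ⟨1, 6, 10, 4⟩⟩) (by decide +kernel)

def tC53B_v3p : PosD ⟨⟨0, 1, 1⟩, ⟨98, 99, 147⟩, ⟨9816, 9909, 30000⟩, ⟨1456, 1467, 1000⟩⟩ (tC53B.hV3p) :=
  posD_of_check (c := ⟨248, ⟨1, 6, 9, 4⟩⟩) (by decide +kernel)

def tC53B_v3m : PosD ⟨⟨0, 1, 1⟩, ⟨98, 99, 147⟩, ⟨9816, 9909, 30000⟩, ⟨1456, 1467, 1000⟩⟩ (tC53B.hV3m) :=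
  posD_of_check (c := ⟨244, ⟨1, 6, 9, 4⟩⟩) (by decide +kernel)

def tC53B_kap0 : PosD ⟨⟨0, 1, 1⟩, ⟨98, 99, 147⟩, ⟨9816, 9909, 30000⟩, ⟨1456, 1467, 1000⟩⟩ (tC53B.kap false) :=
  posD_of_check (c := ⟨4, ⟨0, 0, 0, 0⟩⟩) (by decide +kernel)

def tC53B_c10 : PosD ⟨⟨0, 1, 1⟩, ⟨98, 99, 147⟩, ⟨9816, 9909, 30000⟩, ⟨1456, 1467, 1000⟩⟩ (tC53B.hC1 false) :=
  posD_of_check (c := ⟨242, ⟨2, 5, 7, 4⟩⟩) (by decide +kernel)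

def tC53B_c1h0 : PosD ⟨⟨0, 1, 1⟩, ⟨98, 99, 147⟩, ⟨9816, 9909, 30000⟩, ⟨1456, 1467, 1000⟩⟩ (tC53B.hC1' false) :=
  posD_of_check (c := ⟨242, ⟨2, 5, 7, 4⟩⟩) (by decide +kernel)

def tC53B_tg00 : PosD ⟨⟨0, 1, 1⟩, ⟨98, 99, 147⟩, ⟨9816, 9909, 30000⟩, ⟨1456, 1467, 1000⟩⟩ (tC53B.hG false (tC53B.pEnd false)) :=
  posD_of_check (c := ⟨349, ⟨2, 7, 12, 7⟩⟩) (by decide +kernel)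

def tC53B_c2p00 : PosD ⟨⟨0, 1, 1⟩, ⟨98, 99, 147⟩, ⟨9816, 9909, 30000⟩, ⟨1456, 1467, 1000⟩⟩ (tC53B.hC2p false (tC53B.pEnd false)) :=
  posD_of_check (c := ⟨408, ⟨3, 8, 13, 8⟩⟩) (by decide +kernel)

def tC53B_c2m00 : PosD ⟨⟨0, 1, 1⟩, ⟨98, 99, 147⟩, ⟨9816, 9909, 30000⟩, ⟨1456, 1467, 1000⟩⟩ (tC53B.hC2m false (tC53B.pEnd false)) :=
  posD_of_relax (k₁ := 0) (k₂ := 0) (k₃ := 1) (n := 16) (posD_of_check (c := ⟨404, ⟨3, 8, 13, 8⟩⟩) (by decide +kernel))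

def tC53B_c3p00 : PosD ⟨⟨0, 1, 1⟩, ⟨98, 99, 147⟩, ⟨9816, 9909, 30000⟩, ⟨1456, 1467, 1000⟩⟩ (tC53B.hC3p false false) :=
  posD_of_check (c := ⟨389, ⟨3, 8, 14, 7⟩⟩) (by decide +kernel)

def tC53B_c3m00 : PosD ⟨⟨0, 1, 1⟩, ⟨98, 99, 147⟩, ⟨9816, 9909, 30000⟩, ⟨1456, 1467, 1000⟩⟩ (tC53B.hC3m false false) :=
  posD_of_check (c := ⟨385, ⟨3, 8, 14, 7⟩⟩) (by decide +kernel)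

def tC53B_c3ph00 : PosD ⟨⟨0, 1, 1⟩, ⟨98, 99, 147⟩, ⟨9816, 9909, 30000⟩, ⟨1456, 1467, 1000⟩⟩ (tC53B.hC3p' false false) :=
  posD_of_check (c := ⟨389, ⟨3, 8, 14, 7⟩⟩) (by decide +kernel)

def tC53B_c3mh00 : PosD ⟨⟨0, 1, 1⟩, ⟨98, 99, 147⟩, ⟨9816, 9909, 30000⟩, ⟨1456, 1467, 1000⟩⟩ (tC53B.hC3m' false false) :=
  posD_of_check (c := ⟨385, ⟨3, 8, 14, 7⟩⟩) (by decide +kernel)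

def tC53B_up00 : PosD ⟨⟨0, 1, 1⟩, ⟨98, 99, 147⟩, ⟨9816, 9909, 30000⟩, ⟨1456, 1467, 1000⟩⟩ (tC53B.hUp false false) :=
  posD_of_check (c := ⟨389, ⟨3, 8, 14, 7⟩⟩) (by decide +kernel)

def tC53B_um00 : PosD ⟨⟨0, 1, 1⟩, ⟨98, 99, 147⟩, ⟨9816, 9909, 30000⟩, ⟨1456, 1467, 1000⟩⟩ (tC53B.hUm false false) :=
  posD_of_check (c := ⟨385, ⟨3, 8, 14, 7⟩⟩) (by decide +kernel)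

def tC53B_tmg00 : PosD ⟨⟨0, 1, 1⟩, ⟨98, 99, 147⟩, ⟨9816, 9909, 30000⟩, ⟨1456, 1467, 1000⟩⟩ (tC53B.hTMG false (tC53B.pEnd false)) :=
  posD_of_check (c := ⟨349, ⟨2, 7, 13, 6⟩⟩) (by decide +kernel)

def tC53B_tg01 : PosD ⟨⟨0, 1, 1⟩, ⟨98, 99, 147⟩, ⟨9816, 9909, 30000⟩, ⟨1456, 1467, 1000⟩⟩ (tC53B.hG true (tC53B.pEnd false)) :=
  posD_of_check (c := ⟨349, ⟨2, 7, 12, 7⟩⟩) (by decide +kernel)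

def tC53B_c2p01 : PosD ⟨⟨0, 1, 1⟩, ⟨98, 99, 147⟩, ⟨9816, 9909, 30000⟩, ⟨1456, 1467, 1000⟩⟩ (tC53B.hC2p true (tC53B.pEnd false)) :=
  posD_of_check (c := ⟨408, ⟨3, 8, 13, 8⟩⟩) (by decide +kernel)

def tC53B_c2m01 : PosD ⟨⟨0, 1, 1⟩, ⟨98, 99, 147⟩, ⟨9816, 9909, 30000⟩, ⟨1456, 1467, 1000⟩⟩ (tC53B.hC2m true (tC53B.pEnd false)) :=
  posD_of_check (c := ⟨404, ⟨3, 8, 13, 8⟩⟩) (by decide +kernel)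

def tC53B_c3p01 : PosD ⟨⟨0, 1, 1⟩, ⟨98, 99, 147⟩, ⟨9816, 9909, 30000⟩, ⟨1456, 1467, 1000⟩⟩ (tC53B.hC3p false true) :=
  posD_of_check (c := ⟨389, ⟨3, 8, 14, 7⟩⟩) (by decide +kernel)

def tC53B_c3m01 : PosD ⟨⟨0, 1, 1⟩, ⟨98, 99, 147⟩, ⟨9816, 9909, 30000⟩, ⟨1456, 1467, 1000⟩⟩ (tC53B.hC3m false true) :=
  posD_of_check (c := ⟨385, ⟨3, 8, 14, 7⟩⟩) (by decide +kernel)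

def tC53B_c3ph01 : PosD ⟨⟨0, 1, 1⟩, ⟨98, 99, 147⟩, ⟨9816, 9909, 30000⟩, ⟨1456, 1467, 1000⟩⟩ (tC53B.hC3p' false true) :=
  posD_of_check (c := ⟨389, ⟨3, 8, 14, 7⟩⟩) (by decide +kernel)

def tC53B_c3mh01 : PosD ⟨⟨0, 1, 1⟩, ⟨98, 99, 147⟩, ⟨9816, 9909, 30000⟩, ⟨1456, 1467, 1000⟩⟩ (tC53B.hC3m' false true) :=
  posD_of_check (c := ⟨385, ⟨3, 8, 14, 7⟩⟩) (by decide +kernel)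

def tC53B_up01 : PosD ⟨⟨0, 1, 1⟩, ⟨98, 99, 147⟩, ⟨9816, 9909, 30000⟩, ⟨1456, 1467, 1000⟩⟩ (tC53B.hUp false true) :=
  posD_of_check (c := ⟨389, ⟨3, 8, 14, 7⟩⟩) (by decide +kernel)

def tC53B_um01 : PosD ⟨⟨0, 1, 1⟩, ⟨98, 99, 147⟩, ⟨9816, 9909, 30000⟩, ⟨1456, 1467, 1000⟩⟩ (tC53B.hUm false true) :=
  posD_of_check (c := ⟨385, ⟨3, 8, 14, 7⟩⟩) (by decide +kernel)

def tC53B_tmg01 : PosD ⟨⟨0, 1, 1⟩, ⟨98, 99, 147⟩, ⟨9816, 9909, 30000⟩, ⟨1456, 1467, 1000⟩⟩ (tC53B.hTMG true (tC53B.pEnd false)) :=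
  posD_of_check (c := ⟨349, ⟨2, 7, 13, 6⟩⟩) (by decide +kernel)

def tC53B_kap1 : PosD ⟨⟨0, 1, 1⟩, ⟨98, 99, 147⟩, ⟨9816, 9909, 30000⟩, ⟨1456, 1467, 1000⟩⟩ (tC53B.kap true) :=
  posD_of_check (c := ⟨4, ⟨0, 0, 0, 0⟩⟩) (by decide +kernel)

def tC53B_c11 : PosD ⟨⟨0, 1, 1⟩, ⟨98, 99, 147⟩, ⟨9816, 9909, 30000⟩, ⟨1456, 1467, 1000⟩⟩ (tC53B.hC1 true) :=
  posD_of_check (c := ⟨242, ⟨2, 5, 7, 4⟩⟩) (by decide +kernel)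

def tC53B_c1h1 : PosD ⟨⟨0, 1, 1⟩, ⟨98, 99, 147⟩, ⟨9816, 9909, 30000⟩, ⟨1456, 1467, 1000⟩⟩ (tC53B.hC1' true) :=
  posD_of_check (c := ⟨242, ⟨2, 5, 7, 4⟩⟩) (by decide +kernel)

def tC53B_tg10 : PosD ⟨⟨0, 1, 1⟩, ⟨98, 99, 147⟩, ⟨9816, 9909, 30000⟩, ⟨1456, 1467, 1000⟩⟩ (tC53B.hG false (tC53B.pEnd true)) :=
  posD_of_check (c := ⟨349, ⟨2, 7, 12, 7⟩⟩) (by decide +kernel)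

def tC53B_c2p10 : PosD ⟨⟨0, 1, 1⟩, ⟨98, 99, 147⟩, ⟨9816, 9909, 30000⟩, ⟨1456, 1467, 1000⟩⟩ (tC53B.hC2p false (tC53B.pEnd true)) :=
  posD_of_check (c := ⟨408, ⟨3, 8, 13, 8⟩⟩) (by decide +kernel)

def tC53B_c2m10 : PosD ⟨⟨0, 1, 1⟩, ⟨98, 99, 147⟩, ⟨9816, 9909, 30000⟩, ⟨1456, 1467, 1000⟩⟩ (tC53B.hC2m false (tC53B.pEnd true)) :=
  posD_of_relax (k₁ := 0) (k₂ := 0) (k₃ := 1) (n := 16) (posD_of_check (c := ⟨404, ⟨3, 8, 13, 8⟩⟩) (by decide +kernel))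

def tC53B_c3p10 : PosD ⟨⟨0, 1, 1⟩, ⟨98, 99, 147⟩, ⟨9816, 9909, 30000⟩, ⟨1456, 1467, 1000⟩⟩ (tC53B.hC3p true false) :=
  posD_of_check (c := ⟨389, ⟨3, 8, 14, 7⟩⟩) (by decide +kernel)

def tC53B_c3m10 : PosD ⟨⟨0, 1, 1⟩, ⟨98, 99, 147⟩, ⟨9816, 9909, 30000⟩, ⟨1456, 1467, 1000⟩⟩ (tC53B.hC3m true false) :=
  posD_of_check (c := ⟨385, ⟨3, 8, 14, 7⟩⟩) (by decide +kernel)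

def tC53B_c3ph10 : PosD ⟨⟨0, 1, 1⟩, ⟨98, 99, 147⟩, ⟨9816, 9909, 30000⟩, ⟨1456, 1467, 1000⟩⟩ (tC53B.hC3p' true false) :=
  posD_of_check (c := ⟨389, ⟨3, 8, 14, 7⟩⟩) (by decide +kernel)

def tC53B_c3mh10 : PosD ⟨⟨0, 1, 1⟩, ⟨98, 99, 147⟩, ⟨9816, 9909, 30000⟩, ⟨1456, 1467, 1000⟩⟩ (tC53B.hC3m' true false) :=
  posD_of_check (c := ⟨385, ⟨3, 8, 14, 7⟩⟩) (by decide +kernel)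

def tC53B_up10 : PosD ⟨⟨0, 1, 1⟩, ⟨98, 99, 147⟩, ⟨9816, 9909, 30000⟩, ⟨1456, 1467, 1000⟩⟩ (tC53B.hUp true false) :=
  posD_of_check (c := ⟨389, ⟨3, 8, 14, 7⟩⟩) (by decide +kernel)

def tC53B_um10 : PosD ⟨⟨0, 1, 1⟩, ⟨98, 99, 147⟩, ⟨9816, 9909, 30000⟩, ⟨1456, 1467, 1000⟩⟩ (tC53B.hUm true false) :=
  posD_of_check (c := ⟨385, ⟨3, 8, 14, 7⟩⟩) (by decide +kernel)

def tC53B_tmg10 : PosD ⟨⟨0, 1, 1⟩, ⟨98, 99, 147⟩, ⟨9816, 9909, 30000⟩, ⟨1456, 1467, 1000⟩⟩ (tC53B.hTMG false (tC53B.pEnd true)) :=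
  posD_of_check (c := ⟨349, ⟨2, 7, 13, 6⟩⟩) (by decide +kernel)

def tC53B_tg11 : PosD ⟨⟨0, 1, 1⟩, ⟨98, 99, 147⟩, ⟨9816, 9909, 30000⟩, ⟨1456, 1467, 1000⟩⟩ (tC53B.hG true (tC53B.pEnd true)) :=
  posD_of_check (c := ⟨349, ⟨2, 7, 12, 7⟩⟩) (by decide +kernel)

def tC53B_c2p11 : PosD ⟨⟨0, 1, 1⟩, ⟨98, 99, 147⟩, ⟨9816, 9909, 30000⟩, ⟨1456, 1467, 1000⟩⟩ (tC53B.hC2p true (tC53B.pEnd true)) :=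
  posD_of_check (c := ⟨408, ⟨3, 8, 13, 8⟩⟩) (by decide +kernel)

def tC53B_c2m11 : PosD ⟨⟨0, 1, 1⟩, ⟨98, 99, 147⟩, ⟨9816, 9909, 30000⟩, ⟨1456, 1467, 1000⟩⟩ (tC53B.hC2m true (tC53B.pEnd true)) :=
  posD_of_check (c := ⟨404, ⟨3, 8, 13, 8⟩⟩) (by decide +kernel)

def tC53B_c3p11 : PosD ⟨⟨0, 1, 1⟩, ⟨98, 99, 147⟩, ⟨9816, 9909, 30000⟩, ⟨1456, 1467, 1000⟩⟩ (tC53B.hC3p true true) :=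
  posD_of_check (c := ⟨389, ⟨3, 8, 14, 7⟩⟩) (by decide +kernel)

def tC53B_c3m11 : PosD ⟨⟨0, 1, 1⟩, ⟨98, 99, 147⟩, ⟨9816, 9909, 30000⟩, ⟨1456, 1467, 1000⟩⟩ (tC53B.hC3m true true) :=
  posD_of_check (c := ⟨385, ⟨3, 8, 14, 7⟩⟩) (by decide +kernel)

def tC53B_c3ph11 : PosD ⟨⟨0, 1, 1⟩, ⟨98, 99, 147⟩, ⟨9816, 9909, 30000⟩, ⟨1456, 1467, 1000⟩⟩ (tC53B.hC3p' true true) :=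
  posD_of_check (c := ⟨389, ⟨3, 8, 14, 7⟩⟩) (by decide +kernel)

def tC53B_c3mh11 : PosD ⟨⟨0, 1, 1⟩, ⟨98, 99, 147⟩, ⟨9816, 9909, 30000⟩, ⟨1456, 1467, 1000⟩⟩ (tC53B.hC3m' true true) :=
  posD_of_check (c := ⟨385, ⟨3, 8, 14, 7⟩⟩) (by decide +kernel)

def tC53B_up11 : PosD ⟨⟨0, 1, 1⟩, ⟨98, 99, 147⟩, ⟨9816, 9909, 30000⟩, ⟨1456, 1467, 1000⟩⟩ (tC53B.hUp true true) :=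
  posD_of_check (c := ⟨389, ⟨3, 8, 14, 7⟩⟩) (by decide +kernel)

def tC53B_um11 : PosD ⟨⟨0, 1, 1⟩, ⟨98, 99, 147⟩, ⟨9816, 9909, 30000⟩, ⟨1456, 1467, 1000⟩⟩ (tC53B.hUm true true) :=
  posD_of_check (c := ⟨385, ⟨3, 8, 14, 7⟩⟩) (by decide +kernel)

def tC53B_tmg11 : PosD ⟨⟨0, 1, 1⟩, ⟨98, 99, 147⟩, ⟨9816, 9909, 30000⟩, ⟨1456, 1467, 1000⟩⟩ (tC53B.hTMG true (tC53B.pEnd true)) :=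
  posD_of_check (c := ⟨349, ⟨2, 7, 13, 6⟩⟩) (by decide +kernel)

/-- The signs of the piece. -/
def tC53B_sign : tC53B.Sign ⟨⟨0, 1, 1⟩, ⟨98, 99, 147⟩, ⟨9816, 9909, 30000⟩, ⟨1456, 1467, 1000⟩⟩ :=
  ⟨tC53B_pp,
    tC53B_k2p,
    tC53B_k2m,
    Bool.forall_bool.2 ⟨(Bool.forall_bool.2 ⟨tC53B_tg00, tC53B_tg01⟩), (Bool.forall_bool.2 ⟨tC53B_tg10, tC53B_tg11⟩)⟩,
    Bool.forall_bool.2 ⟨(Bool.forall_bool.2 ⟨tC53B_c2p00, tC53B_c2p01⟩), (Bool.forall_bool.2 ⟨tC53B_c2p10, tC53B_c2p11⟩)⟩,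
    Bool.forall_bool.2 ⟨(Bool.forall_bool.2 ⟨tC53B_c2m00, tC53B_c2m01⟩), (Bool.forall_bool.2 ⟨tC53B_c2m10, tC53B_c2m11⟩)⟩,
    Bool.forall_bool.2 ⟨tC53B_kap0, tC53B_kap1⟩,
    Bool.forall_bool.2 ⟨tC53B_c10, tC53B_c11⟩,
    Bool.forall_bool.2 ⟨(Bool.forall_bool.2 ⟨tC53B_c3p00, tC53B_c3p01⟩), (Bool.forall_bool.2 ⟨tC53B_c3p10, tC53B_c3p11⟩)⟩,
    Bool.forall_bool.2 ⟨(Bool.forall_bool.2 ⟨tC53B_c3m00, tC53B_c3m01⟩), (Bool.forall_bool.2 ⟨tC53B_c3m10, tC53B_c3m11⟩)⟩,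
    Bool.forall_bool.2 ⟨(Bool.forall_bool.2 ⟨tC53B_tmg00, tC53B_tmg01⟩), (Bool.forall_bool.2 ⟨tC53B_tmg10, tC53B_tmg11⟩)⟩,
    .inr (Bool.forall_bool.2 ⟨⟨tC53B_c1h0, Bool.forall_bool.2 ⟨⟨tC53B_c3ph00, tC53B_c3mh00, tC53B_up00, tC53B_um00⟩, ⟨tC53B_c3ph01, tC53B_c3mh01, tC53B_up01, tC53B_um01⟩⟩⟩, ⟨tC53B_c1h1, Bool.forall_bool.2 ⟨⟨tC53B_c3ph10, tC53B_c3mh10, tC53B_up10, tC53B_um10⟩, ⟨tC53B_c3ph11, tC53B_c3mh11, tC53B_up11, tC53B_um11⟩⟩⟩⟩),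
    tC53B_v2p,
    tC53B_v2m,
    tC53B_v3p,
    tC53B_v3m,
    posD_sub (b := ⟨⟨0, 1, 1⟩, ⟨98, 99, 147⟩, ⟨4050, 10000, 30000⟩, ⟨290, 4000, 1000⟩⟩) (by decide +kernel) tC_vG,
    posD_sub (b := ⟨⟨0, 1, 1⟩, ⟨98, 99, 147⟩, ⟨4050, 10000, 30000⟩, ⟨290, 4000, 1000⟩⟩) (by decide +kernel) tC_vMG,
    posD_sub (b := ⟨⟨0, 1, 1⟩, ⟨98, 99, 147⟩, ⟨4050, 10000, 30000⟩, ⟨290, 4000, 1000⟩⟩) (by decide +kernel) tC_ak,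
    posD_sub (b := ⟨⟨0, 1, 1⟩, ⟨98, 99, 147⟩, ⟨4050, 10000, 30000⟩, ⟨290, 4000, 1000⟩⟩) (by decide +kernel) tC_aw,
    posD_sub (b := ⟨⟨0, 1, 1⟩, ⟨98, 99, 147⟩, ⟨4050, 10000, 30000⟩, ⟨290, 4000, 1000⟩⟩) (by decide +kernel) tC_gk,
    posD_sub (b := ⟨⟨0, 1, 1⟩, ⟨98, 99, 147⟩, ⟨4050, 10000, 30000⟩, ⟨290, 4000, 1000⟩⟩) (by decide +kernel) tC_gw,
    posD_sub (b := ⟨⟨0, 1, 1⟩, ⟨98, 99, 147⟩, ⟨4050, 10000, 30000⟩, ⟨290, 4000, 1000⟩⟩) (by decide +kernel) tC_ek,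
    posD_sub (b := ⟨⟨0, 1, 1⟩, ⟨98, 99, 147⟩, ⟨4050, 10000, 30000⟩, ⟨290, 4000, 1000⟩⟩) (by decide +kernel) tC_ew⟩

def tC54_phx : PosIf ⟨⟨0, 1, 1⟩, ⟨98, 99, 147⟩, ⟨9909, 10000, 30000⟩, ⟨1446, 1467, 1000⟩⟩ (tC54.u₁ - tC54Lo) (phCn (tC54.u₁ + xO * (tC54Lo - tC54.u₁))) :=
  posIf_of_posD (posD_of_check (c := ⟨109, ⟨2, 0, 4, 2⟩⟩) (by decide +kernel))

def tC54_phd : PosD ⟨⟨0, 1, 1⟩, ⟨98, 99, 147⟩, ⟨9909, 10000, 30000⟩, ⟨1446, 1467, 1000⟩⟩ (phCd (tC54.u₁ + xO * (tC54Lo - tC54.u₁))) :=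
  posD_of_check (c := ⟨51, ⟨1, 0, 2, 1⟩⟩) (by decide +kernel)

def tC54_p0 : PosD ⟨⟨0, 1, 1⟩, ⟨98, 99, 147⟩, ⟨9909, 10000, 30000⟩, ⟨1446, 1467, 1000⟩⟩ (tC54.hP0) :=
  posD_of_check (c := ⟨67, ⟨0, 2, 2, 1⟩⟩) (by decide +kernel)

def tC54_gn : PosD ⟨⟨0, 1, 1⟩, ⟨98, 99, 147⟩, ⟨9909, 10000, 30000⟩, ⟨1446, 1467, 1000⟩⟩ (tC54.hGn) :=
  posD_of_check (c := ⟨69, ⟨1, 1, 2, 2⟩⟩) (by decide +kernel)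

def tC54_den0 : PosD ⟨⟨0, 1, 1⟩, ⟨98, 99, 147⟩, ⟨9909, 10000, 30000⟩, ⟨1446, 1467, 1000⟩⟩ (tC54.hDen false) :=
  posD_of_check (c := ⟨51, ⟨1, 0, 2, 1⟩⟩) (by decide +kernel)

def tC54_den1 : PosD ⟨⟨0, 1, 1⟩, ⟨98, 99, 147⟩, ⟨9909, 10000, 30000⟩, ⟨1446, 1467, 1000⟩⟩ (tC54.hDen true) :=
  posD_of_check (c := ⟨51, ⟨1, 0, 2, 1⟩⟩) (by decide +kernel)

def tC54_none0 : PosD ⟨⟨0, 1, 1⟩, ⟨98, 99, 147⟩, ⟨9909, 10000, 30000⟩, ⟨1446, 1467, 1000⟩⟩ (tC54.hNone false) :=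
  posD_of_check (c := ⟨358, ⟨5, 6, 11, 7⟩⟩) (by decide +kernel)

def tC54_none1 : PosD ⟨⟨0, 1, 1⟩, ⟨98, 99, 147⟩, ⟨9909, 10000, 30000⟩, ⟨1446, 1467, 1000⟩⟩ (tC54.hNone true) :=
  posD_of_check (c := ⟨356, ⟨5, 6, 11, 7⟩⟩) (by decide +kernel)

def tC54_nupU : PosD ⟨⟨0, 1, 1⟩, ⟨98, 99, 147⟩, ⟨9909, 10000, 30000⟩, ⟨1446, 1467, 1000⟩⟩ (tC54.pU.ν) :=
  posD_of_check (c := ⟨58, ⟨0, 0, 1, 1⟩⟩) (by decide +kernel)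

/-- No point in the piece. -/
def tC54_empty : tC54.Empty ⟨⟨0, 1, 1⟩, ⟨98, 99, 147⟩, ⟨9909, 10000, 30000⟩, ⟨1446, 1467, 1000⟩⟩ :=
  ⟨tC54_p0, Bool.forall_bool.2 ⟨tC54_den0, tC54_den1⟩, tC54_gn, ⟨.inr rfl, .inl tC54_nupU⟩, Bool.forall_bool.2 ⟨tC54_none0, tC54_none1⟩⟩

def tC55_phx : PosD ⟨⟨0, 1, 1⟩, ⟨98, 99, 147⟩, ⟨9258, 10000, 30000⟩, ⟨1467, 1599, 1000⟩⟩ (phCn (tC55Hi + xO * (tC55Lo - tC55Hi))) :=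
  posD_of_check (c := ⟨75, ⟨2, 0, 2, 1⟩⟩) (by decide +kernel)

def tC55_phd : PosD ⟨⟨0, 1, 1⟩, ⟨98, 99, 147⟩, ⟨9258, 10000, 30000⟩, ⟨1467, 1599, 1000⟩⟩ (phCd (tC55Hi + xO * (tC55Lo - tC55Hi))) :=
  posD_of_check (c := ⟨50, ⟨1, 0, 2, 0⟩⟩) (by decide +kernel)

end Vale.Agent.P100.Calib.Closed.Six.Tail
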