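import Vale.Agent.P100.Calib.SlabSixTailDataC
import Vale.Agent.P100.Calib.SlabSixTailGlobC

/-!
# Checks of some pieces of the certificate

The checks are written as definitions so that they run one after another, which keeps the memory of the
kernel low.
-/

set_option linter.defProp false

namespace Vale.Agent.P100.Calib.Closed.Six.Tail

open BoxPos Large

local instance sixTailCheckstC4Add : Add Ex := ⟨Ex.add⟩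
local instance sixTailCheckstC4Sub : Sub Ex := ⟨Ex.sub⟩
local instance sixTailCheckstC4Mul : Mul Ex := ⟨Ex.mul⟩

def tC13_p0a : PosD ⟨⟨0, 1, 1⟩, ⟨98, 99, 147⟩, ⟨4050, 7025, 30000⟩, ⟨670, 897, 1000⟩⟩ (tC13.hP0) :=
  posD_of_check (c := ⟨83, ⟨0, 2, 3, 1⟩⟩) (by decide +kernel)

def tC13_p0b : PosD ⟨⟨0, 1, 1⟩, ⟨98, 99, 147⟩, ⟨7025, 10000, 30000⟩, ⟨670, 897, 1000⟩⟩ (tC13.hP0) :=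
  posD_of_check (c := ⟨83, ⟨0, 2, 3, 1⟩⟩) (by decide +kernel)

def tC13_p0 : PosD ⟨⟨0, 1, 1⟩, ⟨98, 99, 147⟩, ⟨4050, 10000, 30000⟩, ⟨670, 897, 1000⟩⟩ (tC13.hP0) :=
  posD_join₂ tC13_p0a tC13_p0b

def tC13_gn : PosD ⟨⟨0, 1, 1⟩, ⟨98, 99, 147⟩, ⟨4050, 10000, 30000⟩, ⟨670, 897, 1000⟩⟩ (tC13.hGn) :=
  posD_of_check (c := ⟨57, ⟨1, 1, 2, 1⟩⟩) (by decide +kernel)

def tC13_den0 : PosD ⟨⟨0, 1, 1⟩, ⟨98, 99, 147⟩, ⟨4050, 10000, 30000⟩, ⟨670, 897, 1000⟩⟩ (tC13.hDen false) :=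
  posD_of_check (c := ⟨50, ⟨1, 0, 2, 0⟩⟩) (by decide +kernel)

def tC13_den1 : PosD ⟨⟨0, 1, 1⟩, ⟨98, 99, 147⟩, ⟨4050, 10000, 30000⟩, ⟨670, 897, 1000⟩⟩ (tC13.hDen true) :=
  posD_of_check (c := ⟨50, ⟨1, 0, 2, 0⟩⟩) (by decide +kernel)

def tC13_ev0 : PosD ⟨⟨0, 1, 1⟩, ⟨98, 99, 147⟩, ⟨4050, 10000, 30000⟩, ⟨670, 897, 1000⟩⟩ (tC13.hEv false) :=
  posD_of_check (c := ⟨134, ⟨4, 2, 4, 1⟩⟩) (by decide +kernel)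

def tC13_zL0 : PosD ⟨⟨0, 1, 1⟩, ⟨98, 99, 147⟩, ⟨4050, 10000, 30000⟩, ⟨670, 897, 1000⟩⟩ (tC13.hZL false) :=
  posD_of_check (c := ⟨171, ⟨4, 3, 6, 3⟩⟩) (by decide +kernel)

def tC13_zU0a : PosD ⟨⟨0, 1, 1⟩, ⟨98, 99, 147⟩, ⟨4050, 7025, 30000⟩, ⟨670, 897, 1000⟩⟩ (tC13.hZU false) :=
  posD_of_check (c := ⟨170, ⟨4, 3, 6, 3⟩⟩) (by decide +kernel)

def tC13_zU0ba : PosD ⟨⟨0, 1, 1⟩, ⟨98, 99, 147⟩, ⟨7025, 8512, 30000⟩, ⟨670, 897, 1000⟩⟩ (tC13.hZU false) :=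
  posD_of_check (c := ⟨172, ⟨4, 3, 6, 3⟩⟩) (by decide +kernel)

def tC13_zU0bb : PosD ⟨⟨0, 1, 1⟩, ⟨98, 99, 147⟩, ⟨8512, 10000, 30000⟩, ⟨670, 897, 1000⟩⟩ (tC13.hZU false) :=
  posD_of_check (c := ⟨172, ⟨4, 3, 6, 3⟩⟩) (by decide +kernel)

def tC13_zU0b : PosD ⟨⟨0, 1, 1⟩, ⟨98, 99, 147⟩, ⟨7025, 10000, 30000⟩, ⟨670, 897, 1000⟩⟩ (tC13.hZU false) :=
  posD_join₂ tC13_zU0ba tC13_zU0bb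

def tC13_zU0 : PosD ⟨⟨0, 1, 1⟩, ⟨98, 99, 147⟩, ⟨4050, 10000, 30000⟩, ⟨670, 897, 1000⟩⟩ (tC13.hZU false) :=
  posD_join₂ tC13_zU0a tC13_zU0b

def tC13_eL0 : PosD ⟨⟨0, 1, 1⟩, ⟨98, 99, 147⟩, ⟨4050, 10000, 30000⟩, ⟨670, 897, 1000⟩⟩ (tC13.hEL false) :=
  posD_of_check (c := ⟨241, ⟨5, 6, 7, 3⟩⟩) (by decide +kernel)

def tC13_eH0 : PosD ⟨⟨0, 1, 1⟩, ⟨98, 99, 147⟩, ⟨4050, 10000, 30000⟩, ⟨670, 897, 1000⟩⟩ (tC13.hEH false) :=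
  posD_of_check (c := ⟨244, ⟨5, 6, 7, 3⟩⟩) (by decide +kernel)

def tC13_pL0 : PosD ⟨⟨0, 1, 1⟩, ⟨98, 99, 147⟩, ⟨4050, 10000, 30000⟩, ⟨670, 897, 1000⟩⟩ (tC13.hPL false) :=
  posD_of_check (c := ⟨242, ⟨5, 6, 7, 2⟩⟩) (by decide +kernel)

def tC13_pU0 : PosD ⟨⟨0, 1, 1⟩, ⟨98, 99, 147⟩, ⟨4050, 10000, 30000⟩, ⟨670, 897, 1000⟩⟩ (tC13.hPU false) :=
  posD_of_check (c := ⟨243, ⟨5, 6, 7, 3⟩⟩) (by decide +kernel)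

def tC13_kU0 : PosD ⟨⟨0, 1, 1⟩, ⟨98, 99, 147⟩, ⟨4050, 10000, 30000⟩, ⟨670, 897, 1000⟩⟩ (tC13.hKU false) :=
  posD_of_check (c := ⟨240, ⟨5, 6, 7, 3⟩⟩) (by decide +kernel)

def tC13_kL0 : PosD ⟨⟨0, 1, 1⟩, ⟨98, 99, 147⟩, ⟨4050, 10000, 30000⟩, ⟨670, 897, 1000⟩⟩ (tC13.hKL false) :=
  posD_of_check (c := ⟨240, ⟨5, 6, 7, 3⟩⟩) (by decide +kernel)

def tC13_wU0 : PosD ⟨⟨0, 1, 1⟩, ⟨98, 99, 147⟩, ⟨4050, 10000, 30000⟩, ⟨670, 897, 1000⟩⟩ (tC13.hWU false) :=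
  posD_of_check (c := ⟨275, ⟨5, 8, 8, 3⟩⟩) (by decide +kernel)

def tC13_wL0 : PosD ⟨⟨0, 1, 1⟩, ⟨98, 99, 147⟩, ⟨4050, 10000, 30000⟩, ⟨670, 897, 1000⟩⟩ (tC13.hWL false) :=
  posD_of_check (c := ⟨274, ⟨5, 8, 8, 3⟩⟩) (by decide +kernel)

def tC13_ev1 : PosD ⟨⟨0, 1, 1⟩, ⟨98, 99, 147⟩, ⟨4050, 10000, 30000⟩, ⟨670, 897, 1000⟩⟩ (tC13.hEv true) :=
  posD_of_check (c := ⟨134, ⟨4, 2, 4, 1⟩⟩) (by decide +kernel)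

def tC13_zL1 : PosD ⟨⟨0, 1, 1⟩, ⟨98, 99, 147⟩, ⟨4050, 10000, 30000⟩, ⟨670, 897, 1000⟩⟩ (tC13.hZL true) :=
  posD_of_check (c := ⟨170, ⟨4, 3, 6, 3⟩⟩) (by decide +kernel)

def tC13_zU1 : PosD ⟨⟨0, 1, 1⟩, ⟨98, 99, 147⟩, ⟨4050, 10000, 30000⟩, ⟨670, 897, 1000⟩⟩ (tC13.hZU true) :=
  posD_of_check (c := ⟨170, ⟨4, 3, 6, 3⟩⟩) (by decide +kernel)

def tC13_eL1 : PosD ⟨⟨0, 1, 1⟩, ⟨98, 99, 147⟩, ⟨4050, 10000, 30000⟩, ⟨670, 897, 1000⟩⟩ (tC13.hEL true) :=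
  posD_of_check (c := ⟨242, ⟨5, 6, 7, 3⟩⟩) (by decide +kernel)

def tC13_eH1aaa : PosD ⟨⟨0, 1, 2⟩, ⟨98, 99, 147⟩, ⟨4050, 7025, 30000⟩, ⟨670, 783, 1000⟩⟩ (tC13.hEH true) :=
  posD_of_check (c := ⟨247, ⟨5, 6, 7, 3⟩⟩) (by decide +kernel)

def tC13_eH1aab : PosD ⟨⟨1, 2, 2⟩, ⟨98, 99, 147⟩, ⟨4050, 7025, 30000⟩, ⟨670, 783, 1000⟩⟩ (tC13.hEH true) :=
  posD_of_check (c := ⟨249, ⟨5, 6, 7, 3⟩⟩) (by decide +kernel)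

def tC13_eH1aa : PosD ⟨⟨0, 1, 1⟩, ⟨98, 99, 147⟩, ⟨4050, 7025, 30000⟩, ⟨670, 783, 1000⟩⟩ (tC13.hEH true) :=
  posD_units (b := ⟨⟨0, 2, 2⟩, ⟨98, 99, 147⟩, ⟨4050, 7025, 30000⟩, ⟨670, 783, 1000⟩⟩) (by decide +kernel) (posD_join₀ tC13_eH1aaa tC13_eH1aab)

def tC13_eH1aba : PosD ⟨⟨0, 1, 1⟩, ⟨98, 99, 147⟩, ⟨4050, 7025, 30000⟩, ⟨783, 840, 1000⟩⟩ (tC13.hEH true) :=
  posD_of_check (c := ⟨244, ⟨5, 6, 7, 3⟩⟩) (by decide +kernel)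

def tC13_eH1abb : PosD ⟨⟨0, 1, 1⟩, ⟨98, 99, 147⟩, ⟨4050, 7025, 30000⟩, ⟨840, 897, 1000⟩⟩ (tC13.hEH true) :=
  posD_of_check (c := ⟨244, ⟨5, 6, 7, 3⟩⟩) (by decide +kernel)

def tC13_eH1ab : PosD ⟨⟨0, 1, 1⟩, ⟨98, 99, 147⟩, ⟨4050, 7025, 30000⟩, ⟨783, 897, 1000⟩⟩ (tC13.hEH true) :=
  posD_join₃ tC13_eH1aba tC13_eH1abb

def tC13_eH1a : PosD ⟨⟨0, 1, 1⟩, ⟨98, 99, 147⟩, ⟨4050, 7025, 30000⟩, ⟨670, 897, 1000⟩⟩ (tC13.hEH true) :=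
  posD_join₃ tC13_eH1aa tC13_eH1ab

def tC13_eH1baaa : PosD ⟨⟨0, 1, 2⟩, ⟨98, 99, 147⟩, ⟨7025, 10000, 30000⟩, ⟨670, 726, 1000⟩⟩ (tC13.hEH true) :=
  posD_of_check (c := ⟨248, ⟨5, 6, 7, 3⟩⟩) (by decide +kernel)

def tC13_eH1baab : PosD ⟨⟨0, 1, 2⟩, ⟨98, 99, 147⟩, ⟨7025, 10000, 30000⟩, ⟨726, 783, 1000⟩⟩ (tC13.hEH true) :=
  posD_of_check (c := ⟨248, ⟨5, 6, 7, 3⟩⟩) (by decide +kernel)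

def tC13_eH1baa : PosD ⟨⟨0, 1, 2⟩, ⟨98, 99, 147⟩, ⟨7025, 10000, 30000⟩, ⟨670, 783, 1000⟩⟩ (tC13.hEH true) :=
  posD_join₃ tC13_eH1baaa tC13_eH1baab

def tC13_eH1baba : PosD ⟨⟨0, 1, 2⟩, ⟨98, 99, 147⟩, ⟨7025, 8512, 30000⟩, ⟨783, 897, 1000⟩⟩ (tC13.hEH true) :=
  posD_of_check (c := ⟨248, ⟨5, 6, 7, 3⟩⟩) (by decide +kernel)

def tC13_eH1babba : PosD ⟨⟨0, 1, 2⟩, ⟨98, 99, 147⟩, ⟨8512, 9256, 30000⟩, ⟨783, 897, 1000⟩⟩ (tC13.hEH true) :=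
  posD_of_check (c := ⟨249, ⟨5, 6, 7, 3⟩⟩) (by decide +kernel)

def tC13_eH1babbb : PosD ⟨⟨0, 1, 2⟩, ⟨98, 99, 147⟩, ⟨9256, 10000, 30000⟩, ⟨783, 897, 1000⟩⟩ (tC13.hEH true) :=
  posD_of_relax (k₁ := 0) (k₂ := 0) (k₃ := 1) (n := 16) (posD_of_check (c := ⟨249, ⟨5, 6, 7, 3⟩⟩) (by decide +kernel))

def tC13_eH1babb : PosD ⟨⟨0, 1, 2⟩, ⟨98, 99, 147⟩, ⟨8512, 10000, 30000⟩, ⟨783, 897, 1000⟩⟩ (tC13.hEH true) :=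
  posD_join₂ tC13_eH1babba tC13_eH1babbb

def tC13_eH1bab : PosD ⟨⟨0, 1, 2⟩, ⟨98, 99, 147⟩, ⟨7025, 10000, 30000⟩, ⟨783, 897, 1000⟩⟩ (tC13.hEH true) :=
  posD_join₂ tC13_eH1baba tC13_eH1babb

def tC13_eH1ba : PosD ⟨⟨0, 1, 2⟩, ⟨98, 99, 147⟩, ⟨7025, 10000, 30000⟩, ⟨670, 897, 1000⟩⟩ (tC13.hEH true) :=
  posD_join₃ tC13_eH1baa tC13_eH1bab

def tC13_eH1bba : PosD ⟨⟨1, 2, 2⟩, ⟨98, 99, 147⟩, ⟨7025, 8512, 30000⟩, ⟨670, 897, 1000⟩⟩ (tC13.hEH true) :=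
  posD_of_check (c := ⟨250, ⟨5, 6, 7, 3⟩⟩) (by decide +kernel)

def tC13_eH1bbba : PosD ⟨⟨1, 2, 2⟩, ⟨98, 99, 147⟩, ⟨8512, 9256, 30000⟩, ⟨670, 897, 1000⟩⟩ (tC13.hEH true) :=
  posD_of_check (c := ⟨251, ⟨5, 6, 7, 3⟩⟩) (by decide +kernel)

def tC13_eH1bbbb : PosD ⟨⟨1, 2, 2⟩, ⟨98, 99, 147⟩, ⟨9256, 10000, 30000⟩, ⟨670, 897, 1000⟩⟩ (tC13.hEH true) :=
  posD_of_relax (k₁ := 0) (k₂ := 0) (k₃ := 1) (n := 16) (posD_of_check (c := ⟨251, ⟨5, 6, 7, 3⟩⟩) (by decide +kernel))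

def tC13_eH1bbb : PosD ⟨⟨1, 2, 2⟩, ⟨98, 99, 147⟩, ⟨8512, 10000, 30000⟩, ⟨670, 897, 1000⟩⟩ (tC13.hEH true) :=
  posD_join₂ tC13_eH1bbba tC13_eH1bbbb

def tC13_eH1bb : PosD ⟨⟨1, 2, 2⟩, ⟨98, 99, 147⟩, ⟨7025, 10000, 30000⟩, ⟨670, 897, 1000⟩⟩ (tC13.hEH true) :=
  posD_join₂ tC13_eH1bba tC13_eH1bbb

def tC13_eH1b : PosD ⟨⟨0, 1, 1⟩, ⟨98, 99, 147⟩, ⟨7025, 10000, 30000⟩, ⟨670, 897, 1000⟩⟩ (tC13.hEH true) :=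
  posD_units (b := ⟨⟨0, 2, 2⟩, ⟨98, 99, 147⟩, ⟨7025, 10000, 30000⟩, ⟨670, 897, 1000⟩⟩) (by decide +kernel) (posD_join₀ tC13_eH1ba tC13_eH1bb)

def tC13_eH1 : PosD ⟨⟨0, 1, 1⟩, ⟨98, 99, 147⟩, ⟨4050, 10000, 30000⟩, ⟨670, 897, 1000⟩⟩ (tC13.hEH true) :=
  posD_join₂ tC13_eH1a tC13_eH1b

def tC13_pL1 : PosD ⟨⟨0, 1, 1⟩, ⟨98, 99, 147⟩, ⟨4050, 10000, 30000⟩, ⟨670, 897, 1000⟩⟩ (tC13.hPL true) :=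
  posD_of_check (c := ⟨243, ⟨5, 6, 7, 2⟩⟩) (by decide +kernel)

def tC13_pU1a : PosD ⟨⟨0, 1, 1⟩, ⟨98, 99, 147⟩, ⟨4050, 10000, 30000⟩, ⟨670, 783, 1000⟩⟩ (tC13.hPU true) :=
  posD_of_check (c := ⟨244, ⟨5, 6, 7, 3⟩⟩) (by decide +kernel)

def tC13_pU1ba : PosD ⟨⟨0, 1, 1⟩, ⟨98, 99, 147⟩, ⟨4050, 10000, 30000⟩, ⟨783, 840, 1000⟩⟩ (tC13.hPU true) :=
  posD_of_check (c := ⟨244, ⟨5, 6, 7, 3⟩⟩) (by decide +kernel)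

def tC13_pU1bb : PosD ⟨⟨0, 1, 1⟩, ⟨98, 99, 147⟩, ⟨4050, 10000, 30000⟩, ⟨840, 897, 1000⟩⟩ (tC13.hPU true) :=
  posD_of_check (c := ⟨244, ⟨5, 6, 7, 3⟩⟩) (by decide +kernel)

def tC13_pU1b : PosD ⟨⟨0, 1, 1⟩, ⟨98, 99, 147⟩, ⟨4050, 10000, 30000⟩, ⟨783, 897, 1000⟩⟩ (tC13.hPU true) :=
  posD_join₃ tC13_pU1ba tC13_pU1bb

def tC13_pU1 : PosD ⟨⟨0, 1, 1⟩, ⟨98, 99, 147⟩, ⟨4050, 10000, 30000⟩, ⟨670, 897, 1000⟩⟩ (tC13.hPU true) :=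
  posD_join₃ tC13_pU1a tC13_pU1b

def tC13_kU1 : PosD ⟨⟨0, 1, 1⟩, ⟨98, 99, 147⟩, ⟨4050, 10000, 30000⟩, ⟨670, 897, 1000⟩⟩ (tC13.hKU true) :=
  posD_of_check (c := ⟨241, ⟨5, 6, 7, 3⟩⟩) (by decide +kernel)

def tC13_kL1 : PosD ⟨⟨0, 1, 1⟩, ⟨98, 99, 147⟩, ⟨4050, 10000, 30000⟩, ⟨670, 897, 1000⟩⟩ (tC13.hKL true) :=
  posD_of_check (c := ⟨241, ⟨5, 6, 7, 3⟩⟩) (by decide +kernel)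

def tC13_wU1a : PosD ⟨⟨0, 1, 2⟩, ⟨98, 99, 147⟩, ⟨4050, 10000, 30000⟩, ⟨670, 897, 1000⟩⟩ (tC13.hWU true) :=
  posD_of_check (c := ⟨278, ⟨5, 8, 8, 3⟩⟩) (by decide +kernel)

def tC13_wU1b : PosD ⟨⟨1, 2, 2⟩, ⟨98, 99, 147⟩, ⟨4050, 10000, 30000⟩, ⟨670, 897, 1000⟩⟩ (tC13.hWU true) :=
  posD_of_check (c := ⟨281, ⟨5, 8, 8, 3⟩⟩) (by decide +kernel)

def tC13_wU1 : PosD ⟨⟨0, 1, 1⟩, ⟨98, 99, 147⟩, ⟨4050, 10000, 30000⟩, ⟨670, 897, 1000⟩⟩ (tC13.hWU true) :=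
  posD_units (b := ⟨⟨0, 2, 2⟩, ⟨98, 99, 147⟩, ⟨4050, 10000, 30000⟩, ⟨670, 897, 1000⟩⟩) (by decide +kernel) (posD_join₀ tC13_wU1a tC13_wU1b)

def tC13_wL1 : PosD ⟨⟨0, 1, 1⟩, ⟨98, 99, 147⟩, ⟨4050, 10000, 30000⟩, ⟨670, 897, 1000⟩⟩ (tC13.hWL true) :=
  posD_of_check (c := ⟨275, ⟨5, 8, 8, 3⟩⟩) (by decide +kernel)

def tC13_mueL : PosD ⟨⟨0, 1, 1⟩, ⟨98, 99, 147⟩, ⟨4050, 10000, 30000⟩, ⟨670, 897, 1000⟩⟩ (tC13.eL.μ) :=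
  posD_of_check (c := ⟨11, ⟨0, 0, 0, 0⟩⟩) (by decide +kernel)

def tC13_mueH : PosD ⟨⟨0, 1, 1⟩, ⟨98, 99, 147⟩, ⟨4050, 10000, 30000⟩, ⟨670, 897, 1000⟩⟩ (tC13.eH.μ) :=
  posD_of_check (c := ⟨17, ⟨0, 0, 0, 0⟩⟩) (by decide +kernel)

def tC13_mupL : PosD ⟨⟨0, 1, 1⟩, ⟨98, 99, 147⟩, ⟨4050, 10000, 30000⟩, ⟨670, 897, 1000⟩⟩ (tC13.pL.μ) :=
  posD_of_check (c := ⟨16, ⟨0, 0, 0, 0⟩⟩) (by decide +kernel)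

/-- The bounds of the piece. -/
def tC13_env : tC13.Env ⟨⟨0, 1, 1⟩, ⟨98, 99, 147⟩, ⟨4050, 10000, 30000⟩, ⟨670, 897, 1000⟩⟩ :=
  ⟨tC13_p0, Bool.forall_bool.2 ⟨tC13_den0, tC13_den1⟩, tC13_gn, Bool.forall_bool.2 ⟨tC13_ev0, tC13_ev1⟩, Bool.forall_bool.2 ⟨tC13_zL0, tC13_zL1⟩, Bool.forall_bool.2 ⟨tC13_zU0, tC13_zU1⟩, Bool.forall_bool.2 ⟨tC13_eL0, tC13_eL1⟩, ⟨.inl tC13_mueL, .inr rfl⟩, Bool.forall_bool.2 ⟨tC13_eH0, tC13_eH1⟩, ⟨.inl tC13_mueH, .inr rfl⟩, Bool.forall_bool.2 ⟨tC13_pL0, tC13_pL1⟩, ⟨.inl tC13_mupL, .inr rfl⟩, Bool.forall_bool.2 ⟨tC13_pU0, tC13_pU1⟩, ⟨.inr rfl, .inr rfl⟩, Bool.forall_bool.2 ⟨tC13_kU0, tC13_kU1⟩, ⟨.inr rfl, .inr rfl⟩, Bool.forall_bool.2 ⟨tC13_kL0, tC13_kL1⟩, ⟨.inr rfl, .inr rfl⟩, Bool.forall_bool.2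 ⟨tC13_wU0, tC13_wU1⟩, ⟨.inr rfl, .inr rfl⟩, Bool.forall_bool.2 ⟨tC13_wL0, tC13_wL1⟩, ⟨.inr rfl, .inr rfl⟩⟩

def tC13_pp : PosD ⟨⟨0, 1, 1⟩, ⟨98, 99, 147⟩, ⟨4050, 10000, 30000⟩, ⟨670, 897, 1000⟩⟩ (tC13.xPL) :=
  posD_of_check (c := ⟨62, ⟨1, 1, 2, 2⟩⟩) (by decide +kernel)

def tC13_k2p : PosD ⟨⟨0, 1, 1⟩, ⟨98, 99, 147⟩, ⟨4050, 10000, 30000⟩, ⟨670, 897, 1000⟩⟩ (tC13.k2p tC13.xE) :=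
  posD_of_check (c := ⟨25, ⟨0, 0, 1, 0⟩⟩) (by decide +kernel)

def tC13_k2m : PosD ⟨⟨0, 1, 1⟩, ⟨98, 99, 147⟩, ⟨4050, 10000, 30000⟩, ⟨670, 897, 1000⟩⟩ (tC13.k2m tC13.xE) :=
  posD_of_check (c := ⟨70, ⟨1, 1, 2, 2⟩⟩) (by decide +kernel)

def tC13_v2p : PosD ⟨⟨0, 1, 1⟩, ⟨98, 99, 147⟩, ⟨4050, 10000, 30000⟩, ⟨670, 897, 1000⟩⟩ (tC13.hV2p) :=
  posD_of_check (c := ⟨241, ⟨0, 5, 10, 4⟩⟩) (by decide +kernel)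

def tC13_v2m : PosD ⟨⟨0, 1, 1⟩, ⟨98, 99, 147⟩, ⟨4050, 10000, 30000⟩, ⟨670, 897, 1000⟩⟩ (tC13.hV2m) :=
  posD_of_check (c := ⟨270, ⟨1, 6, 10, 5⟩⟩) (by decide +kernel)

def tC13_v3p : PosD ⟨⟨0, 1, 1⟩, ⟨98, 99, 147⟩, ⟨4050, 10000, 30000⟩, ⟨670, 897, 1000⟩⟩ (tC13.hV3p) :=
  posD_of_check (c := ⟨230, ⟨0, 5, 9, 4⟩⟩) (by decide +kernel)

def tC13_v3m : PosD ⟨⟨0, 1, 1⟩, ⟨98, 99, 147⟩, ⟨4050, 10000, 30000⟩, ⟨670, 897, 1000⟩⟩ (tC13.hV3m) :=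
  posD_of_check (c := ⟨255, ⟨1, 6, 9, 5⟩⟩) (by decide +kernel)

def tC13_kap0 : PosD ⟨⟨0, 1, 1⟩, ⟨98, 99, 147⟩, ⟨4050, 10000, 30000⟩, ⟨670, 897, 1000⟩⟩ (tC13.kap false) :=
  posD_of_check (c := ⟨64, ⟨1, 1, 2, 2⟩⟩) (by decide +kernel)

def tC13_c10 : PosD ⟨⟨0, 1, 1⟩, ⟨98, 99, 147⟩, ⟨4050, 10000, 30000⟩, ⟨670, 897, 1000⟩⟩ (tC13.hC1 false) :=
  posD_of_check (c := ⟨238, ⟨3, 5, 8, 6⟩⟩) (by decide +kernel)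

def tC13_neg0 : PosD ⟨⟨0, 1, 1⟩, ⟨98, 99, 147⟩, ⟨4050, 10000, 30000⟩, ⟨670, 897, 1000⟩⟩ (tC13.hNeg (tC13.pEnd false)) :=
  posD_of_check (c := ⟨235, ⟨2, 5, 8, 6⟩⟩) (by decide +kernel)

def tC13_neglo0 : PosD ⟨⟨0, 1, 1⟩, ⟨98, 99, 147⟩, ⟨4050, 10000, 30000⟩, ⟨670, 897, 1000⟩⟩ (tC13.hNegLo (tC13.pEnd false)) :=
  posD_of_check (c := ⟨235, ⟨2, 5, 8, 6⟩⟩) (by decide +kernel)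

def tC13_tg00 : PosD ⟨⟨0, 1, 1⟩, ⟨98, 99, 147⟩, ⟨4050, 10000, 30000⟩, ⟨670, 897, 1000⟩⟩ (tC13.hG false (tC13.pEnd false)) :=
  posD_of_check (c := ⟨373, ⟨2, 7, 14, 9⟩⟩) (by decide +kernel)

def tC13_c2p00 : PosD ⟨⟨0, 1, 1⟩, ⟨98, 99, 147⟩, ⟨4050, 10000, 30000⟩, ⟨670, 897, 1000⟩⟩ (tC13.hC2p false (tC13.pEnd false)) :=
  posD_of_check (c := ⟨403, ⟨2, 7, 15, 9⟩⟩) (by decide +kernel)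

def tC13_c2m00 : PosD ⟨⟨0, 1, 1⟩, ⟨98, 99, 147⟩, ⟨4050, 10000, 30000⟩, ⟨670, 897, 1000⟩⟩ (tC13.hC2m false (tC13.pEnd false)) :=
  posD_of_check (c := ⟨444, ⟨3, 8, 16, 11⟩⟩) (by decide +kernel)

def tC13_c3p00 : PosD ⟨⟨0, 1, 1⟩, ⟨98, 99, 147⟩, ⟨4050, 10000, 30000⟩, ⟨670, 897, 1000⟩⟩ (tC13.hC3p false false) :=
  posD_of_check (c := ⟨369, ⟨3, 7, 14, 8⟩⟩) (by decide +kernel)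

def tC13_c3m00 : PosD ⟨⟨0, 1, 1⟩, ⟨98, 99, 147⟩, ⟨4050, 10000, 30000⟩, ⟨670, 897, 1000⟩⟩ (tC13.hC3m false false) :=
  posD_of_check (c := ⟨404, ⟨3, 8, 14, 10⟩⟩) (by decide +kernel)

def tC13_tmg00 : PosD ⟨⟨0, 1, 1⟩, ⟨98, 99, 147⟩, ⟨4050, 10000, 30000⟩, ⟨670, 897, 1000⟩⟩ (tC13.hTMG false (tC13.pEnd false)) :=
  posD_of_check (c := ⟨352, ⟨2, 7, 13, 8⟩⟩) (by decide +kernel)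

def tC13_tg01 : PosD ⟨⟨0, 1, 1⟩, ⟨98, 99, 147⟩, ⟨4050, 10000, 30000⟩, ⟨670, 897, 1000⟩⟩ (tC13.hG true (tC13.pEnd false)) :=
  posD_of_check (c := ⟨373, ⟨2, 7, 14, 9⟩⟩) (by decide +kernel)

def tC13_c2p01 : PosD ⟨⟨0, 1, 1⟩, ⟨98, 99, 147⟩, ⟨4050, 10000, 30000⟩, ⟨670, 897, 1000⟩⟩ (tC13.hC2p true (tC13.pEnd false)) :=
  posD_of_check (c := ⟨403, ⟨2, 7, 15, 9⟩⟩) (by decide +kernel)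

def tC13_c2m01 : PosD ⟨⟨0, 1, 1⟩, ⟨98, 99, 147⟩, ⟨4050, 10000, 30000⟩, ⟨670, 897, 1000⟩⟩ (tC13.hC2m true (tC13.pEnd false)) :=
  posD_of_check (c := ⟨444, ⟨3, 8, 16, 11⟩⟩) (by decide +kernel)

def tC13_c3p01 : PosD ⟨⟨0, 1, 1⟩, ⟨98, 99, 147⟩, ⟨4050, 10000, 30000⟩, ⟨670, 897, 1000⟩⟩ (tC13.hC3p false true) :=
  posD_of_check (c := ⟨369, ⟨3, 7, 14, 8⟩⟩) (by decide +kernel)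

def tC13_c3m01 : PosD ⟨⟨0, 1, 1⟩, ⟨98, 99, 147⟩, ⟨4050, 10000, 30000⟩, ⟨670, 897, 1000⟩⟩ (tC13.hC3m false true) :=
  posD_of_check (c := ⟨404, ⟨3, 8, 14, 10⟩⟩) (by decide +kernel)

def tC13_tmg01 : PosD ⟨⟨0, 1, 1⟩, ⟨98, 99, 147⟩, ⟨4050, 10000, 30000⟩, ⟨670, 897, 1000⟩⟩ (tC13.hTMG true (tC13.pEnd false)) :=
  posD_of_check (c := ⟨352, ⟨2, 7, 13, 8⟩⟩) (by decide +kernel)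

def tC13_kap1 : PosD ⟨⟨0, 1, 1⟩, ⟨98, 99, 147⟩, ⟨4050, 10000, 30000⟩, ⟨670, 897, 1000⟩⟩ (tC13.kap true) :=
  posD_of_check (c := ⟨68, ⟨1, 1, 2, 2⟩⟩) (by decide +kernel)

def tC13_c11 : PosD ⟨⟨0, 1, 1⟩, ⟨98, 99, 147⟩, ⟨4050, 10000, 30000⟩, ⟨670, 897, 1000⟩⟩ (tC13.hC1 true) :=
  posD_of_check (c := ⟨270, ⟨3, 5, 9, 7⟩⟩) (by decide +kernel)

def tC13_neg1 : PosD ⟨⟨0, 1, 1⟩, ⟨98, 99, 147⟩, ⟨4050, 10000, 30000⟩, ⟨670, 897, 1000⟩⟩ (tC13.hNeg (tC13.pEnd true)) :=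
  posD_of_check (c := ⟨266, ⟨2, 5, 9, 7⟩⟩) (by decide +kernel)

def tC13_neglo1 : PosD ⟨⟨0, 1, 1⟩, ⟨98, 99, 147⟩, ⟨4050, 10000, 30000⟩, ⟨670, 897, 1000⟩⟩ (tC13.hNegLo (tC13.pEnd true)) :=
  posD_of_check (c := ⟨266, ⟨2, 5, 9, 7⟩⟩) (by decide +kernel)

def tC13_tg10 : PosD ⟨⟨0, 1, 1⟩, ⟨98, 99, 147⟩, ⟨4050, 10000, 30000⟩, ⟨670, 897, 1000⟩⟩ (tC13.hG false (tC13.pEnd true)) :=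
  posD_of_check (c := ⟨384, ⟨2, 7, 14, 9⟩⟩) (by decide +kernel)

def tC13_c2p10 : PosD ⟨⟨0, 1, 1⟩, ⟨98, 99, 147⟩, ⟨4050, 10000, 30000⟩, ⟨670, 897, 1000⟩⟩ (tC13.hC2p false (tC13.pEnd true)) :=
  posD_of_check (c := ⟨425, ⟨2, 7, 16, 10⟩⟩) (by decide +kernel)

def tC13_c2m10 : PosD ⟨⟨0, 1, 1⟩, ⟨98, 99, 147⟩, ⟨4050, 10000, 30000⟩, ⟨670, 897, 1000⟩⟩ (tC13.hC2m false (tC13.pEnd true)) :=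
  posD_of_check (c := ⟨454, ⟨3, 8, 16, 11⟩⟩) (by decide +kernel)

def tC13_c3p10 : PosD ⟨⟨0, 1, 1⟩, ⟨98, 99, 147⟩, ⟨4050, 10000, 30000⟩, ⟨670, 897, 1000⟩⟩ (tC13.hC3p true false) :=
  posD_of_check (c := ⟨417, ⟨3, 7, 15, 10⟩⟩) (by decide +kernel)

def tC13_c3m10 : PosD ⟨⟨0, 1, 1⟩, ⟨98, 99, 147⟩, ⟨4050, 10000, 30000⟩, ⟨670, 897, 1000⟩⟩ (tC13.hC3m true false) :=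
  posD_of_check (c := ⟨440, ⟨3, 8, 15, 11⟩⟩) (by decide +kernel)

def tC13_tmg10 : PosD ⟨⟨0, 1, 1⟩, ⟨98, 99, 147⟩, ⟨4050, 10000, 30000⟩, ⟨670, 897, 1000⟩⟩ (tC13.hTMG false (tC13.pEnd true)) :=
  posD_of_check (c := ⟨398, ⟨2, 7, 14, 10⟩⟩) (by decide +kernel)

def tC13_tg11 : PosD ⟨⟨0, 1, 1⟩, ⟨98, 99, 147⟩, ⟨4050, 10000, 30000⟩, ⟨670, 897, 1000⟩⟩ (tC13.hG true (tC13.pEnd true)) :=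
  posD_of_check (c := ⟨384, ⟨2, 7, 14, 9⟩⟩) (by decide +kernel)

def tC13_c2p11 : PosD ⟨⟨0, 1, 1⟩, ⟨98, 99, 147⟩, ⟨4050, 10000, 30000⟩, ⟨670, 897, 1000⟩⟩ (tC13.hC2p true (tC13.pEnd true)) :=
  posD_of_check (c := ⟨425, ⟨2, 7, 16, 10⟩⟩) (by decide +kernel)

def tC13_c2m11 : PosD ⟨⟨0, 1, 1⟩, ⟨98, 99, 147⟩, ⟨4050, 10000, 30000⟩, ⟨670, 897, 1000⟩⟩ (tC13.hC2m true (tC13.pEnd true)) :=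
  posD_of_check (c := ⟨454, ⟨3, 8, 16, 11⟩⟩) (by decide +kernel)

def tC13_c3p11 : PosD ⟨⟨0, 1, 1⟩, ⟨98, 99, 147⟩, ⟨4050, 10000, 30000⟩, ⟨670, 897, 1000⟩⟩ (tC13.hC3p true true) :=
  posD_of_check (c := ⟨417, ⟨3, 7, 15, 10⟩⟩) (by decide +kernel)

def tC13_c3m11 : PosD ⟨⟨0, 1, 1⟩, ⟨98, 99, 147⟩, ⟨4050, 10000, 30000⟩, ⟨670, 897, 1000⟩⟩ (tC13.hC3m true true) :=
  posD_of_check (c := ⟨440, ⟨3, 8, 15, 11⟩⟩) (by decide +kernel)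

def tC13_tmg11 : PosD ⟨⟨0, 1, 1⟩, ⟨98, 99, 147⟩, ⟨4050, 10000, 30000⟩, ⟨670, 897, 1000⟩⟩ (tC13.hTMG true (tC13.pEnd true)) :=
  posD_of_check (c := ⟨398, ⟨2, 7, 14, 10⟩⟩) (by decide +kernel)

/-- The signs of the piece. -/
def tC13_sign : tC13.Sign ⟨⟨0, 1, 1⟩, ⟨98, 99, 147⟩, ⟨4050, 10000, 30000⟩, ⟨670, 897, 1000⟩⟩ :=
  ⟨tC13_pp,
    tC13_k2p,
    tC13_k2m,
    Bool.forall_bool.2 ⟨(Bool.forall_bool.2 ⟨tC13_tg00, tC13_tg01⟩), (Bool.forall_bool.2 ⟨tC13_tg10, tC13_tg11⟩)⟩,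
    Bool.forall_bool.2 ⟨(Bool.forall_bool.2 ⟨tC13_c2p00, tC13_c2p01⟩), (Bool.forall_bool.2 ⟨tC13_c2p10, tC13_c2p11⟩)⟩,
    Bool.forall_bool.2 ⟨(Bool.forall_bool.2 ⟨tC13_c2m00, tC13_c2m01⟩), (Bool.forall_bool.2 ⟨tC13_c2m10, tC13_c2m11⟩)⟩,
    Bool.forall_bool.2 ⟨tC13_kap0, tC13_kap1⟩,
    Bool.forall_bool.2 ⟨tC13_c10, tC13_c11⟩,
    Bool.forall_bool.2 ⟨(Bool.forall_bool.2 ⟨tC13_c3p00, tC13_c3p01⟩), (Bool.forall_bool.2 ⟨tC13_c3p10, tC13_c3p11⟩)⟩,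
    Bool.forall_bool.2 ⟨(Bool.forall_bool.2 ⟨tC13_c3m00, tC13_c3m01⟩), (Bool.forall_bool.2 ⟨tC13_c3m10, tC13_c3m11⟩)⟩,
    Bool.forall_bool.2 ⟨(Bool.forall_bool.2 ⟨tC13_tmg00, tC13_tmg01⟩), (Bool.forall_bool.2 ⟨tC13_tmg10, tC13_tmg11⟩)⟩,
    .inl (Bool.forall_bool.2 ⟨⟨tC13_neg0, tC13_neglo0⟩, ⟨tC13_neg1, tC13_neglo1⟩⟩),
    tC13_v2p,
    tC13_v2m,
    tC13_v3p,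
    tC13_v3m,
    posD_sub (b := ⟨⟨0, 1, 1⟩, ⟨98, 99, 147⟩, ⟨4050, 10000, 30000⟩, ⟨290, 4000, 1000⟩⟩) (by decide +kernel) tC_vG,
    posD_sub (b := ⟨⟨0, 1, 1⟩, ⟨98, 99, 147⟩, ⟨4050, 10000, 30000⟩, ⟨290, 4000, 1000⟩⟩) (by decide +kernel) tC_vMG,
    posD_sub (b := ⟨⟨0, 1, 1⟩, ⟨98, 99, 147⟩, ⟨4050, 10000, 30000⟩, ⟨290, 4000, 1000⟩⟩) (by decide +kernel) tC_ak,
    posD_sub (b := ⟨⟨0, 1, 1⟩, ⟨98, 99, 147⟩, ⟨4050, 10000, 30000⟩, ⟨290, 4000, 1000⟩⟩) (by decide +kernel) tC_aw,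
    posD_sub (b := ⟨⟨0, 1, 1⟩, ⟨98, 99, 147⟩, ⟨4050, 10000, 30000⟩, ⟨290, 4000, 1000⟩⟩) (by decide +kernel) tC_gk,
    posD_sub (b := ⟨⟨0, 1, 1⟩, ⟨98, 99, 147⟩, ⟨4050, 10000, 30000⟩, ⟨290, 4000, 1000⟩⟩) (by decide +kernel) tC_gw,
    posD_sub (b := ⟨⟨0, 1, 1⟩, ⟨98, 99, 147⟩, ⟨4050, 10000, 30000⟩, ⟨290, 4000, 1000⟩⟩) (by decide +kernel) tC_ek,
    posD_sub (b := ⟨⟨0, 1, 1⟩, ⟨98, 99, 147⟩, ⟨4050, 10000, 30000⟩, ⟨290, 4000, 1000⟩⟩) (by decide +kernel) tC_ew⟩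

def tC14_p0 : PosD ⟨⟨0, 1, 1⟩, ⟨98, 99, 147⟩, ⟨4050, 7026, 30000⟩, ⟨897, 1037, 1000⟩⟩ (tC14.hP0) :=
  posD_of_check (c := ⟨83, ⟨0, 2, 3, 1⟩⟩) (by decide +kernel)

def tC14_gn : PosD ⟨⟨0, 1, 1⟩, ⟨98, 99, 147⟩, ⟨4050, 7026, 30000⟩, ⟨897, 1037, 1000⟩⟩ (tC14.hGn) :=
  posD_of_check (c := ⟨57, ⟨1, 1, 2, 1⟩⟩) (by decide +kernel)

def tC14_den0 : PosD ⟨⟨0, 1, 1⟩, ⟨98, 99, 147⟩, ⟨4050, 7026, 30000⟩, ⟨897, 1037, 1000⟩⟩ (tC14.hDen false) :=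
  posD_of_check (c := ⟨50, ⟨1, 0, 2, 0⟩⟩) (by decide +kernel)

def tC14_den1 : PosD ⟨⟨0, 1, 1⟩, ⟨98, 99, 147⟩, ⟨4050, 7026, 30000⟩, ⟨897, 1037, 1000⟩⟩ (tC14.hDen true) :=
  posD_of_check (c := ⟨50, ⟨1, 0, 2, 0⟩⟩) (by decide +kernel)

def tC14_ev0 : PosD ⟨⟨0, 1, 1⟩, ⟨98, 99, 147⟩, ⟨4050, 7026, 30000⟩, ⟨897, 1037, 1000⟩⟩ (tC14.hEv false) :=
  posD_of_check (c := ⟨133, ⟨4, 2, 4, 1⟩⟩) (by decide +kernel)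

def tC14_zL0 : PosD ⟨⟨0, 1, 1⟩, ⟨98, 99, 147⟩, ⟨4050, 7026, 30000⟩, ⟨897, 1037, 1000⟩⟩ (tC14.hZL false) :=
  posD_of_check (c := ⟨170, ⟨4, 3, 6, 3⟩⟩) (by decide +kernel)

def tC14_zU0a : PosD ⟨⟨0, 1, 1⟩, ⟨98, 99, 147⟩, ⟨4050, 5538, 30000⟩, ⟨897, 1037, 1000⟩⟩ (tC14.hZU false) :=
  posD_of_check (c := ⟨170, ⟨4, 3, 6, 3⟩⟩) (by decide +kernel)

def tC14_zU0b : PosD ⟨⟨0, 1, 1⟩, ⟨98, 99, 147⟩, ⟨5538, 7026, 30000⟩, ⟨897, 1037, 1000⟩⟩ (tC14.hZU false) :=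
  posD_of_check (c := ⟨171, ⟨4, 3, 6, 3⟩⟩) (by decide +kernel)

def tC14_zU0 : PosD ⟨⟨0, 1, 1⟩, ⟨98, 99, 147⟩, ⟨4050, 7026, 30000⟩, ⟨897, 1037, 1000⟩⟩ (tC14.hZU false) :=
  posD_join₂ tC14_zU0a tC14_zU0b

def tC14_eL0 : PosD ⟨⟨0, 1, 1⟩, ⟨98, 99, 147⟩, ⟨4050, 7026, 30000⟩, ⟨897, 1037, 1000⟩⟩ (tC14.hEL false) :=
  posD_of_check (c := ⟨227, ⟨5, 6, 7, 3⟩⟩) (by decide +kernel)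

def tC14_eH0 : PosD ⟨⟨0, 1, 1⟩, ⟨98, 99, 147⟩, ⟨4050, 7026, 30000⟩, ⟨897, 1037, 1000⟩⟩ (tC14.hEH false) :=
  posD_of_check (c := ⟨243, ⟨5, 6, 7, 3⟩⟩) (by decide +kernel)

def tC14_pL0 : PosD ⟨⟨0, 1, 1⟩, ⟨98, 99, 147⟩, ⟨4050, 7026, 30000⟩, ⟨897, 1037, 1000⟩⟩ (tC14.hPL false) :=
  posD_of_check (c := ⟨242, ⟨5, 6, 7, 2⟩⟩) (by decide +kernel)

def tC14_pU0 : PosD ⟨⟨0, 1, 1⟩, ⟨98, 99, 147⟩, ⟨4050, 7026, 30000⟩, ⟨897, 1037, 1000⟩⟩ (tC14.hPU false) :=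
  posD_of_check (c := ⟨242, ⟨5, 6, 7, 3⟩⟩) (by decide +kernel)

def tC14_kU0 : PosD ⟨⟨0, 1, 1⟩, ⟨98, 99, 147⟩, ⟨4050, 7026, 30000⟩, ⟨897, 1037, 1000⟩⟩ (tC14.hKU false) :=
  posD_of_check (c := ⟨240, ⟨5, 6, 7, 3⟩⟩) (by decide +kernel)

def tC14_kL0 : PosD ⟨⟨0, 1, 1⟩, ⟨98, 99, 147⟩, ⟨4050, 7026, 30000⟩, ⟨897, 1037, 1000⟩⟩ (tC14.hKL false) :=
  posD_of_check (c := ⟨239, ⟨5, 6, 7, 3⟩⟩) (by decide +kernel)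

def tC14_wU0a : PosD ⟨⟨0, 1, 2⟩, ⟨98, 99, 147⟩, ⟨4050, 7026, 30000⟩, ⟨897, 1037, 1000⟩⟩ (tC14.hWU false) :=
  posD_of_check (c := ⟨277, ⟨5, 8, 8, 3⟩⟩) (by decide +kernel)

def tC14_wU0b : PosD ⟨⟨1, 2, 2⟩, ⟨98, 99, 147⟩, ⟨4050, 7026, 30000⟩, ⟨897, 1037, 1000⟩⟩ (tC14.hWU false) :=
  posD_of_check (c := ⟨279, ⟨5, 8, 8, 3⟩⟩) (by decide +kernel)

def tC14_wU0 : PosD ⟨⟨0, 1, 1⟩, ⟨98, 99, 147⟩, ⟨4050, 7026, 30000⟩, ⟨897, 1037, 1000⟩⟩ (tC14.hWU false) :=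
  posD_units (b := ⟨⟨0, 2, 2⟩, ⟨98, 99, 147⟩, ⟨4050, 7026, 30000⟩, ⟨897, 1037, 1000⟩⟩) (by decide +kernel) (posD_join₀ tC14_wU0a tC14_wU0b)

def tC14_wL0 : PosD ⟨⟨0, 1, 1⟩, ⟨98, 99, 147⟩, ⟨4050, 7026, 30000⟩, ⟨897, 1037, 1000⟩⟩ (tC14.hWL false) :=
  posD_of_check (c := ⟨274, ⟨5, 8, 8, 3⟩⟩) (by decide +kernel)

def tC14_ev1 : PosD ⟨⟨0, 1, 1⟩, ⟨98, 99, 147⟩, ⟨4050, 7026, 30000⟩, ⟨897, 1037, 1000⟩⟩ (tC14.hEv true) :=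
  posD_of_check (c := ⟨134, ⟨4, 2, 4, 1⟩⟩) (by decide +kernel)

def tC14_zL1a : PosD ⟨⟨0, 1, 1⟩, ⟨98, 99, 147⟩, ⟨4050, 5538, 30000⟩, ⟨897, 1037, 1000⟩⟩ (tC14.hZL true) :=
  posD_of_check (c := ⟨169, ⟨4, 3, 6, 3⟩⟩) (by decide +kernel)

def tC14_zL1b : PosD ⟨⟨0, 1, 1⟩, ⟨98, 99, 147⟩, ⟨5538, 7026, 30000⟩, ⟨897, 1037, 1000⟩⟩ (tC14.hZL true) :=
  posD_of_check (c := ⟨170, ⟨4, 3, 6, 3⟩⟩) (by decide +kernel)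

def tC14_zL1 : PosD ⟨⟨0, 1, 1⟩, ⟨98, 99, 147⟩, ⟨4050, 7026, 30000⟩, ⟨897, 1037, 1000⟩⟩ (tC14.hZL true) :=
  posD_join₂ tC14_zL1a tC14_zL1b

def tC14_zU1 : PosD ⟨⟨0, 1, 1⟩, ⟨98, 99, 147⟩, ⟨4050, 7026, 30000⟩, ⟨897, 1037, 1000⟩⟩ (tC14.hZU true) :=
  posD_of_check (c := ⟨169, ⟨4, 3, 6, 3⟩⟩) (by decide +kernel)

def tC14_eL1 : PosD ⟨⟨0, 1, 1⟩, ⟨98, 99, 147⟩, ⟨4050, 7026, 30000⟩, ⟨897, 1037, 1000⟩⟩ (tC14.hEL true) :=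
  posD_of_check (c := ⟨228, ⟨5, 6, 7, 3⟩⟩) (by decide +kernel)

def tC14_eH1aaa : PosD ⟨⟨0, 1, 4⟩, ⟨98, 99, 147⟩, ⟨4050, 5538, 30000⟩, ⟨897, 1037, 1000⟩⟩ (tC14.hEH true) :=
  posD_of_check (c := ⟨250, ⟨5, 6, 7, 3⟩⟩) (by decide +kernel)

def tC14_eH1aab : PosD ⟨⟨1, 2, 4⟩, ⟨98, 99, 147⟩, ⟨4050, 5538, 30000⟩, ⟨897, 1037, 1000⟩⟩ (tC14.hEH true) :=
  posD_of_check (c := ⟨251, ⟨5, 6, 7, 3⟩⟩) (by decide +kernel)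

def tC14_eH1aa : PosD ⟨⟨0, 1, 2⟩, ⟨98, 99, 147⟩, ⟨4050, 5538, 30000⟩, ⟨897, 1037, 1000⟩⟩ (tC14.hEH true) :=
  posD_units (b := ⟨⟨0, 2, 4⟩, ⟨98, 99, 147⟩, ⟨4050, 5538, 30000⟩, ⟨897, 1037, 1000⟩⟩) (by decide +kernel) (posD_join₀ tC14_eH1aaa tC14_eH1aab)

def tC14_eH1ab : PosD ⟨⟨0, 1, 2⟩, ⟨98, 99, 147⟩, ⟨5538, 7026, 30000⟩, ⟨897, 1037, 1000⟩⟩ (tC14.hEH true) :=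
  posD_of_check (c := ⟨247, ⟨5, 6, 7, 3⟩⟩) (by decide +kernel)

def tC14_eH1a : PosD ⟨⟨0, 1, 2⟩, ⟨98, 99, 147⟩, ⟨4050, 7026, 30000⟩, ⟨897, 1037, 1000⟩⟩ (tC14.hEH true) :=
  posD_join₂ tC14_eH1aa tC14_eH1ab

def tC14_eH1b : PosD ⟨⟨1, 2, 2⟩, ⟨98, 99, 147⟩, ⟨4050, 7026, 30000⟩, ⟨897, 1037, 1000⟩⟩ (tC14.hEH true) :=
  posD_of_check (c := ⟨249, ⟨5, 6, 7, 3⟩⟩) (by decide +kernel)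

def tC14_eH1 : PosD ⟨⟨0, 1, 1⟩, ⟨98, 99, 147⟩, ⟨4050, 7026, 30000⟩, ⟨897, 1037, 1000⟩⟩ (tC14.hEH true) :=
  posD_units (b := ⟨⟨0, 2, 2⟩, ⟨98, 99, 147⟩, ⟨4050, 7026, 30000⟩, ⟨897, 1037, 1000⟩⟩) (by decide +kernel) (posD_join₀ tC14_eH1a tC14_eH1b)

def tC14_pL1 : PosD ⟨⟨0, 1, 1⟩, ⟨98, 99, 147⟩, ⟨4050, 7026, 30000⟩, ⟨897, 1037, 1000⟩⟩ (tC14.hPL true) :=
  posD_of_check (c := ⟨243, ⟨5, 6, 7, 2⟩⟩) (by decide +kernel)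

def tC14_pU1 : PosD ⟨⟨0, 1, 1⟩, ⟨98, 99, 147⟩, ⟨4050, 7026, 30000⟩, ⟨897, 1037, 1000⟩⟩ (tC14.hPU true) :=
  posD_of_check (c := ⟨243, ⟨5, 6, 7, 3⟩⟩) (by decide +kernel)

def tC14_kU1 : PosD ⟨⟨0, 1, 1⟩, ⟨98, 99, 147⟩, ⟨4050, 7026, 30000⟩, ⟨897, 1037, 1000⟩⟩ (tC14.hKU true) :=
  posD_of_check (c := ⟨241, ⟨5, 6, 7, 3⟩⟩) (by decide +kernel)

def tC14_kL1 : PosD ⟨⟨0, 1, 1⟩, ⟨98, 99, 147⟩, ⟨4050, 7026, 30000⟩, ⟨897, 1037, 1000⟩⟩ (tC14.hKL true) :=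
  posD_of_check (c := ⟨240, ⟨5, 6, 7, 3⟩⟩) (by decide +kernel)

def tC14_wU1a : PosD ⟨⟨0, 1, 2⟩, ⟨98, 99, 147⟩, ⟨4050, 7026, 30000⟩, ⟨897, 1037, 1000⟩⟩ (tC14.hWU true) :=
  posD_of_check (c := ⟨278, ⟨5, 8, 8, 3⟩⟩) (by decide +kernel)

def tC14_wU1b : PosD ⟨⟨1, 2, 2⟩, ⟨98, 99, 147⟩, ⟨4050, 7026, 30000⟩, ⟨897, 1037, 1000⟩⟩ (tC14.hWU true) :=
  posD_of_check (c := ⟨280, ⟨5, 8, 8, 3⟩⟩) (by decide +kernel)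

def tC14_wU1 : PosD ⟨⟨0, 1, 1⟩, ⟨98, 99, 147⟩, ⟨4050, 7026, 30000⟩, ⟨897, 1037, 1000⟩⟩ (tC14.hWU true) :=
  posD_units (b := ⟨⟨0, 2, 2⟩, ⟨98, 99, 147⟩, ⟨4050, 7026, 30000⟩, ⟨897, 1037, 1000⟩⟩) (by decide +kernel) (posD_join₀ tC14_wU1a tC14_wU1b)

def tC14_wL1 : PosD ⟨⟨0, 1, 1⟩, ⟨98, 99, 147⟩, ⟨4050, 7026, 30000⟩, ⟨897, 1037, 1000⟩⟩ (tC14.hWL true) :=
  posD_of_check (c := ⟨275, ⟨5, 8, 8, 3⟩⟩) (by decide +kernel)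

def tC14_mueH : PosD ⟨⟨0, 1, 1⟩, ⟨98, 99, 147⟩, ⟨4050, 7026, 30000⟩, ⟨897, 1037, 1000⟩⟩ (tC14.eH.μ) :=
  posD_of_check (c := ⟨17, ⟨0, 0, 0, 0⟩⟩) (by decide +kernel)

def tC14_mupL : PosD ⟨⟨0, 1, 1⟩, ⟨98, 99, 147⟩, ⟨4050, 7026, 30000⟩, ⟨897, 1037, 1000⟩⟩ (tC14.pL.μ) :=
  posD_of_check (c := ⟨16, ⟨0, 0, 0, 0⟩⟩) (by decide +kernel)

/-- The bounds of the piece. -/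
def tC14_env : tC14.Env ⟨⟨0, 1, 1⟩, ⟨98, 99, 147⟩, ⟨4050, 7026, 30000⟩, ⟨897, 1037, 1000⟩⟩ :=
  ⟨tC14_p0, Bool.forall_bool.2 ⟨tC14_den0, tC14_den1⟩, tC14_gn, Bool.forall_bool.2 ⟨tC14_ev0, tC14_ev1⟩, Bool.forall_bool.2 ⟨tC14_zL0, tC14_zL1⟩, Bool.forall_bool.2 ⟨tC14_zU0, tC14_zU1⟩, Bool.forall_bool.2 ⟨tC14_eL0, tC14_eL1⟩, ⟨.inr rfl, .inr rfl⟩, Bool.forall_bool.2 ⟨tC14_eH0, tC14_eH1⟩, ⟨.inl tC14_mueH, .inr rfl⟩, Bool.forall_bool.2 ⟨tC14_pL0, tC14_pL1⟩, ⟨.inl tC14_mupL, .inr rfl⟩, Bool.forall_bool.2 ⟨tC14_pU0, tC14_pU1⟩, ⟨.inr rfl, .inr rfl⟩, Bool.forall_bool.2 ⟨tC14_kU0, tC14_kU1⟩, ⟨.inr rfl, .inr rfl⟩, Bool.forall_bool.2 ⟨tC14_kL0, tC14_kL1⟩, ⟨.inr rfl, .inr rfl⟩, Bool.forall_bool.2 ⟨tC14_wU0, tC14_wU1⟩, ⟨.inr rfl, .inr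 rfl⟩, Bool.forall_bool.2 ⟨tC14_wL0, tC14_wL1⟩, ⟨.inr rfl, .inr rfl⟩⟩

def tC14_pp : PosD ⟨⟨0, 1, 1⟩, ⟨98, 99, 147⟩, ⟨4050, 7026, 30000⟩, ⟨897, 1037, 1000⟩⟩ (tC14.xPL) :=
  posD_of_check (c := ⟨62, ⟨1, 1, 2, 2⟩⟩) (by decide +kernel)

def tC14_k2p : PosD ⟨⟨0, 1, 1⟩, ⟨98, 99, 147⟩, ⟨4050, 7026, 30000⟩, ⟨897, 1037, 1000⟩⟩ (tC14.k2p tC14.xE) :=
  posD_of_check (c := ⟨69, ⟨1, 1, 2, 2⟩⟩) (by decide +kernel)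

def tC14_k2m : PosD ⟨⟨0, 1, 1⟩, ⟨98, 99, 147⟩, ⟨4050, 7026, 30000⟩, ⟨897, 1037, 1000⟩⟩ (tC14.k2m tC14.xE) :=
  posD_of_check (c := ⟨69, ⟨1, 1, 2, 2⟩⟩) (by decide +kernel)

def tC14_v2p : PosD ⟨⟨0, 1, 1⟩, ⟨98, 99, 147⟩, ⟨4050, 7026, 30000⟩, ⟨897, 1037, 1000⟩⟩ (tC14.hV2p) :=
  posD_of_check (c := ⟨269, ⟨1, 6, 10, 5⟩⟩) (by decide +kernel)

def tC14_v2m : PosD ⟨⟨0, 1, 1⟩, ⟨98, 99, 147⟩, ⟨4050, 7026, 30000⟩, ⟨897, 1037, 1000⟩⟩ (tC14.hV2m) :=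
  posD_of_check (c := ⟨269, ⟨1, 6, 10, 5⟩⟩) (by decide +kernel)

def tC14_v3p : PosD ⟨⟨0, 1, 1⟩, ⟨98, 99, 147⟩, ⟨4050, 7026, 30000⟩, ⟨897, 1037, 1000⟩⟩ (tC14.hV3p) :=
  posD_of_check (c := ⟨254, ⟨1, 6, 9, 5⟩⟩) (by decide +kernel)

def tC14_v3m : PosD ⟨⟨0, 1, 1⟩, ⟨98, 99, 147⟩, ⟨4050, 7026, 30000⟩, ⟨897, 1037, 1000⟩⟩ (tC14.hV3m) :=
  posD_of_check (c := ⟨254, ⟨1, 6, 9, 5⟩⟩) (by decide +kernel)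

def tC14_kap0 : PosD ⟨⟨0, 1, 1⟩, ⟨98, 99, 147⟩, ⟨4050, 7026, 30000⟩, ⟨897, 1037, 1000⟩⟩ (tC14.kap false) :=
  posD_of_check (c := ⟨66, ⟨1, 1, 2, 2⟩⟩) (by decide +kernel)

def tC14_c10 : PosD ⟨⟨0, 1, 1⟩, ⟨98, 99, 147⟩, ⟨4050, 7026, 30000⟩, ⟨897, 1037, 1000⟩⟩ (tC14.hC1 false) :=
  posD_of_check (c := ⟨238, ⟨3, 5, 8, 6⟩⟩) (by decide +kernel)

def tC14_c1h0 : PosD ⟨⟨0, 1, 1⟩, ⟨98, 99, 147⟩, ⟨4050, 7026, 30000⟩, ⟨897, 1037, 1000⟩⟩ (tC14.hC1' false) :=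
  posD_of_check (c := ⟨238, ⟨3, 5, 8, 6⟩⟩) (by decide +kernel)

def tC14_tg00 : PosD ⟨⟨0, 1, 1⟩, ⟨98, 99, 147⟩, ⟨4050, 7026, 30000⟩, ⟨897, 1037, 1000⟩⟩ (tC14.hG false (tC14.pEnd false)) :=
  posD_of_check (c := ⟨373, ⟨2, 7, 14, 9⟩⟩) (by decide +kernel)

def tC14_c2p00 : PosD ⟨⟨0, 1, 1⟩, ⟨98, 99, 147⟩, ⟨4050, 7026, 30000⟩, ⟨897, 1037, 1000⟩⟩ (tC14.hC2p false (tC14.pEnd false)) :=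
  posD_of_check (c := ⟨442, ⟨3, 8, 16, 11⟩⟩) (by decide +kernel)

def tC14_c2m00 : PosD ⟨⟨0, 1, 1⟩, ⟨98, 99, 147⟩, ⟨4050, 7026, 30000⟩, ⟨897, 1037, 1000⟩⟩ (tC14.hC2m false (tC14.pEnd false)) :=
  posD_of_check (c := ⟨442, ⟨3, 8, 16, 11⟩⟩) (by decide +kernel)

def tC14_c3p00 : PosD ⟨⟨0, 1, 1⟩, ⟨98, 99, 147⟩, ⟨4050, 7026, 30000⟩, ⟨897, 1037, 1000⟩⟩ (tC14.hC3p false false) :=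
  posD_of_check (c := ⟨403, ⟨3, 8, 14, 10⟩⟩) (by decide +kernel)

def tC14_c3m00 : PosD ⟨⟨0, 1, 1⟩, ⟨98, 99, 147⟩, ⟨4050, 7026, 30000⟩, ⟨897, 1037, 1000⟩⟩ (tC14.hC3m false false) :=
  posD_of_check (c := ⟨403, ⟨3, 8, 14, 10⟩⟩) (by decide +kernel)

def tC14_c3ph00 : PosD ⟨⟨0, 1, 1⟩, ⟨98, 99, 147⟩, ⟨4050, 7026, 30000⟩, ⟨897, 1037, 1000⟩⟩ (tC14.hC3p' false false) :=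
  posD_of_check (c := ⟨403, ⟨3, 8, 14, 10⟩⟩) (by decide +kernel)

def tC14_c3mh00 : PosD ⟨⟨0, 1, 1⟩, ⟨98, 99, 147⟩, ⟨4050, 7026, 30000⟩, ⟨897, 1037, 1000⟩⟩ (tC14.hC3m' false false) :=
  posD_of_check (c := ⟨403, ⟨3, 8, 14, 10⟩⟩) (by decide +kernel)

def tC14_up00 : PosD ⟨⟨0, 1, 1⟩, ⟨98, 99, 147⟩, ⟨4050, 7026, 30000⟩, ⟨897, 1037, 1000⟩⟩ (tC14.hUp false false) :=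
  posD_of_check (c := ⟨403, ⟨3, 8, 14, 10⟩⟩) (by decide +kernel)

def tC14_um00 : PosD ⟨⟨0, 1, 1⟩, ⟨98, 99, 147⟩, ⟨4050, 7026, 30000⟩, ⟨897, 1037, 1000⟩⟩ (tC14.hUm false false) :=
  posD_of_check (c := ⟨403, ⟨3, 8, 14, 10⟩⟩) (by decide +kernel)

def tC14_tmg00 : PosD ⟨⟨0, 1, 1⟩, ⟨98, 99, 147⟩, ⟨4050, 7026, 30000⟩, ⟨897, 1037, 1000⟩⟩ (tC14.hTMG false (tC14.pEnd false)) :=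
  posD_of_check (c := ⟨351, ⟨2, 7, 13, 8⟩⟩) (by decide +kernel)

def tC14_tg01 : PosD ⟨⟨0, 1, 1⟩, ⟨98, 99, 147⟩, ⟨4050, 7026, 30000⟩, ⟨897, 1037, 1000⟩⟩ (tC14.hG true (tC14.pEnd false)) :=
  posD_of_check (c := ⟨373, ⟨2, 7, 14, 9⟩⟩) (by decide +kernel)

def tC14_c2p01 : PosD ⟨⟨0, 1, 1⟩, ⟨98, 99, 147⟩, ⟨4050, 7026, 30000⟩, ⟨897, 1037, 1000⟩⟩ (tC14.hC2p true (tC14.pEnd false)) :=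
  posD_of_check (c := ⟨442, ⟨3, 8, 16, 11⟩⟩) (by decide +kernel)

def tC14_c2m01 : PosD ⟨⟨0, 1, 1⟩, ⟨98, 99, 147⟩, ⟨4050, 7026, 30000⟩, ⟨897, 1037, 1000⟩⟩ (tC14.hC2m true (tC14.pEnd false)) :=
  posD_of_check (c := ⟨442, ⟨3, 8, 16, 11⟩⟩) (by decide +kernel)

def tC14_c3p01 : PosD ⟨⟨0, 1, 1⟩, ⟨98, 99, 147⟩, ⟨4050, 7026, 30000⟩, ⟨897, 1037, 1000⟩⟩ (tC14.hC3p false true) :=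
  posD_of_check (c := ⟨403, ⟨3, 8, 14, 10⟩⟩) (by decide +kernel)

def tC14_c3m01 : PosD ⟨⟨0, 1, 1⟩, ⟨98, 99, 147⟩, ⟨4050, 7026, 30000⟩, ⟨897, 1037, 1000⟩⟩ (tC14.hC3m false true) :=
  posD_of_check (c := ⟨403, ⟨3, 8, 14, 10⟩⟩) (by decide +kernel)

def tC14_c3ph01 : PosD ⟨⟨0, 1, 1⟩, ⟨98, 99, 147⟩, ⟨4050, 7026, 30000⟩, ⟨897, 1037, 1000⟩⟩ (tC14.hC3p' false true) :=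
  posD_of_check (c := ⟨403, ⟨3, 8, 14, 10⟩⟩) (by decide +kernel)

def tC14_c3mh01 : PosD ⟨⟨0, 1, 1⟩, ⟨98, 99, 147⟩, ⟨4050, 7026, 30000⟩, ⟨897, 1037, 1000⟩⟩ (tC14.hC3m' false true) :=
  posD_of_check (c := ⟨403, ⟨3, 8, 14, 10⟩⟩) (by decide +kernel)

def tC14_up01 : PosD ⟨⟨0, 1, 1⟩, ⟨98, 99, 147⟩, ⟨4050, 7026, 30000⟩, ⟨897, 1037, 1000⟩⟩ (tC14.hUp false true) :=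
  posD_of_check (c := ⟨403, ⟨3, 8, 14, 10⟩⟩) (by decide +kernel)

def tC14_um01 : PosD ⟨⟨0, 1, 1⟩, ⟨98, 99, 147⟩, ⟨4050, 7026, 30000⟩, ⟨897, 1037, 1000⟩⟩ (tC14.hUm false true) :=
  posD_of_check (c := ⟨403, ⟨3, 8, 14, 10⟩⟩) (by decide +kernel)

def tC14_tmg01 : PosD ⟨⟨0, 1, 1⟩, ⟨98, 99, 147⟩, ⟨4050, 7026, 30000⟩, ⟨897, 1037, 1000⟩⟩ (tC14.hTMG true (tC14.pEnd false)) :=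
  posD_of_check (c := ⟨351, ⟨2, 7, 13, 8⟩⟩) (by decide +kernel)

def tC14_kap1 : PosD ⟨⟨0, 1, 1⟩, ⟨98, 99, 147⟩, ⟨4050, 7026, 30000⟩, ⟨897, 1037, 1000⟩⟩ (tC14.kap true) :=
  posD_of_check (c := ⟨67, ⟨1, 1, 2, 2⟩⟩) (by decide +kernel)

def tC14_c11 : PosD ⟨⟨0, 1, 1⟩, ⟨98, 99, 147⟩, ⟨4050, 7026, 30000⟩, ⟨897, 1037, 1000⟩⟩ (tC14.hC1 true) :=
  posD_of_check (c := ⟨270, ⟨3, 5, 9, 7⟩⟩) (by decide +kernel)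

def tC14_c1h1 : PosD ⟨⟨0, 1, 1⟩, ⟨98, 99, 147⟩, ⟨4050, 7026, 30000⟩, ⟨897, 1037, 1000⟩⟩ (tC14.hC1' true) :=
  posD_of_check (c := ⟨270, ⟨3, 5, 9, 7⟩⟩) (by decide +kernel)

def tC14_tg10 : PosD ⟨⟨0, 1, 1⟩, ⟨98, 99, 147⟩, ⟨4050, 7026, 30000⟩, ⟨897, 1037, 1000⟩⟩ (tC14.hG false (tC14.pEnd true)) :=
  posD_of_check (c := ⟨383, ⟨2, 7, 14, 9⟩⟩) (by decide +kernel)

def tC14_c2p10 : PosD ⟨⟨0, 1, 1⟩, ⟨98, 99, 147⟩, ⟨4050, 7026, 30000⟩, ⟨897, 1037, 1000⟩⟩ (tC14.hC2p false (tC14.pEnd true)) :=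
  posD_of_check (c := ⟨452, ⟨3, 8, 16, 11⟩⟩) (by decide +kernel)

def tC14_c2m10 : PosD ⟨⟨0, 1, 1⟩, ⟨98, 99, 147⟩, ⟨4050, 7026, 30000⟩, ⟨897, 1037, 1000⟩⟩ (tC14.hC2m false (tC14.pEnd true)) :=
  posD_of_check (c := ⟨452, ⟨3, 8, 16, 11⟩⟩) (by decide +kernel)

def tC14_c3p10 : PosD ⟨⟨0, 1, 1⟩, ⟨98, 99, 147⟩, ⟨4050, 7026, 30000⟩, ⟨897, 1037, 1000⟩⟩ (tC14.hC3p true false) :=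
  posD_of_check (c := ⟨440, ⟨3, 8, 15, 11⟩⟩) (by decide +kernel)

def tC14_c3m10 : PosD ⟨⟨0, 1, 1⟩, ⟨98, 99, 147⟩, ⟨4050, 7026, 30000⟩, ⟨897, 1037, 1000⟩⟩ (tC14.hC3m true false) :=
  posD_of_check (c := ⟨440, ⟨3, 8, 15, 11⟩⟩) (by decide +kernel)

def tC14_c3ph10 : PosD ⟨⟨0, 1, 1⟩, ⟨98, 99, 147⟩, ⟨4050, 7026, 30000⟩, ⟨897, 1037, 1000⟩⟩ (tC14.hC3p' true false) :=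
  posD_of_check (c := ⟨440, ⟨3, 8, 15, 11⟩⟩) (by decide +kernel)

def tC14_c3mh10 : PosD ⟨⟨0, 1, 1⟩, ⟨98, 99, 147⟩, ⟨4050, 7026, 30000⟩, ⟨897, 1037, 1000⟩⟩ (tC14.hC3m' true false) :=
  posD_of_check (c := ⟨440, ⟨3, 8, 15, 11⟩⟩) (by decide +kernel)

def tC14_up10 : PosD ⟨⟨0, 1, 1⟩, ⟨98, 99, 147⟩, ⟨4050, 7026, 30000⟩, ⟨897, 1037, 1000⟩⟩ (tC14.hUp true false) :=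
  posD_of_check (c := ⟨439, ⟨3, 8, 15, 11⟩⟩) (by decide +kernel)

def tC14_um10 : PosD ⟨⟨0, 1, 1⟩, ⟨98, 99, 147⟩, ⟨4050, 7026, 30000⟩, ⟨897, 1037, 1000⟩⟩ (tC14.hUm true false) :=
  posD_of_check (c := ⟨439, ⟨3, 8, 15, 11⟩⟩) (by decide +kernel)

def tC14_tmg10 : PosD ⟨⟨0, 1, 1⟩, ⟨98, 99, 147⟩, ⟨4050, 7026, 30000⟩, ⟨897, 1037, 1000⟩⟩ (tC14.hTMG false (tC14.pEnd true)) :=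
  posD_of_check (c := ⟨398, ⟨2, 7, 14, 10⟩⟩) (by decide +kernel)

def tC14_tg11 : PosD ⟨⟨0, 1, 1⟩, ⟨98, 99, 147⟩, ⟨4050, 7026, 30000⟩, ⟨897, 1037, 1000⟩⟩ (tC14.hG true (tC14.pEnd true)) :=
  posD_of_check (c := ⟨383, ⟨2, 7, 14, 9⟩⟩) (by decide +kernel)

def tC14_c2p11 : PosD ⟨⟨0, 1, 1⟩, ⟨98, 99, 147⟩, ⟨4050, 7026, 30000⟩, ⟨897, 1037, 1000⟩⟩ (tC14.hC2p true (tC14.pEnd true)) :=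
  posD_of_check (c := ⟨452, ⟨3, 8, 16, 11⟩⟩) (by decide +kernel)

def tC14_c2m11 : PosD ⟨⟨0, 1, 1⟩, ⟨98, 99, 147⟩, ⟨4050, 7026, 30000⟩, ⟨897, 1037, 1000⟩⟩ (tC14.hC2m true (tC14.pEnd true)) :=
  posD_of_check (c := ⟨452, ⟨3, 8, 16, 11⟩⟩) (by decide +kernel)

def tC14_c3p11 : PosD ⟨⟨0, 1, 1⟩, ⟨98, 99, 147⟩, ⟨4050, 7026, 30000⟩, ⟨897, 1037, 1000⟩⟩ (tC14.hC3p true true) :=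
  posD_of_check (c := ⟨440, ⟨3, 8, 15, 11⟩⟩) (by decide +kernel)

def tC14_c3m11 : PosD ⟨⟨0, 1, 1⟩, ⟨98, 99, 147⟩, ⟨4050, 7026, 30000⟩, ⟨897, 1037, 1000⟩⟩ (tC14.hC3m true true) :=
  posD_of_check (c := ⟨440, ⟨3, 8, 15, 11⟩⟩) (by decide +kernel)

def tC14_c3ph11 : PosD ⟨⟨0, 1, 1⟩, ⟨98, 99, 147⟩, ⟨4050, 7026, 30000⟩, ⟨897, 1037, 1000⟩⟩ (tC14.hC3p' true true) :=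
  posD_of_check (c := ⟨440, ⟨3, 8, 15, 11⟩⟩) (by decide +kernel)

def tC14_c3mh11 : PosD ⟨⟨0, 1, 1⟩, ⟨98, 99, 147⟩, ⟨4050, 7026, 30000⟩, ⟨897, 1037, 1000⟩⟩ (tC14.hC3m' true true) :=
  posD_of_check (c := ⟨440, ⟨3, 8, 15, 11⟩⟩) (by decide +kernel)

def tC14_up11 : PosD ⟨⟨0, 1, 1⟩, ⟨98, 99, 147⟩, ⟨4050, 7026, 30000⟩, ⟨897, 1037, 1000⟩⟩ (tC14.hUp true true) :=
  posD_of_check (c := ⟨439, ⟨3, 8, 15, 11⟩⟩) (by decide +kernel)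

def tC14_um11 : PosD ⟨⟨0, 1, 1⟩, ⟨98, 99, 147⟩, ⟨4050, 7026, 30000⟩, ⟨897, 1037, 1000⟩⟩ (tC14.hUm true true) :=
  posD_of_check (c := ⟨439, ⟨3, 8, 15, 11⟩⟩) (by decide +kernel)

def tC14_tmg11 : PosD ⟨⟨0, 1, 1⟩, ⟨98, 99, 147⟩, ⟨4050, 7026, 30000⟩, ⟨897, 1037, 1000⟩⟩ (tC14.hTMG true (tC14.pEnd true)) :=
  posD_of_check (c := ⟨398, ⟨2, 7, 14, 10⟩⟩) (by decide +kernel)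

/-- The signs of the piece. -/
def tC14_sign : tC14.Sign ⟨⟨0, 1, 1⟩, ⟨98, 99, 147⟩, ⟨4050, 7026, 30000⟩, ⟨897, 1037, 1000⟩⟩ :=
  ⟨tC14_pp,
    tC14_k2p,
    tC14_k2m,
    Bool.forall_bool.2 ⟨(Bool.forall_bool.2 ⟨tC14_tg00, tC14_tg01⟩), (Bool.forall_bool.2 ⟨tC14_tg10, tC14_tg11⟩)⟩,
    Bool.forall_bool.2 ⟨(Bool.forall_bool.2 ⟨tC14_c2p00, tC14_c2p01⟩), (Bool.forall_bool.2 ⟨tC14_c2p10, tC14_c2p11⟩)⟩,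
    Bool.forall_bool.2 ⟨(Bool.forall_bool.2 ⟨tC14_c2m00, tC14_c2m01⟩), (Bool.forall_bool.2 ⟨tC14_c2m10, tC14_c2m11⟩)⟩,
    Bool.forall_bool.2 ⟨tC14_kap0, tC14_kap1⟩,
    Bool.forall_bool.2 ⟨tC14_c10, tC14_c11⟩,
    Bool.forall_bool.2 ⟨(Bool.forall_bool.2 ⟨tC14_c3p00, tC14_c3p01⟩), (Bool.forall_bool.2 ⟨tC14_c3p10, tC14_c3p11⟩)⟩,
    Bool.forall_bool.2 ⟨(Bool.forall_bool.2 ⟨tC14_c3m00, tC14_c3m01⟩), (Bool.forall_bool.2 ⟨tC14_c3m10, tC14_c3m11⟩)⟩,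
    Bool.forall_bool.2 ⟨(Bool.forall_bool.2 ⟨tC14_tmg00, tC14_tmg01⟩), (Bool.forall_bool.2 ⟨tC14_tmg10, tC14_tmg11⟩)⟩,
    .inr (Bool.forall_bool.2 ⟨⟨tC14_c1h0, Bool.forall_bool.2 ⟨⟨tC14_c3ph00, tC14_c3mh00, tC14_up00, tC14_um00⟩, ⟨tC14_c3ph01, tC14_c3mh01, tC14_up01, tC14_um01⟩⟩⟩, ⟨tC14_c1h1, Bool.forall_bool.2 ⟨⟨tC14_c3ph10, tC14_c3mh10, tC14_up10, tC14_um10⟩, ⟨tC14_c3ph11, tC14_c3mh11, tC14_up11, tC14_um11⟩⟩⟩⟩),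
    tC14_v2p,
    tC14_v2m,
    tC14_v3p,
    tC14_v3m,
    posD_sub (b := ⟨⟨0, 1, 1⟩, ⟨98, 99, 147⟩, ⟨4050, 10000, 30000⟩, ⟨290, 4000, 1000⟩⟩) (by decide +kernel) tC_vG,
    posD_sub (b := ⟨⟨0, 1, 1⟩, ⟨98, 99, 147⟩, ⟨4050, 10000, 30000⟩, ⟨290, 4000, 1000⟩⟩) (by decide +kernel) tC_vMG,
    posD_sub (b := ⟨⟨0, 1, 1⟩, ⟨98, 99, 147⟩, ⟨4050, 10000, 30000⟩, ⟨290, 4000, 1000⟩⟩) (by decide +kernel) tC_ak,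
    posD_sub (b := ⟨⟨0, 1, 1⟩, ⟨98, 99, 147⟩, ⟨4050, 10000, 30000⟩, ⟨290, 4000, 1000⟩⟩) (by decide +kernel) tC_aw,
    posD_sub (b := ⟨⟨0, 1, 1⟩, ⟨98, 99, 147⟩, ⟨4050, 10000, 30000⟩, ⟨290, 4000, 1000⟩⟩) (by decide +kernel) tC_gk,
    posD_sub (b := ⟨⟨0, 1, 1⟩, ⟨98, 99, 147⟩, ⟨4050, 10000, 30000⟩, ⟨290, 4000, 1000⟩⟩) (by decide +kernel) tC_gw,
    posD_sub (b := ⟨⟨0, 1, 1⟩, ⟨98, 99, 147⟩, ⟨4050, 10000, 30000⟩, ⟨290, 4000, 1000⟩⟩) (by decide +kernel) tC_ek,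
    posD_sub (b := ⟨⟨0, 1, 1⟩, ⟨98, 99, 147⟩, ⟨4050, 10000, 30000⟩, ⟨290, 4000, 1000⟩⟩) (by decide +kernel) tC_ew⟩

end Vale.Agent.P100.Calib.Closed.Six.Tail
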