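import Vale.Agent.P100.Calib.SlabSixTailDataC
import Vale.Agent.P100.Calib.SlabSixTailGlobC

/-!
# Checks of some pieces of the certificate

The checks are written as definitions so that they run one after another, which keeps the memory of the
kernel low.
-/

set_option linter.defProp false

namespace Vale.Agent.P100.Calib.Closed.Six.Tail

open BoxPos Large

local instance sixTailCheckstC40Add : Add Ex := ⟨Ex.add⟩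
local instance sixTailCheckstC40Sub : Sub Ex := ⟨Ex.sub⟩
local instance sixTailCheckstC40Mul : Mul Ex := ⟨Ex.mul⟩

def tC56_phx : PosIf ⟨⟨0, 1, 1⟩, ⟨98, 99, 147⟩, ⟨9630, 9723, 30000⟩, ⟨1467, 1488, 1000⟩⟩ (tC56.u₁ - tC56Lo) (phCn (tC56.u₁ + xO * (tC56Lo - tC56.u₁))) :=
  posIf_of_posD (posD_of_check (c := ⟨109, ⟨2, 0, 4, 2⟩⟩) (by decide +kernel))

def tC56_phd : PosD ⟨⟨0, 1, 1⟩, ⟨98, 99, 147⟩, ⟨9630, 9723, 30000⟩, ⟨1467, 1488, 1000⟩⟩ (phCd (tC56.u₁ + xO * (tC56Lo - tC56.u₁))) :=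
  posD_of_check (c := ⟨51, ⟨1, 0, 2, 1⟩⟩) (by decide +kernel)

def tC56_p0 : PosD ⟨⟨0, 1, 1⟩, ⟨98, 99, 147⟩, ⟨9630, 9723, 30000⟩, ⟨1467, 1488, 1000⟩⟩ (tC56.hP0) :=
  posD_of_check (c := ⟨67, ⟨0, 2, 2, 1⟩⟩) (by decide +kernel)

def tC56_gn : PosD ⟨⟨0, 1, 1⟩, ⟨98, 99, 147⟩, ⟨9630, 9723, 30000⟩, ⟨1467, 1488, 1000⟩⟩ (tC56.hGn) :=
  posD_of_check (c := ⟨69, ⟨1, 1, 2, 2⟩⟩) (by decide +kernel)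

def tC56_den0 : PosD ⟨⟨0, 1, 1⟩, ⟨98, 99, 147⟩, ⟨9630, 9723, 30000⟩, ⟨1467, 1488, 1000⟩⟩ (tC56.hDen false) :=
  posD_of_check (c := ⟨51, ⟨1, 0, 2, 1⟩⟩) (by decide +kernel)

def tC56_den1 : PosD ⟨⟨0, 1, 1⟩, ⟨98, 99, 147⟩, ⟨9630, 9723, 30000⟩, ⟨1467, 1488, 1000⟩⟩ (tC56.hDen true) :=
  posD_of_check (c := ⟨180, ⟨3, 4, 6, 4⟩⟩) (by decide +kernel)

def tC56_ev0 : PosD ⟨⟨0, 1, 1⟩, ⟨98, 99, 147⟩, ⟨9630, 9723, 30000⟩, ⟨1467, 1488, 1000⟩⟩ (tC56.hEv false) :=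
  posD_of_check (c := ⟨220, ⟨4, 2, 8, 4⟩⟩) (by decide +kernel)

def tC56_zL0 : PosD ⟨⟨0, 1, 1⟩, ⟨98, 99, 147⟩, ⟨9630, 9723, 30000⟩, ⟨1467, 1488, 1000⟩⟩ (tC56.hZL false) :=
  posD_of_relax (k₁ := 0) (k₂ := 0) (k₃ := 1) (n := 16) (posD_of_check (c := ⟨222, ⟨4, 3, 8, 4⟩⟩) (by decide +kernel))

def tC56_zU0 : PosD ⟨⟨0, 1, 1⟩, ⟨98, 99, 147⟩, ⟨9630, 9723, 30000⟩, ⟨1467, 1488, 1000⟩⟩ (tC56.hZU false) :=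
  posD_of_check (c := ⟨222, ⟨4, 3, 8, 4⟩⟩) (by decide +kernel)

def tC56_eL0 : PosD ⟨⟨0, 1, 1⟩, ⟨98, 99, 147⟩, ⟨9630, 9723, 30000⟩, ⟨1467, 1488, 1000⟩⟩ (tC56.hEL false) :=
  posD_of_check (c := ⟨308, ⟨5, 6, 10, 6⟩⟩) (by decide +kernel)

def tC56_eH0 : PosD ⟨⟨0, 1, 1⟩, ⟨98, 99, 147⟩, ⟨9630, 9723, 30000⟩, ⟨1467, 1488, 1000⟩⟩ (tC56.hEH false) :=
  posD_of_check (c := ⟨334, ⟨5, 6, 11, 7⟩⟩) (by decide +kernel)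

def tC56_pL0 : PosD ⟨⟨0, 1, 1⟩, ⟨98, 99, 147⟩, ⟨9630, 9723, 30000⟩, ⟨1467, 1488, 1000⟩⟩ (tC56.hPL false) :=
  posD_of_check (c := ⟨344, ⟨5, 6, 11, 7⟩⟩) (by decide +kernel)

def tC56_pU0 : PosD ⟨⟨0, 1, 1⟩, ⟨98, 99, 147⟩, ⟨9630, 9723, 30000⟩, ⟨1467, 1488, 1000⟩⟩ (tC56.hPU false) :=
  posD_of_check (c := ⟨341, ⟨5, 6, 11, 7⟩⟩) (by decide +kernel)

def tC56_kU0 : PosD ⟨⟨0, 1, 1⟩, ⟨98, 99, 147⟩, ⟨9630, 9723, 30000⟩, ⟨1467, 1488, 1000⟩⟩ (tC56.hKU false) :=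
  posD_of_check (c := ⟨341, ⟨5, 6, 11, 7⟩⟩) (by decide +kernel)

def tC56_kL0 : PosD ⟨⟨0, 1, 1⟩, ⟨98, 99, 147⟩, ⟨9630, 9723, 30000⟩, ⟨1467, 1488, 1000⟩⟩ (tC56.hKL false) :=
  posD_of_check (c := ⟨337, ⟨5, 6, 11, 7⟩⟩) (by decide +kernel)

def tC56_wU0 : PosD ⟨⟨0, 1, 1⟩, ⟨98, 99, 147⟩, ⟨9630, 9723, 30000⟩, ⟨1467, 1488, 1000⟩⟩ (tC56.hWU false) :=
  posD_of_check (c := ⟨373, ⟨5, 8, 12, 7⟩⟩) (by decide +kernel)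

def tC56_wL0 : PosD ⟨⟨0, 1, 1⟩, ⟨98, 99, 147⟩, ⟨9630, 9723, 30000⟩, ⟨1467, 1488, 1000⟩⟩ (tC56.hWL false) :=
  posD_of_check (c := ⟨373, ⟨5, 8, 12, 7⟩⟩) (by decide +kernel)

def tC56_ev1 : PosD ⟨⟨0, 1, 1⟩, ⟨98, 99, 147⟩, ⟨9630, 9723, 30000⟩, ⟨1467, 1488, 1000⟩⟩ (tC56.hEv true) :=
  posD_of_check (c := ⟨274, ⟨4, 6, 9, 6⟩⟩) (by decide +kernel)

def tC56_zL1 : PosD ⟨⟨0, 1, 1⟩, ⟨98, 99, 147⟩, ⟨9630, 9723, 30000⟩, ⟨1467, 1488, 1000⟩⟩ (tC56.hZL true) :=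
  posD_of_check (c := ⟨279, ⟨4, 7, 9, 6⟩⟩) (by decide +kernel)

def tC56_zU1 : PosD ⟨⟨0, 1, 1⟩, ⟨98, 99, 147⟩, ⟨9630, 9723, 30000⟩, ⟨1467, 1488, 1000⟩⟩ (tC56.hZU true) :=
  posD_of_check (c := ⟨279, ⟨4, 7, 9, 6⟩⟩) (by decide +kernel)

def tC56_eL1 : PosD ⟨⟨0, 1, 1⟩, ⟨98, 99, 147⟩, ⟨9630, 9723, 30000⟩, ⟨1467, 1488, 1000⟩⟩ (tC56.hEL true) :=
  posD_of_check (c := ⟨361, ⟨5, 10, 11, 8⟩⟩) (by decide +kernel)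

def tC56_eH1 : PosD ⟨⟨0, 1, 1⟩, ⟨98, 99, 147⟩, ⟨9630, 9723, 30000⟩, ⟨1467, 1488, 1000⟩⟩ (tC56.hEH true) :=
  posD_of_check (c := ⟨387, ⟨5, 10, 12, 9⟩⟩) (by decide +kernel)

def tC56_pL1 : PosD ⟨⟨0, 1, 1⟩, ⟨98, 99, 147⟩, ⟨9630, 9723, 30000⟩, ⟨1467, 1488, 1000⟩⟩ (tC56.hPL true) :=
  posD_of_check (c := ⟨398, ⟨5, 10, 12, 9⟩⟩) (by decide +kernel)

def tC56_pU1 : PosD ⟨⟨0, 1, 1⟩, ⟨98, 99, 147⟩, ⟨9630, 9723, 30000⟩, ⟨1467, 1488, 1000⟩⟩ (tC56.hPU true) :=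
  posD_of_check (c := ⟨395, ⟨5, 10, 12, 9⟩⟩) (by decide +kernel)

def tC56_kU1 : PosD ⟨⟨0, 1, 1⟩, ⟨98, 99, 147⟩, ⟨9630, 9723, 30000⟩, ⟨1467, 1488, 1000⟩⟩ (tC56.hKU true) :=
  posD_of_check (c := ⟨395, ⟨5, 10, 12, 9⟩⟩) (by decide +kernel)

def tC56_kL1 : PosD ⟨⟨0, 1, 1⟩, ⟨98, 99, 147⟩, ⟨9630, 9723, 30000⟩, ⟨1467, 1488, 1000⟩⟩ (tC56.hKL true) :=
  posD_of_check (c := ⟨391, ⟨5, 10, 12, 9⟩⟩) (by decide +kernel)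

def tC56_wU1 : PosD ⟨⟨0, 1, 1⟩, ⟨98, 99, 147⟩, ⟨9630, 9723, 30000⟩, ⟨1467, 1488, 1000⟩⟩ (tC56.hWU true) :=
  posD_of_check (c := ⟨426, ⟨5, 12, 13, 9⟩⟩) (by decide +kernel)

def tC56_wL1 : PosD ⟨⟨0, 1, 1⟩, ⟨98, 99, 147⟩, ⟨9630, 9723, 30000⟩, ⟨1467, 1488, 1000⟩⟩ (tC56.hWL true) :=
  posD_of_check (c := ⟨427, ⟨5, 12, 13, 9⟩⟩) (by decide +kernel)

def tC56_nueH : PosD ⟨⟨0, 1, 1⟩, ⟨98, 99, 147⟩, ⟨9630, 9723, 30000⟩, ⟨1467, 1488, 1000⟩⟩ (tC56.eH.ν) :=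
  posD_of_check (c := ⟨33, ⟨0, 0, 1, 1⟩⟩) (by decide +kernel)

def tC56_nupU : PosD ⟨⟨0, 1, 1⟩, ⟨98, 99, 147⟩, ⟨9630, 9723, 30000⟩, ⟨1467, 1488, 1000⟩⟩ (tC56.pU.ν) :=
  posD_of_check (c := ⟨35, ⟨0, 0, 1, 1⟩⟩) (by decide +kernel)

def tC56_nuwL : PosD ⟨⟨0, 1, 1⟩, ⟨98, 99, 147⟩, ⟨9630, 9723, 30000⟩, ⟨1467, 1488, 1000⟩⟩ (tC56.wL.ν) :=
  posD_of_check (c := ⟨37, ⟨0, 0, 1, 1⟩⟩) (by decide +kernel)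

/-- The bounds of the piece. -/
def tC56_env : tC56.Env ⟨⟨0, 1, 1⟩, ⟨98, 99, 147⟩, ⟨9630, 9723, 30000⟩, ⟨1467, 1488, 1000⟩⟩ :=
  ⟨tC56_p0, Bool.forall_bool.2 ⟨tC56_den0, tC56_den1⟩, tC56_gn, Bool.forall_bool.2 ⟨tC56_ev0, tC56_ev1⟩, Bool.forall_bool.2 ⟨tC56_zL0, tC56_zL1⟩, Bool.forall_bool.2 ⟨tC56_zU0, tC56_zU1⟩, Bool.forall_bool.2 ⟨tC56_eL0, tC56_eL1⟩, ⟨.inr rfl, .inr rfl⟩, Bool.forall_bool.2 ⟨tC56_eH0, tC56_eH1⟩, ⟨.inr rfl, .inl tC56_nueH⟩, Bool.forall_bool.2 ⟨tC56_pL0, tC56_pL1⟩, ⟨.inr rfl, .inr rfl⟩, Bool.forall_bool.2 ⟨tC56_pU0, tC56_pU1⟩, ⟨.inr rfl, .inl tC56_nupU⟩, Bool.forall_bool.2 ⟨tC56_kU0, tC56_kU1⟩, ⟨.inr rfl, .inr rfl⟩, Bool.forall_bool.2 ⟨tC56_kL0, tC56_kL1⟩, ⟨.inr rfl, .inr rfl⟩, Bool.forall_bool.2 ⟨tC56_wU0,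 tC56_wU1⟩, ⟨.inr rfl, .inr rfl⟩, Bool.forall_bool.2 ⟨tC56_wL0, tC56_wL1⟩, ⟨.inr rfl, .inl tC56_nuwL⟩⟩

def tC56_pp : PosD ⟨⟨0, 1, 1⟩, ⟨98, 99, 147⟩, ⟨9630, 9723, 30000⟩, ⟨1467, 1488, 1000⟩⟩ (tC56.xPL) :=
  posD_of_check (c := ⟨82, ⟨1, 1, 2, 2⟩⟩) (by decide +kernel)

def tC56_k2p : PosD ⟨⟨0, 1, 1⟩, ⟨98, 99, 147⟩, ⟨9630, 9723, 30000⟩, ⟨1467, 1488, 1000⟩⟩ (tC56.k2p tC56.xE) :=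
  posD_of_check (c := ⟨53, ⟨1, 1, 1, 1⟩⟩) (by decide +kernel)

def tC56_k2m : PosD ⟨⟨0, 1, 1⟩, ⟨98, 99, 147⟩, ⟨9630, 9723, 30000⟩, ⟨1467, 1488, 1000⟩⟩ (tC56.k2m tC56.xE) :=
  posD_of_check (c := ⟨31, ⟨0, 0, 1, 1⟩⟩) (by decide +kernel)

def tC56_v2p : PosD ⟨⟨0, 1, 1⟩, ⟨98, 99, 147⟩, ⟨9630, 9723, 30000⟩, ⟨1467, 1488, 1000⟩⟩ (tC56.hV2p) :=
  posD_of_check (c := ⟨258, ⟨1, 6, 10, 4⟩⟩) (by decide +kernel)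

def tC56_v2m : PosD ⟨⟨0, 1, 1⟩, ⟨98, 99, 147⟩, ⟨9630, 9723, 30000⟩, ⟨1467, 1488, 1000⟩⟩ (tC56.hV2m) :=
  posD_of_check (c := ⟨245, ⟨0, 5, 10, 4⟩⟩) (by decide +kernel)

def tC56_v3p : PosD ⟨⟨0, 1, 1⟩, ⟨98, 99, 147⟩, ⟨9630, 9723, 30000⟩, ⟨1467, 1488, 1000⟩⟩ (tC56.hV3p) :=
  posD_of_check (c := ⟨243, ⟨1, 6, 9, 4⟩⟩) (by decide +kernel)

def tC56_v3m : PosD ⟨⟨0, 1, 1⟩, ⟨98, 99, 147⟩, ⟨9630, 9723, 30000⟩, ⟨1467, 1488, 1000⟩⟩ (tC56.hV3m) :=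
  posD_of_check (c := ⟨232, ⟨0, 5, 9, 4⟩⟩) (by decide +kernel)

def tC56_kap0 : PosD ⟨⟨0, 1, 1⟩, ⟨98, 99, 147⟩, ⟨9630, 9723, 30000⟩, ⟨1467, 1488, 1000⟩⟩ (tC56.kap false) :=
  posD_of_check (c := ⟨54, ⟨1, 1, 1, 1⟩⟩) (by decide +kernel)

def tC56_c10 : PosD ⟨⟨0, 1, 1⟩, ⟨98, 99, 147⟩, ⟨9630, 9723, 30000⟩, ⟨1467, 1488, 1000⟩⟩ (tC56.hC1 false) :=
  posD_of_check (c := ⟨258, ⟨3, 5, 8, 5⟩⟩) (by decide +kernel)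

def tC56_c1h0 : PosD ⟨⟨0, 1, 1⟩, ⟨98, 99, 147⟩, ⟨9630, 9723, 30000⟩, ⟨1467, 1488, 1000⟩⟩ (tC56.hC1' false) :=
  posD_of_relax (k₁ := 0) (k₂ := 0) (k₃ := 147) (n := 16) (posD_of_check (c := ⟨258, ⟨3, 5, 8, 5⟩⟩) (by decide +kernel))

def tC56_tg00 : PosD ⟨⟨0, 1, 1⟩, ⟨98, 99, 147⟩, ⟨9630, 9723, 30000⟩, ⟨1467, 1488, 1000⟩⟩ (tC56.hG false (tC56.pEnd false)) :=
  posD_of_check (c := ⟨361, ⟨2, 7, 12, 7⟩⟩) (by decide +kernel)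

def tC56_c2p00 : PosD ⟨⟨0, 1, 1⟩, ⟨98, 99, 147⟩, ⟨9630, 9723, 30000⟩, ⟨1467, 1488, 1000⟩⟩ (tC56.hC2p false (tC56.pEnd false)) :=
  posD_of_check (c := ⟨417, ⟨3, 8, 14, 8⟩⟩) (by decide +kernel)

def tC56_c2m00 : PosD ⟨⟨0, 1, 1⟩, ⟨98, 99, 147⟩, ⟨9630, 9723, 30000⟩, ⟨1467, 1488, 1000⟩⟩ (tC56.hC2m false (tC56.pEnd false)) :=
  posD_of_check (c := ⟨404, ⟨2, 7, 14, 8⟩⟩) (by decide +kernel)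

def tC56_c3p00 : PosD ⟨⟨0, 1, 1⟩, ⟨98, 99, 147⟩, ⟨9630, 9723, 30000⟩, ⟨1467, 1488, 1000⟩⟩ (tC56.hC3p false false) :=
  posD_of_check (c := ⟨404, ⟨3, 8, 14, 8⟩⟩) (by decide +kernel)

def tC56_c3m00 : PosD ⟨⟨0, 1, 1⟩, ⟨98, 99, 147⟩, ⟨9630, 9723, 30000⟩, ⟨1467, 1488, 1000⟩⟩ (tC56.hC3m false false) :=
  posD_of_check (c := ⟨395, ⟨3, 7, 14, 8⟩⟩) (by decide +kernel)

def tC56_c3ph00 : PosD ⟨⟨0, 1, 1⟩, ⟨98, 99, 147⟩, ⟨9630, 9723, 30000⟩, ⟨1467, 1488, 1000⟩⟩ (tC56.hC3p' false false) :=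
  posD_of_check (c := ⟨404, ⟨3, 8, 14, 8⟩⟩) (by decide +kernel)

def tC56_c3mh00 : PosD ⟨⟨0, 1, 1⟩, ⟨98, 99, 147⟩, ⟨9630, 9723, 30000⟩, ⟨1467, 1488, 1000⟩⟩ (tC56.hC3m' false false) :=
  posD_of_check (c := ⟨395, ⟨3, 7, 14, 8⟩⟩) (by decide +kernel)

def tC56_up00 : PosD ⟨⟨0, 1, 1⟩, ⟨98, 99, 147⟩, ⟨9630, 9723, 30000⟩, ⟨1467, 1488, 1000⟩⟩ (tC56.hUp false false) :=
  posD_of_check (c := ⟨404, ⟨3, 8, 14, 8⟩⟩) (by decide +kernel)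

def tC56_um00 : PosD ⟨⟨0, 1, 1⟩, ⟨98, 99, 147⟩, ⟨9630, 9723, 30000⟩, ⟨1467, 1488, 1000⟩⟩ (tC56.hUm false false) :=
  posD_of_check (c := ⟨394, ⟨2, 7, 14, 8⟩⟩) (by decide +kernel)

def tC56_tmg00 : PosD ⟨⟨0, 1, 1⟩, ⟨98, 99, 147⟩, ⟨9630, 9723, 30000⟩, ⟨1467, 1488, 1000⟩⟩ (tC56.hTMG false (tC56.pEnd false)) :=
  posD_of_check (c := ⟨376, ⟨2, 7, 13, 8⟩⟩) (by decide +kernel)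

def tC56_tg01 : PosD ⟨⟨0, 1, 1⟩, ⟨98, 99, 147⟩, ⟨9630, 9723, 30000⟩, ⟨1467, 1488, 1000⟩⟩ (tC56.hG true (tC56.pEnd false)) :=
  posD_of_check (c := ⟨361, ⟨2, 7, 12, 7⟩⟩) (by decide +kernel)

def tC56_c2p01 : PosD ⟨⟨0, 1, 1⟩, ⟨98, 99, 147⟩, ⟨9630, 9723, 30000⟩, ⟨1467, 1488, 1000⟩⟩ (tC56.hC2p true (tC56.pEnd false)) :=
  posD_of_check (c := ⟨417, ⟨3, 8, 14, 8⟩⟩) (by decide +kernel)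

def tC56_c2m01 : PosD ⟨⟨0, 1, 1⟩, ⟨98, 99, 147⟩, ⟨9630, 9723, 30000⟩, ⟨1467, 1488, 1000⟩⟩ (tC56.hC2m true (tC56.pEnd false)) :=
  posD_of_check (c := ⟨404, ⟨2, 7, 14, 8⟩⟩) (by decide +kernel)

def tC56_c3p01 : PosD ⟨⟨0, 1, 1⟩, ⟨98, 99, 147⟩, ⟨9630, 9723, 30000⟩, ⟨1467, 1488, 1000⟩⟩ (tC56.hC3p false true) :=
  posD_of_check (c := ⟨404, ⟨3, 8, 14, 8⟩⟩) (by decide +kernel)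

def tC56_c3m01 : PosD ⟨⟨0, 1, 1⟩, ⟨98, 99, 147⟩, ⟨9630, 9723, 30000⟩, ⟨1467, 1488, 1000⟩⟩ (tC56.hC3m false true) :=
  posD_of_check (c := ⟨395, ⟨3, 7, 14, 8⟩⟩) (by decide +kernel)

def tC56_c3ph01 : PosD ⟨⟨0, 1, 1⟩, ⟨98, 99, 147⟩, ⟨9630, 9723, 30000⟩, ⟨1467, 1488, 1000⟩⟩ (tC56.hC3p' false true) :=
  posD_of_check (c := ⟨404, ⟨3, 8, 14, 8⟩⟩) (by decide +kernel)

def tC56_c3mh01 : PosD ⟨⟨0, 1, 1⟩, ⟨98, 99, 147⟩, ⟨9630, 9723, 30000⟩, ⟨1467, 1488, 1000⟩⟩ (tC56.hC3m' false true) :=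
  posD_of_check (c := ⟨395, ⟨3, 7, 14, 8⟩⟩) (by decide +kernel)

def tC56_up01 : PosD ⟨⟨0, 1, 1⟩, ⟨98, 99, 147⟩, ⟨9630, 9723, 30000⟩, ⟨1467, 1488, 1000⟩⟩ (tC56.hUp false true) :=
  posD_of_check (c := ⟨404, ⟨3, 8, 14, 8⟩⟩) (by decide +kernel)

def tC56_um01 : PosD ⟨⟨0, 1, 1⟩, ⟨98, 99, 147⟩, ⟨9630, 9723, 30000⟩, ⟨1467, 1488, 1000⟩⟩ (tC56.hUm false true) :=
  posD_of_check (c := ⟨394, ⟨2, 7, 14, 8⟩⟩) (by decide +kernel)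

def tC56_tmg01 : PosD ⟨⟨0, 1, 1⟩, ⟨98, 99, 147⟩, ⟨9630, 9723, 30000⟩, ⟨1467, 1488, 1000⟩⟩ (tC56.hTMG true (tC56.pEnd false)) :=
  posD_of_check (c := ⟨376, ⟨2, 7, 13, 8⟩⟩) (by decide +kernel)

def tC56_kap1 : PosD ⟨⟨0, 1, 1⟩, ⟨98, 99, 147⟩, ⟨9630, 9723, 30000⟩, ⟨1467, 1488, 1000⟩⟩ (tC56.kap true) :=
  posD_of_check (c := ⟨54, ⟨1, 1, 1, 1⟩⟩) (by decide +kernel)

def tC56_c11 : PosD ⟨⟨0, 1, 1⟩, ⟨98, 99, 147⟩, ⟨9630, 9723, 30000⟩, ⟨1467, 1488, 1000⟩⟩ (tC56.hC1 true) :=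
  posD_of_check (c := ⟨254, ⟨3, 5, 8, 5⟩⟩) (by decide +kernel)

def tC56_c1h1 : PosD ⟨⟨0, 1, 1⟩, ⟨98, 99, 147⟩, ⟨9630, 9723, 30000⟩, ⟨1467, 1488, 1000⟩⟩ (tC56.hC1' true) :=
  posD_of_relax (k₁ := 0) (k₂ := 0) (k₃ := 142) (n := 16) (posD_of_check (c := ⟨254, ⟨3, 5, 8, 5⟩⟩) (by decide +kernel))

def tC56_tg10 : PosD ⟨⟨0, 1, 1⟩, ⟨98, 99, 147⟩, ⟨9630, 9723, 30000⟩, ⟨1467, 1488, 1000⟩⟩ (tC56.hG false (tC56.pEnd true)) :=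
  posD_of_check (c := ⟨353, ⟨2, 7, 12, 7⟩⟩) (by decide +kernel)

def tC56_c2p10 : PosD ⟨⟨0, 1, 1⟩, ⟨98, 99, 147⟩, ⟨9630, 9723, 30000⟩, ⟨1467, 1488, 1000⟩⟩ (tC56.hC2p false (tC56.pEnd true)) :=
  posD_of_check (c := ⟨409, ⟨3, 8, 14, 8⟩⟩) (by decide +kernel)

def tC56_c2m10 : PosD ⟨⟨0, 1, 1⟩, ⟨98, 99, 147⟩, ⟨9630, 9723, 30000⟩, ⟨1467, 1488, 1000⟩⟩ (tC56.hC2m false (tC56.pEnd true)) :=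
  posD_of_check (c := ⟨396, ⟨2, 7, 14, 8⟩⟩) (by decide +kernel)

def tC56_c3p10 : PosD ⟨⟨0, 1, 1⟩, ⟨98, 99, 147⟩, ⟨9630, 9723, 30000⟩, ⟨1467, 1488, 1000⟩⟩ (tC56.hC3p true false) :=
  posD_of_check (c := ⟨399, ⟨3, 8, 14, 8⟩⟩) (by decide +kernel)

def tC56_c3m10 : PosD ⟨⟨0, 1, 1⟩, ⟨98, 99, 147⟩, ⟨9630, 9723, 30000⟩, ⟨1467, 1488, 1000⟩⟩ (tC56.hC3m true false) :=
  posD_of_check (c := ⟨390, ⟨3, 7, 14, 8⟩⟩) (by decide +kernel)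

def tC56_c3ph10 : PosD ⟨⟨0, 1, 1⟩, ⟨98, 99, 147⟩, ⟨9630, 9723, 30000⟩, ⟨1467, 1488, 1000⟩⟩ (tC56.hC3p' true false) :=
  posD_of_check (c := ⟨399, ⟨3, 8, 14, 8⟩⟩) (by decide +kernel)

def tC56_c3mh10 : PosD ⟨⟨0, 1, 1⟩, ⟨98, 99, 147⟩, ⟨9630, 9723, 30000⟩, ⟨1467, 1488, 1000⟩⟩ (tC56.hC3m' true false) :=
  posD_of_check (c := ⟨390, ⟨3, 7, 14, 8⟩⟩) (by decide +kernel)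

def tC56_up10 : PosD ⟨⟨0, 1, 1⟩, ⟨98, 99, 147⟩, ⟨9630, 9723, 30000⟩, ⟨1467, 1488, 1000⟩⟩ (tC56.hUp true false) :=
  posD_of_check (c := ⟨398, ⟨3, 8, 14, 8⟩⟩) (by decide +kernel)

def tC56_um10 : PosD ⟨⟨0, 1, 1⟩, ⟨98, 99, 147⟩, ⟨9630, 9723, 30000⟩, ⟨1467, 1488, 1000⟩⟩ (tC56.hUm true false) :=
  posD_of_check (c := ⟨388, ⟨2, 7, 14, 8⟩⟩) (by decide +kernel)

def tC56_tmg10 : PosD ⟨⟨0, 1, 1⟩, ⟨98, 99, 147⟩, ⟨9630, 9723, 30000⟩, ⟨1467, 1488, 1000⟩⟩ (tC56.hTMG false (tC56.pEnd true)) :=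
  posD_of_check (c := ⟨371, ⟨2, 7, 13, 8⟩⟩) (by decide +kernel)

def tC56_tg11 : PosD ⟨⟨0, 1, 1⟩, ⟨98, 99, 147⟩, ⟨9630, 9723, 30000⟩, ⟨1467, 1488, 1000⟩⟩ (tC56.hG true (tC56.pEnd true)) :=
  posD_of_check (c := ⟨353, ⟨2, 7, 12, 7⟩⟩) (by decide +kernel)

def tC56_c2p11 : PosD ⟨⟨0, 1, 1⟩, ⟨98, 99, 147⟩, ⟨9630, 9723, 30000⟩, ⟨1467, 1488, 1000⟩⟩ (tC56.hC2p true (tC56.pEnd true)) :=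
  posD_of_check (c := ⟨409, ⟨3, 8, 14, 8⟩⟩) (by decide +kernel)

def tC56_c2m11 : PosD ⟨⟨0, 1, 1⟩, ⟨98, 99, 147⟩, ⟨9630, 9723, 30000⟩, ⟨1467, 1488, 1000⟩⟩ (tC56.hC2m true (tC56.pEnd true)) :=
  posD_of_check (c := ⟨396, ⟨2, 7, 14, 8⟩⟩) (by decide +kernel)

def tC56_c3p11 : PosD ⟨⟨0, 1, 1⟩, ⟨98, 99, 147⟩, ⟨9630, 9723, 30000⟩, ⟨1467, 1488, 1000⟩⟩ (tC56.hC3p true true) :=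
  posD_of_check (c := ⟨399, ⟨3, 8, 14, 8⟩⟩) (by decide +kernel)

def tC56_c3m11 : PosD ⟨⟨0, 1, 1⟩, ⟨98, 99, 147⟩, ⟨9630, 9723, 30000⟩, ⟨1467, 1488, 1000⟩⟩ (tC56.hC3m true true) :=
  posD_of_check (c := ⟨390, ⟨3, 7, 14, 8⟩⟩) (by decide +kernel)

def tC56_c3ph11 : PosD ⟨⟨0, 1, 1⟩, ⟨98, 99, 147⟩, ⟨9630, 9723, 30000⟩, ⟨1467, 1488, 1000⟩⟩ (tC56.hC3p' true true) :=
  posD_of_check (c := ⟨399, ⟨3, 8, 14, 8⟩⟩) (by decide +kernel)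

def tC56_c3mh11 : PosD ⟨⟨0, 1, 1⟩, ⟨98, 99, 147⟩, ⟨9630, 9723, 30000⟩, ⟨1467, 1488, 1000⟩⟩ (tC56.hC3m' true true) :=
  posD_of_check (c := ⟨390, ⟨3, 7, 14, 8⟩⟩) (by decide +kernel)

def tC56_up11 : PosD ⟨⟨0, 1, 1⟩, ⟨98, 99, 147⟩, ⟨9630, 9723, 30000⟩, ⟨1467, 1488, 1000⟩⟩ (tC56.hUp true true) :=
  posD_of_check (c := ⟨398, ⟨3, 8, 14, 8⟩⟩) (by decide +kernel)

def tC56_um11 : PosD ⟨⟨0, 1, 1⟩, ⟨98, 99, 147⟩, ⟨9630, 9723, 30000⟩, ⟨1467, 1488, 1000⟩⟩ (tC56.hUm true true) :=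
  posD_of_check (c := ⟨388, ⟨2, 7, 14, 8⟩⟩) (by decide +kernel)

def tC56_tmg11 : PosD ⟨⟨0, 1, 1⟩, ⟨98, 99, 147⟩, ⟨9630, 9723, 30000⟩, ⟨1467, 1488, 1000⟩⟩ (tC56.hTMG true (tC56.pEnd true)) :=
  posD_of_check (c := ⟨371, ⟨2, 7, 13, 8⟩⟩) (by decide +kernel)

/-- The signs of the piece. -/
def tC56_sign : tC56.Sign ⟨⟨0, 1, 1⟩, ⟨98, 99, 147⟩, ⟨9630, 9723, 30000⟩, ⟨1467, 1488, 1000⟩⟩ :=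
  ⟨tC56_pp,
    tC56_k2p,
    tC56_k2m,
    Bool.forall_bool.2 ⟨(Bool.forall_bool.2 ⟨tC56_tg00, tC56_tg01⟩), (Bool.forall_bool.2 ⟨tC56_tg10, tC56_tg11⟩)⟩,
    Bool.forall_bool.2 ⟨(Bool.forall_bool.2 ⟨tC56_c2p00, tC56_c2p01⟩), (Bool.forall_bool.2 ⟨tC56_c2p10, tC56_c2p11⟩)⟩,
    Bool.forall_bool.2 ⟨(Bool.forall_bool.2 ⟨tC56_c2m00, tC56_c2m01⟩), (Bool.forall_bool.2 ⟨tC56_c2m10, tC56_c2m11⟩)⟩,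
    Bool.forall_bool.2 ⟨tC56_kap0, tC56_kap1⟩,
    Bool.forall_bool.2 ⟨tC56_c10, tC56_c11⟩,
    Bool.forall_bool.2 ⟨(Bool.forall_bool.2 ⟨tC56_c3p00, tC56_c3p01⟩), (Bool.forall_bool.2 ⟨tC56_c3p10, tC56_c3p11⟩)⟩,
    Bool.forall_bool.2 ⟨(Bool.forall_bool.2 ⟨tC56_c3m00, tC56_c3m01⟩), (Bool.forall_bool.2 ⟨tC56_c3m10, tC56_c3m11⟩)⟩,
    Bool.forall_bool.2 ⟨(Bool.forall_bool.2 ⟨tC56_tmg00, tC56_tmg01⟩), (Bool.forall_bool.2 ⟨tC56_tmg10, tC56_tmg11⟩)⟩,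
    .inr (Bool.forall_bool.2 ⟨⟨tC56_c1h0, Bool.forall_bool.2 ⟨⟨tC56_c3ph00, tC56_c3mh00, tC56_up00, tC56_um00⟩, ⟨tC56_c3ph01, tC56_c3mh01, tC56_up01, tC56_um01⟩⟩⟩, ⟨tC56_c1h1, Bool.forall_bool.2 ⟨⟨tC56_c3ph10, tC56_c3mh10, tC56_up10, tC56_um10⟩, ⟨tC56_c3ph11, tC56_c3mh11, tC56_up11, tC56_um11⟩⟩⟩⟩),
    tC56_v2p,
    tC56_v2m,
    tC56_v3p,
    tC56_v3m,
    posD_sub (b := ⟨⟨0, 1, 1⟩, ⟨98, 99, 147⟩, ⟨4050, 10000, 30000⟩, ⟨290, 4000, 1000⟩⟩) (by decide +kernel) tC_vG,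
    posD_sub (b := ⟨⟨0, 1, 1⟩, ⟨98, 99, 147⟩, ⟨4050, 10000, 30000⟩, ⟨290, 4000, 1000⟩⟩) (by decide +kernel) tC_vMG,
    posD_sub (b := ⟨⟨0, 1, 1⟩, ⟨98, 99, 147⟩, ⟨4050, 10000, 30000⟩, ⟨290, 4000, 1000⟩⟩) (by decide +kernel) tC_ak,
    posD_sub (b := ⟨⟨0, 1, 1⟩, ⟨98, 99, 147⟩, ⟨4050, 10000, 30000⟩, ⟨290, 4000, 1000⟩⟩) (by decide +kernel) tC_aw,
    posD_sub (b := ⟨⟨0, 1, 1⟩, ⟨98, 99, 147⟩, ⟨4050, 10000, 30000⟩, ⟨290, 4000, 1000⟩⟩) (by decide +kernel) tC_gk,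
    posD_sub (b := ⟨⟨0, 1, 1⟩, ⟨98, 99, 147⟩, ⟨4050, 10000, 30000⟩, ⟨290, 4000, 1000⟩⟩) (by decide +kernel) tC_gw,
    posD_sub (b := ⟨⟨0, 1, 1⟩, ⟨98, 99, 147⟩, ⟨4050, 10000, 30000⟩, ⟨290, 4000, 1000⟩⟩) (by decide +kernel) tC_ek,
    posD_sub (b := ⟨⟨0, 1, 1⟩, ⟨98, 99, 147⟩, ⟨4050, 10000, 30000⟩, ⟨290, 4000, 1000⟩⟩) (by decide +kernel) tC_ew⟩

end Vale.Agent.P100.Calib.Closed.Six.Tail
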