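import Vale.Agent.P100.Calib.SlabSixTailDataC
import Vale.Agent.P100.Calib.SlabSixTailGlobC

/-!
# Checks of some pieces of the certificate

The checks are written as definitions so that they run one after another, which keeps the memory of the
kernel low.
-/

set_option linter.defProp false

namespace Vale.Agent.P100.Calib.Closed.Six.Tail

open BoxPos Large

local instance sixTailCheckstC41Add : Add Ex := ⟨Ex.add⟩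
local instance sixTailCheckstC41Sub : Sub Ex := ⟨Ex.sub⟩
local instance sixTailCheckstC41Mul : Mul Ex := ⟨Ex.mul⟩

def tC57_phx : PosIf ⟨⟨0, 1, 1⟩, ⟨98, 99, 147⟩, ⟨9723, 9816, 30000⟩, ⟨1467, 1488, 1000⟩⟩ (tC57.u₁ - tC57Lo) (phCn (tC57.u₁ + xO * (tC57Lo - tC57.u₁))) :=
  posIf_of_posD (posD_of_check (c := ⟨109, ⟨2, 0, 4, 2⟩⟩) (by decide +kernel))

def tC57_phd : PosD ⟨⟨0, 1, 1⟩, ⟨98, 99, 147⟩, ⟨9723, 9816, 30000⟩, ⟨1467, 1488, 1000⟩⟩ (phCd (tC57.u₁ + xO * (tC57Lo - tC57.u₁))) :=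
  posD_of_check (c := ⟨51, ⟨1, 0, 2, 1⟩⟩) (by decide +kernel)

def tC57_p0 : PosD ⟨⟨0, 1, 1⟩, ⟨98, 99, 147⟩, ⟨9723, 9816, 30000⟩, ⟨1467, 1488, 1000⟩⟩ (tC57.hP0) :=
  posD_of_check (c := ⟨67, ⟨0, 2, 2, 1⟩⟩) (by decide +kernel)

def tC57_gn : PosD ⟨⟨0, 1, 1⟩, ⟨98, 99, 147⟩, ⟨9723, 9816, 30000⟩, ⟨1467, 1488, 1000⟩⟩ (tC57.hGn) :=
  posD_of_check (c := ⟨69, ⟨1, 1, 2, 2⟩⟩) (by decide +kernel)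

def tC57_den0 : PosD ⟨⟨0, 1, 1⟩, ⟨98, 99, 147⟩, ⟨9723, 9816, 30000⟩, ⟨1467, 1488, 1000⟩⟩ (tC57.hDen false) :=
  posD_of_check (c := ⟨51, ⟨1, 0, 2, 1⟩⟩) (by decide +kernel)

def tC57_den1 : PosD ⟨⟨0, 1, 1⟩, ⟨98, 99, 147⟩, ⟨9723, 9816, 30000⟩, ⟨1467, 1488, 1000⟩⟩ (tC57.hDen true) :=
  posD_of_check (c := ⟨51, ⟨1, 0, 2, 1⟩⟩) (by decide +kernel)

def tC57_ev0 : PosD ⟨⟨0, 1, 1⟩, ⟨98, 99, 147⟩, ⟨9723, 9816, 30000⟩, ⟨1467, 1488, 1000⟩⟩ (tC57.hEv false) :=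
  posD_of_check (c := ⟨220, ⟨4, 2, 8, 4⟩⟩) (by decide +kernel)

def tC57_zL0 : PosD ⟨⟨0, 1, 1⟩, ⟨98, 99, 147⟩, ⟨9723, 9816, 30000⟩, ⟨1467, 1488, 1000⟩⟩ (tC57.hZL false) :=
  posD_of_check (c := ⟨222, ⟨4, 3, 8, 4⟩⟩) (by decide +kernel)

def tC57_zU0 : PosD ⟨⟨0, 1, 1⟩, ⟨98, 99, 147⟩, ⟨9723, 9816, 30000⟩, ⟨1467, 1488, 1000⟩⟩ (tC57.hZU false) :=
  posD_of_check (c := ⟨222, ⟨4, 3, 8, 4⟩⟩) (by decide +kernel)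

def tC57_eL0 : PosD ⟨⟨0, 1, 1⟩, ⟨98, 99, 147⟩, ⟨9723, 9816, 30000⟩, ⟨1467, 1488, 1000⟩⟩ (tC57.hEL false) :=
  posD_of_check (c := ⟨341, ⟨5, 6, 11, 6⟩⟩) (by decide +kernel)

def tC57_eH0 : PosD ⟨⟨0, 1, 1⟩, ⟨98, 99, 147⟩, ⟨9723, 9816, 30000⟩, ⟨1467, 1488, 1000⟩⟩ (tC57.hEH false) :=
  posD_of_check (c := ⟨322, ⟨5, 6, 10, 6⟩⟩) (by decide +kernel)

def tC57_pL0 : PosD ⟨⟨0, 1, 1⟩, ⟨98, 99, 147⟩, ⟨9723, 9816, 30000⟩, ⟨1467, 1488, 1000⟩⟩ (tC57.hPL false) :=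
  posD_of_relax (k₁ := 0) (k₂ := 0) (k₃ := 6) (n := 16) (posD_of_check (c := ⟨346, ⟨5, 6, 11, 7⟩⟩) (by decide +kernel))

def tC57_pU0 : PosD ⟨⟨0, 1, 1⟩, ⟨98, 99, 147⟩, ⟨9723, 9816, 30000⟩, ⟨1467, 1488, 1000⟩⟩ (tC57.hPU false) :=
  posD_of_check (c := ⟨350, ⟨5, 6, 11, 7⟩⟩) (by decide +kernel)

def tC57_kU0 : PosD ⟨⟨0, 1, 1⟩, ⟨98, 99, 147⟩, ⟨9723, 9816, 30000⟩, ⟨1467, 1488, 1000⟩⟩ (tC57.hKU false) :=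
  posD_of_check (c := ⟨345, ⟨5, 6, 11, 7⟩⟩) (by decide +kernel)

def tC57_kL0 : PosD ⟨⟨0, 1, 1⟩, ⟨98, 99, 147⟩, ⟨9723, 9816, 30000⟩, ⟨1467, 1488, 1000⟩⟩ (tC57.hKL false) :=
  posD_of_check (c := ⟨345, ⟨5, 6, 11, 6⟩⟩) (by decide +kernel)

def tC57_wU0 : PosD ⟨⟨0, 1, 1⟩, ⟨98, 99, 147⟩, ⟨9723, 9816, 30000⟩, ⟨1467, 1488, 1000⟩⟩ (tC57.hWU false) :=
  posD_of_check (c := ⟨380, ⟨5, 8, 12, 7⟩⟩) (by decide +kernel)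

def tC57_wL0 : PosD ⟨⟨0, 1, 1⟩, ⟨98, 99, 147⟩, ⟨9723, 9816, 30000⟩, ⟨1467, 1488, 1000⟩⟩ (tC57.hWL false) :=
  posD_of_check (c := ⟨374, ⟨5, 8, 12, 7⟩⟩) (by decide +kernel)

def tC57_ev1 : PosD ⟨⟨0, 1, 1⟩, ⟨98, 99, 147⟩, ⟨9723, 9816, 30000⟩, ⟨1467, 1488, 1000⟩⟩ (tC57.hEv true) :=
  posD_of_check (c := ⟨218, ⟨4, 2, 8, 4⟩⟩) (by decide +kernel)

def tC57_zL1 : PosD ⟨⟨0, 1, 1⟩, ⟨98, 99, 147⟩, ⟨9723, 9816, 30000⟩, ⟨1467, 1488, 1000⟩⟩ (tC57.hZL true) :=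
  posD_of_check (c := ⟨221, ⟨4, 3, 8, 4⟩⟩) (by decide +kernel)

def tC57_zU1 : PosD ⟨⟨0, 1, 1⟩, ⟨98, 99, 147⟩, ⟨9723, 9816, 30000⟩, ⟨1467, 1488, 1000⟩⟩ (tC57.hZU true) :=
  posD_of_check (c := ⟨221, ⟨4, 3, 8, 4⟩⟩) (by decide +kernel)

def tC57_eL1 : PosD ⟨⟨0, 1, 1⟩, ⟨98, 99, 147⟩, ⟨9723, 9816, 30000⟩, ⟨1467, 1488, 1000⟩⟩ (tC57.hEL true) :=
  posD_of_check (c := ⟨339, ⟨5, 6, 11, 6⟩⟩) (by decide +kernel)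

def tC57_eH1 : PosD ⟨⟨0, 1, 1⟩, ⟨98, 99, 147⟩, ⟨9723, 9816, 30000⟩, ⟨1467, 1488, 1000⟩⟩ (tC57.hEH true) :=
  posD_of_check (c := ⟨321, ⟨5, 6, 10, 6⟩⟩) (by decide +kernel)

def tC57_pL1 : PosD ⟨⟨0, 1, 1⟩, ⟨98, 99, 147⟩, ⟨9723, 9816, 30000⟩, ⟨1467, 1488, 1000⟩⟩ (tC57.hPL true) :=
  posD_of_check (c := ⟨344, ⟨5, 6, 11, 7⟩⟩) (by decide +kernel)

def tC57_pU1 : PosD ⟨⟨0, 1, 1⟩, ⟨98, 99, 147⟩, ⟨9723, 9816, 30000⟩, ⟨1467, 1488, 1000⟩⟩ (tC57.hPU true) :=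
  posD_of_check (c := ⟨348, ⟨5, 6, 11, 7⟩⟩) (by decide +kernel)

def tC57_kU1 : PosD ⟨⟨0, 1, 1⟩, ⟨98, 99, 147⟩, ⟨9723, 9816, 30000⟩, ⟨1467, 1488, 1000⟩⟩ (tC57.hKU true) :=
  posD_of_check (c := ⟨344, ⟨5, 6, 11, 7⟩⟩) (by decide +kernel)

def tC57_kL1 : PosD ⟨⟨0, 1, 1⟩, ⟨98, 99, 147⟩, ⟨9723, 9816, 30000⟩, ⟨1467, 1488, 1000⟩⟩ (tC57.hKL true) :=
  posD_of_check (c := ⟨344, ⟨5, 6, 11, 6⟩⟩) (by decide +kernel)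

def tC57_wU1 : PosD ⟨⟨0, 1, 1⟩, ⟨98, 99, 147⟩, ⟨9723, 9816, 30000⟩, ⟨1467, 1488, 1000⟩⟩ (tC57.hWU true) :=
  posD_of_check (c := ⟨379, ⟨5, 8, 12, 7⟩⟩) (by decide +kernel)

def tC57_wL1 : PosD ⟨⟨0, 1, 1⟩, ⟨98, 99, 147⟩, ⟨9723, 9816, 30000⟩, ⟨1467, 1488, 1000⟩⟩ (tC57.hWL true) :=
  posD_of_check (c := ⟨373, ⟨5, 8, 12, 7⟩⟩) (by decide +kernel)

def tC57_nueL : PosD ⟨⟨0, 1, 1⟩, ⟨98, 99, 147⟩, ⟨9723, 9816, 30000⟩, ⟨1467, 1488, 1000⟩⟩ (tC57.eL.ν) :=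
  posD_of_check (c := ⟨41, ⟨0, 0, 1, 0⟩⟩) (by decide +kernel)

def tC57_nueH : PosD ⟨⟨0, 1, 1⟩, ⟨98, 99, 147⟩, ⟨9723, 9816, 30000⟩, ⟨1467, 1488, 1000⟩⟩ (tC57.eH.ν) :=
  posD_of_check (c := ⟨20, ⟨0, 0, 0, 0⟩⟩) (by decide +kernel)

def tC57_nupL : PosD ⟨⟨0, 1, 1⟩, ⟨98, 99, 147⟩, ⟨9723, 9816, 30000⟩, ⟨1467, 1488, 1000⟩⟩ (tC57.pL.ν) :=
  posD_of_check (c := ⟨41, ⟨0, 0, 1, 1⟩⟩) (by decide +kernel)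

def tC57_nupU : PosD ⟨⟨0, 1, 1⟩, ⟨98, 99, 147⟩, ⟨9723, 9816, 30000⟩, ⟨1467, 1488, 1000⟩⟩ (tC57.pU.ν) :=
  posD_of_check (c := ⟨44, ⟨0, 0, 1, 0⟩⟩) (by decide +kernel)

def tC57_nukU : PosD ⟨⟨0, 1, 1⟩, ⟨98, 99, 147⟩, ⟨9723, 9816, 30000⟩, ⟨1467, 1488, 1000⟩⟩ (tC57.kU.ν) :=
  posD_of_check (c := ⟨44, ⟨0, 0, 1, 1⟩⟩) (by decide +kernel)

def tC57_nukL : PosD ⟨⟨0, 1, 1⟩, ⟨98, 99, 147⟩, ⟨9723, 9816, 30000⟩, ⟨1467, 1488, 1000⟩⟩ (tC57.kL.ν) :=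
  posD_of_check (c := ⟨44, ⟨0, 0, 1, 0⟩⟩) (by decide +kernel)

def tC57_nuwU : PosD ⟨⟨0, 1, 1⟩, ⟨98, 99, 147⟩, ⟨9723, 9816, 30000⟩, ⟨1467, 1488, 1000⟩⟩ (tC57.wU.ν) :=
  posD_of_check (c := ⟨44, ⟨0, 0, 1, 0⟩⟩) (by decide +kernel)

def tC57_nuwL : PosD ⟨⟨0, 1, 1⟩, ⟨98, 99, 147⟩, ⟨9723, 9816, 30000⟩, ⟨1467, 1488, 1000⟩⟩ (tC57.wL.ν) :=
  posD_of_check (c := ⟨45, ⟨0, 0, 1, 1⟩⟩) (by decide +kernel)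

/-- The bounds of the piece. -/
def tC57_env : tC57.Env ⟨⟨0, 1, 1⟩, ⟨98, 99, 147⟩, ⟨9723, 9816, 30000⟩, ⟨1467, 1488, 1000⟩⟩ :=
  ⟨tC57_p0, Bool.forall_bool.2 ⟨tC57_den0, tC57_den1⟩, tC57_gn, Bool.forall_bool.2 ⟨tC57_ev0, tC57_ev1⟩, Bool.forall_bool.2 ⟨tC57_zL0, tC57_zL1⟩, Bool.forall_bool.2 ⟨tC57_zU0, tC57_zU1⟩, Bool.forall_bool.2 ⟨tC57_eL0, tC57_eL1⟩, ⟨.inr rfl, .inl tC57_nueL⟩, Bool.forall_bool.2 ⟨tC57_eH0, tC57_eH1⟩, ⟨.inr rfl, .inl tC57_nueH⟩, Bool.forall_bool.2 ⟨tC57_pL0, tC57_pL1⟩, ⟨.inr rfl, .inl tC57_nupL⟩, Bool.forall_bool.2 ⟨tC57_pU0, tC57_pU1⟩, ⟨.inr rfl, .inl tC57_nupU⟩, Bool.forall_bool.2 ⟨tC57_kU0, tC57_kU1⟩, ⟨.inr rfl, .inl tC57_nukU⟩, Bool.forall_bool.2 ⟨tC57_kL0, tC57_kL1⟩, ⟨.inr rfl, .inl tC57_nukL⟩,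 Bool.forall_bool.2 ⟨tC57_wU0, tC57_wU1⟩, ⟨.inr rfl, .inl tC57_nuwU⟩, Bool.forall_bool.2 ⟨tC57_wL0, tC57_wL1⟩, ⟨.inr rfl, .inl tC57_nuwL⟩⟩

def tC57_pU20 : PosD ⟨⟨0, 1, 1⟩, ⟨98, 99, 147⟩, ⟨9723, 9816, 30000⟩, ⟨1467, 1488, 1000⟩⟩ (({ tC57 with pU := tC57PU } : Piece).hPU false) :=
  posD_of_check (c := ⟨350, ⟨5, 6, 11, 7⟩⟩) (by decide +kernel)

def tC57_pU21 : PosD ⟨⟨0, 1, 1⟩, ⟨98, 99, 147⟩, ⟨9723, 9816, 30000⟩, ⟨1467, 1488, 1000⟩⟩ (({ tC57 with pU := tC57PU } : Piece).hPU true) :=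
  posD_of_check (c := ⟨348, ⟨5, 6, 11, 7⟩⟩) (by decide +kernel)

def tC57_nupU2 : PosD ⟨⟨0, 1, 1⟩, ⟨98, 99, 147⟩, ⟨9723, 9816, 30000⟩, ⟨1467, 1488, 1000⟩⟩ (tC57PU.ν) :=
  posD_of_check (c := ⟨44, ⟨0, 0, 1, 0⟩⟩) (by decide +kernel)

/-- The bounds with the other bound of `p`. -/
def tC57_envU : ({ tC57 with pU := tC57PU } : Piece).Env ⟨⟨0, 1, 1⟩, ⟨98, 99, 147⟩, ⟨9723, 9816, 30000⟩, ⟨1467, 1488, 1000⟩⟩ :=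
  tC57_env.withU tC57PU (Bool.forall_bool.2 ⟨tC57_pU20, tC57_pU21⟩) ⟨.inr rfl, .inl tC57_nupU2⟩

def tC57A_pp : PosD ⟨⟨0, 1, 1⟩, ⟨98, 99, 147⟩, ⟨9723, 9816, 30000⟩, ⟨1467, 1488, 1000⟩⟩ (tC57A.xPL) :=
  posD_of_check (c := ⟨84, ⟨1, 1, 2, 2⟩⟩) (by decide +kernel)

def tC57A_k2p : PosD ⟨⟨0, 1, 1⟩, ⟨98, 99, 147⟩, ⟨9723, 9816, 30000⟩, ⟨1467, 1488, 1000⟩⟩ (tC57A.k2p tC57A.xE) :=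
  posD_of_check (c := ⟨59, ⟨1, 1, 1, 1⟩⟩) (by decide +kernel)

def tC57A_k2m : PosD ⟨⟨0, 1, 1⟩, ⟨98, 99, 147⟩, ⟨9723, 9816, 30000⟩, ⟨1467, 1488, 1000⟩⟩ (tC57A.k2m tC57A.xE) :=
  posD_of_check (c := ⟨55, ⟨1, 1, 1, 1⟩⟩) (by decide +kernel)

def tC57A_v2p : PosD ⟨⟨0, 1, 1⟩, ⟨98, 99, 147⟩, ⟨9723, 9816, 30000⟩, ⟨1467, 1488, 1000⟩⟩ (tC57A.hV2p) :=
  posD_of_check (c := ⟨263, ⟨1, 6, 10, 4⟩⟩) (by decide +kernel)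

def tC57A_v2m : PosD ⟨⟨0, 1, 1⟩, ⟨98, 99, 147⟩, ⟨9723, 9816, 30000⟩, ⟨1467, 1488, 1000⟩⟩ (tC57A.hV2m) :=
  posD_of_check (c := ⟨259, ⟨1, 6, 10, 4⟩⟩) (by decide +kernel)

def tC57A_v3p : PosD ⟨⟨0, 1, 1⟩, ⟨98, 99, 147⟩, ⟨9723, 9816, 30000⟩, ⟨1467, 1488, 1000⟩⟩ (tC57A.hV3p) :=
  posD_of_check (c := ⟨247, ⟨1, 6, 9, 4⟩⟩) (by decide +kernel)

def tC57A_v3m : PosD ⟨⟨0, 1, 1⟩, ⟨98, 99, 147⟩, ⟨9723, 9816, 30000⟩, ⟨1467, 1488, 1000⟩⟩ (tC57A.hV3m) :=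
  posD_of_check (c := ⟨244, ⟨1, 6, 9, 4⟩⟩) (by decide +kernel)

def tC57A_kap0 : PosD ⟨⟨0, 1, 1⟩, ⟨98, 99, 147⟩, ⟨9723, 9816, 30000⟩, ⟨1467, 1488, 1000⟩⟩ (tC57A.kap false) :=
  posD_of_check (c := ⟨4, ⟨0, 0, 0, 0⟩⟩) (by decide +kernel)

def tC57A_c10 : PosD ⟨⟨0, 1, 1⟩, ⟨98, 99, 147⟩, ⟨9723, 9816, 30000⟩, ⟨1467, 1488, 1000⟩⟩ (tC57A.hC1 false) :=
  posD_of_check (c := ⟨262, ⟨2, 5, 8, 5⟩⟩) (by decide +kernel)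

def tC57A_c1h0 : PosD ⟨⟨0, 1, 1⟩, ⟨98, 99, 147⟩, ⟨9723, 9816, 30000⟩, ⟨1467, 1488, 1000⟩⟩ (tC57A.hC1' false) :=
  posD_of_check (c := ⟨263, ⟨2, 5, 8, 5⟩⟩) (by decide +kernel)

def tC57A_tg00 : PosD ⟨⟨0, 1, 1⟩, ⟨98, 99, 147⟩, ⟨9723, 9816, 30000⟩, ⟨1467, 1488, 1000⟩⟩ (tC57A.hG false (tC57A.pEnd false)) :=
  posD_of_check (c := ⟨365, ⟨2, 7, 12, 7⟩⟩) (by decide +kernel)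

def tC57A_c2p00 : PosD ⟨⟨0, 1, 1⟩, ⟨98, 99, 147⟩, ⟨9723, 9816, 30000⟩, ⟨1467, 1488, 1000⟩⟩ (tC57A.hC2p false (tC57A.pEnd false)) :=
  posD_of_check (c := ⟨426, ⟨3, 8, 14, 8⟩⟩) (by decide +kernel)

def tC57A_c2m00 : PosD ⟨⟨0, 1, 1⟩, ⟨98, 99, 147⟩, ⟨9723, 9816, 30000⟩, ⟨1467, 1488, 1000⟩⟩ (tC57A.hC2m false (tC57A.pEnd false)) :=
  posD_of_relax (k₁ := 0) (k₂ := 0) (k₃ := 1) (n := 16) (posD_of_check (c := ⟨422, ⟨3, 8, 14, 8⟩⟩) (by decide +kernel))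

def tC57A_c3p00 : PosD ⟨⟨0, 1, 1⟩, ⟨98, 99, 147⟩, ⟨9723, 9816, 30000⟩, ⟨1467, 1488, 1000⟩⟩ (tC57A.hC3p false false) :=
  posD_of_check (c := ⟨413, ⟨3, 8, 14, 8⟩⟩) (by decide +kernel)

def tC57A_c3m00 : PosD ⟨⟨0, 1, 1⟩, ⟨98, 99, 147⟩, ⟨9723, 9816, 30000⟩, ⟨1467, 1488, 1000⟩⟩ (tC57A.hC3m false false) :=
  posD_of_check (c := ⟨410, ⟨3, 8, 14, 8⟩⟩) (by decide +kernel)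

def tC57A_c3ph00 : PosD ⟨⟨0, 1, 1⟩, ⟨98, 99, 147⟩, ⟨9723, 9816, 30000⟩, ⟨1467, 1488, 1000⟩⟩ (tC57A.hC3p' false false) :=
  posD_of_check (c := ⟨413, ⟨3, 8, 14, 8⟩⟩) (by decide +kernel)

def tC57A_c3mh00 : PosD ⟨⟨0, 1, 1⟩, ⟨98, 99, 147⟩, ⟨9723, 9816, 30000⟩, ⟨1467, 1488, 1000⟩⟩ (tC57A.hC3m' false false) :=
  posD_of_check (c := ⟨410, ⟨3, 8, 14, 8⟩⟩) (by decide +kernel)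

def tC57A_up00 : PosD ⟨⟨0, 1, 1⟩, ⟨98, 99, 147⟩, ⟨9723, 9816, 30000⟩, ⟨1467, 1488, 1000⟩⟩ (tC57A.hUp false false) :=
  posD_of_check (c := ⟨413, ⟨3, 8, 14, 8⟩⟩) (by decide +kernel)

def tC57A_um00 : PosD ⟨⟨0, 1, 1⟩, ⟨98, 99, 147⟩, ⟨9723, 9816, 30000⟩, ⟨1467, 1488, 1000⟩⟩ (tC57A.hUm false false) :=
  posD_of_check (c := ⟨410, ⟨3, 8, 14, 8⟩⟩) (by decide +kernel)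

def tC57A_tmg00 : PosD ⟨⟨0, 1, 1⟩, ⟨98, 99, 147⟩, ⟨9723, 9816, 30000⟩, ⟨1467, 1488, 1000⟩⟩ (tC57A.hTMG false (tC57A.pEnd false)) :=
  posD_of_check (c := ⟨380, ⟨2, 7, 13, 8⟩⟩) (by decide +kernel)

def tC57A_tg01 : PosD ⟨⟨0, 1, 1⟩, ⟨98, 99, 147⟩, ⟨9723, 9816, 30000⟩, ⟨1467, 1488, 1000⟩⟩ (tC57A.hG true (tC57A.pEnd false)) :=
  posD_of_check (c := ⟨365, ⟨2, 7, 12, 7⟩⟩) (by decide +kernel)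

def tC57A_c2p01 : PosD ⟨⟨0, 1, 1⟩, ⟨98, 99, 147⟩, ⟨9723, 9816, 30000⟩, ⟨1467, 1488, 1000⟩⟩ (tC57A.hC2p true (tC57A.pEnd false)) :=
  posD_of_check (c := ⟨426, ⟨3, 8, 14, 8⟩⟩) (by decide +kernel)

def tC57A_c2m01 : PosD ⟨⟨0, 1, 1⟩, ⟨98, 99, 147⟩, ⟨9723, 9816, 30000⟩, ⟨1467, 1488, 1000⟩⟩ (tC57A.hC2m true (tC57A.pEnd false)) :=
  posD_of_check (c := ⟨422, ⟨3, 8, 14, 8⟩⟩) (by decide +kernel)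

def tC57A_c3p01 : PosD ⟨⟨0, 1, 1⟩, ⟨98, 99, 147⟩, ⟨9723, 9816, 30000⟩, ⟨1467, 1488, 1000⟩⟩ (tC57A.hC3p false true) :=
  posD_of_check (c := ⟨413, ⟨3, 8, 14, 8⟩⟩) (by decide +kernel)

def tC57A_c3m01 : PosD ⟨⟨0, 1, 1⟩, ⟨98, 99, 147⟩, ⟨9723, 9816, 30000⟩, ⟨1467, 1488, 1000⟩⟩ (tC57A.hC3m false true) :=
  posD_of_check (c := ⟨410, ⟨3, 8, 14, 8⟩⟩) (by decide +kernel)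

def tC57A_c3ph01 : PosD ⟨⟨0, 1, 1⟩, ⟨98, 99, 147⟩, ⟨9723, 9816, 30000⟩, ⟨1467, 1488, 1000⟩⟩ (tC57A.hC3p' false true) :=
  posD_of_check (c := ⟨413, ⟨3, 8, 14, 8⟩⟩) (by decide +kernel)

def tC57A_c3mh01 : PosD ⟨⟨0, 1, 1⟩, ⟨98, 99, 147⟩, ⟨9723, 9816, 30000⟩, ⟨1467, 1488, 1000⟩⟩ (tC57A.hC3m' false true) :=
  posD_of_check (c := ⟨410, ⟨3, 8, 14, 8⟩⟩) (by decide +kernel)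

def tC57A_up01 : PosD ⟨⟨0, 1, 1⟩, ⟨98, 99, 147⟩, ⟨9723, 9816, 30000⟩, ⟨1467, 1488, 1000⟩⟩ (tC57A.hUp false true) :=
  posD_of_check (c := ⟨413, ⟨3, 8, 14, 8⟩⟩) (by decide +kernel)

def tC57A_um01 : PosD ⟨⟨0, 1, 1⟩, ⟨98, 99, 147⟩, ⟨9723, 9816, 30000⟩, ⟨1467, 1488, 1000⟩⟩ (tC57A.hUm false true) :=
  posD_of_check (c := ⟨410, ⟨3, 8, 14, 8⟩⟩) (by decide +kernel)

def tC57A_tmg01 : PosD ⟨⟨0, 1, 1⟩, ⟨98, 99, 147⟩, ⟨9723, 9816, 30000⟩, ⟨1467, 1488, 1000⟩⟩ (tC57A.hTMG true (tC57A.pEnd false)) :=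
  posD_of_check (c := ⟨380, ⟨2, 7, 13, 8⟩⟩) (by decide +kernel)

def tC57A_kap1 : PosD ⟨⟨0, 1, 1⟩, ⟨98, 99, 147⟩, ⟨9723, 9816, 30000⟩, ⟨1467, 1488, 1000⟩⟩ (tC57A.kap true) :=
  posD_of_check (c := ⟨4, ⟨0, 0, 0, 0⟩⟩) (by decide +kernel)

def tC57A_c11 : PosD ⟨⟨0, 1, 1⟩, ⟨98, 99, 147⟩, ⟨9723, 9816, 30000⟩, ⟨1467, 1488, 1000⟩⟩ (tC57A.hC1 true) :=
  posD_of_check (c := ⟨262, ⟨2, 5, 8, 5⟩⟩) (by decide +kernel)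

def tC57A_c1h1 : PosD ⟨⟨0, 1, 1⟩, ⟨98, 99, 147⟩, ⟨9723, 9816, 30000⟩, ⟨1467, 1488, 1000⟩⟩ (tC57A.hC1' true) :=
  posD_of_check (c := ⟨263, ⟨2, 5, 8, 5⟩⟩) (by decide +kernel)

def tC57A_tg10 : PosD ⟨⟨0, 1, 1⟩, ⟨98, 99, 147⟩, ⟨9723, 9816, 30000⟩, ⟨1467, 1488, 1000⟩⟩ (tC57A.hG false (tC57A.pEnd true)) :=
  posD_of_check (c := ⟨365, ⟨2, 7, 12, 7⟩⟩) (by decide +kernel)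

def tC57A_c2p10 : PosD ⟨⟨0, 1, 1⟩, ⟨98, 99, 147⟩, ⟨9723, 9816, 30000⟩, ⟨1467, 1488, 1000⟩⟩ (tC57A.hC2p false (tC57A.pEnd true)) :=
  posD_of_check (c := ⟨425, ⟨3, 8, 14, 8⟩⟩) (by decide +kernel)

def tC57A_c2m10 : PosD ⟨⟨0, 1, 1⟩, ⟨98, 99, 147⟩, ⟨9723, 9816, 30000⟩, ⟨1467, 1488, 1000⟩⟩ (tC57A.hC2m false (tC57A.pEnd true)) :=
  posD_of_check (c := ⟨422, ⟨3, 8, 14, 8⟩⟩) (by decide +kernel)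

def tC57A_c3p10 : PosD ⟨⟨0, 1, 1⟩, ⟨98, 99, 147⟩, ⟨9723, 9816, 30000⟩, ⟨1467, 1488, 1000⟩⟩ (tC57A.hC3p true false) :=
  posD_of_check (c := ⟨413, ⟨3, 8, 14, 8⟩⟩) (by decide +kernel)

def tC57A_c3m10 : PosD ⟨⟨0, 1, 1⟩, ⟨98, 99, 147⟩, ⟨9723, 9816, 30000⟩, ⟨1467, 1488, 1000⟩⟩ (tC57A.hC3m true false) :=
  posD_of_check (c := ⟨409, ⟨3, 8, 14, 8⟩⟩) (by decide +kernel)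

def tC57A_c3ph10 : PosD ⟨⟨0, 1, 1⟩, ⟨98, 99, 147⟩, ⟨9723, 9816, 30000⟩, ⟨1467, 1488, 1000⟩⟩ (tC57A.hC3p' true false) :=
  posD_of_check (c := ⟨413, ⟨3, 8, 14, 8⟩⟩) (by decide +kernel)

def tC57A_c3mh10 : PosD ⟨⟨0, 1, 1⟩, ⟨98, 99, 147⟩, ⟨9723, 9816, 30000⟩, ⟨1467, 1488, 1000⟩⟩ (tC57A.hC3m' true false) :=
  posD_of_check (c := ⟨409, ⟨3, 8, 14, 8⟩⟩) (by decide +kernel)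

def tC57A_up10 : PosD ⟨⟨0, 1, 1⟩, ⟨98, 99, 147⟩, ⟨9723, 9816, 30000⟩, ⟨1467, 1488, 1000⟩⟩ (tC57A.hUp true false) :=
  posD_of_check (c := ⟨413, ⟨3, 8, 14, 8⟩⟩) (by decide +kernel)

def tC57A_um10 : PosD ⟨⟨0, 1, 1⟩, ⟨98, 99, 147⟩, ⟨9723, 9816, 30000⟩, ⟨1467, 1488, 1000⟩⟩ (tC57A.hUm true false) :=
  posD_of_check (c := ⟨409, ⟨3, 8, 14, 8⟩⟩) (by decide +kernel)

def tC57A_tmg10 : PosD ⟨⟨0, 1, 1⟩, ⟨98, 99, 147⟩, ⟨9723, 9816, 30000⟩, ⟨1467, 1488, 1000⟩⟩ (tC57A.hTMG false (tC57A.pEnd true)) :=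
  posD_of_check (c := ⟨380, ⟨2, 7, 13, 8⟩⟩) (by decide +kernel)

def tC57A_tg11 : PosD ⟨⟨0, 1, 1⟩, ⟨98, 99, 147⟩, ⟨9723, 9816, 30000⟩, ⟨1467, 1488, 1000⟩⟩ (tC57A.hG true (tC57A.pEnd true)) :=
  posD_of_check (c := ⟨365, ⟨2, 7, 12, 7⟩⟩) (by decide +kernel)

def tC57A_c2p11 : PosD ⟨⟨0, 1, 1⟩, ⟨98, 99, 147⟩, ⟨9723, 9816, 30000⟩, ⟨1467, 1488, 1000⟩⟩ (tC57A.hC2p true (tC57A.pEnd true)) :=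
  posD_of_check (c := ⟨425, ⟨3, 8, 14, 8⟩⟩) (by decide +kernel)

def tC57A_c2m11 : PosD ⟨⟨0, 1, 1⟩, ⟨98, 99, 147⟩, ⟨9723, 9816, 30000⟩, ⟨1467, 1488, 1000⟩⟩ (tC57A.hC2m true (tC57A.pEnd true)) :=
  posD_of_check (c := ⟨422, ⟨3, 8, 14, 8⟩⟩) (by decide +kernel)

def tC57A_c3p11 : PosD ⟨⟨0, 1, 1⟩, ⟨98, 99, 147⟩, ⟨9723, 9816, 30000⟩, ⟨1467, 1488, 1000⟩⟩ (tC57A.hC3p true true) :=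
  posD_of_check (c := ⟨413, ⟨3, 8, 14, 8⟩⟩) (by decide +kernel)

def tC57A_c3m11 : PosD ⟨⟨0, 1, 1⟩, ⟨98, 99, 147⟩, ⟨9723, 9816, 30000⟩, ⟨1467, 1488, 1000⟩⟩ (tC57A.hC3m true true) :=
  posD_of_check (c := ⟨409, ⟨3, 8, 14, 8⟩⟩) (by decide +kernel)

def tC57A_c3ph11 : PosD ⟨⟨0, 1, 1⟩, ⟨98, 99, 147⟩, ⟨9723, 9816, 30000⟩, ⟨1467, 1488, 1000⟩⟩ (tC57A.hC3p' true true) :=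
  posD_of_check (c := ⟨413, ⟨3, 8, 14, 8⟩⟩) (by decide +kernel)

def tC57A_c3mh11 : PosD ⟨⟨0, 1, 1⟩, ⟨98, 99, 147⟩, ⟨9723, 9816, 30000⟩, ⟨1467, 1488, 1000⟩⟩ (tC57A.hC3m' true true) :=
  posD_of_check (c := ⟨409, ⟨3, 8, 14, 8⟩⟩) (by decide +kernel)

def tC57A_up11 : PosD ⟨⟨0, 1, 1⟩, ⟨98, 99, 147⟩, ⟨9723, 9816, 30000⟩, ⟨1467, 1488, 1000⟩⟩ (tC57A.hUp true true) :=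
  posD_of_check (c := ⟨413, ⟨3, 8, 14, 8⟩⟩) (by decide +kernel)

def tC57A_um11 : PosD ⟨⟨0, 1, 1⟩, ⟨98, 99, 147⟩, ⟨9723, 9816, 30000⟩, ⟨1467, 1488, 1000⟩⟩ (tC57A.hUm true true) :=
  posD_of_check (c := ⟨409, ⟨3, 8, 14, 8⟩⟩) (by decide +kernel)

def tC57A_tmg11 : PosD ⟨⟨0, 1, 1⟩, ⟨98, 99, 147⟩, ⟨9723, 9816, 30000⟩, ⟨1467, 1488, 1000⟩⟩ (tC57A.hTMG true (tC57A.pEnd true)) :=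
  posD_of_check (c := ⟨380, ⟨2, 7, 13, 8⟩⟩) (by decide +kernel)

/-- The signs of the piece. -/
def tC57A_sign : tC57A.Sign ⟨⟨0, 1, 1⟩, ⟨98, 99, 147⟩, ⟨9723, 9816, 30000⟩, ⟨1467, 1488, 1000⟩⟩ :=
  ⟨tC57A_pp,
    tC57A_k2p,
    tC57A_k2m,
    Bool.forall_bool.2 ⟨(Bool.forall_bool.2 ⟨tC57A_tg00, tC57A_tg01⟩), (Bool.forall_bool.2 ⟨tC57A_tg10, tC57A_tg11⟩)⟩,
    Bool.forall_bool.2 ⟨(Bool.forall_bool.2 ⟨tC57A_c2p00, tC57A_c2p01⟩), (Bool.forall_bool.2 ⟨tC57A_c2p10, tC57A_c2p11⟩)⟩,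
    Bool.forall_bool.2 ⟨(Bool.forall_bool.2 ⟨tC57A_c2m00, tC57A_c2m01⟩), (Bool.forall_bool.2 ⟨tC57A_c2m10, tC57A_c2m11⟩)⟩,
    Bool.forall_bool.2 ⟨tC57A_kap0, tC57A_kap1⟩,
    Bool.forall_bool.2 ⟨tC57A_c10, tC57A_c11⟩,
    Bool.forall_bool.2 ⟨(Bool.forall_bool.2 ⟨tC57A_c3p00, tC57A_c3p01⟩), (Bool.forall_bool.2 ⟨tC57A_c3p10, tC57A_c3p11⟩)⟩,
    Bool.forall_bool.2 ⟨(Bool.forall_bool.2 ⟨tC57A_c3m00, tC57A_c3m01⟩), (Bool.forall_bool.2 ⟨tC57A_c3m10, tC57A_c3m11⟩)⟩,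
    Bool.forall_bool.2 ⟨(Bool.forall_bool.2 ⟨tC57A_tmg00, tC57A_tmg01⟩), (Bool.forall_bool.2 ⟨tC57A_tmg10, tC57A_tmg11⟩)⟩,
    .inr (Bool.forall_bool.2 ⟨⟨tC57A_c1h0, Bool.forall_bool.2 ⟨⟨tC57A_c3ph00, tC57A_c3mh00, tC57A_up00, tC57A_um00⟩, ⟨tC57A_c3ph01, tC57A_c3mh01, tC57A_up01, tC57A_um01⟩⟩⟩, ⟨tC57A_c1h1, Bool.forall_bool.2 ⟨⟨tC57A_c3ph10, tC57A_c3mh10, tC57A_up10, tC57A_um10⟩, ⟨tC57A_c3ph11, tC57A_c3mh11, tC57A_up11, tC57A_um11⟩⟩⟩⟩),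
    tC57A_v2p,
    tC57A_v2m,
    tC57A_v3p,
    tC57A_v3m,
    posD_sub (b := ⟨⟨0, 1, 1⟩, ⟨98, 99, 147⟩, ⟨4050, 10000, 30000⟩, ⟨290, 4000, 1000⟩⟩) (by decide +kernel) tC_vG,
    posD_sub (b := ⟨⟨0, 1, 1⟩, ⟨98, 99, 147⟩, ⟨4050, 10000, 30000⟩, ⟨290, 4000, 1000⟩⟩) (by decide +kernel) tC_vMG,
    posD_sub (b := ⟨⟨0, 1, 1⟩, ⟨98, 99, 147⟩, ⟨4050, 10000, 30000⟩, ⟨290, 4000, 1000⟩⟩) (by decide +kernel) tC_ak,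
    posD_sub (b := ⟨⟨0, 1, 1⟩, ⟨98, 99, 147⟩, ⟨4050, 10000, 30000⟩, ⟨290, 4000, 1000⟩⟩) (by decide +kernel) tC_aw,
    posD_sub (b := ⟨⟨0, 1, 1⟩, ⟨98, 99, 147⟩, ⟨4050, 10000, 30000⟩, ⟨290, 4000, 1000⟩⟩) (by decide +kernel) tC_gk,
    posD_sub (b := ⟨⟨0, 1, 1⟩, ⟨98, 99, 147⟩, ⟨4050, 10000, 30000⟩, ⟨290, 4000, 1000⟩⟩) (by decide +kernel) tC_gw,
    posD_sub (b := ⟨⟨0, 1, 1⟩, ⟨98, 99, 147⟩, ⟨4050, 10000, 30000⟩, ⟨290, 4000, 1000⟩⟩) (by decide +kernel) tC_ek,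
    posD_sub (b := ⟨⟨0, 1, 1⟩, ⟨98, 99, 147⟩, ⟨4050, 10000, 30000⟩, ⟨290, 4000, 1000⟩⟩) (by decide +kernel) tC_ew⟩

def tC57B_pp : PosD ⟨⟨0, 1, 1⟩, ⟨98, 99, 147⟩, ⟨9723, 9816, 30000⟩, ⟨1467, 1488, 1000⟩⟩ (tC57B.xPL) :=
  posD_of_check (c := ⟨84, ⟨1, 1, 2, 2⟩⟩) (by decide +kernel)

def tC57B_k2p : PosD ⟨⟨0, 1, 1⟩, ⟨98, 99, 147⟩, ⟨9723, 9816, 30000⟩, ⟨1467, 1488, 1000⟩⟩ (tC57B.k2p tC57B.xE) :=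
  posD_of_check (c := ⟨59, ⟨1, 1, 1, 1⟩⟩) (by decide +kernel)

def tC57B_k2m : PosD ⟨⟨0, 1, 1⟩, ⟨98, 99, 147⟩, ⟨9723, 9816, 30000⟩, ⟨1467, 1488, 1000⟩⟩ (tC57B.k2m tC57B.xE) :=
  posD_of_check (c := ⟨55, ⟨1, 1, 1, 1⟩⟩) (by decide +kernel)

def tC57B_v2p : PosD ⟨⟨0, 1, 1⟩, ⟨98, 99, 147⟩, ⟨9723, 9816, 30000⟩, ⟨1467, 1488, 1000⟩⟩ (tC57B.hV2p) :=
  posD_of_check (c := ⟨263, ⟨1, 6, 10, 4⟩⟩) (by decide +kernel)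

def tC57B_v2m : PosD ⟨⟨0, 1, 1⟩, ⟨98, 99, 147⟩, ⟨9723, 9816, 30000⟩, ⟨1467, 1488, 1000⟩⟩ (tC57B.hV2m) :=
  posD_of_check (c := ⟨259, ⟨1, 6, 10, 4⟩⟩) (by decide +kernel)

def tC57B_v3p : PosD ⟨⟨0, 1, 1⟩, ⟨98, 99, 147⟩, ⟨9723, 9816, 30000⟩, ⟨1467, 1488, 1000⟩⟩ (tC57B.hV3p) :=
  posD_of_check (c := ⟨247, ⟨1, 6, 9, 4⟩⟩) (by decide +kernel)

def tC57B_v3m : PosD ⟨⟨0, 1, 1⟩, ⟨98, 99, 147⟩, ⟨9723, 9816, 30000⟩, ⟨1467, 1488, 1000⟩⟩ (tC57B.hV3m) :=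
  posD_of_check (c := ⟨244, ⟨1, 6, 9, 4⟩⟩) (by decide +kernel)

def tC57B_kap0 : PosD ⟨⟨0, 1, 1⟩, ⟨98, 99, 147⟩, ⟨9723, 9816, 30000⟩, ⟨1467, 1488, 1000⟩⟩ (tC57B.kap false) :=
  posD_of_check (c := ⟨4, ⟨0, 0, 0, 0⟩⟩) (by decide +kernel)

def tC57B_c10 : PosD ⟨⟨0, 1, 1⟩, ⟨98, 99, 147⟩, ⟨9723, 9816, 30000⟩, ⟨1467, 1488, 1000⟩⟩ (tC57B.hC1 false) :=
  posD_of_check (c := ⟨262, ⟨2, 5, 8, 5⟩⟩) (by decide +kernel)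

def tC57B_c1h0 : PosD ⟨⟨0, 1, 1⟩, ⟨98, 99, 147⟩, ⟨9723, 9816, 30000⟩, ⟨1467, 1488, 1000⟩⟩ (tC57B.hC1' false) :=
  posD_of_check (c := ⟨263, ⟨2, 5, 8, 5⟩⟩) (by decide +kernel)

def tC57B_tg00 : PosD ⟨⟨0, 1, 1⟩, ⟨98, 99, 147⟩, ⟨9723, 9816, 30000⟩, ⟨1467, 1488, 1000⟩⟩ (tC57B.hG false (tC57B.pEnd false)) :=
  posD_of_check (c := ⟨365, ⟨2, 7, 12, 7⟩⟩) (by decide +kernel)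

def tC57B_c2p00 : PosD ⟨⟨0, 1, 1⟩, ⟨98, 99, 147⟩, ⟨9723, 9816, 30000⟩, ⟨1467, 1488, 1000⟩⟩ (tC57B.hC2p false (tC57B.pEnd false)) :=
  posD_of_check (c := ⟨426, ⟨3, 8, 14, 8⟩⟩) (by decide +kernel)

def tC57B_c2m00 : PosD ⟨⟨0, 1, 1⟩, ⟨98, 99, 147⟩, ⟨9723, 9816, 30000⟩, ⟨1467, 1488, 1000⟩⟩ (tC57B.hC2m false (tC57B.pEnd false)) :=
  posD_of_relax (k₁ := 0) (k₂ := 0) (k₃ := 1) (n := 16) (posD_of_check (c := ⟨422, ⟨3, 8, 14, 8⟩⟩) (by decide +kernel))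

def tC57B_c3p00 : PosD ⟨⟨0, 1, 1⟩, ⟨98, 99, 147⟩, ⟨9723, 9816, 30000⟩, ⟨1467, 1488, 1000⟩⟩ (tC57B.hC3p false false) :=
  posD_of_check (c := ⟨413, ⟨3, 8, 14, 8⟩⟩) (by decide +kernel)

def tC57B_c3m00 : PosD ⟨⟨0, 1, 1⟩, ⟨98, 99, 147⟩, ⟨9723, 9816, 30000⟩, ⟨1467, 1488, 1000⟩⟩ (tC57B.hC3m false false) :=
  posD_of_check (c := ⟨410, ⟨3, 8, 14, 8⟩⟩) (by decide +kernel)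

def tC57B_c3ph00 : PosD ⟨⟨0, 1, 1⟩, ⟨98, 99, 147⟩, ⟨9723, 9816, 30000⟩, ⟨1467, 1488, 1000⟩⟩ (tC57B.hC3p' false false) :=
  posD_of_check (c := ⟨413, ⟨3, 8, 14, 8⟩⟩) (by decide +kernel)

def tC57B_c3mh00 : PosD ⟨⟨0, 1, 1⟩, ⟨98, 99, 147⟩, ⟨9723, 9816, 30000⟩, ⟨1467, 1488, 1000⟩⟩ (tC57B.hC3m' false false) :=
  posD_of_check (c := ⟨410, ⟨3, 8, 14, 8⟩⟩) (by decide +kernel)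

def tC57B_up00 : PosD ⟨⟨0, 1, 1⟩, ⟨98, 99, 147⟩, ⟨9723, 9816, 30000⟩, ⟨1467, 1488, 1000⟩⟩ (tC57B.hUp false false) :=
  posD_of_check (c := ⟨413, ⟨3, 8, 14, 8⟩⟩) (by decide +kernel)

def tC57B_um00 : PosD ⟨⟨0, 1, 1⟩, ⟨98, 99, 147⟩, ⟨9723, 9816, 30000⟩, ⟨1467, 1488, 1000⟩⟩ (tC57B.hUm false false) :=
  posD_of_check (c := ⟨410, ⟨3, 8, 14, 8⟩⟩) (by decide +kernel)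

def tC57B_tmg00 : PosD ⟨⟨0, 1, 1⟩, ⟨98, 99, 147⟩, ⟨9723, 9816, 30000⟩, ⟨1467, 1488, 1000⟩⟩ (tC57B.hTMG false (tC57B.pEnd false)) :=
  posD_of_check (c := ⟨380, ⟨2, 7, 13, 8⟩⟩) (by decide +kernel)

def tC57B_tg01 : PosD ⟨⟨0, 1, 1⟩, ⟨98, 99, 147⟩, ⟨9723, 9816, 30000⟩, ⟨1467, 1488, 1000⟩⟩ (tC57B.hG true (tC57B.pEnd false)) :=
  posD_of_check (c := ⟨365, ⟨2, 7, 12, 7⟩⟩) (by decide +kernel)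

def tC57B_c2p01 : PosD ⟨⟨0, 1, 1⟩, ⟨98, 99, 147⟩, ⟨9723, 9816, 30000⟩, ⟨1467, 1488, 1000⟩⟩ (tC57B.hC2p true (tC57B.pEnd false)) :=
  posD_of_check (c := ⟨426, ⟨3, 8, 14, 8⟩⟩) (by decide +kernel)

def tC57B_c2m01 : PosD ⟨⟨0, 1, 1⟩, ⟨98, 99, 147⟩, ⟨9723, 9816, 30000⟩, ⟨1467, 1488, 1000⟩⟩ (tC57B.hC2m true (tC57B.pEnd false)) :=
  posD_of_check (c := ⟨422, ⟨3, 8, 14, 8⟩⟩) (by decide +kernel)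

def tC57B_c3p01 : PosD ⟨⟨0, 1, 1⟩, ⟨98, 99, 147⟩, ⟨9723, 9816, 30000⟩, ⟨1467, 1488, 1000⟩⟩ (tC57B.hC3p false true) :=
  posD_of_check (c := ⟨413, ⟨3, 8, 14, 8⟩⟩) (by decide +kernel)

def tC57B_c3m01 : PosD ⟨⟨0, 1, 1⟩, ⟨98, 99, 147⟩, ⟨9723, 9816, 30000⟩, ⟨1467, 1488, 1000⟩⟩ (tC57B.hC3m false true) :=
  posD_of_check (c := ⟨410, ⟨3, 8, 14, 8⟩⟩) (by decide +kernel)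

def tC57B_c3ph01 : PosD ⟨⟨0, 1, 1⟩, ⟨98, 99, 147⟩, ⟨9723, 9816, 30000⟩, ⟨1467, 1488, 1000⟩⟩ (tC57B.hC3p' false true) :=
  posD_of_check (c := ⟨413, ⟨3, 8, 14, 8⟩⟩) (by decide +kernel)

def tC57B_c3mh01 : PosD ⟨⟨0, 1, 1⟩, ⟨98, 99, 147⟩, ⟨9723, 9816, 30000⟩, ⟨1467, 1488, 1000⟩⟩ (tC57B.hC3m' false true) :=
  posD_of_check (c := ⟨410, ⟨3, 8, 14, 8⟩⟩) (by decide +kernel)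

def tC57B_up01 : PosD ⟨⟨0, 1, 1⟩, ⟨98, 99, 147⟩, ⟨9723, 9816, 30000⟩, ⟨1467, 1488, 1000⟩⟩ (tC57B.hUp false true) :=
  posD_of_check (c := ⟨413, ⟨3, 8, 14, 8⟩⟩) (by decide +kernel)

def tC57B_um01 : PosD ⟨⟨0, 1, 1⟩, ⟨98, 99, 147⟩, ⟨9723, 9816, 30000⟩, ⟨1467, 1488, 1000⟩⟩ (tC57B.hUm false true) :=
  posD_of_check (c := ⟨410, ⟨3, 8, 14, 8⟩⟩) (by decide +kernel)

def tC57B_tmg01 : PosD ⟨⟨0, 1, 1⟩, ⟨98, 99, 147⟩, ⟨9723, 9816, 30000⟩, ⟨1467, 1488, 1000⟩⟩ (tC57B.hTMG true (tC57B.pEnd false)) :=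
  posD_of_check (c := ⟨380, ⟨2, 7, 13, 8⟩⟩) (by decide +kernel)

def tC57B_kap1 : PosD ⟨⟨0, 1, 1⟩, ⟨98, 99, 147⟩, ⟨9723, 9816, 30000⟩, ⟨1467, 1488, 1000⟩⟩ (tC57B.kap true) :=
  posD_of_check (c := ⟨4, ⟨0, 0, 0, 0⟩⟩) (by decide +kernel)

def tC57B_c11 : PosD ⟨⟨0, 1, 1⟩, ⟨98, 99, 147⟩, ⟨9723, 9816, 30000⟩, ⟨1467, 1488, 1000⟩⟩ (tC57B.hC1 true) :=
  posD_of_check (c := ⟨262, ⟨2, 5, 8, 5⟩⟩) (by decide +kernel)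

def tC57B_c1h1 : PosD ⟨⟨0, 1, 1⟩, ⟨98, 99, 147⟩, ⟨9723, 9816, 30000⟩, ⟨1467, 1488, 1000⟩⟩ (tC57B.hC1' true) :=
  posD_of_check (c := ⟨263, ⟨2, 5, 8, 5⟩⟩) (by decide +kernel)

def tC57B_tg10 : PosD ⟨⟨0, 1, 1⟩, ⟨98, 99, 147⟩, ⟨9723, 9816, 30000⟩, ⟨1467, 1488, 1000⟩⟩ (tC57B.hG false (tC57B.pEnd true)) :=
  posD_of_check (c := ⟨365, ⟨2, 7, 12, 7⟩⟩) (by decide +kernel)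

def tC57B_c2p10 : PosD ⟨⟨0, 1, 1⟩, ⟨98, 99, 147⟩, ⟨9723, 9816, 30000⟩, ⟨1467, 1488, 1000⟩⟩ (tC57B.hC2p false (tC57B.pEnd true)) :=
  posD_of_check (c := ⟨426, ⟨3, 8, 14, 8⟩⟩) (by decide +kernel)

def tC57B_c2m10 : PosD ⟨⟨0, 1, 1⟩, ⟨98, 99, 147⟩, ⟨9723, 9816, 30000⟩, ⟨1467, 1488, 1000⟩⟩ (tC57B.hC2m false (tC57B.pEnd true)) :=
  posD_of_check (c := ⟨422, ⟨3, 8, 14, 8⟩⟩) (by decide +kernel)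

def tC57B_c3p10 : PosD ⟨⟨0, 1, 1⟩, ⟨98, 99, 147⟩, ⟨9723, 9816, 30000⟩, ⟨1467, 1488, 1000⟩⟩ (tC57B.hC3p true false) :=
  posD_of_check (c := ⟨413, ⟨3, 8, 14, 8⟩⟩) (by decide +kernel)

def tC57B_c3m10 : PosD ⟨⟨0, 1, 1⟩, ⟨98, 99, 147⟩, ⟨9723, 9816, 30000⟩, ⟨1467, 1488, 1000⟩⟩ (tC57B.hC3m true false) :=
  posD_of_check (c := ⟨410, ⟨3, 8, 14, 8⟩⟩) (by decide +kernel)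

def tC57B_c3ph10 : PosD ⟨⟨0, 1, 1⟩, ⟨98, 99, 147⟩, ⟨9723, 9816, 30000⟩, ⟨1467, 1488, 1000⟩⟩ (tC57B.hC3p' true false) :=
  posD_of_check (c := ⟨413, ⟨3, 8, 14, 8⟩⟩) (by decide +kernel)

def tC57B_c3mh10 : PosD ⟨⟨0, 1, 1⟩, ⟨98, 99, 147⟩, ⟨9723, 9816, 30000⟩, ⟨1467, 1488, 1000⟩⟩ (tC57B.hC3m' true false) :=
  posD_of_check (c := ⟨410, ⟨3, 8, 14, 8⟩⟩) (by decide +kernel)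

def tC57B_up10 : PosD ⟨⟨0, 1, 1⟩, ⟨98, 99, 147⟩, ⟨9723, 9816, 30000⟩, ⟨1467, 1488, 1000⟩⟩ (tC57B.hUp true false) :=
  posD_of_check (c := ⟨413, ⟨3, 8, 14, 8⟩⟩) (by decide +kernel)

def tC57B_um10 : PosD ⟨⟨0, 1, 1⟩, ⟨98, 99, 147⟩, ⟨9723, 9816, 30000⟩, ⟨1467, 1488, 1000⟩⟩ (tC57B.hUm true false) :=
  posD_of_check (c := ⟨410, ⟨3, 8, 14, 8⟩⟩) (by decide +kernel)

def tC57B_tmg10 : PosD ⟨⟨0, 1, 1⟩, ⟨98, 99, 147⟩, ⟨9723, 9816, 30000⟩, ⟨1467, 1488, 1000⟩⟩ (tC57B.hTMG false (tC57B.pEnd true)) :=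
  posD_of_check (c := ⟨381, ⟨2, 7, 13, 8⟩⟩) (by decide +kernel)

def tC57B_tg11 : PosD ⟨⟨0, 1, 1⟩, ⟨98, 99, 147⟩, ⟨9723, 9816, 30000⟩, ⟨1467, 1488, 1000⟩⟩ (tC57B.hG true (tC57B.pEnd true)) :=
  posD_of_check (c := ⟨365, ⟨2, 7, 12, 7⟩⟩) (by decide +kernel)

def tC57B_c2p11 : PosD ⟨⟨0, 1, 1⟩, ⟨98, 99, 147⟩, ⟨9723, 9816, 30000⟩, ⟨1467, 1488, 1000⟩⟩ (tC57B.hC2p true (tC57B.pEnd true)) :=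
  posD_of_check (c := ⟨426, ⟨3, 8, 14, 8⟩⟩) (by decide +kernel)

def tC57B_c2m11 : PosD ⟨⟨0, 1, 1⟩, ⟨98, 99, 147⟩, ⟨9723, 9816, 30000⟩, ⟨1467, 1488, 1000⟩⟩ (tC57B.hC2m true (tC57B.pEnd true)) :=
  posD_of_check (c := ⟨422, ⟨3, 8, 14, 8⟩⟩) (by decide +kernel)

def tC57B_c3p11 : PosD ⟨⟨0, 1, 1⟩, ⟨98, 99, 147⟩, ⟨9723, 9816, 30000⟩, ⟨1467, 1488, 1000⟩⟩ (tC57B.hC3p true true) :=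
  posD_of_check (c := ⟨413, ⟨3, 8, 14, 8⟩⟩) (by decide +kernel)

def tC57B_c3m11 : PosD ⟨⟨0, 1, 1⟩, ⟨98, 99, 147⟩, ⟨9723, 9816, 30000⟩, ⟨1467, 1488, 1000⟩⟩ (tC57B.hC3m true true) :=
  posD_of_check (c := ⟨410, ⟨3, 8, 14, 8⟩⟩) (by decide +kernel)

def tC57B_c3ph11 : PosD ⟨⟨0, 1, 1⟩, ⟨98, 99, 147⟩, ⟨9723, 9816, 30000⟩, ⟨1467, 1488, 1000⟩⟩ (tC57B.hC3p' true true) :=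
  posD_of_check (c := ⟨413, ⟨3, 8, 14, 8⟩⟩) (by decide +kernel)

def tC57B_c3mh11 : PosD ⟨⟨0, 1, 1⟩, ⟨98, 99, 147⟩, ⟨9723, 9816, 30000⟩, ⟨1467, 1488, 1000⟩⟩ (tC57B.hC3m' true true) :=
  posD_of_check (c := ⟨410, ⟨3, 8, 14, 8⟩⟩) (by decide +kernel)

def tC57B_up11 : PosD ⟨⟨0, 1, 1⟩, ⟨98, 99, 147⟩, ⟨9723, 9816, 30000⟩, ⟨1467, 1488, 1000⟩⟩ (tC57B.hUp true true) :=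
  posD_of_check (c := ⟨413, ⟨3, 8, 14, 8⟩⟩) (by decide +kernel)

def tC57B_um11 : PosD ⟨⟨0, 1, 1⟩, ⟨98, 99, 147⟩, ⟨9723, 9816, 30000⟩, ⟨1467, 1488, 1000⟩⟩ (tC57B.hUm true true) :=
  posD_of_check (c := ⟨410, ⟨3, 8, 14, 8⟩⟩) (by decide +kernel)

def tC57B_tmg11 : PosD ⟨⟨0, 1, 1⟩, ⟨98, 99, 147⟩, ⟨9723, 9816, 30000⟩, ⟨1467, 1488, 1000⟩⟩ (tC57B.hTMG true (tC57B.pEnd true)) :=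
  posD_of_check (c := ⟨381, ⟨2, 7, 13, 8⟩⟩) (by decide +kernel)

/-- The signs of the piece. -/
def tC57B_sign : tC57B.Sign ⟨⟨0, 1, 1⟩, ⟨98, 99, 147⟩, ⟨9723, 9816, 30000⟩, ⟨1467, 1488, 1000⟩⟩ :=
  ⟨tC57B_pp,
    tC57B_k2p,
    tC57B_k2m,
    Bool.forall_bool.2 ⟨(Bool.forall_bool.2 ⟨tC57B_tg00, tC57B_tg01⟩), (Bool.forall_bool.2 ⟨tC57B_tg10, tC57B_tg11⟩)⟩,
    Bool.forall_bool.2 ⟨(Bool.forall_bool.2 ⟨tC57B_c2p00, tC57B_c2p01⟩), (Bool.forall_bool.2 ⟨tC57B_c2p10, tC57B_c2p11⟩)⟩,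
    Bool.forall_bool.2 ⟨(Bool.forall_bool.2 ⟨tC57B_c2m00, tC57B_c2m01⟩), (Bool.forall_bool.2 ⟨tC57B_c2m10, tC57B_c2m11⟩)⟩,
    Bool.forall_bool.2 ⟨tC57B_kap0, tC57B_kap1⟩,
    Bool.forall_bool.2 ⟨tC57B_c10, tC57B_c11⟩,
    Bool.forall_bool.2 ⟨(Bool.forall_bool.2 ⟨tC57B_c3p00, tC57B_c3p01⟩), (Bool.forall_bool.2 ⟨tC57B_c3p10, tC57B_c3p11⟩)⟩,
    Bool.forall_bool.2 ⟨(Bool.forall_bool.2 ⟨tC57B_c3m00, tC57B_c3m01⟩), (Bool.forall_bool.2 ⟨tC57B_c3m10, tC57B_c3m11⟩)⟩,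
    Bool.forall_bool.2 ⟨(Bool.forall_bool.2 ⟨tC57B_tmg00, tC57B_tmg01⟩), (Bool.forall_bool.2 ⟨tC57B_tmg10, tC57B_tmg11⟩)⟩,
    .inr (Bool.forall_bool.2 ⟨⟨tC57B_c1h0, Bool.forall_bool.2 ⟨⟨tC57B_c3ph00, tC57B_c3mh00, tC57B_up00, tC57B_um00⟩, ⟨tC57B_c3ph01, tC57B_c3mh01, tC57B_up01, tC57B_um01⟩⟩⟩, ⟨tC57B_c1h1, Bool.forall_bool.2 ⟨⟨tC57B_c3ph10, tC57B_c3mh10, tC57B_up10, tC57B_um10⟩, ⟨tC57B_c3ph11, tC57B_c3mh11, tC57B_up11, tC57B_um11⟩⟩⟩⟩),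
    tC57B_v2p,
    tC57B_v2m,
    tC57B_v3p,
    tC57B_v3m,
    posD_sub (b := ⟨⟨0, 1, 1⟩, ⟨98, 99, 147⟩, ⟨4050, 10000, 30000⟩, ⟨290, 4000, 1000⟩⟩) (by decide +kernel) tC_vG,
    posD_sub (b := ⟨⟨0, 1, 1⟩, ⟨98, 99, 147⟩, ⟨4050, 10000, 30000⟩, ⟨290, 4000, 1000⟩⟩) (by decide +kernel) tC_vMG,
    posD_sub (b := ⟨⟨0, 1, 1⟩, ⟨98, 99, 147⟩, ⟨4050, 10000, 30000⟩, ⟨290, 4000, 1000⟩⟩) (by decide +kernel) tC_ak,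
    posD_sub (b := ⟨⟨0, 1, 1⟩, ⟨98, 99, 147⟩, ⟨4050, 10000, 30000⟩, ⟨290, 4000, 1000⟩⟩) (by decide +kernel) tC_aw,
    posD_sub (b := ⟨⟨0, 1, 1⟩, ⟨98, 99, 147⟩, ⟨4050, 10000, 30000⟩, ⟨290, 4000, 1000⟩⟩) (by decide +kernel) tC_gk,
    posD_sub (b := ⟨⟨0, 1, 1⟩, ⟨98, 99, 147⟩, ⟨4050, 10000, 30000⟩, ⟨290, 4000, 1000⟩⟩) (by decide +kernel) tC_gw,
    posD_sub (b := ⟨⟨0, 1, 1⟩, ⟨98, 99, 147⟩, ⟨4050, 10000, 30000⟩, ⟨290, 4000, 1000⟩⟩) (by decide +kernel) tC_ek,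
    posD_sub (b := ⟨⟨0, 1, 1⟩, ⟨98, 99, 147⟩, ⟨4050, 10000, 30000⟩, ⟨290, 4000, 1000⟩⟩) (by decide +kernel) tC_ew⟩

def tC58_phx : PosIf ⟨⟨0, 1, 1⟩, ⟨98, 99, 147⟩, ⟨9630, 9816, 30000⟩, ⟨1488, 1510, 1000⟩⟩ (tC58.u₁ - tC58Lo) (phCn (tC58.u₁ + xO * (tC58Lo - tC58.u₁))) :=
  posIf_of_posD (posD_of_check (c := ⟨109, ⟨2, 0, 4, 2⟩⟩) (by decide +kernel))

def tC58_phd : PosD ⟨⟨0, 1, 1⟩, ⟨98, 99, 147⟩, ⟨9630, 9816, 30000⟩, ⟨1488, 1510, 1000⟩⟩ (phCd (tC58.u₁ + xO * (tC58Lo - tC58.u₁))) :=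
  posD_of_check (c := ⟨51, ⟨1, 0, 2, 1⟩⟩) (by decide +kernel)

def tC58_p0 : PosD ⟨⟨0, 1, 1⟩, ⟨98, 99, 147⟩, ⟨9630, 9816, 30000⟩, ⟨1488, 1510, 1000⟩⟩ (tC58.hP0) :=
  posD_of_check (c := ⟨83, ⟨0, 2, 3, 1⟩⟩) (by decide +kernel)

def tC58_gn : PosD ⟨⟨0, 1, 1⟩, ⟨98, 99, 147⟩, ⟨9630, 9816, 30000⟩, ⟨1488, 1510, 1000⟩⟩ (tC58.hGn) :=
  posD_of_check (c := ⟨69, ⟨1, 1, 2, 2⟩⟩) (by decide +kernel)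

def tC58_den0 : PosD ⟨⟨0, 1, 1⟩, ⟨98, 99, 147⟩, ⟨9630, 9816, 30000⟩, ⟨1488, 1510, 1000⟩⟩ (tC58.hDen false) :=
  posD_of_check (c := ⟨51, ⟨1, 0, 2, 1⟩⟩) (by decide +kernel)

def tC58_den1 : PosD ⟨⟨0, 1, 1⟩, ⟨98, 99, 147⟩, ⟨9630, 9816, 30000⟩, ⟨1488, 1510, 1000⟩⟩ (tC58.hDen true) :=
  posD_of_check (c := ⟨51, ⟨1, 0, 2, 1⟩⟩) (by decide +kernel)

def tC58_none0 : PosD ⟨⟨0, 1, 1⟩, ⟨98, 99, 147⟩, ⟨9630, 9816, 30000⟩, ⟨1488, 1510, 1000⟩⟩ (tC58.hNone false) :=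
  posD_of_check (c := ⟨358, ⟨5, 6, 11, 7⟩⟩) (by decide +kernel)

def tC58_none1 : PosD ⟨⟨0, 1, 1⟩, ⟨98, 99, 147⟩, ⟨9630, 9816, 30000⟩, ⟨1488, 1510, 1000⟩⟩ (tC58.hNone true) :=
  posD_of_check (c := ⟨357, ⟨5, 6, 11, 7⟩⟩) (by decide +kernel)

def tC58_nupU : PosD ⟨⟨0, 1, 1⟩, ⟨98, 99, 147⟩, ⟨9630, 9816, 30000⟩, ⟨1488, 1510, 1000⟩⟩ (tC58.pU.ν) :=
  posD_of_check (c := ⟨57, ⟨0, 0, 1, 1⟩⟩) (by decide +kernel)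

/-- No point in the piece. -/
def tC58_empty : tC58.Empty ⟨⟨0, 1, 1⟩, ⟨98, 99, 147⟩, ⟨9630, 9816, 30000⟩, ⟨1488, 1510, 1000⟩⟩ :=
  ⟨tC58_p0, Bool.forall_bool.2 ⟨tC58_den0, tC58_den1⟩, tC58_gn, ⟨.inr rfl, .inl tC58_nupU⟩, Bool.forall_bool.2 ⟨tC58_none0, tC58_none1⟩⟩

def tC59_phx : PosIf ⟨⟨0, 1, 1⟩, ⟨98, 99, 147⟩, ⟨9816, 10000, 30000⟩, ⟨1467, 1510, 1000⟩⟩ (tC59.u₁ - tC59Lo) (phCn (tC59.u₁ + xO * (tC59Lo - tC59.u₁))) :=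
  posIf_of_posD (posD_of_check (c := ⟨109, ⟨2, 0, 4, 2⟩⟩) (by decide +kernel))

def tC59_phd : PosD ⟨⟨0, 1, 1⟩, ⟨98, 99, 147⟩, ⟨9816, 10000, 30000⟩, ⟨1467, 1510, 1000⟩⟩ (phCd (tC59.u₁ + xO * (tC59Lo - tC59.u₁))) :=
  posD_of_check (c := ⟨51, ⟨1, 0, 2, 1⟩⟩) (by decide +kernel)

def tC59_p0 : PosD ⟨⟨0, 1, 1⟩, ⟨98, 99, 147⟩, ⟨9816, 10000, 30000⟩, ⟨1467, 1510, 1000⟩⟩ (tC59.hP0) :=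
  posD_of_check (c := ⟨83, ⟨0, 2, 3, 1⟩⟩) (by decide +kernel)

def tC59_gn : PosD ⟨⟨0, 1, 1⟩, ⟨98, 99, 147⟩, ⟨9816, 10000, 30000⟩, ⟨1467, 1510, 1000⟩⟩ (tC59.hGn) :=
  posD_of_check (c := ⟨69, ⟨1, 1, 2, 2⟩⟩) (by decide +kernel)

def tC59_den0 : PosD ⟨⟨0, 1, 1⟩, ⟨98, 99, 147⟩, ⟨9816, 10000, 30000⟩, ⟨1467, 1510, 1000⟩⟩ (tC59.hDen false) :=
  posD_of_check (c := ⟨51, ⟨1, 0, 2, 1⟩⟩) (by decide +kernel)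

def tC59_den1 : PosD ⟨⟨0, 1, 1⟩, ⟨98, 99, 147⟩, ⟨9816, 10000, 30000⟩, ⟨1467, 1510, 1000⟩⟩ (tC59.hDen true) :=
  posD_of_check (c := ⟨51, ⟨1, 0, 2, 1⟩⟩) (by decide +kernel)

def tC59_none0 : PosD ⟨⟨0, 1, 1⟩, ⟨98, 99, 147⟩, ⟨9816, 10000, 30000⟩, ⟨1467, 1510, 1000⟩⟩ (tC59.hNone false) :=
  posD_of_check (c := ⟨357, ⟨5, 6, 11, 7⟩⟩) (by decide +kernel)

def tC59_none1 : PosD ⟨⟨0, 1, 1⟩, ⟨98, 99, 147⟩, ⟨9816, 10000, 30000⟩, ⟨1467, 1510, 1000⟩⟩ (tC59.hNone true) :=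
  posD_of_check (c := ⟨356, ⟨5, 6, 11, 7⟩⟩) (by decide +kernel)

def tC59_nupU : PosD ⟨⟨0, 1, 1⟩, ⟨98, 99, 147⟩, ⟨9816, 10000, 30000⟩, ⟨1467, 1510, 1000⟩⟩ (tC59.pU.ν) :=
  posD_of_check (c := ⟨56, ⟨0, 0, 1, 1⟩⟩) (by decide +kernel)

/-- No point in the piece. -/
def tC59_empty : tC59.Empty ⟨⟨0, 1, 1⟩, ⟨98, 99, 147⟩, ⟨9816, 10000, 30000⟩, ⟨1467, 1510, 1000⟩⟩ :=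
  ⟨tC59_p0, Bool.forall_bool.2 ⟨tC59_den0, tC59_den1⟩, tC59_gn, ⟨.inr rfl, .inl tC59_nupU⟩, Bool.forall_bool.2 ⟨tC59_none0, tC59_none1⟩⟩

end Vale.Agent.P100.Calib.Closed.Six.Tail
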