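import Vale.Agent.P100.Calib.SlabSixTailDataC
import Vale.Agent.P100.Calib.SlabSixTailGlobC

/-!
# Checks of some pieces of the certificate

The checks are written as definitions so that they run one after another, which keeps the memory of the
kernel low.
-/

set_option linter.defProp false

namespace Vale.Agent.P100.Calib.Closed.Six.Tail

open BoxPos Large

local instance sixTailCheckstC43Add : Add Ex := ⟨Ex.add⟩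
local instance sixTailCheckstC43Sub : Sub Ex := ⟨Ex.sub⟩
local instance sixTailCheckstC43Mul : Mul Ex := ⟨Ex.mul⟩

def tC63_phx : PosIf ⟨⟨0, 1, 1⟩, ⟨98, 99, 147⟩, ⟨9258, 9444, 30000⟩, ⟨1532, 1554, 1000⟩⟩ (tC63.u₁ - tC63Lo) (phCn (tC63.u₁ + xO * (tC63Lo - tC63.u₁))) :=
  posIf_of_posD (posD_of_check (c := ⟨109, ⟨2, 0, 4, 2⟩⟩) (by decide +kernel))

def tC63_phd : PosD ⟨⟨0, 1, 1⟩, ⟨98, 99, 147⟩, ⟨9258, 9444, 30000⟩, ⟨1532, 1554, 1000⟩⟩ (phCd (tC63.u₁ + xO * (tC63Lo - tC63.u₁))) :=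
  posD_of_check (c := ⟨51, ⟨1, 0, 2, 1⟩⟩) (by decide +kernel)

def tC63_p0 : PosD ⟨⟨0, 1, 1⟩, ⟨98, 99, 147⟩, ⟨9258, 9444, 30000⟩, ⟨1532, 1554, 1000⟩⟩ (tC63.hP0) :=
  posD_of_check (c := ⟨83, ⟨0, 2, 3, 1⟩⟩) (by decide +kernel)

def tC63_gn : PosD ⟨⟨0, 1, 1⟩, ⟨98, 99, 147⟩, ⟨9258, 9444, 30000⟩, ⟨1532, 1554, 1000⟩⟩ (tC63.hGn) :=
  posD_of_check (c := ⟨69, ⟨1, 1, 2, 2⟩⟩) (by decide +kernel)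

def tC63_den0 : PosD ⟨⟨0, 1, 1⟩, ⟨98, 99, 147⟩, ⟨9258, 9444, 30000⟩, ⟨1532, 1554, 1000⟩⟩ (tC63.hDen false) :=
  posD_of_check (c := ⟨51, ⟨1, 0, 2, 1⟩⟩) (by decide +kernel)

def tC63_den1 : PosD ⟨⟨0, 1, 1⟩, ⟨98, 99, 147⟩, ⟨9258, 9444, 30000⟩, ⟨1532, 1554, 1000⟩⟩ (tC63.hDen true) :=
  posD_of_check (c := ⟨180, ⟨3, 4, 6, 4⟩⟩) (by decide +kernel)

def tC63_ev0 : PosD ⟨⟨0, 1, 1⟩, ⟨98, 99, 147⟩, ⟨9258, 9444, 30000⟩, ⟨1532, 1554, 1000⟩⟩ (tC63.hEv false) :=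
  posD_of_check (c := ⟨220, ⟨4, 2, 8, 4⟩⟩) (by decide +kernel)

def tC63_zL0 : PosD ⟨⟨0, 1, 1⟩, ⟨98, 99, 147⟩, ⟨9258, 9444, 30000⟩, ⟨1532, 1554, 1000⟩⟩ (tC63.hZL false) :=
  posD_of_check (c := ⟨222, ⟨4, 3, 8, 4⟩⟩) (by decide +kernel)

def tC63_zU0 : PosD ⟨⟨0, 1, 1⟩, ⟨98, 99, 147⟩, ⟨9258, 9444, 30000⟩, ⟨1532, 1554, 1000⟩⟩ (tC63.hZU false) :=
  posD_of_check (c := ⟨222, ⟨4, 3, 8, 4⟩⟩) (by decide +kernel)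

def tC63_eL0 : PosD ⟨⟨0, 1, 1⟩, ⟨98, 99, 147⟩, ⟨9258, 9444, 30000⟩, ⟨1532, 1554, 1000⟩⟩ (tC63.hEL false) :=
  posD_of_check (c := ⟨315, ⟨5, 6, 11, 6⟩⟩) (by decide +kernel)

def tC63_eH0 : PosD ⟨⟨0, 1, 1⟩, ⟨98, 99, 147⟩, ⟨9258, 9444, 30000⟩, ⟨1532, 1554, 1000⟩⟩ (tC63.hEH false) :=
  posD_of_check (c := ⟨335, ⟨5, 6, 11, 7⟩⟩) (by decide +kernel)

def tC63_pL0 : PosD ⟨⟨0, 1, 1⟩, ⟨98, 99, 147⟩, ⟨9258, 9444, 30000⟩, ⟨1532, 1554, 1000⟩⟩ (tC63.hPL false) :=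
  posD_of_check (c := ⟨340, ⟨5, 6, 11, 7⟩⟩) (by decide +kernel)

def tC63_pU0 : PosD ⟨⟨0, 1, 1⟩, ⟨98, 99, 147⟩, ⟨9258, 9444, 30000⟩, ⟨1532, 1554, 1000⟩⟩ (tC63.hPU false) :=
  posD_of_check (c := ⟨341, ⟨5, 6, 11, 7⟩⟩) (by decide +kernel)

def tC63_kU0 : PosD ⟨⟨0, 1, 1⟩, ⟨98, 99, 147⟩, ⟨9258, 9444, 30000⟩, ⟨1532, 1554, 1000⟩⟩ (tC63.hKU false) :=
  posD_of_check (c := ⟨340, ⟨5, 6, 11, 7⟩⟩) (by decide +kernel)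

def tC63_kL0 : PosD ⟨⟨0, 1, 1⟩, ⟨98, 99, 147⟩, ⟨9258, 9444, 30000⟩, ⟨1532, 1554, 1000⟩⟩ (tC63.hKL false) :=
  posD_of_check (c := ⟨337, ⟨5, 6, 11, 7⟩⟩) (by decide +kernel)

def tC63_wU0 : PosD ⟨⟨0, 1, 1⟩, ⟨98, 99, 147⟩, ⟨9258, 9444, 30000⟩, ⟨1532, 1554, 1000⟩⟩ (tC63.hWU false) :=
  posD_of_check (c := ⟨371, ⟨5, 8, 12, 7⟩⟩) (by decide +kernel)

def tC63_wL0 : PosD ⟨⟨0, 1, 1⟩, ⟨98, 99, 147⟩, ⟨9258, 9444, 30000⟩, ⟨1532, 1554, 1000⟩⟩ (tC63.hWL false) :=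
  posD_of_check (c := ⟨373, ⟨5, 8, 12, 7⟩⟩) (by decide +kernel)

def tC63_ev1 : PosD ⟨⟨0, 1, 1⟩, ⟨98, 99, 147⟩, ⟨9258, 9444, 30000⟩, ⟨1532, 1554, 1000⟩⟩ (tC63.hEv true) :=
  posD_of_check (c := ⟨273, ⟨4, 6, 9, 6⟩⟩) (by decide +kernel)

def tC63_zL1 : PosD ⟨⟨0, 1, 1⟩, ⟨98, 99, 147⟩, ⟨9258, 9444, 30000⟩, ⟨1532, 1554, 1000⟩⟩ (tC63.hZL true) :=
  posD_of_check (c := ⟨296, ⟨4, 7, 10, 6⟩⟩) (by decide +kernel)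

def tC63_zU1 : PosD ⟨⟨0, 1, 1⟩, ⟨98, 99, 147⟩, ⟨9258, 9444, 30000⟩, ⟨1532, 1554, 1000⟩⟩ (tC63.hZU true) :=
  posD_of_check (c := ⟨295, ⟨4, 7, 10, 6⟩⟩) (by decide +kernel)

def tC63_eL1 : PosD ⟨⟨0, 1, 1⟩, ⟨98, 99, 147⟩, ⟨9258, 9444, 30000⟩, ⟨1532, 1554, 1000⟩⟩ (tC63.hEL true) :=
  posD_of_check (c := ⟨368, ⟨5, 10, 12, 8⟩⟩) (by decide +kernel)

def tC63_eH1 : PosD ⟨⟨0, 1, 1⟩, ⟨98, 99, 147⟩, ⟨9258, 9444, 30000⟩, ⟨1532, 1554, 1000⟩⟩ (tC63.hEH true) :=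
  posD_of_check (c := ⟨389, ⟨5, 10, 12, 9⟩⟩) (by decide +kernel)

def tC63_pL1 : PosD ⟨⟨0, 1, 1⟩, ⟨98, 99, 147⟩, ⟨9258, 9444, 30000⟩, ⟨1532, 1554, 1000⟩⟩ (tC63.hPL true) :=
  posD_of_check (c := ⟨394, ⟨5, 10, 12, 9⟩⟩) (by decide +kernel)

def tC63_pU1 : PosD ⟨⟨0, 1, 1⟩, ⟨98, 99, 147⟩, ⟨9258, 9444, 30000⟩, ⟨1532, 1554, 1000⟩⟩ (tC63.hPU true) :=
  posD_of_check (c := ⟨395, ⟨5, 10, 12, 9⟩⟩) (by decide +kernel)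

def tC63_kU1 : PosD ⟨⟨0, 1, 1⟩, ⟨98, 99, 147⟩, ⟨9258, 9444, 30000⟩, ⟨1532, 1554, 1000⟩⟩ (tC63.hKU true) :=
  posD_of_check (c := ⟨394, ⟨5, 10, 12, 9⟩⟩) (by decide +kernel)

def tC63_kL1 : PosD ⟨⟨0, 1, 1⟩, ⟨98, 99, 147⟩, ⟨9258, 9444, 30000⟩, ⟨1532, 1554, 1000⟩⟩ (tC63.hKL true) :=
  posD_of_check (c := ⟨391, ⟨5, 10, 12, 9⟩⟩) (by decide +kernel)

def tC63_wU1 : PosD ⟨⟨0, 1, 1⟩, ⟨98, 99, 147⟩, ⟨9258, 9444, 30000⟩, ⟨1532, 1554, 1000⟩⟩ (tC63.hWU true) :=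
  posD_of_check (c := ⟨424, ⟨5, 12, 13, 9⟩⟩) (by decide +kernel)

def tC63_wL1 : PosD ⟨⟨0, 1, 1⟩, ⟨98, 99, 147⟩, ⟨9258, 9444, 30000⟩, ⟨1532, 1554, 1000⟩⟩ (tC63.hWL true) :=
  posD_of_check (c := ⟨426, ⟨5, 12, 13, 9⟩⟩) (by decide +kernel)

def tC63_nueH : PosD ⟨⟨0, 1, 1⟩, ⟨98, 99, 147⟩, ⟨9258, 9444, 30000⟩, ⟨1532, 1554, 1000⟩⟩ (tC63.eH.ν) :=
  posD_of_check (c := ⟨33, ⟨0, 0, 1, 1⟩⟩) (by decide +kernel)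

def tC63_nupU : PosD ⟨⟨0, 1, 1⟩, ⟨98, 99, 147⟩, ⟨9258, 9444, 30000⟩, ⟨1532, 1554, 1000⟩⟩ (tC63.pU.ν) :=
  posD_of_check (c := ⟨36, ⟨0, 0, 1, 1⟩⟩) (by decide +kernel)

def tC63_nukU : PosD ⟨⟨0, 1, 1⟩, ⟨98, 99, 147⟩, ⟨9258, 9444, 30000⟩, ⟨1532, 1554, 1000⟩⟩ (tC63.kU.ν) :=
  posD_of_check (c := ⟨34, ⟨0, 0, 1, 1⟩⟩) (by decide +kernel)

def tC63_nuwL : PosD ⟨⟨0, 1, 1⟩, ⟨98, 99, 147⟩, ⟨9258, 9444, 30000⟩, ⟨1532, 1554, 1000⟩⟩ (tC63.wL.ν) :=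
  posD_of_check (c := ⟨36, ⟨0, 0, 1, 1⟩⟩) (by decide +kernel)

/-- The bounds of the piece. -/
def tC63_env : tC63.Env ⟨⟨0, 1, 1⟩, ⟨98, 99, 147⟩, ⟨9258, 9444, 30000⟩, ⟨1532, 1554, 1000⟩⟩ :=
  ⟨tC63_p0, Bool.forall_bool.2 ⟨tC63_den0, tC63_den1⟩, tC63_gn, Bool.forall_bool.2 ⟨tC63_ev0, tC63_ev1⟩, Bool.forall_bool.2 ⟨tC63_zL0, tC63_zL1⟩, Bool.forall_bool.2 ⟨tC63_zU0, tC63_zU1⟩, Bool.forall_bool.2 ⟨tC63_eL0, tC63_eL1⟩, ⟨.inr rfl, .inr rfl⟩, Bool.forall_bool.2 ⟨tC63_eH0, tC63_eH1⟩, ⟨.inr rfl, .inl tC63_nueH⟩, Bool.forall_bool.2 ⟨tC63_pL0, tC63_pL1⟩, ⟨.inr rfl, .inr rfl⟩, Bool.forall_bool.2 ⟨tC63_pU0, tC63_pU1⟩, ⟨.inr rfl, .inl tC63_nupU⟩, Bool.forall_bool.2 ⟨tC63_kU0, tC63_kU1⟩, ⟨.inr rfl, .inl tC63_nukU⟩, Bool.forall_bool.2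 ⟨tC63_kL0, tC63_kL1⟩, ⟨.inr rfl, .inr rfl⟩, Bool.forall_bool.2 ⟨tC63_wU0, tC63_wU1⟩, ⟨.inr rfl, .inr rfl⟩, Bool.forall_bool.2 ⟨tC63_wL0, tC63_wL1⟩, ⟨.inr rfl, .inl tC63_nuwL⟩⟩

def tC63_pp : PosD ⟨⟨0, 1, 1⟩, ⟨98, 99, 147⟩, ⟨9258, 9444, 30000⟩, ⟨1532, 1554, 1000⟩⟩ (tC63.xPL) :=
  posD_of_check (c := ⟨94, ⟨1, 1, 3, 2⟩⟩) (by decide +kernel)

def tC63_k2p : PosD ⟨⟨0, 1, 1⟩, ⟨98, 99, 147⟩, ⟨9258, 9444, 30000⟩, ⟨1532, 1554, 1000⟩⟩ (tC63.k2p tC63.xE) :=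
  posD_of_check (c := ⟨69, ⟨1, 1, 2, 1⟩⟩) (by decide +kernel)

def tC63_k2m : PosD ⟨⟨0, 1, 1⟩, ⟨98, 99, 147⟩, ⟨9258, 9444, 30000⟩, ⟨1532, 1554, 1000⟩⟩ (tC63.k2m tC63.xE) :=
  posD_of_check (c := ⟨31, ⟨0, 0, 1, 1⟩⟩) (by decide +kernel)

def tC63_v2p : PosD ⟨⟨0, 1, 1⟩, ⟨98, 99, 147⟩, ⟨9258, 9444, 30000⟩, ⟨1532, 1554, 1000⟩⟩ (tC63.hV2p) :=
  posD_of_check (c := ⟨271, ⟨1, 6, 10, 4⟩⟩) (by decide +kernel)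

def tC63_v2m : PosD ⟨⟨0, 1, 1⟩, ⟨98, 99, 147⟩, ⟨9258, 9444, 30000⟩, ⟨1532, 1554, 1000⟩⟩ (tC63.hV2m) :=
  posD_of_check (c := ⟨245, ⟨0, 5, 10, 4⟩⟩) (by decide +kernel)

def tC63_v3p : PosD ⟨⟨0, 1, 1⟩, ⟨98, 99, 147⟩, ⟨9258, 9444, 30000⟩, ⟨1532, 1554, 1000⟩⟩ (tC63.hV3p) :=
  posD_of_check (c := ⟨256, ⟨1, 6, 9, 4⟩⟩) (by decide +kernel)

def tC63_v3m : PosD ⟨⟨0, 1, 1⟩, ⟨98, 99, 147⟩, ⟨9258, 9444, 30000⟩, ⟨1532, 1554, 1000⟩⟩ (tC63.hV3m) :=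
  posD_of_check (c := ⟨232, ⟨0, 5, 9, 4⟩⟩) (by decide +kernel)

def tC63_kap0 : PosD ⟨⟨0, 1, 1⟩, ⟨98, 99, 147⟩, ⟨9258, 9444, 30000⟩, ⟨1532, 1554, 1000⟩⟩ (tC63.kap false) :=
  posD_of_check (c := ⟨70, ⟨1, 1, 2, 1⟩⟩) (by decide +kernel)

def tC63_c10 : PosD ⟨⟨0, 1, 1⟩, ⟨98, 99, 147⟩, ⟨9258, 9444, 30000⟩, ⟨1532, 1554, 1000⟩⟩ (tC63.hC1 false) :=
  posD_of_check (c := ⟨272, ⟨3, 5, 9, 6⟩⟩) (by decide +kernel)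

def tC63_c1h0 : PosD ⟨⟨0, 1, 1⟩, ⟨98, 99, 147⟩, ⟨9258, 9444, 30000⟩, ⟨1532, 1554, 1000⟩⟩ (tC63.hC1' false) :=
  posD_of_relax (k₁ := 0) (k₂ := 0) (k₃ := 129) (n := 16) (posD_of_check (c := ⟨272, ⟨3, 5, 9, 6⟩⟩) (by decide +kernel))

def tC63_tg00 : PosD ⟨⟨0, 1, 1⟩, ⟨98, 99, 147⟩, ⟨9258, 9444, 30000⟩, ⟨1532, 1554, 1000⟩⟩ (tC63.hG false (tC63.pEnd false)) :=
  posD_of_check (c := ⟨385, ⟨2, 7, 14, 7⟩⟩) (by decide +kernel)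

def tC63_c2p00 : PosD ⟨⟨0, 1, 1⟩, ⟨98, 99, 147⟩, ⟨9258, 9444, 30000⟩, ⟨1532, 1554, 1000⟩⟩ (tC63.hC2p false (tC63.pEnd false)) :=
  posD_of_check (c := ⟨455, ⟨3, 8, 16, 8⟩⟩) (by decide +kernel)

def tC63_c2m00 : PosD ⟨⟨0, 1, 1⟩, ⟨98, 99, 147⟩, ⟨9258, 9444, 30000⟩, ⟨1532, 1554, 1000⟩⟩ (tC63.hC2m false (tC63.pEnd false)) :=
  posD_of_check (c := ⟨429, ⟨2, 7, 16, 8⟩⟩) (by decide +kernel)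

def tC63_c3p00 : PosD ⟨⟨0, 1, 1⟩, ⟨98, 99, 147⟩, ⟨9258, 9444, 30000⟩, ⟨1532, 1554, 1000⟩⟩ (tC63.hC3p false false) :=
  posD_of_check (c := ⟨441, ⟨3, 8, 15, 8⟩⟩) (by decide +kernel)

def tC63_c3m00 : PosD ⟨⟨0, 1, 1⟩, ⟨98, 99, 147⟩, ⟨9258, 9444, 30000⟩, ⟨1532, 1554, 1000⟩⟩ (tC63.hC3m false false) :=
  posD_of_check (c := ⟨419, ⟨3, 7, 15, 8⟩⟩) (by decide +kernel)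

def tC63_c3ph00 : PosD ⟨⟨0, 1, 1⟩, ⟨98, 99, 147⟩, ⟨9258, 9444, 30000⟩, ⟨1532, 1554, 1000⟩⟩ (tC63.hC3p' false false) :=
  posD_of_check (c := ⟨441, ⟨3, 8, 15, 8⟩⟩) (by decide +kernel)

def tC63_c3mh00 : PosD ⟨⟨0, 1, 1⟩, ⟨98, 99, 147⟩, ⟨9258, 9444, 30000⟩, ⟨1532, 1554, 1000⟩⟩ (tC63.hC3m' false false) :=
  posD_of_check (c := ⟨419, ⟨3, 7, 15, 8⟩⟩) (by decide +kernel)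

def tC63_up00 : PosD ⟨⟨0, 1, 1⟩, ⟨98, 99, 147⟩, ⟨9258, 9444, 30000⟩, ⟨1532, 1554, 1000⟩⟩ (tC63.hUp false false) :=
  posD_of_check (c := ⟨440, ⟨3, 8, 15, 8⟩⟩) (by decide +kernel)

def tC63_um00 : PosD ⟨⟨0, 1, 1⟩, ⟨98, 99, 147⟩, ⟨9258, 9444, 30000⟩, ⟨1532, 1554, 1000⟩⟩ (tC63.hUm false false) :=
  posD_of_check (c := ⟨417, ⟨2, 7, 15, 8⟩⟩) (by decide +kernel)

def tC63_tmg00 : PosD ⟨⟨0, 1, 1⟩, ⟨98, 99, 147⟩, ⟨9258, 9444, 30000⟩, ⟨1532, 1554, 1000⟩⟩ (tC63.hTMG false (tC63.pEnd false)) :=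
  posD_of_check (c := ⟨400, ⟨2, 7, 14, 8⟩⟩) (by decide +kernel)

def tC63_tg01 : PosD ⟨⟨0, 1, 1⟩, ⟨98, 99, 147⟩, ⟨9258, 9444, 30000⟩, ⟨1532, 1554, 1000⟩⟩ (tC63.hG true (tC63.pEnd false)) :=
  posD_of_check (c := ⟨385, ⟨2, 7, 14, 7⟩⟩) (by decide +kernel)

def tC63_c2p01 : PosD ⟨⟨0, 1, 1⟩, ⟨98, 99, 147⟩, ⟨9258, 9444, 30000⟩, ⟨1532, 1554, 1000⟩⟩ (tC63.hC2p true (tC63.pEnd false)) :=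
  posD_of_check (c := ⟨455, ⟨3, 8, 16, 8⟩⟩) (by decide +kernel)

def tC63_c2m01 : PosD ⟨⟨0, 1, 1⟩, ⟨98, 99, 147⟩, ⟨9258, 9444, 30000⟩, ⟨1532, 1554, 1000⟩⟩ (tC63.hC2m true (tC63.pEnd false)) :=
  posD_of_check (c := ⟨428, ⟨2, 7, 16, 8⟩⟩) (by decide +kernel)

def tC63_c3p01 : PosD ⟨⟨0, 1, 1⟩, ⟨98, 99, 147⟩, ⟨9258, 9444, 30000⟩, ⟨1532, 1554, 1000⟩⟩ (tC63.hC3p false true) :=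
  posD_of_check (c := ⟨441, ⟨3, 8, 15, 8⟩⟩) (by decide +kernel)

def tC63_c3m01 : PosD ⟨⟨0, 1, 1⟩, ⟨98, 99, 147⟩, ⟨9258, 9444, 30000⟩, ⟨1532, 1554, 1000⟩⟩ (tC63.hC3m false true) :=
  posD_of_check (c := ⟨419, ⟨3, 7, 15, 8⟩⟩) (by decide +kernel)

def tC63_c3ph01 : PosD ⟨⟨0, 1, 1⟩, ⟨98, 99, 147⟩, ⟨9258, 9444, 30000⟩, ⟨1532, 1554, 1000⟩⟩ (tC63.hC3p' false true) :=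
  posD_of_check (c := ⟨441, ⟨3, 8, 15, 8⟩⟩) (by decide +kernel)

def tC63_c3mh01 : PosD ⟨⟨0, 1, 1⟩, ⟨98, 99, 147⟩, ⟨9258, 9444, 30000⟩, ⟨1532, 1554, 1000⟩⟩ (tC63.hC3m' false true) :=
  posD_of_check (c := ⟨419, ⟨3, 7, 15, 8⟩⟩) (by decide +kernel)

def tC63_up01 : PosD ⟨⟨0, 1, 1⟩, ⟨98, 99, 147⟩, ⟨9258, 9444, 30000⟩, ⟨1532, 1554, 1000⟩⟩ (tC63.hUp false true) :=
  posD_of_check (c := ⟨440, ⟨3, 8, 15, 8⟩⟩) (by decide +kernel)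

def tC63_um01 : PosD ⟨⟨0, 1, 1⟩, ⟨98, 99, 147⟩, ⟨9258, 9444, 30000⟩, ⟨1532, 1554, 1000⟩⟩ (tC63.hUm false true) :=
  posD_of_check (c := ⟨417, ⟨2, 7, 15, 8⟩⟩) (by decide +kernel)

def tC63_tmg01 : PosD ⟨⟨0, 1, 1⟩, ⟨98, 99, 147⟩, ⟨9258, 9444, 30000⟩, ⟨1532, 1554, 1000⟩⟩ (tC63.hTMG true (tC63.pEnd false)) :=
  posD_of_check (c := ⟨400, ⟨2, 7, 14, 8⟩⟩) (by decide +kernel)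

def tC63_kap1 : PosD ⟨⟨0, 1, 1⟩, ⟨98, 99, 147⟩, ⟨9258, 9444, 30000⟩, ⟨1532, 1554, 1000⟩⟩ (tC63.kap true) :=
  posD_of_check (c := ⟨70, ⟨1, 1, 2, 1⟩⟩) (by decide +kernel)

def tC63_c11 : PosD ⟨⟨0, 1, 1⟩, ⟨98, 99, 147⟩, ⟨9258, 9444, 30000⟩, ⟨1532, 1554, 1000⟩⟩ (tC63.hC1 true) :=
  posD_of_check (c := ⟨272, ⟨3, 5, 9, 6⟩⟩) (by decide +kernel)

def tC63_c1h1 : PosD ⟨⟨0, 1, 1⟩, ⟨98, 99, 147⟩, ⟨9258, 9444, 30000⟩, ⟨1532, 1554, 1000⟩⟩ (tC63.hC1' true) :=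
  posD_of_relax (k₁ := 0) (k₂ := 0) (k₃ := 127) (n := 16) (posD_of_check (c := ⟨272, ⟨3, 5, 9, 6⟩⟩) (by decide +kernel))

def tC63_tg10 : PosD ⟨⟨0, 1, 1⟩, ⟨98, 99, 147⟩, ⟨9258, 9444, 30000⟩, ⟨1532, 1554, 1000⟩⟩ (tC63.hG false (tC63.pEnd true)) :=
  posD_of_check (c := ⟨386, ⟨2, 7, 14, 7⟩⟩) (by decide +kernel)

def tC63_c2p10 : PosD ⟨⟨0, 1, 1⟩, ⟨98, 99, 147⟩, ⟨9258, 9444, 30000⟩, ⟨1532, 1554, 1000⟩⟩ (tC63.hC2p false (tC63.pEnd true)) :=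
  posD_of_check (c := ⟨455, ⟨3, 8, 16, 8⟩⟩) (by decide +kernel)

def tC63_c2m10 : PosD ⟨⟨0, 1, 1⟩, ⟨98, 99, 147⟩, ⟨9258, 9444, 30000⟩, ⟨1532, 1554, 1000⟩⟩ (tC63.hC2m false (tC63.pEnd true)) :=
  posD_of_check (c := ⟨429, ⟨2, 7, 16, 8⟩⟩) (by decide +kernel)

def tC63_c3p10 : PosD ⟨⟨0, 1, 1⟩, ⟨98, 99, 147⟩, ⟨9258, 9444, 30000⟩, ⟨1532, 1554, 1000⟩⟩ (tC63.hC3p true false) :=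
  posD_of_check (c := ⟨442, ⟨3, 8, 15, 8⟩⟩) (by decide +kernel)

def tC63_c3m10 : PosD ⟨⟨0, 1, 1⟩, ⟨98, 99, 147⟩, ⟨9258, 9444, 30000⟩, ⟨1532, 1554, 1000⟩⟩ (tC63.hC3m true false) :=
  posD_of_check (c := ⟨419, ⟨3, 7, 15, 8⟩⟩) (by decide +kernel)

def tC63_c3ph10 : PosD ⟨⟨0, 1, 1⟩, ⟨98, 99, 147⟩, ⟨9258, 9444, 30000⟩, ⟨1532, 1554, 1000⟩⟩ (tC63.hC3p' true false) :=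
  posD_of_check (c := ⟨442, ⟨3, 8, 15, 8⟩⟩) (by decide +kernel)

def tC63_c3mh10 : PosD ⟨⟨0, 1, 1⟩, ⟨98, 99, 147⟩, ⟨9258, 9444, 30000⟩, ⟨1532, 1554, 1000⟩⟩ (tC63.hC3m' true false) :=
  posD_of_check (c := ⟨419, ⟨3, 7, 15, 8⟩⟩) (by decide +kernel)

def tC63_up10 : PosD ⟨⟨0, 1, 1⟩, ⟨98, 99, 147⟩, ⟨9258, 9444, 30000⟩, ⟨1532, 1554, 1000⟩⟩ (tC63.hUp true false) :=
  posD_of_check (c := ⟨441, ⟨3, 8, 15, 8⟩⟩) (by decide +kernel)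

def tC63_um10 : PosD ⟨⟨0, 1, 1⟩, ⟨98, 99, 147⟩, ⟨9258, 9444, 30000⟩, ⟨1532, 1554, 1000⟩⟩ (tC63.hUm true false) :=
  posD_of_check (c := ⟨417, ⟨2, 7, 15, 8⟩⟩) (by decide +kernel)

def tC63_tmg10 : PosD ⟨⟨0, 1, 1⟩, ⟨98, 99, 147⟩, ⟨9258, 9444, 30000⟩, ⟨1532, 1554, 1000⟩⟩ (tC63.hTMG false (tC63.pEnd true)) :=
  posD_of_check (c := ⟨400, ⟨2, 7, 14, 8⟩⟩) (by decide +kernel)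

def tC63_tg11 : PosD ⟨⟨0, 1, 1⟩, ⟨98, 99, 147⟩, ⟨9258, 9444, 30000⟩, ⟨1532, 1554, 1000⟩⟩ (tC63.hG true (tC63.pEnd true)) :=
  posD_of_check (c := ⟨386, ⟨2, 7, 14, 7⟩⟩) (by decide +kernel)

def tC63_c2p11 : PosD ⟨⟨0, 1, 1⟩, ⟨98, 99, 147⟩, ⟨9258, 9444, 30000⟩, ⟨1532, 1554, 1000⟩⟩ (tC63.hC2p true (tC63.pEnd true)) :=
  posD_of_check (c := ⟨455, ⟨3, 8, 16, 8⟩⟩) (by decide +kernel)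

def tC63_c2m11 : PosD ⟨⟨0, 1, 1⟩, ⟨98, 99, 147⟩, ⟨9258, 9444, 30000⟩, ⟨1532, 1554, 1000⟩⟩ (tC63.hC2m true (tC63.pEnd true)) :=
  posD_of_check (c := ⟨429, ⟨2, 7, 16, 8⟩⟩) (by decide +kernel)

def tC63_c3p11 : PosD ⟨⟨0, 1, 1⟩, ⟨98, 99, 147⟩, ⟨9258, 9444, 30000⟩, ⟨1532, 1554, 1000⟩⟩ (tC63.hC3p true true) :=
  posD_of_check (c := ⟨442, ⟨3, 8, 15, 8⟩⟩) (by decide +kernel)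

def tC63_c3m11 : PosD ⟨⟨0, 1, 1⟩, ⟨98, 99, 147⟩, ⟨9258, 9444, 30000⟩, ⟨1532, 1554, 1000⟩⟩ (tC63.hC3m true true) :=
  posD_of_check (c := ⟨419, ⟨3, 7, 15, 8⟩⟩) (by decide +kernel)

def tC63_c3ph11 : PosD ⟨⟨0, 1, 1⟩, ⟨98, 99, 147⟩, ⟨9258, 9444, 30000⟩, ⟨1532, 1554, 1000⟩⟩ (tC63.hC3p' true true) :=
  posD_of_check (c := ⟨442, ⟨3, 8, 15, 8⟩⟩) (by decide +kernel)

def tC63_c3mh11 : PosD ⟨⟨0, 1, 1⟩, ⟨98, 99, 147⟩, ⟨9258, 9444, 30000⟩, ⟨1532, 1554, 1000⟩⟩ (tC63.hC3m' true true) :=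
  posD_of_check (c := ⟨419, ⟨3, 7, 15, 8⟩⟩) (by decide +kernel)

def tC63_up11 : PosD ⟨⟨0, 1, 1⟩, ⟨98, 99, 147⟩, ⟨9258, 9444, 30000⟩, ⟨1532, 1554, 1000⟩⟩ (tC63.hUp true true) :=
  posD_of_check (c := ⟨441, ⟨3, 8, 15, 8⟩⟩) (by decide +kernel)

def tC63_um11 : PosD ⟨⟨0, 1, 1⟩, ⟨98, 99, 147⟩, ⟨9258, 9444, 30000⟩, ⟨1532, 1554, 1000⟩⟩ (tC63.hUm true true) :=
  posD_of_check (c := ⟨417, ⟨2, 7, 15, 8⟩⟩) (by decide +kernel)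

def tC63_tmg11 : PosD ⟨⟨0, 1, 1⟩, ⟨98, 99, 147⟩, ⟨9258, 9444, 30000⟩, ⟨1532, 1554, 1000⟩⟩ (tC63.hTMG true (tC63.pEnd true)) :=
  posD_of_check (c := ⟨400, ⟨2, 7, 14, 8⟩⟩) (by decide +kernel)

/-- The signs of the piece. -/
def tC63_sign : tC63.Sign ⟨⟨0, 1, 1⟩, ⟨98, 99, 147⟩, ⟨9258, 9444, 30000⟩, ⟨1532, 1554, 1000⟩⟩ :=
  ⟨tC63_pp,
    tC63_k2p,
    tC63_k2m,
    Bool.forall_bool.2 ⟨(Bool.forall_bool.2 ⟨tC63_tg00, tC63_tg01⟩), (Bool.forall_bool.2 ⟨tC63_tg10, tC63_tg11⟩)⟩,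
    Bool.forall_bool.2 ⟨(Bool.forall_bool.2 ⟨tC63_c2p00, tC63_c2p01⟩), (Bool.forall_bool.2 ⟨tC63_c2p10, tC63_c2p11⟩)⟩,
    Bool.forall_bool.2 ⟨(Bool.forall_bool.2 ⟨tC63_c2m00, tC63_c2m01⟩), (Bool.forall_bool.2 ⟨tC63_c2m10, tC63_c2m11⟩)⟩,
    Bool.forall_bool.2 ⟨tC63_kap0, tC63_kap1⟩,
    Bool.forall_bool.2 ⟨tC63_c10, tC63_c11⟩,
    Bool.forall_bool.2 ⟨(Bool.forall_bool.2 ⟨tC63_c3p00, tC63_c3p01⟩), (Bool.forall_bool.2 ⟨tC63_c3p10, tC63_c3p11⟩)⟩,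
    Bool.forall_bool.2 ⟨(Bool.forall_bool.2 ⟨tC63_c3m00, tC63_c3m01⟩), (Bool.forall_bool.2 ⟨tC63_c3m10, tC63_c3m11⟩)⟩,
    Bool.forall_bool.2 ⟨(Bool.forall_bool.2 ⟨tC63_tmg00, tC63_tmg01⟩), (Bool.forall_bool.2 ⟨tC63_tmg10, tC63_tmg11⟩)⟩,
    .inr (Bool.forall_bool.2 ⟨⟨tC63_c1h0, Bool.forall_bool.2 ⟨⟨tC63_c3ph00, tC63_c3mh00, tC63_up00, tC63_um00⟩, ⟨tC63_c3ph01, tC63_c3mh01, tC63_up01, tC63_um01⟩⟩⟩, ⟨tC63_c1h1, Bool.forall_bool.2 ⟨⟨tC63_c3ph10, tC63_c3mh10, tC63_up10, tC63_um10⟩, ⟨tC63_c3ph11, tC63_c3mh11, tC63_up11, tC63_um11⟩⟩⟩⟩),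
    tC63_v2p,
    tC63_v2m,
    tC63_v3p,
    tC63_v3m,
    posD_sub (b := ⟨⟨0, 1, 1⟩, ⟨98, 99, 147⟩, ⟨4050, 10000, 30000⟩, ⟨290, 4000, 1000⟩⟩) (by decide +kernel) tC_vG,
    posD_sub (b := ⟨⟨0, 1, 1⟩, ⟨98, 99, 147⟩, ⟨4050, 10000, 30000⟩, ⟨290, 4000, 1000⟩⟩) (by decide +kernel) tC_vMG,
    posD_sub (b := ⟨⟨0, 1, 1⟩, ⟨98, 99, 147⟩, ⟨4050, 10000, 30000⟩, ⟨290, 4000, 1000⟩⟩) (by decide +kernel) tC_ak,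
    posD_sub (b := ⟨⟨0, 1, 1⟩, ⟨98, 99, 147⟩, ⟨4050, 10000, 30000⟩, ⟨290, 4000, 1000⟩⟩) (by decide +kernel) tC_aw,
    posD_sub (b := ⟨⟨0, 1, 1⟩, ⟨98, 99, 147⟩, ⟨4050, 10000, 30000⟩, ⟨290, 4000, 1000⟩⟩) (by decide +kernel) tC_gk,
    posD_sub (b := ⟨⟨0, 1, 1⟩, ⟨98, 99, 147⟩, ⟨4050, 10000, 30000⟩, ⟨290, 4000, 1000⟩⟩) (by decide +kernel) tC_gw,
    posD_sub (b := ⟨⟨0, 1, 1⟩, ⟨98, 99, 147⟩, ⟨4050, 10000, 30000⟩, ⟨290, 4000, 1000⟩⟩) (by decide +kernel) tC_ek,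
    posD_sub (b := ⟨⟨0, 1, 1⟩, ⟨98, 99, 147⟩, ⟨4050, 10000, 30000⟩, ⟨290, 4000, 1000⟩⟩) (by decide +kernel) tC_ew⟩

def tC64_phx : PosD ⟨⟨0, 1, 1⟩, ⟨98, 99, 147⟩, ⟨9258, 9444, 30000⟩, ⟨1554, 1599, 1000⟩⟩ (phCn (tC64Hi + xO * (tC64Lo - tC64Hi))) :=
  posD_of_check (c := ⟨75, ⟨2, 0, 2, 1⟩⟩) (by decide +kernel)

def tC64_phd : PosD ⟨⟨0, 1, 1⟩, ⟨98, 99, 147⟩, ⟨9258, 9444, 30000⟩, ⟨1554, 1599, 1000⟩⟩ (phCd (tC64Hi + xO * (tC64Lo - tC64Hi))) :=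
  posD_of_check (c := ⟨50, ⟨1, 0, 2, 0⟩⟩) (by decide +kernel)

def tC65_phx : PosIf ⟨⟨0, 1, 1⟩, ⟨98, 99, 147⟩, ⟨9444, 9630, 30000⟩, ⟨1532, 1590, 1000⟩⟩ (tC65.u₁ - tC65Lo) (phCn (tC65.u₁ + xO * (tC65Lo - tC65.u₁))) :=
  posIf_of_posD (posD_of_check (c := ⟨109, ⟨2, 0, 4, 2⟩⟩) (by decide +kernel))

def tC65_phd : PosD ⟨⟨0, 1, 1⟩, ⟨98, 99, 147⟩, ⟨9444, 9630, 30000⟩, ⟨1532, 1590, 1000⟩⟩ (phCd (tC65.u₁ + xO * (tC65Lo - tC65.u₁))) :=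
  posD_of_check (c := ⟨51, ⟨1, 0, 2, 1⟩⟩) (by decide +kernel)

def tC65_p0 : PosD ⟨⟨0, 1, 1⟩, ⟨98, 99, 147⟩, ⟨9444, 9630, 30000⟩, ⟨1532, 1590, 1000⟩⟩ (tC65.hP0) :=
  posD_of_check (c := ⟨83, ⟨0, 2, 3, 1⟩⟩) (by decide +kernel)

def tC65_gn : PosD ⟨⟨0, 1, 1⟩, ⟨98, 99, 147⟩, ⟨9444, 9630, 30000⟩, ⟨1532, 1590, 1000⟩⟩ (tC65.hGn) :=
  posD_of_check (c := ⟨69, ⟨1, 1, 2, 2⟩⟩) (by decide +kernel)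

def tC65_den0 : PosD ⟨⟨0, 1, 1⟩, ⟨98, 99, 147⟩, ⟨9444, 9630, 30000⟩, ⟨1532, 1590, 1000⟩⟩ (tC65.hDen false) :=
  posD_of_check (c := ⟨51, ⟨1, 0, 2, 1⟩⟩) (by decide +kernel)

def tC65_den1 : PosD ⟨⟨0, 1, 1⟩, ⟨98, 99, 147⟩, ⟨9444, 9630, 30000⟩, ⟨1532, 1590, 1000⟩⟩ (tC65.hDen true) :=
  posD_of_check (c := ⟨51, ⟨1, 0, 2, 1⟩⟩) (by decide +kernel)

def tC65_none0 : PosD ⟨⟨0, 1, 1⟩, ⟨98, 99, 147⟩, ⟨9444, 9630, 30000⟩, ⟨1532, 1590, 1000⟩⟩ (tC65.hNone false) :=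
  posD_of_check (c := ⟨355, ⟨5, 6, 11, 7⟩⟩) (by decide +kernel)

def tC65_none1 : PosD ⟨⟨0, 1, 1⟩, ⟨98, 99, 147⟩, ⟨9444, 9630, 30000⟩, ⟨1532, 1590, 1000⟩⟩ (tC65.hNone true) :=
  posD_of_check (c := ⟨354, ⟨5, 6, 11, 7⟩⟩) (by decide +kernel)

def tC65_nupU : PosD ⟨⟨0, 1, 1⟩, ⟨98, 99, 147⟩, ⟨9444, 9630, 30000⟩, ⟨1532, 1590, 1000⟩⟩ (tC65.pU.ν) :=
  posD_of_check (c := ⟨54, ⟨0, 0, 1, 1⟩⟩) (by decide +kernel)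

/-- No point in the piece. -/
def tC65_empty : tC65.Empty ⟨⟨0, 1, 1⟩, ⟨98, 99, 147⟩, ⟨9444, 9630, 30000⟩, ⟨1532, 1590, 1000⟩⟩ :=
  ⟨tC65_p0, Bool.forall_bool.2 ⟨tC65_den0, tC65_den1⟩, tC65_gn, ⟨.inr rfl, .inl tC65_nupU⟩, Bool.forall_bool.2 ⟨tC65_none0, tC65_none1⟩⟩

def tC66_phx : PosD ⟨⟨0, 1, 1⟩, ⟨98, 99, 147⟩, ⟨9630, 10000, 30000⟩, ⟨1532, 1599, 1000⟩⟩ (phCn (tC66Hi + xO * (tC66Lo - tC66Hi))) :=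
  posD_of_check (c := ⟨75, ⟨2, 0, 2, 1⟩⟩) (by decide +kernel)

def tC66_phd : PosD ⟨⟨0, 1, 1⟩, ⟨98, 99, 147⟩, ⟨9630, 10000, 30000⟩, ⟨1532, 1599, 1000⟩⟩ (phCd (tC66Hi + xO * (tC66Lo - tC66Hi))) :=
  posD_of_check (c := ⟨50, ⟨1, 0, 2, 0⟩⟩) (by decide +kernel)

def tC67_phx : PosD ⟨⟨0, 1, 1⟩, ⟨98, 99, 147⟩, ⟨7026, 10000, 30000⟩, ⟨1599, 1900, 1000⟩⟩ (phCn (tC67Hi + xO * (tC67Lo - tC67Hi))) :=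
  posD_of_check (c := ⟨73, ⟨2, 0, 2, 1⟩⟩) (by decide +kernel)

def tC67_phd : PosD ⟨⟨0, 1, 1⟩, ⟨98, 99, 147⟩, ⟨7026, 10000, 30000⟩, ⟨1599, 1900, 1000⟩⟩ (phCd (tC67Hi + xO * (tC67Lo - tC67Hi))) :=
  posD_of_check (c := ⟨50, ⟨1, 0, 2, 0⟩⟩) (by decide +kernel)

def tC68_phx : PosIf ⟨⟨0, 1, 1⟩, ⟨98, 99, 147⟩, ⟨8886, 9258, 30000⟩, ⟨1599, 1690, 1000⟩⟩ (tC68.u₁ - tC68Lo) (phCn (tC68.u₁ + xO * (tC68Lo - tC68.u₁))) :=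
  posIf_of_posD (posD_of_check (c := ⟨109, ⟨2, 0, 4, 2⟩⟩) (by decide +kernel))

def tC68_phd : PosD ⟨⟨0, 1, 1⟩, ⟨98, 99, 147⟩, ⟨8886, 9258, 30000⟩, ⟨1599, 1690, 1000⟩⟩ (phCd (tC68.u₁ + xO * (tC68Lo - tC68.u₁))) :=
  posD_of_check (c := ⟨51, ⟨1, 0, 2, 1⟩⟩) (by decide +kernel)

def tC68_p0 : PosD ⟨⟨0, 1, 1⟩, ⟨98, 99, 147⟩, ⟨8886, 9258, 30000⟩, ⟨1599, 1690, 1000⟩⟩ (tC68.hP0) :=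
  posD_of_check (c := ⟨83, ⟨0, 2, 3, 1⟩⟩) (by decide +kernel)

def tC68_gn : PosD ⟨⟨0, 1, 1⟩, ⟨98, 99, 147⟩, ⟨8886, 9258, 30000⟩, ⟨1599, 1690, 1000⟩⟩ (tC68.hGn) :=
  posD_of_check (c := ⟨69, ⟨1, 1, 2, 2⟩⟩) (by decide +kernel)

def tC68_den0 : PosD ⟨⟨0, 1, 1⟩, ⟨98, 99, 147⟩, ⟨8886, 9258, 30000⟩, ⟨1599, 1690, 1000⟩⟩ (tC68.hDen false) :=
  posD_of_check (c := ⟨51, ⟨1, 0, 2, 1⟩⟩) (by decide +kernel)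

def tC68_den1 : PosD ⟨⟨0, 1, 1⟩, ⟨98, 99, 147⟩, ⟨8886, 9258, 30000⟩, ⟨1599, 1690, 1000⟩⟩ (tC68.hDen true) :=
  posD_of_check (c := ⟨51, ⟨1, 0, 2, 1⟩⟩) (by decide +kernel)

def tC68_none0 : PosD ⟨⟨0, 1, 1⟩, ⟨98, 99, 147⟩, ⟨8886, 9258, 30000⟩, ⟨1599, 1690, 1000⟩⟩ (tC68.hNone false) :=
  posD_of_check (c := ⟨355, ⟨5, 6, 11, 7⟩⟩) (by decide +kernel)

def tC68_none1 : PosD ⟨⟨0, 1, 1⟩, ⟨98, 99, 147⟩, ⟨8886, 9258, 30000⟩, ⟨1599, 1690, 1000⟩⟩ (tC68.hNone true) :=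
  posD_of_check (c := ⟨353, ⟨5, 6, 11, 7⟩⟩) (by decide +kernel)

def tC68_nupU : PosD ⟨⟨0, 1, 1⟩, ⟨98, 99, 147⟩, ⟨8886, 9258, 30000⟩, ⟨1599, 1690, 1000⟩⟩ (tC68.pU.ν) :=
  posD_of_check (c := ⟨54, ⟨0, 0, 1, 1⟩⟩) (by decide +kernel)

/-- No point in the piece. -/
def tC68_empty : tC68.Empty ⟨⟨0, 1, 1⟩, ⟨98, 99, 147⟩, ⟨8886, 9258, 30000⟩, ⟨1599, 1690, 1000⟩⟩ :=
  ⟨tC68_p0, Bool.forall_bool.2 ⟨tC68_den0, tC68_den1⟩, tC68_gn, ⟨.inr rfl, .inl tC68_nupU⟩, Bool.forall_bool.2 ⟨tC68_none0, tC68_none1⟩⟩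

def tC69_phx : PosD ⟨⟨0, 1, 1⟩, ⟨98, 99, 147⟩, ⟨9258, 10000, 30000⟩, ⟨1599, 1743, 1000⟩⟩ (phCn (tC69Hi + xO * (tC69Lo - tC69Hi))) :=
  posD_of_check (c := ⟨73, ⟨2, 0, 2, 1⟩⟩) (by decide +kernel)

def tC69_phd : PosD ⟨⟨0, 1, 1⟩, ⟨98, 99, 147⟩, ⟨9258, 10000, 30000⟩, ⟨1599, 1743, 1000⟩⟩ (phCd (tC69Hi + xO * (tC69Lo - tC69Hi))) :=
  posD_of_check (c := ⟨50, ⟨1, 0, 2, 0⟩⟩) (by decide +kernel)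

end Vale.Agent.P100.Calib.Closed.Six.Tail
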