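import Vale.Agent.P100.Calib.SlabSixTailDataC
import Vale.Agent.P100.Calib.SlabSixTailGlobC

/-!
# Checks of some pieces of the certificate

The checks are written as definitions so that they run one after another, which keeps the memory of the
kernel low.
-/

set_option linter.defProp false

namespace Vale.Agent.P100.Calib.Closed.Six.Tail

open BoxPos Large

local instance sixTailCheckstC44Add : Add Ex := ⟨Ex.add⟩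
local instance sixTailCheckstC44Sub : Sub Ex := ⟨Ex.sub⟩
local instance sixTailCheckstC44Mul : Mul Ex := ⟨Ex.mul⟩

def tC70_phx : PosIf ⟨⟨0, 1, 1⟩, ⟨98, 99, 147⟩, ⟨4050, 7026, 30000⟩, ⟨1900, 2259, 1000⟩⟩ (tC70.u₁ - tC70Lo) (phCn (tC70.u₁ + xO * (tC70Lo - tC70.u₁))) :=
  posIf_of_posD (posD_of_check (c := ⟨108, ⟨2, 0, 4, 2⟩⟩) (by decide +kernel))

def tC70_phd : PosD ⟨⟨0, 1, 1⟩, ⟨98, 99, 147⟩, ⟨4050, 7026, 30000⟩, ⟨1900, 2259, 1000⟩⟩ (phCd (tC70.u₁ + xO * (tC70Lo - tC70.u₁))) :=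
  posD_of_check (c := ⟨51, ⟨1, 0, 2, 1⟩⟩) (by decide +kernel)

def tC70_p0 : PosD ⟨⟨0, 1, 1⟩, ⟨98, 99, 147⟩, ⟨4050, 7026, 30000⟩, ⟨1900, 2259, 1000⟩⟩ (tC70.hP0) :=
  posD_of_check (c := ⟨83, ⟨0, 2, 3, 1⟩⟩) (by decide +kernel)

def tC70_gn : PosD ⟨⟨0, 1, 1⟩, ⟨98, 99, 147⟩, ⟨4050, 7026, 30000⟩, ⟨1900, 2259, 1000⟩⟩ (tC70.hGn) :=
  posD_of_check (c := ⟨69, ⟨1, 1, 2, 2⟩⟩) (by decide +kernel)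

def tC70_den0 : PosD ⟨⟨0, 1, 1⟩, ⟨98, 99, 147⟩, ⟨4050, 7026, 30000⟩, ⟨1900, 2259, 1000⟩⟩ (tC70.hDen false) :=
  posD_of_check (c := ⟨51, ⟨1, 0, 2, 1⟩⟩) (by decide +kernel)

def tC70_den1 : PosD ⟨⟨0, 1, 1⟩, ⟨98, 99, 147⟩, ⟨4050, 7026, 30000⟩, ⟨1900, 2259, 1000⟩⟩ (tC70.hDen true) :=
  posD_of_check (c := ⟨179, ⟨3, 4, 6, 4⟩⟩) (by decide +kernel)

def tC70_ev0 : PosD ⟨⟨0, 1, 1⟩, ⟨98, 99, 147⟩, ⟨4050, 7026, 30000⟩, ⟨1900, 2259, 1000⟩⟩ (tC70.hEv false) :=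
  posD_of_check (c := ⟨218, ⟨4, 2, 8, 4⟩⟩) (by decide +kernel)

def tC70_zL0a : PosD ⟨⟨0, 1, 1⟩, ⟨98, 99, 147⟩, ⟨4050, 5538, 30000⟩, ⟨1900, 2259, 1000⟩⟩ (tC70.hZL false) :=
  posD_of_check (c := ⟨220, ⟨4, 3, 8, 4⟩⟩) (by decide +kernel)

def tC70_zL0b : PosD ⟨⟨0, 1, 1⟩, ⟨98, 99, 147⟩, ⟨5538, 7026, 30000⟩, ⟨1900, 2259, 1000⟩⟩ (tC70.hZL false) :=
  posD_of_check (c := ⟨221, ⟨4, 3, 8, 4⟩⟩) (by decide +kernel)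

def tC70_zL0 : PosD ⟨⟨0, 1, 1⟩, ⟨98, 99, 147⟩, ⟨4050, 7026, 30000⟩, ⟨1900, 2259, 1000⟩⟩ (tC70.hZL false) :=
  posD_join₂ tC70_zL0a tC70_zL0b

def tC70_zU0 : PosD ⟨⟨0, 1, 1⟩, ⟨98, 99, 147⟩, ⟨4050, 7026, 30000⟩, ⟨1900, 2259, 1000⟩⟩ (tC70.hZU false) :=
  posD_of_check (c := ⟨220, ⟨4, 3, 8, 4⟩⟩) (by decide +kernel)

def tC70_eL0a : PosD ⟨⟨0, 1, 1⟩, ⟨98, 99, 147⟩, ⟨4050, 5538, 30000⟩, ⟨1900, 2259, 1000⟩⟩ (tC70.hEL false) :=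
  posD_of_check (c := ⟨312, ⟨5, 6, 11, 6⟩⟩) (by decide +kernel)

def tC70_eL0b : PosD ⟨⟨0, 1, 1⟩, ⟨98, 99, 147⟩, ⟨5538, 7026, 30000⟩, ⟨1900, 2259, 1000⟩⟩ (tC70.hEL false) :=
  posD_of_check (c := ⟨313, ⟨5, 6, 11, 6⟩⟩) (by decide +kernel)

def tC70_eL0 : PosD ⟨⟨0, 1, 1⟩, ⟨98, 99, 147⟩, ⟨4050, 7026, 30000⟩, ⟨1900, 2259, 1000⟩⟩ (tC70.hEL false) :=
  posD_join₂ tC70_eL0a tC70_eL0b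

def tC70_eH0 : PosD ⟨⟨0, 1, 1⟩, ⟨98, 99, 147⟩, ⟨4050, 7026, 30000⟩, ⟨1900, 2259, 1000⟩⟩ (tC70.hEH false) :=
  posD_of_check (c := ⟨344, ⟨5, 6, 11, 7⟩⟩) (by decide +kernel)

def tC70_pL0a : PosD ⟨⟨0, 1, 1⟩, ⟨98, 99, 147⟩, ⟨4050, 5538, 30000⟩, ⟨1900, 2259, 1000⟩⟩ (tC70.hPL false) :=
  posD_of_check (c := ⟨339, ⟨5, 6, 11, 7⟩⟩) (by decide +kernel)

def tC70_pL0b : PosD ⟨⟨0, 1, 1⟩, ⟨98, 99, 147⟩, ⟨5538, 7026, 30000⟩, ⟨1900, 2259, 1000⟩⟩ (tC70.hPL false) :=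
  posD_of_check (c := ⟨340, ⟨5, 6, 11, 7⟩⟩) (by decide +kernel)

def tC70_pL0 : PosD ⟨⟨0, 1, 1⟩, ⟨98, 99, 147⟩, ⟨4050, 7026, 30000⟩, ⟨1900, 2259, 1000⟩⟩ (tC70.hPL false) :=
  posD_join₂ tC70_pL0a tC70_pL0b

def tC70_pU0 : PosD ⟨⟨0, 1, 1⟩, ⟨98, 99, 147⟩, ⟨4050, 7026, 30000⟩, ⟨1900, 2259, 1000⟩⟩ (tC70.hPU false) :=
  posD_of_check (c := ⟨346, ⟨5, 6, 11, 7⟩⟩) (by decide +kernel)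

def tC70_kU0 : PosD ⟨⟨0, 1, 1⟩, ⟨98, 99, 147⟩, ⟨4050, 7026, 30000⟩, ⟨1900, 2259, 1000⟩⟩ (tC70.hKU false) :=
  posD_of_check (c := ⟨341, ⟨5, 6, 11, 7⟩⟩) (by decide +kernel)

def tC70_kL0 : PosD ⟨⟨0, 1, 1⟩, ⟨98, 99, 147⟩, ⟨4050, 7026, 30000⟩, ⟨1900, 2259, 1000⟩⟩ (tC70.hKL false) :=
  posD_of_check (c := ⟨335, ⟨5, 6, 11, 7⟩⟩) (by decide +kernel)

def tC70_wU0 : PosD ⟨⟨0, 1, 1⟩, ⟨98, 99, 147⟩, ⟨4050, 7026, 30000⟩, ⟨1900, 2259, 1000⟩⟩ (tC70.hWU false) :=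
  posD_of_check (c := ⟨376, ⟨5, 8, 12, 7⟩⟩) (by decide +kernel)

def tC70_wL0a : PosD ⟨⟨0, 1, 1⟩, ⟨98, 99, 147⟩, ⟨4050, 5538, 30000⟩, ⟨1900, 2259, 1000⟩⟩ (tC70.hWL false) :=
  posD_of_check (c := ⟨376, ⟨5, 8, 12, 7⟩⟩) (by decide +kernel)

def tC70_wL0b : PosD ⟨⟨0, 1, 1⟩, ⟨98, 99, 147⟩, ⟨5538, 7026, 30000⟩, ⟨1900, 2259, 1000⟩⟩ (tC70.hWL false) :=
  posD_of_check (c := ⟨377, ⟨5, 8, 12, 7⟩⟩) (by decide +kernel)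

def tC70_wL0 : PosD ⟨⟨0, 1, 1⟩, ⟨98, 99, 147⟩, ⟨4050, 7026, 30000⟩, ⟨1900, 2259, 1000⟩⟩ (tC70.hWL false) :=
  posD_join₂ tC70_wL0a tC70_wL0b

def tC70_ev1 : PosD ⟨⟨0, 1, 1⟩, ⟨98, 99, 147⟩, ⟨4050, 7026, 30000⟩, ⟨1900, 2259, 1000⟩⟩ (tC70.hEv true) :=
  posD_of_check (c := ⟨272, ⟨4, 6, 9, 6⟩⟩) (by decide +kernel)

def tC70_zL1 : PosD ⟨⟨0, 1, 1⟩, ⟨98, 99, 147⟩, ⟨4050, 7026, 30000⟩, ⟨1900, 2259, 1000⟩⟩ (tC70.hZL true) :=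
  posD_of_check (c := ⟨296, ⟨4, 7, 10, 7⟩⟩) (by decide +kernel)

def tC70_zU1 : PosD ⟨⟨0, 1, 1⟩, ⟨98, 99, 147⟩, ⟨4050, 7026, 30000⟩, ⟨1900, 2259, 1000⟩⟩ (tC70.hZU true) :=
  posD_of_check (c := ⟨296, ⟨4, 7, 10, 7⟩⟩) (by decide +kernel)

def tC70_eL1 : PosD ⟨⟨0, 1, 1⟩, ⟨98, 99, 147⟩, ⟨4050, 7026, 30000⟩, ⟨1900, 2259, 1000⟩⟩ (tC70.hEL true) :=
  posD_of_check (c := ⟨367, ⟨5, 10, 12, 8⟩⟩) (by decide +kernel)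

def tC70_eH1 : PosD ⟨⟨0, 1, 1⟩, ⟨98, 99, 147⟩, ⟨4050, 7026, 30000⟩, ⟨1900, 2259, 1000⟩⟩ (tC70.hEH true) :=
  posD_of_check (c := ⟨398, ⟨5, 10, 12, 9⟩⟩) (by decide +kernel)

def tC70_pL1a : PosD ⟨⟨0, 1, 1⟩, ⟨98, 99, 147⟩, ⟨4050, 7026, 30000⟩, ⟨1900, 2079, 1000⟩⟩ (tC70.hPL true) :=
  posD_of_check (c := ⟨393, ⟨5, 10, 12, 9⟩⟩) (by decide +kernel)

def tC70_pL1b : PosD ⟨⟨0, 1, 1⟩, ⟨98, 99, 147⟩, ⟨4050, 7026, 30000⟩, ⟨2079, 2259, 1000⟩⟩ (tC70.hPL true) :=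
  posD_of_check (c := ⟨394, ⟨5, 10, 12, 9⟩⟩) (by decide +kernel)

def tC70_pL1 : PosD ⟨⟨0, 1, 1⟩, ⟨98, 99, 147⟩, ⟨4050, 7026, 30000⟩, ⟨1900, 2259, 1000⟩⟩ (tC70.hPL true) :=
  posD_join₃ tC70_pL1a tC70_pL1b

def tC70_pU1 : PosD ⟨⟨0, 1, 1⟩, ⟨98, 99, 147⟩, ⟨4050, 7026, 30000⟩, ⟨1900, 2259, 1000⟩⟩ (tC70.hPU true) :=
  posD_of_check (c := ⟨400, ⟨5, 10, 12, 9⟩⟩) (by decide +kernel)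

def tC70_kU1 : PosD ⟨⟨0, 1, 1⟩, ⟨98, 99, 147⟩, ⟨4050, 7026, 30000⟩, ⟨1900, 2259, 1000⟩⟩ (tC70.hKU true) :=
  posD_of_check (c := ⟨395, ⟨5, 10, 12, 9⟩⟩) (by decide +kernel)

def tC70_kL1 : PosD ⟨⟨0, 1, 1⟩, ⟨98, 99, 147⟩, ⟨4050, 7026, 30000⟩, ⟨1900, 2259, 1000⟩⟩ (tC70.hKL true) :=
  posD_of_check (c := ⟨389, ⟨5, 10, 12, 9⟩⟩) (by decide +kernel)

def tC70_wU1 : PosD ⟨⟨0, 1, 1⟩, ⟨98, 99, 147⟩, ⟨4050, 7026, 30000⟩, ⟨1900, 2259, 1000⟩⟩ (tC70.hWU true) :=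
  posD_of_check (c := ⟨430, ⟨5, 12, 13, 9⟩⟩) (by decide +kernel)

def tC70_wL1 : PosD ⟨⟨0, 1, 1⟩, ⟨98, 99, 147⟩, ⟨4050, 7026, 30000⟩, ⟨1900, 2259, 1000⟩⟩ (tC70.hWL true) :=
  posD_of_check (c := ⟨430, ⟨5, 12, 13, 9⟩⟩) (by decide +kernel)

def tC70_nueH : PosD ⟨⟨0, 1, 1⟩, ⟨98, 99, 147⟩, ⟨4050, 7026, 30000⟩, ⟨1900, 2259, 1000⟩⟩ (tC70.eH.ν) :=
  posD_of_check (c := ⟨45, ⟨0, 0, 1, 1⟩⟩) (by decide +kernel)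

def tC70_nupU : PosD ⟨⟨0, 1, 1⟩, ⟨98, 99, 147⟩, ⟨4050, 7026, 30000⟩, ⟨1900, 2259, 1000⟩⟩ (tC70.pU.ν) :=
  posD_of_check (c := ⟨46, ⟨0, 0, 1, 1⟩⟩) (by decide +kernel)

def tC70_nukU : PosD ⟨⟨0, 1, 1⟩, ⟨98, 99, 147⟩, ⟨4050, 7026, 30000⟩, ⟨1900, 2259, 1000⟩⟩ (tC70.kU.ν) :=
  posD_of_check (c := ⟨39, ⟨0, 0, 1, 1⟩⟩) (by decide +kernel)

def tC70_nuwU : PosD ⟨⟨0, 1, 1⟩, ⟨98, 99, 147⟩, ⟨4050, 7026, 30000⟩, ⟨1900, 2259, 1000⟩⟩ (tC70.wU.ν) :=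
  posD_of_check (c := ⟨44, ⟨0, 0, 1, 1⟩⟩) (by decide +kernel)

def tC70_nuwL : PosD ⟨⟨0, 1, 1⟩, ⟨98, 99, 147⟩, ⟨4050, 7026, 30000⟩, ⟨1900, 2259, 1000⟩⟩ (tC70.wL.ν) :=
  posD_of_check (c := ⟨44, ⟨0, 0, 1, 1⟩⟩) (by decide +kernel)

/-- The bounds of the piece. -/
def tC70_env : tC70.Env ⟨⟨0, 1, 1⟩, ⟨98, 99, 147⟩, ⟨4050, 7026, 30000⟩, ⟨1900, 2259, 1000⟩⟩ :=
  ⟨tC70_p0, Bool.forall_bool.2 ⟨tC70_den0, tC70_den1⟩, tC70_gn, Bool.forall_bool.2 ⟨tC70_ev0, tC70_ev1⟩, Bool.forall_bool.2 ⟨tC70_zL0, tC70_zL1⟩, Bool.forall_bool.2 ⟨tC70_zU0, tC70_zU1⟩, Bool.forall_bool.2 ⟨tC70_eL0, tC70_eL1⟩, ⟨.inr rfl, .inr rfl⟩, Bool.forall_bool.2 ⟨tC70_eH0, tC70_eH1⟩, ⟨.inr rfl, .inl tC70_nueH⟩, Bool.forall_bool.2 ⟨tC70_pL0, tC70_pL1⟩, ⟨.inr rfl, .inr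 rfl⟩, Bool.forall_bool.2 ⟨tC70_pU0, tC70_pU1⟩, ⟨.inr rfl, .inl tC70_nupU⟩, Bool.forall_bool.2 ⟨tC70_kU0, tC70_kU1⟩, ⟨.inr rfl, .inl tC70_nukU⟩, Bool.forall_bool.2 ⟨tC70_kL0, tC70_kL1⟩, ⟨.inr rfl, .inr rfl⟩, Bool.forall_bool.2 ⟨tC70_wU0, tC70_wU1⟩, ⟨.inr rfl, .inl tC70_nuwU⟩, Bool.forall_bool.2 ⟨tC70_wL0, tC70_wL1⟩, ⟨.inr rfl, .inl tC70_nuwL⟩⟩

def tC70_pp : PosD ⟨⟨0, 1, 1⟩, ⟨98, 99, 147⟩, ⟨4050, 7026, 30000⟩, ⟨1900, 2259, 1000⟩⟩ (tC70.xPL) :=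
  posD_of_check (c := ⟨97, ⟨1, 1, 3, 3⟩⟩) (by decide +kernel)

def tC70_k2p : PosD ⟨⟨0, 1, 1⟩, ⟨98, 99, 147⟩, ⟨4050, 7026, 30000⟩, ⟨1900, 2259, 1000⟩⟩ (tC70.k2p tC70.xE) :=
  posD_of_check (c := ⟨73, ⟨1, 1, 2, 2⟩⟩) (by decide +kernel)

def tC70_k2m : PosD ⟨⟨0, 1, 1⟩, ⟨98, 99, 147⟩, ⟨4050, 7026, 30000⟩, ⟨1900, 2259, 1000⟩⟩ (tC70.k2m tC70.xE) :=
  posD_of_check (c := ⟨29, ⟨0, 0, 1, 1⟩⟩) (by decide +kernel)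

def tC70_v2p : PosD ⟨⟨0, 1, 1⟩, ⟨98, 99, 147⟩, ⟨4050, 7026, 30000⟩, ⟨1900, 2259, 1000⟩⟩ (tC70.hV2p) :=
  posD_of_check (c := ⟨273, ⟨1, 6, 10, 5⟩⟩) (by decide +kernel)

def tC70_v2m : PosD ⟨⟨0, 1, 1⟩, ⟨98, 99, 147⟩, ⟨4050, 7026, 30000⟩, ⟨1900, 2259, 1000⟩⟩ (tC70.hV2m) :=
  posD_of_check (c := ⟨242, ⟨0, 5, 10, 4⟩⟩) (by decide +kernel)

def tC70_v3p : PosD ⟨⟨0, 1, 1⟩, ⟨98, 99, 147⟩, ⟨4050, 7026, 30000⟩, ⟨1900, 2259, 1000⟩⟩ (tC70.hV3p) :=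
  posD_of_check (c := ⟨258, ⟨1, 6, 9, 5⟩⟩) (by decide +kernel)

def tC70_v3m : PosD ⟨⟨0, 1, 1⟩, ⟨98, 99, 147⟩, ⟨4050, 7026, 30000⟩, ⟨1900, 2259, 1000⟩⟩ (tC70.hV3m) :=
  posD_of_check (c := ⟨230, ⟨0, 5, 9, 4⟩⟩) (by decide +kernel)

def tC70_kap0 : PosD ⟨⟨0, 1, 1⟩, ⟨98, 99, 147⟩, ⟨4050, 7026, 30000⟩, ⟨1900, 2259, 1000⟩⟩ (tC70.kap false) :=
  posD_of_check (c := ⟨72, ⟨1, 1, 2, 2⟩⟩) (by decide +kernel)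

def tC70_c10 : PosD ⟨⟨0, 1, 1⟩, ⟨98, 99, 147⟩, ⟨4050, 7026, 30000⟩, ⟨1900, 2259, 1000⟩⟩ (tC70.hC1 false) :=
  posD_of_check (c := ⟨276, ⟨3, 5, 9, 7⟩⟩) (by decide +kernel)

def tC70_c1h0 : PosD ⟨⟨0, 1, 1⟩, ⟨98, 99, 147⟩, ⟨4050, 7026, 30000⟩, ⟨1900, 2259, 1000⟩⟩ (tC70.hC1' false) :=
  posD_of_check (c := ⟨276, ⟨3, 5, 9, 7⟩⟩) (by decide +kernel)

def tC70_tg00 : PosD ⟨⟨0, 1, 1⟩, ⟨98, 99, 147⟩, ⟨4050, 7026, 30000⟩, ⟨1900, 2259, 1000⟩⟩ (tC70.hG false (tC70.pEnd false)) :=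
  posD_of_check (c := ⟨389, ⟨2, 7, 14, 9⟩⟩) (by decide +kernel)

def tC70_c2p00a : PosD ⟨⟨0, 1, 1⟩, ⟨98, 99, 147⟩, ⟨4050, 7026, 30000⟩, ⟨1900, 2079, 1000⟩⟩ (tC70.hC2p false (tC70.pEnd false)) :=
  posD_of_check (c := ⟨461, ⟨3, 8, 16, 11⟩⟩) (by decide +kernel)

def tC70_c2p00ba : PosD ⟨⟨0, 1, 1⟩, ⟨98, 99, 147⟩, ⟨4050, 7026, 30000⟩, ⟨2079, 2169, 1000⟩⟩ (tC70.hC2p false (tC70.pEnd false)) :=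
  posD_of_check (c := ⟨461, ⟨3, 8, 16, 11⟩⟩) (by decide +kernel)

def tC70_c2p00bba : PosD ⟨⟨0, 1, 1⟩, ⟨98, 99, 147⟩, ⟨4050, 5538, 30000⟩, ⟨2169, 2259, 1000⟩⟩ (tC70.hC2p false (tC70.pEnd false)) :=
  posD_of_check (c := ⟨461, ⟨3, 8, 16, 11⟩⟩) (by decide +kernel)

def tC70_c2p00bbba : PosD ⟨⟨0, 1, 1⟩, ⟨98, 99, 147⟩, ⟨5538, 6282, 30000⟩, ⟨2169, 2259, 1000⟩⟩ (tC70.hC2p false (tC70.pEnd false)) :=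
  posD_of_check (c := ⟨462, ⟨3, 8, 16, 11⟩⟩) (by decide +kernel)

def tC70_c2p00bbbb : PosD ⟨⟨0, 1, 1⟩, ⟨98, 99, 147⟩, ⟨6282, 7026, 30000⟩, ⟨2169, 2259, 1000⟩⟩ (tC70.hC2p false (tC70.pEnd false)) :=
  posD_of_relax (k₁ := 1) (k₂ := 0) (k₃ := 0) (n := 16) (posD_of_check (c := ⟨462, ⟨3, 8, 16, 11⟩⟩) (by decide +kernel))

def tC70_c2p00bbb : PosD ⟨⟨0, 1, 1⟩, ⟨98, 99, 147⟩, ⟨5538, 7026, 30000⟩, ⟨2169, 2259, 1000⟩⟩ (tC70.hC2p false (tC70.pEnd false)) :=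
  posD_join₂ tC70_c2p00bbba tC70_c2p00bbbb

def tC70_c2p00bb : PosD ⟨⟨0, 1, 1⟩, ⟨98, 99, 147⟩, ⟨4050, 7026, 30000⟩, ⟨2169, 2259, 1000⟩⟩ (tC70.hC2p false (tC70.pEnd false)) :=
  posD_join₂ tC70_c2p00bba tC70_c2p00bbb

def tC70_c2p00b : PosD ⟨⟨0, 1, 1⟩, ⟨98, 99, 147⟩, ⟨4050, 7026, 30000⟩, ⟨2079, 2259, 1000⟩⟩ (tC70.hC2p false (tC70.pEnd false)) :=
  posD_join₃ tC70_c2p00ba tC70_c2p00bb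

def tC70_c2p00 : PosD ⟨⟨0, 1, 1⟩, ⟨98, 99, 147⟩, ⟨4050, 7026, 30000⟩, ⟨1900, 2259, 1000⟩⟩ (tC70.hC2p false (tC70.pEnd false)) :=
  posD_join₃ tC70_c2p00a tC70_c2p00b

def tC70_c2m00 : PosD ⟨⟨0, 1, 1⟩, ⟨98, 99, 147⟩, ⟨4050, 7026, 30000⟩, ⟨1900, 2259, 1000⟩⟩ (tC70.hC2m false (tC70.pEnd false)) :=
  posD_of_check (c := ⟨431, ⟨2, 7, 16, 10⟩⟩) (by decide +kernel)

def tC70_c3p00 : PosD ⟨⟨0, 1, 1⟩, ⟨98, 99, 147⟩, ⟨4050, 7026, 30000⟩, ⟨1900, 2259, 1000⟩⟩ (tC70.hC3p false false) :=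
  posD_of_check (c := ⟨447, ⟨3, 8, 15, 11⟩⟩) (by decide +kernel)

def tC70_c3m00 : PosD ⟨⟨0, 1, 1⟩, ⟨98, 99, 147⟩, ⟨4050, 7026, 30000⟩, ⟨1900, 2259, 1000⟩⟩ (tC70.hC3m false false) :=
  posD_of_check (c := ⟨423, ⟨3, 7, 15, 10⟩⟩) (by decide +kernel)

def tC70_c3ph00 : PosD ⟨⟨0, 1, 1⟩, ⟨98, 99, 147⟩, ⟨4050, 7026, 30000⟩, ⟨1900, 2259, 1000⟩⟩ (tC70.hC3p' false false) :=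
  posD_of_check (c := ⟨447, ⟨3, 8, 15, 11⟩⟩) (by decide +kernel)

def tC70_c3mh00 : PosD ⟨⟨0, 1, 1⟩, ⟨98, 99, 147⟩, ⟨4050, 7026, 30000⟩, ⟨1900, 2259, 1000⟩⟩ (tC70.hC3m' false false) :=
  posD_of_check (c := ⟨423, ⟨3, 7, 15, 10⟩⟩) (by decide +kernel)

def tC70_up00 : PosD ⟨⟨0, 1, 1⟩, ⟨98, 99, 147⟩, ⟨4050, 7026, 30000⟩, ⟨1900, 2259, 1000⟩⟩ (tC70.hUp false false) :=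
  posD_of_check (c := ⟨446, ⟨3, 8, 15, 11⟩⟩) (by decide +kernel)

def tC70_um00 : PosD ⟨⟨0, 1, 1⟩, ⟨98, 99, 147⟩, ⟨4050, 7026, 30000⟩, ⟨1900, 2259, 1000⟩⟩ (tC70.hUm false false) :=
  posD_of_check (c := ⟨419, ⟨2, 7, 15, 10⟩⟩) (by decide +kernel)

def tC70_tmg00 : PosD ⟨⟨0, 1, 1⟩, ⟨98, 99, 147⟩, ⟨4050, 7026, 30000⟩, ⟨1900, 2259, 1000⟩⟩ (tC70.hTMG false (tC70.pEnd false)) :=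
  posD_of_check (c := ⟨402, ⟨2, 7, 14, 10⟩⟩) (by decide +kernel)

def tC70_tg01 : PosD ⟨⟨0, 1, 1⟩, ⟨98, 99, 147⟩, ⟨4050, 7026, 30000⟩, ⟨1900, 2259, 1000⟩⟩ (tC70.hG true (tC70.pEnd false)) :=
  posD_of_check (c := ⟨389, ⟨2, 7, 14, 9⟩⟩) (by decide +kernel)

def tC70_c2p01 : PosD ⟨⟨0, 1, 1⟩, ⟨98, 99, 147⟩, ⟨4050, 7026, 30000⟩, ⟨1900, 2259, 1000⟩⟩ (tC70.hC2p true (tC70.pEnd false)) :=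
  posD_of_check (c := ⟨461, ⟨3, 8, 16, 11⟩⟩) (by decide +kernel)

def tC70_c2m01 : PosD ⟨⟨0, 1, 1⟩, ⟨98, 99, 147⟩, ⟨4050, 7026, 30000⟩, ⟨1900, 2259, 1000⟩⟩ (tC70.hC2m true (tC70.pEnd false)) :=
  posD_of_check (c := ⟨431, ⟨2, 7, 16, 10⟩⟩) (by decide +kernel)

def tC70_c3p01 : PosD ⟨⟨0, 1, 1⟩, ⟨98, 99, 147⟩, ⟨4050, 7026, 30000⟩, ⟨1900, 2259, 1000⟩⟩ (tC70.hC3p false true) :=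
  posD_of_check (c := ⟨447, ⟨3, 8, 15, 11⟩⟩) (by decide +kernel)

def tC70_c3m01 : PosD ⟨⟨0, 1, 1⟩, ⟨98, 99, 147⟩, ⟨4050, 7026, 30000⟩, ⟨1900, 2259, 1000⟩⟩ (tC70.hC3m false true) :=
  posD_of_check (c := ⟨423, ⟨3, 7, 15, 10⟩⟩) (by decide +kernel)

def tC70_c3ph01 : PosD ⟨⟨0, 1, 1⟩, ⟨98, 99, 147⟩, ⟨4050, 7026, 30000⟩, ⟨1900, 2259, 1000⟩⟩ (tC70.hC3p' false true) :=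
  posD_of_check (c := ⟨447, ⟨3, 8, 15, 11⟩⟩) (by decide +kernel)

def tC70_c3mh01 : PosD ⟨⟨0, 1, 1⟩, ⟨98, 99, 147⟩, ⟨4050, 7026, 30000⟩, ⟨1900, 2259, 1000⟩⟩ (tC70.hC3m' false true) :=
  posD_of_check (c := ⟨423, ⟨3, 7, 15, 10⟩⟩) (by decide +kernel)

def tC70_up01 : PosD ⟨⟨0, 1, 1⟩, ⟨98, 99, 147⟩, ⟨4050, 7026, 30000⟩, ⟨1900, 2259, 1000⟩⟩ (tC70.hUp false true) :=
  posD_of_check (c := ⟨446, ⟨3, 8, 15, 11⟩⟩) (by decide +kernel)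

def tC70_um01 : PosD ⟨⟨0, 1, 1⟩, ⟨98, 99, 147⟩, ⟨4050, 7026, 30000⟩, ⟨1900, 2259, 1000⟩⟩ (tC70.hUm false true) :=
  posD_of_check (c := ⟨419, ⟨2, 7, 15, 10⟩⟩) (by decide +kernel)

def tC70_tmg01 : PosD ⟨⟨0, 1, 1⟩, ⟨98, 99, 147⟩, ⟨4050, 7026, 30000⟩, ⟨1900, 2259, 1000⟩⟩ (tC70.hTMG true (tC70.pEnd false)) :=
  posD_of_check (c := ⟨402, ⟨2, 7, 14, 10⟩⟩) (by decide +kernel)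

def tC70_kap1 : PosD ⟨⟨0, 1, 1⟩, ⟨98, 99, 147⟩, ⟨4050, 7026, 30000⟩, ⟨1900, 2259, 1000⟩⟩ (tC70.kap true) :=
  posD_of_check (c := ⟨73, ⟨1, 1, 2, 2⟩⟩) (by decide +kernel)

def tC70_c11 : PosD ⟨⟨0, 1, 1⟩, ⟨98, 99, 147⟩, ⟨4050, 7026, 30000⟩, ⟨1900, 2259, 1000⟩⟩ (tC70.hC1 true) :=
  posD_of_check (c := ⟨276, ⟨3, 5, 9, 7⟩⟩) (by decide +kernel)

def tC70_c1h1 : PosD ⟨⟨0, 1, 1⟩, ⟨98, 99, 147⟩, ⟨4050, 7026, 30000⟩, ⟨1900, 2259, 1000⟩⟩ (tC70.hC1' true) :=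
  posD_of_relax (k₁ := 40) (k₂ := 0) (k₃ := 0) (n := 16) (posD_of_check (c := ⟨276, ⟨3, 5, 9, 7⟩⟩) (by decide +kernel))

def tC70_tg10 : PosD ⟨⟨0, 1, 1⟩, ⟨98, 99, 147⟩, ⟨4050, 7026, 30000⟩, ⟨1900, 2259, 1000⟩⟩ (tC70.hG false (tC70.pEnd true)) :=
  posD_of_check (c := ⟨387, ⟨2, 7, 14, 9⟩⟩) (by decide +kernel)

def tC70_c2p10a : PosD ⟨⟨0, 1, 1⟩, ⟨98, 99, 147⟩, ⟨4050, 7026, 30000⟩, ⟨1900, 2079, 1000⟩⟩ (tC70.hC2p false (tC70.pEnd true)) :=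
  posD_of_check (c := ⟨459, ⟨3, 8, 16, 11⟩⟩) (by decide +kernel)

def tC70_c2p10ba : PosD ⟨⟨0, 1, 1⟩, ⟨98, 99, 147⟩, ⟨4050, 5538, 30000⟩, ⟨2079, 2259, 1000⟩⟩ (tC70.hC2p false (tC70.pEnd true)) :=
  posD_of_check (c := ⟨458, ⟨3, 8, 16, 11⟩⟩) (by decide +kernel)

def tC70_c2p10bba : PosD ⟨⟨0, 1, 1⟩, ⟨98, 99, 147⟩, ⟨5538, 6282, 30000⟩, ⟨2079, 2259, 1000⟩⟩ (tC70.hC2p false (tC70.pEnd true)) :=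
  posD_of_check (c := ⟨459, ⟨3, 8, 16, 11⟩⟩) (by decide +kernel)

def tC70_c2p10bbba : PosD ⟨⟨0, 1, 1⟩, ⟨98, 99, 147⟩, ⟨6282, 6654, 30000⟩, ⟨2079, 2259, 1000⟩⟩ (tC70.hC2p false (tC70.pEnd true)) :=
  posD_of_check (c := ⟨460, ⟨3, 8, 16, 11⟩⟩) (by decide +kernel)

def tC70_c2p10bbbba : PosD ⟨⟨0, 1, 1⟩, ⟨98, 99, 147⟩, ⟨6654, 7026, 30000⟩, ⟨2079, 2169, 1000⟩⟩ (tC70.hC2p false (tC70.pEnd true)) :=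
  posD_of_relax (k₁ := 1) (k₂ := 0) (k₃ := 0) (n := 16) (posD_of_check (c := ⟨460, ⟨3, 8, 16, 11⟩⟩) (by decide +kernel))

def tC70_c2p10bbbbbaa : PosD ⟨⟨0, 1, 1⟩, ⟨98, 99, 147⟩, ⟨6654, 6840, 30000⟩, ⟨2169, 2214, 1000⟩⟩ (tC70.hC2p false (tC70.pEnd true)) :=
  posD_of_check (c := ⟨460, ⟨3, 8, 16, 11⟩⟩) (by decide +kernel)

def tC70_c2p10bbbbbab : PosD ⟨⟨0, 1, 1⟩, ⟨98, 99, 147⟩, ⟨6840, 7026, 30000⟩, ⟨2169, 2214, 1000⟩⟩ (tC70.hC2p false (tC70.pEnd true)) :=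
  posD_of_relax (k₁ := 2) (k₂ := 0) (k₃ := 0) (n := 16) (posD_of_check (c := ⟨460, ⟨3, 8, 16, 11⟩⟩) (by decide +kernel))

def tC70_c2p10bbbbba : PosD ⟨⟨0, 1, 1⟩, ⟨98, 99, 147⟩, ⟨6654, 7026, 30000⟩, ⟨2169, 2214, 1000⟩⟩ (tC70.hC2p false (tC70.pEnd true)) :=
  posD_join₂ tC70_c2p10bbbbbaa tC70_c2p10bbbbbab

def tC70_c2p10bbbbbb : PosD ⟨⟨0, 1, 1⟩, ⟨98, 99, 147⟩, ⟨6654, 7026, 30000⟩, ⟨2214, 2259, 1000⟩⟩ (tC70.hC2p false (tC70.pEnd true)) :=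
  posD_of_relax (k₁ := 2) (k₂ := 0) (k₃ := 0) (n := 16) (posD_of_check (c := ⟨460, ⟨3, 8, 16, 11⟩⟩) (by decide +kernel))

def tC70_c2p10bbbbb : PosD ⟨⟨0, 1, 1⟩, ⟨98, 99, 147⟩, ⟨6654, 7026, 30000⟩, ⟨2169, 2259, 1000⟩⟩ (tC70.hC2p false (tC70.pEnd true)) :=
  posD_join₃ tC70_c2p10bbbbba tC70_c2p10bbbbbb

def tC70_c2p10bbbb : PosD ⟨⟨0, 1, 1⟩, ⟨98, 99, 147⟩, ⟨6654, 7026, 30000⟩, ⟨2079, 2259, 1000⟩⟩ (tC70.hC2p false (tC70.pEnd true)) :=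
  posD_join₃ tC70_c2p10bbbba tC70_c2p10bbbbb

def tC70_c2p10bbb : PosD ⟨⟨0, 1, 1⟩, ⟨98, 99, 147⟩, ⟨6282, 7026, 30000⟩, ⟨2079, 2259, 1000⟩⟩ (tC70.hC2p false (tC70.pEnd true)) :=
  posD_join₂ tC70_c2p10bbba tC70_c2p10bbbb

def tC70_c2p10bb : PosD ⟨⟨0, 1, 1⟩, ⟨98, 99, 147⟩, ⟨5538, 7026, 30000⟩, ⟨2079, 2259, 1000⟩⟩ (tC70.hC2p false (tC70.pEnd true)) :=
  posD_join₂ tC70_c2p10bba tC70_c2p10bbb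

def tC70_c2p10b : PosD ⟨⟨0, 1, 1⟩, ⟨98, 99, 147⟩, ⟨4050, 7026, 30000⟩, ⟨2079, 2259, 1000⟩⟩ (tC70.hC2p false (tC70.pEnd true)) :=
  posD_join₂ tC70_c2p10ba tC70_c2p10bb

def tC70_c2p10 : PosD ⟨⟨0, 1, 1⟩, ⟨98, 99, 147⟩, ⟨4050, 7026, 30000⟩, ⟨1900, 2259, 1000⟩⟩ (tC70.hC2p false (tC70.pEnd true)) :=
  posD_join₃ tC70_c2p10a tC70_c2p10b

def tC70_c2m10 : PosD ⟨⟨0, 1, 1⟩, ⟨98, 99, 147⟩, ⟨4050, 7026, 30000⟩, ⟨1900, 2259, 1000⟩⟩ (tC70.hC2m false (tC70.pEnd true)) :=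
  posD_of_check (c := ⟨429, ⟨2, 7, 16, 10⟩⟩) (by decide +kernel)

def tC70_c3p10 : PosD ⟨⟨0, 1, 1⟩, ⟨98, 99, 147⟩, ⟨4050, 7026, 30000⟩, ⟨1900, 2259, 1000⟩⟩ (tC70.hC3p true false) :=
  posD_of_check (c := ⟨447, ⟨3, 8, 15, 11⟩⟩) (by decide +kernel)

def tC70_c3m10 : PosD ⟨⟨0, 1, 1⟩, ⟨98, 99, 147⟩, ⟨4050, 7026, 30000⟩, ⟨1900, 2259, 1000⟩⟩ (tC70.hC3m true false) :=
  posD_of_check (c := ⟨423, ⟨3, 7, 15, 10⟩⟩) (by decide +kernel)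

def tC70_c3ph10 : PosD ⟨⟨0, 1, 1⟩, ⟨98, 99, 147⟩, ⟨4050, 7026, 30000⟩, ⟨1900, 2259, 1000⟩⟩ (tC70.hC3p' true false) :=
  posD_of_check (c := ⟨447, ⟨3, 8, 15, 11⟩⟩) (by decide +kernel)

def tC70_c3mh10 : PosD ⟨⟨0, 1, 1⟩, ⟨98, 99, 147⟩, ⟨4050, 7026, 30000⟩, ⟨1900, 2259, 1000⟩⟩ (tC70.hC3m' true false) :=
  posD_of_check (c := ⟨423, ⟨3, 7, 15, 10⟩⟩) (by decide +kernel)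

def tC70_up10 : PosD ⟨⟨0, 1, 1⟩, ⟨98, 99, 147⟩, ⟨4050, 7026, 30000⟩, ⟨1900, 2259, 1000⟩⟩ (tC70.hUp true false) :=
  posD_of_check (c := ⟨444, ⟨3, 8, 15, 11⟩⟩) (by decide +kernel)

def tC70_um10 : PosD ⟨⟨0, 1, 1⟩, ⟨98, 99, 147⟩, ⟨4050, 7026, 30000⟩, ⟨1900, 2259, 1000⟩⟩ (tC70.hUm true false) :=
  posD_of_check (c := ⟨417, ⟨2, 7, 15, 10⟩⟩) (by decide +kernel)

def tC70_tmg10 : PosD ⟨⟨0, 1, 1⟩, ⟨98, 99, 147⟩, ⟨4050, 7026, 30000⟩, ⟨1900, 2259, 1000⟩⟩ (tC70.hTMG false (tC70.pEnd true)) :=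
  posD_of_check (c := ⟨401, ⟨2, 7, 14, 10⟩⟩) (by decide +kernel)

def tC70_tg11 : PosD ⟨⟨0, 1, 1⟩, ⟨98, 99, 147⟩, ⟨4050, 7026, 30000⟩, ⟨1900, 2259, 1000⟩⟩ (tC70.hG true (tC70.pEnd true)) :=
  posD_of_check (c := ⟨387, ⟨2, 7, 14, 9⟩⟩) (by decide +kernel)

def tC70_c2p11 : PosD ⟨⟨0, 1, 1⟩, ⟨98, 99, 147⟩, ⟨4050, 7026, 30000⟩, ⟨1900, 2259, 1000⟩⟩ (tC70.hC2p true (tC70.pEnd true)) :=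
  posD_of_check (c := ⟨459, ⟨3, 8, 16, 11⟩⟩) (by decide +kernel)

def tC70_c2m11 : PosD ⟨⟨0, 1, 1⟩, ⟨98, 99, 147⟩, ⟨4050, 7026, 30000⟩, ⟨1900, 2259, 1000⟩⟩ (tC70.hC2m true (tC70.pEnd true)) :=
  posD_of_check (c := ⟨429, ⟨2, 7, 16, 10⟩⟩) (by decide +kernel)

def tC70_c3p11 : PosD ⟨⟨0, 1, 1⟩, ⟨98, 99, 147⟩, ⟨4050, 7026, 30000⟩, ⟨1900, 2259, 1000⟩⟩ (tC70.hC3p true true) :=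
  posD_of_check (c := ⟨447, ⟨3, 8, 15, 11⟩⟩) (by decide +kernel)

def tC70_c3m11 : PosD ⟨⟨0, 1, 1⟩, ⟨98, 99, 147⟩, ⟨4050, 7026, 30000⟩, ⟨1900, 2259, 1000⟩⟩ (tC70.hC3m true true) :=
  posD_of_check (c := ⟨423, ⟨3, 7, 15, 10⟩⟩) (by decide +kernel)

def tC70_c3ph11 : PosD ⟨⟨0, 1, 1⟩, ⟨98, 99, 147⟩, ⟨4050, 7026, 30000⟩, ⟨1900, 2259, 1000⟩⟩ (tC70.hC3p' true true) :=
  posD_of_check (c := ⟨447, ⟨3, 8, 15, 11⟩⟩) (by decide +kernel)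

def tC70_c3mh11 : PosD ⟨⟨0, 1, 1⟩, ⟨98, 99, 147⟩, ⟨4050, 7026, 30000⟩, ⟨1900, 2259, 1000⟩⟩ (tC70.hC3m' true true) :=
  posD_of_check (c := ⟨423, ⟨3, 7, 15, 10⟩⟩) (by decide +kernel)

def tC70_up11 : PosD ⟨⟨0, 1, 1⟩, ⟨98, 99, 147⟩, ⟨4050, 7026, 30000⟩, ⟨1900, 2259, 1000⟩⟩ (tC70.hUp true true) :=
  posD_of_check (c := ⟨445, ⟨3, 8, 15, 11⟩⟩) (by decide +kernel)

def tC70_um11 : PosD ⟨⟨0, 1, 1⟩, ⟨98, 99, 147⟩, ⟨4050, 7026, 30000⟩, ⟨1900, 2259, 1000⟩⟩ (tC70.hUm true true) :=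
  posD_of_check (c := ⟨417, ⟨2, 7, 15, 10⟩⟩) (by decide +kernel)

def tC70_tmg11 : PosD ⟨⟨0, 1, 1⟩, ⟨98, 99, 147⟩, ⟨4050, 7026, 30000⟩, ⟨1900, 2259, 1000⟩⟩ (tC70.hTMG true (tC70.pEnd true)) :=
  posD_of_check (c := ⟨401, ⟨2, 7, 14, 10⟩⟩) (by decide +kernel)

/-- The signs of the piece. -/
def tC70_sign : tC70.Sign ⟨⟨0, 1, 1⟩, ⟨98, 99, 147⟩, ⟨4050, 7026, 30000⟩, ⟨1900, 2259, 1000⟩⟩ :=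
  ⟨tC70_pp,
    tC70_k2p,
    tC70_k2m,
    Bool.forall_bool.2 ⟨(Bool.forall_bool.2 ⟨tC70_tg00, tC70_tg01⟩), (Bool.forall_bool.2 ⟨tC70_tg10, tC70_tg11⟩)⟩,
    Bool.forall_bool.2 ⟨(Bool.forall_bool.2 ⟨tC70_c2p00, tC70_c2p01⟩), (Bool.forall_bool.2 ⟨tC70_c2p10, tC70_c2p11⟩)⟩,
    Bool.forall_bool.2 ⟨(Bool.forall_bool.2 ⟨tC70_c2m00, tC70_c2m01⟩), (Bool.forall_bool.2 ⟨tC70_c2m10, tC70_c2m11⟩)⟩,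
    Bool.forall_bool.2 ⟨tC70_kap0, tC70_kap1⟩,
    Bool.forall_bool.2 ⟨tC70_c10, tC70_c11⟩,
    Bool.forall_bool.2 ⟨(Bool.forall_bool.2 ⟨tC70_c3p00, tC70_c3p01⟩), (Bool.forall_bool.2 ⟨tC70_c3p10, tC70_c3p11⟩)⟩,
    Bool.forall_bool.2 ⟨(Bool.forall_bool.2 ⟨tC70_c3m00, tC70_c3m01⟩), (Bool.forall_bool.2 ⟨tC70_c3m10, tC70_c3m11⟩)⟩,
    Bool.forall_bool.2 ⟨(Bool.forall_bool.2 ⟨tC70_tmg00, tC70_tmg01⟩), (Bool.forall_bool.2 ⟨tC70_tmg10, tC70_tmg11⟩)⟩,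
    .inr (Bool.forall_bool.2 ⟨⟨tC70_c1h0, Bool.forall_bool.2 ⟨⟨tC70_c3ph00, tC70_c3mh00, tC70_up00, tC70_um00⟩, ⟨tC70_c3ph01, tC70_c3mh01, tC70_up01, tC70_um01⟩⟩⟩, ⟨tC70_c1h1, Bool.forall_bool.2 ⟨⟨tC70_c3ph10, tC70_c3mh10, tC70_up10, tC70_um10⟩, ⟨tC70_c3ph11, tC70_c3mh11, tC70_up11, tC70_um11⟩⟩⟩⟩),
    tC70_v2p,
    tC70_v2m,
    tC70_v3p,
    tC70_v3m,
    posD_sub (b := ⟨⟨0, 1, 1⟩, ⟨98, 99, 147⟩, ⟨4050, 10000, 30000⟩, ⟨290, 4000, 1000⟩⟩) (by decide +kernel) tC_vG,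
    posD_sub (b := ⟨⟨0, 1, 1⟩, ⟨98, 99, 147⟩, ⟨4050, 10000, 30000⟩, ⟨290, 4000, 1000⟩⟩) (by decide +kernel) tC_vMG,
    posD_sub (b := ⟨⟨0, 1, 1⟩, ⟨98, 99, 147⟩, ⟨4050, 10000, 30000⟩, ⟨290, 4000, 1000⟩⟩) (by decide +kernel) tC_ak,
    posD_sub (b := ⟨⟨0, 1, 1⟩, ⟨98, 99, 147⟩, ⟨4050, 10000, 30000⟩, ⟨290, 4000, 1000⟩⟩) (by decide +kernel) tC_aw,
    posD_sub (b := ⟨⟨0, 1, 1⟩, ⟨98, 99, 147⟩, ⟨4050, 10000, 30000⟩, ⟨290, 4000, 1000⟩⟩) (by decide +kernel) tC_gk,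
    posD_sub (b := ⟨⟨0, 1, 1⟩, ⟨98, 99, 147⟩, ⟨4050, 10000, 30000⟩, ⟨290, 4000, 1000⟩⟩) (by decide +kernel) tC_gw,
    posD_sub (b := ⟨⟨0, 1, 1⟩, ⟨98, 99, 147⟩, ⟨4050, 10000, 30000⟩, ⟨290, 4000, 1000⟩⟩) (by decide +kernel) tC_ek,
    posD_sub (b := ⟨⟨0, 1, 1⟩, ⟨98, 99, 147⟩, ⟨4050, 10000, 30000⟩, ⟨290, 4000, 1000⟩⟩) (by decide +kernel) tC_ew⟩

end Vale.Agent.P100.Calib.Closed.Six.Tail
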