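import Vale.Agent.P100.Calib.SlabSixTailDataC
import Vale.Agent.P100.Calib.SlabSixTailGlobC

/-!
# Checks of some pieces of the certificate

The checks are written as definitions so that they run one after another, which keeps the memory of the
kernel low.
-/

set_option linter.defProp false

namespace Vale.Agent.P100.Calib.Closed.Six.Tail

open BoxPos Large

local instance sixTailCheckstC45Add : Add Ex := ⟨Ex.add⟩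
local instance sixTailCheckstC45Sub : Sub Ex := ⟨Ex.sub⟩
local instance sixTailCheckstC45Mul : Mul Ex := ⟨Ex.mul⟩

def tC71_phx : PosIf ⟨⟨0, 1, 1⟩, ⟨98, 99, 147⟩, ⟨4050, 7026, 30000⟩, ⟨2259, 2687, 1000⟩⟩ (tC71.u₁ - tC71Lo) (phCn (tC71.u₁ + xO * (tC71Lo - tC71.u₁))) :=
  posIf_of_posD (posD_of_check (c := ⟨108, ⟨2, 0, 4, 2⟩⟩) (by decide +kernel))

def tC71_phd : PosD ⟨⟨0, 1, 1⟩, ⟨98, 99, 147⟩, ⟨4050, 7026, 30000⟩, ⟨2259, 2687, 1000⟩⟩ (phCd (tC71.u₁ + xO * (tC71Lo - tC71.u₁))) :=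
  posD_of_check (c := ⟨51, ⟨1, 0, 2, 1⟩⟩) (by decide +kernel)

def tC71_p0 : PosD ⟨⟨0, 1, 1⟩, ⟨98, 99, 147⟩, ⟨4050, 7026, 30000⟩, ⟨2259, 2687, 1000⟩⟩ (tC71.hP0) :=
  posD_of_check (c := ⟨83, ⟨0, 2, 3, 1⟩⟩) (by decide +kernel)

def tC71_gn : PosD ⟨⟨0, 1, 1⟩, ⟨98, 99, 147⟩, ⟨4050, 7026, 30000⟩, ⟨2259, 2687, 1000⟩⟩ (tC71.hGn) :=
  posD_of_check (c := ⟨69, ⟨1, 1, 2, 2⟩⟩) (by decide +kernel)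

def tC71_den0 : PosD ⟨⟨0, 1, 1⟩, ⟨98, 99, 147⟩, ⟨4050, 7026, 30000⟩, ⟨2259, 2687, 1000⟩⟩ (tC71.hDen false) :=
  posD_of_check (c := ⟨51, ⟨1, 0, 2, 1⟩⟩) (by decide +kernel)

def tC71_den1 : PosD ⟨⟨0, 1, 1⟩, ⟨98, 99, 147⟩, ⟨4050, 7026, 30000⟩, ⟨2259, 2687, 1000⟩⟩ (tC71.hDen true) :=
  posD_of_check (c := ⟨179, ⟨3, 4, 6, 4⟩⟩) (by decide +kernel)

def tC71_ev0 : PosD ⟨⟨0, 1, 1⟩, ⟨98, 99, 147⟩, ⟨4050, 7026, 30000⟩, ⟨2259, 2687, 1000⟩⟩ (tC71.hEv false) :=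
  posD_of_check (c := ⟨218, ⟨4, 2, 8, 4⟩⟩) (by decide +kernel)

def tC71_zL0aaaa : PosD ⟨⟨0, 1, 4⟩, ⟨98, 99, 147⟩, ⟨4050, 5538, 30000⟩, ⟨2259, 2473, 1000⟩⟩ (tC71.hZL false) :=
  posD_of_check (c := ⟨227, ⟨4, 3, 8, 4⟩⟩) (by decide +kernel)

def tC71_zL0aaab : PosD ⟨⟨0, 1, 4⟩, ⟨98, 99, 147⟩, ⟨4050, 5538, 30000⟩, ⟨2473, 2687, 1000⟩⟩ (tC71.hZL false) :=
  posD_of_check (c := ⟨227, ⟨4, 3, 8, 4⟩⟩) (by decide +kernel)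

def tC71_zL0aaa : PosD ⟨⟨0, 1, 4⟩, ⟨98, 99, 147⟩, ⟨4050, 5538, 30000⟩, ⟨2259, 2687, 1000⟩⟩ (tC71.hZL false) :=
  posD_join₃ tC71_zL0aaaa tC71_zL0aaab

def tC71_zL0aaba : PosD ⟨⟨0, 1, 4⟩, ⟨98, 99, 147⟩, ⟨5538, 7026, 30000⟩, ⟨2259, 2473, 1000⟩⟩ (tC71.hZL false) :=
  posD_of_check (c := ⟨227, ⟨4, 3, 8, 4⟩⟩) (by decide +kernel)

def tC71_zL0aabb : PosD ⟨⟨0, 1, 4⟩, ⟨98, 99, 147⟩, ⟨5538, 7026, 30000⟩, ⟨2473, 2687, 1000⟩⟩ (tC71.hZL false) :=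
  posD_of_check (c := ⟨227, ⟨4, 3, 8, 4⟩⟩) (by decide +kernel)

def tC71_zL0aab : PosD ⟨⟨0, 1, 4⟩, ⟨98, 99, 147⟩, ⟨5538, 7026, 30000⟩, ⟨2259, 2687, 1000⟩⟩ (tC71.hZL false) :=
  posD_join₃ tC71_zL0aaba tC71_zL0aabb

def tC71_zL0aa : PosD ⟨⟨0, 1, 4⟩, ⟨98, 99, 147⟩, ⟨4050, 7026, 30000⟩, ⟨2259, 2687, 1000⟩⟩ (tC71.hZL false) :=
  posD_join₂ tC71_zL0aaa tC71_zL0aab

def tC71_zL0ab : PosD ⟨⟨1, 2, 4⟩, ⟨98, 99, 147⟩, ⟨4050, 7026, 30000⟩, ⟨2259, 2687, 1000⟩⟩ (tC71.hZL false) :=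
  posD_of_check (c := ⟨228, ⟨4, 3, 8, 4⟩⟩) (by decide +kernel)

def tC71_zL0a : PosD ⟨⟨0, 1, 2⟩, ⟨98, 99, 147⟩, ⟨4050, 7026, 30000⟩, ⟨2259, 2687, 1000⟩⟩ (tC71.hZL false) :=
  posD_units (b := ⟨⟨0, 2, 4⟩, ⟨98, 99, 147⟩, ⟨4050, 7026, 30000⟩, ⟨2259, 2687, 1000⟩⟩) (by decide +kernel) (posD_join₀ tC71_zL0aa tC71_zL0ab)

def tC71_zL0b : PosD ⟨⟨1, 2, 2⟩, ⟨98, 99, 147⟩, ⟨4050, 7026, 30000⟩, ⟨2259, 2687, 1000⟩⟩ (tC71.hZL false) :=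
  posD_of_check (c := ⟨225, ⟨4, 3, 8, 4⟩⟩) (by decide +kernel)

def tC71_zL0 : PosD ⟨⟨0, 1, 1⟩, ⟨98, 99, 147⟩, ⟨4050, 7026, 30000⟩, ⟨2259, 2687, 1000⟩⟩ (tC71.hZL false) :=
  posD_units (b := ⟨⟨0, 2, 2⟩, ⟨98, 99, 147⟩, ⟨4050, 7026, 30000⟩, ⟨2259, 2687, 1000⟩⟩) (by decide +kernel) (posD_join₀ tC71_zL0a tC71_zL0b)

def tC71_zU0 : PosD ⟨⟨0, 1, 1⟩, ⟨98, 99, 147⟩, ⟨4050, 7026, 30000⟩, ⟨2259, 2687, 1000⟩⟩ (tC71.hZU false) :=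
  posD_of_check (c := ⟨220, ⟨4, 3, 8, 4⟩⟩) (by decide +kernel)

def tC71_eL0 : PosD ⟨⟨0, 1, 1⟩, ⟨98, 99, 147⟩, ⟨4050, 7026, 30000⟩, ⟨2259, 2687, 1000⟩⟩ (tC71.hEL false) :=
  posD_of_check (c := ⟨313, ⟨5, 6, 11, 6⟩⟩) (by decide +kernel)

def tC71_eH0 : PosD ⟨⟨0, 1, 1⟩, ⟨98, 99, 147⟩, ⟨4050, 7026, 30000⟩, ⟨2259, 2687, 1000⟩⟩ (tC71.hEH false) :=
  posD_of_check (c := ⟨345, ⟨5, 6, 11, 7⟩⟩) (by decide +kernel)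

def tC71_pL0 : PosD ⟨⟨0, 1, 1⟩, ⟨98, 99, 147⟩, ⟨4050, 7026, 30000⟩, ⟨2259, 2687, 1000⟩⟩ (tC71.hPL false) :=
  posD_of_check (c := ⟨340, ⟨5, 6, 11, 7⟩⟩) (by decide +kernel)

def tC71_pU0 : PosD ⟨⟨0, 1, 1⟩, ⟨98, 99, 147⟩, ⟨4050, 7026, 30000⟩, ⟨2259, 2687, 1000⟩⟩ (tC71.hPU false) :=
  posD_of_check (c := ⟨346, ⟨5, 6, 11, 7⟩⟩) (by decide +kernel)

def tC71_kU0 : PosD ⟨⟨0, 1, 1⟩, ⟨98, 99, 147⟩, ⟨4050, 7026, 30000⟩, ⟨2259, 2687, 1000⟩⟩ (tC71.hKU false) :=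
  posD_of_check (c := ⟨342, ⟨5, 6, 11, 7⟩⟩) (by decide +kernel)

def tC71_kL0aa : PosD ⟨⟨0, 1, 1⟩, ⟨98, 99, 147⟩, ⟨4050, 4794, 30000⟩, ⟨2259, 2687, 1000⟩⟩ (tC71.hKL false) :=
  posD_of_check (c := ⟨341, ⟨5, 6, 11, 7⟩⟩) (by decide +kernel)

def tC71_kL0ab : PosD ⟨⟨0, 1, 1⟩, ⟨98, 99, 147⟩, ⟨4794, 5538, 30000⟩, ⟨2259, 2687, 1000⟩⟩ (tC71.hKL false) :=
  posD_of_check (c := ⟨342, ⟨5, 6, 11, 7⟩⟩) (by decide +kernel)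

def tC71_kL0a : PosD ⟨⟨0, 1, 1⟩, ⟨98, 99, 147⟩, ⟨4050, 5538, 30000⟩, ⟨2259, 2687, 1000⟩⟩ (tC71.hKL false) :=
  posD_join₂ tC71_kL0aa tC71_kL0ab

def tC71_kL0b : PosD ⟨⟨0, 1, 1⟩, ⟨98, 99, 147⟩, ⟨5538, 7026, 30000⟩, ⟨2259, 2687, 1000⟩⟩ (tC71.hKL false) :=
  posD_of_check (c := ⟨343, ⟨5, 6, 11, 7⟩⟩) (by decide +kernel)

def tC71_kL0 : PosD ⟨⟨0, 1, 1⟩, ⟨98, 99, 147⟩, ⟨4050, 7026, 30000⟩, ⟨2259, 2687, 1000⟩⟩ (tC71.hKL false) :=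
  posD_join₂ tC71_kL0a tC71_kL0b

def tC71_wU0 : PosD ⟨⟨0, 1, 1⟩, ⟨98, 99, 147⟩, ⟨4050, 7026, 30000⟩, ⟨2259, 2687, 1000⟩⟩ (tC71.hWU false) :=
  posD_of_check (c := ⟨377, ⟨5, 8, 12, 7⟩⟩) (by decide +kernel)

def tC71_wL0 : PosD ⟨⟨0, 1, 1⟩, ⟨98, 99, 147⟩, ⟨4050, 7026, 30000⟩, ⟨2259, 2687, 1000⟩⟩ (tC71.hWL false) :=
  posD_of_check (c := ⟨378, ⟨5, 8, 12, 7⟩⟩) (by decide +kernel)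

def tC71_ev1 : PosD ⟨⟨0, 1, 1⟩, ⟨98, 99, 147⟩, ⟨4050, 7026, 30000⟩, ⟨2259, 2687, 1000⟩⟩ (tC71.hEv true) :=
  posD_of_check (c := ⟨272, ⟨4, 6, 9, 6⟩⟩) (by decide +kernel)

def tC71_zL1 : PosD ⟨⟨0, 1, 1⟩, ⟨98, 99, 147⟩, ⟨4050, 7026, 30000⟩, ⟨2259, 2687, 1000⟩⟩ (tC71.hZL true) :=
  posD_of_check (c := ⟨296, ⟨4, 7, 10, 7⟩⟩) (by decide +kernel)

def tC71_zU1a : PosD ⟨⟨0, 1, 1⟩, ⟨98, 99, 147⟩, ⟨4050, 5538, 30000⟩, ⟨2259, 2687, 1000⟩⟩ (tC71.hZU true) :=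
  posD_of_check (c := ⟨295, ⟨4, 7, 10, 7⟩⟩) (by decide +kernel)

def tC71_zU1b : PosD ⟨⟨0, 1, 1⟩, ⟨98, 99, 147⟩, ⟨5538, 7026, 30000⟩, ⟨2259, 2687, 1000⟩⟩ (tC71.hZU true) :=
  posD_of_check (c := ⟨296, ⟨4, 7, 10, 7⟩⟩) (by decide +kernel)

def tC71_zU1 : PosD ⟨⟨0, 1, 1⟩, ⟨98, 99, 147⟩, ⟨4050, 7026, 30000⟩, ⟨2259, 2687, 1000⟩⟩ (tC71.hZU true) :=
  posD_join₂ tC71_zU1a tC71_zU1b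

def tC71_eL1 : PosD ⟨⟨0, 1, 1⟩, ⟨98, 99, 147⟩, ⟨4050, 7026, 30000⟩, ⟨2259, 2687, 1000⟩⟩ (tC71.hEL true) :=
  posD_of_check (c := ⟨367, ⟨5, 10, 12, 8⟩⟩) (by decide +kernel)

def tC71_eH1 : PosD ⟨⟨0, 1, 1⟩, ⟨98, 99, 147⟩, ⟨4050, 7026, 30000⟩, ⟨2259, 2687, 1000⟩⟩ (tC71.hEH true) :=
  posD_of_check (c := ⟨400, ⟨5, 10, 12, 9⟩⟩) (by decide +kernel)

def tC71_pL1a : PosD ⟨⟨0, 1, 1⟩, ⟨98, 99, 147⟩, ⟨4050, 5538, 30000⟩, ⟨2259, 2687, 1000⟩⟩ (tC71.hPL true) :=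
  posD_of_check (c := ⟨393, ⟨5, 10, 12, 9⟩⟩) (by decide +kernel)

def tC71_pL1b : PosD ⟨⟨0, 1, 1⟩, ⟨98, 99, 147⟩, ⟨5538, 7026, 30000⟩, ⟨2259, 2687, 1000⟩⟩ (tC71.hPL true) :=
  posD_of_check (c := ⟨394, ⟨5, 10, 12, 9⟩⟩) (by decide +kernel)

def tC71_pL1 : PosD ⟨⟨0, 1, 1⟩, ⟨98, 99, 147⟩, ⟨4050, 7026, 30000⟩, ⟨2259, 2687, 1000⟩⟩ (tC71.hPL true) :=
  posD_join₂ tC71_pL1a tC71_pL1b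

def tC71_pU1 : PosD ⟨⟨0, 1, 1⟩, ⟨98, 99, 147⟩, ⟨4050, 7026, 30000⟩, ⟨2259, 2687, 1000⟩⟩ (tC71.hPU true) :=
  posD_of_check (c := ⟨401, ⟨5, 10, 12, 9⟩⟩) (by decide +kernel)

def tC71_kU1 : PosD ⟨⟨0, 1, 1⟩, ⟨98, 99, 147⟩, ⟨4050, 7026, 30000⟩, ⟨2259, 2687, 1000⟩⟩ (tC71.hKU true) :=
  posD_of_check (c := ⟨397, ⟨5, 10, 12, 9⟩⟩) (by decide +kernel)

def tC71_kL1 : PosD ⟨⟨0, 1, 1⟩, ⟨98, 99, 147⟩, ⟨4050, 7026, 30000⟩, ⟨2259, 2687, 1000⟩⟩ (tC71.hKL true) :=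
  posD_of_check (c := ⟨397, ⟨5, 10, 12, 9⟩⟩) (by decide +kernel)

def tC71_wU1 : PosD ⟨⟨0, 1, 1⟩, ⟨98, 99, 147⟩, ⟨4050, 7026, 30000⟩, ⟨2259, 2687, 1000⟩⟩ (tC71.hWU true) :=
  posD_of_check (c := ⟨431, ⟨5, 12, 13, 9⟩⟩) (by decide +kernel)

def tC71_wL1 : PosD ⟨⟨0, 1, 1⟩, ⟨98, 99, 147⟩, ⟨4050, 7026, 30000⟩, ⟨2259, 2687, 1000⟩⟩ (tC71.hWL true) :=
  posD_of_check (c := ⟨432, ⟨5, 12, 13, 9⟩⟩) (by decide +kernel)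

def tC71_nueH : PosD ⟨⟨0, 1, 1⟩, ⟨98, 99, 147⟩, ⟨4050, 7026, 30000⟩, ⟨2259, 2687, 1000⟩⟩ (tC71.eH.ν) :=
  posD_of_check (c := ⟨46, ⟨0, 0, 1, 1⟩⟩) (by decide +kernel)

def tC71_nupU : PosD ⟨⟨0, 1, 1⟩, ⟨98, 99, 147⟩, ⟨4050, 7026, 30000⟩, ⟨2259, 2687, 1000⟩⟩ (tC71.pU.ν) :=
  posD_of_check (c := ⟨47, ⟨0, 0, 1, 1⟩⟩) (by decide +kernel)

def tC71_nukU : PosD ⟨⟨0, 1, 1⟩, ⟨98, 99, 147⟩, ⟨4050, 7026, 30000⟩, ⟨2259, 2687, 1000⟩⟩ (tC71.kU.ν) :=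
  posD_of_check (c := ⟨42, ⟨0, 0, 1, 1⟩⟩) (by decide +kernel)

def tC71_nukL : PosD ⟨⟨0, 1, 1⟩, ⟨98, 99, 147⟩, ⟨4050, 7026, 30000⟩, ⟨2259, 2687, 1000⟩⟩ (tC71.kL.ν) :=
  posD_of_check (c := ⟨43, ⟨0, 0, 1, 1⟩⟩) (by decide +kernel)

def tC71_nuwU : PosD ⟨⟨0, 1, 1⟩, ⟨98, 99, 147⟩, ⟨4050, 7026, 30000⟩, ⟨2259, 2687, 1000⟩⟩ (tC71.wU.ν) :=
  posD_of_check (c := ⟨47, ⟨0, 0, 1, 1⟩⟩) (by decide +kernel)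

def tC71_nuwL : PosD ⟨⟨0, 1, 1⟩, ⟨98, 99, 147⟩, ⟨4050, 7026, 30000⟩, ⟨2259, 2687, 1000⟩⟩ (tC71.wL.ν) :=
  posD_of_check (c := ⟨47, ⟨0, 0, 1, 1⟩⟩) (by decide +kernel)

/-- The bounds of the piece. -/
def tC71_env : tC71.Env ⟨⟨0, 1, 1⟩, ⟨98, 99, 147⟩, ⟨4050, 7026, 30000⟩, ⟨2259, 2687, 1000⟩⟩ :=
  ⟨tC71_p0, Bool.forall_bool.2 ⟨tC71_den0, tC71_den1⟩, tC71_gn, Bool.forall_bool.2 ⟨tC71_ev0, tC71_ev1⟩, Bool.forall_bool.2 ⟨tC71_zL0, tC71_zL1⟩, Bool.forall_bool.2 ⟨tC71_zU0, tC71_zU1⟩, Bool.forall_bool.2 ⟨tC71_eL0, tC71_eL1⟩, ⟨.inr rfl, .inr rfl⟩, Bool.forall_bool.2 ⟨tC71_eH0, tC71_eH1⟩, ⟨.inr rfl, .inl tC71_nueH⟩, Bool.forall_bool.2 ⟨tC71_pL0, tC71_pL1⟩, ⟨.inr rfl, .inr rfl⟩, Bool.forall_bool.2 ⟨tC71_pU0, tC71_pU1⟩, ⟨.inr rfl,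 .inl tC71_nupU⟩, Bool.forall_bool.2 ⟨tC71_kU0, tC71_kU1⟩, ⟨.inr rfl, .inl tC71_nukU⟩, Bool.forall_bool.2 ⟨tC71_kL0, tC71_kL1⟩, ⟨.inr rfl, .inl tC71_nukL⟩, Bool.forall_bool.2 ⟨tC71_wU0, tC71_wU1⟩, ⟨.inr rfl, .inl tC71_nuwU⟩, Bool.forall_bool.2 ⟨tC71_wL0, tC71_wL1⟩, ⟨.inr rfl, .inl tC71_nuwL⟩⟩

def tC71_pp : PosD ⟨⟨0, 1, 1⟩, ⟨98, 99, 147⟩, ⟨4050, 7026, 30000⟩, ⟨2259, 2687, 1000⟩⟩ (tC71.xPL) :=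
  posD_of_check (c := ⟨96, ⟨1, 1, 3, 3⟩⟩) (by decide +kernel)

def tC71_k2p : PosD ⟨⟨0, 1, 1⟩, ⟨98, 99, 147⟩, ⟨4050, 7026, 30000⟩, ⟨2259, 2687, 1000⟩⟩ (tC71.k2p tC71.xE) :=
  posD_of_check (c := ⟨72, ⟨1, 1, 2, 2⟩⟩) (by decide +kernel)

def tC71_k2m : PosD ⟨⟨0, 1, 1⟩, ⟨98, 99, 147⟩, ⟨4050, 7026, 30000⟩, ⟨2259, 2687, 1000⟩⟩ (tC71.k2m tC71.xE) :=
  posD_of_check (c := ⟨29, ⟨0, 0, 1, 1⟩⟩) (by decide +kernel)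

def tC71_v2p : PosD ⟨⟨0, 1, 1⟩, ⟨98, 99, 147⟩, ⟨4050, 7026, 30000⟩, ⟨2259, 2687, 1000⟩⟩ (tC71.hV2p) :=
  posD_of_check (c := ⟨272, ⟨1, 6, 10, 5⟩⟩) (by decide +kernel)

def tC71_v2ma : PosD ⟨⟨0, 1, 1⟩, ⟨98, 99, 147⟩, ⟨4050, 5538, 30000⟩, ⟨2259, 2687, 1000⟩⟩ (tC71.hV2m) :=
  posD_of_check (c := ⟨242, ⟨0, 5, 10, 4⟩⟩) (by decide +kernel)

def tC71_v2mba : PosD ⟨⟨0, 1, 1⟩, ⟨98, 99, 147⟩, ⟨5538, 6282, 30000⟩, ⟨2259, 2687, 1000⟩⟩ (tC71.hV2m) :=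
  posD_of_check (c := ⟨243, ⟨0, 5, 10, 4⟩⟩) (by decide +kernel)

def tC71_v2mbbaa : PosD ⟨⟨0, 1, 1⟩, ⟨98, 99, 147⟩, ⟨6282, 6468, 30000⟩, ⟨2259, 2687, 1000⟩⟩ (tC71.hV2m) :=
  posD_of_check (c := ⟨243, ⟨0, 5, 10, 4⟩⟩) (by decide +kernel)

def tC71_v2mbbaba : PosD ⟨⟨0, 1, 1⟩, ⟨98, 99, 147⟩, ⟨6468, 6654, 30000⟩, ⟨2259, 2473, 1000⟩⟩ (tC71.hV2m) :=
  posD_of_check (c := ⟨243, ⟨0, 5, 10, 4⟩⟩) (by decide +kernel)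

def tC71_v2mbbabb : PosD ⟨⟨0, 1, 1⟩, ⟨98, 99, 147⟩, ⟨6468, 6654, 30000⟩, ⟨2473, 2687, 1000⟩⟩ (tC71.hV2m) :=
  posD_of_relax (k₁ := 1) (k₂ := 0) (k₃ := 0) (n := 16) (posD_of_check (c := ⟨248, ⟨0, 5, 10, 4⟩⟩) (by decide +kernel))

def tC71_v2mbbab : PosD ⟨⟨0, 1, 1⟩, ⟨98, 99, 147⟩, ⟨6468, 6654, 30000⟩, ⟨2259, 2687, 1000⟩⟩ (tC71.hV2m) :=
  posD_join₃ tC71_v2mbbaba tC71_v2mbbabb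

def tC71_v2mbba : PosD ⟨⟨0, 1, 1⟩, ⟨98, 99, 147⟩, ⟨6282, 6654, 30000⟩, ⟨2259, 2687, 1000⟩⟩ (tC71.hV2m) :=
  posD_join₂ tC71_v2mbbaa tC71_v2mbbab

def tC71_v2mbbb : PosD ⟨⟨0, 1, 1⟩, ⟨98, 99, 147⟩, ⟨6654, 7026, 30000⟩, ⟨2259, 2687, 1000⟩⟩ (tC71.hV2m) :=
  posD_of_relax (k₁ := 1) (k₂ := 0) (k₃ := 0) (n := 16) (posD_of_check (c := ⟨248, ⟨0, 5, 10, 4⟩⟩) (by decide +kernel))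

def tC71_v2mbb : PosD ⟨⟨0, 1, 1⟩, ⟨98, 99, 147⟩, ⟨6282, 7026, 30000⟩, ⟨2259, 2687, 1000⟩⟩ (tC71.hV2m) :=
  posD_join₂ tC71_v2mbba tC71_v2mbbb

def tC71_v2mb : PosD ⟨⟨0, 1, 1⟩, ⟨98, 99, 147⟩, ⟨5538, 7026, 30000⟩, ⟨2259, 2687, 1000⟩⟩ (tC71.hV2m) :=
  posD_join₂ tC71_v2mba tC71_v2mbb

def tC71_v2m : PosD ⟨⟨0, 1, 1⟩, ⟨98, 99, 147⟩, ⟨4050, 7026, 30000⟩, ⟨2259, 2687, 1000⟩⟩ (tC71.hV2m) :=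
  posD_join₂ tC71_v2ma tC71_v2mb

def tC71_v3p : PosD ⟨⟨0, 1, 1⟩, ⟨98, 99, 147⟩, ⟨4050, 7026, 30000⟩, ⟨2259, 2687, 1000⟩⟩ (tC71.hV3p) :=
  posD_of_check (c := ⟨257, ⟨1, 6, 9, 5⟩⟩) (by decide +kernel)

def tC71_v3m : PosD ⟨⟨0, 1, 1⟩, ⟨98, 99, 147⟩, ⟨4050, 7026, 30000⟩, ⟨2259, 2687, 1000⟩⟩ (tC71.hV3m) :=
  posD_of_check (c := ⟨230, ⟨0, 5, 9, 4⟩⟩) (by decide +kernel)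

def tC71_kap0 : PosD ⟨⟨0, 1, 1⟩, ⟨98, 99, 147⟩, ⟨4050, 7026, 30000⟩, ⟨2259, 2687, 1000⟩⟩ (tC71.kap false) :=
  posD_of_check (c := ⟨72, ⟨1, 1, 2, 2⟩⟩) (by decide +kernel)

def tC71_c10 : PosD ⟨⟨0, 1, 1⟩, ⟨98, 99, 147⟩, ⟨4050, 7026, 30000⟩, ⟨2259, 2687, 1000⟩⟩ (tC71.hC1 false) :=
  posD_of_check (c := ⟨275, ⟨3, 5, 9, 7⟩⟩) (by decide +kernel)

def tC71_c1h0a : PosD ⟨⟨0, 1, 1⟩, ⟨98, 99, 147⟩, ⟨4050, 5538, 30000⟩, ⟨2259, 2687, 1000⟩⟩ (tC71.hC1' false) :=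
  posD_of_check (c := ⟨275, ⟨3, 5, 9, 7⟩⟩) (by decide +kernel)

def tC71_c1h0b : PosD ⟨⟨0, 1, 1⟩, ⟨98, 99, 147⟩, ⟨5538, 7026, 30000⟩, ⟨2259, 2687, 1000⟩⟩ (tC71.hC1' false) :=
  posD_of_relax (k₁ := 150) (k₂ := 0) (k₃ := 0) (n := 16) (posD_of_check (c := ⟨275, ⟨3, 5, 9, 7⟩⟩) (by decide +kernel))

def tC71_c1h0 : PosD ⟨⟨0, 1, 1⟩, ⟨98, 99, 147⟩, ⟨4050, 7026, 30000⟩, ⟨2259, 2687, 1000⟩⟩ (tC71.hC1' false) :=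
  posD_join₂ tC71_c1h0a tC71_c1h0b

def tC71_tg00 : PosD ⟨⟨0, 1, 1⟩, ⟨98, 99, 147⟩, ⟨4050, 7026, 30000⟩, ⟨2259, 2687, 1000⟩⟩ (tC71.hG false (tC71.pEnd false)) :=
  posD_of_relax (k₁ := 1) (k₂ := 0) (k₃ := 0) (n := 16) (posD_of_check (c := ⟨389, ⟨2, 7, 14, 9⟩⟩) (by decide +kernel))

def tC71_c2p00a : PosD ⟨⟨0, 1, 1⟩, ⟨98, 99, 147⟩, ⟨4050, 5538, 30000⟩, ⟨2259, 2687, 1000⟩⟩ (tC71.hC2p false (tC71.pEnd false)) :=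
  posD_of_check (c := ⟨459, ⟨3, 8, 16, 11⟩⟩) (by decide +kernel)

def tC71_c2p00b : PosD ⟨⟨0, 1, 1⟩, ⟨98, 99, 147⟩, ⟨5538, 7026, 30000⟩, ⟨2259, 2687, 1000⟩⟩ (tC71.hC2p false (tC71.pEnd false)) :=
  posD_of_relax (k₁ := 1) (k₂ := 0) (k₃ := 0) (n := 16) (posD_of_check (c := ⟨461, ⟨3, 8, 16, 11⟩⟩) (by decide +kernel))

def tC71_c2p00 : PosD ⟨⟨0, 1, 1⟩, ⟨98, 99, 147⟩, ⟨4050, 7026, 30000⟩, ⟨2259, 2687, 1000⟩⟩ (tC71.hC2p false (tC71.pEnd false)) :=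
  posD_join₂ tC71_c2p00a tC71_c2p00b

def tC71_c2m00a : PosD ⟨⟨0, 1, 1⟩, ⟨98, 99, 147⟩, ⟨4050, 5538, 30000⟩, ⟨2259, 2687, 1000⟩⟩ (tC71.hC2m false (tC71.pEnd false)) :=
  posD_of_check (c := ⟨430, ⟨2, 7, 16, 10⟩⟩) (by decide +kernel)

def tC71_c2m00b : PosD ⟨⟨0, 1, 1⟩, ⟨98, 99, 147⟩, ⟨5538, 7026, 30000⟩, ⟨2259, 2687, 1000⟩⟩ (tC71.hC2m false (tC71.pEnd false)) :=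
  posD_of_relax (k₁ := 1) (k₂ := 0) (k₃ := 0) (n := 16) (posD_of_check (c := ⟨432, ⟨2, 7, 16, 10⟩⟩) (by decide +kernel))

def tC71_c2m00 : PosD ⟨⟨0, 1, 1⟩, ⟨98, 99, 147⟩, ⟨4050, 7026, 30000⟩, ⟨2259, 2687, 1000⟩⟩ (tC71.hC2m false (tC71.pEnd false)) :=
  posD_join₂ tC71_c2m00a tC71_c2m00b

def tC71_c3p00 : PosD ⟨⟨0, 1, 1⟩, ⟨98, 99, 147⟩, ⟨4050, 7026, 30000⟩, ⟨2259, 2687, 1000⟩⟩ (tC71.hC3p false false) :=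
  posD_of_check (c := ⟨446, ⟨3, 8, 15, 11⟩⟩) (by decide +kernel)

def tC71_c3m00 : PosD ⟨⟨0, 1, 1⟩, ⟨98, 99, 147⟩, ⟨4050, 7026, 30000⟩, ⟨2259, 2687, 1000⟩⟩ (tC71.hC3m false false) :=
  posD_of_check (c := ⟨422, ⟨3, 7, 15, 10⟩⟩) (by decide +kernel)

def tC71_c3ph00aa : PosD ⟨⟨0, 1, 1⟩, ⟨98, 99, 147⟩, ⟨4050, 5538, 30000⟩, ⟨2259, 2473, 1000⟩⟩ (tC71.hC3p' false false) :=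
  posD_of_check (c := ⟨446, ⟨3, 8, 15, 11⟩⟩) (by decide +kernel)

def tC71_c3ph00ab : PosD ⟨⟨0, 1, 1⟩, ⟨98, 99, 147⟩, ⟨5538, 7026, 30000⟩, ⟨2259, 2473, 1000⟩⟩ (tC71.hC3p' false false) :=
  posD_of_relax (k₁ := 10) (k₂ := 0) (k₃ := 0) (n := 16) (posD_of_check (c := ⟨447, ⟨3, 8, 15, 11⟩⟩) (by decide +kernel))

def tC71_c3ph00a : PosD ⟨⟨0, 1, 1⟩, ⟨98, 99, 147⟩, ⟨4050, 7026, 30000⟩, ⟨2259, 2473, 1000⟩⟩ (tC71.hC3p' false false) :=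
  posD_join₂ tC71_c3ph00aa tC71_c3ph00ab

def tC71_c3ph00b : PosD ⟨⟨0, 1, 1⟩, ⟨98, 99, 147⟩, ⟨4050, 7026, 30000⟩, ⟨2473, 2687, 1000⟩⟩ (tC71.hC3p' false false) :=
  posD_of_check (c := ⟨447, ⟨3, 8, 15, 11⟩⟩) (by decide +kernel)

def tC71_c3ph00 : PosD ⟨⟨0, 1, 1⟩, ⟨98, 99, 147⟩, ⟨4050, 7026, 30000⟩, ⟨2259, 2687, 1000⟩⟩ (tC71.hC3p' false false) :=
  posD_join₃ tC71_c3ph00a tC71_c3ph00b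

def tC71_c3mh00 : PosD ⟨⟨0, 1, 1⟩, ⟨98, 99, 147⟩, ⟨4050, 7026, 30000⟩, ⟨2259, 2687, 1000⟩⟩ (tC71.hC3m' false false) :=
  posD_of_relax (k₁ := 3) (k₂ := 0) (k₃ := 0) (n := 16) (posD_of_check (c := ⟨422, ⟨3, 7, 15, 10⟩⟩) (by decide +kernel))

def tC71_up00 : PosD ⟨⟨0, 1, 1⟩, ⟨98, 99, 147⟩, ⟨4050, 7026, 30000⟩, ⟨2259, 2687, 1000⟩⟩ (tC71.hUp false false) :=
  posD_of_check (c := ⟨445, ⟨3, 8, 15, 11⟩⟩) (by decide +kernel)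

def tC71_um00 : PosD ⟨⟨0, 1, 1⟩, ⟨98, 99, 147⟩, ⟨4050, 7026, 30000⟩, ⟨2259, 2687, 1000⟩⟩ (tC71.hUm false false) :=
  posD_of_check (c := ⟨419, ⟨2, 7, 15, 10⟩⟩) (by decide +kernel)

def tC71_tmg00 : PosD ⟨⟨0, 1, 1⟩, ⟨98, 99, 147⟩, ⟨4050, 7026, 30000⟩, ⟨2259, 2687, 1000⟩⟩ (tC71.hTMG false (tC71.pEnd false)) :=
  posD_of_check (c := ⟨403, ⟨2, 7, 14, 10⟩⟩) (by decide +kernel)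

def tC71_tg01 : PosD ⟨⟨0, 1, 1⟩, ⟨98, 99, 147⟩, ⟨4050, 7026, 30000⟩, ⟨2259, 2687, 1000⟩⟩ (tC71.hG true (tC71.pEnd false)) :=
  posD_of_check (c := ⟨389, ⟨2, 7, 14, 9⟩⟩) (by decide +kernel)

def tC71_c2p01 : PosD ⟨⟨0, 1, 1⟩, ⟨98, 99, 147⟩, ⟨4050, 7026, 30000⟩, ⟨2259, 2687, 1000⟩⟩ (tC71.hC2p true (tC71.pEnd false)) :=
  posD_of_check (c := ⟨460, ⟨3, 8, 16, 11⟩⟩) (by decide +kernel)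

def tC71_c2m01 : PosD ⟨⟨0, 1, 1⟩, ⟨98, 99, 147⟩, ⟨4050, 7026, 30000⟩, ⟨2259, 2687, 1000⟩⟩ (tC71.hC2m true (tC71.pEnd false)) :=
  posD_of_check (c := ⟨431, ⟨2, 7, 16, 10⟩⟩) (by decide +kernel)

def tC71_c3p01 : PosD ⟨⟨0, 1, 1⟩, ⟨98, 99, 147⟩, ⟨4050, 7026, 30000⟩, ⟨2259, 2687, 1000⟩⟩ (tC71.hC3p false true) :=
  posD_of_check (c := ⟨446, ⟨3, 8, 15, 11⟩⟩) (by decide +kernel)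

def tC71_c3m01 : PosD ⟨⟨0, 1, 1⟩, ⟨98, 99, 147⟩, ⟨4050, 7026, 30000⟩, ⟨2259, 2687, 1000⟩⟩ (tC71.hC3m false true) :=
  posD_of_check (c := ⟨422, ⟨3, 7, 15, 10⟩⟩) (by decide +kernel)

def tC71_c3ph01 : PosD ⟨⟨0, 1, 1⟩, ⟨98, 99, 147⟩, ⟨4050, 7026, 30000⟩, ⟨2259, 2687, 1000⟩⟩ (tC71.hC3p' false true) :=
  posD_of_relax (k₁ := 3) (k₂ := 0) (k₃ := 0) (n := 16) (posD_of_check (c := ⟨446, ⟨3, 8, 15, 11⟩⟩) (by decide +kernel))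

def tC71_c3mh01 : PosD ⟨⟨0, 1, 1⟩, ⟨98, 99, 147⟩, ⟨4050, 7026, 30000⟩, ⟨2259, 2687, 1000⟩⟩ (tC71.hC3m' false true) :=
  posD_of_check (c := ⟨422, ⟨3, 7, 15, 10⟩⟩) (by decide +kernel)

def tC71_up01 : PosD ⟨⟨0, 1, 1⟩, ⟨98, 99, 147⟩, ⟨4050, 7026, 30000⟩, ⟨2259, 2687, 1000⟩⟩ (tC71.hUp false true) :=
  posD_of_check (c := ⟨445, ⟨3, 8, 15, 11⟩⟩) (by decide +kernel)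

def tC71_um01 : PosD ⟨⟨0, 1, 1⟩, ⟨98, 99, 147⟩, ⟨4050, 7026, 30000⟩, ⟨2259, 2687, 1000⟩⟩ (tC71.hUm false true) :=
  posD_of_check (c := ⟨419, ⟨2, 7, 15, 10⟩⟩) (by decide +kernel)

def tC71_tmg01 : PosD ⟨⟨0, 1, 1⟩, ⟨98, 99, 147⟩, ⟨4050, 7026, 30000⟩, ⟨2259, 2687, 1000⟩⟩ (tC71.hTMG true (tC71.pEnd false)) :=
  posD_of_check (c := ⟨403, ⟨2, 7, 14, 10⟩⟩) (by decide +kernel)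

def tC71_kap1 : PosD ⟨⟨0, 1, 1⟩, ⟨98, 99, 147⟩, ⟨4050, 7026, 30000⟩, ⟨2259, 2687, 1000⟩⟩ (tC71.kap true) :=
  posD_of_check (c := ⟨73, ⟨1, 1, 2, 2⟩⟩) (by decide +kernel)

def tC71_c11 : PosD ⟨⟨0, 1, 1⟩, ⟨98, 99, 147⟩, ⟨4050, 7026, 30000⟩, ⟨2259, 2687, 1000⟩⟩ (tC71.hC1 true) :=
  posD_of_check (c := ⟨274, ⟨3, 5, 9, 7⟩⟩) (by decide +kernel)

def tC71_c1h1a : PosD ⟨⟨0, 1, 1⟩, ⟨98, 99, 147⟩, ⟨4050, 5538, 30000⟩, ⟨2259, 2687, 1000⟩⟩ (tC71.hC1' true) :=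
  posD_of_check (c := ⟨274, ⟨3, 5, 9, 7⟩⟩) (by decide +kernel)

def tC71_c1h1b : PosD ⟨⟨0, 1, 1⟩, ⟨98, 99, 147⟩, ⟨5538, 7026, 30000⟩, ⟨2259, 2687, 1000⟩⟩ (tC71.hC1' true) :=
  posD_of_relax (k₁ := 435) (k₂ := 0) (k₃ := 0) (n := 16) (posD_of_check (c := ⟨274, ⟨3, 5, 9, 7⟩⟩) (by decide +kernel))

def tC71_c1h1 : PosD ⟨⟨0, 1, 1⟩, ⟨98, 99, 147⟩, ⟨4050, 7026, 30000⟩, ⟨2259, 2687, 1000⟩⟩ (tC71.hC1' true) :=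
  posD_join₂ tC71_c1h1a tC71_c1h1b

def tC71_tg10 : PosD ⟨⟨0, 1, 1⟩, ⟨98, 99, 147⟩, ⟨4050, 7026, 30000⟩, ⟨2259, 2687, 1000⟩⟩ (tC71.hG false (tC71.pEnd true)) :=
  posD_of_check (c := ⟨386, ⟨2, 7, 14, 9⟩⟩) (by decide +kernel)

def tC71_c2p10a : PosD ⟨⟨0, 1, 1⟩, ⟨98, 99, 147⟩, ⟨4050, 5538, 30000⟩, ⟨2259, 2687, 1000⟩⟩ (tC71.hC2p false (tC71.pEnd true)) :=
  posD_of_check (c := ⟨457, ⟨3, 8, 16, 11⟩⟩) (by decide +kernel)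

def tC71_c2p10baa : PosD ⟨⟨0, 1, 1⟩, ⟨98, 99, 147⟩, ⟨5538, 6282, 30000⟩, ⟨2259, 2473, 1000⟩⟩ (tC71.hC2p false (tC71.pEnd true)) :=
  posD_of_check (c := ⟨458, ⟨3, 8, 16, 11⟩⟩) (by decide +kernel)

def tC71_c2p10bab : PosD ⟨⟨0, 1, 1⟩, ⟨98, 99, 147⟩, ⟨6282, 7026, 30000⟩, ⟨2259, 2473, 1000⟩⟩ (tC71.hC2p false (tC71.pEnd true)) :=
  posD_of_relax (k₁ := 2) (k₂ := 0) (k₃ := 0) (n := 16) (posD_of_check (c := ⟨458, ⟨3, 8, 16, 11⟩⟩) (by decide +kernel))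

def tC71_c2p10ba : PosD ⟨⟨0, 1, 1⟩, ⟨98, 99, 147⟩, ⟨5538, 7026, 30000⟩, ⟨2259, 2473, 1000⟩⟩ (tC71.hC2p false (tC71.pEnd true)) :=
  posD_join₂ tC71_c2p10baa tC71_c2p10bab

def tC71_c2p10bb : PosD ⟨⟨0, 1, 1⟩, ⟨98, 99, 147⟩, ⟨5538, 7026, 30000⟩, ⟨2473, 2687, 1000⟩⟩ (tC71.hC2p false (tC71.pEnd true)) :=
  posD_of_relax (k₁ := 2) (k₂ := 0) (k₃ := 0) (n := 16) (posD_of_check (c := ⟨458, ⟨3, 8, 16, 11⟩⟩) (by decide +kernel))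

def tC71_c2p10b : PosD ⟨⟨0, 1, 1⟩, ⟨98, 99, 147⟩, ⟨5538, 7026, 30000⟩, ⟨2259, 2687, 1000⟩⟩ (tC71.hC2p false (tC71.pEnd true)) :=
  posD_join₃ tC71_c2p10ba tC71_c2p10bb

def tC71_c2p10 : PosD ⟨⟨0, 1, 1⟩, ⟨98, 99, 147⟩, ⟨4050, 7026, 30000⟩, ⟨2259, 2687, 1000⟩⟩ (tC71.hC2p false (tC71.pEnd true)) :=
  posD_join₂ tC71_c2p10a tC71_c2p10b

def tC71_c2m10 : PosD ⟨⟨0, 1, 1⟩, ⟨98, 99, 147⟩, ⟨4050, 7026, 30000⟩, ⟨2259, 2687, 1000⟩⟩ (tC71.hC2m false (tC71.pEnd true)) :=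
  posD_of_check (c := ⟨428, ⟨2, 7, 16, 10⟩⟩) (by decide +kernel)

def tC71_c3p10 : PosD ⟨⟨0, 1, 1⟩, ⟨98, 99, 147⟩, ⟨4050, 7026, 30000⟩, ⟨2259, 2687, 1000⟩⟩ (tC71.hC3p true false) :=
  posD_of_check (c := ⟨445, ⟨3, 8, 15, 11⟩⟩) (by decide +kernel)

def tC71_c3m10 : PosD ⟨⟨0, 1, 1⟩, ⟨98, 99, 147⟩, ⟨4050, 7026, 30000⟩, ⟨2259, 2687, 1000⟩⟩ (tC71.hC3m true false) :=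
  posD_of_check (c := ⟨421, ⟨3, 7, 15, 10⟩⟩) (by decide +kernel)

def tC71_c3ph10 : PosD ⟨⟨0, 1, 1⟩, ⟨98, 99, 147⟩, ⟨4050, 7026, 30000⟩, ⟨2259, 2687, 1000⟩⟩ (tC71.hC3p' true false) :=
  posD_of_relax (k₁ := 2) (k₂ := 0) (k₃ := 0) (n := 16) (posD_of_check (c := ⟨445, ⟨3, 8, 15, 11⟩⟩) (by decide +kernel))

def tC71_c3mh10 : PosD ⟨⟨0, 1, 1⟩, ⟨98, 99, 147⟩, ⟨4050, 7026, 30000⟩, ⟨2259, 2687, 1000⟩⟩ (tC71.hC3m' true false) :=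
  posD_of_relax (k₁ := 1) (k₂ := 0) (k₃ := 0) (n := 16) (posD_of_check (c := ⟨421, ⟨3, 7, 15, 10⟩⟩) (by decide +kernel))

def tC71_up10 : PosD ⟨⟨0, 1, 1⟩, ⟨98, 99, 147⟩, ⟨4050, 7026, 30000⟩, ⟨2259, 2687, 1000⟩⟩ (tC71.hUp true false) :=
  posD_of_check (c := ⟨443, ⟨3, 8, 15, 11⟩⟩) (by decide +kernel)

def tC71_um10 : PosD ⟨⟨0, 1, 1⟩, ⟨98, 99, 147⟩, ⟨4050, 7026, 30000⟩, ⟨2259, 2687, 1000⟩⟩ (tC71.hUm true false) :=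
  posD_of_check (c := ⟨417, ⟨2, 7, 15, 10⟩⟩) (by decide +kernel)

def tC71_tmg10 : PosD ⟨⟨0, 1, 1⟩, ⟨98, 99, 147⟩, ⟨4050, 7026, 30000⟩, ⟨2259, 2687, 1000⟩⟩ (tC71.hTMG false (tC71.pEnd true)) :=
  posD_of_check (c := ⟨401, ⟨2, 7, 14, 10⟩⟩) (by decide +kernel)

def tC71_tg11 : PosD ⟨⟨0, 1, 1⟩, ⟨98, 99, 147⟩, ⟨4050, 7026, 30000⟩, ⟨2259, 2687, 1000⟩⟩ (tC71.hG true (tC71.pEnd true)) :=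
  posD_of_check (c := ⟨386, ⟨2, 7, 14, 9⟩⟩) (by decide +kernel)

def tC71_c2p11 : PosD ⟨⟨0, 1, 1⟩, ⟨98, 99, 147⟩, ⟨4050, 7026, 30000⟩, ⟨2259, 2687, 1000⟩⟩ (tC71.hC2p true (tC71.pEnd true)) :=
  posD_of_check (c := ⟨457, ⟨3, 8, 16, 11⟩⟩) (by decide +kernel)

def tC71_c2m11 : PosD ⟨⟨0, 1, 1⟩, ⟨98, 99, 147⟩, ⟨4050, 7026, 30000⟩, ⟨2259, 2687, 1000⟩⟩ (tC71.hC2m true (tC71.pEnd true)) :=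
  posD_of_check (c := ⟨428, ⟨2, 7, 16, 10⟩⟩) (by decide +kernel)

def tC71_c3p11 : PosD ⟨⟨0, 1, 1⟩, ⟨98, 99, 147⟩, ⟨4050, 7026, 30000⟩, ⟨2259, 2687, 1000⟩⟩ (tC71.hC3p true true) :=
  posD_of_check (c := ⟨445, ⟨3, 8, 15, 11⟩⟩) (by decide +kernel)

def tC71_c3m11 : PosD ⟨⟨0, 1, 1⟩, ⟨98, 99, 147⟩, ⟨4050, 7026, 30000⟩, ⟨2259, 2687, 1000⟩⟩ (tC71.hC3m true true) :=
  posD_of_check (c := ⟨421, ⟨3, 7, 15, 10⟩⟩) (by decide +kernel)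

def tC71_c3ph11 : PosD ⟨⟨0, 1, 1⟩, ⟨98, 99, 147⟩, ⟨4050, 7026, 30000⟩, ⟨2259, 2687, 1000⟩⟩ (tC71.hC3p' true true) :=
  posD_of_check (c := ⟨445, ⟨3, 8, 15, 11⟩⟩) (by decide +kernel)

def tC71_c3mh11 : PosD ⟨⟨0, 1, 1⟩, ⟨98, 99, 147⟩, ⟨4050, 7026, 30000⟩, ⟨2259, 2687, 1000⟩⟩ (tC71.hC3m' true true) :=
  posD_of_check (c := ⟨421, ⟨3, 7, 15, 10⟩⟩) (by decide +kernel)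

def tC71_up11 : PosD ⟨⟨0, 1, 1⟩, ⟨98, 99, 147⟩, ⟨4050, 7026, 30000⟩, ⟨2259, 2687, 1000⟩⟩ (tC71.hUp true true) :=
  posD_of_check (c := ⟨443, ⟨3, 8, 15, 11⟩⟩) (by decide +kernel)

def tC71_um11 : PosD ⟨⟨0, 1, 1⟩, ⟨98, 99, 147⟩, ⟨4050, 7026, 30000⟩, ⟨2259, 2687, 1000⟩⟩ (tC71.hUm true true) :=
  posD_of_check (c := ⟨417, ⟨2, 7, 15, 10⟩⟩) (by decide +kernel)

def tC71_tmg11 : PosD ⟨⟨0, 1, 1⟩, ⟨98, 99, 147⟩, ⟨4050, 7026, 30000⟩, ⟨2259, 2687, 1000⟩⟩ (tC71.hTMG true (tC71.pEnd true)) :=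
  posD_of_check (c := ⟨401, ⟨2, 7, 14, 10⟩⟩) (by decide +kernel)

/-- The signs of the piece. -/
def tC71_sign : tC71.Sign ⟨⟨0, 1, 1⟩, ⟨98, 99, 147⟩, ⟨4050, 7026, 30000⟩, ⟨2259, 2687, 1000⟩⟩ :=
  ⟨tC71_pp,
    tC71_k2p,
    tC71_k2m,
    Bool.forall_bool.2 ⟨(Bool.forall_bool.2 ⟨tC71_tg00, tC71_tg01⟩), (Bool.forall_bool.2 ⟨tC71_tg10, tC71_tg11⟩)⟩,
    Bool.forall_bool.2 ⟨(Bool.forall_bool.2 ⟨tC71_c2p00, tC71_c2p01⟩), (Bool.forall_bool.2 ⟨tC71_c2p10, tC71_c2p11⟩)⟩,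
    Bool.forall_bool.2 ⟨(Bool.forall_bool.2 ⟨tC71_c2m00, tC71_c2m01⟩), (Bool.forall_bool.2 ⟨tC71_c2m10, tC71_c2m11⟩)⟩,
    Bool.forall_bool.2 ⟨tC71_kap0, tC71_kap1⟩,
    Bool.forall_bool.2 ⟨tC71_c10, tC71_c11⟩,
    Bool.forall_bool.2 ⟨(Bool.forall_bool.2 ⟨tC71_c3p00, tC71_c3p01⟩), (Bool.forall_bool.2 ⟨tC71_c3p10, tC71_c3p11⟩)⟩,
    Bool.forall_bool.2 ⟨(Bool.forall_bool.2 ⟨tC71_c3m00, tC71_c3m01⟩), (Bool.forall_bool.2 ⟨tC71_c3m10, tC71_c3m11⟩)⟩,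
    Bool.forall_bool.2 ⟨(Bool.forall_bool.2 ⟨tC71_tmg00, tC71_tmg01⟩), (Bool.forall_bool.2 ⟨tC71_tmg10, tC71_tmg11⟩)⟩,
    .inr (Bool.forall_bool.2 ⟨⟨tC71_c1h0, Bool.forall_bool.2 ⟨⟨tC71_c3ph00, tC71_c3mh00, tC71_up00, tC71_um00⟩, ⟨tC71_c3ph01, tC71_c3mh01, tC71_up01, tC71_um01⟩⟩⟩, ⟨tC71_c1h1, Bool.forall_bool.2 ⟨⟨tC71_c3ph10, tC71_c3mh10, tC71_up10, tC71_um10⟩, ⟨tC71_c3ph11, tC71_c3mh11, tC71_up11, tC71_um11⟩⟩⟩⟩),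
    tC71_v2p,
    tC71_v2m,
    tC71_v3p,
    tC71_v3m,
    posD_sub (b := ⟨⟨0, 1, 1⟩, ⟨98, 99, 147⟩, ⟨4050, 10000, 30000⟩, ⟨290, 4000, 1000⟩⟩) (by decide +kernel) tC_vG,
    posD_sub (b := ⟨⟨0, 1, 1⟩, ⟨98, 99, 147⟩, ⟨4050, 10000, 30000⟩, ⟨290, 4000, 1000⟩⟩) (by decide +kernel) tC_vMG,
    posD_sub (b := ⟨⟨0, 1, 1⟩, ⟨98, 99, 147⟩, ⟨4050, 10000, 30000⟩, ⟨290, 4000, 1000⟩⟩) (by decide +kernel) tC_ak,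
    posD_sub (b := ⟨⟨0, 1, 1⟩, ⟨98, 99, 147⟩, ⟨4050, 10000, 30000⟩, ⟨290, 4000, 1000⟩⟩) (by decide +kernel) tC_aw,
    posD_sub (b := ⟨⟨0, 1, 1⟩, ⟨98, 99, 147⟩, ⟨4050, 10000, 30000⟩, ⟨290, 4000, 1000⟩⟩) (by decide +kernel) tC_gk,
    posD_sub (b := ⟨⟨0, 1, 1⟩, ⟨98, 99, 147⟩, ⟨4050, 10000, 30000⟩, ⟨290, 4000, 1000⟩⟩) (by decide +kernel) tC_gw,
    posD_sub (b := ⟨⟨0, 1, 1⟩, ⟨98, 99, 147⟩, ⟨4050, 10000, 30000⟩, ⟨290, 4000, 1000⟩⟩) (by decide +kernel) tC_ek,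
    posD_sub (b := ⟨⟨0, 1, 1⟩, ⟨98, 99, 147⟩, ⟨4050, 10000, 30000⟩, ⟨290, 4000, 1000⟩⟩) (by decide +kernel) tC_ew⟩

end Vale.Agent.P100.Calib.Closed.Six.Tail
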