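import Vale.Agent.P100.Calib.SlabSixTailDataC
import Vale.Agent.P100.Calib.SlabSixTailGlobC

/-!
# Checks of some pieces of the certificate

The checks are written as definitions so that they run one after another, which keeps the memory of the
kernel low.
-/

set_option linter.defProp false

namespace Vale.Agent.P100.Calib.Closed.Six.Tail

open BoxPos Large

local instance sixTailCheckstC46Add : Add Ex := ⟨Ex.add⟩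
local instance sixTailCheckstC46Sub : Sub Ex := ⟨Ex.sub⟩
local instance sixTailCheckstC46Mul : Mul Ex := ⟨Ex.mul⟩

def tC72_phx : PosIf ⟨⟨0, 1, 1⟩, ⟨98, 99, 147⟩, ⟨9258, 10000, 30000⟩, ⟨1200, 1271, 1000⟩⟩ (tC72.u₁ - tC72Lo) (phCn (tC72.u₁ + xO * (tC72Lo - tC72.u₁))) :=
  posIf_of_posD (posD_of_check (c := ⟨109, ⟨2, 0, 4, 2⟩⟩) (by decide +kernel))

def tC72_phd : PosD ⟨⟨0, 1, 1⟩, ⟨98, 99, 147⟩, ⟨9258, 10000, 30000⟩, ⟨1200, 1271, 1000⟩⟩ (phCd (tC72.u₁ + xO * (tC72Lo - tC72.u₁))) :=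
  posD_of_check (c := ⟨51, ⟨1, 0, 2, 1⟩⟩) (by decide +kernel)

def tC72_p0 : PosD ⟨⟨0, 1, 1⟩, ⟨98, 99, 147⟩, ⟨9258, 10000, 30000⟩, ⟨1200, 1271, 1000⟩⟩ (tC72.hP0) :=
  posD_of_check (c := ⟨83, ⟨0, 2, 3, 1⟩⟩) (by decide +kernel)

def tC72_gn : PosD ⟨⟨0, 1, 1⟩, ⟨98, 99, 147⟩, ⟨9258, 10000, 30000⟩, ⟨1200, 1271, 1000⟩⟩ (tC72.hGn) :=
  posD_of_check (c := ⟨69, ⟨1, 1, 2, 2⟩⟩) (by decide +kernel)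

def tC72_den0 : PosD ⟨⟨0, 1, 1⟩, ⟨98, 99, 147⟩, ⟨9258, 10000, 30000⟩, ⟨1200, 1271, 1000⟩⟩ (tC72.hDen false) :=
  posD_of_check (c := ⟨51, ⟨1, 0, 2, 1⟩⟩) (by decide +kernel)

def tC72_den1 : PosD ⟨⟨0, 1, 1⟩, ⟨98, 99, 147⟩, ⟨9258, 10000, 30000⟩, ⟨1200, 1271, 1000⟩⟩ (tC72.hDen true) :=
  posD_of_check (c := ⟨180, ⟨3, 4, 6, 4⟩⟩) (by decide +kernel)

def tC72_ev0 : PosD ⟨⟨0, 1, 1⟩, ⟨98, 99, 147⟩, ⟨9258, 10000, 30000⟩, ⟨1200, 1271, 1000⟩⟩ (tC72.hEv false) :=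
  posD_of_check (c := ⟨220, ⟨4, 2, 8, 4⟩⟩) (by decide +kernel)

def tC72_zL0 : PosD ⟨⟨0, 1, 1⟩, ⟨98, 99, 147⟩, ⟨9258, 10000, 30000⟩, ⟨1200, 1271, 1000⟩⟩ (tC72.hZL false) :=
  posD_of_check (c := ⟨222, ⟨4, 3, 8, 4⟩⟩) (by decide +kernel)

def tC72_zU0 : PosD ⟨⟨0, 1, 1⟩, ⟨98, 99, 147⟩, ⟨9258, 10000, 30000⟩, ⟨1200, 1271, 1000⟩⟩ (tC72.hZU false) :=
  posD_of_check (c := ⟨222, ⟨4, 3, 8, 4⟩⟩) (by decide +kernel)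

def tC72_eL0 : PosD ⟨⟨0, 1, 1⟩, ⟨98, 99, 147⟩, ⟨9258, 10000, 30000⟩, ⟨1200, 1271, 1000⟩⟩ (tC72.hEL false) :=
  posD_of_check (c := ⟨314, ⟨5, 6, 11, 6⟩⟩) (by decide +kernel)

def tC72_eH0 : PosD ⟨⟨0, 1, 1⟩, ⟨98, 99, 147⟩, ⟨9258, 10000, 30000⟩, ⟨1200, 1271, 1000⟩⟩ (tC72.hEH false) :=
  posD_of_check (c := ⟨314, ⟨5, 6, 11, 6⟩⟩) (by decide +kernel)

def tC72_pL0 : PosD ⟨⟨0, 1, 1⟩, ⟨98, 99, 147⟩, ⟨9258, 10000, 30000⟩, ⟨1200, 1271, 1000⟩⟩ (tC72.hPL false) :=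
  posD_of_check (c := ⟨341, ⟨5, 6, 11, 7⟩⟩) (by decide +kernel)

def tC72_pU0 : PosD ⟨⟨0, 1, 1⟩, ⟨98, 99, 147⟩, ⟨9258, 10000, 30000⟩, ⟨1200, 1271, 1000⟩⟩ (tC72.hPU false) :=
  posD_of_check (c := ⟨341, ⟨5, 6, 11, 7⟩⟩) (by decide +kernel)

def tC72_kU0 : PosD ⟨⟨0, 1, 1⟩, ⟨98, 99, 147⟩, ⟨9258, 10000, 30000⟩, ⟨1200, 1271, 1000⟩⟩ (tC72.hKU false) :=
  posD_of_check (c := ⟨339, ⟨5, 6, 11, 7⟩⟩) (by decide +kernel)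

def tC72_kL0 : PosD ⟨⟨0, 1, 1⟩, ⟨98, 99, 147⟩, ⟨9258, 10000, 30000⟩, ⟨1200, 1271, 1000⟩⟩ (tC72.hKL false) :=
  posD_of_check (c := ⟨338, ⟨5, 6, 11, 7⟩⟩) (by decide +kernel)

def tC72_wU0 : PosD ⟨⟨0, 1, 1⟩, ⟨98, 99, 147⟩, ⟨9258, 10000, 30000⟩, ⟨1200, 1271, 1000⟩⟩ (tC72.hWU false) :=
  posD_of_check (c := ⟨371, ⟨5, 8, 12, 7⟩⟩) (by decide +kernel)

def tC72_wL0 : PosD ⟨⟨0, 1, 1⟩, ⟨98, 99, 147⟩, ⟨9258, 10000, 30000⟩, ⟨1200, 1271, 1000⟩⟩ (tC72.hWL false) :=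
  posD_of_relax (k₁ := 0) (k₂ := 0) (k₃ := 1) (n := 16) (posD_of_check (c := ⟨373, ⟨5, 8, 12, 7⟩⟩) (by decide +kernel))

def tC72_ev1 : PosD ⟨⟨0, 1, 1⟩, ⟨98, 99, 147⟩, ⟨9258, 10000, 30000⟩, ⟨1200, 1271, 1000⟩⟩ (tC72.hEv true) :=
  posD_of_check (c := ⟨273, ⟨4, 6, 9, 6⟩⟩) (by decide +kernel)

def tC72_zL1 : PosD ⟨⟨0, 1, 1⟩, ⟨98, 99, 147⟩, ⟨9258, 10000, 30000⟩, ⟨1200, 1271, 1000⟩⟩ (tC72.hZL true) :=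
  posD_of_check (c := ⟨296, ⟨4, 7, 10, 7⟩⟩) (by decide +kernel)

def tC72_zU1 : PosD ⟨⟨0, 1, 1⟩, ⟨98, 99, 147⟩, ⟨9258, 10000, 30000⟩, ⟨1200, 1271, 1000⟩⟩ (tC72.hZU true) :=
  posD_of_check (c := ⟨296, ⟨4, 7, 10, 7⟩⟩) (by decide +kernel)

def tC72_eL1 : PosD ⟨⟨0, 1, 1⟩, ⟨98, 99, 147⟩, ⟨9258, 10000, 30000⟩, ⟨1200, 1271, 1000⟩⟩ (tC72.hEL true) :=
  posD_of_check (c := ⟨368, ⟨5, 10, 12, 8⟩⟩) (by decide +kernel)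

def tC72_eH1 : PosD ⟨⟨0, 1, 1⟩, ⟨98, 99, 147⟩, ⟨9258, 10000, 30000⟩, ⟨1200, 1271, 1000⟩⟩ (tC72.hEH true) :=
  posD_of_check (c := ⟨368, ⟨5, 10, 12, 8⟩⟩) (by decide +kernel)

def tC72_pL1 : PosD ⟨⟨0, 1, 1⟩, ⟨98, 99, 147⟩, ⟨9258, 10000, 30000⟩, ⟨1200, 1271, 1000⟩⟩ (tC72.hPL true) :=
  posD_of_check (c := ⟨394, ⟨5, 10, 12, 9⟩⟩) (by decide +kernel)

def tC72_pU1 : PosD ⟨⟨0, 1, 1⟩, ⟨98, 99, 147⟩, ⟨9258, 10000, 30000⟩, ⟨1200, 1271, 1000⟩⟩ (tC72.hPU true) :=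
  posD_of_check (c := ⟨395, ⟨5, 10, 12, 9⟩⟩) (by decide +kernel)

def tC72_kU1 : PosD ⟨⟨0, 1, 1⟩, ⟨98, 99, 147⟩, ⟨9258, 10000, 30000⟩, ⟨1200, 1271, 1000⟩⟩ (tC72.hKU true) :=
  posD_of_check (c := ⟨392, ⟨5, 10, 12, 9⟩⟩) (by decide +kernel)

def tC72_kL1 : PosD ⟨⟨0, 1, 1⟩, ⟨98, 99, 147⟩, ⟨9258, 10000, 30000⟩, ⟨1200, 1271, 1000⟩⟩ (tC72.hKL true) :=
  posD_of_check (c := ⟨391, ⟨5, 10, 12, 9⟩⟩) (by decide +kernel)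

def tC72_wU1 : PosD ⟨⟨0, 1, 1⟩, ⟨98, 99, 147⟩, ⟨9258, 10000, 30000⟩, ⟨1200, 1271, 1000⟩⟩ (tC72.hWU true) :=
  posD_of_check (c := ⟨424, ⟨5, 12, 13, 9⟩⟩) (by decide +kernel)

def tC72_wL1a : PosD ⟨⟨0, 1, 1⟩, ⟨98, 99, 147⟩, ⟨9258, 10000, 30000⟩, ⟨1200, 1235, 1000⟩⟩ (tC72.hWL true) :=
  posD_of_check (c := ⟨426, ⟨5, 12, 13, 9⟩⟩) (by decide +kernel)

def tC72_wL1ba : PosD ⟨⟨0, 1, 1⟩, ⟨98, 99, 147⟩, ⟨9258, 10000, 30000⟩, ⟨1235, 1253, 1000⟩⟩ (tC72.hWL true) :=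
  posD_of_check (c := ⟨426, ⟨5, 12, 13, 9⟩⟩) (by decide +kernel)

def tC72_wL1bba : PosD ⟨⟨0, 1, 1⟩, ⟨98, 99, 147⟩, ⟨9258, 9629, 30000⟩, ⟨1253, 1271, 1000⟩⟩ (tC72.hWL true) :=
  posD_of_check (c := ⟨426, ⟨5, 12, 13, 9⟩⟩) (by decide +kernel)

def tC72_wL1bbba : PosD ⟨⟨0, 1, 1⟩, ⟨98, 99, 147⟩, ⟨9629, 9814, 30000⟩, ⟨1253, 1271, 1000⟩⟩ (tC72.hWL true) :=
  posD_of_check (c := ⟨426, ⟨5, 12, 13, 9⟩⟩) (by decide +kernel)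

def tC72_wL1bbbb : PosD ⟨⟨0, 1, 1⟩, ⟨98, 99, 147⟩, ⟨9814, 10000, 30000⟩, ⟨1253, 1271, 1000⟩⟩ (tC72.hWL true) :=
  posD_of_relax (k₁ := 0) (k₂ := 0) (k₃ := 1) (n := 16) (posD_of_check (c := ⟨427, ⟨5, 12, 13, 9⟩⟩) (by decide +kernel))

def tC72_wL1bbb : PosD ⟨⟨0, 1, 1⟩, ⟨98, 99, 147⟩, ⟨9629, 10000, 30000⟩, ⟨1253, 1271, 1000⟩⟩ (tC72.hWL true) :=
  posD_join₂ tC72_wL1bbba tC72_wL1bbbb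

def tC72_wL1bb : PosD ⟨⟨0, 1, 1⟩, ⟨98, 99, 147⟩, ⟨9258, 10000, 30000⟩, ⟨1253, 1271, 1000⟩⟩ (tC72.hWL true) :=
  posD_join₂ tC72_wL1bba tC72_wL1bbb

def tC72_wL1b : PosD ⟨⟨0, 1, 1⟩, ⟨98, 99, 147⟩, ⟨9258, 10000, 30000⟩, ⟨1235, 1271, 1000⟩⟩ (tC72.hWL true) :=
  posD_join₃ tC72_wL1ba tC72_wL1bb

def tC72_wL1 : PosD ⟨⟨0, 1, 1⟩, ⟨98, 99, 147⟩, ⟨9258, 10000, 30000⟩, ⟨1200, 1271, 1000⟩⟩ (tC72.hWL true) :=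
  posD_join₃ tC72_wL1a tC72_wL1b

/-- The bounds of the piece. -/
def tC72_env : tC72.Env ⟨⟨0, 1, 1⟩, ⟨98, 99, 147⟩, ⟨9258, 10000, 30000⟩, ⟨1200, 1271, 1000⟩⟩ :=
  ⟨tC72_p0, Bool.forall_bool.2 ⟨tC72_den0, tC72_den1⟩, tC72_gn, Bool.forall_bool.2 ⟨tC72_ev0, tC72_ev1⟩, Bool.forall_bool.2 ⟨tC72_zL0, tC72_zL1⟩, Bool.forall_bool.2 ⟨tC72_zU0, tC72_zU1⟩, Bool.forall_bool.2 ⟨tC72_eL0, tC72_eL1⟩, ⟨.inr rfl, .inr rfl⟩, Bool.forall_bool.2 ⟨tC72_eH0, tC72_eH1⟩, ⟨.inr rfl, .inr rfl⟩, Bool.forall_bool.2 ⟨tC72_pL0, tC72_pL1⟩, ⟨.inr rfl, .inr rfl⟩, Bool.forall_bool.2 ⟨tC72_pU0, tC72_pU1⟩, ⟨.inr rfl, .inr rfl⟩, Bool.forall_bool.2 ⟨tC72_kU0, tC72_kU1⟩, ⟨.inr rfl, .inr rfl⟩, Bool.forall_bool.2 ⟨tC72_kL0, tC72_kL1⟩, ⟨.inr rfl, .inr rfl⟩, Bool.forall_bool.2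 ⟨tC72_wU0, tC72_wU1⟩, ⟨.inr rfl, .inr rfl⟩, Bool.forall_bool.2 ⟨tC72_wL0, tC72_wL1⟩, ⟨.inr rfl, .inr rfl⟩⟩

def tC72_pU20 : PosD ⟨⟨0, 1, 1⟩, ⟨98, 99, 147⟩, ⟨9258, 10000, 30000⟩, ⟨1200, 1271, 1000⟩⟩ (({ tC72 with pU := tC72PU } : Piece).hPU false) :=
  posD_of_check (c := ⟨340, ⟨5, 6, 11, 7⟩⟩) (by decide +kernel)

def tC72_pU21 : PosD ⟨⟨0, 1, 1⟩, ⟨98, 99, 147⟩, ⟨9258, 10000, 30000⟩, ⟨1200, 1271, 1000⟩⟩ (({ tC72 with pU := tC72PU } : Piece).hPU true) :=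
  posD_of_check (c := ⟨393, ⟨5, 10, 12, 9⟩⟩) (by decide +kernel)

/-- The bounds with the other bound of `p`. -/
def tC72_envU : ({ tC72 with pU := tC72PU } : Piece).Env ⟨⟨0, 1, 1⟩, ⟨98, 99, 147⟩, ⟨9258, 10000, 30000⟩, ⟨1200, 1271, 1000⟩⟩ :=
  tC72_env.withU tC72PU (Bool.forall_bool.2 ⟨tC72_pU20, tC72_pU21⟩) ⟨.inr rfl, .inr rfl⟩

def tC72A_pp : PosD ⟨⟨0, 1, 1⟩, ⟨98, 99, 147⟩, ⟨9258, 10000, 30000⟩, ⟨1200, 1271, 1000⟩⟩ (tC72A.xPL) :=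
  posD_of_check (c := ⟨96, ⟨1, 1, 3, 3⟩⟩) (by decide +kernel)

def tC72A_k2p : PosD ⟨⟨0, 1, 1⟩, ⟨98, 99, 147⟩, ⟨9258, 10000, 30000⟩, ⟨1200, 1271, 1000⟩⟩ (tC72A.k2p tC72A.xE) :=
  posD_of_check (c := ⟨30, ⟨0, 0, 1, 0⟩⟩) (by decide +kernel)

def tC72A_k2m : PosD ⟨⟨0, 1, 1⟩, ⟨98, 99, 147⟩, ⟨9258, 10000, 30000⟩, ⟨1200, 1271, 1000⟩⟩ (tC72A.k2m tC72A.xE) :=
  posD_of_check (c := ⟨73, ⟨1, 1, 2, 2⟩⟩) (by decide +kernel)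

def tC72A_v2p : PosD ⟨⟨0, 1, 1⟩, ⟨98, 99, 147⟩, ⟨9258, 10000, 30000⟩, ⟨1200, 1271, 1000⟩⟩ (tC72A.hV2p) :=
  posD_of_check (c := ⟨245, ⟨0, 5, 10, 4⟩⟩) (by decide +kernel)

def tC72A_v2m : PosD ⟨⟨0, 1, 1⟩, ⟨98, 99, 147⟩, ⟨9258, 10000, 30000⟩, ⟨1200, 1271, 1000⟩⟩ (tC72A.hV2m) :=
  posD_of_check (c := ⟨274, ⟨1, 6, 10, 5⟩⟩) (by decide +kernel)

def tC72A_v3p : PosD ⟨⟨0, 1, 1⟩, ⟨98, 99, 147⟩, ⟨9258, 10000, 30000⟩, ⟨1200, 1271, 1000⟩⟩ (tC72A.hV3p) :=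
  posD_of_check (c := ⟨232, ⟨0, 5, 9, 4⟩⟩) (by decide +kernel)

def tC72A_v3m : PosD ⟨⟨0, 1, 1⟩, ⟨98, 99, 147⟩, ⟨9258, 10000, 30000⟩, ⟨1200, 1271, 1000⟩⟩ (tC72A.hV3m) :=
  posD_of_check (c := ⟨259, ⟨1, 6, 9, 5⟩⟩) (by decide +kernel)

def tC72A_kap0 : PosD ⟨⟨0, 1, 1⟩, ⟨98, 99, 147⟩, ⟨9258, 10000, 30000⟩, ⟨1200, 1271, 1000⟩⟩ (tC72A.kap false) :=
  posD_of_check (c := ⟨70, ⟨1, 1, 2, 2⟩⟩) (by decide +kernel)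

def tC72A_c10 : PosD ⟨⟨0, 1, 1⟩, ⟨98, 99, 147⟩, ⟨9258, 10000, 30000⟩, ⟨1200, 1271, 1000⟩⟩ (tC72A.hC1 false) :=
  posD_of_check (c := ⟨273, ⟨3, 5, 9, 7⟩⟩) (by decide +kernel)

def tC72A_c1h0 : PosD ⟨⟨0, 1, 1⟩, ⟨98, 99, 147⟩, ⟨9258, 10000, 30000⟩, ⟨1200, 1271, 1000⟩⟩ (tC72A.hC1' false) :=
  posD_of_check (c := ⟨273, ⟨3, 5, 9, 7⟩⟩) (by decide +kernel)

def tC72A_tg00 : PosD ⟨⟨0, 1, 1⟩, ⟨98, 99, 147⟩, ⟨9258, 10000, 30000⟩, ⟨1200, 1271, 1000⟩⟩ (tC72A.hG false (tC72A.pEnd false)) :=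
  posD_of_check (c := ⟨389, ⟨2, 7, 14, 9⟩⟩) (by decide +kernel)

def tC72A_c2p00 : PosD ⟨⟨0, 1, 1⟩, ⟨98, 99, 147⟩, ⟨9258, 10000, 30000⟩, ⟨1200, 1271, 1000⟩⟩ (tC72A.hC2p false (tC72A.pEnd false)) :=
  posD_of_check (c := ⟨432, ⟨2, 7, 16, 10⟩⟩) (by decide +kernel)

def tC72A_c2m00 : PosD ⟨⟨0, 1, 1⟩, ⟨98, 99, 147⟩, ⟨9258, 10000, 30000⟩, ⟨1200, 1271, 1000⟩⟩ (tC72A.hC2m false (tC72A.pEnd false)) :=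
  posD_of_check (c := ⟨461, ⟨3, 8, 16, 11⟩⟩) (by decide +kernel)

def tC72A_c3p00 : PosD ⟨⟨0, 1, 1⟩, ⟨98, 99, 147⟩, ⟨9258, 10000, 30000⟩, ⟨1200, 1271, 1000⟩⟩ (tC72A.hC3p false false) :=
  posD_of_check (c := ⟨422, ⟨3, 7, 15, 10⟩⟩) (by decide +kernel)

def tC72A_c3m00 : PosD ⟨⟨0, 1, 1⟩, ⟨98, 99, 147⟩, ⟨9258, 10000, 30000⟩, ⟨1200, 1271, 1000⟩⟩ (tC72A.hC3m false false) :=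
  posD_of_check (c := ⟨446, ⟨3, 8, 15, 11⟩⟩) (by decide +kernel)

def tC72A_c3ph00 : PosD ⟨⟨0, 1, 1⟩, ⟨98, 99, 147⟩, ⟨9258, 10000, 30000⟩, ⟨1200, 1271, 1000⟩⟩ (tC72A.hC3p' false false) :=
  posD_of_check (c := ⟨422, ⟨3, 7, 15, 10⟩⟩) (by decide +kernel)

def tC72A_c3mh00 : PosD ⟨⟨0, 1, 1⟩, ⟨98, 99, 147⟩, ⟨9258, 10000, 30000⟩, ⟨1200, 1271, 1000⟩⟩ (tC72A.hC3m' false false) :=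
  posD_of_check (c := ⟨446, ⟨3, 8, 15, 11⟩⟩) (by decide +kernel)

def tC72A_up00 : PosD ⟨⟨0, 1, 1⟩, ⟨98, 99, 147⟩, ⟨9258, 10000, 30000⟩, ⟨1200, 1271, 1000⟩⟩ (tC72A.hUp false false) :=
  posD_of_check (c := ⟨420, ⟨2, 7, 15, 10⟩⟩) (by decide +kernel)

def tC72A_um00 : PosD ⟨⟨0, 1, 1⟩, ⟨98, 99, 147⟩, ⟨9258, 10000, 30000⟩, ⟨1200, 1271, 1000⟩⟩ (tC72A.hUm false false) :=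
  posD_of_check (c := ⟨446, ⟨3, 8, 15, 11⟩⟩) (by decide +kernel)

def tC72A_tmg00 : PosD ⟨⟨0, 1, 1⟩, ⟨98, 99, 147⟩, ⟨9258, 10000, 30000⟩, ⟨1200, 1271, 1000⟩⟩ (tC72A.hTMG false (tC72A.pEnd false)) :=
  posD_of_check (c := ⟨404, ⟨2, 7, 14, 10⟩⟩) (by decide +kernel)

def tC72A_tg01 : PosD ⟨⟨0, 1, 1⟩, ⟨98, 99, 147⟩, ⟨9258, 10000, 30000⟩, ⟨1200, 1271, 1000⟩⟩ (tC72A.hG true (tC72A.pEnd false)) :=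
  posD_of_check (c := ⟨389, ⟨2, 7, 14, 9⟩⟩) (by decide +kernel)

def tC72A_c2p01 : PosD ⟨⟨0, 1, 1⟩, ⟨98, 99, 147⟩, ⟨9258, 10000, 30000⟩, ⟨1200, 1271, 1000⟩⟩ (tC72A.hC2p true (tC72A.pEnd false)) :=
  posD_of_check (c := ⟨432, ⟨2, 7, 16, 10⟩⟩) (by decide +kernel)

def tC72A_c2m01 : PosD ⟨⟨0, 1, 1⟩, ⟨98, 99, 147⟩, ⟨9258, 10000, 30000⟩, ⟨1200, 1271, 1000⟩⟩ (tC72A.hC2m true (tC72A.pEnd false)) :=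
  posD_of_check (c := ⟨461, ⟨3, 8, 16, 11⟩⟩) (by decide +kernel)

def tC72A_c3p01 : PosD ⟨⟨0, 1, 1⟩, ⟨98, 99, 147⟩, ⟨9258, 10000, 30000⟩, ⟨1200, 1271, 1000⟩⟩ (tC72A.hC3p false true) :=
  posD_of_check (c := ⟨422, ⟨3, 7, 15, 10⟩⟩) (by decide +kernel)

def tC72A_c3m01 : PosD ⟨⟨0, 1, 1⟩, ⟨98, 99, 147⟩, ⟨9258, 10000, 30000⟩, ⟨1200, 1271, 1000⟩⟩ (tC72A.hC3m false true) :=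
  posD_of_check (c := ⟨446, ⟨3, 8, 15, 11⟩⟩) (by decide +kernel)

def tC72A_c3ph01 : PosD ⟨⟨0, 1, 1⟩, ⟨98, 99, 147⟩, ⟨9258, 10000, 30000⟩, ⟨1200, 1271, 1000⟩⟩ (tC72A.hC3p' false true) :=
  posD_of_check (c := ⟨422, ⟨3, 7, 15, 10⟩⟩) (by decide +kernel)

def tC72A_c3mh01 : PosD ⟨⟨0, 1, 1⟩, ⟨98, 99, 147⟩, ⟨9258, 10000, 30000⟩, ⟨1200, 1271, 1000⟩⟩ (tC72A.hC3m' false true) :=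
  posD_of_check (c := ⟨446, ⟨3, 8, 15, 11⟩⟩) (by decide +kernel)

def tC72A_up01 : PosD ⟨⟨0, 1, 1⟩, ⟨98, 99, 147⟩, ⟨9258, 10000, 30000⟩, ⟨1200, 1271, 1000⟩⟩ (tC72A.hUp false true) :=
  posD_of_check (c := ⟨420, ⟨2, 7, 15, 10⟩⟩) (by decide +kernel)

def tC72A_um01 : PosD ⟨⟨0, 1, 1⟩, ⟨98, 99, 147⟩, ⟨9258, 10000, 30000⟩, ⟨1200, 1271, 1000⟩⟩ (tC72A.hUm false true) :=
  posD_of_check (c := ⟨446, ⟨3, 8, 15, 11⟩⟩) (by decide +kernel)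

def tC72A_tmg01 : PosD ⟨⟨0, 1, 1⟩, ⟨98, 99, 147⟩, ⟨9258, 10000, 30000⟩, ⟨1200, 1271, 1000⟩⟩ (tC72A.hTMG true (tC72A.pEnd false)) :=
  posD_of_check (c := ⟨404, ⟨2, 7, 14, 10⟩⟩) (by decide +kernel)

def tC72A_kap1 : PosD ⟨⟨0, 1, 1⟩, ⟨98, 99, 147⟩, ⟨9258, 10000, 30000⟩, ⟨1200, 1271, 1000⟩⟩ (tC72A.kap true) :=
  posD_of_check (c := ⟨70, ⟨1, 1, 2, 2⟩⟩) (by decide +kernel)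

def tC72A_c11 : PosD ⟨⟨0, 1, 1⟩, ⟨98, 99, 147⟩, ⟨9258, 10000, 30000⟩, ⟨1200, 1271, 1000⟩⟩ (tC72A.hC1 true) :=
  posD_of_check (c := ⟨274, ⟨3, 5, 9, 7⟩⟩) (by decide +kernel)

def tC72A_c1h1 : PosD ⟨⟨0, 1, 1⟩, ⟨98, 99, 147⟩, ⟨9258, 10000, 30000⟩, ⟨1200, 1271, 1000⟩⟩ (tC72A.hC1' true) :=
  posD_of_check (c := ⟨274, ⟨3, 5, 9, 7⟩⟩) (by decide +kernel)

def tC72A_tg10 : PosD ⟨⟨0, 1, 1⟩, ⟨98, 99, 147⟩, ⟨9258, 10000, 30000⟩, ⟨1200, 1271, 1000⟩⟩ (tC72A.hG false (tC72A.pEnd true)) :=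
  posD_of_check (c := ⟨390, ⟨2, 7, 14, 9⟩⟩) (by decide +kernel)

def tC72A_c2p10 : PosD ⟨⟨0, 1, 1⟩, ⟨98, 99, 147⟩, ⟨9258, 10000, 30000⟩, ⟨1200, 1271, 1000⟩⟩ (tC72A.hC2p false (tC72A.pEnd true)) :=
  posD_of_check (c := ⟨433, ⟨2, 7, 16, 10⟩⟩) (by decide +kernel)

def tC72A_c2m10 : PosD ⟨⟨0, 1, 1⟩, ⟨98, 99, 147⟩, ⟨9258, 10000, 30000⟩, ⟨1200, 1271, 1000⟩⟩ (tC72A.hC2m false (tC72A.pEnd true)) :=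
  posD_of_check (c := ⟨462, ⟨3, 8, 16, 11⟩⟩) (by decide +kernel)

def tC72A_c3p10 : PosD ⟨⟨0, 1, 1⟩, ⟨98, 99, 147⟩, ⟨9258, 10000, 30000⟩, ⟨1200, 1271, 1000⟩⟩ (tC72A.hC3p true false) :=
  posD_of_relax (k₁ := 0) (k₂ := 0) (k₃ := 1) (n := 16) (posD_of_check (c := ⟨422, ⟨3, 7, 15, 10⟩⟩) (by decide +kernel))

def tC72A_c3m10 : PosD ⟨⟨0, 1, 1⟩, ⟨98, 99, 147⟩, ⟨9258, 10000, 30000⟩, ⟨1200, 1271, 1000⟩⟩ (tC72A.hC3m true false) :=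
  posD_of_relax (k₁ := 0) (k₂ := 0) (k₃ := 1) (n := 16) (posD_of_check (c := ⟨447, ⟨3, 8, 15, 11⟩⟩) (by decide +kernel))

def tC72A_c3ph10 : PosD ⟨⟨0, 1, 1⟩, ⟨98, 99, 147⟩, ⟨9258, 10000, 30000⟩, ⟨1200, 1271, 1000⟩⟩ (tC72A.hC3p' true false) :=
  posD_of_check (c := ⟨422, ⟨3, 7, 15, 10⟩⟩) (by decide +kernel)

def tC72A_c3mh10 : PosD ⟨⟨0, 1, 1⟩, ⟨98, 99, 147⟩, ⟨9258, 10000, 30000⟩, ⟨1200, 1271, 1000⟩⟩ (tC72A.hC3m' true false) :=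
  posD_of_check (c := ⟨447, ⟨3, 8, 15, 11⟩⟩) (by decide +kernel)

def tC72A_up10 : PosD ⟨⟨0, 1, 1⟩, ⟨98, 99, 147⟩, ⟨9258, 10000, 30000⟩, ⟨1200, 1271, 1000⟩⟩ (tC72A.hUp true false) :=
  posD_of_check (c := ⟨421, ⟨2, 7, 15, 10⟩⟩) (by decide +kernel)

def tC72A_um10 : PosD ⟨⟨0, 1, 1⟩, ⟨98, 99, 147⟩, ⟨9258, 10000, 30000⟩, ⟨1200, 1271, 1000⟩⟩ (tC72A.hUm true false) :=
  posD_of_check (c := ⟨447, ⟨3, 8, 15, 11⟩⟩) (by decide +kernel)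

def tC72A_tmg10 : PosD ⟨⟨0, 1, 1⟩, ⟨98, 99, 147⟩, ⟨9258, 10000, 30000⟩, ⟨1200, 1271, 1000⟩⟩ (tC72A.hTMG false (tC72A.pEnd true)) :=
  posD_of_check (c := ⟨404, ⟨2, 7, 14, 10⟩⟩) (by decide +kernel)

def tC72A_tg11 : PosD ⟨⟨0, 1, 1⟩, ⟨98, 99, 147⟩, ⟨9258, 10000, 30000⟩, ⟨1200, 1271, 1000⟩⟩ (tC72A.hG true (tC72A.pEnd true)) :=
  posD_of_check (c := ⟨390, ⟨2, 7, 14, 9⟩⟩) (by decide +kernel)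

def tC72A_c2p11 : PosD ⟨⟨0, 1, 1⟩, ⟨98, 99, 147⟩, ⟨9258, 10000, 30000⟩, ⟨1200, 1271, 1000⟩⟩ (tC72A.hC2p true (tC72A.pEnd true)) :=
  posD_of_check (c := ⟨433, ⟨2, 7, 16, 10⟩⟩) (by decide +kernel)

def tC72A_c2m11 : PosD ⟨⟨0, 1, 1⟩, ⟨98, 99, 147⟩, ⟨9258, 10000, 30000⟩, ⟨1200, 1271, 1000⟩⟩ (tC72A.hC2m true (tC72A.pEnd true)) :=
  posD_of_check (c := ⟨462, ⟨3, 8, 16, 11⟩⟩) (by decide +kernel)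

def tC72A_c3p11 : PosD ⟨⟨0, 1, 1⟩, ⟨98, 99, 147⟩, ⟨9258, 10000, 30000⟩, ⟨1200, 1271, 1000⟩⟩ (tC72A.hC3p true true) :=
  posD_of_check (c := ⟨422, ⟨3, 7, 15, 10⟩⟩) (by decide +kernel)

def tC72A_c3m11 : PosD ⟨⟨0, 1, 1⟩, ⟨98, 99, 147⟩, ⟨9258, 10000, 30000⟩, ⟨1200, 1271, 1000⟩⟩ (tC72A.hC3m true true) :=
  posD_of_relax (k₁ := 0) (k₂ := 0) (k₃ := 1) (n := 16) (posD_of_check (c := ⟨447, ⟨3, 8, 15, 11⟩⟩) (by decide +kernel))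

def tC72A_c3ph11 : PosD ⟨⟨0, 1, 1⟩, ⟨98, 99, 147⟩, ⟨9258, 10000, 30000⟩, ⟨1200, 1271, 1000⟩⟩ (tC72A.hC3p' true true) :=
  posD_of_check (c := ⟨422, ⟨3, 7, 15, 10⟩⟩) (by decide +kernel)

def tC72A_c3mh11 : PosD ⟨⟨0, 1, 1⟩, ⟨98, 99, 147⟩, ⟨9258, 10000, 30000⟩, ⟨1200, 1271, 1000⟩⟩ (tC72A.hC3m' true true) :=
  posD_of_check (c := ⟨447, ⟨3, 8, 15, 11⟩⟩) (by decide +kernel)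

def tC72A_up11 : PosD ⟨⟨0, 1, 1⟩, ⟨98, 99, 147⟩, ⟨9258, 10000, 30000⟩, ⟨1200, 1271, 1000⟩⟩ (tC72A.hUp true true) :=
  posD_of_check (c := ⟨421, ⟨2, 7, 15, 10⟩⟩) (by decide +kernel)

def tC72A_um11 : PosD ⟨⟨0, 1, 1⟩, ⟨98, 99, 147⟩, ⟨9258, 10000, 30000⟩, ⟨1200, 1271, 1000⟩⟩ (tC72A.hUm true true) :=
  posD_of_check (c := ⟨447, ⟨3, 8, 15, 11⟩⟩) (by decide +kernel)

def tC72A_tmg11 : PosD ⟨⟨0, 1, 1⟩, ⟨98, 99, 147⟩, ⟨9258, 10000, 30000⟩, ⟨1200, 1271, 1000⟩⟩ (tC72A.hTMG true (tC72A.pEnd true)) :=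
  posD_of_check (c := ⟨404, ⟨2, 7, 14, 10⟩⟩) (by decide +kernel)

/-- The signs of the piece. -/
def tC72A_sign : tC72A.Sign ⟨⟨0, 1, 1⟩, ⟨98, 99, 147⟩, ⟨9258, 10000, 30000⟩, ⟨1200, 1271, 1000⟩⟩ :=
  ⟨tC72A_pp,
    tC72A_k2p,
    tC72A_k2m,
    Bool.forall_bool.2 ⟨(Bool.forall_bool.2 ⟨tC72A_tg00, tC72A_tg01⟩), (Bool.forall_bool.2 ⟨tC72A_tg10, tC72A_tg11⟩)⟩,
    Bool.forall_bool.2 ⟨(Bool.forall_bool.2 ⟨tC72A_c2p00, tC72A_c2p01⟩), (Bool.forall_bool.2 ⟨tC72A_c2p10, tC72A_c2p11⟩)⟩,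
    Bool.forall_bool.2 ⟨(Bool.forall_bool.2 ⟨tC72A_c2m00, tC72A_c2m01⟩), (Bool.forall_bool.2 ⟨tC72A_c2m10, tC72A_c2m11⟩)⟩,
    Bool.forall_bool.2 ⟨tC72A_kap0, tC72A_kap1⟩,
    Bool.forall_bool.2 ⟨tC72A_c10, tC72A_c11⟩,
    Bool.forall_bool.2 ⟨(Bool.forall_bool.2 ⟨tC72A_c3p00, tC72A_c3p01⟩), (Bool.forall_bool.2 ⟨tC72A_c3p10, tC72A_c3p11⟩)⟩,
    Bool.forall_bool.2 ⟨(Bool.forall_bool.2 ⟨tC72A_c3m00, tC72A_c3m01⟩), (Bool.forall_bool.2 ⟨tC72A_c3m10, tC72A_c3m11⟩)⟩,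
    Bool.forall_bool.2 ⟨(Bool.forall_bool.2 ⟨tC72A_tmg00, tC72A_tmg01⟩), (Bool.forall_bool.2 ⟨tC72A_tmg10, tC72A_tmg11⟩)⟩,
    .inr (Bool.forall_bool.2 ⟨⟨tC72A_c1h0, Bool.forall_bool.2 ⟨⟨tC72A_c3ph00, tC72A_c3mh00, tC72A_up00, tC72A_um00⟩, ⟨tC72A_c3ph01, tC72A_c3mh01, tC72A_up01, tC72A_um01⟩⟩⟩, ⟨tC72A_c1h1, Bool.forall_bool.2 ⟨⟨tC72A_c3ph10, tC72A_c3mh10, tC72A_up10, tC72A_um10⟩, ⟨tC72A_c3ph11, tC72A_c3mh11, tC72A_up11, tC72A_um11⟩⟩⟩⟩),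
    tC72A_v2p,
    tC72A_v2m,
    tC72A_v3p,
    tC72A_v3m,
    posD_sub (b := ⟨⟨0, 1, 1⟩, ⟨98, 99, 147⟩, ⟨4050, 10000, 30000⟩, ⟨290, 4000, 1000⟩⟩) (by decide +kernel) tC_vG,
    posD_sub (b := ⟨⟨0, 1, 1⟩, ⟨98, 99, 147⟩, ⟨4050, 10000, 30000⟩, ⟨290, 4000, 1000⟩⟩) (by decide +kernel) tC_vMG,
    posD_sub (b := ⟨⟨0, 1, 1⟩, ⟨98, 99, 147⟩, ⟨4050, 10000, 30000⟩, ⟨290, 4000, 1000⟩⟩) (by decide +kernel) tC_ak,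
    posD_sub (b := ⟨⟨0, 1, 1⟩, ⟨98, 99, 147⟩, ⟨4050, 10000, 30000⟩, ⟨290, 4000, 1000⟩⟩) (by decide +kernel) tC_aw,
    posD_sub (b := ⟨⟨0, 1, 1⟩, ⟨98, 99, 147⟩, ⟨4050, 10000, 30000⟩, ⟨290, 4000, 1000⟩⟩) (by decide +kernel) tC_gk,
    posD_sub (b := ⟨⟨0, 1, 1⟩, ⟨98, 99, 147⟩, ⟨4050, 10000, 30000⟩, ⟨290, 4000, 1000⟩⟩) (by decide +kernel) tC_gw,
    posD_sub (b := ⟨⟨0, 1, 1⟩, ⟨98, 99, 147⟩, ⟨4050, 10000, 30000⟩, ⟨290, 4000, 1000⟩⟩) (by decide +kernel) tC_ek,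
    posD_sub (b := ⟨⟨0, 1, 1⟩, ⟨98, 99, 147⟩, ⟨4050, 10000, 30000⟩, ⟨290, 4000, 1000⟩⟩) (by decide +kernel) tC_ew⟩

def tC72B_pp : PosD ⟨⟨0, 1, 1⟩, ⟨98, 99, 147⟩, ⟨9258, 10000, 30000⟩, ⟨1200, 1271, 1000⟩⟩ (tC72B.xPL) :=
  posD_of_check (c := ⟨96, ⟨1, 1, 3, 3⟩⟩) (by decide +kernel)

def tC72B_k2p : PosD ⟨⟨0, 1, 1⟩, ⟨98, 99, 147⟩, ⟨9258, 10000, 30000⟩, ⟨1200, 1271, 1000⟩⟩ (tC72B.k2p tC72B.xE) :=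
  posD_of_check (c := ⟨70, ⟨1, 1, 2, 2⟩⟩) (by decide +kernel)

def tC72B_k2m : PosD ⟨⟨0, 1, 1⟩, ⟨98, 99, 147⟩, ⟨9258, 10000, 30000⟩, ⟨1200, 1271, 1000⟩⟩ (tC72B.k2m tC72B.xE) :=
  posD_of_check (c := ⟨31, ⟨0, 0, 1, 1⟩⟩) (by decide +kernel)

def tC72B_v2p : PosD ⟨⟨0, 1, 1⟩, ⟨98, 99, 147⟩, ⟨9258, 10000, 30000⟩, ⟨1200, 1271, 1000⟩⟩ (tC72B.hV2p) :=
  posD_of_check (c := ⟨272, ⟨1, 6, 10, 5⟩⟩) (by decide +kernel)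

def tC72B_v2m : PosD ⟨⟨0, 1, 1⟩, ⟨98, 99, 147⟩, ⟨9258, 10000, 30000⟩, ⟨1200, 1271, 1000⟩⟩ (tC72B.hV2m) :=
  posD_of_check (c := ⟨245, ⟨0, 5, 10, 4⟩⟩) (by decide +kernel)

def tC72B_v3p : PosD ⟨⟨0, 1, 1⟩, ⟨98, 99, 147⟩, ⟨9258, 10000, 30000⟩, ⟨1200, 1271, 1000⟩⟩ (tC72B.hV3p) :=
  posD_of_check (c := ⟨257, ⟨1, 6, 9, 5⟩⟩) (by decide +kernel)

def tC72B_v3m : PosD ⟨⟨0, 1, 1⟩, ⟨98, 99, 147⟩, ⟨9258, 10000, 30000⟩, ⟨1200, 1271, 1000⟩⟩ (tC72B.hV3m) :=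
  posD_of_check (c := ⟨232, ⟨0, 5, 9, 4⟩⟩) (by decide +kernel)

def tC72B_kap0 : PosD ⟨⟨0, 1, 1⟩, ⟨98, 99, 147⟩, ⟨9258, 10000, 30000⟩, ⟨1200, 1271, 1000⟩⟩ (tC72B.kap false) :=
  posD_of_check (c := ⟨69, ⟨1, 1, 2, 2⟩⟩) (by decide +kernel)

def tC72B_c10 : PosD ⟨⟨0, 1, 1⟩, ⟨98, 99, 147⟩, ⟨9258, 10000, 30000⟩, ⟨1200, 1271, 1000⟩⟩ (tC72B.hC1 false) :=
  posD_of_check (c := ⟨273, ⟨3, 5, 9, 7⟩⟩) (by decide +kernel)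

def tC72B_neg0 : PosD ⟨⟨0, 1, 1⟩, ⟨98, 99, 147⟩, ⟨9258, 10000, 30000⟩, ⟨1200, 1271, 1000⟩⟩ (tC72B.hNeg (tC72B.pEnd false)) :=
  posD_of_check (c := ⟨269, ⟨2, 5, 9, 7⟩⟩) (by decide +kernel)

def tC72B_neglo0 : PosD ⟨⟨0, 1, 1⟩, ⟨98, 99, 147⟩, ⟨9258, 10000, 30000⟩, ⟨1200, 1271, 1000⟩⟩ (tC72B.hNegLo (tC72B.pEnd false)) :=
  posD_of_check (c := ⟨269, ⟨2, 5, 9, 7⟩⟩) (by decide +kernel)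

def tC72B_tg00 : PosD ⟨⟨0, 1, 1⟩, ⟨98, 99, 147⟩, ⟨9258, 10000, 30000⟩, ⟨1200, 1271, 1000⟩⟩ (tC72B.hG false (tC72B.pEnd false)) :=
  posD_of_check (c := ⟨389, ⟨2, 7, 14, 9⟩⟩) (by decide +kernel)

def tC72B_c2p00 : PosD ⟨⟨0, 1, 1⟩, ⟨98, 99, 147⟩, ⟨9258, 10000, 30000⟩, ⟨1200, 1271, 1000⟩⟩ (tC72B.hC2p false (tC72B.pEnd false)) :=
  posD_of_check (c := ⟨459, ⟨3, 8, 16, 11⟩⟩) (by decide +kernel)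

def tC72B_c2m00 : PosD ⟨⟨0, 1, 1⟩, ⟨98, 99, 147⟩, ⟨9258, 10000, 30000⟩, ⟨1200, 1271, 1000⟩⟩ (tC72B.hC2m false (tC72B.pEnd false)) :=
  posD_of_check (c := ⟨432, ⟨2, 7, 16, 10⟩⟩) (by decide +kernel)

def tC72B_c3p00 : PosD ⟨⟨0, 1, 1⟩, ⟨98, 99, 147⟩, ⟨9258, 10000, 30000⟩, ⟨1200, 1271, 1000⟩⟩ (tC72B.hC3p false false) :=
  posD_of_check (c := ⟨445, ⟨3, 8, 15, 11⟩⟩) (by decide +kernel)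

def tC72B_c3m00 : PosD ⟨⟨0, 1, 1⟩, ⟨98, 99, 147⟩, ⟨9258, 10000, 30000⟩, ⟨1200, 1271, 1000⟩⟩ (tC72B.hC3m false false) :=
  posD_of_check (c := ⟨421, ⟨3, 7, 15, 10⟩⟩) (by decide +kernel)

def tC72B_tmg00 : PosD ⟨⟨0, 1, 1⟩, ⟨98, 99, 147⟩, ⟨9258, 10000, 30000⟩, ⟨1200, 1271, 1000⟩⟩ (tC72B.hTMG false (tC72B.pEnd false)) :=
  posD_of_check (c := ⟨404, ⟨2, 7, 14, 10⟩⟩) (by decide +kernel)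

def tC72B_tg01 : PosD ⟨⟨0, 1, 1⟩, ⟨98, 99, 147⟩, ⟨9258, 10000, 30000⟩, ⟨1200, 1271, 1000⟩⟩ (tC72B.hG true (tC72B.pEnd false)) :=
  posD_of_check (c := ⟨389, ⟨2, 7, 14, 9⟩⟩) (by decide +kernel)

def tC72B_c2p01 : PosD ⟨⟨0, 1, 1⟩, ⟨98, 99, 147⟩, ⟨9258, 10000, 30000⟩, ⟨1200, 1271, 1000⟩⟩ (tC72B.hC2p true (tC72B.pEnd false)) :=
  posD_of_check (c := ⟨459, ⟨3, 8, 16, 11⟩⟩) (by decide +kernel)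

def tC72B_c2m01 : PosD ⟨⟨0, 1, 1⟩, ⟨98, 99, 147⟩, ⟨9258, 10000, 30000⟩, ⟨1200, 1271, 1000⟩⟩ (tC72B.hC2m true (tC72B.pEnd false)) :=
  posD_of_check (c := ⟨432, ⟨2, 7, 16, 10⟩⟩) (by decide +kernel)

def tC72B_c3p01 : PosD ⟨⟨0, 1, 1⟩, ⟨98, 99, 147⟩, ⟨9258, 10000, 30000⟩, ⟨1200, 1271, 1000⟩⟩ (tC72B.hC3p false true) :=
  posD_of_check (c := ⟨445, ⟨3, 8, 15, 11⟩⟩) (by decide +kernel)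

def tC72B_c3m01 : PosD ⟨⟨0, 1, 1⟩, ⟨98, 99, 147⟩, ⟨9258, 10000, 30000⟩, ⟨1200, 1271, 1000⟩⟩ (tC72B.hC3m false true) :=
  posD_of_check (c := ⟨421, ⟨3, 7, 15, 10⟩⟩) (by decide +kernel)

def tC72B_tmg01 : PosD ⟨⟨0, 1, 1⟩, ⟨98, 99, 147⟩, ⟨9258, 10000, 30000⟩, ⟨1200, 1271, 1000⟩⟩ (tC72B.hTMG true (tC72B.pEnd false)) :=
  posD_of_check (c := ⟨404, ⟨2, 7, 14, 10⟩⟩) (by decide +kernel)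

def tC72B_kap1 : PosD ⟨⟨0, 1, 1⟩, ⟨98, 99, 147⟩, ⟨9258, 10000, 30000⟩, ⟨1200, 1271, 1000⟩⟩ (tC72B.kap true) :=
  posD_of_check (c := ⟨69, ⟨1, 1, 2, 2⟩⟩) (by decide +kernel)

def tC72B_c11 : PosD ⟨⟨0, 1, 1⟩, ⟨98, 99, 147⟩, ⟨9258, 10000, 30000⟩, ⟨1200, 1271, 1000⟩⟩ (tC72B.hC1 true) :=
  posD_of_check (c := ⟨272, ⟨3, 5, 9, 7⟩⟩) (by decide +kernel)

def tC72B_neg1 : PosD ⟨⟨0, 1, 1⟩, ⟨98, 99, 147⟩, ⟨9258, 10000, 30000⟩, ⟨1200, 1271, 1000⟩⟩ (tC72B.hNeg (tC72B.pEnd true)) :=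
  posD_of_check (c := ⟨268, ⟨2, 5, 9, 7⟩⟩) (by decide +kernel)

def tC72B_neglo1 : PosD ⟨⟨0, 1, 1⟩, ⟨98, 99, 147⟩, ⟨9258, 10000, 30000⟩, ⟨1200, 1271, 1000⟩⟩ (tC72B.hNegLo (tC72B.pEnd true)) :=
  posD_of_check (c := ⟨268, ⟨2, 5, 9, 7⟩⟩) (by decide +kernel)

def tC72B_tg10 : PosD ⟨⟨0, 1, 1⟩, ⟨98, 99, 147⟩, ⟨9258, 10000, 30000⟩, ⟨1200, 1271, 1000⟩⟩ (tC72B.hG false (tC72B.pEnd true)) :=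
  posD_of_check (c := ⟨387, ⟨2, 7, 14, 9⟩⟩) (by decide +kernel)

def tC72B_c2p10 : PosD ⟨⟨0, 1, 1⟩, ⟨98, 99, 147⟩, ⟨9258, 10000, 30000⟩, ⟨1200, 1271, 1000⟩⟩ (tC72B.hC2p false (tC72B.pEnd true)) :=
  posD_of_check (c := ⟨457, ⟨3, 8, 16, 11⟩⟩) (by decide +kernel)

def tC72B_c2m10 : PosD ⟨⟨0, 1, 1⟩, ⟨98, 99, 147⟩, ⟨9258, 10000, 30000⟩, ⟨1200, 1271, 1000⟩⟩ (tC72B.hC2m false (tC72B.pEnd true)) :=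
  posD_of_check (c := ⟨430, ⟨2, 7, 16, 10⟩⟩) (by decide +kernel)

def tC72B_c3p10 : PosD ⟨⟨0, 1, 1⟩, ⟨98, 99, 147⟩, ⟨9258, 10000, 30000⟩, ⟨1200, 1271, 1000⟩⟩ (tC72B.hC3p true false) :=
  posD_of_relax (k₁ := 0) (k₂ := 0) (k₃ := 1) (n := 16) (posD_of_check (c := ⟨444, ⟨3, 8, 15, 11⟩⟩) (by decide +kernel))

def tC72B_c3m10 : PosD ⟨⟨0, 1, 1⟩, ⟨98, 99, 147⟩, ⟨9258, 10000, 30000⟩, ⟨1200, 1271, 1000⟩⟩ (tC72B.hC3m true false) :=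
  posD_of_relax (k₁ := 0) (k₂ := 0) (k₃ := 1) (n := 16) (posD_of_check (c := ⟨420, ⟨3, 7, 15, 10⟩⟩) (by decide +kernel))

def tC72B_tmg10 : PosD ⟨⟨0, 1, 1⟩, ⟨98, 99, 147⟩, ⟨9258, 10000, 30000⟩, ⟨1200, 1271, 1000⟩⟩ (tC72B.hTMG false (tC72B.pEnd true)) :=
  posD_of_check (c := ⟨403, ⟨2, 7, 14, 10⟩⟩) (by decide +kernel)

def tC72B_tg11 : PosD ⟨⟨0, 1, 1⟩, ⟨98, 99, 147⟩, ⟨9258, 10000, 30000⟩, ⟨1200, 1271, 1000⟩⟩ (tC72B.hG true (tC72B.pEnd true)) :=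
  posD_of_check (c := ⟨387, ⟨2, 7, 14, 9⟩⟩) (by decide +kernel)

def tC72B_c2p11 : PosD ⟨⟨0, 1, 1⟩, ⟨98, 99, 147⟩, ⟨9258, 10000, 30000⟩, ⟨1200, 1271, 1000⟩⟩ (tC72B.hC2p true (tC72B.pEnd true)) :=
  posD_of_check (c := ⟨457, ⟨3, 8, 16, 11⟩⟩) (by decide +kernel)

def tC72B_c2m11 : PosD ⟨⟨0, 1, 1⟩, ⟨98, 99, 147⟩, ⟨9258, 10000, 30000⟩, ⟨1200, 1271, 1000⟩⟩ (tC72B.hC2m true (tC72B.pEnd true)) :=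
  posD_of_check (c := ⟨430, ⟨2, 7, 16, 10⟩⟩) (by decide +kernel)

def tC72B_c3p11 : PosD ⟨⟨0, 1, 1⟩, ⟨98, 99, 147⟩, ⟨9258, 10000, 30000⟩, ⟨1200, 1271, 1000⟩⟩ (tC72B.hC3p true true) :=
  posD_of_check (c := ⟨444, ⟨3, 8, 15, 11⟩⟩) (by decide +kernel)

def tC72B_c3m11 : PosD ⟨⟨0, 1, 1⟩, ⟨98, 99, 147⟩, ⟨9258, 10000, 30000⟩, ⟨1200, 1271, 1000⟩⟩ (tC72B.hC3m true true) :=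
  posD_of_check (c := ⟨420, ⟨3, 7, 15, 10⟩⟩) (by decide +kernel)

def tC72B_tmg11 : PosD ⟨⟨0, 1, 1⟩, ⟨98, 99, 147⟩, ⟨9258, 10000, 30000⟩, ⟨1200, 1271, 1000⟩⟩ (tC72B.hTMG true (tC72B.pEnd true)) :=
  posD_of_check (c := ⟨403, ⟨2, 7, 14, 10⟩⟩) (by decide +kernel)

/-- The signs of the piece. -/
def tC72B_sign : tC72B.Sign ⟨⟨0, 1, 1⟩, ⟨98, 99, 147⟩, ⟨9258, 10000, 30000⟩, ⟨1200, 1271, 1000⟩⟩ :=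
  ⟨tC72B_pp,
    tC72B_k2p,
    tC72B_k2m,
    Bool.forall_bool.2 ⟨(Bool.forall_bool.2 ⟨tC72B_tg00, tC72B_tg01⟩), (Bool.forall_bool.2 ⟨tC72B_tg10, tC72B_tg11⟩)⟩,
    Bool.forall_bool.2 ⟨(Bool.forall_bool.2 ⟨tC72B_c2p00, tC72B_c2p01⟩), (Bool.forall_bool.2 ⟨tC72B_c2p10, tC72B_c2p11⟩)⟩,
    Bool.forall_bool.2 ⟨(Bool.forall_bool.2 ⟨tC72B_c2m00, tC72B_c2m01⟩), (Bool.forall_bool.2 ⟨tC72B_c2m10, tC72B_c2m11⟩)⟩,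
    Bool.forall_bool.2 ⟨tC72B_kap0, tC72B_kap1⟩,
    Bool.forall_bool.2 ⟨tC72B_c10, tC72B_c11⟩,
    Bool.forall_bool.2 ⟨(Bool.forall_bool.2 ⟨tC72B_c3p00, tC72B_c3p01⟩), (Bool.forall_bool.2 ⟨tC72B_c3p10, tC72B_c3p11⟩)⟩,
    Bool.forall_bool.2 ⟨(Bool.forall_bool.2 ⟨tC72B_c3m00, tC72B_c3m01⟩), (Bool.forall_bool.2 ⟨tC72B_c3m10, tC72B_c3m11⟩)⟩,
    Bool.forall_bool.2 ⟨(Bool.forall_bool.2 ⟨tC72B_tmg00, tC72B_tmg01⟩), (Bool.forall_bool.2 ⟨tC72B_tmg10, tC72B_tmg11⟩)⟩,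
    .inl (Bool.forall_bool.2 ⟨⟨tC72B_neg0, tC72B_neglo0⟩, ⟨tC72B_neg1, tC72B_neglo1⟩⟩),
    tC72B_v2p,
    tC72B_v2m,
    tC72B_v3p,
    tC72B_v3m,
    posD_sub (b := ⟨⟨0, 1, 1⟩, ⟨98, 99, 147⟩, ⟨4050, 10000, 30000⟩, ⟨290, 4000, 1000⟩⟩) (by decide +kernel) tC_vG,
    posD_sub (b := ⟨⟨0, 1, 1⟩, ⟨98, 99, 147⟩, ⟨4050, 10000, 30000⟩, ⟨290, 4000, 1000⟩⟩) (by decide +kernel) tC_vMG,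
    posD_sub (b := ⟨⟨0, 1, 1⟩, ⟨98, 99, 147⟩, ⟨4050, 10000, 30000⟩, ⟨290, 4000, 1000⟩⟩) (by decide +kernel) tC_ak,
    posD_sub (b := ⟨⟨0, 1, 1⟩, ⟨98, 99, 147⟩, ⟨4050, 10000, 30000⟩, ⟨290, 4000, 1000⟩⟩) (by decide +kernel) tC_aw,
    posD_sub (b := ⟨⟨0, 1, 1⟩, ⟨98, 99, 147⟩, ⟨4050, 10000, 30000⟩, ⟨290, 4000, 1000⟩⟩) (by decide +kernel) tC_gk,
    posD_sub (b := ⟨⟨0, 1, 1⟩, ⟨98, 99, 147⟩, ⟨4050, 10000, 30000⟩, ⟨290, 4000, 1000⟩⟩) (by decide +kernel) tC_gw,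
    posD_sub (b := ⟨⟨0, 1, 1⟩, ⟨98, 99, 147⟩, ⟨4050, 10000, 30000⟩, ⟨290, 4000, 1000⟩⟩) (by decide +kernel) tC_ek,
    posD_sub (b := ⟨⟨0, 1, 1⟩, ⟨98, 99, 147⟩, ⟨4050, 10000, 30000⟩, ⟨290, 4000, 1000⟩⟩) (by decide +kernel) tC_ew⟩

end Vale.Agent.P100.Calib.Closed.Six.Tail
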