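import Vale.Agent.P100.Calib.SlabSixTailDataC
import Vale.Agent.P100.Calib.SlabSixTailGlobC

/-!
# Checks of some pieces of the certificate

The checks are written as definitions so that they run one after another, which keeps the memory of the
kernel low.
-/

set_option linter.defProp false

namespace Vale.Agent.P100.Calib.Closed.Six.Tail

open BoxPos Large

local instance sixTailCheckstC47Add : Add Ex := ⟨Ex.add⟩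
local instance sixTailCheckstC47Sub : Sub Ex := ⟨Ex.sub⟩
local instance sixTailCheckstC47Mul : Mul Ex := ⟨Ex.mul⟩

def tC73_phx : PosIf ⟨⟨0, 1, 1⟩, ⟨98, 99, 147⟩, ⟨9258, 9630, 30000⟩, ⟨1467, 1488, 1000⟩⟩ (tC73.u₁ - tC73Lo) (phCn (tC73.u₁ + xO * (tC73Lo - tC73.u₁))) :=
  posIf_of_posD (posD_of_check (c := ⟨109, ⟨2, 0, 4, 2⟩⟩) (by decide +kernel))

def tC73_phd : PosD ⟨⟨0, 1, 1⟩, ⟨98, 99, 147⟩, ⟨9258, 9630, 30000⟩, ⟨1467, 1488, 1000⟩⟩ (phCd (tC73.u₁ + xO * (tC73Lo - tC73.u₁))) :=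
  posD_of_check (c := ⟨51, ⟨1, 0, 2, 1⟩⟩) (by decide +kernel)

def tC73_p0 : PosD ⟨⟨0, 1, 1⟩, ⟨98, 99, 147⟩, ⟨9258, 9630, 30000⟩, ⟨1467, 1488, 1000⟩⟩ (tC73.hP0) :=
  posD_of_check (c := ⟨83, ⟨0, 2, 3, 1⟩⟩) (by decide +kernel)

def tC73_gn : PosD ⟨⟨0, 1, 1⟩, ⟨98, 99, 147⟩, ⟨9258, 9630, 30000⟩, ⟨1467, 1488, 1000⟩⟩ (tC73.hGn) :=
  posD_of_check (c := ⟨69, ⟨1, 1, 2, 2⟩⟩) (by decide +kernel)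

def tC73_den0 : PosD ⟨⟨0, 1, 1⟩, ⟨98, 99, 147⟩, ⟨9258, 9630, 30000⟩, ⟨1467, 1488, 1000⟩⟩ (tC73.hDen false) :=
  posD_of_check (c := ⟨51, ⟨1, 0, 2, 1⟩⟩) (by decide +kernel)

def tC73_den1 : PosD ⟨⟨0, 1, 1⟩, ⟨98, 99, 147⟩, ⟨9258, 9630, 30000⟩, ⟨1467, 1488, 1000⟩⟩ (tC73.hDen true) :=
  posD_of_check (c := ⟨180, ⟨3, 4, 6, 4⟩⟩) (by decide +kernel)

def tC73_ev0 : PosD ⟨⟨0, 1, 1⟩, ⟨98, 99, 147⟩, ⟨9258, 9630, 30000⟩, ⟨1467, 1488, 1000⟩⟩ (tC73.hEv false) :=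
  posD_of_check (c := ⟨220, ⟨4, 2, 8, 4⟩⟩) (by decide +kernel)

def tC73_zL0 : PosD ⟨⟨0, 1, 1⟩, ⟨98, 99, 147⟩, ⟨9258, 9630, 30000⟩, ⟨1467, 1488, 1000⟩⟩ (tC73.hZL false) :=
  posD_of_check (c := ⟨222, ⟨4, 3, 8, 4⟩⟩) (by decide +kernel)

def tC73_zU0 : PosD ⟨⟨0, 1, 1⟩, ⟨98, 99, 147⟩, ⟨9258, 9630, 30000⟩, ⟨1467, 1488, 1000⟩⟩ (tC73.hZU false) :=
  posD_of_check (c := ⟨223, ⟨4, 3, 8, 4⟩⟩) (by decide +kernel)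

def tC73_eL0 : PosD ⟨⟨0, 1, 1⟩, ⟨98, 99, 147⟩, ⟨9258, 9630, 30000⟩, ⟨1467, 1488, 1000⟩⟩ (tC73.hEL false) :=
  posD_of_check (c := ⟨317, ⟨5, 6, 11, 6⟩⟩) (by decide +kernel)

def tC73_eH0 : PosD ⟨⟨0, 1, 1⟩, ⟨98, 99, 147⟩, ⟨9258, 9630, 30000⟩, ⟨1467, 1488, 1000⟩⟩ (tC73.hEH false) :=
  posD_of_check (c := ⟨352, ⟨5, 6, 11, 7⟩⟩) (by decide +kernel)

def tC73_pL0 : PosD ⟨⟨0, 1, 1⟩, ⟨98, 99, 147⟩, ⟨9258, 9630, 30000⟩, ⟨1467, 1488, 1000⟩⟩ (tC73.hPL false) :=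
  posD_of_check (c := ⟨343, ⟨5, 6, 11, 7⟩⟩) (by decide +kernel)

def tC73_pU0 : PosD ⟨⟨0, 1, 1⟩, ⟨98, 99, 147⟩, ⟨9258, 9630, 30000⟩, ⟨1467, 1488, 1000⟩⟩ (tC73.hPU false) :=
  posD_of_check (c := ⟨355, ⟨5, 6, 11, 7⟩⟩) (by decide +kernel)

def tC73_kU0 : PosD ⟨⟨0, 1, 1⟩, ⟨98, 99, 147⟩, ⟨9258, 9630, 30000⟩, ⟨1467, 1488, 1000⟩⟩ (tC73.hKU false) :=
  posD_of_check (c := ⟨340, ⟨5, 6, 11, 7⟩⟩) (by decide +kernel)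

def tC73_kL0 : PosD ⟨⟨0, 1, 1⟩, ⟨98, 99, 147⟩, ⟨9258, 9630, 30000⟩, ⟨1467, 1488, 1000⟩⟩ (tC73.hKL false) :=
  posD_of_check (c := ⟨337, ⟨5, 6, 11, 7⟩⟩) (by decide +kernel)

def tC73_wU0 : PosD ⟨⟨0, 1, 1⟩, ⟨98, 99, 147⟩, ⟨9258, 9630, 30000⟩, ⟨1467, 1488, 1000⟩⟩ (tC73.hWU false) :=
  posD_of_check (c := ⟨373, ⟨5, 8, 12, 7⟩⟩) (by decide +kernel)

def tC73_wL0 : PosD ⟨⟨0, 1, 1⟩, ⟨98, 99, 147⟩, ⟨9258, 9630, 30000⟩, ⟨1467, 1488, 1000⟩⟩ (tC73.hWL false) :=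
  posD_of_check (c := ⟨374, ⟨5, 8, 12, 7⟩⟩) (by decide +kernel)

def tC73_ev1 : PosD ⟨⟨0, 1, 1⟩, ⟨98, 99, 147⟩, ⟨9258, 9630, 30000⟩, ⟨1467, 1488, 1000⟩⟩ (tC73.hEv true) :=
  posD_of_check (c := ⟨273, ⟨4, 6, 9, 6⟩⟩) (by decide +kernel)

def tC73_zL1 : PosD ⟨⟨0, 1, 1⟩, ⟨98, 99, 147⟩, ⟨9258, 9630, 30000⟩, ⟨1467, 1488, 1000⟩⟩ (tC73.hZL true) :=
  posD_of_check (c := ⟨298, ⟨4, 7, 10, 6⟩⟩) (by decide +kernel)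

def tC73_zU1 : PosD ⟨⟨0, 1, 1⟩, ⟨98, 99, 147⟩, ⟨9258, 9630, 30000⟩, ⟨1467, 1488, 1000⟩⟩ (tC73.hZU true) :=
  posD_of_check (c := ⟨298, ⟨4, 7, 10, 6⟩⟩) (by decide +kernel)

def tC73_eL1 : PosD ⟨⟨0, 1, 1⟩, ⟨98, 99, 147⟩, ⟨9258, 9630, 30000⟩, ⟨1467, 1488, 1000⟩⟩ (tC73.hEL true) :=
  posD_of_check (c := ⟨371, ⟨5, 10, 12, 8⟩⟩) (by decide +kernel)

def tC73_eH1 : PosD ⟨⟨0, 1, 1⟩, ⟨98, 99, 147⟩, ⟨9258, 9630, 30000⟩, ⟨1467, 1488, 1000⟩⟩ (tC73.hEH true) :=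
  posD_of_check (c := ⟨406, ⟨5, 10, 12, 9⟩⟩) (by decide +kernel)

def tC73_pL1 : PosD ⟨⟨0, 1, 1⟩, ⟨98, 99, 147⟩, ⟨9258, 9630, 30000⟩, ⟨1467, 1488, 1000⟩⟩ (tC73.hPL true) :=
  posD_of_relax (k₁ := 0) (k₂ := 0) (k₃ := 1) (n := 16) (posD_of_check (c := ⟨397, ⟨5, 10, 12, 9⟩⟩) (by decide +kernel))

def tC73_pU1 : PosD ⟨⟨0, 1, 1⟩, ⟨98, 99, 147⟩, ⟨9258, 9630, 30000⟩, ⟨1467, 1488, 1000⟩⟩ (tC73.hPU true) :=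
  posD_of_check (c := ⟨408, ⟨5, 10, 12, 9⟩⟩) (by decide +kernel)

def tC73_kU1 : PosD ⟨⟨0, 1, 1⟩, ⟨98, 99, 147⟩, ⟨9258, 9630, 30000⟩, ⟨1467, 1488, 1000⟩⟩ (tC73.hKU true) :=
  posD_of_check (c := ⟨393, ⟨5, 10, 12, 9⟩⟩) (by decide +kernel)

def tC73_kL1 : PosD ⟨⟨0, 1, 1⟩, ⟨98, 99, 147⟩, ⟨9258, 9630, 30000⟩, ⟨1467, 1488, 1000⟩⟩ (tC73.hKL true) :=
  posD_of_check (c := ⟨391, ⟨5, 10, 12, 9⟩⟩) (by decide +kernel)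

def tC73_wU1 : PosD ⟨⟨0, 1, 1⟩, ⟨98, 99, 147⟩, ⟨9258, 9630, 30000⟩, ⟨1467, 1488, 1000⟩⟩ (tC73.hWU true) :=
  posD_of_check (c := ⟨427, ⟨5, 12, 13, 9⟩⟩) (by decide +kernel)

def tC73_wL1 : PosD ⟨⟨0, 1, 1⟩, ⟨98, 99, 147⟩, ⟨9258, 9630, 30000⟩, ⟨1467, 1488, 1000⟩⟩ (tC73.hWL true) :=
  posD_of_check (c := ⟨428, ⟨5, 12, 13, 9⟩⟩) (by decide +kernel)

def tC73_nueH : PosD ⟨⟨0, 1, 1⟩, ⟨98, 99, 147⟩, ⟨9258, 9630, 30000⟩, ⟨1467, 1488, 1000⟩⟩ (tC73.eH.ν) :=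
  posD_of_check (c := ⟨51, ⟨0, 0, 1, 1⟩⟩) (by decide +kernel)

def tC73_nupU : PosD ⟨⟨0, 1, 1⟩, ⟨98, 99, 147⟩, ⟨9258, 9630, 30000⟩, ⟨1467, 1488, 1000⟩⟩ (tC73.pU.ν) :=
  posD_of_check (c := ⟨54, ⟨0, 0, 1, 1⟩⟩) (by decide +kernel)

/-- The bounds of the piece. -/
def tC73_env : tC73.Env ⟨⟨0, 1, 1⟩, ⟨98, 99, 147⟩, ⟨9258, 9630, 30000⟩, ⟨1467, 1488, 1000⟩⟩ :=
  ⟨tC73_p0, Bool.forall_bool.2 ⟨tC73_den0, tC73_den1⟩, tC73_gn, Bool.forall_bool.2 ⟨tC73_ev0, tC73_ev1⟩, Bool.forall_bool.2 ⟨tC73_zL0, tC73_zL1⟩, Bool.forall_bool.2 ⟨tC73_zU0, tC73_zU1⟩, Bool.forall_bool.2 ⟨tC73_eL0, tC73_eL1⟩, ⟨.inr rfl, .inr rfl⟩, Bool.forall_bool.2 ⟨tC73_eH0, tC73_eH1⟩, ⟨.inr rfl, .inl tC73_nueH⟩, Bool.forall_bool.2 ⟨tC73_pL0, tC73_pL1⟩, ⟨.inr rfl, .inr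 rfl⟩, Bool.forall_bool.2 ⟨tC73_pU0, tC73_pU1⟩, ⟨.inr rfl, .inl tC73_nupU⟩, Bool.forall_bool.2 ⟨tC73_kU0, tC73_kU1⟩, ⟨.inr rfl, .inr rfl⟩, Bool.forall_bool.2 ⟨tC73_kL0, tC73_kL1⟩, ⟨.inr rfl, .inr rfl⟩, Bool.forall_bool.2 ⟨tC73_wU0, tC73_wU1⟩, ⟨.inr rfl, .inr rfl⟩, Bool.forall_bool.2 ⟨tC73_wL0, tC73_wL1⟩, ⟨.inr rfl, .inr rfl⟩⟩

def tC73_pp : PosD ⟨⟨0, 1, 1⟩, ⟨98, 99, 147⟩, ⟨9258, 9630, 30000⟩, ⟨1467, 1488, 1000⟩⟩ (tC73.xPL) :=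
  posD_of_check (c := ⟨100, ⟨1, 1, 3, 2⟩⟩) (by decide +kernel)

def tC73_k2p : PosD ⟨⟨0, 1, 1⟩, ⟨98, 99, 147⟩, ⟨9258, 9630, 30000⟩, ⟨1467, 1488, 1000⟩⟩ (tC73.k2p tC73.xE) :=
  posD_of_check (c := ⟨72, ⟨1, 1, 2, 1⟩⟩) (by decide +kernel)

def tC73_k2m : PosD ⟨⟨0, 1, 1⟩, ⟨98, 99, 147⟩, ⟨9258, 9630, 30000⟩, ⟨1467, 1488, 1000⟩⟩ (tC73.k2m tC73.xE) :=
  posD_of_check (c := ⟨31, ⟨0, 0, 1, 1⟩⟩) (by decide +kernel)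

def tC73_v2p : PosD ⟨⟨0, 1, 1⟩, ⟨98, 99, 147⟩, ⟨9258, 9630, 30000⟩, ⟨1467, 1488, 1000⟩⟩ (tC73.hV2p) :=
  posD_of_check (c := ⟨274, ⟨1, 6, 10, 4⟩⟩) (by decide +kernel)

def tC73_v2m : PosD ⟨⟨0, 1, 1⟩, ⟨98, 99, 147⟩, ⟨9258, 9630, 30000⟩, ⟨1467, 1488, 1000⟩⟩ (tC73.hV2m) :=
  posD_of_check (c := ⟨245, ⟨0, 5, 10, 4⟩⟩) (by decide +kernel)

def tC73_v3p : PosD ⟨⟨0, 1, 1⟩, ⟨98, 99, 147⟩, ⟨9258, 9630, 30000⟩, ⟨1467, 1488, 1000⟩⟩ (tC73.hV3p) :=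
  posD_of_check (c := ⟨258, ⟨1, 6, 9, 4⟩⟩) (by decide +kernel)

def tC73_v3m : PosD ⟨⟨0, 1, 1⟩, ⟨98, 99, 147⟩, ⟨9258, 9630, 30000⟩, ⟨1467, 1488, 1000⟩⟩ (tC73.hV3m) :=
  posD_of_check (c := ⟨232, ⟨0, 5, 9, 4⟩⟩) (by decide +kernel)

def tC73_kap0 : PosD ⟨⟨0, 1, 1⟩, ⟨98, 99, 147⟩, ⟨9258, 9630, 30000⟩, ⟨1467, 1488, 1000⟩⟩ (tC73.kap false) :=
  posD_of_check (c := ⟨73, ⟨1, 1, 2, 1⟩⟩) (by decide +kernel)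

def tC73_c10 : PosD ⟨⟨0, 1, 1⟩, ⟨98, 99, 147⟩, ⟨9258, 9630, 30000⟩, ⟨1467, 1488, 1000⟩⟩ (tC73.hC1 false) :=
  posD_of_check (c := ⟨285, ⟨3, 5, 9, 6⟩⟩) (by decide +kernel)

def tC73_c1h0 : PosD ⟨⟨0, 1, 1⟩, ⟨98, 99, 147⟩, ⟨9258, 9630, 30000⟩, ⟨1467, 1488, 1000⟩⟩ (tC73.hC1' false) :=
  posD_of_relax (k₁ := 0) (k₂ := 0) (k₃ := 27) (n := 16) (posD_of_check (c := ⟨285, ⟨3, 5, 9, 6⟩⟩) (by decide +kernel))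

def tC73_tg00 : PosD ⟨⟨0, 1, 1⟩, ⟨98, 99, 147⟩, ⟨9258, 9630, 30000⟩, ⟨1467, 1488, 1000⟩⟩ (tC73.hG false (tC73.pEnd false)) :=
  posD_of_check (c := ⟨397, ⟨2, 7, 14, 7⟩⟩) (by decide +kernel)

def tC73_c2p00 : PosD ⟨⟨0, 1, 1⟩, ⟨98, 99, 147⟩, ⟨9258, 9630, 30000⟩, ⟨1467, 1488, 1000⟩⟩ (tC73.hC2p false (tC73.pEnd false)) :=
  posD_of_check (c := ⟨469, ⟨3, 8, 16, 8⟩⟩) (by decide +kernel)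

def tC73_c2m00 : PosD ⟨⟨0, 1, 1⟩, ⟨98, 99, 147⟩, ⟨9258, 9630, 30000⟩, ⟨1467, 1488, 1000⟩⟩ (tC73.hC2m false (tC73.pEnd false)) :=
  posD_of_check (c := ⟨440, ⟨2, 7, 16, 8⟩⟩) (by decide +kernel)

def tC73_c3p00 : PosD ⟨⟨0, 1, 1⟩, ⟨98, 99, 147⟩, ⟨9258, 9630, 30000⟩, ⟨1467, 1488, 1000⟩⟩ (tC73.hC3p false false) :=
  posD_of_check (c := ⟨455, ⟨3, 8, 15, 8⟩⟩) (by decide +kernel)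

def tC73_c3m00 : PosD ⟨⟨0, 1, 1⟩, ⟨98, 99, 147⟩, ⟨9258, 9630, 30000⟩, ⟨1467, 1488, 1000⟩⟩ (tC73.hC3m false false) :=
  posD_of_check (c := ⟨432, ⟨3, 7, 15, 8⟩⟩) (by decide +kernel)

def tC73_c3ph00 : PosD ⟨⟨0, 1, 1⟩, ⟨98, 99, 147⟩, ⟨9258, 9630, 30000⟩, ⟨1467, 1488, 1000⟩⟩ (tC73.hC3p' false false) :=
  posD_of_check (c := ⟨455, ⟨3, 8, 15, 8⟩⟩) (by decide +kernel)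

def tC73_c3mh00 : PosD ⟨⟨0, 1, 1⟩, ⟨98, 99, 147⟩, ⟨9258, 9630, 30000⟩, ⟨1467, 1488, 1000⟩⟩ (tC73.hC3m' false false) :=
  posD_of_check (c := ⟨432, ⟨3, 7, 15, 8⟩⟩) (by decide +kernel)

def tC73_up00 : PosD ⟨⟨0, 1, 1⟩, ⟨98, 99, 147⟩, ⟨9258, 9630, 30000⟩, ⟨1467, 1488, 1000⟩⟩ (tC73.hUp false false) :=
  posD_of_check (c := ⟨453, ⟨3, 8, 15, 8⟩⟩) (by decide +kernel)

def tC73_um00 : PosD ⟨⟨0, 1, 1⟩, ⟨98, 99, 147⟩, ⟨9258, 9630, 30000⟩, ⟨1467, 1488, 1000⟩⟩ (tC73.hUm false false) :=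
  posD_of_check (c := ⟨427, ⟨2, 7, 15, 8⟩⟩) (by decide +kernel)

def tC73_tmg00 : PosD ⟨⟨0, 1, 1⟩, ⟨98, 99, 147⟩, ⟨9258, 9630, 30000⟩, ⟨1467, 1488, 1000⟩⟩ (tC73.hTMG false (tC73.pEnd false)) :=
  posD_of_check (c := ⟨410, ⟨2, 7, 14, 8⟩⟩) (by decide +kernel)

def tC73_tg01 : PosD ⟨⟨0, 1, 1⟩, ⟨98, 99, 147⟩, ⟨9258, 9630, 30000⟩, ⟨1467, 1488, 1000⟩⟩ (tC73.hG true (tC73.pEnd false)) :=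
  posD_of_check (c := ⟨397, ⟨2, 7, 14, 7⟩⟩) (by decide +kernel)

def tC73_c2p01 : PosD ⟨⟨0, 1, 1⟩, ⟨98, 99, 147⟩, ⟨9258, 9630, 30000⟩, ⟨1467, 1488, 1000⟩⟩ (tC73.hC2p true (tC73.pEnd false)) :=
  posD_of_check (c := ⟨469, ⟨3, 8, 16, 8⟩⟩) (by decide +kernel)

def tC73_c2m01 : PosD ⟨⟨0, 1, 1⟩, ⟨98, 99, 147⟩, ⟨9258, 9630, 30000⟩, ⟨1467, 1488, 1000⟩⟩ (tC73.hC2m true (tC73.pEnd false)) :=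
  posD_of_check (c := ⟨440, ⟨2, 7, 16, 8⟩⟩) (by decide +kernel)

def tC73_c3p01 : PosD ⟨⟨0, 1, 1⟩, ⟨98, 99, 147⟩, ⟨9258, 9630, 30000⟩, ⟨1467, 1488, 1000⟩⟩ (tC73.hC3p false true) :=
  posD_of_check (c := ⟨455, ⟨3, 8, 15, 8⟩⟩) (by decide +kernel)

def tC73_c3m01 : PosD ⟨⟨0, 1, 1⟩, ⟨98, 99, 147⟩, ⟨9258, 9630, 30000⟩, ⟨1467, 1488, 1000⟩⟩ (tC73.hC3m false true) :=
  posD_of_check (c := ⟨432, ⟨3, 7, 15, 8⟩⟩) (by decide +kernel)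

def tC73_c3ph01 : PosD ⟨⟨0, 1, 1⟩, ⟨98, 99, 147⟩, ⟨9258, 9630, 30000⟩, ⟨1467, 1488, 1000⟩⟩ (tC73.hC3p' false true) :=
  posD_of_check (c := ⟨455, ⟨3, 8, 15, 8⟩⟩) (by decide +kernel)

def tC73_c3mh01 : PosD ⟨⟨0, 1, 1⟩, ⟨98, 99, 147⟩, ⟨9258, 9630, 30000⟩, ⟨1467, 1488, 1000⟩⟩ (tC73.hC3m' false true) :=
  posD_of_check (c := ⟨432, ⟨3, 7, 15, 8⟩⟩) (by decide +kernel)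

def tC73_up01 : PosD ⟨⟨0, 1, 1⟩, ⟨98, 99, 147⟩, ⟨9258, 9630, 30000⟩, ⟨1467, 1488, 1000⟩⟩ (tC73.hUp false true) :=
  posD_of_check (c := ⟨453, ⟨3, 8, 15, 8⟩⟩) (by decide +kernel)

def tC73_um01 : PosD ⟨⟨0, 1, 1⟩, ⟨98, 99, 147⟩, ⟨9258, 9630, 30000⟩, ⟨1467, 1488, 1000⟩⟩ (tC73.hUm false true) :=
  posD_of_check (c := ⟨427, ⟨2, 7, 15, 8⟩⟩) (by decide +kernel)

def tC73_tmg01 : PosD ⟨⟨0, 1, 1⟩, ⟨98, 99, 147⟩, ⟨9258, 9630, 30000⟩, ⟨1467, 1488, 1000⟩⟩ (tC73.hTMG true (tC73.pEnd false)) :=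
  posD_of_check (c := ⟨410, ⟨2, 7, 14, 8⟩⟩) (by decide +kernel)

def tC73_kap1 : PosD ⟨⟨0, 1, 1⟩, ⟨98, 99, 147⟩, ⟨9258, 9630, 30000⟩, ⟨1467, 1488, 1000⟩⟩ (tC73.kap true) :=
  posD_of_check (c := ⟨73, ⟨1, 1, 2, 1⟩⟩) (by decide +kernel)

def tC73_c11 : PosD ⟨⟨0, 1, 1⟩, ⟨98, 99, 147⟩, ⟨9258, 9630, 30000⟩, ⟨1467, 1488, 1000⟩⟩ (tC73.hC1 true) :=
  posD_of_check (c := ⟨282, ⟨3, 5, 9, 6⟩⟩) (by decide +kernel)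

def tC73_c1h1 : PosD ⟨⟨0, 1, 1⟩, ⟨98, 99, 147⟩, ⟨9258, 9630, 30000⟩, ⟨1467, 1488, 1000⟩⟩ (tC73.hC1' true) :=
  posD_of_relax (k₁ := 0) (k₂ := 0) (k₃ := 85) (n := 16) (posD_of_check (c := ⟨281, ⟨3, 5, 9, 6⟩⟩) (by decide +kernel))

def tC73_tg10 : PosD ⟨⟨0, 1, 1⟩, ⟨98, 99, 147⟩, ⟨9258, 9630, 30000⟩, ⟨1467, 1488, 1000⟩⟩ (tC73.hG false (tC73.pEnd true)) :=
  posD_of_check (c := ⟨392, ⟨2, 7, 14, 7⟩⟩) (by decide +kernel)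

def tC73_c2p10 : PosD ⟨⟨0, 1, 1⟩, ⟨98, 99, 147⟩, ⟨9258, 9630, 30000⟩, ⟨1467, 1488, 1000⟩⟩ (tC73.hC2p false (tC73.pEnd true)) :=
  posD_of_check (c := ⟨463, ⟨3, 8, 16, 8⟩⟩) (by decide +kernel)

def tC73_c2m10 : PosD ⟨⟨0, 1, 1⟩, ⟨98, 99, 147⟩, ⟨9258, 9630, 30000⟩, ⟨1467, 1488, 1000⟩⟩ (tC73.hC2m false (tC73.pEnd true)) :=
  posD_of_check (c := ⟨435, ⟨2, 7, 16, 8⟩⟩) (by decide +kernel)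

def tC73_c3p10 : PosD ⟨⟨0, 1, 1⟩, ⟨98, 99, 147⟩, ⟨9258, 9630, 30000⟩, ⟨1467, 1488, 1000⟩⟩ (tC73.hC3p true false) :=
  posD_of_check (c := ⟨451, ⟨3, 8, 15, 8⟩⟩) (by decide +kernel)

def tC73_c3m10 : PosD ⟨⟨0, 1, 1⟩, ⟨98, 99, 147⟩, ⟨9258, 9630, 30000⟩, ⟨1467, 1488, 1000⟩⟩ (tC73.hC3m true false) :=
  posD_of_check (c := ⟨428, ⟨3, 7, 15, 8⟩⟩) (by decide +kernel)

def tC73_c3ph10 : PosD ⟨⟨0, 1, 1⟩, ⟨98, 99, 147⟩, ⟨9258, 9630, 30000⟩, ⟨1467, 1488, 1000⟩⟩ (tC73.hC3p' true false) :=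
  posD_of_check (c := ⟨451, ⟨3, 8, 15, 8⟩⟩) (by decide +kernel)

def tC73_c3mh10 : PosD ⟨⟨0, 1, 1⟩, ⟨98, 99, 147⟩, ⟨9258, 9630, 30000⟩, ⟨1467, 1488, 1000⟩⟩ (tC73.hC3m' true false) :=
  posD_of_check (c := ⟨428, ⟨3, 7, 15, 8⟩⟩) (by decide +kernel)

def tC73_up10 : PosD ⟨⟨0, 1, 1⟩, ⟨98, 99, 147⟩, ⟨9258, 9630, 30000⟩, ⟨1467, 1488, 1000⟩⟩ (tC73.hUp true false) :=
  posD_of_check (c := ⟨448, ⟨3, 8, 15, 8⟩⟩) (by decide +kernel)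

def tC73_um10 : PosD ⟨⟨0, 1, 1⟩, ⟨98, 99, 147⟩, ⟨9258, 9630, 30000⟩, ⟨1467, 1488, 1000⟩⟩ (tC73.hUm true false) :=
  posD_of_check (c := ⟨423, ⟨2, 7, 15, 8⟩⟩) (by decide +kernel)

def tC73_tmg10 : PosD ⟨⟨0, 1, 1⟩, ⟨98, 99, 147⟩, ⟨9258, 9630, 30000⟩, ⟨1467, 1488, 1000⟩⟩ (tC73.hTMG false (tC73.pEnd true)) :=
  posD_of_check (c := ⟨406, ⟨2, 7, 14, 8⟩⟩) (by decide +kernel)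

def tC73_tg11 : PosD ⟨⟨0, 1, 1⟩, ⟨98, 99, 147⟩, ⟨9258, 9630, 30000⟩, ⟨1467, 1488, 1000⟩⟩ (tC73.hG true (tC73.pEnd true)) :=
  posD_of_check (c := ⟨392, ⟨2, 7, 14, 7⟩⟩) (by decide +kernel)

def tC73_c2p11 : PosD ⟨⟨0, 1, 1⟩, ⟨98, 99, 147⟩, ⟨9258, 9630, 30000⟩, ⟨1467, 1488, 1000⟩⟩ (tC73.hC2p true (tC73.pEnd true)) :=
  posD_of_check (c := ⟨463, ⟨3, 8, 16, 8⟩⟩) (by decide +kernel)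

def tC73_c2m11 : PosD ⟨⟨0, 1, 1⟩, ⟨98, 99, 147⟩, ⟨9258, 9630, 30000⟩, ⟨1467, 1488, 1000⟩⟩ (tC73.hC2m true (tC73.pEnd true)) :=
  posD_of_check (c := ⟨435, ⟨2, 7, 16, 8⟩⟩) (by decide +kernel)

def tC73_c3p11 : PosD ⟨⟨0, 1, 1⟩, ⟨98, 99, 147⟩, ⟨9258, 9630, 30000⟩, ⟨1467, 1488, 1000⟩⟩ (tC73.hC3p true true) :=
  posD_of_check (c := ⟨451, ⟨3, 8, 15, 8⟩⟩) (by decide +kernel)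

def tC73_c3m11 : PosD ⟨⟨0, 1, 1⟩, ⟨98, 99, 147⟩, ⟨9258, 9630, 30000⟩, ⟨1467, 1488, 1000⟩⟩ (tC73.hC3m true true) :=
  posD_of_check (c := ⟨428, ⟨3, 7, 15, 8⟩⟩) (by decide +kernel)

def tC73_c3ph11 : PosD ⟨⟨0, 1, 1⟩, ⟨98, 99, 147⟩, ⟨9258, 9630, 30000⟩, ⟨1467, 1488, 1000⟩⟩ (tC73.hC3p' true true) :=
  posD_of_check (c := ⟨451, ⟨3, 8, 15, 8⟩⟩) (by decide +kernel)

def tC73_c3mh11 : PosD ⟨⟨0, 1, 1⟩, ⟨98, 99, 147⟩, ⟨9258, 9630, 30000⟩, ⟨1467, 1488, 1000⟩⟩ (tC73.hC3m' true true) :=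
  posD_of_check (c := ⟨428, ⟨3, 7, 15, 8⟩⟩) (by decide +kernel)

def tC73_up11 : PosD ⟨⟨0, 1, 1⟩, ⟨98, 99, 147⟩, ⟨9258, 9630, 30000⟩, ⟨1467, 1488, 1000⟩⟩ (tC73.hUp true true) :=
  posD_of_check (c := ⟨448, ⟨3, 8, 15, 8⟩⟩) (by decide +kernel)

def tC73_um11 : PosD ⟨⟨0, 1, 1⟩, ⟨98, 99, 147⟩, ⟨9258, 9630, 30000⟩, ⟨1467, 1488, 1000⟩⟩ (tC73.hUm true true) :=
  posD_of_check (c := ⟨423, ⟨2, 7, 15, 8⟩⟩) (by decide +kernel)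

def tC73_tmg11 : PosD ⟨⟨0, 1, 1⟩, ⟨98, 99, 147⟩, ⟨9258, 9630, 30000⟩, ⟨1467, 1488, 1000⟩⟩ (tC73.hTMG true (tC73.pEnd true)) :=
  posD_of_check (c := ⟨406, ⟨2, 7, 14, 8⟩⟩) (by decide +kernel)

/-- The signs of the piece. -/
def tC73_sign : tC73.Sign ⟨⟨0, 1, 1⟩, ⟨98, 99, 147⟩, ⟨9258, 9630, 30000⟩, ⟨1467, 1488, 1000⟩⟩ :=
  ⟨tC73_pp,
    tC73_k2p,
    tC73_k2m,
    Bool.forall_bool.2 ⟨(Bool.forall_bool.2 ⟨tC73_tg00, tC73_tg01⟩), (Bool.forall_bool.2 ⟨tC73_tg10, tC73_tg11⟩)⟩,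
    Bool.forall_bool.2 ⟨(Bool.forall_bool.2 ⟨tC73_c2p00, tC73_c2p01⟩), (Bool.forall_bool.2 ⟨tC73_c2p10, tC73_c2p11⟩)⟩,
    Bool.forall_bool.2 ⟨(Bool.forall_bool.2 ⟨tC73_c2m00, tC73_c2m01⟩), (Bool.forall_bool.2 ⟨tC73_c2m10, tC73_c2m11⟩)⟩,
    Bool.forall_bool.2 ⟨tC73_kap0, tC73_kap1⟩,
    Bool.forall_bool.2 ⟨tC73_c10, tC73_c11⟩,
    Bool.forall_bool.2 ⟨(Bool.forall_bool.2 ⟨tC73_c3p00, tC73_c3p01⟩), (Bool.forall_bool.2 ⟨tC73_c3p10, tC73_c3p11⟩)⟩,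
    Bool.forall_bool.2 ⟨(Bool.forall_bool.2 ⟨tC73_c3m00, tC73_c3m01⟩), (Bool.forall_bool.2 ⟨tC73_c3m10, tC73_c3m11⟩)⟩,
    Bool.forall_bool.2 ⟨(Bool.forall_bool.2 ⟨tC73_tmg00, tC73_tmg01⟩), (Bool.forall_bool.2 ⟨tC73_tmg10, tC73_tmg11⟩)⟩,
    .inr (Bool.forall_bool.2 ⟨⟨tC73_c1h0, Bool.forall_bool.2 ⟨⟨tC73_c3ph00, tC73_c3mh00, tC73_up00, tC73_um00⟩, ⟨tC73_c3ph01, tC73_c3mh01, tC73_up01, tC73_um01⟩⟩⟩, ⟨tC73_c1h1, Bool.forall_bool.2 ⟨⟨tC73_c3ph10, tC73_c3mh10, tC73_up10, tC73_um10⟩, ⟨tC73_c3ph11, tC73_c3mh11, tC73_up11, tC73_um11⟩⟩⟩⟩),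
    tC73_v2p,
    tC73_v2m,
    tC73_v3p,
    tC73_v3m,
    posD_sub (b := ⟨⟨0, 1, 1⟩, ⟨98, 99, 147⟩, ⟨4050, 10000, 30000⟩, ⟨290, 4000, 1000⟩⟩) (by decide +kernel) tC_vG,
    posD_sub (b := ⟨⟨0, 1, 1⟩, ⟨98, 99, 147⟩, ⟨4050, 10000, 30000⟩, ⟨290, 4000, 1000⟩⟩) (by decide +kernel) tC_vMG,
    posD_sub (b := ⟨⟨0, 1, 1⟩, ⟨98, 99, 147⟩, ⟨4050, 10000, 30000⟩, ⟨290, 4000, 1000⟩⟩) (by decide +kernel) tC_ak,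
    posD_sub (b := ⟨⟨0, 1, 1⟩, ⟨98, 99, 147⟩, ⟨4050, 10000, 30000⟩, ⟨290, 4000, 1000⟩⟩) (by decide +kernel) tC_aw,
    posD_sub (b := ⟨⟨0, 1, 1⟩, ⟨98, 99, 147⟩, ⟨4050, 10000, 30000⟩, ⟨290, 4000, 1000⟩⟩) (by decide +kernel) tC_gk,
    posD_sub (b := ⟨⟨0, 1, 1⟩, ⟨98, 99, 147⟩, ⟨4050, 10000, 30000⟩, ⟨290, 4000, 1000⟩⟩) (by decide +kernel) tC_gw,
    posD_sub (b := ⟨⟨0, 1, 1⟩, ⟨98, 99, 147⟩, ⟨4050, 10000, 30000⟩, ⟨290, 4000, 1000⟩⟩) (by decide +kernel) tC_ek,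
    posD_sub (b := ⟨⟨0, 1, 1⟩, ⟨98, 99, 147⟩, ⟨4050, 10000, 30000⟩, ⟨290, 4000, 1000⟩⟩) (by decide +kernel) tC_ew⟩

end Vale.Agent.P100.Calib.Closed.Six.Tail
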