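import Vale.Agent.P100.Calib.SlabSixTailDataC
import Vale.Agent.P100.Calib.SlabSixTailGlobC

/-!
# Checks of some pieces of the certificate

The checks are written as definitions so that they run one after another, which keeps the memory of the
kernel low.
-/

set_option linter.defProp false

namespace Vale.Agent.P100.Calib.Closed.Six.Tail

open BoxPos Large

local instance sixTailCheckstC48Add : Add Ex := ⟨Ex.add⟩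
local instance sixTailCheckstC48Sub : Sub Ex := ⟨Ex.sub⟩
local instance sixTailCheckstC48Mul : Mul Ex := ⟨Ex.mul⟩

def tC74_phx : PosIf ⟨⟨0, 1, 1⟩, ⟨98, 99, 147⟩, ⟨9258, 9630, 30000⟩, ⟨1488, 1510, 1000⟩⟩ (tC74.u₁ - tC74Lo) (phCn (tC74.u₁ + xO * (tC74Lo - tC74.u₁))) :=
  posIf_of_posD (posD_of_check (c := ⟨109, ⟨2, 0, 4, 2⟩⟩) (by decide +kernel))

def tC74_phd : PosD ⟨⟨0, 1, 1⟩, ⟨98, 99, 147⟩, ⟨9258, 9630, 30000⟩, ⟨1488, 1510, 1000⟩⟩ (phCd (tC74.u₁ + xO * (tC74Lo - tC74.u₁))) :=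
  posD_of_check (c := ⟨51, ⟨1, 0, 2, 1⟩⟩) (by decide +kernel)

def tC74_p0 : PosD ⟨⟨0, 1, 1⟩, ⟨98, 99, 147⟩, ⟨9258, 9630, 30000⟩, ⟨1488, 1510, 1000⟩⟩ (tC74.hP0) :=
  posD_of_check (c := ⟨83, ⟨0, 2, 3, 1⟩⟩) (by decide +kernel)

def tC74_gn : PosD ⟨⟨0, 1, 1⟩, ⟨98, 99, 147⟩, ⟨9258, 9630, 30000⟩, ⟨1488, 1510, 1000⟩⟩ (tC74.hGn) :=
  posD_of_check (c := ⟨69, ⟨1, 1, 2, 2⟩⟩) (by decide +kernel)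

def tC74_den0 : PosD ⟨⟨0, 1, 1⟩, ⟨98, 99, 147⟩, ⟨9258, 9630, 30000⟩, ⟨1488, 1510, 1000⟩⟩ (tC74.hDen false) :=
  posD_of_check (c := ⟨51, ⟨1, 0, 2, 1⟩⟩) (by decide +kernel)

def tC74_den1 : PosD ⟨⟨0, 1, 1⟩, ⟨98, 99, 147⟩, ⟨9258, 9630, 30000⟩, ⟨1488, 1510, 1000⟩⟩ (tC74.hDen true) :=
  posD_of_check (c := ⟨180, ⟨3, 4, 6, 4⟩⟩) (by decide +kernel)

def tC74_ev0 : PosD ⟨⟨0, 1, 1⟩, ⟨98, 99, 147⟩, ⟨9258, 9630, 30000⟩, ⟨1488, 1510, 1000⟩⟩ (tC74.hEv false) :=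
  posD_of_check (c := ⟨220, ⟨4, 2, 8, 4⟩⟩) (by decide +kernel)

def tC74_zL0 : PosD ⟨⟨0, 1, 1⟩, ⟨98, 99, 147⟩, ⟨9258, 9630, 30000⟩, ⟨1488, 1510, 1000⟩⟩ (tC74.hZL false) :=
  posD_of_check (c := ⟨223, ⟨4, 3, 8, 4⟩⟩) (by decide +kernel)

def tC74_zU0 : PosD ⟨⟨0, 1, 1⟩, ⟨98, 99, 147⟩, ⟨9258, 9630, 30000⟩, ⟨1488, 1510, 1000⟩⟩ (tC74.hZU false) :=
  posD_of_check (c := ⟨223, ⟨4, 3, 8, 4⟩⟩) (by decide +kernel)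

def tC74_eL0 : PosD ⟨⟨0, 1, 1⟩, ⟨98, 99, 147⟩, ⟨9258, 9630, 30000⟩, ⟨1488, 1510, 1000⟩⟩ (tC74.hEL false) :=
  posD_of_check (c := ⟨318, ⟨5, 6, 11, 6⟩⟩) (by decide +kernel)

def tC74_eH0 : PosD ⟨⟨0, 1, 1⟩, ⟨98, 99, 147⟩, ⟨9258, 9630, 30000⟩, ⟨1488, 1510, 1000⟩⟩ (tC74.hEH false) :=
  posD_of_check (c := ⟨348, ⟨5, 6, 11, 7⟩⟩) (by decide +kernel)

def tC74_pL0 : PosD ⟨⟨0, 1, 1⟩, ⟨98, 99, 147⟩, ⟨9258, 9630, 30000⟩, ⟨1488, 1510, 1000⟩⟩ (tC74.hPL false) :=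
  posD_of_check (c := ⟨344, ⟨5, 6, 11, 7⟩⟩) (by decide +kernel)

def tC74_pU0 : PosD ⟨⟨0, 1, 1⟩, ⟨98, 99, 147⟩, ⟨9258, 9630, 30000⟩, ⟨1488, 1510, 1000⟩⟩ (tC74.hPU false) :=
  posD_of_check (c := ⟨342, ⟨5, 6, 11, 7⟩⟩) (by decide +kernel)

def tC74_kU0 : PosD ⟨⟨0, 1, 1⟩, ⟨98, 99, 147⟩, ⟨9258, 9630, 30000⟩, ⟨1488, 1510, 1000⟩⟩ (tC74.hKU false) :=
  posD_of_check (c := ⟨340, ⟨5, 6, 11, 7⟩⟩) (by decide +kernel)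

def tC74_kL0 : PosD ⟨⟨0, 1, 1⟩, ⟨98, 99, 147⟩, ⟨9258, 9630, 30000⟩, ⟨1488, 1510, 1000⟩⟩ (tC74.hKL false) :=
  posD_of_check (c := ⟨338, ⟨5, 6, 11, 7⟩⟩) (by decide +kernel)

def tC74_wU0 : PosD ⟨⟨0, 1, 1⟩, ⟨98, 99, 147⟩, ⟨9258, 9630, 30000⟩, ⟨1488, 1510, 1000⟩⟩ (tC74.hWU false) :=
  posD_of_check (c := ⟨373, ⟨5, 8, 12, 7⟩⟩) (by decide +kernel)

def tC74_wL0 : PosD ⟨⟨0, 1, 1⟩, ⟨98, 99, 147⟩, ⟨9258, 9630, 30000⟩, ⟨1488, 1510, 1000⟩⟩ (tC74.hWL false) :=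
  posD_of_check (c := ⟨382, ⟨5, 8, 12, 7⟩⟩) (by decide +kernel)

def tC74_ev1 : PosD ⟨⟨0, 1, 1⟩, ⟨98, 99, 147⟩, ⟨9258, 9630, 30000⟩, ⟨1488, 1510, 1000⟩⟩ (tC74.hEv true) :=
  posD_of_check (c := ⟨273, ⟨4, 6, 9, 6⟩⟩) (by decide +kernel)

def tC74_zL1 : PosD ⟨⟨0, 1, 1⟩, ⟨98, 99, 147⟩, ⟨9258, 9630, 30000⟩, ⟨1488, 1510, 1000⟩⟩ (tC74.hZL true) :=
  posD_of_check (c := ⟨299, ⟨4, 7, 10, 6⟩⟩) (by decide +kernel)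

def tC74_zU1 : PosD ⟨⟨0, 1, 1⟩, ⟨98, 99, 147⟩, ⟨9258, 9630, 30000⟩, ⟨1488, 1510, 1000⟩⟩ (tC74.hZU true) :=
  posD_of_check (c := ⟨299, ⟨4, 7, 10, 6⟩⟩) (by decide +kernel)

def tC74_eL1 : PosD ⟨⟨0, 1, 1⟩, ⟨98, 99, 147⟩, ⟨9258, 9630, 30000⟩, ⟨1488, 1510, 1000⟩⟩ (tC74.hEL true) :=
  posD_of_check (c := ⟨371, ⟨5, 10, 12, 8⟩⟩) (by decide +kernel)

def tC74_eH1 : PosD ⟨⟨0, 1, 1⟩, ⟨98, 99, 147⟩, ⟨9258, 9630, 30000⟩, ⟨1488, 1510, 1000⟩⟩ (tC74.hEH true) :=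
  posD_of_check (c := ⟨402, ⟨5, 10, 12, 9⟩⟩) (by decide +kernel)

def tC74_pL1 : PosD ⟨⟨0, 1, 1⟩, ⟨98, 99, 147⟩, ⟨9258, 9630, 30000⟩, ⟨1488, 1510, 1000⟩⟩ (tC74.hPL true) :=
  posD_of_check (c := ⟨398, ⟨5, 10, 12, 9⟩⟩) (by decide +kernel)

def tC74_pU1 : PosD ⟨⟨0, 1, 1⟩, ⟨98, 99, 147⟩, ⟨9258, 9630, 30000⟩, ⟨1488, 1510, 1000⟩⟩ (tC74.hPU true) :=
  posD_of_check (c := ⟨395, ⟨5, 10, 12, 9⟩⟩) (by decide +kernel)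

def tC74_kU1 : PosD ⟨⟨0, 1, 1⟩, ⟨98, 99, 147⟩, ⟨9258, 9630, 30000⟩, ⟨1488, 1510, 1000⟩⟩ (tC74.hKU true) :=
  posD_of_check (c := ⟨393, ⟨5, 10, 12, 9⟩⟩) (by decide +kernel)

def tC74_kL1 : PosD ⟨⟨0, 1, 1⟩, ⟨98, 99, 147⟩, ⟨9258, 9630, 30000⟩, ⟨1488, 1510, 1000⟩⟩ (tC74.hKL true) :=
  posD_of_check (c := ⟨391, ⟨5, 10, 12, 9⟩⟩) (by decide +kernel)

def tC74_wU1 : PosD ⟨⟨0, 1, 1⟩, ⟨98, 99, 147⟩, ⟨9258, 9630, 30000⟩, ⟨1488, 1510, 1000⟩⟩ (tC74.hWU true) :=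
  posD_of_check (c := ⟨427, ⟨5, 12, 13, 9⟩⟩) (by decide +kernel)

def tC74_wL1 : PosD ⟨⟨0, 1, 1⟩, ⟨98, 99, 147⟩, ⟨9258, 9630, 30000⟩, ⟨1488, 1510, 1000⟩⟩ (tC74.hWL true) :=
  posD_of_check (c := ⟨436, ⟨5, 12, 13, 9⟩⟩) (by decide +kernel)

def tC74_nueH : PosD ⟨⟨0, 1, 1⟩, ⟨98, 99, 147⟩, ⟨9258, 9630, 30000⟩, ⟨1488, 1510, 1000⟩⟩ (tC74.eH.ν) :=
  posD_of_check (c := ⟨47, ⟨0, 0, 1, 1⟩⟩) (by decide +kernel)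

def tC74_nuwL : PosD ⟨⟨0, 1, 1⟩, ⟨98, 99, 147⟩, ⟨9258, 9630, 30000⟩, ⟨1488, 1510, 1000⟩⟩ (tC74.wL.ν) :=
  posD_of_check (c := ⟨50, ⟨0, 0, 1, 1⟩⟩) (by decide +kernel)

/-- The bounds of the piece. -/
def tC74_env : tC74.Env ⟨⟨0, 1, 1⟩, ⟨98, 99, 147⟩, ⟨9258, 9630, 30000⟩, ⟨1488, 1510, 1000⟩⟩ :=
  ⟨tC74_p0, Bool.forall_bool.2 ⟨tC74_den0, tC74_den1⟩, tC74_gn, Bool.forall_bool.2 ⟨tC74_ev0, tC74_ev1⟩, Bool.forall_bool.2 ⟨tC74_zL0, tC74_zL1⟩, Bool.forall_bool.2 ⟨tC74_zU0, tC74_zU1⟩, Bool.forall_bool.2 ⟨tC74_eL0, tC74_eL1⟩, ⟨.inr rfl, .inr rfl⟩, Bool.forall_bool.2 ⟨tC74_eH0, tC74_eH1⟩, ⟨.inr rfl, .inl tC74_nueH⟩, Bool.forall_bool.2 ⟨tC74_pL0, tC74_pL1⟩, ⟨.inr rfl, .inr rfl⟩, Bool.forall_bool.2 ⟨tC74_pU0, tC74_pU1⟩, ⟨.inr rfl, .inr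 rfl⟩, Bool.forall_bool.2 ⟨tC74_kU0, tC74_kU1⟩, ⟨.inr rfl, .inr rfl⟩, Bool.forall_bool.2 ⟨tC74_kL0, tC74_kL1⟩, ⟨.inr rfl, .inr rfl⟩, Bool.forall_bool.2 ⟨tC74_wU0, tC74_wU1⟩, ⟨.inr rfl, .inr rfl⟩, Bool.forall_bool.2 ⟨tC74_wL0, tC74_wL1⟩, ⟨.inr rfl, .inl tC74_nuwL⟩⟩

def tC74_pU20 : PosD ⟨⟨0, 1, 1⟩, ⟨98, 99, 147⟩, ⟨9258, 9630, 30000⟩, ⟨1488, 1510, 1000⟩⟩ (({ tC74 with pU := tC74PU } : Piece).hPU false) :=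
  posD_of_check (c := ⟨352, ⟨5, 6, 11, 7⟩⟩) (by decide +kernel)

def tC74_pU21 : PosD ⟨⟨0, 1, 1⟩, ⟨98, 99, 147⟩, ⟨9258, 9630, 30000⟩, ⟨1488, 1510, 1000⟩⟩ (({ tC74 with pU := tC74PU } : Piece).hPU true) :=
  posD_of_check (c := ⟨406, ⟨5, 10, 12, 9⟩⟩) (by decide +kernel)

def tC74_nupU2 : PosD ⟨⟨0, 1, 1⟩, ⟨98, 99, 147⟩, ⟨9258, 9630, 30000⟩, ⟨1488, 1510, 1000⟩⟩ (tC74PU.ν) :=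
  posD_of_check (c := ⟨51, ⟨0, 0, 1, 1⟩⟩) (by decide +kernel)

/-- The bounds with the other bound of `p`. -/
def tC74_envU : ({ tC74 with pU := tC74PU } : Piece).Env ⟨⟨0, 1, 1⟩, ⟨98, 99, 147⟩, ⟨9258, 9630, 30000⟩, ⟨1488, 1510, 1000⟩⟩ :=
  tC74_env.withU tC74PU (Bool.forall_bool.2 ⟨tC74_pU20, tC74_pU21⟩) ⟨.inr rfl, .inl tC74_nupU2⟩

def tC74A_pp : PosD ⟨⟨0, 1, 1⟩, ⟨98, 99, 147⟩, ⟨9258, 9630, 30000⟩, ⟨1488, 1510, 1000⟩⟩ (tC74A.xPL) :=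
  posD_of_check (c := ⟨102, ⟨1, 1, 3, 3⟩⟩) (by decide +kernel)

def tC74A_k2p : PosD ⟨⟨0, 1, 1⟩, ⟨98, 99, 147⟩, ⟨9258, 9630, 30000⟩, ⟨1488, 1510, 1000⟩⟩ (tC74A.k2p tC74A.xE) :=
  posD_of_check (c := ⟨76, ⟨1, 1, 2, 2⟩⟩) (by decide +kernel)

def tC74A_k2m : PosD ⟨⟨0, 1, 1⟩, ⟨98, 99, 147⟩, ⟨9258, 9630, 30000⟩, ⟨1488, 1510, 1000⟩⟩ (tC74A.k2m tC74A.xE) :=
  posD_of_check (c := ⟨31, ⟨0, 0, 1, 1⟩⟩) (by decide +kernel)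

def tC74A_v2p : PosD ⟨⟨0, 1, 1⟩, ⟨98, 99, 147⟩, ⟨9258, 9630, 30000⟩, ⟨1488, 1510, 1000⟩⟩ (tC74A.hV2p) :=
  posD_of_check (c := ⟨278, ⟨1, 6, 10, 5⟩⟩) (by decide +kernel)

def tC74A_v2m : PosD ⟨⟨0, 1, 1⟩, ⟨98, 99, 147⟩, ⟨9258, 9630, 30000⟩, ⟨1488, 1510, 1000⟩⟩ (tC74A.hV2m) :=
  posD_of_check (c := ⟨245, ⟨0, 5, 10, 4⟩⟩) (by decide +kernel)

def tC74A_v3p : PosD ⟨⟨0, 1, 1⟩, ⟨98, 99, 147⟩, ⟨9258, 9630, 30000⟩, ⟨1488, 1510, 1000⟩⟩ (tC74A.hV3p) :=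
  posD_of_check (c := ⟨262, ⟨1, 6, 9, 5⟩⟩) (by decide +kernel)

def tC74A_v3m : PosD ⟨⟨0, 1, 1⟩, ⟨98, 99, 147⟩, ⟨9258, 9630, 30000⟩, ⟨1488, 1510, 1000⟩⟩ (tC74A.hV3m) :=
  posD_of_check (c := ⟨232, ⟨0, 5, 9, 4⟩⟩) (by decide +kernel)

def tC74A_kap0 : PosD ⟨⟨0, 1, 1⟩, ⟨98, 99, 147⟩, ⟨9258, 9630, 30000⟩, ⟨1488, 1510, 1000⟩⟩ (tC74A.kap false) :=
  posD_of_check (c := ⟨75, ⟨1, 1, 2, 2⟩⟩) (by decide +kernel)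

def tC74A_c10 : PosD ⟨⟨0, 1, 1⟩, ⟨98, 99, 147⟩, ⟨9258, 9630, 30000⟩, ⟨1488, 1510, 1000⟩⟩ (tC74A.hC1 false) :=
  posD_of_check (c := ⟨288, ⟨3, 5, 9, 7⟩⟩) (by decide +kernel)

def tC74A_c1h0 : PosD ⟨⟨0, 1, 1⟩, ⟨98, 99, 147⟩, ⟨9258, 9630, 30000⟩, ⟨1488, 1510, 1000⟩⟩ (tC74A.hC1' false) :=
  posD_of_relax (k₁ := 0) (k₂ := 0) (k₃ := 91) (n := 16) (posD_of_check (c := ⟨288, ⟨3, 5, 9, 7⟩⟩) (by decide +kernel))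

def tC74A_tg00 : PosD ⟨⟨0, 1, 1⟩, ⟨98, 99, 147⟩, ⟨9258, 9630, 30000⟩, ⟨1488, 1510, 1000⟩⟩ (tC74A.hG false (tC74A.pEnd false)) :=
  posD_of_check (c := ⟨401, ⟨2, 7, 14, 9⟩⟩) (by decide +kernel)

def tC74A_c2p00 : PosD ⟨⟨0, 1, 1⟩, ⟨98, 99, 147⟩, ⟨9258, 9630, 30000⟩, ⟨1488, 1510, 1000⟩⟩ (tC74A.hC2p false (tC74A.pEnd false)) :=
  posD_of_check (c := ⟨477, ⟨3, 8, 16, 11⟩⟩) (by decide +kernel)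

def tC74A_c2m00 : PosD ⟨⟨0, 1, 1⟩, ⟨98, 99, 147⟩, ⟨9258, 9630, 30000⟩, ⟨1488, 1510, 1000⟩⟩ (tC74A.hC2m false (tC74A.pEnd false)) :=
  posD_of_check (c := ⟨445, ⟨2, 7, 16, 10⟩⟩) (by decide +kernel)

def tC74A_c3p00 : PosD ⟨⟨0, 1, 1⟩, ⟨98, 99, 147⟩, ⟨9258, 9630, 30000⟩, ⟨1488, 1510, 1000⟩⟩ (tC74A.hC3p false false) :=
  posD_of_check (c := ⟨462, ⟨3, 8, 15, 11⟩⟩) (by decide +kernel)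

def tC74A_c3m00 : PosD ⟨⟨0, 1, 1⟩, ⟨98, 99, 147⟩, ⟨9258, 9630, 30000⟩, ⟨1488, 1510, 1000⟩⟩ (tC74A.hC3m false false) :=
  posD_of_check (c := ⟨435, ⟨3, 7, 15, 10⟩⟩) (by decide +kernel)

def tC74A_c3ph00 : PosD ⟨⟨0, 1, 1⟩, ⟨98, 99, 147⟩, ⟨9258, 9630, 30000⟩, ⟨1488, 1510, 1000⟩⟩ (tC74A.hC3p' false false) :=
  posD_of_check (c := ⟨462, ⟨3, 8, 15, 11⟩⟩) (by decide +kernel)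

def tC74A_c3mh00 : PosD ⟨⟨0, 1, 1⟩, ⟨98, 99, 147⟩, ⟨9258, 9630, 30000⟩, ⟨1488, 1510, 1000⟩⟩ (tC74A.hC3m' false false) :=
  posD_of_check (c := ⟨435, ⟨3, 7, 15, 10⟩⟩) (by decide +kernel)

def tC74A_up00 : PosD ⟨⟨0, 1, 1⟩, ⟨98, 99, 147⟩, ⟨9258, 9630, 30000⟩, ⟨1488, 1510, 1000⟩⟩ (tC74A.hUp false false) :=
  posD_of_check (c := ⟨462, ⟨3, 8, 15, 11⟩⟩) (by decide +kernel)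

def tC74A_um00 : PosD ⟨⟨0, 1, 1⟩, ⟨98, 99, 147⟩, ⟨9258, 9630, 30000⟩, ⟨1488, 1510, 1000⟩⟩ (tC74A.hUm false false) :=
  posD_of_check (c := ⟨432, ⟨2, 7, 15, 10⟩⟩) (by decide +kernel)

def tC74A_tmg00 : PosD ⟨⟨0, 1, 1⟩, ⟨98, 99, 147⟩, ⟨9258, 9630, 30000⟩, ⟨1488, 1510, 1000⟩⟩ (tC74A.hTMG false (tC74A.pEnd false)) :=
  posD_of_check (c := ⟨414, ⟨2, 7, 14, 10⟩⟩) (by decide +kernel)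

def tC74A_tg01 : PosD ⟨⟨0, 1, 1⟩, ⟨98, 99, 147⟩, ⟨9258, 9630, 30000⟩, ⟨1488, 1510, 1000⟩⟩ (tC74A.hG true (tC74A.pEnd false)) :=
  posD_of_check (c := ⟨401, ⟨2, 7, 14, 9⟩⟩) (by decide +kernel)

def tC74A_c2p01 : PosD ⟨⟨0, 1, 1⟩, ⟨98, 99, 147⟩, ⟨9258, 9630, 30000⟩, ⟨1488, 1510, 1000⟩⟩ (tC74A.hC2p true (tC74A.pEnd false)) :=
  posD_of_check (c := ⟨477, ⟨3, 8, 16, 11⟩⟩) (by decide +kernel)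

def tC74A_c2m01 : PosD ⟨⟨0, 1, 1⟩, ⟨98, 99, 147⟩, ⟨9258, 9630, 30000⟩, ⟨1488, 1510, 1000⟩⟩ (tC74A.hC2m true (tC74A.pEnd false)) :=
  posD_of_check (c := ⟨445, ⟨2, 7, 16, 10⟩⟩) (by decide +kernel)

def tC74A_c3p01 : PosD ⟨⟨0, 1, 1⟩, ⟨98, 99, 147⟩, ⟨9258, 9630, 30000⟩, ⟨1488, 1510, 1000⟩⟩ (tC74A.hC3p false true) :=
  posD_of_check (c := ⟨462, ⟨3, 8, 15, 11⟩⟩) (by decide +kernel)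

def tC74A_c3m01 : PosD ⟨⟨0, 1, 1⟩, ⟨98, 99, 147⟩, ⟨9258, 9630, 30000⟩, ⟨1488, 1510, 1000⟩⟩ (tC74A.hC3m false true) :=
  posD_of_check (c := ⟨435, ⟨3, 7, 15, 10⟩⟩) (by decide +kernel)

def tC74A_c3ph01 : PosD ⟨⟨0, 1, 1⟩, ⟨98, 99, 147⟩, ⟨9258, 9630, 30000⟩, ⟨1488, 1510, 1000⟩⟩ (tC74A.hC3p' false true) :=
  posD_of_check (c := ⟨462, ⟨3, 8, 15, 11⟩⟩) (by decide +kernel)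

def tC74A_c3mh01 : PosD ⟨⟨0, 1, 1⟩, ⟨98, 99, 147⟩, ⟨9258, 9630, 30000⟩, ⟨1488, 1510, 1000⟩⟩ (tC74A.hC3m' false true) :=
  posD_of_check (c := ⟨435, ⟨3, 7, 15, 10⟩⟩) (by decide +kernel)

def tC74A_up01 : PosD ⟨⟨0, 1, 1⟩, ⟨98, 99, 147⟩, ⟨9258, 9630, 30000⟩, ⟨1488, 1510, 1000⟩⟩ (tC74A.hUp false true) :=
  posD_of_check (c := ⟨462, ⟨3, 8, 15, 11⟩⟩) (by decide +kernel)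

def tC74A_um01 : PosD ⟨⟨0, 1, 1⟩, ⟨98, 99, 147⟩, ⟨9258, 9630, 30000⟩, ⟨1488, 1510, 1000⟩⟩ (tC74A.hUm false true) :=
  posD_of_check (c := ⟨432, ⟨2, 7, 15, 10⟩⟩) (by decide +kernel)

def tC74A_tmg01 : PosD ⟨⟨0, 1, 1⟩, ⟨98, 99, 147⟩, ⟨9258, 9630, 30000⟩, ⟨1488, 1510, 1000⟩⟩ (tC74A.hTMG true (tC74A.pEnd false)) :=
  posD_of_check (c := ⟨414, ⟨2, 7, 14, 10⟩⟩) (by decide +kernel)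

def tC74A_kap1 : PosD ⟨⟨0, 1, 1⟩, ⟨98, 99, 147⟩, ⟨9258, 9630, 30000⟩, ⟨1488, 1510, 1000⟩⟩ (tC74A.kap true) :=
  posD_of_check (c := ⟨75, ⟨1, 1, 2, 2⟩⟩) (by decide +kernel)

def tC74A_c11 : PosD ⟨⟨0, 1, 1⟩, ⟨98, 99, 147⟩, ⟨9258, 9630, 30000⟩, ⟨1488, 1510, 1000⟩⟩ (tC74A.hC1 true) :=
  posD_of_check (c := ⟨286, ⟨3, 5, 9, 7⟩⟩) (by decide +kernel)

def tC74A_c1h1 : PosD ⟨⟨0, 1, 1⟩, ⟨98, 99, 147⟩, ⟨9258, 9630, 30000⟩, ⟨1488, 1510, 1000⟩⟩ (tC74A.hC1' true) :=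
  posD_of_relax (k₁ := 0) (k₂ := 0) (k₃ := 62) (n := 16) (posD_of_check (c := ⟨286, ⟨3, 5, 9, 7⟩⟩) (by decide +kernel))

def tC74A_tg10 : PosD ⟨⟨0, 1, 1⟩, ⟨98, 99, 147⟩, ⟨9258, 9630, 30000⟩, ⟨1488, 1510, 1000⟩⟩ (tC74A.hG false (tC74A.pEnd true)) :=
  posD_of_check (c := ⟨397, ⟨2, 7, 14, 9⟩⟩) (by decide +kernel)

def tC74A_c2p10 : PosD ⟨⟨0, 1, 1⟩, ⟨98, 99, 147⟩, ⟨9258, 9630, 30000⟩, ⟨1488, 1510, 1000⟩⟩ (tC74A.hC2p false (tC74A.pEnd true)) :=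
  posD_of_check (c := ⟨473, ⟨3, 8, 16, 11⟩⟩) (by decide +kernel)

def tC74A_c2m10 : PosD ⟨⟨0, 1, 1⟩, ⟨98, 99, 147⟩, ⟨9258, 9630, 30000⟩, ⟨1488, 1510, 1000⟩⟩ (tC74A.hC2m false (tC74A.pEnd true)) :=
  posD_of_check (c := ⟨441, ⟨2, 7, 16, 10⟩⟩) (by decide +kernel)

def tC74A_c3p10 : PosD ⟨⟨0, 1, 1⟩, ⟨98, 99, 147⟩, ⟨9258, 9630, 30000⟩, ⟨1488, 1510, 1000⟩⟩ (tC74A.hC3p true false) :=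
  posD_of_check (c := ⟨458, ⟨3, 8, 15, 11⟩⟩) (by decide +kernel)

def tC74A_c3m10 : PosD ⟨⟨0, 1, 1⟩, ⟨98, 99, 147⟩, ⟨9258, 9630, 30000⟩, ⟨1488, 1510, 1000⟩⟩ (tC74A.hC3m true false) :=
  posD_of_check (c := ⟨433, ⟨3, 7, 15, 10⟩⟩) (by decide +kernel)

def tC74A_c3ph10 : PosD ⟨⟨0, 1, 1⟩, ⟨98, 99, 147⟩, ⟨9258, 9630, 30000⟩, ⟨1488, 1510, 1000⟩⟩ (tC74A.hC3p' true false) :=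
  posD_of_relax (k₁ := 0) (k₂ := 0) (k₃ := 1) (n := 16) (posD_of_check (c := ⟨458, ⟨3, 8, 15, 11⟩⟩) (by decide +kernel))

def tC74A_c3mh10 : PosD ⟨⟨0, 1, 1⟩, ⟨98, 99, 147⟩, ⟨9258, 9630, 30000⟩, ⟨1488, 1510, 1000⟩⟩ (tC74A.hC3m' true false) :=
  posD_of_check (c := ⟨433, ⟨3, 7, 15, 10⟩⟩) (by decide +kernel)

def tC74A_up10 : PosD ⟨⟨0, 1, 1⟩, ⟨98, 99, 147⟩, ⟨9258, 9630, 30000⟩, ⟨1488, 1510, 1000⟩⟩ (tC74A.hUp true false) :=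
  posD_of_check (c := ⟨458, ⟨3, 8, 15, 11⟩⟩) (by decide +kernel)

def tC74A_um10 : PosD ⟨⟨0, 1, 1⟩, ⟨98, 99, 147⟩, ⟨9258, 9630, 30000⟩, ⟨1488, 1510, 1000⟩⟩ (tC74A.hUm true false) :=
  posD_of_check (c := ⟨428, ⟨2, 7, 15, 10⟩⟩) (by decide +kernel)

def tC74A_tmg10 : PosD ⟨⟨0, 1, 1⟩, ⟨98, 99, 147⟩, ⟨9258, 9630, 30000⟩, ⟨1488, 1510, 1000⟩⟩ (tC74A.hTMG false (tC74A.pEnd true)) :=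
  posD_of_check (c := ⟨410, ⟨2, 7, 14, 10⟩⟩) (by decide +kernel)

def tC74A_tg11 : PosD ⟨⟨0, 1, 1⟩, ⟨98, 99, 147⟩, ⟨9258, 9630, 30000⟩, ⟨1488, 1510, 1000⟩⟩ (tC74A.hG true (tC74A.pEnd true)) :=
  posD_of_check (c := ⟨397, ⟨2, 7, 14, 9⟩⟩) (by decide +kernel)

def tC74A_c2p11 : PosD ⟨⟨0, 1, 1⟩, ⟨98, 99, 147⟩, ⟨9258, 9630, 30000⟩, ⟨1488, 1510, 1000⟩⟩ (tC74A.hC2p true (tC74A.pEnd true)) :=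
  posD_of_check (c := ⟨473, ⟨3, 8, 16, 11⟩⟩) (by decide +kernel)

def tC74A_c2m11 : PosD ⟨⟨0, 1, 1⟩, ⟨98, 99, 147⟩, ⟨9258, 9630, 30000⟩, ⟨1488, 1510, 1000⟩⟩ (tC74A.hC2m true (tC74A.pEnd true)) :=
  posD_of_check (c := ⟨441, ⟨2, 7, 16, 10⟩⟩) (by decide +kernel)

def tC74A_c3p11 : PosD ⟨⟨0, 1, 1⟩, ⟨98, 99, 147⟩, ⟨9258, 9630, 30000⟩, ⟨1488, 1510, 1000⟩⟩ (tC74A.hC3p true true) :=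
  posD_of_check (c := ⟨458, ⟨3, 8, 15, 11⟩⟩) (by decide +kernel)

def tC74A_c3m11 : PosD ⟨⟨0, 1, 1⟩, ⟨98, 99, 147⟩, ⟨9258, 9630, 30000⟩, ⟨1488, 1510, 1000⟩⟩ (tC74A.hC3m true true) :=
  posD_of_check (c := ⟨433, ⟨3, 7, 15, 10⟩⟩) (by decide +kernel)

def tC74A_c3ph11 : PosD ⟨⟨0, 1, 1⟩, ⟨98, 99, 147⟩, ⟨9258, 9630, 30000⟩, ⟨1488, 1510, 1000⟩⟩ (tC74A.hC3p' true true) :=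
  posD_of_check (c := ⟨458, ⟨3, 8, 15, 11⟩⟩) (by decide +kernel)

def tC74A_c3mh11 : PosD ⟨⟨0, 1, 1⟩, ⟨98, 99, 147⟩, ⟨9258, 9630, 30000⟩, ⟨1488, 1510, 1000⟩⟩ (tC74A.hC3m' true true) :=
  posD_of_check (c := ⟨433, ⟨3, 7, 15, 10⟩⟩) (by decide +kernel)

def tC74A_up11 : PosD ⟨⟨0, 1, 1⟩, ⟨98, 99, 147⟩, ⟨9258, 9630, 30000⟩, ⟨1488, 1510, 1000⟩⟩ (tC74A.hUp true true) :=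
  posD_of_check (c := ⟨458, ⟨3, 8, 15, 11⟩⟩) (by decide +kernel)

def tC74A_um11 : PosD ⟨⟨0, 1, 1⟩, ⟨98, 99, 147⟩, ⟨9258, 9630, 30000⟩, ⟨1488, 1510, 1000⟩⟩ (tC74A.hUm true true) :=
  posD_of_check (c := ⟨428, ⟨2, 7, 15, 10⟩⟩) (by decide +kernel)

def tC74A_tmg11 : PosD ⟨⟨0, 1, 1⟩, ⟨98, 99, 147⟩, ⟨9258, 9630, 30000⟩, ⟨1488, 1510, 1000⟩⟩ (tC74A.hTMG true (tC74A.pEnd true)) :=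
  posD_of_check (c := ⟨410, ⟨2, 7, 14, 10⟩⟩) (by decide +kernel)

/-- The signs of the piece. -/
def tC74A_sign : tC74A.Sign ⟨⟨0, 1, 1⟩, ⟨98, 99, 147⟩, ⟨9258, 9630, 30000⟩, ⟨1488, 1510, 1000⟩⟩ :=
  ⟨tC74A_pp,
    tC74A_k2p,
    tC74A_k2m,
    Bool.forall_bool.2 ⟨(Bool.forall_bool.2 ⟨tC74A_tg00, tC74A_tg01⟩), (Bool.forall_bool.2 ⟨tC74A_tg10, tC74A_tg11⟩)⟩,
    Bool.forall_bool.2 ⟨(Bool.forall_bool.2 ⟨tC74A_c2p00, tC74A_c2p01⟩), (Bool.forall_bool.2 ⟨tC74A_c2p10, tC74A_c2p11⟩)⟩,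
    Bool.forall_bool.2 ⟨(Bool.forall_bool.2 ⟨tC74A_c2m00, tC74A_c2m01⟩), (Bool.forall_bool.2 ⟨tC74A_c2m10, tC74A_c2m11⟩)⟩,
    Bool.forall_bool.2 ⟨tC74A_kap0, tC74A_kap1⟩,
    Bool.forall_bool.2 ⟨tC74A_c10, tC74A_c11⟩,
    Bool.forall_bool.2 ⟨(Bool.forall_bool.2 ⟨tC74A_c3p00, tC74A_c3p01⟩), (Bool.forall_bool.2 ⟨tC74A_c3p10, tC74A_c3p11⟩)⟩,
    Bool.forall_bool.2 ⟨(Bool.forall_bool.2 ⟨tC74A_c3m00, tC74A_c3m01⟩), (Bool.forall_bool.2 ⟨tC74A_c3m10, tC74A_c3m11⟩)⟩,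
    Bool.forall_bool.2 ⟨(Bool.forall_bool.2 ⟨tC74A_tmg00, tC74A_tmg01⟩), (Bool.forall_bool.2 ⟨tC74A_tmg10, tC74A_tmg11⟩)⟩,
    .inr (Bool.forall_bool.2 ⟨⟨tC74A_c1h0, Bool.forall_bool.2 ⟨⟨tC74A_c3ph00, tC74A_c3mh00, tC74A_up00, tC74A_um00⟩, ⟨tC74A_c3ph01, tC74A_c3mh01, tC74A_up01, tC74A_um01⟩⟩⟩, ⟨tC74A_c1h1, Bool.forall_bool.2 ⟨⟨tC74A_c3ph10, tC74A_c3mh10, tC74A_up10, tC74A_um10⟩, ⟨tC74A_c3ph11, tC74A_c3mh11, tC74A_up11, tC74A_um11⟩⟩⟩⟩),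
    tC74A_v2p,
    tC74A_v2m,
    tC74A_v3p,
    tC74A_v3m,
    posD_sub (b := ⟨⟨0, 1, 1⟩, ⟨98, 99, 147⟩, ⟨4050, 10000, 30000⟩, ⟨290, 4000, 1000⟩⟩) (by decide +kernel) tC_vG,
    posD_sub (b := ⟨⟨0, 1, 1⟩, ⟨98, 99, 147⟩, ⟨4050, 10000, 30000⟩, ⟨290, 4000, 1000⟩⟩) (by decide +kernel) tC_vMG,
    posD_sub (b := ⟨⟨0, 1, 1⟩, ⟨98, 99, 147⟩, ⟨4050, 10000, 30000⟩, ⟨290, 4000, 1000⟩⟩) (by decide +kernel) tC_ak,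
    posD_sub (b := ⟨⟨0, 1, 1⟩, ⟨98, 99, 147⟩, ⟨4050, 10000, 30000⟩, ⟨290, 4000, 1000⟩⟩) (by decide +kernel) tC_aw,
    posD_sub (b := ⟨⟨0, 1, 1⟩, ⟨98, 99, 147⟩, ⟨4050, 10000, 30000⟩, ⟨290, 4000, 1000⟩⟩) (by decide +kernel) tC_gk,
    posD_sub (b := ⟨⟨0, 1, 1⟩, ⟨98, 99, 147⟩, ⟨4050, 10000, 30000⟩, ⟨290, 4000, 1000⟩⟩) (by decide +kernel) tC_gw,
    posD_sub (b := ⟨⟨0, 1, 1⟩, ⟨98, 99, 147⟩, ⟨4050, 10000, 30000⟩, ⟨290, 4000, 1000⟩⟩) (by decide +kernel) tC_ek,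
    posD_sub (b := ⟨⟨0, 1, 1⟩, ⟨98, 99, 147⟩, ⟨4050, 10000, 30000⟩, ⟨290, 4000, 1000⟩⟩) (by decide +kernel) tC_ew⟩

def tC74B_pp : PosD ⟨⟨0, 1, 1⟩, ⟨98, 99, 147⟩, ⟨9258, 9630, 30000⟩, ⟨1488, 1510, 1000⟩⟩ (tC74B.xPL) :=
  posD_of_check (c := ⟨100, ⟨1, 1, 3, 3⟩⟩) (by decide +kernel)

def tC74B_k2p : PosD ⟨⟨0, 1, 1⟩, ⟨98, 99, 147⟩, ⟨9258, 9630, 30000⟩, ⟨1488, 1510, 1000⟩⟩ (tC74B.k2p tC74B.xE) :=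
  posD_of_check (c := ⟨73, ⟨1, 1, 2, 2⟩⟩) (by decide +kernel)

def tC74B_k2m : PosD ⟨⟨0, 1, 1⟩, ⟨98, 99, 147⟩, ⟨9258, 9630, 30000⟩, ⟨1488, 1510, 1000⟩⟩ (tC74B.k2m tC74B.xE) :=
  posD_of_check (c := ⟨31, ⟨0, 0, 1, 1⟩⟩) (by decide +kernel)

def tC74B_v2p : PosD ⟨⟨0, 1, 1⟩, ⟨98, 99, 147⟩, ⟨9258, 9630, 30000⟩, ⟨1488, 1510, 1000⟩⟩ (tC74B.hV2p) :=
  posD_of_check (c := ⟨275, ⟨1, 6, 10, 5⟩⟩) (by decide +kernel)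

def tC74B_v2m : PosD ⟨⟨0, 1, 1⟩, ⟨98, 99, 147⟩, ⟨9258, 9630, 30000⟩, ⟨1488, 1510, 1000⟩⟩ (tC74B.hV2m) :=
  posD_of_check (c := ⟨245, ⟨0, 5, 10, 4⟩⟩) (by decide +kernel)

def tC74B_v3p : PosD ⟨⟨0, 1, 1⟩, ⟨98, 99, 147⟩, ⟨9258, 9630, 30000⟩, ⟨1488, 1510, 1000⟩⟩ (tC74B.hV3p) :=
  posD_of_check (c := ⟨259, ⟨1, 6, 9, 5⟩⟩) (by decide +kernel)

def tC74B_v3m : PosD ⟨⟨0, 1, 1⟩, ⟨98, 99, 147⟩, ⟨9258, 9630, 30000⟩, ⟨1488, 1510, 1000⟩⟩ (tC74B.hV3m) :=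
  posD_of_check (c := ⟨232, ⟨0, 5, 9, 4⟩⟩) (by decide +kernel)

def tC74B_kap0 : PosD ⟨⟨0, 1, 1⟩, ⟨98, 99, 147⟩, ⟨9258, 9630, 30000⟩, ⟨1488, 1510, 1000⟩⟩ (tC74B.kap false) :=
  posD_of_check (c := ⟨72, ⟨1, 1, 2, 2⟩⟩) (by decide +kernel)

def tC74B_c10 : PosD ⟨⟨0, 1, 1⟩, ⟨98, 99, 147⟩, ⟨9258, 9630, 30000⟩, ⟨1488, 1510, 1000⟩⟩ (tC74B.hC1 false) :=
  posD_of_check (c := ⟨280, ⟨3, 5, 9, 7⟩⟩) (by decide +kernel)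

def tC74B_c1h0 : PosD ⟨⟨0, 1, 1⟩, ⟨98, 99, 147⟩, ⟨9258, 9630, 30000⟩, ⟨1488, 1510, 1000⟩⟩ (tC74B.hC1' false) :=
  posD_of_relax (k₁ := 0) (k₂ := 0) (k₃ := 100) (n := 16) (posD_of_check (c := ⟨280, ⟨3, 5, 9, 7⟩⟩) (by decide +kernel))

def tC74B_tg00 : PosD ⟨⟨0, 1, 1⟩, ⟨98, 99, 147⟩, ⟨9258, 9630, 30000⟩, ⟨1488, 1510, 1000⟩⟩ (tC74B.hG false (tC74B.pEnd false)) :=
  posD_of_check (c := ⟨396, ⟨2, 7, 14, 9⟩⟩) (by decide +kernel)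

def tC74B_c2p00 : PosD ⟨⟨0, 1, 1⟩, ⟨98, 99, 147⟩, ⟨9258, 9630, 30000⟩, ⟨1488, 1510, 1000⟩⟩ (tC74B.hC2p false (tC74B.pEnd false)) :=
  posD_of_check (c := ⟨469, ⟨3, 8, 16, 11⟩⟩) (by decide +kernel)

def tC74B_c2m00 : PosD ⟨⟨0, 1, 1⟩, ⟨98, 99, 147⟩, ⟨9258, 9630, 30000⟩, ⟨1488, 1510, 1000⟩⟩ (tC74B.hC2m false (tC74B.pEnd false)) :=
  posD_of_check (c := ⟨440, ⟨2, 7, 16, 10⟩⟩) (by decide +kernel)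

def tC74B_c3p00 : PosD ⟨⟨0, 1, 1⟩, ⟨98, 99, 147⟩, ⟨9258, 9630, 30000⟩, ⟨1488, 1510, 1000⟩⟩ (tC74B.hC3p false false) :=
  posD_of_check (c := ⟨454, ⟨3, 8, 15, 11⟩⟩) (by decide +kernel)

def tC74B_c3m00 : PosD ⟨⟨0, 1, 1⟩, ⟨98, 99, 147⟩, ⟨9258, 9630, 30000⟩, ⟨1488, 1510, 1000⟩⟩ (tC74B.hC3m false false) :=
  posD_of_check (c := ⟨429, ⟨3, 7, 15, 10⟩⟩) (by decide +kernel)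

def tC74B_c3ph00 : PosD ⟨⟨0, 1, 1⟩, ⟨98, 99, 147⟩, ⟨9258, 9630, 30000⟩, ⟨1488, 1510, 1000⟩⟩ (tC74B.hC3p' false false) :=
  posD_of_check (c := ⟨454, ⟨3, 8, 15, 11⟩⟩) (by decide +kernel)

def tC74B_c3mh00 : PosD ⟨⟨0, 1, 1⟩, ⟨98, 99, 147⟩, ⟨9258, 9630, 30000⟩, ⟨1488, 1510, 1000⟩⟩ (tC74B.hC3m' false false) :=
  posD_of_check (c := ⟨429, ⟨3, 7, 15, 10⟩⟩) (by decide +kernel)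

def tC74B_up00 : PosD ⟨⟨0, 1, 1⟩, ⟨98, 99, 147⟩, ⟨9258, 9630, 30000⟩, ⟨1488, 1510, 1000⟩⟩ (tC74B.hUp false false) :=
  posD_of_check (c := ⟨454, ⟨3, 8, 15, 11⟩⟩) (by decide +kernel)

def tC74B_um00 : PosD ⟨⟨0, 1, 1⟩, ⟨98, 99, 147⟩, ⟨9258, 9630, 30000⟩, ⟨1488, 1510, 1000⟩⟩ (tC74B.hUm false false) :=
  posD_of_check (c := ⟨427, ⟨2, 7, 15, 10⟩⟩) (by decide +kernel)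

def tC74B_tmg00 : PosD ⟨⟨0, 1, 1⟩, ⟨98, 99, 147⟩, ⟨9258, 9630, 30000⟩, ⟨1488, 1510, 1000⟩⟩ (tC74B.hTMG false (tC74B.pEnd false)) :=
  posD_of_check (c := ⟨409, ⟨2, 7, 14, 10⟩⟩) (by decide +kernel)

def tC74B_tg01 : PosD ⟨⟨0, 1, 1⟩, ⟨98, 99, 147⟩, ⟨9258, 9630, 30000⟩, ⟨1488, 1510, 1000⟩⟩ (tC74B.hG true (tC74B.pEnd false)) :=
  posD_of_check (c := ⟨396, ⟨2, 7, 14, 9⟩⟩) (by decide +kernel)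

def tC74B_c2p01 : PosD ⟨⟨0, 1, 1⟩, ⟨98, 99, 147⟩, ⟨9258, 9630, 30000⟩, ⟨1488, 1510, 1000⟩⟩ (tC74B.hC2p true (tC74B.pEnd false)) :=
  posD_of_check (c := ⟨469, ⟨3, 8, 16, 11⟩⟩) (by decide +kernel)

def tC74B_c2m01 : PosD ⟨⟨0, 1, 1⟩, ⟨98, 99, 147⟩, ⟨9258, 9630, 30000⟩, ⟨1488, 1510, 1000⟩⟩ (tC74B.hC2m true (tC74B.pEnd false)) :=
  posD_of_check (c := ⟨440, ⟨2, 7, 16, 10⟩⟩) (by decide +kernel)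

def tC74B_c3p01 : PosD ⟨⟨0, 1, 1⟩, ⟨98, 99, 147⟩, ⟨9258, 9630, 30000⟩, ⟨1488, 1510, 1000⟩⟩ (tC74B.hC3p false true) :=
  posD_of_check (c := ⟨454, ⟨3, 8, 15, 11⟩⟩) (by decide +kernel)

def tC74B_c3m01 : PosD ⟨⟨0, 1, 1⟩, ⟨98, 99, 147⟩, ⟨9258, 9630, 30000⟩, ⟨1488, 1510, 1000⟩⟩ (tC74B.hC3m false true) :=
  posD_of_check (c := ⟨429, ⟨3, 7, 15, 10⟩⟩) (by decide +kernel)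

def tC74B_c3ph01 : PosD ⟨⟨0, 1, 1⟩, ⟨98, 99, 147⟩, ⟨9258, 9630, 30000⟩, ⟨1488, 1510, 1000⟩⟩ (tC74B.hC3p' false true) :=
  posD_of_check (c := ⟨454, ⟨3, 8, 15, 11⟩⟩) (by decide +kernel)

def tC74B_c3mh01 : PosD ⟨⟨0, 1, 1⟩, ⟨98, 99, 147⟩, ⟨9258, 9630, 30000⟩, ⟨1488, 1510, 1000⟩⟩ (tC74B.hC3m' false true) :=
  posD_of_check (c := ⟨429, ⟨3, 7, 15, 10⟩⟩) (by decide +kernel)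

def tC74B_up01 : PosD ⟨⟨0, 1, 1⟩, ⟨98, 99, 147⟩, ⟨9258, 9630, 30000⟩, ⟨1488, 1510, 1000⟩⟩ (tC74B.hUp false true) :=
  posD_of_check (c := ⟨454, ⟨3, 8, 15, 11⟩⟩) (by decide +kernel)

def tC74B_um01 : PosD ⟨⟨0, 1, 1⟩, ⟨98, 99, 147⟩, ⟨9258, 9630, 30000⟩, ⟨1488, 1510, 1000⟩⟩ (tC74B.hUm false true) :=
  posD_of_check (c := ⟨427, ⟨2, 7, 15, 10⟩⟩) (by decide +kernel)

def tC74B_tmg01 : PosD ⟨⟨0, 1, 1⟩, ⟨98, 99, 147⟩, ⟨9258, 9630, 30000⟩, ⟨1488, 1510, 1000⟩⟩ (tC74B.hTMG true (tC74B.pEnd false)) :=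
  posD_of_check (c := ⟨409, ⟨2, 7, 14, 10⟩⟩) (by decide +kernel)

def tC74B_kap1 : PosD ⟨⟨0, 1, 1⟩, ⟨98, 99, 147⟩, ⟨9258, 9630, 30000⟩, ⟨1488, 1510, 1000⟩⟩ (tC74B.kap true) :=
  posD_of_check (c := ⟨72, ⟨1, 1, 2, 2⟩⟩) (by decide +kernel)

def tC74B_c11 : PosD ⟨⟨0, 1, 1⟩, ⟨98, 99, 147⟩, ⟨9258, 9630, 30000⟩, ⟨1488, 1510, 1000⟩⟩ (tC74B.hC1 true) :=
  posD_of_check (c := ⟨275, ⟨3, 5, 9, 7⟩⟩) (by decide +kernel)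

def tC74B_c1h1 : PosD ⟨⟨0, 1, 1⟩, ⟨98, 99, 147⟩, ⟨9258, 9630, 30000⟩, ⟨1488, 1510, 1000⟩⟩ (tC74B.hC1' true) :=
  posD_of_relax (k₁ := 0) (k₂ := 0) (k₃ := 97) (n := 16) (posD_of_check (c := ⟨275, ⟨3, 5, 9, 7⟩⟩) (by decide +kernel))

def tC74B_tg10 : PosD ⟨⟨0, 1, 1⟩, ⟨98, 99, 147⟩, ⟨9258, 9630, 30000⟩, ⟨1488, 1510, 1000⟩⟩ (tC74B.hG false (tC74B.pEnd true)) :=
  posD_of_check (c := ⟨389, ⟨2, 7, 14, 9⟩⟩) (by decide +kernel)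

def tC74B_c2p10 : PosD ⟨⟨0, 1, 1⟩, ⟨98, 99, 147⟩, ⟨9258, 9630, 30000⟩, ⟨1488, 1510, 1000⟩⟩ (tC74B.hC2p false (tC74B.pEnd true)) :=
  posD_of_check (c := ⟨462, ⟨3, 8, 16, 11⟩⟩) (by decide +kernel)

def tC74B_c2m10 : PosD ⟨⟨0, 1, 1⟩, ⟨98, 99, 147⟩, ⟨9258, 9630, 30000⟩, ⟨1488, 1510, 1000⟩⟩ (tC74B.hC2m false (tC74B.pEnd true)) :=
  posD_of_check (c := ⟨433, ⟨2, 7, 16, 10⟩⟩) (by decide +kernel)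

def tC74B_c3p10 : PosD ⟨⟨0, 1, 1⟩, ⟨98, 99, 147⟩, ⟨9258, 9630, 30000⟩, ⟨1488, 1510, 1000⟩⟩ (tC74B.hC3p true false) :=
  posD_of_check (c := ⟨448, ⟨3, 8, 15, 11⟩⟩) (by decide +kernel)

def tC74B_c3m10 : PosD ⟨⟨0, 1, 1⟩, ⟨98, 99, 147⟩, ⟨9258, 9630, 30000⟩, ⟨1488, 1510, 1000⟩⟩ (tC74B.hC3m true false) :=
  posD_of_check (c := ⟨424, ⟨3, 7, 15, 10⟩⟩) (by decide +kernel)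

def tC74B_c3ph10 : PosD ⟨⟨0, 1, 1⟩, ⟨98, 99, 147⟩, ⟨9258, 9630, 30000⟩, ⟨1488, 1510, 1000⟩⟩ (tC74B.hC3p' true false) :=
  posD_of_relax (k₁ := 0) (k₂ := 0) (k₃ := 1) (n := 16) (posD_of_check (c := ⟨448, ⟨3, 8, 15, 11⟩⟩) (by decide +kernel))

def tC74B_c3mh10 : PosD ⟨⟨0, 1, 1⟩, ⟨98, 99, 147⟩, ⟨9258, 9630, 30000⟩, ⟨1488, 1510, 1000⟩⟩ (tC74B.hC3m' true false) :=
  posD_of_check (c := ⟨424, ⟨3, 7, 15, 10⟩⟩) (by decide +kernel)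

def tC74B_up10 : PosD ⟨⟨0, 1, 1⟩, ⟨98, 99, 147⟩, ⟨9258, 9630, 30000⟩, ⟨1488, 1510, 1000⟩⟩ (tC74B.hUp true false) :=
  posD_of_check (c := ⟨447, ⟨3, 8, 15, 11⟩⟩) (by decide +kernel)

def tC74B_um10 : PosD ⟨⟨0, 1, 1⟩, ⟨98, 99, 147⟩, ⟨9258, 9630, 30000⟩, ⟨1488, 1510, 1000⟩⟩ (tC74B.hUm true false) :=
  posD_of_check (c := ⟨420, ⟨2, 7, 15, 10⟩⟩) (by decide +kernel)

def tC74B_tmg10 : PosD ⟨⟨0, 1, 1⟩, ⟨98, 99, 147⟩, ⟨9258, 9630, 30000⟩, ⟨1488, 1510, 1000⟩⟩ (tC74B.hTMG false (tC74B.pEnd true)) :=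
  posD_of_check (c := ⟨404, ⟨2, 7, 14, 10⟩⟩) (by decide +kernel)

def tC74B_tg11 : PosD ⟨⟨0, 1, 1⟩, ⟨98, 99, 147⟩, ⟨9258, 9630, 30000⟩, ⟨1488, 1510, 1000⟩⟩ (tC74B.hG true (tC74B.pEnd true)) :=
  posD_of_check (c := ⟨389, ⟨2, 7, 14, 9⟩⟩) (by decide +kernel)

def tC74B_c2p11 : PosD ⟨⟨0, 1, 1⟩, ⟨98, 99, 147⟩, ⟨9258, 9630, 30000⟩, ⟨1488, 1510, 1000⟩⟩ (tC74B.hC2p true (tC74B.pEnd true)) :=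
  posD_of_check (c := ⟨462, ⟨3, 8, 16, 11⟩⟩) (by decide +kernel)

def tC74B_c2m11 : PosD ⟨⟨0, 1, 1⟩, ⟨98, 99, 147⟩, ⟨9258, 9630, 30000⟩, ⟨1488, 1510, 1000⟩⟩ (tC74B.hC2m true (tC74B.pEnd true)) :=
  posD_of_check (c := ⟨433, ⟨2, 7, 16, 10⟩⟩) (by decide +kernel)

def tC74B_c3p11 : PosD ⟨⟨0, 1, 1⟩, ⟨98, 99, 147⟩, ⟨9258, 9630, 30000⟩, ⟨1488, 1510, 1000⟩⟩ (tC74B.hC3p true true) :=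
  posD_of_check (c := ⟨448, ⟨3, 8, 15, 11⟩⟩) (by decide +kernel)

def tC74B_c3m11 : PosD ⟨⟨0, 1, 1⟩, ⟨98, 99, 147⟩, ⟨9258, 9630, 30000⟩, ⟨1488, 1510, 1000⟩⟩ (tC74B.hC3m true true) :=
  posD_of_check (c := ⟨424, ⟨3, 7, 15, 10⟩⟩) (by decide +kernel)

def tC74B_c3ph11 : PosD ⟨⟨0, 1, 1⟩, ⟨98, 99, 147⟩, ⟨9258, 9630, 30000⟩, ⟨1488, 1510, 1000⟩⟩ (tC74B.hC3p' true true) :=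
  posD_of_check (c := ⟨448, ⟨3, 8, 15, 11⟩⟩) (by decide +kernel)

def tC74B_c3mh11 : PosD ⟨⟨0, 1, 1⟩, ⟨98, 99, 147⟩, ⟨9258, 9630, 30000⟩, ⟨1488, 1510, 1000⟩⟩ (tC74B.hC3m' true true) :=
  posD_of_check (c := ⟨424, ⟨3, 7, 15, 10⟩⟩) (by decide +kernel)

def tC74B_up11 : PosD ⟨⟨0, 1, 1⟩, ⟨98, 99, 147⟩, ⟨9258, 9630, 30000⟩, ⟨1488, 1510, 1000⟩⟩ (tC74B.hUp true true) :=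
  posD_of_check (c := ⟨447, ⟨3, 8, 15, 11⟩⟩) (by decide +kernel)

def tC74B_um11 : PosD ⟨⟨0, 1, 1⟩, ⟨98, 99, 147⟩, ⟨9258, 9630, 30000⟩, ⟨1488, 1510, 1000⟩⟩ (tC74B.hUm true true) :=
  posD_of_check (c := ⟨420, ⟨2, 7, 15, 10⟩⟩) (by decide +kernel)

def tC74B_tmg11 : PosD ⟨⟨0, 1, 1⟩, ⟨98, 99, 147⟩, ⟨9258, 9630, 30000⟩, ⟨1488, 1510, 1000⟩⟩ (tC74B.hTMG true (tC74B.pEnd true)) :=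
  posD_of_check (c := ⟨404, ⟨2, 7, 14, 10⟩⟩) (by decide +kernel)

/-- The signs of the piece. -/
def tC74B_sign : tC74B.Sign ⟨⟨0, 1, 1⟩, ⟨98, 99, 147⟩, ⟨9258, 9630, 30000⟩, ⟨1488, 1510, 1000⟩⟩ :=
  ⟨tC74B_pp,
    tC74B_k2p,
    tC74B_k2m,
    Bool.forall_bool.2 ⟨(Bool.forall_bool.2 ⟨tC74B_tg00, tC74B_tg01⟩), (Bool.forall_bool.2 ⟨tC74B_tg10, tC74B_tg11⟩)⟩,
    Bool.forall_bool.2 ⟨(Bool.forall_bool.2 ⟨tC74B_c2p00, tC74B_c2p01⟩), (Bool.forall_bool.2 ⟨tC74B_c2p10, tC74B_c2p11⟩)⟩,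
    Bool.forall_bool.2 ⟨(Bool.forall_bool.2 ⟨tC74B_c2m00, tC74B_c2m01⟩), (Bool.forall_bool.2 ⟨tC74B_c2m10, tC74B_c2m11⟩)⟩,
    Bool.forall_bool.2 ⟨tC74B_kap0, tC74B_kap1⟩,
    Bool.forall_bool.2 ⟨tC74B_c10, tC74B_c11⟩,
    Bool.forall_bool.2 ⟨(Bool.forall_bool.2 ⟨tC74B_c3p00, tC74B_c3p01⟩), (Bool.forall_bool.2 ⟨tC74B_c3p10, tC74B_c3p11⟩)⟩,
    Bool.forall_bool.2 ⟨(Bool.forall_bool.2 ⟨tC74B_c3m00, tC74B_c3m01⟩), (Bool.forall_bool.2 ⟨tC74B_c3m10, tC74B_c3m11⟩)⟩,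
    Bool.forall_bool.2 ⟨(Bool.forall_bool.2 ⟨tC74B_tmg00, tC74B_tmg01⟩), (Bool.forall_bool.2 ⟨tC74B_tmg10, tC74B_tmg11⟩)⟩,
    .inr (Bool.forall_bool.2 ⟨⟨tC74B_c1h0, Bool.forall_bool.2 ⟨⟨tC74B_c3ph00, tC74B_c3mh00, tC74B_up00, tC74B_um00⟩, ⟨tC74B_c3ph01, tC74B_c3mh01, tC74B_up01, tC74B_um01⟩⟩⟩, ⟨tC74B_c1h1, Bool.forall_bool.2 ⟨⟨tC74B_c3ph10, tC74B_c3mh10, tC74B_up10, tC74B_um10⟩, ⟨tC74B_c3ph11, tC74B_c3mh11, tC74B_up11, tC74B_um11⟩⟩⟩⟩),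
    tC74B_v2p,
    tC74B_v2m,
    tC74B_v3p,
    tC74B_v3m,
    posD_sub (b := ⟨⟨0, 1, 1⟩, ⟨98, 99, 147⟩, ⟨4050, 10000, 30000⟩, ⟨290, 4000, 1000⟩⟩) (by decide +kernel) tC_vG,
    posD_sub (b := ⟨⟨0, 1, 1⟩, ⟨98, 99, 147⟩, ⟨4050, 10000, 30000⟩, ⟨290, 4000, 1000⟩⟩) (by decide +kernel) tC_vMG,
    posD_sub (b := ⟨⟨0, 1, 1⟩, ⟨98, 99, 147⟩, ⟨4050, 10000, 30000⟩, ⟨290, 4000, 1000⟩⟩) (by decide +kernel) tC_ak,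
    posD_sub (b := ⟨⟨0, 1, 1⟩, ⟨98, 99, 147⟩, ⟨4050, 10000, 30000⟩, ⟨290, 4000, 1000⟩⟩) (by decide +kernel) tC_aw,
    posD_sub (b := ⟨⟨0, 1, 1⟩, ⟨98, 99, 147⟩, ⟨4050, 10000, 30000⟩, ⟨290, 4000, 1000⟩⟩) (by decide +kernel) tC_gk,
    posD_sub (b := ⟨⟨0, 1, 1⟩, ⟨98, 99, 147⟩, ⟨4050, 10000, 30000⟩, ⟨290, 4000, 1000⟩⟩) (by decide +kernel) tC_gw,
    posD_sub (b := ⟨⟨0, 1, 1⟩, ⟨98, 99, 147⟩, ⟨4050, 10000, 30000⟩, ⟨290, 4000, 1000⟩⟩) (by decide +kernel) tC_ek,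
    posD_sub (b := ⟨⟨0, 1, 1⟩, ⟨98, 99, 147⟩, ⟨4050, 10000, 30000⟩, ⟨290, 4000, 1000⟩⟩) (by decide +kernel) tC_ew⟩

end Vale.Agent.P100.Calib.Closed.Six.Tail
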