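import Vale.Agent.P100.Calib.SlabSixTailDataC
import Vale.Agent.P100.Calib.SlabSixTailGlobC

/-!
# Checks of some pieces of the certificate

The checks are written as definitions so that they run one after another, which keeps the memory of the
kernel low.
-/

set_option linter.defProp false

namespace Vale.Agent.P100.Calib.Closed.Six.Tail

open BoxPos Large

local instance sixTailCheckstC49Add : Add Ex := ⟨Ex.add⟩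
local instance sixTailCheckstC49Sub : Sub Ex := ⟨Ex.sub⟩
local instance sixTailCheckstC49Mul : Mul Ex := ⟨Ex.mul⟩

def tC75_phx : PosIf ⟨⟨0, 1, 1⟩, ⟨98, 99, 147⟩, ⟨7026, 8514, 30000⟩, ⟨1599, 1743, 1000⟩⟩ (tC75.u₁ - tC75Lo) (phCn (tC75.u₁ + xO * (tC75Lo - tC75.u₁))) :=
  posIf_of_posD (posD_of_check (c := ⟨109, ⟨2, 0, 4, 2⟩⟩) (by decide +kernel))

def tC75_phd : PosD ⟨⟨0, 1, 1⟩, ⟨98, 99, 147⟩, ⟨7026, 8514, 30000⟩, ⟨1599, 1743, 1000⟩⟩ (phCd (tC75.u₁ + xO * (tC75Lo - tC75.u₁))) :=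
  posD_of_check (c := ⟨51, ⟨1, 0, 2, 1⟩⟩) (by decide +kernel)

def tC75_p0 : PosD ⟨⟨0, 1, 1⟩, ⟨98, 99, 147⟩, ⟨7026, 8514, 30000⟩, ⟨1599, 1743, 1000⟩⟩ (tC75.hP0) :=
  posD_of_check (c := ⟨83, ⟨0, 2, 3, 1⟩⟩) (by decide +kernel)

def tC75_gn : PosD ⟨⟨0, 1, 1⟩, ⟨98, 99, 147⟩, ⟨7026, 8514, 30000⟩, ⟨1599, 1743, 1000⟩⟩ (tC75.hGn) :=
  posD_of_check (c := ⟨69, ⟨1, 1, 2, 2⟩⟩) (by decide +kernel)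

def tC75_den0 : PosD ⟨⟨0, 1, 1⟩, ⟨98, 99, 147⟩, ⟨7026, 8514, 30000⟩, ⟨1599, 1743, 1000⟩⟩ (tC75.hDen false) :=
  posD_of_check (c := ⟨51, ⟨1, 0, 2, 1⟩⟩) (by decide +kernel)

def tC75_den1 : PosD ⟨⟨0, 1, 1⟩, ⟨98, 99, 147⟩, ⟨7026, 8514, 30000⟩, ⟨1599, 1743, 1000⟩⟩ (tC75.hDen true) :=
  posD_of_check (c := ⟨179, ⟨3, 4, 6, 4⟩⟩) (by decide +kernel)

def tC75_ev0 : PosD ⟨⟨0, 1, 1⟩, ⟨98, 99, 147⟩, ⟨7026, 8514, 30000⟩, ⟨1599, 1743, 1000⟩⟩ (tC75.hEv false) :=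
  posD_of_check (c := ⟨219, ⟨4, 2, 8, 4⟩⟩) (by decide +kernel)

def tC75_zL0 : PosD ⟨⟨0, 1, 1⟩, ⟨98, 99, 147⟩, ⟨7026, 8514, 30000⟩, ⟨1599, 1743, 1000⟩⟩ (tC75.hZL false) :=
  posD_of_check (c := ⟨221, ⟨4, 3, 8, 4⟩⟩) (by decide +kernel)

def tC75_zU0 : PosD ⟨⟨0, 1, 1⟩, ⟨98, 99, 147⟩, ⟨7026, 8514, 30000⟩, ⟨1599, 1743, 1000⟩⟩ (tC75.hZU false) :=
  posD_of_check (c := ⟨222, ⟨4, 3, 8, 4⟩⟩) (by decide +kernel)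

def tC75_eL0 : PosD ⟨⟨0, 1, 1⟩, ⟨98, 99, 147⟩, ⟨7026, 8514, 30000⟩, ⟨1599, 1743, 1000⟩⟩ (tC75.hEL false) :=
  posD_of_check (c := ⟨315, ⟨5, 6, 11, 6⟩⟩) (by decide +kernel)

def tC75_eH0 : PosD ⟨⟨0, 1, 1⟩, ⟨98, 99, 147⟩, ⟨7026, 8514, 30000⟩, ⟨1599, 1743, 1000⟩⟩ (tC75.hEH false) :=
  posD_of_check (c := ⟨344, ⟨5, 6, 11, 7⟩⟩) (by decide +kernel)

def tC75_pL0 : PosD ⟨⟨0, 1, 1⟩, ⟨98, 99, 147⟩, ⟨7026, 8514, 30000⟩, ⟨1599, 1743, 1000⟩⟩ (tC75.hPL false) :=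
  posD_of_check (c := ⟨341, ⟨5, 6, 11, 7⟩⟩) (by decide +kernel)

def tC75_pU0 : PosD ⟨⟨0, 1, 1⟩, ⟨98, 99, 147⟩, ⟨7026, 8514, 30000⟩, ⟨1599, 1743, 1000⟩⟩ (tC75.hPU false) :=
  posD_of_check (c := ⟨347, ⟨5, 6, 11, 7⟩⟩) (by decide +kernel)

def tC75_kU0 : PosD ⟨⟨0, 1, 1⟩, ⟨98, 99, 147⟩, ⟨7026, 8514, 30000⟩, ⟨1599, 1743, 1000⟩⟩ (tC75.hKU false) :=
  posD_of_check (c := ⟨337, ⟨5, 6, 11, 7⟩⟩) (by decide +kernel)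

def tC75_kL0 : PosD ⟨⟨0, 1, 1⟩, ⟨98, 99, 147⟩, ⟨7026, 8514, 30000⟩, ⟨1599, 1743, 1000⟩⟩ (tC75.hKL false) :=
  posD_of_check (c := ⟨336, ⟨5, 6, 11, 7⟩⟩) (by decide +kernel)

def tC75_wU0 : PosD ⟨⟨0, 1, 1⟩, ⟨98, 99, 147⟩, ⟨7026, 8514, 30000⟩, ⟨1599, 1743, 1000⟩⟩ (tC75.hWU false) :=
  posD_of_check (c := ⟨370, ⟨5, 8, 12, 7⟩⟩) (by decide +kernel)

def tC75_wL0 : PosD ⟨⟨0, 1, 1⟩, ⟨98, 99, 147⟩, ⟨7026, 8514, 30000⟩, ⟨1599, 1743, 1000⟩⟩ (tC75.hWL false) :=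
  posD_of_check (c := ⟨372, ⟨5, 8, 12, 7⟩⟩) (by decide +kernel)

def tC75_ev1 : PosD ⟨⟨0, 1, 1⟩, ⟨98, 99, 147⟩, ⟨7026, 8514, 30000⟩, ⟨1599, 1743, 1000⟩⟩ (tC75.hEv true) :=
  posD_of_check (c := ⟨273, ⟨4, 6, 9, 6⟩⟩) (by decide +kernel)

def tC75_zL1 : PosD ⟨⟨0, 1, 1⟩, ⟨98, 99, 147⟩, ⟨7026, 8514, 30000⟩, ⟨1599, 1743, 1000⟩⟩ (tC75.hZL true) :=
  posD_of_check (c := ⟨297, ⟨4, 7, 10, 7⟩⟩) (by decide +kernel)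

def tC75_zU1 : PosD ⟨⟨0, 1, 1⟩, ⟨98, 99, 147⟩, ⟨7026, 8514, 30000⟩, ⟨1599, 1743, 1000⟩⟩ (tC75.hZU true) :=
  posD_of_check (c := ⟨298, ⟨4, 7, 10, 7⟩⟩) (by decide +kernel)

def tC75_eL1 : PosD ⟨⟨0, 1, 1⟩, ⟨98, 99, 147⟩, ⟨7026, 8514, 30000⟩, ⟨1599, 1743, 1000⟩⟩ (tC75.hEL true) :=
  posD_of_check (c := ⟨369, ⟨5, 10, 12, 8⟩⟩) (by decide +kernel)

def tC75_eH1 : PosD ⟨⟨0, 1, 1⟩, ⟨98, 99, 147⟩, ⟨7026, 8514, 30000⟩, ⟨1599, 1743, 1000⟩⟩ (tC75.hEH true) :=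
  posD_of_check (c := ⟨398, ⟨5, 10, 12, 9⟩⟩) (by decide +kernel)

def tC75_pL1 : PosD ⟨⟨0, 1, 1⟩, ⟨98, 99, 147⟩, ⟨7026, 8514, 30000⟩, ⟨1599, 1743, 1000⟩⟩ (tC75.hPL true) :=
  posD_of_check (c := ⟨395, ⟨5, 10, 12, 9⟩⟩) (by decide +kernel)

def tC75_pU1 : PosD ⟨⟨0, 1, 1⟩, ⟨98, 99, 147⟩, ⟨7026, 8514, 30000⟩, ⟨1599, 1743, 1000⟩⟩ (tC75.hPU true) :=
  posD_of_check (c := ⟨401, ⟨5, 10, 12, 9⟩⟩) (by decide +kernel)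

def tC75_kU1 : PosD ⟨⟨0, 1, 1⟩, ⟨98, 99, 147⟩, ⟨7026, 8514, 30000⟩, ⟨1599, 1743, 1000⟩⟩ (tC75.hKU true) :=
  posD_of_check (c := ⟨391, ⟨5, 10, 12, 9⟩⟩) (by decide +kernel)

def tC75_kL1 : PosD ⟨⟨0, 1, 1⟩, ⟨98, 99, 147⟩, ⟨7026, 8514, 30000⟩, ⟨1599, 1743, 1000⟩⟩ (tC75.hKL true) :=
  posD_of_check (c := ⟨390, ⟨5, 10, 12, 9⟩⟩) (by decide +kernel)

def tC75_wU1 : PosD ⟨⟨0, 1, 1⟩, ⟨98, 99, 147⟩, ⟨7026, 8514, 30000⟩, ⟨1599, 1743, 1000⟩⟩ (tC75.hWU true) :=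
  posD_of_check (c := ⟨424, ⟨5, 12, 13, 9⟩⟩) (by decide +kernel)

def tC75_wL1 : PosD ⟨⟨0, 1, 1⟩, ⟨98, 99, 147⟩, ⟨7026, 8514, 30000⟩, ⟨1599, 1743, 1000⟩⟩ (tC75.hWL true) :=
  posD_of_check (c := ⟨426, ⟨5, 12, 13, 9⟩⟩) (by decide +kernel)

def tC75_nueH : PosD ⟨⟨0, 1, 1⟩, ⟨98, 99, 147⟩, ⟨7026, 8514, 30000⟩, ⟨1599, 1743, 1000⟩⟩ (tC75.eH.ν) :=
  posD_of_check (c := ⟨43, ⟨0, 0, 1, 1⟩⟩) (by decide +kernel)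

def tC75_nupU : PosD ⟨⟨0, 1, 1⟩, ⟨98, 99, 147⟩, ⟨7026, 8514, 30000⟩, ⟨1599, 1743, 1000⟩⟩ (tC75.pU.ν) :=
  posD_of_check (c := ⟨46, ⟨0, 0, 1, 1⟩⟩) (by decide +kernel)

/-- The bounds of the piece. -/
def tC75_env : tC75.Env ⟨⟨0, 1, 1⟩, ⟨98, 99, 147⟩, ⟨7026, 8514, 30000⟩, ⟨1599, 1743, 1000⟩⟩ :=
  ⟨tC75_p0, Bool.forall_bool.2 ⟨tC75_den0, tC75_den1⟩, tC75_gn, Bool.forall_bool.2 ⟨tC75_ev0, tC75_ev1⟩, Bool.forall_bool.2 ⟨tC75_zL0, tC75_zL1⟩, Bool.forall_bool.2 ⟨tC75_zU0, tC75_zU1⟩, Bool.forall_bool.2 ⟨tC75_eL0, tC75_eL1⟩, ⟨.inr rfl, .inr rfl⟩, Bool.forall_bool.2 ⟨tC75_eH0, tC75_eH1⟩, ⟨.inr rfl, .inl tC75_nueH⟩, Bool.forall_bool.2 ⟨tC75_pL0, tC75_pL1⟩, ⟨.inr rfl, .inr rfl⟩, Bool.forall_bool.2 ⟨tC75_pU0, tC75_pU1⟩, ⟨.inr rfl, .inl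 tC75_nupU⟩, Bool.forall_bool.2 ⟨tC75_kU0, tC75_kU1⟩, ⟨.inr rfl, .inr rfl⟩, Bool.forall_bool.2 ⟨tC75_kL0, tC75_kL1⟩, ⟨.inr rfl, .inr rfl⟩, Bool.forall_bool.2 ⟨tC75_wU0, tC75_wU1⟩, ⟨.inr rfl, .inr rfl⟩, Bool.forall_bool.2 ⟨tC75_wL0, tC75_wL1⟩, ⟨.inr rfl, .inr rfl⟩⟩

def tC75_pp : PosD ⟨⟨0, 1, 1⟩, ⟨98, 99, 147⟩, ⟨7026, 8514, 30000⟩, ⟨1599, 1743, 1000⟩⟩ (tC75.xPL) :=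
  posD_of_check (c := ⟨98, ⟨1, 1, 3, 3⟩⟩) (by decide +kernel)

def tC75_k2p : PosD ⟨⟨0, 1, 1⟩, ⟨98, 99, 147⟩, ⟨7026, 8514, 30000⟩, ⟨1599, 1743, 1000⟩⟩ (tC75.k2p tC75.xE) :=
  posD_of_check (c := ⟨76, ⟨1, 1, 2, 2⟩⟩) (by decide +kernel)

def tC75_k2m : PosD ⟨⟨0, 1, 1⟩, ⟨98, 99, 147⟩, ⟨7026, 8514, 30000⟩, ⟨1599, 1743, 1000⟩⟩ (tC75.k2m tC75.xE) :=
  posD_of_check (c := ⟨30, ⟨0, 0, 1, 1⟩⟩) (by decide +kernel)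

def tC75_v2p : PosD ⟨⟨0, 1, 1⟩, ⟨98, 99, 147⟩, ⟨7026, 8514, 30000⟩, ⟨1599, 1743, 1000⟩⟩ (tC75.hV2p) :=
  posD_of_check (c := ⟨277, ⟨1, 6, 10, 5⟩⟩) (by decide +kernel)

def tC75_v2m : PosD ⟨⟨0, 1, 1⟩, ⟨98, 99, 147⟩, ⟨7026, 8514, 30000⟩, ⟨1599, 1743, 1000⟩⟩ (tC75.hV2m) :=
  posD_of_check (c := ⟨244, ⟨0, 5, 10, 4⟩⟩) (by decide +kernel)

def tC75_v3p : PosD ⟨⟨0, 1, 1⟩, ⟨98, 99, 147⟩, ⟨7026, 8514, 30000⟩, ⟨1599, 1743, 1000⟩⟩ (tC75.hV3p) :=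
  posD_of_check (c := ⟨262, ⟨1, 6, 9, 5⟩⟩) (by decide +kernel)

def tC75_v3m : PosD ⟨⟨0, 1, 1⟩, ⟨98, 99, 147⟩, ⟨7026, 8514, 30000⟩, ⟨1599, 1743, 1000⟩⟩ (tC75.hV3m) :=
  posD_of_check (c := ⟨231, ⟨0, 5, 9, 4⟩⟩) (by decide +kernel)

def tC75_kap0 : PosD ⟨⟨0, 1, 1⟩, ⟨98, 99, 147⟩, ⟨7026, 8514, 30000⟩, ⟨1599, 1743, 1000⟩⟩ (tC75.kap false) :=
  posD_of_check (c := ⟨73, ⟨1, 1, 2, 2⟩⟩) (by decide +kernel)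

def tC75_c10 : PosD ⟨⟨0, 1, 1⟩, ⟨98, 99, 147⟩, ⟨7026, 8514, 30000⟩, ⟨1599, 1743, 1000⟩⟩ (tC75.hC1 false) :=
  posD_of_check (c := ⟨280, ⟨3, 5, 9, 7⟩⟩) (by decide +kernel)

def tC75_c1h0 : PosD ⟨⟨0, 1, 1⟩, ⟨98, 99, 147⟩, ⟨7026, 8514, 30000⟩, ⟨1599, 1743, 1000⟩⟩ (tC75.hC1' false) :=
  posD_of_check (c := ⟨280, ⟨3, 5, 9, 7⟩⟩) (by decide +kernel)

def tC75_tg00 : PosD ⟨⟨0, 1, 1⟩, ⟨98, 99, 147⟩, ⟨7026, 8514, 30000⟩, ⟨1599, 1743, 1000⟩⟩ (tC75.hG false (tC75.pEnd false)) :=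
  posD_of_check (c := ⟨393, ⟨2, 7, 14, 9⟩⟩) (by decide +kernel)

def tC75_c2p00 : PosD ⟨⟨0, 1, 1⟩, ⟨98, 99, 147⟩, ⟨7026, 8514, 30000⟩, ⟨1599, 1743, 1000⟩⟩ (tC75.hC2p false (tC75.pEnd false)) :=
  posD_of_check (c := ⟨469, ⟨3, 8, 16, 11⟩⟩) (by decide +kernel)

def tC75_c2m00 : PosD ⟨⟨0, 1, 1⟩, ⟨98, 99, 147⟩, ⟨7026, 8514, 30000⟩, ⟨1599, 1743, 1000⟩⟩ (tC75.hC2m false (tC75.pEnd false)) :=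
  posD_of_check (c := ⟨436, ⟨2, 7, 16, 10⟩⟩) (by decide +kernel)

def tC75_c3p00 : PosD ⟨⟨0, 1, 1⟩, ⟨98, 99, 147⟩, ⟨7026, 8514, 30000⟩, ⟨1599, 1743, 1000⟩⟩ (tC75.hC3p false false) :=
  posD_of_check (c := ⟨454, ⟨3, 8, 15, 11⟩⟩) (by decide +kernel)

def tC75_c3m00 : PosD ⟨⟨0, 1, 1⟩, ⟨98, 99, 147⟩, ⟨7026, 8514, 30000⟩, ⟨1599, 1743, 1000⟩⟩ (tC75.hC3m false false) :=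
  posD_of_check (c := ⟨428, ⟨3, 7, 15, 10⟩⟩) (by decide +kernel)

def tC75_c3ph00 : PosD ⟨⟨0, 1, 1⟩, ⟨98, 99, 147⟩, ⟨7026, 8514, 30000⟩, ⟨1599, 1743, 1000⟩⟩ (tC75.hC3p' false false) :=
  posD_of_check (c := ⟨454, ⟨3, 8, 15, 11⟩⟩) (by decide +kernel)

def tC75_c3mh00 : PosD ⟨⟨0, 1, 1⟩, ⟨98, 99, 147⟩, ⟨7026, 8514, 30000⟩, ⟨1599, 1743, 1000⟩⟩ (tC75.hC3m' false false) :=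
  posD_of_check (c := ⟨428, ⟨3, 7, 15, 10⟩⟩) (by decide +kernel)

def tC75_up00 : PosD ⟨⟨0, 1, 1⟩, ⟨98, 99, 147⟩, ⟨7026, 8514, 30000⟩, ⟨1599, 1743, 1000⟩⟩ (tC75.hUp false false) :=
  posD_of_check (c := ⟨454, ⟨3, 8, 15, 11⟩⟩) (by decide +kernel)

def tC75_um00 : PosD ⟨⟨0, 1, 1⟩, ⟨98, 99, 147⟩, ⟨7026, 8514, 30000⟩, ⟨1599, 1743, 1000⟩⟩ (tC75.hUm false false) :=
  posD_of_check (c := ⟨424, ⟨2, 7, 15, 10⟩⟩) (by decide +kernel)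

def tC75_tmg00 : PosD ⟨⟨0, 1, 1⟩, ⟨98, 99, 147⟩, ⟨7026, 8514, 30000⟩, ⟨1599, 1743, 1000⟩⟩ (tC75.hTMG false (tC75.pEnd false)) :=
  posD_of_check (c := ⟨407, ⟨2, 7, 14, 10⟩⟩) (by decide +kernel)

def tC75_tg01 : PosD ⟨⟨0, 1, 1⟩, ⟨98, 99, 147⟩, ⟨7026, 8514, 30000⟩, ⟨1599, 1743, 1000⟩⟩ (tC75.hG true (tC75.pEnd false)) :=
  posD_of_check (c := ⟨393, ⟨2, 7, 14, 9⟩⟩) (by decide +kernel)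

def tC75_c2p01 : PosD ⟨⟨0, 1, 1⟩, ⟨98, 99, 147⟩, ⟨7026, 8514, 30000⟩, ⟨1599, 1743, 1000⟩⟩ (tC75.hC2p true (tC75.pEnd false)) :=
  posD_of_check (c := ⟨469, ⟨3, 8, 16, 11⟩⟩) (by decide +kernel)

def tC75_c2m01 : PosD ⟨⟨0, 1, 1⟩, ⟨98, 99, 147⟩, ⟨7026, 8514, 30000⟩, ⟨1599, 1743, 1000⟩⟩ (tC75.hC2m true (tC75.pEnd false)) :=
  posD_of_check (c := ⟨436, ⟨2, 7, 16, 10⟩⟩) (by decide +kernel)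

def tC75_c3p01 : PosD ⟨⟨0, 1, 1⟩, ⟨98, 99, 147⟩, ⟨7026, 8514, 30000⟩, ⟨1599, 1743, 1000⟩⟩ (tC75.hC3p false true) :=
  posD_of_check (c := ⟨454, ⟨3, 8, 15, 11⟩⟩) (by decide +kernel)

def tC75_c3m01 : PosD ⟨⟨0, 1, 1⟩, ⟨98, 99, 147⟩, ⟨7026, 8514, 30000⟩, ⟨1599, 1743, 1000⟩⟩ (tC75.hC3m false true) :=
  posD_of_check (c := ⟨428, ⟨3, 7, 15, 10⟩⟩) (by decide +kernel)

def tC75_c3ph01 : PosD ⟨⟨0, 1, 1⟩, ⟨98, 99, 147⟩, ⟨7026, 8514, 30000⟩, ⟨1599, 1743, 1000⟩⟩ (tC75.hC3p' false true) :=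
  posD_of_check (c := ⟨454, ⟨3, 8, 15, 11⟩⟩) (by decide +kernel)

def tC75_c3mh01 : PosD ⟨⟨0, 1, 1⟩, ⟨98, 99, 147⟩, ⟨7026, 8514, 30000⟩, ⟨1599, 1743, 1000⟩⟩ (tC75.hC3m' false true) :=
  posD_of_check (c := ⟨428, ⟨3, 7, 15, 10⟩⟩) (by decide +kernel)

def tC75_up01 : PosD ⟨⟨0, 1, 1⟩, ⟨98, 99, 147⟩, ⟨7026, 8514, 30000⟩, ⟨1599, 1743, 1000⟩⟩ (tC75.hUp false true) :=
  posD_of_check (c := ⟨454, ⟨3, 8, 15, 11⟩⟩) (by decide +kernel)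

def tC75_um01 : PosD ⟨⟨0, 1, 1⟩, ⟨98, 99, 147⟩, ⟨7026, 8514, 30000⟩, ⟨1599, 1743, 1000⟩⟩ (tC75.hUm false true) :=
  posD_of_check (c := ⟨424, ⟨2, 7, 15, 10⟩⟩) (by decide +kernel)

def tC75_tmg01 : PosD ⟨⟨0, 1, 1⟩, ⟨98, 99, 147⟩, ⟨7026, 8514, 30000⟩, ⟨1599, 1743, 1000⟩⟩ (tC75.hTMG true (tC75.pEnd false)) :=
  posD_of_check (c := ⟨407, ⟨2, 7, 14, 10⟩⟩) (by decide +kernel)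

def tC75_kap1 : PosD ⟨⟨0, 1, 1⟩, ⟨98, 99, 147⟩, ⟨7026, 8514, 30000⟩, ⟨1599, 1743, 1000⟩⟩ (tC75.kap true) :=
  posD_of_check (c := ⟨74, ⟨1, 1, 2, 2⟩⟩) (by decide +kernel)

def tC75_c11 : PosD ⟨⟨0, 1, 1⟩, ⟨98, 99, 147⟩, ⟨7026, 8514, 30000⟩, ⟨1599, 1743, 1000⟩⟩ (tC75.hC1 true) :=
  posD_of_check (c := ⟨279, ⟨3, 5, 9, 7⟩⟩) (by decide +kernel)

def tC75_c1h1 : PosD ⟨⟨0, 1, 1⟩, ⟨98, 99, 147⟩, ⟨7026, 8514, 30000⟩, ⟨1599, 1743, 1000⟩⟩ (tC75.hC1' true) :=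
  posD_of_check (c := ⟨279, ⟨3, 5, 9, 7⟩⟩) (by decide +kernel)

def tC75_tg10 : PosD ⟨⟨0, 1, 1⟩, ⟨98, 99, 147⟩, ⟨7026, 8514, 30000⟩, ⟨1599, 1743, 1000⟩⟩ (tC75.hG false (tC75.pEnd true)) :=
  posD_of_check (c := ⟨389, ⟨2, 7, 14, 9⟩⟩) (by decide +kernel)

def tC75_c2p10 : PosD ⟨⟨0, 1, 1⟩, ⟨98, 99, 147⟩, ⟨7026, 8514, 30000⟩, ⟨1599, 1743, 1000⟩⟩ (tC75.hC2p false (tC75.pEnd true)) :=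
  posD_of_check (c := ⟨465, ⟨3, 8, 16, 11⟩⟩) (by decide +kernel)

def tC75_c2m10 : PosD ⟨⟨0, 1, 1⟩, ⟨98, 99, 147⟩, ⟨7026, 8514, 30000⟩, ⟨1599, 1743, 1000⟩⟩ (tC75.hC2m false (tC75.pEnd true)) :=
  posD_of_check (c := ⟨432, ⟨2, 7, 16, 10⟩⟩) (by decide +kernel)

def tC75_c3p10 : PosD ⟨⟨0, 1, 1⟩, ⟨98, 99, 147⟩, ⟨7026, 8514, 30000⟩, ⟨1599, 1743, 1000⟩⟩ (tC75.hC3p true false) :=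
  posD_of_check (c := ⟨451, ⟨3, 8, 15, 11⟩⟩) (by decide +kernel)

def tC75_c3m10 : PosD ⟨⟨0, 1, 1⟩, ⟨98, 99, 147⟩, ⟨7026, 8514, 30000⟩, ⟨1599, 1743, 1000⟩⟩ (tC75.hC3m true false) :=
  posD_of_check (c := ⟨426, ⟨3, 7, 15, 10⟩⟩) (by decide +kernel)

def tC75_c3ph10 : PosD ⟨⟨0, 1, 1⟩, ⟨98, 99, 147⟩, ⟨7026, 8514, 30000⟩, ⟨1599, 1743, 1000⟩⟩ (tC75.hC3p' true false) :=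
  posD_of_check (c := ⟨451, ⟨3, 8, 15, 11⟩⟩) (by decide +kernel)

def tC75_c3mh10 : PosD ⟨⟨0, 1, 1⟩, ⟨98, 99, 147⟩, ⟨7026, 8514, 30000⟩, ⟨1599, 1743, 1000⟩⟩ (tC75.hC3m' true false) :=
  posD_of_check (c := ⟨426, ⟨3, 7, 15, 10⟩⟩) (by decide +kernel)

def tC75_up10 : PosD ⟨⟨0, 1, 1⟩, ⟨98, 99, 147⟩, ⟨7026, 8514, 30000⟩, ⟨1599, 1743, 1000⟩⟩ (tC75.hUp true false) :=
  posD_of_check (c := ⟨450, ⟨3, 8, 15, 11⟩⟩) (by decide +kernel)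

def tC75_um10 : PosD ⟨⟨0, 1, 1⟩, ⟨98, 99, 147⟩, ⟨7026, 8514, 30000⟩, ⟨1599, 1743, 1000⟩⟩ (tC75.hUm true false) :=
  posD_of_check (c := ⟨420, ⟨2, 7, 15, 10⟩⟩) (by decide +kernel)

def tC75_tmg10 : PosD ⟨⟨0, 1, 1⟩, ⟨98, 99, 147⟩, ⟨7026, 8514, 30000⟩, ⟨1599, 1743, 1000⟩⟩ (tC75.hTMG false (tC75.pEnd true)) :=
  posD_of_check (c := ⟨404, ⟨2, 7, 14, 10⟩⟩) (by decide +kernel)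

def tC75_tg11 : PosD ⟨⟨0, 1, 1⟩, ⟨98, 99, 147⟩, ⟨7026, 8514, 30000⟩, ⟨1599, 1743, 1000⟩⟩ (tC75.hG true (tC75.pEnd true)) :=
  posD_of_check (c := ⟨389, ⟨2, 7, 14, 9⟩⟩) (by decide +kernel)

def tC75_c2p11 : PosD ⟨⟨0, 1, 1⟩, ⟨98, 99, 147⟩, ⟨7026, 8514, 30000⟩, ⟨1599, 1743, 1000⟩⟩ (tC75.hC2p true (tC75.pEnd true)) :=
  posD_of_check (c := ⟨465, ⟨3, 8, 16, 11⟩⟩) (by decide +kernel)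

def tC75_c2m11 : PosD ⟨⟨0, 1, 1⟩, ⟨98, 99, 147⟩, ⟨7026, 8514, 30000⟩, ⟨1599, 1743, 1000⟩⟩ (tC75.hC2m true (tC75.pEnd true)) :=
  posD_of_check (c := ⟨433, ⟨2, 7, 16, 10⟩⟩) (by decide +kernel)

def tC75_c3p11 : PosD ⟨⟨0, 1, 1⟩, ⟨98, 99, 147⟩, ⟨7026, 8514, 30000⟩, ⟨1599, 1743, 1000⟩⟩ (tC75.hC3p true true) :=
  posD_of_check (c := ⟨451, ⟨3, 8, 15, 11⟩⟩) (by decide +kernel)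

def tC75_c3m11 : PosD ⟨⟨0, 1, 1⟩, ⟨98, 99, 147⟩, ⟨7026, 8514, 30000⟩, ⟨1599, 1743, 1000⟩⟩ (tC75.hC3m true true) :=
  posD_of_check (c := ⟨426, ⟨3, 7, 15, 10⟩⟩) (by decide +kernel)

def tC75_c3ph11 : PosD ⟨⟨0, 1, 1⟩, ⟨98, 99, 147⟩, ⟨7026, 8514, 30000⟩, ⟨1599, 1743, 1000⟩⟩ (tC75.hC3p' true true) :=
  posD_of_check (c := ⟨451, ⟨3, 8, 15, 11⟩⟩) (by decide +kernel)

def tC75_c3mh11 : PosD ⟨⟨0, 1, 1⟩, ⟨98, 99, 147⟩, ⟨7026, 8514, 30000⟩, ⟨1599, 1743, 1000⟩⟩ (tC75.hC3m' true true) :=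
  posD_of_check (c := ⟨426, ⟨3, 7, 15, 10⟩⟩) (by decide +kernel)

def tC75_up11 : PosD ⟨⟨0, 1, 1⟩, ⟨98, 99, 147⟩, ⟨7026, 8514, 30000⟩, ⟨1599, 1743, 1000⟩⟩ (tC75.hUp true true) :=
  posD_of_check (c := ⟨450, ⟨3, 8, 15, 11⟩⟩) (by decide +kernel)

def tC75_um11 : PosD ⟨⟨0, 1, 1⟩, ⟨98, 99, 147⟩, ⟨7026, 8514, 30000⟩, ⟨1599, 1743, 1000⟩⟩ (tC75.hUm true true) :=
  posD_of_check (c := ⟨420, ⟨2, 7, 15, 10⟩⟩) (by decide +kernel)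

def tC75_tmg11 : PosD ⟨⟨0, 1, 1⟩, ⟨98, 99, 147⟩, ⟨7026, 8514, 30000⟩, ⟨1599, 1743, 1000⟩⟩ (tC75.hTMG true (tC75.pEnd true)) :=
  posD_of_check (c := ⟨404, ⟨2, 7, 14, 10⟩⟩) (by decide +kernel)

/-- The signs of the piece. -/
def tC75_sign : tC75.Sign ⟨⟨0, 1, 1⟩, ⟨98, 99, 147⟩, ⟨7026, 8514, 30000⟩, ⟨1599, 1743, 1000⟩⟩ :=
  ⟨tC75_pp,
    tC75_k2p,
    tC75_k2m,
    Bool.forall_bool.2 ⟨(Bool.forall_bool.2 ⟨tC75_tg00, tC75_tg01⟩), (Bool.forall_bool.2 ⟨tC75_tg10, tC75_tg11⟩)⟩,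
    Bool.forall_bool.2 ⟨(Bool.forall_bool.2 ⟨tC75_c2p00, tC75_c2p01⟩), (Bool.forall_bool.2 ⟨tC75_c2p10, tC75_c2p11⟩)⟩,
    Bool.forall_bool.2 ⟨(Bool.forall_bool.2 ⟨tC75_c2m00, tC75_c2m01⟩), (Bool.forall_bool.2 ⟨tC75_c2m10, tC75_c2m11⟩)⟩,
    Bool.forall_bool.2 ⟨tC75_kap0, tC75_kap1⟩,
    Bool.forall_bool.2 ⟨tC75_c10, tC75_c11⟩,
    Bool.forall_bool.2 ⟨(Bool.forall_bool.2 ⟨tC75_c3p00, tC75_c3p01⟩), (Bool.forall_bool.2 ⟨tC75_c3p10, tC75_c3p11⟩)⟩,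
    Bool.forall_bool.2 ⟨(Bool.forall_bool.2 ⟨tC75_c3m00, tC75_c3m01⟩), (Bool.forall_bool.2 ⟨tC75_c3m10, tC75_c3m11⟩)⟩,
    Bool.forall_bool.2 ⟨(Bool.forall_bool.2 ⟨tC75_tmg00, tC75_tmg01⟩), (Bool.forall_bool.2 ⟨tC75_tmg10, tC75_tmg11⟩)⟩,
    .inr (Bool.forall_bool.2 ⟨⟨tC75_c1h0, Bool.forall_bool.2 ⟨⟨tC75_c3ph00, tC75_c3mh00, tC75_up00, tC75_um00⟩, ⟨tC75_c3ph01, tC75_c3mh01, tC75_up01, tC75_um01⟩⟩⟩, ⟨tC75_c1h1, Bool.forall_bool.2 ⟨⟨tC75_c3ph10, tC75_c3mh10, tC75_up10, tC75_um10⟩, ⟨tC75_c3ph11, tC75_c3mh11, tC75_up11, tC75_um11⟩⟩⟩⟩),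
    tC75_v2p,
    tC75_v2m,
    tC75_v3p,
    tC75_v3m,
    posD_sub (b := ⟨⟨0, 1, 1⟩, ⟨98, 99, 147⟩, ⟨4050, 10000, 30000⟩, ⟨290, 4000, 1000⟩⟩) (by decide +kernel) tC_vG,
    posD_sub (b := ⟨⟨0, 1, 1⟩, ⟨98, 99, 147⟩, ⟨4050, 10000, 30000⟩, ⟨290, 4000, 1000⟩⟩) (by decide +kernel) tC_vMG,
    posD_sub (b := ⟨⟨0, 1, 1⟩, ⟨98, 99, 147⟩, ⟨4050, 10000, 30000⟩, ⟨290, 4000, 1000⟩⟩) (by decide +kernel) tC_ak,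
    posD_sub (b := ⟨⟨0, 1, 1⟩, ⟨98, 99, 147⟩, ⟨4050, 10000, 30000⟩, ⟨290, 4000, 1000⟩⟩) (by decide +kernel) tC_aw,
    posD_sub (b := ⟨⟨0, 1, 1⟩, ⟨98, 99, 147⟩, ⟨4050, 10000, 30000⟩, ⟨290, 4000, 1000⟩⟩) (by decide +kernel) tC_gk,
    posD_sub (b := ⟨⟨0, 1, 1⟩, ⟨98, 99, 147⟩, ⟨4050, 10000, 30000⟩, ⟨290, 4000, 1000⟩⟩) (by decide +kernel) tC_gw,
    posD_sub (b := ⟨⟨0, 1, 1⟩, ⟨98, 99, 147⟩, ⟨4050, 10000, 30000⟩, ⟨290, 4000, 1000⟩⟩) (by decide +kernel) tC_ek,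
    posD_sub (b := ⟨⟨0, 1, 1⟩, ⟨98, 99, 147⟩, ⟨4050, 10000, 30000⟩, ⟨290, 4000, 1000⟩⟩) (by decide +kernel) tC_ew⟩

end Vale.Agent.P100.Calib.Closed.Six.Tail
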