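import Vale.Agent.P100.Calib.SlabSixTailDataC
import Vale.Agent.P100.Calib.SlabSixTailGlobC

/-!
# Checks of some pieces of the certificate

The checks are written as definitions so that they run one after another, which keeps the memory of the
kernel low.
-/

set_option linter.defProp false

namespace Vale.Agent.P100.Calib.Closed.Six.Tail

open BoxPos Large

local instance sixTailCheckstC5Add : Add Ex := ⟨Ex.add⟩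
local instance sixTailCheckstC5Sub : Sub Ex := ⟨Ex.sub⟩
local instance sixTailCheckstC5Mul : Mul Ex := ⟨Ex.mul⟩

def tC15_phxaa : PosIf ⟨⟨0, 1, 1⟩, ⟨98, 99, 147⟩, ⟨4050, 7026, 30000⟩, ⟨1037, 1077, 1000⟩⟩ (tC15.u₁ - tC15Lo) (phCn (tC15.u₁ + xO * (tC15Lo - tC15.u₁))) :=
  posIf_of_mul (k := 1) (n := 2) (posD_of_check (c := ⟨108, ⟨2, 0, 4, 2⟩⟩) (by decide +kernel))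

def tC15_phxaba : PosIf ⟨⟨0, 1, 1⟩, ⟨98, 99, 147⟩, ⟨4050, 5538, 30000⟩, ⟨1077, 1118, 1000⟩⟩ (tC15.u₁ - tC15Lo) (phCn (tC15.u₁ + xO * (tC15Lo - tC15.u₁))) :=
  posIf_of_mul (k := 1) (n := 2) (posD_of_check (c := ⟨108, ⟨2, 0, 4, 2⟩⟩) (by decide +kernel))

def tC15_phxabbaa : PosIf ⟨⟨0, 1, 1⟩, ⟨98, 99, 147⟩, ⟨5538, 6282, 30000⟩, ⟨1077, 1097, 1000⟩⟩ (tC15.u₁ - tC15Lo) (phCn (tC15.u₁ + xO * (tC15Lo - tC15.u₁))) :=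
  posIf_of_mul (k := 1) (n := 2) (posD_of_check (c := ⟨108, ⟨2, 0, 4, 2⟩⟩) (by decide +kernel))

def tC15_phxabbab : PosIf ⟨⟨0, 1, 1⟩, ⟨98, 99, 147⟩, ⟨5538, 6282, 30000⟩, ⟨1097, 1118, 1000⟩⟩ (tC15.u₁ - tC15Lo) (phCn (tC15.u₁ + xO * (tC15Lo - tC15.u₁))) :=
  posIf_of_mul (k := 1) (n := 4) (posD_of_check (c := ⟨108, ⟨2, 0, 4, 2⟩⟩) (by decide +kernel))

def tC15_phxabba : PosIf ⟨⟨0, 1, 1⟩, ⟨98, 99, 147⟩, ⟨5538, 6282, 30000⟩, ⟨1077, 1118, 1000⟩⟩ (tC15.u₁ - tC15Lo) (phCn (tC15.u₁ + xO * (tC15Lo - tC15.u₁))) :=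
  posIf_join₃ tC15_phxabbaa tC15_phxabbab

def tC15_phxabbb : PosIf ⟨⟨0, 1, 1⟩, ⟨98, 99, 147⟩, ⟨6282, 7026, 30000⟩, ⟨1077, 1118, 1000⟩⟩ (tC15.u₁ - tC15Lo) (phCn (tC15.u₁ + xO * (tC15Lo - tC15.u₁))) :=
  posIf_of_posD (posD_of_check (c := ⟨108, ⟨2, 0, 4, 2⟩⟩) (by decide +kernel))

def tC15_phxabb : PosIf ⟨⟨0, 1, 1⟩, ⟨98, 99, 147⟩, ⟨5538, 7026, 30000⟩, ⟨1077, 1118, 1000⟩⟩ (tC15.u₁ - tC15Lo) (phCn (tC15.u₁ + xO * (tC15Lo - tC15.u₁))) :=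
  posIf_join₂ tC15_phxabba tC15_phxabbb

def tC15_phxab : PosIf ⟨⟨0, 1, 1⟩, ⟨98, 99, 147⟩, ⟨4050, 7026, 30000⟩, ⟨1077, 1118, 1000⟩⟩ (tC15.u₁ - tC15Lo) (phCn (tC15.u₁ + xO * (tC15Lo - tC15.u₁))) :=
  posIf_join₂ tC15_phxaba tC15_phxabb

def tC15_phxa : PosIf ⟨⟨0, 1, 1⟩, ⟨98, 99, 147⟩, ⟨4050, 7026, 30000⟩, ⟨1037, 1118, 1000⟩⟩ (tC15.u₁ - tC15Lo) (phCn (tC15.u₁ + xO * (tC15Lo - tC15.u₁))) :=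
  posIf_join₃ tC15_phxaa tC15_phxab

def tC15_phxbaaaa : PosIf ⟨⟨0, 1, 1⟩, ⟨98, 99, 147⟩, ⟨4050, 4794, 30000⟩, ⟨1118, 1138, 1000⟩⟩ (tC15.u₁ - tC15Lo) (phCn (tC15.u₁ + xO * (tC15Lo - tC15.u₁))) :=
  posIf_of_mul (k := 1) (n := 2) (posD_of_check (c := ⟨108, ⟨2, 0, 4, 2⟩⟩) (by decide +kernel))

def tC15_phxbaaab : PosIf ⟨⟨0, 1, 1⟩, ⟨98, 99, 147⟩, ⟨4050, 4794, 30000⟩, ⟨1138, 1159, 1000⟩⟩ (tC15.u₁ - tC15Lo) (phCn (tC15.u₁ + xO * (tC15Lo - tC15.u₁))) :=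
  posIf_of_mul (k := 1) (n := 4) (posD_of_check (c := ⟨108, ⟨2, 0, 4, 2⟩⟩) (by decide +kernel))

def tC15_phxbaaa : PosIf ⟨⟨0, 1, 1⟩, ⟨98, 99, 147⟩, ⟨4050, 4794, 30000⟩, ⟨1118, 1159, 1000⟩⟩ (tC15.u₁ - tC15Lo) (phCn (tC15.u₁ + xO * (tC15Lo - tC15.u₁))) :=
  posIf_join₃ tC15_phxbaaaa tC15_phxbaaab

def tC15_phxbaaba : PosIf ⟨⟨0, 1, 1⟩, ⟨98, 99, 147⟩, ⟨4794, 5538, 30000⟩, ⟨1118, 1138, 1000⟩⟩ (tC15.u₁ - tC15Lo) (phCn (tC15.u₁ + xO * (tC15Lo - tC15.u₁))) :=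
  posIf_of_mul (k := 1) (n := 4) (posD_of_check (c := ⟨108, ⟨2, 0, 4, 2⟩⟩) (by decide +kernel))

def tC15_phxbaabb : PosIf ⟨⟨0, 1, 1⟩, ⟨98, 99, 147⟩, ⟨4794, 5538, 30000⟩, ⟨1138, 1159, 1000⟩⟩ (tC15.u₁ - tC15Lo) (phCn (tC15.u₁ + xO * (tC15Lo - tC15.u₁))) :=
  posIf_of_posD (posD_of_check (c := ⟨108, ⟨2, 0, 4, 2⟩⟩) (by decide +kernel))

def tC15_phxbaab : PosIf ⟨⟨0, 1, 1⟩, ⟨98, 99, 147⟩, ⟨4794, 5538, 30000⟩, ⟨1118, 1159, 1000⟩⟩ (tC15.u₁ - tC15Lo) (phCn (tC15.u₁ + xO * (tC15Lo - tC15.u₁))) :=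
  posIf_join₃ tC15_phxbaaba tC15_phxbaabb

def tC15_phxbaa : PosIf ⟨⟨0, 1, 1⟩, ⟨98, 99, 147⟩, ⟨4050, 5538, 30000⟩, ⟨1118, 1159, 1000⟩⟩ (tC15.u₁ - tC15Lo) (phCn (tC15.u₁ + xO * (tC15Lo - tC15.u₁))) :=
  posIf_join₂ tC15_phxbaaa tC15_phxbaab

def tC15_phxbab : PosIf ⟨⟨0, 1, 1⟩, ⟨98, 99, 147⟩, ⟨5538, 7026, 30000⟩, ⟨1118, 1159, 1000⟩⟩ (tC15.u₁ - tC15Lo) (phCn (tC15.u₁ + xO * (tC15Lo - tC15.u₁))) :=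
  posIf_of_posD (posD_of_check (c := ⟨108, ⟨2, 0, 4, 2⟩⟩) (by decide +kernel))

def tC15_phxba : PosIf ⟨⟨0, 1, 1⟩, ⟨98, 99, 147⟩, ⟨4050, 7026, 30000⟩, ⟨1118, 1159, 1000⟩⟩ (tC15.u₁ - tC15Lo) (phCn (tC15.u₁ + xO * (tC15Lo - tC15.u₁))) :=
  posIf_join₂ tC15_phxbaa tC15_phxbab

def tC15_phxbb : PosIf ⟨⟨0, 1, 1⟩, ⟨98, 99, 147⟩, ⟨4050, 7026, 30000⟩, ⟨1159, 1200, 1000⟩⟩ (tC15.u₁ - tC15Lo) (phCn (tC15.u₁ + xO * (tC15Lo - tC15.u₁))) :=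
  posIf_of_posD (posD_of_check (c := ⟨108, ⟨2, 0, 4, 2⟩⟩) (by decide +kernel))

def tC15_phxb : PosIf ⟨⟨0, 1, 1⟩, ⟨98, 99, 147⟩, ⟨4050, 7026, 30000⟩, ⟨1118, 1200, 1000⟩⟩ (tC15.u₁ - tC15Lo) (phCn (tC15.u₁ + xO * (tC15Lo - tC15.u₁))) :=
  posIf_join₃ tC15_phxba tC15_phxbb

def tC15_phx : PosIf ⟨⟨0, 1, 1⟩, ⟨98, 99, 147⟩, ⟨4050, 7026, 30000⟩, ⟨1037, 1200, 1000⟩⟩ (tC15.u₁ - tC15Lo) (phCn (tC15.u₁ + xO * (tC15Lo - tC15.u₁))) :=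
  posIf_join₃ tC15_phxa tC15_phxb

def tC15_phd : PosD ⟨⟨0, 1, 1⟩, ⟨98, 99, 147⟩, ⟨4050, 7026, 30000⟩, ⟨1037, 1200, 1000⟩⟩ (phCd (tC15.u₁ + xO * (tC15Lo - tC15.u₁))) :=
  posD_of_check (c := ⟨51, ⟨1, 0, 2, 1⟩⟩) (by decide +kernel)

def tC15_p0 : PosD ⟨⟨0, 1, 1⟩, ⟨98, 99, 147⟩, ⟨4050, 7026, 30000⟩, ⟨1037, 1200, 1000⟩⟩ (tC15.hP0) :=
  posD_of_check (c := ⟨83, ⟨0, 2, 3, 1⟩⟩) (by decide +kernel)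

def tC15_gn : PosD ⟨⟨0, 1, 1⟩, ⟨98, 99, 147⟩, ⟨4050, 7026, 30000⟩, ⟨1037, 1200, 1000⟩⟩ (tC15.hGn) :=
  posD_of_check (c := ⟨69, ⟨1, 1, 2, 2⟩⟩) (by decide +kernel)

def tC15_den0 : PosD ⟨⟨0, 1, 1⟩, ⟨98, 99, 147⟩, ⟨4050, 7026, 30000⟩, ⟨1037, 1200, 1000⟩⟩ (tC15.hDen false) :=
  posD_of_check (c := ⟨51, ⟨1, 0, 2, 1⟩⟩) (by decide +kernel)

def tC15_den1 : PosD ⟨⟨0, 1, 1⟩, ⟨98, 99, 147⟩, ⟨4050, 7026, 30000⟩, ⟨1037, 1200, 1000⟩⟩ (tC15.hDen true) :=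
  posD_of_check (c := ⟨51, ⟨1, 0, 2, 1⟩⟩) (by decide +kernel)

def tC15_ev0 : PosD ⟨⟨0, 1, 1⟩, ⟨98, 99, 147⟩, ⟨4050, 7026, 30000⟩, ⟨1037, 1200, 1000⟩⟩ (tC15.hEv false) :=
  posD_of_check (c := ⟨218, ⟨4, 2, 8, 4⟩⟩) (by decide +kernel)

def tC15_zL0 : PosD ⟨⟨0, 1, 1⟩, ⟨98, 99, 147⟩, ⟨4050, 7026, 30000⟩, ⟨1037, 1200, 1000⟩⟩ (tC15.hZL false) :=
  posD_of_check (c := ⟨220, ⟨4, 3, 8, 4⟩⟩) (by decide +kernel)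

def tC15_zU0aa : PosD ⟨⟨0, 1, 1⟩, ⟨98, 99, 147⟩, ⟨4050, 5538, 30000⟩, ⟨1037, 1118, 1000⟩⟩ (tC15.hZU false) :=
  posD_of_check (c := ⟨219, ⟨4, 3, 8, 4⟩⟩) (by decide +kernel)

def tC15_zU0ab : PosD ⟨⟨0, 1, 1⟩, ⟨98, 99, 147⟩, ⟨4050, 5538, 30000⟩, ⟨1118, 1200, 1000⟩⟩ (tC15.hZU false) :=
  posD_of_check (c := ⟨219, ⟨4, 3, 8, 4⟩⟩) (by decide +kernel)

def tC15_zU0a : PosD ⟨⟨0, 1, 1⟩, ⟨98, 99, 147⟩, ⟨4050, 5538, 30000⟩, ⟨1037, 1200, 1000⟩⟩ (tC15.hZU false) :=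
  posD_join₃ tC15_zU0aa tC15_zU0ab

def tC15_zU0b : PosD ⟨⟨0, 1, 1⟩, ⟨98, 99, 147⟩, ⟨5538, 7026, 30000⟩, ⟨1037, 1200, 1000⟩⟩ (tC15.hZU false) :=
  posD_of_check (c := ⟨220, ⟨4, 3, 8, 4⟩⟩) (by decide +kernel)

def tC15_zU0 : PosD ⟨⟨0, 1, 1⟩, ⟨98, 99, 147⟩, ⟨4050, 7026, 30000⟩, ⟨1037, 1200, 1000⟩⟩ (tC15.hZU false) :=
  posD_join₂ tC15_zU0a tC15_zU0b

def tC15_eL0 : PosD ⟨⟨0, 1, 1⟩, ⟨98, 99, 147⟩, ⟨4050, 7026, 30000⟩, ⟨1037, 1200, 1000⟩⟩ (tC15.hEL false) :=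
  posD_of_check (c := ⟨313, ⟨5, 6, 11, 6⟩⟩) (by decide +kernel)

def tC15_eH0 : PosD ⟨⟨0, 1, 1⟩, ⟨98, 99, 147⟩, ⟨4050, 7026, 30000⟩, ⟨1037, 1200, 1000⟩⟩ (tC15.hEH false) :=
  posD_of_check (c := ⟨328, ⟨5, 6, 11, 6⟩⟩) (by decide +kernel)

def tC15_pL0 : PosD ⟨⟨0, 1, 1⟩, ⟨98, 99, 147⟩, ⟨4050, 7026, 30000⟩, ⟨1037, 1200, 1000⟩⟩ (tC15.hPL false) :=
  posD_of_check (c := ⟨338, ⟨5, 6, 11, 7⟩⟩) (by decide +kernel)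

def tC15_pU0 : PosD ⟨⟨0, 1, 1⟩, ⟨98, 99, 147⟩, ⟨4050, 7026, 30000⟩, ⟨1037, 1200, 1000⟩⟩ (tC15.hPU false) :=
  posD_of_check (c := ⟨337, ⟨5, 6, 11, 7⟩⟩) (by decide +kernel)

def tC15_kU0 : PosD ⟨⟨0, 1, 1⟩, ⟨98, 99, 147⟩, ⟨4050, 7026, 30000⟩, ⟨1037, 1200, 1000⟩⟩ (tC15.hKU false) :=
  posD_of_check (c := ⟨334, ⟨5, 6, 11, 7⟩⟩) (by decide +kernel)

def tC15_kL0 : PosD ⟨⟨0, 1, 1⟩, ⟨98, 99, 147⟩, ⟨4050, 7026, 30000⟩, ⟨1037, 1200, 1000⟩⟩ (tC15.hKL false) :=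
  posD_of_check (c := ⟨334, ⟨5, 6, 11, 7⟩⟩) (by decide +kernel)

def tC15_wU0a : PosD ⟨⟨0, 1, 2⟩, ⟨98, 99, 147⟩, ⟨4050, 7026, 30000⟩, ⟨1037, 1200, 1000⟩⟩ (tC15.hWU false) :=
  posD_of_check (c := ⟨373, ⟨5, 8, 12, 7⟩⟩) (by decide +kernel)

def tC15_wU0b : PosD ⟨⟨1, 2, 2⟩, ⟨98, 99, 147⟩, ⟨4050, 7026, 30000⟩, ⟨1037, 1200, 1000⟩⟩ (tC15.hWU false) :=
  posD_of_check (c := ⟨375, ⟨5, 8, 12, 7⟩⟩) (by decide +kernel)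

def tC15_wU0 : PosD ⟨⟨0, 1, 1⟩, ⟨98, 99, 147⟩, ⟨4050, 7026, 30000⟩, ⟨1037, 1200, 1000⟩⟩ (tC15.hWU false) :=
  posD_units (b := ⟨⟨0, 2, 2⟩, ⟨98, 99, 147⟩, ⟨4050, 7026, 30000⟩, ⟨1037, 1200, 1000⟩⟩) (by decide +kernel) (posD_join₀ tC15_wU0a tC15_wU0b)

def tC15_wL0 : PosD ⟨⟨0, 1, 1⟩, ⟨98, 99, 147⟩, ⟨4050, 7026, 30000⟩, ⟨1037, 1200, 1000⟩⟩ (tC15.hWL false) :=
  posD_of_check (c := ⟨369, ⟨5, 8, 12, 7⟩⟩) (by decide +kernel)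

def tC15_ev1 : PosD ⟨⟨0, 1, 1⟩, ⟨98, 99, 147⟩, ⟨4050, 7026, 30000⟩, ⟨1037, 1200, 1000⟩⟩ (tC15.hEv true) :=
  posD_of_check (c := ⟨217, ⟨4, 2, 8, 4⟩⟩) (by decide +kernel)

def tC15_zL1a : PosD ⟨⟨0, 1, 1⟩, ⟨98, 99, 147⟩, ⟨4050, 5538, 30000⟩, ⟨1037, 1200, 1000⟩⟩ (tC15.hZL true) :=
  posD_of_check (c := ⟨218, ⟨4, 3, 8, 4⟩⟩) (by decide +kernel)

def tC15_zL1b : PosD ⟨⟨0, 1, 1⟩, ⟨98, 99, 147⟩, ⟨5538, 7026, 30000⟩, ⟨1037, 1200, 1000⟩⟩ (tC15.hZL true) :=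
  posD_of_check (c := ⟨219, ⟨4, 3, 8, 4⟩⟩) (by decide +kernel)

def tC15_zL1 : PosD ⟨⟨0, 1, 1⟩, ⟨98, 99, 147⟩, ⟨4050, 7026, 30000⟩, ⟨1037, 1200, 1000⟩⟩ (tC15.hZL true) :=
  posD_join₂ tC15_zL1a tC15_zL1b

def tC15_zU1 : PosD ⟨⟨0, 1, 1⟩, ⟨98, 99, 147⟩, ⟨4050, 7026, 30000⟩, ⟨1037, 1200, 1000⟩⟩ (tC15.hZU true) :=
  posD_of_check (c := ⟨219, ⟨4, 3, 8, 4⟩⟩) (by decide +kernel)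

def tC15_eL1 : PosD ⟨⟨0, 1, 1⟩, ⟨98, 99, 147⟩, ⟨4050, 7026, 30000⟩, ⟨1037, 1200, 1000⟩⟩ (tC15.hEL true) :=
  posD_of_check (c := ⟨312, ⟨5, 6, 11, 6⟩⟩) (by decide +kernel)

def tC15_eH1a : PosD ⟨⟨0, 1, 2⟩, ⟨98, 99, 147⟩, ⟨4050, 7026, 30000⟩, ⟨1037, 1200, 1000⟩⟩ (tC15.hEH true) :=
  posD_of_check (c := ⟨329, ⟨5, 6, 11, 6⟩⟩) (by decide +kernel)

def tC15_eH1b : PosD ⟨⟨1, 2, 2⟩, ⟨98, 99, 147⟩, ⟨4050, 7026, 30000⟩, ⟨1037, 1200, 1000⟩⟩ (tC15.hEH true) :=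
  posD_of_check (c := ⟨331, ⟨5, 6, 11, 6⟩⟩) (by decide +kernel)

def tC15_eH1 : PosD ⟨⟨0, 1, 1⟩, ⟨98, 99, 147⟩, ⟨4050, 7026, 30000⟩, ⟨1037, 1200, 1000⟩⟩ (tC15.hEH true) :=
  posD_units (b := ⟨⟨0, 2, 2⟩, ⟨98, 99, 147⟩, ⟨4050, 7026, 30000⟩, ⟨1037, 1200, 1000⟩⟩) (by decide +kernel) (posD_join₀ tC15_eH1a tC15_eH1b)

def tC15_pL1 : PosD ⟨⟨0, 1, 1⟩, ⟨98, 99, 147⟩, ⟨4050, 7026, 30000⟩, ⟨1037, 1200, 1000⟩⟩ (tC15.hPL true) :=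
  posD_of_check (c := ⟨337, ⟨5, 6, 11, 7⟩⟩) (by decide +kernel)

def tC15_pU1a : PosD ⟨⟨0, 1, 2⟩, ⟨98, 99, 147⟩, ⟨4050, 7026, 30000⟩, ⟨1037, 1200, 1000⟩⟩ (tC15.hPU true) :=
  posD_of_check (c := ⟨340, ⟨5, 6, 11, 7⟩⟩) (by decide +kernel)

def tC15_pU1b : PosD ⟨⟨1, 2, 2⟩, ⟨98, 99, 147⟩, ⟨4050, 7026, 30000⟩, ⟨1037, 1200, 1000⟩⟩ (tC15.hPU true) :=
  posD_of_check (c := ⟨342, ⟨5, 6, 11, 7⟩⟩) (by decide +kernel)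

def tC15_pU1 : PosD ⟨⟨0, 1, 1⟩, ⟨98, 99, 147⟩, ⟨4050, 7026, 30000⟩, ⟨1037, 1200, 1000⟩⟩ (tC15.hPU true) :=
  posD_units (b := ⟨⟨0, 2, 2⟩, ⟨98, 99, 147⟩, ⟨4050, 7026, 30000⟩, ⟨1037, 1200, 1000⟩⟩) (by decide +kernel) (posD_join₀ tC15_pU1a tC15_pU1b)

def tC15_kU1 : PosD ⟨⟨0, 1, 1⟩, ⟨98, 99, 147⟩, ⟨4050, 7026, 30000⟩, ⟨1037, 1200, 1000⟩⟩ (tC15.hKU true) :=
  posD_of_check (c := ⟨333, ⟨5, 6, 11, 7⟩⟩) (by decide +kernel)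

def tC15_kL1 : PosD ⟨⟨0, 1, 1⟩, ⟨98, 99, 147⟩, ⟨4050, 7026, 30000⟩, ⟨1037, 1200, 1000⟩⟩ (tC15.hKL true) :=
  posD_of_check (c := ⟨333, ⟨5, 6, 11, 7⟩⟩) (by decide +kernel)

def tC15_wU1a : PosD ⟨⟨0, 1, 2⟩, ⟨98, 99, 147⟩, ⟨4050, 7026, 30000⟩, ⟨1037, 1200, 1000⟩⟩ (tC15.hWU true) :=
  posD_of_check (c := ⟨372, ⟨5, 8, 12, 7⟩⟩) (by decide +kernel)

def tC15_wU1b : PosD ⟨⟨1, 2, 2⟩, ⟨98, 99, 147⟩, ⟨4050, 7026, 30000⟩, ⟨1037, 1200, 1000⟩⟩ (tC15.hWU true) :=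
  posD_of_check (c := ⟨374, ⟨5, 8, 12, 7⟩⟩) (by decide +kernel)

def tC15_wU1 : PosD ⟨⟨0, 1, 1⟩, ⟨98, 99, 147⟩, ⟨4050, 7026, 30000⟩, ⟨1037, 1200, 1000⟩⟩ (tC15.hWU true) :=
  posD_units (b := ⟨⟨0, 2, 2⟩, ⟨98, 99, 147⟩, ⟨4050, 7026, 30000⟩, ⟨1037, 1200, 1000⟩⟩) (by decide +kernel) (posD_join₀ tC15_wU1a tC15_wU1b)

def tC15_wL1 : PosD ⟨⟨0, 1, 1⟩, ⟨98, 99, 147⟩, ⟨4050, 7026, 30000⟩, ⟨1037, 1200, 1000⟩⟩ (tC15.hWL true) :=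
  posD_of_check (c := ⟨368, ⟨5, 8, 12, 7⟩⟩) (by decide +kernel)

def tC15_mueH : PosD ⟨⟨0, 1, 1⟩, ⟨98, 99, 147⟩, ⟨4050, 7026, 30000⟩, ⟨1037, 1200, 1000⟩⟩ (tC15.eH.μ) :=
  posD_of_check (c := ⟨16, ⟨0, 0, 0, 0⟩⟩) (by decide +kernel)

/-- The bounds of the piece. -/
def tC15_env : tC15.Env ⟨⟨0, 1, 1⟩, ⟨98, 99, 147⟩, ⟨4050, 7026, 30000⟩, ⟨1037, 1200, 1000⟩⟩ :=
  ⟨tC15_p0, Bool.forall_bool.2 ⟨tC15_den0, tC15_den1⟩, tC15_gn, Bool.forall_bool.2 ⟨tC15_ev0, tC15_ev1⟩, Bool.forall_bool.2 ⟨tC15_zL0, tC15_zL1⟩, Bool.forall_bool.2 ⟨tC15_zU0, tC15_zU1⟩, Bool.forall_bool.2 ⟨tC15_eL0, tC15_eL1⟩, ⟨.inr rfl, .inr rfl⟩, Bool.forall_bool.2 ⟨tC15_eH0, tC15_eH1⟩, ⟨.inl tC15_mueH, .inr rfl⟩, Bool.forall_bool.2 ⟨tC15_pL0, tC15_pL1⟩, ⟨.inr rfl,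 .inr rfl⟩, Bool.forall_bool.2 ⟨tC15_pU0, tC15_pU1⟩, ⟨.inr rfl, .inr rfl⟩, Bool.forall_bool.2 ⟨tC15_kU0, tC15_kU1⟩, ⟨.inr rfl, .inr rfl⟩, Bool.forall_bool.2 ⟨tC15_kL0, tC15_kL1⟩, ⟨.inr rfl, .inr rfl⟩, Bool.forall_bool.2 ⟨tC15_wU0, tC15_wU1⟩, ⟨.inr rfl, .inr rfl⟩, Bool.forall_bool.2 ⟨tC15_wL0, tC15_wL1⟩, ⟨.inr rfl, .inr rfl⟩⟩

def tC15_pp : PosD ⟨⟨0, 1, 1⟩, ⟨98, 99, 147⟩, ⟨4050, 7026, 30000⟩, ⟨1037, 1200, 1000⟩⟩ (tC15.xPL) :=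
  posD_of_check (c := ⟨95, ⟨1, 1, 3, 3⟩⟩) (by decide +kernel)

def tC15_k2p : PosD ⟨⟨0, 1, 1⟩, ⟨98, 99, 147⟩, ⟨4050, 7026, 30000⟩, ⟨1037, 1200, 1000⟩⟩ (tC15.k2p tC15.xE) :=
  posD_of_check (c := ⟨69, ⟨1, 1, 2, 2⟩⟩) (by decide +kernel)

def tC15_k2m : PosD ⟨⟨0, 1, 1⟩, ⟨98, 99, 147⟩, ⟨4050, 7026, 30000⟩, ⟨1037, 1200, 1000⟩⟩ (tC15.k2m tC15.xE) :=
  posD_of_check (c := ⟨71, ⟨1, 1, 2, 2⟩⟩) (by decide +kernel)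

def tC15_v2p : PosD ⟨⟨0, 1, 1⟩, ⟨98, 99, 147⟩, ⟨4050, 7026, 30000⟩, ⟨1037, 1200, 1000⟩⟩ (tC15.hV2p) :=
  posD_of_check (c := ⟨269, ⟨1, 6, 10, 5⟩⟩) (by decide +kernel)

def tC15_v2m : PosD ⟨⟨0, 1, 1⟩, ⟨98, 99, 147⟩, ⟨4050, 7026, 30000⟩, ⟨1037, 1200, 1000⟩⟩ (tC15.hV2m) :=
  posD_of_check (c := ⟨271, ⟨1, 6, 10, 5⟩⟩) (by decide +kernel)

def tC15_v3p : PosD ⟨⟨0, 1, 1⟩, ⟨98, 99, 147⟩, ⟨4050, 7026, 30000⟩, ⟨1037, 1200, 1000⟩⟩ (tC15.hV3p) :=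
  posD_of_check (c := ⟨254, ⟨1, 6, 9, 5⟩⟩) (by decide +kernel)

def tC15_v3m : PosD ⟨⟨0, 1, 1⟩, ⟨98, 99, 147⟩, ⟨4050, 7026, 30000⟩, ⟨1037, 1200, 1000⟩⟩ (tC15.hV3m) :=
  posD_of_check (c := ⟨256, ⟨1, 6, 9, 5⟩⟩) (by decide +kernel)

def tC15_kap0 : PosD ⟨⟨0, 1, 1⟩, ⟨98, 99, 147⟩, ⟨4050, 7026, 30000⟩, ⟨1037, 1200, 1000⟩⟩ (tC15.kap false) :=
  posD_of_check (c := ⟨69, ⟨1, 1, 2, 2⟩⟩) (by decide +kernel)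

def tC15_c10 : PosD ⟨⟨0, 1, 1⟩, ⟨98, 99, 147⟩, ⟨4050, 7026, 30000⟩, ⟨1037, 1200, 1000⟩⟩ (tC15.hC1 false) :=
  posD_of_check (c := ⟨272, ⟨3, 5, 9, 7⟩⟩) (by decide +kernel)

def tC15_c1h0 : PosD ⟨⟨0, 1, 1⟩, ⟨98, 99, 147⟩, ⟨4050, 7026, 30000⟩, ⟨1037, 1200, 1000⟩⟩ (tC15.hC1' false) :=
  posD_of_check (c := ⟨272, ⟨3, 5, 9, 7⟩⟩) (by decide +kernel)

def tC15_tg00 : PosD ⟨⟨0, 1, 1⟩, ⟨98, 99, 147⟩, ⟨4050, 7026, 30000⟩, ⟨1037, 1200, 1000⟩⟩ (tC15.hG false (tC15.pEnd false)) :=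
  posD_of_check (c := ⟨386, ⟨2, 7, 14, 9⟩⟩) (by decide +kernel)

def tC15_c2p00 : PosD ⟨⟨0, 1, 1⟩, ⟨98, 99, 147⟩, ⟨4050, 7026, 30000⟩, ⟨1037, 1200, 1000⟩⟩ (tC15.hC2p false (tC15.pEnd false)) :=
  posD_of_check (c := ⟨455, ⟨3, 8, 16, 11⟩⟩) (by decide +kernel)

def tC15_c2m00 : PosD ⟨⟨0, 1, 1⟩, ⟨98, 99, 147⟩, ⟨4050, 7026, 30000⟩, ⟨1037, 1200, 1000⟩⟩ (tC15.hC2m false (tC15.pEnd false)) :=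
  posD_of_check (c := ⟨457, ⟨3, 8, 16, 11⟩⟩) (by decide +kernel)

def tC15_c3p00 : PosD ⟨⟨0, 1, 1⟩, ⟨98, 99, 147⟩, ⟨4050, 7026, 30000⟩, ⟨1037, 1200, 1000⟩⟩ (tC15.hC3p false false) :=
  posD_of_check (c := ⟨442, ⟨3, 8, 15, 11⟩⟩) (by decide +kernel)

def tC15_c3m00 : PosD ⟨⟨0, 1, 1⟩, ⟨98, 99, 147⟩, ⟨4050, 7026, 30000⟩, ⟨1037, 1200, 1000⟩⟩ (tC15.hC3m false false) :=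
  posD_of_check (c := ⟨443, ⟨3, 8, 15, 11⟩⟩) (by decide +kernel)

def tC15_c3ph00 : PosD ⟨⟨0, 1, 1⟩, ⟨98, 99, 147⟩, ⟨4050, 7026, 30000⟩, ⟨1037, 1200, 1000⟩⟩ (tC15.hC3p' false false) :=
  posD_of_check (c := ⟨442, ⟨3, 8, 15, 11⟩⟩) (by decide +kernel)

def tC15_c3mh00 : PosD ⟨⟨0, 1, 1⟩, ⟨98, 99, 147⟩, ⟨4050, 7026, 30000⟩, ⟨1037, 1200, 1000⟩⟩ (tC15.hC3m' false false) :=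
  posD_of_check (c := ⟨443, ⟨3, 8, 15, 11⟩⟩) (by decide +kernel)

def tC15_up00 : PosD ⟨⟨0, 1, 1⟩, ⟨98, 99, 147⟩, ⟨4050, 7026, 30000⟩, ⟨1037, 1200, 1000⟩⟩ (tC15.hUp false false) :=
  posD_of_check (c := ⟨441, ⟨3, 8, 15, 11⟩⟩) (by decide +kernel)

def tC15_um00 : PosD ⟨⟨0, 1, 1⟩, ⟨98, 99, 147⟩, ⟨4050, 7026, 30000⟩, ⟨1037, 1200, 1000⟩⟩ (tC15.hUm false false) :=
  posD_of_check (c := ⟨442, ⟨3, 8, 15, 11⟩⟩) (by decide +kernel)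

def tC15_tmg00 : PosD ⟨⟨0, 1, 1⟩, ⟨98, 99, 147⟩, ⟨4050, 7026, 30000⟩, ⟨1037, 1200, 1000⟩⟩ (tC15.hTMG false (tC15.pEnd false)) :=
  posD_of_check (c := ⟨400, ⟨2, 7, 14, 10⟩⟩) (by decide +kernel)

def tC15_tg01 : PosD ⟨⟨0, 1, 1⟩, ⟨98, 99, 147⟩, ⟨4050, 7026, 30000⟩, ⟨1037, 1200, 1000⟩⟩ (tC15.hG true (tC15.pEnd false)) :=
  posD_of_check (c := ⟨386, ⟨2, 7, 14, 9⟩⟩) (by decide +kernel)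

def tC15_c2p01 : PosD ⟨⟨0, 1, 1⟩, ⟨98, 99, 147⟩, ⟨4050, 7026, 30000⟩, ⟨1037, 1200, 1000⟩⟩ (tC15.hC2p true (tC15.pEnd false)) :=
  posD_of_check (c := ⟨455, ⟨3, 8, 16, 11⟩⟩) (by decide +kernel)

def tC15_c2m01 : PosD ⟨⟨0, 1, 1⟩, ⟨98, 99, 147⟩, ⟨4050, 7026, 30000⟩, ⟨1037, 1200, 1000⟩⟩ (tC15.hC2m true (tC15.pEnd false)) :=
  posD_of_check (c := ⟨457, ⟨3, 8, 16, 11⟩⟩) (by decide +kernel)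

def tC15_c3p01 : PosD ⟨⟨0, 1, 1⟩, ⟨98, 99, 147⟩, ⟨4050, 7026, 30000⟩, ⟨1037, 1200, 1000⟩⟩ (tC15.hC3p false true) :=
  posD_of_check (c := ⟨442, ⟨3, 8, 15, 11⟩⟩) (by decide +kernel)

def tC15_c3m01 : PosD ⟨⟨0, 1, 1⟩, ⟨98, 99, 147⟩, ⟨4050, 7026, 30000⟩, ⟨1037, 1200, 1000⟩⟩ (tC15.hC3m false true) :=
  posD_of_check (c := ⟨443, ⟨3, 8, 15, 11⟩⟩) (by decide +kernel)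

def tC15_c3ph01 : PosD ⟨⟨0, 1, 1⟩, ⟨98, 99, 147⟩, ⟨4050, 7026, 30000⟩, ⟨1037, 1200, 1000⟩⟩ (tC15.hC3p' false true) :=
  posD_of_check (c := ⟨442, ⟨3, 8, 15, 11⟩⟩) (by decide +kernel)

def tC15_c3mh01 : PosD ⟨⟨0, 1, 1⟩, ⟨98, 99, 147⟩, ⟨4050, 7026, 30000⟩, ⟨1037, 1200, 1000⟩⟩ (tC15.hC3m' false true) :=
  posD_of_check (c := ⟨443, ⟨3, 8, 15, 11⟩⟩) (by decide +kernel)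

def tC15_up01 : PosD ⟨⟨0, 1, 1⟩, ⟨98, 99, 147⟩, ⟨4050, 7026, 30000⟩, ⟨1037, 1200, 1000⟩⟩ (tC15.hUp false true) :=
  posD_of_check (c := ⟨441, ⟨3, 8, 15, 11⟩⟩) (by decide +kernel)

def tC15_um01 : PosD ⟨⟨0, 1, 1⟩, ⟨98, 99, 147⟩, ⟨4050, 7026, 30000⟩, ⟨1037, 1200, 1000⟩⟩ (tC15.hUm false true) :=
  posD_of_check (c := ⟨442, ⟨3, 8, 15, 11⟩⟩) (by decide +kernel)

def tC15_tmg01 : PosD ⟨⟨0, 1, 1⟩, ⟨98, 99, 147⟩, ⟨4050, 7026, 30000⟩, ⟨1037, 1200, 1000⟩⟩ (tC15.hTMG true (tC15.pEnd false)) :=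
  posD_of_check (c := ⟨400, ⟨2, 7, 14, 10⟩⟩) (by decide +kernel)

def tC15_kap1 : PosD ⟨⟨0, 1, 1⟩, ⟨98, 99, 147⟩, ⟨4050, 7026, 30000⟩, ⟨1037, 1200, 1000⟩⟩ (tC15.kap true) :=
  posD_of_check (c := ⟨27, ⟨0, 0, 1, 1⟩⟩) (by decide +kernel)

def tC15_c11 : PosD ⟨⟨0, 1, 1⟩, ⟨98, 99, 147⟩, ⟨4050, 7026, 30000⟩, ⟨1037, 1200, 1000⟩⟩ (tC15.hC1 true) :=
  posD_of_check (c := ⟨270, ⟨2, 5, 9, 7⟩⟩) (by decide +kernel)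

def tC15_c1h1 : PosD ⟨⟨0, 1, 1⟩, ⟨98, 99, 147⟩, ⟨4050, 7026, 30000⟩, ⟨1037, 1200, 1000⟩⟩ (tC15.hC1' true) :=
  posD_of_check (c := ⟨270, ⟨2, 5, 9, 7⟩⟩) (by decide +kernel)

def tC15_tg10 : PosD ⟨⟨0, 1, 1⟩, ⟨98, 99, 147⟩, ⟨4050, 7026, 30000⟩, ⟨1037, 1200, 1000⟩⟩ (tC15.hG false (tC15.pEnd true)) :=
  posD_of_check (c := ⟨385, ⟨2, 7, 14, 9⟩⟩) (by decide +kernel)

def tC15_c2p10 : PosD ⟨⟨0, 1, 1⟩, ⟨98, 99, 147⟩, ⟨4050, 7026, 30000⟩, ⟨1037, 1200, 1000⟩⟩ (tC15.hC2p false (tC15.pEnd true)) :=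
  posD_of_check (c := ⟨454, ⟨3, 8, 16, 11⟩⟩) (by decide +kernel)

def tC15_c2m10 : PosD ⟨⟨0, 1, 1⟩, ⟨98, 99, 147⟩, ⟨4050, 7026, 30000⟩, ⟨1037, 1200, 1000⟩⟩ (tC15.hC2m false (tC15.pEnd true)) :=
  posD_of_check (c := ⟨456, ⟨3, 8, 16, 11⟩⟩) (by decide +kernel)

def tC15_c3p10 : PosD ⟨⟨0, 1, 1⟩, ⟨98, 99, 147⟩, ⟨4050, 7026, 30000⟩, ⟨1037, 1200, 1000⟩⟩ (tC15.hC3p true false) :=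
  posD_of_check (c := ⟨440, ⟨3, 8, 15, 11⟩⟩) (by decide +kernel)

def tC15_c3m10 : PosD ⟨⟨0, 1, 1⟩, ⟨98, 99, 147⟩, ⟨4050, 7026, 30000⟩, ⟨1037, 1200, 1000⟩⟩ (tC15.hC3m true false) :=
  posD_of_check (c := ⟨441, ⟨3, 8, 15, 11⟩⟩) (by decide +kernel)

def tC15_c3ph10 : PosD ⟨⟨0, 1, 1⟩, ⟨98, 99, 147⟩, ⟨4050, 7026, 30000⟩, ⟨1037, 1200, 1000⟩⟩ (tC15.hC3p' true false) :=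
  posD_of_check (c := ⟨440, ⟨3, 8, 15, 11⟩⟩) (by decide +kernel)

def tC15_c3mh10 : PosD ⟨⟨0, 1, 1⟩, ⟨98, 99, 147⟩, ⟨4050, 7026, 30000⟩, ⟨1037, 1200, 1000⟩⟩ (tC15.hC3m' true false) :=
  posD_of_check (c := ⟨441, ⟨3, 8, 15, 11⟩⟩) (by decide +kernel)

def tC15_up10 : PosD ⟨⟨0, 1, 1⟩, ⟨98, 99, 147⟩, ⟨4050, 7026, 30000⟩, ⟨1037, 1200, 1000⟩⟩ (tC15.hUp true false) :=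
  posD_of_check (c := ⟨440, ⟨3, 8, 15, 11⟩⟩) (by decide +kernel)

def tC15_um10 : PosD ⟨⟨0, 1, 1⟩, ⟨98, 99, 147⟩, ⟨4050, 7026, 30000⟩, ⟨1037, 1200, 1000⟩⟩ (tC15.hUm true false) :=
  posD_of_check (c := ⟨441, ⟨3, 8, 15, 11⟩⟩) (by decide +kernel)

def tC15_tmg10 : PosD ⟨⟨0, 1, 1⟩, ⟨98, 99, 147⟩, ⟨4050, 7026, 30000⟩, ⟨1037, 1200, 1000⟩⟩ (tC15.hTMG false (tC15.pEnd true)) :=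
  posD_of_check (c := ⟨399, ⟨2, 7, 14, 10⟩⟩) (by decide +kernel)

def tC15_tg11 : PosD ⟨⟨0, 1, 1⟩, ⟨98, 99, 147⟩, ⟨4050, 7026, 30000⟩, ⟨1037, 1200, 1000⟩⟩ (tC15.hG true (tC15.pEnd true)) :=
  posD_of_check (c := ⟨385, ⟨2, 7, 14, 9⟩⟩) (by decide +kernel)

def tC15_c2p11 : PosD ⟨⟨0, 1, 1⟩, ⟨98, 99, 147⟩, ⟨4050, 7026, 30000⟩, ⟨1037, 1200, 1000⟩⟩ (tC15.hC2p true (tC15.pEnd true)) :=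
  posD_of_check (c := ⟨454, ⟨3, 8, 16, 11⟩⟩) (by decide +kernel)

def tC15_c2m11 : PosD ⟨⟨0, 1, 1⟩, ⟨98, 99, 147⟩, ⟨4050, 7026, 30000⟩, ⟨1037, 1200, 1000⟩⟩ (tC15.hC2m true (tC15.pEnd true)) :=
  posD_of_check (c := ⟨456, ⟨3, 8, 16, 11⟩⟩) (by decide +kernel)

def tC15_c3p11 : PosD ⟨⟨0, 1, 1⟩, ⟨98, 99, 147⟩, ⟨4050, 7026, 30000⟩, ⟨1037, 1200, 1000⟩⟩ (tC15.hC3p true true) :=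
  posD_of_check (c := ⟨440, ⟨3, 8, 15, 11⟩⟩) (by decide +kernel)

def tC15_c3m11 : PosD ⟨⟨0, 1, 1⟩, ⟨98, 99, 147⟩, ⟨4050, 7026, 30000⟩, ⟨1037, 1200, 1000⟩⟩ (tC15.hC3m true true) :=
  posD_of_check (c := ⟨441, ⟨3, 8, 15, 11⟩⟩) (by decide +kernel)

def tC15_c3ph11 : PosD ⟨⟨0, 1, 1⟩, ⟨98, 99, 147⟩, ⟨4050, 7026, 30000⟩, ⟨1037, 1200, 1000⟩⟩ (tC15.hC3p' true true) :=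
  posD_of_check (c := ⟨440, ⟨3, 8, 15, 11⟩⟩) (by decide +kernel)

def tC15_c3mh11 : PosD ⟨⟨0, 1, 1⟩, ⟨98, 99, 147⟩, ⟨4050, 7026, 30000⟩, ⟨1037, 1200, 1000⟩⟩ (tC15.hC3m' true true) :=
  posD_of_check (c := ⟨441, ⟨3, 8, 15, 11⟩⟩) (by decide +kernel)

def tC15_up11 : PosD ⟨⟨0, 1, 1⟩, ⟨98, 99, 147⟩, ⟨4050, 7026, 30000⟩, ⟨1037, 1200, 1000⟩⟩ (tC15.hUp true true) :=
  posD_of_check (c := ⟨440, ⟨3, 8, 15, 11⟩⟩) (by decide +kernel)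

def tC15_um11 : PosD ⟨⟨0, 1, 1⟩, ⟨98, 99, 147⟩, ⟨4050, 7026, 30000⟩, ⟨1037, 1200, 1000⟩⟩ (tC15.hUm true true) :=
  posD_of_check (c := ⟨441, ⟨3, 8, 15, 11⟩⟩) (by decide +kernel)

def tC15_tmg11 : PosD ⟨⟨0, 1, 1⟩, ⟨98, 99, 147⟩, ⟨4050, 7026, 30000⟩, ⟨1037, 1200, 1000⟩⟩ (tC15.hTMG true (tC15.pEnd true)) :=
  posD_of_check (c := ⟨399, ⟨2, 7, 14, 10⟩⟩) (by decide +kernel)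

/-- The signs of the piece. -/
def tC15_sign : tC15.Sign ⟨⟨0, 1, 1⟩, ⟨98, 99, 147⟩, ⟨4050, 7026, 30000⟩, ⟨1037, 1200, 1000⟩⟩ :=
  ⟨tC15_pp,
    tC15_k2p,
    tC15_k2m,
    Bool.forall_bool.2 ⟨(Bool.forall_bool.2 ⟨tC15_tg00, tC15_tg01⟩), (Bool.forall_bool.2 ⟨tC15_tg10, tC15_tg11⟩)⟩,
    Bool.forall_bool.2 ⟨(Bool.forall_bool.2 ⟨tC15_c2p00, tC15_c2p01⟩), (Bool.forall_bool.2 ⟨tC15_c2p10, tC15_c2p11⟩)⟩,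
    Bool.forall_bool.2 ⟨(Bool.forall_bool.2 ⟨tC15_c2m00, tC15_c2m01⟩), (Bool.forall_bool.2 ⟨tC15_c2m10, tC15_c2m11⟩)⟩,
    Bool.forall_bool.2 ⟨tC15_kap0, tC15_kap1⟩,
    Bool.forall_bool.2 ⟨tC15_c10, tC15_c11⟩,
    Bool.forall_bool.2 ⟨(Bool.forall_bool.2 ⟨tC15_c3p00, tC15_c3p01⟩), (Bool.forall_bool.2 ⟨tC15_c3p10, tC15_c3p11⟩)⟩,
    Bool.forall_bool.2 ⟨(Bool.forall_bool.2 ⟨tC15_c3m00, tC15_c3m01⟩), (Bool.forall_bool.2 ⟨tC15_c3m10, tC15_c3m11⟩)⟩,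
    Bool.forall_bool.2 ⟨(Bool.forall_bool.2 ⟨tC15_tmg00, tC15_tmg01⟩), (Bool.forall_bool.2 ⟨tC15_tmg10, tC15_tmg11⟩)⟩,
    .inr (Bool.forall_bool.2 ⟨⟨tC15_c1h0, Bool.forall_bool.2 ⟨⟨tC15_c3ph00, tC15_c3mh00, tC15_up00, tC15_um00⟩, ⟨tC15_c3ph01, tC15_c3mh01, tC15_up01, tC15_um01⟩⟩⟩, ⟨tC15_c1h1, Bool.forall_bool.2 ⟨⟨tC15_c3ph10, tC15_c3mh10, tC15_up10, tC15_um10⟩, ⟨tC15_c3ph11, tC15_c3mh11, tC15_up11, tC15_um11⟩⟩⟩⟩),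
    tC15_v2p,
    tC15_v2m,
    tC15_v3p,
    tC15_v3m,
    posD_sub (b := ⟨⟨0, 1, 1⟩, ⟨98, 99, 147⟩, ⟨4050, 10000, 30000⟩, ⟨290, 4000, 1000⟩⟩) (by decide +kernel) tC_vG,
    posD_sub (b := ⟨⟨0, 1, 1⟩, ⟨98, 99, 147⟩, ⟨4050, 10000, 30000⟩, ⟨290, 4000, 1000⟩⟩) (by decide +kernel) tC_vMG,
    posD_sub (b := ⟨⟨0, 1, 1⟩, ⟨98, 99, 147⟩, ⟨4050, 10000, 30000⟩, ⟨290, 4000, 1000⟩⟩) (by decide +kernel) tC_ak,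
    posD_sub (b := ⟨⟨0, 1, 1⟩, ⟨98, 99, 147⟩, ⟨4050, 10000, 30000⟩, ⟨290, 4000, 1000⟩⟩) (by decide +kernel) tC_aw,
    posD_sub (b := ⟨⟨0, 1, 1⟩, ⟨98, 99, 147⟩, ⟨4050, 10000, 30000⟩, ⟨290, 4000, 1000⟩⟩) (by decide +kernel) tC_gk,
    posD_sub (b := ⟨⟨0, 1, 1⟩, ⟨98, 99, 147⟩, ⟨4050, 10000, 30000⟩, ⟨290, 4000, 1000⟩⟩) (by decide +kernel) tC_gw,
    posD_sub (b := ⟨⟨0, 1, 1⟩, ⟨98, 99, 147⟩, ⟨4050, 10000, 30000⟩, ⟨290, 4000, 1000⟩⟩) (by decide +kernel) tC_ek,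
    posD_sub (b := ⟨⟨0, 1, 1⟩, ⟨98, 99, 147⟩, ⟨4050, 10000, 30000⟩, ⟨290, 4000, 1000⟩⟩) (by decide +kernel) tC_ew⟩

end Vale.Agent.P100.Calib.Closed.Six.Tail
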