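import Vale.Agent.P100.Calib.SlabSixTailDataC
import Vale.Agent.P100.Calib.SlabSixTailGlobC

/-!
# Checks of some pieces of the certificate

The checks are written as definitions so that they run one after another, which keeps the memory of the
kernel low.
-/

set_option linter.defProp false

namespace Vale.Agent.P100.Calib.Closed.Six.Tail

open BoxPos Large

local instance sixTailCheckstC50Add : Add Ex := ⟨Ex.add⟩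
local instance sixTailCheckstC50Sub : Sub Ex := ⟨Ex.sub⟩
local instance sixTailCheckstC50Mul : Mul Ex := ⟨Ex.mul⟩

def tC76_phx : PosIf ⟨⟨0, 1, 1⟩, ⟨98, 99, 147⟩, ⟨8514, 8886, 30000⟩, ⟨1599, 1669, 1000⟩⟩ (tC76.u₁ - tC76Lo) (phCn (tC76.u₁ + xO * (tC76Lo - tC76.u₁))) :=
  posIf_of_posD (posD_of_check (c := ⟨109, ⟨2, 0, 4, 2⟩⟩) (by decide +kernel))

def tC76_phd : PosD ⟨⟨0, 1, 1⟩, ⟨98, 99, 147⟩, ⟨8514, 8886, 30000⟩, ⟨1599, 1669, 1000⟩⟩ (phCd (tC76.u₁ + xO * (tC76Lo - tC76.u₁))) :=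
  posD_of_check (c := ⟨51, ⟨1, 0, 2, 1⟩⟩) (by decide +kernel)

def tC76_p0 : PosD ⟨⟨0, 1, 1⟩, ⟨98, 99, 147⟩, ⟨8514, 8886, 30000⟩, ⟨1599, 1669, 1000⟩⟩ (tC76.hP0) :=
  posD_of_check (c := ⟨83, ⟨0, 2, 3, 1⟩⟩) (by decide +kernel)

def tC76_gn : PosD ⟨⟨0, 1, 1⟩, ⟨98, 99, 147⟩, ⟨8514, 8886, 30000⟩, ⟨1599, 1669, 1000⟩⟩ (tC76.hGn) :=
  posD_of_check (c := ⟨69, ⟨1, 1, 2, 2⟩⟩) (by decide +kernel)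

def tC76_den0 : PosD ⟨⟨0, 1, 1⟩, ⟨98, 99, 147⟩, ⟨8514, 8886, 30000⟩, ⟨1599, 1669, 1000⟩⟩ (tC76.hDen false) :=
  posD_of_check (c := ⟨51, ⟨1, 0, 2, 1⟩⟩) (by decide +kernel)

def tC76_den1 : PosD ⟨⟨0, 1, 1⟩, ⟨98, 99, 147⟩, ⟨8514, 8886, 30000⟩, ⟨1599, 1669, 1000⟩⟩ (tC76.hDen true) :=
  posD_of_check (c := ⟨180, ⟨3, 4, 6, 4⟩⟩) (by decide +kernel)

def tC76_ev0 : PosD ⟨⟨0, 1, 1⟩, ⟨98, 99, 147⟩, ⟨8514, 8886, 30000⟩, ⟨1599, 1669, 1000⟩⟩ (tC76.hEv false) :=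
  posD_of_check (c := ⟨220, ⟨4, 2, 8, 4⟩⟩) (by decide +kernel)

def tC76_zL0 : PosD ⟨⟨0, 1, 1⟩, ⟨98, 99, 147⟩, ⟨8514, 8886, 30000⟩, ⟨1599, 1669, 1000⟩⟩ (tC76.hZL false) :=
  posD_of_check (c := ⟨222, ⟨4, 3, 8, 4⟩⟩) (by decide +kernel)

def tC76_zU0 : PosD ⟨⟨0, 1, 1⟩, ⟨98, 99, 147⟩, ⟨8514, 8886, 30000⟩, ⟨1599, 1669, 1000⟩⟩ (tC76.hZU false) :=
  posD_of_check (c := ⟨222, ⟨4, 3, 8, 4⟩⟩) (by decide +kernel)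

def tC76_eL0 : PosD ⟨⟨0, 1, 1⟩, ⟨98, 99, 147⟩, ⟨8514, 8886, 30000⟩, ⟨1599, 1669, 1000⟩⟩ (tC76.hEL false) :=
  posD_of_check (c := ⟨317, ⟨5, 6, 11, 6⟩⟩) (by decide +kernel)

def tC76_eH0 : PosD ⟨⟨0, 1, 1⟩, ⟨98, 99, 147⟩, ⟨8514, 8886, 30000⟩, ⟨1599, 1669, 1000⟩⟩ (tC76.hEH false) :=
  posD_of_check (c := ⟨349, ⟨5, 6, 11, 7⟩⟩) (by decide +kernel)

def tC76_pL0 : PosD ⟨⟨0, 1, 1⟩, ⟨98, 99, 147⟩, ⟨8514, 8886, 30000⟩, ⟨1599, 1669, 1000⟩⟩ (tC76.hPL false) :=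
  posD_of_check (c := ⟨343, ⟨5, 6, 11, 7⟩⟩) (by decide +kernel)

def tC76_pU0 : PosD ⟨⟨0, 1, 1⟩, ⟨98, 99, 147⟩, ⟨8514, 8886, 30000⟩, ⟨1599, 1669, 1000⟩⟩ (tC76.hPU false) :=
  posD_of_check (c := ⟨340, ⟨5, 6, 11, 7⟩⟩) (by decide +kernel)

def tC76_kU0 : PosD ⟨⟨0, 1, 1⟩, ⟨98, 99, 147⟩, ⟨8514, 8886, 30000⟩, ⟨1599, 1669, 1000⟩⟩ (tC76.hKU false) :=
  posD_of_check (c := ⟨339, ⟨5, 6, 11, 7⟩⟩) (by decide +kernel)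

def tC76_kL0 : PosD ⟨⟨0, 1, 1⟩, ⟨98, 99, 147⟩, ⟨8514, 8886, 30000⟩, ⟨1599, 1669, 1000⟩⟩ (tC76.hKL false) :=
  posD_of_check (c := ⟨337, ⟨5, 6, 11, 7⟩⟩) (by decide +kernel)

def tC76_wU0 : PosD ⟨⟨0, 1, 1⟩, ⟨98, 99, 147⟩, ⟨8514, 8886, 30000⟩, ⟨1599, 1669, 1000⟩⟩ (tC76.hWU false) :=
  posD_of_check (c := ⟨371, ⟨5, 8, 12, 7⟩⟩) (by decide +kernel)

def tC76_wL0 : PosD ⟨⟨0, 1, 1⟩, ⟨98, 99, 147⟩, ⟨8514, 8886, 30000⟩, ⟨1599, 1669, 1000⟩⟩ (tC76.hWL false) :=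
  posD_of_check (c := ⟨383, ⟨5, 8, 12, 7⟩⟩) (by decide +kernel)

def tC76_ev1 : PosD ⟨⟨0, 1, 1⟩, ⟨98, 99, 147⟩, ⟨8514, 8886, 30000⟩, ⟨1599, 1669, 1000⟩⟩ (tC76.hEv true) :=
  posD_of_check (c := ⟨273, ⟨4, 6, 9, 6⟩⟩) (by decide +kernel)

def tC76_zL1 : PosD ⟨⟨0, 1, 1⟩, ⟨98, 99, 147⟩, ⟨8514, 8886, 30000⟩, ⟨1599, 1669, 1000⟩⟩ (tC76.hZL true) :=
  posD_of_check (c := ⟨299, ⟨4, 7, 10, 7⟩⟩) (by decide +kernel)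

def tC76_zU1a : PosD ⟨⟨0, 1, 1⟩, ⟨98, 99, 147⟩, ⟨8514, 8886, 30000⟩, ⟨1599, 1634, 1000⟩⟩ (tC76.hZU true) :=
  posD_of_check (c := ⟨299, ⟨4, 7, 10, 7⟩⟩) (by decide +kernel)

def tC76_zU1b : PosD ⟨⟨0, 1, 1⟩, ⟨98, 99, 147⟩, ⟨8514, 8886, 30000⟩, ⟨1634, 1669, 1000⟩⟩ (tC76.hZU true) :=
  posD_of_check (c := ⟨299, ⟨4, 7, 10, 7⟩⟩) (by decide +kernel)

def tC76_zU1 : PosD ⟨⟨0, 1, 1⟩, ⟨98, 99, 147⟩, ⟨8514, 8886, 30000⟩, ⟨1599, 1669, 1000⟩⟩ (tC76.hZU true) :=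
  posD_join₃ tC76_zU1a tC76_zU1b

def tC76_eL1 : PosD ⟨⟨0, 1, 1⟩, ⟨98, 99, 147⟩, ⟨8514, 8886, 30000⟩, ⟨1599, 1669, 1000⟩⟩ (tC76.hEL true) :=
  posD_of_check (c := ⟨371, ⟨5, 10, 12, 8⟩⟩) (by decide +kernel)

def tC76_eH1 : PosD ⟨⟨0, 1, 1⟩, ⟨98, 99, 147⟩, ⟨8514, 8886, 30000⟩, ⟨1599, 1669, 1000⟩⟩ (tC76.hEH true) :=
  posD_of_check (c := ⟨403, ⟨5, 10, 12, 9⟩⟩) (by decide +kernel)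

def tC76_pL1 : PosD ⟨⟨0, 1, 1⟩, ⟨98, 99, 147⟩, ⟨8514, 8886, 30000⟩, ⟨1599, 1669, 1000⟩⟩ (tC76.hPL true) :=
  posD_of_check (c := ⟨397, ⟨5, 10, 12, 9⟩⟩) (by decide +kernel)

def tC76_pU1 : PosD ⟨⟨0, 1, 1⟩, ⟨98, 99, 147⟩, ⟨8514, 8886, 30000⟩, ⟨1599, 1669, 1000⟩⟩ (tC76.hPU true) :=
  posD_of_check (c := ⟨394, ⟨5, 10, 12, 9⟩⟩) (by decide +kernel)

def tC76_kU1 : PosD ⟨⟨0, 1, 1⟩, ⟨98, 99, 147⟩, ⟨8514, 8886, 30000⟩, ⟨1599, 1669, 1000⟩⟩ (tC76.hKU true) :=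
  posD_of_check (c := ⟨393, ⟨5, 10, 12, 9⟩⟩) (by decide +kernel)

def tC76_kL1 : PosD ⟨⟨0, 1, 1⟩, ⟨98, 99, 147⟩, ⟨8514, 8886, 30000⟩, ⟨1599, 1669, 1000⟩⟩ (tC76.hKL true) :=
  posD_of_check (c := ⟨391, ⟨5, 10, 12, 9⟩⟩) (by decide +kernel)

def tC76_wU1 : PosD ⟨⟨0, 1, 1⟩, ⟨98, 99, 147⟩, ⟨8514, 8886, 30000⟩, ⟨1599, 1669, 1000⟩⟩ (tC76.hWU true) :=
  posD_of_check (c := ⟨424, ⟨5, 12, 13, 9⟩⟩) (by decide +kernel)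

def tC76_wL1 : PosD ⟨⟨0, 1, 1⟩, ⟨98, 99, 147⟩, ⟨8514, 8886, 30000⟩, ⟨1599, 1669, 1000⟩⟩ (tC76.hWL true) :=
  posD_of_check (c := ⟨437, ⟨5, 12, 13, 9⟩⟩) (by decide +kernel)

def tC76_nueH : PosD ⟨⟨0, 1, 1⟩, ⟨98, 99, 147⟩, ⟨8514, 8886, 30000⟩, ⟨1599, 1669, 1000⟩⟩ (tC76.eH.ν) :=
  posD_of_check (c := ⟨48, ⟨0, 0, 1, 1⟩⟩) (by decide +kernel)

def tC76_nuwL : PosD ⟨⟨0, 1, 1⟩, ⟨98, 99, 147⟩, ⟨8514, 8886, 30000⟩, ⟨1599, 1669, 1000⟩⟩ (tC76.wL.ν) :=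
  posD_of_check (c := ⟨52, ⟨0, 0, 1, 1⟩⟩) (by decide +kernel)

/-- The bounds of the piece. -/
def tC76_env : tC76.Env ⟨⟨0, 1, 1⟩, ⟨98, 99, 147⟩, ⟨8514, 8886, 30000⟩, ⟨1599, 1669, 1000⟩⟩ :=
  ⟨tC76_p0, Bool.forall_bool.2 ⟨tC76_den0, tC76_den1⟩, tC76_gn, Bool.forall_bool.2 ⟨tC76_ev0, tC76_ev1⟩, Bool.forall_bool.2 ⟨tC76_zL0, tC76_zL1⟩, Bool.forall_bool.2 ⟨tC76_zU0, tC76_zU1⟩, Bool.forall_bool.2 ⟨tC76_eL0, tC76_eL1⟩, ⟨.inr rfl, .inr rfl⟩, Bool.forall_bool.2 ⟨tC76_eH0, tC76_eH1⟩, ⟨.inr rfl, .inl tC76_nueH⟩, Bool.forall_bool.2 ⟨tC76_pL0, tC76_pL1⟩, ⟨.inr rfl, .inr rfl⟩, Bool.forall_bool.2 ⟨tC76_pU0, tC76_pU1⟩, ⟨.inr rfl, .inr rfl⟩, Bool.forall_bool.2 ⟨tC76_kU0, tC76_kU1⟩, ⟨.inr rfl, .inr rfl⟩, Bool.forall_bool.2 ⟨tC76_kL0, tC76_kL1⟩,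 ⟨.inr rfl, .inr rfl⟩, Bool.forall_bool.2 ⟨tC76_wU0, tC76_wU1⟩, ⟨.inr rfl, .inr rfl⟩, Bool.forall_bool.2 ⟨tC76_wL0, tC76_wL1⟩, ⟨.inr rfl, .inl tC76_nuwL⟩⟩

def tC76_pU20 : PosD ⟨⟨0, 1, 1⟩, ⟨98, 99, 147⟩, ⟨8514, 8886, 30000⟩, ⟨1599, 1669, 1000⟩⟩ (({ tC76 with pU := tC76PU } : Piece).hPU false) :=
  posD_of_check (c := ⟨348, ⟨5, 6, 11, 7⟩⟩) (by decide +kernel)

def tC76_pU21 : PosD ⟨⟨0, 1, 1⟩, ⟨98, 99, 147⟩, ⟨8514, 8886, 30000⟩, ⟨1599, 1669, 1000⟩⟩ (({ tC76 with pU := tC76PU } : Piece).hPU true) :=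
  posD_of_check (c := ⟨401, ⟨5, 10, 12, 9⟩⟩) (by decide +kernel)

def tC76_nupU2 : PosD ⟨⟨0, 1, 1⟩, ⟨98, 99, 147⟩, ⟨8514, 8886, 30000⟩, ⟨1599, 1669, 1000⟩⟩ (tC76PU.ν) :=
  posD_of_check (c := ⟨46, ⟨0, 0, 1, 1⟩⟩) (by decide +kernel)

/-- The bounds with the other bound of `p`. -/
def tC76_envU : ({ tC76 with pU := tC76PU } : Piece).Env ⟨⟨0, 1, 1⟩, ⟨98, 99, 147⟩, ⟨8514, 8886, 30000⟩, ⟨1599, 1669, 1000⟩⟩ :=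
  tC76_env.withU tC76PU (Bool.forall_bool.2 ⟨tC76_pU20, tC76_pU21⟩) ⟨.inr rfl, .inl tC76_nupU2⟩

def tC76A_pp : PosD ⟨⟨0, 1, 1⟩, ⟨98, 99, 147⟩, ⟨8514, 8886, 30000⟩, ⟨1599, 1669, 1000⟩⟩ (tC76A.xPL) :=
  posD_of_check (c := ⟨101, ⟨1, 1, 3, 3⟩⟩) (by decide +kernel)

def tC76A_k2p : PosD ⟨⟨0, 1, 1⟩, ⟨98, 99, 147⟩, ⟨8514, 8886, 30000⟩, ⟨1599, 1669, 1000⟩⟩ (tC76A.k2p tC76A.xE) :=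
  posD_of_check (c := ⟨75, ⟨1, 1, 2, 2⟩⟩) (by decide +kernel)

def tC76A_k2m : PosD ⟨⟨0, 1, 1⟩, ⟨98, 99, 147⟩, ⟨8514, 8886, 30000⟩, ⟨1599, 1669, 1000⟩⟩ (tC76A.k2m tC76A.xE) :=
  posD_of_check (c := ⟨31, ⟨0, 0, 1, 1⟩⟩) (by decide +kernel)

def tC76A_v2p : PosD ⟨⟨0, 1, 1⟩, ⟨98, 99, 147⟩, ⟨8514, 8886, 30000⟩, ⟨1599, 1669, 1000⟩⟩ (tC76A.hV2p) :=
  posD_of_check (c := ⟨276, ⟨1, 6, 10, 5⟩⟩) (by decide +kernel)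

def tC76A_v2m : PosD ⟨⟨0, 1, 1⟩, ⟨98, 99, 147⟩, ⟨8514, 8886, 30000⟩, ⟨1599, 1669, 1000⟩⟩ (tC76A.hV2m) :=
  posD_of_check (c := ⟨245, ⟨0, 5, 10, 4⟩⟩) (by decide +kernel)

def tC76A_v3p : PosD ⟨⟨0, 1, 1⟩, ⟨98, 99, 147⟩, ⟨8514, 8886, 30000⟩, ⟨1599, 1669, 1000⟩⟩ (tC76A.hV3p) :=
  posD_of_check (c := ⟨261, ⟨1, 6, 9, 5⟩⟩) (by decide +kernel)

def tC76A_v3m : PosD ⟨⟨0, 1, 1⟩, ⟨98, 99, 147⟩, ⟨8514, 8886, 30000⟩, ⟨1599, 1669, 1000⟩⟩ (tC76A.hV3m) :=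
  posD_of_check (c := ⟨232, ⟨0, 5, 9, 4⟩⟩) (by decide +kernel)

def tC76A_kap0 : PosD ⟨⟨0, 1, 1⟩, ⟨98, 99, 147⟩, ⟨8514, 8886, 30000⟩, ⟨1599, 1669, 1000⟩⟩ (tC76A.kap false) :=
  posD_of_check (c := ⟨77, ⟨1, 1, 2, 2⟩⟩) (by decide +kernel)

def tC76A_c10 : PosD ⟨⟨0, 1, 1⟩, ⟨98, 99, 147⟩, ⟨8514, 8886, 30000⟩, ⟨1599, 1669, 1000⟩⟩ (tC76A.hC1 false) :=
  posD_of_check (c := ⟨289, ⟨3, 5, 9, 7⟩⟩) (by decide +kernel)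

def tC76A_c1h0 : PosD ⟨⟨0, 1, 1⟩, ⟨98, 99, 147⟩, ⟨8514, 8886, 30000⟩, ⟨1599, 1669, 1000⟩⟩ (tC76A.hC1' false) :=
  posD_of_check (c := ⟨289, ⟨3, 5, 9, 7⟩⟩) (by decide +kernel)

def tC76A_tg00 : PosD ⟨⟨0, 1, 1⟩, ⟨98, 99, 147⟩, ⟨8514, 8886, 30000⟩, ⟨1599, 1669, 1000⟩⟩ (tC76A.hG false (tC76A.pEnd false)) :=
  posD_of_check (c := ⟨399, ⟨2, 7, 14, 9⟩⟩) (by decide +kernel)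

def tC76A_c2p00 : PosD ⟨⟨0, 1, 1⟩, ⟨98, 99, 147⟩, ⟨8514, 8886, 30000⟩, ⟨1599, 1669, 1000⟩⟩ (tC76A.hC2p false (tC76A.pEnd false)) :=
  posD_of_check (c := ⟨474, ⟨3, 8, 16, 11⟩⟩) (by decide +kernel)

def tC76A_c2m00 : PosD ⟨⟨0, 1, 1⟩, ⟨98, 99, 147⟩, ⟨8514, 8886, 30000⟩, ⟨1599, 1669, 1000⟩⟩ (tC76A.hC2m false (tC76A.pEnd false)) :=
  posD_of_check (c := ⟨442, ⟨2, 7, 16, 10⟩⟩) (by decide +kernel)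

def tC76A_c3p00 : PosD ⟨⟨0, 1, 1⟩, ⟨98, 99, 147⟩, ⟨8514, 8886, 30000⟩, ⟨1599, 1669, 1000⟩⟩ (tC76A.hC3p false false) :=
  posD_of_check (c := ⟨460, ⟨3, 8, 15, 11⟩⟩) (by decide +kernel)

def tC76A_c3m00 : PosD ⟨⟨0, 1, 1⟩, ⟨98, 99, 147⟩, ⟨8514, 8886, 30000⟩, ⟨1599, 1669, 1000⟩⟩ (tC76A.hC3m false false) :=
  posD_of_check (c := ⟨436, ⟨3, 7, 15, 10⟩⟩) (by decide +kernel)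

def tC76A_c3ph00 : PosD ⟨⟨0, 1, 1⟩, ⟨98, 99, 147⟩, ⟨8514, 8886, 30000⟩, ⟨1599, 1669, 1000⟩⟩ (tC76A.hC3p' false false) :=
  posD_of_check (c := ⟨460, ⟨3, 8, 15, 11⟩⟩) (by decide +kernel)

def tC76A_c3mh00 : PosD ⟨⟨0, 1, 1⟩, ⟨98, 99, 147⟩, ⟨8514, 8886, 30000⟩, ⟨1599, 1669, 1000⟩⟩ (tC76A.hC3m' false false) :=
  posD_of_check (c := ⟨436, ⟨3, 7, 15, 10⟩⟩) (by decide +kernel)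

def tC76A_up00 : PosD ⟨⟨0, 1, 1⟩, ⟨98, 99, 147⟩, ⟨8514, 8886, 30000⟩, ⟨1599, 1669, 1000⟩⟩ (tC76A.hUp false false) :=
  posD_of_check (c := ⟨458, ⟨3, 8, 15, 11⟩⟩) (by decide +kernel)

def tC76A_um00 : PosD ⟨⟨0, 1, 1⟩, ⟨98, 99, 147⟩, ⟨8514, 8886, 30000⟩, ⟨1599, 1669, 1000⟩⟩ (tC76A.hUm false false) :=
  posD_of_check (c := ⟨429, ⟨2, 7, 15, 10⟩⟩) (by decide +kernel)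

def tC76A_tmg00 : PosD ⟨⟨0, 1, 1⟩, ⟨98, 99, 147⟩, ⟨8514, 8886, 30000⟩, ⟨1599, 1669, 1000⟩⟩ (tC76A.hTMG false (tC76A.pEnd false)) :=
  posD_of_check (c := ⟨412, ⟨2, 7, 14, 10⟩⟩) (by decide +kernel)

def tC76A_tg01 : PosD ⟨⟨0, 1, 1⟩, ⟨98, 99, 147⟩, ⟨8514, 8886, 30000⟩, ⟨1599, 1669, 1000⟩⟩ (tC76A.hG true (tC76A.pEnd false)) :=
  posD_of_check (c := ⟨399, ⟨2, 7, 14, 9⟩⟩) (by decide +kernel)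

def tC76A_c2p01 : PosD ⟨⟨0, 1, 1⟩, ⟨98, 99, 147⟩, ⟨8514, 8886, 30000⟩, ⟨1599, 1669, 1000⟩⟩ (tC76A.hC2p true (tC76A.pEnd false)) :=
  posD_of_check (c := ⟨474, ⟨3, 8, 16, 11⟩⟩) (by decide +kernel)

def tC76A_c2m01 : PosD ⟨⟨0, 1, 1⟩, ⟨98, 99, 147⟩, ⟨8514, 8886, 30000⟩, ⟨1599, 1669, 1000⟩⟩ (tC76A.hC2m true (tC76A.pEnd false)) :=
  posD_of_check (c := ⟨442, ⟨2, 7, 16, 10⟩⟩) (by decide +kernel)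

def tC76A_c3p01 : PosD ⟨⟨0, 1, 1⟩, ⟨98, 99, 147⟩, ⟨8514, 8886, 30000⟩, ⟨1599, 1669, 1000⟩⟩ (tC76A.hC3p false true) :=
  posD_of_check (c := ⟨460, ⟨3, 8, 15, 11⟩⟩) (by decide +kernel)

def tC76A_c3m01 : PosD ⟨⟨0, 1, 1⟩, ⟨98, 99, 147⟩, ⟨8514, 8886, 30000⟩, ⟨1599, 1669, 1000⟩⟩ (tC76A.hC3m false true) :=
  posD_of_check (c := ⟨436, ⟨3, 7, 15, 10⟩⟩) (by decide +kernel)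

def tC76A_c3ph01 : PosD ⟨⟨0, 1, 1⟩, ⟨98, 99, 147⟩, ⟨8514, 8886, 30000⟩, ⟨1599, 1669, 1000⟩⟩ (tC76A.hC3p' false true) :=
  posD_of_check (c := ⟨460, ⟨3, 8, 15, 11⟩⟩) (by decide +kernel)

def tC76A_c3mh01 : PosD ⟨⟨0, 1, 1⟩, ⟨98, 99, 147⟩, ⟨8514, 8886, 30000⟩, ⟨1599, 1669, 1000⟩⟩ (tC76A.hC3m' false true) :=
  posD_of_check (c := ⟨436, ⟨3, 7, 15, 10⟩⟩) (by decide +kernel)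

def tC76A_up01 : PosD ⟨⟨0, 1, 1⟩, ⟨98, 99, 147⟩, ⟨8514, 8886, 30000⟩, ⟨1599, 1669, 1000⟩⟩ (tC76A.hUp false true) :=
  posD_of_check (c := ⟨458, ⟨3, 8, 15, 11⟩⟩) (by decide +kernel)

def tC76A_um01 : PosD ⟨⟨0, 1, 1⟩, ⟨98, 99, 147⟩, ⟨8514, 8886, 30000⟩, ⟨1599, 1669, 1000⟩⟩ (tC76A.hUm false true) :=
  posD_of_check (c := ⟨429, ⟨2, 7, 15, 10⟩⟩) (by decide +kernel)

def tC76A_tmg01 : PosD ⟨⟨0, 1, 1⟩, ⟨98, 99, 147⟩, ⟨8514, 8886, 30000⟩, ⟨1599, 1669, 1000⟩⟩ (tC76A.hTMG true (tC76A.pEnd false)) :=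
  posD_of_check (c := ⟨412, ⟨2, 7, 14, 10⟩⟩) (by decide +kernel)

def tC76A_kap1 : PosD ⟨⟨0, 1, 1⟩, ⟨98, 99, 147⟩, ⟨8514, 8886, 30000⟩, ⟨1599, 1669, 1000⟩⟩ (tC76A.kap true) :=
  posD_of_check (c := ⟨78, ⟨1, 1, 2, 2⟩⟩) (by decide +kernel)

def tC76A_c11 : PosD ⟨⟨0, 1, 1⟩, ⟨98, 99, 147⟩, ⟨8514, 8886, 30000⟩, ⟨1599, 1669, 1000⟩⟩ (tC76A.hC1 true) :=
  posD_of_check (c := ⟨285, ⟨3, 5, 9, 7⟩⟩) (by decide +kernel)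

def tC76A_c1h1a : PosD ⟨⟨0, 1, 1⟩, ⟨98, 99, 147⟩, ⟨8514, 8700, 30000⟩, ⟨1599, 1669, 1000⟩⟩ (tC76A.hC1' true) :=
  posD_of_check (c := ⟨285, ⟨3, 5, 9, 7⟩⟩) (by decide +kernel)

def tC76A_c1h1b : PosD ⟨⟨0, 1, 1⟩, ⟨98, 99, 147⟩, ⟨8700, 8886, 30000⟩, ⟨1599, 1669, 1000⟩⟩ (tC76A.hC1' true) :=
  posD_of_relax (k₁ := 9) (k₂ := 0) (k₃ := 0) (n := 16) (posD_of_check (c := ⟨285, ⟨3, 5, 9, 7⟩⟩) (by decide +kernel))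

def tC76A_c1h1 : PosD ⟨⟨0, 1, 1⟩, ⟨98, 99, 147⟩, ⟨8514, 8886, 30000⟩, ⟨1599, 1669, 1000⟩⟩ (tC76A.hC1' true) :=
  posD_join₂ tC76A_c1h1a tC76A_c1h1b

def tC76A_tg10 : PosD ⟨⟨0, 1, 1⟩, ⟨98, 99, 147⟩, ⟨8514, 8886, 30000⟩, ⟨1599, 1669, 1000⟩⟩ (tC76A.hG false (tC76A.pEnd true)) :=
  posD_of_check (c := ⟨393, ⟨2, 7, 14, 9⟩⟩) (by decide +kernel)

def tC76A_c2p10 : PosD ⟨⟨0, 1, 1⟩, ⟨98, 99, 147⟩, ⟨8514, 8886, 30000⟩, ⟨1599, 1669, 1000⟩⟩ (tC76A.hC2p false (tC76A.pEnd true)) :=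
  posD_of_check (c := ⟨467, ⟨3, 8, 16, 11⟩⟩) (by decide +kernel)

def tC76A_c2m10 : PosD ⟨⟨0, 1, 1⟩, ⟨98, 99, 147⟩, ⟨8514, 8886, 30000⟩, ⟨1599, 1669, 1000⟩⟩ (tC76A.hC2m false (tC76A.pEnd true)) :=
  posD_of_check (c := ⟨436, ⟨2, 7, 16, 10⟩⟩) (by decide +kernel)

def tC76A_c3p10 : PosD ⟨⟨0, 1, 1⟩, ⟨98, 99, 147⟩, ⟨8514, 8886, 30000⟩, ⟨1599, 1669, 1000⟩⟩ (tC76A.hC3p true false) :=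
  posD_of_check (c := ⟨456, ⟨3, 8, 15, 11⟩⟩) (by decide +kernel)

def tC76A_c3m10 : PosD ⟨⟨0, 1, 1⟩, ⟨98, 99, 147⟩, ⟨8514, 8886, 30000⟩, ⟨1599, 1669, 1000⟩⟩ (tC76A.hC3m true false) :=
  posD_of_check (c := ⟨433, ⟨3, 7, 15, 10⟩⟩) (by decide +kernel)

def tC76A_c3ph10 : PosD ⟨⟨0, 1, 1⟩, ⟨98, 99, 147⟩, ⟨8514, 8886, 30000⟩, ⟨1599, 1669, 1000⟩⟩ (tC76A.hC3p' true false) :=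
  posD_of_relax (k₁ := 4) (k₂ := 0) (k₃ := 0) (n := 16) (posD_of_check (c := ⟨456, ⟨3, 8, 15, 11⟩⟩) (by decide +kernel))

def tC76A_c3mh10 : PosD ⟨⟨0, 1, 1⟩, ⟨98, 99, 147⟩, ⟨8514, 8886, 30000⟩, ⟨1599, 1669, 1000⟩⟩ (tC76A.hC3m' true false) :=
  posD_of_check (c := ⟨433, ⟨3, 7, 15, 10⟩⟩) (by decide +kernel)

def tC76A_up10 : PosD ⟨⟨0, 1, 1⟩, ⟨98, 99, 147⟩, ⟨8514, 8886, 30000⟩, ⟨1599, 1669, 1000⟩⟩ (tC76A.hUp true false) :=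
  posD_of_check (c := ⟨452, ⟨3, 8, 15, 11⟩⟩) (by decide +kernel)

def tC76A_um10 : PosD ⟨⟨0, 1, 1⟩, ⟨98, 99, 147⟩, ⟨8514, 8886, 30000⟩, ⟨1599, 1669, 1000⟩⟩ (tC76A.hUm true false) :=
  posD_of_check (c := ⟨424, ⟨2, 7, 15, 10⟩⟩) (by decide +kernel)

def tC76A_tmg10 : PosD ⟨⟨0, 1, 1⟩, ⟨98, 99, 147⟩, ⟨8514, 8886, 30000⟩, ⟨1599, 1669, 1000⟩⟩ (tC76A.hTMG false (tC76A.pEnd true)) :=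
  posD_of_check (c := ⟨407, ⟨2, 7, 14, 10⟩⟩) (by decide +kernel)

def tC76A_tg11 : PosD ⟨⟨0, 1, 1⟩, ⟨98, 99, 147⟩, ⟨8514, 8886, 30000⟩, ⟨1599, 1669, 1000⟩⟩ (tC76A.hG true (tC76A.pEnd true)) :=
  posD_of_check (c := ⟨393, ⟨2, 7, 14, 9⟩⟩) (by decide +kernel)

def tC76A_c2p11 : PosD ⟨⟨0, 1, 1⟩, ⟨98, 99, 147⟩, ⟨8514, 8886, 30000⟩, ⟨1599, 1669, 1000⟩⟩ (tC76A.hC2p true (tC76A.pEnd true)) :=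
  posD_of_check (c := ⟨467, ⟨3, 8, 16, 11⟩⟩) (by decide +kernel)

def tC76A_c2m11 : PosD ⟨⟨0, 1, 1⟩, ⟨98, 99, 147⟩, ⟨8514, 8886, 30000⟩, ⟨1599, 1669, 1000⟩⟩ (tC76A.hC2m true (tC76A.pEnd true)) :=
  posD_of_check (c := ⟨436, ⟨2, 7, 16, 10⟩⟩) (by decide +kernel)

def tC76A_c3p11 : PosD ⟨⟨0, 1, 1⟩, ⟨98, 99, 147⟩, ⟨8514, 8886, 30000⟩, ⟨1599, 1669, 1000⟩⟩ (tC76A.hC3p true true) :=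
  posD_of_check (c := ⟨456, ⟨3, 8, 15, 11⟩⟩) (by decide +kernel)

def tC76A_c3m11 : PosD ⟨⟨0, 1, 1⟩, ⟨98, 99, 147⟩, ⟨8514, 8886, 30000⟩, ⟨1599, 1669, 1000⟩⟩ (tC76A.hC3m true true) :=
  posD_of_check (c := ⟨433, ⟨3, 7, 15, 10⟩⟩) (by decide +kernel)

def tC76A_c3ph11 : PosD ⟨⟨0, 1, 1⟩, ⟨98, 99, 147⟩, ⟨8514, 8886, 30000⟩, ⟨1599, 1669, 1000⟩⟩ (tC76A.hC3p' true true) :=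
  posD_of_check (c := ⟨456, ⟨3, 8, 15, 11⟩⟩) (by decide +kernel)

def tC76A_c3mh11 : PosD ⟨⟨0, 1, 1⟩, ⟨98, 99, 147⟩, ⟨8514, 8886, 30000⟩, ⟨1599, 1669, 1000⟩⟩ (tC76A.hC3m' true true) :=
  posD_of_check (c := ⟨433, ⟨3, 7, 15, 10⟩⟩) (by decide +kernel)

def tC76A_up11 : PosD ⟨⟨0, 1, 1⟩, ⟨98, 99, 147⟩, ⟨8514, 8886, 30000⟩, ⟨1599, 1669, 1000⟩⟩ (tC76A.hUp true true) :=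
  posD_of_check (c := ⟨452, ⟨3, 8, 15, 11⟩⟩) (by decide +kernel)

def tC76A_um11 : PosD ⟨⟨0, 1, 1⟩, ⟨98, 99, 147⟩, ⟨8514, 8886, 30000⟩, ⟨1599, 1669, 1000⟩⟩ (tC76A.hUm true true) :=
  posD_of_check (c := ⟨424, ⟨2, 7, 15, 10⟩⟩) (by decide +kernel)

def tC76A_tmg11 : PosD ⟨⟨0, 1, 1⟩, ⟨98, 99, 147⟩, ⟨8514, 8886, 30000⟩, ⟨1599, 1669, 1000⟩⟩ (tC76A.hTMG true (tC76A.pEnd true)) :=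
  posD_of_check (c := ⟨407, ⟨2, 7, 14, 10⟩⟩) (by decide +kernel)

/-- The signs of the piece. -/
def tC76A_sign : tC76A.Sign ⟨⟨0, 1, 1⟩, ⟨98, 99, 147⟩, ⟨8514, 8886, 30000⟩, ⟨1599, 1669, 1000⟩⟩ :=
  ⟨tC76A_pp,
    tC76A_k2p,
    tC76A_k2m,
    Bool.forall_bool.2 ⟨(Bool.forall_bool.2 ⟨tC76A_tg00, tC76A_tg01⟩), (Bool.forall_bool.2 ⟨tC76A_tg10, tC76A_tg11⟩)⟩,
    Bool.forall_bool.2 ⟨(Bool.forall_bool.2 ⟨tC76A_c2p00, tC76A_c2p01⟩), (Bool.forall_bool.2 ⟨tC76A_c2p10, tC76A_c2p11⟩)⟩,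
    Bool.forall_bool.2 ⟨(Bool.forall_bool.2 ⟨tC76A_c2m00, tC76A_c2m01⟩), (Bool.forall_bool.2 ⟨tC76A_c2m10, tC76A_c2m11⟩)⟩,
    Bool.forall_bool.2 ⟨tC76A_kap0, tC76A_kap1⟩,
    Bool.forall_bool.2 ⟨tC76A_c10, tC76A_c11⟩,
    Bool.forall_bool.2 ⟨(Bool.forall_bool.2 ⟨tC76A_c3p00, tC76A_c3p01⟩), (Bool.forall_bool.2 ⟨tC76A_c3p10, tC76A_c3p11⟩)⟩,
    Bool.forall_bool.2 ⟨(Bool.forall_bool.2 ⟨tC76A_c3m00, tC76A_c3m01⟩), (Bool.forall_bool.2 ⟨tC76A_c3m10, tC76A_c3m11⟩)⟩,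
    Bool.forall_bool.2 ⟨(Bool.forall_bool.2 ⟨tC76A_tmg00, tC76A_tmg01⟩), (Bool.forall_bool.2 ⟨tC76A_tmg10, tC76A_tmg11⟩)⟩,
    .inr (Bool.forall_bool.2 ⟨⟨tC76A_c1h0, Bool.forall_bool.2 ⟨⟨tC76A_c3ph00, tC76A_c3mh00, tC76A_up00, tC76A_um00⟩, ⟨tC76A_c3ph01, tC76A_c3mh01, tC76A_up01, tC76A_um01⟩⟩⟩, ⟨tC76A_c1h1, Bool.forall_bool.2 ⟨⟨tC76A_c3ph10, tC76A_c3mh10, tC76A_up10, tC76A_um10⟩, ⟨tC76A_c3ph11, tC76A_c3mh11, tC76A_up11, tC76A_um11⟩⟩⟩⟩),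
    tC76A_v2p,
    tC76A_v2m,
    tC76A_v3p,
    tC76A_v3m,
    posD_sub (b := ⟨⟨0, 1, 1⟩, ⟨98, 99, 147⟩, ⟨4050, 10000, 30000⟩, ⟨290, 4000, 1000⟩⟩) (by decide +kernel) tC_vG,
    posD_sub (b := ⟨⟨0, 1, 1⟩, ⟨98, 99, 147⟩, ⟨4050, 10000, 30000⟩, ⟨290, 4000, 1000⟩⟩) (by decide +kernel) tC_vMG,
    posD_sub (b := ⟨⟨0, 1, 1⟩, ⟨98, 99, 147⟩, ⟨4050, 10000, 30000⟩, ⟨290, 4000, 1000⟩⟩) (by decide +kernel) tC_ak,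
    posD_sub (b := ⟨⟨0, 1, 1⟩, ⟨98, 99, 147⟩, ⟨4050, 10000, 30000⟩, ⟨290, 4000, 1000⟩⟩) (by decide +kernel) tC_aw,
    posD_sub (b := ⟨⟨0, 1, 1⟩, ⟨98, 99, 147⟩, ⟨4050, 10000, 30000⟩, ⟨290, 4000, 1000⟩⟩) (by decide +kernel) tC_gk,
    posD_sub (b := ⟨⟨0, 1, 1⟩, ⟨98, 99, 147⟩, ⟨4050, 10000, 30000⟩, ⟨290, 4000, 1000⟩⟩) (by decide +kernel) tC_gw,
    posD_sub (b := ⟨⟨0, 1, 1⟩, ⟨98, 99, 147⟩, ⟨4050, 10000, 30000⟩, ⟨290, 4000, 1000⟩⟩) (by decide +kernel) tC_ek,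
    posD_sub (b := ⟨⟨0, 1, 1⟩, ⟨98, 99, 147⟩, ⟨4050, 10000, 30000⟩, ⟨290, 4000, 1000⟩⟩) (by decide +kernel) tC_ew⟩

def tC76B_pp : PosD ⟨⟨0, 1, 1⟩, ⟨98, 99, 147⟩, ⟨8514, 8886, 30000⟩, ⟨1599, 1669, 1000⟩⟩ (tC76B.xPL) :=
  posD_of_check (c := ⟨98, ⟨1, 1, 3, 3⟩⟩) (by decide +kernel)

def tC76B_k2p : PosD ⟨⟨0, 1, 1⟩, ⟨98, 99, 147⟩, ⟨8514, 8886, 30000⟩, ⟨1599, 1669, 1000⟩⟩ (tC76B.k2p tC76B.xE) :=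
  posD_of_check (c := ⟨72, ⟨1, 1, 2, 2⟩⟩) (by decide +kernel)

def tC76B_k2m : PosD ⟨⟨0, 1, 1⟩, ⟨98, 99, 147⟩, ⟨8514, 8886, 30000⟩, ⟨1599, 1669, 1000⟩⟩ (tC76B.k2m tC76B.xE) :=
  posD_of_check (c := ⟨31, ⟨0, 0, 1, 1⟩⟩) (by decide +kernel)

def tC76B_v2p : PosD ⟨⟨0, 1, 1⟩, ⟨98, 99, 147⟩, ⟨8514, 8886, 30000⟩, ⟨1599, 1669, 1000⟩⟩ (tC76B.hV2p) :=
  posD_of_check (c := ⟨273, ⟨1, 6, 10, 5⟩⟩) (by decide +kernel)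

def tC76B_v2m : PosD ⟨⟨0, 1, 1⟩, ⟨98, 99, 147⟩, ⟨8514, 8886, 30000⟩, ⟨1599, 1669, 1000⟩⟩ (tC76B.hV2m) :=
  posD_of_check (c := ⟨245, ⟨0, 5, 10, 4⟩⟩) (by decide +kernel)

def tC76B_v3p : PosD ⟨⟨0, 1, 1⟩, ⟨98, 99, 147⟩, ⟨8514, 8886, 30000⟩, ⟨1599, 1669, 1000⟩⟩ (tC76B.hV3p) :=
  posD_of_check (c := ⟨258, ⟨1, 6, 9, 5⟩⟩) (by decide +kernel)

def tC76B_v3m : PosD ⟨⟨0, 1, 1⟩, ⟨98, 99, 147⟩, ⟨8514, 8886, 30000⟩, ⟨1599, 1669, 1000⟩⟩ (tC76B.hV3m) :=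
  posD_of_check (c := ⟨232, ⟨0, 5, 9, 4⟩⟩) (by decide +kernel)

def tC76B_kap0 : PosD ⟨⟨0, 1, 1⟩, ⟨98, 99, 147⟩, ⟨8514, 8886, 30000⟩, ⟨1599, 1669, 1000⟩⟩ (tC76B.kap false) :=
  posD_of_check (c := ⟨71, ⟨1, 1, 2, 2⟩⟩) (by decide +kernel)

def tC76B_c10 : PosD ⟨⟨0, 1, 1⟩, ⟨98, 99, 147⟩, ⟨8514, 8886, 30000⟩, ⟨1599, 1669, 1000⟩⟩ (tC76B.hC1 false) :=
  posD_of_check (c := ⟨276, ⟨3, 5, 9, 7⟩⟩) (by decide +kernel)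

def tC76B_c1h0 : PosD ⟨⟨0, 1, 1⟩, ⟨98, 99, 147⟩, ⟨8514, 8886, 30000⟩, ⟨1599, 1669, 1000⟩⟩ (tC76B.hC1' false) :=
  posD_of_check (c := ⟨276, ⟨3, 5, 9, 7⟩⟩) (by decide +kernel)

def tC76B_tg00 : PosD ⟨⟨0, 1, 1⟩, ⟨98, 99, 147⟩, ⟨8514, 8886, 30000⟩, ⟨1599, 1669, 1000⟩⟩ (tC76B.hG false (tC76B.pEnd false)) :=
  posD_of_check (c := ⟨394, ⟨2, 7, 14, 9⟩⟩) (by decide +kernel)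

def tC76B_c2p00 : PosD ⟨⟨0, 1, 1⟩, ⟨98, 99, 147⟩, ⟨8514, 8886, 30000⟩, ⟨1599, 1669, 1000⟩⟩ (tC76B.hC2p false (tC76B.pEnd false)) :=
  posD_of_check (c := ⟨465, ⟨3, 8, 16, 11⟩⟩) (by decide +kernel)

def tC76B_c2m00 : PosD ⟨⟨0, 1, 1⟩, ⟨98, 99, 147⟩, ⟨8514, 8886, 30000⟩, ⟨1599, 1669, 1000⟩⟩ (tC76B.hC2m false (tC76B.pEnd false)) :=
  posD_of_check (c := ⟨437, ⟨2, 7, 16, 10⟩⟩) (by decide +kernel)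

def tC76B_c3p00 : PosD ⟨⟨0, 1, 1⟩, ⟨98, 99, 147⟩, ⟨8514, 8886, 30000⟩, ⟨1599, 1669, 1000⟩⟩ (tC76B.hC3p false false) :=
  posD_of_check (c := ⟨450, ⟨3, 8, 15, 11⟩⟩) (by decide +kernel)

def tC76B_c3m00 : PosD ⟨⟨0, 1, 1⟩, ⟨98, 99, 147⟩, ⟨8514, 8886, 30000⟩, ⟨1599, 1669, 1000⟩⟩ (tC76B.hC3m false false) :=
  posD_of_check (c := ⟨426, ⟨3, 7, 15, 10⟩⟩) (by decide +kernel)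

def tC76B_c3ph00 : PosD ⟨⟨0, 1, 1⟩, ⟨98, 99, 147⟩, ⟨8514, 8886, 30000⟩, ⟨1599, 1669, 1000⟩⟩ (tC76B.hC3p' false false) :=
  posD_of_check (c := ⟨450, ⟨3, 8, 15, 11⟩⟩) (by decide +kernel)

def tC76B_c3mh00 : PosD ⟨⟨0, 1, 1⟩, ⟨98, 99, 147⟩, ⟨8514, 8886, 30000⟩, ⟨1599, 1669, 1000⟩⟩ (tC76B.hC3m' false false) :=
  posD_of_check (c := ⟨426, ⟨3, 7, 15, 10⟩⟩) (by decide +kernel)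

def tC76B_up00 : PosD ⟨⟨0, 1, 1⟩, ⟨98, 99, 147⟩, ⟨8514, 8886, 30000⟩, ⟨1599, 1669, 1000⟩⟩ (tC76B.hUp false false) :=
  posD_of_check (c := ⟨450, ⟨3, 8, 15, 11⟩⟩) (by decide +kernel)

def tC76B_um00 : PosD ⟨⟨0, 1, 1⟩, ⟨98, 99, 147⟩, ⟨8514, 8886, 30000⟩, ⟨1599, 1669, 1000⟩⟩ (tC76B.hUm false false) :=
  posD_of_check (c := ⟨424, ⟨2, 7, 15, 10⟩⟩) (by decide +kernel)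

def tC76B_tmg00 : PosD ⟨⟨0, 1, 1⟩, ⟨98, 99, 147⟩, ⟨8514, 8886, 30000⟩, ⟨1599, 1669, 1000⟩⟩ (tC76B.hTMG false (tC76B.pEnd false)) :=
  posD_of_check (c := ⟨407, ⟨2, 7, 14, 10⟩⟩) (by decide +kernel)

def tC76B_tg01 : PosD ⟨⟨0, 1, 1⟩, ⟨98, 99, 147⟩, ⟨8514, 8886, 30000⟩, ⟨1599, 1669, 1000⟩⟩ (tC76B.hG true (tC76B.pEnd false)) :=
  posD_of_check (c := ⟨394, ⟨2, 7, 14, 9⟩⟩) (by decide +kernel)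

def tC76B_c2p01 : PosD ⟨⟨0, 1, 1⟩, ⟨98, 99, 147⟩, ⟨8514, 8886, 30000⟩, ⟨1599, 1669, 1000⟩⟩ (tC76B.hC2p true (tC76B.pEnd false)) :=
  posD_of_check (c := ⟨465, ⟨3, 8, 16, 11⟩⟩) (by decide +kernel)

def tC76B_c2m01 : PosD ⟨⟨0, 1, 1⟩, ⟨98, 99, 147⟩, ⟨8514, 8886, 30000⟩, ⟨1599, 1669, 1000⟩⟩ (tC76B.hC2m true (tC76B.pEnd false)) :=
  posD_of_check (c := ⟨437, ⟨2, 7, 16, 10⟩⟩) (by decide +kernel)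

def tC76B_c3p01 : PosD ⟨⟨0, 1, 1⟩, ⟨98, 99, 147⟩, ⟨8514, 8886, 30000⟩, ⟨1599, 1669, 1000⟩⟩ (tC76B.hC3p false true) :=
  posD_of_check (c := ⟨450, ⟨3, 8, 15, 11⟩⟩) (by decide +kernel)

def tC76B_c3m01 : PosD ⟨⟨0, 1, 1⟩, ⟨98, 99, 147⟩, ⟨8514, 8886, 30000⟩, ⟨1599, 1669, 1000⟩⟩ (tC76B.hC3m false true) :=
  posD_of_check (c := ⟨425, ⟨3, 7, 15, 10⟩⟩) (by decide +kernel)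

def tC76B_c3ph01 : PosD ⟨⟨0, 1, 1⟩, ⟨98, 99, 147⟩, ⟨8514, 8886, 30000⟩, ⟨1599, 1669, 1000⟩⟩ (tC76B.hC3p' false true) :=
  posD_of_check (c := ⟨450, ⟨3, 8, 15, 11⟩⟩) (by decide +kernel)

def tC76B_c3mh01 : PosD ⟨⟨0, 1, 1⟩, ⟨98, 99, 147⟩, ⟨8514, 8886, 30000⟩, ⟨1599, 1669, 1000⟩⟩ (tC76B.hC3m' false true) :=
  posD_of_check (c := ⟨425, ⟨3, 7, 15, 10⟩⟩) (by decide +kernel)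

def tC76B_up01 : PosD ⟨⟨0, 1, 1⟩, ⟨98, 99, 147⟩, ⟨8514, 8886, 30000⟩, ⟨1599, 1669, 1000⟩⟩ (tC76B.hUp false true) :=
  posD_of_check (c := ⟨450, ⟨3, 8, 15, 11⟩⟩) (by decide +kernel)

def tC76B_um01 : PosD ⟨⟨0, 1, 1⟩, ⟨98, 99, 147⟩, ⟨8514, 8886, 30000⟩, ⟨1599, 1669, 1000⟩⟩ (tC76B.hUm false true) :=
  posD_of_check (c := ⟨424, ⟨2, 7, 15, 10⟩⟩) (by decide +kernel)

def tC76B_tmg01 : PosD ⟨⟨0, 1, 1⟩, ⟨98, 99, 147⟩, ⟨8514, 8886, 30000⟩, ⟨1599, 1669, 1000⟩⟩ (tC76B.hTMG true (tC76B.pEnd false)) :=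
  posD_of_check (c := ⟨407, ⟨2, 7, 14, 10⟩⟩) (by decide +kernel)

def tC76B_kap1 : PosD ⟨⟨0, 1, 1⟩, ⟨98, 99, 147⟩, ⟨8514, 8886, 30000⟩, ⟨1599, 1669, 1000⟩⟩ (tC76B.kap true) :=
  posD_of_check (c := ⟨72, ⟨1, 1, 2, 2⟩⟩) (by decide +kernel)

def tC76B_c11 : PosD ⟨⟨0, 1, 1⟩, ⟨98, 99, 147⟩, ⟨8514, 8886, 30000⟩, ⟨1599, 1669, 1000⟩⟩ (tC76B.hC1 true) :=
  posD_of_check (c := ⟨273, ⟨3, 5, 9, 7⟩⟩) (by decide +kernel)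

def tC76B_c1h1 : PosD ⟨⟨0, 1, 1⟩, ⟨98, 99, 147⟩, ⟨8514, 8886, 30000⟩, ⟨1599, 1669, 1000⟩⟩ (tC76B.hC1' true) :=
  posD_of_relax (k₁ := 157) (k₂ := 0) (k₃ := 0) (n := 16) (posD_of_check (c := ⟨273, ⟨3, 5, 9, 7⟩⟩) (by decide +kernel))

def tC76B_tg10 : PosD ⟨⟨0, 1, 1⟩, ⟨98, 99, 147⟩, ⟨8514, 8886, 30000⟩, ⟨1599, 1669, 1000⟩⟩ (tC76B.hG false (tC76B.pEnd true)) :=
  posD_of_check (c := ⟨388, ⟨2, 7, 14, 9⟩⟩) (by decide +kernel)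

def tC76B_c2p10 : PosD ⟨⟨0, 1, 1⟩, ⟨98, 99, 147⟩, ⟨8514, 8886, 30000⟩, ⟨1599, 1669, 1000⟩⟩ (tC76B.hC2p false (tC76B.pEnd true)) :=
  posD_of_check (c := ⟨460, ⟨3, 8, 16, 11⟩⟩) (by decide +kernel)

def tC76B_c2m10 : PosD ⟨⟨0, 1, 1⟩, ⟨98, 99, 147⟩, ⟨8514, 8886, 30000⟩, ⟨1599, 1669, 1000⟩⟩ (tC76B.hC2m false (tC76B.pEnd true)) :=
  posD_of_check (c := ⟨431, ⟨2, 7, 16, 10⟩⟩) (by decide +kernel)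

def tC76B_c3p10 : PosD ⟨⟨0, 1, 1⟩, ⟨98, 99, 147⟩, ⟨8514, 8886, 30000⟩, ⟨1599, 1669, 1000⟩⟩ (tC76B.hC3p true false) :=
  posD_of_check (c := ⟨445, ⟨3, 8, 15, 11⟩⟩) (by decide +kernel)

def tC76B_c3m10 : PosD ⟨⟨0, 1, 1⟩, ⟨98, 99, 147⟩, ⟨8514, 8886, 30000⟩, ⟨1599, 1669, 1000⟩⟩ (tC76B.hC3m true false) :=
  posD_of_check (c := ⟨421, ⟨3, 7, 15, 10⟩⟩) (by decide +kernel)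

def tC76B_c3ph10a : PosD ⟨⟨0, 1, 1⟩, ⟨98, 99, 147⟩, ⟨8514, 8886, 30000⟩, ⟨1599, 1634, 1000⟩⟩ (tC76B.hC3p' true false) :=
  posD_of_check (c := ⟨445, ⟨3, 8, 15, 11⟩⟩) (by decide +kernel)

def tC76B_c3ph10b : PosD ⟨⟨0, 1, 1⟩, ⟨98, 99, 147⟩, ⟨8514, 8886, 30000⟩, ⟨1634, 1669, 1000⟩⟩ (tC76B.hC3p' true false) :=
  posD_of_relax (k₁ := 3) (k₂ := 0) (k₃ := 0) (n := 16) (posD_of_check (c := ⟨445, ⟨3, 8, 15, 11⟩⟩) (by decide +kernel))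

def tC76B_c3ph10 : PosD ⟨⟨0, 1, 1⟩, ⟨98, 99, 147⟩, ⟨8514, 8886, 30000⟩, ⟨1599, 1669, 1000⟩⟩ (tC76B.hC3p' true false) :=
  posD_join₃ tC76B_c3ph10a tC76B_c3ph10b

def tC76B_c3mh10 : PosD ⟨⟨0, 1, 1⟩, ⟨98, 99, 147⟩, ⟨8514, 8886, 30000⟩, ⟨1599, 1669, 1000⟩⟩ (tC76B.hC3m' true false) :=
  posD_of_check (c := ⟨421, ⟨3, 7, 15, 10⟩⟩) (by decide +kernel)

def tC76B_up10 : PosD ⟨⟨0, 1, 1⟩, ⟨98, 99, 147⟩, ⟨8514, 8886, 30000⟩, ⟨1599, 1669, 1000⟩⟩ (tC76B.hUp true false) :=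
  posD_of_check (c := ⟨445, ⟨3, 8, 15, 11⟩⟩) (by decide +kernel)

def tC76B_um10 : PosD ⟨⟨0, 1, 1⟩, ⟨98, 99, 147⟩, ⟨8514, 8886, 30000⟩, ⟨1599, 1669, 1000⟩⟩ (tC76B.hUm true false) :=
  posD_of_check (c := ⟨419, ⟨2, 7, 15, 10⟩⟩) (by decide +kernel)

def tC76B_tmg10 : PosD ⟨⟨0, 1, 1⟩, ⟨98, 99, 147⟩, ⟨8514, 8886, 30000⟩, ⟨1599, 1669, 1000⟩⟩ (tC76B.hTMG false (tC76B.pEnd true)) :=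
  posD_of_check (c := ⟨403, ⟨2, 7, 14, 10⟩⟩) (by decide +kernel)

def tC76B_tg11 : PosD ⟨⟨0, 1, 1⟩, ⟨98, 99, 147⟩, ⟨8514, 8886, 30000⟩, ⟨1599, 1669, 1000⟩⟩ (tC76B.hG true (tC76B.pEnd true)) :=
  posD_of_check (c := ⟨388, ⟨2, 7, 14, 9⟩⟩) (by decide +kernel)

def tC76B_c2p11 : PosD ⟨⟨0, 1, 1⟩, ⟨98, 99, 147⟩, ⟨8514, 8886, 30000⟩, ⟨1599, 1669, 1000⟩⟩ (tC76B.hC2p true (tC76B.pEnd true)) :=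
  posD_of_check (c := ⟨459, ⟨3, 8, 16, 11⟩⟩) (by decide +kernel)

def tC76B_c2m11 : PosD ⟨⟨0, 1, 1⟩, ⟨98, 99, 147⟩, ⟨8514, 8886, 30000⟩, ⟨1599, 1669, 1000⟩⟩ (tC76B.hC2m true (tC76B.pEnd true)) :=
  posD_of_check (c := ⟨431, ⟨2, 7, 16, 10⟩⟩) (by decide +kernel)

def tC76B_c3p11 : PosD ⟨⟨0, 1, 1⟩, ⟨98, 99, 147⟩, ⟨8514, 8886, 30000⟩, ⟨1599, 1669, 1000⟩⟩ (tC76B.hC3p true true) :=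
  posD_of_check (c := ⟨445, ⟨3, 8, 15, 11⟩⟩) (by decide +kernel)

def tC76B_c3m11 : PosD ⟨⟨0, 1, 1⟩, ⟨98, 99, 147⟩, ⟨8514, 8886, 30000⟩, ⟨1599, 1669, 1000⟩⟩ (tC76B.hC3m true true) :=
  posD_of_check (c := ⟨421, ⟨3, 7, 15, 10⟩⟩) (by decide +kernel)

def tC76B_c3ph11 : PosD ⟨⟨0, 1, 1⟩, ⟨98, 99, 147⟩, ⟨8514, 8886, 30000⟩, ⟨1599, 1669, 1000⟩⟩ (tC76B.hC3p' true true) :=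
  posD_of_check (c := ⟨445, ⟨3, 8, 15, 11⟩⟩) (by decide +kernel)

def tC76B_c3mh11 : PosD ⟨⟨0, 1, 1⟩, ⟨98, 99, 147⟩, ⟨8514, 8886, 30000⟩, ⟨1599, 1669, 1000⟩⟩ (tC76B.hC3m' true true) :=
  posD_of_check (c := ⟨421, ⟨3, 7, 15, 10⟩⟩) (by decide +kernel)

def tC76B_up11 : PosD ⟨⟨0, 1, 1⟩, ⟨98, 99, 147⟩, ⟨8514, 8886, 30000⟩, ⟨1599, 1669, 1000⟩⟩ (tC76B.hUp true true) :=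
  posD_of_check (c := ⟨444, ⟨3, 8, 15, 11⟩⟩) (by decide +kernel)

def tC76B_um11 : PosD ⟨⟨0, 1, 1⟩, ⟨98, 99, 147⟩, ⟨8514, 8886, 30000⟩, ⟨1599, 1669, 1000⟩⟩ (tC76B.hUm true true) :=
  posD_of_check (c := ⟨419, ⟨2, 7, 15, 10⟩⟩) (by decide +kernel)

def tC76B_tmg11 : PosD ⟨⟨0, 1, 1⟩, ⟨98, 99, 147⟩, ⟨8514, 8886, 30000⟩, ⟨1599, 1669, 1000⟩⟩ (tC76B.hTMG true (tC76B.pEnd true)) :=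
  posD_of_check (c := ⟨403, ⟨2, 7, 14, 10⟩⟩) (by decide +kernel)

/-- The signs of the piece. -/
def tC76B_sign : tC76B.Sign ⟨⟨0, 1, 1⟩, ⟨98, 99, 147⟩, ⟨8514, 8886, 30000⟩, ⟨1599, 1669, 1000⟩⟩ :=
  ⟨tC76B_pp,
    tC76B_k2p,
    tC76B_k2m,
    Bool.forall_bool.2 ⟨(Bool.forall_bool.2 ⟨tC76B_tg00, tC76B_tg01⟩), (Bool.forall_bool.2 ⟨tC76B_tg10, tC76B_tg11⟩)⟩,
    Bool.forall_bool.2 ⟨(Bool.forall_bool.2 ⟨tC76B_c2p00, tC76B_c2p01⟩), (Bool.forall_bool.2 ⟨tC76B_c2p10, tC76B_c2p11⟩)⟩,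
    Bool.forall_bool.2 ⟨(Bool.forall_bool.2 ⟨tC76B_c2m00, tC76B_c2m01⟩), (Bool.forall_bool.2 ⟨tC76B_c2m10, tC76B_c2m11⟩)⟩,
    Bool.forall_bool.2 ⟨tC76B_kap0, tC76B_kap1⟩,
    Bool.forall_bool.2 ⟨tC76B_c10, tC76B_c11⟩,
    Bool.forall_bool.2 ⟨(Bool.forall_bool.2 ⟨tC76B_c3p00, tC76B_c3p01⟩), (Bool.forall_bool.2 ⟨tC76B_c3p10, tC76B_c3p11⟩)⟩,
    Bool.forall_bool.2 ⟨(Bool.forall_bool.2 ⟨tC76B_c3m00, tC76B_c3m01⟩), (Bool.forall_bool.2 ⟨tC76B_c3m10, tC76B_c3m11⟩)⟩,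
    Bool.forall_bool.2 ⟨(Bool.forall_bool.2 ⟨tC76B_tmg00, tC76B_tmg01⟩), (Bool.forall_bool.2 ⟨tC76B_tmg10, tC76B_tmg11⟩)⟩,
    .inr (Bool.forall_bool.2 ⟨⟨tC76B_c1h0, Bool.forall_bool.2 ⟨⟨tC76B_c3ph00, tC76B_c3mh00, tC76B_up00, tC76B_um00⟩, ⟨tC76B_c3ph01, tC76B_c3mh01, tC76B_up01, tC76B_um01⟩⟩⟩, ⟨tC76B_c1h1, Bool.forall_bool.2 ⟨⟨tC76B_c3ph10, tC76B_c3mh10, tC76B_up10, tC76B_um10⟩, ⟨tC76B_c3ph11, tC76B_c3mh11, tC76B_up11, tC76B_um11⟩⟩⟩⟩),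
    tC76B_v2p,
    tC76B_v2m,
    tC76B_v3p,
    tC76B_v3m,
    posD_sub (b := ⟨⟨0, 1, 1⟩, ⟨98, 99, 147⟩, ⟨4050, 10000, 30000⟩, ⟨290, 4000, 1000⟩⟩) (by decide +kernel) tC_vG,
    posD_sub (b := ⟨⟨0, 1, 1⟩, ⟨98, 99, 147⟩, ⟨4050, 10000, 30000⟩, ⟨290, 4000, 1000⟩⟩) (by decide +kernel) tC_vMG,
    posD_sub (b := ⟨⟨0, 1, 1⟩, ⟨98, 99, 147⟩, ⟨4050, 10000, 30000⟩, ⟨290, 4000, 1000⟩⟩) (by decide +kernel) tC_ak,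
    posD_sub (b := ⟨⟨0, 1, 1⟩, ⟨98, 99, 147⟩, ⟨4050, 10000, 30000⟩, ⟨290, 4000, 1000⟩⟩) (by decide +kernel) tC_aw,
    posD_sub (b := ⟨⟨0, 1, 1⟩, ⟨98, 99, 147⟩, ⟨4050, 10000, 30000⟩, ⟨290, 4000, 1000⟩⟩) (by decide +kernel) tC_gk,
    posD_sub (b := ⟨⟨0, 1, 1⟩, ⟨98, 99, 147⟩, ⟨4050, 10000, 30000⟩, ⟨290, 4000, 1000⟩⟩) (by decide +kernel) tC_gw,
    posD_sub (b := ⟨⟨0, 1, 1⟩, ⟨98, 99, 147⟩, ⟨4050, 10000, 30000⟩, ⟨290, 4000, 1000⟩⟩) (by decide +kernel) tC_ek,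
    posD_sub (b := ⟨⟨0, 1, 1⟩, ⟨98, 99, 147⟩, ⟨4050, 10000, 30000⟩, ⟨290, 4000, 1000⟩⟩) (by decide +kernel) tC_ew⟩

end Vale.Agent.P100.Calib.Closed.Six.Tail
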