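import Vale.Agent.P100.Calib.SlabSixTailDataC
import Vale.Agent.P100.Calib.SlabSixTailGlobC

/-!
# Checks of some pieces of the certificate

The checks are written as definitions so that they run one after another, which keeps the memory of the
kernel low.
-/

set_option linter.defProp false

namespace Vale.Agent.P100.Calib.Closed.Six.Tail

open BoxPos Large

local instance sixTailCheckstC51Add : Add Ex := ⟨Ex.add⟩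
local instance sixTailCheckstC51Sub : Sub Ex := ⟨Ex.sub⟩
local instance sixTailCheckstC51Mul : Mul Ex := ⟨Ex.mul⟩

def tC77_phx : PosIf ⟨⟨0, 1, 1⟩, ⟨98, 99, 147⟩, ⟨8514, 8886, 30000⟩, ⟨1669, 1743, 1000⟩⟩ (tC77.u₁ - tC77Lo) (phCn (tC77.u₁ + xO * (tC77Lo - tC77.u₁))) :=
  posIf_of_posD (posD_of_check (c := ⟨109, ⟨2, 0, 4, 2⟩⟩) (by decide +kernel))

def tC77_phd : PosD ⟨⟨0, 1, 1⟩, ⟨98, 99, 147⟩, ⟨8514, 8886, 30000⟩, ⟨1669, 1743, 1000⟩⟩ (phCd (tC77.u₁ + xO * (tC77Lo - tC77.u₁))) :=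
  posD_of_check (c := ⟨51, ⟨1, 0, 2, 1⟩⟩) (by decide +kernel)

def tC77_p0 : PosD ⟨⟨0, 1, 1⟩, ⟨98, 99, 147⟩, ⟨8514, 8886, 30000⟩, ⟨1669, 1743, 1000⟩⟩ (tC77.hP0) :=
  posD_of_check (c := ⟨83, ⟨0, 2, 3, 1⟩⟩) (by decide +kernel)

def tC77_gn : PosD ⟨⟨0, 1, 1⟩, ⟨98, 99, 147⟩, ⟨8514, 8886, 30000⟩, ⟨1669, 1743, 1000⟩⟩ (tC77.hGn) :=
  posD_of_check (c := ⟨69, ⟨1, 1, 2, 2⟩⟩) (by decide +kernel)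

def tC77_den0 : PosD ⟨⟨0, 1, 1⟩, ⟨98, 99, 147⟩, ⟨8514, 8886, 30000⟩, ⟨1669, 1743, 1000⟩⟩ (tC77.hDen false) :=
  posD_of_check (c := ⟨51, ⟨1, 0, 2, 1⟩⟩) (by decide +kernel)

def tC77_den1 : PosD ⟨⟨0, 1, 1⟩, ⟨98, 99, 147⟩, ⟨8514, 8886, 30000⟩, ⟨1669, 1743, 1000⟩⟩ (tC77.hDen true) :=
  posD_of_check (c := ⟨51, ⟨1, 0, 2, 1⟩⟩) (by decide +kernel)

def tC77_ev0 : PosD ⟨⟨0, 1, 1⟩, ⟨98, 99, 147⟩, ⟨8514, 8886, 30000⟩, ⟨1669, 1743, 1000⟩⟩ (tC77.hEv false) :=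
  posD_of_check (c := ⟨220, ⟨4, 2, 8, 4⟩⟩) (by decide +kernel)

def tC77_zL0 : PosD ⟨⟨0, 1, 1⟩, ⟨98, 99, 147⟩, ⟨8514, 8886, 30000⟩, ⟨1669, 1743, 1000⟩⟩ (tC77.hZL false) :=
  posD_of_check (c := ⟨222, ⟨4, 3, 8, 4⟩⟩) (by decide +kernel)

def tC77_zU0 : PosD ⟨⟨0, 1, 1⟩, ⟨98, 99, 147⟩, ⟨8514, 8886, 30000⟩, ⟨1669, 1743, 1000⟩⟩ (tC77.hZU false) :=
  posD_of_check (c := ⟨222, ⟨4, 3, 8, 4⟩⟩) (by decide +kernel)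

def tC77_eL0 : PosD ⟨⟨0, 1, 1⟩, ⟨98, 99, 147⟩, ⟨8514, 8886, 30000⟩, ⟨1669, 1743, 1000⟩⟩ (tC77.hEL false) :=
  posD_of_check (c := ⟨317, ⟨5, 6, 11, 6⟩⟩) (by decide +kernel)

def tC77_eH0 : PosD ⟨⟨0, 1, 1⟩, ⟨98, 99, 147⟩, ⟨8514, 8886, 30000⟩, ⟨1669, 1743, 1000⟩⟩ (tC77.hEH false) :=
  posD_of_check (c := ⟨324, ⟨5, 6, 11, 6⟩⟩) (by decide +kernel)

def tC77_pL0 : PosD ⟨⟨0, 1, 1⟩, ⟨98, 99, 147⟩, ⟨8514, 8886, 30000⟩, ⟨1669, 1743, 1000⟩⟩ (tC77.hPL false) :=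
  posD_of_check (c := ⟨315, ⟨5, 6, 11, 6⟩⟩) (by decide +kernel)

def tC77_pU0 : PosD ⟨⟨0, 1, 1⟩, ⟨98, 99, 147⟩, ⟨8514, 8886, 30000⟩, ⟨1669, 1743, 1000⟩⟩ (tC77.hPU false) :=
  posD_of_check (c := ⟨357, ⟨5, 6, 11, 7⟩⟩) (by decide +kernel)

def tC77_kU0 : PosD ⟨⟨0, 1, 1⟩, ⟨98, 99, 147⟩, ⟨8514, 8886, 30000⟩, ⟨1669, 1743, 1000⟩⟩ (tC77.hKU false) :=
  posD_of_check (c := ⟨344, ⟨5, 6, 11, 7⟩⟩) (by decide +kernel)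

def tC77_kL0 : PosD ⟨⟨0, 1, 1⟩, ⟨98, 99, 147⟩, ⟨8514, 8886, 30000⟩, ⟨1669, 1743, 1000⟩⟩ (tC77.hKL false) :=
  posD_of_check (c := ⟨357, ⟨5, 6, 11, 7⟩⟩) (by decide +kernel)

def tC77_wU0 : PosD ⟨⟨0, 1, 1⟩, ⟨98, 99, 147⟩, ⟨8514, 8886, 30000⟩, ⟨1669, 1743, 1000⟩⟩ (tC77.hWU false) :=
  posD_of_check (c := ⟨389, ⟨5, 8, 12, 7⟩⟩) (by decide +kernel)

def tC77_wL0 : PosD ⟨⟨0, 1, 1⟩, ⟨98, 99, 147⟩, ⟨8514, 8886, 30000⟩, ⟨1669, 1743, 1000⟩⟩ (tC77.hWL false) :=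
  posD_of_check (c := ⟨386, ⟨5, 8, 12, 7⟩⟩) (by decide +kernel)

def tC77_ev1 : PosD ⟨⟨0, 1, 1⟩, ⟨98, 99, 147⟩, ⟨8514, 8886, 30000⟩, ⟨1669, 1743, 1000⟩⟩ (tC77.hEv true) :=
  posD_of_check (c := ⟨218, ⟨4, 2, 8, 4⟩⟩) (by decide +kernel)

def tC77_zL1 : PosD ⟨⟨0, 1, 1⟩, ⟨98, 99, 147⟩, ⟨8514, 8886, 30000⟩, ⟨1669, 1743, 1000⟩⟩ (tC77.hZL true) :=
  posD_of_check (c := ⟨220, ⟨4, 3, 8, 4⟩⟩) (by decide +kernel)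

def tC77_zU1 : PosD ⟨⟨0, 1, 1⟩, ⟨98, 99, 147⟩, ⟨8514, 8886, 30000⟩, ⟨1669, 1743, 1000⟩⟩ (tC77.hZU true) :=
  posD_of_check (c := ⟨220, ⟨4, 3, 8, 4⟩⟩) (by decide +kernel)

def tC77_eL1 : PosD ⟨⟨0, 1, 1⟩, ⟨98, 99, 147⟩, ⟨8514, 8886, 30000⟩, ⟨1669, 1743, 1000⟩⟩ (tC77.hEL true) :=
  posD_of_check (c := ⟨316, ⟨5, 6, 11, 6⟩⟩) (by decide +kernel)

def tC77_eH1 : PosD ⟨⟨0, 1, 1⟩, ⟨98, 99, 147⟩, ⟨8514, 8886, 30000⟩, ⟨1669, 1743, 1000⟩⟩ (tC77.hEH true) :=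
  posD_of_check (c := ⟨323, ⟨5, 6, 11, 6⟩⟩) (by decide +kernel)

def tC77_pL1 : PosD ⟨⟨0, 1, 1⟩, ⟨98, 99, 147⟩, ⟨8514, 8886, 30000⟩, ⟨1669, 1743, 1000⟩⟩ (tC77.hPL true) :=
  posD_of_check (c := ⟨314, ⟨5, 6, 11, 6⟩⟩) (by decide +kernel)

def tC77_pU1 : PosD ⟨⟨0, 1, 1⟩, ⟨98, 99, 147⟩, ⟨8514, 8886, 30000⟩, ⟨1669, 1743, 1000⟩⟩ (tC77.hPU true) :=
  posD_of_check (c := ⟨356, ⟨5, 6, 11, 7⟩⟩) (by decide +kernel)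

def tC77_kU1 : PosD ⟨⟨0, 1, 1⟩, ⟨98, 99, 147⟩, ⟨8514, 8886, 30000⟩, ⟨1669, 1743, 1000⟩⟩ (tC77.hKU true) :=
  posD_of_check (c := ⟨343, ⟨5, 6, 11, 7⟩⟩) (by decide +kernel)

def tC77_kL1 : PosD ⟨⟨0, 1, 1⟩, ⟨98, 99, 147⟩, ⟨8514, 8886, 30000⟩, ⟨1669, 1743, 1000⟩⟩ (tC77.hKL true) :=
  posD_of_check (c := ⟨355, ⟨5, 6, 11, 7⟩⟩) (by decide +kernel)

def tC77_wU1 : PosD ⟨⟨0, 1, 1⟩, ⟨98, 99, 147⟩, ⟨8514, 8886, 30000⟩, ⟨1669, 1743, 1000⟩⟩ (tC77.hWU true) :=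
  posD_of_check (c := ⟨388, ⟨5, 8, 12, 7⟩⟩) (by decide +kernel)

def tC77_wL1 : PosD ⟨⟨0, 1, 1⟩, ⟨98, 99, 147⟩, ⟨8514, 8886, 30000⟩, ⟨1669, 1743, 1000⟩⟩ (tC77.hWL true) :=
  posD_of_check (c := ⟨385, ⟨5, 8, 12, 7⟩⟩) (by decide +kernel)

def tC77_nueH : PosD ⟨⟨0, 1, 1⟩, ⟨98, 99, 147⟩, ⟨8514, 8886, 30000⟩, ⟨1669, 1743, 1000⟩⟩ (tC77.eH.ν) :=
  posD_of_check (c := ⟨20, ⟨0, 0, 0, 0⟩⟩) (by decide +kernel)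

def tC77_nupU : PosD ⟨⟨0, 1, 1⟩, ⟨98, 99, 147⟩, ⟨8514, 8886, 30000⟩, ⟨1669, 1743, 1000⟩⟩ (tC77.pU.ν) :=
  posD_of_check (c := ⟨57, ⟨0, 0, 1, 1⟩⟩) (by decide +kernel)

def tC77_nukU : PosD ⟨⟨0, 1, 1⟩, ⟨98, 99, 147⟩, ⟨8514, 8886, 30000⟩, ⟨1669, 1743, 1000⟩⟩ (tC77.kU.ν) :=
  posD_of_check (c := ⟨43, ⟨0, 0, 1, 1⟩⟩) (by decide +kernel)

def tC77_nukL : PosD ⟨⟨0, 1, 1⟩, ⟨98, 99, 147⟩, ⟨8514, 8886, 30000⟩, ⟨1669, 1743, 1000⟩⟩ (tC77.kL.ν) :=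
  posD_of_check (c := ⟨56, ⟨0, 0, 1, 1⟩⟩) (by decide +kernel)

def tC77_nuwU : PosD ⟨⟨0, 1, 1⟩, ⟨98, 99, 147⟩, ⟨8514, 8886, 30000⟩, ⟨1669, 1743, 1000⟩⟩ (tC77.wU.ν) :=
  posD_of_check (c := ⟨58, ⟨0, 0, 1, 1⟩⟩) (by decide +kernel)

def tC77_nuwL : PosD ⟨⟨0, 1, 1⟩, ⟨98, 99, 147⟩, ⟨8514, 8886, 30000⟩, ⟨1669, 1743, 1000⟩⟩ (tC77.wL.ν) :=
  posD_of_check (c := ⟨56, ⟨0, 0, 1, 1⟩⟩) (by decide +kernel)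

/-- The bounds of the piece. -/
def tC77_env : tC77.Env ⟨⟨0, 1, 1⟩, ⟨98, 99, 147⟩, ⟨8514, 8886, 30000⟩, ⟨1669, 1743, 1000⟩⟩ :=
  ⟨tC77_p0, Bool.forall_bool.2 ⟨tC77_den0, tC77_den1⟩, tC77_gn, Bool.forall_bool.2 ⟨tC77_ev0, tC77_ev1⟩, Bool.forall_bool.2 ⟨tC77_zL0, tC77_zL1⟩, Bool.forall_bool.2 ⟨tC77_zU0, tC77_zU1⟩, Bool.forall_bool.2 ⟨tC77_eL0, tC77_eL1⟩, ⟨.inr rfl, .inr rfl⟩, Bool.forall_bool.2 ⟨tC77_eH0, tC77_eH1⟩, ⟨.inr rfl, .inl tC77_nueH⟩, Bool.forall_bool.2 ⟨tC77_pL0, tC77_pL1⟩, ⟨.inr rfl, .inr rfl⟩, Bool.forall_bool.2 ⟨tC77_pU0, tC77_pU1⟩, ⟨.inr rfl, .inl tC77_nupU⟩, Bool.forall_bool.2 ⟨tC77_kU0, tC77_kU1⟩, ⟨.inr rfl, .inl tC77_nukU⟩, Bool.forall_bool.2 ⟨tC77_kL0, tC77_kL1⟩, ⟨.inr rfl, .inl tC77_nukL⟩, Bool.forall_bool.2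 ⟨tC77_wU0, tC77_wU1⟩, ⟨.inr rfl, .inl tC77_nuwU⟩, Bool.forall_bool.2 ⟨tC77_wL0, tC77_wL1⟩, ⟨.inr rfl, .inl tC77_nuwL⟩⟩

def tC77_pU20 : PosD ⟨⟨0, 1, 1⟩, ⟨98, 99, 147⟩, ⟨8514, 8886, 30000⟩, ⟨1669, 1743, 1000⟩⟩ (({ tC77 with pU := tC77PU } : Piece).hPU false) :=
  posD_of_check (c := ⟨357, ⟨5, 6, 11, 7⟩⟩) (by decide +kernel)

def tC77_pU21 : PosD ⟨⟨0, 1, 1⟩, ⟨98, 99, 147⟩, ⟨8514, 8886, 30000⟩, ⟨1669, 1743, 1000⟩⟩ (({ tC77 with pU := tC77PU } : Piece).hPU true) :=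
  posD_of_check (c := ⟨356, ⟨5, 6, 11, 7⟩⟩) (by decide +kernel)

def tC77_nupU2 : PosD ⟨⟨0, 1, 1⟩, ⟨98, 99, 147⟩, ⟨8514, 8886, 30000⟩, ⟨1669, 1743, 1000⟩⟩ (tC77PU.ν) :=
  posD_of_check (c := ⟨57, ⟨0, 0, 1, 1⟩⟩) (by decide +kernel)

/-- The bounds with the other bound of `p`. -/
def tC77_envU : ({ tC77 with pU := tC77PU } : Piece).Env ⟨⟨0, 1, 1⟩, ⟨98, 99, 147⟩, ⟨8514, 8886, 30000⟩, ⟨1669, 1743, 1000⟩⟩ :=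
  tC77_env.withU tC77PU (Bool.forall_bool.2 ⟨tC77_pU20, tC77_pU21⟩) ⟨.inr rfl, .inl tC77_nupU2⟩

def tC77A_pp : PosD ⟨⟨0, 1, 1⟩, ⟨98, 99, 147⟩, ⟨8514, 8886, 30000⟩, ⟨1669, 1743, 1000⟩⟩ (tC77A.xPL) :=
  posD_of_check (c := ⟨63, ⟨1, 1, 2, 2⟩⟩) (by decide +kernel)

def tC77A_k2p : PosD ⟨⟨0, 1, 1⟩, ⟨98, 99, 147⟩, ⟨8514, 8886, 30000⟩, ⟨1669, 1743, 1000⟩⟩ (tC77A.k2p tC77A.xE) :=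
  posD_of_check (c := ⟨74, ⟨1, 1, 2, 2⟩⟩) (by decide +kernel)

def tC77A_k2m : PosD ⟨⟨0, 1, 1⟩, ⟨98, 99, 147⟩, ⟨8514, 8886, 30000⟩, ⟨1669, 1743, 1000⟩⟩ (tC77A.k2m tC77A.xE) :=
  posD_of_check (c := ⟨72, ⟨1, 1, 2, 2⟩⟩) (by decide +kernel)

def tC77A_v2p : PosD ⟨⟨0, 1, 1⟩, ⟨98, 99, 147⟩, ⟨8514, 8886, 30000⟩, ⟨1669, 1743, 1000⟩⟩ (tC77A.hV2p) :=
  posD_of_check (c := ⟨275, ⟨1, 6, 10, 5⟩⟩) (by decide +kernel)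

def tC77A_v2m : PosD ⟨⟨0, 1, 1⟩, ⟨98, 99, 147⟩, ⟨8514, 8886, 30000⟩, ⟨1669, 1743, 1000⟩⟩ (tC77A.hV2m) :=
  posD_of_check (c := ⟨273, ⟨1, 6, 10, 5⟩⟩) (by decide +kernel)

def tC77A_v3p : PosD ⟨⟨0, 1, 1⟩, ⟨98, 99, 147⟩, ⟨8514, 8886, 30000⟩, ⟨1669, 1743, 1000⟩⟩ (tC77A.hV3p) :=
  posD_of_check (c := ⟨260, ⟨1, 6, 9, 5⟩⟩) (by decide +kernel)

def tC77A_v3m : PosD ⟨⟨0, 1, 1⟩, ⟨98, 99, 147⟩, ⟨8514, 8886, 30000⟩, ⟨1669, 1743, 1000⟩⟩ (tC77A.hV3m) :=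
  posD_of_check (c := ⟨258, ⟨1, 6, 9, 5⟩⟩) (by decide +kernel)

def tC77A_kap0 : PosD ⟨⟨0, 1, 1⟩, ⟨98, 99, 147⟩, ⟨8514, 8886, 30000⟩, ⟨1669, 1743, 1000⟩⟩ (tC77A.kap false) :=
  posD_of_check (c := ⟨4, ⟨0, 0, 0, 0⟩⟩) (by decide +kernel)

def tC77A_c10 : PosD ⟨⟨0, 1, 1⟩, ⟨98, 99, 147⟩, ⟨8514, 8886, 30000⟩, ⟨1669, 1743, 1000⟩⟩ (tC77A.hC1 false) :=
  posD_of_check (c := ⟨241, ⟨2, 5, 8, 5⟩⟩) (by decide +kernel)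

def tC77A_c1h0 : PosD ⟨⟨0, 1, 1⟩, ⟨98, 99, 147⟩, ⟨8514, 8886, 30000⟩, ⟨1669, 1743, 1000⟩⟩ (tC77A.hC1' false) :=
  posD_of_check (c := ⟨241, ⟨2, 5, 8, 5⟩⟩) (by decide +kernel)

def tC77A_tg00 : PosD ⟨⟨0, 1, 1⟩, ⟨98, 99, 147⟩, ⟨8514, 8886, 30000⟩, ⟨1669, 1743, 1000⟩⟩ (tC77A.hG false (tC77A.pEnd false)) :=
  posD_of_check (c := ⟨376, ⟨2, 7, 14, 9⟩⟩) (by decide +kernel)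

def tC77A_c2p00 : PosD ⟨⟨0, 1, 1⟩, ⟨98, 99, 147⟩, ⟨8514, 8886, 30000⟩, ⟨1669, 1743, 1000⟩⟩ (tC77A.hC2p false (tC77A.pEnd false)) :=
  posD_of_check (c := ⟨450, ⟨3, 8, 16, 11⟩⟩) (by decide +kernel)

def tC77A_c2m00 : PosD ⟨⟨0, 1, 1⟩, ⟨98, 99, 147⟩, ⟨8514, 8886, 30000⟩, ⟨1669, 1743, 1000⟩⟩ (tC77A.hC2m false (tC77A.pEnd false)) :=
  posD_of_relax (k₁ := 1) (k₂ := 0) (k₃ := 0) (n := 16) (posD_of_check (c := ⟨449, ⟨3, 8, 16, 11⟩⟩) (by decide +kernel))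

def tC77A_c3p00 : PosD ⟨⟨0, 1, 1⟩, ⟨98, 99, 147⟩, ⟨8514, 8886, 30000⟩, ⟨1669, 1743, 1000⟩⟩ (tC77A.hC3p false false) :=
  posD_of_check (c := ⟨412, ⟨3, 8, 14, 10⟩⟩) (by decide +kernel)

def tC77A_c3m00 : PosD ⟨⟨0, 1, 1⟩, ⟨98, 99, 147⟩, ⟨8514, 8886, 30000⟩, ⟨1669, 1743, 1000⟩⟩ (tC77A.hC3m false false) :=
  posD_of_check (c := ⟨412, ⟨3, 8, 14, 10⟩⟩) (by decide +kernel)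

def tC77A_c3ph00 : PosD ⟨⟨0, 1, 1⟩, ⟨98, 99, 147⟩, ⟨8514, 8886, 30000⟩, ⟨1669, 1743, 1000⟩⟩ (tC77A.hC3p' false false) :=
  posD_of_check (c := ⟨412, ⟨3, 8, 14, 10⟩⟩) (by decide +kernel)

def tC77A_c3mh00 : PosD ⟨⟨0, 1, 1⟩, ⟨98, 99, 147⟩, ⟨8514, 8886, 30000⟩, ⟨1669, 1743, 1000⟩⟩ (tC77A.hC3m' false false) :=
  posD_of_check (c := ⟨412, ⟨3, 8, 14, 10⟩⟩) (by decide +kernel)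

def tC77A_up00 : PosD ⟨⟨0, 1, 1⟩, ⟨98, 99, 147⟩, ⟨8514, 8886, 30000⟩, ⟨1669, 1743, 1000⟩⟩ (tC77A.hUp false false) :=
  posD_of_check (c := ⟨412, ⟨3, 8, 14, 10⟩⟩) (by decide +kernel)

def tC77A_um00 : PosD ⟨⟨0, 1, 1⟩, ⟨98, 99, 147⟩, ⟨8514, 8886, 30000⟩, ⟨1669, 1743, 1000⟩⟩ (tC77A.hUm false false) :=
  posD_of_check (c := ⟨412, ⟨3, 8, 14, 10⟩⟩) (by decide +kernel)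

def tC77A_tmg00 : PosD ⟨⟨0, 1, 1⟩, ⟨98, 99, 147⟩, ⟨8514, 8886, 30000⟩, ⟨1669, 1743, 1000⟩⟩ (tC77A.hTMG false (tC77A.pEnd false)) :=
  posD_of_check (c := ⟨360, ⟨2, 7, 13, 8⟩⟩) (by decide +kernel)

def tC77A_tg01 : PosD ⟨⟨0, 1, 1⟩, ⟨98, 99, 147⟩, ⟨8514, 8886, 30000⟩, ⟨1669, 1743, 1000⟩⟩ (tC77A.hG true (tC77A.pEnd false)) :=
  posD_of_check (c := ⟨376, ⟨2, 7, 14, 9⟩⟩) (by decide +kernel)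

def tC77A_c2p01 : PosD ⟨⟨0, 1, 1⟩, ⟨98, 99, 147⟩, ⟨8514, 8886, 30000⟩, ⟨1669, 1743, 1000⟩⟩ (tC77A.hC2p true (tC77A.pEnd false)) :=
  posD_of_check (c := ⟨450, ⟨3, 8, 16, 11⟩⟩) (by decide +kernel)

def tC77A_c2m01 : PosD ⟨⟨0, 1, 1⟩, ⟨98, 99, 147⟩, ⟨8514, 8886, 30000⟩, ⟨1669, 1743, 1000⟩⟩ (tC77A.hC2m true (tC77A.pEnd false)) :=
  posD_of_check (c := ⟨449, ⟨3, 8, 16, 11⟩⟩) (by decide +kernel)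

def tC77A_c3p01 : PosD ⟨⟨0, 1, 1⟩, ⟨98, 99, 147⟩, ⟨8514, 8886, 30000⟩, ⟨1669, 1743, 1000⟩⟩ (tC77A.hC3p false true) :=
  posD_of_check (c := ⟨412, ⟨3, 8, 14, 10⟩⟩) (by decide +kernel)

def tC77A_c3m01 : PosD ⟨⟨0, 1, 1⟩, ⟨98, 99, 147⟩, ⟨8514, 8886, 30000⟩, ⟨1669, 1743, 1000⟩⟩ (tC77A.hC3m false true) :=
  posD_of_check (c := ⟨412, ⟨3, 8, 14, 10⟩⟩) (by decide +kernel)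

def tC77A_c3ph01 : PosD ⟨⟨0, 1, 1⟩, ⟨98, 99, 147⟩, ⟨8514, 8886, 30000⟩, ⟨1669, 1743, 1000⟩⟩ (tC77A.hC3p' false true) :=
  posD_of_check (c := ⟨412, ⟨3, 8, 14, 10⟩⟩) (by decide +kernel)

def tC77A_c3mh01 : PosD ⟨⟨0, 1, 1⟩, ⟨98, 99, 147⟩, ⟨8514, 8886, 30000⟩, ⟨1669, 1743, 1000⟩⟩ (tC77A.hC3m' false true) :=
  posD_of_check (c := ⟨412, ⟨3, 8, 14, 10⟩⟩) (by decide +kernel)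

def tC77A_up01 : PosD ⟨⟨0, 1, 1⟩, ⟨98, 99, 147⟩, ⟨8514, 8886, 30000⟩, ⟨1669, 1743, 1000⟩⟩ (tC77A.hUp false true) :=
  posD_of_check (c := ⟨412, ⟨3, 8, 14, 10⟩⟩) (by decide +kernel)

def tC77A_um01 : PosD ⟨⟨0, 1, 1⟩, ⟨98, 99, 147⟩, ⟨8514, 8886, 30000⟩, ⟨1669, 1743, 1000⟩⟩ (tC77A.hUm false true) :=
  posD_of_check (c := ⟨412, ⟨3, 8, 14, 10⟩⟩) (by decide +kernel)

def tC77A_tmg01 : PosD ⟨⟨0, 1, 1⟩, ⟨98, 99, 147⟩, ⟨8514, 8886, 30000⟩, ⟨1669, 1743, 1000⟩⟩ (tC77A.hTMG true (tC77A.pEnd false)) :=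
  posD_of_check (c := ⟨360, ⟨2, 7, 13, 8⟩⟩) (by decide +kernel)

def tC77A_kap1 : PosD ⟨⟨0, 1, 1⟩, ⟨98, 99, 147⟩, ⟨8514, 8886, 30000⟩, ⟨1669, 1743, 1000⟩⟩ (tC77A.kap true) :=
  posD_of_check (c := ⟨4, ⟨0, 0, 0, 0⟩⟩) (by decide +kernel)

def tC77A_c11 : PosD ⟨⟨0, 1, 1⟩, ⟨98, 99, 147⟩, ⟨8514, 8886, 30000⟩, ⟨1669, 1743, 1000⟩⟩ (tC77A.hC1 true) :=
  posD_of_check (c := ⟨241, ⟨2, 5, 8, 5⟩⟩) (by decide +kernel)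

def tC77A_c1h1 : PosD ⟨⟨0, 1, 1⟩, ⟨98, 99, 147⟩, ⟨8514, 8886, 30000⟩, ⟨1669, 1743, 1000⟩⟩ (tC77A.hC1' true) :=
  posD_of_check (c := ⟨241, ⟨2, 5, 8, 5⟩⟩) (by decide +kernel)

def tC77A_tg10 : PosD ⟨⟨0, 1, 1⟩, ⟨98, 99, 147⟩, ⟨8514, 8886, 30000⟩, ⟨1669, 1743, 1000⟩⟩ (tC77A.hG false (tC77A.pEnd true)) :=
  posD_of_check (c := ⟨376, ⟨2, 7, 14, 9⟩⟩) (by decide +kernel)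

def tC77A_c2p10 : PosD ⟨⟨0, 1, 1⟩, ⟨98, 99, 147⟩, ⟨8514, 8886, 30000⟩, ⟨1669, 1743, 1000⟩⟩ (tC77A.hC2p false (tC77A.pEnd true)) :=
  posD_of_check (c := ⟨450, ⟨3, 8, 16, 11⟩⟩) (by decide +kernel)

def tC77A_c2m10 : PosD ⟨⟨0, 1, 1⟩, ⟨98, 99, 147⟩, ⟨8514, 8886, 30000⟩, ⟨1669, 1743, 1000⟩⟩ (tC77A.hC2m false (tC77A.pEnd true)) :=
  posD_of_relax (k₁ := 1) (k₂ := 0) (k₃ := 0) (n := 16) (posD_of_check (c := ⟨449, ⟨3, 8, 16, 11⟩⟩) (by decide +kernel))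

def tC77A_c3p10 : PosD ⟨⟨0, 1, 1⟩, ⟨98, 99, 147⟩, ⟨8514, 8886, 30000⟩, ⟨1669, 1743, 1000⟩⟩ (tC77A.hC3p true false) :=
  posD_of_check (c := ⟨412, ⟨3, 8, 14, 10⟩⟩) (by decide +kernel)

def tC77A_c3m10 : PosD ⟨⟨0, 1, 1⟩, ⟨98, 99, 147⟩, ⟨8514, 8886, 30000⟩, ⟨1669, 1743, 1000⟩⟩ (tC77A.hC3m true false) :=
  posD_of_check (c := ⟨412, ⟨3, 8, 14, 10⟩⟩) (by decide +kernel)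

def tC77A_c3ph10 : PosD ⟨⟨0, 1, 1⟩, ⟨98, 99, 147⟩, ⟨8514, 8886, 30000⟩, ⟨1669, 1743, 1000⟩⟩ (tC77A.hC3p' true false) :=
  posD_of_check (c := ⟨412, ⟨3, 8, 14, 10⟩⟩) (by decide +kernel)

def tC77A_c3mh10 : PosD ⟨⟨0, 1, 1⟩, ⟨98, 99, 147⟩, ⟨8514, 8886, 30000⟩, ⟨1669, 1743, 1000⟩⟩ (tC77A.hC3m' true false) :=
  posD_of_check (c := ⟨412, ⟨3, 8, 14, 10⟩⟩) (by decide +kernel)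

def tC77A_up10 : PosD ⟨⟨0, 1, 1⟩, ⟨98, 99, 147⟩, ⟨8514, 8886, 30000⟩, ⟨1669, 1743, 1000⟩⟩ (tC77A.hUp true false) :=
  posD_of_check (c := ⟨412, ⟨3, 8, 14, 10⟩⟩) (by decide +kernel)

def tC77A_um10 : PosD ⟨⟨0, 1, 1⟩, ⟨98, 99, 147⟩, ⟨8514, 8886, 30000⟩, ⟨1669, 1743, 1000⟩⟩ (tC77A.hUm true false) :=
  posD_of_check (c := ⟨412, ⟨3, 8, 14, 10⟩⟩) (by decide +kernel)

def tC77A_tmg10 : PosD ⟨⟨0, 1, 1⟩, ⟨98, 99, 147⟩, ⟨8514, 8886, 30000⟩, ⟨1669, 1743, 1000⟩⟩ (tC77A.hTMG false (tC77A.pEnd true)) :=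
  posD_of_check (c := ⟨360, ⟨2, 7, 13, 8⟩⟩) (by decide +kernel)

def tC77A_tg11 : PosD ⟨⟨0, 1, 1⟩, ⟨98, 99, 147⟩, ⟨8514, 8886, 30000⟩, ⟨1669, 1743, 1000⟩⟩ (tC77A.hG true (tC77A.pEnd true)) :=
  posD_of_check (c := ⟨376, ⟨2, 7, 14, 9⟩⟩) (by decide +kernel)

def tC77A_c2p11 : PosD ⟨⟨0, 1, 1⟩, ⟨98, 99, 147⟩, ⟨8514, 8886, 30000⟩, ⟨1669, 1743, 1000⟩⟩ (tC77A.hC2p true (tC77A.pEnd true)) :=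
  posD_of_check (c := ⟨450, ⟨3, 8, 16, 11⟩⟩) (by decide +kernel)

def tC77A_c2m11 : PosD ⟨⟨0, 1, 1⟩, ⟨98, 99, 147⟩, ⟨8514, 8886, 30000⟩, ⟨1669, 1743, 1000⟩⟩ (tC77A.hC2m true (tC77A.pEnd true)) :=
  posD_of_check (c := ⟨449, ⟨3, 8, 16, 11⟩⟩) (by decide +kernel)

def tC77A_c3p11 : PosD ⟨⟨0, 1, 1⟩, ⟨98, 99, 147⟩, ⟨8514, 8886, 30000⟩, ⟨1669, 1743, 1000⟩⟩ (tC77A.hC3p true true) :=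
  posD_of_check (c := ⟨412, ⟨3, 8, 14, 10⟩⟩) (by decide +kernel)

def tC77A_c3m11 : PosD ⟨⟨0, 1, 1⟩, ⟨98, 99, 147⟩, ⟨8514, 8886, 30000⟩, ⟨1669, 1743, 1000⟩⟩ (tC77A.hC3m true true) :=
  posD_of_check (c := ⟨412, ⟨3, 8, 14, 10⟩⟩) (by decide +kernel)

def tC77A_c3ph11 : PosD ⟨⟨0, 1, 1⟩, ⟨98, 99, 147⟩, ⟨8514, 8886, 30000⟩, ⟨1669, 1743, 1000⟩⟩ (tC77A.hC3p' true true) :=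
  posD_of_check (c := ⟨412, ⟨3, 8, 14, 10⟩⟩) (by decide +kernel)

def tC77A_c3mh11 : PosD ⟨⟨0, 1, 1⟩, ⟨98, 99, 147⟩, ⟨8514, 8886, 30000⟩, ⟨1669, 1743, 1000⟩⟩ (tC77A.hC3m' true true) :=
  posD_of_check (c := ⟨412, ⟨3, 8, 14, 10⟩⟩) (by decide +kernel)

def tC77A_up11 : PosD ⟨⟨0, 1, 1⟩, ⟨98, 99, 147⟩, ⟨8514, 8886, 30000⟩, ⟨1669, 1743, 1000⟩⟩ (tC77A.hUp true true) :=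
  posD_of_check (c := ⟨412, ⟨3, 8, 14, 10⟩⟩) (by decide +kernel)

def tC77A_um11 : PosD ⟨⟨0, 1, 1⟩, ⟨98, 99, 147⟩, ⟨8514, 8886, 30000⟩, ⟨1669, 1743, 1000⟩⟩ (tC77A.hUm true true) :=
  posD_of_check (c := ⟨412, ⟨3, 8, 14, 10⟩⟩) (by decide +kernel)

def tC77A_tmg11 : PosD ⟨⟨0, 1, 1⟩, ⟨98, 99, 147⟩, ⟨8514, 8886, 30000⟩, ⟨1669, 1743, 1000⟩⟩ (tC77A.hTMG true (tC77A.pEnd true)) :=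
  posD_of_check (c := ⟨360, ⟨2, 7, 13, 8⟩⟩) (by decide +kernel)

/-- The signs of the piece. -/
def tC77A_sign : tC77A.Sign ⟨⟨0, 1, 1⟩, ⟨98, 99, 147⟩, ⟨8514, 8886, 30000⟩, ⟨1669, 1743, 1000⟩⟩ :=
  ⟨tC77A_pp,
    tC77A_k2p,
    tC77A_k2m,
    Bool.forall_bool.2 ⟨(Bool.forall_bool.2 ⟨tC77A_tg00, tC77A_tg01⟩), (Bool.forall_bool.2 ⟨tC77A_tg10, tC77A_tg11⟩)⟩,
    Bool.forall_bool.2 ⟨(Bool.forall_bool.2 ⟨tC77A_c2p00, tC77A_c2p01⟩), (Bool.forall_bool.2 ⟨tC77A_c2p10, tC77A_c2p11⟩)⟩,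
    Bool.forall_bool.2 ⟨(Bool.forall_bool.2 ⟨tC77A_c2m00, tC77A_c2m01⟩), (Bool.forall_bool.2 ⟨tC77A_c2m10, tC77A_c2m11⟩)⟩,
    Bool.forall_bool.2 ⟨tC77A_kap0, tC77A_kap1⟩,
    Bool.forall_bool.2 ⟨tC77A_c10, tC77A_c11⟩,
    Bool.forall_bool.2 ⟨(Bool.forall_bool.2 ⟨tC77A_c3p00, tC77A_c3p01⟩), (Bool.forall_bool.2 ⟨tC77A_c3p10, tC77A_c3p11⟩)⟩,
    Bool.forall_bool.2 ⟨(Bool.forall_bool.2 ⟨tC77A_c3m00, tC77A_c3m01⟩), (Bool.forall_bool.2 ⟨tC77A_c3m10, tC77A_c3m11⟩)⟩,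
    Bool.forall_bool.2 ⟨(Bool.forall_bool.2 ⟨tC77A_tmg00, tC77A_tmg01⟩), (Bool.forall_bool.2 ⟨tC77A_tmg10, tC77A_tmg11⟩)⟩,
    .inr (Bool.forall_bool.2 ⟨⟨tC77A_c1h0, Bool.forall_bool.2 ⟨⟨tC77A_c3ph00, tC77A_c3mh00, tC77A_up00, tC77A_um00⟩, ⟨tC77A_c3ph01, tC77A_c3mh01, tC77A_up01, tC77A_um01⟩⟩⟩, ⟨tC77A_c1h1, Bool.forall_bool.2 ⟨⟨tC77A_c3ph10, tC77A_c3mh10, tC77A_up10, tC77A_um10⟩, ⟨tC77A_c3ph11, tC77A_c3mh11, tC77A_up11, tC77A_um11⟩⟩⟩⟩),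
    tC77A_v2p,
    tC77A_v2m,
    tC77A_v3p,
    tC77A_v3m,
    posD_sub (b := ⟨⟨0, 1, 1⟩, ⟨98, 99, 147⟩, ⟨4050, 10000, 30000⟩, ⟨290, 4000, 1000⟩⟩) (by decide +kernel) tC_vG,
    posD_sub (b := ⟨⟨0, 1, 1⟩, ⟨98, 99, 147⟩, ⟨4050, 10000, 30000⟩, ⟨290, 4000, 1000⟩⟩) (by decide +kernel) tC_vMG,
    posD_sub (b := ⟨⟨0, 1, 1⟩, ⟨98, 99, 147⟩, ⟨4050, 10000, 30000⟩, ⟨290, 4000, 1000⟩⟩) (by decide +kernel) tC_ak,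
    posD_sub (b := ⟨⟨0, 1, 1⟩, ⟨98, 99, 147⟩, ⟨4050, 10000, 30000⟩, ⟨290, 4000, 1000⟩⟩) (by decide +kernel) tC_aw,
    posD_sub (b := ⟨⟨0, 1, 1⟩, ⟨98, 99, 147⟩, ⟨4050, 10000, 30000⟩, ⟨290, 4000, 1000⟩⟩) (by decide +kernel) tC_gk,
    posD_sub (b := ⟨⟨0, 1, 1⟩, ⟨98, 99, 147⟩, ⟨4050, 10000, 30000⟩, ⟨290, 4000, 1000⟩⟩) (by decide +kernel) tC_gw,
    posD_sub (b := ⟨⟨0, 1, 1⟩, ⟨98, 99, 147⟩, ⟨4050, 10000, 30000⟩, ⟨290, 4000, 1000⟩⟩) (by decide +kernel) tC_ek,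
    posD_sub (b := ⟨⟨0, 1, 1⟩, ⟨98, 99, 147⟩, ⟨4050, 10000, 30000⟩, ⟨290, 4000, 1000⟩⟩) (by decide +kernel) tC_ew⟩

def tC77B_pp : PosD ⟨⟨0, 1, 1⟩, ⟨98, 99, 147⟩, ⟨8514, 8886, 30000⟩, ⟨1669, 1743, 1000⟩⟩ (tC77B.xPL) :=
  posD_of_check (c := ⟨63, ⟨1, 1, 2, 2⟩⟩) (by decide +kernel)

def tC77B_k2p : PosD ⟨⟨0, 1, 1⟩, ⟨98, 99, 147⟩, ⟨8514, 8886, 30000⟩, ⟨1669, 1743, 1000⟩⟩ (tC77B.k2p tC77B.xE) :=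
  posD_of_check (c := ⟨74, ⟨1, 1, 2, 2⟩⟩) (by decide +kernel)

def tC77B_k2m : PosD ⟨⟨0, 1, 1⟩, ⟨98, 99, 147⟩, ⟨8514, 8886, 30000⟩, ⟨1669, 1743, 1000⟩⟩ (tC77B.k2m tC77B.xE) :=
  posD_of_check (c := ⟨72, ⟨1, 1, 2, 2⟩⟩) (by decide +kernel)

def tC77B_v2p : PosD ⟨⟨0, 1, 1⟩, ⟨98, 99, 147⟩, ⟨8514, 8886, 30000⟩, ⟨1669, 1743, 1000⟩⟩ (tC77B.hV2p) :=
  posD_of_check (c := ⟨275, ⟨1, 6, 10, 5⟩⟩) (by decide +kernel)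

def tC77B_v2m : PosD ⟨⟨0, 1, 1⟩, ⟨98, 99, 147⟩, ⟨8514, 8886, 30000⟩, ⟨1669, 1743, 1000⟩⟩ (tC77B.hV2m) :=
  posD_of_check (c := ⟨273, ⟨1, 6, 10, 5⟩⟩) (by decide +kernel)

def tC77B_v3p : PosD ⟨⟨0, 1, 1⟩, ⟨98, 99, 147⟩, ⟨8514, 8886, 30000⟩, ⟨1669, 1743, 1000⟩⟩ (tC77B.hV3p) :=
  posD_of_check (c := ⟨260, ⟨1, 6, 9, 5⟩⟩) (by decide +kernel)

def tC77B_v3m : PosD ⟨⟨0, 1, 1⟩, ⟨98, 99, 147⟩, ⟨8514, 8886, 30000⟩, ⟨1669, 1743, 1000⟩⟩ (tC77B.hV3m) :=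
  posD_of_check (c := ⟨258, ⟨1, 6, 9, 5⟩⟩) (by decide +kernel)

def tC77B_kap0 : PosD ⟨⟨0, 1, 1⟩, ⟨98, 99, 147⟩, ⟨8514, 8886, 30000⟩, ⟨1669, 1743, 1000⟩⟩ (tC77B.kap false) :=
  posD_of_check (c := ⟨4, ⟨0, 0, 0, 0⟩⟩) (by decide +kernel)

def tC77B_c10 : PosD ⟨⟨0, 1, 1⟩, ⟨98, 99, 147⟩, ⟨8514, 8886, 30000⟩, ⟨1669, 1743, 1000⟩⟩ (tC77B.hC1 false) :=
  posD_of_check (c := ⟨241, ⟨2, 5, 8, 5⟩⟩) (by decide +kernel)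

def tC77B_c1h0 : PosD ⟨⟨0, 1, 1⟩, ⟨98, 99, 147⟩, ⟨8514, 8886, 30000⟩, ⟨1669, 1743, 1000⟩⟩ (tC77B.hC1' false) :=
  posD_of_check (c := ⟨241, ⟨2, 5, 8, 5⟩⟩) (by decide +kernel)

def tC77B_tg00 : PosD ⟨⟨0, 1, 1⟩, ⟨98, 99, 147⟩, ⟨8514, 8886, 30000⟩, ⟨1669, 1743, 1000⟩⟩ (tC77B.hG false (tC77B.pEnd false)) :=
  posD_of_check (c := ⟨376, ⟨2, 7, 14, 9⟩⟩) (by decide +kernel)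

def tC77B_c2p00 : PosD ⟨⟨0, 1, 1⟩, ⟨98, 99, 147⟩, ⟨8514, 8886, 30000⟩, ⟨1669, 1743, 1000⟩⟩ (tC77B.hC2p false (tC77B.pEnd false)) :=
  posD_of_check (c := ⟨450, ⟨3, 8, 16, 11⟩⟩) (by decide +kernel)

def tC77B_c2m00 : PosD ⟨⟨0, 1, 1⟩, ⟨98, 99, 147⟩, ⟨8514, 8886, 30000⟩, ⟨1669, 1743, 1000⟩⟩ (tC77B.hC2m false (tC77B.pEnd false)) :=
  posD_of_relax (k₁ := 1) (k₂ := 0) (k₃ := 0) (n := 16) (posD_of_check (c := ⟨449, ⟨3, 8, 16, 11⟩⟩) (by decide +kernel))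

def tC77B_c3p00 : PosD ⟨⟨0, 1, 1⟩, ⟨98, 99, 147⟩, ⟨8514, 8886, 30000⟩, ⟨1669, 1743, 1000⟩⟩ (tC77B.hC3p false false) :=
  posD_of_check (c := ⟨412, ⟨3, 8, 14, 10⟩⟩) (by decide +kernel)

def tC77B_c3m00 : PosD ⟨⟨0, 1, 1⟩, ⟨98, 99, 147⟩, ⟨8514, 8886, 30000⟩, ⟨1669, 1743, 1000⟩⟩ (tC77B.hC3m false false) :=
  posD_of_check (c := ⟨412, ⟨3, 8, 14, 10⟩⟩) (by decide +kernel)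

def tC77B_c3ph00 : PosD ⟨⟨0, 1, 1⟩, ⟨98, 99, 147⟩, ⟨8514, 8886, 30000⟩, ⟨1669, 1743, 1000⟩⟩ (tC77B.hC3p' false false) :=
  posD_of_check (c := ⟨412, ⟨3, 8, 14, 10⟩⟩) (by decide +kernel)

def tC77B_c3mh00 : PosD ⟨⟨0, 1, 1⟩, ⟨98, 99, 147⟩, ⟨8514, 8886, 30000⟩, ⟨1669, 1743, 1000⟩⟩ (tC77B.hC3m' false false) :=
  posD_of_check (c := ⟨412, ⟨3, 8, 14, 10⟩⟩) (by decide +kernel)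

def tC77B_up00 : PosD ⟨⟨0, 1, 1⟩, ⟨98, 99, 147⟩, ⟨8514, 8886, 30000⟩, ⟨1669, 1743, 1000⟩⟩ (tC77B.hUp false false) :=
  posD_of_check (c := ⟨412, ⟨3, 8, 14, 10⟩⟩) (by decide +kernel)

def tC77B_um00 : PosD ⟨⟨0, 1, 1⟩, ⟨98, 99, 147⟩, ⟨8514, 8886, 30000⟩, ⟨1669, 1743, 1000⟩⟩ (tC77B.hUm false false) :=
  posD_of_check (c := ⟨412, ⟨3, 8, 14, 10⟩⟩) (by decide +kernel)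

def tC77B_tmg00 : PosD ⟨⟨0, 1, 1⟩, ⟨98, 99, 147⟩, ⟨8514, 8886, 30000⟩, ⟨1669, 1743, 1000⟩⟩ (tC77B.hTMG false (tC77B.pEnd false)) :=
  posD_of_check (c := ⟨360, ⟨2, 7, 13, 8⟩⟩) (by decide +kernel)

def tC77B_tg01 : PosD ⟨⟨0, 1, 1⟩, ⟨98, 99, 147⟩, ⟨8514, 8886, 30000⟩, ⟨1669, 1743, 1000⟩⟩ (tC77B.hG true (tC77B.pEnd false)) :=
  posD_of_check (c := ⟨376, ⟨2, 7, 14, 9⟩⟩) (by decide +kernel)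

def tC77B_c2p01 : PosD ⟨⟨0, 1, 1⟩, ⟨98, 99, 147⟩, ⟨8514, 8886, 30000⟩, ⟨1669, 1743, 1000⟩⟩ (tC77B.hC2p true (tC77B.pEnd false)) :=
  posD_of_check (c := ⟨450, ⟨3, 8, 16, 11⟩⟩) (by decide +kernel)

def tC77B_c2m01 : PosD ⟨⟨0, 1, 1⟩, ⟨98, 99, 147⟩, ⟨8514, 8886, 30000⟩, ⟨1669, 1743, 1000⟩⟩ (tC77B.hC2m true (tC77B.pEnd false)) :=
  posD_of_check (c := ⟨449, ⟨3, 8, 16, 11⟩⟩) (by decide +kernel)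

def tC77B_c3p01 : PosD ⟨⟨0, 1, 1⟩, ⟨98, 99, 147⟩, ⟨8514, 8886, 30000⟩, ⟨1669, 1743, 1000⟩⟩ (tC77B.hC3p false true) :=
  posD_of_check (c := ⟨412, ⟨3, 8, 14, 10⟩⟩) (by decide +kernel)

def tC77B_c3m01 : PosD ⟨⟨0, 1, 1⟩, ⟨98, 99, 147⟩, ⟨8514, 8886, 30000⟩, ⟨1669, 1743, 1000⟩⟩ (tC77B.hC3m false true) :=
  posD_of_check (c := ⟨412, ⟨3, 8, 14, 10⟩⟩) (by decide +kernel)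

def tC77B_c3ph01 : PosD ⟨⟨0, 1, 1⟩, ⟨98, 99, 147⟩, ⟨8514, 8886, 30000⟩, ⟨1669, 1743, 1000⟩⟩ (tC77B.hC3p' false true) :=
  posD_of_check (c := ⟨412, ⟨3, 8, 14, 10⟩⟩) (by decide +kernel)

def tC77B_c3mh01 : PosD ⟨⟨0, 1, 1⟩, ⟨98, 99, 147⟩, ⟨8514, 8886, 30000⟩, ⟨1669, 1743, 1000⟩⟩ (tC77B.hC3m' false true) :=
  posD_of_check (c := ⟨412, ⟨3, 8, 14, 10⟩⟩) (by decide +kernel)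

def tC77B_up01 : PosD ⟨⟨0, 1, 1⟩, ⟨98, 99, 147⟩, ⟨8514, 8886, 30000⟩, ⟨1669, 1743, 1000⟩⟩ (tC77B.hUp false true) :=
  posD_of_check (c := ⟨412, ⟨3, 8, 14, 10⟩⟩) (by decide +kernel)

def tC77B_um01 : PosD ⟨⟨0, 1, 1⟩, ⟨98, 99, 147⟩, ⟨8514, 8886, 30000⟩, ⟨1669, 1743, 1000⟩⟩ (tC77B.hUm false true) :=
  posD_of_check (c := ⟨412, ⟨3, 8, 14, 10⟩⟩) (by decide +kernel)

def tC77B_tmg01 : PosD ⟨⟨0, 1, 1⟩, ⟨98, 99, 147⟩, ⟨8514, 8886, 30000⟩, ⟨1669, 1743, 1000⟩⟩ (tC77B.hTMG true (tC77B.pEnd false)) :=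
  posD_of_check (c := ⟨360, ⟨2, 7, 13, 8⟩⟩) (by decide +kernel)

def tC77B_kap1 : PosD ⟨⟨0, 1, 1⟩, ⟨98, 99, 147⟩, ⟨8514, 8886, 30000⟩, ⟨1669, 1743, 1000⟩⟩ (tC77B.kap true) :=
  posD_of_check (c := ⟨4, ⟨0, 0, 0, 0⟩⟩) (by decide +kernel)

def tC77B_c11 : PosD ⟨⟨0, 1, 1⟩, ⟨98, 99, 147⟩, ⟨8514, 8886, 30000⟩, ⟨1669, 1743, 1000⟩⟩ (tC77B.hC1 true) :=
  posD_of_check (c := ⟨241, ⟨2, 5, 8, 5⟩⟩) (by decide +kernel)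

def tC77B_c1h1 : PosD ⟨⟨0, 1, 1⟩, ⟨98, 99, 147⟩, ⟨8514, 8886, 30000⟩, ⟨1669, 1743, 1000⟩⟩ (tC77B.hC1' true) :=
  posD_of_check (c := ⟨241, ⟨2, 5, 8, 5⟩⟩) (by decide +kernel)

def tC77B_tg10 : PosD ⟨⟨0, 1, 1⟩, ⟨98, 99, 147⟩, ⟨8514, 8886, 30000⟩, ⟨1669, 1743, 1000⟩⟩ (tC77B.hG false (tC77B.pEnd true)) :=
  posD_of_check (c := ⟨376, ⟨2, 7, 14, 9⟩⟩) (by decide +kernel)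

def tC77B_c2p10 : PosD ⟨⟨0, 1, 1⟩, ⟨98, 99, 147⟩, ⟨8514, 8886, 30000⟩, ⟨1669, 1743, 1000⟩⟩ (tC77B.hC2p false (tC77B.pEnd true)) :=
  posD_of_check (c := ⟨450, ⟨3, 8, 16, 11⟩⟩) (by decide +kernel)

def tC77B_c2m10 : PosD ⟨⟨0, 1, 1⟩, ⟨98, 99, 147⟩, ⟨8514, 8886, 30000⟩, ⟨1669, 1743, 1000⟩⟩ (tC77B.hC2m false (tC77B.pEnd true)) :=
  posD_of_relax (k₁ := 1) (k₂ := 0) (k₃ := 0) (n := 16) (posD_of_check (c := ⟨449, ⟨3, 8, 16, 11⟩⟩) (by decide +kernel))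

def tC77B_c3p10 : PosD ⟨⟨0, 1, 1⟩, ⟨98, 99, 147⟩, ⟨8514, 8886, 30000⟩, ⟨1669, 1743, 1000⟩⟩ (tC77B.hC3p true false) :=
  posD_of_check (c := ⟨412, ⟨3, 8, 14, 10⟩⟩) (by decide +kernel)

def tC77B_c3m10 : PosD ⟨⟨0, 1, 1⟩, ⟨98, 99, 147⟩, ⟨8514, 8886, 30000⟩, ⟨1669, 1743, 1000⟩⟩ (tC77B.hC3m true false) :=
  posD_of_check (c := ⟨412, ⟨3, 8, 14, 10⟩⟩) (by decide +kernel)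

def tC77B_c3ph10 : PosD ⟨⟨0, 1, 1⟩, ⟨98, 99, 147⟩, ⟨8514, 8886, 30000⟩, ⟨1669, 1743, 1000⟩⟩ (tC77B.hC3p' true false) :=
  posD_of_check (c := ⟨412, ⟨3, 8, 14, 10⟩⟩) (by decide +kernel)

def tC77B_c3mh10 : PosD ⟨⟨0, 1, 1⟩, ⟨98, 99, 147⟩, ⟨8514, 8886, 30000⟩, ⟨1669, 1743, 1000⟩⟩ (tC77B.hC3m' true false) :=
  posD_of_check (c := ⟨412, ⟨3, 8, 14, 10⟩⟩) (by decide +kernel)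

def tC77B_up10 : PosD ⟨⟨0, 1, 1⟩, ⟨98, 99, 147⟩, ⟨8514, 8886, 30000⟩, ⟨1669, 1743, 1000⟩⟩ (tC77B.hUp true false) :=
  posD_of_check (c := ⟨412, ⟨3, 8, 14, 10⟩⟩) (by decide +kernel)

def tC77B_um10 : PosD ⟨⟨0, 1, 1⟩, ⟨98, 99, 147⟩, ⟨8514, 8886, 30000⟩, ⟨1669, 1743, 1000⟩⟩ (tC77B.hUm true false) :=
  posD_of_check (c := ⟨412, ⟨3, 8, 14, 10⟩⟩) (by decide +kernel)

def tC77B_tmg10 : PosD ⟨⟨0, 1, 1⟩, ⟨98, 99, 147⟩, ⟨8514, 8886, 30000⟩, ⟨1669, 1743, 1000⟩⟩ (tC77B.hTMG false (tC77B.pEnd true)) :=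
  posD_of_check (c := ⟨360, ⟨2, 7, 13, 8⟩⟩) (by decide +kernel)

def tC77B_tg11 : PosD ⟨⟨0, 1, 1⟩, ⟨98, 99, 147⟩, ⟨8514, 8886, 30000⟩, ⟨1669, 1743, 1000⟩⟩ (tC77B.hG true (tC77B.pEnd true)) :=
  posD_of_check (c := ⟨376, ⟨2, 7, 14, 9⟩⟩) (by decide +kernel)

def tC77B_c2p11 : PosD ⟨⟨0, 1, 1⟩, ⟨98, 99, 147⟩, ⟨8514, 8886, 30000⟩, ⟨1669, 1743, 1000⟩⟩ (tC77B.hC2p true (tC77B.pEnd true)) :=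
  posD_of_check (c := ⟨450, ⟨3, 8, 16, 11⟩⟩) (by decide +kernel)

def tC77B_c2m11 : PosD ⟨⟨0, 1, 1⟩, ⟨98, 99, 147⟩, ⟨8514, 8886, 30000⟩, ⟨1669, 1743, 1000⟩⟩ (tC77B.hC2m true (tC77B.pEnd true)) :=
  posD_of_check (c := ⟨449, ⟨3, 8, 16, 11⟩⟩) (by decide +kernel)

def tC77B_c3p11 : PosD ⟨⟨0, 1, 1⟩, ⟨98, 99, 147⟩, ⟨8514, 8886, 30000⟩, ⟨1669, 1743, 1000⟩⟩ (tC77B.hC3p true true) :=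
  posD_of_check (c := ⟨412, ⟨3, 8, 14, 10⟩⟩) (by decide +kernel)

def tC77B_c3m11 : PosD ⟨⟨0, 1, 1⟩, ⟨98, 99, 147⟩, ⟨8514, 8886, 30000⟩, ⟨1669, 1743, 1000⟩⟩ (tC77B.hC3m true true) :=
  posD_of_check (c := ⟨412, ⟨3, 8, 14, 10⟩⟩) (by decide +kernel)

def tC77B_c3ph11 : PosD ⟨⟨0, 1, 1⟩, ⟨98, 99, 147⟩, ⟨8514, 8886, 30000⟩, ⟨1669, 1743, 1000⟩⟩ (tC77B.hC3p' true true) :=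
  posD_of_check (c := ⟨412, ⟨3, 8, 14, 10⟩⟩) (by decide +kernel)

def tC77B_c3mh11 : PosD ⟨⟨0, 1, 1⟩, ⟨98, 99, 147⟩, ⟨8514, 8886, 30000⟩, ⟨1669, 1743, 1000⟩⟩ (tC77B.hC3m' true true) :=
  posD_of_check (c := ⟨412, ⟨3, 8, 14, 10⟩⟩) (by decide +kernel)

def tC77B_up11 : PosD ⟨⟨0, 1, 1⟩, ⟨98, 99, 147⟩, ⟨8514, 8886, 30000⟩, ⟨1669, 1743, 1000⟩⟩ (tC77B.hUp true true) :=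
  posD_of_check (c := ⟨412, ⟨3, 8, 14, 10⟩⟩) (by decide +kernel)

def tC77B_um11 : PosD ⟨⟨0, 1, 1⟩, ⟨98, 99, 147⟩, ⟨8514, 8886, 30000⟩, ⟨1669, 1743, 1000⟩⟩ (tC77B.hUm true true) :=
  posD_of_check (c := ⟨412, ⟨3, 8, 14, 10⟩⟩) (by decide +kernel)

def tC77B_tmg11 : PosD ⟨⟨0, 1, 1⟩, ⟨98, 99, 147⟩, ⟨8514, 8886, 30000⟩, ⟨1669, 1743, 1000⟩⟩ (tC77B.hTMG true (tC77B.pEnd true)) :=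
  posD_of_check (c := ⟨360, ⟨2, 7, 13, 8⟩⟩) (by decide +kernel)

/-- The signs of the piece. -/
def tC77B_sign : tC77B.Sign ⟨⟨0, 1, 1⟩, ⟨98, 99, 147⟩, ⟨8514, 8886, 30000⟩, ⟨1669, 1743, 1000⟩⟩ :=
  ⟨tC77B_pp,
    tC77B_k2p,
    tC77B_k2m,
    Bool.forall_bool.2 ⟨(Bool.forall_bool.2 ⟨tC77B_tg00, tC77B_tg01⟩), (Bool.forall_bool.2 ⟨tC77B_tg10, tC77B_tg11⟩)⟩,
    Bool.forall_bool.2 ⟨(Bool.forall_bool.2 ⟨tC77B_c2p00, tC77B_c2p01⟩), (Bool.forall_bool.2 ⟨tC77B_c2p10, tC77B_c2p11⟩)⟩,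
    Bool.forall_bool.2 ⟨(Bool.forall_bool.2 ⟨tC77B_c2m00, tC77B_c2m01⟩), (Bool.forall_bool.2 ⟨tC77B_c2m10, tC77B_c2m11⟩)⟩,
    Bool.forall_bool.2 ⟨tC77B_kap0, tC77B_kap1⟩,
    Bool.forall_bool.2 ⟨tC77B_c10, tC77B_c11⟩,
    Bool.forall_bool.2 ⟨(Bool.forall_bool.2 ⟨tC77B_c3p00, tC77B_c3p01⟩), (Bool.forall_bool.2 ⟨tC77B_c3p10, tC77B_c3p11⟩)⟩,
    Bool.forall_bool.2 ⟨(Bool.forall_bool.2 ⟨tC77B_c3m00, tC77B_c3m01⟩), (Bool.forall_bool.2 ⟨tC77B_c3m10, tC77B_c3m11⟩)⟩,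
    Bool.forall_bool.2 ⟨(Bool.forall_bool.2 ⟨tC77B_tmg00, tC77B_tmg01⟩), (Bool.forall_bool.2 ⟨tC77B_tmg10, tC77B_tmg11⟩)⟩,
    .inr (Bool.forall_bool.2 ⟨⟨tC77B_c1h0, Bool.forall_bool.2 ⟨⟨tC77B_c3ph00, tC77B_c3mh00, tC77B_up00, tC77B_um00⟩, ⟨tC77B_c3ph01, tC77B_c3mh01, tC77B_up01, tC77B_um01⟩⟩⟩, ⟨tC77B_c1h1, Bool.forall_bool.2 ⟨⟨tC77B_c3ph10, tC77B_c3mh10, tC77B_up10, tC77B_um10⟩, ⟨tC77B_c3ph11, tC77B_c3mh11, tC77B_up11, tC77B_um11⟩⟩⟩⟩),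
    tC77B_v2p,
    tC77B_v2m,
    tC77B_v3p,
    tC77B_v3m,
    posD_sub (b := ⟨⟨0, 1, 1⟩, ⟨98, 99, 147⟩, ⟨4050, 10000, 30000⟩, ⟨290, 4000, 1000⟩⟩) (by decide +kernel) tC_vG,
    posD_sub (b := ⟨⟨0, 1, 1⟩, ⟨98, 99, 147⟩, ⟨4050, 10000, 30000⟩, ⟨290, 4000, 1000⟩⟩) (by decide +kernel) tC_vMG,
    posD_sub (b := ⟨⟨0, 1, 1⟩, ⟨98, 99, 147⟩, ⟨4050, 10000, 30000⟩, ⟨290, 4000, 1000⟩⟩) (by decide +kernel) tC_ak,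
    posD_sub (b := ⟨⟨0, 1, 1⟩, ⟨98, 99, 147⟩, ⟨4050, 10000, 30000⟩, ⟨290, 4000, 1000⟩⟩) (by decide +kernel) tC_aw,
    posD_sub (b := ⟨⟨0, 1, 1⟩, ⟨98, 99, 147⟩, ⟨4050, 10000, 30000⟩, ⟨290, 4000, 1000⟩⟩) (by decide +kernel) tC_gk,
    posD_sub (b := ⟨⟨0, 1, 1⟩, ⟨98, 99, 147⟩, ⟨4050, 10000, 30000⟩, ⟨290, 4000, 1000⟩⟩) (by decide +kernel) tC_gw,
    posD_sub (b := ⟨⟨0, 1, 1⟩, ⟨98, 99, 147⟩, ⟨4050, 10000, 30000⟩, ⟨290, 4000, 1000⟩⟩) (by decide +kernel) tC_ek,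
    posD_sub (b := ⟨⟨0, 1, 1⟩, ⟨98, 99, 147⟩, ⟨4050, 10000, 30000⟩, ⟨290, 4000, 1000⟩⟩) (by decide +kernel) tC_ew⟩

end Vale.Agent.P100.Calib.Closed.Six.Tail
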