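import Vale.Agent.P100.Calib.SlabSixTailDataC
import Vale.Agent.P100.Calib.SlabSixTailGlobC

/-!
# Checks of some pieces of the certificate

The checks are written as definitions so that they run one after another, which keeps the memory of the
kernel low.
-/

set_option linter.defProp false

namespace Vale.Agent.P100.Calib.Closed.Six.Tail

open BoxPos Large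

local instance sixTailCheckstC52Add : Add Ex := ⟨Ex.add⟩
local instance sixTailCheckstC52Sub : Sub Ex := ⟨Ex.sub⟩
local instance sixTailCheckstC52Mul : Mul Ex := ⟨Ex.mul⟩

def tC78_p0 : PosD ⟨⟨0, 1, 1⟩, ⟨98, 99, 147⟩, ⟨4050, 7026, 30000⟩, ⟨353, 430, 1000⟩⟩ (tC78.hP0) :=
  posD_of_check (c := ⟨83, ⟨0, 2, 3, 1⟩⟩) (by decide +kernel)

def tC78_gn : PosD ⟨⟨0, 1, 1⟩, ⟨98, 99, 147⟩, ⟨4050, 7026, 30000⟩, ⟨353, 430, 1000⟩⟩ (tC78.hGn) :=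
  posD_of_check (c := ⟨57, ⟨1, 1, 2, 1⟩⟩) (by decide +kernel)

def tC78_den0 : PosD ⟨⟨0, 1, 1⟩, ⟨98, 99, 147⟩, ⟨4050, 7026, 30000⟩, ⟨353, 430, 1000⟩⟩ (tC78.hDen false) :=
  posD_of_check (c := ⟨50, ⟨1, 0, 2, 0⟩⟩) (by decide +kernel)

def tC78_den1 : PosD ⟨⟨0, 1, 1⟩, ⟨98, 99, 147⟩, ⟨4050, 7026, 30000⟩, ⟨353, 430, 1000⟩⟩ (tC78.hDen true) :=
  posD_of_check (c := ⟨50, ⟨1, 0, 2, 0⟩⟩) (by decide +kernel)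

def tC78_ev0 : PosD ⟨⟨0, 1, 1⟩, ⟨98, 99, 147⟩, ⟨4050, 7026, 30000⟩, ⟨353, 430, 1000⟩⟩ (tC78.hEv false) :=
  posD_of_check (c := ⟨123, ⟨4, 2, 4, 1⟩⟩) (by decide +kernel)

def tC78_zL0 : PosD ⟨⟨0, 1, 1⟩, ⟨98, 99, 147⟩, ⟨4050, 7026, 30000⟩, ⟨353, 430, 1000⟩⟩ (tC78.hZL false) :=
  posD_of_check (c := ⟨169, ⟨4, 3, 6, 3⟩⟩) (by decide +kernel)

def tC78_zU0 : PosD ⟨⟨0, 1, 1⟩, ⟨98, 99, 147⟩, ⟨4050, 7026, 30000⟩, ⟨353, 430, 1000⟩⟩ (tC78.hZU false) :=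
  posD_of_check (c := ⟨169, ⟨4, 3, 6, 3⟩⟩) (by decide +kernel)

def tC78_eL0 : PosD ⟨⟨0, 1, 1⟩, ⟨98, 99, 147⟩, ⟨4050, 7026, 30000⟩, ⟨353, 430, 1000⟩⟩ (tC78.hEL false) :=
  posD_of_check (c := ⟨222, ⟨5, 6, 7, 3⟩⟩) (by decide +kernel)

def tC78_eH0 : PosD ⟨⟨0, 1, 1⟩, ⟨98, 99, 147⟩, ⟨4050, 7026, 30000⟩, ⟨353, 430, 1000⟩⟩ (tC78.hEH false) :=
  posD_of_check (c := ⟨239, ⟨5, 6, 7, 3⟩⟩) (by decide +kernel)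

def tC78_pL0 : PosD ⟨⟨0, 1, 1⟩, ⟨98, 99, 147⟩, ⟨4050, 7026, 30000⟩, ⟨353, 430, 1000⟩⟩ (tC78.hPL false) :=
  posD_of_check (c := ⟨233, ⟨5, 6, 7, 2⟩⟩) (by decide +kernel)

def tC78_pU0 : PosD ⟨⟨0, 1, 1⟩, ⟨98, 99, 147⟩, ⟨4050, 7026, 30000⟩, ⟨353, 430, 1000⟩⟩ (tC78.hPU false) :=
  posD_of_check (c := ⟨218, ⟨5, 6, 7, 2⟩⟩) (by decide +kernel)

def tC78_kU0 : PosD ⟨⟨0, 1, 1⟩, ⟨98, 99, 147⟩, ⟨4050, 7026, 30000⟩, ⟨353, 430, 1000⟩⟩ (tC78.hKU false) :=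
  posD_of_check (c := ⟨235, ⟨5, 6, 7, 2⟩⟩) (by decide +kernel)

def tC78_kL0 : PosD ⟨⟨0, 1, 1⟩, ⟨98, 99, 147⟩, ⟨4050, 7026, 30000⟩, ⟨353, 430, 1000⟩⟩ (tC78.hKL false) :=
  posD_of_check (c := ⟨236, ⟨5, 6, 7, 2⟩⟩) (by decide +kernel)

def tC78_wU0 : PosD ⟨⟨0, 1, 1⟩, ⟨98, 99, 147⟩, ⟨4050, 7026, 30000⟩, ⟨353, 430, 1000⟩⟩ (tC78.hWU false) :=
  posD_of_check (c := ⟨266, ⟨5, 8, 8, 3⟩⟩) (by decide +kernel)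

def tC78_wL0 : PosD ⟨⟨0, 1, 1⟩, ⟨98, 99, 147⟩, ⟨4050, 7026, 30000⟩, ⟨353, 430, 1000⟩⟩ (tC78.hWL false) :=
  posD_of_check (c := ⟨269, ⟨5, 8, 8, 3⟩⟩) (by decide +kernel)

def tC78_ev1 : PosD ⟨⟨0, 1, 1⟩, ⟨98, 99, 147⟩, ⟨4050, 7026, 30000⟩, ⟨353, 430, 1000⟩⟩ (tC78.hEv true) :=
  posD_of_check (c := ⟨125, ⟨4, 2, 4, 1⟩⟩) (by decide +kernel)

def tC78_zL1 : PosD ⟨⟨0, 1, 1⟩, ⟨98, 99, 147⟩, ⟨4050, 7026, 30000⟩, ⟨353, 430, 1000⟩⟩ (tC78.hZL true) :=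
  posD_of_check (c := ⟨168, ⟨4, 3, 6, 3⟩⟩) (by decide +kernel)

def tC78_zU1 : PosD ⟨⟨0, 1, 1⟩, ⟨98, 99, 147⟩, ⟨4050, 7026, 30000⟩, ⟨353, 430, 1000⟩⟩ (tC78.hZU true) :=
  posD_of_check (c := ⟨168, ⟨4, 3, 6, 3⟩⟩) (by decide +kernel)

def tC78_eL1 : PosD ⟨⟨0, 1, 1⟩, ⟨98, 99, 147⟩, ⟨4050, 7026, 30000⟩, ⟨353, 430, 1000⟩⟩ (tC78.hEL true) :=
  posD_of_check (c := ⟨224, ⟨5, 6, 7, 3⟩⟩) (by decide +kernel)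

def tC78_eH1aa : PosD ⟨⟨0, 1, 1⟩, ⟨98, 99, 147⟩, ⟨4050, 4794, 30000⟩, ⟨353, 430, 1000⟩⟩ (tC78.hEH true) :=
  posD_of_check (c := ⟨240, ⟨5, 6, 7, 3⟩⟩) (by decide +kernel)

def tC78_eH1ab : PosD ⟨⟨0, 1, 1⟩, ⟨98, 99, 147⟩, ⟨4794, 5538, 30000⟩, ⟨353, 430, 1000⟩⟩ (tC78.hEH true) :=
  posD_of_check (c := ⟨241, ⟨5, 6, 7, 3⟩⟩) (by decide +kernel)

def tC78_eH1a : PosD ⟨⟨0, 1, 1⟩, ⟨98, 99, 147⟩, ⟨4050, 5538, 30000⟩, ⟨353, 430, 1000⟩⟩ (tC78.hEH true) :=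
  posD_join₂ tC78_eH1aa tC78_eH1ab

def tC78_eH1b : PosD ⟨⟨0, 1, 1⟩, ⟨98, 99, 147⟩, ⟨5538, 7026, 30000⟩, ⟨353, 430, 1000⟩⟩ (tC78.hEH true) :=
  posD_of_check (c := ⟨241, ⟨5, 6, 7, 3⟩⟩) (by decide +kernel)

def tC78_eH1 : PosD ⟨⟨0, 1, 1⟩, ⟨98, 99, 147⟩, ⟨4050, 7026, 30000⟩, ⟨353, 430, 1000⟩⟩ (tC78.hEH true) :=
  posD_join₂ tC78_eH1a tC78_eH1b

def tC78_pL1 : PosD ⟨⟨0, 1, 1⟩, ⟨98, 99, 147⟩, ⟨4050, 7026, 30000⟩, ⟨353, 430, 1000⟩⟩ (tC78.hPL true) :=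
  posD_of_check (c := ⟨235, ⟨5, 6, 7, 2⟩⟩) (by decide +kernel)

def tC78_pU1 : PosD ⟨⟨0, 1, 1⟩, ⟨98, 99, 147⟩, ⟨4050, 7026, 30000⟩, ⟨353, 430, 1000⟩⟩ (tC78.hPU true) :=
  posD_of_check (c := ⟨220, ⟨5, 6, 7, 2⟩⟩) (by decide +kernel)

def tC78_kU1 : PosD ⟨⟨0, 1, 1⟩, ⟨98, 99, 147⟩, ⟨4050, 7026, 30000⟩, ⟨353, 430, 1000⟩⟩ (tC78.hKU true) :=
  posD_of_check (c := ⟨237, ⟨5, 6, 7, 2⟩⟩) (by decide +kernel)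

def tC78_kL1 : PosD ⟨⟨0, 1, 1⟩, ⟨98, 99, 147⟩, ⟨4050, 7026, 30000⟩, ⟨353, 430, 1000⟩⟩ (tC78.hKL true) :=
  posD_of_check (c := ⟨238, ⟨5, 6, 7, 2⟩⟩) (by decide +kernel)

def tC78_wU1 : PosD ⟨⟨0, 1, 1⟩, ⟨98, 99, 147⟩, ⟨4050, 7026, 30000⟩, ⟨353, 430, 1000⟩⟩ (tC78.hWU true) :=
  posD_of_check (c := ⟨268, ⟨5, 8, 8, 3⟩⟩) (by decide +kernel)

def tC78_wL1 : PosD ⟨⟨0, 1, 1⟩, ⟨98, 99, 147⟩, ⟨4050, 7026, 30000⟩, ⟨353, 430, 1000⟩⟩ (tC78.hWL true) :=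
  posD_of_check (c := ⟨271, ⟨5, 8, 8, 3⟩⟩) (by decide +kernel)

def tC78_mueH : PosD ⟨⟨0, 1, 1⟩, ⟨98, 99, 147⟩, ⟨4050, 7026, 30000⟩, ⟨353, 430, 1000⟩⟩ (tC78.eH.μ) :=
  posD_of_check (c := ⟨22, ⟨0, 0, 0, 0⟩⟩) (by decide +kernel)

def tC78_mupL : PosD ⟨⟨0, 1, 1⟩, ⟨98, 99, 147⟩, ⟨4050, 7026, 30000⟩, ⟨353, 430, 1000⟩⟩ (tC78.pL.μ) :=
  posD_of_check (c := ⟨17, ⟨0, 0, 0, 0⟩⟩) (by decide +kernel)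

def tC78_mukU : PosD ⟨⟨0, 1, 1⟩, ⟨98, 99, 147⟩, ⟨4050, 7026, 30000⟩, ⟨353, 430, 1000⟩⟩ (tC78.kU.μ) :=
  posD_of_check (c := ⟨19, ⟨0, 0, 0, 0⟩⟩) (by decide +kernel)

def tC78_mukL : PosD ⟨⟨0, 1, 1⟩, ⟨98, 99, 147⟩, ⟨4050, 7026, 30000⟩, ⟨353, 430, 1000⟩⟩ (tC78.kL.μ) :=
  posD_of_check (c := ⟨20, ⟨0, 0, 0, 0⟩⟩) (by decide +kernel)

def tC78_muwU : PosD ⟨⟨0, 1, 1⟩, ⟨98, 99, 147⟩, ⟨4050, 7026, 30000⟩, ⟨353, 430, 1000⟩⟩ (tC78.wU.μ) :=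
  posD_of_check (c := ⟨20, ⟨0, 0, 0, 0⟩⟩) (by decide +kernel)

def tC78_muwL : PosD ⟨⟨0, 1, 1⟩, ⟨98, 99, 147⟩, ⟨4050, 7026, 30000⟩, ⟨353, 430, 1000⟩⟩ (tC78.wL.μ) :=
  posD_of_check (c := ⟨22, ⟨0, 0, 0, 0⟩⟩) (by decide +kernel)

/-- The bounds of the piece. -/
def tC78_env : tC78.Env ⟨⟨0, 1, 1⟩, ⟨98, 99, 147⟩, ⟨4050, 7026, 30000⟩, ⟨353, 430, 1000⟩⟩ :=
  ⟨tC78_p0, Bool.forall_bool.2 ⟨tC78_den0, tC78_den1⟩, tC78_gn, Bool.forall_bool.2 ⟨tC78_ev0, tC78_ev1⟩, Bool.forall_bool.2 ⟨tC78_zL0, tC78_zL1⟩, Bool.forall_bool.2 ⟨tC78_zU0, tC78_zU1⟩, Bool.forall_bool.2 ⟨tC78_eL0, tC78_eL1⟩, ⟨.inr rfl, .inr rfl⟩, Bool.forall_bool.2 ⟨tC78_eH0, tC78_eH1⟩, ⟨.inl tC78_mueH, .inr rfl⟩, Bool.forall_bool.2 ⟨tC78_pL0, tC78_pL1⟩, ⟨.inl tC78_mupL,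 .inr rfl⟩, Bool.forall_bool.2 ⟨tC78_pU0, tC78_pU1⟩, ⟨.inr rfl, .inr rfl⟩, Bool.forall_bool.2 ⟨tC78_kU0, tC78_kU1⟩, ⟨.inl tC78_mukU, .inr rfl⟩, Bool.forall_bool.2 ⟨tC78_kL0, tC78_kL1⟩, ⟨.inl tC78_mukL, .inr rfl⟩, Bool.forall_bool.2 ⟨tC78_wU0, tC78_wU1⟩, ⟨.inl tC78_muwU, .inr rfl⟩, Bool.forall_bool.2 ⟨tC78_wL0, tC78_wL1⟩, ⟨.inl tC78_muwL, .inr rfl⟩⟩

def tC78_pp : PosD ⟨⟨0, 1, 1⟩, ⟨98, 99, 147⟩, ⟨4050, 7026, 30000⟩, ⟨353, 430, 1000⟩⟩ (tC78.xPL) :=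
  posD_of_check (c := ⟨62, ⟨1, 1, 2, 2⟩⟩) (by decide +kernel)

def tC78_k2p : PosD ⟨⟨0, 1, 1⟩, ⟨98, 99, 147⟩, ⟨4050, 7026, 30000⟩, ⟨353, 430, 1000⟩⟩ (tC78.k2p tC78.xE) :=
  posD_of_check (c := ⟨6, ⟨0, 0, 0, 0⟩⟩) (by decide +kernel)

def tC78_k2m : PosD ⟨⟨0, 1, 1⟩, ⟨98, 99, 147⟩, ⟨4050, 7026, 30000⟩, ⟨353, 430, 1000⟩⟩ (tC78.k2m tC78.xE) :=
  posD_of_check (c := ⟨71, ⟨1, 1, 2, 2⟩⟩) (by decide +kernel)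

def tC78_v2p : PosD ⟨⟨0, 1, 1⟩, ⟨98, 99, 147⟩, ⟨4050, 7026, 30000⟩, ⟨353, 430, 1000⟩⟩ (tC78.hV2p) :=
  posD_of_check (c := ⟨238, ⟨0, 5, 10, 4⟩⟩) (by decide +kernel)

def tC78_v2m : PosD ⟨⟨0, 1, 1⟩, ⟨98, 99, 147⟩, ⟨4050, 7026, 30000⟩, ⟨353, 430, 1000⟩⟩ (tC78.hV2m) :=
  posD_of_check (c := ⟨271, ⟨1, 6, 10, 5⟩⟩) (by decide +kernel)

def tC78_v3p : PosD ⟨⟨0, 1, 1⟩, ⟨98, 99, 147⟩, ⟨4050, 7026, 30000⟩, ⟨353, 430, 1000⟩⟩ (tC78.hV3p) :=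
  posD_of_check (c := ⟨229, ⟨0, 5, 9, 4⟩⟩) (by decide +kernel)

def tC78_v3m : PosD ⟨⟨0, 1, 1⟩, ⟨98, 99, 147⟩, ⟨4050, 7026, 30000⟩, ⟨353, 430, 1000⟩⟩ (tC78.hV3m) :=
  posD_of_check (c := ⟨255, ⟨1, 6, 9, 5⟩⟩) (by decide +kernel)

def tC78_kap0 : PosD ⟨⟨0, 1, 1⟩, ⟨98, 99, 147⟩, ⟨4050, 7026, 30000⟩, ⟨353, 430, 1000⟩⟩ (tC78.kap false) :=
  posD_of_check (c := ⟨25, ⟨0, 0, 1, 1⟩⟩) (by decide +kernel)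

def tC78_c10 : PosD ⟨⟨0, 1, 1⟩, ⟨98, 99, 147⟩, ⟨4050, 7026, 30000⟩, ⟨353, 430, 1000⟩⟩ (tC78.hC1 false) :=
  posD_of_check (c := ⟨241, ⟨2, 5, 8, 5⟩⟩) (by decide +kernel)

def tC78_neg0 : PosD ⟨⟨0, 1, 1⟩, ⟨98, 99, 147⟩, ⟨4050, 7026, 30000⟩, ⟨353, 430, 1000⟩⟩ (tC78.hNeg (tC78.pEnd false)) :=
  posD_of_check (c := ⟨238, ⟨2, 5, 8, 5⟩⟩) (by decide +kernel)

def tC78_neglo0 : PosD ⟨⟨0, 1, 1⟩, ⟨98, 99, 147⟩, ⟨4050, 7026, 30000⟩, ⟨353, 430, 1000⟩⟩ (tC78.hNegLo (tC78.pEnd false)) :=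
  posD_of_check (c := ⟨238, ⟨2, 5, 8, 5⟩⟩) (by decide +kernel)

def tC78_tg00 : PosD ⟨⟨0, 1, 1⟩, ⟨98, 99, 147⟩, ⟨4050, 7026, 30000⟩, ⟨353, 430, 1000⟩⟩ (tC78.hG false (tC78.pEnd false)) :=
  posD_of_check (c := ⟨372, ⟨2, 7, 14, 9⟩⟩) (by decide +kernel)

def tC78_c2p00 : PosD ⟨⟨0, 1, 1⟩, ⟨98, 99, 147⟩, ⟨4050, 7026, 30000⟩, ⟨353, 430, 1000⟩⟩ (tC78.hC2p false (tC78.pEnd false)) :=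
  posD_of_check (c := ⟨392, ⟨2, 7, 15, 9⟩⟩) (by decide +kernel)

def tC78_c2m00 : PosD ⟨⟨0, 1, 1⟩, ⟨98, 99, 147⟩, ⟨4050, 7026, 30000⟩, ⟨353, 430, 1000⟩⟩ (tC78.hC2m false (tC78.pEnd false)) :=
  posD_of_check (c := ⟨444, ⟨3, 8, 16, 11⟩⟩) (by decide +kernel)

def tC78_c3p00 : PosD ⟨⟨0, 1, 1⟩, ⟨98, 99, 147⟩, ⟨4050, 7026, 30000⟩, ⟨353, 430, 1000⟩⟩ (tC78.hC3p false false) :=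
  posD_of_check (c := ⟨362, ⟨2, 7, 14, 8⟩⟩) (by decide +kernel)

def tC78_c3m00 : PosD ⟨⟨0, 1, 1⟩, ⟨98, 99, 147⟩, ⟨4050, 7026, 30000⟩, ⟨353, 430, 1000⟩⟩ (tC78.hC3m false false) :=
  posD_of_check (c := ⟨407, ⟨3, 8, 14, 10⟩⟩) (by decide +kernel)

def tC78_tmg00 : PosD ⟨⟨0, 1, 1⟩, ⟨98, 99, 147⟩, ⟨4050, 7026, 30000⟩, ⟨353, 430, 1000⟩⟩ (tC78.hTMG false (tC78.pEnd false)) :=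
  posD_of_check (c := ⟨356, ⟨2, 7, 13, 8⟩⟩) (by decide +kernel)

def tC78_tg01 : PosD ⟨⟨0, 1, 1⟩, ⟨98, 99, 147⟩, ⟨4050, 7026, 30000⟩, ⟨353, 430, 1000⟩⟩ (tC78.hG true (tC78.pEnd false)) :=
  posD_of_check (c := ⟨372, ⟨2, 7, 14, 9⟩⟩) (by decide +kernel)

def tC78_c2p01 : PosD ⟨⟨0, 1, 1⟩, ⟨98, 99, 147⟩, ⟨4050, 7026, 30000⟩, ⟨353, 430, 1000⟩⟩ (tC78.hC2p true (tC78.pEnd false)) :=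
  posD_of_check (c := ⟨392, ⟨2, 7, 15, 9⟩⟩) (by decide +kernel)

def tC78_c2m01 : PosD ⟨⟨0, 1, 1⟩, ⟨98, 99, 147⟩, ⟨4050, 7026, 30000⟩, ⟨353, 430, 1000⟩⟩ (tC78.hC2m true (tC78.pEnd false)) :=
  posD_of_check (c := ⟨444, ⟨3, 8, 16, 11⟩⟩) (by decide +kernel)

def tC78_c3p01 : PosD ⟨⟨0, 1, 1⟩, ⟨98, 99, 147⟩, ⟨4050, 7026, 30000⟩, ⟨353, 430, 1000⟩⟩ (tC78.hC3p false true) :=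
  posD_of_check (c := ⟨362, ⟨2, 7, 14, 8⟩⟩) (by decide +kernel)

def tC78_c3m01 : PosD ⟨⟨0, 1, 1⟩, ⟨98, 99, 147⟩, ⟨4050, 7026, 30000⟩, ⟨353, 430, 1000⟩⟩ (tC78.hC3m false true) :=
  posD_of_check (c := ⟨407, ⟨3, 8, 14, 10⟩⟩) (by decide +kernel)

def tC78_tmg01 : PosD ⟨⟨0, 1, 1⟩, ⟨98, 99, 147⟩, ⟨4050, 7026, 30000⟩, ⟨353, 430, 1000⟩⟩ (tC78.hTMG true (tC78.pEnd false)) :=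
  posD_of_check (c := ⟨356, ⟨2, 7, 13, 8⟩⟩) (by decide +kernel)

def tC78_kap1 : PosD ⟨⟨0, 1, 1⟩, ⟨98, 99, 147⟩, ⟨4050, 7026, 30000⟩, ⟨353, 430, 1000⟩⟩ (tC78.kap true) :=
  posD_of_check (c := ⟨26, ⟨0, 0, 1, 1⟩⟩) (by decide +kernel)

def tC78_c11 : PosD ⟨⟨0, 1, 1⟩, ⟨98, 99, 147⟩, ⟨4050, 7026, 30000⟩, ⟨353, 430, 1000⟩⟩ (tC78.hC1 true) :=
  posD_of_check (c := ⟨241, ⟨2, 5, 8, 5⟩⟩) (by decide +kernel)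

def tC78_neg1 : PosD ⟨⟨0, 1, 1⟩, ⟨98, 99, 147⟩, ⟨4050, 7026, 30000⟩, ⟨353, 430, 1000⟩⟩ (tC78.hNeg (tC78.pEnd true)) :=
  posD_of_check (c := ⟨238, ⟨2, 5, 8, 5⟩⟩) (by decide +kernel)

def tC78_neglo1 : PosD ⟨⟨0, 1, 1⟩, ⟨98, 99, 147⟩, ⟨4050, 7026, 30000⟩, ⟨353, 430, 1000⟩⟩ (tC78.hNegLo (tC78.pEnd true)) :=
  posD_of_check (c := ⟨238, ⟨2, 5, 8, 5⟩⟩) (by decide +kernel)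

def tC78_tg10 : PosD ⟨⟨0, 1, 1⟩, ⟨98, 99, 147⟩, ⟨4050, 7026, 30000⟩, ⟨353, 430, 1000⟩⟩ (tC78.hG false (tC78.pEnd true)) :=
  posD_of_check (c := ⟨372, ⟨2, 7, 14, 9⟩⟩) (by decide +kernel)

def tC78_c2p10 : PosD ⟨⟨0, 1, 1⟩, ⟨98, 99, 147⟩, ⟨4050, 7026, 30000⟩, ⟨353, 430, 1000⟩⟩ (tC78.hC2p false (tC78.pEnd true)) :=
  posD_of_check (c := ⟨392, ⟨2, 7, 15, 9⟩⟩) (by decide +kernel)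

def tC78_c2m10 : PosD ⟨⟨0, 1, 1⟩, ⟨98, 99, 147⟩, ⟨4050, 7026, 30000⟩, ⟨353, 430, 1000⟩⟩ (tC78.hC2m false (tC78.pEnd true)) :=
  posD_of_check (c := ⟨444, ⟨3, 8, 16, 11⟩⟩) (by decide +kernel)

def tC78_c3p10 : PosD ⟨⟨0, 1, 1⟩, ⟨98, 99, 147⟩, ⟨4050, 7026, 30000⟩, ⟨353, 430, 1000⟩⟩ (tC78.hC3p true false) :=
  posD_of_check (c := ⟨362, ⟨2, 7, 14, 8⟩⟩) (by decide +kernel)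

def tC78_c3m10 : PosD ⟨⟨0, 1, 1⟩, ⟨98, 99, 147⟩, ⟨4050, 7026, 30000⟩, ⟨353, 430, 1000⟩⟩ (tC78.hC3m true false) :=
  posD_of_check (c := ⟨407, ⟨3, 8, 14, 10⟩⟩) (by decide +kernel)

def tC78_tmg10 : PosD ⟨⟨0, 1, 1⟩, ⟨98, 99, 147⟩, ⟨4050, 7026, 30000⟩, ⟨353, 430, 1000⟩⟩ (tC78.hTMG false (tC78.pEnd true)) :=
  posD_of_check (c := ⟨356, ⟨2, 7, 13, 8⟩⟩) (by decide +kernel)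

def tC78_tg11 : PosD ⟨⟨0, 1, 1⟩, ⟨98, 99, 147⟩, ⟨4050, 7026, 30000⟩, ⟨353, 430, 1000⟩⟩ (tC78.hG true (tC78.pEnd true)) :=
  posD_of_check (c := ⟨372, ⟨2, 7, 14, 9⟩⟩) (by decide +kernel)

def tC78_c2p11 : PosD ⟨⟨0, 1, 1⟩, ⟨98, 99, 147⟩, ⟨4050, 7026, 30000⟩, ⟨353, 430, 1000⟩⟩ (tC78.hC2p true (tC78.pEnd true)) :=
  posD_of_check (c := ⟨392, ⟨2, 7, 15, 9⟩⟩) (by decide +kernel)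

def tC78_c2m11 : PosD ⟨⟨0, 1, 1⟩, ⟨98, 99, 147⟩, ⟨4050, 7026, 30000⟩, ⟨353, 430, 1000⟩⟩ (tC78.hC2m true (tC78.pEnd true)) :=
  posD_of_check (c := ⟨444, ⟨3, 8, 16, 11⟩⟩) (by decide +kernel)

def tC78_c3p11 : PosD ⟨⟨0, 1, 1⟩, ⟨98, 99, 147⟩, ⟨4050, 7026, 30000⟩, ⟨353, 430, 1000⟩⟩ (tC78.hC3p true true) :=
  posD_of_check (c := ⟨362, ⟨2, 7, 14, 8⟩⟩) (by decide +kernel)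

def tC78_c3m11 : PosD ⟨⟨0, 1, 1⟩, ⟨98, 99, 147⟩, ⟨4050, 7026, 30000⟩, ⟨353, 430, 1000⟩⟩ (tC78.hC3m true true) :=
  posD_of_check (c := ⟨407, ⟨3, 8, 14, 10⟩⟩) (by decide +kernel)

def tC78_tmg11 : PosD ⟨⟨0, 1, 1⟩, ⟨98, 99, 147⟩, ⟨4050, 7026, 30000⟩, ⟨353, 430, 1000⟩⟩ (tC78.hTMG true (tC78.pEnd true)) :=
  posD_of_check (c := ⟨356, ⟨2, 7, 13, 8⟩⟩) (by decide +kernel)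

/-- The signs of the piece. -/
def tC78_sign : tC78.Sign ⟨⟨0, 1, 1⟩, ⟨98, 99, 147⟩, ⟨4050, 7026, 30000⟩, ⟨353, 430, 1000⟩⟩ :=
  ⟨tC78_pp,
    tC78_k2p,
    tC78_k2m,
    Bool.forall_bool.2 ⟨(Bool.forall_bool.2 ⟨tC78_tg00, tC78_tg01⟩), (Bool.forall_bool.2 ⟨tC78_tg10, tC78_tg11⟩)⟩,
    Bool.forall_bool.2 ⟨(Bool.forall_bool.2 ⟨tC78_c2p00, tC78_c2p01⟩), (Bool.forall_bool.2 ⟨tC78_c2p10, tC78_c2p11⟩)⟩,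
    Bool.forall_bool.2 ⟨(Bool.forall_bool.2 ⟨tC78_c2m00, tC78_c2m01⟩), (Bool.forall_bool.2 ⟨tC78_c2m10, tC78_c2m11⟩)⟩,
    Bool.forall_bool.2 ⟨tC78_kap0, tC78_kap1⟩,
    Bool.forall_bool.2 ⟨tC78_c10, tC78_c11⟩,
    Bool.forall_bool.2 ⟨(Bool.forall_bool.2 ⟨tC78_c3p00, tC78_c3p01⟩), (Bool.forall_bool.2 ⟨tC78_c3p10, tC78_c3p11⟩)⟩,
    Bool.forall_bool.2 ⟨(Bool.forall_bool.2 ⟨tC78_c3m00, tC78_c3m01⟩), (Bool.forall_bool.2 ⟨tC78_c3m10, tC78_c3m11⟩)⟩,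
    Bool.forall_bool.2 ⟨(Bool.forall_bool.2 ⟨tC78_tmg00, tC78_tmg01⟩), (Bool.forall_bool.2 ⟨tC78_tmg10, tC78_tmg11⟩)⟩,
    .inl (Bool.forall_bool.2 ⟨⟨tC78_neg0, tC78_neglo0⟩, ⟨tC78_neg1, tC78_neglo1⟩⟩),
    tC78_v2p,
    tC78_v2m,
    tC78_v3p,
    tC78_v3m,
    posD_sub (b := ⟨⟨0, 1, 1⟩, ⟨98, 99, 147⟩, ⟨4050, 10000, 30000⟩, ⟨290, 4000, 1000⟩⟩) (by decide +kernel) tC_vG,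
    posD_sub (b := ⟨⟨0, 1, 1⟩, ⟨98, 99, 147⟩, ⟨4050, 10000, 30000⟩, ⟨290, 4000, 1000⟩⟩) (by decide +kernel) tC_vMG,
    posD_sub (b := ⟨⟨0, 1, 1⟩, ⟨98, 99, 147⟩, ⟨4050, 10000, 30000⟩, ⟨290, 4000, 1000⟩⟩) (by decide +kernel) tC_ak,
    posD_sub (b := ⟨⟨0, 1, 1⟩, ⟨98, 99, 147⟩, ⟨4050, 10000, 30000⟩, ⟨290, 4000, 1000⟩⟩) (by decide +kernel) tC_aw,
    posD_sub (b := ⟨⟨0, 1, 1⟩, ⟨98, 99, 147⟩, ⟨4050, 10000, 30000⟩, ⟨290, 4000, 1000⟩⟩) (by decide +kernel) tC_gk,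
    posD_sub (b := ⟨⟨0, 1, 1⟩, ⟨98, 99, 147⟩, ⟨4050, 10000, 30000⟩, ⟨290, 4000, 1000⟩⟩) (by decide +kernel) tC_gw,
    posD_sub (b := ⟨⟨0, 1, 1⟩, ⟨98, 99, 147⟩, ⟨4050, 10000, 30000⟩, ⟨290, 4000, 1000⟩⟩) (by decide +kernel) tC_ek,
    posD_sub (b := ⟨⟨0, 1, 1⟩, ⟨98, 99, 147⟩, ⟨4050, 10000, 30000⟩, ⟨290, 4000, 1000⟩⟩) (by decide +kernel) tC_ew⟩

def tC79_p0 : PosD ⟨⟨0, 1, 1⟩, ⟨98, 99, 147⟩, ⟨7026, 8514, 30000⟩, ⟨353, 430, 1000⟩⟩ (tC79.hP0) :=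
  posD_of_check (c := ⟨83, ⟨0, 2, 3, 1⟩⟩) (by decide +kernel)

def tC79_gn : PosD ⟨⟨0, 1, 1⟩, ⟨98, 99, 147⟩, ⟨7026, 8514, 30000⟩, ⟨353, 430, 1000⟩⟩ (tC79.hGn) :=
  posD_of_check (c := ⟨57, ⟨1, 1, 2, 1⟩⟩) (by decide +kernel)

def tC79_den0 : PosD ⟨⟨0, 1, 1⟩, ⟨98, 99, 147⟩, ⟨7026, 8514, 30000⟩, ⟨353, 430, 1000⟩⟩ (tC79.hDen false) :=
  posD_of_check (c := ⟨50, ⟨1, 0, 2, 0⟩⟩) (by decide +kernel)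

def tC79_den1 : PosD ⟨⟨0, 1, 1⟩, ⟨98, 99, 147⟩, ⟨7026, 8514, 30000⟩, ⟨353, 430, 1000⟩⟩ (tC79.hDen true) :=
  posD_of_check (c := ⟨50, ⟨1, 0, 2, 0⟩⟩) (by decide +kernel)

def tC79_ev0 : PosD ⟨⟨0, 1, 1⟩, ⟨98, 99, 147⟩, ⟨7026, 8514, 30000⟩, ⟨353, 430, 1000⟩⟩ (tC79.hEv false) :=
  posD_of_check (c := ⟨124, ⟨4, 2, 4, 1⟩⟩) (by decide +kernel)

def tC79_zL0 : PosD ⟨⟨0, 1, 1⟩, ⟨98, 99, 147⟩, ⟨7026, 8514, 30000⟩, ⟨353, 430, 1000⟩⟩ (tC79.hZL false) :=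
  posD_of_check (c := ⟨170, ⟨4, 3, 6, 3⟩⟩) (by decide +kernel)

def tC79_zU0 : PosD ⟨⟨0, 1, 1⟩, ⟨98, 99, 147⟩, ⟨7026, 8514, 30000⟩, ⟨353, 430, 1000⟩⟩ (tC79.hZU false) :=
  posD_of_check (c := ⟨170, ⟨4, 3, 6, 3⟩⟩) (by decide +kernel)

def tC79_eL0 : PosD ⟨⟨0, 1, 1⟩, ⟨98, 99, 147⟩, ⟨7026, 8514, 30000⟩, ⟨353, 430, 1000⟩⟩ (tC79.hEL false) :=
  posD_of_check (c := ⟨237, ⟨5, 6, 7, 3⟩⟩) (by decide +kernel)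

def tC79_eH0 : PosD ⟨⟨0, 1, 1⟩, ⟨98, 99, 147⟩, ⟨7026, 8514, 30000⟩, ⟨353, 430, 1000⟩⟩ (tC79.hEH false) :=
  posD_of_check (c := ⟨240, ⟨5, 6, 7, 3⟩⟩) (by decide +kernel)

def tC79_pL0 : PosD ⟨⟨0, 1, 1⟩, ⟨98, 99, 147⟩, ⟨7026, 8514, 30000⟩, ⟨353, 430, 1000⟩⟩ (tC79.hPL false) :=
  posD_of_check (c := ⟨234, ⟨5, 6, 7, 3⟩⟩) (by decide +kernel)

def tC79_pU0 : PosD ⟨⟨0, 1, 1⟩, ⟨98, 99, 147⟩, ⟨7026, 8514, 30000⟩, ⟨353, 430, 1000⟩⟩ (tC79.hPU false) :=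
  posD_of_check (c := ⟨219, ⟨5, 6, 7, 2⟩⟩) (by decide +kernel)

def tC79_kU0 : PosD ⟨⟨0, 1, 1⟩, ⟨98, 99, 147⟩, ⟨7026, 8514, 30000⟩, ⟨353, 430, 1000⟩⟩ (tC79.hKU false) :=
  posD_of_check (c := ⟨237, ⟨5, 6, 7, 3⟩⟩) (by decide +kernel)

def tC79_kL0 : PosD ⟨⟨0, 1, 1⟩, ⟨98, 99, 147⟩, ⟨7026, 8514, 30000⟩, ⟨353, 430, 1000⟩⟩ (tC79.hKL false) :=
  posD_of_check (c := ⟨239, ⟨5, 6, 7, 3⟩⟩) (by decide +kernel)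

def tC79_wU0 : PosD ⟨⟨0, 1, 1⟩, ⟨98, 99, 147⟩, ⟨7026, 8514, 30000⟩, ⟨353, 430, 1000⟩⟩ (tC79.hWU false) :=
  posD_of_check (c := ⟨268, ⟨5, 8, 8, 3⟩⟩) (by decide +kernel)

def tC79_wL0 : PosD ⟨⟨0, 1, 1⟩, ⟨98, 99, 147⟩, ⟨7026, 8514, 30000⟩, ⟨353, 430, 1000⟩⟩ (tC79.hWL false) :=
  posD_of_check (c := ⟨271, ⟨5, 8, 8, 3⟩⟩) (by decide +kernel)

def tC79_ev1 : PosD ⟨⟨0, 1, 1⟩, ⟨98, 99, 147⟩, ⟨7026, 8514, 30000⟩, ⟨353, 430, 1000⟩⟩ (tC79.hEv true) :=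
  posD_of_check (c := ⟨126, ⟨4, 2, 4, 1⟩⟩) (by decide +kernel)

def tC79_zL1 : PosD ⟨⟨0, 1, 1⟩, ⟨98, 99, 147⟩, ⟨7026, 8514, 30000⟩, ⟨353, 430, 1000⟩⟩ (tC79.hZL true) :=
  posD_of_check (c := ⟨169, ⟨4, 3, 6, 3⟩⟩) (by decide +kernel)

def tC79_zU1 : PosD ⟨⟨0, 1, 1⟩, ⟨98, 99, 147⟩, ⟨7026, 8514, 30000⟩, ⟨353, 430, 1000⟩⟩ (tC79.hZU true) :=
  posD_of_check (c := ⟨169, ⟨4, 3, 6, 3⟩⟩) (by decide +kernel)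

def tC79_eL1 : PosD ⟨⟨0, 1, 1⟩, ⟨98, 99, 147⟩, ⟨7026, 8514, 30000⟩, ⟨353, 430, 1000⟩⟩ (tC79.hEL true) :=
  posD_of_check (c := ⟨239, ⟨5, 6, 7, 3⟩⟩) (by decide +kernel)

def tC79_eH1 : PosD ⟨⟨0, 1, 1⟩, ⟨98, 99, 147⟩, ⟨7026, 8514, 30000⟩, ⟨353, 430, 1000⟩⟩ (tC79.hEH true) :=
  posD_of_check (c := ⟨242, ⟨5, 6, 7, 3⟩⟩) (by decide +kernel)

def tC79_pL1 : PosD ⟨⟨0, 1, 1⟩, ⟨98, 99, 147⟩, ⟨7026, 8514, 30000⟩, ⟨353, 430, 1000⟩⟩ (tC79.hPL true) :=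
  posD_of_check (c := ⟨236, ⟨5, 6, 7, 3⟩⟩) (by decide +kernel)

def tC79_pU1 : PosD ⟨⟨0, 1, 1⟩, ⟨98, 99, 147⟩, ⟨7026, 8514, 30000⟩, ⟨353, 430, 1000⟩⟩ (tC79.hPU true) :=
  posD_of_check (c := ⟨221, ⟨5, 6, 7, 2⟩⟩) (by decide +kernel)

def tC79_kU1 : PosD ⟨⟨0, 1, 1⟩, ⟨98, 99, 147⟩, ⟨7026, 8514, 30000⟩, ⟨353, 430, 1000⟩⟩ (tC79.hKU true) :=
  posD_of_check (c := ⟨238, ⟨5, 6, 7, 3⟩⟩) (by decide +kernel)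

def tC79_kL1a : PosD ⟨⟨0, 1, 1⟩, ⟨98, 99, 147⟩, ⟨7026, 8514, 30000⟩, ⟨353, 391, 1000⟩⟩ (tC79.hKL true) :=
  posD_of_check (c := ⟨241, ⟨5, 6, 7, 3⟩⟩) (by decide +kernel)

def tC79_kL1ba : PosD ⟨⟨0, 1, 1⟩, ⟨98, 99, 147⟩, ⟨7026, 8514, 30000⟩, ⟨391, 410, 1000⟩⟩ (tC79.hKL true) :=
  posD_of_check (c := ⟨241, ⟨5, 6, 7, 3⟩⟩) (by decide +kernel)

def tC79_kL1bba : PosD ⟨⟨0, 1, 1⟩, ⟨98, 99, 147⟩, ⟨7026, 8514, 30000⟩, ⟨410, 420, 1000⟩⟩ (tC79.hKL true) :=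
  posD_of_check (c := ⟨241, ⟨5, 6, 7, 3⟩⟩) (by decide +kernel)

def tC79_kL1bbb : PosD ⟨⟨0, 1, 1⟩, ⟨98, 99, 147⟩, ⟨7026, 8514, 30000⟩, ⟨420, 430, 1000⟩⟩ (tC79.hKL true) :=
  posD_of_check (c := ⟨241, ⟨5, 6, 7, 3⟩⟩) (by decide +kernel)

def tC79_kL1bb : PosD ⟨⟨0, 1, 1⟩, ⟨98, 99, 147⟩, ⟨7026, 8514, 30000⟩, ⟨410, 430, 1000⟩⟩ (tC79.hKL true) :=
  posD_join₃ tC79_kL1bba tC79_kL1bbb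

def tC79_kL1b : PosD ⟨⟨0, 1, 1⟩, ⟨98, 99, 147⟩, ⟨7026, 8514, 30000⟩, ⟨391, 430, 1000⟩⟩ (tC79.hKL true) :=
  posD_join₃ tC79_kL1ba tC79_kL1bb

def tC79_kL1 : PosD ⟨⟨0, 1, 1⟩, ⟨98, 99, 147⟩, ⟨7026, 8514, 30000⟩, ⟨353, 430, 1000⟩⟩ (tC79.hKL true) :=
  posD_join₃ tC79_kL1a tC79_kL1b

def tC79_wU1 : PosD ⟨⟨0, 1, 1⟩, ⟨98, 99, 147⟩, ⟨7026, 8514, 30000⟩, ⟨353, 430, 1000⟩⟩ (tC79.hWU true) :=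
  posD_of_check (c := ⟨270, ⟨5, 8, 8, 3⟩⟩) (by decide +kernel)

def tC79_wL1 : PosD ⟨⟨0, 1, 1⟩, ⟨98, 99, 147⟩, ⟨7026, 8514, 30000⟩, ⟨353, 430, 1000⟩⟩ (tC79.hWL true) :=
  posD_of_check (c := ⟨273, ⟨5, 8, 8, 3⟩⟩) (by decide +kernel)

def tC79_mueL : PosD ⟨⟨0, 1, 1⟩, ⟨98, 99, 147⟩, ⟨7026, 8514, 30000⟩, ⟨353, 430, 1000⟩⟩ (tC79.eL.μ) :=
  posD_of_check (c := ⟨14, ⟨0, 0, 0, 0⟩⟩) (by decide +kernel)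

def tC79_mueH : PosD ⟨⟨0, 1, 1⟩, ⟨98, 99, 147⟩, ⟨7026, 8514, 30000⟩, ⟨353, 430, 1000⟩⟩ (tC79.eH.μ) :=
  posD_of_check (c := ⟨22, ⟨0, 0, 0, 0⟩⟩) (by decide +kernel)

def tC79_mupL : PosD ⟨⟨0, 1, 1⟩, ⟨98, 99, 147⟩, ⟨7026, 8514, 30000⟩, ⟨353, 430, 1000⟩⟩ (tC79.pL.μ) :=
  posD_of_check (c := ⟨16, ⟨0, 0, 0, 0⟩⟩) (by decide +kernel)

def tC79_mukU : PosD ⟨⟨0, 1, 1⟩, ⟨98, 99, 147⟩, ⟨7026, 8514, 30000⟩, ⟨353, 430, 1000⟩⟩ (tC79.kU.μ) :=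
  posD_of_check (c := ⟨14, ⟨0, 0, 0, 0⟩⟩) (by decide +kernel)

def tC79_muwU : PosD ⟨⟨0, 1, 1⟩, ⟨98, 99, 147⟩, ⟨7026, 8514, 30000⟩, ⟨353, 430, 1000⟩⟩ (tC79.wU.μ) :=
  posD_of_check (c := ⟨17, ⟨0, 0, 0, 0⟩⟩) (by decide +kernel)

/-- The bounds of the piece. -/
def tC79_env : tC79.Env ⟨⟨0, 1, 1⟩, ⟨98, 99, 147⟩, ⟨7026, 8514, 30000⟩, ⟨353, 430, 1000⟩⟩ :=
  ⟨tC79_p0, Bool.forall_bool.2 ⟨tC79_den0, tC79_den1⟩, tC79_gn, Bool.forall_bool.2 ⟨tC79_ev0, tC79_ev1⟩, Bool.forall_bool.2 ⟨tC79_zL0, tC79_zL1⟩, Bool.forall_bool.2 ⟨tC79_zU0, tC79_zU1⟩, Bool.forall_bool.2 ⟨tC79_eL0, tC79_eL1⟩, ⟨.inl tC79_mueL, .inr rfl⟩, Bool.forall_bool.2 ⟨tC79_eH0, tC79_eH1⟩, ⟨.inl tC79_mueH, .inr rfl⟩, Bool.forall_bool.2 ⟨tC79_pL0, tC79_pL1⟩, ⟨.inl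 tC79_mupL, .inr rfl⟩, Bool.forall_bool.2 ⟨tC79_pU0, tC79_pU1⟩, ⟨.inr rfl, .inr rfl⟩, Bool.forall_bool.2 ⟨tC79_kU0, tC79_kU1⟩, ⟨.inl tC79_mukU, .inr rfl⟩, Bool.forall_bool.2 ⟨tC79_kL0, tC79_kL1⟩, ⟨.inr rfl, .inr rfl⟩, Bool.forall_bool.2 ⟨tC79_wU0, tC79_wU1⟩, ⟨.inl tC79_muwU, .inr rfl⟩, Bool.forall_bool.2 ⟨tC79_wL0, tC79_wL1⟩, ⟨.inr rfl, .inr rfl⟩⟩

def tC79_pp : PosD ⟨⟨0, 1, 1⟩, ⟨98, 99, 147⟩, ⟨7026, 8514, 30000⟩, ⟨353, 430, 1000⟩⟩ (tC79.xPL) :=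
  posD_of_check (c := ⟨77, ⟨1, 1, 2, 2⟩⟩) (by decide +kernel)

def tC79_k2p : PosD ⟨⟨0, 1, 1⟩, ⟨98, 99, 147⟩, ⟨7026, 8514, 30000⟩, ⟨353, 430, 1000⟩⟩ (tC79.k2p tC79.xE) :=
  posD_of_check (c := ⟨6, ⟨0, 0, 0, 0⟩⟩) (by decide +kernel)

def tC79_k2m : PosD ⟨⟨0, 1, 1⟩, ⟨98, 99, 147⟩, ⟨7026, 8514, 30000⟩, ⟨353, 430, 1000⟩⟩ (tC79.k2m tC79.xE) :=
  posD_of_check (c := ⟨75, ⟨1, 1, 2, 2⟩⟩) (by decide +kernel)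

def tC79_v2p : PosD ⟨⟨0, 1, 1⟩, ⟨98, 99, 147⟩, ⟨7026, 8514, 30000⟩, ⟨353, 430, 1000⟩⟩ (tC79.hV2p) :=
  posD_of_check (c := ⟨240, ⟨0, 5, 10, 4⟩⟩) (by decide +kernel)

def tC79_v2m : PosD ⟨⟨0, 1, 1⟩, ⟨98, 99, 147⟩, ⟨7026, 8514, 30000⟩, ⟨353, 430, 1000⟩⟩ (tC79.hV2m) :=
  posD_of_check (c := ⟨274, ⟨1, 6, 10, 5⟩⟩) (by decide +kernel)

def tC79_v3p : PosD ⟨⟨0, 1, 1⟩, ⟨98, 99, 147⟩, ⟨7026, 8514, 30000⟩, ⟨353, 430, 1000⟩⟩ (tC79.hV3p) :=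
  posD_of_check (c := ⟨230, ⟨0, 5, 9, 4⟩⟩) (by decide +kernel)

def tC79_v3m : PosD ⟨⟨0, 1, 1⟩, ⟨98, 99, 147⟩, ⟨7026, 8514, 30000⟩, ⟨353, 430, 1000⟩⟩ (tC79.hV3m) :=
  posD_of_check (c := ⟨258, ⟨1, 6, 9, 5⟩⟩) (by decide +kernel)

def tC79_kap0 : PosD ⟨⟨0, 1, 1⟩, ⟨98, 99, 147⟩, ⟨7026, 8514, 30000⟩, ⟨353, 430, 1000⟩⟩ (tC79.kap false) :=
  posD_of_check (c := ⟨69, ⟨1, 1, 2, 2⟩⟩) (by decide +kernel)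

def tC79_c10 : PosD ⟨⟨0, 1, 1⟩, ⟨98, 99, 147⟩, ⟨7026, 8514, 30000⟩, ⟨353, 430, 1000⟩⟩ (tC79.hC1 false) :=
  posD_of_check (c := ⟨259, ⟨3, 5, 8, 6⟩⟩) (by decide +kernel)

def tC79_neg0 : PosD ⟨⟨0, 1, 1⟩, ⟨98, 99, 147⟩, ⟨7026, 8514, 30000⟩, ⟨353, 430, 1000⟩⟩ (tC79.hNeg (tC79.pEnd false)) :=
  posD_of_check (c := ⟨255, ⟨2, 5, 8, 6⟩⟩) (by decide +kernel)

def tC79_neglo0 : PosD ⟨⟨0, 1, 1⟩, ⟨98, 99, 147⟩, ⟨7026, 8514, 30000⟩, ⟨353, 430, 1000⟩⟩ (tC79.hNegLo (tC79.pEnd false)) :=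
  posD_of_check (c := ⟨255, ⟨2, 5, 8, 6⟩⟩) (by decide +kernel)

def tC79_tg00 : PosD ⟨⟨0, 1, 1⟩, ⟨98, 99, 147⟩, ⟨7026, 8514, 30000⟩, ⟨353, 430, 1000⟩⟩ (tC79.hG false (tC79.pEnd false)) :=
  posD_of_check (c := ⟨375, ⟨2, 7, 14, 9⟩⟩) (by decide +kernel)

def tC79_c2p00 : PosD ⟨⟨0, 1, 1⟩, ⟨98, 99, 147⟩, ⟨7026, 8514, 30000⟩, ⟨353, 430, 1000⟩⟩ (tC79.hC2p false (tC79.pEnd false)) :=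
  posD_of_check (c := ⟨408, ⟨2, 7, 15, 9⟩⟩) (by decide +kernel)

def tC79_c2m00 : PosD ⟨⟨0, 1, 1⟩, ⟨98, 99, 147⟩, ⟨7026, 8514, 30000⟩, ⟨353, 430, 1000⟩⟩ (tC79.hC2m false (tC79.pEnd false)) :=
  posD_of_check (c := ⟨449, ⟨3, 8, 16, 11⟩⟩) (by decide +kernel)

def tC79_c3p00 : PosD ⟨⟨0, 1, 1⟩, ⟨98, 99, 147⟩, ⟨7026, 8514, 30000⟩, ⟨353, 430, 1000⟩⟩ (tC79.hC3p false false) :=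
  posD_of_check (c := ⟨392, ⟨3, 7, 14, 8⟩⟩) (by decide +kernel)

def tC79_c3m00 : PosD ⟨⟨0, 1, 1⟩, ⟨98, 99, 147⟩, ⟨7026, 8514, 30000⟩, ⟨353, 430, 1000⟩⟩ (tC79.hC3m false false) :=
  posD_of_check (c := ⟨426, ⟨3, 8, 14, 10⟩⟩) (by decide +kernel)

def tC79_tmg00 : PosD ⟨⟨0, 1, 1⟩, ⟨98, 99, 147⟩, ⟨7026, 8514, 30000⟩, ⟨353, 430, 1000⟩⟩ (tC79.hTMG false (tC79.pEnd false)) :=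
  posD_of_check (c := ⟨376, ⟨2, 7, 13, 8⟩⟩) (by decide +kernel)

def tC79_tg01 : PosD ⟨⟨0, 1, 1⟩, ⟨98, 99, 147⟩, ⟨7026, 8514, 30000⟩, ⟨353, 430, 1000⟩⟩ (tC79.hG true (tC79.pEnd false)) :=
  posD_of_check (c := ⟨375, ⟨2, 7, 14, 9⟩⟩) (by decide +kernel)

def tC79_c2p01 : PosD ⟨⟨0, 1, 1⟩, ⟨98, 99, 147⟩, ⟨7026, 8514, 30000⟩, ⟨353, 430, 1000⟩⟩ (tC79.hC2p true (tC79.pEnd false)) :=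
  posD_of_check (c := ⟨408, ⟨2, 7, 15, 9⟩⟩) (by decide +kernel)

def tC79_c2m01 : PosD ⟨⟨0, 1, 1⟩, ⟨98, 99, 147⟩, ⟨7026, 8514, 30000⟩, ⟨353, 430, 1000⟩⟩ (tC79.hC2m true (tC79.pEnd false)) :=
  posD_of_check (c := ⟨449, ⟨3, 8, 16, 11⟩⟩) (by decide +kernel)

def tC79_c3p01 : PosD ⟨⟨0, 1, 1⟩, ⟨98, 99, 147⟩, ⟨7026, 8514, 30000⟩, ⟨353, 430, 1000⟩⟩ (tC79.hC3p false true) :=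
  posD_of_check (c := ⟨392, ⟨3, 7, 14, 8⟩⟩) (by decide +kernel)

def tC79_c3m01 : PosD ⟨⟨0, 1, 1⟩, ⟨98, 99, 147⟩, ⟨7026, 8514, 30000⟩, ⟨353, 430, 1000⟩⟩ (tC79.hC3m false true) :=
  posD_of_check (c := ⟨426, ⟨3, 8, 14, 10⟩⟩) (by decide +kernel)

def tC79_tmg01 : PosD ⟨⟨0, 1, 1⟩, ⟨98, 99, 147⟩, ⟨7026, 8514, 30000⟩, ⟨353, 430, 1000⟩⟩ (tC79.hTMG true (tC79.pEnd false)) :=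
  posD_of_check (c := ⟨376, ⟨2, 7, 13, 8⟩⟩) (by decide +kernel)

def tC79_kap1 : PosD ⟨⟨0, 1, 1⟩, ⟨98, 99, 147⟩, ⟨7026, 8514, 30000⟩, ⟨353, 430, 1000⟩⟩ (tC79.kap true) :=
  posD_of_check (c := ⟨70, ⟨1, 1, 2, 2⟩⟩) (by decide +kernel)

def tC79_c11 : PosD ⟨⟨0, 1, 1⟩, ⟨98, 99, 147⟩, ⟨7026, 8514, 30000⟩, ⟨353, 430, 1000⟩⟩ (tC79.hC1 true) :=
  posD_of_check (c := ⟨245, ⟨3, 5, 8, 6⟩⟩) (by decide +kernel)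

def tC79_neg1 : PosD ⟨⟨0, 1, 1⟩, ⟨98, 99, 147⟩, ⟨7026, 8514, 30000⟩, ⟨353, 430, 1000⟩⟩ (tC79.hNeg (tC79.pEnd true)) :=
  posD_of_check (c := ⟨241, ⟨2, 5, 8, 6⟩⟩) (by decide +kernel)

def tC79_neglo1 : PosD ⟨⟨0, 1, 1⟩, ⟨98, 99, 147⟩, ⟨7026, 8514, 30000⟩, ⟨353, 430, 1000⟩⟩ (tC79.hNegLo (tC79.pEnd true)) :=
  posD_of_check (c := ⟨241, ⟨2, 5, 8, 6⟩⟩) (by decide +kernel)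

def tC79_tg10 : PosD ⟨⟨0, 1, 1⟩, ⟨98, 99, 147⟩, ⟨7026, 8514, 30000⟩, ⟨353, 430, 1000⟩⟩ (tC79.hG false (tC79.pEnd true)) :=
  posD_of_check (c := ⟨373, ⟨2, 7, 14, 9⟩⟩) (by decide +kernel)

def tC79_c2p10 : PosD ⟨⟨0, 1, 1⟩, ⟨98, 99, 147⟩, ⟨7026, 8514, 30000⟩, ⟨353, 430, 1000⟩⟩ (tC79.hC2p false (tC79.pEnd true)) :=
  posD_of_check (c := ⟨395, ⟨2, 7, 15, 9⟩⟩) (by decide +kernel)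

def tC79_c2m10 : PosD ⟨⟨0, 1, 1⟩, ⟨98, 99, 147⟩, ⟨7026, 8514, 30000⟩, ⟨353, 430, 1000⟩⟩ (tC79.hC2m false (tC79.pEnd true)) :=
  posD_of_check (c := ⟨447, ⟨3, 8, 16, 11⟩⟩) (by decide +kernel)

def tC79_c3p10 : PosD ⟨⟨0, 1, 1⟩, ⟨98, 99, 147⟩, ⟨7026, 8514, 30000⟩, ⟨353, 430, 1000⟩⟩ (tC79.hC3p true false) :=
  posD_of_check (c := ⟨367, ⟨3, 7, 14, 8⟩⟩) (by decide +kernel)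

def tC79_c3m10 : PosD ⟨⟨0, 1, 1⟩, ⟨98, 99, 147⟩, ⟨7026, 8514, 30000⟩, ⟨353, 430, 1000⟩⟩ (tC79.hC3m true false) :=
  posD_of_check (c := ⟨411, ⟨3, 8, 14, 10⟩⟩) (by decide +kernel)

def tC79_tmg10 : PosD ⟨⟨0, 1, 1⟩, ⟨98, 99, 147⟩, ⟨7026, 8514, 30000⟩, ⟨353, 430, 1000⟩⟩ (tC79.hTMG false (tC79.pEnd true)) :=
  posD_of_check (c := ⟨358, ⟨2, 7, 13, 8⟩⟩) (by decide +kernel)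

def tC79_tg11 : PosD ⟨⟨0, 1, 1⟩, ⟨98, 99, 147⟩, ⟨7026, 8514, 30000⟩, ⟨353, 430, 1000⟩⟩ (tC79.hG true (tC79.pEnd true)) :=
  posD_of_check (c := ⟨373, ⟨2, 7, 14, 9⟩⟩) (by decide +kernel)

def tC79_c2p11 : PosD ⟨⟨0, 1, 1⟩, ⟨98, 99, 147⟩, ⟨7026, 8514, 30000⟩, ⟨353, 430, 1000⟩⟩ (tC79.hC2p true (tC79.pEnd true)) :=
  posD_of_check (c := ⟨395, ⟨2, 7, 15, 9⟩⟩) (by decide +kernel)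

def tC79_c2m11 : PosD ⟨⟨0, 1, 1⟩, ⟨98, 99, 147⟩, ⟨7026, 8514, 30000⟩, ⟨353, 430, 1000⟩⟩ (tC79.hC2m true (tC79.pEnd true)) :=
  posD_of_check (c := ⟨447, ⟨3, 8, 16, 11⟩⟩) (by decide +kernel)

def tC79_c3p11 : PosD ⟨⟨0, 1, 1⟩, ⟨98, 99, 147⟩, ⟨7026, 8514, 30000⟩, ⟨353, 430, 1000⟩⟩ (tC79.hC3p true true) :=
  posD_of_check (c := ⟨367, ⟨3, 7, 14, 8⟩⟩) (by decide +kernel)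

def tC79_c3m11 : PosD ⟨⟨0, 1, 1⟩, ⟨98, 99, 147⟩, ⟨7026, 8514, 30000⟩, ⟨353, 430, 1000⟩⟩ (tC79.hC3m true true) :=
  posD_of_check (c := ⟨411, ⟨3, 8, 14, 10⟩⟩) (by decide +kernel)

def tC79_tmg11 : PosD ⟨⟨0, 1, 1⟩, ⟨98, 99, 147⟩, ⟨7026, 8514, 30000⟩, ⟨353, 430, 1000⟩⟩ (tC79.hTMG true (tC79.pEnd true)) :=
  posD_of_check (c := ⟨358, ⟨2, 7, 13, 8⟩⟩) (by decide +kernel)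

/-- The signs of the piece. -/
def tC79_sign : tC79.Sign ⟨⟨0, 1, 1⟩, ⟨98, 99, 147⟩, ⟨7026, 8514, 30000⟩, ⟨353, 430, 1000⟩⟩ :=
  ⟨tC79_pp,
    tC79_k2p,
    tC79_k2m,
    Bool.forall_bool.2 ⟨(Bool.forall_bool.2 ⟨tC79_tg00, tC79_tg01⟩), (Bool.forall_bool.2 ⟨tC79_tg10, tC79_tg11⟩)⟩,
    Bool.forall_bool.2 ⟨(Bool.forall_bool.2 ⟨tC79_c2p00, tC79_c2p01⟩), (Bool.forall_bool.2 ⟨tC79_c2p10, tC79_c2p11⟩)⟩,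
    Bool.forall_bool.2 ⟨(Bool.forall_bool.2 ⟨tC79_c2m00, tC79_c2m01⟩), (Bool.forall_bool.2 ⟨tC79_c2m10, tC79_c2m11⟩)⟩,
    Bool.forall_bool.2 ⟨tC79_kap0, tC79_kap1⟩,
    Bool.forall_bool.2 ⟨tC79_c10, tC79_c11⟩,
    Bool.forall_bool.2 ⟨(Bool.forall_bool.2 ⟨tC79_c3p00, tC79_c3p01⟩), (Bool.forall_bool.2 ⟨tC79_c3p10, tC79_c3p11⟩)⟩,
    Bool.forall_bool.2 ⟨(Bool.forall_bool.2 ⟨tC79_c3m00, tC79_c3m01⟩), (Bool.forall_bool.2 ⟨tC79_c3m10, tC79_c3m11⟩)⟩,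
    Bool.forall_bool.2 ⟨(Bool.forall_bool.2 ⟨tC79_tmg00, tC79_tmg01⟩), (Bool.forall_bool.2 ⟨tC79_tmg10, tC79_tmg11⟩)⟩,
    .inl (Bool.forall_bool.2 ⟨⟨tC79_neg0, tC79_neglo0⟩, ⟨tC79_neg1, tC79_neglo1⟩⟩),
    tC79_v2p,
    tC79_v2m,
    tC79_v3p,
    tC79_v3m,
    posD_sub (b := ⟨⟨0, 1, 1⟩, ⟨98, 99, 147⟩, ⟨4050, 10000, 30000⟩, ⟨290, 4000, 1000⟩⟩) (by decide +kernel) tC_vG,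
    posD_sub (b := ⟨⟨0, 1, 1⟩, ⟨98, 99, 147⟩, ⟨4050, 10000, 30000⟩, ⟨290, 4000, 1000⟩⟩) (by decide +kernel) tC_vMG,
    posD_sub (b := ⟨⟨0, 1, 1⟩, ⟨98, 99, 147⟩, ⟨4050, 10000, 30000⟩, ⟨290, 4000, 1000⟩⟩) (by decide +kernel) tC_ak,
    posD_sub (b := ⟨⟨0, 1, 1⟩, ⟨98, 99, 147⟩, ⟨4050, 10000, 30000⟩, ⟨290, 4000, 1000⟩⟩) (by decide +kernel) tC_aw,
    posD_sub (b := ⟨⟨0, 1, 1⟩, ⟨98, 99, 147⟩, ⟨4050, 10000, 30000⟩, ⟨290, 4000, 1000⟩⟩) (by decide +kernel) tC_gk,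
    posD_sub (b := ⟨⟨0, 1, 1⟩, ⟨98, 99, 147⟩, ⟨4050, 10000, 30000⟩, ⟨290, 4000, 1000⟩⟩) (by decide +kernel) tC_gw,
    posD_sub (b := ⟨⟨0, 1, 1⟩, ⟨98, 99, 147⟩, ⟨4050, 10000, 30000⟩, ⟨290, 4000, 1000⟩⟩) (by decide +kernel) tC_ek,
    posD_sub (b := ⟨⟨0, 1, 1⟩, ⟨98, 99, 147⟩, ⟨4050, 10000, 30000⟩, ⟨290, 4000, 1000⟩⟩) (by decide +kernel) tC_ew⟩

def tC80_p0 : PosD ⟨⟨0, 1, 1⟩, ⟨98, 99, 147⟩, ⟨8514, 9258, 30000⟩, ⟨353, 430, 1000⟩⟩ (tC80.hP0) :=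
  posD_of_check (c := ⟨83, ⟨0, 2, 3, 1⟩⟩) (by decide +kernel)

def tC80_gn : PosD ⟨⟨0, 1, 1⟩, ⟨98, 99, 147⟩, ⟨8514, 9258, 30000⟩, ⟨353, 430, 1000⟩⟩ (tC80.hGn) :=
  posD_of_check (c := ⟨57, ⟨1, 1, 2, 1⟩⟩) (by decide +kernel)

def tC80_den0 : PosD ⟨⟨0, 1, 1⟩, ⟨98, 99, 147⟩, ⟨8514, 9258, 30000⟩, ⟨353, 430, 1000⟩⟩ (tC80.hDen false) :=
  posD_of_check (c := ⟨50, ⟨1, 0, 2, 0⟩⟩) (by decide +kernel)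

def tC80_den1 : PosD ⟨⟨0, 1, 1⟩, ⟨98, 99, 147⟩, ⟨8514, 9258, 30000⟩, ⟨353, 430, 1000⟩⟩ (tC80.hDen true) :=
  posD_of_check (c := ⟨50, ⟨1, 0, 2, 0⟩⟩) (by decide +kernel)

def tC80_ev0 : PosD ⟨⟨0, 1, 1⟩, ⟨98, 99, 147⟩, ⟨8514, 9258, 30000⟩, ⟨353, 430, 1000⟩⟩ (tC80.hEv false) :=
  posD_of_check (c := ⟨125, ⟨4, 2, 4, 1⟩⟩) (by decide +kernel)

def tC80_zL0 : PosD ⟨⟨0, 1, 1⟩, ⟨98, 99, 147⟩, ⟨8514, 9258, 30000⟩, ⟨353, 430, 1000⟩⟩ (tC80.hZL false) :=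
  posD_of_check (c := ⟨171, ⟨4, 3, 6, 3⟩⟩) (by decide +kernel)

def tC80_zU0 : PosD ⟨⟨0, 1, 1⟩, ⟨98, 99, 147⟩, ⟨8514, 9258, 30000⟩, ⟨353, 430, 1000⟩⟩ (tC80.hZU false) :=
  posD_of_check (c := ⟨171, ⟨4, 3, 6, 3⟩⟩) (by decide +kernel)

def tC80_eL0 : PosD ⟨⟨0, 1, 1⟩, ⟨98, 99, 147⟩, ⟨8514, 9258, 30000⟩, ⟨353, 430, 1000⟩⟩ (tC80.hEL false) :=
  posD_of_check (c := ⟨239, ⟨5, 6, 7, 3⟩⟩) (by decide +kernel)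

def tC80_eH0 : PosD ⟨⟨0, 1, 1⟩, ⟨98, 99, 147⟩, ⟨8514, 9258, 30000⟩, ⟨353, 430, 1000⟩⟩ (tC80.hEH false) :=
  posD_of_check (c := ⟨239, ⟨5, 6, 7, 3⟩⟩) (by decide +kernel)

def tC80_pL0 : PosD ⟨⟨0, 1, 1⟩, ⟨98, 99, 147⟩, ⟨8514, 9258, 30000⟩, ⟨353, 430, 1000⟩⟩ (tC80.hPL false) :=
  posD_of_check (c := ⟨235, ⟨5, 6, 7, 3⟩⟩) (by decide +kernel)

def tC80_pU0 : PosD ⟨⟨0, 1, 1⟩, ⟨98, 99, 147⟩, ⟨8514, 9258, 30000⟩, ⟨353, 430, 1000⟩⟩ (tC80.hPU false) :=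
  posD_of_check (c := ⟨234, ⟨5, 6, 7, 3⟩⟩) (by decide +kernel)

def tC80_kU0 : PosD ⟨⟨0, 1, 1⟩, ⟨98, 99, 147⟩, ⟨8514, 9258, 30000⟩, ⟨353, 430, 1000⟩⟩ (tC80.hKU false) :=
  posD_of_check (c := ⟨237, ⟨5, 6, 7, 3⟩⟩) (by decide +kernel)

def tC80_kL0 : PosD ⟨⟨0, 1, 1⟩, ⟨98, 99, 147⟩, ⟨8514, 9258, 30000⟩, ⟨353, 430, 1000⟩⟩ (tC80.hKL false) :=
  posD_of_check (c := ⟨239, ⟨5, 6, 7, 3⟩⟩) (by decide +kernel)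

def tC80_wU0 : PosD ⟨⟨0, 1, 1⟩, ⟨98, 99, 147⟩, ⟨8514, 9258, 30000⟩, ⟨353, 430, 1000⟩⟩ (tC80.hWU false) :=
  posD_of_check (c := ⟨268, ⟨5, 8, 8, 3⟩⟩) (by decide +kernel)

def tC80_wL0 : PosD ⟨⟨0, 1, 1⟩, ⟨98, 99, 147⟩, ⟨8514, 9258, 30000⟩, ⟨353, 430, 1000⟩⟩ (tC80.hWL false) :=
  posD_of_check (c := ⟨271, ⟨5, 8, 8, 3⟩⟩) (by decide +kernel)

def tC80_ev1 : PosD ⟨⟨0, 1, 1⟩, ⟨98, 99, 147⟩, ⟨8514, 9258, 30000⟩, ⟨353, 430, 1000⟩⟩ (tC80.hEv true) :=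
  posD_of_check (c := ⟨127, ⟨4, 2, 4, 1⟩⟩) (by decide +kernel)

def tC80_zL1 : PosD ⟨⟨0, 1, 1⟩, ⟨98, 99, 147⟩, ⟨8514, 9258, 30000⟩, ⟨353, 430, 1000⟩⟩ (tC80.hZL true) :=
  posD_of_check (c := ⟨169, ⟨4, 3, 6, 3⟩⟩) (by decide +kernel)

def tC80_zU1 : PosD ⟨⟨0, 1, 1⟩, ⟨98, 99, 147⟩, ⟨8514, 9258, 30000⟩, ⟨353, 430, 1000⟩⟩ (tC80.hZU true) :=
  posD_of_check (c := ⟨169, ⟨4, 3, 6, 3⟩⟩) (by decide +kernel)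

def tC80_eL1 : PosD ⟨⟨0, 1, 1⟩, ⟨98, 99, 147⟩, ⟨8514, 9258, 30000⟩, ⟨353, 430, 1000⟩⟩ (tC80.hEL true) :=
  posD_of_check (c := ⟨240, ⟨5, 6, 7, 3⟩⟩) (by decide +kernel)

def tC80_eH1 : PosD ⟨⟨0, 1, 1⟩, ⟨98, 99, 147⟩, ⟨8514, 9258, 30000⟩, ⟨353, 430, 1000⟩⟩ (tC80.hEH true) :=
  posD_of_check (c := ⟨241, ⟨5, 6, 7, 3⟩⟩) (by decide +kernel)

def tC80_pL1 : PosD ⟨⟨0, 1, 1⟩, ⟨98, 99, 147⟩, ⟨8514, 9258, 30000⟩, ⟨353, 430, 1000⟩⟩ (tC80.hPL true) :=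
  posD_of_check (c := ⟨236, ⟨5, 6, 7, 3⟩⟩) (by decide +kernel)

def tC80_pU1 : PosD ⟨⟨0, 1, 1⟩, ⟨98, 99, 147⟩, ⟨8514, 9258, 30000⟩, ⟨353, 430, 1000⟩⟩ (tC80.hPU true) :=
  posD_of_check (c := ⟨236, ⟨5, 6, 7, 3⟩⟩) (by decide +kernel)

def tC80_kU1a : PosD ⟨⟨0, 1, 1⟩, ⟨98, 99, 147⟩, ⟨8514, 9258, 30000⟩, ⟨353, 391, 1000⟩⟩ (tC80.hKU true) :=
  posD_of_check (c := ⟨239, ⟨5, 6, 7, 3⟩⟩) (by decide +kernel)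

def tC80_kU1ba : PosD ⟨⟨0, 1, 1⟩, ⟨98, 99, 147⟩, ⟨8514, 9258, 30000⟩, ⟨391, 410, 1000⟩⟩ (tC80.hKU true) :=
  posD_of_check (c := ⟨239, ⟨5, 6, 7, 3⟩⟩) (by decide +kernel)

def tC80_kU1bba : PosD ⟨⟨0, 1, 1⟩, ⟨98, 99, 147⟩, ⟨8514, 9258, 30000⟩, ⟨410, 420, 1000⟩⟩ (tC80.hKU true) :=
  posD_of_check (c := ⟨239, ⟨5, 6, 7, 3⟩⟩) (by decide +kernel)

def tC80_kU1bbb : PosD ⟨⟨0, 1, 1⟩, ⟨98, 99, 147⟩, ⟨8514, 9258, 30000⟩, ⟨420, 430, 1000⟩⟩ (tC80.hKU true) :=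
  posD_of_check (c := ⟨239, ⟨5, 6, 7, 3⟩⟩) (by decide +kernel)

def tC80_kU1bb : PosD ⟨⟨0, 1, 1⟩, ⟨98, 99, 147⟩, ⟨8514, 9258, 30000⟩, ⟨410, 430, 1000⟩⟩ (tC80.hKU true) :=
  posD_join₃ tC80_kU1bba tC80_kU1bbb

def tC80_kU1b : PosD ⟨⟨0, 1, 1⟩, ⟨98, 99, 147⟩, ⟨8514, 9258, 30000⟩, ⟨391, 430, 1000⟩⟩ (tC80.hKU true) :=
  posD_join₃ tC80_kU1ba tC80_kU1bb

def tC80_kU1 : PosD ⟨⟨0, 1, 1⟩, ⟨98, 99, 147⟩, ⟨8514, 9258, 30000⟩, ⟨353, 430, 1000⟩⟩ (tC80.hKU true) :=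
  posD_join₃ tC80_kU1a tC80_kU1b

def tC80_kL1a : PosD ⟨⟨0, 1, 1⟩, ⟨98, 99, 147⟩, ⟨8514, 9258, 30000⟩, ⟨353, 391, 1000⟩⟩ (tC80.hKL true) :=
  posD_of_check (c := ⟨241, ⟨5, 6, 7, 3⟩⟩) (by decide +kernel)

def tC80_kL1ba : PosD ⟨⟨0, 1, 1⟩, ⟨98, 99, 147⟩, ⟨8514, 9258, 30000⟩, ⟨391, 410, 1000⟩⟩ (tC80.hKL true) :=
  posD_of_check (c := ⟨241, ⟨5, 6, 7, 3⟩⟩) (by decide +kernel)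

def tC80_kL1bba : PosD ⟨⟨0, 1, 1⟩, ⟨98, 99, 147⟩, ⟨8514, 9258, 30000⟩, ⟨410, 420, 1000⟩⟩ (tC80.hKL true) :=
  posD_of_check (c := ⟨241, ⟨5, 6, 7, 3⟩⟩) (by decide +kernel)

def tC80_kL1bbb : PosD ⟨⟨0, 1, 1⟩, ⟨98, 99, 147⟩, ⟨8514, 9258, 30000⟩, ⟨420, 430, 1000⟩⟩ (tC80.hKL true) :=
  posD_of_check (c := ⟨241, ⟨5, 6, 7, 3⟩⟩) (by decide +kernel)

def tC80_kL1bb : PosD ⟨⟨0, 1, 1⟩, ⟨98, 99, 147⟩, ⟨8514, 9258, 30000⟩, ⟨410, 430, 1000⟩⟩ (tC80.hKL true) :=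
  posD_join₃ tC80_kL1bba tC80_kL1bbb

def tC80_kL1b : PosD ⟨⟨0, 1, 1⟩, ⟨98, 99, 147⟩, ⟨8514, 9258, 30000⟩, ⟨391, 430, 1000⟩⟩ (tC80.hKL true) :=
  posD_join₃ tC80_kL1ba tC80_kL1bb

def tC80_kL1 : PosD ⟨⟨0, 1, 1⟩, ⟨98, 99, 147⟩, ⟨8514, 9258, 30000⟩, ⟨353, 430, 1000⟩⟩ (tC80.hKL true) :=
  posD_join₃ tC80_kL1a tC80_kL1b

def tC80_wU1a : PosD ⟨⟨0, 1, 1⟩, ⟨98, 99, 147⟩, ⟨8514, 9258, 30000⟩, ⟨353, 391, 1000⟩⟩ (tC80.hWU true) :=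
  posD_of_check (c := ⟨270, ⟨5, 8, 8, 3⟩⟩) (by decide +kernel)

def tC80_wU1ba : PosD ⟨⟨0, 1, 1⟩, ⟨98, 99, 147⟩, ⟨8514, 9258, 30000⟩, ⟨391, 410, 1000⟩⟩ (tC80.hWU true) :=
  posD_of_check (c := ⟨270, ⟨5, 8, 8, 3⟩⟩) (by decide +kernel)

def tC80_wU1bb : PosD ⟨⟨0, 1, 1⟩, ⟨98, 99, 147⟩, ⟨8514, 9258, 30000⟩, ⟨410, 430, 1000⟩⟩ (tC80.hWU true) :=
  posD_of_check (c := ⟨270, ⟨5, 8, 8, 3⟩⟩) (by decide +kernel)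

def tC80_wU1b : PosD ⟨⟨0, 1, 1⟩, ⟨98, 99, 147⟩, ⟨8514, 9258, 30000⟩, ⟨391, 430, 1000⟩⟩ (tC80.hWU true) :=
  posD_join₃ tC80_wU1ba tC80_wU1bb

def tC80_wU1 : PosD ⟨⟨0, 1, 1⟩, ⟨98, 99, 147⟩, ⟨8514, 9258, 30000⟩, ⟨353, 430, 1000⟩⟩ (tC80.hWU true) :=
  posD_join₃ tC80_wU1a tC80_wU1b

def tC80_wL1a : PosD ⟨⟨0, 1, 1⟩, ⟨98, 99, 147⟩, ⟨8514, 9258, 30000⟩, ⟨353, 391, 1000⟩⟩ (tC80.hWL true) :=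
  posD_of_check (c := ⟨272, ⟨5, 8, 8, 3⟩⟩) (by decide +kernel)

def tC80_wL1ba : PosD ⟨⟨0, 1, 1⟩, ⟨98, 99, 147⟩, ⟨8514, 9258, 30000⟩, ⟨391, 410, 1000⟩⟩ (tC80.hWL true) :=
  posD_of_check (c := ⟨273, ⟨5, 8, 8, 3⟩⟩) (by decide +kernel)

def tC80_wL1bba : PosD ⟨⟨0, 1, 1⟩, ⟨98, 99, 147⟩, ⟨8514, 9258, 30000⟩, ⟨410, 420, 1000⟩⟩ (tC80.hWL true) :=
  posD_of_check (c := ⟨273, ⟨5, 8, 8, 3⟩⟩) (by decide +kernel)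

def tC80_wL1bbb : PosD ⟨⟨0, 1, 1⟩, ⟨98, 99, 147⟩, ⟨8514, 9258, 30000⟩, ⟨420, 430, 1000⟩⟩ (tC80.hWL true) :=
  posD_of_check (c := ⟨273, ⟨5, 8, 8, 3⟩⟩) (by decide +kernel)

def tC80_wL1bb : PosD ⟨⟨0, 1, 1⟩, ⟨98, 99, 147⟩, ⟨8514, 9258, 30000⟩, ⟨410, 430, 1000⟩⟩ (tC80.hWL true) :=
  posD_join₃ tC80_wL1bba tC80_wL1bbb

def tC80_wL1b : PosD ⟨⟨0, 1, 1⟩, ⟨98, 99, 147⟩, ⟨8514, 9258, 30000⟩, ⟨391, 430, 1000⟩⟩ (tC80.hWL true) :=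
  posD_join₃ tC80_wL1ba tC80_wL1bb

def tC80_wL1 : PosD ⟨⟨0, 1, 1⟩, ⟨98, 99, 147⟩, ⟨8514, 9258, 30000⟩, ⟨353, 430, 1000⟩⟩ (tC80.hWL true) :=
  posD_join₃ tC80_wL1a tC80_wL1b

def tC80_mueL : PosD ⟨⟨0, 1, 1⟩, ⟨98, 99, 147⟩, ⟨8514, 9258, 30000⟩, ⟨353, 430, 1000⟩⟩ (tC80.eL.μ) :=
  posD_of_check (c := ⟨14, ⟨0, 0, 0, 0⟩⟩) (by decide +kernel)

def tC80_mueH : PosD ⟨⟨0, 1, 1⟩, ⟨98, 99, 147⟩, ⟨8514, 9258, 30000⟩, ⟨353, 430, 1000⟩⟩ (tC80.eH.μ) :=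
  posD_of_check (c := ⟨21, ⟨0, 0, 0, 0⟩⟩) (by decide +kernel)

def tC80_mupL : PosD ⟨⟨0, 1, 1⟩, ⟨98, 99, 147⟩, ⟨8514, 9258, 30000⟩, ⟨353, 430, 1000⟩⟩ (tC80.pL.μ) :=
  posD_of_check (c := ⟨16, ⟨0, 0, 0, 0⟩⟩) (by decide +kernel)

def tC80_mukU : PosD ⟨⟨0, 1, 1⟩, ⟨98, 99, 147⟩, ⟨8514, 9258, 30000⟩, ⟨353, 430, 1000⟩⟩ (tC80.kU.μ) :=
  posD_of_check (c := ⟨16, ⟨0, 0, 0, 0⟩⟩) (by decide +kernel)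

def tC80_muwU : PosD ⟨⟨0, 1, 1⟩, ⟨98, 99, 147⟩, ⟨8514, 9258, 30000⟩, ⟨353, 430, 1000⟩⟩ (tC80.wU.μ) :=
  posD_of_check (c := ⟨17, ⟨0, 0, 0, 0⟩⟩) (by decide +kernel)

/-- The bounds of the piece. -/
def tC80_env : tC80.Env ⟨⟨0, 1, 1⟩, ⟨98, 99, 147⟩, ⟨8514, 9258, 30000⟩, ⟨353, 430, 1000⟩⟩ :=
  ⟨tC80_p0, Bool.forall_bool.2 ⟨tC80_den0, tC80_den1⟩, tC80_gn, Bool.forall_bool.2 ⟨tC80_ev0, tC80_ev1⟩, Bool.forall_bool.2 ⟨tC80_zL0, tC80_zL1⟩, Bool.forall_bool.2 ⟨tC80_zU0, tC80_zU1⟩, Bool.forall_bool.2 ⟨tC80_eL0, tC80_eL1⟩, ⟨.inl tC80_mueL, .inr rfl⟩, Bool.forall_bool.2 ⟨tC80_eH0, tC80_eH1⟩, ⟨.inl tC80_mueH, .inr rfl⟩, Bool.forall_bool.2 ⟨tC80_pL0, tC80_pL1⟩, ⟨.inl tC80_mupL, .inr rfl⟩, Bool.forall_bool.2 ⟨tC80_pU0, tC80_pU1⟩,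 ⟨.inr rfl, .inr rfl⟩, Bool.forall_bool.2 ⟨tC80_kU0, tC80_kU1⟩, ⟨.inl tC80_mukU, .inr rfl⟩, Bool.forall_bool.2 ⟨tC80_kL0, tC80_kL1⟩, ⟨.inr rfl, .inr rfl⟩, Bool.forall_bool.2 ⟨tC80_wU0, tC80_wU1⟩, ⟨.inl tC80_muwU, .inr rfl⟩, Bool.forall_bool.2 ⟨tC80_wL0, tC80_wL1⟩, ⟨.inr rfl, .inr rfl⟩⟩

def tC80_pp : PosD ⟨⟨0, 1, 1⟩, ⟨98, 99, 147⟩, ⟨8514, 9258, 30000⟩, ⟨353, 430, 1000⟩⟩ (tC80.xPL) :=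
  posD_of_check (c := ⟨97, ⟨1, 1, 3, 3⟩⟩) (by decide +kernel)

def tC80_k2p : PosD ⟨⟨0, 1, 1⟩, ⟨98, 99, 147⟩, ⟨8514, 9258, 30000⟩, ⟨353, 430, 1000⟩⟩ (tC80.k2p tC80.xE) :=
  posD_of_check (c := ⟨6, ⟨0, 0, 0, 0⟩⟩) (by decide +kernel)

def tC80_k2m : PosD ⟨⟨0, 1, 1⟩, ⟨98, 99, 147⟩, ⟨8514, 9258, 30000⟩, ⟨353, 430, 1000⟩⟩ (tC80.k2m tC80.xE) :=
  posD_of_check (c := ⟨76, ⟨1, 1, 2, 2⟩⟩) (by decide +kernel)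

def tC80_v2p : PosD ⟨⟨0, 1, 1⟩, ⟨98, 99, 147⟩, ⟨8514, 9258, 30000⟩, ⟨353, 430, 1000⟩⟩ (tC80.hV2p) :=
  posD_of_check (c := ⟨241, ⟨0, 5, 10, 4⟩⟩) (by decide +kernel)

def tC80_v2m : PosD ⟨⟨0, 1, 1⟩, ⟨98, 99, 147⟩, ⟨8514, 9258, 30000⟩, ⟨353, 430, 1000⟩⟩ (tC80.hV2m) :=
  posD_of_check (c := ⟨276, ⟨1, 6, 10, 5⟩⟩) (by decide +kernel)

def tC80_v3p : PosD ⟨⟨0, 1, 1⟩, ⟨98, 99, 147⟩, ⟨8514, 9258, 30000⟩, ⟨353, 430, 1000⟩⟩ (tC80.hV3p) :=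
  posD_of_check (c := ⟨231, ⟨0, 5, 9, 4⟩⟩) (by decide +kernel)

def tC80_v3m : PosD ⟨⟨0, 1, 1⟩, ⟨98, 99, 147⟩, ⟨8514, 9258, 30000⟩, ⟨353, 430, 1000⟩⟩ (tC80.hV3m) :=
  posD_of_check (c := ⟨259, ⟨1, 6, 9, 5⟩⟩) (by decide +kernel)

def tC80_kap0 : PosD ⟨⟨0, 1, 1⟩, ⟨98, 99, 147⟩, ⟨8514, 9258, 30000⟩, ⟨353, 430, 1000⟩⟩ (tC80.kap false) :=
  posD_of_check (c := ⟨71, ⟨1, 1, 2, 2⟩⟩) (by decide +kernel)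

def tC80_c10 : PosD ⟨⟨0, 1, 1⟩, ⟨98, 99, 147⟩, ⟨8514, 9258, 30000⟩, ⟨353, 430, 1000⟩⟩ (tC80.hC1 false) :=
  posD_of_check (c := ⟨282, ⟨3, 5, 9, 7⟩⟩) (by decide +kernel)

def tC80_neg0 : PosD ⟨⟨0, 1, 1⟩, ⟨98, 99, 147⟩, ⟨8514, 9258, 30000⟩, ⟨353, 430, 1000⟩⟩ (tC80.hNeg (tC80.pEnd false)) :=
  posD_of_check (c := ⟨276, ⟨2, 5, 9, 7⟩⟩) (by decide +kernel)

def tC80_neglo0 : PosD ⟨⟨0, 1, 1⟩, ⟨98, 99, 147⟩, ⟨8514, 9258, 30000⟩, ⟨353, 430, 1000⟩⟩ (tC80.hNegLo (tC80.pEnd false)) :=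
  posD_of_check (c := ⟨276, ⟨2, 5, 9, 7⟩⟩) (by decide +kernel)

def tC80_tg00 : PosD ⟨⟨0, 1, 1⟩, ⟨98, 99, 147⟩, ⟨8514, 9258, 30000⟩, ⟨353, 430, 1000⟩⟩ (tC80.hG false (tC80.pEnd false)) :=
  posD_of_check (c := ⟨389, ⟨2, 7, 14, 9⟩⟩) (by decide +kernel)

def tC80_c2p00 : PosD ⟨⟨0, 1, 1⟩, ⟨98, 99, 147⟩, ⟨8514, 9258, 30000⟩, ⟨353, 430, 1000⟩⟩ (tC80.hC2p false (tC80.pEnd false)) :=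
  posD_of_check (c := ⟨433, ⟨2, 7, 16, 10⟩⟩) (by decide +kernel)

def tC80_c2m00 : PosD ⟨⟨0, 1, 1⟩, ⟨98, 99, 147⟩, ⟨8514, 9258, 30000⟩, ⟨353, 430, 1000⟩⟩ (tC80.hC2m false (tC80.pEnd false)) :=
  posD_of_check (c := ⟨465, ⟨3, 8, 16, 11⟩⟩) (by decide +kernel)

def tC80_c3p00 : PosD ⟨⟨0, 1, 1⟩, ⟨98, 99, 147⟩, ⟨8514, 9258, 30000⟩, ⟨353, 430, 1000⟩⟩ (tC80.hC3p false false) :=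
  posD_of_check (c := ⟨429, ⟨3, 7, 15, 10⟩⟩) (by decide +kernel)

def tC80_c3m00 : PosD ⟨⟨0, 1, 1⟩, ⟨98, 99, 147⟩, ⟨8514, 9258, 30000⟩, ⟨353, 430, 1000⟩⟩ (tC80.hC3m false false) :=
  posD_of_check (c := ⟨453, ⟨3, 8, 15, 11⟩⟩) (by decide +kernel)

def tC80_tmg00 : PosD ⟨⟨0, 1, 1⟩, ⟨98, 99, 147⟩, ⟨8514, 9258, 30000⟩, ⟨353, 430, 1000⟩⟩ (tC80.hTMG false (tC80.pEnd false)) :=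
  posD_of_check (c := ⟨407, ⟨2, 7, 14, 10⟩⟩) (by decide +kernel)

def tC80_tg01 : PosD ⟨⟨0, 1, 1⟩, ⟨98, 99, 147⟩, ⟨8514, 9258, 30000⟩, ⟨353, 430, 1000⟩⟩ (tC80.hG true (tC80.pEnd false)) :=
  posD_of_check (c := ⟨389, ⟨2, 7, 14, 9⟩⟩) (by decide +kernel)

def tC80_c2p01 : PosD ⟨⟨0, 1, 1⟩, ⟨98, 99, 147⟩, ⟨8514, 9258, 30000⟩, ⟨353, 430, 1000⟩⟩ (tC80.hC2p true (tC80.pEnd false)) :=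
  posD_of_check (c := ⟨433, ⟨2, 7, 16, 10⟩⟩) (by decide +kernel)

def tC80_c2m01 : PosD ⟨⟨0, 1, 1⟩, ⟨98, 99, 147⟩, ⟨8514, 9258, 30000⟩, ⟨353, 430, 1000⟩⟩ (tC80.hC2m true (tC80.pEnd false)) :=
  posD_of_check (c := ⟨465, ⟨3, 8, 16, 11⟩⟩) (by decide +kernel)

def tC80_c3p01 : PosD ⟨⟨0, 1, 1⟩, ⟨98, 99, 147⟩, ⟨8514, 9258, 30000⟩, ⟨353, 430, 1000⟩⟩ (tC80.hC3p false true) :=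
  posD_of_check (c := ⟨429, ⟨3, 7, 15, 10⟩⟩) (by decide +kernel)

def tC80_c3m01 : PosD ⟨⟨0, 1, 1⟩, ⟨98, 99, 147⟩, ⟨8514, 9258, 30000⟩, ⟨353, 430, 1000⟩⟩ (tC80.hC3m false true) :=
  posD_of_check (c := ⟨453, ⟨3, 8, 15, 11⟩⟩) (by decide +kernel)

def tC80_tmg01 : PosD ⟨⟨0, 1, 1⟩, ⟨98, 99, 147⟩, ⟨8514, 9258, 30000⟩, ⟨353, 430, 1000⟩⟩ (tC80.hTMG true (tC80.pEnd false)) :=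
  posD_of_check (c := ⟨407, ⟨2, 7, 14, 10⟩⟩) (by decide +kernel)

def tC80_kap1 : PosD ⟨⟨0, 1, 1⟩, ⟨98, 99, 147⟩, ⟨8514, 9258, 30000⟩, ⟨353, 430, 1000⟩⟩ (tC80.kap true) :=
  posD_of_check (c := ⟨71, ⟨1, 1, 2, 2⟩⟩) (by decide +kernel)

def tC80_c11 : PosD ⟨⟨0, 1, 1⟩, ⟨98, 99, 147⟩, ⟨8514, 9258, 30000⟩, ⟨353, 430, 1000⟩⟩ (tC80.hC1 true) :=
  posD_of_check (c := ⟨281, ⟨3, 5, 9, 7⟩⟩) (by decide +kernel)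

def tC80_neg1 : PosD ⟨⟨0, 1, 1⟩, ⟨98, 99, 147⟩, ⟨8514, 9258, 30000⟩, ⟨353, 430, 1000⟩⟩ (tC80.hNeg (tC80.pEnd true)) :=
  posD_of_check (c := ⟨275, ⟨2, 5, 9, 7⟩⟩) (by decide +kernel)

def tC80_neglo1 : PosD ⟨⟨0, 1, 1⟩, ⟨98, 99, 147⟩, ⟨8514, 9258, 30000⟩, ⟨353, 430, 1000⟩⟩ (tC80.hNegLo (tC80.pEnd true)) :=
  posD_of_check (c := ⟨275, ⟨2, 5, 9, 7⟩⟩) (by decide +kernel)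

def tC80_tg10 : PosD ⟨⟨0, 1, 1⟩, ⟨98, 99, 147⟩, ⟨8514, 9258, 30000⟩, ⟨353, 430, 1000⟩⟩ (tC80.hG false (tC80.pEnd true)) :=
  posD_of_check (c := ⟨388, ⟨2, 7, 14, 9⟩⟩) (by decide +kernel)

def tC80_c2p10 : PosD ⟨⟨0, 1, 1⟩, ⟨98, 99, 147⟩, ⟨8514, 9258, 30000⟩, ⟨353, 430, 1000⟩⟩ (tC80.hC2p false (tC80.pEnd true)) :=
  posD_of_check (c := ⟨433, ⟨2, 7, 16, 10⟩⟩) (by decide +kernel)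

def tC80_c2m10 : PosD ⟨⟨0, 1, 1⟩, ⟨98, 99, 147⟩, ⟨8514, 9258, 30000⟩, ⟨353, 430, 1000⟩⟩ (tC80.hC2m false (tC80.pEnd true)) :=
  posD_of_check (c := ⟨464, ⟨3, 8, 16, 11⟩⟩) (by decide +kernel)

def tC80_c3p10 : PosD ⟨⟨0, 1, 1⟩, ⟨98, 99, 147⟩, ⟨8514, 9258, 30000⟩, ⟨353, 430, 1000⟩⟩ (tC80.hC3p true false) :=
  posD_of_check (c := ⟨428, ⟨3, 7, 15, 10⟩⟩) (by decide +kernel)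

def tC80_c3m10 : PosD ⟨⟨0, 1, 1⟩, ⟨98, 99, 147⟩, ⟨8514, 9258, 30000⟩, ⟨353, 430, 1000⟩⟩ (tC80.hC3m true false) :=
  posD_of_check (c := ⟨452, ⟨3, 8, 15, 11⟩⟩) (by decide +kernel)

def tC80_tmg10 : PosD ⟨⟨0, 1, 1⟩, ⟨98, 99, 147⟩, ⟨8514, 9258, 30000⟩, ⟨353, 430, 1000⟩⟩ (tC80.hTMG false (tC80.pEnd true)) :=
  posD_of_check (c := ⟨407, ⟨2, 7, 14, 10⟩⟩) (by decide +kernel)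

def tC80_tg11 : PosD ⟨⟨0, 1, 1⟩, ⟨98, 99, 147⟩, ⟨8514, 9258, 30000⟩, ⟨353, 430, 1000⟩⟩ (tC80.hG true (tC80.pEnd true)) :=
  posD_of_check (c := ⟨388, ⟨2, 7, 14, 9⟩⟩) (by decide +kernel)

def tC80_c2p11 : PosD ⟨⟨0, 1, 1⟩, ⟨98, 99, 147⟩, ⟨8514, 9258, 30000⟩, ⟨353, 430, 1000⟩⟩ (tC80.hC2p true (tC80.pEnd true)) :=
  posD_of_check (c := ⟨433, ⟨2, 7, 16, 10⟩⟩) (by decide +kernel)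

def tC80_c2m11 : PosD ⟨⟨0, 1, 1⟩, ⟨98, 99, 147⟩, ⟨8514, 9258, 30000⟩, ⟨353, 430, 1000⟩⟩ (tC80.hC2m true (tC80.pEnd true)) :=
  posD_of_check (c := ⟨464, ⟨3, 8, 16, 11⟩⟩) (by decide +kernel)

def tC80_c3p11 : PosD ⟨⟨0, 1, 1⟩, ⟨98, 99, 147⟩, ⟨8514, 9258, 30000⟩, ⟨353, 430, 1000⟩⟩ (tC80.hC3p true true) :=
  posD_of_check (c := ⟨428, ⟨3, 7, 15, 10⟩⟩) (by decide +kernel)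

def tC80_c3m11 : PosD ⟨⟨0, 1, 1⟩, ⟨98, 99, 147⟩, ⟨8514, 9258, 30000⟩, ⟨353, 430, 1000⟩⟩ (tC80.hC3m true true) :=
  posD_of_check (c := ⟨452, ⟨3, 8, 15, 11⟩⟩) (by decide +kernel)

def tC80_tmg11 : PosD ⟨⟨0, 1, 1⟩, ⟨98, 99, 147⟩, ⟨8514, 9258, 30000⟩, ⟨353, 430, 1000⟩⟩ (tC80.hTMG true (tC80.pEnd true)) :=
  posD_of_check (c := ⟨407, ⟨2, 7, 14, 10⟩⟩) (by decide +kernel)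

/-- The signs of the piece. -/
def tC80_sign : tC80.Sign ⟨⟨0, 1, 1⟩, ⟨98, 99, 147⟩, ⟨8514, 9258, 30000⟩, ⟨353, 430, 1000⟩⟩ :=
  ⟨tC80_pp,
    tC80_k2p,
    tC80_k2m,
    Bool.forall_bool.2 ⟨(Bool.forall_bool.2 ⟨tC80_tg00, tC80_tg01⟩), (Bool.forall_bool.2 ⟨tC80_tg10, tC80_tg11⟩)⟩,
    Bool.forall_bool.2 ⟨(Bool.forall_bool.2 ⟨tC80_c2p00, tC80_c2p01⟩), (Bool.forall_bool.2 ⟨tC80_c2p10, tC80_c2p11⟩)⟩,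
    Bool.forall_bool.2 ⟨(Bool.forall_bool.2 ⟨tC80_c2m00, tC80_c2m01⟩), (Bool.forall_bool.2 ⟨tC80_c2m10, tC80_c2m11⟩)⟩,
    Bool.forall_bool.2 ⟨tC80_kap0, tC80_kap1⟩,
    Bool.forall_bool.2 ⟨tC80_c10, tC80_c11⟩,
    Bool.forall_bool.2 ⟨(Bool.forall_bool.2 ⟨tC80_c3p00, tC80_c3p01⟩), (Bool.forall_bool.2 ⟨tC80_c3p10, tC80_c3p11⟩)⟩,
    Bool.forall_bool.2 ⟨(Bool.forall_bool.2 ⟨tC80_c3m00, tC80_c3m01⟩), (Bool.forall_bool.2 ⟨tC80_c3m10, tC80_c3m11⟩)⟩,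
    Bool.forall_bool.2 ⟨(Bool.forall_bool.2 ⟨tC80_tmg00, tC80_tmg01⟩), (Bool.forall_bool.2 ⟨tC80_tmg10, tC80_tmg11⟩)⟩,
    .inl (Bool.forall_bool.2 ⟨⟨tC80_neg0, tC80_neglo0⟩, ⟨tC80_neg1, tC80_neglo1⟩⟩),
    tC80_v2p,
    tC80_v2m,
    tC80_v3p,
    tC80_v3m,
    posD_sub (b := ⟨⟨0, 1, 1⟩, ⟨98, 99, 147⟩, ⟨4050, 10000, 30000⟩, ⟨290, 4000, 1000⟩⟩) (by decide +kernel) tC_vG,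
    posD_sub (b := ⟨⟨0, 1, 1⟩, ⟨98, 99, 147⟩, ⟨4050, 10000, 30000⟩, ⟨290, 4000, 1000⟩⟩) (by decide +kernel) tC_vMG,
    posD_sub (b := ⟨⟨0, 1, 1⟩, ⟨98, 99, 147⟩, ⟨4050, 10000, 30000⟩, ⟨290, 4000, 1000⟩⟩) (by decide +kernel) tC_ak,
    posD_sub (b := ⟨⟨0, 1, 1⟩, ⟨98, 99, 147⟩, ⟨4050, 10000, 30000⟩, ⟨290, 4000, 1000⟩⟩) (by decide +kernel) tC_aw,
    posD_sub (b := ⟨⟨0, 1, 1⟩, ⟨98, 99, 147⟩, ⟨4050, 10000, 30000⟩, ⟨290, 4000, 1000⟩⟩) (by decide +kernel) tC_gk,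
    posD_sub (b := ⟨⟨0, 1, 1⟩, ⟨98, 99, 147⟩, ⟨4050, 10000, 30000⟩, ⟨290, 4000, 1000⟩⟩) (by decide +kernel) tC_gw,
    posD_sub (b := ⟨⟨0, 1, 1⟩, ⟨98, 99, 147⟩, ⟨4050, 10000, 30000⟩, ⟨290, 4000, 1000⟩⟩) (by decide +kernel) tC_ek,
    posD_sub (b := ⟨⟨0, 1, 1⟩, ⟨98, 99, 147⟩, ⟨4050, 10000, 30000⟩, ⟨290, 4000, 1000⟩⟩) (by decide +kernel) tC_ew⟩

end Vale.Agent.P100.Calib.Closed.Six.Tail
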