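import Vale.Agent.P100.Calib.SlabSixTailDataC
import Vale.Agent.P100.Calib.SlabSixTailGlobC

/-!
# Checks of some pieces of the certificate

The checks are written as definitions so that they run one after another, which keeps the memory of the
kernel low.
-/

set_option linter.defProp false

namespace Vale.Agent.P100.Calib.Closed.Six.Tail

open BoxPos Large

local instance sixTailCheckstC54Add : Add Ex := ⟨Ex.add⟩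
local instance sixTailCheckstC54Sub : Sub Ex := ⟨Ex.sub⟩
local instance sixTailCheckstC54Mul : Mul Ex := ⟨Ex.mul⟩

def tC82_phx : PosIf ⟨⟨0, 1, 1⟩, ⟨98, 99, 147⟩, ⟨8514, 8886, 30000⟩, ⟨1467, 1599, 1000⟩⟩ (tC82.u₁ - tC82Lo) (phCn (tC82.u₁ + xO * (tC82Lo - tC82.u₁))) :=
  posIf_of_posD (posD_of_check (c := ⟨109, ⟨2, 0, 4, 2⟩⟩) (by decide +kernel))

def tC82_phd : PosD ⟨⟨0, 1, 1⟩, ⟨98, 99, 147⟩, ⟨8514, 8886, 30000⟩, ⟨1467, 1599, 1000⟩⟩ (phCd (tC82.u₁ + xO * (tC82Lo - tC82.u₁))) :=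
  posD_of_check (c := ⟨51, ⟨1, 0, 2, 1⟩⟩) (by decide +kernel)

def tC82_p0 : PosD ⟨⟨0, 1, 1⟩, ⟨98, 99, 147⟩, ⟨8514, 8886, 30000⟩, ⟨1467, 1599, 1000⟩⟩ (tC82.hP0) :=
  posD_of_check (c := ⟨83, ⟨0, 2, 3, 1⟩⟩) (by decide +kernel)

def tC82_gn : PosD ⟨⟨0, 1, 1⟩, ⟨98, 99, 147⟩, ⟨8514, 8886, 30000⟩, ⟨1467, 1599, 1000⟩⟩ (tC82.hGn) :=
  posD_of_check (c := ⟨69, ⟨1, 1, 2, 2⟩⟩) (by decide +kernel)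

def tC82_den0 : PosD ⟨⟨0, 1, 1⟩, ⟨98, 99, 147⟩, ⟨8514, 8886, 30000⟩, ⟨1467, 1599, 1000⟩⟩ (tC82.hDen false) :=
  posD_of_check (c := ⟨51, ⟨1, 0, 2, 1⟩⟩) (by decide +kernel)

def tC82_den1 : PosD ⟨⟨0, 1, 1⟩, ⟨98, 99, 147⟩, ⟨8514, 8886, 30000⟩, ⟨1467, 1599, 1000⟩⟩ (tC82.hDen true) :=
  posD_of_check (c := ⟨180, ⟨3, 4, 6, 4⟩⟩) (by decide +kernel)

def tC82_ev0 : PosD ⟨⟨0, 1, 1⟩, ⟨98, 99, 147⟩, ⟨8514, 8886, 30000⟩, ⟨1467, 1599, 1000⟩⟩ (tC82.hEv false) :=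
  posD_of_check (c := ⟨220, ⟨4, 2, 8, 4⟩⟩) (by decide +kernel)

def tC82_zL0 : PosD ⟨⟨0, 1, 1⟩, ⟨98, 99, 147⟩, ⟨8514, 8886, 30000⟩, ⟨1467, 1599, 1000⟩⟩ (tC82.hZL false) :=
  posD_of_check (c := ⟨222, ⟨4, 3, 8, 4⟩⟩) (by decide +kernel)

def tC82_zU0 : PosD ⟨⟨0, 1, 1⟩, ⟨98, 99, 147⟩, ⟨8514, 8886, 30000⟩, ⟨1467, 1599, 1000⟩⟩ (tC82.hZU false) :=
  posD_of_check (c := ⟨222, ⟨4, 3, 8, 4⟩⟩) (by decide +kernel)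

def tC82_eL0 : PosD ⟨⟨0, 1, 1⟩, ⟨98, 99, 147⟩, ⟨8514, 8886, 30000⟩, ⟨1467, 1599, 1000⟩⟩ (tC82.hEL false) :=
  posD_of_check (c := ⟨316, ⟨5, 6, 11, 6⟩⟩) (by decide +kernel)

def tC82_eH0 : PosD ⟨⟨0, 1, 1⟩, ⟨98, 99, 147⟩, ⟨8514, 8886, 30000⟩, ⟨1467, 1599, 1000⟩⟩ (tC82.hEH false) :=
  posD_of_check (c := ⟨350, ⟨5, 6, 11, 7⟩⟩) (by decide +kernel)

def tC82_pL0 : PosD ⟨⟨0, 1, 1⟩, ⟨98, 99, 147⟩, ⟨8514, 8886, 30000⟩, ⟨1467, 1599, 1000⟩⟩ (tC82.hPL false) :=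
  posD_of_check (c := ⟨341, ⟨5, 6, 11, 7⟩⟩) (by decide +kernel)

def tC82_pU0 : PosD ⟨⟨0, 1, 1⟩, ⟨98, 99, 147⟩, ⟨8514, 8886, 30000⟩, ⟨1467, 1599, 1000⟩⟩ (tC82.hPU false) :=
  posD_of_check (c := ⟨341, ⟨5, 6, 11, 7⟩⟩) (by decide +kernel)

def tC82_kU0 : PosD ⟨⟨0, 1, 1⟩, ⟨98, 99, 147⟩, ⟨8514, 8886, 30000⟩, ⟨1467, 1599, 1000⟩⟩ (tC82.hKU false) :=
  posD_of_check (c := ⟨338, ⟨5, 6, 11, 7⟩⟩) (by decide +kernel)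

def tC82_kL0 : PosD ⟨⟨0, 1, 1⟩, ⟨98, 99, 147⟩, ⟨8514, 8886, 30000⟩, ⟨1467, 1599, 1000⟩⟩ (tC82.hKL false) :=
  posD_of_check (c := ⟨337, ⟨5, 6, 11, 7⟩⟩) (by decide +kernel)

def tC82_wU0 : PosD ⟨⟨0, 1, 1⟩, ⟨98, 99, 147⟩, ⟨8514, 8886, 30000⟩, ⟨1467, 1599, 1000⟩⟩ (tC82.hWU false) :=
  posD_of_check (c := ⟨371, ⟨5, 8, 12, 7⟩⟩) (by decide +kernel)

def tC82_wL0 : PosD ⟨⟨0, 1, 1⟩, ⟨98, 99, 147⟩, ⟨8514, 8886, 30000⟩, ⟨1467, 1599, 1000⟩⟩ (tC82.hWL false) :=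
  posD_of_check (c := ⟨373, ⟨5, 8, 12, 7⟩⟩) (by decide +kernel)

def tC82_ev1 : PosD ⟨⟨0, 1, 1⟩, ⟨98, 99, 147⟩, ⟨8514, 8886, 30000⟩, ⟨1467, 1599, 1000⟩⟩ (tC82.hEv true) :=
  posD_of_check (c := ⟨273, ⟨4, 6, 9, 6⟩⟩) (by decide +kernel)

def tC82_zL1a : PosD ⟨⟨0, 1, 1⟩, ⟨98, 99, 147⟩, ⟨8514, 8886, 30000⟩, ⟨1467, 1533, 1000⟩⟩ (tC82.hZL true) :=
  posD_of_check (c := ⟨298, ⟨4, 7, 10, 7⟩⟩) (by decide +kernel)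

def tC82_zL1b : PosD ⟨⟨0, 1, 1⟩, ⟨98, 99, 147⟩, ⟨8514, 8886, 30000⟩, ⟨1533, 1599, 1000⟩⟩ (tC82.hZL true) :=
  posD_of_check (c := ⟨298, ⟨4, 7, 10, 7⟩⟩) (by decide +kernel)

def tC82_zL1 : PosD ⟨⟨0, 1, 1⟩, ⟨98, 99, 147⟩, ⟨8514, 8886, 30000⟩, ⟨1467, 1599, 1000⟩⟩ (tC82.hZL true) :=
  posD_join₃ tC82_zL1a tC82_zL1b

def tC82_zU1 : PosD ⟨⟨0, 1, 1⟩, ⟨98, 99, 147⟩, ⟨8514, 8886, 30000⟩, ⟨1467, 1599, 1000⟩⟩ (tC82.hZU true) :=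
  posD_of_check (c := ⟨298, ⟨4, 7, 10, 7⟩⟩) (by decide +kernel)

def tC82_eL1 : PosD ⟨⟨0, 1, 1⟩, ⟨98, 99, 147⟩, ⟨8514, 8886, 30000⟩, ⟨1467, 1599, 1000⟩⟩ (tC82.hEL true) :=
  posD_of_check (c := ⟨370, ⟨5, 10, 12, 8⟩⟩) (by decide +kernel)

def tC82_eH1 : PosD ⟨⟨0, 1, 1⟩, ⟨98, 99, 147⟩, ⟨8514, 8886, 30000⟩, ⟨1467, 1599, 1000⟩⟩ (tC82.hEH true) :=
  posD_of_check (c := ⟨403, ⟨5, 10, 12, 9⟩⟩) (by decide +kernel)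

def tC82_pL1 : PosD ⟨⟨0, 1, 1⟩, ⟨98, 99, 147⟩, ⟨8514, 8886, 30000⟩, ⟨1467, 1599, 1000⟩⟩ (tC82.hPL true) :=
  posD_of_check (c := ⟨395, ⟨5, 10, 12, 9⟩⟩) (by decide +kernel)

def tC82_pU1 : PosD ⟨⟨0, 1, 1⟩, ⟨98, 99, 147⟩, ⟨8514, 8886, 30000⟩, ⟨1467, 1599, 1000⟩⟩ (tC82.hPU true) :=
  posD_of_check (c := ⟨395, ⟨5, 10, 12, 9⟩⟩) (by decide +kernel)

def tC82_kU1 : PosD ⟨⟨0, 1, 1⟩, ⟨98, 99, 147⟩, ⟨8514, 8886, 30000⟩, ⟨1467, 1599, 1000⟩⟩ (tC82.hKU true) :=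
  posD_of_check (c := ⟨392, ⟨5, 10, 12, 9⟩⟩) (by decide +kernel)

def tC82_kL1 : PosD ⟨⟨0, 1, 1⟩, ⟨98, 99, 147⟩, ⟨8514, 8886, 30000⟩, ⟨1467, 1599, 1000⟩⟩ (tC82.hKL true) :=
  posD_of_check (c := ⟨391, ⟨5, 10, 12, 9⟩⟩) (by decide +kernel)

def tC82_wU1 : PosD ⟨⟨0, 1, 1⟩, ⟨98, 99, 147⟩, ⟨8514, 8886, 30000⟩, ⟨1467, 1599, 1000⟩⟩ (tC82.hWU true) :=
  posD_of_check (c := ⟨424, ⟨5, 12, 13, 9⟩⟩) (by decide +kernel)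

def tC82_wL1 : PosD ⟨⟨0, 1, 1⟩, ⟨98, 99, 147⟩, ⟨8514, 8886, 30000⟩, ⟨1467, 1599, 1000⟩⟩ (tC82.hWL true) :=
  posD_of_check (c := ⟨427, ⟨5, 12, 13, 9⟩⟩) (by decide +kernel)

def tC82_nueH : PosD ⟨⟨0, 1, 1⟩, ⟨98, 99, 147⟩, ⟨8514, 8886, 30000⟩, ⟨1467, 1599, 1000⟩⟩ (tC82.eH.ν) :=
  posD_of_check (c := ⟨49, ⟨0, 0, 1, 1⟩⟩) (by decide +kernel)

/-- The bounds of the piece. -/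
def tC82_env : tC82.Env ⟨⟨0, 1, 1⟩, ⟨98, 99, 147⟩, ⟨8514, 8886, 30000⟩, ⟨1467, 1599, 1000⟩⟩ :=
  ⟨tC82_p0, Bool.forall_bool.2 ⟨tC82_den0, tC82_den1⟩, tC82_gn, Bool.forall_bool.2 ⟨tC82_ev0, tC82_ev1⟩, Bool.forall_bool.2 ⟨tC82_zL0, tC82_zL1⟩, Bool.forall_bool.2 ⟨tC82_zU0, tC82_zU1⟩, Bool.forall_bool.2 ⟨tC82_eL0, tC82_eL1⟩, ⟨.inr rfl, .inr rfl⟩, Bool.forall_bool.2 ⟨tC82_eH0, tC82_eH1⟩, ⟨.inr rfl, .inl tC82_nueH⟩, Bool.forall_bool.2 ⟨tC82_pL0, tC82_pL1⟩, ⟨.inr rfl, .inr rfl⟩, Bool.forall_bool.2 ⟨tC82_pU0, tC82_pU1⟩, ⟨.inr rfl, .inr rfl⟩, Bool.forall_bool.2 ⟨tC82_kU0, tC82_kU1⟩, ⟨.inr rfl, .inr rfl⟩, Bool.forall_bool.2 ⟨tC82_kL0, tC82_kL1⟩, ⟨.inr rfl, .inr rfl⟩, Bool.forall_bool.2 ⟨tC82_wU0, tC82_wU1⟩, ⟨.inr rfl, .inr rfl⟩, Bool.forall_bool.2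 ⟨tC82_wL0, tC82_wL1⟩, ⟨.inr rfl, .inr rfl⟩⟩

def tC82_pU20 : PosD ⟨⟨0, 1, 1⟩, ⟨98, 99, 147⟩, ⟨8514, 8886, 30000⟩, ⟨1467, 1599, 1000⟩⟩ (({ tC82 with pU := tC82PU } : Piece).hPU false) :=
  posD_of_check (c := ⟨353, ⟨5, 6, 11, 7⟩⟩) (by decide +kernel)

def tC82_pU21 : PosD ⟨⟨0, 1, 1⟩, ⟨98, 99, 147⟩, ⟨8514, 8886, 30000⟩, ⟨1467, 1599, 1000⟩⟩ (({ tC82 with pU := tC82PU } : Piece).hPU true) :=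
  posD_of_check (c := ⟨407, ⟨5, 10, 12, 9⟩⟩) (by decide +kernel)

def tC82_nupU2 : PosD ⟨⟨0, 1, 1⟩, ⟨98, 99, 147⟩, ⟨8514, 8886, 30000⟩, ⟨1467, 1599, 1000⟩⟩ (tC82PU.ν) :=
  posD_of_check (c := ⟨53, ⟨0, 0, 1, 1⟩⟩) (by decide +kernel)

/-- The bounds with the other bound of `p`. -/
def tC82_envU : ({ tC82 with pU := tC82PU } : Piece).Env ⟨⟨0, 1, 1⟩, ⟨98, 99, 147⟩, ⟨8514, 8886, 30000⟩, ⟨1467, 1599, 1000⟩⟩ :=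
  tC82_env.withU tC82PU (Bool.forall_bool.2 ⟨tC82_pU20, tC82_pU21⟩) ⟨.inr rfl, .inl tC82_nupU2⟩

def tC82A_pp : PosD ⟨⟨0, 1, 1⟩, ⟨98, 99, 147⟩, ⟨8514, 8886, 30000⟩, ⟨1467, 1599, 1000⟩⟩ (tC82A.xPL) :=
  posD_of_check (c := ⟨98, ⟨1, 1, 3, 3⟩⟩) (by decide +kernel)

def tC82A_k2p : PosD ⟨⟨0, 1, 1⟩, ⟨98, 99, 147⟩, ⟨8514, 8886, 30000⟩, ⟨1467, 1599, 1000⟩⟩ (tC82A.k2p tC82A.xE) :=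
  posD_of_check (c := ⟨74, ⟨1, 1, 2, 2⟩⟩) (by decide +kernel)

def tC82A_k2m : PosD ⟨⟨0, 1, 1⟩, ⟨98, 99, 147⟩, ⟨8514, 8886, 30000⟩, ⟨1467, 1599, 1000⟩⟩ (tC82A.k2m tC82A.xE) :=
  posD_of_check (c := ⟨31, ⟨0, 0, 1, 1⟩⟩) (by decide +kernel)

def tC82A_v2p : PosD ⟨⟨0, 1, 1⟩, ⟨98, 99, 147⟩, ⟨8514, 8886, 30000⟩, ⟨1467, 1599, 1000⟩⟩ (tC82A.hV2p) :=
  posD_of_check (c := ⟨276, ⟨1, 6, 10, 5⟩⟩) (by decide +kernel)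

def tC82A_v2m : PosD ⟨⟨0, 1, 1⟩, ⟨98, 99, 147⟩, ⟨8514, 8886, 30000⟩, ⟨1467, 1599, 1000⟩⟩ (tC82A.hV2m) :=
  posD_of_check (c := ⟨245, ⟨0, 5, 10, 4⟩⟩) (by decide +kernel)

def tC82A_v3p : PosD ⟨⟨0, 1, 1⟩, ⟨98, 99, 147⟩, ⟨8514, 8886, 30000⟩, ⟨1467, 1599, 1000⟩⟩ (tC82A.hV3p) :=
  posD_of_check (c := ⟨260, ⟨1, 6, 9, 5⟩⟩) (by decide +kernel)

def tC82A_v3m : PosD ⟨⟨0, 1, 1⟩, ⟨98, 99, 147⟩, ⟨8514, 8886, 30000⟩, ⟨1467, 1599, 1000⟩⟩ (tC82A.hV3m) :=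
  posD_of_check (c := ⟨232, ⟨0, 5, 9, 4⟩⟩) (by decide +kernel)

def tC82A_kap0 : PosD ⟨⟨0, 1, 1⟩, ⟨98, 99, 147⟩, ⟨8514, 8886, 30000⟩, ⟨1467, 1599, 1000⟩⟩ (tC82A.kap false) :=
  posD_of_check (c := ⟨74, ⟨1, 1, 2, 2⟩⟩) (by decide +kernel)

def tC82A_c10 : PosD ⟨⟨0, 1, 1⟩, ⟨98, 99, 147⟩, ⟨8514, 8886, 30000⟩, ⟨1467, 1599, 1000⟩⟩ (tC82A.hC1 false) :=
  posD_of_check (c := ⟨281, ⟨3, 5, 9, 7⟩⟩) (by decide +kernel)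

def tC82A_c1h0 : PosD ⟨⟨0, 1, 1⟩, ⟨98, 99, 147⟩, ⟨8514, 8886, 30000⟩, ⟨1467, 1599, 1000⟩⟩ (tC82A.hC1' false) :=
  posD_of_check (c := ⟨281, ⟨3, 5, 9, 7⟩⟩) (by decide +kernel)

def tC82A_tg00 : PosD ⟨⟨0, 1, 1⟩, ⟨98, 99, 147⟩, ⟨8514, 8886, 30000⟩, ⟨1467, 1599, 1000⟩⟩ (tC82A.hG false (tC82A.pEnd false)) :=
  posD_of_check (c := ⟨393, ⟨2, 7, 14, 9⟩⟩) (by decide +kernel)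

def tC82A_c2p00 : PosD ⟨⟨0, 1, 1⟩, ⟨98, 99, 147⟩, ⟨8514, 8886, 30000⟩, ⟨1467, 1599, 1000⟩⟩ (tC82A.hC2p false (tC82A.pEnd false)) :=
  posD_of_check (c := ⟨467, ⟨3, 8, 16, 11⟩⟩) (by decide +kernel)

def tC82A_c2m00 : PosD ⟨⟨0, 1, 1⟩, ⟨98, 99, 147⟩, ⟨8514, 8886, 30000⟩, ⟨1467, 1599, 1000⟩⟩ (tC82A.hC2m false (tC82A.pEnd false)) :=
  posD_of_check (c := ⟨436, ⟨2, 7, 16, 10⟩⟩) (by decide +kernel)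

def tC82A_c3p00 : PosD ⟨⟨0, 1, 1⟩, ⟨98, 99, 147⟩, ⟨8514, 8886, 30000⟩, ⟨1467, 1599, 1000⟩⟩ (tC82A.hC3p false false) :=
  posD_of_check (c := ⟨453, ⟨3, 8, 15, 11⟩⟩) (by decide +kernel)

def tC82A_c3m00 : PosD ⟨⟨0, 1, 1⟩, ⟨98, 99, 147⟩, ⟨8514, 8886, 30000⟩, ⟨1467, 1599, 1000⟩⟩ (tC82A.hC3m false false) :=
  posD_of_check (c := ⟨428, ⟨3, 7, 15, 10⟩⟩) (by decide +kernel)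

def tC82A_c3ph00 : PosD ⟨⟨0, 1, 1⟩, ⟨98, 99, 147⟩, ⟨8514, 8886, 30000⟩, ⟨1467, 1599, 1000⟩⟩ (tC82A.hC3p' false false) :=
  posD_of_check (c := ⟨453, ⟨3, 8, 15, 11⟩⟩) (by decide +kernel)

def tC82A_c3mh00 : PosD ⟨⟨0, 1, 1⟩, ⟨98, 99, 147⟩, ⟨8514, 8886, 30000⟩, ⟨1467, 1599, 1000⟩⟩ (tC82A.hC3m' false false) :=
  posD_of_check (c := ⟨428, ⟨3, 7, 15, 10⟩⟩) (by decide +kernel)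

def tC82A_up00 : PosD ⟨⟨0, 1, 1⟩, ⟨98, 99, 147⟩, ⟨8514, 8886, 30000⟩, ⟨1467, 1599, 1000⟩⟩ (tC82A.hUp false false) :=
  posD_of_check (c := ⟨451, ⟨3, 8, 15, 11⟩⟩) (by decide +kernel)

def tC82A_um00 : PosD ⟨⟨0, 1, 1⟩, ⟨98, 99, 147⟩, ⟨8514, 8886, 30000⟩, ⟨1467, 1599, 1000⟩⟩ (tC82A.hUm false false) :=
  posD_of_check (c := ⟨423, ⟨2, 7, 15, 10⟩⟩) (by decide +kernel)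

def tC82A_tmg00 : PosD ⟨⟨0, 1, 1⟩, ⟨98, 99, 147⟩, ⟨8514, 8886, 30000⟩, ⟨1467, 1599, 1000⟩⟩ (tC82A.hTMG false (tC82A.pEnd false)) :=
  posD_of_check (c := ⟨406, ⟨2, 7, 14, 10⟩⟩) (by decide +kernel)

def tC82A_tg01 : PosD ⟨⟨0, 1, 1⟩, ⟨98, 99, 147⟩, ⟨8514, 8886, 30000⟩, ⟨1467, 1599, 1000⟩⟩ (tC82A.hG true (tC82A.pEnd false)) :=
  posD_of_check (c := ⟨393, ⟨2, 7, 14, 9⟩⟩) (by decide +kernel)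

def tC82A_c2p01 : PosD ⟨⟨0, 1, 1⟩, ⟨98, 99, 147⟩, ⟨8514, 8886, 30000⟩, ⟨1467, 1599, 1000⟩⟩ (tC82A.hC2p true (tC82A.pEnd false)) :=
  posD_of_check (c := ⟨467, ⟨3, 8, 16, 11⟩⟩) (by decide +kernel)

def tC82A_c2m01 : PosD ⟨⟨0, 1, 1⟩, ⟨98, 99, 147⟩, ⟨8514, 8886, 30000⟩, ⟨1467, 1599, 1000⟩⟩ (tC82A.hC2m true (tC82A.pEnd false)) :=
  posD_of_check (c := ⟨436, ⟨2, 7, 16, 10⟩⟩) (by decide +kernel)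

def tC82A_c3p01 : PosD ⟨⟨0, 1, 1⟩, ⟨98, 99, 147⟩, ⟨8514, 8886, 30000⟩, ⟨1467, 1599, 1000⟩⟩ (tC82A.hC3p false true) :=
  posD_of_check (c := ⟨453, ⟨3, 8, 15, 11⟩⟩) (by decide +kernel)

def tC82A_c3m01 : PosD ⟨⟨0, 1, 1⟩, ⟨98, 99, 147⟩, ⟨8514, 8886, 30000⟩, ⟨1467, 1599, 1000⟩⟩ (tC82A.hC3m false true) :=
  posD_of_check (c := ⟨428, ⟨3, 7, 15, 10⟩⟩) (by decide +kernel)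

def tC82A_c3ph01 : PosD ⟨⟨0, 1, 1⟩, ⟨98, 99, 147⟩, ⟨8514, 8886, 30000⟩, ⟨1467, 1599, 1000⟩⟩ (tC82A.hC3p' false true) :=
  posD_of_check (c := ⟨453, ⟨3, 8, 15, 11⟩⟩) (by decide +kernel)

def tC82A_c3mh01 : PosD ⟨⟨0, 1, 1⟩, ⟨98, 99, 147⟩, ⟨8514, 8886, 30000⟩, ⟨1467, 1599, 1000⟩⟩ (tC82A.hC3m' false true) :=
  posD_of_check (c := ⟨428, ⟨3, 7, 15, 10⟩⟩) (by decide +kernel)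

def tC82A_up01 : PosD ⟨⟨0, 1, 1⟩, ⟨98, 99, 147⟩, ⟨8514, 8886, 30000⟩, ⟨1467, 1599, 1000⟩⟩ (tC82A.hUp false true) :=
  posD_of_check (c := ⟨452, ⟨3, 8, 15, 11⟩⟩) (by decide +kernel)

def tC82A_um01 : PosD ⟨⟨0, 1, 1⟩, ⟨98, 99, 147⟩, ⟨8514, 8886, 30000⟩, ⟨1467, 1599, 1000⟩⟩ (tC82A.hUm false true) :=
  posD_of_check (c := ⟨423, ⟨2, 7, 15, 10⟩⟩) (by decide +kernel)

def tC82A_tmg01 : PosD ⟨⟨0, 1, 1⟩, ⟨98, 99, 147⟩, ⟨8514, 8886, 30000⟩, ⟨1467, 1599, 1000⟩⟩ (tC82A.hTMG true (tC82A.pEnd false)) :=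
  posD_of_check (c := ⟨406, ⟨2, 7, 14, 10⟩⟩) (by decide +kernel)

def tC82A_kap1 : PosD ⟨⟨0, 1, 1⟩, ⟨98, 99, 147⟩, ⟨8514, 8886, 30000⟩, ⟨1467, 1599, 1000⟩⟩ (tC82A.kap true) :=
  posD_of_check (c := ⟨74, ⟨1, 1, 2, 2⟩⟩) (by decide +kernel)

def tC82A_c11 : PosD ⟨⟨0, 1, 1⟩, ⟨98, 99, 147⟩, ⟨8514, 8886, 30000⟩, ⟨1467, 1599, 1000⟩⟩ (tC82A.hC1 true) :=
  posD_of_check (c := ⟨282, ⟨3, 5, 9, 7⟩⟩) (by decide +kernel)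

def tC82A_c1h1 : PosD ⟨⟨0, 1, 1⟩, ⟨98, 99, 147⟩, ⟨8514, 8886, 30000⟩, ⟨1467, 1599, 1000⟩⟩ (tC82A.hC1' true) :=
  posD_of_check (c := ⟨282, ⟨3, 5, 9, 7⟩⟩) (by decide +kernel)

def tC82A_tg10 : PosD ⟨⟨0, 1, 1⟩, ⟨98, 99, 147⟩, ⟨8514, 8886, 30000⟩, ⟨1467, 1599, 1000⟩⟩ (tC82A.hG false (tC82A.pEnd true)) :=
  posD_of_check (c := ⟨394, ⟨2, 7, 14, 9⟩⟩) (by decide +kernel)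

def tC82A_c2p10 : PosD ⟨⟨0, 1, 1⟩, ⟨98, 99, 147⟩, ⟨8514, 8886, 30000⟩, ⟨1467, 1599, 1000⟩⟩ (tC82A.hC2p false (tC82A.pEnd true)) :=
  posD_of_check (c := ⟨468, ⟨3, 8, 16, 11⟩⟩) (by decide +kernel)

def tC82A_c2m10 : PosD ⟨⟨0, 1, 1⟩, ⟨98, 99, 147⟩, ⟨8514, 8886, 30000⟩, ⟨1467, 1599, 1000⟩⟩ (tC82A.hC2m false (tC82A.pEnd true)) :=
  posD_of_check (c := ⟨437, ⟨2, 7, 16, 10⟩⟩) (by decide +kernel)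

def tC82A_c3p10 : PosD ⟨⟨0, 1, 1⟩, ⟨98, 99, 147⟩, ⟨8514, 8886, 30000⟩, ⟨1467, 1599, 1000⟩⟩ (tC82A.hC3p true false) :=
  posD_of_check (c := ⟨454, ⟨3, 8, 15, 11⟩⟩) (by decide +kernel)

def tC82A_c3m10 : PosD ⟨⟨0, 1, 1⟩, ⟨98, 99, 147⟩, ⟨8514, 8886, 30000⟩, ⟨1467, 1599, 1000⟩⟩ (tC82A.hC3m true false) :=
  posD_of_check (c := ⟨429, ⟨3, 7, 15, 10⟩⟩) (by decide +kernel)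

def tC82A_c3ph10 : PosD ⟨⟨0, 1, 1⟩, ⟨98, 99, 147⟩, ⟨8514, 8886, 30000⟩, ⟨1467, 1599, 1000⟩⟩ (tC82A.hC3p' true false) :=
  posD_of_check (c := ⟨454, ⟨3, 8, 15, 11⟩⟩) (by decide +kernel)

def tC82A_c3mh10 : PosD ⟨⟨0, 1, 1⟩, ⟨98, 99, 147⟩, ⟨8514, 8886, 30000⟩, ⟨1467, 1599, 1000⟩⟩ (tC82A.hC3m' true false) :=
  posD_of_check (c := ⟨429, ⟨3, 7, 15, 10⟩⟩) (by decide +kernel)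

def tC82A_up10 : PosD ⟨⟨0, 1, 1⟩, ⟨98, 99, 147⟩, ⟨8514, 8886, 30000⟩, ⟨1467, 1599, 1000⟩⟩ (tC82A.hUp true false) :=
  posD_of_check (c := ⟨453, ⟨3, 8, 15, 11⟩⟩) (by decide +kernel)

def tC82A_um10 : PosD ⟨⟨0, 1, 1⟩, ⟨98, 99, 147⟩, ⟨8514, 8886, 30000⟩, ⟨1467, 1599, 1000⟩⟩ (tC82A.hUm true false) :=
  posD_of_check (c := ⟨424, ⟨2, 7, 15, 10⟩⟩) (by decide +kernel)

def tC82A_tmg10 : PosD ⟨⟨0, 1, 1⟩, ⟨98, 99, 147⟩, ⟨8514, 8886, 30000⟩, ⟨1467, 1599, 1000⟩⟩ (tC82A.hTMG false (tC82A.pEnd true)) :=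
  posD_of_check (c := ⟨407, ⟨2, 7, 14, 10⟩⟩) (by decide +kernel)

def tC82A_tg11 : PosD ⟨⟨0, 1, 1⟩, ⟨98, 99, 147⟩, ⟨8514, 8886, 30000⟩, ⟨1467, 1599, 1000⟩⟩ (tC82A.hG true (tC82A.pEnd true)) :=
  posD_of_check (c := ⟨394, ⟨2, 7, 14, 9⟩⟩) (by decide +kernel)

def tC82A_c2p11 : PosD ⟨⟨0, 1, 1⟩, ⟨98, 99, 147⟩, ⟨8514, 8886, 30000⟩, ⟨1467, 1599, 1000⟩⟩ (tC82A.hC2p true (tC82A.pEnd true)) :=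
  posD_of_check (c := ⟨468, ⟨3, 8, 16, 11⟩⟩) (by decide +kernel)

def tC82A_c2m11 : PosD ⟨⟨0, 1, 1⟩, ⟨98, 99, 147⟩, ⟨8514, 8886, 30000⟩, ⟨1467, 1599, 1000⟩⟩ (tC82A.hC2m true (tC82A.pEnd true)) :=
  posD_of_check (c := ⟨437, ⟨2, 7, 16, 10⟩⟩) (by decide +kernel)

def tC82A_c3p11 : PosD ⟨⟨0, 1, 1⟩, ⟨98, 99, 147⟩, ⟨8514, 8886, 30000⟩, ⟨1467, 1599, 1000⟩⟩ (tC82A.hC3p true true) :=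
  posD_of_check (c := ⟨454, ⟨3, 8, 15, 11⟩⟩) (by decide +kernel)

def tC82A_c3m11 : PosD ⟨⟨0, 1, 1⟩, ⟨98, 99, 147⟩, ⟨8514, 8886, 30000⟩, ⟨1467, 1599, 1000⟩⟩ (tC82A.hC3m true true) :=
  posD_of_check (c := ⟨429, ⟨3, 7, 15, 10⟩⟩) (by decide +kernel)

def tC82A_c3ph11 : PosD ⟨⟨0, 1, 1⟩, ⟨98, 99, 147⟩, ⟨8514, 8886, 30000⟩, ⟨1467, 1599, 1000⟩⟩ (tC82A.hC3p' true true) :=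
  posD_of_check (c := ⟨454, ⟨3, 8, 15, 11⟩⟩) (by decide +kernel)

def tC82A_c3mh11 : PosD ⟨⟨0, 1, 1⟩, ⟨98, 99, 147⟩, ⟨8514, 8886, 30000⟩, ⟨1467, 1599, 1000⟩⟩ (tC82A.hC3m' true true) :=
  posD_of_check (c := ⟨429, ⟨3, 7, 15, 10⟩⟩) (by decide +kernel)

def tC82A_up11 : PosD ⟨⟨0, 1, 1⟩, ⟨98, 99, 147⟩, ⟨8514, 8886, 30000⟩, ⟨1467, 1599, 1000⟩⟩ (tC82A.hUp true true) :=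
  posD_of_check (c := ⟨453, ⟨3, 8, 15, 11⟩⟩) (by decide +kernel)

def tC82A_um11 : PosD ⟨⟨0, 1, 1⟩, ⟨98, 99, 147⟩, ⟨8514, 8886, 30000⟩, ⟨1467, 1599, 1000⟩⟩ (tC82A.hUm true true) :=
  posD_of_check (c := ⟨424, ⟨2, 7, 15, 10⟩⟩) (by decide +kernel)

def tC82A_tmg11 : PosD ⟨⟨0, 1, 1⟩, ⟨98, 99, 147⟩, ⟨8514, 8886, 30000⟩, ⟨1467, 1599, 1000⟩⟩ (tC82A.hTMG true (tC82A.pEnd true)) :=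
  posD_of_check (c := ⟨407, ⟨2, 7, 14, 10⟩⟩) (by decide +kernel)

/-- The signs of the piece. -/
def tC82A_sign : tC82A.Sign ⟨⟨0, 1, 1⟩, ⟨98, 99, 147⟩, ⟨8514, 8886, 30000⟩, ⟨1467, 1599, 1000⟩⟩ :=
  ⟨tC82A_pp,
    tC82A_k2p,
    tC82A_k2m,
    Bool.forall_bool.2 ⟨(Bool.forall_bool.2 ⟨tC82A_tg00, tC82A_tg01⟩), (Bool.forall_bool.2 ⟨tC82A_tg10, tC82A_tg11⟩)⟩,
    Bool.forall_bool.2 ⟨(Bool.forall_bool.2 ⟨tC82A_c2p00, tC82A_c2p01⟩), (Bool.forall_bool.2 ⟨tC82A_c2p10, tC82A_c2p11⟩)⟩,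
    Bool.forall_bool.2 ⟨(Bool.forall_bool.2 ⟨tC82A_c2m00, tC82A_c2m01⟩), (Bool.forall_bool.2 ⟨tC82A_c2m10, tC82A_c2m11⟩)⟩,
    Bool.forall_bool.2 ⟨tC82A_kap0, tC82A_kap1⟩,
    Bool.forall_bool.2 ⟨tC82A_c10, tC82A_c11⟩,
    Bool.forall_bool.2 ⟨(Bool.forall_bool.2 ⟨tC82A_c3p00, tC82A_c3p01⟩), (Bool.forall_bool.2 ⟨tC82A_c3p10, tC82A_c3p11⟩)⟩,
    Bool.forall_bool.2 ⟨(Bool.forall_bool.2 ⟨tC82A_c3m00, tC82A_c3m01⟩), (Bool.forall_bool.2 ⟨tC82A_c3m10, tC82A_c3m11⟩)⟩,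
    Bool.forall_bool.2 ⟨(Bool.forall_bool.2 ⟨tC82A_tmg00, tC82A_tmg01⟩), (Bool.forall_bool.2 ⟨tC82A_tmg10, tC82A_tmg11⟩)⟩,
    .inr (Bool.forall_bool.2 ⟨⟨tC82A_c1h0, Bool.forall_bool.2 ⟨⟨tC82A_c3ph00, tC82A_c3mh00, tC82A_up00, tC82A_um00⟩, ⟨tC82A_c3ph01, tC82A_c3mh01, tC82A_up01, tC82A_um01⟩⟩⟩, ⟨tC82A_c1h1, Bool.forall_bool.2 ⟨⟨tC82A_c3ph10, tC82A_c3mh10, tC82A_up10, tC82A_um10⟩, ⟨tC82A_c3ph11, tC82A_c3mh11, tC82A_up11, tC82A_um11⟩⟩⟩⟩),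
    tC82A_v2p,
    tC82A_v2m,
    tC82A_v3p,
    tC82A_v3m,
    posD_sub (b := ⟨⟨0, 1, 1⟩, ⟨98, 99, 147⟩, ⟨4050, 10000, 30000⟩, ⟨290, 4000, 1000⟩⟩) (by decide +kernel) tC_vG,
    posD_sub (b := ⟨⟨0, 1, 1⟩, ⟨98, 99, 147⟩, ⟨4050, 10000, 30000⟩, ⟨290, 4000, 1000⟩⟩) (by decide +kernel) tC_vMG,
    posD_sub (b := ⟨⟨0, 1, 1⟩, ⟨98, 99, 147⟩, ⟨4050, 10000, 30000⟩, ⟨290, 4000, 1000⟩⟩) (by decide +kernel) tC_ak,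
    posD_sub (b := ⟨⟨0, 1, 1⟩, ⟨98, 99, 147⟩, ⟨4050, 10000, 30000⟩, ⟨290, 4000, 1000⟩⟩) (by decide +kernel) tC_aw,
    posD_sub (b := ⟨⟨0, 1, 1⟩, ⟨98, 99, 147⟩, ⟨4050, 10000, 30000⟩, ⟨290, 4000, 1000⟩⟩) (by decide +kernel) tC_gk,
    posD_sub (b := ⟨⟨0, 1, 1⟩, ⟨98, 99, 147⟩, ⟨4050, 10000, 30000⟩, ⟨290, 4000, 1000⟩⟩) (by decide +kernel) tC_gw,
    posD_sub (b := ⟨⟨0, 1, 1⟩, ⟨98, 99, 147⟩, ⟨4050, 10000, 30000⟩, ⟨290, 4000, 1000⟩⟩) (by decide +kernel) tC_ek,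
    posD_sub (b := ⟨⟨0, 1, 1⟩, ⟨98, 99, 147⟩, ⟨4050, 10000, 30000⟩, ⟨290, 4000, 1000⟩⟩) (by decide +kernel) tC_ew⟩

def tC82B_pp : PosD ⟨⟨0, 1, 1⟩, ⟨98, 99, 147⟩, ⟨8514, 8886, 30000⟩, ⟨1467, 1599, 1000⟩⟩ (tC82B.xPL) :=
  posD_of_check (c := ⟨97, ⟨1, 1, 3, 3⟩⟩) (by decide +kernel)

def tC82B_k2p : PosD ⟨⟨0, 1, 1⟩, ⟨98, 99, 147⟩, ⟨8514, 8886, 30000⟩, ⟨1467, 1599, 1000⟩⟩ (tC82B.k2p tC82B.xE) :=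
  posD_of_check (c := ⟨73, ⟨1, 1, 2, 2⟩⟩) (by decide +kernel)

def tC82B_k2m : PosD ⟨⟨0, 1, 1⟩, ⟨98, 99, 147⟩, ⟨8514, 8886, 30000⟩, ⟨1467, 1599, 1000⟩⟩ (tC82B.k2m tC82B.xE) :=
  posD_of_check (c := ⟨31, ⟨0, 0, 1, 1⟩⟩) (by decide +kernel)

def tC82B_v2p : PosD ⟨⟨0, 1, 1⟩, ⟨98, 99, 147⟩, ⟨8514, 8886, 30000⟩, ⟨1467, 1599, 1000⟩⟩ (tC82B.hV2p) :=
  posD_of_check (c := ⟨274, ⟨1, 6, 10, 5⟩⟩) (by decide +kernel)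

def tC82B_v2m : PosD ⟨⟨0, 1, 1⟩, ⟨98, 99, 147⟩, ⟨8514, 8886, 30000⟩, ⟨1467, 1599, 1000⟩⟩ (tC82B.hV2m) :=
  posD_of_check (c := ⟨245, ⟨0, 5, 10, 4⟩⟩) (by decide +kernel)

def tC82B_v3p : PosD ⟨⟨0, 1, 1⟩, ⟨98, 99, 147⟩, ⟨8514, 8886, 30000⟩, ⟨1467, 1599, 1000⟩⟩ (tC82B.hV3p) :=
  posD_of_check (c := ⟨259, ⟨1, 6, 9, 5⟩⟩) (by decide +kernel)

def tC82B_v3m : PosD ⟨⟨0, 1, 1⟩, ⟨98, 99, 147⟩, ⟨8514, 8886, 30000⟩, ⟨1467, 1599, 1000⟩⟩ (tC82B.hV3m) :=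
  posD_of_check (c := ⟨232, ⟨0, 5, 9, 4⟩⟩) (by decide +kernel)

def tC82B_kap0 : PosD ⟨⟨0, 1, 1⟩, ⟨98, 99, 147⟩, ⟨8514, 8886, 30000⟩, ⟨1467, 1599, 1000⟩⟩ (tC82B.kap false) :=
  posD_of_check (c := ⟨71, ⟨1, 1, 2, 2⟩⟩) (by decide +kernel)

def tC82B_c10 : PosD ⟨⟨0, 1, 1⟩, ⟨98, 99, 147⟩, ⟨8514, 8886, 30000⟩, ⟨1467, 1599, 1000⟩⟩ (tC82B.hC1 false) :=
  posD_of_check (c := ⟨275, ⟨3, 5, 9, 7⟩⟩) (by decide +kernel)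

def tC82B_c1h0 : PosD ⟨⟨0, 1, 1⟩, ⟨98, 99, 147⟩, ⟨8514, 8886, 30000⟩, ⟨1467, 1599, 1000⟩⟩ (tC82B.hC1' false) :=
  posD_of_check (c := ⟨275, ⟨3, 5, 9, 7⟩⟩) (by decide +kernel)

def tC82B_tg00 : PosD ⟨⟨0, 1, 1⟩, ⟨98, 99, 147⟩, ⟨8514, 8886, 30000⟩, ⟨1467, 1599, 1000⟩⟩ (tC82B.hG false (tC82B.pEnd false)) :=
  posD_of_check (c := ⟨390, ⟨2, 7, 14, 9⟩⟩) (by decide +kernel)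

def tC82B_c2p00 : PosD ⟨⟨0, 1, 1⟩, ⟨98, 99, 147⟩, ⟨8514, 8886, 30000⟩, ⟨1467, 1599, 1000⟩⟩ (tC82B.hC2p false (tC82B.pEnd false)) :=
  posD_of_check (c := ⟨463, ⟨3, 8, 16, 11⟩⟩) (by decide +kernel)

def tC82B_c2m00 : PosD ⟨⟨0, 1, 1⟩, ⟨98, 99, 147⟩, ⟨8514, 8886, 30000⟩, ⟨1467, 1599, 1000⟩⟩ (tC82B.hC2m false (tC82B.pEnd false)) :=
  posD_of_check (c := ⟨433, ⟨2, 7, 16, 10⟩⟩) (by decide +kernel)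

def tC82B_c3p00 : PosD ⟨⟨0, 1, 1⟩, ⟨98, 99, 147⟩, ⟨8514, 8886, 30000⟩, ⟨1467, 1599, 1000⟩⟩ (tC82B.hC3p false false) :=
  posD_of_check (c := ⟨448, ⟨3, 8, 15, 11⟩⟩) (by decide +kernel)

def tC82B_c3m00 : PosD ⟨⟨0, 1, 1⟩, ⟨98, 99, 147⟩, ⟨8514, 8886, 30000⟩, ⟨1467, 1599, 1000⟩⟩ (tC82B.hC3m false false) :=
  posD_of_check (c := ⟨423, ⟨3, 7, 15, 10⟩⟩) (by decide +kernel)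

def tC82B_c3ph00 : PosD ⟨⟨0, 1, 1⟩, ⟨98, 99, 147⟩, ⟨8514, 8886, 30000⟩, ⟨1467, 1599, 1000⟩⟩ (tC82B.hC3p' false false) :=
  posD_of_check (c := ⟨448, ⟨3, 8, 15, 11⟩⟩) (by decide +kernel)

def tC82B_c3mh00 : PosD ⟨⟨0, 1, 1⟩, ⟨98, 99, 147⟩, ⟨8514, 8886, 30000⟩, ⟨1467, 1599, 1000⟩⟩ (tC82B.hC3m' false false) :=
  posD_of_check (c := ⟨423, ⟨3, 7, 15, 10⟩⟩) (by decide +kernel)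

def tC82B_up00 : PosD ⟨⟨0, 1, 1⟩, ⟨98, 99, 147⟩, ⟨8514, 8886, 30000⟩, ⟨1467, 1599, 1000⟩⟩ (tC82B.hUp false false) :=
  posD_of_check (c := ⟨448, ⟨3, 8, 15, 11⟩⟩) (by decide +kernel)

def tC82B_um00 : PosD ⟨⟨0, 1, 1⟩, ⟨98, 99, 147⟩, ⟨8514, 8886, 30000⟩, ⟨1467, 1599, 1000⟩⟩ (tC82B.hUm false false) :=
  posD_of_check (c := ⟨421, ⟨2, 7, 15, 10⟩⟩) (by decide +kernel)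

def tC82B_tmg00 : PosD ⟨⟨0, 1, 1⟩, ⟨98, 99, 147⟩, ⟨8514, 8886, 30000⟩, ⟨1467, 1599, 1000⟩⟩ (tC82B.hTMG false (tC82B.pEnd false)) :=
  posD_of_check (c := ⟨404, ⟨2, 7, 14, 10⟩⟩) (by decide +kernel)

def tC82B_tg01 : PosD ⟨⟨0, 1, 1⟩, ⟨98, 99, 147⟩, ⟨8514, 8886, 30000⟩, ⟨1467, 1599, 1000⟩⟩ (tC82B.hG true (tC82B.pEnd false)) :=
  posD_of_check (c := ⟨390, ⟨2, 7, 14, 9⟩⟩) (by decide +kernel)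

def tC82B_c2p01 : PosD ⟨⟨0, 1, 1⟩, ⟨98, 99, 147⟩, ⟨8514, 8886, 30000⟩, ⟨1467, 1599, 1000⟩⟩ (tC82B.hC2p true (tC82B.pEnd false)) :=
  posD_of_check (c := ⟨463, ⟨3, 8, 16, 11⟩⟩) (by decide +kernel)

def tC82B_c2m01 : PosD ⟨⟨0, 1, 1⟩, ⟨98, 99, 147⟩, ⟨8514, 8886, 30000⟩, ⟨1467, 1599, 1000⟩⟩ (tC82B.hC2m true (tC82B.pEnd false)) :=
  posD_of_check (c := ⟨433, ⟨2, 7, 16, 10⟩⟩) (by decide +kernel)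

def tC82B_c3p01 : PosD ⟨⟨0, 1, 1⟩, ⟨98, 99, 147⟩, ⟨8514, 8886, 30000⟩, ⟨1467, 1599, 1000⟩⟩ (tC82B.hC3p false true) :=
  posD_of_check (c := ⟨448, ⟨3, 8, 15, 11⟩⟩) (by decide +kernel)

def tC82B_c3m01 : PosD ⟨⟨0, 1, 1⟩, ⟨98, 99, 147⟩, ⟨8514, 8886, 30000⟩, ⟨1467, 1599, 1000⟩⟩ (tC82B.hC3m false true) :=
  posD_of_check (c := ⟨423, ⟨3, 7, 15, 10⟩⟩) (by decide +kernel)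

def tC82B_c3ph01 : PosD ⟨⟨0, 1, 1⟩, ⟨98, 99, 147⟩, ⟨8514, 8886, 30000⟩, ⟨1467, 1599, 1000⟩⟩ (tC82B.hC3p' false true) :=
  posD_of_check (c := ⟨448, ⟨3, 8, 15, 11⟩⟩) (by decide +kernel)

def tC82B_c3mh01 : PosD ⟨⟨0, 1, 1⟩, ⟨98, 99, 147⟩, ⟨8514, 8886, 30000⟩, ⟨1467, 1599, 1000⟩⟩ (tC82B.hC3m' false true) :=
  posD_of_check (c := ⟨423, ⟨3, 7, 15, 10⟩⟩) (by decide +kernel)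

def tC82B_up01 : PosD ⟨⟨0, 1, 1⟩, ⟨98, 99, 147⟩, ⟨8514, 8886, 30000⟩, ⟨1467, 1599, 1000⟩⟩ (tC82B.hUp false true) :=
  posD_of_check (c := ⟨448, ⟨3, 8, 15, 11⟩⟩) (by decide +kernel)

def tC82B_um01 : PosD ⟨⟨0, 1, 1⟩, ⟨98, 99, 147⟩, ⟨8514, 8886, 30000⟩, ⟨1467, 1599, 1000⟩⟩ (tC82B.hUm false true) :=
  posD_of_check (c := ⟨421, ⟨2, 7, 15, 10⟩⟩) (by decide +kernel)

def tC82B_tmg01 : PosD ⟨⟨0, 1, 1⟩, ⟨98, 99, 147⟩, ⟨8514, 8886, 30000⟩, ⟨1467, 1599, 1000⟩⟩ (tC82B.hTMG true (tC82B.pEnd false)) :=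
  posD_of_check (c := ⟨404, ⟨2, 7, 14, 10⟩⟩) (by decide +kernel)

def tC82B_kap1 : PosD ⟨⟨0, 1, 1⟩, ⟨98, 99, 147⟩, ⟨8514, 8886, 30000⟩, ⟨1467, 1599, 1000⟩⟩ (tC82B.kap true) :=
  posD_of_check (c := ⟨71, ⟨1, 1, 2, 2⟩⟩) (by decide +kernel)

def tC82B_c11 : PosD ⟨⟨0, 1, 1⟩, ⟨98, 99, 147⟩, ⟨8514, 8886, 30000⟩, ⟨1467, 1599, 1000⟩⟩ (tC82B.hC1 true) :=
  posD_of_check (c := ⟨274, ⟨3, 5, 9, 7⟩⟩) (by decide +kernel)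

def tC82B_c1h1 : PosD ⟨⟨0, 1, 1⟩, ⟨98, 99, 147⟩, ⟨8514, 8886, 30000⟩, ⟨1467, 1599, 1000⟩⟩ (tC82B.hC1' true) :=
  posD_of_check (c := ⟨274, ⟨3, 5, 9, 7⟩⟩) (by decide +kernel)

def tC82B_tg10 : PosD ⟨⟨0, 1, 1⟩, ⟨98, 99, 147⟩, ⟨8514, 8886, 30000⟩, ⟨1467, 1599, 1000⟩⟩ (tC82B.hG false (tC82B.pEnd true)) :=
  posD_of_check (c := ⟨388, ⟨2, 7, 14, 9⟩⟩) (by decide +kernel)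

def tC82B_c2p10 : PosD ⟨⟨0, 1, 1⟩, ⟨98, 99, 147⟩, ⟨8514, 8886, 30000⟩, ⟨1467, 1599, 1000⟩⟩ (tC82B.hC2p false (tC82B.pEnd true)) :=
  posD_of_check (c := ⟨460, ⟨3, 8, 16, 11⟩⟩) (by decide +kernel)

def tC82B_c2m10 : PosD ⟨⟨0, 1, 1⟩, ⟨98, 99, 147⟩, ⟨8514, 8886, 30000⟩, ⟨1467, 1599, 1000⟩⟩ (tC82B.hC2m false (tC82B.pEnd true)) :=
  posD_of_check (c := ⟨431, ⟨2, 7, 16, 10⟩⟩) (by decide +kernel)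

def tC82B_c3p10 : PosD ⟨⟨0, 1, 1⟩, ⟨98, 99, 147⟩, ⟨8514, 8886, 30000⟩, ⟨1467, 1599, 1000⟩⟩ (tC82B.hC3p true false) :=
  posD_of_check (c := ⟨446, ⟨3, 8, 15, 11⟩⟩) (by decide +kernel)

def tC82B_c3m10 : PosD ⟨⟨0, 1, 1⟩, ⟨98, 99, 147⟩, ⟨8514, 8886, 30000⟩, ⟨1467, 1599, 1000⟩⟩ (tC82B.hC3m true false) :=
  posD_of_check (c := ⟨422, ⟨3, 7, 15, 10⟩⟩) (by decide +kernel)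

def tC82B_c3ph10 : PosD ⟨⟨0, 1, 1⟩, ⟨98, 99, 147⟩, ⟨8514, 8886, 30000⟩, ⟨1467, 1599, 1000⟩⟩ (tC82B.hC3p' true false) :=
  posD_of_check (c := ⟨446, ⟨3, 8, 15, 11⟩⟩) (by decide +kernel)

def tC82B_c3mh10 : PosD ⟨⟨0, 1, 1⟩, ⟨98, 99, 147⟩, ⟨8514, 8886, 30000⟩, ⟨1467, 1599, 1000⟩⟩ (tC82B.hC3m' true false) :=
  posD_of_check (c := ⟨421, ⟨3, 7, 15, 10⟩⟩) (by decide +kernel)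

def tC82B_up10 : PosD ⟨⟨0, 1, 1⟩, ⟨98, 99, 147⟩, ⟨8514, 8886, 30000⟩, ⟨1467, 1599, 1000⟩⟩ (tC82B.hUp true false) :=
  posD_of_check (c := ⟨445, ⟨3, 8, 15, 11⟩⟩) (by decide +kernel)

def tC82B_um10 : PosD ⟨⟨0, 1, 1⟩, ⟨98, 99, 147⟩, ⟨8514, 8886, 30000⟩, ⟨1467, 1599, 1000⟩⟩ (tC82B.hUm true false) :=
  posD_of_check (c := ⟨418, ⟨2, 7, 15, 10⟩⟩) (by decide +kernel)

def tC82B_tmg10 : PosD ⟨⟨0, 1, 1⟩, ⟨98, 99, 147⟩, ⟨8514, 8886, 30000⟩, ⟨1467, 1599, 1000⟩⟩ (tC82B.hTMG false (tC82B.pEnd true)) :=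
  posD_of_check (c := ⟨402, ⟨2, 7, 14, 10⟩⟩) (by decide +kernel)

def tC82B_tg11 : PosD ⟨⟨0, 1, 1⟩, ⟨98, 99, 147⟩, ⟨8514, 8886, 30000⟩, ⟨1467, 1599, 1000⟩⟩ (tC82B.hG true (tC82B.pEnd true)) :=
  posD_of_check (c := ⟨388, ⟨2, 7, 14, 9⟩⟩) (by decide +kernel)

def tC82B_c2p11 : PosD ⟨⟨0, 1, 1⟩, ⟨98, 99, 147⟩, ⟨8514, 8886, 30000⟩, ⟨1467, 1599, 1000⟩⟩ (tC82B.hC2p true (tC82B.pEnd true)) :=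
  posD_of_check (c := ⟨460, ⟨3, 8, 16, 11⟩⟩) (by decide +kernel)

def tC82B_c2m11 : PosD ⟨⟨0, 1, 1⟩, ⟨98, 99, 147⟩, ⟨8514, 8886, 30000⟩, ⟨1467, 1599, 1000⟩⟩ (tC82B.hC2m true (tC82B.pEnd true)) :=
  posD_of_check (c := ⟨431, ⟨2, 7, 16, 10⟩⟩) (by decide +kernel)

def tC82B_c3p11 : PosD ⟨⟨0, 1, 1⟩, ⟨98, 99, 147⟩, ⟨8514, 8886, 30000⟩, ⟨1467, 1599, 1000⟩⟩ (tC82B.hC3p true true) :=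
  posD_of_check (c := ⟨446, ⟨3, 8, 15, 11⟩⟩) (by decide +kernel)

def tC82B_c3m11 : PosD ⟨⟨0, 1, 1⟩, ⟨98, 99, 147⟩, ⟨8514, 8886, 30000⟩, ⟨1467, 1599, 1000⟩⟩ (tC82B.hC3m true true) :=
  posD_of_check (c := ⟨422, ⟨3, 7, 15, 10⟩⟩) (by decide +kernel)

def tC82B_c3ph11 : PosD ⟨⟨0, 1, 1⟩, ⟨98, 99, 147⟩, ⟨8514, 8886, 30000⟩, ⟨1467, 1599, 1000⟩⟩ (tC82B.hC3p' true true) :=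
  posD_of_check (c := ⟨446, ⟨3, 8, 15, 11⟩⟩) (by decide +kernel)

def tC82B_c3mh11 : PosD ⟨⟨0, 1, 1⟩, ⟨98, 99, 147⟩, ⟨8514, 8886, 30000⟩, ⟨1467, 1599, 1000⟩⟩ (tC82B.hC3m' true true) :=
  posD_of_check (c := ⟨421, ⟨3, 7, 15, 10⟩⟩) (by decide +kernel)

def tC82B_up11 : PosD ⟨⟨0, 1, 1⟩, ⟨98, 99, 147⟩, ⟨8514, 8886, 30000⟩, ⟨1467, 1599, 1000⟩⟩ (tC82B.hUp true true) :=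
  posD_of_check (c := ⟨446, ⟨3, 8, 15, 11⟩⟩) (by decide +kernel)

def tC82B_um11 : PosD ⟨⟨0, 1, 1⟩, ⟨98, 99, 147⟩, ⟨8514, 8886, 30000⟩, ⟨1467, 1599, 1000⟩⟩ (tC82B.hUm true true) :=
  posD_of_check (c := ⟨418, ⟨2, 7, 15, 10⟩⟩) (by decide +kernel)

def tC82B_tmg11 : PosD ⟨⟨0, 1, 1⟩, ⟨98, 99, 147⟩, ⟨8514, 8886, 30000⟩, ⟨1467, 1599, 1000⟩⟩ (tC82B.hTMG true (tC82B.pEnd true)) :=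
  posD_of_check (c := ⟨402, ⟨2, 7, 14, 10⟩⟩) (by decide +kernel)

/-- The signs of the piece. -/
def tC82B_sign : tC82B.Sign ⟨⟨0, 1, 1⟩, ⟨98, 99, 147⟩, ⟨8514, 8886, 30000⟩, ⟨1467, 1599, 1000⟩⟩ :=
  ⟨tC82B_pp,
    tC82B_k2p,
    tC82B_k2m,
    Bool.forall_bool.2 ⟨(Bool.forall_bool.2 ⟨tC82B_tg00, tC82B_tg01⟩), (Bool.forall_bool.2 ⟨tC82B_tg10, tC82B_tg11⟩)⟩,
    Bool.forall_bool.2 ⟨(Bool.forall_bool.2 ⟨tC82B_c2p00, tC82B_c2p01⟩), (Bool.forall_bool.2 ⟨tC82B_c2p10, tC82B_c2p11⟩)⟩,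
    Bool.forall_bool.2 ⟨(Bool.forall_bool.2 ⟨tC82B_c2m00, tC82B_c2m01⟩), (Bool.forall_bool.2 ⟨tC82B_c2m10, tC82B_c2m11⟩)⟩,
    Bool.forall_bool.2 ⟨tC82B_kap0, tC82B_kap1⟩,
    Bool.forall_bool.2 ⟨tC82B_c10, tC82B_c11⟩,
    Bool.forall_bool.2 ⟨(Bool.forall_bool.2 ⟨tC82B_c3p00, tC82B_c3p01⟩), (Bool.forall_bool.2 ⟨tC82B_c3p10, tC82B_c3p11⟩)⟩,
    Bool.forall_bool.2 ⟨(Bool.forall_bool.2 ⟨tC82B_c3m00, tC82B_c3m01⟩), (Bool.forall_bool.2 ⟨tC82B_c3m10, tC82B_c3m11⟩)⟩,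
    Bool.forall_bool.2 ⟨(Bool.forall_bool.2 ⟨tC82B_tmg00, tC82B_tmg01⟩), (Bool.forall_bool.2 ⟨tC82B_tmg10, tC82B_tmg11⟩)⟩,
    .inr (Bool.forall_bool.2 ⟨⟨tC82B_c1h0, Bool.forall_bool.2 ⟨⟨tC82B_c3ph00, tC82B_c3mh00, tC82B_up00, tC82B_um00⟩, ⟨tC82B_c3ph01, tC82B_c3mh01, tC82B_up01, tC82B_um01⟩⟩⟩, ⟨tC82B_c1h1, Bool.forall_bool.2 ⟨⟨tC82B_c3ph10, tC82B_c3mh10, tC82B_up10, tC82B_um10⟩, ⟨tC82B_c3ph11, tC82B_c3mh11, tC82B_up11, tC82B_um11⟩⟩⟩⟩),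
    tC82B_v2p,
    tC82B_v2m,
    tC82B_v3p,
    tC82B_v3m,
    posD_sub (b := ⟨⟨0, 1, 1⟩, ⟨98, 99, 147⟩, ⟨4050, 10000, 30000⟩, ⟨290, 4000, 1000⟩⟩) (by decide +kernel) tC_vG,
    posD_sub (b := ⟨⟨0, 1, 1⟩, ⟨98, 99, 147⟩, ⟨4050, 10000, 30000⟩, ⟨290, 4000, 1000⟩⟩) (by decide +kernel) tC_vMG,
    posD_sub (b := ⟨⟨0, 1, 1⟩, ⟨98, 99, 147⟩, ⟨4050, 10000, 30000⟩, ⟨290, 4000, 1000⟩⟩) (by decide +kernel) tC_ak,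
    posD_sub (b := ⟨⟨0, 1, 1⟩, ⟨98, 99, 147⟩, ⟨4050, 10000, 30000⟩, ⟨290, 4000, 1000⟩⟩) (by decide +kernel) tC_aw,
    posD_sub (b := ⟨⟨0, 1, 1⟩, ⟨98, 99, 147⟩, ⟨4050, 10000, 30000⟩, ⟨290, 4000, 1000⟩⟩) (by decide +kernel) tC_gk,
    posD_sub (b := ⟨⟨0, 1, 1⟩, ⟨98, 99, 147⟩, ⟨4050, 10000, 30000⟩, ⟨290, 4000, 1000⟩⟩) (by decide +kernel) tC_gw,
    posD_sub (b := ⟨⟨0, 1, 1⟩, ⟨98, 99, 147⟩, ⟨4050, 10000, 30000⟩, ⟨290, 4000, 1000⟩⟩) (by decide +kernel) tC_ek,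
    posD_sub (b := ⟨⟨0, 1, 1⟩, ⟨98, 99, 147⟩, ⟨4050, 10000, 30000⟩, ⟨290, 4000, 1000⟩⟩) (by decide +kernel) tC_ew⟩

end Vale.Agent.P100.Calib.Closed.Six.Tail
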