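import Vale.Agent.P100.Calib.SlabSixTailDataC
import Vale.Agent.P100.Calib.SlabSixTailGlobC

/-!
# Checks of some pieces of the certificate

The checks are written as definitions so that they run one after another, which keeps the memory of the
kernel low.
-/

set_option linter.defProp false

namespace Vale.Agent.P100.Calib.Closed.Six.Tail

open BoxPos Large

local instance sixTailCheckstC55Add : Add Ex := ⟨Ex.add⟩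
local instance sixTailCheckstC55Sub : Sub Ex := ⟨Ex.sub⟩
local instance sixTailCheckstC55Mul : Mul Ex := ⟨Ex.mul⟩

def tC83_phx : PosIf ⟨⟨0, 1, 1⟩, ⟨98, 99, 147⟩, ⟨8886, 9072, 30000⟩, ⟨1467, 1599, 1000⟩⟩ (tC83.u₁ - tC83Lo) (phCn (tC83.u₁ + xO * (tC83Lo - tC83.u₁))) :=
  posIf_of_posD (posD_of_check (c := ⟨109, ⟨2, 0, 4, 2⟩⟩) (by decide +kernel))

def tC83_phd : PosD ⟨⟨0, 1, 1⟩, ⟨98, 99, 147⟩, ⟨8886, 9072, 30000⟩, ⟨1467, 1599, 1000⟩⟩ (phCd (tC83.u₁ + xO * (tC83Lo - tC83.u₁))) :=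
  posD_of_check (c := ⟨51, ⟨1, 0, 2, 1⟩⟩) (by decide +kernel)

def tC83_p0 : PosD ⟨⟨0, 1, 1⟩, ⟨98, 99, 147⟩, ⟨8886, 9072, 30000⟩, ⟨1467, 1599, 1000⟩⟩ (tC83.hP0) :=
  posD_of_check (c := ⟨83, ⟨0, 2, 3, 1⟩⟩) (by decide +kernel)

def tC83_gn : PosD ⟨⟨0, 1, 1⟩, ⟨98, 99, 147⟩, ⟨8886, 9072, 30000⟩, ⟨1467, 1599, 1000⟩⟩ (tC83.hGn) :=
  posD_of_check (c := ⟨69, ⟨1, 1, 2, 2⟩⟩) (by decide +kernel)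

def tC83_den0 : PosD ⟨⟨0, 1, 1⟩, ⟨98, 99, 147⟩, ⟨8886, 9072, 30000⟩, ⟨1467, 1599, 1000⟩⟩ (tC83.hDen false) :=
  posD_of_check (c := ⟨51, ⟨1, 0, 2, 1⟩⟩) (by decide +kernel)

def tC83_den1 : PosD ⟨⟨0, 1, 1⟩, ⟨98, 99, 147⟩, ⟨8886, 9072, 30000⟩, ⟨1467, 1599, 1000⟩⟩ (tC83.hDen true) :=
  posD_of_check (c := ⟨180, ⟨3, 4, 6, 4⟩⟩) (by decide +kernel)

def tC83_ev0 : PosD ⟨⟨0, 1, 1⟩, ⟨98, 99, 147⟩, ⟨8886, 9072, 30000⟩, ⟨1467, 1599, 1000⟩⟩ (tC83.hEv false) :=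
  posD_of_check (c := ⟨220, ⟨4, 2, 8, 4⟩⟩) (by decide +kernel)

def tC83_zL0a : PosD ⟨⟨0, 1, 1⟩, ⟨98, 99, 147⟩, ⟨8886, 9072, 30000⟩, ⟨1467, 1533, 1000⟩⟩ (tC83.hZL false) :=
  posD_of_check (c := ⟨222, ⟨4, 3, 8, 4⟩⟩) (by decide +kernel)

def tC83_zL0ba : PosD ⟨⟨0, 1, 1⟩, ⟨98, 99, 147⟩, ⟨8886, 9072, 30000⟩, ⟨1533, 1566, 1000⟩⟩ (tC83.hZL false) :=
  posD_of_check (c := ⟨222, ⟨4, 3, 8, 4⟩⟩) (by decide +kernel)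

def tC83_zL0bb : PosD ⟨⟨0, 1, 1⟩, ⟨98, 99, 147⟩, ⟨8886, 9072, 30000⟩, ⟨1566, 1599, 1000⟩⟩ (tC83.hZL false) :=
  posD_of_check (c := ⟨222, ⟨4, 3, 8, 4⟩⟩) (by decide +kernel)

def tC83_zL0b : PosD ⟨⟨0, 1, 1⟩, ⟨98, 99, 147⟩, ⟨8886, 9072, 30000⟩, ⟨1533, 1599, 1000⟩⟩ (tC83.hZL false) :=
  posD_join₃ tC83_zL0ba tC83_zL0bb

def tC83_zL0 : PosD ⟨⟨0, 1, 1⟩, ⟨98, 99, 147⟩, ⟨8886, 9072, 30000⟩, ⟨1467, 1599, 1000⟩⟩ (tC83.hZL false) :=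
  posD_join₃ tC83_zL0a tC83_zL0b

def tC83_zU0aaa : PosD ⟨⟨0, 1, 1⟩, ⟨98, 99, 147⟩, ⟨8886, 9072, 30000⟩, ⟨1467, 1483, 1000⟩⟩ (tC83.hZU false) :=
  posD_of_check (c := ⟨222, ⟨4, 3, 8, 4⟩⟩) (by decide +kernel)

def tC83_zU0aab : PosD ⟨⟨0, 1, 1⟩, ⟨98, 99, 147⟩, ⟨8886, 9072, 30000⟩, ⟨1483, 1500, 1000⟩⟩ (tC83.hZU false) :=
  posD_of_check (c := ⟨222, ⟨4, 3, 8, 4⟩⟩) (by decide +kernel)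

def tC83_zU0aa : PosD ⟨⟨0, 1, 1⟩, ⟨98, 99, 147⟩, ⟨8886, 9072, 30000⟩, ⟨1467, 1500, 1000⟩⟩ (tC83.hZU false) :=
  posD_join₃ tC83_zU0aaa tC83_zU0aab

def tC83_zU0ab : PosD ⟨⟨0, 1, 1⟩, ⟨98, 99, 147⟩, ⟨8886, 9072, 30000⟩, ⟨1500, 1533, 1000⟩⟩ (tC83.hZU false) :=
  posD_of_check (c := ⟨222, ⟨4, 3, 8, 4⟩⟩) (by decide +kernel)

def tC83_zU0a : PosD ⟨⟨0, 1, 1⟩, ⟨98, 99, 147⟩, ⟨8886, 9072, 30000⟩, ⟨1467, 1533, 1000⟩⟩ (tC83.hZU false) :=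
  posD_join₃ tC83_zU0aa tC83_zU0ab

def tC83_zU0b : PosD ⟨⟨0, 1, 1⟩, ⟨98, 99, 147⟩, ⟨8886, 9072, 30000⟩, ⟨1533, 1599, 1000⟩⟩ (tC83.hZU false) :=
  posD_of_check (c := ⟨222, ⟨4, 3, 8, 4⟩⟩) (by decide +kernel)

def tC83_zU0 : PosD ⟨⟨0, 1, 1⟩, ⟨98, 99, 147⟩, ⟨8886, 9072, 30000⟩, ⟨1467, 1599, 1000⟩⟩ (tC83.hZU false) :=
  posD_join₃ tC83_zU0a tC83_zU0b

def tC83_eL0 : PosD ⟨⟨0, 1, 1⟩, ⟨98, 99, 147⟩, ⟨8886, 9072, 30000⟩, ⟨1467, 1599, 1000⟩⟩ (tC83.hEL false) :=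
  posD_of_check (c := ⟨317, ⟨5, 6, 11, 6⟩⟩) (by decide +kernel)

def tC83_eH0 : PosD ⟨⟨0, 1, 1⟩, ⟨98, 99, 147⟩, ⟨8886, 9072, 30000⟩, ⟨1467, 1599, 1000⟩⟩ (tC83.hEH false) :=
  posD_of_check (c := ⟨348, ⟨5, 6, 11, 7⟩⟩) (by decide +kernel)

def tC83_pL0 : PosD ⟨⟨0, 1, 1⟩, ⟨98, 99, 147⟩, ⟨8886, 9072, 30000⟩, ⟨1467, 1599, 1000⟩⟩ (tC83.hPL false) :=
  posD_of_check (c := ⟨343, ⟨5, 6, 11, 7⟩⟩) (by decide +kernel)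

def tC83_pU0 : PosD ⟨⟨0, 1, 1⟩, ⟨98, 99, 147⟩, ⟨8886, 9072, 30000⟩, ⟨1467, 1599, 1000⟩⟩ (tC83.hPU false) :=
  posD_of_check (c := ⟨341, ⟨5, 6, 11, 7⟩⟩) (by decide +kernel)

def tC83_kU0 : PosD ⟨⟨0, 1, 1⟩, ⟨98, 99, 147⟩, ⟨8886, 9072, 30000⟩, ⟨1467, 1599, 1000⟩⟩ (tC83.hKU false) :=
  posD_of_check (c := ⟨339, ⟨5, 6, 11, 7⟩⟩) (by decide +kernel)

def tC83_kL0 : PosD ⟨⟨0, 1, 1⟩, ⟨98, 99, 147⟩, ⟨8886, 9072, 30000⟩, ⟨1467, 1599, 1000⟩⟩ (tC83.hKL false) :=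
  posD_of_check (c := ⟨337, ⟨5, 6, 11, 7⟩⟩) (by decide +kernel)

def tC83_wU0 : PosD ⟨⟨0, 1, 1⟩, ⟨98, 99, 147⟩, ⟨8886, 9072, 30000⟩, ⟨1467, 1599, 1000⟩⟩ (tC83.hWU false) :=
  posD_of_check (c := ⟨371, ⟨5, 8, 12, 7⟩⟩) (by decide +kernel)

def tC83_wL0 : PosD ⟨⟨0, 1, 1⟩, ⟨98, 99, 147⟩, ⟨8886, 9072, 30000⟩, ⟨1467, 1599, 1000⟩⟩ (tC83.hWL false) :=
  posD_of_check (c := ⟨374, ⟨5, 8, 12, 7⟩⟩) (by decide +kernel)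

def tC83_ev1 : PosD ⟨⟨0, 1, 1⟩, ⟨98, 99, 147⟩, ⟨8886, 9072, 30000⟩, ⟨1467, 1599, 1000⟩⟩ (tC83.hEv true) :=
  posD_of_check (c := ⟨273, ⟨4, 6, 9, 6⟩⟩) (by decide +kernel)

def tC83_zL1aa : PosD ⟨⟨0, 1, 1⟩, ⟨98, 99, 147⟩, ⟨8886, 9072, 30000⟩, ⟨1467, 1500, 1000⟩⟩ (tC83.hZL true) :=
  posD_of_check (c := ⟨299, ⟨4, 7, 10, 7⟩⟩) (by decide +kernel)

def tC83_zL1ab : PosD ⟨⟨0, 1, 1⟩, ⟨98, 99, 147⟩, ⟨8886, 9072, 30000⟩, ⟨1500, 1533, 1000⟩⟩ (tC83.hZL true) :=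
  posD_of_check (c := ⟨299, ⟨4, 7, 10, 7⟩⟩) (by decide +kernel)

def tC83_zL1a : PosD ⟨⟨0, 1, 1⟩, ⟨98, 99, 147⟩, ⟨8886, 9072, 30000⟩, ⟨1467, 1533, 1000⟩⟩ (tC83.hZL true) :=
  posD_join₃ tC83_zL1aa tC83_zL1ab

def tC83_zL1b : PosD ⟨⟨0, 1, 1⟩, ⟨98, 99, 147⟩, ⟨8886, 9072, 30000⟩, ⟨1533, 1599, 1000⟩⟩ (tC83.hZL true) :=
  posD_of_check (c := ⟨299, ⟨4, 7, 10, 7⟩⟩) (by decide +kernel)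

def tC83_zL1 : PosD ⟨⟨0, 1, 1⟩, ⟨98, 99, 147⟩, ⟨8886, 9072, 30000⟩, ⟨1467, 1599, 1000⟩⟩ (tC83.hZL true) :=
  posD_join₃ tC83_zL1a tC83_zL1b

def tC83_zU1a : PosD ⟨⟨0, 1, 1⟩, ⟨98, 99, 147⟩, ⟨8886, 9072, 30000⟩, ⟨1467, 1533, 1000⟩⟩ (tC83.hZU true) :=
  posD_of_check (c := ⟨299, ⟨4, 7, 10, 7⟩⟩) (by decide +kernel)

def tC83_zU1ba : PosD ⟨⟨0, 1, 1⟩, ⟨98, 99, 147⟩, ⟨8886, 9072, 30000⟩, ⟨1533, 1566, 1000⟩⟩ (tC83.hZU true) :=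
  posD_of_check (c := ⟨299, ⟨4, 7, 10, 7⟩⟩) (by decide +kernel)

def tC83_zU1bba : PosD ⟨⟨0, 1, 1⟩, ⟨98, 99, 147⟩, ⟨8886, 9072, 30000⟩, ⟨1566, 1582, 1000⟩⟩ (tC83.hZU true) :=
  posD_of_check (c := ⟨299, ⟨4, 7, 10, 7⟩⟩) (by decide +kernel)

def tC83_zU1bbb : PosD ⟨⟨0, 1, 1⟩, ⟨98, 99, 147⟩, ⟨8886, 9072, 30000⟩, ⟨1582, 1599, 1000⟩⟩ (tC83.hZU true) :=
  posD_of_check (c := ⟨299, ⟨4, 7, 10, 7⟩⟩) (by decide +kernel)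

def tC83_zU1bb : PosD ⟨⟨0, 1, 1⟩, ⟨98, 99, 147⟩, ⟨8886, 9072, 30000⟩, ⟨1566, 1599, 1000⟩⟩ (tC83.hZU true) :=
  posD_join₃ tC83_zU1bba tC83_zU1bbb

def tC83_zU1b : PosD ⟨⟨0, 1, 1⟩, ⟨98, 99, 147⟩, ⟨8886, 9072, 30000⟩, ⟨1533, 1599, 1000⟩⟩ (tC83.hZU true) :=
  posD_join₃ tC83_zU1ba tC83_zU1bb

def tC83_zU1 : PosD ⟨⟨0, 1, 1⟩, ⟨98, 99, 147⟩, ⟨8886, 9072, 30000⟩, ⟨1467, 1599, 1000⟩⟩ (tC83.hZU true) :=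
  posD_join₃ tC83_zU1a tC83_zU1b

def tC83_eL1 : PosD ⟨⟨0, 1, 1⟩, ⟨98, 99, 147⟩, ⟨8886, 9072, 30000⟩, ⟨1467, 1599, 1000⟩⟩ (tC83.hEL true) :=
  posD_of_check (c := ⟨371, ⟨5, 10, 12, 8⟩⟩) (by decide +kernel)

def tC83_eH1 : PosD ⟨⟨0, 1, 1⟩, ⟨98, 99, 147⟩, ⟨8886, 9072, 30000⟩, ⟨1467, 1599, 1000⟩⟩ (tC83.hEH true) :=
  posD_of_check (c := ⟨401, ⟨5, 10, 12, 9⟩⟩) (by decide +kernel)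

def tC83_pL1 : PosD ⟨⟨0, 1, 1⟩, ⟨98, 99, 147⟩, ⟨8886, 9072, 30000⟩, ⟨1467, 1599, 1000⟩⟩ (tC83.hPL true) :=
  posD_of_check (c := ⟨397, ⟨5, 10, 12, 9⟩⟩) (by decide +kernel)

def tC83_pU1 : PosD ⟨⟨0, 1, 1⟩, ⟨98, 99, 147⟩, ⟨8886, 9072, 30000⟩, ⟨1467, 1599, 1000⟩⟩ (tC83.hPU true) :=
  posD_of_check (c := ⟨395, ⟨5, 10, 12, 9⟩⟩) (by decide +kernel)

def tC83_kU1 : PosD ⟨⟨0, 1, 1⟩, ⟨98, 99, 147⟩, ⟨8886, 9072, 30000⟩, ⟨1467, 1599, 1000⟩⟩ (tC83.hKU true) :=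
  posD_of_check (c := ⟨393, ⟨5, 10, 12, 9⟩⟩) (by decide +kernel)

def tC83_kL1 : PosD ⟨⟨0, 1, 1⟩, ⟨98, 99, 147⟩, ⟨8886, 9072, 30000⟩, ⟨1467, 1599, 1000⟩⟩ (tC83.hKL true) :=
  posD_of_check (c := ⟨391, ⟨5, 10, 12, 9⟩⟩) (by decide +kernel)

def tC83_wU1 : PosD ⟨⟨0, 1, 1⟩, ⟨98, 99, 147⟩, ⟨8886, 9072, 30000⟩, ⟨1467, 1599, 1000⟩⟩ (tC83.hWU true) :=
  posD_of_check (c := ⟨425, ⟨5, 12, 13, 9⟩⟩) (by decide +kernel)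

def tC83_wL1 : PosD ⟨⟨0, 1, 1⟩, ⟨98, 99, 147⟩, ⟨8886, 9072, 30000⟩, ⟨1467, 1599, 1000⟩⟩ (tC83.hWL true) :=
  posD_of_check (c := ⟨428, ⟨5, 12, 13, 9⟩⟩) (by decide +kernel)

def tC83_nueH : PosD ⟨⟨0, 1, 1⟩, ⟨98, 99, 147⟩, ⟨8886, 9072, 30000⟩, ⟨1467, 1599, 1000⟩⟩ (tC83.eH.ν) :=
  posD_of_check (c := ⟨47, ⟨0, 0, 1, 1⟩⟩) (by decide +kernel)

/-- The bounds of the piece. -/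
def tC83_env : tC83.Env ⟨⟨0, 1, 1⟩, ⟨98, 99, 147⟩, ⟨8886, 9072, 30000⟩, ⟨1467, 1599, 1000⟩⟩ :=
  ⟨tC83_p0, Bool.forall_bool.2 ⟨tC83_den0, tC83_den1⟩, tC83_gn, Bool.forall_bool.2 ⟨tC83_ev0, tC83_ev1⟩, Bool.forall_bool.2 ⟨tC83_zL0, tC83_zL1⟩, Bool.forall_bool.2 ⟨tC83_zU0, tC83_zU1⟩, Bool.forall_bool.2 ⟨tC83_eL0, tC83_eL1⟩, ⟨.inr rfl, .inr rfl⟩, Bool.forall_bool.2 ⟨tC83_eH0, tC83_eH1⟩, ⟨.inr rfl, .inl tC83_nueH⟩, Bool.forall_bool.2 ⟨tC83_pL0, tC83_pL1⟩, ⟨.inr rfl, .inr rfl⟩, Bool.forall_bool.2 ⟨tC83_pU0, tC83_pU1⟩, ⟨.inr rfl, .inr rfl⟩, Bool.forall_bool.2 ⟨tC83_kU0, tC83_kU1⟩, ⟨.inr rfl, .inr rfl⟩, Bool.forall_bool.2 ⟨tC83_kL0, tC83_kL1⟩, ⟨.inr rfl, .inr rfl⟩, Bool.forall_bool.2 ⟨tC83_wU0, tC83_wU1⟩, ⟨.inr rfl, .inr rfl⟩,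 Bool.forall_bool.2 ⟨tC83_wL0, tC83_wL1⟩, ⟨.inr rfl, .inr rfl⟩⟩

def tC83_pU20 : PosD ⟨⟨0, 1, 1⟩, ⟨98, 99, 147⟩, ⟨8886, 9072, 30000⟩, ⟨1467, 1599, 1000⟩⟩ (({ tC83 with pU := tC83PU } : Piece).hPU false) :=
  posD_of_check (c := ⟨348, ⟨5, 6, 11, 7⟩⟩) (by decide +kernel)

def tC83_pU21 : PosD ⟨⟨0, 1, 1⟩, ⟨98, 99, 147⟩, ⟨8886, 9072, 30000⟩, ⟨1467, 1599, 1000⟩⟩ (({ tC83 with pU := tC83PU } : Piece).hPU true) :=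
  posD_of_check (c := ⟨402, ⟨5, 10, 12, 9⟩⟩) (by decide +kernel)

def tC83_nupU2 : PosD ⟨⟨0, 1, 1⟩, ⟨98, 99, 147⟩, ⟨8886, 9072, 30000⟩, ⟨1467, 1599, 1000⟩⟩ (tC83PU.ν) :=
  posD_of_check (c := ⟨47, ⟨0, 0, 1, 1⟩⟩) (by decide +kernel)

/-- The bounds with the other bound of `p`. -/
def tC83_envU : ({ tC83 with pU := tC83PU } : Piece).Env ⟨⟨0, 1, 1⟩, ⟨98, 99, 147⟩, ⟨8886, 9072, 30000⟩, ⟨1467, 1599, 1000⟩⟩ :=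
  tC83_env.withU tC83PU (Bool.forall_bool.2 ⟨tC83_pU20, tC83_pU21⟩) ⟨.inr rfl, .inl tC83_nupU2⟩

def tC83A_pp : PosD ⟨⟨0, 1, 1⟩, ⟨98, 99, 147⟩, ⟨8886, 9072, 30000⟩, ⟨1467, 1599, 1000⟩⟩ (tC83A.xPL) :=
  posD_of_check (c := ⟨101, ⟨1, 1, 3, 3⟩⟩) (by decide +kernel)

def tC83A_k2p : PosD ⟨⟨0, 1, 1⟩, ⟨98, 99, 147⟩, ⟨8886, 9072, 30000⟩, ⟨1467, 1599, 1000⟩⟩ (tC83A.k2p tC83A.xE) :=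
  posD_of_check (c := ⟨75, ⟨1, 1, 2, 2⟩⟩) (by decide +kernel)

def tC83A_k2m : PosD ⟨⟨0, 1, 1⟩, ⟨98, 99, 147⟩, ⟨8886, 9072, 30000⟩, ⟨1467, 1599, 1000⟩⟩ (tC83A.k2m tC83A.xE) :=
  posD_of_check (c := ⟨31, ⟨0, 0, 1, 1⟩⟩) (by decide +kernel)

def tC83A_v2p : PosD ⟨⟨0, 1, 1⟩, ⟨98, 99, 147⟩, ⟨8886, 9072, 30000⟩, ⟨1467, 1599, 1000⟩⟩ (tC83A.hV2p) :=
  posD_of_check (c := ⟨277, ⟨1, 6, 10, 5⟩⟩) (by decide +kernel)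

def tC83A_v2m : PosD ⟨⟨0, 1, 1⟩, ⟨98, 99, 147⟩, ⟨8886, 9072, 30000⟩, ⟨1467, 1599, 1000⟩⟩ (tC83A.hV2m) :=
  posD_of_check (c := ⟨245, ⟨0, 5, 10, 4⟩⟩) (by decide +kernel)

def tC83A_v3p : PosD ⟨⟨0, 1, 1⟩, ⟨98, 99, 147⟩, ⟨8886, 9072, 30000⟩, ⟨1467, 1599, 1000⟩⟩ (tC83A.hV3p) :=
  posD_of_check (c := ⟨261, ⟨1, 6, 9, 5⟩⟩) (by decide +kernel)

def tC83A_v3m : PosD ⟨⟨0, 1, 1⟩, ⟨98, 99, 147⟩, ⟨8886, 9072, 30000⟩, ⟨1467, 1599, 1000⟩⟩ (tC83A.hV3m) :=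
  posD_of_check (c := ⟨232, ⟨0, 5, 9, 4⟩⟩) (by decide +kernel)

def tC83A_kap0 : PosD ⟨⟨0, 1, 1⟩, ⟨98, 99, 147⟩, ⟨8886, 9072, 30000⟩, ⟨1467, 1599, 1000⟩⟩ (tC83A.kap false) :=
  posD_of_check (c := ⟨74, ⟨1, 1, 2, 2⟩⟩) (by decide +kernel)

def tC83A_c10 : PosD ⟨⟨0, 1, 1⟩, ⟨98, 99, 147⟩, ⟨8886, 9072, 30000⟩, ⟨1467, 1599, 1000⟩⟩ (tC83A.hC1 false) :=
  posD_of_check (c := ⟨286, ⟨3, 5, 9, 7⟩⟩) (by decide +kernel)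

def tC83A_c1h0 : PosD ⟨⟨0, 1, 1⟩, ⟨98, 99, 147⟩, ⟨8886, 9072, 30000⟩, ⟨1467, 1599, 1000⟩⟩ (tC83A.hC1' false) :=
  posD_of_check (c := ⟨286, ⟨3, 5, 9, 7⟩⟩) (by decide +kernel)

def tC83A_tg00 : PosD ⟨⟨0, 1, 1⟩, ⟨98, 99, 147⟩, ⟨8886, 9072, 30000⟩, ⟨1467, 1599, 1000⟩⟩ (tC83A.hG false (tC83A.pEnd false)) :=
  posD_of_check (c := ⟨399, ⟨2, 7, 14, 9⟩⟩) (by decide +kernel)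

def tC83A_c2p00 : PosD ⟨⟨0, 1, 1⟩, ⟨98, 99, 147⟩, ⟨8886, 9072, 30000⟩, ⟨1467, 1599, 1000⟩⟩ (tC83A.hC2p false (tC83A.pEnd false)) :=
  posD_of_check (c := ⟨474, ⟨3, 8, 16, 11⟩⟩) (by decide +kernel)

def tC83A_c2m00 : PosD ⟨⟨0, 1, 1⟩, ⟨98, 99, 147⟩, ⟨8886, 9072, 30000⟩, ⟨1467, 1599, 1000⟩⟩ (tC83A.hC2m false (tC83A.pEnd false)) :=
  posD_of_check (c := ⟨442, ⟨2, 7, 16, 10⟩⟩) (by decide +kernel)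

def tC83A_c3p00 : PosD ⟨⟨0, 1, 1⟩, ⟨98, 99, 147⟩, ⟨8886, 9072, 30000⟩, ⟨1467, 1599, 1000⟩⟩ (tC83A.hC3p false false) :=
  posD_of_check (c := ⟨459, ⟨3, 8, 15, 11⟩⟩) (by decide +kernel)

def tC83A_c3m00 : PosD ⟨⟨0, 1, 1⟩, ⟨98, 99, 147⟩, ⟨8886, 9072, 30000⟩, ⟨1467, 1599, 1000⟩⟩ (tC83A.hC3m false false) :=
  posD_of_check (c := ⟨433, ⟨3, 7, 15, 10⟩⟩) (by decide +kernel)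

def tC83A_c3ph00 : PosD ⟨⟨0, 1, 1⟩, ⟨98, 99, 147⟩, ⟨8886, 9072, 30000⟩, ⟨1467, 1599, 1000⟩⟩ (tC83A.hC3p' false false) :=
  posD_of_check (c := ⟨459, ⟨3, 8, 15, 11⟩⟩) (by decide +kernel)

def tC83A_c3mh00 : PosD ⟨⟨0, 1, 1⟩, ⟨98, 99, 147⟩, ⟨8886, 9072, 30000⟩, ⟨1467, 1599, 1000⟩⟩ (tC83A.hC3m' false false) :=
  posD_of_check (c := ⟨433, ⟨3, 7, 15, 10⟩⟩) (by decide +kernel)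

def tC83A_up00 : PosD ⟨⟨0, 1, 1⟩, ⟨98, 99, 147⟩, ⟨8886, 9072, 30000⟩, ⟨1467, 1599, 1000⟩⟩ (tC83A.hUp false false) :=
  posD_of_check (c := ⟨458, ⟨3, 8, 15, 11⟩⟩) (by decide +kernel)

def tC83A_um00 : PosD ⟨⟨0, 1, 1⟩, ⟨98, 99, 147⟩, ⟨8886, 9072, 30000⟩, ⟨1467, 1599, 1000⟩⟩ (tC83A.hUm false false) :=
  posD_of_check (c := ⟨429, ⟨2, 7, 15, 10⟩⟩) (by decide +kernel)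

def tC83A_tmg00 : PosD ⟨⟨0, 1, 1⟩, ⟨98, 99, 147⟩, ⟨8886, 9072, 30000⟩, ⟨1467, 1599, 1000⟩⟩ (tC83A.hTMG false (tC83A.pEnd false)) :=
  posD_of_check (c := ⟨412, ⟨2, 7, 14, 10⟩⟩) (by decide +kernel)

def tC83A_tg01 : PosD ⟨⟨0, 1, 1⟩, ⟨98, 99, 147⟩, ⟨8886, 9072, 30000⟩, ⟨1467, 1599, 1000⟩⟩ (tC83A.hG true (tC83A.pEnd false)) :=
  posD_of_check (c := ⟨399, ⟨2, 7, 14, 9⟩⟩) (by decide +kernel)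

def tC83A_c2p01 : PosD ⟨⟨0, 1, 1⟩, ⟨98, 99, 147⟩, ⟨8886, 9072, 30000⟩, ⟨1467, 1599, 1000⟩⟩ (tC83A.hC2p true (tC83A.pEnd false)) :=
  posD_of_check (c := ⟨474, ⟨3, 8, 16, 11⟩⟩) (by decide +kernel)

def tC83A_c2m01 : PosD ⟨⟨0, 1, 1⟩, ⟨98, 99, 147⟩, ⟨8886, 9072, 30000⟩, ⟨1467, 1599, 1000⟩⟩ (tC83A.hC2m true (tC83A.pEnd false)) :=
  posD_of_check (c := ⟨442, ⟨2, 7, 16, 10⟩⟩) (by decide +kernel)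

def tC83A_c3p01 : PosD ⟨⟨0, 1, 1⟩, ⟨98, 99, 147⟩, ⟨8886, 9072, 30000⟩, ⟨1467, 1599, 1000⟩⟩ (tC83A.hC3p false true) :=
  posD_of_check (c := ⟨459, ⟨3, 8, 15, 11⟩⟩) (by decide +kernel)

def tC83A_c3m01 : PosD ⟨⟨0, 1, 1⟩, ⟨98, 99, 147⟩, ⟨8886, 9072, 30000⟩, ⟨1467, 1599, 1000⟩⟩ (tC83A.hC3m false true) :=
  posD_of_check (c := ⟨433, ⟨3, 7, 15, 10⟩⟩) (by decide +kernel)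

def tC83A_c3ph01 : PosD ⟨⟨0, 1, 1⟩, ⟨98, 99, 147⟩, ⟨8886, 9072, 30000⟩, ⟨1467, 1599, 1000⟩⟩ (tC83A.hC3p' false true) :=
  posD_of_check (c := ⟨459, ⟨3, 8, 15, 11⟩⟩) (by decide +kernel)

def tC83A_c3mh01 : PosD ⟨⟨0, 1, 1⟩, ⟨98, 99, 147⟩, ⟨8886, 9072, 30000⟩, ⟨1467, 1599, 1000⟩⟩ (tC83A.hC3m' false true) :=
  posD_of_check (c := ⟨433, ⟨3, 7, 15, 10⟩⟩) (by decide +kernel)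

def tC83A_up01 : PosD ⟨⟨0, 1, 1⟩, ⟨98, 99, 147⟩, ⟨8886, 9072, 30000⟩, ⟨1467, 1599, 1000⟩⟩ (tC83A.hUp false true) :=
  posD_of_check (c := ⟨458, ⟨3, 8, 15, 11⟩⟩) (by decide +kernel)

def tC83A_um01 : PosD ⟨⟨0, 1, 1⟩, ⟨98, 99, 147⟩, ⟨8886, 9072, 30000⟩, ⟨1467, 1599, 1000⟩⟩ (tC83A.hUm false true) :=
  posD_of_check (c := ⟨429, ⟨2, 7, 15, 10⟩⟩) (by decide +kernel)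

def tC83A_tmg01 : PosD ⟨⟨0, 1, 1⟩, ⟨98, 99, 147⟩, ⟨8886, 9072, 30000⟩, ⟨1467, 1599, 1000⟩⟩ (tC83A.hTMG true (tC83A.pEnd false)) :=
  posD_of_check (c := ⟨412, ⟨2, 7, 14, 10⟩⟩) (by decide +kernel)

def tC83A_kap1 : PosD ⟨⟨0, 1, 1⟩, ⟨98, 99, 147⟩, ⟨8886, 9072, 30000⟩, ⟨1467, 1599, 1000⟩⟩ (tC83A.kap true) :=
  posD_of_check (c := ⟨75, ⟨1, 1, 2, 2⟩⟩) (by decide +kernel)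

def tC83A_c11 : PosD ⟨⟨0, 1, 1⟩, ⟨98, 99, 147⟩, ⟨8886, 9072, 30000⟩, ⟨1467, 1599, 1000⟩⟩ (tC83A.hC1 true) :=
  posD_of_check (c := ⟨284, ⟨3, 5, 9, 7⟩⟩) (by decide +kernel)

def tC83A_c1h1 : PosD ⟨⟨0, 1, 1⟩, ⟨98, 99, 147⟩, ⟨8886, 9072, 30000⟩, ⟨1467, 1599, 1000⟩⟩ (tC83A.hC1' true) :=
  posD_of_check (c := ⟨284, ⟨3, 5, 9, 7⟩⟩) (by decide +kernel)

def tC83A_tg10 : PosD ⟨⟨0, 1, 1⟩, ⟨98, 99, 147⟩, ⟨8886, 9072, 30000⟩, ⟨1467, 1599, 1000⟩⟩ (tC83A.hG false (tC83A.pEnd true)) :=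
  posD_of_check (c := ⟨395, ⟨2, 7, 14, 9⟩⟩) (by decide +kernel)

def tC83A_c2p10 : PosD ⟨⟨0, 1, 1⟩, ⟨98, 99, 147⟩, ⟨8886, 9072, 30000⟩, ⟨1467, 1599, 1000⟩⟩ (tC83A.hC2p false (tC83A.pEnd true)) :=
  posD_of_check (c := ⟨470, ⟨3, 8, 16, 11⟩⟩) (by decide +kernel)

def tC83A_c2m10 : PosD ⟨⟨0, 1, 1⟩, ⟨98, 99, 147⟩, ⟨8886, 9072, 30000⟩, ⟨1467, 1599, 1000⟩⟩ (tC83A.hC2m false (tC83A.pEnd true)) :=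
  posD_of_check (c := ⟨438, ⟨2, 7, 16, 10⟩⟩) (by decide +kernel)

def tC83A_c3p10 : PosD ⟨⟨0, 1, 1⟩, ⟨98, 99, 147⟩, ⟨8886, 9072, 30000⟩, ⟨1467, 1599, 1000⟩⟩ (tC83A.hC3p true false) :=
  posD_of_check (c := ⟨456, ⟨3, 8, 15, 11⟩⟩) (by decide +kernel)

def tC83A_c3m10 : PosD ⟨⟨0, 1, 1⟩, ⟨98, 99, 147⟩, ⟨8886, 9072, 30000⟩, ⟨1467, 1599, 1000⟩⟩ (tC83A.hC3m true false) :=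
  posD_of_check (c := ⟨432, ⟨3, 7, 15, 10⟩⟩) (by decide +kernel)

def tC83A_c3ph10 : PosD ⟨⟨0, 1, 1⟩, ⟨98, 99, 147⟩, ⟨8886, 9072, 30000⟩, ⟨1467, 1599, 1000⟩⟩ (tC83A.hC3p' true false) :=
  posD_of_check (c := ⟨456, ⟨3, 8, 15, 11⟩⟩) (by decide +kernel)

def tC83A_c3mh10 : PosD ⟨⟨0, 1, 1⟩, ⟨98, 99, 147⟩, ⟨8886, 9072, 30000⟩, ⟨1467, 1599, 1000⟩⟩ (tC83A.hC3m' true false) :=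
  posD_of_check (c := ⟨431, ⟨3, 7, 15, 10⟩⟩) (by decide +kernel)

def tC83A_up10 : PosD ⟨⟨0, 1, 1⟩, ⟨98, 99, 147⟩, ⟨8886, 9072, 30000⟩, ⟨1467, 1599, 1000⟩⟩ (tC83A.hUp true false) :=
  posD_of_check (c := ⟨455, ⟨3, 8, 15, 11⟩⟩) (by decide +kernel)

def tC83A_um10 : PosD ⟨⟨0, 1, 1⟩, ⟨98, 99, 147⟩, ⟨8886, 9072, 30000⟩, ⟨1467, 1599, 1000⟩⟩ (tC83A.hUm true false) :=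
  posD_of_check (c := ⟨426, ⟨2, 7, 15, 10⟩⟩) (by decide +kernel)

def tC83A_tmg10 : PosD ⟨⟨0, 1, 1⟩, ⟨98, 99, 147⟩, ⟨8886, 9072, 30000⟩, ⟨1467, 1599, 1000⟩⟩ (tC83A.hTMG false (tC83A.pEnd true)) :=
  posD_of_check (c := ⟨408, ⟨2, 7, 14, 10⟩⟩) (by decide +kernel)

def tC83A_tg11 : PosD ⟨⟨0, 1, 1⟩, ⟨98, 99, 147⟩, ⟨8886, 9072, 30000⟩, ⟨1467, 1599, 1000⟩⟩ (tC83A.hG true (tC83A.pEnd true)) :=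
  posD_of_check (c := ⟨395, ⟨2, 7, 14, 9⟩⟩) (by decide +kernel)

def tC83A_c2p11 : PosD ⟨⟨0, 1, 1⟩, ⟨98, 99, 147⟩, ⟨8886, 9072, 30000⟩, ⟨1467, 1599, 1000⟩⟩ (tC83A.hC2p true (tC83A.pEnd true)) :=
  posD_of_check (c := ⟨470, ⟨3, 8, 16, 11⟩⟩) (by decide +kernel)

def tC83A_c2m11 : PosD ⟨⟨0, 1, 1⟩, ⟨98, 99, 147⟩, ⟨8886, 9072, 30000⟩, ⟨1467, 1599, 1000⟩⟩ (tC83A.hC2m true (tC83A.pEnd true)) :=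
  posD_of_check (c := ⟨438, ⟨2, 7, 16, 10⟩⟩) (by decide +kernel)

def tC83A_c3p11 : PosD ⟨⟨0, 1, 1⟩, ⟨98, 99, 147⟩, ⟨8886, 9072, 30000⟩, ⟨1467, 1599, 1000⟩⟩ (tC83A.hC3p true true) :=
  posD_of_check (c := ⟨456, ⟨3, 8, 15, 11⟩⟩) (by decide +kernel)

def tC83A_c3m11 : PosD ⟨⟨0, 1, 1⟩, ⟨98, 99, 147⟩, ⟨8886, 9072, 30000⟩, ⟨1467, 1599, 1000⟩⟩ (tC83A.hC3m true true) :=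
  posD_of_check (c := ⟨432, ⟨3, 7, 15, 10⟩⟩) (by decide +kernel)

def tC83A_c3ph11 : PosD ⟨⟨0, 1, 1⟩, ⟨98, 99, 147⟩, ⟨8886, 9072, 30000⟩, ⟨1467, 1599, 1000⟩⟩ (tC83A.hC3p' true true) :=
  posD_of_check (c := ⟨456, ⟨3, 8, 15, 11⟩⟩) (by decide +kernel)

def tC83A_c3mh11 : PosD ⟨⟨0, 1, 1⟩, ⟨98, 99, 147⟩, ⟨8886, 9072, 30000⟩, ⟨1467, 1599, 1000⟩⟩ (tC83A.hC3m' true true) :=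
  posD_of_check (c := ⟨431, ⟨3, 7, 15, 10⟩⟩) (by decide +kernel)

def tC83A_up11 : PosD ⟨⟨0, 1, 1⟩, ⟨98, 99, 147⟩, ⟨8886, 9072, 30000⟩, ⟨1467, 1599, 1000⟩⟩ (tC83A.hUp true true) :=
  posD_of_check (c := ⟨455, ⟨3, 8, 15, 11⟩⟩) (by decide +kernel)

def tC83A_um11 : PosD ⟨⟨0, 1, 1⟩, ⟨98, 99, 147⟩, ⟨8886, 9072, 30000⟩, ⟨1467, 1599, 1000⟩⟩ (tC83A.hUm true true) :=
  posD_of_check (c := ⟨426, ⟨2, 7, 15, 10⟩⟩) (by decide +kernel)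

def tC83A_tmg11 : PosD ⟨⟨0, 1, 1⟩, ⟨98, 99, 147⟩, ⟨8886, 9072, 30000⟩, ⟨1467, 1599, 1000⟩⟩ (tC83A.hTMG true (tC83A.pEnd true)) :=
  posD_of_check (c := ⟨408, ⟨2, 7, 14, 10⟩⟩) (by decide +kernel)

/-- The signs of the piece. -/
def tC83A_sign : tC83A.Sign ⟨⟨0, 1, 1⟩, ⟨98, 99, 147⟩, ⟨8886, 9072, 30000⟩, ⟨1467, 1599, 1000⟩⟩ :=
  ⟨tC83A_pp,
    tC83A_k2p,
    tC83A_k2m,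
    Bool.forall_bool.2 ⟨(Bool.forall_bool.2 ⟨tC83A_tg00, tC83A_tg01⟩), (Bool.forall_bool.2 ⟨tC83A_tg10, tC83A_tg11⟩)⟩,
    Bool.forall_bool.2 ⟨(Bool.forall_bool.2 ⟨tC83A_c2p00, tC83A_c2p01⟩), (Bool.forall_bool.2 ⟨tC83A_c2p10, tC83A_c2p11⟩)⟩,
    Bool.forall_bool.2 ⟨(Bool.forall_bool.2 ⟨tC83A_c2m00, tC83A_c2m01⟩), (Bool.forall_bool.2 ⟨tC83A_c2m10, tC83A_c2m11⟩)⟩,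
    Bool.forall_bool.2 ⟨tC83A_kap0, tC83A_kap1⟩,
    Bool.forall_bool.2 ⟨tC83A_c10, tC83A_c11⟩,
    Bool.forall_bool.2 ⟨(Bool.forall_bool.2 ⟨tC83A_c3p00, tC83A_c3p01⟩), (Bool.forall_bool.2 ⟨tC83A_c3p10, tC83A_c3p11⟩)⟩,
    Bool.forall_bool.2 ⟨(Bool.forall_bool.2 ⟨tC83A_c3m00, tC83A_c3m01⟩), (Bool.forall_bool.2 ⟨tC83A_c3m10, tC83A_c3m11⟩)⟩,
    Bool.forall_bool.2 ⟨(Bool.forall_bool.2 ⟨tC83A_tmg00, tC83A_tmg01⟩), (Bool.forall_bool.2 ⟨tC83A_tmg10, tC83A_tmg11⟩)⟩,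
    .inr (Bool.forall_bool.2 ⟨⟨tC83A_c1h0, Bool.forall_bool.2 ⟨⟨tC83A_c3ph00, tC83A_c3mh00, tC83A_up00, tC83A_um00⟩, ⟨tC83A_c3ph01, tC83A_c3mh01, tC83A_up01, tC83A_um01⟩⟩⟩, ⟨tC83A_c1h1, Bool.forall_bool.2 ⟨⟨tC83A_c3ph10, tC83A_c3mh10, tC83A_up10, tC83A_um10⟩, ⟨tC83A_c3ph11, tC83A_c3mh11, tC83A_up11, tC83A_um11⟩⟩⟩⟩),
    tC83A_v2p,
    tC83A_v2m,
    tC83A_v3p,
    tC83A_v3m,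
    posD_sub (b := ⟨⟨0, 1, 1⟩, ⟨98, 99, 147⟩, ⟨4050, 10000, 30000⟩, ⟨290, 4000, 1000⟩⟩) (by decide +kernel) tC_vG,
    posD_sub (b := ⟨⟨0, 1, 1⟩, ⟨98, 99, 147⟩, ⟨4050, 10000, 30000⟩, ⟨290, 4000, 1000⟩⟩) (by decide +kernel) tC_vMG,
    posD_sub (b := ⟨⟨0, 1, 1⟩, ⟨98, 99, 147⟩, ⟨4050, 10000, 30000⟩, ⟨290, 4000, 1000⟩⟩) (by decide +kernel) tC_ak,
    posD_sub (b := ⟨⟨0, 1, 1⟩, ⟨98, 99, 147⟩, ⟨4050, 10000, 30000⟩, ⟨290, 4000, 1000⟩⟩) (by decide +kernel) tC_aw,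
    posD_sub (b := ⟨⟨0, 1, 1⟩, ⟨98, 99, 147⟩, ⟨4050, 10000, 30000⟩, ⟨290, 4000, 1000⟩⟩) (by decide +kernel) tC_gk,
    posD_sub (b := ⟨⟨0, 1, 1⟩, ⟨98, 99, 147⟩, ⟨4050, 10000, 30000⟩, ⟨290, 4000, 1000⟩⟩) (by decide +kernel) tC_gw,
    posD_sub (b := ⟨⟨0, 1, 1⟩, ⟨98, 99, 147⟩, ⟨4050, 10000, 30000⟩, ⟨290, 4000, 1000⟩⟩) (by decide +kernel) tC_ek,
    posD_sub (b := ⟨⟨0, 1, 1⟩, ⟨98, 99, 147⟩, ⟨4050, 10000, 30000⟩, ⟨290, 4000, 1000⟩⟩) (by decide +kernel) tC_ew⟩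

def tC83B_pp : PosD ⟨⟨0, 1, 1⟩, ⟨98, 99, 147⟩, ⟨8886, 9072, 30000⟩, ⟨1467, 1599, 1000⟩⟩ (tC83B.xPL) :=
  posD_of_check (c := ⟨98, ⟨1, 1, 3, 3⟩⟩) (by decide +kernel)

def tC83B_k2p : PosD ⟨⟨0, 1, 1⟩, ⟨98, 99, 147⟩, ⟨8886, 9072, 30000⟩, ⟨1467, 1599, 1000⟩⟩ (tC83B.k2p tC83B.xE) :=
  posD_of_check (c := ⟨73, ⟨1, 1, 2, 2⟩⟩) (by decide +kernel)

def tC83B_k2m : PosD ⟨⟨0, 1, 1⟩, ⟨98, 99, 147⟩, ⟨8886, 9072, 30000⟩, ⟨1467, 1599, 1000⟩⟩ (tC83B.k2m tC83B.xE) :=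
  posD_of_check (c := ⟨31, ⟨0, 0, 1, 1⟩⟩) (by decide +kernel)

def tC83B_v2p : PosD ⟨⟨0, 1, 1⟩, ⟨98, 99, 147⟩, ⟨8886, 9072, 30000⟩, ⟨1467, 1599, 1000⟩⟩ (tC83B.hV2p) :=
  posD_of_check (c := ⟨274, ⟨1, 6, 10, 5⟩⟩) (by decide +kernel)

def tC83B_v2m : PosD ⟨⟨0, 1, 1⟩, ⟨98, 99, 147⟩, ⟨8886, 9072, 30000⟩, ⟨1467, 1599, 1000⟩⟩ (tC83B.hV2m) :=
  posD_of_check (c := ⟨245, ⟨0, 5, 10, 4⟩⟩) (by decide +kernel)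

def tC83B_v3p : PosD ⟨⟨0, 1, 1⟩, ⟨98, 99, 147⟩, ⟨8886, 9072, 30000⟩, ⟨1467, 1599, 1000⟩⟩ (tC83B.hV3p) :=
  posD_of_check (c := ⟨259, ⟨1, 6, 9, 5⟩⟩) (by decide +kernel)

def tC83B_v3m : PosD ⟨⟨0, 1, 1⟩, ⟨98, 99, 147⟩, ⟨8886, 9072, 30000⟩, ⟨1467, 1599, 1000⟩⟩ (tC83B.hV3m) :=
  posD_of_check (c := ⟨232, ⟨0, 5, 9, 4⟩⟩) (by decide +kernel)

def tC83B_kap0 : PosD ⟨⟨0, 1, 1⟩, ⟨98, 99, 147⟩, ⟨8886, 9072, 30000⟩, ⟨1467, 1599, 1000⟩⟩ (tC83B.kap false) :=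
  posD_of_check (c := ⟨71, ⟨1, 1, 2, 2⟩⟩) (by decide +kernel)

def tC83B_c10 : PosD ⟨⟨0, 1, 1⟩, ⟨98, 99, 147⟩, ⟨8886, 9072, 30000⟩, ⟨1467, 1599, 1000⟩⟩ (tC83B.hC1 false) :=
  posD_of_check (c := ⟨276, ⟨3, 5, 9, 7⟩⟩) (by decide +kernel)

def tC83B_c1h0 : PosD ⟨⟨0, 1, 1⟩, ⟨98, 99, 147⟩, ⟨8886, 9072, 30000⟩, ⟨1467, 1599, 1000⟩⟩ (tC83B.hC1' false) :=
  posD_of_check (c := ⟨276, ⟨3, 5, 9, 7⟩⟩) (by decide +kernel)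

def tC83B_tg00 : PosD ⟨⟨0, 1, 1⟩, ⟨98, 99, 147⟩, ⟨8886, 9072, 30000⟩, ⟨1467, 1599, 1000⟩⟩ (tC83B.hG false (tC83B.pEnd false)) :=
  posD_of_check (c := ⟨393, ⟨2, 7, 14, 9⟩⟩) (by decide +kernel)

def tC83B_c2p00 : PosD ⟨⟨0, 1, 1⟩, ⟨98, 99, 147⟩, ⟨8886, 9072, 30000⟩, ⟨1467, 1599, 1000⟩⟩ (tC83B.hC2p false (tC83B.pEnd false)) :=
  posD_of_check (c := ⟨466, ⟨3, 8, 16, 11⟩⟩) (by decide +kernel)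

def tC83B_c2m00 : PosD ⟨⟨0, 1, 1⟩, ⟨98, 99, 147⟩, ⟨8886, 9072, 30000⟩, ⟨1467, 1599, 1000⟩⟩ (tC83B.hC2m false (tC83B.pEnd false)) :=
  posD_of_check (c := ⟨437, ⟨2, 7, 16, 10⟩⟩) (by decide +kernel)

def tC83B_c3p00 : PosD ⟨⟨0, 1, 1⟩, ⟨98, 99, 147⟩, ⟨8886, 9072, 30000⟩, ⟨1467, 1599, 1000⟩⟩ (tC83B.hC3p false false) :=
  posD_of_check (c := ⟨451, ⟨3, 8, 15, 11⟩⟩) (by decide +kernel)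

def tC83B_c3m00 : PosD ⟨⟨0, 1, 1⟩, ⟨98, 99, 147⟩, ⟨8886, 9072, 30000⟩, ⟨1467, 1599, 1000⟩⟩ (tC83B.hC3m false false) :=
  posD_of_check (c := ⟨425, ⟨3, 7, 15, 10⟩⟩) (by decide +kernel)

def tC83B_c3ph00 : PosD ⟨⟨0, 1, 1⟩, ⟨98, 99, 147⟩, ⟨8886, 9072, 30000⟩, ⟨1467, 1599, 1000⟩⟩ (tC83B.hC3p' false false) :=
  posD_of_check (c := ⟨451, ⟨3, 8, 15, 11⟩⟩) (by decide +kernel)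

def tC83B_c3mh00 : PosD ⟨⟨0, 1, 1⟩, ⟨98, 99, 147⟩, ⟨8886, 9072, 30000⟩, ⟨1467, 1599, 1000⟩⟩ (tC83B.hC3m' false false) :=
  posD_of_check (c := ⟨425, ⟨3, 7, 15, 10⟩⟩) (by decide +kernel)

def tC83B_up00 : PosD ⟨⟨0, 1, 1⟩, ⟨98, 99, 147⟩, ⟨8886, 9072, 30000⟩, ⟨1467, 1599, 1000⟩⟩ (tC83B.hUp false false) :=
  posD_of_check (c := ⟨451, ⟨3, 8, 15, 11⟩⟩) (by decide +kernel)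

def tC83B_um00 : PosD ⟨⟨0, 1, 1⟩, ⟨98, 99, 147⟩, ⟨8886, 9072, 30000⟩, ⟨1467, 1599, 1000⟩⟩ (tC83B.hUm false false) :=
  posD_of_check (c := ⟨424, ⟨2, 7, 15, 10⟩⟩) (by decide +kernel)

def tC83B_tmg00 : PosD ⟨⟨0, 1, 1⟩, ⟨98, 99, 147⟩, ⟨8886, 9072, 30000⟩, ⟨1467, 1599, 1000⟩⟩ (tC83B.hTMG false (tC83B.pEnd false)) :=
  posD_of_check (c := ⟨407, ⟨2, 7, 14, 10⟩⟩) (by decide +kernel)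

def tC83B_tg01 : PosD ⟨⟨0, 1, 1⟩, ⟨98, 99, 147⟩, ⟨8886, 9072, 30000⟩, ⟨1467, 1599, 1000⟩⟩ (tC83B.hG true (tC83B.pEnd false)) :=
  posD_of_check (c := ⟨393, ⟨2, 7, 14, 9⟩⟩) (by decide +kernel)

def tC83B_c2p01 : PosD ⟨⟨0, 1, 1⟩, ⟨98, 99, 147⟩, ⟨8886, 9072, 30000⟩, ⟨1467, 1599, 1000⟩⟩ (tC83B.hC2p true (tC83B.pEnd false)) :=
  posD_of_check (c := ⟨466, ⟨3, 8, 16, 11⟩⟩) (by decide +kernel)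

def tC83B_c2m01 : PosD ⟨⟨0, 1, 1⟩, ⟨98, 99, 147⟩, ⟨8886, 9072, 30000⟩, ⟨1467, 1599, 1000⟩⟩ (tC83B.hC2m true (tC83B.pEnd false)) :=
  posD_of_check (c := ⟨437, ⟨2, 7, 16, 10⟩⟩) (by decide +kernel)

def tC83B_c3p01 : PosD ⟨⟨0, 1, 1⟩, ⟨98, 99, 147⟩, ⟨8886, 9072, 30000⟩, ⟨1467, 1599, 1000⟩⟩ (tC83B.hC3p false true) :=
  posD_of_check (c := ⟨451, ⟨3, 8, 15, 11⟩⟩) (by decide +kernel)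

def tC83B_c3m01 : PosD ⟨⟨0, 1, 1⟩, ⟨98, 99, 147⟩, ⟨8886, 9072, 30000⟩, ⟨1467, 1599, 1000⟩⟩ (tC83B.hC3m false true) :=
  posD_of_check (c := ⟨425, ⟨3, 7, 15, 10⟩⟩) (by decide +kernel)

def tC83B_c3ph01 : PosD ⟨⟨0, 1, 1⟩, ⟨98, 99, 147⟩, ⟨8886, 9072, 30000⟩, ⟨1467, 1599, 1000⟩⟩ (tC83B.hC3p' false true) :=
  posD_of_check (c := ⟨451, ⟨3, 8, 15, 11⟩⟩) (by decide +kernel)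

def tC83B_c3mh01 : PosD ⟨⟨0, 1, 1⟩, ⟨98, 99, 147⟩, ⟨8886, 9072, 30000⟩, ⟨1467, 1599, 1000⟩⟩ (tC83B.hC3m' false true) :=
  posD_of_check (c := ⟨425, ⟨3, 7, 15, 10⟩⟩) (by decide +kernel)

def tC83B_up01 : PosD ⟨⟨0, 1, 1⟩, ⟨98, 99, 147⟩, ⟨8886, 9072, 30000⟩, ⟨1467, 1599, 1000⟩⟩ (tC83B.hUp false true) :=
  posD_of_check (c := ⟨451, ⟨3, 8, 15, 11⟩⟩) (by decide +kernel)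

def tC83B_um01 : PosD ⟨⟨0, 1, 1⟩, ⟨98, 99, 147⟩, ⟨8886, 9072, 30000⟩, ⟨1467, 1599, 1000⟩⟩ (tC83B.hUm false true) :=
  posD_of_check (c := ⟨424, ⟨2, 7, 15, 10⟩⟩) (by decide +kernel)

def tC83B_tmg01 : PosD ⟨⟨0, 1, 1⟩, ⟨98, 99, 147⟩, ⟨8886, 9072, 30000⟩, ⟨1467, 1599, 1000⟩⟩ (tC83B.hTMG true (tC83B.pEnd false)) :=
  posD_of_check (c := ⟨407, ⟨2, 7, 14, 10⟩⟩) (by decide +kernel)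

def tC83B_kap1 : PosD ⟨⟨0, 1, 1⟩, ⟨98, 99, 147⟩, ⟨8886, 9072, 30000⟩, ⟨1467, 1599, 1000⟩⟩ (tC83B.kap true) :=
  posD_of_check (c := ⟨71, ⟨1, 1, 2, 2⟩⟩) (by decide +kernel)

def tC83B_c11 : PosD ⟨⟨0, 1, 1⟩, ⟨98, 99, 147⟩, ⟨8886, 9072, 30000⟩, ⟨1467, 1599, 1000⟩⟩ (tC83B.hC1 true) :=
  posD_of_check (c := ⟨272, ⟨3, 5, 9, 7⟩⟩) (by decide +kernel)

def tC83B_c1h1 : PosD ⟨⟨0, 1, 1⟩, ⟨98, 99, 147⟩, ⟨8886, 9072, 30000⟩, ⟨1467, 1599, 1000⟩⟩ (tC83B.hC1' true) :=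
  posD_of_check (c := ⟨272, ⟨3, 5, 9, 7⟩⟩) (by decide +kernel)

def tC83B_tg10 : PosD ⟨⟨0, 1, 1⟩, ⟨98, 99, 147⟩, ⟨8886, 9072, 30000⟩, ⟨1467, 1599, 1000⟩⟩ (tC83B.hG false (tC83B.pEnd true)) :=
  posD_of_check (c := ⟨388, ⟨2, 7, 14, 9⟩⟩) (by decide +kernel)

def tC83B_c2p10 : PosD ⟨⟨0, 1, 1⟩, ⟨98, 99, 147⟩, ⟨8886, 9072, 30000⟩, ⟨1467, 1599, 1000⟩⟩ (tC83B.hC2p false (tC83B.pEnd true)) :=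
  posD_of_check (c := ⟨460, ⟨3, 8, 16, 11⟩⟩) (by decide +kernel)

def tC83B_c2m10 : PosD ⟨⟨0, 1, 1⟩, ⟨98, 99, 147⟩, ⟨8886, 9072, 30000⟩, ⟨1467, 1599, 1000⟩⟩ (tC83B.hC2m false (tC83B.pEnd true)) :=
  posD_of_check (c := ⟨431, ⟨2, 7, 16, 10⟩⟩) (by decide +kernel)

def tC83B_c3p10 : PosD ⟨⟨0, 1, 1⟩, ⟨98, 99, 147⟩, ⟨8886, 9072, 30000⟩, ⟨1467, 1599, 1000⟩⟩ (tC83B.hC3p true false) :=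
  posD_of_check (c := ⟨446, ⟨3, 8, 15, 11⟩⟩) (by decide +kernel)

def tC83B_c3m10 : PosD ⟨⟨0, 1, 1⟩, ⟨98, 99, 147⟩, ⟨8886, 9072, 30000⟩, ⟨1467, 1599, 1000⟩⟩ (tC83B.hC3m true false) :=
  posD_of_check (c := ⟨421, ⟨3, 7, 15, 10⟩⟩) (by decide +kernel)

def tC83B_c3ph10 : PosD ⟨⟨0, 1, 1⟩, ⟨98, 99, 147⟩, ⟨8886, 9072, 30000⟩, ⟨1467, 1599, 1000⟩⟩ (tC83B.hC3p' true false) :=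
  posD_of_check (c := ⟨446, ⟨3, 8, 15, 11⟩⟩) (by decide +kernel)

def tC83B_c3mh10 : PosD ⟨⟨0, 1, 1⟩, ⟨98, 99, 147⟩, ⟨8886, 9072, 30000⟩, ⟨1467, 1599, 1000⟩⟩ (tC83B.hC3m' true false) :=
  posD_of_check (c := ⟨421, ⟨3, 7, 15, 10⟩⟩) (by decide +kernel)

def tC83B_up10 : PosD ⟨⟨0, 1, 1⟩, ⟨98, 99, 147⟩, ⟨8886, 9072, 30000⟩, ⟨1467, 1599, 1000⟩⟩ (tC83B.hUp true false) :=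
  posD_of_check (c := ⟨445, ⟨3, 8, 15, 11⟩⟩) (by decide +kernel)

def tC83B_um10 : PosD ⟨⟨0, 1, 1⟩, ⟨98, 99, 147⟩, ⟨8886, 9072, 30000⟩, ⟨1467, 1599, 1000⟩⟩ (tC83B.hUm true false) :=
  posD_of_check (c := ⟨419, ⟨2, 7, 15, 10⟩⟩) (by decide +kernel)

def tC83B_tmg10 : PosD ⟨⟨0, 1, 1⟩, ⟨98, 99, 147⟩, ⟨8886, 9072, 30000⟩, ⟨1467, 1599, 1000⟩⟩ (tC83B.hTMG false (tC83B.pEnd true)) :=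
  posD_of_check (c := ⟨403, ⟨2, 7, 14, 10⟩⟩) (by decide +kernel)

def tC83B_tg11 : PosD ⟨⟨0, 1, 1⟩, ⟨98, 99, 147⟩, ⟨8886, 9072, 30000⟩, ⟨1467, 1599, 1000⟩⟩ (tC83B.hG true (tC83B.pEnd true)) :=
  posD_of_check (c := ⟨388, ⟨2, 7, 14, 9⟩⟩) (by decide +kernel)

def tC83B_c2p11 : PosD ⟨⟨0, 1, 1⟩, ⟨98, 99, 147⟩, ⟨8886, 9072, 30000⟩, ⟨1467, 1599, 1000⟩⟩ (tC83B.hC2p true (tC83B.pEnd true)) :=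
  posD_of_check (c := ⟨460, ⟨3, 8, 16, 11⟩⟩) (by decide +kernel)

def tC83B_c2m11 : PosD ⟨⟨0, 1, 1⟩, ⟨98, 99, 147⟩, ⟨8886, 9072, 30000⟩, ⟨1467, 1599, 1000⟩⟩ (tC83B.hC2m true (tC83B.pEnd true)) :=
  posD_of_check (c := ⟨431, ⟨2, 7, 16, 10⟩⟩) (by decide +kernel)

def tC83B_c3p11 : PosD ⟨⟨0, 1, 1⟩, ⟨98, 99, 147⟩, ⟨8886, 9072, 30000⟩, ⟨1467, 1599, 1000⟩⟩ (tC83B.hC3p true true) :=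
  posD_of_check (c := ⟨446, ⟨3, 8, 15, 11⟩⟩) (by decide +kernel)

def tC83B_c3m11 : PosD ⟨⟨0, 1, 1⟩, ⟨98, 99, 147⟩, ⟨8886, 9072, 30000⟩, ⟨1467, 1599, 1000⟩⟩ (tC83B.hC3m true true) :=
  posD_of_check (c := ⟨421, ⟨3, 7, 15, 10⟩⟩) (by decide +kernel)

def tC83B_c3ph11 : PosD ⟨⟨0, 1, 1⟩, ⟨98, 99, 147⟩, ⟨8886, 9072, 30000⟩, ⟨1467, 1599, 1000⟩⟩ (tC83B.hC3p' true true) :=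
  posD_of_check (c := ⟨446, ⟨3, 8, 15, 11⟩⟩) (by decide +kernel)

def tC83B_c3mh11 : PosD ⟨⟨0, 1, 1⟩, ⟨98, 99, 147⟩, ⟨8886, 9072, 30000⟩, ⟨1467, 1599, 1000⟩⟩ (tC83B.hC3m' true true) :=
  posD_of_check (c := ⟨421, ⟨3, 7, 15, 10⟩⟩) (by decide +kernel)

def tC83B_up11 : PosD ⟨⟨0, 1, 1⟩, ⟨98, 99, 147⟩, ⟨8886, 9072, 30000⟩, ⟨1467, 1599, 1000⟩⟩ (tC83B.hUp true true) :=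
  posD_of_check (c := ⟨445, ⟨3, 8, 15, 11⟩⟩) (by decide +kernel)

def tC83B_um11 : PosD ⟨⟨0, 1, 1⟩, ⟨98, 99, 147⟩, ⟨8886, 9072, 30000⟩, ⟨1467, 1599, 1000⟩⟩ (tC83B.hUm true true) :=
  posD_of_check (c := ⟨419, ⟨2, 7, 15, 10⟩⟩) (by decide +kernel)

def tC83B_tmg11 : PosD ⟨⟨0, 1, 1⟩, ⟨98, 99, 147⟩, ⟨8886, 9072, 30000⟩, ⟨1467, 1599, 1000⟩⟩ (tC83B.hTMG true (tC83B.pEnd true)) :=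
  posD_of_check (c := ⟨403, ⟨2, 7, 14, 10⟩⟩) (by decide +kernel)

/-- The signs of the piece. -/
def tC83B_sign : tC83B.Sign ⟨⟨0, 1, 1⟩, ⟨98, 99, 147⟩, ⟨8886, 9072, 30000⟩, ⟨1467, 1599, 1000⟩⟩ :=
  ⟨tC83B_pp,
    tC83B_k2p,
    tC83B_k2m,
    Bool.forall_bool.2 ⟨(Bool.forall_bool.2 ⟨tC83B_tg00, tC83B_tg01⟩), (Bool.forall_bool.2 ⟨tC83B_tg10, tC83B_tg11⟩)⟩,
    Bool.forall_bool.2 ⟨(Bool.forall_bool.2 ⟨tC83B_c2p00, tC83B_c2p01⟩), (Bool.forall_bool.2 ⟨tC83B_c2p10, tC83B_c2p11⟩)⟩,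
    Bool.forall_bool.2 ⟨(Bool.forall_bool.2 ⟨tC83B_c2m00, tC83B_c2m01⟩), (Bool.forall_bool.2 ⟨tC83B_c2m10, tC83B_c2m11⟩)⟩,
    Bool.forall_bool.2 ⟨tC83B_kap0, tC83B_kap1⟩,
    Bool.forall_bool.2 ⟨tC83B_c10, tC83B_c11⟩,
    Bool.forall_bool.2 ⟨(Bool.forall_bool.2 ⟨tC83B_c3p00, tC83B_c3p01⟩), (Bool.forall_bool.2 ⟨tC83B_c3p10, tC83B_c3p11⟩)⟩,
    Bool.forall_bool.2 ⟨(Bool.forall_bool.2 ⟨tC83B_c3m00, tC83B_c3m01⟩), (Bool.forall_bool.2 ⟨tC83B_c3m10, tC83B_c3m11⟩)⟩,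
    Bool.forall_bool.2 ⟨(Bool.forall_bool.2 ⟨tC83B_tmg00, tC83B_tmg01⟩), (Bool.forall_bool.2 ⟨tC83B_tmg10, tC83B_tmg11⟩)⟩,
    .inr (Bool.forall_bool.2 ⟨⟨tC83B_c1h0, Bool.forall_bool.2 ⟨⟨tC83B_c3ph00, tC83B_c3mh00, tC83B_up00, tC83B_um00⟩, ⟨tC83B_c3ph01, tC83B_c3mh01, tC83B_up01, tC83B_um01⟩⟩⟩, ⟨tC83B_c1h1, Bool.forall_bool.2 ⟨⟨tC83B_c3ph10, tC83B_c3mh10, tC83B_up10, tC83B_um10⟩, ⟨tC83B_c3ph11, tC83B_c3mh11, tC83B_up11, tC83B_um11⟩⟩⟩⟩),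
    tC83B_v2p,
    tC83B_v2m,
    tC83B_v3p,
    tC83B_v3m,
    posD_sub (b := ⟨⟨0, 1, 1⟩, ⟨98, 99, 147⟩, ⟨4050, 10000, 30000⟩, ⟨290, 4000, 1000⟩⟩) (by decide +kernel) tC_vG,
    posD_sub (b := ⟨⟨0, 1, 1⟩, ⟨98, 99, 147⟩, ⟨4050, 10000, 30000⟩, ⟨290, 4000, 1000⟩⟩) (by decide +kernel) tC_vMG,
    posD_sub (b := ⟨⟨0, 1, 1⟩, ⟨98, 99, 147⟩, ⟨4050, 10000, 30000⟩, ⟨290, 4000, 1000⟩⟩) (by decide +kernel) tC_ak,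
    posD_sub (b := ⟨⟨0, 1, 1⟩, ⟨98, 99, 147⟩, ⟨4050, 10000, 30000⟩, ⟨290, 4000, 1000⟩⟩) (by decide +kernel) tC_aw,
    posD_sub (b := ⟨⟨0, 1, 1⟩, ⟨98, 99, 147⟩, ⟨4050, 10000, 30000⟩, ⟨290, 4000, 1000⟩⟩) (by decide +kernel) tC_gk,
    posD_sub (b := ⟨⟨0, 1, 1⟩, ⟨98, 99, 147⟩, ⟨4050, 10000, 30000⟩, ⟨290, 4000, 1000⟩⟩) (by decide +kernel) tC_gw,
    posD_sub (b := ⟨⟨0, 1, 1⟩, ⟨98, 99, 147⟩, ⟨4050, 10000, 30000⟩, ⟨290, 4000, 1000⟩⟩) (by decide +kernel) tC_ek,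
    posD_sub (b := ⟨⟨0, 1, 1⟩, ⟨98, 99, 147⟩, ⟨4050, 10000, 30000⟩, ⟨290, 4000, 1000⟩⟩) (by decide +kernel) tC_ew⟩

end Vale.Agent.P100.Calib.Closed.Six.Tail
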