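import Vale.Agent.P100.Calib.SlabSixTailDataC
import Vale.Agent.P100.Calib.SlabSixTailGlobC

/-!
# Checks of some pieces of the certificate

The checks are written as definitions so that they run one after another, which keeps the memory of the
kernel low.
-/

set_option linter.defProp false

namespace Vale.Agent.P100.Calib.Closed.Six.Tail

open BoxPos Large

local instance sixTailCheckstC56Add : Add Ex := ⟨Ex.add⟩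
local instance sixTailCheckstC56Sub : Sub Ex := ⟨Ex.sub⟩
local instance sixTailCheckstC56Mul : Mul Ex := ⟨Ex.mul⟩

def tC84_phx : PosIf ⟨⟨0, 1, 1⟩, ⟨98, 99, 147⟩, ⟨9072, 9165, 30000⟩, ⟨1467, 1599, 1000⟩⟩ (tC84.u₁ - tC84Lo) (phCn (tC84.u₁ + xO * (tC84Lo - tC84.u₁))) :=
  posIf_of_posD (posD_of_check (c := ⟨109, ⟨2, 0, 4, 2⟩⟩) (by decide +kernel))

def tC84_phd : PosD ⟨⟨0, 1, 1⟩, ⟨98, 99, 147⟩, ⟨9072, 9165, 30000⟩, ⟨1467, 1599, 1000⟩⟩ (phCd (tC84.u₁ + xO * (tC84Lo - tC84.u₁))) :=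
  posD_of_check (c := ⟨51, ⟨1, 0, 2, 1⟩⟩) (by decide +kernel)

def tC84_p0 : PosD ⟨⟨0, 1, 1⟩, ⟨98, 99, 147⟩, ⟨9072, 9165, 30000⟩, ⟨1467, 1599, 1000⟩⟩ (tC84.hP0) :=
  posD_of_check (c := ⟨77, ⟨0, 2, 2, 1⟩⟩) (by decide +kernel)

def tC84_gn : PosD ⟨⟨0, 1, 1⟩, ⟨98, 99, 147⟩, ⟨9072, 9165, 30000⟩, ⟨1467, 1599, 1000⟩⟩ (tC84.hGn) :=
  posD_of_check (c := ⟨69, ⟨1, 1, 2, 2⟩⟩) (by decide +kernel)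

def tC84_den0 : PosD ⟨⟨0, 1, 1⟩, ⟨98, 99, 147⟩, ⟨9072, 9165, 30000⟩, ⟨1467, 1599, 1000⟩⟩ (tC84.hDen false) :=
  posD_of_check (c := ⟨51, ⟨1, 0, 2, 1⟩⟩) (by decide +kernel)

def tC84_den1 : PosD ⟨⟨0, 1, 1⟩, ⟨98, 99, 147⟩, ⟨9072, 9165, 30000⟩, ⟨1467, 1599, 1000⟩⟩ (tC84.hDen true) :=
  posD_of_check (c := ⟨180, ⟨3, 4, 6, 4⟩⟩) (by decide +kernel)

def tC84_ev0 : PosD ⟨⟨0, 1, 1⟩, ⟨98, 99, 147⟩, ⟨9072, 9165, 30000⟩, ⟨1467, 1599, 1000⟩⟩ (tC84.hEv false) :=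
  posD_of_check (c := ⟨220, ⟨4, 2, 8, 4⟩⟩) (by decide +kernel)

def tC84_zL0a : PosD ⟨⟨0, 1, 1⟩, ⟨98, 99, 147⟩, ⟨9072, 9165, 30000⟩, ⟨1467, 1533, 1000⟩⟩ (tC84.hZL false) :=
  posD_of_check (c := ⟨222, ⟨4, 3, 8, 4⟩⟩) (by decide +kernel)

def tC84_zL0ba : PosD ⟨⟨0, 1, 1⟩, ⟨98, 99, 147⟩, ⟨9072, 9165, 30000⟩, ⟨1533, 1566, 1000⟩⟩ (tC84.hZL false) :=
  posD_of_check (c := ⟨222, ⟨4, 3, 8, 4⟩⟩) (by decide +kernel)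

def tC84_zL0bba : PosD ⟨⟨0, 1, 1⟩, ⟨98, 99, 147⟩, ⟨9072, 9165, 30000⟩, ⟨1566, 1582, 1000⟩⟩ (tC84.hZL false) :=
  posD_of_check (c := ⟨222, ⟨4, 3, 8, 4⟩⟩) (by decide +kernel)

def tC84_zL0bbb : PosD ⟨⟨0, 1, 1⟩, ⟨98, 99, 147⟩, ⟨9072, 9165, 30000⟩, ⟨1582, 1599, 1000⟩⟩ (tC84.hZL false) :=
  posD_of_check (c := ⟨222, ⟨4, 3, 8, 4⟩⟩) (by decide +kernel)

def tC84_zL0bb : PosD ⟨⟨0, 1, 1⟩, ⟨98, 99, 147⟩, ⟨9072, 9165, 30000⟩, ⟨1566, 1599, 1000⟩⟩ (tC84.hZL false) :=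
  posD_join₃ tC84_zL0bba tC84_zL0bbb

def tC84_zL0b : PosD ⟨⟨0, 1, 1⟩, ⟨98, 99, 147⟩, ⟨9072, 9165, 30000⟩, ⟨1533, 1599, 1000⟩⟩ (tC84.hZL false) :=
  posD_join₃ tC84_zL0ba tC84_zL0bb

def tC84_zL0 : PosD ⟨⟨0, 1, 1⟩, ⟨98, 99, 147⟩, ⟨9072, 9165, 30000⟩, ⟨1467, 1599, 1000⟩⟩ (tC84.hZL false) :=
  posD_join₃ tC84_zL0a tC84_zL0b

def tC84_zU0aa : PosD ⟨⟨0, 1, 1⟩, ⟨98, 99, 147⟩, ⟨9072, 9165, 30000⟩, ⟨1467, 1500, 1000⟩⟩ (tC84.hZU false) :=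
  posD_of_check (c := ⟨222, ⟨4, 3, 8, 4⟩⟩) (by decide +kernel)

def tC84_zU0ab : PosD ⟨⟨0, 1, 1⟩, ⟨98, 99, 147⟩, ⟨9072, 9165, 30000⟩, ⟨1500, 1533, 1000⟩⟩ (tC84.hZU false) :=
  posD_of_check (c := ⟨222, ⟨4, 3, 8, 4⟩⟩) (by decide +kernel)

def tC84_zU0a : PosD ⟨⟨0, 1, 1⟩, ⟨98, 99, 147⟩, ⟨9072, 9165, 30000⟩, ⟨1467, 1533, 1000⟩⟩ (tC84.hZU false) :=
  posD_join₃ tC84_zU0aa tC84_zU0ab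

def tC84_zU0b : PosD ⟨⟨0, 1, 1⟩, ⟨98, 99, 147⟩, ⟨9072, 9165, 30000⟩, ⟨1533, 1599, 1000⟩⟩ (tC84.hZU false) :=
  posD_of_check (c := ⟨222, ⟨4, 3, 8, 4⟩⟩) (by decide +kernel)

def tC84_zU0 : PosD ⟨⟨0, 1, 1⟩, ⟨98, 99, 147⟩, ⟨9072, 9165, 30000⟩, ⟨1467, 1599, 1000⟩⟩ (tC84.hZU false) :=
  posD_join₃ tC84_zU0a tC84_zU0b

def tC84_eL0 : PosD ⟨⟨0, 1, 1⟩, ⟨98, 99, 147⟩, ⟨9072, 9165, 30000⟩, ⟨1467, 1599, 1000⟩⟩ (tC84.hEL false) :=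
  posD_of_check (c := ⟨311, ⟨5, 6, 10, 6⟩⟩) (by decide +kernel)

def tC84_eH0 : PosD ⟨⟨0, 1, 1⟩, ⟨98, 99, 147⟩, ⟨9072, 9165, 30000⟩, ⟨1467, 1599, 1000⟩⟩ (tC84.hEH false) :=
  posD_of_check (c := ⟨345, ⟨5, 6, 11, 7⟩⟩) (by decide +kernel)

def tC84_pL0 : PosD ⟨⟨0, 1, 1⟩, ⟨98, 99, 147⟩, ⟨9072, 9165, 30000⟩, ⟨1467, 1599, 1000⟩⟩ (tC84.hPL false) :=
  posD_of_check (c := ⟨343, ⟨5, 6, 11, 7⟩⟩) (by decide +kernel)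

def tC84_pU0 : PosD ⟨⟨0, 1, 1⟩, ⟨98, 99, 147⟩, ⟨9072, 9165, 30000⟩, ⟨1467, 1599, 1000⟩⟩ (tC84.hPU false) :=
  posD_of_check (c := ⟨342, ⟨5, 6, 11, 7⟩⟩) (by decide +kernel)

def tC84_kU0 : PosD ⟨⟨0, 1, 1⟩, ⟨98, 99, 147⟩, ⟨9072, 9165, 30000⟩, ⟨1467, 1599, 1000⟩⟩ (tC84.hKU false) :=
  posD_of_check (c := ⟨340, ⟨5, 6, 11, 7⟩⟩) (by decide +kernel)

def tC84_kL0 : PosD ⟨⟨0, 1, 1⟩, ⟨98, 99, 147⟩, ⟨9072, 9165, 30000⟩, ⟨1467, 1599, 1000⟩⟩ (tC84.hKL false) :=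
  posD_of_check (c := ⟨337, ⟨5, 6, 11, 7⟩⟩) (by decide +kernel)

def tC84_wU0 : PosD ⟨⟨0, 1, 1⟩, ⟨98, 99, 147⟩, ⟨9072, 9165, 30000⟩, ⟨1467, 1599, 1000⟩⟩ (tC84.hWU false) :=
  posD_of_check (c := ⟨372, ⟨5, 8, 12, 7⟩⟩) (by decide +kernel)

def tC84_wL0 : PosD ⟨⟨0, 1, 1⟩, ⟨98, 99, 147⟩, ⟨9072, 9165, 30000⟩, ⟨1467, 1599, 1000⟩⟩ (tC84.hWL false) :=
  posD_of_check (c := ⟨384, ⟨5, 8, 12, 7⟩⟩) (by decide +kernel)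

def tC84_ev1 : PosD ⟨⟨0, 1, 1⟩, ⟨98, 99, 147⟩, ⟨9072, 9165, 30000⟩, ⟨1467, 1599, 1000⟩⟩ (tC84.hEv true) :=
  posD_of_check (c := ⟨273, ⟨4, 6, 9, 6⟩⟩) (by decide +kernel)

def tC84_zL1aaa : PosD ⟨⟨0, 1, 1⟩, ⟨98, 99, 147⟩, ⟨9072, 9165, 30000⟩, ⟨1467, 1483, 1000⟩⟩ (tC84.hZL true) :=
  posD_of_check (c := ⟨293, ⟨4, 7, 9, 7⟩⟩) (by decide +kernel)

def tC84_zL1aaba : PosD ⟨⟨0, 1, 1⟩, ⟨98, 99, 147⟩, ⟨9072, 9165, 30000⟩, ⟨1483, 1491, 1000⟩⟩ (tC84.hZL true) :=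
  posD_of_check (c := ⟨293, ⟨4, 7, 9, 7⟩⟩) (by decide +kernel)

def tC84_zL1aabb : PosD ⟨⟨0, 1, 1⟩, ⟨98, 99, 147⟩, ⟨9072, 9165, 30000⟩, ⟨1491, 1500, 1000⟩⟩ (tC84.hZL true) :=
  posD_of_check (c := ⟨293, ⟨4, 7, 9, 7⟩⟩) (by decide +kernel)

def tC84_zL1aab : PosD ⟨⟨0, 1, 1⟩, ⟨98, 99, 147⟩, ⟨9072, 9165, 30000⟩, ⟨1483, 1500, 1000⟩⟩ (tC84.hZL true) :=
  posD_join₃ tC84_zL1aaba tC84_zL1aabb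

def tC84_zL1aa : PosD ⟨⟨0, 1, 1⟩, ⟨98, 99, 147⟩, ⟨9072, 9165, 30000⟩, ⟨1467, 1500, 1000⟩⟩ (tC84.hZL true) :=
  posD_join₃ tC84_zL1aaa tC84_zL1aab

def tC84_zL1ab : PosD ⟨⟨0, 1, 1⟩, ⟨98, 99, 147⟩, ⟨9072, 9165, 30000⟩, ⟨1500, 1533, 1000⟩⟩ (tC84.hZL true) :=
  posD_of_check (c := ⟨293, ⟨4, 7, 9, 7⟩⟩) (by decide +kernel)

def tC84_zL1a : PosD ⟨⟨0, 1, 1⟩, ⟨98, 99, 147⟩, ⟨9072, 9165, 30000⟩, ⟨1467, 1533, 1000⟩⟩ (tC84.hZL true) :=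
  posD_join₃ tC84_zL1aa tC84_zL1ab

def tC84_zL1b : PosD ⟨⟨0, 1, 1⟩, ⟨98, 99, 147⟩, ⟨9072, 9165, 30000⟩, ⟨1533, 1599, 1000⟩⟩ (tC84.hZL true) :=
  posD_of_check (c := ⟨293, ⟨4, 7, 9, 7⟩⟩) (by decide +kernel)

def tC84_zL1 : PosD ⟨⟨0, 1, 1⟩, ⟨98, 99, 147⟩, ⟨9072, 9165, 30000⟩, ⟨1467, 1599, 1000⟩⟩ (tC84.hZL true) :=
  posD_join₃ tC84_zL1a tC84_zL1b

def tC84_zU1a : PosD ⟨⟨0, 1, 1⟩, ⟨98, 99, 147⟩, ⟨9072, 9165, 30000⟩, ⟨1467, 1533, 1000⟩⟩ (tC84.hZU true) :=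
  posD_of_check (c := ⟨293, ⟨4, 7, 9, 7⟩⟩) (by decide +kernel)

def tC84_zU1ba : PosD ⟨⟨0, 1, 1⟩, ⟨98, 99, 147⟩, ⟨9072, 9165, 30000⟩, ⟨1533, 1566, 1000⟩⟩ (tC84.hZU true) :=
  posD_of_check (c := ⟨293, ⟨4, 7, 9, 7⟩⟩) (by decide +kernel)

def tC84_zU1bb : PosD ⟨⟨0, 1, 1⟩, ⟨98, 99, 147⟩, ⟨9072, 9165, 30000⟩, ⟨1566, 1599, 1000⟩⟩ (tC84.hZU true) :=
  posD_of_check (c := ⟨293, ⟨4, 7, 9, 7⟩⟩) (by decide +kernel)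

def tC84_zU1b : PosD ⟨⟨0, 1, 1⟩, ⟨98, 99, 147⟩, ⟨9072, 9165, 30000⟩, ⟨1533, 1599, 1000⟩⟩ (tC84.hZU true) :=
  posD_join₃ tC84_zU1ba tC84_zU1bb

def tC84_zU1 : PosD ⟨⟨0, 1, 1⟩, ⟨98, 99, 147⟩, ⟨9072, 9165, 30000⟩, ⟨1467, 1599, 1000⟩⟩ (tC84.hZU true) :=
  posD_join₃ tC84_zU1a tC84_zU1b

def tC84_eL1 : PosD ⟨⟨0, 1, 1⟩, ⟨98, 99, 147⟩, ⟨9072, 9165, 30000⟩, ⟨1467, 1599, 1000⟩⟩ (tC84.hEL true) :=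
  posD_of_check (c := ⟨365, ⟨5, 10, 11, 8⟩⟩) (by decide +kernel)

def tC84_eH1 : PosD ⟨⟨0, 1, 1⟩, ⟨98, 99, 147⟩, ⟨9072, 9165, 30000⟩, ⟨1467, 1599, 1000⟩⟩ (tC84.hEH true) :=
  posD_of_check (c := ⟨398, ⟨5, 10, 12, 9⟩⟩) (by decide +kernel)

def tC84_pL1 : PosD ⟨⟨0, 1, 1⟩, ⟨98, 99, 147⟩, ⟨9072, 9165, 30000⟩, ⟨1467, 1599, 1000⟩⟩ (tC84.hPL true) :=
  posD_of_check (c := ⟨397, ⟨5, 10, 12, 9⟩⟩) (by decide +kernel)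

def tC84_pU1 : PosD ⟨⟨0, 1, 1⟩, ⟨98, 99, 147⟩, ⟨9072, 9165, 30000⟩, ⟨1467, 1599, 1000⟩⟩ (tC84.hPU true) :=
  posD_of_check (c := ⟨395, ⟨5, 10, 12, 9⟩⟩) (by decide +kernel)

def tC84_kU1 : PosD ⟨⟨0, 1, 1⟩, ⟨98, 99, 147⟩, ⟨9072, 9165, 30000⟩, ⟨1467, 1599, 1000⟩⟩ (tC84.hKU true) :=
  posD_of_check (c := ⟨393, ⟨5, 10, 12, 9⟩⟩) (by decide +kernel)

def tC84_kL1 : PosD ⟨⟨0, 1, 1⟩, ⟨98, 99, 147⟩, ⟨9072, 9165, 30000⟩, ⟨1467, 1599, 1000⟩⟩ (tC84.hKL true) :=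
  posD_of_check (c := ⟨391, ⟨5, 10, 12, 9⟩⟩) (by decide +kernel)

def tC84_wU1 : PosD ⟨⟨0, 1, 1⟩, ⟨98, 99, 147⟩, ⟨9072, 9165, 30000⟩, ⟨1467, 1599, 1000⟩⟩ (tC84.hWU true) :=
  posD_of_check (c := ⟨425, ⟨5, 12, 13, 9⟩⟩) (by decide +kernel)

def tC84_wL1 : PosD ⟨⟨0, 1, 1⟩, ⟨98, 99, 147⟩, ⟨9072, 9165, 30000⟩, ⟨1467, 1599, 1000⟩⟩ (tC84.hWL true) :=
  posD_of_check (c := ⟨437, ⟨5, 12, 13, 9⟩⟩) (by decide +kernel)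

def tC84_nueH : PosD ⟨⟨0, 1, 1⟩, ⟨98, 99, 147⟩, ⟨9072, 9165, 30000⟩, ⟨1467, 1599, 1000⟩⟩ (tC84.eH.ν) :=
  posD_of_check (c := ⟨45, ⟨0, 0, 1, 1⟩⟩) (by decide +kernel)

def tC84_nuwL : PosD ⟨⟨0, 1, 1⟩, ⟨98, 99, 147⟩, ⟨9072, 9165, 30000⟩, ⟨1467, 1599, 1000⟩⟩ (tC84.wL.ν) :=
  posD_of_check (c := ⟨52, ⟨0, 0, 1, 1⟩⟩) (by decide +kernel)

/-- The bounds of the piece. -/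
def tC84_env : tC84.Env ⟨⟨0, 1, 1⟩, ⟨98, 99, 147⟩, ⟨9072, 9165, 30000⟩, ⟨1467, 1599, 1000⟩⟩ :=
  ⟨tC84_p0, Bool.forall_bool.2 ⟨tC84_den0, tC84_den1⟩, tC84_gn, Bool.forall_bool.2 ⟨tC84_ev0, tC84_ev1⟩, Bool.forall_bool.2 ⟨tC84_zL0, tC84_zL1⟩, Bool.forall_bool.2 ⟨tC84_zU0, tC84_zU1⟩, Bool.forall_bool.2 ⟨tC84_eL0, tC84_eL1⟩, ⟨.inr rfl, .inr rfl⟩, Bool.forall_bool.2 ⟨tC84_eH0, tC84_eH1⟩, ⟨.inr rfl, .inl tC84_nueH⟩, Bool.forall_bool.2 ⟨tC84_pL0, tC84_pL1⟩, ⟨.inr rfl, .inr rfl⟩, Bool.forall_bool.2 ⟨tC84_pU0, tC84_pU1⟩, ⟨.inr rfl, .inr rfl⟩, Bool.forall_bool.2 ⟨tC84_kU0, tC84_kU1⟩, ⟨.inr rfl, .inr rfl⟩, Bool.forall_bool.2 ⟨tC84_kL0, tC84_kL1⟩, ⟨.inr rfl, .inr rfl⟩, Bool.forall_bool.2 ⟨tC84_wU0, tC84_wU1⟩, ⟨.inr rfl, .inr rfl⟩,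 Bool.forall_bool.2 ⟨tC84_wL0, tC84_wL1⟩, ⟨.inr rfl, .inl tC84_nuwL⟩⟩

def tC84_pU20 : PosD ⟨⟨0, 1, 1⟩, ⟨98, 99, 147⟩, ⟨9072, 9165, 30000⟩, ⟨1467, 1599, 1000⟩⟩ (({ tC84 with pU := tC84PU } : Piece).hPU false) :=
  posD_of_check (c := ⟨350, ⟨5, 6, 11, 7⟩⟩) (by decide +kernel)

def tC84_pU21 : PosD ⟨⟨0, 1, 1⟩, ⟨98, 99, 147⟩, ⟨9072, 9165, 30000⟩, ⟨1467, 1599, 1000⟩⟩ (({ tC84 with pU := tC84PU } : Piece).hPU true) :=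
  posD_of_check (c := ⟨404, ⟨5, 10, 12, 9⟩⟩) (by decide +kernel)

def tC84_nupU2 : PosD ⟨⟨0, 1, 1⟩, ⟨98, 99, 147⟩, ⟨9072, 9165, 30000⟩, ⟨1467, 1599, 1000⟩⟩ (tC84PU.ν) :=
  posD_of_check (c := ⟨49, ⟨0, 0, 1, 1⟩⟩) (by decide +kernel)

/-- The bounds with the other bound of `p`. -/
def tC84_envU : ({ tC84 with pU := tC84PU } : Piece).Env ⟨⟨0, 1, 1⟩, ⟨98, 99, 147⟩, ⟨9072, 9165, 30000⟩, ⟨1467, 1599, 1000⟩⟩ :=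
  tC84_env.withU tC84PU (Bool.forall_bool.2 ⟨tC84_pU20, tC84_pU21⟩) ⟨.inr rfl, .inl tC84_nupU2⟩

def tC84A_pp : PosD ⟨⟨0, 1, 1⟩, ⟨98, 99, 147⟩, ⟨9072, 9165, 30000⟩, ⟨1467, 1599, 1000⟩⟩ (tC84A.xPL) :=
  posD_of_check (c := ⟨101, ⟨1, 1, 3, 3⟩⟩) (by decide +kernel)

def tC84A_k2p : PosD ⟨⟨0, 1, 1⟩, ⟨98, 99, 147⟩, ⟨9072, 9165, 30000⟩, ⟨1467, 1599, 1000⟩⟩ (tC84A.k2p tC84A.xE) :=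
  posD_of_check (c := ⟨75, ⟨1, 1, 2, 2⟩⟩) (by decide +kernel)

def tC84A_k2m : PosD ⟨⟨0, 1, 1⟩, ⟨98, 99, 147⟩, ⟨9072, 9165, 30000⟩, ⟨1467, 1599, 1000⟩⟩ (tC84A.k2m tC84A.xE) :=
  posD_of_check (c := ⟨31, ⟨0, 0, 1, 1⟩⟩) (by decide +kernel)

def tC84A_v2p : PosD ⟨⟨0, 1, 1⟩, ⟨98, 99, 147⟩, ⟨9072, 9165, 30000⟩, ⟨1467, 1599, 1000⟩⟩ (tC84A.hV2p) :=
  posD_of_check (c := ⟨277, ⟨1, 6, 10, 5⟩⟩) (by decide +kernel)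

def tC84A_v2m : PosD ⟨⟨0, 1, 1⟩, ⟨98, 99, 147⟩, ⟨9072, 9165, 30000⟩, ⟨1467, 1599, 1000⟩⟩ (tC84A.hV2m) :=
  posD_of_check (c := ⟨245, ⟨0, 5, 10, 4⟩⟩) (by decide +kernel)

def tC84A_v3p : PosD ⟨⟨0, 1, 1⟩, ⟨98, 99, 147⟩, ⟨9072, 9165, 30000⟩, ⟨1467, 1599, 1000⟩⟩ (tC84A.hV3p) :=
  posD_of_check (c := ⟨261, ⟨1, 6, 9, 5⟩⟩) (by decide +kernel)

def tC84A_v3m : PosD ⟨⟨0, 1, 1⟩, ⟨98, 99, 147⟩, ⟨9072, 9165, 30000⟩, ⟨1467, 1599, 1000⟩⟩ (tC84A.hV3m) :=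
  posD_of_check (c := ⟨232, ⟨0, 5, 9, 4⟩⟩) (by decide +kernel)

def tC84A_kap0 : PosD ⟨⟨0, 1, 1⟩, ⟨98, 99, 147⟩, ⟨9072, 9165, 30000⟩, ⟨1467, 1599, 1000⟩⟩ (tC84A.kap false) :=
  posD_of_check (c := ⟨74, ⟨1, 1, 2, 2⟩⟩) (by decide +kernel)

def tC84A_c10 : PosD ⟨⟨0, 1, 1⟩, ⟨98, 99, 147⟩, ⟨9072, 9165, 30000⟩, ⟨1467, 1599, 1000⟩⟩ (tC84A.hC1 false) :=
  posD_of_check (c := ⟨285, ⟨3, 5, 9, 7⟩⟩) (by decide +kernel)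

def tC84A_c1h0a : PosD ⟨⟨0, 1, 1⟩, ⟨98, 99, 147⟩, ⟨9072, 9118, 30000⟩, ⟨1467, 1599, 1000⟩⟩ (tC84A.hC1' false) :=
  posD_of_check (c := ⟨285, ⟨3, 5, 9, 7⟩⟩) (by decide +kernel)

def tC84A_c1h0ba : PosD ⟨⟨0, 1, 1⟩, ⟨98, 99, 147⟩, ⟨9118, 9165, 30000⟩, ⟨1467, 1533, 1000⟩⟩ (tC84A.hC1' false) :=
  posD_of_check (c := ⟨285, ⟨3, 5, 9, 7⟩⟩) (by decide +kernel)

def tC84A_c1h0bba : PosD ⟨⟨0, 1, 1⟩, ⟨98, 99, 147⟩, ⟨9118, 9165, 30000⟩, ⟨1533, 1566, 1000⟩⟩ (tC84A.hC1' false) :=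
  posD_of_check (c := ⟨285, ⟨3, 5, 9, 7⟩⟩) (by decide +kernel)

def tC84A_c1h0bbba : PosD ⟨⟨0, 1, 1⟩, ⟨98, 99, 147⟩, ⟨9118, 9165, 30000⟩, ⟨1566, 1582, 1000⟩⟩ (tC84A.hC1' false) :=
  posD_of_check (c := ⟨285, ⟨3, 5, 9, 7⟩⟩) (by decide +kernel)

def tC84A_c1h0bbbba : PosD ⟨⟨0, 1, 1⟩, ⟨98, 99, 147⟩, ⟨9118, 9165, 30000⟩, ⟨1582, 1590, 1000⟩⟩ (tC84A.hC1' false) :=
  posD_of_check (c := ⟨285, ⟨3, 5, 9, 7⟩⟩) (by decide +kernel)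

def tC84A_c1h0bbbbb : PosD ⟨⟨0, 1, 1⟩, ⟨98, 99, 147⟩, ⟨9118, 9165, 30000⟩, ⟨1590, 1599, 1000⟩⟩ (tC84A.hC1' false) :=
  posD_of_relax (k₁ := 335) (k₂ := 0) (k₃ := 0) (n := 16) (posD_of_check (c := ⟨285, ⟨3, 5, 9, 7⟩⟩) (by decide +kernel))

def tC84A_c1h0bbbb : PosD ⟨⟨0, 1, 1⟩, ⟨98, 99, 147⟩, ⟨9118, 9165, 30000⟩, ⟨1582, 1599, 1000⟩⟩ (tC84A.hC1' false) :=
  posD_join₃ tC84A_c1h0bbbba tC84A_c1h0bbbbb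

def tC84A_c1h0bbb : PosD ⟨⟨0, 1, 1⟩, ⟨98, 99, 147⟩, ⟨9118, 9165, 30000⟩, ⟨1566, 1599, 1000⟩⟩ (tC84A.hC1' false) :=
  posD_join₃ tC84A_c1h0bbba tC84A_c1h0bbbb

def tC84A_c1h0bb : PosD ⟨⟨0, 1, 1⟩, ⟨98, 99, 147⟩, ⟨9118, 9165, 30000⟩, ⟨1533, 1599, 1000⟩⟩ (tC84A.hC1' false) :=
  posD_join₃ tC84A_c1h0bba tC84A_c1h0bbb

def tC84A_c1h0b : PosD ⟨⟨0, 1, 1⟩, ⟨98, 99, 147⟩, ⟨9118, 9165, 30000⟩, ⟨1467, 1599, 1000⟩⟩ (tC84A.hC1' false) :=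
  posD_join₃ tC84A_c1h0ba tC84A_c1h0bb

def tC84A_c1h0 : PosD ⟨⟨0, 1, 1⟩, ⟨98, 99, 147⟩, ⟨9072, 9165, 30000⟩, ⟨1467, 1599, 1000⟩⟩ (tC84A.hC1' false) :=
  posD_join₂ tC84A_c1h0a tC84A_c1h0b

def tC84A_tg00 : PosD ⟨⟨0, 1, 1⟩, ⟨98, 99, 147⟩, ⟨9072, 9165, 30000⟩, ⟨1467, 1599, 1000⟩⟩ (tC84A.hG false (tC84A.pEnd false)) :=
  posD_of_check (c := ⟨399, ⟨2, 7, 14, 9⟩⟩) (by decide +kernel)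

def tC84A_c2p00 : PosD ⟨⟨0, 1, 1⟩, ⟨98, 99, 147⟩, ⟨9072, 9165, 30000⟩, ⟨1467, 1599, 1000⟩⟩ (tC84A.hC2p false (tC84A.pEnd false)) :=
  posD_of_check (c := ⟨473, ⟨3, 8, 16, 11⟩⟩) (by decide +kernel)

def tC84A_c2m00 : PosD ⟨⟨0, 1, 1⟩, ⟨98, 99, 147⟩, ⟨9072, 9165, 30000⟩, ⟨1467, 1599, 1000⟩⟩ (tC84A.hC2m false (tC84A.pEnd false)) :=
  posD_of_check (c := ⟨442, ⟨2, 7, 16, 10⟩⟩) (by decide +kernel)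

def tC84A_c3p00 : PosD ⟨⟨0, 1, 1⟩, ⟨98, 99, 147⟩, ⟨9072, 9165, 30000⟩, ⟨1467, 1599, 1000⟩⟩ (tC84A.hC3p false false) :=
  posD_of_check (c := ⟨458, ⟨3, 8, 15, 11⟩⟩) (by decide +kernel)

def tC84A_c3m00 : PosD ⟨⟨0, 1, 1⟩, ⟨98, 99, 147⟩, ⟨9072, 9165, 30000⟩, ⟨1467, 1599, 1000⟩⟩ (tC84A.hC3m false false) :=
  posD_of_check (c := ⟨433, ⟨3, 7, 15, 10⟩⟩) (by decide +kernel)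

def tC84A_c3ph00 : PosD ⟨⟨0, 1, 1⟩, ⟨98, 99, 147⟩, ⟨9072, 9165, 30000⟩, ⟨1467, 1599, 1000⟩⟩ (tC84A.hC3p' false false) :=
  posD_of_check (c := ⟨458, ⟨3, 8, 15, 11⟩⟩) (by decide +kernel)

def tC84A_c3mh00 : PosD ⟨⟨0, 1, 1⟩, ⟨98, 99, 147⟩, ⟨9072, 9165, 30000⟩, ⟨1467, 1599, 1000⟩⟩ (tC84A.hC3m' false false) :=
  posD_of_check (c := ⟨433, ⟨3, 7, 15, 10⟩⟩) (by decide +kernel)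

def tC84A_up00 : PosD ⟨⟨0, 1, 1⟩, ⟨98, 99, 147⟩, ⟨9072, 9165, 30000⟩, ⟨1467, 1599, 1000⟩⟩ (tC84A.hUp false false) :=
  posD_of_check (c := ⟨458, ⟨3, 8, 15, 11⟩⟩) (by decide +kernel)

def tC84A_um00 : PosD ⟨⟨0, 1, 1⟩, ⟨98, 99, 147⟩, ⟨9072, 9165, 30000⟩, ⟨1467, 1599, 1000⟩⟩ (tC84A.hUm false false) :=
  posD_of_check (c := ⟨429, ⟨2, 7, 15, 10⟩⟩) (by decide +kernel)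

def tC84A_tmg00 : PosD ⟨⟨0, 1, 1⟩, ⟨98, 99, 147⟩, ⟨9072, 9165, 30000⟩, ⟨1467, 1599, 1000⟩⟩ (tC84A.hTMG false (tC84A.pEnd false)) :=
  posD_of_check (c := ⟨411, ⟨2, 7, 14, 10⟩⟩) (by decide +kernel)

def tC84A_tg01 : PosD ⟨⟨0, 1, 1⟩, ⟨98, 99, 147⟩, ⟨9072, 9165, 30000⟩, ⟨1467, 1599, 1000⟩⟩ (tC84A.hG true (tC84A.pEnd false)) :=
  posD_of_check (c := ⟨399, ⟨2, 7, 14, 9⟩⟩) (by decide +kernel)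

def tC84A_c2p01 : PosD ⟨⟨0, 1, 1⟩, ⟨98, 99, 147⟩, ⟨9072, 9165, 30000⟩, ⟨1467, 1599, 1000⟩⟩ (tC84A.hC2p true (tC84A.pEnd false)) :=
  posD_of_check (c := ⟨473, ⟨3, 8, 16, 11⟩⟩) (by decide +kernel)

def tC84A_c2m01 : PosD ⟨⟨0, 1, 1⟩, ⟨98, 99, 147⟩, ⟨9072, 9165, 30000⟩, ⟨1467, 1599, 1000⟩⟩ (tC84A.hC2m true (tC84A.pEnd false)) :=
  posD_of_check (c := ⟨442, ⟨2, 7, 16, 10⟩⟩) (by decide +kernel)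

def tC84A_c3p01 : PosD ⟨⟨0, 1, 1⟩, ⟨98, 99, 147⟩, ⟨9072, 9165, 30000⟩, ⟨1467, 1599, 1000⟩⟩ (tC84A.hC3p false true) :=
  posD_of_check (c := ⟨458, ⟨3, 8, 15, 11⟩⟩) (by decide +kernel)

def tC84A_c3m01 : PosD ⟨⟨0, 1, 1⟩, ⟨98, 99, 147⟩, ⟨9072, 9165, 30000⟩, ⟨1467, 1599, 1000⟩⟩ (tC84A.hC3m false true) :=
  posD_of_check (c := ⟨433, ⟨3, 7, 15, 10⟩⟩) (by decide +kernel)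

def tC84A_c3ph01 : PosD ⟨⟨0, 1, 1⟩, ⟨98, 99, 147⟩, ⟨9072, 9165, 30000⟩, ⟨1467, 1599, 1000⟩⟩ (tC84A.hC3p' false true) :=
  posD_of_check (c := ⟨458, ⟨3, 8, 15, 11⟩⟩) (by decide +kernel)

def tC84A_c3mh01 : PosD ⟨⟨0, 1, 1⟩, ⟨98, 99, 147⟩, ⟨9072, 9165, 30000⟩, ⟨1467, 1599, 1000⟩⟩ (tC84A.hC3m' false true) :=
  posD_of_check (c := ⟨433, ⟨3, 7, 15, 10⟩⟩) (by decide +kernel)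

def tC84A_up01 : PosD ⟨⟨0, 1, 1⟩, ⟨98, 99, 147⟩, ⟨9072, 9165, 30000⟩, ⟨1467, 1599, 1000⟩⟩ (tC84A.hUp false true) :=
  posD_of_check (c := ⟨458, ⟨3, 8, 15, 11⟩⟩) (by decide +kernel)

def tC84A_um01 : PosD ⟨⟨0, 1, 1⟩, ⟨98, 99, 147⟩, ⟨9072, 9165, 30000⟩, ⟨1467, 1599, 1000⟩⟩ (tC84A.hUm false true) :=
  posD_of_check (c := ⟨429, ⟨2, 7, 15, 10⟩⟩) (by decide +kernel)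

def tC84A_tmg01 : PosD ⟨⟨0, 1, 1⟩, ⟨98, 99, 147⟩, ⟨9072, 9165, 30000⟩, ⟨1467, 1599, 1000⟩⟩ (tC84A.hTMG true (tC84A.pEnd false)) :=
  posD_of_check (c := ⟨411, ⟨2, 7, 14, 10⟩⟩) (by decide +kernel)

def tC84A_kap1 : PosD ⟨⟨0, 1, 1⟩, ⟨98, 99, 147⟩, ⟨9072, 9165, 30000⟩, ⟨1467, 1599, 1000⟩⟩ (tC84A.kap true) :=
  posD_of_check (c := ⟨74, ⟨1, 1, 2, 2⟩⟩) (by decide +kernel)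

def tC84A_c11 : PosD ⟨⟨0, 1, 1⟩, ⟨98, 99, 147⟩, ⟨9072, 9165, 30000⟩, ⟨1467, 1599, 1000⟩⟩ (tC84A.hC1 true) :=
  posD_of_check (c := ⟨284, ⟨3, 5, 9, 7⟩⟩) (by decide +kernel)

def tC84A_c1h1 : PosD ⟨⟨0, 1, 1⟩, ⟨98, 99, 147⟩, ⟨9072, 9165, 30000⟩, ⟨1467, 1599, 1000⟩⟩ (tC84A.hC1' true) :=
  posD_of_check (c := ⟨284, ⟨3, 5, 9, 7⟩⟩) (by decide +kernel)

def tC84A_tg10 : PosD ⟨⟨0, 1, 1⟩, ⟨98, 99, 147⟩, ⟨9072, 9165, 30000⟩, ⟨1467, 1599, 1000⟩⟩ (tC84A.hG false (tC84A.pEnd true)) :=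
  posD_of_check (c := ⟨396, ⟨2, 7, 14, 9⟩⟩) (by decide +kernel)

def tC84A_c2p10 : PosD ⟨⟨0, 1, 1⟩, ⟨98, 99, 147⟩, ⟨9072, 9165, 30000⟩, ⟨1467, 1599, 1000⟩⟩ (tC84A.hC2p false (tC84A.pEnd true)) :=
  posD_of_check (c := ⟨471, ⟨3, 8, 16, 11⟩⟩) (by decide +kernel)

def tC84A_c2m10 : PosD ⟨⟨0, 1, 1⟩, ⟨98, 99, 147⟩, ⟨9072, 9165, 30000⟩, ⟨1467, 1599, 1000⟩⟩ (tC84A.hC2m false (tC84A.pEnd true)) :=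
  posD_of_check (c := ⟨439, ⟨2, 7, 16, 10⟩⟩) (by decide +kernel)

def tC84A_c3p10 : PosD ⟨⟨0, 1, 1⟩, ⟨98, 99, 147⟩, ⟨9072, 9165, 30000⟩, ⟨1467, 1599, 1000⟩⟩ (tC84A.hC3p true false) :=
  posD_of_check (c := ⟨456, ⟨3, 8, 15, 11⟩⟩) (by decide +kernel)

def tC84A_c3m10 : PosD ⟨⟨0, 1, 1⟩, ⟨98, 99, 147⟩, ⟨9072, 9165, 30000⟩, ⟨1467, 1599, 1000⟩⟩ (tC84A.hC3m true false) :=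
  posD_of_check (c := ⟨431, ⟨3, 7, 15, 10⟩⟩) (by decide +kernel)

def tC84A_c3ph10 : PosD ⟨⟨0, 1, 1⟩, ⟨98, 99, 147⟩, ⟨9072, 9165, 30000⟩, ⟨1467, 1599, 1000⟩⟩ (tC84A.hC3p' true false) :=
  posD_of_check (c := ⟨456, ⟨3, 8, 15, 11⟩⟩) (by decide +kernel)

def tC84A_c3mh10 : PosD ⟨⟨0, 1, 1⟩, ⟨98, 99, 147⟩, ⟨9072, 9165, 30000⟩, ⟨1467, 1599, 1000⟩⟩ (tC84A.hC3m' true false) :=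
  posD_of_check (c := ⟨431, ⟨3, 7, 15, 10⟩⟩) (by decide +kernel)

def tC84A_up10 : PosD ⟨⟨0, 1, 1⟩, ⟨98, 99, 147⟩, ⟨9072, 9165, 30000⟩, ⟨1467, 1599, 1000⟩⟩ (tC84A.hUp true false) :=
  posD_of_check (c := ⟨455, ⟨3, 8, 15, 11⟩⟩) (by decide +kernel)

def tC84A_um10 : PosD ⟨⟨0, 1, 1⟩, ⟨98, 99, 147⟩, ⟨9072, 9165, 30000⟩, ⟨1467, 1599, 1000⟩⟩ (tC84A.hUm true false) :=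
  posD_of_check (c := ⟨426, ⟨2, 7, 15, 10⟩⟩) (by decide +kernel)

def tC84A_tmg10 : PosD ⟨⟨0, 1, 1⟩, ⟨98, 99, 147⟩, ⟨9072, 9165, 30000⟩, ⟨1467, 1599, 1000⟩⟩ (tC84A.hTMG false (tC84A.pEnd true)) :=
  posD_of_check (c := ⟨409, ⟨2, 7, 14, 10⟩⟩) (by decide +kernel)

def tC84A_tg11 : PosD ⟨⟨0, 1, 1⟩, ⟨98, 99, 147⟩, ⟨9072, 9165, 30000⟩, ⟨1467, 1599, 1000⟩⟩ (tC84A.hG true (tC84A.pEnd true)) :=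
  posD_of_check (c := ⟨396, ⟨2, 7, 14, 9⟩⟩) (by decide +kernel)

def tC84A_c2p11 : PosD ⟨⟨0, 1, 1⟩, ⟨98, 99, 147⟩, ⟨9072, 9165, 30000⟩, ⟨1467, 1599, 1000⟩⟩ (tC84A.hC2p true (tC84A.pEnd true)) :=
  posD_of_check (c := ⟨471, ⟨3, 8, 16, 11⟩⟩) (by decide +kernel)

def tC84A_c2m11 : PosD ⟨⟨0, 1, 1⟩, ⟨98, 99, 147⟩, ⟨9072, 9165, 30000⟩, ⟨1467, 1599, 1000⟩⟩ (tC84A.hC2m true (tC84A.pEnd true)) :=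
  posD_of_check (c := ⟨439, ⟨2, 7, 16, 10⟩⟩) (by decide +kernel)

def tC84A_c3p11 : PosD ⟨⟨0, 1, 1⟩, ⟨98, 99, 147⟩, ⟨9072, 9165, 30000⟩, ⟨1467, 1599, 1000⟩⟩ (tC84A.hC3p true true) :=
  posD_of_check (c := ⟨456, ⟨3, 8, 15, 11⟩⟩) (by decide +kernel)

def tC84A_c3m11 : PosD ⟨⟨0, 1, 1⟩, ⟨98, 99, 147⟩, ⟨9072, 9165, 30000⟩, ⟨1467, 1599, 1000⟩⟩ (tC84A.hC3m true true) :=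
  posD_of_check (c := ⟨431, ⟨3, 7, 15, 10⟩⟩) (by decide +kernel)

def tC84A_c3ph11 : PosD ⟨⟨0, 1, 1⟩, ⟨98, 99, 147⟩, ⟨9072, 9165, 30000⟩, ⟨1467, 1599, 1000⟩⟩ (tC84A.hC3p' true true) :=
  posD_of_check (c := ⟨456, ⟨3, 8, 15, 11⟩⟩) (by decide +kernel)

def tC84A_c3mh11 : PosD ⟨⟨0, 1, 1⟩, ⟨98, 99, 147⟩, ⟨9072, 9165, 30000⟩, ⟨1467, 1599, 1000⟩⟩ (tC84A.hC3m' true true) :=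
  posD_of_check (c := ⟨431, ⟨3, 7, 15, 10⟩⟩) (by decide +kernel)

def tC84A_up11 : PosD ⟨⟨0, 1, 1⟩, ⟨98, 99, 147⟩, ⟨9072, 9165, 30000⟩, ⟨1467, 1599, 1000⟩⟩ (tC84A.hUp true true) :=
  posD_of_check (c := ⟨455, ⟨3, 8, 15, 11⟩⟩) (by decide +kernel)

def tC84A_um11 : PosD ⟨⟨0, 1, 1⟩, ⟨98, 99, 147⟩, ⟨9072, 9165, 30000⟩, ⟨1467, 1599, 1000⟩⟩ (tC84A.hUm true true) :=
  posD_of_check (c := ⟨426, ⟨2, 7, 15, 10⟩⟩) (by decide +kernel)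

def tC84A_tmg11 : PosD ⟨⟨0, 1, 1⟩, ⟨98, 99, 147⟩, ⟨9072, 9165, 30000⟩, ⟨1467, 1599, 1000⟩⟩ (tC84A.hTMG true (tC84A.pEnd true)) :=
  posD_of_check (c := ⟨409, ⟨2, 7, 14, 10⟩⟩) (by decide +kernel)

/-- The signs of the piece. -/
def tC84A_sign : tC84A.Sign ⟨⟨0, 1, 1⟩, ⟨98, 99, 147⟩, ⟨9072, 9165, 30000⟩, ⟨1467, 1599, 1000⟩⟩ :=
  ⟨tC84A_pp,
    tC84A_k2p,
    tC84A_k2m,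
    Bool.forall_bool.2 ⟨(Bool.forall_bool.2 ⟨tC84A_tg00, tC84A_tg01⟩), (Bool.forall_bool.2 ⟨tC84A_tg10, tC84A_tg11⟩)⟩,
    Bool.forall_bool.2 ⟨(Bool.forall_bool.2 ⟨tC84A_c2p00, tC84A_c2p01⟩), (Bool.forall_bool.2 ⟨tC84A_c2p10, tC84A_c2p11⟩)⟩,
    Bool.forall_bool.2 ⟨(Bool.forall_bool.2 ⟨tC84A_c2m00, tC84A_c2m01⟩), (Bool.forall_bool.2 ⟨tC84A_c2m10, tC84A_c2m11⟩)⟩,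
    Bool.forall_bool.2 ⟨tC84A_kap0, tC84A_kap1⟩,
    Bool.forall_bool.2 ⟨tC84A_c10, tC84A_c11⟩,
    Bool.forall_bool.2 ⟨(Bool.forall_bool.2 ⟨tC84A_c3p00, tC84A_c3p01⟩), (Bool.forall_bool.2 ⟨tC84A_c3p10, tC84A_c3p11⟩)⟩,
    Bool.forall_bool.2 ⟨(Bool.forall_bool.2 ⟨tC84A_c3m00, tC84A_c3m01⟩), (Bool.forall_bool.2 ⟨tC84A_c3m10, tC84A_c3m11⟩)⟩,
    Bool.forall_bool.2 ⟨(Bool.forall_bool.2 ⟨tC84A_tmg00, tC84A_tmg01⟩), (Bool.forall_bool.2 ⟨tC84A_tmg10, tC84A_tmg11⟩)⟩,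
    .inr (Bool.forall_bool.2 ⟨⟨tC84A_c1h0, Bool.forall_bool.2 ⟨⟨tC84A_c3ph00, tC84A_c3mh00, tC84A_up00, tC84A_um00⟩, ⟨tC84A_c3ph01, tC84A_c3mh01, tC84A_up01, tC84A_um01⟩⟩⟩, ⟨tC84A_c1h1, Bool.forall_bool.2 ⟨⟨tC84A_c3ph10, tC84A_c3mh10, tC84A_up10, tC84A_um10⟩, ⟨tC84A_c3ph11, tC84A_c3mh11, tC84A_up11, tC84A_um11⟩⟩⟩⟩),
    tC84A_v2p,
    tC84A_v2m,
    tC84A_v3p,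
    tC84A_v3m,
    posD_sub (b := ⟨⟨0, 1, 1⟩, ⟨98, 99, 147⟩, ⟨4050, 10000, 30000⟩, ⟨290, 4000, 1000⟩⟩) (by decide +kernel) tC_vG,
    posD_sub (b := ⟨⟨0, 1, 1⟩, ⟨98, 99, 147⟩, ⟨4050, 10000, 30000⟩, ⟨290, 4000, 1000⟩⟩) (by decide +kernel) tC_vMG,
    posD_sub (b := ⟨⟨0, 1, 1⟩, ⟨98, 99, 147⟩, ⟨4050, 10000, 30000⟩, ⟨290, 4000, 1000⟩⟩) (by decide +kernel) tC_ak,
    posD_sub (b := ⟨⟨0, 1, 1⟩, ⟨98, 99, 147⟩, ⟨4050, 10000, 30000⟩, ⟨290, 4000, 1000⟩⟩) (by decide +kernel) tC_aw,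
    posD_sub (b := ⟨⟨0, 1, 1⟩, ⟨98, 99, 147⟩, ⟨4050, 10000, 30000⟩, ⟨290, 4000, 1000⟩⟩) (by decide +kernel) tC_gk,
    posD_sub (b := ⟨⟨0, 1, 1⟩, ⟨98, 99, 147⟩, ⟨4050, 10000, 30000⟩, ⟨290, 4000, 1000⟩⟩) (by decide +kernel) tC_gw,
    posD_sub (b := ⟨⟨0, 1, 1⟩, ⟨98, 99, 147⟩, ⟨4050, 10000, 30000⟩, ⟨290, 4000, 1000⟩⟩) (by decide +kernel) tC_ek,
    posD_sub (b := ⟨⟨0, 1, 1⟩, ⟨98, 99, 147⟩, ⟨4050, 10000, 30000⟩, ⟨290, 4000, 1000⟩⟩) (by decide +kernel) tC_ew⟩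

def tC84B_pp : PosD ⟨⟨0, 1, 1⟩, ⟨98, 99, 147⟩, ⟨9072, 9165, 30000⟩, ⟨1467, 1599, 1000⟩⟩ (tC84B.xPL) :=
  posD_of_check (c := ⟨98, ⟨1, 1, 3, 3⟩⟩) (by decide +kernel)

def tC84B_k2p : PosD ⟨⟨0, 1, 1⟩, ⟨98, 99, 147⟩, ⟨9072, 9165, 30000⟩, ⟨1467, 1599, 1000⟩⟩ (tC84B.k2p tC84B.xE) :=
  posD_of_check (c := ⟨74, ⟨1, 1, 2, 2⟩⟩) (by decide +kernel)

def tC84B_k2m : PosD ⟨⟨0, 1, 1⟩, ⟨98, 99, 147⟩, ⟨9072, 9165, 30000⟩, ⟨1467, 1599, 1000⟩⟩ (tC84B.k2m tC84B.xE) :=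
  posD_of_check (c := ⟨31, ⟨0, 0, 1, 1⟩⟩) (by decide +kernel)

def tC84B_v2p : PosD ⟨⟨0, 1, 1⟩, ⟨98, 99, 147⟩, ⟨9072, 9165, 30000⟩, ⟨1467, 1599, 1000⟩⟩ (tC84B.hV2p) :=
  posD_of_check (c := ⟨276, ⟨1, 6, 10, 5⟩⟩) (by decide +kernel)

def tC84B_v2m : PosD ⟨⟨0, 1, 1⟩, ⟨98, 99, 147⟩, ⟨9072, 9165, 30000⟩, ⟨1467, 1599, 1000⟩⟩ (tC84B.hV2m) :=
  posD_of_check (c := ⟨245, ⟨0, 5, 10, 4⟩⟩) (by decide +kernel)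

def tC84B_v3p : PosD ⟨⟨0, 1, 1⟩, ⟨98, 99, 147⟩, ⟨9072, 9165, 30000⟩, ⟨1467, 1599, 1000⟩⟩ (tC84B.hV3p) :=
  posD_of_check (c := ⟨260, ⟨1, 6, 9, 5⟩⟩) (by decide +kernel)

def tC84B_v3m : PosD ⟨⟨0, 1, 1⟩, ⟨98, 99, 147⟩, ⟨9072, 9165, 30000⟩, ⟨1467, 1599, 1000⟩⟩ (tC84B.hV3m) :=
  posD_of_check (c := ⟨232, ⟨0, 5, 9, 4⟩⟩) (by decide +kernel)

def tC84B_kap0 : PosD ⟨⟨0, 1, 1⟩, ⟨98, 99, 147⟩, ⟨9072, 9165, 30000⟩, ⟨1467, 1599, 1000⟩⟩ (tC84B.kap false) :=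
  posD_of_check (c := ⟨72, ⟨1, 1, 2, 2⟩⟩) (by decide +kernel)

def tC84B_c10 : PosD ⟨⟨0, 1, 1⟩, ⟨98, 99, 147⟩, ⟨9072, 9165, 30000⟩, ⟨1467, 1599, 1000⟩⟩ (tC84B.hC1 false) :=
  posD_of_check (c := ⟨278, ⟨3, 5, 9, 7⟩⟩) (by decide +kernel)

def tC84B_c1h0a : PosD ⟨⟨0, 1, 1⟩, ⟨98, 99, 147⟩, ⟨9072, 9118, 30000⟩, ⟨1467, 1599, 1000⟩⟩ (tC84B.hC1' false) :=
  posD_of_check (c := ⟨278, ⟨3, 5, 9, 7⟩⟩) (by decide +kernel)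

def tC84B_c1h0ba : PosD ⟨⟨0, 1, 1⟩, ⟨98, 99, 147⟩, ⟨9118, 9165, 30000⟩, ⟨1467, 1533, 1000⟩⟩ (tC84B.hC1' false) :=
  posD_of_check (c := ⟨278, ⟨3, 5, 9, 7⟩⟩) (by decide +kernel)

def tC84B_c1h0bba : PosD ⟨⟨0, 1, 1⟩, ⟨98, 99, 147⟩, ⟨9118, 9165, 30000⟩, ⟨1533, 1566, 1000⟩⟩ (tC84B.hC1' false) :=
  posD_of_check (c := ⟨278, ⟨3, 5, 9, 7⟩⟩) (by decide +kernel)

def tC84B_c1h0bbba : PosD ⟨⟨0, 1, 1⟩, ⟨98, 99, 147⟩, ⟨9118, 9165, 30000⟩, ⟨1566, 1582, 1000⟩⟩ (tC84B.hC1' false) :=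
  posD_of_check (c := ⟨278, ⟨3, 5, 9, 7⟩⟩) (by decide +kernel)

def tC84B_c1h0bbbb : PosD ⟨⟨0, 1, 1⟩, ⟨98, 99, 147⟩, ⟨9118, 9165, 30000⟩, ⟨1582, 1599, 1000⟩⟩ (tC84B.hC1' false) :=
  posD_of_relax (k₁ := 300) (k₂ := 0) (k₃ := 0) (n := 16) (posD_of_check (c := ⟨278, ⟨3, 5, 9, 7⟩⟩) (by decide +kernel))

def tC84B_c1h0bbb : PosD ⟨⟨0, 1, 1⟩, ⟨98, 99, 147⟩, ⟨9118, 9165, 30000⟩, ⟨1566, 1599, 1000⟩⟩ (tC84B.hC1' false) :=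
  posD_join₃ tC84B_c1h0bbba tC84B_c1h0bbbb

def tC84B_c1h0bb : PosD ⟨⟨0, 1, 1⟩, ⟨98, 99, 147⟩, ⟨9118, 9165, 30000⟩, ⟨1533, 1599, 1000⟩⟩ (tC84B.hC1' false) :=
  posD_join₃ tC84B_c1h0bba tC84B_c1h0bbb

def tC84B_c1h0b : PosD ⟨⟨0, 1, 1⟩, ⟨98, 99, 147⟩, ⟨9118, 9165, 30000⟩, ⟨1467, 1599, 1000⟩⟩ (tC84B.hC1' false) :=
  posD_join₃ tC84B_c1h0ba tC84B_c1h0bb

def tC84B_c1h0 : PosD ⟨⟨0, 1, 1⟩, ⟨98, 99, 147⟩, ⟨9072, 9165, 30000⟩, ⟨1467, 1599, 1000⟩⟩ (tC84B.hC1' false) :=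
  posD_join₂ tC84B_c1h0a tC84B_c1h0b

def tC84B_tg00 : PosD ⟨⟨0, 1, 1⟩, ⟨98, 99, 147⟩, ⟨9072, 9165, 30000⟩, ⟨1467, 1599, 1000⟩⟩ (tC84B.hG false (tC84B.pEnd false)) :=
  posD_of_check (c := ⟨394, ⟨2, 7, 14, 9⟩⟩) (by decide +kernel)

def tC84B_c2p00 : PosD ⟨⟨0, 1, 1⟩, ⟨98, 99, 147⟩, ⟨9072, 9165, 30000⟩, ⟨1467, 1599, 1000⟩⟩ (tC84B.hC2p false (tC84B.pEnd false)) :=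
  posD_of_check (c := ⟨468, ⟨3, 8, 16, 11⟩⟩) (by decide +kernel)

def tC84B_c2m00 : PosD ⟨⟨0, 1, 1⟩, ⟨98, 99, 147⟩, ⟨9072, 9165, 30000⟩, ⟨1467, 1599, 1000⟩⟩ (tC84B.hC2m false (tC84B.pEnd false)) :=
  posD_of_check (c := ⟨437, ⟨2, 7, 16, 10⟩⟩) (by decide +kernel)

def tC84B_c3p00 : PosD ⟨⟨0, 1, 1⟩, ⟨98, 99, 147⟩, ⟨9072, 9165, 30000⟩, ⟨1467, 1599, 1000⟩⟩ (tC84B.hC3p false false) :=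
  posD_of_check (c := ⟨452, ⟨3, 8, 15, 11⟩⟩) (by decide +kernel)

def tC84B_c3m00 : PosD ⟨⟨0, 1, 1⟩, ⟨98, 99, 147⟩, ⟨9072, 9165, 30000⟩, ⟨1467, 1599, 1000⟩⟩ (tC84B.hC3m false false) :=
  posD_of_check (c := ⟨426, ⟨3, 7, 15, 10⟩⟩) (by decide +kernel)

def tC84B_c3ph00 : PosD ⟨⟨0, 1, 1⟩, ⟨98, 99, 147⟩, ⟨9072, 9165, 30000⟩, ⟨1467, 1599, 1000⟩⟩ (tC84B.hC3p' false false) :=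
  posD_of_check (c := ⟨452, ⟨3, 8, 15, 11⟩⟩) (by decide +kernel)

def tC84B_c3mh00 : PosD ⟨⟨0, 1, 1⟩, ⟨98, 99, 147⟩, ⟨9072, 9165, 30000⟩, ⟨1467, 1599, 1000⟩⟩ (tC84B.hC3m' false false) :=
  posD_of_check (c := ⟨426, ⟨3, 7, 15, 10⟩⟩) (by decide +kernel)

def tC84B_up00 : PosD ⟨⟨0, 1, 1⟩, ⟨98, 99, 147⟩, ⟨9072, 9165, 30000⟩, ⟨1467, 1599, 1000⟩⟩ (tC84B.hUp false false) :=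
  posD_of_check (c := ⟨452, ⟨3, 8, 15, 11⟩⟩) (by decide +kernel)

def tC84B_um00 : PosD ⟨⟨0, 1, 1⟩, ⟨98, 99, 147⟩, ⟨9072, 9165, 30000⟩, ⟨1467, 1599, 1000⟩⟩ (tC84B.hUm false false) :=
  posD_of_check (c := ⟨424, ⟨2, 7, 15, 10⟩⟩) (by decide +kernel)

def tC84B_tmg00 : PosD ⟨⟨0, 1, 1⟩, ⟨98, 99, 147⟩, ⟨9072, 9165, 30000⟩, ⟨1467, 1599, 1000⟩⟩ (tC84B.hTMG false (tC84B.pEnd false)) :=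
  posD_of_check (c := ⟨407, ⟨2, 7, 14, 10⟩⟩) (by decide +kernel)

def tC84B_tg01 : PosD ⟨⟨0, 1, 1⟩, ⟨98, 99, 147⟩, ⟨9072, 9165, 30000⟩, ⟨1467, 1599, 1000⟩⟩ (tC84B.hG true (tC84B.pEnd false)) :=
  posD_of_check (c := ⟨394, ⟨2, 7, 14, 9⟩⟩) (by decide +kernel)

def tC84B_c2p01 : PosD ⟨⟨0, 1, 1⟩, ⟨98, 99, 147⟩, ⟨9072, 9165, 30000⟩, ⟨1467, 1599, 1000⟩⟩ (tC84B.hC2p true (tC84B.pEnd false)) :=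
  posD_of_check (c := ⟨468, ⟨3, 8, 16, 11⟩⟩) (by decide +kernel)

def tC84B_c2m01 : PosD ⟨⟨0, 1, 1⟩, ⟨98, 99, 147⟩, ⟨9072, 9165, 30000⟩, ⟨1467, 1599, 1000⟩⟩ (tC84B.hC2m true (tC84B.pEnd false)) :=
  posD_of_check (c := ⟨437, ⟨2, 7, 16, 10⟩⟩) (by decide +kernel)

def tC84B_c3p01 : PosD ⟨⟨0, 1, 1⟩, ⟨98, 99, 147⟩, ⟨9072, 9165, 30000⟩, ⟨1467, 1599, 1000⟩⟩ (tC84B.hC3p false true) :=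
  posD_of_check (c := ⟨452, ⟨3, 8, 15, 11⟩⟩) (by decide +kernel)

def tC84B_c3m01 : PosD ⟨⟨0, 1, 1⟩, ⟨98, 99, 147⟩, ⟨9072, 9165, 30000⟩, ⟨1467, 1599, 1000⟩⟩ (tC84B.hC3m false true) :=
  posD_of_check (c := ⟨426, ⟨3, 7, 15, 10⟩⟩) (by decide +kernel)

def tC84B_c3ph01 : PosD ⟨⟨0, 1, 1⟩, ⟨98, 99, 147⟩, ⟨9072, 9165, 30000⟩, ⟨1467, 1599, 1000⟩⟩ (tC84B.hC3p' false true) :=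
  posD_of_check (c := ⟨452, ⟨3, 8, 15, 11⟩⟩) (by decide +kernel)

def tC84B_c3mh01 : PosD ⟨⟨0, 1, 1⟩, ⟨98, 99, 147⟩, ⟨9072, 9165, 30000⟩, ⟨1467, 1599, 1000⟩⟩ (tC84B.hC3m' false true) :=
  posD_of_check (c := ⟨426, ⟨3, 7, 15, 10⟩⟩) (by decide +kernel)

def tC84B_up01 : PosD ⟨⟨0, 1, 1⟩, ⟨98, 99, 147⟩, ⟨9072, 9165, 30000⟩, ⟨1467, 1599, 1000⟩⟩ (tC84B.hUp false true) :=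
  posD_of_check (c := ⟨452, ⟨3, 8, 15, 11⟩⟩) (by decide +kernel)

def tC84B_um01 : PosD ⟨⟨0, 1, 1⟩, ⟨98, 99, 147⟩, ⟨9072, 9165, 30000⟩, ⟨1467, 1599, 1000⟩⟩ (tC84B.hUm false true) :=
  posD_of_check (c := ⟨424, ⟨2, 7, 15, 10⟩⟩) (by decide +kernel)

def tC84B_tmg01 : PosD ⟨⟨0, 1, 1⟩, ⟨98, 99, 147⟩, ⟨9072, 9165, 30000⟩, ⟨1467, 1599, 1000⟩⟩ (tC84B.hTMG true (tC84B.pEnd false)) :=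
  posD_of_check (c := ⟨407, ⟨2, 7, 14, 10⟩⟩) (by decide +kernel)

def tC84B_kap1 : PosD ⟨⟨0, 1, 1⟩, ⟨98, 99, 147⟩, ⟨9072, 9165, 30000⟩, ⟨1467, 1599, 1000⟩⟩ (tC84B.kap true) :=
  posD_of_check (c := ⟨72, ⟨1, 1, 2, 2⟩⟩) (by decide +kernel)

def tC84B_c11 : PosD ⟨⟨0, 1, 1⟩, ⟨98, 99, 147⟩, ⟨9072, 9165, 30000⟩, ⟨1467, 1599, 1000⟩⟩ (tC84B.hC1 true) :=
  posD_of_check (c := ⟨274, ⟨3, 5, 9, 7⟩⟩) (by decide +kernel)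

def tC84B_c1h1 : PosD ⟨⟨0, 1, 1⟩, ⟨98, 99, 147⟩, ⟨9072, 9165, 30000⟩, ⟨1467, 1599, 1000⟩⟩ (tC84B.hC1' true) :=
  posD_of_check (c := ⟨274, ⟨3, 5, 9, 7⟩⟩) (by decide +kernel)

def tC84B_tg10 : PosD ⟨⟨0, 1, 1⟩, ⟨98, 99, 147⟩, ⟨9072, 9165, 30000⟩, ⟨1467, 1599, 1000⟩⟩ (tC84B.hG false (tC84B.pEnd true)) :=
  posD_of_check (c := ⟨388, ⟨2, 7, 14, 9⟩⟩) (by decide +kernel)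

def tC84B_c2p10 : PosD ⟨⟨0, 1, 1⟩, ⟨98, 99, 147⟩, ⟨9072, 9165, 30000⟩, ⟨1467, 1599, 1000⟩⟩ (tC84B.hC2p false (tC84B.pEnd true)) :=
  posD_of_check (c := ⟨462, ⟨3, 8, 16, 11⟩⟩) (by decide +kernel)

def tC84B_c2m10 : PosD ⟨⟨0, 1, 1⟩, ⟨98, 99, 147⟩, ⟨9072, 9165, 30000⟩, ⟨1467, 1599, 1000⟩⟩ (tC84B.hC2m false (tC84B.pEnd true)) :=
  posD_of_check (c := ⟨432, ⟨2, 7, 16, 10⟩⟩) (by decide +kernel)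

def tC84B_c3p10 : PosD ⟨⟨0, 1, 1⟩, ⟨98, 99, 147⟩, ⟨9072, 9165, 30000⟩, ⟨1467, 1599, 1000⟩⟩ (tC84B.hC3p true false) :=
  posD_of_check (c := ⟨447, ⟨3, 8, 15, 11⟩⟩) (by decide +kernel)

def tC84B_c3m10 : PosD ⟨⟨0, 1, 1⟩, ⟨98, 99, 147⟩, ⟨9072, 9165, 30000⟩, ⟨1467, 1599, 1000⟩⟩ (tC84B.hC3m true false) :=
  posD_of_check (c := ⟨422, ⟨3, 7, 15, 10⟩⟩) (by decide +kernel)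

def tC84B_c3ph10 : PosD ⟨⟨0, 1, 1⟩, ⟨98, 99, 147⟩, ⟨9072, 9165, 30000⟩, ⟨1467, 1599, 1000⟩⟩ (tC84B.hC3p' true false) :=
  posD_of_check (c := ⟨447, ⟨3, 8, 15, 11⟩⟩) (by decide +kernel)

def tC84B_c3mh10 : PosD ⟨⟨0, 1, 1⟩, ⟨98, 99, 147⟩, ⟨9072, 9165, 30000⟩, ⟨1467, 1599, 1000⟩⟩ (tC84B.hC3m' true false) :=
  posD_of_check (c := ⟨422, ⟨3, 7, 15, 10⟩⟩) (by decide +kernel)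

def tC84B_up10 : PosD ⟨⟨0, 1, 1⟩, ⟨98, 99, 147⟩, ⟨9072, 9165, 30000⟩, ⟨1467, 1599, 1000⟩⟩ (tC84B.hUp true false) :=
  posD_of_check (c := ⟨447, ⟨3, 8, 15, 11⟩⟩) (by decide +kernel)

def tC84B_um10 : PosD ⟨⟨0, 1, 1⟩, ⟨98, 99, 147⟩, ⟨9072, 9165, 30000⟩, ⟨1467, 1599, 1000⟩⟩ (tC84B.hUm true false) :=
  posD_of_check (c := ⟨419, ⟨2, 7, 15, 10⟩⟩) (by decide +kernel)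

def tC84B_tmg10 : PosD ⟨⟨0, 1, 1⟩, ⟨98, 99, 147⟩, ⟨9072, 9165, 30000⟩, ⟨1467, 1599, 1000⟩⟩ (tC84B.hTMG false (tC84B.pEnd true)) :=
  posD_of_check (c := ⟨404, ⟨2, 7, 14, 10⟩⟩) (by decide +kernel)

def tC84B_tg11 : PosD ⟨⟨0, 1, 1⟩, ⟨98, 99, 147⟩, ⟨9072, 9165, 30000⟩, ⟨1467, 1599, 1000⟩⟩ (tC84B.hG true (tC84B.pEnd true)) :=
  posD_of_check (c := ⟨388, ⟨2, 7, 14, 9⟩⟩) (by decide +kernel)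

def tC84B_c2p11 : PosD ⟨⟨0, 1, 1⟩, ⟨98, 99, 147⟩, ⟨9072, 9165, 30000⟩, ⟨1467, 1599, 1000⟩⟩ (tC84B.hC2p true (tC84B.pEnd true)) :=
  posD_of_check (c := ⟨462, ⟨3, 8, 16, 11⟩⟩) (by decide +kernel)

def tC84B_c2m11 : PosD ⟨⟨0, 1, 1⟩, ⟨98, 99, 147⟩, ⟨9072, 9165, 30000⟩, ⟨1467, 1599, 1000⟩⟩ (tC84B.hC2m true (tC84B.pEnd true)) :=
  posD_of_check (c := ⟨432, ⟨2, 7, 16, 10⟩⟩) (by decide +kernel)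

def tC84B_c3p11 : PosD ⟨⟨0, 1, 1⟩, ⟨98, 99, 147⟩, ⟨9072, 9165, 30000⟩, ⟨1467, 1599, 1000⟩⟩ (tC84B.hC3p true true) :=
  posD_of_check (c := ⟨447, ⟨3, 8, 15, 11⟩⟩) (by decide +kernel)

def tC84B_c3m11 : PosD ⟨⟨0, 1, 1⟩, ⟨98, 99, 147⟩, ⟨9072, 9165, 30000⟩, ⟨1467, 1599, 1000⟩⟩ (tC84B.hC3m true true) :=
  posD_of_check (c := ⟨422, ⟨3, 7, 15, 10⟩⟩) (by decide +kernel)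

def tC84B_c3ph11 : PosD ⟨⟨0, 1, 1⟩, ⟨98, 99, 147⟩, ⟨9072, 9165, 30000⟩, ⟨1467, 1599, 1000⟩⟩ (tC84B.hC3p' true true) :=
  posD_of_check (c := ⟨447, ⟨3, 8, 15, 11⟩⟩) (by decide +kernel)

def tC84B_c3mh11 : PosD ⟨⟨0, 1, 1⟩, ⟨98, 99, 147⟩, ⟨9072, 9165, 30000⟩, ⟨1467, 1599, 1000⟩⟩ (tC84B.hC3m' true true) :=
  posD_of_check (c := ⟨422, ⟨3, 7, 15, 10⟩⟩) (by decide +kernel)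

def tC84B_up11 : PosD ⟨⟨0, 1, 1⟩, ⟨98, 99, 147⟩, ⟨9072, 9165, 30000⟩, ⟨1467, 1599, 1000⟩⟩ (tC84B.hUp true true) :=
  posD_of_check (c := ⟨447, ⟨3, 8, 15, 11⟩⟩) (by decide +kernel)

def tC84B_um11 : PosD ⟨⟨0, 1, 1⟩, ⟨98, 99, 147⟩, ⟨9072, 9165, 30000⟩, ⟨1467, 1599, 1000⟩⟩ (tC84B.hUm true true) :=
  posD_of_check (c := ⟨419, ⟨2, 7, 15, 10⟩⟩) (by decide +kernel)

def tC84B_tmg11 : PosD ⟨⟨0, 1, 1⟩, ⟨98, 99, 147⟩, ⟨9072, 9165, 30000⟩, ⟨1467, 1599, 1000⟩⟩ (tC84B.hTMG true (tC84B.pEnd true)) :=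
  posD_of_check (c := ⟨404, ⟨2, 7, 14, 10⟩⟩) (by decide +kernel)

/-- The signs of the piece. -/
def tC84B_sign : tC84B.Sign ⟨⟨0, 1, 1⟩, ⟨98, 99, 147⟩, ⟨9072, 9165, 30000⟩, ⟨1467, 1599, 1000⟩⟩ :=
  ⟨tC84B_pp,
    tC84B_k2p,
    tC84B_k2m,
    Bool.forall_bool.2 ⟨(Bool.forall_bool.2 ⟨tC84B_tg00, tC84B_tg01⟩), (Bool.forall_bool.2 ⟨tC84B_tg10, tC84B_tg11⟩)⟩,
    Bool.forall_bool.2 ⟨(Bool.forall_bool.2 ⟨tC84B_c2p00, tC84B_c2p01⟩), (Bool.forall_bool.2 ⟨tC84B_c2p10, tC84B_c2p11⟩)⟩,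
    Bool.forall_bool.2 ⟨(Bool.forall_bool.2 ⟨tC84B_c2m00, tC84B_c2m01⟩), (Bool.forall_bool.2 ⟨tC84B_c2m10, tC84B_c2m11⟩)⟩,
    Bool.forall_bool.2 ⟨tC84B_kap0, tC84B_kap1⟩,
    Bool.forall_bool.2 ⟨tC84B_c10, tC84B_c11⟩,
    Bool.forall_bool.2 ⟨(Bool.forall_bool.2 ⟨tC84B_c3p00, tC84B_c3p01⟩), (Bool.forall_bool.2 ⟨tC84B_c3p10, tC84B_c3p11⟩)⟩,
    Bool.forall_bool.2 ⟨(Bool.forall_bool.2 ⟨tC84B_c3m00, tC84B_c3m01⟩), (Bool.forall_bool.2 ⟨tC84B_c3m10, tC84B_c3m11⟩)⟩,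
    Bool.forall_bool.2 ⟨(Bool.forall_bool.2 ⟨tC84B_tmg00, tC84B_tmg01⟩), (Bool.forall_bool.2 ⟨tC84B_tmg10, tC84B_tmg11⟩)⟩,
    .inr (Bool.forall_bool.2 ⟨⟨tC84B_c1h0, Bool.forall_bool.2 ⟨⟨tC84B_c3ph00, tC84B_c3mh00, tC84B_up00, tC84B_um00⟩, ⟨tC84B_c3ph01, tC84B_c3mh01, tC84B_up01, tC84B_um01⟩⟩⟩, ⟨tC84B_c1h1, Bool.forall_bool.2 ⟨⟨tC84B_c3ph10, tC84B_c3mh10, tC84B_up10, tC84B_um10⟩, ⟨tC84B_c3ph11, tC84B_c3mh11, tC84B_up11, tC84B_um11⟩⟩⟩⟩),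
    tC84B_v2p,
    tC84B_v2m,
    tC84B_v3p,
    tC84B_v3m,
    posD_sub (b := ⟨⟨0, 1, 1⟩, ⟨98, 99, 147⟩, ⟨4050, 10000, 30000⟩, ⟨290, 4000, 1000⟩⟩) (by decide +kernel) tC_vG,
    posD_sub (b := ⟨⟨0, 1, 1⟩, ⟨98, 99, 147⟩, ⟨4050, 10000, 30000⟩, ⟨290, 4000, 1000⟩⟩) (by decide +kernel) tC_vMG,
    posD_sub (b := ⟨⟨0, 1, 1⟩, ⟨98, 99, 147⟩, ⟨4050, 10000, 30000⟩, ⟨290, 4000, 1000⟩⟩) (by decide +kernel) tC_ak,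
    posD_sub (b := ⟨⟨0, 1, 1⟩, ⟨98, 99, 147⟩, ⟨4050, 10000, 30000⟩, ⟨290, 4000, 1000⟩⟩) (by decide +kernel) tC_aw,
    posD_sub (b := ⟨⟨0, 1, 1⟩, ⟨98, 99, 147⟩, ⟨4050, 10000, 30000⟩, ⟨290, 4000, 1000⟩⟩) (by decide +kernel) tC_gk,
    posD_sub (b := ⟨⟨0, 1, 1⟩, ⟨98, 99, 147⟩, ⟨4050, 10000, 30000⟩, ⟨290, 4000, 1000⟩⟩) (by decide +kernel) tC_gw,
    posD_sub (b := ⟨⟨0, 1, 1⟩, ⟨98, 99, 147⟩, ⟨4050, 10000, 30000⟩, ⟨290, 4000, 1000⟩⟩) (by decide +kernel) tC_ek,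
    posD_sub (b := ⟨⟨0, 1, 1⟩, ⟨98, 99, 147⟩, ⟨4050, 10000, 30000⟩, ⟨290, 4000, 1000⟩⟩) (by decide +kernel) tC_ew⟩

end Vale.Agent.P100.Calib.Closed.Six.Tail
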