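import Vale.Agent.P100.Calib.SlabSixTailDataC
import Vale.Agent.P100.Calib.SlabSixTailGlobC

/-!
# Checks of some pieces of the certificate

The checks are written as definitions so that they run one after another, which keeps the memory of the
kernel low.
-/

set_option linter.defProp false

namespace Vale.Agent.P100.Calib.Closed.Six.Tail

open BoxPos Large

local instance sixTailCheckstC57Add : Add Ex := ⟨Ex.add⟩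
local instance sixTailCheckstC57Sub : Sub Ex := ⟨Ex.sub⟩
local instance sixTailCheckstC57Mul : Mul Ex := ⟨Ex.mul⟩

def tC85_phx : PosIf ⟨⟨0, 1, 1⟩, ⟨98, 99, 147⟩, ⟨9165, 9258, 30000⟩, ⟨1467, 1532, 1000⟩⟩ (tC85.u₁ - tC85Lo) (phCn (tC85.u₁ + xO * (tC85Lo - tC85.u₁))) :=
  posIf_of_posD (posD_of_check (c := ⟨109, ⟨2, 0, 4, 2⟩⟩) (by decide +kernel))

def tC85_phd : PosD ⟨⟨0, 1, 1⟩, ⟨98, 99, 147⟩, ⟨9165, 9258, 30000⟩, ⟨1467, 1532, 1000⟩⟩ (phCd (tC85.u₁ + xO * (tC85Lo - tC85.u₁))) :=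
  posD_of_check (c := ⟨51, ⟨1, 0, 2, 1⟩⟩) (by decide +kernel)

def tC85_p0 : PosD ⟨⟨0, 1, 1⟩, ⟨98, 99, 147⟩, ⟨9165, 9258, 30000⟩, ⟨1467, 1532, 1000⟩⟩ (tC85.hP0) :=
  posD_of_check (c := ⟨77, ⟨0, 2, 2, 1⟩⟩) (by decide +kernel)

def tC85_gn : PosD ⟨⟨0, 1, 1⟩, ⟨98, 99, 147⟩, ⟨9165, 9258, 30000⟩, ⟨1467, 1532, 1000⟩⟩ (tC85.hGn) :=
  posD_of_check (c := ⟨69, ⟨1, 1, 2, 2⟩⟩) (by decide +kernel)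

def tC85_den0 : PosD ⟨⟨0, 1, 1⟩, ⟨98, 99, 147⟩, ⟨9165, 9258, 30000⟩, ⟨1467, 1532, 1000⟩⟩ (tC85.hDen false) :=
  posD_of_check (c := ⟨51, ⟨1, 0, 2, 1⟩⟩) (by decide +kernel)

def tC85_den1 : PosD ⟨⟨0, 1, 1⟩, ⟨98, 99, 147⟩, ⟨9165, 9258, 30000⟩, ⟨1467, 1532, 1000⟩⟩ (tC85.hDen true) :=
  posD_of_check (c := ⟨180, ⟨3, 4, 6, 4⟩⟩) (by decide +kernel)

def tC85_ev0 : PosD ⟨⟨0, 1, 1⟩, ⟨98, 99, 147⟩, ⟨9165, 9258, 30000⟩, ⟨1467, 1532, 1000⟩⟩ (tC85.hEv false) :=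
  posD_of_check (c := ⟨220, ⟨4, 2, 8, 4⟩⟩) (by decide +kernel)

def tC85_zL0 : PosD ⟨⟨0, 1, 1⟩, ⟨98, 99, 147⟩, ⟨9165, 9258, 30000⟩, ⟨1467, 1532, 1000⟩⟩ (tC85.hZL false) :=
  posD_of_check (c := ⟨222, ⟨4, 3, 8, 4⟩⟩) (by decide +kernel)

def tC85_zU0 : PosD ⟨⟨0, 1, 1⟩, ⟨98, 99, 147⟩, ⟨9165, 9258, 30000⟩, ⟨1467, 1532, 1000⟩⟩ (tC85.hZU false) :=
  posD_of_check (c := ⟨222, ⟨4, 3, 8, 4⟩⟩) (by decide +kernel)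

def tC85_eL0 : PosD ⟨⟨0, 1, 1⟩, ⟨98, 99, 147⟩, ⟨9165, 9258, 30000⟩, ⟨1467, 1532, 1000⟩⟩ (tC85.hEL false) :=
  posD_of_check (c := ⟨311, ⟨5, 6, 10, 6⟩⟩) (by decide +kernel)

def tC85_eH0 : PosD ⟨⟨0, 1, 1⟩, ⟨98, 99, 147⟩, ⟨9165, 9258, 30000⟩, ⟨1467, 1532, 1000⟩⟩ (tC85.hEH false) :=
  posD_of_check (c := ⟨349, ⟨5, 6, 11, 7⟩⟩) (by decide +kernel)

def tC85_pL0 : PosD ⟨⟨0, 1, 1⟩, ⟨98, 99, 147⟩, ⟨9165, 9258, 30000⟩, ⟨1467, 1532, 1000⟩⟩ (tC85.hPL false) :=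
  posD_of_check (c := ⟨344, ⟨5, 6, 11, 7⟩⟩) (by decide +kernel)

def tC85_pU0 : PosD ⟨⟨0, 1, 1⟩, ⟨98, 99, 147⟩, ⟨9165, 9258, 30000⟩, ⟨1467, 1532, 1000⟩⟩ (tC85.hPU false) :=
  posD_of_check (c := ⟨341, ⟨5, 6, 11, 7⟩⟩) (by decide +kernel)

def tC85_kU0 : PosD ⟨⟨0, 1, 1⟩, ⟨98, 99, 147⟩, ⟨9165, 9258, 30000⟩, ⟨1467, 1532, 1000⟩⟩ (tC85.hKU false) :=
  posD_of_check (c := ⟨340, ⟨5, 6, 11, 7⟩⟩) (by decide +kernel)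

def tC85_kL0 : PosD ⟨⟨0, 1, 1⟩, ⟨98, 99, 147⟩, ⟨9165, 9258, 30000⟩, ⟨1467, 1532, 1000⟩⟩ (tC85.hKL false) :=
  posD_of_check (c := ⟨337, ⟨5, 6, 11, 7⟩⟩) (by decide +kernel)

def tC85_wU0 : PosD ⟨⟨0, 1, 1⟩, ⟨98, 99, 147⟩, ⟨9165, 9258, 30000⟩, ⟨1467, 1532, 1000⟩⟩ (tC85.hWU false) :=
  posD_of_check (c := ⟨372, ⟨5, 8, 12, 7⟩⟩) (by decide +kernel)

def tC85_wL0 : PosD ⟨⟨0, 1, 1⟩, ⟨98, 99, 147⟩, ⟨9165, 9258, 30000⟩, ⟨1467, 1532, 1000⟩⟩ (tC85.hWL false) :=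
  posD_of_check (c := ⟨374, ⟨5, 8, 12, 7⟩⟩) (by decide +kernel)

def tC85_ev1 : PosD ⟨⟨0, 1, 1⟩, ⟨98, 99, 147⟩, ⟨9165, 9258, 30000⟩, ⟨1467, 1532, 1000⟩⟩ (tC85.hEv true) :=
  posD_of_check (c := ⟨273, ⟨4, 6, 9, 6⟩⟩) (by decide +kernel)

def tC85_zL1 : PosD ⟨⟨0, 1, 1⟩, ⟨98, 99, 147⟩, ⟨9165, 9258, 30000⟩, ⟨1467, 1532, 1000⟩⟩ (tC85.hZL true) :=
  posD_of_check (c := ⟨293, ⟨4, 7, 9, 7⟩⟩) (by decide +kernel)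

def tC85_zU1 : PosD ⟨⟨0, 1, 1⟩, ⟨98, 99, 147⟩, ⟨9165, 9258, 30000⟩, ⟨1467, 1532, 1000⟩⟩ (tC85.hZU true) :=
  posD_of_check (c := ⟨293, ⟨4, 7, 9, 7⟩⟩) (by decide +kernel)

def tC85_eL1 : PosD ⟨⟨0, 1, 1⟩, ⟨98, 99, 147⟩, ⟨9165, 9258, 30000⟩, ⟨1467, 1532, 1000⟩⟩ (tC85.hEL true) :=
  posD_of_check (c := ⟨365, ⟨5, 10, 11, 8⟩⟩) (by decide +kernel)

def tC85_eH1 : PosD ⟨⟨0, 1, 1⟩, ⟨98, 99, 147⟩, ⟨9165, 9258, 30000⟩, ⟨1467, 1532, 1000⟩⟩ (tC85.hEH true) :=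
  posD_of_check (c := ⟨403, ⟨5, 10, 12, 9⟩⟩) (by decide +kernel)

def tC85_pL1 : PosD ⟨⟨0, 1, 1⟩, ⟨98, 99, 147⟩, ⟨9165, 9258, 30000⟩, ⟨1467, 1532, 1000⟩⟩ (tC85.hPL true) :=
  posD_of_check (c := ⟨397, ⟨5, 10, 12, 9⟩⟩) (by decide +kernel)

def tC85_pU1 : PosD ⟨⟨0, 1, 1⟩, ⟨98, 99, 147⟩, ⟨9165, 9258, 30000⟩, ⟨1467, 1532, 1000⟩⟩ (tC85.hPU true) :=
  posD_of_check (c := ⟨395, ⟨5, 10, 12, 9⟩⟩) (by decide +kernel)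

def tC85_kU1 : PosD ⟨⟨0, 1, 1⟩, ⟨98, 99, 147⟩, ⟨9165, 9258, 30000⟩, ⟨1467, 1532, 1000⟩⟩ (tC85.hKU true) :=
  posD_of_check (c := ⟨393, ⟨5, 10, 12, 9⟩⟩) (by decide +kernel)

def tC85_kL1 : PosD ⟨⟨0, 1, 1⟩, ⟨98, 99, 147⟩, ⟨9165, 9258, 30000⟩, ⟨1467, 1532, 1000⟩⟩ (tC85.hKL true) :=
  posD_of_check (c := ⟨391, ⟨5, 10, 12, 9⟩⟩) (by decide +kernel)

def tC85_wU1 : PosD ⟨⟨0, 1, 1⟩, ⟨98, 99, 147⟩, ⟨9165, 9258, 30000⟩, ⟨1467, 1532, 1000⟩⟩ (tC85.hWU true) :=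
  posD_of_check (c := ⟨425, ⟨5, 12, 13, 9⟩⟩) (by decide +kernel)

def tC85_wL1 : PosD ⟨⟨0, 1, 1⟩, ⟨98, 99, 147⟩, ⟨9165, 9258, 30000⟩, ⟨1467, 1532, 1000⟩⟩ (tC85.hWL true) :=
  posD_of_check (c := ⟨428, ⟨5, 12, 13, 9⟩⟩) (by decide +kernel)

def tC85_nueH : PosD ⟨⟨0, 1, 1⟩, ⟨98, 99, 147⟩, ⟨9165, 9258, 30000⟩, ⟨1467, 1532, 1000⟩⟩ (tC85.eH.ν) :=
  posD_of_check (c := ⟨50, ⟨0, 0, 1, 1⟩⟩) (by decide +kernel)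

/-- The bounds of the piece. -/
def tC85_env : tC85.Env ⟨⟨0, 1, 1⟩, ⟨98, 99, 147⟩, ⟨9165, 9258, 30000⟩, ⟨1467, 1532, 1000⟩⟩ :=
  ⟨tC85_p0, Bool.forall_bool.2 ⟨tC85_den0, tC85_den1⟩, tC85_gn, Bool.forall_bool.2 ⟨tC85_ev0, tC85_ev1⟩, Bool.forall_bool.2 ⟨tC85_zL0, tC85_zL1⟩, Bool.forall_bool.2 ⟨tC85_zU0, tC85_zU1⟩, Bool.forall_bool.2 ⟨tC85_eL0, tC85_eL1⟩, ⟨.inr rfl, .inr rfl⟩, Bool.forall_bool.2 ⟨tC85_eH0, tC85_eH1⟩, ⟨.inr rfl, .inl tC85_nueH⟩, Bool.forall_bool.2 ⟨tC85_pL0, tC85_pL1⟩, ⟨.inr rfl, .inr rfl⟩, Bool.forall_bool.2 ⟨tC85_pU0, tC85_pU1⟩, ⟨.inr rfl, .inr rfl⟩, Bool.forall_bool.2 ⟨tC85_kU0, tC85_kU1⟩, ⟨.inr rfl, .inr rfl⟩, Bool.forall_bool.2 ⟨tC85_kL0, tC85_kL1⟩, ⟨.inr rfl, .inr rfl⟩, Bool.forall_bool.2 ⟨tC85_wU0, tC85_wU1⟩,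 ⟨.inr rfl, .inr rfl⟩, Bool.forall_bool.2 ⟨tC85_wL0, tC85_wL1⟩, ⟨.inr rfl, .inr rfl⟩⟩

def tC85_pU20 : PosD ⟨⟨0, 1, 1⟩, ⟨98, 99, 147⟩, ⟨9165, 9258, 30000⟩, ⟨1467, 1532, 1000⟩⟩ (({ tC85 with pU := tC85PU } : Piece).hPU false) :=
  posD_of_check (c := ⟨355, ⟨5, 6, 11, 7⟩⟩) (by decide +kernel)

def tC85_pU21 : PosD ⟨⟨0, 1, 1⟩, ⟨98, 99, 147⟩, ⟨9165, 9258, 30000⟩, ⟨1467, 1532, 1000⟩⟩ (({ tC85 with pU := tC85PU } : Piece).hPU true) :=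
  posD_of_check (c := ⟨409, ⟨5, 10, 12, 9⟩⟩) (by decide +kernel)

def tC85_nupU2 : PosD ⟨⟨0, 1, 1⟩, ⟨98, 99, 147⟩, ⟨9165, 9258, 30000⟩, ⟨1467, 1532, 1000⟩⟩ (tC85PU.ν) :=
  posD_of_check (c := ⟨54, ⟨0, 0, 1, 1⟩⟩) (by decide +kernel)

/-- The bounds with the other bound of `p`. -/
def tC85_envU : ({ tC85 with pU := tC85PU } : Piece).Env ⟨⟨0, 1, 1⟩, ⟨98, 99, 147⟩, ⟨9165, 9258, 30000⟩, ⟨1467, 1532, 1000⟩⟩ :=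
  tC85_env.withU tC85PU (Bool.forall_bool.2 ⟨tC85_pU20, tC85_pU21⟩) ⟨.inr rfl, .inl tC85_nupU2⟩

def tC85A_pp : PosD ⟨⟨0, 1, 1⟩, ⟨98, 99, 147⟩, ⟨9165, 9258, 30000⟩, ⟨1467, 1532, 1000⟩⟩ (tC85A.xPL) :=
  posD_of_check (c := ⟨102, ⟨1, 1, 3, 3⟩⟩) (by decide +kernel)

def tC85A_k2p : PosD ⟨⟨0, 1, 1⟩, ⟨98, 99, 147⟩, ⟨9165, 9258, 30000⟩, ⟨1467, 1532, 1000⟩⟩ (tC85A.k2p tC85A.xE) :=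
  posD_of_check (c := ⟨76, ⟨1, 1, 2, 2⟩⟩) (by decide +kernel)

def tC85A_k2m : PosD ⟨⟨0, 1, 1⟩, ⟨98, 99, 147⟩, ⟨9165, 9258, 30000⟩, ⟨1467, 1532, 1000⟩⟩ (tC85A.k2m tC85A.xE) :=
  posD_of_check (c := ⟨31, ⟨0, 0, 1, 1⟩⟩) (by decide +kernel)

def tC85A_v2p : PosD ⟨⟨0, 1, 1⟩, ⟨98, 99, 147⟩, ⟨9165, 9258, 30000⟩, ⟨1467, 1532, 1000⟩⟩ (tC85A.hV2p) :=
  posD_of_check (c := ⟨277, ⟨1, 6, 10, 5⟩⟩) (by decide +kernel)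

def tC85A_v2m : PosD ⟨⟨0, 1, 1⟩, ⟨98, 99, 147⟩, ⟨9165, 9258, 30000⟩, ⟨1467, 1532, 1000⟩⟩ (tC85A.hV2m) :=
  posD_of_check (c := ⟨245, ⟨0, 5, 10, 4⟩⟩) (by decide +kernel)

def tC85A_v3p : PosD ⟨⟨0, 1, 1⟩, ⟨98, 99, 147⟩, ⟨9165, 9258, 30000⟩, ⟨1467, 1532, 1000⟩⟩ (tC85A.hV3p) :=
  posD_of_check (c := ⟨261, ⟨1, 6, 9, 5⟩⟩) (by decide +kernel)

def tC85A_v3m : PosD ⟨⟨0, 1, 1⟩, ⟨98, 99, 147⟩, ⟨9165, 9258, 30000⟩, ⟨1467, 1532, 1000⟩⟩ (tC85A.hV3m) :=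
  posD_of_check (c := ⟨232, ⟨0, 5, 9, 4⟩⟩) (by decide +kernel)

def tC85A_kap0 : PosD ⟨⟨0, 1, 1⟩, ⟨98, 99, 147⟩, ⟨9165, 9258, 30000⟩, ⟨1467, 1532, 1000⟩⟩ (tC85A.kap false) :=
  posD_of_check (c := ⟨75, ⟨1, 1, 2, 2⟩⟩) (by decide +kernel)

def tC85A_c10 : PosD ⟨⟨0, 1, 1⟩, ⟨98, 99, 147⟩, ⟨9165, 9258, 30000⟩, ⟨1467, 1532, 1000⟩⟩ (tC85A.hC1 false) :=
  posD_of_check (c := ⟨287, ⟨3, 5, 9, 7⟩⟩) (by decide +kernel)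

def tC85A_c1h0 : PosD ⟨⟨0, 1, 1⟩, ⟨98, 99, 147⟩, ⟨9165, 9258, 30000⟩, ⟨1467, 1532, 1000⟩⟩ (tC85A.hC1' false) :=
  posD_of_relax (k₁ := 0) (k₂ := 0) (k₃ := 4) (n := 16) (posD_of_check (c := ⟨287, ⟨3, 5, 9, 7⟩⟩) (by decide +kernel))

def tC85A_tg00 : PosD ⟨⟨0, 1, 1⟩, ⟨98, 99, 147⟩, ⟨9165, 9258, 30000⟩, ⟨1467, 1532, 1000⟩⟩ (tC85A.hG false (tC85A.pEnd false)) :=
  posD_of_check (c := ⟨400, ⟨2, 7, 14, 9⟩⟩) (by decide +kernel)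

def tC85A_c2p00 : PosD ⟨⟨0, 1, 1⟩, ⟨98, 99, 147⟩, ⟨9165, 9258, 30000⟩, ⟨1467, 1532, 1000⟩⟩ (tC85A.hC2p false (tC85A.pEnd false)) :=
  posD_of_check (c := ⟨475, ⟨3, 8, 16, 11⟩⟩) (by decide +kernel)

def tC85A_c2m00 : PosD ⟨⟨0, 1, 1⟩, ⟨98, 99, 147⟩, ⟨9165, 9258, 30000⟩, ⟨1467, 1532, 1000⟩⟩ (tC85A.hC2m false (tC85A.pEnd false)) :=
  posD_of_check (c := ⟨443, ⟨2, 7, 16, 10⟩⟩) (by decide +kernel)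

def tC85A_c3p00 : PosD ⟨⟨0, 1, 1⟩, ⟨98, 99, 147⟩, ⟨9165, 9258, 30000⟩, ⟨1467, 1532, 1000⟩⟩ (tC85A.hC3p false false) :=
  posD_of_check (c := ⟨460, ⟨3, 8, 15, 11⟩⟩) (by decide +kernel)

def tC85A_c3m00 : PosD ⟨⟨0, 1, 1⟩, ⟨98, 99, 147⟩, ⟨9165, 9258, 30000⟩, ⟨1467, 1532, 1000⟩⟩ (tC85A.hC3m false false) :=
  posD_of_check (c := ⟨434, ⟨3, 7, 15, 10⟩⟩) (by decide +kernel)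

def tC85A_c3ph00 : PosD ⟨⟨0, 1, 1⟩, ⟨98, 99, 147⟩, ⟨9165, 9258, 30000⟩, ⟨1467, 1532, 1000⟩⟩ (tC85A.hC3p' false false) :=
  posD_of_check (c := ⟨460, ⟨3, 8, 15, 11⟩⟩) (by decide +kernel)

def tC85A_c3mh00 : PosD ⟨⟨0, 1, 1⟩, ⟨98, 99, 147⟩, ⟨9165, 9258, 30000⟩, ⟨1467, 1532, 1000⟩⟩ (tC85A.hC3m' false false) :=
  posD_of_check (c := ⟨434, ⟨3, 7, 15, 10⟩⟩) (by decide +kernel)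

def tC85A_up00 : PosD ⟨⟨0, 1, 1⟩, ⟨98, 99, 147⟩, ⟨9165, 9258, 30000⟩, ⟨1467, 1532, 1000⟩⟩ (tC85A.hUp false false) :=
  posD_of_check (c := ⟨460, ⟨3, 8, 15, 11⟩⟩) (by decide +kernel)

def tC85A_um00 : PosD ⟨⟨0, 1, 1⟩, ⟨98, 99, 147⟩, ⟨9165, 9258, 30000⟩, ⟨1467, 1532, 1000⟩⟩ (tC85A.hUm false false) :=
  posD_of_check (c := ⟨431, ⟨2, 7, 15, 10⟩⟩) (by decide +kernel)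

def tC85A_tmg00 : PosD ⟨⟨0, 1, 1⟩, ⟨98, 99, 147⟩, ⟨9165, 9258, 30000⟩, ⟨1467, 1532, 1000⟩⟩ (tC85A.hTMG false (tC85A.pEnd false)) :=
  posD_of_check (c := ⟨413, ⟨2, 7, 14, 10⟩⟩) (by decide +kernel)

def tC85A_tg01 : PosD ⟨⟨0, 1, 1⟩, ⟨98, 99, 147⟩, ⟨9165, 9258, 30000⟩, ⟨1467, 1532, 1000⟩⟩ (tC85A.hG true (tC85A.pEnd false)) :=
  posD_of_check (c := ⟨400, ⟨2, 7, 14, 9⟩⟩) (by decide +kernel)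

def tC85A_c2p01 : PosD ⟨⟨0, 1, 1⟩, ⟨98, 99, 147⟩, ⟨9165, 9258, 30000⟩, ⟨1467, 1532, 1000⟩⟩ (tC85A.hC2p true (tC85A.pEnd false)) :=
  posD_of_check (c := ⟨475, ⟨3, 8, 16, 11⟩⟩) (by decide +kernel)

def tC85A_c2m01 : PosD ⟨⟨0, 1, 1⟩, ⟨98, 99, 147⟩, ⟨9165, 9258, 30000⟩, ⟨1467, 1532, 1000⟩⟩ (tC85A.hC2m true (tC85A.pEnd false)) :=
  posD_of_check (c := ⟨443, ⟨2, 7, 16, 10⟩⟩) (by decide +kernel)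

def tC85A_c3p01 : PosD ⟨⟨0, 1, 1⟩, ⟨98, 99, 147⟩, ⟨9165, 9258, 30000⟩, ⟨1467, 1532, 1000⟩⟩ (tC85A.hC3p false true) :=
  posD_of_check (c := ⟨460, ⟨3, 8, 15, 11⟩⟩) (by decide +kernel)

def tC85A_c3m01 : PosD ⟨⟨0, 1, 1⟩, ⟨98, 99, 147⟩, ⟨9165, 9258, 30000⟩, ⟨1467, 1532, 1000⟩⟩ (tC85A.hC3m false true) :=
  posD_of_check (c := ⟨434, ⟨3, 7, 15, 10⟩⟩) (by decide +kernel)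

def tC85A_c3ph01 : PosD ⟨⟨0, 1, 1⟩, ⟨98, 99, 147⟩, ⟨9165, 9258, 30000⟩, ⟨1467, 1532, 1000⟩⟩ (tC85A.hC3p' false true) :=
  posD_of_check (c := ⟨460, ⟨3, 8, 15, 11⟩⟩) (by decide +kernel)

def tC85A_c3mh01 : PosD ⟨⟨0, 1, 1⟩, ⟨98, 99, 147⟩, ⟨9165, 9258, 30000⟩, ⟨1467, 1532, 1000⟩⟩ (tC85A.hC3m' false true) :=
  posD_of_check (c := ⟨434, ⟨3, 7, 15, 10⟩⟩) (by decide +kernel)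

def tC85A_up01 : PosD ⟨⟨0, 1, 1⟩, ⟨98, 99, 147⟩, ⟨9165, 9258, 30000⟩, ⟨1467, 1532, 1000⟩⟩ (tC85A.hUp false true) :=
  posD_of_check (c := ⟨460, ⟨3, 8, 15, 11⟩⟩) (by decide +kernel)

def tC85A_um01 : PosD ⟨⟨0, 1, 1⟩, ⟨98, 99, 147⟩, ⟨9165, 9258, 30000⟩, ⟨1467, 1532, 1000⟩⟩ (tC85A.hUm false true) :=
  posD_of_check (c := ⟨431, ⟨2, 7, 15, 10⟩⟩) (by decide +kernel)

def tC85A_tmg01 : PosD ⟨⟨0, 1, 1⟩, ⟨98, 99, 147⟩, ⟨9165, 9258, 30000⟩, ⟨1467, 1532, 1000⟩⟩ (tC85A.hTMG true (tC85A.pEnd false)) :=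
  posD_of_check (c := ⟨413, ⟨2, 7, 14, 10⟩⟩) (by decide +kernel)

def tC85A_kap1 : PosD ⟨⟨0, 1, 1⟩, ⟨98, 99, 147⟩, ⟨9165, 9258, 30000⟩, ⟨1467, 1532, 1000⟩⟩ (tC85A.kap true) :=
  posD_of_check (c := ⟨74, ⟨1, 1, 2, 2⟩⟩) (by decide +kernel)

def tC85A_c11 : PosD ⟨⟨0, 1, 1⟩, ⟨98, 99, 147⟩, ⟨9165, 9258, 30000⟩, ⟨1467, 1532, 1000⟩⟩ (tC85A.hC1 true) :=
  posD_of_check (c := ⟨284, ⟨3, 5, 9, 7⟩⟩) (by decide +kernel)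

def tC85A_c1h1 : PosD ⟨⟨0, 1, 1⟩, ⟨98, 99, 147⟩, ⟨9165, 9258, 30000⟩, ⟨1467, 1532, 1000⟩⟩ (tC85A.hC1' true) :=
  posD_of_relax (k₁ := 0) (k₂ := 0) (k₃ := 53) (n := 16) (posD_of_check (c := ⟨284, ⟨3, 5, 9, 7⟩⟩) (by decide +kernel))

def tC85A_tg10 : PosD ⟨⟨0, 1, 1⟩, ⟨98, 99, 147⟩, ⟨9165, 9258, 30000⟩, ⟨1467, 1532, 1000⟩⟩ (tC85A.hG false (tC85A.pEnd true)) :=
  posD_of_check (c := ⟨396, ⟨2, 7, 14, 9⟩⟩) (by decide +kernel)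

def tC85A_c2p10 : PosD ⟨⟨0, 1, 1⟩, ⟨98, 99, 147⟩, ⟨9165, 9258, 30000⟩, ⟨1467, 1532, 1000⟩⟩ (tC85A.hC2p false (tC85A.pEnd true)) :=
  posD_of_check (c := ⟨471, ⟨3, 8, 16, 11⟩⟩) (by decide +kernel)

def tC85A_c2m10 : PosD ⟨⟨0, 1, 1⟩, ⟨98, 99, 147⟩, ⟨9165, 9258, 30000⟩, ⟨1467, 1532, 1000⟩⟩ (tC85A.hC2m false (tC85A.pEnd true)) :=
  posD_of_check (c := ⟨439, ⟨2, 7, 16, 10⟩⟩) (by decide +kernel)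

def tC85A_c3p10 : PosD ⟨⟨0, 1, 1⟩, ⟨98, 99, 147⟩, ⟨9165, 9258, 30000⟩, ⟨1467, 1532, 1000⟩⟩ (tC85A.hC3p true false) :=
  posD_of_check (c := ⟨456, ⟨3, 8, 15, 11⟩⟩) (by decide +kernel)

def tC85A_c3m10 : PosD ⟨⟨0, 1, 1⟩, ⟨98, 99, 147⟩, ⟨9165, 9258, 30000⟩, ⟨1467, 1532, 1000⟩⟩ (tC85A.hC3m true false) :=
  posD_of_check (c := ⟨432, ⟨3, 7, 15, 10⟩⟩) (by decide +kernel)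

def tC85A_c3ph10 : PosD ⟨⟨0, 1, 1⟩, ⟨98, 99, 147⟩, ⟨9165, 9258, 30000⟩, ⟨1467, 1532, 1000⟩⟩ (tC85A.hC3p' true false) :=
  posD_of_check (c := ⟨456, ⟨3, 8, 15, 11⟩⟩) (by decide +kernel)

def tC85A_c3mh10 : PosD ⟨⟨0, 1, 1⟩, ⟨98, 99, 147⟩, ⟨9165, 9258, 30000⟩, ⟨1467, 1532, 1000⟩⟩ (tC85A.hC3m' true false) :=
  posD_of_check (c := ⟨432, ⟨3, 7, 15, 10⟩⟩) (by decide +kernel)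

def tC85A_up10 : PosD ⟨⟨0, 1, 1⟩, ⟨98, 99, 147⟩, ⟨9165, 9258, 30000⟩, ⟨1467, 1532, 1000⟩⟩ (tC85A.hUp true false) :=
  posD_of_check (c := ⟨455, ⟨3, 8, 15, 11⟩⟩) (by decide +kernel)

def tC85A_um10 : PosD ⟨⟨0, 1, 1⟩, ⟨98, 99, 147⟩, ⟨9165, 9258, 30000⟩, ⟨1467, 1532, 1000⟩⟩ (tC85A.hUm true false) :=
  posD_of_check (c := ⟨426, ⟨2, 7, 15, 10⟩⟩) (by decide +kernel)

def tC85A_tmg10 : PosD ⟨⟨0, 1, 1⟩, ⟨98, 99, 147⟩, ⟨9165, 9258, 30000⟩, ⟨1467, 1532, 1000⟩⟩ (tC85A.hTMG false (tC85A.pEnd true)) :=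
  posD_of_check (c := ⟨409, ⟨2, 7, 14, 10⟩⟩) (by decide +kernel)

def tC85A_tg11 : PosD ⟨⟨0, 1, 1⟩, ⟨98, 99, 147⟩, ⟨9165, 9258, 30000⟩, ⟨1467, 1532, 1000⟩⟩ (tC85A.hG true (tC85A.pEnd true)) :=
  posD_of_check (c := ⟨396, ⟨2, 7, 14, 9⟩⟩) (by decide +kernel)

def tC85A_c2p11 : PosD ⟨⟨0, 1, 1⟩, ⟨98, 99, 147⟩, ⟨9165, 9258, 30000⟩, ⟨1467, 1532, 1000⟩⟩ (tC85A.hC2p true (tC85A.pEnd true)) :=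
  posD_of_check (c := ⟨471, ⟨3, 8, 16, 11⟩⟩) (by decide +kernel)

def tC85A_c2m11 : PosD ⟨⟨0, 1, 1⟩, ⟨98, 99, 147⟩, ⟨9165, 9258, 30000⟩, ⟨1467, 1532, 1000⟩⟩ (tC85A.hC2m true (tC85A.pEnd true)) :=
  posD_of_check (c := ⟨439, ⟨2, 7, 16, 10⟩⟩) (by decide +kernel)

def tC85A_c3p11 : PosD ⟨⟨0, 1, 1⟩, ⟨98, 99, 147⟩, ⟨9165, 9258, 30000⟩, ⟨1467, 1532, 1000⟩⟩ (tC85A.hC3p true true) :=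
  posD_of_check (c := ⟨456, ⟨3, 8, 15, 11⟩⟩) (by decide +kernel)

def tC85A_c3m11 : PosD ⟨⟨0, 1, 1⟩, ⟨98, 99, 147⟩, ⟨9165, 9258, 30000⟩, ⟨1467, 1532, 1000⟩⟩ (tC85A.hC3m true true) :=
  posD_of_check (c := ⟨432, ⟨3, 7, 15, 10⟩⟩) (by decide +kernel)

def tC85A_c3ph11 : PosD ⟨⟨0, 1, 1⟩, ⟨98, 99, 147⟩, ⟨9165, 9258, 30000⟩, ⟨1467, 1532, 1000⟩⟩ (tC85A.hC3p' true true) :=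
  posD_of_check (c := ⟨456, ⟨3, 8, 15, 11⟩⟩) (by decide +kernel)

def tC85A_c3mh11 : PosD ⟨⟨0, 1, 1⟩, ⟨98, 99, 147⟩, ⟨9165, 9258, 30000⟩, ⟨1467, 1532, 1000⟩⟩ (tC85A.hC3m' true true) :=
  posD_of_check (c := ⟨432, ⟨3, 7, 15, 10⟩⟩) (by decide +kernel)

def tC85A_up11 : PosD ⟨⟨0, 1, 1⟩, ⟨98, 99, 147⟩, ⟨9165, 9258, 30000⟩, ⟨1467, 1532, 1000⟩⟩ (tC85A.hUp true true) :=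
  posD_of_check (c := ⟨455, ⟨3, 8, 15, 11⟩⟩) (by decide +kernel)

def tC85A_um11 : PosD ⟨⟨0, 1, 1⟩, ⟨98, 99, 147⟩, ⟨9165, 9258, 30000⟩, ⟨1467, 1532, 1000⟩⟩ (tC85A.hUm true true) :=
  posD_of_check (c := ⟨426, ⟨2, 7, 15, 10⟩⟩) (by decide +kernel)

def tC85A_tmg11 : PosD ⟨⟨0, 1, 1⟩, ⟨98, 99, 147⟩, ⟨9165, 9258, 30000⟩, ⟨1467, 1532, 1000⟩⟩ (tC85A.hTMG true (tC85A.pEnd true)) :=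
  posD_of_check (c := ⟨409, ⟨2, 7, 14, 10⟩⟩) (by decide +kernel)

/-- The signs of the piece. -/
def tC85A_sign : tC85A.Sign ⟨⟨0, 1, 1⟩, ⟨98, 99, 147⟩, ⟨9165, 9258, 30000⟩, ⟨1467, 1532, 1000⟩⟩ :=
  ⟨tC85A_pp,
    tC85A_k2p,
    tC85A_k2m,
    Bool.forall_bool.2 ⟨(Bool.forall_bool.2 ⟨tC85A_tg00, tC85A_tg01⟩), (Bool.forall_bool.2 ⟨tC85A_tg10, tC85A_tg11⟩)⟩,
    Bool.forall_bool.2 ⟨(Bool.forall_bool.2 ⟨tC85A_c2p00, tC85A_c2p01⟩), (Bool.forall_bool.2 ⟨tC85A_c2p10, tC85A_c2p11⟩)⟩,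
    Bool.forall_bool.2 ⟨(Bool.forall_bool.2 ⟨tC85A_c2m00, tC85A_c2m01⟩), (Bool.forall_bool.2 ⟨tC85A_c2m10, tC85A_c2m11⟩)⟩,
    Bool.forall_bool.2 ⟨tC85A_kap0, tC85A_kap1⟩,
    Bool.forall_bool.2 ⟨tC85A_c10, tC85A_c11⟩,
    Bool.forall_bool.2 ⟨(Bool.forall_bool.2 ⟨tC85A_c3p00, tC85A_c3p01⟩), (Bool.forall_bool.2 ⟨tC85A_c3p10, tC85A_c3p11⟩)⟩,
    Bool.forall_bool.2 ⟨(Bool.forall_bool.2 ⟨tC85A_c3m00, tC85A_c3m01⟩), (Bool.forall_bool.2 ⟨tC85A_c3m10, tC85A_c3m11⟩)⟩,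
    Bool.forall_bool.2 ⟨(Bool.forall_bool.2 ⟨tC85A_tmg00, tC85A_tmg01⟩), (Bool.forall_bool.2 ⟨tC85A_tmg10, tC85A_tmg11⟩)⟩,
    .inr (Bool.forall_bool.2 ⟨⟨tC85A_c1h0, Bool.forall_bool.2 ⟨⟨tC85A_c3ph00, tC85A_c3mh00, tC85A_up00, tC85A_um00⟩, ⟨tC85A_c3ph01, tC85A_c3mh01, tC85A_up01, tC85A_um01⟩⟩⟩, ⟨tC85A_c1h1, Bool.forall_bool.2 ⟨⟨tC85A_c3ph10, tC85A_c3mh10, tC85A_up10, tC85A_um10⟩, ⟨tC85A_c3ph11, tC85A_c3mh11, tC85A_up11, tC85A_um11⟩⟩⟩⟩),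
    tC85A_v2p,
    tC85A_v2m,
    tC85A_v3p,
    tC85A_v3m,
    posD_sub (b := ⟨⟨0, 1, 1⟩, ⟨98, 99, 147⟩, ⟨4050, 10000, 30000⟩, ⟨290, 4000, 1000⟩⟩) (by decide +kernel) tC_vG,
    posD_sub (b := ⟨⟨0, 1, 1⟩, ⟨98, 99, 147⟩, ⟨4050, 10000, 30000⟩, ⟨290, 4000, 1000⟩⟩) (by decide +kernel) tC_vMG,
    posD_sub (b := ⟨⟨0, 1, 1⟩, ⟨98, 99, 147⟩, ⟨4050, 10000, 30000⟩, ⟨290, 4000, 1000⟩⟩) (by decide +kernel) tC_ak,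
    posD_sub (b := ⟨⟨0, 1, 1⟩, ⟨98, 99, 147⟩, ⟨4050, 10000, 30000⟩, ⟨290, 4000, 1000⟩⟩) (by decide +kernel) tC_aw,
    posD_sub (b := ⟨⟨0, 1, 1⟩, ⟨98, 99, 147⟩, ⟨4050, 10000, 30000⟩, ⟨290, 4000, 1000⟩⟩) (by decide +kernel) tC_gk,
    posD_sub (b := ⟨⟨0, 1, 1⟩, ⟨98, 99, 147⟩, ⟨4050, 10000, 30000⟩, ⟨290, 4000, 1000⟩⟩) (by decide +kernel) tC_gw,
    posD_sub (b := ⟨⟨0, 1, 1⟩, ⟨98, 99, 147⟩, ⟨4050, 10000, 30000⟩, ⟨290, 4000, 1000⟩⟩) (by decide +kernel) tC_ek,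
    posD_sub (b := ⟨⟨0, 1, 1⟩, ⟨98, 99, 147⟩, ⟨4050, 10000, 30000⟩, ⟨290, 4000, 1000⟩⟩) (by decide +kernel) tC_ew⟩

def tC85B_pp : PosD ⟨⟨0, 1, 1⟩, ⟨98, 99, 147⟩, ⟨9165, 9258, 30000⟩, ⟨1467, 1532, 1000⟩⟩ (tC85B.xPL) :=
  posD_of_check (c := ⟨99, ⟨1, 1, 3, 3⟩⟩) (by decide +kernel)

def tC85B_k2p : PosD ⟨⟨0, 1, 1⟩, ⟨98, 99, 147⟩, ⟨9165, 9258, 30000⟩, ⟨1467, 1532, 1000⟩⟩ (tC85B.k2p tC85B.xE) :=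
  posD_of_check (c := ⟨73, ⟨1, 1, 2, 2⟩⟩) (by decide +kernel)

def tC85B_k2m : PosD ⟨⟨0, 1, 1⟩, ⟨98, 99, 147⟩, ⟨9165, 9258, 30000⟩, ⟨1467, 1532, 1000⟩⟩ (tC85B.k2m tC85B.xE) :=
  posD_of_check (c := ⟨31, ⟨0, 0, 1, 1⟩⟩) (by decide +kernel)

def tC85B_v2p : PosD ⟨⟨0, 1, 1⟩, ⟨98, 99, 147⟩, ⟨9165, 9258, 30000⟩, ⟨1467, 1532, 1000⟩⟩ (tC85B.hV2p) :=
  posD_of_check (c := ⟨274, ⟨1, 6, 10, 5⟩⟩) (by decide +kernel)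

def tC85B_v2m : PosD ⟨⟨0, 1, 1⟩, ⟨98, 99, 147⟩, ⟨9165, 9258, 30000⟩, ⟨1467, 1532, 1000⟩⟩ (tC85B.hV2m) :=
  posD_of_check (c := ⟨245, ⟨0, 5, 10, 4⟩⟩) (by decide +kernel)

def tC85B_v3p : PosD ⟨⟨0, 1, 1⟩, ⟨98, 99, 147⟩, ⟨9165, 9258, 30000⟩, ⟨1467, 1532, 1000⟩⟩ (tC85B.hV3p) :=
  posD_of_check (c := ⟨259, ⟨1, 6, 9, 5⟩⟩) (by decide +kernel)

def tC85B_v3m : PosD ⟨⟨0, 1, 1⟩, ⟨98, 99, 147⟩, ⟨9165, 9258, 30000⟩, ⟨1467, 1532, 1000⟩⟩ (tC85B.hV3m) :=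
  posD_of_check (c := ⟨232, ⟨0, 5, 9, 4⟩⟩) (by decide +kernel)

def tC85B_kap0 : PosD ⟨⟨0, 1, 1⟩, ⟨98, 99, 147⟩, ⟨9165, 9258, 30000⟩, ⟨1467, 1532, 1000⟩⟩ (tC85B.kap false) :=
  posD_of_check (c := ⟨71, ⟨1, 1, 2, 2⟩⟩) (by decide +kernel)

def tC85B_c10 : PosD ⟨⟨0, 1, 1⟩, ⟨98, 99, 147⟩, ⟨9165, 9258, 30000⟩, ⟨1467, 1532, 1000⟩⟩ (tC85B.hC1 false) :=
  posD_of_check (c := ⟨277, ⟨3, 5, 9, 7⟩⟩) (by decide +kernel)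

def tC85B_c1h0 : PosD ⟨⟨0, 1, 1⟩, ⟨98, 99, 147⟩, ⟨9165, 9258, 30000⟩, ⟨1467, 1532, 1000⟩⟩ (tC85B.hC1' false) :=
  posD_of_relax (k₁ := 0) (k₂ := 0) (k₃ := 17) (n := 16) (posD_of_check (c := ⟨277, ⟨3, 5, 9, 7⟩⟩) (by decide +kernel))

def tC85B_tg00 : PosD ⟨⟨0, 1, 1⟩, ⟨98, 99, 147⟩, ⟨9165, 9258, 30000⟩, ⟨1467, 1532, 1000⟩⟩ (tC85B.hG false (tC85B.pEnd false)) :=
  posD_of_check (c := ⟨394, ⟨2, 7, 14, 9⟩⟩) (by decide +kernel)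

def tC85B_c2p00 : PosD ⟨⟨0, 1, 1⟩, ⟨98, 99, 147⟩, ⟨9165, 9258, 30000⟩, ⟨1467, 1532, 1000⟩⟩ (tC85B.hC2p false (tC85B.pEnd false)) :=
  posD_of_check (c := ⟨466, ⟨3, 8, 16, 11⟩⟩) (by decide +kernel)

def tC85B_c2m00 : PosD ⟨⟨0, 1, 1⟩, ⟨98, 99, 147⟩, ⟨9165, 9258, 30000⟩, ⟨1467, 1532, 1000⟩⟩ (tC85B.hC2m false (tC85B.pEnd false)) :=
  posD_of_check (c := ⟨437, ⟨2, 7, 16, 10⟩⟩) (by decide +kernel)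

def tC85B_c3p00 : PosD ⟨⟨0, 1, 1⟩, ⟨98, 99, 147⟩, ⟨9165, 9258, 30000⟩, ⟨1467, 1532, 1000⟩⟩ (tC85B.hC3p false false) :=
  posD_of_check (c := ⟨451, ⟨3, 8, 15, 11⟩⟩) (by decide +kernel)

def tC85B_c3m00 : PosD ⟨⟨0, 1, 1⟩, ⟨98, 99, 147⟩, ⟨9165, 9258, 30000⟩, ⟨1467, 1532, 1000⟩⟩ (tC85B.hC3m false false) :=
  posD_of_check (c := ⟨426, ⟨3, 7, 15, 10⟩⟩) (by decide +kernel)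

def tC85B_c3ph00 : PosD ⟨⟨0, 1, 1⟩, ⟨98, 99, 147⟩, ⟨9165, 9258, 30000⟩, ⟨1467, 1532, 1000⟩⟩ (tC85B.hC3p' false false) :=
  posD_of_check (c := ⟨451, ⟨3, 8, 15, 11⟩⟩) (by decide +kernel)

def tC85B_c3mh00 : PosD ⟨⟨0, 1, 1⟩, ⟨98, 99, 147⟩, ⟨9165, 9258, 30000⟩, ⟨1467, 1532, 1000⟩⟩ (tC85B.hC3m' false false) :=
  posD_of_check (c := ⟨426, ⟨3, 7, 15, 10⟩⟩) (by decide +kernel)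

def tC85B_up00 : PosD ⟨⟨0, 1, 1⟩, ⟨98, 99, 147⟩, ⟨9165, 9258, 30000⟩, ⟨1467, 1532, 1000⟩⟩ (tC85B.hUp false false) :=
  posD_of_check (c := ⟨451, ⟨3, 8, 15, 11⟩⟩) (by decide +kernel)

def tC85B_um00 : PosD ⟨⟨0, 1, 1⟩, ⟨98, 99, 147⟩, ⟨9165, 9258, 30000⟩, ⟨1467, 1532, 1000⟩⟩ (tC85B.hUm false false) :=
  posD_of_check (c := ⟨425, ⟨2, 7, 15, 10⟩⟩) (by decide +kernel)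

def tC85B_tmg00 : PosD ⟨⟨0, 1, 1⟩, ⟨98, 99, 147⟩, ⟨9165, 9258, 30000⟩, ⟨1467, 1532, 1000⟩⟩ (tC85B.hTMG false (tC85B.pEnd false)) :=
  posD_of_check (c := ⟨408, ⟨2, 7, 14, 10⟩⟩) (by decide +kernel)

def tC85B_tg01 : PosD ⟨⟨0, 1, 1⟩, ⟨98, 99, 147⟩, ⟨9165, 9258, 30000⟩, ⟨1467, 1532, 1000⟩⟩ (tC85B.hG true (tC85B.pEnd false)) :=
  posD_of_check (c := ⟨394, ⟨2, 7, 14, 9⟩⟩) (by decide +kernel)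

def tC85B_c2p01 : PosD ⟨⟨0, 1, 1⟩, ⟨98, 99, 147⟩, ⟨9165, 9258, 30000⟩, ⟨1467, 1532, 1000⟩⟩ (tC85B.hC2p true (tC85B.pEnd false)) :=
  posD_of_check (c := ⟨466, ⟨3, 8, 16, 11⟩⟩) (by decide +kernel)

def tC85B_c2m01 : PosD ⟨⟨0, 1, 1⟩, ⟨98, 99, 147⟩, ⟨9165, 9258, 30000⟩, ⟨1467, 1532, 1000⟩⟩ (tC85B.hC2m true (tC85B.pEnd false)) :=
  posD_of_check (c := ⟨437, ⟨2, 7, 16, 10⟩⟩) (by decide +kernel)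

def tC85B_c3p01 : PosD ⟨⟨0, 1, 1⟩, ⟨98, 99, 147⟩, ⟨9165, 9258, 30000⟩, ⟨1467, 1532, 1000⟩⟩ (tC85B.hC3p false true) :=
  posD_of_check (c := ⟨451, ⟨3, 8, 15, 11⟩⟩) (by decide +kernel)

def tC85B_c3m01 : PosD ⟨⟨0, 1, 1⟩, ⟨98, 99, 147⟩, ⟨9165, 9258, 30000⟩, ⟨1467, 1532, 1000⟩⟩ (tC85B.hC3m false true) :=
  posD_of_check (c := ⟨426, ⟨3, 7, 15, 10⟩⟩) (by decide +kernel)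

def tC85B_c3ph01 : PosD ⟨⟨0, 1, 1⟩, ⟨98, 99, 147⟩, ⟨9165, 9258, 30000⟩, ⟨1467, 1532, 1000⟩⟩ (tC85B.hC3p' false true) :=
  posD_of_check (c := ⟨451, ⟨3, 8, 15, 11⟩⟩) (by decide +kernel)

def tC85B_c3mh01 : PosD ⟨⟨0, 1, 1⟩, ⟨98, 99, 147⟩, ⟨9165, 9258, 30000⟩, ⟨1467, 1532, 1000⟩⟩ (tC85B.hC3m' false true) :=
  posD_of_check (c := ⟨426, ⟨3, 7, 15, 10⟩⟩) (by decide +kernel)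

def tC85B_up01 : PosD ⟨⟨0, 1, 1⟩, ⟨98, 99, 147⟩, ⟨9165, 9258, 30000⟩, ⟨1467, 1532, 1000⟩⟩ (tC85B.hUp false true) :=
  posD_of_check (c := ⟨451, ⟨3, 8, 15, 11⟩⟩) (by decide +kernel)

def tC85B_um01 : PosD ⟨⟨0, 1, 1⟩, ⟨98, 99, 147⟩, ⟨9165, 9258, 30000⟩, ⟨1467, 1532, 1000⟩⟩ (tC85B.hUm false true) :=
  posD_of_check (c := ⟨425, ⟨2, 7, 15, 10⟩⟩) (by decide +kernel)

def tC85B_tmg01 : PosD ⟨⟨0, 1, 1⟩, ⟨98, 99, 147⟩, ⟨9165, 9258, 30000⟩, ⟨1467, 1532, 1000⟩⟩ (tC85B.hTMG true (tC85B.pEnd false)) :=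
  posD_of_check (c := ⟨408, ⟨2, 7, 14, 10⟩⟩) (by decide +kernel)

def tC85B_kap1 : PosD ⟨⟨0, 1, 1⟩, ⟨98, 99, 147⟩, ⟨9165, 9258, 30000⟩, ⟨1467, 1532, 1000⟩⟩ (tC85B.kap true) :=
  posD_of_check (c := ⟨71, ⟨1, 1, 2, 2⟩⟩) (by decide +kernel)

def tC85B_c11 : PosD ⟨⟨0, 1, 1⟩, ⟨98, 99, 147⟩, ⟨9165, 9258, 30000⟩, ⟨1467, 1532, 1000⟩⟩ (tC85B.hC1 true) :=
  posD_of_check (c := ⟨273, ⟨3, 5, 9, 7⟩⟩) (by decide +kernel)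

def tC85B_c1h1a : PosD ⟨⟨0, 1, 1⟩, ⟨98, 99, 147⟩, ⟨9165, 9211, 30000⟩, ⟨1467, 1532, 1000⟩⟩ (tC85B.hC1' true) :=
  posD_of_check (c := ⟨273, ⟨3, 5, 9, 7⟩⟩) (by decide +kernel)

def tC85B_c1h1b : PosD ⟨⟨0, 1, 1⟩, ⟨98, 99, 147⟩, ⟨9211, 9258, 30000⟩, ⟨1467, 1532, 1000⟩⟩ (tC85B.hC1' true) :=
  posD_of_relax (k₁ := 0) (k₂ := 0) (k₃ := 140) (n := 16) (posD_of_check (c := ⟨273, ⟨3, 5, 9, 7⟩⟩) (by decide +kernel))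

def tC85B_c1h1 : PosD ⟨⟨0, 1, 1⟩, ⟨98, 99, 147⟩, ⟨9165, 9258, 30000⟩, ⟨1467, 1532, 1000⟩⟩ (tC85B.hC1' true) :=
  posD_join₂ tC85B_c1h1a tC85B_c1h1b

def tC85B_tg10 : PosD ⟨⟨0, 1, 1⟩, ⟨98, 99, 147⟩, ⟨9165, 9258, 30000⟩, ⟨1467, 1532, 1000⟩⟩ (tC85B.hG false (tC85B.pEnd true)) :=
  posD_of_check (c := ⟨388, ⟨2, 7, 14, 9⟩⟩) (by decide +kernel)

def tC85B_c2p10 : PosD ⟨⟨0, 1, 1⟩, ⟨98, 99, 147⟩, ⟨9165, 9258, 30000⟩, ⟨1467, 1532, 1000⟩⟩ (tC85B.hC2p false (tC85B.pEnd true)) :=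
  posD_of_check (c := ⟨460, ⟨3, 8, 16, 11⟩⟩) (by decide +kernel)

def tC85B_c2m10 : PosD ⟨⟨0, 1, 1⟩, ⟨98, 99, 147⟩, ⟨9165, 9258, 30000⟩, ⟨1467, 1532, 1000⟩⟩ (tC85B.hC2m false (tC85B.pEnd true)) :=
  posD_of_check (c := ⟨431, ⟨2, 7, 16, 10⟩⟩) (by decide +kernel)

def tC85B_c3p10 : PosD ⟨⟨0, 1, 1⟩, ⟨98, 99, 147⟩, ⟨9165, 9258, 30000⟩, ⟨1467, 1532, 1000⟩⟩ (tC85B.hC3p true false) :=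
  posD_of_check (c := ⟨446, ⟨3, 8, 15, 11⟩⟩) (by decide +kernel)

def tC85B_c3m10 : PosD ⟨⟨0, 1, 1⟩, ⟨98, 99, 147⟩, ⟨9165, 9258, 30000⟩, ⟨1467, 1532, 1000⟩⟩ (tC85B.hC3m true false) :=
  posD_of_check (c := ⟨421, ⟨3, 7, 15, 10⟩⟩) (by decide +kernel)

def tC85B_c3ph10 : PosD ⟨⟨0, 1, 1⟩, ⟨98, 99, 147⟩, ⟨9165, 9258, 30000⟩, ⟨1467, 1532, 1000⟩⟩ (tC85B.hC3p' true false) :=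
  posD_of_check (c := ⟨446, ⟨3, 8, 15, 11⟩⟩) (by decide +kernel)

def tC85B_c3mh10 : PosD ⟨⟨0, 1, 1⟩, ⟨98, 99, 147⟩, ⟨9165, 9258, 30000⟩, ⟨1467, 1532, 1000⟩⟩ (tC85B.hC3m' true false) :=
  posD_of_check (c := ⟨421, ⟨3, 7, 15, 10⟩⟩) (by decide +kernel)

def tC85B_up10 : PosD ⟨⟨0, 1, 1⟩, ⟨98, 99, 147⟩, ⟨9165, 9258, 30000⟩, ⟨1467, 1532, 1000⟩⟩ (tC85B.hUp true false) :=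
  posD_of_check (c := ⟨445, ⟨3, 8, 15, 11⟩⟩) (by decide +kernel)

def tC85B_um10 : PosD ⟨⟨0, 1, 1⟩, ⟨98, 99, 147⟩, ⟨9165, 9258, 30000⟩, ⟨1467, 1532, 1000⟩⟩ (tC85B.hUm true false) :=
  posD_of_check (c := ⟨419, ⟨2, 7, 15, 10⟩⟩) (by decide +kernel)

def tC85B_tmg10 : PosD ⟨⟨0, 1, 1⟩, ⟨98, 99, 147⟩, ⟨9165, 9258, 30000⟩, ⟨1467, 1532, 1000⟩⟩ (tC85B.hTMG false (tC85B.pEnd true)) :=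
  posD_of_check (c := ⟨403, ⟨2, 7, 14, 10⟩⟩) (by decide +kernel)

def tC85B_tg11 : PosD ⟨⟨0, 1, 1⟩, ⟨98, 99, 147⟩, ⟨9165, 9258, 30000⟩, ⟨1467, 1532, 1000⟩⟩ (tC85B.hG true (tC85B.pEnd true)) :=
  posD_of_check (c := ⟨388, ⟨2, 7, 14, 9⟩⟩) (by decide +kernel)

def tC85B_c2p11 : PosD ⟨⟨0, 1, 1⟩, ⟨98, 99, 147⟩, ⟨9165, 9258, 30000⟩, ⟨1467, 1532, 1000⟩⟩ (tC85B.hC2p true (tC85B.pEnd true)) :=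
  posD_of_check (c := ⟨460, ⟨3, 8, 16, 11⟩⟩) (by decide +kernel)

def tC85B_c2m11 : PosD ⟨⟨0, 1, 1⟩, ⟨98, 99, 147⟩, ⟨9165, 9258, 30000⟩, ⟨1467, 1532, 1000⟩⟩ (tC85B.hC2m true (tC85B.pEnd true)) :=
  posD_of_check (c := ⟨432, ⟨2, 7, 16, 10⟩⟩) (by decide +kernel)

def tC85B_c3p11 : PosD ⟨⟨0, 1, 1⟩, ⟨98, 99, 147⟩, ⟨9165, 9258, 30000⟩, ⟨1467, 1532, 1000⟩⟩ (tC85B.hC3p true true) :=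
  posD_of_check (c := ⟨446, ⟨3, 8, 15, 11⟩⟩) (by decide +kernel)

def tC85B_c3m11 : PosD ⟨⟨0, 1, 1⟩, ⟨98, 99, 147⟩, ⟨9165, 9258, 30000⟩, ⟨1467, 1532, 1000⟩⟩ (tC85B.hC3m true true) :=
  posD_of_check (c := ⟨421, ⟨3, 7, 15, 10⟩⟩) (by decide +kernel)

def tC85B_c3ph11 : PosD ⟨⟨0, 1, 1⟩, ⟨98, 99, 147⟩, ⟨9165, 9258, 30000⟩, ⟨1467, 1532, 1000⟩⟩ (tC85B.hC3p' true true) :=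
  posD_of_check (c := ⟨446, ⟨3, 8, 15, 11⟩⟩) (by decide +kernel)

def tC85B_c3mh11 : PosD ⟨⟨0, 1, 1⟩, ⟨98, 99, 147⟩, ⟨9165, 9258, 30000⟩, ⟨1467, 1532, 1000⟩⟩ (tC85B.hC3m' true true) :=
  posD_of_check (c := ⟨421, ⟨3, 7, 15, 10⟩⟩) (by decide +kernel)

def tC85B_up11 : PosD ⟨⟨0, 1, 1⟩, ⟨98, 99, 147⟩, ⟨9165, 9258, 30000⟩, ⟨1467, 1532, 1000⟩⟩ (tC85B.hUp true true) :=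
  posD_of_check (c := ⟨445, ⟨3, 8, 15, 11⟩⟩) (by decide +kernel)

def tC85B_um11 : PosD ⟨⟨0, 1, 1⟩, ⟨98, 99, 147⟩, ⟨9165, 9258, 30000⟩, ⟨1467, 1532, 1000⟩⟩ (tC85B.hUm true true) :=
  posD_of_check (c := ⟨419, ⟨2, 7, 15, 10⟩⟩) (by decide +kernel)

def tC85B_tmg11 : PosD ⟨⟨0, 1, 1⟩, ⟨98, 99, 147⟩, ⟨9165, 9258, 30000⟩, ⟨1467, 1532, 1000⟩⟩ (tC85B.hTMG true (tC85B.pEnd true)) :=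
  posD_of_check (c := ⟨403, ⟨2, 7, 14, 10⟩⟩) (by decide +kernel)

/-- The signs of the piece. -/
def tC85B_sign : tC85B.Sign ⟨⟨0, 1, 1⟩, ⟨98, 99, 147⟩, ⟨9165, 9258, 30000⟩, ⟨1467, 1532, 1000⟩⟩ :=
  ⟨tC85B_pp,
    tC85B_k2p,
    tC85B_k2m,
    Bool.forall_bool.2 ⟨(Bool.forall_bool.2 ⟨tC85B_tg00, tC85B_tg01⟩), (Bool.forall_bool.2 ⟨tC85B_tg10, tC85B_tg11⟩)⟩,
    Bool.forall_bool.2 ⟨(Bool.forall_bool.2 ⟨tC85B_c2p00, tC85B_c2p01⟩), (Bool.forall_bool.2 ⟨tC85B_c2p10, tC85B_c2p11⟩)⟩,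
    Bool.forall_bool.2 ⟨(Bool.forall_bool.2 ⟨tC85B_c2m00, tC85B_c2m01⟩), (Bool.forall_bool.2 ⟨tC85B_c2m10, tC85B_c2m11⟩)⟩,
    Bool.forall_bool.2 ⟨tC85B_kap0, tC85B_kap1⟩,
    Bool.forall_bool.2 ⟨tC85B_c10, tC85B_c11⟩,
    Bool.forall_bool.2 ⟨(Bool.forall_bool.2 ⟨tC85B_c3p00, tC85B_c3p01⟩), (Bool.forall_bool.2 ⟨tC85B_c3p10, tC85B_c3p11⟩)⟩,
    Bool.forall_bool.2 ⟨(Bool.forall_bool.2 ⟨tC85B_c3m00, tC85B_c3m01⟩), (Bool.forall_bool.2 ⟨tC85B_c3m10, tC85B_c3m11⟩)⟩,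
    Bool.forall_bool.2 ⟨(Bool.forall_bool.2 ⟨tC85B_tmg00, tC85B_tmg01⟩), (Bool.forall_bool.2 ⟨tC85B_tmg10, tC85B_tmg11⟩)⟩,
    .inr (Bool.forall_bool.2 ⟨⟨tC85B_c1h0, Bool.forall_bool.2 ⟨⟨tC85B_c3ph00, tC85B_c3mh00, tC85B_up00, tC85B_um00⟩, ⟨tC85B_c3ph01, tC85B_c3mh01, tC85B_up01, tC85B_um01⟩⟩⟩, ⟨tC85B_c1h1, Bool.forall_bool.2 ⟨⟨tC85B_c3ph10, tC85B_c3mh10, tC85B_up10, tC85B_um10⟩, ⟨tC85B_c3ph11, tC85B_c3mh11, tC85B_up11, tC85B_um11⟩⟩⟩⟩),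
    tC85B_v2p,
    tC85B_v2m,
    tC85B_v3p,
    tC85B_v3m,
    posD_sub (b := ⟨⟨0, 1, 1⟩, ⟨98, 99, 147⟩, ⟨4050, 10000, 30000⟩, ⟨290, 4000, 1000⟩⟩) (by decide +kernel) tC_vG,
    posD_sub (b := ⟨⟨0, 1, 1⟩, ⟨98, 99, 147⟩, ⟨4050, 10000, 30000⟩, ⟨290, 4000, 1000⟩⟩) (by decide +kernel) tC_vMG,
    posD_sub (b := ⟨⟨0, 1, 1⟩, ⟨98, 99, 147⟩, ⟨4050, 10000, 30000⟩, ⟨290, 4000, 1000⟩⟩) (by decide +kernel) tC_ak,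
    posD_sub (b := ⟨⟨0, 1, 1⟩, ⟨98, 99, 147⟩, ⟨4050, 10000, 30000⟩, ⟨290, 4000, 1000⟩⟩) (by decide +kernel) tC_aw,
    posD_sub (b := ⟨⟨0, 1, 1⟩, ⟨98, 99, 147⟩, ⟨4050, 10000, 30000⟩, ⟨290, 4000, 1000⟩⟩) (by decide +kernel) tC_gk,
    posD_sub (b := ⟨⟨0, 1, 1⟩, ⟨98, 99, 147⟩, ⟨4050, 10000, 30000⟩, ⟨290, 4000, 1000⟩⟩) (by decide +kernel) tC_gw,
    posD_sub (b := ⟨⟨0, 1, 1⟩, ⟨98, 99, 147⟩, ⟨4050, 10000, 30000⟩, ⟨290, 4000, 1000⟩⟩) (by decide +kernel) tC_ek,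
    posD_sub (b := ⟨⟨0, 1, 1⟩, ⟨98, 99, 147⟩, ⟨4050, 10000, 30000⟩, ⟨290, 4000, 1000⟩⟩) (by decide +kernel) tC_ew⟩

end Vale.Agent.P100.Calib.Closed.Six.Tail
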