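import Vale.Agent.P100.Calib.SlabSixTailDataC
import Vale.Agent.P100.Calib.SlabSixTailGlobC

/-!
# Checks of some pieces of the certificate

The checks are written as definitions so that they run one after another, which keeps the memory of the
kernel low.
-/

set_option linter.defProp false

namespace Vale.Agent.P100.Calib.Closed.Six.Tail

open BoxPos Large

local instance sixTailCheckstC58Add : Add Ex := ⟨Ex.add⟩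
local instance sixTailCheckstC58Sub : Sub Ex := ⟨Ex.sub⟩
local instance sixTailCheckstC58Mul : Mul Ex := ⟨Ex.mul⟩

def tC86_phx : PosIf ⟨⟨0, 1, 1⟩, ⟨98, 99, 147⟩, ⟨9165, 9258, 30000⟩, ⟨1532, 1599, 1000⟩⟩ (tC86.u₁ - tC86Lo) (phCn (tC86.u₁ + xO * (tC86Lo - tC86.u₁))) :=
  posIf_of_posD (posD_of_check (c := ⟨109, ⟨2, 0, 4, 2⟩⟩) (by decide +kernel))

def tC86_phd : PosD ⟨⟨0, 1, 1⟩, ⟨98, 99, 147⟩, ⟨9165, 9258, 30000⟩, ⟨1532, 1599, 1000⟩⟩ (phCd (tC86.u₁ + xO * (tC86Lo - tC86.u₁))) :=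
  posD_of_check (c := ⟨51, ⟨1, 0, 2, 1⟩⟩) (by decide +kernel)

def tC86_p0 : PosD ⟨⟨0, 1, 1⟩, ⟨98, 99, 147⟩, ⟨9165, 9258, 30000⟩, ⟨1532, 1599, 1000⟩⟩ (tC86.hP0) :=
  posD_of_check (c := ⟨78, ⟨0, 2, 2, 1⟩⟩) (by decide +kernel)

def tC86_gn : PosD ⟨⟨0, 1, 1⟩, ⟨98, 99, 147⟩, ⟨9165, 9258, 30000⟩, ⟨1532, 1599, 1000⟩⟩ (tC86.hGn) :=
  posD_of_check (c := ⟨69, ⟨1, 1, 2, 2⟩⟩) (by decide +kernel)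

def tC86_den0 : PosD ⟨⟨0, 1, 1⟩, ⟨98, 99, 147⟩, ⟨9165, 9258, 30000⟩, ⟨1532, 1599, 1000⟩⟩ (tC86.hDen false) :=
  posD_of_check (c := ⟨51, ⟨1, 0, 2, 1⟩⟩) (by decide +kernel)

def tC86_den1 : PosD ⟨⟨0, 1, 1⟩, ⟨98, 99, 147⟩, ⟨9165, 9258, 30000⟩, ⟨1532, 1599, 1000⟩⟩ (tC86.hDen true) :=
  posD_of_check (c := ⟨180, ⟨3, 4, 6, 4⟩⟩) (by decide +kernel)

def tC86_ev0 : PosD ⟨⟨0, 1, 1⟩, ⟨98, 99, 147⟩, ⟨9165, 9258, 30000⟩, ⟨1532, 1599, 1000⟩⟩ (tC86.hEv false) :=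
  posD_of_check (c := ⟨220, ⟨4, 2, 8, 4⟩⟩) (by decide +kernel)

def tC86_zL0a : PosD ⟨⟨0, 1, 1⟩, ⟨98, 99, 147⟩, ⟨9165, 9258, 30000⟩, ⟨1532, 1565, 1000⟩⟩ (tC86.hZL false) :=
  posD_of_check (c := ⟨222, ⟨4, 3, 8, 4⟩⟩) (by decide +kernel)

def tC86_zL0ba : PosD ⟨⟨0, 1, 1⟩, ⟨98, 99, 147⟩, ⟨9165, 9258, 30000⟩, ⟨1565, 1582, 1000⟩⟩ (tC86.hZL false) :=
  posD_of_check (c := ⟨222, ⟨4, 3, 8, 4⟩⟩) (by decide +kernel)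

def tC86_zL0bb : PosD ⟨⟨0, 1, 1⟩, ⟨98, 99, 147⟩, ⟨9165, 9258, 30000⟩, ⟨1582, 1599, 1000⟩⟩ (tC86.hZL false) :=
  posD_of_check (c := ⟨222, ⟨4, 3, 8, 4⟩⟩) (by decide +kernel)

def tC86_zL0b : PosD ⟨⟨0, 1, 1⟩, ⟨98, 99, 147⟩, ⟨9165, 9258, 30000⟩, ⟨1565, 1599, 1000⟩⟩ (tC86.hZL false) :=
  posD_join₃ tC86_zL0ba tC86_zL0bb

def tC86_zL0 : PosD ⟨⟨0, 1, 1⟩, ⟨98, 99, 147⟩, ⟨9165, 9258, 30000⟩, ⟨1532, 1599, 1000⟩⟩ (tC86.hZL false) :=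
  posD_join₃ tC86_zL0a tC86_zL0b

def tC86_zU0 : PosD ⟨⟨0, 1, 1⟩, ⟨98, 99, 147⟩, ⟨9165, 9258, 30000⟩, ⟨1532, 1599, 1000⟩⟩ (tC86.hZU false) :=
  posD_of_check (c := ⟨222, ⟨4, 3, 8, 4⟩⟩) (by decide +kernel)

def tC86_eL0 : PosD ⟨⟨0, 1, 1⟩, ⟨98, 99, 147⟩, ⟨9165, 9258, 30000⟩, ⟨1532, 1599, 1000⟩⟩ (tC86.hEL false) :=
  posD_of_check (c := ⟨310, ⟨5, 6, 10, 6⟩⟩) (by decide +kernel)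

def tC86_eH0 : PosD ⟨⟨0, 1, 1⟩, ⟨98, 99, 147⟩, ⟨9165, 9258, 30000⟩, ⟨1532, 1599, 1000⟩⟩ (tC86.hEH false) :=
  posD_of_check (c := ⟨349, ⟨5, 6, 11, 7⟩⟩) (by decide +kernel)

def tC86_pL0 : PosD ⟨⟨0, 1, 1⟩, ⟨98, 99, 147⟩, ⟨9165, 9258, 30000⟩, ⟨1532, 1599, 1000⟩⟩ (tC86.hPL false) :=
  posD_of_check (c := ⟨344, ⟨5, 6, 11, 7⟩⟩) (by decide +kernel)

def tC86_pU0 : PosD ⟨⟨0, 1, 1⟩, ⟨98, 99, 147⟩, ⟨9165, 9258, 30000⟩, ⟨1532, 1599, 1000⟩⟩ (tC86.hPU false) :=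
  posD_of_check (c := ⟨353, ⟨5, 6, 11, 7⟩⟩) (by decide +kernel)

def tC86_kU0 : PosD ⟨⟨0, 1, 1⟩, ⟨98, 99, 147⟩, ⟨9165, 9258, 30000⟩, ⟨1532, 1599, 1000⟩⟩ (tC86.hKU false) :=
  posD_of_check (c := ⟨346, ⟨5, 6, 11, 7⟩⟩) (by decide +kernel)

def tC86_kL0 : PosD ⟨⟨0, 1, 1⟩, ⟨98, 99, 147⟩, ⟨9165, 9258, 30000⟩, ⟨1532, 1599, 1000⟩⟩ (tC86.hKL false) :=
  posD_of_check (c := ⟨337, ⟨5, 6, 11, 7⟩⟩) (by decide +kernel)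

def tC86_wU0 : PosD ⟨⟨0, 1, 1⟩, ⟨98, 99, 147⟩, ⟨9165, 9258, 30000⟩, ⟨1532, 1599, 1000⟩⟩ (tC86.hWU false) :=
  posD_of_check (c := ⟨384, ⟨5, 8, 12, 7⟩⟩) (by decide +kernel)

def tC86_wL0 : PosD ⟨⟨0, 1, 1⟩, ⟨98, 99, 147⟩, ⟨9165, 9258, 30000⟩, ⟨1532, 1599, 1000⟩⟩ (tC86.hWL false) :=
  posD_of_check (c := ⟨384, ⟨5, 8, 12, 7⟩⟩) (by decide +kernel)

def tC86_ev1 : PosD ⟨⟨0, 1, 1⟩, ⟨98, 99, 147⟩, ⟨9165, 9258, 30000⟩, ⟨1532, 1599, 1000⟩⟩ (tC86.hEv true) :=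
  posD_of_check (c := ⟨273, ⟨4, 6, 9, 6⟩⟩) (by decide +kernel)

def tC86_zL1 : PosD ⟨⟨0, 1, 1⟩, ⟨98, 99, 147⟩, ⟨9165, 9258, 30000⟩, ⟨1532, 1599, 1000⟩⟩ (tC86.hZL true) :=
  posD_of_check (c := ⟨293, ⟨4, 7, 9, 7⟩⟩) (by decide +kernel)

def tC86_zU1 : PosD ⟨⟨0, 1, 1⟩, ⟨98, 99, 147⟩, ⟨9165, 9258, 30000⟩, ⟨1532, 1599, 1000⟩⟩ (tC86.hZU true) :=
  posD_of_check (c := ⟨292, ⟨4, 7, 9, 7⟩⟩) (by decide +kernel)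

def tC86_eL1 : PosD ⟨⟨0, 1, 1⟩, ⟨98, 99, 147⟩, ⟨9165, 9258, 30000⟩, ⟨1532, 1599, 1000⟩⟩ (tC86.hEL true) :=
  posD_of_check (c := ⟨364, ⟨5, 10, 11, 8⟩⟩) (by decide +kernel)

def tC86_eH1 : PosD ⟨⟨0, 1, 1⟩, ⟨98, 99, 147⟩, ⟨9165, 9258, 30000⟩, ⟨1532, 1599, 1000⟩⟩ (tC86.hEH true) :=
  posD_of_check (c := ⟨403, ⟨5, 10, 12, 9⟩⟩) (by decide +kernel)

def tC86_pL1 : PosD ⟨⟨0, 1, 1⟩, ⟨98, 99, 147⟩, ⟨9165, 9258, 30000⟩, ⟨1532, 1599, 1000⟩⟩ (tC86.hPL true) :=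
  posD_of_check (c := ⟨397, ⟨5, 10, 12, 9⟩⟩) (by decide +kernel)

def tC86_pU1 : PosD ⟨⟨0, 1, 1⟩, ⟨98, 99, 147⟩, ⟨9165, 9258, 30000⟩, ⟨1532, 1599, 1000⟩⟩ (tC86.hPU true) :=
  posD_of_check (c := ⟨407, ⟨5, 10, 12, 9⟩⟩) (by decide +kernel)

def tC86_kU1 : PosD ⟨⟨0, 1, 1⟩, ⟨98, 99, 147⟩, ⟨9165, 9258, 30000⟩, ⟨1532, 1599, 1000⟩⟩ (tC86.hKU true) :=
  posD_of_check (c := ⟨400, ⟨5, 10, 12, 9⟩⟩) (by decide +kernel)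

def tC86_kL1 : PosD ⟨⟨0, 1, 1⟩, ⟨98, 99, 147⟩, ⟨9165, 9258, 30000⟩, ⟨1532, 1599, 1000⟩⟩ (tC86.hKL true) :=
  posD_of_check (c := ⟨391, ⟨5, 10, 12, 9⟩⟩) (by decide +kernel)

def tC86_wU1 : PosD ⟨⟨0, 1, 1⟩, ⟨98, 99, 147⟩, ⟨9165, 9258, 30000⟩, ⟨1532, 1599, 1000⟩⟩ (tC86.hWU true) :=
  posD_of_check (c := ⟨438, ⟨5, 12, 13, 9⟩⟩) (by decide +kernel)

def tC86_wL1 : PosD ⟨⟨0, 1, 1⟩, ⟨98, 99, 147⟩, ⟨9165, 9258, 30000⟩, ⟨1532, 1599, 1000⟩⟩ (tC86.hWL true) :=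
  posD_of_check (c := ⟨438, ⟨5, 12, 13, 9⟩⟩) (by decide +kernel)

def tC86_nueH : PosD ⟨⟨0, 1, 1⟩, ⟨98, 99, 147⟩, ⟨9165, 9258, 30000⟩, ⟨1532, 1599, 1000⟩⟩ (tC86.eH.ν) :=
  posD_of_check (c := ⟨50, ⟨0, 0, 1, 1⟩⟩) (by decide +kernel)

def tC86_nupU : PosD ⟨⟨0, 1, 1⟩, ⟨98, 99, 147⟩, ⟨9165, 9258, 30000⟩, ⟨1532, 1599, 1000⟩⟩ (tC86.pU.ν) :=
  posD_of_check (c := ⟨52, ⟨0, 0, 1, 1⟩⟩) (by decide +kernel)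

def tC86_nukU : PosD ⟨⟨0, 1, 1⟩, ⟨98, 99, 147⟩, ⟨9165, 9258, 30000⟩, ⟨1532, 1599, 1000⟩⟩ (tC86.kU.ν) :=
  posD_of_check (c := ⟨44, ⟨0, 0, 1, 1⟩⟩) (by decide +kernel)

def tC86_nuwU : PosD ⟨⟨0, 1, 1⟩, ⟨98, 99, 147⟩, ⟨9165, 9258, 30000⟩, ⟨1532, 1599, 1000⟩⟩ (tC86.wU.ν) :=
  posD_of_check (c := ⟨53, ⟨0, 0, 1, 1⟩⟩) (by decide +kernel)

def tC86_nuwL : PosD ⟨⟨0, 1, 1⟩, ⟨98, 99, 147⟩, ⟨9165, 9258, 30000⟩, ⟨1532, 1599, 1000⟩⟩ (tC86.wL.ν) :=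
  posD_of_check (c := ⟨53, ⟨0, 0, 1, 1⟩⟩) (by decide +kernel)

/-- The bounds of the piece. -/
def tC86_env : tC86.Env ⟨⟨0, 1, 1⟩, ⟨98, 99, 147⟩, ⟨9165, 9258, 30000⟩, ⟨1532, 1599, 1000⟩⟩ :=
  ⟨tC86_p0, Bool.forall_bool.2 ⟨tC86_den0, tC86_den1⟩, tC86_gn, Bool.forall_bool.2 ⟨tC86_ev0, tC86_ev1⟩, Bool.forall_bool.2 ⟨tC86_zL0, tC86_zL1⟩, Bool.forall_bool.2 ⟨tC86_zU0, tC86_zU1⟩, Bool.forall_bool.2 ⟨tC86_eL0, tC86_eL1⟩, ⟨.inr rfl, .inr rfl⟩, Bool.forall_bool.2 ⟨tC86_eH0, tC86_eH1⟩, ⟨.inr rfl, .inl tC86_nueH⟩, Bool.forall_bool.2 ⟨tC86_pL0, tC86_pL1⟩, ⟨.inr rfl, .inr rfl⟩, Bool.forall_bool.2 ⟨tC86_pU0, tC86_pU1⟩, ⟨.inr rfl, .inl tC86_nupU⟩, Bool.forall_bool.2 ⟨tC86_kU0, tC86_kU1⟩, ⟨.inr rfl, .inl tC86_nukU⟩, Bool.forall_bool.2 ⟨tC86_kL0,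 tC86_kL1⟩, ⟨.inr rfl, .inr rfl⟩, Bool.forall_bool.2 ⟨tC86_wU0, tC86_wU1⟩, ⟨.inr rfl, .inl tC86_nuwU⟩, Bool.forall_bool.2 ⟨tC86_wL0, tC86_wL1⟩, ⟨.inr rfl, .inl tC86_nuwL⟩⟩

def tC86_pp : PosD ⟨⟨0, 1, 1⟩, ⟨98, 99, 147⟩, ⟨9165, 9258, 30000⟩, ⟨1532, 1599, 1000⟩⟩ (tC86.xPL) :=
  posD_of_check (c := ⟨95, ⟨1, 1, 2, 3⟩⟩) (by decide +kernel)

def tC86_k2p : PosD ⟨⟨0, 1, 1⟩, ⟨98, 99, 147⟩, ⟨9165, 9258, 30000⟩, ⟨1532, 1599, 1000⟩⟩ (tC86.k2p tC86.xE) :=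
  posD_of_check (c := ⟨69, ⟨1, 1, 1, 2⟩⟩) (by decide +kernel)

def tC86_k2m : PosD ⟨⟨0, 1, 1⟩, ⟨98, 99, 147⟩, ⟨9165, 9258, 30000⟩, ⟨1532, 1599, 1000⟩⟩ (tC86.k2m tC86.xE) :=
  posD_of_check (c := ⟨31, ⟨0, 0, 1, 1⟩⟩) (by decide +kernel)

def tC86_v2p : PosD ⟨⟨0, 1, 1⟩, ⟨98, 99, 147⟩, ⟨9165, 9258, 30000⟩, ⟨1532, 1599, 1000⟩⟩ (tC86.hV2p) :=
  posD_of_check (c := ⟨273, ⟨1, 6, 10, 5⟩⟩) (by decide +kernel)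

def tC86_v2m : PosD ⟨⟨0, 1, 1⟩, ⟨98, 99, 147⟩, ⟨9165, 9258, 30000⟩, ⟨1532, 1599, 1000⟩⟩ (tC86.hV2m) :=
  posD_of_check (c := ⟨245, ⟨0, 5, 10, 4⟩⟩) (by decide +kernel)

def tC86_v3p : PosD ⟨⟨0, 1, 1⟩, ⟨98, 99, 147⟩, ⟨9165, 9258, 30000⟩, ⟨1532, 1599, 1000⟩⟩ (tC86.hV3p) :=
  posD_of_check (c := ⟨257, ⟨1, 6, 9, 5⟩⟩) (by decide +kernel)

def tC86_v3m : PosD ⟨⟨0, 1, 1⟩, ⟨98, 99, 147⟩, ⟨9165, 9258, 30000⟩, ⟨1532, 1599, 1000⟩⟩ (tC86.hV3m) :=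
  posD_of_check (c := ⟨232, ⟨0, 5, 9, 4⟩⟩) (by decide +kernel)

def tC86_kap0 : PosD ⟨⟨0, 1, 1⟩, ⟨98, 99, 147⟩, ⟨9165, 9258, 30000⟩, ⟨1532, 1599, 1000⟩⟩ (tC86.kap false) :=
  posD_of_check (c := ⟨68, ⟨1, 1, 1, 2⟩⟩) (by decide +kernel)

def tC86_c10 : PosD ⟨⟨0, 1, 1⟩, ⟨98, 99, 147⟩, ⟨9165, 9258, 30000⟩, ⟨1532, 1599, 1000⟩⟩ (tC86.hC1 false) :=
  posD_of_check (c := ⟨278, ⟨3, 5, 8, 7⟩⟩) (by decide +kernel)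

def tC86_c1h0 : PosD ⟨⟨0, 1, 1⟩, ⟨98, 99, 147⟩, ⟨9165, 9258, 30000⟩, ⟨1532, 1599, 1000⟩⟩ (tC86.hC1' false) :=
  posD_of_check (c := ⟨278, ⟨3, 5, 8, 7⟩⟩) (by decide +kernel)

def tC86_tg00 : PosD ⟨⟨0, 1, 1⟩, ⟨98, 99, 147⟩, ⟨9165, 9258, 30000⟩, ⟨1532, 1599, 1000⟩⟩ (tC86.hG false (tC86.pEnd false)) :=
  posD_of_check (c := ⟨387, ⟨2, 7, 12, 9⟩⟩) (by decide +kernel)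

def tC86_c2p00 : PosD ⟨⟨0, 1, 1⟩, ⟨98, 99, 147⟩, ⟨9165, 9258, 30000⟩, ⟨1532, 1599, 1000⟩⟩ (tC86.hC2p false (tC86.pEnd false)) :=
  posD_of_check (c := ⟨458, ⟨3, 8, 14, 11⟩⟩) (by decide +kernel)

def tC86_c2m00 : PosD ⟨⟨0, 1, 1⟩, ⟨98, 99, 147⟩, ⟨9165, 9258, 30000⟩, ⟨1532, 1599, 1000⟩⟩ (tC86.hC2m false (tC86.pEnd false)) :=
  posD_of_check (c := ⟨430, ⟨2, 7, 14, 10⟩⟩) (by decide +kernel)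

def tC86_c3p00 : PosD ⟨⟨0, 1, 1⟩, ⟨98, 99, 147⟩, ⟨9165, 9258, 30000⟩, ⟨1532, 1599, 1000⟩⟩ (tC86.hC3p false false) :=
  posD_of_check (c := ⟨445, ⟨3, 8, 14, 11⟩⟩) (by decide +kernel)

def tC86_c3m00 : PosD ⟨⟨0, 1, 1⟩, ⟨98, 99, 147⟩, ⟨9165, 9258, 30000⟩, ⟨1532, 1599, 1000⟩⟩ (tC86.hC3m false false) :=
  posD_of_check (c := ⟨422, ⟨3, 7, 14, 10⟩⟩) (by decide +kernel)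

def tC86_c3ph00 : PosD ⟨⟨0, 1, 1⟩, ⟨98, 99, 147⟩, ⟨9165, 9258, 30000⟩, ⟨1532, 1599, 1000⟩⟩ (tC86.hC3p' false false) :=
  posD_of_check (c := ⟨445, ⟨3, 8, 14, 11⟩⟩) (by decide +kernel)

def tC86_c3mh00 : PosD ⟨⟨0, 1, 1⟩, ⟨98, 99, 147⟩, ⟨9165, 9258, 30000⟩, ⟨1532, 1599, 1000⟩⟩ (tC86.hC3m' false false) :=
  posD_of_check (c := ⟨422, ⟨3, 7, 14, 10⟩⟩) (by decide +kernel)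

def tC86_up00 : PosD ⟨⟨0, 1, 1⟩, ⟨98, 99, 147⟩, ⟨9165, 9258, 30000⟩, ⟨1532, 1599, 1000⟩⟩ (tC86.hUp false false) :=
  posD_of_check (c := ⟨445, ⟨3, 8, 14, 11⟩⟩) (by decide +kernel)

def tC86_um00 : PosD ⟨⟨0, 1, 1⟩, ⟨98, 99, 147⟩, ⟨9165, 9258, 30000⟩, ⟨1532, 1599, 1000⟩⟩ (tC86.hUm false false) :=
  posD_of_check (c := ⟨420, ⟨2, 7, 14, 10⟩⟩) (by decide +kernel)

def tC86_tmg00 : PosD ⟨⟨0, 1, 1⟩, ⟨98, 99, 147⟩, ⟨9165, 9258, 30000⟩, ⟨1532, 1599, 1000⟩⟩ (tC86.hTMG false (tC86.pEnd false)) :=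
  posD_of_check (c := ⟨402, ⟨2, 7, 13, 10⟩⟩) (by decide +kernel)

def tC86_tg01 : PosD ⟨⟨0, 1, 1⟩, ⟨98, 99, 147⟩, ⟨9165, 9258, 30000⟩, ⟨1532, 1599, 1000⟩⟩ (tC86.hG true (tC86.pEnd false)) :=
  posD_of_check (c := ⟨387, ⟨2, 7, 12, 9⟩⟩) (by decide +kernel)

def tC86_c2p01 : PosD ⟨⟨0, 1, 1⟩, ⟨98, 99, 147⟩, ⟨9165, 9258, 30000⟩, ⟨1532, 1599, 1000⟩⟩ (tC86.hC2p true (tC86.pEnd false)) :=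
  posD_of_check (c := ⟨458, ⟨3, 8, 14, 11⟩⟩) (by decide +kernel)

def tC86_c2m01 : PosD ⟨⟨0, 1, 1⟩, ⟨98, 99, 147⟩, ⟨9165, 9258, 30000⟩, ⟨1532, 1599, 1000⟩⟩ (tC86.hC2m true (tC86.pEnd false)) :=
  posD_of_check (c := ⟨430, ⟨2, 7, 14, 10⟩⟩) (by decide +kernel)

def tC86_c3p01 : PosD ⟨⟨0, 1, 1⟩, ⟨98, 99, 147⟩, ⟨9165, 9258, 30000⟩, ⟨1532, 1599, 1000⟩⟩ (tC86.hC3p false true) :=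
  posD_of_check (c := ⟨445, ⟨3, 8, 14, 11⟩⟩) (by decide +kernel)

def tC86_c3m01 : PosD ⟨⟨0, 1, 1⟩, ⟨98, 99, 147⟩, ⟨9165, 9258, 30000⟩, ⟨1532, 1599, 1000⟩⟩ (tC86.hC3m false true) :=
  posD_of_check (c := ⟨422, ⟨3, 7, 14, 10⟩⟩) (by decide +kernel)

def tC86_c3ph01 : PosD ⟨⟨0, 1, 1⟩, ⟨98, 99, 147⟩, ⟨9165, 9258, 30000⟩, ⟨1532, 1599, 1000⟩⟩ (tC86.hC3p' false true) :=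
  posD_of_check (c := ⟨445, ⟨3, 8, 14, 11⟩⟩) (by decide +kernel)

def tC86_c3mh01 : PosD ⟨⟨0, 1, 1⟩, ⟨98, 99, 147⟩, ⟨9165, 9258, 30000⟩, ⟨1532, 1599, 1000⟩⟩ (tC86.hC3m' false true) :=
  posD_of_check (c := ⟨422, ⟨3, 7, 14, 10⟩⟩) (by decide +kernel)

def tC86_up01 : PosD ⟨⟨0, 1, 1⟩, ⟨98, 99, 147⟩, ⟨9165, 9258, 30000⟩, ⟨1532, 1599, 1000⟩⟩ (tC86.hUp false true) :=
  posD_of_check (c := ⟨445, ⟨3, 8, 14, 11⟩⟩) (by decide +kernel)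

def tC86_um01 : PosD ⟨⟨0, 1, 1⟩, ⟨98, 99, 147⟩, ⟨9165, 9258, 30000⟩, ⟨1532, 1599, 1000⟩⟩ (tC86.hUm false true) :=
  posD_of_check (c := ⟨420, ⟨2, 7, 14, 10⟩⟩) (by decide +kernel)

def tC86_tmg01 : PosD ⟨⟨0, 1, 1⟩, ⟨98, 99, 147⟩, ⟨9165, 9258, 30000⟩, ⟨1532, 1599, 1000⟩⟩ (tC86.hTMG true (tC86.pEnd false)) :=
  posD_of_check (c := ⟨402, ⟨2, 7, 13, 10⟩⟩) (by decide +kernel)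

def tC86_kap1 : PosD ⟨⟨0, 1, 1⟩, ⟨98, 99, 147⟩, ⟨9165, 9258, 30000⟩, ⟨1532, 1599, 1000⟩⟩ (tC86.kap true) :=
  posD_of_check (c := ⟨68, ⟨1, 1, 1, 2⟩⟩) (by decide +kernel)

def tC86_c11 : PosD ⟨⟨0, 1, 1⟩, ⟨98, 99, 147⟩, ⟨9165, 9258, 30000⟩, ⟨1532, 1599, 1000⟩⟩ (tC86.hC1 true) :=
  posD_of_check (c := ⟨274, ⟨3, 5, 8, 7⟩⟩) (by decide +kernel)

def tC86_c1h1 : PosD ⟨⟨0, 1, 1⟩, ⟨98, 99, 147⟩, ⟨9165, 9258, 30000⟩, ⟨1532, 1599, 1000⟩⟩ (tC86.hC1' true) :=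
  posD_of_relax (k₁ := 9) (k₂ := 0) (k₃ := 0) (n := 16) (posD_of_check (c := ⟨274, ⟨3, 5, 8, 7⟩⟩) (by decide +kernel))

def tC86_tg10 : PosD ⟨⟨0, 1, 1⟩, ⟨98, 99, 147⟩, ⟨9165, 9258, 30000⟩, ⟨1532, 1599, 1000⟩⟩ (tC86.hG false (tC86.pEnd true)) :=
  posD_of_check (c := ⟨380, ⟨2, 7, 12, 9⟩⟩) (by decide +kernel)

def tC86_c2p10 : PosD ⟨⟨0, 1, 1⟩, ⟨98, 99, 147⟩, ⟨9165, 9258, 30000⟩, ⟨1532, 1599, 1000⟩⟩ (tC86.hC2p false (tC86.pEnd true)) :=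
  posD_of_check (c := ⟨451, ⟨3, 8, 14, 11⟩⟩) (by decide +kernel)

def tC86_c2m10 : PosD ⟨⟨0, 1, 1⟩, ⟨98, 99, 147⟩, ⟨9165, 9258, 30000⟩, ⟨1532, 1599, 1000⟩⟩ (tC86.hC2m false (tC86.pEnd true)) :=
  posD_of_check (c := ⟨424, ⟨2, 7, 14, 10⟩⟩) (by decide +kernel)

def tC86_c3p10 : PosD ⟨⟨0, 1, 1⟩, ⟨98, 99, 147⟩, ⟨9165, 9258, 30000⟩, ⟨1532, 1599, 1000⟩⟩ (tC86.hC3p true false) :=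
  posD_of_check (c := ⟨439, ⟨3, 8, 14, 11⟩⟩) (by decide +kernel)

def tC86_c3m10 : PosD ⟨⟨0, 1, 1⟩, ⟨98, 99, 147⟩, ⟨9165, 9258, 30000⟩, ⟨1532, 1599, 1000⟩⟩ (tC86.hC3m true false) :=
  posD_of_check (c := ⟨418, ⟨3, 7, 14, 10⟩⟩) (by decide +kernel)

def tC86_c3ph10 : PosD ⟨⟨0, 1, 1⟩, ⟨98, 99, 147⟩, ⟨9165, 9258, 30000⟩, ⟨1532, 1599, 1000⟩⟩ (tC86.hC3p' true false) :=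
  posD_of_relax (k₁ := 3) (k₂ := 0) (k₃ := 0) (n := 16) (posD_of_check (c := ⟨439, ⟨3, 8, 14, 11⟩⟩) (by decide +kernel))

def tC86_c3mh10 : PosD ⟨⟨0, 1, 1⟩, ⟨98, 99, 147⟩, ⟨9165, 9258, 30000⟩, ⟨1532, 1599, 1000⟩⟩ (tC86.hC3m' true false) :=
  posD_of_check (c := ⟨418, ⟨3, 7, 14, 10⟩⟩) (by decide +kernel)

def tC86_up10 : PosD ⟨⟨0, 1, 1⟩, ⟨98, 99, 147⟩, ⟨9165, 9258, 30000⟩, ⟨1532, 1599, 1000⟩⟩ (tC86.hUp true false) :=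
  posD_of_check (c := ⟨439, ⟨3, 8, 14, 11⟩⟩) (by decide +kernel)

def tC86_um10 : PosD ⟨⟨0, 1, 1⟩, ⟨98, 99, 147⟩, ⟨9165, 9258, 30000⟩, ⟨1532, 1599, 1000⟩⟩ (tC86.hUm true false) :=
  posD_of_check (c := ⟨413, ⟨2, 7, 14, 10⟩⟩) (by decide +kernel)

def tC86_tmg10 : PosD ⟨⟨0, 1, 1⟩, ⟨98, 99, 147⟩, ⟨9165, 9258, 30000⟩, ⟨1532, 1599, 1000⟩⟩ (tC86.hTMG false (tC86.pEnd true)) :=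
  posD_of_check (c := ⟨396, ⟨2, 7, 13, 10⟩⟩) (by decide +kernel)

def tC86_tg11 : PosD ⟨⟨0, 1, 1⟩, ⟨98, 99, 147⟩, ⟨9165, 9258, 30000⟩, ⟨1532, 1599, 1000⟩⟩ (tC86.hG true (tC86.pEnd true)) :=
  posD_of_check (c := ⟨380, ⟨2, 7, 12, 9⟩⟩) (by decide +kernel)

def tC86_c2p11 : PosD ⟨⟨0, 1, 1⟩, ⟨98, 99, 147⟩, ⟨9165, 9258, 30000⟩, ⟨1532, 1599, 1000⟩⟩ (tC86.hC2p true (tC86.pEnd true)) :=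
  posD_of_check (c := ⟨451, ⟨3, 8, 14, 11⟩⟩) (by decide +kernel)

def tC86_c2m11 : PosD ⟨⟨0, 1, 1⟩, ⟨98, 99, 147⟩, ⟨9165, 9258, 30000⟩, ⟨1532, 1599, 1000⟩⟩ (tC86.hC2m true (tC86.pEnd true)) :=
  posD_of_check (c := ⟨423, ⟨2, 7, 14, 10⟩⟩) (by decide +kernel)

def tC86_c3p11 : PosD ⟨⟨0, 1, 1⟩, ⟨98, 99, 147⟩, ⟨9165, 9258, 30000⟩, ⟨1532, 1599, 1000⟩⟩ (tC86.hC3p true true) :=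
  posD_of_check (c := ⟨439, ⟨3, 8, 14, 11⟩⟩) (by decide +kernel)

def tC86_c3m11 : PosD ⟨⟨0, 1, 1⟩, ⟨98, 99, 147⟩, ⟨9165, 9258, 30000⟩, ⟨1532, 1599, 1000⟩⟩ (tC86.hC3m true true) :=
  posD_of_check (c := ⟨418, ⟨3, 7, 14, 10⟩⟩) (by decide +kernel)

def tC86_c3ph11 : PosD ⟨⟨0, 1, 1⟩, ⟨98, 99, 147⟩, ⟨9165, 9258, 30000⟩, ⟨1532, 1599, 1000⟩⟩ (tC86.hC3p' true true) :=
  posD_of_check (c := ⟨439, ⟨3, 8, 14, 11⟩⟩) (by decide +kernel)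

def tC86_c3mh11 : PosD ⟨⟨0, 1, 1⟩, ⟨98, 99, 147⟩, ⟨9165, 9258, 30000⟩, ⟨1532, 1599, 1000⟩⟩ (tC86.hC3m' true true) :=
  posD_of_check (c := ⟨418, ⟨3, 7, 14, 10⟩⟩) (by decide +kernel)

def tC86_up11 : PosD ⟨⟨0, 1, 1⟩, ⟨98, 99, 147⟩, ⟨9165, 9258, 30000⟩, ⟨1532, 1599, 1000⟩⟩ (tC86.hUp true true) :=
  posD_of_check (c := ⟨438, ⟨3, 8, 14, 11⟩⟩) (by decide +kernel)

def tC86_um11 : PosD ⟨⟨0, 1, 1⟩, ⟨98, 99, 147⟩, ⟨9165, 9258, 30000⟩, ⟨1532, 1599, 1000⟩⟩ (tC86.hUm true true) :=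
  posD_of_check (c := ⟨413, ⟨2, 7, 14, 10⟩⟩) (by decide +kernel)

def tC86_tmg11 : PosD ⟨⟨0, 1, 1⟩, ⟨98, 99, 147⟩, ⟨9165, 9258, 30000⟩, ⟨1532, 1599, 1000⟩⟩ (tC86.hTMG true (tC86.pEnd true)) :=
  posD_of_check (c := ⟨396, ⟨2, 7, 13, 10⟩⟩) (by decide +kernel)

/-- The signs of the piece. -/
def tC86_sign : tC86.Sign ⟨⟨0, 1, 1⟩, ⟨98, 99, 147⟩, ⟨9165, 9258, 30000⟩, ⟨1532, 1599, 1000⟩⟩ :=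
  ⟨tC86_pp,
    tC86_k2p,
    tC86_k2m,
    Bool.forall_bool.2 ⟨(Bool.forall_bool.2 ⟨tC86_tg00, tC86_tg01⟩), (Bool.forall_bool.2 ⟨tC86_tg10, tC86_tg11⟩)⟩,
    Bool.forall_bool.2 ⟨(Bool.forall_bool.2 ⟨tC86_c2p00, tC86_c2p01⟩), (Bool.forall_bool.2 ⟨tC86_c2p10, tC86_c2p11⟩)⟩,
    Bool.forall_bool.2 ⟨(Bool.forall_bool.2 ⟨tC86_c2m00, tC86_c2m01⟩), (Bool.forall_bool.2 ⟨tC86_c2m10, tC86_c2m11⟩)⟩,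
    Bool.forall_bool.2 ⟨tC86_kap0, tC86_kap1⟩,
    Bool.forall_bool.2 ⟨tC86_c10, tC86_c11⟩,
    Bool.forall_bool.2 ⟨(Bool.forall_bool.2 ⟨tC86_c3p00, tC86_c3p01⟩), (Bool.forall_bool.2 ⟨tC86_c3p10, tC86_c3p11⟩)⟩,
    Bool.forall_bool.2 ⟨(Bool.forall_bool.2 ⟨tC86_c3m00, tC86_c3m01⟩), (Bool.forall_bool.2 ⟨tC86_c3m10, tC86_c3m11⟩)⟩,
    Bool.forall_bool.2 ⟨(Bool.forall_bool.2 ⟨tC86_tmg00, tC86_tmg01⟩), (Bool.forall_bool.2 ⟨tC86_tmg10, tC86_tmg11⟩)⟩,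
    .inr (Bool.forall_bool.2 ⟨⟨tC86_c1h0, Bool.forall_bool.2 ⟨⟨tC86_c3ph00, tC86_c3mh00, tC86_up00, tC86_um00⟩, ⟨tC86_c3ph01, tC86_c3mh01, tC86_up01, tC86_um01⟩⟩⟩, ⟨tC86_c1h1, Bool.forall_bool.2 ⟨⟨tC86_c3ph10, tC86_c3mh10, tC86_up10, tC86_um10⟩, ⟨tC86_c3ph11, tC86_c3mh11, tC86_up11, tC86_um11⟩⟩⟩⟩),
    tC86_v2p,
    tC86_v2m,
    tC86_v3p,
    tC86_v3m,
    posD_sub (b := ⟨⟨0, 1, 1⟩, ⟨98, 99, 147⟩, ⟨4050, 10000, 30000⟩, ⟨290, 4000, 1000⟩⟩) (by decide +kernel) tC_vG,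
    posD_sub (b := ⟨⟨0, 1, 1⟩, ⟨98, 99, 147⟩, ⟨4050, 10000, 30000⟩, ⟨290, 4000, 1000⟩⟩) (by decide +kernel) tC_vMG,
    posD_sub (b := ⟨⟨0, 1, 1⟩, ⟨98, 99, 147⟩, ⟨4050, 10000, 30000⟩, ⟨290, 4000, 1000⟩⟩) (by decide +kernel) tC_ak,
    posD_sub (b := ⟨⟨0, 1, 1⟩, ⟨98, 99, 147⟩, ⟨4050, 10000, 30000⟩, ⟨290, 4000, 1000⟩⟩) (by decide +kernel) tC_aw,
    posD_sub (b := ⟨⟨0, 1, 1⟩, ⟨98, 99, 147⟩, ⟨4050, 10000, 30000⟩, ⟨290, 4000, 1000⟩⟩) (by decide +kernel) tC_gk,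
    posD_sub (b := ⟨⟨0, 1, 1⟩, ⟨98, 99, 147⟩, ⟨4050, 10000, 30000⟩, ⟨290, 4000, 1000⟩⟩) (by decide +kernel) tC_gw,
    posD_sub (b := ⟨⟨0, 1, 1⟩, ⟨98, 99, 147⟩, ⟨4050, 10000, 30000⟩, ⟨290, 4000, 1000⟩⟩) (by decide +kernel) tC_ek,
    posD_sub (b := ⟨⟨0, 1, 1⟩, ⟨98, 99, 147⟩, ⟨4050, 10000, 30000⟩, ⟨290, 4000, 1000⟩⟩) (by decide +kernel) tC_ew⟩

def tC87_phx : PosD ⟨⟨0, 1, 1⟩, ⟨98, 99, 147⟩, ⟨9630, 9816, 30000⟩, ⟨1446, 1467, 1000⟩⟩ (phCn (tC87Hi + xO * (tC87Lo - tC87Hi))) :=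
  posD_of_check (c := ⟨77, ⟨2, 0, 2, 1⟩⟩) (by decide +kernel)

def tC87_phd : PosD ⟨⟨0, 1, 1⟩, ⟨98, 99, 147⟩, ⟨9630, 9816, 30000⟩, ⟨1446, 1467, 1000⟩⟩ (phCd (tC87Hi + xO * (tC87Lo - tC87Hi))) :=
  posD_of_check (c := ⟨50, ⟨1, 0, 2, 0⟩⟩) (by decide +kernel)

end Vale.Agent.P100.Calib.Closed.Six.Tail
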