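import Vale.Agent.P100.Calib.SlabSixTailDataC
import Vale.Agent.P100.Calib.SlabSixTailGlobC

/-!
# Checks of some pieces of the certificate

The checks are written as definitions so that they run one after another, which keeps the memory of the
kernel low.
-/

set_option linter.defProp false

namespace Vale.Agent.P100.Calib.Closed.Six.Tail

open BoxPos Large

local instance sixTailCheckstC59Add : Add Ex := ⟨Ex.add⟩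
local instance sixTailCheckstC59Sub : Sub Ex := ⟨Ex.sub⟩
local instance sixTailCheckstC59Mul : Mul Ex := ⟨Ex.mul⟩

def tC88_phx : PosIf ⟨⟨0, 1, 1⟩, ⟨98, 99, 147⟩, ⟨9630, 9816, 30000⟩, ⟨1446, 1467, 1000⟩⟩ (tC88.u₁ - tC88Lo) (phCn (tC88.u₁ + xO * (tC88Lo - tC88.u₁))) :=
  posIf_of_posD (posD_of_check (c := ⟨109, ⟨2, 0, 4, 2⟩⟩) (by decide +kernel))

def tC88_phd : PosD ⟨⟨0, 1, 1⟩, ⟨98, 99, 147⟩, ⟨9630, 9816, 30000⟩, ⟨1446, 1467, 1000⟩⟩ (phCd (tC88.u₁ + xO * (tC88Lo - tC88.u₁))) :=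
  posD_of_check (c := ⟨51, ⟨1, 0, 2, 1⟩⟩) (by decide +kernel)

def tC88_p0 : PosD ⟨⟨0, 1, 1⟩, ⟨98, 99, 147⟩, ⟨9630, 9816, 30000⟩, ⟨1446, 1467, 1000⟩⟩ (tC88.hP0) :=
  posD_of_check (c := ⟨83, ⟨0, 2, 3, 1⟩⟩) (by decide +kernel)

def tC88_gn : PosD ⟨⟨0, 1, 1⟩, ⟨98, 99, 147⟩, ⟨9630, 9816, 30000⟩, ⟨1446, 1467, 1000⟩⟩ (tC88.hGn) :=
  posD_of_check (c := ⟨70, ⟨1, 1, 2, 2⟩⟩) (by decide +kernel)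

def tC88_den0 : PosD ⟨⟨0, 1, 1⟩, ⟨98, 99, 147⟩, ⟨9630, 9816, 30000⟩, ⟨1446, 1467, 1000⟩⟩ (tC88.hDen false) :=
  posD_of_check (c := ⟨51, ⟨1, 0, 2, 1⟩⟩) (by decide +kernel)

def tC88_den1 : PosD ⟨⟨0, 1, 1⟩, ⟨98, 99, 147⟩, ⟨9630, 9816, 30000⟩, ⟨1446, 1467, 1000⟩⟩ (tC88.hDen true) :=
  posD_of_check (c := ⟨183, ⟨3, 4, 6, 4⟩⟩) (by decide +kernel)

def tC88_ev0 : PosD ⟨⟨0, 1, 1⟩, ⟨98, 99, 147⟩, ⟨9630, 9816, 30000⟩, ⟨1446, 1467, 1000⟩⟩ (tC88.hEv false) :=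
  posD_of_check (c := ⟨224, ⟨4, 2, 8, 4⟩⟩) (by decide +kernel)

def tC88_zL0 : PosD ⟨⟨0, 1, 1⟩, ⟨98, 99, 147⟩, ⟨9630, 9816, 30000⟩, ⟨1446, 1467, 1000⟩⟩ (tC88.hZL false) :=
  posD_of_relax (k₁ := 0) (k₂ := 0) (k₃ := 1) (n := 16) (posD_of_check (c := ⟨227, ⟨4, 3, 8, 4⟩⟩) (by decide +kernel))

def tC88_zU0 : PosD ⟨⟨0, 1, 1⟩, ⟨98, 99, 147⟩, ⟨9630, 9816, 30000⟩, ⟨1446, 1467, 1000⟩⟩ (tC88.hZU false) :=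
  posD_of_check (c := ⟨227, ⟨4, 3, 8, 4⟩⟩) (by decide +kernel)

def tC88_eL0 : PosD ⟨⟨0, 1, 1⟩, ⟨98, 99, 147⟩, ⟨9630, 9816, 30000⟩, ⟨1446, 1467, 1000⟩⟩ (tC88.hEL false) :=
  posD_of_check (c := ⟨321, ⟨5, 6, 11, 6⟩⟩) (by decide +kernel)

def tC88_eH0 : PosD ⟨⟨0, 1, 1⟩, ⟨98, 99, 147⟩, ⟨9630, 9816, 30000⟩, ⟨1446, 1467, 1000⟩⟩ (tC88.hEH false) :=
  posD_of_check (c := ⟨341, ⟨5, 6, 11, 7⟩⟩) (by decide +kernel)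

def tC88_pL0 : PosD ⟨⟨0, 1, 1⟩, ⟨98, 99, 147⟩, ⟨9630, 9816, 30000⟩, ⟨1446, 1467, 1000⟩⟩ (tC88.hPL false) :=
  posD_of_check (c := ⟨351, ⟨5, 6, 11, 7⟩⟩) (by decide +kernel)

def tC88_pU0 : PosD ⟨⟨0, 1, 1⟩, ⟨98, 99, 147⟩, ⟨9630, 9816, 30000⟩, ⟨1446, 1467, 1000⟩⟩ (tC88.hPU false) :=
  posD_of_check (c := ⟨347, ⟨5, 6, 11, 7⟩⟩) (by decide +kernel)

def tC88_kU0 : PosD ⟨⟨0, 1, 1⟩, ⟨98, 99, 147⟩, ⟨9630, 9816, 30000⟩, ⟨1446, 1467, 1000⟩⟩ (tC88.hKU false) :=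
  posD_of_check (c := ⟨343, ⟨5, 6, 11, 7⟩⟩) (by decide +kernel)

def tC88_kL0 : PosD ⟨⟨0, 1, 1⟩, ⟨98, 99, 147⟩, ⟨9630, 9816, 30000⟩, ⟨1446, 1467, 1000⟩⟩ (tC88.hKL false) :=
  posD_of_check (c := ⟨343, ⟨5, 6, 11, 7⟩⟩) (by decide +kernel)

def tC88_wU0 : PosD ⟨⟨0, 1, 1⟩, ⟨98, 99, 147⟩, ⟨9630, 9816, 30000⟩, ⟨1446, 1467, 1000⟩⟩ (tC88.hWU false) :=
  posD_of_check (c := ⟨378, ⟨5, 8, 12, 7⟩⟩) (by decide +kernel)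

def tC88_wL0 : PosD ⟨⟨0, 1, 1⟩, ⟨98, 99, 147⟩, ⟨9630, 9816, 30000⟩, ⟨1446, 1467, 1000⟩⟩ (tC88.hWL false) :=
  posD_of_check (c := ⟨378, ⟨5, 8, 12, 7⟩⟩) (by decide +kernel)

def tC88_ev1 : PosD ⟨⟨0, 1, 1⟩, ⟨98, 99, 147⟩, ⟨9630, 9816, 30000⟩, ⟨1446, 1467, 1000⟩⟩ (tC88.hEv true) :=
  posD_of_check (c := ⟨277, ⟨4, 6, 9, 6⟩⟩) (by decide +kernel)

def tC88_zL1 : PosD ⟨⟨0, 1, 1⟩, ⟨98, 99, 147⟩, ⟨9630, 9816, 30000⟩, ⟨1446, 1467, 1000⟩⟩ (tC88.hZL true) :=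
  posD_of_check (c := ⟨301, ⟨4, 7, 10, 6⟩⟩) (by decide +kernel)

def tC88_zU1 : PosD ⟨⟨0, 1, 1⟩, ⟨98, 99, 147⟩, ⟨9630, 9816, 30000⟩, ⟨1446, 1467, 1000⟩⟩ (tC88.hZU true) :=
  posD_of_relax (k₁ := 0) (k₂ := 0) (k₃ := 1) (n := 16) (posD_of_check (c := ⟨301, ⟨4, 7, 10, 6⟩⟩) (by decide +kernel))

def tC88_eL1 : PosD ⟨⟨0, 1, 1⟩, ⟨98, 99, 147⟩, ⟨9630, 9816, 30000⟩, ⟨1446, 1467, 1000⟩⟩ (tC88.hEL true) :=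
  posD_of_relax (k₁ := 0) (k₂ := 0) (k₃ := 1) (n := 16) (posD_of_check (c := ⟨375, ⟨5, 10, 12, 8⟩⟩) (by decide +kernel))

def tC88_eH1 : PosD ⟨⟨0, 1, 1⟩, ⟨98, 99, 147⟩, ⟨9630, 9816, 30000⟩, ⟨1446, 1467, 1000⟩⟩ (tC88.hEH true) :=
  posD_of_check (c := ⟨395, ⟨5, 10, 12, 9⟩⟩) (by decide +kernel)

def tC88_pL1 : PosD ⟨⟨0, 1, 1⟩, ⟨98, 99, 147⟩, ⟨9630, 9816, 30000⟩, ⟨1446, 1467, 1000⟩⟩ (tC88.hPL true) :=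
  posD_of_relax (k₁ := 0) (k₂ := 0) (k₃ := 1) (n := 16) (posD_of_check (c := ⟨404, ⟨5, 10, 12, 9⟩⟩) (by decide +kernel))

def tC88_pU1 : PosD ⟨⟨0, 1, 1⟩, ⟨98, 99, 147⟩, ⟨9630, 9816, 30000⟩, ⟨1446, 1467, 1000⟩⟩ (tC88.hPU true) :=
  posD_of_check (c := ⟨400, ⟨5, 10, 12, 9⟩⟩) (by decide +kernel)

def tC88_kU1 : PosD ⟨⟨0, 1, 1⟩, ⟨98, 99, 147⟩, ⟨9630, 9816, 30000⟩, ⟨1446, 1467, 1000⟩⟩ (tC88.hKU true) :=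
  posD_of_check (c := ⟨396, ⟨5, 10, 12, 9⟩⟩) (by decide +kernel)

def tC88_kL1 : PosD ⟨⟨0, 1, 1⟩, ⟨98, 99, 147⟩, ⟨9630, 9816, 30000⟩, ⟨1446, 1467, 1000⟩⟩ (tC88.hKL true) :=
  posD_of_check (c := ⟨396, ⟨5, 10, 12, 9⟩⟩) (by decide +kernel)

def tC88_wU1 : PosD ⟨⟨0, 1, 1⟩, ⟨98, 99, 147⟩, ⟨9630, 9816, 30000⟩, ⟨1446, 1467, 1000⟩⟩ (tC88.hWU true) :=
  posD_of_check (c := ⟨432, ⟨5, 12, 13, 9⟩⟩) (by decide +kernel)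

def tC88_wL1 : PosD ⟨⟨0, 1, 1⟩, ⟨98, 99, 147⟩, ⟨9630, 9816, 30000⟩, ⟨1446, 1467, 1000⟩⟩ (tC88.hWL true) :=
  posD_of_check (c := ⟨431, ⟨5, 12, 13, 9⟩⟩) (by decide +kernel)

def tC88_nueH : PosD ⟨⟨0, 1, 1⟩, ⟨98, 99, 147⟩, ⟨9630, 9816, 30000⟩, ⟨1446, 1467, 1000⟩⟩ (tC88.eH.ν) :=
  posD_of_check (c := ⟨35, ⟨0, 0, 1, 1⟩⟩) (by decide +kernel)

def tC88_nupU : PosD ⟨⟨0, 1, 1⟩, ⟨98, 99, 147⟩, ⟨9630, 9816, 30000⟩, ⟨1446, 1467, 1000⟩⟩ (tC88.pU.ν) :=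
  posD_of_check (c := ⟨35, ⟨0, 0, 1, 1⟩⟩) (by decide +kernel)

def tC88_nukU : PosD ⟨⟨0, 1, 1⟩, ⟨98, 99, 147⟩, ⟨9630, 9816, 30000⟩, ⟨1446, 1467, 1000⟩⟩ (tC88.kU.ν) :=
  posD_of_check (c := ⟨29, ⟨0, 0, 1, 1⟩⟩) (by decide +kernel)

def tC88_nuwL : PosD ⟨⟨0, 1, 1⟩, ⟨98, 99, 147⟩, ⟨9630, 9816, 30000⟩, ⟨1446, 1467, 1000⟩⟩ (tC88.wL.ν) :=
  posD_of_check (c := ⟨36, ⟨0, 0, 1, 1⟩⟩) (by decide +kernel)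

/-- The bounds of the piece. -/
def tC88_env : tC88.Env ⟨⟨0, 1, 1⟩, ⟨98, 99, 147⟩, ⟨9630, 9816, 30000⟩, ⟨1446, 1467, 1000⟩⟩ :=
  ⟨tC88_p0, Bool.forall_bool.2 ⟨tC88_den0, tC88_den1⟩, tC88_gn, Bool.forall_bool.2 ⟨tC88_ev0, tC88_ev1⟩, Bool.forall_bool.2 ⟨tC88_zL0, tC88_zL1⟩, Bool.forall_bool.2 ⟨tC88_zU0, tC88_zU1⟩, Bool.forall_bool.2 ⟨tC88_eL0, tC88_eL1⟩, ⟨.inr rfl, .inr rfl⟩, Bool.forall_bool.2 ⟨tC88_eH0, tC88_eH1⟩, ⟨.inr rfl, .inl tC88_nueH⟩, Bool.forall_bool.2 ⟨tC88_pL0, tC88_pL1⟩, ⟨.inr rfl, .inr rfl⟩, Bool.forall_bool.2 ⟨tC88_pU0, tC88_pU1⟩, ⟨.inr rfl, .inl tC88_nupU⟩, Bool.forall_bool.2 ⟨tC88_kU0, tC88_kU1⟩, ⟨.inr rfl, .inl tC88_nukU⟩, Bool.forall_bool.2 ⟨tC88_kL0, tC88_kL1⟩, ⟨.inr rfl, .inr rfl⟩, Bool.forall_bool.2 ⟨tC88_wU0,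 tC88_wU1⟩, ⟨.inr rfl, .inr rfl⟩, Bool.forall_bool.2 ⟨tC88_wL0, tC88_wL1⟩, ⟨.inr rfl, .inl tC88_nuwL⟩⟩

def tC88_pp : PosD ⟨⟨0, 1, 1⟩, ⟨98, 99, 147⟩, ⟨9630, 9816, 30000⟩, ⟨1446, 1467, 1000⟩⟩ (tC88.xPL) :=
  posD_of_check (c := ⟨103, ⟨1, 1, 3, 2⟩⟩) (by decide +kernel)

def tC88_k2p : PosD ⟨⟨0, 1, 1⟩, ⟨98, 99, 147⟩, ⟨9630, 9816, 30000⟩, ⟨1446, 1467, 1000⟩⟩ (tC88.k2p tC88.xE) :=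
  posD_of_check (c := ⟨72, ⟨1, 1, 2, 1⟩⟩) (by decide +kernel)

def tC88_k2m : PosD ⟨⟨0, 1, 1⟩, ⟨98, 99, 147⟩, ⟨9630, 9816, 30000⟩, ⟨1446, 1467, 1000⟩⟩ (tC88.k2m tC88.xE) :=
  posD_of_check (c := ⟨31, ⟨0, 0, 1, 1⟩⟩) (by decide +kernel)

def tC88_v2p : PosD ⟨⟨0, 1, 1⟩, ⟨98, 99, 147⟩, ⟨9630, 9816, 30000⟩, ⟨1446, 1467, 1000⟩⟩ (tC88.hV2p) :=
  posD_of_check (c := ⟨274, ⟨1, 6, 10, 4⟩⟩) (by decide +kernel)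

def tC88_v2m : PosD ⟨⟨0, 1, 1⟩, ⟨98, 99, 147⟩, ⟨9630, 9816, 30000⟩, ⟨1446, 1467, 1000⟩⟩ (tC88.hV2m) :=
  posD_of_check (c := ⟨245, ⟨0, 5, 10, 4⟩⟩) (by decide +kernel)

def tC88_v3p : PosD ⟨⟨0, 1, 1⟩, ⟨98, 99, 147⟩, ⟨9630, 9816, 30000⟩, ⟨1446, 1467, 1000⟩⟩ (tC88.hV3p) :=
  posD_of_check (c := ⟨258, ⟨1, 6, 9, 4⟩⟩) (by decide +kernel)

def tC88_v3m : PosD ⟨⟨0, 1, 1⟩, ⟨98, 99, 147⟩, ⟨9630, 9816, 30000⟩, ⟨1446, 1467, 1000⟩⟩ (tC88.hV3m) :=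
  posD_of_check (c := ⟨232, ⟨0, 5, 9, 4⟩⟩) (by decide +kernel)

def tC88_kap0 : PosD ⟨⟨0, 1, 1⟩, ⟨98, 99, 147⟩, ⟨9630, 9816, 30000⟩, ⟨1446, 1467, 1000⟩⟩ (tC88.kap false) :=
  posD_of_check (c := ⟨72, ⟨1, 1, 2, 1⟩⟩) (by decide +kernel)

def tC88_c10 : PosD ⟨⟨0, 1, 1⟩, ⟨98, 99, 147⟩, ⟨9630, 9816, 30000⟩, ⟨1446, 1467, 1000⟩⟩ (tC88.hC1 false) :=
  posD_of_check (c := ⟨286, ⟨3, 5, 9, 5⟩⟩) (by decide +kernel)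

def tC88_c1h0 : PosD ⟨⟨0, 1, 1⟩, ⟨98, 99, 147⟩, ⟨9630, 9816, 30000⟩, ⟨1446, 1467, 1000⟩⟩ (tC88.hC1' false) :=
  posD_of_relax (k₁ := 0) (k₂ := 0) (k₃ := 41) (n := 16) (posD_of_check (c := ⟨286, ⟨3, 5, 9, 5⟩⟩) (by decide +kernel))

def tC88_tg00 : PosD ⟨⟨0, 1, 1⟩, ⟨98, 99, 147⟩, ⟨9630, 9816, 30000⟩, ⟨1446, 1467, 1000⟩⟩ (tC88.hG false (tC88.pEnd false)) :=
  posD_of_check (c := ⟨403, ⟨2, 7, 14, 7⟩⟩) (by decide +kernel)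

def tC88_c2p00 : PosD ⟨⟨0, 1, 1⟩, ⟨98, 99, 147⟩, ⟨9630, 9816, 30000⟩, ⟨1446, 1467, 1000⟩⟩ (tC88.hC2p false (tC88.pEnd false)) :=
  posD_of_check (c := ⟨475, ⟨3, 8, 16, 8⟩⟩) (by decide +kernel)

def tC88_c2m00 : PosD ⟨⟨0, 1, 1⟩, ⟨98, 99, 147⟩, ⟨9630, 9816, 30000⟩, ⟨1446, 1467, 1000⟩⟩ (tC88.hC2m false (tC88.pEnd false)) :=
  posD_of_check (c := ⟨447, ⟨2, 7, 16, 8⟩⟩) (by decide +kernel)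

def tC88_c3p00 : PosD ⟨⟨0, 1, 1⟩, ⟨98, 99, 147⟩, ⟨9630, 9816, 30000⟩, ⟨1446, 1467, 1000⟩⟩ (tC88.hC3p false false) :=
  posD_of_check (c := ⟨459, ⟨3, 8, 15, 8⟩⟩) (by decide +kernel)

def tC88_c3m00 : PosD ⟨⟨0, 1, 1⟩, ⟨98, 99, 147⟩, ⟨9630, 9816, 30000⟩, ⟨1446, 1467, 1000⟩⟩ (tC88.hC3m false false) :=
  posD_of_check (c := ⟨435, ⟨3, 7, 15, 8⟩⟩) (by decide +kernel)

def tC88_c3ph00 : PosD ⟨⟨0, 1, 1⟩, ⟨98, 99, 147⟩, ⟨9630, 9816, 30000⟩, ⟨1446, 1467, 1000⟩⟩ (tC88.hC3p' false false) :=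
  posD_of_relax (k₁ := 0) (k₂ := 0) (k₃ := 1) (n := 16) (posD_of_check (c := ⟨459, ⟨3, 8, 15, 8⟩⟩) (by decide +kernel))

def tC88_c3mh00 : PosD ⟨⟨0, 1, 1⟩, ⟨98, 99, 147⟩, ⟨9630, 9816, 30000⟩, ⟨1446, 1467, 1000⟩⟩ (tC88.hC3m' false false) :=
  posD_of_check (c := ⟨435, ⟨3, 7, 15, 8⟩⟩) (by decide +kernel)

def tC88_up00 : PosD ⟨⟨0, 1, 1⟩, ⟨98, 99, 147⟩, ⟨9630, 9816, 30000⟩, ⟨1446, 1467, 1000⟩⟩ (tC88.hUp false false) :=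
  posD_of_check (c := ⟨459, ⟨3, 8, 15, 8⟩⟩) (by decide +kernel)

def tC88_um00 : PosD ⟨⟨0, 1, 1⟩, ⟨98, 99, 147⟩, ⟨9630, 9816, 30000⟩, ⟨1446, 1467, 1000⟩⟩ (tC88.hUm false false) :=
  posD_of_check (c := ⟨434, ⟨2, 7, 15, 8⟩⟩) (by decide +kernel)

def tC88_tmg00 : PosD ⟨⟨0, 1, 1⟩, ⟨98, 99, 147⟩, ⟨9630, 9816, 30000⟩, ⟨1446, 1467, 1000⟩⟩ (tC88.hTMG false (tC88.pEnd false)) :=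
  posD_of_check (c := ⟨416, ⟨2, 7, 14, 8⟩⟩) (by decide +kernel)

def tC88_tg01 : PosD ⟨⟨0, 1, 1⟩, ⟨98, 99, 147⟩, ⟨9630, 9816, 30000⟩, ⟨1446, 1467, 1000⟩⟩ (tC88.hG true (tC88.pEnd false)) :=
  posD_of_check (c := ⟨403, ⟨2, 7, 14, 7⟩⟩) (by decide +kernel)

def tC88_c2p01 : PosD ⟨⟨0, 1, 1⟩, ⟨98, 99, 147⟩, ⟨9630, 9816, 30000⟩, ⟨1446, 1467, 1000⟩⟩ (tC88.hC2p true (tC88.pEnd false)) :=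
  posD_of_check (c := ⟨475, ⟨3, 8, 16, 8⟩⟩) (by decide +kernel)

def tC88_c2m01 : PosD ⟨⟨0, 1, 1⟩, ⟨98, 99, 147⟩, ⟨9630, 9816, 30000⟩, ⟨1446, 1467, 1000⟩⟩ (tC88.hC2m true (tC88.pEnd false)) :=
  posD_of_check (c := ⟨447, ⟨2, 7, 16, 8⟩⟩) (by decide +kernel)

def tC88_c3p01 : PosD ⟨⟨0, 1, 1⟩, ⟨98, 99, 147⟩, ⟨9630, 9816, 30000⟩, ⟨1446, 1467, 1000⟩⟩ (tC88.hC3p false true) :=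
  posD_of_check (c := ⟨459, ⟨3, 8, 15, 8⟩⟩) (by decide +kernel)

def tC88_c3m01 : PosD ⟨⟨0, 1, 1⟩, ⟨98, 99, 147⟩, ⟨9630, 9816, 30000⟩, ⟨1446, 1467, 1000⟩⟩ (tC88.hC3m false true) :=
  posD_of_check (c := ⟨435, ⟨3, 7, 15, 8⟩⟩) (by decide +kernel)

def tC88_c3ph01 : PosD ⟨⟨0, 1, 1⟩, ⟨98, 99, 147⟩, ⟨9630, 9816, 30000⟩, ⟨1446, 1467, 1000⟩⟩ (tC88.hC3p' false true) :=
  posD_of_check (c := ⟨459, ⟨3, 8, 15, 8⟩⟩) (by decide +kernel)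

def tC88_c3mh01 : PosD ⟨⟨0, 1, 1⟩, ⟨98, 99, 147⟩, ⟨9630, 9816, 30000⟩, ⟨1446, 1467, 1000⟩⟩ (tC88.hC3m' false true) :=
  posD_of_check (c := ⟨435, ⟨3, 7, 15, 8⟩⟩) (by decide +kernel)

def tC88_up01 : PosD ⟨⟨0, 1, 1⟩, ⟨98, 99, 147⟩, ⟨9630, 9816, 30000⟩, ⟨1446, 1467, 1000⟩⟩ (tC88.hUp false true) :=
  posD_of_check (c := ⟨459, ⟨3, 8, 15, 8⟩⟩) (by decide +kernel)

def tC88_um01 : PosD ⟨⟨0, 1, 1⟩, ⟨98, 99, 147⟩, ⟨9630, 9816, 30000⟩, ⟨1446, 1467, 1000⟩⟩ (tC88.hUm false true) :=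
  posD_of_check (c := ⟨434, ⟨2, 7, 15, 8⟩⟩) (by decide +kernel)

def tC88_tmg01 : PosD ⟨⟨0, 1, 1⟩, ⟨98, 99, 147⟩, ⟨9630, 9816, 30000⟩, ⟨1446, 1467, 1000⟩⟩ (tC88.hTMG true (tC88.pEnd false)) :=
  posD_of_check (c := ⟨416, ⟨2, 7, 14, 8⟩⟩) (by decide +kernel)

def tC88_kap1 : PosD ⟨⟨0, 1, 1⟩, ⟨98, 99, 147⟩, ⟨9630, 9816, 30000⟩, ⟨1446, 1467, 1000⟩⟩ (tC88.kap true) :=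
  posD_of_check (c := ⟨73, ⟨1, 1, 2, 1⟩⟩) (by decide +kernel)

def tC88_c11 : PosD ⟨⟨0, 1, 1⟩, ⟨98, 99, 147⟩, ⟨9630, 9816, 30000⟩, ⟨1446, 1467, 1000⟩⟩ (tC88.hC1 true) :=
  posD_of_check (c := ⟨283, ⟨3, 5, 9, 5⟩⟩) (by decide +kernel)

def tC88_c1h1 : PosD ⟨⟨0, 1, 1⟩, ⟨98, 99, 147⟩, ⟨9630, 9816, 30000⟩, ⟨1446, 1467, 1000⟩⟩ (tC88.hC1' true) :=
  posD_of_relax (k₁ := 0) (k₂ := 0) (k₃ := 89) (n := 16) (posD_of_check (c := ⟨283, ⟨3, 5, 9, 5⟩⟩) (by decide +kernel))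

def tC88_tg10 : PosD ⟨⟨0, 1, 1⟩, ⟨98, 99, 147⟩, ⟨9630, 9816, 30000⟩, ⟨1446, 1467, 1000⟩⟩ (tC88.hG false (tC88.pEnd true)) :=
  posD_of_check (c := ⟨394, ⟨2, 7, 14, 7⟩⟩) (by decide +kernel)

def tC88_c2p10 : PosD ⟨⟨0, 1, 1⟩, ⟨98, 99, 147⟩, ⟨9630, 9816, 30000⟩, ⟨1446, 1467, 1000⟩⟩ (tC88.hC2p false (tC88.pEnd true)) :=
  posD_of_check (c := ⟨466, ⟨3, 8, 16, 8⟩⟩) (by decide +kernel)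

def tC88_c2m10 : PosD ⟨⟨0, 1, 1⟩, ⟨98, 99, 147⟩, ⟨9630, 9816, 30000⟩, ⟨1446, 1467, 1000⟩⟩ (tC88.hC2m false (tC88.pEnd true)) :=
  posD_of_check (c := ⟨438, ⟨2, 7, 16, 8⟩⟩) (by decide +kernel)

def tC88_c3p10 : PosD ⟨⟨0, 1, 1⟩, ⟨98, 99, 147⟩, ⟨9630, 9816, 30000⟩, ⟨1446, 1467, 1000⟩⟩ (tC88.hC3p true false) :=
  posD_of_check (c := ⟨453, ⟨3, 8, 15, 8⟩⟩) (by decide +kernel)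

def tC88_c3m10 : PosD ⟨⟨0, 1, 1⟩, ⟨98, 99, 147⟩, ⟨9630, 9816, 30000⟩, ⟨1446, 1467, 1000⟩⟩ (tC88.hC3m true false) :=
  posD_of_check (c := ⟨430, ⟨3, 7, 15, 8⟩⟩) (by decide +kernel)

def tC88_c3ph10 : PosD ⟨⟨0, 1, 1⟩, ⟨98, 99, 147⟩, ⟨9630, 9816, 30000⟩, ⟨1446, 1467, 1000⟩⟩ (tC88.hC3p' true false) :=
  posD_of_check (c := ⟨453, ⟨3, 8, 15, 8⟩⟩) (by decide +kernel)

def tC88_c3mh10 : PosD ⟨⟨0, 1, 1⟩, ⟨98, 99, 147⟩, ⟨9630, 9816, 30000⟩, ⟨1446, 1467, 1000⟩⟩ (tC88.hC3m' true false) :=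
  posD_of_check (c := ⟨430, ⟨3, 7, 15, 8⟩⟩) (by decide +kernel)

def tC88_up10 : PosD ⟨⟨0, 1, 1⟩, ⟨98, 99, 147⟩, ⟨9630, 9816, 30000⟩, ⟨1446, 1467, 1000⟩⟩ (tC88.hUp true false) :=
  posD_of_check (c := ⟨451, ⟨3, 8, 15, 8⟩⟩) (by decide +kernel)

def tC88_um10 : PosD ⟨⟨0, 1, 1⟩, ⟨98, 99, 147⟩, ⟨9630, 9816, 30000⟩, ⟨1446, 1467, 1000⟩⟩ (tC88.hUm true false) :=
  posD_of_check (c := ⟨425, ⟨2, 7, 15, 8⟩⟩) (by decide +kernel)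

def tC88_tmg10 : PosD ⟨⟨0, 1, 1⟩, ⟨98, 99, 147⟩, ⟨9630, 9816, 30000⟩, ⟨1446, 1467, 1000⟩⟩ (tC88.hTMG false (tC88.pEnd true)) :=
  posD_of_check (c := ⟨407, ⟨2, 7, 14, 8⟩⟩) (by decide +kernel)

def tC88_tg11 : PosD ⟨⟨0, 1, 1⟩, ⟨98, 99, 147⟩, ⟨9630, 9816, 30000⟩, ⟨1446, 1467, 1000⟩⟩ (tC88.hG true (tC88.pEnd true)) :=
  posD_of_check (c := ⟨394, ⟨2, 7, 14, 7⟩⟩) (by decide +kernel)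

def tC88_c2p11 : PosD ⟨⟨0, 1, 1⟩, ⟨98, 99, 147⟩, ⟨9630, 9816, 30000⟩, ⟨1446, 1467, 1000⟩⟩ (tC88.hC2p true (tC88.pEnd true)) :=
  posD_of_check (c := ⟨466, ⟨3, 8, 16, 8⟩⟩) (by decide +kernel)

def tC88_c2m11 : PosD ⟨⟨0, 1, 1⟩, ⟨98, 99, 147⟩, ⟨9630, 9816, 30000⟩, ⟨1446, 1467, 1000⟩⟩ (tC88.hC2m true (tC88.pEnd true)) :=
  posD_of_check (c := ⟨438, ⟨2, 7, 16, 8⟩⟩) (by decide +kernel)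

def tC88_c3p11 : PosD ⟨⟨0, 1, 1⟩, ⟨98, 99, 147⟩, ⟨9630, 9816, 30000⟩, ⟨1446, 1467, 1000⟩⟩ (tC88.hC3p true true) :=
  posD_of_check (c := ⟨453, ⟨3, 8, 15, 8⟩⟩) (by decide +kernel)

def tC88_c3m11 : PosD ⟨⟨0, 1, 1⟩, ⟨98, 99, 147⟩, ⟨9630, 9816, 30000⟩, ⟨1446, 1467, 1000⟩⟩ (tC88.hC3m true true) :=
  posD_of_check (c := ⟨430, ⟨3, 7, 15, 8⟩⟩) (by decide +kernel)

def tC88_c3ph11 : PosD ⟨⟨0, 1, 1⟩, ⟨98, 99, 147⟩, ⟨9630, 9816, 30000⟩, ⟨1446, 1467, 1000⟩⟩ (tC88.hC3p' true true) :=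
  posD_of_check (c := ⟨453, ⟨3, 8, 15, 8⟩⟩) (by decide +kernel)

def tC88_c3mh11 : PosD ⟨⟨0, 1, 1⟩, ⟨98, 99, 147⟩, ⟨9630, 9816, 30000⟩, ⟨1446, 1467, 1000⟩⟩ (tC88.hC3m' true true) :=
  posD_of_check (c := ⟨430, ⟨3, 7, 15, 8⟩⟩) (by decide +kernel)

def tC88_up11 : PosD ⟨⟨0, 1, 1⟩, ⟨98, 99, 147⟩, ⟨9630, 9816, 30000⟩, ⟨1446, 1467, 1000⟩⟩ (tC88.hUp true true) :=
  posD_of_check (c := ⟨451, ⟨3, 8, 15, 8⟩⟩) (by decide +kernel)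

def tC88_um11 : PosD ⟨⟨0, 1, 1⟩, ⟨98, 99, 147⟩, ⟨9630, 9816, 30000⟩, ⟨1446, 1467, 1000⟩⟩ (tC88.hUm true true) :=
  posD_of_check (c := ⟨425, ⟨2, 7, 15, 8⟩⟩) (by decide +kernel)

def tC88_tmg11 : PosD ⟨⟨0, 1, 1⟩, ⟨98, 99, 147⟩, ⟨9630, 9816, 30000⟩, ⟨1446, 1467, 1000⟩⟩ (tC88.hTMG true (tC88.pEnd true)) :=
  posD_of_check (c := ⟨407, ⟨2, 7, 14, 8⟩⟩) (by decide +kernel)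

/-- The signs of the piece. -/
def tC88_sign : tC88.Sign ⟨⟨0, 1, 1⟩, ⟨98, 99, 147⟩, ⟨9630, 9816, 30000⟩, ⟨1446, 1467, 1000⟩⟩ :=
  ⟨tC88_pp,
    tC88_k2p,
    tC88_k2m,
    Bool.forall_bool.2 ⟨(Bool.forall_bool.2 ⟨tC88_tg00, tC88_tg01⟩), (Bool.forall_bool.2 ⟨tC88_tg10, tC88_tg11⟩)⟩,
    Bool.forall_bool.2 ⟨(Bool.forall_bool.2 ⟨tC88_c2p00, tC88_c2p01⟩), (Bool.forall_bool.2 ⟨tC88_c2p10, tC88_c2p11⟩)⟩,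
    Bool.forall_bool.2 ⟨(Bool.forall_bool.2 ⟨tC88_c2m00, tC88_c2m01⟩), (Bool.forall_bool.2 ⟨tC88_c2m10, tC88_c2m11⟩)⟩,
    Bool.forall_bool.2 ⟨tC88_kap0, tC88_kap1⟩,
    Bool.forall_bool.2 ⟨tC88_c10, tC88_c11⟩,
    Bool.forall_bool.2 ⟨(Bool.forall_bool.2 ⟨tC88_c3p00, tC88_c3p01⟩), (Bool.forall_bool.2 ⟨tC88_c3p10, tC88_c3p11⟩)⟩,
    Bool.forall_bool.2 ⟨(Bool.forall_bool.2 ⟨tC88_c3m00, tC88_c3m01⟩), (Bool.forall_bool.2 ⟨tC88_c3m10, tC88_c3m11⟩)⟩,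
    Bool.forall_bool.2 ⟨(Bool.forall_bool.2 ⟨tC88_tmg00, tC88_tmg01⟩), (Bool.forall_bool.2 ⟨tC88_tmg10, tC88_tmg11⟩)⟩,
    .inr (Bool.forall_bool.2 ⟨⟨tC88_c1h0, Bool.forall_bool.2 ⟨⟨tC88_c3ph00, tC88_c3mh00, tC88_up00, tC88_um00⟩, ⟨tC88_c3ph01, tC88_c3mh01, tC88_up01, tC88_um01⟩⟩⟩, ⟨tC88_c1h1, Bool.forall_bool.2 ⟨⟨tC88_c3ph10, tC88_c3mh10, tC88_up10, tC88_um10⟩, ⟨tC88_c3ph11, tC88_c3mh11, tC88_up11, tC88_um11⟩⟩⟩⟩),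
    tC88_v2p,
    tC88_v2m,
    tC88_v3p,
    tC88_v3m,
    posD_sub (b := ⟨⟨0, 1, 1⟩, ⟨98, 99, 147⟩, ⟨4050, 10000, 30000⟩, ⟨290, 4000, 1000⟩⟩) (by decide +kernel) tC_vG,
    posD_sub (b := ⟨⟨0, 1, 1⟩, ⟨98, 99, 147⟩, ⟨4050, 10000, 30000⟩, ⟨290, 4000, 1000⟩⟩) (by decide +kernel) tC_vMG,
    posD_sub (b := ⟨⟨0, 1, 1⟩, ⟨98, 99, 147⟩, ⟨4050, 10000, 30000⟩, ⟨290, 4000, 1000⟩⟩) (by decide +kernel) tC_ak,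
    posD_sub (b := ⟨⟨0, 1, 1⟩, ⟨98, 99, 147⟩, ⟨4050, 10000, 30000⟩, ⟨290, 4000, 1000⟩⟩) (by decide +kernel) tC_aw,
    posD_sub (b := ⟨⟨0, 1, 1⟩, ⟨98, 99, 147⟩, ⟨4050, 10000, 30000⟩, ⟨290, 4000, 1000⟩⟩) (by decide +kernel) tC_gk,
    posD_sub (b := ⟨⟨0, 1, 1⟩, ⟨98, 99, 147⟩, ⟨4050, 10000, 30000⟩, ⟨290, 4000, 1000⟩⟩) (by decide +kernel) tC_gw,
    posD_sub (b := ⟨⟨0, 1, 1⟩, ⟨98, 99, 147⟩, ⟨4050, 10000, 30000⟩, ⟨290, 4000, 1000⟩⟩) (by decide +kernel) tC_ek,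
    posD_sub (b := ⟨⟨0, 1, 1⟩, ⟨98, 99, 147⟩, ⟨4050, 10000, 30000⟩, ⟨290, 4000, 1000⟩⟩) (by decide +kernel) tC_ew⟩

end Vale.Agent.P100.Calib.Closed.Six.Tail
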