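import Vale.Agent.P100.Calib.SlabSixTailDataC
import Vale.Agent.P100.Calib.SlabSixTailGlobC

/-!
# Checks of some pieces of the certificate

The checks are written as definitions so that they run one after another, which keeps the memory of the
kernel low.
-/

set_option linter.defProp false

namespace Vale.Agent.P100.Calib.Closed.Six.Tail

open BoxPos Large

local instance sixTailCheckstC6Add : Add Ex := ⟨Ex.add⟩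
local instance sixTailCheckstC6Sub : Sub Ex := ⟨Ex.sub⟩
local instance sixTailCheckstC6Mul : Mul Ex := ⟨Ex.mul⟩

def tC16_phxaaa : PosIf ⟨⟨0, 1, 2⟩, ⟨98, 99, 147⟩, ⟨7026, 7770, 30000⟩, ⟨897, 1048, 1000⟩⟩ (tC16.u₁ - tC16Lo) (phCn (tC16.u₁ + xO * (tC16Lo - tC16.u₁))) :=
  posIf_of_mul (k := 1) (n := 2) (posD_of_check (c := ⟨110, ⟨2, 0, 4, 2⟩⟩) (by decide +kernel))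

def tC16_phxaaba : PosIf ⟨⟨0, 1, 2⟩, ⟨98, 99, 147⟩, ⟨7770, 8514, 30000⟩, ⟨897, 972, 1000⟩⟩ (tC16.u₁ - tC16Lo) (phCn (tC16.u₁ + xO * (tC16Lo - tC16.u₁))) :=
  posIf_of_mul (k := 1) (n := 2) (posD_of_check (c := ⟨110, ⟨2, 0, 4, 2⟩⟩) (by decide +kernel))

def tC16_phxaabb : PosIf ⟨⟨0, 1, 2⟩, ⟨98, 99, 147⟩, ⟨7770, 8514, 30000⟩, ⟨972, 1048, 1000⟩⟩ (tC16.u₁ - tC16Lo) (phCn (tC16.u₁ + xO * (tC16Lo - tC16.u₁))) :=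
  posIf_of_mul (k := 1) (n := 4) (posD_of_check (c := ⟨110, ⟨2, 0, 4, 2⟩⟩) (by decide +kernel))

def tC16_phxaab : PosIf ⟨⟨0, 1, 2⟩, ⟨98, 99, 147⟩, ⟨7770, 8514, 30000⟩, ⟨897, 1048, 1000⟩⟩ (tC16.u₁ - tC16Lo) (phCn (tC16.u₁ + xO * (tC16Lo - tC16.u₁))) :=
  posIf_join₃ tC16_phxaaba tC16_phxaabb

def tC16_phxaa : PosIf ⟨⟨0, 1, 2⟩, ⟨98, 99, 147⟩, ⟨7026, 8514, 30000⟩, ⟨897, 1048, 1000⟩⟩ (tC16.u₁ - tC16Lo) (phCn (tC16.u₁ + xO * (tC16Lo - tC16.u₁))) :=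
  posIf_join₂ tC16_phxaaa tC16_phxaab

def tC16_phxab : PosIf ⟨⟨1, 2, 2⟩, ⟨98, 99, 147⟩, ⟨7026, 8514, 30000⟩, ⟨897, 1048, 1000⟩⟩ (tC16.u₁ - tC16Lo) (phCn (tC16.u₁ + xO * (tC16Lo - tC16.u₁))) :=
  posIf_of_mul (k := 1) (n := 2) (posD_of_check (c := ⟨111, ⟨2, 0, 4, 2⟩⟩) (by decide +kernel))

def tC16_phxa : PosIf ⟨⟨0, 1, 1⟩, ⟨98, 99, 147⟩, ⟨7026, 8514, 30000⟩, ⟨897, 1048, 1000⟩⟩ (tC16.u₁ - tC16Lo) (phCn (tC16.u₁ + xO * (tC16Lo - tC16.u₁))) :=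
  posIf_units (b := ⟨⟨0, 2, 2⟩, ⟨98, 99, 147⟩, ⟨7026, 8514, 30000⟩, ⟨897, 1048, 1000⟩⟩) (by decide +kernel) (posIf_join₀ tC16_phxaa tC16_phxab)

def tC16_phxb : PosIf ⟨⟨0, 1, 1⟩, ⟨98, 99, 147⟩, ⟨7026, 8514, 30000⟩, ⟨1048, 1200, 1000⟩⟩ (tC16.u₁ - tC16Lo) (phCn (tC16.u₁ + xO * (tC16Lo - tC16.u₁))) :=
  posIf_of_posD (posD_of_check (c := ⟨108, ⟨2, 0, 4, 2⟩⟩) (by decide +kernel))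

def tC16_phx : PosIf ⟨⟨0, 1, 1⟩, ⟨98, 99, 147⟩, ⟨7026, 8514, 30000⟩, ⟨897, 1200, 1000⟩⟩ (tC16.u₁ - tC16Lo) (phCn (tC16.u₁ + xO * (tC16Lo - tC16.u₁))) :=
  posIf_join₃ tC16_phxa tC16_phxb

def tC16_phd : PosD ⟨⟨0, 1, 1⟩, ⟨98, 99, 147⟩, ⟨7026, 8514, 30000⟩, ⟨897, 1200, 1000⟩⟩ (phCd (tC16.u₁ + xO * (tC16Lo - tC16.u₁))) :=
  posD_of_check (c := ⟨51, ⟨1, 0, 2, 1⟩⟩) (by decide +kernel)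

def tC16_p0 : PosD ⟨⟨0, 1, 1⟩, ⟨98, 99, 147⟩, ⟨7026, 8514, 30000⟩, ⟨897, 1200, 1000⟩⟩ (tC16.hP0) :=
  posD_of_check (c := ⟨83, ⟨0, 2, 3, 1⟩⟩) (by decide +kernel)

def tC16_gn : PosD ⟨⟨0, 1, 1⟩, ⟨98, 99, 147⟩, ⟨7026, 8514, 30000⟩, ⟨897, 1200, 1000⟩⟩ (tC16.hGn) :=
  posD_of_check (c := ⟨69, ⟨1, 1, 2, 2⟩⟩) (by decide +kernel)

def tC16_den0 : PosD ⟨⟨0, 1, 1⟩, ⟨98, 99, 147⟩, ⟨7026, 8514, 30000⟩, ⟨897, 1200, 1000⟩⟩ (tC16.hDen false) :=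
  posD_of_check (c := ⟨51, ⟨1, 0, 2, 1⟩⟩) (by decide +kernel)

def tC16_den1 : PosD ⟨⟨0, 1, 1⟩, ⟨98, 99, 147⟩, ⟨7026, 8514, 30000⟩, ⟨897, 1200, 1000⟩⟩ (tC16.hDen true) :=
  posD_of_check (c := ⟨51, ⟨1, 0, 2, 1⟩⟩) (by decide +kernel)

def tC16_ev0 : PosD ⟨⟨0, 1, 1⟩, ⟨98, 99, 147⟩, ⟨7026, 8514, 30000⟩, ⟨897, 1200, 1000⟩⟩ (tC16.hEv false) :=
  posD_of_check (c := ⟨219, ⟨4, 2, 8, 4⟩⟩) (by decide +kernel)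

def tC16_zL0 : PosD ⟨⟨0, 1, 1⟩, ⟨98, 99, 147⟩, ⟨7026, 8514, 30000⟩, ⟨897, 1200, 1000⟩⟩ (tC16.hZL false) :=
  posD_of_check (c := ⟨221, ⟨4, 3, 8, 4⟩⟩) (by decide +kernel)

def tC16_zU0a : PosD ⟨⟨0, 1, 1⟩, ⟨98, 99, 147⟩, ⟨7026, 8514, 30000⟩, ⟨897, 1048, 1000⟩⟩ (tC16.hZU false) :=
  posD_of_check (c := ⟨221, ⟨4, 3, 8, 4⟩⟩) (by decide +kernel)

def tC16_zU0b : PosD ⟨⟨0, 1, 1⟩, ⟨98, 99, 147⟩, ⟨7026, 8514, 30000⟩, ⟨1048, 1200, 1000⟩⟩ (tC16.hZU false) :=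
  posD_of_check (c := ⟨221, ⟨4, 3, 8, 4⟩⟩) (by decide +kernel)

def tC16_zU0 : PosD ⟨⟨0, 1, 1⟩, ⟨98, 99, 147⟩, ⟨7026, 8514, 30000⟩, ⟨897, 1200, 1000⟩⟩ (tC16.hZU false) :=
  posD_join₃ tC16_zU0a tC16_zU0b

def tC16_eL0 : PosD ⟨⟨0, 1, 1⟩, ⟨98, 99, 147⟩, ⟨7026, 8514, 30000⟩, ⟨897, 1200, 1000⟩⟩ (tC16.hEL false) :=
  posD_of_check (c := ⟨314, ⟨5, 6, 11, 6⟩⟩) (by decide +kernel)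

def tC16_eH0 : PosD ⟨⟨0, 1, 1⟩, ⟨98, 99, 147⟩, ⟨7026, 8514, 30000⟩, ⟨897, 1200, 1000⟩⟩ (tC16.hEH false) :=
  posD_of_check (c := ⟨313, ⟨5, 6, 11, 6⟩⟩) (by decide +kernel)

def tC16_pL0 : PosD ⟨⟨0, 1, 1⟩, ⟨98, 99, 147⟩, ⟨7026, 8514, 30000⟩, ⟨897, 1200, 1000⟩⟩ (tC16.hPL false) :=
  posD_of_check (c := ⟨329, ⟨5, 6, 11, 6⟩⟩) (by decide +kernel)

def tC16_pU0 : PosD ⟨⟨0, 1, 1⟩, ⟨98, 99, 147⟩, ⟨7026, 8514, 30000⟩, ⟨897, 1200, 1000⟩⟩ (tC16.hPU false) :=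
  posD_of_check (c := ⟨339, ⟨5, 6, 11, 7⟩⟩) (by decide +kernel)

def tC16_kU0 : PosD ⟨⟨0, 1, 1⟩, ⟨98, 99, 147⟩, ⟨7026, 8514, 30000⟩, ⟨897, 1200, 1000⟩⟩ (tC16.hKU false) :=
  posD_of_check (c := ⟨336, ⟨5, 6, 11, 7⟩⟩) (by decide +kernel)

def tC16_kL0 : PosD ⟨⟨0, 1, 1⟩, ⟨98, 99, 147⟩, ⟨7026, 8514, 30000⟩, ⟨897, 1200, 1000⟩⟩ (tC16.hKL false) :=
  posD_of_check (c := ⟨336, ⟨5, 6, 11, 7⟩⟩) (by decide +kernel)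

def tC16_wU0 : PosD ⟨⟨0, 1, 1⟩, ⟨98, 99, 147⟩, ⟨7026, 8514, 30000⟩, ⟨897, 1200, 1000⟩⟩ (tC16.hWU false) :=
  posD_of_check (c := ⟨370, ⟨5, 8, 12, 7⟩⟩) (by decide +kernel)

def tC16_wL0 : PosD ⟨⟨0, 1, 1⟩, ⟨98, 99, 147⟩, ⟨7026, 8514, 30000⟩, ⟨897, 1200, 1000⟩⟩ (tC16.hWL false) :=
  posD_of_check (c := ⟨370, ⟨5, 8, 12, 7⟩⟩) (by decide +kernel)

def tC16_ev1 : PosD ⟨⟨0, 1, 1⟩, ⟨98, 99, 147⟩, ⟨7026, 8514, 30000⟩, ⟨897, 1200, 1000⟩⟩ (tC16.hEv true) :=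
  posD_of_check (c := ⟨218, ⟨4, 2, 8, 4⟩⟩) (by decide +kernel)

def tC16_zL1 : PosD ⟨⟨0, 1, 1⟩, ⟨98, 99, 147⟩, ⟨7026, 8514, 30000⟩, ⟨897, 1200, 1000⟩⟩ (tC16.hZL true) :=
  posD_of_check (c := ⟨220, ⟨4, 3, 8, 4⟩⟩) (by decide +kernel)

def tC16_zU1 : PosD ⟨⟨0, 1, 1⟩, ⟨98, 99, 147⟩, ⟨7026, 8514, 30000⟩, ⟨897, 1200, 1000⟩⟩ (tC16.hZU true) :=
  posD_of_check (c := ⟨220, ⟨4, 3, 8, 4⟩⟩) (by decide +kernel)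

def tC16_eL1 : PosD ⟨⟨0, 1, 1⟩, ⟨98, 99, 147⟩, ⟨7026, 8514, 30000⟩, ⟨897, 1200, 1000⟩⟩ (tC16.hEL true) :=
  posD_of_check (c := ⟨313, ⟨5, 6, 11, 6⟩⟩) (by decide +kernel)

def tC16_eH1 : PosD ⟨⟨0, 1, 1⟩, ⟨98, 99, 147⟩, ⟨7026, 8514, 30000⟩, ⟨897, 1200, 1000⟩⟩ (tC16.hEH true) :=
  posD_of_check (c := ⟨312, ⟨5, 6, 11, 6⟩⟩) (by decide +kernel)

def tC16_pL1 : PosD ⟨⟨0, 1, 1⟩, ⟨98, 99, 147⟩, ⟨7026, 8514, 30000⟩, ⟨897, 1200, 1000⟩⟩ (tC16.hPL true) :=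
  posD_of_check (c := ⟨327, ⟨5, 6, 11, 6⟩⟩) (by decide +kernel)

def tC16_pU1 : PosD ⟨⟨0, 1, 1⟩, ⟨98, 99, 147⟩, ⟨7026, 8514, 30000⟩, ⟨897, 1200, 1000⟩⟩ (tC16.hPU true) :=
  posD_of_check (c := ⟨337, ⟨5, 6, 11, 7⟩⟩) (by decide +kernel)

def tC16_kU1 : PosD ⟨⟨0, 1, 1⟩, ⟨98, 99, 147⟩, ⟨7026, 8514, 30000⟩, ⟨897, 1200, 1000⟩⟩ (tC16.hKU true) :=
  posD_of_check (c := ⟨334, ⟨5, 6, 11, 7⟩⟩) (by decide +kernel)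

def tC16_kL1 : PosD ⟨⟨0, 1, 1⟩, ⟨98, 99, 147⟩, ⟨7026, 8514, 30000⟩, ⟨897, 1200, 1000⟩⟩ (tC16.hKL true) :=
  posD_of_check (c := ⟨334, ⟨5, 6, 11, 7⟩⟩) (by decide +kernel)

def tC16_wU1a : PosD ⟨⟨0, 1, 2⟩, ⟨98, 99, 147⟩, ⟨7026, 8514, 30000⟩, ⟨897, 1200, 1000⟩⟩ (tC16.hWU true) :=
  posD_of_check (c := ⟨373, ⟨5, 8, 12, 7⟩⟩) (by decide +kernel)

def tC16_wU1b : PosD ⟨⟨1, 2, 2⟩, ⟨98, 99, 147⟩, ⟨7026, 8514, 30000⟩, ⟨897, 1200, 1000⟩⟩ (tC16.hWU true) :=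
  posD_of_check (c := ⟨375, ⟨5, 8, 12, 7⟩⟩) (by decide +kernel)

def tC16_wU1 : PosD ⟨⟨0, 1, 1⟩, ⟨98, 99, 147⟩, ⟨7026, 8514, 30000⟩, ⟨897, 1200, 1000⟩⟩ (tC16.hWU true) :=
  posD_units (b := ⟨⟨0, 2, 2⟩, ⟨98, 99, 147⟩, ⟨7026, 8514, 30000⟩, ⟨897, 1200, 1000⟩⟩) (by decide +kernel) (posD_join₀ tC16_wU1a tC16_wU1b)

def tC16_wL1 : PosD ⟨⟨0, 1, 1⟩, ⟨98, 99, 147⟩, ⟨7026, 8514, 30000⟩, ⟨897, 1200, 1000⟩⟩ (tC16.hWL true) :=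
  posD_of_check (c := ⟨368, ⟨5, 8, 12, 7⟩⟩) (by decide +kernel)

def tC16_mupL : PosD ⟨⟨0, 1, 1⟩, ⟨98, 99, 147⟩, ⟨7026, 8514, 30000⟩, ⟨897, 1200, 1000⟩⟩ (tC16.pL.μ) :=
  posD_of_check (c := ⟨16, ⟨0, 0, 0, 0⟩⟩) (by decide +kernel)

/-- The bounds of the piece. -/
def tC16_env : tC16.Env ⟨⟨0, 1, 1⟩, ⟨98, 99, 147⟩, ⟨7026, 8514, 30000⟩, ⟨897, 1200, 1000⟩⟩ :=
  ⟨tC16_p0, Bool.forall_bool.2 ⟨tC16_den0, tC16_den1⟩, tC16_gn, Bool.forall_bool.2 ⟨tC16_ev0, tC16_ev1⟩, Bool.forall_bool.2 ⟨tC16_zL0, tC16_zL1⟩, Bool.forall_bool.2 ⟨tC16_zU0, tC16_zU1⟩, Bool.forall_bool.2 ⟨tC16_eL0, tC16_eL1⟩, ⟨.inr rfl, .inr rfl⟩, Bool.forall_bool.2 ⟨tC16_eH0, tC16_eH1⟩, ⟨.inr rfl, .inr rfl⟩, Bool.forall_bool.2 ⟨tC16_pL0, tC16_pL1⟩, ⟨.inl tC16_mupL, .inr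 rfl⟩, Bool.forall_bool.2 ⟨tC16_pU0, tC16_pU1⟩, ⟨.inr rfl, .inr rfl⟩, Bool.forall_bool.2 ⟨tC16_kU0, tC16_kU1⟩, ⟨.inr rfl, .inr rfl⟩, Bool.forall_bool.2 ⟨tC16_kL0, tC16_kL1⟩, ⟨.inr rfl, .inr rfl⟩, Bool.forall_bool.2 ⟨tC16_wU0, tC16_wU1⟩, ⟨.inr rfl, .inr rfl⟩, Bool.forall_bool.2 ⟨tC16_wL0, tC16_wL1⟩, ⟨.inr rfl, .inr rfl⟩⟩

def tC16_pp : PosD ⟨⟨0, 1, 1⟩, ⟨98, 99, 147⟩, ⟨7026, 8514, 30000⟩, ⟨897, 1200, 1000⟩⟩ (tC16.xPL) :=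
  posD_of_check (c := ⟨62, ⟨1, 1, 2, 2⟩⟩) (by decide +kernel)

def tC16_k2p : PosD ⟨⟨0, 1, 1⟩, ⟨98, 99, 147⟩, ⟨7026, 8514, 30000⟩, ⟨897, 1200, 1000⟩⟩ (tC16.k2p tC16.xE) :=
  posD_of_check (c := ⟨70, ⟨1, 1, 2, 2⟩⟩) (by decide +kernel)

def tC16_k2m : PosD ⟨⟨0, 1, 1⟩, ⟨98, 99, 147⟩, ⟨7026, 8514, 30000⟩, ⟨897, 1200, 1000⟩⟩ (tC16.k2m tC16.xE) :=
  posD_of_check (c := ⟨70, ⟨1, 1, 2, 2⟩⟩) (by decide +kernel)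

def tC16_v2p : PosD ⟨⟨0, 1, 1⟩, ⟨98, 99, 147⟩, ⟨7026, 8514, 30000⟩, ⟨897, 1200, 1000⟩⟩ (tC16.hV2p) :=
  posD_of_check (c := ⟨270, ⟨1, 6, 10, 5⟩⟩) (by decide +kernel)

def tC16_v2m : PosD ⟨⟨0, 1, 1⟩, ⟨98, 99, 147⟩, ⟨7026, 8514, 30000⟩, ⟨897, 1200, 1000⟩⟩ (tC16.hV2m) :=
  posD_of_check (c := ⟨271, ⟨1, 6, 10, 5⟩⟩) (by decide +kernel)

def tC16_v3p : PosD ⟨⟨0, 1, 1⟩, ⟨98, 99, 147⟩, ⟨7026, 8514, 30000⟩, ⟨897, 1200, 1000⟩⟩ (tC16.hV3p) :=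
  posD_of_check (c := ⟨256, ⟨1, 6, 9, 5⟩⟩) (by decide +kernel)

def tC16_v3m : PosD ⟨⟨0, 1, 1⟩, ⟨98, 99, 147⟩, ⟨7026, 8514, 30000⟩, ⟨897, 1200, 1000⟩⟩ (tC16.hV3m) :=
  posD_of_check (c := ⟨256, ⟨1, 6, 9, 5⟩⟩) (by decide +kernel)

def tC16_kap0 : PosD ⟨⟨0, 1, 1⟩, ⟨98, 99, 147⟩, ⟨7026, 8514, 30000⟩, ⟨897, 1200, 1000⟩⟩ (tC16.kap false) :=
  posD_of_check (c := ⟨67, ⟨1, 1, 2, 2⟩⟩) (by decide +kernel)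

def tC16_c10 : PosD ⟨⟨0, 1, 1⟩, ⟨98, 99, 147⟩, ⟨7026, 8514, 30000⟩, ⟨897, 1200, 1000⟩⟩ (tC16.hC1 false) :=
  posD_of_check (c := ⟨240, ⟨3, 5, 8, 6⟩⟩) (by decide +kernel)

def tC16_c1h0 : PosD ⟨⟨0, 1, 1⟩, ⟨98, 99, 147⟩, ⟨7026, 8514, 30000⟩, ⟨897, 1200, 1000⟩⟩ (tC16.hC1' false) :=
  posD_of_check (c := ⟨240, ⟨3, 5, 8, 6⟩⟩) (by decide +kernel)

def tC16_tg00 : PosD ⟨⟨0, 1, 1⟩, ⟨98, 99, 147⟩, ⟨7026, 8514, 30000⟩, ⟨897, 1200, 1000⟩⟩ (tC16.hG false (tC16.pEnd false)) :=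
  posD_of_check (c := ⟨374, ⟨2, 7, 14, 9⟩⟩) (by decide +kernel)

def tC16_c2p00 : PosD ⟨⟨0, 1, 1⟩, ⟨98, 99, 147⟩, ⟨7026, 8514, 30000⟩, ⟨897, 1200, 1000⟩⟩ (tC16.hC2p false (tC16.pEnd false)) :=
  posD_of_check (c := ⟨445, ⟨3, 8, 16, 11⟩⟩) (by decide +kernel)

def tC16_c2m00 : PosD ⟨⟨0, 1, 1⟩, ⟨98, 99, 147⟩, ⟨7026, 8514, 30000⟩, ⟨897, 1200, 1000⟩⟩ (tC16.hC2m false (tC16.pEnd false)) :=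
  posD_of_check (c := ⟨445, ⟨3, 8, 16, 11⟩⟩) (by decide +kernel)

def tC16_c3p00 : PosD ⟨⟨0, 1, 1⟩, ⟨98, 99, 147⟩, ⟨7026, 8514, 30000⟩, ⟨897, 1200, 1000⟩⟩ (tC16.hC3p false false) :=
  posD_of_check (c := ⟨405, ⟨3, 8, 14, 10⟩⟩) (by decide +kernel)

def tC16_c3m00 : PosD ⟨⟨0, 1, 1⟩, ⟨98, 99, 147⟩, ⟨7026, 8514, 30000⟩, ⟨897, 1200, 1000⟩⟩ (tC16.hC3m false false) :=
  posD_of_check (c := ⟨405, ⟨3, 8, 14, 10⟩⟩) (by decide +kernel)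

def tC16_c3ph00 : PosD ⟨⟨0, 1, 1⟩, ⟨98, 99, 147⟩, ⟨7026, 8514, 30000⟩, ⟨897, 1200, 1000⟩⟩ (tC16.hC3p' false false) :=
  posD_of_check (c := ⟨405, ⟨3, 8, 14, 10⟩⟩) (by decide +kernel)

def tC16_c3mh00 : PosD ⟨⟨0, 1, 1⟩, ⟨98, 99, 147⟩, ⟨7026, 8514, 30000⟩, ⟨897, 1200, 1000⟩⟩ (tC16.hC3m' false false) :=
  posD_of_check (c := ⟨405, ⟨3, 8, 14, 10⟩⟩) (by decide +kernel)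

def tC16_up00 : PosD ⟨⟨0, 1, 1⟩, ⟨98, 99, 147⟩, ⟨7026, 8514, 30000⟩, ⟨897, 1200, 1000⟩⟩ (tC16.hUp false false) :=
  posD_of_check (c := ⟨405, ⟨3, 8, 14, 10⟩⟩) (by decide +kernel)

def tC16_um00 : PosD ⟨⟨0, 1, 1⟩, ⟨98, 99, 147⟩, ⟨7026, 8514, 30000⟩, ⟨897, 1200, 1000⟩⟩ (tC16.hUm false false) :=
  posD_of_check (c := ⟨405, ⟨3, 8, 14, 10⟩⟩) (by decide +kernel)

def tC16_tmg00 : PosD ⟨⟨0, 1, 1⟩, ⟨98, 99, 147⟩, ⟨7026, 8514, 30000⟩, ⟨897, 1200, 1000⟩⟩ (tC16.hTMG false (tC16.pEnd false)) :=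
  posD_of_check (c := ⟨354, ⟨2, 7, 13, 8⟩⟩) (by decide +kernel)

def tC16_tg01 : PosD ⟨⟨0, 1, 1⟩, ⟨98, 99, 147⟩, ⟨7026, 8514, 30000⟩, ⟨897, 1200, 1000⟩⟩ (tC16.hG true (tC16.pEnd false)) :=
  posD_of_check (c := ⟨374, ⟨2, 7, 14, 9⟩⟩) (by decide +kernel)

def tC16_c2p01 : PosD ⟨⟨0, 1, 1⟩, ⟨98, 99, 147⟩, ⟨7026, 8514, 30000⟩, ⟨897, 1200, 1000⟩⟩ (tC16.hC2p true (tC16.pEnd false)) :=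
  posD_of_check (c := ⟨445, ⟨3, 8, 16, 11⟩⟩) (by decide +kernel)

def tC16_c2m01 : PosD ⟨⟨0, 1, 1⟩, ⟨98, 99, 147⟩, ⟨7026, 8514, 30000⟩, ⟨897, 1200, 1000⟩⟩ (tC16.hC2m true (tC16.pEnd false)) :=
  posD_of_check (c := ⟨445, ⟨3, 8, 16, 11⟩⟩) (by decide +kernel)

def tC16_c3p01 : PosD ⟨⟨0, 1, 1⟩, ⟨98, 99, 147⟩, ⟨7026, 8514, 30000⟩, ⟨897, 1200, 1000⟩⟩ (tC16.hC3p false true) :=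
  posD_of_check (c := ⟨405, ⟨3, 8, 14, 10⟩⟩) (by decide +kernel)

def tC16_c3m01 : PosD ⟨⟨0, 1, 1⟩, ⟨98, 99, 147⟩, ⟨7026, 8514, 30000⟩, ⟨897, 1200, 1000⟩⟩ (tC16.hC3m false true) :=
  posD_of_check (c := ⟨406, ⟨3, 8, 14, 10⟩⟩) (by decide +kernel)

def tC16_c3ph01 : PosD ⟨⟨0, 1, 1⟩, ⟨98, 99, 147⟩, ⟨7026, 8514, 30000⟩, ⟨897, 1200, 1000⟩⟩ (tC16.hC3p' false true) :=
  posD_of_check (c := ⟨405, ⟨3, 8, 14, 10⟩⟩) (by decide +kernel)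

def tC16_c3mh01 : PosD ⟨⟨0, 1, 1⟩, ⟨98, 99, 147⟩, ⟨7026, 8514, 30000⟩, ⟨897, 1200, 1000⟩⟩ (tC16.hC3m' false true) :=
  posD_of_check (c := ⟨406, ⟨3, 8, 14, 10⟩⟩) (by decide +kernel)

def tC16_up01 : PosD ⟨⟨0, 1, 1⟩, ⟨98, 99, 147⟩, ⟨7026, 8514, 30000⟩, ⟨897, 1200, 1000⟩⟩ (tC16.hUp false true) :=
  posD_of_check (c := ⟨405, ⟨3, 8, 14, 10⟩⟩) (by decide +kernel)

def tC16_um01 : PosD ⟨⟨0, 1, 1⟩, ⟨98, 99, 147⟩, ⟨7026, 8514, 30000⟩, ⟨897, 1200, 1000⟩⟩ (tC16.hUm false true) :=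
  posD_of_check (c := ⟨405, ⟨3, 8, 14, 10⟩⟩) (by decide +kernel)

def tC16_tmg01 : PosD ⟨⟨0, 1, 1⟩, ⟨98, 99, 147⟩, ⟨7026, 8514, 30000⟩, ⟨897, 1200, 1000⟩⟩ (tC16.hTMG true (tC16.pEnd false)) :=
  posD_of_check (c := ⟨354, ⟨2, 7, 13, 8⟩⟩) (by decide +kernel)

def tC16_kap1 : PosD ⟨⟨0, 1, 1⟩, ⟨98, 99, 147⟩, ⟨7026, 8514, 30000⟩, ⟨897, 1200, 1000⟩⟩ (tC16.kap true) :=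
  posD_of_check (c := ⟨71, ⟨1, 1, 2, 2⟩⟩) (by decide +kernel)

def tC16_c11 : PosD ⟨⟨0, 1, 1⟩, ⟨98, 99, 147⟩, ⟨7026, 8514, 30000⟩, ⟨897, 1200, 1000⟩⟩ (tC16.hC1 true) :=
  posD_of_check (c := ⟨274, ⟨3, 5, 9, 7⟩⟩) (by decide +kernel)

def tC16_c1h1 : PosD ⟨⟨0, 1, 1⟩, ⟨98, 99, 147⟩, ⟨7026, 8514, 30000⟩, ⟨897, 1200, 1000⟩⟩ (tC16.hC1' true) :=
  posD_of_check (c := ⟨274, ⟨3, 5, 9, 7⟩⟩) (by decide +kernel)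

def tC16_tg10 : PosD ⟨⟨0, 1, 1⟩, ⟨98, 99, 147⟩, ⟨7026, 8514, 30000⟩, ⟨897, 1200, 1000⟩⟩ (tC16.hG false (tC16.pEnd true)) :=
  posD_of_check (c := ⟨386, ⟨2, 7, 14, 9⟩⟩) (by decide +kernel)

def tC16_c2p10 : PosD ⟨⟨0, 1, 1⟩, ⟨98, 99, 147⟩, ⟨7026, 8514, 30000⟩, ⟨897, 1200, 1000⟩⟩ (tC16.hC2p false (tC16.pEnd true)) :=
  posD_of_check (c := ⟨456, ⟨3, 8, 16, 11⟩⟩) (by decide +kernel)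

def tC16_c2m10 : PosD ⟨⟨0, 1, 1⟩, ⟨98, 99, 147⟩, ⟨7026, 8514, 30000⟩, ⟨897, 1200, 1000⟩⟩ (tC16.hC2m false (tC16.pEnd true)) :=
  posD_of_check (c := ⟨456, ⟨3, 8, 16, 11⟩⟩) (by decide +kernel)

def tC16_c3p10 : PosD ⟨⟨0, 1, 1⟩, ⟨98, 99, 147⟩, ⟨7026, 8514, 30000⟩, ⟨897, 1200, 1000⟩⟩ (tC16.hC3p true false) :=
  posD_of_check (c := ⟨444, ⟨3, 8, 15, 11⟩⟩) (by decide +kernel)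

def tC16_c3m10 : PosD ⟨⟨0, 1, 1⟩, ⟨98, 99, 147⟩, ⟨7026, 8514, 30000⟩, ⟨897, 1200, 1000⟩⟩ (tC16.hC3m true false) :=
  posD_of_check (c := ⟨444, ⟨3, 8, 15, 11⟩⟩) (by decide +kernel)

def tC16_c3ph10 : PosD ⟨⟨0, 1, 1⟩, ⟨98, 99, 147⟩, ⟨7026, 8514, 30000⟩, ⟨897, 1200, 1000⟩⟩ (tC16.hC3p' true false) :=
  posD_of_check (c := ⟨444, ⟨3, 8, 15, 11⟩⟩) (by decide +kernel)

def tC16_c3mh10 : PosD ⟨⟨0, 1, 1⟩, ⟨98, 99, 147⟩, ⟨7026, 8514, 30000⟩, ⟨897, 1200, 1000⟩⟩ (tC16.hC3m' true false) :=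
  posD_of_check (c := ⟨444, ⟨3, 8, 15, 11⟩⟩) (by decide +kernel)

def tC16_up10 : PosD ⟨⟨0, 1, 1⟩, ⟨98, 99, 147⟩, ⟨7026, 8514, 30000⟩, ⟨897, 1200, 1000⟩⟩ (tC16.hUp true false) :=
  posD_of_check (c := ⟨442, ⟨3, 8, 15, 11⟩⟩) (by decide +kernel)

def tC16_um10 : PosD ⟨⟨0, 1, 1⟩, ⟨98, 99, 147⟩, ⟨7026, 8514, 30000⟩, ⟨897, 1200, 1000⟩⟩ (tC16.hUm true false) :=
  posD_of_check (c := ⟨442, ⟨3, 8, 15, 11⟩⟩) (by decide +kernel)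

def tC16_tmg10 : PosD ⟨⟨0, 1, 1⟩, ⟨98, 99, 147⟩, ⟨7026, 8514, 30000⟩, ⟨897, 1200, 1000⟩⟩ (tC16.hTMG false (tC16.pEnd true)) :=
  posD_of_check (c := ⟨401, ⟨2, 7, 14, 10⟩⟩) (by decide +kernel)

def tC16_tg11 : PosD ⟨⟨0, 1, 1⟩, ⟨98, 99, 147⟩, ⟨7026, 8514, 30000⟩, ⟨897, 1200, 1000⟩⟩ (tC16.hG true (tC16.pEnd true)) :=
  posD_of_check (c := ⟨386, ⟨2, 7, 14, 9⟩⟩) (by decide +kernel)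

def tC16_c2p11 : PosD ⟨⟨0, 1, 1⟩, ⟨98, 99, 147⟩, ⟨7026, 8514, 30000⟩, ⟨897, 1200, 1000⟩⟩ (tC16.hC2p true (tC16.pEnd true)) :=
  posD_of_check (c := ⟨456, ⟨3, 8, 16, 11⟩⟩) (by decide +kernel)

def tC16_c2m11 : PosD ⟨⟨0, 1, 1⟩, ⟨98, 99, 147⟩, ⟨7026, 8514, 30000⟩, ⟨897, 1200, 1000⟩⟩ (tC16.hC2m true (tC16.pEnd true)) :=
  posD_of_check (c := ⟨456, ⟨3, 8, 16, 11⟩⟩) (by decide +kernel)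

def tC16_c3p11 : PosD ⟨⟨0, 1, 1⟩, ⟨98, 99, 147⟩, ⟨7026, 8514, 30000⟩, ⟨897, 1200, 1000⟩⟩ (tC16.hC3p true true) :=
  posD_of_check (c := ⟨444, ⟨3, 8, 15, 11⟩⟩) (by decide +kernel)

def tC16_c3m11 : PosD ⟨⟨0, 1, 1⟩, ⟨98, 99, 147⟩, ⟨7026, 8514, 30000⟩, ⟨897, 1200, 1000⟩⟩ (tC16.hC3m true true) :=
  posD_of_check (c := ⟨444, ⟨3, 8, 15, 11⟩⟩) (by decide +kernel)

def tC16_c3ph11 : PosD ⟨⟨0, 1, 1⟩, ⟨98, 99, 147⟩, ⟨7026, 8514, 30000⟩, ⟨897, 1200, 1000⟩⟩ (tC16.hC3p' true true) :=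
  posD_of_check (c := ⟨444, ⟨3, 8, 15, 11⟩⟩) (by decide +kernel)

def tC16_c3mh11 : PosD ⟨⟨0, 1, 1⟩, ⟨98, 99, 147⟩, ⟨7026, 8514, 30000⟩, ⟨897, 1200, 1000⟩⟩ (tC16.hC3m' true true) :=
  posD_of_check (c := ⟨444, ⟨3, 8, 15, 11⟩⟩) (by decide +kernel)

def tC16_up11 : PosD ⟨⟨0, 1, 1⟩, ⟨98, 99, 147⟩, ⟨7026, 8514, 30000⟩, ⟨897, 1200, 1000⟩⟩ (tC16.hUp true true) :=
  posD_of_check (c := ⟨442, ⟨3, 8, 15, 11⟩⟩) (by decide +kernel)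

def tC16_um11 : PosD ⟨⟨0, 1, 1⟩, ⟨98, 99, 147⟩, ⟨7026, 8514, 30000⟩, ⟨897, 1200, 1000⟩⟩ (tC16.hUm true true) :=
  posD_of_check (c := ⟨442, ⟨3, 8, 15, 11⟩⟩) (by decide +kernel)

def tC16_tmg11 : PosD ⟨⟨0, 1, 1⟩, ⟨98, 99, 147⟩, ⟨7026, 8514, 30000⟩, ⟨897, 1200, 1000⟩⟩ (tC16.hTMG true (tC16.pEnd true)) :=
  posD_of_check (c := ⟨401, ⟨2, 7, 14, 10⟩⟩) (by decide +kernel)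

/-- The signs of the piece. -/
def tC16_sign : tC16.Sign ⟨⟨0, 1, 1⟩, ⟨98, 99, 147⟩, ⟨7026, 8514, 30000⟩, ⟨897, 1200, 1000⟩⟩ :=
  ⟨tC16_pp,
    tC16_k2p,
    tC16_k2m,
    Bool.forall_bool.2 ⟨(Bool.forall_bool.2 ⟨tC16_tg00, tC16_tg01⟩), (Bool.forall_bool.2 ⟨tC16_tg10, tC16_tg11⟩)⟩,
    Bool.forall_bool.2 ⟨(Bool.forall_bool.2 ⟨tC16_c2p00, tC16_c2p01⟩), (Bool.forall_bool.2 ⟨tC16_c2p10, tC16_c2p11⟩)⟩,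
    Bool.forall_bool.2 ⟨(Bool.forall_bool.2 ⟨tC16_c2m00, tC16_c2m01⟩), (Bool.forall_bool.2 ⟨tC16_c2m10, tC16_c2m11⟩)⟩,
    Bool.forall_bool.2 ⟨tC16_kap0, tC16_kap1⟩,
    Bool.forall_bool.2 ⟨tC16_c10, tC16_c11⟩,
    Bool.forall_bool.2 ⟨(Bool.forall_bool.2 ⟨tC16_c3p00, tC16_c3p01⟩), (Bool.forall_bool.2 ⟨tC16_c3p10, tC16_c3p11⟩)⟩,
    Bool.forall_bool.2 ⟨(Bool.forall_bool.2 ⟨tC16_c3m00, tC16_c3m01⟩), (Bool.forall_bool.2 ⟨tC16_c3m10, tC16_c3m11⟩)⟩,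
    Bool.forall_bool.2 ⟨(Bool.forall_bool.2 ⟨tC16_tmg00, tC16_tmg01⟩), (Bool.forall_bool.2 ⟨tC16_tmg10, tC16_tmg11⟩)⟩,
    .inr (Bool.forall_bool.2 ⟨⟨tC16_c1h0, Bool.forall_bool.2 ⟨⟨tC16_c3ph00, tC16_c3mh00, tC16_up00, tC16_um00⟩, ⟨tC16_c3ph01, tC16_c3mh01, tC16_up01, tC16_um01⟩⟩⟩, ⟨tC16_c1h1, Bool.forall_bool.2 ⟨⟨tC16_c3ph10, tC16_c3mh10, tC16_up10, tC16_um10⟩, ⟨tC16_c3ph11, tC16_c3mh11, tC16_up11, tC16_um11⟩⟩⟩⟩),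
    tC16_v2p,
    tC16_v2m,
    tC16_v3p,
    tC16_v3m,
    posD_sub (b := ⟨⟨0, 1, 1⟩, ⟨98, 99, 147⟩, ⟨4050, 10000, 30000⟩, ⟨290, 4000, 1000⟩⟩) (by decide +kernel) tC_vG,
    posD_sub (b := ⟨⟨0, 1, 1⟩, ⟨98, 99, 147⟩, ⟨4050, 10000, 30000⟩, ⟨290, 4000, 1000⟩⟩) (by decide +kernel) tC_vMG,
    posD_sub (b := ⟨⟨0, 1, 1⟩, ⟨98, 99, 147⟩, ⟨4050, 10000, 30000⟩, ⟨290, 4000, 1000⟩⟩) (by decide +kernel) tC_ak,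
    posD_sub (b := ⟨⟨0, 1, 1⟩, ⟨98, 99, 147⟩, ⟨4050, 10000, 30000⟩, ⟨290, 4000, 1000⟩⟩) (by decide +kernel) tC_aw,
    posD_sub (b := ⟨⟨0, 1, 1⟩, ⟨98, 99, 147⟩, ⟨4050, 10000, 30000⟩, ⟨290, 4000, 1000⟩⟩) (by decide +kernel) tC_gk,
    posD_sub (b := ⟨⟨0, 1, 1⟩, ⟨98, 99, 147⟩, ⟨4050, 10000, 30000⟩, ⟨290, 4000, 1000⟩⟩) (by decide +kernel) tC_gw,
    posD_sub (b := ⟨⟨0, 1, 1⟩, ⟨98, 99, 147⟩, ⟨4050, 10000, 30000⟩, ⟨290, 4000, 1000⟩⟩) (by decide +kernel) tC_ek,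
    posD_sub (b := ⟨⟨0, 1, 1⟩, ⟨98, 99, 147⟩, ⟨4050, 10000, 30000⟩, ⟨290, 4000, 1000⟩⟩) (by decide +kernel) tC_ew⟩

end Vale.Agent.P100.Calib.Closed.Six.Tail
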