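import Vale.Agent.P100.Calib.SlabSixTailDataC
import Vale.Agent.P100.Calib.SlabSixTailGlobC

/-!
# Checks of some pieces of the certificate

The checks are written as definitions so that they run one after another, which keeps the memory of the
kernel low.
-/

set_option linter.defProp false

namespace Vale.Agent.P100.Calib.Closed.Six.Tail

open BoxPos Large

local instance sixTailCheckstC60Add : Add Ex := ⟨Ex.add⟩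
local instance sixTailCheckstC60Sub : Sub Ex := ⟨Ex.sub⟩
local instance sixTailCheckstC60Mul : Mul Ex := ⟨Ex.mul⟩

def tC89_p0 : PosD ⟨⟨0, 1, 1⟩, ⟨98, 99, 147⟩, ⟨9630, 9816, 30000⟩, ⟨1446, 1467, 1000⟩⟩ (tC89.hP0) :=
  posD_of_check (c := ⟨83, ⟨0, 2, 3, 1⟩⟩) (by decide +kernel)

def tC89_gn : PosD ⟨⟨0, 1, 1⟩, ⟨98, 99, 147⟩, ⟨9630, 9816, 30000⟩, ⟨1446, 1467, 1000⟩⟩ (tC89.hGn) :=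
  posD_of_check (c := ⟨60, ⟨1, 1, 2, 1⟩⟩) (by decide +kernel)

def tC89_den0 : PosD ⟨⟨0, 1, 1⟩, ⟨98, 99, 147⟩, ⟨9630, 9816, 30000⟩, ⟨1446, 1467, 1000⟩⟩ (tC89.hDen false) :=
  posD_of_check (c := ⟨50, ⟨1, 0, 2, 0⟩⟩) (by decide +kernel)

def tC89_den1 : PosD ⟨⟨0, 1, 1⟩, ⟨98, 99, 147⟩, ⟨9630, 9816, 30000⟩, ⟨1446, 1467, 1000⟩⟩ (tC89.hDen true) :=
  posD_of_check (c := ⟨138, ⟨3, 4, 4, 1⟩⟩) (by decide +kernel)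

def tC89_ev0 : PosD ⟨⟨0, 1, 1⟩, ⟨98, 99, 147⟩, ⟨9630, 9816, 30000⟩, ⟨1446, 1467, 1000⟩⟩ (tC89.hEv false) :=
  posD_of_check (c := ⟨155, ⟨4, 2, 4, 1⟩⟩) (by decide +kernel)

def tC89_zL0 : PosD ⟨⟨0, 1, 1⟩, ⟨98, 99, 147⟩, ⟨9630, 9816, 30000⟩, ⟨1446, 1467, 1000⟩⟩ (tC89.hZL false) :=
  posD_of_relax (k₁ := 0) (k₂ := 0) (k₃ := 1) (n := 16) (posD_of_check (c := ⟨189, ⟨4, 3, 6, 2⟩⟩) (by decide +kernel))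

def tC89_zU0 : PosD ⟨⟨0, 1, 1⟩, ⟨98, 99, 147⟩, ⟨9630, 9816, 30000⟩, ⟨1446, 1467, 1000⟩⟩ (tC89.hZU false) :=
  posD_of_check (c := ⟨189, ⟨4, 3, 6, 2⟩⟩) (by decide +kernel)

def tC89_eL0 : PosD ⟨⟨0, 1, 1⟩, ⟨98, 99, 147⟩, ⟨9630, 9816, 30000⟩, ⟨1446, 1467, 1000⟩⟩ (tC89.hEL false) :=
  posD_of_check (c := ⟨251, ⟨5, 6, 7, 2⟩⟩) (by decide +kernel)

def tC89_eH0 : PosD ⟨⟨0, 1, 1⟩, ⟨98, 99, 147⟩, ⟨9630, 9816, 30000⟩, ⟨1446, 1467, 1000⟩⟩ (tC89.hEH false) :=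
  posD_of_check (c := ⟨265, ⟨5, 6, 7, 3⟩⟩) (by decide +kernel)

def tC89_pL0 : PosD ⟨⟨0, 1, 1⟩, ⟨98, 99, 147⟩, ⟨9630, 9816, 30000⟩, ⟨1446, 1467, 1000⟩⟩ (tC89.hPL false) :=
  posD_of_check (c := ⟨272, ⟨5, 6, 7, 3⟩⟩) (by decide +kernel)

def tC89_pU0 : PosD ⟨⟨0, 1, 1⟩, ⟨98, 99, 147⟩, ⟨9630, 9816, 30000⟩, ⟨1446, 1467, 1000⟩⟩ (tC89.hPU false) :=
  posD_of_check (c := ⟨269, ⟨5, 6, 7, 3⟩⟩) (by decide +kernel)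

def tC89_kU0 : PosD ⟨⟨0, 1, 1⟩, ⟨98, 99, 147⟩, ⟨9630, 9816, 30000⟩, ⟨1446, 1467, 1000⟩⟩ (tC89.hKU false) :=
  posD_of_check (c := ⟨268, ⟨5, 6, 7, 3⟩⟩) (by decide +kernel)

def tC89_kL0 : PosD ⟨⟨0, 1, 1⟩, ⟨98, 99, 147⟩, ⟨9630, 9816, 30000⟩, ⟨1446, 1467, 1000⟩⟩ (tC89.hKL false) :=
  posD_of_check (c := ⟨265, ⟨5, 6, 7, 3⟩⟩) (by decide +kernel)

def tC89_wU0 : PosD ⟨⟨0, 1, 1⟩, ⟨98, 99, 147⟩, ⟨9630, 9816, 30000⟩, ⟨1446, 1467, 1000⟩⟩ (tC89.hWU false) :=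
  posD_of_check (c := ⟨301, ⟨5, 8, 8, 3⟩⟩) (by decide +kernel)

def tC89_wL0 : PosD ⟨⟨0, 1, 1⟩, ⟨98, 99, 147⟩, ⟨9630, 9816, 30000⟩, ⟨1446, 1467, 1000⟩⟩ (tC89.hWL false) :=
  posD_of_check (c := ⟨303, ⟨5, 8, 8, 3⟩⟩) (by decide +kernel)

def tC89_ev1 : PosD ⟨⟨0, 1, 1⟩, ⟨98, 99, 147⟩, ⟨9630, 9816, 30000⟩, ⟨1446, 1467, 1000⟩⟩ (tC89.hEv true) :=
  posD_of_check (c := ⟨215, ⟨4, 6, 6, 2⟩⟩) (by decide +kernel)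

def tC89_zL1 : PosD ⟨⟨0, 1, 1⟩, ⟨98, 99, 147⟩, ⟨9630, 9816, 30000⟩, ⟨1446, 1467, 1000⟩⟩ (tC89.hZL true) :=
  posD_of_check (c := ⟨257, ⟨4, 7, 8, 3⟩⟩) (by decide +kernel)

def tC89_zU1 : PosD ⟨⟨0, 1, 1⟩, ⟨98, 99, 147⟩, ⟨9630, 9816, 30000⟩, ⟨1446, 1467, 1000⟩⟩ (tC89.hZU true) :=
  posD_of_relax (k₁ := 0) (k₂ := 0) (k₃ := 1) (n := 16) (posD_of_check (c := ⟨257, ⟨4, 7, 8, 3⟩⟩) (by decide +kernel))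

def tC89_eL1 : PosD ⟨⟨0, 1, 1⟩, ⟨98, 99, 147⟩, ⟨9630, 9816, 30000⟩, ⟨1446, 1467, 1000⟩⟩ (tC89.hEL true) :=
  posD_of_relax (k₁ := 0) (k₂ := 0) (k₃ := 1) (n := 16) (posD_of_check (c := ⟨312, ⟨5, 10, 9, 3⟩⟩) (by decide +kernel))

def tC89_eH1 : PosD ⟨⟨0, 1, 1⟩, ⟨98, 99, 147⟩, ⟨9630, 9816, 30000⟩, ⟨1446, 1467, 1000⟩⟩ (tC89.hEH true) :=
  posD_of_check (c := ⟨325, ⟨5, 10, 9, 4⟩⟩) (by decide +kernel)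

def tC89_pL1 : PosD ⟨⟨0, 1, 1⟩, ⟨98, 99, 147⟩, ⟨9630, 9816, 30000⟩, ⟨1446, 1467, 1000⟩⟩ (tC89.hPL true) :=
  posD_of_relax (k₁ := 0) (k₂ := 0) (k₃ := 1) (n := 16) (posD_of_check (c := ⟨332, ⟨5, 10, 9, 4⟩⟩) (by decide +kernel))

def tC89_pU1 : PosD ⟨⟨0, 1, 1⟩, ⟨98, 99, 147⟩, ⟨9630, 9816, 30000⟩, ⟨1446, 1467, 1000⟩⟩ (tC89.hPU true) :=
  posD_of_check (c := ⟨329, ⟨5, 10, 9, 4⟩⟩) (by decide +kernel)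

def tC89_kU1 : PosD ⟨⟨0, 1, 1⟩, ⟨98, 99, 147⟩, ⟨9630, 9816, 30000⟩, ⟨1446, 1467, 1000⟩⟩ (tC89.hKU true) :=
  posD_of_check (c := ⟨328, ⟨5, 10, 9, 4⟩⟩) (by decide +kernel)

def tC89_kL1 : PosD ⟨⟨0, 1, 1⟩, ⟨98, 99, 147⟩, ⟨9630, 9816, 30000⟩, ⟨1446, 1467, 1000⟩⟩ (tC89.hKL true) :=
  posD_of_check (c := ⟨326, ⟨5, 10, 9, 4⟩⟩) (by decide +kernel)

def tC89_wU1 : PosD ⟨⟨0, 1, 1⟩, ⟨98, 99, 147⟩, ⟨9630, 9816, 30000⟩, ⟨1446, 1467, 1000⟩⟩ (tC89.hWU true) :=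
  posD_of_check (c := ⟨361, ⟨5, 12, 10, 4⟩⟩) (by decide +kernel)

def tC89_wL1 : PosD ⟨⟨0, 1, 1⟩, ⟨98, 99, 147⟩, ⟨9630, 9816, 30000⟩, ⟨1446, 1467, 1000⟩⟩ (tC89.hWL true) :=
  posD_of_check (c := ⟨363, ⟨5, 12, 10, 4⟩⟩) (by decide +kernel)

def tC89_nueH : PosD ⟨⟨0, 1, 1⟩, ⟨98, 99, 147⟩, ⟨9630, 9816, 30000⟩, ⟨1446, 1467, 1000⟩⟩ (tC89.eH.ν) :=
  posD_of_check (c := ⟨35, ⟨0, 0, 1, 1⟩⟩) (by decide +kernel)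

def tC89_nupU : PosD ⟨⟨0, 1, 1⟩, ⟨98, 99, 147⟩, ⟨9630, 9816, 30000⟩, ⟨1446, 1467, 1000⟩⟩ (tC89.pU.ν) :=
  posD_of_check (c := ⟨35, ⟨0, 0, 1, 1⟩⟩) (by decide +kernel)

/-- The bounds of the piece. -/
def tC89_env : tC89.Env ⟨⟨0, 1, 1⟩, ⟨98, 99, 147⟩, ⟨9630, 9816, 30000⟩, ⟨1446, 1467, 1000⟩⟩ :=
  ⟨tC89_p0, Bool.forall_bool.2 ⟨tC89_den0, tC89_den1⟩, tC89_gn, Bool.forall_bool.2 ⟨tC89_ev0, tC89_ev1⟩, Bool.forall_bool.2 ⟨tC89_zL0, tC89_zL1⟩, Bool.forall_bool.2 ⟨tC89_zU0, tC89_zU1⟩, Bool.forall_bool.2 ⟨tC89_eL0, tC89_eL1⟩, ⟨.inr rfl, .inr rfl⟩, Bool.forall_bool.2 ⟨tC89_eH0, tC89_eH1⟩, ⟨.inr rfl, .inl tC89_nueH⟩, Bool.forall_bool.2 ⟨tC89_pL0, tC89_pL1⟩, ⟨.inr rfl, .inr rfl⟩, Bool.forall_bool.2 ⟨tC89_pU0, tC89_pU1⟩, ⟨.inr rfl, .inl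 tC89_nupU⟩, Bool.forall_bool.2 ⟨tC89_kU0, tC89_kU1⟩, ⟨.inr rfl, .inr rfl⟩, Bool.forall_bool.2 ⟨tC89_kL0, tC89_kL1⟩, ⟨.inr rfl, .inr rfl⟩, Bool.forall_bool.2 ⟨tC89_wU0, tC89_wU1⟩, ⟨.inr rfl, .inr rfl⟩, Bool.forall_bool.2 ⟨tC89_wL0, tC89_wL1⟩, ⟨.inr rfl, .inr rfl⟩⟩

def tC89_pp : PosD ⟨⟨0, 1, 1⟩, ⟨98, 99, 147⟩, ⟨9630, 9816, 30000⟩, ⟨1446, 1467, 1000⟩⟩ (tC89.xPL) :=
  posD_of_check (c := ⟨101, ⟨1, 1, 3, 2⟩⟩) (by decide +kernel)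

def tC89_k2p : PosD ⟨⟨0, 1, 1⟩, ⟨98, 99, 147⟩, ⟨9630, 9816, 30000⟩, ⟨1446, 1467, 1000⟩⟩ (tC89.k2p tC89.xE) :=
  posD_of_check (c := ⟨72, ⟨1, 1, 2, 1⟩⟩) (by decide +kernel)

def tC89_k2m : PosD ⟨⟨0, 1, 1⟩, ⟨98, 99, 147⟩, ⟨9630, 9816, 30000⟩, ⟨1446, 1467, 1000⟩⟩ (tC89.k2m tC89.xE) :=
  posD_of_check (c := ⟨31, ⟨0, 0, 1, 1⟩⟩) (by decide +kernel)

def tC89_v2p : PosD ⟨⟨0, 1, 1⟩, ⟨98, 99, 147⟩, ⟨9630, 9816, 30000⟩, ⟨1446, 1467, 1000⟩⟩ (tC89.hV2p) :=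
  posD_of_check (c := ⟨274, ⟨1, 6, 10, 4⟩⟩) (by decide +kernel)

def tC89_v2m : PosD ⟨⟨0, 1, 1⟩, ⟨98, 99, 147⟩, ⟨9630, 9816, 30000⟩, ⟨1446, 1467, 1000⟩⟩ (tC89.hV2m) :=
  posD_of_check (c := ⟨245, ⟨0, 5, 10, 4⟩⟩) (by decide +kernel)

def tC89_v3p : PosD ⟨⟨0, 1, 1⟩, ⟨98, 99, 147⟩, ⟨9630, 9816, 30000⟩, ⟨1446, 1467, 1000⟩⟩ (tC89.hV3p) :=
  posD_of_check (c := ⟨258, ⟨1, 6, 9, 4⟩⟩) (by decide +kernel)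

def tC89_v3m : PosD ⟨⟨0, 1, 1⟩, ⟨98, 99, 147⟩, ⟨9630, 9816, 30000⟩, ⟨1446, 1467, 1000⟩⟩ (tC89.hV3m) :=
  posD_of_check (c := ⟨232, ⟨0, 5, 9, 4⟩⟩) (by decide +kernel)

def tC89_kap0 : PosD ⟨⟨0, 1, 1⟩, ⟨98, 99, 147⟩, ⟨9630, 9816, 30000⟩, ⟨1446, 1467, 1000⟩⟩ (tC89.kap false) :=
  posD_of_check (c := ⟨73, ⟨1, 1, 2, 1⟩⟩) (by decide +kernel)

def tC89_c10 : PosD ⟨⟨0, 1, 1⟩, ⟨98, 99, 147⟩, ⟨9630, 9816, 30000⟩, ⟨1446, 1467, 1000⟩⟩ (tC89.hC1 false) :=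
  posD_of_check (c := ⟨285, ⟨3, 5, 9, 5⟩⟩) (by decide +kernel)

def tC89_c1h0 : PosD ⟨⟨0, 1, 1⟩, ⟨98, 99, 147⟩, ⟨9630, 9816, 30000⟩, ⟨1446, 1467, 1000⟩⟩ (tC89.hC1' false) :=
  posD_of_relax (k₁ := 0) (k₂ := 0) (k₃ := 63) (n := 16) (posD_of_check (c := ⟨285, ⟨3, 5, 9, 5⟩⟩) (by decide +kernel))

def tC89_tg00 : PosD ⟨⟨0, 1, 1⟩, ⟨98, 99, 147⟩, ⟨9630, 9816, 30000⟩, ⟨1446, 1467, 1000⟩⟩ (tC89.hG false (tC89.pEnd false)) :=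
  posD_of_check (c := ⟨399, ⟨2, 7, 14, 7⟩⟩) (by decide +kernel)

def tC89_c2p00 : PosD ⟨⟨0, 1, 1⟩, ⟨98, 99, 147⟩, ⟨9630, 9816, 30000⟩, ⟨1446, 1467, 1000⟩⟩ (tC89.hC2p false (tC89.pEnd false)) :=
  posD_of_check (c := ⟨470, ⟨3, 8, 16, 8⟩⟩) (by decide +kernel)

def tC89_c2m00 : PosD ⟨⟨0, 1, 1⟩, ⟨98, 99, 147⟩, ⟨9630, 9816, 30000⟩, ⟨1446, 1467, 1000⟩⟩ (tC89.hC2m false (tC89.pEnd false)) :=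
  posD_of_check (c := ⟨442, ⟨2, 7, 16, 8⟩⟩) (by decide +kernel)

def tC89_c3p00 : PosD ⟨⟨0, 1, 1⟩, ⟨98, 99, 147⟩, ⟨9630, 9816, 30000⟩, ⟨1446, 1467, 1000⟩⟩ (tC89.hC3p false false) :=
  posD_of_check (c := ⟨456, ⟨3, 8, 15, 8⟩⟩) (by decide +kernel)

def tC89_c3m00 : PosD ⟨⟨0, 1, 1⟩, ⟨98, 99, 147⟩, ⟨9630, 9816, 30000⟩, ⟨1446, 1467, 1000⟩⟩ (tC89.hC3m false false) :=
  posD_of_check (c := ⟨433, ⟨3, 7, 15, 8⟩⟩) (by decide +kernel)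

def tC89_c3ph00 : PosD ⟨⟨0, 1, 1⟩, ⟨98, 99, 147⟩, ⟨9630, 9816, 30000⟩, ⟨1446, 1467, 1000⟩⟩ (tC89.hC3p' false false) :=
  posD_of_relax (k₁ := 0) (k₂ := 0) (k₃ := 1) (n := 16) (posD_of_check (c := ⟨456, ⟨3, 8, 15, 8⟩⟩) (by decide +kernel))

def tC89_c3mh00 : PosD ⟨⟨0, 1, 1⟩, ⟨98, 99, 147⟩, ⟨9630, 9816, 30000⟩, ⟨1446, 1467, 1000⟩⟩ (tC89.hC3m' false false) :=
  posD_of_relax (k₁ := 0) (k₂ := 0) (k₃ := 1) (n := 16) (posD_of_check (c := ⟨433, ⟨3, 7, 15, 8⟩⟩) (by decide +kernel))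

def tC89_up00 : PosD ⟨⟨0, 1, 1⟩, ⟨98, 99, 147⟩, ⟨9630, 9816, 30000⟩, ⟨1446, 1467, 1000⟩⟩ (tC89.hUp false false) :=
  posD_of_check (c := ⟨455, ⟨3, 8, 15, 8⟩⟩) (by decide +kernel)

def tC89_um00 : PosD ⟨⟨0, 1, 1⟩, ⟨98, 99, 147⟩, ⟨9630, 9816, 30000⟩, ⟨1446, 1467, 1000⟩⟩ (tC89.hUm false false) :=
  posD_of_check (c := ⟨429, ⟨2, 7, 15, 8⟩⟩) (by decide +kernel)

def tC89_tmg00 : PosD ⟨⟨0, 1, 1⟩, ⟨98, 99, 147⟩, ⟨9630, 9816, 30000⟩, ⟨1446, 1467, 1000⟩⟩ (tC89.hTMG false (tC89.pEnd false)) :=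
  posD_of_check (c := ⟨412, ⟨2, 7, 14, 8⟩⟩) (by decide +kernel)

def tC89_tg01 : PosD ⟨⟨0, 1, 1⟩, ⟨98, 99, 147⟩, ⟨9630, 9816, 30000⟩, ⟨1446, 1467, 1000⟩⟩ (tC89.hG true (tC89.pEnd false)) :=
  posD_of_check (c := ⟨399, ⟨2, 7, 14, 7⟩⟩) (by decide +kernel)

def tC89_c2p01 : PosD ⟨⟨0, 1, 1⟩, ⟨98, 99, 147⟩, ⟨9630, 9816, 30000⟩, ⟨1446, 1467, 1000⟩⟩ (tC89.hC2p true (tC89.pEnd false)) :=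
  posD_of_check (c := ⟨470, ⟨3, 8, 16, 8⟩⟩) (by decide +kernel)

def tC89_c2m01 : PosD ⟨⟨0, 1, 1⟩, ⟨98, 99, 147⟩, ⟨9630, 9816, 30000⟩, ⟨1446, 1467, 1000⟩⟩ (tC89.hC2m true (tC89.pEnd false)) :=
  posD_of_check (c := ⟨442, ⟨2, 7, 16, 8⟩⟩) (by decide +kernel)

def tC89_c3p01 : PosD ⟨⟨0, 1, 1⟩, ⟨98, 99, 147⟩, ⟨9630, 9816, 30000⟩, ⟨1446, 1467, 1000⟩⟩ (tC89.hC3p false true) :=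
  posD_of_check (c := ⟨456, ⟨3, 8, 15, 8⟩⟩) (by decide +kernel)

def tC89_c3m01 : PosD ⟨⟨0, 1, 1⟩, ⟨98, 99, 147⟩, ⟨9630, 9816, 30000⟩, ⟨1446, 1467, 1000⟩⟩ (tC89.hC3m false true) :=
  posD_of_check (c := ⟨433, ⟨3, 7, 15, 8⟩⟩) (by decide +kernel)

def tC89_c3ph01 : PosD ⟨⟨0, 1, 1⟩, ⟨98, 99, 147⟩, ⟨9630, 9816, 30000⟩, ⟨1446, 1467, 1000⟩⟩ (tC89.hC3p' false true) :=
  posD_of_relax (k₁ := 0) (k₂ := 0) (k₃ := 1) (n := 16) (posD_of_check (c := ⟨456, ⟨3, 8, 15, 8⟩⟩) (by decide +kernel))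

def tC89_c3mh01 : PosD ⟨⟨0, 1, 1⟩, ⟨98, 99, 147⟩, ⟨9630, 9816, 30000⟩, ⟨1446, 1467, 1000⟩⟩ (tC89.hC3m' false true) :=
  posD_of_check (c := ⟨433, ⟨3, 7, 15, 8⟩⟩) (by decide +kernel)

def tC89_up01 : PosD ⟨⟨0, 1, 1⟩, ⟨98, 99, 147⟩, ⟨9630, 9816, 30000⟩, ⟨1446, 1467, 1000⟩⟩ (tC89.hUp false true) :=
  posD_of_check (c := ⟨455, ⟨3, 8, 15, 8⟩⟩) (by decide +kernel)

def tC89_um01 : PosD ⟨⟨0, 1, 1⟩, ⟨98, 99, 147⟩, ⟨9630, 9816, 30000⟩, ⟨1446, 1467, 1000⟩⟩ (tC89.hUm false true) :=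
  posD_of_check (c := ⟨429, ⟨2, 7, 15, 8⟩⟩) (by decide +kernel)

def tC89_tmg01 : PosD ⟨⟨0, 1, 1⟩, ⟨98, 99, 147⟩, ⟨9630, 9816, 30000⟩, ⟨1446, 1467, 1000⟩⟩ (tC89.hTMG true (tC89.pEnd false)) :=
  posD_of_check (c := ⟨412, ⟨2, 7, 14, 8⟩⟩) (by decide +kernel)

def tC89_kap1 : PosD ⟨⟨0, 1, 1⟩, ⟨98, 99, 147⟩, ⟨9630, 9816, 30000⟩, ⟨1446, 1467, 1000⟩⟩ (tC89.kap true) :=
  posD_of_check (c := ⟨73, ⟨1, 1, 2, 1⟩⟩) (by decide +kernel)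

def tC89_c11 : PosD ⟨⟨0, 1, 1⟩, ⟨98, 99, 147⟩, ⟨9630, 9816, 30000⟩, ⟨1446, 1467, 1000⟩⟩ (tC89.hC1 true) :=
  posD_of_check (c := ⟨281, ⟨3, 5, 9, 5⟩⟩) (by decide +kernel)

def tC89_c1h1 : PosD ⟨⟨0, 1, 1⟩, ⟨98, 99, 147⟩, ⟨9630, 9816, 30000⟩, ⟨1446, 1467, 1000⟩⟩ (tC89.hC1' true) :=
  posD_of_relax (k₁ := 0) (k₂ := 0) (k₃ := 106) (n := 16) (posD_of_check (c := ⟨281, ⟨3, 5, 9, 5⟩⟩) (by decide +kernel))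

def tC89_tg10 : PosD ⟨⟨0, 1, 1⟩, ⟨98, 99, 147⟩, ⟨9630, 9816, 30000⟩, ⟨1446, 1467, 1000⟩⟩ (tC89.hG false (tC89.pEnd true)) :=
  posD_of_check (c := ⟨391, ⟨2, 7, 14, 7⟩⟩) (by decide +kernel)

def tC89_c2p10 : PosD ⟨⟨0, 1, 1⟩, ⟨98, 99, 147⟩, ⟨9630, 9816, 30000⟩, ⟨1446, 1467, 1000⟩⟩ (tC89.hC2p false (tC89.pEnd true)) :=
  posD_of_check (c := ⟨462, ⟨3, 8, 16, 8⟩⟩) (by decide +kernel)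

def tC89_c2m10 : PosD ⟨⟨0, 1, 1⟩, ⟨98, 99, 147⟩, ⟨9630, 9816, 30000⟩, ⟨1446, 1467, 1000⟩⟩ (tC89.hC2m false (tC89.pEnd true)) :=
  posD_of_check (c := ⟨434, ⟨2, 7, 16, 8⟩⟩) (by decide +kernel)

def tC89_c3p10 : PosD ⟨⟨0, 1, 1⟩, ⟨98, 99, 147⟩, ⟨9630, 9816, 30000⟩, ⟨1446, 1467, 1000⟩⟩ (tC89.hC3p true false) :=
  posD_of_check (c := ⟨451, ⟨3, 8, 15, 8⟩⟩) (by decide +kernel)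

def tC89_c3m10 : PosD ⟨⟨0, 1, 1⟩, ⟨98, 99, 147⟩, ⟨9630, 9816, 30000⟩, ⟨1446, 1467, 1000⟩⟩ (tC89.hC3m true false) :=
  posD_of_check (c := ⟨428, ⟨3, 7, 15, 8⟩⟩) (by decide +kernel)

def tC89_c3ph10 : PosD ⟨⟨0, 1, 1⟩, ⟨98, 99, 147⟩, ⟨9630, 9816, 30000⟩, ⟨1446, 1467, 1000⟩⟩ (tC89.hC3p' true false) :=
  posD_of_relax (k₁ := 0) (k₂ := 0) (k₃ := 1) (n := 16) (posD_of_check (c := ⟨451, ⟨3, 8, 15, 8⟩⟩) (by decide +kernel))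

def tC89_c3mh10 : PosD ⟨⟨0, 1, 1⟩, ⟨98, 99, 147⟩, ⟨9630, 9816, 30000⟩, ⟨1446, 1467, 1000⟩⟩ (tC89.hC3m' true false) :=
  posD_of_relax (k₁ := 0) (k₂ := 0) (k₃ := 1) (n := 16) (posD_of_check (c := ⟨428, ⟨3, 7, 15, 8⟩⟩) (by decide +kernel))

def tC89_up10 : PosD ⟨⟨0, 1, 1⟩, ⟨98, 99, 147⟩, ⟨9630, 9816, 30000⟩, ⟨1446, 1467, 1000⟩⟩ (tC89.hUp true false) :=
  posD_of_check (c := ⟨447, ⟨3, 8, 15, 8⟩⟩) (by decide +kernel)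

def tC89_um10 : PosD ⟨⟨0, 1, 1⟩, ⟨98, 99, 147⟩, ⟨9630, 9816, 30000⟩, ⟨1446, 1467, 1000⟩⟩ (tC89.hUm true false) :=
  posD_of_check (c := ⟨422, ⟨2, 7, 15, 8⟩⟩) (by decide +kernel)

def tC89_tmg10 : PosD ⟨⟨0, 1, 1⟩, ⟨98, 99, 147⟩, ⟨9630, 9816, 30000⟩, ⟨1446, 1467, 1000⟩⟩ (tC89.hTMG false (tC89.pEnd true)) :=
  posD_of_check (c := ⟨406, ⟨2, 7, 14, 8⟩⟩) (by decide +kernel)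

def tC89_tg11 : PosD ⟨⟨0, 1, 1⟩, ⟨98, 99, 147⟩, ⟨9630, 9816, 30000⟩, ⟨1446, 1467, 1000⟩⟩ (tC89.hG true (tC89.pEnd true)) :=
  posD_of_check (c := ⟨391, ⟨2, 7, 14, 7⟩⟩) (by decide +kernel)

def tC89_c2p11 : PosD ⟨⟨0, 1, 1⟩, ⟨98, 99, 147⟩, ⟨9630, 9816, 30000⟩, ⟨1446, 1467, 1000⟩⟩ (tC89.hC2p true (tC89.pEnd true)) :=
  posD_of_check (c := ⟨462, ⟨3, 8, 16, 8⟩⟩) (by decide +kernel)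

def tC89_c2m11 : PosD ⟨⟨0, 1, 1⟩, ⟨98, 99, 147⟩, ⟨9630, 9816, 30000⟩, ⟨1446, 1467, 1000⟩⟩ (tC89.hC2m true (tC89.pEnd true)) :=
  posD_of_check (c := ⟨434, ⟨2, 7, 16, 8⟩⟩) (by decide +kernel)

def tC89_c3p11 : PosD ⟨⟨0, 1, 1⟩, ⟨98, 99, 147⟩, ⟨9630, 9816, 30000⟩, ⟨1446, 1467, 1000⟩⟩ (tC89.hC3p true true) :=
  posD_of_check (c := ⟨451, ⟨3, 8, 15, 8⟩⟩) (by decide +kernel)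

def tC89_c3m11 : PosD ⟨⟨0, 1, 1⟩, ⟨98, 99, 147⟩, ⟨9630, 9816, 30000⟩, ⟨1446, 1467, 1000⟩⟩ (tC89.hC3m true true) :=
  posD_of_check (c := ⟨428, ⟨3, 7, 15, 8⟩⟩) (by decide +kernel)

def tC89_c3ph11 : PosD ⟨⟨0, 1, 1⟩, ⟨98, 99, 147⟩, ⟨9630, 9816, 30000⟩, ⟨1446, 1467, 1000⟩⟩ (tC89.hC3p' true true) :=
  posD_of_relax (k₁ := 0) (k₂ := 0) (k₃ := 1) (n := 16) (posD_of_check (c := ⟨451, ⟨3, 8, 15, 8⟩⟩) (by decide +kernel))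

def tC89_c3mh11 : PosD ⟨⟨0, 1, 1⟩, ⟨98, 99, 147⟩, ⟨9630, 9816, 30000⟩, ⟨1446, 1467, 1000⟩⟩ (tC89.hC3m' true true) :=
  posD_of_check (c := ⟨428, ⟨3, 7, 15, 8⟩⟩) (by decide +kernel)

def tC89_up11 : PosD ⟨⟨0, 1, 1⟩, ⟨98, 99, 147⟩, ⟨9630, 9816, 30000⟩, ⟨1446, 1467, 1000⟩⟩ (tC89.hUp true true) :=
  posD_of_check (c := ⟨447, ⟨3, 8, 15, 8⟩⟩) (by decide +kernel)

def tC89_um11 : PosD ⟨⟨0, 1, 1⟩, ⟨98, 99, 147⟩, ⟨9630, 9816, 30000⟩, ⟨1446, 1467, 1000⟩⟩ (tC89.hUm true true) :=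
  posD_of_check (c := ⟨422, ⟨2, 7, 15, 8⟩⟩) (by decide +kernel)

def tC89_tmg11 : PosD ⟨⟨0, 1, 1⟩, ⟨98, 99, 147⟩, ⟨9630, 9816, 30000⟩, ⟨1446, 1467, 1000⟩⟩ (tC89.hTMG true (tC89.pEnd true)) :=
  posD_of_check (c := ⟨406, ⟨2, 7, 14, 8⟩⟩) (by decide +kernel)

/-- The signs of the piece. -/
def tC89_sign : tC89.Sign ⟨⟨0, 1, 1⟩, ⟨98, 99, 147⟩, ⟨9630, 9816, 30000⟩, ⟨1446, 1467, 1000⟩⟩ :=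
  ⟨tC89_pp,
    tC89_k2p,
    tC89_k2m,
    Bool.forall_bool.2 ⟨(Bool.forall_bool.2 ⟨tC89_tg00, tC89_tg01⟩), (Bool.forall_bool.2 ⟨tC89_tg10, tC89_tg11⟩)⟩,
    Bool.forall_bool.2 ⟨(Bool.forall_bool.2 ⟨tC89_c2p00, tC89_c2p01⟩), (Bool.forall_bool.2 ⟨tC89_c2p10, tC89_c2p11⟩)⟩,
    Bool.forall_bool.2 ⟨(Bool.forall_bool.2 ⟨tC89_c2m00, tC89_c2m01⟩), (Bool.forall_bool.2 ⟨tC89_c2m10, tC89_c2m11⟩)⟩,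
    Bool.forall_bool.2 ⟨tC89_kap0, tC89_kap1⟩,
    Bool.forall_bool.2 ⟨tC89_c10, tC89_c11⟩,
    Bool.forall_bool.2 ⟨(Bool.forall_bool.2 ⟨tC89_c3p00, tC89_c3p01⟩), (Bool.forall_bool.2 ⟨tC89_c3p10, tC89_c3p11⟩)⟩,
    Bool.forall_bool.2 ⟨(Bool.forall_bool.2 ⟨tC89_c3m00, tC89_c3m01⟩), (Bool.forall_bool.2 ⟨tC89_c3m10, tC89_c3m11⟩)⟩,
    Bool.forall_bool.2 ⟨(Bool.forall_bool.2 ⟨tC89_tmg00, tC89_tmg01⟩), (Bool.forall_bool.2 ⟨tC89_tmg10, tC89_tmg11⟩)⟩,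
    .inr (Bool.forall_bool.2 ⟨⟨tC89_c1h0, Bool.forall_bool.2 ⟨⟨tC89_c3ph00, tC89_c3mh00, tC89_up00, tC89_um00⟩, ⟨tC89_c3ph01, tC89_c3mh01, tC89_up01, tC89_um01⟩⟩⟩, ⟨tC89_c1h1, Bool.forall_bool.2 ⟨⟨tC89_c3ph10, tC89_c3mh10, tC89_up10, tC89_um10⟩, ⟨tC89_c3ph11, tC89_c3mh11, tC89_up11, tC89_um11⟩⟩⟩⟩),
    tC89_v2p,
    tC89_v2m,
    tC89_v3p,
    tC89_v3m,
    posD_sub (b := ⟨⟨0, 1, 1⟩, ⟨98, 99, 147⟩, ⟨4050, 10000, 30000⟩, ⟨290, 4000, 1000⟩⟩) (by decide +kernel) tC_vG,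
    posD_sub (b := ⟨⟨0, 1, 1⟩, ⟨98, 99, 147⟩, ⟨4050, 10000, 30000⟩, ⟨290, 4000, 1000⟩⟩) (by decide +kernel) tC_vMG,
    posD_sub (b := ⟨⟨0, 1, 1⟩, ⟨98, 99, 147⟩, ⟨4050, 10000, 30000⟩, ⟨290, 4000, 1000⟩⟩) (by decide +kernel) tC_ak,
    posD_sub (b := ⟨⟨0, 1, 1⟩, ⟨98, 99, 147⟩, ⟨4050, 10000, 30000⟩, ⟨290, 4000, 1000⟩⟩) (by decide +kernel) tC_aw,
    posD_sub (b := ⟨⟨0, 1, 1⟩, ⟨98, 99, 147⟩, ⟨4050, 10000, 30000⟩, ⟨290, 4000, 1000⟩⟩) (by decide +kernel) tC_gk,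
    posD_sub (b := ⟨⟨0, 1, 1⟩, ⟨98, 99, 147⟩, ⟨4050, 10000, 30000⟩, ⟨290, 4000, 1000⟩⟩) (by decide +kernel) tC_gw,
    posD_sub (b := ⟨⟨0, 1, 1⟩, ⟨98, 99, 147⟩, ⟨4050, 10000, 30000⟩, ⟨290, 4000, 1000⟩⟩) (by decide +kernel) tC_ek,
    posD_sub (b := ⟨⟨0, 1, 1⟩, ⟨98, 99, 147⟩, ⟨4050, 10000, 30000⟩, ⟨290, 4000, 1000⟩⟩) (by decide +kernel) tC_ew⟩

end Vale.Agent.P100.Calib.Closed.Six.Tail
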