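import Vale.Agent.P100.Calib.SlabSixTailDataC
import Vale.Agent.P100.Calib.SlabSixTailGlobC

/-!
# Checks of some pieces of the certificate

The checks are written as definitions so that they run one after another, which keeps the memory of the
kernel low.
-/

set_option linter.defProp false

namespace Vale.Agent.P100.Calib.Closed.Six.Tail

open BoxPos Large

local instance sixTailCheckstC61Add : Add Ex := ⟨Ex.add⟩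
local instance sixTailCheckstC61Sub : Sub Ex := ⟨Ex.sub⟩
local instance sixTailCheckstC61Mul : Mul Ex := ⟨Ex.mul⟩

def tC90_phx : PosIf ⟨⟨0, 1, 1⟩, ⟨98, 99, 147⟩, ⟨7026, 7770, 30000⟩, ⟨1743, 1900, 1000⟩⟩ (tC90.u₁ - tC90Lo) (phCn (tC90.u₁ + xO * (tC90Lo - tC90.u₁))) :=
  posIf_of_posD (posD_of_check (c := ⟨109, ⟨2, 0, 4, 2⟩⟩) (by decide +kernel))

def tC90_phd : PosD ⟨⟨0, 1, 1⟩, ⟨98, 99, 147⟩, ⟨7026, 7770, 30000⟩, ⟨1743, 1900, 1000⟩⟩ (phCd (tC90.u₁ + xO * (tC90Lo - tC90.u₁))) :=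
  posD_of_check (c := ⟨51, ⟨1, 0, 2, 1⟩⟩) (by decide +kernel)

def tC90_p0 : PosD ⟨⟨0, 1, 1⟩, ⟨98, 99, 147⟩, ⟨7026, 7770, 30000⟩, ⟨1743, 1900, 1000⟩⟩ (tC90.hP0) :=
  posD_of_check (c := ⟨83, ⟨0, 2, 3, 1⟩⟩) (by decide +kernel)

def tC90_gn : PosD ⟨⟨0, 1, 1⟩, ⟨98, 99, 147⟩, ⟨7026, 7770, 30000⟩, ⟨1743, 1900, 1000⟩⟩ (tC90.hGn) :=
  posD_of_check (c := ⟨69, ⟨1, 1, 2, 2⟩⟩) (by decide +kernel)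

def tC90_den0 : PosD ⟨⟨0, 1, 1⟩, ⟨98, 99, 147⟩, ⟨7026, 7770, 30000⟩, ⟨1743, 1900, 1000⟩⟩ (tC90.hDen false) :=
  posD_of_check (c := ⟨51, ⟨1, 0, 2, 1⟩⟩) (by decide +kernel)

def tC90_den1 : PosD ⟨⟨0, 1, 1⟩, ⟨98, 99, 147⟩, ⟨7026, 7770, 30000⟩, ⟨1743, 1900, 1000⟩⟩ (tC90.hDen true) :=
  posD_of_check (c := ⟨179, ⟨3, 4, 6, 4⟩⟩) (by decide +kernel)

def tC90_ev0 : PosD ⟨⟨0, 1, 1⟩, ⟨98, 99, 147⟩, ⟨7026, 7770, 30000⟩, ⟨1743, 1900, 1000⟩⟩ (tC90.hEv false) :=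
  posD_of_check (c := ⟨219, ⟨4, 2, 8, 4⟩⟩) (by decide +kernel)

def tC90_zL0a : PosD ⟨⟨0, 1, 1⟩, ⟨98, 99, 147⟩, ⟨7026, 7770, 30000⟩, ⟨1743, 1821, 1000⟩⟩ (tC90.hZL false) :=
  posD_of_check (c := ⟨222, ⟨4, 3, 8, 4⟩⟩) (by decide +kernel)

def tC90_zL0ba : PosD ⟨⟨0, 1, 1⟩, ⟨98, 99, 147⟩, ⟨7026, 7398, 30000⟩, ⟨1821, 1900, 1000⟩⟩ (tC90.hZL false) :=
  posD_of_check (c := ⟨221, ⟨4, 3, 8, 4⟩⟩) (by decide +kernel)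

def tC90_zL0bb : PosD ⟨⟨0, 1, 1⟩, ⟨98, 99, 147⟩, ⟨7398, 7770, 30000⟩, ⟨1821, 1900, 1000⟩⟩ (tC90.hZL false) :=
  posD_of_check (c := ⟨222, ⟨4, 3, 8, 4⟩⟩) (by decide +kernel)

def tC90_zL0b : PosD ⟨⟨0, 1, 1⟩, ⟨98, 99, 147⟩, ⟨7026, 7770, 30000⟩, ⟨1821, 1900, 1000⟩⟩ (tC90.hZL false) :=
  posD_join₂ tC90_zL0ba tC90_zL0bb

def tC90_zL0 : PosD ⟨⟨0, 1, 1⟩, ⟨98, 99, 147⟩, ⟨7026, 7770, 30000⟩, ⟨1743, 1900, 1000⟩⟩ (tC90.hZL false) :=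
  posD_join₃ tC90_zL0a tC90_zL0b

def tC90_zU0a : PosD ⟨⟨0, 1, 1⟩, ⟨98, 99, 147⟩, ⟨7026, 7770, 30000⟩, ⟨1743, 1821, 1000⟩⟩ (tC90.hZU false) :=
  posD_of_check (c := ⟨222, ⟨4, 3, 8, 4⟩⟩) (by decide +kernel)

def tC90_zU0b : PosD ⟨⟨0, 1, 1⟩, ⟨98, 99, 147⟩, ⟨7026, 7770, 30000⟩, ⟨1821, 1900, 1000⟩⟩ (tC90.hZU false) :=
  posD_of_check (c := ⟨222, ⟨4, 3, 8, 4⟩⟩) (by decide +kernel)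

def tC90_zU0 : PosD ⟨⟨0, 1, 1⟩, ⟨98, 99, 147⟩, ⟨7026, 7770, 30000⟩, ⟨1743, 1900, 1000⟩⟩ (tC90.hZU false) :=
  posD_join₃ tC90_zU0a tC90_zU0b

def tC90_eL0 : PosD ⟨⟨0, 1, 1⟩, ⟨98, 99, 147⟩, ⟨7026, 7770, 30000⟩, ⟨1743, 1900, 1000⟩⟩ (tC90.hEL false) :=
  posD_of_check (c := ⟨315, ⟨5, 6, 11, 6⟩⟩) (by decide +kernel)

def tC90_eH0 : PosD ⟨⟨0, 1, 1⟩, ⟨98, 99, 147⟩, ⟨7026, 7770, 30000⟩, ⟨1743, 1900, 1000⟩⟩ (tC90.hEH false) :=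
  posD_of_check (c := ⟨345, ⟨5, 6, 11, 7⟩⟩) (by decide +kernel)

def tC90_pL0 : PosD ⟨⟨0, 1, 1⟩, ⟨98, 99, 147⟩, ⟨7026, 7770, 30000⟩, ⟨1743, 1900, 1000⟩⟩ (tC90.hPL false) :=
  posD_of_check (c := ⟨342, ⟨5, 6, 11, 7⟩⟩) (by decide +kernel)

def tC90_pU0 : PosD ⟨⟨0, 1, 1⟩, ⟨98, 99, 147⟩, ⟨7026, 7770, 30000⟩, ⟨1743, 1900, 1000⟩⟩ (tC90.hPU false) :=
  posD_of_check (c := ⟨348, ⟨5, 6, 11, 7⟩⟩) (by decide +kernel)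

def tC90_kU0 : PosD ⟨⟨0, 1, 1⟩, ⟨98, 99, 147⟩, ⟨7026, 7770, 30000⟩, ⟨1743, 1900, 1000⟩⟩ (tC90.hKU false) :=
  posD_of_check (c := ⟨345, ⟨5, 6, 11, 7⟩⟩) (by decide +kernel)

def tC90_kL0 : PosD ⟨⟨0, 1, 1⟩, ⟨98, 99, 147⟩, ⟨7026, 7770, 30000⟩, ⟨1743, 1900, 1000⟩⟩ (tC90.hKL false) :=
  posD_of_check (c := ⟨336, ⟨5, 6, 11, 7⟩⟩) (by decide +kernel)

def tC90_wU0 : PosD ⟨⟨0, 1, 1⟩, ⟨98, 99, 147⟩, ⟨7026, 7770, 30000⟩, ⟨1743, 1900, 1000⟩⟩ (tC90.hWU false) :=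
  posD_of_check (c := ⟨370, ⟨5, 8, 12, 7⟩⟩) (by decide +kernel)

def tC90_wL0 : PosD ⟨⟨0, 1, 1⟩, ⟨98, 99, 147⟩, ⟨7026, 7770, 30000⟩, ⟨1743, 1900, 1000⟩⟩ (tC90.hWL false) :=
  posD_of_check (c := ⟨380, ⟨5, 8, 12, 7⟩⟩) (by decide +kernel)

def tC90_ev1 : PosD ⟨⟨0, 1, 1⟩, ⟨98, 99, 147⟩, ⟨7026, 7770, 30000⟩, ⟨1743, 1900, 1000⟩⟩ (tC90.hEv true) :=
  posD_of_check (c := ⟨273, ⟨4, 6, 9, 6⟩⟩) (by decide +kernel)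

def tC90_zL1a : PosD ⟨⟨0, 1, 1⟩, ⟨98, 99, 147⟩, ⟨7026, 7770, 30000⟩, ⟨1743, 1821, 1000⟩⟩ (tC90.hZL true) :=
  posD_of_check (c := ⟨298, ⟨4, 7, 10, 7⟩⟩) (by decide +kernel)

def tC90_zL1b : PosD ⟨⟨0, 1, 1⟩, ⟨98, 99, 147⟩, ⟨7026, 7770, 30000⟩, ⟨1821, 1900, 1000⟩⟩ (tC90.hZL true) :=
  posD_of_check (c := ⟨298, ⟨4, 7, 10, 7⟩⟩) (by decide +kernel)

def tC90_zL1 : PosD ⟨⟨0, 1, 1⟩, ⟨98, 99, 147⟩, ⟨7026, 7770, 30000⟩, ⟨1743, 1900, 1000⟩⟩ (tC90.hZL true) :=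
  posD_join₃ tC90_zL1a tC90_zL1b

def tC90_zU1a : PosD ⟨⟨0, 1, 1⟩, ⟨98, 99, 147⟩, ⟨7026, 7770, 30000⟩, ⟨1743, 1821, 1000⟩⟩ (tC90.hZU true) :=
  posD_of_check (c := ⟨298, ⟨4, 7, 10, 7⟩⟩) (by decide +kernel)

def tC90_zU1b : PosD ⟨⟨0, 1, 1⟩, ⟨98, 99, 147⟩, ⟨7026, 7770, 30000⟩, ⟨1821, 1900, 1000⟩⟩ (tC90.hZU true) :=
  posD_of_check (c := ⟨298, ⟨4, 7, 10, 7⟩⟩) (by decide +kernel)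

def tC90_zU1 : PosD ⟨⟨0, 1, 1⟩, ⟨98, 99, 147⟩, ⟨7026, 7770, 30000⟩, ⟨1743, 1900, 1000⟩⟩ (tC90.hZU true) :=
  posD_join₃ tC90_zU1a tC90_zU1b

def tC90_eL1 : PosD ⟨⟨0, 1, 1⟩, ⟨98, 99, 147⟩, ⟨7026, 7770, 30000⟩, ⟨1743, 1900, 1000⟩⟩ (tC90.hEL true) :=
  posD_of_check (c := ⟨369, ⟨5, 10, 12, 8⟩⟩) (by decide +kernel)

def tC90_eH1 : PosD ⟨⟨0, 1, 1⟩, ⟨98, 99, 147⟩, ⟨7026, 7770, 30000⟩, ⟨1743, 1900, 1000⟩⟩ (tC90.hEH true) :=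
  posD_of_check (c := ⟨399, ⟨5, 10, 12, 9⟩⟩) (by decide +kernel)

def tC90_pL1 : PosD ⟨⟨0, 1, 1⟩, ⟨98, 99, 147⟩, ⟨7026, 7770, 30000⟩, ⟨1743, 1900, 1000⟩⟩ (tC90.hPL true) :=
  posD_of_check (c := ⟨396, ⟨5, 10, 12, 9⟩⟩) (by decide +kernel)

def tC90_pU1 : PosD ⟨⟨0, 1, 1⟩, ⟨98, 99, 147⟩, ⟨7026, 7770, 30000⟩, ⟨1743, 1900, 1000⟩⟩ (tC90.hPU true) :=
  posD_of_check (c := ⟨402, ⟨5, 10, 12, 9⟩⟩) (by decide +kernel)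

def tC90_kU1 : PosD ⟨⟨0, 1, 1⟩, ⟨98, 99, 147⟩, ⟨7026, 7770, 30000⟩, ⟨1743, 1900, 1000⟩⟩ (tC90.hKU true) :=
  posD_of_check (c := ⟨399, ⟨5, 10, 12, 9⟩⟩) (by decide +kernel)

def tC90_kL1 : PosD ⟨⟨0, 1, 1⟩, ⟨98, 99, 147⟩, ⟨7026, 7770, 30000⟩, ⟨1743, 1900, 1000⟩⟩ (tC90.hKL true) :=
  posD_of_check (c := ⟨390, ⟨5, 10, 12, 9⟩⟩) (by decide +kernel)

def tC90_wU1 : PosD ⟨⟨0, 1, 1⟩, ⟨98, 99, 147⟩, ⟨7026, 7770, 30000⟩, ⟨1743, 1900, 1000⟩⟩ (tC90.hWU true) :=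
  posD_of_check (c := ⟨424, ⟨5, 12, 13, 9⟩⟩) (by decide +kernel)

def tC90_wL1 : PosD ⟨⟨0, 1, 1⟩, ⟨98, 99, 147⟩, ⟨7026, 7770, 30000⟩, ⟨1743, 1900, 1000⟩⟩ (tC90.hWL true) :=
  posD_of_check (c := ⟨434, ⟨5, 12, 13, 9⟩⟩) (by decide +kernel)

def tC90_nueH : PosD ⟨⟨0, 1, 1⟩, ⟨98, 99, 147⟩, ⟨7026, 7770, 30000⟩, ⟨1743, 1900, 1000⟩⟩ (tC90.eH.ν) :=
  posD_of_check (c := ⟨44, ⟨0, 0, 1, 1⟩⟩) (by decide +kernel)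

def tC90_nupU : PosD ⟨⟨0, 1, 1⟩, ⟨98, 99, 147⟩, ⟨7026, 7770, 30000⟩, ⟨1743, 1900, 1000⟩⟩ (tC90.pU.ν) :=
  posD_of_check (c := ⟨48, ⟨0, 0, 1, 1⟩⟩) (by decide +kernel)

def tC90_nukU : PosD ⟨⟨0, 1, 1⟩, ⟨98, 99, 147⟩, ⟨7026, 7770, 30000⟩, ⟨1743, 1900, 1000⟩⟩ (tC90.kU.ν) :=
  posD_of_check (c := ⟨45, ⟨0, 0, 1, 1⟩⟩) (by decide +kernel)

def tC90_nuwL : PosD ⟨⟨0, 1, 1⟩, ⟨98, 99, 147⟩, ⟨7026, 7770, 30000⟩, ⟨1743, 1900, 1000⟩⟩ (tC90.wL.ν) :=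
  posD_of_check (c := ⟨49, ⟨0, 0, 1, 1⟩⟩) (by decide +kernel)

/-- The bounds of the piece. -/
def tC90_env : tC90.Env ⟨⟨0, 1, 1⟩, ⟨98, 99, 147⟩, ⟨7026, 7770, 30000⟩, ⟨1743, 1900, 1000⟩⟩ :=
  ⟨tC90_p0, Bool.forall_bool.2 ⟨tC90_den0, tC90_den1⟩, tC90_gn, Bool.forall_bool.2 ⟨tC90_ev0, tC90_ev1⟩, Bool.forall_bool.2 ⟨tC90_zL0, tC90_zL1⟩, Bool.forall_bool.2 ⟨tC90_zU0, tC90_zU1⟩, Bool.forall_bool.2 ⟨tC90_eL0, tC90_eL1⟩, ⟨.inr rfl, .inr rfl⟩, Bool.forall_bool.2 ⟨tC90_eH0, tC90_eH1⟩, ⟨.inr rfl, .inl tC90_nueH⟩, Bool.forall_bool.2 ⟨tC90_pL0, tC90_pL1⟩, ⟨.inr rfl, .inr rfl⟩, Bool.forall_bool.2 ⟨tC90_pU0, tC90_pU1⟩, ⟨.inr rfl, .inl tC90_nupU⟩, Bool.forall_bool.2 ⟨tC90_kU0, tC90_kU1⟩, ⟨.inr rfl, .inl tC90_nukU⟩, Bool.forall_bool.2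 ⟨tC90_kL0, tC90_kL1⟩, ⟨.inr rfl, .inr rfl⟩, Bool.forall_bool.2 ⟨tC90_wU0, tC90_wU1⟩, ⟨.inr rfl, .inr rfl⟩, Bool.forall_bool.2 ⟨tC90_wL0, tC90_wL1⟩, ⟨.inr rfl, .inl tC90_nuwL⟩⟩

def tC90_pp : PosD ⟨⟨0, 1, 1⟩, ⟨98, 99, 147⟩, ⟨7026, 7770, 30000⟩, ⟨1743, 1900, 1000⟩⟩ (tC90.xPL) :=
  posD_of_check (c := ⟨100, ⟨1, 1, 3, 3⟩⟩) (by decide +kernel)

def tC90_k2p : PosD ⟨⟨0, 1, 1⟩, ⟨98, 99, 147⟩, ⟨7026, 7770, 30000⟩, ⟨1743, 1900, 1000⟩⟩ (tC90.k2p tC90.xE) :=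
  posD_of_check (c := ⟨76, ⟨1, 1, 2, 2⟩⟩) (by decide +kernel)

def tC90_k2m : PosD ⟨⟨0, 1, 1⟩, ⟨98, 99, 147⟩, ⟨7026, 7770, 30000⟩, ⟨1743, 1900, 1000⟩⟩ (tC90.k2m tC90.xE) :=
  posD_of_check (c := ⟨30, ⟨0, 0, 1, 1⟩⟩) (by decide +kernel)

def tC90_v2p : PosD ⟨⟨0, 1, 1⟩, ⟨98, 99, 147⟩, ⟨7026, 7770, 30000⟩, ⟨1743, 1900, 1000⟩⟩ (tC90.hV2p) :=
  posD_of_check (c := ⟨277, ⟨1, 6, 10, 5⟩⟩) (by decide +kernel)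

def tC90_v2m : PosD ⟨⟨0, 1, 1⟩, ⟨98, 99, 147⟩, ⟨7026, 7770, 30000⟩, ⟨1743, 1900, 1000⟩⟩ (tC90.hV2m) :=
  posD_of_check (c := ⟨244, ⟨0, 5, 10, 4⟩⟩) (by decide +kernel)

def tC90_v3p : PosD ⟨⟨0, 1, 1⟩, ⟨98, 99, 147⟩, ⟨7026, 7770, 30000⟩, ⟨1743, 1900, 1000⟩⟩ (tC90.hV3p) :=
  posD_of_check (c := ⟨261, ⟨1, 6, 9, 5⟩⟩) (by decide +kernel)

def tC90_v3m : PosD ⟨⟨0, 1, 1⟩, ⟨98, 99, 147⟩, ⟨7026, 7770, 30000⟩, ⟨1743, 1900, 1000⟩⟩ (tC90.hV3m) :=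
  posD_of_check (c := ⟨231, ⟨0, 5, 9, 4⟩⟩) (by decide +kernel)

def tC90_kap0 : PosD ⟨⟨0, 1, 1⟩, ⟨98, 99, 147⟩, ⟨7026, 7770, 30000⟩, ⟨1743, 1900, 1000⟩⟩ (tC90.kap false) :=
  posD_of_check (c := ⟨74, ⟨1, 1, 2, 2⟩⟩) (by decide +kernel)

def tC90_c10 : PosD ⟨⟨0, 1, 1⟩, ⟨98, 99, 147⟩, ⟨7026, 7770, 30000⟩, ⟨1743, 1900, 1000⟩⟩ (tC90.hC1 false) :=
  posD_of_check (c := ⟨283, ⟨3, 5, 9, 7⟩⟩) (by decide +kernel)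

def tC90_c1h0a : PosD ⟨⟨0, 1, 1⟩, ⟨98, 99, 147⟩, ⟨7026, 7770, 30000⟩, ⟨1743, 1821, 1000⟩⟩ (tC90.hC1' false) :=
  posD_of_check (c := ⟨283, ⟨3, 5, 9, 7⟩⟩) (by decide +kernel)

def tC90_c1h0ba : PosD ⟨⟨0, 1, 1⟩, ⟨98, 99, 147⟩, ⟨7026, 7770, 30000⟩, ⟨1821, 1860, 1000⟩⟩ (tC90.hC1' false) :=
  posD_of_check (c := ⟨283, ⟨3, 5, 9, 7⟩⟩) (by decide +kernel)

def tC90_c1h0bba : PosD ⟨⟨0, 1, 1⟩, ⟨98, 99, 147⟩, ⟨7026, 7770, 30000⟩, ⟨1860, 1880, 1000⟩⟩ (tC90.hC1' false) :=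
  posD_of_check (c := ⟨283, ⟨3, 5, 9, 7⟩⟩) (by decide +kernel)

def tC90_c1h0bbba : PosD ⟨⟨0, 1, 1⟩, ⟨98, 99, 147⟩, ⟨7026, 7398, 30000⟩, ⟨1880, 1900, 1000⟩⟩ (tC90.hC1' false) :=
  posD_of_check (c := ⟨283, ⟨3, 5, 9, 7⟩⟩) (by decide +kernel)

def tC90_c1h0bbbba : PosD ⟨⟨0, 1, 1⟩, ⟨98, 99, 147⟩, ⟨7398, 7584, 30000⟩, ⟨1880, 1900, 1000⟩⟩ (tC90.hC1' false) :=
  posD_of_check (c := ⟨283, ⟨3, 5, 9, 7⟩⟩) (by decide +kernel)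

def tC90_c1h0bbbbb : PosD ⟨⟨0, 1, 1⟩, ⟨98, 99, 147⟩, ⟨7584, 7770, 30000⟩, ⟨1880, 1900, 1000⟩⟩ (tC90.hC1' false) :=
  posD_of_relax (k₁ := 211) (k₂ := 0) (k₃ := 0) (n := 16) (posD_of_check (c := ⟨283, ⟨3, 5, 9, 7⟩⟩) (by decide +kernel))

def tC90_c1h0bbbb : PosD ⟨⟨0, 1, 1⟩, ⟨98, 99, 147⟩, ⟨7398, 7770, 30000⟩, ⟨1880, 1900, 1000⟩⟩ (tC90.hC1' false) :=
  posD_join₂ tC90_c1h0bbbba tC90_c1h0bbbbb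

def tC90_c1h0bbb : PosD ⟨⟨0, 1, 1⟩, ⟨98, 99, 147⟩, ⟨7026, 7770, 30000⟩, ⟨1880, 1900, 1000⟩⟩ (tC90.hC1' false) :=
  posD_join₂ tC90_c1h0bbba tC90_c1h0bbbb

def tC90_c1h0bb : PosD ⟨⟨0, 1, 1⟩, ⟨98, 99, 147⟩, ⟨7026, 7770, 30000⟩, ⟨1860, 1900, 1000⟩⟩ (tC90.hC1' false) :=
  posD_join₃ tC90_c1h0bba tC90_c1h0bbb

def tC90_c1h0b : PosD ⟨⟨0, 1, 1⟩, ⟨98, 99, 147⟩, ⟨7026, 7770, 30000⟩, ⟨1821, 1900, 1000⟩⟩ (tC90.hC1' false) :=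
  posD_join₃ tC90_c1h0ba tC90_c1h0bb

def tC90_c1h0 : PosD ⟨⟨0, 1, 1⟩, ⟨98, 99, 147⟩, ⟨7026, 7770, 30000⟩, ⟨1743, 1900, 1000⟩⟩ (tC90.hC1' false) :=
  posD_join₃ tC90_c1h0a tC90_c1h0b

def tC90_tg00 : PosD ⟨⟨0, 1, 1⟩, ⟨98, 99, 147⟩, ⟨7026, 7770, 30000⟩, ⟨1743, 1900, 1000⟩⟩ (tC90.hG false (tC90.pEnd false)) :=
  posD_of_check (c := ⟨397, ⟨2, 7, 14, 9⟩⟩) (by decide +kernel)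

def tC90_c2p00 : PosD ⟨⟨0, 1, 1⟩, ⟨98, 99, 147⟩, ⟨7026, 7770, 30000⟩, ⟨1743, 1900, 1000⟩⟩ (tC90.hC2p false (tC90.pEnd false)) :=
  posD_of_check (c := ⟨472, ⟨3, 8, 16, 11⟩⟩) (by decide +kernel)

def tC90_c2m00 : PosD ⟨⟨0, 1, 1⟩, ⟨98, 99, 147⟩, ⟨7026, 7770, 30000⟩, ⟨1743, 1900, 1000⟩⟩ (tC90.hC2m false (tC90.pEnd false)) :=
  posD_of_check (c := ⟨439, ⟨2, 7, 16, 10⟩⟩) (by decide +kernel)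

def tC90_c3p00 : PosD ⟨⟨0, 1, 1⟩, ⟨98, 99, 147⟩, ⟨7026, 7770, 30000⟩, ⟨1743, 1900, 1000⟩⟩ (tC90.hC3p false false) :=
  posD_of_check (c := ⟨457, ⟨3, 8, 15, 11⟩⟩) (by decide +kernel)

def tC90_c3m00 : PosD ⟨⟨0, 1, 1⟩, ⟨98, 99, 147⟩, ⟨7026, 7770, 30000⟩, ⟨1743, 1900, 1000⟩⟩ (tC90.hC3m false false) :=
  posD_of_check (c := ⟨431, ⟨3, 7, 15, 10⟩⟩) (by decide +kernel)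

def tC90_c3ph00 : PosD ⟨⟨0, 1, 1⟩, ⟨98, 99, 147⟩, ⟨7026, 7770, 30000⟩, ⟨1743, 1900, 1000⟩⟩ (tC90.hC3p' false false) :=
  posD_of_check (c := ⟨457, ⟨3, 8, 15, 11⟩⟩) (by decide +kernel)

def tC90_c3mh00 : PosD ⟨⟨0, 1, 1⟩, ⟨98, 99, 147⟩, ⟨7026, 7770, 30000⟩, ⟨1743, 1900, 1000⟩⟩ (tC90.hC3m' false false) :=
  posD_of_check (c := ⟨431, ⟨3, 7, 15, 10⟩⟩) (by decide +kernel)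

def tC90_up00 : PosD ⟨⟨0, 1, 1⟩, ⟨98, 99, 147⟩, ⟨7026, 7770, 30000⟩, ⟨1743, 1900, 1000⟩⟩ (tC90.hUp false false) :=
  posD_of_check (c := ⟨457, ⟨3, 8, 15, 11⟩⟩) (by decide +kernel)

def tC90_um00 : PosD ⟨⟨0, 1, 1⟩, ⟨98, 99, 147⟩, ⟨7026, 7770, 30000⟩, ⟨1743, 1900, 1000⟩⟩ (tC90.hUm false false) :=
  posD_of_check (c := ⟨427, ⟨2, 7, 15, 10⟩⟩) (by decide +kernel)

def tC90_tmg00 : PosD ⟨⟨0, 1, 1⟩, ⟨98, 99, 147⟩, ⟨7026, 7770, 30000⟩, ⟨1743, 1900, 1000⟩⟩ (tC90.hTMG false (tC90.pEnd false)) :=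
  posD_of_check (c := ⟨409, ⟨2, 7, 14, 10⟩⟩) (by decide +kernel)

def tC90_tg01 : PosD ⟨⟨0, 1, 1⟩, ⟨98, 99, 147⟩, ⟨7026, 7770, 30000⟩, ⟨1743, 1900, 1000⟩⟩ (tC90.hG true (tC90.pEnd false)) :=
  posD_of_check (c := ⟨397, ⟨2, 7, 14, 9⟩⟩) (by decide +kernel)

def tC90_c2p01 : PosD ⟨⟨0, 1, 1⟩, ⟨98, 99, 147⟩, ⟨7026, 7770, 30000⟩, ⟨1743, 1900, 1000⟩⟩ (tC90.hC2p true (tC90.pEnd false)) :=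
  posD_of_check (c := ⟨472, ⟨3, 8, 16, 11⟩⟩) (by decide +kernel)

def tC90_c2m01 : PosD ⟨⟨0, 1, 1⟩, ⟨98, 99, 147⟩, ⟨7026, 7770, 30000⟩, ⟨1743, 1900, 1000⟩⟩ (tC90.hC2m true (tC90.pEnd false)) :=
  posD_of_check (c := ⟨439, ⟨2, 7, 16, 10⟩⟩) (by decide +kernel)

def tC90_c3p01 : PosD ⟨⟨0, 1, 1⟩, ⟨98, 99, 147⟩, ⟨7026, 7770, 30000⟩, ⟨1743, 1900, 1000⟩⟩ (tC90.hC3p false true) :=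
  posD_of_check (c := ⟨457, ⟨3, 8, 15, 11⟩⟩) (by decide +kernel)

def tC90_c3m01 : PosD ⟨⟨0, 1, 1⟩, ⟨98, 99, 147⟩, ⟨7026, 7770, 30000⟩, ⟨1743, 1900, 1000⟩⟩ (tC90.hC3m false true) :=
  posD_of_check (c := ⟨431, ⟨3, 7, 15, 10⟩⟩) (by decide +kernel)

def tC90_c3ph01 : PosD ⟨⟨0, 1, 1⟩, ⟨98, 99, 147⟩, ⟨7026, 7770, 30000⟩, ⟨1743, 1900, 1000⟩⟩ (tC90.hC3p' false true) :=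
  posD_of_check (c := ⟨457, ⟨3, 8, 15, 11⟩⟩) (by decide +kernel)

def tC90_c3mh01 : PosD ⟨⟨0, 1, 1⟩, ⟨98, 99, 147⟩, ⟨7026, 7770, 30000⟩, ⟨1743, 1900, 1000⟩⟩ (tC90.hC3m' false true) :=
  posD_of_check (c := ⟨431, ⟨3, 7, 15, 10⟩⟩) (by decide +kernel)

def tC90_up01 : PosD ⟨⟨0, 1, 1⟩, ⟨98, 99, 147⟩, ⟨7026, 7770, 30000⟩, ⟨1743, 1900, 1000⟩⟩ (tC90.hUp false true) :=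
  posD_of_check (c := ⟨457, ⟨3, 8, 15, 11⟩⟩) (by decide +kernel)

def tC90_um01 : PosD ⟨⟨0, 1, 1⟩, ⟨98, 99, 147⟩, ⟨7026, 7770, 30000⟩, ⟨1743, 1900, 1000⟩⟩ (tC90.hUm false true) :=
  posD_of_check (c := ⟨427, ⟨2, 7, 15, 10⟩⟩) (by decide +kernel)

def tC90_tmg01 : PosD ⟨⟨0, 1, 1⟩, ⟨98, 99, 147⟩, ⟨7026, 7770, 30000⟩, ⟨1743, 1900, 1000⟩⟩ (tC90.hTMG true (tC90.pEnd false)) :=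
  posD_of_check (c := ⟨409, ⟨2, 7, 14, 10⟩⟩) (by decide +kernel)

def tC90_kap1 : PosD ⟨⟨0, 1, 1⟩, ⟨98, 99, 147⟩, ⟨7026, 7770, 30000⟩, ⟨1743, 1900, 1000⟩⟩ (tC90.kap true) :=
  posD_of_check (c := ⟨74, ⟨1, 1, 2, 2⟩⟩) (by decide +kernel)

def tC90_c11 : PosD ⟨⟨0, 1, 1⟩, ⟨98, 99, 147⟩, ⟨7026, 7770, 30000⟩, ⟨1743, 1900, 1000⟩⟩ (tC90.hC1 true) :=
  posD_of_check (c := ⟨280, ⟨3, 5, 9, 7⟩⟩) (by decide +kernel)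

def tC90_c1h1 : PosD ⟨⟨0, 1, 1⟩, ⟨98, 99, 147⟩, ⟨7026, 7770, 30000⟩, ⟨1743, 1900, 1000⟩⟩ (tC90.hC1' true) :=
  posD_of_relax (k₁ := 357) (k₂ := 0) (k₃ := 0) (n := 16) (posD_of_check (c := ⟨280, ⟨3, 5, 9, 7⟩⟩) (by decide +kernel))

def tC90_tg10 : PosD ⟨⟨0, 1, 1⟩, ⟨98, 99, 147⟩, ⟨7026, 7770, 30000⟩, ⟨1743, 1900, 1000⟩⟩ (tC90.hG false (tC90.pEnd true)) :=
  posD_of_check (c := ⟨390, ⟨2, 7, 14, 9⟩⟩) (by decide +kernel)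

def tC90_c2p10 : PosD ⟨⟨0, 1, 1⟩, ⟨98, 99, 147⟩, ⟨7026, 7770, 30000⟩, ⟨1743, 1900, 1000⟩⟩ (tC90.hC2p false (tC90.pEnd true)) :=
  posD_of_check (c := ⟨466, ⟨3, 8, 16, 11⟩⟩) (by decide +kernel)

def tC90_c2m10 : PosD ⟨⟨0, 1, 1⟩, ⟨98, 99, 147⟩, ⟨7026, 7770, 30000⟩, ⟨1743, 1900, 1000⟩⟩ (tC90.hC2m false (tC90.pEnd true)) :=
  posD_of_check (c := ⟨433, ⟨2, 7, 16, 10⟩⟩) (by decide +kernel)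

def tC90_c3p10 : PosD ⟨⟨0, 1, 1⟩, ⟨98, 99, 147⟩, ⟨7026, 7770, 30000⟩, ⟨1743, 1900, 1000⟩⟩ (tC90.hC3p true false) :=
  posD_of_check (c := ⟨452, ⟨3, 8, 15, 11⟩⟩) (by decide +kernel)

def tC90_c3m10 : PosD ⟨⟨0, 1, 1⟩, ⟨98, 99, 147⟩, ⟨7026, 7770, 30000⟩, ⟨1743, 1900, 1000⟩⟩ (tC90.hC3m true false) :=
  posD_of_check (c := ⟨427, ⟨3, 7, 15, 10⟩⟩) (by decide +kernel)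

def tC90_c3ph10 : PosD ⟨⟨0, 1, 1⟩, ⟨98, 99, 147⟩, ⟨7026, 7770, 30000⟩, ⟨1743, 1900, 1000⟩⟩ (tC90.hC3p' true false) :=
  posD_of_check (c := ⟨452, ⟨3, 8, 15, 11⟩⟩) (by decide +kernel)

def tC90_c3mh10 : PosD ⟨⟨0, 1, 1⟩, ⟨98, 99, 147⟩, ⟨7026, 7770, 30000⟩, ⟨1743, 1900, 1000⟩⟩ (tC90.hC3m' true false) :=
  posD_of_check (c := ⟨427, ⟨3, 7, 15, 10⟩⟩) (by decide +kernel)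

def tC90_up10 : PosD ⟨⟨0, 1, 1⟩, ⟨98, 99, 147⟩, ⟨7026, 7770, 30000⟩, ⟨1743, 1900, 1000⟩⟩ (tC90.hUp true false) :=
  posD_of_check (c := ⟨451, ⟨3, 8, 15, 11⟩⟩) (by decide +kernel)

def tC90_um10 : PosD ⟨⟨0, 1, 1⟩, ⟨98, 99, 147⟩, ⟨7026, 7770, 30000⟩, ⟨1743, 1900, 1000⟩⟩ (tC90.hUm true false) :=
  posD_of_check (c := ⟨421, ⟨2, 7, 15, 10⟩⟩) (by decide +kernel)

def tC90_tmg10 : PosD ⟨⟨0, 1, 1⟩, ⟨98, 99, 147⟩, ⟨7026, 7770, 30000⟩, ⟨1743, 1900, 1000⟩⟩ (tC90.hTMG false (tC90.pEnd true)) :=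
  posD_of_check (c := ⟨404, ⟨2, 7, 14, 10⟩⟩) (by decide +kernel)

def tC90_tg11 : PosD ⟨⟨0, 1, 1⟩, ⟨98, 99, 147⟩, ⟨7026, 7770, 30000⟩, ⟨1743, 1900, 1000⟩⟩ (tC90.hG true (tC90.pEnd true)) :=
  posD_of_check (c := ⟨390, ⟨2, 7, 14, 9⟩⟩) (by decide +kernel)

def tC90_c2p11 : PosD ⟨⟨0, 1, 1⟩, ⟨98, 99, 147⟩, ⟨7026, 7770, 30000⟩, ⟨1743, 1900, 1000⟩⟩ (tC90.hC2p true (tC90.pEnd true)) :=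
  posD_of_check (c := ⟨466, ⟨3, 8, 16, 11⟩⟩) (by decide +kernel)

def tC90_c2m11 : PosD ⟨⟨0, 1, 1⟩, ⟨98, 99, 147⟩, ⟨7026, 7770, 30000⟩, ⟨1743, 1900, 1000⟩⟩ (tC90.hC2m true (tC90.pEnd true)) :=
  posD_of_check (c := ⟨433, ⟨2, 7, 16, 10⟩⟩) (by decide +kernel)

def tC90_c3p11 : PosD ⟨⟨0, 1, 1⟩, ⟨98, 99, 147⟩, ⟨7026, 7770, 30000⟩, ⟨1743, 1900, 1000⟩⟩ (tC90.hC3p true true) :=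
  posD_of_check (c := ⟨452, ⟨3, 8, 15, 11⟩⟩) (by decide +kernel)

def tC90_c3m11 : PosD ⟨⟨0, 1, 1⟩, ⟨98, 99, 147⟩, ⟨7026, 7770, 30000⟩, ⟨1743, 1900, 1000⟩⟩ (tC90.hC3m true true) :=
  posD_of_check (c := ⟨427, ⟨3, 7, 15, 10⟩⟩) (by decide +kernel)

def tC90_c3ph11 : PosD ⟨⟨0, 1, 1⟩, ⟨98, 99, 147⟩, ⟨7026, 7770, 30000⟩, ⟨1743, 1900, 1000⟩⟩ (tC90.hC3p' true true) :=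
  posD_of_check (c := ⟨452, ⟨3, 8, 15, 11⟩⟩) (by decide +kernel)

def tC90_c3mh11 : PosD ⟨⟨0, 1, 1⟩, ⟨98, 99, 147⟩, ⟨7026, 7770, 30000⟩, ⟨1743, 1900, 1000⟩⟩ (tC90.hC3m' true true) :=
  posD_of_check (c := ⟨427, ⟨3, 7, 15, 10⟩⟩) (by decide +kernel)

def tC90_up11 : PosD ⟨⟨0, 1, 1⟩, ⟨98, 99, 147⟩, ⟨7026, 7770, 30000⟩, ⟨1743, 1900, 1000⟩⟩ (tC90.hUp true true) :=
  posD_of_check (c := ⟨451, ⟨3, 8, 15, 11⟩⟩) (by decide +kernel)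

def tC90_um11 : PosD ⟨⟨0, 1, 1⟩, ⟨98, 99, 147⟩, ⟨7026, 7770, 30000⟩, ⟨1743, 1900, 1000⟩⟩ (tC90.hUm true true) :=
  posD_of_check (c := ⟨421, ⟨2, 7, 15, 10⟩⟩) (by decide +kernel)

def tC90_tmg11 : PosD ⟨⟨0, 1, 1⟩, ⟨98, 99, 147⟩, ⟨7026, 7770, 30000⟩, ⟨1743, 1900, 1000⟩⟩ (tC90.hTMG true (tC90.pEnd true)) :=
  posD_of_check (c := ⟨404, ⟨2, 7, 14, 10⟩⟩) (by decide +kernel)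

/-- The signs of the piece. -/
def tC90_sign : tC90.Sign ⟨⟨0, 1, 1⟩, ⟨98, 99, 147⟩, ⟨7026, 7770, 30000⟩, ⟨1743, 1900, 1000⟩⟩ :=
  ⟨tC90_pp,
    tC90_k2p,
    tC90_k2m,
    Bool.forall_bool.2 ⟨(Bool.forall_bool.2 ⟨tC90_tg00, tC90_tg01⟩), (Bool.forall_bool.2 ⟨tC90_tg10, tC90_tg11⟩)⟩,
    Bool.forall_bool.2 ⟨(Bool.forall_bool.2 ⟨tC90_c2p00, tC90_c2p01⟩), (Bool.forall_bool.2 ⟨tC90_c2p10, tC90_c2p11⟩)⟩,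
    Bool.forall_bool.2 ⟨(Bool.forall_bool.2 ⟨tC90_c2m00, tC90_c2m01⟩), (Bool.forall_bool.2 ⟨tC90_c2m10, tC90_c2m11⟩)⟩,
    Bool.forall_bool.2 ⟨tC90_kap0, tC90_kap1⟩,
    Bool.forall_bool.2 ⟨tC90_c10, tC90_c11⟩,
    Bool.forall_bool.2 ⟨(Bool.forall_bool.2 ⟨tC90_c3p00, tC90_c3p01⟩), (Bool.forall_bool.2 ⟨tC90_c3p10, tC90_c3p11⟩)⟩,
    Bool.forall_bool.2 ⟨(Bool.forall_bool.2 ⟨tC90_c3m00, tC90_c3m01⟩), (Bool.forall_bool.2 ⟨tC90_c3m10, tC90_c3m11⟩)⟩,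
    Bool.forall_bool.2 ⟨(Bool.forall_bool.2 ⟨tC90_tmg00, tC90_tmg01⟩), (Bool.forall_bool.2 ⟨tC90_tmg10, tC90_tmg11⟩)⟩,
    .inr (Bool.forall_bool.2 ⟨⟨tC90_c1h0, Bool.forall_bool.2 ⟨⟨tC90_c3ph00, tC90_c3mh00, tC90_up00, tC90_um00⟩, ⟨tC90_c3ph01, tC90_c3mh01, tC90_up01, tC90_um01⟩⟩⟩, ⟨tC90_c1h1, Bool.forall_bool.2 ⟨⟨tC90_c3ph10, tC90_c3mh10, tC90_up10, tC90_um10⟩, ⟨tC90_c3ph11, tC90_c3mh11, tC90_up11, tC90_um11⟩⟩⟩⟩),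
    tC90_v2p,
    tC90_v2m,
    tC90_v3p,
    tC90_v3m,
    posD_sub (b := ⟨⟨0, 1, 1⟩, ⟨98, 99, 147⟩, ⟨4050, 10000, 30000⟩, ⟨290, 4000, 1000⟩⟩) (by decide +kernel) tC_vG,
    posD_sub (b := ⟨⟨0, 1, 1⟩, ⟨98, 99, 147⟩, ⟨4050, 10000, 30000⟩, ⟨290, 4000, 1000⟩⟩) (by decide +kernel) tC_vMG,
    posD_sub (b := ⟨⟨0, 1, 1⟩, ⟨98, 99, 147⟩, ⟨4050, 10000, 30000⟩, ⟨290, 4000, 1000⟩⟩) (by decide +kernel) tC_ak,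
    posD_sub (b := ⟨⟨0, 1, 1⟩, ⟨98, 99, 147⟩, ⟨4050, 10000, 30000⟩, ⟨290, 4000, 1000⟩⟩) (by decide +kernel) tC_aw,
    posD_sub (b := ⟨⟨0, 1, 1⟩, ⟨98, 99, 147⟩, ⟨4050, 10000, 30000⟩, ⟨290, 4000, 1000⟩⟩) (by decide +kernel) tC_gk,
    posD_sub (b := ⟨⟨0, 1, 1⟩, ⟨98, 99, 147⟩, ⟨4050, 10000, 30000⟩, ⟨290, 4000, 1000⟩⟩) (by decide +kernel) tC_gw,
    posD_sub (b := ⟨⟨0, 1, 1⟩, ⟨98, 99, 147⟩, ⟨4050, 10000, 30000⟩, ⟨290, 4000, 1000⟩⟩) (by decide +kernel) tC_ek,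
    posD_sub (b := ⟨⟨0, 1, 1⟩, ⟨98, 99, 147⟩, ⟨4050, 10000, 30000⟩, ⟨290, 4000, 1000⟩⟩) (by decide +kernel) tC_ew⟩

end Vale.Agent.P100.Calib.Closed.Six.Tail
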