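import Vale.Agent.P100.Calib.SlabSixTailDataC
import Vale.Agent.P100.Calib.SlabSixTailGlobC

/-!
# Checks of some pieces of the certificate

The checks are written as definitions so that they run one after another, which keeps the memory of the
kernel low.
-/

set_option linter.defProp false

namespace Vale.Agent.P100.Calib.Closed.Six.Tail

open BoxPos Large

local instance sixTailCheckstC62Add : Add Ex := ⟨Ex.add⟩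
local instance sixTailCheckstC62Sub : Sub Ex := ⟨Ex.sub⟩
local instance sixTailCheckstC62Mul : Mul Ex := ⟨Ex.mul⟩

def tC91_phx : PosIf ⟨⟨0, 1, 1⟩, ⟨98, 99, 147⟩, ⟨7770, 8514, 30000⟩, ⟨1743, 1900, 1000⟩⟩ (tC91.u₁ - tC91Lo) (phCn (tC91.u₁ + xO * (tC91Lo - tC91.u₁))) :=
  posIf_of_posD (posD_of_check (c := ⟨109, ⟨2, 0, 4, 2⟩⟩) (by decide +kernel))

def tC91_phd : PosD ⟨⟨0, 1, 1⟩, ⟨98, 99, 147⟩, ⟨7770, 8514, 30000⟩, ⟨1743, 1900, 1000⟩⟩ (phCd (tC91.u₁ + xO * (tC91Lo - tC91.u₁))) :=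
  posD_of_check (c := ⟨51, ⟨1, 0, 2, 1⟩⟩) (by decide +kernel)

def tC91_p0 : PosD ⟨⟨0, 1, 1⟩, ⟨98, 99, 147⟩, ⟨7770, 8514, 30000⟩, ⟨1743, 1900, 1000⟩⟩ (tC91.hP0) :=
  posD_of_check (c := ⟨83, ⟨0, 2, 3, 1⟩⟩) (by decide +kernel)

def tC91_gn : PosD ⟨⟨0, 1, 1⟩, ⟨98, 99, 147⟩, ⟨7770, 8514, 30000⟩, ⟨1743, 1900, 1000⟩⟩ (tC91.hGn) :=
  posD_of_check (c := ⟨69, ⟨1, 1, 2, 2⟩⟩) (by decide +kernel)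

def tC91_den0 : PosD ⟨⟨0, 1, 1⟩, ⟨98, 99, 147⟩, ⟨7770, 8514, 30000⟩, ⟨1743, 1900, 1000⟩⟩ (tC91.hDen false) :=
  posD_of_check (c := ⟨51, ⟨1, 0, 2, 1⟩⟩) (by decide +kernel)

def tC91_den1 : PosD ⟨⟨0, 1, 1⟩, ⟨98, 99, 147⟩, ⟨7770, 8514, 30000⟩, ⟨1743, 1900, 1000⟩⟩ (tC91.hDen true) :=
  posD_of_check (c := ⟨180, ⟨3, 4, 6, 4⟩⟩) (by decide +kernel)

def tC91_ev0 : PosD ⟨⟨0, 1, 1⟩, ⟨98, 99, 147⟩, ⟨7770, 8514, 30000⟩, ⟨1743, 1900, 1000⟩⟩ (tC91.hEv false) :=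
  posD_of_check (c := ⟨219, ⟨4, 2, 8, 4⟩⟩) (by decide +kernel)

def tC91_zL0a : PosD ⟨⟨0, 1, 1⟩, ⟨98, 99, 147⟩, ⟨7770, 8514, 30000⟩, ⟨1743, 1821, 1000⟩⟩ (tC91.hZL false) :=
  posD_of_check (c := ⟨221, ⟨4, 3, 8, 4⟩⟩) (by decide +kernel)

def tC91_zL0b : PosD ⟨⟨0, 1, 1⟩, ⟨98, 99, 147⟩, ⟨7770, 8514, 30000⟩, ⟨1821, 1900, 1000⟩⟩ (tC91.hZL false) :=
  posD_of_check (c := ⟨221, ⟨4, 3, 8, 4⟩⟩) (by decide +kernel)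

def tC91_zL0 : PosD ⟨⟨0, 1, 1⟩, ⟨98, 99, 147⟩, ⟨7770, 8514, 30000⟩, ⟨1743, 1900, 1000⟩⟩ (tC91.hZL false) :=
  posD_join₃ tC91_zL0a tC91_zL0b

def tC91_zU0 : PosD ⟨⟨0, 1, 1⟩, ⟨98, 99, 147⟩, ⟨7770, 8514, 30000⟩, ⟨1743, 1900, 1000⟩⟩ (tC91.hZU false) :=
  posD_of_check (c := ⟨221, ⟨4, 3, 8, 4⟩⟩) (by decide +kernel)

def tC91_eL0 : PosD ⟨⟨0, 1, 1⟩, ⟨98, 99, 147⟩, ⟨7770, 8514, 30000⟩, ⟨1743, 1900, 1000⟩⟩ (tC91.hEL false) :=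
  posD_of_check (c := ⟨314, ⟨5, 6, 11, 6⟩⟩) (by decide +kernel)

def tC91_eH0a : PosD ⟨⟨0, 1, 1⟩, ⟨98, 99, 147⟩, ⟨7770, 8142, 30000⟩, ⟨1743, 1900, 1000⟩⟩ (tC91.hEH false) :=
  posD_of_check (c := ⟨349, ⟨5, 6, 11, 7⟩⟩) (by decide +kernel)

def tC91_eH0ba : PosD ⟨⟨0, 1, 1⟩, ⟨98, 99, 147⟩, ⟨8142, 8514, 30000⟩, ⟨1743, 1821, 1000⟩⟩ (tC91.hEH false) :=
  posD_of_check (c := ⟨349, ⟨5, 6, 11, 7⟩⟩) (by decide +kernel)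

def tC91_eH0bb : PosD ⟨⟨0, 1, 1⟩, ⟨98, 99, 147⟩, ⟨8142, 8514, 30000⟩, ⟨1821, 1900, 1000⟩⟩ (tC91.hEH false) :=
  posD_of_relax (k₁ := 1) (k₂ := 0) (k₃ := 0) (n := 16) (posD_of_check (c := ⟨349, ⟨5, 6, 11, 7⟩⟩) (by decide +kernel))

def tC91_eH0b : PosD ⟨⟨0, 1, 1⟩, ⟨98, 99, 147⟩, ⟨8142, 8514, 30000⟩, ⟨1743, 1900, 1000⟩⟩ (tC91.hEH false) :=
  posD_join₃ tC91_eH0ba tC91_eH0bb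

def tC91_eH0 : PosD ⟨⟨0, 1, 1⟩, ⟨98, 99, 147⟩, ⟨7770, 8514, 30000⟩, ⟨1743, 1900, 1000⟩⟩ (tC91.hEH false) :=
  posD_join₂ tC91_eH0a tC91_eH0b

def tC91_pL0 : PosD ⟨⟨0, 1, 1⟩, ⟨98, 99, 147⟩, ⟨7770, 8514, 30000⟩, ⟨1743, 1900, 1000⟩⟩ (tC91.hPL false) :=
  posD_of_check (c := ⟨341, ⟨5, 6, 11, 7⟩⟩) (by decide +kernel)

def tC91_pU0 : PosD ⟨⟨0, 1, 1⟩, ⟨98, 99, 147⟩, ⟨7770, 8514, 30000⟩, ⟨1743, 1900, 1000⟩⟩ (tC91.hPU false) :=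
  posD_of_check (c := ⟨347, ⟨5, 6, 11, 7⟩⟩) (by decide +kernel)

def tC91_kU0a : PosD ⟨⟨0, 1, 1⟩, ⟨98, 99, 147⟩, ⟨7770, 8142, 30000⟩, ⟨1743, 1900, 1000⟩⟩ (tC91.hKU false) :=
  posD_of_check (c := ⟨347, ⟨5, 6, 11, 7⟩⟩) (by decide +kernel)

def tC91_kU0ba : PosD ⟨⟨0, 1, 1⟩, ⟨98, 99, 147⟩, ⟨8142, 8328, 30000⟩, ⟨1743, 1900, 1000⟩⟩ (tC91.hKU false) :=
  posD_of_check (c := ⟨347, ⟨5, 6, 11, 7⟩⟩) (by decide +kernel)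

def tC91_kU0bba : PosD ⟨⟨0, 1, 1⟩, ⟨98, 99, 147⟩, ⟨8328, 8514, 30000⟩, ⟨1743, 1821, 1000⟩⟩ (tC91.hKU false) :=
  posD_of_check (c := ⟨347, ⟨5, 6, 11, 7⟩⟩) (by decide +kernel)

def tC91_kU0bbb : PosD ⟨⟨0, 1, 1⟩, ⟨98, 99, 147⟩, ⟨8328, 8514, 30000⟩, ⟨1821, 1900, 1000⟩⟩ (tC91.hKU false) :=
  posD_of_relax (k₁ := 1) (k₂ := 0) (k₃ := 0) (n := 16) (posD_of_check (c := ⟨347, ⟨5, 6, 11, 7⟩⟩) (by decide +kernel))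

def tC91_kU0bb : PosD ⟨⟨0, 1, 1⟩, ⟨98, 99, 147⟩, ⟨8328, 8514, 30000⟩, ⟨1743, 1900, 1000⟩⟩ (tC91.hKU false) :=
  posD_join₃ tC91_kU0bba tC91_kU0bbb

def tC91_kU0b : PosD ⟨⟨0, 1, 1⟩, ⟨98, 99, 147⟩, ⟨8142, 8514, 30000⟩, ⟨1743, 1900, 1000⟩⟩ (tC91.hKU false) :=
  posD_join₂ tC91_kU0ba tC91_kU0bb

def tC91_kU0 : PosD ⟨⟨0, 1, 1⟩, ⟨98, 99, 147⟩, ⟨7770, 8514, 30000⟩, ⟨1743, 1900, 1000⟩⟩ (tC91.hKU false) :=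
  posD_join₂ tC91_kU0a tC91_kU0b

def tC91_kL0 : PosD ⟨⟨0, 1, 1⟩, ⟨98, 99, 147⟩, ⟨7770, 8514, 30000⟩, ⟨1743, 1900, 1000⟩⟩ (tC91.hKL false) :=
  posD_of_check (c := ⟨337, ⟨5, 6, 11, 7⟩⟩) (by decide +kernel)

def tC91_wU0a : PosD ⟨⟨0, 1, 1⟩, ⟨98, 99, 147⟩, ⟨7770, 8514, 30000⟩, ⟨1743, 1821, 1000⟩⟩ (tC91.hWU false) :=
  posD_of_check (c := ⟨382, ⟨5, 8, 12, 7⟩⟩) (by decide +kernel)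

def tC91_wU0ba : PosD ⟨⟨0, 1, 1⟩, ⟨98, 99, 147⟩, ⟨7770, 8142, 30000⟩, ⟨1821, 1900, 1000⟩⟩ (tC91.hWU false) :=
  posD_of_check (c := ⟨382, ⟨5, 8, 12, 7⟩⟩) (by decide +kernel)

def tC91_wU0bb : PosD ⟨⟨0, 1, 1⟩, ⟨98, 99, 147⟩, ⟨8142, 8514, 30000⟩, ⟨1821, 1900, 1000⟩⟩ (tC91.hWU false) :=
  posD_of_relax (k₁ := 1) (k₂ := 0) (k₃ := 0) (n := 16) (posD_of_check (c := ⟨383, ⟨5, 8, 12, 7⟩⟩) (by decide +kernel))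

def tC91_wU0b : PosD ⟨⟨0, 1, 1⟩, ⟨98, 99, 147⟩, ⟨7770, 8514, 30000⟩, ⟨1821, 1900, 1000⟩⟩ (tC91.hWU false) :=
  posD_join₂ tC91_wU0ba tC91_wU0bb

def tC91_wU0 : PosD ⟨⟨0, 1, 1⟩, ⟨98, 99, 147⟩, ⟨7770, 8514, 30000⟩, ⟨1743, 1900, 1000⟩⟩ (tC91.hWU false) :=
  posD_join₃ tC91_wU0a tC91_wU0b

def tC91_wL0a : PosD ⟨⟨0, 1, 1⟩, ⟨98, 99, 147⟩, ⟨7770, 8142, 30000⟩, ⟨1743, 1900, 1000⟩⟩ (tC91.hWL false) :=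
  posD_of_check (c := ⟨382, ⟨5, 8, 12, 7⟩⟩) (by decide +kernel)

def tC91_wL0baa : PosD ⟨⟨0, 1, 1⟩, ⟨98, 99, 147⟩, ⟨8142, 8328, 30000⟩, ⟨1743, 1821, 1000⟩⟩ (tC91.hWL false) :=
  posD_of_check (c := ⟨382, ⟨5, 8, 12, 7⟩⟩) (by decide +kernel)

def tC91_wL0bab : PosD ⟨⟨0, 1, 1⟩, ⟨98, 99, 147⟩, ⟨8142, 8328, 30000⟩, ⟨1821, 1900, 1000⟩⟩ (tC91.hWL false) :=
  posD_of_relax (k₁ := 1) (k₂ := 0) (k₃ := 0) (n := 16) (posD_of_check (c := ⟨382, ⟨5, 8, 12, 7⟩⟩) (by decide +kernel))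

def tC91_wL0ba : PosD ⟨⟨0, 1, 1⟩, ⟨98, 99, 147⟩, ⟨8142, 8328, 30000⟩, ⟨1743, 1900, 1000⟩⟩ (tC91.hWL false) :=
  posD_join₃ tC91_wL0baa tC91_wL0bab

def tC91_wL0bba : PosD ⟨⟨0, 1, 1⟩, ⟨98, 99, 147⟩, ⟨8328, 8421, 30000⟩, ⟨1743, 1900, 1000⟩⟩ (tC91.hWL false) :=
  posD_of_relax (k₁ := 1) (k₂ := 0) (k₃ := 0) (n := 16) (posD_of_check (c := ⟨382, ⟨5, 8, 12, 7⟩⟩) (by decide +kernel))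

def tC91_wL0bbba : PosD ⟨⟨0, 1, 1⟩, ⟨98, 99, 147⟩, ⟨8421, 8467, 30000⟩, ⟨1743, 1900, 1000⟩⟩ (tC91.hWL false) :=
  posD_of_relax (k₁ := 1) (k₂ := 0) (k₃ := 0) (n := 16) (posD_of_check (c := ⟨382, ⟨5, 8, 12, 7⟩⟩) (by decide +kernel))

def tC91_wL0bbbb : PosD ⟨⟨0, 1, 1⟩, ⟨98, 99, 147⟩, ⟨8467, 8514, 30000⟩, ⟨1743, 1900, 1000⟩⟩ (tC91.hWL false) :=
  posD_of_relax (k₁ := 2) (k₂ := 0) (k₃ := 0) (n := 16) (posD_of_check (c := ⟨382, ⟨5, 8, 12, 7⟩⟩) (by decide +kernel))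

def tC91_wL0bbb : PosD ⟨⟨0, 1, 1⟩, ⟨98, 99, 147⟩, ⟨8421, 8514, 30000⟩, ⟨1743, 1900, 1000⟩⟩ (tC91.hWL false) :=
  posD_join₂ tC91_wL0bbba tC91_wL0bbbb

def tC91_wL0bb : PosD ⟨⟨0, 1, 1⟩, ⟨98, 99, 147⟩, ⟨8328, 8514, 30000⟩, ⟨1743, 1900, 1000⟩⟩ (tC91.hWL false) :=
  posD_join₂ tC91_wL0bba tC91_wL0bbb

def tC91_wL0b : PosD ⟨⟨0, 1, 1⟩, ⟨98, 99, 147⟩, ⟨8142, 8514, 30000⟩, ⟨1743, 1900, 1000⟩⟩ (tC91.hWL false) :=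
  posD_join₂ tC91_wL0ba tC91_wL0bb

def tC91_wL0 : PosD ⟨⟨0, 1, 1⟩, ⟨98, 99, 147⟩, ⟨7770, 8514, 30000⟩, ⟨1743, 1900, 1000⟩⟩ (tC91.hWL false) :=
  posD_join₂ tC91_wL0a tC91_wL0b

def tC91_ev1 : PosD ⟨⟨0, 1, 1⟩, ⟨98, 99, 147⟩, ⟨7770, 8514, 30000⟩, ⟨1743, 1900, 1000⟩⟩ (tC91.hEv true) :=
  posD_of_check (c := ⟨273, ⟨4, 6, 9, 6⟩⟩) (by decide +kernel)

def tC91_zL1 : PosD ⟨⟨0, 1, 1⟩, ⟨98, 99, 147⟩, ⟨7770, 8514, 30000⟩, ⟨1743, 1900, 1000⟩⟩ (tC91.hZL true) :=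
  posD_of_check (c := ⟨297, ⟨4, 7, 10, 7⟩⟩) (by decide +kernel)

def tC91_zU1 : PosD ⟨⟨0, 1, 1⟩, ⟨98, 99, 147⟩, ⟨7770, 8514, 30000⟩, ⟨1743, 1900, 1000⟩⟩ (tC91.hZU true) :=
  posD_of_check (c := ⟨296, ⟨4, 7, 10, 7⟩⟩) (by decide +kernel)

def tC91_eL1 : PosD ⟨⟨0, 1, 1⟩, ⟨98, 99, 147⟩, ⟨7770, 8514, 30000⟩, ⟨1743, 1900, 1000⟩⟩ (tC91.hEL true) :=
  posD_of_check (c := ⟨368, ⟨5, 10, 12, 8⟩⟩) (by decide +kernel)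

def tC91_eH1 : PosD ⟨⟨0, 1, 1⟩, ⟨98, 99, 147⟩, ⟨7770, 8514, 30000⟩, ⟨1743, 1900, 1000⟩⟩ (tC91.hEH true) :=
  posD_of_check (c := ⟨403, ⟨5, 10, 12, 9⟩⟩) (by decide +kernel)

def tC91_pL1 : PosD ⟨⟨0, 1, 1⟩, ⟨98, 99, 147⟩, ⟨7770, 8514, 30000⟩, ⟨1743, 1900, 1000⟩⟩ (tC91.hPL true) :=
  posD_of_check (c := ⟨395, ⟨5, 10, 12, 9⟩⟩) (by decide +kernel)

def tC91_pU1 : PosD ⟨⟨0, 1, 1⟩, ⟨98, 99, 147⟩, ⟨7770, 8514, 30000⟩, ⟨1743, 1900, 1000⟩⟩ (tC91.hPU true) :=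
  posD_of_check (c := ⟨401, ⟨5, 10, 12, 9⟩⟩) (by decide +kernel)

def tC91_kU1 : PosD ⟨⟨0, 1, 1⟩, ⟨98, 99, 147⟩, ⟨7770, 8514, 30000⟩, ⟨1743, 1900, 1000⟩⟩ (tC91.hKU true) :=
  posD_of_check (c := ⟨401, ⟨5, 10, 12, 9⟩⟩) (by decide +kernel)

def tC91_kL1 : PosD ⟨⟨0, 1, 1⟩, ⟨98, 99, 147⟩, ⟨7770, 8514, 30000⟩, ⟨1743, 1900, 1000⟩⟩ (tC91.hKL true) :=
  posD_of_check (c := ⟨391, ⟨5, 10, 12, 9⟩⟩) (by decide +kernel)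

def tC91_wU1 : PosD ⟨⟨0, 1, 1⟩, ⟨98, 99, 147⟩, ⟨7770, 8514, 30000⟩, ⟨1743, 1900, 1000⟩⟩ (tC91.hWU true) :=
  posD_of_check (c := ⟨436, ⟨5, 12, 13, 9⟩⟩) (by decide +kernel)

def tC91_wL1 : PosD ⟨⟨0, 1, 1⟩, ⟨98, 99, 147⟩, ⟨7770, 8514, 30000⟩, ⟨1743, 1900, 1000⟩⟩ (tC91.hWL true) :=
  posD_of_check (c := ⟨436, ⟨5, 12, 13, 9⟩⟩) (by decide +kernel)

def tC91_nueH : PosD ⟨⟨0, 1, 1⟩, ⟨98, 99, 147⟩, ⟨7770, 8514, 30000⟩, ⟨1743, 1900, 1000⟩⟩ (tC91.eH.ν) :=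
  posD_of_check (c := ⟨49, ⟨0, 0, 1, 1⟩⟩) (by decide +kernel)

def tC91_nupU : PosD ⟨⟨0, 1, 1⟩, ⟨98, 99, 147⟩, ⟨7770, 8514, 30000⟩, ⟨1743, 1900, 1000⟩⟩ (tC91.pU.ν) :=
  posD_of_check (c := ⟨45, ⟨0, 0, 1, 1⟩⟩) (by decide +kernel)

def tC91_nukU : PosD ⟨⟨0, 1, 1⟩, ⟨98, 99, 147⟩, ⟨7770, 8514, 30000⟩, ⟨1743, 1900, 1000⟩⟩ (tC91.kU.ν) :=
  posD_of_check (c := ⟨46, ⟨0, 0, 1, 1⟩⟩) (by decide +kernel)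

def tC91_nuwUaa : PosD ⟨⟨0, 1, 1⟩, ⟨98, 99, 147⟩, ⟨7770, 8142, 30000⟩, ⟨1743, 1821, 1000⟩⟩ (tC91.wU.ν) :=
  posD_of_check (c := ⟨52, ⟨0, 0, 1, 1⟩⟩) (by decide +kernel)

def tC91_nuwUab : PosD ⟨⟨0, 1, 1⟩, ⟨98, 99, 147⟩, ⟨8142, 8514, 30000⟩, ⟨1743, 1821, 1000⟩⟩ (tC91.wU.ν) :=
  posD_of_relax (k₁ := 150) (k₂ := 0) (k₃ := 0) (n := 16) (posD_of_check (c := ⟨60, ⟨0, 1, 1, 1⟩⟩) (by decide +kernel))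

def tC91_nuwUa : PosD ⟨⟨0, 1, 1⟩, ⟨98, 99, 147⟩, ⟨7770, 8514, 30000⟩, ⟨1743, 1821, 1000⟩⟩ (tC91.wU.ν) :=
  posD_join₂ tC91_nuwUaa tC91_nuwUab

def tC91_nuwUbaaa : PosD ⟨⟨0, 1, 1⟩, ⟨98, 99, 147⟩, ⟨7770, 8142, 30000⟩, ⟨1821, 1840, 1000⟩⟩ (tC91.wU.ν) :=
  posD_of_check (c := ⟨52, ⟨0, 0, 1, 1⟩⟩) (by decide +kernel)

def tC91_nuwUbaaba : PosD ⟨⟨0, 1, 1⟩, ⟨98, 99, 147⟩, ⟨8142, 8514, 30000⟩, ⟨1821, 1830, 1000⟩⟩ (tC91.wU.ν) :=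
  posD_of_relax (k₁ := 249) (k₂ := 0) (k₃ := 0) (n := 16) (posD_of_check (c := ⟨60, ⟨0, 1, 1, 1⟩⟩) (by decide +kernel))

def tC91_nuwUbaabba : PosD ⟨⟨0, 1, 1⟩, ⟨98, 99, 147⟩, ⟨8142, 8514, 30000⟩, ⟨1830, 1835, 1000⟩⟩ (tC91.wU.ν) :=
  posD_of_relax (k₁ := 305) (k₂ := 0) (k₃ := 0) (n := 16) (posD_of_check (c := ⟨60, ⟨0, 1, 1, 1⟩⟩) (by decide +kernel))

def tC91_nuwUbaabbb : PosD ⟨⟨0, 1, 1⟩, ⟨98, 99, 147⟩, ⟨8142, 8514, 30000⟩, ⟨1835, 1840, 1000⟩⟩ (tC91.wU.ν) :=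
  posD_of_relax (k₁ := 360) (k₂ := 0) (k₃ := 0) (n := 16) (posD_of_check (c := ⟨60, ⟨0, 1, 1, 1⟩⟩) (by decide +kernel))

def tC91_nuwUbaabb : PosD ⟨⟨0, 1, 1⟩, ⟨98, 99, 147⟩, ⟨8142, 8514, 30000⟩, ⟨1830, 1840, 1000⟩⟩ (tC91.wU.ν) :=
  posD_join₃ tC91_nuwUbaabba tC91_nuwUbaabbb

def tC91_nuwUbaab : PosD ⟨⟨0, 1, 1⟩, ⟨98, 99, 147⟩, ⟨8142, 8514, 30000⟩, ⟨1821, 1840, 1000⟩⟩ (tC91.wU.ν) :=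
  posD_join₃ tC91_nuwUbaaba tC91_nuwUbaabb

def tC91_nuwUbaa : PosD ⟨⟨0, 1, 1⟩, ⟨98, 99, 147⟩, ⟨7770, 8514, 30000⟩, ⟨1821, 1840, 1000⟩⟩ (tC91.wU.ν) :=
  posD_join₂ tC91_nuwUbaaa tC91_nuwUbaab

def tC91_nuwUbaba : PosD ⟨⟨0, 1, 1⟩, ⟨98, 99, 147⟩, ⟨7770, 8514, 30000⟩, ⟨1840, 1850, 1000⟩⟩ (tC91.wU.ν) :=
  posD_of_relax (k₁ := 235) (k₂ := 0) (k₃ := 0) (n := 16) (posD_of_check (c := ⟨60, ⟨0, 1, 1, 1⟩⟩) (by decide +kernel))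

def tC91_nuwUbabb : PosD ⟨⟨0, 1, 1⟩, ⟨98, 99, 147⟩, ⟨7770, 8514, 30000⟩, ⟨1850, 1860, 1000⟩⟩ (tC91.wU.ν) :=
  posD_of_relax (k₁ := 290) (k₂ := 0) (k₃ := 0) (n := 16) (posD_of_check (c := ⟨60, ⟨0, 1, 1, 1⟩⟩) (by decide +kernel))

def tC91_nuwUbab : PosD ⟨⟨0, 1, 1⟩, ⟨98, 99, 147⟩, ⟨7770, 8514, 30000⟩, ⟨1840, 1860, 1000⟩⟩ (tC91.wU.ν) :=
  posD_join₃ tC91_nuwUbaba tC91_nuwUbabb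

def tC91_nuwUba : PosD ⟨⟨0, 1, 1⟩, ⟨98, 99, 147⟩, ⟨7770, 8514, 30000⟩, ⟨1821, 1860, 1000⟩⟩ (tC91.wU.ν) :=
  posD_join₃ tC91_nuwUbaa tC91_nuwUbab

def tC91_nuwUbbaa : PosD ⟨⟨0, 1, 1⟩, ⟨98, 99, 147⟩, ⟨7770, 8514, 30000⟩, ⟨1860, 1870, 1000⟩⟩ (tC91.wU.ν) :=
  posD_of_relax (k₁ := 346) (k₂ := 0) (k₃ := 0) (n := 16) (posD_of_check (c := ⟨60, ⟨0, 1, 1, 1⟩⟩) (by decide +kernel))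

def tC91_nuwUbbab : PosD ⟨⟨0, 1, 1⟩, ⟨98, 99, 147⟩, ⟨7770, 8514, 30000⟩, ⟨1870, 1880, 1000⟩⟩ (tC91.wU.ν) :=
  posD_of_relax (k₁ := 401) (k₂ := 0) (k₃ := 0) (n := 16) (posD_of_check (c := ⟨60, ⟨0, 1, 1, 1⟩⟩) (by decide +kernel))

def tC91_nuwUbba : PosD ⟨⟨0, 1, 1⟩, ⟨98, 99, 147⟩, ⟨7770, 8514, 30000⟩, ⟨1860, 1880, 1000⟩⟩ (tC91.wU.ν) :=
  posD_join₃ tC91_nuwUbbaa tC91_nuwUbbab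

def tC91_nuwUbbb : PosD ⟨⟨0, 1, 1⟩, ⟨98, 99, 147⟩, ⟨7770, 8514, 30000⟩, ⟨1880, 1900, 1000⟩⟩ (tC91.wU.ν) :=
  posD_of_relax (k₁ := 511) (k₂ := 0) (k₃ := 0) (n := 16) (posD_of_check (c := ⟨60, ⟨0, 1, 1, 1⟩⟩) (by decide +kernel))

def tC91_nuwUbb : PosD ⟨⟨0, 1, 1⟩, ⟨98, 99, 147⟩, ⟨7770, 8514, 30000⟩, ⟨1860, 1900, 1000⟩⟩ (tC91.wU.ν) :=
  posD_join₃ tC91_nuwUbba tC91_nuwUbbb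

def tC91_nuwUb : PosD ⟨⟨0, 1, 1⟩, ⟨98, 99, 147⟩, ⟨7770, 8514, 30000⟩, ⟨1821, 1900, 1000⟩⟩ (tC91.wU.ν) :=
  posD_join₃ tC91_nuwUba tC91_nuwUbb

def tC91_nuwU : PosD ⟨⟨0, 1, 1⟩, ⟨98, 99, 147⟩, ⟨7770, 8514, 30000⟩, ⟨1743, 1900, 1000⟩⟩ (tC91.wU.ν) :=
  posD_join₃ tC91_nuwUa tC91_nuwUb

def tC91_nuwL : PosD ⟨⟨0, 1, 1⟩, ⟨98, 99, 147⟩, ⟨7770, 8514, 30000⟩, ⟨1743, 1900, 1000⟩⟩ (tC91.wL.ν) :=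
  posD_of_check (c := ⟨51, ⟨0, 0, 1, 1⟩⟩) (by decide +kernel)

/-- The bounds of the piece. -/
def tC91_env : tC91.Env ⟨⟨0, 1, 1⟩, ⟨98, 99, 147⟩, ⟨7770, 8514, 30000⟩, ⟨1743, 1900, 1000⟩⟩ :=
  ⟨tC91_p0, Bool.forall_bool.2 ⟨tC91_den0, tC91_den1⟩, tC91_gn, Bool.forall_bool.2 ⟨tC91_ev0, tC91_ev1⟩, Bool.forall_bool.2 ⟨tC91_zL0, tC91_zL1⟩, Bool.forall_bool.2 ⟨tC91_zU0, tC91_zU1⟩, Bool.forall_bool.2 ⟨tC91_eL0, tC91_eL1⟩, ⟨.inr rfl, .inr rfl⟩, Bool.forall_bool.2 ⟨tC91_eH0, tC91_eH1⟩, ⟨.inr rfl, .inl tC91_nueH⟩, Bool.forall_bool.2 ⟨tC91_pL0, tC91_pL1⟩, ⟨.inr rfl, .inr rfl⟩, Bool.forall_bool.2 ⟨tC91_pU0, tC91_pU1⟩, ⟨.inr rfl, .inl tC91_nupU⟩, Bool.forall_bool.2 ⟨tC91_kU0, tC91_kU1⟩, ⟨.inr rfl, .inl tC91_nukU⟩, Bool.forall_bool.2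 ⟨tC91_kL0, tC91_kL1⟩, ⟨.inr rfl, .inr rfl⟩, Bool.forall_bool.2 ⟨tC91_wU0, tC91_wU1⟩, ⟨.inr rfl, .inl tC91_nuwU⟩, Bool.forall_bool.2 ⟨tC91_wL0, tC91_wL1⟩, ⟨.inr rfl, .inl tC91_nuwL⟩⟩

def tC91_pp : PosD ⟨⟨0, 1, 1⟩, ⟨98, 99, 147⟩, ⟨7770, 8514, 30000⟩, ⟨1743, 1900, 1000⟩⟩ (tC91.xPL) :=
  posD_of_check (c := ⟨97, ⟨1, 1, 3, 3⟩⟩) (by decide +kernel)

def tC91_k2p : PosD ⟨⟨0, 1, 1⟩, ⟨98, 99, 147⟩, ⟨7770, 8514, 30000⟩, ⟨1743, 1900, 1000⟩⟩ (tC91.k2p tC91.xE) :=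
  posD_of_check (c := ⟨70, ⟨1, 1, 2, 2⟩⟩) (by decide +kernel)

def tC91_k2m : PosD ⟨⟨0, 1, 1⟩, ⟨98, 99, 147⟩, ⟨7770, 8514, 30000⟩, ⟨1743, 1900, 1000⟩⟩ (tC91.k2m tC91.xE) :=
  posD_of_check (c := ⟨31, ⟨0, 0, 1, 1⟩⟩) (by decide +kernel)

def tC91_v2p : PosD ⟨⟨0, 1, 1⟩, ⟨98, 99, 147⟩, ⟨7770, 8514, 30000⟩, ⟨1743, 1900, 1000⟩⟩ (tC91.hV2p) :=
  posD_of_check (c := ⟨272, ⟨1, 6, 10, 5⟩⟩) (by decide +kernel)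

def tC91_v2m : PosD ⟨⟨0, 1, 1⟩, ⟨98, 99, 147⟩, ⟨7770, 8514, 30000⟩, ⟨1743, 1900, 1000⟩⟩ (tC91.hV2m) :=
  posD_of_check (c := ⟨245, ⟨0, 5, 10, 4⟩⟩) (by decide +kernel)

def tC91_v3p : PosD ⟨⟨0, 1, 1⟩, ⟨98, 99, 147⟩, ⟨7770, 8514, 30000⟩, ⟨1743, 1900, 1000⟩⟩ (tC91.hV3p) :=
  posD_of_check (c := ⟨257, ⟨1, 6, 9, 5⟩⟩) (by decide +kernel)

def tC91_v3m : PosD ⟨⟨0, 1, 1⟩, ⟨98, 99, 147⟩, ⟨7770, 8514, 30000⟩, ⟨1743, 1900, 1000⟩⟩ (tC91.hV3m) :=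
  posD_of_check (c := ⟨232, ⟨0, 5, 9, 4⟩⟩) (by decide +kernel)

def tC91_kap0 : PosD ⟨⟨0, 1, 1⟩, ⟨98, 99, 147⟩, ⟨7770, 8514, 30000⟩, ⟨1743, 1900, 1000⟩⟩ (tC91.kap false) :=
  posD_of_check (c := ⟨72, ⟨1, 1, 2, 2⟩⟩) (by decide +kernel)

def tC91_c10 : PosD ⟨⟨0, 1, 1⟩, ⟨98, 99, 147⟩, ⟨7770, 8514, 30000⟩, ⟨1743, 1900, 1000⟩⟩ (tC91.hC1 false) :=
  posD_of_check (c := ⟨277, ⟨3, 5, 9, 7⟩⟩) (by decide +kernel)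

def tC91_c1h0 : PosD ⟨⟨0, 1, 1⟩, ⟨98, 99, 147⟩, ⟨7770, 8514, 30000⟩, ⟨1743, 1900, 1000⟩⟩ (tC91.hC1' false) :=
  posD_of_relax (k₁ := 170) (k₂ := 0) (k₃ := 0) (n := 16) (posD_of_check (c := ⟨277, ⟨3, 5, 9, 7⟩⟩) (by decide +kernel))

def tC91_tg00 : PosD ⟨⟨0, 1, 1⟩, ⟨98, 99, 147⟩, ⟨7770, 8514, 30000⟩, ⟨1743, 1900, 1000⟩⟩ (tC91.hG false (tC91.pEnd false)) :=
  posD_of_check (c := ⟨391, ⟨2, 7, 14, 9⟩⟩) (by decide +kernel)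

def tC91_c2p00a : PosD ⟨⟨0, 1, 1⟩, ⟨98, 99, 147⟩, ⟨7770, 8514, 30000⟩, ⟨1743, 1821, 1000⟩⟩ (tC91.hC2p false (tC91.pEnd false)) :=
  posD_of_check (c := ⟨461, ⟨3, 8, 16, 11⟩⟩) (by decide +kernel)

def tC91_c2p00b : PosD ⟨⟨0, 1, 1⟩, ⟨98, 99, 147⟩, ⟨7770, 8514, 30000⟩, ⟨1821, 1900, 1000⟩⟩ (tC91.hC2p false (tC91.pEnd false)) :=
  posD_of_relax (k₁ := 1) (k₂ := 0) (k₃ := 0) (n := 16) (posD_of_check (c := ⟨461, ⟨3, 8, 16, 11⟩⟩) (by decide +kernel))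

def tC91_c2p00 : PosD ⟨⟨0, 1, 1⟩, ⟨98, 99, 147⟩, ⟨7770, 8514, 30000⟩, ⟨1743, 1900, 1000⟩⟩ (tC91.hC2p false (tC91.pEnd false)) :=
  posD_join₃ tC91_c2p00a tC91_c2p00b

def tC91_c2m00 : PosD ⟨⟨0, 1, 1⟩, ⟨98, 99, 147⟩, ⟨7770, 8514, 30000⟩, ⟨1743, 1900, 1000⟩⟩ (tC91.hC2m false (tC91.pEnd false)) :=
  posD_of_check (c := ⟨434, ⟨2, 7, 16, 10⟩⟩) (by decide +kernel)

def tC91_c3p00 : PosD ⟨⟨0, 1, 1⟩, ⟨98, 99, 147⟩, ⟨7770, 8514, 30000⟩, ⟨1743, 1900, 1000⟩⟩ (tC91.hC3p false false) :=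
  posD_of_check (c := ⟨448, ⟨3, 8, 15, 11⟩⟩) (by decide +kernel)

def tC91_c3m00 : PosD ⟨⟨0, 1, 1⟩, ⟨98, 99, 147⟩, ⟨7770, 8514, 30000⟩, ⟨1743, 1900, 1000⟩⟩ (tC91.hC3m false false) :=
  posD_of_check (c := ⟨424, ⟨3, 7, 15, 10⟩⟩) (by decide +kernel)

def tC91_c3ph00 : PosD ⟨⟨0, 1, 1⟩, ⟨98, 99, 147⟩, ⟨7770, 8514, 30000⟩, ⟨1743, 1900, 1000⟩⟩ (tC91.hC3p' false false) :=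
  posD_of_relax (k₁ := 4) (k₂ := 0) (k₃ := 0) (n := 16) (posD_of_check (c := ⟨448, ⟨3, 8, 15, 11⟩⟩) (by decide +kernel))

def tC91_c3mh00 : PosD ⟨⟨0, 1, 1⟩, ⟨98, 99, 147⟩, ⟨7770, 8514, 30000⟩, ⟨1743, 1900, 1000⟩⟩ (tC91.hC3m' false false) :=
  posD_of_check (c := ⟨424, ⟨3, 7, 15, 10⟩⟩) (by decide +kernel)

def tC91_up00 : PosD ⟨⟨0, 1, 1⟩, ⟨98, 99, 147⟩, ⟨7770, 8514, 30000⟩, ⟨1743, 1900, 1000⟩⟩ (tC91.hUp false false) :=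
  posD_of_check (c := ⟨446, ⟨3, 8, 15, 11⟩⟩) (by decide +kernel)

def tC91_um00 : PosD ⟨⟨0, 1, 1⟩, ⟨98, 99, 147⟩, ⟨7770, 8514, 30000⟩, ⟨1743, 1900, 1000⟩⟩ (tC91.hUm false false) :=
  posD_of_check (c := ⟨421, ⟨2, 7, 15, 10⟩⟩) (by decide +kernel)

def tC91_tmg00 : PosD ⟨⟨0, 1, 1⟩, ⟨98, 99, 147⟩, ⟨7770, 8514, 30000⟩, ⟨1743, 1900, 1000⟩⟩ (tC91.hTMG false (tC91.pEnd false)) :=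
  posD_of_check (c := ⟨404, ⟨2, 7, 14, 10⟩⟩) (by decide +kernel)

def tC91_tg01 : PosD ⟨⟨0, 1, 1⟩, ⟨98, 99, 147⟩, ⟨7770, 8514, 30000⟩, ⟨1743, 1900, 1000⟩⟩ (tC91.hG true (tC91.pEnd false)) :=
  posD_of_check (c := ⟨391, ⟨2, 7, 14, 9⟩⟩) (by decide +kernel)

def tC91_c2p01 : PosD ⟨⟨0, 1, 1⟩, ⟨98, 99, 147⟩, ⟨7770, 8514, 30000⟩, ⟨1743, 1900, 1000⟩⟩ (tC91.hC2p true (tC91.pEnd false)) :=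
  posD_of_check (c := ⟨461, ⟨3, 8, 16, 11⟩⟩) (by decide +kernel)

def tC91_c2m01 : PosD ⟨⟨0, 1, 1⟩, ⟨98, 99, 147⟩, ⟨7770, 8514, 30000⟩, ⟨1743, 1900, 1000⟩⟩ (tC91.hC2m true (tC91.pEnd false)) :=
  posD_of_check (c := ⟨434, ⟨2, 7, 16, 10⟩⟩) (by decide +kernel)

def tC91_c3p01 : PosD ⟨⟨0, 1, 1⟩, ⟨98, 99, 147⟩, ⟨7770, 8514, 30000⟩, ⟨1743, 1900, 1000⟩⟩ (tC91.hC3p false true) :=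
  posD_of_check (c := ⟨448, ⟨3, 8, 15, 11⟩⟩) (by decide +kernel)

def tC91_c3m01 : PosD ⟨⟨0, 1, 1⟩, ⟨98, 99, 147⟩, ⟨7770, 8514, 30000⟩, ⟨1743, 1900, 1000⟩⟩ (tC91.hC3m false true) :=
  posD_of_check (c := ⟨424, ⟨3, 7, 15, 10⟩⟩) (by decide +kernel)

def tC91_c3ph01 : PosD ⟨⟨0, 1, 1⟩, ⟨98, 99, 147⟩, ⟨7770, 8514, 30000⟩, ⟨1743, 1900, 1000⟩⟩ (tC91.hC3p' false true) :=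
  posD_of_check (c := ⟨448, ⟨3, 8, 15, 11⟩⟩) (by decide +kernel)

def tC91_c3mh01 : PosD ⟨⟨0, 1, 1⟩, ⟨98, 99, 147⟩, ⟨7770, 8514, 30000⟩, ⟨1743, 1900, 1000⟩⟩ (tC91.hC3m' false true) :=
  posD_of_check (c := ⟨424, ⟨3, 7, 15, 10⟩⟩) (by decide +kernel)

def tC91_up01 : PosD ⟨⟨0, 1, 1⟩, ⟨98, 99, 147⟩, ⟨7770, 8514, 30000⟩, ⟨1743, 1900, 1000⟩⟩ (tC91.hUp false true) :=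
  posD_of_check (c := ⟨446, ⟨3, 8, 15, 11⟩⟩) (by decide +kernel)

def tC91_um01 : PosD ⟨⟨0, 1, 1⟩, ⟨98, 99, 147⟩, ⟨7770, 8514, 30000⟩, ⟨1743, 1900, 1000⟩⟩ (tC91.hUm false true) :=
  posD_of_check (c := ⟨421, ⟨2, 7, 15, 10⟩⟩) (by decide +kernel)

def tC91_tmg01 : PosD ⟨⟨0, 1, 1⟩, ⟨98, 99, 147⟩, ⟨7770, 8514, 30000⟩, ⟨1743, 1900, 1000⟩⟩ (tC91.hTMG true (tC91.pEnd false)) :=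
  posD_of_check (c := ⟨404, ⟨2, 7, 14, 10⟩⟩) (by decide +kernel)

def tC91_kap1 : PosD ⟨⟨0, 1, 1⟩, ⟨98, 99, 147⟩, ⟨7770, 8514, 30000⟩, ⟨1743, 1900, 1000⟩⟩ (tC91.kap true) :=
  posD_of_check (c := ⟨72, ⟨1, 1, 2, 2⟩⟩) (by decide +kernel)

def tC91_c11 : PosD ⟨⟨0, 1, 1⟩, ⟨98, 99, 147⟩, ⟨7770, 8514, 30000⟩, ⟨1743, 1900, 1000⟩⟩ (tC91.hC1 true) :=
  posD_of_check (c := ⟨274, ⟨3, 5, 9, 7⟩⟩) (by decide +kernel)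

def tC91_c1h1 : PosD ⟨⟨0, 1, 1⟩, ⟨98, 99, 147⟩, ⟨7770, 8514, 30000⟩, ⟨1743, 1900, 1000⟩⟩ (tC91.hC1' true) :=
  posD_of_relax (k₁ := 392) (k₂ := 0) (k₃ := 0) (n := 16) (posD_of_check (c := ⟨274, ⟨3, 5, 9, 7⟩⟩) (by decide +kernel))

def tC91_tg10 : PosD ⟨⟨0, 1, 1⟩, ⟨98, 99, 147⟩, ⟨7770, 8514, 30000⟩, ⟨1743, 1900, 1000⟩⟩ (tC91.hG false (tC91.pEnd true)) :=
  posD_of_check (c := ⟨387, ⟨2, 7, 14, 9⟩⟩) (by decide +kernel)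

def tC91_c2p10a : PosD ⟨⟨0, 1, 1⟩, ⟨98, 99, 147⟩, ⟨7770, 8514, 30000⟩, ⟨1743, 1821, 1000⟩⟩ (tC91.hC2p false (tC91.pEnd true)) :=
  posD_of_check (c := ⟨457, ⟨3, 8, 16, 11⟩⟩) (by decide +kernel)

def tC91_c2p10b : PosD ⟨⟨0, 1, 1⟩, ⟨98, 99, 147⟩, ⟨7770, 8514, 30000⟩, ⟨1821, 1900, 1000⟩⟩ (tC91.hC2p false (tC91.pEnd true)) :=
  posD_of_relax (k₁ := 1) (k₂ := 0) (k₃ := 0) (n := 16) (posD_of_check (c := ⟨457, ⟨3, 8, 16, 11⟩⟩) (by decide +kernel))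

def tC91_c2p10 : PosD ⟨⟨0, 1, 1⟩, ⟨98, 99, 147⟩, ⟨7770, 8514, 30000⟩, ⟨1743, 1900, 1000⟩⟩ (tC91.hC2p false (tC91.pEnd true)) :=
  posD_join₃ tC91_c2p10a tC91_c2p10b

def tC91_c2m10 : PosD ⟨⟨0, 1, 1⟩, ⟨98, 99, 147⟩, ⟨7770, 8514, 30000⟩, ⟨1743, 1900, 1000⟩⟩ (tC91.hC2m false (tC91.pEnd true)) :=
  posD_of_check (c := ⟨430, ⟨2, 7, 16, 10⟩⟩) (by decide +kernel)

def tC91_c3p10 : PosD ⟨⟨0, 1, 1⟩, ⟨98, 99, 147⟩, ⟨7770, 8514, 30000⟩, ⟨1743, 1900, 1000⟩⟩ (tC91.hC3p true false) :=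
  posD_of_check (c := ⟨445, ⟨3, 8, 15, 11⟩⟩) (by decide +kernel)

def tC91_c3m10 : PosD ⟨⟨0, 1, 1⟩, ⟨98, 99, 147⟩, ⟨7770, 8514, 30000⟩, ⟨1743, 1900, 1000⟩⟩ (tC91.hC3m true false) :=
  posD_of_check (c := ⟨422, ⟨3, 7, 15, 10⟩⟩) (by decide +kernel)

def tC91_c3ph10 : PosD ⟨⟨0, 1, 1⟩, ⟨98, 99, 147⟩, ⟨7770, 8514, 30000⟩, ⟨1743, 1900, 1000⟩⟩ (tC91.hC3p' true false) :=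
  posD_of_relax (k₁ := 5) (k₂ := 0) (k₃ := 0) (n := 16) (posD_of_check (c := ⟨445, ⟨3, 8, 15, 11⟩⟩) (by decide +kernel))

def tC91_c3mh10 : PosD ⟨⟨0, 1, 1⟩, ⟨98, 99, 147⟩, ⟨7770, 8514, 30000⟩, ⟨1743, 1900, 1000⟩⟩ (tC91.hC3m' true false) :=
  posD_of_check (c := ⟨422, ⟨3, 7, 15, 10⟩⟩) (by decide +kernel)

def tC91_up10 : PosD ⟨⟨0, 1, 1⟩, ⟨98, 99, 147⟩, ⟨7770, 8514, 30000⟩, ⟨1743, 1900, 1000⟩⟩ (tC91.hUp true false) :=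
  posD_of_check (c := ⟨443, ⟨3, 8, 15, 11⟩⟩) (by decide +kernel)

def tC91_um10 : PosD ⟨⟨0, 1, 1⟩, ⟨98, 99, 147⟩, ⟨7770, 8514, 30000⟩, ⟨1743, 1900, 1000⟩⟩ (tC91.hUm true false) :=
  posD_of_check (c := ⟨418, ⟨2, 7, 15, 10⟩⟩) (by decide +kernel)

def tC91_tmg10 : PosD ⟨⟨0, 1, 1⟩, ⟨98, 99, 147⟩, ⟨7770, 8514, 30000⟩, ⟨1743, 1900, 1000⟩⟩ (tC91.hTMG false (tC91.pEnd true)) :=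
  posD_of_check (c := ⟨402, ⟨2, 7, 14, 10⟩⟩) (by decide +kernel)

def tC91_tg11 : PosD ⟨⟨0, 1, 1⟩, ⟨98, 99, 147⟩, ⟨7770, 8514, 30000⟩, ⟨1743, 1900, 1000⟩⟩ (tC91.hG true (tC91.pEnd true)) :=
  posD_of_check (c := ⟨386, ⟨2, 7, 14, 9⟩⟩) (by decide +kernel)

def tC91_c2p11 : PosD ⟨⟨0, 1, 1⟩, ⟨98, 99, 147⟩, ⟨7770, 8514, 30000⟩, ⟨1743, 1900, 1000⟩⟩ (tC91.hC2p true (tC91.pEnd true)) :=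
  posD_of_check (c := ⟨457, ⟨3, 8, 16, 11⟩⟩) (by decide +kernel)

def tC91_c2m11 : PosD ⟨⟨0, 1, 1⟩, ⟨98, 99, 147⟩, ⟨7770, 8514, 30000⟩, ⟨1743, 1900, 1000⟩⟩ (tC91.hC2m true (tC91.pEnd true)) :=
  posD_of_check (c := ⟨430, ⟨2, 7, 16, 10⟩⟩) (by decide +kernel)

def tC91_c3p11 : PosD ⟨⟨0, 1, 1⟩, ⟨98, 99, 147⟩, ⟨7770, 8514, 30000⟩, ⟨1743, 1900, 1000⟩⟩ (tC91.hC3p true true) :=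
  posD_of_check (c := ⟨445, ⟨3, 8, 15, 11⟩⟩) (by decide +kernel)

def tC91_c3m11 : PosD ⟨⟨0, 1, 1⟩, ⟨98, 99, 147⟩, ⟨7770, 8514, 30000⟩, ⟨1743, 1900, 1000⟩⟩ (tC91.hC3m true true) :=
  posD_of_check (c := ⟨422, ⟨3, 7, 15, 10⟩⟩) (by decide +kernel)

def tC91_c3ph11 : PosD ⟨⟨0, 1, 1⟩, ⟨98, 99, 147⟩, ⟨7770, 8514, 30000⟩, ⟨1743, 1900, 1000⟩⟩ (tC91.hC3p' true true) :=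
  posD_of_check (c := ⟨445, ⟨3, 8, 15, 11⟩⟩) (by decide +kernel)

def tC91_c3mh11 : PosD ⟨⟨0, 1, 1⟩, ⟨98, 99, 147⟩, ⟨7770, 8514, 30000⟩, ⟨1743, 1900, 1000⟩⟩ (tC91.hC3m' true true) :=
  posD_of_check (c := ⟨422, ⟨3, 7, 15, 10⟩⟩) (by decide +kernel)

def tC91_up11 : PosD ⟨⟨0, 1, 1⟩, ⟨98, 99, 147⟩, ⟨7770, 8514, 30000⟩, ⟨1743, 1900, 1000⟩⟩ (tC91.hUp true true) :=
  posD_of_check (c := ⟨443, ⟨3, 8, 15, 11⟩⟩) (by decide +kernel)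

def tC91_um11 : PosD ⟨⟨0, 1, 1⟩, ⟨98, 99, 147⟩, ⟨7770, 8514, 30000⟩, ⟨1743, 1900, 1000⟩⟩ (tC91.hUm true true) :=
  posD_of_check (c := ⟨418, ⟨2, 7, 15, 10⟩⟩) (by decide +kernel)

def tC91_tmg11 : PosD ⟨⟨0, 1, 1⟩, ⟨98, 99, 147⟩, ⟨7770, 8514, 30000⟩, ⟨1743, 1900, 1000⟩⟩ (tC91.hTMG true (tC91.pEnd true)) :=
  posD_of_check (c := ⟨402, ⟨2, 7, 14, 10⟩⟩) (by decide +kernel)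

/-- The signs of the piece. -/
def tC91_sign : tC91.Sign ⟨⟨0, 1, 1⟩, ⟨98, 99, 147⟩, ⟨7770, 8514, 30000⟩, ⟨1743, 1900, 1000⟩⟩ :=
  ⟨tC91_pp,
    tC91_k2p,
    tC91_k2m,
    Bool.forall_bool.2 ⟨(Bool.forall_bool.2 ⟨tC91_tg00, tC91_tg01⟩), (Bool.forall_bool.2 ⟨tC91_tg10, tC91_tg11⟩)⟩,
    Bool.forall_bool.2 ⟨(Bool.forall_bool.2 ⟨tC91_c2p00, tC91_c2p01⟩), (Bool.forall_bool.2 ⟨tC91_c2p10, tC91_c2p11⟩)⟩,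
    Bool.forall_bool.2 ⟨(Bool.forall_bool.2 ⟨tC91_c2m00, tC91_c2m01⟩), (Bool.forall_bool.2 ⟨tC91_c2m10, tC91_c2m11⟩)⟩,
    Bool.forall_bool.2 ⟨tC91_kap0, tC91_kap1⟩,
    Bool.forall_bool.2 ⟨tC91_c10, tC91_c11⟩,
    Bool.forall_bool.2 ⟨(Bool.forall_bool.2 ⟨tC91_c3p00, tC91_c3p01⟩), (Bool.forall_bool.2 ⟨tC91_c3p10, tC91_c3p11⟩)⟩,
    Bool.forall_bool.2 ⟨(Bool.forall_bool.2 ⟨tC91_c3m00, tC91_c3m01⟩), (Bool.forall_bool.2 ⟨tC91_c3m10, tC91_c3m11⟩)⟩,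
    Bool.forall_bool.2 ⟨(Bool.forall_bool.2 ⟨tC91_tmg00, tC91_tmg01⟩), (Bool.forall_bool.2 ⟨tC91_tmg10, tC91_tmg11⟩)⟩,
    .inr (Bool.forall_bool.2 ⟨⟨tC91_c1h0, Bool.forall_bool.2 ⟨⟨tC91_c3ph00, tC91_c3mh00, tC91_up00, tC91_um00⟩, ⟨tC91_c3ph01, tC91_c3mh01, tC91_up01, tC91_um01⟩⟩⟩, ⟨tC91_c1h1, Bool.forall_bool.2 ⟨⟨tC91_c3ph10, tC91_c3mh10, tC91_up10, tC91_um10⟩, ⟨tC91_c3ph11, tC91_c3mh11, tC91_up11, tC91_um11⟩⟩⟩⟩),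
    tC91_v2p,
    tC91_v2m,
    tC91_v3p,
    tC91_v3m,
    posD_sub (b := ⟨⟨0, 1, 1⟩, ⟨98, 99, 147⟩, ⟨4050, 10000, 30000⟩, ⟨290, 4000, 1000⟩⟩) (by decide +kernel) tC_vG,
    posD_sub (b := ⟨⟨0, 1, 1⟩, ⟨98, 99, 147⟩, ⟨4050, 10000, 30000⟩, ⟨290, 4000, 1000⟩⟩) (by decide +kernel) tC_vMG,
    posD_sub (b := ⟨⟨0, 1, 1⟩, ⟨98, 99, 147⟩, ⟨4050, 10000, 30000⟩, ⟨290, 4000, 1000⟩⟩) (by decide +kernel) tC_ak,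
    posD_sub (b := ⟨⟨0, 1, 1⟩, ⟨98, 99, 147⟩, ⟨4050, 10000, 30000⟩, ⟨290, 4000, 1000⟩⟩) (by decide +kernel) tC_aw,
    posD_sub (b := ⟨⟨0, 1, 1⟩, ⟨98, 99, 147⟩, ⟨4050, 10000, 30000⟩, ⟨290, 4000, 1000⟩⟩) (by decide +kernel) tC_gk,
    posD_sub (b := ⟨⟨0, 1, 1⟩, ⟨98, 99, 147⟩, ⟨4050, 10000, 30000⟩, ⟨290, 4000, 1000⟩⟩) (by decide +kernel) tC_gw,
    posD_sub (b := ⟨⟨0, 1, 1⟩, ⟨98, 99, 147⟩, ⟨4050, 10000, 30000⟩, ⟨290, 4000, 1000⟩⟩) (by decide +kernel) tC_ek,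
    posD_sub (b := ⟨⟨0, 1, 1⟩, ⟨98, 99, 147⟩, ⟨4050, 10000, 30000⟩, ⟨290, 4000, 1000⟩⟩) (by decide +kernel) tC_ew⟩

def tC92_phx : PosD ⟨⟨0, 1, 1⟩, ⟨98, 99, 147⟩, ⟨8514, 8616, 30000⟩, ⟨1743, 1763, 1000⟩⟩ (phCn (tC92Hi + xO * (tC92Lo - tC92Hi))) :=
  posD_of_check (c := ⟨73, ⟨2, 0, 2, 1⟩⟩) (by decide +kernel)

def tC92_phd : PosD ⟨⟨0, 1, 1⟩, ⟨98, 99, 147⟩, ⟨8514, 8616, 30000⟩, ⟨1743, 1763, 1000⟩⟩ (phCd (tC92Hi + xO * (tC92Lo - tC92Hi))) :=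
  posD_of_check (c := ⟨50, ⟨1, 0, 2, 0⟩⟩) (by decide +kernel)

def tC93_phx : PosD ⟨⟨0, 1, 1⟩, ⟨98, 99, 147⟩, ⟨4050, 10000, 30000⟩, ⟨1500, 4000, 1000⟩⟩ (phCn (tC93Hi + xO * (tC93Lo - tC93Hi))) :=
  posD_of_check (c := ⟨65, ⟨2, 0, 2, 1⟩⟩) (by decide +kernel)

def tC93_phd : PosD ⟨⟨0, 1, 1⟩, ⟨98, 99, 147⟩, ⟨4050, 10000, 30000⟩, ⟨1500, 4000, 1000⟩⟩ (phCd (tC93Hi + xO * (tC93Lo - tC93Hi))) :=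
  posD_of_check (c := ⟨50, ⟨1, 0, 2, 0⟩⟩) (by decide +kernel)

end Vale.Agent.P100.Calib.Closed.Six.Tail
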