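import Vale.Agent.P100.Calib.SlabSixTailDataC
import Vale.Agent.P100.Calib.SlabSixTailGlobC

/-!
# Checks of some pieces of the certificate

The checks are written as definitions so that they run one after another, which keeps the memory of the
kernel low.
-/

set_option linter.defProp false

namespace Vale.Agent.P100.Calib.Closed.Six.Tail

open BoxPos Large

local instance sixTailCheckstC63Add : Add Ex := ⟨Ex.add⟩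
local instance sixTailCheckstC63Sub : Sub Ex := ⟨Ex.sub⟩
local instance sixTailCheckstC63Mul : Mul Ex := ⟨Ex.mul⟩

def tC94_phx : PosIf ⟨⟨0, 1, 1⟩, ⟨98, 99, 147⟩, ⟨7026, 7905, 30000⟩, ⟨1900, 2136, 1000⟩⟩ (tC94.u₁ - tC94Lo) (phCn (tC94.u₁ + xO * (tC94Lo - tC94.u₁))) :=
  posIf_of_posD (posD_of_check (c := ⟨109, ⟨2, 0, 4, 2⟩⟩) (by decide +kernel))

def tC94_phd : PosD ⟨⟨0, 1, 1⟩, ⟨98, 99, 147⟩, ⟨7026, 7905, 30000⟩, ⟨1900, 2136, 1000⟩⟩ (phCd (tC94.u₁ + xO * (tC94Lo - tC94.u₁))) :=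
  posD_of_check (c := ⟨51, ⟨1, 0, 2, 1⟩⟩) (by decide +kernel)

def tC94_p0 : PosD ⟨⟨0, 1, 1⟩, ⟨98, 99, 147⟩, ⟨7026, 7905, 30000⟩, ⟨1900, 2136, 1000⟩⟩ (tC94.hP0) :=
  posD_of_check (c := ⟨83, ⟨0, 2, 3, 1⟩⟩) (by decide +kernel)

def tC94_gn : PosD ⟨⟨0, 1, 1⟩, ⟨98, 99, 147⟩, ⟨7026, 7905, 30000⟩, ⟨1900, 2136, 1000⟩⟩ (tC94.hGn) :=
  posD_of_check (c := ⟨69, ⟨1, 1, 2, 2⟩⟩) (by decide +kernel)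

def tC94_den0 : PosD ⟨⟨0, 1, 1⟩, ⟨98, 99, 147⟩, ⟨7026, 7905, 30000⟩, ⟨1900, 2136, 1000⟩⟩ (tC94.hDen false) :=
  posD_of_check (c := ⟨51, ⟨1, 0, 2, 1⟩⟩) (by decide +kernel)

def tC94_den1 : PosD ⟨⟨0, 1, 1⟩, ⟨98, 99, 147⟩, ⟨7026, 7905, 30000⟩, ⟨1900, 2136, 1000⟩⟩ (tC94.hDen true) :=
  posD_of_check (c := ⟨51, ⟨1, 0, 2, 1⟩⟩) (by decide +kernel)

def tC94_ev0 : PosD ⟨⟨0, 1, 1⟩, ⟨98, 99, 147⟩, ⟨7026, 7905, 30000⟩, ⟨1900, 2136, 1000⟩⟩ (tC94.hEv false) :=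
  posD_of_check (c := ⟨219, ⟨4, 2, 8, 4⟩⟩) (by decide +kernel)

def tC94_zL0 : PosD ⟨⟨0, 1, 1⟩, ⟨98, 99, 147⟩, ⟨7026, 7905, 30000⟩, ⟨1900, 2136, 1000⟩⟩ (tC94.hZL false) :=
  posD_of_check (c := ⟨221, ⟨4, 3, 8, 4⟩⟩) (by decide +kernel)

def tC94_zU0 : PosD ⟨⟨0, 1, 1⟩, ⟨98, 99, 147⟩, ⟨7026, 7905, 30000⟩, ⟨1900, 2136, 1000⟩⟩ (tC94.hZU false) :=
  posD_of_check (c := ⟨221, ⟨4, 3, 8, 4⟩⟩) (by decide +kernel)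

def tC94_eL0 : PosD ⟨⟨0, 1, 1⟩, ⟨98, 99, 147⟩, ⟨7026, 7905, 30000⟩, ⟨1900, 2136, 1000⟩⟩ (tC94.hEL false) :=
  posD_of_check (c := ⟨352, ⟨5, 6, 11, 7⟩⟩) (by decide +kernel)

def tC94_eH0 : PosD ⟨⟨0, 1, 1⟩, ⟨98, 99, 147⟩, ⟨7026, 7905, 30000⟩, ⟨1900, 2136, 1000⟩⟩ (tC94.hEH false) :=
  posD_of_check (c := ⟨324, ⟨5, 6, 11, 6⟩⟩) (by decide +kernel)

def tC94_pL0 : PosD ⟨⟨0, 1, 1⟩, ⟨98, 99, 147⟩, ⟨7026, 7905, 30000⟩, ⟨1900, 2136, 1000⟩⟩ (tC94.hPL false) :=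
  posD_of_check (c := ⟨353, ⟨5, 6, 11, 7⟩⟩) (by decide +kernel)

def tC94_pU0 : PosD ⟨⟨0, 1, 1⟩, ⟨98, 99, 147⟩, ⟨7026, 7905, 30000⟩, ⟨1900, 2136, 1000⟩⟩ (tC94.hPU false) :=
  posD_of_check (c := ⟨356, ⟨5, 6, 11, 7⟩⟩) (by decide +kernel)

def tC94_kU0 : PosD ⟨⟨0, 1, 1⟩, ⟨98, 99, 147⟩, ⟨7026, 7905, 30000⟩, ⟨1900, 2136, 1000⟩⟩ (tC94.hKU false) :=
  posD_of_check (c := ⟨353, ⟨5, 6, 11, 7⟩⟩) (by decide +kernel)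

def tC94_kL0 : PosD ⟨⟨0, 1, 1⟩, ⟨98, 99, 147⟩, ⟨7026, 7905, 30000⟩, ⟨1900, 2136, 1000⟩⟩ (tC94.hKL false) :=
  posD_of_check (c := ⟨356, ⟨5, 6, 11, 7⟩⟩) (by decide +kernel)

def tC94_wU0aa : PosD ⟨⟨0, 1, 1⟩, ⟨98, 99, 147⟩, ⟨7026, 7245, 30000⟩, ⟨1900, 2136, 1000⟩⟩ (tC94.hWU false) :=
  posD_of_check (c := ⟨383, ⟨5, 8, 12, 7⟩⟩) (by decide +kernel)

def tC94_wU0ab : PosD ⟨⟨0, 1, 1⟩, ⟨98, 99, 147⟩, ⟨7245, 7465, 30000⟩, ⟨1900, 2136, 1000⟩⟩ (tC94.hWU false) :=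
  posD_of_check (c := ⟨383, ⟨5, 8, 12, 7⟩⟩) (by decide +kernel)

def tC94_wU0a : PosD ⟨⟨0, 1, 1⟩, ⟨98, 99, 147⟩, ⟨7026, 7465, 30000⟩, ⟨1900, 2136, 1000⟩⟩ (tC94.hWU false) :=
  posD_join₂ tC94_wU0aa tC94_wU0ab

def tC94_wU0b : PosD ⟨⟨0, 1, 1⟩, ⟨98, 99, 147⟩, ⟨7465, 7905, 30000⟩, ⟨1900, 2136, 1000⟩⟩ (tC94.hWU false) :=
  posD_of_check (c := ⟨383, ⟨5, 8, 12, 7⟩⟩) (by decide +kernel)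

def tC94_wU0 : PosD ⟨⟨0, 1, 1⟩, ⟨98, 99, 147⟩, ⟨7026, 7905, 30000⟩, ⟨1900, 2136, 1000⟩⟩ (tC94.hWU false) :=
  posD_join₂ tC94_wU0a tC94_wU0b

def tC94_wL0 : PosD ⟨⟨0, 1, 1⟩, ⟨98, 99, 147⟩, ⟨7026, 7905, 30000⟩, ⟨1900, 2136, 1000⟩⟩ (tC94.hWL false) :=
  posD_of_check (c := ⟨385, ⟨5, 8, 12, 7⟩⟩) (by decide +kernel)

def tC94_ev1 : PosD ⟨⟨0, 1, 1⟩, ⟨98, 99, 147⟩, ⟨7026, 7905, 30000⟩, ⟨1900, 2136, 1000⟩⟩ (tC94.hEv true) :=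
  posD_of_check (c := ⟨218, ⟨4, 2, 8, 4⟩⟩) (by decide +kernel)

def tC94_zL1 : PosD ⟨⟨0, 1, 1⟩, ⟨98, 99, 147⟩, ⟨7026, 7905, 30000⟩, ⟨1900, 2136, 1000⟩⟩ (tC94.hZL true) :=
  posD_of_check (c := ⟨220, ⟨4, 3, 8, 4⟩⟩) (by decide +kernel)

def tC94_zU1 : PosD ⟨⟨0, 1, 1⟩, ⟨98, 99, 147⟩, ⟨7026, 7905, 30000⟩, ⟨1900, 2136, 1000⟩⟩ (tC94.hZU true) :=
  posD_of_check (c := ⟨220, ⟨4, 3, 8, 4⟩⟩) (by decide +kernel)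

def tC94_eL1 : PosD ⟨⟨0, 1, 1⟩, ⟨98, 99, 147⟩, ⟨7026, 7905, 30000⟩, ⟨1900, 2136, 1000⟩⟩ (tC94.hEL true) :=
  posD_of_check (c := ⟨351, ⟨5, 6, 11, 7⟩⟩) (by decide +kernel)

def tC94_eH1 : PosD ⟨⟨0, 1, 1⟩, ⟨98, 99, 147⟩, ⟨7026, 7905, 30000⟩, ⟨1900, 2136, 1000⟩⟩ (tC94.hEH true) :=
  posD_of_check (c := ⟨322, ⟨5, 6, 11, 6⟩⟩) (by decide +kernel)

def tC94_pL1 : PosD ⟨⟨0, 1, 1⟩, ⟨98, 99, 147⟩, ⟨7026, 7905, 30000⟩, ⟨1900, 2136, 1000⟩⟩ (tC94.hPL true) :=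
  posD_of_check (c := ⟨352, ⟨5, 6, 11, 7⟩⟩) (by decide +kernel)

def tC94_pU1 : PosD ⟨⟨0, 1, 1⟩, ⟨98, 99, 147⟩, ⟨7026, 7905, 30000⟩, ⟨1900, 2136, 1000⟩⟩ (tC94.hPU true) :=
  posD_of_check (c := ⟨354, ⟨5, 6, 11, 7⟩⟩) (by decide +kernel)

def tC94_kU1 : PosD ⟨⟨0, 1, 1⟩, ⟨98, 99, 147⟩, ⟨7026, 7905, 30000⟩, ⟨1900, 2136, 1000⟩⟩ (tC94.hKU true) :=
  posD_of_check (c := ⟨352, ⟨5, 6, 11, 7⟩⟩) (by decide +kernel)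

def tC94_kL1 : PosD ⟨⟨0, 1, 1⟩, ⟨98, 99, 147⟩, ⟨7026, 7905, 30000⟩, ⟨1900, 2136, 1000⟩⟩ (tC94.hKL true) :=
  posD_of_check (c := ⟨354, ⟨5, 6, 11, 7⟩⟩) (by decide +kernel)

def tC94_wU1 : PosD ⟨⟨0, 1, 1⟩, ⟨98, 99, 147⟩, ⟨7026, 7905, 30000⟩, ⟨1900, 2136, 1000⟩⟩ (tC94.hWU true) :=
  posD_of_relax (k₁ := 1) (k₂ := 0) (k₃ := 0) (n := 16) (posD_of_check (c := ⟨382, ⟨5, 8, 12, 7⟩⟩) (by decide +kernel))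

def tC94_wL1 : PosD ⟨⟨0, 1, 1⟩, ⟨98, 99, 147⟩, ⟨7026, 7905, 30000⟩, ⟨1900, 2136, 1000⟩⟩ (tC94.hWL true) :=
  posD_of_check (c := ⟨384, ⟨5, 8, 12, 7⟩⟩) (by decide +kernel)

def tC94_nueL : PosD ⟨⟨0, 1, 1⟩, ⟨98, 99, 147⟩, ⟨7026, 7905, 30000⟩, ⟨1900, 2136, 1000⟩⟩ (tC94.eL.ν) :=
  posD_of_check (c := ⟨52, ⟨0, 0, 1, 1⟩⟩) (by decide +kernel)

def tC94_nueH : PosD ⟨⟨0, 1, 1⟩, ⟨98, 99, 147⟩, ⟨7026, 7905, 30000⟩, ⟨1900, 2136, 1000⟩⟩ (tC94.eH.ν) :=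
  posD_of_check (c := ⟨20, ⟨0, 0, 0, 0⟩⟩) (by decide +kernel)

def tC94_nupL : PosD ⟨⟨0, 1, 1⟩, ⟨98, 99, 147⟩, ⟨7026, 7905, 30000⟩, ⟨1900, 2136, 1000⟩⟩ (tC94.pL.ν) :=
  posD_of_check (c := ⟨53, ⟨0, 0, 1, 1⟩⟩) (by decide +kernel)

def tC94_nupU : PosD ⟨⟨0, 1, 1⟩, ⟨98, 99, 147⟩, ⟨7026, 7905, 30000⟩, ⟨1900, 2136, 1000⟩⟩ (tC94.pU.ν) :=
  posD_of_check (c := ⟨56, ⟨0, 0, 1, 1⟩⟩) (by decide +kernel)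

def tC94_nukU : PosD ⟨⟨0, 1, 1⟩, ⟨98, 99, 147⟩, ⟨7026, 7905, 30000⟩, ⟨1900, 2136, 1000⟩⟩ (tC94.kU.ν) :=
  posD_of_check (c := ⟨53, ⟨0, 0, 1, 1⟩⟩) (by decide +kernel)

def tC94_nukL : PosD ⟨⟨0, 1, 1⟩, ⟨98, 99, 147⟩, ⟨7026, 7905, 30000⟩, ⟨1900, 2136, 1000⟩⟩ (tC94.kL.ν) :=
  posD_of_check (c := ⟨55, ⟨0, 0, 1, 1⟩⟩) (by decide +kernel)

def tC94_nuwU : PosD ⟨⟨0, 1, 1⟩, ⟨98, 99, 147⟩, ⟨7026, 7905, 30000⟩, ⟨1900, 2136, 1000⟩⟩ (tC94.wU.ν) :=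
  posD_of_check (c := ⟨52, ⟨0, 0, 1, 1⟩⟩) (by decide +kernel)

def tC94_nuwL : PosD ⟨⟨0, 1, 1⟩, ⟨98, 99, 147⟩, ⟨7026, 7905, 30000⟩, ⟨1900, 2136, 1000⟩⟩ (tC94.wL.ν) :=
  posD_of_check (c := ⟨55, ⟨0, 0, 1, 1⟩⟩) (by decide +kernel)

/-- The bounds of the piece. -/
def tC94_env : tC94.Env ⟨⟨0, 1, 1⟩, ⟨98, 99, 147⟩, ⟨7026, 7905, 30000⟩, ⟨1900, 2136, 1000⟩⟩ :=
  ⟨tC94_p0, Bool.forall_bool.2 ⟨tC94_den0, tC94_den1⟩, tC94_gn, Bool.forall_bool.2 ⟨tC94_ev0, tC94_ev1⟩, Bool.forall_bool.2 ⟨tC94_zL0, tC94_zL1⟩, Bool.forall_bool.2 ⟨tC94_zU0, tC94_zU1⟩, Bool.forall_bool.2 ⟨tC94_eL0, tC94_eL1⟩, ⟨.inr rfl, .inl tC94_nueL⟩, Bool.forall_bool.2 ⟨tC94_eH0, tC94_eH1⟩, ⟨.inr rfl, .inl tC94_nueH⟩, Bool.forall_bool.2 ⟨tC94_pL0, tC94_pL1⟩, ⟨.inr rfl,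 .inl tC94_nupL⟩, Bool.forall_bool.2 ⟨tC94_pU0, tC94_pU1⟩, ⟨.inr rfl, .inl tC94_nupU⟩, Bool.forall_bool.2 ⟨tC94_kU0, tC94_kU1⟩, ⟨.inr rfl, .inl tC94_nukU⟩, Bool.forall_bool.2 ⟨tC94_kL0, tC94_kL1⟩, ⟨.inr rfl, .inl tC94_nukL⟩, Bool.forall_bool.2 ⟨tC94_wU0, tC94_wU1⟩, ⟨.inr rfl, .inl tC94_nuwU⟩, Bool.forall_bool.2 ⟨tC94_wL0, tC94_wL1⟩, ⟨.inr rfl, .inl tC94_nuwL⟩⟩

def tC94_pp : PosD ⟨⟨0, 1, 1⟩, ⟨98, 99, 147⟩, ⟨7026, 7905, 30000⟩, ⟨1900, 2136, 1000⟩⟩ (tC94.xPL) :=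
  posD_of_check (c := ⟨101, ⟨1, 1, 3, 3⟩⟩) (by decide +kernel)

def tC94_k2p : PosD ⟨⟨0, 1, 1⟩, ⟨98, 99, 147⟩, ⟨7026, 7905, 30000⟩, ⟨1900, 2136, 1000⟩⟩ (tC94.k2p tC94.xE) :=
  posD_of_check (c := ⟨74, ⟨1, 1, 2, 2⟩⟩) (by decide +kernel)

def tC94_k2m : PosD ⟨⟨0, 1, 1⟩, ⟨98, 99, 147⟩, ⟨7026, 7905, 30000⟩, ⟨1900, 2136, 1000⟩⟩ (tC94.k2m tC94.xE) :=
  posD_of_check (c := ⟨71, ⟨1, 1, 2, 2⟩⟩) (by decide +kernel)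

def tC94_v2p : PosD ⟨⟨0, 1, 1⟩, ⟨98, 99, 147⟩, ⟨7026, 7905, 30000⟩, ⟨1900, 2136, 1000⟩⟩ (tC94.hV2p) :=
  posD_of_check (c := ⟨275, ⟨1, 6, 10, 5⟩⟩) (by decide +kernel)

def tC94_v2ma : PosD ⟨⟨0, 1, 1⟩, ⟨98, 99, 147⟩, ⟨7026, 7465, 30000⟩, ⟨1900, 2136, 1000⟩⟩ (tC94.hV2m) :=
  posD_of_check (c := ⟨273, ⟨1, 6, 10, 5⟩⟩) (by decide +kernel)

def tC94_v2mba : PosD ⟨⟨0, 1, 1⟩, ⟨98, 99, 147⟩, ⟨7465, 7685, 30000⟩, ⟨1900, 2136, 1000⟩⟩ (tC94.hV2m) :=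
  posD_of_check (c := ⟨273, ⟨1, 6, 10, 5⟩⟩) (by decide +kernel)

def tC94_v2mbba : PosD ⟨⟨0, 1, 1⟩, ⟨98, 99, 147⟩, ⟨7685, 7905, 30000⟩, ⟨1900, 2018, 1000⟩⟩ (tC94.hV2m) :=
  posD_of_check (c := ⟨273, ⟨1, 6, 10, 5⟩⟩) (by decide +kernel)

def tC94_v2mbbb : PosD ⟨⟨0, 1, 1⟩, ⟨98, 99, 147⟩, ⟨7685, 7905, 30000⟩, ⟨2018, 2136, 1000⟩⟩ (tC94.hV2m) :=
  posD_of_relax (k₁ := 1) (k₂ := 0) (k₃ := 0) (n := 16) (posD_of_check (c := ⟨275, ⟨1, 6, 10, 5⟩⟩) (by decide +kernel))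

def tC94_v2mbb : PosD ⟨⟨0, 1, 1⟩, ⟨98, 99, 147⟩, ⟨7685, 7905, 30000⟩, ⟨1900, 2136, 1000⟩⟩ (tC94.hV2m) :=
  posD_join₃ tC94_v2mbba tC94_v2mbbb

def tC94_v2mb : PosD ⟨⟨0, 1, 1⟩, ⟨98, 99, 147⟩, ⟨7465, 7905, 30000⟩, ⟨1900, 2136, 1000⟩⟩ (tC94.hV2m) :=
  posD_join₂ tC94_v2mba tC94_v2mbb

def tC94_v2m : PosD ⟨⟨0, 1, 1⟩, ⟨98, 99, 147⟩, ⟨7026, 7905, 30000⟩, ⟨1900, 2136, 1000⟩⟩ (tC94.hV2m) :=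
  posD_join₂ tC94_v2ma tC94_v2mb

def tC94_v3p : PosD ⟨⟨0, 1, 1⟩, ⟨98, 99, 147⟩, ⟨7026, 7905, 30000⟩, ⟨1900, 2136, 1000⟩⟩ (tC94.hV3p) :=
  posD_of_check (c := ⟨260, ⟨1, 6, 9, 5⟩⟩) (by decide +kernel)

def tC94_v3m : PosD ⟨⟨0, 1, 1⟩, ⟨98, 99, 147⟩, ⟨7026, 7905, 30000⟩, ⟨1900, 2136, 1000⟩⟩ (tC94.hV3m) :=
  posD_of_check (c := ⟨258, ⟨1, 6, 9, 5⟩⟩) (by decide +kernel)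

def tC94_kap0 : PosD ⟨⟨0, 1, 1⟩, ⟨98, 99, 147⟩, ⟨7026, 7905, 30000⟩, ⟨1900, 2136, 1000⟩⟩ (tC94.kap false) :=
  posD_of_relax (k₁ := 22) (k₂ := 0) (k₃ := 0) (n := 16) (posD_of_check (c := ⟨75, ⟨1, 1, 2, 2⟩⟩) (by decide +kernel))

def tC94_c10 : PosD ⟨⟨0, 1, 1⟩, ⟨98, 99, 147⟩, ⟨7026, 7905, 30000⟩, ⟨1900, 2136, 1000⟩⟩ (tC94.hC1 false) :=
  posD_of_check (c := ⟨287, ⟨3, 5, 9, 7⟩⟩) (by decide +kernel)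

def tC94_c1h0 : PosD ⟨⟨0, 1, 1⟩, ⟨98, 99, 147⟩, ⟨7026, 7905, 30000⟩, ⟨1900, 2136, 1000⟩⟩ (tC94.hC1' false) :=
  posD_of_check (c := ⟨287, ⟨3, 5, 9, 7⟩⟩) (by decide +kernel)

def tC94_tg00 : PosD ⟨⟨0, 1, 1⟩, ⟨98, 99, 147⟩, ⟨7026, 7905, 30000⟩, ⟨1900, 2136, 1000⟩⟩ (tC94.hG false (tC94.pEnd false)) :=
  posD_of_check (c := ⟨400, ⟨2, 7, 14, 9⟩⟩) (by decide +kernel)

def tC94_c2p00aa : PosD ⟨⟨0, 1, 1⟩, ⟨98, 99, 147⟩, ⟨7026, 7905, 30000⟩, ⟨1900, 1959, 1000⟩⟩ (tC94.hC2p false (tC94.pEnd false)) :=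
  posD_of_check (c := ⟨473, ⟨3, 8, 16, 11⟩⟩) (by decide +kernel)

def tC94_c2p00ab : PosD ⟨⟨0, 1, 1⟩, ⟨98, 99, 147⟩, ⟨7026, 7905, 30000⟩, ⟨1959, 2018, 1000⟩⟩ (tC94.hC2p false (tC94.pEnd false)) :=
  posD_of_relax (k₁ := 2) (k₂ := 0) (k₃ := 0) (n := 16) (posD_of_check (c := ⟨473, ⟨3, 8, 16, 11⟩⟩) (by decide +kernel))

def tC94_c2p00a : PosD ⟨⟨0, 1, 1⟩, ⟨98, 99, 147⟩, ⟨7026, 7905, 30000⟩, ⟨1900, 2018, 1000⟩⟩ (tC94.hC2p false (tC94.pEnd false)) :=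
  posD_join₃ tC94_c2p00aa tC94_c2p00ab

def tC94_c2p00baa : PosD ⟨⟨0, 1, 1⟩, ⟨98, 99, 147⟩, ⟨7026, 7465, 30000⟩, ⟨2018, 2077, 1000⟩⟩ (tC94.hC2p false (tC94.pEnd false)) :=
  posD_of_check (c := ⟨473, ⟨3, 8, 16, 11⟩⟩) (by decide +kernel)

def tC94_c2p00bab : PosD ⟨⟨0, 1, 1⟩, ⟨98, 99, 147⟩, ⟨7465, 7905, 30000⟩, ⟨2018, 2077, 1000⟩⟩ (tC94.hC2p false (tC94.pEnd false)) :=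
  posD_of_relax (k₁ := 6) (k₂ := 0) (k₃ := 0) (n := 16) (posD_of_check (c := ⟨474, ⟨3, 8, 16, 11⟩⟩) (by decide +kernel))

def tC94_c2p00ba : PosD ⟨⟨0, 1, 1⟩, ⟨98, 99, 147⟩, ⟨7026, 7905, 30000⟩, ⟨2018, 2077, 1000⟩⟩ (tC94.hC2p false (tC94.pEnd false)) :=
  posD_join₂ tC94_c2p00baa tC94_c2p00bab

def tC94_c2p00bbaa : PosD ⟨⟨0, 1, 1⟩, ⟨98, 99, 147⟩, ⟨7026, 7905, 30000⟩, ⟨2077, 2091, 1000⟩⟩ (tC94.hC2p false (tC94.pEnd false)) :=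
  posD_of_relax (k₁ := 7) (k₂ := 0) (k₃ := 0) (n := 16) (posD_of_check (c := ⟨473, ⟨3, 8, 16, 11⟩⟩) (by decide +kernel))

def tC94_c2p00bbab : PosD ⟨⟨0, 1, 1⟩, ⟨98, 99, 147⟩, ⟨7026, 7905, 30000⟩, ⟨2091, 2106, 1000⟩⟩ (tC94.hC2p false (tC94.pEnd false)) :=
  posD_of_relax (k₁ := 9) (k₂ := 0) (k₃ := 0) (n := 16) (posD_of_check (c := ⟨473, ⟨3, 8, 16, 11⟩⟩) (by decide +kernel))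

def tC94_c2p00bba : PosD ⟨⟨0, 1, 1⟩, ⟨98, 99, 147⟩, ⟨7026, 7905, 30000⟩, ⟨2077, 2106, 1000⟩⟩ (tC94.hC2p false (tC94.pEnd false)) :=
  posD_join₃ tC94_c2p00bbaa tC94_c2p00bbab

def tC94_c2p00bbb : PosD ⟨⟨0, 1, 1⟩, ⟨98, 99, 147⟩, ⟨7026, 7905, 30000⟩, ⟨2106, 2136, 1000⟩⟩ (tC94.hC2p false (tC94.pEnd false)) :=
  posD_of_relax (k₁ := 12) (k₂ := 0) (k₃ := 0) (n := 16) (posD_of_check (c := ⟨474, ⟨3, 8, 16, 11⟩⟩) (by decide +kernel))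

def tC94_c2p00bb : PosD ⟨⟨0, 1, 1⟩, ⟨98, 99, 147⟩, ⟨7026, 7905, 30000⟩, ⟨2077, 2136, 1000⟩⟩ (tC94.hC2p false (tC94.pEnd false)) :=
  posD_join₃ tC94_c2p00bba tC94_c2p00bbb

def tC94_c2p00b : PosD ⟨⟨0, 1, 1⟩, ⟨98, 99, 147⟩, ⟨7026, 7905, 30000⟩, ⟨2018, 2136, 1000⟩⟩ (tC94.hC2p false (tC94.pEnd false)) :=
  posD_join₃ tC94_c2p00ba tC94_c2p00bb

def tC94_c2p00 : PosD ⟨⟨0, 1, 1⟩, ⟨98, 99, 147⟩, ⟨7026, 7905, 30000⟩, ⟨1900, 2136, 1000⟩⟩ (tC94.hC2p false (tC94.pEnd false)) :=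
  posD_join₃ tC94_c2p00a tC94_c2p00b

def tC94_c2m00 : PosD ⟨⟨0, 1, 1⟩, ⟨98, 99, 147⟩, ⟨7026, 7905, 30000⟩, ⟨1900, 2136, 1000⟩⟩ (tC94.hC2m false (tC94.pEnd false)) :=
  posD_of_check (c := ⟨471, ⟨3, 8, 16, 11⟩⟩) (by decide +kernel)

def tC94_c3p00 : PosD ⟨⟨0, 1, 1⟩, ⟨98, 99, 147⟩, ⟨7026, 7905, 30000⟩, ⟨1900, 2136, 1000⟩⟩ (tC94.hC3p false false) :=
  posD_of_check (c := ⟨459, ⟨3, 8, 15, 11⟩⟩) (by decide +kernel)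

def tC94_c3m00 : PosD ⟨⟨0, 1, 1⟩, ⟨98, 99, 147⟩, ⟨7026, 7905, 30000⟩, ⟨1900, 2136, 1000⟩⟩ (tC94.hC3m false false) :=
  posD_of_check (c := ⟨458, ⟨3, 8, 15, 11⟩⟩) (by decide +kernel)

def tC94_c3ph00 : PosD ⟨⟨0, 1, 1⟩, ⟨98, 99, 147⟩, ⟨7026, 7905, 30000⟩, ⟨1900, 2136, 1000⟩⟩ (tC94.hC3p' false false) :=
  posD_of_check (c := ⟨459, ⟨3, 8, 15, 11⟩⟩) (by decide +kernel)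

def tC94_c3mh00 : PosD ⟨⟨0, 1, 1⟩, ⟨98, 99, 147⟩, ⟨7026, 7905, 30000⟩, ⟨1900, 2136, 1000⟩⟩ (tC94.hC3m' false false) :=
  posD_of_check (c := ⟨458, ⟨3, 8, 15, 11⟩⟩) (by decide +kernel)

def tC94_up00 : PosD ⟨⟨0, 1, 1⟩, ⟨98, 99, 147⟩, ⟨7026, 7905, 30000⟩, ⟨1900, 2136, 1000⟩⟩ (tC94.hUp false false) :=
  posD_of_check (c := ⟨458, ⟨3, 8, 15, 11⟩⟩) (by decide +kernel)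

def tC94_um00 : PosD ⟨⟨0, 1, 1⟩, ⟨98, 99, 147⟩, ⟨7026, 7905, 30000⟩, ⟨1900, 2136, 1000⟩⟩ (tC94.hUm false false) :=
  posD_of_check (c := ⟨456, ⟨3, 8, 15, 11⟩⟩) (by decide +kernel)

def tC94_tmg00 : PosD ⟨⟨0, 1, 1⟩, ⟨98, 99, 147⟩, ⟨7026, 7905, 30000⟩, ⟨1900, 2136, 1000⟩⟩ (tC94.hTMG false (tC94.pEnd false)) :=
  posD_of_check (c := ⟨412, ⟨2, 7, 14, 10⟩⟩) (by decide +kernel)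

def tC94_tg01 : PosD ⟨⟨0, 1, 1⟩, ⟨98, 99, 147⟩, ⟨7026, 7905, 30000⟩, ⟨1900, 2136, 1000⟩⟩ (tC94.hG true (tC94.pEnd false)) :=
  posD_of_check (c := ⟨400, ⟨2, 7, 14, 9⟩⟩) (by decide +kernel)

def tC94_c2p01a : PosD ⟨⟨0, 1, 1⟩, ⟨98, 99, 147⟩, ⟨7026, 7905, 30000⟩, ⟨1900, 2018, 1000⟩⟩ (tC94.hC2p true (tC94.pEnd false)) :=
  posD_of_check (c := ⟨473, ⟨3, 8, 16, 11⟩⟩) (by decide +kernel)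

def tC94_c2p01b : PosD ⟨⟨0, 1, 1⟩, ⟨98, 99, 147⟩, ⟨7026, 7905, 30000⟩, ⟨2018, 2136, 1000⟩⟩ (tC94.hC2p true (tC94.pEnd false)) :=
  posD_of_relax (k₁ := 7) (k₂ := 0) (k₃ := 0) (n := 16) (posD_of_check (c := ⟨473, ⟨3, 8, 16, 11⟩⟩) (by decide +kernel))

def tC94_c2p01 : PosD ⟨⟨0, 1, 1⟩, ⟨98, 99, 147⟩, ⟨7026, 7905, 30000⟩, ⟨1900, 2136, 1000⟩⟩ (tC94.hC2p true (tC94.pEnd false)) :=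
  posD_join₃ tC94_c2p01a tC94_c2p01b

def tC94_c2m01 : PosD ⟨⟨0, 1, 1⟩, ⟨98, 99, 147⟩, ⟨7026, 7905, 30000⟩, ⟨1900, 2136, 1000⟩⟩ (tC94.hC2m true (tC94.pEnd false)) :=
  posD_of_check (c := ⟨471, ⟨3, 8, 16, 11⟩⟩) (by decide +kernel)

def tC94_c3p01 : PosD ⟨⟨0, 1, 1⟩, ⟨98, 99, 147⟩, ⟨7026, 7905, 30000⟩, ⟨1900, 2136, 1000⟩⟩ (tC94.hC3p false true) :=
  posD_of_check (c := ⟨459, ⟨3, 8, 15, 11⟩⟩) (by decide +kernel)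

def tC94_c3m01 : PosD ⟨⟨0, 1, 1⟩, ⟨98, 99, 147⟩, ⟨7026, 7905, 30000⟩, ⟨1900, 2136, 1000⟩⟩ (tC94.hC3m false true) :=
  posD_of_check (c := ⟨458, ⟨3, 8, 15, 11⟩⟩) (by decide +kernel)

def tC94_c3ph01 : PosD ⟨⟨0, 1, 1⟩, ⟨98, 99, 147⟩, ⟨7026, 7905, 30000⟩, ⟨1900, 2136, 1000⟩⟩ (tC94.hC3p' false true) :=
  posD_of_check (c := ⟨459, ⟨3, 8, 15, 11⟩⟩) (by decide +kernel)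

def tC94_c3mh01 : PosD ⟨⟨0, 1, 1⟩, ⟨98, 99, 147⟩, ⟨7026, 7905, 30000⟩, ⟨1900, 2136, 1000⟩⟩ (tC94.hC3m' false true) :=
  posD_of_check (c := ⟨458, ⟨3, 8, 15, 11⟩⟩) (by decide +kernel)

def tC94_up01 : PosD ⟨⟨0, 1, 1⟩, ⟨98, 99, 147⟩, ⟨7026, 7905, 30000⟩, ⟨1900, 2136, 1000⟩⟩ (tC94.hUp false true) :=
  posD_of_check (c := ⟨458, ⟨3, 8, 15, 11⟩⟩) (by decide +kernel)

def tC94_um01 : PosD ⟨⟨0, 1, 1⟩, ⟨98, 99, 147⟩, ⟨7026, 7905, 30000⟩, ⟨1900, 2136, 1000⟩⟩ (tC94.hUm false true) :=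
  posD_of_check (c := ⟨456, ⟨3, 8, 15, 11⟩⟩) (by decide +kernel)

def tC94_tmg01 : PosD ⟨⟨0, 1, 1⟩, ⟨98, 99, 147⟩, ⟨7026, 7905, 30000⟩, ⟨1900, 2136, 1000⟩⟩ (tC94.hTMG true (tC94.pEnd false)) :=
  posD_of_check (c := ⟨412, ⟨2, 7, 14, 10⟩⟩) (by decide +kernel)

def tC94_kap1 : PosD ⟨⟨0, 1, 1⟩, ⟨98, 99, 147⟩, ⟨7026, 7905, 30000⟩, ⟨1900, 2136, 1000⟩⟩ (tC94.kap true) :=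
  posD_of_relax (k₁ := 22) (k₂ := 0) (k₃ := 0) (n := 16) (posD_of_check (c := ⟨75, ⟨1, 1, 2, 2⟩⟩) (by decide +kernel))

def tC94_c11 : PosD ⟨⟨0, 1, 1⟩, ⟨98, 99, 147⟩, ⟨7026, 7905, 30000⟩, ⟨1900, 2136, 1000⟩⟩ (tC94.hC1 true) :=
  posD_of_check (c := ⟨287, ⟨3, 5, 9, 7⟩⟩) (by decide +kernel)

def tC94_c1h1 : PosD ⟨⟨0, 1, 1⟩, ⟨98, 99, 147⟩, ⟨7026, 7905, 30000⟩, ⟨1900, 2136, 1000⟩⟩ (tC94.hC1' true) :=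
  posD_of_check (c := ⟨287, ⟨3, 5, 9, 7⟩⟩) (by decide +kernel)

def tC94_tg10 : PosD ⟨⟨0, 1, 1⟩, ⟨98, 99, 147⟩, ⟨7026, 7905, 30000⟩, ⟨1900, 2136, 1000⟩⟩ (tC94.hG false (tC94.pEnd true)) :=
  posD_of_check (c := ⟨400, ⟨2, 7, 14, 9⟩⟩) (by decide +kernel)

def tC94_c2p10aa : PosD ⟨⟨0, 1, 1⟩, ⟨98, 99, 147⟩, ⟨7026, 7905, 30000⟩, ⟨1900, 1959, 1000⟩⟩ (tC94.hC2p false (tC94.pEnd true)) :=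
  posD_of_check (c := ⟨473, ⟨3, 8, 16, 11⟩⟩) (by decide +kernel)

def tC94_c2p10aba : PosD ⟨⟨0, 1, 1⟩, ⟨98, 99, 147⟩, ⟨7026, 7465, 30000⟩, ⟨1959, 2018, 1000⟩⟩ (tC94.hC2p false (tC94.pEnd true)) :=
  posD_of_check (c := ⟨473, ⟨3, 8, 16, 11⟩⟩) (by decide +kernel)

def tC94_c2p10abb : PosD ⟨⟨0, 1, 1⟩, ⟨98, 99, 147⟩, ⟨7465, 7905, 30000⟩, ⟨1959, 2018, 1000⟩⟩ (tC94.hC2p false (tC94.pEnd true)) :=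
  posD_of_relax (k₁ := 4) (k₂ := 0) (k₃ := 0) (n := 16) (posD_of_check (c := ⟨473, ⟨3, 8, 16, 11⟩⟩) (by decide +kernel))

def tC94_c2p10ab : PosD ⟨⟨0, 1, 1⟩, ⟨98, 99, 147⟩, ⟨7026, 7905, 30000⟩, ⟨1959, 2018, 1000⟩⟩ (tC94.hC2p false (tC94.pEnd true)) :=
  posD_join₂ tC94_c2p10aba tC94_c2p10abb

def tC94_c2p10a : PosD ⟨⟨0, 1, 1⟩, ⟨98, 99, 147⟩, ⟨7026, 7905, 30000⟩, ⟨1900, 2018, 1000⟩⟩ (tC94.hC2p false (tC94.pEnd true)) :=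
  posD_join₃ tC94_c2p10aa tC94_c2p10ab

def tC94_c2p10baaa : PosD ⟨⟨0, 1, 1⟩, ⟨98, 99, 147⟩, ⟨7026, 7465, 30000⟩, ⟨2018, 2047, 1000⟩⟩ (tC94.hC2p false (tC94.pEnd true)) :=
  posD_of_check (c := ⟨473, ⟨3, 8, 16, 11⟩⟩) (by decide +kernel)

def tC94_c2p10baab : PosD ⟨⟨0, 1, 1⟩, ⟨98, 99, 147⟩, ⟨7465, 7905, 30000⟩, ⟨2018, 2047, 1000⟩⟩ (tC94.hC2p false (tC94.pEnd true)) :=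
  posD_of_relax (k₁ := 4) (k₂ := 0) (k₃ := 0) (n := 16) (posD_of_check (c := ⟨474, ⟨3, 8, 16, 11⟩⟩) (by decide +kernel))

def tC94_c2p10baa : PosD ⟨⟨0, 1, 1⟩, ⟨98, 99, 147⟩, ⟨7026, 7905, 30000⟩, ⟨2018, 2047, 1000⟩⟩ (tC94.hC2p false (tC94.pEnd true)) :=
  posD_join₂ tC94_c2p10baaa tC94_c2p10baab

def tC94_c2p10baba : PosD ⟨⟨0, 1, 1⟩, ⟨98, 99, 147⟩, ⟨7026, 7905, 30000⟩, ⟨2047, 2062, 1000⟩⟩ (tC94.hC2p false (tC94.pEnd true)) :=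
  posD_of_relax (k₁ := 5) (k₂ := 0) (k₃ := 0) (n := 16) (posD_of_check (c := ⟨473, ⟨3, 8, 16, 11⟩⟩) (by decide +kernel))

def tC94_c2p10babb : PosD ⟨⟨0, 1, 1⟩, ⟨98, 99, 147⟩, ⟨7026, 7905, 30000⟩, ⟨2062, 2077, 1000⟩⟩ (tC94.hC2p false (tC94.pEnd true)) :=
  posD_of_relax (k₁ := 6) (k₂ := 0) (k₃ := 0) (n := 16) (posD_of_check (c := ⟨473, ⟨3, 8, 16, 11⟩⟩) (by decide +kernel))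

def tC94_c2p10bab : PosD ⟨⟨0, 1, 1⟩, ⟨98, 99, 147⟩, ⟨7026, 7905, 30000⟩, ⟨2047, 2077, 1000⟩⟩ (tC94.hC2p false (tC94.pEnd true)) :=
  posD_join₃ tC94_c2p10baba tC94_c2p10babb

def tC94_c2p10ba : PosD ⟨⟨0, 1, 1⟩, ⟨98, 99, 147⟩, ⟨7026, 7905, 30000⟩, ⟨2018, 2077, 1000⟩⟩ (tC94.hC2p false (tC94.pEnd true)) :=
  posD_join₃ tC94_c2p10baa tC94_c2p10bab

def tC94_c2p10bbaa : PosD ⟨⟨0, 1, 1⟩, ⟨98, 99, 147⟩, ⟨7026, 7905, 30000⟩, ⟨2077, 2091, 1000⟩⟩ (tC94.hC2p false (tC94.pEnd true)) :=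
  posD_of_relax (k₁ := 7) (k₂ := 0) (k₃ := 0) (n := 16) (posD_of_check (c := ⟨473, ⟨3, 8, 16, 11⟩⟩) (by decide +kernel))

def tC94_c2p10bbab : PosD ⟨⟨0, 1, 1⟩, ⟨98, 99, 147⟩, ⟨7026, 7905, 30000⟩, ⟨2091, 2106, 1000⟩⟩ (tC94.hC2p false (tC94.pEnd true)) :=
  posD_of_relax (k₁ := 9) (k₂ := 0) (k₃ := 0) (n := 16) (posD_of_check (c := ⟨473, ⟨3, 8, 16, 11⟩⟩) (by decide +kernel))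

def tC94_c2p10bba : PosD ⟨⟨0, 1, 1⟩, ⟨98, 99, 147⟩, ⟨7026, 7905, 30000⟩, ⟨2077, 2106, 1000⟩⟩ (tC94.hC2p false (tC94.pEnd true)) :=
  posD_join₃ tC94_c2p10bbaa tC94_c2p10bbab

def tC94_c2p10bbb : PosD ⟨⟨0, 1, 1⟩, ⟨98, 99, 147⟩, ⟨7026, 7905, 30000⟩, ⟨2106, 2136, 1000⟩⟩ (tC94.hC2p false (tC94.pEnd true)) :=
  posD_of_relax (k₁ := 12) (k₂ := 0) (k₃ := 0) (n := 16) (posD_of_check (c := ⟨474, ⟨3, 8, 16, 11⟩⟩) (by decide +kernel))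

def tC94_c2p10bb : PosD ⟨⟨0, 1, 1⟩, ⟨98, 99, 147⟩, ⟨7026, 7905, 30000⟩, ⟨2077, 2136, 1000⟩⟩ (tC94.hC2p false (tC94.pEnd true)) :=
  posD_join₃ tC94_c2p10bba tC94_c2p10bbb

def tC94_c2p10b : PosD ⟨⟨0, 1, 1⟩, ⟨98, 99, 147⟩, ⟨7026, 7905, 30000⟩, ⟨2018, 2136, 1000⟩⟩ (tC94.hC2p false (tC94.pEnd true)) :=
  posD_join₃ tC94_c2p10ba tC94_c2p10bb

def tC94_c2p10 : PosD ⟨⟨0, 1, 1⟩, ⟨98, 99, 147⟩, ⟨7026, 7905, 30000⟩, ⟨1900, 2136, 1000⟩⟩ (tC94.hC2p false (tC94.pEnd true)) :=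
  posD_join₃ tC94_c2p10a tC94_c2p10b

def tC94_c2m10 : PosD ⟨⟨0, 1, 1⟩, ⟨98, 99, 147⟩, ⟨7026, 7905, 30000⟩, ⟨1900, 2136, 1000⟩⟩ (tC94.hC2m false (tC94.pEnd true)) :=
  posD_of_check (c := ⟨471, ⟨3, 8, 16, 11⟩⟩) (by decide +kernel)

def tC94_c3p10 : PosD ⟨⟨0, 1, 1⟩, ⟨98, 99, 147⟩, ⟨7026, 7905, 30000⟩, ⟨1900, 2136, 1000⟩⟩ (tC94.hC3p true false) :=
  posD_of_check (c := ⟨459, ⟨3, 8, 15, 11⟩⟩) (by decide +kernel)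

def tC94_c3m10 : PosD ⟨⟨0, 1, 1⟩, ⟨98, 99, 147⟩, ⟨7026, 7905, 30000⟩, ⟨1900, 2136, 1000⟩⟩ (tC94.hC3m true false) :=
  posD_of_check (c := ⟨459, ⟨3, 8, 15, 11⟩⟩) (by decide +kernel)

def tC94_c3ph10 : PosD ⟨⟨0, 1, 1⟩, ⟨98, 99, 147⟩, ⟨7026, 7905, 30000⟩, ⟨1900, 2136, 1000⟩⟩ (tC94.hC3p' true false) :=
  posD_of_check (c := ⟨459, ⟨3, 8, 15, 11⟩⟩) (by decide +kernel)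

def tC94_c3mh10 : PosD ⟨⟨0, 1, 1⟩, ⟨98, 99, 147⟩, ⟨7026, 7905, 30000⟩, ⟨1900, 2136, 1000⟩⟩ (tC94.hC3m' true false) :=
  posD_of_check (c := ⟨458, ⟨3, 8, 15, 11⟩⟩) (by decide +kernel)

def tC94_up10 : PosD ⟨⟨0, 1, 1⟩, ⟨98, 99, 147⟩, ⟨7026, 7905, 30000⟩, ⟨1900, 2136, 1000⟩⟩ (tC94.hUp true false) :=
  posD_of_check (c := ⟨458, ⟨3, 8, 15, 11⟩⟩) (by decide +kernel)

def tC94_um10 : PosD ⟨⟨0, 1, 1⟩, ⟨98, 99, 147⟩, ⟨7026, 7905, 30000⟩, ⟨1900, 2136, 1000⟩⟩ (tC94.hUm true false) :=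
  posD_of_check (c := ⟨456, ⟨3, 8, 15, 11⟩⟩) (by decide +kernel)

def tC94_tmg10 : PosD ⟨⟨0, 1, 1⟩, ⟨98, 99, 147⟩, ⟨7026, 7905, 30000⟩, ⟨1900, 2136, 1000⟩⟩ (tC94.hTMG false (tC94.pEnd true)) :=
  posD_of_check (c := ⟨412, ⟨2, 7, 14, 10⟩⟩) (by decide +kernel)

def tC94_tg11 : PosD ⟨⟨0, 1, 1⟩, ⟨98, 99, 147⟩, ⟨7026, 7905, 30000⟩, ⟨1900, 2136, 1000⟩⟩ (tC94.hG true (tC94.pEnd true)) :=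
  posD_of_check (c := ⟨400, ⟨2, 7, 14, 9⟩⟩) (by decide +kernel)

def tC94_c2p11a : PosD ⟨⟨0, 1, 1⟩, ⟨98, 99, 147⟩, ⟨7026, 7905, 30000⟩, ⟨1900, 2018, 1000⟩⟩ (tC94.hC2p true (tC94.pEnd true)) :=
  posD_of_check (c := ⟨473, ⟨3, 8, 16, 11⟩⟩) (by decide +kernel)

def tC94_c2p11b : PosD ⟨⟨0, 1, 1⟩, ⟨98, 99, 147⟩, ⟨7026, 7905, 30000⟩, ⟨2018, 2136, 1000⟩⟩ (tC94.hC2p true (tC94.pEnd true)) :=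
  posD_of_relax (k₁ := 7) (k₂ := 0) (k₃ := 0) (n := 16) (posD_of_check (c := ⟨473, ⟨3, 8, 16, 11⟩⟩) (by decide +kernel))

def tC94_c2p11 : PosD ⟨⟨0, 1, 1⟩, ⟨98, 99, 147⟩, ⟨7026, 7905, 30000⟩, ⟨1900, 2136, 1000⟩⟩ (tC94.hC2p true (tC94.pEnd true)) :=
  posD_join₃ tC94_c2p11a tC94_c2p11b

def tC94_c2m11 : PosD ⟨⟨0, 1, 1⟩, ⟨98, 99, 147⟩, ⟨7026, 7905, 30000⟩, ⟨1900, 2136, 1000⟩⟩ (tC94.hC2m true (tC94.pEnd true)) :=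
  posD_of_check (c := ⟨471, ⟨3, 8, 16, 11⟩⟩) (by decide +kernel)

def tC94_c3p11 : PosD ⟨⟨0, 1, 1⟩, ⟨98, 99, 147⟩, ⟨7026, 7905, 30000⟩, ⟨1900, 2136, 1000⟩⟩ (tC94.hC3p true true) :=
  posD_of_check (c := ⟨459, ⟨3, 8, 15, 11⟩⟩) (by decide +kernel)

def tC94_c3m11 : PosD ⟨⟨0, 1, 1⟩, ⟨98, 99, 147⟩, ⟨7026, 7905, 30000⟩, ⟨1900, 2136, 1000⟩⟩ (tC94.hC3m true true) :=
  posD_of_check (c := ⟨459, ⟨3, 8, 15, 11⟩⟩) (by decide +kernel)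

def tC94_c3ph11 : PosD ⟨⟨0, 1, 1⟩, ⟨98, 99, 147⟩, ⟨7026, 7905, 30000⟩, ⟨1900, 2136, 1000⟩⟩ (tC94.hC3p' true true) :=
  posD_of_check (c := ⟨459, ⟨3, 8, 15, 11⟩⟩) (by decide +kernel)

def tC94_c3mh11 : PosD ⟨⟨0, 1, 1⟩, ⟨98, 99, 147⟩, ⟨7026, 7905, 30000⟩, ⟨1900, 2136, 1000⟩⟩ (tC94.hC3m' true true) :=
  posD_of_check (c := ⟨458, ⟨3, 8, 15, 11⟩⟩) (by decide +kernel)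

def tC94_up11 : PosD ⟨⟨0, 1, 1⟩, ⟨98, 99, 147⟩, ⟨7026, 7905, 30000⟩, ⟨1900, 2136, 1000⟩⟩ (tC94.hUp true true) :=
  posD_of_check (c := ⟨458, ⟨3, 8, 15, 11⟩⟩) (by decide +kernel)

def tC94_um11 : PosD ⟨⟨0, 1, 1⟩, ⟨98, 99, 147⟩, ⟨7026, 7905, 30000⟩, ⟨1900, 2136, 1000⟩⟩ (tC94.hUm true true) :=
  posD_of_check (c := ⟨456, ⟨3, 8, 15, 11⟩⟩) (by decide +kernel)

def tC94_tmg11 : PosD ⟨⟨0, 1, 1⟩, ⟨98, 99, 147⟩, ⟨7026, 7905, 30000⟩, ⟨1900, 2136, 1000⟩⟩ (tC94.hTMG true (tC94.pEnd true)) :=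
  posD_of_check (c := ⟨412, ⟨2, 7, 14, 10⟩⟩) (by decide +kernel)

/-- The signs of the piece. -/
def tC94_sign : tC94.Sign ⟨⟨0, 1, 1⟩, ⟨98, 99, 147⟩, ⟨7026, 7905, 30000⟩, ⟨1900, 2136, 1000⟩⟩ :=
  ⟨tC94_pp,
    tC94_k2p,
    tC94_k2m,
    Bool.forall_bool.2 ⟨(Bool.forall_bool.2 ⟨tC94_tg00, tC94_tg01⟩), (Bool.forall_bool.2 ⟨tC94_tg10, tC94_tg11⟩)⟩,
    Bool.forall_bool.2 ⟨(Bool.forall_bool.2 ⟨tC94_c2p00, tC94_c2p01⟩), (Bool.forall_bool.2 ⟨tC94_c2p10, tC94_c2p11⟩)⟩,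
    Bool.forall_bool.2 ⟨(Bool.forall_bool.2 ⟨tC94_c2m00, tC94_c2m01⟩), (Bool.forall_bool.2 ⟨tC94_c2m10, tC94_c2m11⟩)⟩,
    Bool.forall_bool.2 ⟨tC94_kap0, tC94_kap1⟩,
    Bool.forall_bool.2 ⟨tC94_c10, tC94_c11⟩,
    Bool.forall_bool.2 ⟨(Bool.forall_bool.2 ⟨tC94_c3p00, tC94_c3p01⟩), (Bool.forall_bool.2 ⟨tC94_c3p10, tC94_c3p11⟩)⟩,
    Bool.forall_bool.2 ⟨(Bool.forall_bool.2 ⟨tC94_c3m00, tC94_c3m01⟩), (Bool.forall_bool.2 ⟨tC94_c3m10, tC94_c3m11⟩)⟩,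
    Bool.forall_bool.2 ⟨(Bool.forall_bool.2 ⟨tC94_tmg00, tC94_tmg01⟩), (Bool.forall_bool.2 ⟨tC94_tmg10, tC94_tmg11⟩)⟩,
    .inr (Bool.forall_bool.2 ⟨⟨tC94_c1h0, Bool.forall_bool.2 ⟨⟨tC94_c3ph00, tC94_c3mh00, tC94_up00, tC94_um00⟩, ⟨tC94_c3ph01, tC94_c3mh01, tC94_up01, tC94_um01⟩⟩⟩, ⟨tC94_c1h1, Bool.forall_bool.2 ⟨⟨tC94_c3ph10, tC94_c3mh10, tC94_up10, tC94_um10⟩, ⟨tC94_c3ph11, tC94_c3mh11, tC94_up11, tC94_um11⟩⟩⟩⟩),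
    tC94_v2p,
    tC94_v2m,
    tC94_v3p,
    tC94_v3m,
    posD_sub (b := ⟨⟨0, 1, 1⟩, ⟨98, 99, 147⟩, ⟨4050, 10000, 30000⟩, ⟨290, 4000, 1000⟩⟩) (by decide +kernel) tC_vG,
    posD_sub (b := ⟨⟨0, 1, 1⟩, ⟨98, 99, 147⟩, ⟨4050, 10000, 30000⟩, ⟨290, 4000, 1000⟩⟩) (by decide +kernel) tC_vMG,
    posD_sub (b := ⟨⟨0, 1, 1⟩, ⟨98, 99, 147⟩, ⟨4050, 10000, 30000⟩, ⟨290, 4000, 1000⟩⟩) (by decide +kernel) tC_ak,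
    posD_sub (b := ⟨⟨0, 1, 1⟩, ⟨98, 99, 147⟩, ⟨4050, 10000, 30000⟩, ⟨290, 4000, 1000⟩⟩) (by decide +kernel) tC_aw,
    posD_sub (b := ⟨⟨0, 1, 1⟩, ⟨98, 99, 147⟩, ⟨4050, 10000, 30000⟩, ⟨290, 4000, 1000⟩⟩) (by decide +kernel) tC_gk,
    posD_sub (b := ⟨⟨0, 1, 1⟩, ⟨98, 99, 147⟩, ⟨4050, 10000, 30000⟩, ⟨290, 4000, 1000⟩⟩) (by decide +kernel) tC_gw,
    posD_sub (b := ⟨⟨0, 1, 1⟩, ⟨98, 99, 147⟩, ⟨4050, 10000, 30000⟩, ⟨290, 4000, 1000⟩⟩) (by decide +kernel) tC_ek,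
    posD_sub (b := ⟨⟨0, 1, 1⟩, ⟨98, 99, 147⟩, ⟨4050, 10000, 30000⟩, ⟨290, 4000, 1000⟩⟩) (by decide +kernel) tC_ew⟩

end Vale.Agent.P100.Calib.Closed.Six.Tail
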