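import Vale.Agent.P100.Calib.SlabSixTailDataC
import Vale.Agent.P100.Calib.SlabSixTailGlobC

/-!
# Checks of some pieces of the certificate

The checks are written as definitions so that they run one after another, which keeps the memory of the
kernel low.
-/

set_option linter.defProp false

namespace Vale.Agent.P100.Calib.Closed.Six.Tail

open BoxPos Large

local instance sixTailCheckstC7Add : Add Ex := ⟨Ex.add⟩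
local instance sixTailCheckstC7Sub : Sub Ex := ⟨Ex.sub⟩
local instance sixTailCheckstC7Mul : Mul Ex := ⟨Ex.mul⟩

def tC17_phxa : PosIf ⟨⟨0, 1, 1⟩, ⟨98, 99, 147⟩, ⟨8514, 10000, 30000⟩, ⟨897, 967, 1000⟩⟩ (tC17.u₁ - tC17Lo) (phCn (tC17.u₁ + xO * (tC17Lo - tC17.u₁))) :=
  posIf_of_mul (k := 1) (n := 1) (posD_of_check (c := ⟨109, ⟨2, 0, 4, 2⟩⟩) (by decide +kernel))

def tC17_phxb : PosIf ⟨⟨0, 1, 1⟩, ⟨98, 99, 147⟩, ⟨8514, 10000, 30000⟩, ⟨967, 1037, 1000⟩⟩ (tC17.u₁ - tC17Lo) (phCn (tC17.u₁ + xO * (tC17Lo - tC17.u₁))) :=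
  posIf_of_mul (k := 1) (n := 2) (posD_of_check (c := ⟨109, ⟨2, 0, 4, 2⟩⟩) (by decide +kernel))

def tC17_phx : PosIf ⟨⟨0, 1, 1⟩, ⟨98, 99, 147⟩, ⟨8514, 10000, 30000⟩, ⟨897, 1037, 1000⟩⟩ (tC17.u₁ - tC17Lo) (phCn (tC17.u₁ + xO * (tC17Lo - tC17.u₁))) :=
  posIf_join₃ tC17_phxa tC17_phxb

def tC17_phd : PosD ⟨⟨0, 1, 1⟩, ⟨98, 99, 147⟩, ⟨8514, 10000, 30000⟩, ⟨897, 1037, 1000⟩⟩ (phCd (tC17.u₁ + xO * (tC17Lo - tC17.u₁))) :=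
  posD_of_check (c := ⟨51, ⟨1, 0, 2, 1⟩⟩) (by decide +kernel)

def tC17_p0 : PosD ⟨⟨0, 1, 1⟩, ⟨98, 99, 147⟩, ⟨8514, 10000, 30000⟩, ⟨897, 1037, 1000⟩⟩ (tC17.hP0) :=
  posD_of_check (c := ⟨83, ⟨0, 2, 3, 1⟩⟩) (by decide +kernel)

def tC17_gn : PosD ⟨⟨0, 1, 1⟩, ⟨98, 99, 147⟩, ⟨8514, 10000, 30000⟩, ⟨897, 1037, 1000⟩⟩ (tC17.hGn) :=
  posD_of_check (c := ⟨69, ⟨1, 1, 2, 2⟩⟩) (by decide +kernel)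

def tC17_den0 : PosD ⟨⟨0, 1, 1⟩, ⟨98, 99, 147⟩, ⟨8514, 10000, 30000⟩, ⟨897, 1037, 1000⟩⟩ (tC17.hDen false) :=
  posD_of_check (c := ⟨51, ⟨1, 0, 2, 1⟩⟩) (by decide +kernel)

def tC17_den1 : PosD ⟨⟨0, 1, 1⟩, ⟨98, 99, 147⟩, ⟨8514, 10000, 30000⟩, ⟨897, 1037, 1000⟩⟩ (tC17.hDen true) :=
  posD_of_check (c := ⟨51, ⟨1, 0, 2, 1⟩⟩) (by decide +kernel)

def tC17_ev0 : PosD ⟨⟨0, 1, 1⟩, ⟨98, 99, 147⟩, ⟨8514, 10000, 30000⟩, ⟨897, 1037, 1000⟩⟩ (tC17.hEv false) :=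
  posD_of_check (c := ⟨220, ⟨4, 2, 8, 4⟩⟩) (by decide +kernel)

def tC17_zL0 : PosD ⟨⟨0, 1, 1⟩, ⟨98, 99, 147⟩, ⟨8514, 10000, 30000⟩, ⟨897, 1037, 1000⟩⟩ (tC17.hZL false) :=
  posD_of_check (c := ⟨222, ⟨4, 3, 8, 4⟩⟩) (by decide +kernel)

def tC17_zU0 : PosD ⟨⟨0, 1, 1⟩, ⟨98, 99, 147⟩, ⟨8514, 10000, 30000⟩, ⟨897, 1037, 1000⟩⟩ (tC17.hZU false) :=
  posD_of_check (c := ⟨222, ⟨4, 3, 8, 4⟩⟩) (by decide +kernel)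

def tC17_eL0 : PosD ⟨⟨0, 1, 1⟩, ⟨98, 99, 147⟩, ⟨8514, 10000, 30000⟩, ⟨897, 1037, 1000⟩⟩ (tC17.hEL false) :=
  posD_of_check (c := ⟨315, ⟨5, 6, 11, 6⟩⟩) (by decide +kernel)

def tC17_eH0 : PosD ⟨⟨0, 1, 1⟩, ⟨98, 99, 147⟩, ⟨8514, 10000, 30000⟩, ⟨897, 1037, 1000⟩⟩ (tC17.hEH false) :=
  posD_of_check (c := ⟨314, ⟨5, 6, 11, 6⟩⟩) (by decide +kernel)

def tC17_pL0 : PosD ⟨⟨0, 1, 1⟩, ⟨98, 99, 147⟩, ⟨8514, 10000, 30000⟩, ⟨897, 1037, 1000⟩⟩ (tC17.hPL false) :=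
  posD_of_check (c := ⟨329, ⟨5, 6, 11, 6⟩⟩) (by decide +kernel)

def tC17_pU0 : PosD ⟨⟨0, 1, 1⟩, ⟨98, 99, 147⟩, ⟨8514, 10000, 30000⟩, ⟨897, 1037, 1000⟩⟩ (tC17.hPU false) :=
  posD_of_check (c := ⟨339, ⟨5, 6, 11, 7⟩⟩) (by decide +kernel)

def tC17_kU0 : PosD ⟨⟨0, 1, 1⟩, ⟨98, 99, 147⟩, ⟨8514, 10000, 30000⟩, ⟨897, 1037, 1000⟩⟩ (tC17.hKU false) :=
  posD_of_check (c := ⟨337, ⟨5, 6, 11, 7⟩⟩) (by decide +kernel)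

def tC17_kL0 : PosD ⟨⟨0, 1, 1⟩, ⟨98, 99, 147⟩, ⟨8514, 10000, 30000⟩, ⟨897, 1037, 1000⟩⟩ (tC17.hKL false) :=
  posD_of_check (c := ⟨337, ⟨5, 6, 11, 7⟩⟩) (by decide +kernel)

def tC17_wU0 : PosD ⟨⟨0, 1, 1⟩, ⟨98, 99, 147⟩, ⟨8514, 10000, 30000⟩, ⟨897, 1037, 1000⟩⟩ (tC17.hWU false) :=
  posD_of_check (c := ⟨371, ⟨5, 8, 12, 7⟩⟩) (by decide +kernel)

def tC17_wL0 : PosD ⟨⟨0, 1, 1⟩, ⟨98, 99, 147⟩, ⟨8514, 10000, 30000⟩, ⟨897, 1037, 1000⟩⟩ (tC17.hWL false) :=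
  posD_of_check (c := ⟨370, ⟨5, 8, 12, 7⟩⟩) (by decide +kernel)

def tC17_ev1 : PosD ⟨⟨0, 1, 1⟩, ⟨98, 99, 147⟩, ⟨8514, 10000, 30000⟩, ⟨897, 1037, 1000⟩⟩ (tC17.hEv true) :=
  posD_of_check (c := ⟨218, ⟨4, 2, 8, 4⟩⟩) (by decide +kernel)

def tC17_zL1 : PosD ⟨⟨0, 1, 1⟩, ⟨98, 99, 147⟩, ⟨8514, 10000, 30000⟩, ⟨897, 1037, 1000⟩⟩ (tC17.hZL true) :=
  posD_of_check (c := ⟨220, ⟨4, 3, 8, 4⟩⟩) (by decide +kernel)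

def tC17_zU1 : PosD ⟨⟨0, 1, 1⟩, ⟨98, 99, 147⟩, ⟨8514, 10000, 30000⟩, ⟨897, 1037, 1000⟩⟩ (tC17.hZU true) :=
  posD_of_check (c := ⟨220, ⟨4, 3, 8, 4⟩⟩) (by decide +kernel)

def tC17_eL1 : PosD ⟨⟨0, 1, 1⟩, ⟨98, 99, 147⟩, ⟨8514, 10000, 30000⟩, ⟨897, 1037, 1000⟩⟩ (tC17.hEL true) :=
  posD_of_check (c := ⟨313, ⟨5, 6, 11, 6⟩⟩) (by decide +kernel)

def tC17_eH1 : PosD ⟨⟨0, 1, 1⟩, ⟨98, 99, 147⟩, ⟨8514, 10000, 30000⟩, ⟨897, 1037, 1000⟩⟩ (tC17.hEH true) :=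
  posD_of_check (c := ⟨313, ⟨5, 6, 11, 6⟩⟩) (by decide +kernel)

def tC17_pL1 : PosD ⟨⟨0, 1, 1⟩, ⟨98, 99, 147⟩, ⟨8514, 10000, 30000⟩, ⟨897, 1037, 1000⟩⟩ (tC17.hPL true) :=
  posD_of_check (c := ⟨328, ⟨5, 6, 11, 6⟩⟩) (by decide +kernel)

def tC17_pU1 : PosD ⟨⟨0, 1, 1⟩, ⟨98, 99, 147⟩, ⟨8514, 10000, 30000⟩, ⟨897, 1037, 1000⟩⟩ (tC17.hPU true) :=
  posD_of_check (c := ⟨338, ⟨5, 6, 11, 7⟩⟩) (by decide +kernel)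

def tC17_kU1 : PosD ⟨⟨0, 1, 1⟩, ⟨98, 99, 147⟩, ⟨8514, 10000, 30000⟩, ⟨897, 1037, 1000⟩⟩ (tC17.hKU true) :=
  posD_of_check (c := ⟨336, ⟨5, 6, 11, 7⟩⟩) (by decide +kernel)

def tC17_kL1 : PosD ⟨⟨0, 1, 1⟩, ⟨98, 99, 147⟩, ⟨8514, 10000, 30000⟩, ⟨897, 1037, 1000⟩⟩ (tC17.hKL true) :=
  posD_of_check (c := ⟨335, ⟨5, 6, 11, 7⟩⟩) (by decide +kernel)

def tC17_wU1 : PosD ⟨⟨0, 1, 1⟩, ⟨98, 99, 147⟩, ⟨8514, 10000, 30000⟩, ⟨897, 1037, 1000⟩⟩ (tC17.hWU true) :=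
  posD_of_check (c := ⟨369, ⟨5, 8, 12, 7⟩⟩) (by decide +kernel)

def tC17_wL1 : PosD ⟨⟨0, 1, 1⟩, ⟨98, 99, 147⟩, ⟨8514, 10000, 30000⟩, ⟨897, 1037, 1000⟩⟩ (tC17.hWL true) :=
  posD_of_check (c := ⟨369, ⟨5, 8, 12, 7⟩⟩) (by decide +kernel)

def tC17_mupL : PosD ⟨⟨0, 1, 1⟩, ⟨98, 99, 147⟩, ⟨8514, 10000, 30000⟩, ⟨897, 1037, 1000⟩⟩ (tC17.pL.μ) :=
  posD_of_check (c := ⟨16, ⟨0, 0, 0, 0⟩⟩) (by decide +kernel)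

/-- The bounds of the piece. -/
def tC17_env : tC17.Env ⟨⟨0, 1, 1⟩, ⟨98, 99, 147⟩, ⟨8514, 10000, 30000⟩, ⟨897, 1037, 1000⟩⟩ :=
  ⟨tC17_p0, Bool.forall_bool.2 ⟨tC17_den0, tC17_den1⟩, tC17_gn, Bool.forall_bool.2 ⟨tC17_ev0, tC17_ev1⟩, Bool.forall_bool.2 ⟨tC17_zL0, tC17_zL1⟩, Bool.forall_bool.2 ⟨tC17_zU0, tC17_zU1⟩, Bool.forall_bool.2 ⟨tC17_eL0, tC17_eL1⟩, ⟨.inr rfl, .inr rfl⟩, Bool.forall_bool.2 ⟨tC17_eH0, tC17_eH1⟩, ⟨.inr rfl, .inr rfl⟩, Bool.forall_bool.2 ⟨tC17_pL0, tC17_pL1⟩, ⟨.inl tC17_mupL, .inr rfl⟩, Bool.forall_bool.2 ⟨tC17_pU0, tC17_pU1⟩, ⟨.inr rfl, .inr rfl⟩, Bool.forall_bool.2 ⟨tC17_kU0, tC17_kU1⟩, ⟨.inr rfl, .inr rfl⟩, Bool.forall_bool.2 ⟨tC17_kL0, tC17_kL1⟩, ⟨.inr rfl, .inr rfl⟩, Bool.forall_bool.2 ⟨tC17_wU0, tC17_wU1⟩,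 ⟨.inr rfl, .inr rfl⟩, Bool.forall_bool.2 ⟨tC17_wL0, tC17_wL1⟩, ⟨.inr rfl, .inr rfl⟩⟩

def tC17_pp : PosD ⟨⟨0, 1, 1⟩, ⟨98, 99, 147⟩, ⟨8514, 10000, 30000⟩, ⟨897, 1037, 1000⟩⟩ (tC17.xPL) :=
  posD_of_check (c := ⟨62, ⟨1, 1, 2, 2⟩⟩) (by decide +kernel)

def tC17_k2p : PosD ⟨⟨0, 1, 1⟩, ⟨98, 99, 147⟩, ⟨8514, 10000, 30000⟩, ⟨897, 1037, 1000⟩⟩ (tC17.k2p tC17.xE) :=
  posD_of_check (c := ⟨30, ⟨0, 0, 1, 1⟩⟩) (by decide +kernel)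

def tC17_k2m : PosD ⟨⟨0, 1, 1⟩, ⟨98, 99, 147⟩, ⟨8514, 10000, 30000⟩, ⟨897, 1037, 1000⟩⟩ (tC17.k2m tC17.xE) :=
  posD_of_check (c := ⟨71, ⟨1, 1, 2, 2⟩⟩) (by decide +kernel)

def tC17_v2p : PosD ⟨⟨0, 1, 1⟩, ⟨98, 99, 147⟩, ⟨8514, 10000, 30000⟩, ⟨897, 1037, 1000⟩⟩ (tC17.hV2p) :=
  posD_of_check (c := ⟨244, ⟨0, 5, 10, 4⟩⟩) (by decide +kernel)

def tC17_v2m : PosD ⟨⟨0, 1, 1⟩, ⟨98, 99, 147⟩, ⟨8514, 10000, 30000⟩, ⟨897, 1037, 1000⟩⟩ (tC17.hV2m) :=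
  posD_of_check (c := ⟨272, ⟨1, 6, 10, 5⟩⟩) (by decide +kernel)

def tC17_v3p : PosD ⟨⟨0, 1, 1⟩, ⟨98, 99, 147⟩, ⟨8514, 10000, 30000⟩, ⟨897, 1037, 1000⟩⟩ (tC17.hV3p) :=
  posD_of_check (c := ⟨232, ⟨0, 5, 9, 4⟩⟩) (by decide +kernel)

def tC17_v3m : PosD ⟨⟨0, 1, 1⟩, ⟨98, 99, 147⟩, ⟨8514, 10000, 30000⟩, ⟨897, 1037, 1000⟩⟩ (tC17.hV3m) :=
  posD_of_check (c := ⟨257, ⟨1, 6, 9, 5⟩⟩) (by decide +kernel)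

def tC17_kap0 : PosD ⟨⟨0, 1, 1⟩, ⟨98, 99, 147⟩, ⟨8514, 10000, 30000⟩, ⟨897, 1037, 1000⟩⟩ (tC17.kap false) :=
  posD_of_check (c := ⟨67, ⟨1, 1, 2, 2⟩⟩) (by decide +kernel)

def tC17_c10a : PosD ⟨⟨0, 1, 2⟩, ⟨98, 99, 147⟩, ⟨8514, 10000, 30000⟩, ⟨897, 1037, 1000⟩⟩ (tC17.hC1 false) :=
  posD_of_check (c := ⟨240, ⟨3, 5, 8, 6⟩⟩) (by decide +kernel)

def tC17_c10b : PosD ⟨⟨1, 2, 2⟩, ⟨98, 99, 147⟩, ⟨8514, 10000, 30000⟩, ⟨897, 1037, 1000⟩⟩ (tC17.hC1 false) :=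
  posD_of_check (c := ⟨241, ⟨3, 5, 8, 6⟩⟩) (by decide +kernel)

def tC17_c10 : PosD ⟨⟨0, 1, 1⟩, ⟨98, 99, 147⟩, ⟨8514, 10000, 30000⟩, ⟨897, 1037, 1000⟩⟩ (tC17.hC1 false) :=
  posD_units (b := ⟨⟨0, 2, 2⟩, ⟨98, 99, 147⟩, ⟨8514, 10000, 30000⟩, ⟨897, 1037, 1000⟩⟩) (by decide +kernel) (posD_join₀ tC17_c10a tC17_c10b)

def tC17_c1h0 : PosD ⟨⟨0, 1, 1⟩, ⟨98, 99, 147⟩, ⟨8514, 10000, 30000⟩, ⟨897, 1037, 1000⟩⟩ (tC17.hC1' false) :=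
  posD_of_check (c := ⟨239, ⟨3, 5, 8, 6⟩⟩) (by decide +kernel)

def tC17_tg00 : PosD ⟨⟨0, 1, 1⟩, ⟨98, 99, 147⟩, ⟨8514, 10000, 30000⟩, ⟨897, 1037, 1000⟩⟩ (tC17.hG false (tC17.pEnd false)) :=
  posD_of_check (c := ⟨375, ⟨2, 7, 14, 9⟩⟩) (by decide +kernel)

def tC17_c2p00 : PosD ⟨⟨0, 1, 1⟩, ⟨98, 99, 147⟩, ⟨8514, 10000, 30000⟩, ⟨897, 1037, 1000⟩⟩ (tC17.hC2p false (tC17.pEnd false)) :=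
  posD_of_check (c := ⟨407, ⟨2, 7, 15, 10⟩⟩) (by decide +kernel)

def tC17_c2m00 : PosD ⟨⟨0, 1, 1⟩, ⟨98, 99, 147⟩, ⟨8514, 10000, 30000⟩, ⟨897, 1037, 1000⟩⟩ (tC17.hC2m false (tC17.pEnd false)) :=
  posD_of_check (c := ⟨446, ⟨3, 8, 16, 11⟩⟩) (by decide +kernel)

def tC17_c3p00 : PosD ⟨⟨0, 1, 1⟩, ⟨98, 99, 147⟩, ⟨8514, 10000, 30000⟩, ⟨897, 1037, 1000⟩⟩ (tC17.hC3p false false) :=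
  posD_of_check (c := ⟨372, ⟨3, 7, 14, 9⟩⟩) (by decide +kernel)

def tC17_c3m00 : PosD ⟨⟨0, 1, 1⟩, ⟨98, 99, 147⟩, ⟨8514, 10000, 30000⟩, ⟨897, 1037, 1000⟩⟩ (tC17.hC3m false false) :=
  posD_of_check (c := ⟨406, ⟨3, 8, 14, 10⟩⟩) (by decide +kernel)

def tC17_c3ph00 : PosD ⟨⟨0, 1, 1⟩, ⟨98, 99, 147⟩, ⟨8514, 10000, 30000⟩, ⟨897, 1037, 1000⟩⟩ (tC17.hC3p' false false) :=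
  posD_of_check (c := ⟨372, ⟨3, 7, 14, 9⟩⟩) (by decide +kernel)

def tC17_c3mh00 : PosD ⟨⟨0, 1, 1⟩, ⟨98, 99, 147⟩, ⟨8514, 10000, 30000⟩, ⟨897, 1037, 1000⟩⟩ (tC17.hC3m' false false) :=
  posD_of_check (c := ⟨406, ⟨3, 8, 14, 10⟩⟩) (by decide +kernel)

def tC17_up00 : PosD ⟨⟨0, 1, 1⟩, ⟨98, 99, 147⟩, ⟨8514, 10000, 30000⟩, ⟨897, 1037, 1000⟩⟩ (tC17.hUp false false) :=
  posD_of_check (c := ⟨371, ⟨2, 7, 14, 9⟩⟩) (by decide +kernel)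

def tC17_um00 : PosD ⟨⟨0, 1, 1⟩, ⟨98, 99, 147⟩, ⟨8514, 10000, 30000⟩, ⟨897, 1037, 1000⟩⟩ (tC17.hUm false false) :=
  posD_of_check (c := ⟨406, ⟨3, 8, 14, 10⟩⟩) (by decide +kernel)

def tC17_tmg00 : PosD ⟨⟨0, 1, 1⟩, ⟨98, 99, 147⟩, ⟨8514, 10000, 30000⟩, ⟨897, 1037, 1000⟩⟩ (tC17.hTMG false (tC17.pEnd false)) :=
  posD_of_check (c := ⟨354, ⟨2, 7, 13, 8⟩⟩) (by decide +kernel)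

def tC17_tg01 : PosD ⟨⟨0, 1, 1⟩, ⟨98, 99, 147⟩, ⟨8514, 10000, 30000⟩, ⟨897, 1037, 1000⟩⟩ (tC17.hG true (tC17.pEnd false)) :=
  posD_of_check (c := ⟨375, ⟨2, 7, 14, 9⟩⟩) (by decide +kernel)

def tC17_c2p01 : PosD ⟨⟨0, 1, 1⟩, ⟨98, 99, 147⟩, ⟨8514, 10000, 30000⟩, ⟨897, 1037, 1000⟩⟩ (tC17.hC2p true (tC17.pEnd false)) :=
  posD_of_check (c := ⟨407, ⟨2, 7, 15, 10⟩⟩) (by decide +kernel)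

def tC17_c2m01 : PosD ⟨⟨0, 1, 1⟩, ⟨98, 99, 147⟩, ⟨8514, 10000, 30000⟩, ⟨897, 1037, 1000⟩⟩ (tC17.hC2m true (tC17.pEnd false)) :=
  posD_of_check (c := ⟨446, ⟨3, 8, 16, 11⟩⟩) (by decide +kernel)

def tC17_c3p01 : PosD ⟨⟨0, 1, 1⟩, ⟨98, 99, 147⟩, ⟨8514, 10000, 30000⟩, ⟨897, 1037, 1000⟩⟩ (tC17.hC3p false true) :=
  posD_of_check (c := ⟨372, ⟨3, 7, 14, 9⟩⟩) (by decide +kernel)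

def tC17_c3m01 : PosD ⟨⟨0, 1, 1⟩, ⟨98, 99, 147⟩, ⟨8514, 10000, 30000⟩, ⟨897, 1037, 1000⟩⟩ (tC17.hC3m false true) :=
  posD_of_check (c := ⟨406, ⟨3, 8, 14, 10⟩⟩) (by decide +kernel)

def tC17_c3ph01 : PosD ⟨⟨0, 1, 1⟩, ⟨98, 99, 147⟩, ⟨8514, 10000, 30000⟩, ⟨897, 1037, 1000⟩⟩ (tC17.hC3p' false true) :=
  posD_of_check (c := ⟨372, ⟨3, 7, 14, 9⟩⟩) (by decide +kernel)

def tC17_c3mh01 : PosD ⟨⟨0, 1, 1⟩, ⟨98, 99, 147⟩, ⟨8514, 10000, 30000⟩, ⟨897, 1037, 1000⟩⟩ (tC17.hC3m' false true) :=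
  posD_of_check (c := ⟨406, ⟨3, 8, 14, 10⟩⟩) (by decide +kernel)

def tC17_up01 : PosD ⟨⟨0, 1, 1⟩, ⟨98, 99, 147⟩, ⟨8514, 10000, 30000⟩, ⟨897, 1037, 1000⟩⟩ (tC17.hUp false true) :=
  posD_of_check (c := ⟨371, ⟨2, 7, 14, 9⟩⟩) (by decide +kernel)

def tC17_um01 : PosD ⟨⟨0, 1, 1⟩, ⟨98, 99, 147⟩, ⟨8514, 10000, 30000⟩, ⟨897, 1037, 1000⟩⟩ (tC17.hUm false true) :=
  posD_of_check (c := ⟨406, ⟨3, 8, 14, 10⟩⟩) (by decide +kernel)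

def tC17_tmg01 : PosD ⟨⟨0, 1, 1⟩, ⟨98, 99, 147⟩, ⟨8514, 10000, 30000⟩, ⟨897, 1037, 1000⟩⟩ (tC17.hTMG true (tC17.pEnd false)) :=
  posD_of_check (c := ⟨354, ⟨2, 7, 13, 8⟩⟩) (by decide +kernel)

def tC17_kap1 : PosD ⟨⟨0, 1, 1⟩, ⟨98, 99, 147⟩, ⟨8514, 10000, 30000⟩, ⟨897, 1037, 1000⟩⟩ (tC17.kap true) :=
  posD_of_check (c := ⟨69, ⟨1, 1, 2, 2⟩⟩) (by decide +kernel)

def tC17_c11a : PosD ⟨⟨0, 1, 2⟩, ⟨98, 99, 147⟩, ⟨8514, 10000, 30000⟩, ⟨897, 1037, 1000⟩⟩ (tC17.hC1 true) :=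
  posD_of_check (c := ⟨272, ⟨3, 5, 9, 7⟩⟩) (by decide +kernel)

def tC17_c11b : PosD ⟨⟨1, 2, 2⟩, ⟨98, 99, 147⟩, ⟨8514, 10000, 30000⟩, ⟨897, 1037, 1000⟩⟩ (tC17.hC1 true) :=
  posD_of_check (c := ⟨274, ⟨3, 5, 9, 7⟩⟩) (by decide +kernel)

def tC17_c11 : PosD ⟨⟨0, 1, 1⟩, ⟨98, 99, 147⟩, ⟨8514, 10000, 30000⟩, ⟨897, 1037, 1000⟩⟩ (tC17.hC1 true) :=
  posD_units (b := ⟨⟨0, 2, 2⟩, ⟨98, 99, 147⟩, ⟨8514, 10000, 30000⟩, ⟨897, 1037, 1000⟩⟩) (by decide +kernel) (posD_join₀ tC17_c11a tC17_c11b)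

def tC17_c1h1 : PosD ⟨⟨0, 1, 1⟩, ⟨98, 99, 147⟩, ⟨8514, 10000, 30000⟩, ⟨897, 1037, 1000⟩⟩ (tC17.hC1' true) :=
  posD_of_check (c := ⟨272, ⟨3, 5, 9, 7⟩⟩) (by decide +kernel)

def tC17_tg10 : PosD ⟨⟨0, 1, 1⟩, ⟨98, 99, 147⟩, ⟨8514, 10000, 30000⟩, ⟨897, 1037, 1000⟩⟩ (tC17.hG false (tC17.pEnd true)) :=
  posD_of_check (c := ⟨386, ⟨2, 7, 14, 9⟩⟩) (by decide +kernel)

def tC17_c2p10 : PosD ⟨⟨0, 1, 1⟩, ⟨98, 99, 147⟩, ⟨8514, 10000, 30000⟩, ⟨897, 1037, 1000⟩⟩ (tC17.hC2p false (tC17.pEnd true)) :=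
  posD_of_check (c := ⟨429, ⟨2, 7, 16, 10⟩⟩) (by decide +kernel)

def tC17_c2m10 : PosD ⟨⟨0, 1, 1⟩, ⟨98, 99, 147⟩, ⟨8514, 10000, 30000⟩, ⟨897, 1037, 1000⟩⟩ (tC17.hC2m false (tC17.pEnd true)) :=
  posD_of_check (c := ⟨457, ⟨3, 8, 16, 11⟩⟩) (by decide +kernel)

def tC17_c3p10 : PosD ⟨⟨0, 1, 1⟩, ⟨98, 99, 147⟩, ⟨8514, 10000, 30000⟩, ⟨897, 1037, 1000⟩⟩ (tC17.hC3p true false) :=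
  posD_of_relax (k₁ := 0) (k₂ := 0) (k₃ := 2) (n := 16) (posD_of_check (c := ⟨419, ⟨3, 7, 15, 10⟩⟩) (by decide +kernel))

def tC17_c3m10 : PosD ⟨⟨0, 1, 1⟩, ⟨98, 99, 147⟩, ⟨8514, 10000, 30000⟩, ⟨897, 1037, 1000⟩⟩ (tC17.hC3m true false) :=
  posD_of_relax (k₁ := 0) (k₂ := 0) (k₃ := 3) (n := 16) (posD_of_check (c := ⟨443, ⟨3, 8, 15, 11⟩⟩) (by decide +kernel))

def tC17_c3ph10 : PosD ⟨⟨0, 1, 1⟩, ⟨98, 99, 147⟩, ⟨8514, 10000, 30000⟩, ⟨897, 1037, 1000⟩⟩ (tC17.hC3p' true false) :=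
  posD_of_check (c := ⟨419, ⟨3, 7, 15, 10⟩⟩) (by decide +kernel)

def tC17_c3mh10 : PosD ⟨⟨0, 1, 1⟩, ⟨98, 99, 147⟩, ⟨8514, 10000, 30000⟩, ⟨897, 1037, 1000⟩⟩ (tC17.hC3m' true false) :=
  posD_of_check (c := ⟨443, ⟨3, 8, 15, 11⟩⟩) (by decide +kernel)

def tC17_up10 : PosD ⟨⟨0, 1, 1⟩, ⟨98, 99, 147⟩, ⟨8514, 10000, 30000⟩, ⟨897, 1037, 1000⟩⟩ (tC17.hUp true false) :=
  posD_of_check (c := ⟨417, ⟨2, 7, 15, 10⟩⟩) (by decide +kernel)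

def tC17_um10 : PosD ⟨⟨0, 1, 1⟩, ⟨98, 99, 147⟩, ⟨8514, 10000, 30000⟩, ⟨897, 1037, 1000⟩⟩ (tC17.hUm true false) :=
  posD_of_check (c := ⟨442, ⟨3, 8, 15, 11⟩⟩) (by decide +kernel)

def tC17_tmg10 : PosD ⟨⟨0, 1, 1⟩, ⟨98, 99, 147⟩, ⟨8514, 10000, 30000⟩, ⟨897, 1037, 1000⟩⟩ (tC17.hTMG false (tC17.pEnd true)) :=
  posD_of_check (c := ⟨401, ⟨2, 7, 14, 10⟩⟩) (by decide +kernel)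

def tC17_tg11 : PosD ⟨⟨0, 1, 1⟩, ⟨98, 99, 147⟩, ⟨8514, 10000, 30000⟩, ⟨897, 1037, 1000⟩⟩ (tC17.hG true (tC17.pEnd true)) :=
  posD_of_check (c := ⟨386, ⟨2, 7, 14, 9⟩⟩) (by decide +kernel)

def tC17_c2p11 : PosD ⟨⟨0, 1, 1⟩, ⟨98, 99, 147⟩, ⟨8514, 10000, 30000⟩, ⟨897, 1037, 1000⟩⟩ (tC17.hC2p true (tC17.pEnd true)) :=
  posD_of_check (c := ⟨429, ⟨2, 7, 16, 10⟩⟩) (by decide +kernel)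

def tC17_c2m11 : PosD ⟨⟨0, 1, 1⟩, ⟨98, 99, 147⟩, ⟨8514, 10000, 30000⟩, ⟨897, 1037, 1000⟩⟩ (tC17.hC2m true (tC17.pEnd true)) :=
  posD_of_check (c := ⟨457, ⟨3, 8, 16, 11⟩⟩) (by decide +kernel)

def tC17_c3p11 : PosD ⟨⟨0, 1, 1⟩, ⟨98, 99, 147⟩, ⟨8514, 10000, 30000⟩, ⟨897, 1037, 1000⟩⟩ (tC17.hC3p true true) :=
  posD_of_check (c := ⟨419, ⟨3, 7, 15, 10⟩⟩) (by decide +kernel)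

def tC17_c3m11 : PosD ⟨⟨0, 1, 1⟩, ⟨98, 99, 147⟩, ⟨8514, 10000, 30000⟩, ⟨897, 1037, 1000⟩⟩ (tC17.hC3m true true) :=
  posD_of_check (c := ⟨443, ⟨3, 8, 15, 11⟩⟩) (by decide +kernel)

def tC17_c3ph11 : PosD ⟨⟨0, 1, 1⟩, ⟨98, 99, 147⟩, ⟨8514, 10000, 30000⟩, ⟨897, 1037, 1000⟩⟩ (tC17.hC3p' true true) :=
  posD_of_check (c := ⟨419, ⟨3, 7, 15, 10⟩⟩) (by decide +kernel)

def tC17_c3mh11 : PosD ⟨⟨0, 1, 1⟩, ⟨98, 99, 147⟩, ⟨8514, 10000, 30000⟩, ⟨897, 1037, 1000⟩⟩ (tC17.hC3m' true true) :=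
  posD_of_check (c := ⟨443, ⟨3, 8, 15, 11⟩⟩) (by decide +kernel)

def tC17_up11 : PosD ⟨⟨0, 1, 1⟩, ⟨98, 99, 147⟩, ⟨8514, 10000, 30000⟩, ⟨897, 1037, 1000⟩⟩ (tC17.hUp true true) :=
  posD_of_check (c := ⟨417, ⟨2, 7, 15, 10⟩⟩) (by decide +kernel)

def tC17_um11 : PosD ⟨⟨0, 1, 1⟩, ⟨98, 99, 147⟩, ⟨8514, 10000, 30000⟩, ⟨897, 1037, 1000⟩⟩ (tC17.hUm true true) :=
  posD_of_check (c := ⟨443, ⟨3, 8, 15, 11⟩⟩) (by decide +kernel)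

def tC17_tmg11 : PosD ⟨⟨0, 1, 1⟩, ⟨98, 99, 147⟩, ⟨8514, 10000, 30000⟩, ⟨897, 1037, 1000⟩⟩ (tC17.hTMG true (tC17.pEnd true)) :=
  posD_of_check (c := ⟨401, ⟨2, 7, 14, 10⟩⟩) (by decide +kernel)

/-- The signs of the piece. -/
def tC17_sign : tC17.Sign ⟨⟨0, 1, 1⟩, ⟨98, 99, 147⟩, ⟨8514, 10000, 30000⟩, ⟨897, 1037, 1000⟩⟩ :=
  ⟨tC17_pp,
    tC17_k2p,
    tC17_k2m,
    Bool.forall_bool.2 ⟨(Bool.forall_bool.2 ⟨tC17_tg00, tC17_tg01⟩), (Bool.forall_bool.2 ⟨tC17_tg10, tC17_tg11⟩)⟩,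
    Bool.forall_bool.2 ⟨(Bool.forall_bool.2 ⟨tC17_c2p00, tC17_c2p01⟩), (Bool.forall_bool.2 ⟨tC17_c2p10, tC17_c2p11⟩)⟩,
    Bool.forall_bool.2 ⟨(Bool.forall_bool.2 ⟨tC17_c2m00, tC17_c2m01⟩), (Bool.forall_bool.2 ⟨tC17_c2m10, tC17_c2m11⟩)⟩,
    Bool.forall_bool.2 ⟨tC17_kap0, tC17_kap1⟩,
    Bool.forall_bool.2 ⟨tC17_c10, tC17_c11⟩,
    Bool.forall_bool.2 ⟨(Bool.forall_bool.2 ⟨tC17_c3p00, tC17_c3p01⟩), (Bool.forall_bool.2 ⟨tC17_c3p10, tC17_c3p11⟩)⟩,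
    Bool.forall_bool.2 ⟨(Bool.forall_bool.2 ⟨tC17_c3m00, tC17_c3m01⟩), (Bool.forall_bool.2 ⟨tC17_c3m10, tC17_c3m11⟩)⟩,
    Bool.forall_bool.2 ⟨(Bool.forall_bool.2 ⟨tC17_tmg00, tC17_tmg01⟩), (Bool.forall_bool.2 ⟨tC17_tmg10, tC17_tmg11⟩)⟩,
    .inr (Bool.forall_bool.2 ⟨⟨tC17_c1h0, Bool.forall_bool.2 ⟨⟨tC17_c3ph00, tC17_c3mh00, tC17_up00, tC17_um00⟩, ⟨tC17_c3ph01, tC17_c3mh01, tC17_up01, tC17_um01⟩⟩⟩, ⟨tC17_c1h1, Bool.forall_bool.2 ⟨⟨tC17_c3ph10, tC17_c3mh10, tC17_up10, tC17_um10⟩, ⟨tC17_c3ph11, tC17_c3mh11, tC17_up11, tC17_um11⟩⟩⟩⟩),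
    tC17_v2p,
    tC17_v2m,
    tC17_v3p,
    tC17_v3m,
    posD_sub (b := ⟨⟨0, 1, 1⟩, ⟨98, 99, 147⟩, ⟨4050, 10000, 30000⟩, ⟨290, 4000, 1000⟩⟩) (by decide +kernel) tC_vG,
    posD_sub (b := ⟨⟨0, 1, 1⟩, ⟨98, 99, 147⟩, ⟨4050, 10000, 30000⟩, ⟨290, 4000, 1000⟩⟩) (by decide +kernel) tC_vMG,
    posD_sub (b := ⟨⟨0, 1, 1⟩, ⟨98, 99, 147⟩, ⟨4050, 10000, 30000⟩, ⟨290, 4000, 1000⟩⟩) (by decide +kernel) tC_ak,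
    posD_sub (b := ⟨⟨0, 1, 1⟩, ⟨98, 99, 147⟩, ⟨4050, 10000, 30000⟩, ⟨290, 4000, 1000⟩⟩) (by decide +kernel) tC_aw,
    posD_sub (b := ⟨⟨0, 1, 1⟩, ⟨98, 99, 147⟩, ⟨4050, 10000, 30000⟩, ⟨290, 4000, 1000⟩⟩) (by decide +kernel) tC_gk,
    posD_sub (b := ⟨⟨0, 1, 1⟩, ⟨98, 99, 147⟩, ⟨4050, 10000, 30000⟩, ⟨290, 4000, 1000⟩⟩) (by decide +kernel) tC_gw,
    posD_sub (b := ⟨⟨0, 1, 1⟩, ⟨98, 99, 147⟩, ⟨4050, 10000, 30000⟩, ⟨290, 4000, 1000⟩⟩) (by decide +kernel) tC_ek,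
    posD_sub (b := ⟨⟨0, 1, 1⟩, ⟨98, 99, 147⟩, ⟨4050, 10000, 30000⟩, ⟨290, 4000, 1000⟩⟩) (by decide +kernel) tC_ew⟩

end Vale.Agent.P100.Calib.Closed.Six.Tail
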