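import Vale.Agent.P100.Calib.SlabSixTailDataC
import Vale.Agent.P100.Calib.SlabSixTailGlobC

/-!
# Checks of some pieces of the certificate

The checks are written as definitions so that they run one after another, which keeps the memory of the
kernel low.
-/

set_option linter.defProp false

namespace Vale.Agent.P100.Calib.Closed.Six.Tail

open BoxPos Large

local instance sixTailCheckstC8Add : Add Ex := ⟨Ex.add⟩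
local instance sixTailCheckstC8Sub : Sub Ex := ⟨Ex.sub⟩
local instance sixTailCheckstC8Mul : Mul Ex := ⟨Ex.mul⟩

def tC18_phx : PosIf ⟨⟨0, 1, 1⟩, ⟨98, 99, 147⟩, ⟨8514, 9258, 30000⟩, ⟨1037, 1200, 1000⟩⟩ (tC18.u₁ - tC18Lo) (phCn (tC18.u₁ + xO * (tC18Lo - tC18.u₁))) :=
  posIf_of_posD (posD_of_check (c := ⟨109, ⟨2, 0, 4, 2⟩⟩) (by decide +kernel))

def tC18_phd : PosD ⟨⟨0, 1, 1⟩, ⟨98, 99, 147⟩, ⟨8514, 9258, 30000⟩, ⟨1037, 1200, 1000⟩⟩ (phCd (tC18.u₁ + xO * (tC18Lo - tC18.u₁))) :=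
  posD_of_check (c := ⟨51, ⟨1, 0, 2, 1⟩⟩) (by decide +kernel)

def tC18_p0 : PosD ⟨⟨0, 1, 1⟩, ⟨98, 99, 147⟩, ⟨8514, 9258, 30000⟩, ⟨1037, 1200, 1000⟩⟩ (tC18.hP0) :=
  posD_of_check (c := ⟨83, ⟨0, 2, 3, 1⟩⟩) (by decide +kernel)

def tC18_gn : PosD ⟨⟨0, 1, 1⟩, ⟨98, 99, 147⟩, ⟨8514, 9258, 30000⟩, ⟨1037, 1200, 1000⟩⟩ (tC18.hGn) :=
  posD_of_check (c := ⟨69, ⟨1, 1, 2, 2⟩⟩) (by decide +kernel)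

def tC18_den0 : PosD ⟨⟨0, 1, 1⟩, ⟨98, 99, 147⟩, ⟨8514, 9258, 30000⟩, ⟨1037, 1200, 1000⟩⟩ (tC18.hDen false) :=
  posD_of_check (c := ⟨51, ⟨1, 0, 2, 1⟩⟩) (by decide +kernel)

def tC18_den1 : PosD ⟨⟨0, 1, 1⟩, ⟨98, 99, 147⟩, ⟨8514, 9258, 30000⟩, ⟨1037, 1200, 1000⟩⟩ (tC18.hDen true) :=
  posD_of_check (c := ⟨51, ⟨1, 0, 2, 1⟩⟩) (by decide +kernel)

def tC18_ev0 : PosD ⟨⟨0, 1, 1⟩, ⟨98, 99, 147⟩, ⟨8514, 9258, 30000⟩, ⟨1037, 1200, 1000⟩⟩ (tC18.hEv false) :=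
  posD_of_check (c := ⟨220, ⟨4, 2, 8, 4⟩⟩) (by decide +kernel)

def tC18_zL0 : PosD ⟨⟨0, 1, 1⟩, ⟨98, 99, 147⟩, ⟨8514, 9258, 30000⟩, ⟨1037, 1200, 1000⟩⟩ (tC18.hZL false) :=
  posD_of_check (c := ⟨222, ⟨4, 3, 8, 4⟩⟩) (by decide +kernel)

def tC18_zU0 : PosD ⟨⟨0, 1, 1⟩, ⟨98, 99, 147⟩, ⟨8514, 9258, 30000⟩, ⟨1037, 1200, 1000⟩⟩ (tC18.hZU false) :=
  posD_of_check (c := ⟨222, ⟨4, 3, 8, 4⟩⟩) (by decide +kernel)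

def tC18_eL0 : PosD ⟨⟨0, 1, 1⟩, ⟨98, 99, 147⟩, ⟨8514, 9258, 30000⟩, ⟨1037, 1200, 1000⟩⟩ (tC18.hEL false) :=
  posD_of_check (c := ⟨315, ⟨5, 6, 11, 6⟩⟩) (by decide +kernel)

def tC18_eH0 : PosD ⟨⟨0, 1, 1⟩, ⟨98, 99, 147⟩, ⟨8514, 9258, 30000⟩, ⟨1037, 1200, 1000⟩⟩ (tC18.hEH false) :=
  posD_of_check (c := ⟨314, ⟨5, 6, 11, 6⟩⟩) (by decide +kernel)

def tC18_pL0 : PosD ⟨⟨0, 1, 1⟩, ⟨98, 99, 147⟩, ⟨8514, 9258, 30000⟩, ⟨1037, 1200, 1000⟩⟩ (tC18.hPL false) :=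
  posD_of_check (c := ⟨339, ⟨5, 6, 11, 7⟩⟩) (by decide +kernel)

def tC18_pU0 : PosD ⟨⟨0, 1, 1⟩, ⟨98, 99, 147⟩, ⟨8514, 9258, 30000⟩, ⟨1037, 1200, 1000⟩⟩ (tC18.hPU false) :=
  posD_of_check (c := ⟨342, ⟨5, 6, 11, 7⟩⟩) (by decide +kernel)

def tC18_kU0 : PosD ⟨⟨0, 1, 1⟩, ⟨98, 99, 147⟩, ⟨8514, 9258, 30000⟩, ⟨1037, 1200, 1000⟩⟩ (tC18.hKU false) :=
  posD_of_check (c := ⟨337, ⟨5, 6, 11, 7⟩⟩) (by decide +kernel)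

def tC18_kL0 : PosD ⟨⟨0, 1, 1⟩, ⟨98, 99, 147⟩, ⟨8514, 9258, 30000⟩, ⟨1037, 1200, 1000⟩⟩ (tC18.hKL false) :=
  posD_of_check (c := ⟨337, ⟨5, 6, 11, 7⟩⟩) (by decide +kernel)

def tC18_wU0 : PosD ⟨⟨0, 1, 1⟩, ⟨98, 99, 147⟩, ⟨8514, 9258, 30000⟩, ⟨1037, 1200, 1000⟩⟩ (tC18.hWU false) :=
  posD_of_check (c := ⟨371, ⟨5, 8, 12, 7⟩⟩) (by decide +kernel)

def tC18_wL0 : PosD ⟨⟨0, 1, 1⟩, ⟨98, 99, 147⟩, ⟨8514, 9258, 30000⟩, ⟨1037, 1200, 1000⟩⟩ (tC18.hWL false) :=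
  posD_of_check (c := ⟨371, ⟨5, 8, 12, 7⟩⟩) (by decide +kernel)

def tC18_ev1 : PosD ⟨⟨0, 1, 1⟩, ⟨98, 99, 147⟩, ⟨8514, 9258, 30000⟩, ⟨1037, 1200, 1000⟩⟩ (tC18.hEv true) :=
  posD_of_check (c := ⟨218, ⟨4, 2, 8, 4⟩⟩) (by decide +kernel)

def tC18_zL1 : PosD ⟨⟨0, 1, 1⟩, ⟨98, 99, 147⟩, ⟨8514, 9258, 30000⟩, ⟨1037, 1200, 1000⟩⟩ (tC18.hZL true) :=
  posD_of_check (c := ⟨220, ⟨4, 3, 8, 4⟩⟩) (by decide +kernel)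

def tC18_zU1 : PosD ⟨⟨0, 1, 1⟩, ⟨98, 99, 147⟩, ⟨8514, 9258, 30000⟩, ⟨1037, 1200, 1000⟩⟩ (tC18.hZU true) :=
  posD_of_check (c := ⟨220, ⟨4, 3, 8, 4⟩⟩) (by decide +kernel)

def tC18_eL1 : PosD ⟨⟨0, 1, 1⟩, ⟨98, 99, 147⟩, ⟨8514, 9258, 30000⟩, ⟨1037, 1200, 1000⟩⟩ (tC18.hEL true) :=
  posD_of_check (c := ⟨314, ⟨5, 6, 11, 6⟩⟩) (by decide +kernel)

def tC18_eH1 : PosD ⟨⟨0, 1, 1⟩, ⟨98, 99, 147⟩, ⟨8514, 9258, 30000⟩, ⟨1037, 1200, 1000⟩⟩ (tC18.hEH true) :=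
  posD_of_check (c := ⟨313, ⟨5, 6, 11, 6⟩⟩) (by decide +kernel)

def tC18_pL1 : PosD ⟨⟨0, 1, 1⟩, ⟨98, 99, 147⟩, ⟨8514, 9258, 30000⟩, ⟨1037, 1200, 1000⟩⟩ (tC18.hPL true) :=
  posD_of_check (c := ⟨338, ⟨5, 6, 11, 7⟩⟩) (by decide +kernel)

def tC18_pU1 : PosD ⟨⟨0, 1, 1⟩, ⟨98, 99, 147⟩, ⟨8514, 9258, 30000⟩, ⟨1037, 1200, 1000⟩⟩ (tC18.hPU true) :=
  posD_of_check (c := ⟨340, ⟨5, 6, 11, 7⟩⟩) (by decide +kernel)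

def tC18_kU1 : PosD ⟨⟨0, 1, 1⟩, ⟨98, 99, 147⟩, ⟨8514, 9258, 30000⟩, ⟨1037, 1200, 1000⟩⟩ (tC18.hKU true) :=
  posD_of_check (c := ⟨335, ⟨5, 6, 11, 7⟩⟩) (by decide +kernel)

def tC18_kL1 : PosD ⟨⟨0, 1, 1⟩, ⟨98, 99, 147⟩, ⟨8514, 9258, 30000⟩, ⟨1037, 1200, 1000⟩⟩ (tC18.hKL true) :=
  posD_of_check (c := ⟨335, ⟨5, 6, 11, 7⟩⟩) (by decide +kernel)

def tC18_wU1 : PosD ⟨⟨0, 1, 1⟩, ⟨98, 99, 147⟩, ⟨8514, 9258, 30000⟩, ⟨1037, 1200, 1000⟩⟩ (tC18.hWU true) :=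
  posD_of_check (c := ⟨369, ⟨5, 8, 12, 7⟩⟩) (by decide +kernel)

def tC18_wL1 : PosD ⟨⟨0, 1, 1⟩, ⟨98, 99, 147⟩, ⟨8514, 9258, 30000⟩, ⟨1037, 1200, 1000⟩⟩ (tC18.hWL true) :=
  posD_of_check (c := ⟨369, ⟨5, 8, 12, 7⟩⟩) (by decide +kernel)

def tC18_mupL : PosD ⟨⟨0, 1, 1⟩, ⟨98, 99, 147⟩, ⟨8514, 9258, 30000⟩, ⟨1037, 1200, 1000⟩⟩ (tC18.pL.μ) :=
  posD_of_check (c := ⟨12, ⟨0, 0, 0, 0⟩⟩) (by decide +kernel)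

/-- The bounds of the piece. -/
def tC18_env : tC18.Env ⟨⟨0, 1, 1⟩, ⟨98, 99, 147⟩, ⟨8514, 9258, 30000⟩, ⟨1037, 1200, 1000⟩⟩ :=
  ⟨tC18_p0, Bool.forall_bool.2 ⟨tC18_den0, tC18_den1⟩, tC18_gn, Bool.forall_bool.2 ⟨tC18_ev0, tC18_ev1⟩, Bool.forall_bool.2 ⟨tC18_zL0, tC18_zL1⟩, Bool.forall_bool.2 ⟨tC18_zU0, tC18_zU1⟩, Bool.forall_bool.2 ⟨tC18_eL0, tC18_eL1⟩, ⟨.inr rfl, .inr rfl⟩, Bool.forall_bool.2 ⟨tC18_eH0, tC18_eH1⟩, ⟨.inr rfl, .inr rfl⟩, Bool.forall_bool.2 ⟨tC18_pL0, tC18_pL1⟩, ⟨.inl tC18_mupL, .inr rfl⟩, Bool.forall_bool.2 ⟨tC18_pU0, tC18_pU1⟩, ⟨.inr rfl, .inr rfl⟩, Bool.forall_bool.2 ⟨tC18_kU0, tC18_kU1⟩, ⟨.inr rfl, .inr rfl⟩, Bool.forall_bool.2 ⟨tC18_kL0, tC18_kL1⟩, ⟨.inr rfl, .inr rfl⟩, Bool.forall_bool.2 ⟨tC18_wU0, tC18_wU1⟩,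 ⟨.inr rfl, .inr rfl⟩, Bool.forall_bool.2 ⟨tC18_wL0, tC18_wL1⟩, ⟨.inr rfl, .inr rfl⟩⟩

def tC18_pU20 : PosD ⟨⟨0, 1, 1⟩, ⟨98, 99, 147⟩, ⟨8514, 9258, 30000⟩, ⟨1037, 1200, 1000⟩⟩ (({ tC18 with pU := tC18PU } : Piece).hPU false) :=
  posD_of_check (c := ⟨339, ⟨5, 6, 11, 7⟩⟩) (by decide +kernel)

def tC18_pU21 : PosD ⟨⟨0, 1, 1⟩, ⟨98, 99, 147⟩, ⟨8514, 9258, 30000⟩, ⟨1037, 1200, 1000⟩⟩ (({ tC18 with pU := tC18PU } : Piece).hPU true) :=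
  posD_of_check (c := ⟨338, ⟨5, 6, 11, 7⟩⟩) (by decide +kernel)

/-- The bounds with the other bound of `p`. -/
def tC18_envU : ({ tC18 with pU := tC18PU } : Piece).Env ⟨⟨0, 1, 1⟩, ⟨98, 99, 147⟩, ⟨8514, 9258, 30000⟩, ⟨1037, 1200, 1000⟩⟩ :=
  tC18_env.withU tC18PU (Bool.forall_bool.2 ⟨tC18_pU20, tC18_pU21⟩) ⟨.inr rfl, .inr rfl⟩

def tC18A_pp : PosD ⟨⟨0, 1, 1⟩, ⟨98, 99, 147⟩, ⟨8514, 9258, 30000⟩, ⟨1037, 1200, 1000⟩⟩ (tC18A.xPL) :=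
  posD_of_check (c := ⟨96, ⟨1, 1, 3, 3⟩⟩) (by decide +kernel)

def tC18A_k2p : PosD ⟨⟨0, 1, 1⟩, ⟨98, 99, 147⟩, ⟨8514, 9258, 30000⟩, ⟨1037, 1200, 1000⟩⟩ (tC18A.k2p tC18A.xE) :=
  posD_of_check (c := ⟨73, ⟨1, 1, 2, 2⟩⟩) (by decide +kernel)

def tC18A_k2m : PosD ⟨⟨0, 1, 1⟩, ⟨98, 99, 147⟩, ⟨8514, 9258, 30000⟩, ⟨1037, 1200, 1000⟩⟩ (tC18A.k2m tC18A.xE) :=
  posD_of_check (c := ⟨73, ⟨1, 1, 2, 2⟩⟩) (by decide +kernel)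

def tC18A_v2p : PosD ⟨⟨0, 1, 1⟩, ⟨98, 99, 147⟩, ⟨8514, 9258, 30000⟩, ⟨1037, 1200, 1000⟩⟩ (tC18A.hV2p) :=
  posD_of_check (c := ⟨274, ⟨1, 6, 10, 5⟩⟩) (by decide +kernel)

def tC18A_v2m : PosD ⟨⟨0, 1, 1⟩, ⟨98, 99, 147⟩, ⟨8514, 9258, 30000⟩, ⟨1037, 1200, 1000⟩⟩ (tC18A.hV2m) :=
  posD_of_check (c := ⟨274, ⟨1, 6, 10, 5⟩⟩) (by decide +kernel)

def tC18A_v3p : PosD ⟨⟨0, 1, 1⟩, ⟨98, 99, 147⟩, ⟨8514, 9258, 30000⟩, ⟨1037, 1200, 1000⟩⟩ (tC18A.hV3p) :=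
  posD_of_check (c := ⟨258, ⟨1, 6, 9, 5⟩⟩) (by decide +kernel)

def tC18A_v3m : PosD ⟨⟨0, 1, 1⟩, ⟨98, 99, 147⟩, ⟨8514, 9258, 30000⟩, ⟨1037, 1200, 1000⟩⟩ (tC18A.hV3m) :=
  posD_of_check (c := ⟨258, ⟨1, 6, 9, 5⟩⟩) (by decide +kernel)

def tC18A_kap0 : PosD ⟨⟨0, 1, 1⟩, ⟨98, 99, 147⟩, ⟨8514, 9258, 30000⟩, ⟨1037, 1200, 1000⟩⟩ (tC18A.kap false) :=
  posD_of_check (c := ⟨71, ⟨1, 1, 2, 2⟩⟩) (by decide +kernel)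

def tC18A_c10 : PosD ⟨⟨0, 1, 1⟩, ⟨98, 99, 147⟩, ⟨8514, 9258, 30000⟩, ⟨1037, 1200, 1000⟩⟩ (tC18A.hC1 false) :=
  posD_of_check (c := ⟨275, ⟨3, 5, 9, 7⟩⟩) (by decide +kernel)

def tC18A_c1h0 : PosD ⟨⟨0, 1, 1⟩, ⟨98, 99, 147⟩, ⟨8514, 9258, 30000⟩, ⟨1037, 1200, 1000⟩⟩ (tC18A.hC1' false) :=
  posD_of_check (c := ⟨275, ⟨3, 5, 9, 7⟩⟩) (by decide +kernel)

def tC18A_tg00 : PosD ⟨⟨0, 1, 1⟩, ⟨98, 99, 147⟩, ⟨8514, 9258, 30000⟩, ⟨1037, 1200, 1000⟩⟩ (tC18A.hG false (tC18A.pEnd false)) :=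
  posD_of_check (c := ⟨388, ⟨2, 7, 14, 9⟩⟩) (by decide +kernel)

def tC18A_c2p00 : PosD ⟨⟨0, 1, 1⟩, ⟨98, 99, 147⟩, ⟨8514, 9258, 30000⟩, ⟨1037, 1200, 1000⟩⟩ (tC18A.hC2p false (tC18A.pEnd false)) :=
  posD_of_check (c := ⟨460, ⟨3, 8, 16, 11⟩⟩) (by decide +kernel)

def tC18A_c2m00 : PosD ⟨⟨0, 1, 1⟩, ⟨98, 99, 147⟩, ⟨8514, 9258, 30000⟩, ⟨1037, 1200, 1000⟩⟩ (tC18A.hC2m false (tC18A.pEnd false)) :=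
  posD_of_check (c := ⟨461, ⟨3, 8, 16, 11⟩⟩) (by decide +kernel)

def tC18A_c3p00 : PosD ⟨⟨0, 1, 1⟩, ⟨98, 99, 147⟩, ⟨8514, 9258, 30000⟩, ⟨1037, 1200, 1000⟩⟩ (tC18A.hC3p false false) :=
  posD_of_check (c := ⟨447, ⟨3, 8, 15, 11⟩⟩) (by decide +kernel)

def tC18A_c3m00 : PosD ⟨⟨0, 1, 1⟩, ⟨98, 99, 147⟩, ⟨8514, 9258, 30000⟩, ⟨1037, 1200, 1000⟩⟩ (tC18A.hC3m false false) :=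
  posD_of_check (c := ⟨447, ⟨3, 8, 15, 11⟩⟩) (by decide +kernel)

def tC18A_c3ph00 : PosD ⟨⟨0, 1, 1⟩, ⟨98, 99, 147⟩, ⟨8514, 9258, 30000⟩, ⟨1037, 1200, 1000⟩⟩ (tC18A.hC3p' false false) :=
  posD_of_check (c := ⟨447, ⟨3, 8, 15, 11⟩⟩) (by decide +kernel)

def tC18A_c3mh00 : PosD ⟨⟨0, 1, 1⟩, ⟨98, 99, 147⟩, ⟨8514, 9258, 30000⟩, ⟨1037, 1200, 1000⟩⟩ (tC18A.hC3m' false false) :=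
  posD_of_check (c := ⟨447, ⟨3, 8, 15, 11⟩⟩) (by decide +kernel)

def tC18A_up00 : PosD ⟨⟨0, 1, 1⟩, ⟨98, 99, 147⟩, ⟨8514, 9258, 30000⟩, ⟨1037, 1200, 1000⟩⟩ (tC18A.hUp false false) :=
  posD_of_check (c := ⟨446, ⟨3, 8, 15, 11⟩⟩) (by decide +kernel)

def tC18A_um00 : PosD ⟨⟨0, 1, 1⟩, ⟨98, 99, 147⟩, ⟨8514, 9258, 30000⟩, ⟨1037, 1200, 1000⟩⟩ (tC18A.hUm false false) :=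
  posD_of_check (c := ⟨446, ⟨3, 8, 15, 11⟩⟩) (by decide +kernel)

def tC18A_tmg00 : PosD ⟨⟨0, 1, 1⟩, ⟨98, 99, 147⟩, ⟨8514, 9258, 30000⟩, ⟨1037, 1200, 1000⟩⟩ (tC18A.hTMG false (tC18A.pEnd false)) :=
  posD_of_check (c := ⟨402, ⟨2, 7, 14, 10⟩⟩) (by decide +kernel)

def tC18A_tg01 : PosD ⟨⟨0, 1, 1⟩, ⟨98, 99, 147⟩, ⟨8514, 9258, 30000⟩, ⟨1037, 1200, 1000⟩⟩ (tC18A.hG true (tC18A.pEnd false)) :=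
  posD_of_check (c := ⟨388, ⟨2, 7, 14, 9⟩⟩) (by decide +kernel)

def tC18A_c2p01 : PosD ⟨⟨0, 1, 1⟩, ⟨98, 99, 147⟩, ⟨8514, 9258, 30000⟩, ⟨1037, 1200, 1000⟩⟩ (tC18A.hC2p true (tC18A.pEnd false)) :=
  posD_of_check (c := ⟨460, ⟨3, 8, 16, 11⟩⟩) (by decide +kernel)

def tC18A_c2m01 : PosD ⟨⟨0, 1, 1⟩, ⟨98, 99, 147⟩, ⟨8514, 9258, 30000⟩, ⟨1037, 1200, 1000⟩⟩ (tC18A.hC2m true (tC18A.pEnd false)) :=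
  posD_of_check (c := ⟨461, ⟨3, 8, 16, 11⟩⟩) (by decide +kernel)

def tC18A_c3p01 : PosD ⟨⟨0, 1, 1⟩, ⟨98, 99, 147⟩, ⟨8514, 9258, 30000⟩, ⟨1037, 1200, 1000⟩⟩ (tC18A.hC3p false true) :=
  posD_of_check (c := ⟨447, ⟨3, 8, 15, 11⟩⟩) (by decide +kernel)

def tC18A_c3m01 : PosD ⟨⟨0, 1, 1⟩, ⟨98, 99, 147⟩, ⟨8514, 9258, 30000⟩, ⟨1037, 1200, 1000⟩⟩ (tC18A.hC3m false true) :=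
  posD_of_check (c := ⟨447, ⟨3, 8, 15, 11⟩⟩) (by decide +kernel)

def tC18A_c3ph01 : PosD ⟨⟨0, 1, 1⟩, ⟨98, 99, 147⟩, ⟨8514, 9258, 30000⟩, ⟨1037, 1200, 1000⟩⟩ (tC18A.hC3p' false true) :=
  posD_of_check (c := ⟨447, ⟨3, 8, 15, 11⟩⟩) (by decide +kernel)

def tC18A_c3mh01 : PosD ⟨⟨0, 1, 1⟩, ⟨98, 99, 147⟩, ⟨8514, 9258, 30000⟩, ⟨1037, 1200, 1000⟩⟩ (tC18A.hC3m' false true) :=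
  posD_of_check (c := ⟨447, ⟨3, 8, 15, 11⟩⟩) (by decide +kernel)

def tC18A_up01 : PosD ⟨⟨0, 1, 1⟩, ⟨98, 99, 147⟩, ⟨8514, 9258, 30000⟩, ⟨1037, 1200, 1000⟩⟩ (tC18A.hUp false true) :=
  posD_of_check (c := ⟨446, ⟨3, 8, 15, 11⟩⟩) (by decide +kernel)

def tC18A_um01 : PosD ⟨⟨0, 1, 1⟩, ⟨98, 99, 147⟩, ⟨8514, 9258, 30000⟩, ⟨1037, 1200, 1000⟩⟩ (tC18A.hUm false true) :=
  posD_of_check (c := ⟨446, ⟨3, 8, 15, 11⟩⟩) (by decide +kernel)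

def tC18A_tmg01 : PosD ⟨⟨0, 1, 1⟩, ⟨98, 99, 147⟩, ⟨8514, 9258, 30000⟩, ⟨1037, 1200, 1000⟩⟩ (tC18A.hTMG true (tC18A.pEnd false)) :=
  posD_of_check (c := ⟨402, ⟨2, 7, 14, 10⟩⟩) (by decide +kernel)

def tC18A_kap1 : PosD ⟨⟨0, 1, 1⟩, ⟨98, 99, 147⟩, ⟨8514, 9258, 30000⟩, ⟨1037, 1200, 1000⟩⟩ (tC18A.kap true) :=
  posD_of_check (c := ⟨73, ⟨1, 1, 2, 2⟩⟩) (by decide +kernel)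

def tC18A_c11 : PosD ⟨⟨0, 1, 1⟩, ⟨98, 99, 147⟩, ⟨8514, 9258, 30000⟩, ⟨1037, 1200, 1000⟩⟩ (tC18A.hC1 true) :=
  posD_of_check (c := ⟨280, ⟨3, 5, 9, 7⟩⟩) (by decide +kernel)

def tC18A_c1h1 : PosD ⟨⟨0, 1, 1⟩, ⟨98, 99, 147⟩, ⟨8514, 9258, 30000⟩, ⟨1037, 1200, 1000⟩⟩ (tC18A.hC1' true) :=
  posD_of_check (c := ⟨280, ⟨3, 5, 9, 7⟩⟩) (by decide +kernel)

def tC18A_tg10 : PosD ⟨⟨0, 1, 1⟩, ⟨98, 99, 147⟩, ⟨8514, 9258, 30000⟩, ⟨1037, 1200, 1000⟩⟩ (tC18A.hG false (tC18A.pEnd true)) :=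
  posD_of_check (c := ⟨393, ⟨2, 7, 14, 9⟩⟩) (by decide +kernel)

def tC18A_c2p10 : PosD ⟨⟨0, 1, 1⟩, ⟨98, 99, 147⟩, ⟨8514, 9258, 30000⟩, ⟨1037, 1200, 1000⟩⟩ (tC18A.hC2p false (tC18A.pEnd true)) :=
  posD_of_check (c := ⟨465, ⟨3, 8, 16, 11⟩⟩) (by decide +kernel)

def tC18A_c2m10 : PosD ⟨⟨0, 1, 1⟩, ⟨98, 99, 147⟩, ⟨8514, 9258, 30000⟩, ⟨1037, 1200, 1000⟩⟩ (tC18A.hC2m false (tC18A.pEnd true)) :=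
  posD_of_check (c := ⟨466, ⟨3, 8, 16, 11⟩⟩) (by decide +kernel)

def tC18A_c3p10 : PosD ⟨⟨0, 1, 1⟩, ⟨98, 99, 147⟩, ⟨8514, 9258, 30000⟩, ⟨1037, 1200, 1000⟩⟩ (tC18A.hC3p true false) :=
  posD_of_check (c := ⟨451, ⟨3, 8, 15, 11⟩⟩) (by decide +kernel)

def tC18A_c3m10 : PosD ⟨⟨0, 1, 1⟩, ⟨98, 99, 147⟩, ⟨8514, 9258, 30000⟩, ⟨1037, 1200, 1000⟩⟩ (tC18A.hC3m true false) :=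
  posD_of_check (c := ⟨451, ⟨3, 8, 15, 11⟩⟩) (by decide +kernel)

def tC18A_c3ph10 : PosD ⟨⟨0, 1, 1⟩, ⟨98, 99, 147⟩, ⟨8514, 9258, 30000⟩, ⟨1037, 1200, 1000⟩⟩ (tC18A.hC3p' true false) :=
  posD_of_check (c := ⟨451, ⟨3, 8, 15, 11⟩⟩) (by decide +kernel)

def tC18A_c3mh10 : PosD ⟨⟨0, 1, 1⟩, ⟨98, 99, 147⟩, ⟨8514, 9258, 30000⟩, ⟨1037, 1200, 1000⟩⟩ (tC18A.hC3m' true false) :=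
  posD_of_check (c := ⟨451, ⟨3, 8, 15, 11⟩⟩) (by decide +kernel)

def tC18A_up10 : PosD ⟨⟨0, 1, 1⟩, ⟨98, 99, 147⟩, ⟨8514, 9258, 30000⟩, ⟨1037, 1200, 1000⟩⟩ (tC18A.hUp true false) :=
  posD_of_check (c := ⟨450, ⟨3, 8, 15, 11⟩⟩) (by decide +kernel)

def tC18A_um10 : PosD ⟨⟨0, 1, 1⟩, ⟨98, 99, 147⟩, ⟨8514, 9258, 30000⟩, ⟨1037, 1200, 1000⟩⟩ (tC18A.hUm true false) :=
  posD_of_check (c := ⟨450, ⟨3, 8, 15, 11⟩⟩) (by decide +kernel)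

def tC18A_tmg10 : PosD ⟨⟨0, 1, 1⟩, ⟨98, 99, 147⟩, ⟨8514, 9258, 30000⟩, ⟨1037, 1200, 1000⟩⟩ (tC18A.hTMG false (tC18A.pEnd true)) :=
  posD_of_check (c := ⟨406, ⟨2, 7, 14, 10⟩⟩) (by decide +kernel)

def tC18A_tg11 : PosD ⟨⟨0, 1, 1⟩, ⟨98, 99, 147⟩, ⟨8514, 9258, 30000⟩, ⟨1037, 1200, 1000⟩⟩ (tC18A.hG true (tC18A.pEnd true)) :=
  posD_of_check (c := ⟨393, ⟨2, 7, 14, 9⟩⟩) (by decide +kernel)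

def tC18A_c2p11 : PosD ⟨⟨0, 1, 1⟩, ⟨98, 99, 147⟩, ⟨8514, 9258, 30000⟩, ⟨1037, 1200, 1000⟩⟩ (tC18A.hC2p true (tC18A.pEnd true)) :=
  posD_of_check (c := ⟨465, ⟨3, 8, 16, 11⟩⟩) (by decide +kernel)

def tC18A_c2m11 : PosD ⟨⟨0, 1, 1⟩, ⟨98, 99, 147⟩, ⟨8514, 9258, 30000⟩, ⟨1037, 1200, 1000⟩⟩ (tC18A.hC2m true (tC18A.pEnd true)) :=
  posD_of_check (c := ⟨466, ⟨3, 8, 16, 11⟩⟩) (by decide +kernel)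

def tC18A_c3p11 : PosD ⟨⟨0, 1, 1⟩, ⟨98, 99, 147⟩, ⟨8514, 9258, 30000⟩, ⟨1037, 1200, 1000⟩⟩ (tC18A.hC3p true true) :=
  posD_of_check (c := ⟨451, ⟨3, 8, 15, 11⟩⟩) (by decide +kernel)

def tC18A_c3m11 : PosD ⟨⟨0, 1, 1⟩, ⟨98, 99, 147⟩, ⟨8514, 9258, 30000⟩, ⟨1037, 1200, 1000⟩⟩ (tC18A.hC3m true true) :=
  posD_of_check (c := ⟨451, ⟨3, 8, 15, 11⟩⟩) (by decide +kernel)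

def tC18A_c3ph11 : PosD ⟨⟨0, 1, 1⟩, ⟨98, 99, 147⟩, ⟨8514, 9258, 30000⟩, ⟨1037, 1200, 1000⟩⟩ (tC18A.hC3p' true true) :=
  posD_of_check (c := ⟨451, ⟨3, 8, 15, 11⟩⟩) (by decide +kernel)

def tC18A_c3mh11 : PosD ⟨⟨0, 1, 1⟩, ⟨98, 99, 147⟩, ⟨8514, 9258, 30000⟩, ⟨1037, 1200, 1000⟩⟩ (tC18A.hC3m' true true) :=
  posD_of_check (c := ⟨451, ⟨3, 8, 15, 11⟩⟩) (by decide +kernel)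

def tC18A_up11 : PosD ⟨⟨0, 1, 1⟩, ⟨98, 99, 147⟩, ⟨8514, 9258, 30000⟩, ⟨1037, 1200, 1000⟩⟩ (tC18A.hUp true true) :=
  posD_of_check (c := ⟨450, ⟨3, 8, 15, 11⟩⟩) (by decide +kernel)

def tC18A_um11 : PosD ⟨⟨0, 1, 1⟩, ⟨98, 99, 147⟩, ⟨8514, 9258, 30000⟩, ⟨1037, 1200, 1000⟩⟩ (tC18A.hUm true true) :=
  posD_of_check (c := ⟨450, ⟨3, 8, 15, 11⟩⟩) (by decide +kernel)

def tC18A_tmg11 : PosD ⟨⟨0, 1, 1⟩, ⟨98, 99, 147⟩, ⟨8514, 9258, 30000⟩, ⟨1037, 1200, 1000⟩⟩ (tC18A.hTMG true (tC18A.pEnd true)) :=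
  posD_of_check (c := ⟨406, ⟨2, 7, 14, 10⟩⟩) (by decide +kernel)

/-- The signs of the piece. -/
def tC18A_sign : tC18A.Sign ⟨⟨0, 1, 1⟩, ⟨98, 99, 147⟩, ⟨8514, 9258, 30000⟩, ⟨1037, 1200, 1000⟩⟩ :=
  ⟨tC18A_pp,
    tC18A_k2p,
    tC18A_k2m,
    Bool.forall_bool.2 ⟨(Bool.forall_bool.2 ⟨tC18A_tg00, tC18A_tg01⟩), (Bool.forall_bool.2 ⟨tC18A_tg10, tC18A_tg11⟩)⟩,
    Bool.forall_bool.2 ⟨(Bool.forall_bool.2 ⟨tC18A_c2p00, tC18A_c2p01⟩), (Bool.forall_bool.2 ⟨tC18A_c2p10, tC18A_c2p11⟩)⟩,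
    Bool.forall_bool.2 ⟨(Bool.forall_bool.2 ⟨tC18A_c2m00, tC18A_c2m01⟩), (Bool.forall_bool.2 ⟨tC18A_c2m10, tC18A_c2m11⟩)⟩,
    Bool.forall_bool.2 ⟨tC18A_kap0, tC18A_kap1⟩,
    Bool.forall_bool.2 ⟨tC18A_c10, tC18A_c11⟩,
    Bool.forall_bool.2 ⟨(Bool.forall_bool.2 ⟨tC18A_c3p00, tC18A_c3p01⟩), (Bool.forall_bool.2 ⟨tC18A_c3p10, tC18A_c3p11⟩)⟩,
    Bool.forall_bool.2 ⟨(Bool.forall_bool.2 ⟨tC18A_c3m00, tC18A_c3m01⟩), (Bool.forall_bool.2 ⟨tC18A_c3m10, tC18A_c3m11⟩)⟩,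
    Bool.forall_bool.2 ⟨(Bool.forall_bool.2 ⟨tC18A_tmg00, tC18A_tmg01⟩), (Bool.forall_bool.2 ⟨tC18A_tmg10, tC18A_tmg11⟩)⟩,
    .inr (Bool.forall_bool.2 ⟨⟨tC18A_c1h0, Bool.forall_bool.2 ⟨⟨tC18A_c3ph00, tC18A_c3mh00, tC18A_up00, tC18A_um00⟩, ⟨tC18A_c3ph01, tC18A_c3mh01, tC18A_up01, tC18A_um01⟩⟩⟩, ⟨tC18A_c1h1, Bool.forall_bool.2 ⟨⟨tC18A_c3ph10, tC18A_c3mh10, tC18A_up10, tC18A_um10⟩, ⟨tC18A_c3ph11, tC18A_c3mh11, tC18A_up11, tC18A_um11⟩⟩⟩⟩),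
    tC18A_v2p,
    tC18A_v2m,
    tC18A_v3p,
    tC18A_v3m,
    posD_sub (b := ⟨⟨0, 1, 1⟩, ⟨98, 99, 147⟩, ⟨4050, 10000, 30000⟩, ⟨290, 4000, 1000⟩⟩) (by decide +kernel) tC_vG,
    posD_sub (b := ⟨⟨0, 1, 1⟩, ⟨98, 99, 147⟩, ⟨4050, 10000, 30000⟩, ⟨290, 4000, 1000⟩⟩) (by decide +kernel) tC_vMG,
    posD_sub (b := ⟨⟨0, 1, 1⟩, ⟨98, 99, 147⟩, ⟨4050, 10000, 30000⟩, ⟨290, 4000, 1000⟩⟩) (by decide +kernel) tC_ak,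
    posD_sub (b := ⟨⟨0, 1, 1⟩, ⟨98, 99, 147⟩, ⟨4050, 10000, 30000⟩, ⟨290, 4000, 1000⟩⟩) (by decide +kernel) tC_aw,
    posD_sub (b := ⟨⟨0, 1, 1⟩, ⟨98, 99, 147⟩, ⟨4050, 10000, 30000⟩, ⟨290, 4000, 1000⟩⟩) (by decide +kernel) tC_gk,
    posD_sub (b := ⟨⟨0, 1, 1⟩, ⟨98, 99, 147⟩, ⟨4050, 10000, 30000⟩, ⟨290, 4000, 1000⟩⟩) (by decide +kernel) tC_gw,
    posD_sub (b := ⟨⟨0, 1, 1⟩, ⟨98, 99, 147⟩, ⟨4050, 10000, 30000⟩, ⟨290, 4000, 1000⟩⟩) (by decide +kernel) tC_ek,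
    posD_sub (b := ⟨⟨0, 1, 1⟩, ⟨98, 99, 147⟩, ⟨4050, 10000, 30000⟩, ⟨290, 4000, 1000⟩⟩) (by decide +kernel) tC_ew⟩

def tC18B_pp : PosD ⟨⟨0, 1, 1⟩, ⟨98, 99, 147⟩, ⟨8514, 9258, 30000⟩, ⟨1037, 1200, 1000⟩⟩ (tC18B.xPL) :=
  posD_of_check (c := ⟨95, ⟨1, 1, 3, 3⟩⟩) (by decide +kernel)

def tC18B_k2p : PosD ⟨⟨0, 1, 1⟩, ⟨98, 99, 147⟩, ⟨8514, 9258, 30000⟩, ⟨1037, 1200, 1000⟩⟩ (tC18B.k2p tC18B.xE) :=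
  posD_of_check (c := ⟨68, ⟨1, 1, 2, 2⟩⟩) (by decide +kernel)

def tC18B_k2m : PosD ⟨⟨0, 1, 1⟩, ⟨98, 99, 147⟩, ⟨8514, 9258, 30000⟩, ⟨1037, 1200, 1000⟩⟩ (tC18B.k2m tC18B.xE) :=
  posD_of_check (c := ⟨73, ⟨1, 1, 2, 2⟩⟩) (by decide +kernel)

def tC18B_v2p : PosD ⟨⟨0, 1, 1⟩, ⟨98, 99, 147⟩, ⟨8514, 9258, 30000⟩, ⟨1037, 1200, 1000⟩⟩ (tC18B.hV2p) :=
  posD_of_check (c := ⟨270, ⟨1, 6, 10, 5⟩⟩) (by decide +kernel)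

def tC18B_v2m : PosD ⟨⟨0, 1, 1⟩, ⟨98, 99, 147⟩, ⟨8514, 9258, 30000⟩, ⟨1037, 1200, 1000⟩⟩ (tC18B.hV2m) :=
  posD_of_check (c := ⟨274, ⟨1, 6, 10, 5⟩⟩) (by decide +kernel)

def tC18B_v3p : PosD ⟨⟨0, 1, 1⟩, ⟨98, 99, 147⟩, ⟨8514, 9258, 30000⟩, ⟨1037, 1200, 1000⟩⟩ (tC18B.hV3p) :=
  posD_of_check (c := ⟨256, ⟨1, 6, 9, 5⟩⟩) (by decide +kernel)

def tC18B_v3m : PosD ⟨⟨0, 1, 1⟩, ⟨98, 99, 147⟩, ⟨8514, 9258, 30000⟩, ⟨1037, 1200, 1000⟩⟩ (tC18B.hV3m) :=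
  posD_of_check (c := ⟨258, ⟨1, 6, 9, 5⟩⟩) (by decide +kernel)

def tC18B_kap0 : PosD ⟨⟨0, 1, 1⟩, ⟨98, 99, 147⟩, ⟨8514, 9258, 30000⟩, ⟨1037, 1200, 1000⟩⟩ (tC18B.kap false) :=
  posD_of_check (c := ⟨69, ⟨1, 1, 2, 2⟩⟩) (by decide +kernel)

def tC18B_c10 : PosD ⟨⟨0, 1, 1⟩, ⟨98, 99, 147⟩, ⟨8514, 9258, 30000⟩, ⟨1037, 1200, 1000⟩⟩ (tC18B.hC1 false) :=
  posD_of_check (c := ⟨274, ⟨3, 5, 9, 7⟩⟩) (by decide +kernel)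

def tC18B_c1h0 : PosD ⟨⟨0, 1, 1⟩, ⟨98, 99, 147⟩, ⟨8514, 9258, 30000⟩, ⟨1037, 1200, 1000⟩⟩ (tC18B.hC1' false) :=
  posD_of_check (c := ⟨274, ⟨3, 5, 9, 7⟩⟩) (by decide +kernel)

def tC18B_tg00 : PosD ⟨⟨0, 1, 1⟩, ⟨98, 99, 147⟩, ⟨8514, 9258, 30000⟩, ⟨1037, 1200, 1000⟩⟩ (tC18B.hG false (tC18B.pEnd false)) :=
  posD_of_check (c := ⟨388, ⟨2, 7, 14, 9⟩⟩) (by decide +kernel)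

def tC18B_c2p00 : PosD ⟨⟨0, 1, 1⟩, ⟨98, 99, 147⟩, ⟨8514, 9258, 30000⟩, ⟨1037, 1200, 1000⟩⟩ (tC18B.hC2p false (tC18B.pEnd false)) :=
  posD_of_check (c := ⟨457, ⟨3, 8, 16, 11⟩⟩) (by decide +kernel)

def tC18B_c2m00 : PosD ⟨⟨0, 1, 1⟩, ⟨98, 99, 147⟩, ⟨8514, 9258, 30000⟩, ⟨1037, 1200, 1000⟩⟩ (tC18B.hC2m false (tC18B.pEnd false)) :=
  posD_of_check (c := ⟨460, ⟨3, 8, 16, 11⟩⟩) (by decide +kernel)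

def tC18B_c3p00 : PosD ⟨⟨0, 1, 1⟩, ⟨98, 99, 147⟩, ⟨8514, 9258, 30000⟩, ⟨1037, 1200, 1000⟩⟩ (tC18B.hC3p false false) :=
  posD_of_check (c := ⟨444, ⟨3, 8, 15, 11⟩⟩) (by decide +kernel)

def tC18B_c3m00 : PosD ⟨⟨0, 1, 1⟩, ⟨98, 99, 147⟩, ⟨8514, 9258, 30000⟩, ⟨1037, 1200, 1000⟩⟩ (tC18B.hC3m false false) :=
  posD_of_check (c := ⟨446, ⟨3, 8, 15, 11⟩⟩) (by decide +kernel)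

def tC18B_c3ph00 : PosD ⟨⟨0, 1, 1⟩, ⟨98, 99, 147⟩, ⟨8514, 9258, 30000⟩, ⟨1037, 1200, 1000⟩⟩ (tC18B.hC3p' false false) :=
  posD_of_check (c := ⟨444, ⟨3, 8, 15, 11⟩⟩) (by decide +kernel)

def tC18B_c3mh00 : PosD ⟨⟨0, 1, 1⟩, ⟨98, 99, 147⟩, ⟨8514, 9258, 30000⟩, ⟨1037, 1200, 1000⟩⟩ (tC18B.hC3m' false false) :=
  posD_of_check (c := ⟨446, ⟨3, 8, 15, 11⟩⟩) (by decide +kernel)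

def tC18B_up00 : PosD ⟨⟨0, 1, 1⟩, ⟨98, 99, 147⟩, ⟨8514, 9258, 30000⟩, ⟨1037, 1200, 1000⟩⟩ (tC18B.hUp false false) :=
  posD_of_check (c := ⟨443, ⟨3, 8, 15, 11⟩⟩) (by decide +kernel)

def tC18B_um00 : PosD ⟨⟨0, 1, 1⟩, ⟨98, 99, 147⟩, ⟨8514, 9258, 30000⟩, ⟨1037, 1200, 1000⟩⟩ (tC18B.hUm false false) :=
  posD_of_check (c := ⟨445, ⟨3, 8, 15, 11⟩⟩) (by decide +kernel)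

def tC18B_tmg00 : PosD ⟨⟨0, 1, 1⟩, ⟨98, 99, 147⟩, ⟨8514, 9258, 30000⟩, ⟨1037, 1200, 1000⟩⟩ (tC18B.hTMG false (tC18B.pEnd false)) :=
  posD_of_check (c := ⟨402, ⟨2, 7, 14, 10⟩⟩) (by decide +kernel)

def tC18B_tg01 : PosD ⟨⟨0, 1, 1⟩, ⟨98, 99, 147⟩, ⟨8514, 9258, 30000⟩, ⟨1037, 1200, 1000⟩⟩ (tC18B.hG true (tC18B.pEnd false)) :=
  posD_of_check (c := ⟨388, ⟨2, 7, 14, 9⟩⟩) (by decide +kernel)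

def tC18B_c2p01 : PosD ⟨⟨0, 1, 1⟩, ⟨98, 99, 147⟩, ⟨8514, 9258, 30000⟩, ⟨1037, 1200, 1000⟩⟩ (tC18B.hC2p true (tC18B.pEnd false)) :=
  posD_of_check (c := ⟨457, ⟨3, 8, 16, 11⟩⟩) (by decide +kernel)

def tC18B_c2m01 : PosD ⟨⟨0, 1, 1⟩, ⟨98, 99, 147⟩, ⟨8514, 9258, 30000⟩, ⟨1037, 1200, 1000⟩⟩ (tC18B.hC2m true (tC18B.pEnd false)) :=
  posD_of_check (c := ⟨460, ⟨3, 8, 16, 11⟩⟩) (by decide +kernel)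

def tC18B_c3p01 : PosD ⟨⟨0, 1, 1⟩, ⟨98, 99, 147⟩, ⟨8514, 9258, 30000⟩, ⟨1037, 1200, 1000⟩⟩ (tC18B.hC3p false true) :=
  posD_of_check (c := ⟨444, ⟨3, 8, 15, 11⟩⟩) (by decide +kernel)

def tC18B_c3m01 : PosD ⟨⟨0, 1, 1⟩, ⟨98, 99, 147⟩, ⟨8514, 9258, 30000⟩, ⟨1037, 1200, 1000⟩⟩ (tC18B.hC3m false true) :=
  posD_of_check (c := ⟨446, ⟨3, 8, 15, 11⟩⟩) (by decide +kernel)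

def tC18B_c3ph01 : PosD ⟨⟨0, 1, 1⟩, ⟨98, 99, 147⟩, ⟨8514, 9258, 30000⟩, ⟨1037, 1200, 1000⟩⟩ (tC18B.hC3p' false true) :=
  posD_of_check (c := ⟨444, ⟨3, 8, 15, 11⟩⟩) (by decide +kernel)

def tC18B_c3mh01 : PosD ⟨⟨0, 1, 1⟩, ⟨98, 99, 147⟩, ⟨8514, 9258, 30000⟩, ⟨1037, 1200, 1000⟩⟩ (tC18B.hC3m' false true) :=
  posD_of_check (c := ⟨446, ⟨3, 8, 15, 11⟩⟩) (by decide +kernel)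

def tC18B_up01 : PosD ⟨⟨0, 1, 1⟩, ⟨98, 99, 147⟩, ⟨8514, 9258, 30000⟩, ⟨1037, 1200, 1000⟩⟩ (tC18B.hUp false true) :=
  posD_of_check (c := ⟨443, ⟨3, 8, 15, 11⟩⟩) (by decide +kernel)

def tC18B_um01 : PosD ⟨⟨0, 1, 1⟩, ⟨98, 99, 147⟩, ⟨8514, 9258, 30000⟩, ⟨1037, 1200, 1000⟩⟩ (tC18B.hUm false true) :=
  posD_of_check (c := ⟨445, ⟨3, 8, 15, 11⟩⟩) (by decide +kernel)

def tC18B_tmg01 : PosD ⟨⟨0, 1, 1⟩, ⟨98, 99, 147⟩, ⟨8514, 9258, 30000⟩, ⟨1037, 1200, 1000⟩⟩ (tC18B.hTMG true (tC18B.pEnd false)) :=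
  posD_of_check (c := ⟨402, ⟨2, 7, 14, 10⟩⟩) (by decide +kernel)

def tC18B_kap1 : PosD ⟨⟨0, 1, 1⟩, ⟨98, 99, 147⟩, ⟨8514, 9258, 30000⟩, ⟨1037, 1200, 1000⟩⟩ (tC18B.kap true) :=
  posD_of_check (c := ⟨71, ⟨1, 1, 2, 2⟩⟩) (by decide +kernel)

def tC18B_c11 : PosD ⟨⟨0, 1, 1⟩, ⟨98, 99, 147⟩, ⟨8514, 9258, 30000⟩, ⟨1037, 1200, 1000⟩⟩ (tC18B.hC1 true) :=
  posD_of_check (c := ⟨275, ⟨3, 5, 9, 7⟩⟩) (by decide +kernel)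

def tC18B_c1h1 : PosD ⟨⟨0, 1, 1⟩, ⟨98, 99, 147⟩, ⟨8514, 9258, 30000⟩, ⟨1037, 1200, 1000⟩⟩ (tC18B.hC1' true) :=
  posD_of_check (c := ⟨275, ⟨3, 5, 9, 7⟩⟩) (by decide +kernel)

def tC18B_tg10 : PosD ⟨⟨0, 1, 1⟩, ⟨98, 99, 147⟩, ⟨8514, 9258, 30000⟩, ⟨1037, 1200, 1000⟩⟩ (tC18B.hG false (tC18B.pEnd true)) :=
  posD_of_check (c := ⟨387, ⟨2, 7, 14, 9⟩⟩) (by decide +kernel)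

def tC18B_c2p10 : PosD ⟨⟨0, 1, 1⟩, ⟨98, 99, 147⟩, ⟨8514, 9258, 30000⟩, ⟨1037, 1200, 1000⟩⟩ (tC18B.hC2p false (tC18B.pEnd true)) :=
  posD_of_check (c := ⟨456, ⟨3, 8, 16, 11⟩⟩) (by decide +kernel)

def tC18B_c2m10 : PosD ⟨⟨0, 1, 1⟩, ⟨98, 99, 147⟩, ⟨8514, 9258, 30000⟩, ⟨1037, 1200, 1000⟩⟩ (tC18B.hC2m false (tC18B.pEnd true)) :=
  posD_of_check (c := ⟨459, ⟨3, 8, 16, 11⟩⟩) (by decide +kernel)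

def tC18B_c3p10 : PosD ⟨⟨0, 1, 1⟩, ⟨98, 99, 147⟩, ⟨8514, 9258, 30000⟩, ⟨1037, 1200, 1000⟩⟩ (tC18B.hC3p true false) :=
  posD_of_check (c := ⟨445, ⟨3, 8, 15, 11⟩⟩) (by decide +kernel)

def tC18B_c3m10 : PosD ⟨⟨0, 1, 1⟩, ⟨98, 99, 147⟩, ⟨8514, 9258, 30000⟩, ⟨1037, 1200, 1000⟩⟩ (tC18B.hC3m true false) :=
  posD_of_check (c := ⟨446, ⟨3, 8, 15, 11⟩⟩) (by decide +kernel)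

def tC18B_c3ph10 : PosD ⟨⟨0, 1, 1⟩, ⟨98, 99, 147⟩, ⟨8514, 9258, 30000⟩, ⟨1037, 1200, 1000⟩⟩ (tC18B.hC3p' true false) :=
  posD_of_check (c := ⟨445, ⟨3, 8, 15, 11⟩⟩) (by decide +kernel)

def tC18B_c3mh10 : PosD ⟨⟨0, 1, 1⟩, ⟨98, 99, 147⟩, ⟨8514, 9258, 30000⟩, ⟨1037, 1200, 1000⟩⟩ (tC18B.hC3m' true false) :=
  posD_of_check (c := ⟨446, ⟨3, 8, 15, 11⟩⟩) (by decide +kernel)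

def tC18B_up10 : PosD ⟨⟨0, 1, 1⟩, ⟨98, 99, 147⟩, ⟨8514, 9258, 30000⟩, ⟨1037, 1200, 1000⟩⟩ (tC18B.hUp true false) :=
  posD_of_check (c := ⟨442, ⟨3, 8, 15, 11⟩⟩) (by decide +kernel)

def tC18B_um10 : PosD ⟨⟨0, 1, 1⟩, ⟨98, 99, 147⟩, ⟨8514, 9258, 30000⟩, ⟨1037, 1200, 1000⟩⟩ (tC18B.hUm true false) :=
  posD_of_check (c := ⟨445, ⟨3, 8, 15, 11⟩⟩) (by decide +kernel)

def tC18B_tmg10 : PosD ⟨⟨0, 1, 1⟩, ⟨98, 99, 147⟩, ⟨8514, 9258, 30000⟩, ⟨1037, 1200, 1000⟩⟩ (tC18B.hTMG false (tC18B.pEnd true)) :=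
  posD_of_check (c := ⟨401, ⟨2, 7, 14, 10⟩⟩) (by decide +kernel)

def tC18B_tg11 : PosD ⟨⟨0, 1, 1⟩, ⟨98, 99, 147⟩, ⟨8514, 9258, 30000⟩, ⟨1037, 1200, 1000⟩⟩ (tC18B.hG true (tC18B.pEnd true)) :=
  posD_of_check (c := ⟨387, ⟨2, 7, 14, 9⟩⟩) (by decide +kernel)

def tC18B_c2p11 : PosD ⟨⟨0, 1, 1⟩, ⟨98, 99, 147⟩, ⟨8514, 9258, 30000⟩, ⟨1037, 1200, 1000⟩⟩ (tC18B.hC2p true (tC18B.pEnd true)) :=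
  posD_of_check (c := ⟨456, ⟨3, 8, 16, 11⟩⟩) (by decide +kernel)

def tC18B_c2m11 : PosD ⟨⟨0, 1, 1⟩, ⟨98, 99, 147⟩, ⟨8514, 9258, 30000⟩, ⟨1037, 1200, 1000⟩⟩ (tC18B.hC2m true (tC18B.pEnd true)) :=
  posD_of_check (c := ⟨459, ⟨3, 8, 16, 11⟩⟩) (by decide +kernel)

def tC18B_c3p11 : PosD ⟨⟨0, 1, 1⟩, ⟨98, 99, 147⟩, ⟨8514, 9258, 30000⟩, ⟨1037, 1200, 1000⟩⟩ (tC18B.hC3p true true) :=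
  posD_of_check (c := ⟨445, ⟨3, 8, 15, 11⟩⟩) (by decide +kernel)

def tC18B_c3m11 : PosD ⟨⟨0, 1, 1⟩, ⟨98, 99, 147⟩, ⟨8514, 9258, 30000⟩, ⟨1037, 1200, 1000⟩⟩ (tC18B.hC3m true true) :=
  posD_of_check (c := ⟨446, ⟨3, 8, 15, 11⟩⟩) (by decide +kernel)

def tC18B_c3ph11 : PosD ⟨⟨0, 1, 1⟩, ⟨98, 99, 147⟩, ⟨8514, 9258, 30000⟩, ⟨1037, 1200, 1000⟩⟩ (tC18B.hC3p' true true) :=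
  posD_of_check (c := ⟨445, ⟨3, 8, 15, 11⟩⟩) (by decide +kernel)

def tC18B_c3mh11 : PosD ⟨⟨0, 1, 1⟩, ⟨98, 99, 147⟩, ⟨8514, 9258, 30000⟩, ⟨1037, 1200, 1000⟩⟩ (tC18B.hC3m' true true) :=
  posD_of_check (c := ⟨446, ⟨3, 8, 15, 11⟩⟩) (by decide +kernel)

def tC18B_up11 : PosD ⟨⟨0, 1, 1⟩, ⟨98, 99, 147⟩, ⟨8514, 9258, 30000⟩, ⟨1037, 1200, 1000⟩⟩ (tC18B.hUp true true) :=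
  posD_of_check (c := ⟨442, ⟨3, 8, 15, 11⟩⟩) (by decide +kernel)

def tC18B_um11 : PosD ⟨⟨0, 1, 1⟩, ⟨98, 99, 147⟩, ⟨8514, 9258, 30000⟩, ⟨1037, 1200, 1000⟩⟩ (tC18B.hUm true true) :=
  posD_of_check (c := ⟨445, ⟨3, 8, 15, 11⟩⟩) (by decide +kernel)

def tC18B_tmg11 : PosD ⟨⟨0, 1, 1⟩, ⟨98, 99, 147⟩, ⟨8514, 9258, 30000⟩, ⟨1037, 1200, 1000⟩⟩ (tC18B.hTMG true (tC18B.pEnd true)) :=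
  posD_of_check (c := ⟨401, ⟨2, 7, 14, 10⟩⟩) (by decide +kernel)

/-- The signs of the piece. -/
def tC18B_sign : tC18B.Sign ⟨⟨0, 1, 1⟩, ⟨98, 99, 147⟩, ⟨8514, 9258, 30000⟩, ⟨1037, 1200, 1000⟩⟩ :=
  ⟨tC18B_pp,
    tC18B_k2p,
    tC18B_k2m,
    Bool.forall_bool.2 ⟨(Bool.forall_bool.2 ⟨tC18B_tg00, tC18B_tg01⟩), (Bool.forall_bool.2 ⟨tC18B_tg10, tC18B_tg11⟩)⟩,
    Bool.forall_bool.2 ⟨(Bool.forall_bool.2 ⟨tC18B_c2p00, tC18B_c2p01⟩), (Bool.forall_bool.2 ⟨tC18B_c2p10, tC18B_c2p11⟩)⟩,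
    Bool.forall_bool.2 ⟨(Bool.forall_bool.2 ⟨tC18B_c2m00, tC18B_c2m01⟩), (Bool.forall_bool.2 ⟨tC18B_c2m10, tC18B_c2m11⟩)⟩,
    Bool.forall_bool.2 ⟨tC18B_kap0, tC18B_kap1⟩,
    Bool.forall_bool.2 ⟨tC18B_c10, tC18B_c11⟩,
    Bool.forall_bool.2 ⟨(Bool.forall_bool.2 ⟨tC18B_c3p00, tC18B_c3p01⟩), (Bool.forall_bool.2 ⟨tC18B_c3p10, tC18B_c3p11⟩)⟩,
    Bool.forall_bool.2 ⟨(Bool.forall_bool.2 ⟨tC18B_c3m00, tC18B_c3m01⟩), (Bool.forall_bool.2 ⟨tC18B_c3m10, tC18B_c3m11⟩)⟩,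
    Bool.forall_bool.2 ⟨(Bool.forall_bool.2 ⟨tC18B_tmg00, tC18B_tmg01⟩), (Bool.forall_bool.2 ⟨tC18B_tmg10, tC18B_tmg11⟩)⟩,
    .inr (Bool.forall_bool.2 ⟨⟨tC18B_c1h0, Bool.forall_bool.2 ⟨⟨tC18B_c3ph00, tC18B_c3mh00, tC18B_up00, tC18B_um00⟩, ⟨tC18B_c3ph01, tC18B_c3mh01, tC18B_up01, tC18B_um01⟩⟩⟩, ⟨tC18B_c1h1, Bool.forall_bool.2 ⟨⟨tC18B_c3ph10, tC18B_c3mh10, tC18B_up10, tC18B_um10⟩, ⟨tC18B_c3ph11, tC18B_c3mh11, tC18B_up11, tC18B_um11⟩⟩⟩⟩),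
    tC18B_v2p,
    tC18B_v2m,
    tC18B_v3p,
    tC18B_v3m,
    posD_sub (b := ⟨⟨0, 1, 1⟩, ⟨98, 99, 147⟩, ⟨4050, 10000, 30000⟩, ⟨290, 4000, 1000⟩⟩) (by decide +kernel) tC_vG,
    posD_sub (b := ⟨⟨0, 1, 1⟩, ⟨98, 99, 147⟩, ⟨4050, 10000, 30000⟩, ⟨290, 4000, 1000⟩⟩) (by decide +kernel) tC_vMG,
    posD_sub (b := ⟨⟨0, 1, 1⟩, ⟨98, 99, 147⟩, ⟨4050, 10000, 30000⟩, ⟨290, 4000, 1000⟩⟩) (by decide +kernel) tC_ak,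
    posD_sub (b := ⟨⟨0, 1, 1⟩, ⟨98, 99, 147⟩, ⟨4050, 10000, 30000⟩, ⟨290, 4000, 1000⟩⟩) (by decide +kernel) tC_aw,
    posD_sub (b := ⟨⟨0, 1, 1⟩, ⟨98, 99, 147⟩, ⟨4050, 10000, 30000⟩, ⟨290, 4000, 1000⟩⟩) (by decide +kernel) tC_gk,
    posD_sub (b := ⟨⟨0, 1, 1⟩, ⟨98, 99, 147⟩, ⟨4050, 10000, 30000⟩, ⟨290, 4000, 1000⟩⟩) (by decide +kernel) tC_gw,
    posD_sub (b := ⟨⟨0, 1, 1⟩, ⟨98, 99, 147⟩, ⟨4050, 10000, 30000⟩, ⟨290, 4000, 1000⟩⟩) (by decide +kernel) tC_ek,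
    posD_sub (b := ⟨⟨0, 1, 1⟩, ⟨98, 99, 147⟩, ⟨4050, 10000, 30000⟩, ⟨290, 4000, 1000⟩⟩) (by decide +kernel) tC_ew⟩

end Vale.Agent.P100.Calib.Closed.Six.Tail
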