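import Vale.Agent.P100.Calib.SlabSixTailCorner
import Vale.Agent.P100.Calib.SlabSixTailCheckstC0
import Vale.Agent.P100.Calib.SlabSixTailCheckstC1
import Vale.Agent.P100.Calib.SlabSixTailCheckstC2
import Vale.Agent.P100.Calib.SlabSixTailCheckstC3
import Vale.Agent.P100.Calib.SlabSixTailCheckstC4
import Vale.Agent.P100.Calib.SlabSixTailCheckstC5
import Vale.Agent.P100.Calib.SlabSixTailCheckstC6
import Vale.Agent.P100.Calib.SlabSixTailCheckstC7
import Vale.Agent.P100.Calib.SlabSixTailCheckstC8
import Vale.Agent.P100.Calib.SlabSixTailCheckstC9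
import Vale.Agent.P100.Calib.SlabSixTailCheckstC10
import Vale.Agent.P100.Calib.SlabSixTailCheckstC11
import Vale.Agent.P100.Calib.SlabSixTailCheckstC12
import Vale.Agent.P100.Calib.SlabSixTailCheckstC13
import Vale.Agent.P100.Calib.SlabSixTailCheckstC14
import Vale.Agent.P100.Calib.SlabSixTailCheckstC15
import Vale.Agent.P100.Calib.SlabSixTailCheckstC16
import Vale.Agent.P100.Calib.SlabSixTailCheckstC17
import Vale.Agent.P100.Calib.SlabSixTailCheckstC18
import Vale.Agent.P100.Calib.SlabSixTailCheckstC19
import Vale.Agent.P100.Calib.SlabSixTailCheckstC20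
import Vale.Agent.P100.Calib.SlabSixTailCheckstC21
import Vale.Agent.P100.Calib.SlabSixTailCheckstC22
import Vale.Agent.P100.Calib.SlabSixTailCheckstC23
import Vale.Agent.P100.Calib.SlabSixTailCheckstC24
import Vale.Agent.P100.Calib.SlabSixTailCheckstC25
import Vale.Agent.P100.Calib.SlabSixTailCheckstC26
import Vale.Agent.P100.Calib.SlabSixTailCheckstC27
import Vale.Agent.P100.Calib.SlabSixTailCheckstC28
import Vale.Agent.P100.Calib.SlabSixTailCheckstC29
import Vale.Agent.P100.Calib.SlabSixTailCheckstC30
import Vale.Agent.P100.Calib.SlabSixTailCheckstC31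
import Vale.Agent.P100.Calib.SlabSixTailCheckstC32
import Vale.Agent.P100.Calib.SlabSixTailCheckstC33
import Vale.Agent.P100.Calib.SlabSixTailCheckstC34
import Vale.Agent.P100.Calib.SlabSixTailCheckstC35
import Vale.Agent.P100.Calib.SlabSixTailCheckstC36
import Vale.Agent.P100.Calib.SlabSixTailCheckstC37
import Vale.Agent.P100.Calib.SlabSixTailCheckstC38
import Vale.Agent.P100.Calib.SlabSixTailCheckstC39
import Vale.Agent.P100.Calib.SlabSixTailCheckstC40
import Vale.Agent.P100.Calib.SlabSixTailCheckstC41
import Vale.Agent.P100.Calib.SlabSixTailCheckstC42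
import Vale.Agent.P100.Calib.SlabSixTailCheckstC43
import Vale.Agent.P100.Calib.SlabSixTailCheckstC44
import Vale.Agent.P100.Calib.SlabSixTailCheckstC45
import Vale.Agent.P100.Calib.SlabSixTailCheckstC46
import Vale.Agent.P100.Calib.SlabSixTailCheckstC47
import Vale.Agent.P100.Calib.SlabSixTailCheckstC48
import Vale.Agent.P100.Calib.SlabSixTailCheckstC49
import Vale.Agent.P100.Calib.SlabSixTailCheckstC50
import Vale.Agent.P100.Calib.SlabSixTailCheckstC51
import Vale.Agent.P100.Calib.SlabSixTailCheckstC52
import Vale.Agent.P100.Calib.SlabSixTailCheckstC53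
import Vale.Agent.P100.Calib.SlabSixTailCheckstC54
import Vale.Agent.P100.Calib.SlabSixTailCheckstC55
import Vale.Agent.P100.Calib.SlabSixTailCheckstC56
import Vale.Agent.P100.Calib.SlabSixTailCheckstC57
import Vale.Agent.P100.Calib.SlabSixTailCheckstC58
import Vale.Agent.P100.Calib.SlabSixTailCheckstC59
import Vale.Agent.P100.Calib.SlabSixTailCheckstC60
import Vale.Agent.P100.Calib.SlabSixTailCheckstC61
import Vale.Agent.P100.Calib.SlabSixTailCheckstC62
import Vale.Agent.P100.Calib.SlabSixTailCheckstC63
import Vale.Agent.P100.Calib.SlabSixTailCheckstC64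

/-!
# The closed signs of dimension six on one part of the tail
-/

set_option linter.unusedVariables false

namespace Vale.Agent.P100.Calib.Closed.Six.Tail

open BoxPos Large
local instance sixTailMainCAdd : Add Ex := ⟨Ex.add⟩
local instance sixTailMainCSub : Sub Ex := ⟨Ex.sub⟩
local instance sixTailMainCMul : Mul Ex := ⟨Ex.mul⟩

theorem tC0_ok {d S u v t : ℝ} (hB : Six.ChartBox d S) (hd : 0 < d) (hS0 : 0 < S) (T : Pt d S u v t)
    (md : Side.Mem ⟨4050, 10000, 30000⟩ d) (mv : Side.Mem ⟨290, 353, 1000⟩ v) (hul : (3 / 5 : ℝ) < u) (huh : u ≤ (4 / 5 : ℝ))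
    (hphi : v < Six.bandsC.phi d u) (hlow : lowT d u < t)
    (hup : t < Six.bandsC.up d u + Six.bandsC.tilt d u * v) :
    Six.ChartSigns d S u v t := by
  have mS := T.S_mem
  refine (piece_false tC0_empty T
    ⟨rfl, mS, md, mv, by decide +kernel, by decide +kernel, by norm_num [tC0, ex_add, ex_sub, ex_mul, Ex.val]; linarith, by norm_num [tC0, ex_add, ex_sub, ex_mul, Ex.val]; linarith,
      fun o mo hx => by
        have hD := tC0_empty.den false o S d v mo mS md mv T.dom
        have hD' := tC0_empty.den true o S d v mo mS md mv T.dom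
        exact ⟨lowT_le hx hD hlow, upC_le hx hD' hup⟩⟩).elim

theorem tC1_ok {d S u v t : ℝ} (hB : Six.ChartBox d S) (hd : 0 < d) (hS0 : 0 < S) (T : Pt d S u v t)
    (md : Side.Mem ⟨4050, 10000, 30000⟩ d) (mv : Side.Mem ⟨353, 430, 1000⟩ v) (hul : (7 / 10 : ℝ) < u) (huh : u ≤ (4 / 5 : ℝ))
    (hphi : v < Six.bandsC.phi d u) (hlow : lowT d u < t)
    (hup : t < Six.bandsC.up d u + Six.bandsC.tilt d u * v) :
    Six.ChartSigns d S u v t := by
  have mS := T.S_mem
  refine (piece_false tC1_empty T
    ⟨rfl, mS, md, mv, by decide +kernel, by decide +kernel, by norm_num [tC1, ex_add, ex_sub, ex_mul, Ex.val]; linarith, by norm_num [tC1, ex_add, ex_sub, ex_mul, Ex.val]; linarith,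
      fun o mo hx => by
        have hD := tC1_empty.den false o S d v mo mS md mv T.dom
        have hD' := tC1_empty.den true o S d v mo mS md mv T.dom
        exact ⟨lowT_le hx hD hlow, upC_le hx hD' hup⟩⟩).elim

theorem tC10_ok {d S u v t : ℝ} (hB : Six.ChartBox d S) (hd : 0 < d) (hS0 : 0 < S) (T : Pt d S u v t)
    (md : Side.Mem ⟨4050, 10000, 30000⟩ d) (mv : Side.Mem ⟨417, 600, 1000⟩ v) (hul : (4 / 5 : ℝ) < u) (huh : u ≤ (71 / 80 : ℝ))
    (hphi : v < Six.bandsC.phi d u) (hlow : lowT d u < t)
    (hup : t < Six.bandsC.up d u + Six.bandsC.tilt d u * v) :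
    Six.ChartSigns d S u v t := by
  have mS := T.S_mem
  exact piece_signs tC10_env tC10_sign (by decide +kernel) T
    ⟨rfl, mS, md, mv, by decide +kernel, by decide +kernel, by norm_num [tC10, ex_add, ex_sub, ex_mul, Ex.val]; linarith, by norm_num [tC10, ex_add, ex_sub, ex_mul, Ex.val]; linarith,
      fun o mo hx => by
        have hD := tC10_env.den false o S d v mo mS md mv T.dom
        have hD' := tC10_env.den true o S d v mo mS md mv T.dom
        exact ⟨lowT_le hx hD hlow, upC_le hx hD' hup⟩⟩

theorem tC11_ok {d S u v t : ℝ} (hB : Six.ChartBox d S) (hd : 0 < d) (hS0 : 0 < S) (T : Pt d S u v t)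
    (md : Side.Mem ⟨4050, 10000, 30000⟩ d) (mv : Side.Mem ⟨417, 600, 1000⟩ v) (hul : (71 / 80 : ℝ) < u) (huh : u ≤ (39 / 40 : ℝ))
    (hphi : v < Six.bandsC.phi d u) (hlow : lowT d u < t)
    (hup : t < Six.bandsC.up d u + Six.bandsC.tilt d u * v) :
    Six.ChartSigns d S u v t := by
  have mS := T.S_mem
  refine (piece_false tC11_empty T
    ⟨rfl, mS, md, mv, by decide +kernel, by decide +kernel, by norm_num [tC11, ex_add, ex_sub, ex_mul, Ex.val]; linarith, by norm_num [tC11, ex_add, ex_sub, ex_mul, Ex.val]; linarith,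
      fun o mo hx => by
        have hD := tC11_empty.den false o S d v mo mS md mv T.dom
        have hD' := tC11_empty.den true o S d v mo mS md mv T.dom
        exact ⟨lowT_le hx hD hlow, upC_le hx hD' hup⟩⟩).elim

theorem tC12_ok {d S u v t : ℝ} (hB : Six.ChartBox d S) (hd : 0 < d) (hS0 : 0 < S) (T : Pt d S u v t)
    (md : Side.Mem ⟨4050, 10000, 30000⟩ d) (mv : Side.Mem ⟨600, 670, 1000⟩ v) (hul : (4 / 5 : ℝ) < u) (huh : u ≤ (39 / 40 : ℝ))
    (hphi : v < Six.bandsC.phi d u) (hlow : lowT d u < t)
    (hup : t < Six.bandsC.up d u + Six.bandsC.tilt d u * v) :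
    Six.ChartSigns d S u v t := by
  have mS := T.S_mem
  exact piece_signs tC12_env tC12_sign (by decide +kernel) T
    ⟨rfl, mS, md, mv, by decide +kernel, by decide +kernel, by norm_num [tC12, ex_add, ex_sub, ex_mul, Ex.val]; linarith, by norm_num [tC12, ex_add, ex_sub, ex_mul, Ex.val]; linarith,
      fun o mo hx => by
        have hD := tC12_env.den false o S d v mo mS md mv T.dom
        have hD' := tC12_env.den true o S d v mo mS md mv T.dom
        exact ⟨lowT_le hx hD hlow, upC_le hx hD' hup⟩⟩

theorem tC13_ok {d S u v t : ℝ} (hB : Six.ChartBox d S) (hd : 0 < d) (hS0 : 0 < S) (T : Pt d S u v t)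
    (md : Side.Mem ⟨4050, 10000, 30000⟩ d) (mv : Side.Mem ⟨670, 897, 1000⟩ v) (hul : (4 / 5 : ℝ) < u) (huh : u ≤ (39 / 40 : ℝ))
    (hphi : v < Six.bandsC.phi d u) (hlow : lowT d u < t)
    (hup : t < Six.bandsC.up d u + Six.bandsC.tilt d u * v) :
    Six.ChartSigns d S u v t := by
  have mS := T.S_mem
  exact piece_signs tC13_env tC13_sign (by decide +kernel) T
    ⟨rfl, mS, md, mv, by decide +kernel, by decide +kernel, by norm_num [tC13, ex_add, ex_sub, ex_mul, Ex.val]; linarith, by norm_num [tC13, ex_add, ex_sub, ex_mul, Ex.val]; linarith,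
      fun o mo hx => by
        have hD := tC13_env.den false o S d v mo mS md mv T.dom
        have hD' := tC13_env.den true o S d v mo mS md mv T.dom
        exact ⟨lowT_le hx hD hlow, upC_le hx hD' hup⟩⟩

theorem tC14_ok {d S u v t : ℝ} (hB : Six.ChartBox d S) (hd : 0 < d) (hS0 : 0 < S) (T : Pt d S u v t)
    (md : Side.Mem ⟨4050, 7026, 30000⟩ d) (mv : Side.Mem ⟨897, 1037, 1000⟩ v) (hul : (4 / 5 : ℝ) < u) (huh : u ≤ (39 / 40 : ℝ))
    (hphi : v < Six.bandsC.phi d u) (hlow : lowT d u < t)
    (hup : t < Six.bandsC.up d u + Six.bandsC.tilt d u * v) :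
    Six.ChartSigns d S u v t := by
  have mS := T.S_mem
  exact piece_signs tC14_env tC14_sign (by decide +kernel) T
    ⟨rfl, mS, md, mv, by decide +kernel, by decide +kernel, by norm_num [tC14, ex_add, ex_sub, ex_mul, Ex.val]; linarith, by norm_num [tC14, ex_add, ex_sub, ex_mul, Ex.val]; linarith,
      fun o mo hx => by
        have hD := tC14_env.den false o S d v mo mS md mv T.dom
        have hD' := tC14_env.den true o S d v mo mS md mv T.dom
        exact ⟨lowT_le hx hD hlow, upC_le hx hD' hup⟩⟩

theorem tC15_ok {d S u v t : ℝ} (hB : Six.ChartBox d S) (hd : 0 < d) (hS0 : 0 < S) (T : Pt d S u v t)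
    (md : Side.Mem ⟨4050, 7026, 30000⟩ d) (mv : Side.Mem ⟨1037, 1200, 1000⟩ v) (hul : (4 / 5 : ℝ) < u) (huh : u ≤ (39 / 40 : ℝ))
    (hphi : v < Six.bandsC.phi d u) (hlow : lowT d u < t)
    (hup : t < Six.bandsC.up d u + Six.bandsC.tilt d u * v) :
    Six.ChartSigns d S u v t := by
  have mS := T.S_mem
  have hlo : tC15.u₁.val 0 S d v < u := by
    by_contra hne
    have hh := not_lt.1 hne
    have hl : tC15Lo.val 0 S d v < u := by norm_num [tC15Lo, ex_add, ex_sub, ex_mul, Ex.val]; linarith
    obtain ⟨o, mo, hx⟩ := place (U := tC15.u₁) (L := tC15Lo) (by decide +kernel) (by decide +kernel) hl hh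
    have hg : 0 < (tC15.u₁ - tC15Lo).val o S d v := by
      simp only [ex_sub, Ex.val, val_noO (e := tC15.u₁) (by decide +kernel) o 0, val_noO (e := tC15Lo) (by decide +kernel) o 0]
      linarith
    exact phC_false hx (tC15_phx o S d v mo mS md mv T.dom hg) (tC15_phd o S d v mo mS md mv T.dom) hphi
  exact piece_signs tC15_env tC15_sign (by decide +kernel) T
    ⟨rfl, mS, md, mv, by decide +kernel, by decide +kernel, hlo, by norm_num [tC15, ex_add, ex_sub, ex_mul, Ex.val]; linarith,
      fun o mo hx => by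
        have hD := tC15_env.den false o S d v mo mS md mv T.dom
        have hD' := tC15_env.den true o S d v mo mS md mv T.dom
        exact ⟨lowT_le hx hD hlow, upC_le hx hD' hup⟩⟩

theorem tC16_ok {d S u v t : ℝ} (hB : Six.ChartBox d S) (hd : 0 < d) (hS0 : 0 < S) (T : Pt d S u v t)
    (md : Side.Mem ⟨7026, 8514, 30000⟩ d) (mv : Side.Mem ⟨897, 1200, 1000⟩ v) (hul : (4 / 5 : ℝ) < u) (huh : u ≤ (39 / 40 : ℝ))
    (hphi : v < Six.bandsC.phi d u) (hlow : lowT d u < t)
    (hup : t < Six.bandsC.up d u + Six.bandsC.tilt d u * v) :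
    Six.ChartSigns d S u v t := by
  have mS := T.S_mem
  have hlo : tC16.u₁.val 0 S d v < u := by
    by_contra hne
    have hh := not_lt.1 hne
    have hl : tC16Lo.val 0 S d v < u := by norm_num [tC16Lo, ex_add, ex_sub, ex_mul, Ex.val]; linarith
    obtain ⟨o, mo, hx⟩ := place (U := tC16.u₁) (L := tC16Lo) (by decide +kernel) (by decide +kernel) hl hh
    have hg : 0 < (tC16.u₁ - tC16Lo).val o S d v := by
      simp only [ex_sub, Ex.val, val_noO (e := tC16.u₁) (by decide +kernel) o 0, val_noO (e := tC16Lo) (by decide +kernel) o 0]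
      linarith
    exact phC_false hx (tC16_phx o S d v mo mS md mv T.dom hg) (tC16_phd o S d v mo mS md mv T.dom) hphi
  exact piece_signs tC16_env tC16_sign (by decide +kernel) T
    ⟨rfl, mS, md, mv, by decide +kernel, by decide +kernel, hlo, by norm_num [tC16, ex_add, ex_sub, ex_mul, Ex.val]; linarith,
      fun o mo hx => by
        have hD := tC16_env.den false o S d v mo mS md mv T.dom
        have hD' := tC16_env.den true o S d v mo mS md mv T.dom
        exact ⟨lowT_le hx hD hlow, upC_le hx hD' hup⟩⟩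

theorem tC17_ok {d S u v t : ℝ} (hB : Six.ChartBox d S) (hd : 0 < d) (hS0 : 0 < S) (T : Pt d S u v t)
    (md : Side.Mem ⟨8514, 10000, 30000⟩ d) (mv : Side.Mem ⟨897, 1037, 1000⟩ v) (hul : (4 / 5 : ℝ) < u) (huh : u ≤ (39 / 40 : ℝ))
    (hphi : v < Six.bandsC.phi d u) (hlow : lowT d u < t)
    (hup : t < Six.bandsC.up d u + Six.bandsC.tilt d u * v) :
    Six.ChartSigns d S u v t := by
  have mS := T.S_mem
  have hlo : tC17.u₁.val 0 S d v < u := by
    by_contra hne
    have hh := not_lt.1 hne
    have hl : tC17Lo.val 0 S d v < u := by norm_num [tC17Lo, ex_add, ex_sub, ex_mul, Ex.val]; linarith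
    obtain ⟨o, mo, hx⟩ := place (U := tC17.u₁) (L := tC17Lo) (by decide +kernel) (by decide +kernel) hl hh
    have hg : 0 < (tC17.u₁ - tC17Lo).val o S d v := by
      simp only [ex_sub, Ex.val, val_noO (e := tC17.u₁) (by decide +kernel) o 0, val_noO (e := tC17Lo) (by decide +kernel) o 0]
      linarith
    exact phC_false hx (tC17_phx o S d v mo mS md mv T.dom hg) (tC17_phd o S d v mo mS md mv T.dom) hphi
  exact piece_signs tC17_env tC17_sign (by decide +kernel) T
    ⟨rfl, mS, md, mv, by decide +kernel, by decide +kernel, hlo, by norm_num [tC17, ex_add, ex_sub, ex_mul, Ex.val]; linarith,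
      fun o mo hx => by
        have hD := tC17_env.den false o S d v mo mS md mv T.dom
        have hD' := tC17_env.den true o S d v mo mS md mv T.dom
        exact ⟨lowT_le hx hD hlow, upC_le hx hD' hup⟩⟩

theorem tC18_ok {d S u v t : ℝ} (hB : Six.ChartBox d S) (hd : 0 < d) (hS0 : 0 < S) (T : Pt d S u v t)
    (md : Side.Mem ⟨8514, 9258, 30000⟩ d) (mv : Side.Mem ⟨1037, 1200, 1000⟩ v) (hul : (4 / 5 : ℝ) < u) (huh : u ≤ (39 / 40 : ℝ))
    (hphi : v < Six.bandsC.phi d u) (hlow : lowT d u < t)
    (hup : t < Six.bandsC.up d u + Six.bandsC.tilt d u * v) :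
    Six.ChartSigns d S u v t := by
  have mS := T.S_mem
  have hlo : tC18.u₁.val 0 S d v < u := by
    by_contra hne
    have hh := not_lt.1 hne
    have hl : tC18Lo.val 0 S d v < u := by norm_num [tC18Lo, ex_add, ex_sub, ex_mul, Ex.val]; linarith
    obtain ⟨o, mo, hx⟩ := place (U := tC18.u₁) (L := tC18Lo) (by decide +kernel) (by decide +kernel) hl hh
    have hg : 0 < (tC18.u₁ - tC18Lo).val o S d v := by
      simp only [ex_sub, Ex.val, val_noO (e := tC18.u₁) (by decide +kernel) o 0, val_noO (e := tC18Lo) (by decide +kernel) o 0]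
      linarith
    exact phC_false hx (tC18_phx o S d v mo mS md mv T.dom hg) (tC18_phd o S d v mo mS md mv T.dom) hphi
  exact piece_signs_cut tC18_env tC18_envU tC18A_sign tC18B_sign (by decide +kernel) (by decide +kernel) T
    ⟨rfl, mS, md, mv, by decide +kernel, by decide +kernel, hlo, by norm_num [tC18, ex_add, ex_sub, ex_mul, Ex.val]; linarith,
      fun o mo hx => by
        have hD := tC18_env.den false o S d v mo mS md mv T.dom
        have hD' := tC18_env.den true o S d v mo mS md mv T.dom
        exact ⟨lowT_le hx hD hlow, upC_le hx hD' hup⟩⟩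

theorem tC19_ok {d S u v t : ℝ} (hB : Six.ChartBox d S) (hd : 0 < d) (hS0 : 0 < S) (T : Pt d S u v t)
    (md : Side.Mem ⟨9258, 9630, 30000⟩ d) (mv : Side.Mem ⟨1037, 1200, 1000⟩ v) (hul : (4 / 5 : ℝ) < u) (huh : u ≤ (39 / 40 : ℝ))
    (hphi : v < Six.bandsC.phi d u) (hlow : lowT d u < t)
    (hup : t < Six.bandsC.up d u + Six.bandsC.tilt d u * v) :
    Six.ChartSigns d S u v t := by
  have mS := T.S_mem
  have hlo : tC19.u₁.val 0 S d v < u := by
    by_contra hne
    have hh := not_lt.1 hne
    have hl : tC19Lo.val 0 S d v < u := by norm_num [tC19Lo, ex_add, ex_sub, ex_mul, Ex.val]; linarith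
    obtain ⟨o, mo, hx⟩ := place (U := tC19.u₁) (L := tC19Lo) (by decide +kernel) (by decide +kernel) hl hh
    have hg : 0 < (tC19.u₁ - tC19Lo).val o S d v := by
      simp only [ex_sub, Ex.val, val_noO (e := tC19.u₁) (by decide +kernel) o 0, val_noO (e := tC19Lo) (by decide +kernel) o 0]
      linarith
    exact phC_false hx (tC19_phx o S d v mo mS md mv T.dom hg) (tC19_phd o S d v mo mS md mv T.dom) hphi
  exact piece_signs_cut tC19_env tC19_envU tC19A_sign tC19B_sign (by decide +kernel) (by decide +kernel) T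
    ⟨rfl, mS, md, mv, by decide +kernel, by decide +kernel, hlo, by norm_num [tC19, ex_add, ex_sub, ex_mul, Ex.val]; linarith,
      fun o mo hx => by
        have hD := tC19_env.den false o S d v mo mS md mv T.dom
        have hD' := tC19_env.den true o S d v mo mS md mv T.dom
        exact ⟨lowT_le hx hD hlow, upC_le hx hD' hup⟩⟩

theorem tC2_ok {d S u v t : ℝ} (hB : Six.ChartBox d S) (hd : 0 < d) (hS0 : 0 < S) (T : Pt d S u v t)
    (md : Side.Mem ⟨4050, 10000, 30000⟩ d) (mv : Side.Mem ⟨430, 550, 1000⟩ v) (hul : (3 / 5 : ℝ) < u) (huh : u ≤ (4 / 5 : ℝ))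
    (hphi : v < Six.bandsC.phi d u) (hlow : lowT d u < t)
    (hup : t < Six.bandsC.up d u + Six.bandsC.tilt d u * v) :
    Six.ChartSigns d S u v t := by
  have mS := T.S_mem
  exact piece_signs tC2_env tC2_sign (by decide +kernel) T
    ⟨rfl, mS, md, mv, by decide +kernel, by decide +kernel, by norm_num [tC2, ex_add, ex_sub, ex_mul, Ex.val]; linarith, by norm_num [tC2, ex_add, ex_sub, ex_mul, Ex.val]; linarith,
      fun o mo hx => by
        have hD := tC2_env.den false o S d v mo mS md mv T.dom
        have hD' := tC2_env.den true o S d v mo mS md mv T.dom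
        exact ⟨lowT_le hx hD hlow, upC_le hx hD' hup⟩⟩

theorem tC20_ok {d S u v t : ℝ} (hB : Six.ChartBox d S) (hd : 0 < d) (hS0 : 0 < S) (T : Pt d S u v t)
    (md : Side.Mem ⟨9630, 10000, 30000⟩ d) (mv : Side.Mem ⟨1037, 1116, 1000⟩ v) (hul : (4 / 5 : ℝ) < u) (huh : u ≤ (39 / 40 : ℝ))
    (hphi : v < Six.bandsC.phi d u) (hlow : lowT d u < t)
    (hup : t < Six.bandsC.up d u + Six.bandsC.tilt d u * v) :
    Six.ChartSigns d S u v t := by
  have mS := T.S_mem
  have hlo : tC20.u₁.val 0 S d v < u := by
    by_contra hne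
    have hh := not_lt.1 hne
    have hl : tC20Lo.val 0 S d v < u := by norm_num [tC20Lo, ex_add, ex_sub, ex_mul, Ex.val]; linarith
    obtain ⟨o, mo, hx⟩ := place (U := tC20.u₁) (L := tC20Lo) (by decide +kernel) (by decide +kernel) hl hh
    have hg : 0 < (tC20.u₁ - tC20Lo).val o S d v := by
      simp only [ex_sub, Ex.val, val_noO (e := tC20.u₁) (by decide +kernel) o 0, val_noO (e := tC20Lo) (by decide +kernel) o 0]
      linarith
    exact phC_false hx (tC20_phx o S d v mo mS md mv T.dom hg) (tC20_phd o S d v mo mS md mv T.dom) hphi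
  exact piece_signs_cut tC20_env tC20_envU tC20A_sign tC20B_sign (by decide +kernel) (by decide +kernel) T
    ⟨rfl, mS, md, mv, by decide +kernel, by decide +kernel, hlo, by norm_num [tC20, ex_add, ex_sub, ex_mul, Ex.val]; linarith,
      fun o mo hx => by
        have hD := tC20_env.den false o S d v mo mS md mv T.dom
        have hD' := tC20_env.den true o S d v mo mS md mv T.dom
        exact ⟨lowT_le hx hD hlow, upC_le hx hD' hup⟩⟩

theorem tC21_ok {d S u v t : ℝ} (hB : Six.ChartBox d S) (hd : 0 < d) (hS0 : 0 < S) (T : Pt d S u v t)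
    (md : Side.Mem ⟨9630, 10000, 30000⟩ d) (mv : Side.Mem ⟨1116, 1200, 1000⟩ v) (hul : (4 / 5 : ℝ) < u) (huh : u ≤ (71 / 80 : ℝ))
    (hphi : v < Six.bandsC.phi d u) (hlow : lowT d u < t)
    (hup : t < Six.bandsC.up d u + Six.bandsC.tilt d u * v) :
    Six.ChartSigns d S u v t := by
  have mS := T.S_mem
  have hl : tC21Lo.val 0 S d v < u := by norm_num [tC21Lo, ex_add, ex_sub, ex_mul, Ex.val]; linarith
  have hh : u ≤ tC21Hi.val 0 S d v := by norm_num [tC21Hi, ex_add, ex_sub, ex_mul, Ex.val]; linarith
  obtain ⟨o, mo, hx⟩ := place (by decide +kernel) (by decide +kernel) hl hh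
  exact (phC_false hx (tC21_phx o S d v mo mS md mv T.dom) (tC21_phd o S d v mo mS md mv T.dom) hphi).elim

theorem tC22_ok {d S u v t : ℝ} (hB : Six.ChartBox d S) (hd : 0 < d) (hS0 : 0 < S) (T : Pt d S u v t)
    (md : Side.Mem ⟨9630, 10000, 30000⟩ d) (mv : Side.Mem ⟨1116, 1200, 1000⟩ v) (hul : (71 / 80 : ℝ) < u) (huh : u ≤ (149 / 160 : ℝ))
    (hphi : v < Six.bandsC.phi d u) (hlow : lowT d u < t)
    (hup : t < Six.bandsC.up d u + Six.bandsC.tilt d u * v) :
    Six.ChartSigns d S u v t := by
  have mS := T.S_mem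
  have hlo : tC22.u₁.val 0 S d v < u := by
    by_contra hne
    have hh := not_lt.1 hne
    have hl : tC22Lo.val 0 S d v < u := by norm_num [tC22Lo, ex_add, ex_sub, ex_mul, Ex.val]; linarith
    obtain ⟨o, mo, hx⟩ := place (U := tC22.u₁) (L := tC22Lo) (by decide +kernel) (by decide +kernel) hl hh
    have hg : 0 < (tC22.u₁ - tC22Lo).val o S d v := by
      simp only [ex_sub, Ex.val, val_noO (e := tC22.u₁) (by decide +kernel) o 0, val_noO (e := tC22Lo) (by decide +kernel) o 0]
      linarith
    exact phC_false hx (tC22_phx o S d v mo mS md mv T.dom hg) (tC22_phd o S d v mo mS md mv T.dom) hphi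
  exact piece_signs_cut tC22_env tC22_envU tC22A_sign tC22B_sign (by decide +kernel) (by decide +kernel) T
    ⟨rfl, mS, md, mv, by decide +kernel, by decide +kernel, hlo, by norm_num [tC22, ex_add, ex_sub, ex_mul, Ex.val]; linarith,
      fun o mo hx => by
        have hD := tC22_env.den false o S d v mo mS md mv T.dom
        have hD' := tC22_env.den true o S d v mo mS md mv T.dom
        exact ⟨lowT_le hx hD hlow, upC_le hx hD' hup⟩⟩

theorem tC23_ok {d S u v t : ℝ} (hB : Six.ChartBox d S) (hd : 0 < d) (hS0 : 0 < S) (T : Pt d S u v t)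
    (md : Side.Mem ⟨9630, 10000, 30000⟩ d) (mv : Side.Mem ⟨1116, 1200, 1000⟩ v) (hul : (149 / 160 : ℝ) < u) (huh : u ≤ (39 / 40 : ℝ))
    (hphi : v < Six.bandsC.phi d u) (hlow : lowT d u < t)
    (hup : t < Six.bandsC.up d u + Six.bandsC.tilt d u * v) :
    Six.ChartSigns d S u v t := by
  have mS := T.S_mem
  exact piece_signs_cut tC23_env tC23_envU tC23A_sign tC23B_sign (by decide +kernel) (by decide +kernel) T
    ⟨rfl, mS, md, mv, by decide +kernel, by decide +kernel, by norm_num [tC23, ex_add, ex_sub, ex_mul, Ex.val]; linarith, by norm_num [tC23, ex_add, ex_sub, ex_mul, Ex.val]; linarith,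
      fun o mo hx => by
        have hD := tC23_env.den false o S d v mo mS md mv T.dom
        have hD' := tC23_env.den true o S d v mo mS md mv T.dom
        exact ⟨lowT_le hx hD hlow, upC_le hx hD' hup⟩⟩

theorem tC24_ok {d S u v t : ℝ} (hB : Six.ChartBox d S) (hd : 0 < d) (hS0 : 0 < S) (T : Pt d S u v t)
    (md : Side.Mem ⟨4050, 7026, 30000⟩ d) (mv : Side.Mem ⟨1200, 1271, 1000⟩ v) (hul : (4 / 5 : ℝ) < u) (huh : u ≤ (39 / 40 : ℝ))
    (hphi : v < Six.bandsC.phi d u) (hlow : lowT d u < t)
    (hup : t < Six.bandsC.up d u + Six.bandsC.tilt d u * v) :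
    Six.ChartSigns d S u v t := by
  have mS := T.S_mem
  have hlo : tC24.u₁.val 0 S d v < u := by
    by_contra hne
    have hh := not_lt.1 hne
    have hl : tC24Lo.val 0 S d v < u := by norm_num [tC24Lo, ex_add, ex_sub, ex_mul, Ex.val]; linarith
    obtain ⟨o, mo, hx⟩ := place (U := tC24.u₁) (L := tC24Lo) (by decide +kernel) (by decide +kernel) hl hh
    have hg : 0 < (tC24.u₁ - tC24Lo).val o S d v := by
      simp only [ex_sub, Ex.val, val_noO (e := tC24.u₁) (by decide +kernel) o 0, val_noO (e := tC24Lo) (by decide +kernel) o 0]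
      linarith
    exact phC_false hx (tC24_phx o S d v mo mS md mv T.dom hg) (tC24_phd o S d v mo mS md mv T.dom) hphi
  exact piece_signs tC24_env tC24_sign (by decide +kernel) T
    ⟨rfl, mS, md, mv, by decide +kernel, by decide +kernel, hlo, by norm_num [tC24, ex_add, ex_sub, ex_mul, Ex.val]; linarith,
      fun o mo hx => by
        have hD := tC24_env.den false o S d v mo mS md mv T.dom
        have hD' := tC24_env.den true o S d v mo mS md mv T.dom
        exact ⟨lowT_le hx hD hlow, upC_le hx hD' hup⟩⟩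

theorem tC25_ok {d S u v t : ℝ} (hB : Six.ChartBox d S) (hd : 0 < d) (hS0 : 0 < S) (T : Pt d S u v t)
    (md : Side.Mem ⟨7026, 8514, 30000⟩ d) (mv : Side.Mem ⟨1200, 1271, 1000⟩ v) (hul : (4 / 5 : ℝ) < u) (huh : u ≤ (39 / 40 : ℝ))
    (hphi : v < Six.bandsC.phi d u) (hlow : lowT d u < t)
    (hup : t < Six.bandsC.up d u + Six.bandsC.tilt d u * v) :
    Six.ChartSigns d S u v t := by
  have mS := T.S_mem
  have hlo : tC25.u₁.val 0 S d v < u := by
    by_contra hne
    have hh := not_lt.1 hne
    have hl : tC25Lo.val 0 S d v < u := by norm_num [tC25Lo, ex_add, ex_sub, ex_mul, Ex.val]; linarith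
    obtain ⟨o, mo, hx⟩ := place (U := tC25.u₁) (L := tC25Lo) (by decide +kernel) (by decide +kernel) hl hh
    have hg : 0 < (tC25.u₁ - tC25Lo).val o S d v := by
      simp only [ex_sub, Ex.val, val_noO (e := tC25.u₁) (by decide +kernel) o 0, val_noO (e := tC25Lo) (by decide +kernel) o 0]
      linarith
    exact phC_false hx (tC25_phx o S d v mo mS md mv T.dom hg) (tC25_phd o S d v mo mS md mv T.dom) hphi
  exact piece_signs tC25_env tC25_sign (by decide +kernel) T
    ⟨rfl, mS, md, mv, by decide +kernel, by decide +kernel, hlo, by norm_num [tC25, ex_add, ex_sub, ex_mul, Ex.val]; linarith,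
      fun o mo hx => by
        have hD := tC25_env.den false o S d v mo mS md mv T.dom
        have hD' := tC25_env.den true o S d v mo mS md mv T.dom
        exact ⟨lowT_le hx hD hlow, upC_le hx hD' hup⟩⟩

theorem tC26_ok {d S u v t : ℝ} (hB : Six.ChartBox d S) (hd : 0 < d) (hS0 : 0 < S) (T : Pt d S u v t)
    (md : Side.Mem ⟨8514, 9258, 30000⟩ d) (mv : Side.Mem ⟨1200, 1271, 1000⟩ v) (hul : (4 / 5 : ℝ) < u) (huh : u ≤ (39 / 40 : ℝ))
    (hphi : v < Six.bandsC.phi d u) (hlow : lowT d u < t)
    (hup : t < Six.bandsC.up d u + Six.bandsC.tilt d u * v) :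
    Six.ChartSigns d S u v t := by
  have mS := T.S_mem
  have hlo : tC26.u₁.val 0 S d v < u := by
    by_contra hne
    have hh := not_lt.1 hne
    have hl : tC26Lo.val 0 S d v < u := by norm_num [tC26Lo, ex_add, ex_sub, ex_mul, Ex.val]; linarith
    obtain ⟨o, mo, hx⟩ := place (U := tC26.u₁) (L := tC26Lo) (by decide +kernel) (by decide +kernel) hl hh
    have hg : 0 < (tC26.u₁ - tC26Lo).val o S d v := by
      simp only [ex_sub, Ex.val, val_noO (e := tC26.u₁) (by decide +kernel) o 0, val_noO (e := tC26Lo) (by decide +kernel) o 0]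
      linarith
    exact phC_false hx (tC26_phx o S d v mo mS md mv T.dom hg) (tC26_phd o S d v mo mS md mv T.dom) hphi
  exact piece_signs_cut tC26_env tC26_envU tC26A_sign tC26B_sign (by decide +kernel) (by decide +kernel) T
    ⟨rfl, mS, md, mv, by decide +kernel, by decide +kernel, hlo, by norm_num [tC26, ex_add, ex_sub, ex_mul, Ex.val]; linarith,
      fun o mo hx => by
        have hD := tC26_env.den false o S d v mo mS md mv T.dom
        have hD' := tC26_env.den true o S d v mo mS md mv T.dom
        exact ⟨lowT_le hx hD hlow, upC_le hx hD' hup⟩⟩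

theorem tC27_ok {d S u v t : ℝ} (hB : Six.ChartBox d S) (hd : 0 < d) (hS0 : 0 < S) (T : Pt d S u v t)
    (md : Side.Mem ⟨9258, 10000, 30000⟩ d) (mv : Side.Mem ⟨1200, 1271, 1000⟩ v) (hul : (4 / 5 : ℝ) < u) (huh : u ≤ (71 / 80 : ℝ))
    (hphi : v < Six.bandsC.phi d u) (hlow : lowT d u < t)
    (hup : t < Six.bandsC.up d u + Six.bandsC.tilt d u * v) :
    Six.ChartSigns d S u v t := by
  have mS := T.S_mem
  have hl : tC27Lo.val 0 S d v < u := by norm_num [tC27Lo, ex_add, ex_sub, ex_mul, Ex.val]; linarith
  have hh : u ≤ tC27Hi.val 0 S d v := by norm_num [tC27Hi, ex_add, ex_sub, ex_mul, Ex.val]; linarith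
  obtain ⟨o, mo, hx⟩ := place (by decide +kernel) (by decide +kernel) hl hh
  exact (phC_false hx (tC27_phx o S d v mo mS md mv T.dom) (tC27_phd o S d v mo mS md mv T.dom) hphi).elim

theorem tC28_ok {d S u v t : ℝ} (hB : Six.ChartBox d S) (hd : 0 < d) (hS0 : 0 < S) (T : Pt d S u v t)
    (md : Side.Mem ⟨9258, 10000, 30000⟩ d) (mv : Side.Mem ⟨1200, 1271, 1000⟩ v) (hul : (149 / 160 : ℝ) < u) (huh : u ≤ (61 / 64 : ℝ))
    (hphi : v < Six.bandsC.phi d u) (hlow : lowT d u < t)
    (hup : t < Six.bandsC.up d u + Six.bandsC.tilt d u * v) :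
    Six.ChartSigns d S u v t := by
  have mS := T.S_mem
  have hlo : tC28.u₁.val 0 S d v < u := by
    by_contra hne
    have hh := not_lt.1 hne
    have hl : tC28Lo.val 0 S d v < u := by norm_num [tC28Lo, ex_add, ex_sub, ex_mul, Ex.val]; linarith
    obtain ⟨o, mo, hx⟩ := place (U := tC28.u₁) (L := tC28Lo) (by decide +kernel) (by decide +kernel) hl hh
    have hg : 0 < (tC28.u₁ - tC28Lo).val o S d v := by
      simp only [ex_sub, Ex.val, val_noO (e := tC28.u₁) (by decide +kernel) o 0, val_noO (e := tC28Lo) (by decide +kernel) o 0]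
      linarith
    exact phC_false hx (tC28_phx o S d v mo mS md mv T.dom hg) (tC28_phd o S d v mo mS md mv T.dom) hphi
  exact piece_signs_cut tC28_env tC28_envU tC28A_sign tC28B_sign (by decide +kernel) (by decide +kernel) T
    ⟨rfl, mS, md, mv, by decide +kernel, by decide +kernel, hlo, by norm_num [tC28, ex_add, ex_sub, ex_mul, Ex.val]; linarith,
      fun o mo hx => by
        have hD := tC28_env.den false o S d v mo mS md mv T.dom
        have hD' := tC28_env.den true o S d v mo mS md mv T.dom
        exact ⟨lowT_le hx hD hlow, upC_le hx hD' hup⟩⟩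

theorem tC29_ok {d S u v t : ℝ} (hB : Six.ChartBox d S) (hd : 0 < d) (hS0 : 0 < S) (T : Pt d S u v t)
    (md : Side.Mem ⟨9258, 10000, 30000⟩ d) (mv : Side.Mem ⟨1200, 1271, 1000⟩ v) (hul : (61 / 64 : ℝ) < u) (huh : u ≤ (39 / 40 : ℝ))
    (hphi : v < Six.bandsC.phi d u) (hlow : lowT d u < t)
    (hup : t < Six.bandsC.up d u + Six.bandsC.tilt d u * v) :
    Six.ChartSigns d S u v t := by
  have mS := T.S_mem
  exact piece_signs_cut tC29_env tC29_envU tC29A_sign tC29B_sign (by decide +kernel) (by decide +kernel) T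
    ⟨rfl, mS, md, mv, by decide +kernel, by decide +kernel, by norm_num [tC29, ex_add, ex_sub, ex_mul, Ex.val]; linarith, by norm_num [tC29, ex_add, ex_sub, ex_mul, Ex.val]; linarith,
      fun o mo hx => by
        have hD := tC29_env.den false o S d v mo mS md mv T.dom
        have hD' := tC29_env.den true o S d v mo mS md mv T.dom
        exact ⟨lowT_le hx hD hlow, upC_le hx hD' hup⟩⟩

theorem tC3_ok {d S u v t : ℝ} (hB : Six.ChartBox d S) (hd : 0 < d) (hS0 : 0 < S) (T : Pt d S u v t)
    (md : Side.Mem ⟨4050, 10000, 30000⟩ d) (mv : Side.Mem ⟨550, 900, 1000⟩ v) (hul : (3 / 5 : ℝ) < u) (huh : u ≤ (4 / 5 : ℝ))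
    (hphi : v < Six.bandsC.phi d u) (hlow : lowT d u < t)
    (hup : t < Six.bandsC.up d u + Six.bandsC.tilt d u * v) :
    Six.ChartSigns d S u v t := by
  have mS := T.S_mem
  exact piece_signs tC3_env tC3_sign (by decide +kernel) T
    ⟨rfl, mS, md, mv, by decide +kernel, by decide +kernel, by norm_num [tC3, ex_add, ex_sub, ex_mul, Ex.val]; linarith, by norm_num [tC3, ex_add, ex_sub, ex_mul, Ex.val]; linarith,
      fun o mo hx => by
        have hD := tC3_env.den false o S d v mo mS md mv T.dom
        have hD' := tC3_env.den true o S d v mo mS md mv T.dom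
        exact ⟨lowT_le hx hD hlow, upC_le hx hD' hup⟩⟩

theorem tC30_ok {d S u v t : ℝ} (hB : Six.ChartBox d S) (hd : 0 < d) (hS0 : 0 < S) (T : Pt d S u v t)
    (md : Side.Mem ⟨4050, 7026, 30000⟩ d) (mv : Side.Mem ⟨1271, 1346, 1000⟩ v) (hul : (4 / 5 : ℝ) < u) (huh : u ≤ (39 / 40 : ℝ))
    (hphi : v < Six.bandsC.phi d u) (hlow : lowT d u < t)
    (hup : t < Six.bandsC.up d u + Six.bandsC.tilt d u * v) :
    Six.ChartSigns d S u v t := by
  have mS := T.S_mem
  have hlo : tC30.u₁.val 0 S d v < u := by
    by_contra hne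
    have hh := not_lt.1 hne
    have hl : tC30Lo.val 0 S d v < u := by norm_num [tC30Lo, ex_add, ex_sub, ex_mul, Ex.val]; linarith
    obtain ⟨o, mo, hx⟩ := place (U := tC30.u₁) (L := tC30Lo) (by decide +kernel) (by decide +kernel) hl hh
    have hg : 0 < (tC30.u₁ - tC30Lo).val o S d v := by
      simp only [ex_sub, Ex.val, val_noO (e := tC30.u₁) (by decide +kernel) o 0, val_noO (e := tC30Lo) (by decide +kernel) o 0]
      linarith
    exact phC_false hx (tC30_phx o S d v mo mS md mv T.dom hg) (tC30_phd o S d v mo mS md mv T.dom) hphi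
  exact piece_signs tC30_env tC30_sign (by decide +kernel) T
    ⟨rfl, mS, md, mv, by decide +kernel, by decide +kernel, hlo, by norm_num [tC30, ex_add, ex_sub, ex_mul, Ex.val]; linarith,
      fun o mo hx => by
        have hD := tC30_env.den false o S d v mo mS md mv T.dom
        have hD' := tC30_env.den true o S d v mo mS md mv T.dom
        exact ⟨lowT_le hx hD hlow, upC_le hx hD' hup⟩⟩

theorem tC31_ok {d S u v t : ℝ} (hB : Six.ChartBox d S) (hd : 0 < d) (hS0 : 0 < S) (T : Pt d S u v t)
    (md : Side.Mem ⟨7026, 8514, 30000⟩ d) (mv : Side.Mem ⟨1271, 1346, 1000⟩ v) (hul : (4 / 5 : ℝ) < u) (huh : u ≤ (39 / 40 : ℝ))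
    (hphi : v < Six.bandsC.phi d u) (hlow : lowT d u < t)
    (hup : t < Six.bandsC.up d u + Six.bandsC.tilt d u * v) :
    Six.ChartSigns d S u v t := by
  have mS := T.S_mem
  have hlo : tC31.u₁.val 0 S d v < u := by
    by_contra hne
    have hh := not_lt.1 hne
    have hl : tC31Lo.val 0 S d v < u := by norm_num [tC31Lo, ex_add, ex_sub, ex_mul, Ex.val]; linarith
    obtain ⟨o, mo, hx⟩ := place (U := tC31.u₁) (L := tC31Lo) (by decide +kernel) (by decide +kernel) hl hh
    have hg : 0 < (tC31.u₁ - tC31Lo).val o S d v := by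
      simp only [ex_sub, Ex.val, val_noO (e := tC31.u₁) (by decide +kernel) o 0, val_noO (e := tC31Lo) (by decide +kernel) o 0]
      linarith
    exact phC_false hx (tC31_phx o S d v mo mS md mv T.dom hg) (tC31_phd o S d v mo mS md mv T.dom) hphi
  exact piece_signs_cut tC31_env tC31_envU tC31A_sign tC31B_sign (by decide +kernel) (by decide +kernel) T
    ⟨rfl, mS, md, mv, by decide +kernel, by decide +kernel, hlo, by norm_num [tC31, ex_add, ex_sub, ex_mul, Ex.val]; linarith,
      fun o mo hx => by
        have hD := tC31_env.den false o S d v mo mS md mv T.dom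
        have hD' := tC31_env.den true o S d v mo mS md mv T.dom
        exact ⟨lowT_le hx hD hlow, upC_le hx hD' hup⟩⟩

theorem tC32_ok {d S u v t : ℝ} (hB : Six.ChartBox d S) (hd : 0 < d) (hS0 : 0 < S) (T : Pt d S u v t)
    (md : Side.Mem ⟨8514, 9258, 30000⟩ d) (mv : Side.Mem ⟨1271, 1346, 1000⟩ v) (hul : (4 / 5 : ℝ) < u) (huh : u ≤ (39 / 40 : ℝ))
    (hphi : v < Six.bandsC.phi d u) (hlow : lowT d u < t)
    (hup : t < Six.bandsC.up d u + Six.bandsC.tilt d u * v) :
    Six.ChartSigns d S u v t := by
  have mS := T.S_mem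
  have hlo : tC32.u₁.val 0 S d v < u := by
    by_contra hne
    have hh := not_lt.1 hne
    have hl : tC32Lo.val 0 S d v < u := by norm_num [tC32Lo, ex_add, ex_sub, ex_mul, Ex.val]; linarith
    obtain ⟨o, mo, hx⟩ := place (U := tC32.u₁) (L := tC32Lo) (by decide +kernel) (by decide +kernel) hl hh
    have hg : 0 < (tC32.u₁ - tC32Lo).val o S d v := by
      simp only [ex_sub, Ex.val, val_noO (e := tC32.u₁) (by decide +kernel) o 0, val_noO (e := tC32Lo) (by decide +kernel) o 0]
      linarith
    exact phC_false hx (tC32_phx o S d v mo mS md mv T.dom hg) (tC32_phd o S d v mo mS md mv T.dom) hphi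
  exact piece_signs_cut tC32_env tC32_envU tC32A_sign tC32B_sign (by decide +kernel) (by decide +kernel) T
    ⟨rfl, mS, md, mv, by decide +kernel, by decide +kernel, hlo, by norm_num [tC32, ex_add, ex_sub, ex_mul, Ex.val]; linarith,
      fun o mo hx => by
        have hD := tC32_env.den false o S d v mo mS md mv T.dom
        have hD' := tC32_env.den true o S d v mo mS md mv T.dom
        exact ⟨lowT_le hx hD hlow, upC_le hx hD' hup⟩⟩

theorem tC33_ok {d S u v t : ℝ} (hB : Six.ChartBox d S) (hd : 0 < d) (hS0 : 0 < S) (T : Pt d S u v t)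
    (md : Side.Mem ⟨9258, 10000, 30000⟩ d) (mv : Side.Mem ⟨1271, 1346, 1000⟩ v) (hul : (4 / 5 : ℝ) < u) (huh : u ≤ (39 / 40 : ℝ))
    (hphi : v < Six.bandsC.phi d u) (hlow : lowT d u < t)
    (hup : t < Six.bandsC.up d u + Six.bandsC.tilt d u * v) :
    Six.ChartSigns d S u v t := by
  have mS := T.S_mem
  have hlo : tC33.u₁.val 0 S d v < u := by
    by_contra hne
    have hh := not_lt.1 hne
    have hl : tC33Lo.val 0 S d v < u := by norm_num [tC33Lo, ex_add, ex_sub, ex_mul, Ex.val]; linarith
    obtain ⟨o, mo, hx⟩ := place (U := tC33.u₁) (L := tC33Lo) (by decide +kernel) (by decide +kernel) hl hh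
    have hg : 0 < (tC33.u₁ - tC33Lo).val o S d v := by
      simp only [ex_sub, Ex.val, val_noO (e := tC33.u₁) (by decide +kernel) o 0, val_noO (e := tC33Lo) (by decide +kernel) o 0]
      linarith
    exact phC_false hx (tC33_phx o S d v mo mS md mv T.dom hg) (tC33_phd o S d v mo mS md mv T.dom) hphi
  exact piece_signs_cut tC33_env tC33_envU tC33A_sign tC33B_sign (by decide +kernel) (by decide +kernel) T
    ⟨rfl, mS, md, mv, by decide +kernel, by decide +kernel, hlo, by norm_num [tC33, ex_add, ex_sub, ex_mul, Ex.val]; linarith,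
      fun o mo hx => by
        have hD := tC33_env.den false o S d v mo mS md mv T.dom
        have hD' := tC33_env.den true o S d v mo mS md mv T.dom
        exact ⟨lowT_le hx hD hlow, upC_le hx hD' hup⟩⟩

theorem tC34_ok {d S u v t : ℝ} (hB : Six.ChartBox d S) (hd : 0 < d) (hS0 : 0 < S) (T : Pt d S u v t)
    (md : Side.Mem ⟨4050, 5538, 30000⟩ d) (mv : Side.Mem ⟨1346, 1599, 1000⟩ v) (hul : (4 / 5 : ℝ) < u) (huh : u ≤ (39 / 40 : ℝ))
    (hphi : v < Six.bandsC.phi d u) (hlow : lowT d u < t)
    (hup : t < Six.bandsC.up d u + Six.bandsC.tilt d u * v) :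
    Six.ChartSigns d S u v t := by
  have mS := T.S_mem
  have hlo : tC34.u₁.val 0 S d v < u := by
    by_contra hne
    have hh := not_lt.1 hne
    have hl : tC34Lo.val 0 S d v < u := by norm_num [tC34Lo, ex_add, ex_sub, ex_mul, Ex.val]; linarith
    obtain ⟨o, mo, hx⟩ := place (U := tC34.u₁) (L := tC34Lo) (by decide +kernel) (by decide +kernel) hl hh
    have hg : 0 < (tC34.u₁ - tC34Lo).val o S d v := by
      simp only [ex_sub, Ex.val, val_noO (e := tC34.u₁) (by decide +kernel) o 0, val_noO (e := tC34Lo) (by decide +kernel) o 0]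
      linarith
    exact phC_false hx (tC34_phx o S d v mo mS md mv T.dom hg) (tC34_phd o S d v mo mS md mv T.dom) hphi
  exact piece_signs tC34_env tC34_sign (by decide +kernel) T
    ⟨rfl, mS, md, mv, by decide +kernel, by decide +kernel, hlo, by norm_num [tC34, ex_add, ex_sub, ex_mul, Ex.val]; linarith,
      fun o mo hx => by
        have hD := tC34_env.den false o S d v mo mS md mv T.dom
        have hD' := tC34_env.den true o S d v mo mS md mv T.dom
        exact ⟨lowT_le hx hD hlow, upC_le hx hD' hup⟩⟩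

theorem tC35_ok {d S u v t : ℝ} (hB : Six.ChartBox d S) (hd : 0 < d) (hS0 : 0 < S) (T : Pt d S u v t)
    (md : Side.Mem ⟨5538, 7026, 30000⟩ d) (mv : Side.Mem ⟨1346, 1599, 1000⟩ v) (hul : (4 / 5 : ℝ) < u) (huh : u ≤ (71 / 80 : ℝ))
    (hphi : v < Six.bandsC.phi d u) (hlow : lowT d u < t)
    (hup : t < Six.bandsC.up d u + Six.bandsC.tilt d u * v) :
    Six.ChartSigns d S u v t := by
  have mS := T.S_mem
  have hl : tC35Lo.val 0 S d v < u := by norm_num [tC35Lo, ex_add, ex_sub, ex_mul, Ex.val]; linarith
  have hh : u ≤ tC35Hi.val 0 S d v := by norm_num [tC35Hi, ex_add, ex_sub, ex_mul, Ex.val]; linarith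
  obtain ⟨o, mo, hx⟩ := place (by decide +kernel) (by decide +kernel) hl hh
  exact (phC_false hx (tC35_phx o S d v mo mS md mv T.dom) (tC35_phd o S d v mo mS md mv T.dom) hphi).elim

theorem tC36_ok {d S u v t : ℝ} (hB : Six.ChartBox d S) (hd : 0 < d) (hS0 : 0 < S) (T : Pt d S u v t)
    (md : Side.Mem ⟨5538, 6282, 30000⟩ d) (mv : Side.Mem ⟨1346, 1599, 1000⟩ v) (hul : (71 / 80 : ℝ) < u) (huh : u ≤ (39 / 40 : ℝ))
    (hphi : v < Six.bandsC.phi d u) (hlow : lowT d u < t)
    (hup : t < Six.bandsC.up d u + Six.bandsC.tilt d u * v) :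
    Six.ChartSigns d S u v t := by
  have mS := T.S_mem
  have hlo : tC36.u₁.val 0 S d v < u := by
    by_contra hne
    have hh := not_lt.1 hne
    have hl : tC36Lo.val 0 S d v < u := by norm_num [tC36Lo, ex_add, ex_sub, ex_mul, Ex.val]; linarith
    obtain ⟨o, mo, hx⟩ := place (U := tC36.u₁) (L := tC36Lo) (by decide +kernel) (by decide +kernel) hl hh
    have hg : 0 < (tC36.u₁ - tC36Lo).val o S d v := by
      simp only [ex_sub, Ex.val, val_noO (e := tC36.u₁) (by decide +kernel) o 0, val_noO (e := tC36Lo) (by decide +kernel) o 0]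
      linarith
    exact phC_false hx (tC36_phx o S d v mo mS md mv T.dom hg) (tC36_phd o S d v mo mS md mv T.dom) hphi
  exact piece_signs tC36_env tC36_sign (by decide +kernel) T
    ⟨rfl, mS, md, mv, by decide +kernel, by decide +kernel, hlo, by norm_num [tC36, ex_add, ex_sub, ex_mul, Ex.val]; linarith,
      fun o mo hx => by
        have hD := tC36_env.den false o S d v mo mS md mv T.dom
        have hD' := tC36_env.den true o S d v mo mS md mv T.dom
        exact ⟨lowT_le hx hD hlow, upC_le hx hD' hup⟩⟩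

theorem tC37_ok {d S u v t : ℝ} (hB : Six.ChartBox d S) (hd : 0 < d) (hS0 : 0 < S) (T : Pt d S u v t)
    (md : Side.Mem ⟨6282, 7026, 30000⟩ d) (mv : Side.Mem ⟨1346, 1467, 1000⟩ v) (hul : (71 / 80 : ℝ) < u) (huh : u ≤ (39 / 40 : ℝ))
    (hphi : v < Six.bandsC.phi d u) (hlow : lowT d u < t)
    (hup : t < Six.bandsC.up d u + Six.bandsC.tilt d u * v) :
    Six.ChartSigns d S u v t := by
  have mS := T.S_mem
  have hlo : tC37.u₁.val 0 S d v < u := by
    by_contra hne
    have hh := not_lt.1 hne
    have hl : tC37Lo.val 0 S d v < u := by norm_num [tC37Lo, ex_add, ex_sub, ex_mul, Ex.val]; linarith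
    obtain ⟨o, mo, hx⟩ := place (U := tC37.u₁) (L := tC37Lo) (by decide +kernel) (by decide +kernel) hl hh
    have hg : 0 < (tC37.u₁ - tC37Lo).val o S d v := by
      simp only [ex_sub, Ex.val, val_noO (e := tC37.u₁) (by decide +kernel) o 0, val_noO (e := tC37Lo) (by decide +kernel) o 0]
      linarith
    exact phC_false hx (tC37_phx o S d v mo mS md mv T.dom hg) (tC37_phd o S d v mo mS md mv T.dom) hphi
  exact piece_signs tC37_env tC37_sign (by decide +kernel) T
    ⟨rfl, mS, md, mv, by decide +kernel, by decide +kernel, hlo, by norm_num [tC37, ex_add, ex_sub, ex_mul, Ex.val]; linarith,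
      fun o mo hx => by
        have hD := tC37_env.den false o S d v mo mS md mv T.dom
        have hD' := tC37_env.den true o S d v mo mS md mv T.dom
        exact ⟨lowT_le hx hD hlow, upC_le hx hD' hup⟩⟩

theorem tC38_ok {d S u v t : ℝ} (hB : Six.ChartBox d S) (hd : 0 < d) (hS0 : 0 < S) (T : Pt d S u v t)
    (md : Side.Mem ⟨6282, 6654, 30000⟩ d) (mv : Side.Mem ⟨1467, 1599, 1000⟩ v) (hul : (71 / 80 : ℝ) < u) (huh : u ≤ (39 / 40 : ℝ))
    (hphi : v < Six.bandsC.phi d u) (hlow : lowT d u < t)
    (hup : t < Six.bandsC.up d u + Six.bandsC.tilt d u * v) :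
    Six.ChartSigns d S u v t := by
  have mS := T.S_mem
  have hlo : tC38.u₁.val 0 S d v < u := by
    by_contra hne
    have hh := not_lt.1 hne
    have hl : tC38Lo.val 0 S d v < u := by norm_num [tC38Lo, ex_add, ex_sub, ex_mul, Ex.val]; linarith
    obtain ⟨o, mo, hx⟩ := place (U := tC38.u₁) (L := tC38Lo) (by decide +kernel) (by decide +kernel) hl hh
    have hg : 0 < (tC38.u₁ - tC38Lo).val o S d v := by
      simp only [ex_sub, Ex.val, val_noO (e := tC38.u₁) (by decide +kernel) o 0, val_noO (e := tC38Lo) (by decide +kernel) o 0]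
      linarith
    exact phC_false hx (tC38_phx o S d v mo mS md mv T.dom hg) (tC38_phd o S d v mo mS md mv T.dom) hphi
  exact piece_signs_cut tC38_env tC38_envU tC38A_sign tC38B_sign (by decide +kernel) (by decide +kernel) T
    ⟨rfl, mS, md, mv, by decide +kernel, by decide +kernel, hlo, by norm_num [tC38, ex_add, ex_sub, ex_mul, Ex.val]; linarith,
      fun o mo hx => by
        have hD := tC38_env.den false o S d v mo mS md mv T.dom
        have hD' := tC38_env.den true o S d v mo mS md mv T.dom
        exact ⟨lowT_le hx hD hlow, upC_le hx hD' hup⟩⟩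

theorem tC39_ok {d S u v t : ℝ} (hB : Six.ChartBox d S) (hd : 0 < d) (hS0 : 0 < S) (T : Pt d S u v t)
    (md : Side.Mem ⟨6654, 7026, 30000⟩ d) (mv : Side.Mem ⟨1467, 1599, 1000⟩ v) (hul : (71 / 80 : ℝ) < u) (huh : u ≤ (39 / 40 : ℝ))
    (hphi : v < Six.bandsC.phi d u) (hlow : lowT d u < t)
    (hup : t < Six.bandsC.up d u + Six.bandsC.tilt d u * v) :
    Six.ChartSigns d S u v t := by
  have mS := T.S_mem
  have hlo : tC39.u₁.val 0 S d v < u := by
    by_contra hne
    have hh := not_lt.1 hne
    have hl : tC39Lo.val 0 S d v < u := by norm_num [tC39Lo, ex_add, ex_sub, ex_mul, Ex.val]; linarith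
    obtain ⟨o, mo, hx⟩ := place (U := tC39.u₁) (L := tC39Lo) (by decide +kernel) (by decide +kernel) hl hh
    have hg : 0 < (tC39.u₁ - tC39Lo).val o S d v := by
      simp only [ex_sub, Ex.val, val_noO (e := tC39.u₁) (by decide +kernel) o 0, val_noO (e := tC39Lo) (by decide +kernel) o 0]
      linarith
    exact phC_false hx (tC39_phx o S d v mo mS md mv T.dom hg) (tC39_phd o S d v mo mS md mv T.dom) hphi
  exact piece_signs_cut tC39_env tC39_envU tC39A_sign tC39B_sign (by decide +kernel) (by decide +kernel) T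
    ⟨rfl, mS, md, mv, by decide +kernel, by decide +kernel, hlo, by norm_num [tC39, ex_add, ex_sub, ex_mul, Ex.val]; linarith,
      fun o mo hx => by
        have hD := tC39_env.den false o S d v mo mS md mv T.dom
        have hD' := tC39_env.den true o S d v mo mS md mv T.dom
        exact ⟨lowT_le hx hD hlow, upC_le hx hD' hup⟩⟩

theorem tC4_ok {d S u v t : ℝ} (hB : Six.ChartBox d S) (hd : 0 < d) (hS0 : 0 < S) (T : Pt d S u v t)
    (md : Side.Mem ⟨4050, 7026, 30000⟩ d) (mv : Side.Mem ⟨900, 1162, 1000⟩ v) (hul : (3 / 5 : ℝ) < u) (huh : u ≤ (4 / 5 : ℝ))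
    (hphi : v < Six.bandsC.phi d u) (hlow : lowT d u < t)
    (hup : t < Six.bandsC.up d u + Six.bandsC.tilt d u * v) :
    Six.ChartSigns d S u v t := by
  have mS := T.S_mem
  have hlo : tC4.u₁.val 0 S d v < u := by
    by_contra hne
    have hh := not_lt.1 hne
    have hl : tC4Lo.val 0 S d v < u := by norm_num [tC4Lo, ex_add, ex_sub, ex_mul, Ex.val]; linarith
    obtain ⟨o, mo, hx⟩ := place (U := tC4.u₁) (L := tC4Lo) (by decide +kernel) (by decide +kernel) hl hh
    have hg : 0 < (tC4.u₁ - tC4Lo).val o S d v := by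
      simp only [ex_sub, Ex.val, val_noO (e := tC4.u₁) (by decide +kernel) o 0, val_noO (e := tC4Lo) (by decide +kernel) o 0]
      linarith
    exact phC_false hx (tC4_phx o S d v mo mS md mv T.dom hg) (tC4_phd o S d v mo mS md mv T.dom) hphi
  exact piece_signs tC4_env tC4_sign (by decide +kernel) T
    ⟨rfl, mS, md, mv, by decide +kernel, by decide +kernel, hlo, by norm_num [tC4, ex_add, ex_sub, ex_mul, Ex.val]; linarith,
      fun o mo hx => by
        have hD := tC4_env.den false o S d v mo mS md mv T.dom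
        have hD' := tC4_env.den true o S d v mo mS md mv T.dom
        exact ⟨lowT_le hx hD hlow, upC_le hx hD' hup⟩⟩

theorem tC40_ok {d S u v t : ℝ} (hB : Six.ChartBox d S) (hd : 0 < d) (hS0 : 0 < S) (T : Pt d S u v t)
    (md : Side.Mem ⟨4050, 7026, 30000⟩ d) (mv : Side.Mem ⟨1599, 1900, 1000⟩ v) (hul : (4 / 5 : ℝ) < u) (huh : u ≤ (39 / 40 : ℝ))
    (hphi : v < Six.bandsC.phi d u) (hlow : lowT d u < t)
    (hup : t < Six.bandsC.up d u + Six.bandsC.tilt d u * v) :
    Six.ChartSigns d S u v t := by
  have mS := T.S_mem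
  have hlo : tC40.u₁.val 0 S d v < u := by
    by_contra hne
    have hh := not_lt.1 hne
    have hl : tC40Lo.val 0 S d v < u := by norm_num [tC40Lo, ex_add, ex_sub, ex_mul, Ex.val]; linarith
    obtain ⟨o, mo, hx⟩ := place (U := tC40.u₁) (L := tC40Lo) (by decide +kernel) (by decide +kernel) hl hh
    have hg : 0 < (tC40.u₁ - tC40Lo).val o S d v := by
      simp only [ex_sub, Ex.val, val_noO (e := tC40.u₁) (by decide +kernel) o 0, val_noO (e := tC40Lo) (by decide +kernel) o 0]
      linarith
    exact phC_false hx (tC40_phx o S d v mo mS md mv T.dom hg) (tC40_phd o S d v mo mS md mv T.dom) hphi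
  exact piece_signs tC40_env tC40_sign (by decide +kernel) T
    ⟨rfl, mS, md, mv, by decide +kernel, by decide +kernel, hlo, by norm_num [tC40, ex_add, ex_sub, ex_mul, Ex.val]; linarith,
      fun o mo hx => by
        have hD := tC40_env.den false o S d v mo mS md mv T.dom
        have hD' := tC40_env.den true o S d v mo mS md mv T.dom
        exact ⟨lowT_le hx hD hlow, upC_le hx hD' hup⟩⟩

theorem tC41_ok {d S u v t : ℝ} (hB : Six.ChartBox d S) (hd : 0 < d) (hS0 : 0 < S) (T : Pt d S u v t)
    (md : Side.Mem ⟨7026, 10000, 30000⟩ d) (mv : Side.Mem ⟨1346, 1900, 1000⟩ v) (hul : (4 / 5 : ℝ) < u) (huh : u ≤ (71 / 80 : ℝ))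
    (hphi : v < Six.bandsC.phi d u) (hlow : lowT d u < t)
    (hup : t < Six.bandsC.up d u + Six.bandsC.tilt d u * v) :
    Six.ChartSigns d S u v t := by
  have mS := T.S_mem
  have hl : tC41Lo.val 0 S d v < u := by norm_num [tC41Lo, ex_add, ex_sub, ex_mul, Ex.val]; linarith
  have hh : u ≤ tC41Hi.val 0 S d v := by norm_num [tC41Hi, ex_add, ex_sub, ex_mul, Ex.val]; linarith
  obtain ⟨o, mo, hx⟩ := place (by decide +kernel) (by decide +kernel) hl hh
  exact (phC_false hx (tC41_phx o S d v mo mS md mv T.dom) (tC41_phd o S d v mo mS md mv T.dom) hphi).elim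

theorem tC42_ok {d S u v t : ℝ} (hB : Six.ChartBox d S) (hd : 0 < d) (hS0 : 0 < S) (T : Pt d S u v t)
    (md : Side.Mem ⟨7026, 8514, 30000⟩ d) (mv : Side.Mem ⟨1346, 1467, 1000⟩ v) (hul : (71 / 80 : ℝ) < u) (huh : u ≤ (39 / 40 : ℝ))
    (hphi : v < Six.bandsC.phi d u) (hlow : lowT d u < t)
    (hup : t < Six.bandsC.up d u + Six.bandsC.tilt d u * v) :
    Six.ChartSigns d S u v t := by
  have mS := T.S_mem
  have hlo : tC42.u₁.val 0 S d v < u := by
    by_contra hne
    have hh := not_lt.1 hne
    have hl : tC42Lo.val 0 S d v < u := by norm_num [tC42Lo, ex_add, ex_sub, ex_mul, Ex.val]; linarith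
    obtain ⟨o, mo, hx⟩ := place (U := tC42.u₁) (L := tC42Lo) (by decide +kernel) (by decide +kernel) hl hh
    have hg : 0 < (tC42.u₁ - tC42Lo).val o S d v := by
      simp only [ex_sub, Ex.val, val_noO (e := tC42.u₁) (by decide +kernel) o 0, val_noO (e := tC42Lo) (by decide +kernel) o 0]
      linarith
    exact phC_false hx (tC42_phx o S d v mo mS md mv T.dom hg) (tC42_phd o S d v mo mS md mv T.dom) hphi
  exact piece_signs_cut tC42_env tC42_envU tC42A_sign tC42B_sign (by decide +kernel) (by decide +kernel) T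
    ⟨rfl, mS, md, mv, by decide +kernel, by decide +kernel, hlo, by norm_num [tC42, ex_add, ex_sub, ex_mul, Ex.val]; linarith,
      fun o mo hx => by
        have hD := tC42_env.den false o S d v mo mS md mv T.dom
        have hD' := tC42_env.den true o S d v mo mS md mv T.dom
        exact ⟨lowT_le hx hD hlow, upC_le hx hD' hup⟩⟩

theorem tC43_ok {d S u v t : ℝ} (hB : Six.ChartBox d S) (hd : 0 < d) (hS0 : 0 < S) (T : Pt d S u v t)
    (md : Side.Mem ⟨7026, 8514, 30000⟩ d) (mv : Side.Mem ⟨1467, 1599, 1000⟩ v) (hul : (71 / 80 : ℝ) < u) (huh : u ≤ (39 / 40 : ℝ))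
    (hphi : v < Six.bandsC.phi d u) (hlow : lowT d u < t)
    (hup : t < Six.bandsC.up d u + Six.bandsC.tilt d u * v) :
    Six.ChartSigns d S u v t := by
  have mS := T.S_mem
  have hlo : tC43.u₁.val 0 S d v < u := by
    by_contra hne
    have hh := not_lt.1 hne
    have hl : tC43Lo.val 0 S d v < u := by norm_num [tC43Lo, ex_add, ex_sub, ex_mul, Ex.val]; linarith
    obtain ⟨o, mo, hx⟩ := place (U := tC43.u₁) (L := tC43Lo) (by decide +kernel) (by decide +kernel) hl hh
    have hg : 0 < (tC43.u₁ - tC43Lo).val o S d v := by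
      simp only [ex_sub, Ex.val, val_noO (e := tC43.u₁) (by decide +kernel) o 0, val_noO (e := tC43Lo) (by decide +kernel) o 0]
      linarith
    exact phC_false hx (tC43_phx o S d v mo mS md mv T.dom hg) (tC43_phd o S d v mo mS md mv T.dom) hphi
  exact piece_signs_cut tC43_env tC43_envU tC43A_sign tC43B_sign (by decide +kernel) (by decide +kernel) T
    ⟨rfl, mS, md, mv, by decide +kernel, by decide +kernel, hlo, by norm_num [tC43, ex_add, ex_sub, ex_mul, Ex.val]; linarith,
      fun o mo hx => by
        have hD := tC43_env.den false o S d v mo mS md mv T.dom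
        have hD' := tC43_env.den true o S d v mo mS md mv T.dom
        exact ⟨lowT_le hx hD hlow, upC_le hx hD' hup⟩⟩

theorem tC44_ok {d S u v t : ℝ} (hB : Six.ChartBox d S) (hd : 0 < d) (hS0 : 0 < S) (T : Pt d S u v t)
    (md : Side.Mem ⟨8514, 10000, 30000⟩ d) (mv : Side.Mem ⟨1346, 1599, 1000⟩ v) (hul : (71 / 80 : ℝ) < u) (huh : u ≤ (149 / 160 : ℝ))
    (hphi : v < Six.bandsC.phi d u) (hlow : lowT d u < t)
    (hup : t < Six.bandsC.up d u + Six.bandsC.tilt d u * v) :
    Six.ChartSigns d S u v t := by
  have mS := T.S_mem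
  have hl : tC44Lo.val 0 S d v < u := by norm_num [tC44Lo, ex_add, ex_sub, ex_mul, Ex.val]; linarith
  have hh : u ≤ tC44Hi.val 0 S d v := by norm_num [tC44Hi, ex_add, ex_sub, ex_mul, Ex.val]; linarith
  obtain ⟨o, mo, hx⟩ := place (by decide +kernel) (by decide +kernel) hl hh
  exact (phC_false hx (tC44_phx o S d v mo mS md mv T.dom) (tC44_phd o S d v mo mS md mv T.dom) hphi).elim

theorem tC45_ok {d S u v t : ℝ} (hB : Six.ChartBox d S) (hd : 0 < d) (hS0 : 0 < S) (T : Pt d S u v t)
    (md : Side.Mem ⟨8514, 9258, 30000⟩ d) (mv : Side.Mem ⟨1346, 1467, 1000⟩ v) (hul : (149 / 160 : ℝ) < u) (huh : u ≤ (39 / 40 : ℝ))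
    (hphi : v < Six.bandsC.phi d u) (hlow : lowT d u < t)
    (hup : t < Six.bandsC.up d u + Six.bandsC.tilt d u * v) :
    Six.ChartSigns d S u v t := by
  have mS := T.S_mem
  have hlo : tC45.u₁.val 0 S d v < u := by
    by_contra hne
    have hh := not_lt.1 hne
    have hl : tC45Lo.val 0 S d v < u := by norm_num [tC45Lo, ex_add, ex_sub, ex_mul, Ex.val]; linarith
    obtain ⟨o, mo, hx⟩ := place (U := tC45.u₁) (L := tC45Lo) (by decide +kernel) (by decide +kernel) hl hh
    have hg : 0 < (tC45.u₁ - tC45Lo).val o S d v := by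
      simp only [ex_sub, Ex.val, val_noO (e := tC45.u₁) (by decide +kernel) o 0, val_noO (e := tC45Lo) (by decide +kernel) o 0]
      linarith
    exact phC_false hx (tC45_phx o S d v mo mS md mv T.dom hg) (tC45_phd o S d v mo mS md mv T.dom) hphi
  exact piece_signs_cut tC45_env tC45_envU tC45A_sign tC45B_sign (by decide +kernel) (by decide +kernel) T
    ⟨rfl, mS, md, mv, by decide +kernel, by decide +kernel, hlo, by norm_num [tC45, ex_add, ex_sub, ex_mul, Ex.val]; linarith,
      fun o mo hx => by
        have hD := tC45_env.den false o S d v mo mS md mv T.dom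
        have hD' := tC45_env.den true o S d v mo mS md mv T.dom
        exact ⟨lowT_le hx hD hlow, upC_le hx hD' hup⟩⟩

theorem tC46_ok {d S u v t : ℝ} (hB : Six.ChartBox d S) (hd : 0 < d) (hS0 : 0 < S) (T : Pt d S u v t)
    (md : Side.Mem ⟨9258, 10000, 30000⟩ d) (mv : Side.Mem ⟨1346, 1405, 1000⟩ v) (hul : (149 / 160 : ℝ) < u) (huh : u ≤ (39 / 40 : ℝ))
    (hphi : v < Six.bandsC.phi d u) (hlow : lowT d u < t)
    (hup : t < Six.bandsC.up d u + Six.bandsC.tilt d u * v) :
    Six.ChartSigns d S u v t := by
  have mS := T.S_mem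
  have hlo : tC46.u₁.val 0 S d v < u := by
    by_contra hne
    have hh := not_lt.1 hne
    have hl : tC46Lo.val 0 S d v < u := by norm_num [tC46Lo, ex_add, ex_sub, ex_mul, Ex.val]; linarith
    obtain ⟨o, mo, hx⟩ := place (U := tC46.u₁) (L := tC46Lo) (by decide +kernel) (by decide +kernel) hl hh
    have hg : 0 < (tC46.u₁ - tC46Lo).val o S d v := by
      simp only [ex_sub, Ex.val, val_noO (e := tC46.u₁) (by decide +kernel) o 0, val_noO (e := tC46Lo) (by decide +kernel) o 0]
      linarith
    exact phC_false hx (tC46_phx o S d v mo mS md mv T.dom hg) (tC46_phd o S d v mo mS md mv T.dom) hphi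
  exact piece_signs_cut tC46_env tC46_envU tC46A_sign tC46B_sign (by decide +kernel) (by decide +kernel) T
    ⟨rfl, mS, md, mv, by decide +kernel, by decide +kernel, hlo, by norm_num [tC46, ex_add, ex_sub, ex_mul, Ex.val]; linarith,
      fun o mo hx => by
        have hD := tC46_env.den false o S d v mo mS md mv T.dom
        have hD' := tC46_env.den true o S d v mo mS md mv T.dom
        exact ⟨lowT_le hx hD hlow, evU tC46_env.p0 tC46_env.gn rfl rfl mo mS md mv T hx⟩⟩

theorem tC47_ok {d S u v t : ℝ} (hB : Six.ChartBox d S) (hd : 0 < d) (hS0 : 0 < S) (T : Pt d S u v t)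
    (md : Side.Mem ⟨9258, 10000, 30000⟩ d) (mv : Side.Mem ⟨1405, 1436, 1000⟩ v) (hul : (149 / 160 : ℝ) < u) (huh : u ≤ (39 / 40 : ℝ))
    (hphi : v < Six.bandsC.phi d u) (hlow : lowT d u < t)
    (hup : t < Six.bandsC.up d u + Six.bandsC.tilt d u * v) :
    Six.ChartSigns d S u v t := by
  have mS := T.S_mem
  have hlo : tC47.u₁.val 0 S d v < u := by
    by_contra hne
    have hh := not_lt.1 hne
    have hl : tC47Lo.val 0 S d v < u := by norm_num [tC47Lo, ex_add, ex_sub, ex_mul, Ex.val]; linarith
    obtain ⟨o, mo, hx⟩ := place (U := tC47.u₁) (L := tC47Lo) (by decide +kernel) (by decide +kernel) hl hh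
    have hg : 0 < (tC47.u₁ - tC47Lo).val o S d v := by
      simp only [ex_sub, Ex.val, val_noO (e := tC47.u₁) (by decide +kernel) o 0, val_noO (e := tC47Lo) (by decide +kernel) o 0]
      linarith
    exact phC_false hx (tC47_phx o S d v mo mS md mv T.dom hg) (tC47_phd o S d v mo mS md mv T.dom) hphi
  exact piece_signs_cut tC47_env tC47_envU tC47A_sign tC47B_sign (by decide +kernel) (by decide +kernel) T
    ⟨rfl, mS, md, mv, by decide +kernel, by decide +kernel, hlo, by norm_num [tC47, ex_add, ex_sub, ex_mul, Ex.val]; linarith,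
      fun o mo hx => by
        have hD := tC47_env.den false o S d v mo mS md mv T.dom
        have hD' := tC47_env.den true o S d v mo mS md mv T.dom
        exact ⟨lowT_le hx hD hlow, evU tC47_env.p0 tC47_env.gn rfl rfl mo mS md mv T hx⟩⟩

theorem tC48_ok {d S u v t : ℝ} (hB : Six.ChartBox d S) (hd : 0 < d) (hS0 : 0 < S) (T : Pt d S u v t)
    (md : Side.Mem ⟨9258, 10000, 30000⟩ d) (mv : Side.Mem ⟨1436, 1446, 1000⟩ v) (hul : (149 / 160 : ℝ) < u) (huh : u ≤ (39 / 40 : ℝ))
    (hphi : v < Six.bandsC.phi d u) (hlow : lowT d u < t)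
    (hup : t < Six.bandsC.up d u + Six.bandsC.tilt d u * v) :
    Six.ChartSigns d S u v t := by
  have mS := T.S_mem
  have hlo : tC48.u₁.val 0 S d v < u := by
    by_contra hne
    have hh := not_lt.1 hne
    have hl : tC48Lo.val 0 S d v < u := by norm_num [tC48Lo, ex_add, ex_sub, ex_mul, Ex.val]; linarith
    obtain ⟨o, mo, hx⟩ := place (U := tC48.u₁) (L := tC48Lo) (by decide +kernel) (by decide +kernel) hl hh
    have hg : 0 < (tC48.u₁ - tC48Lo).val o S d v := by
      simp only [ex_sub, Ex.val, val_noO (e := tC48.u₁) (by decide +kernel) o 0, val_noO (e := tC48Lo) (by decide +kernel) o 0]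
      linarith
    exact phC_false hx (tC48_phx o S d v mo mS md mv T.dom hg) (tC48_phd o S d v mo mS md mv T.dom) hphi
  exact piece_signs_cut tC48_env tC48_envU tC48A_sign tC48B_sign (by decide +kernel) (by decide +kernel) T
    ⟨rfl, mS, md, mv, by decide +kernel, by decide +kernel, hlo, by norm_num [tC48, ex_add, ex_sub, ex_mul, Ex.val]; linarith,
      fun o mo hx => by
        have hD := tC48_env.den false o S d v mo mS md mv T.dom
        have hD' := tC48_env.den true o S d v mo mS md mv T.dom
        exact ⟨lowT_le hx hD hlow, evU tC48_env.p0 tC48_env.gn rfl rfl mo mS md mv T hx⟩⟩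

theorem tC49_ok {d S u v t : ℝ} (hB : Six.ChartBox d S) (hd : 0 < d) (hS0 : 0 < S) (T : Pt d S u v t)
    (md : Side.Mem ⟨9258, 10000, 30000⟩ d) (mv : Side.Mem ⟨1446, 1467, 1000⟩ v) (hul : (149 / 160 : ℝ) < u) (huh : u ≤ (61 / 64 : ℝ))
    (hphi : v < Six.bandsC.phi d u) (hlow : lowT d u < t)
    (hup : t < Six.bandsC.up d u + Six.bandsC.tilt d u * v) :
    Six.ChartSigns d S u v t := by
  have mS := T.S_mem
  have hl : tC49Lo.val 0 S d v < u := by norm_num [tC49Lo, ex_add, ex_sub, ex_mul, Ex.val]; linarith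
  have hh : u ≤ tC49Hi.val 0 S d v := by norm_num [tC49Hi, ex_add, ex_sub, ex_mul, Ex.val]; linarith
  obtain ⟨o, mo, hx⟩ := place (by decide +kernel) (by decide +kernel) hl hh
  exact (phC_false hx (tC49_phx o S d v mo mS md mv T.dom) (tC49_phd o S d v mo mS md mv T.dom) hphi).elim

theorem tC5_ok {d S u v t : ℝ} (hB : Six.ChartBox d S) (hd : 0 < d) (hS0 : 0 < S) (T : Pt d S u v t)
    (md : Side.Mem ⟨7026, 10000, 30000⟩ d) (mv : Side.Mem ⟨900, 1023, 1000⟩ v) (hul : (3 / 5 : ℝ) < u) (huh : u ≤ (4 / 5 : ℝ))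
    (hphi : v < Six.bandsC.phi d u) (hlow : lowT d u < t)
    (hup : t < Six.bandsC.up d u + Six.bandsC.tilt d u * v) :
    Six.ChartSigns d S u v t := by
  have mS := T.S_mem
  have hlo : tC5.u₁.val 0 S d v < u := by
    by_contra hne
    have hh := not_lt.1 hne
    have hl : tC5Lo.val 0 S d v < u := by norm_num [tC5Lo, ex_add, ex_sub, ex_mul, Ex.val]; linarith
    obtain ⟨o, mo, hx⟩ := place (U := tC5.u₁) (L := tC5Lo) (by decide +kernel) (by decide +kernel) hl hh
    have hg : 0 < (tC5.u₁ - tC5Lo).val o S d v := by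
      simp only [ex_sub, Ex.val, val_noO (e := tC5.u₁) (by decide +kernel) o 0, val_noO (e := tC5Lo) (by decide +kernel) o 0]
      linarith
    exact phC_false hx (tC5_phx o S d v mo mS md mv T.dom hg) (tC5_phd o S d v mo mS md mv T.dom) hphi
  exact piece_signs tC5_env tC5_sign (by decide +kernel) T
    ⟨rfl, mS, md, mv, by decide +kernel, by decide +kernel, hlo, by norm_num [tC5, ex_add, ex_sub, ex_mul, Ex.val]; linarith,
      fun o mo hx => by
        have hD := tC5_env.den false o S d v mo mS md mv T.dom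
        have hD' := tC5_env.den true o S d v mo mS md mv T.dom
        exact ⟨lowT_le hx hD hlow, upC_le hx hD' hup⟩⟩

theorem tC50_ok {d S u v t : ℝ} (hB : Six.ChartBox d S) (hd : 0 < d) (hS0 : 0 < S) (T : Pt d S u v t)
    (md : Side.Mem ⟨9258, 9444, 30000⟩ d) (mv : Side.Mem ⟨1446, 1467, 1000⟩ v) (hul : (61 / 64 : ℝ) < u) (huh : u ≤ (39 / 40 : ℝ))
    (hphi : v < Six.bandsC.phi d u) (hlow : lowT d u < t)
    (hup : t < Six.bandsC.up d u + Six.bandsC.tilt d u * v) :
    Six.ChartSigns d S u v t := by
  have mS := T.S_mem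
  have hlo : tC50.u₁.val 0 S d v < u := by
    by_contra hne
    have hh := not_lt.1 hne
    have hl : tC50Lo.val 0 S d v < u := by norm_num [tC50Lo, ex_add, ex_sub, ex_mul, Ex.val]; linarith
    obtain ⟨o, mo, hx⟩ := place (U := tC50.u₁) (L := tC50Lo) (by decide +kernel) (by decide +kernel) hl hh
    have hg : 0 < (tC50.u₁ - tC50Lo).val o S d v := by
      simp only [ex_sub, Ex.val, val_noO (e := tC50.u₁) (by decide +kernel) o 0, val_noO (e := tC50Lo) (by decide +kernel) o 0]
      linarith
    exact phC_false hx (tC50_phx o S d v mo mS md mv T.dom hg) (tC50_phd o S d v mo mS md mv T.dom) hphi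
  exact piece_signs tC50_env tC50_sign (by decide +kernel) T
    ⟨rfl, mS, md, mv, by decide +kernel, by decide +kernel, hlo, by norm_num [tC50, ex_add, ex_sub, ex_mul, Ex.val]; linarith,
      fun o mo hx => by
        have hD := tC50_env.den false o S d v mo mS md mv T.dom
        have hD' := tC50_env.den true o S d v mo mS md mv T.dom
        exact ⟨lowT_le hx hD hlow, evU tC50_env.p0 tC50_env.gn rfl rfl mo mS md mv T hx⟩⟩

theorem tC51_ok {d S u v t : ℝ} (hB : Six.ChartBox d S) (hd : 0 < d) (hS0 : 0 < S) (T : Pt d S u v t)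
    (md : Side.Mem ⟨9444, 9630, 30000⟩ d) (mv : Side.Mem ⟨1446, 1467, 1000⟩ v) (hul : (61 / 64 : ℝ) < u) (huh : u ≤ (39 / 40 : ℝ))
    (hphi : v < Six.bandsC.phi d u) (hlow : lowT d u < t)
    (hup : t < Six.bandsC.up d u + Six.bandsC.tilt d u * v) :
    Six.ChartSigns d S u v t := by
  have mS := T.S_mem
  have hlo : tC51.u₁.val 0 S d v < u := by
    by_contra hne
    have hh := not_lt.1 hne
    have hl : tC51Lo.val 0 S d v < u := by norm_num [tC51Lo, ex_add, ex_sub, ex_mul, Ex.val]; linarith
    obtain ⟨o, mo, hx⟩ := place (U := tC51.u₁) (L := tC51Lo) (by decide +kernel) (by decide +kernel) hl hh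
    have hg : 0 < (tC51.u₁ - tC51Lo).val o S d v := by
      simp only [ex_sub, Ex.val, val_noO (e := tC51.u₁) (by decide +kernel) o 0, val_noO (e := tC51Lo) (by decide +kernel) o 0]
      linarith
    exact phC_false hx (tC51_phx o S d v mo mS md mv T.dom hg) (tC51_phd o S d v mo mS md mv T.dom) hphi
  exact piece_signs_cut tC51_env tC51_envU tC51A_sign tC51B_sign (by decide +kernel) (by decide +kernel) T
    ⟨rfl, mS, md, mv, by decide +kernel, by decide +kernel, hlo, by norm_num [tC51, ex_add, ex_sub, ex_mul, Ex.val]; linarith,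
      fun o mo hx => by
        have hD := tC51_env.den false o S d v mo mS md mv T.dom
        have hD' := tC51_env.den true o S d v mo mS md mv T.dom
        exact ⟨lowT_le hx hD hlow, evU tC51_env.p0 tC51_env.gn rfl rfl mo mS md mv T hx⟩⟩

theorem tC52_ok {d S u v t : ℝ} (hB : Six.ChartBox d S) (hd : 0 < d) (hS0 : 0 < S) (T : Pt d S u v t)
    (md : Side.Mem ⟨9816, 9909, 30000⟩ d) (mv : Side.Mem ⟨1446, 1456, 1000⟩ v) (hul : (61 / 64 : ℝ) < u) (huh : u ≤ (39 / 40 : ℝ))
    (hphi : v < Six.bandsC.phi d u) (hlow : lowT d u < t)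
    (hup : t < Six.bandsC.up d u + Six.bandsC.tilt d u * v) :
    Six.ChartSigns d S u v t := by
  have mS := T.S_mem
  have hlo : tC52.u₁.val 0 S d v < u := by
    by_contra hne
    have hh := not_lt.1 hne
    have hl : tC52Lo.val 0 S d v < u := by norm_num [tC52Lo, ex_add, ex_sub, ex_mul, Ex.val]; linarith
    obtain ⟨o, mo, hx⟩ := place (U := tC52.u₁) (L := tC52Lo) (by decide +kernel) (by decide +kernel) hl hh
    have hg : 0 < (tC52.u₁ - tC52Lo).val o S d v := by
      simp only [ex_sub, Ex.val, val_noO (e := tC52.u₁) (by decide +kernel) o 0, val_noO (e := tC52Lo) (by decide +kernel) o 0]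
      linarith
    exact phC_false hx (tC52_phx o S d v mo mS md mv T.dom hg) (tC52_phd o S d v mo mS md mv T.dom) hphi
  exact piece_signs tC52_env tC52_sign (by decide +kernel) T
    ⟨rfl, mS, md, mv, by decide +kernel, by decide +kernel, hlo, by norm_num [tC52, ex_add, ex_sub, ex_mul, Ex.val]; linarith,
      fun o mo hx => by
        have hD := tC52_env.den false o S d v mo mS md mv T.dom
        have hD' := tC52_env.den true o S d v mo mS md mv T.dom
        exact ⟨lowT_le hx hD hlow, evU tC52_env.p0 tC52_env.gn rfl rfl mo mS md mv T hx⟩⟩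

theorem tC53_ok {d S u v t : ℝ} (hB : Six.ChartBox d S) (hd : 0 < d) (hS0 : 0 < S) (T : Pt d S u v t)
    (md : Side.Mem ⟨9816, 9909, 30000⟩ d) (mv : Side.Mem ⟨1456, 1467, 1000⟩ v) (hul : (61 / 64 : ℝ) < u) (huh : u ≤ (39 / 40 : ℝ))
    (hphi : v < Six.bandsC.phi d u) (hlow : lowT d u < t)
    (hup : t < Six.bandsC.up d u + Six.bandsC.tilt d u * v) :
    Six.ChartSigns d S u v t := by
  have mS := T.S_mem
  have hlo : tC53.u₁.val 0 S d v < u := by
    by_contra hne
    have hh := not_lt.1 hne
    have hl : tC53Lo.val 0 S d v < u := by norm_num [tC53Lo, ex_add, ex_sub, ex_mul, Ex.val]; linarith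
    obtain ⟨o, mo, hx⟩ := place (U := tC53.u₁) (L := tC53Lo) (by decide +kernel) (by decide +kernel) hl hh
    have hg : 0 < (tC53.u₁ - tC53Lo).val o S d v := by
      simp only [ex_sub, Ex.val, val_noO (e := tC53.u₁) (by decide +kernel) o 0, val_noO (e := tC53Lo) (by decide +kernel) o 0]
      linarith
    exact phC_false hx (tC53_phx o S d v mo mS md mv T.dom hg) (tC53_phd o S d v mo mS md mv T.dom) hphi
  exact piece_signs_cut tC53_env tC53_envU tC53A_sign tC53B_sign (by decide +kernel) (by decide +kernel) T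
    ⟨rfl, mS, md, mv, by decide +kernel, by decide +kernel, hlo, by norm_num [tC53, ex_add, ex_sub, ex_mul, Ex.val]; linarith,
      fun o mo hx => by
        have hD := tC53_env.den false o S d v mo mS md mv T.dom
        have hD' := tC53_env.den true o S d v mo mS md mv T.dom
        exact ⟨lowT_le hx hD hlow, upC_le hx hD' hup⟩⟩

theorem tC54_ok {d S u v t : ℝ} (hB : Six.ChartBox d S) (hd : 0 < d) (hS0 : 0 < S) (T : Pt d S u v t)
    (md : Side.Mem ⟨9909, 10000, 30000⟩ d) (mv : Side.Mem ⟨1446, 1467, 1000⟩ v) (hul : (61 / 64 : ℝ) < u) (huh : u ≤ (39 / 40 : ℝ))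
    (hphi : v < Six.bandsC.phi d u) (hlow : lowT d u < t)
    (hup : t < Six.bandsC.up d u + Six.bandsC.tilt d u * v) :
    Six.ChartSigns d S u v t := by
  have mS := T.S_mem
  have hlo : tC54.u₁.val 0 S d v < u := by
    by_contra hne
    have hh := not_lt.1 hne
    have hl : tC54Lo.val 0 S d v < u := by norm_num [tC54Lo, ex_add, ex_sub, ex_mul, Ex.val]; linarith
    obtain ⟨o, mo, hx⟩ := place (U := tC54.u₁) (L := tC54Lo) (by decide +kernel) (by decide +kernel) hl hh
    have hg : 0 < (tC54.u₁ - tC54Lo).val o S d v := by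
      simp only [ex_sub, Ex.val, val_noO (e := tC54.u₁) (by decide +kernel) o 0, val_noO (e := tC54Lo) (by decide +kernel) o 0]
      linarith
    exact phC_false hx (tC54_phx o S d v mo mS md mv T.dom hg) (tC54_phd o S d v mo mS md mv T.dom) hphi
  refine (piece_false tC54_empty T
    ⟨rfl, mS, md, mv, by decide +kernel, by decide +kernel, hlo, by norm_num [tC54, ex_add, ex_sub, ex_mul, Ex.val]; linarith,
      fun o mo hx => by
        have hD := tC54_empty.den false o S d v mo mS md mv T.dom
        have hD' := tC54_empty.den true o S d v mo mS md mv T.dom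
        exact ⟨lowT_le hx hD hlow, upC_le hx hD' hup⟩⟩).elim

theorem tC55_ok {d S u v t : ℝ} (hB : Six.ChartBox d S) (hd : 0 < d) (hS0 : 0 < S) (T : Pt d S u v t)
    (md : Side.Mem ⟨9258, 10000, 30000⟩ d) (mv : Side.Mem ⟨1467, 1599, 1000⟩ v) (hul : (149 / 160 : ℝ) < u) (huh : u ≤ (61 / 64 : ℝ))
    (hphi : v < Six.bandsC.phi d u) (hlow : lowT d u < t)
    (hup : t < Six.bandsC.up d u + Six.bandsC.tilt d u * v) :
    Six.ChartSigns d S u v t := by
  have mS := T.S_mem
  have hl : tC55Lo.val 0 S d v < u := by norm_num [tC55Lo, ex_add, ex_sub, ex_mul, Ex.val]; linarith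
  have hh : u ≤ tC55Hi.val 0 S d v := by norm_num [tC55Hi, ex_add, ex_sub, ex_mul, Ex.val]; linarith
  obtain ⟨o, mo, hx⟩ := place (by decide +kernel) (by decide +kernel) hl hh
  exact (phC_false hx (tC55_phx o S d v mo mS md mv T.dom) (tC55_phd o S d v mo mS md mv T.dom) hphi).elim

theorem tC56_ok {d S u v t : ℝ} (hB : Six.ChartBox d S) (hd : 0 < d) (hS0 : 0 < S) (T : Pt d S u v t)
    (md : Side.Mem ⟨9630, 9723, 30000⟩ d) (mv : Side.Mem ⟨1467, 1488, 1000⟩ v) (hul : (61 / 64 : ℝ) < u) (huh : u ≤ (39 / 40 : ℝ))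
    (hphi : v < Six.bandsC.phi d u) (hlow : lowT d u < t)
    (hup : t < Six.bandsC.up d u + Six.bandsC.tilt d u * v) :
    Six.ChartSigns d S u v t := by
  have mS := T.S_mem
  have hlo : tC56.u₁.val 0 S d v < u := by
    by_contra hne
    have hh := not_lt.1 hne
    have hl : tC56Lo.val 0 S d v < u := by norm_num [tC56Lo, ex_add, ex_sub, ex_mul, Ex.val]; linarith
    obtain ⟨o, mo, hx⟩ := place (U := tC56.u₁) (L := tC56Lo) (by decide +kernel) (by decide +kernel) hl hh
    have hg : 0 < (tC56.u₁ - tC56Lo).val o S d v := by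
      simp only [ex_sub, Ex.val, val_noO (e := tC56.u₁) (by decide +kernel) o 0, val_noO (e := tC56Lo) (by decide +kernel) o 0]
      linarith
    exact phC_false hx (tC56_phx o S d v mo mS md mv T.dom hg) (tC56_phd o S d v mo mS md mv T.dom) hphi
  exact piece_signs tC56_env tC56_sign (by decide +kernel) T
    ⟨rfl, mS, md, mv, by decide +kernel, by decide +kernel, hlo, by norm_num [tC56, ex_add, ex_sub, ex_mul, Ex.val]; linarith,
      fun o mo hx => by
        have hD := tC56_env.den false o S d v mo mS md mv T.dom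
        have hD' := tC56_env.den true o S d v mo mS md mv T.dom
        exact ⟨lowT_le hx hD hlow, evU tC56_env.p0 tC56_env.gn rfl rfl mo mS md mv T hx⟩⟩

theorem tC57_ok {d S u v t : ℝ} (hB : Six.ChartBox d S) (hd : 0 < d) (hS0 : 0 < S) (T : Pt d S u v t)
    (md : Side.Mem ⟨9723, 9816, 30000⟩ d) (mv : Side.Mem ⟨1467, 1488, 1000⟩ v) (hul : (61 / 64 : ℝ) < u) (huh : u ≤ (39 / 40 : ℝ))
    (hphi : v < Six.bandsC.phi d u) (hlow : lowT d u < t)
    (hup : t < Six.bandsC.up d u + Six.bandsC.tilt d u * v) :
    Six.ChartSigns d S u v t := by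
  have mS := T.S_mem
  have hlo : tC57.u₁.val 0 S d v < u := by
    by_contra hne
    have hh := not_lt.1 hne
    have hl : tC57Lo.val 0 S d v < u := by norm_num [tC57Lo, ex_add, ex_sub, ex_mul, Ex.val]; linarith
    obtain ⟨o, mo, hx⟩ := place (U := tC57.u₁) (L := tC57Lo) (by decide +kernel) (by decide +kernel) hl hh
    have hg : 0 < (tC57.u₁ - tC57Lo).val o S d v := by
      simp only [ex_sub, Ex.val, val_noO (e := tC57.u₁) (by decide +kernel) o 0, val_noO (e := tC57Lo) (by decide +kernel) o 0]
      linarith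
    exact phC_false hx (tC57_phx o S d v mo mS md mv T.dom hg) (tC57_phd o S d v mo mS md mv T.dom) hphi
  exact piece_signs_cut tC57_env tC57_envU tC57A_sign tC57B_sign (by decide +kernel) (by decide +kernel) T
    ⟨rfl, mS, md, mv, by decide +kernel, by decide +kernel, hlo, by norm_num [tC57, ex_add, ex_sub, ex_mul, Ex.val]; linarith,
      fun o mo hx => by
        have hD := tC57_env.den false o S d v mo mS md mv T.dom
        have hD' := tC57_env.den true o S d v mo mS md mv T.dom
        exact ⟨lowT_le hx hD hlow, upC_le hx hD' hup⟩⟩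

theorem tC58_ok {d S u v t : ℝ} (hB : Six.ChartBox d S) (hd : 0 < d) (hS0 : 0 < S) (T : Pt d S u v t)
    (md : Side.Mem ⟨9630, 9816, 30000⟩ d) (mv : Side.Mem ⟨1488, 1510, 1000⟩ v) (hul : (61 / 64 : ℝ) < u) (huh : u ≤ (39 / 40 : ℝ))
    (hphi : v < Six.bandsC.phi d u) (hlow : lowT d u < t)
    (hup : t < Six.bandsC.up d u + Six.bandsC.tilt d u * v) :
    Six.ChartSigns d S u v t := by
  have mS := T.S_mem
  have hlo : tC58.u₁.val 0 S d v < u := by
    by_contra hne
    have hh := not_lt.1 hne
    have hl : tC58Lo.val 0 S d v < u := by norm_num [tC58Lo, ex_add, ex_sub, ex_mul, Ex.val]; linarith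
    obtain ⟨o, mo, hx⟩ := place (U := tC58.u₁) (L := tC58Lo) (by decide +kernel) (by decide +kernel) hl hh
    have hg : 0 < (tC58.u₁ - tC58Lo).val o S d v := by
      simp only [ex_sub, Ex.val, val_noO (e := tC58.u₁) (by decide +kernel) o 0, val_noO (e := tC58Lo) (by decide +kernel) o 0]
      linarith
    exact phC_false hx (tC58_phx o S d v mo mS md mv T.dom hg) (tC58_phd o S d v mo mS md mv T.dom) hphi
  refine (piece_false tC58_empty T
    ⟨rfl, mS, md, mv, by decide +kernel, by decide +kernel, hlo, by norm_num [tC58, ex_add, ex_sub, ex_mul, Ex.val]; linarith,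
      fun o mo hx => by
        have hD := tC58_empty.den false o S d v mo mS md mv T.dom
        have hD' := tC58_empty.den true o S d v mo mS md mv T.dom
        exact ⟨lowT_le hx hD hlow, upC_le hx hD' hup⟩⟩).elim

theorem tC59_ok {d S u v t : ℝ} (hB : Six.ChartBox d S) (hd : 0 < d) (hS0 : 0 < S) (T : Pt d S u v t)
    (md : Side.Mem ⟨9816, 10000, 30000⟩ d) (mv : Side.Mem ⟨1467, 1510, 1000⟩ v) (hul : (61 / 64 : ℝ) < u) (huh : u ≤ (39 / 40 : ℝ))
    (hphi : v < Six.bandsC.phi d u) (hlow : lowT d u < t)
    (hup : t < Six.bandsC.up d u + Six.bandsC.tilt d u * v) :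
    Six.ChartSigns d S u v t := by
  have mS := T.S_mem
  have hlo : tC59.u₁.val 0 S d v < u := by
    by_contra hne
    have hh := not_lt.1 hne
    have hl : tC59Lo.val 0 S d v < u := by norm_num [tC59Lo, ex_add, ex_sub, ex_mul, Ex.val]; linarith
    obtain ⟨o, mo, hx⟩ := place (U := tC59.u₁) (L := tC59Lo) (by decide +kernel) (by decide +kernel) hl hh
    have hg : 0 < (tC59.u₁ - tC59Lo).val o S d v := by
      simp only [ex_sub, Ex.val, val_noO (e := tC59.u₁) (by decide +kernel) o 0, val_noO (e := tC59Lo) (by decide +kernel) o 0]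
      linarith
    exact phC_false hx (tC59_phx o S d v mo mS md mv T.dom hg) (tC59_phd o S d v mo mS md mv T.dom) hphi
  refine (piece_false tC59_empty T
    ⟨rfl, mS, md, mv, by decide +kernel, by decide +kernel, hlo, by norm_num [tC59, ex_add, ex_sub, ex_mul, Ex.val]; linarith,
      fun o mo hx => by
        have hD := tC59_empty.den false o S d v mo mS md mv T.dom
        have hD' := tC59_empty.den true o S d v mo mS md mv T.dom
        exact ⟨lowT_le hx hD hlow, upC_le hx hD' hup⟩⟩).elim

theorem tC6_ok {d S u v t : ℝ} (hB : Six.ChartBox d S) (hd : 0 < d) (hS0 : 0 < S) (T : Pt d S u v t)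
    (md : Side.Mem ⟨7026, 8514, 30000⟩ d) (mv : Side.Mem ⟨1023, 1162, 1000⟩ v) (hul : (3 / 5 : ℝ) < u) (huh : u ≤ (4 / 5 : ℝ))
    (hphi : v < Six.bandsC.phi d u) (hlow : lowT d u < t)
    (hup : t < Six.bandsC.up d u + Six.bandsC.tilt d u * v) :
    Six.ChartSigns d S u v t := by
  have mS := T.S_mem
  have hlo : tC6.u₁.val 0 S d v < u := by
    by_contra hne
    have hh := not_lt.1 hne
    have hl : tC6Lo.val 0 S d v < u := by norm_num [tC6Lo, ex_add, ex_sub, ex_mul, Ex.val]; linarith
    obtain ⟨o, mo, hx⟩ := place (U := tC6.u₁) (L := tC6Lo) (by decide +kernel) (by decide +kernel) hl hh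
    have hg : 0 < (tC6.u₁ - tC6Lo).val o S d v := by
      simp only [ex_sub, Ex.val, val_noO (e := tC6.u₁) (by decide +kernel) o 0, val_noO (e := tC6Lo) (by decide +kernel) o 0]
      linarith
    exact phC_false hx (tC6_phx o S d v mo mS md mv T.dom hg) (tC6_phd o S d v mo mS md mv T.dom) hphi
  exact piece_signs_cut tC6_env tC6_envU tC6A_sign tC6B_sign (by decide +kernel) (by decide +kernel) T
    ⟨rfl, mS, md, mv, by decide +kernel, by decide +kernel, hlo, by norm_num [tC6, ex_add, ex_sub, ex_mul, Ex.val]; linarith,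
      fun o mo hx => by
        have hD := tC6_env.den false o S d v mo mS md mv T.dom
        have hD' := tC6_env.den true o S d v mo mS md mv T.dom
        exact ⟨lowT_le hx hD hlow, upC_le hx hD' hup⟩⟩

theorem tC60_ok {d S u v t : ℝ} (hB : Six.ChartBox d S) (hd : 0 < d) (hS0 : 0 < S) (T : Pt d S u v t)
    (md : Side.Mem ⟨9258, 9444, 30000⟩ d) (mv : Side.Mem ⟨1510, 1532, 1000⟩ v) (hul : (61 / 64 : ℝ) < u) (huh : u ≤ (39 / 40 : ℝ))
    (hphi : v < Six.bandsC.phi d u) (hlow : lowT d u < t)
    (hup : t < Six.bandsC.up d u + Six.bandsC.tilt d u * v) :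
    Six.ChartSigns d S u v t := by
  have mS := T.S_mem
  have hlo : tC60.u₁.val 0 S d v < u := by
    by_contra hne
    have hh := not_lt.1 hne
    have hl : tC60Lo.val 0 S d v < u := by norm_num [tC60Lo, ex_add, ex_sub, ex_mul, Ex.val]; linarith
    obtain ⟨o, mo, hx⟩ := place (U := tC60.u₁) (L := tC60Lo) (by decide +kernel) (by decide +kernel) hl hh
    have hg : 0 < (tC60.u₁ - tC60Lo).val o S d v := by
      simp only [ex_sub, Ex.val, val_noO (e := tC60.u₁) (by decide +kernel) o 0, val_noO (e := tC60Lo) (by decide +kernel) o 0]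
      linarith
    exact phC_false hx (tC60_phx o S d v mo mS md mv T.dom hg) (tC60_phd o S d v mo mS md mv T.dom) hphi
  exact piece_signs tC60_env tC60_sign (by decide +kernel) T
    ⟨rfl, mS, md, mv, by decide +kernel, by decide +kernel, hlo, by norm_num [tC60, ex_add, ex_sub, ex_mul, Ex.val]; linarith,
      fun o mo hx => by
        have hD := tC60_env.den false o S d v mo mS md mv T.dom
        have hD' := tC60_env.den true o S d v mo mS md mv T.dom
        exact ⟨lowT_le hx hD hlow, evU tC60_env.p0 tC60_env.gn rfl rfl mo mS md mv T hx⟩⟩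

theorem tC61_ok {d S u v t : ℝ} (hB : Six.ChartBox d S) (hd : 0 < d) (hS0 : 0 < S) (T : Pt d S u v t)
    (md : Side.Mem ⟨9444, 9630, 30000⟩ d) (mv : Side.Mem ⟨1510, 1532, 1000⟩ v) (hul : (61 / 64 : ℝ) < u) (huh : u ≤ (39 / 40 : ℝ))
    (hphi : v < Six.bandsC.phi d u) (hlow : lowT d u < t)
    (hup : t < Six.bandsC.up d u + Six.bandsC.tilt d u * v) :
    Six.ChartSigns d S u v t := by
  have mS := T.S_mem
  have hlo : tC61.u₁.val 0 S d v < u := by
    by_contra hne
    have hh := not_lt.1 hne
    have hl : tC61Lo.val 0 S d v < u := by norm_num [tC61Lo, ex_add, ex_sub, ex_mul, Ex.val]; linarith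
    obtain ⟨o, mo, hx⟩ := place (U := tC61.u₁) (L := tC61Lo) (by decide +kernel) (by decide +kernel) hl hh
    have hg : 0 < (tC61.u₁ - tC61Lo).val o S d v := by
      simp only [ex_sub, Ex.val, val_noO (e := tC61.u₁) (by decide +kernel) o 0, val_noO (e := tC61Lo) (by decide +kernel) o 0]
      linarith
    exact phC_false hx (tC61_phx o S d v mo mS md mv T.dom hg) (tC61_phd o S d v mo mS md mv T.dom) hphi
  refine (piece_false tC61_empty T
    ⟨rfl, mS, md, mv, by decide +kernel, by decide +kernel, hlo, by norm_num [tC61, ex_add, ex_sub, ex_mul, Ex.val]; linarith,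
      fun o mo hx => by
        have hD := tC61_empty.den false o S d v mo mS md mv T.dom
        have hD' := tC61_empty.den true o S d v mo mS md mv T.dom
        exact ⟨lowT_le hx hD hlow, upC_le hx hD' hup⟩⟩).elim

theorem tC62_ok {d S u v t : ℝ} (hB : Six.ChartBox d S) (hd : 0 < d) (hS0 : 0 < S) (T : Pt d S u v t)
    (md : Side.Mem ⟨9630, 10000, 30000⟩ d) (mv : Side.Mem ⟨1510, 1532, 1000⟩ v) (hul : (61 / 64 : ℝ) < u) (huh : u ≤ (39 / 40 : ℝ))
    (hphi : v < Six.bandsC.phi d u) (hlow : lowT d u < t)
    (hup : t < Six.bandsC.up d u + Six.bandsC.tilt d u * v) :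
    Six.ChartSigns d S u v t := by
  have mS := T.S_mem
  have hl : tC62Lo.val 0 S d v < u := by norm_num [tC62Lo, ex_add, ex_sub, ex_mul, Ex.val]; linarith
  have hh : u ≤ tC62Hi.val 0 S d v := by norm_num [tC62Hi, ex_add, ex_sub, ex_mul, Ex.val]; linarith
  obtain ⟨o, mo, hx⟩ := place (by decide +kernel) (by decide +kernel) hl hh
  exact (phC_false hx (tC62_phx o S d v mo mS md mv T.dom) (tC62_phd o S d v mo mS md mv T.dom) hphi).elim

theorem tC63_ok {d S u v t : ℝ} (hB : Six.ChartBox d S) (hd : 0 < d) (hS0 : 0 < S) (T : Pt d S u v t)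
    (md : Side.Mem ⟨9258, 9444, 30000⟩ d) (mv : Side.Mem ⟨1532, 1554, 1000⟩ v) (hul : (61 / 64 : ℝ) < u) (huh : u ≤ (39 / 40 : ℝ))
    (hphi : v < Six.bandsC.phi d u) (hlow : lowT d u < t)
    (hup : t < Six.bandsC.up d u + Six.bandsC.tilt d u * v) :
    Six.ChartSigns d S u v t := by
  have mS := T.S_mem
  have hlo : tC63.u₁.val 0 S d v < u := by
    by_contra hne
    have hh := not_lt.1 hne
    have hl : tC63Lo.val 0 S d v < u := by norm_num [tC63Lo, ex_add, ex_sub, ex_mul, Ex.val]; linarith
    obtain ⟨o, mo, hx⟩ := place (U := tC63.u₁) (L := tC63Lo) (by decide +kernel) (by decide +kernel) hl hh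
    have hg : 0 < (tC63.u₁ - tC63Lo).val o S d v := by
      simp only [ex_sub, Ex.val, val_noO (e := tC63.u₁) (by decide +kernel) o 0, val_noO (e := tC63Lo) (by decide +kernel) o 0]
      linarith
    exact phC_false hx (tC63_phx o S d v mo mS md mv T.dom hg) (tC63_phd o S d v mo mS md mv T.dom) hphi
  exact piece_signs tC63_env tC63_sign (by decide +kernel) T
    ⟨rfl, mS, md, mv, by decide +kernel, by decide +kernel, hlo, by norm_num [tC63, ex_add, ex_sub, ex_mul, Ex.val]; linarith,
      fun o mo hx => by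
        have hD := tC63_env.den false o S d v mo mS md mv T.dom
        have hD' := tC63_env.den true o S d v mo mS md mv T.dom
        exact ⟨lowT_le hx hD hlow, evU tC63_env.p0 tC63_env.gn rfl rfl mo mS md mv T hx⟩⟩

theorem tC64_ok {d S u v t : ℝ} (hB : Six.ChartBox d S) (hd : 0 < d) (hS0 : 0 < S) (T : Pt d S u v t)
    (md : Side.Mem ⟨9258, 9444, 30000⟩ d) (mv : Side.Mem ⟨1554, 1599, 1000⟩ v) (hul : (61 / 64 : ℝ) < u) (huh : u ≤ (39 / 40 : ℝ))
    (hphi : v < Six.bandsC.phi d u) (hlow : lowT d u < t)
    (hup : t < Six.bandsC.up d u + Six.bandsC.tilt d u * v) :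
    Six.ChartSigns d S u v t := by
  have mS := T.S_mem
  have hl : tC64Lo.val 0 S d v < u := by norm_num [tC64Lo, ex_add, ex_sub, ex_mul, Ex.val]; linarith
  have hh : u ≤ tC64Hi.val 0 S d v := by norm_num [tC64Hi, ex_add, ex_sub, ex_mul, Ex.val]; linarith
  obtain ⟨o, mo, hx⟩ := place (by decide +kernel) (by decide +kernel) hl hh
  exact (phC_false hx (tC64_phx o S d v mo mS md mv T.dom) (tC64_phd o S d v mo mS md mv T.dom) hphi).elim

theorem tC65_ok {d S u v t : ℝ} (hB : Six.ChartBox d S) (hd : 0 < d) (hS0 : 0 < S) (T : Pt d S u v t)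
    (md : Side.Mem ⟨9444, 9630, 30000⟩ d) (mv : Side.Mem ⟨1532, 1590, 1000⟩ v) (hul : (61 / 64 : ℝ) < u) (huh : u ≤ (39 / 40 : ℝ))
    (hphi : v < Six.bandsC.phi d u) (hlow : lowT d u < t)
    (hup : t < Six.bandsC.up d u + Six.bandsC.tilt d u * v) :
    Six.ChartSigns d S u v t := by
  have mS := T.S_mem
  have hlo : tC65.u₁.val 0 S d v < u := by
    by_contra hne
    have hh := not_lt.1 hne
    have hl : tC65Lo.val 0 S d v < u := by norm_num [tC65Lo, ex_add, ex_sub, ex_mul, Ex.val]; linarith
    obtain ⟨o, mo, hx⟩ := place (U := tC65.u₁) (L := tC65Lo) (by decide +kernel) (by decide +kernel) hl hh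
    have hg : 0 < (tC65.u₁ - tC65Lo).val o S d v := by
      simp only [ex_sub, Ex.val, val_noO (e := tC65.u₁) (by decide +kernel) o 0, val_noO (e := tC65Lo) (by decide +kernel) o 0]
      linarith
    exact phC_false hx (tC65_phx o S d v mo mS md mv T.dom hg) (tC65_phd o S d v mo mS md mv T.dom) hphi
  refine (piece_false tC65_empty T
    ⟨rfl, mS, md, mv, by decide +kernel, by decide +kernel, hlo, by norm_num [tC65, ex_add, ex_sub, ex_mul, Ex.val]; linarith,
      fun o mo hx => by
        have hD := tC65_empty.den false o S d v mo mS md mv T.dom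
        have hD' := tC65_empty.den true o S d v mo mS md mv T.dom
        exact ⟨lowT_le hx hD hlow, upC_le hx hD' hup⟩⟩).elim

theorem tC66_ok {d S u v t : ℝ} (hB : Six.ChartBox d S) (hd : 0 < d) (hS0 : 0 < S) (T : Pt d S u v t)
    (md : Side.Mem ⟨9630, 10000, 30000⟩ d) (mv : Side.Mem ⟨1532, 1599, 1000⟩ v) (hul : (61 / 64 : ℝ) < u) (huh : u ≤ (39 / 40 : ℝ))
    (hphi : v < Six.bandsC.phi d u) (hlow : lowT d u < t)
    (hup : t < Six.bandsC.up d u + Six.bandsC.tilt d u * v) :
    Six.ChartSigns d S u v t := by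
  have mS := T.S_mem
  have hl : tC66Lo.val 0 S d v < u := by norm_num [tC66Lo, ex_add, ex_sub, ex_mul, Ex.val]; linarith
  have hh : u ≤ tC66Hi.val 0 S d v := by norm_num [tC66Hi, ex_add, ex_sub, ex_mul, Ex.val]; linarith
  obtain ⟨o, mo, hx⟩ := place (by decide +kernel) (by decide +kernel) hl hh
  exact (phC_false hx (tC66_phx o S d v mo mS md mv T.dom) (tC66_phd o S d v mo mS md mv T.dom) hphi).elim

theorem tC67_ok {d S u v t : ℝ} (hB : Six.ChartBox d S) (hd : 0 < d) (hS0 : 0 < S) (T : Pt d S u v t)
    (md : Side.Mem ⟨7026, 10000, 30000⟩ d) (mv : Side.Mem ⟨1599, 1900, 1000⟩ v) (hul : (71 / 80 : ℝ) < u) (huh : u ≤ (149 / 160 : ℝ))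
    (hphi : v < Six.bandsC.phi d u) (hlow : lowT d u < t)
    (hup : t < Six.bandsC.up d u + Six.bandsC.tilt d u * v) :
    Six.ChartSigns d S u v t := by
  have mS := T.S_mem
  have hl : tC67Lo.val 0 S d v < u := by norm_num [tC67Lo, ex_add, ex_sub, ex_mul, Ex.val]; linarith
  have hh : u ≤ tC67Hi.val 0 S d v := by norm_num [tC67Hi, ex_add, ex_sub, ex_mul, Ex.val]; linarith
  obtain ⟨o, mo, hx⟩ := place (by decide +kernel) (by decide +kernel) hl hh
  exact (phC_false hx (tC67_phx o S d v mo mS md mv T.dom) (tC67_phd o S d v mo mS md mv T.dom) hphi).elim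

theorem tC68_ok {d S u v t : ℝ} (hB : Six.ChartBox d S) (hd : 0 < d) (hS0 : 0 < S) (T : Pt d S u v t)
    (md : Side.Mem ⟨8886, 9258, 30000⟩ d) (mv : Side.Mem ⟨1599, 1690, 1000⟩ v) (hul : (149 / 160 : ℝ) < u) (huh : u ≤ (39 / 40 : ℝ))
    (hphi : v < Six.bandsC.phi d u) (hlow : lowT d u < t)
    (hup : t < Six.bandsC.up d u + Six.bandsC.tilt d u * v) :
    Six.ChartSigns d S u v t := by
  have mS := T.S_mem
  have hlo : tC68.u₁.val 0 S d v < u := by
    by_contra hne
    have hh := not_lt.1 hne
    have hl : tC68Lo.val 0 S d v < u := by norm_num [tC68Lo, ex_add, ex_sub, ex_mul, Ex.val]; linarith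
    obtain ⟨o, mo, hx⟩ := place (U := tC68.u₁) (L := tC68Lo) (by decide +kernel) (by decide +kernel) hl hh
    have hg : 0 < (tC68.u₁ - tC68Lo).val o S d v := by
      simp only [ex_sub, Ex.val, val_noO (e := tC68.u₁) (by decide +kernel) o 0, val_noO (e := tC68Lo) (by decide +kernel) o 0]
      linarith
    exact phC_false hx (tC68_phx o S d v mo mS md mv T.dom hg) (tC68_phd o S d v mo mS md mv T.dom) hphi
  refine (piece_false tC68_empty T
    ⟨rfl, mS, md, mv, by decide +kernel, by decide +kernel, hlo, by norm_num [tC68, ex_add, ex_sub, ex_mul, Ex.val]; linarith,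
      fun o mo hx => by
        have hD := tC68_empty.den false o S d v mo mS md mv T.dom
        have hD' := tC68_empty.den true o S d v mo mS md mv T.dom
        exact ⟨lowT_le hx hD hlow, upC_le hx hD' hup⟩⟩).elim

theorem tC69_ok {d S u v t : ℝ} (hB : Six.ChartBox d S) (hd : 0 < d) (hS0 : 0 < S) (T : Pt d S u v t)
    (md : Side.Mem ⟨9258, 10000, 30000⟩ d) (mv : Side.Mem ⟨1599, 1743, 1000⟩ v) (hul : (149 / 160 : ℝ) < u) (huh : u ≤ (39 / 40 : ℝ))
    (hphi : v < Six.bandsC.phi d u) (hlow : lowT d u < t)
    (hup : t < Six.bandsC.up d u + Six.bandsC.tilt d u * v) :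
    Six.ChartSigns d S u v t := by
  have mS := T.S_mem
  have hl : tC69Lo.val 0 S d v < u := by norm_num [tC69Lo, ex_add, ex_sub, ex_mul, Ex.val]; linarith
  have hh : u ≤ tC69Hi.val 0 S d v := by norm_num [tC69Hi, ex_add, ex_sub, ex_mul, Ex.val]; linarith
  obtain ⟨o, mo, hx⟩ := place (by decide +kernel) (by decide +kernel) hl hh
  exact (phC_false hx (tC69_phx o S d v mo mS md mv T.dom) (tC69_phd o S d v mo mS md mv T.dom) hphi).elim

theorem tC7_ok {d S u v t : ℝ} (hB : Six.ChartBox d S) (hd : 0 < d) (hS0 : 0 < S) (T : Pt d S u v t)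
    (md : Side.Mem ⟨8514, 10000, 30000⟩ d) (mv : Side.Mem ⟨1023, 1162, 1000⟩ v) (hul : (3 / 5 : ℝ) < u) (huh : u ≤ (4 / 5 : ℝ))
    (hphi : v < Six.bandsC.phi d u) (hlow : lowT d u < t)
    (hup : t < Six.bandsC.up d u + Six.bandsC.tilt d u * v) :
    Six.ChartSigns d S u v t := by
  have mS := T.S_mem
  have hl : tC7Lo.val 0 S d v < u := by norm_num [tC7Lo, ex_add, ex_sub, ex_mul, Ex.val]; linarith
  have hh : u ≤ tC7Hi.val 0 S d v := by norm_num [tC7Hi, ex_add, ex_sub, ex_mul, Ex.val]; linarith
  obtain ⟨o, mo, hx⟩ := place (by decide +kernel) (by decide +kernel) hl hh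
  exact (phC_false hx (tC7_phx o S d v mo mS md mv T.dom) (tC7_phd o S d v mo mS md mv T.dom) hphi).elim

theorem tC70_ok {d S u v t : ℝ} (hB : Six.ChartBox d S) (hd : 0 < d) (hS0 : 0 < S) (T : Pt d S u v t)
    (md : Side.Mem ⟨4050, 7026, 30000⟩ d) (mv : Side.Mem ⟨1900, 2259, 1000⟩ v) (hul : (4 / 5 : ℝ) < u) (huh : u ≤ (39 / 40 : ℝ))
    (hphi : v < Six.bandsC.phi d u) (hlow : lowT d u < t)
    (hup : t < Six.bandsC.up d u + Six.bandsC.tilt d u * v) :
    Six.ChartSigns d S u v t := by
  have mS := T.S_mem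
  have hlo : tC70.u₁.val 0 S d v < u := by
    by_contra hne
    have hh := not_lt.1 hne
    have hl : tC70Lo.val 0 S d v < u := by norm_num [tC70Lo, ex_add, ex_sub, ex_mul, Ex.val]; linarith
    obtain ⟨o, mo, hx⟩ := place (U := tC70.u₁) (L := tC70Lo) (by decide +kernel) (by decide +kernel) hl hh
    have hg : 0 < (tC70.u₁ - tC70Lo).val o S d v := by
      simp only [ex_sub, Ex.val, val_noO (e := tC70.u₁) (by decide +kernel) o 0, val_noO (e := tC70Lo) (by decide +kernel) o 0]
      linarith
    exact phC_false hx (tC70_phx o S d v mo mS md mv T.dom hg) (tC70_phd o S d v mo mS md mv T.dom) hphi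
  exact piece_signs tC70_env tC70_sign (by decide +kernel) T
    ⟨rfl, mS, md, mv, by decide +kernel, by decide +kernel, hlo, by norm_num [tC70, ex_add, ex_sub, ex_mul, Ex.val]; linarith,
      fun o mo hx => by
        have hD := tC70_env.den false o S d v mo mS md mv T.dom
        have hD' := tC70_env.den true o S d v mo mS md mv T.dom
        exact ⟨lowT_le hx hD hlow, evU tC70_env.p0 tC70_env.gn rfl rfl mo mS md mv T hx⟩⟩

theorem tC71_ok {d S u v t : ℝ} (hB : Six.ChartBox d S) (hd : 0 < d) (hS0 : 0 < S) (T : Pt d S u v t)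
    (md : Side.Mem ⟨4050, 7026, 30000⟩ d) (mv : Side.Mem ⟨2259, 2687, 1000⟩ v) (hul : (4 / 5 : ℝ) < u) (huh : u ≤ (39 / 40 : ℝ))
    (hphi : v < Six.bandsC.phi d u) (hlow : lowT d u < t)
    (hup : t < Six.bandsC.up d u + Six.bandsC.tilt d u * v) :
    Six.ChartSigns d S u v t := by
  have mS := T.S_mem
  have hlo : tC71.u₁.val 0 S d v < u := by
    by_contra hne
    have hh := not_lt.1 hne
    have hl : tC71Lo.val 0 S d v < u := by norm_num [tC71Lo, ex_add, ex_sub, ex_mul, Ex.val]; linarith
    obtain ⟨o, mo, hx⟩ := place (U := tC71.u₁) (L := tC71Lo) (by decide +kernel) (by decide +kernel) hl hh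
    have hg : 0 < (tC71.u₁ - tC71Lo).val o S d v := by
      simp only [ex_sub, Ex.val, val_noO (e := tC71.u₁) (by decide +kernel) o 0, val_noO (e := tC71Lo) (by decide +kernel) o 0]
      linarith
    exact phC_false hx (tC71_phx o S d v mo mS md mv T.dom hg) (tC71_phd o S d v mo mS md mv T.dom) hphi
  exact piece_signs tC71_env tC71_sign (by decide +kernel) T
    ⟨rfl, mS, md, mv, by decide +kernel, by decide +kernel, hlo, by norm_num [tC71, ex_add, ex_sub, ex_mul, Ex.val]; linarith,
      fun o mo hx => by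
        have hD := tC71_env.den false o S d v mo mS md mv T.dom
        have hD' := tC71_env.den true o S d v mo mS md mv T.dom
        exact ⟨lowT_le hx hD hlow, evU tC71_env.p0 tC71_env.gn rfl rfl mo mS md mv T hx⟩⟩

theorem tC72_ok {d S u v t : ℝ} (hB : Six.ChartBox d S) (hd : 0 < d) (hS0 : 0 < S) (T : Pt d S u v t)
    (md : Side.Mem ⟨9258, 10000, 30000⟩ d) (mv : Side.Mem ⟨1200, 1271, 1000⟩ v) (hul : (71 / 80 : ℝ) < u) (huh : u ≤ (149 / 160 : ℝ))
    (hphi : v < Six.bandsC.phi d u) (hlow : lowT d u < t)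
    (hup : t < Six.bandsC.up d u + Six.bandsC.tilt d u * v) :
    Six.ChartSigns d S u v t := by
  have mS := T.S_mem
  have hlo : tC72.u₁.val 0 S d v < u := by
    by_contra hne
    have hh := not_lt.1 hne
    have hl : tC72Lo.val 0 S d v < u := by norm_num [tC72Lo, ex_add, ex_sub, ex_mul, Ex.val]; linarith
    obtain ⟨o, mo, hx⟩ := place (U := tC72.u₁) (L := tC72Lo) (by decide +kernel) (by decide +kernel) hl hh
    have hg : 0 < (tC72.u₁ - tC72Lo).val o S d v := by
      simp only [ex_sub, Ex.val, val_noO (e := tC72.u₁) (by decide +kernel) o 0, val_noO (e := tC72Lo) (by decide +kernel) o 0]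
      linarith
    exact phC_false hx (tC72_phx o S d v mo mS md mv T.dom hg) (tC72_phd o S d v mo mS md mv T.dom) hphi
  exact piece_signs_cut tC72_env tC72_envU tC72A_sign tC72B_sign (by decide +kernel) (by decide +kernel) T
    ⟨rfl, mS, md, mv, by decide +kernel, by decide +kernel, hlo, by norm_num [tC72, ex_add, ex_sub, ex_mul, Ex.val]; linarith,
      fun o mo hx => by
        have hD := tC72_env.den false o S d v mo mS md mv T.dom
        have hD' := tC72_env.den true o S d v mo mS md mv T.dom
        exact ⟨lowT_le hx hD hlow, evU tC72_env.p0 tC72_env.gn rfl rfl mo mS md mv T hx⟩⟩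

theorem tC73_ok {d S u v t : ℝ} (hB : Six.ChartBox d S) (hd : 0 < d) (hS0 : 0 < S) (T : Pt d S u v t)
    (md : Side.Mem ⟨9258, 9630, 30000⟩ d) (mv : Side.Mem ⟨1467, 1488, 1000⟩ v) (hul : (61 / 64 : ℝ) < u) (huh : u ≤ (39 / 40 : ℝ))
    (hphi : v < Six.bandsC.phi d u) (hlow : lowT d u < t)
    (hup : t < Six.bandsC.up d u + Six.bandsC.tilt d u * v) :
    Six.ChartSigns d S u v t := by
  have mS := T.S_mem
  have hlo : tC73.u₁.val 0 S d v < u := by
    by_contra hne
    have hh := not_lt.1 hne
    have hl : tC73Lo.val 0 S d v < u := by norm_num [tC73Lo, ex_add, ex_sub, ex_mul, Ex.val]; linarith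
    obtain ⟨o, mo, hx⟩ := place (U := tC73.u₁) (L := tC73Lo) (by decide +kernel) (by decide +kernel) hl hh
    have hg : 0 < (tC73.u₁ - tC73Lo).val o S d v := by
      simp only [ex_sub, Ex.val, val_noO (e := tC73.u₁) (by decide +kernel) o 0, val_noO (e := tC73Lo) (by decide +kernel) o 0]
      linarith
    exact phC_false hx (tC73_phx o S d v mo mS md mv T.dom hg) (tC73_phd o S d v mo mS md mv T.dom) hphi
  exact piece_signs tC73_env tC73_sign (by decide +kernel) T
    ⟨rfl, mS, md, mv, by decide +kernel, by decide +kernel, hlo, by norm_num [tC73, ex_add, ex_sub, ex_mul, Ex.val]; linarith,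
      fun o mo hx => by
        have hD := tC73_env.den false o S d v mo mS md mv T.dom
        have hD' := tC73_env.den true o S d v mo mS md mv T.dom
        exact ⟨lowT_le hx hD hlow, evU tC73_env.p0 tC73_env.gn rfl rfl mo mS md mv T hx⟩⟩

theorem tC74_ok {d S u v t : ℝ} (hB : Six.ChartBox d S) (hd : 0 < d) (hS0 : 0 < S) (T : Pt d S u v t)
    (md : Side.Mem ⟨9258, 9630, 30000⟩ d) (mv : Side.Mem ⟨1488, 1510, 1000⟩ v) (hul : (61 / 64 : ℝ) < u) (huh : u ≤ (39 / 40 : ℝ))
    (hphi : v < Six.bandsC.phi d u) (hlow : lowT d u < t)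
    (hup : t < Six.bandsC.up d u + Six.bandsC.tilt d u * v) :
    Six.ChartSigns d S u v t := by
  have mS := T.S_mem
  have hlo : tC74.u₁.val 0 S d v < u := by
    by_contra hne
    have hh := not_lt.1 hne
    have hl : tC74Lo.val 0 S d v < u := by norm_num [tC74Lo, ex_add, ex_sub, ex_mul, Ex.val]; linarith
    obtain ⟨o, mo, hx⟩ := place (U := tC74.u₁) (L := tC74Lo) (by decide +kernel) (by decide +kernel) hl hh
    have hg : 0 < (tC74.u₁ - tC74Lo).val o S d v := by
      simp only [ex_sub, Ex.val, val_noO (e := tC74.u₁) (by decide +kernel) o 0, val_noO (e := tC74Lo) (by decide +kernel) o 0]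
      linarith
    exact phC_false hx (tC74_phx o S d v mo mS md mv T.dom hg) (tC74_phd o S d v mo mS md mv T.dom) hphi
  exact piece_signs_cut tC74_env tC74_envU tC74A_sign tC74B_sign (by decide +kernel) (by decide +kernel) T
    ⟨rfl, mS, md, mv, by decide +kernel, by decide +kernel, hlo, by norm_num [tC74, ex_add, ex_sub, ex_mul, Ex.val]; linarith,
      fun o mo hx => by
        have hD := tC74_env.den false o S d v mo mS md mv T.dom
        have hD' := tC74_env.den true o S d v mo mS md mv T.dom
        exact ⟨lowT_le hx hD hlow, evU tC74_env.p0 tC74_env.gn rfl rfl mo mS md mv T hx⟩⟩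

theorem tC75_ok {d S u v t : ℝ} (hB : Six.ChartBox d S) (hd : 0 < d) (hS0 : 0 < S) (T : Pt d S u v t)
    (md : Side.Mem ⟨7026, 8514, 30000⟩ d) (mv : Side.Mem ⟨1599, 1743, 1000⟩ v) (hul : (149 / 160 : ℝ) < u) (huh : u ≤ (39 / 40 : ℝ))
    (hphi : v < Six.bandsC.phi d u) (hlow : lowT d u < t)
    (hup : t < Six.bandsC.up d u + Six.bandsC.tilt d u * v) :
    Six.ChartSigns d S u v t := by
  have mS := T.S_mem
  have hlo : tC75.u₁.val 0 S d v < u := by
    by_contra hne
    have hh := not_lt.1 hne
    have hl : tC75Lo.val 0 S d v < u := by norm_num [tC75Lo, ex_add, ex_sub, ex_mul, Ex.val]; linarith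
    obtain ⟨o, mo, hx⟩ := place (U := tC75.u₁) (L := tC75Lo) (by decide +kernel) (by decide +kernel) hl hh
    have hg : 0 < (tC75.u₁ - tC75Lo).val o S d v := by
      simp only [ex_sub, Ex.val, val_noO (e := tC75.u₁) (by decide +kernel) o 0, val_noO (e := tC75Lo) (by decide +kernel) o 0]
      linarith
    exact phC_false hx (tC75_phx o S d v mo mS md mv T.dom hg) (tC75_phd o S d v mo mS md mv T.dom) hphi
  exact piece_signs tC75_env tC75_sign (by decide +kernel) T
    ⟨rfl, mS, md, mv, by decide +kernel, by decide +kernel, hlo, by norm_num [tC75, ex_add, ex_sub, ex_mul, Ex.val]; linarith,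
      fun o mo hx => by
        have hD := tC75_env.den false o S d v mo mS md mv T.dom
        have hD' := tC75_env.den true o S d v mo mS md mv T.dom
        exact ⟨lowT_le hx hD hlow, evU tC75_env.p0 tC75_env.gn rfl rfl mo mS md mv T hx⟩⟩

theorem tC76_ok {d S u v t : ℝ} (hB : Six.ChartBox d S) (hd : 0 < d) (hS0 : 0 < S) (T : Pt d S u v t)
    (md : Side.Mem ⟨8514, 8886, 30000⟩ d) (mv : Side.Mem ⟨1599, 1669, 1000⟩ v) (hul : (149 / 160 : ℝ) < u) (huh : u ≤ (39 / 40 : ℝ))
    (hphi : v < Six.bandsC.phi d u) (hlow : lowT d u < t)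
    (hup : t < Six.bandsC.up d u + Six.bandsC.tilt d u * v) :
    Six.ChartSigns d S u v t := by
  have mS := T.S_mem
  have hlo : tC76.u₁.val 0 S d v < u := by
    by_contra hne
    have hh := not_lt.1 hne
    have hl : tC76Lo.val 0 S d v < u := by norm_num [tC76Lo, ex_add, ex_sub, ex_mul, Ex.val]; linarith
    obtain ⟨o, mo, hx⟩ := place (U := tC76.u₁) (L := tC76Lo) (by decide +kernel) (by decide +kernel) hl hh
    have hg : 0 < (tC76.u₁ - tC76Lo).val o S d v := by
      simp only [ex_sub, Ex.val, val_noO (e := tC76.u₁) (by decide +kernel) o 0, val_noO (e := tC76Lo) (by decide +kernel) o 0]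
      linarith
    exact phC_false hx (tC76_phx o S d v mo mS md mv T.dom hg) (tC76_phd o S d v mo mS md mv T.dom) hphi
  exact piece_signs_cut tC76_env tC76_envU tC76A_sign tC76B_sign (by decide +kernel) (by decide +kernel) T
    ⟨rfl, mS, md, mv, by decide +kernel, by decide +kernel, hlo, by norm_num [tC76, ex_add, ex_sub, ex_mul, Ex.val]; linarith,
      fun o mo hx => by
        have hD := tC76_env.den false o S d v mo mS md mv T.dom
        have hD' := tC76_env.den true o S d v mo mS md mv T.dom
        exact ⟨lowT_le hx hD hlow, evU tC76_env.p0 tC76_env.gn rfl rfl mo mS md mv T hx⟩⟩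

theorem tC77_ok {d S u v t : ℝ} (hB : Six.ChartBox d S) (hd : 0 < d) (hS0 : 0 < S) (T : Pt d S u v t)
    (md : Side.Mem ⟨8514, 8886, 30000⟩ d) (mv : Side.Mem ⟨1669, 1743, 1000⟩ v) (hul : (149 / 160 : ℝ) < u) (huh : u ≤ (39 / 40 : ℝ))
    (hphi : v < Six.bandsC.phi d u) (hlow : lowT d u < t)
    (hup : t < Six.bandsC.up d u + Six.bandsC.tilt d u * v) :
    Six.ChartSigns d S u v t := by
  have mS := T.S_mem
  have hlo : tC77.u₁.val 0 S d v < u := by
    by_contra hne
    have hh := not_lt.1 hne
    have hl : tC77Lo.val 0 S d v < u := by norm_num [tC77Lo, ex_add, ex_sub, ex_mul, Ex.val]; linarith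
    obtain ⟨o, mo, hx⟩ := place (U := tC77.u₁) (L := tC77Lo) (by decide +kernel) (by decide +kernel) hl hh
    have hg : 0 < (tC77.u₁ - tC77Lo).val o S d v := by
      simp only [ex_sub, Ex.val, val_noO (e := tC77.u₁) (by decide +kernel) o 0, val_noO (e := tC77Lo) (by decide +kernel) o 0]
      linarith
    exact phC_false hx (tC77_phx o S d v mo mS md mv T.dom hg) (tC77_phd o S d v mo mS md mv T.dom) hphi
  exact piece_signs_cut tC77_env tC77_envU tC77A_sign tC77B_sign (by decide +kernel) (by decide +kernel) T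
    ⟨rfl, mS, md, mv, by decide +kernel, by decide +kernel, hlo, by norm_num [tC77, ex_add, ex_sub, ex_mul, Ex.val]; linarith,
      fun o mo hx => by
        have hD := tC77_env.den false o S d v mo mS md mv T.dom
        have hD' := tC77_env.den true o S d v mo mS md mv T.dom
        exact ⟨lowT_le hx hD hlow, upC_le hx hD' hup⟩⟩

theorem tC78_ok {d S u v t : ℝ} (hB : Six.ChartBox d S) (hd : 0 < d) (hS0 : 0 < S) (T : Pt d S u v t)
    (md : Side.Mem ⟨4050, 7026, 30000⟩ d) (mv : Side.Mem ⟨353, 430, 1000⟩ v) (hul : (3 / 5 : ℝ) < u) (huh : u ≤ (7 / 10 : ℝ))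
    (hphi : v < Six.bandsC.phi d u) (hlow : lowT d u < t)
    (hup : t < Six.bandsC.up d u + Six.bandsC.tilt d u * v) :
    Six.ChartSigns d S u v t := by
  have mS := T.S_mem
  exact piece_signs tC78_env tC78_sign (by decide +kernel) T
    ⟨rfl, mS, md, mv, by decide +kernel, by decide +kernel, by norm_num [tC78, ex_add, ex_sub, ex_mul, Ex.val]; linarith, by norm_num [tC78, ex_add, ex_sub, ex_mul, Ex.val]; linarith,
      fun o mo hx => by
        have hD := tC78_env.den false o S d v mo mS md mv T.dom
        have hD' := tC78_env.den true o S d v mo mS md mv T.dom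
        exact ⟨lowT_le hx hD hlow, upC_le hx hD' hup⟩⟩

theorem tC79_ok {d S u v t : ℝ} (hB : Six.ChartBox d S) (hd : 0 < d) (hS0 : 0 < S) (T : Pt d S u v t)
    (md : Side.Mem ⟨7026, 8514, 30000⟩ d) (mv : Side.Mem ⟨353, 430, 1000⟩ v) (hul : (3 / 5 : ℝ) < u) (huh : u ≤ (7 / 10 : ℝ))
    (hphi : v < Six.bandsC.phi d u) (hlow : lowT d u < t)
    (hup : t < Six.bandsC.up d u + Six.bandsC.tilt d u * v) :
    Six.ChartSigns d S u v t := by
  have mS := T.S_mem
  exact piece_signs tC79_env tC79_sign (by decide +kernel) T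
    ⟨rfl, mS, md, mv, by decide +kernel, by decide +kernel, by norm_num [tC79, ex_add, ex_sub, ex_mul, Ex.val]; linarith, by norm_num [tC79, ex_add, ex_sub, ex_mul, Ex.val]; linarith,
      fun o mo hx => by
        have hD := tC79_env.den false o S d v mo mS md mv T.dom
        have hD' := tC79_env.den true o S d v mo mS md mv T.dom
        exact ⟨lowT_le hx hD hlow, upC_le hx hD' hup⟩⟩

theorem tC8_ok {d S u v t : ℝ} (hB : Six.ChartBox d S) (hd : 0 < d) (hS0 : 0 < S) (T : Pt d S u v t)
    (md : Side.Mem ⟨4050, 10000, 30000⟩ d) (mv : Side.Mem ⟨1162, 1500, 1000⟩ v) (hul : (3 / 5 : ℝ) < u) (huh : u ≤ (4 / 5 : ℝ))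
    (hphi : v < Six.bandsC.phi d u) (hlow : lowT d u < t)
    (hup : t < Six.bandsC.up d u + Six.bandsC.tilt d u * v) :
    Six.ChartSigns d S u v t := by
  have mS := T.S_mem
  have hl : tC8Lo.val 0 S d v < u := by norm_num [tC8Lo, ex_add, ex_sub, ex_mul, Ex.val]; linarith
  have hh : u ≤ tC8Hi.val 0 S d v := by norm_num [tC8Hi, ex_add, ex_sub, ex_mul, Ex.val]; linarith
  obtain ⟨o, mo, hx⟩ := place (by decide +kernel) (by decide +kernel) hl hh
  exact (phC_false hx (tC8_phx o S d v mo mS md mv T.dom) (tC8_phd o S d v mo mS md mv T.dom) hphi).elim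

theorem tC80_ok {d S u v t : ℝ} (hB : Six.ChartBox d S) (hd : 0 < d) (hS0 : 0 < S) (T : Pt d S u v t)
    (md : Side.Mem ⟨8514, 9258, 30000⟩ d) (mv : Side.Mem ⟨353, 430, 1000⟩ v) (hul : (3 / 5 : ℝ) < u) (huh : u ≤ (7 / 10 : ℝ))
    (hphi : v < Six.bandsC.phi d u) (hlow : lowT d u < t)
    (hup : t < Six.bandsC.up d u + Six.bandsC.tilt d u * v) :
    Six.ChartSigns d S u v t := by
  have mS := T.S_mem
  exact piece_signs tC80_env tC80_sign (by decide +kernel) T
    ⟨rfl, mS, md, mv, by decide +kernel, by decide +kernel, by norm_num [tC80, ex_add, ex_sub, ex_mul, Ex.val]; linarith, by norm_num [tC80, ex_add, ex_sub, ex_mul, Ex.val]; linarith,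
      fun o mo hx => by
        have hD := tC80_env.den false o S d v mo mS md mv T.dom
        have hD' := tC80_env.den true o S d v mo mS md mv T.dom
        exact ⟨lowT_le hx hD hlow, upC_le hx hD' hup⟩⟩

theorem tC81_ok {d S u v t : ℝ} (hB : Six.ChartBox d S) (hd : 0 < d) (hS0 : 0 < S) (T : Pt d S u v t)
    (md : Side.Mem ⟨9258, 10000, 30000⟩ d) (mv : Side.Mem ⟨353, 430, 1000⟩ v) (hul : (3 / 5 : ℝ) < u) (huh : u ≤ (7 / 10 : ℝ))
    (hphi : v < Six.bandsC.phi d u) (hlow : lowT d u < t)
    (hup : t < Six.bandsC.up d u + Six.bandsC.tilt d u * v) :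
    Six.ChartSigns d S u v t := by
  have mS := T.S_mem
  exact piece_signs tC81_env tC81_sign (by decide +kernel) T
    ⟨rfl, mS, md, mv, by decide +kernel, by decide +kernel, by norm_num [tC81, ex_add, ex_sub, ex_mul, Ex.val]; linarith, by norm_num [tC81, ex_add, ex_sub, ex_mul, Ex.val]; linarith,
      fun o mo hx => by
        have hD := tC81_env.den false o S d v mo mS md mv T.dom
        have hD' := tC81_env.den true o S d v mo mS md mv T.dom
        exact ⟨lowT_le hx hD hlow, upC_le hx hD' hup⟩⟩

theorem tC82_ok {d S u v t : ℝ} (hB : Six.ChartBox d S) (hd : 0 < d) (hS0 : 0 < S) (T : Pt d S u v t)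
    (md : Side.Mem ⟨8514, 8886, 30000⟩ d) (mv : Side.Mem ⟨1467, 1599, 1000⟩ v) (hul : (149 / 160 : ℝ) < u) (huh : u ≤ (39 / 40 : ℝ))
    (hphi : v < Six.bandsC.phi d u) (hlow : lowT d u < t)
    (hup : t < Six.bandsC.up d u + Six.bandsC.tilt d u * v) :
    Six.ChartSigns d S u v t := by
  have mS := T.S_mem
  have hlo : tC82.u₁.val 0 S d v < u := by
    by_contra hne
    have hh := not_lt.1 hne
    have hl : tC82Lo.val 0 S d v < u := by norm_num [tC82Lo, ex_add, ex_sub, ex_mul, Ex.val]; linarith
    obtain ⟨o, mo, hx⟩ := place (U := tC82.u₁) (L := tC82Lo) (by decide +kernel) (by decide +kernel) hl hh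
    have hg : 0 < (tC82.u₁ - tC82Lo).val o S d v := by
      simp only [ex_sub, Ex.val, val_noO (e := tC82.u₁) (by decide +kernel) o 0, val_noO (e := tC82Lo) (by decide +kernel) o 0]
      linarith
    exact phC_false hx (tC82_phx o S d v mo mS md mv T.dom hg) (tC82_phd o S d v mo mS md mv T.dom) hphi
  exact piece_signs_cut tC82_env tC82_envU tC82A_sign tC82B_sign (by decide +kernel) (by decide +kernel) T
    ⟨rfl, mS, md, mv, by decide +kernel, by decide +kernel, hlo, by norm_num [tC82, ex_add, ex_sub, ex_mul, Ex.val]; linarith,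
      fun o mo hx => by
        have hD := tC82_env.den false o S d v mo mS md mv T.dom
        have hD' := tC82_env.den true o S d v mo mS md mv T.dom
        exact ⟨lowT_le hx hD hlow, evU tC82_env.p0 tC82_env.gn rfl rfl mo mS md mv T hx⟩⟩

theorem tC83_ok {d S u v t : ℝ} (hB : Six.ChartBox d S) (hd : 0 < d) (hS0 : 0 < S) (T : Pt d S u v t)
    (md : Side.Mem ⟨8886, 9072, 30000⟩ d) (mv : Side.Mem ⟨1467, 1599, 1000⟩ v) (hul : (149 / 160 : ℝ) < u) (huh : u ≤ (39 / 40 : ℝ))
    (hphi : v < Six.bandsC.phi d u) (hlow : lowT d u < t)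
    (hup : t < Six.bandsC.up d u + Six.bandsC.tilt d u * v) :
    Six.ChartSigns d S u v t := by
  have mS := T.S_mem
  have hlo : tC83.u₁.val 0 S d v < u := by
    by_contra hne
    have hh := not_lt.1 hne
    have hl : tC83Lo.val 0 S d v < u := by norm_num [tC83Lo, ex_add, ex_sub, ex_mul, Ex.val]; linarith
    obtain ⟨o, mo, hx⟩ := place (U := tC83.u₁) (L := tC83Lo) (by decide +kernel) (by decide +kernel) hl hh
    have hg : 0 < (tC83.u₁ - tC83Lo).val o S d v := by
      simp only [ex_sub, Ex.val, val_noO (e := tC83.u₁) (by decide +kernel) o 0, val_noO (e := tC83Lo) (by decide +kernel) o 0]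
      linarith
    exact phC_false hx (tC83_phx o S d v mo mS md mv T.dom hg) (tC83_phd o S d v mo mS md mv T.dom) hphi
  exact piece_signs_cut tC83_env tC83_envU tC83A_sign tC83B_sign (by decide +kernel) (by decide +kernel) T
    ⟨rfl, mS, md, mv, by decide +kernel, by decide +kernel, hlo, by norm_num [tC83, ex_add, ex_sub, ex_mul, Ex.val]; linarith,
      fun o mo hx => by
        have hD := tC83_env.den false o S d v mo mS md mv T.dom
        have hD' := tC83_env.den true o S d v mo mS md mv T.dom
        exact ⟨lowT_le hx hD hlow, evU tC83_env.p0 tC83_env.gn rfl rfl mo mS md mv T hx⟩⟩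

theorem tC84_ok {d S u v t : ℝ} (hB : Six.ChartBox d S) (hd : 0 < d) (hS0 : 0 < S) (T : Pt d S u v t)
    (md : Side.Mem ⟨9072, 9165, 30000⟩ d) (mv : Side.Mem ⟨1467, 1599, 1000⟩ v) (hul : (149 / 160 : ℝ) < u) (huh : u ≤ (39 / 40 : ℝ))
    (hphi : v < Six.bandsC.phi d u) (hlow : lowT d u < t)
    (hup : t < Six.bandsC.up d u + Six.bandsC.tilt d u * v) :
    Six.ChartSigns d S u v t := by
  have mS := T.S_mem
  have hlo : tC84.u₁.val 0 S d v < u := by
    by_contra hne
    have hh := not_lt.1 hne
    have hl : tC84Lo.val 0 S d v < u := by norm_num [tC84Lo, ex_add, ex_sub, ex_mul, Ex.val]; linarith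
    obtain ⟨o, mo, hx⟩ := place (U := tC84.u₁) (L := tC84Lo) (by decide +kernel) (by decide +kernel) hl hh
    have hg : 0 < (tC84.u₁ - tC84Lo).val o S d v := by
      simp only [ex_sub, Ex.val, val_noO (e := tC84.u₁) (by decide +kernel) o 0, val_noO (e := tC84Lo) (by decide +kernel) o 0]
      linarith
    exact phC_false hx (tC84_phx o S d v mo mS md mv T.dom hg) (tC84_phd o S d v mo mS md mv T.dom) hphi
  exact piece_signs_cut tC84_env tC84_envU tC84A_sign tC84B_sign (by decide +kernel) (by decide +kernel) T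
    ⟨rfl, mS, md, mv, by decide +kernel, by decide +kernel, hlo, by norm_num [tC84, ex_add, ex_sub, ex_mul, Ex.val]; linarith,
      fun o mo hx => by
        have hD := tC84_env.den false o S d v mo mS md mv T.dom
        have hD' := tC84_env.den true o S d v mo mS md mv T.dom
        exact ⟨lowT_le hx hD hlow, evU tC84_env.p0 tC84_env.gn rfl rfl mo mS md mv T hx⟩⟩

theorem tC85_ok {d S u v t : ℝ} (hB : Six.ChartBox d S) (hd : 0 < d) (hS0 : 0 < S) (T : Pt d S u v t)
    (md : Side.Mem ⟨9165, 9258, 30000⟩ d) (mv : Side.Mem ⟨1467, 1532, 1000⟩ v) (hul : (149 / 160 : ℝ) < u) (huh : u ≤ (39 / 40 : ℝ))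
    (hphi : v < Six.bandsC.phi d u) (hlow : lowT d u < t)
    (hup : t < Six.bandsC.up d u + Six.bandsC.tilt d u * v) :
    Six.ChartSigns d S u v t := by
  have mS := T.S_mem
  have hlo : tC85.u₁.val 0 S d v < u := by
    by_contra hne
    have hh := not_lt.1 hne
    have hl : tC85Lo.val 0 S d v < u := by norm_num [tC85Lo, ex_add, ex_sub, ex_mul, Ex.val]; linarith
    obtain ⟨o, mo, hx⟩ := place (U := tC85.u₁) (L := tC85Lo) (by decide +kernel) (by decide +kernel) hl hh
    have hg : 0 < (tC85.u₁ - tC85Lo).val o S d v := by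
      simp only [ex_sub, Ex.val, val_noO (e := tC85.u₁) (by decide +kernel) o 0, val_noO (e := tC85Lo) (by decide +kernel) o 0]
      linarith
    exact phC_false hx (tC85_phx o S d v mo mS md mv T.dom hg) (tC85_phd o S d v mo mS md mv T.dom) hphi
  exact piece_signs_cut tC85_env tC85_envU tC85A_sign tC85B_sign (by decide +kernel) (by decide +kernel) T
    ⟨rfl, mS, md, mv, by decide +kernel, by decide +kernel, hlo, by norm_num [tC85, ex_add, ex_sub, ex_mul, Ex.val]; linarith,
      fun o mo hx => by
        have hD := tC85_env.den false o S d v mo mS md mv T.dom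
        have hD' := tC85_env.den true o S d v mo mS md mv T.dom
        exact ⟨lowT_le hx hD hlow, evU tC85_env.p0 tC85_env.gn rfl rfl mo mS md mv T hx⟩⟩

theorem tC86_ok {d S u v t : ℝ} (hB : Six.ChartBox d S) (hd : 0 < d) (hS0 : 0 < S) (T : Pt d S u v t)
    (md : Side.Mem ⟨9165, 9258, 30000⟩ d) (mv : Side.Mem ⟨1532, 1599, 1000⟩ v) (hul : (149 / 160 : ℝ) < u) (huh : u ≤ (39 / 40 : ℝ))
    (hphi : v < Six.bandsC.phi d u) (hlow : lowT d u < t)
    (hup : t < Six.bandsC.up d u + Six.bandsC.tilt d u * v) :
    Six.ChartSigns d S u v t := by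
  have mS := T.S_mem
  have hlo : tC86.u₁.val 0 S d v < u := by
    by_contra hne
    have hh := not_lt.1 hne
    have hl : tC86Lo.val 0 S d v < u := by norm_num [tC86Lo, ex_add, ex_sub, ex_mul, Ex.val]; linarith
    obtain ⟨o, mo, hx⟩ := place (U := tC86.u₁) (L := tC86Lo) (by decide +kernel) (by decide +kernel) hl hh
    have hg : 0 < (tC86.u₁ - tC86Lo).val o S d v := by
      simp only [ex_sub, Ex.val, val_noO (e := tC86.u₁) (by decide +kernel) o 0, val_noO (e := tC86Lo) (by decide +kernel) o 0]
      linarith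
    exact phC_false hx (tC86_phx o S d v mo mS md mv T.dom hg) (tC86_phd o S d v mo mS md mv T.dom) hphi
  exact piece_signs tC86_env tC86_sign (by decide +kernel) T
    ⟨rfl, mS, md, mv, by decide +kernel, by decide +kernel, hlo, by norm_num [tC86, ex_add, ex_sub, ex_mul, Ex.val]; linarith,
      fun o mo hx => by
        have hD := tC86_env.den false o S d v mo mS md mv T.dom
        have hD' := tC86_env.den true o S d v mo mS md mv T.dom
        exact ⟨lowT_le hx hD hlow, evU tC86_env.p0 tC86_env.gn rfl rfl mo mS md mv T hx⟩⟩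

theorem tC87_ok {d S u v t : ℝ} (hB : Six.ChartBox d S) (hd : 0 < d) (hS0 : 0 < S) (T : Pt d S u v t)
    (md : Side.Mem ⟨9630, 9816, 30000⟩ d) (mv : Side.Mem ⟨1446, 1467, 1000⟩ v) (hul : (61 / 64 : ℝ) < u) (huh : u ≤ (617 / 640 : ℝ))
    (hphi : v < Six.bandsC.phi d u) (hlow : lowT d u < t)
    (hup : t < Six.bandsC.up d u + Six.bandsC.tilt d u * v) :
    Six.ChartSigns d S u v t := by
  have mS := T.S_mem
  have hl : tC87Lo.val 0 S d v < u := by norm_num [tC87Lo, ex_add, ex_sub, ex_mul, Ex.val]; linarith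
  have hh : u ≤ tC87Hi.val 0 S d v := by norm_num [tC87Hi, ex_add, ex_sub, ex_mul, Ex.val]; linarith
  obtain ⟨o, mo, hx⟩ := place (by decide +kernel) (by decide +kernel) hl hh
  exact (phC_false hx (tC87_phx o S d v mo mS md mv T.dom) (tC87_phd o S d v mo mS md mv T.dom) hphi).elim

theorem tC88_ok {d S u v t : ℝ} (hB : Six.ChartBox d S) (hd : 0 < d) (hS0 : 0 < S) (T : Pt d S u v t)
    (md : Side.Mem ⟨9630, 9816, 30000⟩ d) (mv : Side.Mem ⟨1446, 1467, 1000⟩ v) (hul : (617 / 640 : ℝ) < u) (huh : u ≤ (1241 / 1280 : ℝ))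
    (hphi : v < Six.bandsC.phi d u) (hlow : lowT d u < t)
    (hup : t < Six.bandsC.up d u + Six.bandsC.tilt d u * v) :
    Six.ChartSigns d S u v t := by
  have mS := T.S_mem
  have hlo : tC88.u₁.val 0 S d v < u := by
    by_contra hne
    have hh := not_lt.1 hne
    have hl : tC88Lo.val 0 S d v < u := by norm_num [tC88Lo, ex_add, ex_sub, ex_mul, Ex.val]; linarith
    obtain ⟨o, mo, hx⟩ := place (U := tC88.u₁) (L := tC88Lo) (by decide +kernel) (by decide +kernel) hl hh
    have hg : 0 < (tC88.u₁ - tC88Lo).val o S d v := by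
      simp only [ex_sub, Ex.val, val_noO (e := tC88.u₁) (by decide +kernel) o 0, val_noO (e := tC88Lo) (by decide +kernel) o 0]
      linarith
    exact phC_false hx (tC88_phx o S d v mo mS md mv T.dom hg) (tC88_phd o S d v mo mS md mv T.dom) hphi
  exact piece_signs tC88_env tC88_sign (by decide +kernel) T
    ⟨rfl, mS, md, mv, by decide +kernel, by decide +kernel, hlo, by norm_num [tC88, ex_add, ex_sub, ex_mul, Ex.val]; linarith,
      fun o mo hx => by
        have hD := tC88_env.den false o S d v mo mS md mv T.dom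
        have hD' := tC88_env.den true o S d v mo mS md mv T.dom
        exact ⟨lowT_le hx hD hlow, evU tC88_env.p0 tC88_env.gn rfl rfl mo mS md mv T hx⟩⟩

theorem tC89_ok {d S u v t : ℝ} (hB : Six.ChartBox d S) (hd : 0 < d) (hS0 : 0 < S) (T : Pt d S u v t)
    (md : Side.Mem ⟨9630, 9816, 30000⟩ d) (mv : Side.Mem ⟨1446, 1467, 1000⟩ v) (hul : (1241 / 1280 : ℝ) < u) (huh : u ≤ (39 / 40 : ℝ))
    (hphi : v < Six.bandsC.phi d u) (hlow : lowT d u < t)
    (hup : t < Six.bandsC.up d u + Six.bandsC.tilt d u * v) :
    Six.ChartSigns d S u v t := by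
  have mS := T.S_mem
  exact piece_signs tC89_env tC89_sign (by decide +kernel) T
    ⟨rfl, mS, md, mv, by decide +kernel, by decide +kernel, by norm_num [tC89, ex_add, ex_sub, ex_mul, Ex.val]; linarith, by norm_num [tC89, ex_add, ex_sub, ex_mul, Ex.val]; linarith,
      fun o mo hx => by
        have hD := tC89_env.den false o S d v mo mS md mv T.dom
        have hD' := tC89_env.den true o S d v mo mS md mv T.dom
        exact ⟨lowT_le hx hD hlow, evU tC89_env.p0 tC89_env.gn rfl rfl mo mS md mv T hx⟩⟩

theorem tC9_ok {d S u v t : ℝ} (hB : Six.ChartBox d S) (hd : 0 < d) (hS0 : 0 < S) (T : Pt d S u v t)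
    (md : Side.Mem ⟨4050, 10000, 30000⟩ d) (mv : Side.Mem ⟨290, 417, 1000⟩ v) (hul : (4 / 5 : ℝ) < u) (huh : u ≤ (39 / 40 : ℝ))
    (hphi : v < Six.bandsC.phi d u) (hlow : lowT d u < t)
    (hup : t < Six.bandsC.up d u + Six.bandsC.tilt d u * v) :
    Six.ChartSigns d S u v t := by
  have mS := T.S_mem
  refine (piece_false tC9_empty T
    ⟨rfl, mS, md, mv, by decide +kernel, by decide +kernel, by norm_num [tC9, ex_add, ex_sub, ex_mul, Ex.val]; linarith, by norm_num [tC9, ex_add, ex_sub, ex_mul, Ex.val]; linarith,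
      fun o mo hx => by
        have hD := tC9_empty.den false o S d v mo mS md mv T.dom
        have hD' := tC9_empty.den true o S d v mo mS md mv T.dom
        exact ⟨lowT_le hx hD hlow, upC_le hx hD' hup⟩⟩).elim

theorem tC90_ok {d S u v t : ℝ} (hB : Six.ChartBox d S) (hd : 0 < d) (hS0 : 0 < S) (T : Pt d S u v t)
    (md : Side.Mem ⟨7026, 7770, 30000⟩ d) (mv : Side.Mem ⟨1743, 1900, 1000⟩ v) (hul : (149 / 160 : ℝ) < u) (huh : u ≤ (39 / 40 : ℝ))
    (hphi : v < Six.bandsC.phi d u) (hlow : lowT d u < t)
    (hup : t < Six.bandsC.up d u + Six.bandsC.tilt d u * v) :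
    Six.ChartSigns d S u v t := by
  have mS := T.S_mem
  have hlo : tC90.u₁.val 0 S d v < u := by
    by_contra hne
    have hh := not_lt.1 hne
    have hl : tC90Lo.val 0 S d v < u := by norm_num [tC90Lo, ex_add, ex_sub, ex_mul, Ex.val]; linarith
    obtain ⟨o, mo, hx⟩ := place (U := tC90.u₁) (L := tC90Lo) (by decide +kernel) (by decide +kernel) hl hh
    have hg : 0 < (tC90.u₁ - tC90Lo).val o S d v := by
      simp only [ex_sub, Ex.val, val_noO (e := tC90.u₁) (by decide +kernel) o 0, val_noO (e := tC90Lo) (by decide +kernel) o 0]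
      linarith
    exact phC_false hx (tC90_phx o S d v mo mS md mv T.dom hg) (tC90_phd o S d v mo mS md mv T.dom) hphi
  exact piece_signs tC90_env tC90_sign (by decide +kernel) T
    ⟨rfl, mS, md, mv, by decide +kernel, by decide +kernel, hlo, by norm_num [tC90, ex_add, ex_sub, ex_mul, Ex.val]; linarith,
      fun o mo hx => by
        have hD := tC90_env.den false o S d v mo mS md mv T.dom
        have hD' := tC90_env.den true o S d v mo mS md mv T.dom
        exact ⟨lowT_le hx hD hlow, evU tC90_env.p0 tC90_env.gn rfl rfl mo mS md mv T hx⟩⟩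

theorem tC91_ok {d S u v t : ℝ} (hB : Six.ChartBox d S) (hd : 0 < d) (hS0 : 0 < S) (T : Pt d S u v t)
    (md : Side.Mem ⟨7770, 8514, 30000⟩ d) (mv : Side.Mem ⟨1743, 1900, 1000⟩ v) (hul : (149 / 160 : ℝ) < u) (huh : u ≤ (39 / 40 : ℝ))
    (hphi : v < Six.bandsC.phi d u) (hlow : lowT d u < t)
    (hup : t < Six.bandsC.up d u + Six.bandsC.tilt d u * v) :
    Six.ChartSigns d S u v t := by
  have mS := T.S_mem
  have hlo : tC91.u₁.val 0 S d v < u := by
    by_contra hne
    have hh := not_lt.1 hne
    have hl : tC91Lo.val 0 S d v < u := by norm_num [tC91Lo, ex_add, ex_sub, ex_mul, Ex.val]; linarith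
    obtain ⟨o, mo, hx⟩ := place (U := tC91.u₁) (L := tC91Lo) (by decide +kernel) (by decide +kernel) hl hh
    have hg : 0 < (tC91.u₁ - tC91Lo).val o S d v := by
      simp only [ex_sub, Ex.val, val_noO (e := tC91.u₁) (by decide +kernel) o 0, val_noO (e := tC91Lo) (by decide +kernel) o 0]
      linarith
    exact phC_false hx (tC91_phx o S d v mo mS md mv T.dom hg) (tC91_phd o S d v mo mS md mv T.dom) hphi
  exact piece_signs tC91_env tC91_sign (by decide +kernel) T
    ⟨rfl, mS, md, mv, by decide +kernel, by decide +kernel, hlo, by norm_num [tC91, ex_add, ex_sub, ex_mul, Ex.val]; linarith,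
      fun o mo hx => by
        have hD := tC91_env.den false o S d v mo mS md mv T.dom
        have hD' := tC91_env.den true o S d v mo mS md mv T.dom
        exact ⟨lowT_le hx hD hlow, evU tC91_env.p0 tC91_env.gn rfl rfl mo mS md mv T hx⟩⟩

theorem tC92_ok {d S u v t : ℝ} (hB : Six.ChartBox d S) (hd : 0 < d) (hS0 : 0 < S) (T : Pt d S u v t)
    (md : Side.Mem ⟨8514, 8616, 30000⟩ d) (mv : Side.Mem ⟨1743, 1763, 1000⟩ v) (hul : (149 / 160 : ℝ) < u) (huh : u ≤ (39 / 40 : ℝ))
    (hphi : v < Six.bandsC.phi d u) (hlow : lowT d u < t)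
    (hup : t < Six.bandsC.up d u + Six.bandsC.tilt d u * v) :
    Six.ChartSigns d S u v t := by
  have mS := T.S_mem
  have hl : tC92Lo.val 0 S d v < u := by norm_num [tC92Lo, ex_add, ex_sub, ex_mul, Ex.val]; linarith
  have hh : u ≤ tC92Hi.val 0 S d v := by norm_num [tC92Hi, ex_add, ex_sub, ex_mul, Ex.val]; linarith
  obtain ⟨o, mo, hx⟩ := place (by decide +kernel) (by decide +kernel) hl hh
  exact (phC_false hx (tC92_phx o S d v mo mS md mv T.dom) (tC92_phd o S d v mo mS md mv T.dom) hphi).elim

theorem tC93_ok {d S u v t : ℝ} (hB : Six.ChartBox d S) (hd : 0 < d) (hS0 : 0 < S) (T : Pt d S u v t)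
    (md : Side.Mem ⟨4050, 10000, 30000⟩ d) (mv : Side.Mem ⟨1500, 4000, 1000⟩ v) (hul : (3 / 5 : ℝ) < u) (huh : u ≤ (4 / 5 : ℝ))
    (hphi : v < Six.bandsC.phi d u) (hlow : lowT d u < t)
    (hup : t < Six.bandsC.up d u + Six.bandsC.tilt d u * v) :
    Six.ChartSigns d S u v t := by
  have mS := T.S_mem
  have hl : tC93Lo.val 0 S d v < u := by norm_num [tC93Lo, ex_add, ex_sub, ex_mul, Ex.val]; linarith
  have hh : u ≤ tC93Hi.val 0 S d v := by norm_num [tC93Hi, ex_add, ex_sub, ex_mul, Ex.val]; linarith
  obtain ⟨o, mo, hx⟩ := place (by decide +kernel) (by decide +kernel) hl hh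
  exact (phC_false hx (tC93_phx o S d v mo mS md mv T.dom) (tC93_phd o S d v mo mS md mv T.dom) hphi).elim

theorem tC94_ok {d S u v t : ℝ} (hB : Six.ChartBox d S) (hd : 0 < d) (hS0 : 0 < S) (T : Pt d S u v t)
    (md : Side.Mem ⟨7026, 7905, 30000⟩ d) (mv : Side.Mem ⟨1900, 2136, 1000⟩ v) (hul : (4 / 5 : ℝ) < u) (huh : u ≤ (39 / 40 : ℝ))
    (hphi : v < Six.bandsC.phi d u) (hlow : lowT d u < t)
    (hup : t < Six.bandsC.up d u + Six.bandsC.tilt d u * v) :
    Six.ChartSigns d S u v t := by
  have mS := T.S_mem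
  have hlo : tC94.u₁.val 0 S d v < u := by
    by_contra hne
    have hh := not_lt.1 hne
    have hl : tC94Lo.val 0 S d v < u := by norm_num [tC94Lo, ex_add, ex_sub, ex_mul, Ex.val]; linarith
    obtain ⟨o, mo, hx⟩ := place (U := tC94.u₁) (L := tC94Lo) (by decide +kernel) (by decide +kernel) hl hh
    have hg : 0 < (tC94.u₁ - tC94Lo).val o S d v := by
      simp only [ex_sub, Ex.val, val_noO (e := tC94.u₁) (by decide +kernel) o 0, val_noO (e := tC94Lo) (by decide +kernel) o 0]
      linarith
    exact phC_false hx (tC94_phx o S d v mo mS md mv T.dom hg) (tC94_phd o S d v mo mS md mv T.dom) hphi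
  exact piece_signs tC94_env tC94_sign (by decide +kernel) T
    ⟨rfl, mS, md, mv, by decide +kernel, by decide +kernel, hlo, by norm_num [tC94, ex_add, ex_sub, ex_mul, Ex.val]; linarith,
      fun o mo hx => by
        have hD := tC94_env.den false o S d v mo mS md mv T.dom
        have hD' := tC94_env.den true o S d v mo mS md mv T.dom
        exact ⟨lowT_le hx hD hlow, upC_le hx hD' hup⟩⟩

theorem tC95_ok {d S u v t : ℝ} (hB : Six.ChartBox d S) (hd : 0 < d) (hS0 : 0 < S) (T : Pt d S u v t)
    (md : Side.Mem ⟨4050, 10000, 30000⟩ d) (mv : Side.Mem ⟨2687, 3800, 1000⟩ v) (hul : (4 / 5 : ℝ) < u) (huh : u ≤ (39 / 40 : ℝ))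
    (hphi : v < Six.bandsC.phi d u) (hlow : lowT d u < t)
    (hup : t < Six.bandsC.up d u + Six.bandsC.tilt d u * v) :
    Six.ChartSigns d S u v t := by
  have mS := T.S_mem
  have hl : tC95Lo.val 0 S d v < u := by norm_num [tC95Lo, ex_add, ex_sub, ex_mul, Ex.val]; linarith
  have hh : u ≤ tC95Hi.val 0 S d v := by norm_num [tC95Hi, ex_add, ex_sub, ex_mul, Ex.val]; linarith
  obtain ⟨o, mo, hx⟩ := place (by decide +kernel) (by decide +kernel) hl hh
  exact (phC_false hx (tC95_phx o S d v mo mS md mv T.dom) (tC95_phd o S d v mo mS md mv T.dom) hphi).elim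

set_option maxHeartbeats 4000000 in
/-- **The closed signs on this part of the tail.** -/
theorem signsTailC : Six.SignsTail Six.bandsC (27 / 200) (1 / 3) := by
  intro d S u v t hB h0 h1 hu hu1 hF hphi hlow hup
  have hd := hB.pos
  have hS0 : 0 < S := by linarith [hB.S_low]
  have hdS : d ≤ S := by linarith [hB.S_low, hB.tri]
  have hD := dom_of hB hF
  have hv := hF.v_low
  have hd3 : d < 1 / 3 := by linarith [hB.S_low, hB.tri]
  have hv0 : 29 / 100 ≤ v := by linarith
  have hv4 : v < 4 := by
    by_contra hne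
    have h4 := not_lt.1 hne
    nlinarith [hF.kap, hF.r_lt, hB.S_low, mul_le_mul_of_nonneg_left h4 (mul_nonneg hS0.le hd.le), mul_le_mul_of_nonneg_left h4 (sub_nonneg.2 hdS)]
  have mS : Side.Mem ⟨98, 99, 147⟩ S := by
    simp only [Side.Mem]; norm_num; constructor <;> linarith [hB.S_low, hB.S_high]
  have mu : Side.Mem ⟨600, 980, 1000⟩ u := by simp only [Side.Mem]; norm_num; constructor <;> linarith
  have md0 : Side.Mem ⟨4050, 10000, 30000⟩ d := by simp only [Side.Mem]; norm_num; constructor <;> linarith
  have mv0 : Side.Mem ⟨290, 4000, 1000⟩ v := by simp only [Side.Mem]; norm_num; constructor <;> linarith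
  have ht : 0 ≤ t := by
    have k1 := tC_lowN u S d v mu mS md0 mv0 hD
    have k2 := tC_lowD u S d v mu mS md0 mv0 hD
    have k := lowT_le (x := xO) (o := u) rfl k2 hlow
    exact (pos_of_mul_pos_left (k1.trans_le k) k2.le).le
  have T : Pt d S u v t := ⟨hd, hD, hB.S_low, hB.S_high, hdS, mS, hF,
    llg_nonneg tC_llgLo tC_llgHi mu mS md0 mv0 hd hD hS0 (by linarith [hB.S_high]) ht hdS (by linarith) hF⟩
  rcases le_or_gt u (4 / 5 : ℝ) with h2 | h2
  · rcases lt_or_ge v (550 / 1000 : ℝ) with h4 | h4
    · rcases lt_or_ge v (353 / 1000 : ℝ) with h6 | h6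
      · exact tC0_ok hB hd hS0 T (by simp only [Side.Mem]; norm_num; constructor <;> linarith only [h0, h1, hd, hd3]) (by simp only [Side.Mem]; norm_num; constructor <;> linarith only [hv, hv0, hv4, h4, h6]) (by linarith only [hu, hu1, h2]) (by linarith only [hu, hu1, h2]) hphi hlow hup
      · rcases lt_or_ge v (430 / 1000 : ℝ) with h8 | h8
        · rcases le_or_gt u (7 / 10 : ℝ) with h10 | h10
          · rcases lt_or_ge d (8514 / 30000 : ℝ) with h12 | h12
            · rcases lt_or_ge d (7026 / 30000 : ℝ) with h14 | h14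
              · exact tC78_ok hB hd hS0 T (by simp only [Side.Mem]; norm_num; constructor <;> linarith only [h0, h1, hd, hd3, h12, h14]) (by simp only [Side.Mem]; norm_num; constructor <;> linarith only [hv, hv0, hv4, h4, h6, h8]) (by linarith only [hu, hu1, h2, h10]) (by linarith only [hu, hu1, h2, h10]) hphi hlow hup
              · exact tC79_ok hB hd hS0 T (by simp only [Side.Mem]; norm_num; constructor <;> linarith only [h0, h1, hd, hd3, h12, h14]) (by simp only [Side.Mem]; norm_num; constructor <;> linarith only [hv, hv0, hv4, h4, h6, h8]) (by linarith only [hu, hu1, h2, h10]) (by linarith only [hu, hu1, h2, h10]) hphi hlow hup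
            · rcases lt_or_ge d (9258 / 30000 : ℝ) with h14 | h14
              · exact tC80_ok hB hd hS0 T (by simp only [Side.Mem]; norm_num; constructor <;> linarith only [h0, h1, hd, hd3, h12, h14]) (by simp only [Side.Mem]; norm_num; constructor <;> linarith only [hv, hv0, hv4, h4, h6, h8]) (by linarith only [hu, hu1, h2, h10]) (by linarith only [hu, hu1, h2, h10]) hphi hlow hup
              · exact tC81_ok hB hd hS0 T (by simp only [Side.Mem]; norm_num; constructor <;> linarith only [h0, h1, hd, hd3, h12, h14]) (by simp only [Side.Mem]; norm_num; constructor <;> linarith only [hv, hv0, hv4, h4, h6, h8]) (by linarith only [hu, hu1, h2, h10]) (by linarith only [hu, hu1, h2, h10]) hphi hlow hup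
          · exact tC1_ok hB hd hS0 T (by simp only [Side.Mem]; norm_num; constructor <;> linarith only [h0, h1, hd, hd3]) (by simp only [Side.Mem]; norm_num; constructor <;> linarith only [hv, hv0, hv4, h4, h6, h8]) (by linarith only [hu, hu1, h2, h10]) (by linarith only [hu, hu1, h2, h10]) hphi hlow hup
        · exact tC2_ok hB hd hS0 T (by simp only [Side.Mem]; norm_num; constructor <;> linarith only [h0, h1, hd, hd3]) (by simp only [Side.Mem]; norm_num; constructor <;> linarith only [hv, hv0, hv4, h4, h6, h8]) (by linarith only [hu, hu1, h2]) (by linarith only [hu, hu1, h2]) hphi hlow hup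
    · rcases lt_or_ge v (1162 / 1000 : ℝ) with h6 | h6
      · rcases lt_or_ge v (900 / 1000 : ℝ) with h8 | h8
        · exact tC3_ok hB hd hS0 T (by simp only [Side.Mem]; norm_num; constructor <;> linarith only [h0, h1, hd, hd3]) (by simp only [Side.Mem]; norm_num; constructor <;> linarith only [hv, hv0, hv4, h4, h6, h8]) (by linarith only [hu, hu1, h2]) (by linarith only [hu, hu1, h2]) hphi hlow hup
        · rcases lt_or_ge d (7026 / 30000 : ℝ) with h10 | h10
          · exact tC4_ok hB hd hS0 T (by simp only [Side.Mem]; norm_num; constructor <;> linarith only [h0, h1, hd, hd3, h10]) (by simp only [Side.Mem]; norm_num; constructor <;> linarith only [hv, hv0, hv4, h4, h6, h8]) (by linarith only [hu, hu1, h2]) (by linarith only [hu, hu1, h2]) hphi hlow hup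
          · rcases lt_or_ge v (1023 / 1000 : ℝ) with h12 | h12
            · exact tC5_ok hB hd hS0 T (by simp only [Side.Mem]; norm_num; constructor <;> linarith only [h0, h1, hd, hd3, h10]) (by simp only [Side.Mem]; norm_num; constructor <;> linarith only [hv, hv0, hv4, h4, h6, h8, h12]) (by linarith only [hu, hu1, h2]) (by linarith only [hu, hu1, h2]) hphi hlow hup
            · rcases lt_or_ge d (8514 / 30000 : ℝ) with h14 | h14
              · exact tC6_ok hB hd hS0 T (by simp only [Side.Mem]; norm_num; constructor <;> linarith only [h0, h1, hd, hd3, h10, h14]) (by simp only [Side.Mem]; norm_num; constructor <;> linarith only [hv, hv0, hv4, h4, h6, h8, h12]) (by linarith only [hu, hu1, h2]) (by linarith only [hu, hu1, h2]) hphi hlow hup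
              · exact tC7_ok hB hd hS0 T (by simp only [Side.Mem]; norm_num; constructor <;> linarith only [h0, h1, hd, hd3, h10, h14]) (by simp only [Side.Mem]; norm_num; constructor <;> linarith only [hv, hv0, hv4, h4, h6, h8, h12]) (by linarith only [hu, hu1, h2]) (by linarith only [hu, hu1, h2]) hphi hlow hup
      · rcases lt_or_ge v (1500 / 1000 : ℝ) with h8 | h8
        · exact tC8_ok hB hd hS0 T (by simp only [Side.Mem]; norm_num; constructor <;> linarith only [h0, h1, hd, hd3]) (by simp only [Side.Mem]; norm_num; constructor <;> linarith only [hv, hv0, hv4, h4, h6, h8]) (by linarith only [hu, hu1, h2]) (by linarith only [hu, hu1, h2]) hphi hlow hup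
        · exact tC93_ok hB hd hS0 T (by simp only [Side.Mem]; norm_num; constructor <;> linarith only [h0, h1, hd, hd3]) (by simp only [Side.Mem]; norm_num; constructor <;> linarith only [hv, hv0, hv4, h4, h6, h8]) (by linarith only [hu, hu1, h2]) (by linarith only [hu, hu1, h2]) hphi hlow hup
  · rcases lt_or_ge v (1346 / 1000 : ℝ) with h4 | h4
    · rcases lt_or_ge v (1200 / 1000 : ℝ) with h6 | h6
      · rcases lt_or_ge v (897 / 1000 : ℝ) with h8 | h8
        · rcases lt_or_ge v (600 / 1000 : ℝ) with h10 | h10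
          · rcases lt_or_ge v (417 / 1000 : ℝ) with h12 | h12
            · exact tC9_ok hB hd hS0 T (by simp only [Side.Mem]; norm_num; constructor <;> linarith only [h0, h1, hd, hd3]) (by simp only [Side.Mem]; norm_num; constructor <;> linarith only [hv, hv0, hv4, h4, h6, h8, h10, h12]) (by linarith only [hu, hu1, h2]) (by linarith only [hu, hu1, h2]) hphi hlow hup
            · rcases le_or_gt u (71 / 80 : ℝ) with h14 | h14
              · exact tC10_ok hB hd hS0 T (by simp only [Side.Mem]; norm_num; constructor <;> linarith only [h0, h1, hd, hd3]) (by simp only [Side.Mem]; norm_num; constructor <;> linarith only [hv, hv0, hv4, h4, h6, h8, h10, h12]) (by linarith only [hu, hu1, h2, h14]) (by linarith only [hu, hu1, h2, h14]) hphi hlow hup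
              · exact tC11_ok hB hd hS0 T (by simp only [Side.Mem]; norm_num; constructor <;> linarith only [h0, h1, hd, hd3]) (by simp only [Side.Mem]; norm_num; constructor <;> linarith only [hv, hv0, hv4, h4, h6, h8, h10, h12]) (by linarith only [hu, hu1, h2, h14]) (by linarith only [hu, hu1, h2, h14]) hphi hlow hup
          · rcases lt_or_ge v (670 / 1000 : ℝ) with h12 | h12
            · exact tC12_ok hB hd hS0 T (by simp only [Side.Mem]; norm_num; constructor <;> linarith only [h0, h1, hd, hd3]) (by simp only [Side.Mem]; norm_num; constructor <;> linarith only [hv, hv0, hv4, h4, h6, h8, h10, h12]) (by linarith only [hu, hu1, h2]) (by linarith only [hu, hu1, h2]) hphi hlow hup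
            · exact tC13_ok hB hd hS0 T (by simp only [Side.Mem]; norm_num; constructor <;> linarith only [h0, h1, hd, hd3]) (by simp only [Side.Mem]; norm_num; constructor <;> linarith only [hv, hv0, hv4, h4, h6, h8, h10, h12]) (by linarith only [hu, hu1, h2]) (by linarith only [hu, hu1, h2]) hphi hlow hup
        · rcases lt_or_ge d (8514 / 30000 : ℝ) with h10 | h10
          · rcases lt_or_ge d (7026 / 30000 : ℝ) with h12 | h12
            · rcases lt_or_ge v (1037 / 1000 : ℝ) with h14 | h14
              · exact tC14_ok hB hd hS0 T (by simp only [Side.Mem]; norm_num; constructor <;> linarith only [h0, h1, hd, hd3, h10, h12]) (by simp only [Side.Mem]; norm_num; constructor <;> linarith only [hv, hv0, hv4, h4, h6, h8, h14]) (by linarith only [hu, hu1, h2]) (by linarith only [hu, hu1, h2]) hphi hlow hup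
              · exact tC15_ok hB hd hS0 T (by simp only [Side.Mem]; norm_num; constructor <;> linarith only [h0, h1, hd, hd3, h10, h12]) (by simp only [Side.Mem]; norm_num; constructor <;> linarith only [hv, hv0, hv4, h4, h6, h8, h14]) (by linarith only [hu, hu1, h2]) (by linarith only [hu, hu1, h2]) hphi hlow hup
            · exact tC16_ok hB hd hS0 T (by simp only [Side.Mem]; norm_num; constructor <;> linarith only [h0, h1, hd, hd3, h10, h12]) (by simp only [Side.Mem]; norm_num; constructor <;> linarith only [hv, hv0, hv4, h4, h6, h8]) (by linarith only [hu, hu1, h2]) (by linarith only [hu, hu1, h2]) hphi hlow hup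
          · rcases lt_or_ge v (1037 / 1000 : ℝ) with h12 | h12
            · exact tC17_ok hB hd hS0 T (by simp only [Side.Mem]; norm_num; constructor <;> linarith only [h0, h1, hd, hd3, h10]) (by simp only [Side.Mem]; norm_num; constructor <;> linarith only [hv, hv0, hv4, h4, h6, h8, h12]) (by linarith only [hu, hu1, h2]) (by linarith only [hu, hu1, h2]) hphi hlow hup
            · rcases lt_or_ge d (9630 / 30000 : ℝ) with h14 | h14
              · rcases lt_or_ge d (9258 / 30000 : ℝ) with h16 | h16
                · exact tC18_ok hB hd hS0 T (by simp only [Side.Mem]; norm_num; constructor <;> linarith only [h0, h1, hd, hd3, h10, h14, h16]) (by simp only [Side.Mem]; norm_num; constructor <;> linarith only [hv, hv0, hv4, h4, h6, h8, h12]) (by linarith only [hu, hu1, h2]) (by linarith only [hu, hu1, h2]) hphi hlow hup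
                · exact tC19_ok hB hd hS0 T (by simp only [Side.Mem]; norm_num; constructor <;> linarith only [h0, h1, hd, hd3, h10, h14, h16]) (by simp only [Side.Mem]; norm_num; constructor <;> linarith only [hv, hv0, hv4, h4, h6, h8, h12]) (by linarith only [hu, hu1, h2]) (by linarith only [hu, hu1, h2]) hphi hlow hup
              · rcases lt_or_ge v (1116 / 1000 : ℝ) with h16 | h16
                · exact tC20_ok hB hd hS0 T (by simp only [Side.Mem]; norm_num; constructor <;> linarith only [h0, h1, hd, hd3, h10, h14]) (by simp only [Side.Mem]; norm_num; constructor <;> linarith only [hv, hv0, hv4, h4, h6, h8, h12, h16]) (by linarith only [hu, hu1, h2]) (by linarith only [hu, hu1, h2]) hphi hlow hup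
                · rcases le_or_gt u (71 / 80 : ℝ) with h18 | h18
                  · exact tC21_ok hB hd hS0 T (by simp only [Side.Mem]; norm_num; constructor <;> linarith only [h0, h1, hd, hd3, h10, h14]) (by simp only [Side.Mem]; norm_num; constructor <;> linarith only [hv, hv0, hv4, h4, h6, h8, h12, h16]) (by linarith only [hu, hu1, h2, h18]) (by linarith only [hu, hu1, h2, h18]) hphi hlow hup
                  · rcases le_or_gt u (149 / 160 : ℝ) with h20 | h20
                    · exact tC22_ok hB hd hS0 T (by simp only [Side.Mem]; norm_num; constructor <;> linarith only [h0, h1, hd, hd3, h10, h14]) (by simp only [Side.Mem]; norm_num; constructor <;> linarith only [hv, hv0, hv4, h4, h6, h8, h12, h16]) (by linarith only [hu, hu1, h2, h18, h20]) (by linarith only [hu, hu1, h2, h18, h20]) hphi hlow hup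
                    · exact tC23_ok hB hd hS0 T (by simp only [Side.Mem]; norm_num; constructor <;> linarith only [h0, h1, hd, hd3, h10, h14]) (by simp only [Side.Mem]; norm_num; constructor <;> linarith only [hv, hv0, hv4, h4, h6, h8, h12, h16]) (by linarith only [hu, hu1, h2, h18, h20]) (by linarith only [hu, hu1, h2, h18, h20]) hphi hlow hup
      · rcases lt_or_ge d (9258 / 30000 : ℝ) with h8 | h8
        · rcases lt_or_ge v (1271 / 1000 : ℝ) with h10 | h10
          · rcases lt_or_ge d (7026 / 30000 : ℝ) with h12 | h12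
            · exact tC24_ok hB hd hS0 T (by simp only [Side.Mem]; norm_num; constructor <;> linarith only [h0, h1, hd, hd3, h8, h12]) (by simp only [Side.Mem]; norm_num; constructor <;> linarith only [hv, hv0, hv4, h4, h6, h10]) (by linarith only [hu, hu1, h2]) (by linarith only [hu, hu1, h2]) hphi hlow hup
            · rcases lt_or_ge d (8514 / 30000 : ℝ) with h14 | h14
              · exact tC25_ok hB hd hS0 T (by simp only [Side.Mem]; norm_num; constructor <;> linarith only [h0, h1, hd, hd3, h8, h12, h14]) (by simp only [Side.Mem]; norm_num; constructor <;> linarith only [hv, hv0, hv4, h4, h6, h10]) (by linarith only [hu, hu1, h2]) (by linarith only [hu, hu1, h2]) hphi hlow hup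
              · exact tC26_ok hB hd hS0 T (by simp only [Side.Mem]; norm_num; constructor <;> linarith only [h0, h1, hd, hd3, h8, h12, h14]) (by simp only [Side.Mem]; norm_num; constructor <;> linarith only [hv, hv0, hv4, h4, h6, h10]) (by linarith only [hu, hu1, h2]) (by linarith only [hu, hu1, h2]) hphi hlow hup
          · rcases lt_or_ge d (7026 / 30000 : ℝ) with h12 | h12
            · exact tC30_ok hB hd hS0 T (by simp only [Side.Mem]; norm_num; constructor <;> linarith only [h0, h1, hd, hd3, h8, h12]) (by simp only [Side.Mem]; norm_num; constructor <;> linarith only [hv, hv0, hv4, h4, h6, h10]) (by linarith only [hu, hu1, h2]) (by linarith only [hu, hu1, h2]) hphi hlow hup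
            · rcases lt_or_ge d (8514 / 30000 : ℝ) with h14 | h14
              · exact tC31_ok hB hd hS0 T (by simp only [Side.Mem]; norm_num; constructor <;> linarith only [h0, h1, hd, hd3, h8, h12, h14]) (by simp only [Side.Mem]; norm_num; constructor <;> linarith only [hv, hv0, hv4, h4, h6, h10]) (by linarith only [hu, hu1, h2]) (by linarith only [hu, hu1, h2]) hphi hlow hup
              · exact tC32_ok hB hd hS0 T (by simp only [Side.Mem]; norm_num; constructor <;> linarith only [h0, h1, hd, hd3, h8, h12, h14]) (by simp only [Side.Mem]; norm_num; constructor <;> linarith only [hv, hv0, hv4, h4, h6, h10]) (by linarith only [hu, hu1, h2]) (by linarith only [hu, hu1, h2]) hphi hlow hup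
        · rcases lt_or_ge v (1271 / 1000 : ℝ) with h10 | h10
          · rcases le_or_gt u (149 / 160 : ℝ) with h12 | h12
            · rcases le_or_gt u (71 / 80 : ℝ) with h14 | h14
              · exact tC27_ok hB hd hS0 T (by simp only [Side.Mem]; norm_num; constructor <;> linarith only [h0, h1, hd, hd3, h8]) (by simp only [Side.Mem]; norm_num; constructor <;> linarith only [hv, hv0, hv4, h4, h6, h10]) (by linarith only [hu, hu1, h2, h12, h14]) (by linarith only [hu, hu1, h2, h12, h14]) hphi hlow hup
              · exact tC72_ok hB hd hS0 T (by simp only [Side.Mem]; norm_num; constructor <;> linarith only [h0, h1, hd, hd3, h8]) (by simp only [Side.Mem]; norm_num; constructor <;> linarith only [hv, hv0, hv4, h4, h6, h10]) (by linarith only [hu, hu1, h2, h12, h14]) (by linarith only [hu, hu1, h2, h12, h14]) hphi hlow hup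
            · rcases le_or_gt u (61 / 64 : ℝ) with h14 | h14
              · exact tC28_ok hB hd hS0 T (by simp only [Side.Mem]; norm_num; constructor <;> linarith only [h0, h1, hd, hd3, h8]) (by simp only [Side.Mem]; norm_num; constructor <;> linarith only [hv, hv0, hv4, h4, h6, h10]) (by linarith only [hu, hu1, h2, h12, h14]) (by linarith only [hu, hu1, h2, h12, h14]) hphi hlow hup
              · exact tC29_ok hB hd hS0 T (by simp only [Side.Mem]; norm_num; constructor <;> linarith only [h0, h1, hd, hd3, h8]) (by simp only [Side.Mem]; norm_num; constructor <;> linarith only [hv, hv0, hv4, h4, h6, h10]) (by linarith only [hu, hu1, h2, h12, h14]) (by linarith only [hu, hu1, h2, h12, h14]) hphi hlow hup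
          · exact tC33_ok hB hd hS0 T (by simp only [Side.Mem]; norm_num; constructor <;> linarith only [h0, h1, hd, hd3, h8]) (by simp only [Side.Mem]; norm_num; constructor <;> linarith only [hv, hv0, hv4, h4, h6, h10]) (by linarith only [hu, hu1, h2]) (by linarith only [hu, hu1, h2]) hphi hlow hup
    · rcases lt_or_ge v (1900 / 1000 : ℝ) with h6 | h6
      · rcases lt_or_ge d (7026 / 30000 : ℝ) with h8 | h8
        · rcases lt_or_ge v (1599 / 1000 : ℝ) with h10 | h10
          · rcases lt_or_ge d (5538 / 30000 : ℝ) with h12 | h12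
            · exact tC34_ok hB hd hS0 T (by simp only [Side.Mem]; norm_num; constructor <;> linarith only [h0, h1, hd, hd3, h8, h12]) (by simp only [Side.Mem]; norm_num; constructor <;> linarith only [hv, hv0, hv4, h4, h6, h10]) (by linarith only [hu, hu1, h2]) (by linarith only [hu, hu1, h2]) hphi hlow hup
            · rcases le_or_gt u (71 / 80 : ℝ) with h14 | h14
              · exact tC35_ok hB hd hS0 T (by simp only [Side.Mem]; norm_num; constructor <;> linarith only [h0, h1, hd, hd3, h8, h12]) (by simp only [Side.Mem]; norm_num; constructor <;> linarith only [hv, hv0, hv4, h4, h6, h10]) (by linarith only [hu, hu1, h2, h14]) (by linarith only [hu, hu1, h2, h14]) hphi hlow hup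
              · rcases lt_or_ge d (6282 / 30000 : ℝ) with h16 | h16
                · exact tC36_ok hB hd hS0 T (by simp only [Side.Mem]; norm_num; constructor <;> linarith only [h0, h1, hd, hd3, h8, h12, h16]) (by simp only [Side.Mem]; norm_num; constructor <;> linarith only [hv, hv0, hv4, h4, h6, h10]) (by linarith only [hu, hu1, h2, h14]) (by linarith only [hu, hu1, h2, h14]) hphi hlow hup
                · rcases lt_or_ge v (1467 / 1000 : ℝ) with h18 | h18
                  · exact tC37_ok hB hd hS0 T (by simp only [Side.Mem]; norm_num; constructor <;> linarith only [h0, h1, hd, hd3, h8, h12, h16]) (by simp only [Side.Mem]; norm_num; constructor <;> linarith only [hv, hv0, hv4, h4, h6, h10, h18]) (by linarith only [hu, hu1, h2, h14]) (by linarith only [hu, hu1, h2, h14]) hphi hlow hup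
                  · rcases lt_or_ge d (6654 / 30000 : ℝ) with h20 | h20
                    · exact tC38_ok hB hd hS0 T (by simp only [Side.Mem]; norm_num; constructor <;> linarith only [h0, h1, hd, hd3, h8, h12, h16, h20]) (by simp only [Side.Mem]; norm_num; constructor <;> linarith only [hv, hv0, hv4, h4, h6, h10, h18]) (by linarith only [hu, hu1, h2, h14]) (by linarith only [hu, hu1, h2, h14]) hphi hlow hup
                    · exact tC39_ok hB hd hS0 T (by simp only [Side.Mem]; norm_num; constructor <;> linarith only [h0, h1, hd, hd3, h8, h12, h16, h20]) (by simp only [Side.Mem]; norm_num; constructor <;> linarith only [hv, hv0, hv4, h4, h6, h10, h18]) (by linarith only [hu, hu1, h2, h14]) (by linarith only [hu, hu1, h2, h14]) hphi hlow hup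
          · exact tC40_ok hB hd hS0 T (by simp only [Side.Mem]; norm_num; constructor <;> linarith only [h0, h1, hd, hd3, h8]) (by simp only [Side.Mem]; norm_num; constructor <;> linarith only [hv, hv0, hv4, h4, h6, h10]) (by linarith only [hu, hu1, h2]) (by linarith only [hu, hu1, h2]) hphi hlow hup
        · rcases le_or_gt u (71 / 80 : ℝ) with h10 | h10
          · exact tC41_ok hB hd hS0 T (by simp only [Side.Mem]; norm_num; constructor <;> linarith only [h0, h1, hd, hd3, h8]) (by simp only [Side.Mem]; norm_num; constructor <;> linarith only [hv, hv0, hv4, h4, h6]) (by linarith only [hu, hu1, h2, h10]) (by linarith only [hu, hu1, h2, h10]) hphi hlow hup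
          · rcases lt_or_ge v (1599 / 1000 : ℝ) with h12 | h12
            · rcases lt_or_ge d (8514 / 30000 : ℝ) with h14 | h14
              · rcases lt_or_ge v (1467 / 1000 : ℝ) with h16 | h16
                · exact tC42_ok hB hd hS0 T (by simp only [Side.Mem]; norm_num; constructor <;> linarith only [h0, h1, hd, hd3, h8, h14]) (by simp only [Side.Mem]; norm_num; constructor <;> linarith only [hv, hv0, hv4, h4, h6, h12, h16]) (by linarith only [hu, hu1, h2, h10]) (by linarith only [hu, hu1, h2, h10]) hphi hlow hup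
                · exact tC43_ok hB hd hS0 T (by simp only [Side.Mem]; norm_num; constructor <;> linarith only [h0, h1, hd, hd3, h8, h14]) (by simp only [Side.Mem]; norm_num; constructor <;> linarith only [hv, hv0, hv4, h4, h6, h12, h16]) (by linarith only [hu, hu1, h2, h10]) (by linarith only [hu, hu1, h2, h10]) hphi hlow hup
              · rcases le_or_gt u (149 / 160 : ℝ) with h16 | h16
                · exact tC44_ok hB hd hS0 T (by simp only [Side.Mem]; norm_num; constructor <;> linarith only [h0, h1, hd, hd3, h8, h14]) (by simp only [Side.Mem]; norm_num; constructor <;> linarith only [hv, hv0, hv4, h4, h6, h12]) (by linarith only [hu, hu1, h2, h10, h16]) (by linarith only [hu, hu1, h2, h10, h16]) hphi hlow hup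
                · rcases lt_or_ge v (1467 / 1000 : ℝ) with h18 | h18
                  · rcases lt_or_ge d (9258 / 30000 : ℝ) with h20 | h20
                    · exact tC45_ok hB hd hS0 T (by simp only [Side.Mem]; norm_num; constructor <;> linarith only [h0, h1, hd, hd3, h8, h14, h20]) (by simp only [Side.Mem]; norm_num; constructor <;> linarith only [hv, hv0, hv4, h4, h6, h12, h18]) (by linarith only [hu, hu1, h2, h10, h16]) (by linarith only [hu, hu1, h2, h10, h16]) hphi hlow hup
                    · rcases lt_or_ge v (1446 / 1000 : ℝ) with h22 | h22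
                      · rcases lt_or_ge v (1405 / 1000 : ℝ) with h24 | h24
                        · exact tC46_ok hB hd hS0 T (by simp only [Side.Mem]; norm_num; constructor <;> linarith only [h0, h1, hd, hd3, h8, h14, h20]) (by simp only [Side.Mem]; norm_num; constructor <;> linarith only [hv, hv0, hv4, h4, h6, h12, h18, h22, h24]) (by linarith only [hu, hu1, h2, h10, h16]) (by linarith only [hu, hu1, h2, h10, h16]) hphi hlow hup
                        · rcases lt_or_ge v (1436 / 1000 : ℝ) with h26 | h26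
                          · exact tC47_ok hB hd hS0 T (by simp only [Side.Mem]; norm_num; constructor <;> linarith only [h0, h1, hd, hd3, h8, h14, h20]) (by simp only [Side.Mem]; norm_num; constructor <;> linarith only [hv, hv0, hv4, h4, h6, h12, h18, h22, h24, h26]) (by linarith only [hu, hu1, h2, h10, h16]) (by linarith only [hu, hu1, h2, h10, h16]) hphi hlow hup
                          · exact tC48_ok hB hd hS0 T (by simp only [Side.Mem]; norm_num; constructor <;> linarith only [h0, h1, hd, hd3, h8, h14, h20]) (by simp only [Side.Mem]; norm_num; constructor <;> linarith only [hv, hv0, hv4, h4, h6, h12, h18, h22, h24, h26]) (by linarith only [hu, hu1, h2, h10, h16]) (by linarith only [hu, hu1, h2, h10, h16]) hphi hlow hup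
                      · rcases le_or_gt u (61 / 64 : ℝ) with h24 | h24
                        · exact tC49_ok hB hd hS0 T (by simp only [Side.Mem]; norm_num; constructor <;> linarith only [h0, h1, hd, hd3, h8, h14, h20]) (by simp only [Side.Mem]; norm_num; constructor <;> linarith only [hv, hv0, hv4, h4, h6, h12, h18, h22]) (by linarith only [hu, hu1, h2, h10, h16, h24]) (by linarith only [hu, hu1, h2, h10, h16, h24]) hphi hlow hup
                        · rcases lt_or_ge d (9816 / 30000 : ℝ) with h26 | h26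
                          · rcases lt_or_ge d (9630 / 30000 : ℝ) with h28 | h28
                            · rcases lt_or_ge d (9444 / 30000 : ℝ) with h30 | h30
                              · exact tC50_ok hB hd hS0 T (by simp only [Side.Mem]; norm_num; constructor <;> linarith only [h0, h1, hd, hd3, h8, h14, h20, h26, h28, h30]) (by simp only [Side.Mem]; norm_num; constructor <;> linarith only [hv, hv0, hv4, h4, h6, h12, h18, h22]) (by linarith only [hu, hu1, h2, h10, h16, h24]) (by linarith only [hu, hu1, h2, h10, h16, h24]) hphi hlow hup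
                              · exact tC51_ok hB hd hS0 T (by simp only [Side.Mem]; norm_num; constructor <;> linarith only [h0, h1, hd, hd3, h8, h14, h20, h26, h28, h30]) (by simp only [Side.Mem]; norm_num; constructor <;> linarith only [hv, hv0, hv4, h4, h6, h12, h18, h22]) (by linarith only [hu, hu1, h2, h10, h16, h24]) (by linarith only [hu, hu1, h2, h10, h16, h24]) hphi hlow hup
                            · rcases le_or_gt u (617 / 640 : ℝ) with h30 | h30
                              · exact tC87_ok hB hd hS0 T (by simp only [Side.Mem]; norm_num; constructor <;> linarith only [h0, h1, hd, hd3, h8, h14, h20, h26, h28]) (by simp only [Side.Mem]; norm_num; constructor <;> linarith only [hv, hv0, hv4, h4, h6, h12, h18, h22]) (by linarith only [hu, hu1, h2, h10, h16, h24, h30]) (by linarith only [hu, hu1, h2, h10, h16, h24, h30]) hphi hlow hup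
                              · rcases le_or_gt u (1241 / 1280 : ℝ) with h32 | h32
                                · exact tC88_ok hB hd hS0 T (by simp only [Side.Mem]; norm_num; constructor <;> linarith only [h0, h1, hd, hd3, h8, h14, h20, h26, h28]) (by simp only [Side.Mem]; norm_num; constructor <;> linarith only [hv, hv0, hv4, h4, h6, h12, h18, h22]) (by linarith only [hu, hu1, h2, h10, h16, h24, h30, h32]) (by linarith only [hu, hu1, h2, h10, h16, h24, h30, h32]) hphi hlow hup
                                · exact tC89_ok hB hd hS0 T (by simp only [Side.Mem]; norm_num; constructor <;> linarith only [h0, h1, hd, hd3, h8, h14, h20, h26, h28]) (by simp only [Side.Mem]; norm_num; constructor <;> linarith only [hv, hv0, hv4, h4, h6, h12, h18, h22]) (by linarith only [hu, hu1, h2, h10, h16, h24, h30, h32]) (by linarith only [hu, hu1, h2, h10, h16, h24, h30, h32]) hphi hlow hup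
                          · rcases lt_or_ge d (9909 / 30000 : ℝ) with h28 | h28
                            · rcases lt_or_ge v (1456 / 1000 : ℝ) with h30 | h30
                              · exact tC52_ok hB hd hS0 T (by simp only [Side.Mem]; norm_num; constructor <;> linarith only [h0, h1, hd, hd3, h8, h14, h20, h26, h28]) (by simp only [Side.Mem]; norm_num; constructor <;> linarith only [hv, hv0, hv4, h4, h6, h12, h18, h22, h30]) (by linarith only [hu, hu1, h2, h10, h16, h24]) (by linarith only [hu, hu1, h2, h10, h16, h24]) hphi hlow hup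
                              · exact tC53_ok hB hd hS0 T (by simp only [Side.Mem]; norm_num; constructor <;> linarith only [h0, h1, hd, hd3, h8, h14, h20, h26, h28]) (by simp only [Side.Mem]; norm_num; constructor <;> linarith only [hv, hv0, hv4, h4, h6, h12, h18, h22, h30]) (by linarith only [hu, hu1, h2, h10, h16, h24]) (by linarith only [hu, hu1, h2, h10, h16, h24]) hphi hlow hup
                            · exact tC54_ok hB hd hS0 T (by simp only [Side.Mem]; norm_num; constructor <;> linarith only [h0, h1, hd, hd3, h8, h14, h20, h26, h28]) (by simp only [Side.Mem]; norm_num; constructor <;> linarith only [hv, hv0, hv4, h4, h6, h12, h18, h22]) (by linarith only [hu, hu1, h2, h10, h16, h24]) (by linarith only [hu, hu1, h2, h10, h16, h24]) hphi hlow hup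
                  · rcases lt_or_ge d (9258 / 30000 : ℝ) with h20 | h20
                    · rcases lt_or_ge d (9072 / 30000 : ℝ) with h22 | h22
                      · rcases lt_or_ge d (8886 / 30000 : ℝ) with h24 | h24
                        · exact tC82_ok hB hd hS0 T (by simp only [Side.Mem]; norm_num; constructor <;> linarith only [h0, h1, hd, hd3, h8, h14, h20, h22, h24]) (by simp only [Side.Mem]; norm_num; constructor <;> linarith only [hv, hv0, hv4, h4, h6, h12, h18]) (by linarith only [hu, hu1, h2, h10, h16]) (by linarith only [hu, hu1, h2, h10, h16]) hphi hlow hup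
                        · exact tC83_ok hB hd hS0 T (by simp only [Side.Mem]; norm_num; constructor <;> linarith only [h0, h1, hd, hd3, h8, h14, h20, h22, h24]) (by simp only [Side.Mem]; norm_num; constructor <;> linarith only [hv, hv0, hv4, h4, h6, h12, h18]) (by linarith only [hu, hu1, h2, h10, h16]) (by linarith only [hu, hu1, h2, h10, h16]) hphi hlow hup
                      · rcases lt_or_ge d (9165 / 30000 : ℝ) with h24 | h24
                        · exact tC84_ok hB hd hS0 T (by simp only [Side.Mem]; norm_num; constructor <;> linarith only [h0, h1, hd, hd3, h8, h14, h20, h22, h24]) (by simp only [Side.Mem]; norm_num; constructor <;> linarith only [hv, hv0, hv4, h4, h6, h12, h18]) (by linarith only [hu, hu1, h2, h10, h16]) (by linarith only [hu, hu1, h2, h10, h16]) hphi hlow hup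
                        · rcases lt_or_ge v (1532 / 1000 : ℝ) with h26 | h26
                          · exact tC85_ok hB hd hS0 T (by simp only [Side.Mem]; norm_num; constructor <;> linarith only [h0, h1, hd, hd3, h8, h14, h20, h22, h24]) (by simp only [Side.Mem]; norm_num; constructor <;> linarith only [hv, hv0, hv4, h4, h6, h12, h18, h26]) (by linarith only [hu, hu1, h2, h10, h16]) (by linarith only [hu, hu1, h2, h10, h16]) hphi hlow hup
                          · exact tC86_ok hB hd hS0 T (by simp only [Side.Mem]; norm_num; constructor <;> linarith only [h0, h1, hd, hd3, h8, h14, h20, h22, h24]) (by simp only [Side.Mem]; norm_num; constructor <;> linarith only [hv, hv0, hv4, h4, h6, h12, h18, h26]) (by linarith only [hu, hu1, h2, h10, h16]) (by linarith only [hu, hu1, h2, h10, h16]) hphi hlow hup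
                    · rcases le_or_gt u (61 / 64 : ℝ) with h22 | h22
                      · exact tC55_ok hB hd hS0 T (by simp only [Side.Mem]; norm_num; constructor <;> linarith only [h0, h1, hd, hd3, h8, h14, h20]) (by simp only [Side.Mem]; norm_num; constructor <;> linarith only [hv, hv0, hv4, h4, h6, h12, h18]) (by linarith only [hu, hu1, h2, h10, h16, h22]) (by linarith only [hu, hu1, h2, h10, h16, h22]) hphi hlow hup
                      · rcases lt_or_ge v (1510 / 1000 : ℝ) with h24 | h24
                        · rcases lt_or_ge d (9630 / 30000 : ℝ) with h26 | h26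
                          · rcases lt_or_ge v (1488 / 1000 : ℝ) with h28 | h28
                            · exact tC73_ok hB hd hS0 T (by simp only [Side.Mem]; norm_num; constructor <;> linarith only [h0, h1, hd, hd3, h8, h14, h20, h26]) (by simp only [Side.Mem]; norm_num; constructor <;> linarith only [hv, hv0, hv4, h4, h6, h12, h18, h24, h28]) (by linarith only [hu, hu1, h2, h10, h16, h22]) (by linarith only [hu, hu1, h2, h10, h16, h22]) hphi hlow hup
                            · exact tC74_ok hB hd hS0 T (by simp only [Side.Mem]; norm_num; constructor <;> linarith only [h0, h1, hd, hd3, h8, h14, h20, h26]) (by simp only [Side.Mem]; norm_num; constructor <;> linarith only [hv, hv0, hv4, h4, h6, h12, h18, h24, h28]) (by linarith only [hu, hu1, h2, h10, h16, h22]) (by linarith only [hu, hu1, h2, h10, h16, h22]) hphi hlow hup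
                          · rcases lt_or_ge d (9816 / 30000 : ℝ) with h28 | h28
                            · rcases lt_or_ge v (1488 / 1000 : ℝ) with h30 | h30
                              · rcases lt_or_ge d (9723 / 30000 : ℝ) with h32 | h32
                                · exact tC56_ok hB hd hS0 T (by simp only [Side.Mem]; norm_num; constructor <;> linarith only [h0, h1, hd, hd3, h8, h14, h20, h26, h28, h32]) (by simp only [Side.Mem]; norm_num; constructor <;> linarith only [hv, hv0, hv4, h4, h6, h12, h18, h24, h30]) (by linarith only [hu, hu1, h2, h10, h16, h22]) (by linarith only [hu, hu1, h2, h10, h16, h22]) hphi hlow hup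
                                · exact tC57_ok hB hd hS0 T (by simp only [Side.Mem]; norm_num; constructor <;> linarith only [h0, h1, hd, hd3, h8, h14, h20, h26, h28, h32]) (by simp only [Side.Mem]; norm_num; constructor <;> linarith only [hv, hv0, hv4, h4, h6, h12, h18, h24, h30]) (by linarith only [hu, hu1, h2, h10, h16, h22]) (by linarith only [hu, hu1, h2, h10, h16, h22]) hphi hlow hup
                              · exact tC58_ok hB hd hS0 T (by simp only [Side.Mem]; norm_num; constructor <;> linarith only [h0, h1, hd, hd3, h8, h14, h20, h26, h28]) (by simp only [Side.Mem]; norm_num; constructor <;> linarith only [hv, hv0, hv4, h4, h6, h12, h18, h24, h30]) (by linarith only [hu, hu1, h2, h10, h16, h22]) (by linarith only [hu, hu1, h2, h10, h16, h22]) hphi hlow hup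
                            · exact tC59_ok hB hd hS0 T (by simp only [Side.Mem]; norm_num; constructor <;> linarith only [h0, h1, hd, hd3, h8, h14, h20, h26, h28]) (by simp only [Side.Mem]; norm_num; constructor <;> linarith only [hv, hv0, hv4, h4, h6, h12, h18, h24]) (by linarith only [hu, hu1, h2, h10, h16, h22]) (by linarith only [hu, hu1, h2, h10, h16, h22]) hphi hlow hup
                        · rcases lt_or_ge v (1532 / 1000 : ℝ) with h26 | h26
                          · rcases lt_or_ge d (9444 / 30000 : ℝ) with h28 | h28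
                            · exact tC60_ok hB hd hS0 T (by simp only [Side.Mem]; norm_num; constructor <;> linarith only [h0, h1, hd, hd3, h8, h14, h20, h28]) (by simp only [Side.Mem]; norm_num; constructor <;> linarith only [hv, hv0, hv4, h4, h6, h12, h18, h24, h26]) (by linarith only [hu, hu1, h2, h10, h16, h22]) (by linarith only [hu, hu1, h2, h10, h16, h22]) hphi hlow hup
                            · rcases lt_or_ge d (9630 / 30000 : ℝ) with h30 | h30
                              · exact tC61_ok hB hd hS0 T (by simp only [Side.Mem]; norm_num; constructor <;> linarith only [h0, h1, hd, hd3, h8, h14, h20, h28, h30]) (by simp only [Side.Mem]; norm_num; constructor <;> linarith only [hv, hv0, hv4, h4, h6, h12, h18, h24, h26]) (by linarith only [hu, hu1, h2, h10, h16, h22]) (by linarith only [hu, hu1, h2, h10, h16, h22]) hphi hlow hup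
                              · exact tC62_ok hB hd hS0 T (by simp only [Side.Mem]; norm_num; constructor <;> linarith only [h0, h1, hd, hd3, h8, h14, h20, h28, h30]) (by simp only [Side.Mem]; norm_num; constructor <;> linarith only [hv, hv0, hv4, h4, h6, h12, h18, h24, h26]) (by linarith only [hu, hu1, h2, h10, h16, h22]) (by linarith only [hu, hu1, h2, h10, h16, h22]) hphi hlow hup
                          · rcases lt_or_ge d (9444 / 30000 : ℝ) with h28 | h28
                            · rcases lt_or_ge v (1554 / 1000 : ℝ) with h30 | h30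
                              · exact tC63_ok hB hd hS0 T (by simp only [Side.Mem]; norm_num; constructor <;> linarith only [h0, h1, hd, hd3, h8, h14, h20, h28]) (by simp only [Side.Mem]; norm_num; constructor <;> linarith only [hv, hv0, hv4, h4, h6, h12, h18, h24, h26, h30]) (by linarith only [hu, hu1, h2, h10, h16, h22]) (by linarith only [hu, hu1, h2, h10, h16, h22]) hphi hlow hup
                              · exact tC64_ok hB hd hS0 T (by simp only [Side.Mem]; norm_num; constructor <;> linarith only [h0, h1, hd, hd3, h8, h14, h20, h28]) (by simp only [Side.Mem]; norm_num; constructor <;> linarith only [hv, hv0, hv4, h4, h6, h12, h18, h24, h26, h30]) (by linarith only [hu, hu1, h2, h10, h16, h22]) (by linarith only [hu, hu1, h2, h10, h16, h22]) hphi hlow hup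
                            · rcases lt_or_ge d (9630 / 30000 : ℝ) with h30 | h30
                              · rcases lt_or_ge v (1590 / 1000 : ℝ) with h32 | h32
                                · exact tC65_ok hB hd hS0 T (by simp only [Side.Mem]; norm_num; constructor <;> linarith only [h0, h1, hd, hd3, h8, h14, h20, h28, h30]) (by simp only [Side.Mem]; norm_num; constructor <;> linarith only [hv, hv0, hv4, h4, h6, h12, h18, h24, h26, h32]) (by linarith only [hu, hu1, h2, h10, h16, h22]) (by linarith only [hu, hu1, h2, h10, h16, h22]) hphi hlow hup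
                                · exfalso
                                  have k : (787 / 2500 : ℝ) * (159 / 100 : ℝ) ≤ d * v := mul_le_mul (by linarith only [h0, h1, hd, hd3, h8, h14, h20, h28, h30]) (by linarith only [hv, hv0, hv4, h4, h6, h12, h18, h24, h26, h32]) (by norm_num) hd.le
                                  nlinarith [T.dom.kap, T.S_low, mul_le_mul_of_nonneg_left k hS0.le]
                              · exact tC66_ok hB hd hS0 T (by simp only [Side.Mem]; norm_num; constructor <;> linarith only [h0, h1, hd, hd3, h8, h14, h20, h28, h30]) (by simp only [Side.Mem]; norm_num; constructor <;> linarith only [hv, hv0, hv4, h4, h6, h12, h18, h24, h26]) (by linarith only [hu, hu1, h2, h10, h16, h22]) (by linarith only [hu, hu1, h2, h10, h16, h22]) hphi hlow hup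
            · rcases le_or_gt u (149 / 160 : ℝ) with h14 | h14
              · exact tC67_ok hB hd hS0 T (by simp only [Side.Mem]; norm_num; constructor <;> linarith only [h0, h1, hd, hd3, h8]) (by simp only [Side.Mem]; norm_num; constructor <;> linarith only [hv, hv0, hv4, h4, h6, h12]) (by linarith only [hu, hu1, h2, h10, h14]) (by linarith only [hu, hu1, h2, h10, h14]) hphi hlow hup
              · rcases lt_or_ge v (1743 / 1000 : ℝ) with h16 | h16
                · rcases lt_or_ge d (8886 / 30000 : ℝ) with h18 | h18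
                  · rcases lt_or_ge d (8514 / 30000 : ℝ) with h20 | h20
                    · exact tC75_ok hB hd hS0 T (by simp only [Side.Mem]; norm_num; constructor <;> linarith only [h0, h1, hd, hd3, h8, h18, h20]) (by simp only [Side.Mem]; norm_num; constructor <;> linarith only [hv, hv0, hv4, h4, h6, h12, h16]) (by linarith only [hu, hu1, h2, h10, h14]) (by linarith only [hu, hu1, h2, h10, h14]) hphi hlow hup
                    · rcases lt_or_ge v (1669 / 1000 : ℝ) with h22 | h22
                      · exact tC76_ok hB hd hS0 T (by simp only [Side.Mem]; norm_num; constructor <;> linarith only [h0, h1, hd, hd3, h8, h18, h20]) (by simp only [Side.Mem]; norm_num; constructor <;> linarith only [hv, hv0, hv4, h4, h6, h12, h16, h22]) (by linarith only [hu, hu1, h2, h10, h14]) (by linarith only [hu, hu1, h2, h10, h14]) hphi hlow hup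
                      · exact tC77_ok hB hd hS0 T (by simp only [Side.Mem]; norm_num; constructor <;> linarith only [h0, h1, hd, hd3, h8, h18, h20]) (by simp only [Side.Mem]; norm_num; constructor <;> linarith only [hv, hv0, hv4, h4, h6, h12, h16, h22]) (by linarith only [hu, hu1, h2, h10, h14]) (by linarith only [hu, hu1, h2, h10, h14]) hphi hlow hup
                  · rcases lt_or_ge d (9258 / 30000 : ℝ) with h20 | h20
                    · rcases lt_or_ge v (1690 / 1000 : ℝ) with h22 | h22
                      · exact tC68_ok hB hd hS0 T (by simp only [Side.Mem]; norm_num; constructor <;> linarith only [h0, h1, hd, hd3, h8, h18, h20]) (by simp only [Side.Mem]; norm_num; constructor <;> linarith only [hv, hv0, hv4, h4, h6, h12, h16, h22]) (by linarith only [hu, hu1, h2, h10, h14]) (by linarith only [hu, hu1, h2, h10, h14]) hphi hlow hup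
                      · exfalso
                        have k : (1481 / 5000 : ℝ) * (169 / 100 : ℝ) ≤ d * v := mul_le_mul (by linarith only [h0, h1, hd, hd3, h8, h18, h20]) (by linarith only [hv, hv0, hv4, h4, h6, h12, h16, h22]) (by norm_num) hd.le
                        nlinarith [T.dom.kap, T.S_low, mul_le_mul_of_nonneg_left k hS0.le]
                    · exact tC69_ok hB hd hS0 T (by simp only [Side.Mem]; norm_num; constructor <;> linarith only [h0, h1, hd, hd3, h8, h18, h20]) (by simp only [Side.Mem]; norm_num; constructor <;> linarith only [hv, hv0, hv4, h4, h6, h12, h16]) (by linarith only [hu, hu1, h2, h10, h14]) (by linarith only [hu, hu1, h2, h10, h14]) hphi hlow hup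
                · rcases lt_or_ge d (7770 / 30000 : ℝ) with h18 | h18
                  · exact tC90_ok hB hd hS0 T (by simp only [Side.Mem]; norm_num; constructor <;> linarith only [h0, h1, hd, hd3, h8, h18]) (by simp only [Side.Mem]; norm_num; constructor <;> linarith only [hv, hv0, hv4, h4, h6, h12, h16]) (by linarith only [hu, hu1, h2, h10, h14]) (by linarith only [hu, hu1, h2, h10, h14]) hphi hlow hup
                  · rcases lt_or_ge d (8514 / 30000 : ℝ) with h20 | h20
                    · exact tC91_ok hB hd hS0 T (by simp only [Side.Mem]; norm_num; constructor <;> linarith only [h0, h1, hd, hd3, h8, h18, h20]) (by simp only [Side.Mem]; norm_num; constructor <;> linarith only [hv, hv0, hv4, h4, h6, h12, h16]) (by linarith only [hu, hu1, h2, h10, h14]) (by linarith only [hu, hu1, h2, h10, h14]) hphi hlow hup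
                    · rcases lt_or_ge v (1763 / 1000 : ℝ) with h22 | h22
                      · rcases lt_or_ge d (8616 / 30000 : ℝ) with h24 | h24
                        · exact tC92_ok hB hd hS0 T (by simp only [Side.Mem]; norm_num; constructor <;> linarith only [h0, h1, hd, hd3, h8, h18, h20, h24]) (by simp only [Side.Mem]; norm_num; constructor <;> linarith only [hv, hv0, hv4, h4, h6, h12, h16, h22]) (by linarith only [hu, hu1, h2, h10, h14]) (by linarith only [hu, hu1, h2, h10, h14]) hphi hlow hup
                        · exfalso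
                          have k : (359 / 1250 : ℝ) * (1743 / 1000 : ℝ) ≤ d * v := mul_le_mul (by linarith only [h0, h1, hd, hd3, h8, h18, h20, h24]) (by linarith only [hv, hv0, hv4, h4, h6, h12, h16, h22]) (by norm_num) hd.le
                          nlinarith [T.dom.kap, T.S_low, mul_le_mul_of_nonneg_left k hS0.le]
                      · exfalso
                        have k : (1419 / 5000 : ℝ) * (1763 / 1000 : ℝ) ≤ d * v := mul_le_mul (by linarith only [h0, h1, hd, hd3, h8, h18, h20]) (by linarith only [hv, hv0, hv4, h4, h6, h12, h16, h22]) (by norm_num) hd.le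
                        nlinarith [T.dom.kap, T.S_low, mul_le_mul_of_nonneg_left k hS0.le]
      · rcases lt_or_ge v (2259 / 1000 : ℝ) with h8 | h8
        · rcases lt_or_ge d (7026 / 30000 : ℝ) with h10 | h10
          · exact tC70_ok hB hd hS0 T (by simp only [Side.Mem]; norm_num; constructor <;> linarith only [h0, h1, hd, hd3, h10]) (by simp only [Side.Mem]; norm_num; constructor <;> linarith only [hv, hv0, hv4, h4, h6, h8]) (by linarith only [hu, hu1, h2]) (by linarith only [hu, hu1, h2]) hphi hlow hup
          · rcases lt_or_ge v (2136 / 1000 : ℝ) with h12 | h12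
            · rcases lt_or_ge d (7905 / 30000 : ℝ) with h14 | h14
              · exact tC94_ok hB hd hS0 T (by simp only [Side.Mem]; norm_num; constructor <;> linarith only [h0, h1, hd, hd3, h10, h14]) (by simp only [Side.Mem]; norm_num; constructor <;> linarith only [hv, hv0, hv4, h4, h6, h8, h12]) (by linarith only [hu, hu1, h2]) (by linarith only [hu, hu1, h2]) hphi hlow hup
              · exfalso
                have k : (527 / 2000 : ℝ) * (19 / 10 : ℝ) ≤ d * v := mul_le_mul (by linarith only [h0, h1, hd, hd3, h10, h14]) (by linarith only [hv, hv0, hv4, h4, h6, h8, h12]) (by norm_num) hd.le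
                nlinarith [T.dom.kap, T.S_low, mul_le_mul_of_nonneg_left k hS0.le]
            · exfalso
              have k : (1171 / 5000 : ℝ) * (267 / 125 : ℝ) ≤ d * v := mul_le_mul (by linarith only [h0, h1, hd, hd3, h10]) (by linarith only [hv, hv0, hv4, h4, h6, h8, h12]) (by norm_num) hd.le
              nlinarith [T.dom.kap, T.S_low, mul_le_mul_of_nonneg_left k hS0.le]
        · rcases lt_or_ge v (2687 / 1000 : ℝ) with h10 | h10
          · rcases lt_or_ge d (7026 / 30000 : ℝ) with h12 | h12
            · exact tC71_ok hB hd hS0 T (by simp only [Side.Mem]; norm_num; constructor <;> linarith only [h0, h1, hd, hd3, h12]) (by simp only [Side.Mem]; norm_num; constructor <;> linarith only [hv, hv0, hv4, h4, h6, h8, h10]) (by linarith only [hu, hu1, h2]) (by linarith only [hu, hu1, h2]) hphi hlow hup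
            · exfalso
              have k : (1171 / 5000 : ℝ) * (2259 / 1000 : ℝ) ≤ d * v := mul_le_mul (by linarith only [h0, h1, hd, hd3, h12]) (by linarith only [hv, hv0, hv4, h4, h6, h8, h10]) (by norm_num) hd.le
              nlinarith [T.dom.kap, T.S_low, mul_le_mul_of_nonneg_left k hS0.le]
          · rcases lt_or_ge v (3800 / 1000 : ℝ) with h12 | h12
            · exact tC95_ok hB hd hS0 T (by simp only [Side.Mem]; norm_num; constructor <;> linarith only [h0, h1, hd, hd3]) (by simp only [Side.Mem]; norm_num; constructor <;> linarith only [hv, hv0, hv4, h4, h6, h8, h10, h12]) (by linarith only [hu, hu1, h2]) (by linarith only [hu, hu1, h2]) hphi hlow hup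
            · exfalso
              have k : (27 / 200 : ℝ) * (19 / 5 : ℝ) ≤ d * v := mul_le_mul (by linarith only [h0, h1, hd, hd3]) (by linarith only [hv, hv0, hv4, h4, h6, h8, h10, h12]) (by norm_num) hd.le
              nlinarith [T.dom.kap, T.S_low, mul_le_mul_of_nonneg_left k hS0.le]

end Vale.Agent.P100.Calib.Closed.Six.Tail
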