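import Vale.Agent.P100.Calib.SlabSixTailDataLayerA
import Vale.Agent.P100.Calib.SlabSixTailGlobLayerA

/-!
# Checks of some pieces of the certificate

The checks are written as definitions so that they run one after another, which keeps the memory of the
kernel low.
-/

set_option linter.defProp false

namespace Vale.Agent.P100.Calib.Closed.Six.Tail

open BoxPos Large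

local instance sixTailChecksyA0Add : Add Ex := ⟨Ex.add⟩
local instance sixTailChecksyA0Sub : Sub Ex := ⟨Ex.sub⟩
local instance sixTailChecksyA0Mul : Mul Ex := ⟨Ex.mul⟩

def yA0_p0 : PosD ⟨⟨0, 1, 1⟩, ⟨98, 99, 147⟩, ⟨0, 150, 10000⟩, ⟨1070, 1500, 1000⟩⟩ (yA0.hP0) :=
  posD_of_check0 (c := ⟨81, ⟨0, 2, 3, 1⟩⟩) (by decide +kernel)

def yA0_gn : PosD ⟨⟨0, 1, 1⟩, ⟨98, 99, 147⟩, ⟨0, 150, 10000⟩, ⟨1070, 1500, 1000⟩⟩ (yA0.hGn) :=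
  posD_of_check0 (c := ⟨58, ⟨1, 1, 2, 1⟩⟩) (by decide +kernel)

def yA0_den0 : PosD ⟨⟨0, 1, 1⟩, ⟨98, 99, 147⟩, ⟨0, 150, 10000⟩, ⟨1070, 1500, 1000⟩⟩ (yA0.hDen false) :=
  posD_of_check0 (c := ⟨45, ⟨0, 0, 2, 0⟩⟩) (by decide +kernel)

def yA0_den1 : PosD ⟨⟨0, 1, 1⟩, ⟨98, 99, 147⟩, ⟨0, 150, 10000⟩, ⟨1070, 1500, 1000⟩⟩ (yA0.hDen true) :=
  posD_of_check0 (c := ⟨22, ⟨1, 0, 1, 0⟩⟩) (by decide +kernel)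

def yA0_none0 : PosD ⟨⟨0, 1, 1⟩, ⟨98, 99, 147⟩, ⟨0, 150, 10000⟩, ⟨1070, 1500, 1000⟩⟩ (yA0.hNone false) :=
  posD_of_check0 (c := ⟨266, ⟨3, 6, 9, 3⟩⟩) (by decide +kernel)

def yA0_none1 : PosD ⟨⟨0, 1, 1⟩, ⟨98, 99, 147⟩, ⟨0, 150, 10000⟩, ⟨1070, 1500, 1000⟩⟩ (yA0.hNone true) :=
  posD_of_check0 (c := ⟨238, ⟨3, 6, 9, 3⟩⟩) (by decide +kernel)

def yA0_mupU : PosD ⟨⟨0, 1, 1⟩, ⟨98, 99, 147⟩, ⟨0, 150, 10000⟩, ⟨1070, 1500, 1000⟩⟩ (yA0.pU.μ) :=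
  posD_of_check0 (c := ⟨16, ⟨0, 0, 0, 0⟩⟩) (by decide +kernel)

def yA0_nupU : PosD ⟨⟨0, 1, 1⟩, ⟨98, 99, 147⟩, ⟨0, 150, 10000⟩, ⟨1070, 1500, 1000⟩⟩ (yA0.pU.ν) :=
  posD_of_check0 (c := ⟨44, ⟨0, 0, 1, 1⟩⟩) (by decide +kernel)

/-- No point in the piece. -/
def yA0_empty : yA0.Empty ⟨⟨0, 1, 1⟩, ⟨98, 99, 147⟩, ⟨0, 150, 10000⟩, ⟨1070, 1500, 1000⟩⟩ :=
  ⟨yA0_p0, Bool.forall_bool.2 ⟨yA0_den0, yA0_den1⟩, yA0_gn, ⟨.inl yA0_mupU, .inl yA0_nupU⟩, Bool.forall_bool.2 ⟨yA0_none0, yA0_none1⟩⟩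

def yA1_p0 : PosD ⟨⟨0, 1, 1⟩, ⟨98, 99, 147⟩, ⟨150, 301, 10000⟩, ⟨1070, 1500, 1000⟩⟩ (yA1.hP0) :=
  posD_of_check (c := ⟨81, ⟨0, 2, 3, 1⟩⟩) (by decide +kernel)

def yA1_gn : PosD ⟨⟨0, 1, 1⟩, ⟨98, 99, 147⟩, ⟨150, 301, 10000⟩, ⟨1070, 1500, 1000⟩⟩ (yA1.hGn) :=
  posD_of_check (c := ⟨58, ⟨1, 1, 2, 1⟩⟩) (by decide +kernel)

def yA1_den0 : PosD ⟨⟨0, 1, 1⟩, ⟨98, 99, 147⟩, ⟨150, 301, 10000⟩, ⟨1070, 1500, 1000⟩⟩ (yA1.hDen false) :=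
  posD_of_check (c := ⟨45, ⟨0, 0, 2, 0⟩⟩) (by decide +kernel)

def yA1_den1 : PosD ⟨⟨0, 1, 1⟩, ⟨98, 99, 147⟩, ⟨150, 301, 10000⟩, ⟨1070, 1500, 1000⟩⟩ (yA1.hDen true) :=
  posD_of_check (c := ⟨22, ⟨1, 0, 1, 0⟩⟩) (by decide +kernel)

def yA1_ev0 : PosD ⟨⟨0, 1, 1⟩, ⟨98, 99, 147⟩, ⟨150, 301, 10000⟩, ⟨1070, 1500, 1000⟩⟩ (yA1.hEv false) :=
  posD_of_check (c := ⟨148, ⟨2, 2, 6, 1⟩⟩) (by decide +kernel)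

def yA1_zL0 : PosD ⟨⟨0, 1, 1⟩, ⟨98, 99, 147⟩, ⟨150, 301, 10000⟩, ⟨1070, 1500, 1000⟩⟩ (yA1.hZL false) :=
  posD_of_check (c := ⟨159, ⟨2, 3, 6, 3⟩⟩) (by decide +kernel)

def yA1_zU0 : PosD ⟨⟨0, 1, 1⟩, ⟨98, 99, 147⟩, ⟨150, 301, 10000⟩, ⟨1070, 1500, 1000⟩⟩ (yA1.hZU false) :=
  posD_of_check (c := ⟨159, ⟨2, 3, 6, 3⟩⟩) (by decide +kernel)

def yA1_eL0 : PosD ⟨⟨0, 1, 1⟩, ⟨98, 99, 147⟩, ⟨150, 301, 10000⟩, ⟨1070, 1500, 1000⟩⟩ (yA1.hEL false) :=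
  posD_of_check (c := ⟨241, ⟨3, 6, 9, 3⟩⟩) (by decide +kernel)

def yA1_eH0 : PosD ⟨⟨0, 1, 1⟩, ⟨98, 99, 147⟩, ⟨150, 301, 10000⟩, ⟨1070, 1500, 1000⟩⟩ (yA1.hEH false) :=
  posD_of_check (c := ⟨255, ⟨3, 6, 9, 3⟩⟩) (by decide +kernel)

def yA1_pL0 : PosD ⟨⟨0, 1, 1⟩, ⟨98, 99, 147⟩, ⟨150, 301, 10000⟩, ⟨1070, 1500, 1000⟩⟩ (yA1.hPL false) :=
  posD_of_check (c := ⟨256, ⟨3, 6, 9, 2⟩⟩) (by decide +kernel)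

def yA1_pU0 : PosD ⟨⟨0, 1, 1⟩, ⟨98, 99, 147⟩, ⟨150, 301, 10000⟩, ⟨1070, 1500, 1000⟩⟩ (yA1.hPU false) :=
  posD_of_check (c := ⟨260, ⟨3, 6, 9, 3⟩⟩) (by decide +kernel)

def yA1_kU0a : PosD ⟨⟨0, 1, 1⟩, ⟨98, 99, 147⟩, ⟨150, 301, 10000⟩, ⟨1070, 1285, 1000⟩⟩ (yA1.hKU false) :=
  posD_of_check (c := ⟨255, ⟨3, 6, 9, 3⟩⟩) (by decide +kernel)

def yA1_kU0b : PosD ⟨⟨0, 1, 1⟩, ⟨98, 99, 147⟩, ⟨150, 301, 10000⟩, ⟨1285, 1500, 1000⟩⟩ (yA1.hKU false) :=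
  posD_of_check (c := ⟨255, ⟨3, 6, 9, 3⟩⟩) (by decide +kernel)

def yA1_kU0 : PosD ⟨⟨0, 1, 1⟩, ⟨98, 99, 147⟩, ⟨150, 301, 10000⟩, ⟨1070, 1500, 1000⟩⟩ (yA1.hKU false) :=
  posD_join₃ yA1_kU0a yA1_kU0b

def yA1_kL0 : PosD ⟨⟨0, 1, 1⟩, ⟨98, 99, 147⟩, ⟨150, 301, 10000⟩, ⟨1070, 1500, 1000⟩⟩ (yA1.hKL false) :=
  posD_of_check (c := ⟨255, ⟨3, 6, 9, 3⟩⟩) (by decide +kernel)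

def yA1_wU0aa : PosD ⟨⟨0, 1, 1⟩, ⟨98, 99, 147⟩, ⟨150, 301, 10000⟩, ⟨1070, 1177, 1000⟩⟩ (yA1.hWU false) :=
  posD_of_check (c := ⟨290, ⟨3, 8, 10, 3⟩⟩) (by decide +kernel)

def yA1_wU0ab : PosD ⟨⟨0, 1, 1⟩, ⟨98, 99, 147⟩, ⟨150, 301, 10000⟩, ⟨1177, 1285, 1000⟩⟩ (yA1.hWU false) :=
  posD_of_check (c := ⟨290, ⟨3, 8, 10, 3⟩⟩) (by decide +kernel)

def yA1_wU0a : PosD ⟨⟨0, 1, 1⟩, ⟨98, 99, 147⟩, ⟨150, 301, 10000⟩, ⟨1070, 1285, 1000⟩⟩ (yA1.hWU false) :=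
  posD_join₃ yA1_wU0aa yA1_wU0ab

def yA1_wU0b : PosD ⟨⟨0, 1, 1⟩, ⟨98, 99, 147⟩, ⟨150, 301, 10000⟩, ⟨1285, 1500, 1000⟩⟩ (yA1.hWU false) :=
  posD_of_check (c := ⟨290, ⟨3, 8, 10, 3⟩⟩) (by decide +kernel)

def yA1_wU0 : PosD ⟨⟨0, 1, 1⟩, ⟨98, 99, 147⟩, ⟨150, 301, 10000⟩, ⟨1070, 1500, 1000⟩⟩ (yA1.hWU false) :=
  posD_join₃ yA1_wU0a yA1_wU0b

def yA1_wL0 : PosD ⟨⟨0, 1, 1⟩, ⟨98, 99, 147⟩, ⟨150, 301, 10000⟩, ⟨1070, 1500, 1000⟩⟩ (yA1.hWL false) :=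
  posD_of_check (c := ⟨292, ⟨3, 8, 10, 3⟩⟩) (by decide +kernel)

def yA1_ev1 : PosD ⟨⟨0, 1, 1⟩, ⟨98, 99, 147⟩, ⟨150, 301, 10000⟩, ⟨1070, 1500, 1000⟩⟩ (yA1.hEv true) :=
  posD_of_check (c := ⟨120, ⟨2, 2, 6, 1⟩⟩) (by decide +kernel)

def yA1_zL1 : PosD ⟨⟨0, 1, 1⟩, ⟨98, 99, 147⟩, ⟨150, 301, 10000⟩, ⟨1070, 1500, 1000⟩⟩ (yA1.hZL true) :=
  posD_of_check (c := ⟨134, ⟨2, 3, 6, 3⟩⟩) (by decide +kernel)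

def yA1_zU1 : PosD ⟨⟨0, 1, 1⟩, ⟨98, 99, 147⟩, ⟨150, 301, 10000⟩, ⟨1070, 1500, 1000⟩⟩ (yA1.hZU true) :=
  posD_of_check (c := ⟨134, ⟨2, 3, 6, 3⟩⟩) (by decide +kernel)

def yA1_eL1 : PosD ⟨⟨0, 1, 1⟩, ⟨98, 99, 147⟩, ⟨150, 301, 10000⟩, ⟨1070, 1500, 1000⟩⟩ (yA1.hEL true) :=
  posD_of_check (c := ⟨212, ⟨3, 6, 9, 3⟩⟩) (by decide +kernel)

def yA1_eH1 : PosD ⟨⟨0, 1, 1⟩, ⟨98, 99, 147⟩, ⟨150, 301, 10000⟩, ⟨1070, 1500, 1000⟩⟩ (yA1.hEH true) :=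
  posD_of_check (c := ⟨226, ⟨3, 6, 9, 3⟩⟩) (by decide +kernel)

def yA1_pL1 : PosD ⟨⟨0, 1, 1⟩, ⟨98, 99, 147⟩, ⟨150, 301, 10000⟩, ⟨1070, 1500, 1000⟩⟩ (yA1.hPL true) :=
  posD_of_check (c := ⟨227, ⟨3, 6, 9, 2⟩⟩) (by decide +kernel)

def yA1_pU1a : PosD ⟨⟨0, 1, 1⟩, ⟨98, 99, 147⟩, ⟨150, 225, 10000⟩, ⟨1070, 1500, 1000⟩⟩ (yA1.hPU true) :=
  posD_of_check (c := ⟨231, ⟨3, 6, 9, 3⟩⟩) (by decide +kernel)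

def yA1_pU1ba : PosD ⟨⟨0, 1, 1⟩, ⟨98, 99, 147⟩, ⟨225, 301, 10000⟩, ⟨1070, 1285, 1000⟩⟩ (yA1.hPU true) :=
  posD_of_check (c := ⟨231, ⟨3, 6, 9, 3⟩⟩) (by decide +kernel)

def yA1_pU1bb : PosD ⟨⟨0, 1, 1⟩, ⟨98, 99, 147⟩, ⟨225, 301, 10000⟩, ⟨1285, 1500, 1000⟩⟩ (yA1.hPU true) :=
  posD_of_check (c := ⟨231, ⟨3, 6, 9, 3⟩⟩) (by decide +kernel)

def yA1_pU1b : PosD ⟨⟨0, 1, 1⟩, ⟨98, 99, 147⟩, ⟨225, 301, 10000⟩, ⟨1070, 1500, 1000⟩⟩ (yA1.hPU true) :=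
  posD_join₃ yA1_pU1ba yA1_pU1bb

def yA1_pU1 : PosD ⟨⟨0, 1, 1⟩, ⟨98, 99, 147⟩, ⟨150, 301, 10000⟩, ⟨1070, 1500, 1000⟩⟩ (yA1.hPU true) :=
  posD_join₂ yA1_pU1a yA1_pU1b

def yA1_kU1a : PosD ⟨⟨0, 1, 1⟩, ⟨98, 99, 147⟩, ⟨150, 301, 10000⟩, ⟨1070, 1285, 1000⟩⟩ (yA1.hKU true) :=
  posD_of_check (c := ⟨226, ⟨3, 6, 9, 3⟩⟩) (by decide +kernel)

def yA1_kU1b : PosD ⟨⟨0, 1, 1⟩, ⟨98, 99, 147⟩, ⟨150, 301, 10000⟩, ⟨1285, 1500, 1000⟩⟩ (yA1.hKU true) :=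
  posD_of_check (c := ⟨226, ⟨3, 6, 9, 3⟩⟩) (by decide +kernel)

def yA1_kU1 : PosD ⟨⟨0, 1, 1⟩, ⟨98, 99, 147⟩, ⟨150, 301, 10000⟩, ⟨1070, 1500, 1000⟩⟩ (yA1.hKU true) :=
  posD_join₃ yA1_kU1a yA1_kU1b

def yA1_kL1 : PosD ⟨⟨0, 1, 1⟩, ⟨98, 99, 147⟩, ⟨150, 301, 10000⟩, ⟨1070, 1500, 1000⟩⟩ (yA1.hKL true) :=
  posD_of_check (c := ⟨227, ⟨3, 6, 9, 3⟩⟩) (by decide +kernel)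

def yA1_wU1aa : PosD ⟨⟨0, 1, 1⟩, ⟨98, 99, 147⟩, ⟨150, 225, 10000⟩, ⟨1070, 1285, 1000⟩⟩ (yA1.hWU true) :=
  posD_of_check (c := ⟨261, ⟨3, 8, 10, 3⟩⟩) (by decide +kernel)

def yA1_wU1ab : PosD ⟨⟨0, 1, 1⟩, ⟨98, 99, 147⟩, ⟨225, 301, 10000⟩, ⟨1070, 1285, 1000⟩⟩ (yA1.hWU true) :=
  posD_of_check (c := ⟨261, ⟨3, 8, 10, 3⟩⟩) (by decide +kernel)

def yA1_wU1a : PosD ⟨⟨0, 1, 1⟩, ⟨98, 99, 147⟩, ⟨150, 301, 10000⟩, ⟨1070, 1285, 1000⟩⟩ (yA1.hWU true) :=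
  posD_join₂ yA1_wU1aa yA1_wU1ab

def yA1_wU1baa : PosD ⟨⟨0, 1, 1⟩, ⟨98, 99, 147⟩, ⟨150, 225, 10000⟩, ⟨1285, 1392, 1000⟩⟩ (yA1.hWU true) :=
  posD_of_check (c := ⟨261, ⟨3, 8, 10, 3⟩⟩) (by decide +kernel)

def yA1_wU1bab : PosD ⟨⟨0, 1, 1⟩, ⟨98, 99, 147⟩, ⟨150, 225, 10000⟩, ⟨1392, 1500, 1000⟩⟩ (yA1.hWU true) :=
  posD_of_check (c := ⟨261, ⟨3, 8, 10, 3⟩⟩) (by decide +kernel)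

def yA1_wU1ba : PosD ⟨⟨0, 1, 1⟩, ⟨98, 99, 147⟩, ⟨150, 225, 10000⟩, ⟨1285, 1500, 1000⟩⟩ (yA1.hWU true) :=
  posD_join₃ yA1_wU1baa yA1_wU1bab

def yA1_wU1bb : PosD ⟨⟨0, 1, 1⟩, ⟨98, 99, 147⟩, ⟨225, 301, 10000⟩, ⟨1285, 1500, 1000⟩⟩ (yA1.hWU true) :=
  posD_of_check (c := ⟨261, ⟨3, 8, 10, 3⟩⟩) (by decide +kernel)

def yA1_wU1b : PosD ⟨⟨0, 1, 1⟩, ⟨98, 99, 147⟩, ⟨150, 301, 10000⟩, ⟨1285, 1500, 1000⟩⟩ (yA1.hWU true) :=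
  posD_join₂ yA1_wU1ba yA1_wU1bb

def yA1_wU1 : PosD ⟨⟨0, 1, 1⟩, ⟨98, 99, 147⟩, ⟨150, 301, 10000⟩, ⟨1070, 1500, 1000⟩⟩ (yA1.hWU true) :=
  posD_join₃ yA1_wU1a yA1_wU1b

def yA1_wL1 : PosD ⟨⟨0, 1, 1⟩, ⟨98, 99, 147⟩, ⟨150, 301, 10000⟩, ⟨1070, 1500, 1000⟩⟩ (yA1.hWL true) :=
  posD_of_check (c := ⟨263, ⟨3, 8, 10, 3⟩⟩) (by decide +kernel)

def yA1_mueH : PosD ⟨⟨0, 1, 1⟩, ⟨98, 99, 147⟩, ⟨150, 301, 10000⟩, ⟨1070, 1500, 1000⟩⟩ (yA1.eH.μ) :=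
  posD_of_check (c := ⟨14, ⟨0, 0, 0, 0⟩⟩) (by decide +kernel)

def yA1_mupL : PosD ⟨⟨0, 1, 1⟩, ⟨98, 99, 147⟩, ⟨150, 301, 10000⟩, ⟨1070, 1500, 1000⟩⟩ (yA1.pL.μ) :=
  posD_of_check (c := ⟨16, ⟨0, 0, 0, 0⟩⟩) (by decide +kernel)

def yA1_mukU : PosD ⟨⟨0, 1, 1⟩, ⟨98, 99, 147⟩, ⟨150, 301, 10000⟩, ⟨1070, 1500, 1000⟩⟩ (yA1.kU.μ) :=
  posD_of_check (c := ⟨9, ⟨0, 0, 0, 0⟩⟩) (by decide +kernel)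

/-- The bounds of the piece. -/
def yA1_env : yA1.Env ⟨⟨0, 1, 1⟩, ⟨98, 99, 147⟩, ⟨150, 301, 10000⟩, ⟨1070, 1500, 1000⟩⟩ :=
  ⟨yA1_p0, Bool.forall_bool.2 ⟨yA1_den0, yA1_den1⟩, yA1_gn, Bool.forall_bool.2 ⟨yA1_ev0, yA1_ev1⟩, Bool.forall_bool.2 ⟨yA1_zL0, yA1_zL1⟩, Bool.forall_bool.2 ⟨yA1_zU0, yA1_zU1⟩, Bool.forall_bool.2 ⟨yA1_eL0, yA1_eL1⟩, ⟨.inr rfl, .inr rfl⟩, Bool.forall_bool.2 ⟨yA1_eH0, yA1_eH1⟩, ⟨.inl yA1_mueH, .inr rfl⟩, Bool.forall_bool.2 ⟨yA1_pL0, yA1_pL1⟩, ⟨.inl yA1_mupL, .inr rfl⟩, Bool.forall_bool.2 ⟨yA1_pU0, yA1_pU1⟩, ⟨.inr rfl, .inr rfl⟩, Bool.forall_bool.2 ⟨yA1_kU0, yA1_kU1⟩, ⟨.inl yA1_mukU, .inr rfl⟩, Bool.forall_bool.2 ⟨yA1_kL0, yA1_kL1⟩, ⟨.inr rfl, .inr rfl⟩, Bool.forall_bool.2 ⟨yA1_wU0, yA1_wU1⟩,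 ⟨.inr rfl, .inr rfl⟩, Bool.forall_bool.2 ⟨yA1_wL0, yA1_wL1⟩, ⟨.inr rfl, .inr rfl⟩⟩

def yA1_pp : PosD ⟨⟨0, 1, 1⟩, ⟨98, 99, 147⟩, ⟨150, 301, 10000⟩, ⟨1070, 1500, 1000⟩⟩ (yA1.xPL) :=
  posD_of_check (c := ⟨61, ⟨1, 1, 2, 2⟩⟩) (by decide +kernel)

def yA1_k2p : PosD ⟨⟨0, 1, 1⟩, ⟨98, 99, 147⟩, ⟨150, 301, 10000⟩, ⟨1070, 1500, 1000⟩⟩ (yA1.k2p yA1.xE) :=
  posD_of_check (c := ⟨63, ⟨1, 1, 2, 2⟩⟩) (by decide +kernel)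

def yA1_k2m : PosD ⟨⟨0, 1, 1⟩, ⟨98, 99, 147⟩, ⟨150, 301, 10000⟩, ⟨1070, 1500, 1000⟩⟩ (yA1.k2m yA1.xE) :=
  posD_of_check (c := ⟨23, ⟨0, 0, 1, 1⟩⟩) (by decide +kernel)

def yA1_v2p : PosD ⟨⟨0, 1, 1⟩, ⟨98, 99, 147⟩, ⟨150, 301, 10000⟩, ⟨1070, 1500, 1000⟩⟩ (yA1.hV2p) :=
  posD_of_check (c := ⟨255, ⟨1, 6, 10, 5⟩⟩) (by decide +kernel)

def yA1_v2m : PosD ⟨⟨0, 1, 1⟩, ⟨98, 99, 147⟩, ⟨150, 301, 10000⟩, ⟨1070, 1500, 1000⟩⟩ (yA1.hV2m) :=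
  posD_of_check (c := ⟨226, ⟨0, 5, 10, 4⟩⟩) (by decide +kernel)

def yA1_v3p : PosD ⟨⟨0, 1, 1⟩, ⟨98, 99, 147⟩, ⟨150, 301, 10000⟩, ⟨1070, 1500, 1000⟩⟩ (yA1.hV3p) :=
  posD_of_check (c := ⟨246, ⟨1, 6, 9, 5⟩⟩) (by decide +kernel)

def yA1_v3m : PosD ⟨⟨0, 1, 1⟩, ⟨98, 99, 147⟩, ⟨150, 301, 10000⟩, ⟨1070, 1500, 1000⟩⟩ (yA1.hV3m) :=
  posD_of_check (c := ⟨220, ⟨0, 5, 9, 4⟩⟩) (by decide +kernel)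

def yA1_kap0 : PosD ⟨⟨0, 1, 1⟩, ⟨98, 99, 147⟩, ⟨150, 301, 10000⟩, ⟨1070, 1500, 1000⟩⟩ (yA1.kap false) :=
  posD_of_check (c := ⟨68, ⟨1, 1, 2, 2⟩⟩) (by decide +kernel)

def yA1_c10a : PosD ⟨⟨0, 1, 1⟩, ⟨98, 99, 147⟩, ⟨150, 225, 10000⟩, ⟨1070, 1500, 1000⟩⟩ (yA1.hC1 false) :=
  posD_of_check (c := ⟨232, ⟨3, 5, 8, 6⟩⟩) (by decide +kernel)

def yA1_c10b : PosD ⟨⟨0, 1, 1⟩, ⟨98, 99, 147⟩, ⟨225, 301, 10000⟩, ⟨1070, 1500, 1000⟩⟩ (yA1.hC1 false) :=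
  posD_of_check (c := ⟨233, ⟨3, 5, 8, 6⟩⟩) (by decide +kernel)

def yA1_c10 : PosD ⟨⟨0, 1, 1⟩, ⟨98, 99, 147⟩, ⟨150, 301, 10000⟩, ⟨1070, 1500, 1000⟩⟩ (yA1.hC1 false) :=
  posD_join₂ yA1_c10a yA1_c10b

def yA1_c1h0 : PosD ⟨⟨0, 1, 1⟩, ⟨98, 99, 147⟩, ⟨150, 301, 10000⟩, ⟨1070, 1500, 1000⟩⟩ (yA1.hC1' false) :=
  posD_of_check (c := ⟨232, ⟨3, 5, 8, 6⟩⟩) (by decide +kernel)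

def yA1_tg00 : PosD ⟨⟨0, 1, 1⟩, ⟨98, 99, 147⟩, ⟨150, 301, 10000⟩, ⟨1070, 1500, 1000⟩⟩ (yA1.hG false (yA1.pEnd false)) :=
  posD_of_check (c := ⟨360, ⟨2, 7, 14, 9⟩⟩) (by decide +kernel)

def yA1_c2p00 : PosD ⟨⟨0, 1, 1⟩, ⟨98, 99, 147⟩, ⟨150, 301, 10000⟩, ⟨1070, 1500, 1000⟩⟩ (yA1.hC2p false (yA1.pEnd false)) :=
  posD_of_check (c := ⟨422, ⟨3, 8, 16, 11⟩⟩) (by decide +kernel)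

def yA1_c2m00 : PosD ⟨⟨0, 1, 1⟩, ⟨98, 99, 147⟩, ⟨150, 301, 10000⟩, ⟨1070, 1500, 1000⟩⟩ (yA1.hC2m false (yA1.pEnd false)) :=
  posD_of_check (c := ⟨383, ⟨2, 7, 15, 10⟩⟩) (by decide +kernel)

def yA1_c3p00 : PosD ⟨⟨0, 1, 1⟩, ⟨98, 99, 147⟩, ⟨150, 301, 10000⟩, ⟨1070, 1500, 1000⟩⟩ (yA1.hC3p false false) :=
  posD_of_check (c := ⟨393, ⟨3, 8, 14, 10⟩⟩) (by decide +kernel)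

def yA1_c3m00 : PosD ⟨⟨0, 1, 1⟩, ⟨98, 99, 147⟩, ⟨150, 301, 10000⟩, ⟨1070, 1500, 1000⟩⟩ (yA1.hC3m false false) :=
  posD_of_check (c := ⟨358, ⟨3, 7, 14, 9⟩⟩) (by decide +kernel)

def yA1_c3ph00 : PosD ⟨⟨0, 1, 1⟩, ⟨98, 99, 147⟩, ⟨150, 301, 10000⟩, ⟨1070, 1500, 1000⟩⟩ (yA1.hC3p' false false) :=
  posD_of_check (c := ⟨392, ⟨3, 8, 14, 10⟩⟩) (by decide +kernel)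

def yA1_c3mh00 : PosD ⟨⟨0, 1, 1⟩, ⟨98, 99, 147⟩, ⟨150, 301, 10000⟩, ⟨1070, 1500, 1000⟩⟩ (yA1.hC3m' false false) :=
  posD_of_check (c := ⟨357, ⟨3, 7, 14, 9⟩⟩) (by decide +kernel)

def yA1_up00 : PosD ⟨⟨0, 1, 1⟩, ⟨98, 99, 147⟩, ⟨150, 301, 10000⟩, ⟨1070, 1500, 1000⟩⟩ (yA1.hUp false false) :=
  posD_of_check (c := ⟨390, ⟨3, 8, 14, 10⟩⟩) (by decide +kernel)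

def yA1_um00 : PosD ⟨⟨0, 1, 1⟩, ⟨98, 99, 147⟩, ⟨150, 301, 10000⟩, ⟨1070, 1500, 1000⟩⟩ (yA1.hUm false false) :=
  posD_of_check (c := ⟨354, ⟨2, 7, 14, 9⟩⟩) (by decide +kernel)

def yA1_tmg00 : PosD ⟨⟨0, 1, 1⟩, ⟨98, 99, 147⟩, ⟨150, 301, 10000⟩, ⟨1070, 1500, 1000⟩⟩ (yA1.hTMG false (yA1.pEnd false)) :=
  posD_of_check (c := ⟨340, ⟨2, 7, 13, 8⟩⟩) (by decide +kernel)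

def yA1_tg01 : PosD ⟨⟨0, 1, 1⟩, ⟨98, 99, 147⟩, ⟨150, 301, 10000⟩, ⟨1070, 1500, 1000⟩⟩ (yA1.hG true (yA1.pEnd false)) :=
  posD_of_check (c := ⟨360, ⟨2, 7, 14, 9⟩⟩) (by decide +kernel)

def yA1_c2p01 : PosD ⟨⟨0, 1, 1⟩, ⟨98, 99, 147⟩, ⟨150, 301, 10000⟩, ⟨1070, 1500, 1000⟩⟩ (yA1.hC2p true (yA1.pEnd false)) :=
  posD_of_check (c := ⟨422, ⟨3, 8, 16, 11⟩⟩) (by decide +kernel)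

def yA1_c2m01 : PosD ⟨⟨0, 1, 1⟩, ⟨98, 99, 147⟩, ⟨150, 301, 10000⟩, ⟨1070, 1500, 1000⟩⟩ (yA1.hC2m true (yA1.pEnd false)) :=
  posD_of_check (c := ⟨383, ⟨2, 7, 15, 10⟩⟩) (by decide +kernel)

def yA1_c3p01 : PosD ⟨⟨0, 1, 1⟩, ⟨98, 99, 147⟩, ⟨150, 301, 10000⟩, ⟨1070, 1500, 1000⟩⟩ (yA1.hC3p false true) :=
  posD_of_check (c := ⟨393, ⟨3, 8, 14, 10⟩⟩) (by decide +kernel)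

def yA1_c3m01 : PosD ⟨⟨0, 1, 1⟩, ⟨98, 99, 147⟩, ⟨150, 301, 10000⟩, ⟨1070, 1500, 1000⟩⟩ (yA1.hC3m false true) :=
  posD_of_check (c := ⟨358, ⟨3, 7, 14, 9⟩⟩) (by decide +kernel)

def yA1_c3ph01 : PosD ⟨⟨0, 1, 1⟩, ⟨98, 99, 147⟩, ⟨150, 301, 10000⟩, ⟨1070, 1500, 1000⟩⟩ (yA1.hC3p' false true) :=
  posD_of_check (c := ⟨392, ⟨3, 8, 14, 10⟩⟩) (by decide +kernel)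

def yA1_c3mh01 : PosD ⟨⟨0, 1, 1⟩, ⟨98, 99, 147⟩, ⟨150, 301, 10000⟩, ⟨1070, 1500, 1000⟩⟩ (yA1.hC3m' false true) :=
  posD_of_check (c := ⟨357, ⟨3, 7, 14, 9⟩⟩) (by decide +kernel)

def yA1_up01 : PosD ⟨⟨0, 1, 1⟩, ⟨98, 99, 147⟩, ⟨150, 301, 10000⟩, ⟨1070, 1500, 1000⟩⟩ (yA1.hUp false true) :=
  posD_of_check (c := ⟨390, ⟨3, 8, 14, 10⟩⟩) (by decide +kernel)

def yA1_um01 : PosD ⟨⟨0, 1, 1⟩, ⟨98, 99, 147⟩, ⟨150, 301, 10000⟩, ⟨1070, 1500, 1000⟩⟩ (yA1.hUm false true) :=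
  posD_of_check (c := ⟨354, ⟨2, 7, 14, 9⟩⟩) (by decide +kernel)

def yA1_tmg01 : PosD ⟨⟨0, 1, 1⟩, ⟨98, 99, 147⟩, ⟨150, 301, 10000⟩, ⟨1070, 1500, 1000⟩⟩ (yA1.hTMG true (yA1.pEnd false)) :=
  posD_of_check (c := ⟨340, ⟨2, 7, 13, 8⟩⟩) (by decide +kernel)

def yA1_kap1 : PosD ⟨⟨0, 1, 1⟩, ⟨98, 99, 147⟩, ⟨150, 301, 10000⟩, ⟨1070, 1500, 1000⟩⟩ (yA1.kap true) :=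
  posD_of_check (c := ⟨66, ⟨1, 1, 2, 2⟩⟩) (by decide +kernel)

def yA1_c11 : PosD ⟨⟨0, 1, 1⟩, ⟨98, 99, 147⟩, ⟨150, 301, 10000⟩, ⟨1070, 1500, 1000⟩⟩ (yA1.hC1 true) :=
  posD_of_check (c := ⟨262, ⟨3, 5, 9, 7⟩⟩) (by decide +kernel)

def yA1_c1h1 : PosD ⟨⟨0, 1, 1⟩, ⟨98, 99, 147⟩, ⟨150, 301, 10000⟩, ⟨1070, 1500, 1000⟩⟩ (yA1.hC1' true) :=
  posD_of_check (c := ⟨261, ⟨3, 5, 9, 7⟩⟩) (by decide +kernel)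

def yA1_tg10 : PosD ⟨⟨0, 1, 1⟩, ⟨98, 99, 147⟩, ⟨150, 301, 10000⟩, ⟨1070, 1500, 1000⟩⟩ (yA1.hG false (yA1.pEnd true)) :=
  posD_of_check (c := ⟨371, ⟨2, 7, 14, 9⟩⟩) (by decide +kernel)

def yA1_c2p10 : PosD ⟨⟨0, 1, 1⟩, ⟨98, 99, 147⟩, ⟨150, 301, 10000⟩, ⟨1070, 1500, 1000⟩⟩ (yA1.hC2p false (yA1.pEnd true)) :=
  posD_of_check (c := ⟨433, ⟨3, 8, 16, 11⟩⟩) (by decide +kernel)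

def yA1_c2m10 : PosD ⟨⟨0, 1, 1⟩, ⟨98, 99, 147⟩, ⟨150, 301, 10000⟩, ⟨1070, 1500, 1000⟩⟩ (yA1.hC2m false (yA1.pEnd true)) :=
  posD_of_check (c := ⟨404, ⟨2, 7, 16, 10⟩⟩) (by decide +kernel)

def yA1_c3p10 : PosD ⟨⟨0, 1, 1⟩, ⟨98, 99, 147⟩, ⟨150, 301, 10000⟩, ⟨1070, 1500, 1000⟩⟩ (yA1.hC3p true false) :=
  posD_of_check (c := ⟨426, ⟨3, 8, 15, 11⟩⟩) (by decide +kernel)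

def yA1_c3m10 : PosD ⟨⟨0, 1, 1⟩, ⟨98, 99, 147⟩, ⟨150, 301, 10000⟩, ⟨1070, 1500, 1000⟩⟩ (yA1.hC3m true false) :=
  posD_of_check (c := ⟨401, ⟨3, 7, 15, 10⟩⟩) (by decide +kernel)

def yA1_c3ph10 : PosD ⟨⟨0, 1, 1⟩, ⟨98, 99, 147⟩, ⟨150, 301, 10000⟩, ⟨1070, 1500, 1000⟩⟩ (yA1.hC3p' true false) :=
  posD_of_check (c := ⟨426, ⟨3, 8, 15, 11⟩⟩) (by decide +kernel)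

def yA1_c3mh10 : PosD ⟨⟨0, 1, 1⟩, ⟨98, 99, 147⟩, ⟨150, 301, 10000⟩, ⟨1070, 1500, 1000⟩⟩ (yA1.hC3m' true false) :=
  posD_of_check (c := ⟨401, ⟨3, 7, 15, 10⟩⟩) (by decide +kernel)

def yA1_up10 : PosD ⟨⟨0, 1, 1⟩, ⟨98, 99, 147⟩, ⟨150, 301, 10000⟩, ⟨1070, 1500, 1000⟩⟩ (yA1.hUp true false) :=
  posD_of_check (c := ⟨425, ⟨3, 8, 15, 11⟩⟩) (by decide +kernel)

def yA1_um10 : PosD ⟨⟨0, 1, 1⟩, ⟨98, 99, 147⟩, ⟨150, 301, 10000⟩, ⟨1070, 1500, 1000⟩⟩ (yA1.hUm true false) :=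
  posD_of_check (c := ⟨399, ⟨2, 7, 15, 10⟩⟩) (by decide +kernel)

def yA1_tmg10 : PosD ⟨⟨0, 1, 1⟩, ⟨98, 99, 147⟩, ⟨150, 301, 10000⟩, ⟨1070, 1500, 1000⟩⟩ (yA1.hTMG false (yA1.pEnd true)) :=
  posD_of_check (c := ⟨386, ⟨2, 7, 14, 10⟩⟩) (by decide +kernel)

def yA1_tg11 : PosD ⟨⟨0, 1, 1⟩, ⟨98, 99, 147⟩, ⟨150, 301, 10000⟩, ⟨1070, 1500, 1000⟩⟩ (yA1.hG true (yA1.pEnd true)) :=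
  posD_of_check (c := ⟨371, ⟨2, 7, 14, 9⟩⟩) (by decide +kernel)

def yA1_c2p11 : PosD ⟨⟨0, 1, 1⟩, ⟨98, 99, 147⟩, ⟨150, 301, 10000⟩, ⟨1070, 1500, 1000⟩⟩ (yA1.hC2p true (yA1.pEnd true)) :=
  posD_of_check (c := ⟨433, ⟨3, 8, 16, 11⟩⟩) (by decide +kernel)

def yA1_c2m11 : PosD ⟨⟨0, 1, 1⟩, ⟨98, 99, 147⟩, ⟨150, 301, 10000⟩, ⟨1070, 1500, 1000⟩⟩ (yA1.hC2m true (yA1.pEnd true)) :=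
  posD_of_check (c := ⟨404, ⟨2, 7, 16, 10⟩⟩) (by decide +kernel)

def yA1_c3p11 : PosD ⟨⟨0, 1, 1⟩, ⟨98, 99, 147⟩, ⟨150, 301, 10000⟩, ⟨1070, 1500, 1000⟩⟩ (yA1.hC3p true true) :=
  posD_of_check (c := ⟨426, ⟨3, 8, 15, 11⟩⟩) (by decide +kernel)

def yA1_c3m11 : PosD ⟨⟨0, 1, 1⟩, ⟨98, 99, 147⟩, ⟨150, 301, 10000⟩, ⟨1070, 1500, 1000⟩⟩ (yA1.hC3m true true) :=
  posD_of_check (c := ⟨401, ⟨3, 7, 15, 10⟩⟩) (by decide +kernel)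

def yA1_c3ph11 : PosD ⟨⟨0, 1, 1⟩, ⟨98, 99, 147⟩, ⟨150, 301, 10000⟩, ⟨1070, 1500, 1000⟩⟩ (yA1.hC3p' true true) :=
  posD_of_check (c := ⟨426, ⟨3, 8, 15, 11⟩⟩) (by decide +kernel)

def yA1_c3mh11 : PosD ⟨⟨0, 1, 1⟩, ⟨98, 99, 147⟩, ⟨150, 301, 10000⟩, ⟨1070, 1500, 1000⟩⟩ (yA1.hC3m' true true) :=
  posD_of_check (c := ⟨401, ⟨3, 7, 15, 10⟩⟩) (by decide +kernel)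

def yA1_up11 : PosD ⟨⟨0, 1, 1⟩, ⟨98, 99, 147⟩, ⟨150, 301, 10000⟩, ⟨1070, 1500, 1000⟩⟩ (yA1.hUp true true) :=
  posD_of_check (c := ⟨425, ⟨3, 8, 15, 11⟩⟩) (by decide +kernel)

def yA1_um11 : PosD ⟨⟨0, 1, 1⟩, ⟨98, 99, 147⟩, ⟨150, 301, 10000⟩, ⟨1070, 1500, 1000⟩⟩ (yA1.hUm true true) :=
  posD_of_check (c := ⟨399, ⟨2, 7, 15, 10⟩⟩) (by decide +kernel)

def yA1_tmg11 : PosD ⟨⟨0, 1, 1⟩, ⟨98, 99, 147⟩, ⟨150, 301, 10000⟩, ⟨1070, 1500, 1000⟩⟩ (yA1.hTMG true (yA1.pEnd true)) :=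
  posD_of_check (c := ⟨386, ⟨2, 7, 14, 10⟩⟩) (by decide +kernel)

/-- The signs of the piece. -/
def yA1_sign : yA1.Sign ⟨⟨0, 1, 1⟩, ⟨98, 99, 147⟩, ⟨150, 301, 10000⟩, ⟨1070, 1500, 1000⟩⟩ :=
  ⟨yA1_pp,
    yA1_k2p,
    yA1_k2m,
    Bool.forall_bool.2 ⟨(Bool.forall_bool.2 ⟨yA1_tg00, yA1_tg01⟩), (Bool.forall_bool.2 ⟨yA1_tg10, yA1_tg11⟩)⟩,
    Bool.forall_bool.2 ⟨(Bool.forall_bool.2 ⟨yA1_c2p00, yA1_c2p01⟩), (Bool.forall_bool.2 ⟨yA1_c2p10, yA1_c2p11⟩)⟩,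
    Bool.forall_bool.2 ⟨(Bool.forall_bool.2 ⟨yA1_c2m00, yA1_c2m01⟩), (Bool.forall_bool.2 ⟨yA1_c2m10, yA1_c2m11⟩)⟩,
    Bool.forall_bool.2 ⟨yA1_kap0, yA1_kap1⟩,
    Bool.forall_bool.2 ⟨yA1_c10, yA1_c11⟩,
    Bool.forall_bool.2 ⟨(Bool.forall_bool.2 ⟨yA1_c3p00, yA1_c3p01⟩), (Bool.forall_bool.2 ⟨yA1_c3p10, yA1_c3p11⟩)⟩,
    Bool.forall_bool.2 ⟨(Bool.forall_bool.2 ⟨yA1_c3m00, yA1_c3m01⟩), (Bool.forall_bool.2 ⟨yA1_c3m10, yA1_c3m11⟩)⟩,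
    Bool.forall_bool.2 ⟨(Bool.forall_bool.2 ⟨yA1_tmg00, yA1_tmg01⟩), (Bool.forall_bool.2 ⟨yA1_tmg10, yA1_tmg11⟩)⟩,
    .inr (Bool.forall_bool.2 ⟨⟨yA1_c1h0, Bool.forall_bool.2 ⟨⟨yA1_c3ph00, yA1_c3mh00, yA1_up00, yA1_um00⟩, ⟨yA1_c3ph01, yA1_c3mh01, yA1_up01, yA1_um01⟩⟩⟩, ⟨yA1_c1h1, Bool.forall_bool.2 ⟨⟨yA1_c3ph10, yA1_c3mh10, yA1_up10, yA1_um10⟩, ⟨yA1_c3ph11, yA1_c3mh11, yA1_up11, yA1_um11⟩⟩⟩⟩),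
    yA1_v2p,
    yA1_v2m,
    yA1_v3p,
    yA1_v3m,
    posD_sub (b := ⟨⟨0, 1, 1⟩, ⟨98, 99, 147⟩, ⟨0, 301, 10000⟩, ⟨1060, 4000, 1000⟩⟩) (by decide +kernel) yA_vG,
    posD_sub (b := ⟨⟨0, 1, 1⟩, ⟨98, 99, 147⟩, ⟨0, 301, 10000⟩, ⟨1060, 4000, 1000⟩⟩) (by decide +kernel) yA_vMG,
    posD_sub (b := ⟨⟨0, 1, 1⟩, ⟨98, 99, 147⟩, ⟨0, 301, 10000⟩, ⟨1060, 4000, 1000⟩⟩) (by decide +kernel) yA_ak,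
    posD_sub (b := ⟨⟨0, 1, 1⟩, ⟨98, 99, 147⟩, ⟨0, 301, 10000⟩, ⟨1060, 4000, 1000⟩⟩) (by decide +kernel) yA_aw,
    posD_sub (b := ⟨⟨0, 1, 1⟩, ⟨98, 99, 147⟩, ⟨0, 301, 10000⟩, ⟨1060, 4000, 1000⟩⟩) (by decide +kernel) yA_gk,
    posD_sub (b := ⟨⟨0, 1, 1⟩, ⟨98, 99, 147⟩, ⟨0, 301, 10000⟩, ⟨1060, 4000, 1000⟩⟩) (by decide +kernel) yA_gw,
    posD_sub (b := ⟨⟨0, 1, 1⟩, ⟨98, 99, 147⟩, ⟨0, 301, 10000⟩, ⟨1060, 4000, 1000⟩⟩) (by decide +kernel) yA_ek,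
    posD_sub (b := ⟨⟨0, 1, 1⟩, ⟨98, 99, 147⟩, ⟨0, 301, 10000⟩, ⟨1060, 4000, 1000⟩⟩) (by decide +kernel) yA_ew⟩

end Vale.Agent.P100.Calib.Closed.Six.Tail
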