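import Vale.Agent.P100.Calib.SlabSixTailDataLayerA
import Vale.Agent.P100.Calib.SlabSixTailGlobLayerA

/-!
# Checks of some pieces of the certificate

The checks are written as definitions so that they run one after another, which keeps the memory of the
kernel low.
-/

set_option linter.defProp false

namespace Vale.Agent.P100.Calib.Closed.Six.Tail

open BoxPos Large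

local instance sixTailChecksyA1Add : Add Ex := ⟨Ex.add⟩
local instance sixTailChecksyA1Sub : Sub Ex := ⟨Ex.sub⟩
local instance sixTailChecksyA1Mul : Mul Ex := ⟨Ex.mul⟩

def yA2_p0 : PosD ⟨⟨0, 1, 1⟩, ⟨98, 99, 147⟩, ⟨0, 301, 10000⟩, ⟨1500, 2200, 1000⟩⟩ (yA2.hP0) :=
  posD_of_check0 (c := ⟨81, ⟨0, 2, 3, 1⟩⟩) (by decide +kernel)

def yA2_gn : PosD ⟨⟨0, 1, 1⟩, ⟨98, 99, 147⟩, ⟨0, 301, 10000⟩, ⟨1500, 2200, 1000⟩⟩ (yA2.hGn) :=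
  posD_of_check0 (c := ⟨58, ⟨1, 1, 2, 1⟩⟩) (by decide +kernel)

def yA2_den0 : PosD ⟨⟨0, 1, 1⟩, ⟨98, 99, 147⟩, ⟨0, 301, 10000⟩, ⟨1500, 2200, 1000⟩⟩ (yA2.hDen false) :=
  posD_of_check0 (c := ⟨45, ⟨0, 0, 2, 0⟩⟩) (by decide +kernel)

def yA2_den1 : PosD ⟨⟨0, 1, 1⟩, ⟨98, 99, 147⟩, ⟨0, 301, 10000⟩, ⟨1500, 2200, 1000⟩⟩ (yA2.hDen true) :=
  posD_of_check0 (c := ⟨22, ⟨1, 0, 1, 0⟩⟩) (by decide +kernel)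

def yA2_ev0 : PosD ⟨⟨0, 1, 1⟩, ⟨98, 99, 147⟩, ⟨0, 301, 10000⟩, ⟨1500, 2200, 1000⟩⟩ (yA2.hEv false) :=
  posD_of_check0 (c := ⟨148, ⟨2, 2, 6, 1⟩⟩) (by decide +kernel)

def yA2_zL0 : PosD ⟨⟨0, 1, 1⟩, ⟨98, 99, 147⟩, ⟨0, 301, 10000⟩, ⟨1500, 2200, 1000⟩⟩ (yA2.hZL false) :=
  posD_of_check0 (c := ⟨159, ⟨2, 3, 6, 3⟩⟩) (by decide +kernel)

def yA2_zU0a : PosD ⟨⟨0, 1, 1⟩, ⟨98, 99, 147⟩, ⟨0, 150, 10000⟩, ⟨1500, 2200, 1000⟩⟩ (yA2.hZU false) :=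
  posD_of_check0 (c := ⟨158, ⟨2, 3, 6, 3⟩⟩) (by decide +kernel)

def yA2_zU0ba : PosD ⟨⟨0, 1, 1⟩, ⟨98, 99, 147⟩, ⟨150, 225, 10000⟩, ⟨1500, 2200, 1000⟩⟩ (yA2.hZU false) :=
  posD_of_check (c := ⟨159, ⟨2, 3, 6, 3⟩⟩) (by decide +kernel)

def yA2_zU0bb : PosD ⟨⟨0, 1, 1⟩, ⟨98, 99, 147⟩, ⟨225, 301, 10000⟩, ⟨1500, 2200, 1000⟩⟩ (yA2.hZU false) :=
  posD_of_check (c := ⟨159, ⟨2, 3, 6, 3⟩⟩) (by decide +kernel)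

def yA2_zU0b : PosD ⟨⟨0, 1, 1⟩, ⟨98, 99, 147⟩, ⟨150, 301, 10000⟩, ⟨1500, 2200, 1000⟩⟩ (yA2.hZU false) :=
  posD_join₂ yA2_zU0ba yA2_zU0bb

def yA2_zU0 : PosD ⟨⟨0, 1, 1⟩, ⟨98, 99, 147⟩, ⟨0, 301, 10000⟩, ⟨1500, 2200, 1000⟩⟩ (yA2.hZU false) :=
  posD_join₂ yA2_zU0a yA2_zU0b

def yA2_eL0 : PosD ⟨⟨0, 1, 1⟩, ⟨98, 99, 147⟩, ⟨0, 301, 10000⟩, ⟨1500, 2200, 1000⟩⟩ (yA2.hEL false) :=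
  posD_of_check0 (c := ⟨240, ⟨3, 6, 9, 3⟩⟩) (by decide +kernel)

def yA2_eH0 : PosD ⟨⟨0, 1, 1⟩, ⟨98, 99, 147⟩, ⟨0, 301, 10000⟩, ⟨1500, 2200, 1000⟩⟩ (yA2.hEH false) :=
  posD_of_check0 (c := ⟨255, ⟨3, 6, 9, 3⟩⟩) (by decide +kernel)

def yA2_pL0 : PosD ⟨⟨0, 1, 1⟩, ⟨98, 99, 147⟩, ⟨0, 301, 10000⟩, ⟨1500, 2200, 1000⟩⟩ (yA2.hPL false) :=
  posD_of_check0 (c := ⟨256, ⟨3, 6, 9, 2⟩⟩) (by decide +kernel)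

def yA2_pU0 : PosD ⟨⟨0, 1, 1⟩, ⟨98, 99, 147⟩, ⟨0, 301, 10000⟩, ⟨1500, 2200, 1000⟩⟩ (yA2.hPU false) :=
  posD_of_check0 (c := ⟨260, ⟨3, 6, 9, 3⟩⟩) (by decide +kernel)

def yA2_kU0 : PosD ⟨⟨0, 1, 1⟩, ⟨98, 99, 147⟩, ⟨0, 301, 10000⟩, ⟨1500, 2200, 1000⟩⟩ (yA2.hKU false) :=
  posD_of_check0 (c := ⟨254, ⟨3, 6, 9, 3⟩⟩) (by decide +kernel)

def yA2_kL0 : PosD ⟨⟨0, 1, 1⟩, ⟨98, 99, 147⟩, ⟨0, 301, 10000⟩, ⟨1500, 2200, 1000⟩⟩ (yA2.hKL false) :=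
  posD_of_check0 (c := ⟨254, ⟨3, 6, 9, 3⟩⟩) (by decide +kernel)

def yA2_wU0 : PosD ⟨⟨0, 1, 1⟩, ⟨98, 99, 147⟩, ⟨0, 301, 10000⟩, ⟨1500, 2200, 1000⟩⟩ (yA2.hWU false) :=
  posD_of_check0 (c := ⟨290, ⟨3, 8, 10, 3⟩⟩) (by decide +kernel)

def yA2_wL0 : PosD ⟨⟨0, 1, 1⟩, ⟨98, 99, 147⟩, ⟨0, 301, 10000⟩, ⟨1500, 2200, 1000⟩⟩ (yA2.hWL false) :=
  posD_of_check0 (c := ⟨290, ⟨3, 8, 10, 3⟩⟩) (by decide +kernel)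

def yA2_ev1 : PosD ⟨⟨0, 1, 1⟩, ⟨98, 99, 147⟩, ⟨0, 301, 10000⟩, ⟨1500, 2200, 1000⟩⟩ (yA2.hEv true) :=
  posD_of_check0 (c := ⟨120, ⟨2, 2, 6, 1⟩⟩) (by decide +kernel)

def yA2_zL1 : PosD ⟨⟨0, 1, 1⟩, ⟨98, 99, 147⟩, ⟨0, 301, 10000⟩, ⟨1500, 2200, 1000⟩⟩ (yA2.hZL true) :=
  posD_of_check0 (c := ⟨134, ⟨2, 3, 6, 3⟩⟩) (by decide +kernel)

def yA2_zU1 : PosD ⟨⟨0, 1, 1⟩, ⟨98, 99, 147⟩, ⟨0, 301, 10000⟩, ⟨1500, 2200, 1000⟩⟩ (yA2.hZU true) :=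
  posD_of_check0 (c := ⟨134, ⟨2, 3, 6, 3⟩⟩) (by decide +kernel)

def yA2_eL1aa : PosD ⟨⟨0, 1, 1⟩, ⟨98, 99, 147⟩, ⟨0, 150, 10000⟩, ⟨1500, 1850, 1000⟩⟩ (yA2.hEL true) :=
  posD_of_check0 (c := ⟨212, ⟨3, 6, 9, 3⟩⟩) (by decide +kernel)

def yA2_eL1ab : PosD ⟨⟨0, 1, 1⟩, ⟨98, 99, 147⟩, ⟨150, 301, 10000⟩, ⟨1500, 1850, 1000⟩⟩ (yA2.hEL true) :=
  posD_of_check (c := ⟨212, ⟨3, 6, 9, 3⟩⟩) (by decide +kernel)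

def yA2_eL1a : PosD ⟨⟨0, 1, 1⟩, ⟨98, 99, 147⟩, ⟨0, 301, 10000⟩, ⟨1500, 1850, 1000⟩⟩ (yA2.hEL true) :=
  posD_join₂ yA2_eL1aa yA2_eL1ab

def yA2_eL1b : PosD ⟨⟨0, 1, 1⟩, ⟨98, 99, 147⟩, ⟨0, 301, 10000⟩, ⟨1850, 2200, 1000⟩⟩ (yA2.hEL true) :=
  posD_of_check0 (c := ⟨212, ⟨3, 6, 9, 3⟩⟩) (by decide +kernel)

def yA2_eL1 : PosD ⟨⟨0, 1, 1⟩, ⟨98, 99, 147⟩, ⟨0, 301, 10000⟩, ⟨1500, 2200, 1000⟩⟩ (yA2.hEL true) :=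
  posD_join₃ yA2_eL1a yA2_eL1b

def yA2_eH1 : PosD ⟨⟨0, 1, 1⟩, ⟨98, 99, 147⟩, ⟨0, 301, 10000⟩, ⟨1500, 2200, 1000⟩⟩ (yA2.hEH true) :=
  posD_of_check0 (c := ⟨226, ⟨3, 6, 9, 3⟩⟩) (by decide +kernel)

def yA2_pL1 : PosD ⟨⟨0, 1, 1⟩, ⟨98, 99, 147⟩, ⟨0, 301, 10000⟩, ⟨1500, 2200, 1000⟩⟩ (yA2.hPL true) :=
  posD_of_check0 (c := ⟨227, ⟨3, 6, 9, 2⟩⟩) (by decide +kernel)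

def yA2_pU1aa : PosD ⟨⟨0, 1, 1⟩, ⟨98, 99, 147⟩, ⟨0, 150, 10000⟩, ⟨1500, 1850, 1000⟩⟩ (yA2.hPU true) :=
  posD_of_check0 (c := ⟨232, ⟨3, 6, 9, 3⟩⟩) (by decide +kernel)

def yA2_pU1aba : PosD ⟨⟨0, 1, 1⟩, ⟨98, 99, 147⟩, ⟨150, 301, 10000⟩, ⟨1500, 1675, 1000⟩⟩ (yA2.hPU true) :=
  posD_of_check (c := ⟨232, ⟨3, 6, 9, 3⟩⟩) (by decide +kernel)

def yA2_pU1abba : PosD ⟨⟨0, 1, 1⟩, ⟨98, 99, 147⟩, ⟨150, 225, 10000⟩, ⟨1675, 1850, 1000⟩⟩ (yA2.hPU true) :=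
  posD_of_check (c := ⟨232, ⟨3, 6, 9, 3⟩⟩) (by decide +kernel)

def yA2_pU1abbb : PosD ⟨⟨0, 1, 1⟩, ⟨98, 99, 147⟩, ⟨225, 301, 10000⟩, ⟨1675, 1850, 1000⟩⟩ (yA2.hPU true) :=
  posD_of_check (c := ⟨232, ⟨3, 6, 9, 3⟩⟩) (by decide +kernel)

def yA2_pU1abb : PosD ⟨⟨0, 1, 1⟩, ⟨98, 99, 147⟩, ⟨150, 301, 10000⟩, ⟨1675, 1850, 1000⟩⟩ (yA2.hPU true) :=
  posD_join₂ yA2_pU1abba yA2_pU1abbb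

def yA2_pU1ab : PosD ⟨⟨0, 1, 1⟩, ⟨98, 99, 147⟩, ⟨150, 301, 10000⟩, ⟨1500, 1850, 1000⟩⟩ (yA2.hPU true) :=
  posD_join₃ yA2_pU1aba yA2_pU1abb

def yA2_pU1a : PosD ⟨⟨0, 1, 1⟩, ⟨98, 99, 147⟩, ⟨0, 301, 10000⟩, ⟨1500, 1850, 1000⟩⟩ (yA2.hPU true) :=
  posD_join₂ yA2_pU1aa yA2_pU1ab

def yA2_pU1baa : PosD ⟨⟨0, 1, 1⟩, ⟨98, 99, 147⟩, ⟨0, 150, 10000⟩, ⟨1850, 2025, 1000⟩⟩ (yA2.hPU true) :=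
  posD_of_check0 (c := ⟨232, ⟨3, 6, 9, 3⟩⟩) (by decide +kernel)

def yA2_pU1bab : PosD ⟨⟨0, 1, 1⟩, ⟨98, 99, 147⟩, ⟨0, 150, 10000⟩, ⟨2025, 2200, 1000⟩⟩ (yA2.hPU true) :=
  posD_of_check0 (c := ⟨232, ⟨3, 6, 9, 3⟩⟩) (by decide +kernel)

def yA2_pU1ba : PosD ⟨⟨0, 1, 1⟩, ⟨98, 99, 147⟩, ⟨0, 150, 10000⟩, ⟨1850, 2200, 1000⟩⟩ (yA2.hPU true) :=
  posD_join₃ yA2_pU1baa yA2_pU1bab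

def yA2_pU1bba : PosD ⟨⟨0, 1, 2⟩, ⟨98, 99, 147⟩, ⟨150, 301, 10000⟩, ⟨1850, 2200, 1000⟩⟩ (yA2.hPU true) :=
  posD_of_check (c := ⟨234, ⟨3, 6, 9, 3⟩⟩) (by decide +kernel)

def yA2_pU1bbbaa : PosD ⟨⟨1, 2, 2⟩, ⟨98, 99, 147⟩, ⟨150, 225, 10000⟩, ⟨1850, 2025, 1000⟩⟩ (yA2.hPU true) :=
  posD_of_check (c := ⟨235, ⟨3, 6, 9, 3⟩⟩) (by decide +kernel)

def yA2_pU1bbbab : PosD ⟨⟨1, 2, 2⟩, ⟨98, 99, 147⟩, ⟨225, 301, 10000⟩, ⟨1850, 2025, 1000⟩⟩ (yA2.hPU true) :=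
  posD_of_check (c := ⟨235, ⟨3, 6, 9, 3⟩⟩) (by decide +kernel)

def yA2_pU1bbba : PosD ⟨⟨1, 2, 2⟩, ⟨98, 99, 147⟩, ⟨150, 301, 10000⟩, ⟨1850, 2025, 1000⟩⟩ (yA2.hPU true) :=
  posD_join₂ yA2_pU1bbbaa yA2_pU1bbbab

def yA2_pU1bbbb : PosD ⟨⟨1, 2, 2⟩, ⟨98, 99, 147⟩, ⟨150, 301, 10000⟩, ⟨2025, 2200, 1000⟩⟩ (yA2.hPU true) :=
  posD_of_check (c := ⟨235, ⟨3, 6, 9, 3⟩⟩) (by decide +kernel)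

def yA2_pU1bbb : PosD ⟨⟨1, 2, 2⟩, ⟨98, 99, 147⟩, ⟨150, 301, 10000⟩, ⟨1850, 2200, 1000⟩⟩ (yA2.hPU true) :=
  posD_join₃ yA2_pU1bbba yA2_pU1bbbb

def yA2_pU1bb : PosD ⟨⟨0, 1, 1⟩, ⟨98, 99, 147⟩, ⟨150, 301, 10000⟩, ⟨1850, 2200, 1000⟩⟩ (yA2.hPU true) :=
  posD_units (b := ⟨⟨0, 2, 2⟩, ⟨98, 99, 147⟩, ⟨150, 301, 10000⟩, ⟨1850, 2200, 1000⟩⟩) (by decide +kernel) (posD_join₀ yA2_pU1bba yA2_pU1bbb)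

def yA2_pU1b : PosD ⟨⟨0, 1, 1⟩, ⟨98, 99, 147⟩, ⟨0, 301, 10000⟩, ⟨1850, 2200, 1000⟩⟩ (yA2.hPU true) :=
  posD_join₂ yA2_pU1ba yA2_pU1bb

def yA2_pU1 : PosD ⟨⟨0, 1, 1⟩, ⟨98, 99, 147⟩, ⟨0, 301, 10000⟩, ⟨1500, 2200, 1000⟩⟩ (yA2.hPU true) :=
  posD_join₃ yA2_pU1a yA2_pU1b

def yA2_kU1 : PosD ⟨⟨0, 1, 1⟩, ⟨98, 99, 147⟩, ⟨0, 301, 10000⟩, ⟨1500, 2200, 1000⟩⟩ (yA2.hKU true) :=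
  posD_of_check0 (c := ⟨225, ⟨3, 6, 9, 3⟩⟩) (by decide +kernel)

def yA2_kL1 : PosD ⟨⟨0, 1, 1⟩, ⟨98, 99, 147⟩, ⟨0, 301, 10000⟩, ⟨1500, 2200, 1000⟩⟩ (yA2.hKL true) :=
  posD_of_check0 (c := ⟨226, ⟨3, 6, 9, 3⟩⟩) (by decide +kernel)

def yA2_wU1 : PosD ⟨⟨0, 1, 1⟩, ⟨98, 99, 147⟩, ⟨0, 301, 10000⟩, ⟨1500, 2200, 1000⟩⟩ (yA2.hWU true) :=
  posD_of_check0 (c := ⟨260, ⟨3, 8, 10, 3⟩⟩) (by decide +kernel)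

def yA2_wL1 : PosD ⟨⟨0, 1, 1⟩, ⟨98, 99, 147⟩, ⟨0, 301, 10000⟩, ⟨1500, 2200, 1000⟩⟩ (yA2.hWL true) :=
  posD_of_check0 (c := ⟨260, ⟨3, 8, 10, 3⟩⟩) (by decide +kernel)

def yA2_mueH : PosD ⟨⟨0, 1, 1⟩, ⟨98, 99, 147⟩, ⟨0, 301, 10000⟩, ⟨1500, 2200, 1000⟩⟩ (yA2.eH.μ) :=
  posD_of_check0 (c := ⟨14, ⟨0, 0, 0, 0⟩⟩) (by decide +kernel)

def yA2_mupL : PosD ⟨⟨0, 1, 1⟩, ⟨98, 99, 147⟩, ⟨0, 301, 10000⟩, ⟨1500, 2200, 1000⟩⟩ (yA2.pL.μ) :=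
  posD_of_check0 (c := ⟨16, ⟨0, 0, 0, 0⟩⟩) (by decide +kernel)

/-- The bounds of the piece. -/
def yA2_env : yA2.Env ⟨⟨0, 1, 1⟩, ⟨98, 99, 147⟩, ⟨0, 301, 10000⟩, ⟨1500, 2200, 1000⟩⟩ :=
  ⟨yA2_p0, Bool.forall_bool.2 ⟨yA2_den0, yA2_den1⟩, yA2_gn, Bool.forall_bool.2 ⟨yA2_ev0, yA2_ev1⟩, Bool.forall_bool.2 ⟨yA2_zL0, yA2_zL1⟩, Bool.forall_bool.2 ⟨yA2_zU0, yA2_zU1⟩, Bool.forall_bool.2 ⟨yA2_eL0, yA2_eL1⟩, ⟨.inr rfl, .inr rfl⟩, Bool.forall_bool.2 ⟨yA2_eH0, yA2_eH1⟩, ⟨.inl yA2_mueH, .inr rfl⟩, Bool.forall_bool.2 ⟨yA2_pL0, yA2_pL1⟩, ⟨.inl yA2_mupL, .inr rfl⟩, Bool.forall_bool.2 ⟨yA2_pU0, yA2_pU1⟩, ⟨.inr rfl, .inr rfl⟩, Bool.forall_bool.2 ⟨yA2_kU0, yA2_kU1⟩, ⟨.inr rfl, .inr rfl⟩, Bool.forall_bool.2 ⟨yA2_kL0,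 yA2_kL1⟩, ⟨.inr rfl, .inr rfl⟩, Bool.forall_bool.2 ⟨yA2_wU0, yA2_wU1⟩, ⟨.inr rfl, .inr rfl⟩, Bool.forall_bool.2 ⟨yA2_wL0, yA2_wL1⟩, ⟨.inr rfl, .inr rfl⟩⟩

def yA2_pU20 : PosD ⟨⟨0, 1, 1⟩, ⟨98, 99, 147⟩, ⟨0, 301, 10000⟩, ⟨1500, 2200, 1000⟩⟩ (({ yA2 with pU := yA2PU } : Piece).hPU false) :=
  posD_of_check0 (c := ⟨259, ⟨3, 6, 9, 3⟩⟩) (by decide +kernel)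

def yA2_pU21 : PosD ⟨⟨0, 1, 1⟩, ⟨98, 99, 147⟩, ⟨0, 301, 10000⟩, ⟨1500, 2200, 1000⟩⟩ (({ yA2 with pU := yA2PU } : Piece).hPU true) :=
  posD_of_check0 (c := ⟨230, ⟨3, 6, 9, 3⟩⟩) (by decide +kernel)

/-- The bounds with the other bound of `p`. -/
def yA2_envU : ({ yA2 with pU := yA2PU } : Piece).Env ⟨⟨0, 1, 1⟩, ⟨98, 99, 147⟩, ⟨0, 301, 10000⟩, ⟨1500, 2200, 1000⟩⟩ :=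
  yA2_env.withU yA2PU (Bool.forall_bool.2 ⟨yA2_pU20, yA2_pU21⟩) ⟨.inr rfl, .inr rfl⟩

def yA2A_pp : PosD ⟨⟨0, 1, 1⟩, ⟨98, 99, 147⟩, ⟨0, 301, 10000⟩, ⟨1500, 2200, 1000⟩⟩ (yA2A.xPL) :=
  posD_of_check0 (c := ⟨61, ⟨1, 1, 2, 2⟩⟩) (by decide +kernel)

def yA2A_k2p : PosD ⟨⟨0, 1, 1⟩, ⟨98, 99, 147⟩, ⟨0, 301, 10000⟩, ⟨1500, 2200, 1000⟩⟩ (yA2A.k2p yA2A.xE) :=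
  posD_of_check0 (c := ⟨63, ⟨1, 1, 2, 2⟩⟩) (by decide +kernel)

def yA2A_k2m : PosD ⟨⟨0, 1, 1⟩, ⟨98, 99, 147⟩, ⟨0, 301, 10000⟩, ⟨1500, 2200, 1000⟩⟩ (yA2A.k2m yA2A.xE) :=
  posD_of_check0 (c := ⟨20, ⟨0, 0, 1, 0⟩⟩) (by decide +kernel)

def yA2A_v2p : PosD ⟨⟨0, 1, 1⟩, ⟨98, 99, 147⟩, ⟨0, 301, 10000⟩, ⟨1500, 2200, 1000⟩⟩ (yA2A.hV2p) :=
  posD_of_check0 (c := ⟨256, ⟨1, 6, 10, 5⟩⟩) (by decide +kernel)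

def yA2A_v2m : PosD ⟨⟨0, 1, 1⟩, ⟨98, 99, 147⟩, ⟨0, 301, 10000⟩, ⟨1500, 2200, 1000⟩⟩ (yA2A.hV2m) :=
  posD_of_check0 (c := ⟨224, ⟨0, 5, 10, 4⟩⟩) (by decide +kernel)

def yA2A_v3p : PosD ⟨⟨0, 1, 1⟩, ⟨98, 99, 147⟩, ⟨0, 301, 10000⟩, ⟨1500, 2200, 1000⟩⟩ (yA2A.hV3p) :=
  posD_of_check0 (c := ⟨246, ⟨1, 6, 9, 5⟩⟩) (by decide +kernel)

def yA2A_v3m : PosD ⟨⟨0, 1, 1⟩, ⟨98, 99, 147⟩, ⟨0, 301, 10000⟩, ⟨1500, 2200, 1000⟩⟩ (yA2A.hV3m) :=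
  posD_of_check0 (c := ⟨220, ⟨0, 5, 9, 4⟩⟩) (by decide +kernel)

def yA2A_kap0 : PosD ⟨⟨0, 1, 1⟩, ⟨98, 99, 147⟩, ⟨0, 301, 10000⟩, ⟨1500, 2200, 1000⟩⟩ (yA2A.kap false) :=
  posD_of_check0 (c := ⟨68, ⟨1, 1, 2, 2⟩⟩) (by decide +kernel)

def yA2A_c10 : PosD ⟨⟨0, 1, 1⟩, ⟨98, 99, 147⟩, ⟨0, 301, 10000⟩, ⟨1500, 2200, 1000⟩⟩ (yA2A.hC1 false) :=
  posD_of_check0 (c := ⟨233, ⟨3, 5, 8, 6⟩⟩) (by decide +kernel)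

def yA2A_c1h0 : PosD ⟨⟨0, 1, 1⟩, ⟨98, 99, 147⟩, ⟨0, 301, 10000⟩, ⟨1500, 2200, 1000⟩⟩ (yA2A.hC1' false) :=
  posD_of_check0 (c := ⟨233, ⟨3, 5, 8, 6⟩⟩) (by decide +kernel)

def yA2A_tg00 : PosD ⟨⟨0, 1, 1⟩, ⟨98, 99, 147⟩, ⟨0, 301, 10000⟩, ⟨1500, 2200, 1000⟩⟩ (yA2A.hG false (yA2A.pEnd false)) :=
  posD_of_check0 (c := ⟨360, ⟨2, 7, 14, 9⟩⟩) (by decide +kernel)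

def yA2A_c2p00 : PosD ⟨⟨0, 1, 1⟩, ⟨98, 99, 147⟩, ⟨0, 301, 10000⟩, ⟨1500, 2200, 1000⟩⟩ (yA2A.hC2p false (yA2A.pEnd false)) :=
  posD_of_check0 (c := ⟨423, ⟨3, 8, 16, 11⟩⟩) (by decide +kernel)

def yA2A_c2m00 : PosD ⟨⟨0, 1, 1⟩, ⟨98, 99, 147⟩, ⟨0, 301, 10000⟩, ⟨1500, 2200, 1000⟩⟩ (yA2A.hC2m false (yA2A.pEnd false)) :=
  posD_of_check0 (c := ⟨381, ⟨2, 7, 15, 9⟩⟩) (by decide +kernel)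

def yA2A_c3p00 : PosD ⟨⟨0, 1, 1⟩, ⟨98, 99, 147⟩, ⟨0, 301, 10000⟩, ⟨1500, 2200, 1000⟩⟩ (yA2A.hC3p false false) :=
  posD_of_check0 (c := ⟨392, ⟨3, 8, 14, 10⟩⟩) (by decide +kernel)

def yA2A_c3m00 : PosD ⟨⟨0, 1, 1⟩, ⟨98, 99, 147⟩, ⟨0, 301, 10000⟩, ⟨1500, 2200, 1000⟩⟩ (yA2A.hC3m false false) :=
  posD_of_check0 (c := ⟨357, ⟨3, 7, 14, 8⟩⟩) (by decide +kernel)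

def yA2A_c3ph00 : PosD ⟨⟨0, 1, 1⟩, ⟨98, 99, 147⟩, ⟨0, 301, 10000⟩, ⟨1500, 2200, 1000⟩⟩ (yA2A.hC3p' false false) :=
  posD_of_check0 (c := ⟨392, ⟨3, 8, 14, 10⟩⟩) (by decide +kernel)

def yA2A_c3mh00 : PosD ⟨⟨0, 1, 1⟩, ⟨98, 99, 147⟩, ⟨0, 301, 10000⟩, ⟨1500, 2200, 1000⟩⟩ (yA2A.hC3m' false false) :=
  posD_of_check0 (c := ⟨357, ⟨3, 7, 14, 8⟩⟩) (by decide +kernel)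

def yA2A_up00 : PosD ⟨⟨0, 1, 1⟩, ⟨98, 99, 147⟩, ⟨0, 301, 10000⟩, ⟨1500, 2200, 1000⟩⟩ (yA2A.hUp false false) :=
  posD_of_check0 (c := ⟨390, ⟨3, 8, 14, 10⟩⟩) (by decide +kernel)

def yA2A_um00 : PosD ⟨⟨0, 1, 1⟩, ⟨98, 99, 147⟩, ⟨0, 301, 10000⟩, ⟨1500, 2200, 1000⟩⟩ (yA2A.hUm false false) :=
  posD_of_check0 (c := ⟨354, ⟨2, 7, 14, 8⟩⟩) (by decide +kernel)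

def yA2A_tmg00 : PosD ⟨⟨0, 1, 1⟩, ⟨98, 99, 147⟩, ⟨0, 301, 10000⟩, ⟨1500, 2200, 1000⟩⟩ (yA2A.hTMG false (yA2A.pEnd false)) :=
  posD_of_check0 (c := ⟨339, ⟨2, 7, 13, 8⟩⟩) (by decide +kernel)

def yA2A_tg01 : PosD ⟨⟨0, 1, 1⟩, ⟨98, 99, 147⟩, ⟨0, 301, 10000⟩, ⟨1500, 2200, 1000⟩⟩ (yA2A.hG true (yA2A.pEnd false)) :=
  posD_of_check0 (c := ⟨360, ⟨2, 7, 14, 9⟩⟩) (by decide +kernel)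

def yA2A_c2p01 : PosD ⟨⟨0, 1, 1⟩, ⟨98, 99, 147⟩, ⟨0, 301, 10000⟩, ⟨1500, 2200, 1000⟩⟩ (yA2A.hC2p true (yA2A.pEnd false)) :=
  posD_of_check0 (c := ⟨423, ⟨3, 8, 16, 11⟩⟩) (by decide +kernel)

def yA2A_c2m01 : PosD ⟨⟨0, 1, 1⟩, ⟨98, 99, 147⟩, ⟨0, 301, 10000⟩, ⟨1500, 2200, 1000⟩⟩ (yA2A.hC2m true (yA2A.pEnd false)) :=
  posD_of_check0 (c := ⟨381, ⟨2, 7, 15, 9⟩⟩) (by decide +kernel)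

def yA2A_c3p01 : PosD ⟨⟨0, 1, 1⟩, ⟨98, 99, 147⟩, ⟨0, 301, 10000⟩, ⟨1500, 2200, 1000⟩⟩ (yA2A.hC3p false true) :=
  posD_of_check0 (c := ⟨392, ⟨3, 8, 14, 10⟩⟩) (by decide +kernel)

def yA2A_c3m01 : PosD ⟨⟨0, 1, 1⟩, ⟨98, 99, 147⟩, ⟨0, 301, 10000⟩, ⟨1500, 2200, 1000⟩⟩ (yA2A.hC3m false true) :=
  posD_of_check0 (c := ⟨357, ⟨3, 7, 14, 8⟩⟩) (by decide +kernel)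

def yA2A_c3ph01 : PosD ⟨⟨0, 1, 1⟩, ⟨98, 99, 147⟩, ⟨0, 301, 10000⟩, ⟨1500, 2200, 1000⟩⟩ (yA2A.hC3p' false true) :=
  posD_of_check0 (c := ⟨392, ⟨3, 8, 14, 10⟩⟩) (by decide +kernel)

def yA2A_c3mh01 : PosD ⟨⟨0, 1, 1⟩, ⟨98, 99, 147⟩, ⟨0, 301, 10000⟩, ⟨1500, 2200, 1000⟩⟩ (yA2A.hC3m' false true) :=
  posD_of_check0 (c := ⟨357, ⟨3, 7, 14, 8⟩⟩) (by decide +kernel)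

def yA2A_up01 : PosD ⟨⟨0, 1, 1⟩, ⟨98, 99, 147⟩, ⟨0, 301, 10000⟩, ⟨1500, 2200, 1000⟩⟩ (yA2A.hUp false true) :=
  posD_of_check0 (c := ⟨390, ⟨3, 8, 14, 10⟩⟩) (by decide +kernel)

def yA2A_um01 : PosD ⟨⟨0, 1, 1⟩, ⟨98, 99, 147⟩, ⟨0, 301, 10000⟩, ⟨1500, 2200, 1000⟩⟩ (yA2A.hUm false true) :=
  posD_of_check0 (c := ⟨354, ⟨2, 7, 14, 8⟩⟩) (by decide +kernel)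

def yA2A_tmg01 : PosD ⟨⟨0, 1, 1⟩, ⟨98, 99, 147⟩, ⟨0, 301, 10000⟩, ⟨1500, 2200, 1000⟩⟩ (yA2A.hTMG true (yA2A.pEnd false)) :=
  posD_of_check0 (c := ⟨339, ⟨2, 7, 13, 8⟩⟩) (by decide +kernel)

def yA2A_kap1 : PosD ⟨⟨0, 1, 1⟩, ⟨98, 99, 147⟩, ⟨0, 301, 10000⟩, ⟨1500, 2200, 1000⟩⟩ (yA2A.kap true) :=
  posD_of_check0 (c := ⟨68, ⟨1, 1, 2, 2⟩⟩) (by decide +kernel)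

def yA2A_c11 : PosD ⟨⟨0, 1, 1⟩, ⟨98, 99, 147⟩, ⟨0, 301, 10000⟩, ⟨1500, 2200, 1000⟩⟩ (yA2A.hC1 true) :=
  posD_of_check0 (c := ⟨264, ⟨3, 5, 9, 7⟩⟩) (by decide +kernel)

def yA2A_c1h1 : PosD ⟨⟨0, 1, 1⟩, ⟨98, 99, 147⟩, ⟨0, 301, 10000⟩, ⟨1500, 2200, 1000⟩⟩ (yA2A.hC1' true) :=
  posD_of_check0 (c := ⟨264, ⟨3, 5, 9, 7⟩⟩) (by decide +kernel)

def yA2A_tg10 : PosD ⟨⟨0, 1, 1⟩, ⟨98, 99, 147⟩, ⟨0, 301, 10000⟩, ⟨1500, 2200, 1000⟩⟩ (yA2A.hG false (yA2A.pEnd true)) :=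
  posD_of_check0 (c := ⟨373, ⟨2, 7, 14, 9⟩⟩) (by decide +kernel)

def yA2A_c2p10 : PosD ⟨⟨0, 1, 1⟩, ⟨98, 99, 147⟩, ⟨0, 301, 10000⟩, ⟨1500, 2200, 1000⟩⟩ (yA2A.hC2p false (yA2A.pEnd true)) :=
  posD_of_check0 (c := ⟨435, ⟨3, 8, 16, 11⟩⟩) (by decide +kernel)

def yA2A_c2m10 : PosD ⟨⟨0, 1, 1⟩, ⟨98, 99, 147⟩, ⟨0, 301, 10000⟩, ⟨1500, 2200, 1000⟩⟩ (yA2A.hC2m false (yA2A.pEnd true)) :=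
  posD_of_check0 (c := ⟨404, ⟨2, 7, 16, 10⟩⟩) (by decide +kernel)

def yA2A_c3p10 : PosD ⟨⟨0, 1, 1⟩, ⟨98, 99, 147⟩, ⟨0, 301, 10000⟩, ⟨1500, 2200, 1000⟩⟩ (yA2A.hC3p true false) :=
  posD_of_check0 (c := ⟨429, ⟨3, 8, 15, 11⟩⟩) (by decide +kernel)

def yA2A_c3m10 : PosD ⟨⟨0, 1, 1⟩, ⟨98, 99, 147⟩, ⟨0, 301, 10000⟩, ⟨1500, 2200, 1000⟩⟩ (yA2A.hC3m true false) :=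
  posD_of_check0 (c := ⟨404, ⟨3, 7, 15, 10⟩⟩) (by decide +kernel)

def yA2A_c3ph10 : PosD ⟨⟨0, 1, 1⟩, ⟨98, 99, 147⟩, ⟨0, 301, 10000⟩, ⟨1500, 2200, 1000⟩⟩ (yA2A.hC3p' true false) :=
  posD_of_check0 (c := ⟨429, ⟨3, 8, 15, 11⟩⟩) (by decide +kernel)

def yA2A_c3mh10 : PosD ⟨⟨0, 1, 1⟩, ⟨98, 99, 147⟩, ⟨0, 301, 10000⟩, ⟨1500, 2200, 1000⟩⟩ (yA2A.hC3m' true false) :=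
  posD_of_check0 (c := ⟨404, ⟨3, 7, 15, 10⟩⟩) (by decide +kernel)

def yA2A_up10 : PosD ⟨⟨0, 1, 1⟩, ⟨98, 99, 147⟩, ⟨0, 301, 10000⟩, ⟨1500, 2200, 1000⟩⟩ (yA2A.hUp true false) :=
  posD_of_check0 (c := ⟨427, ⟨3, 8, 15, 11⟩⟩) (by decide +kernel)

def yA2A_um10 : PosD ⟨⟨0, 1, 1⟩, ⟨98, 99, 147⟩, ⟨0, 301, 10000⟩, ⟨1500, 2200, 1000⟩⟩ (yA2A.hUm true false) :=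
  posD_of_check0 (c := ⟨401, ⟨2, 7, 15, 10⟩⟩) (by decide +kernel)

def yA2A_tmg10 : PosD ⟨⟨0, 1, 1⟩, ⟨98, 99, 147⟩, ⟨0, 301, 10000⟩, ⟨1500, 2200, 1000⟩⟩ (yA2A.hTMG false (yA2A.pEnd true)) :=
  posD_of_check0 (c := ⟨386, ⟨2, 7, 14, 10⟩⟩) (by decide +kernel)

def yA2A_tg11 : PosD ⟨⟨0, 1, 1⟩, ⟨98, 99, 147⟩, ⟨0, 301, 10000⟩, ⟨1500, 2200, 1000⟩⟩ (yA2A.hG true (yA2A.pEnd true)) :=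
  posD_of_check0 (c := ⟨373, ⟨2, 7, 14, 9⟩⟩) (by decide +kernel)

def yA2A_c2p11 : PosD ⟨⟨0, 1, 1⟩, ⟨98, 99, 147⟩, ⟨0, 301, 10000⟩, ⟨1500, 2200, 1000⟩⟩ (yA2A.hC2p true (yA2A.pEnd true)) :=
  posD_of_check0 (c := ⟨435, ⟨3, 8, 16, 11⟩⟩) (by decide +kernel)

def yA2A_c2m11 : PosD ⟨⟨0, 1, 1⟩, ⟨98, 99, 147⟩, ⟨0, 301, 10000⟩, ⟨1500, 2200, 1000⟩⟩ (yA2A.hC2m true (yA2A.pEnd true)) :=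
  posD_of_check0 (c := ⟨404, ⟨2, 7, 16, 10⟩⟩) (by decide +kernel)

def yA2A_c3p11 : PosD ⟨⟨0, 1, 1⟩, ⟨98, 99, 147⟩, ⟨0, 301, 10000⟩, ⟨1500, 2200, 1000⟩⟩ (yA2A.hC3p true true) :=
  posD_of_check0 (c := ⟨429, ⟨3, 8, 15, 11⟩⟩) (by decide +kernel)

def yA2A_c3m11 : PosD ⟨⟨0, 1, 1⟩, ⟨98, 99, 147⟩, ⟨0, 301, 10000⟩, ⟨1500, 2200, 1000⟩⟩ (yA2A.hC3m true true) :=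
  posD_of_check0 (c := ⟨404, ⟨3, 7, 15, 10⟩⟩) (by decide +kernel)

def yA2A_c3ph11 : PosD ⟨⟨0, 1, 1⟩, ⟨98, 99, 147⟩, ⟨0, 301, 10000⟩, ⟨1500, 2200, 1000⟩⟩ (yA2A.hC3p' true true) :=
  posD_of_check0 (c := ⟨429, ⟨3, 8, 15, 11⟩⟩) (by decide +kernel)

def yA2A_c3mh11 : PosD ⟨⟨0, 1, 1⟩, ⟨98, 99, 147⟩, ⟨0, 301, 10000⟩, ⟨1500, 2200, 1000⟩⟩ (yA2A.hC3m' true true) :=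
  posD_of_check0 (c := ⟨404, ⟨3, 7, 15, 10⟩⟩) (by decide +kernel)

def yA2A_up11 : PosD ⟨⟨0, 1, 1⟩, ⟨98, 99, 147⟩, ⟨0, 301, 10000⟩, ⟨1500, 2200, 1000⟩⟩ (yA2A.hUp true true) :=
  posD_of_check0 (c := ⟨427, ⟨3, 8, 15, 11⟩⟩) (by decide +kernel)

def yA2A_um11 : PosD ⟨⟨0, 1, 1⟩, ⟨98, 99, 147⟩, ⟨0, 301, 10000⟩, ⟨1500, 2200, 1000⟩⟩ (yA2A.hUm true true) :=
  posD_of_check0 (c := ⟨401, ⟨2, 7, 15, 10⟩⟩) (by decide +kernel)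

def yA2A_tmg11 : PosD ⟨⟨0, 1, 1⟩, ⟨98, 99, 147⟩, ⟨0, 301, 10000⟩, ⟨1500, 2200, 1000⟩⟩ (yA2A.hTMG true (yA2A.pEnd true)) :=
  posD_of_check0 (c := ⟨386, ⟨2, 7, 14, 10⟩⟩) (by decide +kernel)

/-- The signs of the piece. -/
def yA2A_sign : yA2A.Sign ⟨⟨0, 1, 1⟩, ⟨98, 99, 147⟩, ⟨0, 301, 10000⟩, ⟨1500, 2200, 1000⟩⟩ :=
  ⟨yA2A_pp,
    yA2A_k2p,
    yA2A_k2m,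
    Bool.forall_bool.2 ⟨(Bool.forall_bool.2 ⟨yA2A_tg00, yA2A_tg01⟩), (Bool.forall_bool.2 ⟨yA2A_tg10, yA2A_tg11⟩)⟩,
    Bool.forall_bool.2 ⟨(Bool.forall_bool.2 ⟨yA2A_c2p00, yA2A_c2p01⟩), (Bool.forall_bool.2 ⟨yA2A_c2p10, yA2A_c2p11⟩)⟩,
    Bool.forall_bool.2 ⟨(Bool.forall_bool.2 ⟨yA2A_c2m00, yA2A_c2m01⟩), (Bool.forall_bool.2 ⟨yA2A_c2m10, yA2A_c2m11⟩)⟩,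
    Bool.forall_bool.2 ⟨yA2A_kap0, yA2A_kap1⟩,
    Bool.forall_bool.2 ⟨yA2A_c10, yA2A_c11⟩,
    Bool.forall_bool.2 ⟨(Bool.forall_bool.2 ⟨yA2A_c3p00, yA2A_c3p01⟩), (Bool.forall_bool.2 ⟨yA2A_c3p10, yA2A_c3p11⟩)⟩,
    Bool.forall_bool.2 ⟨(Bool.forall_bool.2 ⟨yA2A_c3m00, yA2A_c3m01⟩), (Bool.forall_bool.2 ⟨yA2A_c3m10, yA2A_c3m11⟩)⟩,
    Bool.forall_bool.2 ⟨(Bool.forall_bool.2 ⟨yA2A_tmg00, yA2A_tmg01⟩), (Bool.forall_bool.2 ⟨yA2A_tmg10, yA2A_tmg11⟩)⟩,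
    .inr (Bool.forall_bool.2 ⟨⟨yA2A_c1h0, Bool.forall_bool.2 ⟨⟨yA2A_c3ph00, yA2A_c3mh00, yA2A_up00, yA2A_um00⟩, ⟨yA2A_c3ph01, yA2A_c3mh01, yA2A_up01, yA2A_um01⟩⟩⟩, ⟨yA2A_c1h1, Bool.forall_bool.2 ⟨⟨yA2A_c3ph10, yA2A_c3mh10, yA2A_up10, yA2A_um10⟩, ⟨yA2A_c3ph11, yA2A_c3mh11, yA2A_up11, yA2A_um11⟩⟩⟩⟩),
    yA2A_v2p,
    yA2A_v2m,
    yA2A_v3p,
    yA2A_v3m,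
    posD_sub (b := ⟨⟨0, 1, 1⟩, ⟨98, 99, 147⟩, ⟨0, 301, 10000⟩, ⟨1060, 4000, 1000⟩⟩) (by decide +kernel) yA_vG,
    posD_sub (b := ⟨⟨0, 1, 1⟩, ⟨98, 99, 147⟩, ⟨0, 301, 10000⟩, ⟨1060, 4000, 1000⟩⟩) (by decide +kernel) yA_vMG,
    posD_sub (b := ⟨⟨0, 1, 1⟩, ⟨98, 99, 147⟩, ⟨0, 301, 10000⟩, ⟨1060, 4000, 1000⟩⟩) (by decide +kernel) yA_ak,
    posD_sub (b := ⟨⟨0, 1, 1⟩, ⟨98, 99, 147⟩, ⟨0, 301, 10000⟩, ⟨1060, 4000, 1000⟩⟩) (by decide +kernel) yA_aw,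
    posD_sub (b := ⟨⟨0, 1, 1⟩, ⟨98, 99, 147⟩, ⟨0, 301, 10000⟩, ⟨1060, 4000, 1000⟩⟩) (by decide +kernel) yA_gk,
    posD_sub (b := ⟨⟨0, 1, 1⟩, ⟨98, 99, 147⟩, ⟨0, 301, 10000⟩, ⟨1060, 4000, 1000⟩⟩) (by decide +kernel) yA_gw,
    posD_sub (b := ⟨⟨0, 1, 1⟩, ⟨98, 99, 147⟩, ⟨0, 301, 10000⟩, ⟨1060, 4000, 1000⟩⟩) (by decide +kernel) yA_ek,
    posD_sub (b := ⟨⟨0, 1, 1⟩, ⟨98, 99, 147⟩, ⟨0, 301, 10000⟩, ⟨1060, 4000, 1000⟩⟩) (by decide +kernel) yA_ew⟩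

def yA2B_pp : PosD ⟨⟨0, 1, 1⟩, ⟨98, 99, 147⟩, ⟨0, 301, 10000⟩, ⟨1500, 2200, 1000⟩⟩ (yA2B.xPL) :=
  posD_of_check0 (c := ⟨61, ⟨1, 1, 2, 2⟩⟩) (by decide +kernel)

def yA2B_k2p : PosD ⟨⟨0, 1, 1⟩, ⟨98, 99, 147⟩, ⟨0, 301, 10000⟩, ⟨1500, 2200, 1000⟩⟩ (yA2B.k2p yA2B.xE) :=
  posD_of_check0 (c := ⟨63, ⟨1, 1, 2, 2⟩⟩) (by decide +kernel)

def yA2B_k2m : PosD ⟨⟨0, 1, 1⟩, ⟨98, 99, 147⟩, ⟨0, 301, 10000⟩, ⟨1500, 2200, 1000⟩⟩ (yA2B.k2m yA2B.xE) :=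
  posD_of_check0 (c := ⟨20, ⟨0, 0, 1, 0⟩⟩) (by decide +kernel)

def yA2B_v2p : PosD ⟨⟨0, 1, 1⟩, ⟨98, 99, 147⟩, ⟨0, 301, 10000⟩, ⟨1500, 2200, 1000⟩⟩ (yA2B.hV2p) :=
  posD_of_check0 (c := ⟨256, ⟨1, 6, 10, 5⟩⟩) (by decide +kernel)

def yA2B_v2m : PosD ⟨⟨0, 1, 1⟩, ⟨98, 99, 147⟩, ⟨0, 301, 10000⟩, ⟨1500, 2200, 1000⟩⟩ (yA2B.hV2m) :=
  posD_of_check0 (c := ⟨224, ⟨0, 5, 10, 4⟩⟩) (by decide +kernel)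

def yA2B_v3p : PosD ⟨⟨0, 1, 1⟩, ⟨98, 99, 147⟩, ⟨0, 301, 10000⟩, ⟨1500, 2200, 1000⟩⟩ (yA2B.hV3p) :=
  posD_of_check0 (c := ⟨246, ⟨1, 6, 9, 5⟩⟩) (by decide +kernel)

def yA2B_v3m : PosD ⟨⟨0, 1, 1⟩, ⟨98, 99, 147⟩, ⟨0, 301, 10000⟩, ⟨1500, 2200, 1000⟩⟩ (yA2B.hV3m) :=
  posD_of_check0 (c := ⟨220, ⟨0, 5, 9, 4⟩⟩) (by decide +kernel)

def yA2B_kap0 : PosD ⟨⟨0, 1, 1⟩, ⟨98, 99, 147⟩, ⟨0, 301, 10000⟩, ⟨1500, 2200, 1000⟩⟩ (yA2B.kap false) :=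
  posD_of_check0 (c := ⟨67, ⟨1, 1, 2, 2⟩⟩) (by decide +kernel)

def yA2B_c10 : PosD ⟨⟨0, 1, 1⟩, ⟨98, 99, 147⟩, ⟨0, 301, 10000⟩, ⟨1500, 2200, 1000⟩⟩ (yA2B.hC1 false) :=
  posD_of_check0 (c := ⟨232, ⟨3, 5, 8, 6⟩⟩) (by decide +kernel)

def yA2B_c1h0 : PosD ⟨⟨0, 1, 1⟩, ⟨98, 99, 147⟩, ⟨0, 301, 10000⟩, ⟨1500, 2200, 1000⟩⟩ (yA2B.hC1' false) :=
  posD_of_check0 (c := ⟨232, ⟨3, 5, 8, 6⟩⟩) (by decide +kernel)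

def yA2B_tg00 : PosD ⟨⟨0, 1, 1⟩, ⟨98, 99, 147⟩, ⟨0, 301, 10000⟩, ⟨1500, 2200, 1000⟩⟩ (yA2B.hG false (yA2B.pEnd false)) :=
  posD_of_check0 (c := ⟨360, ⟨2, 7, 14, 9⟩⟩) (by decide +kernel)

def yA2B_c2p00 : PosD ⟨⟨0, 1, 1⟩, ⟨98, 99, 147⟩, ⟨0, 301, 10000⟩, ⟨1500, 2200, 1000⟩⟩ (yA2B.hC2p false (yA2B.pEnd false)) :=
  posD_of_check0 (c := ⟨423, ⟨3, 8, 16, 11⟩⟩) (by decide +kernel)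

def yA2B_c2m00 : PosD ⟨⟨0, 1, 1⟩, ⟨98, 99, 147⟩, ⟨0, 301, 10000⟩, ⟨1500, 2200, 1000⟩⟩ (yA2B.hC2m false (yA2B.pEnd false)) :=
  posD_of_check0 (c := ⟨381, ⟨2, 7, 15, 9⟩⟩) (by decide +kernel)

def yA2B_c3p00 : PosD ⟨⟨0, 1, 1⟩, ⟨98, 99, 147⟩, ⟨0, 301, 10000⟩, ⟨1500, 2200, 1000⟩⟩ (yA2B.hC3p false false) :=
  posD_of_check0 (c := ⟨392, ⟨3, 8, 14, 10⟩⟩) (by decide +kernel)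

def yA2B_c3m00 : PosD ⟨⟨0, 1, 1⟩, ⟨98, 99, 147⟩, ⟨0, 301, 10000⟩, ⟨1500, 2200, 1000⟩⟩ (yA2B.hC3m false false) :=
  posD_of_check0 (c := ⟨356, ⟨3, 7, 14, 8⟩⟩) (by decide +kernel)

def yA2B_c3ph00 : PosD ⟨⟨0, 1, 1⟩, ⟨98, 99, 147⟩, ⟨0, 301, 10000⟩, ⟨1500, 2200, 1000⟩⟩ (yA2B.hC3p' false false) :=
  posD_of_check0 (c := ⟨392, ⟨3, 8, 14, 10⟩⟩) (by decide +kernel)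

def yA2B_c3mh00 : PosD ⟨⟨0, 1, 1⟩, ⟨98, 99, 147⟩, ⟨0, 301, 10000⟩, ⟨1500, 2200, 1000⟩⟩ (yA2B.hC3m' false false) :=
  posD_of_check0 (c := ⟨356, ⟨3, 7, 14, 8⟩⟩) (by decide +kernel)

def yA2B_up00 : PosD ⟨⟨0, 1, 1⟩, ⟨98, 99, 147⟩, ⟨0, 301, 10000⟩, ⟨1500, 2200, 1000⟩⟩ (yA2B.hUp false false) :=
  posD_of_check0 (c := ⟨390, ⟨3, 8, 14, 10⟩⟩) (by decide +kernel)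

def yA2B_um00 : PosD ⟨⟨0, 1, 1⟩, ⟨98, 99, 147⟩, ⟨0, 301, 10000⟩, ⟨1500, 2200, 1000⟩⟩ (yA2B.hUm false false) :=
  posD_of_check0 (c := ⟨353, ⟨2, 7, 14, 8⟩⟩) (by decide +kernel)

def yA2B_tmg00 : PosD ⟨⟨0, 1, 1⟩, ⟨98, 99, 147⟩, ⟨0, 301, 10000⟩, ⟨1500, 2200, 1000⟩⟩ (yA2B.hTMG false (yA2B.pEnd false)) :=
  posD_of_check0 (c := ⟨339, ⟨2, 7, 13, 8⟩⟩) (by decide +kernel)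

def yA2B_tg01 : PosD ⟨⟨0, 1, 1⟩, ⟨98, 99, 147⟩, ⟨0, 301, 10000⟩, ⟨1500, 2200, 1000⟩⟩ (yA2B.hG true (yA2B.pEnd false)) :=
  posD_of_check0 (c := ⟨360, ⟨2, 7, 14, 9⟩⟩) (by decide +kernel)

def yA2B_c2p01 : PosD ⟨⟨0, 1, 1⟩, ⟨98, 99, 147⟩, ⟨0, 301, 10000⟩, ⟨1500, 2200, 1000⟩⟩ (yA2B.hC2p true (yA2B.pEnd false)) :=
  posD_of_check0 (c := ⟨423, ⟨3, 8, 16, 11⟩⟩) (by decide +kernel)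

def yA2B_c2m01 : PosD ⟨⟨0, 1, 1⟩, ⟨98, 99, 147⟩, ⟨0, 301, 10000⟩, ⟨1500, 2200, 1000⟩⟩ (yA2B.hC2m true (yA2B.pEnd false)) :=
  posD_of_check0 (c := ⟨381, ⟨2, 7, 15, 9⟩⟩) (by decide +kernel)

def yA2B_c3p01 : PosD ⟨⟨0, 1, 1⟩, ⟨98, 99, 147⟩, ⟨0, 301, 10000⟩, ⟨1500, 2200, 1000⟩⟩ (yA2B.hC3p false true) :=
  posD_of_check0 (c := ⟨392, ⟨3, 8, 14, 10⟩⟩) (by decide +kernel)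

def yA2B_c3m01 : PosD ⟨⟨0, 1, 1⟩, ⟨98, 99, 147⟩, ⟨0, 301, 10000⟩, ⟨1500, 2200, 1000⟩⟩ (yA2B.hC3m false true) :=
  posD_of_check0 (c := ⟨356, ⟨3, 7, 14, 8⟩⟩) (by decide +kernel)

def yA2B_c3ph01 : PosD ⟨⟨0, 1, 1⟩, ⟨98, 99, 147⟩, ⟨0, 301, 10000⟩, ⟨1500, 2200, 1000⟩⟩ (yA2B.hC3p' false true) :=
  posD_of_check0 (c := ⟨392, ⟨3, 8, 14, 10⟩⟩) (by decide +kernel)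

def yA2B_c3mh01 : PosD ⟨⟨0, 1, 1⟩, ⟨98, 99, 147⟩, ⟨0, 301, 10000⟩, ⟨1500, 2200, 1000⟩⟩ (yA2B.hC3m' false true) :=
  posD_of_check0 (c := ⟨356, ⟨3, 7, 14, 8⟩⟩) (by decide +kernel)

def yA2B_up01 : PosD ⟨⟨0, 1, 1⟩, ⟨98, 99, 147⟩, ⟨0, 301, 10000⟩, ⟨1500, 2200, 1000⟩⟩ (yA2B.hUp false true) :=
  posD_of_check0 (c := ⟨390, ⟨3, 8, 14, 10⟩⟩) (by decide +kernel)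

def yA2B_um01 : PosD ⟨⟨0, 1, 1⟩, ⟨98, 99, 147⟩, ⟨0, 301, 10000⟩, ⟨1500, 2200, 1000⟩⟩ (yA2B.hUm false true) :=
  posD_of_check0 (c := ⟨353, ⟨2, 7, 14, 8⟩⟩) (by decide +kernel)

def yA2B_tmg01 : PosD ⟨⟨0, 1, 1⟩, ⟨98, 99, 147⟩, ⟨0, 301, 10000⟩, ⟨1500, 2200, 1000⟩⟩ (yA2B.hTMG true (yA2B.pEnd false)) :=
  posD_of_check0 (c := ⟨339, ⟨2, 7, 13, 8⟩⟩) (by decide +kernel)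

def yA2B_kap1 : PosD ⟨⟨0, 1, 1⟩, ⟨98, 99, 147⟩, ⟨0, 301, 10000⟩, ⟨1500, 2200, 1000⟩⟩ (yA2B.kap true) :=
  posD_of_check0 (c := ⟨67, ⟨1, 1, 2, 2⟩⟩) (by decide +kernel)

def yA2B_c11 : PosD ⟨⟨0, 1, 1⟩, ⟨98, 99, 147⟩, ⟨0, 301, 10000⟩, ⟨1500, 2200, 1000⟩⟩ (yA2B.hC1 true) :=
  posD_of_check0 (c := ⟨261, ⟨3, 5, 9, 7⟩⟩) (by decide +kernel)

def yA2B_c1h1 : PosD ⟨⟨0, 1, 1⟩, ⟨98, 99, 147⟩, ⟨0, 301, 10000⟩, ⟨1500, 2200, 1000⟩⟩ (yA2B.hC1' true) :=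
  posD_of_check0 (c := ⟨261, ⟨3, 5, 9, 7⟩⟩) (by decide +kernel)

def yA2B_tg10 : PosD ⟨⟨0, 1, 1⟩, ⟨98, 99, 147⟩, ⟨0, 301, 10000⟩, ⟨1500, 2200, 1000⟩⟩ (yA2B.hG false (yA2B.pEnd true)) :=
  posD_of_check0 (c := ⟨369, ⟨2, 7, 14, 9⟩⟩) (by decide +kernel)

def yA2B_c2p10 : PosD ⟨⟨0, 1, 1⟩, ⟨98, 99, 147⟩, ⟨0, 301, 10000⟩, ⟨1500, 2200, 1000⟩⟩ (yA2B.hC2p false (yA2B.pEnd true)) :=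
  posD_of_check0 (c := ⟨432, ⟨3, 8, 16, 11⟩⟩) (by decide +kernel)

def yA2B_c2m10 : PosD ⟨⟨0, 1, 1⟩, ⟨98, 99, 147⟩, ⟨0, 301, 10000⟩, ⟨1500, 2200, 1000⟩⟩ (yA2B.hC2m false (yA2B.pEnd true)) :=
  posD_of_check0 (c := ⟨401, ⟨2, 7, 16, 10⟩⟩) (by decide +kernel)

def yA2B_c3p10 : PosD ⟨⟨0, 1, 1⟩, ⟨98, 99, 147⟩, ⟨0, 301, 10000⟩, ⟨1500, 2200, 1000⟩⟩ (yA2B.hC3p true false) :=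
  posD_of_check0 (c := ⟨425, ⟨3, 8, 15, 11⟩⟩) (by decide +kernel)

def yA2B_c3m10 : PosD ⟨⟨0, 1, 1⟩, ⟨98, 99, 147⟩, ⟨0, 301, 10000⟩, ⟨1500, 2200, 1000⟩⟩ (yA2B.hC3m true false) :=
  posD_of_check0 (c := ⟨401, ⟨3, 7, 15, 10⟩⟩) (by decide +kernel)

def yA2B_c3ph10 : PosD ⟨⟨0, 1, 1⟩, ⟨98, 99, 147⟩, ⟨0, 301, 10000⟩, ⟨1500, 2200, 1000⟩⟩ (yA2B.hC3p' true false) :=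
  posD_of_check0 (c := ⟨425, ⟨3, 8, 15, 11⟩⟩) (by decide +kernel)

def yA2B_c3mh10 : PosD ⟨⟨0, 1, 1⟩, ⟨98, 99, 147⟩, ⟨0, 301, 10000⟩, ⟨1500, 2200, 1000⟩⟩ (yA2B.hC3m' true false) :=
  posD_of_check0 (c := ⟨401, ⟨3, 7, 15, 10⟩⟩) (by decide +kernel)

def yA2B_up10 : PosD ⟨⟨0, 1, 1⟩, ⟨98, 99, 147⟩, ⟨0, 301, 10000⟩, ⟨1500, 2200, 1000⟩⟩ (yA2B.hUp true false) :=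
  posD_of_check0 (c := ⟨424, ⟨3, 8, 15, 11⟩⟩) (by decide +kernel)

def yA2B_um10 : PosD ⟨⟨0, 1, 1⟩, ⟨98, 99, 147⟩, ⟨0, 301, 10000⟩, ⟨1500, 2200, 1000⟩⟩ (yA2B.hUm true false) :=
  posD_of_check0 (c := ⟨398, ⟨2, 7, 15, 10⟩⟩) (by decide +kernel)

def yA2B_tmg10 : PosD ⟨⟨0, 1, 1⟩, ⟨98, 99, 147⟩, ⟨0, 301, 10000⟩, ⟨1500, 2200, 1000⟩⟩ (yA2B.hTMG false (yA2B.pEnd true)) :=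
  posD_of_check0 (c := ⟨384, ⟨2, 7, 14, 10⟩⟩) (by decide +kernel)

def yA2B_tg11 : PosD ⟨⟨0, 1, 1⟩, ⟨98, 99, 147⟩, ⟨0, 301, 10000⟩, ⟨1500, 2200, 1000⟩⟩ (yA2B.hG true (yA2B.pEnd true)) :=
  posD_of_check0 (c := ⟨369, ⟨2, 7, 14, 9⟩⟩) (by decide +kernel)

def yA2B_c2p11 : PosD ⟨⟨0, 1, 1⟩, ⟨98, 99, 147⟩, ⟨0, 301, 10000⟩, ⟨1500, 2200, 1000⟩⟩ (yA2B.hC2p true (yA2B.pEnd true)) :=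
  posD_of_check0 (c := ⟨432, ⟨3, 8, 16, 11⟩⟩) (by decide +kernel)

def yA2B_c2m11 : PosD ⟨⟨0, 1, 1⟩, ⟨98, 99, 147⟩, ⟨0, 301, 10000⟩, ⟨1500, 2200, 1000⟩⟩ (yA2B.hC2m true (yA2B.pEnd true)) :=
  posD_of_check0 (c := ⟨401, ⟨2, 7, 16, 10⟩⟩) (by decide +kernel)

def yA2B_c3p11 : PosD ⟨⟨0, 1, 1⟩, ⟨98, 99, 147⟩, ⟨0, 301, 10000⟩, ⟨1500, 2200, 1000⟩⟩ (yA2B.hC3p true true) :=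
  posD_of_check0 (c := ⟨425, ⟨3, 8, 15, 11⟩⟩) (by decide +kernel)

def yA2B_c3m11 : PosD ⟨⟨0, 1, 1⟩, ⟨98, 99, 147⟩, ⟨0, 301, 10000⟩, ⟨1500, 2200, 1000⟩⟩ (yA2B.hC3m true true) :=
  posD_of_check0 (c := ⟨401, ⟨3, 7, 15, 10⟩⟩) (by decide +kernel)

def yA2B_c3ph11 : PosD ⟨⟨0, 1, 1⟩, ⟨98, 99, 147⟩, ⟨0, 301, 10000⟩, ⟨1500, 2200, 1000⟩⟩ (yA2B.hC3p' true true) :=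
  posD_of_check0 (c := ⟨425, ⟨3, 8, 15, 11⟩⟩) (by decide +kernel)

def yA2B_c3mh11 : PosD ⟨⟨0, 1, 1⟩, ⟨98, 99, 147⟩, ⟨0, 301, 10000⟩, ⟨1500, 2200, 1000⟩⟩ (yA2B.hC3m' true true) :=
  posD_of_check0 (c := ⟨401, ⟨3, 7, 15, 10⟩⟩) (by decide +kernel)

def yA2B_up11 : PosD ⟨⟨0, 1, 1⟩, ⟨98, 99, 147⟩, ⟨0, 301, 10000⟩, ⟨1500, 2200, 1000⟩⟩ (yA2B.hUp true true) :=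
  posD_of_check0 (c := ⟨424, ⟨3, 8, 15, 11⟩⟩) (by decide +kernel)

def yA2B_um11 : PosD ⟨⟨0, 1, 1⟩, ⟨98, 99, 147⟩, ⟨0, 301, 10000⟩, ⟨1500, 2200, 1000⟩⟩ (yA2B.hUm true true) :=
  posD_of_check0 (c := ⟨398, ⟨2, 7, 15, 10⟩⟩) (by decide +kernel)

def yA2B_tmg11 : PosD ⟨⟨0, 1, 1⟩, ⟨98, 99, 147⟩, ⟨0, 301, 10000⟩, ⟨1500, 2200, 1000⟩⟩ (yA2B.hTMG true (yA2B.pEnd true)) :=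
  posD_of_check0 (c := ⟨384, ⟨2, 7, 14, 10⟩⟩) (by decide +kernel)

/-- The signs of the piece. -/
def yA2B_sign : yA2B.Sign ⟨⟨0, 1, 1⟩, ⟨98, 99, 147⟩, ⟨0, 301, 10000⟩, ⟨1500, 2200, 1000⟩⟩ :=
  ⟨yA2B_pp,
    yA2B_k2p,
    yA2B_k2m,
    Bool.forall_bool.2 ⟨(Bool.forall_bool.2 ⟨yA2B_tg00, yA2B_tg01⟩), (Bool.forall_bool.2 ⟨yA2B_tg10, yA2B_tg11⟩)⟩,
    Bool.forall_bool.2 ⟨(Bool.forall_bool.2 ⟨yA2B_c2p00, yA2B_c2p01⟩), (Bool.forall_bool.2 ⟨yA2B_c2p10, yA2B_c2p11⟩)⟩,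
    Bool.forall_bool.2 ⟨(Bool.forall_bool.2 ⟨yA2B_c2m00, yA2B_c2m01⟩), (Bool.forall_bool.2 ⟨yA2B_c2m10, yA2B_c2m11⟩)⟩,
    Bool.forall_bool.2 ⟨yA2B_kap0, yA2B_kap1⟩,
    Bool.forall_bool.2 ⟨yA2B_c10, yA2B_c11⟩,
    Bool.forall_bool.2 ⟨(Bool.forall_bool.2 ⟨yA2B_c3p00, yA2B_c3p01⟩), (Bool.forall_bool.2 ⟨yA2B_c3p10, yA2B_c3p11⟩)⟩,
    Bool.forall_bool.2 ⟨(Bool.forall_bool.2 ⟨yA2B_c3m00, yA2B_c3m01⟩), (Bool.forall_bool.2 ⟨yA2B_c3m10, yA2B_c3m11⟩)⟩,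
    Bool.forall_bool.2 ⟨(Bool.forall_bool.2 ⟨yA2B_tmg00, yA2B_tmg01⟩), (Bool.forall_bool.2 ⟨yA2B_tmg10, yA2B_tmg11⟩)⟩,
    .inr (Bool.forall_bool.2 ⟨⟨yA2B_c1h0, Bool.forall_bool.2 ⟨⟨yA2B_c3ph00, yA2B_c3mh00, yA2B_up00, yA2B_um00⟩, ⟨yA2B_c3ph01, yA2B_c3mh01, yA2B_up01, yA2B_um01⟩⟩⟩, ⟨yA2B_c1h1, Bool.forall_bool.2 ⟨⟨yA2B_c3ph10, yA2B_c3mh10, yA2B_up10, yA2B_um10⟩, ⟨yA2B_c3ph11, yA2B_c3mh11, yA2B_up11, yA2B_um11⟩⟩⟩⟩),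
    yA2B_v2p,
    yA2B_v2m,
    yA2B_v3p,
    yA2B_v3m,
    posD_sub (b := ⟨⟨0, 1, 1⟩, ⟨98, 99, 147⟩, ⟨0, 301, 10000⟩, ⟨1060, 4000, 1000⟩⟩) (by decide +kernel) yA_vG,
    posD_sub (b := ⟨⟨0, 1, 1⟩, ⟨98, 99, 147⟩, ⟨0, 301, 10000⟩, ⟨1060, 4000, 1000⟩⟩) (by decide +kernel) yA_vMG,
    posD_sub (b := ⟨⟨0, 1, 1⟩, ⟨98, 99, 147⟩, ⟨0, 301, 10000⟩, ⟨1060, 4000, 1000⟩⟩) (by decide +kernel) yA_ak,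
    posD_sub (b := ⟨⟨0, 1, 1⟩, ⟨98, 99, 147⟩, ⟨0, 301, 10000⟩, ⟨1060, 4000, 1000⟩⟩) (by decide +kernel) yA_aw,
    posD_sub (b := ⟨⟨0, 1, 1⟩, ⟨98, 99, 147⟩, ⟨0, 301, 10000⟩, ⟨1060, 4000, 1000⟩⟩) (by decide +kernel) yA_gk,
    posD_sub (b := ⟨⟨0, 1, 1⟩, ⟨98, 99, 147⟩, ⟨0, 301, 10000⟩, ⟨1060, 4000, 1000⟩⟩) (by decide +kernel) yA_gw,
    posD_sub (b := ⟨⟨0, 1, 1⟩, ⟨98, 99, 147⟩, ⟨0, 301, 10000⟩, ⟨1060, 4000, 1000⟩⟩) (by decide +kernel) yA_ek,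
    posD_sub (b := ⟨⟨0, 1, 1⟩, ⟨98, 99, 147⟩, ⟨0, 301, 10000⟩, ⟨1060, 4000, 1000⟩⟩) (by decide +kernel) yA_ew⟩

end Vale.Agent.P100.Calib.Closed.Six.Tail
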