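import Vale.Agent.P100.Calib.SlabSixTailDataLayerA
import Vale.Agent.P100.Calib.SlabSixTailGlobLayerA

/-!
# Checks of some pieces of the certificate

The checks are written as definitions so that they run one after another, which keeps the memory of the
kernel low.
-/

set_option linter.defProp false

namespace Vale.Agent.P100.Calib.Closed.Six.Tail

open BoxPos Large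

local instance sixTailChecksyA10Add : Add Ex := ⟨Ex.add⟩
local instance sixTailChecksyA10Sub : Sub Ex := ⟨Ex.sub⟩
local instance sixTailChecksyA10Mul : Mul Ex := ⟨Ex.mul⟩

def yA16_p0 : PosD ⟨⟨0, 1, 1⟩, ⟨98, 99, 147⟩, ⟨262, 301, 10000⟩, ⟨2886, 3000, 1000⟩⟩ (yA16.hP0) :=
  posD_of_check (c := ⟨82, ⟨0, 2, 3, 1⟩⟩) (by decide +kernel)

def yA16_gn : PosD ⟨⟨0, 1, 1⟩, ⟨98, 99, 147⟩, ⟨262, 301, 10000⟩, ⟨2886, 3000, 1000⟩⟩ (yA16.hGn) :=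
  posD_of_check (c := ⟨58, ⟨1, 1, 2, 1⟩⟩) (by decide +kernel)

def yA16_den0 : PosD ⟨⟨0, 1, 1⟩, ⟨98, 99, 147⟩, ⟨262, 301, 10000⟩, ⟨2886, 3000, 1000⟩⟩ (yA16.hDen false) :=
  posD_of_check (c := ⟨45, ⟨0, 0, 2, 0⟩⟩) (by decide +kernel)

def yA16_den1 : PosD ⟨⟨0, 1, 1⟩, ⟨98, 99, 147⟩, ⟨262, 301, 10000⟩, ⟨2886, 3000, 1000⟩⟩ (yA16.hDen true) :=
  posD_of_check (c := ⟨22, ⟨1, 0, 1, 0⟩⟩) (by decide +kernel)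

def yA16_ev0 : PosD ⟨⟨0, 1, 1⟩, ⟨98, 99, 147⟩, ⟨262, 301, 10000⟩, ⟨2886, 3000, 1000⟩⟩ (yA16.hEv false) :=
  posD_of_check (c := ⟨149, ⟨2, 2, 6, 1⟩⟩) (by decide +kernel)

def yA16_zL0 : PosD ⟨⟨0, 1, 1⟩, ⟨98, 99, 147⟩, ⟨262, 301, 10000⟩, ⟨2886, 3000, 1000⟩⟩ (yA16.hZL false) :=
  posD_of_check (c := ⟨159, ⟨2, 3, 6, 3⟩⟩) (by decide +kernel)

def yA16_zU0 : PosD ⟨⟨0, 1, 1⟩, ⟨98, 99, 147⟩, ⟨262, 301, 10000⟩, ⟨2886, 3000, 1000⟩⟩ (yA16.hZU false) :=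
  posD_of_check (c := ⟨159, ⟨2, 3, 6, 3⟩⟩) (by decide +kernel)

def yA16_eL0a : PosD ⟨⟨0, 1, 1⟩, ⟨98, 99, 147⟩, ⟨262, 281, 10000⟩, ⟨2886, 3000, 1000⟩⟩ (yA16.hEL false) :=
  posD_of_check (c := ⟨267, ⟨3, 6, 9, 3⟩⟩) (by decide +kernel)

def yA16_eL0b : PosD ⟨⟨0, 1, 1⟩, ⟨98, 99, 147⟩, ⟨281, 301, 10000⟩, ⟨2886, 3000, 1000⟩⟩ (yA16.hEL false) :=
  posD_of_check (c := ⟨267, ⟨3, 6, 9, 3⟩⟩) (by decide +kernel)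

def yA16_eL0 : PosD ⟨⟨0, 1, 1⟩, ⟨98, 99, 147⟩, ⟨262, 301, 10000⟩, ⟨2886, 3000, 1000⟩⟩ (yA16.hEL false) :=
  posD_join₂ yA16_eL0a yA16_eL0b

def yA16_eH0 : PosD ⟨⟨0, 1, 1⟩, ⟨98, 99, 147⟩, ⟨262, 301, 10000⟩, ⟨2886, 3000, 1000⟩⟩ (yA16.hEH false) :=
  posD_of_check (c := ⟨241, ⟨3, 6, 9, 3⟩⟩) (by decide +kernel)

def yA16_pL0 : PosD ⟨⟨0, 1, 1⟩, ⟨98, 99, 147⟩, ⟨262, 301, 10000⟩, ⟨2886, 3000, 1000⟩⟩ (yA16.hPL false) :=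
  posD_of_check (c := ⟨261, ⟨3, 6, 9, 3⟩⟩) (by decide +kernel)

def yA16_pU0 : PosD ⟨⟨0, 1, 1⟩, ⟨98, 99, 147⟩, ⟨262, 301, 10000⟩, ⟨2886, 3000, 1000⟩⟩ (yA16.hPU false) :=
  posD_of_check (c := ⟨267, ⟨3, 6, 9, 3⟩⟩) (by decide +kernel)

def yA16_kU0 : PosD ⟨⟨0, 1, 1⟩, ⟨98, 99, 147⟩, ⟨262, 301, 10000⟩, ⟨2886, 3000, 1000⟩⟩ (yA16.hKU false) :=
  posD_of_check (c := ⟨255, ⟨3, 6, 9, 3⟩⟩) (by decide +kernel)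

def yA16_kL0 : PosD ⟨⟨0, 1, 1⟩, ⟨98, 99, 147⟩, ⟨262, 301, 10000⟩, ⟨2886, 3000, 1000⟩⟩ (yA16.hKL false) :=
  posD_of_check (c := ⟨265, ⟨3, 6, 9, 3⟩⟩) (by decide +kernel)

def yA16_wU0 : PosD ⟨⟨0, 1, 1⟩, ⟨98, 99, 147⟩, ⟨262, 301, 10000⟩, ⟨2886, 3000, 1000⟩⟩ (yA16.hWU false) :=
  posD_of_check (c := ⟨290, ⟨3, 8, 10, 3⟩⟩) (by decide +kernel)

def yA16_wL0 : PosD ⟨⟨0, 1, 1⟩, ⟨98, 99, 147⟩, ⟨262, 301, 10000⟩, ⟨2886, 3000, 1000⟩⟩ (yA16.hWL false) :=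
  posD_of_check (c := ⟨300, ⟨3, 8, 10, 3⟩⟩) (by decide +kernel)

def yA16_ev1 : PosD ⟨⟨0, 1, 1⟩, ⟨98, 99, 147⟩, ⟨262, 301, 10000⟩, ⟨2886, 3000, 1000⟩⟩ (yA16.hEv true) :=
  posD_of_check (c := ⟨120, ⟨2, 2, 6, 1⟩⟩) (by decide +kernel)

def yA16_zL1 : PosD ⟨⟨0, 1, 1⟩, ⟨98, 99, 147⟩, ⟨262, 301, 10000⟩, ⟨2886, 3000, 1000⟩⟩ (yA16.hZL true) :=
  posD_of_check (c := ⟨134, ⟨2, 3, 6, 3⟩⟩) (by decide +kernel)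

def yA16_zU1 : PosD ⟨⟨0, 1, 1⟩, ⟨98, 99, 147⟩, ⟨262, 301, 10000⟩, ⟨2886, 3000, 1000⟩⟩ (yA16.hZU true) :=
  posD_of_check (c := ⟨134, ⟨2, 3, 6, 3⟩⟩) (by decide +kernel)

def yA16_eL1 : PosD ⟨⟨0, 1, 1⟩, ⟨98, 99, 147⟩, ⟨262, 301, 10000⟩, ⟨2886, 3000, 1000⟩⟩ (yA16.hEL true) :=
  posD_of_check (c := ⟨238, ⟨3, 6, 9, 3⟩⟩) (by decide +kernel)

def yA16_eH1 : PosD ⟨⟨0, 1, 1⟩, ⟨98, 99, 147⟩, ⟨262, 301, 10000⟩, ⟨2886, 3000, 1000⟩⟩ (yA16.hEH true) :=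
  posD_of_check (c := ⟨213, ⟨3, 6, 9, 3⟩⟩) (by decide +kernel)

def yA16_pL1 : PosD ⟨⟨0, 1, 1⟩, ⟨98, 99, 147⟩, ⟨262, 301, 10000⟩, ⟨2886, 3000, 1000⟩⟩ (yA16.hPL true) :=
  posD_of_check (c := ⟨233, ⟨3, 6, 9, 3⟩⟩) (by decide +kernel)

def yA16_pU1 : PosD ⟨⟨0, 1, 1⟩, ⟨98, 99, 147⟩, ⟨262, 301, 10000⟩, ⟨2886, 3000, 1000⟩⟩ (yA16.hPU true) :=
  posD_of_check (c := ⟨239, ⟨3, 6, 9, 3⟩⟩) (by decide +kernel)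

def yA16_kU1 : PosD ⟨⟨0, 1, 1⟩, ⟨98, 99, 147⟩, ⟨262, 301, 10000⟩, ⟨2886, 3000, 1000⟩⟩ (yA16.hKU true) :=
  posD_of_check (c := ⟨226, ⟨3, 6, 9, 3⟩⟩) (by decide +kernel)

def yA16_kL1 : PosD ⟨⟨0, 1, 1⟩, ⟨98, 99, 147⟩, ⟨262, 301, 10000⟩, ⟨2886, 3000, 1000⟩⟩ (yA16.hKL true) :=
  posD_of_check (c := ⟨237, ⟨3, 6, 9, 3⟩⟩) (by decide +kernel)

def yA16_wU1 : PosD ⟨⟨0, 1, 1⟩, ⟨98, 99, 147⟩, ⟨262, 301, 10000⟩, ⟨2886, 3000, 1000⟩⟩ (yA16.hWU true) :=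
  posD_of_check (c := ⟨261, ⟨3, 8, 10, 3⟩⟩) (by decide +kernel)

def yA16_wL1 : PosD ⟨⟨0, 1, 1⟩, ⟨98, 99, 147⟩, ⟨262, 301, 10000⟩, ⟨2886, 3000, 1000⟩⟩ (yA16.hWL true) :=
  posD_of_check (c := ⟨272, ⟨3, 8, 10, 3⟩⟩) (by decide +kernel)

def yA16_nueL : PosD ⟨⟨0, 1, 1⟩, ⟨98, 99, 147⟩, ⟨262, 301, 10000⟩, ⟨2886, 3000, 1000⟩⟩ (yA16.eL.ν) :=
  posD_of_check (c := ⟨45, ⟨0, 0, 1, 1⟩⟩) (by decide +kernel)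

def yA16_nupU : PosD ⟨⟨0, 1, 1⟩, ⟨98, 99, 147⟩, ⟨262, 301, 10000⟩, ⟨2886, 3000, 1000⟩⟩ (yA16.pU.ν) :=
  posD_of_check (c := ⟨45, ⟨0, 0, 1, 1⟩⟩) (by decide +kernel)

def yA16_nukL : PosD ⟨⟨0, 1, 1⟩, ⟨98, 99, 147⟩, ⟨262, 301, 10000⟩, ⟨2886, 3000, 1000⟩⟩ (yA16.kL.ν) :=
  posD_of_check (c := ⟨44, ⟨0, 0, 1, 1⟩⟩) (by decide +kernel)

def yA16_nuwL : PosD ⟨⟨0, 1, 1⟩, ⟨98, 99, 147⟩, ⟨262, 301, 10000⟩, ⟨2886, 3000, 1000⟩⟩ (yA16.wL.ν) :=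
  posD_of_check (c := ⟨49, ⟨0, 0, 1, 1⟩⟩) (by decide +kernel)

/-- The bounds of the piece. -/
def yA16_env : yA16.Env ⟨⟨0, 1, 1⟩, ⟨98, 99, 147⟩, ⟨262, 301, 10000⟩, ⟨2886, 3000, 1000⟩⟩ :=
  ⟨yA16_p0, Bool.forall_bool.2 ⟨yA16_den0, yA16_den1⟩, yA16_gn, Bool.forall_bool.2 ⟨yA16_ev0, yA16_ev1⟩, Bool.forall_bool.2 ⟨yA16_zL0, yA16_zL1⟩, Bool.forall_bool.2 ⟨yA16_zU0, yA16_zU1⟩, Bool.forall_bool.2 ⟨yA16_eL0, yA16_eL1⟩, ⟨.inr rfl, .inl yA16_nueL⟩, Bool.forall_bool.2 ⟨yA16_eH0, yA16_eH1⟩, ⟨.inr rfl, .inr rfl⟩, Bool.forall_bool.2 ⟨yA16_pL0, yA16_pL1⟩, ⟨.inr rfl, .inr rfl⟩, Bool.forall_bool.2 ⟨yA16_pU0, yA16_pU1⟩, ⟨.inr rfl, .inl yA16_nupU⟩, Bool.forall_bool.2 ⟨yA16_kU0, yA16_kU1⟩, ⟨.inr rfl, .inr rfl⟩, Bool.forall_bool.2 ⟨yA16_kL0,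 yA16_kL1⟩, ⟨.inr rfl, .inl yA16_nukL⟩, Bool.forall_bool.2 ⟨yA16_wU0, yA16_wU1⟩, ⟨.inr rfl, .inr rfl⟩, Bool.forall_bool.2 ⟨yA16_wL0, yA16_wL1⟩, ⟨.inr rfl, .inl yA16_nuwL⟩⟩

def yA16_pp : PosD ⟨⟨0, 1, 1⟩, ⟨98, 99, 147⟩, ⟨262, 301, 10000⟩, ⟨2886, 3000, 1000⟩⟩ (yA16.xPL) :=
  posD_of_check (c := ⟨94, ⟨1, 1, 3, 3⟩⟩) (by decide +kernel)

def yA16_k2p : PosD ⟨⟨0, 1, 1⟩, ⟨98, 99, 147⟩, ⟨262, 301, 10000⟩, ⟨2886, 3000, 1000⟩⟩ (yA16.k2p yA16.xE) :=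
  posD_of_check (c := ⟨64, ⟨1, 1, 2, 2⟩⟩) (by decide +kernel)

def yA16_k2m : PosD ⟨⟨0, 1, 1⟩, ⟨98, 99, 147⟩, ⟨262, 301, 10000⟩, ⟨2886, 3000, 1000⟩⟩ (yA16.k2m yA16.xE) :=
  posD_of_check (c := ⟨64, ⟨1, 1, 2, 2⟩⟩) (by decide +kernel)

def yA16_v2p : PosD ⟨⟨0, 1, 1⟩, ⟨98, 99, 147⟩, ⟨262, 301, 10000⟩, ⟨2886, 3000, 1000⟩⟩ (yA16.hV2p) :=
  posD_of_check (c := ⟨257, ⟨1, 6, 10, 5⟩⟩) (by decide +kernel)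

def yA16_v2m : PosD ⟨⟨0, 1, 1⟩, ⟨98, 99, 147⟩, ⟨262, 301, 10000⟩, ⟨2886, 3000, 1000⟩⟩ (yA16.hV2m) :=
  posD_of_check (c := ⟨257, ⟨1, 6, 10, 5⟩⟩) (by decide +kernel)

def yA16_v3p : PosD ⟨⟨0, 1, 1⟩, ⟨98, 99, 147⟩, ⟨262, 301, 10000⟩, ⟨2886, 3000, 1000⟩⟩ (yA16.hV3p) :=
  posD_of_check (c := ⟨246, ⟨1, 6, 9, 5⟩⟩) (by decide +kernel)

def yA16_v3m : PosD ⟨⟨0, 1, 1⟩, ⟨98, 99, 147⟩, ⟨262, 301, 10000⟩, ⟨2886, 3000, 1000⟩⟩ (yA16.hV3m) :=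
  posD_of_check (c := ⟨246, ⟨1, 6, 9, 5⟩⟩) (by decide +kernel)

def yA16_kap0 : PosD ⟨⟨0, 1, 1⟩, ⟨98, 99, 147⟩, ⟨262, 301, 10000⟩, ⟨2886, 3000, 1000⟩⟩ (yA16.kap false) :=
  posD_of_check (c := ⟨72, ⟨1, 1, 2, 2⟩⟩) (by decide +kernel)

def yA16_c10 : PosD ⟨⟨0, 1, 1⟩, ⟨98, 99, 147⟩, ⟨262, 301, 10000⟩, ⟨2886, 3000, 1000⟩⟩ (yA16.hC1 false) :=
  posD_of_check (c := ⟨271, ⟨3, 5, 9, 7⟩⟩) (by decide +kernel)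

def yA16_c1h0 : PosD ⟨⟨0, 1, 1⟩, ⟨98, 99, 147⟩, ⟨262, 301, 10000⟩, ⟨2886, 3000, 1000⟩⟩ (yA16.hC1' false) :=
  posD_of_check (c := ⟨271, ⟨3, 5, 9, 7⟩⟩) (by decide +kernel)

def yA16_tg00 : PosD ⟨⟨0, 1, 1⟩, ⟨98, 99, 147⟩, ⟨262, 301, 10000⟩, ⟨2886, 3000, 1000⟩⟩ (yA16.hG false (yA16.pEnd false)) :=
  posD_of_check (c := ⟨377, ⟨2, 7, 14, 9⟩⟩) (by decide +kernel)

def yA16_c2p00 : PosD ⟨⟨0, 1, 1⟩, ⟨98, 99, 147⟩, ⟨262, 301, 10000⟩, ⟨2886, 3000, 1000⟩⟩ (yA16.hC2p false (yA16.pEnd false)) :=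
  posD_of_check (c := ⟨441, ⟨3, 8, 16, 11⟩⟩) (by decide +kernel)

def yA16_c2m00 : PosD ⟨⟨0, 1, 1⟩, ⟨98, 99, 147⟩, ⟨262, 301, 10000⟩, ⟨2886, 3000, 1000⟩⟩ (yA16.hC2m false (yA16.pEnd false)) :=
  posD_of_check (c := ⟨440, ⟨3, 8, 16, 11⟩⟩) (by decide +kernel)

def yA16_c3p00 : PosD ⟨⟨0, 1, 1⟩, ⟨98, 99, 147⟩, ⟨262, 301, 10000⟩, ⟨2886, 3000, 1000⟩⟩ (yA16.hC3p false false) :=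
  posD_of_check (c := ⟨435, ⟨3, 8, 15, 11⟩⟩) (by decide +kernel)

def yA16_c3m00 : PosD ⟨⟨0, 1, 1⟩, ⟨98, 99, 147⟩, ⟨262, 301, 10000⟩, ⟨2886, 3000, 1000⟩⟩ (yA16.hC3m false false) :=
  posD_of_check (c := ⟨435, ⟨3, 8, 15, 11⟩⟩) (by decide +kernel)

def yA16_c3ph00 : PosD ⟨⟨0, 1, 1⟩, ⟨98, 99, 147⟩, ⟨262, 301, 10000⟩, ⟨2886, 3000, 1000⟩⟩ (yA16.hC3p' false false) :=
  posD_of_check (c := ⟨435, ⟨3, 8, 15, 11⟩⟩) (by decide +kernel)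

def yA16_c3mh00 : PosD ⟨⟨0, 1, 1⟩, ⟨98, 99, 147⟩, ⟨262, 301, 10000⟩, ⟨2886, 3000, 1000⟩⟩ (yA16.hC3m' false false) :=
  posD_of_check (c := ⟨435, ⟨3, 8, 15, 11⟩⟩) (by decide +kernel)

def yA16_up00 : PosD ⟨⟨0, 1, 1⟩, ⟨98, 99, 147⟩, ⟨262, 301, 10000⟩, ⟨2886, 3000, 1000⟩⟩ (yA16.hUp false false) :=
  posD_of_check (c := ⟨430, ⟨3, 8, 15, 11⟩⟩) (by decide +kernel)

def yA16_um00 : PosD ⟨⟨0, 1, 1⟩, ⟨98, 99, 147⟩, ⟨262, 301, 10000⟩, ⟨2886, 3000, 1000⟩⟩ (yA16.hUm false false) :=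
  posD_of_check (c := ⟨430, ⟨3, 8, 15, 11⟩⟩) (by decide +kernel)

def yA16_tmg00 : PosD ⟨⟨0, 1, 1⟩, ⟨98, 99, 147⟩, ⟨262, 301, 10000⟩, ⟨2886, 3000, 1000⟩⟩ (yA16.hTMG false (yA16.pEnd false)) :=
  posD_of_check (c := ⟨390, ⟨2, 7, 14, 10⟩⟩) (by decide +kernel)

def yA16_tg01 : PosD ⟨⟨0, 1, 1⟩, ⟨98, 99, 147⟩, ⟨262, 301, 10000⟩, ⟨2886, 3000, 1000⟩⟩ (yA16.hG true (yA16.pEnd false)) :=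
  posD_of_check (c := ⟨377, ⟨2, 7, 14, 9⟩⟩) (by decide +kernel)

def yA16_c2p01 : PosD ⟨⟨0, 1, 1⟩, ⟨98, 99, 147⟩, ⟨262, 301, 10000⟩, ⟨2886, 3000, 1000⟩⟩ (yA16.hC2p true (yA16.pEnd false)) :=
  posD_of_check (c := ⟨441, ⟨3, 8, 16, 11⟩⟩) (by decide +kernel)

def yA16_c2m01 : PosD ⟨⟨0, 1, 1⟩, ⟨98, 99, 147⟩, ⟨262, 301, 10000⟩, ⟨2886, 3000, 1000⟩⟩ (yA16.hC2m true (yA16.pEnd false)) :=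
  posD_of_check (c := ⟨440, ⟨3, 8, 16, 11⟩⟩) (by decide +kernel)

def yA16_c3p01 : PosD ⟨⟨0, 1, 1⟩, ⟨98, 99, 147⟩, ⟨262, 301, 10000⟩, ⟨2886, 3000, 1000⟩⟩ (yA16.hC3p false true) :=
  posD_of_check (c := ⟨435, ⟨3, 8, 15, 11⟩⟩) (by decide +kernel)

def yA16_c3m01 : PosD ⟨⟨0, 1, 1⟩, ⟨98, 99, 147⟩, ⟨262, 301, 10000⟩, ⟨2886, 3000, 1000⟩⟩ (yA16.hC3m false true) :=
  posD_of_check (c := ⟨435, ⟨3, 8, 15, 11⟩⟩) (by decide +kernel)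

def yA16_c3ph01 : PosD ⟨⟨0, 1, 1⟩, ⟨98, 99, 147⟩, ⟨262, 301, 10000⟩, ⟨2886, 3000, 1000⟩⟩ (yA16.hC3p' false true) :=
  posD_of_check (c := ⟨435, ⟨3, 8, 15, 11⟩⟩) (by decide +kernel)

def yA16_c3mh01 : PosD ⟨⟨0, 1, 1⟩, ⟨98, 99, 147⟩, ⟨262, 301, 10000⟩, ⟨2886, 3000, 1000⟩⟩ (yA16.hC3m' false true) :=
  posD_of_check (c := ⟨435, ⟨3, 8, 15, 11⟩⟩) (by decide +kernel)

def yA16_up01 : PosD ⟨⟨0, 1, 1⟩, ⟨98, 99, 147⟩, ⟨262, 301, 10000⟩, ⟨2886, 3000, 1000⟩⟩ (yA16.hUp false true) :=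
  posD_of_check (c := ⟨430, ⟨3, 8, 15, 11⟩⟩) (by decide +kernel)

def yA16_um01 : PosD ⟨⟨0, 1, 1⟩, ⟨98, 99, 147⟩, ⟨262, 301, 10000⟩, ⟨2886, 3000, 1000⟩⟩ (yA16.hUm false true) :=
  posD_of_check (c := ⟨430, ⟨3, 8, 15, 11⟩⟩) (by decide +kernel)

def yA16_tmg01 : PosD ⟨⟨0, 1, 1⟩, ⟨98, 99, 147⟩, ⟨262, 301, 10000⟩, ⟨2886, 3000, 1000⟩⟩ (yA16.hTMG true (yA16.pEnd false)) :=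
  posD_of_check (c := ⟨390, ⟨2, 7, 14, 10⟩⟩) (by decide +kernel)

def yA16_kap1 : PosD ⟨⟨0, 1, 1⟩, ⟨98, 99, 147⟩, ⟨262, 301, 10000⟩, ⟨2886, 3000, 1000⟩⟩ (yA16.kap true) :=
  posD_of_check (c := ⟨67, ⟨1, 1, 2, 2⟩⟩) (by decide +kernel)

def yA16_c11 : PosD ⟨⟨0, 1, 1⟩, ⟨98, 99, 147⟩, ⟨262, 301, 10000⟩, ⟨2886, 3000, 1000⟩⟩ (yA16.hC1 true) :=
  posD_of_check (c := ⟨265, ⟨3, 5, 9, 7⟩⟩) (by decide +kernel)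

def yA16_c1h1 : PosD ⟨⟨0, 1, 1⟩, ⟨98, 99, 147⟩, ⟨262, 301, 10000⟩, ⟨2886, 3000, 1000⟩⟩ (yA16.hC1' true) :=
  posD_of_check (c := ⟨265, ⟨3, 5, 9, 7⟩⟩) (by decide +kernel)

def yA16_tg10 : PosD ⟨⟨0, 1, 1⟩, ⟨98, 99, 147⟩, ⟨262, 301, 10000⟩, ⟨2886, 3000, 1000⟩⟩ (yA16.hG false (yA16.pEnd true)) :=
  posD_of_check (c := ⟨372, ⟨2, 7, 14, 9⟩⟩) (by decide +kernel)

def yA16_c2p10 : PosD ⟨⟨0, 1, 1⟩, ⟨98, 99, 147⟩, ⟨262, 301, 10000⟩, ⟨2886, 3000, 1000⟩⟩ (yA16.hC2p false (yA16.pEnd true)) :=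
  posD_of_check (c := ⟨437, ⟨3, 8, 16, 11⟩⟩) (by decide +kernel)

def yA16_c2m10 : PosD ⟨⟨0, 1, 1⟩, ⟨98, 99, 147⟩, ⟨262, 301, 10000⟩, ⟨2886, 3000, 1000⟩⟩ (yA16.hC2m false (yA16.pEnd true)) :=
  posD_of_check (c := ⟨436, ⟨3, 8, 16, 11⟩⟩) (by decide +kernel)

def yA16_c3p10 : PosD ⟨⟨0, 1, 1⟩, ⟨98, 99, 147⟩, ⟨262, 301, 10000⟩, ⟨2886, 3000, 1000⟩⟩ (yA16.hC3p true false) :=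
  posD_of_check (c := ⟨429, ⟨3, 8, 15, 11⟩⟩) (by decide +kernel)

def yA16_c3m10 : PosD ⟨⟨0, 1, 1⟩, ⟨98, 99, 147⟩, ⟨262, 301, 10000⟩, ⟨2886, 3000, 1000⟩⟩ (yA16.hC3m true false) :=
  posD_of_check (c := ⟨429, ⟨3, 8, 15, 11⟩⟩) (by decide +kernel)

def yA16_c3ph10 : PosD ⟨⟨0, 1, 1⟩, ⟨98, 99, 147⟩, ⟨262, 301, 10000⟩, ⟨2886, 3000, 1000⟩⟩ (yA16.hC3p' true false) :=
  posD_of_check (c := ⟨429, ⟨3, 8, 15, 11⟩⟩) (by decide +kernel)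

def yA16_c3mh10 : PosD ⟨⟨0, 1, 1⟩, ⟨98, 99, 147⟩, ⟨262, 301, 10000⟩, ⟨2886, 3000, 1000⟩⟩ (yA16.hC3m' true false) :=
  posD_of_check (c := ⟨429, ⟨3, 8, 15, 11⟩⟩) (by decide +kernel)

def yA16_up10 : PosD ⟨⟨0, 1, 1⟩, ⟨98, 99, 147⟩, ⟨262, 301, 10000⟩, ⟨2886, 3000, 1000⟩⟩ (yA16.hUp true false) :=
  posD_of_check (c := ⟨427, ⟨3, 8, 15, 11⟩⟩) (by decide +kernel)

def yA16_um10 : PosD ⟨⟨0, 1, 1⟩, ⟨98, 99, 147⟩, ⟨262, 301, 10000⟩, ⟨2886, 3000, 1000⟩⟩ (yA16.hUm true false) :=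
  posD_of_check (c := ⟨427, ⟨3, 8, 15, 11⟩⟩) (by decide +kernel)

def yA16_tmg10 : PosD ⟨⟨0, 1, 1⟩, ⟨98, 99, 147⟩, ⟨262, 301, 10000⟩, ⟨2886, 3000, 1000⟩⟩ (yA16.hTMG false (yA16.pEnd true)) :=
  posD_of_check (c := ⟨387, ⟨2, 7, 14, 10⟩⟩) (by decide +kernel)

def yA16_tg11 : PosD ⟨⟨0, 1, 1⟩, ⟨98, 99, 147⟩, ⟨262, 301, 10000⟩, ⟨2886, 3000, 1000⟩⟩ (yA16.hG true (yA16.pEnd true)) :=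
  posD_of_check (c := ⟨372, ⟨2, 7, 14, 9⟩⟩) (by decide +kernel)

def yA16_c2p11 : PosD ⟨⟨0, 1, 1⟩, ⟨98, 99, 147⟩, ⟨262, 301, 10000⟩, ⟨2886, 3000, 1000⟩⟩ (yA16.hC2p true (yA16.pEnd true)) :=
  posD_of_check (c := ⟨437, ⟨3, 8, 16, 11⟩⟩) (by decide +kernel)

def yA16_c2m11 : PosD ⟨⟨0, 1, 1⟩, ⟨98, 99, 147⟩, ⟨262, 301, 10000⟩, ⟨2886, 3000, 1000⟩⟩ (yA16.hC2m true (yA16.pEnd true)) :=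
  posD_of_check (c := ⟨436, ⟨3, 8, 16, 11⟩⟩) (by decide +kernel)

def yA16_c3p11 : PosD ⟨⟨0, 1, 1⟩, ⟨98, 99, 147⟩, ⟨262, 301, 10000⟩, ⟨2886, 3000, 1000⟩⟩ (yA16.hC3p true true) :=
  posD_of_check (c := ⟨429, ⟨3, 8, 15, 11⟩⟩) (by decide +kernel)

def yA16_c3m11 : PosD ⟨⟨0, 1, 1⟩, ⟨98, 99, 147⟩, ⟨262, 301, 10000⟩, ⟨2886, 3000, 1000⟩⟩ (yA16.hC3m true true) :=
  posD_of_check (c := ⟨429, ⟨3, 8, 15, 11⟩⟩) (by decide +kernel)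

def yA16_c3ph11 : PosD ⟨⟨0, 1, 1⟩, ⟨98, 99, 147⟩, ⟨262, 301, 10000⟩, ⟨2886, 3000, 1000⟩⟩ (yA16.hC3p' true true) :=
  posD_of_check (c := ⟨429, ⟨3, 8, 15, 11⟩⟩) (by decide +kernel)

def yA16_c3mh11 : PosD ⟨⟨0, 1, 1⟩, ⟨98, 99, 147⟩, ⟨262, 301, 10000⟩, ⟨2886, 3000, 1000⟩⟩ (yA16.hC3m' true true) :=
  posD_of_check (c := ⟨429, ⟨3, 8, 15, 11⟩⟩) (by decide +kernel)

def yA16_up11 : PosD ⟨⟨0, 1, 1⟩, ⟨98, 99, 147⟩, ⟨262, 301, 10000⟩, ⟨2886, 3000, 1000⟩⟩ (yA16.hUp true true) :=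
  posD_of_check (c := ⟨427, ⟨3, 8, 15, 11⟩⟩) (by decide +kernel)

def yA16_um11 : PosD ⟨⟨0, 1, 1⟩, ⟨98, 99, 147⟩, ⟨262, 301, 10000⟩, ⟨2886, 3000, 1000⟩⟩ (yA16.hUm true true) :=
  posD_of_check (c := ⟨427, ⟨3, 8, 15, 11⟩⟩) (by decide +kernel)

def yA16_tmg11 : PosD ⟨⟨0, 1, 1⟩, ⟨98, 99, 147⟩, ⟨262, 301, 10000⟩, ⟨2886, 3000, 1000⟩⟩ (yA16.hTMG true (yA16.pEnd true)) :=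
  posD_of_check (c := ⟨387, ⟨2, 7, 14, 10⟩⟩) (by decide +kernel)

/-- The signs of the piece. -/
def yA16_sign : yA16.Sign ⟨⟨0, 1, 1⟩, ⟨98, 99, 147⟩, ⟨262, 301, 10000⟩, ⟨2886, 3000, 1000⟩⟩ :=
  ⟨yA16_pp,
    yA16_k2p,
    yA16_k2m,
    Bool.forall_bool.2 ⟨(Bool.forall_bool.2 ⟨yA16_tg00, yA16_tg01⟩), (Bool.forall_bool.2 ⟨yA16_tg10, yA16_tg11⟩)⟩,
    Bool.forall_bool.2 ⟨(Bool.forall_bool.2 ⟨yA16_c2p00, yA16_c2p01⟩), (Bool.forall_bool.2 ⟨yA16_c2p10, yA16_c2p11⟩)⟩,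
    Bool.forall_bool.2 ⟨(Bool.forall_bool.2 ⟨yA16_c2m00, yA16_c2m01⟩), (Bool.forall_bool.2 ⟨yA16_c2m10, yA16_c2m11⟩)⟩,
    Bool.forall_bool.2 ⟨yA16_kap0, yA16_kap1⟩,
    Bool.forall_bool.2 ⟨yA16_c10, yA16_c11⟩,
    Bool.forall_bool.2 ⟨(Bool.forall_bool.2 ⟨yA16_c3p00, yA16_c3p01⟩), (Bool.forall_bool.2 ⟨yA16_c3p10, yA16_c3p11⟩)⟩,
    Bool.forall_bool.2 ⟨(Bool.forall_bool.2 ⟨yA16_c3m00, yA16_c3m01⟩), (Bool.forall_bool.2 ⟨yA16_c3m10, yA16_c3m11⟩)⟩,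
    Bool.forall_bool.2 ⟨(Bool.forall_bool.2 ⟨yA16_tmg00, yA16_tmg01⟩), (Bool.forall_bool.2 ⟨yA16_tmg10, yA16_tmg11⟩)⟩,
    .inr (Bool.forall_bool.2 ⟨⟨yA16_c1h0, Bool.forall_bool.2 ⟨⟨yA16_c3ph00, yA16_c3mh00, yA16_up00, yA16_um00⟩, ⟨yA16_c3ph01, yA16_c3mh01, yA16_up01, yA16_um01⟩⟩⟩, ⟨yA16_c1h1, Bool.forall_bool.2 ⟨⟨yA16_c3ph10, yA16_c3mh10, yA16_up10, yA16_um10⟩, ⟨yA16_c3ph11, yA16_c3mh11, yA16_up11, yA16_um11⟩⟩⟩⟩),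
    yA16_v2p,
    yA16_v2m,
    yA16_v3p,
    yA16_v3m,
    posD_sub (b := ⟨⟨0, 1, 1⟩, ⟨98, 99, 147⟩, ⟨0, 301, 10000⟩, ⟨1060, 4000, 1000⟩⟩) (by decide +kernel) yA_vG,
    posD_sub (b := ⟨⟨0, 1, 1⟩, ⟨98, 99, 147⟩, ⟨0, 301, 10000⟩, ⟨1060, 4000, 1000⟩⟩) (by decide +kernel) yA_vMG,
    posD_sub (b := ⟨⟨0, 1, 1⟩, ⟨98, 99, 147⟩, ⟨0, 301, 10000⟩, ⟨1060, 4000, 1000⟩⟩) (by decide +kernel) yA_ak,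
    posD_sub (b := ⟨⟨0, 1, 1⟩, ⟨98, 99, 147⟩, ⟨0, 301, 10000⟩, ⟨1060, 4000, 1000⟩⟩) (by decide +kernel) yA_aw,
    posD_sub (b := ⟨⟨0, 1, 1⟩, ⟨98, 99, 147⟩, ⟨0, 301, 10000⟩, ⟨1060, 4000, 1000⟩⟩) (by decide +kernel) yA_gk,
    posD_sub (b := ⟨⟨0, 1, 1⟩, ⟨98, 99, 147⟩, ⟨0, 301, 10000⟩, ⟨1060, 4000, 1000⟩⟩) (by decide +kernel) yA_gw,
    posD_sub (b := ⟨⟨0, 1, 1⟩, ⟨98, 99, 147⟩, ⟨0, 301, 10000⟩, ⟨1060, 4000, 1000⟩⟩) (by decide +kernel) yA_ek,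
    posD_sub (b := ⟨⟨0, 1, 1⟩, ⟨98, 99, 147⟩, ⟨0, 301, 10000⟩, ⟨1060, 4000, 1000⟩⟩) (by decide +kernel) yA_ew⟩

end Vale.Agent.P100.Calib.Closed.Six.Tail
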