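import Vale.Agent.P100.Calib.SlabSixTailDataLayerA
import Vale.Agent.P100.Calib.SlabSixTailGlobLayerA

/-!
# Checks of some pieces of the certificate

The checks are written as definitions so that they run one after another, which keeps the memory of the
kernel low.
-/

set_option linter.defProp false

namespace Vale.Agent.P100.Calib.Closed.Six.Tail

open BoxPos Large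

local instance sixTailChecksyA11Add : Add Ex := ⟨Ex.add⟩
local instance sixTailChecksyA11Sub : Sub Ex := ⟨Ex.sub⟩
local instance sixTailChecksyA11Mul : Mul Ex := ⟨Ex.mul⟩

def yA17_p0 : PosD ⟨⟨0, 1, 1⟩, ⟨98, 99, 147⟩, ⟨150, 301, 10000⟩, ⟨2886, 3000, 1000⟩⟩ (yA17.hP0) :=
  posD_of_check (c := ⟨82, ⟨0, 2, 3, 1⟩⟩) (by decide +kernel)

def yA17_gn : PosD ⟨⟨0, 1, 1⟩, ⟨98, 99, 147⟩, ⟨150, 301, 10000⟩, ⟨2886, 3000, 1000⟩⟩ (yA17.hGn) :=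
  posD_of_check (c := ⟨58, ⟨1, 1, 2, 1⟩⟩) (by decide +kernel)

def yA17_den0 : PosD ⟨⟨0, 1, 1⟩, ⟨98, 99, 147⟩, ⟨150, 301, 10000⟩, ⟨2886, 3000, 1000⟩⟩ (yA17.hDen false) :=
  posD_of_check (c := ⟨45, ⟨0, 0, 2, 0⟩⟩) (by decide +kernel)

def yA17_den1 : PosD ⟨⟨0, 1, 1⟩, ⟨98, 99, 147⟩, ⟨150, 301, 10000⟩, ⟨2886, 3000, 1000⟩⟩ (yA17.hDen true) :=
  posD_of_check (c := ⟨22, ⟨1, 0, 1, 0⟩⟩) (by decide +kernel)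

def yA17_ev0 : PosD ⟨⟨0, 1, 1⟩, ⟨98, 99, 147⟩, ⟨150, 301, 10000⟩, ⟨2886, 3000, 1000⟩⟩ (yA17.hEv false) :=
  posD_of_check (c := ⟨148, ⟨2, 2, 6, 1⟩⟩) (by decide +kernel)

def yA17_zL0 : PosD ⟨⟨0, 1, 1⟩, ⟨98, 99, 147⟩, ⟨150, 301, 10000⟩, ⟨2886, 3000, 1000⟩⟩ (yA17.hZL false) :=
  posD_of_check (c := ⟨159, ⟨2, 3, 6, 3⟩⟩) (by decide +kernel)

def yA17_zU0 : PosD ⟨⟨0, 1, 1⟩, ⟨98, 99, 147⟩, ⟨150, 301, 10000⟩, ⟨2886, 3000, 1000⟩⟩ (yA17.hZU false) :=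
  posD_of_check (c := ⟨159, ⟨2, 3, 6, 3⟩⟩) (by decide +kernel)

def yA17_eL0a : PosD ⟨⟨0, 1, 1⟩, ⟨98, 99, 147⟩, ⟨150, 225, 10000⟩, ⟨2886, 3000, 1000⟩⟩ (yA17.hEL false) :=
  posD_of_check (c := ⟨269, ⟨3, 6, 9, 3⟩⟩) (by decide +kernel)

def yA17_eL0b : PosD ⟨⟨0, 1, 1⟩, ⟨98, 99, 147⟩, ⟨225, 301, 10000⟩, ⟨2886, 3000, 1000⟩⟩ (yA17.hEL false) :=
  posD_of_check (c := ⟨269, ⟨3, 6, 9, 3⟩⟩) (by decide +kernel)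

def yA17_eL0 : PosD ⟨⟨0, 1, 1⟩, ⟨98, 99, 147⟩, ⟨150, 301, 10000⟩, ⟨2886, 3000, 1000⟩⟩ (yA17.hEL false) :=
  posD_join₂ yA17_eL0a yA17_eL0b

def yA17_eH0 : PosD ⟨⟨0, 1, 1⟩, ⟨98, 99, 147⟩, ⟨150, 301, 10000⟩, ⟨2886, 3000, 1000⟩⟩ (yA17.hEH false) :=
  posD_of_check (c := ⟨241, ⟨3, 6, 9, 3⟩⟩) (by decide +kernel)

def yA17_pL0 : PosD ⟨⟨0, 1, 1⟩, ⟨98, 99, 147⟩, ⟨150, 301, 10000⟩, ⟨2886, 3000, 1000⟩⟩ (yA17.hPL false) :=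
  posD_of_check (c := ⟨260, ⟨3, 6, 9, 3⟩⟩) (by decide +kernel)

def yA17_pU0 : PosD ⟨⟨0, 1, 1⟩, ⟨98, 99, 147⟩, ⟨150, 301, 10000⟩, ⟨2886, 3000, 1000⟩⟩ (yA17.hPU false) :=
  posD_of_check (c := ⟨268, ⟨3, 6, 9, 3⟩⟩) (by decide +kernel)

def yA17_kU0 : PosD ⟨⟨0, 1, 1⟩, ⟨98, 99, 147⟩, ⟨150, 301, 10000⟩, ⟨2886, 3000, 1000⟩⟩ (yA17.hKU false) :=
  posD_of_check (c := ⟨254, ⟨3, 6, 9, 3⟩⟩) (by decide +kernel)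

def yA17_kL0 : PosD ⟨⟨0, 1, 1⟩, ⟨98, 99, 147⟩, ⟨150, 301, 10000⟩, ⟨2886, 3000, 1000⟩⟩ (yA17.hKL false) :=
  posD_of_check (c := ⟨253, ⟨3, 6, 9, 3⟩⟩) (by decide +kernel)

def yA17_wU0 : PosD ⟨⟨0, 1, 1⟩, ⟨98, 99, 147⟩, ⟨150, 301, 10000⟩, ⟨2886, 3000, 1000⟩⟩ (yA17.hWU false) :=
  posD_of_check (c := ⟨290, ⟨3, 8, 10, 3⟩⟩) (by decide +kernel)

def yA17_wL0 : PosD ⟨⟨0, 1, 1⟩, ⟨98, 99, 147⟩, ⟨150, 301, 10000⟩, ⟨2886, 3000, 1000⟩⟩ (yA17.hWL false) :=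
  posD_of_check (c := ⟨299, ⟨3, 8, 10, 3⟩⟩) (by decide +kernel)

def yA17_ev1 : PosD ⟨⟨0, 1, 1⟩, ⟨98, 99, 147⟩, ⟨150, 301, 10000⟩, ⟨2886, 3000, 1000⟩⟩ (yA17.hEv true) :=
  posD_of_check (c := ⟨120, ⟨2, 2, 6, 1⟩⟩) (by decide +kernel)

def yA17_zL1 : PosD ⟨⟨0, 1, 1⟩, ⟨98, 99, 147⟩, ⟨150, 301, 10000⟩, ⟨2886, 3000, 1000⟩⟩ (yA17.hZL true) :=
  posD_of_check (c := ⟨134, ⟨2, 3, 6, 3⟩⟩) (by decide +kernel)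

def yA17_zU1 : PosD ⟨⟨0, 1, 1⟩, ⟨98, 99, 147⟩, ⟨150, 301, 10000⟩, ⟨2886, 3000, 1000⟩⟩ (yA17.hZU true) :=
  posD_of_check (c := ⟨134, ⟨2, 3, 6, 3⟩⟩) (by decide +kernel)

def yA17_eL1 : PosD ⟨⟨0, 1, 1⟩, ⟨98, 99, 147⟩, ⟨150, 301, 10000⟩, ⟨2886, 3000, 1000⟩⟩ (yA17.hEL true) :=
  posD_of_check (c := ⟨241, ⟨3, 6, 9, 3⟩⟩) (by decide +kernel)

def yA17_eH1 : PosD ⟨⟨0, 1, 1⟩, ⟨98, 99, 147⟩, ⟨150, 301, 10000⟩, ⟨2886, 3000, 1000⟩⟩ (yA17.hEH true) :=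
  posD_of_check (c := ⟨213, ⟨3, 6, 9, 3⟩⟩) (by decide +kernel)

def yA17_pL1 : PosD ⟨⟨0, 1, 1⟩, ⟨98, 99, 147⟩, ⟨150, 301, 10000⟩, ⟨2886, 3000, 1000⟩⟩ (yA17.hPL true) :=
  posD_of_check (c := ⟨232, ⟨3, 6, 9, 3⟩⟩) (by decide +kernel)

def yA17_pU1 : PosD ⟨⟨0, 1, 1⟩, ⟨98, 99, 147⟩, ⟨150, 301, 10000⟩, ⟨2886, 3000, 1000⟩⟩ (yA17.hPU true) :=
  posD_of_check (c := ⟨239, ⟨3, 6, 9, 3⟩⟩) (by decide +kernel)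

def yA17_kU1 : PosD ⟨⟨0, 1, 1⟩, ⟨98, 99, 147⟩, ⟨150, 301, 10000⟩, ⟨2886, 3000, 1000⟩⟩ (yA17.hKU true) :=
  posD_of_check (c := ⟨226, ⟨3, 6, 9, 3⟩⟩) (by decide +kernel)

def yA17_kL1 : PosD ⟨⟨0, 1, 1⟩, ⟨98, 99, 147⟩, ⟨150, 301, 10000⟩, ⟨2886, 3000, 1000⟩⟩ (yA17.hKL true) :=
  posD_of_check (c := ⟨225, ⟨3, 6, 9, 3⟩⟩) (by decide +kernel)

def yA17_wU1 : PosD ⟨⟨0, 1, 1⟩, ⟨98, 99, 147⟩, ⟨150, 301, 10000⟩, ⟨2886, 3000, 1000⟩⟩ (yA17.hWU true) :=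
  posD_of_check (c := ⟨261, ⟨3, 8, 10, 3⟩⟩) (by decide +kernel)

def yA17_wL1 : PosD ⟨⟨0, 1, 1⟩, ⟨98, 99, 147⟩, ⟨150, 301, 10000⟩, ⟨2886, 3000, 1000⟩⟩ (yA17.hWL true) :=
  posD_of_check (c := ⟨271, ⟨3, 8, 10, 3⟩⟩) (by decide +kernel)

def yA17_nueL : PosD ⟨⟨0, 1, 1⟩, ⟨98, 99, 147⟩, ⟨150, 301, 10000⟩, ⟨2886, 3000, 1000⟩⟩ (yA17.eL.ν) :=
  posD_of_check (c := ⟨48, ⟨0, 0, 1, 1⟩⟩) (by decide +kernel)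

def yA17_nupU : PosD ⟨⟨0, 1, 1⟩, ⟨98, 99, 147⟩, ⟨150, 301, 10000⟩, ⟨2886, 3000, 1000⟩⟩ (yA17.pU.ν) :=
  posD_of_check (c := ⟨46, ⟨0, 0, 1, 1⟩⟩) (by decide +kernel)

def yA17_nuwL : PosD ⟨⟨0, 1, 1⟩, ⟨98, 99, 147⟩, ⟨150, 301, 10000⟩, ⟨2886, 3000, 1000⟩⟩ (yA17.wL.ν) :=
  posD_of_check (c := ⟨47, ⟨0, 0, 1, 1⟩⟩) (by decide +kernel)

/-- The bounds of the piece. -/
def yA17_env : yA17.Env ⟨⟨0, 1, 1⟩, ⟨98, 99, 147⟩, ⟨150, 301, 10000⟩, ⟨2886, 3000, 1000⟩⟩ :=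
  ⟨yA17_p0, Bool.forall_bool.2 ⟨yA17_den0, yA17_den1⟩, yA17_gn, Bool.forall_bool.2 ⟨yA17_ev0, yA17_ev1⟩, Bool.forall_bool.2 ⟨yA17_zL0, yA17_zL1⟩, Bool.forall_bool.2 ⟨yA17_zU0, yA17_zU1⟩, Bool.forall_bool.2 ⟨yA17_eL0, yA17_eL1⟩, ⟨.inr rfl, .inl yA17_nueL⟩, Bool.forall_bool.2 ⟨yA17_eH0, yA17_eH1⟩, ⟨.inr rfl, .inr rfl⟩, Bool.forall_bool.2 ⟨yA17_pL0, yA17_pL1⟩, ⟨.inr rfl, .inr rfl⟩, Bool.forall_bool.2 ⟨yA17_pU0, yA17_pU1⟩, ⟨.inr rfl, .inl yA17_nupU⟩, Bool.forall_bool.2 ⟨yA17_kU0, yA17_kU1⟩, ⟨.inr rfl, .inr rfl⟩, Bool.forall_bool.2 ⟨yA17_kL0, yA17_kL1⟩, ⟨.inr rfl, .inr rfl⟩, Bool.forall_bool.2 ⟨yA17_wU0, yA17_wU1⟩, ⟨.inr rfl, .inr rfl⟩, Bool.forall_bool.2 ⟨yA17_wL0, yA17_wL1⟩, ⟨.inr rfl, .inl yA17_nuwL⟩⟩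

def yA17_pp : PosD ⟨⟨0, 1, 1⟩, ⟨98, 99, 147⟩, ⟨150, 301, 10000⟩, ⟨2886, 3000, 1000⟩⟩ (yA17.xPL) :=
  posD_of_check (c := ⟨93, ⟨1, 1, 3, 3⟩⟩) (by decide +kernel)

def yA17_k2p : PosD ⟨⟨0, 1, 1⟩, ⟨98, 99, 147⟩, ⟨150, 301, 10000⟩, ⟨2886, 3000, 1000⟩⟩ (yA17.k2p yA17.xE) :=
  posD_of_check (c := ⟨62, ⟨1, 1, 2, 2⟩⟩) (by decide +kernel)

def yA17_k2m : PosD ⟨⟨0, 1, 1⟩, ⟨98, 99, 147⟩, ⟨150, 301, 10000⟩, ⟨2886, 3000, 1000⟩⟩ (yA17.k2m yA17.xE) :=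
  posD_of_check (c := ⟨63, ⟨1, 1, 2, 2⟩⟩) (by decide +kernel)

def yA17_v2p : PosD ⟨⟨0, 1, 1⟩, ⟨98, 99, 147⟩, ⟨150, 301, 10000⟩, ⟨2886, 3000, 1000⟩⟩ (yA17.hV2p) :=
  posD_of_check (c := ⟨255, ⟨1, 6, 10, 5⟩⟩) (by decide +kernel)

def yA17_v2m : PosD ⟨⟨0, 1, 1⟩, ⟨98, 99, 147⟩, ⟨150, 301, 10000⟩, ⟨2886, 3000, 1000⟩⟩ (yA17.hV2m) :=
  posD_of_check (c := ⟨256, ⟨1, 6, 10, 5⟩⟩) (by decide +kernel)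

def yA17_v3p : PosD ⟨⟨0, 1, 1⟩, ⟨98, 99, 147⟩, ⟨150, 301, 10000⟩, ⟨2886, 3000, 1000⟩⟩ (yA17.hV3p) :=
  posD_of_check (c := ⟨246, ⟨1, 6, 9, 5⟩⟩) (by decide +kernel)

def yA17_v3m : PosD ⟨⟨0, 1, 1⟩, ⟨98, 99, 147⟩, ⟨150, 301, 10000⟩, ⟨2886, 3000, 1000⟩⟩ (yA17.hV3m) :=
  posD_of_check (c := ⟨246, ⟨1, 6, 9, 5⟩⟩) (by decide +kernel)

def yA17_kap0 : PosD ⟨⟨0, 1, 1⟩, ⟨98, 99, 147⟩, ⟨150, 301, 10000⟩, ⟨2886, 3000, 1000⟩⟩ (yA17.kap false) :=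
  posD_of_check (c := ⟨74, ⟨1, 1, 2, 2⟩⟩) (by decide +kernel)

def yA17_c10 : PosD ⟨⟨0, 1, 1⟩, ⟨98, 99, 147⟩, ⟨150, 301, 10000⟩, ⟨2886, 3000, 1000⟩⟩ (yA17.hC1 false) :=
  posD_of_check (c := ⟨273, ⟨3, 5, 9, 7⟩⟩) (by decide +kernel)

def yA17_c1h0 : PosD ⟨⟨0, 1, 1⟩, ⟨98, 99, 147⟩, ⟨150, 301, 10000⟩, ⟨2886, 3000, 1000⟩⟩ (yA17.hC1' false) :=
  posD_of_check (c := ⟨273, ⟨3, 5, 9, 7⟩⟩) (by decide +kernel)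

def yA17_tg00 : PosD ⟨⟨0, 1, 1⟩, ⟨98, 99, 147⟩, ⟨150, 301, 10000⟩, ⟨2886, 3000, 1000⟩⟩ (yA17.hG false (yA17.pEnd false)) :=
  posD_of_check (c := ⟨375, ⟨2, 7, 14, 9⟩⟩) (by decide +kernel)

def yA17_c2p00 : PosD ⟨⟨0, 1, 1⟩, ⟨98, 99, 147⟩, ⟨150, 301, 10000⟩, ⟨2886, 3000, 1000⟩⟩ (yA17.hC2p false (yA17.pEnd false)) :=
  posD_of_check (c := ⟨437, ⟨3, 8, 16, 11⟩⟩) (by decide +kernel)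

def yA17_c2m00 : PosD ⟨⟨0, 1, 1⟩, ⟨98, 99, 147⟩, ⟨150, 301, 10000⟩, ⟨2886, 3000, 1000⟩⟩ (yA17.hC2m false (yA17.pEnd false)) :=
  posD_of_check (c := ⟨438, ⟨3, 8, 16, 11⟩⟩) (by decide +kernel)

def yA17_c3p00 : PosD ⟨⟨0, 1, 1⟩, ⟨98, 99, 147⟩, ⟨150, 301, 10000⟩, ⟨2886, 3000, 1000⟩⟩ (yA17.hC3p false false) :=
  posD_of_check (c := ⟨437, ⟨3, 8, 15, 11⟩⟩) (by decide +kernel)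

def yA17_c3m00 : PosD ⟨⟨0, 1, 1⟩, ⟨98, 99, 147⟩, ⟨150, 301, 10000⟩, ⟨2886, 3000, 1000⟩⟩ (yA17.hC3m false false) :=
  posD_of_check (c := ⟨437, ⟨3, 8, 15, 11⟩⟩) (by decide +kernel)

def yA17_c3ph00 : PosD ⟨⟨0, 1, 1⟩, ⟨98, 99, 147⟩, ⟨150, 301, 10000⟩, ⟨2886, 3000, 1000⟩⟩ (yA17.hC3p' false false) :=
  posD_of_check (c := ⟨437, ⟨3, 8, 15, 11⟩⟩) (by decide +kernel)

def yA17_c3mh00 : PosD ⟨⟨0, 1, 1⟩, ⟨98, 99, 147⟩, ⟨150, 301, 10000⟩, ⟨2886, 3000, 1000⟩⟩ (yA17.hC3m' false false) :=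
  posD_of_check (c := ⟨437, ⟨3, 8, 15, 11⟩⟩) (by decide +kernel)

def yA17_up00 : PosD ⟨⟨0, 1, 1⟩, ⟨98, 99, 147⟩, ⟨150, 301, 10000⟩, ⟨2886, 3000, 1000⟩⟩ (yA17.hUp false false) :=
  posD_of_check (c := ⟨429, ⟨3, 8, 15, 11⟩⟩) (by decide +kernel)

def yA17_um00 : PosD ⟨⟨0, 1, 1⟩, ⟨98, 99, 147⟩, ⟨150, 301, 10000⟩, ⟨2886, 3000, 1000⟩⟩ (yA17.hUm false false) :=
  posD_of_check (c := ⟨429, ⟨3, 8, 15, 11⟩⟩) (by decide +kernel)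

def yA17_tmg00 : PosD ⟨⟨0, 1, 1⟩, ⟨98, 99, 147⟩, ⟨150, 301, 10000⟩, ⟨2886, 3000, 1000⟩⟩ (yA17.hTMG false (yA17.pEnd false)) :=
  posD_of_check (c := ⟨389, ⟨2, 7, 14, 10⟩⟩) (by decide +kernel)

def yA17_tg01 : PosD ⟨⟨0, 1, 1⟩, ⟨98, 99, 147⟩, ⟨150, 301, 10000⟩, ⟨2886, 3000, 1000⟩⟩ (yA17.hG true (yA17.pEnd false)) :=
  posD_of_check (c := ⟨375, ⟨2, 7, 14, 9⟩⟩) (by decide +kernel)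

def yA17_c2p01 : PosD ⟨⟨0, 1, 1⟩, ⟨98, 99, 147⟩, ⟨150, 301, 10000⟩, ⟨2886, 3000, 1000⟩⟩ (yA17.hC2p true (yA17.pEnd false)) :=
  posD_of_check (c := ⟨437, ⟨3, 8, 16, 11⟩⟩) (by decide +kernel)

def yA17_c2m01 : PosD ⟨⟨0, 1, 1⟩, ⟨98, 99, 147⟩, ⟨150, 301, 10000⟩, ⟨2886, 3000, 1000⟩⟩ (yA17.hC2m true (yA17.pEnd false)) :=
  posD_of_check (c := ⟨438, ⟨3, 8, 16, 11⟩⟩) (by decide +kernel)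

def yA17_c3p01 : PosD ⟨⟨0, 1, 1⟩, ⟨98, 99, 147⟩, ⟨150, 301, 10000⟩, ⟨2886, 3000, 1000⟩⟩ (yA17.hC3p false true) :=
  posD_of_check (c := ⟨437, ⟨3, 8, 15, 11⟩⟩) (by decide +kernel)

def yA17_c3m01 : PosD ⟨⟨0, 1, 1⟩, ⟨98, 99, 147⟩, ⟨150, 301, 10000⟩, ⟨2886, 3000, 1000⟩⟩ (yA17.hC3m false true) :=
  posD_of_check (c := ⟨437, ⟨3, 8, 15, 11⟩⟩) (by decide +kernel)

def yA17_c3ph01 : PosD ⟨⟨0, 1, 1⟩, ⟨98, 99, 147⟩, ⟨150, 301, 10000⟩, ⟨2886, 3000, 1000⟩⟩ (yA17.hC3p' false true) :=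
  posD_of_check (c := ⟨437, ⟨3, 8, 15, 11⟩⟩) (by decide +kernel)

def yA17_c3mh01 : PosD ⟨⟨0, 1, 1⟩, ⟨98, 99, 147⟩, ⟨150, 301, 10000⟩, ⟨2886, 3000, 1000⟩⟩ (yA17.hC3m' false true) :=
  posD_of_check (c := ⟨437, ⟨3, 8, 15, 11⟩⟩) (by decide +kernel)

def yA17_up01 : PosD ⟨⟨0, 1, 1⟩, ⟨98, 99, 147⟩, ⟨150, 301, 10000⟩, ⟨2886, 3000, 1000⟩⟩ (yA17.hUp false true) :=
  posD_of_check (c := ⟨429, ⟨3, 8, 15, 11⟩⟩) (by decide +kernel)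

def yA17_um01 : PosD ⟨⟨0, 1, 1⟩, ⟨98, 99, 147⟩, ⟨150, 301, 10000⟩, ⟨2886, 3000, 1000⟩⟩ (yA17.hUm false true) :=
  posD_of_check (c := ⟨429, ⟨3, 8, 15, 11⟩⟩) (by decide +kernel)

def yA17_tmg01 : PosD ⟨⟨0, 1, 1⟩, ⟨98, 99, 147⟩, ⟨150, 301, 10000⟩, ⟨2886, 3000, 1000⟩⟩ (yA17.hTMG true (yA17.pEnd false)) :=
  posD_of_check (c := ⟨389, ⟨2, 7, 14, 10⟩⟩) (by decide +kernel)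

def yA17_kap1 : PosD ⟨⟨0, 1, 1⟩, ⟨98, 99, 147⟩, ⟨150, 301, 10000⟩, ⟨2886, 3000, 1000⟩⟩ (yA17.kap true) :=
  posD_of_check (c := ⟨70, ⟨1, 1, 2, 2⟩⟩) (by decide +kernel)

def yA17_c11 : PosD ⟨⟨0, 1, 1⟩, ⟨98, 99, 147⟩, ⟨150, 301, 10000⟩, ⟨2886, 3000, 1000⟩⟩ (yA17.hC1 true) :=
  posD_of_check (c := ⟨268, ⟨3, 5, 9, 7⟩⟩) (by decide +kernel)

def yA17_c1h1 : PosD ⟨⟨0, 1, 1⟩, ⟨98, 99, 147⟩, ⟨150, 301, 10000⟩, ⟨2886, 3000, 1000⟩⟩ (yA17.hC1' true) :=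
  posD_of_check (c := ⟨268, ⟨3, 5, 9, 7⟩⟩) (by decide +kernel)

def yA17_tg10 : PosD ⟨⟨0, 1, 1⟩, ⟨98, 99, 147⟩, ⟨150, 301, 10000⟩, ⟨2886, 3000, 1000⟩⟩ (yA17.hG false (yA17.pEnd true)) :=
  posD_of_check (c := ⟨373, ⟨2, 7, 14, 9⟩⟩) (by decide +kernel)

def yA17_c2p10 : PosD ⟨⟨0, 1, 1⟩, ⟨98, 99, 147⟩, ⟨150, 301, 10000⟩, ⟨2886, 3000, 1000⟩⟩ (yA17.hC2p false (yA17.pEnd true)) :=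
  posD_of_check (c := ⟨435, ⟨3, 8, 16, 11⟩⟩) (by decide +kernel)

def yA17_c2m10 : PosD ⟨⟨0, 1, 1⟩, ⟨98, 99, 147⟩, ⟨150, 301, 10000⟩, ⟨2886, 3000, 1000⟩⟩ (yA17.hC2m false (yA17.pEnd true)) :=
  posD_of_check (c := ⟨435, ⟨3, 8, 16, 11⟩⟩) (by decide +kernel)

def yA17_c3p10 : PosD ⟨⟨0, 1, 1⟩, ⟨98, 99, 147⟩, ⟨150, 301, 10000⟩, ⟨2886, 3000, 1000⟩⟩ (yA17.hC3p true false) :=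
  posD_of_check (c := ⟨432, ⟨3, 8, 15, 11⟩⟩) (by decide +kernel)

def yA17_c3m10 : PosD ⟨⟨0, 1, 1⟩, ⟨98, 99, 147⟩, ⟨150, 301, 10000⟩, ⟨2886, 3000, 1000⟩⟩ (yA17.hC3m true false) :=
  posD_of_check (c := ⟨432, ⟨3, 8, 15, 11⟩⟩) (by decide +kernel)

def yA17_c3ph10 : PosD ⟨⟨0, 1, 1⟩, ⟨98, 99, 147⟩, ⟨150, 301, 10000⟩, ⟨2886, 3000, 1000⟩⟩ (yA17.hC3p' true false) :=
  posD_of_check (c := ⟨432, ⟨3, 8, 15, 11⟩⟩) (by decide +kernel)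

def yA17_c3mh10 : PosD ⟨⟨0, 1, 1⟩, ⟨98, 99, 147⟩, ⟨150, 301, 10000⟩, ⟨2886, 3000, 1000⟩⟩ (yA17.hC3m' true false) :=
  posD_of_check (c := ⟨432, ⟨3, 8, 15, 11⟩⟩) (by decide +kernel)

def yA17_up10 : PosD ⟨⟨0, 1, 1⟩, ⟨98, 99, 147⟩, ⟨150, 301, 10000⟩, ⟨2886, 3000, 1000⟩⟩ (yA17.hUp true false) :=
  posD_of_check (c := ⟨427, ⟨3, 8, 15, 11⟩⟩) (by decide +kernel)

def yA17_um10 : PosD ⟨⟨0, 1, 1⟩, ⟨98, 99, 147⟩, ⟨150, 301, 10000⟩, ⟨2886, 3000, 1000⟩⟩ (yA17.hUm true false) :=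
  posD_of_check (c := ⟨427, ⟨3, 8, 15, 11⟩⟩) (by decide +kernel)

def yA17_tmg10 : PosD ⟨⟨0, 1, 1⟩, ⟨98, 99, 147⟩, ⟨150, 301, 10000⟩, ⟨2886, 3000, 1000⟩⟩ (yA17.hTMG false (yA17.pEnd true)) :=
  posD_of_check (c := ⟨387, ⟨2, 7, 14, 10⟩⟩) (by decide +kernel)

def yA17_tg11 : PosD ⟨⟨0, 1, 1⟩, ⟨98, 99, 147⟩, ⟨150, 301, 10000⟩, ⟨2886, 3000, 1000⟩⟩ (yA17.hG true (yA17.pEnd true)) :=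
  posD_of_check (c := ⟨373, ⟨2, 7, 14, 9⟩⟩) (by decide +kernel)

def yA17_c2p11 : PosD ⟨⟨0, 1, 1⟩, ⟨98, 99, 147⟩, ⟨150, 301, 10000⟩, ⟨2886, 3000, 1000⟩⟩ (yA17.hC2p true (yA17.pEnd true)) :=
  posD_of_check (c := ⟨435, ⟨3, 8, 16, 11⟩⟩) (by decide +kernel)

def yA17_c2m11 : PosD ⟨⟨0, 1, 1⟩, ⟨98, 99, 147⟩, ⟨150, 301, 10000⟩, ⟨2886, 3000, 1000⟩⟩ (yA17.hC2m true (yA17.pEnd true)) :=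
  posD_of_check (c := ⟨435, ⟨3, 8, 16, 11⟩⟩) (by decide +kernel)

def yA17_c3p11 : PosD ⟨⟨0, 1, 1⟩, ⟨98, 99, 147⟩, ⟨150, 301, 10000⟩, ⟨2886, 3000, 1000⟩⟩ (yA17.hC3p true true) :=
  posD_of_check (c := ⟨432, ⟨3, 8, 15, 11⟩⟩) (by decide +kernel)

def yA17_c3m11 : PosD ⟨⟨0, 1, 1⟩, ⟨98, 99, 147⟩, ⟨150, 301, 10000⟩, ⟨2886, 3000, 1000⟩⟩ (yA17.hC3m true true) :=
  posD_of_check (c := ⟨432, ⟨3, 8, 15, 11⟩⟩) (by decide +kernel)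

def yA17_c3ph11 : PosD ⟨⟨0, 1, 1⟩, ⟨98, 99, 147⟩, ⟨150, 301, 10000⟩, ⟨2886, 3000, 1000⟩⟩ (yA17.hC3p' true true) :=
  posD_of_check (c := ⟨432, ⟨3, 8, 15, 11⟩⟩) (by decide +kernel)

def yA17_c3mh11 : PosD ⟨⟨0, 1, 1⟩, ⟨98, 99, 147⟩, ⟨150, 301, 10000⟩, ⟨2886, 3000, 1000⟩⟩ (yA17.hC3m' true true) :=
  posD_of_check (c := ⟨432, ⟨3, 8, 15, 11⟩⟩) (by decide +kernel)

def yA17_up11 : PosD ⟨⟨0, 1, 1⟩, ⟨98, 99, 147⟩, ⟨150, 301, 10000⟩, ⟨2886, 3000, 1000⟩⟩ (yA17.hUp true true) :=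
  posD_of_check (c := ⟨427, ⟨3, 8, 15, 11⟩⟩) (by decide +kernel)

def yA17_um11 : PosD ⟨⟨0, 1, 1⟩, ⟨98, 99, 147⟩, ⟨150, 301, 10000⟩, ⟨2886, 3000, 1000⟩⟩ (yA17.hUm true true) :=
  posD_of_check (c := ⟨427, ⟨3, 8, 15, 11⟩⟩) (by decide +kernel)

def yA17_tmg11 : PosD ⟨⟨0, 1, 1⟩, ⟨98, 99, 147⟩, ⟨150, 301, 10000⟩, ⟨2886, 3000, 1000⟩⟩ (yA17.hTMG true (yA17.pEnd true)) :=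
  posD_of_check (c := ⟨387, ⟨2, 7, 14, 10⟩⟩) (by decide +kernel)

/-- The signs of the piece. -/
def yA17_sign : yA17.Sign ⟨⟨0, 1, 1⟩, ⟨98, 99, 147⟩, ⟨150, 301, 10000⟩, ⟨2886, 3000, 1000⟩⟩ :=
  ⟨yA17_pp,
    yA17_k2p,
    yA17_k2m,
    Bool.forall_bool.2 ⟨(Bool.forall_bool.2 ⟨yA17_tg00, yA17_tg01⟩), (Bool.forall_bool.2 ⟨yA17_tg10, yA17_tg11⟩)⟩,
    Bool.forall_bool.2 ⟨(Bool.forall_bool.2 ⟨yA17_c2p00, yA17_c2p01⟩), (Bool.forall_bool.2 ⟨yA17_c2p10, yA17_c2p11⟩)⟩,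
    Bool.forall_bool.2 ⟨(Bool.forall_bool.2 ⟨yA17_c2m00, yA17_c2m01⟩), (Bool.forall_bool.2 ⟨yA17_c2m10, yA17_c2m11⟩)⟩,
    Bool.forall_bool.2 ⟨yA17_kap0, yA17_kap1⟩,
    Bool.forall_bool.2 ⟨yA17_c10, yA17_c11⟩,
    Bool.forall_bool.2 ⟨(Bool.forall_bool.2 ⟨yA17_c3p00, yA17_c3p01⟩), (Bool.forall_bool.2 ⟨yA17_c3p10, yA17_c3p11⟩)⟩,
    Bool.forall_bool.2 ⟨(Bool.forall_bool.2 ⟨yA17_c3m00, yA17_c3m01⟩), (Bool.forall_bool.2 ⟨yA17_c3m10, yA17_c3m11⟩)⟩,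
    Bool.forall_bool.2 ⟨(Bool.forall_bool.2 ⟨yA17_tmg00, yA17_tmg01⟩), (Bool.forall_bool.2 ⟨yA17_tmg10, yA17_tmg11⟩)⟩,
    .inr (Bool.forall_bool.2 ⟨⟨yA17_c1h0, Bool.forall_bool.2 ⟨⟨yA17_c3ph00, yA17_c3mh00, yA17_up00, yA17_um00⟩, ⟨yA17_c3ph01, yA17_c3mh01, yA17_up01, yA17_um01⟩⟩⟩, ⟨yA17_c1h1, Bool.forall_bool.2 ⟨⟨yA17_c3ph10, yA17_c3mh10, yA17_up10, yA17_um10⟩, ⟨yA17_c3ph11, yA17_c3mh11, yA17_up11, yA17_um11⟩⟩⟩⟩),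
    yA17_v2p,
    yA17_v2m,
    yA17_v3p,
    yA17_v3m,
    posD_sub (b := ⟨⟨0, 1, 1⟩, ⟨98, 99, 147⟩, ⟨0, 301, 10000⟩, ⟨1060, 4000, 1000⟩⟩) (by decide +kernel) yA_vG,
    posD_sub (b := ⟨⟨0, 1, 1⟩, ⟨98, 99, 147⟩, ⟨0, 301, 10000⟩, ⟨1060, 4000, 1000⟩⟩) (by decide +kernel) yA_vMG,
    posD_sub (b := ⟨⟨0, 1, 1⟩, ⟨98, 99, 147⟩, ⟨0, 301, 10000⟩, ⟨1060, 4000, 1000⟩⟩) (by decide +kernel) yA_ak,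
    posD_sub (b := ⟨⟨0, 1, 1⟩, ⟨98, 99, 147⟩, ⟨0, 301, 10000⟩, ⟨1060, 4000, 1000⟩⟩) (by decide +kernel) yA_aw,
    posD_sub (b := ⟨⟨0, 1, 1⟩, ⟨98, 99, 147⟩, ⟨0, 301, 10000⟩, ⟨1060, 4000, 1000⟩⟩) (by decide +kernel) yA_gk,
    posD_sub (b := ⟨⟨0, 1, 1⟩, ⟨98, 99, 147⟩, ⟨0, 301, 10000⟩, ⟨1060, 4000, 1000⟩⟩) (by decide +kernel) yA_gw,
    posD_sub (b := ⟨⟨0, 1, 1⟩, ⟨98, 99, 147⟩, ⟨0, 301, 10000⟩, ⟨1060, 4000, 1000⟩⟩) (by decide +kernel) yA_ek,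
    posD_sub (b := ⟨⟨0, 1, 1⟩, ⟨98, 99, 147⟩, ⟨0, 301, 10000⟩, ⟨1060, 4000, 1000⟩⟩) (by decide +kernel) yA_ew⟩

def yA18_phx : PosD ⟨⟨0, 1, 1⟩, ⟨98, 99, 147⟩, ⟨0, 301, 10000⟩, ⟨3000, 4000, 1000⟩⟩ (phAn (yA18Hi + xO * (yA18Lo - yA18Hi))) :=
  posD_of_check0 (c := ⟨84, ⟨2, 0, 4, 1⟩⟩) (by decide +kernel)

def yA18_phd : PosD ⟨⟨0, 1, 1⟩, ⟨98, 99, 147⟩, ⟨0, 301, 10000⟩, ⟨3000, 4000, 1000⟩⟩ (phAd (yA18Hi + xO * (yA18Lo - yA18Hi))) :=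
  posD_of_check0 (c := ⟨47, ⟨1, 0, 2, 0⟩⟩) (by decide +kernel)

def yA19_phx : PosD ⟨⟨0, 1, 1⟩, ⟨98, 99, 147⟩, ⟨0, 75, 10000⟩, ⟨2776, 2886, 1000⟩⟩ (phAn (yA19Hi + xO * (yA19Lo - yA19Hi))) :=
  posD_of_check0 (c := ⟨86, ⟨2, 0, 4, 1⟩⟩) (by decide +kernel)

def yA19_phd : PosD ⟨⟨0, 1, 1⟩, ⟨98, 99, 147⟩, ⟨0, 75, 10000⟩, ⟨2776, 2886, 1000⟩⟩ (phAd (yA19Hi + xO * (yA19Lo - yA19Hi))) :=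
  posD_of_check0 (c := ⟨47, ⟨1, 0, 2, 0⟩⟩) (by decide +kernel)

end Vale.Agent.P100.Calib.Closed.Six.Tail
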