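import Vale.Agent.P100.Calib.SlabSixTailDataLayerA
import Vale.Agent.P100.Calib.SlabSixTailGlobLayerA

/-!
# Checks of some pieces of the certificate

The checks are written as definitions so that they run one after another, which keeps the memory of the
kernel low.
-/

set_option linter.defProp false

namespace Vale.Agent.P100.Calib.Closed.Six.Tail

open BoxPos Large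

local instance sixTailChecksyA12Add : Add Ex := ⟨Ex.add⟩
local instance sixTailChecksyA12Sub : Sub Ex := ⟨Ex.sub⟩
local instance sixTailChecksyA12Mul : Mul Ex := ⟨Ex.mul⟩

def yA20_p0 : PosD ⟨⟨0, 1, 1⟩, ⟨98, 99, 147⟩, ⟨75, 150, 10000⟩, ⟨2886, 3000, 1000⟩⟩ (yA20.hP0) :=
  posD_of_check (c := ⟨82, ⟨0, 2, 3, 1⟩⟩) (by decide +kernel)

def yA20_gn : PosD ⟨⟨0, 1, 1⟩, ⟨98, 99, 147⟩, ⟨75, 150, 10000⟩, ⟨2886, 3000, 1000⟩⟩ (yA20.hGn) :=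
  posD_of_check (c := ⟨58, ⟨1, 1, 2, 1⟩⟩) (by decide +kernel)

def yA20_den0 : PosD ⟨⟨0, 1, 1⟩, ⟨98, 99, 147⟩, ⟨75, 150, 10000⟩, ⟨2886, 3000, 1000⟩⟩ (yA20.hDen false) :=
  posD_of_check (c := ⟨45, ⟨0, 0, 2, 0⟩⟩) (by decide +kernel)

def yA20_den1 : PosD ⟨⟨0, 1, 1⟩, ⟨98, 99, 147⟩, ⟨75, 150, 10000⟩, ⟨2886, 3000, 1000⟩⟩ (yA20.hDen true) :=
  posD_of_check (c := ⟨22, ⟨1, 0, 1, 0⟩⟩) (by decide +kernel)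

def yA20_ev0 : PosD ⟨⟨0, 1, 1⟩, ⟨98, 99, 147⟩, ⟨75, 150, 10000⟩, ⟨2886, 3000, 1000⟩⟩ (yA20.hEv false) :=
  posD_of_check (c := ⟨148, ⟨2, 2, 6, 1⟩⟩) (by decide +kernel)

def yA20_zL0 : PosD ⟨⟨0, 1, 1⟩, ⟨98, 99, 147⟩, ⟨75, 150, 10000⟩, ⟨2886, 3000, 1000⟩⟩ (yA20.hZL false) :=
  posD_of_check (c := ⟨158, ⟨2, 3, 6, 3⟩⟩) (by decide +kernel)

def yA20_zU0 : PosD ⟨⟨0, 1, 1⟩, ⟨98, 99, 147⟩, ⟨75, 150, 10000⟩, ⟨2886, 3000, 1000⟩⟩ (yA20.hZU false) :=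
  posD_of_check (c := ⟨159, ⟨2, 3, 6, 3⟩⟩) (by decide +kernel)

def yA20_eL0 : PosD ⟨⟨0, 1, 1⟩, ⟨98, 99, 147⟩, ⟨75, 150, 10000⟩, ⟨2886, 3000, 1000⟩⟩ (yA20.hEL false) :=
  posD_of_check (c := ⟨240, ⟨3, 6, 9, 3⟩⟩) (by decide +kernel)

def yA20_eH0 : PosD ⟨⟨0, 1, 1⟩, ⟨98, 99, 147⟩, ⟨75, 150, 10000⟩, ⟨2886, 3000, 1000⟩⟩ (yA20.hEH false) :=
  posD_of_check (c := ⟨240, ⟨3, 6, 9, 3⟩⟩) (by decide +kernel)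

def yA20_pL0 : PosD ⟨⟨0, 1, 1⟩, ⟨98, 99, 147⟩, ⟨75, 150, 10000⟩, ⟨2886, 3000, 1000⟩⟩ (yA20.hPL false) :=
  posD_of_check (c := ⟨260, ⟨3, 6, 9, 3⟩⟩) (by decide +kernel)

def yA20_pU0 : PosD ⟨⟨0, 1, 1⟩, ⟨98, 99, 147⟩, ⟨75, 150, 10000⟩, ⟨2886, 3000, 1000⟩⟩ (yA20.hPU false) :=
  posD_of_check (c := ⟨259, ⟨3, 6, 9, 3⟩⟩) (by decide +kernel)

def yA20_kU0 : PosD ⟨⟨0, 1, 1⟩, ⟨98, 99, 147⟩, ⟨75, 150, 10000⟩, ⟨2886, 3000, 1000⟩⟩ (yA20.hKU false) :=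
  posD_of_check (c := ⟨254, ⟨3, 6, 9, 3⟩⟩) (by decide +kernel)

def yA20_kL0 : PosD ⟨⟨0, 1, 1⟩, ⟨98, 99, 147⟩, ⟨75, 150, 10000⟩, ⟨2886, 3000, 1000⟩⟩ (yA20.hKL false) :=
  posD_of_check (c := ⟨261, ⟨3, 6, 9, 3⟩⟩) (by decide +kernel)

def yA20_wU0 : PosD ⟨⟨0, 1, 1⟩, ⟨98, 99, 147⟩, ⟨75, 150, 10000⟩, ⟨2886, 3000, 1000⟩⟩ (yA20.hWU false) :=
  posD_of_check (c := ⟨290, ⟨3, 8, 10, 3⟩⟩) (by decide +kernel)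

def yA20_wL0 : PosD ⟨⟨0, 1, 1⟩, ⟨98, 99, 147⟩, ⟨75, 150, 10000⟩, ⟨2886, 3000, 1000⟩⟩ (yA20.hWL false) :=
  posD_of_check (c := ⟨291, ⟨3, 8, 10, 3⟩⟩) (by decide +kernel)

def yA20_ev1 : PosD ⟨⟨0, 1, 1⟩, ⟨98, 99, 147⟩, ⟨75, 150, 10000⟩, ⟨2886, 3000, 1000⟩⟩ (yA20.hEv true) :=
  posD_of_check (c := ⟨120, ⟨2, 2, 6, 1⟩⟩) (by decide +kernel)

def yA20_zL1 : PosD ⟨⟨0, 1, 1⟩, ⟨98, 99, 147⟩, ⟨75, 150, 10000⟩, ⟨2886, 3000, 1000⟩⟩ (yA20.hZL true) :=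
  posD_of_check (c := ⟨134, ⟨2, 3, 6, 3⟩⟩) (by decide +kernel)

def yA20_zU1 : PosD ⟨⟨0, 1, 1⟩, ⟨98, 99, 147⟩, ⟨75, 150, 10000⟩, ⟨2886, 3000, 1000⟩⟩ (yA20.hZU true) :=
  posD_of_check (c := ⟨134, ⟨2, 3, 6, 3⟩⟩) (by decide +kernel)

def yA20_eL1 : PosD ⟨⟨0, 1, 1⟩, ⟨98, 99, 147⟩, ⟨75, 150, 10000⟩, ⟨2886, 3000, 1000⟩⟩ (yA20.hEL true) :=
  posD_of_check (c := ⟨212, ⟨3, 6, 9, 3⟩⟩) (by decide +kernel)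

def yA20_eH1 : PosD ⟨⟨0, 1, 1⟩, ⟨98, 99, 147⟩, ⟨75, 150, 10000⟩, ⟨2886, 3000, 1000⟩⟩ (yA20.hEH true) :=
  posD_of_check (c := ⟨212, ⟨3, 6, 9, 3⟩⟩) (by decide +kernel)

def yA20_pL1 : PosD ⟨⟨0, 1, 1⟩, ⟨98, 99, 147⟩, ⟨75, 150, 10000⟩, ⟨2886, 3000, 1000⟩⟩ (yA20.hPL true) :=
  posD_of_check (c := ⟨231, ⟨3, 6, 9, 3⟩⟩) (by decide +kernel)

def yA20_pU1a : PosD ⟨⟨0, 1, 2⟩, ⟨98, 99, 147⟩, ⟨75, 150, 10000⟩, ⟨2886, 3000, 1000⟩⟩ (yA20.hPU true) :=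
  posD_of_check (c := ⟨232, ⟨3, 6, 9, 3⟩⟩) (by decide +kernel)

def yA20_pU1b : PosD ⟨⟨1, 2, 2⟩, ⟨98, 99, 147⟩, ⟨75, 150, 10000⟩, ⟨2886, 3000, 1000⟩⟩ (yA20.hPU true) :=
  posD_of_check (c := ⟨233, ⟨3, 6, 9, 3⟩⟩) (by decide +kernel)

def yA20_pU1 : PosD ⟨⟨0, 1, 1⟩, ⟨98, 99, 147⟩, ⟨75, 150, 10000⟩, ⟨2886, 3000, 1000⟩⟩ (yA20.hPU true) :=
  posD_units (b := ⟨⟨0, 2, 2⟩, ⟨98, 99, 147⟩, ⟨75, 150, 10000⟩, ⟨2886, 3000, 1000⟩⟩) (by decide +kernel) (posD_join₀ yA20_pU1a yA20_pU1b)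

def yA20_kU1 : PosD ⟨⟨0, 1, 1⟩, ⟨98, 99, 147⟩, ⟨75, 150, 10000⟩, ⟨2886, 3000, 1000⟩⟩ (yA20.hKU true) :=
  posD_of_check (c := ⟨225, ⟨3, 6, 9, 3⟩⟩) (by decide +kernel)

def yA20_kL1 : PosD ⟨⟨0, 1, 1⟩, ⟨98, 99, 147⟩, ⟨75, 150, 10000⟩, ⟨2886, 3000, 1000⟩⟩ (yA20.hKL true) :=
  posD_of_check (c := ⟨234, ⟨3, 6, 9, 3⟩⟩) (by decide +kernel)

def yA20_wU1 : PosD ⟨⟨0, 1, 1⟩, ⟨98, 99, 147⟩, ⟨75, 150, 10000⟩, ⟨2886, 3000, 1000⟩⟩ (yA20.hWU true) :=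
  posD_of_check (c := ⟨261, ⟨3, 8, 10, 3⟩⟩) (by decide +kernel)

def yA20_wL1 : PosD ⟨⟨0, 1, 1⟩, ⟨98, 99, 147⟩, ⟨75, 150, 10000⟩, ⟨2886, 3000, 1000⟩⟩ (yA20.hWL true) :=
  posD_of_check (c := ⟨262, ⟨3, 8, 10, 3⟩⟩) (by decide +kernel)

def yA20_nukL : PosD ⟨⟨0, 1, 1⟩, ⟨98, 99, 147⟩, ⟨75, 150, 10000⟩, ⟨2886, 3000, 1000⟩⟩ (yA20.kL.ν) :=
  posD_of_check (c := ⟨40, ⟨0, 0, 1, 1⟩⟩) (by decide +kernel)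

/-- The bounds of the piece. -/
def yA20_env : yA20.Env ⟨⟨0, 1, 1⟩, ⟨98, 99, 147⟩, ⟨75, 150, 10000⟩, ⟨2886, 3000, 1000⟩⟩ :=
  ⟨yA20_p0, Bool.forall_bool.2 ⟨yA20_den0, yA20_den1⟩, yA20_gn, Bool.forall_bool.2 ⟨yA20_ev0, yA20_ev1⟩, Bool.forall_bool.2 ⟨yA20_zL0, yA20_zL1⟩, Bool.forall_bool.2 ⟨yA20_zU0, yA20_zU1⟩, Bool.forall_bool.2 ⟨yA20_eL0, yA20_eL1⟩, ⟨.inr rfl, .inr rfl⟩, Bool.forall_bool.2 ⟨yA20_eH0, yA20_eH1⟩, ⟨.inr rfl, .inr rfl⟩, Bool.forall_bool.2 ⟨yA20_pL0, yA20_pL1⟩, ⟨.inr rfl, .inr rfl⟩, Bool.forall_bool.2 ⟨yA20_pU0, yA20_pU1⟩, ⟨.inr rfl, .inr rfl⟩, Bool.forall_bool.2 ⟨yA20_kU0, yA20_kU1⟩, ⟨.inr rfl, .inr rfl⟩, Bool.forall_bool.2 ⟨yA20_kL0, yA20_kL1⟩, ⟨.inr rfl, .inl yA20_nukL⟩, Bool.forall_bool.2 ⟨yA20_wU0,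 yA20_wU1⟩, ⟨.inr rfl, .inr rfl⟩, Bool.forall_bool.2 ⟨yA20_wL0, yA20_wL1⟩, ⟨.inr rfl, .inr rfl⟩⟩

def yA20_pU20 : PosD ⟨⟨0, 1, 1⟩, ⟨98, 99, 147⟩, ⟨75, 150, 10000⟩, ⟨2886, 3000, 1000⟩⟩ (({ yA20 with pU := yA20PU } : Piece).hPU false) :=
  posD_of_check (c := ⟨269, ⟨3, 6, 9, 3⟩⟩) (by decide +kernel)

def yA20_pU21 : PosD ⟨⟨0, 1, 1⟩, ⟨98, 99, 147⟩, ⟨75, 150, 10000⟩, ⟨2886, 3000, 1000⟩⟩ (({ yA20 with pU := yA20PU } : Piece).hPU true) :=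
  posD_of_check (c := ⟨242, ⟨3, 6, 9, 3⟩⟩) (by decide +kernel)

def yA20_nupU2 : PosD ⟨⟨0, 1, 1⟩, ⟨98, 99, 147⟩, ⟨75, 150, 10000⟩, ⟨2886, 3000, 1000⟩⟩ (yA20PU.ν) :=
  posD_of_check (c := ⟨49, ⟨0, 0, 1, 1⟩⟩) (by decide +kernel)

/-- The bounds with the other bound of `p`. -/
def yA20_envU : ({ yA20 with pU := yA20PU } : Piece).Env ⟨⟨0, 1, 1⟩, ⟨98, 99, 147⟩, ⟨75, 150, 10000⟩, ⟨2886, 3000, 1000⟩⟩ :=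
  yA20_env.withU yA20PU (Bool.forall_bool.2 ⟨yA20_pU20, yA20_pU21⟩) ⟨.inr rfl, .inl yA20_nupU2⟩

def yA20A_pp : PosD ⟨⟨0, 1, 1⟩, ⟨98, 99, 147⟩, ⟨75, 150, 10000⟩, ⟨2886, 3000, 1000⟩⟩ (yA20A.xPL) :=
  posD_of_check (c := ⟨93, ⟨1, 1, 3, 3⟩⟩) (by decide +kernel)

def yA20A_k2p : PosD ⟨⟨0, 1, 1⟩, ⟨98, 99, 147⟩, ⟨75, 150, 10000⟩, ⟨2886, 3000, 1000⟩⟩ (yA20A.k2p yA20A.xE) :=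
  posD_of_check (c := ⟨62, ⟨1, 1, 2, 2⟩⟩) (by decide +kernel)

def yA20A_k2m : PosD ⟨⟨0, 1, 1⟩, ⟨98, 99, 147⟩, ⟨75, 150, 10000⟩, ⟨2886, 3000, 1000⟩⟩ (yA20A.k2m yA20A.xE) :=
  posD_of_check (c := ⟨62, ⟨1, 1, 2, 2⟩⟩) (by decide +kernel)

def yA20A_v2p : PosD ⟨⟨0, 1, 1⟩, ⟨98, 99, 147⟩, ⟨75, 150, 10000⟩, ⟨2886, 3000, 1000⟩⟩ (yA20A.hV2p) :=
  posD_of_check (c := ⟨254, ⟨1, 6, 10, 5⟩⟩) (by decide +kernel)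

def yA20A_v2m : PosD ⟨⟨0, 1, 1⟩, ⟨98, 99, 147⟩, ⟨75, 150, 10000⟩, ⟨2886, 3000, 1000⟩⟩ (yA20A.hV2m) :=
  posD_of_check (c := ⟨254, ⟨1, 6, 10, 5⟩⟩) (by decide +kernel)

def yA20A_v3p : PosD ⟨⟨0, 1, 1⟩, ⟨98, 99, 147⟩, ⟨75, 150, 10000⟩, ⟨2886, 3000, 1000⟩⟩ (yA20A.hV3p) :=
  posD_of_check (c := ⟨246, ⟨1, 6, 9, 5⟩⟩) (by decide +kernel)

def yA20A_v3m : PosD ⟨⟨0, 1, 1⟩, ⟨98, 99, 147⟩, ⟨75, 150, 10000⟩, ⟨2886, 3000, 1000⟩⟩ (yA20A.hV3m) :=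
  posD_of_check (c := ⟨246, ⟨1, 6, 9, 5⟩⟩) (by decide +kernel)

def yA20A_kap0 : PosD ⟨⟨0, 1, 1⟩, ⟨98, 99, 147⟩, ⟨75, 150, 10000⟩, ⟨2886, 3000, 1000⟩⟩ (yA20A.kap false) :=
  posD_of_check (c := ⟨69, ⟨1, 1, 2, 2⟩⟩) (by decide +kernel)

def yA20A_c10 : PosD ⟨⟨0, 1, 1⟩, ⟨98, 99, 147⟩, ⟨75, 150, 10000⟩, ⟨2886, 3000, 1000⟩⟩ (yA20A.hC1 false) :=
  posD_of_check (c := ⟨267, ⟨3, 5, 9, 7⟩⟩) (by decide +kernel)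

def yA20A_c1h0 : PosD ⟨⟨0, 1, 1⟩, ⟨98, 99, 147⟩, ⟨75, 150, 10000⟩, ⟨2886, 3000, 1000⟩⟩ (yA20A.hC1' false) :=
  posD_of_check (c := ⟨267, ⟨3, 5, 9, 7⟩⟩) (by decide +kernel)

def yA20A_tg00 : PosD ⟨⟨0, 1, 1⟩, ⟨98, 99, 147⟩, ⟨75, 150, 10000⟩, ⟨2886, 3000, 1000⟩⟩ (yA20A.hG false (yA20A.pEnd false)) :=
  posD_of_check (c := ⟨374, ⟨2, 7, 14, 9⟩⟩) (by decide +kernel)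

def yA20A_c2p00 : PosD ⟨⟨0, 1, 1⟩, ⟨98, 99, 147⟩, ⟨75, 150, 10000⟩, ⟨2886, 3000, 1000⟩⟩ (yA20A.hC2p false (yA20A.pEnd false)) :=
  posD_of_check (c := ⟨435, ⟨3, 8, 16, 11⟩⟩) (by decide +kernel)

def yA20A_c2m00 : PosD ⟨⟨0, 1, 1⟩, ⟨98, 99, 147⟩, ⟨75, 150, 10000⟩, ⟨2886, 3000, 1000⟩⟩ (yA20A.hC2m false (yA20A.pEnd false)) :=
  posD_of_check (c := ⟨435, ⟨3, 8, 16, 11⟩⟩) (by decide +kernel)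

def yA20A_c3p00 : PosD ⟨⟨0, 1, 1⟩, ⟨98, 99, 147⟩, ⟨75, 150, 10000⟩, ⟨2886, 3000, 1000⟩⟩ (yA20A.hC3p false false) :=
  posD_of_check (c := ⟨431, ⟨3, 8, 15, 11⟩⟩) (by decide +kernel)

def yA20A_c3m00 : PosD ⟨⟨0, 1, 1⟩, ⟨98, 99, 147⟩, ⟨75, 150, 10000⟩, ⟨2886, 3000, 1000⟩⟩ (yA20A.hC3m false false) :=
  posD_of_check (c := ⟨431, ⟨3, 8, 15, 11⟩⟩) (by decide +kernel)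

def yA20A_c3ph00 : PosD ⟨⟨0, 1, 1⟩, ⟨98, 99, 147⟩, ⟨75, 150, 10000⟩, ⟨2886, 3000, 1000⟩⟩ (yA20A.hC3p' false false) :=
  posD_of_check (c := ⟨431, ⟨3, 8, 15, 11⟩⟩) (by decide +kernel)

def yA20A_c3mh00 : PosD ⟨⟨0, 1, 1⟩, ⟨98, 99, 147⟩, ⟨75, 150, 10000⟩, ⟨2886, 3000, 1000⟩⟩ (yA20A.hC3m' false false) :=
  posD_of_check (c := ⟨431, ⟨3, 8, 15, 11⟩⟩) (by decide +kernel)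

def yA20A_up00 : PosD ⟨⟨0, 1, 1⟩, ⟨98, 99, 147⟩, ⟨75, 150, 10000⟩, ⟨2886, 3000, 1000⟩⟩ (yA20A.hUp false false) :=
  posD_of_check (c := ⟨428, ⟨3, 8, 15, 11⟩⟩) (by decide +kernel)

def yA20A_um00 : PosD ⟨⟨0, 1, 1⟩, ⟨98, 99, 147⟩, ⟨75, 150, 10000⟩, ⟨2886, 3000, 1000⟩⟩ (yA20A.hUm false false) :=
  posD_of_check (c := ⟨428, ⟨3, 8, 15, 11⟩⟩) (by decide +kernel)

def yA20A_tmg00 : PosD ⟨⟨0, 1, 1⟩, ⟨98, 99, 147⟩, ⟨75, 150, 10000⟩, ⟨2886, 3000, 1000⟩⟩ (yA20A.hTMG false (yA20A.pEnd false)) :=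
  posD_of_check (c := ⟨388, ⟨2, 7, 14, 10⟩⟩) (by decide +kernel)

def yA20A_tg01 : PosD ⟨⟨0, 1, 1⟩, ⟨98, 99, 147⟩, ⟨75, 150, 10000⟩, ⟨2886, 3000, 1000⟩⟩ (yA20A.hG true (yA20A.pEnd false)) :=
  posD_of_check (c := ⟨374, ⟨2, 7, 14, 9⟩⟩) (by decide +kernel)

def yA20A_c2p01 : PosD ⟨⟨0, 1, 1⟩, ⟨98, 99, 147⟩, ⟨75, 150, 10000⟩, ⟨2886, 3000, 1000⟩⟩ (yA20A.hC2p true (yA20A.pEnd false)) :=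
  posD_of_check (c := ⟨435, ⟨3, 8, 16, 11⟩⟩) (by decide +kernel)

def yA20A_c2m01 : PosD ⟨⟨0, 1, 1⟩, ⟨98, 99, 147⟩, ⟨75, 150, 10000⟩, ⟨2886, 3000, 1000⟩⟩ (yA20A.hC2m true (yA20A.pEnd false)) :=
  posD_of_check (c := ⟨435, ⟨3, 8, 16, 11⟩⟩) (by decide +kernel)

def yA20A_c3p01 : PosD ⟨⟨0, 1, 1⟩, ⟨98, 99, 147⟩, ⟨75, 150, 10000⟩, ⟨2886, 3000, 1000⟩⟩ (yA20A.hC3p false true) :=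
  posD_of_check (c := ⟨431, ⟨3, 8, 15, 11⟩⟩) (by decide +kernel)

def yA20A_c3m01 : PosD ⟨⟨0, 1, 1⟩, ⟨98, 99, 147⟩, ⟨75, 150, 10000⟩, ⟨2886, 3000, 1000⟩⟩ (yA20A.hC3m false true) :=
  posD_of_check (c := ⟨431, ⟨3, 8, 15, 11⟩⟩) (by decide +kernel)

def yA20A_c3ph01 : PosD ⟨⟨0, 1, 1⟩, ⟨98, 99, 147⟩, ⟨75, 150, 10000⟩, ⟨2886, 3000, 1000⟩⟩ (yA20A.hC3p' false true) :=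
  posD_of_check (c := ⟨431, ⟨3, 8, 15, 11⟩⟩) (by decide +kernel)

def yA20A_c3mh01 : PosD ⟨⟨0, 1, 1⟩, ⟨98, 99, 147⟩, ⟨75, 150, 10000⟩, ⟨2886, 3000, 1000⟩⟩ (yA20A.hC3m' false true) :=
  posD_of_check (c := ⟨431, ⟨3, 8, 15, 11⟩⟩) (by decide +kernel)

def yA20A_up01 : PosD ⟨⟨0, 1, 1⟩, ⟨98, 99, 147⟩, ⟨75, 150, 10000⟩, ⟨2886, 3000, 1000⟩⟩ (yA20A.hUp false true) :=
  posD_of_check (c := ⟨428, ⟨3, 8, 15, 11⟩⟩) (by decide +kernel)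

def yA20A_um01 : PosD ⟨⟨0, 1, 1⟩, ⟨98, 99, 147⟩, ⟨75, 150, 10000⟩, ⟨2886, 3000, 1000⟩⟩ (yA20A.hUm false true) :=
  posD_of_check (c := ⟨428, ⟨3, 8, 15, 11⟩⟩) (by decide +kernel)

def yA20A_tmg01 : PosD ⟨⟨0, 1, 1⟩, ⟨98, 99, 147⟩, ⟨75, 150, 10000⟩, ⟨2886, 3000, 1000⟩⟩ (yA20A.hTMG true (yA20A.pEnd false)) :=
  posD_of_check (c := ⟨388, ⟨2, 7, 14, 10⟩⟩) (by decide +kernel)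

def yA20A_kap1 : PosD ⟨⟨0, 1, 1⟩, ⟨98, 99, 147⟩, ⟨75, 150, 10000⟩, ⟨2886, 3000, 1000⟩⟩ (yA20A.kap true) :=
  posD_of_check (c := ⟨72, ⟨1, 1, 2, 2⟩⟩) (by decide +kernel)

def yA20A_c11 : PosD ⟨⟨0, 1, 1⟩, ⟨98, 99, 147⟩, ⟨75, 150, 10000⟩, ⟨2886, 3000, 1000⟩⟩ (yA20A.hC1 true) :=
  posD_of_check (c := ⟨269, ⟨3, 5, 9, 7⟩⟩) (by decide +kernel)

def yA20A_c1h1 : PosD ⟨⟨0, 1, 1⟩, ⟨98, 99, 147⟩, ⟨75, 150, 10000⟩, ⟨2886, 3000, 1000⟩⟩ (yA20A.hC1' true) :=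
  posD_of_check (c := ⟨269, ⟨3, 5, 9, 7⟩⟩) (by decide +kernel)

def yA20A_tg10 : PosD ⟨⟨0, 1, 1⟩, ⟨98, 99, 147⟩, ⟨75, 150, 10000⟩, ⟨2886, 3000, 1000⟩⟩ (yA20A.hG false (yA20A.pEnd true)) :=
  posD_of_check (c := ⟨372, ⟨2, 7, 14, 9⟩⟩) (by decide +kernel)

def yA20A_c2p10 : PosD ⟨⟨0, 1, 1⟩, ⟨98, 99, 147⟩, ⟨75, 150, 10000⟩, ⟨2886, 3000, 1000⟩⟩ (yA20A.hC2p false (yA20A.pEnd true)) :=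
  posD_of_check (c := ⟨433, ⟨3, 8, 16, 11⟩⟩) (by decide +kernel)

def yA20A_c2m10 : PosD ⟨⟨0, 1, 1⟩, ⟨98, 99, 147⟩, ⟨75, 150, 10000⟩, ⟨2886, 3000, 1000⟩⟩ (yA20A.hC2m false (yA20A.pEnd true)) :=
  posD_of_check (c := ⟨433, ⟨3, 8, 16, 11⟩⟩) (by decide +kernel)

def yA20A_c3p10 : PosD ⟨⟨0, 1, 1⟩, ⟨98, 99, 147⟩, ⟨75, 150, 10000⟩, ⟨2886, 3000, 1000⟩⟩ (yA20A.hC3p true false) :=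
  posD_of_check (c := ⟨433, ⟨3, 8, 15, 11⟩⟩) (by decide +kernel)

def yA20A_c3m10 : PosD ⟨⟨0, 1, 1⟩, ⟨98, 99, 147⟩, ⟨75, 150, 10000⟩, ⟨2886, 3000, 1000⟩⟩ (yA20A.hC3m true false) :=
  posD_of_check (c := ⟨433, ⟨3, 8, 15, 11⟩⟩) (by decide +kernel)

def yA20A_c3ph10 : PosD ⟨⟨0, 1, 1⟩, ⟨98, 99, 147⟩, ⟨75, 150, 10000⟩, ⟨2886, 3000, 1000⟩⟩ (yA20A.hC3p' true false) :=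
  posD_of_check (c := ⟨433, ⟨3, 8, 15, 11⟩⟩) (by decide +kernel)

def yA20A_c3mh10 : PosD ⟨⟨0, 1, 1⟩, ⟨98, 99, 147⟩, ⟨75, 150, 10000⟩, ⟨2886, 3000, 1000⟩⟩ (yA20A.hC3m' true false) :=
  posD_of_check (c := ⟨433, ⟨3, 8, 15, 11⟩⟩) (by decide +kernel)

def yA20A_up10 : PosD ⟨⟨0, 1, 1⟩, ⟨98, 99, 147⟩, ⟨75, 150, 10000⟩, ⟨2886, 3000, 1000⟩⟩ (yA20A.hUp true false) :=
  posD_of_check (c := ⟨427, ⟨3, 8, 15, 11⟩⟩) (by decide +kernel)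

def yA20A_um10 : PosD ⟨⟨0, 1, 1⟩, ⟨98, 99, 147⟩, ⟨75, 150, 10000⟩, ⟨2886, 3000, 1000⟩⟩ (yA20A.hUm true false) :=
  posD_of_check (c := ⟨427, ⟨3, 8, 15, 11⟩⟩) (by decide +kernel)

def yA20A_tmg10 : PosD ⟨⟨0, 1, 1⟩, ⟨98, 99, 147⟩, ⟨75, 150, 10000⟩, ⟨2886, 3000, 1000⟩⟩ (yA20A.hTMG false (yA20A.pEnd true)) :=
  posD_of_check (c := ⟨387, ⟨2, 7, 14, 10⟩⟩) (by decide +kernel)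

def yA20A_tg11 : PosD ⟨⟨0, 1, 1⟩, ⟨98, 99, 147⟩, ⟨75, 150, 10000⟩, ⟨2886, 3000, 1000⟩⟩ (yA20A.hG true (yA20A.pEnd true)) :=
  posD_of_check (c := ⟨372, ⟨2, 7, 14, 9⟩⟩) (by decide +kernel)

def yA20A_c2p11 : PosD ⟨⟨0, 1, 1⟩, ⟨98, 99, 147⟩, ⟨75, 150, 10000⟩, ⟨2886, 3000, 1000⟩⟩ (yA20A.hC2p true (yA20A.pEnd true)) :=
  posD_of_check (c := ⟨433, ⟨3, 8, 16, 11⟩⟩) (by decide +kernel)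

def yA20A_c2m11 : PosD ⟨⟨0, 1, 1⟩, ⟨98, 99, 147⟩, ⟨75, 150, 10000⟩, ⟨2886, 3000, 1000⟩⟩ (yA20A.hC2m true (yA20A.pEnd true)) :=
  posD_of_check (c := ⟨433, ⟨3, 8, 16, 11⟩⟩) (by decide +kernel)

def yA20A_c3p11 : PosD ⟨⟨0, 1, 1⟩, ⟨98, 99, 147⟩, ⟨75, 150, 10000⟩, ⟨2886, 3000, 1000⟩⟩ (yA20A.hC3p true true) :=
  posD_of_check (c := ⟨433, ⟨3, 8, 15, 11⟩⟩) (by decide +kernel)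

def yA20A_c3m11 : PosD ⟨⟨0, 1, 1⟩, ⟨98, 99, 147⟩, ⟨75, 150, 10000⟩, ⟨2886, 3000, 1000⟩⟩ (yA20A.hC3m true true) :=
  posD_of_check (c := ⟨433, ⟨3, 8, 15, 11⟩⟩) (by decide +kernel)

def yA20A_c3ph11 : PosD ⟨⟨0, 1, 1⟩, ⟨98, 99, 147⟩, ⟨75, 150, 10000⟩, ⟨2886, 3000, 1000⟩⟩ (yA20A.hC3p' true true) :=
  posD_of_check (c := ⟨433, ⟨3, 8, 15, 11⟩⟩) (by decide +kernel)

def yA20A_c3mh11 : PosD ⟨⟨0, 1, 1⟩, ⟨98, 99, 147⟩, ⟨75, 150, 10000⟩, ⟨2886, 3000, 1000⟩⟩ (yA20A.hC3m' true true) :=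
  posD_of_check (c := ⟨433, ⟨3, 8, 15, 11⟩⟩) (by decide +kernel)

def yA20A_up11 : PosD ⟨⟨0, 1, 1⟩, ⟨98, 99, 147⟩, ⟨75, 150, 10000⟩, ⟨2886, 3000, 1000⟩⟩ (yA20A.hUp true true) :=
  posD_of_check (c := ⟨427, ⟨3, 8, 15, 11⟩⟩) (by decide +kernel)

def yA20A_um11 : PosD ⟨⟨0, 1, 1⟩, ⟨98, 99, 147⟩, ⟨75, 150, 10000⟩, ⟨2886, 3000, 1000⟩⟩ (yA20A.hUm true true) :=
  posD_of_check (c := ⟨427, ⟨3, 8, 15, 11⟩⟩) (by decide +kernel)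

def yA20A_tmg11 : PosD ⟨⟨0, 1, 1⟩, ⟨98, 99, 147⟩, ⟨75, 150, 10000⟩, ⟨2886, 3000, 1000⟩⟩ (yA20A.hTMG true (yA20A.pEnd true)) :=
  posD_of_check (c := ⟨387, ⟨2, 7, 14, 10⟩⟩) (by decide +kernel)

/-- The signs of the piece. -/
def yA20A_sign : yA20A.Sign ⟨⟨0, 1, 1⟩, ⟨98, 99, 147⟩, ⟨75, 150, 10000⟩, ⟨2886, 3000, 1000⟩⟩ :=
  ⟨yA20A_pp,
    yA20A_k2p,
    yA20A_k2m,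
    Bool.forall_bool.2 ⟨(Bool.forall_bool.2 ⟨yA20A_tg00, yA20A_tg01⟩), (Bool.forall_bool.2 ⟨yA20A_tg10, yA20A_tg11⟩)⟩,
    Bool.forall_bool.2 ⟨(Bool.forall_bool.2 ⟨yA20A_c2p00, yA20A_c2p01⟩), (Bool.forall_bool.2 ⟨yA20A_c2p10, yA20A_c2p11⟩)⟩,
    Bool.forall_bool.2 ⟨(Bool.forall_bool.2 ⟨yA20A_c2m00, yA20A_c2m01⟩), (Bool.forall_bool.2 ⟨yA20A_c2m10, yA20A_c2m11⟩)⟩,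
    Bool.forall_bool.2 ⟨yA20A_kap0, yA20A_kap1⟩,
    Bool.forall_bool.2 ⟨yA20A_c10, yA20A_c11⟩,
    Bool.forall_bool.2 ⟨(Bool.forall_bool.2 ⟨yA20A_c3p00, yA20A_c3p01⟩), (Bool.forall_bool.2 ⟨yA20A_c3p10, yA20A_c3p11⟩)⟩,
    Bool.forall_bool.2 ⟨(Bool.forall_bool.2 ⟨yA20A_c3m00, yA20A_c3m01⟩), (Bool.forall_bool.2 ⟨yA20A_c3m10, yA20A_c3m11⟩)⟩,
    Bool.forall_bool.2 ⟨(Bool.forall_bool.2 ⟨yA20A_tmg00, yA20A_tmg01⟩), (Bool.forall_bool.2 ⟨yA20A_tmg10, yA20A_tmg11⟩)⟩,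
    .inr (Bool.forall_bool.2 ⟨⟨yA20A_c1h0, Bool.forall_bool.2 ⟨⟨yA20A_c3ph00, yA20A_c3mh00, yA20A_up00, yA20A_um00⟩, ⟨yA20A_c3ph01, yA20A_c3mh01, yA20A_up01, yA20A_um01⟩⟩⟩, ⟨yA20A_c1h1, Bool.forall_bool.2 ⟨⟨yA20A_c3ph10, yA20A_c3mh10, yA20A_up10, yA20A_um10⟩, ⟨yA20A_c3ph11, yA20A_c3mh11, yA20A_up11, yA20A_um11⟩⟩⟩⟩),
    yA20A_v2p,
    yA20A_v2m,
    yA20A_v3p,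
    yA20A_v3m,
    posD_sub (b := ⟨⟨0, 1, 1⟩, ⟨98, 99, 147⟩, ⟨0, 301, 10000⟩, ⟨1060, 4000, 1000⟩⟩) (by decide +kernel) yA_vG,
    posD_sub (b := ⟨⟨0, 1, 1⟩, ⟨98, 99, 147⟩, ⟨0, 301, 10000⟩, ⟨1060, 4000, 1000⟩⟩) (by decide +kernel) yA_vMG,
    posD_sub (b := ⟨⟨0, 1, 1⟩, ⟨98, 99, 147⟩, ⟨0, 301, 10000⟩, ⟨1060, 4000, 1000⟩⟩) (by decide +kernel) yA_ak,
    posD_sub (b := ⟨⟨0, 1, 1⟩, ⟨98, 99, 147⟩, ⟨0, 301, 10000⟩, ⟨1060, 4000, 1000⟩⟩) (by decide +kernel) yA_aw,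
    posD_sub (b := ⟨⟨0, 1, 1⟩, ⟨98, 99, 147⟩, ⟨0, 301, 10000⟩, ⟨1060, 4000, 1000⟩⟩) (by decide +kernel) yA_gk,
    posD_sub (b := ⟨⟨0, 1, 1⟩, ⟨98, 99, 147⟩, ⟨0, 301, 10000⟩, ⟨1060, 4000, 1000⟩⟩) (by decide +kernel) yA_gw,
    posD_sub (b := ⟨⟨0, 1, 1⟩, ⟨98, 99, 147⟩, ⟨0, 301, 10000⟩, ⟨1060, 4000, 1000⟩⟩) (by decide +kernel) yA_ek,
    posD_sub (b := ⟨⟨0, 1, 1⟩, ⟨98, 99, 147⟩, ⟨0, 301, 10000⟩, ⟨1060, 4000, 1000⟩⟩) (by decide +kernel) yA_ew⟩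

def yA20B_pp : PosD ⟨⟨0, 1, 1⟩, ⟨98, 99, 147⟩, ⟨75, 150, 10000⟩, ⟨2886, 3000, 1000⟩⟩ (yA20B.xPL) :=
  posD_of_check (c := ⟨94, ⟨1, 1, 3, 3⟩⟩) (by decide +kernel)

def yA20B_k2p : PosD ⟨⟨0, 1, 1⟩, ⟨98, 99, 147⟩, ⟨75, 150, 10000⟩, ⟨2886, 3000, 1000⟩⟩ (yA20B.k2p yA20B.xE) :=
  posD_of_check (c := ⟨22, ⟨0, 0, 1, 1⟩⟩) (by decide +kernel)

def yA20B_k2m : PosD ⟨⟨0, 1, 1⟩, ⟨98, 99, 147⟩, ⟨75, 150, 10000⟩, ⟨2886, 3000, 1000⟩⟩ (yA20B.k2m yA20B.xE) :=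
  posD_of_check (c := ⟨63, ⟨1, 1, 2, 2⟩⟩) (by decide +kernel)

def yA20B_v2p : PosD ⟨⟨0, 1, 1⟩, ⟨98, 99, 147⟩, ⟨75, 150, 10000⟩, ⟨2886, 3000, 1000⟩⟩ (yA20B.hV2p) :=
  posD_of_check (c := ⟨225, ⟨0, 5, 10, 4⟩⟩) (by decide +kernel)

def yA20B_v2m : PosD ⟨⟨0, 1, 1⟩, ⟨98, 99, 147⟩, ⟨75, 150, 10000⟩, ⟨2886, 3000, 1000⟩⟩ (yA20B.hV2m) :=
  posD_of_check (c := ⟨255, ⟨1, 6, 10, 5⟩⟩) (by decide +kernel)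

def yA20B_v3p : PosD ⟨⟨0, 1, 1⟩, ⟨98, 99, 147⟩, ⟨75, 150, 10000⟩, ⟨2886, 3000, 1000⟩⟩ (yA20B.hV3p) :=
  posD_of_check (c := ⟨220, ⟨0, 5, 9, 4⟩⟩) (by decide +kernel)

def yA20B_v3m : PosD ⟨⟨0, 1, 1⟩, ⟨98, 99, 147⟩, ⟨75, 150, 10000⟩, ⟨2886, 3000, 1000⟩⟩ (yA20B.hV3m) :=
  posD_of_check (c := ⟨246, ⟨1, 6, 9, 5⟩⟩) (by decide +kernel)

def yA20B_kap0 : PosD ⟨⟨0, 1, 1⟩, ⟨98, 99, 147⟩, ⟨75, 150, 10000⟩, ⟨2886, 3000, 1000⟩⟩ (yA20B.kap false) :=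
  posD_of_check (c := ⟨77, ⟨1, 1, 2, 2⟩⟩) (by decide +kernel)

def yA20B_c10 : PosD ⟨⟨0, 1, 1⟩, ⟨98, 99, 147⟩, ⟨75, 150, 10000⟩, ⟨2886, 3000, 1000⟩⟩ (yA20B.hC1 false) :=
  posD_of_check (c := ⟨278, ⟨3, 5, 9, 7⟩⟩) (by decide +kernel)

def yA20B_c1h0a : PosD ⟨⟨0, 1, 1⟩, ⟨98, 99, 147⟩, ⟨75, 112, 10000⟩, ⟨2886, 3000, 1000⟩⟩ (yA20B.hC1' false) :=
  posD_of_check (c := ⟨278, ⟨3, 5, 9, 7⟩⟩) (by decide +kernel)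

def yA20B_c1h0b : PosD ⟨⟨0, 1, 1⟩, ⟨98, 99, 147⟩, ⟨112, 150, 10000⟩, ⟨2886, 3000, 1000⟩⟩ (yA20B.hC1' false) :=
  posD_of_check (c := ⟨278, ⟨3, 5, 9, 7⟩⟩) (by decide +kernel)

def yA20B_c1h0 : PosD ⟨⟨0, 1, 1⟩, ⟨98, 99, 147⟩, ⟨75, 150, 10000⟩, ⟨2886, 3000, 1000⟩⟩ (yA20B.hC1' false) :=
  posD_join₂ yA20B_c1h0a yA20B_c1h0b

def yA20B_tg00 : PosD ⟨⟨0, 1, 1⟩, ⟨98, 99, 147⟩, ⟨75, 150, 10000⟩, ⟨2886, 3000, 1000⟩⟩ (yA20B.hG false (yA20B.pEnd false)) :=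
  posD_of_check (c := ⟨377, ⟨2, 7, 14, 9⟩⟩) (by decide +kernel)

def yA20B_c2p00 : PosD ⟨⟨0, 1, 1⟩, ⟨98, 99, 147⟩, ⟨75, 150, 10000⟩, ⟨2886, 3000, 1000⟩⟩ (yA20B.hC2p false (yA20B.pEnd false)) :=
  posD_of_check (c := ⟨409, ⟨2, 7, 16, 10⟩⟩) (by decide +kernel)

def yA20B_c2m00 : PosD ⟨⟨0, 1, 1⟩, ⟨98, 99, 147⟩, ⟨75, 150, 10000⟩, ⟨2886, 3000, 1000⟩⟩ (yA20B.hC2m false (yA20B.pEnd false)) :=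
  posD_of_check (c := ⟨439, ⟨3, 8, 16, 11⟩⟩) (by decide +kernel)

def yA20B_c3p00 : PosD ⟨⟨0, 1, 1⟩, ⟨98, 99, 147⟩, ⟨75, 150, 10000⟩, ⟨2886, 3000, 1000⟩⟩ (yA20B.hC3p false false) :=
  posD_of_check (c := ⟨417, ⟨3, 7, 15, 10⟩⟩) (by decide +kernel)

def yA20B_c3m00 : PosD ⟨⟨0, 1, 1⟩, ⟨98, 99, 147⟩, ⟨75, 150, 10000⟩, ⟨2886, 3000, 1000⟩⟩ (yA20B.hC3m false false) :=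
  posD_of_check (c := ⟨442, ⟨3, 8, 15, 11⟩⟩) (by decide +kernel)

def yA20B_c3ph00 : PosD ⟨⟨0, 1, 1⟩, ⟨98, 99, 147⟩, ⟨75, 150, 10000⟩, ⟨2886, 3000, 1000⟩⟩ (yA20B.hC3p' false false) :=
  posD_of_check (c := ⟨417, ⟨3, 7, 15, 10⟩⟩) (by decide +kernel)

def yA20B_c3mh00 : PosD ⟨⟨0, 1, 1⟩, ⟨98, 99, 147⟩, ⟨75, 150, 10000⟩, ⟨2886, 3000, 1000⟩⟩ (yA20B.hC3m' false false) :=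
  posD_of_check (c := ⟨442, ⟨3, 8, 15, 11⟩⟩) (by decide +kernel)

def yA20B_up00 : PosD ⟨⟨0, 1, 1⟩, ⟨98, 99, 147⟩, ⟨75, 150, 10000⟩, ⟨2886, 3000, 1000⟩⟩ (yA20B.hUp false false) :=
  posD_of_check (c := ⟨404, ⟨2, 7, 15, 10⟩⟩) (by decide +kernel)

def yA20B_um00 : PosD ⟨⟨0, 1, 1⟩, ⟨98, 99, 147⟩, ⟨75, 150, 10000⟩, ⟨2886, 3000, 1000⟩⟩ (yA20B.hUm false false) :=
  posD_of_check (c := ⟨430, ⟨3, 8, 15, 11⟩⟩) (by decide +kernel)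

def yA20B_tmg00 : PosD ⟨⟨0, 1, 1⟩, ⟨98, 99, 147⟩, ⟨75, 150, 10000⟩, ⟨2886, 3000, 1000⟩⟩ (yA20B.hTMG false (yA20B.pEnd false)) :=
  posD_of_check (c := ⟨389, ⟨2, 7, 14, 10⟩⟩) (by decide +kernel)

def yA20B_tg01 : PosD ⟨⟨0, 1, 1⟩, ⟨98, 99, 147⟩, ⟨75, 150, 10000⟩, ⟨2886, 3000, 1000⟩⟩ (yA20B.hG true (yA20B.pEnd false)) :=
  posD_of_check (c := ⟨377, ⟨2, 7, 14, 9⟩⟩) (by decide +kernel)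

def yA20B_c2p01 : PosD ⟨⟨0, 1, 1⟩, ⟨98, 99, 147⟩, ⟨75, 150, 10000⟩, ⟨2886, 3000, 1000⟩⟩ (yA20B.hC2p true (yA20B.pEnd false)) :=
  posD_of_check (c := ⟨409, ⟨2, 7, 16, 10⟩⟩) (by decide +kernel)

def yA20B_c2m01 : PosD ⟨⟨0, 1, 1⟩, ⟨98, 99, 147⟩, ⟨75, 150, 10000⟩, ⟨2886, 3000, 1000⟩⟩ (yA20B.hC2m true (yA20B.pEnd false)) :=
  posD_of_check (c := ⟨439, ⟨3, 8, 16, 11⟩⟩) (by decide +kernel)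

def yA20B_c3p01 : PosD ⟨⟨0, 1, 1⟩, ⟨98, 99, 147⟩, ⟨75, 150, 10000⟩, ⟨2886, 3000, 1000⟩⟩ (yA20B.hC3p false true) :=
  posD_of_check (c := ⟨417, ⟨3, 7, 15, 10⟩⟩) (by decide +kernel)

def yA20B_c3m01 : PosD ⟨⟨0, 1, 1⟩, ⟨98, 99, 147⟩, ⟨75, 150, 10000⟩, ⟨2886, 3000, 1000⟩⟩ (yA20B.hC3m false true) :=
  posD_of_check (c := ⟨442, ⟨3, 8, 15, 11⟩⟩) (by decide +kernel)

def yA20B_c3ph01 : PosD ⟨⟨0, 1, 1⟩, ⟨98, 99, 147⟩, ⟨75, 150, 10000⟩, ⟨2886, 3000, 1000⟩⟩ (yA20B.hC3p' false true) :=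
  posD_of_check (c := ⟨417, ⟨3, 7, 15, 10⟩⟩) (by decide +kernel)

def yA20B_c3mh01 : PosD ⟨⟨0, 1, 1⟩, ⟨98, 99, 147⟩, ⟨75, 150, 10000⟩, ⟨2886, 3000, 1000⟩⟩ (yA20B.hC3m' false true) :=
  posD_of_check (c := ⟨442, ⟨3, 8, 15, 11⟩⟩) (by decide +kernel)

def yA20B_up01 : PosD ⟨⟨0, 1, 1⟩, ⟨98, 99, 147⟩, ⟨75, 150, 10000⟩, ⟨2886, 3000, 1000⟩⟩ (yA20B.hUp false true) :=
  posD_of_check (c := ⟨404, ⟨2, 7, 15, 10⟩⟩) (by decide +kernel)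

def yA20B_um01 : PosD ⟨⟨0, 1, 1⟩, ⟨98, 99, 147⟩, ⟨75, 150, 10000⟩, ⟨2886, 3000, 1000⟩⟩ (yA20B.hUm false true) :=
  posD_of_check (c := ⟨430, ⟨3, 8, 15, 11⟩⟩) (by decide +kernel)

def yA20B_tmg01 : PosD ⟨⟨0, 1, 1⟩, ⟨98, 99, 147⟩, ⟨75, 150, 10000⟩, ⟨2886, 3000, 1000⟩⟩ (yA20B.hTMG true (yA20B.pEnd false)) :=
  posD_of_check (c := ⟨389, ⟨2, 7, 14, 10⟩⟩) (by decide +kernel)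

def yA20B_kap1 : PosD ⟨⟨0, 1, 1⟩, ⟨98, 99, 147⟩, ⟨75, 150, 10000⟩, ⟨2886, 3000, 1000⟩⟩ (yA20B.kap true) :=
  posD_of_check (c := ⟨76, ⟨1, 1, 2, 2⟩⟩) (by decide +kernel)

def yA20B_c11 : PosD ⟨⟨0, 1, 1⟩, ⟨98, 99, 147⟩, ⟨75, 150, 10000⟩, ⟨2886, 3000, 1000⟩⟩ (yA20B.hC1 true) :=
  posD_of_check (c := ⟨276, ⟨3, 5, 9, 7⟩⟩) (by decide +kernel)

def yA20B_c1h1 : PosD ⟨⟨0, 1, 1⟩, ⟨98, 99, 147⟩, ⟨75, 150, 10000⟩, ⟨2886, 3000, 1000⟩⟩ (yA20B.hC1' true) :=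
  posD_of_check (c := ⟨276, ⟨3, 5, 9, 7⟩⟩) (by decide +kernel)

def yA20B_tg10 : PosD ⟨⟨0, 1, 1⟩, ⟨98, 99, 147⟩, ⟨75, 150, 10000⟩, ⟨2886, 3000, 1000⟩⟩ (yA20B.hG false (yA20B.pEnd true)) :=
  posD_of_check (c := ⟨375, ⟨2, 7, 14, 9⟩⟩) (by decide +kernel)

def yA20B_c2p10 : PosD ⟨⟨0, 1, 1⟩, ⟨98, 99, 147⟩, ⟨75, 150, 10000⟩, ⟨2886, 3000, 1000⟩⟩ (yA20B.hC2p false (yA20B.pEnd true)) :=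
  posD_of_check (c := ⟨407, ⟨2, 7, 16, 10⟩⟩) (by decide +kernel)

def yA20B_c2m10 : PosD ⟨⟨0, 1, 1⟩, ⟨98, 99, 147⟩, ⟨75, 150, 10000⟩, ⟨2886, 3000, 1000⟩⟩ (yA20B.hC2m false (yA20B.pEnd true)) :=
  posD_of_check (c := ⟨438, ⟨3, 8, 16, 11⟩⟩) (by decide +kernel)

def yA20B_c3p10 : PosD ⟨⟨0, 1, 1⟩, ⟨98, 99, 147⟩, ⟨75, 150, 10000⟩, ⟨2886, 3000, 1000⟩⟩ (yA20B.hC3p true false) :=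
  posD_of_check (c := ⟨415, ⟨3, 7, 15, 10⟩⟩) (by decide +kernel)

def yA20B_c3m10 : PosD ⟨⟨0, 1, 1⟩, ⟨98, 99, 147⟩, ⟨75, 150, 10000⟩, ⟨2886, 3000, 1000⟩⟩ (yA20B.hC3m true false) :=
  posD_of_check (c := ⟨440, ⟨3, 8, 15, 11⟩⟩) (by decide +kernel)

def yA20B_c3ph10 : PosD ⟨⟨0, 1, 1⟩, ⟨98, 99, 147⟩, ⟨75, 150, 10000⟩, ⟨2886, 3000, 1000⟩⟩ (yA20B.hC3p' true false) :=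
  posD_of_check (c := ⟨415, ⟨3, 7, 15, 10⟩⟩) (by decide +kernel)

def yA20B_c3mh10 : PosD ⟨⟨0, 1, 1⟩, ⟨98, 99, 147⟩, ⟨75, 150, 10000⟩, ⟨2886, 3000, 1000⟩⟩ (yA20B.hC3m' true false) :=
  posD_of_check (c := ⟨440, ⟨3, 8, 15, 11⟩⟩) (by decide +kernel)

def yA20B_up10 : PosD ⟨⟨0, 1, 1⟩, ⟨98, 99, 147⟩, ⟨75, 150, 10000⟩, ⟨2886, 3000, 1000⟩⟩ (yA20B.hUp true false) :=
  posD_of_check (c := ⟨403, ⟨2, 7, 15, 10⟩⟩) (by decide +kernel)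

def yA20B_um10 : PosD ⟨⟨0, 1, 1⟩, ⟨98, 99, 147⟩, ⟨75, 150, 10000⟩, ⟨2886, 3000, 1000⟩⟩ (yA20B.hUm true false) :=
  posD_of_check (c := ⟨429, ⟨3, 8, 15, 11⟩⟩) (by decide +kernel)

def yA20B_tmg10 : PosD ⟨⟨0, 1, 1⟩, ⟨98, 99, 147⟩, ⟨75, 150, 10000⟩, ⟨2886, 3000, 1000⟩⟩ (yA20B.hTMG false (yA20B.pEnd true)) :=
  posD_of_check (c := ⟨389, ⟨2, 7, 14, 10⟩⟩) (by decide +kernel)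

def yA20B_tg11 : PosD ⟨⟨0, 1, 1⟩, ⟨98, 99, 147⟩, ⟨75, 150, 10000⟩, ⟨2886, 3000, 1000⟩⟩ (yA20B.hG true (yA20B.pEnd true)) :=
  posD_of_check (c := ⟨375, ⟨2, 7, 14, 9⟩⟩) (by decide +kernel)

def yA20B_c2p11 : PosD ⟨⟨0, 1, 1⟩, ⟨98, 99, 147⟩, ⟨75, 150, 10000⟩, ⟨2886, 3000, 1000⟩⟩ (yA20B.hC2p true (yA20B.pEnd true)) :=
  posD_of_check (c := ⟨407, ⟨2, 7, 16, 10⟩⟩) (by decide +kernel)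

def yA20B_c2m11 : PosD ⟨⟨0, 1, 1⟩, ⟨98, 99, 147⟩, ⟨75, 150, 10000⟩, ⟨2886, 3000, 1000⟩⟩ (yA20B.hC2m true (yA20B.pEnd true)) :=
  posD_of_check (c := ⟨438, ⟨3, 8, 16, 11⟩⟩) (by decide +kernel)

def yA20B_c3p11 : PosD ⟨⟨0, 1, 1⟩, ⟨98, 99, 147⟩, ⟨75, 150, 10000⟩, ⟨2886, 3000, 1000⟩⟩ (yA20B.hC3p true true) :=
  posD_of_check (c := ⟨415, ⟨3, 7, 15, 10⟩⟩) (by decide +kernel)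

def yA20B_c3m11 : PosD ⟨⟨0, 1, 1⟩, ⟨98, 99, 147⟩, ⟨75, 150, 10000⟩, ⟨2886, 3000, 1000⟩⟩ (yA20B.hC3m true true) :=
  posD_of_check (c := ⟨440, ⟨3, 8, 15, 11⟩⟩) (by decide +kernel)

def yA20B_c3ph11 : PosD ⟨⟨0, 1, 1⟩, ⟨98, 99, 147⟩, ⟨75, 150, 10000⟩, ⟨2886, 3000, 1000⟩⟩ (yA20B.hC3p' true true) :=
  posD_of_check (c := ⟨415, ⟨3, 7, 15, 10⟩⟩) (by decide +kernel)

def yA20B_c3mh11 : PosD ⟨⟨0, 1, 1⟩, ⟨98, 99, 147⟩, ⟨75, 150, 10000⟩, ⟨2886, 3000, 1000⟩⟩ (yA20B.hC3m' true true) :=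
  posD_of_check (c := ⟨440, ⟨3, 8, 15, 11⟩⟩) (by decide +kernel)

def yA20B_up11 : PosD ⟨⟨0, 1, 1⟩, ⟨98, 99, 147⟩, ⟨75, 150, 10000⟩, ⟨2886, 3000, 1000⟩⟩ (yA20B.hUp true true) :=
  posD_of_check (c := ⟨403, ⟨2, 7, 15, 10⟩⟩) (by decide +kernel)

def yA20B_um11 : PosD ⟨⟨0, 1, 1⟩, ⟨98, 99, 147⟩, ⟨75, 150, 10000⟩, ⟨2886, 3000, 1000⟩⟩ (yA20B.hUm true true) :=
  posD_of_check (c := ⟨429, ⟨3, 8, 15, 11⟩⟩) (by decide +kernel)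

def yA20B_tmg11 : PosD ⟨⟨0, 1, 1⟩, ⟨98, 99, 147⟩, ⟨75, 150, 10000⟩, ⟨2886, 3000, 1000⟩⟩ (yA20B.hTMG true (yA20B.pEnd true)) :=
  posD_of_check (c := ⟨389, ⟨2, 7, 14, 10⟩⟩) (by decide +kernel)

/-- The signs of the piece. -/
def yA20B_sign : yA20B.Sign ⟨⟨0, 1, 1⟩, ⟨98, 99, 147⟩, ⟨75, 150, 10000⟩, ⟨2886, 3000, 1000⟩⟩ :=
  ⟨yA20B_pp,
    yA20B_k2p,
    yA20B_k2m,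
    Bool.forall_bool.2 ⟨(Bool.forall_bool.2 ⟨yA20B_tg00, yA20B_tg01⟩), (Bool.forall_bool.2 ⟨yA20B_tg10, yA20B_tg11⟩)⟩,
    Bool.forall_bool.2 ⟨(Bool.forall_bool.2 ⟨yA20B_c2p00, yA20B_c2p01⟩), (Bool.forall_bool.2 ⟨yA20B_c2p10, yA20B_c2p11⟩)⟩,
    Bool.forall_bool.2 ⟨(Bool.forall_bool.2 ⟨yA20B_c2m00, yA20B_c2m01⟩), (Bool.forall_bool.2 ⟨yA20B_c2m10, yA20B_c2m11⟩)⟩,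
    Bool.forall_bool.2 ⟨yA20B_kap0, yA20B_kap1⟩,
    Bool.forall_bool.2 ⟨yA20B_c10, yA20B_c11⟩,
    Bool.forall_bool.2 ⟨(Bool.forall_bool.2 ⟨yA20B_c3p00, yA20B_c3p01⟩), (Bool.forall_bool.2 ⟨yA20B_c3p10, yA20B_c3p11⟩)⟩,
    Bool.forall_bool.2 ⟨(Bool.forall_bool.2 ⟨yA20B_c3m00, yA20B_c3m01⟩), (Bool.forall_bool.2 ⟨yA20B_c3m10, yA20B_c3m11⟩)⟩,
    Bool.forall_bool.2 ⟨(Bool.forall_bool.2 ⟨yA20B_tmg00, yA20B_tmg01⟩), (Bool.forall_bool.2 ⟨yA20B_tmg10, yA20B_tmg11⟩)⟩,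
    .inr (Bool.forall_bool.2 ⟨⟨yA20B_c1h0, Bool.forall_bool.2 ⟨⟨yA20B_c3ph00, yA20B_c3mh00, yA20B_up00, yA20B_um00⟩, ⟨yA20B_c3ph01, yA20B_c3mh01, yA20B_up01, yA20B_um01⟩⟩⟩, ⟨yA20B_c1h1, Bool.forall_bool.2 ⟨⟨yA20B_c3ph10, yA20B_c3mh10, yA20B_up10, yA20B_um10⟩, ⟨yA20B_c3ph11, yA20B_c3mh11, yA20B_up11, yA20B_um11⟩⟩⟩⟩),
    yA20B_v2p,
    yA20B_v2m,
    yA20B_v3p,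
    yA20B_v3m,
    posD_sub (b := ⟨⟨0, 1, 1⟩, ⟨98, 99, 147⟩, ⟨0, 301, 10000⟩, ⟨1060, 4000, 1000⟩⟩) (by decide +kernel) yA_vG,
    posD_sub (b := ⟨⟨0, 1, 1⟩, ⟨98, 99, 147⟩, ⟨0, 301, 10000⟩, ⟨1060, 4000, 1000⟩⟩) (by decide +kernel) yA_vMG,
    posD_sub (b := ⟨⟨0, 1, 1⟩, ⟨98, 99, 147⟩, ⟨0, 301, 10000⟩, ⟨1060, 4000, 1000⟩⟩) (by decide +kernel) yA_ak,
    posD_sub (b := ⟨⟨0, 1, 1⟩, ⟨98, 99, 147⟩, ⟨0, 301, 10000⟩, ⟨1060, 4000, 1000⟩⟩) (by decide +kernel) yA_aw,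
    posD_sub (b := ⟨⟨0, 1, 1⟩, ⟨98, 99, 147⟩, ⟨0, 301, 10000⟩, ⟨1060, 4000, 1000⟩⟩) (by decide +kernel) yA_gk,
    posD_sub (b := ⟨⟨0, 1, 1⟩, ⟨98, 99, 147⟩, ⟨0, 301, 10000⟩, ⟨1060, 4000, 1000⟩⟩) (by decide +kernel) yA_gw,
    posD_sub (b := ⟨⟨0, 1, 1⟩, ⟨98, 99, 147⟩, ⟨0, 301, 10000⟩, ⟨1060, 4000, 1000⟩⟩) (by decide +kernel) yA_ek,
    posD_sub (b := ⟨⟨0, 1, 1⟩, ⟨98, 99, 147⟩, ⟨0, 301, 10000⟩, ⟨1060, 4000, 1000⟩⟩) (by decide +kernel) yA_ew⟩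

end Vale.Agent.P100.Calib.Closed.Six.Tail
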