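import Vale.Agent.P100.Calib.SlabSixTailDataLayerA
import Vale.Agent.P100.Calib.SlabSixTailGlobLayerA

/-!
# Checks of some pieces of the certificate

The checks are written as definitions so that they run one after another, which keeps the memory of the
kernel low.
-/

set_option linter.defProp false

namespace Vale.Agent.P100.Calib.Closed.Six.Tail

open BoxPos Large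

local instance sixTailChecksyA13Add : Add Ex := ⟨Ex.add⟩
local instance sixTailChecksyA13Sub : Sub Ex := ⟨Ex.sub⟩
local instance sixTailChecksyA13Mul : Mul Ex := ⟨Ex.mul⟩

def yA21_p0 : PosD ⟨⟨0, 1, 1⟩, ⟨98, 99, 147⟩, ⟨75, 150, 10000⟩, ⟨3000, 3071, 1000⟩⟩ (yA21.hP0) :=
  posD_of_check (c := ⟨82, ⟨0, 2, 3, 1⟩⟩) (by decide +kernel)

def yA21_gn : PosD ⟨⟨0, 1, 1⟩, ⟨98, 99, 147⟩, ⟨75, 150, 10000⟩, ⟨3000, 3071, 1000⟩⟩ (yA21.hGn) :=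
  posD_of_check (c := ⟨58, ⟨1, 1, 2, 1⟩⟩) (by decide +kernel)

def yA21_den0 : PosD ⟨⟨0, 1, 1⟩, ⟨98, 99, 147⟩, ⟨75, 150, 10000⟩, ⟨3000, 3071, 1000⟩⟩ (yA21.hDen false) :=
  posD_of_check (c := ⟨45, ⟨0, 0, 2, 0⟩⟩) (by decide +kernel)

def yA21_den1 : PosD ⟨⟨0, 1, 1⟩, ⟨98, 99, 147⟩, ⟨75, 150, 10000⟩, ⟨3000, 3071, 1000⟩⟩ (yA21.hDen true) :=
  posD_of_check (c := ⟨22, ⟨1, 0, 1, 0⟩⟩) (by decide +kernel)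

def yA21_ev0 : PosD ⟨⟨0, 1, 1⟩, ⟨98, 99, 147⟩, ⟨75, 150, 10000⟩, ⟨3000, 3071, 1000⟩⟩ (yA21.hEv false) :=
  posD_of_check (c := ⟨148, ⟨2, 2, 6, 1⟩⟩) (by decide +kernel)

def yA21_zL0 : PosD ⟨⟨0, 1, 1⟩, ⟨98, 99, 147⟩, ⟨75, 150, 10000⟩, ⟨3000, 3071, 1000⟩⟩ (yA21.hZL false) :=
  posD_of_check (c := ⟨158, ⟨2, 3, 6, 3⟩⟩) (by decide +kernel)

def yA21_zU0 : PosD ⟨⟨0, 1, 1⟩, ⟨98, 99, 147⟩, ⟨75, 150, 10000⟩, ⟨3000, 3071, 1000⟩⟩ (yA21.hZU false) :=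
  posD_of_check (c := ⟨159, ⟨2, 3, 6, 3⟩⟩) (by decide +kernel)

def yA21_eL0 : PosD ⟨⟨0, 1, 1⟩, ⟨98, 99, 147⟩, ⟨75, 150, 10000⟩, ⟨3000, 3071, 1000⟩⟩ (yA21.hEL false) :=
  posD_of_check (c := ⟨240, ⟨3, 6, 9, 3⟩⟩) (by decide +kernel)

def yA21_eH0 : PosD ⟨⟨0, 1, 1⟩, ⟨98, 99, 147⟩, ⟨75, 150, 10000⟩, ⟨3000, 3071, 1000⟩⟩ (yA21.hEH false) :=
  posD_of_check (c := ⟨240, ⟨3, 6, 9, 3⟩⟩) (by decide +kernel)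

def yA21_pL0 : PosD ⟨⟨0, 1, 1⟩, ⟨98, 99, 147⟩, ⟨75, 150, 10000⟩, ⟨3000, 3071, 1000⟩⟩ (yA21.hPL false) :=
  posD_of_check (c := ⟨260, ⟨3, 6, 9, 3⟩⟩) (by decide +kernel)

def yA21_pU0 : PosD ⟨⟨0, 1, 1⟩, ⟨98, 99, 147⟩, ⟨75, 150, 10000⟩, ⟨3000, 3071, 1000⟩⟩ (yA21.hPU false) :=
  posD_of_check (c := ⟨267, ⟨3, 6, 9, 3⟩⟩) (by decide +kernel)

def yA21_kU0 : PosD ⟨⟨0, 1, 1⟩, ⟨98, 99, 147⟩, ⟨75, 150, 10000⟩, ⟨3000, 3071, 1000⟩⟩ (yA21.hKU false) :=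
  posD_of_check (c := ⟨254, ⟨3, 6, 9, 3⟩⟩) (by decide +kernel)

def yA21_kL0 : PosD ⟨⟨0, 1, 1⟩, ⟨98, 99, 147⟩, ⟨75, 150, 10000⟩, ⟨3000, 3071, 1000⟩⟩ (yA21.hKL false) :=
  posD_of_check (c := ⟨262, ⟨3, 6, 9, 3⟩⟩) (by decide +kernel)

def yA21_wU0 : PosD ⟨⟨0, 1, 1⟩, ⟨98, 99, 147⟩, ⟨75, 150, 10000⟩, ⟨3000, 3071, 1000⟩⟩ (yA21.hWU false) :=
  posD_of_check (c := ⟨290, ⟨3, 8, 10, 3⟩⟩) (by decide +kernel)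

def yA21_wL0 : PosD ⟨⟨0, 1, 1⟩, ⟨98, 99, 147⟩, ⟨75, 150, 10000⟩, ⟨3000, 3071, 1000⟩⟩ (yA21.hWL false) :=
  posD_of_check (c := ⟨290, ⟨3, 8, 10, 3⟩⟩) (by decide +kernel)

def yA21_ev1 : PosD ⟨⟨0, 1, 1⟩, ⟨98, 99, 147⟩, ⟨75, 150, 10000⟩, ⟨3000, 3071, 1000⟩⟩ (yA21.hEv true) :=
  posD_of_check (c := ⟨120, ⟨2, 2, 6, 1⟩⟩) (by decide +kernel)

def yA21_zL1 : PosD ⟨⟨0, 1, 1⟩, ⟨98, 99, 147⟩, ⟨75, 150, 10000⟩, ⟨3000, 3071, 1000⟩⟩ (yA21.hZL true) :=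
  posD_of_check (c := ⟨134, ⟨2, 3, 6, 3⟩⟩) (by decide +kernel)

def yA21_zU1 : PosD ⟨⟨0, 1, 1⟩, ⟨98, 99, 147⟩, ⟨75, 150, 10000⟩, ⟨3000, 3071, 1000⟩⟩ (yA21.hZU true) :=
  posD_of_check (c := ⟨134, ⟨2, 3, 6, 3⟩⟩) (by decide +kernel)

def yA21_eL1 : PosD ⟨⟨0, 1, 1⟩, ⟨98, 99, 147⟩, ⟨75, 150, 10000⟩, ⟨3000, 3071, 1000⟩⟩ (yA21.hEL true) :=
  posD_of_check (c := ⟨212, ⟨3, 6, 9, 3⟩⟩) (by decide +kernel)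

def yA21_eH1 : PosD ⟨⟨0, 1, 1⟩, ⟨98, 99, 147⟩, ⟨75, 150, 10000⟩, ⟨3000, 3071, 1000⟩⟩ (yA21.hEH true) :=
  posD_of_check (c := ⟨212, ⟨3, 6, 9, 3⟩⟩) (by decide +kernel)

def yA21_pL1 : PosD ⟨⟨0, 1, 1⟩, ⟨98, 99, 147⟩, ⟨75, 150, 10000⟩, ⟨3000, 3071, 1000⟩⟩ (yA21.hPL true) :=
  posD_of_check (c := ⟨232, ⟨3, 6, 9, 3⟩⟩) (by decide +kernel)

def yA21_pU1a : PosD ⟨⟨0, 1, 2⟩, ⟨98, 99, 147⟩, ⟨75, 150, 10000⟩, ⟨3000, 3071, 1000⟩⟩ (yA21.hPU true) :=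
  posD_of_check (c := ⟨240, ⟨3, 6, 9, 3⟩⟩) (by decide +kernel)

def yA21_pU1ba : PosD ⟨⟨2, 3, 4⟩, ⟨98, 99, 147⟩, ⟨75, 150, 10000⟩, ⟨3000, 3071, 1000⟩⟩ (yA21.hPU true) :=
  posD_of_check (c := ⟨244, ⟨3, 6, 9, 3⟩⟩) (by decide +kernel)

def yA21_pU1bb : PosD ⟨⟨3, 4, 4⟩, ⟨98, 99, 147⟩, ⟨75, 150, 10000⟩, ⟨3000, 3071, 1000⟩⟩ (yA21.hPU true) :=
  posD_of_check (c := ⟨244, ⟨3, 6, 9, 3⟩⟩) (by decide +kernel)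

def yA21_pU1b : PosD ⟨⟨1, 2, 2⟩, ⟨98, 99, 147⟩, ⟨75, 150, 10000⟩, ⟨3000, 3071, 1000⟩⟩ (yA21.hPU true) :=
  posD_units (b := ⟨⟨2, 4, 4⟩, ⟨98, 99, 147⟩, ⟨75, 150, 10000⟩, ⟨3000, 3071, 1000⟩⟩) (by decide +kernel) (posD_join₀ yA21_pU1ba yA21_pU1bb)

def yA21_pU1 : PosD ⟨⟨0, 1, 1⟩, ⟨98, 99, 147⟩, ⟨75, 150, 10000⟩, ⟨3000, 3071, 1000⟩⟩ (yA21.hPU true) :=
  posD_units (b := ⟨⟨0, 2, 2⟩, ⟨98, 99, 147⟩, ⟨75, 150, 10000⟩, ⟨3000, 3071, 1000⟩⟩) (by decide +kernel) (posD_join₀ yA21_pU1a yA21_pU1b)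

def yA21_kU1 : PosD ⟨⟨0, 1, 1⟩, ⟨98, 99, 147⟩, ⟨75, 150, 10000⟩, ⟨3000, 3071, 1000⟩⟩ (yA21.hKU true) :=
  posD_of_check (c := ⟨225, ⟨3, 6, 9, 3⟩⟩) (by decide +kernel)

def yA21_kL1 : PosD ⟨⟨0, 1, 1⟩, ⟨98, 99, 147⟩, ⟨75, 150, 10000⟩, ⟨3000, 3071, 1000⟩⟩ (yA21.hKL true) :=
  posD_of_check (c := ⟨234, ⟨3, 6, 9, 3⟩⟩) (by decide +kernel)

def yA21_wU1 : PosD ⟨⟨0, 1, 1⟩, ⟨98, 99, 147⟩, ⟨75, 150, 10000⟩, ⟨3000, 3071, 1000⟩⟩ (yA21.hWU true) :=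
  posD_of_check (c := ⟨261, ⟨3, 8, 10, 3⟩⟩) (by decide +kernel)

def yA21_wL1 : PosD ⟨⟨0, 1, 1⟩, ⟨98, 99, 147⟩, ⟨75, 150, 10000⟩, ⟨3000, 3071, 1000⟩⟩ (yA21.hWL true) :=
  posD_of_check (c := ⟨262, ⟨3, 8, 10, 3⟩⟩) (by decide +kernel)

def yA21_nupU : PosD ⟨⟨0, 1, 1⟩, ⟨98, 99, 147⟩, ⟨75, 150, 10000⟩, ⟨3000, 3071, 1000⟩⟩ (yA21.pU.ν) :=
  posD_of_check (c := ⟨45, ⟨0, 0, 1, 1⟩⟩) (by decide +kernel)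

def yA21_nukL : PosD ⟨⟨0, 1, 1⟩, ⟨98, 99, 147⟩, ⟨75, 150, 10000⟩, ⟨3000, 3071, 1000⟩⟩ (yA21.kL.ν) :=
  posD_of_check (c := ⟨41, ⟨0, 0, 1, 1⟩⟩) (by decide +kernel)

/-- The bounds of the piece. -/
def yA21_env : yA21.Env ⟨⟨0, 1, 1⟩, ⟨98, 99, 147⟩, ⟨75, 150, 10000⟩, ⟨3000, 3071, 1000⟩⟩ :=
  ⟨yA21_p0, Bool.forall_bool.2 ⟨yA21_den0, yA21_den1⟩, yA21_gn, Bool.forall_bool.2 ⟨yA21_ev0, yA21_ev1⟩, Bool.forall_bool.2 ⟨yA21_zL0, yA21_zL1⟩, Bool.forall_bool.2 ⟨yA21_zU0, yA21_zU1⟩, Bool.forall_bool.2 ⟨yA21_eL0, yA21_eL1⟩, ⟨.inr rfl, .inr rfl⟩, Bool.forall_bool.2 ⟨yA21_eH0, yA21_eH1⟩, ⟨.inr rfl, .inr rfl⟩, Bool.forall_bool.2 ⟨yA21_pL0, yA21_pL1⟩, ⟨.inr rfl, .inr rfl⟩, Bool.forall_bool.2 ⟨yA21_pU0, yA21_pU1⟩, ⟨.inr rfl, .inl yA21_nupU⟩,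 Bool.forall_bool.2 ⟨yA21_kU0, yA21_kU1⟩, ⟨.inr rfl, .inr rfl⟩, Bool.forall_bool.2 ⟨yA21_kL0, yA21_kL1⟩, ⟨.inr rfl, .inl yA21_nukL⟩, Bool.forall_bool.2 ⟨yA21_wU0, yA21_wU1⟩, ⟨.inr rfl, .inr rfl⟩, Bool.forall_bool.2 ⟨yA21_wL0, yA21_wL1⟩, ⟨.inr rfl, .inr rfl⟩⟩

def yA21_pU20 : PosD ⟨⟨0, 1, 1⟩, ⟨98, 99, 147⟩, ⟨75, 150, 10000⟩, ⟨3000, 3071, 1000⟩⟩ (({ yA21 with pU := yA21PU } : Piece).hPU false) :=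
  posD_of_check (c := ⟨266, ⟨3, 6, 9, 3⟩⟩) (by decide +kernel)

def yA21_pU21 : PosD ⟨⟨0, 1, 1⟩, ⟨98, 99, 147⟩, ⟨75, 150, 10000⟩, ⟨3000, 3071, 1000⟩⟩ (({ yA21 with pU := yA21PU } : Piece).hPU true) :=
  posD_of_check (c := ⟨238, ⟨3, 6, 9, 3⟩⟩) (by decide +kernel)

def yA21_nupU2 : PosD ⟨⟨0, 1, 1⟩, ⟨98, 99, 147⟩, ⟨75, 150, 10000⟩, ⟨3000, 3071, 1000⟩⟩ (yA21PU.ν) :=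
  posD_of_check (c := ⟨43, ⟨0, 0, 1, 1⟩⟩) (by decide +kernel)

/-- The bounds with the other bound of `p`. -/
def yA21_envU : ({ yA21 with pU := yA21PU } : Piece).Env ⟨⟨0, 1, 1⟩, ⟨98, 99, 147⟩, ⟨75, 150, 10000⟩, ⟨3000, 3071, 1000⟩⟩ :=
  yA21_env.withU yA21PU (Bool.forall_bool.2 ⟨yA21_pU20, yA21_pU21⟩) ⟨.inr rfl, .inl yA21_nupU2⟩

def yA21A_pp : PosD ⟨⟨0, 1, 1⟩, ⟨98, 99, 147⟩, ⟨75, 150, 10000⟩, ⟨3000, 3071, 1000⟩⟩ (yA21A.xPL) :=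
  posD_of_check (c := ⟨92, ⟨1, 1, 3, 3⟩⟩) (by decide +kernel)

def yA21A_k2p : PosD ⟨⟨0, 1, 1⟩, ⟨98, 99, 147⟩, ⟨75, 150, 10000⟩, ⟨3000, 3071, 1000⟩⟩ (yA21A.k2p yA21A.xE) :=
  posD_of_check (c := ⟨60, ⟨1, 1, 2, 2⟩⟩) (by decide +kernel)

def yA21A_k2m : PosD ⟨⟨0, 1, 1⟩, ⟨98, 99, 147⟩, ⟨75, 150, 10000⟩, ⟨3000, 3071, 1000⟩⟩ (yA21A.k2m yA21A.xE) :=
  posD_of_check (c := ⟨61, ⟨1, 1, 2, 2⟩⟩) (by decide +kernel)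

def yA21A_v2p : PosD ⟨⟨0, 1, 1⟩, ⟨98, 99, 147⟩, ⟨75, 150, 10000⟩, ⟨3000, 3071, 1000⟩⟩ (yA21A.hV2p) :=
  posD_of_check (c := ⟨253, ⟨1, 6, 10, 5⟩⟩) (by decide +kernel)

def yA21A_v2m : PosD ⟨⟨0, 1, 1⟩, ⟨98, 99, 147⟩, ⟨75, 150, 10000⟩, ⟨3000, 3071, 1000⟩⟩ (yA21A.hV2m) :=
  posD_of_check (c := ⟨254, ⟨1, 6, 10, 5⟩⟩) (by decide +kernel)

def yA21A_v3p : PosD ⟨⟨0, 1, 1⟩, ⟨98, 99, 147⟩, ⟨75, 150, 10000⟩, ⟨3000, 3071, 1000⟩⟩ (yA21A.hV3p) :=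
  posD_of_check (c := ⟨246, ⟨1, 6, 9, 5⟩⟩) (by decide +kernel)

def yA21A_v3m : PosD ⟨⟨0, 1, 1⟩, ⟨98, 99, 147⟩, ⟨75, 150, 10000⟩, ⟨3000, 3071, 1000⟩⟩ (yA21A.hV3m) :=
  posD_of_check (c := ⟨246, ⟨1, 6, 9, 5⟩⟩) (by decide +kernel)

def yA21A_kap0 : PosD ⟨⟨0, 1, 1⟩, ⟨98, 99, 147⟩, ⟨75, 150, 10000⟩, ⟨3000, 3071, 1000⟩⟩ (yA21A.kap false) :=
  posD_of_check (c := ⟨68, ⟨1, 1, 2, 2⟩⟩) (by decide +kernel)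

def yA21A_c10 : PosD ⟨⟨0, 1, 1⟩, ⟨98, 99, 147⟩, ⟨75, 150, 10000⟩, ⟨3000, 3071, 1000⟩⟩ (yA21A.hC1 false) :=
  posD_of_check (c := ⟨264, ⟨3, 5, 9, 7⟩⟩) (by decide +kernel)

def yA21A_c1h0a : PosD ⟨⟨0, 1, 1⟩, ⟨98, 99, 147⟩, ⟨75, 112, 10000⟩, ⟨3000, 3071, 1000⟩⟩ (yA21A.hC1' false) :=
  posD_of_check (c := ⟨264, ⟨3, 5, 9, 7⟩⟩) (by decide +kernel)

def yA21A_c1h0ba : PosD ⟨⟨0, 1, 1⟩, ⟨98, 99, 147⟩, ⟨112, 131, 10000⟩, ⟨3000, 3071, 1000⟩⟩ (yA21A.hC1' false) :=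
  posD_of_check (c := ⟨264, ⟨3, 5, 9, 7⟩⟩) (by decide +kernel)

def yA21A_c1h0bba : PosD ⟨⟨0, 1, 1⟩, ⟨98, 99, 147⟩, ⟨131, 140, 10000⟩, ⟨3000, 3071, 1000⟩⟩ (yA21A.hC1' false) :=
  posD_of_check (c := ⟨265, ⟨3, 5, 9, 7⟩⟩) (by decide +kernel)

def yA21A_c1h0bbba : PosD ⟨⟨0, 1, 1⟩, ⟨98, 99, 147⟩, ⟨140, 145, 10000⟩, ⟨3000, 3071, 1000⟩⟩ (yA21A.hC1' false) :=
  posD_of_check (c := ⟨265, ⟨3, 5, 9, 7⟩⟩) (by decide +kernel)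

def yA21A_c1h0bbbba : PosD ⟨⟨0, 1, 1⟩, ⟨98, 99, 147⟩, ⟨145, 150, 10000⟩, ⟨3000, 3035, 1000⟩⟩ (yA21A.hC1' false) :=
  posD_of_check (c := ⟨265, ⟨3, 5, 9, 7⟩⟩) (by decide +kernel)

def yA21A_c1h0bbbbb : PosD ⟨⟨0, 1, 1⟩, ⟨98, 99, 147⟩, ⟨145, 150, 10000⟩, ⟨3035, 3071, 1000⟩⟩ (yA21A.hC1' false) :=
  posD_of_relax (k₁ := 0) (k₂ := 32) (k₃ := 0) (n := 16) (posD_of_check (c := ⟨265, ⟨3, 5, 9, 7⟩⟩) (by decide +kernel))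

def yA21A_c1h0bbbb : PosD ⟨⟨0, 1, 1⟩, ⟨98, 99, 147⟩, ⟨145, 150, 10000⟩, ⟨3000, 3071, 1000⟩⟩ (yA21A.hC1' false) :=
  posD_join₃ yA21A_c1h0bbbba yA21A_c1h0bbbbb

def yA21A_c1h0bbb : PosD ⟨⟨0, 1, 1⟩, ⟨98, 99, 147⟩, ⟨140, 150, 10000⟩, ⟨3000, 3071, 1000⟩⟩ (yA21A.hC1' false) :=
  posD_join₂ yA21A_c1h0bbba yA21A_c1h0bbbb

def yA21A_c1h0bb : PosD ⟨⟨0, 1, 1⟩, ⟨98, 99, 147⟩, ⟨131, 150, 10000⟩, ⟨3000, 3071, 1000⟩⟩ (yA21A.hC1' false) :=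
  posD_join₂ yA21A_c1h0bba yA21A_c1h0bbb

def yA21A_c1h0b : PosD ⟨⟨0, 1, 1⟩, ⟨98, 99, 147⟩, ⟨112, 150, 10000⟩, ⟨3000, 3071, 1000⟩⟩ (yA21A.hC1' false) :=
  posD_join₂ yA21A_c1h0ba yA21A_c1h0bb

def yA21A_c1h0 : PosD ⟨⟨0, 1, 1⟩, ⟨98, 99, 147⟩, ⟨75, 150, 10000⟩, ⟨3000, 3071, 1000⟩⟩ (yA21A.hC1' false) :=
  posD_join₂ yA21A_c1h0a yA21A_c1h0b

def yA21A_tg00 : PosD ⟨⟨0, 1, 1⟩, ⟨98, 99, 147⟩, ⟨75, 150, 10000⟩, ⟨3000, 3071, 1000⟩⟩ (yA21A.hG false (yA21A.pEnd false)) :=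
  posD_of_check (c := ⟨373, ⟨2, 7, 14, 9⟩⟩) (by decide +kernel)

def yA21A_c2p00 : PosD ⟨⟨0, 1, 1⟩, ⟨98, 99, 147⟩, ⟨75, 150, 10000⟩, ⟨3000, 3071, 1000⟩⟩ (yA21A.hC2p false (yA21A.pEnd false)) :=
  posD_of_check (c := ⟨433, ⟨3, 8, 16, 11⟩⟩) (by decide +kernel)

def yA21A_c2m00 : PosD ⟨⟨0, 1, 1⟩, ⟨98, 99, 147⟩, ⟨75, 150, 10000⟩, ⟨3000, 3071, 1000⟩⟩ (yA21A.hC2m false (yA21A.pEnd false)) :=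
  posD_of_check (c := ⟨434, ⟨3, 8, 16, 11⟩⟩) (by decide +kernel)

def yA21A_c3p00 : PosD ⟨⟨0, 1, 1⟩, ⟨98, 99, 147⟩, ⟨75, 150, 10000⟩, ⟨3000, 3071, 1000⟩⟩ (yA21A.hC3p false false) :=
  posD_of_check (c := ⟨429, ⟨3, 8, 15, 11⟩⟩) (by decide +kernel)

def yA21A_c3m00 : PosD ⟨⟨0, 1, 1⟩, ⟨98, 99, 147⟩, ⟨75, 150, 10000⟩, ⟨3000, 3071, 1000⟩⟩ (yA21A.hC3m false false) :=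
  posD_of_check (c := ⟨429, ⟨3, 8, 15, 11⟩⟩) (by decide +kernel)

def yA21A_c3ph00 : PosD ⟨⟨0, 1, 1⟩, ⟨98, 99, 147⟩, ⟨75, 150, 10000⟩, ⟨3000, 3071, 1000⟩⟩ (yA21A.hC3p' false false) :=
  posD_of_check (c := ⟨429, ⟨3, 8, 15, 11⟩⟩) (by decide +kernel)

def yA21A_c3mh00 : PosD ⟨⟨0, 1, 1⟩, ⟨98, 99, 147⟩, ⟨75, 150, 10000⟩, ⟨3000, 3071, 1000⟩⟩ (yA21A.hC3m' false false) :=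
  posD_of_check (c := ⟨429, ⟨3, 8, 15, 11⟩⟩) (by decide +kernel)

def yA21A_up00 : PosD ⟨⟨0, 1, 1⟩, ⟨98, 99, 147⟩, ⟨75, 150, 10000⟩, ⟨3000, 3071, 1000⟩⟩ (yA21A.hUp false false) :=
  posD_of_check (c := ⟨427, ⟨3, 8, 15, 11⟩⟩) (by decide +kernel)

def yA21A_um00 : PosD ⟨⟨0, 1, 1⟩, ⟨98, 99, 147⟩, ⟨75, 150, 10000⟩, ⟨3000, 3071, 1000⟩⟩ (yA21A.hUm false false) :=
  posD_of_check (c := ⟨427, ⟨3, 8, 15, 11⟩⟩) (by decide +kernel)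

def yA21A_tmg00 : PosD ⟨⟨0, 1, 1⟩, ⟨98, 99, 147⟩, ⟨75, 150, 10000⟩, ⟨3000, 3071, 1000⟩⟩ (yA21A.hTMG false (yA21A.pEnd false)) :=
  posD_of_check (c := ⟨386, ⟨2, 7, 14, 10⟩⟩) (by decide +kernel)

def yA21A_tg01 : PosD ⟨⟨0, 1, 1⟩, ⟨98, 99, 147⟩, ⟨75, 150, 10000⟩, ⟨3000, 3071, 1000⟩⟩ (yA21A.hG true (yA21A.pEnd false)) :=
  posD_of_check (c := ⟨373, ⟨2, 7, 14, 9⟩⟩) (by decide +kernel)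

def yA21A_c2p01 : PosD ⟨⟨0, 1, 1⟩, ⟨98, 99, 147⟩, ⟨75, 150, 10000⟩, ⟨3000, 3071, 1000⟩⟩ (yA21A.hC2p true (yA21A.pEnd false)) :=
  posD_of_check (c := ⟨433, ⟨3, 8, 16, 11⟩⟩) (by decide +kernel)

def yA21A_c2m01 : PosD ⟨⟨0, 1, 1⟩, ⟨98, 99, 147⟩, ⟨75, 150, 10000⟩, ⟨3000, 3071, 1000⟩⟩ (yA21A.hC2m true (yA21A.pEnd false)) :=
  posD_of_check (c := ⟨434, ⟨3, 8, 16, 11⟩⟩) (by decide +kernel)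

def yA21A_c3p01 : PosD ⟨⟨0, 1, 1⟩, ⟨98, 99, 147⟩, ⟨75, 150, 10000⟩, ⟨3000, 3071, 1000⟩⟩ (yA21A.hC3p false true) :=
  posD_of_check (c := ⟨429, ⟨3, 8, 15, 11⟩⟩) (by decide +kernel)

def yA21A_c3m01 : PosD ⟨⟨0, 1, 1⟩, ⟨98, 99, 147⟩, ⟨75, 150, 10000⟩, ⟨3000, 3071, 1000⟩⟩ (yA21A.hC3m false true) :=
  posD_of_check (c := ⟨429, ⟨3, 8, 15, 11⟩⟩) (by decide +kernel)

def yA21A_c3ph01 : PosD ⟨⟨0, 1, 1⟩, ⟨98, 99, 147⟩, ⟨75, 150, 10000⟩, ⟨3000, 3071, 1000⟩⟩ (yA21A.hC3p' false true) :=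
  posD_of_check (c := ⟨429, ⟨3, 8, 15, 11⟩⟩) (by decide +kernel)

def yA21A_c3mh01 : PosD ⟨⟨0, 1, 1⟩, ⟨98, 99, 147⟩, ⟨75, 150, 10000⟩, ⟨3000, 3071, 1000⟩⟩ (yA21A.hC3m' false true) :=
  posD_of_check (c := ⟨429, ⟨3, 8, 15, 11⟩⟩) (by decide +kernel)

def yA21A_up01 : PosD ⟨⟨0, 1, 1⟩, ⟨98, 99, 147⟩, ⟨75, 150, 10000⟩, ⟨3000, 3071, 1000⟩⟩ (yA21A.hUp false true) :=
  posD_of_check (c := ⟨427, ⟨3, 8, 15, 11⟩⟩) (by decide +kernel)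

def yA21A_um01 : PosD ⟨⟨0, 1, 1⟩, ⟨98, 99, 147⟩, ⟨75, 150, 10000⟩, ⟨3000, 3071, 1000⟩⟩ (yA21A.hUm false true) :=
  posD_of_check (c := ⟨427, ⟨3, 8, 15, 11⟩⟩) (by decide +kernel)

def yA21A_tmg01 : PosD ⟨⟨0, 1, 1⟩, ⟨98, 99, 147⟩, ⟨75, 150, 10000⟩, ⟨3000, 3071, 1000⟩⟩ (yA21A.hTMG true (yA21A.pEnd false)) :=
  posD_of_check (c := ⟨386, ⟨2, 7, 14, 10⟩⟩) (by decide +kernel)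

def yA21A_kap1 : PosD ⟨⟨0, 1, 1⟩, ⟨98, 99, 147⟩, ⟨75, 150, 10000⟩, ⟨3000, 3071, 1000⟩⟩ (yA21A.kap true) :=
  posD_of_check (c := ⟨70, ⟨1, 1, 2, 2⟩⟩) (by decide +kernel)

def yA21A_c11a : PosD ⟨⟨0, 1, 1⟩, ⟨98, 99, 147⟩, ⟨75, 112, 10000⟩, ⟨3000, 3071, 1000⟩⟩ (yA21A.hC1 true) :=
  posD_of_check (c := ⟨265, ⟨3, 5, 9, 7⟩⟩) (by decide +kernel)

def yA21A_c11ba : PosD ⟨⟨0, 1, 1⟩, ⟨98, 99, 147⟩, ⟨112, 131, 10000⟩, ⟨3000, 3071, 1000⟩⟩ (yA21A.hC1 true) :=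
  posD_of_check (c := ⟨266, ⟨3, 5, 9, 7⟩⟩) (by decide +kernel)

def yA21A_c11bba : PosD ⟨⟨0, 1, 1⟩, ⟨98, 99, 147⟩, ⟨131, 140, 10000⟩, ⟨3000, 3071, 1000⟩⟩ (yA21A.hC1 true) :=
  posD_of_check (c := ⟨266, ⟨3, 5, 9, 7⟩⟩) (by decide +kernel)

def yA21A_c11bbba : PosD ⟨⟨0, 1, 1⟩, ⟨98, 99, 147⟩, ⟨140, 150, 10000⟩, ⟨3000, 3035, 1000⟩⟩ (yA21A.hC1 true) :=
  posD_of_check (c := ⟨266, ⟨3, 5, 9, 7⟩⟩) (by decide +kernel)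

def yA21A_c11bbbb : PosD ⟨⟨0, 1, 1⟩, ⟨98, 99, 147⟩, ⟨140, 150, 10000⟩, ⟨3035, 3071, 1000⟩⟩ (yA21A.hC1 true) :=
  posD_of_relax (k₁ := 0) (k₂ := 31) (k₃ := 0) (n := 16) (posD_of_check (c := ⟨266, ⟨3, 5, 9, 7⟩⟩) (by decide +kernel))

def yA21A_c11bbb : PosD ⟨⟨0, 1, 1⟩, ⟨98, 99, 147⟩, ⟨140, 150, 10000⟩, ⟨3000, 3071, 1000⟩⟩ (yA21A.hC1 true) :=
  posD_join₃ yA21A_c11bbba yA21A_c11bbbb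

def yA21A_c11bb : PosD ⟨⟨0, 1, 1⟩, ⟨98, 99, 147⟩, ⟨131, 150, 10000⟩, ⟨3000, 3071, 1000⟩⟩ (yA21A.hC1 true) :=
  posD_join₂ yA21A_c11bba yA21A_c11bbb

def yA21A_c11b : PosD ⟨⟨0, 1, 1⟩, ⟨98, 99, 147⟩, ⟨112, 150, 10000⟩, ⟨3000, 3071, 1000⟩⟩ (yA21A.hC1 true) :=
  posD_join₂ yA21A_c11ba yA21A_c11bb

def yA21A_c11 : PosD ⟨⟨0, 1, 1⟩, ⟨98, 99, 147⟩, ⟨75, 150, 10000⟩, ⟨3000, 3071, 1000⟩⟩ (yA21A.hC1 true) :=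
  posD_join₂ yA21A_c11a yA21A_c11b

def yA21A_c1h1 : PosD ⟨⟨0, 1, 1⟩, ⟨98, 99, 147⟩, ⟨75, 150, 10000⟩, ⟨3000, 3071, 1000⟩⟩ (yA21A.hC1' true) :=
  posD_of_check (c := ⟨265, ⟨3, 5, 9, 7⟩⟩) (by decide +kernel)

def yA21A_tg10 : PosD ⟨⟨0, 1, 1⟩, ⟨98, 99, 147⟩, ⟨75, 150, 10000⟩, ⟨3000, 3071, 1000⟩⟩ (yA21A.hG false (yA21A.pEnd true)) :=
  posD_of_check (c := ⟨371, ⟨2, 7, 14, 9⟩⟩) (by decide +kernel)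

def yA21A_c2p10 : PosD ⟨⟨0, 1, 1⟩, ⟨98, 99, 147⟩, ⟨75, 150, 10000⟩, ⟨3000, 3071, 1000⟩⟩ (yA21A.hC2p false (yA21A.pEnd true)) :=
  posD_of_check (c := ⟨431, ⟨3, 8, 16, 11⟩⟩) (by decide +kernel)

def yA21A_c2m10 : PosD ⟨⟨0, 1, 1⟩, ⟨98, 99, 147⟩, ⟨75, 150, 10000⟩, ⟨3000, 3071, 1000⟩⟩ (yA21A.hC2m false (yA21A.pEnd true)) :=
  posD_of_check (c := ⟨431, ⟨3, 8, 16, 11⟩⟩) (by decide +kernel)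

def yA21A_c3p10 : PosD ⟨⟨0, 1, 1⟩, ⟨98, 99, 147⟩, ⟨75, 150, 10000⟩, ⟨3000, 3071, 1000⟩⟩ (yA21A.hC3p true false) :=
  posD_of_relax (k₁ := 0) (k₂ := 1) (k₃ := 0) (n := 16) (posD_of_check (c := ⟨430, ⟨3, 8, 15, 11⟩⟩) (by decide +kernel))

def yA21A_c3m10 : PosD ⟨⟨0, 1, 1⟩, ⟨98, 99, 147⟩, ⟨75, 150, 10000⟩, ⟨3000, 3071, 1000⟩⟩ (yA21A.hC3m true false) :=
  posD_of_relax (k₁ := 0) (k₂ := 1) (k₃ := 0) (n := 16) (posD_of_check (c := ⟨430, ⟨3, 8, 15, 11⟩⟩) (by decide +kernel))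

def yA21A_c3ph10 : PosD ⟨⟨0, 1, 1⟩, ⟨98, 99, 147⟩, ⟨75, 150, 10000⟩, ⟨3000, 3071, 1000⟩⟩ (yA21A.hC3p' true false) :=
  posD_of_check (c := ⟨430, ⟨3, 8, 15, 11⟩⟩) (by decide +kernel)

def yA21A_c3mh10 : PosD ⟨⟨0, 1, 1⟩, ⟨98, 99, 147⟩, ⟨75, 150, 10000⟩, ⟨3000, 3071, 1000⟩⟩ (yA21A.hC3m' true false) :=
  posD_of_check (c := ⟨430, ⟨3, 8, 15, 11⟩⟩) (by decide +kernel)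

def yA21A_up10 : PosD ⟨⟨0, 1, 1⟩, ⟨98, 99, 147⟩, ⟨75, 150, 10000⟩, ⟨3000, 3071, 1000⟩⟩ (yA21A.hUp true false) :=
  posD_of_check (c := ⟨426, ⟨3, 8, 15, 11⟩⟩) (by decide +kernel)

def yA21A_um10 : PosD ⟨⟨0, 1, 1⟩, ⟨98, 99, 147⟩, ⟨75, 150, 10000⟩, ⟨3000, 3071, 1000⟩⟩ (yA21A.hUm true false) :=
  posD_of_check (c := ⟨426, ⟨3, 8, 15, 11⟩⟩) (by decide +kernel)

def yA21A_tmg10 : PosD ⟨⟨0, 1, 1⟩, ⟨98, 99, 147⟩, ⟨75, 150, 10000⟩, ⟨3000, 3071, 1000⟩⟩ (yA21A.hTMG false (yA21A.pEnd true)) :=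
  posD_of_check (c := ⟨385, ⟨2, 7, 14, 10⟩⟩) (by decide +kernel)

def yA21A_tg11 : PosD ⟨⟨0, 1, 1⟩, ⟨98, 99, 147⟩, ⟨75, 150, 10000⟩, ⟨3000, 3071, 1000⟩⟩ (yA21A.hG true (yA21A.pEnd true)) :=
  posD_of_check (c := ⟨371, ⟨2, 7, 14, 9⟩⟩) (by decide +kernel)

def yA21A_c2p11 : PosD ⟨⟨0, 1, 1⟩, ⟨98, 99, 147⟩, ⟨75, 150, 10000⟩, ⟨3000, 3071, 1000⟩⟩ (yA21A.hC2p true (yA21A.pEnd true)) :=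
  posD_of_check (c := ⟨431, ⟨3, 8, 16, 11⟩⟩) (by decide +kernel)

def yA21A_c2m11 : PosD ⟨⟨0, 1, 1⟩, ⟨98, 99, 147⟩, ⟨75, 150, 10000⟩, ⟨3000, 3071, 1000⟩⟩ (yA21A.hC2m true (yA21A.pEnd true)) :=
  posD_of_check (c := ⟨431, ⟨3, 8, 16, 11⟩⟩) (by decide +kernel)

def yA21A_c3p11 : PosD ⟨⟨0, 1, 1⟩, ⟨98, 99, 147⟩, ⟨75, 150, 10000⟩, ⟨3000, 3071, 1000⟩⟩ (yA21A.hC3p true true) :=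
  posD_of_relax (k₁ := 0) (k₂ := 1) (k₃ := 0) (n := 16) (posD_of_check (c := ⟨430, ⟨3, 8, 15, 11⟩⟩) (by decide +kernel))

def yA21A_c3m11 : PosD ⟨⟨0, 1, 1⟩, ⟨98, 99, 147⟩, ⟨75, 150, 10000⟩, ⟨3000, 3071, 1000⟩⟩ (yA21A.hC3m true true) :=
  posD_of_relax (k₁ := 0) (k₂ := 1) (k₃ := 0) (n := 16) (posD_of_check (c := ⟨430, ⟨3, 8, 15, 11⟩⟩) (by decide +kernel))

def yA21A_c3ph11 : PosD ⟨⟨0, 1, 1⟩, ⟨98, 99, 147⟩, ⟨75, 150, 10000⟩, ⟨3000, 3071, 1000⟩⟩ (yA21A.hC3p' true true) :=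
  posD_of_check (c := ⟨430, ⟨3, 8, 15, 11⟩⟩) (by decide +kernel)

def yA21A_c3mh11 : PosD ⟨⟨0, 1, 1⟩, ⟨98, 99, 147⟩, ⟨75, 150, 10000⟩, ⟨3000, 3071, 1000⟩⟩ (yA21A.hC3m' true true) :=
  posD_of_check (c := ⟨430, ⟨3, 8, 15, 11⟩⟩) (by decide +kernel)

def yA21A_up11 : PosD ⟨⟨0, 1, 1⟩, ⟨98, 99, 147⟩, ⟨75, 150, 10000⟩, ⟨3000, 3071, 1000⟩⟩ (yA21A.hUp true true) :=
  posD_of_check (c := ⟨426, ⟨3, 8, 15, 11⟩⟩) (by decide +kernel)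

def yA21A_um11 : PosD ⟨⟨0, 1, 1⟩, ⟨98, 99, 147⟩, ⟨75, 150, 10000⟩, ⟨3000, 3071, 1000⟩⟩ (yA21A.hUm true true) :=
  posD_of_check (c := ⟨426, ⟨3, 8, 15, 11⟩⟩) (by decide +kernel)

def yA21A_tmg11 : PosD ⟨⟨0, 1, 1⟩, ⟨98, 99, 147⟩, ⟨75, 150, 10000⟩, ⟨3000, 3071, 1000⟩⟩ (yA21A.hTMG true (yA21A.pEnd true)) :=
  posD_of_check (c := ⟨385, ⟨2, 7, 14, 10⟩⟩) (by decide +kernel)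

/-- The signs of the piece. -/
def yA21A_sign : yA21A.Sign ⟨⟨0, 1, 1⟩, ⟨98, 99, 147⟩, ⟨75, 150, 10000⟩, ⟨3000, 3071, 1000⟩⟩ :=
  ⟨yA21A_pp,
    yA21A_k2p,
    yA21A_k2m,
    Bool.forall_bool.2 ⟨(Bool.forall_bool.2 ⟨yA21A_tg00, yA21A_tg01⟩), (Bool.forall_bool.2 ⟨yA21A_tg10, yA21A_tg11⟩)⟩,
    Bool.forall_bool.2 ⟨(Bool.forall_bool.2 ⟨yA21A_c2p00, yA21A_c2p01⟩), (Bool.forall_bool.2 ⟨yA21A_c2p10, yA21A_c2p11⟩)⟩,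
    Bool.forall_bool.2 ⟨(Bool.forall_bool.2 ⟨yA21A_c2m00, yA21A_c2m01⟩), (Bool.forall_bool.2 ⟨yA21A_c2m10, yA21A_c2m11⟩)⟩,
    Bool.forall_bool.2 ⟨yA21A_kap0, yA21A_kap1⟩,
    Bool.forall_bool.2 ⟨yA21A_c10, yA21A_c11⟩,
    Bool.forall_bool.2 ⟨(Bool.forall_bool.2 ⟨yA21A_c3p00, yA21A_c3p01⟩), (Bool.forall_bool.2 ⟨yA21A_c3p10, yA21A_c3p11⟩)⟩,
    Bool.forall_bool.2 ⟨(Bool.forall_bool.2 ⟨yA21A_c3m00, yA21A_c3m01⟩), (Bool.forall_bool.2 ⟨yA21A_c3m10, yA21A_c3m11⟩)⟩,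
    Bool.forall_bool.2 ⟨(Bool.forall_bool.2 ⟨yA21A_tmg00, yA21A_tmg01⟩), (Bool.forall_bool.2 ⟨yA21A_tmg10, yA21A_tmg11⟩)⟩,
    .inr (Bool.forall_bool.2 ⟨⟨yA21A_c1h0, Bool.forall_bool.2 ⟨⟨yA21A_c3ph00, yA21A_c3mh00, yA21A_up00, yA21A_um00⟩, ⟨yA21A_c3ph01, yA21A_c3mh01, yA21A_up01, yA21A_um01⟩⟩⟩, ⟨yA21A_c1h1, Bool.forall_bool.2 ⟨⟨yA21A_c3ph10, yA21A_c3mh10, yA21A_up10, yA21A_um10⟩, ⟨yA21A_c3ph11, yA21A_c3mh11, yA21A_up11, yA21A_um11⟩⟩⟩⟩),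
    yA21A_v2p,
    yA21A_v2m,
    yA21A_v3p,
    yA21A_v3m,
    posD_sub (b := ⟨⟨0, 1, 1⟩, ⟨98, 99, 147⟩, ⟨0, 301, 10000⟩, ⟨1060, 4000, 1000⟩⟩) (by decide +kernel) yA_vG,
    posD_sub (b := ⟨⟨0, 1, 1⟩, ⟨98, 99, 147⟩, ⟨0, 301, 10000⟩, ⟨1060, 4000, 1000⟩⟩) (by decide +kernel) yA_vMG,
    posD_sub (b := ⟨⟨0, 1, 1⟩, ⟨98, 99, 147⟩, ⟨0, 301, 10000⟩, ⟨1060, 4000, 1000⟩⟩) (by decide +kernel) yA_ak,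
    posD_sub (b := ⟨⟨0, 1, 1⟩, ⟨98, 99, 147⟩, ⟨0, 301, 10000⟩, ⟨1060, 4000, 1000⟩⟩) (by decide +kernel) yA_aw,
    posD_sub (b := ⟨⟨0, 1, 1⟩, ⟨98, 99, 147⟩, ⟨0, 301, 10000⟩, ⟨1060, 4000, 1000⟩⟩) (by decide +kernel) yA_gk,
    posD_sub (b := ⟨⟨0, 1, 1⟩, ⟨98, 99, 147⟩, ⟨0, 301, 10000⟩, ⟨1060, 4000, 1000⟩⟩) (by decide +kernel) yA_gw,
    posD_sub (b := ⟨⟨0, 1, 1⟩, ⟨98, 99, 147⟩, ⟨0, 301, 10000⟩, ⟨1060, 4000, 1000⟩⟩) (by decide +kernel) yA_ek,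
    posD_sub (b := ⟨⟨0, 1, 1⟩, ⟨98, 99, 147⟩, ⟨0, 301, 10000⟩, ⟨1060, 4000, 1000⟩⟩) (by decide +kernel) yA_ew⟩

def yA21B_pp : PosD ⟨⟨0, 1, 1⟩, ⟨98, 99, 147⟩, ⟨75, 150, 10000⟩, ⟨3000, 3071, 1000⟩⟩ (yA21B.xPL) :=
  posD_of_check (c := ⟨93, ⟨1, 1, 3, 3⟩⟩) (by decide +kernel)

def yA21B_k2p : PosD ⟨⟨0, 1, 1⟩, ⟨98, 99, 147⟩, ⟨75, 150, 10000⟩, ⟨3000, 3071, 1000⟩⟩ (yA21B.k2p yA21B.xE) :=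
  posD_of_check (c := ⟨20, ⟨0, 0, 1, 0⟩⟩) (by decide +kernel)

def yA21B_k2m : PosD ⟨⟨0, 1, 1⟩, ⟨98, 99, 147⟩, ⟨75, 150, 10000⟩, ⟨3000, 3071, 1000⟩⟩ (yA21B.k2m yA21B.xE) :=
  posD_of_check (c := ⟨61, ⟨1, 1, 2, 2⟩⟩) (by decide +kernel)

def yA21B_v2p : PosD ⟨⟨0, 1, 1⟩, ⟨98, 99, 147⟩, ⟨75, 150, 10000⟩, ⟨3000, 3071, 1000⟩⟩ (yA21B.hV2p) :=
  posD_of_check (c := ⟨224, ⟨0, 5, 10, 4⟩⟩) (by decide +kernel)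

def yA21B_v2m : PosD ⟨⟨0, 1, 1⟩, ⟨98, 99, 147⟩, ⟨75, 150, 10000⟩, ⟨3000, 3071, 1000⟩⟩ (yA21B.hV2m) :=
  posD_of_check (c := ⟨254, ⟨1, 6, 10, 5⟩⟩) (by decide +kernel)

def yA21B_v3p : PosD ⟨⟨0, 1, 1⟩, ⟨98, 99, 147⟩, ⟨75, 150, 10000⟩, ⟨3000, 3071, 1000⟩⟩ (yA21B.hV3p) :=
  posD_of_check (c := ⟨220, ⟨0, 5, 9, 4⟩⟩) (by decide +kernel)

def yA21B_v3m : PosD ⟨⟨0, 1, 1⟩, ⟨98, 99, 147⟩, ⟨75, 150, 10000⟩, ⟨3000, 3071, 1000⟩⟩ (yA21B.hV3m) :=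
  posD_of_check (c := ⟨246, ⟨1, 6, 9, 5⟩⟩) (by decide +kernel)

def yA21B_kap0 : PosD ⟨⟨0, 1, 1⟩, ⟨98, 99, 147⟩, ⟨75, 150, 10000⟩, ⟨3000, 3071, 1000⟩⟩ (yA21B.kap false) :=
  posD_of_check (c := ⟨75, ⟨1, 1, 2, 2⟩⟩) (by decide +kernel)

def yA21B_c10 : PosD ⟨⟨0, 1, 1⟩, ⟨98, 99, 147⟩, ⟨75, 150, 10000⟩, ⟨3000, 3071, 1000⟩⟩ (yA21B.hC1 false) :=
  posD_of_check (c := ⟨273, ⟨3, 5, 9, 7⟩⟩) (by decide +kernel)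

def yA21B_c1h0 : PosD ⟨⟨0, 1, 1⟩, ⟨98, 99, 147⟩, ⟨75, 150, 10000⟩, ⟨3000, 3071, 1000⟩⟩ (yA21B.hC1' false) :=
  posD_of_relax (k₁ := 0) (k₂ := 64) (k₃ := 0) (n := 16) (posD_of_check (c := ⟨273, ⟨3, 5, 9, 7⟩⟩) (by decide +kernel))

def yA21B_tg00 : PosD ⟨⟨0, 1, 1⟩, ⟨98, 99, 147⟩, ⟨75, 150, 10000⟩, ⟨3000, 3071, 1000⟩⟩ (yA21B.hG false (yA21B.pEnd false)) :=
  posD_of_check (c := ⟨374, ⟨2, 7, 14, 9⟩⟩) (by decide +kernel)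

def yA21B_c2p00 : PosD ⟨⟨0, 1, 1⟩, ⟨98, 99, 147⟩, ⟨75, 150, 10000⟩, ⟨3000, 3071, 1000⟩⟩ (yA21B.hC2p false (yA21B.pEnd false)) :=
  posD_of_check (c := ⟨406, ⟨2, 7, 16, 10⟩⟩) (by decide +kernel)

def yA21B_c2m00 : PosD ⟨⟨0, 1, 1⟩, ⟨98, 99, 147⟩, ⟨75, 150, 10000⟩, ⟨3000, 3071, 1000⟩⟩ (yA21B.hC2m false (yA21B.pEnd false)) :=
  posD_of_check (c := ⟨435, ⟨3, 8, 16, 11⟩⟩) (by decide +kernel)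

def yA21B_c3p00 : PosD ⟨⟨0, 1, 1⟩, ⟨98, 99, 147⟩, ⟨75, 150, 10000⟩, ⟨3000, 3071, 1000⟩⟩ (yA21B.hC3p false false) :=
  posD_of_check (c := ⟨412, ⟨3, 7, 15, 10⟩⟩) (by decide +kernel)

def yA21B_c3m00 : PosD ⟨⟨0, 1, 1⟩, ⟨98, 99, 147⟩, ⟨75, 150, 10000⟩, ⟨3000, 3071, 1000⟩⟩ (yA21B.hC3m false false) :=
  posD_of_check (c := ⟨437, ⟨3, 8, 15, 11⟩⟩) (by decide +kernel)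

def yA21B_c3ph00 : PosD ⟨⟨0, 1, 1⟩, ⟨98, 99, 147⟩, ⟨75, 150, 10000⟩, ⟨3000, 3071, 1000⟩⟩ (yA21B.hC3p' false false) :=
  posD_of_relax (k₁ := 0) (k₂ := 14) (k₃ := 0) (n := 16) (posD_of_check (c := ⟨412, ⟨3, 7, 15, 10⟩⟩) (by decide +kernel))

def yA21B_c3mh00 : PosD ⟨⟨0, 1, 1⟩, ⟨98, 99, 147⟩, ⟨75, 150, 10000⟩, ⟨3000, 3071, 1000⟩⟩ (yA21B.hC3m' false false) :=
  posD_of_relax (k₁ := 0) (k₂ := 15) (k₃ := 0) (n := 16) (posD_of_check (c := ⟨437, ⟨3, 8, 15, 11⟩⟩) (by decide +kernel))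

def yA21B_up00 : PosD ⟨⟨0, 1, 1⟩, ⟨98, 99, 147⟩, ⟨75, 150, 10000⟩, ⟨3000, 3071, 1000⟩⟩ (yA21B.hUp false false) :=
  posD_of_check (c := ⟨402, ⟨2, 7, 15, 10⟩⟩) (by decide +kernel)

def yA21B_um00 : PosD ⟨⟨0, 1, 1⟩, ⟨98, 99, 147⟩, ⟨75, 150, 10000⟩, ⟨3000, 3071, 1000⟩⟩ (yA21B.hUm false false) :=
  posD_of_check (c := ⟨428, ⟨3, 8, 15, 11⟩⟩) (by decide +kernel)

def yA21B_tmg00 : PosD ⟨⟨0, 1, 1⟩, ⟨98, 99, 147⟩, ⟨75, 150, 10000⟩, ⟨3000, 3071, 1000⟩⟩ (yA21B.hTMG false (yA21B.pEnd false)) :=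
  posD_of_check (c := ⟨387, ⟨2, 7, 14, 10⟩⟩) (by decide +kernel)

def yA21B_tg01 : PosD ⟨⟨0, 1, 1⟩, ⟨98, 99, 147⟩, ⟨75, 150, 10000⟩, ⟨3000, 3071, 1000⟩⟩ (yA21B.hG true (yA21B.pEnd false)) :=
  posD_of_check (c := ⟨374, ⟨2, 7, 14, 9⟩⟩) (by decide +kernel)

def yA21B_c2p01 : PosD ⟨⟨0, 1, 1⟩, ⟨98, 99, 147⟩, ⟨75, 150, 10000⟩, ⟨3000, 3071, 1000⟩⟩ (yA21B.hC2p true (yA21B.pEnd false)) :=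
  posD_of_check (c := ⟨406, ⟨2, 7, 16, 10⟩⟩) (by decide +kernel)

def yA21B_c2m01 : PosD ⟨⟨0, 1, 1⟩, ⟨98, 99, 147⟩, ⟨75, 150, 10000⟩, ⟨3000, 3071, 1000⟩⟩ (yA21B.hC2m true (yA21B.pEnd false)) :=
  posD_of_check (c := ⟨435, ⟨3, 8, 16, 11⟩⟩) (by decide +kernel)

def yA21B_c3p01 : PosD ⟨⟨0, 1, 1⟩, ⟨98, 99, 147⟩, ⟨75, 150, 10000⟩, ⟨3000, 3071, 1000⟩⟩ (yA21B.hC3p false true) :=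
  posD_of_check (c := ⟨412, ⟨3, 7, 15, 10⟩⟩) (by decide +kernel)

def yA21B_c3m01 : PosD ⟨⟨0, 1, 1⟩, ⟨98, 99, 147⟩, ⟨75, 150, 10000⟩, ⟨3000, 3071, 1000⟩⟩ (yA21B.hC3m false true) :=
  posD_of_check (c := ⟨437, ⟨3, 8, 15, 11⟩⟩) (by decide +kernel)

def yA21B_c3ph01 : PosD ⟨⟨0, 1, 1⟩, ⟨98, 99, 147⟩, ⟨75, 150, 10000⟩, ⟨3000, 3071, 1000⟩⟩ (yA21B.hC3p' false true) :=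
  posD_of_relax (k₁ := 0) (k₂ := 14) (k₃ := 0) (n := 16) (posD_of_check (c := ⟨412, ⟨3, 7, 15, 10⟩⟩) (by decide +kernel))

def yA21B_c3mh01 : PosD ⟨⟨0, 1, 1⟩, ⟨98, 99, 147⟩, ⟨75, 150, 10000⟩, ⟨3000, 3071, 1000⟩⟩ (yA21B.hC3m' false true) :=
  posD_of_relax (k₁ := 0) (k₂ := 15) (k₃ := 0) (n := 16) (posD_of_check (c := ⟨437, ⟨3, 8, 15, 11⟩⟩) (by decide +kernel))

def yA21B_up01 : PosD ⟨⟨0, 1, 1⟩, ⟨98, 99, 147⟩, ⟨75, 150, 10000⟩, ⟨3000, 3071, 1000⟩⟩ (yA21B.hUp false true) :=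
  posD_of_check (c := ⟨402, ⟨2, 7, 15, 10⟩⟩) (by decide +kernel)

def yA21B_um01 : PosD ⟨⟨0, 1, 1⟩, ⟨98, 99, 147⟩, ⟨75, 150, 10000⟩, ⟨3000, 3071, 1000⟩⟩ (yA21B.hUm false true) :=
  posD_of_check (c := ⟨428, ⟨3, 8, 15, 11⟩⟩) (by decide +kernel)

def yA21B_tmg01 : PosD ⟨⟨0, 1, 1⟩, ⟨98, 99, 147⟩, ⟨75, 150, 10000⟩, ⟨3000, 3071, 1000⟩⟩ (yA21B.hTMG true (yA21B.pEnd false)) :=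
  posD_of_check (c := ⟨387, ⟨2, 7, 14, 10⟩⟩) (by decide +kernel)

def yA21B_kap1 : PosD ⟨⟨0, 1, 1⟩, ⟨98, 99, 147⟩, ⟨75, 150, 10000⟩, ⟨3000, 3071, 1000⟩⟩ (yA21B.kap true) :=
  posD_of_check (c := ⟨74, ⟨1, 1, 2, 2⟩⟩) (by decide +kernel)

def yA21B_c11a : PosD ⟨⟨0, 1, 2⟩, ⟨98, 99, 147⟩, ⟨75, 150, 10000⟩, ⟨3000, 3071, 1000⟩⟩ (yA21B.hC1 true) :=
  posD_of_check (c := ⟨270, ⟨3, 5, 9, 7⟩⟩) (by decide +kernel)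

def yA21B_c11b : PosD ⟨⟨1, 2, 2⟩, ⟨98, 99, 147⟩, ⟨75, 150, 10000⟩, ⟨3000, 3071, 1000⟩⟩ (yA21B.hC1 true) :=
  posD_of_relax (k₁ := 0) (k₂ := 24) (k₃ := 0) (n := 16) (posD_of_check (c := ⟨272, ⟨3, 5, 9, 7⟩⟩) (by decide +kernel))

def yA21B_c11 : PosD ⟨⟨0, 1, 1⟩, ⟨98, 99, 147⟩, ⟨75, 150, 10000⟩, ⟨3000, 3071, 1000⟩⟩ (yA21B.hC1 true) :=
  posD_units (b := ⟨⟨0, 2, 2⟩, ⟨98, 99, 147⟩, ⟨75, 150, 10000⟩, ⟨3000, 3071, 1000⟩⟩) (by decide +kernel) (posD_join₀ yA21B_c11a yA21B_c11b)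

def yA21B_c1h1 : PosD ⟨⟨0, 1, 1⟩, ⟨98, 99, 147⟩, ⟨75, 150, 10000⟩, ⟨3000, 3071, 1000⟩⟩ (yA21B.hC1' true) :=
  posD_of_check (c := ⟨270, ⟨3, 5, 9, 7⟩⟩) (by decide +kernel)

def yA21B_tg10 : PosD ⟨⟨0, 1, 1⟩, ⟨98, 99, 147⟩, ⟨75, 150, 10000⟩, ⟨3000, 3071, 1000⟩⟩ (yA21B.hG false (yA21B.pEnd true)) :=
  posD_of_check (c := ⟨371, ⟨2, 7, 14, 9⟩⟩) (by decide +kernel)

def yA21B_c2p10 : PosD ⟨⟨0, 1, 1⟩, ⟨98, 99, 147⟩, ⟨75, 150, 10000⟩, ⟨3000, 3071, 1000⟩⟩ (yA21B.hC2p false (yA21B.pEnd true)) :=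
  posD_of_check (c := ⟨403, ⟨2, 7, 16, 10⟩⟩) (by decide +kernel)

def yA21B_c2m10 : PosD ⟨⟨0, 1, 1⟩, ⟨98, 99, 147⟩, ⟨75, 150, 10000⟩, ⟨3000, 3071, 1000⟩⟩ (yA21B.hC2m false (yA21B.pEnd true)) :=
  posD_of_check (c := ⟨432, ⟨3, 8, 16, 11⟩⟩) (by decide +kernel)

def yA21B_c3p10 : PosD ⟨⟨0, 1, 1⟩, ⟨98, 99, 147⟩, ⟨75, 150, 10000⟩, ⟨3000, 3071, 1000⟩⟩ (yA21B.hC3p true false) :=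
  posD_of_check (c := ⟨410, ⟨3, 7, 15, 10⟩⟩) (by decide +kernel)

def yA21B_c3m10 : PosD ⟨⟨0, 1, 1⟩, ⟨98, 99, 147⟩, ⟨75, 150, 10000⟩, ⟨3000, 3071, 1000⟩⟩ (yA21B.hC3m true false) :=
  posD_of_check (c := ⟨435, ⟨3, 8, 15, 11⟩⟩) (by decide +kernel)

def yA21B_c3ph10 : PosD ⟨⟨0, 1, 1⟩, ⟨98, 99, 147⟩, ⟨75, 150, 10000⟩, ⟨3000, 3071, 1000⟩⟩ (yA21B.hC3p' true false) :=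
  posD_of_check (c := ⟨410, ⟨3, 7, 15, 10⟩⟩) (by decide +kernel)

def yA21B_c3mh10 : PosD ⟨⟨0, 1, 1⟩, ⟨98, 99, 147⟩, ⟨75, 150, 10000⟩, ⟨3000, 3071, 1000⟩⟩ (yA21B.hC3m' true false) :=
  posD_of_check (c := ⟨435, ⟨3, 8, 15, 11⟩⟩) (by decide +kernel)

def yA21B_up10 : PosD ⟨⟨0, 1, 1⟩, ⟨98, 99, 147⟩, ⟨75, 150, 10000⟩, ⟨3000, 3071, 1000⟩⟩ (yA21B.hUp true false) :=
  posD_of_check (c := ⟨400, ⟨2, 7, 15, 10⟩⟩) (by decide +kernel)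

def yA21B_um10 : PosD ⟨⟨0, 1, 1⟩, ⟨98, 99, 147⟩, ⟨75, 150, 10000⟩, ⟨3000, 3071, 1000⟩⟩ (yA21B.hUm true false) :=
  posD_of_check (c := ⟨426, ⟨3, 8, 15, 11⟩⟩) (by decide +kernel)

def yA21B_tmg10 : PosD ⟨⟨0, 1, 1⟩, ⟨98, 99, 147⟩, ⟨75, 150, 10000⟩, ⟨3000, 3071, 1000⟩⟩ (yA21B.hTMG false (yA21B.pEnd true)) :=
  posD_of_check (c := ⟨386, ⟨2, 7, 14, 10⟩⟩) (by decide +kernel)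

def yA21B_tg11 : PosD ⟨⟨0, 1, 1⟩, ⟨98, 99, 147⟩, ⟨75, 150, 10000⟩, ⟨3000, 3071, 1000⟩⟩ (yA21B.hG true (yA21B.pEnd true)) :=
  posD_of_check (c := ⟨371, ⟨2, 7, 14, 9⟩⟩) (by decide +kernel)

def yA21B_c2p11 : PosD ⟨⟨0, 1, 1⟩, ⟨98, 99, 147⟩, ⟨75, 150, 10000⟩, ⟨3000, 3071, 1000⟩⟩ (yA21B.hC2p true (yA21B.pEnd true)) :=
  posD_of_check (c := ⟨403, ⟨2, 7, 16, 10⟩⟩) (by decide +kernel)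

def yA21B_c2m11 : PosD ⟨⟨0, 1, 1⟩, ⟨98, 99, 147⟩, ⟨75, 150, 10000⟩, ⟨3000, 3071, 1000⟩⟩ (yA21B.hC2m true (yA21B.pEnd true)) :=
  posD_of_check (c := ⟨432, ⟨3, 8, 16, 11⟩⟩) (by decide +kernel)

def yA21B_c3p11 : PosD ⟨⟨0, 1, 1⟩, ⟨98, 99, 147⟩, ⟨75, 150, 10000⟩, ⟨3000, 3071, 1000⟩⟩ (yA21B.hC3p true true) :=
  posD_of_check (c := ⟨410, ⟨3, 7, 15, 10⟩⟩) (by decide +kernel)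

def yA21B_c3m11 : PosD ⟨⟨0, 1, 1⟩, ⟨98, 99, 147⟩, ⟨75, 150, 10000⟩, ⟨3000, 3071, 1000⟩⟩ (yA21B.hC3m true true) :=
  posD_of_check (c := ⟨435, ⟨3, 8, 15, 11⟩⟩) (by decide +kernel)

def yA21B_c3ph11 : PosD ⟨⟨0, 1, 1⟩, ⟨98, 99, 147⟩, ⟨75, 150, 10000⟩, ⟨3000, 3071, 1000⟩⟩ (yA21B.hC3p' true true) :=
  posD_of_check (c := ⟨410, ⟨3, 7, 15, 10⟩⟩) (by decide +kernel)

def yA21B_c3mh11 : PosD ⟨⟨0, 1, 1⟩, ⟨98, 99, 147⟩, ⟨75, 150, 10000⟩, ⟨3000, 3071, 1000⟩⟩ (yA21B.hC3m' true true) :=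
  posD_of_check (c := ⟨435, ⟨3, 8, 15, 11⟩⟩) (by decide +kernel)

def yA21B_up11 : PosD ⟨⟨0, 1, 1⟩, ⟨98, 99, 147⟩, ⟨75, 150, 10000⟩, ⟨3000, 3071, 1000⟩⟩ (yA21B.hUp true true) :=
  posD_of_check (c := ⟨400, ⟨2, 7, 15, 10⟩⟩) (by decide +kernel)

def yA21B_um11 : PosD ⟨⟨0, 1, 1⟩, ⟨98, 99, 147⟩, ⟨75, 150, 10000⟩, ⟨3000, 3071, 1000⟩⟩ (yA21B.hUm true true) :=
  posD_of_check (c := ⟨426, ⟨3, 8, 15, 11⟩⟩) (by decide +kernel)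

def yA21B_tmg11 : PosD ⟨⟨0, 1, 1⟩, ⟨98, 99, 147⟩, ⟨75, 150, 10000⟩, ⟨3000, 3071, 1000⟩⟩ (yA21B.hTMG true (yA21B.pEnd true)) :=
  posD_of_check (c := ⟨386, ⟨2, 7, 14, 10⟩⟩) (by decide +kernel)

/-- The signs of the piece. -/
def yA21B_sign : yA21B.Sign ⟨⟨0, 1, 1⟩, ⟨98, 99, 147⟩, ⟨75, 150, 10000⟩, ⟨3000, 3071, 1000⟩⟩ :=
  ⟨yA21B_pp,
    yA21B_k2p,
    yA21B_k2m,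
    Bool.forall_bool.2 ⟨(Bool.forall_bool.2 ⟨yA21B_tg00, yA21B_tg01⟩), (Bool.forall_bool.2 ⟨yA21B_tg10, yA21B_tg11⟩)⟩,
    Bool.forall_bool.2 ⟨(Bool.forall_bool.2 ⟨yA21B_c2p00, yA21B_c2p01⟩), (Bool.forall_bool.2 ⟨yA21B_c2p10, yA21B_c2p11⟩)⟩,
    Bool.forall_bool.2 ⟨(Bool.forall_bool.2 ⟨yA21B_c2m00, yA21B_c2m01⟩), (Bool.forall_bool.2 ⟨yA21B_c2m10, yA21B_c2m11⟩)⟩,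
    Bool.forall_bool.2 ⟨yA21B_kap0, yA21B_kap1⟩,
    Bool.forall_bool.2 ⟨yA21B_c10, yA21B_c11⟩,
    Bool.forall_bool.2 ⟨(Bool.forall_bool.2 ⟨yA21B_c3p00, yA21B_c3p01⟩), (Bool.forall_bool.2 ⟨yA21B_c3p10, yA21B_c3p11⟩)⟩,
    Bool.forall_bool.2 ⟨(Bool.forall_bool.2 ⟨yA21B_c3m00, yA21B_c3m01⟩), (Bool.forall_bool.2 ⟨yA21B_c3m10, yA21B_c3m11⟩)⟩,
    Bool.forall_bool.2 ⟨(Bool.forall_bool.2 ⟨yA21B_tmg00, yA21B_tmg01⟩), (Bool.forall_bool.2 ⟨yA21B_tmg10, yA21B_tmg11⟩)⟩,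
    .inr (Bool.forall_bool.2 ⟨⟨yA21B_c1h0, Bool.forall_bool.2 ⟨⟨yA21B_c3ph00, yA21B_c3mh00, yA21B_up00, yA21B_um00⟩, ⟨yA21B_c3ph01, yA21B_c3mh01, yA21B_up01, yA21B_um01⟩⟩⟩, ⟨yA21B_c1h1, Bool.forall_bool.2 ⟨⟨yA21B_c3ph10, yA21B_c3mh10, yA21B_up10, yA21B_um10⟩, ⟨yA21B_c3ph11, yA21B_c3mh11, yA21B_up11, yA21B_um11⟩⟩⟩⟩),
    yA21B_v2p,
    yA21B_v2m,
    yA21B_v3p,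
    yA21B_v3m,
    posD_sub (b := ⟨⟨0, 1, 1⟩, ⟨98, 99, 147⟩, ⟨0, 301, 10000⟩, ⟨1060, 4000, 1000⟩⟩) (by decide +kernel) yA_vG,
    posD_sub (b := ⟨⟨0, 1, 1⟩, ⟨98, 99, 147⟩, ⟨0, 301, 10000⟩, ⟨1060, 4000, 1000⟩⟩) (by decide +kernel) yA_vMG,
    posD_sub (b := ⟨⟨0, 1, 1⟩, ⟨98, 99, 147⟩, ⟨0, 301, 10000⟩, ⟨1060, 4000, 1000⟩⟩) (by decide +kernel) yA_ak,
    posD_sub (b := ⟨⟨0, 1, 1⟩, ⟨98, 99, 147⟩, ⟨0, 301, 10000⟩, ⟨1060, 4000, 1000⟩⟩) (by decide +kernel) yA_aw,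
    posD_sub (b := ⟨⟨0, 1, 1⟩, ⟨98, 99, 147⟩, ⟨0, 301, 10000⟩, ⟨1060, 4000, 1000⟩⟩) (by decide +kernel) yA_gk,
    posD_sub (b := ⟨⟨0, 1, 1⟩, ⟨98, 99, 147⟩, ⟨0, 301, 10000⟩, ⟨1060, 4000, 1000⟩⟩) (by decide +kernel) yA_gw,
    posD_sub (b := ⟨⟨0, 1, 1⟩, ⟨98, 99, 147⟩, ⟨0, 301, 10000⟩, ⟨1060, 4000, 1000⟩⟩) (by decide +kernel) yA_ek,
    posD_sub (b := ⟨⟨0, 1, 1⟩, ⟨98, 99, 147⟩, ⟨0, 301, 10000⟩, ⟨1060, 4000, 1000⟩⟩) (by decide +kernel) yA_ew⟩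

end Vale.Agent.P100.Calib.Closed.Six.Tail
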