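import Vale.Agent.P100.Calib.SlabSixTailDataLayerA
import Vale.Agent.P100.Calib.SlabSixTailGlobLayerA

/-!
# Checks of some pieces of the certificate

The checks are written as definitions so that they run one after another, which keeps the memory of the
kernel low.
-/

set_option linter.defProp false

namespace Vale.Agent.P100.Calib.Closed.Six.Tail

open BoxPos Large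

local instance sixTailChecksyA14Add : Add Ex := ⟨Ex.add⟩
local instance sixTailChecksyA14Sub : Sub Ex := ⟨Ex.sub⟩
local instance sixTailChecksyA14Mul : Mul Ex := ⟨Ex.mul⟩

def yA22_p0 : PosD ⟨⟨0, 1, 1⟩, ⟨98, 99, 147⟩, ⟨150, 225, 10000⟩, ⟨3000, 3106, 1000⟩⟩ (yA22.hP0) :=
  posD_of_check (c := ⟨82, ⟨0, 2, 3, 1⟩⟩) (by decide +kernel)

def yA22_gn : PosD ⟨⟨0, 1, 1⟩, ⟨98, 99, 147⟩, ⟨150, 225, 10000⟩, ⟨3000, 3106, 1000⟩⟩ (yA22.hGn) :=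
  posD_of_check (c := ⟨58, ⟨1, 1, 2, 1⟩⟩) (by decide +kernel)

def yA22_den0 : PosD ⟨⟨0, 1, 1⟩, ⟨98, 99, 147⟩, ⟨150, 225, 10000⟩, ⟨3000, 3106, 1000⟩⟩ (yA22.hDen false) :=
  posD_of_check (c := ⟨45, ⟨0, 0, 2, 0⟩⟩) (by decide +kernel)

def yA22_den1 : PosD ⟨⟨0, 1, 1⟩, ⟨98, 99, 147⟩, ⟨150, 225, 10000⟩, ⟨3000, 3106, 1000⟩⟩ (yA22.hDen true) :=
  posD_of_check (c := ⟨22, ⟨1, 0, 1, 0⟩⟩) (by decide +kernel)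

def yA22_ev0 : PosD ⟨⟨0, 1, 1⟩, ⟨98, 99, 147⟩, ⟨150, 225, 10000⟩, ⟨3000, 3106, 1000⟩⟩ (yA22.hEv false) :=
  posD_of_check (c := ⟨148, ⟨2, 2, 6, 1⟩⟩) (by decide +kernel)

def yA22_zL0 : PosD ⟨⟨0, 1, 1⟩, ⟨98, 99, 147⟩, ⟨150, 225, 10000⟩, ⟨3000, 3106, 1000⟩⟩ (yA22.hZL false) :=
  posD_of_check (c := ⟨159, ⟨2, 3, 6, 3⟩⟩) (by decide +kernel)

def yA22_zU0 : PosD ⟨⟨0, 1, 1⟩, ⟨98, 99, 147⟩, ⟨150, 225, 10000⟩, ⟨3000, 3106, 1000⟩⟩ (yA22.hZU false) :=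
  posD_of_check (c := ⟨159, ⟨2, 3, 6, 3⟩⟩) (by decide +kernel)

def yA22_eL0 : PosD ⟨⟨0, 1, 1⟩, ⟨98, 99, 147⟩, ⟨150, 225, 10000⟩, ⟨3000, 3106, 1000⟩⟩ (yA22.hEL false) :=
  posD_of_check (c := ⟨269, ⟨3, 6, 9, 3⟩⟩) (by decide +kernel)

def yA22_eH0 : PosD ⟨⟨0, 1, 1⟩, ⟨98, 99, 147⟩, ⟨150, 225, 10000⟩, ⟨3000, 3106, 1000⟩⟩ (yA22.hEH false) :=
  posD_of_check (c := ⟨241, ⟨3, 6, 9, 3⟩⟩) (by decide +kernel)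

def yA22_pL0 : PosD ⟨⟨0, 1, 1⟩, ⟨98, 99, 147⟩, ⟨150, 225, 10000⟩, ⟨3000, 3106, 1000⟩⟩ (yA22.hPL false) :=
  posD_of_check (c := ⟨259, ⟨3, 6, 9, 3⟩⟩) (by decide +kernel)

def yA22_pU0 : PosD ⟨⟨0, 1, 1⟩, ⟨98, 99, 147⟩, ⟨150, 225, 10000⟩, ⟨3000, 3106, 1000⟩⟩ (yA22.hPU false) :=
  posD_of_check (c := ⟨267, ⟨3, 6, 9, 3⟩⟩) (by decide +kernel)

def yA22_kU0 : PosD ⟨⟨0, 1, 1⟩, ⟨98, 99, 147⟩, ⟨150, 225, 10000⟩, ⟨3000, 3106, 1000⟩⟩ (yA22.hKU false) :=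
  posD_of_check (c := ⟨254, ⟨3, 6, 9, 3⟩⟩) (by decide +kernel)

def yA22_kL0 : PosD ⟨⟨0, 1, 1⟩, ⟨98, 99, 147⟩, ⟨150, 225, 10000⟩, ⟨3000, 3106, 1000⟩⟩ (yA22.hKL false) :=
  posD_of_check (c := ⟨264, ⟨3, 6, 9, 3⟩⟩) (by decide +kernel)

def yA22_wU0 : PosD ⟨⟨0, 1, 1⟩, ⟨98, 99, 147⟩, ⟨150, 225, 10000⟩, ⟨3000, 3106, 1000⟩⟩ (yA22.hWU false) :=
  posD_of_check (c := ⟨290, ⟨3, 8, 10, 3⟩⟩) (by decide +kernel)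

def yA22_wL0 : PosD ⟨⟨0, 1, 1⟩, ⟨98, 99, 147⟩, ⟨150, 225, 10000⟩, ⟨3000, 3106, 1000⟩⟩ (yA22.hWL false) :=
  posD_of_check (c := ⟨291, ⟨3, 8, 10, 3⟩⟩) (by decide +kernel)

def yA22_ev1 : PosD ⟨⟨0, 1, 1⟩, ⟨98, 99, 147⟩, ⟨150, 225, 10000⟩, ⟨3000, 3106, 1000⟩⟩ (yA22.hEv true) :=
  posD_of_check (c := ⟨120, ⟨2, 2, 6, 1⟩⟩) (by decide +kernel)

def yA22_zL1 : PosD ⟨⟨0, 1, 1⟩, ⟨98, 99, 147⟩, ⟨150, 225, 10000⟩, ⟨3000, 3106, 1000⟩⟩ (yA22.hZL true) :=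
  posD_of_check (c := ⟨134, ⟨2, 3, 6, 3⟩⟩) (by decide +kernel)

def yA22_zU1 : PosD ⟨⟨0, 1, 1⟩, ⟨98, 99, 147⟩, ⟨150, 225, 10000⟩, ⟨3000, 3106, 1000⟩⟩ (yA22.hZU true) :=
  posD_of_check (c := ⟨134, ⟨2, 3, 6, 3⟩⟩) (by decide +kernel)

def yA22_eL1 : PosD ⟨⟨0, 1, 1⟩, ⟨98, 99, 147⟩, ⟨150, 225, 10000⟩, ⟨3000, 3106, 1000⟩⟩ (yA22.hEL true) :=
  posD_of_check (c := ⟨241, ⟨3, 6, 9, 3⟩⟩) (by decide +kernel)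

def yA22_eH1 : PosD ⟨⟨0, 1, 1⟩, ⟨98, 99, 147⟩, ⟨150, 225, 10000⟩, ⟨3000, 3106, 1000⟩⟩ (yA22.hEH true) :=
  posD_of_check (c := ⟨212, ⟨3, 6, 9, 3⟩⟩) (by decide +kernel)

def yA22_pL1 : PosD ⟨⟨0, 1, 1⟩, ⟨98, 99, 147⟩, ⟨150, 225, 10000⟩, ⟨3000, 3106, 1000⟩⟩ (yA22.hPL true) :=
  posD_of_check (c := ⟨231, ⟨3, 6, 9, 3⟩⟩) (by decide +kernel)

def yA22_pU1 : PosD ⟨⟨0, 1, 1⟩, ⟨98, 99, 147⟩, ⟨150, 225, 10000⟩, ⟨3000, 3106, 1000⟩⟩ (yA22.hPU true) :=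
  posD_of_check (c := ⟨239, ⟨3, 6, 9, 3⟩⟩) (by decide +kernel)

def yA22_kU1 : PosD ⟨⟨0, 1, 1⟩, ⟨98, 99, 147⟩, ⟨150, 225, 10000⟩, ⟨3000, 3106, 1000⟩⟩ (yA22.hKU true) :=
  posD_of_check (c := ⟨225, ⟨3, 6, 9, 3⟩⟩) (by decide +kernel)

def yA22_kL1 : PosD ⟨⟨0, 1, 1⟩, ⟨98, 99, 147⟩, ⟨150, 225, 10000⟩, ⟨3000, 3106, 1000⟩⟩ (yA22.hKL true) :=
  posD_of_check (c := ⟨235, ⟨3, 6, 9, 3⟩⟩) (by decide +kernel)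

def yA22_wU1 : PosD ⟨⟨0, 1, 1⟩, ⟨98, 99, 147⟩, ⟨150, 225, 10000⟩, ⟨3000, 3106, 1000⟩⟩ (yA22.hWU true) :=
  posD_of_check (c := ⟨261, ⟨3, 8, 10, 3⟩⟩) (by decide +kernel)

def yA22_wL1 : PosD ⟨⟨0, 1, 1⟩, ⟨98, 99, 147⟩, ⟨150, 225, 10000⟩, ⟨3000, 3106, 1000⟩⟩ (yA22.hWL true) :=
  posD_of_check (c := ⟨262, ⟨3, 8, 10, 3⟩⟩) (by decide +kernel)

def yA22_nueL : PosD ⟨⟨0, 1, 1⟩, ⟨98, 99, 147⟩, ⟨150, 225, 10000⟩, ⟨3000, 3106, 1000⟩⟩ (yA22.eL.ν) :=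
  posD_of_check (c := ⟨48, ⟨0, 0, 1, 1⟩⟩) (by decide +kernel)

def yA22_nupU : PosD ⟨⟨0, 1, 1⟩, ⟨98, 99, 147⟩, ⟨150, 225, 10000⟩, ⟨3000, 3106, 1000⟩⟩ (yA22.pU.ν) :=
  posD_of_check (c := ⟨46, ⟨0, 0, 1, 1⟩⟩) (by decide +kernel)

def yA22_nukL : PosD ⟨⟨0, 1, 1⟩, ⟨98, 99, 147⟩, ⟨150, 225, 10000⟩, ⟨3000, 3106, 1000⟩⟩ (yA22.kL.ν) :=
  posD_of_check (c := ⟨42, ⟨0, 0, 1, 1⟩⟩) (by decide +kernel)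

/-- The bounds of the piece. -/
def yA22_env : yA22.Env ⟨⟨0, 1, 1⟩, ⟨98, 99, 147⟩, ⟨150, 225, 10000⟩, ⟨3000, 3106, 1000⟩⟩ :=
  ⟨yA22_p0, Bool.forall_bool.2 ⟨yA22_den0, yA22_den1⟩, yA22_gn, Bool.forall_bool.2 ⟨yA22_ev0, yA22_ev1⟩, Bool.forall_bool.2 ⟨yA22_zL0, yA22_zL1⟩, Bool.forall_bool.2 ⟨yA22_zU0, yA22_zU1⟩, Bool.forall_bool.2 ⟨yA22_eL0, yA22_eL1⟩, ⟨.inr rfl, .inl yA22_nueL⟩, Bool.forall_bool.2 ⟨yA22_eH0, yA22_eH1⟩, ⟨.inr rfl, .inr rfl⟩, Bool.forall_bool.2 ⟨yA22_pL0, yA22_pL1⟩, ⟨.inr rfl, .inr rfl⟩, Bool.forall_bool.2 ⟨yA22_pU0, yA22_pU1⟩, ⟨.inr rfl, .inl yA22_nupU⟩, Bool.forall_bool.2 ⟨yA22_kU0, yA22_kU1⟩, ⟨.inr rfl, .inr rfl⟩, Bool.forall_bool.2 ⟨yA22_kL0, yA22_kL1⟩, ⟨.inr rfl, .inl yA22_nukL⟩, Bool.forall_bool.2 ⟨yA22_wU0,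 yA22_wU1⟩, ⟨.inr rfl, .inr rfl⟩, Bool.forall_bool.2 ⟨yA22_wL0, yA22_wL1⟩, ⟨.inr rfl, .inr rfl⟩⟩

def yA22_pp : PosD ⟨⟨0, 1, 1⟩, ⟨98, 99, 147⟩, ⟨150, 225, 10000⟩, ⟨3000, 3106, 1000⟩⟩ (yA22.xPL) :=
  posD_of_check (c := ⟨92, ⟨1, 1, 3, 3⟩⟩) (by decide +kernel)

def yA22_k2p : PosD ⟨⟨0, 1, 1⟩, ⟨98, 99, 147⟩, ⟨150, 225, 10000⟩, ⟨3000, 3106, 1000⟩⟩ (yA22.k2p yA22.xE) :=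
  posD_of_check (c := ⟨62, ⟨1, 1, 2, 2⟩⟩) (by decide +kernel)

def yA22_k2m : PosD ⟨⟨0, 1, 1⟩, ⟨98, 99, 147⟩, ⟨150, 225, 10000⟩, ⟨3000, 3106, 1000⟩⟩ (yA22.k2m yA22.xE) :=
  posD_of_check (c := ⟨63, ⟨1, 1, 2, 2⟩⟩) (by decide +kernel)

def yA22_v2p : PosD ⟨⟨0, 1, 1⟩, ⟨98, 99, 147⟩, ⟨150, 225, 10000⟩, ⟨3000, 3106, 1000⟩⟩ (yA22.hV2p) :=
  posD_of_check (c := ⟨255, ⟨1, 6, 10, 5⟩⟩) (by decide +kernel)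

def yA22_v2m : PosD ⟨⟨0, 1, 1⟩, ⟨98, 99, 147⟩, ⟨150, 225, 10000⟩, ⟨3000, 3106, 1000⟩⟩ (yA22.hV2m) :=
  posD_of_check (c := ⟨255, ⟨1, 6, 10, 5⟩⟩) (by decide +kernel)

def yA22_v3p : PosD ⟨⟨0, 1, 1⟩, ⟨98, 99, 147⟩, ⟨150, 225, 10000⟩, ⟨3000, 3106, 1000⟩⟩ (yA22.hV3p) :=
  posD_of_check (c := ⟨246, ⟨1, 6, 9, 5⟩⟩) (by decide +kernel)

def yA22_v3m : PosD ⟨⟨0, 1, 1⟩, ⟨98, 99, 147⟩, ⟨150, 225, 10000⟩, ⟨3000, 3106, 1000⟩⟩ (yA22.hV3m) :=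
  posD_of_check (c := ⟨246, ⟨1, 6, 9, 5⟩⟩) (by decide +kernel)

def yA22_kap0 : PosD ⟨⟨0, 1, 1⟩, ⟨98, 99, 147⟩, ⟨150, 225, 10000⟩, ⟨3000, 3106, 1000⟩⟩ (yA22.kap false) :=
  posD_of_check (c := ⟨74, ⟨1, 1, 2, 2⟩⟩) (by decide +kernel)

def yA22_c10 : PosD ⟨⟨0, 1, 1⟩, ⟨98, 99, 147⟩, ⟨150, 225, 10000⟩, ⟨3000, 3106, 1000⟩⟩ (yA22.hC1 false) :=
  posD_of_check (c := ⟨271, ⟨3, 5, 9, 7⟩⟩) (by decide +kernel)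

def yA22_c1h0 : PosD ⟨⟨0, 1, 1⟩, ⟨98, 99, 147⟩, ⟨150, 225, 10000⟩, ⟨3000, 3106, 1000⟩⟩ (yA22.hC1' false) :=
  posD_of_relax (k₁ := 0) (k₂ := 23) (k₃ := 0) (n := 16) (posD_of_check (c := ⟨271, ⟨3, 5, 9, 7⟩⟩) (by decide +kernel))

def yA22_tg00 : PosD ⟨⟨0, 1, 1⟩, ⟨98, 99, 147⟩, ⟨150, 225, 10000⟩, ⟨3000, 3106, 1000⟩⟩ (yA22.hG false (yA22.pEnd false)) :=
  posD_of_check (c := ⟨372, ⟨2, 7, 14, 9⟩⟩) (by decide +kernel)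

def yA22_c2p00 : PosD ⟨⟨0, 1, 1⟩, ⟨98, 99, 147⟩, ⟨150, 225, 10000⟩, ⟨3000, 3106, 1000⟩⟩ (yA22.hC2p false (yA22.pEnd false)) :=
  posD_of_check (c := ⟨434, ⟨3, 8, 16, 11⟩⟩) (by decide +kernel)

def yA22_c2m00 : PosD ⟨⟨0, 1, 1⟩, ⟨98, 99, 147⟩, ⟨150, 225, 10000⟩, ⟨3000, 3106, 1000⟩⟩ (yA22.hC2m false (yA22.pEnd false)) :=
  posD_of_check (c := ⟨435, ⟨3, 8, 16, 11⟩⟩) (by decide +kernel)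

def yA22_c3p00 : PosD ⟨⟨0, 1, 1⟩, ⟨98, 99, 147⟩, ⟨150, 225, 10000⟩, ⟨3000, 3106, 1000⟩⟩ (yA22.hC3p false false) :=
  posD_of_check (c := ⟨436, ⟨3, 8, 15, 11⟩⟩) (by decide +kernel)

def yA22_c3m00 : PosD ⟨⟨0, 1, 1⟩, ⟨98, 99, 147⟩, ⟨150, 225, 10000⟩, ⟨3000, 3106, 1000⟩⟩ (yA22.hC3m false false) :=
  posD_of_check (c := ⟨436, ⟨3, 8, 15, 11⟩⟩) (by decide +kernel)

def yA22_c3ph00 : PosD ⟨⟨0, 1, 1⟩, ⟨98, 99, 147⟩, ⟨150, 225, 10000⟩, ⟨3000, 3106, 1000⟩⟩ (yA22.hC3p' false false) :=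
  posD_of_check (c := ⟨435, ⟨3, 8, 15, 11⟩⟩) (by decide +kernel)

def yA22_c3mh00 : PosD ⟨⟨0, 1, 1⟩, ⟨98, 99, 147⟩, ⟨150, 225, 10000⟩, ⟨3000, 3106, 1000⟩⟩ (yA22.hC3m' false false) :=
  posD_of_check (c := ⟨435, ⟨3, 8, 15, 11⟩⟩) (by decide +kernel)

def yA22_up00 : PosD ⟨⟨0, 1, 1⟩, ⟨98, 99, 147⟩, ⟨150, 225, 10000⟩, ⟨3000, 3106, 1000⟩⟩ (yA22.hUp false false) :=
  posD_of_check (c := ⟨427, ⟨3, 8, 15, 11⟩⟩) (by decide +kernel)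

def yA22_um00 : PosD ⟨⟨0, 1, 1⟩, ⟨98, 99, 147⟩, ⟨150, 225, 10000⟩, ⟨3000, 3106, 1000⟩⟩ (yA22.hUm false false) :=
  posD_of_check (c := ⟨427, ⟨3, 8, 15, 11⟩⟩) (by decide +kernel)

def yA22_tmg00 : PosD ⟨⟨0, 1, 1⟩, ⟨98, 99, 147⟩, ⟨150, 225, 10000⟩, ⟨3000, 3106, 1000⟩⟩ (yA22.hTMG false (yA22.pEnd false)) :=
  posD_of_check (c := ⟨387, ⟨2, 7, 14, 10⟩⟩) (by decide +kernel)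

def yA22_tg01 : PosD ⟨⟨0, 1, 1⟩, ⟨98, 99, 147⟩, ⟨150, 225, 10000⟩, ⟨3000, 3106, 1000⟩⟩ (yA22.hG true (yA22.pEnd false)) :=
  posD_of_check (c := ⟨372, ⟨2, 7, 14, 9⟩⟩) (by decide +kernel)

def yA22_c2p01 : PosD ⟨⟨0, 1, 1⟩, ⟨98, 99, 147⟩, ⟨150, 225, 10000⟩, ⟨3000, 3106, 1000⟩⟩ (yA22.hC2p true (yA22.pEnd false)) :=
  posD_of_check (c := ⟨434, ⟨3, 8, 16, 11⟩⟩) (by decide +kernel)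

def yA22_c2m01 : PosD ⟨⟨0, 1, 1⟩, ⟨98, 99, 147⟩, ⟨150, 225, 10000⟩, ⟨3000, 3106, 1000⟩⟩ (yA22.hC2m true (yA22.pEnd false)) :=
  posD_of_check (c := ⟨435, ⟨3, 8, 16, 11⟩⟩) (by decide +kernel)

def yA22_c3p01 : PosD ⟨⟨0, 1, 1⟩, ⟨98, 99, 147⟩, ⟨150, 225, 10000⟩, ⟨3000, 3106, 1000⟩⟩ (yA22.hC3p false true) :=
  posD_of_check (c := ⟨436, ⟨3, 8, 15, 11⟩⟩) (by decide +kernel)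

def yA22_c3m01 : PosD ⟨⟨0, 1, 1⟩, ⟨98, 99, 147⟩, ⟨150, 225, 10000⟩, ⟨3000, 3106, 1000⟩⟩ (yA22.hC3m false true) :=
  posD_of_check (c := ⟨436, ⟨3, 8, 15, 11⟩⟩) (by decide +kernel)

def yA22_c3ph01 : PosD ⟨⟨0, 1, 1⟩, ⟨98, 99, 147⟩, ⟨150, 225, 10000⟩, ⟨3000, 3106, 1000⟩⟩ (yA22.hC3p' false true) :=
  posD_of_check (c := ⟨435, ⟨3, 8, 15, 11⟩⟩) (by decide +kernel)

def yA22_c3mh01 : PosD ⟨⟨0, 1, 1⟩, ⟨98, 99, 147⟩, ⟨150, 225, 10000⟩, ⟨3000, 3106, 1000⟩⟩ (yA22.hC3m' false true) :=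
  posD_of_check (c := ⟨435, ⟨3, 8, 15, 11⟩⟩) (by decide +kernel)

def yA22_up01 : PosD ⟨⟨0, 1, 1⟩, ⟨98, 99, 147⟩, ⟨150, 225, 10000⟩, ⟨3000, 3106, 1000⟩⟩ (yA22.hUp false true) :=
  posD_of_check (c := ⟨427, ⟨3, 8, 15, 11⟩⟩) (by decide +kernel)

def yA22_um01 : PosD ⟨⟨0, 1, 1⟩, ⟨98, 99, 147⟩, ⟨150, 225, 10000⟩, ⟨3000, 3106, 1000⟩⟩ (yA22.hUm false true) :=
  posD_of_check (c := ⟨427, ⟨3, 8, 15, 11⟩⟩) (by decide +kernel)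

def yA22_tmg01 : PosD ⟨⟨0, 1, 1⟩, ⟨98, 99, 147⟩, ⟨150, 225, 10000⟩, ⟨3000, 3106, 1000⟩⟩ (yA22.hTMG true (yA22.pEnd false)) :=
  posD_of_check (c := ⟨387, ⟨2, 7, 14, 10⟩⟩) (by decide +kernel)

def yA22_kap1 : PosD ⟨⟨0, 1, 1⟩, ⟨98, 99, 147⟩, ⟨150, 225, 10000⟩, ⟨3000, 3106, 1000⟩⟩ (yA22.kap true) :=
  posD_of_check (c := ⟨74, ⟨1, 1, 2, 2⟩⟩) (by decide +kernel)

def yA22_c11aaaa : PosD ⟨⟨0, 1, 1⟩, ⟨98, 99, 147⟩, ⟨150, 159, 10000⟩, ⟨3000, 3053, 1000⟩⟩ (yA22.hC1 true) :=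
  posD_of_check (c := ⟨271, ⟨3, 5, 9, 7⟩⟩) (by decide +kernel)

def yA22_c11aaab : PosD ⟨⟨0, 1, 1⟩, ⟨98, 99, 147⟩, ⟨150, 159, 10000⟩, ⟨3053, 3106, 1000⟩⟩ (yA22.hC1 true) :=
  posD_of_relax (k₁ := 0) (k₂ := 19) (k₃ := 0) (n := 16) (posD_of_check (c := ⟨271, ⟨3, 5, 9, 7⟩⟩) (by decide +kernel))

def yA22_c11aaa : PosD ⟨⟨0, 1, 1⟩, ⟨98, 99, 147⟩, ⟨150, 159, 10000⟩, ⟨3000, 3106, 1000⟩⟩ (yA22.hC1 true) :=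
  posD_join₃ yA22_c11aaaa yA22_c11aaab

def yA22_c11aab : PosD ⟨⟨0, 1, 1⟩, ⟨98, 99, 147⟩, ⟨159, 168, 10000⟩, ⟨3000, 3106, 1000⟩⟩ (yA22.hC1 true) :=
  posD_of_check (c := ⟨271, ⟨3, 5, 9, 7⟩⟩) (by decide +kernel)

def yA22_c11aa : PosD ⟨⟨0, 1, 1⟩, ⟨98, 99, 147⟩, ⟨150, 168, 10000⟩, ⟨3000, 3106, 1000⟩⟩ (yA22.hC1 true) :=
  posD_join₂ yA22_c11aaa yA22_c11aab

def yA22_c11ab : PosD ⟨⟨0, 1, 1⟩, ⟨98, 99, 147⟩, ⟨168, 187, 10000⟩, ⟨3000, 3106, 1000⟩⟩ (yA22.hC1 true) :=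
  posD_of_check (c := ⟨271, ⟨3, 5, 9, 7⟩⟩) (by decide +kernel)

def yA22_c11a : PosD ⟨⟨0, 1, 1⟩, ⟨98, 99, 147⟩, ⟨150, 187, 10000⟩, ⟨3000, 3106, 1000⟩⟩ (yA22.hC1 true) :=
  posD_join₂ yA22_c11aa yA22_c11ab

def yA22_c11b : PosD ⟨⟨0, 1, 1⟩, ⟨98, 99, 147⟩, ⟨187, 225, 10000⟩, ⟨3000, 3106, 1000⟩⟩ (yA22.hC1 true) :=
  posD_of_check (c := ⟨271, ⟨3, 5, 9, 7⟩⟩) (by decide +kernel)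

def yA22_c11 : PosD ⟨⟨0, 1, 1⟩, ⟨98, 99, 147⟩, ⟨150, 225, 10000⟩, ⟨3000, 3106, 1000⟩⟩ (yA22.hC1 true) :=
  posD_join₂ yA22_c11a yA22_c11b

def yA22_c1h1 : PosD ⟨⟨0, 1, 1⟩, ⟨98, 99, 147⟩, ⟨150, 225, 10000⟩, ⟨3000, 3106, 1000⟩⟩ (yA22.hC1' true) :=
  posD_of_check (c := ⟨271, ⟨3, 5, 9, 7⟩⟩) (by decide +kernel)

def yA22_tg10 : PosD ⟨⟨0, 1, 1⟩, ⟨98, 99, 147⟩, ⟨150, 225, 10000⟩, ⟨3000, 3106, 1000⟩⟩ (yA22.hG false (yA22.pEnd true)) :=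
  posD_of_check (c := ⟨372, ⟨2, 7, 14, 9⟩⟩) (by decide +kernel)

def yA22_c2p10 : PosD ⟨⟨0, 1, 1⟩, ⟨98, 99, 147⟩, ⟨150, 225, 10000⟩, ⟨3000, 3106, 1000⟩⟩ (yA22.hC2p false (yA22.pEnd true)) :=
  posD_of_check (c := ⟨435, ⟨3, 8, 16, 11⟩⟩) (by decide +kernel)

def yA22_c2m10 : PosD ⟨⟨0, 1, 1⟩, ⟨98, 99, 147⟩, ⟨150, 225, 10000⟩, ⟨3000, 3106, 1000⟩⟩ (yA22.hC2m false (yA22.pEnd true)) :=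
  posD_of_check (c := ⟨435, ⟨3, 8, 16, 11⟩⟩) (by decide +kernel)

def yA22_c3p10 : PosD ⟨⟨0, 1, 1⟩, ⟨98, 99, 147⟩, ⟨150, 225, 10000⟩, ⟨3000, 3106, 1000⟩⟩ (yA22.hC3p true false) :=
  posD_of_check (c := ⟨435, ⟨3, 8, 15, 11⟩⟩) (by decide +kernel)

def yA22_c3m10 : PosD ⟨⟨0, 1, 1⟩, ⟨98, 99, 147⟩, ⟨150, 225, 10000⟩, ⟨3000, 3106, 1000⟩⟩ (yA22.hC3m true false) :=
  posD_of_check (c := ⟨435, ⟨3, 8, 15, 11⟩⟩) (by decide +kernel)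

def yA22_c3ph10 : PosD ⟨⟨0, 1, 1⟩, ⟨98, 99, 147⟩, ⟨150, 225, 10000⟩, ⟨3000, 3106, 1000⟩⟩ (yA22.hC3p' true false) :=
  posD_of_check (c := ⟨435, ⟨3, 8, 15, 11⟩⟩) (by decide +kernel)

def yA22_c3mh10 : PosD ⟨⟨0, 1, 1⟩, ⟨98, 99, 147⟩, ⟨150, 225, 10000⟩, ⟨3000, 3106, 1000⟩⟩ (yA22.hC3m' true false) :=
  posD_of_check (c := ⟨435, ⟨3, 8, 15, 11⟩⟩) (by decide +kernel)

def yA22_up10 : PosD ⟨⟨0, 1, 1⟩, ⟨98, 99, 147⟩, ⟨150, 225, 10000⟩, ⟨3000, 3106, 1000⟩⟩ (yA22.hUp true false) :=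
  posD_of_check (c := ⟨427, ⟨3, 8, 15, 11⟩⟩) (by decide +kernel)

def yA22_um10 : PosD ⟨⟨0, 1, 1⟩, ⟨98, 99, 147⟩, ⟨150, 225, 10000⟩, ⟨3000, 3106, 1000⟩⟩ (yA22.hUm true false) :=
  posD_of_check (c := ⟨427, ⟨3, 8, 15, 11⟩⟩) (by decide +kernel)

def yA22_tmg10 : PosD ⟨⟨0, 1, 1⟩, ⟨98, 99, 147⟩, ⟨150, 225, 10000⟩, ⟨3000, 3106, 1000⟩⟩ (yA22.hTMG false (yA22.pEnd true)) :=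
  posD_of_check (c := ⟨387, ⟨2, 7, 14, 10⟩⟩) (by decide +kernel)

def yA22_tg11 : PosD ⟨⟨0, 1, 1⟩, ⟨98, 99, 147⟩, ⟨150, 225, 10000⟩, ⟨3000, 3106, 1000⟩⟩ (yA22.hG true (yA22.pEnd true)) :=
  posD_of_check (c := ⟨372, ⟨2, 7, 14, 9⟩⟩) (by decide +kernel)

def yA22_c2p11 : PosD ⟨⟨0, 1, 1⟩, ⟨98, 99, 147⟩, ⟨150, 225, 10000⟩, ⟨3000, 3106, 1000⟩⟩ (yA22.hC2p true (yA22.pEnd true)) :=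
  posD_of_check (c := ⟨435, ⟨3, 8, 16, 11⟩⟩) (by decide +kernel)

def yA22_c2m11 : PosD ⟨⟨0, 1, 1⟩, ⟨98, 99, 147⟩, ⟨150, 225, 10000⟩, ⟨3000, 3106, 1000⟩⟩ (yA22.hC2m true (yA22.pEnd true)) :=
  posD_of_check (c := ⟨435, ⟨3, 8, 16, 11⟩⟩) (by decide +kernel)

def yA22_c3p11 : PosD ⟨⟨0, 1, 1⟩, ⟨98, 99, 147⟩, ⟨150, 225, 10000⟩, ⟨3000, 3106, 1000⟩⟩ (yA22.hC3p true true) :=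
  posD_of_check (c := ⟨435, ⟨3, 8, 15, 11⟩⟩) (by decide +kernel)

def yA22_c3m11 : PosD ⟨⟨0, 1, 1⟩, ⟨98, 99, 147⟩, ⟨150, 225, 10000⟩, ⟨3000, 3106, 1000⟩⟩ (yA22.hC3m true true) :=
  posD_of_check (c := ⟨435, ⟨3, 8, 15, 11⟩⟩) (by decide +kernel)

def yA22_c3ph11 : PosD ⟨⟨0, 1, 1⟩, ⟨98, 99, 147⟩, ⟨150, 225, 10000⟩, ⟨3000, 3106, 1000⟩⟩ (yA22.hC3p' true true) :=
  posD_of_check (c := ⟨435, ⟨3, 8, 15, 11⟩⟩) (by decide +kernel)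

def yA22_c3mh11 : PosD ⟨⟨0, 1, 1⟩, ⟨98, 99, 147⟩, ⟨150, 225, 10000⟩, ⟨3000, 3106, 1000⟩⟩ (yA22.hC3m' true true) :=
  posD_of_check (c := ⟨435, ⟨3, 8, 15, 11⟩⟩) (by decide +kernel)

def yA22_up11 : PosD ⟨⟨0, 1, 1⟩, ⟨98, 99, 147⟩, ⟨150, 225, 10000⟩, ⟨3000, 3106, 1000⟩⟩ (yA22.hUp true true) :=
  posD_of_check (c := ⟨427, ⟨3, 8, 15, 11⟩⟩) (by decide +kernel)

def yA22_um11 : PosD ⟨⟨0, 1, 1⟩, ⟨98, 99, 147⟩, ⟨150, 225, 10000⟩, ⟨3000, 3106, 1000⟩⟩ (yA22.hUm true true) :=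
  posD_of_check (c := ⟨427, ⟨3, 8, 15, 11⟩⟩) (by decide +kernel)

def yA22_tmg11 : PosD ⟨⟨0, 1, 1⟩, ⟨98, 99, 147⟩, ⟨150, 225, 10000⟩, ⟨3000, 3106, 1000⟩⟩ (yA22.hTMG true (yA22.pEnd true)) :=
  posD_of_check (c := ⟨387, ⟨2, 7, 14, 10⟩⟩) (by decide +kernel)

/-- The signs of the piece. -/
def yA22_sign : yA22.Sign ⟨⟨0, 1, 1⟩, ⟨98, 99, 147⟩, ⟨150, 225, 10000⟩, ⟨3000, 3106, 1000⟩⟩ :=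
  ⟨yA22_pp,
    yA22_k2p,
    yA22_k2m,
    Bool.forall_bool.2 ⟨(Bool.forall_bool.2 ⟨yA22_tg00, yA22_tg01⟩), (Bool.forall_bool.2 ⟨yA22_tg10, yA22_tg11⟩)⟩,
    Bool.forall_bool.2 ⟨(Bool.forall_bool.2 ⟨yA22_c2p00, yA22_c2p01⟩), (Bool.forall_bool.2 ⟨yA22_c2p10, yA22_c2p11⟩)⟩,
    Bool.forall_bool.2 ⟨(Bool.forall_bool.2 ⟨yA22_c2m00, yA22_c2m01⟩), (Bool.forall_bool.2 ⟨yA22_c2m10, yA22_c2m11⟩)⟩,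
    Bool.forall_bool.2 ⟨yA22_kap0, yA22_kap1⟩,
    Bool.forall_bool.2 ⟨yA22_c10, yA22_c11⟩,
    Bool.forall_bool.2 ⟨(Bool.forall_bool.2 ⟨yA22_c3p00, yA22_c3p01⟩), (Bool.forall_bool.2 ⟨yA22_c3p10, yA22_c3p11⟩)⟩,
    Bool.forall_bool.2 ⟨(Bool.forall_bool.2 ⟨yA22_c3m00, yA22_c3m01⟩), (Bool.forall_bool.2 ⟨yA22_c3m10, yA22_c3m11⟩)⟩,
    Bool.forall_bool.2 ⟨(Bool.forall_bool.2 ⟨yA22_tmg00, yA22_tmg01⟩), (Bool.forall_bool.2 ⟨yA22_tmg10, yA22_tmg11⟩)⟩,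
    .inr (Bool.forall_bool.2 ⟨⟨yA22_c1h0, Bool.forall_bool.2 ⟨⟨yA22_c3ph00, yA22_c3mh00, yA22_up00, yA22_um00⟩, ⟨yA22_c3ph01, yA22_c3mh01, yA22_up01, yA22_um01⟩⟩⟩, ⟨yA22_c1h1, Bool.forall_bool.2 ⟨⟨yA22_c3ph10, yA22_c3mh10, yA22_up10, yA22_um10⟩, ⟨yA22_c3ph11, yA22_c3mh11, yA22_up11, yA22_um11⟩⟩⟩⟩),
    yA22_v2p,
    yA22_v2m,
    yA22_v3p,
    yA22_v3m,
    posD_sub (b := ⟨⟨0, 1, 1⟩, ⟨98, 99, 147⟩, ⟨0, 301, 10000⟩, ⟨1060, 4000, 1000⟩⟩) (by decide +kernel) yA_vG,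
    posD_sub (b := ⟨⟨0, 1, 1⟩, ⟨98, 99, 147⟩, ⟨0, 301, 10000⟩, ⟨1060, 4000, 1000⟩⟩) (by decide +kernel) yA_vMG,
    posD_sub (b := ⟨⟨0, 1, 1⟩, ⟨98, 99, 147⟩, ⟨0, 301, 10000⟩, ⟨1060, 4000, 1000⟩⟩) (by decide +kernel) yA_ak,
    posD_sub (b := ⟨⟨0, 1, 1⟩, ⟨98, 99, 147⟩, ⟨0, 301, 10000⟩, ⟨1060, 4000, 1000⟩⟩) (by decide +kernel) yA_aw,
    posD_sub (b := ⟨⟨0, 1, 1⟩, ⟨98, 99, 147⟩, ⟨0, 301, 10000⟩, ⟨1060, 4000, 1000⟩⟩) (by decide +kernel) yA_gk,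
    posD_sub (b := ⟨⟨0, 1, 1⟩, ⟨98, 99, 147⟩, ⟨0, 301, 10000⟩, ⟨1060, 4000, 1000⟩⟩) (by decide +kernel) yA_gw,
    posD_sub (b := ⟨⟨0, 1, 1⟩, ⟨98, 99, 147⟩, ⟨0, 301, 10000⟩, ⟨1060, 4000, 1000⟩⟩) (by decide +kernel) yA_ek,
    posD_sub (b := ⟨⟨0, 1, 1⟩, ⟨98, 99, 147⟩, ⟨0, 301, 10000⟩, ⟨1060, 4000, 1000⟩⟩) (by decide +kernel) yA_ew⟩

end Vale.Agent.P100.Calib.Closed.Six.Tail
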