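import Vale.Agent.P100.Calib.SlabSixTailDataLayerA
import Vale.Agent.P100.Calib.SlabSixTailGlobLayerA

/-!
# Checks of some pieces of the certificate

The checks are written as definitions so that they run one after another, which keeps the memory of the
kernel low.
-/

set_option linter.defProp false

namespace Vale.Agent.P100.Calib.Closed.Six.Tail

open BoxPos Large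

local instance sixTailChecksyA15Add : Add Ex := ⟨Ex.add⟩
local instance sixTailChecksyA15Sub : Sub Ex := ⟨Ex.sub⟩
local instance sixTailChecksyA15Mul : Mul Ex := ⟨Ex.mul⟩

def yA23_p0 : PosD ⟨⟨0, 1, 1⟩, ⟨98, 99, 147⟩, ⟨225, 301, 10000⟩, ⟨3000, 3143, 1000⟩⟩ (yA23.hP0) :=
  posD_of_check (c := ⟨82, ⟨0, 2, 3, 1⟩⟩) (by decide +kernel)

def yA23_gn : PosD ⟨⟨0, 1, 1⟩, ⟨98, 99, 147⟩, ⟨225, 301, 10000⟩, ⟨3000, 3143, 1000⟩⟩ (yA23.hGn) :=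
  posD_of_check (c := ⟨58, ⟨1, 1, 2, 1⟩⟩) (by decide +kernel)

def yA23_den0 : PosD ⟨⟨0, 1, 1⟩, ⟨98, 99, 147⟩, ⟨225, 301, 10000⟩, ⟨3000, 3143, 1000⟩⟩ (yA23.hDen false) :=
  posD_of_check (c := ⟨45, ⟨0, 0, 2, 0⟩⟩) (by decide +kernel)

def yA23_den1 : PosD ⟨⟨0, 1, 1⟩, ⟨98, 99, 147⟩, ⟨225, 301, 10000⟩, ⟨3000, 3143, 1000⟩⟩ (yA23.hDen true) :=
  posD_of_check (c := ⟨22, ⟨1, 0, 1, 0⟩⟩) (by decide +kernel)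

def yA23_ev0 : PosD ⟨⟨0, 1, 1⟩, ⟨98, 99, 147⟩, ⟨225, 301, 10000⟩, ⟨3000, 3143, 1000⟩⟩ (yA23.hEv false) :=
  posD_of_check (c := ⟨149, ⟨2, 2, 6, 1⟩⟩) (by decide +kernel)

def yA23_zL0 : PosD ⟨⟨0, 1, 1⟩, ⟨98, 99, 147⟩, ⟨225, 301, 10000⟩, ⟨3000, 3143, 1000⟩⟩ (yA23.hZL false) :=
  posD_of_check (c := ⟨159, ⟨2, 3, 6, 3⟩⟩) (by decide +kernel)

def yA23_zU0 : PosD ⟨⟨0, 1, 1⟩, ⟨98, 99, 147⟩, ⟨225, 301, 10000⟩, ⟨3000, 3143, 1000⟩⟩ (yA23.hZU false) :=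
  posD_of_check (c := ⟨159, ⟨2, 3, 6, 3⟩⟩) (by decide +kernel)

def yA23_eL0 : PosD ⟨⟨0, 1, 1⟩, ⟨98, 99, 147⟩, ⟨225, 301, 10000⟩, ⟨3000, 3143, 1000⟩⟩ (yA23.hEL false) :=
  posD_of_check (c := ⟨267, ⟨3, 6, 9, 3⟩⟩) (by decide +kernel)

def yA23_eH0 : PosD ⟨⟨0, 1, 1⟩, ⟨98, 99, 147⟩, ⟨225, 301, 10000⟩, ⟨3000, 3143, 1000⟩⟩ (yA23.hEH false) :=
  posD_of_check (c := ⟨241, ⟨3, 6, 9, 3⟩⟩) (by decide +kernel)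

def yA23_pL0 : PosD ⟨⟨0, 1, 1⟩, ⟨98, 99, 147⟩, ⟨225, 301, 10000⟩, ⟨3000, 3143, 1000⟩⟩ (yA23.hPL false) :=
  posD_of_check (c := ⟨259, ⟨3, 6, 9, 3⟩⟩) (by decide +kernel)

def yA23_pU0 : PosD ⟨⟨0, 1, 1⟩, ⟨98, 99, 147⟩, ⟨225, 301, 10000⟩, ⟨3000, 3143, 1000⟩⟩ (yA23.hPU false) :=
  posD_of_check (c := ⟨268, ⟨3, 6, 9, 3⟩⟩) (by decide +kernel)

def yA23_kU0 : PosD ⟨⟨0, 1, 1⟩, ⟨98, 99, 147⟩, ⟨225, 301, 10000⟩, ⟨3000, 3143, 1000⟩⟩ (yA23.hKU false) :=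
  posD_of_check (c := ⟨255, ⟨3, 6, 9, 3⟩⟩) (by decide +kernel)

def yA23_kL0 : PosD ⟨⟨0, 1, 1⟩, ⟨98, 99, 147⟩, ⟨225, 301, 10000⟩, ⟨3000, 3143, 1000⟩⟩ (yA23.hKL false) :=
  posD_of_check (c := ⟨263, ⟨3, 6, 9, 3⟩⟩) (by decide +kernel)

def yA23_wU0 : PosD ⟨⟨0, 1, 1⟩, ⟨98, 99, 147⟩, ⟨225, 301, 10000⟩, ⟨3000, 3143, 1000⟩⟩ (yA23.hWU false) :=
  posD_of_check (c := ⟨290, ⟨3, 8, 10, 3⟩⟩) (by decide +kernel)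

def yA23_wL0 : PosD ⟨⟨0, 1, 1⟩, ⟨98, 99, 147⟩, ⟨225, 301, 10000⟩, ⟨3000, 3143, 1000⟩⟩ (yA23.hWL false) :=
  posD_of_check (c := ⟨290, ⟨3, 8, 10, 3⟩⟩) (by decide +kernel)

def yA23_ev1 : PosD ⟨⟨0, 1, 1⟩, ⟨98, 99, 147⟩, ⟨225, 301, 10000⟩, ⟨3000, 3143, 1000⟩⟩ (yA23.hEv true) :=
  posD_of_check (c := ⟨120, ⟨2, 2, 6, 1⟩⟩) (by decide +kernel)

def yA23_zL1 : PosD ⟨⟨0, 1, 1⟩, ⟨98, 99, 147⟩, ⟨225, 301, 10000⟩, ⟨3000, 3143, 1000⟩⟩ (yA23.hZL true) :=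
  posD_of_check (c := ⟨134, ⟨2, 3, 6, 3⟩⟩) (by decide +kernel)

def yA23_zU1 : PosD ⟨⟨0, 1, 1⟩, ⟨98, 99, 147⟩, ⟨225, 301, 10000⟩, ⟨3000, 3143, 1000⟩⟩ (yA23.hZU true) :=
  posD_of_check (c := ⟨134, ⟨2, 3, 6, 3⟩⟩) (by decide +kernel)

def yA23_eL1 : PosD ⟨⟨0, 1, 1⟩, ⟨98, 99, 147⟩, ⟨225, 301, 10000⟩, ⟨3000, 3143, 1000⟩⟩ (yA23.hEL true) :=
  posD_of_check (c := ⟨239, ⟨3, 6, 9, 3⟩⟩) (by decide +kernel)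

def yA23_eH1 : PosD ⟨⟨0, 1, 1⟩, ⟨98, 99, 147⟩, ⟨225, 301, 10000⟩, ⟨3000, 3143, 1000⟩⟩ (yA23.hEH true) :=
  posD_of_check (c := ⟨213, ⟨3, 6, 9, 3⟩⟩) (by decide +kernel)

def yA23_pL1 : PosD ⟨⟨0, 1, 1⟩, ⟨98, 99, 147⟩, ⟨225, 301, 10000⟩, ⟨3000, 3143, 1000⟩⟩ (yA23.hPL true) :=
  posD_of_check (c := ⟨230, ⟨3, 6, 9, 3⟩⟩) (by decide +kernel)

def yA23_pU1 : PosD ⟨⟨0, 1, 1⟩, ⟨98, 99, 147⟩, ⟨225, 301, 10000⟩, ⟨3000, 3143, 1000⟩⟩ (yA23.hPU true) :=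
  posD_of_check (c := ⟨239, ⟨3, 6, 9, 3⟩⟩) (by decide +kernel)

def yA23_kU1 : PosD ⟨⟨0, 1, 1⟩, ⟨98, 99, 147⟩, ⟨225, 301, 10000⟩, ⟨3000, 3143, 1000⟩⟩ (yA23.hKU true) :=
  posD_of_check (c := ⟨226, ⟨3, 6, 9, 3⟩⟩) (by decide +kernel)

def yA23_kL1 : PosD ⟨⟨0, 1, 1⟩, ⟨98, 99, 147⟩, ⟨225, 301, 10000⟩, ⟨3000, 3143, 1000⟩⟩ (yA23.hKL true) :=
  posD_of_check (c := ⟨235, ⟨3, 6, 9, 3⟩⟩) (by decide +kernel)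

def yA23_wU1 : PosD ⟨⟨0, 1, 1⟩, ⟨98, 99, 147⟩, ⟨225, 301, 10000⟩, ⟨3000, 3143, 1000⟩⟩ (yA23.hWU true) :=
  posD_of_check (c := ⟨261, ⟨3, 8, 10, 3⟩⟩) (by decide +kernel)

def yA23_wL1 : PosD ⟨⟨0, 1, 1⟩, ⟨98, 99, 147⟩, ⟨225, 301, 10000⟩, ⟨3000, 3143, 1000⟩⟩ (yA23.hWL true) :=
  posD_of_check (c := ⟨261, ⟨3, 8, 10, 3⟩⟩) (by decide +kernel)

def yA23_nueL : PosD ⟨⟨0, 1, 1⟩, ⟨98, 99, 147⟩, ⟨225, 301, 10000⟩, ⟨3000, 3143, 1000⟩⟩ (yA23.eL.ν) :=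
  posD_of_check (c := ⟨45, ⟨0, 0, 1, 1⟩⟩) (by decide +kernel)

def yA23_nupU : PosD ⟨⟨0, 1, 1⟩, ⟨98, 99, 147⟩, ⟨225, 301, 10000⟩, ⟨3000, 3143, 1000⟩⟩ (yA23.pU.ν) :=
  posD_of_check (c := ⟨46, ⟨0, 0, 1, 1⟩⟩) (by decide +kernel)

def yA23_nukL : PosD ⟨⟨0, 1, 1⟩, ⟨98, 99, 147⟩, ⟨225, 301, 10000⟩, ⟨3000, 3143, 1000⟩⟩ (yA23.kL.ν) :=
  posD_of_check (c := ⟨41, ⟨0, 0, 1, 1⟩⟩) (by decide +kernel)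

/-- The bounds of the piece. -/
def yA23_env : yA23.Env ⟨⟨0, 1, 1⟩, ⟨98, 99, 147⟩, ⟨225, 301, 10000⟩, ⟨3000, 3143, 1000⟩⟩ :=
  ⟨yA23_p0, Bool.forall_bool.2 ⟨yA23_den0, yA23_den1⟩, yA23_gn, Bool.forall_bool.2 ⟨yA23_ev0, yA23_ev1⟩, Bool.forall_bool.2 ⟨yA23_zL0, yA23_zL1⟩, Bool.forall_bool.2 ⟨yA23_zU0, yA23_zU1⟩, Bool.forall_bool.2 ⟨yA23_eL0, yA23_eL1⟩, ⟨.inr rfl, .inl yA23_nueL⟩, Bool.forall_bool.2 ⟨yA23_eH0, yA23_eH1⟩, ⟨.inr rfl, .inr rfl⟩, Bool.forall_bool.2 ⟨yA23_pL0, yA23_pL1⟩, ⟨.inr rfl, .inr rfl⟩, Bool.forall_bool.2 ⟨yA23_pU0, yA23_pU1⟩, ⟨.inr rfl, .inl yA23_nupU⟩, Bool.forall_bool.2 ⟨yA23_kU0, yA23_kU1⟩, ⟨.inr rfl, .inr rfl⟩, Bool.forall_bool.2 ⟨yA23_kL0, yA23_kL1⟩, ⟨.inr rfl, .inl yA23_nukL⟩, Bool.forall_bool.2 ⟨yA23_wU0,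 yA23_wU1⟩, ⟨.inr rfl, .inr rfl⟩, Bool.forall_bool.2 ⟨yA23_wL0, yA23_wL1⟩, ⟨.inr rfl, .inr rfl⟩⟩

def yA23_pp : PosD ⟨⟨0, 1, 1⟩, ⟨98, 99, 147⟩, ⟨225, 301, 10000⟩, ⟨3000, 3143, 1000⟩⟩ (yA23.xPL) :=
  posD_of_check (c := ⟨91, ⟨1, 1, 3, 3⟩⟩) (by decide +kernel)

def yA23_k2p : PosD ⟨⟨0, 1, 1⟩, ⟨98, 99, 147⟩, ⟨225, 301, 10000⟩, ⟨3000, 3143, 1000⟩⟩ (yA23.k2p yA23.xE) :=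
  posD_of_check (c := ⟨62, ⟨1, 1, 2, 2⟩⟩) (by decide +kernel)

def yA23_k2m : PosD ⟨⟨0, 1, 1⟩, ⟨98, 99, 147⟩, ⟨225, 301, 10000⟩, ⟨3000, 3143, 1000⟩⟩ (yA23.k2m yA23.xE) :=
  posD_of_check (c := ⟨64, ⟨1, 1, 2, 2⟩⟩) (by decide +kernel)

def yA23_v2p : PosD ⟨⟨0, 1, 1⟩, ⟨98, 99, 147⟩, ⟨225, 301, 10000⟩, ⟨3000, 3143, 1000⟩⟩ (yA23.hV2p) :=
  posD_of_check (c := ⟨255, ⟨1, 6, 10, 5⟩⟩) (by decide +kernel)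

def yA23_v2m : PosD ⟨⟨0, 1, 1⟩, ⟨98, 99, 147⟩, ⟨225, 301, 10000⟩, ⟨3000, 3143, 1000⟩⟩ (yA23.hV2m) :=
  posD_of_check (c := ⟨257, ⟨1, 6, 10, 5⟩⟩) (by decide +kernel)

def yA23_v3p : PosD ⟨⟨0, 1, 1⟩, ⟨98, 99, 147⟩, ⟨225, 301, 10000⟩, ⟨3000, 3143, 1000⟩⟩ (yA23.hV3p) :=
  posD_of_check (c := ⟨246, ⟨1, 6, 9, 5⟩⟩) (by decide +kernel)

def yA23_v3m : PosD ⟨⟨0, 1, 1⟩, ⟨98, 99, 147⟩, ⟨225, 301, 10000⟩, ⟨3000, 3143, 1000⟩⟩ (yA23.hV3m) :=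
  posD_of_check (c := ⟨246, ⟨1, 6, 9, 5⟩⟩) (by decide +kernel)

def yA23_kap0 : PosD ⟨⟨0, 1, 1⟩, ⟨98, 99, 147⟩, ⟨225, 301, 10000⟩, ⟨3000, 3143, 1000⟩⟩ (yA23.kap false) :=
  posD_of_check (c := ⟨72, ⟨1, 1, 2, 2⟩⟩) (by decide +kernel)

def yA23_c10 : PosD ⟨⟨0, 1, 1⟩, ⟨98, 99, 147⟩, ⟨225, 301, 10000⟩, ⟨3000, 3143, 1000⟩⟩ (yA23.hC1 false) :=
  posD_of_check (c := ⟨268, ⟨3, 5, 9, 7⟩⟩) (by decide +kernel)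

def yA23_c1h0a : PosD ⟨⟨0, 1, 1⟩, ⟨98, 99, 147⟩, ⟨225, 301, 10000⟩, ⟨3000, 3071, 1000⟩⟩ (yA23.hC1' false) :=
  posD_of_check (c := ⟨268, ⟨3, 5, 9, 7⟩⟩) (by decide +kernel)

def yA23_c1h0b : PosD ⟨⟨0, 1, 1⟩, ⟨98, 99, 147⟩, ⟨225, 301, 10000⟩, ⟨3071, 3143, 1000⟩⟩ (yA23.hC1' false) :=
  posD_of_relax (k₁ := 0) (k₂ := 15) (k₃ := 0) (n := 16) (posD_of_check (c := ⟨268, ⟨3, 5, 9, 7⟩⟩) (by decide +kernel))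

def yA23_c1h0 : PosD ⟨⟨0, 1, 1⟩, ⟨98, 99, 147⟩, ⟨225, 301, 10000⟩, ⟨3000, 3143, 1000⟩⟩ (yA23.hC1' false) :=
  posD_join₃ yA23_c1h0a yA23_c1h0b

def yA23_tg00 : PosD ⟨⟨0, 1, 1⟩, ⟨98, 99, 147⟩, ⟨225, 301, 10000⟩, ⟨3000, 3143, 1000⟩⟩ (yA23.hG false (yA23.pEnd false)) :=
  posD_of_check (c := ⟨370, ⟨2, 7, 14, 9⟩⟩) (by decide +kernel)

def yA23_c2p00 : PosD ⟨⟨0, 1, 1⟩, ⟨98, 99, 147⟩, ⟨225, 301, 10000⟩, ⟨3000, 3143, 1000⟩⟩ (yA23.hC2p false (yA23.pEnd false)) :=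
  posD_of_check (c := ⟨433, ⟨3, 8, 16, 11⟩⟩) (by decide +kernel)

def yA23_c2m00 : PosD ⟨⟨0, 1, 1⟩, ⟨98, 99, 147⟩, ⟨225, 301, 10000⟩, ⟨3000, 3143, 1000⟩⟩ (yA23.hC2m false (yA23.pEnd false)) :=
  posD_of_check (c := ⟨434, ⟨3, 8, 16, 11⟩⟩) (by decide +kernel)

def yA23_c3p00 : PosD ⟨⟨0, 1, 1⟩, ⟨98, 99, 147⟩, ⟨225, 301, 10000⟩, ⟨3000, 3143, 1000⟩⟩ (yA23.hC3p false false) :=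
  posD_of_check (c := ⟨433, ⟨3, 8, 15, 11⟩⟩) (by decide +kernel)

def yA23_c3m00 : PosD ⟨⟨0, 1, 1⟩, ⟨98, 99, 147⟩, ⟨225, 301, 10000⟩, ⟨3000, 3143, 1000⟩⟩ (yA23.hC3m false false) :=
  posD_of_check (c := ⟨433, ⟨3, 8, 15, 11⟩⟩) (by decide +kernel)

def yA23_c3ph00 : PosD ⟨⟨0, 1, 1⟩, ⟨98, 99, 147⟩, ⟨225, 301, 10000⟩, ⟨3000, 3143, 1000⟩⟩ (yA23.hC3p' false false) :=
  posD_of_check (c := ⟨432, ⟨3, 8, 15, 11⟩⟩) (by decide +kernel)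

def yA23_c3mh00 : PosD ⟨⟨0, 1, 1⟩, ⟨98, 99, 147⟩, ⟨225, 301, 10000⟩, ⟨3000, 3143, 1000⟩⟩ (yA23.hC3m' false false) :=
  posD_of_check (c := ⟨432, ⟨3, 8, 15, 11⟩⟩) (by decide +kernel)

def yA23_up00 : PosD ⟨⟨0, 1, 1⟩, ⟨98, 99, 147⟩, ⟨225, 301, 10000⟩, ⟨3000, 3143, 1000⟩⟩ (yA23.hUp false false) :=
  posD_of_check (c := ⟨426, ⟨3, 8, 15, 11⟩⟩) (by decide +kernel)

def yA23_um00 : PosD ⟨⟨0, 1, 1⟩, ⟨98, 99, 147⟩, ⟨225, 301, 10000⟩, ⟨3000, 3143, 1000⟩⟩ (yA23.hUm false false) :=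
  posD_of_check (c := ⟨426, ⟨3, 8, 15, 11⟩⟩) (by decide +kernel)

def yA23_tmg00 : PosD ⟨⟨0, 1, 1⟩, ⟨98, 99, 147⟩, ⟨225, 301, 10000⟩, ⟨3000, 3143, 1000⟩⟩ (yA23.hTMG false (yA23.pEnd false)) :=
  posD_of_check (c := ⟨386, ⟨2, 7, 14, 10⟩⟩) (by decide +kernel)

def yA23_tg01 : PosD ⟨⟨0, 1, 1⟩, ⟨98, 99, 147⟩, ⟨225, 301, 10000⟩, ⟨3000, 3143, 1000⟩⟩ (yA23.hG true (yA23.pEnd false)) :=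
  posD_of_check (c := ⟨370, ⟨2, 7, 14, 9⟩⟩) (by decide +kernel)

def yA23_c2p01 : PosD ⟨⟨0, 1, 1⟩, ⟨98, 99, 147⟩, ⟨225, 301, 10000⟩, ⟨3000, 3143, 1000⟩⟩ (yA23.hC2p true (yA23.pEnd false)) :=
  posD_of_check (c := ⟨433, ⟨3, 8, 16, 11⟩⟩) (by decide +kernel)

def yA23_c2m01 : PosD ⟨⟨0, 1, 1⟩, ⟨98, 99, 147⟩, ⟨225, 301, 10000⟩, ⟨3000, 3143, 1000⟩⟩ (yA23.hC2m true (yA23.pEnd false)) :=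
  posD_of_check (c := ⟨434, ⟨3, 8, 16, 11⟩⟩) (by decide +kernel)

def yA23_c3p01 : PosD ⟨⟨0, 1, 1⟩, ⟨98, 99, 147⟩, ⟨225, 301, 10000⟩, ⟨3000, 3143, 1000⟩⟩ (yA23.hC3p false true) :=
  posD_of_check (c := ⟨433, ⟨3, 8, 15, 11⟩⟩) (by decide +kernel)

def yA23_c3m01 : PosD ⟨⟨0, 1, 1⟩, ⟨98, 99, 147⟩, ⟨225, 301, 10000⟩, ⟨3000, 3143, 1000⟩⟩ (yA23.hC3m false true) :=
  posD_of_check (c := ⟨433, ⟨3, 8, 15, 11⟩⟩) (by decide +kernel)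

def yA23_c3ph01 : PosD ⟨⟨0, 1, 1⟩, ⟨98, 99, 147⟩, ⟨225, 301, 10000⟩, ⟨3000, 3143, 1000⟩⟩ (yA23.hC3p' false true) :=
  posD_of_check (c := ⟨432, ⟨3, 8, 15, 11⟩⟩) (by decide +kernel)

def yA23_c3mh01 : PosD ⟨⟨0, 1, 1⟩, ⟨98, 99, 147⟩, ⟨225, 301, 10000⟩, ⟨3000, 3143, 1000⟩⟩ (yA23.hC3m' false true) :=
  posD_of_check (c := ⟨432, ⟨3, 8, 15, 11⟩⟩) (by decide +kernel)

def yA23_up01 : PosD ⟨⟨0, 1, 1⟩, ⟨98, 99, 147⟩, ⟨225, 301, 10000⟩, ⟨3000, 3143, 1000⟩⟩ (yA23.hUp false true) :=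
  posD_of_check (c := ⟨426, ⟨3, 8, 15, 11⟩⟩) (by decide +kernel)

def yA23_um01 : PosD ⟨⟨0, 1, 1⟩, ⟨98, 99, 147⟩, ⟨225, 301, 10000⟩, ⟨3000, 3143, 1000⟩⟩ (yA23.hUm false true) :=
  posD_of_check (c := ⟨426, ⟨3, 8, 15, 11⟩⟩) (by decide +kernel)

def yA23_tmg01 : PosD ⟨⟨0, 1, 1⟩, ⟨98, 99, 147⟩, ⟨225, 301, 10000⟩, ⟨3000, 3143, 1000⟩⟩ (yA23.hTMG true (yA23.pEnd false)) :=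
  posD_of_check (c := ⟨386, ⟨2, 7, 14, 10⟩⟩) (by decide +kernel)

def yA23_kap1 : PosD ⟨⟨0, 1, 1⟩, ⟨98, 99, 147⟩, ⟨225, 301, 10000⟩, ⟨3000, 3143, 1000⟩⟩ (yA23.kap true) :=
  posD_of_check (c := ⟨69, ⟨1, 1, 2, 2⟩⟩) (by decide +kernel)

def yA23_c11 : PosD ⟨⟨0, 1, 1⟩, ⟨98, 99, 147⟩, ⟨225, 301, 10000⟩, ⟨3000, 3143, 1000⟩⟩ (yA23.hC1 true) :=
  posD_of_check (c := ⟨266, ⟨3, 5, 9, 7⟩⟩) (by decide +kernel)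

def yA23_c1h1 : PosD ⟨⟨0, 1, 1⟩, ⟨98, 99, 147⟩, ⟨225, 301, 10000⟩, ⟨3000, 3143, 1000⟩⟩ (yA23.hC1' true) :=
  posD_of_relax (k₁ := 0) (k₂ := 19) (k₃ := 0) (n := 16) (posD_of_check (c := ⟨266, ⟨3, 5, 9, 7⟩⟩) (by decide +kernel))

def yA23_tg10 : PosD ⟨⟨0, 1, 1⟩, ⟨98, 99, 147⟩, ⟨225, 301, 10000⟩, ⟨3000, 3143, 1000⟩⟩ (yA23.hG false (yA23.pEnd true)) :=
  posD_of_check (c := ⟨372, ⟨2, 7, 14, 9⟩⟩) (by decide +kernel)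

def yA23_c2p10 : PosD ⟨⟨0, 1, 1⟩, ⟨98, 99, 147⟩, ⟨225, 301, 10000⟩, ⟨3000, 3143, 1000⟩⟩ (yA23.hC2p false (yA23.pEnd true)) :=
  posD_of_check (c := ⟨435, ⟨3, 8, 16, 11⟩⟩) (by decide +kernel)

def yA23_c2m10 : PosD ⟨⟨0, 1, 1⟩, ⟨98, 99, 147⟩, ⟨225, 301, 10000⟩, ⟨3000, 3143, 1000⟩⟩ (yA23.hC2m false (yA23.pEnd true)) :=
  posD_of_check (c := ⟨436, ⟨3, 8, 16, 11⟩⟩) (by decide +kernel)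

def yA23_c3p10 : PosD ⟨⟨0, 1, 1⟩, ⟨98, 99, 147⟩, ⟨225, 301, 10000⟩, ⟨3000, 3143, 1000⟩⟩ (yA23.hC3p true false) :=
  posD_of_check (c := ⟨431, ⟨3, 8, 15, 11⟩⟩) (by decide +kernel)

def yA23_c3m10 : PosD ⟨⟨0, 1, 1⟩, ⟨98, 99, 147⟩, ⟨225, 301, 10000⟩, ⟨3000, 3143, 1000⟩⟩ (yA23.hC3m true false) :=
  posD_of_check (c := ⟨431, ⟨3, 8, 15, 11⟩⟩) (by decide +kernel)

def yA23_c3ph10 : PosD ⟨⟨0, 1, 1⟩, ⟨98, 99, 147⟩, ⟨225, 301, 10000⟩, ⟨3000, 3143, 1000⟩⟩ (yA23.hC3p' true false) :=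
  posD_of_check (c := ⟨430, ⟨3, 8, 15, 11⟩⟩) (by decide +kernel)

def yA23_c3mh10 : PosD ⟨⟨0, 1, 1⟩, ⟨98, 99, 147⟩, ⟨225, 301, 10000⟩, ⟨3000, 3143, 1000⟩⟩ (yA23.hC3m' true false) :=
  posD_of_check (c := ⟨430, ⟨3, 8, 15, 11⟩⟩) (by decide +kernel)

def yA23_up10 : PosD ⟨⟨0, 1, 1⟩, ⟨98, 99, 147⟩, ⟨225, 301, 10000⟩, ⟨3000, 3143, 1000⟩⟩ (yA23.hUp true false) :=
  posD_of_check (c := ⟨427, ⟨3, 8, 15, 11⟩⟩) (by decide +kernel)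

def yA23_um10 : PosD ⟨⟨0, 1, 1⟩, ⟨98, 99, 147⟩, ⟨225, 301, 10000⟩, ⟨3000, 3143, 1000⟩⟩ (yA23.hUm true false) :=
  posD_of_check (c := ⟨427, ⟨3, 8, 15, 11⟩⟩) (by decide +kernel)

def yA23_tmg10 : PosD ⟨⟨0, 1, 1⟩, ⟨98, 99, 147⟩, ⟨225, 301, 10000⟩, ⟨3000, 3143, 1000⟩⟩ (yA23.hTMG false (yA23.pEnd true)) :=
  posD_of_check (c := ⟨387, ⟨2, 7, 14, 10⟩⟩) (by decide +kernel)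

def yA23_tg11 : PosD ⟨⟨0, 1, 1⟩, ⟨98, 99, 147⟩, ⟨225, 301, 10000⟩, ⟨3000, 3143, 1000⟩⟩ (yA23.hG true (yA23.pEnd true)) :=
  posD_of_check (c := ⟨372, ⟨2, 7, 14, 9⟩⟩) (by decide +kernel)

def yA23_c2p11 : PosD ⟨⟨0, 1, 1⟩, ⟨98, 99, 147⟩, ⟨225, 301, 10000⟩, ⟨3000, 3143, 1000⟩⟩ (yA23.hC2p true (yA23.pEnd true)) :=
  posD_of_check (c := ⟨435, ⟨3, 8, 16, 11⟩⟩) (by decide +kernel)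

def yA23_c2m11 : PosD ⟨⟨0, 1, 1⟩, ⟨98, 99, 147⟩, ⟨225, 301, 10000⟩, ⟨3000, 3143, 1000⟩⟩ (yA23.hC2m true (yA23.pEnd true)) :=
  posD_of_check (c := ⟨436, ⟨3, 8, 16, 11⟩⟩) (by decide +kernel)

def yA23_c3p11 : PosD ⟨⟨0, 1, 1⟩, ⟨98, 99, 147⟩, ⟨225, 301, 10000⟩, ⟨3000, 3143, 1000⟩⟩ (yA23.hC3p true true) :=
  posD_of_check (c := ⟨431, ⟨3, 8, 15, 11⟩⟩) (by decide +kernel)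

def yA23_c3m11 : PosD ⟨⟨0, 1, 1⟩, ⟨98, 99, 147⟩, ⟨225, 301, 10000⟩, ⟨3000, 3143, 1000⟩⟩ (yA23.hC3m true true) :=
  posD_of_check (c := ⟨431, ⟨3, 8, 15, 11⟩⟩) (by decide +kernel)

def yA23_c3ph11 : PosD ⟨⟨0, 1, 1⟩, ⟨98, 99, 147⟩, ⟨225, 301, 10000⟩, ⟨3000, 3143, 1000⟩⟩ (yA23.hC3p' true true) :=
  posD_of_check (c := ⟨430, ⟨3, 8, 15, 11⟩⟩) (by decide +kernel)

def yA23_c3mh11 : PosD ⟨⟨0, 1, 1⟩, ⟨98, 99, 147⟩, ⟨225, 301, 10000⟩, ⟨3000, 3143, 1000⟩⟩ (yA23.hC3m' true true) :=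
  posD_of_check (c := ⟨430, ⟨3, 8, 15, 11⟩⟩) (by decide +kernel)

def yA23_up11 : PosD ⟨⟨0, 1, 1⟩, ⟨98, 99, 147⟩, ⟨225, 301, 10000⟩, ⟨3000, 3143, 1000⟩⟩ (yA23.hUp true true) :=
  posD_of_check (c := ⟨427, ⟨3, 8, 15, 11⟩⟩) (by decide +kernel)

def yA23_um11 : PosD ⟨⟨0, 1, 1⟩, ⟨98, 99, 147⟩, ⟨225, 301, 10000⟩, ⟨3000, 3143, 1000⟩⟩ (yA23.hUm true true) :=
  posD_of_check (c := ⟨427, ⟨3, 8, 15, 11⟩⟩) (by decide +kernel)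

def yA23_tmg11 : PosD ⟨⟨0, 1, 1⟩, ⟨98, 99, 147⟩, ⟨225, 301, 10000⟩, ⟨3000, 3143, 1000⟩⟩ (yA23.hTMG true (yA23.pEnd true)) :=
  posD_of_check (c := ⟨387, ⟨2, 7, 14, 10⟩⟩) (by decide +kernel)

/-- The signs of the piece. -/
def yA23_sign : yA23.Sign ⟨⟨0, 1, 1⟩, ⟨98, 99, 147⟩, ⟨225, 301, 10000⟩, ⟨3000, 3143, 1000⟩⟩ :=
  ⟨yA23_pp,
    yA23_k2p,
    yA23_k2m,
    Bool.forall_bool.2 ⟨(Bool.forall_bool.2 ⟨yA23_tg00, yA23_tg01⟩), (Bool.forall_bool.2 ⟨yA23_tg10, yA23_tg11⟩)⟩,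
    Bool.forall_bool.2 ⟨(Bool.forall_bool.2 ⟨yA23_c2p00, yA23_c2p01⟩), (Bool.forall_bool.2 ⟨yA23_c2p10, yA23_c2p11⟩)⟩,
    Bool.forall_bool.2 ⟨(Bool.forall_bool.2 ⟨yA23_c2m00, yA23_c2m01⟩), (Bool.forall_bool.2 ⟨yA23_c2m10, yA23_c2m11⟩)⟩,
    Bool.forall_bool.2 ⟨yA23_kap0, yA23_kap1⟩,
    Bool.forall_bool.2 ⟨yA23_c10, yA23_c11⟩,
    Bool.forall_bool.2 ⟨(Bool.forall_bool.2 ⟨yA23_c3p00, yA23_c3p01⟩), (Bool.forall_bool.2 ⟨yA23_c3p10, yA23_c3p11⟩)⟩,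
    Bool.forall_bool.2 ⟨(Bool.forall_bool.2 ⟨yA23_c3m00, yA23_c3m01⟩), (Bool.forall_bool.2 ⟨yA23_c3m10, yA23_c3m11⟩)⟩,
    Bool.forall_bool.2 ⟨(Bool.forall_bool.2 ⟨yA23_tmg00, yA23_tmg01⟩), (Bool.forall_bool.2 ⟨yA23_tmg10, yA23_tmg11⟩)⟩,
    .inr (Bool.forall_bool.2 ⟨⟨yA23_c1h0, Bool.forall_bool.2 ⟨⟨yA23_c3ph00, yA23_c3mh00, yA23_up00, yA23_um00⟩, ⟨yA23_c3ph01, yA23_c3mh01, yA23_up01, yA23_um01⟩⟩⟩, ⟨yA23_c1h1, Bool.forall_bool.2 ⟨⟨yA23_c3ph10, yA23_c3mh10, yA23_up10, yA23_um10⟩, ⟨yA23_c3ph11, yA23_c3mh11, yA23_up11, yA23_um11⟩⟩⟩⟩),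
    yA23_v2p,
    yA23_v2m,
    yA23_v3p,
    yA23_v3m,
    posD_sub (b := ⟨⟨0, 1, 1⟩, ⟨98, 99, 147⟩, ⟨0, 301, 10000⟩, ⟨1060, 4000, 1000⟩⟩) (by decide +kernel) yA_vG,
    posD_sub (b := ⟨⟨0, 1, 1⟩, ⟨98, 99, 147⟩, ⟨0, 301, 10000⟩, ⟨1060, 4000, 1000⟩⟩) (by decide +kernel) yA_vMG,
    posD_sub (b := ⟨⟨0, 1, 1⟩, ⟨98, 99, 147⟩, ⟨0, 301, 10000⟩, ⟨1060, 4000, 1000⟩⟩) (by decide +kernel) yA_ak,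
    posD_sub (b := ⟨⟨0, 1, 1⟩, ⟨98, 99, 147⟩, ⟨0, 301, 10000⟩, ⟨1060, 4000, 1000⟩⟩) (by decide +kernel) yA_aw,
    posD_sub (b := ⟨⟨0, 1, 1⟩, ⟨98, 99, 147⟩, ⟨0, 301, 10000⟩, ⟨1060, 4000, 1000⟩⟩) (by decide +kernel) yA_gk,
    posD_sub (b := ⟨⟨0, 1, 1⟩, ⟨98, 99, 147⟩, ⟨0, 301, 10000⟩, ⟨1060, 4000, 1000⟩⟩) (by decide +kernel) yA_gw,
    posD_sub (b := ⟨⟨0, 1, 1⟩, ⟨98, 99, 147⟩, ⟨0, 301, 10000⟩, ⟨1060, 4000, 1000⟩⟩) (by decide +kernel) yA_ek,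
    posD_sub (b := ⟨⟨0, 1, 1⟩, ⟨98, 99, 147⟩, ⟨0, 301, 10000⟩, ⟨1060, 4000, 1000⟩⟩) (by decide +kernel) yA_ew⟩

end Vale.Agent.P100.Calib.Closed.Six.Tail
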