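import Vale.Agent.P100.Calib.SlabSixTailDataLayerA
import Vale.Agent.P100.Calib.SlabSixTailGlobLayerA

/-!
# Checks of some pieces of the certificate

The checks are written as definitions so that they run one after another, which keeps the memory of the
kernel low.
-/

set_option linter.defProp false

namespace Vale.Agent.P100.Calib.Closed.Six.Tail

open BoxPos Large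

local instance sixTailChecksyA16Add : Add Ex := ⟨Ex.add⟩
local instance sixTailChecksyA16Sub : Sub Ex := ⟨Ex.sub⟩
local instance sixTailChecksyA16Mul : Mul Ex := ⟨Ex.mul⟩

def yA24_p0 : PosD ⟨⟨0, 1, 1⟩, ⟨980, 981, 1470⟩, ⟨0, 75, 10000⟩, ⟨2776, 2886, 1000⟩⟩ (yA24.hP0) :=
  posD_of_check0 (c := ⟨82, ⟨0, 2, 3, 1⟩⟩) (by decide +kernel)

def yA24_gn : PosD ⟨⟨0, 1, 1⟩, ⟨980, 981, 1470⟩, ⟨0, 75, 10000⟩, ⟨2776, 2886, 1000⟩⟩ (yA24.hGn) :=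
  posD_of_check0 (c := ⟨61, ⟨1, 1, 2, 1⟩⟩) (by decide +kernel)

def yA24_den0 : PosD ⟨⟨0, 1, 1⟩, ⟨980, 981, 1470⟩, ⟨0, 75, 10000⟩, ⟨2776, 2886, 1000⟩⟩ (yA24.hDen false) :=
  posD_of_check0 (c := ⟨45, ⟨0, 0, 2, 0⟩⟩) (by decide +kernel)

def yA24_ev0 : PosD ⟨⟨0, 1, 1⟩, ⟨980, 981, 1470⟩, ⟨0, 75, 10000⟩, ⟨2776, 2886, 1000⟩⟩ (yA24.hEv false) :=
  posD_of_check0 (c := ⟨153, ⟨2, 2, 6, 1⟩⟩) (by decide +kernel)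

def yA24_zL0 : PosD ⟨⟨0, 1, 1⟩, ⟨980, 981, 1470⟩, ⟨0, 75, 10000⟩, ⟨2776, 2886, 1000⟩⟩ (yA24.hZL false) :=
  posD_of_check0 (c := ⟨164, ⟨2, 3, 6, 3⟩⟩) (by decide +kernel)

def yA24_zU0 : PosD ⟨⟨0, 1, 1⟩, ⟨980, 981, 1470⟩, ⟨0, 75, 10000⟩, ⟨2776, 2886, 1000⟩⟩ (yA24.hZU false) :=
  posD_of_check0 (c := ⟨163, ⟨2, 3, 6, 2⟩⟩) (by decide +kernel)

def yA24_eL0 : PosD ⟨⟨0, 1, 1⟩, ⟨980, 981, 1470⟩, ⟨0, 75, 10000⟩, ⟨2776, 2886, 1000⟩⟩ (yA24.hEL false) :=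
  posD_of_check0 (c := ⟨251, ⟨3, 6, 9, 2⟩⟩) (by decide +kernel)

def yA24_eH0 : PosD ⟨⟨0, 1, 1⟩, ⟨980, 981, 1470⟩, ⟨0, 75, 10000⟩, ⟨2776, 2886, 1000⟩⟩ (yA24.hEH false) :=
  posD_of_check0 (c := ⟨251, ⟨3, 6, 9, 2⟩⟩) (by decide +kernel)

def yA24_pL0 : PosD ⟨⟨0, 1, 1⟩, ⟨980, 981, 1470⟩, ⟨0, 75, 10000⟩, ⟨2776, 2886, 1000⟩⟩ (yA24.hPL false) :=
  posD_of_check0 (c := ⟨271, ⟨3, 6, 9, 3⟩⟩) (by decide +kernel)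

def yA24_pU0 : PosD ⟨⟨0, 1, 1⟩, ⟨980, 981, 1470⟩, ⟨0, 75, 10000⟩, ⟨2776, 2886, 1000⟩⟩ (yA24.hPU false) :=
  posD_of_check0 (c := ⟨270, ⟨3, 6, 9, 3⟩⟩) (by decide +kernel)

def yA24_kU0 : PosD ⟨⟨0, 1, 1⟩, ⟨980, 981, 1470⟩, ⟨0, 75, 10000⟩, ⟨2776, 2886, 1000⟩⟩ (yA24.hKU false) :=
  posD_of_check0 (c := ⟨265, ⟨3, 6, 9, 3⟩⟩) (by decide +kernel)

def yA24_kL0 : PosD ⟨⟨0, 1, 1⟩, ⟨980, 981, 1470⟩, ⟨0, 75, 10000⟩, ⟨2776, 2886, 1000⟩⟩ (yA24.hKL false) :=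
  posD_of_check0 (c := ⟨265, ⟨3, 6, 9, 3⟩⟩) (by decide +kernel)

def yA24_wU0 : PosD ⟨⟨0, 1, 1⟩, ⟨980, 981, 1470⟩, ⟨0, 75, 10000⟩, ⟨2776, 2886, 1000⟩⟩ (yA24.hWU false) :=
  posD_of_check0 (c := ⟨305, ⟨3, 8, 10, 3⟩⟩) (by decide +kernel)

def yA24_wL0 : PosD ⟨⟨0, 1, 1⟩, ⟨980, 981, 1470⟩, ⟨0, 75, 10000⟩, ⟨2776, 2886, 1000⟩⟩ (yA24.hWL false) :=
  posD_of_check0 (c := ⟨304, ⟨3, 8, 10, 3⟩⟩) (by decide +kernel)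

def yA24_den1 : PosD ⟨⟨0, 1, 1⟩, ⟨980, 981, 1470⟩, ⟨0, 75, 10000⟩, ⟨2776, 2886, 1000⟩⟩ (yA24.hDen true) :=
  posD_of_check0 (c := ⟨23, ⟨1, 0, 1, 0⟩⟩) (by decide +kernel)

def yA24_ev1 : PosD ⟨⟨0, 1, 1⟩, ⟨980, 981, 1470⟩, ⟨0, 75, 10000⟩, ⟨2776, 2886, 1000⟩⟩ (yA24.hEv true) :=
  posD_of_check0 (c := ⟨125, ⟨2, 2, 6, 1⟩⟩) (by decide +kernel)

def yA24_zL1 : PosD ⟨⟨0, 1, 1⟩, ⟨980, 981, 1470⟩, ⟨0, 75, 10000⟩, ⟨2776, 2886, 1000⟩⟩ (yA24.hZL true) :=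
  posD_of_check0 (c := ⟨138, ⟨2, 3, 6, 3⟩⟩) (by decide +kernel)

def yA24_zU1 : PosD ⟨⟨0, 1, 1⟩, ⟨980, 981, 1470⟩, ⟨0, 75, 10000⟩, ⟨2776, 2886, 1000⟩⟩ (yA24.hZU true) :=
  posD_of_check0 (c := ⟨137, ⟨2, 3, 6, 2⟩⟩) (by decide +kernel)

def yA24_eL1 : PosD ⟨⟨0, 1, 1⟩, ⟨980, 981, 1470⟩, ⟨0, 75, 10000⟩, ⟨2776, 2886, 1000⟩⟩ (yA24.hEL true) :=
  posD_of_check0 (c := ⟨223, ⟨3, 6, 9, 2⟩⟩) (by decide +kernel)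

def yA24_eH1 : PosD ⟨⟨0, 1, 1⟩, ⟨980, 981, 1470⟩, ⟨0, 75, 10000⟩, ⟨2776, 2886, 1000⟩⟩ (yA24.hEH true) :=
  posD_of_check0 (c := ⟨223, ⟨3, 6, 9, 2⟩⟩) (by decide +kernel)

def yA24_pL1 : PosD ⟨⟨0, 1, 1⟩, ⟨980, 981, 1470⟩, ⟨0, 75, 10000⟩, ⟨2776, 2886, 1000⟩⟩ (yA24.hPL true) :=
  posD_of_check0 (c := ⟨242, ⟨3, 6, 9, 3⟩⟩) (by decide +kernel)

def yA24_pU1a : PosD ⟨⟨0, 1, 2⟩, ⟨980, 981, 1470⟩, ⟨0, 75, 10000⟩, ⟨2776, 2886, 1000⟩⟩ (yA24.hPU true) :=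
  posD_of_check0 (c := ⟨244, ⟨3, 6, 9, 3⟩⟩) (by decide +kernel)

def yA24_pU1ba : PosD ⟨⟨2, 3, 4⟩, ⟨980, 981, 1470⟩, ⟨0, 75, 10000⟩, ⟨2776, 2886, 1000⟩⟩ (yA24.hPU true) :=
  posD_of_check0 (c := ⟨248, ⟨3, 6, 9, 3⟩⟩) (by decide +kernel)

def yA24_pU1bb : PosD ⟨⟨3, 4, 4⟩, ⟨980, 981, 1470⟩, ⟨0, 75, 10000⟩, ⟨2776, 2886, 1000⟩⟩ (yA24.hPU true) :=
  posD_of_check0 (c := ⟨248, ⟨3, 6, 9, 3⟩⟩) (by decide +kernel)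

def yA24_pU1b : PosD ⟨⟨1, 2, 2⟩, ⟨980, 981, 1470⟩, ⟨0, 75, 10000⟩, ⟨2776, 2886, 1000⟩⟩ (yA24.hPU true) :=
  posD_units (b := ⟨⟨2, 4, 4⟩, ⟨980, 981, 1470⟩, ⟨0, 75, 10000⟩, ⟨2776, 2886, 1000⟩⟩) (by decide +kernel) (posD_join₀ yA24_pU1ba yA24_pU1bb)

def yA24_pU1 : PosD ⟨⟨0, 1, 1⟩, ⟨980, 981, 1470⟩, ⟨0, 75, 10000⟩, ⟨2776, 2886, 1000⟩⟩ (yA24.hPU true) :=
  posD_units (b := ⟨⟨0, 2, 2⟩, ⟨980, 981, 1470⟩, ⟨0, 75, 10000⟩, ⟨2776, 2886, 1000⟩⟩) (by decide +kernel) (posD_join₀ yA24_pU1a yA24_pU1b)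

def yA24_kU1 : PosD ⟨⟨0, 1, 1⟩, ⟨980, 981, 1470⟩, ⟨0, 75, 10000⟩, ⟨2776, 2886, 1000⟩⟩ (yA24.hKU true) :=
  posD_of_check0 (c := ⟨237, ⟨3, 6, 9, 3⟩⟩) (by decide +kernel)

def yA24_kL1 : PosD ⟨⟨0, 1, 1⟩, ⟨980, 981, 1470⟩, ⟨0, 75, 10000⟩, ⟨2776, 2886, 1000⟩⟩ (yA24.hKL true) :=
  posD_of_check0 (c := ⟨237, ⟨3, 6, 9, 3⟩⟩) (by decide +kernel)

def yA24_wU1a : PosD ⟨⟨0, 1, 2⟩, ⟨980, 981, 1470⟩, ⟨0, 75, 10000⟩, ⟨2776, 2886, 1000⟩⟩ (yA24.hWU true) :=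
  posD_of_check0 (c := ⟨278, ⟨3, 8, 10, 3⟩⟩) (by decide +kernel)

def yA24_wU1b : PosD ⟨⟨1, 2, 2⟩, ⟨980, 981, 1470⟩, ⟨0, 75, 10000⟩, ⟨2776, 2886, 1000⟩⟩ (yA24.hWU true) :=
  posD_of_check0 (c := ⟨279, ⟨3, 8, 10, 3⟩⟩) (by decide +kernel)

def yA24_wU1 : PosD ⟨⟨0, 1, 1⟩, ⟨980, 981, 1470⟩, ⟨0, 75, 10000⟩, ⟨2776, 2886, 1000⟩⟩ (yA24.hWU true) :=
  posD_units (b := ⟨⟨0, 2, 2⟩, ⟨980, 981, 1470⟩, ⟨0, 75, 10000⟩, ⟨2776, 2886, 1000⟩⟩) (by decide +kernel) (posD_join₀ yA24_wU1a yA24_wU1b)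

def yA24_wL1 : PosD ⟨⟨0, 1, 1⟩, ⟨980, 981, 1470⟩, ⟨0, 75, 10000⟩, ⟨2776, 2886, 1000⟩⟩ (yA24.hWL true) :=
  posD_of_check0 (c := ⟨276, ⟨3, 8, 10, 3⟩⟩) (by decide +kernel)

/-- The bounds of the piece. -/
def yA24_env : yA24.Env ⟨⟨0, 1, 1⟩, ⟨980, 981, 1470⟩, ⟨0, 75, 10000⟩, ⟨2776, 2886, 1000⟩⟩ :=
  ⟨yA24_p0, Bool.forall_bool.2 ⟨yA24_den0, yA24_den1⟩, yA24_gn, Bool.forall_bool.2 ⟨yA24_ev0, yA24_ev1⟩, Bool.forall_bool.2 ⟨yA24_zL0, yA24_zL1⟩, Bool.forall_bool.2 ⟨yA24_zU0, yA24_zU1⟩, Bool.forall_bool.2 ⟨yA24_eL0, yA24_eL1⟩, ⟨.inr rfl, .inr rfl⟩, Bool.forall_bool.2 ⟨yA24_eH0, yA24_eH1⟩, ⟨.inr rfl, .inr rfl⟩, Bool.forall_bool.2 ⟨yA24_pL0, yA24_pL1⟩, ⟨.inr rfl, .inr rfl⟩, Bool.forall_bool.2 ⟨yA24_pU0, yA24_pU1⟩, ⟨.inr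 rfl, .inr rfl⟩, Bool.forall_bool.2 ⟨yA24_kU0, yA24_kU1⟩, ⟨.inr rfl, .inr rfl⟩, Bool.forall_bool.2 ⟨yA24_kL0, yA24_kL1⟩, ⟨.inr rfl, .inr rfl⟩, Bool.forall_bool.2 ⟨yA24_wU0, yA24_wU1⟩, ⟨.inr rfl, .inr rfl⟩, Bool.forall_bool.2 ⟨yA24_wL0, yA24_wL1⟩, ⟨.inr rfl, .inr rfl⟩⟩

def yA24_pU20 : PosD ⟨⟨0, 1, 1⟩, ⟨980, 981, 1470⟩, ⟨0, 75, 10000⟩, ⟨2776, 2886, 1000⟩⟩ (({ yA24 with pU := yA24PU } : Piece).hPU false) :=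
  posD_of_check0 (c := ⟨271, ⟨3, 6, 9, 3⟩⟩) (by decide +kernel)

def yA24_pU21aaaaa : PosD ⟨⟨0, 1, 32⟩, ⟨980, 981, 1470⟩, ⟨0, 75, 10000⟩, ⟨2776, 2886, 1000⟩⟩ (({ yA24 with pU := yA24PU } : Piece).hPU true) :=
  posD_of_check0 (c := ⟨256, ⟨3, 6, 9, 3⟩⟩) (by decide +kernel)

def yA24_pU21aaaab : PosD ⟨⟨1, 2, 32⟩, ⟨980, 981, 1470⟩, ⟨0, 75, 10000⟩, ⟨2776, 2886, 1000⟩⟩ (({ yA24 with pU := yA24PU } : Piece).hPU true) :=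
  posD_of_check0 (c := ⟨256, ⟨3, 6, 9, 3⟩⟩) (by decide +kernel)

def yA24_pU21aaaa : PosD ⟨⟨0, 1, 16⟩, ⟨980, 981, 1470⟩, ⟨0, 75, 10000⟩, ⟨2776, 2886, 1000⟩⟩ (({ yA24 with pU := yA24PU } : Piece).hPU true) :=
  posD_units (b := ⟨⟨0, 2, 32⟩, ⟨980, 981, 1470⟩, ⟨0, 75, 10000⟩, ⟨2776, 2886, 1000⟩⟩) (by decide +kernel) (posD_join₀ yA24_pU21aaaaa yA24_pU21aaaab)

def yA24_pU21aaab : PosD ⟨⟨1, 2, 16⟩, ⟨980, 981, 1470⟩, ⟨0, 75, 10000⟩, ⟨2776, 2886, 1000⟩⟩ (({ yA24 with pU := yA24PU } : Piece).hPU true) :=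
  posD_of_check0 (c := ⟨253, ⟨3, 6, 9, 3⟩⟩) (by decide +kernel)

def yA24_pU21aaa : PosD ⟨⟨0, 1, 8⟩, ⟨980, 981, 1470⟩, ⟨0, 75, 10000⟩, ⟨2776, 2886, 1000⟩⟩ (({ yA24 with pU := yA24PU } : Piece).hPU true) :=
  posD_units (b := ⟨⟨0, 2, 16⟩, ⟨980, 981, 1470⟩, ⟨0, 75, 10000⟩, ⟨2776, 2886, 1000⟩⟩) (by decide +kernel) (posD_join₀ yA24_pU21aaaa yA24_pU21aaab)

def yA24_pU21aab : PosD ⟨⟨1, 2, 8⟩, ⟨980, 981, 1470⟩, ⟨0, 75, 10000⟩, ⟨2776, 2886, 1000⟩⟩ (({ yA24 with pU := yA24PU } : Piece).hPU true) :=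
  posD_of_check0 (c := ⟨251, ⟨3, 6, 9, 3⟩⟩) (by decide +kernel)

def yA24_pU21aa : PosD ⟨⟨0, 1, 4⟩, ⟨980, 981, 1470⟩, ⟨0, 75, 10000⟩, ⟨2776, 2886, 1000⟩⟩ (({ yA24 with pU := yA24PU } : Piece).hPU true) :=
  posD_units (b := ⟨⟨0, 2, 8⟩, ⟨980, 981, 1470⟩, ⟨0, 75, 10000⟩, ⟨2776, 2886, 1000⟩⟩) (by decide +kernel) (posD_join₀ yA24_pU21aaa yA24_pU21aab)

def yA24_pU21ab : PosD ⟨⟨1, 2, 4⟩, ⟨980, 981, 1470⟩, ⟨0, 75, 10000⟩, ⟨2776, 2886, 1000⟩⟩ (({ yA24 with pU := yA24PU } : Piece).hPU true) :=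
  posD_of_check0 (c := ⟨248, ⟨3, 6, 9, 3⟩⟩) (by decide +kernel)

def yA24_pU21a : PosD ⟨⟨0, 1, 2⟩, ⟨980, 981, 1470⟩, ⟨0, 75, 10000⟩, ⟨2776, 2886, 1000⟩⟩ (({ yA24 with pU := yA24PU } : Piece).hPU true) :=
  posD_units (b := ⟨⟨0, 2, 4⟩, ⟨980, 981, 1470⟩, ⟨0, 75, 10000⟩, ⟨2776, 2886, 1000⟩⟩) (by decide +kernel) (posD_join₀ yA24_pU21aa yA24_pU21ab)

def yA24_pU21b : PosD ⟨⟨1, 2, 2⟩, ⟨980, 981, 1470⟩, ⟨0, 75, 10000⟩, ⟨2776, 2886, 1000⟩⟩ (({ yA24 with pU := yA24PU } : Piece).hPU true) :=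
  posD_of_check0 (c := ⟨246, ⟨3, 6, 9, 3⟩⟩) (by decide +kernel)

def yA24_pU21 : PosD ⟨⟨0, 1, 1⟩, ⟨980, 981, 1470⟩, ⟨0, 75, 10000⟩, ⟨2776, 2886, 1000⟩⟩ (({ yA24 with pU := yA24PU } : Piece).hPU true) :=
  posD_units (b := ⟨⟨0, 2, 2⟩, ⟨980, 981, 1470⟩, ⟨0, 75, 10000⟩, ⟨2776, 2886, 1000⟩⟩) (by decide +kernel) (posD_join₀ yA24_pU21a yA24_pU21b)

/-- The bounds with the other bound of `p`. -/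
def yA24_envU : ({ yA24 with pU := yA24PU } : Piece).Env ⟨⟨0, 1, 1⟩, ⟨980, 981, 1470⟩, ⟨0, 75, 10000⟩, ⟨2776, 2886, 1000⟩⟩ :=
  yA24_env.withU yA24PU (Bool.forall_bool.2 ⟨yA24_pU20, yA24_pU21⟩) ⟨.inr rfl, .inr rfl⟩

def yA24Q_p0 : PosD ⟨⟨0, 1, 1⟩, ⟨980, 981, 1470⟩, ⟨0, 75, 10000⟩, ⟨2776, 2886, 1000⟩⟩ (yA24Q.hP0) :=
  posD_of_check0 (c := ⟨40, ⟨0, 1, 1, 1⟩⟩) (by decide +kernel)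

def yA24Q_gn : PosD ⟨⟨0, 1, 1⟩, ⟨980, 981, 1470⟩, ⟨0, 75, 10000⟩, ⟨2776, 2886, 1000⟩⟩ (yA24Q.hGn) :=
  posD_of_check0 (c := ⟨61, ⟨1, 1, 2, 1⟩⟩) (by decide +kernel)

def yA24Q_den0 : PosD ⟨⟨0, 1, 1⟩, ⟨980, 981, 1470⟩, ⟨0, 75, 10000⟩, ⟨2776, 2886, 1000⟩⟩ (yA24Q.hDen false) :=
  posD_of_check0 (c := ⟨45, ⟨0, 0, 2, 0⟩⟩) (by decide +kernel)

def yA24Q_ev0 : PosD ⟨⟨0, 1, 1⟩, ⟨980, 981, 1470⟩, ⟨0, 75, 10000⟩, ⟨2776, 2886, 1000⟩⟩ (yA24Q.hEv false) :=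
  posD_of_check0 (c := ⟨153, ⟨2, 2, 6, 1⟩⟩) (by decide +kernel)

def yA24Q_zL0 : PosD ⟨⟨0, 1, 1⟩, ⟨980, 981, 1470⟩, ⟨0, 75, 10000⟩, ⟨2776, 2886, 1000⟩⟩ (yA24Q.hZL false) :=
  posD_of_check0 (c := ⟨158, ⟨2, 3, 6, 2⟩⟩) (by decide +kernel)

def yA24Q_zU0 : PosD ⟨⟨0, 1, 1⟩, ⟨980, 981, 1470⟩, ⟨0, 75, 10000⟩, ⟨2776, 2886, 1000⟩⟩ (yA24Q.hZU false) :=
  posD_of_check0 (c := ⟨149, ⟨2, 2, 6, 1⟩⟩) (by decide +kernel)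

def yA24Q_eL0 : PosD ⟨⟨0, 1, 1⟩, ⟨980, 981, 1470⟩, ⟨0, 75, 10000⟩, ⟨2776, 2886, 1000⟩⟩ (yA24Q.hEL false) :=
  posD_of_check0 (c := ⟨239, ⟨3, 6, 8, 2⟩⟩) (by decide +kernel)

def yA24Q_eH0 : PosD ⟨⟨0, 1, 1⟩, ⟨980, 981, 1470⟩, ⟨0, 75, 10000⟩, ⟨2776, 2886, 1000⟩⟩ (yA24Q.hEH false) :=
  posD_of_check0 (c := ⟨231, ⟨3, 5, 8, 2⟩⟩) (by decide +kernel)

def yA24Q_pL0 : PosD ⟨⟨0, 1, 1⟩, ⟨980, 981, 1470⟩, ⟨0, 75, 10000⟩, ⟨2776, 2886, 1000⟩⟩ (yA24Q.hPL false) :=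
  posD_of_check0 (c := ⟨262, ⟨3, 5, 9, 3⟩⟩) (by decide +kernel)

def yA24Q_pU0 : PosD ⟨⟨0, 1, 1⟩, ⟨980, 981, 1470⟩, ⟨0, 75, 10000⟩, ⟨2776, 2886, 1000⟩⟩ (yA24Q.hPU false) :=
  posD_of_check0 (c := ⟨261, ⟨3, 5, 9, 2⟩⟩) (by decide +kernel)

def yA24Q_kU0 : PosD ⟨⟨0, 1, 1⟩, ⟨980, 981, 1470⟩, ⟨0, 75, 10000⟩, ⟨2776, 2886, 1000⟩⟩ (yA24Q.hKU false) :=
  posD_of_check0 (c := ⟨257, ⟨3, 5, 9, 3⟩⟩) (by decide +kernel)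

def yA24Q_kL0 : PosD ⟨⟨0, 1, 1⟩, ⟨980, 981, 1470⟩, ⟨0, 75, 10000⟩, ⟨2776, 2886, 1000⟩⟩ (yA24Q.hKL false) :=
  posD_of_check0 (c := ⟨257, ⟨3, 5, 9, 3⟩⟩) (by decide +kernel)

def yA24Q_wU0 : PosD ⟨⟨0, 1, 1⟩, ⟨980, 981, 1470⟩, ⟨0, 75, 10000⟩, ⟨2776, 2886, 1000⟩⟩ (yA24Q.hWU false) :=
  posD_of_check0 (c := ⟨296, ⟨3, 7, 10, 3⟩⟩) (by decide +kernel)

def yA24Q_wL0 : PosD ⟨⟨0, 1, 1⟩, ⟨980, 981, 1470⟩, ⟨0, 75, 10000⟩, ⟨2776, 2886, 1000⟩⟩ (yA24Q.hWL false) :=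
  posD_of_check0 (c := ⟨296, ⟨3, 7, 10, 3⟩⟩) (by decide +kernel)

def yA24Q_den1 : PosD ⟨⟨0, 1, 1⟩, ⟨980, 981, 1470⟩, ⟨0, 75, 10000⟩, ⟨2776, 2886, 1000⟩⟩ (yA24Q.hDen true) :=
  posD_of_check0 (c := ⟨23, ⟨1, 0, 1, 0⟩⟩) (by decide +kernel)

def yA24Q_ev1 : PosD ⟨⟨0, 1, 1⟩, ⟨980, 981, 1470⟩, ⟨0, 75, 10000⟩, ⟨2776, 2886, 1000⟩⟩ (yA24Q.hEv true) :=
  posD_of_check0 (c := ⟨125, ⟨2, 2, 6, 1⟩⟩) (by decide +kernel)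

def yA24Q_zL1 : PosD ⟨⟨0, 1, 1⟩, ⟨980, 981, 1470⟩, ⟨0, 75, 10000⟩, ⟨2776, 2886, 1000⟩⟩ (yA24Q.hZL true) :=
  posD_of_check0 (c := ⟨130, ⟨2, 3, 6, 2⟩⟩) (by decide +kernel)

def yA24Q_zU1 : PosD ⟨⟨0, 1, 1⟩, ⟨980, 981, 1470⟩, ⟨0, 75, 10000⟩, ⟨2776, 2886, 1000⟩⟩ (yA24Q.hZU true) :=
  posD_of_check0 (c := ⟨121, ⟨2, 2, 6, 1⟩⟩) (by decide +kernel)

def yA24Q_eL1 : PosD ⟨⟨0, 1, 1⟩, ⟨980, 981, 1470⟩, ⟨0, 75, 10000⟩, ⟨2776, 2886, 1000⟩⟩ (yA24Q.hEL true) :=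
  posD_of_check0 (c := ⟨211, ⟨3, 6, 8, 2⟩⟩) (by decide +kernel)

def yA24Q_eH1 : PosD ⟨⟨0, 1, 1⟩, ⟨980, 981, 1470⟩, ⟨0, 75, 10000⟩, ⟨2776, 2886, 1000⟩⟩ (yA24Q.hEH true) :=
  posD_of_check0 (c := ⟨203, ⟨3, 5, 8, 2⟩⟩) (by decide +kernel)

def yA24Q_pL1 : PosD ⟨⟨0, 1, 1⟩, ⟨980, 981, 1470⟩, ⟨0, 75, 10000⟩, ⟨2776, 2886, 1000⟩⟩ (yA24Q.hPL true) :=
  posD_of_check0 (c := ⟨234, ⟨3, 5, 9, 3⟩⟩) (by decide +kernel)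

def yA24Q_pU1 : PosD ⟨⟨0, 1, 1⟩, ⟨980, 981, 1470⟩, ⟨0, 75, 10000⟩, ⟨2776, 2886, 1000⟩⟩ (yA24Q.hPU true) :=
  posD_of_check0 (c := ⟨233, ⟨3, 5, 9, 2⟩⟩) (by decide +kernel)

def yA24Q_kU1 : PosD ⟨⟨0, 1, 1⟩, ⟨980, 981, 1470⟩, ⟨0, 75, 10000⟩, ⟨2776, 2886, 1000⟩⟩ (yA24Q.hKU true) :=
  posD_of_check0 (c := ⟨229, ⟨3, 5, 9, 3⟩⟩) (by decide +kernel)

def yA24Q_kL1 : PosD ⟨⟨0, 1, 1⟩, ⟨980, 981, 1470⟩, ⟨0, 75, 10000⟩, ⟨2776, 2886, 1000⟩⟩ (yA24Q.hKL true) :=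
  posD_of_check0 (c := ⟨229, ⟨3, 5, 9, 3⟩⟩) (by decide +kernel)

def yA24Q_wU1 : PosD ⟨⟨0, 1, 1⟩, ⟨980, 981, 1470⟩, ⟨0, 75, 10000⟩, ⟨2776, 2886, 1000⟩⟩ (yA24Q.hWU true) :=
  posD_of_check0 (c := ⟨267, ⟨3, 7, 10, 3⟩⟩) (by decide +kernel)

def yA24Q_wL1 : PosD ⟨⟨0, 1, 1⟩, ⟨980, 981, 1470⟩, ⟨0, 75, 10000⟩, ⟨2776, 2886, 1000⟩⟩ (yA24Q.hWL true) :=
  posD_of_check0 (c := ⟨267, ⟨3, 7, 10, 3⟩⟩) (by decide +kernel)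

def yA24Q_nupU : PosD ⟨⟨0, 1, 1⟩, ⟨980, 981, 1470⟩, ⟨0, 75, 10000⟩, ⟨2776, 2886, 1000⟩⟩ (yA24Q.pU.ν) :=
  posD_of_check0 (c := ⟨15, ⟨0, 0, 0, 0⟩⟩) (by decide +kernel)

/-- The bounds of the piece. -/
def yA24Q_env : yA24Q.Env ⟨⟨0, 1, 1⟩, ⟨980, 981, 1470⟩, ⟨0, 75, 10000⟩, ⟨2776, 2886, 1000⟩⟩ :=
  ⟨yA24Q_p0, Bool.forall_bool.2 ⟨yA24Q_den0, yA24Q_den1⟩, yA24Q_gn, Bool.forall_bool.2 ⟨yA24Q_ev0, yA24Q_ev1⟩, Bool.forall_bool.2 ⟨yA24Q_zL0, yA24Q_zL1⟩, Bool.forall_bool.2 ⟨yA24Q_zU0, yA24Q_zU1⟩, Bool.forall_bool.2 ⟨yA24Q_eL0, yA24Q_eL1⟩, ⟨.inr rfl, .inr rfl⟩, Bool.forall_bool.2 ⟨yA24Q_eH0, yA24Q_eH1⟩, ⟨.inr rfl, .inr rfl⟩, Bool.forall_bool.2 ⟨yA24Q_pL0, yA24Q_pL1⟩, ⟨.inr rfl, .inr rfl⟩, Bool.forall_bool.2 ⟨yA24Q_pU0,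 yA24Q_pU1⟩, ⟨.inr rfl, .inl yA24Q_nupU⟩, Bool.forall_bool.2 ⟨yA24Q_kU0, yA24Q_kU1⟩, ⟨.inr rfl, .inr rfl⟩, Bool.forall_bool.2 ⟨yA24Q_kL0, yA24Q_kL1⟩, ⟨.inr rfl, .inr rfl⟩, Bool.forall_bool.2 ⟨yA24Q_wU0, yA24Q_wU1⟩, ⟨.inr rfl, .inr rfl⟩, Bool.forall_bool.2 ⟨yA24Q_wL0, yA24Q_wL1⟩, ⟨.inr rfl, .inr rfl⟩⟩

def yA24A_pp : PosD ⟨⟨0, 1, 1⟩, ⟨980, 981, 1470⟩, ⟨0, 75, 10000⟩, ⟨2776, 2886, 1000⟩⟩ (yA24A.xPL) :=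
  posD_of_check0 (c := ⟨90, ⟨1, 1, 3, 3⟩⟩) (by decide +kernel)

def yA24A_k2p : PosD ⟨⟨0, 1, 1⟩, ⟨980, 981, 1470⟩, ⟨0, 75, 10000⟩, ⟨2776, 2886, 1000⟩⟩ (yA24A.k2p yA24A.xE) :=
  posD_of_check0 (c := ⟨20, ⟨0, 0, 1, 0⟩⟩) (by decide +kernel)

def yA24A_k2m : PosD ⟨⟨0, 1, 1⟩, ⟨980, 981, 1470⟩, ⟨0, 75, 10000⟩, ⟨2776, 2886, 1000⟩⟩ (yA24A.k2m yA24A.xE) :=
  posD_of_check0 (c := ⟨20, ⟨0, 0, 1, 0⟩⟩) (by decide +kernel)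

def yA24A_v2p : PosD ⟨⟨0, 1, 1⟩, ⟨980, 981, 1470⟩, ⟨0, 75, 10000⟩, ⟨2776, 2886, 1000⟩⟩ (yA24A.hV2p) :=
  posD_of_check0 (c := ⟨223, ⟨0, 5, 10, 4⟩⟩) (by decide +kernel)

def yA24A_v2m : PosD ⟨⟨0, 1, 1⟩, ⟨980, 981, 1470⟩, ⟨0, 75, 10000⟩, ⟨2776, 2886, 1000⟩⟩ (yA24A.hV2m) :=
  posD_of_check0 (c := ⟨223, ⟨0, 5, 10, 4⟩⟩) (by decide +kernel)

def yA24A_v3p : PosD ⟨⟨0, 1, 1⟩, ⟨980, 981, 1470⟩, ⟨0, 75, 10000⟩, ⟨2776, 2886, 1000⟩⟩ (yA24A.hV3p) :=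
  posD_of_check0 (c := ⟨220, ⟨0, 5, 9, 4⟩⟩) (by decide +kernel)

def yA24A_v3m : PosD ⟨⟨0, 1, 1⟩, ⟨980, 981, 1470⟩, ⟨0, 75, 10000⟩, ⟨2776, 2886, 1000⟩⟩ (yA24A.hV3m) :=
  posD_of_check0 (c := ⟨220, ⟨0, 5, 9, 4⟩⟩) (by decide +kernel)

def yA24A_kap0 : PosD ⟨⟨0, 1, 1⟩, ⟨980, 981, 1470⟩, ⟨0, 75, 10000⟩, ⟨2776, 2886, 1000⟩⟩ (yA24A.kap false) :=
  posD_of_check0 (c := ⟨68, ⟨1, 1, 2, 2⟩⟩) (by decide +kernel)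

def yA24A_c10a : PosD ⟨⟨0, 1, 2⟩, ⟨980, 981, 1470⟩, ⟨0, 75, 10000⟩, ⟨2776, 2886, 1000⟩⟩ (yA24A.hC1 false) :=
  posD_of_check0 (c := ⟨262, ⟨3, 5, 9, 7⟩⟩) (by decide +kernel)

def yA24A_c10b : PosD ⟨⟨1, 2, 2⟩, ⟨980, 981, 1470⟩, ⟨0, 75, 10000⟩, ⟨2776, 2886, 1000⟩⟩ (yA24A.hC1 false) :=
  posD_of_check0 (c := ⟨264, ⟨3, 5, 9, 7⟩⟩) (by decide +kernel)

def yA24A_c10 : PosD ⟨⟨0, 1, 1⟩, ⟨980, 981, 1470⟩, ⟨0, 75, 10000⟩, ⟨2776, 2886, 1000⟩⟩ (yA24A.hC1 false) :=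
  posD_units (b := ⟨⟨0, 2, 2⟩, ⟨980, 981, 1470⟩, ⟨0, 75, 10000⟩, ⟨2776, 2886, 1000⟩⟩) (by decide +kernel) (posD_join₀ yA24A_c10a yA24A_c10b)

def yA24A_neg0 : PosD ⟨⟨0, 1, 1⟩, ⟨980, 981, 1470⟩, ⟨0, 75, 10000⟩, ⟨2776, 2886, 1000⟩⟩ (yA24A.hNeg (yA24A.pEnd false)) :=
  posD_of_check0 (c := ⟨257, ⟨2, 5, 9, 7⟩⟩) (by decide +kernel)

def yA24A_neglo0 : PosD ⟨⟨0, 1, 1⟩, ⟨980, 981, 1470⟩, ⟨0, 75, 10000⟩, ⟨2776, 2886, 1000⟩⟩ (yA24A.hNegLo (yA24A.pEnd false)) :=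
  posD_of_check0 (c := ⟨257, ⟨2, 5, 9, 7⟩⟩) (by decide +kernel)

def yA24A_tg00 : PosD ⟨⟨0, 1, 1⟩, ⟨980, 981, 1470⟩, ⟨0, 75, 10000⟩, ⟨2776, 2886, 1000⟩⟩ (yA24A.hG false (yA24A.pEnd false)) :=
  posD_of_check0 (c := ⟨369, ⟨2, 7, 14, 9⟩⟩) (by decide +kernel)

def yA24A_c2p00 : PosD ⟨⟨0, 1, 1⟩, ⟨980, 981, 1470⟩, ⟨0, 75, 10000⟩, ⟨2776, 2886, 1000⟩⟩ (yA24A.hC2p false (yA24A.pEnd false)) :=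
  posD_of_check0 (c := ⟨400, ⟨2, 7, 16, 10⟩⟩) (by decide +kernel)

def yA24A_c2m00 : PosD ⟨⟨0, 1, 1⟩, ⟨980, 981, 1470⟩, ⟨0, 75, 10000⟩, ⟨2776, 2886, 1000⟩⟩ (yA24A.hC2m false (yA24A.pEnd false)) :=
  posD_of_check0 (c := ⟨400, ⟨2, 7, 16, 10⟩⟩) (by decide +kernel)

def yA24A_c3p00 : PosD ⟨⟨0, 1, 1⟩, ⟨980, 981, 1470⟩, ⟨0, 75, 10000⟩, ⟨2776, 2886, 1000⟩⟩ (yA24A.hC3p false false) :=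
  posD_of_check0 (c := ⟨402, ⟨3, 7, 15, 10⟩⟩) (by decide +kernel)

def yA24A_c3m00 : PosD ⟨⟨0, 1, 1⟩, ⟨980, 981, 1470⟩, ⟨0, 75, 10000⟩, ⟨2776, 2886, 1000⟩⟩ (yA24A.hC3m false false) :=
  posD_of_check0 (c := ⟨402, ⟨3, 7, 15, 10⟩⟩) (by decide +kernel)

def yA24A_tmg00 : PosD ⟨⟨0, 1, 1⟩, ⟨980, 981, 1470⟩, ⟨0, 75, 10000⟩, ⟨2776, 2886, 1000⟩⟩ (yA24A.hTMG false (yA24A.pEnd false)) :=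
  posD_of_check0 (c := ⟨384, ⟨2, 7, 14, 10⟩⟩) (by decide +kernel)

def yA24A_tg01 : PosD ⟨⟨0, 1, 1⟩, ⟨980, 981, 1470⟩, ⟨0, 75, 10000⟩, ⟨2776, 2886, 1000⟩⟩ (yA24A.hG true (yA24A.pEnd false)) :=
  posD_of_check0 (c := ⟨369, ⟨2, 7, 14, 9⟩⟩) (by decide +kernel)

def yA24A_c2p01 : PosD ⟨⟨0, 1, 1⟩, ⟨980, 981, 1470⟩, ⟨0, 75, 10000⟩, ⟨2776, 2886, 1000⟩⟩ (yA24A.hC2p true (yA24A.pEnd false)) :=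
  posD_of_check0 (c := ⟨400, ⟨2, 7, 16, 10⟩⟩) (by decide +kernel)

def yA24A_c2m01 : PosD ⟨⟨0, 1, 1⟩, ⟨980, 981, 1470⟩, ⟨0, 75, 10000⟩, ⟨2776, 2886, 1000⟩⟩ (yA24A.hC2m true (yA24A.pEnd false)) :=
  posD_of_check0 (c := ⟨400, ⟨2, 7, 16, 10⟩⟩) (by decide +kernel)

def yA24A_c3p01 : PosD ⟨⟨0, 1, 1⟩, ⟨980, 981, 1470⟩, ⟨0, 75, 10000⟩, ⟨2776, 2886, 1000⟩⟩ (yA24A.hC3p false true) :=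
  posD_of_check0 (c := ⟨402, ⟨3, 7, 15, 10⟩⟩) (by decide +kernel)

def yA24A_c3m01 : PosD ⟨⟨0, 1, 1⟩, ⟨980, 981, 1470⟩, ⟨0, 75, 10000⟩, ⟨2776, 2886, 1000⟩⟩ (yA24A.hC3m false true) :=
  posD_of_check0 (c := ⟨402, ⟨3, 7, 15, 10⟩⟩) (by decide +kernel)

def yA24A_tmg01 : PosD ⟨⟨0, 1, 1⟩, ⟨980, 981, 1470⟩, ⟨0, 75, 10000⟩, ⟨2776, 2886, 1000⟩⟩ (yA24A.hTMG true (yA24A.pEnd false)) :=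
  posD_of_check0 (c := ⟨384, ⟨2, 7, 14, 10⟩⟩) (by decide +kernel)

def yA24A_kap1 : PosD ⟨⟨0, 1, 1⟩, ⟨980, 981, 1470⟩, ⟨0, 75, 10000⟩, ⟨2776, 2886, 1000⟩⟩ (yA24A.kap true) :=
  posD_of_check0 (c := ⟨69, ⟨1, 1, 2, 2⟩⟩) (by decide +kernel)

def yA24A_c11 : PosD ⟨⟨0, 1, 1⟩, ⟨980, 981, 1470⟩, ⟨0, 75, 10000⟩, ⟨2776, 2886, 1000⟩⟩ (yA24A.hC1 true) :=
  posD_of_check0 (c := ⟨262, ⟨3, 5, 9, 7⟩⟩) (by decide +kernel)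

def yA24A_neg1 : PosD ⟨⟨0, 1, 1⟩, ⟨980, 981, 1470⟩, ⟨0, 75, 10000⟩, ⟨2776, 2886, 1000⟩⟩ (yA24A.hNeg (yA24A.pEnd true)) :=
  posD_of_check0 (c := ⟨256, ⟨2, 5, 9, 7⟩⟩) (by decide +kernel)

def yA24A_neglo1 : PosD ⟨⟨0, 1, 1⟩, ⟨980, 981, 1470⟩, ⟨0, 75, 10000⟩, ⟨2776, 2886, 1000⟩⟩ (yA24A.hNegLo (yA24A.pEnd true)) :=
  posD_of_check0 (c := ⟨256, ⟨2, 5, 9, 7⟩⟩) (by decide +kernel)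

def yA24A_tg10 : PosD ⟨⟨0, 1, 1⟩, ⟨980, 981, 1470⟩, ⟨0, 75, 10000⟩, ⟨2776, 2886, 1000⟩⟩ (yA24A.hG false (yA24A.pEnd true)) :=
  posD_of_check0 (c := ⟨368, ⟨2, 7, 14, 9⟩⟩) (by decide +kernel)

def yA24A_c2p10 : PosD ⟨⟨0, 1, 1⟩, ⟨980, 981, 1470⟩, ⟨0, 75, 10000⟩, ⟨2776, 2886, 1000⟩⟩ (yA24A.hC2p false (yA24A.pEnd true)) :=
  posD_of_check0 (c := ⟨399, ⟨2, 7, 16, 10⟩⟩) (by decide +kernel)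

def yA24A_c2m10 : PosD ⟨⟨0, 1, 1⟩, ⟨980, 981, 1470⟩, ⟨0, 75, 10000⟩, ⟨2776, 2886, 1000⟩⟩ (yA24A.hC2m false (yA24A.pEnd true)) :=
  posD_of_check0 (c := ⟨399, ⟨2, 7, 16, 10⟩⟩) (by decide +kernel)

def yA24A_c3p10 : PosD ⟨⟨0, 1, 1⟩, ⟨980, 981, 1470⟩, ⟨0, 75, 10000⟩, ⟨2776, 2886, 1000⟩⟩ (yA24A.hC3p true false) :=
  posD_of_check0 (c := ⟨402, ⟨3, 7, 15, 10⟩⟩) (by decide +kernel)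

def yA24A_c3m10 : PosD ⟨⟨0, 1, 1⟩, ⟨980, 981, 1470⟩, ⟨0, 75, 10000⟩, ⟨2776, 2886, 1000⟩⟩ (yA24A.hC3m true false) :=
  posD_of_check0 (c := ⟨402, ⟨3, 7, 15, 10⟩⟩) (by decide +kernel)

def yA24A_tmg10 : PosD ⟨⟨0, 1, 1⟩, ⟨980, 981, 1470⟩, ⟨0, 75, 10000⟩, ⟨2776, 2886, 1000⟩⟩ (yA24A.hTMG false (yA24A.pEnd true)) :=
  posD_of_check0 (c := ⟨384, ⟨2, 7, 14, 10⟩⟩) (by decide +kernel)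

def yA24A_tg11 : PosD ⟨⟨0, 1, 1⟩, ⟨980, 981, 1470⟩, ⟨0, 75, 10000⟩, ⟨2776, 2886, 1000⟩⟩ (yA24A.hG true (yA24A.pEnd true)) :=
  posD_of_check0 (c := ⟨368, ⟨2, 7, 14, 9⟩⟩) (by decide +kernel)

def yA24A_c2p11 : PosD ⟨⟨0, 1, 1⟩, ⟨980, 981, 1470⟩, ⟨0, 75, 10000⟩, ⟨2776, 2886, 1000⟩⟩ (yA24A.hC2p true (yA24A.pEnd true)) :=
  posD_of_check0 (c := ⟨399, ⟨2, 7, 16, 10⟩⟩) (by decide +kernel)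

def yA24A_c2m11 : PosD ⟨⟨0, 1, 1⟩, ⟨980, 981, 1470⟩, ⟨0, 75, 10000⟩, ⟨2776, 2886, 1000⟩⟩ (yA24A.hC2m true (yA24A.pEnd true)) :=
  posD_of_check0 (c := ⟨399, ⟨2, 7, 16, 10⟩⟩) (by decide +kernel)

def yA24A_c3p11 : PosD ⟨⟨0, 1, 1⟩, ⟨980, 981, 1470⟩, ⟨0, 75, 10000⟩, ⟨2776, 2886, 1000⟩⟩ (yA24A.hC3p true true) :=
  posD_of_check0 (c := ⟨402, ⟨3, 7, 15, 10⟩⟩) (by decide +kernel)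

def yA24A_c3m11 : PosD ⟨⟨0, 1, 1⟩, ⟨980, 981, 1470⟩, ⟨0, 75, 10000⟩, ⟨2776, 2886, 1000⟩⟩ (yA24A.hC3m true true) :=
  posD_of_check0 (c := ⟨402, ⟨3, 7, 15, 10⟩⟩) (by decide +kernel)

def yA24A_tmg11 : PosD ⟨⟨0, 1, 1⟩, ⟨980, 981, 1470⟩, ⟨0, 75, 10000⟩, ⟨2776, 2886, 1000⟩⟩ (yA24A.hTMG true (yA24A.pEnd true)) :=
  posD_of_check0 (c := ⟨384, ⟨2, 7, 14, 10⟩⟩) (by decide +kernel)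

/-- The signs of the piece. -/
def yA24A_sign : yA24A.Sign ⟨⟨0, 1, 1⟩, ⟨980, 981, 1470⟩, ⟨0, 75, 10000⟩, ⟨2776, 2886, 1000⟩⟩ :=
  ⟨yA24A_pp,
    yA24A_k2p,
    yA24A_k2m,
    Bool.forall_bool.2 ⟨(Bool.forall_bool.2 ⟨yA24A_tg00, yA24A_tg01⟩), (Bool.forall_bool.2 ⟨yA24A_tg10, yA24A_tg11⟩)⟩,
    Bool.forall_bool.2 ⟨(Bool.forall_bool.2 ⟨yA24A_c2p00, yA24A_c2p01⟩), (Bool.forall_bool.2 ⟨yA24A_c2p10, yA24A_c2p11⟩)⟩,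
    Bool.forall_bool.2 ⟨(Bool.forall_bool.2 ⟨yA24A_c2m00, yA24A_c2m01⟩), (Bool.forall_bool.2 ⟨yA24A_c2m10, yA24A_c2m11⟩)⟩,
    Bool.forall_bool.2 ⟨yA24A_kap0, yA24A_kap1⟩,
    Bool.forall_bool.2 ⟨yA24A_c10, yA24A_c11⟩,
    Bool.forall_bool.2 ⟨(Bool.forall_bool.2 ⟨yA24A_c3p00, yA24A_c3p01⟩), (Bool.forall_bool.2 ⟨yA24A_c3p10, yA24A_c3p11⟩)⟩,
    Bool.forall_bool.2 ⟨(Bool.forall_bool.2 ⟨yA24A_c3m00, yA24A_c3m01⟩), (Bool.forall_bool.2 ⟨yA24A_c3m10, yA24A_c3m11⟩)⟩,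
    Bool.forall_bool.2 ⟨(Bool.forall_bool.2 ⟨yA24A_tmg00, yA24A_tmg01⟩), (Bool.forall_bool.2 ⟨yA24A_tmg10, yA24A_tmg11⟩)⟩,
    .inl (Bool.forall_bool.2 ⟨⟨yA24A_neg0, yA24A_neglo0⟩, ⟨yA24A_neg1, yA24A_neglo1⟩⟩),
    yA24A_v2p,
    yA24A_v2m,
    yA24A_v3p,
    yA24A_v3m,
    posD_sub (b := ⟨⟨0, 1, 1⟩, ⟨98, 99, 147⟩, ⟨0, 301, 10000⟩, ⟨1060, 4000, 1000⟩⟩) (by decide +kernel) yA_vG,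
    posD_sub (b := ⟨⟨0, 1, 1⟩, ⟨98, 99, 147⟩, ⟨0, 301, 10000⟩, ⟨1060, 4000, 1000⟩⟩) (by decide +kernel) yA_vMG,
    posD_sub (b := ⟨⟨0, 1, 1⟩, ⟨98, 99, 147⟩, ⟨0, 301, 10000⟩, ⟨1060, 4000, 1000⟩⟩) (by decide +kernel) yA_ak,
    posD_sub (b := ⟨⟨0, 1, 1⟩, ⟨98, 99, 147⟩, ⟨0, 301, 10000⟩, ⟨1060, 4000, 1000⟩⟩) (by decide +kernel) yA_aw,
    posD_sub (b := ⟨⟨0, 1, 1⟩, ⟨98, 99, 147⟩, ⟨0, 301, 10000⟩, ⟨1060, 4000, 1000⟩⟩) (by decide +kernel) yA_gk,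
    posD_sub (b := ⟨⟨0, 1, 1⟩, ⟨98, 99, 147⟩, ⟨0, 301, 10000⟩, ⟨1060, 4000, 1000⟩⟩) (by decide +kernel) yA_gw,
    posD_sub (b := ⟨⟨0, 1, 1⟩, ⟨98, 99, 147⟩, ⟨0, 301, 10000⟩, ⟨1060, 4000, 1000⟩⟩) (by decide +kernel) yA_ek,
    posD_sub (b := ⟨⟨0, 1, 1⟩, ⟨98, 99, 147⟩, ⟨0, 301, 10000⟩, ⟨1060, 4000, 1000⟩⟩) (by decide +kernel) yA_ew⟩

def yA24B_pp : PosD ⟨⟨0, 1, 1⟩, ⟨980, 981, 1470⟩, ⟨0, 75, 10000⟩, ⟨2776, 2886, 1000⟩⟩ (yA24B.xPL) :=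
  posD_of_check0 (c := ⟨90, ⟨1, 1, 3, 3⟩⟩) (by decide +kernel)

def yA24B_k2p : PosD ⟨⟨0, 1, 1⟩, ⟨980, 981, 1470⟩, ⟨0, 75, 10000⟩, ⟨2776, 2886, 1000⟩⟩ (yA24B.k2p yA24B.xE) :=
  posD_of_check0 (c := ⟨20, ⟨0, 0, 1, 0⟩⟩) (by decide +kernel)

def yA24B_k2m : PosD ⟨⟨0, 1, 1⟩, ⟨980, 981, 1470⟩, ⟨0, 75, 10000⟩, ⟨2776, 2886, 1000⟩⟩ (yA24B.k2m yA24B.xE) :=
  posD_of_check0 (c := ⟨20, ⟨0, 0, 1, 0⟩⟩) (by decide +kernel)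

def yA24B_v2p : PosD ⟨⟨0, 1, 1⟩, ⟨980, 981, 1470⟩, ⟨0, 75, 10000⟩, ⟨2776, 2886, 1000⟩⟩ (yA24B.hV2p) :=
  posD_of_check0 (c := ⟨223, ⟨0, 5, 10, 4⟩⟩) (by decide +kernel)

def yA24B_v2m : PosD ⟨⟨0, 1, 1⟩, ⟨980, 981, 1470⟩, ⟨0, 75, 10000⟩, ⟨2776, 2886, 1000⟩⟩ (yA24B.hV2m) :=
  posD_of_check0 (c := ⟨223, ⟨0, 5, 10, 4⟩⟩) (by decide +kernel)

def yA24B_v3p : PosD ⟨⟨0, 1, 1⟩, ⟨980, 981, 1470⟩, ⟨0, 75, 10000⟩, ⟨2776, 2886, 1000⟩⟩ (yA24B.hV3p) :=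
  posD_of_check0 (c := ⟨220, ⟨0, 5, 9, 4⟩⟩) (by decide +kernel)

def yA24B_v3m : PosD ⟨⟨0, 1, 1⟩, ⟨980, 981, 1470⟩, ⟨0, 75, 10000⟩, ⟨2776, 2886, 1000⟩⟩ (yA24B.hV3m) :=
  posD_of_check0 (c := ⟨220, ⟨0, 5, 9, 4⟩⟩) (by decide +kernel)

def yA24B_kap0 : PosD ⟨⟨0, 1, 1⟩, ⟨980, 981, 1470⟩, ⟨0, 75, 10000⟩, ⟨2776, 2886, 1000⟩⟩ (yA24B.kap false) :=
  posD_of_check0 (c := ⟨71, ⟨1, 1, 2, 2⟩⟩) (by decide +kernel)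

def yA24B_c10 : PosD ⟨⟨0, 1, 1⟩, ⟨980, 981, 1470⟩, ⟨0, 75, 10000⟩, ⟨2776, 2886, 1000⟩⟩ (yA24B.hC1 false) :=
  posD_of_check0 (c := ⟨264, ⟨3, 5, 9, 7⟩⟩) (by decide +kernel)

def yA24B_c1h0 : PosD ⟨⟨0, 1, 1⟩, ⟨980, 981, 1470⟩, ⟨0, 75, 10000⟩, ⟨2776, 2886, 1000⟩⟩ (yA24B.hC1' false) :=
  posD_of_check0 (c := ⟨264, ⟨3, 5, 9, 7⟩⟩) (by decide +kernel)

def yA24B_tg00 : PosD ⟨⟨0, 1, 1⟩, ⟨980, 981, 1470⟩, ⟨0, 75, 10000⟩, ⟨2776, 2886, 1000⟩⟩ (yA24B.hG false (yA24B.pEnd false)) :=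
  posD_of_check0 (c := ⟨369, ⟨2, 7, 14, 9⟩⟩) (by decide +kernel)

def yA24B_c2p00 : PosD ⟨⟨0, 1, 1⟩, ⟨980, 981, 1470⟩, ⟨0, 75, 10000⟩, ⟨2776, 2886, 1000⟩⟩ (yA24B.hC2p false (yA24B.pEnd false)) :=
  posD_of_check0 (c := ⟨399, ⟨2, 7, 16, 10⟩⟩) (by decide +kernel)

def yA24B_c2m00 : PosD ⟨⟨0, 1, 1⟩, ⟨980, 981, 1470⟩, ⟨0, 75, 10000⟩, ⟨2776, 2886, 1000⟩⟩ (yA24B.hC2m false (yA24B.pEnd false)) :=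
  posD_of_check0 (c := ⟨399, ⟨2, 7, 16, 10⟩⟩) (by decide +kernel)

def yA24B_c3p00 : PosD ⟨⟨0, 1, 1⟩, ⟨980, 981, 1470⟩, ⟨0, 75, 10000⟩, ⟨2776, 2886, 1000⟩⟩ (yA24B.hC3p false false) :=
  posD_of_check0 (c := ⟨404, ⟨3, 7, 15, 10⟩⟩) (by decide +kernel)

def yA24B_c3m00 : PosD ⟨⟨0, 1, 1⟩, ⟨980, 981, 1470⟩, ⟨0, 75, 10000⟩, ⟨2776, 2886, 1000⟩⟩ (yA24B.hC3m false false) :=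
  posD_of_check0 (c := ⟨404, ⟨3, 7, 15, 10⟩⟩) (by decide +kernel)

def yA24B_c3ph00 : PosD ⟨⟨0, 1, 1⟩, ⟨980, 981, 1470⟩, ⟨0, 75, 10000⟩, ⟨2776, 2886, 1000⟩⟩ (yA24B.hC3p' false false) :=
  posD_of_check0 (c := ⟨404, ⟨3, 7, 15, 10⟩⟩) (by decide +kernel)

def yA24B_c3mh00 : PosD ⟨⟨0, 1, 1⟩, ⟨980, 981, 1470⟩, ⟨0, 75, 10000⟩, ⟨2776, 2886, 1000⟩⟩ (yA24B.hC3m' false false) :=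
  posD_of_check0 (c := ⟨404, ⟨3, 7, 15, 10⟩⟩) (by decide +kernel)

def yA24B_up00 : PosD ⟨⟨0, 1, 1⟩, ⟨980, 981, 1470⟩, ⟨0, 75, 10000⟩, ⟨2776, 2886, 1000⟩⟩ (yA24B.hUp false false) :=
  posD_of_check0 (c := ⟨399, ⟨2, 7, 15, 10⟩⟩) (by decide +kernel)

def yA24B_um00 : PosD ⟨⟨0, 1, 1⟩, ⟨980, 981, 1470⟩, ⟨0, 75, 10000⟩, ⟨2776, 2886, 1000⟩⟩ (yA24B.hUm false false) :=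
  posD_of_check0 (c := ⟨399, ⟨2, 7, 15, 10⟩⟩) (by decide +kernel)

def yA24B_tmg00 : PosD ⟨⟨0, 1, 1⟩, ⟨980, 981, 1470⟩, ⟨0, 75, 10000⟩, ⟨2776, 2886, 1000⟩⟩ (yA24B.hTMG false (yA24B.pEnd false)) :=
  posD_of_check0 (c := ⟨384, ⟨2, 7, 14, 10⟩⟩) (by decide +kernel)

def yA24B_tg01 : PosD ⟨⟨0, 1, 1⟩, ⟨980, 981, 1470⟩, ⟨0, 75, 10000⟩, ⟨2776, 2886, 1000⟩⟩ (yA24B.hG true (yA24B.pEnd false)) :=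
  posD_of_check0 (c := ⟨369, ⟨2, 7, 14, 9⟩⟩) (by decide +kernel)

def yA24B_c2p01 : PosD ⟨⟨0, 1, 1⟩, ⟨980, 981, 1470⟩, ⟨0, 75, 10000⟩, ⟨2776, 2886, 1000⟩⟩ (yA24B.hC2p true (yA24B.pEnd false)) :=
  posD_of_check0 (c := ⟨399, ⟨2, 7, 16, 10⟩⟩) (by decide +kernel)

def yA24B_c2m01 : PosD ⟨⟨0, 1, 1⟩, ⟨980, 981, 1470⟩, ⟨0, 75, 10000⟩, ⟨2776, 2886, 1000⟩⟩ (yA24B.hC2m true (yA24B.pEnd false)) :=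
  posD_of_check0 (c := ⟨399, ⟨2, 7, 16, 10⟩⟩) (by decide +kernel)

def yA24B_c3p01 : PosD ⟨⟨0, 1, 1⟩, ⟨980, 981, 1470⟩, ⟨0, 75, 10000⟩, ⟨2776, 2886, 1000⟩⟩ (yA24B.hC3p false true) :=
  posD_of_check0 (c := ⟨404, ⟨3, 7, 15, 10⟩⟩) (by decide +kernel)

def yA24B_c3m01 : PosD ⟨⟨0, 1, 1⟩, ⟨980, 981, 1470⟩, ⟨0, 75, 10000⟩, ⟨2776, 2886, 1000⟩⟩ (yA24B.hC3m false true) :=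
  posD_of_check0 (c := ⟨404, ⟨3, 7, 15, 10⟩⟩) (by decide +kernel)

def yA24B_c3ph01 : PosD ⟨⟨0, 1, 1⟩, ⟨980, 981, 1470⟩, ⟨0, 75, 10000⟩, ⟨2776, 2886, 1000⟩⟩ (yA24B.hC3p' false true) :=
  posD_of_check0 (c := ⟨404, ⟨3, 7, 15, 10⟩⟩) (by decide +kernel)

def yA24B_c3mh01 : PosD ⟨⟨0, 1, 1⟩, ⟨980, 981, 1470⟩, ⟨0, 75, 10000⟩, ⟨2776, 2886, 1000⟩⟩ (yA24B.hC3m' false true) :=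
  posD_of_check0 (c := ⟨404, ⟨3, 7, 15, 10⟩⟩) (by decide +kernel)

def yA24B_up01 : PosD ⟨⟨0, 1, 1⟩, ⟨980, 981, 1470⟩, ⟨0, 75, 10000⟩, ⟨2776, 2886, 1000⟩⟩ (yA24B.hUp false true) :=
  posD_of_check0 (c := ⟨399, ⟨2, 7, 15, 10⟩⟩) (by decide +kernel)

def yA24B_um01 : PosD ⟨⟨0, 1, 1⟩, ⟨980, 981, 1470⟩, ⟨0, 75, 10000⟩, ⟨2776, 2886, 1000⟩⟩ (yA24B.hUm false true) :=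
  posD_of_check0 (c := ⟨399, ⟨2, 7, 15, 10⟩⟩) (by decide +kernel)

def yA24B_tmg01 : PosD ⟨⟨0, 1, 1⟩, ⟨980, 981, 1470⟩, ⟨0, 75, 10000⟩, ⟨2776, 2886, 1000⟩⟩ (yA24B.hTMG true (yA24B.pEnd false)) :=
  posD_of_check0 (c := ⟨384, ⟨2, 7, 14, 10⟩⟩) (by decide +kernel)

def yA24B_kap1 : PosD ⟨⟨0, 1, 1⟩, ⟨980, 981, 1470⟩, ⟨0, 75, 10000⟩, ⟨2776, 2886, 1000⟩⟩ (yA24B.kap true) :=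
  posD_of_check0 (c := ⟨69, ⟨1, 1, 2, 2⟩⟩) (by decide +kernel)

def yA24B_c11 : PosD ⟨⟨0, 1, 1⟩, ⟨980, 981, 1470⟩, ⟨0, 75, 10000⟩, ⟨2776, 2886, 1000⟩⟩ (yA24B.hC1 true) :=
  posD_of_check0 (c := ⟨262, ⟨3, 5, 9, 7⟩⟩) (by decide +kernel)

def yA24B_c1h1 : PosD ⟨⟨0, 1, 1⟩, ⟨980, 981, 1470⟩, ⟨0, 75, 10000⟩, ⟨2776, 2886, 1000⟩⟩ (yA24B.hC1' true) :=
  posD_of_check0 (c := ⟨262, ⟨3, 5, 9, 7⟩⟩) (by decide +kernel)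

def yA24B_tg10 : PosD ⟨⟨0, 1, 1⟩, ⟨980, 981, 1470⟩, ⟨0, 75, 10000⟩, ⟨2776, 2886, 1000⟩⟩ (yA24B.hG false (yA24B.pEnd true)) :=
  posD_of_check0 (c := ⟨369, ⟨2, 7, 14, 9⟩⟩) (by decide +kernel)

def yA24B_c2p10 : PosD ⟨⟨0, 1, 1⟩, ⟨980, 981, 1470⟩, ⟨0, 75, 10000⟩, ⟨2776, 2886, 1000⟩⟩ (yA24B.hC2p false (yA24B.pEnd true)) :=
  posD_of_check0 (c := ⟨400, ⟨2, 7, 16, 10⟩⟩) (by decide +kernel)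

def yA24B_c2m10 : PosD ⟨⟨0, 1, 1⟩, ⟨980, 981, 1470⟩, ⟨0, 75, 10000⟩, ⟨2776, 2886, 1000⟩⟩ (yA24B.hC2m false (yA24B.pEnd true)) :=
  posD_of_check0 (c := ⟨400, ⟨2, 7, 16, 10⟩⟩) (by decide +kernel)

def yA24B_c3p10 : PosD ⟨⟨0, 1, 1⟩, ⟨980, 981, 1470⟩, ⟨0, 75, 10000⟩, ⟨2776, 2886, 1000⟩⟩ (yA24B.hC3p true false) :=
  posD_of_check0 (c := ⟨402, ⟨3, 7, 15, 10⟩⟩) (by decide +kernel)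

def yA24B_c3m10 : PosD ⟨⟨0, 1, 1⟩, ⟨980, 981, 1470⟩, ⟨0, 75, 10000⟩, ⟨2776, 2886, 1000⟩⟩ (yA24B.hC3m true false) :=
  posD_of_check0 (c := ⟨402, ⟨3, 7, 15, 10⟩⟩) (by decide +kernel)

def yA24B_c3ph10 : PosD ⟨⟨0, 1, 1⟩, ⟨980, 981, 1470⟩, ⟨0, 75, 10000⟩, ⟨2776, 2886, 1000⟩⟩ (yA24B.hC3p' true false) :=
  posD_of_check0 (c := ⟨402, ⟨3, 7, 15, 10⟩⟩) (by decide +kernel)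

def yA24B_c3mh10 : PosD ⟨⟨0, 1, 1⟩, ⟨980, 981, 1470⟩, ⟨0, 75, 10000⟩, ⟨2776, 2886, 1000⟩⟩ (yA24B.hC3m' true false) :=
  posD_of_check0 (c := ⟨402, ⟨3, 7, 15, 10⟩⟩) (by decide +kernel)

def yA24B_up10 : PosD ⟨⟨0, 1, 1⟩, ⟨980, 981, 1470⟩, ⟨0, 75, 10000⟩, ⟨2776, 2886, 1000⟩⟩ (yA24B.hUp true false) :=
  posD_of_check0 (c := ⟨399, ⟨2, 7, 15, 10⟩⟩) (by decide +kernel)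

def yA24B_um10 : PosD ⟨⟨0, 1, 1⟩, ⟨980, 981, 1470⟩, ⟨0, 75, 10000⟩, ⟨2776, 2886, 1000⟩⟩ (yA24B.hUm true false) :=
  posD_of_check0 (c := ⟨399, ⟨2, 7, 15, 10⟩⟩) (by decide +kernel)

def yA24B_tmg10 : PosD ⟨⟨0, 1, 1⟩, ⟨980, 981, 1470⟩, ⟨0, 75, 10000⟩, ⟨2776, 2886, 1000⟩⟩ (yA24B.hTMG false (yA24B.pEnd true)) :=
  posD_of_check0 (c := ⟨384, ⟨2, 7, 14, 10⟩⟩) (by decide +kernel)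

def yA24B_tg11 : PosD ⟨⟨0, 1, 1⟩, ⟨980, 981, 1470⟩, ⟨0, 75, 10000⟩, ⟨2776, 2886, 1000⟩⟩ (yA24B.hG true (yA24B.pEnd true)) :=
  posD_of_check0 (c := ⟨369, ⟨2, 7, 14, 9⟩⟩) (by decide +kernel)

def yA24B_c2p11 : PosD ⟨⟨0, 1, 1⟩, ⟨980, 981, 1470⟩, ⟨0, 75, 10000⟩, ⟨2776, 2886, 1000⟩⟩ (yA24B.hC2p true (yA24B.pEnd true)) :=
  posD_of_check0 (c := ⟨400, ⟨2, 7, 16, 10⟩⟩) (by decide +kernel)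

def yA24B_c2m11 : PosD ⟨⟨0, 1, 1⟩, ⟨980, 981, 1470⟩, ⟨0, 75, 10000⟩, ⟨2776, 2886, 1000⟩⟩ (yA24B.hC2m true (yA24B.pEnd true)) :=
  posD_of_check0 (c := ⟨400, ⟨2, 7, 16, 10⟩⟩) (by decide +kernel)

def yA24B_c3p11 : PosD ⟨⟨0, 1, 1⟩, ⟨980, 981, 1470⟩, ⟨0, 75, 10000⟩, ⟨2776, 2886, 1000⟩⟩ (yA24B.hC3p true true) :=
  posD_of_check0 (c := ⟨402, ⟨3, 7, 15, 10⟩⟩) (by decide +kernel)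

def yA24B_c3m11 : PosD ⟨⟨0, 1, 1⟩, ⟨980, 981, 1470⟩, ⟨0, 75, 10000⟩, ⟨2776, 2886, 1000⟩⟩ (yA24B.hC3m true true) :=
  posD_of_check0 (c := ⟨402, ⟨3, 7, 15, 10⟩⟩) (by decide +kernel)

def yA24B_c3ph11 : PosD ⟨⟨0, 1, 1⟩, ⟨980, 981, 1470⟩, ⟨0, 75, 10000⟩, ⟨2776, 2886, 1000⟩⟩ (yA24B.hC3p' true true) :=
  posD_of_check0 (c := ⟨402, ⟨3, 7, 15, 10⟩⟩) (by decide +kernel)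

def yA24B_c3mh11 : PosD ⟨⟨0, 1, 1⟩, ⟨980, 981, 1470⟩, ⟨0, 75, 10000⟩, ⟨2776, 2886, 1000⟩⟩ (yA24B.hC3m' true true) :=
  posD_of_check0 (c := ⟨402, ⟨3, 7, 15, 10⟩⟩) (by decide +kernel)

def yA24B_up11 : PosD ⟨⟨0, 1, 1⟩, ⟨980, 981, 1470⟩, ⟨0, 75, 10000⟩, ⟨2776, 2886, 1000⟩⟩ (yA24B.hUp true true) :=
  posD_of_check0 (c := ⟨399, ⟨2, 7, 15, 10⟩⟩) (by decide +kernel)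

def yA24B_um11 : PosD ⟨⟨0, 1, 1⟩, ⟨980, 981, 1470⟩, ⟨0, 75, 10000⟩, ⟨2776, 2886, 1000⟩⟩ (yA24B.hUm true true) :=
  posD_of_check0 (c := ⟨399, ⟨2, 7, 15, 10⟩⟩) (by decide +kernel)

def yA24B_tmg11 : PosD ⟨⟨0, 1, 1⟩, ⟨980, 981, 1470⟩, ⟨0, 75, 10000⟩, ⟨2776, 2886, 1000⟩⟩ (yA24B.hTMG true (yA24B.pEnd true)) :=
  posD_of_check0 (c := ⟨384, ⟨2, 7, 14, 10⟩⟩) (by decide +kernel)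

/-- The signs of the piece. -/
def yA24B_sign : yA24B.Sign ⟨⟨0, 1, 1⟩, ⟨980, 981, 1470⟩, ⟨0, 75, 10000⟩, ⟨2776, 2886, 1000⟩⟩ :=
  ⟨yA24B_pp,
    yA24B_k2p,
    yA24B_k2m,
    Bool.forall_bool.2 ⟨(Bool.forall_bool.2 ⟨yA24B_tg00, yA24B_tg01⟩), (Bool.forall_bool.2 ⟨yA24B_tg10, yA24B_tg11⟩)⟩,
    Bool.forall_bool.2 ⟨(Bool.forall_bool.2 ⟨yA24B_c2p00, yA24B_c2p01⟩), (Bool.forall_bool.2 ⟨yA24B_c2p10, yA24B_c2p11⟩)⟩,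
    Bool.forall_bool.2 ⟨(Bool.forall_bool.2 ⟨yA24B_c2m00, yA24B_c2m01⟩), (Bool.forall_bool.2 ⟨yA24B_c2m10, yA24B_c2m11⟩)⟩,
    Bool.forall_bool.2 ⟨yA24B_kap0, yA24B_kap1⟩,
    Bool.forall_bool.2 ⟨yA24B_c10, yA24B_c11⟩,
    Bool.forall_bool.2 ⟨(Bool.forall_bool.2 ⟨yA24B_c3p00, yA24B_c3p01⟩), (Bool.forall_bool.2 ⟨yA24B_c3p10, yA24B_c3p11⟩)⟩,
    Bool.forall_bool.2 ⟨(Bool.forall_bool.2 ⟨yA24B_c3m00, yA24B_c3m01⟩), (Bool.forall_bool.2 ⟨yA24B_c3m10, yA24B_c3m11⟩)⟩,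
    Bool.forall_bool.2 ⟨(Bool.forall_bool.2 ⟨yA24B_tmg00, yA24B_tmg01⟩), (Bool.forall_bool.2 ⟨yA24B_tmg10, yA24B_tmg11⟩)⟩,
    .inr (Bool.forall_bool.2 ⟨⟨yA24B_c1h0, Bool.forall_bool.2 ⟨⟨yA24B_c3ph00, yA24B_c3mh00, yA24B_up00, yA24B_um00⟩, ⟨yA24B_c3ph01, yA24B_c3mh01, yA24B_up01, yA24B_um01⟩⟩⟩, ⟨yA24B_c1h1, Bool.forall_bool.2 ⟨⟨yA24B_c3ph10, yA24B_c3mh10, yA24B_up10, yA24B_um10⟩, ⟨yA24B_c3ph11, yA24B_c3mh11, yA24B_up11, yA24B_um11⟩⟩⟩⟩),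
    yA24B_v2p,
    yA24B_v2m,
    yA24B_v3p,
    yA24B_v3m,
    posD_sub (b := ⟨⟨0, 1, 1⟩, ⟨98, 99, 147⟩, ⟨0, 301, 10000⟩, ⟨1060, 4000, 1000⟩⟩) (by decide +kernel) yA_vG,
    posD_sub (b := ⟨⟨0, 1, 1⟩, ⟨98, 99, 147⟩, ⟨0, 301, 10000⟩, ⟨1060, 4000, 1000⟩⟩) (by decide +kernel) yA_vMG,
    posD_sub (b := ⟨⟨0, 1, 1⟩, ⟨98, 99, 147⟩, ⟨0, 301, 10000⟩, ⟨1060, 4000, 1000⟩⟩) (by decide +kernel) yA_ak,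
    posD_sub (b := ⟨⟨0, 1, 1⟩, ⟨98, 99, 147⟩, ⟨0, 301, 10000⟩, ⟨1060, 4000, 1000⟩⟩) (by decide +kernel) yA_aw,
    posD_sub (b := ⟨⟨0, 1, 1⟩, ⟨98, 99, 147⟩, ⟨0, 301, 10000⟩, ⟨1060, 4000, 1000⟩⟩) (by decide +kernel) yA_gk,
    posD_sub (b := ⟨⟨0, 1, 1⟩, ⟨98, 99, 147⟩, ⟨0, 301, 10000⟩, ⟨1060, 4000, 1000⟩⟩) (by decide +kernel) yA_gw,
    posD_sub (b := ⟨⟨0, 1, 1⟩, ⟨98, 99, 147⟩, ⟨0, 301, 10000⟩, ⟨1060, 4000, 1000⟩⟩) (by decide +kernel) yA_ek,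
    posD_sub (b := ⟨⟨0, 1, 1⟩, ⟨98, 99, 147⟩, ⟨0, 301, 10000⟩, ⟨1060, 4000, 1000⟩⟩) (by decide +kernel) yA_ew⟩

def yA24QL_pp : PosD ⟨⟨0, 1, 1⟩, ⟨980, 981, 1470⟩, ⟨0, 75, 10000⟩, ⟨2776, 2886, 1000⟩⟩ (yA24QL.xPL) :=
  posD_of_check0 (c := ⟨61, ⟨1, 0, 2, 1⟩⟩) (by decide +kernel)

def yA24QL_k2p : PosD ⟨⟨0, 1, 1⟩, ⟨980, 981, 1470⟩, ⟨0, 75, 10000⟩, ⟨2776, 2886, 1000⟩⟩ (yA24QL.k2p yA24QL.xE) :=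
  posD_of_check0 (c := ⟨7, ⟨0, 0, 0, 0⟩⟩) (by decide +kernel)

def yA24QL_k2m : PosD ⟨⟨0, 1, 1⟩, ⟨980, 981, 1470⟩, ⟨0, 75, 10000⟩, ⟨2776, 2886, 1000⟩⟩ (yA24QL.k2m yA24QL.xE) :=
  posD_of_check0 (c := ⟨7, ⟨0, 0, 0, 0⟩⟩) (by decide +kernel)

def yA24QL_v2p : PosD ⟨⟨0, 1, 1⟩, ⟨980, 981, 1470⟩, ⟨0, 75, 10000⟩, ⟨2776, 2886, 1000⟩⟩ (yA24QL.hV2p) :=
  posD_of_check0 (c := ⟨224, ⟨0, 5, 10, 4⟩⟩) (by decide +kernel)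

def yA24QL_v2m : PosD ⟨⟨0, 1, 1⟩, ⟨980, 981, 1470⟩, ⟨0, 75, 10000⟩, ⟨2776, 2886, 1000⟩⟩ (yA24QL.hV2m) :=
  posD_of_check0 (c := ⟨224, ⟨0, 5, 10, 4⟩⟩) (by decide +kernel)

def yA24QL_v3p : PosD ⟨⟨0, 1, 1⟩, ⟨980, 981, 1470⟩, ⟨0, 75, 10000⟩, ⟨2776, 2886, 1000⟩⟩ (yA24QL.hV3p) :=
  posD_of_check0 (c := ⟨220, ⟨0, 5, 9, 4⟩⟩) (by decide +kernel)

def yA24QL_v3m : PosD ⟨⟨0, 1, 1⟩, ⟨980, 981, 1470⟩, ⟨0, 75, 10000⟩, ⟨2776, 2886, 1000⟩⟩ (yA24QL.hV3m) :=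
  posD_of_check0 (c := ⟨220, ⟨0, 5, 9, 4⟩⟩) (by decide +kernel)

def yA24QL_tg00 : PosD ⟨⟨0, 1, 1⟩, ⟨980, 981, 1470⟩, ⟨0, 75, 10000⟩, ⟨2776, 2886, 1000⟩⟩ (yA24QL.hG false (yA24QL.pEnd false)) :=
  posD_of_check0 (c := ⟨336, ⟨2, 7, 12, 7⟩⟩) (by decide +kernel)

def yA24QL_c2p00 : PosD ⟨⟨0, 1, 1⟩, ⟨980, 981, 1470⟩, ⟨0, 75, 10000⟩, ⟨2776, 2886, 1000⟩⟩ (yA24QL.hC2p false (yA24QL.pEnd false)) :=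
  posD_of_check0 (c := ⟨366, ⟨2, 7, 14, 7⟩⟩) (by decide +kernel)

def yA24QL_c2m00 : PosD ⟨⟨0, 1, 1⟩, ⟨980, 981, 1470⟩, ⟨0, 75, 10000⟩, ⟨2776, 2886, 1000⟩⟩ (yA24QL.hC2m false (yA24QL.pEnd false)) :=
  posD_of_check0 (c := ⟨366, ⟨2, 7, 14, 7⟩⟩) (by decide +kernel)

def yA24QL_up00 : PosD ⟨⟨0, 1, 1⟩, ⟨980, 981, 1470⟩, ⟨0, 75, 10000⟩, ⟨2776, 2886, 1000⟩⟩ (yA24QL.hUp false false - yA24QLam) :=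
  posD_of_check0 (c := ⟨364, ⟨2, 7, 14, 6⟩⟩) (by decide +kernel)

def yA24QL_um00 : PosD ⟨⟨0, 1, 1⟩, ⟨980, 981, 1470⟩, ⟨0, 75, 10000⟩, ⟨2776, 2886, 1000⟩⟩ (yA24QL.hUm false false - yA24QLam) :=
  posD_of_check0 (c := ⟨364, ⟨2, 7, 14, 6⟩⟩) (by decide +kernel)

def yA24QL_tmg00 : PosD ⟨⟨0, 1, 1⟩, ⟨980, 981, 1470⟩, ⟨0, 75, 10000⟩, ⟨2776, 2886, 1000⟩⟩ (yA24QL.hTMG false (yA24QL.pEnd false)) :=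
  posD_of_check0 (c := ⟨341, ⟨2, 6, 13, 6⟩⟩) (by decide +kernel)

def yA24QL_tg01 : PosD ⟨⟨0, 1, 1⟩, ⟨980, 981, 1470⟩, ⟨0, 75, 10000⟩, ⟨2776, 2886, 1000⟩⟩ (yA24QL.hG true (yA24QL.pEnd false)) :=
  posD_of_check0 (c := ⟨335, ⟨2, 7, 12, 6⟩⟩) (by decide +kernel)

def yA24QL_c2p01 : PosD ⟨⟨0, 1, 1⟩, ⟨980, 981, 1470⟩, ⟨0, 75, 10000⟩, ⟨2776, 2886, 1000⟩⟩ (yA24QL.hC2p true (yA24QL.pEnd false)) :=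
  posD_of_check0 (c := ⟨365, ⟨2, 7, 14, 6⟩⟩) (by decide +kernel)

def yA24QL_c2m01 : PosD ⟨⟨0, 1, 1⟩, ⟨980, 981, 1470⟩, ⟨0, 75, 10000⟩, ⟨2776, 2886, 1000⟩⟩ (yA24QL.hC2m true (yA24QL.pEnd false)) :=
  posD_of_check0 (c := ⟨365, ⟨2, 7, 14, 6⟩⟩) (by decide +kernel)

def yA24QL_up01 : PosD ⟨⟨0, 1, 1⟩, ⟨980, 981, 1470⟩, ⟨0, 75, 10000⟩, ⟨2776, 2886, 1000⟩⟩ (yA24QL.hUp false true - yA24QLam) :=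
  posD_of_check0 (c := ⟨364, ⟨2, 7, 14, 6⟩⟩) (by decide +kernel)

def yA24QL_um01 : PosD ⟨⟨0, 1, 1⟩, ⟨980, 981, 1470⟩, ⟨0, 75, 10000⟩, ⟨2776, 2886, 1000⟩⟩ (yA24QL.hUm false true - yA24QLam) :=
  posD_of_check0 (c := ⟨364, ⟨2, 7, 14, 6⟩⟩) (by decide +kernel)

def yA24QL_tmg01 : PosD ⟨⟨0, 1, 1⟩, ⟨980, 981, 1470⟩, ⟨0, 75, 10000⟩, ⟨2776, 2886, 1000⟩⟩ (yA24QL.hTMG true (yA24QL.pEnd false)) :=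
  posD_of_check0 (c := ⟨341, ⟨2, 6, 13, 6⟩⟩) (by decide +kernel)

def yA24QL_tg10 : PosD ⟨⟨0, 1, 1⟩, ⟨980, 981, 1470⟩, ⟨0, 75, 10000⟩, ⟨2776, 2886, 1000⟩⟩ (yA24QL.hG false (yA24QL.pEnd true)) :=
  posD_of_check0 (c := ⟨336, ⟨2, 7, 12, 7⟩⟩) (by decide +kernel)

def yA24QL_c2p10 : PosD ⟨⟨0, 1, 1⟩, ⟨980, 981, 1470⟩, ⟨0, 75, 10000⟩, ⟨2776, 2886, 1000⟩⟩ (yA24QL.hC2p false (yA24QL.pEnd true)) :=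
  posD_of_check0 (c := ⟨366, ⟨2, 7, 14, 7⟩⟩) (by decide +kernel)

def yA24QL_c2m10 : PosD ⟨⟨0, 1, 1⟩, ⟨980, 981, 1470⟩, ⟨0, 75, 10000⟩, ⟨2776, 2886, 1000⟩⟩ (yA24QL.hC2m false (yA24QL.pEnd true)) :=
  posD_of_check0 (c := ⟨366, ⟨2, 7, 14, 7⟩⟩) (by decide +kernel)

def yA24QL_up10 : PosD ⟨⟨0, 1, 1⟩, ⟨980, 981, 1470⟩, ⟨0, 75, 10000⟩, ⟨2776, 2886, 1000⟩⟩ (yA24QL.hUp true false - yA24QLam) :=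
  posD_of_check0 (c := ⟨364, ⟨2, 7, 14, 6⟩⟩) (by decide +kernel)

def yA24QL_um10 : PosD ⟨⟨0, 1, 1⟩, ⟨980, 981, 1470⟩, ⟨0, 75, 10000⟩, ⟨2776, 2886, 1000⟩⟩ (yA24QL.hUm true false - yA24QLam) :=
  posD_of_check0 (c := ⟨364, ⟨2, 7, 14, 6⟩⟩) (by decide +kernel)

def yA24QL_tmg10 : PosD ⟨⟨0, 1, 1⟩, ⟨980, 981, 1470⟩, ⟨0, 75, 10000⟩, ⟨2776, 2886, 1000⟩⟩ (yA24QL.hTMG false (yA24QL.pEnd true)) :=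
  posD_of_check0 (c := ⟨342, ⟨2, 6, 13, 6⟩⟩) (by decide +kernel)

def yA24QL_tg11 : PosD ⟨⟨0, 1, 1⟩, ⟨980, 981, 1470⟩, ⟨0, 75, 10000⟩, ⟨2776, 2886, 1000⟩⟩ (yA24QL.hG true (yA24QL.pEnd true)) :=
  posD_of_check0 (c := ⟨335, ⟨2, 7, 12, 6⟩⟩) (by decide +kernel)

def yA24QL_c2p11 : PosD ⟨⟨0, 1, 1⟩, ⟨980, 981, 1470⟩, ⟨0, 75, 10000⟩, ⟨2776, 2886, 1000⟩⟩ (yA24QL.hC2p true (yA24QL.pEnd true)) :=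
  posD_of_check0 (c := ⟨365, ⟨2, 7, 14, 6⟩⟩) (by decide +kernel)

def yA24QL_c2m11 : PosD ⟨⟨0, 1, 1⟩, ⟨980, 981, 1470⟩, ⟨0, 75, 10000⟩, ⟨2776, 2886, 1000⟩⟩ (yA24QL.hC2m true (yA24QL.pEnd true)) :=
  posD_of_check0 (c := ⟨365, ⟨2, 7, 14, 6⟩⟩) (by decide +kernel)

def yA24QL_up11 : PosD ⟨⟨0, 1, 1⟩, ⟨980, 981, 1470⟩, ⟨0, 75, 10000⟩, ⟨2776, 2886, 1000⟩⟩ (yA24QL.hUp true true - yA24QLam) :=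
  posD_of_check0 (c := ⟨364, ⟨2, 7, 14, 6⟩⟩) (by decide +kernel)

def yA24QL_um11 : PosD ⟨⟨0, 1, 1⟩, ⟨980, 981, 1470⟩, ⟨0, 75, 10000⟩, ⟨2776, 2886, 1000⟩⟩ (yA24QL.hUm true true - yA24QLam) :=
  posD_of_check0 (c := ⟨364, ⟨2, 7, 14, 6⟩⟩) (by decide +kernel)

def yA24QL_tmg11 : PosD ⟨⟨0, 1, 1⟩, ⟨980, 981, 1470⟩, ⟨0, 75, 10000⟩, ⟨2776, 2886, 1000⟩⟩ (yA24QL.hTMG true (yA24QL.pEnd true)) :=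
  posD_of_check0 (c := ⟨342, ⟨2, 6, 13, 6⟩⟩) (by decide +kernel)

def yA24QL_eps : PosD ⟨⟨0, 1, 1⟩, ⟨980, 981, 1470⟩, ⟨0, 75, 10000⟩, ⟨2776, 2886, 1000⟩⟩ (yA24QEps) :=
  posD_of_check0 (c := ⟨14, ⟨0, 0, 0, 0⟩⟩) (by decide +kernel)

def yA24QL_lam_pos : PosD ⟨⟨0, 1, 1⟩, ⟨980, 981, 1470⟩, ⟨0, 75, 10000⟩, ⟨2776, 2886, 1000⟩⟩ (yA24QLam) :=
  posD_of_check0 (c := ⟨12, ⟨0, 0, 0, 0⟩⟩) (by decide +kernel)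

def yA24QL_lam_mu : PosD ⟨⟨0, 1, 1⟩, ⟨980, 981, 1470⟩, ⟨0, 75, 10000⟩, ⟨2776, 2886, 1000⟩⟩ (cC 20 3 * (cC 1 - xS) * yA24QEps * yA24QLam - cC 4 * yA24QMu * yA24QMu) :=
  posD_of_check0 (c := ⟨40, ⟨0, 1, 0, 0⟩⟩) (by decide +kernel)

def yA24QL_eLow : PosD ⟨⟨0, 1, 1⟩, ⟨980, 981, 1470⟩, ⟨0, 75, 10000⟩, ⟨2776, 2886, 1000⟩⟩ (cC (-1) * yA24QL.xE - yA24QEps * yA24QL.xPU) :=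
  posD_of_check0 (c := ⟨73, ⟨1, 0, 2, 0⟩⟩) (by decide +kernel)

def yA24QL_xl0 : PosD ⟨⟨0, 1, 1⟩, ⟨980, 981, 1470⟩, ⟨0, 75, 10000⟩, ⟨2776, 2886, 1000⟩⟩ (yA24QMu * yA24QL.pEnd false + yA24QL.xM (yA24QL.pEnd false)) :=
  posD_of_check0 (c := ⟨227, ⟨2, 4, 8, 5⟩⟩) (by decide +kernel)

def yA24QL_xu0 : PosD ⟨⟨0, 1, 1⟩, ⟨980, 981, 1470⟩, ⟨0, 75, 10000⟩, ⟨2776, 2886, 1000⟩⟩ (yA24QMu * yA24QL.pEnd false - yA24QL.xM' (yA24QL.pEnd false)) :=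
  posD_of_check0 (c := ⟨227, ⟨2, 4, 8, 5⟩⟩) (by decide +kernel)

def yA24QL_xl1 : PosD ⟨⟨0, 1, 1⟩, ⟨980, 981, 1470⟩, ⟨0, 75, 10000⟩, ⟨2776, 2886, 1000⟩⟩ (yA24QMu * yA24QL.pEnd true + yA24QL.xM (yA24QL.pEnd true)) :=
  posD_of_check0 (c := ⟨227, ⟨2, 4, 8, 4⟩⟩) (by decide +kernel)

def yA24QL_xu1 : PosD ⟨⟨0, 1, 1⟩, ⟨980, 981, 1470⟩, ⟨0, 75, 10000⟩, ⟨2776, 2886, 1000⟩⟩ (yA24QMu * yA24QL.pEnd true - yA24QL.xM' (yA24QL.pEnd true)) :=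
  posD_of_check0 (c := ⟨227, ⟨2, 4, 8, 4⟩⟩) (by decide +kernel)

/-- The signs of the part where `p` may be small. -/
def yA24QL_sign : yA24QL.SignLow ⟨⟨0, 1, 1⟩, ⟨980, 981, 1470⟩, ⟨0, 75, 10000⟩, ⟨2776, 2886, 1000⟩⟩ yA24QMu yA24QEps yA24QLam :=
  ⟨yA24QL_pp,
    yA24QL_k2p,
    yA24QL_k2m,
    Bool.forall_bool.2 ⟨(Bool.forall_bool.2 ⟨yA24QL_tg00, yA24QL_tg01⟩), (Bool.forall_bool.2 ⟨yA24QL_tg10, yA24QL_tg11⟩)⟩,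
    Bool.forall_bool.2 ⟨(Bool.forall_bool.2 ⟨yA24QL_c2p00, yA24QL_c2p01⟩), (Bool.forall_bool.2 ⟨yA24QL_c2p10, yA24QL_c2p11⟩)⟩,
    Bool.forall_bool.2 ⟨(Bool.forall_bool.2 ⟨yA24QL_c2m00, yA24QL_c2m01⟩), (Bool.forall_bool.2 ⟨yA24QL_c2m10, yA24QL_c2m11⟩)⟩,
    Bool.forall_bool.2 ⟨(Bool.forall_bool.2 ⟨yA24QL_tmg00, yA24QL_tmg01⟩), (Bool.forall_bool.2 ⟨yA24QL_tmg10, yA24QL_tmg11⟩)⟩,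
    yA24QL_v2p,
    yA24QL_v2m,
    yA24QL_v3p,
    yA24QL_v3m,
    posD_sub (b := ⟨⟨0, 1, 1⟩, ⟨98, 99, 147⟩, ⟨0, 301, 10000⟩, ⟨1060, 4000, 1000⟩⟩) (by decide +kernel) yA_vG,
    posD_sub (b := ⟨⟨0, 1, 1⟩, ⟨98, 99, 147⟩, ⟨0, 301, 10000⟩, ⟨1060, 4000, 1000⟩⟩) (by decide +kernel) yA_vMG,
    posD_sub (b := ⟨⟨0, 1, 1⟩, ⟨98, 99, 147⟩, ⟨0, 301, 10000⟩, ⟨1060, 4000, 1000⟩⟩) (by decide +kernel) yA_ak,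
    posD_sub (b := ⟨⟨0, 1, 1⟩, ⟨98, 99, 147⟩, ⟨0, 301, 10000⟩, ⟨1060, 4000, 1000⟩⟩) (by decide +kernel) yA_aw,
    posD_sub (b := ⟨⟨0, 1, 1⟩, ⟨98, 99, 147⟩, ⟨0, 301, 10000⟩, ⟨1060, 4000, 1000⟩⟩) (by decide +kernel) yA_gk,
    posD_sub (b := ⟨⟨0, 1, 1⟩, ⟨98, 99, 147⟩, ⟨0, 301, 10000⟩, ⟨1060, 4000, 1000⟩⟩) (by decide +kernel) yA_gw,
    posD_sub (b := ⟨⟨0, 1, 1⟩, ⟨98, 99, 147⟩, ⟨0, 301, 10000⟩, ⟨1060, 4000, 1000⟩⟩) (by decide +kernel) yA_ek,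
    posD_sub (b := ⟨⟨0, 1, 1⟩, ⟨98, 99, 147⟩, ⟨0, 301, 10000⟩, ⟨1060, 4000, 1000⟩⟩) (by decide +kernel) yA_ew,
    yA24QL_eps,
    yA24QL_lam_pos,
    yA24QL_lam_mu,
    yA24QL_eLow,
    Bool.forall_bool.2 ⟨yA24QL_xl0, yA24QL_xl1⟩,
    Bool.forall_bool.2 ⟨yA24QL_xu0, yA24QL_xu1⟩,
    Bool.forall_bool.2 ⟨(Bool.forall_bool.2 ⟨yA24QL_up00, yA24QL_up01⟩), (Bool.forall_bool.2 ⟨yA24QL_up10, yA24QL_up11⟩)⟩,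
    Bool.forall_bool.2 ⟨(Bool.forall_bool.2 ⟨yA24QL_um00, yA24QL_um01⟩), (Bool.forall_bool.2 ⟨yA24QL_um10, yA24QL_um11⟩)⟩⟩

end Vale.Agent.P100.Calib.Closed.Six.Tail
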