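import Vale.Agent.P100.Calib.SlabSixTailDataLayerA
import Vale.Agent.P100.Calib.SlabSixTailGlobLayerA

/-!
# Checks of some pieces of the certificate

The checks are written as definitions so that they run one after another, which keeps the memory of the
kernel low.
-/

set_option linter.defProp false

namespace Vale.Agent.P100.Calib.Closed.Six.Tail

open BoxPos Large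

local instance sixTailChecksyA17Add : Add Ex := ⟨Ex.add⟩
local instance sixTailChecksyA17Sub : Sub Ex := ⟨Ex.sub⟩
local instance sixTailChecksyA17Mul : Mul Ex := ⟨Ex.mul⟩

def yA25_p0 : PosD ⟨⟨0, 1, 1⟩, ⟨980, 981, 1470⟩, ⟨0, 75, 10000⟩, ⟨2886, 3036, 1000⟩⟩ (yA25.hP0) :=
  posD_of_check0 (c := ⟨82, ⟨0, 2, 3, 1⟩⟩) (by decide +kernel)

def yA25_gn : PosD ⟨⟨0, 1, 1⟩, ⟨980, 981, 1470⟩, ⟨0, 75, 10000⟩, ⟨2886, 3036, 1000⟩⟩ (yA25.hGn) :=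
  posD_of_check0 (c := ⟨60, ⟨1, 1, 2, 1⟩⟩) (by decide +kernel)

def yA25_den0 : PosD ⟨⟨0, 1, 1⟩, ⟨980, 981, 1470⟩, ⟨0, 75, 10000⟩, ⟨2886, 3036, 1000⟩⟩ (yA25.hDen false) :=
  posD_of_check0 (c := ⟨45, ⟨0, 0, 2, 0⟩⟩) (by decide +kernel)

def yA25_ev0 : PosD ⟨⟨0, 1, 1⟩, ⟨980, 981, 1470⟩, ⟨0, 75, 10000⟩, ⟨2886, 3036, 1000⟩⟩ (yA25.hEv false) :=
  posD_of_check0 (c := ⟨151, ⟨2, 2, 6, 1⟩⟩) (by decide +kernel)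

def yA25_zL0 : PosD ⟨⟨0, 1, 1⟩, ⟨980, 981, 1470⟩, ⟨0, 75, 10000⟩, ⟨2886, 3036, 1000⟩⟩ (yA25.hZL false) :=
  posD_of_check0 (c := ⟨162, ⟨2, 3, 6, 3⟩⟩) (by decide +kernel)

def yA25_zU0 : PosD ⟨⟨0, 1, 1⟩, ⟨980, 981, 1470⟩, ⟨0, 75, 10000⟩, ⟨2886, 3036, 1000⟩⟩ (yA25.hZU false) :=
  posD_of_check0 (c := ⟨161, ⟨2, 3, 6, 2⟩⟩) (by decide +kernel)

def yA25_eL0 : PosD ⟨⟨0, 1, 1⟩, ⟨980, 981, 1470⟩, ⟨0, 75, 10000⟩, ⟨2886, 3036, 1000⟩⟩ (yA25.hEL false) :=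
  posD_of_check0 (c := ⟨249, ⟨3, 6, 9, 2⟩⟩) (by decide +kernel)

def yA25_eH0 : PosD ⟨⟨0, 1, 1⟩, ⟨980, 981, 1470⟩, ⟨0, 75, 10000⟩, ⟨2886, 3036, 1000⟩⟩ (yA25.hEH false) :=
  posD_of_check0 (c := ⟨249, ⟨3, 6, 9, 2⟩⟩) (by decide +kernel)

def yA25_pL0 : PosD ⟨⟨0, 1, 1⟩, ⟨980, 981, 1470⟩, ⟨0, 75, 10000⟩, ⟨2886, 3036, 1000⟩⟩ (yA25.hPL false) :=
  posD_of_check0 (c := ⟨268, ⟨3, 6, 9, 3⟩⟩) (by decide +kernel)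

def yA25_pU0 : PosD ⟨⟨0, 1, 1⟩, ⟨980, 981, 1470⟩, ⟨0, 75, 10000⟩, ⟨2886, 3036, 1000⟩⟩ (yA25.hPU false) :=
  posD_of_check0 (c := ⟨267, ⟨3, 6, 9, 3⟩⟩) (by decide +kernel)

def yA25_kU0 : PosD ⟨⟨0, 1, 1⟩, ⟨980, 981, 1470⟩, ⟨0, 75, 10000⟩, ⟨2886, 3036, 1000⟩⟩ (yA25.hKU false) :=
  posD_of_check0 (c := ⟨262, ⟨3, 6, 9, 3⟩⟩) (by decide +kernel)

def yA25_kL0 : PosD ⟨⟨0, 1, 1⟩, ⟨980, 981, 1470⟩, ⟨0, 75, 10000⟩, ⟨2886, 3036, 1000⟩⟩ (yA25.hKL false) :=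
  posD_of_check0 (c := ⟨262, ⟨3, 6, 9, 3⟩⟩) (by decide +kernel)

def yA25_wU0 : PosD ⟨⟨0, 1, 1⟩, ⟨980, 981, 1470⟩, ⟨0, 75, 10000⟩, ⟨2886, 3036, 1000⟩⟩ (yA25.hWU false) :=
  posD_of_check0 (c := ⟨302, ⟨3, 8, 10, 3⟩⟩) (by decide +kernel)

def yA25_wL0 : PosD ⟨⟨0, 1, 1⟩, ⟨980, 981, 1470⟩, ⟨0, 75, 10000⟩, ⟨2886, 3036, 1000⟩⟩ (yA25.hWL false) :=
  posD_of_check0 (c := ⟨302, ⟨3, 8, 10, 3⟩⟩) (by decide +kernel)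

def yA25_den1 : PosD ⟨⟨0, 1, 1⟩, ⟨980, 981, 1470⟩, ⟨0, 75, 10000⟩, ⟨2886, 3036, 1000⟩⟩ (yA25.hDen true) :=
  posD_of_check0 (c := ⟨22, ⟨1, 0, 1, 0⟩⟩) (by decide +kernel)

def yA25_ev1 : PosD ⟨⟨0, 1, 1⟩, ⟨980, 981, 1470⟩, ⟨0, 75, 10000⟩, ⟨2886, 3036, 1000⟩⟩ (yA25.hEv true) :=
  posD_of_check0 (c := ⟨123, ⟨2, 2, 6, 1⟩⟩) (by decide +kernel)

def yA25_zL1 : PosD ⟨⟨0, 1, 1⟩, ⟨980, 981, 1470⟩, ⟨0, 75, 10000⟩, ⟨2886, 3036, 1000⟩⟩ (yA25.hZL true) :=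
  posD_of_check0 (c := ⟨137, ⟨2, 3, 6, 3⟩⟩) (by decide +kernel)

def yA25_zU1 : PosD ⟨⟨0, 1, 1⟩, ⟨980, 981, 1470⟩, ⟨0, 75, 10000⟩, ⟨2886, 3036, 1000⟩⟩ (yA25.hZU true) :=
  posD_of_check0 (c := ⟨136, ⟨2, 3, 6, 2⟩⟩) (by decide +kernel)

def yA25_eL1 : PosD ⟨⟨0, 1, 1⟩, ⟨980, 981, 1470⟩, ⟨0, 75, 10000⟩, ⟨2886, 3036, 1000⟩⟩ (yA25.hEL true) :=
  posD_of_check0 (c := ⟨221, ⟨3, 6, 9, 2⟩⟩) (by decide +kernel)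

def yA25_eH1 : PosD ⟨⟨0, 1, 1⟩, ⟨980, 981, 1470⟩, ⟨0, 75, 10000⟩, ⟨2886, 3036, 1000⟩⟩ (yA25.hEH true) :=
  posD_of_check0 (c := ⟨221, ⟨3, 6, 9, 2⟩⟩) (by decide +kernel)

def yA25_pL1 : PosD ⟨⟨0, 1, 1⟩, ⟨980, 981, 1470⟩, ⟨0, 75, 10000⟩, ⟨2886, 3036, 1000⟩⟩ (yA25.hPL true) :=
  posD_of_check0 (c := ⟨239, ⟨3, 6, 9, 3⟩⟩) (by decide +kernel)

def yA25_pU1a : PosD ⟨⟨0, 1, 2⟩, ⟨980, 981, 1470⟩, ⟨0, 75, 10000⟩, ⟨2886, 3036, 1000⟩⟩ (yA25.hPU true) :=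
  posD_of_check0 (c := ⟨242, ⟨3, 6, 9, 3⟩⟩) (by decide +kernel)

def yA25_pU1ba : PosD ⟨⟨2, 3, 4⟩, ⟨980, 981, 1470⟩, ⟨0, 75, 10000⟩, ⟨2886, 3036, 1000⟩⟩ (yA25.hPU true) :=
  posD_of_check0 (c := ⟨245, ⟨3, 6, 9, 3⟩⟩) (by decide +kernel)

def yA25_pU1bb : PosD ⟨⟨3, 4, 4⟩, ⟨980, 981, 1470⟩, ⟨0, 75, 10000⟩, ⟨2886, 3036, 1000⟩⟩ (yA25.hPU true) :=
  posD_of_check0 (c := ⟨246, ⟨3, 6, 9, 3⟩⟩) (by decide +kernel)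

def yA25_pU1b : PosD ⟨⟨1, 2, 2⟩, ⟨980, 981, 1470⟩, ⟨0, 75, 10000⟩, ⟨2886, 3036, 1000⟩⟩ (yA25.hPU true) :=
  posD_units (b := ⟨⟨2, 4, 4⟩, ⟨980, 981, 1470⟩, ⟨0, 75, 10000⟩, ⟨2886, 3036, 1000⟩⟩) (by decide +kernel) (posD_join₀ yA25_pU1ba yA25_pU1bb)

def yA25_pU1 : PosD ⟨⟨0, 1, 1⟩, ⟨980, 981, 1470⟩, ⟨0, 75, 10000⟩, ⟨2886, 3036, 1000⟩⟩ (yA25.hPU true) :=
  posD_units (b := ⟨⟨0, 2, 2⟩, ⟨980, 981, 1470⟩, ⟨0, 75, 10000⟩, ⟨2886, 3036, 1000⟩⟩) (by decide +kernel) (posD_join₀ yA25_pU1a yA25_pU1b)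

def yA25_kU1 : PosD ⟨⟨0, 1, 1⟩, ⟨980, 981, 1470⟩, ⟨0, 75, 10000⟩, ⟨2886, 3036, 1000⟩⟩ (yA25.hKU true) :=
  posD_of_check0 (c := ⟨234, ⟨3, 6, 9, 3⟩⟩) (by decide +kernel)

def yA25_kL1 : PosD ⟨⟨0, 1, 1⟩, ⟨980, 981, 1470⟩, ⟨0, 75, 10000⟩, ⟨2886, 3036, 1000⟩⟩ (yA25.hKL true) :=
  posD_of_check0 (c := ⟨234, ⟨3, 6, 9, 3⟩⟩) (by decide +kernel)

def yA25_wU1 : PosD ⟨⟨0, 1, 1⟩, ⟨980, 981, 1470⟩, ⟨0, 75, 10000⟩, ⟨2886, 3036, 1000⟩⟩ (yA25.hWU true) :=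
  posD_of_check0 (c := ⟨274, ⟨3, 8, 10, 3⟩⟩) (by decide +kernel)

def yA25_wL1 : PosD ⟨⟨0, 1, 1⟩, ⟨980, 981, 1470⟩, ⟨0, 75, 10000⟩, ⟨2886, 3036, 1000⟩⟩ (yA25.hWL true) :=
  posD_of_check0 (c := ⟨273, ⟨3, 8, 10, 3⟩⟩) (by decide +kernel)

/-- The bounds of the piece. -/
def yA25_env : yA25.Env ⟨⟨0, 1, 1⟩, ⟨980, 981, 1470⟩, ⟨0, 75, 10000⟩, ⟨2886, 3036, 1000⟩⟩ :=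
  ⟨yA25_p0, Bool.forall_bool.2 ⟨yA25_den0, yA25_den1⟩, yA25_gn, Bool.forall_bool.2 ⟨yA25_ev0, yA25_ev1⟩, Bool.forall_bool.2 ⟨yA25_zL0, yA25_zL1⟩, Bool.forall_bool.2 ⟨yA25_zU0, yA25_zU1⟩, Bool.forall_bool.2 ⟨yA25_eL0, yA25_eL1⟩, ⟨.inr rfl, .inr rfl⟩, Bool.forall_bool.2 ⟨yA25_eH0, yA25_eH1⟩, ⟨.inr rfl, .inr rfl⟩, Bool.forall_bool.2 ⟨yA25_pL0, yA25_pL1⟩, ⟨.inr rfl, .inr rfl⟩, Bool.forall_bool.2 ⟨yA25_pU0, yA25_pU1⟩, ⟨.inr rfl, .inr rfl⟩, Bool.forall_bool.2 ⟨yA25_kU0, yA25_kU1⟩, ⟨.inr rfl, .inr rfl⟩, Bool.forall_bool.2 ⟨yA25_kL0, yA25_kL1⟩, ⟨.inr rfl, .inr rfl⟩, Bool.forall_bool.2 ⟨yA25_wU0, yA25_wU1⟩, ⟨.inr rfl, .inr rfl⟩, Bool.forall_bool.2 ⟨yA25_wL0, yA25_wL1⟩, ⟨.inr rfl, .inr rfl⟩⟩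

def yA25_pU20 : PosD ⟨⟨0, 1, 1⟩, ⟨980, 981, 1470⟩, ⟨0, 75, 10000⟩, ⟨2886, 3036, 1000⟩⟩ (({ yA25 with pU := yA25PU } : Piece).hPU false) :=
  posD_of_check0 (c := ⟨268, ⟨3, 6, 9, 3⟩⟩) (by decide +kernel)

def yA25_pU21aaaa : PosD ⟨⟨0, 1, 16⟩, ⟨980, 981, 1470⟩, ⟨0, 75, 10000⟩, ⟨2886, 3036, 1000⟩⟩ (({ yA25 with pU := yA25PU } : Piece).hPU true) :=
  posD_of_check0 (c := ⟨250, ⟨3, 6, 9, 3⟩⟩) (by decide +kernel)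

def yA25_pU21aaaba : PosD ⟨⟨1, 2, 16⟩, ⟨980, 981, 1470⟩, ⟨0, 37, 10000⟩, ⟨2886, 3036, 1000⟩⟩ (({ yA25 with pU := yA25PU } : Piece).hPU true) :=
  posD_of_check0 (c := ⟨250, ⟨3, 6, 9, 3⟩⟩) (by decide +kernel)

def yA25_pU21aaabb : PosD ⟨⟨1, 2, 16⟩, ⟨980, 981, 1470⟩, ⟨37, 75, 10000⟩, ⟨2886, 3036, 1000⟩⟩ (({ yA25 with pU := yA25PU } : Piece).hPU true) :=
  posD_of_check (c := ⟨251, ⟨3, 6, 9, 3⟩⟩) (by decide +kernel)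

def yA25_pU21aaab : PosD ⟨⟨1, 2, 16⟩, ⟨980, 981, 1470⟩, ⟨0, 75, 10000⟩, ⟨2886, 3036, 1000⟩⟩ (({ yA25 with pU := yA25PU } : Piece).hPU true) :=
  posD_join₂ yA25_pU21aaaba yA25_pU21aaabb

def yA25_pU21aaa : PosD ⟨⟨0, 1, 8⟩, ⟨980, 981, 1470⟩, ⟨0, 75, 10000⟩, ⟨2886, 3036, 1000⟩⟩ (({ yA25 with pU := yA25PU } : Piece).hPU true) :=
  posD_units (b := ⟨⟨0, 2, 16⟩, ⟨980, 981, 1470⟩, ⟨0, 75, 10000⟩, ⟨2886, 3036, 1000⟩⟩) (by decide +kernel) (posD_join₀ yA25_pU21aaaa yA25_pU21aaab)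

def yA25_pU21aaba : PosD ⟨⟨1, 2, 8⟩, ⟨980, 981, 1470⟩, ⟨0, 37, 10000⟩, ⟨2886, 3036, 1000⟩⟩ (({ yA25 with pU := yA25PU } : Piece).hPU true) :=
  posD_of_check0 (c := ⟨248, ⟨3, 6, 9, 3⟩⟩) (by decide +kernel)

def yA25_pU21aabb : PosD ⟨⟨1, 2, 8⟩, ⟨980, 981, 1470⟩, ⟨37, 75, 10000⟩, ⟨2886, 3036, 1000⟩⟩ (({ yA25 with pU := yA25PU } : Piece).hPU true) :=
  posD_of_check (c := ⟨248, ⟨3, 6, 9, 3⟩⟩) (by decide +kernel)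

def yA25_pU21aab : PosD ⟨⟨1, 2, 8⟩, ⟨980, 981, 1470⟩, ⟨0, 75, 10000⟩, ⟨2886, 3036, 1000⟩⟩ (({ yA25 with pU := yA25PU } : Piece).hPU true) :=
  posD_join₂ yA25_pU21aaba yA25_pU21aabb

def yA25_pU21aa : PosD ⟨⟨0, 1, 4⟩, ⟨980, 981, 1470⟩, ⟨0, 75, 10000⟩, ⟨2886, 3036, 1000⟩⟩ (({ yA25 with pU := yA25PU } : Piece).hPU true) :=
  posD_units (b := ⟨⟨0, 2, 8⟩, ⟨980, 981, 1470⟩, ⟨0, 75, 10000⟩, ⟨2886, 3036, 1000⟩⟩) (by decide +kernel) (posD_join₀ yA25_pU21aaa yA25_pU21aab)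

def yA25_pU21ab : PosD ⟨⟨1, 2, 4⟩, ⟨980, 981, 1470⟩, ⟨0, 75, 10000⟩, ⟨2886, 3036, 1000⟩⟩ (({ yA25 with pU := yA25PU } : Piece).hPU true) :=
  posD_of_check0 (c := ⟨245, ⟨3, 6, 9, 3⟩⟩) (by decide +kernel)

def yA25_pU21a : PosD ⟨⟨0, 1, 2⟩, ⟨980, 981, 1470⟩, ⟨0, 75, 10000⟩, ⟨2886, 3036, 1000⟩⟩ (({ yA25 with pU := yA25PU } : Piece).hPU true) :=
  posD_units (b := ⟨⟨0, 2, 4⟩, ⟨980, 981, 1470⟩, ⟨0, 75, 10000⟩, ⟨2886, 3036, 1000⟩⟩) (by decide +kernel) (posD_join₀ yA25_pU21aa yA25_pU21ab)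

def yA25_pU21b : PosD ⟨⟨1, 2, 2⟩, ⟨980, 981, 1470⟩, ⟨0, 75, 10000⟩, ⟨2886, 3036, 1000⟩⟩ (({ yA25 with pU := yA25PU } : Piece).hPU true) :=
  posD_of_check0 (c := ⟨243, ⟨3, 6, 9, 3⟩⟩) (by decide +kernel)

def yA25_pU21 : PosD ⟨⟨0, 1, 1⟩, ⟨980, 981, 1470⟩, ⟨0, 75, 10000⟩, ⟨2886, 3036, 1000⟩⟩ (({ yA25 with pU := yA25PU } : Piece).hPU true) :=
  posD_units (b := ⟨⟨0, 2, 2⟩, ⟨980, 981, 1470⟩, ⟨0, 75, 10000⟩, ⟨2886, 3036, 1000⟩⟩) (by decide +kernel) (posD_join₀ yA25_pU21a yA25_pU21b)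

/-- The bounds with the other bound of `p`. -/
def yA25_envU : ({ yA25 with pU := yA25PU } : Piece).Env ⟨⟨0, 1, 1⟩, ⟨980, 981, 1470⟩, ⟨0, 75, 10000⟩, ⟨2886, 3036, 1000⟩⟩ :=
  yA25_env.withU yA25PU (Bool.forall_bool.2 ⟨yA25_pU20, yA25_pU21⟩) ⟨.inr rfl, .inr rfl⟩

def yA25Q_p0 : PosD ⟨⟨0, 1, 1⟩, ⟨980, 981, 1470⟩, ⟨0, 75, 10000⟩, ⟨2886, 3036, 1000⟩⟩ (yA25Q.hP0) :=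
  posD_of_check0 (c := ⟨40, ⟨0, 1, 1, 1⟩⟩) (by decide +kernel)

def yA25Q_gn : PosD ⟨⟨0, 1, 1⟩, ⟨980, 981, 1470⟩, ⟨0, 75, 10000⟩, ⟨2886, 3036, 1000⟩⟩ (yA25Q.hGn) :=
  posD_of_check0 (c := ⟨60, ⟨1, 1, 2, 1⟩⟩) (by decide +kernel)

def yA25Q_den0 : PosD ⟨⟨0, 1, 1⟩, ⟨980, 981, 1470⟩, ⟨0, 75, 10000⟩, ⟨2886, 3036, 1000⟩⟩ (yA25Q.hDen false) :=
  posD_of_check0 (c := ⟨45, ⟨0, 0, 2, 0⟩⟩) (by decide +kernel)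

def yA25Q_ev0 : PosD ⟨⟨0, 1, 1⟩, ⟨980, 981, 1470⟩, ⟨0, 75, 10000⟩, ⟨2886, 3036, 1000⟩⟩ (yA25Q.hEv false) :=
  posD_of_check0 (c := ⟨151, ⟨2, 2, 6, 1⟩⟩) (by decide +kernel)

def yA25Q_zL0 : PosD ⟨⟨0, 1, 1⟩, ⟨980, 981, 1470⟩, ⟨0, 75, 10000⟩, ⟨2886, 3036, 1000⟩⟩ (yA25Q.hZL false) :=
  posD_of_check0 (c := ⟨156, ⟨2, 3, 6, 2⟩⟩) (by decide +kernel)

def yA25Q_zU0 : PosD ⟨⟨0, 1, 1⟩, ⟨980, 981, 1470⟩, ⟨0, 75, 10000⟩, ⟨2886, 3036, 1000⟩⟩ (yA25Q.hZU false) :=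
  posD_of_check0 (c := ⟨147, ⟨2, 2, 6, 1⟩⟩) (by decide +kernel)

def yA25Q_eL0 : PosD ⟨⟨0, 1, 1⟩, ⟨980, 981, 1470⟩, ⟨0, 75, 10000⟩, ⟨2886, 3036, 1000⟩⟩ (yA25Q.hEL false) :=
  posD_of_check0 (c := ⟨237, ⟨3, 6, 8, 2⟩⟩) (by decide +kernel)

def yA25Q_eH0 : PosD ⟨⟨0, 1, 1⟩, ⟨980, 981, 1470⟩, ⟨0, 75, 10000⟩, ⟨2886, 3036, 1000⟩⟩ (yA25Q.hEH false) :=
  posD_of_check0 (c := ⟨229, ⟨3, 5, 8, 2⟩⟩) (by decide +kernel)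

def yA25Q_pL0 : PosD ⟨⟨0, 1, 1⟩, ⟨980, 981, 1470⟩, ⟨0, 75, 10000⟩, ⟨2886, 3036, 1000⟩⟩ (yA25Q.hPL false) :=
  posD_of_check0 (c := ⟨259, ⟨3, 5, 9, 3⟩⟩) (by decide +kernel)

def yA25Q_pU0 : PosD ⟨⟨0, 1, 1⟩, ⟨980, 981, 1470⟩, ⟨0, 75, 10000⟩, ⟨2886, 3036, 1000⟩⟩ (yA25Q.hPU false) :=
  posD_of_check0 (c := ⟨258, ⟨3, 5, 9, 2⟩⟩) (by decide +kernel)

def yA25Q_kU0 : PosD ⟨⟨0, 1, 1⟩, ⟨980, 981, 1470⟩, ⟨0, 75, 10000⟩, ⟨2886, 3036, 1000⟩⟩ (yA25Q.hKU false) :=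
  posD_of_check0 (c := ⟨254, ⟨3, 5, 9, 3⟩⟩) (by decide +kernel)

def yA25Q_kL0 : PosD ⟨⟨0, 1, 1⟩, ⟨980, 981, 1470⟩, ⟨0, 75, 10000⟩, ⟨2886, 3036, 1000⟩⟩ (yA25Q.hKL false) :=
  posD_of_check0 (c := ⟨254, ⟨3, 5, 9, 3⟩⟩) (by decide +kernel)

def yA25Q_wU0 : PosD ⟨⟨0, 1, 1⟩, ⟨980, 981, 1470⟩, ⟨0, 75, 10000⟩, ⟨2886, 3036, 1000⟩⟩ (yA25Q.hWU false) :=
  posD_of_check0 (c := ⟨293, ⟨3, 7, 10, 3⟩⟩) (by decide +kernel)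

def yA25Q_wL0 : PosD ⟨⟨0, 1, 1⟩, ⟨980, 981, 1470⟩, ⟨0, 75, 10000⟩, ⟨2886, 3036, 1000⟩⟩ (yA25Q.hWL false) :=
  posD_of_check0 (c := ⟨293, ⟨3, 7, 10, 3⟩⟩) (by decide +kernel)

def yA25Q_den1 : PosD ⟨⟨0, 1, 1⟩, ⟨980, 981, 1470⟩, ⟨0, 75, 10000⟩, ⟨2886, 3036, 1000⟩⟩ (yA25Q.hDen true) :=
  posD_of_check0 (c := ⟨22, ⟨1, 0, 1, 0⟩⟩) (by decide +kernel)

def yA25Q_ev1 : PosD ⟨⟨0, 1, 1⟩, ⟨980, 981, 1470⟩, ⟨0, 75, 10000⟩, ⟨2886, 3036, 1000⟩⟩ (yA25Q.hEv true) :=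
  posD_of_check0 (c := ⟨123, ⟨2, 2, 6, 1⟩⟩) (by decide +kernel)

def yA25Q_zL1 : PosD ⟨⟨0, 1, 1⟩, ⟨980, 981, 1470⟩, ⟨0, 75, 10000⟩, ⟨2886, 3036, 1000⟩⟩ (yA25Q.hZL true) :=
  posD_of_check0 (c := ⟨128, ⟨2, 3, 6, 2⟩⟩) (by decide +kernel)

def yA25Q_zU1 : PosD ⟨⟨0, 1, 1⟩, ⟨980, 981, 1470⟩, ⟨0, 75, 10000⟩, ⟨2886, 3036, 1000⟩⟩ (yA25Q.hZU true) :=
  posD_of_check0 (c := ⟨119, ⟨2, 2, 6, 1⟩⟩) (by decide +kernel)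

def yA25Q_eL1 : PosD ⟨⟨0, 1, 1⟩, ⟨980, 981, 1470⟩, ⟨0, 75, 10000⟩, ⟨2886, 3036, 1000⟩⟩ (yA25Q.hEL true) :=
  posD_of_check0 (c := ⟨209, ⟨3, 6, 8, 2⟩⟩) (by decide +kernel)

def yA25Q_eH1 : PosD ⟨⟨0, 1, 1⟩, ⟨980, 981, 1470⟩, ⟨0, 75, 10000⟩, ⟨2886, 3036, 1000⟩⟩ (yA25Q.hEH true) :=
  posD_of_check0 (c := ⟨201, ⟨3, 5, 8, 2⟩⟩) (by decide +kernel)

def yA25Q_pL1 : PosD ⟨⟨0, 1, 1⟩, ⟨980, 981, 1470⟩, ⟨0, 75, 10000⟩, ⟨2886, 3036, 1000⟩⟩ (yA25Q.hPL true) :=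
  posD_of_check0 (c := ⟨231, ⟨3, 5, 9, 3⟩⟩) (by decide +kernel)

def yA25Q_pU1 : PosD ⟨⟨0, 1, 1⟩, ⟨980, 981, 1470⟩, ⟨0, 75, 10000⟩, ⟨2886, 3036, 1000⟩⟩ (yA25Q.hPU true) :=
  posD_of_check0 (c := ⟨230, ⟨3, 5, 9, 2⟩⟩) (by decide +kernel)

def yA25Q_kU1 : PosD ⟨⟨0, 1, 1⟩, ⟨980, 981, 1470⟩, ⟨0, 75, 10000⟩, ⟨2886, 3036, 1000⟩⟩ (yA25Q.hKU true) :=
  posD_of_check0 (c := ⟨226, ⟨3, 5, 9, 3⟩⟩) (by decide +kernel)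

def yA25Q_kL1 : PosD ⟨⟨0, 1, 1⟩, ⟨980, 981, 1470⟩, ⟨0, 75, 10000⟩, ⟨2886, 3036, 1000⟩⟩ (yA25Q.hKL true) :=
  posD_of_check0 (c := ⟨226, ⟨3, 5, 9, 3⟩⟩) (by decide +kernel)

def yA25Q_wU1 : PosD ⟨⟨0, 1, 1⟩, ⟨980, 981, 1470⟩, ⟨0, 75, 10000⟩, ⟨2886, 3036, 1000⟩⟩ (yA25Q.hWU true) :=
  posD_of_check0 (c := ⟨264, ⟨3, 7, 10, 3⟩⟩) (by decide +kernel)

def yA25Q_wL1 : PosD ⟨⟨0, 1, 1⟩, ⟨980, 981, 1470⟩, ⟨0, 75, 10000⟩, ⟨2886, 3036, 1000⟩⟩ (yA25Q.hWL true) :=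
  posD_of_check0 (c := ⟨265, ⟨3, 7, 10, 3⟩⟩) (by decide +kernel)

def yA25Q_nupU : PosD ⟨⟨0, 1, 1⟩, ⟨980, 981, 1470⟩, ⟨0, 75, 10000⟩, ⟨2886, 3036, 1000⟩⟩ (yA25Q.pU.ν) :=
  posD_of_check0 (c := ⟨15, ⟨0, 0, 0, 0⟩⟩) (by decide +kernel)

/-- The bounds of the piece. -/
def yA25Q_env : yA25Q.Env ⟨⟨0, 1, 1⟩, ⟨980, 981, 1470⟩, ⟨0, 75, 10000⟩, ⟨2886, 3036, 1000⟩⟩ :=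
  ⟨yA25Q_p0, Bool.forall_bool.2 ⟨yA25Q_den0, yA25Q_den1⟩, yA25Q_gn, Bool.forall_bool.2 ⟨yA25Q_ev0, yA25Q_ev1⟩, Bool.forall_bool.2 ⟨yA25Q_zL0, yA25Q_zL1⟩, Bool.forall_bool.2 ⟨yA25Q_zU0, yA25Q_zU1⟩, Bool.forall_bool.2 ⟨yA25Q_eL0, yA25Q_eL1⟩, ⟨.inr rfl, .inr rfl⟩, Bool.forall_bool.2 ⟨yA25Q_eH0, yA25Q_eH1⟩, ⟨.inr rfl, .inr rfl⟩, Bool.forall_bool.2 ⟨yA25Q_pL0, yA25Q_pL1⟩, ⟨.inr rfl, .inr rfl⟩, Bool.forall_bool.2 ⟨yA25Q_pU0, yA25Q_pU1⟩, ⟨.inr rfl, .inl yA25Q_nupU⟩, Bool.forall_bool.2 ⟨yA25Q_kU0, yA25Q_kU1⟩, ⟨.inr rfl, .inr rfl⟩, Bool.forall_bool.2 ⟨yA25Q_kL0, yA25Q_kL1⟩, ⟨.inr rfl, .inr rfl⟩, Bool.forall_bool.2 ⟨yA25Q_wU0, yA25Q_wU1⟩, ⟨.inr rfl, .inr rfl⟩, Bool.forall_bool.2 ⟨yA25Q_wL0, yA25Q_wL1⟩, ⟨.inr rfl, .inr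 rfl⟩⟩

def yA25A_pp : PosD ⟨⟨0, 1, 1⟩, ⟨980, 981, 1470⟩, ⟨0, 75, 10000⟩, ⟨2886, 3036, 1000⟩⟩ (yA25A.xPL) :=
  posD_of_check0 (c := ⟨90, ⟨1, 1, 3, 3⟩⟩) (by decide +kernel)

def yA25A_k2p : PosD ⟨⟨0, 1, 1⟩, ⟨980, 981, 1470⟩, ⟨0, 75, 10000⟩, ⟨2886, 3036, 1000⟩⟩ (yA25A.k2p yA25A.xE) :=
  posD_of_check0 (c := ⟨20, ⟨0, 0, 1, 0⟩⟩) (by decide +kernel)

def yA25A_k2m : PosD ⟨⟨0, 1, 1⟩, ⟨980, 981, 1470⟩, ⟨0, 75, 10000⟩, ⟨2886, 3036, 1000⟩⟩ (yA25A.k2m yA25A.xE) :=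
  posD_of_check0 (c := ⟨20, ⟨0, 0, 1, 0⟩⟩) (by decide +kernel)

def yA25A_v2p : PosD ⟨⟨0, 1, 1⟩, ⟨980, 981, 1470⟩, ⟨0, 75, 10000⟩, ⟨2886, 3036, 1000⟩⟩ (yA25A.hV2p) :=
  posD_of_check0 (c := ⟨223, ⟨0, 5, 10, 4⟩⟩) (by decide +kernel)

def yA25A_v2m : PosD ⟨⟨0, 1, 1⟩, ⟨980, 981, 1470⟩, ⟨0, 75, 10000⟩, ⟨2886, 3036, 1000⟩⟩ (yA25A.hV2m) :=
  posD_of_check0 (c := ⟨223, ⟨0, 5, 10, 4⟩⟩) (by decide +kernel)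

def yA25A_v3p : PosD ⟨⟨0, 1, 1⟩, ⟨980, 981, 1470⟩, ⟨0, 75, 10000⟩, ⟨2886, 3036, 1000⟩⟩ (yA25A.hV3p) :=
  posD_of_check0 (c := ⟨220, ⟨0, 5, 9, 4⟩⟩) (by decide +kernel)

def yA25A_v3m : PosD ⟨⟨0, 1, 1⟩, ⟨980, 981, 1470⟩, ⟨0, 75, 10000⟩, ⟨2886, 3036, 1000⟩⟩ (yA25A.hV3m) :=
  posD_of_check0 (c := ⟨220, ⟨0, 5, 9, 4⟩⟩) (by decide +kernel)

def yA25A_kap0 : PosD ⟨⟨0, 1, 1⟩, ⟨980, 981, 1470⟩, ⟨0, 75, 10000⟩, ⟨2886, 3036, 1000⟩⟩ (yA25A.kap false) :=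
  posD_of_check0 (c := ⟨67, ⟨1, 1, 2, 2⟩⟩) (by decide +kernel)

def yA25A_c10 : PosD ⟨⟨0, 1, 1⟩, ⟨980, 981, 1470⟩, ⟨0, 75, 10000⟩, ⟨2886, 3036, 1000⟩⟩ (yA25A.hC1 false) :=
  posD_of_check0 (c := ⟨262, ⟨3, 5, 9, 7⟩⟩) (by decide +kernel)

def yA25A_neg0 : PosD ⟨⟨0, 1, 1⟩, ⟨980, 981, 1470⟩, ⟨0, 75, 10000⟩, ⟨2886, 3036, 1000⟩⟩ (yA25A.hNeg (yA25A.pEnd false)) :=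
  posD_of_check0 (c := ⟨257, ⟨2, 5, 9, 7⟩⟩) (by decide +kernel)

def yA25A_neglo0 : PosD ⟨⟨0, 1, 1⟩, ⟨980, 981, 1470⟩, ⟨0, 75, 10000⟩, ⟨2886, 3036, 1000⟩⟩ (yA25A.hNegLo (yA25A.pEnd false)) :=
  posD_of_check0 (c := ⟨257, ⟨2, 5, 9, 7⟩⟩) (by decide +kernel)

def yA25A_tg00 : PosD ⟨⟨0, 1, 1⟩, ⟨980, 981, 1470⟩, ⟨0, 75, 10000⟩, ⟨2886, 3036, 1000⟩⟩ (yA25A.hG false (yA25A.pEnd false)) :=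
  posD_of_check0 (c := ⟨369, ⟨2, 7, 14, 9⟩⟩) (by decide +kernel)

def yA25A_c2p00 : PosD ⟨⟨0, 1, 1⟩, ⟨980, 981, 1470⟩, ⟨0, 75, 10000⟩, ⟨2886, 3036, 1000⟩⟩ (yA25A.hC2p false (yA25A.pEnd false)) :=
  posD_of_check0 (c := ⟨400, ⟨2, 7, 16, 10⟩⟩) (by decide +kernel)

def yA25A_c2m00 : PosD ⟨⟨0, 1, 1⟩, ⟨980, 981, 1470⟩, ⟨0, 75, 10000⟩, ⟨2886, 3036, 1000⟩⟩ (yA25A.hC2m false (yA25A.pEnd false)) :=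
  posD_of_check0 (c := ⟨400, ⟨2, 7, 16, 10⟩⟩) (by decide +kernel)

def yA25A_c3p00 : PosD ⟨⟨0, 1, 1⟩, ⟨980, 981, 1470⟩, ⟨0, 75, 10000⟩, ⟨2886, 3036, 1000⟩⟩ (yA25A.hC3p false false) :=
  posD_of_relax (k₁ := 0) (k₂ := 4) (k₃ := 0) (n := 16) (posD_of_check0 (c := ⟨402, ⟨3, 7, 15, 10⟩⟩) (by decide +kernel))

def yA25A_c3m00 : PosD ⟨⟨0, 1, 1⟩, ⟨980, 981, 1470⟩, ⟨0, 75, 10000⟩, ⟨2886, 3036, 1000⟩⟩ (yA25A.hC3m false false) :=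
  posD_of_relax (k₁ := 0) (k₂ := 3) (k₃ := 0) (n := 16) (posD_of_check0 (c := ⟨402, ⟨3, 7, 15, 10⟩⟩) (by decide +kernel))

def yA25A_tmg00 : PosD ⟨⟨0, 1, 1⟩, ⟨980, 981, 1470⟩, ⟨0, 75, 10000⟩, ⟨2886, 3036, 1000⟩⟩ (yA25A.hTMG false (yA25A.pEnd false)) :=
  posD_of_check0 (c := ⟨385, ⟨2, 7, 14, 10⟩⟩) (by decide +kernel)

def yA25A_tg01 : PosD ⟨⟨0, 1, 1⟩, ⟨980, 981, 1470⟩, ⟨0, 75, 10000⟩, ⟨2886, 3036, 1000⟩⟩ (yA25A.hG true (yA25A.pEnd false)) :=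
  posD_of_check0 (c := ⟨369, ⟨2, 7, 14, 9⟩⟩) (by decide +kernel)

def yA25A_c2p01 : PosD ⟨⟨0, 1, 1⟩, ⟨980, 981, 1470⟩, ⟨0, 75, 10000⟩, ⟨2886, 3036, 1000⟩⟩ (yA25A.hC2p true (yA25A.pEnd false)) :=
  posD_of_check0 (c := ⟨400, ⟨2, 7, 16, 10⟩⟩) (by decide +kernel)

def yA25A_c2m01 : PosD ⟨⟨0, 1, 1⟩, ⟨980, 981, 1470⟩, ⟨0, 75, 10000⟩, ⟨2886, 3036, 1000⟩⟩ (yA25A.hC2m true (yA25A.pEnd false)) :=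
  posD_of_check0 (c := ⟨400, ⟨2, 7, 16, 10⟩⟩) (by decide +kernel)

def yA25A_c3p01 : PosD ⟨⟨0, 1, 1⟩, ⟨980, 981, 1470⟩, ⟨0, 75, 10000⟩, ⟨2886, 3036, 1000⟩⟩ (yA25A.hC3p false true) :=
  posD_of_relax (k₁ := 0) (k₂ := 4) (k₃ := 0) (n := 16) (posD_of_check0 (c := ⟨402, ⟨3, 7, 15, 10⟩⟩) (by decide +kernel))

def yA25A_c3m01 : PosD ⟨⟨0, 1, 1⟩, ⟨980, 981, 1470⟩, ⟨0, 75, 10000⟩, ⟨2886, 3036, 1000⟩⟩ (yA25A.hC3m false true) :=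
  posD_of_relax (k₁ := 0) (k₂ := 3) (k₃ := 0) (n := 16) (posD_of_check0 (c := ⟨402, ⟨3, 7, 15, 10⟩⟩) (by decide +kernel))

def yA25A_tmg01 : PosD ⟨⟨0, 1, 1⟩, ⟨980, 981, 1470⟩, ⟨0, 75, 10000⟩, ⟨2886, 3036, 1000⟩⟩ (yA25A.hTMG true (yA25A.pEnd false)) :=
  posD_of_check0 (c := ⟨385, ⟨2, 7, 14, 10⟩⟩) (by decide +kernel)

def yA25A_kap1 : PosD ⟨⟨0, 1, 1⟩, ⟨980, 981, 1470⟩, ⟨0, 75, 10000⟩, ⟨2886, 3036, 1000⟩⟩ (yA25A.kap true) :=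
  posD_of_check0 (c := ⟨70, ⟨1, 1, 2, 2⟩⟩) (by decide +kernel)

def yA25A_c11 : PosD ⟨⟨0, 1, 1⟩, ⟨980, 981, 1470⟩, ⟨0, 75, 10000⟩, ⟨2886, 3036, 1000⟩⟩ (yA25A.hC1 true) :=
  posD_of_check0 (c := ⟨264, ⟨3, 5, 9, 7⟩⟩) (by decide +kernel)

def yA25A_neg1 : PosD ⟨⟨0, 1, 1⟩, ⟨980, 981, 1470⟩, ⟨0, 75, 10000⟩, ⟨2886, 3036, 1000⟩⟩ (yA25A.hNeg (yA25A.pEnd true)) :=
  posD_of_check0 (c := ⟨257, ⟨2, 5, 9, 7⟩⟩) (by decide +kernel)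

def yA25A_neglo1 : PosD ⟨⟨0, 1, 1⟩, ⟨980, 981, 1470⟩, ⟨0, 75, 10000⟩, ⟨2886, 3036, 1000⟩⟩ (yA25A.hNegLo (yA25A.pEnd true)) :=
  posD_of_check0 (c := ⟨257, ⟨2, 5, 9, 7⟩⟩) (by decide +kernel)

def yA25A_tg10 : PosD ⟨⟨0, 1, 1⟩, ⟨980, 981, 1470⟩, ⟨0, 75, 10000⟩, ⟨2886, 3036, 1000⟩⟩ (yA25A.hG false (yA25A.pEnd true)) :=
  posD_of_check0 (c := ⟨369, ⟨2, 7, 14, 9⟩⟩) (by decide +kernel)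

def yA25A_c2p10 : PosD ⟨⟨0, 1, 1⟩, ⟨980, 981, 1470⟩, ⟨0, 75, 10000⟩, ⟨2886, 3036, 1000⟩⟩ (yA25A.hC2p false (yA25A.pEnd true)) :=
  posD_of_check0 (c := ⟨400, ⟨2, 7, 16, 10⟩⟩) (by decide +kernel)

def yA25A_c2m10 : PosD ⟨⟨0, 1, 1⟩, ⟨980, 981, 1470⟩, ⟨0, 75, 10000⟩, ⟨2886, 3036, 1000⟩⟩ (yA25A.hC2m false (yA25A.pEnd true)) :=
  posD_of_check0 (c := ⟨400, ⟨2, 7, 16, 10⟩⟩) (by decide +kernel)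

def yA25A_c3p10 : PosD ⟨⟨0, 1, 1⟩, ⟨980, 981, 1470⟩, ⟨0, 75, 10000⟩, ⟨2886, 3036, 1000⟩⟩ (yA25A.hC3p true false) :=
  posD_of_relax (k₁ := 0) (k₂ := 4) (k₃ := 0) (n := 16) (posD_of_check0 (c := ⟨404, ⟨3, 7, 15, 10⟩⟩) (by decide +kernel))

def yA25A_c3m10 : PosD ⟨⟨0, 1, 1⟩, ⟨980, 981, 1470⟩, ⟨0, 75, 10000⟩, ⟨2886, 3036, 1000⟩⟩ (yA25A.hC3m true false) :=
  posD_of_relax (k₁ := 0) (k₂ := 2) (k₃ := 0) (n := 16) (posD_of_check0 (c := ⟨404, ⟨3, 7, 15, 10⟩⟩) (by decide +kernel))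

def yA25A_tmg10 : PosD ⟨⟨0, 1, 1⟩, ⟨980, 981, 1470⟩, ⟨0, 75, 10000⟩, ⟨2886, 3036, 1000⟩⟩ (yA25A.hTMG false (yA25A.pEnd true)) :=
  posD_of_check0 (c := ⟨385, ⟨2, 7, 14, 10⟩⟩) (by decide +kernel)

def yA25A_tg11 : PosD ⟨⟨0, 1, 1⟩, ⟨980, 981, 1470⟩, ⟨0, 75, 10000⟩, ⟨2886, 3036, 1000⟩⟩ (yA25A.hG true (yA25A.pEnd true)) :=
  posD_of_check0 (c := ⟨369, ⟨2, 7, 14, 9⟩⟩) (by decide +kernel)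

def yA25A_c2p11 : PosD ⟨⟨0, 1, 1⟩, ⟨980, 981, 1470⟩, ⟨0, 75, 10000⟩, ⟨2886, 3036, 1000⟩⟩ (yA25A.hC2p true (yA25A.pEnd true)) :=
  posD_of_check0 (c := ⟨400, ⟨2, 7, 16, 10⟩⟩) (by decide +kernel)

def yA25A_c2m11 : PosD ⟨⟨0, 1, 1⟩, ⟨980, 981, 1470⟩, ⟨0, 75, 10000⟩, ⟨2886, 3036, 1000⟩⟩ (yA25A.hC2m true (yA25A.pEnd true)) :=
  posD_of_check0 (c := ⟨400, ⟨2, 7, 16, 10⟩⟩) (by decide +kernel)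

def yA25A_c3p11 : PosD ⟨⟨0, 1, 1⟩, ⟨980, 981, 1470⟩, ⟨0, 75, 10000⟩, ⟨2886, 3036, 1000⟩⟩ (yA25A.hC3p true true) :=
  posD_of_relax (k₁ := 0) (k₂ := 4) (k₃ := 0) (n := 16) (posD_of_check0 (c := ⟨404, ⟨3, 7, 15, 10⟩⟩) (by decide +kernel))

def yA25A_c3m11 : PosD ⟨⟨0, 1, 1⟩, ⟨980, 981, 1470⟩, ⟨0, 75, 10000⟩, ⟨2886, 3036, 1000⟩⟩ (yA25A.hC3m true true) :=
  posD_of_relax (k₁ := 0) (k₂ := 2) (k₃ := 0) (n := 16) (posD_of_check0 (c := ⟨404, ⟨3, 7, 15, 10⟩⟩) (by decide +kernel))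

def yA25A_tmg11 : PosD ⟨⟨0, 1, 1⟩, ⟨980, 981, 1470⟩, ⟨0, 75, 10000⟩, ⟨2886, 3036, 1000⟩⟩ (yA25A.hTMG true (yA25A.pEnd true)) :=
  posD_of_check0 (c := ⟨385, ⟨2, 7, 14, 10⟩⟩) (by decide +kernel)

/-- The signs of the piece. -/
def yA25A_sign : yA25A.Sign ⟨⟨0, 1, 1⟩, ⟨980, 981, 1470⟩, ⟨0, 75, 10000⟩, ⟨2886, 3036, 1000⟩⟩ :=
  ⟨yA25A_pp,
    yA25A_k2p,
    yA25A_k2m,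
    Bool.forall_bool.2 ⟨(Bool.forall_bool.2 ⟨yA25A_tg00, yA25A_tg01⟩), (Bool.forall_bool.2 ⟨yA25A_tg10, yA25A_tg11⟩)⟩,
    Bool.forall_bool.2 ⟨(Bool.forall_bool.2 ⟨yA25A_c2p00, yA25A_c2p01⟩), (Bool.forall_bool.2 ⟨yA25A_c2p10, yA25A_c2p11⟩)⟩,
    Bool.forall_bool.2 ⟨(Bool.forall_bool.2 ⟨yA25A_c2m00, yA25A_c2m01⟩), (Bool.forall_bool.2 ⟨yA25A_c2m10, yA25A_c2m11⟩)⟩,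
    Bool.forall_bool.2 ⟨yA25A_kap0, yA25A_kap1⟩,
    Bool.forall_bool.2 ⟨yA25A_c10, yA25A_c11⟩,
    Bool.forall_bool.2 ⟨(Bool.forall_bool.2 ⟨yA25A_c3p00, yA25A_c3p01⟩), (Bool.forall_bool.2 ⟨yA25A_c3p10, yA25A_c3p11⟩)⟩,
    Bool.forall_bool.2 ⟨(Bool.forall_bool.2 ⟨yA25A_c3m00, yA25A_c3m01⟩), (Bool.forall_bool.2 ⟨yA25A_c3m10, yA25A_c3m11⟩)⟩,
    Bool.forall_bool.2 ⟨(Bool.forall_bool.2 ⟨yA25A_tmg00, yA25A_tmg01⟩), (Bool.forall_bool.2 ⟨yA25A_tmg10, yA25A_tmg11⟩)⟩,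
    .inl (Bool.forall_bool.2 ⟨⟨yA25A_neg0, yA25A_neglo0⟩, ⟨yA25A_neg1, yA25A_neglo1⟩⟩),
    yA25A_v2p,
    yA25A_v2m,
    yA25A_v3p,
    yA25A_v3m,
    posD_sub (b := ⟨⟨0, 1, 1⟩, ⟨98, 99, 147⟩, ⟨0, 301, 10000⟩, ⟨1060, 4000, 1000⟩⟩) (by decide +kernel) yA_vG,
    posD_sub (b := ⟨⟨0, 1, 1⟩, ⟨98, 99, 147⟩, ⟨0, 301, 10000⟩, ⟨1060, 4000, 1000⟩⟩) (by decide +kernel) yA_vMG,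
    posD_sub (b := ⟨⟨0, 1, 1⟩, ⟨98, 99, 147⟩, ⟨0, 301, 10000⟩, ⟨1060, 4000, 1000⟩⟩) (by decide +kernel) yA_ak,
    posD_sub (b := ⟨⟨0, 1, 1⟩, ⟨98, 99, 147⟩, ⟨0, 301, 10000⟩, ⟨1060, 4000, 1000⟩⟩) (by decide +kernel) yA_aw,
    posD_sub (b := ⟨⟨0, 1, 1⟩, ⟨98, 99, 147⟩, ⟨0, 301, 10000⟩, ⟨1060, 4000, 1000⟩⟩) (by decide +kernel) yA_gk,
    posD_sub (b := ⟨⟨0, 1, 1⟩, ⟨98, 99, 147⟩, ⟨0, 301, 10000⟩, ⟨1060, 4000, 1000⟩⟩) (by decide +kernel) yA_gw,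
    posD_sub (b := ⟨⟨0, 1, 1⟩, ⟨98, 99, 147⟩, ⟨0, 301, 10000⟩, ⟨1060, 4000, 1000⟩⟩) (by decide +kernel) yA_ek,
    posD_sub (b := ⟨⟨0, 1, 1⟩, ⟨98, 99, 147⟩, ⟨0, 301, 10000⟩, ⟨1060, 4000, 1000⟩⟩) (by decide +kernel) yA_ew⟩

def yA25B_pp : PosD ⟨⟨0, 1, 1⟩, ⟨980, 981, 1470⟩, ⟨0, 75, 10000⟩, ⟨2886, 3036, 1000⟩⟩ (yA25B.xPL) :=
  posD_of_check0 (c := ⟨91, ⟨1, 1, 3, 3⟩⟩) (by decide +kernel)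

def yA25B_k2p : PosD ⟨⟨0, 1, 1⟩, ⟨980, 981, 1470⟩, ⟨0, 75, 10000⟩, ⟨2886, 3036, 1000⟩⟩ (yA25B.k2p yA25B.xE) :=
  posD_of_check0 (c := ⟨20, ⟨0, 0, 1, 0⟩⟩) (by decide +kernel)

def yA25B_k2m : PosD ⟨⟨0, 1, 1⟩, ⟨980, 981, 1470⟩, ⟨0, 75, 10000⟩, ⟨2886, 3036, 1000⟩⟩ (yA25B.k2m yA25B.xE) :=
  posD_of_check0 (c := ⟨20, ⟨0, 0, 1, 0⟩⟩) (by decide +kernel)

def yA25B_v2p : PosD ⟨⟨0, 1, 1⟩, ⟨980, 981, 1470⟩, ⟨0, 75, 10000⟩, ⟨2886, 3036, 1000⟩⟩ (yA25B.hV2p) :=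
  posD_of_check0 (c := ⟨223, ⟨0, 5, 10, 4⟩⟩) (by decide +kernel)

def yA25B_v2m : PosD ⟨⟨0, 1, 1⟩, ⟨980, 981, 1470⟩, ⟨0, 75, 10000⟩, ⟨2886, 3036, 1000⟩⟩ (yA25B.hV2m) :=
  posD_of_check0 (c := ⟨223, ⟨0, 5, 10, 4⟩⟩) (by decide +kernel)

def yA25B_v3p : PosD ⟨⟨0, 1, 1⟩, ⟨980, 981, 1470⟩, ⟨0, 75, 10000⟩, ⟨2886, 3036, 1000⟩⟩ (yA25B.hV3p) :=
  posD_of_check0 (c := ⟨220, ⟨0, 5, 9, 4⟩⟩) (by decide +kernel)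

def yA25B_v3m : PosD ⟨⟨0, 1, 1⟩, ⟨980, 981, 1470⟩, ⟨0, 75, 10000⟩, ⟨2886, 3036, 1000⟩⟩ (yA25B.hV3m) :=
  posD_of_check0 (c := ⟨220, ⟨0, 5, 9, 4⟩⟩) (by decide +kernel)

def yA25B_kap0 : PosD ⟨⟨0, 1, 1⟩, ⟨980, 981, 1470⟩, ⟨0, 75, 10000⟩, ⟨2886, 3036, 1000⟩⟩ (yA25B.kap false) :=
  posD_of_check0 (c := ⟨70, ⟨1, 1, 2, 2⟩⟩) (by decide +kernel)

def yA25B_c10a : PosD ⟨⟨0, 1, 2⟩, ⟨980, 981, 1470⟩, ⟨0, 75, 10000⟩, ⟨2886, 3036, 1000⟩⟩ (yA25B.hC1 false) :=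
  posD_of_check0 (c := ⟨266, ⟨3, 5, 9, 7⟩⟩) (by decide +kernel)

def yA25B_c10b : PosD ⟨⟨1, 2, 2⟩, ⟨980, 981, 1470⟩, ⟨0, 75, 10000⟩, ⟨2886, 3036, 1000⟩⟩ (yA25B.hC1 false) :=
  posD_of_check0 (c := ⟨267, ⟨3, 5, 9, 7⟩⟩) (by decide +kernel)

def yA25B_c10 : PosD ⟨⟨0, 1, 1⟩, ⟨980, 981, 1470⟩, ⟨0, 75, 10000⟩, ⟨2886, 3036, 1000⟩⟩ (yA25B.hC1 false) :=
  posD_units (b := ⟨⟨0, 2, 2⟩, ⟨980, 981, 1470⟩, ⟨0, 75, 10000⟩, ⟨2886, 3036, 1000⟩⟩) (by decide +kernel) (posD_join₀ yA25B_c10a yA25B_c10b)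

def yA25B_c1h0 : PosD ⟨⟨0, 1, 1⟩, ⟨980, 981, 1470⟩, ⟨0, 75, 10000⟩, ⟨2886, 3036, 1000⟩⟩ (yA25B.hC1' false) :=
  posD_of_check0 (c := ⟨266, ⟨3, 5, 9, 7⟩⟩) (by decide +kernel)

def yA25B_tg00 : PosD ⟨⟨0, 1, 1⟩, ⟨980, 981, 1470⟩, ⟨0, 75, 10000⟩, ⟨2886, 3036, 1000⟩⟩ (yA25B.hG false (yA25B.pEnd false)) :=
  posD_of_check0 (c := ⟨370, ⟨2, 7, 14, 9⟩⟩) (by decide +kernel)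

def yA25B_c2p00 : PosD ⟨⟨0, 1, 1⟩, ⟨980, 981, 1470⟩, ⟨0, 75, 10000⟩, ⟨2886, 3036, 1000⟩⟩ (yA25B.hC2p false (yA25B.pEnd false)) :=
  posD_of_check0 (c := ⟨401, ⟨2, 7, 16, 10⟩⟩) (by decide +kernel)

def yA25B_c2m00 : PosD ⟨⟨0, 1, 1⟩, ⟨980, 981, 1470⟩, ⟨0, 75, 10000⟩, ⟨2886, 3036, 1000⟩⟩ (yA25B.hC2m false (yA25B.pEnd false)) :=
  posD_of_check0 (c := ⟨401, ⟨2, 7, 16, 10⟩⟩) (by decide +kernel)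

def yA25B_c3p00 : PosD ⟨⟨0, 1, 1⟩, ⟨980, 981, 1470⟩, ⟨0, 75, 10000⟩, ⟨2886, 3036, 1000⟩⟩ (yA25B.hC3p false false) :=
  posD_of_check0 (c := ⟨405, ⟨3, 7, 15, 10⟩⟩) (by decide +kernel)

def yA25B_c3m00 : PosD ⟨⟨0, 1, 1⟩, ⟨980, 981, 1470⟩, ⟨0, 75, 10000⟩, ⟨2886, 3036, 1000⟩⟩ (yA25B.hC3m false false) :=
  posD_of_check0 (c := ⟨405, ⟨3, 7, 15, 10⟩⟩) (by decide +kernel)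

def yA25B_c3ph00 : PosD ⟨⟨0, 1, 1⟩, ⟨980, 981, 1470⟩, ⟨0, 75, 10000⟩, ⟨2886, 3036, 1000⟩⟩ (yA25B.hC3p' false false) :=
  posD_of_check0 (c := ⟨405, ⟨3, 7, 15, 10⟩⟩) (by decide +kernel)

def yA25B_c3mh00 : PosD ⟨⟨0, 1, 1⟩, ⟨980, 981, 1470⟩, ⟨0, 75, 10000⟩, ⟨2886, 3036, 1000⟩⟩ (yA25B.hC3m' false false) :=
  posD_of_check0 (c := ⟨405, ⟨3, 7, 15, 10⟩⟩) (by decide +kernel)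

def yA25B_up00 : PosD ⟨⟨0, 1, 1⟩, ⟨980, 981, 1470⟩, ⟨0, 75, 10000⟩, ⟨2886, 3036, 1000⟩⟩ (yA25B.hUp false false) :=
  posD_of_check0 (c := ⟨400, ⟨2, 7, 15, 10⟩⟩) (by decide +kernel)

def yA25B_um00 : PosD ⟨⟨0, 1, 1⟩, ⟨980, 981, 1470⟩, ⟨0, 75, 10000⟩, ⟨2886, 3036, 1000⟩⟩ (yA25B.hUm false false) :=
  posD_of_check0 (c := ⟨400, ⟨2, 7, 15, 10⟩⟩) (by decide +kernel)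

def yA25B_tmg00 : PosD ⟨⟨0, 1, 1⟩, ⟨980, 981, 1470⟩, ⟨0, 75, 10000⟩, ⟨2886, 3036, 1000⟩⟩ (yA25B.hTMG false (yA25B.pEnd false)) :=
  posD_of_check0 (c := ⟨385, ⟨2, 7, 14, 10⟩⟩) (by decide +kernel)

def yA25B_tg01 : PosD ⟨⟨0, 1, 1⟩, ⟨980, 981, 1470⟩, ⟨0, 75, 10000⟩, ⟨2886, 3036, 1000⟩⟩ (yA25B.hG true (yA25B.pEnd false)) :=
  posD_of_check0 (c := ⟨370, ⟨2, 7, 14, 9⟩⟩) (by decide +kernel)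

def yA25B_c2p01 : PosD ⟨⟨0, 1, 1⟩, ⟨980, 981, 1470⟩, ⟨0, 75, 10000⟩, ⟨2886, 3036, 1000⟩⟩ (yA25B.hC2p true (yA25B.pEnd false)) :=
  posD_of_check0 (c := ⟨401, ⟨2, 7, 16, 10⟩⟩) (by decide +kernel)

def yA25B_c2m01 : PosD ⟨⟨0, 1, 1⟩, ⟨980, 981, 1470⟩, ⟨0, 75, 10000⟩, ⟨2886, 3036, 1000⟩⟩ (yA25B.hC2m true (yA25B.pEnd false)) :=
  posD_of_check0 (c := ⟨401, ⟨2, 7, 16, 10⟩⟩) (by decide +kernel)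

def yA25B_c3p01 : PosD ⟨⟨0, 1, 1⟩, ⟨980, 981, 1470⟩, ⟨0, 75, 10000⟩, ⟨2886, 3036, 1000⟩⟩ (yA25B.hC3p false true) :=
  posD_of_check0 (c := ⟨405, ⟨3, 7, 15, 10⟩⟩) (by decide +kernel)

def yA25B_c3m01 : PosD ⟨⟨0, 1, 1⟩, ⟨980, 981, 1470⟩, ⟨0, 75, 10000⟩, ⟨2886, 3036, 1000⟩⟩ (yA25B.hC3m false true) :=
  posD_of_check0 (c := ⟨405, ⟨3, 7, 15, 10⟩⟩) (by decide +kernel)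

def yA25B_c3ph01 : PosD ⟨⟨0, 1, 1⟩, ⟨980, 981, 1470⟩, ⟨0, 75, 10000⟩, ⟨2886, 3036, 1000⟩⟩ (yA25B.hC3p' false true) :=
  posD_of_check0 (c := ⟨405, ⟨3, 7, 15, 10⟩⟩) (by decide +kernel)

def yA25B_c3mh01 : PosD ⟨⟨0, 1, 1⟩, ⟨980, 981, 1470⟩, ⟨0, 75, 10000⟩, ⟨2886, 3036, 1000⟩⟩ (yA25B.hC3m' false true) :=
  posD_of_check0 (c := ⟨405, ⟨3, 7, 15, 10⟩⟩) (by decide +kernel)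

def yA25B_up01 : PosD ⟨⟨0, 1, 1⟩, ⟨980, 981, 1470⟩, ⟨0, 75, 10000⟩, ⟨2886, 3036, 1000⟩⟩ (yA25B.hUp false true) :=
  posD_of_check0 (c := ⟨400, ⟨2, 7, 15, 10⟩⟩) (by decide +kernel)

def yA25B_um01 : PosD ⟨⟨0, 1, 1⟩, ⟨980, 981, 1470⟩, ⟨0, 75, 10000⟩, ⟨2886, 3036, 1000⟩⟩ (yA25B.hUm false true) :=
  posD_of_check0 (c := ⟨400, ⟨2, 7, 15, 10⟩⟩) (by decide +kernel)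

def yA25B_tmg01 : PosD ⟨⟨0, 1, 1⟩, ⟨980, 981, 1470⟩, ⟨0, 75, 10000⟩, ⟨2886, 3036, 1000⟩⟩ (yA25B.hTMG true (yA25B.pEnd false)) :=
  posD_of_check0 (c := ⟨385, ⟨2, 7, 14, 10⟩⟩) (by decide +kernel)

def yA25B_kap1 : PosD ⟨⟨0, 1, 1⟩, ⟨980, 981, 1470⟩, ⟨0, 75, 10000⟩, ⟨2886, 3036, 1000⟩⟩ (yA25B.kap true) :=
  posD_of_check0 (c := ⟨70, ⟨1, 1, 2, 2⟩⟩) (by decide +kernel)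

def yA25B_c11 : PosD ⟨⟨0, 1, 1⟩, ⟨980, 981, 1470⟩, ⟨0, 75, 10000⟩, ⟨2886, 3036, 1000⟩⟩ (yA25B.hC1 true) :=
  posD_of_check0 (c := ⟨266, ⟨3, 5, 9, 7⟩⟩) (by decide +kernel)

def yA25B_c1h1 : PosD ⟨⟨0, 1, 1⟩, ⟨980, 981, 1470⟩, ⟨0, 75, 10000⟩, ⟨2886, 3036, 1000⟩⟩ (yA25B.hC1' true) :=
  posD_of_check0 (c := ⟨266, ⟨3, 5, 9, 7⟩⟩) (by decide +kernel)

def yA25B_tg10 : PosD ⟨⟨0, 1, 1⟩, ⟨980, 981, 1470⟩, ⟨0, 75, 10000⟩, ⟨2886, 3036, 1000⟩⟩ (yA25B.hG false (yA25B.pEnd true)) :=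
  posD_of_check0 (c := ⟨371, ⟨2, 7, 14, 9⟩⟩) (by decide +kernel)

def yA25B_c2p10 : PosD ⟨⟨0, 1, 1⟩, ⟨980, 981, 1470⟩, ⟨0, 75, 10000⟩, ⟨2886, 3036, 1000⟩⟩ (yA25B.hC2p false (yA25B.pEnd true)) :=
  posD_of_check0 (c := ⟨401, ⟨2, 7, 16, 10⟩⟩) (by decide +kernel)

def yA25B_c2m10 : PosD ⟨⟨0, 1, 1⟩, ⟨980, 981, 1470⟩, ⟨0, 75, 10000⟩, ⟨2886, 3036, 1000⟩⟩ (yA25B.hC2m false (yA25B.pEnd true)) :=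
  posD_of_check0 (c := ⟨401, ⟨2, 7, 16, 10⟩⟩) (by decide +kernel)

def yA25B_c3p10 : PosD ⟨⟨0, 1, 1⟩, ⟨980, 981, 1470⟩, ⟨0, 75, 10000⟩, ⟨2886, 3036, 1000⟩⟩ (yA25B.hC3p true false) :=
  posD_of_check0 (c := ⟨406, ⟨3, 7, 15, 10⟩⟩) (by decide +kernel)

def yA25B_c3m10 : PosD ⟨⟨0, 1, 1⟩, ⟨980, 981, 1470⟩, ⟨0, 75, 10000⟩, ⟨2886, 3036, 1000⟩⟩ (yA25B.hC3m true false) :=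
  posD_of_check0 (c := ⟨406, ⟨3, 7, 15, 10⟩⟩) (by decide +kernel)

def yA25B_c3ph10 : PosD ⟨⟨0, 1, 1⟩, ⟨980, 981, 1470⟩, ⟨0, 75, 10000⟩, ⟨2886, 3036, 1000⟩⟩ (yA25B.hC3p' true false) :=
  posD_of_check0 (c := ⟨406, ⟨3, 7, 15, 10⟩⟩) (by decide +kernel)

def yA25B_c3mh10 : PosD ⟨⟨0, 1, 1⟩, ⟨980, 981, 1470⟩, ⟨0, 75, 10000⟩, ⟨2886, 3036, 1000⟩⟩ (yA25B.hC3m' true false) :=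
  posD_of_check0 (c := ⟨406, ⟨3, 7, 15, 10⟩⟩) (by decide +kernel)

def yA25B_up10 : PosD ⟨⟨0, 1, 1⟩, ⟨980, 981, 1470⟩, ⟨0, 75, 10000⟩, ⟨2886, 3036, 1000⟩⟩ (yA25B.hUp true false) :=
  posD_of_check0 (c := ⟨400, ⟨2, 7, 15, 10⟩⟩) (by decide +kernel)

def yA25B_um10 : PosD ⟨⟨0, 1, 1⟩, ⟨980, 981, 1470⟩, ⟨0, 75, 10000⟩, ⟨2886, 3036, 1000⟩⟩ (yA25B.hUm true false) :=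
  posD_of_check0 (c := ⟨400, ⟨2, 7, 15, 10⟩⟩) (by decide +kernel)

def yA25B_tmg10 : PosD ⟨⟨0, 1, 1⟩, ⟨980, 981, 1470⟩, ⟨0, 75, 10000⟩, ⟨2886, 3036, 1000⟩⟩ (yA25B.hTMG false (yA25B.pEnd true)) :=
  posD_of_check0 (c := ⟨385, ⟨2, 7, 14, 10⟩⟩) (by decide +kernel)

def yA25B_tg11 : PosD ⟨⟨0, 1, 1⟩, ⟨980, 981, 1470⟩, ⟨0, 75, 10000⟩, ⟨2886, 3036, 1000⟩⟩ (yA25B.hG true (yA25B.pEnd true)) :=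
  posD_of_check0 (c := ⟨371, ⟨2, 7, 14, 9⟩⟩) (by decide +kernel)

def yA25B_c2p11 : PosD ⟨⟨0, 1, 1⟩, ⟨980, 981, 1470⟩, ⟨0, 75, 10000⟩, ⟨2886, 3036, 1000⟩⟩ (yA25B.hC2p true (yA25B.pEnd true)) :=
  posD_of_check0 (c := ⟨401, ⟨2, 7, 16, 10⟩⟩) (by decide +kernel)

def yA25B_c2m11 : PosD ⟨⟨0, 1, 1⟩, ⟨980, 981, 1470⟩, ⟨0, 75, 10000⟩, ⟨2886, 3036, 1000⟩⟩ (yA25B.hC2m true (yA25B.pEnd true)) :=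
  posD_of_check0 (c := ⟨401, ⟨2, 7, 16, 10⟩⟩) (by decide +kernel)

def yA25B_c3p11 : PosD ⟨⟨0, 1, 1⟩, ⟨980, 981, 1470⟩, ⟨0, 75, 10000⟩, ⟨2886, 3036, 1000⟩⟩ (yA25B.hC3p true true) :=
  posD_of_check0 (c := ⟨406, ⟨3, 7, 15, 10⟩⟩) (by decide +kernel)

def yA25B_c3m11 : PosD ⟨⟨0, 1, 1⟩, ⟨980, 981, 1470⟩, ⟨0, 75, 10000⟩, ⟨2886, 3036, 1000⟩⟩ (yA25B.hC3m true true) :=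
  posD_of_check0 (c := ⟨406, ⟨3, 7, 15, 10⟩⟩) (by decide +kernel)

def yA25B_c3ph11 : PosD ⟨⟨0, 1, 1⟩, ⟨980, 981, 1470⟩, ⟨0, 75, 10000⟩, ⟨2886, 3036, 1000⟩⟩ (yA25B.hC3p' true true) :=
  posD_of_check0 (c := ⟨406, ⟨3, 7, 15, 10⟩⟩) (by decide +kernel)

def yA25B_c3mh11 : PosD ⟨⟨0, 1, 1⟩, ⟨980, 981, 1470⟩, ⟨0, 75, 10000⟩, ⟨2886, 3036, 1000⟩⟩ (yA25B.hC3m' true true) :=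
  posD_of_check0 (c := ⟨406, ⟨3, 7, 15, 10⟩⟩) (by decide +kernel)

def yA25B_up11 : PosD ⟨⟨0, 1, 1⟩, ⟨980, 981, 1470⟩, ⟨0, 75, 10000⟩, ⟨2886, 3036, 1000⟩⟩ (yA25B.hUp true true) :=
  posD_of_check0 (c := ⟨400, ⟨2, 7, 15, 10⟩⟩) (by decide +kernel)

def yA25B_um11 : PosD ⟨⟨0, 1, 1⟩, ⟨980, 981, 1470⟩, ⟨0, 75, 10000⟩, ⟨2886, 3036, 1000⟩⟩ (yA25B.hUm true true) :=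
  posD_of_check0 (c := ⟨400, ⟨2, 7, 15, 10⟩⟩) (by decide +kernel)

def yA25B_tmg11 : PosD ⟨⟨0, 1, 1⟩, ⟨980, 981, 1470⟩, ⟨0, 75, 10000⟩, ⟨2886, 3036, 1000⟩⟩ (yA25B.hTMG true (yA25B.pEnd true)) :=
  posD_of_check0 (c := ⟨385, ⟨2, 7, 14, 10⟩⟩) (by decide +kernel)

/-- The signs of the piece. -/
def yA25B_sign : yA25B.Sign ⟨⟨0, 1, 1⟩, ⟨980, 981, 1470⟩, ⟨0, 75, 10000⟩, ⟨2886, 3036, 1000⟩⟩ :=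
  ⟨yA25B_pp,
    yA25B_k2p,
    yA25B_k2m,
    Bool.forall_bool.2 ⟨(Bool.forall_bool.2 ⟨yA25B_tg00, yA25B_tg01⟩), (Bool.forall_bool.2 ⟨yA25B_tg10, yA25B_tg11⟩)⟩,
    Bool.forall_bool.2 ⟨(Bool.forall_bool.2 ⟨yA25B_c2p00, yA25B_c2p01⟩), (Bool.forall_bool.2 ⟨yA25B_c2p10, yA25B_c2p11⟩)⟩,
    Bool.forall_bool.2 ⟨(Bool.forall_bool.2 ⟨yA25B_c2m00, yA25B_c2m01⟩), (Bool.forall_bool.2 ⟨yA25B_c2m10, yA25B_c2m11⟩)⟩,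
    Bool.forall_bool.2 ⟨yA25B_kap0, yA25B_kap1⟩,
    Bool.forall_bool.2 ⟨yA25B_c10, yA25B_c11⟩,
    Bool.forall_bool.2 ⟨(Bool.forall_bool.2 ⟨yA25B_c3p00, yA25B_c3p01⟩), (Bool.forall_bool.2 ⟨yA25B_c3p10, yA25B_c3p11⟩)⟩,
    Bool.forall_bool.2 ⟨(Bool.forall_bool.2 ⟨yA25B_c3m00, yA25B_c3m01⟩), (Bool.forall_bool.2 ⟨yA25B_c3m10, yA25B_c3m11⟩)⟩,
    Bool.forall_bool.2 ⟨(Bool.forall_bool.2 ⟨yA25B_tmg00, yA25B_tmg01⟩), (Bool.forall_bool.2 ⟨yA25B_tmg10, yA25B_tmg11⟩)⟩,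
    .inr (Bool.forall_bool.2 ⟨⟨yA25B_c1h0, Bool.forall_bool.2 ⟨⟨yA25B_c3ph00, yA25B_c3mh00, yA25B_up00, yA25B_um00⟩, ⟨yA25B_c3ph01, yA25B_c3mh01, yA25B_up01, yA25B_um01⟩⟩⟩, ⟨yA25B_c1h1, Bool.forall_bool.2 ⟨⟨yA25B_c3ph10, yA25B_c3mh10, yA25B_up10, yA25B_um10⟩, ⟨yA25B_c3ph11, yA25B_c3mh11, yA25B_up11, yA25B_um11⟩⟩⟩⟩),
    yA25B_v2p,
    yA25B_v2m,
    yA25B_v3p,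
    yA25B_v3m,
    posD_sub (b := ⟨⟨0, 1, 1⟩, ⟨98, 99, 147⟩, ⟨0, 301, 10000⟩, ⟨1060, 4000, 1000⟩⟩) (by decide +kernel) yA_vG,
    posD_sub (b := ⟨⟨0, 1, 1⟩, ⟨98, 99, 147⟩, ⟨0, 301, 10000⟩, ⟨1060, 4000, 1000⟩⟩) (by decide +kernel) yA_vMG,
    posD_sub (b := ⟨⟨0, 1, 1⟩, ⟨98, 99, 147⟩, ⟨0, 301, 10000⟩, ⟨1060, 4000, 1000⟩⟩) (by decide +kernel) yA_ak,
    posD_sub (b := ⟨⟨0, 1, 1⟩, ⟨98, 99, 147⟩, ⟨0, 301, 10000⟩, ⟨1060, 4000, 1000⟩⟩) (by decide +kernel) yA_aw,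
    posD_sub (b := ⟨⟨0, 1, 1⟩, ⟨98, 99, 147⟩, ⟨0, 301, 10000⟩, ⟨1060, 4000, 1000⟩⟩) (by decide +kernel) yA_gk,
    posD_sub (b := ⟨⟨0, 1, 1⟩, ⟨98, 99, 147⟩, ⟨0, 301, 10000⟩, ⟨1060, 4000, 1000⟩⟩) (by decide +kernel) yA_gw,
    posD_sub (b := ⟨⟨0, 1, 1⟩, ⟨98, 99, 147⟩, ⟨0, 301, 10000⟩, ⟨1060, 4000, 1000⟩⟩) (by decide +kernel) yA_ek,
    posD_sub (b := ⟨⟨0, 1, 1⟩, ⟨98, 99, 147⟩, ⟨0, 301, 10000⟩, ⟨1060, 4000, 1000⟩⟩) (by decide +kernel) yA_ew⟩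

def yA25QL_pp : PosD ⟨⟨0, 1, 1⟩, ⟨980, 981, 1470⟩, ⟨0, 75, 10000⟩, ⟨2886, 3036, 1000⟩⟩ (yA25QL.xPL) :=
  posD_of_check0 (c := ⟨61, ⟨1, 0, 2, 1⟩⟩) (by decide +kernel)

def yA25QL_k2p : PosD ⟨⟨0, 1, 1⟩, ⟨980, 981, 1470⟩, ⟨0, 75, 10000⟩, ⟨2886, 3036, 1000⟩⟩ (yA25QL.k2p yA25QL.xE) :=
  posD_of_check0 (c := ⟨7, ⟨0, 0, 0, 0⟩⟩) (by decide +kernel)

def yA25QL_k2m : PosD ⟨⟨0, 1, 1⟩, ⟨980, 981, 1470⟩, ⟨0, 75, 10000⟩, ⟨2886, 3036, 1000⟩⟩ (yA25QL.k2m yA25QL.xE) :=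
  posD_of_check0 (c := ⟨7, ⟨0, 0, 0, 0⟩⟩) (by decide +kernel)

def yA25QL_v2p : PosD ⟨⟨0, 1, 1⟩, ⟨980, 981, 1470⟩, ⟨0, 75, 10000⟩, ⟨2886, 3036, 1000⟩⟩ (yA25QL.hV2p) :=
  posD_of_check0 (c := ⟨224, ⟨0, 5, 10, 4⟩⟩) (by decide +kernel)

def yA25QL_v2m : PosD ⟨⟨0, 1, 1⟩, ⟨980, 981, 1470⟩, ⟨0, 75, 10000⟩, ⟨2886, 3036, 1000⟩⟩ (yA25QL.hV2m) :=
  posD_of_check0 (c := ⟨224, ⟨0, 5, 10, 4⟩⟩) (by decide +kernel)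

def yA25QL_v3p : PosD ⟨⟨0, 1, 1⟩, ⟨980, 981, 1470⟩, ⟨0, 75, 10000⟩, ⟨2886, 3036, 1000⟩⟩ (yA25QL.hV3p) :=
  posD_of_check0 (c := ⟨220, ⟨0, 5, 9, 4⟩⟩) (by decide +kernel)

def yA25QL_v3m : PosD ⟨⟨0, 1, 1⟩, ⟨980, 981, 1470⟩, ⟨0, 75, 10000⟩, ⟨2886, 3036, 1000⟩⟩ (yA25QL.hV3m) :=
  posD_of_check0 (c := ⟨220, ⟨0, 5, 9, 4⟩⟩) (by decide +kernel)

def yA25QL_tg00 : PosD ⟨⟨0, 1, 1⟩, ⟨980, 981, 1470⟩, ⟨0, 75, 10000⟩, ⟨2886, 3036, 1000⟩⟩ (yA25QL.hG false (yA25QL.pEnd false)) :=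
  posD_of_check0 (c := ⟨336, ⟨2, 7, 12, 7⟩⟩) (by decide +kernel)

def yA25QL_c2p00 : PosD ⟨⟨0, 1, 1⟩, ⟨980, 981, 1470⟩, ⟨0, 75, 10000⟩, ⟨2886, 3036, 1000⟩⟩ (yA25QL.hC2p false (yA25QL.pEnd false)) :=
  posD_of_check0 (c := ⟨366, ⟨2, 7, 14, 7⟩⟩) (by decide +kernel)

def yA25QL_c2m00 : PosD ⟨⟨0, 1, 1⟩, ⟨980, 981, 1470⟩, ⟨0, 75, 10000⟩, ⟨2886, 3036, 1000⟩⟩ (yA25QL.hC2m false (yA25QL.pEnd false)) :=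
  posD_of_check0 (c := ⟨366, ⟨2, 7, 14, 7⟩⟩) (by decide +kernel)

def yA25QL_up00 : PosD ⟨⟨0, 1, 1⟩, ⟨980, 981, 1470⟩, ⟨0, 75, 10000⟩, ⟨2886, 3036, 1000⟩⟩ (yA25QL.hUp false false - yA25QLam) :=
  posD_of_check0 (c := ⟨364, ⟨2, 7, 14, 6⟩⟩) (by decide +kernel)

def yA25QL_um00 : PosD ⟨⟨0, 1, 1⟩, ⟨980, 981, 1470⟩, ⟨0, 75, 10000⟩, ⟨2886, 3036, 1000⟩⟩ (yA25QL.hUm false false - yA25QLam) :=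
  posD_of_check0 (c := ⟨364, ⟨2, 7, 14, 6⟩⟩) (by decide +kernel)

def yA25QL_tmg00 : PosD ⟨⟨0, 1, 1⟩, ⟨980, 981, 1470⟩, ⟨0, 75, 10000⟩, ⟨2886, 3036, 1000⟩⟩ (yA25QL.hTMG false (yA25QL.pEnd false)) :=
  posD_of_check0 (c := ⟨342, ⟨2, 6, 13, 6⟩⟩) (by decide +kernel)

def yA25QL_tg01 : PosD ⟨⟨0, 1, 1⟩, ⟨980, 981, 1470⟩, ⟨0, 75, 10000⟩, ⟨2886, 3036, 1000⟩⟩ (yA25QL.hG true (yA25QL.pEnd false)) :=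
  posD_of_check0 (c := ⟨335, ⟨2, 7, 12, 6⟩⟩) (by decide +kernel)

def yA25QL_c2p01 : PosD ⟨⟨0, 1, 1⟩, ⟨980, 981, 1470⟩, ⟨0, 75, 10000⟩, ⟨2886, 3036, 1000⟩⟩ (yA25QL.hC2p true (yA25QL.pEnd false)) :=
  posD_of_check0 (c := ⟨365, ⟨2, 7, 14, 6⟩⟩) (by decide +kernel)

def yA25QL_c2m01 : PosD ⟨⟨0, 1, 1⟩, ⟨980, 981, 1470⟩, ⟨0, 75, 10000⟩, ⟨2886, 3036, 1000⟩⟩ (yA25QL.hC2m true (yA25QL.pEnd false)) :=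
  posD_of_check0 (c := ⟨365, ⟨2, 7, 14, 6⟩⟩) (by decide +kernel)

def yA25QL_up01 : PosD ⟨⟨0, 1, 1⟩, ⟨980, 981, 1470⟩, ⟨0, 75, 10000⟩, ⟨2886, 3036, 1000⟩⟩ (yA25QL.hUp false true - yA25QLam) :=
  posD_of_check0 (c := ⟨364, ⟨2, 7, 14, 6⟩⟩) (by decide +kernel)

def yA25QL_um01 : PosD ⟨⟨0, 1, 1⟩, ⟨980, 981, 1470⟩, ⟨0, 75, 10000⟩, ⟨2886, 3036, 1000⟩⟩ (yA25QL.hUm false true - yA25QLam) :=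
  posD_of_check0 (c := ⟨364, ⟨2, 7, 14, 6⟩⟩) (by decide +kernel)

def yA25QL_tmg01 : PosD ⟨⟨0, 1, 1⟩, ⟨980, 981, 1470⟩, ⟨0, 75, 10000⟩, ⟨2886, 3036, 1000⟩⟩ (yA25QL.hTMG true (yA25QL.pEnd false)) :=
  posD_of_check0 (c := ⟨342, ⟨2, 6, 13, 6⟩⟩) (by decide +kernel)

def yA25QL_tg10 : PosD ⟨⟨0, 1, 1⟩, ⟨980, 981, 1470⟩, ⟨0, 75, 10000⟩, ⟨2886, 3036, 1000⟩⟩ (yA25QL.hG false (yA25QL.pEnd true)) :=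
  posD_of_check0 (c := ⟨336, ⟨2, 7, 12, 7⟩⟩) (by decide +kernel)

def yA25QL_c2p10 : PosD ⟨⟨0, 1, 1⟩, ⟨980, 981, 1470⟩, ⟨0, 75, 10000⟩, ⟨2886, 3036, 1000⟩⟩ (yA25QL.hC2p false (yA25QL.pEnd true)) :=
  posD_of_check0 (c := ⟨366, ⟨2, 7, 14, 7⟩⟩) (by decide +kernel)

def yA25QL_c2m10 : PosD ⟨⟨0, 1, 1⟩, ⟨980, 981, 1470⟩, ⟨0, 75, 10000⟩, ⟨2886, 3036, 1000⟩⟩ (yA25QL.hC2m false (yA25QL.pEnd true)) :=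
  posD_of_check0 (c := ⟨366, ⟨2, 7, 14, 7⟩⟩) (by decide +kernel)

def yA25QL_up10 : PosD ⟨⟨0, 1, 1⟩, ⟨980, 981, 1470⟩, ⟨0, 75, 10000⟩, ⟨2886, 3036, 1000⟩⟩ (yA25QL.hUp true false - yA25QLam) :=
  posD_of_check0 (c := ⟨365, ⟨2, 7, 14, 6⟩⟩) (by decide +kernel)

def yA25QL_um10 : PosD ⟨⟨0, 1, 1⟩, ⟨980, 981, 1470⟩, ⟨0, 75, 10000⟩, ⟨2886, 3036, 1000⟩⟩ (yA25QL.hUm true false - yA25QLam) :=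
  posD_of_check0 (c := ⟨365, ⟨2, 7, 14, 6⟩⟩) (by decide +kernel)

def yA25QL_tmg10 : PosD ⟨⟨0, 1, 1⟩, ⟨980, 981, 1470⟩, ⟨0, 75, 10000⟩, ⟨2886, 3036, 1000⟩⟩ (yA25QL.hTMG false (yA25QL.pEnd true)) :=
  posD_of_check0 (c := ⟨342, ⟨2, 6, 13, 6⟩⟩) (by decide +kernel)

def yA25QL_tg11 : PosD ⟨⟨0, 1, 1⟩, ⟨980, 981, 1470⟩, ⟨0, 75, 10000⟩, ⟨2886, 3036, 1000⟩⟩ (yA25QL.hG true (yA25QL.pEnd true)) :=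
  posD_of_check0 (c := ⟨335, ⟨2, 7, 12, 6⟩⟩) (by decide +kernel)

def yA25QL_c2p11 : PosD ⟨⟨0, 1, 1⟩, ⟨980, 981, 1470⟩, ⟨0, 75, 10000⟩, ⟨2886, 3036, 1000⟩⟩ (yA25QL.hC2p true (yA25QL.pEnd true)) :=
  posD_of_check0 (c := ⟨365, ⟨2, 7, 14, 6⟩⟩) (by decide +kernel)

def yA25QL_c2m11 : PosD ⟨⟨0, 1, 1⟩, ⟨980, 981, 1470⟩, ⟨0, 75, 10000⟩, ⟨2886, 3036, 1000⟩⟩ (yA25QL.hC2m true (yA25QL.pEnd true)) :=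
  posD_of_check0 (c := ⟨365, ⟨2, 7, 14, 6⟩⟩) (by decide +kernel)

def yA25QL_up11 : PosD ⟨⟨0, 1, 1⟩, ⟨980, 981, 1470⟩, ⟨0, 75, 10000⟩, ⟨2886, 3036, 1000⟩⟩ (yA25QL.hUp true true - yA25QLam) :=
  posD_of_check0 (c := ⟨365, ⟨2, 7, 14, 6⟩⟩) (by decide +kernel)

def yA25QL_um11 : PosD ⟨⟨0, 1, 1⟩, ⟨980, 981, 1470⟩, ⟨0, 75, 10000⟩, ⟨2886, 3036, 1000⟩⟩ (yA25QL.hUm true true - yA25QLam) :=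
  posD_of_check0 (c := ⟨365, ⟨2, 7, 14, 6⟩⟩) (by decide +kernel)

def yA25QL_tmg11 : PosD ⟨⟨0, 1, 1⟩, ⟨980, 981, 1470⟩, ⟨0, 75, 10000⟩, ⟨2886, 3036, 1000⟩⟩ (yA25QL.hTMG true (yA25QL.pEnd true)) :=
  posD_of_check0 (c := ⟨342, ⟨2, 6, 13, 6⟩⟩) (by decide +kernel)

def yA25QL_eps : PosD ⟨⟨0, 1, 1⟩, ⟨980, 981, 1470⟩, ⟨0, 75, 10000⟩, ⟨2886, 3036, 1000⟩⟩ (yA25QEps) :=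
  posD_of_check0 (c := ⟨14, ⟨0, 0, 0, 0⟩⟩) (by decide +kernel)

def yA25QL_lam_pos : PosD ⟨⟨0, 1, 1⟩, ⟨980, 981, 1470⟩, ⟨0, 75, 10000⟩, ⟨2886, 3036, 1000⟩⟩ (yA25QLam) :=
  posD_of_check0 (c := ⟨12, ⟨0, 0, 0, 0⟩⟩) (by decide +kernel)

def yA25QL_lam_mu : PosD ⟨⟨0, 1, 1⟩, ⟨980, 981, 1470⟩, ⟨0, 75, 10000⟩, ⟨2886, 3036, 1000⟩⟩ (cC 20 3 * (cC 1 - xS) * yA25QEps * yA25QLam - cC 4 * yA25QMu * yA25QMu) :=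
  posD_of_check0 (c := ⟨40, ⟨0, 1, 0, 0⟩⟩) (by decide +kernel)

def yA25QL_eLow : PosD ⟨⟨0, 1, 1⟩, ⟨980, 981, 1470⟩, ⟨0, 75, 10000⟩, ⟨2886, 3036, 1000⟩⟩ (cC (-1) * yA25QL.xE - yA25QEps * yA25QL.xPU) :=
  posD_of_check0 (c := ⟨73, ⟨1, 0, 2, 0⟩⟩) (by decide +kernel)

def yA25QL_xl0 : PosD ⟨⟨0, 1, 1⟩, ⟨980, 981, 1470⟩, ⟨0, 75, 10000⟩, ⟨2886, 3036, 1000⟩⟩ (yA25QMu * yA25QL.pEnd false + yA25QL.xM (yA25QL.pEnd false)) :=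
  posD_of_check0 (c := ⟨227, ⟨2, 4, 8, 5⟩⟩) (by decide +kernel)

def yA25QL_xu0 : PosD ⟨⟨0, 1, 1⟩, ⟨980, 981, 1470⟩, ⟨0, 75, 10000⟩, ⟨2886, 3036, 1000⟩⟩ (yA25QMu * yA25QL.pEnd false - yA25QL.xM' (yA25QL.pEnd false)) :=
  posD_of_check0 (c := ⟨227, ⟨2, 4, 8, 5⟩⟩) (by decide +kernel)

def yA25QL_xl1 : PosD ⟨⟨0, 1, 1⟩, ⟨980, 981, 1470⟩, ⟨0, 75, 10000⟩, ⟨2886, 3036, 1000⟩⟩ (yA25QMu * yA25QL.pEnd true + yA25QL.xM (yA25QL.pEnd true)) :=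
  posD_of_check0 (c := ⟨227, ⟨2, 4, 8, 4⟩⟩) (by decide +kernel)

def yA25QL_xu1 : PosD ⟨⟨0, 1, 1⟩, ⟨980, 981, 1470⟩, ⟨0, 75, 10000⟩, ⟨2886, 3036, 1000⟩⟩ (yA25QMu * yA25QL.pEnd true - yA25QL.xM' (yA25QL.pEnd true)) :=
  posD_of_check0 (c := ⟨227, ⟨2, 4, 8, 4⟩⟩) (by decide +kernel)

/-- The signs of the part where `p` may be small. -/
def yA25QL_sign : yA25QL.SignLow ⟨⟨0, 1, 1⟩, ⟨980, 981, 1470⟩, ⟨0, 75, 10000⟩, ⟨2886, 3036, 1000⟩⟩ yA25QMu yA25QEps yA25QLam :=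
  ⟨yA25QL_pp,
    yA25QL_k2p,
    yA25QL_k2m,
    Bool.forall_bool.2 ⟨(Bool.forall_bool.2 ⟨yA25QL_tg00, yA25QL_tg01⟩), (Bool.forall_bool.2 ⟨yA25QL_tg10, yA25QL_tg11⟩)⟩,
    Bool.forall_bool.2 ⟨(Bool.forall_bool.2 ⟨yA25QL_c2p00, yA25QL_c2p01⟩), (Bool.forall_bool.2 ⟨yA25QL_c2p10, yA25QL_c2p11⟩)⟩,
    Bool.forall_bool.2 ⟨(Bool.forall_bool.2 ⟨yA25QL_c2m00, yA25QL_c2m01⟩), (Bool.forall_bool.2 ⟨yA25QL_c2m10, yA25QL_c2m11⟩)⟩,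
    Bool.forall_bool.2 ⟨(Bool.forall_bool.2 ⟨yA25QL_tmg00, yA25QL_tmg01⟩), (Bool.forall_bool.2 ⟨yA25QL_tmg10, yA25QL_tmg11⟩)⟩,
    yA25QL_v2p,
    yA25QL_v2m,
    yA25QL_v3p,
    yA25QL_v3m,
    posD_sub (b := ⟨⟨0, 1, 1⟩, ⟨98, 99, 147⟩, ⟨0, 301, 10000⟩, ⟨1060, 4000, 1000⟩⟩) (by decide +kernel) yA_vG,
    posD_sub (b := ⟨⟨0, 1, 1⟩, ⟨98, 99, 147⟩, ⟨0, 301, 10000⟩, ⟨1060, 4000, 1000⟩⟩) (by decide +kernel) yA_vMG,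
    posD_sub (b := ⟨⟨0, 1, 1⟩, ⟨98, 99, 147⟩, ⟨0, 301, 10000⟩, ⟨1060, 4000, 1000⟩⟩) (by decide +kernel) yA_ak,
    posD_sub (b := ⟨⟨0, 1, 1⟩, ⟨98, 99, 147⟩, ⟨0, 301, 10000⟩, ⟨1060, 4000, 1000⟩⟩) (by decide +kernel) yA_aw,
    posD_sub (b := ⟨⟨0, 1, 1⟩, ⟨98, 99, 147⟩, ⟨0, 301, 10000⟩, ⟨1060, 4000, 1000⟩⟩) (by decide +kernel) yA_gk,
    posD_sub (b := ⟨⟨0, 1, 1⟩, ⟨98, 99, 147⟩, ⟨0, 301, 10000⟩, ⟨1060, 4000, 1000⟩⟩) (by decide +kernel) yA_gw,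
    posD_sub (b := ⟨⟨0, 1, 1⟩, ⟨98, 99, 147⟩, ⟨0, 301, 10000⟩, ⟨1060, 4000, 1000⟩⟩) (by decide +kernel) yA_ek,
    posD_sub (b := ⟨⟨0, 1, 1⟩, ⟨98, 99, 147⟩, ⟨0, 301, 10000⟩, ⟨1060, 4000, 1000⟩⟩) (by decide +kernel) yA_ew,
    yA25QL_eps,
    yA25QL_lam_pos,
    yA25QL_lam_mu,
    yA25QL_eLow,
    Bool.forall_bool.2 ⟨yA25QL_xl0, yA25QL_xl1⟩,
    Bool.forall_bool.2 ⟨yA25QL_xu0, yA25QL_xu1⟩,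
    Bool.forall_bool.2 ⟨(Bool.forall_bool.2 ⟨yA25QL_up00, yA25QL_up01⟩), (Bool.forall_bool.2 ⟨yA25QL_up10, yA25QL_up11⟩)⟩,
    Bool.forall_bool.2 ⟨(Bool.forall_bool.2 ⟨yA25QL_um00, yA25QL_um01⟩), (Bool.forall_bool.2 ⟨yA25QL_um10, yA25QL_um11⟩)⟩⟩

end Vale.Agent.P100.Calib.Closed.Six.Tail
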