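import Vale.Agent.P100.Calib.SlabSixTailDataLayerA
import Vale.Agent.P100.Calib.SlabSixTailGlobLayerA

/-!
# Checks of some pieces of the certificate

The checks are written as definitions so that they run one after another, which keeps the memory of the
kernel low.
-/

set_option linter.defProp false

namespace Vale.Agent.P100.Calib.Closed.Six.Tail

open BoxPos Large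

local instance sixTailChecksyA2Add : Add Ex := ⟨Ex.add⟩
local instance sixTailChecksyA2Sub : Sub Ex := ⟨Ex.sub⟩
local instance sixTailChecksyA2Mul : Mul Ex := ⟨Ex.mul⟩

def yA3_p0 : PosD ⟨⟨0, 1, 1⟩, ⟨98, 99, 147⟩, ⟨0, 301, 10000⟩, ⟨2200, 2569, 1000⟩⟩ (yA3.hP0) :=
  posD_of_check0 (c := ⟨82, ⟨0, 2, 3, 1⟩⟩) (by decide +kernel)

def yA3_gn : PosD ⟨⟨0, 1, 1⟩, ⟨98, 99, 147⟩, ⟨0, 301, 10000⟩, ⟨2200, 2569, 1000⟩⟩ (yA3.hGn) :=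
  posD_of_check0 (c := ⟨58, ⟨1, 1, 2, 1⟩⟩) (by decide +kernel)

def yA3_den0 : PosD ⟨⟨0, 1, 1⟩, ⟨98, 99, 147⟩, ⟨0, 301, 10000⟩, ⟨2200, 2569, 1000⟩⟩ (yA3.hDen false) :=
  posD_of_check0 (c := ⟨45, ⟨0, 0, 2, 0⟩⟩) (by decide +kernel)

def yA3_den1 : PosD ⟨⟨0, 1, 1⟩, ⟨98, 99, 147⟩, ⟨0, 301, 10000⟩, ⟨2200, 2569, 1000⟩⟩ (yA3.hDen true) :=
  posD_of_check0 (c := ⟨22, ⟨1, 0, 1, 0⟩⟩) (by decide +kernel)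

def yA3_ev0 : PosD ⟨⟨0, 1, 1⟩, ⟨98, 99, 147⟩, ⟨0, 301, 10000⟩, ⟨2200, 2569, 1000⟩⟩ (yA3.hEv false) :=
  posD_of_check0 (c := ⟨148, ⟨2, 2, 6, 1⟩⟩) (by decide +kernel)

def yA3_zL0 : PosD ⟨⟨0, 1, 1⟩, ⟨98, 99, 147⟩, ⟨0, 301, 10000⟩, ⟨2200, 2569, 1000⟩⟩ (yA3.hZL false) :=
  posD_of_check0 (c := ⟨159, ⟨2, 3, 6, 3⟩⟩) (by decide +kernel)

def yA3_zU0a : PosD ⟨⟨0, 1, 1⟩, ⟨98, 99, 147⟩, ⟨0, 150, 10000⟩, ⟨2200, 2569, 1000⟩⟩ (yA3.hZU false) :=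
  posD_of_check0 (c := ⟨158, ⟨2, 3, 6, 3⟩⟩) (by decide +kernel)

def yA3_zU0ba : PosD ⟨⟨0, 1, 1⟩, ⟨98, 99, 147⟩, ⟨150, 225, 10000⟩, ⟨2200, 2569, 1000⟩⟩ (yA3.hZU false) :=
  posD_of_check (c := ⟨159, ⟨2, 3, 6, 3⟩⟩) (by decide +kernel)

def yA3_zU0bb : PosD ⟨⟨0, 1, 1⟩, ⟨98, 99, 147⟩, ⟨225, 301, 10000⟩, ⟨2200, 2569, 1000⟩⟩ (yA3.hZU false) :=
  posD_of_check (c := ⟨159, ⟨2, 3, 6, 3⟩⟩) (by decide +kernel)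

def yA3_zU0b : PosD ⟨⟨0, 1, 1⟩, ⟨98, 99, 147⟩, ⟨150, 301, 10000⟩, ⟨2200, 2569, 1000⟩⟩ (yA3.hZU false) :=
  posD_join₂ yA3_zU0ba yA3_zU0bb

def yA3_zU0 : PosD ⟨⟨0, 1, 1⟩, ⟨98, 99, 147⟩, ⟨0, 301, 10000⟩, ⟨2200, 2569, 1000⟩⟩ (yA3.hZU false) :=
  posD_join₂ yA3_zU0a yA3_zU0b

def yA3_eL0 : PosD ⟨⟨0, 1, 1⟩, ⟨98, 99, 147⟩, ⟨0, 301, 10000⟩, ⟨2200, 2569, 1000⟩⟩ (yA3.hEL false) :=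
  posD_of_check0 (c := ⟨241, ⟨3, 6, 9, 3⟩⟩) (by decide +kernel)

def yA3_eH0 : PosD ⟨⟨0, 1, 1⟩, ⟨98, 99, 147⟩, ⟨0, 301, 10000⟩, ⟨2200, 2569, 1000⟩⟩ (yA3.hEH false) :=
  posD_of_check0 (c := ⟨255, ⟨3, 6, 9, 3⟩⟩) (by decide +kernel)

def yA3_pL0 : PosD ⟨⟨0, 1, 1⟩, ⟨98, 99, 147⟩, ⟨0, 301, 10000⟩, ⟨2200, 2569, 1000⟩⟩ (yA3.hPL false) :=
  posD_of_check0 (c := ⟨259, ⟨3, 6, 9, 3⟩⟩) (by decide +kernel)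

def yA3_pU0 : PosD ⟨⟨0, 1, 1⟩, ⟨98, 99, 147⟩, ⟨0, 301, 10000⟩, ⟨2200, 2569, 1000⟩⟩ (yA3.hPU false) :=
  posD_of_check0 (c := ⟨259, ⟨3, 6, 9, 3⟩⟩) (by decide +kernel)

def yA3_kU0 : PosD ⟨⟨0, 1, 1⟩, ⟨98, 99, 147⟩, ⟨0, 301, 10000⟩, ⟨2200, 2569, 1000⟩⟩ (yA3.hKU false) :=
  posD_of_check0 (c := ⟨254, ⟨3, 6, 9, 3⟩⟩) (by decide +kernel)

def yA3_kL0 : PosD ⟨⟨0, 1, 1⟩, ⟨98, 99, 147⟩, ⟨0, 301, 10000⟩, ⟨2200, 2569, 1000⟩⟩ (yA3.hKL false) :=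
  posD_of_check0 (c := ⟨254, ⟨3, 6, 9, 3⟩⟩) (by decide +kernel)

def yA3_wU0 : PosD ⟨⟨0, 1, 1⟩, ⟨98, 99, 147⟩, ⟨0, 301, 10000⟩, ⟨2200, 2569, 1000⟩⟩ (yA3.hWU false) :=
  posD_of_check0 (c := ⟨290, ⟨3, 8, 10, 3⟩⟩) (by decide +kernel)

def yA3_wL0 : PosD ⟨⟨0, 1, 1⟩, ⟨98, 99, 147⟩, ⟨0, 301, 10000⟩, ⟨2200, 2569, 1000⟩⟩ (yA3.hWL false) :=
  posD_of_check0 (c := ⟨290, ⟨3, 8, 10, 3⟩⟩) (by decide +kernel)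

def yA3_ev1 : PosD ⟨⟨0, 1, 1⟩, ⟨98, 99, 147⟩, ⟨0, 301, 10000⟩, ⟨2200, 2569, 1000⟩⟩ (yA3.hEv true) :=
  posD_of_check0 (c := ⟨120, ⟨2, 2, 6, 1⟩⟩) (by decide +kernel)

def yA3_zL1 : PosD ⟨⟨0, 1, 1⟩, ⟨98, 99, 147⟩, ⟨0, 301, 10000⟩, ⟨2200, 2569, 1000⟩⟩ (yA3.hZL true) :=
  posD_of_check0 (c := ⟨134, ⟨2, 3, 6, 3⟩⟩) (by decide +kernel)

def yA3_zU1 : PosD ⟨⟨0, 1, 1⟩, ⟨98, 99, 147⟩, ⟨0, 301, 10000⟩, ⟨2200, 2569, 1000⟩⟩ (yA3.hZU true) :=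
  posD_of_check0 (c := ⟨134, ⟨2, 3, 6, 3⟩⟩) (by decide +kernel)

def yA3_eL1a : PosD ⟨⟨0, 1, 1⟩, ⟨98, 99, 147⟩, ⟨0, 150, 10000⟩, ⟨2200, 2569, 1000⟩⟩ (yA3.hEL true) :=
  posD_of_check0 (c := ⟨212, ⟨3, 6, 9, 3⟩⟩) (by decide +kernel)

def yA3_eL1ba : PosD ⟨⟨0, 1, 1⟩, ⟨98, 99, 147⟩, ⟨150, 301, 10000⟩, ⟨2200, 2384, 1000⟩⟩ (yA3.hEL true) :=
  posD_of_check (c := ⟨212, ⟨3, 6, 9, 3⟩⟩) (by decide +kernel)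

def yA3_eL1bb : PosD ⟨⟨0, 1, 1⟩, ⟨98, 99, 147⟩, ⟨150, 301, 10000⟩, ⟨2384, 2569, 1000⟩⟩ (yA3.hEL true) :=
  posD_of_check (c := ⟨213, ⟨3, 6, 9, 3⟩⟩) (by decide +kernel)

def yA3_eL1b : PosD ⟨⟨0, 1, 1⟩, ⟨98, 99, 147⟩, ⟨150, 301, 10000⟩, ⟨2200, 2569, 1000⟩⟩ (yA3.hEL true) :=
  posD_join₃ yA3_eL1ba yA3_eL1bb

def yA3_eL1 : PosD ⟨⟨0, 1, 1⟩, ⟨98, 99, 147⟩, ⟨0, 301, 10000⟩, ⟨2200, 2569, 1000⟩⟩ (yA3.hEL true) :=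
  posD_join₂ yA3_eL1a yA3_eL1b

def yA3_eH1 : PosD ⟨⟨0, 1, 1⟩, ⟨98, 99, 147⟩, ⟨0, 301, 10000⟩, ⟨2200, 2569, 1000⟩⟩ (yA3.hEH true) :=
  posD_of_check0 (c := ⟨227, ⟨3, 6, 9, 3⟩⟩) (by decide +kernel)

def yA3_pL1 : PosD ⟨⟨0, 1, 1⟩, ⟨98, 99, 147⟩, ⟨0, 301, 10000⟩, ⟨2200, 2569, 1000⟩⟩ (yA3.hPL true) :=
  posD_of_check0 (c := ⟨230, ⟨3, 6, 9, 3⟩⟩) (by decide +kernel)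

def yA3_pU1 : PosD ⟨⟨0, 1, 1⟩, ⟨98, 99, 147⟩, ⟨0, 301, 10000⟩, ⟨2200, 2569, 1000⟩⟩ (yA3.hPU true) :=
  posD_of_check0 (c := ⟨230, ⟨3, 6, 9, 3⟩⟩) (by decide +kernel)

def yA3_kU1 : PosD ⟨⟨0, 1, 1⟩, ⟨98, 99, 147⟩, ⟨0, 301, 10000⟩, ⟨2200, 2569, 1000⟩⟩ (yA3.hKU true) :=
  posD_of_check0 (c := ⟨225, ⟨3, 6, 9, 3⟩⟩) (by decide +kernel)

def yA3_kL1 : PosD ⟨⟨0, 1, 1⟩, ⟨98, 99, 147⟩, ⟨0, 301, 10000⟩, ⟨2200, 2569, 1000⟩⟩ (yA3.hKL true) :=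
  posD_of_check0 (c := ⟨226, ⟨3, 6, 9, 3⟩⟩) (by decide +kernel)

def yA3_wU1 : PosD ⟨⟨0, 1, 1⟩, ⟨98, 99, 147⟩, ⟨0, 301, 10000⟩, ⟨2200, 2569, 1000⟩⟩ (yA3.hWU true) :=
  posD_of_check0 (c := ⟨260, ⟨3, 8, 10, 3⟩⟩) (by decide +kernel)

def yA3_wL1 : PosD ⟨⟨0, 1, 1⟩, ⟨98, 99, 147⟩, ⟨0, 301, 10000⟩, ⟨2200, 2569, 1000⟩⟩ (yA3.hWL true) :=
  posD_of_check0 (c := ⟨260, ⟨3, 8, 10, 3⟩⟩) (by decide +kernel)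

def yA3_mueH : PosD ⟨⟨0, 1, 1⟩, ⟨98, 99, 147⟩, ⟨0, 301, 10000⟩, ⟨2200, 2569, 1000⟩⟩ (yA3.eH.μ) :=
  posD_of_check0 (c := ⟨14, ⟨0, 0, 0, 0⟩⟩) (by decide +kernel)

def yA3_mupL : PosD ⟨⟨0, 1, 1⟩, ⟨98, 99, 147⟩, ⟨0, 301, 10000⟩, ⟨2200, 2569, 1000⟩⟩ (yA3.pL.μ) :=
  posD_of_check0 (c := ⟨15, ⟨0, 0, 0, 0⟩⟩) (by decide +kernel)

/-- The bounds of the piece. -/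
def yA3_env : yA3.Env ⟨⟨0, 1, 1⟩, ⟨98, 99, 147⟩, ⟨0, 301, 10000⟩, ⟨2200, 2569, 1000⟩⟩ :=
  ⟨yA3_p0, Bool.forall_bool.2 ⟨yA3_den0, yA3_den1⟩, yA3_gn, Bool.forall_bool.2 ⟨yA3_ev0, yA3_ev1⟩, Bool.forall_bool.2 ⟨yA3_zL0, yA3_zL1⟩, Bool.forall_bool.2 ⟨yA3_zU0, yA3_zU1⟩, Bool.forall_bool.2 ⟨yA3_eL0, yA3_eL1⟩, ⟨.inr rfl, .inr rfl⟩, Bool.forall_bool.2 ⟨yA3_eH0, yA3_eH1⟩, ⟨.inl yA3_mueH, .inr rfl⟩, Bool.forall_bool.2 ⟨yA3_pL0, yA3_pL1⟩, ⟨.inl yA3_mupL, .inr rfl⟩, Bool.forall_bool.2 ⟨yA3_pU0, yA3_pU1⟩, ⟨.inr rfl, .inr rfl⟩, Bool.forall_bool.2 ⟨yA3_kU0, yA3_kU1⟩, ⟨.inr rfl, .inr rfl⟩, Bool.forall_bool.2 ⟨yA3_kL0, yA3_kL1⟩, ⟨.inr rfl, .inr rfl⟩, Bool.forall_bool.2 ⟨yA3_wU0, yA3_wU1⟩, ⟨.inr rfl, .inr rfl⟩, Bool.forall_bool.2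 ⟨yA3_wL0, yA3_wL1⟩, ⟨.inr rfl, .inr rfl⟩⟩

def yA3_pU20 : PosD ⟨⟨0, 1, 1⟩, ⟨98, 99, 147⟩, ⟨0, 301, 10000⟩, ⟨2200, 2569, 1000⟩⟩ (({ yA3 with pU := yA3PU } : Piece).hPU false) :=
  posD_of_check0 (c := ⟨259, ⟨3, 6, 9, 3⟩⟩) (by decide +kernel)

def yA3_pU21a : PosD ⟨⟨0, 1, 1⟩, ⟨98, 99, 147⟩, ⟨0, 150, 10000⟩, ⟨2200, 2569, 1000⟩⟩ (({ yA3 with pU := yA3PU } : Piece).hPU true) :=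
  posD_of_check0 (c := ⟨230, ⟨3, 6, 9, 3⟩⟩) (by decide +kernel)

def yA3_pU21b : PosD ⟨⟨0, 1, 1⟩, ⟨98, 99, 147⟩, ⟨150, 301, 10000⟩, ⟨2200, 2569, 1000⟩⟩ (({ yA3 with pU := yA3PU } : Piece).hPU true) :=
  posD_of_check (c := ⟨231, ⟨3, 6, 9, 3⟩⟩) (by decide +kernel)

def yA3_pU21 : PosD ⟨⟨0, 1, 1⟩, ⟨98, 99, 147⟩, ⟨0, 301, 10000⟩, ⟨2200, 2569, 1000⟩⟩ (({ yA3 with pU := yA3PU } : Piece).hPU true) :=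
  posD_join₂ yA3_pU21a yA3_pU21b

/-- The bounds with the other bound of `p`. -/
def yA3_envU : ({ yA3 with pU := yA3PU } : Piece).Env ⟨⟨0, 1, 1⟩, ⟨98, 99, 147⟩, ⟨0, 301, 10000⟩, ⟨2200, 2569, 1000⟩⟩ :=
  yA3_env.withU yA3PU (Bool.forall_bool.2 ⟨yA3_pU20, yA3_pU21⟩) ⟨.inr rfl, .inr rfl⟩

def yA3A_pp : PosD ⟨⟨0, 1, 1⟩, ⟨98, 99, 147⟩, ⟨0, 301, 10000⟩, ⟨2200, 2569, 1000⟩⟩ (yA3A.xPL) :=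
  posD_of_check0 (c := ⟨90, ⟨1, 1, 3, 3⟩⟩) (by decide +kernel)

def yA3A_k2p : PosD ⟨⟨0, 1, 1⟩, ⟨98, 99, 147⟩, ⟨0, 301, 10000⟩, ⟨2200, 2569, 1000⟩⟩ (yA3A.k2p yA3A.xE) :=
  posD_of_check0 (c := ⟨23, ⟨0, 0, 1, 1⟩⟩) (by decide +kernel)

def yA3A_k2m : PosD ⟨⟨0, 1, 1⟩, ⟨98, 99, 147⟩, ⟨0, 301, 10000⟩, ⟨2200, 2569, 1000⟩⟩ (yA3A.k2m yA3A.xE) :=
  posD_of_check0 (c := ⟨61, ⟨1, 1, 2, 2⟩⟩) (by decide +kernel)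

def yA3A_v2p : PosD ⟨⟨0, 1, 1⟩, ⟨98, 99, 147⟩, ⟨0, 301, 10000⟩, ⟨2200, 2569, 1000⟩⟩ (yA3A.hV2p) :=
  posD_of_check0 (c := ⟨226, ⟨0, 5, 10, 4⟩⟩) (by decide +kernel)

def yA3A_v2m : PosD ⟨⟨0, 1, 1⟩, ⟨98, 99, 147⟩, ⟨0, 301, 10000⟩, ⟨2200, 2569, 1000⟩⟩ (yA3A.hV2m) :=
  posD_of_check0 (c := ⟨254, ⟨1, 6, 10, 5⟩⟩) (by decide +kernel)

def yA3A_v3p : PosD ⟨⟨0, 1, 1⟩, ⟨98, 99, 147⟩, ⟨0, 301, 10000⟩, ⟨2200, 2569, 1000⟩⟩ (yA3A.hV3p) :=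
  posD_of_check0 (c := ⟨220, ⟨0, 5, 9, 4⟩⟩) (by decide +kernel)

def yA3A_v3m : PosD ⟨⟨0, 1, 1⟩, ⟨98, 99, 147⟩, ⟨0, 301, 10000⟩, ⟨2200, 2569, 1000⟩⟩ (yA3A.hV3m) :=
  posD_of_check0 (c := ⟨246, ⟨1, 6, 9, 5⟩⟩) (by decide +kernel)

def yA3A_kap0 : PosD ⟨⟨0, 1, 1⟩, ⟨98, 99, 147⟩, ⟨0, 301, 10000⟩, ⟨2200, 2569, 1000⟩⟩ (yA3A.kap false) :=
  posD_of_check0 (c := ⟨68, ⟨1, 1, 2, 2⟩⟩) (by decide +kernel)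

def yA3A_c10 : PosD ⟨⟨0, 1, 1⟩, ⟨98, 99, 147⟩, ⟨0, 301, 10000⟩, ⟨2200, 2569, 1000⟩⟩ (yA3A.hC1 false) :=
  posD_of_check0 (c := ⟨261, ⟨3, 5, 9, 7⟩⟩) (by decide +kernel)

def yA3A_c1h0 : PosD ⟨⟨0, 1, 1⟩, ⟨98, 99, 147⟩, ⟨0, 301, 10000⟩, ⟨2200, 2569, 1000⟩⟩ (yA3A.hC1' false) :=
  posD_of_check0 (c := ⟨261, ⟨3, 5, 9, 7⟩⟩) (by decide +kernel)

def yA3A_tg00 : PosD ⟨⟨0, 1, 1⟩, ⟨98, 99, 147⟩, ⟨0, 301, 10000⟩, ⟨2200, 2569, 1000⟩⟩ (yA3A.hG false (yA3A.pEnd false)) :=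
  posD_of_check0 (c := ⟨368, ⟨2, 7, 14, 9⟩⟩) (by decide +kernel)

def yA3A_c2p00 : PosD ⟨⟨0, 1, 1⟩, ⟨98, 99, 147⟩, ⟨0, 301, 10000⟩, ⟨2200, 2569, 1000⟩⟩ (yA3A.hC2p false (yA3A.pEnd false)) :=
  posD_of_check0 (c := ⟨401, ⟨2, 7, 16, 10⟩⟩) (by decide +kernel)

def yA3A_c2m00 : PosD ⟨⟨0, 1, 1⟩, ⟨98, 99, 147⟩, ⟨0, 301, 10000⟩, ⟨2200, 2569, 1000⟩⟩ (yA3A.hC2m false (yA3A.pEnd false)) :=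
  posD_of_check0 (c := ⟨429, ⟨3, 8, 16, 11⟩⟩) (by decide +kernel)

def yA3A_c3p00 : PosD ⟨⟨0, 1, 1⟩, ⟨98, 99, 147⟩, ⟨0, 301, 10000⟩, ⟨2200, 2569, 1000⟩⟩ (yA3A.hC3p false false) :=
  posD_of_check0 (c := ⟨401, ⟨3, 7, 15, 10⟩⟩) (by decide +kernel)

def yA3A_c3m00 : PosD ⟨⟨0, 1, 1⟩, ⟨98, 99, 147⟩, ⟨0, 301, 10000⟩, ⟨2200, 2569, 1000⟩⟩ (yA3A.hC3m false false) :=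
  posD_of_check0 (c := ⟨426, ⟨3, 8, 15, 11⟩⟩) (by decide +kernel)

def yA3A_c3ph00 : PosD ⟨⟨0, 1, 1⟩, ⟨98, 99, 147⟩, ⟨0, 301, 10000⟩, ⟨2200, 2569, 1000⟩⟩ (yA3A.hC3p' false false) :=
  posD_of_check0 (c := ⟨401, ⟨3, 7, 15, 10⟩⟩) (by decide +kernel)

def yA3A_c3mh00 : PosD ⟨⟨0, 1, 1⟩, ⟨98, 99, 147⟩, ⟨0, 301, 10000⟩, ⟨2200, 2569, 1000⟩⟩ (yA3A.hC3m' false false) :=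
  posD_of_check0 (c := ⟨426, ⟨3, 8, 15, 11⟩⟩) (by decide +kernel)

def yA3A_up00 : PosD ⟨⟨0, 1, 1⟩, ⟨98, 99, 147⟩, ⟨0, 301, 10000⟩, ⟨2200, 2569, 1000⟩⟩ (yA3A.hUp false false) :=
  posD_of_check0 (c := ⟨398, ⟨2, 7, 15, 10⟩⟩) (by decide +kernel)

def yA3A_um00 : PosD ⟨⟨0, 1, 1⟩, ⟨98, 99, 147⟩, ⟨0, 301, 10000⟩, ⟨2200, 2569, 1000⟩⟩ (yA3A.hUm false false) :=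
  posD_of_check0 (c := ⟨424, ⟨3, 8, 15, 11⟩⟩) (by decide +kernel)

def yA3A_tmg00 : PosD ⟨⟨0, 1, 1⟩, ⟨98, 99, 147⟩, ⟨0, 301, 10000⟩, ⟨2200, 2569, 1000⟩⟩ (yA3A.hTMG false (yA3A.pEnd false)) :=
  posD_of_check0 (c := ⟨384, ⟨2, 7, 14, 10⟩⟩) (by decide +kernel)

def yA3A_tg01 : PosD ⟨⟨0, 1, 1⟩, ⟨98, 99, 147⟩, ⟨0, 301, 10000⟩, ⟨2200, 2569, 1000⟩⟩ (yA3A.hG true (yA3A.pEnd false)) :=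
  posD_of_check0 (c := ⟨368, ⟨2, 7, 14, 9⟩⟩) (by decide +kernel)

def yA3A_c2p01 : PosD ⟨⟨0, 1, 1⟩, ⟨98, 99, 147⟩, ⟨0, 301, 10000⟩, ⟨2200, 2569, 1000⟩⟩ (yA3A.hC2p true (yA3A.pEnd false)) :=
  posD_of_check0 (c := ⟨401, ⟨2, 7, 16, 10⟩⟩) (by decide +kernel)

def yA3A_c2m01 : PosD ⟨⟨0, 1, 1⟩, ⟨98, 99, 147⟩, ⟨0, 301, 10000⟩, ⟨2200, 2569, 1000⟩⟩ (yA3A.hC2m true (yA3A.pEnd false)) :=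
  posD_of_check0 (c := ⟨429, ⟨3, 8, 16, 11⟩⟩) (by decide +kernel)

def yA3A_c3p01 : PosD ⟨⟨0, 1, 1⟩, ⟨98, 99, 147⟩, ⟨0, 301, 10000⟩, ⟨2200, 2569, 1000⟩⟩ (yA3A.hC3p false true) :=
  posD_of_check0 (c := ⟨401, ⟨3, 7, 15, 10⟩⟩) (by decide +kernel)

def yA3A_c3m01 : PosD ⟨⟨0, 1, 1⟩, ⟨98, 99, 147⟩, ⟨0, 301, 10000⟩, ⟨2200, 2569, 1000⟩⟩ (yA3A.hC3m false true) :=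
  posD_of_check0 (c := ⟨426, ⟨3, 8, 15, 11⟩⟩) (by decide +kernel)

def yA3A_c3ph01 : PosD ⟨⟨0, 1, 1⟩, ⟨98, 99, 147⟩, ⟨0, 301, 10000⟩, ⟨2200, 2569, 1000⟩⟩ (yA3A.hC3p' false true) :=
  posD_of_check0 (c := ⟨401, ⟨3, 7, 15, 10⟩⟩) (by decide +kernel)

def yA3A_c3mh01 : PosD ⟨⟨0, 1, 1⟩, ⟨98, 99, 147⟩, ⟨0, 301, 10000⟩, ⟨2200, 2569, 1000⟩⟩ (yA3A.hC3m' false true) :=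
  posD_of_check0 (c := ⟨426, ⟨3, 8, 15, 11⟩⟩) (by decide +kernel)

def yA3A_up01 : PosD ⟨⟨0, 1, 1⟩, ⟨98, 99, 147⟩, ⟨0, 301, 10000⟩, ⟨2200, 2569, 1000⟩⟩ (yA3A.hUp false true) :=
  posD_of_check0 (c := ⟨398, ⟨2, 7, 15, 10⟩⟩) (by decide +kernel)

def yA3A_um01 : PosD ⟨⟨0, 1, 1⟩, ⟨98, 99, 147⟩, ⟨0, 301, 10000⟩, ⟨2200, 2569, 1000⟩⟩ (yA3A.hUm false true) :=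
  posD_of_check0 (c := ⟨424, ⟨3, 8, 15, 11⟩⟩) (by decide +kernel)

def yA3A_tmg01 : PosD ⟨⟨0, 1, 1⟩, ⟨98, 99, 147⟩, ⟨0, 301, 10000⟩, ⟨2200, 2569, 1000⟩⟩ (yA3A.hTMG true (yA3A.pEnd false)) :=
  posD_of_check0 (c := ⟨384, ⟨2, 7, 14, 10⟩⟩) (by decide +kernel)

def yA3A_kap1 : PosD ⟨⟨0, 1, 1⟩, ⟨98, 99, 147⟩, ⟨0, 301, 10000⟩, ⟨2200, 2569, 1000⟩⟩ (yA3A.kap true) :=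
  posD_of_check0 (c := ⟨69, ⟨1, 1, 2, 2⟩⟩) (by decide +kernel)

def yA3A_c11 : PosD ⟨⟨0, 1, 1⟩, ⟨98, 99, 147⟩, ⟨0, 301, 10000⟩, ⟨2200, 2569, 1000⟩⟩ (yA3A.hC1 true) :=
  posD_of_check0 (c := ⟨263, ⟨3, 5, 9, 7⟩⟩) (by decide +kernel)

def yA3A_c1h1 : PosD ⟨⟨0, 1, 1⟩, ⟨98, 99, 147⟩, ⟨0, 301, 10000⟩, ⟨2200, 2569, 1000⟩⟩ (yA3A.hC1' true) :=
  posD_of_check0 (c := ⟨263, ⟨3, 5, 9, 7⟩⟩) (by decide +kernel)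

def yA3A_tg10 : PosD ⟨⟨0, 1, 1⟩, ⟨98, 99, 147⟩, ⟨0, 301, 10000⟩, ⟨2200, 2569, 1000⟩⟩ (yA3A.hG false (yA3A.pEnd true)) :=
  posD_of_check0 (c := ⟨369, ⟨2, 7, 14, 9⟩⟩) (by decide +kernel)

def yA3A_c2p10 : PosD ⟨⟨0, 1, 1⟩, ⟨98, 99, 147⟩, ⟨0, 301, 10000⟩, ⟨2200, 2569, 1000⟩⟩ (yA3A.hC2p false (yA3A.pEnd true)) :=
  posD_of_check0 (c := ⟨402, ⟨2, 7, 16, 10⟩⟩) (by decide +kernel)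

def yA3A_c2m10 : PosD ⟨⟨0, 1, 1⟩, ⟨98, 99, 147⟩, ⟨0, 301, 10000⟩, ⟨2200, 2569, 1000⟩⟩ (yA3A.hC2m false (yA3A.pEnd true)) :=
  posD_of_check0 (c := ⟨430, ⟨3, 8, 16, 11⟩⟩) (by decide +kernel)

def yA3A_c3p10 : PosD ⟨⟨0, 1, 1⟩, ⟨98, 99, 147⟩, ⟨0, 301, 10000⟩, ⟨2200, 2569, 1000⟩⟩ (yA3A.hC3p true false) :=
  posD_of_check0 (c := ⟨403, ⟨3, 7, 15, 10⟩⟩) (by decide +kernel)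

def yA3A_c3m10 : PosD ⟨⟨0, 1, 1⟩, ⟨98, 99, 147⟩, ⟨0, 301, 10000⟩, ⟨2200, 2569, 1000⟩⟩ (yA3A.hC3m true false) :=
  posD_of_check0 (c := ⟨427, ⟨3, 8, 15, 11⟩⟩) (by decide +kernel)

def yA3A_c3ph10 : PosD ⟨⟨0, 1, 1⟩, ⟨98, 99, 147⟩, ⟨0, 301, 10000⟩, ⟨2200, 2569, 1000⟩⟩ (yA3A.hC3p' true false) :=
  posD_of_check0 (c := ⟨402, ⟨3, 7, 15, 10⟩⟩) (by decide +kernel)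

def yA3A_c3mh10 : PosD ⟨⟨0, 1, 1⟩, ⟨98, 99, 147⟩, ⟨0, 301, 10000⟩, ⟨2200, 2569, 1000⟩⟩ (yA3A.hC3m' true false) :=
  posD_of_check0 (c := ⟨427, ⟨3, 8, 15, 11⟩⟩) (by decide +kernel)

def yA3A_up10 : PosD ⟨⟨0, 1, 1⟩, ⟨98, 99, 147⟩, ⟨0, 301, 10000⟩, ⟨2200, 2569, 1000⟩⟩ (yA3A.hUp true false) :=
  posD_of_check0 (c := ⟨399, ⟨2, 7, 15, 10⟩⟩) (by decide +kernel)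

def yA3A_um10 : PosD ⟨⟨0, 1, 1⟩, ⟨98, 99, 147⟩, ⟨0, 301, 10000⟩, ⟨2200, 2569, 1000⟩⟩ (yA3A.hUm true false) :=
  posD_of_check0 (c := ⟨425, ⟨3, 8, 15, 11⟩⟩) (by decide +kernel)

def yA3A_tmg10 : PosD ⟨⟨0, 1, 1⟩, ⟨98, 99, 147⟩, ⟨0, 301, 10000⟩, ⟨2200, 2569, 1000⟩⟩ (yA3A.hTMG false (yA3A.pEnd true)) :=
  posD_of_check0 (c := ⟨384, ⟨2, 7, 14, 10⟩⟩) (by decide +kernel)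

def yA3A_tg11 : PosD ⟨⟨0, 1, 1⟩, ⟨98, 99, 147⟩, ⟨0, 301, 10000⟩, ⟨2200, 2569, 1000⟩⟩ (yA3A.hG true (yA3A.pEnd true)) :=
  posD_of_check0 (c := ⟨369, ⟨2, 7, 14, 9⟩⟩) (by decide +kernel)

def yA3A_c2p11 : PosD ⟨⟨0, 1, 1⟩, ⟨98, 99, 147⟩, ⟨0, 301, 10000⟩, ⟨2200, 2569, 1000⟩⟩ (yA3A.hC2p true (yA3A.pEnd true)) :=
  posD_of_check0 (c := ⟨402, ⟨2, 7, 16, 10⟩⟩) (by decide +kernel)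

def yA3A_c2m11 : PosD ⟨⟨0, 1, 1⟩, ⟨98, 99, 147⟩, ⟨0, 301, 10000⟩, ⟨2200, 2569, 1000⟩⟩ (yA3A.hC2m true (yA3A.pEnd true)) :=
  posD_of_check0 (c := ⟨430, ⟨3, 8, 16, 11⟩⟩) (by decide +kernel)

def yA3A_c3p11 : PosD ⟨⟨0, 1, 1⟩, ⟨98, 99, 147⟩, ⟨0, 301, 10000⟩, ⟨2200, 2569, 1000⟩⟩ (yA3A.hC3p true true) :=
  posD_of_check0 (c := ⟨403, ⟨3, 7, 15, 10⟩⟩) (by decide +kernel)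

def yA3A_c3m11 : PosD ⟨⟨0, 1, 1⟩, ⟨98, 99, 147⟩, ⟨0, 301, 10000⟩, ⟨2200, 2569, 1000⟩⟩ (yA3A.hC3m true true) :=
  posD_of_check0 (c := ⟨427, ⟨3, 8, 15, 11⟩⟩) (by decide +kernel)

def yA3A_c3ph11 : PosD ⟨⟨0, 1, 1⟩, ⟨98, 99, 147⟩, ⟨0, 301, 10000⟩, ⟨2200, 2569, 1000⟩⟩ (yA3A.hC3p' true true) :=
  posD_of_check0 (c := ⟨402, ⟨3, 7, 15, 10⟩⟩) (by decide +kernel)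

def yA3A_c3mh11 : PosD ⟨⟨0, 1, 1⟩, ⟨98, 99, 147⟩, ⟨0, 301, 10000⟩, ⟨2200, 2569, 1000⟩⟩ (yA3A.hC3m' true true) :=
  posD_of_check0 (c := ⟨427, ⟨3, 8, 15, 11⟩⟩) (by decide +kernel)

def yA3A_up11 : PosD ⟨⟨0, 1, 1⟩, ⟨98, 99, 147⟩, ⟨0, 301, 10000⟩, ⟨2200, 2569, 1000⟩⟩ (yA3A.hUp true true) :=
  posD_of_check0 (c := ⟨399, ⟨2, 7, 15, 10⟩⟩) (by decide +kernel)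

def yA3A_um11 : PosD ⟨⟨0, 1, 1⟩, ⟨98, 99, 147⟩, ⟨0, 301, 10000⟩, ⟨2200, 2569, 1000⟩⟩ (yA3A.hUm true true) :=
  posD_of_check0 (c := ⟨425, ⟨3, 8, 15, 11⟩⟩) (by decide +kernel)

def yA3A_tmg11 : PosD ⟨⟨0, 1, 1⟩, ⟨98, 99, 147⟩, ⟨0, 301, 10000⟩, ⟨2200, 2569, 1000⟩⟩ (yA3A.hTMG true (yA3A.pEnd true)) :=
  posD_of_check0 (c := ⟨384, ⟨2, 7, 14, 10⟩⟩) (by decide +kernel)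

/-- The signs of the piece. -/
def yA3A_sign : yA3A.Sign ⟨⟨0, 1, 1⟩, ⟨98, 99, 147⟩, ⟨0, 301, 10000⟩, ⟨2200, 2569, 1000⟩⟩ :=
  ⟨yA3A_pp,
    yA3A_k2p,
    yA3A_k2m,
    Bool.forall_bool.2 ⟨(Bool.forall_bool.2 ⟨yA3A_tg00, yA3A_tg01⟩), (Bool.forall_bool.2 ⟨yA3A_tg10, yA3A_tg11⟩)⟩,
    Bool.forall_bool.2 ⟨(Bool.forall_bool.2 ⟨yA3A_c2p00, yA3A_c2p01⟩), (Bool.forall_bool.2 ⟨yA3A_c2p10, yA3A_c2p11⟩)⟩,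
    Bool.forall_bool.2 ⟨(Bool.forall_bool.2 ⟨yA3A_c2m00, yA3A_c2m01⟩), (Bool.forall_bool.2 ⟨yA3A_c2m10, yA3A_c2m11⟩)⟩,
    Bool.forall_bool.2 ⟨yA3A_kap0, yA3A_kap1⟩,
    Bool.forall_bool.2 ⟨yA3A_c10, yA3A_c11⟩,
    Bool.forall_bool.2 ⟨(Bool.forall_bool.2 ⟨yA3A_c3p00, yA3A_c3p01⟩), (Bool.forall_bool.2 ⟨yA3A_c3p10, yA3A_c3p11⟩)⟩,
    Bool.forall_bool.2 ⟨(Bool.forall_bool.2 ⟨yA3A_c3m00, yA3A_c3m01⟩), (Bool.forall_bool.2 ⟨yA3A_c3m10, yA3A_c3m11⟩)⟩,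
    Bool.forall_bool.2 ⟨(Bool.forall_bool.2 ⟨yA3A_tmg00, yA3A_tmg01⟩), (Bool.forall_bool.2 ⟨yA3A_tmg10, yA3A_tmg11⟩)⟩,
    .inr (Bool.forall_bool.2 ⟨⟨yA3A_c1h0, Bool.forall_bool.2 ⟨⟨yA3A_c3ph00, yA3A_c3mh00, yA3A_up00, yA3A_um00⟩, ⟨yA3A_c3ph01, yA3A_c3mh01, yA3A_up01, yA3A_um01⟩⟩⟩, ⟨yA3A_c1h1, Bool.forall_bool.2 ⟨⟨yA3A_c3ph10, yA3A_c3mh10, yA3A_up10, yA3A_um10⟩, ⟨yA3A_c3ph11, yA3A_c3mh11, yA3A_up11, yA3A_um11⟩⟩⟩⟩),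
    yA3A_v2p,
    yA3A_v2m,
    yA3A_v3p,
    yA3A_v3m,
    posD_sub (b := ⟨⟨0, 1, 1⟩, ⟨98, 99, 147⟩, ⟨0, 301, 10000⟩, ⟨1060, 4000, 1000⟩⟩) (by decide +kernel) yA_vG,
    posD_sub (b := ⟨⟨0, 1, 1⟩, ⟨98, 99, 147⟩, ⟨0, 301, 10000⟩, ⟨1060, 4000, 1000⟩⟩) (by decide +kernel) yA_vMG,
    posD_sub (b := ⟨⟨0, 1, 1⟩, ⟨98, 99, 147⟩, ⟨0, 301, 10000⟩, ⟨1060, 4000, 1000⟩⟩) (by decide +kernel) yA_ak,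
    posD_sub (b := ⟨⟨0, 1, 1⟩, ⟨98, 99, 147⟩, ⟨0, 301, 10000⟩, ⟨1060, 4000, 1000⟩⟩) (by decide +kernel) yA_aw,
    posD_sub (b := ⟨⟨0, 1, 1⟩, ⟨98, 99, 147⟩, ⟨0, 301, 10000⟩, ⟨1060, 4000, 1000⟩⟩) (by decide +kernel) yA_gk,
    posD_sub (b := ⟨⟨0, 1, 1⟩, ⟨98, 99, 147⟩, ⟨0, 301, 10000⟩, ⟨1060, 4000, 1000⟩⟩) (by decide +kernel) yA_gw,
    posD_sub (b := ⟨⟨0, 1, 1⟩, ⟨98, 99, 147⟩, ⟨0, 301, 10000⟩, ⟨1060, 4000, 1000⟩⟩) (by decide +kernel) yA_ek,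
    posD_sub (b := ⟨⟨0, 1, 1⟩, ⟨98, 99, 147⟩, ⟨0, 301, 10000⟩, ⟨1060, 4000, 1000⟩⟩) (by decide +kernel) yA_ew⟩

def yA3B_pp : PosD ⟨⟨0, 1, 1⟩, ⟨98, 99, 147⟩, ⟨0, 301, 10000⟩, ⟨2200, 2569, 1000⟩⟩ (yA3B.xPL) :=
  posD_of_check0 (c := ⟨90, ⟨1, 1, 3, 3⟩⟩) (by decide +kernel)

def yA3B_k2p : PosD ⟨⟨0, 1, 1⟩, ⟨98, 99, 147⟩, ⟨0, 301, 10000⟩, ⟨2200, 2569, 1000⟩⟩ (yA3B.k2p yA3B.xE) :=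
  posD_of_check0 (c := ⟨21, ⟨0, 0, 1, 0⟩⟩) (by decide +kernel)

def yA3B_k2m : PosD ⟨⟨0, 1, 1⟩, ⟨98, 99, 147⟩, ⟨0, 301, 10000⟩, ⟨2200, 2569, 1000⟩⟩ (yA3B.k2m yA3B.xE) :=
  posD_of_check0 (c := ⟨62, ⟨1, 1, 2, 2⟩⟩) (by decide +kernel)

def yA3B_v2p : PosD ⟨⟨0, 1, 1⟩, ⟨98, 99, 147⟩, ⟨0, 301, 10000⟩, ⟨2200, 2569, 1000⟩⟩ (yA3B.hV2p) :=
  posD_of_check0 (c := ⟨225, ⟨0, 5, 10, 4⟩⟩) (by decide +kernel)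

def yA3B_v2m : PosD ⟨⟨0, 1, 1⟩, ⟨98, 99, 147⟩, ⟨0, 301, 10000⟩, ⟨2200, 2569, 1000⟩⟩ (yA3B.hV2m) :=
  posD_of_check0 (c := ⟨254, ⟨1, 6, 10, 5⟩⟩) (by decide +kernel)

def yA3B_v3p : PosD ⟨⟨0, 1, 1⟩, ⟨98, 99, 147⟩, ⟨0, 301, 10000⟩, ⟨2200, 2569, 1000⟩⟩ (yA3B.hV3p) :=
  posD_of_check0 (c := ⟨220, ⟨0, 5, 9, 4⟩⟩) (by decide +kernel)

def yA3B_v3m : PosD ⟨⟨0, 1, 1⟩, ⟨98, 99, 147⟩, ⟨0, 301, 10000⟩, ⟨2200, 2569, 1000⟩⟩ (yA3B.hV3m) :=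
  posD_of_check0 (c := ⟨246, ⟨1, 6, 9, 5⟩⟩) (by decide +kernel)

def yA3B_kap0 : PosD ⟨⟨0, 1, 1⟩, ⟨98, 99, 147⟩, ⟨0, 301, 10000⟩, ⟨2200, 2569, 1000⟩⟩ (yA3B.kap false) :=
  posD_of_check0 (c := ⟨70, ⟨1, 1, 2, 2⟩⟩) (by decide +kernel)

def yA3B_c10 : PosD ⟨⟨0, 1, 1⟩, ⟨98, 99, 147⟩, ⟨0, 301, 10000⟩, ⟨2200, 2569, 1000⟩⟩ (yA3B.hC1 false) :=
  posD_of_check0 (c := ⟨263, ⟨3, 5, 9, 7⟩⟩) (by decide +kernel)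

def yA3B_c1h0 : PosD ⟨⟨0, 1, 1⟩, ⟨98, 99, 147⟩, ⟨0, 301, 10000⟩, ⟨2200, 2569, 1000⟩⟩ (yA3B.hC1' false) :=
  posD_of_check0 (c := ⟨263, ⟨3, 5, 9, 7⟩⟩) (by decide +kernel)

def yA3B_tg00 : PosD ⟨⟨0, 1, 1⟩, ⟨98, 99, 147⟩, ⟨0, 301, 10000⟩, ⟨2200, 2569, 1000⟩⟩ (yA3B.hG false (yA3B.pEnd false)) :=
  posD_of_check0 (c := ⟨368, ⟨2, 7, 14, 9⟩⟩) (by decide +kernel)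

def yA3B_c2p00 : PosD ⟨⟨0, 1, 1⟩, ⟨98, 99, 147⟩, ⟨0, 301, 10000⟩, ⟨2200, 2569, 1000⟩⟩ (yA3B.hC2p false (yA3B.pEnd false)) :=
  posD_of_check0 (c := ⟨401, ⟨2, 7, 16, 10⟩⟩) (by decide +kernel)

def yA3B_c2m00 : PosD ⟨⟨0, 1, 1⟩, ⟨98, 99, 147⟩, ⟨0, 301, 10000⟩, ⟨2200, 2569, 1000⟩⟩ (yA3B.hC2m false (yA3B.pEnd false)) :=
  posD_of_check0 (c := ⟨430, ⟨3, 8, 16, 11⟩⟩) (by decide +kernel)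

def yA3B_c3p00 : PosD ⟨⟨0, 1, 1⟩, ⟨98, 99, 147⟩, ⟨0, 301, 10000⟩, ⟨2200, 2569, 1000⟩⟩ (yA3B.hC3p false false) :=
  posD_of_check0 (c := ⟨403, ⟨3, 7, 15, 10⟩⟩) (by decide +kernel)

def yA3B_c3m00 : PosD ⟨⟨0, 1, 1⟩, ⟨98, 99, 147⟩, ⟨0, 301, 10000⟩, ⟨2200, 2569, 1000⟩⟩ (yA3B.hC3m false false) :=
  posD_of_check0 (c := ⟨428, ⟨3, 8, 15, 11⟩⟩) (by decide +kernel)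

def yA3B_c3ph00 : PosD ⟨⟨0, 1, 1⟩, ⟨98, 99, 147⟩, ⟨0, 301, 10000⟩, ⟨2200, 2569, 1000⟩⟩ (yA3B.hC3p' false false) :=
  posD_of_check0 (c := ⟨403, ⟨3, 7, 15, 10⟩⟩) (by decide +kernel)

def yA3B_c3mh00 : PosD ⟨⟨0, 1, 1⟩, ⟨98, 99, 147⟩, ⟨0, 301, 10000⟩, ⟨2200, 2569, 1000⟩⟩ (yA3B.hC3m' false false) :=
  posD_of_check0 (c := ⟨427, ⟨3, 8, 15, 11⟩⟩) (by decide +kernel)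

def yA3B_up00 : PosD ⟨⟨0, 1, 1⟩, ⟨98, 99, 147⟩, ⟨0, 301, 10000⟩, ⟨2200, 2569, 1000⟩⟩ (yA3B.hUp false false) :=
  posD_of_check0 (c := ⟨398, ⟨2, 7, 15, 10⟩⟩) (by decide +kernel)

def yA3B_um00 : PosD ⟨⟨0, 1, 1⟩, ⟨98, 99, 147⟩, ⟨0, 301, 10000⟩, ⟨2200, 2569, 1000⟩⟩ (yA3B.hUm false false) :=
  posD_of_check0 (c := ⟨424, ⟨3, 8, 15, 11⟩⟩) (by decide +kernel)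

def yA3B_tmg00 : PosD ⟨⟨0, 1, 1⟩, ⟨98, 99, 147⟩, ⟨0, 301, 10000⟩, ⟨2200, 2569, 1000⟩⟩ (yA3B.hTMG false (yA3B.pEnd false)) :=
  posD_of_check0 (c := ⟨384, ⟨2, 7, 14, 10⟩⟩) (by decide +kernel)

def yA3B_tg01 : PosD ⟨⟨0, 1, 1⟩, ⟨98, 99, 147⟩, ⟨0, 301, 10000⟩, ⟨2200, 2569, 1000⟩⟩ (yA3B.hG true (yA3B.pEnd false)) :=
  posD_of_check0 (c := ⟨368, ⟨2, 7, 14, 9⟩⟩) (by decide +kernel)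

def yA3B_c2p01 : PosD ⟨⟨0, 1, 1⟩, ⟨98, 99, 147⟩, ⟨0, 301, 10000⟩, ⟨2200, 2569, 1000⟩⟩ (yA3B.hC2p true (yA3B.pEnd false)) :=
  posD_of_check0 (c := ⟨401, ⟨2, 7, 16, 10⟩⟩) (by decide +kernel)

def yA3B_c2m01 : PosD ⟨⟨0, 1, 1⟩, ⟨98, 99, 147⟩, ⟨0, 301, 10000⟩, ⟨2200, 2569, 1000⟩⟩ (yA3B.hC2m true (yA3B.pEnd false)) :=
  posD_of_check0 (c := ⟨430, ⟨3, 8, 16, 11⟩⟩) (by decide +kernel)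

def yA3B_c3p01 : PosD ⟨⟨0, 1, 1⟩, ⟨98, 99, 147⟩, ⟨0, 301, 10000⟩, ⟨2200, 2569, 1000⟩⟩ (yA3B.hC3p false true) :=
  posD_of_check0 (c := ⟨403, ⟨3, 7, 15, 10⟩⟩) (by decide +kernel)

def yA3B_c3m01 : PosD ⟨⟨0, 1, 1⟩, ⟨98, 99, 147⟩, ⟨0, 301, 10000⟩, ⟨2200, 2569, 1000⟩⟩ (yA3B.hC3m false true) :=
  posD_of_check0 (c := ⟨428, ⟨3, 8, 15, 11⟩⟩) (by decide +kernel)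

def yA3B_c3ph01 : PosD ⟨⟨0, 1, 1⟩, ⟨98, 99, 147⟩, ⟨0, 301, 10000⟩, ⟨2200, 2569, 1000⟩⟩ (yA3B.hC3p' false true) :=
  posD_of_check0 (c := ⟨403, ⟨3, 7, 15, 10⟩⟩) (by decide +kernel)

def yA3B_c3mh01 : PosD ⟨⟨0, 1, 1⟩, ⟨98, 99, 147⟩, ⟨0, 301, 10000⟩, ⟨2200, 2569, 1000⟩⟩ (yA3B.hC3m' false true) :=
  posD_of_check0 (c := ⟨427, ⟨3, 8, 15, 11⟩⟩) (by decide +kernel)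

def yA3B_up01 : PosD ⟨⟨0, 1, 1⟩, ⟨98, 99, 147⟩, ⟨0, 301, 10000⟩, ⟨2200, 2569, 1000⟩⟩ (yA3B.hUp false true) :=
  posD_of_check0 (c := ⟨398, ⟨2, 7, 15, 10⟩⟩) (by decide +kernel)

def yA3B_um01 : PosD ⟨⟨0, 1, 1⟩, ⟨98, 99, 147⟩, ⟨0, 301, 10000⟩, ⟨2200, 2569, 1000⟩⟩ (yA3B.hUm false true) :=
  posD_of_check0 (c := ⟨424, ⟨3, 8, 15, 11⟩⟩) (by decide +kernel)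

def yA3B_tmg01 : PosD ⟨⟨0, 1, 1⟩, ⟨98, 99, 147⟩, ⟨0, 301, 10000⟩, ⟨2200, 2569, 1000⟩⟩ (yA3B.hTMG true (yA3B.pEnd false)) :=
  posD_of_check0 (c := ⟨384, ⟨2, 7, 14, 10⟩⟩) (by decide +kernel)

def yA3B_kap1 : PosD ⟨⟨0, 1, 1⟩, ⟨98, 99, 147⟩, ⟨0, 301, 10000⟩, ⟨2200, 2569, 1000⟩⟩ (yA3B.kap true) :=
  posD_of_check0 (c := ⟨70, ⟨1, 1, 2, 2⟩⟩) (by decide +kernel)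

def yA3B_c11 : PosD ⟨⟨0, 1, 1⟩, ⟨98, 99, 147⟩, ⟨0, 301, 10000⟩, ⟨2200, 2569, 1000⟩⟩ (yA3B.hC1 true) :=
  posD_of_check0 (c := ⟨264, ⟨3, 5, 9, 7⟩⟩) (by decide +kernel)

def yA3B_c1h1 : PosD ⟨⟨0, 1, 1⟩, ⟨98, 99, 147⟩, ⟨0, 301, 10000⟩, ⟨2200, 2569, 1000⟩⟩ (yA3B.hC1' true) :=
  posD_of_check0 (c := ⟨264, ⟨3, 5, 9, 7⟩⟩) (by decide +kernel)

def yA3B_tg10 : PosD ⟨⟨0, 1, 1⟩, ⟨98, 99, 147⟩, ⟨0, 301, 10000⟩, ⟨2200, 2569, 1000⟩⟩ (yA3B.hG false (yA3B.pEnd true)) :=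
  posD_of_check0 (c := ⟨370, ⟨2, 7, 14, 9⟩⟩) (by decide +kernel)

def yA3B_c2p10 : PosD ⟨⟨0, 1, 1⟩, ⟨98, 99, 147⟩, ⟨0, 301, 10000⟩, ⟨2200, 2569, 1000⟩⟩ (yA3B.hC2p false (yA3B.pEnd true)) :=
  posD_of_check0 (c := ⟨402, ⟨2, 7, 16, 10⟩⟩) (by decide +kernel)

def yA3B_c2m10 : PosD ⟨⟨0, 1, 1⟩, ⟨98, 99, 147⟩, ⟨0, 301, 10000⟩, ⟨2200, 2569, 1000⟩⟩ (yA3B.hC2m false (yA3B.pEnd true)) :=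
  posD_of_check0 (c := ⟨431, ⟨3, 8, 16, 11⟩⟩) (by decide +kernel)

def yA3B_c3p10 : PosD ⟨⟨0, 1, 1⟩, ⟨98, 99, 147⟩, ⟨0, 301, 10000⟩, ⟨2200, 2569, 1000⟩⟩ (yA3B.hC3p true false) :=
  posD_of_check0 (c := ⟨404, ⟨3, 7, 15, 10⟩⟩) (by decide +kernel)

def yA3B_c3m10 : PosD ⟨⟨0, 1, 1⟩, ⟨98, 99, 147⟩, ⟨0, 301, 10000⟩, ⟨2200, 2569, 1000⟩⟩ (yA3B.hC3m true false) :=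
  posD_of_check0 (c := ⟨428, ⟨3, 8, 15, 11⟩⟩) (by decide +kernel)

def yA3B_c3ph10 : PosD ⟨⟨0, 1, 1⟩, ⟨98, 99, 147⟩, ⟨0, 301, 10000⟩, ⟨2200, 2569, 1000⟩⟩ (yA3B.hC3p' true false) :=
  posD_of_check0 (c := ⟨403, ⟨3, 7, 15, 10⟩⟩) (by decide +kernel)

def yA3B_c3mh10 : PosD ⟨⟨0, 1, 1⟩, ⟨98, 99, 147⟩, ⟨0, 301, 10000⟩, ⟨2200, 2569, 1000⟩⟩ (yA3B.hC3m' true false) :=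
  posD_of_check0 (c := ⟨428, ⟨3, 8, 15, 11⟩⟩) (by decide +kernel)

def yA3B_up10 : PosD ⟨⟨0, 1, 1⟩, ⟨98, 99, 147⟩, ⟨0, 301, 10000⟩, ⟨2200, 2569, 1000⟩⟩ (yA3B.hUp true false) :=
  posD_of_check0 (c := ⟨399, ⟨2, 7, 15, 10⟩⟩) (by decide +kernel)

def yA3B_um10 : PosD ⟨⟨0, 1, 1⟩, ⟨98, 99, 147⟩, ⟨0, 301, 10000⟩, ⟨2200, 2569, 1000⟩⟩ (yA3B.hUm true false) :=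
  posD_of_check0 (c := ⟨425, ⟨3, 8, 15, 11⟩⟩) (by decide +kernel)

def yA3B_tmg10 : PosD ⟨⟨0, 1, 1⟩, ⟨98, 99, 147⟩, ⟨0, 301, 10000⟩, ⟨2200, 2569, 1000⟩⟩ (yA3B.hTMG false (yA3B.pEnd true)) :=
  posD_of_check0 (c := ⟨384, ⟨2, 7, 14, 10⟩⟩) (by decide +kernel)

def yA3B_tg11 : PosD ⟨⟨0, 1, 1⟩, ⟨98, 99, 147⟩, ⟨0, 301, 10000⟩, ⟨2200, 2569, 1000⟩⟩ (yA3B.hG true (yA3B.pEnd true)) :=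
  posD_of_check0 (c := ⟨370, ⟨2, 7, 14, 9⟩⟩) (by decide +kernel)

def yA3B_c2p11 : PosD ⟨⟨0, 1, 1⟩, ⟨98, 99, 147⟩, ⟨0, 301, 10000⟩, ⟨2200, 2569, 1000⟩⟩ (yA3B.hC2p true (yA3B.pEnd true)) :=
  posD_of_check0 (c := ⟨402, ⟨2, 7, 16, 10⟩⟩) (by decide +kernel)

def yA3B_c2m11 : PosD ⟨⟨0, 1, 1⟩, ⟨98, 99, 147⟩, ⟨0, 301, 10000⟩, ⟨2200, 2569, 1000⟩⟩ (yA3B.hC2m true (yA3B.pEnd true)) :=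
  posD_of_check0 (c := ⟨431, ⟨3, 8, 16, 11⟩⟩) (by decide +kernel)

def yA3B_c3p11 : PosD ⟨⟨0, 1, 1⟩, ⟨98, 99, 147⟩, ⟨0, 301, 10000⟩, ⟨2200, 2569, 1000⟩⟩ (yA3B.hC3p true true) :=
  posD_of_check0 (c := ⟨404, ⟨3, 7, 15, 10⟩⟩) (by decide +kernel)

def yA3B_c3m11 : PosD ⟨⟨0, 1, 1⟩, ⟨98, 99, 147⟩, ⟨0, 301, 10000⟩, ⟨2200, 2569, 1000⟩⟩ (yA3B.hC3m true true) :=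
  posD_of_check0 (c := ⟨428, ⟨3, 8, 15, 11⟩⟩) (by decide +kernel)

def yA3B_c3ph11 : PosD ⟨⟨0, 1, 1⟩, ⟨98, 99, 147⟩, ⟨0, 301, 10000⟩, ⟨2200, 2569, 1000⟩⟩ (yA3B.hC3p' true true) :=
  posD_of_check0 (c := ⟨403, ⟨3, 7, 15, 10⟩⟩) (by decide +kernel)

def yA3B_c3mh11 : PosD ⟨⟨0, 1, 1⟩, ⟨98, 99, 147⟩, ⟨0, 301, 10000⟩, ⟨2200, 2569, 1000⟩⟩ (yA3B.hC3m' true true) :=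
  posD_of_check0 (c := ⟨428, ⟨3, 8, 15, 11⟩⟩) (by decide +kernel)

def yA3B_up11 : PosD ⟨⟨0, 1, 1⟩, ⟨98, 99, 147⟩, ⟨0, 301, 10000⟩, ⟨2200, 2569, 1000⟩⟩ (yA3B.hUp true true) :=
  posD_of_check0 (c := ⟨399, ⟨2, 7, 15, 10⟩⟩) (by decide +kernel)

def yA3B_um11 : PosD ⟨⟨0, 1, 1⟩, ⟨98, 99, 147⟩, ⟨0, 301, 10000⟩, ⟨2200, 2569, 1000⟩⟩ (yA3B.hUm true true) :=
  posD_of_check0 (c := ⟨425, ⟨3, 8, 15, 11⟩⟩) (by decide +kernel)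

def yA3B_tmg11 : PosD ⟨⟨0, 1, 1⟩, ⟨98, 99, 147⟩, ⟨0, 301, 10000⟩, ⟨2200, 2569, 1000⟩⟩ (yA3B.hTMG true (yA3B.pEnd true)) :=
  posD_of_check0 (c := ⟨384, ⟨2, 7, 14, 10⟩⟩) (by decide +kernel)

/-- The signs of the piece. -/
def yA3B_sign : yA3B.Sign ⟨⟨0, 1, 1⟩, ⟨98, 99, 147⟩, ⟨0, 301, 10000⟩, ⟨2200, 2569, 1000⟩⟩ :=
  ⟨yA3B_pp,
    yA3B_k2p,
    yA3B_k2m,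
    Bool.forall_bool.2 ⟨(Bool.forall_bool.2 ⟨yA3B_tg00, yA3B_tg01⟩), (Bool.forall_bool.2 ⟨yA3B_tg10, yA3B_tg11⟩)⟩,
    Bool.forall_bool.2 ⟨(Bool.forall_bool.2 ⟨yA3B_c2p00, yA3B_c2p01⟩), (Bool.forall_bool.2 ⟨yA3B_c2p10, yA3B_c2p11⟩)⟩,
    Bool.forall_bool.2 ⟨(Bool.forall_bool.2 ⟨yA3B_c2m00, yA3B_c2m01⟩), (Bool.forall_bool.2 ⟨yA3B_c2m10, yA3B_c2m11⟩)⟩,
    Bool.forall_bool.2 ⟨yA3B_kap0, yA3B_kap1⟩,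
    Bool.forall_bool.2 ⟨yA3B_c10, yA3B_c11⟩,
    Bool.forall_bool.2 ⟨(Bool.forall_bool.2 ⟨yA3B_c3p00, yA3B_c3p01⟩), (Bool.forall_bool.2 ⟨yA3B_c3p10, yA3B_c3p11⟩)⟩,
    Bool.forall_bool.2 ⟨(Bool.forall_bool.2 ⟨yA3B_c3m00, yA3B_c3m01⟩), (Bool.forall_bool.2 ⟨yA3B_c3m10, yA3B_c3m11⟩)⟩,
    Bool.forall_bool.2 ⟨(Bool.forall_bool.2 ⟨yA3B_tmg00, yA3B_tmg01⟩), (Bool.forall_bool.2 ⟨yA3B_tmg10, yA3B_tmg11⟩)⟩,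
    .inr (Bool.forall_bool.2 ⟨⟨yA3B_c1h0, Bool.forall_bool.2 ⟨⟨yA3B_c3ph00, yA3B_c3mh00, yA3B_up00, yA3B_um00⟩, ⟨yA3B_c3ph01, yA3B_c3mh01, yA3B_up01, yA3B_um01⟩⟩⟩, ⟨yA3B_c1h1, Bool.forall_bool.2 ⟨⟨yA3B_c3ph10, yA3B_c3mh10, yA3B_up10, yA3B_um10⟩, ⟨yA3B_c3ph11, yA3B_c3mh11, yA3B_up11, yA3B_um11⟩⟩⟩⟩),
    yA3B_v2p,
    yA3B_v2m,
    yA3B_v3p,
    yA3B_v3m,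
    posD_sub (b := ⟨⟨0, 1, 1⟩, ⟨98, 99, 147⟩, ⟨0, 301, 10000⟩, ⟨1060, 4000, 1000⟩⟩) (by decide +kernel) yA_vG,
    posD_sub (b := ⟨⟨0, 1, 1⟩, ⟨98, 99, 147⟩, ⟨0, 301, 10000⟩, ⟨1060, 4000, 1000⟩⟩) (by decide +kernel) yA_vMG,
    posD_sub (b := ⟨⟨0, 1, 1⟩, ⟨98, 99, 147⟩, ⟨0, 301, 10000⟩, ⟨1060, 4000, 1000⟩⟩) (by decide +kernel) yA_ak,
    posD_sub (b := ⟨⟨0, 1, 1⟩, ⟨98, 99, 147⟩, ⟨0, 301, 10000⟩, ⟨1060, 4000, 1000⟩⟩) (by decide +kernel) yA_aw,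
    posD_sub (b := ⟨⟨0, 1, 1⟩, ⟨98, 99, 147⟩, ⟨0, 301, 10000⟩, ⟨1060, 4000, 1000⟩⟩) (by decide +kernel) yA_gk,
    posD_sub (b := ⟨⟨0, 1, 1⟩, ⟨98, 99, 147⟩, ⟨0, 301, 10000⟩, ⟨1060, 4000, 1000⟩⟩) (by decide +kernel) yA_gw,
    posD_sub (b := ⟨⟨0, 1, 1⟩, ⟨98, 99, 147⟩, ⟨0, 301, 10000⟩, ⟨1060, 4000, 1000⟩⟩) (by decide +kernel) yA_ek,
    posD_sub (b := ⟨⟨0, 1, 1⟩, ⟨98, 99, 147⟩, ⟨0, 301, 10000⟩, ⟨1060, 4000, 1000⟩⟩) (by decide +kernel) yA_ew⟩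

end Vale.Agent.P100.Calib.Closed.Six.Tail
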