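import Vale.Agent.P100.Calib.SlabSixTailDataLayerA
import Vale.Agent.P100.Calib.SlabSixTailGlobLayerA

/-!
# Checks of some pieces of the certificate

The checks are written as definitions so that they run one after another, which keeps the memory of the
kernel low.
-/

set_option linter.defProp false

namespace Vale.Agent.P100.Calib.Closed.Six.Tail

open BoxPos Large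

local instance sixTailChecksyA3Add : Add Ex := ⟨Ex.add⟩
local instance sixTailChecksyA3Sub : Sub Ex := ⟨Ex.sub⟩
local instance sixTailChecksyA3Mul : Mul Ex := ⟨Ex.mul⟩

def yA4_p0 : PosD ⟨⟨0, 1, 1⟩, ⟨98, 99, 147⟩, ⟨0, 150, 10000⟩, ⟨2569, 2776, 1000⟩⟩ (yA4.hP0) :=
  posD_of_check0 (c := ⟨82, ⟨0, 2, 3, 1⟩⟩) (by decide +kernel)

def yA4_gn : PosD ⟨⟨0, 1, 1⟩, ⟨98, 99, 147⟩, ⟨0, 150, 10000⟩, ⟨2569, 2776, 1000⟩⟩ (yA4.hGn) :=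
  posD_of_check0 (c := ⟨58, ⟨1, 1, 2, 1⟩⟩) (by decide +kernel)

def yA4_den0 : PosD ⟨⟨0, 1, 1⟩, ⟨98, 99, 147⟩, ⟨0, 150, 10000⟩, ⟨2569, 2776, 1000⟩⟩ (yA4.hDen false) :=
  posD_of_check0 (c := ⟨45, ⟨0, 0, 2, 0⟩⟩) (by decide +kernel)

def yA4_den1 : PosD ⟨⟨0, 1, 1⟩, ⟨98, 99, 147⟩, ⟨0, 150, 10000⟩, ⟨2569, 2776, 1000⟩⟩ (yA4.hDen true) :=
  posD_of_check0 (c := ⟨22, ⟨1, 0, 1, 0⟩⟩) (by decide +kernel)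

def yA4_ev0 : PosD ⟨⟨0, 1, 1⟩, ⟨98, 99, 147⟩, ⟨0, 150, 10000⟩, ⟨2569, 2776, 1000⟩⟩ (yA4.hEv false) :=
  posD_of_check0 (c := ⟨148, ⟨2, 2, 6, 1⟩⟩) (by decide +kernel)

def yA4_zL0 : PosD ⟨⟨0, 1, 1⟩, ⟨98, 99, 147⟩, ⟨0, 150, 10000⟩, ⟨2569, 2776, 1000⟩⟩ (yA4.hZL false) :=
  posD_of_check0 (c := ⟨158, ⟨2, 3, 6, 3⟩⟩) (by decide +kernel)

def yA4_zU0a : PosD ⟨⟨0, 1, 1⟩, ⟨98, 99, 147⟩, ⟨0, 75, 10000⟩, ⟨2569, 2776, 1000⟩⟩ (yA4.hZU false) :=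
  posD_of_check0 (c := ⟨158, ⟨2, 3, 6, 3⟩⟩) (by decide +kernel)

def yA4_zU0b : PosD ⟨⟨0, 1, 1⟩, ⟨98, 99, 147⟩, ⟨75, 150, 10000⟩, ⟨2569, 2776, 1000⟩⟩ (yA4.hZU false) :=
  posD_of_check (c := ⟨159, ⟨2, 3, 6, 3⟩⟩) (by decide +kernel)

def yA4_zU0 : PosD ⟨⟨0, 1, 1⟩, ⟨98, 99, 147⟩, ⟨0, 150, 10000⟩, ⟨2569, 2776, 1000⟩⟩ (yA4.hZU false) :=
  posD_join₂ yA4_zU0a yA4_zU0b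

def yA4_eL0 : PosD ⟨⟨0, 1, 1⟩, ⟨98, 99, 147⟩, ⟨0, 150, 10000⟩, ⟨2569, 2776, 1000⟩⟩ (yA4.hEL false) :=
  posD_of_check0 (c := ⟨240, ⟨3, 6, 9, 3⟩⟩) (by decide +kernel)

def yA4_eH0 : PosD ⟨⟨0, 1, 1⟩, ⟨98, 99, 147⟩, ⟨0, 150, 10000⟩, ⟨2569, 2776, 1000⟩⟩ (yA4.hEH false) :=
  posD_of_check0 (c := ⟨255, ⟨3, 6, 9, 3⟩⟩) (by decide +kernel)

def yA4_pL0 : PosD ⟨⟨0, 1, 1⟩, ⟨98, 99, 147⟩, ⟨0, 150, 10000⟩, ⟨2569, 2776, 1000⟩⟩ (yA4.hPL false) :=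
  posD_of_check0 (c := ⟨259, ⟨3, 6, 9, 3⟩⟩) (by decide +kernel)

def yA4_pU0 : PosD ⟨⟨0, 1, 1⟩, ⟨98, 99, 147⟩, ⟨0, 150, 10000⟩, ⟨2569, 2776, 1000⟩⟩ (yA4.hPU false) :=
  posD_of_check0 (c := ⟨258, ⟨3, 6, 9, 3⟩⟩) (by decide +kernel)

def yA4_kU0 : PosD ⟨⟨0, 1, 1⟩, ⟨98, 99, 147⟩, ⟨0, 150, 10000⟩, ⟨2569, 2776, 1000⟩⟩ (yA4.hKU false) :=
  posD_of_check0 (c := ⟨253, ⟨3, 6, 9, 3⟩⟩) (by decide +kernel)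

def yA4_kL0 : PosD ⟨⟨0, 1, 1⟩, ⟨98, 99, 147⟩, ⟨0, 150, 10000⟩, ⟨2569, 2776, 1000⟩⟩ (yA4.hKL false) :=
  posD_of_check0 (c := ⟨254, ⟨3, 6, 9, 3⟩⟩) (by decide +kernel)

def yA4_wU0a : PosD ⟨⟨0, 1, 2⟩, ⟨98, 99, 147⟩, ⟨0, 150, 10000⟩, ⟨2569, 2776, 1000⟩⟩ (yA4.hWU false) :=
  posD_of_check0 (c := ⟨291, ⟨3, 8, 10, 3⟩⟩) (by decide +kernel)

def yA4_wU0b : PosD ⟨⟨1, 2, 2⟩, ⟨98, 99, 147⟩, ⟨0, 150, 10000⟩, ⟨2569, 2776, 1000⟩⟩ (yA4.hWU false) :=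
  posD_of_check0 (c := ⟨292, ⟨3, 8, 10, 3⟩⟩) (by decide +kernel)

def yA4_wU0 : PosD ⟨⟨0, 1, 1⟩, ⟨98, 99, 147⟩, ⟨0, 150, 10000⟩, ⟨2569, 2776, 1000⟩⟩ (yA4.hWU false) :=
  posD_units (b := ⟨⟨0, 2, 2⟩, ⟨98, 99, 147⟩, ⟨0, 150, 10000⟩, ⟨2569, 2776, 1000⟩⟩) (by decide +kernel) (posD_join₀ yA4_wU0a yA4_wU0b)

def yA4_wL0 : PosD ⟨⟨0, 1, 1⟩, ⟨98, 99, 147⟩, ⟨0, 150, 10000⟩, ⟨2569, 2776, 1000⟩⟩ (yA4.hWL false) :=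
  posD_of_check0 (c := ⟨291, ⟨3, 8, 10, 3⟩⟩) (by decide +kernel)

def yA4_ev1 : PosD ⟨⟨0, 1, 1⟩, ⟨98, 99, 147⟩, ⟨0, 150, 10000⟩, ⟨2569, 2776, 1000⟩⟩ (yA4.hEv true) :=
  posD_of_check0 (c := ⟨120, ⟨2, 2, 6, 1⟩⟩) (by decide +kernel)

def yA4_zL1 : PosD ⟨⟨0, 1, 1⟩, ⟨98, 99, 147⟩, ⟨0, 150, 10000⟩, ⟨2569, 2776, 1000⟩⟩ (yA4.hZL true) :=
  posD_of_check0 (c := ⟨134, ⟨2, 3, 6, 3⟩⟩) (by decide +kernel)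

def yA4_zU1 : PosD ⟨⟨0, 1, 1⟩, ⟨98, 99, 147⟩, ⟨0, 150, 10000⟩, ⟨2569, 2776, 1000⟩⟩ (yA4.hZU true) :=
  posD_of_check0 (c := ⟨134, ⟨2, 3, 6, 3⟩⟩) (by decide +kernel)

def yA4_eL1a : PosD ⟨⟨0, 1, 1⟩, ⟨98, 99, 147⟩, ⟨0, 75, 10000⟩, ⟨2569, 2776, 1000⟩⟩ (yA4.hEL true) :=
  posD_of_check0 (c := ⟨212, ⟨3, 6, 9, 3⟩⟩) (by decide +kernel)

def yA4_eL1ba : PosD ⟨⟨0, 1, 1⟩, ⟨98, 99, 147⟩, ⟨75, 150, 10000⟩, ⟨2569, 2672, 1000⟩⟩ (yA4.hEL true) :=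
  posD_of_check (c := ⟨212, ⟨3, 6, 9, 3⟩⟩) (by decide +kernel)

def yA4_eL1bb : PosD ⟨⟨0, 1, 1⟩, ⟨98, 99, 147⟩, ⟨75, 150, 10000⟩, ⟨2672, 2776, 1000⟩⟩ (yA4.hEL true) :=
  posD_of_check (c := ⟨212, ⟨3, 6, 9, 3⟩⟩) (by decide +kernel)

def yA4_eL1b : PosD ⟨⟨0, 1, 1⟩, ⟨98, 99, 147⟩, ⟨75, 150, 10000⟩, ⟨2569, 2776, 1000⟩⟩ (yA4.hEL true) :=
  posD_join₃ yA4_eL1ba yA4_eL1bb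

def yA4_eL1 : PosD ⟨⟨0, 1, 1⟩, ⟨98, 99, 147⟩, ⟨0, 150, 10000⟩, ⟨2569, 2776, 1000⟩⟩ (yA4.hEL true) :=
  posD_join₂ yA4_eL1a yA4_eL1b

def yA4_eH1 : PosD ⟨⟨0, 1, 1⟩, ⟨98, 99, 147⟩, ⟨0, 150, 10000⟩, ⟨2569, 2776, 1000⟩⟩ (yA4.hEH true) :=
  posD_of_check0 (c := ⟨227, ⟨3, 6, 9, 3⟩⟩) (by decide +kernel)

def yA4_pL1 : PosD ⟨⟨0, 1, 1⟩, ⟨98, 99, 147⟩, ⟨0, 150, 10000⟩, ⟨2569, 2776, 1000⟩⟩ (yA4.hPL true) :=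
  posD_of_check0 (c := ⟨231, ⟨3, 6, 9, 3⟩⟩) (by decide +kernel)

def yA4_pU1a : PosD ⟨⟨0, 1, 2⟩, ⟨98, 99, 147⟩, ⟨0, 150, 10000⟩, ⟨2569, 2776, 1000⟩⟩ (yA4.hPU true) :=
  posD_of_check0 (c := ⟨231, ⟨3, 6, 9, 3⟩⟩) (by decide +kernel)

def yA4_pU1b : PosD ⟨⟨1, 2, 2⟩, ⟨98, 99, 147⟩, ⟨0, 150, 10000⟩, ⟨2569, 2776, 1000⟩⟩ (yA4.hPU true) :=
  posD_of_check0 (c := ⟨232, ⟨3, 6, 9, 3⟩⟩) (by decide +kernel)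

def yA4_pU1 : PosD ⟨⟨0, 1, 1⟩, ⟨98, 99, 147⟩, ⟨0, 150, 10000⟩, ⟨2569, 2776, 1000⟩⟩ (yA4.hPU true) :=
  posD_units (b := ⟨⟨0, 2, 2⟩, ⟨98, 99, 147⟩, ⟨0, 150, 10000⟩, ⟨2569, 2776, 1000⟩⟩) (by decide +kernel) (posD_join₀ yA4_pU1a yA4_pU1b)

def yA4_kU1 : PosD ⟨⟨0, 1, 1⟩, ⟨98, 99, 147⟩, ⟨0, 150, 10000⟩, ⟨2569, 2776, 1000⟩⟩ (yA4.hKU true) :=
  posD_of_check0 (c := ⟨225, ⟨3, 6, 9, 3⟩⟩) (by decide +kernel)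

def yA4_kL1 : PosD ⟨⟨0, 1, 1⟩, ⟨98, 99, 147⟩, ⟨0, 150, 10000⟩, ⟨2569, 2776, 1000⟩⟩ (yA4.hKL true) :=
  posD_of_check0 (c := ⟨226, ⟨3, 6, 9, 3⟩⟩) (by decide +kernel)

def yA4_wU1 : PosD ⟨⟨0, 1, 1⟩, ⟨98, 99, 147⟩, ⟨0, 150, 10000⟩, ⟨2569, 2776, 1000⟩⟩ (yA4.hWU true) :=
  posD_of_check0 (c := ⟨260, ⟨3, 8, 10, 3⟩⟩) (by decide +kernel)

def yA4_wL1 : PosD ⟨⟨0, 1, 1⟩, ⟨98, 99, 147⟩, ⟨0, 150, 10000⟩, ⟨2569, 2776, 1000⟩⟩ (yA4.hWL true) :=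
  posD_of_check0 (c := ⟨262, ⟨3, 8, 10, 3⟩⟩) (by decide +kernel)

def yA4_mueH : PosD ⟨⟨0, 1, 1⟩, ⟨98, 99, 147⟩, ⟨0, 150, 10000⟩, ⟨2569, 2776, 1000⟩⟩ (yA4.eH.μ) :=
  posD_of_check0 (c := ⟨14, ⟨0, 0, 0, 0⟩⟩) (by decide +kernel)

def yA4_mupL : PosD ⟨⟨0, 1, 1⟩, ⟨98, 99, 147⟩, ⟨0, 150, 10000⟩, ⟨2569, 2776, 1000⟩⟩ (yA4.pL.μ) :=
  posD_of_check0 (c := ⟨15, ⟨0, 0, 0, 0⟩⟩) (by decide +kernel)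

/-- The bounds of the piece. -/
def yA4_env : yA4.Env ⟨⟨0, 1, 1⟩, ⟨98, 99, 147⟩, ⟨0, 150, 10000⟩, ⟨2569, 2776, 1000⟩⟩ :=
  ⟨yA4_p0, Bool.forall_bool.2 ⟨yA4_den0, yA4_den1⟩, yA4_gn, Bool.forall_bool.2 ⟨yA4_ev0, yA4_ev1⟩, Bool.forall_bool.2 ⟨yA4_zL0, yA4_zL1⟩, Bool.forall_bool.2 ⟨yA4_zU0, yA4_zU1⟩, Bool.forall_bool.2 ⟨yA4_eL0, yA4_eL1⟩, ⟨.inr rfl, .inr rfl⟩, Bool.forall_bool.2 ⟨yA4_eH0, yA4_eH1⟩, ⟨.inl yA4_mueH, .inr rfl⟩, Bool.forall_bool.2 ⟨yA4_pL0, yA4_pL1⟩, ⟨.inl yA4_mupL, .inr rfl⟩, Bool.forall_bool.2 ⟨yA4_pU0, yA4_pU1⟩, ⟨.inr rfl, .inr rfl⟩, Bool.forall_bool.2 ⟨yA4_kU0, yA4_kU1⟩, ⟨.inr rfl, .inr rfl⟩, Bool.forall_bool.2 ⟨yA4_kL0, yA4_kL1⟩, ⟨.inr rfl, .inr rfl⟩, Bool.forall_bool.2 ⟨yA4_wU0, yA4_wU1⟩,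 ⟨.inr rfl, .inr rfl⟩, Bool.forall_bool.2 ⟨yA4_wL0, yA4_wL1⟩, ⟨.inr rfl, .inr rfl⟩⟩

def yA4_pU20 : PosD ⟨⟨0, 1, 1⟩, ⟨98, 99, 147⟩, ⟨0, 150, 10000⟩, ⟨2569, 2776, 1000⟩⟩ (({ yA4 with pU := yA4PU } : Piece).hPU false) :=
  posD_of_check0 (c := ⟨259, ⟨3, 6, 9, 3⟩⟩) (by decide +kernel)

def yA4_pU21 : PosD ⟨⟨0, 1, 1⟩, ⟨98, 99, 147⟩, ⟨0, 150, 10000⟩, ⟨2569, 2776, 1000⟩⟩ (({ yA4 with pU := yA4PU } : Piece).hPU true) :=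
  posD_of_check0 (c := ⟨231, ⟨3, 6, 9, 3⟩⟩) (by decide +kernel)

/-- The bounds with the other bound of `p`. -/
def yA4_envU : ({ yA4 with pU := yA4PU } : Piece).Env ⟨⟨0, 1, 1⟩, ⟨98, 99, 147⟩, ⟨0, 150, 10000⟩, ⟨2569, 2776, 1000⟩⟩ :=
  yA4_env.withU yA4PU (Bool.forall_bool.2 ⟨yA4_pU20, yA4_pU21⟩) ⟨.inr rfl, .inr rfl⟩

def yA4A_pp : PosD ⟨⟨0, 1, 1⟩, ⟨98, 99, 147⟩, ⟨0, 150, 10000⟩, ⟨2569, 2776, 1000⟩⟩ (yA4A.xPL) :=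
  posD_of_check0 (c := ⟨90, ⟨1, 1, 3, 3⟩⟩) (by decide +kernel)

def yA4A_k2p : PosD ⟨⟨0, 1, 1⟩, ⟨98, 99, 147⟩, ⟨0, 150, 10000⟩, ⟨2569, 2776, 1000⟩⟩ (yA4A.k2p yA4A.xE) :=
  posD_of_check0 (c := ⟨20, ⟨0, 0, 1, 0⟩⟩) (by decide +kernel)

def yA4A_k2m : PosD ⟨⟨0, 1, 1⟩, ⟨98, 99, 147⟩, ⟨0, 150, 10000⟩, ⟨2569, 2776, 1000⟩⟩ (yA4A.k2m yA4A.xE) :=
  posD_of_check0 (c := ⟨60, ⟨1, 1, 2, 2⟩⟩) (by decide +kernel)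

def yA4A_v2p : PosD ⟨⟨0, 1, 1⟩, ⟨98, 99, 147⟩, ⟨0, 150, 10000⟩, ⟨2569, 2776, 1000⟩⟩ (yA4A.hV2p) :=
  posD_of_check0 (c := ⟨224, ⟨0, 5, 10, 4⟩⟩) (by decide +kernel)

def yA4A_v2m : PosD ⟨⟨0, 1, 1⟩, ⟨98, 99, 147⟩, ⟨0, 150, 10000⟩, ⟨2569, 2776, 1000⟩⟩ (yA4A.hV2m) :=
  posD_of_check0 (c := ⟨253, ⟨1, 6, 10, 5⟩⟩) (by decide +kernel)

def yA4A_v3p : PosD ⟨⟨0, 1, 1⟩, ⟨98, 99, 147⟩, ⟨0, 150, 10000⟩, ⟨2569, 2776, 1000⟩⟩ (yA4A.hV3p) :=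
  posD_of_check0 (c := ⟨220, ⟨0, 5, 9, 4⟩⟩) (by decide +kernel)

def yA4A_v3m : PosD ⟨⟨0, 1, 1⟩, ⟨98, 99, 147⟩, ⟨0, 150, 10000⟩, ⟨2569, 2776, 1000⟩⟩ (yA4A.hV3m) :=
  posD_of_check0 (c := ⟨246, ⟨1, 6, 9, 5⟩⟩) (by decide +kernel)

def yA4A_kap0 : PosD ⟨⟨0, 1, 1⟩, ⟨98, 99, 147⟩, ⟨0, 150, 10000⟩, ⟨2569, 2776, 1000⟩⟩ (yA4A.kap false) :=
  posD_of_check0 (c := ⟨70, ⟨1, 1, 2, 2⟩⟩) (by decide +kernel)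

def yA4A_c10 : PosD ⟨⟨0, 1, 1⟩, ⟨98, 99, 147⟩, ⟨0, 150, 10000⟩, ⟨2569, 2776, 1000⟩⟩ (yA4A.hC1 false) :=
  posD_of_check0 (c := ⟨263, ⟨3, 5, 9, 7⟩⟩) (by decide +kernel)

def yA4A_c1h0 : PosD ⟨⟨0, 1, 1⟩, ⟨98, 99, 147⟩, ⟨0, 150, 10000⟩, ⟨2569, 2776, 1000⟩⟩ (yA4A.hC1' false) :=
  posD_of_check0 (c := ⟨263, ⟨3, 5, 9, 7⟩⟩) (by decide +kernel)

def yA4A_tg00 : PosD ⟨⟨0, 1, 1⟩, ⟨98, 99, 147⟩, ⟨0, 150, 10000⟩, ⟨2569, 2776, 1000⟩⟩ (yA4A.hG false (yA4A.pEnd false)) :=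
  posD_of_check0 (c := ⟨368, ⟨2, 7, 14, 9⟩⟩) (by decide +kernel)

def yA4A_c2p00 : PosD ⟨⟨0, 1, 1⟩, ⟨98, 99, 147⟩, ⟨0, 150, 10000⟩, ⟨2569, 2776, 1000⟩⟩ (yA4A.hC2p false (yA4A.pEnd false)) :=
  posD_of_check0 (c := ⟨400, ⟨2, 7, 16, 10⟩⟩) (by decide +kernel)

def yA4A_c2m00 : PosD ⟨⟨0, 1, 1⟩, ⟨98, 99, 147⟩, ⟨0, 150, 10000⟩, ⟨2569, 2776, 1000⟩⟩ (yA4A.hC2m false (yA4A.pEnd false)) :=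
  posD_of_check0 (c := ⟨428, ⟨3, 8, 16, 11⟩⟩) (by decide +kernel)

def yA4A_c3p00 : PosD ⟨⟨0, 1, 1⟩, ⟨98, 99, 147⟩, ⟨0, 150, 10000⟩, ⟨2569, 2776, 1000⟩⟩ (yA4A.hC3p false false) :=
  posD_of_check0 (c := ⟨404, ⟨3, 7, 15, 10⟩⟩) (by decide +kernel)

def yA4A_c3m00 : PosD ⟨⟨0, 1, 1⟩, ⟨98, 99, 147⟩, ⟨0, 150, 10000⟩, ⟨2569, 2776, 1000⟩⟩ (yA4A.hC3m false false) :=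
  posD_of_check0 (c := ⟨429, ⟨3, 8, 15, 11⟩⟩) (by decide +kernel)

def yA4A_c3ph00 : PosD ⟨⟨0, 1, 1⟩, ⟨98, 99, 147⟩, ⟨0, 150, 10000⟩, ⟨2569, 2776, 1000⟩⟩ (yA4A.hC3p' false false) :=
  posD_of_check0 (c := ⟨403, ⟨3, 7, 15, 10⟩⟩) (by decide +kernel)

def yA4A_c3mh00 : PosD ⟨⟨0, 1, 1⟩, ⟨98, 99, 147⟩, ⟨0, 150, 10000⟩, ⟨2569, 2776, 1000⟩⟩ (yA4A.hC3m' false false) :=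
  posD_of_check0 (c := ⟨428, ⟨3, 8, 15, 11⟩⟩) (by decide +kernel)

def yA4A_up00 : PosD ⟨⟨0, 1, 1⟩, ⟨98, 99, 147⟩, ⟨0, 150, 10000⟩, ⟨2569, 2776, 1000⟩⟩ (yA4A.hUp false false) :=
  posD_of_check0 (c := ⟨398, ⟨2, 7, 15, 10⟩⟩) (by decide +kernel)

def yA4A_um00 : PosD ⟨⟨0, 1, 1⟩, ⟨98, 99, 147⟩, ⟨0, 150, 10000⟩, ⟨2569, 2776, 1000⟩⟩ (yA4A.hUm false false) :=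
  posD_of_check0 (c := ⟨424, ⟨3, 8, 15, 11⟩⟩) (by decide +kernel)

def yA4A_tmg00 : PosD ⟨⟨0, 1, 1⟩, ⟨98, 99, 147⟩, ⟨0, 150, 10000⟩, ⟨2569, 2776, 1000⟩⟩ (yA4A.hTMG false (yA4A.pEnd false)) :=
  posD_of_check0 (c := ⟨385, ⟨2, 7, 14, 10⟩⟩) (by decide +kernel)

def yA4A_tg01 : PosD ⟨⟨0, 1, 1⟩, ⟨98, 99, 147⟩, ⟨0, 150, 10000⟩, ⟨2569, 2776, 1000⟩⟩ (yA4A.hG true (yA4A.pEnd false)) :=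
  posD_of_check0 (c := ⟨368, ⟨2, 7, 14, 9⟩⟩) (by decide +kernel)

def yA4A_c2p01 : PosD ⟨⟨0, 1, 1⟩, ⟨98, 99, 147⟩, ⟨0, 150, 10000⟩, ⟨2569, 2776, 1000⟩⟩ (yA4A.hC2p true (yA4A.pEnd false)) :=
  posD_of_check0 (c := ⟨400, ⟨2, 7, 16, 10⟩⟩) (by decide +kernel)

def yA4A_c2m01 : PosD ⟨⟨0, 1, 1⟩, ⟨98, 99, 147⟩, ⟨0, 150, 10000⟩, ⟨2569, 2776, 1000⟩⟩ (yA4A.hC2m true (yA4A.pEnd false)) :=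
  posD_of_check0 (c := ⟨428, ⟨3, 8, 16, 11⟩⟩) (by decide +kernel)

def yA4A_c3p01 : PosD ⟨⟨0, 1, 1⟩, ⟨98, 99, 147⟩, ⟨0, 150, 10000⟩, ⟨2569, 2776, 1000⟩⟩ (yA4A.hC3p false true) :=
  posD_of_check0 (c := ⟨404, ⟨3, 7, 15, 10⟩⟩) (by decide +kernel)

def yA4A_c3m01 : PosD ⟨⟨0, 1, 1⟩, ⟨98, 99, 147⟩, ⟨0, 150, 10000⟩, ⟨2569, 2776, 1000⟩⟩ (yA4A.hC3m false true) :=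
  posD_of_check0 (c := ⟨429, ⟨3, 8, 15, 11⟩⟩) (by decide +kernel)

def yA4A_c3ph01 : PosD ⟨⟨0, 1, 1⟩, ⟨98, 99, 147⟩, ⟨0, 150, 10000⟩, ⟨2569, 2776, 1000⟩⟩ (yA4A.hC3p' false true) :=
  posD_of_check0 (c := ⟨403, ⟨3, 7, 15, 10⟩⟩) (by decide +kernel)

def yA4A_c3mh01 : PosD ⟨⟨0, 1, 1⟩, ⟨98, 99, 147⟩, ⟨0, 150, 10000⟩, ⟨2569, 2776, 1000⟩⟩ (yA4A.hC3m' false true) :=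
  posD_of_check0 (c := ⟨428, ⟨3, 8, 15, 11⟩⟩) (by decide +kernel)

def yA4A_up01 : PosD ⟨⟨0, 1, 1⟩, ⟨98, 99, 147⟩, ⟨0, 150, 10000⟩, ⟨2569, 2776, 1000⟩⟩ (yA4A.hUp false true) :=
  posD_of_check0 (c := ⟨398, ⟨2, 7, 15, 10⟩⟩) (by decide +kernel)

def yA4A_um01 : PosD ⟨⟨0, 1, 1⟩, ⟨98, 99, 147⟩, ⟨0, 150, 10000⟩, ⟨2569, 2776, 1000⟩⟩ (yA4A.hUm false true) :=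
  posD_of_check0 (c := ⟨424, ⟨3, 8, 15, 11⟩⟩) (by decide +kernel)

def yA4A_tmg01 : PosD ⟨⟨0, 1, 1⟩, ⟨98, 99, 147⟩, ⟨0, 150, 10000⟩, ⟨2569, 2776, 1000⟩⟩ (yA4A.hTMG true (yA4A.pEnd false)) :=
  posD_of_check0 (c := ⟨385, ⟨2, 7, 14, 10⟩⟩) (by decide +kernel)

def yA4A_kap1 : PosD ⟨⟨0, 1, 1⟩, ⟨98, 99, 147⟩, ⟨0, 150, 10000⟩, ⟨2569, 2776, 1000⟩⟩ (yA4A.kap true) :=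
  posD_of_check0 (c := ⟨69, ⟨1, 1, 2, 2⟩⟩) (by decide +kernel)

def yA4A_c11 : PosD ⟨⟨0, 1, 1⟩, ⟨98, 99, 147⟩, ⟨0, 150, 10000⟩, ⟨2569, 2776, 1000⟩⟩ (yA4A.hC1 true) :=
  posD_of_check0 (c := ⟨262, ⟨3, 5, 9, 7⟩⟩) (by decide +kernel)

def yA4A_c1h1 : PosD ⟨⟨0, 1, 1⟩, ⟨98, 99, 147⟩, ⟨0, 150, 10000⟩, ⟨2569, 2776, 1000⟩⟩ (yA4A.hC1' true) :=
  posD_of_check0 (c := ⟨262, ⟨3, 5, 9, 7⟩⟩) (by decide +kernel)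

def yA4A_tg10 : PosD ⟨⟨0, 1, 1⟩, ⟨98, 99, 147⟩, ⟨0, 150, 10000⟩, ⟨2569, 2776, 1000⟩⟩ (yA4A.hG false (yA4A.pEnd true)) :=
  posD_of_check0 (c := ⟨368, ⟨2, 7, 14, 9⟩⟩) (by decide +kernel)

def yA4A_c2p10 : PosD ⟨⟨0, 1, 1⟩, ⟨98, 99, 147⟩, ⟨0, 150, 10000⟩, ⟨2569, 2776, 1000⟩⟩ (yA4A.hC2p false (yA4A.pEnd true)) :=
  posD_of_check0 (c := ⟨400, ⟨2, 7, 16, 10⟩⟩) (by decide +kernel)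

def yA4A_c2m10 : PosD ⟨⟨0, 1, 1⟩, ⟨98, 99, 147⟩, ⟨0, 150, 10000⟩, ⟨2569, 2776, 1000⟩⟩ (yA4A.hC2m false (yA4A.pEnd true)) :=
  posD_of_check0 (c := ⟨428, ⟨3, 8, 16, 11⟩⟩) (by decide +kernel)

def yA4A_c3p10 : PosD ⟨⟨0, 1, 1⟩, ⟨98, 99, 147⟩, ⟨0, 150, 10000⟩, ⟨2569, 2776, 1000⟩⟩ (yA4A.hC3p true false) :=
  posD_of_check0 (c := ⟨402, ⟨3, 7, 15, 10⟩⟩) (by decide +kernel)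

def yA4A_c3m10 : PosD ⟨⟨0, 1, 1⟩, ⟨98, 99, 147⟩, ⟨0, 150, 10000⟩, ⟨2569, 2776, 1000⟩⟩ (yA4A.hC3m true false) :=
  posD_of_check0 (c := ⟨427, ⟨3, 8, 15, 11⟩⟩) (by decide +kernel)

def yA4A_c3ph10 : PosD ⟨⟨0, 1, 1⟩, ⟨98, 99, 147⟩, ⟨0, 150, 10000⟩, ⟨2569, 2776, 1000⟩⟩ (yA4A.hC3p' true false) :=
  posD_of_check0 (c := ⟨402, ⟨3, 7, 15, 10⟩⟩) (by decide +kernel)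

def yA4A_c3mh10 : PosD ⟨⟨0, 1, 1⟩, ⟨98, 99, 147⟩, ⟨0, 150, 10000⟩, ⟨2569, 2776, 1000⟩⟩ (yA4A.hC3m' true false) :=
  posD_of_check0 (c := ⟨427, ⟨3, 8, 15, 11⟩⟩) (by decide +kernel)

def yA4A_up10 : PosD ⟨⟨0, 1, 1⟩, ⟨98, 99, 147⟩, ⟨0, 150, 10000⟩, ⟨2569, 2776, 1000⟩⟩ (yA4A.hUp true false) :=
  posD_of_check0 (c := ⟨398, ⟨2, 7, 15, 10⟩⟩) (by decide +kernel)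

def yA4A_um10 : PosD ⟨⟨0, 1, 1⟩, ⟨98, 99, 147⟩, ⟨0, 150, 10000⟩, ⟨2569, 2776, 1000⟩⟩ (yA4A.hUm true false) :=
  posD_of_check0 (c := ⟨424, ⟨3, 8, 15, 11⟩⟩) (by decide +kernel)

def yA4A_tmg10 : PosD ⟨⟨0, 1, 1⟩, ⟨98, 99, 147⟩, ⟨0, 150, 10000⟩, ⟨2569, 2776, 1000⟩⟩ (yA4A.hTMG false (yA4A.pEnd true)) :=
  posD_of_check0 (c := ⟨385, ⟨2, 7, 14, 10⟩⟩) (by decide +kernel)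

def yA4A_tg11 : PosD ⟨⟨0, 1, 1⟩, ⟨98, 99, 147⟩, ⟨0, 150, 10000⟩, ⟨2569, 2776, 1000⟩⟩ (yA4A.hG true (yA4A.pEnd true)) :=
  posD_of_check0 (c := ⟨368, ⟨2, 7, 14, 9⟩⟩) (by decide +kernel)

def yA4A_c2p11 : PosD ⟨⟨0, 1, 1⟩, ⟨98, 99, 147⟩, ⟨0, 150, 10000⟩, ⟨2569, 2776, 1000⟩⟩ (yA4A.hC2p true (yA4A.pEnd true)) :=
  posD_of_check0 (c := ⟨400, ⟨2, 7, 16, 10⟩⟩) (by decide +kernel)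

def yA4A_c2m11 : PosD ⟨⟨0, 1, 1⟩, ⟨98, 99, 147⟩, ⟨0, 150, 10000⟩, ⟨2569, 2776, 1000⟩⟩ (yA4A.hC2m true (yA4A.pEnd true)) :=
  posD_of_check0 (c := ⟨428, ⟨3, 8, 16, 11⟩⟩) (by decide +kernel)

def yA4A_c3p11 : PosD ⟨⟨0, 1, 1⟩, ⟨98, 99, 147⟩, ⟨0, 150, 10000⟩, ⟨2569, 2776, 1000⟩⟩ (yA4A.hC3p true true) :=
  posD_of_check0 (c := ⟨402, ⟨3, 7, 15, 10⟩⟩) (by decide +kernel)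

def yA4A_c3m11 : PosD ⟨⟨0, 1, 1⟩, ⟨98, 99, 147⟩, ⟨0, 150, 10000⟩, ⟨2569, 2776, 1000⟩⟩ (yA4A.hC3m true true) :=
  posD_of_check0 (c := ⟨427, ⟨3, 8, 15, 11⟩⟩) (by decide +kernel)

def yA4A_c3ph11 : PosD ⟨⟨0, 1, 1⟩, ⟨98, 99, 147⟩, ⟨0, 150, 10000⟩, ⟨2569, 2776, 1000⟩⟩ (yA4A.hC3p' true true) :=
  posD_of_check0 (c := ⟨402, ⟨3, 7, 15, 10⟩⟩) (by decide +kernel)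

def yA4A_c3mh11 : PosD ⟨⟨0, 1, 1⟩, ⟨98, 99, 147⟩, ⟨0, 150, 10000⟩, ⟨2569, 2776, 1000⟩⟩ (yA4A.hC3m' true true) :=
  posD_of_check0 (c := ⟨427, ⟨3, 8, 15, 11⟩⟩) (by decide +kernel)

def yA4A_up11 : PosD ⟨⟨0, 1, 1⟩, ⟨98, 99, 147⟩, ⟨0, 150, 10000⟩, ⟨2569, 2776, 1000⟩⟩ (yA4A.hUp true true) :=
  posD_of_check0 (c := ⟨398, ⟨2, 7, 15, 10⟩⟩) (by decide +kernel)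

def yA4A_um11 : PosD ⟨⟨0, 1, 1⟩, ⟨98, 99, 147⟩, ⟨0, 150, 10000⟩, ⟨2569, 2776, 1000⟩⟩ (yA4A.hUm true true) :=
  posD_of_check0 (c := ⟨424, ⟨3, 8, 15, 11⟩⟩) (by decide +kernel)

def yA4A_tmg11 : PosD ⟨⟨0, 1, 1⟩, ⟨98, 99, 147⟩, ⟨0, 150, 10000⟩, ⟨2569, 2776, 1000⟩⟩ (yA4A.hTMG true (yA4A.pEnd true)) :=
  posD_of_check0 (c := ⟨385, ⟨2, 7, 14, 10⟩⟩) (by decide +kernel)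

/-- The signs of the piece. -/
def yA4A_sign : yA4A.Sign ⟨⟨0, 1, 1⟩, ⟨98, 99, 147⟩, ⟨0, 150, 10000⟩, ⟨2569, 2776, 1000⟩⟩ :=
  ⟨yA4A_pp,
    yA4A_k2p,
    yA4A_k2m,
    Bool.forall_bool.2 ⟨(Bool.forall_bool.2 ⟨yA4A_tg00, yA4A_tg01⟩), (Bool.forall_bool.2 ⟨yA4A_tg10, yA4A_tg11⟩)⟩,
    Bool.forall_bool.2 ⟨(Bool.forall_bool.2 ⟨yA4A_c2p00, yA4A_c2p01⟩), (Bool.forall_bool.2 ⟨yA4A_c2p10, yA4A_c2p11⟩)⟩,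
    Bool.forall_bool.2 ⟨(Bool.forall_bool.2 ⟨yA4A_c2m00, yA4A_c2m01⟩), (Bool.forall_bool.2 ⟨yA4A_c2m10, yA4A_c2m11⟩)⟩,
    Bool.forall_bool.2 ⟨yA4A_kap0, yA4A_kap1⟩,
    Bool.forall_bool.2 ⟨yA4A_c10, yA4A_c11⟩,
    Bool.forall_bool.2 ⟨(Bool.forall_bool.2 ⟨yA4A_c3p00, yA4A_c3p01⟩), (Bool.forall_bool.2 ⟨yA4A_c3p10, yA4A_c3p11⟩)⟩,
    Bool.forall_bool.2 ⟨(Bool.forall_bool.2 ⟨yA4A_c3m00, yA4A_c3m01⟩), (Bool.forall_bool.2 ⟨yA4A_c3m10, yA4A_c3m11⟩)⟩,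
    Bool.forall_bool.2 ⟨(Bool.forall_bool.2 ⟨yA4A_tmg00, yA4A_tmg01⟩), (Bool.forall_bool.2 ⟨yA4A_tmg10, yA4A_tmg11⟩)⟩,
    .inr (Bool.forall_bool.2 ⟨⟨yA4A_c1h0, Bool.forall_bool.2 ⟨⟨yA4A_c3ph00, yA4A_c3mh00, yA4A_up00, yA4A_um00⟩, ⟨yA4A_c3ph01, yA4A_c3mh01, yA4A_up01, yA4A_um01⟩⟩⟩, ⟨yA4A_c1h1, Bool.forall_bool.2 ⟨⟨yA4A_c3ph10, yA4A_c3mh10, yA4A_up10, yA4A_um10⟩, ⟨yA4A_c3ph11, yA4A_c3mh11, yA4A_up11, yA4A_um11⟩⟩⟩⟩),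
    yA4A_v2p,
    yA4A_v2m,
    yA4A_v3p,
    yA4A_v3m,
    posD_sub (b := ⟨⟨0, 1, 1⟩, ⟨98, 99, 147⟩, ⟨0, 301, 10000⟩, ⟨1060, 4000, 1000⟩⟩) (by decide +kernel) yA_vG,
    posD_sub (b := ⟨⟨0, 1, 1⟩, ⟨98, 99, 147⟩, ⟨0, 301, 10000⟩, ⟨1060, 4000, 1000⟩⟩) (by decide +kernel) yA_vMG,
    posD_sub (b := ⟨⟨0, 1, 1⟩, ⟨98, 99, 147⟩, ⟨0, 301, 10000⟩, ⟨1060, 4000, 1000⟩⟩) (by decide +kernel) yA_ak,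
    posD_sub (b := ⟨⟨0, 1, 1⟩, ⟨98, 99, 147⟩, ⟨0, 301, 10000⟩, ⟨1060, 4000, 1000⟩⟩) (by decide +kernel) yA_aw,
    posD_sub (b := ⟨⟨0, 1, 1⟩, ⟨98, 99, 147⟩, ⟨0, 301, 10000⟩, ⟨1060, 4000, 1000⟩⟩) (by decide +kernel) yA_gk,
    posD_sub (b := ⟨⟨0, 1, 1⟩, ⟨98, 99, 147⟩, ⟨0, 301, 10000⟩, ⟨1060, 4000, 1000⟩⟩) (by decide +kernel) yA_gw,
    posD_sub (b := ⟨⟨0, 1, 1⟩, ⟨98, 99, 147⟩, ⟨0, 301, 10000⟩, ⟨1060, 4000, 1000⟩⟩) (by decide +kernel) yA_ek,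
    posD_sub (b := ⟨⟨0, 1, 1⟩, ⟨98, 99, 147⟩, ⟨0, 301, 10000⟩, ⟨1060, 4000, 1000⟩⟩) (by decide +kernel) yA_ew⟩

def yA4B_pp : PosD ⟨⟨0, 1, 1⟩, ⟨98, 99, 147⟩, ⟨0, 150, 10000⟩, ⟨2569, 2776, 1000⟩⟩ (yA4B.xPL) :=
  posD_of_check0 (c := ⟨90, ⟨1, 1, 3, 3⟩⟩) (by decide +kernel)

def yA4B_k2p : PosD ⟨⟨0, 1, 1⟩, ⟨98, 99, 147⟩, ⟨0, 150, 10000⟩, ⟨2569, 2776, 1000⟩⟩ (yA4B.k2p yA4B.xE) :=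
  posD_of_check0 (c := ⟨20, ⟨0, 0, 1, 0⟩⟩) (by decide +kernel)

def yA4B_k2m : PosD ⟨⟨0, 1, 1⟩, ⟨98, 99, 147⟩, ⟨0, 150, 10000⟩, ⟨2569, 2776, 1000⟩⟩ (yA4B.k2m yA4B.xE) :=
  posD_of_check0 (c := ⟨60, ⟨1, 1, 2, 2⟩⟩) (by decide +kernel)

def yA4B_v2p : PosD ⟨⟨0, 1, 1⟩, ⟨98, 99, 147⟩, ⟨0, 150, 10000⟩, ⟨2569, 2776, 1000⟩⟩ (yA4B.hV2p) :=
  posD_of_check0 (c := ⟨224, ⟨0, 5, 10, 4⟩⟩) (by decide +kernel)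

def yA4B_v2m : PosD ⟨⟨0, 1, 1⟩, ⟨98, 99, 147⟩, ⟨0, 150, 10000⟩, ⟨2569, 2776, 1000⟩⟩ (yA4B.hV2m) :=
  posD_of_check0 (c := ⟨253, ⟨1, 6, 10, 5⟩⟩) (by decide +kernel)

def yA4B_v3p : PosD ⟨⟨0, 1, 1⟩, ⟨98, 99, 147⟩, ⟨0, 150, 10000⟩, ⟨2569, 2776, 1000⟩⟩ (yA4B.hV3p) :=
  posD_of_check0 (c := ⟨220, ⟨0, 5, 9, 4⟩⟩) (by decide +kernel)

def yA4B_v3m : PosD ⟨⟨0, 1, 1⟩, ⟨98, 99, 147⟩, ⟨0, 150, 10000⟩, ⟨2569, 2776, 1000⟩⟩ (yA4B.hV3m) :=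
  posD_of_check0 (c := ⟨246, ⟨1, 6, 9, 5⟩⟩) (by decide +kernel)

def yA4B_kap0 : PosD ⟨⟨0, 1, 1⟩, ⟨98, 99, 147⟩, ⟨0, 150, 10000⟩, ⟨2569, 2776, 1000⟩⟩ (yA4B.kap false) :=
  posD_of_check0 (c := ⟨72, ⟨1, 1, 2, 2⟩⟩) (by decide +kernel)

def yA4B_c10 : PosD ⟨⟨0, 1, 1⟩, ⟨98, 99, 147⟩, ⟨0, 150, 10000⟩, ⟨2569, 2776, 1000⟩⟩ (yA4B.hC1 false) :=
  posD_of_check0 (c := ⟨266, ⟨3, 5, 9, 7⟩⟩) (by decide +kernel)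

def yA4B_c1h0 : PosD ⟨⟨0, 1, 1⟩, ⟨98, 99, 147⟩, ⟨0, 150, 10000⟩, ⟨2569, 2776, 1000⟩⟩ (yA4B.hC1' false) :=
  posD_of_check0 (c := ⟨266, ⟨3, 5, 9, 7⟩⟩) (by decide +kernel)

def yA4B_tg00 : PosD ⟨⟨0, 1, 1⟩, ⟨98, 99, 147⟩, ⟨0, 150, 10000⟩, ⟨2569, 2776, 1000⟩⟩ (yA4B.hG false (yA4B.pEnd false)) :=
  posD_of_check0 (c := ⟨368, ⟨2, 7, 14, 9⟩⟩) (by decide +kernel)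

def yA4B_c2p00 : PosD ⟨⟨0, 1, 1⟩, ⟨98, 99, 147⟩, ⟨0, 150, 10000⟩, ⟨2569, 2776, 1000⟩⟩ (yA4B.hC2p false (yA4B.pEnd false)) :=
  posD_of_check0 (c := ⟨400, ⟨2, 7, 16, 10⟩⟩) (by decide +kernel)

def yA4B_c2m00 : PosD ⟨⟨0, 1, 1⟩, ⟨98, 99, 147⟩, ⟨0, 150, 10000⟩, ⟨2569, 2776, 1000⟩⟩ (yA4B.hC2m false (yA4B.pEnd false)) :=
  posD_of_check0 (c := ⟨428, ⟨3, 8, 16, 11⟩⟩) (by decide +kernel)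

def yA4B_c3p00 : PosD ⟨⟨0, 1, 1⟩, ⟨98, 99, 147⟩, ⟨0, 150, 10000⟩, ⟨2569, 2776, 1000⟩⟩ (yA4B.hC3p false false) :=
  posD_of_check0 (c := ⟨406, ⟨3, 7, 15, 10⟩⟩) (by decide +kernel)

def yA4B_c3m00 : PosD ⟨⟨0, 1, 1⟩, ⟨98, 99, 147⟩, ⟨0, 150, 10000⟩, ⟨2569, 2776, 1000⟩⟩ (yA4B.hC3m false false) :=
  posD_of_check0 (c := ⟨431, ⟨3, 8, 15, 11⟩⟩) (by decide +kernel)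

def yA4B_c3ph00 : PosD ⟨⟨0, 1, 1⟩, ⟨98, 99, 147⟩, ⟨0, 150, 10000⟩, ⟨2569, 2776, 1000⟩⟩ (yA4B.hC3p' false false) :=
  posD_of_check0 (c := ⟨406, ⟨3, 7, 15, 10⟩⟩) (by decide +kernel)

def yA4B_c3mh00 : PosD ⟨⟨0, 1, 1⟩, ⟨98, 99, 147⟩, ⟨0, 150, 10000⟩, ⟨2569, 2776, 1000⟩⟩ (yA4B.hC3m' false false) :=
  posD_of_check0 (c := ⟨430, ⟨3, 8, 15, 11⟩⟩) (by decide +kernel)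

def yA4B_up00 : PosD ⟨⟨0, 1, 1⟩, ⟨98, 99, 147⟩, ⟨0, 150, 10000⟩, ⟨2569, 2776, 1000⟩⟩ (yA4B.hUp false false) :=
  posD_of_check0 (c := ⟨399, ⟨2, 7, 15, 10⟩⟩) (by decide +kernel)

def yA4B_um00 : PosD ⟨⟨0, 1, 1⟩, ⟨98, 99, 147⟩, ⟨0, 150, 10000⟩, ⟨2569, 2776, 1000⟩⟩ (yA4B.hUm false false) :=
  posD_of_check0 (c := ⟨424, ⟨3, 8, 15, 11⟩⟩) (by decide +kernel)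

def yA4B_tmg00 : PosD ⟨⟨0, 1, 1⟩, ⟨98, 99, 147⟩, ⟨0, 150, 10000⟩, ⟨2569, 2776, 1000⟩⟩ (yA4B.hTMG false (yA4B.pEnd false)) :=
  posD_of_check0 (c := ⟨385, ⟨2, 7, 14, 10⟩⟩) (by decide +kernel)

def yA4B_tg01 : PosD ⟨⟨0, 1, 1⟩, ⟨98, 99, 147⟩, ⟨0, 150, 10000⟩, ⟨2569, 2776, 1000⟩⟩ (yA4B.hG true (yA4B.pEnd false)) :=
  posD_of_check0 (c := ⟨368, ⟨2, 7, 14, 9⟩⟩) (by decide +kernel)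

def yA4B_c2p01 : PosD ⟨⟨0, 1, 1⟩, ⟨98, 99, 147⟩, ⟨0, 150, 10000⟩, ⟨2569, 2776, 1000⟩⟩ (yA4B.hC2p true (yA4B.pEnd false)) :=
  posD_of_check0 (c := ⟨400, ⟨2, 7, 16, 10⟩⟩) (by decide +kernel)

def yA4B_c2m01 : PosD ⟨⟨0, 1, 1⟩, ⟨98, 99, 147⟩, ⟨0, 150, 10000⟩, ⟨2569, 2776, 1000⟩⟩ (yA4B.hC2m true (yA4B.pEnd false)) :=
  posD_of_check0 (c := ⟨428, ⟨3, 8, 16, 11⟩⟩) (by decide +kernel)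

def yA4B_c3p01 : PosD ⟨⟨0, 1, 1⟩, ⟨98, 99, 147⟩, ⟨0, 150, 10000⟩, ⟨2569, 2776, 1000⟩⟩ (yA4B.hC3p false true) :=
  posD_of_check0 (c := ⟨406, ⟨3, 7, 15, 10⟩⟩) (by decide +kernel)

def yA4B_c3m01 : PosD ⟨⟨0, 1, 1⟩, ⟨98, 99, 147⟩, ⟨0, 150, 10000⟩, ⟨2569, 2776, 1000⟩⟩ (yA4B.hC3m false true) :=
  posD_of_check0 (c := ⟨431, ⟨3, 8, 15, 11⟩⟩) (by decide +kernel)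

def yA4B_c3ph01 : PosD ⟨⟨0, 1, 1⟩, ⟨98, 99, 147⟩, ⟨0, 150, 10000⟩, ⟨2569, 2776, 1000⟩⟩ (yA4B.hC3p' false true) :=
  posD_of_check0 (c := ⟨406, ⟨3, 7, 15, 10⟩⟩) (by decide +kernel)

def yA4B_c3mh01 : PosD ⟨⟨0, 1, 1⟩, ⟨98, 99, 147⟩, ⟨0, 150, 10000⟩, ⟨2569, 2776, 1000⟩⟩ (yA4B.hC3m' false true) :=
  posD_of_check0 (c := ⟨430, ⟨3, 8, 15, 11⟩⟩) (by decide +kernel)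

def yA4B_up01 : PosD ⟨⟨0, 1, 1⟩, ⟨98, 99, 147⟩, ⟨0, 150, 10000⟩, ⟨2569, 2776, 1000⟩⟩ (yA4B.hUp false true) :=
  posD_of_check0 (c := ⟨399, ⟨2, 7, 15, 10⟩⟩) (by decide +kernel)

def yA4B_um01 : PosD ⟨⟨0, 1, 1⟩, ⟨98, 99, 147⟩, ⟨0, 150, 10000⟩, ⟨2569, 2776, 1000⟩⟩ (yA4B.hUm false true) :=
  posD_of_check0 (c := ⟨424, ⟨3, 8, 15, 11⟩⟩) (by decide +kernel)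

def yA4B_tmg01 : PosD ⟨⟨0, 1, 1⟩, ⟨98, 99, 147⟩, ⟨0, 150, 10000⟩, ⟨2569, 2776, 1000⟩⟩ (yA4B.hTMG true (yA4B.pEnd false)) :=
  posD_of_check0 (c := ⟨385, ⟨2, 7, 14, 10⟩⟩) (by decide +kernel)

def yA4B_kap1 : PosD ⟨⟨0, 1, 1⟩, ⟨98, 99, 147⟩, ⟨0, 150, 10000⟩, ⟨2569, 2776, 1000⟩⟩ (yA4B.kap true) :=
  posD_of_check0 (c := ⟨72, ⟨1, 1, 2, 2⟩⟩) (by decide +kernel)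

def yA4B_c11 : PosD ⟨⟨0, 1, 1⟩, ⟨98, 99, 147⟩, ⟨0, 150, 10000⟩, ⟨2569, 2776, 1000⟩⟩ (yA4B.hC1 true) :=
  posD_of_check0 (c := ⟨267, ⟨3, 5, 9, 7⟩⟩) (by decide +kernel)

def yA4B_c1h1 : PosD ⟨⟨0, 1, 1⟩, ⟨98, 99, 147⟩, ⟨0, 150, 10000⟩, ⟨2569, 2776, 1000⟩⟩ (yA4B.hC1' true) :=
  posD_of_check0 (c := ⟨267, ⟨3, 5, 9, 7⟩⟩) (by decide +kernel)

def yA4B_tg10 : PosD ⟨⟨0, 1, 1⟩, ⟨98, 99, 147⟩, ⟨0, 150, 10000⟩, ⟨2569, 2776, 1000⟩⟩ (yA4B.hG false (yA4B.pEnd true)) :=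
  posD_of_check0 (c := ⟨370, ⟨2, 7, 14, 9⟩⟩) (by decide +kernel)

def yA4B_c2p10 : PosD ⟨⟨0, 1, 1⟩, ⟨98, 99, 147⟩, ⟨0, 150, 10000⟩, ⟨2569, 2776, 1000⟩⟩ (yA4B.hC2p false (yA4B.pEnd true)) :=
  posD_of_check0 (c := ⟨401, ⟨2, 7, 16, 10⟩⟩) (by decide +kernel)

def yA4B_c2m10 : PosD ⟨⟨0, 1, 1⟩, ⟨98, 99, 147⟩, ⟨0, 150, 10000⟩, ⟨2569, 2776, 1000⟩⟩ (yA4B.hC2m false (yA4B.pEnd true)) :=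
  posD_of_check0 (c := ⟨430, ⟨3, 8, 16, 11⟩⟩) (by decide +kernel)

def yA4B_c3p10 : PosD ⟨⟨0, 1, 1⟩, ⟨98, 99, 147⟩, ⟨0, 150, 10000⟩, ⟨2569, 2776, 1000⟩⟩ (yA4B.hC3p true false) :=
  posD_of_check0 (c := ⟨407, ⟨3, 7, 15, 10⟩⟩) (by decide +kernel)

def yA4B_c3m10 : PosD ⟨⟨0, 1, 1⟩, ⟨98, 99, 147⟩, ⟨0, 150, 10000⟩, ⟨2569, 2776, 1000⟩⟩ (yA4B.hC3m true false) :=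
  posD_of_check0 (c := ⟨431, ⟨3, 8, 15, 11⟩⟩) (by decide +kernel)

def yA4B_c3ph10 : PosD ⟨⟨0, 1, 1⟩, ⟨98, 99, 147⟩, ⟨0, 150, 10000⟩, ⟨2569, 2776, 1000⟩⟩ (yA4B.hC3p' true false) :=
  posD_of_check0 (c := ⟨406, ⟨3, 7, 15, 10⟩⟩) (by decide +kernel)

def yA4B_c3mh10 : PosD ⟨⟨0, 1, 1⟩, ⟨98, 99, 147⟩, ⟨0, 150, 10000⟩, ⟨2569, 2776, 1000⟩⟩ (yA4B.hC3m' true false) :=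
  posD_of_check0 (c := ⟨431, ⟨3, 8, 15, 11⟩⟩) (by decide +kernel)

def yA4B_up10 : PosD ⟨⟨0, 1, 1⟩, ⟨98, 99, 147⟩, ⟨0, 150, 10000⟩, ⟨2569, 2776, 1000⟩⟩ (yA4B.hUp true false) :=
  posD_of_check0 (c := ⟨399, ⟨2, 7, 15, 10⟩⟩) (by decide +kernel)

def yA4B_um10 : PosD ⟨⟨0, 1, 1⟩, ⟨98, 99, 147⟩, ⟨0, 150, 10000⟩, ⟨2569, 2776, 1000⟩⟩ (yA4B.hUm true false) :=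
  posD_of_check0 (c := ⟨425, ⟨3, 8, 15, 11⟩⟩) (by decide +kernel)

def yA4B_tmg10 : PosD ⟨⟨0, 1, 1⟩, ⟨98, 99, 147⟩, ⟨0, 150, 10000⟩, ⟨2569, 2776, 1000⟩⟩ (yA4B.hTMG false (yA4B.pEnd true)) :=
  posD_of_check0 (c := ⟨385, ⟨2, 7, 14, 10⟩⟩) (by decide +kernel)

def yA4B_tg11 : PosD ⟨⟨0, 1, 1⟩, ⟨98, 99, 147⟩, ⟨0, 150, 10000⟩, ⟨2569, 2776, 1000⟩⟩ (yA4B.hG true (yA4B.pEnd true)) :=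
  posD_of_check0 (c := ⟨370, ⟨2, 7, 14, 9⟩⟩) (by decide +kernel)

def yA4B_c2p11 : PosD ⟨⟨0, 1, 1⟩, ⟨98, 99, 147⟩, ⟨0, 150, 10000⟩, ⟨2569, 2776, 1000⟩⟩ (yA4B.hC2p true (yA4B.pEnd true)) :=
  posD_of_check0 (c := ⟨401, ⟨2, 7, 16, 10⟩⟩) (by decide +kernel)

def yA4B_c2m11 : PosD ⟨⟨0, 1, 1⟩, ⟨98, 99, 147⟩, ⟨0, 150, 10000⟩, ⟨2569, 2776, 1000⟩⟩ (yA4B.hC2m true (yA4B.pEnd true)) :=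
  posD_of_check0 (c := ⟨430, ⟨3, 8, 16, 11⟩⟩) (by decide +kernel)

def yA4B_c3p11 : PosD ⟨⟨0, 1, 1⟩, ⟨98, 99, 147⟩, ⟨0, 150, 10000⟩, ⟨2569, 2776, 1000⟩⟩ (yA4B.hC3p true true) :=
  posD_of_check0 (c := ⟨407, ⟨3, 7, 15, 10⟩⟩) (by decide +kernel)

def yA4B_c3m11 : PosD ⟨⟨0, 1, 1⟩, ⟨98, 99, 147⟩, ⟨0, 150, 10000⟩, ⟨2569, 2776, 1000⟩⟩ (yA4B.hC3m true true) :=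
  posD_of_check0 (c := ⟨431, ⟨3, 8, 15, 11⟩⟩) (by decide +kernel)

def yA4B_c3ph11 : PosD ⟨⟨0, 1, 1⟩, ⟨98, 99, 147⟩, ⟨0, 150, 10000⟩, ⟨2569, 2776, 1000⟩⟩ (yA4B.hC3p' true true) :=
  posD_of_check0 (c := ⟨406, ⟨3, 7, 15, 10⟩⟩) (by decide +kernel)

def yA4B_c3mh11 : PosD ⟨⟨0, 1, 1⟩, ⟨98, 99, 147⟩, ⟨0, 150, 10000⟩, ⟨2569, 2776, 1000⟩⟩ (yA4B.hC3m' true true) :=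
  posD_of_check0 (c := ⟨431, ⟨3, 8, 15, 11⟩⟩) (by decide +kernel)

def yA4B_up11 : PosD ⟨⟨0, 1, 1⟩, ⟨98, 99, 147⟩, ⟨0, 150, 10000⟩, ⟨2569, 2776, 1000⟩⟩ (yA4B.hUp true true) :=
  posD_of_check0 (c := ⟨399, ⟨2, 7, 15, 10⟩⟩) (by decide +kernel)

def yA4B_um11 : PosD ⟨⟨0, 1, 1⟩, ⟨98, 99, 147⟩, ⟨0, 150, 10000⟩, ⟨2569, 2776, 1000⟩⟩ (yA4B.hUm true true) :=
  posD_of_check0 (c := ⟨425, ⟨3, 8, 15, 11⟩⟩) (by decide +kernel)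

def yA4B_tmg11 : PosD ⟨⟨0, 1, 1⟩, ⟨98, 99, 147⟩, ⟨0, 150, 10000⟩, ⟨2569, 2776, 1000⟩⟩ (yA4B.hTMG true (yA4B.pEnd true)) :=
  posD_of_check0 (c := ⟨385, ⟨2, 7, 14, 10⟩⟩) (by decide +kernel)

/-- The signs of the piece. -/
def yA4B_sign : yA4B.Sign ⟨⟨0, 1, 1⟩, ⟨98, 99, 147⟩, ⟨0, 150, 10000⟩, ⟨2569, 2776, 1000⟩⟩ :=
  ⟨yA4B_pp,
    yA4B_k2p,
    yA4B_k2m,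
    Bool.forall_bool.2 ⟨(Bool.forall_bool.2 ⟨yA4B_tg00, yA4B_tg01⟩), (Bool.forall_bool.2 ⟨yA4B_tg10, yA4B_tg11⟩)⟩,
    Bool.forall_bool.2 ⟨(Bool.forall_bool.2 ⟨yA4B_c2p00, yA4B_c2p01⟩), (Bool.forall_bool.2 ⟨yA4B_c2p10, yA4B_c2p11⟩)⟩,
    Bool.forall_bool.2 ⟨(Bool.forall_bool.2 ⟨yA4B_c2m00, yA4B_c2m01⟩), (Bool.forall_bool.2 ⟨yA4B_c2m10, yA4B_c2m11⟩)⟩,
    Bool.forall_bool.2 ⟨yA4B_kap0, yA4B_kap1⟩,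
    Bool.forall_bool.2 ⟨yA4B_c10, yA4B_c11⟩,
    Bool.forall_bool.2 ⟨(Bool.forall_bool.2 ⟨yA4B_c3p00, yA4B_c3p01⟩), (Bool.forall_bool.2 ⟨yA4B_c3p10, yA4B_c3p11⟩)⟩,
    Bool.forall_bool.2 ⟨(Bool.forall_bool.2 ⟨yA4B_c3m00, yA4B_c3m01⟩), (Bool.forall_bool.2 ⟨yA4B_c3m10, yA4B_c3m11⟩)⟩,
    Bool.forall_bool.2 ⟨(Bool.forall_bool.2 ⟨yA4B_tmg00, yA4B_tmg01⟩), (Bool.forall_bool.2 ⟨yA4B_tmg10, yA4B_tmg11⟩)⟩,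
    .inr (Bool.forall_bool.2 ⟨⟨yA4B_c1h0, Bool.forall_bool.2 ⟨⟨yA4B_c3ph00, yA4B_c3mh00, yA4B_up00, yA4B_um00⟩, ⟨yA4B_c3ph01, yA4B_c3mh01, yA4B_up01, yA4B_um01⟩⟩⟩, ⟨yA4B_c1h1, Bool.forall_bool.2 ⟨⟨yA4B_c3ph10, yA4B_c3mh10, yA4B_up10, yA4B_um10⟩, ⟨yA4B_c3ph11, yA4B_c3mh11, yA4B_up11, yA4B_um11⟩⟩⟩⟩),
    yA4B_v2p,
    yA4B_v2m,
    yA4B_v3p,
    yA4B_v3m,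
    posD_sub (b := ⟨⟨0, 1, 1⟩, ⟨98, 99, 147⟩, ⟨0, 301, 10000⟩, ⟨1060, 4000, 1000⟩⟩) (by decide +kernel) yA_vG,
    posD_sub (b := ⟨⟨0, 1, 1⟩, ⟨98, 99, 147⟩, ⟨0, 301, 10000⟩, ⟨1060, 4000, 1000⟩⟩) (by decide +kernel) yA_vMG,
    posD_sub (b := ⟨⟨0, 1, 1⟩, ⟨98, 99, 147⟩, ⟨0, 301, 10000⟩, ⟨1060, 4000, 1000⟩⟩) (by decide +kernel) yA_ak,
    posD_sub (b := ⟨⟨0, 1, 1⟩, ⟨98, 99, 147⟩, ⟨0, 301, 10000⟩, ⟨1060, 4000, 1000⟩⟩) (by decide +kernel) yA_aw,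
    posD_sub (b := ⟨⟨0, 1, 1⟩, ⟨98, 99, 147⟩, ⟨0, 301, 10000⟩, ⟨1060, 4000, 1000⟩⟩) (by decide +kernel) yA_gk,
    posD_sub (b := ⟨⟨0, 1, 1⟩, ⟨98, 99, 147⟩, ⟨0, 301, 10000⟩, ⟨1060, 4000, 1000⟩⟩) (by decide +kernel) yA_gw,
    posD_sub (b := ⟨⟨0, 1, 1⟩, ⟨98, 99, 147⟩, ⟨0, 301, 10000⟩, ⟨1060, 4000, 1000⟩⟩) (by decide +kernel) yA_ek,
    posD_sub (b := ⟨⟨0, 1, 1⟩, ⟨98, 99, 147⟩, ⟨0, 301, 10000⟩, ⟨1060, 4000, 1000⟩⟩) (by decide +kernel) yA_ew⟩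

end Vale.Agent.P100.Calib.Closed.Six.Tail
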