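import Vale.Agent.P100.Calib.SlabSixTailDataLayerA
import Vale.Agent.P100.Calib.SlabSixTailGlobLayerA

/-!
# Checks of some pieces of the certificate

The checks are written as definitions so that they run one after another, which keeps the memory of the
kernel low.
-/

set_option linter.defProp false

namespace Vale.Agent.P100.Calib.Closed.Six.Tail

open BoxPos Large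

local instance sixTailChecksyA4Add : Add Ex := ⟨Ex.add⟩
local instance sixTailChecksyA4Sub : Sub Ex := ⟨Ex.sub⟩
local instance sixTailChecksyA4Mul : Mul Ex := ⟨Ex.mul⟩

def yA5_p0 : PosD ⟨⟨0, 1, 1⟩, ⟨98, 99, 147⟩, ⟨150, 301, 10000⟩, ⟨2569, 2776, 1000⟩⟩ (yA5.hP0) :=
  posD_of_check (c := ⟨82, ⟨0, 2, 3, 1⟩⟩) (by decide +kernel)

def yA5_gn : PosD ⟨⟨0, 1, 1⟩, ⟨98, 99, 147⟩, ⟨150, 301, 10000⟩, ⟨2569, 2776, 1000⟩⟩ (yA5.hGn) :=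
  posD_of_check (c := ⟨58, ⟨1, 1, 2, 1⟩⟩) (by decide +kernel)

def yA5_den0 : PosD ⟨⟨0, 1, 1⟩, ⟨98, 99, 147⟩, ⟨150, 301, 10000⟩, ⟨2569, 2776, 1000⟩⟩ (yA5.hDen false) :=
  posD_of_check (c := ⟨45, ⟨0, 0, 2, 0⟩⟩) (by decide +kernel)

def yA5_den1 : PosD ⟨⟨0, 1, 1⟩, ⟨98, 99, 147⟩, ⟨150, 301, 10000⟩, ⟨2569, 2776, 1000⟩⟩ (yA5.hDen true) :=
  posD_of_check (c := ⟨22, ⟨1, 0, 1, 0⟩⟩) (by decide +kernel)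

def yA5_ev0 : PosD ⟨⟨0, 1, 1⟩, ⟨98, 99, 147⟩, ⟨150, 301, 10000⟩, ⟨2569, 2776, 1000⟩⟩ (yA5.hEv false) :=
  posD_of_check (c := ⟨148, ⟨2, 2, 6, 1⟩⟩) (by decide +kernel)

def yA5_zL0 : PosD ⟨⟨0, 1, 1⟩, ⟨98, 99, 147⟩, ⟨150, 301, 10000⟩, ⟨2569, 2776, 1000⟩⟩ (yA5.hZL false) :=
  posD_of_check (c := ⟨159, ⟨2, 3, 6, 3⟩⟩) (by decide +kernel)

def yA5_zU0 : PosD ⟨⟨0, 1, 1⟩, ⟨98, 99, 147⟩, ⟨150, 301, 10000⟩, ⟨2569, 2776, 1000⟩⟩ (yA5.hZU false) :=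
  posD_of_check (c := ⟨159, ⟨2, 3, 6, 3⟩⟩) (by decide +kernel)

def yA5_eL0 : PosD ⟨⟨0, 1, 1⟩, ⟨98, 99, 147⟩, ⟨150, 301, 10000⟩, ⟨2569, 2776, 1000⟩⟩ (yA5.hEL false) :=
  posD_of_check (c := ⟨241, ⟨3, 6, 9, 3⟩⟩) (by decide +kernel)

def yA5_eH0 : PosD ⟨⟨0, 1, 1⟩, ⟨98, 99, 147⟩, ⟨150, 301, 10000⟩, ⟨2569, 2776, 1000⟩⟩ (yA5.hEH false) :=
  posD_of_check (c := ⟨255, ⟨3, 6, 9, 3⟩⟩) (by decide +kernel)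

def yA5_pL0 : PosD ⟨⟨0, 1, 1⟩, ⟨98, 99, 147⟩, ⟨150, 301, 10000⟩, ⟨2569, 2776, 1000⟩⟩ (yA5.hPL false) :=
  posD_of_check (c := ⟨259, ⟨3, 6, 9, 3⟩⟩) (by decide +kernel)

def yA5_pU0 : PosD ⟨⟨0, 1, 1⟩, ⟨98, 99, 147⟩, ⟨150, 301, 10000⟩, ⟨2569, 2776, 1000⟩⟩ (yA5.hPU false) :=
  posD_of_check (c := ⟨267, ⟨3, 6, 9, 3⟩⟩) (by decide +kernel)

def yA5_kU0 : PosD ⟨⟨0, 1, 1⟩, ⟨98, 99, 147⟩, ⟨150, 301, 10000⟩, ⟨2569, 2776, 1000⟩⟩ (yA5.hKU false) :=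
  posD_of_check (c := ⟨254, ⟨3, 6, 9, 3⟩⟩) (by decide +kernel)

def yA5_kL0 : PosD ⟨⟨0, 1, 1⟩, ⟨98, 99, 147⟩, ⟨150, 301, 10000⟩, ⟨2569, 2776, 1000⟩⟩ (yA5.hKL false) :=
  posD_of_check (c := ⟨253, ⟨3, 6, 9, 3⟩⟩) (by decide +kernel)

def yA5_wU0 : PosD ⟨⟨0, 1, 1⟩, ⟨98, 99, 147⟩, ⟨150, 301, 10000⟩, ⟨2569, 2776, 1000⟩⟩ (yA5.hWU false) :=
  posD_of_check (c := ⟨290, ⟨3, 8, 10, 3⟩⟩) (by decide +kernel)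

def yA5_wL0 : PosD ⟨⟨0, 1, 1⟩, ⟨98, 99, 147⟩, ⟨150, 301, 10000⟩, ⟨2569, 2776, 1000⟩⟩ (yA5.hWL false) :=
  posD_of_check (c := ⟨290, ⟨3, 8, 10, 3⟩⟩) (by decide +kernel)

def yA5_ev1 : PosD ⟨⟨0, 1, 1⟩, ⟨98, 99, 147⟩, ⟨150, 301, 10000⟩, ⟨2569, 2776, 1000⟩⟩ (yA5.hEv true) :=
  posD_of_check (c := ⟨120, ⟨2, 2, 6, 1⟩⟩) (by decide +kernel)

def yA5_zL1 : PosD ⟨⟨0, 1, 1⟩, ⟨98, 99, 147⟩, ⟨150, 301, 10000⟩, ⟨2569, 2776, 1000⟩⟩ (yA5.hZL true) :=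
  posD_of_check (c := ⟨134, ⟨2, 3, 6, 3⟩⟩) (by decide +kernel)

def yA5_zU1 : PosD ⟨⟨0, 1, 1⟩, ⟨98, 99, 147⟩, ⟨150, 301, 10000⟩, ⟨2569, 2776, 1000⟩⟩ (yA5.hZU true) :=
  posD_of_check (c := ⟨134, ⟨2, 3, 6, 3⟩⟩) (by decide +kernel)

def yA5_eL1 : PosD ⟨⟨0, 1, 1⟩, ⟨98, 99, 147⟩, ⟨150, 301, 10000⟩, ⟨2569, 2776, 1000⟩⟩ (yA5.hEL true) :=
  posD_of_check (c := ⟨212, ⟨3, 6, 9, 3⟩⟩) (by decide +kernel)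

def yA5_eH1 : PosD ⟨⟨0, 1, 1⟩, ⟨98, 99, 147⟩, ⟨150, 301, 10000⟩, ⟨2569, 2776, 1000⟩⟩ (yA5.hEH true) :=
  posD_of_check (c := ⟨227, ⟨3, 6, 9, 3⟩⟩) (by decide +kernel)

def yA5_pL1 : PosD ⟨⟨0, 1, 1⟩, ⟨98, 99, 147⟩, ⟨150, 301, 10000⟩, ⟨2569, 2776, 1000⟩⟩ (yA5.hPL true) :=
  posD_of_check (c := ⟨230, ⟨3, 6, 9, 3⟩⟩) (by decide +kernel)

def yA5_pU1a : PosD ⟨⟨0, 1, 2⟩, ⟨98, 99, 147⟩, ⟨150, 301, 10000⟩, ⟨2569, 2776, 1000⟩⟩ (yA5.hPU true) :=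
  posD_of_check (c := ⟨240, ⟨3, 6, 9, 3⟩⟩) (by decide +kernel)

def yA5_pU1b : PosD ⟨⟨1, 2, 2⟩, ⟨98, 99, 147⟩, ⟨150, 301, 10000⟩, ⟨2569, 2776, 1000⟩⟩ (yA5.hPU true) :=
  posD_of_check (c := ⟨241, ⟨3, 6, 9, 3⟩⟩) (by decide +kernel)

def yA5_pU1 : PosD ⟨⟨0, 1, 1⟩, ⟨98, 99, 147⟩, ⟨150, 301, 10000⟩, ⟨2569, 2776, 1000⟩⟩ (yA5.hPU true) :=
  posD_units (b := ⟨⟨0, 2, 2⟩, ⟨98, 99, 147⟩, ⟨150, 301, 10000⟩, ⟨2569, 2776, 1000⟩⟩) (by decide +kernel) (posD_join₀ yA5_pU1a yA5_pU1b)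

def yA5_kU1 : PosD ⟨⟨0, 1, 1⟩, ⟨98, 99, 147⟩, ⟨150, 301, 10000⟩, ⟨2569, 2776, 1000⟩⟩ (yA5.hKU true) :=
  posD_of_check (c := ⟨226, ⟨3, 6, 9, 3⟩⟩) (by decide +kernel)

def yA5_kL1 : PosD ⟨⟨0, 1, 1⟩, ⟨98, 99, 147⟩, ⟨150, 301, 10000⟩, ⟨2569, 2776, 1000⟩⟩ (yA5.hKL true) :=
  posD_of_check (c := ⟨225, ⟨3, 6, 9, 3⟩⟩) (by decide +kernel)

def yA5_wU1 : PosD ⟨⟨0, 1, 1⟩, ⟨98, 99, 147⟩, ⟨150, 301, 10000⟩, ⟨2569, 2776, 1000⟩⟩ (yA5.hWU true) :=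
  posD_of_check (c := ⟨261, ⟨3, 8, 10, 3⟩⟩) (by decide +kernel)

def yA5_wL1 : PosD ⟨⟨0, 1, 1⟩, ⟨98, 99, 147⟩, ⟨150, 301, 10000⟩, ⟨2569, 2776, 1000⟩⟩ (yA5.hWL true) :=
  posD_of_check (c := ⟨261, ⟨3, 8, 10, 3⟩⟩) (by decide +kernel)

def yA5_mueH : PosD ⟨⟨0, 1, 1⟩, ⟨98, 99, 147⟩, ⟨150, 301, 10000⟩, ⟨2569, 2776, 1000⟩⟩ (yA5.eH.μ) :=
  posD_of_check (c := ⟨14, ⟨0, 0, 0, 0⟩⟩) (by decide +kernel)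

def yA5_nupU : PosD ⟨⟨0, 1, 1⟩, ⟨98, 99, 147⟩, ⟨150, 301, 10000⟩, ⟨2569, 2776, 1000⟩⟩ (yA5.pU.ν) :=
  posD_of_check (c := ⟨45, ⟨0, 0, 1, 1⟩⟩) (by decide +kernel)

/-- The bounds of the piece. -/
def yA5_env : yA5.Env ⟨⟨0, 1, 1⟩, ⟨98, 99, 147⟩, ⟨150, 301, 10000⟩, ⟨2569, 2776, 1000⟩⟩ :=
  ⟨yA5_p0, Bool.forall_bool.2 ⟨yA5_den0, yA5_den1⟩, yA5_gn, Bool.forall_bool.2 ⟨yA5_ev0, yA5_ev1⟩, Bool.forall_bool.2 ⟨yA5_zL0, yA5_zL1⟩, Bool.forall_bool.2 ⟨yA5_zU0, yA5_zU1⟩, Bool.forall_bool.2 ⟨yA5_eL0, yA5_eL1⟩, ⟨.inr rfl, .inr rfl⟩, Bool.forall_bool.2 ⟨yA5_eH0, yA5_eH1⟩, ⟨.inl yA5_mueH, .inr rfl⟩, Bool.forall_bool.2 ⟨yA5_pL0, yA5_pL1⟩, ⟨.inr rfl, .inr rfl⟩, Bool.forall_bool.2 ⟨yA5_pU0, yA5_pU1⟩, ⟨.inr rfl, .inl yA5_nupU⟩,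 Bool.forall_bool.2 ⟨yA5_kU0, yA5_kU1⟩, ⟨.inr rfl, .inr rfl⟩, Bool.forall_bool.2 ⟨yA5_kL0, yA5_kL1⟩, ⟨.inr rfl, .inr rfl⟩, Bool.forall_bool.2 ⟨yA5_wU0, yA5_wU1⟩, ⟨.inr rfl, .inr rfl⟩, Bool.forall_bool.2 ⟨yA5_wL0, yA5_wL1⟩, ⟨.inr rfl, .inr rfl⟩⟩

def yA5_pU20 : PosD ⟨⟨0, 1, 1⟩, ⟨98, 99, 147⟩, ⟨150, 301, 10000⟩, ⟨2569, 2776, 1000⟩⟩ (({ yA5 with pU := yA5PU } : Piece).hPU false) :=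
  posD_of_check (c := ⟨267, ⟨3, 6, 9, 3⟩⟩) (by decide +kernel)

def yA5_pU21 : PosD ⟨⟨0, 1, 1⟩, ⟨98, 99, 147⟩, ⟨150, 301, 10000⟩, ⟨2569, 2776, 1000⟩⟩ (({ yA5 with pU := yA5PU } : Piece).hPU true) :=
  posD_of_check (c := ⟨239, ⟨3, 6, 9, 3⟩⟩) (by decide +kernel)

def yA5_nupU2 : PosD ⟨⟨0, 1, 1⟩, ⟨98, 99, 147⟩, ⟨150, 301, 10000⟩, ⟨2569, 2776, 1000⟩⟩ (yA5PU.ν) :=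
  posD_of_check (c := ⟨45, ⟨0, 0, 1, 1⟩⟩) (by decide +kernel)

/-- The bounds with the other bound of `p`. -/
def yA5_envU : ({ yA5 with pU := yA5PU } : Piece).Env ⟨⟨0, 1, 1⟩, ⟨98, 99, 147⟩, ⟨150, 301, 10000⟩, ⟨2569, 2776, 1000⟩⟩ :=
  yA5_env.withU yA5PU (Bool.forall_bool.2 ⟨yA5_pU20, yA5_pU21⟩) ⟨.inr rfl, .inl yA5_nupU2⟩

def yA5A_pp : PosD ⟨⟨0, 1, 1⟩, ⟨98, 99, 147⟩, ⟨150, 301, 10000⟩, ⟨2569, 2776, 1000⟩⟩ (yA5A.xPL) :=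
  posD_of_check (c := ⟨90, ⟨1, 1, 3, 3⟩⟩) (by decide +kernel)

def yA5A_k2p : PosD ⟨⟨0, 1, 1⟩, ⟨98, 99, 147⟩, ⟨150, 301, 10000⟩, ⟨2569, 2776, 1000⟩⟩ (yA5A.k2p yA5A.xE) :=
  posD_of_check (c := ⟨64, ⟨1, 1, 2, 2⟩⟩) (by decide +kernel)

def yA5A_k2m : PosD ⟨⟨0, 1, 1⟩, ⟨98, 99, 147⟩, ⟨150, 301, 10000⟩, ⟨2569, 2776, 1000⟩⟩ (yA5A.k2m yA5A.xE) :=
  posD_of_check (c := ⟨21, ⟨0, 0, 1, 1⟩⟩) (by decide +kernel)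

def yA5A_v2p : PosD ⟨⟨0, 1, 1⟩, ⟨98, 99, 147⟩, ⟨150, 301, 10000⟩, ⟨2569, 2776, 1000⟩⟩ (yA5A.hV2p) :=
  posD_of_check (c := ⟨256, ⟨1, 6, 10, 5⟩⟩) (by decide +kernel)

def yA5A_v2m : PosD ⟨⟨0, 1, 1⟩, ⟨98, 99, 147⟩, ⟨150, 301, 10000⟩, ⟨2569, 2776, 1000⟩⟩ (yA5A.hV2m) :=
  posD_of_check (c := ⟨225, ⟨0, 5, 10, 4⟩⟩) (by decide +kernel)

def yA5A_v3p : PosD ⟨⟨0, 1, 1⟩, ⟨98, 99, 147⟩, ⟨150, 301, 10000⟩, ⟨2569, 2776, 1000⟩⟩ (yA5A.hV3p) :=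
  posD_of_check (c := ⟨246, ⟨1, 6, 9, 5⟩⟩) (by decide +kernel)

def yA5A_v3m : PosD ⟨⟨0, 1, 1⟩, ⟨98, 99, 147⟩, ⟨150, 301, 10000⟩, ⟨2569, 2776, 1000⟩⟩ (yA5A.hV3m) :=
  posD_of_check (c := ⟨220, ⟨0, 5, 9, 4⟩⟩) (by decide +kernel)

def yA5A_kap0 : PosD ⟨⟨0, 1, 1⟩, ⟨98, 99, 147⟩, ⟨150, 301, 10000⟩, ⟨2569, 2776, 1000⟩⟩ (yA5A.kap false) :=
  posD_of_check (c := ⟨68, ⟨1, 1, 2, 2⟩⟩) (by decide +kernel)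

def yA5A_c10a : PosD ⟨⟨0, 1, 2⟩, ⟨98, 99, 147⟩, ⟨150, 301, 10000⟩, ⟨2569, 2776, 1000⟩⟩ (yA5A.hC1 false) :=
  posD_of_check (c := ⟨262, ⟨3, 5, 9, 7⟩⟩) (by decide +kernel)

def yA5A_c10b : PosD ⟨⟨1, 2, 2⟩, ⟨98, 99, 147⟩, ⟨150, 301, 10000⟩, ⟨2569, 2776, 1000⟩⟩ (yA5A.hC1 false) :=
  posD_of_check (c := ⟨264, ⟨3, 5, 9, 7⟩⟩) (by decide +kernel)

def yA5A_c10 : PosD ⟨⟨0, 1, 1⟩, ⟨98, 99, 147⟩, ⟨150, 301, 10000⟩, ⟨2569, 2776, 1000⟩⟩ (yA5A.hC1 false) :=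
  posD_units (b := ⟨⟨0, 2, 2⟩, ⟨98, 99, 147⟩, ⟨150, 301, 10000⟩, ⟨2569, 2776, 1000⟩⟩) (by decide +kernel) (posD_join₀ yA5A_c10a yA5A_c10b)

def yA5A_c1h0 : PosD ⟨⟨0, 1, 1⟩, ⟨98, 99, 147⟩, ⟨150, 301, 10000⟩, ⟨2569, 2776, 1000⟩⟩ (yA5A.hC1' false) :=
  posD_of_check (c := ⟨262, ⟨3, 5, 9, 7⟩⟩) (by decide +kernel)

def yA5A_tg00 : PosD ⟨⟨0, 1, 1⟩, ⟨98, 99, 147⟩, ⟨150, 301, 10000⟩, ⟨2569, 2776, 1000⟩⟩ (yA5A.hG false (yA5A.pEnd false)) :=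
  posD_of_check (c := ⟨369, ⟨2, 7, 14, 9⟩⟩) (by decide +kernel)

def yA5A_c2p00 : PosD ⟨⟨0, 1, 1⟩, ⟨98, 99, 147⟩, ⟨150, 301, 10000⟩, ⟨2569, 2776, 1000⟩⟩ (yA5A.hC2p false (yA5A.pEnd false)) :=
  posD_of_check (c := ⟨432, ⟨3, 8, 16, 11⟩⟩) (by decide +kernel)

def yA5A_c2m00 : PosD ⟨⟨0, 1, 1⟩, ⟨98, 99, 147⟩, ⟨150, 301, 10000⟩, ⟨2569, 2776, 1000⟩⟩ (yA5A.hC2m false (yA5A.pEnd false)) :=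
  posD_of_check (c := ⟨402, ⟨2, 7, 16, 10⟩⟩) (by decide +kernel)

def yA5A_c3p00 : PosD ⟨⟨0, 1, 1⟩, ⟨98, 99, 147⟩, ⟨150, 301, 10000⟩, ⟨2569, 2776, 1000⟩⟩ (yA5A.hC3p false false) :=
  posD_of_check (c := ⟨427, ⟨3, 8, 15, 11⟩⟩) (by decide +kernel)

def yA5A_c3m00 : PosD ⟨⟨0, 1, 1⟩, ⟨98, 99, 147⟩, ⟨150, 301, 10000⟩, ⟨2569, 2776, 1000⟩⟩ (yA5A.hC3m false false) :=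
  posD_of_check (c := ⟨402, ⟨3, 7, 15, 10⟩⟩) (by decide +kernel)

def yA5A_c3ph00 : PosD ⟨⟨0, 1, 1⟩, ⟨98, 99, 147⟩, ⟨150, 301, 10000⟩, ⟨2569, 2776, 1000⟩⟩ (yA5A.hC3p' false false) :=
  posD_of_check (c := ⟨427, ⟨3, 8, 15, 11⟩⟩) (by decide +kernel)

def yA5A_c3mh00 : PosD ⟨⟨0, 1, 1⟩, ⟨98, 99, 147⟩, ⟨150, 301, 10000⟩, ⟨2569, 2776, 1000⟩⟩ (yA5A.hC3m' false false) :=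
  posD_of_check (c := ⟨402, ⟨3, 7, 15, 10⟩⟩) (by decide +kernel)

def yA5A_up00 : PosD ⟨⟨0, 1, 1⟩, ⟨98, 99, 147⟩, ⟨150, 301, 10000⟩, ⟨2569, 2776, 1000⟩⟩ (yA5A.hUp false false) :=
  posD_of_check (c := ⟨425, ⟨3, 8, 15, 11⟩⟩) (by decide +kernel)

def yA5A_um00 : PosD ⟨⟨0, 1, 1⟩, ⟨98, 99, 147⟩, ⟨150, 301, 10000⟩, ⟨2569, 2776, 1000⟩⟩ (yA5A.hUm false false) :=
  posD_of_check (c := ⟨399, ⟨2, 7, 15, 10⟩⟩) (by decide +kernel)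

def yA5A_tmg00 : PosD ⟨⟨0, 1, 1⟩, ⟨98, 99, 147⟩, ⟨150, 301, 10000⟩, ⟨2569, 2776, 1000⟩⟩ (yA5A.hTMG false (yA5A.pEnd false)) :=
  posD_of_check (c := ⟨385, ⟨2, 7, 14, 10⟩⟩) (by decide +kernel)

def yA5A_tg01 : PosD ⟨⟨0, 1, 1⟩, ⟨98, 99, 147⟩, ⟨150, 301, 10000⟩, ⟨2569, 2776, 1000⟩⟩ (yA5A.hG true (yA5A.pEnd false)) :=
  posD_of_check (c := ⟨369, ⟨2, 7, 14, 9⟩⟩) (by decide +kernel)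

def yA5A_c2p01 : PosD ⟨⟨0, 1, 1⟩, ⟨98, 99, 147⟩, ⟨150, 301, 10000⟩, ⟨2569, 2776, 1000⟩⟩ (yA5A.hC2p true (yA5A.pEnd false)) :=
  posD_of_check (c := ⟨432, ⟨3, 8, 16, 11⟩⟩) (by decide +kernel)

def yA5A_c2m01 : PosD ⟨⟨0, 1, 1⟩, ⟨98, 99, 147⟩, ⟨150, 301, 10000⟩, ⟨2569, 2776, 1000⟩⟩ (yA5A.hC2m true (yA5A.pEnd false)) :=
  posD_of_check (c := ⟨402, ⟨2, 7, 16, 10⟩⟩) (by decide +kernel)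

def yA5A_c3p01 : PosD ⟨⟨0, 1, 1⟩, ⟨98, 99, 147⟩, ⟨150, 301, 10000⟩, ⟨2569, 2776, 1000⟩⟩ (yA5A.hC3p false true) :=
  posD_of_check (c := ⟨427, ⟨3, 8, 15, 11⟩⟩) (by decide +kernel)

def yA5A_c3m01 : PosD ⟨⟨0, 1, 1⟩, ⟨98, 99, 147⟩, ⟨150, 301, 10000⟩, ⟨2569, 2776, 1000⟩⟩ (yA5A.hC3m false true) :=
  posD_of_check (c := ⟨402, ⟨3, 7, 15, 10⟩⟩) (by decide +kernel)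

def yA5A_c3ph01 : PosD ⟨⟨0, 1, 1⟩, ⟨98, 99, 147⟩, ⟨150, 301, 10000⟩, ⟨2569, 2776, 1000⟩⟩ (yA5A.hC3p' false true) :=
  posD_of_check (c := ⟨427, ⟨3, 8, 15, 11⟩⟩) (by decide +kernel)

def yA5A_c3mh01 : PosD ⟨⟨0, 1, 1⟩, ⟨98, 99, 147⟩, ⟨150, 301, 10000⟩, ⟨2569, 2776, 1000⟩⟩ (yA5A.hC3m' false true) :=
  posD_of_check (c := ⟨402, ⟨3, 7, 15, 10⟩⟩) (by decide +kernel)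

def yA5A_up01 : PosD ⟨⟨0, 1, 1⟩, ⟨98, 99, 147⟩, ⟨150, 301, 10000⟩, ⟨2569, 2776, 1000⟩⟩ (yA5A.hUp false true) :=
  posD_of_check (c := ⟨425, ⟨3, 8, 15, 11⟩⟩) (by decide +kernel)

def yA5A_um01 : PosD ⟨⟨0, 1, 1⟩, ⟨98, 99, 147⟩, ⟨150, 301, 10000⟩, ⟨2569, 2776, 1000⟩⟩ (yA5A.hUm false true) :=
  posD_of_check (c := ⟨399, ⟨2, 7, 15, 10⟩⟩) (by decide +kernel)

def yA5A_tmg01 : PosD ⟨⟨0, 1, 1⟩, ⟨98, 99, 147⟩, ⟨150, 301, 10000⟩, ⟨2569, 2776, 1000⟩⟩ (yA5A.hTMG true (yA5A.pEnd false)) :=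
  posD_of_check (c := ⟨385, ⟨2, 7, 14, 10⟩⟩) (by decide +kernel)

def yA5A_kap1 : PosD ⟨⟨0, 1, 1⟩, ⟨98, 99, 147⟩, ⟨150, 301, 10000⟩, ⟨2569, 2776, 1000⟩⟩ (yA5A.kap true) :=
  posD_of_check (c := ⟨69, ⟨1, 1, 2, 2⟩⟩) (by decide +kernel)

def yA5A_c11 : PosD ⟨⟨0, 1, 1⟩, ⟨98, 99, 147⟩, ⟨150, 301, 10000⟩, ⟨2569, 2776, 1000⟩⟩ (yA5A.hC1 true) :=
  posD_of_check (c := ⟨265, ⟨3, 5, 9, 7⟩⟩) (by decide +kernel)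

def yA5A_c1h1 : PosD ⟨⟨0, 1, 1⟩, ⟨98, 99, 147⟩, ⟨150, 301, 10000⟩, ⟨2569, 2776, 1000⟩⟩ (yA5A.hC1' true) :=
  posD_of_check (c := ⟨265, ⟨3, 5, 9, 7⟩⟩) (by decide +kernel)

def yA5A_tg10 : PosD ⟨⟨0, 1, 1⟩, ⟨98, 99, 147⟩, ⟨150, 301, 10000⟩, ⟨2569, 2776, 1000⟩⟩ (yA5A.hG false (yA5A.pEnd true)) :=
  posD_of_check (c := ⟨371, ⟨2, 7, 14, 9⟩⟩) (by decide +kernel)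

def yA5A_c2p10 : PosD ⟨⟨0, 1, 1⟩, ⟨98, 99, 147⟩, ⟨150, 301, 10000⟩, ⟨2569, 2776, 1000⟩⟩ (yA5A.hC2p false (yA5A.pEnd true)) :=
  posD_of_check (c := ⟨434, ⟨3, 8, 16, 11⟩⟩) (by decide +kernel)

def yA5A_c2m10 : PosD ⟨⟨0, 1, 1⟩, ⟨98, 99, 147⟩, ⟨150, 301, 10000⟩, ⟨2569, 2776, 1000⟩⟩ (yA5A.hC2m false (yA5A.pEnd true)) :=
  posD_of_check (c := ⟨404, ⟨2, 7, 16, 10⟩⟩) (by decide +kernel)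

def yA5A_c3p10 : PosD ⟨⟨0, 1, 1⟩, ⟨98, 99, 147⟩, ⟨150, 301, 10000⟩, ⟨2569, 2776, 1000⟩⟩ (yA5A.hC3p true false) :=
  posD_of_check (c := ⟨429, ⟨3, 8, 15, 11⟩⟩) (by decide +kernel)

def yA5A_c3m10 : PosD ⟨⟨0, 1, 1⟩, ⟨98, 99, 147⟩, ⟨150, 301, 10000⟩, ⟨2569, 2776, 1000⟩⟩ (yA5A.hC3m true false) :=
  posD_of_check (c := ⟨404, ⟨3, 7, 15, 10⟩⟩) (by decide +kernel)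

def yA5A_c3ph10 : PosD ⟨⟨0, 1, 1⟩, ⟨98, 99, 147⟩, ⟨150, 301, 10000⟩, ⟨2569, 2776, 1000⟩⟩ (yA5A.hC3p' true false) :=
  posD_of_check (c := ⟨429, ⟨3, 8, 15, 11⟩⟩) (by decide +kernel)

def yA5A_c3mh10 : PosD ⟨⟨0, 1, 1⟩, ⟨98, 99, 147⟩, ⟨150, 301, 10000⟩, ⟨2569, 2776, 1000⟩⟩ (yA5A.hC3m' true false) :=
  posD_of_check (c := ⟨404, ⟨3, 7, 15, 10⟩⟩) (by decide +kernel)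

def yA5A_up10 : PosD ⟨⟨0, 1, 1⟩, ⟨98, 99, 147⟩, ⟨150, 301, 10000⟩, ⟨2569, 2776, 1000⟩⟩ (yA5A.hUp true false) :=
  posD_of_check (c := ⟨426, ⟨3, 8, 15, 11⟩⟩) (by decide +kernel)

def yA5A_um10 : PosD ⟨⟨0, 1, 1⟩, ⟨98, 99, 147⟩, ⟨150, 301, 10000⟩, ⟨2569, 2776, 1000⟩⟩ (yA5A.hUm true false) :=
  posD_of_check (c := ⟨400, ⟨2, 7, 15, 10⟩⟩) (by decide +kernel)

def yA5A_tmg10 : PosD ⟨⟨0, 1, 1⟩, ⟨98, 99, 147⟩, ⟨150, 301, 10000⟩, ⟨2569, 2776, 1000⟩⟩ (yA5A.hTMG false (yA5A.pEnd true)) :=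
  posD_of_check (c := ⟨385, ⟨2, 7, 14, 10⟩⟩) (by decide +kernel)

def yA5A_tg11 : PosD ⟨⟨0, 1, 1⟩, ⟨98, 99, 147⟩, ⟨150, 301, 10000⟩, ⟨2569, 2776, 1000⟩⟩ (yA5A.hG true (yA5A.pEnd true)) :=
  posD_of_check (c := ⟨371, ⟨2, 7, 14, 9⟩⟩) (by decide +kernel)

def yA5A_c2p11 : PosD ⟨⟨0, 1, 1⟩, ⟨98, 99, 147⟩, ⟨150, 301, 10000⟩, ⟨2569, 2776, 1000⟩⟩ (yA5A.hC2p true (yA5A.pEnd true)) :=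
  posD_of_check (c := ⟨434, ⟨3, 8, 16, 11⟩⟩) (by decide +kernel)

def yA5A_c2m11 : PosD ⟨⟨0, 1, 1⟩, ⟨98, 99, 147⟩, ⟨150, 301, 10000⟩, ⟨2569, 2776, 1000⟩⟩ (yA5A.hC2m true (yA5A.pEnd true)) :=
  posD_of_check (c := ⟨404, ⟨2, 7, 16, 10⟩⟩) (by decide +kernel)

def yA5A_c3p11 : PosD ⟨⟨0, 1, 1⟩, ⟨98, 99, 147⟩, ⟨150, 301, 10000⟩, ⟨2569, 2776, 1000⟩⟩ (yA5A.hC3p true true) :=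
  posD_of_check (c := ⟨429, ⟨3, 8, 15, 11⟩⟩) (by decide +kernel)

def yA5A_c3m11 : PosD ⟨⟨0, 1, 1⟩, ⟨98, 99, 147⟩, ⟨150, 301, 10000⟩, ⟨2569, 2776, 1000⟩⟩ (yA5A.hC3m true true) :=
  posD_of_check (c := ⟨404, ⟨3, 7, 15, 10⟩⟩) (by decide +kernel)

def yA5A_c3ph11 : PosD ⟨⟨0, 1, 1⟩, ⟨98, 99, 147⟩, ⟨150, 301, 10000⟩, ⟨2569, 2776, 1000⟩⟩ (yA5A.hC3p' true true) :=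
  posD_of_check (c := ⟨429, ⟨3, 8, 15, 11⟩⟩) (by decide +kernel)

def yA5A_c3mh11 : PosD ⟨⟨0, 1, 1⟩, ⟨98, 99, 147⟩, ⟨150, 301, 10000⟩, ⟨2569, 2776, 1000⟩⟩ (yA5A.hC3m' true true) :=
  posD_of_check (c := ⟨404, ⟨3, 7, 15, 10⟩⟩) (by decide +kernel)

def yA5A_up11 : PosD ⟨⟨0, 1, 1⟩, ⟨98, 99, 147⟩, ⟨150, 301, 10000⟩, ⟨2569, 2776, 1000⟩⟩ (yA5A.hUp true true) :=
  posD_of_check (c := ⟨426, ⟨3, 8, 15, 11⟩⟩) (by decide +kernel)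

def yA5A_um11 : PosD ⟨⟨0, 1, 1⟩, ⟨98, 99, 147⟩, ⟨150, 301, 10000⟩, ⟨2569, 2776, 1000⟩⟩ (yA5A.hUm true true) :=
  posD_of_check (c := ⟨400, ⟨2, 7, 15, 10⟩⟩) (by decide +kernel)

def yA5A_tmg11 : PosD ⟨⟨0, 1, 1⟩, ⟨98, 99, 147⟩, ⟨150, 301, 10000⟩, ⟨2569, 2776, 1000⟩⟩ (yA5A.hTMG true (yA5A.pEnd true)) :=
  posD_of_check (c := ⟨385, ⟨2, 7, 14, 10⟩⟩) (by decide +kernel)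

/-- The signs of the piece. -/
def yA5A_sign : yA5A.Sign ⟨⟨0, 1, 1⟩, ⟨98, 99, 147⟩, ⟨150, 301, 10000⟩, ⟨2569, 2776, 1000⟩⟩ :=
  ⟨yA5A_pp,
    yA5A_k2p,
    yA5A_k2m,
    Bool.forall_bool.2 ⟨(Bool.forall_bool.2 ⟨yA5A_tg00, yA5A_tg01⟩), (Bool.forall_bool.2 ⟨yA5A_tg10, yA5A_tg11⟩)⟩,
    Bool.forall_bool.2 ⟨(Bool.forall_bool.2 ⟨yA5A_c2p00, yA5A_c2p01⟩), (Bool.forall_bool.2 ⟨yA5A_c2p10, yA5A_c2p11⟩)⟩,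
    Bool.forall_bool.2 ⟨(Bool.forall_bool.2 ⟨yA5A_c2m00, yA5A_c2m01⟩), (Bool.forall_bool.2 ⟨yA5A_c2m10, yA5A_c2m11⟩)⟩,
    Bool.forall_bool.2 ⟨yA5A_kap0, yA5A_kap1⟩,
    Bool.forall_bool.2 ⟨yA5A_c10, yA5A_c11⟩,
    Bool.forall_bool.2 ⟨(Bool.forall_bool.2 ⟨yA5A_c3p00, yA5A_c3p01⟩), (Bool.forall_bool.2 ⟨yA5A_c3p10, yA5A_c3p11⟩)⟩,
    Bool.forall_bool.2 ⟨(Bool.forall_bool.2 ⟨yA5A_c3m00, yA5A_c3m01⟩), (Bool.forall_bool.2 ⟨yA5A_c3m10, yA5A_c3m11⟩)⟩,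
    Bool.forall_bool.2 ⟨(Bool.forall_bool.2 ⟨yA5A_tmg00, yA5A_tmg01⟩), (Bool.forall_bool.2 ⟨yA5A_tmg10, yA5A_tmg11⟩)⟩,
    .inr (Bool.forall_bool.2 ⟨⟨yA5A_c1h0, Bool.forall_bool.2 ⟨⟨yA5A_c3ph00, yA5A_c3mh00, yA5A_up00, yA5A_um00⟩, ⟨yA5A_c3ph01, yA5A_c3mh01, yA5A_up01, yA5A_um01⟩⟩⟩, ⟨yA5A_c1h1, Bool.forall_bool.2 ⟨⟨yA5A_c3ph10, yA5A_c3mh10, yA5A_up10, yA5A_um10⟩, ⟨yA5A_c3ph11, yA5A_c3mh11, yA5A_up11, yA5A_um11⟩⟩⟩⟩),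
    yA5A_v2p,
    yA5A_v2m,
    yA5A_v3p,
    yA5A_v3m,
    posD_sub (b := ⟨⟨0, 1, 1⟩, ⟨98, 99, 147⟩, ⟨0, 301, 10000⟩, ⟨1060, 4000, 1000⟩⟩) (by decide +kernel) yA_vG,
    posD_sub (b := ⟨⟨0, 1, 1⟩, ⟨98, 99, 147⟩, ⟨0, 301, 10000⟩, ⟨1060, 4000, 1000⟩⟩) (by decide +kernel) yA_vMG,
    posD_sub (b := ⟨⟨0, 1, 1⟩, ⟨98, 99, 147⟩, ⟨0, 301, 10000⟩, ⟨1060, 4000, 1000⟩⟩) (by decide +kernel) yA_ak,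
    posD_sub (b := ⟨⟨0, 1, 1⟩, ⟨98, 99, 147⟩, ⟨0, 301, 10000⟩, ⟨1060, 4000, 1000⟩⟩) (by decide +kernel) yA_aw,
    posD_sub (b := ⟨⟨0, 1, 1⟩, ⟨98, 99, 147⟩, ⟨0, 301, 10000⟩, ⟨1060, 4000, 1000⟩⟩) (by decide +kernel) yA_gk,
    posD_sub (b := ⟨⟨0, 1, 1⟩, ⟨98, 99, 147⟩, ⟨0, 301, 10000⟩, ⟨1060, 4000, 1000⟩⟩) (by decide +kernel) yA_gw,
    posD_sub (b := ⟨⟨0, 1, 1⟩, ⟨98, 99, 147⟩, ⟨0, 301, 10000⟩, ⟨1060, 4000, 1000⟩⟩) (by decide +kernel) yA_ek,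
    posD_sub (b := ⟨⟨0, 1, 1⟩, ⟨98, 99, 147⟩, ⟨0, 301, 10000⟩, ⟨1060, 4000, 1000⟩⟩) (by decide +kernel) yA_ew⟩

def yA5B_pp : PosD ⟨⟨0, 1, 1⟩, ⟨98, 99, 147⟩, ⟨150, 301, 10000⟩, ⟨2569, 2776, 1000⟩⟩ (yA5B.xPL) :=
  posD_of_check (c := ⟨91, ⟨1, 1, 3, 3⟩⟩) (by decide +kernel)

def yA5B_k2p : PosD ⟨⟨0, 1, 1⟩, ⟨98, 99, 147⟩, ⟨150, 301, 10000⟩, ⟨2569, 2776, 1000⟩⟩ (yA5B.k2p yA5B.xE) :=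
  posD_of_check (c := ⟨62, ⟨1, 1, 2, 2⟩⟩) (by decide +kernel)

def yA5B_k2m : PosD ⟨⟨0, 1, 1⟩, ⟨98, 99, 147⟩, ⟨150, 301, 10000⟩, ⟨2569, 2776, 1000⟩⟩ (yA5B.k2m yA5B.xE) :=
  posD_of_check (c := ⟨64, ⟨1, 1, 2, 2⟩⟩) (by decide +kernel)

def yA5B_v2p : PosD ⟨⟨0, 1, 1⟩, ⟨98, 99, 147⟩, ⟨150, 301, 10000⟩, ⟨2569, 2776, 1000⟩⟩ (yA5B.hV2p) :=
  posD_of_check (c := ⟨255, ⟨1, 6, 10, 5⟩⟩) (by decide +kernel)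

def yA5B_v2m : PosD ⟨⟨0, 1, 1⟩, ⟨98, 99, 147⟩, ⟨150, 301, 10000⟩, ⟨2569, 2776, 1000⟩⟩ (yA5B.hV2m) :=
  posD_of_check (c := ⟨257, ⟨1, 6, 10, 5⟩⟩) (by decide +kernel)

def yA5B_v3p : PosD ⟨⟨0, 1, 1⟩, ⟨98, 99, 147⟩, ⟨150, 301, 10000⟩, ⟨2569, 2776, 1000⟩⟩ (yA5B.hV3p) :=
  posD_of_check (c := ⟨246, ⟨1, 6, 9, 5⟩⟩) (by decide +kernel)

def yA5B_v3m : PosD ⟨⟨0, 1, 1⟩, ⟨98, 99, 147⟩, ⟨150, 301, 10000⟩, ⟨2569, 2776, 1000⟩⟩ (yA5B.hV3m) :=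
  posD_of_check (c := ⟨246, ⟨1, 6, 9, 5⟩⟩) (by decide +kernel)

def yA5B_kap0 : PosD ⟨⟨0, 1, 1⟩, ⟨98, 99, 147⟩, ⟨150, 301, 10000⟩, ⟨2569, 2776, 1000⟩⟩ (yA5B.kap false) :=
  posD_of_check (c := ⟨72, ⟨1, 1, 2, 2⟩⟩) (by decide +kernel)

def yA5B_c10 : PosD ⟨⟨0, 1, 1⟩, ⟨98, 99, 147⟩, ⟨150, 301, 10000⟩, ⟨2569, 2776, 1000⟩⟩ (yA5B.hC1 false) :=
  posD_of_check (c := ⟨267, ⟨3, 5, 9, 7⟩⟩) (by decide +kernel)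

def yA5B_c1h0 : PosD ⟨⟨0, 1, 1⟩, ⟨98, 99, 147⟩, ⟨150, 301, 10000⟩, ⟨2569, 2776, 1000⟩⟩ (yA5B.hC1' false) :=
  posD_of_check (c := ⟨267, ⟨3, 5, 9, 7⟩⟩) (by decide +kernel)

def yA5B_tg00 : PosD ⟨⟨0, 1, 1⟩, ⟨98, 99, 147⟩, ⟨150, 301, 10000⟩, ⟨2569, 2776, 1000⟩⟩ (yA5B.hG false (yA5B.pEnd false)) :=
  posD_of_check (c := ⟨370, ⟨2, 7, 14, 9⟩⟩) (by decide +kernel)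

def yA5B_c2p00 : PosD ⟨⟨0, 1, 1⟩, ⟨98, 99, 147⟩, ⟨150, 301, 10000⟩, ⟨2569, 2776, 1000⟩⟩ (yA5B.hC2p false (yA5B.pEnd false)) :=
  posD_of_check (c := ⟨432, ⟨3, 8, 16, 11⟩⟩) (by decide +kernel)

def yA5B_c2m00 : PosD ⟨⟨0, 1, 1⟩, ⟨98, 99, 147⟩, ⟨150, 301, 10000⟩, ⟨2569, 2776, 1000⟩⟩ (yA5B.hC2m false (yA5B.pEnd false)) :=
  posD_of_check (c := ⟨433, ⟨3, 8, 16, 11⟩⟩) (by decide +kernel)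

def yA5B_c3p00 : PosD ⟨⟨0, 1, 1⟩, ⟨98, 99, 147⟩, ⟨150, 301, 10000⟩, ⟨2569, 2776, 1000⟩⟩ (yA5B.hC3p false false) :=
  posD_of_check (c := ⟨432, ⟨3, 8, 15, 11⟩⟩) (by decide +kernel)

def yA5B_c3m00 : PosD ⟨⟨0, 1, 1⟩, ⟨98, 99, 147⟩, ⟨150, 301, 10000⟩, ⟨2569, 2776, 1000⟩⟩ (yA5B.hC3m false false) :=
  posD_of_check (c := ⟨432, ⟨3, 8, 15, 11⟩⟩) (by decide +kernel)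

def yA5B_c3ph00 : PosD ⟨⟨0, 1, 1⟩, ⟨98, 99, 147⟩, ⟨150, 301, 10000⟩, ⟨2569, 2776, 1000⟩⟩ (yA5B.hC3p' false false) :=
  posD_of_check (c := ⟨432, ⟨3, 8, 15, 11⟩⟩) (by decide +kernel)

def yA5B_c3mh00 : PosD ⟨⟨0, 1, 1⟩, ⟨98, 99, 147⟩, ⟨150, 301, 10000⟩, ⟨2569, 2776, 1000⟩⟩ (yA5B.hC3m' false false) :=
  posD_of_check (c := ⟨432, ⟨3, 8, 15, 11⟩⟩) (by decide +kernel)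

def yA5B_up00 : PosD ⟨⟨0, 1, 1⟩, ⟨98, 99, 147⟩, ⟨150, 301, 10000⟩, ⟨2569, 2776, 1000⟩⟩ (yA5B.hUp false false) :=
  posD_of_check (c := ⟨426, ⟨3, 8, 15, 11⟩⟩) (by decide +kernel)

def yA5B_um00 : PosD ⟨⟨0, 1, 1⟩, ⟨98, 99, 147⟩, ⟨150, 301, 10000⟩, ⟨2569, 2776, 1000⟩⟩ (yA5B.hUm false false) :=
  posD_of_check (c := ⟨426, ⟨3, 8, 15, 11⟩⟩) (by decide +kernel)

def yA5B_tmg00 : PosD ⟨⟨0, 1, 1⟩, ⟨98, 99, 147⟩, ⟨150, 301, 10000⟩, ⟨2569, 2776, 1000⟩⟩ (yA5B.hTMG false (yA5B.pEnd false)) :=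
  posD_of_check (c := ⟨385, ⟨2, 7, 14, 10⟩⟩) (by decide +kernel)

def yA5B_tg01 : PosD ⟨⟨0, 1, 1⟩, ⟨98, 99, 147⟩, ⟨150, 301, 10000⟩, ⟨2569, 2776, 1000⟩⟩ (yA5B.hG true (yA5B.pEnd false)) :=
  posD_of_check (c := ⟨370, ⟨2, 7, 14, 9⟩⟩) (by decide +kernel)

def yA5B_c2p01 : PosD ⟨⟨0, 1, 1⟩, ⟨98, 99, 147⟩, ⟨150, 301, 10000⟩, ⟨2569, 2776, 1000⟩⟩ (yA5B.hC2p true (yA5B.pEnd false)) :=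
  posD_of_check (c := ⟨432, ⟨3, 8, 16, 11⟩⟩) (by decide +kernel)

def yA5B_c2m01 : PosD ⟨⟨0, 1, 1⟩, ⟨98, 99, 147⟩, ⟨150, 301, 10000⟩, ⟨2569, 2776, 1000⟩⟩ (yA5B.hC2m true (yA5B.pEnd false)) :=
  posD_of_check (c := ⟨433, ⟨3, 8, 16, 11⟩⟩) (by decide +kernel)

def yA5B_c3p01 : PosD ⟨⟨0, 1, 1⟩, ⟨98, 99, 147⟩, ⟨150, 301, 10000⟩, ⟨2569, 2776, 1000⟩⟩ (yA5B.hC3p false true) :=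
  posD_of_check (c := ⟨432, ⟨3, 8, 15, 11⟩⟩) (by decide +kernel)

def yA5B_c3m01 : PosD ⟨⟨0, 1, 1⟩, ⟨98, 99, 147⟩, ⟨150, 301, 10000⟩, ⟨2569, 2776, 1000⟩⟩ (yA5B.hC3m false true) :=
  posD_of_check (c := ⟨432, ⟨3, 8, 15, 11⟩⟩) (by decide +kernel)

def yA5B_c3ph01 : PosD ⟨⟨0, 1, 1⟩, ⟨98, 99, 147⟩, ⟨150, 301, 10000⟩, ⟨2569, 2776, 1000⟩⟩ (yA5B.hC3p' false true) :=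
  posD_of_check (c := ⟨432, ⟨3, 8, 15, 11⟩⟩) (by decide +kernel)

def yA5B_c3mh01 : PosD ⟨⟨0, 1, 1⟩, ⟨98, 99, 147⟩, ⟨150, 301, 10000⟩, ⟨2569, 2776, 1000⟩⟩ (yA5B.hC3m' false true) :=
  posD_of_check (c := ⟨432, ⟨3, 8, 15, 11⟩⟩) (by decide +kernel)

def yA5B_up01 : PosD ⟨⟨0, 1, 1⟩, ⟨98, 99, 147⟩, ⟨150, 301, 10000⟩, ⟨2569, 2776, 1000⟩⟩ (yA5B.hUp false true) :=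
  posD_of_check (c := ⟨426, ⟨3, 8, 15, 11⟩⟩) (by decide +kernel)

def yA5B_um01 : PosD ⟨⟨0, 1, 1⟩, ⟨98, 99, 147⟩, ⟨150, 301, 10000⟩, ⟨2569, 2776, 1000⟩⟩ (yA5B.hUm false true) :=
  posD_of_check (c := ⟨426, ⟨3, 8, 15, 11⟩⟩) (by decide +kernel)

def yA5B_tmg01 : PosD ⟨⟨0, 1, 1⟩, ⟨98, 99, 147⟩, ⟨150, 301, 10000⟩, ⟨2569, 2776, 1000⟩⟩ (yA5B.hTMG true (yA5B.pEnd false)) :=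
  posD_of_check (c := ⟨385, ⟨2, 7, 14, 10⟩⟩) (by decide +kernel)

def yA5B_kap1 : PosD ⟨⟨0, 1, 1⟩, ⟨98, 99, 147⟩, ⟨150, 301, 10000⟩, ⟨2569, 2776, 1000⟩⟩ (yA5B.kap true) :=
  posD_of_check (c := ⟨71, ⟨1, 1, 2, 2⟩⟩) (by decide +kernel)

def yA5B_c11 : PosD ⟨⟨0, 1, 1⟩, ⟨98, 99, 147⟩, ⟨150, 301, 10000⟩, ⟨2569, 2776, 1000⟩⟩ (yA5B.hC1 true) :=
  posD_of_check (c := ⟨267, ⟨3, 5, 9, 7⟩⟩) (by decide +kernel)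

def yA5B_c1h1 : PosD ⟨⟨0, 1, 1⟩, ⟨98, 99, 147⟩, ⟨150, 301, 10000⟩, ⟨2569, 2776, 1000⟩⟩ (yA5B.hC1' true) :=
  posD_of_check (c := ⟨267, ⟨3, 5, 9, 7⟩⟩) (by decide +kernel)

def yA5B_tg10 : PosD ⟨⟨0, 1, 1⟩, ⟨98, 99, 147⟩, ⟨150, 301, 10000⟩, ⟨2569, 2776, 1000⟩⟩ (yA5B.hG false (yA5B.pEnd true)) :=
  posD_of_check (c := ⟨372, ⟨2, 7, 14, 9⟩⟩) (by decide +kernel)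

def yA5B_c2p10 : PosD ⟨⟨0, 1, 1⟩, ⟨98, 99, 147⟩, ⟨150, 301, 10000⟩, ⟨2569, 2776, 1000⟩⟩ (yA5B.hC2p false (yA5B.pEnd true)) :=
  posD_of_check (c := ⟨434, ⟨3, 8, 16, 11⟩⟩) (by decide +kernel)

def yA5B_c2m10 : PosD ⟨⟨0, 1, 1⟩, ⟨98, 99, 147⟩, ⟨150, 301, 10000⟩, ⟨2569, 2776, 1000⟩⟩ (yA5B.hC2m false (yA5B.pEnd true)) :=
  posD_of_check (c := ⟨435, ⟨3, 8, 16, 11⟩⟩) (by decide +kernel)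

def yA5B_c3p10 : PosD ⟨⟨0, 1, 1⟩, ⟨98, 99, 147⟩, ⟨150, 301, 10000⟩, ⟨2569, 2776, 1000⟩⟩ (yA5B.hC3p true false) :=
  posD_of_check (c := ⟨431, ⟨3, 8, 15, 11⟩⟩) (by decide +kernel)

def yA5B_c3m10 : PosD ⟨⟨0, 1, 1⟩, ⟨98, 99, 147⟩, ⟨150, 301, 10000⟩, ⟨2569, 2776, 1000⟩⟩ (yA5B.hC3m true false) :=
  posD_of_check (c := ⟨431, ⟨3, 8, 15, 11⟩⟩) (by decide +kernel)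

def yA5B_c3ph10 : PosD ⟨⟨0, 1, 1⟩, ⟨98, 99, 147⟩, ⟨150, 301, 10000⟩, ⟨2569, 2776, 1000⟩⟩ (yA5B.hC3p' true false) :=
  posD_of_check (c := ⟨431, ⟨3, 8, 15, 11⟩⟩) (by decide +kernel)

def yA5B_c3mh10 : PosD ⟨⟨0, 1, 1⟩, ⟨98, 99, 147⟩, ⟨150, 301, 10000⟩, ⟨2569, 2776, 1000⟩⟩ (yA5B.hC3m' true false) :=
  posD_of_check (c := ⟨431, ⟨3, 8, 15, 11⟩⟩) (by decide +kernel)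

def yA5B_up10 : PosD ⟨⟨0, 1, 1⟩, ⟨98, 99, 147⟩, ⟨150, 301, 10000⟩, ⟨2569, 2776, 1000⟩⟩ (yA5B.hUp true false) :=
  posD_of_check (c := ⟨426, ⟨3, 8, 15, 11⟩⟩) (by decide +kernel)

def yA5B_um10 : PosD ⟨⟨0, 1, 1⟩, ⟨98, 99, 147⟩, ⟨150, 301, 10000⟩, ⟨2569, 2776, 1000⟩⟩ (yA5B.hUm true false) :=
  posD_of_check (c := ⟨427, ⟨3, 8, 15, 11⟩⟩) (by decide +kernel)

def yA5B_tmg10 : PosD ⟨⟨0, 1, 1⟩, ⟨98, 99, 147⟩, ⟨150, 301, 10000⟩, ⟨2569, 2776, 1000⟩⟩ (yA5B.hTMG false (yA5B.pEnd true)) :=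
  posD_of_check (c := ⟨386, ⟨2, 7, 14, 10⟩⟩) (by decide +kernel)

def yA5B_tg11 : PosD ⟨⟨0, 1, 1⟩, ⟨98, 99, 147⟩, ⟨150, 301, 10000⟩, ⟨2569, 2776, 1000⟩⟩ (yA5B.hG true (yA5B.pEnd true)) :=
  posD_of_check (c := ⟨372, ⟨2, 7, 14, 9⟩⟩) (by decide +kernel)

def yA5B_c2p11 : PosD ⟨⟨0, 1, 1⟩, ⟨98, 99, 147⟩, ⟨150, 301, 10000⟩, ⟨2569, 2776, 1000⟩⟩ (yA5B.hC2p true (yA5B.pEnd true)) :=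
  posD_of_check (c := ⟨434, ⟨3, 8, 16, 11⟩⟩) (by decide +kernel)

def yA5B_c2m11 : PosD ⟨⟨0, 1, 1⟩, ⟨98, 99, 147⟩, ⟨150, 301, 10000⟩, ⟨2569, 2776, 1000⟩⟩ (yA5B.hC2m true (yA5B.pEnd true)) :=
  posD_of_check (c := ⟨435, ⟨3, 8, 16, 11⟩⟩) (by decide +kernel)

def yA5B_c3p11 : PosD ⟨⟨0, 1, 1⟩, ⟨98, 99, 147⟩, ⟨150, 301, 10000⟩, ⟨2569, 2776, 1000⟩⟩ (yA5B.hC3p true true) :=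
  posD_of_check (c := ⟨431, ⟨3, 8, 15, 11⟩⟩) (by decide +kernel)

def yA5B_c3m11 : PosD ⟨⟨0, 1, 1⟩, ⟨98, 99, 147⟩, ⟨150, 301, 10000⟩, ⟨2569, 2776, 1000⟩⟩ (yA5B.hC3m true true) :=
  posD_of_check (c := ⟨431, ⟨3, 8, 15, 11⟩⟩) (by decide +kernel)

def yA5B_c3ph11 : PosD ⟨⟨0, 1, 1⟩, ⟨98, 99, 147⟩, ⟨150, 301, 10000⟩, ⟨2569, 2776, 1000⟩⟩ (yA5B.hC3p' true true) :=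
  posD_of_check (c := ⟨431, ⟨3, 8, 15, 11⟩⟩) (by decide +kernel)

def yA5B_c3mh11 : PosD ⟨⟨0, 1, 1⟩, ⟨98, 99, 147⟩, ⟨150, 301, 10000⟩, ⟨2569, 2776, 1000⟩⟩ (yA5B.hC3m' true true) :=
  posD_of_check (c := ⟨431, ⟨3, 8, 15, 11⟩⟩) (by decide +kernel)

def yA5B_up11 : PosD ⟨⟨0, 1, 1⟩, ⟨98, 99, 147⟩, ⟨150, 301, 10000⟩, ⟨2569, 2776, 1000⟩⟩ (yA5B.hUp true true) :=
  posD_of_check (c := ⟨426, ⟨3, 8, 15, 11⟩⟩) (by decide +kernel)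

def yA5B_um11 : PosD ⟨⟨0, 1, 1⟩, ⟨98, 99, 147⟩, ⟨150, 301, 10000⟩, ⟨2569, 2776, 1000⟩⟩ (yA5B.hUm true true) :=
  posD_of_check (c := ⟨427, ⟨3, 8, 15, 11⟩⟩) (by decide +kernel)

def yA5B_tmg11 : PosD ⟨⟨0, 1, 1⟩, ⟨98, 99, 147⟩, ⟨150, 301, 10000⟩, ⟨2569, 2776, 1000⟩⟩ (yA5B.hTMG true (yA5B.pEnd true)) :=
  posD_of_check (c := ⟨386, ⟨2, 7, 14, 10⟩⟩) (by decide +kernel)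

/-- The signs of the piece. -/
def yA5B_sign : yA5B.Sign ⟨⟨0, 1, 1⟩, ⟨98, 99, 147⟩, ⟨150, 301, 10000⟩, ⟨2569, 2776, 1000⟩⟩ :=
  ⟨yA5B_pp,
    yA5B_k2p,
    yA5B_k2m,
    Bool.forall_bool.2 ⟨(Bool.forall_bool.2 ⟨yA5B_tg00, yA5B_tg01⟩), (Bool.forall_bool.2 ⟨yA5B_tg10, yA5B_tg11⟩)⟩,
    Bool.forall_bool.2 ⟨(Bool.forall_bool.2 ⟨yA5B_c2p00, yA5B_c2p01⟩), (Bool.forall_bool.2 ⟨yA5B_c2p10, yA5B_c2p11⟩)⟩,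
    Bool.forall_bool.2 ⟨(Bool.forall_bool.2 ⟨yA5B_c2m00, yA5B_c2m01⟩), (Bool.forall_bool.2 ⟨yA5B_c2m10, yA5B_c2m11⟩)⟩,
    Bool.forall_bool.2 ⟨yA5B_kap0, yA5B_kap1⟩,
    Bool.forall_bool.2 ⟨yA5B_c10, yA5B_c11⟩,
    Bool.forall_bool.2 ⟨(Bool.forall_bool.2 ⟨yA5B_c3p00, yA5B_c3p01⟩), (Bool.forall_bool.2 ⟨yA5B_c3p10, yA5B_c3p11⟩)⟩,
    Bool.forall_bool.2 ⟨(Bool.forall_bool.2 ⟨yA5B_c3m00, yA5B_c3m01⟩), (Bool.forall_bool.2 ⟨yA5B_c3m10, yA5B_c3m11⟩)⟩,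
    Bool.forall_bool.2 ⟨(Bool.forall_bool.2 ⟨yA5B_tmg00, yA5B_tmg01⟩), (Bool.forall_bool.2 ⟨yA5B_tmg10, yA5B_tmg11⟩)⟩,
    .inr (Bool.forall_bool.2 ⟨⟨yA5B_c1h0, Bool.forall_bool.2 ⟨⟨yA5B_c3ph00, yA5B_c3mh00, yA5B_up00, yA5B_um00⟩, ⟨yA5B_c3ph01, yA5B_c3mh01, yA5B_up01, yA5B_um01⟩⟩⟩, ⟨yA5B_c1h1, Bool.forall_bool.2 ⟨⟨yA5B_c3ph10, yA5B_c3mh10, yA5B_up10, yA5B_um10⟩, ⟨yA5B_c3ph11, yA5B_c3mh11, yA5B_up11, yA5B_um11⟩⟩⟩⟩),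
    yA5B_v2p,
    yA5B_v2m,
    yA5B_v3p,
    yA5B_v3m,
    posD_sub (b := ⟨⟨0, 1, 1⟩, ⟨98, 99, 147⟩, ⟨0, 301, 10000⟩, ⟨1060, 4000, 1000⟩⟩) (by decide +kernel) yA_vG,
    posD_sub (b := ⟨⟨0, 1, 1⟩, ⟨98, 99, 147⟩, ⟨0, 301, 10000⟩, ⟨1060, 4000, 1000⟩⟩) (by decide +kernel) yA_vMG,
    posD_sub (b := ⟨⟨0, 1, 1⟩, ⟨98, 99, 147⟩, ⟨0, 301, 10000⟩, ⟨1060, 4000, 1000⟩⟩) (by decide +kernel) yA_ak,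
    posD_sub (b := ⟨⟨0, 1, 1⟩, ⟨98, 99, 147⟩, ⟨0, 301, 10000⟩, ⟨1060, 4000, 1000⟩⟩) (by decide +kernel) yA_aw,
    posD_sub (b := ⟨⟨0, 1, 1⟩, ⟨98, 99, 147⟩, ⟨0, 301, 10000⟩, ⟨1060, 4000, 1000⟩⟩) (by decide +kernel) yA_gk,
    posD_sub (b := ⟨⟨0, 1, 1⟩, ⟨98, 99, 147⟩, ⟨0, 301, 10000⟩, ⟨1060, 4000, 1000⟩⟩) (by decide +kernel) yA_gw,
    posD_sub (b := ⟨⟨0, 1, 1⟩, ⟨98, 99, 147⟩, ⟨0, 301, 10000⟩, ⟨1060, 4000, 1000⟩⟩) (by decide +kernel) yA_ek,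
    posD_sub (b := ⟨⟨0, 1, 1⟩, ⟨98, 99, 147⟩, ⟨0, 301, 10000⟩, ⟨1060, 4000, 1000⟩⟩) (by decide +kernel) yA_ew⟩

end Vale.Agent.P100.Calib.Closed.Six.Tail
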