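import Vale.Agent.P100.Calib.SlabSixTailDataLayerA
import Vale.Agent.P100.Calib.SlabSixTailGlobLayerA

/-!
# Checks of some pieces of the certificate

The checks are written as definitions so that they run one after another, which keeps the memory of the
kernel low.
-/

set_option linter.defProp false

namespace Vale.Agent.P100.Calib.Closed.Six.Tail

open BoxPos Large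

local instance sixTailChecksyA5Add : Add Ex := ⟨Ex.add⟩
local instance sixTailChecksyA5Sub : Sub Ex := ⟨Ex.sub⟩
local instance sixTailChecksyA5Mul : Mul Ex := ⟨Ex.mul⟩

def yA6_phx : PosD ⟨⟨0, 1, 1⟩, ⟨98, 99, 147⟩, ⟨75, 150, 10000⟩, ⟨2776, 2886, 1000⟩⟩ (phAn (yA6Hi + xO * (yA6Lo - yA6Hi))) :=
  posD_of_check (c := ⟨86, ⟨2, 0, 4, 1⟩⟩) (by decide +kernel)

def yA6_phd : PosD ⟨⟨0, 1, 1⟩, ⟨98, 99, 147⟩, ⟨75, 150, 10000⟩, ⟨2776, 2886, 1000⟩⟩ (phAd (yA6Hi + xO * (yA6Lo - yA6Hi))) :=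
  posD_of_check (c := ⟨47, ⟨1, 0, 2, 0⟩⟩) (by decide +kernel)

def yA7_p0 : PosD ⟨⟨0, 1, 1⟩, ⟨98, 99, 147⟩, ⟨75, 150, 10000⟩, ⟨2776, 2886, 1000⟩⟩ (yA7.hP0) :=
  posD_of_check (c := ⟨82, ⟨0, 2, 3, 1⟩⟩) (by decide +kernel)

def yA7_gn : PosD ⟨⟨0, 1, 1⟩, ⟨98, 99, 147⟩, ⟨75, 150, 10000⟩, ⟨2776, 2886, 1000⟩⟩ (yA7.hGn) :=
  posD_of_check (c := ⟨58, ⟨1, 1, 2, 1⟩⟩) (by decide +kernel)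

def yA7_den0 : PosD ⟨⟨0, 1, 1⟩, ⟨98, 99, 147⟩, ⟨75, 150, 10000⟩, ⟨2776, 2886, 1000⟩⟩ (yA7.hDen false) :=
  posD_of_check (c := ⟨45, ⟨0, 0, 2, 0⟩⟩) (by decide +kernel)

def yA7_den1 : PosD ⟨⟨0, 1, 1⟩, ⟨98, 99, 147⟩, ⟨75, 150, 10000⟩, ⟨2776, 2886, 1000⟩⟩ (yA7.hDen true) :=
  posD_of_check (c := ⟨23, ⟨1, 0, 1, 0⟩⟩) (by decide +kernel)

def yA7_ev0 : PosD ⟨⟨0, 1, 1⟩, ⟨98, 99, 147⟩, ⟨75, 150, 10000⟩, ⟨2776, 2886, 1000⟩⟩ (yA7.hEv false) :=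
  posD_of_check (c := ⟨150, ⟨2, 2, 6, 1⟩⟩) (by decide +kernel)

def yA7_zL0 : PosD ⟨⟨0, 1, 1⟩, ⟨98, 99, 147⟩, ⟨75, 150, 10000⟩, ⟨2776, 2886, 1000⟩⟩ (yA7.hZL false) :=
  posD_of_check (c := ⟨161, ⟨2, 3, 6, 3⟩⟩) (by decide +kernel)

def yA7_zU0 : PosD ⟨⟨0, 1, 1⟩, ⟨98, 99, 147⟩, ⟨75, 150, 10000⟩, ⟨2776, 2886, 1000⟩⟩ (yA7.hZU false) :=
  posD_of_check (c := ⟨161, ⟨2, 3, 6, 3⟩⟩) (by decide +kernel)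

def yA7_eL0 : PosD ⟨⟨0, 1, 1⟩, ⟨98, 99, 147⟩, ⟨75, 150, 10000⟩, ⟨2776, 2886, 1000⟩⟩ (yA7.hEL false) :=
  posD_of_check (c := ⟨242, ⟨3, 6, 9, 3⟩⟩) (by decide +kernel)

def yA7_eH0 : PosD ⟨⟨0, 1, 1⟩, ⟨98, 99, 147⟩, ⟨75, 150, 10000⟩, ⟨2776, 2886, 1000⟩⟩ (yA7.hEH false) :=
  posD_of_check (c := ⟨242, ⟨3, 6, 9, 3⟩⟩) (by decide +kernel)

def yA7_pL0 : PosD ⟨⟨0, 1, 1⟩, ⟨98, 99, 147⟩, ⟨75, 150, 10000⟩, ⟨2776, 2886, 1000⟩⟩ (yA7.hPL false) :=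
  posD_of_check (c := ⟨261, ⟨3, 6, 9, 3⟩⟩) (by decide +kernel)

def yA7_pU0 : PosD ⟨⟨0, 1, 1⟩, ⟨98, 99, 147⟩, ⟨75, 150, 10000⟩, ⟨2776, 2886, 1000⟩⟩ (yA7.hPU false) :=
  posD_of_check (c := ⟨261, ⟨3, 6, 9, 3⟩⟩) (by decide +kernel)

def yA7_kU0 : PosD ⟨⟨0, 1, 1⟩, ⟨98, 99, 147⟩, ⟨75, 150, 10000⟩, ⟨2776, 2886, 1000⟩⟩ (yA7.hKU false) :=
  posD_of_check (c := ⟨256, ⟨3, 6, 9, 3⟩⟩) (by decide +kernel)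

def yA7_kL0 : PosD ⟨⟨0, 1, 1⟩, ⟨98, 99, 147⟩, ⟨75, 150, 10000⟩, ⟨2776, 2886, 1000⟩⟩ (yA7.hKL false) :=
  posD_of_check (c := ⟨255, ⟨3, 6, 9, 3⟩⟩) (by decide +kernel)

def yA7_wU0 : PosD ⟨⟨0, 1, 1⟩, ⟨98, 99, 147⟩, ⟨75, 150, 10000⟩, ⟨2776, 2886, 1000⟩⟩ (yA7.hWU false) :=
  posD_of_check (c := ⟨292, ⟨3, 8, 10, 3⟩⟩) (by decide +kernel)

def yA7_wL0 : PosD ⟨⟨0, 1, 1⟩, ⟨98, 99, 147⟩, ⟨75, 150, 10000⟩, ⟨2776, 2886, 1000⟩⟩ (yA7.hWL false) :=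
  posD_of_check (c := ⟨292, ⟨3, 8, 10, 3⟩⟩) (by decide +kernel)

def yA7_ev1 : PosD ⟨⟨0, 1, 1⟩, ⟨98, 99, 147⟩, ⟨75, 150, 10000⟩, ⟨2776, 2886, 1000⟩⟩ (yA7.hEv true) :=
  posD_of_check (c := ⟨122, ⟨2, 2, 6, 1⟩⟩) (by decide +kernel)

def yA7_zL1 : PosD ⟨⟨0, 1, 1⟩, ⟨98, 99, 147⟩, ⟨75, 150, 10000⟩, ⟨2776, 2886, 1000⟩⟩ (yA7.hZL true) :=
  posD_of_check (c := ⟨135, ⟨2, 3, 6, 3⟩⟩) (by decide +kernel)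

def yA7_zU1 : PosD ⟨⟨0, 1, 1⟩, ⟨98, 99, 147⟩, ⟨75, 150, 10000⟩, ⟨2776, 2886, 1000⟩⟩ (yA7.hZU true) :=
  posD_of_check (c := ⟨135, ⟨2, 3, 6, 3⟩⟩) (by decide +kernel)

def yA7_eL1 : PosD ⟨⟨0, 1, 1⟩, ⟨98, 99, 147⟩, ⟨75, 150, 10000⟩, ⟨2776, 2886, 1000⟩⟩ (yA7.hEL true) :=
  posD_of_check (c := ⟨214, ⟨3, 6, 9, 3⟩⟩) (by decide +kernel)

def yA7_eH1 : PosD ⟨⟨0, 1, 1⟩, ⟨98, 99, 147⟩, ⟨75, 150, 10000⟩, ⟨2776, 2886, 1000⟩⟩ (yA7.hEH true) :=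
  posD_of_check (c := ⟨214, ⟨3, 6, 9, 3⟩⟩) (by decide +kernel)

def yA7_pL1 : PosD ⟨⟨0, 1, 1⟩, ⟨98, 99, 147⟩, ⟨75, 150, 10000⟩, ⟨2776, 2886, 1000⟩⟩ (yA7.hPL true) :=
  posD_of_check (c := ⟨233, ⟨3, 6, 9, 3⟩⟩) (by decide +kernel)

def yA7_pU1 : PosD ⟨⟨0, 1, 1⟩, ⟨98, 99, 147⟩, ⟨75, 150, 10000⟩, ⟨2776, 2886, 1000⟩⟩ (yA7.hPU true) :=
  posD_of_check (c := ⟨232, ⟨3, 6, 9, 3⟩⟩) (by decide +kernel)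

def yA7_kU1 : PosD ⟨⟨0, 1, 1⟩, ⟨98, 99, 147⟩, ⟨75, 150, 10000⟩, ⟨2776, 2886, 1000⟩⟩ (yA7.hKU true) :=
  posD_of_check (c := ⟨227, ⟨3, 6, 9, 3⟩⟩) (by decide +kernel)

def yA7_kL1 : PosD ⟨⟨0, 1, 1⟩, ⟨98, 99, 147⟩, ⟨75, 150, 10000⟩, ⟨2776, 2886, 1000⟩⟩ (yA7.hKL true) :=
  posD_of_check (c := ⟨227, ⟨3, 6, 9, 3⟩⟩) (by decide +kernel)

def yA7_wU1 : PosD ⟨⟨0, 1, 1⟩, ⟨98, 99, 147⟩, ⟨75, 150, 10000⟩, ⟨2776, 2886, 1000⟩⟩ (yA7.hWU true) :=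
  posD_of_check (c := ⟨262, ⟨3, 8, 10, 3⟩⟩) (by decide +kernel)

def yA7_wL1 : PosD ⟨⟨0, 1, 1⟩, ⟨98, 99, 147⟩, ⟨75, 150, 10000⟩, ⟨2776, 2886, 1000⟩⟩ (yA7.hWL true) :=
  posD_of_check (c := ⟨263, ⟨3, 8, 10, 3⟩⟩) (by decide +kernel)

/-- The bounds of the piece. -/
def yA7_env : yA7.Env ⟨⟨0, 1, 1⟩, ⟨98, 99, 147⟩, ⟨75, 150, 10000⟩, ⟨2776, 2886, 1000⟩⟩ :=
  ⟨yA7_p0, Bool.forall_bool.2 ⟨yA7_den0, yA7_den1⟩, yA7_gn, Bool.forall_bool.2 ⟨yA7_ev0, yA7_ev1⟩, Bool.forall_bool.2 ⟨yA7_zL0, yA7_zL1⟩, Bool.forall_bool.2 ⟨yA7_zU0, yA7_zU1⟩, Bool.forall_bool.2 ⟨yA7_eL0, yA7_eL1⟩, ⟨.inr rfl, .inr rfl⟩, Bool.forall_bool.2 ⟨yA7_eH0, yA7_eH1⟩, ⟨.inr rfl, .inr rfl⟩, Bool.forall_bool.2 ⟨yA7_pL0, yA7_pL1⟩, ⟨.inr rfl, .inr rfl⟩, Bool.forall_bool.2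 ⟨yA7_pU0, yA7_pU1⟩, ⟨.inr rfl, .inr rfl⟩, Bool.forall_bool.2 ⟨yA7_kU0, yA7_kU1⟩, ⟨.inr rfl, .inr rfl⟩, Bool.forall_bool.2 ⟨yA7_kL0, yA7_kL1⟩, ⟨.inr rfl, .inr rfl⟩, Bool.forall_bool.2 ⟨yA7_wU0, yA7_wU1⟩, ⟨.inr rfl, .inr rfl⟩, Bool.forall_bool.2 ⟨yA7_wL0, yA7_wL1⟩, ⟨.inr rfl, .inr rfl⟩⟩

def yA7_pU20 : PosD ⟨⟨0, 1, 1⟩, ⟨98, 99, 147⟩, ⟨75, 150, 10000⟩, ⟨2776, 2886, 1000⟩⟩ (({ yA7 with pU := yA7PU } : Piece).hPU false) :=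
  posD_of_check (c := ⟨261, ⟨3, 6, 9, 3⟩⟩) (by decide +kernel)

def yA7_pU21 : PosD ⟨⟨0, 1, 1⟩, ⟨98, 99, 147⟩, ⟨75, 150, 10000⟩, ⟨2776, 2886, 1000⟩⟩ (({ yA7 with pU := yA7PU } : Piece).hPU true) :=
  posD_of_check (c := ⟨233, ⟨3, 6, 9, 3⟩⟩) (by decide +kernel)

/-- The bounds with the other bound of `p`. -/
def yA7_envU : ({ yA7 with pU := yA7PU } : Piece).Env ⟨⟨0, 1, 1⟩, ⟨98, 99, 147⟩, ⟨75, 150, 10000⟩, ⟨2776, 2886, 1000⟩⟩ :=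
  yA7_env.withU yA7PU (Bool.forall_bool.2 ⟨yA7_pU20, yA7_pU21⟩) ⟨.inr rfl, .inr rfl⟩

def yA7A_pp : PosD ⟨⟨0, 1, 1⟩, ⟨98, 99, 147⟩, ⟨75, 150, 10000⟩, ⟨2776, 2886, 1000⟩⟩ (yA7A.xPL) :=
  posD_of_check (c := ⟨90, ⟨1, 1, 3, 3⟩⟩) (by decide +kernel)

def yA7A_k2p : PosD ⟨⟨0, 1, 1⟩, ⟨98, 99, 147⟩, ⟨75, 150, 10000⟩, ⟨2776, 2886, 1000⟩⟩ (yA7A.k2p yA7A.xE) :=
  posD_of_check (c := ⟨20, ⟨0, 0, 1, 0⟩⟩) (by decide +kernel)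

def yA7A_k2m : PosD ⟨⟨0, 1, 1⟩, ⟨98, 99, 147⟩, ⟨75, 150, 10000⟩, ⟨2776, 2886, 1000⟩⟩ (yA7A.k2m yA7A.xE) :=
  posD_of_check (c := ⟨20, ⟨0, 0, 1, 0⟩⟩) (by decide +kernel)

def yA7A_v2p : PosD ⟨⟨0, 1, 1⟩, ⟨98, 99, 147⟩, ⟨75, 150, 10000⟩, ⟨2776, 2886, 1000⟩⟩ (yA7A.hV2p) :=
  posD_of_check (c := ⟨224, ⟨0, 5, 10, 4⟩⟩) (by decide +kernel)

def yA7A_v2m : PosD ⟨⟨0, 1, 1⟩, ⟨98, 99, 147⟩, ⟨75, 150, 10000⟩, ⟨2776, 2886, 1000⟩⟩ (yA7A.hV2m) :=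
  posD_of_check (c := ⟨224, ⟨0, 5, 10, 4⟩⟩) (by decide +kernel)

def yA7A_v3p : PosD ⟨⟨0, 1, 1⟩, ⟨98, 99, 147⟩, ⟨75, 150, 10000⟩, ⟨2776, 2886, 1000⟩⟩ (yA7A.hV3p) :=
  posD_of_check (c := ⟨220, ⟨0, 5, 9, 4⟩⟩) (by decide +kernel)

def yA7A_v3m : PosD ⟨⟨0, 1, 1⟩, ⟨98, 99, 147⟩, ⟨75, 150, 10000⟩, ⟨2776, 2886, 1000⟩⟩ (yA7A.hV3m) :=
  posD_of_check (c := ⟨220, ⟨0, 5, 9, 4⟩⟩) (by decide +kernel)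

def yA7A_kap0 : PosD ⟨⟨0, 1, 1⟩, ⟨98, 99, 147⟩, ⟨75, 150, 10000⟩, ⟨2776, 2886, 1000⟩⟩ (yA7A.kap false) :=
  posD_of_check (c := ⟨67, ⟨1, 1, 2, 2⟩⟩) (by decide +kernel)

def yA7A_c10 : PosD ⟨⟨0, 1, 1⟩, ⟨98, 99, 147⟩, ⟨75, 150, 10000⟩, ⟨2776, 2886, 1000⟩⟩ (yA7A.hC1 false) :=
  posD_of_check (c := ⟨261, ⟨3, 5, 9, 7⟩⟩) (by decide +kernel)

def yA7A_neg0 : PosD ⟨⟨0, 1, 1⟩, ⟨98, 99, 147⟩, ⟨75, 150, 10000⟩, ⟨2776, 2886, 1000⟩⟩ (yA7A.hNeg (yA7A.pEnd false)) :=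
  posD_of_check (c := ⟨257, ⟨2, 5, 9, 7⟩⟩) (by decide +kernel)

def yA7A_neglo0 : PosD ⟨⟨0, 1, 1⟩, ⟨98, 99, 147⟩, ⟨75, 150, 10000⟩, ⟨2776, 2886, 1000⟩⟩ (yA7A.hNegLo (yA7A.pEnd false)) :=
  posD_of_check (c := ⟨257, ⟨2, 5, 9, 7⟩⟩) (by decide +kernel)

def yA7A_tg00 : PosD ⟨⟨0, 1, 1⟩, ⟨98, 99, 147⟩, ⟨75, 150, 10000⟩, ⟨2776, 2886, 1000⟩⟩ (yA7A.hG false (yA7A.pEnd false)) :=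
  posD_of_check (c := ⟨369, ⟨2, 7, 14, 9⟩⟩) (by decide +kernel)

def yA7A_c2p00 : PosD ⟨⟨0, 1, 1⟩, ⟨98, 99, 147⟩, ⟨75, 150, 10000⟩, ⟨2776, 2886, 1000⟩⟩ (yA7A.hC2p false (yA7A.pEnd false)) :=
  posD_of_check (c := ⟨401, ⟨2, 7, 16, 10⟩⟩) (by decide +kernel)

def yA7A_c2m00 : PosD ⟨⟨0, 1, 1⟩, ⟨98, 99, 147⟩, ⟨75, 150, 10000⟩, ⟨2776, 2886, 1000⟩⟩ (yA7A.hC2m false (yA7A.pEnd false)) :=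
  posD_of_check (c := ⟨401, ⟨2, 7, 16, 10⟩⟩) (by decide +kernel)

def yA7A_c3p00 : PosD ⟨⟨0, 1, 1⟩, ⟨98, 99, 147⟩, ⟨75, 150, 10000⟩, ⟨2776, 2886, 1000⟩⟩ (yA7A.hC3p false false) :=
  posD_of_check (c := ⟨401, ⟨3, 7, 15, 10⟩⟩) (by decide +kernel)

def yA7A_c3m00 : PosD ⟨⟨0, 1, 1⟩, ⟨98, 99, 147⟩, ⟨75, 150, 10000⟩, ⟨2776, 2886, 1000⟩⟩ (yA7A.hC3m false false) :=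
  posD_of_check (c := ⟨401, ⟨3, 7, 15, 10⟩⟩) (by decide +kernel)

def yA7A_tmg00 : PosD ⟨⟨0, 1, 1⟩, ⟨98, 99, 147⟩, ⟨75, 150, 10000⟩, ⟨2776, 2886, 1000⟩⟩ (yA7A.hTMG false (yA7A.pEnd false)) :=
  posD_of_check (c := ⟨385, ⟨2, 7, 14, 10⟩⟩) (by decide +kernel)

def yA7A_tg01 : PosD ⟨⟨0, 1, 1⟩, ⟨98, 99, 147⟩, ⟨75, 150, 10000⟩, ⟨2776, 2886, 1000⟩⟩ (yA7A.hG true (yA7A.pEnd false)) :=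
  posD_of_check (c := ⟨369, ⟨2, 7, 14, 9⟩⟩) (by decide +kernel)

def yA7A_c2p01 : PosD ⟨⟨0, 1, 1⟩, ⟨98, 99, 147⟩, ⟨75, 150, 10000⟩, ⟨2776, 2886, 1000⟩⟩ (yA7A.hC2p true (yA7A.pEnd false)) :=
  posD_of_check (c := ⟨401, ⟨2, 7, 16, 10⟩⟩) (by decide +kernel)

def yA7A_c2m01 : PosD ⟨⟨0, 1, 1⟩, ⟨98, 99, 147⟩, ⟨75, 150, 10000⟩, ⟨2776, 2886, 1000⟩⟩ (yA7A.hC2m true (yA7A.pEnd false)) :=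
  posD_of_check (c := ⟨401, ⟨2, 7, 16, 10⟩⟩) (by decide +kernel)

def yA7A_c3p01 : PosD ⟨⟨0, 1, 1⟩, ⟨98, 99, 147⟩, ⟨75, 150, 10000⟩, ⟨2776, 2886, 1000⟩⟩ (yA7A.hC3p false true) :=
  posD_of_check (c := ⟨401, ⟨3, 7, 15, 10⟩⟩) (by decide +kernel)

def yA7A_c3m01 : PosD ⟨⟨0, 1, 1⟩, ⟨98, 99, 147⟩, ⟨75, 150, 10000⟩, ⟨2776, 2886, 1000⟩⟩ (yA7A.hC3m false true) :=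
  posD_of_check (c := ⟨401, ⟨3, 7, 15, 10⟩⟩) (by decide +kernel)

def yA7A_tmg01 : PosD ⟨⟨0, 1, 1⟩, ⟨98, 99, 147⟩, ⟨75, 150, 10000⟩, ⟨2776, 2886, 1000⟩⟩ (yA7A.hTMG true (yA7A.pEnd false)) :=
  posD_of_check (c := ⟨385, ⟨2, 7, 14, 10⟩⟩) (by decide +kernel)

def yA7A_kap1 : PosD ⟨⟨0, 1, 1⟩, ⟨98, 99, 147⟩, ⟨75, 150, 10000⟩, ⟨2776, 2886, 1000⟩⟩ (yA7A.kap true) :=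
  posD_of_check (c := ⟨70, ⟨1, 1, 2, 2⟩⟩) (by decide +kernel)

def yA7A_c11 : PosD ⟨⟨0, 1, 1⟩, ⟨98, 99, 147⟩, ⟨75, 150, 10000⟩, ⟨2776, 2886, 1000⟩⟩ (yA7A.hC1 true) :=
  posD_of_check (c := ⟨263, ⟨3, 5, 9, 7⟩⟩) (by decide +kernel)

def yA7A_neg1 : PosD ⟨⟨0, 1, 1⟩, ⟨98, 99, 147⟩, ⟨75, 150, 10000⟩, ⟨2776, 2886, 1000⟩⟩ (yA7A.hNeg (yA7A.pEnd true)) :=
  posD_of_check (c := ⟨257, ⟨2, 5, 9, 7⟩⟩) (by decide +kernel)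

def yA7A_neglo1 : PosD ⟨⟨0, 1, 1⟩, ⟨98, 99, 147⟩, ⟨75, 150, 10000⟩, ⟨2776, 2886, 1000⟩⟩ (yA7A.hNegLo (yA7A.pEnd true)) :=
  posD_of_check (c := ⟨257, ⟨2, 5, 9, 7⟩⟩) (by decide +kernel)

def yA7A_tg10 : PosD ⟨⟨0, 1, 1⟩, ⟨98, 99, 147⟩, ⟨75, 150, 10000⟩, ⟨2776, 2886, 1000⟩⟩ (yA7A.hG false (yA7A.pEnd true)) :=
  posD_of_check (c := ⟨369, ⟨2, 7, 14, 9⟩⟩) (by decide +kernel)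

def yA7A_c2p10 : PosD ⟨⟨0, 1, 1⟩, ⟨98, 99, 147⟩, ⟨75, 150, 10000⟩, ⟨2776, 2886, 1000⟩⟩ (yA7A.hC2p false (yA7A.pEnd true)) :=
  posD_of_check (c := ⟨401, ⟨2, 7, 16, 10⟩⟩) (by decide +kernel)

def yA7A_c2m10 : PosD ⟨⟨0, 1, 1⟩, ⟨98, 99, 147⟩, ⟨75, 150, 10000⟩, ⟨2776, 2886, 1000⟩⟩ (yA7A.hC2m false (yA7A.pEnd true)) :=
  posD_of_check (c := ⟨401, ⟨2, 7, 16, 10⟩⟩) (by decide +kernel)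

def yA7A_c3p10 : PosD ⟨⟨0, 1, 1⟩, ⟨98, 99, 147⟩, ⟨75, 150, 10000⟩, ⟨2776, 2886, 1000⟩⟩ (yA7A.hC3p true false) :=
  posD_of_check (c := ⟨403, ⟨3, 7, 15, 10⟩⟩) (by decide +kernel)

def yA7A_c3m10 : PosD ⟨⟨0, 1, 1⟩, ⟨98, 99, 147⟩, ⟨75, 150, 10000⟩, ⟨2776, 2886, 1000⟩⟩ (yA7A.hC3m true false) :=
  posD_of_check (c := ⟨403, ⟨3, 7, 15, 10⟩⟩) (by decide +kernel)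

def yA7A_tmg10 : PosD ⟨⟨0, 1, 1⟩, ⟨98, 99, 147⟩, ⟨75, 150, 10000⟩, ⟨2776, 2886, 1000⟩⟩ (yA7A.hTMG false (yA7A.pEnd true)) :=
  posD_of_check (c := ⟨384, ⟨2, 7, 14, 10⟩⟩) (by decide +kernel)

def yA7A_tg11 : PosD ⟨⟨0, 1, 1⟩, ⟨98, 99, 147⟩, ⟨75, 150, 10000⟩, ⟨2776, 2886, 1000⟩⟩ (yA7A.hG true (yA7A.pEnd true)) :=
  posD_of_check (c := ⟨369, ⟨2, 7, 14, 9⟩⟩) (by decide +kernel)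

def yA7A_c2p11 : PosD ⟨⟨0, 1, 1⟩, ⟨98, 99, 147⟩, ⟨75, 150, 10000⟩, ⟨2776, 2886, 1000⟩⟩ (yA7A.hC2p true (yA7A.pEnd true)) :=
  posD_of_check (c := ⟨401, ⟨2, 7, 16, 10⟩⟩) (by decide +kernel)

def yA7A_c2m11 : PosD ⟨⟨0, 1, 1⟩, ⟨98, 99, 147⟩, ⟨75, 150, 10000⟩, ⟨2776, 2886, 1000⟩⟩ (yA7A.hC2m true (yA7A.pEnd true)) :=
  posD_of_check (c := ⟨401, ⟨2, 7, 16, 10⟩⟩) (by decide +kernel)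

def yA7A_c3p11 : PosD ⟨⟨0, 1, 1⟩, ⟨98, 99, 147⟩, ⟨75, 150, 10000⟩, ⟨2776, 2886, 1000⟩⟩ (yA7A.hC3p true true) :=
  posD_of_check (c := ⟨403, ⟨3, 7, 15, 10⟩⟩) (by decide +kernel)

def yA7A_c3m11 : PosD ⟨⟨0, 1, 1⟩, ⟨98, 99, 147⟩, ⟨75, 150, 10000⟩, ⟨2776, 2886, 1000⟩⟩ (yA7A.hC3m true true) :=
  posD_of_check (c := ⟨403, ⟨3, 7, 15, 10⟩⟩) (by decide +kernel)

def yA7A_tmg11 : PosD ⟨⟨0, 1, 1⟩, ⟨98, 99, 147⟩, ⟨75, 150, 10000⟩, ⟨2776, 2886, 1000⟩⟩ (yA7A.hTMG true (yA7A.pEnd true)) :=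
  posD_of_check (c := ⟨384, ⟨2, 7, 14, 10⟩⟩) (by decide +kernel)

/-- The signs of the piece. -/
def yA7A_sign : yA7A.Sign ⟨⟨0, 1, 1⟩, ⟨98, 99, 147⟩, ⟨75, 150, 10000⟩, ⟨2776, 2886, 1000⟩⟩ :=
  ⟨yA7A_pp,
    yA7A_k2p,
    yA7A_k2m,
    Bool.forall_bool.2 ⟨(Bool.forall_bool.2 ⟨yA7A_tg00, yA7A_tg01⟩), (Bool.forall_bool.2 ⟨yA7A_tg10, yA7A_tg11⟩)⟩,
    Bool.forall_bool.2 ⟨(Bool.forall_bool.2 ⟨yA7A_c2p00, yA7A_c2p01⟩), (Bool.forall_bool.2 ⟨yA7A_c2p10, yA7A_c2p11⟩)⟩,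
    Bool.forall_bool.2 ⟨(Bool.forall_bool.2 ⟨yA7A_c2m00, yA7A_c2m01⟩), (Bool.forall_bool.2 ⟨yA7A_c2m10, yA7A_c2m11⟩)⟩,
    Bool.forall_bool.2 ⟨yA7A_kap0, yA7A_kap1⟩,
    Bool.forall_bool.2 ⟨yA7A_c10, yA7A_c11⟩,
    Bool.forall_bool.2 ⟨(Bool.forall_bool.2 ⟨yA7A_c3p00, yA7A_c3p01⟩), (Bool.forall_bool.2 ⟨yA7A_c3p10, yA7A_c3p11⟩)⟩,
    Bool.forall_bool.2 ⟨(Bool.forall_bool.2 ⟨yA7A_c3m00, yA7A_c3m01⟩), (Bool.forall_bool.2 ⟨yA7A_c3m10, yA7A_c3m11⟩)⟩,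
    Bool.forall_bool.2 ⟨(Bool.forall_bool.2 ⟨yA7A_tmg00, yA7A_tmg01⟩), (Bool.forall_bool.2 ⟨yA7A_tmg10, yA7A_tmg11⟩)⟩,
    .inl (Bool.forall_bool.2 ⟨⟨yA7A_neg0, yA7A_neglo0⟩, ⟨yA7A_neg1, yA7A_neglo1⟩⟩),
    yA7A_v2p,
    yA7A_v2m,
    yA7A_v3p,
    yA7A_v3m,
    posD_sub (b := ⟨⟨0, 1, 1⟩, ⟨98, 99, 147⟩, ⟨0, 301, 10000⟩, ⟨1060, 4000, 1000⟩⟩) (by decide +kernel) yA_vG,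
    posD_sub (b := ⟨⟨0, 1, 1⟩, ⟨98, 99, 147⟩, ⟨0, 301, 10000⟩, ⟨1060, 4000, 1000⟩⟩) (by decide +kernel) yA_vMG,
    posD_sub (b := ⟨⟨0, 1, 1⟩, ⟨98, 99, 147⟩, ⟨0, 301, 10000⟩, ⟨1060, 4000, 1000⟩⟩) (by decide +kernel) yA_ak,
    posD_sub (b := ⟨⟨0, 1, 1⟩, ⟨98, 99, 147⟩, ⟨0, 301, 10000⟩, ⟨1060, 4000, 1000⟩⟩) (by decide +kernel) yA_aw,
    posD_sub (b := ⟨⟨0, 1, 1⟩, ⟨98, 99, 147⟩, ⟨0, 301, 10000⟩, ⟨1060, 4000, 1000⟩⟩) (by decide +kernel) yA_gk,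
    posD_sub (b := ⟨⟨0, 1, 1⟩, ⟨98, 99, 147⟩, ⟨0, 301, 10000⟩, ⟨1060, 4000, 1000⟩⟩) (by decide +kernel) yA_gw,
    posD_sub (b := ⟨⟨0, 1, 1⟩, ⟨98, 99, 147⟩, ⟨0, 301, 10000⟩, ⟨1060, 4000, 1000⟩⟩) (by decide +kernel) yA_ek,
    posD_sub (b := ⟨⟨0, 1, 1⟩, ⟨98, 99, 147⟩, ⟨0, 301, 10000⟩, ⟨1060, 4000, 1000⟩⟩) (by decide +kernel) yA_ew⟩

def yA7B_pp : PosD ⟨⟨0, 1, 1⟩, ⟨98, 99, 147⟩, ⟨75, 150, 10000⟩, ⟨2776, 2886, 1000⟩⟩ (yA7B.xPL) :=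
  posD_of_check (c := ⟨91, ⟨1, 1, 3, 3⟩⟩) (by decide +kernel)

def yA7B_k2p : PosD ⟨⟨0, 1, 1⟩, ⟨98, 99, 147⟩, ⟨75, 150, 10000⟩, ⟨2776, 2886, 1000⟩⟩ (yA7B.k2p yA7B.xE) :=
  posD_of_check (c := ⟨60, ⟨1, 1, 2, 2⟩⟩) (by decide +kernel)

def yA7B_k2m : PosD ⟨⟨0, 1, 1⟩, ⟨98, 99, 147⟩, ⟨75, 150, 10000⟩, ⟨2776, 2886, 1000⟩⟩ (yA7B.k2m yA7B.xE) :=
  posD_of_check (c := ⟨60, ⟨1, 1, 2, 2⟩⟩) (by decide +kernel)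

def yA7B_v2p : PosD ⟨⟨0, 1, 1⟩, ⟨98, 99, 147⟩, ⟨75, 150, 10000⟩, ⟨2776, 2886, 1000⟩⟩ (yA7B.hV2p) :=
  posD_of_check (c := ⟨253, ⟨1, 6, 10, 5⟩⟩) (by decide +kernel)

def yA7B_v2m : PosD ⟨⟨0, 1, 1⟩, ⟨98, 99, 147⟩, ⟨75, 150, 10000⟩, ⟨2776, 2886, 1000⟩⟩ (yA7B.hV2m) :=
  posD_of_check (c := ⟨253, ⟨1, 6, 10, 5⟩⟩) (by decide +kernel)

def yA7B_v3p : PosD ⟨⟨0, 1, 1⟩, ⟨98, 99, 147⟩, ⟨75, 150, 10000⟩, ⟨2776, 2886, 1000⟩⟩ (yA7B.hV3p) :=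
  posD_of_check (c := ⟨246, ⟨1, 6, 9, 5⟩⟩) (by decide +kernel)

def yA7B_v3m : PosD ⟨⟨0, 1, 1⟩, ⟨98, 99, 147⟩, ⟨75, 150, 10000⟩, ⟨2776, 2886, 1000⟩⟩ (yA7B.hV3m) :=
  posD_of_check (c := ⟨246, ⟨1, 6, 9, 5⟩⟩) (by decide +kernel)

def yA7B_kap0 : PosD ⟨⟨0, 1, 1⟩, ⟨98, 99, 147⟩, ⟨75, 150, 10000⟩, ⟨2776, 2886, 1000⟩⟩ (yA7B.kap false) :=
  posD_of_check (c := ⟨70, ⟨1, 1, 2, 2⟩⟩) (by decide +kernel)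

def yA7B_c10 : PosD ⟨⟨0, 1, 1⟩, ⟨98, 99, 147⟩, ⟨75, 150, 10000⟩, ⟨2776, 2886, 1000⟩⟩ (yA7B.hC1 false) :=
  posD_of_check (c := ⟨265, ⟨3, 5, 9, 7⟩⟩) (by decide +kernel)

def yA7B_c1h0 : PosD ⟨⟨0, 1, 1⟩, ⟨98, 99, 147⟩, ⟨75, 150, 10000⟩, ⟨2776, 2886, 1000⟩⟩ (yA7B.hC1' false) :=
  posD_of_check (c := ⟨265, ⟨3, 5, 9, 7⟩⟩) (by decide +kernel)

def yA7B_tg00 : PosD ⟨⟨0, 1, 1⟩, ⟨98, 99, 147⟩, ⟨75, 150, 10000⟩, ⟨2776, 2886, 1000⟩⟩ (yA7B.hG false (yA7B.pEnd false)) :=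
  posD_of_check (c := ⟨370, ⟨2, 7, 14, 9⟩⟩) (by decide +kernel)

def yA7B_c2p00 : PosD ⟨⟨0, 1, 1⟩, ⟨98, 99, 147⟩, ⟨75, 150, 10000⟩, ⟨2776, 2886, 1000⟩⟩ (yA7B.hC2p false (yA7B.pEnd false)) :=
  posD_of_check (c := ⟨430, ⟨3, 8, 16, 11⟩⟩) (by decide +kernel)

def yA7B_c2m00 : PosD ⟨⟨0, 1, 1⟩, ⟨98, 99, 147⟩, ⟨75, 150, 10000⟩, ⟨2776, 2886, 1000⟩⟩ (yA7B.hC2m false (yA7B.pEnd false)) :=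
  posD_of_check (c := ⟨430, ⟨3, 8, 16, 11⟩⟩) (by decide +kernel)

def yA7B_c3p00 : PosD ⟨⟨0, 1, 1⟩, ⟨98, 99, 147⟩, ⟨75, 150, 10000⟩, ⟨2776, 2886, 1000⟩⟩ (yA7B.hC3p false false) :=
  posD_of_check (c := ⟨429, ⟨3, 8, 15, 11⟩⟩) (by decide +kernel)

def yA7B_c3m00 : PosD ⟨⟨0, 1, 1⟩, ⟨98, 99, 147⟩, ⟨75, 150, 10000⟩, ⟨2776, 2886, 1000⟩⟩ (yA7B.hC3m false false) :=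
  posD_of_check (c := ⟨429, ⟨3, 8, 15, 11⟩⟩) (by decide +kernel)

def yA7B_c3ph00 : PosD ⟨⟨0, 1, 1⟩, ⟨98, 99, 147⟩, ⟨75, 150, 10000⟩, ⟨2776, 2886, 1000⟩⟩ (yA7B.hC3p' false false) :=
  posD_of_check (c := ⟨429, ⟨3, 8, 15, 11⟩⟩) (by decide +kernel)

def yA7B_c3mh00 : PosD ⟨⟨0, 1, 1⟩, ⟨98, 99, 147⟩, ⟨75, 150, 10000⟩, ⟨2776, 2886, 1000⟩⟩ (yA7B.hC3m' false false) :=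
  posD_of_check (c := ⟨429, ⟨3, 8, 15, 11⟩⟩) (by decide +kernel)

def yA7B_up00 : PosD ⟨⟨0, 1, 1⟩, ⟨98, 99, 147⟩, ⟨75, 150, 10000⟩, ⟨2776, 2886, 1000⟩⟩ (yA7B.hUp false false) :=
  posD_of_check (c := ⟨425, ⟨3, 8, 15, 11⟩⟩) (by decide +kernel)

def yA7B_um00 : PosD ⟨⟨0, 1, 1⟩, ⟨98, 99, 147⟩, ⟨75, 150, 10000⟩, ⟨2776, 2886, 1000⟩⟩ (yA7B.hUm false false) :=
  posD_of_check (c := ⟨425, ⟨3, 8, 15, 11⟩⟩) (by decide +kernel)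

def yA7B_tmg00 : PosD ⟨⟨0, 1, 1⟩, ⟨98, 99, 147⟩, ⟨75, 150, 10000⟩, ⟨2776, 2886, 1000⟩⟩ (yA7B.hTMG false (yA7B.pEnd false)) :=
  posD_of_check (c := ⟨385, ⟨2, 7, 14, 10⟩⟩) (by decide +kernel)

def yA7B_tg01 : PosD ⟨⟨0, 1, 1⟩, ⟨98, 99, 147⟩, ⟨75, 150, 10000⟩, ⟨2776, 2886, 1000⟩⟩ (yA7B.hG true (yA7B.pEnd false)) :=
  posD_of_check (c := ⟨370, ⟨2, 7, 14, 9⟩⟩) (by decide +kernel)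

def yA7B_c2p01 : PosD ⟨⟨0, 1, 1⟩, ⟨98, 99, 147⟩, ⟨75, 150, 10000⟩, ⟨2776, 2886, 1000⟩⟩ (yA7B.hC2p true (yA7B.pEnd false)) :=
  posD_of_check (c := ⟨430, ⟨3, 8, 16, 11⟩⟩) (by decide +kernel)

def yA7B_c2m01 : PosD ⟨⟨0, 1, 1⟩, ⟨98, 99, 147⟩, ⟨75, 150, 10000⟩, ⟨2776, 2886, 1000⟩⟩ (yA7B.hC2m true (yA7B.pEnd false)) :=
  posD_of_check (c := ⟨430, ⟨3, 8, 16, 11⟩⟩) (by decide +kernel)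

def yA7B_c3p01 : PosD ⟨⟨0, 1, 1⟩, ⟨98, 99, 147⟩, ⟨75, 150, 10000⟩, ⟨2776, 2886, 1000⟩⟩ (yA7B.hC3p false true) :=
  posD_of_check (c := ⟨429, ⟨3, 8, 15, 11⟩⟩) (by decide +kernel)

def yA7B_c3m01 : PosD ⟨⟨0, 1, 1⟩, ⟨98, 99, 147⟩, ⟨75, 150, 10000⟩, ⟨2776, 2886, 1000⟩⟩ (yA7B.hC3m false true) :=
  posD_of_check (c := ⟨429, ⟨3, 8, 15, 11⟩⟩) (by decide +kernel)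

def yA7B_c3ph01 : PosD ⟨⟨0, 1, 1⟩, ⟨98, 99, 147⟩, ⟨75, 150, 10000⟩, ⟨2776, 2886, 1000⟩⟩ (yA7B.hC3p' false true) :=
  posD_of_check (c := ⟨429, ⟨3, 8, 15, 11⟩⟩) (by decide +kernel)

def yA7B_c3mh01 : PosD ⟨⟨0, 1, 1⟩, ⟨98, 99, 147⟩, ⟨75, 150, 10000⟩, ⟨2776, 2886, 1000⟩⟩ (yA7B.hC3m' false true) :=
  posD_of_check (c := ⟨429, ⟨3, 8, 15, 11⟩⟩) (by decide +kernel)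

def yA7B_up01 : PosD ⟨⟨0, 1, 1⟩, ⟨98, 99, 147⟩, ⟨75, 150, 10000⟩, ⟨2776, 2886, 1000⟩⟩ (yA7B.hUp false true) :=
  posD_of_check (c := ⟨425, ⟨3, 8, 15, 11⟩⟩) (by decide +kernel)

def yA7B_um01 : PosD ⟨⟨0, 1, 1⟩, ⟨98, 99, 147⟩, ⟨75, 150, 10000⟩, ⟨2776, 2886, 1000⟩⟩ (yA7B.hUm false true) :=
  posD_of_check (c := ⟨425, ⟨3, 8, 15, 11⟩⟩) (by decide +kernel)

def yA7B_tmg01 : PosD ⟨⟨0, 1, 1⟩, ⟨98, 99, 147⟩, ⟨75, 150, 10000⟩, ⟨2776, 2886, 1000⟩⟩ (yA7B.hTMG true (yA7B.pEnd false)) :=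
  posD_of_check (c := ⟨385, ⟨2, 7, 14, 10⟩⟩) (by decide +kernel)

def yA7B_kap1 : PosD ⟨⟨0, 1, 1⟩, ⟨98, 99, 147⟩, ⟨75, 150, 10000⟩, ⟨2776, 2886, 1000⟩⟩ (yA7B.kap true) :=
  posD_of_check (c := ⟨69, ⟨1, 1, 2, 2⟩⟩) (by decide +kernel)

def yA7B_c11 : PosD ⟨⟨0, 1, 1⟩, ⟨98, 99, 147⟩, ⟨75, 150, 10000⟩, ⟨2776, 2886, 1000⟩⟩ (yA7B.hC1 true) :=
  posD_of_check (c := ⟨264, ⟨3, 5, 9, 7⟩⟩) (by decide +kernel)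

def yA7B_c1h1 : PosD ⟨⟨0, 1, 1⟩, ⟨98, 99, 147⟩, ⟨75, 150, 10000⟩, ⟨2776, 2886, 1000⟩⟩ (yA7B.hC1' true) :=
  posD_of_check (c := ⟨264, ⟨3, 5, 9, 7⟩⟩) (by decide +kernel)

def yA7B_tg10 : PosD ⟨⟨0, 1, 1⟩, ⟨98, 99, 147⟩, ⟨75, 150, 10000⟩, ⟨2776, 2886, 1000⟩⟩ (yA7B.hG false (yA7B.pEnd true)) :=
  posD_of_check (c := ⟨370, ⟨2, 7, 14, 9⟩⟩) (by decide +kernel)

def yA7B_c2p10 : PosD ⟨⟨0, 1, 1⟩, ⟨98, 99, 147⟩, ⟨75, 150, 10000⟩, ⟨2776, 2886, 1000⟩⟩ (yA7B.hC2p false (yA7B.pEnd true)) :=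
  posD_of_check (c := ⟨430, ⟨3, 8, 16, 11⟩⟩) (by decide +kernel)

def yA7B_c2m10 : PosD ⟨⟨0, 1, 1⟩, ⟨98, 99, 147⟩, ⟨75, 150, 10000⟩, ⟨2776, 2886, 1000⟩⟩ (yA7B.hC2m false (yA7B.pEnd true)) :=
  posD_of_check (c := ⟨430, ⟨3, 8, 16, 11⟩⟩) (by decide +kernel)

def yA7B_c3p10 : PosD ⟨⟨0, 1, 1⟩, ⟨98, 99, 147⟩, ⟨75, 150, 10000⟩, ⟨2776, 2886, 1000⟩⟩ (yA7B.hC3p true false) :=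
  posD_of_check (c := ⟨428, ⟨3, 8, 15, 11⟩⟩) (by decide +kernel)

def yA7B_c3m10 : PosD ⟨⟨0, 1, 1⟩, ⟨98, 99, 147⟩, ⟨75, 150, 10000⟩, ⟨2776, 2886, 1000⟩⟩ (yA7B.hC3m true false) :=
  posD_of_check (c := ⟨428, ⟨3, 8, 15, 11⟩⟩) (by decide +kernel)

def yA7B_c3ph10 : PosD ⟨⟨0, 1, 1⟩, ⟨98, 99, 147⟩, ⟨75, 150, 10000⟩, ⟨2776, 2886, 1000⟩⟩ (yA7B.hC3p' true false) :=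
  posD_of_check (c := ⟨428, ⟨3, 8, 15, 11⟩⟩) (by decide +kernel)

def yA7B_c3mh10 : PosD ⟨⟨0, 1, 1⟩, ⟨98, 99, 147⟩, ⟨75, 150, 10000⟩, ⟨2776, 2886, 1000⟩⟩ (yA7B.hC3m' true false) :=
  posD_of_check (c := ⟨428, ⟨3, 8, 15, 11⟩⟩) (by decide +kernel)

def yA7B_up10 : PosD ⟨⟨0, 1, 1⟩, ⟨98, 99, 147⟩, ⟨75, 150, 10000⟩, ⟨2776, 2886, 1000⟩⟩ (yA7B.hUp true false) :=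
  posD_of_check (c := ⟨425, ⟨3, 8, 15, 11⟩⟩) (by decide +kernel)

def yA7B_um10 : PosD ⟨⟨0, 1, 1⟩, ⟨98, 99, 147⟩, ⟨75, 150, 10000⟩, ⟨2776, 2886, 1000⟩⟩ (yA7B.hUm true false) :=
  posD_of_check (c := ⟨425, ⟨3, 8, 15, 11⟩⟩) (by decide +kernel)

def yA7B_tmg10 : PosD ⟨⟨0, 1, 1⟩, ⟨98, 99, 147⟩, ⟨75, 150, 10000⟩, ⟨2776, 2886, 1000⟩⟩ (yA7B.hTMG false (yA7B.pEnd true)) :=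
  posD_of_check (c := ⟨385, ⟨2, 7, 14, 10⟩⟩) (by decide +kernel)

def yA7B_tg11 : PosD ⟨⟨0, 1, 1⟩, ⟨98, 99, 147⟩, ⟨75, 150, 10000⟩, ⟨2776, 2886, 1000⟩⟩ (yA7B.hG true (yA7B.pEnd true)) :=
  posD_of_check (c := ⟨370, ⟨2, 7, 14, 9⟩⟩) (by decide +kernel)

def yA7B_c2p11 : PosD ⟨⟨0, 1, 1⟩, ⟨98, 99, 147⟩, ⟨75, 150, 10000⟩, ⟨2776, 2886, 1000⟩⟩ (yA7B.hC2p true (yA7B.pEnd true)) :=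
  posD_of_check (c := ⟨430, ⟨3, 8, 16, 11⟩⟩) (by decide +kernel)

def yA7B_c2m11 : PosD ⟨⟨0, 1, 1⟩, ⟨98, 99, 147⟩, ⟨75, 150, 10000⟩, ⟨2776, 2886, 1000⟩⟩ (yA7B.hC2m true (yA7B.pEnd true)) :=
  posD_of_check (c := ⟨430, ⟨3, 8, 16, 11⟩⟩) (by decide +kernel)

def yA7B_c3p11 : PosD ⟨⟨0, 1, 1⟩, ⟨98, 99, 147⟩, ⟨75, 150, 10000⟩, ⟨2776, 2886, 1000⟩⟩ (yA7B.hC3p true true) :=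
  posD_of_check (c := ⟨428, ⟨3, 8, 15, 11⟩⟩) (by decide +kernel)

def yA7B_c3m11 : PosD ⟨⟨0, 1, 1⟩, ⟨98, 99, 147⟩, ⟨75, 150, 10000⟩, ⟨2776, 2886, 1000⟩⟩ (yA7B.hC3m true true) :=
  posD_of_check (c := ⟨428, ⟨3, 8, 15, 11⟩⟩) (by decide +kernel)

def yA7B_c3ph11 : PosD ⟨⟨0, 1, 1⟩, ⟨98, 99, 147⟩, ⟨75, 150, 10000⟩, ⟨2776, 2886, 1000⟩⟩ (yA7B.hC3p' true true) :=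
  posD_of_check (c := ⟨428, ⟨3, 8, 15, 11⟩⟩) (by decide +kernel)

def yA7B_c3mh11 : PosD ⟨⟨0, 1, 1⟩, ⟨98, 99, 147⟩, ⟨75, 150, 10000⟩, ⟨2776, 2886, 1000⟩⟩ (yA7B.hC3m' true true) :=
  posD_of_check (c := ⟨428, ⟨3, 8, 15, 11⟩⟩) (by decide +kernel)

def yA7B_up11 : PosD ⟨⟨0, 1, 1⟩, ⟨98, 99, 147⟩, ⟨75, 150, 10000⟩, ⟨2776, 2886, 1000⟩⟩ (yA7B.hUp true true) :=
  posD_of_check (c := ⟨425, ⟨3, 8, 15, 11⟩⟩) (by decide +kernel)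

def yA7B_um11 : PosD ⟨⟨0, 1, 1⟩, ⟨98, 99, 147⟩, ⟨75, 150, 10000⟩, ⟨2776, 2886, 1000⟩⟩ (yA7B.hUm true true) :=
  posD_of_check (c := ⟨425, ⟨3, 8, 15, 11⟩⟩) (by decide +kernel)

def yA7B_tmg11 : PosD ⟨⟨0, 1, 1⟩, ⟨98, 99, 147⟩, ⟨75, 150, 10000⟩, ⟨2776, 2886, 1000⟩⟩ (yA7B.hTMG true (yA7B.pEnd true)) :=
  posD_of_check (c := ⟨385, ⟨2, 7, 14, 10⟩⟩) (by decide +kernel)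

/-- The signs of the piece. -/
def yA7B_sign : yA7B.Sign ⟨⟨0, 1, 1⟩, ⟨98, 99, 147⟩, ⟨75, 150, 10000⟩, ⟨2776, 2886, 1000⟩⟩ :=
  ⟨yA7B_pp,
    yA7B_k2p,
    yA7B_k2m,
    Bool.forall_bool.2 ⟨(Bool.forall_bool.2 ⟨yA7B_tg00, yA7B_tg01⟩), (Bool.forall_bool.2 ⟨yA7B_tg10, yA7B_tg11⟩)⟩,
    Bool.forall_bool.2 ⟨(Bool.forall_bool.2 ⟨yA7B_c2p00, yA7B_c2p01⟩), (Bool.forall_bool.2 ⟨yA7B_c2p10, yA7B_c2p11⟩)⟩,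
    Bool.forall_bool.2 ⟨(Bool.forall_bool.2 ⟨yA7B_c2m00, yA7B_c2m01⟩), (Bool.forall_bool.2 ⟨yA7B_c2m10, yA7B_c2m11⟩)⟩,
    Bool.forall_bool.2 ⟨yA7B_kap0, yA7B_kap1⟩,
    Bool.forall_bool.2 ⟨yA7B_c10, yA7B_c11⟩,
    Bool.forall_bool.2 ⟨(Bool.forall_bool.2 ⟨yA7B_c3p00, yA7B_c3p01⟩), (Bool.forall_bool.2 ⟨yA7B_c3p10, yA7B_c3p11⟩)⟩,
    Bool.forall_bool.2 ⟨(Bool.forall_bool.2 ⟨yA7B_c3m00, yA7B_c3m01⟩), (Bool.forall_bool.2 ⟨yA7B_c3m10, yA7B_c3m11⟩)⟩,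
    Bool.forall_bool.2 ⟨(Bool.forall_bool.2 ⟨yA7B_tmg00, yA7B_tmg01⟩), (Bool.forall_bool.2 ⟨yA7B_tmg10, yA7B_tmg11⟩)⟩,
    .inr (Bool.forall_bool.2 ⟨⟨yA7B_c1h0, Bool.forall_bool.2 ⟨⟨yA7B_c3ph00, yA7B_c3mh00, yA7B_up00, yA7B_um00⟩, ⟨yA7B_c3ph01, yA7B_c3mh01, yA7B_up01, yA7B_um01⟩⟩⟩, ⟨yA7B_c1h1, Bool.forall_bool.2 ⟨⟨yA7B_c3ph10, yA7B_c3mh10, yA7B_up10, yA7B_um10⟩, ⟨yA7B_c3ph11, yA7B_c3mh11, yA7B_up11, yA7B_um11⟩⟩⟩⟩),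
    yA7B_v2p,
    yA7B_v2m,
    yA7B_v3p,
    yA7B_v3m,
    posD_sub (b := ⟨⟨0, 1, 1⟩, ⟨98, 99, 147⟩, ⟨0, 301, 10000⟩, ⟨1060, 4000, 1000⟩⟩) (by decide +kernel) yA_vG,
    posD_sub (b := ⟨⟨0, 1, 1⟩, ⟨98, 99, 147⟩, ⟨0, 301, 10000⟩, ⟨1060, 4000, 1000⟩⟩) (by decide +kernel) yA_vMG,
    posD_sub (b := ⟨⟨0, 1, 1⟩, ⟨98, 99, 147⟩, ⟨0, 301, 10000⟩, ⟨1060, 4000, 1000⟩⟩) (by decide +kernel) yA_ak,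
    posD_sub (b := ⟨⟨0, 1, 1⟩, ⟨98, 99, 147⟩, ⟨0, 301, 10000⟩, ⟨1060, 4000, 1000⟩⟩) (by decide +kernel) yA_aw,
    posD_sub (b := ⟨⟨0, 1, 1⟩, ⟨98, 99, 147⟩, ⟨0, 301, 10000⟩, ⟨1060, 4000, 1000⟩⟩) (by decide +kernel) yA_gk,
    posD_sub (b := ⟨⟨0, 1, 1⟩, ⟨98, 99, 147⟩, ⟨0, 301, 10000⟩, ⟨1060, 4000, 1000⟩⟩) (by decide +kernel) yA_gw,
    posD_sub (b := ⟨⟨0, 1, 1⟩, ⟨98, 99, 147⟩, ⟨0, 301, 10000⟩, ⟨1060, 4000, 1000⟩⟩) (by decide +kernel) yA_ek,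
    posD_sub (b := ⟨⟨0, 1, 1⟩, ⟨98, 99, 147⟩, ⟨0, 301, 10000⟩, ⟨1060, 4000, 1000⟩⟩) (by decide +kernel) yA_ew⟩

end Vale.Agent.P100.Calib.Closed.Six.Tail
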