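import Vale.Agent.P100.Calib.SlabSixTailDataLayerA
import Vale.Agent.P100.Calib.SlabSixTailGlobLayerA

/-!
# Checks of some pieces of the certificate

The checks are written as definitions so that they run one after another, which keeps the memory of the
kernel low.
-/

set_option linter.defProp false

namespace Vale.Agent.P100.Calib.Closed.Six.Tail

open BoxPos Large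

local instance sixTailChecksyA6Add : Add Ex := ⟨Ex.add⟩
local instance sixTailChecksyA6Sub : Sub Ex := ⟨Ex.sub⟩
local instance sixTailChecksyA6Mul : Mul Ex := ⟨Ex.mul⟩

def yA8_p0 : PosD ⟨⟨0, 1, 1⟩, ⟨98, 99, 147⟩, ⟨75, 150, 10000⟩, ⟨2776, 2886, 1000⟩⟩ (yA8.hP0) :=
  posD_of_check (c := ⟨82, ⟨0, 2, 3, 1⟩⟩) (by decide +kernel)

def yA8_gn : PosD ⟨⟨0, 1, 1⟩, ⟨98, 99, 147⟩, ⟨75, 150, 10000⟩, ⟨2776, 2886, 1000⟩⟩ (yA8.hGn) :=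
  posD_of_check (c := ⟨58, ⟨1, 1, 2, 1⟩⟩) (by decide +kernel)

def yA8_den0 : PosD ⟨⟨0, 1, 1⟩, ⟨98, 99, 147⟩, ⟨75, 150, 10000⟩, ⟨2776, 2886, 1000⟩⟩ (yA8.hDen false) :=
  posD_of_check (c := ⟨45, ⟨0, 0, 2, 0⟩⟩) (by decide +kernel)

def yA8_den1 : PosD ⟨⟨0, 1, 1⟩, ⟨98, 99, 147⟩, ⟨75, 150, 10000⟩, ⟨2776, 2886, 1000⟩⟩ (yA8.hDen true) :=
  posD_of_check (c := ⟨22, ⟨1, 0, 1, 0⟩⟩) (by decide +kernel)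

def yA8_ev0 : PosD ⟨⟨0, 1, 1⟩, ⟨98, 99, 147⟩, ⟨75, 150, 10000⟩, ⟨2776, 2886, 1000⟩⟩ (yA8.hEv false) :=
  posD_of_check (c := ⟨148, ⟨2, 2, 6, 1⟩⟩) (by decide +kernel)

def yA8_zL0 : PosD ⟨⟨0, 1, 1⟩, ⟨98, 99, 147⟩, ⟨75, 150, 10000⟩, ⟨2776, 2886, 1000⟩⟩ (yA8.hZL false) :=
  posD_of_check (c := ⟨158, ⟨2, 3, 6, 3⟩⟩) (by decide +kernel)

def yA8_zU0 : PosD ⟨⟨0, 1, 1⟩, ⟨98, 99, 147⟩, ⟨75, 150, 10000⟩, ⟨2776, 2886, 1000⟩⟩ (yA8.hZU false) :=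
  posD_of_check (c := ⟨159, ⟨2, 3, 6, 3⟩⟩) (by decide +kernel)

def yA8_eL0 : PosD ⟨⟨0, 1, 1⟩, ⟨98, 99, 147⟩, ⟨75, 150, 10000⟩, ⟨2776, 2886, 1000⟩⟩ (yA8.hEL false) :=
  posD_of_check (c := ⟨240, ⟨3, 6, 9, 3⟩⟩) (by decide +kernel)

def yA8_eH0 : PosD ⟨⟨0, 1, 1⟩, ⟨98, 99, 147⟩, ⟨75, 150, 10000⟩, ⟨2776, 2886, 1000⟩⟩ (yA8.hEH false) :=
  posD_of_check (c := ⟨255, ⟨3, 6, 9, 3⟩⟩) (by decide +kernel)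

def yA8_pL0 : PosD ⟨⟨0, 1, 1⟩, ⟨98, 99, 147⟩, ⟨75, 150, 10000⟩, ⟨2776, 2886, 1000⟩⟩ (yA8.hPL false) :=
  posD_of_check (c := ⟨261, ⟨3, 6, 9, 3⟩⟩) (by decide +kernel)

def yA8_pU0 : PosD ⟨⟨0, 1, 1⟩, ⟨98, 99, 147⟩, ⟨75, 150, 10000⟩, ⟨2776, 2886, 1000⟩⟩ (yA8.hPU false) :=
  posD_of_check (c := ⟨259, ⟨3, 6, 9, 3⟩⟩) (by decide +kernel)

def yA8_kU0 : PosD ⟨⟨0, 1, 1⟩, ⟨98, 99, 147⟩, ⟨75, 150, 10000⟩, ⟨2776, 2886, 1000⟩⟩ (yA8.hKU false) :=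
  posD_of_check (c := ⟨254, ⟨3, 6, 9, 3⟩⟩) (by decide +kernel)

def yA8_kL0 : PosD ⟨⟨0, 1, 1⟩, ⟨98, 99, 147⟩, ⟨75, 150, 10000⟩, ⟨2776, 2886, 1000⟩⟩ (yA8.hKL false) :=
  posD_of_check (c := ⟨262, ⟨3, 6, 9, 3⟩⟩) (by decide +kernel)

def yA8_wU0 : PosD ⟨⟨0, 1, 1⟩, ⟨98, 99, 147⟩, ⟨75, 150, 10000⟩, ⟨2776, 2886, 1000⟩⟩ (yA8.hWU false) :=
  posD_of_check (c := ⟨290, ⟨3, 8, 10, 3⟩⟩) (by decide +kernel)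

def yA8_wL0 : PosD ⟨⟨0, 1, 1⟩, ⟨98, 99, 147⟩, ⟨75, 150, 10000⟩, ⟨2776, 2886, 1000⟩⟩ (yA8.hWL false) :=
  posD_of_check (c := ⟨292, ⟨3, 8, 10, 3⟩⟩) (by decide +kernel)

def yA8_ev1 : PosD ⟨⟨0, 1, 1⟩, ⟨98, 99, 147⟩, ⟨75, 150, 10000⟩, ⟨2776, 2886, 1000⟩⟩ (yA8.hEv true) :=
  posD_of_check (c := ⟨120, ⟨2, 2, 6, 1⟩⟩) (by decide +kernel)

def yA8_zL1 : PosD ⟨⟨0, 1, 1⟩, ⟨98, 99, 147⟩, ⟨75, 150, 10000⟩, ⟨2776, 2886, 1000⟩⟩ (yA8.hZL true) :=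
  posD_of_check (c := ⟨134, ⟨2, 3, 6, 3⟩⟩) (by decide +kernel)

def yA8_zU1 : PosD ⟨⟨0, 1, 1⟩, ⟨98, 99, 147⟩, ⟨75, 150, 10000⟩, ⟨2776, 2886, 1000⟩⟩ (yA8.hZU true) :=
  posD_of_check (c := ⟨134, ⟨2, 3, 6, 3⟩⟩) (by decide +kernel)

def yA8_eL1 : PosD ⟨⟨0, 1, 1⟩, ⟨98, 99, 147⟩, ⟨75, 150, 10000⟩, ⟨2776, 2886, 1000⟩⟩ (yA8.hEL true) :=
  posD_of_check (c := ⟨212, ⟨3, 6, 9, 3⟩⟩) (by decide +kernel)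

def yA8_eH1 : PosD ⟨⟨0, 1, 1⟩, ⟨98, 99, 147⟩, ⟨75, 150, 10000⟩, ⟨2776, 2886, 1000⟩⟩ (yA8.hEH true) :=
  posD_of_check (c := ⟨227, ⟨3, 6, 9, 3⟩⟩) (by decide +kernel)

def yA8_pL1 : PosD ⟨⟨0, 1, 1⟩, ⟨98, 99, 147⟩, ⟨75, 150, 10000⟩, ⟨2776, 2886, 1000⟩⟩ (yA8.hPL true) :=
  posD_of_check (c := ⟨233, ⟨3, 6, 9, 3⟩⟩) (by decide +kernel)

def yA8_pU1a : PosD ⟨⟨0, 1, 2⟩, ⟨98, 99, 147⟩, ⟨75, 150, 10000⟩, ⟨2776, 2886, 1000⟩⟩ (yA8.hPU true) :=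
  posD_of_check (c := ⟨232, ⟨3, 6, 9, 3⟩⟩) (by decide +kernel)

def yA8_pU1b : PosD ⟨⟨1, 2, 2⟩, ⟨98, 99, 147⟩, ⟨75, 150, 10000⟩, ⟨2776, 2886, 1000⟩⟩ (yA8.hPU true) :=
  posD_of_check (c := ⟨233, ⟨3, 6, 9, 3⟩⟩) (by decide +kernel)

def yA8_pU1 : PosD ⟨⟨0, 1, 1⟩, ⟨98, 99, 147⟩, ⟨75, 150, 10000⟩, ⟨2776, 2886, 1000⟩⟩ (yA8.hPU true) :=
  posD_units (b := ⟨⟨0, 2, 2⟩, ⟨98, 99, 147⟩, ⟨75, 150, 10000⟩, ⟨2776, 2886, 1000⟩⟩) (by decide +kernel) (posD_join₀ yA8_pU1a yA8_pU1b)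

def yA8_kU1 : PosD ⟨⟨0, 1, 1⟩, ⟨98, 99, 147⟩, ⟨75, 150, 10000⟩, ⟨2776, 2886, 1000⟩⟩ (yA8.hKU true) :=
  posD_of_check (c := ⟨225, ⟨3, 6, 9, 3⟩⟩) (by decide +kernel)

def yA8_kL1 : PosD ⟨⟨0, 1, 1⟩, ⟨98, 99, 147⟩, ⟨75, 150, 10000⟩, ⟨2776, 2886, 1000⟩⟩ (yA8.hKL true) :=
  posD_of_check (c := ⟨234, ⟨3, 6, 9, 3⟩⟩) (by decide +kernel)

def yA8_wU1 : PosD ⟨⟨0, 1, 1⟩, ⟨98, 99, 147⟩, ⟨75, 150, 10000⟩, ⟨2776, 2886, 1000⟩⟩ (yA8.hWU true) :=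
  posD_of_check (c := ⟨261, ⟨3, 8, 10, 3⟩⟩) (by decide +kernel)

def yA8_wL1 : PosD ⟨⟨0, 1, 1⟩, ⟨98, 99, 147⟩, ⟨75, 150, 10000⟩, ⟨2776, 2886, 1000⟩⟩ (yA8.hWL true) :=
  posD_of_check (c := ⟨263, ⟨3, 8, 10, 3⟩⟩) (by decide +kernel)

def yA8_mueH : PosD ⟨⟨0, 1, 1⟩, ⟨98, 99, 147⟩, ⟨75, 150, 10000⟩, ⟨2776, 2886, 1000⟩⟩ (yA8.eH.μ) :=
  posD_of_check (c := ⟨14, ⟨0, 0, 0, 0⟩⟩) (by decide +kernel)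

def yA8_nukL : PosD ⟨⟨0, 1, 1⟩, ⟨98, 99, 147⟩, ⟨75, 150, 10000⟩, ⟨2776, 2886, 1000⟩⟩ (yA8.kL.ν) :=
  posD_of_check (c := ⟨40, ⟨0, 0, 1, 1⟩⟩) (by decide +kernel)

/-- The bounds of the piece. -/
def yA8_env : yA8.Env ⟨⟨0, 1, 1⟩, ⟨98, 99, 147⟩, ⟨75, 150, 10000⟩, ⟨2776, 2886, 1000⟩⟩ :=
  ⟨yA8_p0, Bool.forall_bool.2 ⟨yA8_den0, yA8_den1⟩, yA8_gn, Bool.forall_bool.2 ⟨yA8_ev0, yA8_ev1⟩, Bool.forall_bool.2 ⟨yA8_zL0, yA8_zL1⟩, Bool.forall_bool.2 ⟨yA8_zU0, yA8_zU1⟩, Bool.forall_bool.2 ⟨yA8_eL0, yA8_eL1⟩, ⟨.inr rfl, .inr rfl⟩, Bool.forall_bool.2 ⟨yA8_eH0, yA8_eH1⟩, ⟨.inl yA8_mueH, .inr rfl⟩, Bool.forall_bool.2 ⟨yA8_pL0, yA8_pL1⟩, ⟨.inr rfl, .inr rfl⟩, Bool.forall_bool.2 ⟨yA8_pU0, yA8_pU1⟩, ⟨.inr rfl, .inr rfl⟩, Bool.forall_bool.2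 ⟨yA8_kU0, yA8_kU1⟩, ⟨.inr rfl, .inr rfl⟩, Bool.forall_bool.2 ⟨yA8_kL0, yA8_kL1⟩, ⟨.inr rfl, .inl yA8_nukL⟩, Bool.forall_bool.2 ⟨yA8_wU0, yA8_wU1⟩, ⟨.inr rfl, .inr rfl⟩, Bool.forall_bool.2 ⟨yA8_wL0, yA8_wL1⟩, ⟨.inr rfl, .inr rfl⟩⟩

def yA8_pU20 : PosD ⟨⟨0, 1, 1⟩, ⟨98, 99, 147⟩, ⟨75, 150, 10000⟩, ⟨2776, 2886, 1000⟩⟩ (({ yA8 with pU := yA8PU } : Piece).hPU false) :=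
  posD_of_check (c := ⟨268, ⟨3, 6, 9, 3⟩⟩) (by decide +kernel)

def yA8_pU21 : PosD ⟨⟨0, 1, 1⟩, ⟨98, 99, 147⟩, ⟨75, 150, 10000⟩, ⟨2776, 2886, 1000⟩⟩ (({ yA8 with pU := yA8PU } : Piece).hPU true) :=
  posD_of_check (c := ⟨240, ⟨3, 6, 9, 3⟩⟩) (by decide +kernel)

def yA8_nupU2 : PosD ⟨⟨0, 1, 1⟩, ⟨98, 99, 147⟩, ⟨75, 150, 10000⟩, ⟨2776, 2886, 1000⟩⟩ (yA8PU.ν) :=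
  posD_of_check (c := ⟨47, ⟨0, 0, 1, 1⟩⟩) (by decide +kernel)

/-- The bounds with the other bound of `p`. -/
def yA8_envU : ({ yA8 with pU := yA8PU } : Piece).Env ⟨⟨0, 1, 1⟩, ⟨98, 99, 147⟩, ⟨75, 150, 10000⟩, ⟨2776, 2886, 1000⟩⟩ :=
  yA8_env.withU yA8PU (Bool.forall_bool.2 ⟨yA8_pU20, yA8_pU21⟩) ⟨.inr rfl, .inl yA8_nupU2⟩

def yA8A_pp : PosD ⟨⟨0, 1, 1⟩, ⟨98, 99, 147⟩, ⟨75, 150, 10000⟩, ⟨2776, 2886, 1000⟩⟩ (yA8A.xPL) :=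
  posD_of_check (c := ⟨93, ⟨1, 1, 3, 3⟩⟩) (by decide +kernel)

def yA8A_k2p : PosD ⟨⟨0, 1, 1⟩, ⟨98, 99, 147⟩, ⟨75, 150, 10000⟩, ⟨2776, 2886, 1000⟩⟩ (yA8A.k2p yA8A.xE) :=
  posD_of_check (c := ⟨61, ⟨1, 1, 2, 2⟩⟩) (by decide +kernel)

def yA8A_k2m : PosD ⟨⟨0, 1, 1⟩, ⟨98, 99, 147⟩, ⟨75, 150, 10000⟩, ⟨2776, 2886, 1000⟩⟩ (yA8A.k2m yA8A.xE) :=
  posD_of_check (c := ⟨60, ⟨1, 1, 2, 2⟩⟩) (by decide +kernel)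

def yA8A_v2p : PosD ⟨⟨0, 1, 1⟩, ⟨98, 99, 147⟩, ⟨75, 150, 10000⟩, ⟨2776, 2886, 1000⟩⟩ (yA8A.hV2p) :=
  posD_of_check (c := ⟨253, ⟨1, 6, 10, 5⟩⟩) (by decide +kernel)

def yA8A_v2m : PosD ⟨⟨0, 1, 1⟩, ⟨98, 99, 147⟩, ⟨75, 150, 10000⟩, ⟨2776, 2886, 1000⟩⟩ (yA8A.hV2m) :=
  posD_of_check (c := ⟨253, ⟨1, 6, 10, 5⟩⟩) (by decide +kernel)

def yA8A_v3p : PosD ⟨⟨0, 1, 1⟩, ⟨98, 99, 147⟩, ⟨75, 150, 10000⟩, ⟨2776, 2886, 1000⟩⟩ (yA8A.hV3p) :=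
  posD_of_check (c := ⟨246, ⟨1, 6, 9, 5⟩⟩) (by decide +kernel)

def yA8A_v3m : PosD ⟨⟨0, 1, 1⟩, ⟨98, 99, 147⟩, ⟨75, 150, 10000⟩, ⟨2776, 2886, 1000⟩⟩ (yA8A.hV3m) :=
  posD_of_check (c := ⟨246, ⟨1, 6, 9, 5⟩⟩) (by decide +kernel)

def yA8A_kap0 : PosD ⟨⟨0, 1, 1⟩, ⟨98, 99, 147⟩, ⟨75, 150, 10000⟩, ⟨2776, 2886, 1000⟩⟩ (yA8A.kap false) :=
  posD_of_check (c := ⟨67, ⟨1, 1, 2, 2⟩⟩) (by decide +kernel)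

def yA8A_c10 : PosD ⟨⟨0, 1, 1⟩, ⟨98, 99, 147⟩, ⟨75, 150, 10000⟩, ⟨2776, 2886, 1000⟩⟩ (yA8A.hC1 false) :=
  posD_of_check (c := ⟨265, ⟨3, 5, 9, 7⟩⟩) (by decide +kernel)

def yA8A_c1h0 : PosD ⟨⟨0, 1, 1⟩, ⟨98, 99, 147⟩, ⟨75, 150, 10000⟩, ⟨2776, 2886, 1000⟩⟩ (yA8A.hC1' false) :=
  posD_of_check (c := ⟨264, ⟨3, 5, 9, 7⟩⟩) (by decide +kernel)

def yA8A_tg00 : PosD ⟨⟨0, 1, 1⟩, ⟨98, 99, 147⟩, ⟨75, 150, 10000⟩, ⟨2776, 2886, 1000⟩⟩ (yA8A.hG false (yA8A.pEnd false)) :=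
  posD_of_check (c := ⟨374, ⟨2, 7, 14, 9⟩⟩) (by decide +kernel)

def yA8A_c2p00 : PosD ⟨⟨0, 1, 1⟩, ⟨98, 99, 147⟩, ⟨75, 150, 10000⟩, ⟨2776, 2886, 1000⟩⟩ (yA8A.hC2p false (yA8A.pEnd false)) :=
  posD_of_check (c := ⟨435, ⟨3, 8, 16, 11⟩⟩) (by decide +kernel)

def yA8A_c2m00 : PosD ⟨⟨0, 1, 1⟩, ⟨98, 99, 147⟩, ⟨75, 150, 10000⟩, ⟨2776, 2886, 1000⟩⟩ (yA8A.hC2m false (yA8A.pEnd false)) :=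
  posD_of_check (c := ⟨435, ⟨3, 8, 16, 11⟩⟩) (by decide +kernel)

def yA8A_c3p00 : PosD ⟨⟨0, 1, 1⟩, ⟨98, 99, 147⟩, ⟨75, 150, 10000⟩, ⟨2776, 2886, 1000⟩⟩ (yA8A.hC3p false false) :=
  posD_of_check (c := ⟨430, ⟨3, 8, 15, 11⟩⟩) (by decide +kernel)

def yA8A_c3m00 : PosD ⟨⟨0, 1, 1⟩, ⟨98, 99, 147⟩, ⟨75, 150, 10000⟩, ⟨2776, 2886, 1000⟩⟩ (yA8A.hC3m false false) :=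
  posD_of_check (c := ⟨430, ⟨3, 8, 15, 11⟩⟩) (by decide +kernel)

def yA8A_c3ph00 : PosD ⟨⟨0, 1, 1⟩, ⟨98, 99, 147⟩, ⟨75, 150, 10000⟩, ⟨2776, 2886, 1000⟩⟩ (yA8A.hC3p' false false) :=
  posD_of_check (c := ⟨429, ⟨3, 8, 15, 11⟩⟩) (by decide +kernel)

def yA8A_c3mh00 : PosD ⟨⟨0, 1, 1⟩, ⟨98, 99, 147⟩, ⟨75, 150, 10000⟩, ⟨2776, 2886, 1000⟩⟩ (yA8A.hC3m' false false) :=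
  posD_of_check (c := ⟨429, ⟨3, 8, 15, 11⟩⟩) (by decide +kernel)

def yA8A_up00 : PosD ⟨⟨0, 1, 1⟩, ⟨98, 99, 147⟩, ⟨75, 150, 10000⟩, ⟨2776, 2886, 1000⟩⟩ (yA8A.hUp false false) :=
  posD_of_check (c := ⟨428, ⟨3, 8, 15, 11⟩⟩) (by decide +kernel)

def yA8A_um00 : PosD ⟨⟨0, 1, 1⟩, ⟨98, 99, 147⟩, ⟨75, 150, 10000⟩, ⟨2776, 2886, 1000⟩⟩ (yA8A.hUm false false) :=
  posD_of_check (c := ⟨428, ⟨3, 8, 15, 11⟩⟩) (by decide +kernel)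

def yA8A_tmg00 : PosD ⟨⟨0, 1, 1⟩, ⟨98, 99, 147⟩, ⟨75, 150, 10000⟩, ⟨2776, 2886, 1000⟩⟩ (yA8A.hTMG false (yA8A.pEnd false)) :=
  posD_of_check (c := ⟨388, ⟨2, 7, 14, 10⟩⟩) (by decide +kernel)

def yA8A_tg01 : PosD ⟨⟨0, 1, 1⟩, ⟨98, 99, 147⟩, ⟨75, 150, 10000⟩, ⟨2776, 2886, 1000⟩⟩ (yA8A.hG true (yA8A.pEnd false)) :=
  posD_of_check (c := ⟨374, ⟨2, 7, 14, 9⟩⟩) (by decide +kernel)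

def yA8A_c2p01 : PosD ⟨⟨0, 1, 1⟩, ⟨98, 99, 147⟩, ⟨75, 150, 10000⟩, ⟨2776, 2886, 1000⟩⟩ (yA8A.hC2p true (yA8A.pEnd false)) :=
  posD_of_check (c := ⟨435, ⟨3, 8, 16, 11⟩⟩) (by decide +kernel)

def yA8A_c2m01 : PosD ⟨⟨0, 1, 1⟩, ⟨98, 99, 147⟩, ⟨75, 150, 10000⟩, ⟨2776, 2886, 1000⟩⟩ (yA8A.hC2m true (yA8A.pEnd false)) :=
  posD_of_check (c := ⟨435, ⟨3, 8, 16, 11⟩⟩) (by decide +kernel)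

def yA8A_c3p01 : PosD ⟨⟨0, 1, 1⟩, ⟨98, 99, 147⟩, ⟨75, 150, 10000⟩, ⟨2776, 2886, 1000⟩⟩ (yA8A.hC3p false true) :=
  posD_of_check (c := ⟨430, ⟨3, 8, 15, 11⟩⟩) (by decide +kernel)

def yA8A_c3m01 : PosD ⟨⟨0, 1, 1⟩, ⟨98, 99, 147⟩, ⟨75, 150, 10000⟩, ⟨2776, 2886, 1000⟩⟩ (yA8A.hC3m false true) :=
  posD_of_check (c := ⟨430, ⟨3, 8, 15, 11⟩⟩) (by decide +kernel)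

def yA8A_c3ph01 : PosD ⟨⟨0, 1, 1⟩, ⟨98, 99, 147⟩, ⟨75, 150, 10000⟩, ⟨2776, 2886, 1000⟩⟩ (yA8A.hC3p' false true) :=
  posD_of_check (c := ⟨429, ⟨3, 8, 15, 11⟩⟩) (by decide +kernel)

def yA8A_c3mh01 : PosD ⟨⟨0, 1, 1⟩, ⟨98, 99, 147⟩, ⟨75, 150, 10000⟩, ⟨2776, 2886, 1000⟩⟩ (yA8A.hC3m' false true) :=
  posD_of_check (c := ⟨429, ⟨3, 8, 15, 11⟩⟩) (by decide +kernel)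

def yA8A_up01 : PosD ⟨⟨0, 1, 1⟩, ⟨98, 99, 147⟩, ⟨75, 150, 10000⟩, ⟨2776, 2886, 1000⟩⟩ (yA8A.hUp false true) :=
  posD_of_check (c := ⟨428, ⟨3, 8, 15, 11⟩⟩) (by decide +kernel)

def yA8A_um01 : PosD ⟨⟨0, 1, 1⟩, ⟨98, 99, 147⟩, ⟨75, 150, 10000⟩, ⟨2776, 2886, 1000⟩⟩ (yA8A.hUm false true) :=
  posD_of_check (c := ⟨428, ⟨3, 8, 15, 11⟩⟩) (by decide +kernel)

def yA8A_tmg01 : PosD ⟨⟨0, 1, 1⟩, ⟨98, 99, 147⟩, ⟨75, 150, 10000⟩, ⟨2776, 2886, 1000⟩⟩ (yA8A.hTMG true (yA8A.pEnd false)) :=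
  posD_of_check (c := ⟨388, ⟨2, 7, 14, 10⟩⟩) (by decide +kernel)

def yA8A_kap1 : PosD ⟨⟨0, 1, 1⟩, ⟨98, 99, 147⟩, ⟨75, 150, 10000⟩, ⟨2776, 2886, 1000⟩⟩ (yA8A.kap true) :=
  posD_of_check (c := ⟨70, ⟨1, 1, 2, 2⟩⟩) (by decide +kernel)

def yA8A_c11 : PosD ⟨⟨0, 1, 1⟩, ⟨98, 99, 147⟩, ⟨75, 150, 10000⟩, ⟨2776, 2886, 1000⟩⟩ (yA8A.hC1 true) :=
  posD_of_check (c := ⟨264, ⟨3, 5, 9, 7⟩⟩) (by decide +kernel)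

def yA8A_c1h1 : PosD ⟨⟨0, 1, 1⟩, ⟨98, 99, 147⟩, ⟨75, 150, 10000⟩, ⟨2776, 2886, 1000⟩⟩ (yA8A.hC1' true) :=
  posD_of_check (c := ⟨264, ⟨3, 5, 9, 7⟩⟩) (by decide +kernel)

def yA8A_tg10 : PosD ⟨⟨0, 1, 1⟩, ⟨98, 99, 147⟩, ⟨75, 150, 10000⟩, ⟨2776, 2886, 1000⟩⟩ (yA8A.hG false (yA8A.pEnd true)) :=
  posD_of_check (c := ⟨370, ⟨2, 7, 14, 9⟩⟩) (by decide +kernel)

def yA8A_c2p10 : PosD ⟨⟨0, 1, 1⟩, ⟨98, 99, 147⟩, ⟨75, 150, 10000⟩, ⟨2776, 2886, 1000⟩⟩ (yA8A.hC2p false (yA8A.pEnd true)) :=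
  posD_of_check (c := ⟨431, ⟨3, 8, 16, 11⟩⟩) (by decide +kernel)

def yA8A_c2m10 : PosD ⟨⟨0, 1, 1⟩, ⟨98, 99, 147⟩, ⟨75, 150, 10000⟩, ⟨2776, 2886, 1000⟩⟩ (yA8A.hC2m false (yA8A.pEnd true)) :=
  posD_of_check (c := ⟨430, ⟨3, 8, 16, 11⟩⟩) (by decide +kernel)

def yA8A_c3p10 : PosD ⟨⟨0, 1, 1⟩, ⟨98, 99, 147⟩, ⟨75, 150, 10000⟩, ⟨2776, 2886, 1000⟩⟩ (yA8A.hC3p true false) :=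
  posD_of_check (c := ⟨430, ⟨3, 8, 15, 11⟩⟩) (by decide +kernel)

def yA8A_c3m10 : PosD ⟨⟨0, 1, 1⟩, ⟨98, 99, 147⟩, ⟨75, 150, 10000⟩, ⟨2776, 2886, 1000⟩⟩ (yA8A.hC3m true false) :=
  posD_of_check (c := ⟨430, ⟨3, 8, 15, 11⟩⟩) (by decide +kernel)

def yA8A_c3ph10 : PosD ⟨⟨0, 1, 1⟩, ⟨98, 99, 147⟩, ⟨75, 150, 10000⟩, ⟨2776, 2886, 1000⟩⟩ (yA8A.hC3p' true false) :=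
  posD_of_check (c := ⟨429, ⟨3, 8, 15, 11⟩⟩) (by decide +kernel)

def yA8A_c3mh10 : PosD ⟨⟨0, 1, 1⟩, ⟨98, 99, 147⟩, ⟨75, 150, 10000⟩, ⟨2776, 2886, 1000⟩⟩ (yA8A.hC3m' true false) :=
  posD_of_check (c := ⟨429, ⟨3, 8, 15, 11⟩⟩) (by decide +kernel)

def yA8A_up10 : PosD ⟨⟨0, 1, 1⟩, ⟨98, 99, 147⟩, ⟨75, 150, 10000⟩, ⟨2776, 2886, 1000⟩⟩ (yA8A.hUp true false) :=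
  posD_of_check (c := ⟨425, ⟨3, 8, 15, 11⟩⟩) (by decide +kernel)

def yA8A_um10 : PosD ⟨⟨0, 1, 1⟩, ⟨98, 99, 147⟩, ⟨75, 150, 10000⟩, ⟨2776, 2886, 1000⟩⟩ (yA8A.hUm true false) :=
  posD_of_check (c := ⟨425, ⟨3, 8, 15, 11⟩⟩) (by decide +kernel)

def yA8A_tmg10 : PosD ⟨⟨0, 1, 1⟩, ⟨98, 99, 147⟩, ⟨75, 150, 10000⟩, ⟨2776, 2886, 1000⟩⟩ (yA8A.hTMG false (yA8A.pEnd true)) :=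
  posD_of_check (c := ⟨386, ⟨2, 7, 14, 10⟩⟩) (by decide +kernel)

def yA8A_tg11 : PosD ⟨⟨0, 1, 1⟩, ⟨98, 99, 147⟩, ⟨75, 150, 10000⟩, ⟨2776, 2886, 1000⟩⟩ (yA8A.hG true (yA8A.pEnd true)) :=
  posD_of_check (c := ⟨370, ⟨2, 7, 14, 9⟩⟩) (by decide +kernel)

def yA8A_c2p11 : PosD ⟨⟨0, 1, 1⟩, ⟨98, 99, 147⟩, ⟨75, 150, 10000⟩, ⟨2776, 2886, 1000⟩⟩ (yA8A.hC2p true (yA8A.pEnd true)) :=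
  posD_of_check (c := ⟨431, ⟨3, 8, 16, 11⟩⟩) (by decide +kernel)

def yA8A_c2m11 : PosD ⟨⟨0, 1, 1⟩, ⟨98, 99, 147⟩, ⟨75, 150, 10000⟩, ⟨2776, 2886, 1000⟩⟩ (yA8A.hC2m true (yA8A.pEnd true)) :=
  posD_of_check (c := ⟨430, ⟨3, 8, 16, 11⟩⟩) (by decide +kernel)

def yA8A_c3p11 : PosD ⟨⟨0, 1, 1⟩, ⟨98, 99, 147⟩, ⟨75, 150, 10000⟩, ⟨2776, 2886, 1000⟩⟩ (yA8A.hC3p true true) :=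
  posD_of_check (c := ⟨430, ⟨3, 8, 15, 11⟩⟩) (by decide +kernel)

def yA8A_c3m11 : PosD ⟨⟨0, 1, 1⟩, ⟨98, 99, 147⟩, ⟨75, 150, 10000⟩, ⟨2776, 2886, 1000⟩⟩ (yA8A.hC3m true true) :=
  posD_of_check (c := ⟨430, ⟨3, 8, 15, 11⟩⟩) (by decide +kernel)

def yA8A_c3ph11 : PosD ⟨⟨0, 1, 1⟩, ⟨98, 99, 147⟩, ⟨75, 150, 10000⟩, ⟨2776, 2886, 1000⟩⟩ (yA8A.hC3p' true true) :=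
  posD_of_check (c := ⟨429, ⟨3, 8, 15, 11⟩⟩) (by decide +kernel)

def yA8A_c3mh11 : PosD ⟨⟨0, 1, 1⟩, ⟨98, 99, 147⟩, ⟨75, 150, 10000⟩, ⟨2776, 2886, 1000⟩⟩ (yA8A.hC3m' true true) :=
  posD_of_check (c := ⟨429, ⟨3, 8, 15, 11⟩⟩) (by decide +kernel)

def yA8A_up11 : PosD ⟨⟨0, 1, 1⟩, ⟨98, 99, 147⟩, ⟨75, 150, 10000⟩, ⟨2776, 2886, 1000⟩⟩ (yA8A.hUp true true) :=
  posD_of_check (c := ⟨425, ⟨3, 8, 15, 11⟩⟩) (by decide +kernel)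

def yA8A_um11 : PosD ⟨⟨0, 1, 1⟩, ⟨98, 99, 147⟩, ⟨75, 150, 10000⟩, ⟨2776, 2886, 1000⟩⟩ (yA8A.hUm true true) :=
  posD_of_check (c := ⟨425, ⟨3, 8, 15, 11⟩⟩) (by decide +kernel)

def yA8A_tmg11 : PosD ⟨⟨0, 1, 1⟩, ⟨98, 99, 147⟩, ⟨75, 150, 10000⟩, ⟨2776, 2886, 1000⟩⟩ (yA8A.hTMG true (yA8A.pEnd true)) :=
  posD_of_check (c := ⟨386, ⟨2, 7, 14, 10⟩⟩) (by decide +kernel)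

/-- The signs of the piece. -/
def yA8A_sign : yA8A.Sign ⟨⟨0, 1, 1⟩, ⟨98, 99, 147⟩, ⟨75, 150, 10000⟩, ⟨2776, 2886, 1000⟩⟩ :=
  ⟨yA8A_pp,
    yA8A_k2p,
    yA8A_k2m,
    Bool.forall_bool.2 ⟨(Bool.forall_bool.2 ⟨yA8A_tg00, yA8A_tg01⟩), (Bool.forall_bool.2 ⟨yA8A_tg10, yA8A_tg11⟩)⟩,
    Bool.forall_bool.2 ⟨(Bool.forall_bool.2 ⟨yA8A_c2p00, yA8A_c2p01⟩), (Bool.forall_bool.2 ⟨yA8A_c2p10, yA8A_c2p11⟩)⟩,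
    Bool.forall_bool.2 ⟨(Bool.forall_bool.2 ⟨yA8A_c2m00, yA8A_c2m01⟩), (Bool.forall_bool.2 ⟨yA8A_c2m10, yA8A_c2m11⟩)⟩,
    Bool.forall_bool.2 ⟨yA8A_kap0, yA8A_kap1⟩,
    Bool.forall_bool.2 ⟨yA8A_c10, yA8A_c11⟩,
    Bool.forall_bool.2 ⟨(Bool.forall_bool.2 ⟨yA8A_c3p00, yA8A_c3p01⟩), (Bool.forall_bool.2 ⟨yA8A_c3p10, yA8A_c3p11⟩)⟩,
    Bool.forall_bool.2 ⟨(Bool.forall_bool.2 ⟨yA8A_c3m00, yA8A_c3m01⟩), (Bool.forall_bool.2 ⟨yA8A_c3m10, yA8A_c3m11⟩)⟩,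
    Bool.forall_bool.2 ⟨(Bool.forall_bool.2 ⟨yA8A_tmg00, yA8A_tmg01⟩), (Bool.forall_bool.2 ⟨yA8A_tmg10, yA8A_tmg11⟩)⟩,
    .inr (Bool.forall_bool.2 ⟨⟨yA8A_c1h0, Bool.forall_bool.2 ⟨⟨yA8A_c3ph00, yA8A_c3mh00, yA8A_up00, yA8A_um00⟩, ⟨yA8A_c3ph01, yA8A_c3mh01, yA8A_up01, yA8A_um01⟩⟩⟩, ⟨yA8A_c1h1, Bool.forall_bool.2 ⟨⟨yA8A_c3ph10, yA8A_c3mh10, yA8A_up10, yA8A_um10⟩, ⟨yA8A_c3ph11, yA8A_c3mh11, yA8A_up11, yA8A_um11⟩⟩⟩⟩),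
    yA8A_v2p,
    yA8A_v2m,
    yA8A_v3p,
    yA8A_v3m,
    posD_sub (b := ⟨⟨0, 1, 1⟩, ⟨98, 99, 147⟩, ⟨0, 301, 10000⟩, ⟨1060, 4000, 1000⟩⟩) (by decide +kernel) yA_vG,
    posD_sub (b := ⟨⟨0, 1, 1⟩, ⟨98, 99, 147⟩, ⟨0, 301, 10000⟩, ⟨1060, 4000, 1000⟩⟩) (by decide +kernel) yA_vMG,
    posD_sub (b := ⟨⟨0, 1, 1⟩, ⟨98, 99, 147⟩, ⟨0, 301, 10000⟩, ⟨1060, 4000, 1000⟩⟩) (by decide +kernel) yA_ak,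
    posD_sub (b := ⟨⟨0, 1, 1⟩, ⟨98, 99, 147⟩, ⟨0, 301, 10000⟩, ⟨1060, 4000, 1000⟩⟩) (by decide +kernel) yA_aw,
    posD_sub (b := ⟨⟨0, 1, 1⟩, ⟨98, 99, 147⟩, ⟨0, 301, 10000⟩, ⟨1060, 4000, 1000⟩⟩) (by decide +kernel) yA_gk,
    posD_sub (b := ⟨⟨0, 1, 1⟩, ⟨98, 99, 147⟩, ⟨0, 301, 10000⟩, ⟨1060, 4000, 1000⟩⟩) (by decide +kernel) yA_gw,
    posD_sub (b := ⟨⟨0, 1, 1⟩, ⟨98, 99, 147⟩, ⟨0, 301, 10000⟩, ⟨1060, 4000, 1000⟩⟩) (by decide +kernel) yA_ek,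
    posD_sub (b := ⟨⟨0, 1, 1⟩, ⟨98, 99, 147⟩, ⟨0, 301, 10000⟩, ⟨1060, 4000, 1000⟩⟩) (by decide +kernel) yA_ew⟩

def yA8B_pp : PosD ⟨⟨0, 1, 1⟩, ⟨98, 99, 147⟩, ⟨75, 150, 10000⟩, ⟨2776, 2886, 1000⟩⟩ (yA8B.xPL) :=
  posD_of_check (c := ⟨94, ⟨1, 1, 3, 3⟩⟩) (by decide +kernel)

def yA8B_k2p : PosD ⟨⟨0, 1, 1⟩, ⟨98, 99, 147⟩, ⟨75, 150, 10000⟩, ⟨2776, 2886, 1000⟩⟩ (yA8B.k2p yA8B.xE) :=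
  posD_of_check (c := ⟨20, ⟨0, 0, 1, 0⟩⟩) (by decide +kernel)

def yA8B_k2m : PosD ⟨⟨0, 1, 1⟩, ⟨98, 99, 147⟩, ⟨75, 150, 10000⟩, ⟨2776, 2886, 1000⟩⟩ (yA8B.k2m yA8B.xE) :=
  posD_of_check (c := ⟨61, ⟨1, 1, 2, 2⟩⟩) (by decide +kernel)

def yA8B_v2p : PosD ⟨⟨0, 1, 1⟩, ⟨98, 99, 147⟩, ⟨75, 150, 10000⟩, ⟨2776, 2886, 1000⟩⟩ (yA8B.hV2p) :=
  posD_of_check (c := ⟨224, ⟨0, 5, 10, 4⟩⟩) (by decide +kernel)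

def yA8B_v2m : PosD ⟨⟨0, 1, 1⟩, ⟨98, 99, 147⟩, ⟨75, 150, 10000⟩, ⟨2776, 2886, 1000⟩⟩ (yA8B.hV2m) :=
  posD_of_check (c := ⟨254, ⟨1, 6, 10, 5⟩⟩) (by decide +kernel)

def yA8B_v3p : PosD ⟨⟨0, 1, 1⟩, ⟨98, 99, 147⟩, ⟨75, 150, 10000⟩, ⟨2776, 2886, 1000⟩⟩ (yA8B.hV3p) :=
  posD_of_check (c := ⟨220, ⟨0, 5, 9, 4⟩⟩) (by decide +kernel)

def yA8B_v3m : PosD ⟨⟨0, 1, 1⟩, ⟨98, 99, 147⟩, ⟨75, 150, 10000⟩, ⟨2776, 2886, 1000⟩⟩ (yA8B.hV3m) :=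
  posD_of_check (c := ⟨246, ⟨1, 6, 9, 5⟩⟩) (by decide +kernel)

def yA8B_kap0 : PosD ⟨⟨0, 1, 1⟩, ⟨98, 99, 147⟩, ⟨75, 150, 10000⟩, ⟨2776, 2886, 1000⟩⟩ (yA8B.kap false) :=
  posD_of_check (c := ⟨75, ⟨1, 1, 2, 2⟩⟩) (by decide +kernel)

def yA8B_c10 : PosD ⟨⟨0, 1, 1⟩, ⟨98, 99, 147⟩, ⟨75, 150, 10000⟩, ⟨2776, 2886, 1000⟩⟩ (yA8B.hC1 false) :=
  posD_of_check (c := ⟨274, ⟨3, 5, 9, 7⟩⟩) (by decide +kernel)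

def yA8B_c1h0 : PosD ⟨⟨0, 1, 1⟩, ⟨98, 99, 147⟩, ⟨75, 150, 10000⟩, ⟨2776, 2886, 1000⟩⟩ (yA8B.hC1' false) :=
  posD_of_check (c := ⟨274, ⟨3, 5, 9, 7⟩⟩) (by decide +kernel)

def yA8B_tg00 : PosD ⟨⟨0, 1, 1⟩, ⟨98, 99, 147⟩, ⟨75, 150, 10000⟩, ⟨2776, 2886, 1000⟩⟩ (yA8B.hG false (yA8B.pEnd false)) :=
  posD_of_check (c := ⟨376, ⟨2, 7, 14, 9⟩⟩) (by decide +kernel)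

def yA8B_c2p00 : PosD ⟨⟨0, 1, 1⟩, ⟨98, 99, 147⟩, ⟨75, 150, 10000⟩, ⟨2776, 2886, 1000⟩⟩ (yA8B.hC2p false (yA8B.pEnd false)) :=
  posD_of_check (c := ⟨408, ⟨2, 7, 16, 10⟩⟩) (by decide +kernel)

def yA8B_c2m00 : PosD ⟨⟨0, 1, 1⟩, ⟨98, 99, 147⟩, ⟨75, 150, 10000⟩, ⟨2776, 2886, 1000⟩⟩ (yA8B.hC2m false (yA8B.pEnd false)) :=
  posD_of_check (c := ⟨437, ⟨3, 8, 16, 11⟩⟩) (by decide +kernel)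

def yA8B_c3p00 : PosD ⟨⟨0, 1, 1⟩, ⟨98, 99, 147⟩, ⟨75, 150, 10000⟩, ⟨2776, 2886, 1000⟩⟩ (yA8B.hC3p false false) :=
  posD_of_check (c := ⟨413, ⟨3, 7, 15, 10⟩⟩) (by decide +kernel)

def yA8B_c3m00 : PosD ⟨⟨0, 1, 1⟩, ⟨98, 99, 147⟩, ⟨75, 150, 10000⟩, ⟨2776, 2886, 1000⟩⟩ (yA8B.hC3m false false) :=
  posD_of_check (c := ⟨438, ⟨3, 8, 15, 11⟩⟩) (by decide +kernel)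

def yA8B_c3ph00 : PosD ⟨⟨0, 1, 1⟩, ⟨98, 99, 147⟩, ⟨75, 150, 10000⟩, ⟨2776, 2886, 1000⟩⟩ (yA8B.hC3p' false false) :=
  posD_of_check (c := ⟨413, ⟨3, 7, 15, 10⟩⟩) (by decide +kernel)

def yA8B_c3mh00 : PosD ⟨⟨0, 1, 1⟩, ⟨98, 99, 147⟩, ⟨75, 150, 10000⟩, ⟨2776, 2886, 1000⟩⟩ (yA8B.hC3m' false false) :=
  posD_of_check (c := ⟨438, ⟨3, 8, 15, 11⟩⟩) (by decide +kernel)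

def yA8B_up00 : PosD ⟨⟨0, 1, 1⟩, ⟨98, 99, 147⟩, ⟨75, 150, 10000⟩, ⟨2776, 2886, 1000⟩⟩ (yA8B.hUp false false) :=
  posD_of_check (c := ⟨404, ⟨2, 7, 15, 10⟩⟩) (by decide +kernel)

def yA8B_um00 : PosD ⟨⟨0, 1, 1⟩, ⟨98, 99, 147⟩, ⟨75, 150, 10000⟩, ⟨2776, 2886, 1000⟩⟩ (yA8B.hUm false false) :=
  posD_of_check (c := ⟨430, ⟨3, 8, 15, 11⟩⟩) (by decide +kernel)

def yA8B_tmg00 : PosD ⟨⟨0, 1, 1⟩, ⟨98, 99, 147⟩, ⟨75, 150, 10000⟩, ⟨2776, 2886, 1000⟩⟩ (yA8B.hTMG false (yA8B.pEnd false)) :=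
  posD_of_check (c := ⟨389, ⟨2, 7, 14, 10⟩⟩) (by decide +kernel)

def yA8B_tg01 : PosD ⟨⟨0, 1, 1⟩, ⟨98, 99, 147⟩, ⟨75, 150, 10000⟩, ⟨2776, 2886, 1000⟩⟩ (yA8B.hG true (yA8B.pEnd false)) :=
  posD_of_check (c := ⟨376, ⟨2, 7, 14, 9⟩⟩) (by decide +kernel)

def yA8B_c2p01 : PosD ⟨⟨0, 1, 1⟩, ⟨98, 99, 147⟩, ⟨75, 150, 10000⟩, ⟨2776, 2886, 1000⟩⟩ (yA8B.hC2p true (yA8B.pEnd false)) :=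
  posD_of_check (c := ⟨408, ⟨2, 7, 16, 10⟩⟩) (by decide +kernel)

def yA8B_c2m01 : PosD ⟨⟨0, 1, 1⟩, ⟨98, 99, 147⟩, ⟨75, 150, 10000⟩, ⟨2776, 2886, 1000⟩⟩ (yA8B.hC2m true (yA8B.pEnd false)) :=
  posD_of_check (c := ⟨437, ⟨3, 8, 16, 11⟩⟩) (by decide +kernel)

def yA8B_c3p01 : PosD ⟨⟨0, 1, 1⟩, ⟨98, 99, 147⟩, ⟨75, 150, 10000⟩, ⟨2776, 2886, 1000⟩⟩ (yA8B.hC3p false true) :=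
  posD_of_check (c := ⟨413, ⟨3, 7, 15, 10⟩⟩) (by decide +kernel)

def yA8B_c3m01 : PosD ⟨⟨0, 1, 1⟩, ⟨98, 99, 147⟩, ⟨75, 150, 10000⟩, ⟨2776, 2886, 1000⟩⟩ (yA8B.hC3m false true) :=
  posD_of_check (c := ⟨438, ⟨3, 8, 15, 11⟩⟩) (by decide +kernel)

def yA8B_c3ph01 : PosD ⟨⟨0, 1, 1⟩, ⟨98, 99, 147⟩, ⟨75, 150, 10000⟩, ⟨2776, 2886, 1000⟩⟩ (yA8B.hC3p' false true) :=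
  posD_of_check (c := ⟨413, ⟨3, 7, 15, 10⟩⟩) (by decide +kernel)

def yA8B_c3mh01 : PosD ⟨⟨0, 1, 1⟩, ⟨98, 99, 147⟩, ⟨75, 150, 10000⟩, ⟨2776, 2886, 1000⟩⟩ (yA8B.hC3m' false true) :=
  posD_of_check (c := ⟨438, ⟨3, 8, 15, 11⟩⟩) (by decide +kernel)

def yA8B_up01 : PosD ⟨⟨0, 1, 1⟩, ⟨98, 99, 147⟩, ⟨75, 150, 10000⟩, ⟨2776, 2886, 1000⟩⟩ (yA8B.hUp false true) :=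
  posD_of_check (c := ⟨404, ⟨2, 7, 15, 10⟩⟩) (by decide +kernel)

def yA8B_um01 : PosD ⟨⟨0, 1, 1⟩, ⟨98, 99, 147⟩, ⟨75, 150, 10000⟩, ⟨2776, 2886, 1000⟩⟩ (yA8B.hUm false true) :=
  posD_of_check (c := ⟨430, ⟨3, 8, 15, 11⟩⟩) (by decide +kernel)

def yA8B_tmg01 : PosD ⟨⟨0, 1, 1⟩, ⟨98, 99, 147⟩, ⟨75, 150, 10000⟩, ⟨2776, 2886, 1000⟩⟩ (yA8B.hTMG true (yA8B.pEnd false)) :=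
  posD_of_check (c := ⟨389, ⟨2, 7, 14, 10⟩⟩) (by decide +kernel)

def yA8B_kap1 : PosD ⟨⟨0, 1, 1⟩, ⟨98, 99, 147⟩, ⟨75, 150, 10000⟩, ⟨2776, 2886, 1000⟩⟩ (yA8B.kap true) :=
  posD_of_check (c := ⟨73, ⟨1, 1, 2, 2⟩⟩) (by decide +kernel)

def yA8B_c11 : PosD ⟨⟨0, 1, 1⟩, ⟨98, 99, 147⟩, ⟨75, 150, 10000⟩, ⟨2776, 2886, 1000⟩⟩ (yA8B.hC1 true) :=
  posD_of_check (c := ⟨269, ⟨3, 5, 9, 7⟩⟩) (by decide +kernel)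

def yA8B_c1h1 : PosD ⟨⟨0, 1, 1⟩, ⟨98, 99, 147⟩, ⟨75, 150, 10000⟩, ⟨2776, 2886, 1000⟩⟩ (yA8B.hC1' true) :=
  posD_of_check (c := ⟨269, ⟨3, 5, 9, 7⟩⟩) (by decide +kernel)

def yA8B_tg10 : PosD ⟨⟨0, 1, 1⟩, ⟨98, 99, 147⟩, ⟨75, 150, 10000⟩, ⟨2776, 2886, 1000⟩⟩ (yA8B.hG false (yA8B.pEnd true)) :=
  posD_of_check (c := ⟨371, ⟨2, 7, 14, 9⟩⟩) (by decide +kernel)

def yA8B_c2p10 : PosD ⟨⟨0, 1, 1⟩, ⟨98, 99, 147⟩, ⟨75, 150, 10000⟩, ⟨2776, 2886, 1000⟩⟩ (yA8B.hC2p false (yA8B.pEnd true)) :=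
  posD_of_check (c := ⟨403, ⟨2, 7, 16, 10⟩⟩) (by decide +kernel)

def yA8B_c2m10 : PosD ⟨⟨0, 1, 1⟩, ⟨98, 99, 147⟩, ⟨75, 150, 10000⟩, ⟨2776, 2886, 1000⟩⟩ (yA8B.hC2m false (yA8B.pEnd true)) :=
  posD_of_check (c := ⟨432, ⟨3, 8, 16, 11⟩⟩) (by decide +kernel)

def yA8B_c3p10 : PosD ⟨⟨0, 1, 1⟩, ⟨98, 99, 147⟩, ⟨75, 150, 10000⟩, ⟨2776, 2886, 1000⟩⟩ (yA8B.hC3p true false) :=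
  posD_of_check (c := ⟨409, ⟨3, 7, 15, 10⟩⟩) (by decide +kernel)

def yA8B_c3m10 : PosD ⟨⟨0, 1, 1⟩, ⟨98, 99, 147⟩, ⟨75, 150, 10000⟩, ⟨2776, 2886, 1000⟩⟩ (yA8B.hC3m true false) :=
  posD_of_check (c := ⟨434, ⟨3, 8, 15, 11⟩⟩) (by decide +kernel)

def yA8B_c3ph10 : PosD ⟨⟨0, 1, 1⟩, ⟨98, 99, 147⟩, ⟨75, 150, 10000⟩, ⟨2776, 2886, 1000⟩⟩ (yA8B.hC3p' true false) :=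
  posD_of_check (c := ⟨409, ⟨3, 7, 15, 10⟩⟩) (by decide +kernel)

def yA8B_c3mh10 : PosD ⟨⟨0, 1, 1⟩, ⟨98, 99, 147⟩, ⟨75, 150, 10000⟩, ⟨2776, 2886, 1000⟩⟩ (yA8B.hC3m' true false) :=
  posD_of_check (c := ⟨434, ⟨3, 8, 15, 11⟩⟩) (by decide +kernel)

def yA8B_up10 : PosD ⟨⟨0, 1, 1⟩, ⟨98, 99, 147⟩, ⟨75, 150, 10000⟩, ⟨2776, 2886, 1000⟩⟩ (yA8B.hUp true false) :=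
  posD_of_check (c := ⟨400, ⟨2, 7, 15, 10⟩⟩) (by decide +kernel)

def yA8B_um10 : PosD ⟨⟨0, 1, 1⟩, ⟨98, 99, 147⟩, ⟨75, 150, 10000⟩, ⟨2776, 2886, 1000⟩⟩ (yA8B.hUm true false) :=
  posD_of_check (c := ⟨426, ⟨3, 8, 15, 11⟩⟩) (by decide +kernel)

def yA8B_tmg10 : PosD ⟨⟨0, 1, 1⟩, ⟨98, 99, 147⟩, ⟨75, 150, 10000⟩, ⟨2776, 2886, 1000⟩⟩ (yA8B.hTMG false (yA8B.pEnd true)) :=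
  posD_of_check (c := ⟨387, ⟨2, 7, 14, 10⟩⟩) (by decide +kernel)

def yA8B_tg11 : PosD ⟨⟨0, 1, 1⟩, ⟨98, 99, 147⟩, ⟨75, 150, 10000⟩, ⟨2776, 2886, 1000⟩⟩ (yA8B.hG true (yA8B.pEnd true)) :=
  posD_of_check (c := ⟨371, ⟨2, 7, 14, 9⟩⟩) (by decide +kernel)

def yA8B_c2p11 : PosD ⟨⟨0, 1, 1⟩, ⟨98, 99, 147⟩, ⟨75, 150, 10000⟩, ⟨2776, 2886, 1000⟩⟩ (yA8B.hC2p true (yA8B.pEnd true)) :=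
  posD_of_check (c := ⟨403, ⟨2, 7, 16, 10⟩⟩) (by decide +kernel)

def yA8B_c2m11 : PosD ⟨⟨0, 1, 1⟩, ⟨98, 99, 147⟩, ⟨75, 150, 10000⟩, ⟨2776, 2886, 1000⟩⟩ (yA8B.hC2m true (yA8B.pEnd true)) :=
  posD_of_check (c := ⟨432, ⟨3, 8, 16, 11⟩⟩) (by decide +kernel)

def yA8B_c3p11 : PosD ⟨⟨0, 1, 1⟩, ⟨98, 99, 147⟩, ⟨75, 150, 10000⟩, ⟨2776, 2886, 1000⟩⟩ (yA8B.hC3p true true) :=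
  posD_of_check (c := ⟨409, ⟨3, 7, 15, 10⟩⟩) (by decide +kernel)

def yA8B_c3m11 : PosD ⟨⟨0, 1, 1⟩, ⟨98, 99, 147⟩, ⟨75, 150, 10000⟩, ⟨2776, 2886, 1000⟩⟩ (yA8B.hC3m true true) :=
  posD_of_check (c := ⟨434, ⟨3, 8, 15, 11⟩⟩) (by decide +kernel)

def yA8B_c3ph11 : PosD ⟨⟨0, 1, 1⟩, ⟨98, 99, 147⟩, ⟨75, 150, 10000⟩, ⟨2776, 2886, 1000⟩⟩ (yA8B.hC3p' true true) :=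
  posD_of_check (c := ⟨409, ⟨3, 7, 15, 10⟩⟩) (by decide +kernel)

def yA8B_c3mh11 : PosD ⟨⟨0, 1, 1⟩, ⟨98, 99, 147⟩, ⟨75, 150, 10000⟩, ⟨2776, 2886, 1000⟩⟩ (yA8B.hC3m' true true) :=
  posD_of_check (c := ⟨434, ⟨3, 8, 15, 11⟩⟩) (by decide +kernel)

def yA8B_up11 : PosD ⟨⟨0, 1, 1⟩, ⟨98, 99, 147⟩, ⟨75, 150, 10000⟩, ⟨2776, 2886, 1000⟩⟩ (yA8B.hUp true true) :=
  posD_of_check (c := ⟨400, ⟨2, 7, 15, 10⟩⟩) (by decide +kernel)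

def yA8B_um11 : PosD ⟨⟨0, 1, 1⟩, ⟨98, 99, 147⟩, ⟨75, 150, 10000⟩, ⟨2776, 2886, 1000⟩⟩ (yA8B.hUm true true) :=
  posD_of_check (c := ⟨426, ⟨3, 8, 15, 11⟩⟩) (by decide +kernel)

def yA8B_tmg11 : PosD ⟨⟨0, 1, 1⟩, ⟨98, 99, 147⟩, ⟨75, 150, 10000⟩, ⟨2776, 2886, 1000⟩⟩ (yA8B.hTMG true (yA8B.pEnd true)) :=
  posD_of_check (c := ⟨387, ⟨2, 7, 14, 10⟩⟩) (by decide +kernel)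

/-- The signs of the piece. -/
def yA8B_sign : yA8B.Sign ⟨⟨0, 1, 1⟩, ⟨98, 99, 147⟩, ⟨75, 150, 10000⟩, ⟨2776, 2886, 1000⟩⟩ :=
  ⟨yA8B_pp,
    yA8B_k2p,
    yA8B_k2m,
    Bool.forall_bool.2 ⟨(Bool.forall_bool.2 ⟨yA8B_tg00, yA8B_tg01⟩), (Bool.forall_bool.2 ⟨yA8B_tg10, yA8B_tg11⟩)⟩,
    Bool.forall_bool.2 ⟨(Bool.forall_bool.2 ⟨yA8B_c2p00, yA8B_c2p01⟩), (Bool.forall_bool.2 ⟨yA8B_c2p10, yA8B_c2p11⟩)⟩,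
    Bool.forall_bool.2 ⟨(Bool.forall_bool.2 ⟨yA8B_c2m00, yA8B_c2m01⟩), (Bool.forall_bool.2 ⟨yA8B_c2m10, yA8B_c2m11⟩)⟩,
    Bool.forall_bool.2 ⟨yA8B_kap0, yA8B_kap1⟩,
    Bool.forall_bool.2 ⟨yA8B_c10, yA8B_c11⟩,
    Bool.forall_bool.2 ⟨(Bool.forall_bool.2 ⟨yA8B_c3p00, yA8B_c3p01⟩), (Bool.forall_bool.2 ⟨yA8B_c3p10, yA8B_c3p11⟩)⟩,
    Bool.forall_bool.2 ⟨(Bool.forall_bool.2 ⟨yA8B_c3m00, yA8B_c3m01⟩), (Bool.forall_bool.2 ⟨yA8B_c3m10, yA8B_c3m11⟩)⟩,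
    Bool.forall_bool.2 ⟨(Bool.forall_bool.2 ⟨yA8B_tmg00, yA8B_tmg01⟩), (Bool.forall_bool.2 ⟨yA8B_tmg10, yA8B_tmg11⟩)⟩,
    .inr (Bool.forall_bool.2 ⟨⟨yA8B_c1h0, Bool.forall_bool.2 ⟨⟨yA8B_c3ph00, yA8B_c3mh00, yA8B_up00, yA8B_um00⟩, ⟨yA8B_c3ph01, yA8B_c3mh01, yA8B_up01, yA8B_um01⟩⟩⟩, ⟨yA8B_c1h1, Bool.forall_bool.2 ⟨⟨yA8B_c3ph10, yA8B_c3mh10, yA8B_up10, yA8B_um10⟩, ⟨yA8B_c3ph11, yA8B_c3mh11, yA8B_up11, yA8B_um11⟩⟩⟩⟩),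
    yA8B_v2p,
    yA8B_v2m,
    yA8B_v3p,
    yA8B_v3m,
    posD_sub (b := ⟨⟨0, 1, 1⟩, ⟨98, 99, 147⟩, ⟨0, 301, 10000⟩, ⟨1060, 4000, 1000⟩⟩) (by decide +kernel) yA_vG,
    posD_sub (b := ⟨⟨0, 1, 1⟩, ⟨98, 99, 147⟩, ⟨0, 301, 10000⟩, ⟨1060, 4000, 1000⟩⟩) (by decide +kernel) yA_vMG,
    posD_sub (b := ⟨⟨0, 1, 1⟩, ⟨98, 99, 147⟩, ⟨0, 301, 10000⟩, ⟨1060, 4000, 1000⟩⟩) (by decide +kernel) yA_ak,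
    posD_sub (b := ⟨⟨0, 1, 1⟩, ⟨98, 99, 147⟩, ⟨0, 301, 10000⟩, ⟨1060, 4000, 1000⟩⟩) (by decide +kernel) yA_aw,
    posD_sub (b := ⟨⟨0, 1, 1⟩, ⟨98, 99, 147⟩, ⟨0, 301, 10000⟩, ⟨1060, 4000, 1000⟩⟩) (by decide +kernel) yA_gk,
    posD_sub (b := ⟨⟨0, 1, 1⟩, ⟨98, 99, 147⟩, ⟨0, 301, 10000⟩, ⟨1060, 4000, 1000⟩⟩) (by decide +kernel) yA_gw,
    posD_sub (b := ⟨⟨0, 1, 1⟩, ⟨98, 99, 147⟩, ⟨0, 301, 10000⟩, ⟨1060, 4000, 1000⟩⟩) (by decide +kernel) yA_ek,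
    posD_sub (b := ⟨⟨0, 1, 1⟩, ⟨98, 99, 147⟩, ⟨0, 301, 10000⟩, ⟨1060, 4000, 1000⟩⟩) (by decide +kernel) yA_ew⟩

end Vale.Agent.P100.Calib.Closed.Six.Tail
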