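import Vale.Agent.P100.Calib.SlabSixTailDataLayerA
import Vale.Agent.P100.Calib.SlabSixTailGlobLayerA

/-!
# Checks of some pieces of the certificate

The checks are written as definitions so that they run one after another, which keeps the memory of the
kernel low.
-/

set_option linter.defProp false

namespace Vale.Agent.P100.Calib.Closed.Six.Tail

open BoxPos Large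

local instance sixTailChecksyA7Add : Add Ex := ⟨Ex.add⟩
local instance sixTailChecksyA7Sub : Sub Ex := ⟨Ex.sub⟩
local instance sixTailChecksyA7Mul : Mul Ex := ⟨Ex.mul⟩

def yA9_phx : PosD ⟨⟨0, 1, 1⟩, ⟨98, 99, 147⟩, ⟨150, 301, 10000⟩, ⟨2776, 2886, 1000⟩⟩ (phAn (yA9Hi + xO * (yA9Lo - yA9Hi))) :=
  posD_of_check (c := ⟨88, ⟨2, 0, 4, 1⟩⟩) (by decide +kernel)

def yA9_phd : PosD ⟨⟨0, 1, 1⟩, ⟨98, 99, 147⟩, ⟨150, 301, 10000⟩, ⟨2776, 2886, 1000⟩⟩ (phAd (yA9Hi + xO * (yA9Lo - yA9Hi))) :=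
  posD_of_check (c := ⟨47, ⟨1, 0, 2, 0⟩⟩) (by decide +kernel)

def yA10_p0 : PosD ⟨⟨0, 1, 1⟩, ⟨98, 99, 147⟩, ⟨150, 301, 10000⟩, ⟨2776, 2886, 1000⟩⟩ (yA10.hP0) :=
  posD_of_check (c := ⟨82, ⟨0, 2, 3, 1⟩⟩) (by decide +kernel)

def yA10_gn : PosD ⟨⟨0, 1, 1⟩, ⟨98, 99, 147⟩, ⟨150, 301, 10000⟩, ⟨2776, 2886, 1000⟩⟩ (yA10.hGn) :=
  posD_of_check (c := ⟨59, ⟨1, 1, 2, 1⟩⟩) (by decide +kernel)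

def yA10_den0 : PosD ⟨⟨0, 1, 1⟩, ⟨98, 99, 147⟩, ⟨150, 301, 10000⟩, ⟨2776, 2886, 1000⟩⟩ (yA10.hDen false) :=
  posD_of_check (c := ⟨45, ⟨0, 0, 2, 0⟩⟩) (by decide +kernel)

def yA10_den1 : PosD ⟨⟨0, 1, 1⟩, ⟨98, 99, 147⟩, ⟨150, 301, 10000⟩, ⟨2776, 2886, 1000⟩⟩ (yA10.hDen true) :=
  posD_of_check (c := ⟨24, ⟨1, 0, 1, 0⟩⟩) (by decide +kernel)

def yA10_ev0 : PosD ⟨⟨0, 1, 1⟩, ⟨98, 99, 147⟩, ⟨150, 301, 10000⟩, ⟨2776, 2886, 1000⟩⟩ (yA10.hEv false) :=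
  posD_of_check (c := ⟨152, ⟨2, 2, 6, 1⟩⟩) (by decide +kernel)

def yA10_zL0 : PosD ⟨⟨0, 1, 1⟩, ⟨98, 99, 147⟩, ⟨150, 301, 10000⟩, ⟨2776, 2886, 1000⟩⟩ (yA10.hZL false) :=
  posD_of_check (c := ⟨163, ⟨2, 3, 6, 3⟩⟩) (by decide +kernel)

def yA10_zU0 : PosD ⟨⟨0, 1, 1⟩, ⟨98, 99, 147⟩, ⟨150, 301, 10000⟩, ⟨2776, 2886, 1000⟩⟩ (yA10.hZU false) :=
  posD_of_check (c := ⟨163, ⟨2, 3, 6, 3⟩⟩) (by decide +kernel)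

def yA10_eL0 : PosD ⟨⟨0, 1, 1⟩, ⟨98, 99, 147⟩, ⟨150, 301, 10000⟩, ⟨2776, 2886, 1000⟩⟩ (yA10.hEL false) :=
  posD_of_check (c := ⟨271, ⟨3, 6, 9, 3⟩⟩) (by decide +kernel)

def yA10_eH0 : PosD ⟨⟨0, 1, 1⟩, ⟨98, 99, 147⟩, ⟨150, 301, 10000⟩, ⟨2776, 2886, 1000⟩⟩ (yA10.hEH false) :=
  posD_of_check (c := ⟨245, ⟨3, 6, 9, 3⟩⟩) (by decide +kernel)

def yA10_pL0 : PosD ⟨⟨0, 1, 1⟩, ⟨98, 99, 147⟩, ⟨150, 301, 10000⟩, ⟨2776, 2886, 1000⟩⟩ (yA10.hPL false) :=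
  posD_of_check (c := ⟨264, ⟨3, 6, 9, 3⟩⟩) (by decide +kernel)

def yA10_pU0 : PosD ⟨⟨0, 1, 1⟩, ⟨98, 99, 147⟩, ⟨150, 301, 10000⟩, ⟨2776, 2886, 1000⟩⟩ (yA10.hPU false) :=
  posD_of_check (c := ⟨273, ⟨3, 6, 9, 3⟩⟩) (by decide +kernel)

def yA10_kU0 : PosD ⟨⟨0, 1, 1⟩, ⟨98, 99, 147⟩, ⟨150, 301, 10000⟩, ⟨2776, 2886, 1000⟩⟩ (yA10.hKU false) :=
  posD_of_check (c := ⟨259, ⟨3, 6, 9, 3⟩⟩) (by decide +kernel)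

def yA10_kL0 : PosD ⟨⟨0, 1, 1⟩, ⟨98, 99, 147⟩, ⟨150, 301, 10000⟩, ⟨2776, 2886, 1000⟩⟩ (yA10.hKL false) :=
  posD_of_check (c := ⟨260, ⟨3, 6, 9, 3⟩⟩) (by decide +kernel)

def yA10_wU0 : PosD ⟨⟨0, 1, 1⟩, ⟨98, 99, 147⟩, ⟨150, 301, 10000⟩, ⟨2776, 2886, 1000⟩⟩ (yA10.hWU false) :=
  posD_of_check (c := ⟨295, ⟨3, 8, 10, 3⟩⟩) (by decide +kernel)

def yA10_wL0 : PosD ⟨⟨0, 1, 1⟩, ⟨98, 99, 147⟩, ⟨150, 301, 10000⟩, ⟨2776, 2886, 1000⟩⟩ (yA10.hWL false) :=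
  posD_of_check (c := ⟨304, ⟨3, 8, 10, 3⟩⟩) (by decide +kernel)

def yA10_ev1 : PosD ⟨⟨0, 1, 1⟩, ⟨98, 99, 147⟩, ⟨150, 301, 10000⟩, ⟨2776, 2886, 1000⟩⟩ (yA10.hEv true) :=
  posD_of_check (c := ⟨124, ⟨2, 2, 6, 1⟩⟩) (by decide +kernel)

def yA10_zL1 : PosD ⟨⟨0, 1, 1⟩, ⟨98, 99, 147⟩, ⟨150, 301, 10000⟩, ⟨2776, 2886, 1000⟩⟩ (yA10.hZL true) :=
  posD_of_check (c := ⟨136, ⟨2, 3, 6, 3⟩⟩) (by decide +kernel)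

def yA10_zU1 : PosD ⟨⟨0, 1, 1⟩, ⟨98, 99, 147⟩, ⟨150, 301, 10000⟩, ⟨2776, 2886, 1000⟩⟩ (yA10.hZU true) :=
  posD_of_check (c := ⟨136, ⟨2, 3, 6, 3⟩⟩) (by decide +kernel)

def yA10_eL1 : PosD ⟨⟨0, 1, 1⟩, ⟨98, 99, 147⟩, ⟨150, 301, 10000⟩, ⟨2776, 2886, 1000⟩⟩ (yA10.hEL true) :=
  posD_of_check (c := ⟨243, ⟨3, 6, 9, 3⟩⟩) (by decide +kernel)

def yA10_eH1 : PosD ⟨⟨0, 1, 1⟩, ⟨98, 99, 147⟩, ⟨150, 301, 10000⟩, ⟨2776, 2886, 1000⟩⟩ (yA10.hEH true) :=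
  posD_of_check (c := ⟨216, ⟨3, 6, 9, 3⟩⟩) (by decide +kernel)

def yA10_pL1 : PosD ⟨⟨0, 1, 1⟩, ⟨98, 99, 147⟩, ⟨150, 301, 10000⟩, ⟨2776, 2886, 1000⟩⟩ (yA10.hPL true) :=
  posD_of_check (c := ⟨236, ⟨3, 6, 9, 3⟩⟩) (by decide +kernel)

def yA10_pU1 : PosD ⟨⟨0, 1, 1⟩, ⟨98, 99, 147⟩, ⟨150, 301, 10000⟩, ⟨2776, 2886, 1000⟩⟩ (yA10.hPU true) :=
  posD_of_check (c := ⟨245, ⟨3, 6, 9, 3⟩⟩) (by decide +kernel)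

def yA10_kU1 : PosD ⟨⟨0, 1, 1⟩, ⟨98, 99, 147⟩, ⟨150, 301, 10000⟩, ⟨2776, 2886, 1000⟩⟩ (yA10.hKU true) :=
  posD_of_check (c := ⟨231, ⟨3, 6, 9, 3⟩⟩) (by decide +kernel)

def yA10_kL1 : PosD ⟨⟨0, 1, 1⟩, ⟨98, 99, 147⟩, ⟨150, 301, 10000⟩, ⟨2776, 2886, 1000⟩⟩ (yA10.hKL true) :=
  posD_of_check (c := ⟨231, ⟨3, 6, 9, 3⟩⟩) (by decide +kernel)

def yA10_wU1 : PosD ⟨⟨0, 1, 1⟩, ⟨98, 99, 147⟩, ⟨150, 301, 10000⟩, ⟨2776, 2886, 1000⟩⟩ (yA10.hWU true) :=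
  posD_of_check (c := ⟨266, ⟨3, 8, 10, 3⟩⟩) (by decide +kernel)

def yA10_wL1 : PosD ⟨⟨0, 1, 1⟩, ⟨98, 99, 147⟩, ⟨150, 301, 10000⟩, ⟨2776, 2886, 1000⟩⟩ (yA10.hWL true) :=
  posD_of_check (c := ⟨276, ⟨3, 8, 10, 3⟩⟩) (by decide +kernel)

def yA10_nueL : PosD ⟨⟨0, 1, 1⟩, ⟨98, 99, 147⟩, ⟨150, 301, 10000⟩, ⟨2776, 2886, 1000⟩⟩ (yA10.eL.ν) :=
  posD_of_check (c := ⟨45, ⟨0, 0, 1, 1⟩⟩) (by decide +kernel)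

def yA10_nupU : PosD ⟨⟨0, 1, 1⟩, ⟨98, 99, 147⟩, ⟨150, 301, 10000⟩, ⟨2776, 2886, 1000⟩⟩ (yA10.pU.ν) :=
  posD_of_check (c := ⟨47, ⟨0, 0, 1, 1⟩⟩) (by decide +kernel)

def yA10_nuwL : PosD ⟨⟨0, 1, 1⟩, ⟨98, 99, 147⟩, ⟨150, 301, 10000⟩, ⟨2776, 2886, 1000⟩⟩ (yA10.wL.ν) :=
  posD_of_check (c := ⟨48, ⟨0, 0, 1, 1⟩⟩) (by decide +kernel)

/-- The bounds of the piece. -/
def yA10_env : yA10.Env ⟨⟨0, 1, 1⟩, ⟨98, 99, 147⟩, ⟨150, 301, 10000⟩, ⟨2776, 2886, 1000⟩⟩ :=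
  ⟨yA10_p0, Bool.forall_bool.2 ⟨yA10_den0, yA10_den1⟩, yA10_gn, Bool.forall_bool.2 ⟨yA10_ev0, yA10_ev1⟩, Bool.forall_bool.2 ⟨yA10_zL0, yA10_zL1⟩, Bool.forall_bool.2 ⟨yA10_zU0, yA10_zU1⟩, Bool.forall_bool.2 ⟨yA10_eL0, yA10_eL1⟩, ⟨.inr rfl, .inl yA10_nueL⟩, Bool.forall_bool.2 ⟨yA10_eH0, yA10_eH1⟩, ⟨.inr rfl, .inr rfl⟩, Bool.forall_bool.2 ⟨yA10_pL0, yA10_pL1⟩, ⟨.inr rfl, .inr rfl⟩, Bool.forall_bool.2 ⟨yA10_pU0, yA10_pU1⟩, ⟨.inr rfl, .inl yA10_nupU⟩, Bool.forall_bool.2 ⟨yA10_kU0, yA10_kU1⟩, ⟨.inr rfl, .inr rfl⟩, Bool.forall_bool.2 ⟨yA10_kL0, yA10_kL1⟩, ⟨.inr rfl, .inr rfl⟩, Bool.forall_bool.2 ⟨yA10_wU0, yA10_wU1⟩, ⟨.inr rfl, .inr rfl⟩, Bool.forall_bool.2 ⟨yA10_wL0, yA10_wL1⟩, ⟨.inr rfl, .inl yA10_nuwL⟩⟩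

def yA10_pU20 : PosD ⟨⟨0, 1, 1⟩, ⟨98, 99, 147⟩, ⟨150, 301, 10000⟩, ⟨2776, 2886, 1000⟩⟩ (({ yA10 with pU := yA10PU } : Piece).hPU false) :=
  posD_of_check (c := ⟨264, ⟨3, 6, 9, 3⟩⟩) (by decide +kernel)

def yA10_pU21 : PosD ⟨⟨0, 1, 1⟩, ⟨98, 99, 147⟩, ⟨150, 301, 10000⟩, ⟨2776, 2886, 1000⟩⟩ (({ yA10 with pU := yA10PU } : Piece).hPU true) :=
  posD_of_check (c := ⟨236, ⟨3, 6, 9, 3⟩⟩) (by decide +kernel)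

/-- The bounds with the other bound of `p`. -/
def yA10_envU : ({ yA10 with pU := yA10PU } : Piece).Env ⟨⟨0, 1, 1⟩, ⟨98, 99, 147⟩, ⟨150, 301, 10000⟩, ⟨2776, 2886, 1000⟩⟩ :=
  yA10_env.withU yA10PU (Bool.forall_bool.2 ⟨yA10_pU20, yA10_pU21⟩) ⟨.inr rfl, .inr rfl⟩

def yA10A_pp : PosD ⟨⟨0, 1, 1⟩, ⟨98, 99, 147⟩, ⟨150, 301, 10000⟩, ⟨2776, 2886, 1000⟩⟩ (yA10A.xPL) :=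
  posD_of_check (c := ⟨92, ⟨1, 1, 3, 3⟩⟩) (by decide +kernel)

def yA10A_k2p : PosD ⟨⟨0, 1, 1⟩, ⟨98, 99, 147⟩, ⟨150, 301, 10000⟩, ⟨2776, 2886, 1000⟩⟩ (yA10A.k2p yA10A.xE) :=
  posD_of_check (c := ⟨62, ⟨1, 1, 2, 2⟩⟩) (by decide +kernel)

def yA10A_k2m : PosD ⟨⟨0, 1, 1⟩, ⟨98, 99, 147⟩, ⟨150, 301, 10000⟩, ⟨2776, 2886, 1000⟩⟩ (yA10A.k2m yA10A.xE) :=
  posD_of_check (c := ⟨61, ⟨1, 1, 2, 2⟩⟩) (by decide +kernel)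

def yA10A_v2p : PosD ⟨⟨0, 1, 1⟩, ⟨98, 99, 147⟩, ⟨150, 301, 10000⟩, ⟨2776, 2886, 1000⟩⟩ (yA10A.hV2p) :=
  posD_of_check (c := ⟨255, ⟨1, 6, 10, 5⟩⟩) (by decide +kernel)

def yA10A_v2m : PosD ⟨⟨0, 1, 1⟩, ⟨98, 99, 147⟩, ⟨150, 301, 10000⟩, ⟨2776, 2886, 1000⟩⟩ (yA10A.hV2m) :=
  posD_of_check (c := ⟨254, ⟨1, 6, 10, 5⟩⟩) (by decide +kernel)

def yA10A_v3p : PosD ⟨⟨0, 1, 1⟩, ⟨98, 99, 147⟩, ⟨150, 301, 10000⟩, ⟨2776, 2886, 1000⟩⟩ (yA10A.hV3p) :=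
  posD_of_check (c := ⟨246, ⟨1, 6, 9, 5⟩⟩) (by decide +kernel)

def yA10A_v3m : PosD ⟨⟨0, 1, 1⟩, ⟨98, 99, 147⟩, ⟨150, 301, 10000⟩, ⟨2776, 2886, 1000⟩⟩ (yA10A.hV3m) :=
  posD_of_check (c := ⟨246, ⟨1, 6, 9, 5⟩⟩) (by decide +kernel)

def yA10A_kap0 : PosD ⟨⟨0, 1, 1⟩, ⟨98, 99, 147⟩, ⟨150, 301, 10000⟩, ⟨2776, 2886, 1000⟩⟩ (yA10A.kap false) :=
  posD_of_check (c := ⟨69, ⟨1, 1, 2, 2⟩⟩) (by decide +kernel)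

def yA10A_c10 : PosD ⟨⟨0, 1, 1⟩, ⟨98, 99, 147⟩, ⟨150, 301, 10000⟩, ⟨2776, 2886, 1000⟩⟩ (yA10A.hC1 false) :=
  posD_of_check (c := ⟨266, ⟨3, 5, 9, 7⟩⟩) (by decide +kernel)

def yA10A_neg0 : PosD ⟨⟨0, 1, 1⟩, ⟨98, 99, 147⟩, ⟨150, 301, 10000⟩, ⟨2776, 2886, 1000⟩⟩ (yA10A.hNeg (yA10A.pEnd false)) :=
  posD_of_check (c := ⟨258, ⟨2, 5, 9, 6⟩⟩) (by decide +kernel)

def yA10A_neglo0 : PosD ⟨⟨0, 1, 1⟩, ⟨98, 99, 147⟩, ⟨150, 301, 10000⟩, ⟨2776, 2886, 1000⟩⟩ (yA10A.hNegLo (yA10A.pEnd false)) :=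
  posD_of_check (c := ⟨260, ⟨2, 5, 9, 7⟩⟩) (by decide +kernel)

def yA10A_tg00 : PosD ⟨⟨0, 1, 1⟩, ⟨98, 99, 147⟩, ⟨150, 301, 10000⟩, ⟨2776, 2886, 1000⟩⟩ (yA10A.hG false (yA10A.pEnd false)) :=
  posD_of_check (c := ⟨372, ⟨2, 7, 14, 9⟩⟩) (by decide +kernel)

def yA10A_c2p00 : PosD ⟨⟨0, 1, 1⟩, ⟨98, 99, 147⟩, ⟨150, 301, 10000⟩, ⟨2776, 2886, 1000⟩⟩ (yA10A.hC2p false (yA10A.pEnd false)) :=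
  posD_of_check (c := ⟨434, ⟨3, 8, 16, 11⟩⟩) (by decide +kernel)

def yA10A_c2m00 : PosD ⟨⟨0, 1, 1⟩, ⟨98, 99, 147⟩, ⟨150, 301, 10000⟩, ⟨2776, 2886, 1000⟩⟩ (yA10A.hC2m false (yA10A.pEnd false)) :=
  posD_of_check (c := ⟨433, ⟨3, 8, 16, 11⟩⟩) (by decide +kernel)

def yA10A_c3p00 : PosD ⟨⟨0, 1, 1⟩, ⟨98, 99, 147⟩, ⟨150, 301, 10000⟩, ⟨2776, 2886, 1000⟩⟩ (yA10A.hC3p false false) :=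
  posD_of_check (c := ⟨430, ⟨3, 8, 15, 11⟩⟩) (by decide +kernel)

def yA10A_c3m00 : PosD ⟨⟨0, 1, 1⟩, ⟨98, 99, 147⟩, ⟨150, 301, 10000⟩, ⟨2776, 2886, 1000⟩⟩ (yA10A.hC3m false false) :=
  posD_of_check (c := ⟨430, ⟨3, 8, 15, 11⟩⟩) (by decide +kernel)

def yA10A_tmg00 : PosD ⟨⟨0, 1, 1⟩, ⟨98, 99, 147⟩, ⟨150, 301, 10000⟩, ⟨2776, 2886, 1000⟩⟩ (yA10A.hTMG false (yA10A.pEnd false)) :=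
  posD_of_check (c := ⟨387, ⟨2, 7, 14, 10⟩⟩) (by decide +kernel)

def yA10A_tg01 : PosD ⟨⟨0, 1, 1⟩, ⟨98, 99, 147⟩, ⟨150, 301, 10000⟩, ⟨2776, 2886, 1000⟩⟩ (yA10A.hG true (yA10A.pEnd false)) :=
  posD_of_check (c := ⟨372, ⟨2, 7, 14, 9⟩⟩) (by decide +kernel)

def yA10A_c2p01 : PosD ⟨⟨0, 1, 1⟩, ⟨98, 99, 147⟩, ⟨150, 301, 10000⟩, ⟨2776, 2886, 1000⟩⟩ (yA10A.hC2p true (yA10A.pEnd false)) :=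
  posD_of_check (c := ⟨434, ⟨3, 8, 16, 11⟩⟩) (by decide +kernel)

def yA10A_c2m01 : PosD ⟨⟨0, 1, 1⟩, ⟨98, 99, 147⟩, ⟨150, 301, 10000⟩, ⟨2776, 2886, 1000⟩⟩ (yA10A.hC2m true (yA10A.pEnd false)) :=
  posD_of_check (c := ⟨433, ⟨3, 8, 16, 11⟩⟩) (by decide +kernel)

def yA10A_c3p01 : PosD ⟨⟨0, 1, 1⟩, ⟨98, 99, 147⟩, ⟨150, 301, 10000⟩, ⟨2776, 2886, 1000⟩⟩ (yA10A.hC3p false true) :=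
  posD_of_check (c := ⟨430, ⟨3, 8, 15, 11⟩⟩) (by decide +kernel)

def yA10A_c3m01 : PosD ⟨⟨0, 1, 1⟩, ⟨98, 99, 147⟩, ⟨150, 301, 10000⟩, ⟨2776, 2886, 1000⟩⟩ (yA10A.hC3m false true) :=
  posD_of_check (c := ⟨430, ⟨3, 8, 15, 11⟩⟩) (by decide +kernel)

def yA10A_tmg01 : PosD ⟨⟨0, 1, 1⟩, ⟨98, 99, 147⟩, ⟨150, 301, 10000⟩, ⟨2776, 2886, 1000⟩⟩ (yA10A.hTMG true (yA10A.pEnd false)) :=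
  posD_of_check (c := ⟨387, ⟨2, 7, 14, 10⟩⟩) (by decide +kernel)

def yA10A_kap1 : PosD ⟨⟨0, 1, 1⟩, ⟨98, 99, 147⟩, ⟨150, 301, 10000⟩, ⟨2776, 2886, 1000⟩⟩ (yA10A.kap true) :=
  posD_of_check (c := ⟨69, ⟨1, 1, 2, 2⟩⟩) (by decide +kernel)

def yA10A_c11 : PosD ⟨⟨0, 1, 1⟩, ⟨98, 99, 147⟩, ⟨150, 301, 10000⟩, ⟨2776, 2886, 1000⟩⟩ (yA10A.hC1 true) :=
  posD_of_check (c := ⟨265, ⟨3, 5, 9, 7⟩⟩) (by decide +kernel)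

def yA10A_neg1 : PosD ⟨⟨0, 1, 1⟩, ⟨98, 99, 147⟩, ⟨150, 301, 10000⟩, ⟨2776, 2886, 1000⟩⟩ (yA10A.hNeg (yA10A.pEnd true)) :=
  posD_of_check (c := ⟨258, ⟨2, 5, 9, 6⟩⟩) (by decide +kernel)

def yA10A_neglo1 : PosD ⟨⟨0, 1, 1⟩, ⟨98, 99, 147⟩, ⟨150, 301, 10000⟩, ⟨2776, 2886, 1000⟩⟩ (yA10A.hNegLo (yA10A.pEnd true)) :=
  posD_of_check (c := ⟨259, ⟨2, 5, 9, 7⟩⟩) (by decide +kernel)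

def yA10A_tg10 : PosD ⟨⟨0, 1, 1⟩, ⟨98, 99, 147⟩, ⟨150, 301, 10000⟩, ⟨2776, 2886, 1000⟩⟩ (yA10A.hG false (yA10A.pEnd true)) :=
  posD_of_check (c := ⟨371, ⟨2, 7, 14, 9⟩⟩) (by decide +kernel)

def yA10A_c2p10 : PosD ⟨⟨0, 1, 1⟩, ⟨98, 99, 147⟩, ⟨150, 301, 10000⟩, ⟨2776, 2886, 1000⟩⟩ (yA10A.hC2p false (yA10A.pEnd true)) :=
  posD_of_check (c := ⟨433, ⟨3, 8, 16, 11⟩⟩) (by decide +kernel)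

def yA10A_c2m10 : PosD ⟨⟨0, 1, 1⟩, ⟨98, 99, 147⟩, ⟨150, 301, 10000⟩, ⟨2776, 2886, 1000⟩⟩ (yA10A.hC2m false (yA10A.pEnd true)) :=
  posD_of_check (c := ⟨433, ⟨3, 8, 16, 11⟩⟩) (by decide +kernel)

def yA10A_c3p10 : PosD ⟨⟨0, 1, 1⟩, ⟨98, 99, 147⟩, ⟨150, 301, 10000⟩, ⟨2776, 2886, 1000⟩⟩ (yA10A.hC3p true false) :=
  posD_of_check (c := ⟨430, ⟨3, 8, 15, 11⟩⟩) (by decide +kernel)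

def yA10A_c3m10 : PosD ⟨⟨0, 1, 1⟩, ⟨98, 99, 147⟩, ⟨150, 301, 10000⟩, ⟨2776, 2886, 1000⟩⟩ (yA10A.hC3m true false) :=
  posD_of_check (c := ⟨430, ⟨3, 8, 15, 11⟩⟩) (by decide +kernel)

def yA10A_tmg10 : PosD ⟨⟨0, 1, 1⟩, ⟨98, 99, 147⟩, ⟨150, 301, 10000⟩, ⟨2776, 2886, 1000⟩⟩ (yA10A.hTMG false (yA10A.pEnd true)) :=
  posD_of_check (c := ⟨387, ⟨2, 7, 14, 10⟩⟩) (by decide +kernel)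

def yA10A_tg11 : PosD ⟨⟨0, 1, 1⟩, ⟨98, 99, 147⟩, ⟨150, 301, 10000⟩, ⟨2776, 2886, 1000⟩⟩ (yA10A.hG true (yA10A.pEnd true)) :=
  posD_of_check (c := ⟨371, ⟨2, 7, 14, 9⟩⟩) (by decide +kernel)

def yA10A_c2p11 : PosD ⟨⟨0, 1, 1⟩, ⟨98, 99, 147⟩, ⟨150, 301, 10000⟩, ⟨2776, 2886, 1000⟩⟩ (yA10A.hC2p true (yA10A.pEnd true)) :=
  posD_of_check (c := ⟨433, ⟨3, 8, 16, 11⟩⟩) (by decide +kernel)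

def yA10A_c2m11 : PosD ⟨⟨0, 1, 1⟩, ⟨98, 99, 147⟩, ⟨150, 301, 10000⟩, ⟨2776, 2886, 1000⟩⟩ (yA10A.hC2m true (yA10A.pEnd true)) :=
  posD_of_check (c := ⟨433, ⟨3, 8, 16, 11⟩⟩) (by decide +kernel)

def yA10A_c3p11 : PosD ⟨⟨0, 1, 1⟩, ⟨98, 99, 147⟩, ⟨150, 301, 10000⟩, ⟨2776, 2886, 1000⟩⟩ (yA10A.hC3p true true) :=
  posD_of_check (c := ⟨430, ⟨3, 8, 15, 11⟩⟩) (by decide +kernel)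

def yA10A_c3m11 : PosD ⟨⟨0, 1, 1⟩, ⟨98, 99, 147⟩, ⟨150, 301, 10000⟩, ⟨2776, 2886, 1000⟩⟩ (yA10A.hC3m true true) :=
  posD_of_check (c := ⟨430, ⟨3, 8, 15, 11⟩⟩) (by decide +kernel)

def yA10A_tmg11 : PosD ⟨⟨0, 1, 1⟩, ⟨98, 99, 147⟩, ⟨150, 301, 10000⟩, ⟨2776, 2886, 1000⟩⟩ (yA10A.hTMG true (yA10A.pEnd true)) :=
  posD_of_check (c := ⟨387, ⟨2, 7, 14, 10⟩⟩) (by decide +kernel)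

/-- The signs of the piece. -/
def yA10A_sign : yA10A.Sign ⟨⟨0, 1, 1⟩, ⟨98, 99, 147⟩, ⟨150, 301, 10000⟩, ⟨2776, 2886, 1000⟩⟩ :=
  ⟨yA10A_pp,
    yA10A_k2p,
    yA10A_k2m,
    Bool.forall_bool.2 ⟨(Bool.forall_bool.2 ⟨yA10A_tg00, yA10A_tg01⟩), (Bool.forall_bool.2 ⟨yA10A_tg10, yA10A_tg11⟩)⟩,
    Bool.forall_bool.2 ⟨(Bool.forall_bool.2 ⟨yA10A_c2p00, yA10A_c2p01⟩), (Bool.forall_bool.2 ⟨yA10A_c2p10, yA10A_c2p11⟩)⟩,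
    Bool.forall_bool.2 ⟨(Bool.forall_bool.2 ⟨yA10A_c2m00, yA10A_c2m01⟩), (Bool.forall_bool.2 ⟨yA10A_c2m10, yA10A_c2m11⟩)⟩,
    Bool.forall_bool.2 ⟨yA10A_kap0, yA10A_kap1⟩,
    Bool.forall_bool.2 ⟨yA10A_c10, yA10A_c11⟩,
    Bool.forall_bool.2 ⟨(Bool.forall_bool.2 ⟨yA10A_c3p00, yA10A_c3p01⟩), (Bool.forall_bool.2 ⟨yA10A_c3p10, yA10A_c3p11⟩)⟩,
    Bool.forall_bool.2 ⟨(Bool.forall_bool.2 ⟨yA10A_c3m00, yA10A_c3m01⟩), (Bool.forall_bool.2 ⟨yA10A_c3m10, yA10A_c3m11⟩)⟩,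
    Bool.forall_bool.2 ⟨(Bool.forall_bool.2 ⟨yA10A_tmg00, yA10A_tmg01⟩), (Bool.forall_bool.2 ⟨yA10A_tmg10, yA10A_tmg11⟩)⟩,
    .inl (Bool.forall_bool.2 ⟨⟨yA10A_neg0, yA10A_neglo0⟩, ⟨yA10A_neg1, yA10A_neglo1⟩⟩),
    yA10A_v2p,
    yA10A_v2m,
    yA10A_v3p,
    yA10A_v3m,
    posD_sub (b := ⟨⟨0, 1, 1⟩, ⟨98, 99, 147⟩, ⟨0, 301, 10000⟩, ⟨1060, 4000, 1000⟩⟩) (by decide +kernel) yA_vG,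
    posD_sub (b := ⟨⟨0, 1, 1⟩, ⟨98, 99, 147⟩, ⟨0, 301, 10000⟩, ⟨1060, 4000, 1000⟩⟩) (by decide +kernel) yA_vMG,
    posD_sub (b := ⟨⟨0, 1, 1⟩, ⟨98, 99, 147⟩, ⟨0, 301, 10000⟩, ⟨1060, 4000, 1000⟩⟩) (by decide +kernel) yA_ak,
    posD_sub (b := ⟨⟨0, 1, 1⟩, ⟨98, 99, 147⟩, ⟨0, 301, 10000⟩, ⟨1060, 4000, 1000⟩⟩) (by decide +kernel) yA_aw,
    posD_sub (b := ⟨⟨0, 1, 1⟩, ⟨98, 99, 147⟩, ⟨0, 301, 10000⟩, ⟨1060, 4000, 1000⟩⟩) (by decide +kernel) yA_gk,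
    posD_sub (b := ⟨⟨0, 1, 1⟩, ⟨98, 99, 147⟩, ⟨0, 301, 10000⟩, ⟨1060, 4000, 1000⟩⟩) (by decide +kernel) yA_gw,
    posD_sub (b := ⟨⟨0, 1, 1⟩, ⟨98, 99, 147⟩, ⟨0, 301, 10000⟩, ⟨1060, 4000, 1000⟩⟩) (by decide +kernel) yA_ek,
    posD_sub (b := ⟨⟨0, 1, 1⟩, ⟨98, 99, 147⟩, ⟨0, 301, 10000⟩, ⟨1060, 4000, 1000⟩⟩) (by decide +kernel) yA_ew⟩

def yA10B_pp : PosD ⟨⟨0, 1, 1⟩, ⟨98, 99, 147⟩, ⟨150, 301, 10000⟩, ⟨2776, 2886, 1000⟩⟩ (yA10B.xPL) :=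
  posD_of_check (c := ⟨92, ⟨1, 1, 3, 3⟩⟩) (by decide +kernel)

def yA10B_k2p : PosD ⟨⟨0, 1, 1⟩, ⟨98, 99, 147⟩, ⟨150, 301, 10000⟩, ⟨2776, 2886, 1000⟩⟩ (yA10B.k2p yA10B.xE) :=
  posD_of_check (c := ⟨63, ⟨1, 1, 2, 2⟩⟩) (by decide +kernel)

def yA10B_k2m : PosD ⟨⟨0, 1, 1⟩, ⟨98, 99, 147⟩, ⟨150, 301, 10000⟩, ⟨2776, 2886, 1000⟩⟩ (yA10B.k2m yA10B.xE) :=
  posD_of_check (c := ⟨61, ⟨1, 1, 2, 2⟩⟩) (by decide +kernel)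

def yA10B_v2p : PosD ⟨⟨0, 1, 1⟩, ⟨98, 99, 147⟩, ⟨150, 301, 10000⟩, ⟨2776, 2886, 1000⟩⟩ (yA10B.hV2p) :=
  posD_of_check (c := ⟨256, ⟨1, 6, 10, 5⟩⟩) (by decide +kernel)

def yA10B_v2m : PosD ⟨⟨0, 1, 1⟩, ⟨98, 99, 147⟩, ⟨150, 301, 10000⟩, ⟨2776, 2886, 1000⟩⟩ (yA10B.hV2m) :=
  posD_of_check (c := ⟨254, ⟨1, 6, 10, 5⟩⟩) (by decide +kernel)

def yA10B_v3p : PosD ⟨⟨0, 1, 1⟩, ⟨98, 99, 147⟩, ⟨150, 301, 10000⟩, ⟨2776, 2886, 1000⟩⟩ (yA10B.hV3p) :=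
  posD_of_check (c := ⟨246, ⟨1, 6, 9, 5⟩⟩) (by decide +kernel)

def yA10B_v3m : PosD ⟨⟨0, 1, 1⟩, ⟨98, 99, 147⟩, ⟨150, 301, 10000⟩, ⟨2776, 2886, 1000⟩⟩ (yA10B.hV3m) :=
  posD_of_check (c := ⟨246, ⟨1, 6, 9, 5⟩⟩) (by decide +kernel)

def yA10B_kap0 : PosD ⟨⟨0, 1, 1⟩, ⟨98, 99, 147⟩, ⟨150, 301, 10000⟩, ⟨2776, 2886, 1000⟩⟩ (yA10B.kap false) :=
  posD_of_check (c := ⟨69, ⟨1, 1, 2, 2⟩⟩) (by decide +kernel)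

def yA10B_c10a : PosD ⟨⟨0, 1, 2⟩, ⟨98, 99, 147⟩, ⟨150, 301, 10000⟩, ⟨2776, 2886, 1000⟩⟩ (yA10B.hC1 false) :=
  posD_of_check (c := ⟨266, ⟨3, 5, 9, 7⟩⟩) (by decide +kernel)

def yA10B_c10b : PosD ⟨⟨1, 2, 2⟩, ⟨98, 99, 147⟩, ⟨150, 301, 10000⟩, ⟨2776, 2886, 1000⟩⟩ (yA10B.hC1 false) :=
  posD_of_check (c := ⟨267, ⟨3, 5, 9, 7⟩⟩) (by decide +kernel)

def yA10B_c10 : PosD ⟨⟨0, 1, 1⟩, ⟨98, 99, 147⟩, ⟨150, 301, 10000⟩, ⟨2776, 2886, 1000⟩⟩ (yA10B.hC1 false) :=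
  posD_units (b := ⟨⟨0, 2, 2⟩, ⟨98, 99, 147⟩, ⟨150, 301, 10000⟩, ⟨2776, 2886, 1000⟩⟩) (by decide +kernel) (posD_join₀ yA10B_c10a yA10B_c10b)

def yA10B_c1h0 : PosD ⟨⟨0, 1, 1⟩, ⟨98, 99, 147⟩, ⟨150, 301, 10000⟩, ⟨2776, 2886, 1000⟩⟩ (yA10B.hC1' false) :=
  posD_of_check (c := ⟨266, ⟨3, 5, 9, 7⟩⟩) (by decide +kernel)

def yA10B_tg00 : PosD ⟨⟨0, 1, 1⟩, ⟨98, 99, 147⟩, ⟨150, 301, 10000⟩, ⟨2776, 2886, 1000⟩⟩ (yA10B.hG false (yA10B.pEnd false)) :=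
  posD_of_check (c := ⟨372, ⟨2, 7, 14, 9⟩⟩) (by decide +kernel)

def yA10B_c2p00 : PosD ⟨⟨0, 1, 1⟩, ⟨98, 99, 147⟩, ⟨150, 301, 10000⟩, ⟨2776, 2886, 1000⟩⟩ (yA10B.hC2p false (yA10B.pEnd false)) :=
  posD_of_check (c := ⟨435, ⟨3, 8, 16, 11⟩⟩) (by decide +kernel)

def yA10B_c2m00 : PosD ⟨⟨0, 1, 1⟩, ⟨98, 99, 147⟩, ⟨150, 301, 10000⟩, ⟨2776, 2886, 1000⟩⟩ (yA10B.hC2m false (yA10B.pEnd false)) :=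
  posD_of_check (c := ⟨434, ⟨3, 8, 16, 11⟩⟩) (by decide +kernel)

def yA10B_c3p00 : PosD ⟨⟨0, 1, 1⟩, ⟨98, 99, 147⟩, ⟨150, 301, 10000⟩, ⟨2776, 2886, 1000⟩⟩ (yA10B.hC3p false false) :=
  posD_of_check (c := ⟨430, ⟨3, 8, 15, 11⟩⟩) (by decide +kernel)

def yA10B_c3m00 : PosD ⟨⟨0, 1, 1⟩, ⟨98, 99, 147⟩, ⟨150, 301, 10000⟩, ⟨2776, 2886, 1000⟩⟩ (yA10B.hC3m false false) :=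
  posD_of_check (c := ⟨430, ⟨3, 8, 15, 11⟩⟩) (by decide +kernel)

def yA10B_c3ph00 : PosD ⟨⟨0, 1, 1⟩, ⟨98, 99, 147⟩, ⟨150, 301, 10000⟩, ⟨2776, 2886, 1000⟩⟩ (yA10B.hC3p' false false) :=
  posD_of_check (c := ⟨430, ⟨3, 8, 15, 11⟩⟩) (by decide +kernel)

def yA10B_c3mh00 : PosD ⟨⟨0, 1, 1⟩, ⟨98, 99, 147⟩, ⟨150, 301, 10000⟩, ⟨2776, 2886, 1000⟩⟩ (yA10B.hC3m' false false) :=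
  posD_of_check (c := ⟨430, ⟨3, 8, 15, 11⟩⟩) (by decide +kernel)

def yA10B_up00 : PosD ⟨⟨0, 1, 1⟩, ⟨98, 99, 147⟩, ⟨150, 301, 10000⟩, ⟨2776, 2886, 1000⟩⟩ (yA10B.hUp false false) :=
  posD_of_check (c := ⟨427, ⟨3, 8, 15, 11⟩⟩) (by decide +kernel)

def yA10B_um00 : PosD ⟨⟨0, 1, 1⟩, ⟨98, 99, 147⟩, ⟨150, 301, 10000⟩, ⟨2776, 2886, 1000⟩⟩ (yA10B.hUm false false) :=
  posD_of_check (c := ⟨427, ⟨3, 8, 15, 11⟩⟩) (by decide +kernel)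

def yA10B_tmg00 : PosD ⟨⟨0, 1, 1⟩, ⟨98, 99, 147⟩, ⟨150, 301, 10000⟩, ⟨2776, 2886, 1000⟩⟩ (yA10B.hTMG false (yA10B.pEnd false)) :=
  posD_of_check (c := ⟨387, ⟨2, 7, 14, 10⟩⟩) (by decide +kernel)

def yA10B_tg01 : PosD ⟨⟨0, 1, 1⟩, ⟨98, 99, 147⟩, ⟨150, 301, 10000⟩, ⟨2776, 2886, 1000⟩⟩ (yA10B.hG true (yA10B.pEnd false)) :=
  posD_of_check (c := ⟨372, ⟨2, 7, 14, 9⟩⟩) (by decide +kernel)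

def yA10B_c2p01 : PosD ⟨⟨0, 1, 1⟩, ⟨98, 99, 147⟩, ⟨150, 301, 10000⟩, ⟨2776, 2886, 1000⟩⟩ (yA10B.hC2p true (yA10B.pEnd false)) :=
  posD_of_check (c := ⟨435, ⟨3, 8, 16, 11⟩⟩) (by decide +kernel)

def yA10B_c2m01 : PosD ⟨⟨0, 1, 1⟩, ⟨98, 99, 147⟩, ⟨150, 301, 10000⟩, ⟨2776, 2886, 1000⟩⟩ (yA10B.hC2m true (yA10B.pEnd false)) :=
  posD_of_check (c := ⟨434, ⟨3, 8, 16, 11⟩⟩) (by decide +kernel)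

def yA10B_c3p01 : PosD ⟨⟨0, 1, 1⟩, ⟨98, 99, 147⟩, ⟨150, 301, 10000⟩, ⟨2776, 2886, 1000⟩⟩ (yA10B.hC3p false true) :=
  posD_of_check (c := ⟨430, ⟨3, 8, 15, 11⟩⟩) (by decide +kernel)

def yA10B_c3m01 : PosD ⟨⟨0, 1, 1⟩, ⟨98, 99, 147⟩, ⟨150, 301, 10000⟩, ⟨2776, 2886, 1000⟩⟩ (yA10B.hC3m false true) :=
  posD_of_check (c := ⟨430, ⟨3, 8, 15, 11⟩⟩) (by decide +kernel)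

def yA10B_c3ph01 : PosD ⟨⟨0, 1, 1⟩, ⟨98, 99, 147⟩, ⟨150, 301, 10000⟩, ⟨2776, 2886, 1000⟩⟩ (yA10B.hC3p' false true) :=
  posD_of_check (c := ⟨430, ⟨3, 8, 15, 11⟩⟩) (by decide +kernel)

def yA10B_c3mh01 : PosD ⟨⟨0, 1, 1⟩, ⟨98, 99, 147⟩, ⟨150, 301, 10000⟩, ⟨2776, 2886, 1000⟩⟩ (yA10B.hC3m' false true) :=
  posD_of_check (c := ⟨430, ⟨3, 8, 15, 11⟩⟩) (by decide +kernel)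

def yA10B_up01 : PosD ⟨⟨0, 1, 1⟩, ⟨98, 99, 147⟩, ⟨150, 301, 10000⟩, ⟨2776, 2886, 1000⟩⟩ (yA10B.hUp false true) :=
  posD_of_check (c := ⟨427, ⟨3, 8, 15, 11⟩⟩) (by decide +kernel)

def yA10B_um01 : PosD ⟨⟨0, 1, 1⟩, ⟨98, 99, 147⟩, ⟨150, 301, 10000⟩, ⟨2776, 2886, 1000⟩⟩ (yA10B.hUm false true) :=
  posD_of_check (c := ⟨427, ⟨3, 8, 15, 11⟩⟩) (by decide +kernel)

def yA10B_tmg01 : PosD ⟨⟨0, 1, 1⟩, ⟨98, 99, 147⟩, ⟨150, 301, 10000⟩, ⟨2776, 2886, 1000⟩⟩ (yA10B.hTMG true (yA10B.pEnd false)) :=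
  posD_of_check (c := ⟨387, ⟨2, 7, 14, 10⟩⟩) (by decide +kernel)

def yA10B_kap1 : PosD ⟨⟨0, 1, 1⟩, ⟨98, 99, 147⟩, ⟨150, 301, 10000⟩, ⟨2776, 2886, 1000⟩⟩ (yA10B.kap true) :=
  posD_of_check (c := ⟨67, ⟨1, 1, 2, 2⟩⟩) (by decide +kernel)

def yA10B_c11 : PosD ⟨⟨0, 1, 1⟩, ⟨98, 99, 147⟩, ⟨150, 301, 10000⟩, ⟨2776, 2886, 1000⟩⟩ (yA10B.hC1 true) :=
  posD_of_check (c := ⟨265, ⟨3, 5, 9, 7⟩⟩) (by decide +kernel)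

def yA10B_c1h1 : PosD ⟨⟨0, 1, 1⟩, ⟨98, 99, 147⟩, ⟨150, 301, 10000⟩, ⟨2776, 2886, 1000⟩⟩ (yA10B.hC1' true) :=
  posD_of_check (c := ⟨265, ⟨3, 5, 9, 7⟩⟩) (by decide +kernel)

def yA10B_tg10 : PosD ⟨⟨0, 1, 1⟩, ⟨98, 99, 147⟩, ⟨150, 301, 10000⟩, ⟨2776, 2886, 1000⟩⟩ (yA10B.hG false (yA10B.pEnd true)) :=
  posD_of_check (c := ⟨372, ⟨2, 7, 14, 9⟩⟩) (by decide +kernel)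

def yA10B_c2p10 : PosD ⟨⟨0, 1, 1⟩, ⟨98, 99, 147⟩, ⟨150, 301, 10000⟩, ⟨2776, 2886, 1000⟩⟩ (yA10B.hC2p false (yA10B.pEnd true)) :=
  posD_of_check (c := ⟨435, ⟨3, 8, 16, 11⟩⟩) (by decide +kernel)

def yA10B_c2m10 : PosD ⟨⟨0, 1, 1⟩, ⟨98, 99, 147⟩, ⟨150, 301, 10000⟩, ⟨2776, 2886, 1000⟩⟩ (yA10B.hC2m false (yA10B.pEnd true)) :=
  posD_of_check (c := ⟨434, ⟨3, 8, 16, 11⟩⟩) (by decide +kernel)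

def yA10B_c3p10 : PosD ⟨⟨0, 1, 1⟩, ⟨98, 99, 147⟩, ⟨150, 301, 10000⟩, ⟨2776, 2886, 1000⟩⟩ (yA10B.hC3p true false) :=
  posD_of_check (c := ⟨429, ⟨3, 8, 15, 11⟩⟩) (by decide +kernel)

def yA10B_c3m10 : PosD ⟨⟨0, 1, 1⟩, ⟨98, 99, 147⟩, ⟨150, 301, 10000⟩, ⟨2776, 2886, 1000⟩⟩ (yA10B.hC3m true false) :=
  posD_of_check (c := ⟨429, ⟨3, 8, 15, 11⟩⟩) (by decide +kernel)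

def yA10B_c3ph10 : PosD ⟨⟨0, 1, 1⟩, ⟨98, 99, 147⟩, ⟨150, 301, 10000⟩, ⟨2776, 2886, 1000⟩⟩ (yA10B.hC3p' true false) :=
  posD_of_check (c := ⟨429, ⟨3, 8, 15, 11⟩⟩) (by decide +kernel)

def yA10B_c3mh10 : PosD ⟨⟨0, 1, 1⟩, ⟨98, 99, 147⟩, ⟨150, 301, 10000⟩, ⟨2776, 2886, 1000⟩⟩ (yA10B.hC3m' true false) :=
  posD_of_check (c := ⟨429, ⟨3, 8, 15, 11⟩⟩) (by decide +kernel)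

def yA10B_up10 : PosD ⟨⟨0, 1, 1⟩, ⟨98, 99, 147⟩, ⟨150, 301, 10000⟩, ⟨2776, 2886, 1000⟩⟩ (yA10B.hUp true false) :=
  posD_of_check (c := ⟨427, ⟨3, 8, 15, 11⟩⟩) (by decide +kernel)

def yA10B_um10 : PosD ⟨⟨0, 1, 1⟩, ⟨98, 99, 147⟩, ⟨150, 301, 10000⟩, ⟨2776, 2886, 1000⟩⟩ (yA10B.hUm true false) :=
  posD_of_check (c := ⟨427, ⟨3, 8, 15, 11⟩⟩) (by decide +kernel)

def yA10B_tmg10 : PosD ⟨⟨0, 1, 1⟩, ⟨98, 99, 147⟩, ⟨150, 301, 10000⟩, ⟨2776, 2886, 1000⟩⟩ (yA10B.hTMG false (yA10B.pEnd true)) :=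
  posD_of_check (c := ⟨387, ⟨2, 7, 14, 10⟩⟩) (by decide +kernel)

def yA10B_tg11 : PosD ⟨⟨0, 1, 1⟩, ⟨98, 99, 147⟩, ⟨150, 301, 10000⟩, ⟨2776, 2886, 1000⟩⟩ (yA10B.hG true (yA10B.pEnd true)) :=
  posD_of_check (c := ⟨372, ⟨2, 7, 14, 9⟩⟩) (by decide +kernel)

def yA10B_c2p11 : PosD ⟨⟨0, 1, 1⟩, ⟨98, 99, 147⟩, ⟨150, 301, 10000⟩, ⟨2776, 2886, 1000⟩⟩ (yA10B.hC2p true (yA10B.pEnd true)) :=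
  posD_of_check (c := ⟨435, ⟨3, 8, 16, 11⟩⟩) (by decide +kernel)

def yA10B_c2m11 : PosD ⟨⟨0, 1, 1⟩, ⟨98, 99, 147⟩, ⟨150, 301, 10000⟩, ⟨2776, 2886, 1000⟩⟩ (yA10B.hC2m true (yA10B.pEnd true)) :=
  posD_of_check (c := ⟨434, ⟨3, 8, 16, 11⟩⟩) (by decide +kernel)

def yA10B_c3p11 : PosD ⟨⟨0, 1, 1⟩, ⟨98, 99, 147⟩, ⟨150, 301, 10000⟩, ⟨2776, 2886, 1000⟩⟩ (yA10B.hC3p true true) :=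
  posD_of_check (c := ⟨429, ⟨3, 8, 15, 11⟩⟩) (by decide +kernel)

def yA10B_c3m11 : PosD ⟨⟨0, 1, 1⟩, ⟨98, 99, 147⟩, ⟨150, 301, 10000⟩, ⟨2776, 2886, 1000⟩⟩ (yA10B.hC3m true true) :=
  posD_of_check (c := ⟨429, ⟨3, 8, 15, 11⟩⟩) (by decide +kernel)

def yA10B_c3ph11 : PosD ⟨⟨0, 1, 1⟩, ⟨98, 99, 147⟩, ⟨150, 301, 10000⟩, ⟨2776, 2886, 1000⟩⟩ (yA10B.hC3p' true true) :=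
  posD_of_check (c := ⟨429, ⟨3, 8, 15, 11⟩⟩) (by decide +kernel)

def yA10B_c3mh11 : PosD ⟨⟨0, 1, 1⟩, ⟨98, 99, 147⟩, ⟨150, 301, 10000⟩, ⟨2776, 2886, 1000⟩⟩ (yA10B.hC3m' true true) :=
  posD_of_check (c := ⟨429, ⟨3, 8, 15, 11⟩⟩) (by decide +kernel)

def yA10B_up11 : PosD ⟨⟨0, 1, 1⟩, ⟨98, 99, 147⟩, ⟨150, 301, 10000⟩, ⟨2776, 2886, 1000⟩⟩ (yA10B.hUp true true) :=
  posD_of_check (c := ⟨427, ⟨3, 8, 15, 11⟩⟩) (by decide +kernel)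

def yA10B_um11 : PosD ⟨⟨0, 1, 1⟩, ⟨98, 99, 147⟩, ⟨150, 301, 10000⟩, ⟨2776, 2886, 1000⟩⟩ (yA10B.hUm true true) :=
  posD_of_check (c := ⟨427, ⟨3, 8, 15, 11⟩⟩) (by decide +kernel)

def yA10B_tmg11 : PosD ⟨⟨0, 1, 1⟩, ⟨98, 99, 147⟩, ⟨150, 301, 10000⟩, ⟨2776, 2886, 1000⟩⟩ (yA10B.hTMG true (yA10B.pEnd true)) :=
  posD_of_check (c := ⟨387, ⟨2, 7, 14, 10⟩⟩) (by decide +kernel)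

/-- The signs of the piece. -/
def yA10B_sign : yA10B.Sign ⟨⟨0, 1, 1⟩, ⟨98, 99, 147⟩, ⟨150, 301, 10000⟩, ⟨2776, 2886, 1000⟩⟩ :=
  ⟨yA10B_pp,
    yA10B_k2p,
    yA10B_k2m,
    Bool.forall_bool.2 ⟨(Bool.forall_bool.2 ⟨yA10B_tg00, yA10B_tg01⟩), (Bool.forall_bool.2 ⟨yA10B_tg10, yA10B_tg11⟩)⟩,
    Bool.forall_bool.2 ⟨(Bool.forall_bool.2 ⟨yA10B_c2p00, yA10B_c2p01⟩), (Bool.forall_bool.2 ⟨yA10B_c2p10, yA10B_c2p11⟩)⟩,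
    Bool.forall_bool.2 ⟨(Bool.forall_bool.2 ⟨yA10B_c2m00, yA10B_c2m01⟩), (Bool.forall_bool.2 ⟨yA10B_c2m10, yA10B_c2m11⟩)⟩,
    Bool.forall_bool.2 ⟨yA10B_kap0, yA10B_kap1⟩,
    Bool.forall_bool.2 ⟨yA10B_c10, yA10B_c11⟩,
    Bool.forall_bool.2 ⟨(Bool.forall_bool.2 ⟨yA10B_c3p00, yA10B_c3p01⟩), (Bool.forall_bool.2 ⟨yA10B_c3p10, yA10B_c3p11⟩)⟩,
    Bool.forall_bool.2 ⟨(Bool.forall_bool.2 ⟨yA10B_c3m00, yA10B_c3m01⟩), (Bool.forall_bool.2 ⟨yA10B_c3m10, yA10B_c3m11⟩)⟩,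
    Bool.forall_bool.2 ⟨(Bool.forall_bool.2 ⟨yA10B_tmg00, yA10B_tmg01⟩), (Bool.forall_bool.2 ⟨yA10B_tmg10, yA10B_tmg11⟩)⟩,
    .inr (Bool.forall_bool.2 ⟨⟨yA10B_c1h0, Bool.forall_bool.2 ⟨⟨yA10B_c3ph00, yA10B_c3mh00, yA10B_up00, yA10B_um00⟩, ⟨yA10B_c3ph01, yA10B_c3mh01, yA10B_up01, yA10B_um01⟩⟩⟩, ⟨yA10B_c1h1, Bool.forall_bool.2 ⟨⟨yA10B_c3ph10, yA10B_c3mh10, yA10B_up10, yA10B_um10⟩, ⟨yA10B_c3ph11, yA10B_c3mh11, yA10B_up11, yA10B_um11⟩⟩⟩⟩),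
    yA10B_v2p,
    yA10B_v2m,
    yA10B_v3p,
    yA10B_v3m,
    posD_sub (b := ⟨⟨0, 1, 1⟩, ⟨98, 99, 147⟩, ⟨0, 301, 10000⟩, ⟨1060, 4000, 1000⟩⟩) (by decide +kernel) yA_vG,
    posD_sub (b := ⟨⟨0, 1, 1⟩, ⟨98, 99, 147⟩, ⟨0, 301, 10000⟩, ⟨1060, 4000, 1000⟩⟩) (by decide +kernel) yA_vMG,
    posD_sub (b := ⟨⟨0, 1, 1⟩, ⟨98, 99, 147⟩, ⟨0, 301, 10000⟩, ⟨1060, 4000, 1000⟩⟩) (by decide +kernel) yA_ak,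
    posD_sub (b := ⟨⟨0, 1, 1⟩, ⟨98, 99, 147⟩, ⟨0, 301, 10000⟩, ⟨1060, 4000, 1000⟩⟩) (by decide +kernel) yA_aw,
    posD_sub (b := ⟨⟨0, 1, 1⟩, ⟨98, 99, 147⟩, ⟨0, 301, 10000⟩, ⟨1060, 4000, 1000⟩⟩) (by decide +kernel) yA_gk,
    posD_sub (b := ⟨⟨0, 1, 1⟩, ⟨98, 99, 147⟩, ⟨0, 301, 10000⟩, ⟨1060, 4000, 1000⟩⟩) (by decide +kernel) yA_gw,
    posD_sub (b := ⟨⟨0, 1, 1⟩, ⟨98, 99, 147⟩, ⟨0, 301, 10000⟩, ⟨1060, 4000, 1000⟩⟩) (by decide +kernel) yA_ek,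
    posD_sub (b := ⟨⟨0, 1, 1⟩, ⟨98, 99, 147⟩, ⟨0, 301, 10000⟩, ⟨1060, 4000, 1000⟩⟩) (by decide +kernel) yA_ew⟩

end Vale.Agent.P100.Calib.Closed.Six.Tail
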