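import Vale.Agent.P100.Calib.SlabSixTailDataLayerA
import Vale.Agent.P100.Calib.SlabSixTailGlobLayerA

/-!
# Checks of some pieces of the certificate

The checks are written as definitions so that they run one after another, which keeps the memory of the
kernel low.
-/

set_option linter.defProp false

namespace Vale.Agent.P100.Calib.Closed.Six.Tail

open BoxPos Large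

local instance sixTailChecksyA8Add : Add Ex := ⟨Ex.add⟩
local instance sixTailChecksyA8Sub : Sub Ex := ⟨Ex.sub⟩
local instance sixTailChecksyA8Mul : Mul Ex := ⟨Ex.mul⟩

def yA11_p0 : PosD ⟨⟨0, 1, 1⟩, ⟨98, 99, 147⟩, ⟨150, 301, 10000⟩, ⟨2776, 2886, 1000⟩⟩ (yA11.hP0) :=
  posD_of_check (c := ⟨82, ⟨0, 2, 3, 1⟩⟩) (by decide +kernel)

def yA11_gn : PosD ⟨⟨0, 1, 1⟩, ⟨98, 99, 147⟩, ⟨150, 301, 10000⟩, ⟨2776, 2886, 1000⟩⟩ (yA11.hGn) :=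
  posD_of_check (c := ⟨58, ⟨1, 1, 2, 1⟩⟩) (by decide +kernel)

def yA11_den0 : PosD ⟨⟨0, 1, 1⟩, ⟨98, 99, 147⟩, ⟨150, 301, 10000⟩, ⟨2776, 2886, 1000⟩⟩ (yA11.hDen false) :=
  posD_of_check (c := ⟨45, ⟨0, 0, 2, 0⟩⟩) (by decide +kernel)

def yA11_den1 : PosD ⟨⟨0, 1, 1⟩, ⟨98, 99, 147⟩, ⟨150, 301, 10000⟩, ⟨2776, 2886, 1000⟩⟩ (yA11.hDen true) :=
  posD_of_check (c := ⟨23, ⟨1, 0, 1, 0⟩⟩) (by decide +kernel)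

def yA11_ev0 : PosD ⟨⟨0, 1, 1⟩, ⟨98, 99, 147⟩, ⟨150, 301, 10000⟩, ⟨2776, 2886, 1000⟩⟩ (yA11.hEv false) :=
  posD_of_check (c := ⟨150, ⟨2, 2, 6, 1⟩⟩) (by decide +kernel)

def yA11_zL0 : PosD ⟨⟨0, 1, 1⟩, ⟨98, 99, 147⟩, ⟨150, 301, 10000⟩, ⟨2776, 2886, 1000⟩⟩ (yA11.hZL false) :=
  posD_of_check (c := ⟨161, ⟨2, 3, 6, 3⟩⟩) (by decide +kernel)

def yA11_zU0 : PosD ⟨⟨0, 1, 1⟩, ⟨98, 99, 147⟩, ⟨150, 301, 10000⟩, ⟨2776, 2886, 1000⟩⟩ (yA11.hZU false) :=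
  posD_of_check (c := ⟨161, ⟨2, 3, 6, 3⟩⟩) (by decide +kernel)

def yA11_eL0 : PosD ⟨⟨0, 1, 1⟩, ⟨98, 99, 147⟩, ⟨150, 301, 10000⟩, ⟨2776, 2886, 1000⟩⟩ (yA11.hEL false) :=
  posD_of_check (c := ⟨268, ⟨3, 6, 9, 3⟩⟩) (by decide +kernel)

def yA11_eH0 : PosD ⟨⟨0, 1, 1⟩, ⟨98, 99, 147⟩, ⟨150, 301, 10000⟩, ⟨2776, 2886, 1000⟩⟩ (yA11.hEH false) :=
  posD_of_check (c := ⟨243, ⟨3, 6, 9, 3⟩⟩) (by decide +kernel)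

def yA11_pL0 : PosD ⟨⟨0, 1, 1⟩, ⟨98, 99, 147⟩, ⟨150, 301, 10000⟩, ⟨2776, 2886, 1000⟩⟩ (yA11.hPL false) :=
  posD_of_check (c := ⟨261, ⟨3, 6, 9, 3⟩⟩) (by decide +kernel)

def yA11_pU0 : PosD ⟨⟨0, 1, 1⟩, ⟨98, 99, 147⟩, ⟨150, 301, 10000⟩, ⟨2776, 2886, 1000⟩⟩ (yA11.hPU false) :=
  posD_of_check (c := ⟨271, ⟨3, 6, 9, 3⟩⟩) (by decide +kernel)

def yA11_kU0 : PosD ⟨⟨0, 1, 1⟩, ⟨98, 99, 147⟩, ⟨150, 301, 10000⟩, ⟨2776, 2886, 1000⟩⟩ (yA11.hKU false) :=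
  posD_of_check (c := ⟨256, ⟨3, 6, 9, 3⟩⟩) (by decide +kernel)

def yA11_kL0 : PosD ⟨⟨0, 1, 1⟩, ⟨98, 99, 147⟩, ⟨150, 301, 10000⟩, ⟨2776, 2886, 1000⟩⟩ (yA11.hKL false) :=
  posD_of_check (c := ⟨264, ⟨3, 6, 9, 3⟩⟩) (by decide +kernel)

def yA11_wU0 : PosD ⟨⟨0, 1, 1⟩, ⟨98, 99, 147⟩, ⟨150, 301, 10000⟩, ⟨2776, 2886, 1000⟩⟩ (yA11.hWU false) :=
  posD_of_check (c := ⟨292, ⟨3, 8, 10, 3⟩⟩) (by decide +kernel)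

def yA11_wL0 : PosD ⟨⟨0, 1, 1⟩, ⟨98, 99, 147⟩, ⟨150, 301, 10000⟩, ⟨2776, 2886, 1000⟩⟩ (yA11.hWL false) :=
  posD_of_check (c := ⟨301, ⟨3, 8, 10, 3⟩⟩) (by decide +kernel)

def yA11_ev1 : PosD ⟨⟨0, 1, 1⟩, ⟨98, 99, 147⟩, ⟨150, 301, 10000⟩, ⟨2776, 2886, 1000⟩⟩ (yA11.hEv true) :=
  posD_of_check (c := ⟨122, ⟨2, 2, 6, 1⟩⟩) (by decide +kernel)

def yA11_zL1a : PosD ⟨⟨0, 1, 1⟩, ⟨98, 99, 147⟩, ⟨150, 225, 10000⟩, ⟨2776, 2886, 1000⟩⟩ (yA11.hZL true) :=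
  posD_of_check (c := ⟨135, ⟨2, 3, 6, 3⟩⟩) (by decide +kernel)

def yA11_zL1b : PosD ⟨⟨0, 1, 1⟩, ⟨98, 99, 147⟩, ⟨225, 301, 10000⟩, ⟨2776, 2886, 1000⟩⟩ (yA11.hZL true) :=
  posD_of_check (c := ⟨135, ⟨2, 3, 6, 3⟩⟩) (by decide +kernel)

def yA11_zL1 : PosD ⟨⟨0, 1, 1⟩, ⟨98, 99, 147⟩, ⟨150, 301, 10000⟩, ⟨2776, 2886, 1000⟩⟩ (yA11.hZL true) :=
  posD_join₂ yA11_zL1a yA11_zL1b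

def yA11_zU1 : PosD ⟨⟨0, 1, 1⟩, ⟨98, 99, 147⟩, ⟨150, 301, 10000⟩, ⟨2776, 2886, 1000⟩⟩ (yA11.hZU true) :=
  posD_of_check (c := ⟨135, ⟨2, 3, 6, 3⟩⟩) (by decide +kernel)

def yA11_eL1 : PosD ⟨⟨0, 1, 1⟩, ⟨98, 99, 147⟩, ⟨150, 301, 10000⟩, ⟨2776, 2886, 1000⟩⟩ (yA11.hEL true) :=
  posD_of_check (c := ⟨240, ⟨3, 6, 9, 3⟩⟩) (by decide +kernel)

def yA11_eH1 : PosD ⟨⟨0, 1, 1⟩, ⟨98, 99, 147⟩, ⟨150, 301, 10000⟩, ⟨2776, 2886, 1000⟩⟩ (yA11.hEH true) :=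
  posD_of_check (c := ⟨214, ⟨3, 6, 9, 3⟩⟩) (by decide +kernel)

def yA11_pL1 : PosD ⟨⟨0, 1, 1⟩, ⟨98, 99, 147⟩, ⟨150, 301, 10000⟩, ⟨2776, 2886, 1000⟩⟩ (yA11.hPL true) :=
  posD_of_check (c := ⟨233, ⟨3, 6, 9, 3⟩⟩) (by decide +kernel)

def yA11_pU1 : PosD ⟨⟨0, 1, 1⟩, ⟨98, 99, 147⟩, ⟨150, 301, 10000⟩, ⟨2776, 2886, 1000⟩⟩ (yA11.hPU true) :=
  posD_of_check (c := ⟨243, ⟨3, 6, 9, 3⟩⟩) (by decide +kernel)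

def yA11_kU1 : PosD ⟨⟨0, 1, 1⟩, ⟨98, 99, 147⟩, ⟨150, 301, 10000⟩, ⟨2776, 2886, 1000⟩⟩ (yA11.hKU true) :=
  posD_of_check (c := ⟨228, ⟨3, 6, 9, 3⟩⟩) (by decide +kernel)

def yA11_kL1 : PosD ⟨⟨0, 1, 1⟩, ⟨98, 99, 147⟩, ⟨150, 301, 10000⟩, ⟨2776, 2886, 1000⟩⟩ (yA11.hKL true) :=
  posD_of_check (c := ⟨236, ⟨3, 6, 9, 3⟩⟩) (by decide +kernel)

def yA11_wU1 : PosD ⟨⟨0, 1, 1⟩, ⟨98, 99, 147⟩, ⟨150, 301, 10000⟩, ⟨2776, 2886, 1000⟩⟩ (yA11.hWU true) :=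
  posD_of_check (c := ⟨263, ⟨3, 8, 10, 3⟩⟩) (by decide +kernel)

def yA11_wL1 : PosD ⟨⟨0, 1, 1⟩, ⟨98, 99, 147⟩, ⟨150, 301, 10000⟩, ⟨2776, 2886, 1000⟩⟩ (yA11.hWL true) :=
  posD_of_check (c := ⟨272, ⟨3, 8, 10, 3⟩⟩) (by decide +kernel)

def yA11_nueL : PosD ⟨⟨0, 1, 1⟩, ⟨98, 99, 147⟩, ⟨150, 301, 10000⟩, ⟨2776, 2886, 1000⟩⟩ (yA11.eL.ν) :=
  posD_of_check (c := ⟨45, ⟨0, 0, 1, 1⟩⟩) (by decide +kernel)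

def yA11_nupU : PosD ⟨⟨0, 1, 1⟩, ⟨98, 99, 147⟩, ⟨150, 301, 10000⟩, ⟨2776, 2886, 1000⟩⟩ (yA11.pU.ν) :=
  posD_of_check (c := ⟨48, ⟨0, 0, 1, 1⟩⟩) (by decide +kernel)

def yA11_nukL : PosD ⟨⟨0, 1, 1⟩, ⟨98, 99, 147⟩, ⟨150, 301, 10000⟩, ⟨2776, 2886, 1000⟩⟩ (yA11.kL.ν) :=
  posD_of_check (c := ⟨40, ⟨0, 0, 1, 1⟩⟩) (by decide +kernel)

def yA11_nuwL : PosD ⟨⟨0, 1, 1⟩, ⟨98, 99, 147⟩, ⟨150, 301, 10000⟩, ⟨2776, 2886, 1000⟩⟩ (yA11.wL.ν) :=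
  posD_of_check (c := ⟨46, ⟨0, 0, 1, 1⟩⟩) (by decide +kernel)

/-- The bounds of the piece. -/
def yA11_env : yA11.Env ⟨⟨0, 1, 1⟩, ⟨98, 99, 147⟩, ⟨150, 301, 10000⟩, ⟨2776, 2886, 1000⟩⟩ :=
  ⟨yA11_p0, Bool.forall_bool.2 ⟨yA11_den0, yA11_den1⟩, yA11_gn, Bool.forall_bool.2 ⟨yA11_ev0, yA11_ev1⟩, Bool.forall_bool.2 ⟨yA11_zL0, yA11_zL1⟩, Bool.forall_bool.2 ⟨yA11_zU0, yA11_zU1⟩, Bool.forall_bool.2 ⟨yA11_eL0, yA11_eL1⟩, ⟨.inr rfl, .inl yA11_nueL⟩, Bool.forall_bool.2 ⟨yA11_eH0, yA11_eH1⟩, ⟨.inr rfl, .inr rfl⟩, Bool.forall_bool.2 ⟨yA11_pL0, yA11_pL1⟩, ⟨.inr rfl, .inr rfl⟩, Bool.forall_bool.2 ⟨yA11_pU0, yA11_pU1⟩, ⟨.inr rfl, .inl yA11_nupU⟩, Bool.forall_bool.2 ⟨yA11_kU0, yA11_kU1⟩, ⟨.inr rfl, .inr rfl⟩, Bool.forall_bool.2 ⟨yA11_kL0,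 yA11_kL1⟩, ⟨.inr rfl, .inl yA11_nukL⟩, Bool.forall_bool.2 ⟨yA11_wU0, yA11_wU1⟩, ⟨.inr rfl, .inr rfl⟩, Bool.forall_bool.2 ⟨yA11_wL0, yA11_wL1⟩, ⟨.inr rfl, .inl yA11_nuwL⟩⟩

def yA11_pU20 : PosD ⟨⟨0, 1, 1⟩, ⟨98, 99, 147⟩, ⟨150, 301, 10000⟩, ⟨2776, 2886, 1000⟩⟩ (({ yA11 with pU := yA11PU } : Piece).hPU false) :=
  posD_of_check (c := ⟨261, ⟨3, 6, 9, 3⟩⟩) (by decide +kernel)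

def yA11_pU21 : PosD ⟨⟨0, 1, 1⟩, ⟨98, 99, 147⟩, ⟨150, 301, 10000⟩, ⟨2776, 2886, 1000⟩⟩ (({ yA11 with pU := yA11PU } : Piece).hPU true) :=
  posD_of_check (c := ⟨233, ⟨3, 6, 9, 3⟩⟩) (by decide +kernel)

/-- The bounds with the other bound of `p`. -/
def yA11_envU : ({ yA11 with pU := yA11PU } : Piece).Env ⟨⟨0, 1, 1⟩, ⟨98, 99, 147⟩, ⟨150, 301, 10000⟩, ⟨2776, 2886, 1000⟩⟩ :=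
  yA11_env.withU yA11PU (Bool.forall_bool.2 ⟨yA11_pU20, yA11_pU21⟩) ⟨.inr rfl, .inr rfl⟩

def yA11A_pp : PosD ⟨⟨0, 1, 1⟩, ⟨98, 99, 147⟩, ⟨150, 301, 10000⟩, ⟨2776, 2886, 1000⟩⟩ (yA11A.xPL) :=
  posD_of_check (c := ⟨92, ⟨1, 1, 3, 3⟩⟩) (by decide +kernel)

def yA11A_k2p : PosD ⟨⟨0, 1, 1⟩, ⟨98, 99, 147⟩, ⟨150, 301, 10000⟩, ⟨2776, 2886, 1000⟩⟩ (yA11A.k2p yA11A.xE) :=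
  posD_of_check (c := ⟨63, ⟨1, 1, 2, 2⟩⟩) (by decide +kernel)

def yA11A_k2m : PosD ⟨⟨0, 1, 1⟩, ⟨98, 99, 147⟩, ⟨150, 301, 10000⟩, ⟨2776, 2886, 1000⟩⟩ (yA11A.k2m yA11A.xE) :=
  posD_of_check (c := ⟨20, ⟨0, 0, 1, 0⟩⟩) (by decide +kernel)

def yA11A_v2p : PosD ⟨⟨0, 1, 1⟩, ⟨98, 99, 147⟩, ⟨150, 301, 10000⟩, ⟨2776, 2886, 1000⟩⟩ (yA11A.hV2p) :=
  posD_of_check (c := ⟨256, ⟨1, 6, 10, 5⟩⟩) (by decide +kernel)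

def yA11A_v2m : PosD ⟨⟨0, 1, 1⟩, ⟨98, 99, 147⟩, ⟨150, 301, 10000⟩, ⟨2776, 2886, 1000⟩⟩ (yA11A.hV2m) :=
  posD_of_check (c := ⟨225, ⟨0, 5, 10, 4⟩⟩) (by decide +kernel)

def yA11A_v3p : PosD ⟨⟨0, 1, 1⟩, ⟨98, 99, 147⟩, ⟨150, 301, 10000⟩, ⟨2776, 2886, 1000⟩⟩ (yA11A.hV3p) :=
  posD_of_check (c := ⟨246, ⟨1, 6, 9, 5⟩⟩) (by decide +kernel)

def yA11A_v3m : PosD ⟨⟨0, 1, 1⟩, ⟨98, 99, 147⟩, ⟨150, 301, 10000⟩, ⟨2776, 2886, 1000⟩⟩ (yA11A.hV3m) :=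
  posD_of_check (c := ⟨220, ⟨0, 5, 9, 4⟩⟩) (by decide +kernel)

def yA11A_kap0 : PosD ⟨⟨0, 1, 1⟩, ⟨98, 99, 147⟩, ⟨150, 301, 10000⟩, ⟨2776, 2886, 1000⟩⟩ (yA11A.kap false) :=
  posD_of_check (c := ⟨68, ⟨1, 1, 2, 2⟩⟩) (by decide +kernel)

def yA11A_c10 : PosD ⟨⟨0, 1, 1⟩, ⟨98, 99, 147⟩, ⟨150, 301, 10000⟩, ⟨2776, 2886, 1000⟩⟩ (yA11A.hC1 false) :=
  posD_of_check (c := ⟨265, ⟨3, 5, 9, 7⟩⟩) (by decide +kernel)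

def yA11A_neg0 : PosD ⟨⟨0, 1, 1⟩, ⟨98, 99, 147⟩, ⟨150, 301, 10000⟩, ⟨2776, 2886, 1000⟩⟩ (yA11A.hNeg (yA11A.pEnd false)) :=
  posD_of_check (c := ⟨259, ⟨2, 5, 9, 7⟩⟩) (by decide +kernel)

def yA11A_neglo0 : PosD ⟨⟨0, 1, 1⟩, ⟨98, 99, 147⟩, ⟨150, 301, 10000⟩, ⟨2776, 2886, 1000⟩⟩ (yA11A.hNegLo (yA11A.pEnd false)) :=
  posD_of_check (c := ⟨260, ⟨2, 5, 9, 7⟩⟩) (by decide +kernel)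

def yA11A_tg00 : PosD ⟨⟨0, 1, 1⟩, ⟨98, 99, 147⟩, ⟨150, 301, 10000⟩, ⟨2776, 2886, 1000⟩⟩ (yA11A.hG false (yA11A.pEnd false)) :=
  posD_of_check (c := ⟨372, ⟨2, 7, 14, 9⟩⟩) (by decide +kernel)

def yA11A_c2p00 : PosD ⟨⟨0, 1, 1⟩, ⟨98, 99, 147⟩, ⟨150, 301, 10000⟩, ⟨2776, 2886, 1000⟩⟩ (yA11A.hC2p false (yA11A.pEnd false)) :=
  posD_of_check (c := ⟨435, ⟨3, 8, 16, 11⟩⟩) (by decide +kernel)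

def yA11A_c2m00 : PosD ⟨⟨0, 1, 1⟩, ⟨98, 99, 147⟩, ⟨150, 301, 10000⟩, ⟨2776, 2886, 1000⟩⟩ (yA11A.hC2m false (yA11A.pEnd false)) :=
  posD_of_check (c := ⟨405, ⟨2, 7, 16, 10⟩⟩) (by decide +kernel)

def yA11A_c3p00 : PosD ⟨⟨0, 1, 1⟩, ⟨98, 99, 147⟩, ⟨150, 301, 10000⟩, ⟨2776, 2886, 1000⟩⟩ (yA11A.hC3p false false) :=
  posD_of_check (c := ⟨429, ⟨3, 8, 15, 11⟩⟩) (by decide +kernel)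

def yA11A_c3m00 : PosD ⟨⟨0, 1, 1⟩, ⟨98, 99, 147⟩, ⟨150, 301, 10000⟩, ⟨2776, 2886, 1000⟩⟩ (yA11A.hC3m false false) :=
  posD_of_check (c := ⟨404, ⟨3, 7, 15, 10⟩⟩) (by decide +kernel)

def yA11A_tmg00 : PosD ⟨⟨0, 1, 1⟩, ⟨98, 99, 147⟩, ⟨150, 301, 10000⟩, ⟨2776, 2886, 1000⟩⟩ (yA11A.hTMG false (yA11A.pEnd false)) :=
  posD_of_check (c := ⟨387, ⟨2, 7, 14, 10⟩⟩) (by decide +kernel)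

def yA11A_tg01 : PosD ⟨⟨0, 1, 1⟩, ⟨98, 99, 147⟩, ⟨150, 301, 10000⟩, ⟨2776, 2886, 1000⟩⟩ (yA11A.hG true (yA11A.pEnd false)) :=
  posD_of_check (c := ⟨372, ⟨2, 7, 14, 9⟩⟩) (by decide +kernel)

def yA11A_c2p01 : PosD ⟨⟨0, 1, 1⟩, ⟨98, 99, 147⟩, ⟨150, 301, 10000⟩, ⟨2776, 2886, 1000⟩⟩ (yA11A.hC2p true (yA11A.pEnd false)) :=
  posD_of_check (c := ⟨435, ⟨3, 8, 16, 11⟩⟩) (by decide +kernel)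

def yA11A_c2m01 : PosD ⟨⟨0, 1, 1⟩, ⟨98, 99, 147⟩, ⟨150, 301, 10000⟩, ⟨2776, 2886, 1000⟩⟩ (yA11A.hC2m true (yA11A.pEnd false)) :=
  posD_of_check (c := ⟨405, ⟨2, 7, 16, 10⟩⟩) (by decide +kernel)

def yA11A_c3p01 : PosD ⟨⟨0, 1, 1⟩, ⟨98, 99, 147⟩, ⟨150, 301, 10000⟩, ⟨2776, 2886, 1000⟩⟩ (yA11A.hC3p false true) :=
  posD_of_check (c := ⟨429, ⟨3, 8, 15, 11⟩⟩) (by decide +kernel)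

def yA11A_c3m01 : PosD ⟨⟨0, 1, 1⟩, ⟨98, 99, 147⟩, ⟨150, 301, 10000⟩, ⟨2776, 2886, 1000⟩⟩ (yA11A.hC3m false true) :=
  posD_of_check (c := ⟨404, ⟨3, 7, 15, 10⟩⟩) (by decide +kernel)

def yA11A_tmg01 : PosD ⟨⟨0, 1, 1⟩, ⟨98, 99, 147⟩, ⟨150, 301, 10000⟩, ⟨2776, 2886, 1000⟩⟩ (yA11A.hTMG true (yA11A.pEnd false)) :=
  posD_of_check (c := ⟨387, ⟨2, 7, 14, 10⟩⟩) (by decide +kernel)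

def yA11A_kap1 : PosD ⟨⟨0, 1, 1⟩, ⟨98, 99, 147⟩, ⟨150, 301, 10000⟩, ⟨2776, 2886, 1000⟩⟩ (yA11A.kap true) :=
  posD_of_check (c := ⟨68, ⟨1, 1, 2, 2⟩⟩) (by decide +kernel)

def yA11A_c11 : PosD ⟨⟨0, 1, 1⟩, ⟨98, 99, 147⟩, ⟨150, 301, 10000⟩, ⟨2776, 2886, 1000⟩⟩ (yA11A.hC1 true) :=
  posD_of_check (c := ⟨265, ⟨3, 5, 9, 7⟩⟩) (by decide +kernel)

def yA11A_neg1 : PosD ⟨⟨0, 1, 1⟩, ⟨98, 99, 147⟩, ⟨150, 301, 10000⟩, ⟨2776, 2886, 1000⟩⟩ (yA11A.hNeg (yA11A.pEnd true)) :=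
  posD_of_check (c := ⟨259, ⟨2, 5, 9, 7⟩⟩) (by decide +kernel)

def yA11A_neglo1 : PosD ⟨⟨0, 1, 1⟩, ⟨98, 99, 147⟩, ⟨150, 301, 10000⟩, ⟨2776, 2886, 1000⟩⟩ (yA11A.hNegLo (yA11A.pEnd true)) :=
  posD_of_check (c := ⟨259, ⟨2, 5, 9, 7⟩⟩) (by decide +kernel)

def yA11A_tg10 : PosD ⟨⟨0, 1, 1⟩, ⟨98, 99, 147⟩, ⟨150, 301, 10000⟩, ⟨2776, 2886, 1000⟩⟩ (yA11A.hG false (yA11A.pEnd true)) :=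
  posD_of_check (c := ⟨371, ⟨2, 7, 14, 9⟩⟩) (by decide +kernel)

def yA11A_c2p10 : PosD ⟨⟨0, 1, 1⟩, ⟨98, 99, 147⟩, ⟨150, 301, 10000⟩, ⟨2776, 2886, 1000⟩⟩ (yA11A.hC2p false (yA11A.pEnd true)) :=
  posD_of_check (c := ⟨434, ⟨3, 8, 16, 11⟩⟩) (by decide +kernel)

def yA11A_c2m10 : PosD ⟨⟨0, 1, 1⟩, ⟨98, 99, 147⟩, ⟨150, 301, 10000⟩, ⟨2776, 2886, 1000⟩⟩ (yA11A.hC2m false (yA11A.pEnd true)) :=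
  posD_of_check (c := ⟨404, ⟨2, 7, 16, 10⟩⟩) (by decide +kernel)

def yA11A_c3p10 : PosD ⟨⟨0, 1, 1⟩, ⟨98, 99, 147⟩, ⟨150, 301, 10000⟩, ⟨2776, 2886, 1000⟩⟩ (yA11A.hC3p true false) :=
  posD_of_check (c := ⟨429, ⟨3, 8, 15, 11⟩⟩) (by decide +kernel)

def yA11A_c3m10 : PosD ⟨⟨0, 1, 1⟩, ⟨98, 99, 147⟩, ⟨150, 301, 10000⟩, ⟨2776, 2886, 1000⟩⟩ (yA11A.hC3m true false) :=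
  posD_of_check (c := ⟨405, ⟨3, 7, 15, 10⟩⟩) (by decide +kernel)

def yA11A_tmg10 : PosD ⟨⟨0, 1, 1⟩, ⟨98, 99, 147⟩, ⟨150, 301, 10000⟩, ⟨2776, 2886, 1000⟩⟩ (yA11A.hTMG false (yA11A.pEnd true)) :=
  posD_of_check (c := ⟨387, ⟨2, 7, 14, 10⟩⟩) (by decide +kernel)

def yA11A_tg11 : PosD ⟨⟨0, 1, 1⟩, ⟨98, 99, 147⟩, ⟨150, 301, 10000⟩, ⟨2776, 2886, 1000⟩⟩ (yA11A.hG true (yA11A.pEnd true)) :=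
  posD_of_check (c := ⟨371, ⟨2, 7, 14, 9⟩⟩) (by decide +kernel)

def yA11A_c2p11 : PosD ⟨⟨0, 1, 1⟩, ⟨98, 99, 147⟩, ⟨150, 301, 10000⟩, ⟨2776, 2886, 1000⟩⟩ (yA11A.hC2p true (yA11A.pEnd true)) :=
  posD_of_check (c := ⟨434, ⟨3, 8, 16, 11⟩⟩) (by decide +kernel)

def yA11A_c2m11 : PosD ⟨⟨0, 1, 1⟩, ⟨98, 99, 147⟩, ⟨150, 301, 10000⟩, ⟨2776, 2886, 1000⟩⟩ (yA11A.hC2m true (yA11A.pEnd true)) :=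
  posD_of_check (c := ⟨404, ⟨2, 7, 16, 10⟩⟩) (by decide +kernel)

def yA11A_c3p11 : PosD ⟨⟨0, 1, 1⟩, ⟨98, 99, 147⟩, ⟨150, 301, 10000⟩, ⟨2776, 2886, 1000⟩⟩ (yA11A.hC3p true true) :=
  posD_of_check (c := ⟨429, ⟨3, 8, 15, 11⟩⟩) (by decide +kernel)

def yA11A_c3m11 : PosD ⟨⟨0, 1, 1⟩, ⟨98, 99, 147⟩, ⟨150, 301, 10000⟩, ⟨2776, 2886, 1000⟩⟩ (yA11A.hC3m true true) :=
  posD_of_check (c := ⟨405, ⟨3, 7, 15, 10⟩⟩) (by decide +kernel)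

def yA11A_tmg11 : PosD ⟨⟨0, 1, 1⟩, ⟨98, 99, 147⟩, ⟨150, 301, 10000⟩, ⟨2776, 2886, 1000⟩⟩ (yA11A.hTMG true (yA11A.pEnd true)) :=
  posD_of_check (c := ⟨387, ⟨2, 7, 14, 10⟩⟩) (by decide +kernel)

/-- The signs of the piece. -/
def yA11A_sign : yA11A.Sign ⟨⟨0, 1, 1⟩, ⟨98, 99, 147⟩, ⟨150, 301, 10000⟩, ⟨2776, 2886, 1000⟩⟩ :=
  ⟨yA11A_pp,
    yA11A_k2p,
    yA11A_k2m,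
    Bool.forall_bool.2 ⟨(Bool.forall_bool.2 ⟨yA11A_tg00, yA11A_tg01⟩), (Bool.forall_bool.2 ⟨yA11A_tg10, yA11A_tg11⟩)⟩,
    Bool.forall_bool.2 ⟨(Bool.forall_bool.2 ⟨yA11A_c2p00, yA11A_c2p01⟩), (Bool.forall_bool.2 ⟨yA11A_c2p10, yA11A_c2p11⟩)⟩,
    Bool.forall_bool.2 ⟨(Bool.forall_bool.2 ⟨yA11A_c2m00, yA11A_c2m01⟩), (Bool.forall_bool.2 ⟨yA11A_c2m10, yA11A_c2m11⟩)⟩,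
    Bool.forall_bool.2 ⟨yA11A_kap0, yA11A_kap1⟩,
    Bool.forall_bool.2 ⟨yA11A_c10, yA11A_c11⟩,
    Bool.forall_bool.2 ⟨(Bool.forall_bool.2 ⟨yA11A_c3p00, yA11A_c3p01⟩), (Bool.forall_bool.2 ⟨yA11A_c3p10, yA11A_c3p11⟩)⟩,
    Bool.forall_bool.2 ⟨(Bool.forall_bool.2 ⟨yA11A_c3m00, yA11A_c3m01⟩), (Bool.forall_bool.2 ⟨yA11A_c3m10, yA11A_c3m11⟩)⟩,
    Bool.forall_bool.2 ⟨(Bool.forall_bool.2 ⟨yA11A_tmg00, yA11A_tmg01⟩), (Bool.forall_bool.2 ⟨yA11A_tmg10, yA11A_tmg11⟩)⟩,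
    .inl (Bool.forall_bool.2 ⟨⟨yA11A_neg0, yA11A_neglo0⟩, ⟨yA11A_neg1, yA11A_neglo1⟩⟩),
    yA11A_v2p,
    yA11A_v2m,
    yA11A_v3p,
    yA11A_v3m,
    posD_sub (b := ⟨⟨0, 1, 1⟩, ⟨98, 99, 147⟩, ⟨0, 301, 10000⟩, ⟨1060, 4000, 1000⟩⟩) (by decide +kernel) yA_vG,
    posD_sub (b := ⟨⟨0, 1, 1⟩, ⟨98, 99, 147⟩, ⟨0, 301, 10000⟩, ⟨1060, 4000, 1000⟩⟩) (by decide +kernel) yA_vMG,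
    posD_sub (b := ⟨⟨0, 1, 1⟩, ⟨98, 99, 147⟩, ⟨0, 301, 10000⟩, ⟨1060, 4000, 1000⟩⟩) (by decide +kernel) yA_ak,
    posD_sub (b := ⟨⟨0, 1, 1⟩, ⟨98, 99, 147⟩, ⟨0, 301, 10000⟩, ⟨1060, 4000, 1000⟩⟩) (by decide +kernel) yA_aw,
    posD_sub (b := ⟨⟨0, 1, 1⟩, ⟨98, 99, 147⟩, ⟨0, 301, 10000⟩, ⟨1060, 4000, 1000⟩⟩) (by decide +kernel) yA_gk,
    posD_sub (b := ⟨⟨0, 1, 1⟩, ⟨98, 99, 147⟩, ⟨0, 301, 10000⟩, ⟨1060, 4000, 1000⟩⟩) (by decide +kernel) yA_gw,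
    posD_sub (b := ⟨⟨0, 1, 1⟩, ⟨98, 99, 147⟩, ⟨0, 301, 10000⟩, ⟨1060, 4000, 1000⟩⟩) (by decide +kernel) yA_ek,
    posD_sub (b := ⟨⟨0, 1, 1⟩, ⟨98, 99, 147⟩, ⟨0, 301, 10000⟩, ⟨1060, 4000, 1000⟩⟩) (by decide +kernel) yA_ew⟩

def yA11B_pp : PosD ⟨⟨0, 1, 1⟩, ⟨98, 99, 147⟩, ⟨150, 301, 10000⟩, ⟨2776, 2886, 1000⟩⟩ (yA11B.xPL) :=
  posD_of_check (c := ⟨92, ⟨1, 1, 3, 3⟩⟩) (by decide +kernel)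

def yA11B_k2p : PosD ⟨⟨0, 1, 1⟩, ⟨98, 99, 147⟩, ⟨150, 301, 10000⟩, ⟨2776, 2886, 1000⟩⟩ (yA11B.k2p yA11B.xE) :=
  posD_of_check (c := ⟨63, ⟨1, 1, 2, 2⟩⟩) (by decide +kernel)

def yA11B_k2m : PosD ⟨⟨0, 1, 1⟩, ⟨98, 99, 147⟩, ⟨150, 301, 10000⟩, ⟨2776, 2886, 1000⟩⟩ (yA11B.k2m yA11B.xE) :=
  posD_of_check (c := ⟨62, ⟨1, 1, 2, 2⟩⟩) (by decide +kernel)

def yA11B_v2p : PosD ⟨⟨0, 1, 1⟩, ⟨98, 99, 147⟩, ⟨150, 301, 10000⟩, ⟨2776, 2886, 1000⟩⟩ (yA11B.hV2p) :=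
  posD_of_check (c := ⟨256, ⟨1, 6, 10, 5⟩⟩) (by decide +kernel)

def yA11B_v2m : PosD ⟨⟨0, 1, 1⟩, ⟨98, 99, 147⟩, ⟨150, 301, 10000⟩, ⟨2776, 2886, 1000⟩⟩ (yA11B.hV2m) :=
  posD_of_check (c := ⟨255, ⟨1, 6, 10, 5⟩⟩) (by decide +kernel)

def yA11B_v3p : PosD ⟨⟨0, 1, 1⟩, ⟨98, 99, 147⟩, ⟨150, 301, 10000⟩, ⟨2776, 2886, 1000⟩⟩ (yA11B.hV3p) :=
  posD_of_check (c := ⟨246, ⟨1, 6, 9, 5⟩⟩) (by decide +kernel)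

def yA11B_v3m : PosD ⟨⟨0, 1, 1⟩, ⟨98, 99, 147⟩, ⟨150, 301, 10000⟩, ⟨2776, 2886, 1000⟩⟩ (yA11B.hV3m) :=
  posD_of_check (c := ⟨246, ⟨1, 6, 9, 5⟩⟩) (by decide +kernel)

def yA11B_kap0 : PosD ⟨⟨0, 1, 1⟩, ⟨98, 99, 147⟩, ⟨150, 301, 10000⟩, ⟨2776, 2886, 1000⟩⟩ (yA11B.kap false) :=
  posD_of_check (c := ⟨71, ⟨1, 1, 2, 2⟩⟩) (by decide +kernel)

def yA11B_c10a : PosD ⟨⟨0, 1, 1⟩, ⟨98, 99, 147⟩, ⟨150, 225, 10000⟩, ⟨2776, 2886, 1000⟩⟩ (yA11B.hC1 false) :=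
  posD_of_check (c := ⟨268, ⟨3, 5, 9, 7⟩⟩) (by decide +kernel)

def yA11B_c10b : PosD ⟨⟨0, 1, 1⟩, ⟨98, 99, 147⟩, ⟨225, 301, 10000⟩, ⟨2776, 2886, 1000⟩⟩ (yA11B.hC1 false) :=
  posD_of_check (c := ⟨269, ⟨3, 5, 9, 7⟩⟩) (by decide +kernel)

def yA11B_c10 : PosD ⟨⟨0, 1, 1⟩, ⟨98, 99, 147⟩, ⟨150, 301, 10000⟩, ⟨2776, 2886, 1000⟩⟩ (yA11B.hC1 false) :=
  posD_join₂ yA11B_c10a yA11B_c10b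

def yA11B_c1h0 : PosD ⟨⟨0, 1, 1⟩, ⟨98, 99, 147⟩, ⟨150, 301, 10000⟩, ⟨2776, 2886, 1000⟩⟩ (yA11B.hC1' false) :=
  posD_of_check (c := ⟨268, ⟨3, 5, 9, 7⟩⟩) (by decide +kernel)

def yA11B_tg00 : PosD ⟨⟨0, 1, 1⟩, ⟨98, 99, 147⟩, ⟨150, 301, 10000⟩, ⟨2776, 2886, 1000⟩⟩ (yA11B.hG false (yA11B.pEnd false)) :=
  posD_of_check (c := ⟨372, ⟨2, 7, 14, 9⟩⟩) (by decide +kernel)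

def yA11B_c2p00 : PosD ⟨⟨0, 1, 1⟩, ⟨98, 99, 147⟩, ⟨150, 301, 10000⟩, ⟨2776, 2886, 1000⟩⟩ (yA11B.hC2p false (yA11B.pEnd false)) :=
  posD_of_check (c := ⟨435, ⟨3, 8, 16, 11⟩⟩) (by decide +kernel)

def yA11B_c2m00 : PosD ⟨⟨0, 1, 1⟩, ⟨98, 99, 147⟩, ⟨150, 301, 10000⟩, ⟨2776, 2886, 1000⟩⟩ (yA11B.hC2m false (yA11B.pEnd false)) :=
  posD_of_check (c := ⟨435, ⟨3, 8, 16, 11⟩⟩) (by decide +kernel)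

def yA11B_c3p00 : PosD ⟨⟨0, 1, 1⟩, ⟨98, 99, 147⟩, ⟨150, 301, 10000⟩, ⟨2776, 2886, 1000⟩⟩ (yA11B.hC3p false false) :=
  posD_of_check (c := ⟨433, ⟨3, 8, 15, 11⟩⟩) (by decide +kernel)

def yA11B_c3m00 : PosD ⟨⟨0, 1, 1⟩, ⟨98, 99, 147⟩, ⟨150, 301, 10000⟩, ⟨2776, 2886, 1000⟩⟩ (yA11B.hC3m false false) :=
  posD_of_check (c := ⟨433, ⟨3, 8, 15, 11⟩⟩) (by decide +kernel)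

def yA11B_c3ph00 : PosD ⟨⟨0, 1, 1⟩, ⟨98, 99, 147⟩, ⟨150, 301, 10000⟩, ⟨2776, 2886, 1000⟩⟩ (yA11B.hC3p' false false) :=
  posD_of_check (c := ⟨433, ⟨3, 8, 15, 11⟩⟩) (by decide +kernel)

def yA11B_c3mh00 : PosD ⟨⟨0, 1, 1⟩, ⟨98, 99, 147⟩, ⟨150, 301, 10000⟩, ⟨2776, 2886, 1000⟩⟩ (yA11B.hC3m' false false) :=
  posD_of_check (c := ⟨433, ⟨3, 8, 15, 11⟩⟩) (by decide +kernel)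

def yA11B_up00 : PosD ⟨⟨0, 1, 1⟩, ⟨98, 99, 147⟩, ⟨150, 301, 10000⟩, ⟨2776, 2886, 1000⟩⟩ (yA11B.hUp false false) :=
  posD_of_check (c := ⟨427, ⟨3, 8, 15, 11⟩⟩) (by decide +kernel)

def yA11B_um00 : PosD ⟨⟨0, 1, 1⟩, ⟨98, 99, 147⟩, ⟨150, 301, 10000⟩, ⟨2776, 2886, 1000⟩⟩ (yA11B.hUm false false) :=
  posD_of_check (c := ⟨427, ⟨3, 8, 15, 11⟩⟩) (by decide +kernel)

def yA11B_tmg00 : PosD ⟨⟨0, 1, 1⟩, ⟨98, 99, 147⟩, ⟨150, 301, 10000⟩, ⟨2776, 2886, 1000⟩⟩ (yA11B.hTMG false (yA11B.pEnd false)) :=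
  posD_of_check (c := ⟨387, ⟨2, 7, 14, 10⟩⟩) (by decide +kernel)

def yA11B_tg01 : PosD ⟨⟨0, 1, 1⟩, ⟨98, 99, 147⟩, ⟨150, 301, 10000⟩, ⟨2776, 2886, 1000⟩⟩ (yA11B.hG true (yA11B.pEnd false)) :=
  posD_of_check (c := ⟨372, ⟨2, 7, 14, 9⟩⟩) (by decide +kernel)

def yA11B_c2p01 : PosD ⟨⟨0, 1, 1⟩, ⟨98, 99, 147⟩, ⟨150, 301, 10000⟩, ⟨2776, 2886, 1000⟩⟩ (yA11B.hC2p true (yA11B.pEnd false)) :=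
  posD_of_check (c := ⟨435, ⟨3, 8, 16, 11⟩⟩) (by decide +kernel)

def yA11B_c2m01 : PosD ⟨⟨0, 1, 1⟩, ⟨98, 99, 147⟩, ⟨150, 301, 10000⟩, ⟨2776, 2886, 1000⟩⟩ (yA11B.hC2m true (yA11B.pEnd false)) :=
  posD_of_check (c := ⟨435, ⟨3, 8, 16, 11⟩⟩) (by decide +kernel)

def yA11B_c3p01 : PosD ⟨⟨0, 1, 1⟩, ⟨98, 99, 147⟩, ⟨150, 301, 10000⟩, ⟨2776, 2886, 1000⟩⟩ (yA11B.hC3p false true) :=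
  posD_of_check (c := ⟨433, ⟨3, 8, 15, 11⟩⟩) (by decide +kernel)

def yA11B_c3m01 : PosD ⟨⟨0, 1, 1⟩, ⟨98, 99, 147⟩, ⟨150, 301, 10000⟩, ⟨2776, 2886, 1000⟩⟩ (yA11B.hC3m false true) :=
  posD_of_check (c := ⟨433, ⟨3, 8, 15, 11⟩⟩) (by decide +kernel)

def yA11B_c3ph01 : PosD ⟨⟨0, 1, 1⟩, ⟨98, 99, 147⟩, ⟨150, 301, 10000⟩, ⟨2776, 2886, 1000⟩⟩ (yA11B.hC3p' false true) :=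
  posD_of_check (c := ⟨433, ⟨3, 8, 15, 11⟩⟩) (by decide +kernel)

def yA11B_c3mh01 : PosD ⟨⟨0, 1, 1⟩, ⟨98, 99, 147⟩, ⟨150, 301, 10000⟩, ⟨2776, 2886, 1000⟩⟩ (yA11B.hC3m' false true) :=
  posD_of_check (c := ⟨433, ⟨3, 8, 15, 11⟩⟩) (by decide +kernel)

def yA11B_up01 : PosD ⟨⟨0, 1, 1⟩, ⟨98, 99, 147⟩, ⟨150, 301, 10000⟩, ⟨2776, 2886, 1000⟩⟩ (yA11B.hUp false true) :=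
  posD_of_check (c := ⟨427, ⟨3, 8, 15, 11⟩⟩) (by decide +kernel)

def yA11B_um01 : PosD ⟨⟨0, 1, 1⟩, ⟨98, 99, 147⟩, ⟨150, 301, 10000⟩, ⟨2776, 2886, 1000⟩⟩ (yA11B.hUm false true) :=
  posD_of_check (c := ⟨427, ⟨3, 8, 15, 11⟩⟩) (by decide +kernel)

def yA11B_tmg01 : PosD ⟨⟨0, 1, 1⟩, ⟨98, 99, 147⟩, ⟨150, 301, 10000⟩, ⟨2776, 2886, 1000⟩⟩ (yA11B.hTMG true (yA11B.pEnd false)) :=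
  posD_of_check (c := ⟨387, ⟨2, 7, 14, 10⟩⟩) (by decide +kernel)

def yA11B_kap1 : PosD ⟨⟨0, 1, 1⟩, ⟨98, 99, 147⟩, ⟨150, 301, 10000⟩, ⟨2776, 2886, 1000⟩⟩ (yA11B.kap true) :=
  posD_of_check (c := ⟨70, ⟨1, 1, 2, 2⟩⟩) (by decide +kernel)

def yA11B_c11 : PosD ⟨⟨0, 1, 1⟩, ⟨98, 99, 147⟩, ⟨150, 301, 10000⟩, ⟨2776, 2886, 1000⟩⟩ (yA11B.hC1 true) :=
  posD_of_check (c := ⟨267, ⟨3, 5, 9, 7⟩⟩) (by decide +kernel)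

def yA11B_c1h1 : PosD ⟨⟨0, 1, 1⟩, ⟨98, 99, 147⟩, ⟨150, 301, 10000⟩, ⟨2776, 2886, 1000⟩⟩ (yA11B.hC1' true) :=
  posD_of_check (c := ⟨267, ⟨3, 5, 9, 7⟩⟩) (by decide +kernel)

def yA11B_tg10 : PosD ⟨⟨0, 1, 1⟩, ⟨98, 99, 147⟩, ⟨150, 301, 10000⟩, ⟨2776, 2886, 1000⟩⟩ (yA11B.hG false (yA11B.pEnd true)) :=
  posD_of_check (c := ⟨372, ⟨2, 7, 14, 9⟩⟩) (by decide +kernel)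

def yA11B_c2p10 : PosD ⟨⟨0, 1, 1⟩, ⟨98, 99, 147⟩, ⟨150, 301, 10000⟩, ⟨2776, 2886, 1000⟩⟩ (yA11B.hC2p false (yA11B.pEnd true)) :=
  posD_of_check (c := ⟨435, ⟨3, 8, 16, 11⟩⟩) (by decide +kernel)

def yA11B_c2m10 : PosD ⟨⟨0, 1, 1⟩, ⟨98, 99, 147⟩, ⟨150, 301, 10000⟩, ⟨2776, 2886, 1000⟩⟩ (yA11B.hC2m false (yA11B.pEnd true)) :=
  posD_of_check (c := ⟨435, ⟨3, 8, 16, 11⟩⟩) (by decide +kernel)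

def yA11B_c3p10 : PosD ⟨⟨0, 1, 1⟩, ⟨98, 99, 147⟩, ⟨150, 301, 10000⟩, ⟨2776, 2886, 1000⟩⟩ (yA11B.hC3p true false) :=
  posD_of_check (c := ⟨431, ⟨3, 8, 15, 11⟩⟩) (by decide +kernel)

def yA11B_c3m10 : PosD ⟨⟨0, 1, 1⟩, ⟨98, 99, 147⟩, ⟨150, 301, 10000⟩, ⟨2776, 2886, 1000⟩⟩ (yA11B.hC3m true false) :=
  posD_of_check (c := ⟨431, ⟨3, 8, 15, 11⟩⟩) (by decide +kernel)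

def yA11B_c3ph10 : PosD ⟨⟨0, 1, 1⟩, ⟨98, 99, 147⟩, ⟨150, 301, 10000⟩, ⟨2776, 2886, 1000⟩⟩ (yA11B.hC3p' true false) :=
  posD_of_check (c := ⟨431, ⟨3, 8, 15, 11⟩⟩) (by decide +kernel)

def yA11B_c3mh10 : PosD ⟨⟨0, 1, 1⟩, ⟨98, 99, 147⟩, ⟨150, 301, 10000⟩, ⟨2776, 2886, 1000⟩⟩ (yA11B.hC3m' true false) :=
  posD_of_check (c := ⟨431, ⟨3, 8, 15, 11⟩⟩) (by decide +kernel)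

def yA11B_up10 : PosD ⟨⟨0, 1, 1⟩, ⟨98, 99, 147⟩, ⟨150, 301, 10000⟩, ⟨2776, 2886, 1000⟩⟩ (yA11B.hUp true false) :=
  posD_of_check (c := ⟨427, ⟨3, 8, 15, 11⟩⟩) (by decide +kernel)

def yA11B_um10 : PosD ⟨⟨0, 1, 1⟩, ⟨98, 99, 147⟩, ⟨150, 301, 10000⟩, ⟨2776, 2886, 1000⟩⟩ (yA11B.hUm true false) :=
  posD_of_check (c := ⟨427, ⟨3, 8, 15, 11⟩⟩) (by decide +kernel)

def yA11B_tmg10 : PosD ⟨⟨0, 1, 1⟩, ⟨98, 99, 147⟩, ⟨150, 301, 10000⟩, ⟨2776, 2886, 1000⟩⟩ (yA11B.hTMG false (yA11B.pEnd true)) :=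
  posD_of_check (c := ⟨387, ⟨2, 7, 14, 10⟩⟩) (by decide +kernel)

def yA11B_tg11 : PosD ⟨⟨0, 1, 1⟩, ⟨98, 99, 147⟩, ⟨150, 301, 10000⟩, ⟨2776, 2886, 1000⟩⟩ (yA11B.hG true (yA11B.pEnd true)) :=
  posD_of_check (c := ⟨372, ⟨2, 7, 14, 9⟩⟩) (by decide +kernel)

def yA11B_c2p11 : PosD ⟨⟨0, 1, 1⟩, ⟨98, 99, 147⟩, ⟨150, 301, 10000⟩, ⟨2776, 2886, 1000⟩⟩ (yA11B.hC2p true (yA11B.pEnd true)) :=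
  posD_of_check (c := ⟨435, ⟨3, 8, 16, 11⟩⟩) (by decide +kernel)

def yA11B_c2m11 : PosD ⟨⟨0, 1, 1⟩, ⟨98, 99, 147⟩, ⟨150, 301, 10000⟩, ⟨2776, 2886, 1000⟩⟩ (yA11B.hC2m true (yA11B.pEnd true)) :=
  posD_of_check (c := ⟨435, ⟨3, 8, 16, 11⟩⟩) (by decide +kernel)

def yA11B_c3p11 : PosD ⟨⟨0, 1, 1⟩, ⟨98, 99, 147⟩, ⟨150, 301, 10000⟩, ⟨2776, 2886, 1000⟩⟩ (yA11B.hC3p true true) :=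
  posD_of_check (c := ⟨431, ⟨3, 8, 15, 11⟩⟩) (by decide +kernel)

def yA11B_c3m11 : PosD ⟨⟨0, 1, 1⟩, ⟨98, 99, 147⟩, ⟨150, 301, 10000⟩, ⟨2776, 2886, 1000⟩⟩ (yA11B.hC3m true true) :=
  posD_of_check (c := ⟨431, ⟨3, 8, 15, 11⟩⟩) (by decide +kernel)

def yA11B_c3ph11 : PosD ⟨⟨0, 1, 1⟩, ⟨98, 99, 147⟩, ⟨150, 301, 10000⟩, ⟨2776, 2886, 1000⟩⟩ (yA11B.hC3p' true true) :=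
  posD_of_check (c := ⟨431, ⟨3, 8, 15, 11⟩⟩) (by decide +kernel)

def yA11B_c3mh11 : PosD ⟨⟨0, 1, 1⟩, ⟨98, 99, 147⟩, ⟨150, 301, 10000⟩, ⟨2776, 2886, 1000⟩⟩ (yA11B.hC3m' true true) :=
  posD_of_check (c := ⟨431, ⟨3, 8, 15, 11⟩⟩) (by decide +kernel)

def yA11B_up11 : PosD ⟨⟨0, 1, 1⟩, ⟨98, 99, 147⟩, ⟨150, 301, 10000⟩, ⟨2776, 2886, 1000⟩⟩ (yA11B.hUp true true) :=
  posD_of_check (c := ⟨427, ⟨3, 8, 15, 11⟩⟩) (by decide +kernel)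

def yA11B_um11 : PosD ⟨⟨0, 1, 1⟩, ⟨98, 99, 147⟩, ⟨150, 301, 10000⟩, ⟨2776, 2886, 1000⟩⟩ (yA11B.hUm true true) :=
  posD_of_check (c := ⟨427, ⟨3, 8, 15, 11⟩⟩) (by decide +kernel)

def yA11B_tmg11 : PosD ⟨⟨0, 1, 1⟩, ⟨98, 99, 147⟩, ⟨150, 301, 10000⟩, ⟨2776, 2886, 1000⟩⟩ (yA11B.hTMG true (yA11B.pEnd true)) :=
  posD_of_check (c := ⟨387, ⟨2, 7, 14, 10⟩⟩) (by decide +kernel)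

/-- The signs of the piece. -/
def yA11B_sign : yA11B.Sign ⟨⟨0, 1, 1⟩, ⟨98, 99, 147⟩, ⟨150, 301, 10000⟩, ⟨2776, 2886, 1000⟩⟩ :=
  ⟨yA11B_pp,
    yA11B_k2p,
    yA11B_k2m,
    Bool.forall_bool.2 ⟨(Bool.forall_bool.2 ⟨yA11B_tg00, yA11B_tg01⟩), (Bool.forall_bool.2 ⟨yA11B_tg10, yA11B_tg11⟩)⟩,
    Bool.forall_bool.2 ⟨(Bool.forall_bool.2 ⟨yA11B_c2p00, yA11B_c2p01⟩), (Bool.forall_bool.2 ⟨yA11B_c2p10, yA11B_c2p11⟩)⟩,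
    Bool.forall_bool.2 ⟨(Bool.forall_bool.2 ⟨yA11B_c2m00, yA11B_c2m01⟩), (Bool.forall_bool.2 ⟨yA11B_c2m10, yA11B_c2m11⟩)⟩,
    Bool.forall_bool.2 ⟨yA11B_kap0, yA11B_kap1⟩,
    Bool.forall_bool.2 ⟨yA11B_c10, yA11B_c11⟩,
    Bool.forall_bool.2 ⟨(Bool.forall_bool.2 ⟨yA11B_c3p00, yA11B_c3p01⟩), (Bool.forall_bool.2 ⟨yA11B_c3p10, yA11B_c3p11⟩)⟩,
    Bool.forall_bool.2 ⟨(Bool.forall_bool.2 ⟨yA11B_c3m00, yA11B_c3m01⟩), (Bool.forall_bool.2 ⟨yA11B_c3m10, yA11B_c3m11⟩)⟩,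
    Bool.forall_bool.2 ⟨(Bool.forall_bool.2 ⟨yA11B_tmg00, yA11B_tmg01⟩), (Bool.forall_bool.2 ⟨yA11B_tmg10, yA11B_tmg11⟩)⟩,
    .inr (Bool.forall_bool.2 ⟨⟨yA11B_c1h0, Bool.forall_bool.2 ⟨⟨yA11B_c3ph00, yA11B_c3mh00, yA11B_up00, yA11B_um00⟩, ⟨yA11B_c3ph01, yA11B_c3mh01, yA11B_up01, yA11B_um01⟩⟩⟩, ⟨yA11B_c1h1, Bool.forall_bool.2 ⟨⟨yA11B_c3ph10, yA11B_c3mh10, yA11B_up10, yA11B_um10⟩, ⟨yA11B_c3ph11, yA11B_c3mh11, yA11B_up11, yA11B_um11⟩⟩⟩⟩),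
    yA11B_v2p,
    yA11B_v2m,
    yA11B_v3p,
    yA11B_v3m,
    posD_sub (b := ⟨⟨0, 1, 1⟩, ⟨98, 99, 147⟩, ⟨0, 301, 10000⟩, ⟨1060, 4000, 1000⟩⟩) (by decide +kernel) yA_vG,
    posD_sub (b := ⟨⟨0, 1, 1⟩, ⟨98, 99, 147⟩, ⟨0, 301, 10000⟩, ⟨1060, 4000, 1000⟩⟩) (by decide +kernel) yA_vMG,
    posD_sub (b := ⟨⟨0, 1, 1⟩, ⟨98, 99, 147⟩, ⟨0, 301, 10000⟩, ⟨1060, 4000, 1000⟩⟩) (by decide +kernel) yA_ak,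
    posD_sub (b := ⟨⟨0, 1, 1⟩, ⟨98, 99, 147⟩, ⟨0, 301, 10000⟩, ⟨1060, 4000, 1000⟩⟩) (by decide +kernel) yA_aw,
    posD_sub (b := ⟨⟨0, 1, 1⟩, ⟨98, 99, 147⟩, ⟨0, 301, 10000⟩, ⟨1060, 4000, 1000⟩⟩) (by decide +kernel) yA_gk,
    posD_sub (b := ⟨⟨0, 1, 1⟩, ⟨98, 99, 147⟩, ⟨0, 301, 10000⟩, ⟨1060, 4000, 1000⟩⟩) (by decide +kernel) yA_gw,
    posD_sub (b := ⟨⟨0, 1, 1⟩, ⟨98, 99, 147⟩, ⟨0, 301, 10000⟩, ⟨1060, 4000, 1000⟩⟩) (by decide +kernel) yA_ek,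
    posD_sub (b := ⟨⟨0, 1, 1⟩, ⟨98, 99, 147⟩, ⟨0, 301, 10000⟩, ⟨1060, 4000, 1000⟩⟩) (by decide +kernel) yA_ew⟩

end Vale.Agent.P100.Calib.Closed.Six.Tail
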