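import Vale.Agent.P100.Calib.SlabSixTailCorner
import Vale.Agent.P100.Calib.SlabSixTailChecksyA0
import Vale.Agent.P100.Calib.SlabSixTailChecksyA1
import Vale.Agent.P100.Calib.SlabSixTailChecksyA2
import Vale.Agent.P100.Calib.SlabSixTailChecksyA3
import Vale.Agent.P100.Calib.SlabSixTailChecksyA4
import Vale.Agent.P100.Calib.SlabSixTailChecksyA5
import Vale.Agent.P100.Calib.SlabSixTailChecksyA6
import Vale.Agent.P100.Calib.SlabSixTailChecksyA7
import Vale.Agent.P100.Calib.SlabSixTailChecksyA8
import Vale.Agent.P100.Calib.SlabSixTailChecksyA9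
import Vale.Agent.P100.Calib.SlabSixTailChecksyA10
import Vale.Agent.P100.Calib.SlabSixTailChecksyA11
import Vale.Agent.P100.Calib.SlabSixTailChecksyA12
import Vale.Agent.P100.Calib.SlabSixTailChecksyA13
import Vale.Agent.P100.Calib.SlabSixTailChecksyA14
import Vale.Agent.P100.Calib.SlabSixTailChecksyA15
import Vale.Agent.P100.Calib.SlabSixTailChecksyA16
import Vale.Agent.P100.Calib.SlabSixTailChecksyA17

/-!
# The closed signs of dimension six on one part of the tail
-/

set_option linter.unusedVariables false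

namespace Vale.Agent.P100.Calib.Closed.Six.Tail

open BoxPos Large
local instance sixTailMainLayerAAdd : Add Ex := ⟨Ex.add⟩
local instance sixTailMainLayerASub : Sub Ex := ⟨Ex.sub⟩
local instance sixTailMainLayerAMul : Mul Ex := ⟨Ex.mul⟩

theorem yA0_ok {d S u v t : ℝ} (hB : Six.ChartBox d S) (hd : 0 < d) (hS0 : 0 < S) (T : Pt d S u v t)
    (md : Side.Mem ⟨0, 150, 10000⟩ d) (mv : Side.Mem ⟨1070, 1500, 1000⟩ v) (hul : (9749 / 10000 : ℝ) < u) (huh : u ≤ (1 + -(2 / 5) * d : ℝ))
    (hphi : v < Six.bandsA.phi d u) (hlow : lowEnd d < t)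
    (hup : t < (23 / 50 + 15 * d - 175 * d ^ 2 + v / 10) / (1 - u + d)) :
    Six.ChartSigns d S u v t := by
  have mS := T.S_mem
  refine (piece_false yA0_empty T
    ⟨rfl, mS, md, mv, by decide +kernel, by decide +kernel, by norm_num [yA0, ex_add, ex_sub, ex_mul, Ex.val]; linarith, by norm_num [yA0, ex_add, ex_sub, ex_mul, Ex.val]; linarith,
      fun o mo hx => by
        have hD := yA0_empty.den false o S d v mo mS md mv T.dom
        have hD' := yA0_empty.den true o S d v mo mS md mv T.dom
        exact ⟨lowEnd_le (x := yA0.xU) hD hlow, layU_le hx hD' hup⟩⟩).elim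

theorem yA1_ok {d S u v t : ℝ} (hB : Six.ChartBox d S) (hd : 0 < d) (hS0 : 0 < S) (T : Pt d S u v t)
    (md : Side.Mem ⟨150, 301, 10000⟩ d) (mv : Side.Mem ⟨1070, 1500, 1000⟩ v) (hul : (9749 / 10000 : ℝ) < u) (huh : u ≤ (1 + -(2 / 5) * d : ℝ))
    (hphi : v < Six.bandsA.phi d u) (hlow : lowEnd d < t)
    (hup : t < (23 / 50 + 15 * d - 175 * d ^ 2 + v / 10) / (1 - u + d)) :
    Six.ChartSigns d S u v t := by
  have mS := T.S_mem
  exact piece_signs yA1_env yA1_sign (by decide +kernel) T
    ⟨rfl, mS, md, mv, by decide +kernel, by decide +kernel, by norm_num [yA1, ex_add, ex_sub, ex_mul, Ex.val]; linarith, by norm_num [yA1, ex_add, ex_sub, ex_mul, Ex.val]; linarith,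
      fun o mo hx => by
        have hD := yA1_env.den false o S d v mo mS md mv T.dom
        have hD' := yA1_env.den true o S d v mo mS md mv T.dom
        exact ⟨lowEnd_le (x := yA1.xU) hD hlow, layU_le hx hD' hup⟩⟩

theorem yA10_ok {d S u v t : ℝ} (hB : Six.ChartBox d S) (hd : 0 < d) (hS0 : 0 < S) (T : Pt d S u v t)
    (md : Side.Mem ⟨150, 301, 10000⟩ d) (mv : Side.Mem ⟨2776, 2886, 1000⟩ v) (hul : (313 / 320 + -(1 / 20) * d : ℝ) < u) (huh : u ≤ (157 / 160 + -(1 / 10) * d : ℝ))
    (hphi : v < Six.bandsA.phi d u) (hlow : lowEnd d < t)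
    (hup : t < (23 / 50 + 15 * d - 175 * d ^ 2 + v / 10) / (1 - u + d)) :
    Six.ChartSigns d S u v t := by
  have mS := T.S_mem
  exact piece_signs_cut yA10_env yA10_envU yA10A_sign yA10B_sign (by decide +kernel) (by decide +kernel) T
    ⟨rfl, mS, md, mv, by decide +kernel, by decide +kernel, by norm_num [yA10, ex_add, ex_sub, ex_mul, Ex.val]; linarith, by norm_num [yA10, ex_add, ex_sub, ex_mul, Ex.val]; linarith,
      fun o mo hx => by
        have hD := yA10_env.den false o S d v mo mS md mv T.dom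
        have hD' := yA10_env.den true o S d v mo mS md mv T.dom
        exact ⟨lowEnd_le (x := yA10.xU) hD hlow, layU_le hx hD' hup⟩⟩

theorem yA11_ok {d S u v t : ℝ} (hB : Six.ChartBox d S) (hd : 0 < d) (hS0 : 0 < S) (T : Pt d S u v t)
    (md : Side.Mem ⟨150, 301, 10000⟩ d) (mv : Side.Mem ⟨2776, 2886, 1000⟩ v) (hul : (157 / 160 + -(1 / 10) * d : ℝ) < u) (huh : u ≤ (79 / 80 + -(1 / 5) * d : ℝ))
    (hphi : v < Six.bandsA.phi d u) (hlow : lowEnd d < t)
    (hup : t < (23 / 50 + 15 * d - 175 * d ^ 2 + v / 10) / (1 - u + d)) :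
    Six.ChartSigns d S u v t := by
  have mS := T.S_mem
  exact piece_signs_cut yA11_env yA11_envU yA11A_sign yA11B_sign (by decide +kernel) (by decide +kernel) T
    ⟨rfl, mS, md, mv, by decide +kernel, by decide +kernel, by norm_num [yA11, ex_add, ex_sub, ex_mul, Ex.val]; linarith, by norm_num [yA11, ex_add, ex_sub, ex_mul, Ex.val]; linarith,
      fun o mo hx => by
        have hD := yA11_env.den false o S d v mo mS md mv T.dom
        have hD' := yA11_env.den true o S d v mo mS md mv T.dom
        exact ⟨lowEnd_le (x := yA11.xU) hD hlow, layU_le hx hD' hup⟩⟩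

theorem yA12_ok {d S u v t : ℝ} (hB : Six.ChartBox d S) (hd : 0 < d) (hS0 : 0 < S) (T : Pt d S u v t)
    (md : Side.Mem ⟨150, 301, 10000⟩ d) (mv : Side.Mem ⟨2776, 2886, 1000⟩ v) (hul : (79 / 80 + -(1 / 5) * d : ℝ) < u) (huh : u ≤ (1 + -(2 / 5) * d : ℝ))
    (hphi : v < Six.bandsA.phi d u) (hlow : lowEnd d < t)
    (hup : t < (23 / 50 + 15 * d - 175 * d ^ 2 + v / 10) / (1 - u + d)) :
    Six.ChartSigns d S u v t := by
  have mS := T.S_mem
  exact piece_signs yA12_env yA12_sign (by decide +kernel) T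
    ⟨rfl, mS, md, mv, by decide +kernel, by decide +kernel, by norm_num [yA12, ex_add, ex_sub, ex_mul, Ex.val]; linarith, by norm_num [yA12, ex_add, ex_sub, ex_mul, Ex.val]; linarith,
      fun o mo hx => by
        have hD := yA12_env.den false o S d v mo mS md mv T.dom
        have hD' := yA12_env.den true o S d v mo mS md mv T.dom
        exact ⟨lowEnd_le (x := yA12.xU) hD hlow, layU_le hx hD' hup⟩⟩

theorem yA13_ok {d S u v t : ℝ} (hB : Six.ChartBox d S) (hd : 0 < d) (hS0 : 0 < S) (T : Pt d S u v t)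
    (md : Side.Mem ⟨0, 150, 10000⟩ d) (mv : Side.Mem ⟨2886, 3000, 1000⟩ v) (hul : (9749 / 10000 : ℝ) < u) (huh : u ≤ (79 / 80 + -(1 / 5) * d : ℝ))
    (hphi : v < Six.bandsA.phi d u) (hlow : lowEnd d < t)
    (hup : t < (23 / 50 + 15 * d - 175 * d ^ 2 + v / 10) / (1 - u + d)) :
    Six.ChartSigns d S u v t := by
  have mS := T.S_mem
  have hl : yA13Lo.val 0 S d v < u := by norm_num [yA13Lo, ex_add, ex_sub, ex_mul, Ex.val]; linarith
  have hh : u ≤ yA13Hi.val 0 S d v := by norm_num [yA13Hi, ex_add, ex_sub, ex_mul, Ex.val]; linarith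
  obtain ⟨o, mo, hx⟩ := place (by decide +kernel) (by decide +kernel) hl hh
  exact (phA_false hx (yA13_phx o S d v mo mS md mv T.dom) (yA13_phd o S d v mo mS md mv T.dom) hphi).elim

theorem yA14_ok {d S u v t : ℝ} (hB : Six.ChartBox d S) (hd : 0 < d) (hS0 : 0 < S) (T : Pt d S u v t)
    (md : Side.Mem ⟨150, 225, 10000⟩ d) (mv : Side.Mem ⟨2886, 3000, 1000⟩ v) (hul : (9749 / 10000 : ℝ) < u) (huh : u ≤ (79 / 80 + -(1 / 5) * d : ℝ))
    (hphi : v < Six.bandsA.phi d u) (hlow : lowEnd d < t)
    (hup : t < (23 / 50 + 15 * d - 175 * d ^ 2 + v / 10) / (1 - u + d)) :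
    Six.ChartSigns d S u v t := by
  have mS := T.S_mem
  have hl : yA14Lo.val 0 S d v < u := by norm_num [yA14Lo, ex_add, ex_sub, ex_mul, Ex.val]; linarith
  have hh : u ≤ yA14Hi.val 0 S d v := by norm_num [yA14Hi, ex_add, ex_sub, ex_mul, Ex.val]; linarith
  obtain ⟨o, mo, hx⟩ := place (by decide +kernel) (by decide +kernel) hl hh
  exact (phA_false hx (yA14_phx o S d v mo mS md mv T.dom) (yA14_phd o S d v mo mS md mv T.dom) hphi).elim

theorem yA15_ok {d S u v t : ℝ} (hB : Six.ChartBox d S) (hd : 0 < d) (hS0 : 0 < S) (T : Pt d S u v t)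
    (md : Side.Mem ⟨225, 262, 10000⟩ d) (mv : Side.Mem ⟨2886, 3000, 1000⟩ v) (hul : (9749 / 10000 : ℝ) < u) (huh : u ≤ (79 / 80 + -(1 / 5) * d : ℝ))
    (hphi : v < Six.bandsA.phi d u) (hlow : lowEnd d < t)
    (hup : t < (23 / 50 + 15 * d - 175 * d ^ 2 + v / 10) / (1 - u + d)) :
    Six.ChartSigns d S u v t := by
  have mS := T.S_mem
  have hl : yA15Lo.val 0 S d v < u := by norm_num [yA15Lo, ex_add, ex_sub, ex_mul, Ex.val]; linarith
  have hh : u ≤ yA15Hi.val 0 S d v := by norm_num [yA15Hi, ex_add, ex_sub, ex_mul, Ex.val]; linarith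
  obtain ⟨o, mo, hx⟩ := place (by decide +kernel) (by decide +kernel) hl hh
  exact (phA_false hx (yA15_phx o S d v mo mS md mv T.dom) (yA15_phd o S d v mo mS md mv T.dom) hphi).elim

theorem yA16_ok {d S u v t : ℝ} (hB : Six.ChartBox d S) (hd : 0 < d) (hS0 : 0 < S) (T : Pt d S u v t)
    (md : Side.Mem ⟨262, 301, 10000⟩ d) (mv : Side.Mem ⟨2886, 3000, 1000⟩ v) (hul : (9749 / 10000 : ℝ) < u) (huh : u ≤ (79 / 80 + -(1 / 5) * d : ℝ))
    (hphi : v < Six.bandsA.phi d u) (hlow : lowEnd d < t)
    (hup : t < (23 / 50 + 15 * d - 175 * d ^ 2 + v / 10) / (1 - u + d)) :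
    Six.ChartSigns d S u v t := by
  have mS := T.S_mem
  exact piece_signs yA16_env yA16_sign (by decide +kernel) T
    ⟨rfl, mS, md, mv, by decide +kernel, by decide +kernel, by norm_num [yA16, ex_add, ex_sub, ex_mul, Ex.val]; linarith, by norm_num [yA16, ex_add, ex_sub, ex_mul, Ex.val]; linarith,
      fun o mo hx => by
        have hD := yA16_env.den false o S d v mo mS md mv T.dom
        have hD' := yA16_env.den true o S d v mo mS md mv T.dom
        exact ⟨lowEnd_le (x := yA16.xU) hD hlow, layU_le hx hD' hup⟩⟩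

theorem yA17_ok {d S u v t : ℝ} (hB : Six.ChartBox d S) (hd : 0 < d) (hS0 : 0 < S) (T : Pt d S u v t)
    (md : Side.Mem ⟨150, 301, 10000⟩ d) (mv : Side.Mem ⟨2886, 3000, 1000⟩ v) (hul : (79 / 80 + -(1 / 5) * d : ℝ) < u) (huh : u ≤ (1 + -(2 / 5) * d : ℝ))
    (hphi : v < Six.bandsA.phi d u) (hlow : lowEnd d < t)
    (hup : t < (23 / 50 + 15 * d - 175 * d ^ 2 + v / 10) / (1 - u + d)) :
    Six.ChartSigns d S u v t := by
  have mS := T.S_mem
  exact piece_signs yA17_env yA17_sign (by decide +kernel) T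
    ⟨rfl, mS, md, mv, by decide +kernel, by decide +kernel, by norm_num [yA17, ex_add, ex_sub, ex_mul, Ex.val]; linarith, by norm_num [yA17, ex_add, ex_sub, ex_mul, Ex.val]; linarith,
      fun o mo hx => by
        have hD := yA17_env.den false o S d v mo mS md mv T.dom
        have hD' := yA17_env.den true o S d v mo mS md mv T.dom
        exact ⟨lowEnd_le (x := yA17.xU) hD hlow, layU_le hx hD' hup⟩⟩

theorem yA18_ok {d S u v t : ℝ} (hB : Six.ChartBox d S) (hd : 0 < d) (hS0 : 0 < S) (T : Pt d S u v t)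
    (md : Side.Mem ⟨0, 301, 10000⟩ d) (mv : Side.Mem ⟨3000, 4000, 1000⟩ v) (hul : (9749 / 10000 : ℝ) < u) (huh : u ≤ (79 / 80 + -(1 / 5) * d : ℝ))
    (hphi : v < Six.bandsA.phi d u) (hlow : lowEnd d < t)
    (hup : t < (23 / 50 + 15 * d - 175 * d ^ 2 + v / 10) / (1 - u + d)) :
    Six.ChartSigns d S u v t := by
  have mS := T.S_mem
  have hl : yA18Lo.val 0 S d v < u := by norm_num [yA18Lo, ex_add, ex_sub, ex_mul, Ex.val]; linarith
  have hh : u ≤ yA18Hi.val 0 S d v := by norm_num [yA18Hi, ex_add, ex_sub, ex_mul, Ex.val]; linarith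
  obtain ⟨o, mo, hx⟩ := place (by decide +kernel) (by decide +kernel) hl hh
  exact (phA_false hx (yA18_phx o S d v mo mS md mv T.dom) (yA18_phd o S d v mo mS md mv T.dom) hphi).elim

theorem yA19_ok {d S u v t : ℝ} (hB : Six.ChartBox d S) (hd : 0 < d) (hS0 : 0 < S) (T : Pt d S u v t)
    (md : Side.Mem ⟨0, 75, 10000⟩ d) (mv : Side.Mem ⟨2776, 2886, 1000⟩ v) (hul : (9749 / 10000 : ℝ) < u) (huh : u ≤ (157 / 160 + -(1 / 10) * d : ℝ))
    (hphi : v < Six.bandsA.phi d u) (hlow : lowEnd d < t)
    (hup : t < (23 / 50 + 15 * d - 175 * d ^ 2 + v / 10) / (1 - u + d)) :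
    Six.ChartSigns d S u v t := by
  have mS := T.S_mem
  have hl : yA19Lo.val 0 S d v < u := by norm_num [yA19Lo, ex_add, ex_sub, ex_mul, Ex.val]; linarith
  have hh : u ≤ yA19Hi.val 0 S d v := by norm_num [yA19Hi, ex_add, ex_sub, ex_mul, Ex.val]; linarith
  obtain ⟨o, mo, hx⟩ := place (by decide +kernel) (by decide +kernel) hl hh
  exact (phA_false hx (yA19_phx o S d v mo mS md mv T.dom) (yA19_phd o S d v mo mS md mv T.dom) hphi).elim

theorem yA2_ok {d S u v t : ℝ} (hB : Six.ChartBox d S) (hd : 0 < d) (hS0 : 0 < S) (T : Pt d S u v t)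
    (md : Side.Mem ⟨0, 301, 10000⟩ d) (mv : Side.Mem ⟨1500, 2200, 1000⟩ v) (hul : (9749 / 10000 : ℝ) < u) (huh : u ≤ (1 + -(2 / 5) * d : ℝ))
    (hphi : v < Six.bandsA.phi d u) (hlow : lowEnd d < t)
    (hup : t < (23 / 50 + 15 * d - 175 * d ^ 2 + v / 10) / (1 - u + d)) :
    Six.ChartSigns d S u v t := by
  have mS := T.S_mem
  exact piece_signs_cut yA2_env yA2_envU yA2A_sign yA2B_sign (by decide +kernel) (by decide +kernel) T
    ⟨rfl, mS, md, mv, by decide +kernel, by decide +kernel, by norm_num [yA2, ex_add, ex_sub, ex_mul, Ex.val]; linarith, by norm_num [yA2, ex_add, ex_sub, ex_mul, Ex.val]; linarith,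
      fun o mo hx => by
        have hD := yA2_env.den false o S d v mo mS md mv T.dom
        have hD' := yA2_env.den true o S d v mo mS md mv T.dom
        exact ⟨lowEnd_le (x := yA2.xU) hD hlow, layU_le hx hD' hup⟩⟩

theorem yA20_ok {d S u v t : ℝ} (hB : Six.ChartBox d S) (hd : 0 < d) (hS0 : 0 < S) (T : Pt d S u v t)
    (md : Side.Mem ⟨75, 150, 10000⟩ d) (mv : Side.Mem ⟨2886, 3000, 1000⟩ v) (hul : (79 / 80 + -(1 / 5) * d : ℝ) < u) (huh : u ≤ (1 + -(2 / 5) * d : ℝ))
    (hphi : v < Six.bandsA.phi d u) (hlow : lowEnd d < t)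
    (hup : t < (23 / 50 + 15 * d - 175 * d ^ 2 + v / 10) / (1 - u + d)) :
    Six.ChartSigns d S u v t := by
  have mS := T.S_mem
  exact piece_signs_cut yA20_env yA20_envU yA20A_sign yA20B_sign (by decide +kernel) (by decide +kernel) T
    ⟨rfl, mS, md, mv, by decide +kernel, by decide +kernel, by norm_num [yA20, ex_add, ex_sub, ex_mul, Ex.val]; linarith, by norm_num [yA20, ex_add, ex_sub, ex_mul, Ex.val]; linarith,
      fun o mo hx => by
        have hD := yA20_env.den false o S d v mo mS md mv T.dom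
        have hD' := yA20_env.den true o S d v mo mS md mv T.dom
        exact ⟨lowEnd_le (x := yA20.xU) hD hlow, layU_le hx hD' hup⟩⟩

theorem yA21_ok {d S u v t : ℝ} (hB : Six.ChartBox d S) (hd : 0 < d) (hS0 : 0 < S) (T : Pt d S u v t)
    (md : Side.Mem ⟨75, 150, 10000⟩ d) (mv : Side.Mem ⟨3000, 3071, 1000⟩ v) (hul : (79 / 80 + -(1 / 5) * d : ℝ) < u) (huh : u ≤ (1 + -(2 / 5) * d : ℝ))
    (hphi : v < Six.bandsA.phi d u) (hlow : lowEnd d < t)
    (hup : t < (23 / 50 + 15 * d - 175 * d ^ 2 + v / 10) / (1 - u + d)) :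
    Six.ChartSigns d S u v t := by
  have mS := T.S_mem
  exact piece_signs_cut yA21_env yA21_envU yA21A_sign yA21B_sign (by decide +kernel) (by decide +kernel) T
    ⟨rfl, mS, md, mv, by decide +kernel, by decide +kernel, by norm_num [yA21, ex_add, ex_sub, ex_mul, Ex.val]; linarith, by norm_num [yA21, ex_add, ex_sub, ex_mul, Ex.val]; linarith,
      fun o mo hx => by
        have hD := yA21_env.den false o S d v mo mS md mv T.dom
        have hD' := yA21_env.den true o S d v mo mS md mv T.dom
        exact ⟨lowEnd_le (x := yA21.xU) hD hlow, layU_le hx hD' hup⟩⟩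

theorem yA22_ok {d S u v t : ℝ} (hB : Six.ChartBox d S) (hd : 0 < d) (hS0 : 0 < S) (T : Pt d S u v t)
    (md : Side.Mem ⟨150, 225, 10000⟩ d) (mv : Side.Mem ⟨3000, 3106, 1000⟩ v) (hul : (79 / 80 + -(1 / 5) * d : ℝ) < u) (huh : u ≤ (1 + -(2 / 5) * d : ℝ))
    (hphi : v < Six.bandsA.phi d u) (hlow : lowEnd d < t)
    (hup : t < (23 / 50 + 15 * d - 175 * d ^ 2 + v / 10) / (1 - u + d)) :
    Six.ChartSigns d S u v t := by
  have mS := T.S_mem
  exact piece_signs yA22_env yA22_sign (by decide +kernel) T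
    ⟨rfl, mS, md, mv, by decide +kernel, by decide +kernel, by norm_num [yA22, ex_add, ex_sub, ex_mul, Ex.val]; linarith, by norm_num [yA22, ex_add, ex_sub, ex_mul, Ex.val]; linarith,
      fun o mo hx => by
        have hD := yA22_env.den false o S d v mo mS md mv T.dom
        have hD' := yA22_env.den true o S d v mo mS md mv T.dom
        exact ⟨lowEnd_le (x := yA22.xU) hD hlow, layU_le hx hD' hup⟩⟩

theorem yA23_ok {d S u v t : ℝ} (hB : Six.ChartBox d S) (hd : 0 < d) (hS0 : 0 < S) (T : Pt d S u v t)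
    (md : Side.Mem ⟨225, 301, 10000⟩ d) (mv : Side.Mem ⟨3000, 3143, 1000⟩ v) (hul : (79 / 80 + -(1 / 5) * d : ℝ) < u) (huh : u ≤ (1 + -(2 / 5) * d : ℝ))
    (hphi : v < Six.bandsA.phi d u) (hlow : lowEnd d < t)
    (hup : t < (23 / 50 + 15 * d - 175 * d ^ 2 + v / 10) / (1 - u + d)) :
    Six.ChartSigns d S u v t := by
  have mS := T.S_mem
  exact piece_signs yA23_env yA23_sign (by decide +kernel) T
    ⟨rfl, mS, md, mv, by decide +kernel, by decide +kernel, by norm_num [yA23, ex_add, ex_sub, ex_mul, Ex.val]; linarith, by norm_num [yA23, ex_add, ex_sub, ex_mul, Ex.val]; linarith,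
      fun o mo hx => by
        have hD := yA23_env.den false o S d v mo mS md mv T.dom
        have hD' := yA23_env.den true o S d v mo mS md mv T.dom
        exact ⟨lowEnd_le (x := yA23.xU) hD hlow, layU_le hx hD' hup⟩⟩

theorem yA24_ok {d S u v t : ℝ} (hB : Six.ChartBox d S) (hd : 0 < d) (hS0 : 0 < S) (T : Pt d S u v t)
    (md : Side.Mem ⟨0, 75, 10000⟩ d) (mv : Side.Mem ⟨2776, 2886, 1000⟩ v) (hul : (157 / 160 + -(1 / 10) * d : ℝ) < u) (huh : u ≤ (1 + -(2 / 5) * d : ℝ))
    (hphi : v < Six.bandsA.phi d u) (hlow : lowEnd d < t)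
    (hup : t < (23 / 50 + 15 * d - 175 * d ^ 2 + v / 10) / (1 - u + d)) :
    Six.ChartSigns d S u v t := by
  have mS := T.S_mem
  have md1 := md
  simp only [Side.Mem] at md1
  norm_num at md1
  obtain ⟨md1a, md1b⟩ := md1
  have mS' : Side.Mem ⟨980, 981, 1470⟩ S := by
    simp only [Side.Mem]; norm_num
    have k1 : (S - d) ^ 2 * d ^ 2 ≤ (7 / 10) ^ 2 * (3 / 400) ^ 2 := mul_le_mul (pow_le_pow_left₀ (by linarith [T.d_le]) (by linarith [T.S_high]) 2) (pow_le_pow_left₀ hd.le (by linarith) 2) (by positivity) (by norm_num)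
    have k2 : (2 / 3 : ℝ) ^ 3 ≤ S ^ 3 := pow_le_pow_left₀ (by norm_num) T.S_low.le 3
    constructor <;> nlinarith [hB.pinch, T.S_low, mul_le_mul_of_nonneg_left k2 (show (0 : ℝ) ≤ 3 * S - 2 by linarith [T.S_low])]
  refine piece_signs_corner yA24_env yA24_envU yA24A_sign yA24B_sign yA24Q_env yA24QL_sign (by decide +kernel) (by decide +kernel) (by decide +kernel) T
    ⟨rfl, mS', md, mv, by decide +kernel, by decide +kernel, by norm_num [yA24, ex_add, ex_sub, ex_mul, Ex.val]; linarith, by norm_num [yA24, ex_add, ex_sub, ex_mul, Ex.val]; linarith,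
      fun o mo hx => by
        have hD := yA24_env.den false o S d v mo mS' md mv T.dom
        have hD' := yA24_env.den true o S d v mo mS' md mv T.dom
        exact ⟨lowEnd_le (x := yA24.xU) hD hlow, layU_le hx hD' hup⟩⟩
    ⟨rfl, mS', md, mv, by decide +kernel, by decide +kernel, by norm_num [yA24Q, ex_add, ex_sub, ex_mul, Ex.val]; linarith, by norm_num [yA24Q, ex_add, ex_sub, ex_mul, Ex.val]; linarith,
      fun o mo hx => by
        have hD := yA24Q_env.den false o S d v mo mS' md mv T.dom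
        have hD' := yA24Q_env.den true o S d v mo mS' md mv T.dom
        exact ⟨lowEnd_le (x := yA24Q.xU) hD hlow, layU_le hx hD' hup⟩⟩

theorem yA25_ok {d S u v t : ℝ} (hB : Six.ChartBox d S) (hd : 0 < d) (hS0 : 0 < S) (T : Pt d S u v t)
    (md : Side.Mem ⟨0, 75, 10000⟩ d) (mv : Side.Mem ⟨2886, 3036, 1000⟩ v) (hul : (79 / 80 + -(1 / 5) * d : ℝ) < u) (huh : u ≤ (1 + -(2 / 5) * d : ℝ))
    (hphi : v < Six.bandsA.phi d u) (hlow : lowEnd d < t)
    (hup : t < (23 / 50 + 15 * d - 175 * d ^ 2 + v / 10) / (1 - u + d)) :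
    Six.ChartSigns d S u v t := by
  have mS := T.S_mem
  have md1 := md
  simp only [Side.Mem] at md1
  norm_num at md1
  obtain ⟨md1a, md1b⟩ := md1
  have mS' : Side.Mem ⟨980, 981, 1470⟩ S := by
    simp only [Side.Mem]; norm_num
    have k1 : (S - d) ^ 2 * d ^ 2 ≤ (7 / 10) ^ 2 * (3 / 400) ^ 2 := mul_le_mul (pow_le_pow_left₀ (by linarith [T.d_le]) (by linarith [T.S_high]) 2) (pow_le_pow_left₀ hd.le (by linarith) 2) (by positivity) (by norm_num)
    have k2 : (2 / 3 : ℝ) ^ 3 ≤ S ^ 3 := pow_le_pow_left₀ (by norm_num) T.S_low.le 3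
    constructor <;> nlinarith [hB.pinch, T.S_low, mul_le_mul_of_nonneg_left k2 (show (0 : ℝ) ≤ 3 * S - 2 by linarith [T.S_low])]
  refine piece_signs_corner yA25_env yA25_envU yA25A_sign yA25B_sign yA25Q_env yA25QL_sign (by decide +kernel) (by decide +kernel) (by decide +kernel) T
    ⟨rfl, mS', md, mv, by decide +kernel, by decide +kernel, by norm_num [yA25, ex_add, ex_sub, ex_mul, Ex.val]; linarith, by norm_num [yA25, ex_add, ex_sub, ex_mul, Ex.val]; linarith,
      fun o mo hx => by
        have hD := yA25_env.den false o S d v mo mS' md mv T.dom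
        have hD' := yA25_env.den true o S d v mo mS' md mv T.dom
        exact ⟨lowEnd_le (x := yA25.xU) hD hlow, layU_le hx hD' hup⟩⟩
    ⟨rfl, mS', md, mv, by decide +kernel, by decide +kernel, by norm_num [yA25Q, ex_add, ex_sub, ex_mul, Ex.val]; linarith, by norm_num [yA25Q, ex_add, ex_sub, ex_mul, Ex.val]; linarith,
      fun o mo hx => by
        have hD := yA25Q_env.den false o S d v mo mS' md mv T.dom
        have hD' := yA25Q_env.den true o S d v mo mS' md mv T.dom
        exact ⟨lowEnd_le (x := yA25Q.xU) hD hlow, layU_le hx hD' hup⟩⟩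

theorem yA3_ok {d S u v t : ℝ} (hB : Six.ChartBox d S) (hd : 0 < d) (hS0 : 0 < S) (T : Pt d S u v t)
    (md : Side.Mem ⟨0, 301, 10000⟩ d) (mv : Side.Mem ⟨2200, 2569, 1000⟩ v) (hul : (9749 / 10000 : ℝ) < u) (huh : u ≤ (1 + -(2 / 5) * d : ℝ))
    (hphi : v < Six.bandsA.phi d u) (hlow : lowEnd d < t)
    (hup : t < (23 / 50 + 15 * d - 175 * d ^ 2 + v / 10) / (1 - u + d)) :
    Six.ChartSigns d S u v t := by
  have mS := T.S_mem
  exact piece_signs_cut yA3_env yA3_envU yA3A_sign yA3B_sign (by decide +kernel) (by decide +kernel) T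
    ⟨rfl, mS, md, mv, by decide +kernel, by decide +kernel, by norm_num [yA3, ex_add, ex_sub, ex_mul, Ex.val]; linarith, by norm_num [yA3, ex_add, ex_sub, ex_mul, Ex.val]; linarith,
      fun o mo hx => by
        have hD := yA3_env.den false o S d v mo mS md mv T.dom
        have hD' := yA3_env.den true o S d v mo mS md mv T.dom
        exact ⟨lowEnd_le (x := yA3.xU) hD hlow, layU_le hx hD' hup⟩⟩

theorem yA4_ok {d S u v t : ℝ} (hB : Six.ChartBox d S) (hd : 0 < d) (hS0 : 0 < S) (T : Pt d S u v t)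
    (md : Side.Mem ⟨0, 150, 10000⟩ d) (mv : Side.Mem ⟨2569, 2776, 1000⟩ v) (hul : (9749 / 10000 : ℝ) < u) (huh : u ≤ (1 + -(2 / 5) * d : ℝ))
    (hphi : v < Six.bandsA.phi d u) (hlow : lowEnd d < t)
    (hup : t < (23 / 50 + 15 * d - 175 * d ^ 2 + v / 10) / (1 - u + d)) :
    Six.ChartSigns d S u v t := by
  have mS := T.S_mem
  exact piece_signs_cut yA4_env yA4_envU yA4A_sign yA4B_sign (by decide +kernel) (by decide +kernel) T
    ⟨rfl, mS, md, mv, by decide +kernel, by decide +kernel, by norm_num [yA4, ex_add, ex_sub, ex_mul, Ex.val]; linarith, by norm_num [yA4, ex_add, ex_sub, ex_mul, Ex.val]; linarith,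
      fun o mo hx => by
        have hD := yA4_env.den false o S d v mo mS md mv T.dom
        have hD' := yA4_env.den true o S d v mo mS md mv T.dom
        exact ⟨lowEnd_le (x := yA4.xU) hD hlow, layU_le hx hD' hup⟩⟩

theorem yA5_ok {d S u v t : ℝ} (hB : Six.ChartBox d S) (hd : 0 < d) (hS0 : 0 < S) (T : Pt d S u v t)
    (md : Side.Mem ⟨150, 301, 10000⟩ d) (mv : Side.Mem ⟨2569, 2776, 1000⟩ v) (hul : (9749 / 10000 : ℝ) < u) (huh : u ≤ (1 + -(2 / 5) * d : ℝ))
    (hphi : v < Six.bandsA.phi d u) (hlow : lowEnd d < t)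
    (hup : t < (23 / 50 + 15 * d - 175 * d ^ 2 + v / 10) / (1 - u + d)) :
    Six.ChartSigns d S u v t := by
  have mS := T.S_mem
  exact piece_signs_cut yA5_env yA5_envU yA5A_sign yA5B_sign (by decide +kernel) (by decide +kernel) T
    ⟨rfl, mS, md, mv, by decide +kernel, by decide +kernel, by norm_num [yA5, ex_add, ex_sub, ex_mul, Ex.val]; linarith, by norm_num [yA5, ex_add, ex_sub, ex_mul, Ex.val]; linarith,
      fun o mo hx => by
        have hD := yA5_env.den false o S d v mo mS md mv T.dom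
        have hD' := yA5_env.den true o S d v mo mS md mv T.dom
        exact ⟨lowEnd_le (x := yA5.xU) hD hlow, layU_le hx hD' hup⟩⟩

theorem yA6_ok {d S u v t : ℝ} (hB : Six.ChartBox d S) (hd : 0 < d) (hS0 : 0 < S) (T : Pt d S u v t)
    (md : Side.Mem ⟨75, 150, 10000⟩ d) (mv : Side.Mem ⟨2776, 2886, 1000⟩ v) (hul : (9749 / 10000 : ℝ) < u) (huh : u ≤ (157 / 160 + -(1 / 10) * d : ℝ))
    (hphi : v < Six.bandsA.phi d u) (hlow : lowEnd d < t)
    (hup : t < (23 / 50 + 15 * d - 175 * d ^ 2 + v / 10) / (1 - u + d)) :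
    Six.ChartSigns d S u v t := by
  have mS := T.S_mem
  have hl : yA6Lo.val 0 S d v < u := by norm_num [yA6Lo, ex_add, ex_sub, ex_mul, Ex.val]; linarith
  have hh : u ≤ yA6Hi.val 0 S d v := by norm_num [yA6Hi, ex_add, ex_sub, ex_mul, Ex.val]; linarith
  obtain ⟨o, mo, hx⟩ := place (by decide +kernel) (by decide +kernel) hl hh
  exact (phA_false hx (yA6_phx o S d v mo mS md mv T.dom) (yA6_phd o S d v mo mS md mv T.dom) hphi).elim

theorem yA7_ok {d S u v t : ℝ} (hB : Six.ChartBox d S) (hd : 0 < d) (hS0 : 0 < S) (T : Pt d S u v t)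
    (md : Side.Mem ⟨75, 150, 10000⟩ d) (mv : Side.Mem ⟨2776, 2886, 1000⟩ v) (hul : (157 / 160 + -(1 / 10) * d : ℝ) < u) (huh : u ≤ (79 / 80 + -(1 / 5) * d : ℝ))
    (hphi : v < Six.bandsA.phi d u) (hlow : lowEnd d < t)
    (hup : t < (23 / 50 + 15 * d - 175 * d ^ 2 + v / 10) / (1 - u + d)) :
    Six.ChartSigns d S u v t := by
  have mS := T.S_mem
  exact piece_signs_cut yA7_env yA7_envU yA7A_sign yA7B_sign (by decide +kernel) (by decide +kernel) T
    ⟨rfl, mS, md, mv, by decide +kernel, by decide +kernel, by norm_num [yA7, ex_add, ex_sub, ex_mul, Ex.val]; linarith, by norm_num [yA7, ex_add, ex_sub, ex_mul, Ex.val]; linarith,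
      fun o mo hx => by
        have hD := yA7_env.den false o S d v mo mS md mv T.dom
        have hD' := yA7_env.den true o S d v mo mS md mv T.dom
        exact ⟨lowEnd_le (x := yA7.xU) hD hlow, layU_le hx hD' hup⟩⟩

theorem yA8_ok {d S u v t : ℝ} (hB : Six.ChartBox d S) (hd : 0 < d) (hS0 : 0 < S) (T : Pt d S u v t)
    (md : Side.Mem ⟨75, 150, 10000⟩ d) (mv : Side.Mem ⟨2776, 2886, 1000⟩ v) (hul : (79 / 80 + -(1 / 5) * d : ℝ) < u) (huh : u ≤ (1 + -(2 / 5) * d : ℝ))
    (hphi : v < Six.bandsA.phi d u) (hlow : lowEnd d < t)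
    (hup : t < (23 / 50 + 15 * d - 175 * d ^ 2 + v / 10) / (1 - u + d)) :
    Six.ChartSigns d S u v t := by
  have mS := T.S_mem
  exact piece_signs_cut yA8_env yA8_envU yA8A_sign yA8B_sign (by decide +kernel) (by decide +kernel) T
    ⟨rfl, mS, md, mv, by decide +kernel, by decide +kernel, by norm_num [yA8, ex_add, ex_sub, ex_mul, Ex.val]; linarith, by norm_num [yA8, ex_add, ex_sub, ex_mul, Ex.val]; linarith,
      fun o mo hx => by
        have hD := yA8_env.den false o S d v mo mS md mv T.dom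
        have hD' := yA8_env.den true o S d v mo mS md mv T.dom
        exact ⟨lowEnd_le (x := yA8.xU) hD hlow, layU_le hx hD' hup⟩⟩

theorem yA9_ok {d S u v t : ℝ} (hB : Six.ChartBox d S) (hd : 0 < d) (hS0 : 0 < S) (T : Pt d S u v t)
    (md : Side.Mem ⟨150, 301, 10000⟩ d) (mv : Side.Mem ⟨2776, 2886, 1000⟩ v) (hul : (9749 / 10000 : ℝ) < u) (huh : u ≤ (313 / 320 + -(1 / 20) * d : ℝ))
    (hphi : v < Six.bandsA.phi d u) (hlow : lowEnd d < t)
    (hup : t < (23 / 50 + 15 * d - 175 * d ^ 2 + v / 10) / (1 - u + d)) :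
    Six.ChartSigns d S u v t := by
  have mS := T.S_mem
  have hl : yA9Lo.val 0 S d v < u := by norm_num [yA9Lo, ex_add, ex_sub, ex_mul, Ex.val]; linarith
  have hh : u ≤ yA9Hi.val 0 S d v := by norm_num [yA9Hi, ex_add, ex_sub, ex_mul, Ex.val]; linarith
  obtain ⟨o, mo, hx⟩ := place (by decide +kernel) (by decide +kernel) hl hh
  exact (phA_false hx (yA9_phx o S d v mo mS md mv T.dom) (yA9_phd o S d v mo mS md mv T.dom) hphi).elim

set_option maxHeartbeats 4000000 in
/-- **The closed signs on this part of the tail.** -/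
theorem signsLayerA : Six.SignsLayer Six.bandsA 0 (3 / 100) := by
  intro d S u v t hB h0 h1 hd16 hu hu1 hF hphi hpsi hlow hup
  have hd := hB.pos
  have hS0 : 0 < S := by linarith [hB.S_low]
  have hdS : d ≤ S := by linarith [hB.S_low, hB.tri]
  have hD := dom_of hB hF
  have hv := hF.v_low
  have hd3 : d < 1 / 3 := by linarith [hB.S_low, hB.tri]
  have hv0 : 107 / 100 ≤ v := by simp only [psi] at hpsi; linarith
  have hv4 : v < 4 := by
    by_contra hne
    have h4 := not_lt.1 hne
    nlinarith [hF.kap, hF.r_lt, hB.S_low, mul_le_mul_of_nonneg_left h4 (mul_nonneg hS0.le hd.le), mul_le_mul_of_nonneg_left h4 (sub_nonneg.2 hdS)]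
  have mS : Side.Mem ⟨98, 99, 147⟩ S := by
    simp only [Side.Mem]; norm_num; constructor <;> linarith [hB.S_low, hB.S_high]
  have mu : Side.Mem ⟨974, 1000, 1000⟩ u := by simp only [Side.Mem]; norm_num; constructor <;> linarith
  have md0 : Side.Mem ⟨0, 301, 10000⟩ d := by simp only [Side.Mem]; norm_num; constructor <;> linarith
  have mv0 : Side.Mem ⟨1060, 4000, 1000⟩ v := by simp only [Side.Mem]; norm_num; constructor <;> linarith
  have ht : 0 ≤ t := by
    have k1 := yA_lowN u S d v mu mS md0 mv0 hD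
    have k2 := yA_lowD u S d v mu mS md0 mv0 hD
    have k := lowEnd_le (x := xO) k2 hlow
    exact (pos_of_mul_pos_left (k1.trans_le k) k2.le).le
  have T : Pt d S u v t := ⟨hd, hD, hB.S_low, hB.S_high, hdS, mS, hF,
    llg_nonneg yA_llgLo yA_llgHi mu mS md0 mv0 hd hD hS0 (by linarith [hB.S_high]) ht hdS (by linarith) hF⟩
  rcases lt_or_ge v (2886 / 1000 : ℝ) with h2 | h2
  · rcases lt_or_ge v (2776 / 1000 : ℝ) with h4 | h4
    · rcases lt_or_ge v (2200 / 1000 : ℝ) with h6 | h6
      · rcases lt_or_ge v (1500 / 1000 : ℝ) with h8 | h8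
        · rcases lt_or_ge d (150 / 10000 : ℝ) with h10 | h10
          · exact yA0_ok hB hd hS0 T (by simp only [Side.Mem]; norm_num; constructor <;> linarith) (by simp only [Side.Mem]; norm_num; constructor <;> linarith) (by linarith) (by linarith) hphi hlow hup
          · exact yA1_ok hB hd hS0 T (by simp only [Side.Mem]; norm_num; constructor <;> linarith) (by simp only [Side.Mem]; norm_num; constructor <;> linarith) (by linarith) (by linarith) hphi hlow hup
        · exact yA2_ok hB hd hS0 T (by simp only [Side.Mem]; norm_num; constructor <;> linarith) (by simp only [Side.Mem]; norm_num; constructor <;> linarith) (by linarith) (by linarith) hphi hlow hup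
      · rcases lt_or_ge v (2569 / 1000 : ℝ) with h8 | h8
        · exact yA3_ok hB hd hS0 T (by simp only [Side.Mem]; norm_num; constructor <;> linarith) (by simp only [Side.Mem]; norm_num; constructor <;> linarith) (by linarith) (by linarith) hphi hlow hup
        · rcases lt_or_ge d (150 / 10000 : ℝ) with h10 | h10
          · exact yA4_ok hB hd hS0 T (by simp only [Side.Mem]; norm_num; constructor <;> linarith) (by simp only [Side.Mem]; norm_num; constructor <;> linarith) (by linarith) (by linarith) hphi hlow hup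
          · exact yA5_ok hB hd hS0 T (by simp only [Side.Mem]; norm_num; constructor <;> linarith) (by simp only [Side.Mem]; norm_num; constructor <;> linarith) (by linarith) (by linarith) hphi hlow hup
    · rcases le_or_gt u (157 / 160 + -(1 / 10) * d : ℝ) with h6 | h6
      · rcases lt_or_ge d (150 / 10000 : ℝ) with h8 | h8
        · rcases lt_or_ge d (75 / 10000 : ℝ) with h10 | h10
          · exact yA19_ok hB hd hS0 T (by simp only [Side.Mem]; norm_num; constructor <;> linarith) (by simp only [Side.Mem]; norm_num; constructor <;> linarith) (by linarith) (by linarith) hphi hlow hup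
          · exact yA6_ok hB hd hS0 T (by simp only [Side.Mem]; norm_num; constructor <;> linarith) (by simp only [Side.Mem]; norm_num; constructor <;> linarith) (by linarith) (by linarith) hphi hlow hup
        · rcases le_or_gt u (313 / 320 + -(1 / 20) * d : ℝ) with h10 | h10
          · exact yA9_ok hB hd hS0 T (by simp only [Side.Mem]; norm_num; constructor <;> linarith) (by simp only [Side.Mem]; norm_num; constructor <;> linarith) (by linarith) (by linarith) hphi hlow hup
          · exact yA10_ok hB hd hS0 T (by simp only [Side.Mem]; norm_num; constructor <;> linarith) (by simp only [Side.Mem]; norm_num; constructor <;> linarith) (by linarith) (by linarith) hphi hlow hup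
      · rcases lt_or_ge d (150 / 10000 : ℝ) with h8 | h8
        · rcases lt_or_ge d (75 / 10000 : ℝ) with h10 | h10
          · exact yA24_ok hB hd hS0 T (by simp only [Side.Mem]; norm_num; constructor <;> linarith) (by simp only [Side.Mem]; norm_num; constructor <;> linarith) (by linarith) (by linarith) hphi hlow hup
          · rcases le_or_gt u (79 / 80 + -(1 / 5) * d : ℝ) with h12 | h12
            · exact yA7_ok hB hd hS0 T (by simp only [Side.Mem]; norm_num; constructor <;> linarith) (by simp only [Side.Mem]; norm_num; constructor <;> linarith) (by linarith) (by linarith) hphi hlow hup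
            · exact yA8_ok hB hd hS0 T (by simp only [Side.Mem]; norm_num; constructor <;> linarith) (by simp only [Side.Mem]; norm_num; constructor <;> linarith) (by linarith) (by linarith) hphi hlow hup
        · rcases le_or_gt u (79 / 80 + -(1 / 5) * d : ℝ) with h10 | h10
          · exact yA11_ok hB hd hS0 T (by simp only [Side.Mem]; norm_num; constructor <;> linarith) (by simp only [Side.Mem]; norm_num; constructor <;> linarith) (by linarith) (by linarith) hphi hlow hup
          · exact yA12_ok hB hd hS0 T (by simp only [Side.Mem]; norm_num; constructor <;> linarith) (by simp only [Side.Mem]; norm_num; constructor <;> linarith) (by linarith) (by linarith) hphi hlow hup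
  · rcases le_or_gt u (79 / 80 + -(1 / 5) * d : ℝ) with h4 | h4
    · rcases lt_or_ge v (3000 / 1000 : ℝ) with h6 | h6
      · rcases lt_or_ge d (225 / 10000 : ℝ) with h8 | h8
        · rcases lt_or_ge d (150 / 10000 : ℝ) with h10 | h10
          · exact yA13_ok hB hd hS0 T (by simp only [Side.Mem]; norm_num; constructor <;> linarith) (by simp only [Side.Mem]; norm_num; constructor <;> linarith) (by linarith) (by linarith) hphi hlow hup
          · exact yA14_ok hB hd hS0 T (by simp only [Side.Mem]; norm_num; constructor <;> linarith) (by simp only [Side.Mem]; norm_num; constructor <;> linarith) (by linarith) (by linarith) hphi hlow hup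
        · rcases lt_or_ge d (262 / 10000 : ℝ) with h10 | h10
          · exact yA15_ok hB hd hS0 T (by simp only [Side.Mem]; norm_num; constructor <;> linarith) (by simp only [Side.Mem]; norm_num; constructor <;> linarith) (by linarith) (by linarith) hphi hlow hup
          · exact yA16_ok hB hd hS0 T (by simp only [Side.Mem]; norm_num; constructor <;> linarith) (by simp only [Side.Mem]; norm_num; constructor <;> linarith) (by linarith) (by linarith) hphi hlow hup
      · exact yA18_ok hB hd hS0 T (by simp only [Side.Mem]; norm_num; constructor <;> linarith) (by simp only [Side.Mem]; norm_num; constructor <;> linarith) (by linarith) (by linarith) hphi hlow hup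
    · rcases lt_or_ge d (150 / 10000 : ℝ) with h6 | h6
      · rcases lt_or_ge d (75 / 10000 : ℝ) with h8 | h8
        · rcases lt_or_ge v (3036 / 1000 : ℝ) with h10 | h10
          · exact yA25_ok hB hd hS0 T (by simp only [Side.Mem]; norm_num; constructor <;> linarith) (by simp only [Side.Mem]; norm_num; constructor <;> linarith) (by linarith) (by linarith) hphi hlow hup
          · exfalso
            have k : (2 / 3 - 3 / 400) * (759 / 250 : ℝ) ≤ (S - d) * v := mul_le_mul (by linarith [T.S_low]) (by linarith) (by norm_num) (by linarith [T.S_low])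
            linarith [T.dom.rlt]
        · rcases lt_or_ge v (3000 / 1000 : ℝ) with h10 | h10
          · exact yA20_ok hB hd hS0 T (by simp only [Side.Mem]; norm_num; constructor <;> linarith) (by simp only [Side.Mem]; norm_num; constructor <;> linarith) (by linarith) (by linarith) hphi hlow hup
          · rcases lt_or_ge v (3071 / 1000 : ℝ) with h12 | h12
            · exact yA21_ok hB hd hS0 T (by simp only [Side.Mem]; norm_num; constructor <;> linarith) (by simp only [Side.Mem]; norm_num; constructor <;> linarith) (by linarith) (by linarith) hphi hlow hup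
            · exfalso
              have k : (2 / 3 - 3 / 200) * (3071 / 1000 : ℝ) ≤ (S - d) * v := mul_le_mul (by linarith [T.S_low]) (by linarith) (by norm_num) (by linarith [T.S_low])
              linarith [T.dom.rlt]
      · rcases lt_or_ge v (3000 / 1000 : ℝ) with h8 | h8
        · exact yA17_ok hB hd hS0 T (by simp only [Side.Mem]; norm_num; constructor <;> linarith) (by simp only [Side.Mem]; norm_num; constructor <;> linarith) (by linarith) (by linarith) hphi hlow hup
        · rcases lt_or_ge d (225 / 10000 : ℝ) with h10 | h10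
          · rcases lt_or_ge v (3106 / 1000 : ℝ) with h12 | h12
            · exact yA22_ok hB hd hS0 T (by simp only [Side.Mem]; norm_num; constructor <;> linarith) (by simp only [Side.Mem]; norm_num; constructor <;> linarith) (by linarith) (by linarith) hphi hlow hup
            · exfalso
              have k : (2 / 3 - 9 / 400) * (1553 / 500 : ℝ) ≤ (S - d) * v := mul_le_mul (by linarith [T.S_low]) (by linarith) (by norm_num) (by linarith [T.S_low])
              linarith [T.dom.rlt]
          · rcases lt_or_ge v (3143 / 1000 : ℝ) with h12 | h12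
            · exact yA23_ok hB hd hS0 T (by simp only [Side.Mem]; norm_num; constructor <;> linarith) (by simp only [Side.Mem]; norm_num; constructor <;> linarith) (by linarith) (by linarith) hphi hlow hup
            · exfalso
              have k : (2 / 3 - 301 / 10000) * (3143 / 1000 : ℝ) ≤ (S - d) * v := mul_le_mul (by linarith [T.S_low]) (by linarith) (by norm_num) (by linarith [T.S_low])
              linarith [T.dom.rlt]

end Vale.Agent.P100.Calib.Closed.Six.Tail
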