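import Vale.Agent.P100.Calib.SlabSixTailDataLayerB
import Vale.Agent.P100.Calib.SlabSixTailGlobLayerB

/-!
# Checks of some pieces of the certificate

The checks are written as definitions so that they run one after another, which keeps the memory of the
kernel low.
-/

set_option linter.defProp false

namespace Vale.Agent.P100.Calib.Closed.Six.Tail

open BoxPos Large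

local instance sixTailChecksyB0Add : Add Ex := ⟨Ex.add⟩
local instance sixTailChecksyB0Sub : Sub Ex := ⟨Ex.sub⟩
local instance sixTailChecksyB0Mul : Mul Ex := ⟨Ex.mul⟩

def yB0_p0 : PosD ⟨⟨0, 1, 1⟩, ⟨98, 99, 147⟩, ⟨300, 625, 10000⟩, ⟨1030, 1500, 1000⟩⟩ (yB0.hP0) :=
  posD_of_check (c := ⟨81, ⟨0, 2, 3, 1⟩⟩) (by decide +kernel)

def yB0_gn : PosD ⟨⟨0, 1, 1⟩, ⟨98, 99, 147⟩, ⟨300, 625, 10000⟩, ⟨1030, 1500, 1000⟩⟩ (yB0.hGn) :=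
  posD_of_check (c := ⟨58, ⟨1, 1, 2, 1⟩⟩) (by decide +kernel)

def yB0_den0 : PosD ⟨⟨0, 1, 1⟩, ⟨98, 99, 147⟩, ⟨300, 625, 10000⟩, ⟨1030, 1500, 1000⟩⟩ (yB0.hDen false) :=
  posD_of_check (c := ⟨45, ⟨0, 0, 2, 0⟩⟩) (by decide +kernel)

def yB0_den1 : PosD ⟨⟨0, 1, 1⟩, ⟨98, 99, 147⟩, ⟨300, 625, 10000⟩, ⟨1030, 1500, 1000⟩⟩ (yB0.hDen true) :=
  posD_of_check (c := ⟨22, ⟨1, 0, 1, 0⟩⟩) (by decide +kernel)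

def yB0_ev0 : PosD ⟨⟨0, 1, 1⟩, ⟨98, 99, 147⟩, ⟨300, 625, 10000⟩, ⟨1030, 1500, 1000⟩⟩ (yB0.hEv false) :=
  posD_of_check (c := ⟨149, ⟨2, 2, 6, 1⟩⟩) (by decide +kernel)

def yB0_zL0 : PosD ⟨⟨0, 1, 1⟩, ⟨98, 99, 147⟩, ⟨300, 625, 10000⟩, ⟨1030, 1500, 1000⟩⟩ (yB0.hZL false) :=
  posD_of_check (c := ⟨159, ⟨2, 3, 6, 3⟩⟩) (by decide +kernel)

def yB0_zU0a : PosD ⟨⟨0, 1, 1⟩, ⟨98, 99, 147⟩, ⟨300, 462, 10000⟩, ⟨1030, 1500, 1000⟩⟩ (yB0.hZU false) :=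
  posD_of_check (c := ⟨159, ⟨2, 3, 6, 3⟩⟩) (by decide +kernel)

def yB0_zU0b : PosD ⟨⟨0, 1, 1⟩, ⟨98, 99, 147⟩, ⟨462, 625, 10000⟩, ⟨1030, 1500, 1000⟩⟩ (yB0.hZU false) :=
  posD_of_check (c := ⟨160, ⟨2, 3, 6, 3⟩⟩) (by decide +kernel)

def yB0_zU0 : PosD ⟨⟨0, 1, 1⟩, ⟨98, 99, 147⟩, ⟨300, 625, 10000⟩, ⟨1030, 1500, 1000⟩⟩ (yB0.hZU false) :=
  posD_join₂ yB0_zU0a yB0_zU0b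

def yB0_eL0 : PosD ⟨⟨0, 1, 1⟩, ⟨98, 99, 147⟩, ⟨300, 625, 10000⟩, ⟨1030, 1500, 1000⟩⟩ (yB0.hEL false) :=
  posD_of_check (c := ⟨241, ⟨3, 6, 9, 3⟩⟩) (by decide +kernel)

def yB0_eH0 : PosD ⟨⟨0, 1, 1⟩, ⟨98, 99, 147⟩, ⟨300, 625, 10000⟩, ⟨1030, 1500, 1000⟩⟩ (yB0.hEH false) :=
  posD_of_check (c := ⟨256, ⟨3, 6, 9, 3⟩⟩) (by decide +kernel)

def yB0_pL0 : PosD ⟨⟨0, 1, 1⟩, ⟨98, 99, 147⟩, ⟨300, 625, 10000⟩, ⟨1030, 1500, 1000⟩⟩ (yB0.hPL false) :=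
  posD_of_check (c := ⟨260, ⟨3, 6, 9, 3⟩⟩) (by decide +kernel)

def yB0_pU0 : PosD ⟨⟨0, 1, 1⟩, ⟨98, 99, 147⟩, ⟨300, 625, 10000⟩, ⟨1030, 1500, 1000⟩⟩ (yB0.hPU false) :=
  posD_of_check (c := ⟨260, ⟨3, 6, 9, 3⟩⟩) (by decide +kernel)

def yB0_kU0 : PosD ⟨⟨0, 1, 1⟩, ⟨98, 99, 147⟩, ⟨300, 625, 10000⟩, ⟨1030, 1500, 1000⟩⟩ (yB0.hKU false) :=
  posD_of_check (c := ⟨255, ⟨3, 6, 9, 3⟩⟩) (by decide +kernel)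

def yB0_kL0 : PosD ⟨⟨0, 1, 1⟩, ⟨98, 99, 147⟩, ⟨300, 625, 10000⟩, ⟨1030, 1500, 1000⟩⟩ (yB0.hKL false) :=
  posD_of_check (c := ⟨255, ⟨3, 6, 9, 3⟩⟩) (by decide +kernel)

def yB0_wU0a : PosD ⟨⟨0, 1, 1⟩, ⟨98, 99, 147⟩, ⟨300, 625, 10000⟩, ⟨1030, 1265, 1000⟩⟩ (yB0.hWU false) :=
  posD_of_check (c := ⟨290, ⟨3, 8, 10, 3⟩⟩) (by decide +kernel)

def yB0_wU0b : PosD ⟨⟨0, 1, 1⟩, ⟨98, 99, 147⟩, ⟨300, 625, 10000⟩, ⟨1265, 1500, 1000⟩⟩ (yB0.hWU false) :=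
  posD_of_check (c := ⟨291, ⟨3, 8, 10, 3⟩⟩) (by decide +kernel)

def yB0_wU0 : PosD ⟨⟨0, 1, 1⟩, ⟨98, 99, 147⟩, ⟨300, 625, 10000⟩, ⟨1030, 1500, 1000⟩⟩ (yB0.hWU false) :=
  posD_join₃ yB0_wU0a yB0_wU0b

def yB0_wL0 : PosD ⟨⟨0, 1, 1⟩, ⟨98, 99, 147⟩, ⟨300, 625, 10000⟩, ⟨1030, 1500, 1000⟩⟩ (yB0.hWL false) :=
  posD_of_check (c := ⟨291, ⟨3, 8, 10, 3⟩⟩) (by decide +kernel)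

def yB0_ev1 : PosD ⟨⟨0, 1, 1⟩, ⟨98, 99, 147⟩, ⟨300, 625, 10000⟩, ⟨1030, 1500, 1000⟩⟩ (yB0.hEv true) :=
  posD_of_check (c := ⟨120, ⟨2, 2, 6, 1⟩⟩) (by decide +kernel)

def yB0_zL1 : PosD ⟨⟨0, 1, 1⟩, ⟨98, 99, 147⟩, ⟨300, 625, 10000⟩, ⟨1030, 1500, 1000⟩⟩ (yB0.hZL true) :=
  posD_of_check (c := ⟨134, ⟨2, 3, 6, 3⟩⟩) (by decide +kernel)

def yB0_zU1 : PosD ⟨⟨0, 1, 1⟩, ⟨98, 99, 147⟩, ⟨300, 625, 10000⟩, ⟨1030, 1500, 1000⟩⟩ (yB0.hZU true) :=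
  posD_of_check (c := ⟨134, ⟨2, 3, 6, 3⟩⟩) (by decide +kernel)

def yB0_eL1 : PosD ⟨⟨0, 1, 1⟩, ⟨98, 99, 147⟩, ⟨300, 625, 10000⟩, ⟨1030, 1500, 1000⟩⟩ (yB0.hEL true) :=
  posD_of_check (c := ⟨213, ⟨3, 6, 9, 3⟩⟩) (by decide +kernel)

def yB0_eH1a : PosD ⟨⟨0, 1, 1⟩, ⟨98, 99, 147⟩, ⟨300, 462, 10000⟩, ⟨1030, 1500, 1000⟩⟩ (yB0.hEH true) :=
  posD_of_check (c := ⟨226, ⟨3, 6, 9, 3⟩⟩) (by decide +kernel)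

def yB0_eH1b : PosD ⟨⟨0, 1, 1⟩, ⟨98, 99, 147⟩, ⟨462, 625, 10000⟩, ⟨1030, 1500, 1000⟩⟩ (yB0.hEH true) :=
  posD_of_check (c := ⟨227, ⟨3, 6, 9, 3⟩⟩) (by decide +kernel)

def yB0_eH1 : PosD ⟨⟨0, 1, 1⟩, ⟨98, 99, 147⟩, ⟨300, 625, 10000⟩, ⟨1030, 1500, 1000⟩⟩ (yB0.hEH true) :=
  posD_join₂ yB0_eH1a yB0_eH1b

def yB0_pL1 : PosD ⟨⟨0, 1, 1⟩, ⟨98, 99, 147⟩, ⟨300, 625, 10000⟩, ⟨1030, 1500, 1000⟩⟩ (yB0.hPL true) :=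
  posD_of_check (c := ⟨231, ⟨3, 6, 9, 3⟩⟩) (by decide +kernel)

def yB0_pU1a : PosD ⟨⟨0, 1, 1⟩, ⟨98, 99, 147⟩, ⟨300, 625, 10000⟩, ⟨1030, 1265, 1000⟩⟩ (yB0.hPU true) :=
  posD_of_check (c := ⟨231, ⟨3, 6, 9, 3⟩⟩) (by decide +kernel)

def yB0_pU1b : PosD ⟨⟨0, 1, 1⟩, ⟨98, 99, 147⟩, ⟨300, 625, 10000⟩, ⟨1265, 1500, 1000⟩⟩ (yB0.hPU true) :=
  posD_of_check (c := ⟨231, ⟨3, 6, 9, 3⟩⟩) (by decide +kernel)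

def yB0_pU1 : PosD ⟨⟨0, 1, 1⟩, ⟨98, 99, 147⟩, ⟨300, 625, 10000⟩, ⟨1030, 1500, 1000⟩⟩ (yB0.hPU true) :=
  posD_join₃ yB0_pU1a yB0_pU1b

def yB0_kU1 : PosD ⟨⟨0, 1, 1⟩, ⟨98, 99, 147⟩, ⟨300, 625, 10000⟩, ⟨1030, 1500, 1000⟩⟩ (yB0.hKU true) :=
  posD_of_check (c := ⟨226, ⟨3, 6, 9, 3⟩⟩) (by decide +kernel)

def yB0_kL1 : PosD ⟨⟨0, 1, 1⟩, ⟨98, 99, 147⟩, ⟨300, 625, 10000⟩, ⟨1030, 1500, 1000⟩⟩ (yB0.hKL true) :=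
  posD_of_check (c := ⟨226, ⟨3, 6, 9, 3⟩⟩) (by decide +kernel)

def yB0_wU1a : PosD ⟨⟨0, 1, 1⟩, ⟨98, 99, 147⟩, ⟨300, 625, 10000⟩, ⟨1030, 1265, 1000⟩⟩ (yB0.hWU true) :=
  posD_of_check (c := ⟨260, ⟨3, 8, 10, 3⟩⟩) (by decide +kernel)

def yB0_wU1b : PosD ⟨⟨0, 1, 1⟩, ⟨98, 99, 147⟩, ⟨300, 625, 10000⟩, ⟨1265, 1500, 1000⟩⟩ (yB0.hWU true) :=
  posD_of_check (c := ⟨261, ⟨3, 8, 10, 3⟩⟩) (by decide +kernel)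

def yB0_wU1 : PosD ⟨⟨0, 1, 1⟩, ⟨98, 99, 147⟩, ⟨300, 625, 10000⟩, ⟨1030, 1500, 1000⟩⟩ (yB0.hWU true) :=
  posD_join₃ yB0_wU1a yB0_wU1b

def yB0_wL1 : PosD ⟨⟨0, 1, 1⟩, ⟨98, 99, 147⟩, ⟨300, 625, 10000⟩, ⟨1030, 1500, 1000⟩⟩ (yB0.hWL true) :=
  posD_of_check (c := ⟨261, ⟨3, 8, 10, 3⟩⟩) (by decide +kernel)

def yB0_mueH : PosD ⟨⟨0, 1, 1⟩, ⟨98, 99, 147⟩, ⟨300, 625, 10000⟩, ⟨1030, 1500, 1000⟩⟩ (yB0.eH.μ) :=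
  posD_of_check (c := ⟨13, ⟨0, 0, 0, 0⟩⟩) (by decide +kernel)

def yB0_mupL : PosD ⟨⟨0, 1, 1⟩, ⟨98, 99, 147⟩, ⟨300, 625, 10000⟩, ⟨1030, 1500, 1000⟩⟩ (yB0.pL.μ) :=
  posD_of_check (c := ⟨15, ⟨0, 0, 0, 0⟩⟩) (by decide +kernel)

def yB0_muwU : PosD ⟨⟨0, 1, 1⟩, ⟨98, 99, 147⟩, ⟨300, 625, 10000⟩, ⟨1030, 1500, 1000⟩⟩ (yB0.wU.μ) :=
  posD_of_check (c := ⟨12, ⟨0, 0, 0, 0⟩⟩) (by decide +kernel)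

/-- The bounds of the piece. -/
def yB0_env : yB0.Env ⟨⟨0, 1, 1⟩, ⟨98, 99, 147⟩, ⟨300, 625, 10000⟩, ⟨1030, 1500, 1000⟩⟩ :=
  ⟨yB0_p0, Bool.forall_bool.2 ⟨yB0_den0, yB0_den1⟩, yB0_gn, Bool.forall_bool.2 ⟨yB0_ev0, yB0_ev1⟩, Bool.forall_bool.2 ⟨yB0_zL0, yB0_zL1⟩, Bool.forall_bool.2 ⟨yB0_zU0, yB0_zU1⟩, Bool.forall_bool.2 ⟨yB0_eL0, yB0_eL1⟩, ⟨.inr rfl, .inr rfl⟩, Bool.forall_bool.2 ⟨yB0_eH0, yB0_eH1⟩, ⟨.inl yB0_mueH, .inr rfl⟩, Bool.forall_bool.2 ⟨yB0_pL0, yB0_pL1⟩, ⟨.inl yB0_mupL, .inr rfl⟩, Bool.forall_bool.2 ⟨yB0_pU0, yB0_pU1⟩, ⟨.inr rfl, .inr rfl⟩, Bool.forall_bool.2 ⟨yB0_kU0, yB0_kU1⟩, ⟨.inr rfl, .inr rfl⟩, Bool.forall_bool.2 ⟨yB0_kL0, yB0_kL1⟩, ⟨.inr rfl, .inr rfl⟩, Bool.forall_bool.2 ⟨yB0_wU0, yB0_wU1⟩, ⟨.inl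 yB0_muwU, .inr rfl⟩, Bool.forall_bool.2 ⟨yB0_wL0, yB0_wL1⟩, ⟨.inr rfl, .inr rfl⟩⟩

def yB0_pp : PosD ⟨⟨0, 1, 1⟩, ⟨98, 99, 147⟩, ⟨300, 625, 10000⟩, ⟨1030, 1500, 1000⟩⟩ (yB0.xPL) :=
  posD_of_check (c := ⟨91, ⟨1, 1, 3, 3⟩⟩) (by decide +kernel)

def yB0_k2p : PosD ⟨⟨0, 1, 1⟩, ⟨98, 99, 147⟩, ⟨300, 625, 10000⟩, ⟨1030, 1500, 1000⟩⟩ (yB0.k2p yB0.xE) :=
  posD_of_check (c := ⟨64, ⟨1, 1, 2, 2⟩⟩) (by decide +kernel)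

def yB0_k2m : PosD ⟨⟨0, 1, 1⟩, ⟨98, 99, 147⟩, ⟨300, 625, 10000⟩, ⟨1030, 1500, 1000⟩⟩ (yB0.k2m yB0.xE) :=
  posD_of_check (c := ⟨63, ⟨1, 1, 2, 2⟩⟩) (by decide +kernel)

def yB0_v2p : PosD ⟨⟨0, 1, 1⟩, ⟨98, 99, 147⟩, ⟨300, 625, 10000⟩, ⟨1030, 1500, 1000⟩⟩ (yB0.hV2p) :=
  posD_of_check (c := ⟨257, ⟨1, 6, 10, 5⟩⟩) (by decide +kernel)

def yB0_v2m : PosD ⟨⟨0, 1, 1⟩, ⟨98, 99, 147⟩, ⟨300, 625, 10000⟩, ⟨1030, 1500, 1000⟩⟩ (yB0.hV2m) :=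
  posD_of_check (c := ⟨257, ⟨1, 6, 10, 5⟩⟩) (by decide +kernel)

def yB0_v3p : PosD ⟨⟨0, 1, 1⟩, ⟨98, 99, 147⟩, ⟨300, 625, 10000⟩, ⟨1030, 1500, 1000⟩⟩ (yB0.hV3p) :=
  posD_of_check (c := ⟨247, ⟨1, 6, 9, 5⟩⟩) (by decide +kernel)

def yB0_v3m : PosD ⟨⟨0, 1, 1⟩, ⟨98, 99, 147⟩, ⟨300, 625, 10000⟩, ⟨1030, 1500, 1000⟩⟩ (yB0.hV3m) :=
  posD_of_check (c := ⟨247, ⟨1, 6, 9, 5⟩⟩) (by decide +kernel)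

def yB0_kap0 : PosD ⟨⟨0, 1, 1⟩, ⟨98, 99, 147⟩, ⟨300, 625, 10000⟩, ⟨1030, 1500, 1000⟩⟩ (yB0.kap false) :=
  posD_of_check (c := ⟨67, ⟨1, 1, 2, 2⟩⟩) (by decide +kernel)

def yB0_c10 : PosD ⟨⟨0, 1, 1⟩, ⟨98, 99, 147⟩, ⟨300, 625, 10000⟩, ⟨1030, 1500, 1000⟩⟩ (yB0.hC1 false) :=
  posD_of_check (c := ⟨263, ⟨3, 5, 9, 7⟩⟩) (by decide +kernel)

def yB0_c1h0 : PosD ⟨⟨0, 1, 1⟩, ⟨98, 99, 147⟩, ⟨300, 625, 10000⟩, ⟨1030, 1500, 1000⟩⟩ (yB0.hC1' false) :=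
  posD_of_check (c := ⟨263, ⟨3, 5, 9, 7⟩⟩) (by decide +kernel)

def yB0_tg00 : PosD ⟨⟨0, 1, 1⟩, ⟨98, 99, 147⟩, ⟨300, 625, 10000⟩, ⟨1030, 1500, 1000⟩⟩ (yB0.hG false (yB0.pEnd false)) :=
  posD_of_check (c := ⟨371, ⟨2, 7, 14, 9⟩⟩) (by decide +kernel)

def yB0_c2p00 : PosD ⟨⟨0, 1, 1⟩, ⟨98, 99, 147⟩, ⟨300, 625, 10000⟩, ⟨1030, 1500, 1000⟩⟩ (yB0.hC2p false (yB0.pEnd false)) :=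
  posD_of_check (c := ⟨435, ⟨3, 8, 16, 11⟩⟩) (by decide +kernel)

def yB0_c2m00 : PosD ⟨⟨0, 1, 1⟩, ⟨98, 99, 147⟩, ⟨300, 625, 10000⟩, ⟨1030, 1500, 1000⟩⟩ (yB0.hC2m false (yB0.pEnd false)) :=
  posD_of_check (c := ⟨434, ⟨3, 8, 16, 11⟩⟩) (by decide +kernel)

def yB0_c3p00 : PosD ⟨⟨0, 1, 1⟩, ⟨98, 99, 147⟩, ⟨300, 625, 10000⟩, ⟨1030, 1500, 1000⟩⟩ (yB0.hC3p false false) :=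
  posD_of_check (c := ⟨427, ⟨3, 8, 15, 11⟩⟩) (by decide +kernel)

def yB0_c3m00 : PosD ⟨⟨0, 1, 1⟩, ⟨98, 99, 147⟩, ⟨300, 625, 10000⟩, ⟨1030, 1500, 1000⟩⟩ (yB0.hC3m false false) :=
  posD_of_check (c := ⟨427, ⟨3, 8, 15, 11⟩⟩) (by decide +kernel)

def yB0_c3ph00 : PosD ⟨⟨0, 1, 1⟩, ⟨98, 99, 147⟩, ⟨300, 625, 10000⟩, ⟨1030, 1500, 1000⟩⟩ (yB0.hC3p' false false) :=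
  posD_of_check (c := ⟨427, ⟨3, 8, 15, 11⟩⟩) (by decide +kernel)

def yB0_c3mh00 : PosD ⟨⟨0, 1, 1⟩, ⟨98, 99, 147⟩, ⟨300, 625, 10000⟩, ⟨1030, 1500, 1000⟩⟩ (yB0.hC3m' false false) :=
  posD_of_check (c := ⟨427, ⟨3, 8, 15, 11⟩⟩) (by decide +kernel)

def yB0_up00 : PosD ⟨⟨0, 1, 1⟩, ⟨98, 99, 147⟩, ⟨300, 625, 10000⟩, ⟨1030, 1500, 1000⟩⟩ (yB0.hUp false false) :=
  posD_of_check (c := ⟨425, ⟨3, 8, 15, 11⟩⟩) (by decide +kernel)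

def yB0_um00 : PosD ⟨⟨0, 1, 1⟩, ⟨98, 99, 147⟩, ⟨300, 625, 10000⟩, ⟨1030, 1500, 1000⟩⟩ (yB0.hUm false false) :=
  posD_of_check (c := ⟨425, ⟨3, 8, 15, 11⟩⟩) (by decide +kernel)

def yB0_tmg00 : PosD ⟨⟨0, 1, 1⟩, ⟨98, 99, 147⟩, ⟨300, 625, 10000⟩, ⟨1030, 1500, 1000⟩⟩ (yB0.hTMG false (yB0.pEnd false)) :=
  posD_of_check (c := ⟨385, ⟨2, 7, 14, 10⟩⟩) (by decide +kernel)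

def yB0_tg01 : PosD ⟨⟨0, 1, 1⟩, ⟨98, 99, 147⟩, ⟨300, 625, 10000⟩, ⟨1030, 1500, 1000⟩⟩ (yB0.hG true (yB0.pEnd false)) :=
  posD_of_check (c := ⟨371, ⟨2, 7, 14, 9⟩⟩) (by decide +kernel)

def yB0_c2p01 : PosD ⟨⟨0, 1, 1⟩, ⟨98, 99, 147⟩, ⟨300, 625, 10000⟩, ⟨1030, 1500, 1000⟩⟩ (yB0.hC2p true (yB0.pEnd false)) :=
  posD_of_check (c := ⟨435, ⟨3, 8, 16, 11⟩⟩) (by decide +kernel)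

def yB0_c2m01 : PosD ⟨⟨0, 1, 1⟩, ⟨98, 99, 147⟩, ⟨300, 625, 10000⟩, ⟨1030, 1500, 1000⟩⟩ (yB0.hC2m true (yB0.pEnd false)) :=
  posD_of_check (c := ⟨434, ⟨3, 8, 16, 11⟩⟩) (by decide +kernel)

def yB0_c3p01 : PosD ⟨⟨0, 1, 1⟩, ⟨98, 99, 147⟩, ⟨300, 625, 10000⟩, ⟨1030, 1500, 1000⟩⟩ (yB0.hC3p false true) :=
  posD_of_check (c := ⟨427, ⟨3, 8, 15, 11⟩⟩) (by decide +kernel)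

def yB0_c3m01 : PosD ⟨⟨0, 1, 1⟩, ⟨98, 99, 147⟩, ⟨300, 625, 10000⟩, ⟨1030, 1500, 1000⟩⟩ (yB0.hC3m false true) :=
  posD_of_check (c := ⟨427, ⟨3, 8, 15, 11⟩⟩) (by decide +kernel)

def yB0_c3ph01 : PosD ⟨⟨0, 1, 1⟩, ⟨98, 99, 147⟩, ⟨300, 625, 10000⟩, ⟨1030, 1500, 1000⟩⟩ (yB0.hC3p' false true) :=
  posD_of_check (c := ⟨427, ⟨3, 8, 15, 11⟩⟩) (by decide +kernel)

def yB0_c3mh01 : PosD ⟨⟨0, 1, 1⟩, ⟨98, 99, 147⟩, ⟨300, 625, 10000⟩, ⟨1030, 1500, 1000⟩⟩ (yB0.hC3m' false true) :=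
  posD_of_check (c := ⟨427, ⟨3, 8, 15, 11⟩⟩) (by decide +kernel)

def yB0_up01 : PosD ⟨⟨0, 1, 1⟩, ⟨98, 99, 147⟩, ⟨300, 625, 10000⟩, ⟨1030, 1500, 1000⟩⟩ (yB0.hUp false true) :=
  posD_of_check (c := ⟨425, ⟨3, 8, 15, 11⟩⟩) (by decide +kernel)

def yB0_um01 : PosD ⟨⟨0, 1, 1⟩, ⟨98, 99, 147⟩, ⟨300, 625, 10000⟩, ⟨1030, 1500, 1000⟩⟩ (yB0.hUm false true) :=
  posD_of_check (c := ⟨425, ⟨3, 8, 15, 11⟩⟩) (by decide +kernel)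

def yB0_tmg01 : PosD ⟨⟨0, 1, 1⟩, ⟨98, 99, 147⟩, ⟨300, 625, 10000⟩, ⟨1030, 1500, 1000⟩⟩ (yB0.hTMG true (yB0.pEnd false)) :=
  posD_of_check (c := ⟨385, ⟨2, 7, 14, 10⟩⟩) (by decide +kernel)

def yB0_kap1 : PosD ⟨⟨0, 1, 1⟩, ⟨98, 99, 147⟩, ⟨300, 625, 10000⟩, ⟨1030, 1500, 1000⟩⟩ (yB0.kap true) :=
  posD_of_check (c := ⟨68, ⟨1, 1, 2, 2⟩⟩) (by decide +kernel)

def yB0_c11 : PosD ⟨⟨0, 1, 1⟩, ⟨98, 99, 147⟩, ⟨300, 625, 10000⟩, ⟨1030, 1500, 1000⟩⟩ (yB0.hC1 true) :=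
  posD_of_check (c := ⟨264, ⟨3, 5, 9, 7⟩⟩) (by decide +kernel)

def yB0_c1h1 : PosD ⟨⟨0, 1, 1⟩, ⟨98, 99, 147⟩, ⟨300, 625, 10000⟩, ⟨1030, 1500, 1000⟩⟩ (yB0.hC1' true) :=
  posD_of_check (c := ⟨264, ⟨3, 5, 9, 7⟩⟩) (by decide +kernel)

def yB0_tg10 : PosD ⟨⟨0, 1, 1⟩, ⟨98, 99, 147⟩, ⟨300, 625, 10000⟩, ⟨1030, 1500, 1000⟩⟩ (yB0.hG false (yB0.pEnd true)) :=
  posD_of_check (c := ⟨372, ⟨2, 7, 14, 9⟩⟩) (by decide +kernel)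

def yB0_c2p10 : PosD ⟨⟨0, 1, 1⟩, ⟨98, 99, 147⟩, ⟨300, 625, 10000⟩, ⟨1030, 1500, 1000⟩⟩ (yB0.hC2p false (yB0.pEnd true)) :=
  posD_of_check (c := ⟨436, ⟨3, 8, 16, 11⟩⟩) (by decide +kernel)

def yB0_c2m10 : PosD ⟨⟨0, 1, 1⟩, ⟨98, 99, 147⟩, ⟨300, 625, 10000⟩, ⟨1030, 1500, 1000⟩⟩ (yB0.hC2m false (yB0.pEnd true)) :=
  posD_of_check (c := ⟨435, ⟨3, 8, 16, 11⟩⟩) (by decide +kernel)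

def yB0_c3p10 : PosD ⟨⟨0, 1, 1⟩, ⟨98, 99, 147⟩, ⟨300, 625, 10000⟩, ⟨1030, 1500, 1000⟩⟩ (yB0.hC3p true false) :=
  posD_of_check (c := ⟨428, ⟨3, 8, 15, 11⟩⟩) (by decide +kernel)

def yB0_c3m10 : PosD ⟨⟨0, 1, 1⟩, ⟨98, 99, 147⟩, ⟨300, 625, 10000⟩, ⟨1030, 1500, 1000⟩⟩ (yB0.hC3m true false) :=
  posD_of_check (c := ⟨428, ⟨3, 8, 15, 11⟩⟩) (by decide +kernel)

def yB0_c3ph10 : PosD ⟨⟨0, 1, 1⟩, ⟨98, 99, 147⟩, ⟨300, 625, 10000⟩, ⟨1030, 1500, 1000⟩⟩ (yB0.hC3p' true false) :=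
  posD_of_check (c := ⟨428, ⟨3, 8, 15, 11⟩⟩) (by decide +kernel)

def yB0_c3mh10 : PosD ⟨⟨0, 1, 1⟩, ⟨98, 99, 147⟩, ⟨300, 625, 10000⟩, ⟨1030, 1500, 1000⟩⟩ (yB0.hC3m' true false) :=
  posD_of_check (c := ⟨428, ⟨3, 8, 15, 11⟩⟩) (by decide +kernel)

def yB0_up10 : PosD ⟨⟨0, 1, 1⟩, ⟨98, 99, 147⟩, ⟨300, 625, 10000⟩, ⟨1030, 1500, 1000⟩⟩ (yB0.hUp true false) :=
  posD_of_check (c := ⟨426, ⟨3, 8, 15, 11⟩⟩) (by decide +kernel)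

def yB0_um10 : PosD ⟨⟨0, 1, 1⟩, ⟨98, 99, 147⟩, ⟨300, 625, 10000⟩, ⟨1030, 1500, 1000⟩⟩ (yB0.hUm true false) :=
  posD_of_check (c := ⟨426, ⟨3, 8, 15, 11⟩⟩) (by decide +kernel)

def yB0_tmg10 : PosD ⟨⟨0, 1, 1⟩, ⟨98, 99, 147⟩, ⟨300, 625, 10000⟩, ⟨1030, 1500, 1000⟩⟩ (yB0.hTMG false (yB0.pEnd true)) :=
  posD_of_check (c := ⟨385, ⟨2, 7, 14, 10⟩⟩) (by decide +kernel)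

def yB0_tg11 : PosD ⟨⟨0, 1, 1⟩, ⟨98, 99, 147⟩, ⟨300, 625, 10000⟩, ⟨1030, 1500, 1000⟩⟩ (yB0.hG true (yB0.pEnd true)) :=
  posD_of_check (c := ⟨372, ⟨2, 7, 14, 9⟩⟩) (by decide +kernel)

def yB0_c2p11 : PosD ⟨⟨0, 1, 1⟩, ⟨98, 99, 147⟩, ⟨300, 625, 10000⟩, ⟨1030, 1500, 1000⟩⟩ (yB0.hC2p true (yB0.pEnd true)) :=
  posD_of_check (c := ⟨436, ⟨3, 8, 16, 11⟩⟩) (by decide +kernel)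

def yB0_c2m11 : PosD ⟨⟨0, 1, 1⟩, ⟨98, 99, 147⟩, ⟨300, 625, 10000⟩, ⟨1030, 1500, 1000⟩⟩ (yB0.hC2m true (yB0.pEnd true)) :=
  posD_of_check (c := ⟨435, ⟨3, 8, 16, 11⟩⟩) (by decide +kernel)

def yB0_c3p11 : PosD ⟨⟨0, 1, 1⟩, ⟨98, 99, 147⟩, ⟨300, 625, 10000⟩, ⟨1030, 1500, 1000⟩⟩ (yB0.hC3p true true) :=
  posD_of_check (c := ⟨428, ⟨3, 8, 15, 11⟩⟩) (by decide +kernel)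

def yB0_c3m11 : PosD ⟨⟨0, 1, 1⟩, ⟨98, 99, 147⟩, ⟨300, 625, 10000⟩, ⟨1030, 1500, 1000⟩⟩ (yB0.hC3m true true) :=
  posD_of_check (c := ⟨428, ⟨3, 8, 15, 11⟩⟩) (by decide +kernel)

def yB0_c3ph11 : PosD ⟨⟨0, 1, 1⟩, ⟨98, 99, 147⟩, ⟨300, 625, 10000⟩, ⟨1030, 1500, 1000⟩⟩ (yB0.hC3p' true true) :=
  posD_of_check (c := ⟨428, ⟨3, 8, 15, 11⟩⟩) (by decide +kernel)

def yB0_c3mh11 : PosD ⟨⟨0, 1, 1⟩, ⟨98, 99, 147⟩, ⟨300, 625, 10000⟩, ⟨1030, 1500, 1000⟩⟩ (yB0.hC3m' true true) :=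
  posD_of_check (c := ⟨428, ⟨3, 8, 15, 11⟩⟩) (by decide +kernel)

def yB0_up11 : PosD ⟨⟨0, 1, 1⟩, ⟨98, 99, 147⟩, ⟨300, 625, 10000⟩, ⟨1030, 1500, 1000⟩⟩ (yB0.hUp true true) :=
  posD_of_check (c := ⟨426, ⟨3, 8, 15, 11⟩⟩) (by decide +kernel)

def yB0_um11 : PosD ⟨⟨0, 1, 1⟩, ⟨98, 99, 147⟩, ⟨300, 625, 10000⟩, ⟨1030, 1500, 1000⟩⟩ (yB0.hUm true true) :=
  posD_of_check (c := ⟨426, ⟨3, 8, 15, 11⟩⟩) (by decide +kernel)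

def yB0_tmg11 : PosD ⟨⟨0, 1, 1⟩, ⟨98, 99, 147⟩, ⟨300, 625, 10000⟩, ⟨1030, 1500, 1000⟩⟩ (yB0.hTMG true (yB0.pEnd true)) :=
  posD_of_check (c := ⟨385, ⟨2, 7, 14, 10⟩⟩) (by decide +kernel)

/-- The signs of the piece. -/
def yB0_sign : yB0.Sign ⟨⟨0, 1, 1⟩, ⟨98, 99, 147⟩, ⟨300, 625, 10000⟩, ⟨1030, 1500, 1000⟩⟩ :=
  ⟨yB0_pp,
    yB0_k2p,
    yB0_k2m,
    Bool.forall_bool.2 ⟨(Bool.forall_bool.2 ⟨yB0_tg00, yB0_tg01⟩), (Bool.forall_bool.2 ⟨yB0_tg10, yB0_tg11⟩)⟩,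
    Bool.forall_bool.2 ⟨(Bool.forall_bool.2 ⟨yB0_c2p00, yB0_c2p01⟩), (Bool.forall_bool.2 ⟨yB0_c2p10, yB0_c2p11⟩)⟩,
    Bool.forall_bool.2 ⟨(Bool.forall_bool.2 ⟨yB0_c2m00, yB0_c2m01⟩), (Bool.forall_bool.2 ⟨yB0_c2m10, yB0_c2m11⟩)⟩,
    Bool.forall_bool.2 ⟨yB0_kap0, yB0_kap1⟩,
    Bool.forall_bool.2 ⟨yB0_c10, yB0_c11⟩,
    Bool.forall_bool.2 ⟨(Bool.forall_bool.2 ⟨yB0_c3p00, yB0_c3p01⟩), (Bool.forall_bool.2 ⟨yB0_c3p10, yB0_c3p11⟩)⟩,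
    Bool.forall_bool.2 ⟨(Bool.forall_bool.2 ⟨yB0_c3m00, yB0_c3m01⟩), (Bool.forall_bool.2 ⟨yB0_c3m10, yB0_c3m11⟩)⟩,
    Bool.forall_bool.2 ⟨(Bool.forall_bool.2 ⟨yB0_tmg00, yB0_tmg01⟩), (Bool.forall_bool.2 ⟨yB0_tmg10, yB0_tmg11⟩)⟩,
    .inr (Bool.forall_bool.2 ⟨⟨yB0_c1h0, Bool.forall_bool.2 ⟨⟨yB0_c3ph00, yB0_c3mh00, yB0_up00, yB0_um00⟩, ⟨yB0_c3ph01, yB0_c3mh01, yB0_up01, yB0_um01⟩⟩⟩, ⟨yB0_c1h1, Bool.forall_bool.2 ⟨⟨yB0_c3ph10, yB0_c3mh10, yB0_up10, yB0_um10⟩, ⟨yB0_c3ph11, yB0_c3mh11, yB0_up11, yB0_um11⟩⟩⟩⟩),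
    yB0_v2p,
    yB0_v2m,
    yB0_v3p,
    yB0_v3m,
    posD_sub (b := ⟨⟨0, 1, 1⟩, ⟨98, 99, 147⟩, ⟨300, 625, 10000⟩, ⟨1020, 4000, 1000⟩⟩) (by decide +kernel) yB_vG,
    posD_sub (b := ⟨⟨0, 1, 1⟩, ⟨98, 99, 147⟩, ⟨300, 625, 10000⟩, ⟨1020, 4000, 1000⟩⟩) (by decide +kernel) yB_vMG,
    posD_sub (b := ⟨⟨0, 1, 1⟩, ⟨98, 99, 147⟩, ⟨300, 625, 10000⟩, ⟨1020, 4000, 1000⟩⟩) (by decide +kernel) yB_ak,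
    posD_sub (b := ⟨⟨0, 1, 1⟩, ⟨98, 99, 147⟩, ⟨300, 625, 10000⟩, ⟨1020, 4000, 1000⟩⟩) (by decide +kernel) yB_aw,
    posD_sub (b := ⟨⟨0, 1, 1⟩, ⟨98, 99, 147⟩, ⟨300, 625, 10000⟩, ⟨1020, 4000, 1000⟩⟩) (by decide +kernel) yB_gk,
    posD_sub (b := ⟨⟨0, 1, 1⟩, ⟨98, 99, 147⟩, ⟨300, 625, 10000⟩, ⟨1020, 4000, 1000⟩⟩) (by decide +kernel) yB_gw,
    posD_sub (b := ⟨⟨0, 1, 1⟩, ⟨98, 99, 147⟩, ⟨300, 625, 10000⟩, ⟨1020, 4000, 1000⟩⟩) (by decide +kernel) yB_ek,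
    posD_sub (b := ⟨⟨0, 1, 1⟩, ⟨98, 99, 147⟩, ⟨300, 625, 10000⟩, ⟨1020, 4000, 1000⟩⟩) (by decide +kernel) yB_ew⟩

end Vale.Agent.P100.Calib.Closed.Six.Tail
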