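import Vale.Agent.P100.Calib.SlabSixTailDataLayerB
import Vale.Agent.P100.Calib.SlabSixTailGlobLayerB

/-!
# Checks of some pieces of the certificate

The checks are written as definitions so that they run one after another, which keeps the memory of the
kernel low.
-/

set_option linter.defProp false

namespace Vale.Agent.P100.Calib.Closed.Six.Tail

open BoxPos Large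

local instance sixTailChecksyB1Add : Add Ex := ⟨Ex.add⟩
local instance sixTailChecksyB1Sub : Sub Ex := ⟨Ex.sub⟩
local instance sixTailChecksyB1Mul : Mul Ex := ⟨Ex.mul⟩

def yB1_p0 : PosD ⟨⟨0, 1, 1⟩, ⟨98, 99, 147⟩, ⟨300, 625, 10000⟩, ⟨1500, 2200, 1000⟩⟩ (yB1.hP0) :=
  posD_of_check (c := ⟨82, ⟨0, 2, 3, 1⟩⟩) (by decide +kernel)

def yB1_gn : PosD ⟨⟨0, 1, 1⟩, ⟨98, 99, 147⟩, ⟨300, 625, 10000⟩, ⟨1500, 2200, 1000⟩⟩ (yB1.hGn) :=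
  posD_of_check (c := ⟨58, ⟨1, 1, 2, 1⟩⟩) (by decide +kernel)

def yB1_den0 : PosD ⟨⟨0, 1, 1⟩, ⟨98, 99, 147⟩, ⟨300, 625, 10000⟩, ⟨1500, 2200, 1000⟩⟩ (yB1.hDen false) :=
  posD_of_check (c := ⟨45, ⟨0, 0, 2, 0⟩⟩) (by decide +kernel)

def yB1_den1 : PosD ⟨⟨0, 1, 1⟩, ⟨98, 99, 147⟩, ⟨300, 625, 10000⟩, ⟨1500, 2200, 1000⟩⟩ (yB1.hDen true) :=
  posD_of_check (c := ⟨22, ⟨1, 0, 1, 0⟩⟩) (by decide +kernel)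

def yB1_ev0 : PosD ⟨⟨0, 1, 1⟩, ⟨98, 99, 147⟩, ⟨300, 625, 10000⟩, ⟨1500, 2200, 1000⟩⟩ (yB1.hEv false) :=
  posD_of_check (c := ⟨149, ⟨2, 2, 6, 1⟩⟩) (by decide +kernel)

def yB1_zL0 : PosD ⟨⟨0, 1, 1⟩, ⟨98, 99, 147⟩, ⟨300, 625, 10000⟩, ⟨1500, 2200, 1000⟩⟩ (yB1.hZL false) :=
  posD_of_check (c := ⟨159, ⟨2, 3, 6, 3⟩⟩) (by decide +kernel)

def yB1_zU0a : PosD ⟨⟨0, 1, 1⟩, ⟨98, 99, 147⟩, ⟨300, 462, 10000⟩, ⟨1500, 2200, 1000⟩⟩ (yB1.hZU false) :=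
  posD_of_check (c := ⟨159, ⟨2, 3, 6, 3⟩⟩) (by decide +kernel)

def yB1_zU0b : PosD ⟨⟨0, 1, 1⟩, ⟨98, 99, 147⟩, ⟨462, 625, 10000⟩, ⟨1500, 2200, 1000⟩⟩ (yB1.hZU false) :=
  posD_of_check (c := ⟨160, ⟨2, 3, 6, 3⟩⟩) (by decide +kernel)

def yB1_zU0 : PosD ⟨⟨0, 1, 1⟩, ⟨98, 99, 147⟩, ⟨300, 625, 10000⟩, ⟨1500, 2200, 1000⟩⟩ (yB1.hZU false) :=
  posD_join₂ yB1_zU0a yB1_zU0b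

def yB1_eL0 : PosD ⟨⟨0, 1, 1⟩, ⟨98, 99, 147⟩, ⟨300, 625, 10000⟩, ⟨1500, 2200, 1000⟩⟩ (yB1.hEL false) :=
  posD_of_check (c := ⟨241, ⟨3, 6, 9, 3⟩⟩) (by decide +kernel)

def yB1_eH0 : PosD ⟨⟨0, 1, 1⟩, ⟨98, 99, 147⟩, ⟨300, 625, 10000⟩, ⟨1500, 2200, 1000⟩⟩ (yB1.hEH false) :=
  posD_of_check (c := ⟨255, ⟨3, 6, 9, 3⟩⟩) (by decide +kernel)

def yB1_pL0a : PosD ⟨⟨0, 1, 1⟩, ⟨98, 99, 147⟩, ⟨300, 625, 10000⟩, ⟨1500, 1850, 1000⟩⟩ (yB1.hPL false) :=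
  posD_of_check (c := ⟨261, ⟨3, 6, 9, 3⟩⟩) (by decide +kernel)

def yB1_pL0b : PosD ⟨⟨0, 1, 1⟩, ⟨98, 99, 147⟩, ⟨300, 625, 10000⟩, ⟨1850, 2200, 1000⟩⟩ (yB1.hPL false) :=
  posD_of_check (c := ⟨261, ⟨3, 6, 9, 3⟩⟩) (by decide +kernel)

def yB1_pL0 : PosD ⟨⟨0, 1, 1⟩, ⟨98, 99, 147⟩, ⟨300, 625, 10000⟩, ⟨1500, 2200, 1000⟩⟩ (yB1.hPL false) :=
  posD_join₃ yB1_pL0a yB1_pL0b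

def yB1_pU0 : PosD ⟨⟨0, 1, 1⟩, ⟨98, 99, 147⟩, ⟨300, 625, 10000⟩, ⟨1500, 2200, 1000⟩⟩ (yB1.hPU false) :=
  posD_of_check (c := ⟨260, ⟨3, 6, 9, 3⟩⟩) (by decide +kernel)

def yB1_kU0 : PosD ⟨⟨0, 1, 1⟩, ⟨98, 99, 147⟩, ⟨300, 625, 10000⟩, ⟨1500, 2200, 1000⟩⟩ (yB1.hKU false) :=
  posD_of_check (c := ⟨255, ⟨3, 6, 9, 3⟩⟩) (by decide +kernel)

def yB1_kL0 : PosD ⟨⟨0, 1, 1⟩, ⟨98, 99, 147⟩, ⟨300, 625, 10000⟩, ⟨1500, 2200, 1000⟩⟩ (yB1.hKL false) :=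
  posD_of_check (c := ⟨255, ⟨3, 6, 9, 3⟩⟩) (by decide +kernel)

def yB1_wU0a : PosD ⟨⟨0, 1, 1⟩, ⟨98, 99, 147⟩, ⟨300, 625, 10000⟩, ⟨1500, 1850, 1000⟩⟩ (yB1.hWU false) :=
  posD_of_check (c := ⟨291, ⟨3, 8, 10, 3⟩⟩) (by decide +kernel)

def yB1_wU0b : PosD ⟨⟨0, 1, 1⟩, ⟨98, 99, 147⟩, ⟨300, 625, 10000⟩, ⟨1850, 2200, 1000⟩⟩ (yB1.hWU false) :=
  posD_of_check (c := ⟨291, ⟨3, 8, 10, 3⟩⟩) (by decide +kernel)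

def yB1_wU0 : PosD ⟨⟨0, 1, 1⟩, ⟨98, 99, 147⟩, ⟨300, 625, 10000⟩, ⟨1500, 2200, 1000⟩⟩ (yB1.hWU false) :=
  posD_join₃ yB1_wU0a yB1_wU0b

def yB1_wL0 : PosD ⟨⟨0, 1, 1⟩, ⟨98, 99, 147⟩, ⟨300, 625, 10000⟩, ⟨1500, 2200, 1000⟩⟩ (yB1.hWL false) :=
  posD_of_check (c := ⟨291, ⟨3, 8, 10, 3⟩⟩) (by decide +kernel)

def yB1_ev1 : PosD ⟨⟨0, 1, 1⟩, ⟨98, 99, 147⟩, ⟨300, 625, 10000⟩, ⟨1500, 2200, 1000⟩⟩ (yB1.hEv true) :=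
  posD_of_check (c := ⟨120, ⟨2, 2, 6, 1⟩⟩) (by decide +kernel)

def yB1_zL1 : PosD ⟨⟨0, 1, 1⟩, ⟨98, 99, 147⟩, ⟨300, 625, 10000⟩, ⟨1500, 2200, 1000⟩⟩ (yB1.hZL true) :=
  posD_of_check (c := ⟨134, ⟨2, 3, 6, 3⟩⟩) (by decide +kernel)

def yB1_zU1 : PosD ⟨⟨0, 1, 1⟩, ⟨98, 99, 147⟩, ⟨300, 625, 10000⟩, ⟨1500, 2200, 1000⟩⟩ (yB1.hZU true) :=
  posD_of_check (c := ⟨134, ⟨2, 3, 6, 3⟩⟩) (by decide +kernel)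

def yB1_eL1 : PosD ⟨⟨0, 1, 1⟩, ⟨98, 99, 147⟩, ⟨300, 625, 10000⟩, ⟨1500, 2200, 1000⟩⟩ (yB1.hEL true) :=
  posD_of_check (c := ⟨213, ⟨3, 6, 9, 3⟩⟩) (by decide +kernel)

def yB1_eH1 : PosD ⟨⟨0, 1, 1⟩, ⟨98, 99, 147⟩, ⟨300, 625, 10000⟩, ⟨1500, 2200, 1000⟩⟩ (yB1.hEH true) :=
  posD_of_check (c := ⟨227, ⟨3, 6, 9, 3⟩⟩) (by decide +kernel)

def yB1_pL1a : PosD ⟨⟨0, 1, 1⟩, ⟨98, 99, 147⟩, ⟨300, 462, 10000⟩, ⟨1500, 2200, 1000⟩⟩ (yB1.hPL true) :=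
  posD_of_check (c := ⟨232, ⟨3, 6, 9, 3⟩⟩) (by decide +kernel)

def yB1_pL1ba : PosD ⟨⟨0, 1, 1⟩, ⟨98, 99, 147⟩, ⟨462, 625, 10000⟩, ⟨1500, 1850, 1000⟩⟩ (yB1.hPL true) :=
  posD_of_check (c := ⟨232, ⟨3, 6, 9, 3⟩⟩) (by decide +kernel)

def yB1_pL1bb : PosD ⟨⟨0, 1, 1⟩, ⟨98, 99, 147⟩, ⟨462, 625, 10000⟩, ⟨1850, 2200, 1000⟩⟩ (yB1.hPL true) :=
  posD_of_check (c := ⟨232, ⟨3, 6, 9, 3⟩⟩) (by decide +kernel)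

def yB1_pL1b : PosD ⟨⟨0, 1, 1⟩, ⟨98, 99, 147⟩, ⟨462, 625, 10000⟩, ⟨1500, 2200, 1000⟩⟩ (yB1.hPL true) :=
  posD_join₃ yB1_pL1ba yB1_pL1bb

def yB1_pL1 : PosD ⟨⟨0, 1, 1⟩, ⟨98, 99, 147⟩, ⟨300, 625, 10000⟩, ⟨1500, 2200, 1000⟩⟩ (yB1.hPL true) :=
  posD_join₂ yB1_pL1a yB1_pL1b

def yB1_pU1a : PosD ⟨⟨0, 1, 1⟩, ⟨98, 99, 147⟩, ⟨300, 625, 10000⟩, ⟨1500, 1850, 1000⟩⟩ (yB1.hPU true) :=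
  posD_of_check (c := ⟨231, ⟨3, 6, 9, 3⟩⟩) (by decide +kernel)

def yB1_pU1b : PosD ⟨⟨0, 1, 1⟩, ⟨98, 99, 147⟩, ⟨300, 625, 10000⟩, ⟨1850, 2200, 1000⟩⟩ (yB1.hPU true) :=
  posD_of_check (c := ⟨231, ⟨3, 6, 9, 3⟩⟩) (by decide +kernel)

def yB1_pU1 : PosD ⟨⟨0, 1, 1⟩, ⟨98, 99, 147⟩, ⟨300, 625, 10000⟩, ⟨1500, 2200, 1000⟩⟩ (yB1.hPU true) :=
  posD_join₃ yB1_pU1a yB1_pU1b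

def yB1_kU1 : PosD ⟨⟨0, 1, 1⟩, ⟨98, 99, 147⟩, ⟨300, 625, 10000⟩, ⟨1500, 2200, 1000⟩⟩ (yB1.hKU true) :=
  posD_of_check (c := ⟨226, ⟨3, 6, 9, 3⟩⟩) (by decide +kernel)

def yB1_kL1a : PosD ⟨⟨0, 1, 1⟩, ⟨98, 99, 147⟩, ⟨300, 462, 10000⟩, ⟨1500, 2200, 1000⟩⟩ (yB1.hKL true) :=
  posD_of_check (c := ⟨226, ⟨3, 6, 9, 3⟩⟩) (by decide +kernel)

def yB1_kL1b : PosD ⟨⟨0, 1, 1⟩, ⟨98, 99, 147⟩, ⟨462, 625, 10000⟩, ⟨1500, 2200, 1000⟩⟩ (yB1.hKL true) :=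
  posD_of_check (c := ⟨226, ⟨3, 6, 9, 3⟩⟩) (by decide +kernel)

def yB1_kL1 : PosD ⟨⟨0, 1, 1⟩, ⟨98, 99, 147⟩, ⟨300, 625, 10000⟩, ⟨1500, 2200, 1000⟩⟩ (yB1.hKL true) :=
  posD_join₂ yB1_kL1a yB1_kL1b

def yB1_wU1 : PosD ⟨⟨0, 1, 1⟩, ⟨98, 99, 147⟩, ⟨300, 625, 10000⟩, ⟨1500, 2200, 1000⟩⟩ (yB1.hWU true) :=
  posD_of_check (c := ⟨261, ⟨3, 8, 10, 3⟩⟩) (by decide +kernel)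

def yB1_wL1a : PosD ⟨⟨0, 1, 1⟩, ⟨98, 99, 147⟩, ⟨300, 625, 10000⟩, ⟨1500, 1850, 1000⟩⟩ (yB1.hWL true) :=
  posD_of_check (c := ⟨261, ⟨3, 8, 10, 3⟩⟩) (by decide +kernel)

def yB1_wL1b : PosD ⟨⟨0, 1, 1⟩, ⟨98, 99, 147⟩, ⟨300, 625, 10000⟩, ⟨1850, 2200, 1000⟩⟩ (yB1.hWL true) :=
  posD_of_check (c := ⟨261, ⟨3, 8, 10, 3⟩⟩) (by decide +kernel)

def yB1_wL1 : PosD ⟨⟨0, 1, 1⟩, ⟨98, 99, 147⟩, ⟨300, 625, 10000⟩, ⟨1500, 2200, 1000⟩⟩ (yB1.hWL true) :=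
  posD_join₃ yB1_wL1a yB1_wL1b

def yB1_mueH : PosD ⟨⟨0, 1, 1⟩, ⟨98, 99, 147⟩, ⟨300, 625, 10000⟩, ⟨1500, 2200, 1000⟩⟩ (yB1.eH.μ) :=
  posD_of_check (c := ⟨13, ⟨0, 0, 0, 0⟩⟩) (by decide +kernel)

def yB1_muwU : PosD ⟨⟨0, 1, 1⟩, ⟨98, 99, 147⟩, ⟨300, 625, 10000⟩, ⟨1500, 2200, 1000⟩⟩ (yB1.wU.μ) :=
  posD_of_check (c := ⟨11, ⟨0, 0, 0, 0⟩⟩) (by decide +kernel)

/-- The bounds of the piece. -/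
def yB1_env : yB1.Env ⟨⟨0, 1, 1⟩, ⟨98, 99, 147⟩, ⟨300, 625, 10000⟩, ⟨1500, 2200, 1000⟩⟩ :=
  ⟨yB1_p0, Bool.forall_bool.2 ⟨yB1_den0, yB1_den1⟩, yB1_gn, Bool.forall_bool.2 ⟨yB1_ev0, yB1_ev1⟩, Bool.forall_bool.2 ⟨yB1_zL0, yB1_zL1⟩, Bool.forall_bool.2 ⟨yB1_zU0, yB1_zU1⟩, Bool.forall_bool.2 ⟨yB1_eL0, yB1_eL1⟩, ⟨.inr rfl, .inr rfl⟩, Bool.forall_bool.2 ⟨yB1_eH0, yB1_eH1⟩, ⟨.inl yB1_mueH, .inr rfl⟩, Bool.forall_bool.2 ⟨yB1_pL0, yB1_pL1⟩, ⟨.inr rfl, .inr rfl⟩, Bool.forall_bool.2 ⟨yB1_pU0, yB1_pU1⟩, ⟨.inr rfl, .inr rfl⟩, Bool.forall_bool.2 ⟨yB1_kU0, yB1_kU1⟩, ⟨.inr rfl, .inr rfl⟩, Bool.forall_bool.2 ⟨yB1_kL0, yB1_kL1⟩, ⟨.inr rfl, .inr rfl⟩, Bool.forall_bool.2 ⟨yB1_wU0, yB1_wU1⟩, ⟨.inl yB1_muwU, .inr rfl⟩, Bool.forall_bool.2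 ⟨yB1_wL0, yB1_wL1⟩, ⟨.inr rfl, .inr rfl⟩⟩

def yB1_pp : PosD ⟨⟨0, 1, 1⟩, ⟨98, 99, 147⟩, ⟨300, 625, 10000⟩, ⟨1500, 2200, 1000⟩⟩ (yB1.xPL) :=
  posD_of_check (c := ⟨92, ⟨1, 1, 3, 3⟩⟩) (by decide +kernel)

def yB1_k2p : PosD ⟨⟨0, 1, 1⟩, ⟨98, 99, 147⟩, ⟨300, 625, 10000⟩, ⟨1500, 2200, 1000⟩⟩ (yB1.k2p yB1.xE) :=
  posD_of_check (c := ⟨63, ⟨1, 1, 2, 2⟩⟩) (by decide +kernel)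

def yB1_k2m : PosD ⟨⟨0, 1, 1⟩, ⟨98, 99, 147⟩, ⟨300, 625, 10000⟩, ⟨1500, 2200, 1000⟩⟩ (yB1.k2m yB1.xE) :=
  posD_of_check (c := ⟨64, ⟨1, 1, 2, 2⟩⟩) (by decide +kernel)

def yB1_v2p : PosD ⟨⟨0, 1, 1⟩, ⟨98, 99, 147⟩, ⟨300, 625, 10000⟩, ⟨1500, 2200, 1000⟩⟩ (yB1.hV2p) :=
  posD_of_check (c := ⟨256, ⟨1, 6, 10, 5⟩⟩) (by decide +kernel)

def yB1_v2m : PosD ⟨⟨0, 1, 1⟩, ⟨98, 99, 147⟩, ⟨300, 625, 10000⟩, ⟨1500, 2200, 1000⟩⟩ (yB1.hV2m) :=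
  posD_of_check (c := ⟨257, ⟨1, 6, 10, 5⟩⟩) (by decide +kernel)

def yB1_v3p : PosD ⟨⟨0, 1, 1⟩, ⟨98, 99, 147⟩, ⟨300, 625, 10000⟩, ⟨1500, 2200, 1000⟩⟩ (yB1.hV3p) :=
  posD_of_check (c := ⟨247, ⟨1, 6, 9, 5⟩⟩) (by decide +kernel)

def yB1_v3m : PosD ⟨⟨0, 1, 1⟩, ⟨98, 99, 147⟩, ⟨300, 625, 10000⟩, ⟨1500, 2200, 1000⟩⟩ (yB1.hV3m) :=
  posD_of_check (c := ⟨247, ⟨1, 6, 9, 5⟩⟩) (by decide +kernel)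

def yB1_kap0 : PosD ⟨⟨0, 1, 1⟩, ⟨98, 99, 147⟩, ⟨300, 625, 10000⟩, ⟨1500, 2200, 1000⟩⟩ (yB1.kap false) :=
  posD_of_check (c := ⟨69, ⟨1, 1, 2, 2⟩⟩) (by decide +kernel)

def yB1_c10 : PosD ⟨⟨0, 1, 1⟩, ⟨98, 99, 147⟩, ⟨300, 625, 10000⟩, ⟨1500, 2200, 1000⟩⟩ (yB1.hC1 false) :=
  posD_of_check (c := ⟨264, ⟨3, 5, 9, 7⟩⟩) (by decide +kernel)

def yB1_c1h0a : PosD ⟨⟨0, 1, 1⟩, ⟨98, 99, 147⟩, ⟨300, 462, 10000⟩, ⟨1500, 2200, 1000⟩⟩ (yB1.hC1' false) :=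
  posD_of_check (c := ⟨264, ⟨3, 5, 9, 7⟩⟩) (by decide +kernel)

def yB1_c1h0b : PosD ⟨⟨0, 1, 1⟩, ⟨98, 99, 147⟩, ⟨462, 625, 10000⟩, ⟨1500, 2200, 1000⟩⟩ (yB1.hC1' false) :=
  posD_of_check (c := ⟨265, ⟨3, 5, 9, 7⟩⟩) (by decide +kernel)

def yB1_c1h0 : PosD ⟨⟨0, 1, 1⟩, ⟨98, 99, 147⟩, ⟨300, 625, 10000⟩, ⟨1500, 2200, 1000⟩⟩ (yB1.hC1' false) :=
  posD_join₂ yB1_c1h0a yB1_c1h0b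

def yB1_tg00 : PosD ⟨⟨0, 1, 1⟩, ⟨98, 99, 147⟩, ⟨300, 625, 10000⟩, ⟨1500, 2200, 1000⟩⟩ (yB1.hG false (yB1.pEnd false)) :=
  posD_of_check (c := ⟨373, ⟨2, 7, 14, 9⟩⟩) (by decide +kernel)

def yB1_c2p00 : PosD ⟨⟨0, 1, 1⟩, ⟨98, 99, 147⟩, ⟨300, 625, 10000⟩, ⟨1500, 2200, 1000⟩⟩ (yB1.hC2p false (yB1.pEnd false)) :=
  posD_of_check (c := ⟨436, ⟨3, 8, 16, 11⟩⟩) (by decide +kernel)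

def yB1_c2m00 : PosD ⟨⟨0, 1, 1⟩, ⟨98, 99, 147⟩, ⟨300, 625, 10000⟩, ⟨1500, 2200, 1000⟩⟩ (yB1.hC2m false (yB1.pEnd false)) :=
  posD_of_check (c := ⟨436, ⟨3, 8, 16, 11⟩⟩) (by decide +kernel)

def yB1_c3p00 : PosD ⟨⟨0, 1, 1⟩, ⟨98, 99, 147⟩, ⟨300, 625, 10000⟩, ⟨1500, 2200, 1000⟩⟩ (yB1.hC3p false false) :=
  posD_of_check (c := ⟨429, ⟨3, 8, 15, 11⟩⟩) (by decide +kernel)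

def yB1_c3m00 : PosD ⟨⟨0, 1, 1⟩, ⟨98, 99, 147⟩, ⟨300, 625, 10000⟩, ⟨1500, 2200, 1000⟩⟩ (yB1.hC3m false false) :=
  posD_of_check (c := ⟨429, ⟨3, 8, 15, 11⟩⟩) (by decide +kernel)

def yB1_c3ph00 : PosD ⟨⟨0, 1, 1⟩, ⟨98, 99, 147⟩, ⟨300, 625, 10000⟩, ⟨1500, 2200, 1000⟩⟩ (yB1.hC3p' false false) :=
  posD_of_check (c := ⟨429, ⟨3, 8, 15, 11⟩⟩) (by decide +kernel)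

def yB1_c3mh00 : PosD ⟨⟨0, 1, 1⟩, ⟨98, 99, 147⟩, ⟨300, 625, 10000⟩, ⟨1500, 2200, 1000⟩⟩ (yB1.hC3m' false false) :=
  posD_of_check (c := ⟨429, ⟨3, 8, 15, 11⟩⟩) (by decide +kernel)

def yB1_up00 : PosD ⟨⟨0, 1, 1⟩, ⟨98, 99, 147⟩, ⟨300, 625, 10000⟩, ⟨1500, 2200, 1000⟩⟩ (yB1.hUp false false) :=
  posD_of_check (c := ⟨427, ⟨3, 8, 15, 11⟩⟩) (by decide +kernel)

def yB1_um00 : PosD ⟨⟨0, 1, 1⟩, ⟨98, 99, 147⟩, ⟨300, 625, 10000⟩, ⟨1500, 2200, 1000⟩⟩ (yB1.hUm false false) :=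
  posD_of_check (c := ⟨427, ⟨3, 8, 15, 11⟩⟩) (by decide +kernel)

def yB1_tmg00 : PosD ⟨⟨0, 1, 1⟩, ⟨98, 99, 147⟩, ⟨300, 625, 10000⟩, ⟨1500, 2200, 1000⟩⟩ (yB1.hTMG false (yB1.pEnd false)) :=
  posD_of_check (c := ⟨386, ⟨2, 7, 14, 10⟩⟩) (by decide +kernel)

def yB1_tg01 : PosD ⟨⟨0, 1, 1⟩, ⟨98, 99, 147⟩, ⟨300, 625, 10000⟩, ⟨1500, 2200, 1000⟩⟩ (yB1.hG true (yB1.pEnd false)) :=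
  posD_of_check (c := ⟨373, ⟨2, 7, 14, 9⟩⟩) (by decide +kernel)

def yB1_c2p01 : PosD ⟨⟨0, 1, 1⟩, ⟨98, 99, 147⟩, ⟨300, 625, 10000⟩, ⟨1500, 2200, 1000⟩⟩ (yB1.hC2p true (yB1.pEnd false)) :=
  posD_of_check (c := ⟨436, ⟨3, 8, 16, 11⟩⟩) (by decide +kernel)

def yB1_c2m01 : PosD ⟨⟨0, 1, 1⟩, ⟨98, 99, 147⟩, ⟨300, 625, 10000⟩, ⟨1500, 2200, 1000⟩⟩ (yB1.hC2m true (yB1.pEnd false)) :=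
  posD_of_check (c := ⟨436, ⟨3, 8, 16, 11⟩⟩) (by decide +kernel)

def yB1_c3p01 : PosD ⟨⟨0, 1, 1⟩, ⟨98, 99, 147⟩, ⟨300, 625, 10000⟩, ⟨1500, 2200, 1000⟩⟩ (yB1.hC3p false true) :=
  posD_of_check (c := ⟨429, ⟨3, 8, 15, 11⟩⟩) (by decide +kernel)

def yB1_c3m01 : PosD ⟨⟨0, 1, 1⟩, ⟨98, 99, 147⟩, ⟨300, 625, 10000⟩, ⟨1500, 2200, 1000⟩⟩ (yB1.hC3m false true) :=
  posD_of_check (c := ⟨429, ⟨3, 8, 15, 11⟩⟩) (by decide +kernel)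

def yB1_c3ph01 : PosD ⟨⟨0, 1, 1⟩, ⟨98, 99, 147⟩, ⟨300, 625, 10000⟩, ⟨1500, 2200, 1000⟩⟩ (yB1.hC3p' false true) :=
  posD_of_check (c := ⟨429, ⟨3, 8, 15, 11⟩⟩) (by decide +kernel)

def yB1_c3mh01 : PosD ⟨⟨0, 1, 1⟩, ⟨98, 99, 147⟩, ⟨300, 625, 10000⟩, ⟨1500, 2200, 1000⟩⟩ (yB1.hC3m' false true) :=
  posD_of_check (c := ⟨429, ⟨3, 8, 15, 11⟩⟩) (by decide +kernel)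

def yB1_up01 : PosD ⟨⟨0, 1, 1⟩, ⟨98, 99, 147⟩, ⟨300, 625, 10000⟩, ⟨1500, 2200, 1000⟩⟩ (yB1.hUp false true) :=
  posD_of_check (c := ⟨427, ⟨3, 8, 15, 11⟩⟩) (by decide +kernel)

def yB1_um01 : PosD ⟨⟨0, 1, 1⟩, ⟨98, 99, 147⟩, ⟨300, 625, 10000⟩, ⟨1500, 2200, 1000⟩⟩ (yB1.hUm false true) :=
  posD_of_check (c := ⟨427, ⟨3, 8, 15, 11⟩⟩) (by decide +kernel)

def yB1_tmg01 : PosD ⟨⟨0, 1, 1⟩, ⟨98, 99, 147⟩, ⟨300, 625, 10000⟩, ⟨1500, 2200, 1000⟩⟩ (yB1.hTMG true (yB1.pEnd false)) :=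
  posD_of_check (c := ⟨386, ⟨2, 7, 14, 10⟩⟩) (by decide +kernel)

def yB1_kap1 : PosD ⟨⟨0, 1, 1⟩, ⟨98, 99, 147⟩, ⟨300, 625, 10000⟩, ⟨1500, 2200, 1000⟩⟩ (yB1.kap true) :=
  posD_of_check (c := ⟨69, ⟨1, 1, 2, 2⟩⟩) (by decide +kernel)

def yB1_c11a : PosD ⟨⟨0, 1, 1⟩, ⟨98, 99, 147⟩, ⟨300, 462, 10000⟩, ⟨1500, 2200, 1000⟩⟩ (yB1.hC1 true) :=
  posD_of_check (c := ⟨264, ⟨3, 5, 9, 7⟩⟩) (by decide +kernel)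

def yB1_c11b : PosD ⟨⟨0, 1, 1⟩, ⟨98, 99, 147⟩, ⟨462, 625, 10000⟩, ⟨1500, 2200, 1000⟩⟩ (yB1.hC1 true) :=
  posD_of_check (c := ⟨264, ⟨3, 5, 9, 7⟩⟩) (by decide +kernel)

def yB1_c11 : PosD ⟨⟨0, 1, 1⟩, ⟨98, 99, 147⟩, ⟨300, 625, 10000⟩, ⟨1500, 2200, 1000⟩⟩ (yB1.hC1 true) :=
  posD_join₂ yB1_c11a yB1_c11b

def yB1_c1h1 : PosD ⟨⟨0, 1, 1⟩, ⟨98, 99, 147⟩, ⟨300, 625, 10000⟩, ⟨1500, 2200, 1000⟩⟩ (yB1.hC1' true) :=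
  posD_of_check (c := ⟨264, ⟨3, 5, 9, 7⟩⟩) (by decide +kernel)

def yB1_tg10 : PosD ⟨⟨0, 1, 1⟩, ⟨98, 99, 147⟩, ⟨300, 625, 10000⟩, ⟨1500, 2200, 1000⟩⟩ (yB1.hG false (yB1.pEnd true)) :=
  posD_of_check (c := ⟨372, ⟨2, 7, 14, 9⟩⟩) (by decide +kernel)

def yB1_c2p10 : PosD ⟨⟨0, 1, 1⟩, ⟨98, 99, 147⟩, ⟨300, 625, 10000⟩, ⟨1500, 2200, 1000⟩⟩ (yB1.hC2p false (yB1.pEnd true)) :=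
  posD_of_check (c := ⟨435, ⟨3, 8, 16, 11⟩⟩) (by decide +kernel)

def yB1_c2m10 : PosD ⟨⟨0, 1, 1⟩, ⟨98, 99, 147⟩, ⟨300, 625, 10000⟩, ⟨1500, 2200, 1000⟩⟩ (yB1.hC2m false (yB1.pEnd true)) :=
  posD_of_check (c := ⟨436, ⟨3, 8, 16, 11⟩⟩) (by decide +kernel)

def yB1_c3p10 : PosD ⟨⟨0, 1, 1⟩, ⟨98, 99, 147⟩, ⟨300, 625, 10000⟩, ⟨1500, 2200, 1000⟩⟩ (yB1.hC3p true false) :=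
  posD_of_check (c := ⟨429, ⟨3, 8, 15, 11⟩⟩) (by decide +kernel)

def yB1_c3m10 : PosD ⟨⟨0, 1, 1⟩, ⟨98, 99, 147⟩, ⟨300, 625, 10000⟩, ⟨1500, 2200, 1000⟩⟩ (yB1.hC3m true false) :=
  posD_of_check (c := ⟨429, ⟨3, 8, 15, 11⟩⟩) (by decide +kernel)

def yB1_c3ph10 : PosD ⟨⟨0, 1, 1⟩, ⟨98, 99, 147⟩, ⟨300, 625, 10000⟩, ⟨1500, 2200, 1000⟩⟩ (yB1.hC3p' true false) :=
  posD_of_check (c := ⟨429, ⟨3, 8, 15, 11⟩⟩) (by decide +kernel)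

def yB1_c3mh10 : PosD ⟨⟨0, 1, 1⟩, ⟨98, 99, 147⟩, ⟨300, 625, 10000⟩, ⟨1500, 2200, 1000⟩⟩ (yB1.hC3m' true false) :=
  posD_of_check (c := ⟨429, ⟨3, 8, 15, 11⟩⟩) (by decide +kernel)

def yB1_up10 : PosD ⟨⟨0, 1, 1⟩, ⟨98, 99, 147⟩, ⟨300, 625, 10000⟩, ⟨1500, 2200, 1000⟩⟩ (yB1.hUp true false) :=
  posD_of_check (c := ⟨426, ⟨3, 8, 15, 11⟩⟩) (by decide +kernel)

def yB1_um10 : PosD ⟨⟨0, 1, 1⟩, ⟨98, 99, 147⟩, ⟨300, 625, 10000⟩, ⟨1500, 2200, 1000⟩⟩ (yB1.hUm true false) :=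
  posD_of_check (c := ⟨426, ⟨3, 8, 15, 11⟩⟩) (by decide +kernel)

def yB1_tmg10 : PosD ⟨⟨0, 1, 1⟩, ⟨98, 99, 147⟩, ⟨300, 625, 10000⟩, ⟨1500, 2200, 1000⟩⟩ (yB1.hTMG false (yB1.pEnd true)) :=
  posD_of_check (c := ⟨385, ⟨2, 7, 14, 10⟩⟩) (by decide +kernel)

def yB1_tg11 : PosD ⟨⟨0, 1, 1⟩, ⟨98, 99, 147⟩, ⟨300, 625, 10000⟩, ⟨1500, 2200, 1000⟩⟩ (yB1.hG true (yB1.pEnd true)) :=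
  posD_of_check (c := ⟨372, ⟨2, 7, 14, 9⟩⟩) (by decide +kernel)

def yB1_c2p11 : PosD ⟨⟨0, 1, 1⟩, ⟨98, 99, 147⟩, ⟨300, 625, 10000⟩, ⟨1500, 2200, 1000⟩⟩ (yB1.hC2p true (yB1.pEnd true)) :=
  posD_of_check (c := ⟨435, ⟨3, 8, 16, 11⟩⟩) (by decide +kernel)

def yB1_c2m11 : PosD ⟨⟨0, 1, 1⟩, ⟨98, 99, 147⟩, ⟨300, 625, 10000⟩, ⟨1500, 2200, 1000⟩⟩ (yB1.hC2m true (yB1.pEnd true)) :=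
  posD_of_check (c := ⟨436, ⟨3, 8, 16, 11⟩⟩) (by decide +kernel)

def yB1_c3p11 : PosD ⟨⟨0, 1, 1⟩, ⟨98, 99, 147⟩, ⟨300, 625, 10000⟩, ⟨1500, 2200, 1000⟩⟩ (yB1.hC3p true true) :=
  posD_of_check (c := ⟨429, ⟨3, 8, 15, 11⟩⟩) (by decide +kernel)

def yB1_c3m11 : PosD ⟨⟨0, 1, 1⟩, ⟨98, 99, 147⟩, ⟨300, 625, 10000⟩, ⟨1500, 2200, 1000⟩⟩ (yB1.hC3m true true) :=
  posD_of_check (c := ⟨429, ⟨3, 8, 15, 11⟩⟩) (by decide +kernel)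

def yB1_c3ph11 : PosD ⟨⟨0, 1, 1⟩, ⟨98, 99, 147⟩, ⟨300, 625, 10000⟩, ⟨1500, 2200, 1000⟩⟩ (yB1.hC3p' true true) :=
  posD_of_check (c := ⟨429, ⟨3, 8, 15, 11⟩⟩) (by decide +kernel)

def yB1_c3mh11 : PosD ⟨⟨0, 1, 1⟩, ⟨98, 99, 147⟩, ⟨300, 625, 10000⟩, ⟨1500, 2200, 1000⟩⟩ (yB1.hC3m' true true) :=
  posD_of_check (c := ⟨429, ⟨3, 8, 15, 11⟩⟩) (by decide +kernel)

def yB1_up11 : PosD ⟨⟨0, 1, 1⟩, ⟨98, 99, 147⟩, ⟨300, 625, 10000⟩, ⟨1500, 2200, 1000⟩⟩ (yB1.hUp true true) :=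
  posD_of_check (c := ⟨426, ⟨3, 8, 15, 11⟩⟩) (by decide +kernel)

def yB1_um11 : PosD ⟨⟨0, 1, 1⟩, ⟨98, 99, 147⟩, ⟨300, 625, 10000⟩, ⟨1500, 2200, 1000⟩⟩ (yB1.hUm true true) :=
  posD_of_check (c := ⟨426, ⟨3, 8, 15, 11⟩⟩) (by decide +kernel)

def yB1_tmg11 : PosD ⟨⟨0, 1, 1⟩, ⟨98, 99, 147⟩, ⟨300, 625, 10000⟩, ⟨1500, 2200, 1000⟩⟩ (yB1.hTMG true (yB1.pEnd true)) :=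
  posD_of_check (c := ⟨385, ⟨2, 7, 14, 10⟩⟩) (by decide +kernel)

/-- The signs of the piece. -/
def yB1_sign : yB1.Sign ⟨⟨0, 1, 1⟩, ⟨98, 99, 147⟩, ⟨300, 625, 10000⟩, ⟨1500, 2200, 1000⟩⟩ :=
  ⟨yB1_pp,
    yB1_k2p,
    yB1_k2m,
    Bool.forall_bool.2 ⟨(Bool.forall_bool.2 ⟨yB1_tg00, yB1_tg01⟩), (Bool.forall_bool.2 ⟨yB1_tg10, yB1_tg11⟩)⟩,
    Bool.forall_bool.2 ⟨(Bool.forall_bool.2 ⟨yB1_c2p00, yB1_c2p01⟩), (Bool.forall_bool.2 ⟨yB1_c2p10, yB1_c2p11⟩)⟩,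
    Bool.forall_bool.2 ⟨(Bool.forall_bool.2 ⟨yB1_c2m00, yB1_c2m01⟩), (Bool.forall_bool.2 ⟨yB1_c2m10, yB1_c2m11⟩)⟩,
    Bool.forall_bool.2 ⟨yB1_kap0, yB1_kap1⟩,
    Bool.forall_bool.2 ⟨yB1_c10, yB1_c11⟩,
    Bool.forall_bool.2 ⟨(Bool.forall_bool.2 ⟨yB1_c3p00, yB1_c3p01⟩), (Bool.forall_bool.2 ⟨yB1_c3p10, yB1_c3p11⟩)⟩,
    Bool.forall_bool.2 ⟨(Bool.forall_bool.2 ⟨yB1_c3m00, yB1_c3m01⟩), (Bool.forall_bool.2 ⟨yB1_c3m10, yB1_c3m11⟩)⟩,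
    Bool.forall_bool.2 ⟨(Bool.forall_bool.2 ⟨yB1_tmg00, yB1_tmg01⟩), (Bool.forall_bool.2 ⟨yB1_tmg10, yB1_tmg11⟩)⟩,
    .inr (Bool.forall_bool.2 ⟨⟨yB1_c1h0, Bool.forall_bool.2 ⟨⟨yB1_c3ph00, yB1_c3mh00, yB1_up00, yB1_um00⟩, ⟨yB1_c3ph01, yB1_c3mh01, yB1_up01, yB1_um01⟩⟩⟩, ⟨yB1_c1h1, Bool.forall_bool.2 ⟨⟨yB1_c3ph10, yB1_c3mh10, yB1_up10, yB1_um10⟩, ⟨yB1_c3ph11, yB1_c3mh11, yB1_up11, yB1_um11⟩⟩⟩⟩),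
    yB1_v2p,
    yB1_v2m,
    yB1_v3p,
    yB1_v3m,
    posD_sub (b := ⟨⟨0, 1, 1⟩, ⟨98, 99, 147⟩, ⟨300, 625, 10000⟩, ⟨1020, 4000, 1000⟩⟩) (by decide +kernel) yB_vG,
    posD_sub (b := ⟨⟨0, 1, 1⟩, ⟨98, 99, 147⟩, ⟨300, 625, 10000⟩, ⟨1020, 4000, 1000⟩⟩) (by decide +kernel) yB_vMG,
    posD_sub (b := ⟨⟨0, 1, 1⟩, ⟨98, 99, 147⟩, ⟨300, 625, 10000⟩, ⟨1020, 4000, 1000⟩⟩) (by decide +kernel) yB_ak,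
    posD_sub (b := ⟨⟨0, 1, 1⟩, ⟨98, 99, 147⟩, ⟨300, 625, 10000⟩, ⟨1020, 4000, 1000⟩⟩) (by decide +kernel) yB_aw,
    posD_sub (b := ⟨⟨0, 1, 1⟩, ⟨98, 99, 147⟩, ⟨300, 625, 10000⟩, ⟨1020, 4000, 1000⟩⟩) (by decide +kernel) yB_gk,
    posD_sub (b := ⟨⟨0, 1, 1⟩, ⟨98, 99, 147⟩, ⟨300, 625, 10000⟩, ⟨1020, 4000, 1000⟩⟩) (by decide +kernel) yB_gw,
    posD_sub (b := ⟨⟨0, 1, 1⟩, ⟨98, 99, 147⟩, ⟨300, 625, 10000⟩, ⟨1020, 4000, 1000⟩⟩) (by decide +kernel) yB_ek,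
    posD_sub (b := ⟨⟨0, 1, 1⟩, ⟨98, 99, 147⟩, ⟨300, 625, 10000⟩, ⟨1020, 4000, 1000⟩⟩) (by decide +kernel) yB_ew⟩

end Vale.Agent.P100.Calib.Closed.Six.Tail
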