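import Vale.Agent.P100.Calib.SlabSixTailDataLayerB
import Vale.Agent.P100.Calib.SlabSixTailGlobLayerB

/-!
# Checks of some pieces of the certificate

The checks are written as definitions so that they run one after another, which keeps the memory of the
kernel low.
-/

set_option linter.defProp false

namespace Vale.Agent.P100.Calib.Closed.Six.Tail

open BoxPos Large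

local instance sixTailChecksyB2Add : Add Ex := ⟨Ex.add⟩
local instance sixTailChecksyB2Sub : Sub Ex := ⟨Ex.sub⟩
local instance sixTailChecksyB2Mul : Mul Ex := ⟨Ex.mul⟩

def yB2_p0 : PosD ⟨⟨0, 1, 1⟩, ⟨98, 99, 147⟩, ⟨300, 625, 10000⟩, ⟨2200, 3000, 1000⟩⟩ (yB2.hP0) :=
  posD_of_check (c := ⟨82, ⟨0, 2, 3, 1⟩⟩) (by decide +kernel)

def yB2_gn : PosD ⟨⟨0, 1, 1⟩, ⟨98, 99, 147⟩, ⟨300, 625, 10000⟩, ⟨2200, 3000, 1000⟩⟩ (yB2.hGn) :=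
  posD_of_check (c := ⟨58, ⟨1, 1, 2, 1⟩⟩) (by decide +kernel)

def yB2_den0 : PosD ⟨⟨0, 1, 1⟩, ⟨98, 99, 147⟩, ⟨300, 625, 10000⟩, ⟨2200, 3000, 1000⟩⟩ (yB2.hDen false) :=
  posD_of_check (c := ⟨45, ⟨0, 0, 2, 0⟩⟩) (by decide +kernel)

def yB2_den1 : PosD ⟨⟨0, 1, 1⟩, ⟨98, 99, 147⟩, ⟨300, 625, 10000⟩, ⟨2200, 3000, 1000⟩⟩ (yB2.hDen true) :=
  posD_of_check (c := ⟨145, ⟨3, 4, 6, 1⟩⟩) (by decide +kernel)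

def yB2_ev0 : PosD ⟨⟨0, 1, 1⟩, ⟨98, 99, 147⟩, ⟨300, 625, 10000⟩, ⟨2200, 3000, 1000⟩⟩ (yB2.hEv false) :=
  posD_of_check (c := ⟨149, ⟨2, 2, 6, 1⟩⟩) (by decide +kernel)

def yB2_zL0 : PosD ⟨⟨0, 1, 1⟩, ⟨98, 99, 147⟩, ⟨300, 625, 10000⟩, ⟨2200, 3000, 1000⟩⟩ (yB2.hZL false) :=
  posD_of_check (c := ⟨160, ⟨2, 3, 6, 3⟩⟩) (by decide +kernel)

def yB2_zU0a : PosD ⟨⟨0, 1, 1⟩, ⟨98, 99, 147⟩, ⟨300, 462, 10000⟩, ⟨2200, 3000, 1000⟩⟩ (yB2.hZU false) :=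
  posD_of_check (c := ⟨159, ⟨2, 3, 6, 3⟩⟩) (by decide +kernel)

def yB2_zU0b : PosD ⟨⟨0, 1, 1⟩, ⟨98, 99, 147⟩, ⟨462, 625, 10000⟩, ⟨2200, 3000, 1000⟩⟩ (yB2.hZU false) :=
  posD_of_check (c := ⟨160, ⟨2, 3, 6, 3⟩⟩) (by decide +kernel)

def yB2_zU0 : PosD ⟨⟨0, 1, 1⟩, ⟨98, 99, 147⟩, ⟨300, 625, 10000⟩, ⟨2200, 3000, 1000⟩⟩ (yB2.hZU false) :=
  posD_join₂ yB2_zU0a yB2_zU0b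

def yB2_eL0 : PosD ⟨⟨0, 1, 1⟩, ⟨98, 99, 147⟩, ⟨300, 625, 10000⟩, ⟨2200, 3000, 1000⟩⟩ (yB2.hEL false) :=
  posD_of_check (c := ⟨242, ⟨3, 6, 9, 3⟩⟩) (by decide +kernel)

def yB2_eH0 : PosD ⟨⟨0, 1, 1⟩, ⟨98, 99, 147⟩, ⟨300, 625, 10000⟩, ⟨2200, 3000, 1000⟩⟩ (yB2.hEH false) :=
  posD_of_check (c := ⟨241, ⟨3, 6, 9, 3⟩⟩) (by decide +kernel)

def yB2_pL0a : PosD ⟨⟨0, 1, 1⟩, ⟨98, 99, 147⟩, ⟨300, 625, 10000⟩, ⟨2200, 2600, 1000⟩⟩ (yB2.hPL false) :=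
  posD_of_check (c := ⟨261, ⟨3, 6, 9, 3⟩⟩) (by decide +kernel)

def yB2_pL0b : PosD ⟨⟨0, 1, 1⟩, ⟨98, 99, 147⟩, ⟨300, 625, 10000⟩, ⟨2600, 3000, 1000⟩⟩ (yB2.hPL false) :=
  posD_of_check (c := ⟨261, ⟨3, 6, 9, 3⟩⟩) (by decide +kernel)

def yB2_pL0 : PosD ⟨⟨0, 1, 1⟩, ⟨98, 99, 147⟩, ⟨300, 625, 10000⟩, ⟨2200, 3000, 1000⟩⟩ (yB2.hPL false) :=
  posD_join₃ yB2_pL0a yB2_pL0b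

def yB2_pU0 : PosD ⟨⟨0, 1, 1⟩, ⟨98, 99, 147⟩, ⟨300, 625, 10000⟩, ⟨2200, 3000, 1000⟩⟩ (yB2.hPU false) :=
  posD_of_check (c := ⟨260, ⟨3, 6, 9, 3⟩⟩) (by decide +kernel)

def yB2_kU0 : PosD ⟨⟨0, 1, 1⟩, ⟨98, 99, 147⟩, ⟨300, 625, 10000⟩, ⟨2200, 3000, 1000⟩⟩ (yB2.hKU false) :=
  posD_of_check (c := ⟨255, ⟨3, 6, 9, 3⟩⟩) (by decide +kernel)

def yB2_kL0 : PosD ⟨⟨0, 1, 1⟩, ⟨98, 99, 147⟩, ⟨300, 625, 10000⟩, ⟨2200, 3000, 1000⟩⟩ (yB2.hKL false) :=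
  posD_of_check (c := ⟨255, ⟨3, 6, 9, 3⟩⟩) (by decide +kernel)

def yB2_wU0 : PosD ⟨⟨0, 1, 1⟩, ⟨98, 99, 147⟩, ⟨300, 625, 10000⟩, ⟨2200, 3000, 1000⟩⟩ (yB2.hWU false) :=
  posD_of_check (c := ⟨291, ⟨3, 8, 10, 3⟩⟩) (by decide +kernel)

def yB2_wL0a : PosD ⟨⟨0, 1, 1⟩, ⟨98, 99, 147⟩, ⟨300, 625, 10000⟩, ⟨2200, 2600, 1000⟩⟩ (yB2.hWL false) :=
  posD_of_check (c := ⟨291, ⟨3, 8, 10, 3⟩⟩) (by decide +kernel)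

def yB2_wL0b : PosD ⟨⟨0, 1, 1⟩, ⟨98, 99, 147⟩, ⟨300, 625, 10000⟩, ⟨2600, 3000, 1000⟩⟩ (yB2.hWL false) :=
  posD_of_check (c := ⟨291, ⟨3, 8, 10, 3⟩⟩) (by decide +kernel)

def yB2_wL0 : PosD ⟨⟨0, 1, 1⟩, ⟨98, 99, 147⟩, ⟨300, 625, 10000⟩, ⟨2200, 3000, 1000⟩⟩ (yB2.hWL false) :=
  posD_join₃ yB2_wL0a yB2_wL0b

def yB2_ev1 : PosD ⟨⟨0, 1, 1⟩, ⟨98, 99, 147⟩, ⟨300, 625, 10000⟩, ⟨2200, 3000, 1000⟩⟩ (yB2.hEv true) :=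
  posD_of_check (c := ⟨226, ⟨4, 6, 9, 2⟩⟩) (by decide +kernel)

def yB2_zL1aa : PosD ⟨⟨0, 1, 1⟩, ⟨98, 99, 147⟩, ⟨300, 625, 10000⟩, ⟨2200, 2400, 1000⟩⟩ (yB2.hZL true) :=
  posD_of_check (c := ⟨258, ⟨4, 7, 10, 4⟩⟩) (by decide +kernel)

def yB2_zL1ab : PosD ⟨⟨0, 1, 1⟩, ⟨98, 99, 147⟩, ⟨300, 625, 10000⟩, ⟨2400, 2600, 1000⟩⟩ (yB2.hZL true) :=
  posD_of_check (c := ⟨258, ⟨4, 7, 10, 4⟩⟩) (by decide +kernel)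

def yB2_zL1a : PosD ⟨⟨0, 1, 1⟩, ⟨98, 99, 147⟩, ⟨300, 625, 10000⟩, ⟨2200, 2600, 1000⟩⟩ (yB2.hZL true) :=
  posD_join₃ yB2_zL1aa yB2_zL1ab

def yB2_zL1ba : PosD ⟨⟨0, 1, 1⟩, ⟨98, 99, 147⟩, ⟨300, 625, 10000⟩, ⟨2600, 2800, 1000⟩⟩ (yB2.hZL true) :=
  posD_of_check (c := ⟨258, ⟨4, 7, 10, 4⟩⟩) (by decide +kernel)

def yB2_zL1bba : PosD ⟨⟨0, 1, 1⟩, ⟨98, 99, 147⟩, ⟨300, 625, 10000⟩, ⟨2800, 2900, 1000⟩⟩ (yB2.hZL true) :=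
  posD_of_check (c := ⟨258, ⟨4, 7, 10, 4⟩⟩) (by decide +kernel)

def yB2_zL1bbb : PosD ⟨⟨0, 1, 1⟩, ⟨98, 99, 147⟩, ⟨300, 625, 10000⟩, ⟨2900, 3000, 1000⟩⟩ (yB2.hZL true) :=
  posD_of_check (c := ⟨258, ⟨4, 7, 10, 4⟩⟩) (by decide +kernel)

def yB2_zL1bb : PosD ⟨⟨0, 1, 1⟩, ⟨98, 99, 147⟩, ⟨300, 625, 10000⟩, ⟨2800, 3000, 1000⟩⟩ (yB2.hZL true) :=
  posD_join₃ yB2_zL1bba yB2_zL1bbb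

def yB2_zL1b : PosD ⟨⟨0, 1, 1⟩, ⟨98, 99, 147⟩, ⟨300, 625, 10000⟩, ⟨2600, 3000, 1000⟩⟩ (yB2.hZL true) :=
  posD_join₃ yB2_zL1ba yB2_zL1bb

def yB2_zL1 : PosD ⟨⟨0, 1, 1⟩, ⟨98, 99, 147⟩, ⟨300, 625, 10000⟩, ⟨2200, 3000, 1000⟩⟩ (yB2.hZL true) :=
  posD_join₃ yB2_zL1a yB2_zL1b

def yB2_zU1 : PosD ⟨⟨0, 1, 1⟩, ⟨98, 99, 147⟩, ⟨300, 625, 10000⟩, ⟨2200, 3000, 1000⟩⟩ (yB2.hZU true) :=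
  posD_of_check (c := ⟨257, ⟨4, 7, 10, 4⟩⟩) (by decide +kernel)

def yB2_eL1a : PosD ⟨⟨0, 1, 1⟩, ⟨98, 99, 147⟩, ⟨300, 462, 10000⟩, ⟨2200, 3000, 1000⟩⟩ (yB2.hEL true) :=
  posD_of_check (c := ⟨319, ⟨5, 10, 12, 4⟩⟩) (by decide +kernel)

def yB2_eL1b : PosD ⟨⟨0, 1, 1⟩, ⟨98, 99, 147⟩, ⟨462, 625, 10000⟩, ⟨2200, 3000, 1000⟩⟩ (yB2.hEL true) :=
  posD_of_check (c := ⟨320, ⟨5, 10, 12, 4⟩⟩) (by decide +kernel)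

def yB2_eL1 : PosD ⟨⟨0, 1, 1⟩, ⟨98, 99, 147⟩, ⟨300, 625, 10000⟩, ⟨2200, 3000, 1000⟩⟩ (yB2.hEL true) :=
  posD_join₂ yB2_eL1a yB2_eL1b

def yB2_eH1 : PosD ⟨⟨0, 1, 1⟩, ⟨98, 99, 147⟩, ⟨300, 625, 10000⟩, ⟨2200, 3000, 1000⟩⟩ (yB2.hEH true) :=
  posD_of_check (c := ⟨319, ⟨5, 10, 12, 4⟩⟩) (by decide +kernel)

def yB2_pL1 : PosD ⟨⟨0, 1, 1⟩, ⟨98, 99, 147⟩, ⟨300, 625, 10000⟩, ⟨2200, 3000, 1000⟩⟩ (yB2.hPL true) :=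
  posD_of_check (c := ⟨339, ⟨5, 10, 12, 4⟩⟩) (by decide +kernel)

def yB2_pU1 : PosD ⟨⟨0, 1, 1⟩, ⟨98, 99, 147⟩, ⟨300, 625, 10000⟩, ⟨2200, 3000, 1000⟩⟩ (yB2.hPU true) :=
  posD_of_check (c := ⟨338, ⟨5, 10, 12, 4⟩⟩) (by decide +kernel)

def yB2_kU1 : PosD ⟨⟨0, 1, 1⟩, ⟨98, 99, 147⟩, ⟨300, 625, 10000⟩, ⟨2200, 3000, 1000⟩⟩ (yB2.hKU true) :=
  posD_of_check (c := ⟨333, ⟨5, 10, 12, 4⟩⟩) (by decide +kernel)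

def yB2_kL1 : PosD ⟨⟨0, 1, 1⟩, ⟨98, 99, 147⟩, ⟨300, 625, 10000⟩, ⟨2200, 3000, 1000⟩⟩ (yB2.hKL true) :=
  posD_of_check (c := ⟨332, ⟨5, 10, 12, 4⟩⟩) (by decide +kernel)

def yB2_wU1 : PosD ⟨⟨0, 1, 1⟩, ⟨98, 99, 147⟩, ⟨300, 625, 10000⟩, ⟨2200, 3000, 1000⟩⟩ (yB2.hWU true) :=
  posD_of_check (c := ⟨368, ⟨5, 12, 13, 4⟩⟩) (by decide +kernel)

def yB2_wL1aa : PosD ⟨⟨0, 1, 1⟩, ⟨98, 99, 147⟩, ⟨300, 625, 10000⟩, ⟨2200, 2400, 1000⟩⟩ (yB2.hWL true) :=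
  posD_of_check (c := ⟨369, ⟨5, 12, 13, 4⟩⟩) (by decide +kernel)

def yB2_wL1ab : PosD ⟨⟨0, 1, 1⟩, ⟨98, 99, 147⟩, ⟨300, 625, 10000⟩, ⟨2400, 2600, 1000⟩⟩ (yB2.hWL true) :=
  posD_of_check (c := ⟨369, ⟨5, 12, 13, 4⟩⟩) (by decide +kernel)

def yB2_wL1a : PosD ⟨⟨0, 1, 1⟩, ⟨98, 99, 147⟩, ⟨300, 625, 10000⟩, ⟨2200, 2600, 1000⟩⟩ (yB2.hWL true) :=
  posD_join₃ yB2_wL1aa yB2_wL1ab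

def yB2_wL1b : PosD ⟨⟨0, 1, 1⟩, ⟨98, 99, 147⟩, ⟨300, 625, 10000⟩, ⟨2600, 3000, 1000⟩⟩ (yB2.hWL true) :=
  posD_of_check (c := ⟨369, ⟨5, 12, 13, 4⟩⟩) (by decide +kernel)

def yB2_wL1 : PosD ⟨⟨0, 1, 1⟩, ⟨98, 99, 147⟩, ⟨300, 625, 10000⟩, ⟨2200, 3000, 1000⟩⟩ (yB2.hWL true) :=
  posD_join₃ yB2_wL1a yB2_wL1b

/-- The bounds of the piece. -/
def yB2_env : yB2.Env ⟨⟨0, 1, 1⟩, ⟨98, 99, 147⟩, ⟨300, 625, 10000⟩, ⟨2200, 3000, 1000⟩⟩ :=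
  ⟨yB2_p0, Bool.forall_bool.2 ⟨yB2_den0, yB2_den1⟩, yB2_gn, Bool.forall_bool.2 ⟨yB2_ev0, yB2_ev1⟩, Bool.forall_bool.2 ⟨yB2_zL0, yB2_zL1⟩, Bool.forall_bool.2 ⟨yB2_zU0, yB2_zU1⟩, Bool.forall_bool.2 ⟨yB2_eL0, yB2_eL1⟩, ⟨.inr rfl, .inr rfl⟩, Bool.forall_bool.2 ⟨yB2_eH0, yB2_eH1⟩, ⟨.inr rfl, .inr rfl⟩, Bool.forall_bool.2 ⟨yB2_pL0, yB2_pL1⟩, ⟨.inr rfl, .inr rfl⟩, Bool.forall_bool.2 ⟨yB2_pU0, yB2_pU1⟩, ⟨.inr rfl, .inr rfl⟩, Bool.forall_bool.2 ⟨yB2_kU0, yB2_kU1⟩, ⟨.inr rfl, .inr rfl⟩, Bool.forall_bool.2 ⟨yB2_kL0, yB2_kL1⟩, ⟨.inr rfl, .inr rfl⟩, Bool.forall_bool.2 ⟨yB2_wU0, yB2_wU1⟩, ⟨.inr rfl, .inr rfl⟩, Bool.forall_bool.2 ⟨yB2_wL0, yB2_wL1⟩, ⟨.inr rfl, .inr rfl⟩⟩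

def yB2_pU20a : PosD ⟨⟨0, 1, 1⟩, ⟨98, 99, 147⟩, ⟨300, 625, 10000⟩, ⟨2200, 2600, 1000⟩⟩ (({ yB2 with pU := yB2PU } : Piece).hPU false) :=
  posD_of_check (c := ⟨261, ⟨3, 6, 9, 3⟩⟩) (by decide +kernel)

def yB2_pU20ba : PosD ⟨⟨0, 1, 1⟩, ⟨98, 99, 147⟩, ⟨300, 625, 10000⟩, ⟨2600, 2800, 1000⟩⟩ (({ yB2 with pU := yB2PU } : Piece).hPU false) :=
  posD_of_check (c := ⟨261, ⟨3, 6, 9, 3⟩⟩) (by decide +kernel)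

def yB2_pU20bba : PosD ⟨⟨0, 1, 1⟩, ⟨98, 99, 147⟩, ⟨300, 462, 10000⟩, ⟨2800, 3000, 1000⟩⟩ (({ yB2 with pU := yB2PU } : Piece).hPU false) :=
  posD_of_check (c := ⟨261, ⟨3, 6, 9, 3⟩⟩) (by decide +kernel)

def yB2_pU20bbb : PosD ⟨⟨0, 1, 1⟩, ⟨98, 99, 147⟩, ⟨462, 625, 10000⟩, ⟨2800, 3000, 1000⟩⟩ (({ yB2 with pU := yB2PU } : Piece).hPU false) :=
  posD_of_check (c := ⟨262, ⟨3, 6, 9, 3⟩⟩) (by decide +kernel)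

def yB2_pU20bb : PosD ⟨⟨0, 1, 1⟩, ⟨98, 99, 147⟩, ⟨300, 625, 10000⟩, ⟨2800, 3000, 1000⟩⟩ (({ yB2 with pU := yB2PU } : Piece).hPU false) :=
  posD_join₂ yB2_pU20bba yB2_pU20bbb

def yB2_pU20b : PosD ⟨⟨0, 1, 1⟩, ⟨98, 99, 147⟩, ⟨300, 625, 10000⟩, ⟨2600, 3000, 1000⟩⟩ (({ yB2 with pU := yB2PU } : Piece).hPU false) :=
  posD_join₃ yB2_pU20ba yB2_pU20bb

def yB2_pU20 : PosD ⟨⟨0, 1, 1⟩, ⟨98, 99, 147⟩, ⟨300, 625, 10000⟩, ⟨2200, 3000, 1000⟩⟩ (({ yB2 with pU := yB2PU } : Piece).hPU false) :=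
  posD_join₃ yB2_pU20a yB2_pU20b

def yB2_pU21a : PosD ⟨⟨0, 1, 1⟩, ⟨98, 99, 147⟩, ⟨300, 625, 10000⟩, ⟨2200, 2600, 1000⟩⟩ (({ yB2 with pU := yB2PU } : Piece).hPU true) :=
  posD_of_check (c := ⟨338, ⟨5, 10, 12, 4⟩⟩) (by decide +kernel)

def yB2_pU21b : PosD ⟨⟨0, 1, 1⟩, ⟨98, 99, 147⟩, ⟨300, 625, 10000⟩, ⟨2600, 3000, 1000⟩⟩ (({ yB2 with pU := yB2PU } : Piece).hPU true) :=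
  posD_of_check (c := ⟨339, ⟨5, 10, 12, 4⟩⟩) (by decide +kernel)

def yB2_pU21 : PosD ⟨⟨0, 1, 1⟩, ⟨98, 99, 147⟩, ⟨300, 625, 10000⟩, ⟨2200, 3000, 1000⟩⟩ (({ yB2 with pU := yB2PU } : Piece).hPU true) :=
  posD_join₃ yB2_pU21a yB2_pU21b

/-- The bounds with the other bound of `p`. -/
def yB2_envU : ({ yB2 with pU := yB2PU } : Piece).Env ⟨⟨0, 1, 1⟩, ⟨98, 99, 147⟩, ⟨300, 625, 10000⟩, ⟨2200, 3000, 1000⟩⟩ :=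
  yB2_env.withU yB2PU (Bool.forall_bool.2 ⟨yB2_pU20, yB2_pU21⟩) ⟨.inr rfl, .inr rfl⟩

def yB2A_pp : PosD ⟨⟨0, 1, 1⟩, ⟨98, 99, 147⟩, ⟨300, 625, 10000⟩, ⟨2200, 3000, 1000⟩⟩ (yB2A.xPL) :=
  posD_of_check (c := ⟨93, ⟨1, 1, 3, 3⟩⟩) (by decide +kernel)

def yB2A_k2p : PosD ⟨⟨0, 1, 1⟩, ⟨98, 99, 147⟩, ⟨300, 625, 10000⟩, ⟨2200, 3000, 1000⟩⟩ (yB2A.k2p yB2A.xE) :=
  posD_of_check (c := ⟨65, ⟨1, 1, 2, 2⟩⟩) (by decide +kernel)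

def yB2A_k2m : PosD ⟨⟨0, 1, 1⟩, ⟨98, 99, 147⟩, ⟨300, 625, 10000⟩, ⟨2200, 3000, 1000⟩⟩ (yB2A.k2m yB2A.xE) :=
  posD_of_check (c := ⟨24, ⟨0, 0, 1, 1⟩⟩) (by decide +kernel)

def yB2A_v2p : PosD ⟨⟨0, 1, 1⟩, ⟨98, 99, 147⟩, ⟨300, 625, 10000⟩, ⟨2200, 3000, 1000⟩⟩ (yB2A.hV2p) :=
  posD_of_check (c := ⟨258, ⟨1, 6, 10, 5⟩⟩) (by decide +kernel)

def yB2A_v2m : PosD ⟨⟨0, 1, 1⟩, ⟨98, 99, 147⟩, ⟨300, 625, 10000⟩, ⟨2200, 3000, 1000⟩⟩ (yB2A.hV2m) :=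
  posD_of_check (c := ⟨228, ⟨0, 5, 10, 4⟩⟩) (by decide +kernel)

def yB2A_v3p : PosD ⟨⟨0, 1, 1⟩, ⟨98, 99, 147⟩, ⟨300, 625, 10000⟩, ⟨2200, 3000, 1000⟩⟩ (yB2A.hV3p) :=
  posD_of_check (c := ⟨247, ⟨1, 6, 9, 5⟩⟩) (by decide +kernel)

def yB2A_v3m : PosD ⟨⟨0, 1, 1⟩, ⟨98, 99, 147⟩, ⟨300, 625, 10000⟩, ⟨2200, 3000, 1000⟩⟩ (yB2A.hV3m) :=
  posD_of_check (c := ⟨221, ⟨0, 5, 9, 4⟩⟩) (by decide +kernel)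

def yB2A_kap0 : PosD ⟨⟨0, 1, 1⟩, ⟨98, 99, 147⟩, ⟨300, 625, 10000⟩, ⟨2200, 3000, 1000⟩⟩ (yB2A.kap false) :=
  posD_of_check (c := ⟨70, ⟨1, 1, 2, 2⟩⟩) (by decide +kernel)

def yB2A_c10 : PosD ⟨⟨0, 1, 1⟩, ⟨98, 99, 147⟩, ⟨300, 625, 10000⟩, ⟨2200, 3000, 1000⟩⟩ (yB2A.hC1 false) :=
  posD_of_check (c := ⟨269, ⟨3, 5, 9, 7⟩⟩) (by decide +kernel)

def yB2A_c1h0a : PosD ⟨⟨0, 1, 1⟩, ⟨98, 99, 147⟩, ⟨300, 462, 10000⟩, ⟨2200, 3000, 1000⟩⟩ (yB2A.hC1' false) :=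
  posD_of_check (c := ⟨268, ⟨3, 5, 9, 7⟩⟩) (by decide +kernel)

def yB2A_c1h0b : PosD ⟨⟨0, 1, 1⟩, ⟨98, 99, 147⟩, ⟨462, 625, 10000⟩, ⟨2200, 3000, 1000⟩⟩ (yB2A.hC1' false) :=
  posD_of_check (c := ⟨269, ⟨3, 5, 9, 7⟩⟩) (by decide +kernel)

def yB2A_c1h0 : PosD ⟨⟨0, 1, 1⟩, ⟨98, 99, 147⟩, ⟨300, 625, 10000⟩, ⟨2200, 3000, 1000⟩⟩ (yB2A.hC1' false) :=
  posD_join₂ yB2A_c1h0a yB2A_c1h0b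

def yB2A_tg00 : PosD ⟨⟨0, 1, 1⟩, ⟨98, 99, 147⟩, ⟨300, 625, 10000⟩, ⟨2200, 3000, 1000⟩⟩ (yB2A.hG false (yB2A.pEnd false)) :=
  posD_of_check (c := ⟨376, ⟨2, 7, 14, 9⟩⟩) (by decide +kernel)

def yB2A_c2p00 : PosD ⟨⟨0, 1, 1⟩, ⟨98, 99, 147⟩, ⟨300, 625, 10000⟩, ⟨2200, 3000, 1000⟩⟩ (yB2A.hC2p false (yB2A.pEnd false)) :=
  posD_of_check (c := ⟨440, ⟨3, 8, 16, 11⟩⟩) (by decide +kernel)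

def yB2A_c2m00 : PosD ⟨⟨0, 1, 1⟩, ⟨98, 99, 147⟩, ⟨300, 625, 10000⟩, ⟨2200, 3000, 1000⟩⟩ (yB2A.hC2m false (yB2A.pEnd false)) :=
  posD_of_check (c := ⟨410, ⟨2, 7, 16, 10⟩⟩) (by decide +kernel)

def yB2A_c3p00 : PosD ⟨⟨0, 1, 1⟩, ⟨98, 99, 147⟩, ⟨300, 625, 10000⟩, ⟨2200, 3000, 1000⟩⟩ (yB2A.hC3p false false) :=
  posD_of_check (c := ⟨433, ⟨3, 8, 15, 11⟩⟩) (by decide +kernel)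

def yB2A_c3m00 : PosD ⟨⟨0, 1, 1⟩, ⟨98, 99, 147⟩, ⟨300, 625, 10000⟩, ⟨2200, 3000, 1000⟩⟩ (yB2A.hC3m false false) :=
  posD_of_check (c := ⟨408, ⟨3, 7, 15, 10⟩⟩) (by decide +kernel)

def yB2A_c3ph00 : PosD ⟨⟨0, 1, 1⟩, ⟨98, 99, 147⟩, ⟨300, 625, 10000⟩, ⟨2200, 3000, 1000⟩⟩ (yB2A.hC3p' false false) :=
  posD_of_check (c := ⟨433, ⟨3, 8, 15, 11⟩⟩) (by decide +kernel)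

def yB2A_c3mh00 : PosD ⟨⟨0, 1, 1⟩, ⟨98, 99, 147⟩, ⟨300, 625, 10000⟩, ⟨2200, 3000, 1000⟩⟩ (yB2A.hC3m' false false) :=
  posD_of_check (c := ⟨408, ⟨3, 7, 15, 10⟩⟩) (by decide +kernel)

def yB2A_up00 : PosD ⟨⟨0, 1, 1⟩, ⟨98, 99, 147⟩, ⟨300, 625, 10000⟩, ⟨2200, 3000, 1000⟩⟩ (yB2A.hUp false false) :=
  posD_of_check (c := ⟨429, ⟨3, 8, 15, 11⟩⟩) (by decide +kernel)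

def yB2A_um00 : PosD ⟨⟨0, 1, 1⟩, ⟨98, 99, 147⟩, ⟨300, 625, 10000⟩, ⟨2200, 3000, 1000⟩⟩ (yB2A.hUm false false) :=
  posD_of_check (c := ⟨403, ⟨2, 7, 15, 10⟩⟩) (by decide +kernel)

def yB2A_tmg00 : PosD ⟨⟨0, 1, 1⟩, ⟨98, 99, 147⟩, ⟨300, 625, 10000⟩, ⟨2200, 3000, 1000⟩⟩ (yB2A.hTMG false (yB2A.pEnd false)) :=
  posD_of_check (c := ⟨388, ⟨2, 7, 14, 10⟩⟩) (by decide +kernel)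

def yB2A_tg01 : PosD ⟨⟨0, 1, 1⟩, ⟨98, 99, 147⟩, ⟨300, 625, 10000⟩, ⟨2200, 3000, 1000⟩⟩ (yB2A.hG true (yB2A.pEnd false)) :=
  posD_of_check (c := ⟨376, ⟨2, 7, 14, 9⟩⟩) (by decide +kernel)

def yB2A_c2p01 : PosD ⟨⟨0, 1, 1⟩, ⟨98, 99, 147⟩, ⟨300, 625, 10000⟩, ⟨2200, 3000, 1000⟩⟩ (yB2A.hC2p true (yB2A.pEnd false)) :=
  posD_of_check (c := ⟨440, ⟨3, 8, 16, 11⟩⟩) (by decide +kernel)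

def yB2A_c2m01 : PosD ⟨⟨0, 1, 1⟩, ⟨98, 99, 147⟩, ⟨300, 625, 10000⟩, ⟨2200, 3000, 1000⟩⟩ (yB2A.hC2m true (yB2A.pEnd false)) :=
  posD_of_check (c := ⟨410, ⟨2, 7, 16, 10⟩⟩) (by decide +kernel)

def yB2A_c3p01 : PosD ⟨⟨0, 1, 1⟩, ⟨98, 99, 147⟩, ⟨300, 625, 10000⟩, ⟨2200, 3000, 1000⟩⟩ (yB2A.hC3p false true) :=
  posD_of_check (c := ⟨433, ⟨3, 8, 15, 11⟩⟩) (by decide +kernel)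

def yB2A_c3m01 : PosD ⟨⟨0, 1, 1⟩, ⟨98, 99, 147⟩, ⟨300, 625, 10000⟩, ⟨2200, 3000, 1000⟩⟩ (yB2A.hC3m false true) :=
  posD_of_check (c := ⟨408, ⟨3, 7, 15, 10⟩⟩) (by decide +kernel)

def yB2A_c3ph01 : PosD ⟨⟨0, 1, 1⟩, ⟨98, 99, 147⟩, ⟨300, 625, 10000⟩, ⟨2200, 3000, 1000⟩⟩ (yB2A.hC3p' false true) :=
  posD_of_check (c := ⟨433, ⟨3, 8, 15, 11⟩⟩) (by decide +kernel)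

def yB2A_c3mh01 : PosD ⟨⟨0, 1, 1⟩, ⟨98, 99, 147⟩, ⟨300, 625, 10000⟩, ⟨2200, 3000, 1000⟩⟩ (yB2A.hC3m' false true) :=
  posD_of_check (c := ⟨408, ⟨3, 7, 15, 10⟩⟩) (by decide +kernel)

def yB2A_up01 : PosD ⟨⟨0, 1, 1⟩, ⟨98, 99, 147⟩, ⟨300, 625, 10000⟩, ⟨2200, 3000, 1000⟩⟩ (yB2A.hUp false true) :=
  posD_of_check (c := ⟨429, ⟨3, 8, 15, 11⟩⟩) (by decide +kernel)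

def yB2A_um01 : PosD ⟨⟨0, 1, 1⟩, ⟨98, 99, 147⟩, ⟨300, 625, 10000⟩, ⟨2200, 3000, 1000⟩⟩ (yB2A.hUm false true) :=
  posD_of_check (c := ⟨403, ⟨2, 7, 15, 10⟩⟩) (by decide +kernel)

def yB2A_tmg01 : PosD ⟨⟨0, 1, 1⟩, ⟨98, 99, 147⟩, ⟨300, 625, 10000⟩, ⟨2200, 3000, 1000⟩⟩ (yB2A.hTMG true (yB2A.pEnd false)) :=
  posD_of_check (c := ⟨388, ⟨2, 7, 14, 10⟩⟩) (by decide +kernel)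

def yB2A_kap1 : PosD ⟨⟨0, 1, 1⟩, ⟨98, 99, 147⟩, ⟨300, 625, 10000⟩, ⟨2200, 3000, 1000⟩⟩ (yB2A.kap true) :=
  posD_of_check (c := ⟨68, ⟨1, 1, 2, 2⟩⟩) (by decide +kernel)

def yB2A_c11 : PosD ⟨⟨0, 1, 1⟩, ⟨98, 99, 147⟩, ⟨300, 625, 10000⟩, ⟨2200, 3000, 1000⟩⟩ (yB2A.hC1 true) :=
  posD_of_check (c := ⟨265, ⟨3, 5, 9, 7⟩⟩) (by decide +kernel)

def yB2A_c1h1 : PosD ⟨⟨0, 1, 1⟩, ⟨98, 99, 147⟩, ⟨300, 625, 10000⟩, ⟨2200, 3000, 1000⟩⟩ (yB2A.hC1' true) :=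
  posD_of_check (c := ⟨265, ⟨3, 5, 9, 7⟩⟩) (by decide +kernel)

def yB2A_tg10 : PosD ⟨⟨0, 1, 1⟩, ⟨98, 99, 147⟩, ⟨300, 625, 10000⟩, ⟨2200, 3000, 1000⟩⟩ (yB2A.hG false (yB2A.pEnd true)) :=
  posD_of_check (c := ⟨373, ⟨2, 7, 14, 9⟩⟩) (by decide +kernel)

def yB2A_c2p10 : PosD ⟨⟨0, 1, 1⟩, ⟨98, 99, 147⟩, ⟨300, 625, 10000⟩, ⟨2200, 3000, 1000⟩⟩ (yB2A.hC2p false (yB2A.pEnd true)) :=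
  posD_of_check (c := ⟨438, ⟨3, 8, 16, 11⟩⟩) (by decide +kernel)

def yB2A_c2m10 : PosD ⟨⟨0, 1, 1⟩, ⟨98, 99, 147⟩, ⟨300, 625, 10000⟩, ⟨2200, 3000, 1000⟩⟩ (yB2A.hC2m false (yB2A.pEnd true)) :=
  posD_of_check (c := ⟨408, ⟨2, 7, 16, 10⟩⟩) (by decide +kernel)

def yB2A_c3p10 : PosD ⟨⟨0, 1, 1⟩, ⟨98, 99, 147⟩, ⟨300, 625, 10000⟩, ⟨2200, 3000, 1000⟩⟩ (yB2A.hC3p true false) :=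
  posD_of_check (c := ⟨430, ⟨3, 8, 15, 11⟩⟩) (by decide +kernel)

def yB2A_c3m10 : PosD ⟨⟨0, 1, 1⟩, ⟨98, 99, 147⟩, ⟨300, 625, 10000⟩, ⟨2200, 3000, 1000⟩⟩ (yB2A.hC3m true false) :=
  posD_of_check (c := ⟨405, ⟨3, 7, 15, 10⟩⟩) (by decide +kernel)

def yB2A_c3ph10 : PosD ⟨⟨0, 1, 1⟩, ⟨98, 99, 147⟩, ⟨300, 625, 10000⟩, ⟨2200, 3000, 1000⟩⟩ (yB2A.hC3p' true false) :=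
  posD_of_check (c := ⟨430, ⟨3, 8, 15, 11⟩⟩) (by decide +kernel)

def yB2A_c3mh10 : PosD ⟨⟨0, 1, 1⟩, ⟨98, 99, 147⟩, ⟨300, 625, 10000⟩, ⟨2200, 3000, 1000⟩⟩ (yB2A.hC3m' true false) :=
  posD_of_check (c := ⟨405, ⟨3, 7, 15, 10⟩⟩) (by decide +kernel)

def yB2A_up10 : PosD ⟨⟨0, 1, 1⟩, ⟨98, 99, 147⟩, ⟨300, 625, 10000⟩, ⟨2200, 3000, 1000⟩⟩ (yB2A.hUp true false) :=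
  posD_of_check (c := ⟨428, ⟨3, 8, 15, 11⟩⟩) (by decide +kernel)

def yB2A_um10 : PosD ⟨⟨0, 1, 1⟩, ⟨98, 99, 147⟩, ⟨300, 625, 10000⟩, ⟨2200, 3000, 1000⟩⟩ (yB2A.hUm true false) :=
  posD_of_check (c := ⟨402, ⟨2, 7, 15, 10⟩⟩) (by decide +kernel)

def yB2A_tmg10 : PosD ⟨⟨0, 1, 1⟩, ⟨98, 99, 147⟩, ⟨300, 625, 10000⟩, ⟨2200, 3000, 1000⟩⟩ (yB2A.hTMG false (yB2A.pEnd true)) :=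
  posD_of_check (c := ⟨387, ⟨2, 7, 14, 10⟩⟩) (by decide +kernel)

def yB2A_tg11 : PosD ⟨⟨0, 1, 1⟩, ⟨98, 99, 147⟩, ⟨300, 625, 10000⟩, ⟨2200, 3000, 1000⟩⟩ (yB2A.hG true (yB2A.pEnd true)) :=
  posD_of_check (c := ⟨373, ⟨2, 7, 14, 9⟩⟩) (by decide +kernel)

def yB2A_c2p11 : PosD ⟨⟨0, 1, 1⟩, ⟨98, 99, 147⟩, ⟨300, 625, 10000⟩, ⟨2200, 3000, 1000⟩⟩ (yB2A.hC2p true (yB2A.pEnd true)) :=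
  posD_of_check (c := ⟨438, ⟨3, 8, 16, 11⟩⟩) (by decide +kernel)

def yB2A_c2m11 : PosD ⟨⟨0, 1, 1⟩, ⟨98, 99, 147⟩, ⟨300, 625, 10000⟩, ⟨2200, 3000, 1000⟩⟩ (yB2A.hC2m true (yB2A.pEnd true)) :=
  posD_of_check (c := ⟨408, ⟨2, 7, 16, 10⟩⟩) (by decide +kernel)

def yB2A_c3p11 : PosD ⟨⟨0, 1, 1⟩, ⟨98, 99, 147⟩, ⟨300, 625, 10000⟩, ⟨2200, 3000, 1000⟩⟩ (yB2A.hC3p true true) :=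
  posD_of_check (c := ⟨430, ⟨3, 8, 15, 11⟩⟩) (by decide +kernel)

def yB2A_c3m11 : PosD ⟨⟨0, 1, 1⟩, ⟨98, 99, 147⟩, ⟨300, 625, 10000⟩, ⟨2200, 3000, 1000⟩⟩ (yB2A.hC3m true true) :=
  posD_of_check (c := ⟨405, ⟨3, 7, 15, 10⟩⟩) (by decide +kernel)

def yB2A_c3ph11 : PosD ⟨⟨0, 1, 1⟩, ⟨98, 99, 147⟩, ⟨300, 625, 10000⟩, ⟨2200, 3000, 1000⟩⟩ (yB2A.hC3p' true true) :=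
  posD_of_check (c := ⟨430, ⟨3, 8, 15, 11⟩⟩) (by decide +kernel)

def yB2A_c3mh11 : PosD ⟨⟨0, 1, 1⟩, ⟨98, 99, 147⟩, ⟨300, 625, 10000⟩, ⟨2200, 3000, 1000⟩⟩ (yB2A.hC3m' true true) :=
  posD_of_check (c := ⟨405, ⟨3, 7, 15, 10⟩⟩) (by decide +kernel)

def yB2A_up11 : PosD ⟨⟨0, 1, 1⟩, ⟨98, 99, 147⟩, ⟨300, 625, 10000⟩, ⟨2200, 3000, 1000⟩⟩ (yB2A.hUp true true) :=
  posD_of_check (c := ⟨428, ⟨3, 8, 15, 11⟩⟩) (by decide +kernel)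

def yB2A_um11 : PosD ⟨⟨0, 1, 1⟩, ⟨98, 99, 147⟩, ⟨300, 625, 10000⟩, ⟨2200, 3000, 1000⟩⟩ (yB2A.hUm true true) :=
  posD_of_check (c := ⟨402, ⟨2, 7, 15, 10⟩⟩) (by decide +kernel)

def yB2A_tmg11 : PosD ⟨⟨0, 1, 1⟩, ⟨98, 99, 147⟩, ⟨300, 625, 10000⟩, ⟨2200, 3000, 1000⟩⟩ (yB2A.hTMG true (yB2A.pEnd true)) :=
  posD_of_check (c := ⟨387, ⟨2, 7, 14, 10⟩⟩) (by decide +kernel)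

/-- The signs of the piece. -/
def yB2A_sign : yB2A.Sign ⟨⟨0, 1, 1⟩, ⟨98, 99, 147⟩, ⟨300, 625, 10000⟩, ⟨2200, 3000, 1000⟩⟩ :=
  ⟨yB2A_pp,
    yB2A_k2p,
    yB2A_k2m,
    Bool.forall_bool.2 ⟨(Bool.forall_bool.2 ⟨yB2A_tg00, yB2A_tg01⟩), (Bool.forall_bool.2 ⟨yB2A_tg10, yB2A_tg11⟩)⟩,
    Bool.forall_bool.2 ⟨(Bool.forall_bool.2 ⟨yB2A_c2p00, yB2A_c2p01⟩), (Bool.forall_bool.2 ⟨yB2A_c2p10, yB2A_c2p11⟩)⟩,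
    Bool.forall_bool.2 ⟨(Bool.forall_bool.2 ⟨yB2A_c2m00, yB2A_c2m01⟩), (Bool.forall_bool.2 ⟨yB2A_c2m10, yB2A_c2m11⟩)⟩,
    Bool.forall_bool.2 ⟨yB2A_kap0, yB2A_kap1⟩,
    Bool.forall_bool.2 ⟨yB2A_c10, yB2A_c11⟩,
    Bool.forall_bool.2 ⟨(Bool.forall_bool.2 ⟨yB2A_c3p00, yB2A_c3p01⟩), (Bool.forall_bool.2 ⟨yB2A_c3p10, yB2A_c3p11⟩)⟩,
    Bool.forall_bool.2 ⟨(Bool.forall_bool.2 ⟨yB2A_c3m00, yB2A_c3m01⟩), (Bool.forall_bool.2 ⟨yB2A_c3m10, yB2A_c3m11⟩)⟩,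
    Bool.forall_bool.2 ⟨(Bool.forall_bool.2 ⟨yB2A_tmg00, yB2A_tmg01⟩), (Bool.forall_bool.2 ⟨yB2A_tmg10, yB2A_tmg11⟩)⟩,
    .inr (Bool.forall_bool.2 ⟨⟨yB2A_c1h0, Bool.forall_bool.2 ⟨⟨yB2A_c3ph00, yB2A_c3mh00, yB2A_up00, yB2A_um00⟩, ⟨yB2A_c3ph01, yB2A_c3mh01, yB2A_up01, yB2A_um01⟩⟩⟩, ⟨yB2A_c1h1, Bool.forall_bool.2 ⟨⟨yB2A_c3ph10, yB2A_c3mh10, yB2A_up10, yB2A_um10⟩, ⟨yB2A_c3ph11, yB2A_c3mh11, yB2A_up11, yB2A_um11⟩⟩⟩⟩),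
    yB2A_v2p,
    yB2A_v2m,
    yB2A_v3p,
    yB2A_v3m,
    posD_sub (b := ⟨⟨0, 1, 1⟩, ⟨98, 99, 147⟩, ⟨300, 625, 10000⟩, ⟨1020, 4000, 1000⟩⟩) (by decide +kernel) yB_vG,
    posD_sub (b := ⟨⟨0, 1, 1⟩, ⟨98, 99, 147⟩, ⟨300, 625, 10000⟩, ⟨1020, 4000, 1000⟩⟩) (by decide +kernel) yB_vMG,
    posD_sub (b := ⟨⟨0, 1, 1⟩, ⟨98, 99, 147⟩, ⟨300, 625, 10000⟩, ⟨1020, 4000, 1000⟩⟩) (by decide +kernel) yB_ak,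
    posD_sub (b := ⟨⟨0, 1, 1⟩, ⟨98, 99, 147⟩, ⟨300, 625, 10000⟩, ⟨1020, 4000, 1000⟩⟩) (by decide +kernel) yB_aw,
    posD_sub (b := ⟨⟨0, 1, 1⟩, ⟨98, 99, 147⟩, ⟨300, 625, 10000⟩, ⟨1020, 4000, 1000⟩⟩) (by decide +kernel) yB_gk,
    posD_sub (b := ⟨⟨0, 1, 1⟩, ⟨98, 99, 147⟩, ⟨300, 625, 10000⟩, ⟨1020, 4000, 1000⟩⟩) (by decide +kernel) yB_gw,
    posD_sub (b := ⟨⟨0, 1, 1⟩, ⟨98, 99, 147⟩, ⟨300, 625, 10000⟩, ⟨1020, 4000, 1000⟩⟩) (by decide +kernel) yB_ek,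
    posD_sub (b := ⟨⟨0, 1, 1⟩, ⟨98, 99, 147⟩, ⟨300, 625, 10000⟩, ⟨1020, 4000, 1000⟩⟩) (by decide +kernel) yB_ew⟩

def yB2B_pp : PosD ⟨⟨0, 1, 1⟩, ⟨98, 99, 147⟩, ⟨300, 625, 10000⟩, ⟨2200, 3000, 1000⟩⟩ (yB2B.xPL) :=
  posD_of_check (c := ⟨93, ⟨1, 1, 3, 3⟩⟩) (by decide +kernel)

def yB2B_k2p : PosD ⟨⟨0, 1, 1⟩, ⟨98, 99, 147⟩, ⟨300, 625, 10000⟩, ⟨2200, 3000, 1000⟩⟩ (yB2B.k2p yB2B.xE) :=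
  posD_of_check (c := ⟨67, ⟨1, 1, 2, 2⟩⟩) (by decide +kernel)

def yB2B_k2m : PosD ⟨⟨0, 1, 1⟩, ⟨98, 99, 147⟩, ⟨300, 625, 10000⟩, ⟨2200, 3000, 1000⟩⟩ (yB2B.k2m yB2B.xE) :=
  posD_of_check (c := ⟨65, ⟨1, 1, 2, 2⟩⟩) (by decide +kernel)

def yB2B_v2p : PosD ⟨⟨0, 1, 1⟩, ⟨98, 99, 147⟩, ⟨300, 625, 10000⟩, ⟨2200, 3000, 1000⟩⟩ (yB2B.hV2p) :=
  posD_of_check (c := ⟨260, ⟨1, 6, 10, 5⟩⟩) (by decide +kernel)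

def yB2B_v2m : PosD ⟨⟨0, 1, 1⟩, ⟨98, 99, 147⟩, ⟨300, 625, 10000⟩, ⟨2200, 3000, 1000⟩⟩ (yB2B.hV2m) :=
  posD_of_check (c := ⟨259, ⟨1, 6, 10, 5⟩⟩) (by decide +kernel)

def yB2B_v3p : PosD ⟨⟨0, 1, 1⟩, ⟨98, 99, 147⟩, ⟨300, 625, 10000⟩, ⟨2200, 3000, 1000⟩⟩ (yB2B.hV3p) :=
  posD_of_check (c := ⟨248, ⟨1, 6, 9, 5⟩⟩) (by decide +kernel)

def yB2B_v3m : PosD ⟨⟨0, 1, 1⟩, ⟨98, 99, 147⟩, ⟨300, 625, 10000⟩, ⟨2200, 3000, 1000⟩⟩ (yB2B.hV3m) :=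
  posD_of_check (c := ⟨247, ⟨1, 6, 9, 5⟩⟩) (by decide +kernel)

def yB2B_kap0 : PosD ⟨⟨0, 1, 1⟩, ⟨98, 99, 147⟩, ⟨300, 625, 10000⟩, ⟨2200, 3000, 1000⟩⟩ (yB2B.kap false) :=
  posD_of_check (c := ⟨72, ⟨1, 1, 2, 2⟩⟩) (by decide +kernel)

def yB2B_c10 : PosD ⟨⟨0, 1, 1⟩, ⟨98, 99, 147⟩, ⟨300, 625, 10000⟩, ⟨2200, 3000, 1000⟩⟩ (yB2B.hC1 false) :=
  posD_of_check (c := ⟨269, ⟨3, 5, 9, 7⟩⟩) (by decide +kernel)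

def yB2B_c1h0aa : PosD ⟨⟨0, 1, 1⟩, ⟨98, 99, 147⟩, ⟨300, 381, 10000⟩, ⟨2200, 3000, 1000⟩⟩ (yB2B.hC1' false) :=
  posD_of_check (c := ⟨269, ⟨3, 5, 9, 7⟩⟩) (by decide +kernel)

def yB2B_c1h0ab : PosD ⟨⟨0, 1, 1⟩, ⟨98, 99, 147⟩, ⟨381, 462, 10000⟩, ⟨2200, 3000, 1000⟩⟩ (yB2B.hC1' false) :=
  posD_of_check (c := ⟨269, ⟨3, 5, 9, 7⟩⟩) (by decide +kernel)

def yB2B_c1h0a : PosD ⟨⟨0, 1, 1⟩, ⟨98, 99, 147⟩, ⟨300, 462, 10000⟩, ⟨2200, 3000, 1000⟩⟩ (yB2B.hC1' false) :=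
  posD_join₂ yB2B_c1h0aa yB2B_c1h0ab

def yB2B_c1h0b : PosD ⟨⟨0, 1, 1⟩, ⟨98, 99, 147⟩, ⟨462, 625, 10000⟩, ⟨2200, 3000, 1000⟩⟩ (yB2B.hC1' false) :=
  posD_of_check (c := ⟨269, ⟨3, 5, 9, 7⟩⟩) (by decide +kernel)

def yB2B_c1h0 : PosD ⟨⟨0, 1, 1⟩, ⟨98, 99, 147⟩, ⟨300, 625, 10000⟩, ⟨2200, 3000, 1000⟩⟩ (yB2B.hC1' false) :=
  posD_join₂ yB2B_c1h0a yB2B_c1h0b

def yB2B_tg00 : PosD ⟨⟨0, 1, 1⟩, ⟨98, 99, 147⟩, ⟨300, 625, 10000⟩, ⟨2200, 3000, 1000⟩⟩ (yB2B.hG false (yB2B.pEnd false)) :=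
  posD_of_check (c := ⟨374, ⟨2, 7, 14, 9⟩⟩) (by decide +kernel)

def yB2B_c2p00 : PosD ⟨⟨0, 1, 1⟩, ⟨98, 99, 147⟩, ⟨300, 625, 10000⟩, ⟨2200, 3000, 1000⟩⟩ (yB2B.hC2p false (yB2B.pEnd false)) :=
  posD_of_check (c := ⟨441, ⟨3, 8, 16, 11⟩⟩) (by decide +kernel)

def yB2B_c2m00 : PosD ⟨⟨0, 1, 1⟩, ⟨98, 99, 147⟩, ⟨300, 625, 10000⟩, ⟨2200, 3000, 1000⟩⟩ (yB2B.hC2m false (yB2B.pEnd false)) :=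
  posD_of_check (c := ⟨439, ⟨3, 8, 16, 11⟩⟩) (by decide +kernel)

def yB2B_c3p00 : PosD ⟨⟨0, 1, 1⟩, ⟨98, 99, 147⟩, ⟨300, 625, 10000⟩, ⟨2200, 3000, 1000⟩⟩ (yB2B.hC3p false false) :=
  posD_of_check (c := ⟨434, ⟨3, 8, 15, 11⟩⟩) (by decide +kernel)

def yB2B_c3m00 : PosD ⟨⟨0, 1, 1⟩, ⟨98, 99, 147⟩, ⟨300, 625, 10000⟩, ⟨2200, 3000, 1000⟩⟩ (yB2B.hC3m false false) :=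
  posD_of_check (c := ⟨434, ⟨3, 8, 15, 11⟩⟩) (by decide +kernel)

def yB2B_c3ph00 : PosD ⟨⟨0, 1, 1⟩, ⟨98, 99, 147⟩, ⟨300, 625, 10000⟩, ⟨2200, 3000, 1000⟩⟩ (yB2B.hC3p' false false) :=
  posD_of_check (c := ⟨434, ⟨3, 8, 15, 11⟩⟩) (by decide +kernel)

def yB2B_c3mh00 : PosD ⟨⟨0, 1, 1⟩, ⟨98, 99, 147⟩, ⟨300, 625, 10000⟩, ⟨2200, 3000, 1000⟩⟩ (yB2B.hC3m' false false) :=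
  posD_of_check (c := ⟨434, ⟨3, 8, 15, 11⟩⟩) (by decide +kernel)

def yB2B_up00 : PosD ⟨⟨0, 1, 1⟩, ⟨98, 99, 147⟩, ⟨300, 625, 10000⟩, ⟨2200, 3000, 1000⟩⟩ (yB2B.hUp false false) :=
  posD_of_check (c := ⟨429, ⟨3, 8, 15, 11⟩⟩) (by decide +kernel)

def yB2B_um00 : PosD ⟨⟨0, 1, 1⟩, ⟨98, 99, 147⟩, ⟨300, 625, 10000⟩, ⟨2200, 3000, 1000⟩⟩ (yB2B.hUm false false) :=
  posD_of_check (c := ⟨428, ⟨3, 8, 15, 11⟩⟩) (by decide +kernel)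

def yB2B_tmg00 : PosD ⟨⟨0, 1, 1⟩, ⟨98, 99, 147⟩, ⟨300, 625, 10000⟩, ⟨2200, 3000, 1000⟩⟩ (yB2B.hTMG false (yB2B.pEnd false)) :=
  posD_of_check (c := ⟨387, ⟨2, 7, 14, 10⟩⟩) (by decide +kernel)

def yB2B_tg01 : PosD ⟨⟨0, 1, 1⟩, ⟨98, 99, 147⟩, ⟨300, 625, 10000⟩, ⟨2200, 3000, 1000⟩⟩ (yB2B.hG true (yB2B.pEnd false)) :=
  posD_of_check (c := ⟨374, ⟨2, 7, 14, 9⟩⟩) (by decide +kernel)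

def yB2B_c2p01 : PosD ⟨⟨0, 1, 1⟩, ⟨98, 99, 147⟩, ⟨300, 625, 10000⟩, ⟨2200, 3000, 1000⟩⟩ (yB2B.hC2p true (yB2B.pEnd false)) :=
  posD_of_check (c := ⟨441, ⟨3, 8, 16, 11⟩⟩) (by decide +kernel)

def yB2B_c2m01 : PosD ⟨⟨0, 1, 1⟩, ⟨98, 99, 147⟩, ⟨300, 625, 10000⟩, ⟨2200, 3000, 1000⟩⟩ (yB2B.hC2m true (yB2B.pEnd false)) :=
  posD_of_check (c := ⟨439, ⟨3, 8, 16, 11⟩⟩) (by decide +kernel)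

def yB2B_c3p01 : PosD ⟨⟨0, 1, 1⟩, ⟨98, 99, 147⟩, ⟨300, 625, 10000⟩, ⟨2200, 3000, 1000⟩⟩ (yB2B.hC3p false true) :=
  posD_of_check (c := ⟨434, ⟨3, 8, 15, 11⟩⟩) (by decide +kernel)

def yB2B_c3m01 : PosD ⟨⟨0, 1, 1⟩, ⟨98, 99, 147⟩, ⟨300, 625, 10000⟩, ⟨2200, 3000, 1000⟩⟩ (yB2B.hC3m false true) :=
  posD_of_check (c := ⟨434, ⟨3, 8, 15, 11⟩⟩) (by decide +kernel)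

def yB2B_c3ph01 : PosD ⟨⟨0, 1, 1⟩, ⟨98, 99, 147⟩, ⟨300, 625, 10000⟩, ⟨2200, 3000, 1000⟩⟩ (yB2B.hC3p' false true) :=
  posD_of_check (c := ⟨434, ⟨3, 8, 15, 11⟩⟩) (by decide +kernel)

def yB2B_c3mh01 : PosD ⟨⟨0, 1, 1⟩, ⟨98, 99, 147⟩, ⟨300, 625, 10000⟩, ⟨2200, 3000, 1000⟩⟩ (yB2B.hC3m' false true) :=
  posD_of_check (c := ⟨434, ⟨3, 8, 15, 11⟩⟩) (by decide +kernel)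

def yB2B_up01 : PosD ⟨⟨0, 1, 1⟩, ⟨98, 99, 147⟩, ⟨300, 625, 10000⟩, ⟨2200, 3000, 1000⟩⟩ (yB2B.hUp false true) :=
  posD_of_check (c := ⟨429, ⟨3, 8, 15, 11⟩⟩) (by decide +kernel)

def yB2B_um01 : PosD ⟨⟨0, 1, 1⟩, ⟨98, 99, 147⟩, ⟨300, 625, 10000⟩, ⟨2200, 3000, 1000⟩⟩ (yB2B.hUm false true) :=
  posD_of_check (c := ⟨428, ⟨3, 8, 15, 11⟩⟩) (by decide +kernel)

def yB2B_tmg01 : PosD ⟨⟨0, 1, 1⟩, ⟨98, 99, 147⟩, ⟨300, 625, 10000⟩, ⟨2200, 3000, 1000⟩⟩ (yB2B.hTMG true (yB2B.pEnd false)) :=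
  posD_of_check (c := ⟨387, ⟨2, 7, 14, 10⟩⟩) (by decide +kernel)

def yB2B_kap1 : PosD ⟨⟨0, 1, 1⟩, ⟨98, 99, 147⟩, ⟨300, 625, 10000⟩, ⟨2200, 3000, 1000⟩⟩ (yB2B.kap true) :=
  posD_of_check (c := ⟨69, ⟨1, 1, 2, 2⟩⟩) (by decide +kernel)

def yB2B_c11 : PosD ⟨⟨0, 1, 1⟩, ⟨98, 99, 147⟩, ⟨300, 625, 10000⟩, ⟨2200, 3000, 1000⟩⟩ (yB2B.hC1 true) :=
  posD_of_check (c := ⟨265, ⟨3, 5, 9, 7⟩⟩) (by decide +kernel)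

def yB2B_c1h1 : PosD ⟨⟨0, 1, 1⟩, ⟨98, 99, 147⟩, ⟨300, 625, 10000⟩, ⟨2200, 3000, 1000⟩⟩ (yB2B.hC1' true) :=
  posD_of_check (c := ⟨265, ⟨3, 5, 9, 7⟩⟩) (by decide +kernel)

def yB2B_tg10 : PosD ⟨⟨0, 1, 1⟩, ⟨98, 99, 147⟩, ⟨300, 625, 10000⟩, ⟨2200, 3000, 1000⟩⟩ (yB2B.hG false (yB2B.pEnd true)) :=
  posD_of_check (c := ⟨374, ⟨2, 7, 14, 9⟩⟩) (by decide +kernel)

def yB2B_c2p10 : PosD ⟨⟨0, 1, 1⟩, ⟨98, 99, 147⟩, ⟨300, 625, 10000⟩, ⟨2200, 3000, 1000⟩⟩ (yB2B.hC2p false (yB2B.pEnd true)) :=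
  posD_of_check (c := ⟨441, ⟨3, 8, 16, 11⟩⟩) (by decide +kernel)

def yB2B_c2m10 : PosD ⟨⟨0, 1, 1⟩, ⟨98, 99, 147⟩, ⟨300, 625, 10000⟩, ⟨2200, 3000, 1000⟩⟩ (yB2B.hC2m false (yB2B.pEnd true)) :=
  posD_of_check (c := ⟨439, ⟨3, 8, 16, 11⟩⟩) (by decide +kernel)

def yB2B_c3p10 : PosD ⟨⟨0, 1, 1⟩, ⟨98, 99, 147⟩, ⟨300, 625, 10000⟩, ⟨2200, 3000, 1000⟩⟩ (yB2B.hC3p true false) :=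
  posD_of_check (c := ⟨430, ⟨3, 8, 15, 11⟩⟩) (by decide +kernel)

def yB2B_c3m10 : PosD ⟨⟨0, 1, 1⟩, ⟨98, 99, 147⟩, ⟨300, 625, 10000⟩, ⟨2200, 3000, 1000⟩⟩ (yB2B.hC3m true false) :=
  posD_of_check (c := ⟨430, ⟨3, 8, 15, 11⟩⟩) (by decide +kernel)

def yB2B_c3ph10 : PosD ⟨⟨0, 1, 1⟩, ⟨98, 99, 147⟩, ⟨300, 625, 10000⟩, ⟨2200, 3000, 1000⟩⟩ (yB2B.hC3p' true false) :=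
  posD_of_check (c := ⟨430, ⟨3, 8, 15, 11⟩⟩) (by decide +kernel)

def yB2B_c3mh10 : PosD ⟨⟨0, 1, 1⟩, ⟨98, 99, 147⟩, ⟨300, 625, 10000⟩, ⟨2200, 3000, 1000⟩⟩ (yB2B.hC3m' true false) :=
  posD_of_check (c := ⟨430, ⟨3, 8, 15, 11⟩⟩) (by decide +kernel)

def yB2B_up10 : PosD ⟨⟨0, 1, 1⟩, ⟨98, 99, 147⟩, ⟨300, 625, 10000⟩, ⟨2200, 3000, 1000⟩⟩ (yB2B.hUp true false) :=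
  posD_of_check (c := ⟨429, ⟨3, 8, 15, 11⟩⟩) (by decide +kernel)

def yB2B_um10 : PosD ⟨⟨0, 1, 1⟩, ⟨98, 99, 147⟩, ⟨300, 625, 10000⟩, ⟨2200, 3000, 1000⟩⟩ (yB2B.hUm true false) :=
  posD_of_check (c := ⟨428, ⟨3, 8, 15, 11⟩⟩) (by decide +kernel)

def yB2B_tmg10 : PosD ⟨⟨0, 1, 1⟩, ⟨98, 99, 147⟩, ⟨300, 625, 10000⟩, ⟨2200, 3000, 1000⟩⟩ (yB2B.hTMG false (yB2B.pEnd true)) :=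
  posD_of_check (c := ⟨387, ⟨2, 7, 14, 10⟩⟩) (by decide +kernel)

def yB2B_tg11 : PosD ⟨⟨0, 1, 1⟩, ⟨98, 99, 147⟩, ⟨300, 625, 10000⟩, ⟨2200, 3000, 1000⟩⟩ (yB2B.hG true (yB2B.pEnd true)) :=
  posD_of_check (c := ⟨374, ⟨2, 7, 14, 9⟩⟩) (by decide +kernel)

def yB2B_c2p11 : PosD ⟨⟨0, 1, 1⟩, ⟨98, 99, 147⟩, ⟨300, 625, 10000⟩, ⟨2200, 3000, 1000⟩⟩ (yB2B.hC2p true (yB2B.pEnd true)) :=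
  posD_of_check (c := ⟨441, ⟨3, 8, 16, 11⟩⟩) (by decide +kernel)

def yB2B_c2m11 : PosD ⟨⟨0, 1, 1⟩, ⟨98, 99, 147⟩, ⟨300, 625, 10000⟩, ⟨2200, 3000, 1000⟩⟩ (yB2B.hC2m true (yB2B.pEnd true)) :=
  posD_of_check (c := ⟨439, ⟨3, 8, 16, 11⟩⟩) (by decide +kernel)

def yB2B_c3p11 : PosD ⟨⟨0, 1, 1⟩, ⟨98, 99, 147⟩, ⟨300, 625, 10000⟩, ⟨2200, 3000, 1000⟩⟩ (yB2B.hC3p true true) :=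
  posD_of_check (c := ⟨430, ⟨3, 8, 15, 11⟩⟩) (by decide +kernel)

def yB2B_c3m11 : PosD ⟨⟨0, 1, 1⟩, ⟨98, 99, 147⟩, ⟨300, 625, 10000⟩, ⟨2200, 3000, 1000⟩⟩ (yB2B.hC3m true true) :=
  posD_of_check (c := ⟨430, ⟨3, 8, 15, 11⟩⟩) (by decide +kernel)

def yB2B_c3ph11 : PosD ⟨⟨0, 1, 1⟩, ⟨98, 99, 147⟩, ⟨300, 625, 10000⟩, ⟨2200, 3000, 1000⟩⟩ (yB2B.hC3p' true true) :=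
  posD_of_check (c := ⟨430, ⟨3, 8, 15, 11⟩⟩) (by decide +kernel)

def yB2B_c3mh11 : PosD ⟨⟨0, 1, 1⟩, ⟨98, 99, 147⟩, ⟨300, 625, 10000⟩, ⟨2200, 3000, 1000⟩⟩ (yB2B.hC3m' true true) :=
  posD_of_check (c := ⟨430, ⟨3, 8, 15, 11⟩⟩) (by decide +kernel)

def yB2B_up11 : PosD ⟨⟨0, 1, 1⟩, ⟨98, 99, 147⟩, ⟨300, 625, 10000⟩, ⟨2200, 3000, 1000⟩⟩ (yB2B.hUp true true) :=
  posD_of_check (c := ⟨429, ⟨3, 8, 15, 11⟩⟩) (by decide +kernel)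

def yB2B_um11 : PosD ⟨⟨0, 1, 1⟩, ⟨98, 99, 147⟩, ⟨300, 625, 10000⟩, ⟨2200, 3000, 1000⟩⟩ (yB2B.hUm true true) :=
  posD_of_check (c := ⟨428, ⟨3, 8, 15, 11⟩⟩) (by decide +kernel)

def yB2B_tmg11 : PosD ⟨⟨0, 1, 1⟩, ⟨98, 99, 147⟩, ⟨300, 625, 10000⟩, ⟨2200, 3000, 1000⟩⟩ (yB2B.hTMG true (yB2B.pEnd true)) :=
  posD_of_check (c := ⟨387, ⟨2, 7, 14, 10⟩⟩) (by decide +kernel)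

/-- The signs of the piece. -/
def yB2B_sign : yB2B.Sign ⟨⟨0, 1, 1⟩, ⟨98, 99, 147⟩, ⟨300, 625, 10000⟩, ⟨2200, 3000, 1000⟩⟩ :=
  ⟨yB2B_pp,
    yB2B_k2p,
    yB2B_k2m,
    Bool.forall_bool.2 ⟨(Bool.forall_bool.2 ⟨yB2B_tg00, yB2B_tg01⟩), (Bool.forall_bool.2 ⟨yB2B_tg10, yB2B_tg11⟩)⟩,
    Bool.forall_bool.2 ⟨(Bool.forall_bool.2 ⟨yB2B_c2p00, yB2B_c2p01⟩), (Bool.forall_bool.2 ⟨yB2B_c2p10, yB2B_c2p11⟩)⟩,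
    Bool.forall_bool.2 ⟨(Bool.forall_bool.2 ⟨yB2B_c2m00, yB2B_c2m01⟩), (Bool.forall_bool.2 ⟨yB2B_c2m10, yB2B_c2m11⟩)⟩,
    Bool.forall_bool.2 ⟨yB2B_kap0, yB2B_kap1⟩,
    Bool.forall_bool.2 ⟨yB2B_c10, yB2B_c11⟩,
    Bool.forall_bool.2 ⟨(Bool.forall_bool.2 ⟨yB2B_c3p00, yB2B_c3p01⟩), (Bool.forall_bool.2 ⟨yB2B_c3p10, yB2B_c3p11⟩)⟩,
    Bool.forall_bool.2 ⟨(Bool.forall_bool.2 ⟨yB2B_c3m00, yB2B_c3m01⟩), (Bool.forall_bool.2 ⟨yB2B_c3m10, yB2B_c3m11⟩)⟩,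
    Bool.forall_bool.2 ⟨(Bool.forall_bool.2 ⟨yB2B_tmg00, yB2B_tmg01⟩), (Bool.forall_bool.2 ⟨yB2B_tmg10, yB2B_tmg11⟩)⟩,
    .inr (Bool.forall_bool.2 ⟨⟨yB2B_c1h0, Bool.forall_bool.2 ⟨⟨yB2B_c3ph00, yB2B_c3mh00, yB2B_up00, yB2B_um00⟩, ⟨yB2B_c3ph01, yB2B_c3mh01, yB2B_up01, yB2B_um01⟩⟩⟩, ⟨yB2B_c1h1, Bool.forall_bool.2 ⟨⟨yB2B_c3ph10, yB2B_c3mh10, yB2B_up10, yB2B_um10⟩, ⟨yB2B_c3ph11, yB2B_c3mh11, yB2B_up11, yB2B_um11⟩⟩⟩⟩),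
    yB2B_v2p,
    yB2B_v2m,
    yB2B_v3p,
    yB2B_v3m,
    posD_sub (b := ⟨⟨0, 1, 1⟩, ⟨98, 99, 147⟩, ⟨300, 625, 10000⟩, ⟨1020, 4000, 1000⟩⟩) (by decide +kernel) yB_vG,
    posD_sub (b := ⟨⟨0, 1, 1⟩, ⟨98, 99, 147⟩, ⟨300, 625, 10000⟩, ⟨1020, 4000, 1000⟩⟩) (by decide +kernel) yB_vMG,
    posD_sub (b := ⟨⟨0, 1, 1⟩, ⟨98, 99, 147⟩, ⟨300, 625, 10000⟩, ⟨1020, 4000, 1000⟩⟩) (by decide +kernel) yB_ak,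
    posD_sub (b := ⟨⟨0, 1, 1⟩, ⟨98, 99, 147⟩, ⟨300, 625, 10000⟩, ⟨1020, 4000, 1000⟩⟩) (by decide +kernel) yB_aw,
    posD_sub (b := ⟨⟨0, 1, 1⟩, ⟨98, 99, 147⟩, ⟨300, 625, 10000⟩, ⟨1020, 4000, 1000⟩⟩) (by decide +kernel) yB_gk,
    posD_sub (b := ⟨⟨0, 1, 1⟩, ⟨98, 99, 147⟩, ⟨300, 625, 10000⟩, ⟨1020, 4000, 1000⟩⟩) (by decide +kernel) yB_gw,
    posD_sub (b := ⟨⟨0, 1, 1⟩, ⟨98, 99, 147⟩, ⟨300, 625, 10000⟩, ⟨1020, 4000, 1000⟩⟩) (by decide +kernel) yB_ek,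
    posD_sub (b := ⟨⟨0, 1, 1⟩, ⟨98, 99, 147⟩, ⟨300, 625, 10000⟩, ⟨1020, 4000, 1000⟩⟩) (by decide +kernel) yB_ew⟩

end Vale.Agent.P100.Calib.Closed.Six.Tail
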