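import Vale.Agent.P100.Calib.SlabSixTailDataLayerB
import Vale.Agent.P100.Calib.SlabSixTailGlobLayerB

/-!
# Checks of some pieces of the certificate

The checks are written as definitions so that they run one after another, which keeps the memory of the
kernel low.
-/

set_option linter.defProp false

namespace Vale.Agent.P100.Calib.Closed.Six.Tail

open BoxPos Large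

local instance sixTailChecksyB3Add : Add Ex := ⟨Ex.add⟩
local instance sixTailChecksyB3Sub : Sub Ex := ⟨Ex.sub⟩
local instance sixTailChecksyB3Mul : Mul Ex := ⟨Ex.mul⟩

def yB3_p0 : PosD ⟨⟨0, 1, 1⟩, ⟨98, 99, 147⟩, ⟨300, 625, 10000⟩, ⟨3000, 3312, 1000⟩⟩ (yB3.hP0) :=
  posD_of_check (c := ⟨82, ⟨0, 2, 3, 1⟩⟩) (by decide +kernel)

def yB3_gn : PosD ⟨⟨0, 1, 1⟩, ⟨98, 99, 147⟩, ⟨300, 625, 10000⟩, ⟨3000, 3312, 1000⟩⟩ (yB3.hGn) :=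
  posD_of_check (c := ⟨58, ⟨1, 1, 2, 1⟩⟩) (by decide +kernel)

def yB3_den0 : PosD ⟨⟨0, 1, 1⟩, ⟨98, 99, 147⟩, ⟨300, 625, 10000⟩, ⟨3000, 3312, 1000⟩⟩ (yB3.hDen false) :=
  posD_of_check (c := ⟨45, ⟨0, 0, 2, 0⟩⟩) (by decide +kernel)

def yB3_den1 : PosD ⟨⟨0, 1, 1⟩, ⟨98, 99, 147⟩, ⟨300, 625, 10000⟩, ⟨3000, 3312, 1000⟩⟩ (yB3.hDen true) :=
  posD_of_check (c := ⟨145, ⟨3, 4, 6, 1⟩⟩) (by decide +kernel)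

def yB3_ev0 : PosD ⟨⟨0, 1, 1⟩, ⟨98, 99, 147⟩, ⟨300, 625, 10000⟩, ⟨3000, 3312, 1000⟩⟩ (yB3.hEv false) :=
  posD_of_check (c := ⟨149, ⟨2, 2, 6, 1⟩⟩) (by decide +kernel)

def yB3_zL0a : PosD ⟨⟨0, 1, 1⟩, ⟨98, 99, 147⟩, ⟨300, 625, 10000⟩, ⟨3000, 3156, 1000⟩⟩ (yB3.hZL false) :=
  posD_of_check (c := ⟨163, ⟨2, 3, 6, 3⟩⟩) (by decide +kernel)

def yB3_zL0ba : PosD ⟨⟨0, 1, 1⟩, ⟨98, 99, 147⟩, ⟨300, 625, 10000⟩, ⟨3156, 3234, 1000⟩⟩ (yB3.hZL false) :=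
  posD_of_check (c := ⟨163, ⟨2, 3, 6, 3⟩⟩) (by decide +kernel)

def yB3_zL0bba : PosD ⟨⟨0, 1, 1⟩, ⟨98, 99, 147⟩, ⟨300, 462, 10000⟩, ⟨3234, 3312, 1000⟩⟩ (yB3.hZL false) :=
  posD_of_check (c := ⟨163, ⟨2, 3, 6, 3⟩⟩) (by decide +kernel)

def yB3_zL0bbb : PosD ⟨⟨0, 1, 1⟩, ⟨98, 99, 147⟩, ⟨462, 625, 10000⟩, ⟨3234, 3312, 1000⟩⟩ (yB3.hZL false) :=
  posD_of_check (c := ⟨164, ⟨2, 3, 6, 3⟩⟩) (by decide +kernel)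

def yB3_zL0bb : PosD ⟨⟨0, 1, 1⟩, ⟨98, 99, 147⟩, ⟨300, 625, 10000⟩, ⟨3234, 3312, 1000⟩⟩ (yB3.hZL false) :=
  posD_join₂ yB3_zL0bba yB3_zL0bbb

def yB3_zL0b : PosD ⟨⟨0, 1, 1⟩, ⟨98, 99, 147⟩, ⟨300, 625, 10000⟩, ⟨3156, 3312, 1000⟩⟩ (yB3.hZL false) :=
  posD_join₃ yB3_zL0ba yB3_zL0bb

def yB3_zL0 : PosD ⟨⟨0, 1, 1⟩, ⟨98, 99, 147⟩, ⟨300, 625, 10000⟩, ⟨3000, 3312, 1000⟩⟩ (yB3.hZL false) :=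
  posD_join₃ yB3_zL0a yB3_zL0b

def yB3_zU0aa : PosD ⟨⟨0, 1, 1⟩, ⟨98, 99, 147⟩, ⟨300, 625, 10000⟩, ⟨3000, 3078, 1000⟩⟩ (yB3.hZU false) :=
  posD_of_check (c := ⟨164, ⟨2, 3, 6, 3⟩⟩) (by decide +kernel)

def yB3_zU0ab : PosD ⟨⟨0, 1, 1⟩, ⟨98, 99, 147⟩, ⟨300, 625, 10000⟩, ⟨3078, 3156, 1000⟩⟩ (yB3.hZU false) :=
  posD_of_check (c := ⟨164, ⟨2, 3, 6, 3⟩⟩) (by decide +kernel)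

def yB3_zU0a : PosD ⟨⟨0, 1, 1⟩, ⟨98, 99, 147⟩, ⟨300, 625, 10000⟩, ⟨3000, 3156, 1000⟩⟩ (yB3.hZU false) :=
  posD_join₃ yB3_zU0aa yB3_zU0ab

def yB3_zU0b : PosD ⟨⟨0, 1, 1⟩, ⟨98, 99, 147⟩, ⟨300, 625, 10000⟩, ⟨3156, 3312, 1000⟩⟩ (yB3.hZU false) :=
  posD_of_check (c := ⟨164, ⟨2, 3, 6, 3⟩⟩) (by decide +kernel)

def yB3_zU0 : PosD ⟨⟨0, 1, 1⟩, ⟨98, 99, 147⟩, ⟨300, 625, 10000⟩, ⟨3000, 3312, 1000⟩⟩ (yB3.hZU false) :=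
  posD_join₃ yB3_zU0a yB3_zU0b

def yB3_eL0 : PosD ⟨⟨0, 1, 1⟩, ⟨98, 99, 147⟩, ⟨300, 625, 10000⟩, ⟨3000, 3312, 1000⟩⟩ (yB3.hEL false) :=
  posD_of_check (c := ⟨268, ⟨3, 6, 9, 3⟩⟩) (by decide +kernel)

def yB3_eH0aa : PosD ⟨⟨0, 1, 1⟩, ⟨98, 99, 147⟩, ⟨300, 625, 10000⟩, ⟨3000, 3078, 1000⟩⟩ (yB3.hEH false) :=
  posD_of_check (c := ⟨243, ⟨3, 6, 9, 3⟩⟩) (by decide +kernel)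

def yB3_eH0ab : PosD ⟨⟨0, 1, 1⟩, ⟨98, 99, 147⟩, ⟨300, 625, 10000⟩, ⟨3078, 3156, 1000⟩⟩ (yB3.hEH false) :=
  posD_of_check (c := ⟨243, ⟨3, 6, 9, 3⟩⟩) (by decide +kernel)

def yB3_eH0a : PosD ⟨⟨0, 1, 1⟩, ⟨98, 99, 147⟩, ⟨300, 625, 10000⟩, ⟨3000, 3156, 1000⟩⟩ (yB3.hEH false) :=
  posD_join₃ yB3_eH0aa yB3_eH0ab

def yB3_eH0b : PosD ⟨⟨0, 1, 1⟩, ⟨98, 99, 147⟩, ⟨300, 625, 10000⟩, ⟨3156, 3312, 1000⟩⟩ (yB3.hEH false) :=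
  posD_of_check (c := ⟨243, ⟨3, 6, 9, 3⟩⟩) (by decide +kernel)

def yB3_eH0 : PosD ⟨⟨0, 1, 1⟩, ⟨98, 99, 147⟩, ⟨300, 625, 10000⟩, ⟨3000, 3312, 1000⟩⟩ (yB3.hEH false) :=
  posD_join₃ yB3_eH0a yB3_eH0b

def yB3_pL0aa : PosD ⟨⟨0, 1, 1⟩, ⟨98, 99, 147⟩, ⟨300, 625, 10000⟩, ⟨3000, 3078, 1000⟩⟩ (yB3.hPL false) :=
  posD_of_check (c := ⟨261, ⟨3, 6, 9, 3⟩⟩) (by decide +kernel)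

def yB3_pL0ab : PosD ⟨⟨0, 1, 1⟩, ⟨98, 99, 147⟩, ⟨300, 625, 10000⟩, ⟨3078, 3156, 1000⟩⟩ (yB3.hPL false) :=
  posD_of_check (c := ⟨261, ⟨3, 6, 9, 3⟩⟩) (by decide +kernel)

def yB3_pL0a : PosD ⟨⟨0, 1, 1⟩, ⟨98, 99, 147⟩, ⟨300, 625, 10000⟩, ⟨3000, 3156, 1000⟩⟩ (yB3.hPL false) :=
  posD_join₃ yB3_pL0aa yB3_pL0ab

def yB3_pL0b : PosD ⟨⟨0, 1, 1⟩, ⟨98, 99, 147⟩, ⟨300, 625, 10000⟩, ⟨3156, 3312, 1000⟩⟩ (yB3.hPL false) :=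
  posD_of_check (c := ⟨261, ⟨3, 6, 9, 3⟩⟩) (by decide +kernel)

def yB3_pL0 : PosD ⟨⟨0, 1, 1⟩, ⟨98, 99, 147⟩, ⟨300, 625, 10000⟩, ⟨3000, 3312, 1000⟩⟩ (yB3.hPL false) :=
  posD_join₃ yB3_pL0a yB3_pL0b

def yB3_pU0 : PosD ⟨⟨0, 1, 1⟩, ⟨98, 99, 147⟩, ⟨300, 625, 10000⟩, ⟨3000, 3312, 1000⟩⟩ (yB3.hPU false) :=
  posD_of_check (c := ⟨269, ⟨3, 6, 9, 3⟩⟩) (by decide +kernel)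

def yB3_kU0 : PosD ⟨⟨0, 1, 1⟩, ⟨98, 99, 147⟩, ⟨300, 625, 10000⟩, ⟨3000, 3312, 1000⟩⟩ (yB3.hKU false) :=
  posD_of_check (c := ⟨262, ⟨3, 6, 9, 3⟩⟩) (by decide +kernel)

def yB3_kL0a : PosD ⟨⟨0, 1, 1⟩, ⟨98, 99, 147⟩, ⟨300, 625, 10000⟩, ⟨3000, 3156, 1000⟩⟩ (yB3.hKL false) :=
  posD_of_check (c := ⟨264, ⟨3, 6, 9, 3⟩⟩) (by decide +kernel)

def yB3_kL0ba : PosD ⟨⟨0, 1, 1⟩, ⟨98, 99, 147⟩, ⟨300, 462, 10000⟩, ⟨3156, 3312, 1000⟩⟩ (yB3.hKL false) :=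
  posD_of_check (c := ⟨263, ⟨3, 6, 9, 3⟩⟩) (by decide +kernel)

def yB3_kL0bb : PosD ⟨⟨0, 1, 1⟩, ⟨98, 99, 147⟩, ⟨462, 625, 10000⟩, ⟨3156, 3312, 1000⟩⟩ (yB3.hKL false) :=
  posD_of_check (c := ⟨264, ⟨3, 6, 9, 3⟩⟩) (by decide +kernel)

def yB3_kL0b : PosD ⟨⟨0, 1, 1⟩, ⟨98, 99, 147⟩, ⟨300, 625, 10000⟩, ⟨3156, 3312, 1000⟩⟩ (yB3.hKL false) :=
  posD_join₂ yB3_kL0ba yB3_kL0bb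

def yB3_kL0 : PosD ⟨⟨0, 1, 1⟩, ⟨98, 99, 147⟩, ⟨300, 625, 10000⟩, ⟨3000, 3312, 1000⟩⟩ (yB3.hKL false) :=
  posD_join₃ yB3_kL0a yB3_kL0b

def yB3_wU0a : PosD ⟨⟨0, 1, 1⟩, ⟨98, 99, 147⟩, ⟨300, 625, 10000⟩, ⟨3000, 3156, 1000⟩⟩ (yB3.hWU false) :=
  posD_of_check (c := ⟨291, ⟨3, 8, 10, 3⟩⟩) (by decide +kernel)

def yB3_wU0b : PosD ⟨⟨0, 1, 1⟩, ⟨98, 99, 147⟩, ⟨300, 625, 10000⟩, ⟨3156, 3312, 1000⟩⟩ (yB3.hWU false) :=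
  posD_of_check (c := ⟨291, ⟨3, 8, 10, 3⟩⟩) (by decide +kernel)

def yB3_wU0 : PosD ⟨⟨0, 1, 1⟩, ⟨98, 99, 147⟩, ⟨300, 625, 10000⟩, ⟨3000, 3312, 1000⟩⟩ (yB3.hWU false) :=
  posD_join₃ yB3_wU0a yB3_wU0b

def yB3_wL0 : PosD ⟨⟨0, 1, 1⟩, ⟨98, 99, 147⟩, ⟨300, 625, 10000⟩, ⟨3000, 3312, 1000⟩⟩ (yB3.hWL false) :=
  posD_of_check (c := ⟨291, ⟨3, 8, 10, 3⟩⟩) (by decide +kernel)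

def yB3_ev1 : PosD ⟨⟨0, 1, 1⟩, ⟨98, 99, 147⟩, ⟨300, 625, 10000⟩, ⟨3000, 3312, 1000⟩⟩ (yB3.hEv true) :=
  posD_of_check (c := ⟨227, ⟨4, 6, 9, 2⟩⟩) (by decide +kernel)

def yB3_zL1aa : PosD ⟨⟨0, 1, 1⟩, ⟨98, 99, 147⟩, ⟨300, 625, 10000⟩, ⟨3000, 3078, 1000⟩⟩ (yB3.hZL true) :=
  posD_of_check (c := ⟨261, ⟨4, 7, 10, 4⟩⟩) (by decide +kernel)

def yB3_zL1ab : PosD ⟨⟨0, 1, 1⟩, ⟨98, 99, 147⟩, ⟨300, 625, 10000⟩, ⟨3078, 3156, 1000⟩⟩ (yB3.hZL true) :=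
  posD_of_check (c := ⟨261, ⟨4, 7, 10, 4⟩⟩) (by decide +kernel)

def yB3_zL1a : PosD ⟨⟨0, 1, 1⟩, ⟨98, 99, 147⟩, ⟨300, 625, 10000⟩, ⟨3000, 3156, 1000⟩⟩ (yB3.hZL true) :=
  posD_join₃ yB3_zL1aa yB3_zL1ab

def yB3_zL1b : PosD ⟨⟨0, 1, 1⟩, ⟨98, 99, 147⟩, ⟨300, 625, 10000⟩, ⟨3156, 3312, 1000⟩⟩ (yB3.hZL true) :=
  posD_of_check (c := ⟨261, ⟨4, 7, 10, 4⟩⟩) (by decide +kernel)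

def yB3_zL1 : PosD ⟨⟨0, 1, 1⟩, ⟨98, 99, 147⟩, ⟨300, 625, 10000⟩, ⟨3000, 3312, 1000⟩⟩ (yB3.hZL true) :=
  posD_join₃ yB3_zL1a yB3_zL1b

def yB3_zU1aa : PosD ⟨⟨0, 1, 1⟩, ⟨98, 99, 147⟩, ⟨300, 462, 10000⟩, ⟨3000, 3156, 1000⟩⟩ (yB3.hZU true) :=
  posD_of_check (c := ⟨262, ⟨4, 7, 10, 4⟩⟩) (by decide +kernel)

def yB3_zU1ab : PosD ⟨⟨0, 1, 1⟩, ⟨98, 99, 147⟩, ⟨462, 625, 10000⟩, ⟨3000, 3156, 1000⟩⟩ (yB3.hZU true) :=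
  posD_of_check (c := ⟨262, ⟨4, 7, 10, 4⟩⟩) (by decide +kernel)

def yB3_zU1a : PosD ⟨⟨0, 1, 1⟩, ⟨98, 99, 147⟩, ⟨300, 625, 10000⟩, ⟨3000, 3156, 1000⟩⟩ (yB3.hZU true) :=
  posD_join₂ yB3_zU1aa yB3_zU1ab

def yB3_zU1ba : PosD ⟨⟨0, 1, 1⟩, ⟨98, 99, 147⟩, ⟨300, 462, 10000⟩, ⟨3156, 3312, 1000⟩⟩ (yB3.hZU true) :=
  posD_of_check (c := ⟨262, ⟨4, 7, 10, 4⟩⟩) (by decide +kernel)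

def yB3_zU1bbaa : PosD ⟨⟨0, 1, 1⟩, ⟨98, 99, 147⟩, ⟨462, 625, 10000⟩, ⟨3156, 3195, 1000⟩⟩ (yB3.hZU true) :=
  posD_of_check (c := ⟨262, ⟨4, 7, 10, 4⟩⟩) (by decide +kernel)

def yB3_zU1bbab : PosD ⟨⟨0, 1, 1⟩, ⟨98, 99, 147⟩, ⟨462, 625, 10000⟩, ⟨3195, 3234, 1000⟩⟩ (yB3.hZU true) :=
  posD_of_check (c := ⟨262, ⟨4, 7, 10, 4⟩⟩) (by decide +kernel)

def yB3_zU1bba : PosD ⟨⟨0, 1, 1⟩, ⟨98, 99, 147⟩, ⟨462, 625, 10000⟩, ⟨3156, 3234, 1000⟩⟩ (yB3.hZU true) :=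
  posD_join₃ yB3_zU1bbaa yB3_zU1bbab

def yB3_zU1bbb : PosD ⟨⟨0, 1, 1⟩, ⟨98, 99, 147⟩, ⟨462, 625, 10000⟩, ⟨3234, 3312, 1000⟩⟩ (yB3.hZU true) :=
  posD_of_check (c := ⟨262, ⟨4, 7, 10, 4⟩⟩) (by decide +kernel)

def yB3_zU1bb : PosD ⟨⟨0, 1, 1⟩, ⟨98, 99, 147⟩, ⟨462, 625, 10000⟩, ⟨3156, 3312, 1000⟩⟩ (yB3.hZU true) :=
  posD_join₃ yB3_zU1bba yB3_zU1bbb

def yB3_zU1b : PosD ⟨⟨0, 1, 1⟩, ⟨98, 99, 147⟩, ⟨300, 625, 10000⟩, ⟨3156, 3312, 1000⟩⟩ (yB3.hZU true) :=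
  posD_join₂ yB3_zU1ba yB3_zU1bb

def yB3_zU1 : PosD ⟨⟨0, 1, 1⟩, ⟨98, 99, 147⟩, ⟨300, 625, 10000⟩, ⟨3000, 3312, 1000⟩⟩ (yB3.hZU true) :=
  posD_join₃ yB3_zU1a yB3_zU1b

def yB3_eL1 : PosD ⟨⟨0, 1, 1⟩, ⟨98, 99, 147⟩, ⟨300, 625, 10000⟩, ⟨3000, 3312, 1000⟩⟩ (yB3.hEL true) :=
  posD_of_check (c := ⟨345, ⟨5, 10, 12, 4⟩⟩) (by decide +kernel)

def yB3_eH1a : PosD ⟨⟨0, 1, 1⟩, ⟨98, 99, 147⟩, ⟨300, 625, 10000⟩, ⟨3000, 3156, 1000⟩⟩ (yB3.hEH true) :=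
  posD_of_check (c := ⟨320, ⟨5, 10, 12, 4⟩⟩) (by decide +kernel)

def yB3_eH1ba : PosD ⟨⟨0, 1, 1⟩, ⟨98, 99, 147⟩, ⟨300, 625, 10000⟩, ⟨3156, 3234, 1000⟩⟩ (yB3.hEH true) :=
  posD_of_check (c := ⟨320, ⟨5, 10, 12, 4⟩⟩) (by decide +kernel)

def yB3_eH1bb : PosD ⟨⟨0, 1, 1⟩, ⟨98, 99, 147⟩, ⟨300, 625, 10000⟩, ⟨3234, 3312, 1000⟩⟩ (yB3.hEH true) :=
  posD_of_check (c := ⟨320, ⟨5, 10, 12, 4⟩⟩) (by decide +kernel)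

def yB3_eH1b : PosD ⟨⟨0, 1, 1⟩, ⟨98, 99, 147⟩, ⟨300, 625, 10000⟩, ⟨3156, 3312, 1000⟩⟩ (yB3.hEH true) :=
  posD_join₃ yB3_eH1ba yB3_eH1bb

def yB3_eH1 : PosD ⟨⟨0, 1, 1⟩, ⟨98, 99, 147⟩, ⟨300, 625, 10000⟩, ⟨3000, 3312, 1000⟩⟩ (yB3.hEH true) :=
  posD_join₃ yB3_eH1a yB3_eH1b

def yB3_pL1a : PosD ⟨⟨0, 1, 1⟩, ⟨98, 99, 147⟩, ⟨300, 625, 10000⟩, ⟨3000, 3156, 1000⟩⟩ (yB3.hPL true) :=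
  posD_of_check (c := ⟨338, ⟨5, 10, 12, 4⟩⟩) (by decide +kernel)

def yB3_pL1baa : PosD ⟨⟨0, 1, 1⟩, ⟨98, 99, 147⟩, ⟨300, 462, 10000⟩, ⟨3156, 3234, 1000⟩⟩ (yB3.hPL true) :=
  posD_of_check (c := ⟨338, ⟨5, 10, 12, 4⟩⟩) (by decide +kernel)

def yB3_pL1bab : PosD ⟨⟨0, 1, 1⟩, ⟨98, 99, 147⟩, ⟨462, 625, 10000⟩, ⟨3156, 3234, 1000⟩⟩ (yB3.hPL true) :=
  posD_of_check (c := ⟨338, ⟨5, 10, 12, 4⟩⟩) (by decide +kernel)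

def yB3_pL1ba : PosD ⟨⟨0, 1, 1⟩, ⟨98, 99, 147⟩, ⟨300, 625, 10000⟩, ⟨3156, 3234, 1000⟩⟩ (yB3.hPL true) :=
  posD_join₂ yB3_pL1baa yB3_pL1bab

def yB3_pL1bb : PosD ⟨⟨0, 1, 1⟩, ⟨98, 99, 147⟩, ⟨300, 625, 10000⟩, ⟨3234, 3312, 1000⟩⟩ (yB3.hPL true) :=
  posD_of_check (c := ⟨338, ⟨5, 10, 12, 4⟩⟩) (by decide +kernel)

def yB3_pL1b : PosD ⟨⟨0, 1, 1⟩, ⟨98, 99, 147⟩, ⟨300, 625, 10000⟩, ⟨3156, 3312, 1000⟩⟩ (yB3.hPL true) :=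
  posD_join₃ yB3_pL1ba yB3_pL1bb

def yB3_pL1 : PosD ⟨⟨0, 1, 1⟩, ⟨98, 99, 147⟩, ⟨300, 625, 10000⟩, ⟨3000, 3312, 1000⟩⟩ (yB3.hPL true) :=
  posD_join₃ yB3_pL1a yB3_pL1b

def yB3_pU1 : PosD ⟨⟨0, 1, 1⟩, ⟨98, 99, 147⟩, ⟨300, 625, 10000⟩, ⟨3000, 3312, 1000⟩⟩ (yB3.hPU true) :=
  posD_of_check (c := ⟨346, ⟨5, 10, 12, 4⟩⟩) (by decide +kernel)

def yB3_kU1 : PosD ⟨⟨0, 1, 1⟩, ⟨98, 99, 147⟩, ⟨300, 625, 10000⟩, ⟨3000, 3312, 1000⟩⟩ (yB3.hKU true) :=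
  posD_of_check (c := ⟨340, ⟨5, 10, 12, 4⟩⟩) (by decide +kernel)

def yB3_kL1 : PosD ⟨⟨0, 1, 1⟩, ⟨98, 99, 147⟩, ⟨300, 625, 10000⟩, ⟨3000, 3312, 1000⟩⟩ (yB3.hKL true) :=
  posD_of_check (c := ⟨341, ⟨5, 10, 12, 4⟩⟩) (by decide +kernel)

def yB3_wU1 : PosD ⟨⟨0, 1, 1⟩, ⟨98, 99, 147⟩, ⟨300, 625, 10000⟩, ⟨3000, 3312, 1000⟩⟩ (yB3.hWU true) :=
  posD_of_check (c := ⟨369, ⟨5, 12, 13, 4⟩⟩) (by decide +kernel)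

def yB3_wL1 : PosD ⟨⟨0, 1, 1⟩, ⟨98, 99, 147⟩, ⟨300, 625, 10000⟩, ⟨3000, 3312, 1000⟩⟩ (yB3.hWL true) :=
  posD_of_check (c := ⟨369, ⟨5, 12, 13, 4⟩⟩) (by decide +kernel)

def yB3_nueL : PosD ⟨⟨0, 1, 1⟩, ⟨98, 99, 147⟩, ⟨300, 625, 10000⟩, ⟨3000, 3312, 1000⟩⟩ (yB3.eL.ν) :=
  posD_of_check (c := ⟨46, ⟨0, 0, 1, 1⟩⟩) (by decide +kernel)

def yB3_nupU : PosD ⟨⟨0, 1, 1⟩, ⟨98, 99, 147⟩, ⟨300, 625, 10000⟩, ⟨3000, 3312, 1000⟩⟩ (yB3.pU.ν) :=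
  posD_of_check (c := ⟨46, ⟨0, 0, 1, 1⟩⟩) (by decide +kernel)

def yB3_nukU : PosD ⟨⟨0, 1, 1⟩, ⟨98, 99, 147⟩, ⟨300, 625, 10000⟩, ⟨3000, 3312, 1000⟩⟩ (yB3.kU.ν) :=
  posD_of_check (c := ⟨39, ⟨0, 0, 1, 1⟩⟩) (by decide +kernel)

def yB3_nukL : PosD ⟨⟨0, 1, 1⟩, ⟨98, 99, 147⟩, ⟨300, 625, 10000⟩, ⟨3000, 3312, 1000⟩⟩ (yB3.kL.ν) :=
  posD_of_check (c := ⟨42, ⟨0, 0, 1, 1⟩⟩) (by decide +kernel)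

/-- The bounds of the piece. -/
def yB3_env : yB3.Env ⟨⟨0, 1, 1⟩, ⟨98, 99, 147⟩, ⟨300, 625, 10000⟩, ⟨3000, 3312, 1000⟩⟩ :=
  ⟨yB3_p0, Bool.forall_bool.2 ⟨yB3_den0, yB3_den1⟩, yB3_gn, Bool.forall_bool.2 ⟨yB3_ev0, yB3_ev1⟩, Bool.forall_bool.2 ⟨yB3_zL0, yB3_zL1⟩, Bool.forall_bool.2 ⟨yB3_zU0, yB3_zU1⟩, Bool.forall_bool.2 ⟨yB3_eL0, yB3_eL1⟩, ⟨.inr rfl, .inl yB3_nueL⟩, Bool.forall_bool.2 ⟨yB3_eH0, yB3_eH1⟩, ⟨.inr rfl, .inr rfl⟩, Bool.forall_bool.2 ⟨yB3_pL0, yB3_pL1⟩, ⟨.inr rfl, .inr rfl⟩, Bool.forall_bool.2 ⟨yB3_pU0, yB3_pU1⟩, ⟨.inr rfl, .inl yB3_nupU⟩, Bool.forall_bool.2 ⟨yB3_kU0, yB3_kU1⟩, ⟨.inr rfl, .inl yB3_nukU⟩, Bool.forall_bool.2 ⟨yB3_kL0, yB3_kL1⟩, ⟨.inr rfl, .inl yB3_nukL⟩, Bool.forall_bool.2 ⟨yB3_wU0,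 yB3_wU1⟩, ⟨.inr rfl, .inr rfl⟩, Bool.forall_bool.2 ⟨yB3_wL0, yB3_wL1⟩, ⟨.inr rfl, .inr rfl⟩⟩

def yB3_pp : PosD ⟨⟨0, 1, 1⟩, ⟨98, 99, 147⟩, ⟨300, 625, 10000⟩, ⟨3000, 3312, 1000⟩⟩ (yB3.xPL) :=
  posD_of_check (c := ⟨93, ⟨1, 1, 3, 3⟩⟩) (by decide +kernel)

def yB3_k2p : PosD ⟨⟨0, 1, 1⟩, ⟨98, 99, 147⟩, ⟨300, 625, 10000⟩, ⟨3000, 3312, 1000⟩⟩ (yB3.k2p yB3.xE) :=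
  posD_of_check (c := ⟨65, ⟨1, 1, 2, 2⟩⟩) (by decide +kernel)

def yB3_k2m : PosD ⟨⟨0, 1, 1⟩, ⟨98, 99, 147⟩, ⟨300, 625, 10000⟩, ⟨3000, 3312, 1000⟩⟩ (yB3.k2m yB3.xE) :=
  posD_of_check (c := ⟨67, ⟨1, 1, 2, 2⟩⟩) (by decide +kernel)

def yB3_v2p : PosD ⟨⟨0, 1, 1⟩, ⟨98, 99, 147⟩, ⟨300, 625, 10000⟩, ⟨3000, 3312, 1000⟩⟩ (yB3.hV2p) :=
  posD_of_check (c := ⟨258, ⟨1, 6, 10, 5⟩⟩) (by decide +kernel)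

def yB3_v2m : PosD ⟨⟨0, 1, 1⟩, ⟨98, 99, 147⟩, ⟨300, 625, 10000⟩, ⟨3000, 3312, 1000⟩⟩ (yB3.hV2m) :=
  posD_of_check (c := ⟨260, ⟨1, 6, 10, 5⟩⟩) (by decide +kernel)

def yB3_v3p : PosD ⟨⟨0, 1, 1⟩, ⟨98, 99, 147⟩, ⟨300, 625, 10000⟩, ⟨3000, 3312, 1000⟩⟩ (yB3.hV3p) :=
  posD_of_check (c := ⟨247, ⟨1, 6, 9, 5⟩⟩) (by decide +kernel)

def yB3_v3m : PosD ⟨⟨0, 1, 1⟩, ⟨98, 99, 147⟩, ⟨300, 625, 10000⟩, ⟨3000, 3312, 1000⟩⟩ (yB3.hV3m) :=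
  posD_of_check (c := ⟨248, ⟨1, 6, 9, 5⟩⟩) (by decide +kernel)

def yB3_kap0 : PosD ⟨⟨0, 1, 1⟩, ⟨98, 99, 147⟩, ⟨300, 625, 10000⟩, ⟨3000, 3312, 1000⟩⟩ (yB3.kap false) :=
  posD_of_check (c := ⟨74, ⟨1, 1, 2, 2⟩⟩) (by decide +kernel)

def yB3_c10 : PosD ⟨⟨0, 1, 1⟩, ⟨98, 99, 147⟩, ⟨300, 625, 10000⟩, ⟨3000, 3312, 1000⟩⟩ (yB3.hC1 false) :=
  posD_of_check (c := ⟨273, ⟨3, 5, 9, 7⟩⟩) (by decide +kernel)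

def yB3_c1h0a : PosD ⟨⟨0, 1, 1⟩, ⟨98, 99, 147⟩, ⟨300, 625, 10000⟩, ⟨3000, 3156, 1000⟩⟩ (yB3.hC1' false) :=
  posD_of_check (c := ⟨272, ⟨3, 5, 9, 7⟩⟩) (by decide +kernel)

def yB3_c1h0ba : PosD ⟨⟨0, 1, 1⟩, ⟨98, 99, 147⟩, ⟨300, 625, 10000⟩, ⟨3156, 3234, 1000⟩⟩ (yB3.hC1' false) :=
  posD_of_check (c := ⟨273, ⟨3, 5, 9, 7⟩⟩) (by decide +kernel)

def yB3_c1h0bb : PosD ⟨⟨0, 1, 1⟩, ⟨98, 99, 147⟩, ⟨300, 625, 10000⟩, ⟨3234, 3312, 1000⟩⟩ (yB3.hC1' false) :=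
  posD_of_relax (k₁ := 0) (k₂ := 98) (k₃ := 0) (n := 16) (posD_of_check (c := ⟨273, ⟨3, 5, 9, 7⟩⟩) (by decide +kernel))

def yB3_c1h0b : PosD ⟨⟨0, 1, 1⟩, ⟨98, 99, 147⟩, ⟨300, 625, 10000⟩, ⟨3156, 3312, 1000⟩⟩ (yB3.hC1' false) :=
  posD_join₃ yB3_c1h0ba yB3_c1h0bb

def yB3_c1h0 : PosD ⟨⟨0, 1, 1⟩, ⟨98, 99, 147⟩, ⟨300, 625, 10000⟩, ⟨3000, 3312, 1000⟩⟩ (yB3.hC1' false) :=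
  posD_join₃ yB3_c1h0a yB3_c1h0b

def yB3_tg00 : PosD ⟨⟨0, 1, 1⟩, ⟨98, 99, 147⟩, ⟨300, 625, 10000⟩, ⟨3000, 3312, 1000⟩⟩ (yB3.hG false (yB3.pEnd false)) :=
  posD_of_check (c := ⟨375, ⟨2, 7, 14, 9⟩⟩) (by decide +kernel)

def yB3_c2p00 : PosD ⟨⟨0, 1, 1⟩, ⟨98, 99, 147⟩, ⟨300, 625, 10000⟩, ⟨3000, 3312, 1000⟩⟩ (yB3.hC2p false (yB3.pEnd false)) :=
  posD_of_check (c := ⟨439, ⟨3, 8, 16, 11⟩⟩) (by decide +kernel)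

def yB3_c2m00 : PosD ⟨⟨0, 1, 1⟩, ⟨98, 99, 147⟩, ⟨300, 625, 10000⟩, ⟨3000, 3312, 1000⟩⟩ (yB3.hC2m false (yB3.pEnd false)) :=
  posD_of_check (c := ⟨441, ⟨3, 8, 16, 11⟩⟩) (by decide +kernel)

def yB3_c3p00 : PosD ⟨⟨0, 1, 1⟩, ⟨98, 99, 147⟩, ⟨300, 625, 10000⟩, ⟨3000, 3312, 1000⟩⟩ (yB3.hC3p false false) :=
  posD_of_check (c := ⟨437, ⟨3, 8, 15, 11⟩⟩) (by decide +kernel)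

def yB3_c3m00 : PosD ⟨⟨0, 1, 1⟩, ⟨98, 99, 147⟩, ⟨300, 625, 10000⟩, ⟨3000, 3312, 1000⟩⟩ (yB3.hC3m false false) :=
  posD_of_check (c := ⟨437, ⟨3, 8, 15, 11⟩⟩) (by decide +kernel)

def yB3_c3ph00 : PosD ⟨⟨0, 1, 1⟩, ⟨98, 99, 147⟩, ⟨300, 625, 10000⟩, ⟨3000, 3312, 1000⟩⟩ (yB3.hC3p' false false) :=
  posD_of_check (c := ⟨437, ⟨3, 8, 15, 11⟩⟩) (by decide +kernel)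

def yB3_c3mh00 : PosD ⟨⟨0, 1, 1⟩, ⟨98, 99, 147⟩, ⟨300, 625, 10000⟩, ⟨3000, 3312, 1000⟩⟩ (yB3.hC3m' false false) :=
  posD_of_check (c := ⟨437, ⟨3, 8, 15, 11⟩⟩) (by decide +kernel)

def yB3_up00 : PosD ⟨⟨0, 1, 1⟩, ⟨98, 99, 147⟩, ⟨300, 625, 10000⟩, ⟨3000, 3312, 1000⟩⟩ (yB3.hUp false false) :=
  posD_of_check (c := ⟨429, ⟨3, 8, 15, 11⟩⟩) (by decide +kernel)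

def yB3_um00 : PosD ⟨⟨0, 1, 1⟩, ⟨98, 99, 147⟩, ⟨300, 625, 10000⟩, ⟨3000, 3312, 1000⟩⟩ (yB3.hUm false false) :=
  posD_of_check (c := ⟨430, ⟨3, 8, 15, 11⟩⟩) (by decide +kernel)

def yB3_tmg00 : PosD ⟨⟨0, 1, 1⟩, ⟨98, 99, 147⟩, ⟨300, 625, 10000⟩, ⟨3000, 3312, 1000⟩⟩ (yB3.hTMG false (yB3.pEnd false)) :=
  posD_of_check (c := ⟨388, ⟨2, 7, 14, 10⟩⟩) (by decide +kernel)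

def yB3_tg01 : PosD ⟨⟨0, 1, 1⟩, ⟨98, 99, 147⟩, ⟨300, 625, 10000⟩, ⟨3000, 3312, 1000⟩⟩ (yB3.hG true (yB3.pEnd false)) :=
  posD_of_check (c := ⟨375, ⟨2, 7, 14, 9⟩⟩) (by decide +kernel)

def yB3_c2p01 : PosD ⟨⟨0, 1, 1⟩, ⟨98, 99, 147⟩, ⟨300, 625, 10000⟩, ⟨3000, 3312, 1000⟩⟩ (yB3.hC2p true (yB3.pEnd false)) :=
  posD_of_check (c := ⟨439, ⟨3, 8, 16, 11⟩⟩) (by decide +kernel)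

def yB3_c2m01 : PosD ⟨⟨0, 1, 1⟩, ⟨98, 99, 147⟩, ⟨300, 625, 10000⟩, ⟨3000, 3312, 1000⟩⟩ (yB3.hC2m true (yB3.pEnd false)) :=
  posD_of_check (c := ⟨441, ⟨3, 8, 16, 11⟩⟩) (by decide +kernel)

def yB3_c3p01 : PosD ⟨⟨0, 1, 1⟩, ⟨98, 99, 147⟩, ⟨300, 625, 10000⟩, ⟨3000, 3312, 1000⟩⟩ (yB3.hC3p false true) :=
  posD_of_check (c := ⟨437, ⟨3, 8, 15, 11⟩⟩) (by decide +kernel)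

def yB3_c3m01 : PosD ⟨⟨0, 1, 1⟩, ⟨98, 99, 147⟩, ⟨300, 625, 10000⟩, ⟨3000, 3312, 1000⟩⟩ (yB3.hC3m false true) :=
  posD_of_check (c := ⟨437, ⟨3, 8, 15, 11⟩⟩) (by decide +kernel)

def yB3_c3ph01 : PosD ⟨⟨0, 1, 1⟩, ⟨98, 99, 147⟩, ⟨300, 625, 10000⟩, ⟨3000, 3312, 1000⟩⟩ (yB3.hC3p' false true) :=
  posD_of_check (c := ⟨437, ⟨3, 8, 15, 11⟩⟩) (by decide +kernel)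

def yB3_c3mh01 : PosD ⟨⟨0, 1, 1⟩, ⟨98, 99, 147⟩, ⟨300, 625, 10000⟩, ⟨3000, 3312, 1000⟩⟩ (yB3.hC3m' false true) :=
  posD_of_check (c := ⟨437, ⟨3, 8, 15, 11⟩⟩) (by decide +kernel)

def yB3_up01 : PosD ⟨⟨0, 1, 1⟩, ⟨98, 99, 147⟩, ⟨300, 625, 10000⟩, ⟨3000, 3312, 1000⟩⟩ (yB3.hUp false true) :=
  posD_of_check (c := ⟨429, ⟨3, 8, 15, 11⟩⟩) (by decide +kernel)

def yB3_um01 : PosD ⟨⟨0, 1, 1⟩, ⟨98, 99, 147⟩, ⟨300, 625, 10000⟩, ⟨3000, 3312, 1000⟩⟩ (yB3.hUm false true) :=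
  posD_of_check (c := ⟨430, ⟨3, 8, 15, 11⟩⟩) (by decide +kernel)

def yB3_tmg01 : PosD ⟨⟨0, 1, 1⟩, ⟨98, 99, 147⟩, ⟨300, 625, 10000⟩, ⟨3000, 3312, 1000⟩⟩ (yB3.hTMG true (yB3.pEnd false)) :=
  posD_of_check (c := ⟨388, ⟨2, 7, 14, 10⟩⟩) (by decide +kernel)

def yB3_kap1 : PosD ⟨⟨0, 1, 1⟩, ⟨98, 99, 147⟩, ⟨300, 625, 10000⟩, ⟨3000, 3312, 1000⟩⟩ (yB3.kap true) :=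
  posD_of_check (c := ⟨71, ⟨1, 1, 2, 2⟩⟩) (by decide +kernel)

def yB3_c11a : PosD ⟨⟨0, 1, 2⟩, ⟨98, 99, 147⟩, ⟨300, 625, 10000⟩, ⟨3000, 3312, 1000⟩⟩ (yB3.hC1 true) :=
  posD_of_check (c := ⟨270, ⟨3, 5, 9, 7⟩⟩) (by decide +kernel)

def yB3_c11b : PosD ⟨⟨1, 2, 2⟩, ⟨98, 99, 147⟩, ⟨300, 625, 10000⟩, ⟨3000, 3312, 1000⟩⟩ (yB3.hC1 true) :=
  posD_of_check (c := ⟨272, ⟨3, 5, 9, 7⟩⟩) (by decide +kernel)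

def yB3_c11 : PosD ⟨⟨0, 1, 1⟩, ⟨98, 99, 147⟩, ⟨300, 625, 10000⟩, ⟨3000, 3312, 1000⟩⟩ (yB3.hC1 true) :=
  posD_units (b := ⟨⟨0, 2, 2⟩, ⟨98, 99, 147⟩, ⟨300, 625, 10000⟩, ⟨3000, 3312, 1000⟩⟩) (by decide +kernel) (posD_join₀ yB3_c11a yB3_c11b)

def yB3_c1h1a : PosD ⟨⟨0, 1, 1⟩, ⟨98, 99, 147⟩, ⟨300, 625, 10000⟩, ⟨3000, 3156, 1000⟩⟩ (yB3.hC1' true) :=
  posD_of_check (c := ⟨270, ⟨3, 5, 9, 7⟩⟩) (by decide +kernel)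

def yB3_c1h1ba : PosD ⟨⟨0, 1, 1⟩, ⟨98, 99, 147⟩, ⟨300, 625, 10000⟩, ⟨3156, 3234, 1000⟩⟩ (yB3.hC1' true) :=
  posD_of_relax (k₁ := 0) (k₂ := 7) (k₃ := 0) (n := 16) (posD_of_check (c := ⟨270, ⟨3, 5, 9, 7⟩⟩) (by decide +kernel))

def yB3_c1h1bba : PosD ⟨⟨0, 1, 1⟩, ⟨98, 99, 147⟩, ⟨300, 625, 10000⟩, ⟨3234, 3273, 1000⟩⟩ (yB3.hC1' true) :=
  posD_of_relax (k₁ := 0) (k₂ := 24) (k₃ := 0) (n := 16) (posD_of_check (c := ⟨270, ⟨3, 5, 9, 7⟩⟩) (by decide +kernel))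

def yB3_c1h1bbb : PosD ⟨⟨0, 1, 1⟩, ⟨98, 99, 147⟩, ⟨300, 625, 10000⟩, ⟨3273, 3312, 1000⟩⟩ (yB3.hC1' true) :=
  posD_of_relax (k₁ := 0) (k₂ := 86) (k₃ := 0) (n := 16) (posD_of_check (c := ⟨270, ⟨3, 5, 9, 7⟩⟩) (by decide +kernel))

def yB3_c1h1bb : PosD ⟨⟨0, 1, 1⟩, ⟨98, 99, 147⟩, ⟨300, 625, 10000⟩, ⟨3234, 3312, 1000⟩⟩ (yB3.hC1' true) :=
  posD_join₃ yB3_c1h1bba yB3_c1h1bbb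

def yB3_c1h1b : PosD ⟨⟨0, 1, 1⟩, ⟨98, 99, 147⟩, ⟨300, 625, 10000⟩, ⟨3156, 3312, 1000⟩⟩ (yB3.hC1' true) :=
  posD_join₃ yB3_c1h1ba yB3_c1h1bb

def yB3_c1h1 : PosD ⟨⟨0, 1, 1⟩, ⟨98, 99, 147⟩, ⟨300, 625, 10000⟩, ⟨3000, 3312, 1000⟩⟩ (yB3.hC1' true) :=
  posD_join₃ yB3_c1h1a yB3_c1h1b

def yB3_tg10 : PosD ⟨⟨0, 1, 1⟩, ⟨98, 99, 147⟩, ⟨300, 625, 10000⟩, ⟨3000, 3312, 1000⟩⟩ (yB3.hG false (yB3.pEnd true)) :=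
  posD_of_check (c := ⟨375, ⟨2, 7, 14, 9⟩⟩) (by decide +kernel)

def yB3_c2p10 : PosD ⟨⟨0, 1, 1⟩, ⟨98, 99, 147⟩, ⟨300, 625, 10000⟩, ⟨3000, 3312, 1000⟩⟩ (yB3.hC2p false (yB3.pEnd true)) :=
  posD_of_check (c := ⟨440, ⟨3, 8, 16, 11⟩⟩) (by decide +kernel)

def yB3_c2m10 : PosD ⟨⟨0, 1, 1⟩, ⟨98, 99, 147⟩, ⟨300, 625, 10000⟩, ⟨3000, 3312, 1000⟩⟩ (yB3.hC2m false (yB3.pEnd true)) :=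
  posD_of_check (c := ⟨442, ⟨3, 8, 16, 11⟩⟩) (by decide +kernel)

def yB3_c3p10 : PosD ⟨⟨0, 1, 1⟩, ⟨98, 99, 147⟩, ⟨300, 625, 10000⟩, ⟨3000, 3312, 1000⟩⟩ (yB3.hC3p true false) :=
  posD_of_check (c := ⟨435, ⟨3, 8, 15, 11⟩⟩) (by decide +kernel)

def yB3_c3m10 : PosD ⟨⟨0, 1, 1⟩, ⟨98, 99, 147⟩, ⟨300, 625, 10000⟩, ⟨3000, 3312, 1000⟩⟩ (yB3.hC3m true false) :=
  posD_of_check (c := ⟨435, ⟨3, 8, 15, 11⟩⟩) (by decide +kernel)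

def yB3_c3ph10 : PosD ⟨⟨0, 1, 1⟩, ⟨98, 99, 147⟩, ⟨300, 625, 10000⟩, ⟨3000, 3312, 1000⟩⟩ (yB3.hC3p' true false) :=
  posD_of_check (c := ⟨435, ⟨3, 8, 15, 11⟩⟩) (by decide +kernel)

def yB3_c3mh10 : PosD ⟨⟨0, 1, 1⟩, ⟨98, 99, 147⟩, ⟨300, 625, 10000⟩, ⟨3000, 3312, 1000⟩⟩ (yB3.hC3m' true false) :=
  posD_of_check (c := ⟨435, ⟨3, 8, 15, 11⟩⟩) (by decide +kernel)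

def yB3_up10 : PosD ⟨⟨0, 1, 1⟩, ⟨98, 99, 147⟩, ⟨300, 625, 10000⟩, ⟨3000, 3312, 1000⟩⟩ (yB3.hUp true false) :=
  posD_of_check (c := ⟨429, ⟨3, 8, 15, 11⟩⟩) (by decide +kernel)

def yB3_um10 : PosD ⟨⟨0, 1, 1⟩, ⟨98, 99, 147⟩, ⟨300, 625, 10000⟩, ⟨3000, 3312, 1000⟩⟩ (yB3.hUm true false) :=
  posD_of_check (c := ⟨430, ⟨3, 8, 15, 11⟩⟩) (by decide +kernel)

def yB3_tmg10 : PosD ⟨⟨0, 1, 1⟩, ⟨98, 99, 147⟩, ⟨300, 625, 10000⟩, ⟨3000, 3312, 1000⟩⟩ (yB3.hTMG false (yB3.pEnd true)) :=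
  posD_of_check (c := ⟨389, ⟨2, 7, 14, 10⟩⟩) (by decide +kernel)

def yB3_tg11 : PosD ⟨⟨0, 1, 1⟩, ⟨98, 99, 147⟩, ⟨300, 625, 10000⟩, ⟨3000, 3312, 1000⟩⟩ (yB3.hG true (yB3.pEnd true)) :=
  posD_of_check (c := ⟨375, ⟨2, 7, 14, 9⟩⟩) (by decide +kernel)

def yB3_c2p11 : PosD ⟨⟨0, 1, 1⟩, ⟨98, 99, 147⟩, ⟨300, 625, 10000⟩, ⟨3000, 3312, 1000⟩⟩ (yB3.hC2p true (yB3.pEnd true)) :=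
  posD_of_check (c := ⟨440, ⟨3, 8, 16, 11⟩⟩) (by decide +kernel)

def yB3_c2m11 : PosD ⟨⟨0, 1, 1⟩, ⟨98, 99, 147⟩, ⟨300, 625, 10000⟩, ⟨3000, 3312, 1000⟩⟩ (yB3.hC2m true (yB3.pEnd true)) :=
  posD_of_check (c := ⟨442, ⟨3, 8, 16, 11⟩⟩) (by decide +kernel)

def yB3_c3p11 : PosD ⟨⟨0, 1, 1⟩, ⟨98, 99, 147⟩, ⟨300, 625, 10000⟩, ⟨3000, 3312, 1000⟩⟩ (yB3.hC3p true true) :=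
  posD_of_check (c := ⟨435, ⟨3, 8, 15, 11⟩⟩) (by decide +kernel)

def yB3_c3m11 : PosD ⟨⟨0, 1, 1⟩, ⟨98, 99, 147⟩, ⟨300, 625, 10000⟩, ⟨3000, 3312, 1000⟩⟩ (yB3.hC3m true true) :=
  posD_of_check (c := ⟨435, ⟨3, 8, 15, 11⟩⟩) (by decide +kernel)

def yB3_c3ph11 : PosD ⟨⟨0, 1, 1⟩, ⟨98, 99, 147⟩, ⟨300, 625, 10000⟩, ⟨3000, 3312, 1000⟩⟩ (yB3.hC3p' true true) :=
  posD_of_check (c := ⟨435, ⟨3, 8, 15, 11⟩⟩) (by decide +kernel)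

def yB3_c3mh11 : PosD ⟨⟨0, 1, 1⟩, ⟨98, 99, 147⟩, ⟨300, 625, 10000⟩, ⟨3000, 3312, 1000⟩⟩ (yB3.hC3m' true true) :=
  posD_of_check (c := ⟨435, ⟨3, 8, 15, 11⟩⟩) (by decide +kernel)

def yB3_up11 : PosD ⟨⟨0, 1, 1⟩, ⟨98, 99, 147⟩, ⟨300, 625, 10000⟩, ⟨3000, 3312, 1000⟩⟩ (yB3.hUp true true) :=
  posD_of_check (c := ⟨430, ⟨3, 8, 15, 11⟩⟩) (by decide +kernel)

def yB3_um11 : PosD ⟨⟨0, 1, 1⟩, ⟨98, 99, 147⟩, ⟨300, 625, 10000⟩, ⟨3000, 3312, 1000⟩⟩ (yB3.hUm true true) :=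
  posD_of_check (c := ⟨431, ⟨3, 8, 15, 11⟩⟩) (by decide +kernel)

def yB3_tmg11 : PosD ⟨⟨0, 1, 1⟩, ⟨98, 99, 147⟩, ⟨300, 625, 10000⟩, ⟨3000, 3312, 1000⟩⟩ (yB3.hTMG true (yB3.pEnd true)) :=
  posD_of_check (c := ⟨389, ⟨2, 7, 14, 10⟩⟩) (by decide +kernel)

/-- The signs of the piece. -/
def yB3_sign : yB3.Sign ⟨⟨0, 1, 1⟩, ⟨98, 99, 147⟩, ⟨300, 625, 10000⟩, ⟨3000, 3312, 1000⟩⟩ :=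
  ⟨yB3_pp,
    yB3_k2p,
    yB3_k2m,
    Bool.forall_bool.2 ⟨(Bool.forall_bool.2 ⟨yB3_tg00, yB3_tg01⟩), (Bool.forall_bool.2 ⟨yB3_tg10, yB3_tg11⟩)⟩,
    Bool.forall_bool.2 ⟨(Bool.forall_bool.2 ⟨yB3_c2p00, yB3_c2p01⟩), (Bool.forall_bool.2 ⟨yB3_c2p10, yB3_c2p11⟩)⟩,
    Bool.forall_bool.2 ⟨(Bool.forall_bool.2 ⟨yB3_c2m00, yB3_c2m01⟩), (Bool.forall_bool.2 ⟨yB3_c2m10, yB3_c2m11⟩)⟩,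
    Bool.forall_bool.2 ⟨yB3_kap0, yB3_kap1⟩,
    Bool.forall_bool.2 ⟨yB3_c10, yB3_c11⟩,
    Bool.forall_bool.2 ⟨(Bool.forall_bool.2 ⟨yB3_c3p00, yB3_c3p01⟩), (Bool.forall_bool.2 ⟨yB3_c3p10, yB3_c3p11⟩)⟩,
    Bool.forall_bool.2 ⟨(Bool.forall_bool.2 ⟨yB3_c3m00, yB3_c3m01⟩), (Bool.forall_bool.2 ⟨yB3_c3m10, yB3_c3m11⟩)⟩,
    Bool.forall_bool.2 ⟨(Bool.forall_bool.2 ⟨yB3_tmg00, yB3_tmg01⟩), (Bool.forall_bool.2 ⟨yB3_tmg10, yB3_tmg11⟩)⟩,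
    .inr (Bool.forall_bool.2 ⟨⟨yB3_c1h0, Bool.forall_bool.2 ⟨⟨yB3_c3ph00, yB3_c3mh00, yB3_up00, yB3_um00⟩, ⟨yB3_c3ph01, yB3_c3mh01, yB3_up01, yB3_um01⟩⟩⟩, ⟨yB3_c1h1, Bool.forall_bool.2 ⟨⟨yB3_c3ph10, yB3_c3mh10, yB3_up10, yB3_um10⟩, ⟨yB3_c3ph11, yB3_c3mh11, yB3_up11, yB3_um11⟩⟩⟩⟩),
    yB3_v2p,
    yB3_v2m,
    yB3_v3p,
    yB3_v3m,
    posD_sub (b := ⟨⟨0, 1, 1⟩, ⟨98, 99, 147⟩, ⟨300, 625, 10000⟩, ⟨1020, 4000, 1000⟩⟩) (by decide +kernel) yB_vG,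
    posD_sub (b := ⟨⟨0, 1, 1⟩, ⟨98, 99, 147⟩, ⟨300, 625, 10000⟩, ⟨1020, 4000, 1000⟩⟩) (by decide +kernel) yB_vMG,
    posD_sub (b := ⟨⟨0, 1, 1⟩, ⟨98, 99, 147⟩, ⟨300, 625, 10000⟩, ⟨1020, 4000, 1000⟩⟩) (by decide +kernel) yB_ak,
    posD_sub (b := ⟨⟨0, 1, 1⟩, ⟨98, 99, 147⟩, ⟨300, 625, 10000⟩, ⟨1020, 4000, 1000⟩⟩) (by decide +kernel) yB_aw,
    posD_sub (b := ⟨⟨0, 1, 1⟩, ⟨98, 99, 147⟩, ⟨300, 625, 10000⟩, ⟨1020, 4000, 1000⟩⟩) (by decide +kernel) yB_gk,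
    posD_sub (b := ⟨⟨0, 1, 1⟩, ⟨98, 99, 147⟩, ⟨300, 625, 10000⟩, ⟨1020, 4000, 1000⟩⟩) (by decide +kernel) yB_gw,
    posD_sub (b := ⟨⟨0, 1, 1⟩, ⟨98, 99, 147⟩, ⟨300, 625, 10000⟩, ⟨1020, 4000, 1000⟩⟩) (by decide +kernel) yB_ek,
    posD_sub (b := ⟨⟨0, 1, 1⟩, ⟨98, 99, 147⟩, ⟨300, 625, 10000⟩, ⟨1020, 4000, 1000⟩⟩) (by decide +kernel) yB_ew⟩

end Vale.Agent.P100.Calib.Closed.Six.Tail
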