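import Vale.Agent.P100.Calib.SlabSixTailCorner
import Vale.Agent.P100.Calib.SlabSixTailChecksyB0
import Vale.Agent.P100.Calib.SlabSixTailChecksyB1
import Vale.Agent.P100.Calib.SlabSixTailChecksyB2
import Vale.Agent.P100.Calib.SlabSixTailChecksyB3

/-!
# The closed signs of dimension six on one part of the tail
-/

set_option linter.unusedVariables false

namespace Vale.Agent.P100.Calib.Closed.Six.Tail

open BoxPos Large
local instance sixTailMainLayerBAdd : Add Ex := ⟨Ex.add⟩
local instance sixTailMainLayerBSub : Sub Ex := ⟨Ex.sub⟩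
local instance sixTailMainLayerBMul : Mul Ex := ⟨Ex.mul⟩

theorem yB0_ok {d S u v t : ℝ} (hB : Six.ChartBox d S) (hd : 0 < d) (hS0 : 0 < S) (T : Pt d S u v t)
    (md : Side.Mem ⟨300, 625, 10000⟩ d) (mv : Side.Mem ⟨1030, 1500, 1000⟩ v) (hul : (9749 / 10000 : ℝ) < u) (huh : u ≤ (1 + -(2 / 5) * d : ℝ))
    (hphi : v < Six.bandsB.phi d u) (hlow : lowEnd d < t)
    (hup : t < (23 / 50 + 15 * d - 175 * d ^ 2 + v / 10) / (1 - u + d)) :
    Six.ChartSigns d S u v t := by
  have mS := T.S_mem
  exact piece_signs yB0_env yB0_sign (by decide +kernel) T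
    ⟨rfl, mS, md, mv, by decide +kernel, by decide +kernel, by norm_num [yB0, ex_add, ex_sub, ex_mul, Ex.val]; linarith, by norm_num [yB0, ex_add, ex_sub, ex_mul, Ex.val]; linarith,
      fun o mo hx => by
        have hD := yB0_env.den false o S d v mo mS md mv T.dom
        have hD' := yB0_env.den true o S d v mo mS md mv T.dom
        exact ⟨lowEnd_le (x := yB0.xU) hD hlow, layU_le hx hD' hup⟩⟩

theorem yB1_ok {d S u v t : ℝ} (hB : Six.ChartBox d S) (hd : 0 < d) (hS0 : 0 < S) (T : Pt d S u v t)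
    (md : Side.Mem ⟨300, 625, 10000⟩ d) (mv : Side.Mem ⟨1500, 2200, 1000⟩ v) (hul : (9749 / 10000 : ℝ) < u) (huh : u ≤ (1 + -(2 / 5) * d : ℝ))
    (hphi : v < Six.bandsB.phi d u) (hlow : lowEnd d < t)
    (hup : t < (23 / 50 + 15 * d - 175 * d ^ 2 + v / 10) / (1 - u + d)) :
    Six.ChartSigns d S u v t := by
  have mS := T.S_mem
  exact piece_signs yB1_env yB1_sign (by decide +kernel) T
    ⟨rfl, mS, md, mv, by decide +kernel, by decide +kernel, by norm_num [yB1, ex_add, ex_sub, ex_mul, Ex.val]; linarith, by norm_num [yB1, ex_add, ex_sub, ex_mul, Ex.val]; linarith,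
      fun o mo hx => by
        have hD := yB1_env.den false o S d v mo mS md mv T.dom
        have hD' := yB1_env.den true o S d v mo mS md mv T.dom
        exact ⟨lowEnd_le (x := yB1.xU) hD hlow, layU_le hx hD' hup⟩⟩

theorem yB2_ok {d S u v t : ℝ} (hB : Six.ChartBox d S) (hd : 0 < d) (hS0 : 0 < S) (T : Pt d S u v t)
    (md : Side.Mem ⟨300, 625, 10000⟩ d) (mv : Side.Mem ⟨2200, 3000, 1000⟩ v) (hul : (9749 / 10000 : ℝ) < u) (huh : u ≤ (1 + -(2 / 5) * d : ℝ))
    (hphi : v < Six.bandsB.phi d u) (hlow : lowEnd d < t)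
    (hup : t < (23 / 50 + 15 * d - 175 * d ^ 2 + v / 10) / (1 - u + d)) :
    Six.ChartSigns d S u v t := by
  have mS := T.S_mem
  exact piece_signs_cut yB2_env yB2_envU yB2A_sign yB2B_sign (by decide +kernel) (by decide +kernel) T
    ⟨rfl, mS, md, mv, by decide +kernel, by decide +kernel, by norm_num [yB2, ex_add, ex_sub, ex_mul, Ex.val]; linarith, by norm_num [yB2, ex_add, ex_sub, ex_mul, Ex.val]; linarith,
      fun o mo hx => by
        have hD := yB2_env.den false o S d v mo mS md mv T.dom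
        have hD' := yB2_env.den true o S d v mo mS md mv T.dom
        exact ⟨lowEnd_le (x := yB2.xU) hD hlow, evU yB2_env.p0 yB2_env.gn rfl rfl mo mS md mv T hx⟩⟩

theorem yB3_ok {d S u v t : ℝ} (hB : Six.ChartBox d S) (hd : 0 < d) (hS0 : 0 < S) (T : Pt d S u v t)
    (md : Side.Mem ⟨300, 625, 10000⟩ d) (mv : Side.Mem ⟨3000, 3312, 1000⟩ v) (hul : (9749 / 10000 : ℝ) < u) (huh : u ≤ (1 + -(2 / 5) * d : ℝ))
    (hphi : v < Six.bandsB.phi d u) (hlow : lowEnd d < t)
    (hup : t < (23 / 50 + 15 * d - 175 * d ^ 2 + v / 10) / (1 - u + d)) :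
    Six.ChartSigns d S u v t := by
  have mS := T.S_mem
  exact piece_signs yB3_env yB3_sign (by decide +kernel) T
    ⟨rfl, mS, md, mv, by decide +kernel, by decide +kernel, by norm_num [yB3, ex_add, ex_sub, ex_mul, Ex.val]; linarith, by norm_num [yB3, ex_add, ex_sub, ex_mul, Ex.val]; linarith,
      fun o mo hx => by
        have hD := yB3_env.den false o S d v mo mS md mv T.dom
        have hD' := yB3_env.den true o S d v mo mS md mv T.dom
        exact ⟨lowEnd_le (x := yB3.xU) hD hlow, evU yB3_env.p0 yB3_env.gn rfl rfl mo mS md mv T hx⟩⟩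

/-- **The closed signs on this part of the tail.** -/
theorem signsLayerB : Six.SignsLayer Six.bandsB (3 / 100) (27 / 200) := by
  intro d S u v t hB h0 h1 hd16 hu hu1 hF hphi hpsi hlow hup
  have hd := hB.pos
  have hS0 : 0 < S := by linarith [hB.S_low]
  have hdS : d ≤ S := by linarith [hB.S_low, hB.tri]
  have hD := dom_of hB hF
  have hv := hF.v_low
  have hd3 : d < 1 / 3 := by linarith [hB.S_low, hB.tri]
  have hv0 : 103 / 100 ≤ v := by simp only [psi] at hpsi; linarith
  have hv4 : v < 4 := by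
    by_contra hne
    have h4 := not_lt.1 hne
    nlinarith [hF.kap, hF.r_lt, hB.S_low, mul_le_mul_of_nonneg_left h4 (mul_nonneg hS0.le hd.le), mul_le_mul_of_nonneg_left h4 (sub_nonneg.2 hdS)]
  have mS : Side.Mem ⟨98, 99, 147⟩ S := by
    simp only [Side.Mem]; norm_num; constructor <;> linarith [hB.S_low, hB.S_high]
  have mu : Side.Mem ⟨974, 1000, 1000⟩ u := by simp only [Side.Mem]; norm_num; constructor <;> linarith
  have md0 : Side.Mem ⟨300, 625, 10000⟩ d := by simp only [Side.Mem]; norm_num; constructor <;> linarith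
  have mv0 : Side.Mem ⟨1020, 4000, 1000⟩ v := by simp only [Side.Mem]; norm_num; constructor <;> linarith
  have ht : 0 ≤ t := by
    have k1 := yB_lowN u S d v mu mS md0 mv0 hD
    have k2 := yB_lowD u S d v mu mS md0 mv0 hD
    have k := lowEnd_le (x := xO) k2 hlow
    exact (pos_of_mul_pos_left (k1.trans_le k) k2.le).le
  have T : Pt d S u v t := ⟨hd, hD, hB.S_low, hB.S_high, hdS, mS, hF,
    llg_nonneg yB_llgLo yB_llgHi mu mS md0 mv0 hd hD hS0 (by linarith [hB.S_high]) ht hdS (by linarith) hF⟩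
  rcases lt_or_ge v (2200 / 1000 : ℝ) with h2 | h2
  · rcases lt_or_ge v (1500 / 1000 : ℝ) with h4 | h4
    · exact yB0_ok hB hd hS0 T (by simp only [Side.Mem]; norm_num; constructor <;> linarith) (by simp only [Side.Mem]; norm_num; constructor <;> linarith) (by linarith) (by linarith) hphi hlow hup
    · exact yB1_ok hB hd hS0 T (by simp only [Side.Mem]; norm_num; constructor <;> linarith) (by simp only [Side.Mem]; norm_num; constructor <;> linarith) (by linarith) (by linarith) hphi hlow hup
  · rcases lt_or_ge v (3000 / 1000 : ℝ) with h4 | h4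
    · exact yB2_ok hB hd hS0 T (by simp only [Side.Mem]; norm_num; constructor <;> linarith) (by simp only [Side.Mem]; norm_num; constructor <;> linarith) (by linarith) (by linarith) hphi hlow hup
    · rcases lt_or_ge v (3312 / 1000 : ℝ) with h6 | h6
      · exact yB3_ok hB hd hS0 T (by simp only [Side.Mem]; norm_num; constructor <;> linarith) (by simp only [Side.Mem]; norm_num; constructor <;> linarith) (by linarith) (by linarith) hphi hlow hup
      · exfalso
        have k : (2 / 3 - 1 / 16) * (414 / 125 : ℝ) ≤ (S - d) * v := mul_le_mul (by linarith [T.S_low]) (by linarith) (by norm_num) (by linarith [T.S_low])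
        linarith [T.dom.rlt]

end Vale.Agent.P100.Calib.Closed.Six.Tail
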