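import Mathlib
import Vale.Agent.P100.Calib.SlabAssemblySixSigns
import Vale.Agent.P100.Calib.SlabSixTailB
import Vale.Agent.P100.Calib.SlabSixTailC
import Vale.Agent.P100.Calib.SlabSixTailLayerA
import Vale.Agent.P100.Calib.SlabSixTailLayerB

/-!
# The Lane–Emden conjecture in dimension six
-/

open Laplacian

namespace Vale.Agent.P100.Calib

open Band Closed

/-- **The Lane–Emden conjecture in dimension six**: no positive solution of `-Δu = v^p`,
`-Δv = u^q` on `ℝ⁶` below the critical hyperbola. -/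
theorem lane_emden_six_all {p q : ℝ} (hp : 0 < p) (hq : 0 < q)
    (hsub : (2 : ℝ) / 3 < 1 / (p + 1) + 1 / (q + 1)) :
    ¬ ∃ u v : EuclideanSpace ℝ (Fin 6) → ℝ,
      Continuous u ∧ Continuous v ∧ ContDiffOn ℝ 2 u {0}ᶜ ∧ ContDiffOn ℝ 2 v {0}ᶜ ∧
      (∀ x, 0 < u x) ∧ (∀ x, 0 < v x) ∧ (∀ x, x ≠ 0 → Δ u x = -(v x) ^ p) ∧
      (∀ x, x ≠ 0 → Δ v x = -(u x) ^ q) :=
  lane_emden_six_of_signs Six.Tail.signsTailB Six.Tail.signsTailC Six.Tail.signsLayerA
    Six.Tail.signsLayerB hp hq hsub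

end Vale.Agent.P100.Calib
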