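import Vale.Agent.P100.Calib.ConeFinalAll
import Vale.Agent.P100.Calib.SlabFiveMain
import Vale.Agent.P100.Calib.SlabSixMain
import Vale.Agent.P100.SoupletW.LowDim

/-!
# The Lane–Emden conjecture in every dimension, from the charts of the end of the strip
-/

set_option linter.unusedVariables false

open Set Laplacian

namespace Vale.Agent.P100.Calib.Band

/-- **The Lane–Emden conjecture in every dimension `n ≥ 3`.** -/
theorem lane_emden_every_of_certs (hZ : StripEnd.CertsIZ 20) (hC : StripEnd.CertsC 20)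
    (hD : StripEnd.CertsD 20) (hZ7 : StripEnd.CertsIZ7 7) (hC7 : StripEnd.CertsC7 7)
    (hD7 : StripEnd.CertsD7 7) {n : ℕ} (hn : 3 ≤ n) {p q : ℝ} (hp : 0 < p) (hq : 0 < q)
    (hsub : ((n : ℝ) - 2) / n < 1 / (p + 1) + 1 / (q + 1)) :
    ¬ ∃ u v : EuclideanSpace ℝ (Fin n) → ℝ,
      Continuous u ∧ Continuous v ∧ ContDiffOn ℝ 2 u {0}ᶜ ∧ ContDiffOn ℝ 2 v {0}ᶜ ∧
      (∀ x, 0 < u x) ∧ (∀ x, 0 < v x) ∧ (∀ x, x ≠ 0 → Δ u x = -(v x) ^ p) ∧
      (∀ x, x ≠ 0 → Δ v x = -(u x) ^ q) := by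
  rcases le_or_gt n 4 with h4 | h4
  · have hn' : (0 : ℝ) < n := Nat.cast_pos.2 (by omega)
    have h := SoupletW.no_solution_equal_weight_low hn h4 (le_refl (0 : ℝ)) hp hq (by
      rw [div_lt_iff₀ hn'] at hsub
      rw [add_zero, div_eq_mul_one_div (n : ℝ) (p + 1), div_eq_mul_one_div (n : ℝ) (q + 1)]
      linarith)
    simpa [Real.rpow_zero] using h
  obtain rfl | rfl | h7 : n = 5 ∨ n = 6 ∨ 7 ≤ n := by omega
  · exact lane_emden_five_all hp hq (by norm_num at hsub ⊢; linarith)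
  · exact lane_emden_six_all hp hq (by norm_num at hsub ⊢; linarith)
  · exact lane_emden_seven_up_of_certs hZ hC hD hZ7 hC7 hD7 h7 hp hq hsub

end Vale.Agent.P100.Calib.Band
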