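import Vale.Agent.P100.Calib.SlabStripMidChart

/-!
# The checks of piece 1 on `153/200 < u ≤ 4/5`
-/

set_option linter.defProp false

namespace Vale.Agent.P100.Calib.StripMid

open Pack

/-- The numbers of piece 1. -/
def pf1 : Piece :=
  ⟨.B, (153, 200), (4, 5), (1, 1), (39, 100), (7, 4), (199, 500), (489, 1000),
    (967, 1000), (971, -5850, 1000), (251, -1050, 250), 38, (-36, -70, 877, 10), (199, 500), (627, 1000), (9, 20),
    (1, 1), (7, 4)⟩

/-- The ranges of piece 1. -/
def boxf1 : Box :=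
  ⟨(0, 1, 19), (0, 19, 18), (71, 701, 100), (39, 175, 100),
    (153, 160, 200)⟩

/-- A check of piece 1. -/
def chkf1_0 : Chk (boxf1.cC) (bound pf1 false .l0) :=
  ⟨204, 14, 13, 2, 3, by decide +kernel⟩
/-- A check of piece 1. -/
def chkf1_1 : Chk (boxf1.cC) (bound pf1 false .l1) :=
  ⟨205, 14, 13, 2, 3, by decide +kernel⟩
/-- A check of piece 1. -/
def chkf1_2 : Chk (boxf1.cC) (bound pf1 false .r) :=
  ⟨205, 14, 13, 2, 3, by decide +kernel⟩
/-- A check of piece 1. -/
def chkf1_3 : Chk (boxf1.cC) (bound pf1 false .g0) :=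
  ⟨86, 5, 4, 1, 2, by decide +kernel⟩
/-- A check of piece 1. -/
def chkf1_4 : Chk (boxf1.cC) (bound pf1 false .g1) :=
  ⟨87, 5, 4, 1, 2, by decide +kernel⟩
/-- A check of piece 1. -/
def chkf1_5 : Chk (boxf1.cC) (bound pf1 false .t0) :=
  ⟨136, 9, 6, 2, 3, by decide +kernel⟩
/-- A check of piece 1. -/
def chkf1_6 : Chk (boxf1.cC) (bound pf1 false .t1) :=
  ⟨134, 9, 6, 2, 3, by decide +kernel⟩
/-- A check of piece 1. -/
def chkf1_7 : Chk (boxf1.cC) (bound pf1 false .w0) :=
  ⟨183, 12, 10, 3, 4, by decide +kernel⟩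
/-- A check of piece 1. -/
def chkf1_8 : Chk (boxf1.cC) (bound pf1 false .w1) :=
  ⟨186, 12, 10, 3, 4, by decide +kernel⟩
/-- A check of piece 1. -/
def chkf1_9 : Chk (boxf1.cC) (bound pf1 true .l0) :=
  ⟨204, 14, 13, 2, 3, by decide +kernel⟩
/-- A check of piece 1. -/
def chkf1_10 : Chk (boxf1.cC) (bound pf1 true .l1) :=
  ⟨205, 14, 13, 2, 3, by decide +kernel⟩
/-- A check of piece 1. -/
def chkf1_11 : Chk (boxf1.cC) (bound pf1 true .r) :=
  ⟨205, 14, 13, 2, 3, by decide +kernel⟩
/-- A check of piece 1. -/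
def chkf1_12 : Chk (boxf1.cC) (bound pf1 true .g0) :=
  ⟨86, 5, 4, 1, 2, by decide +kernel⟩
/-- A check of piece 1. -/
def chkf1_13 : Chk (boxf1.cC) (bound pf1 true .g1) :=
  ⟨87, 5, 4, 1, 2, by decide +kernel⟩
/-- A check of piece 1. -/
def chkf1_14 : Chk (boxf1.cC) (bound pf1 true .t0) :=
  ⟨136, 9, 6, 2, 3, by decide +kernel⟩
/-- A check of piece 1. -/
def chkf1_15 : Chk (boxf1.cC) (bound pf1 true .t1) :=
  ⟨134, 9, 6, 2, 3, by decide +kernel⟩
/-- A check of piece 1. -/
def chkf1_16 : Chk (boxf1.cC) (bound pf1 true .w0) :=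
  ⟨183, 12, 10, 3, 4, by decide +kernel⟩
/-- A check of piece 1. -/
def chkf1_17 : Chk (boxf1.cC) (bound pf1 true .w1) :=
  ⟨186, 12, 10, 3, 4, by decide +kernel⟩
/-- A check of piece 1. -/
def chkf1_18 : Chk (boxf1.vC) (subst (sub pf1 ⟨false, false, true, true, false⟩) (condX)) :=
  ⟨217, 15, 13, 4, 0, by decide +kernel⟩
/-- A check of piece 1. -/
def chkf1_19 : Chk (boxf1.vC) (subst (sub pf1 ⟨false, true, true, true, false⟩) (condX)) :=
  ⟨218, 15, 13, 4, 0, by decide +kernel⟩
/-- A check of piece 1. -/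
def chkf1_20 : Chk (boxf1.vC) (subst (sub pf1 ⟨true, false, true, true, false⟩) (condX)) :=
  ⟨217, 15, 13, 4, 0, by decide +kernel⟩
/-- A check of piece 1. -/
def chkf1_21 : Chk (boxf1.vC) (subst (sub pf1 ⟨true, true, true, true, false⟩) (condX)) :=
  ⟨218, 15, 13, 4, 0, by decide +kernel⟩
/-- A check of piece 1. -/
def chkf1_22 : Chk (boxf1.vC) (subst (sub pf1 ⟨false, false, true, false, false⟩) (tplMG)) :=
  ⟨411, 30, 26, 6, 0, by decide +kernel⟩
/-- A check of piece 1. -/
def chkf1_23 : Chk (boxf1.vC) (subst (sub pf1 ⟨false, true, true, false, false⟩) (tplMG)) :=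
  ⟨413, 30, 26, 6, 0, by decide +kernel⟩
/-- A check of piece 1. -/
def chkf1_24 : Chk (boxf1.vC) (subst (sub pf1 ⟨true, false, true, false, false⟩) (tplMG)) :=
  ⟨411, 30, 26, 6, 0, by decide +kernel⟩
/-- A check of piece 1. -/
def chkf1_25 : Chk (boxf1.vC) (subst (sub pf1 ⟨true, true, true, false, false⟩) (tplMG)) :=
  ⟨413, 30, 26, 6, 0, by decide +kernel⟩
/-- A check of piece 1. -/
def chkf1_26 : Chk (boxf1.vC) (subst (sub pf1 ⟨false, false, false, false, false⟩) (pf1.m1)) :=
  ⟨274, 19, 17, 4, 0, by decide +kernel⟩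
/-- A check of piece 1. -/
def chkf1_27 : Chk (boxf1.vC) (subst (sub pf1 ⟨false, true, false, false, false⟩) (pf1.m1)) :=
  ⟨275, 19, 17, 4, 0, by decide +kernel⟩
/-- A check of piece 1. -/
def chkf1_28 : Chk (boxf1.vC) (subst (sub pf1 ⟨true, false, false, false, false⟩) (pf1.m1)) :=
  ⟨274, 19, 17, 4, 0, by decide +kernel⟩
/-- A check of piece 1. -/
def chkf1_29 : Chk (boxf1.vC) (subst (sub pf1 ⟨true, true, false, false, false⟩) (pf1.m1)) :=
  ⟨275, 19, 17, 4, 0, by decide +kernel⟩
/-- A check of piece 1. -/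
def chkf1_30 : Chk (boxf1.vC) (subst (sub pf1 ⟨false, false, true, false, false⟩) (strict (pf1.m2 false))) :=
  ⟨448, 28, 24, 6, 0, by decide +kernel⟩
/-- A check of piece 1. -/
def chkf1_31 : Chk (boxf1.vC) (subst (sub pf1 ⟨false, false, true, false, true⟩) (strict (pf1.m2 false))) :=
  ⟨444, 28, 24, 6, 0, by decide +kernel⟩
/-- A check of piece 1. -/
def chkf1_32 : Chk (boxf1.vC) (subst (sub pf1 ⟨true, false, true, false, false⟩) (strict (pf1.m2 false))) :=
  ⟨448, 28, 24, 6, 0, by decide +kernel⟩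
/-- A check of piece 1. -/
def chkf1_33 : Chk (boxf1.vC) (subst (sub pf1 ⟨true, false, true, false, true⟩) (strict (pf1.m2 false))) :=
  ⟨444, 28, 24, 6, 0, by decide +kernel⟩
/-- A check of piece 1. -/
def chkf1_34 : Chk (boxf1.vC) (subst (sub pf1 ⟨false, true, true, false, false⟩) (strict (pf1.m2 true))) :=
  ⟨447, 28, 24, 6, 0, by decide +kernel⟩
/-- A check of piece 1. -/
def chkf1_35 : Chk (boxf1.vC) (subst (sub pf1 ⟨false, true, true, false, true⟩) (strict (pf1.m2 true))) :=
  ⟨443, 28, 24, 6, 0, by decide +kernel⟩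
/-- A check of piece 1. -/
def chkf1_36 : Chk (boxf1.vC) (subst (sub pf1 ⟨true, true, true, false, false⟩) (strict (pf1.m2 true))) :=
  ⟨447, 28, 24, 6, 0, by decide +kernel⟩
/-- A check of piece 1. -/
def chkf1_37 : Chk (boxf1.vC) (subst (sub pf1 ⟨true, true, true, false, true⟩) (strict (pf1.m2 true))) :=
  ⟨443, 28, 24, 6, 0, by decide +kernel⟩
/-- A check of piece 1. -/
def chkf1_38 : Chk (boxf1.vC) (subst (sub pf1 ⟨false, false, true, true, false⟩) (strict (pf1.m3 false))) :=
  ⟨545, 35, 31, 6, 0, by decide +kernel⟩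
/-- A check of piece 1. -/
def chkf1_39 : Chk (boxf1.vC) (subst (sub pf1 ⟨false, false, true, true, true⟩) (strict (pf1.m3 false))) :=
  ⟨543, 35, 31, 6, 0, by decide +kernel⟩
/-- A check of piece 1. -/
def chkf1_40 : Chk (boxf1.vC) (subst (sub pf1 ⟨false, true, true, true, false⟩) (strict (pf1.m3 false))) :=
  ⟨547, 35, 31, 6, 0, by decide +kernel⟩
/-- A check of piece 1. -/
def chkf1_41 : Chk (boxf1.vC) (subst (sub pf1 ⟨false, true, true, true, true⟩) (strict (pf1.m3 false))) :=
  ⟨545, 35, 31, 6, 0, by decide +kernel⟩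
/-- A check of piece 1. -/
def chkf1_42 : Chk (boxf1.vC) (subst (sub pf1 ⟨true, false, true, true, false⟩) (strict (pf1.m3 false))) :=
  ⟨545, 35, 31, 6, 0, by decide +kernel⟩
/-- A check of piece 1. -/
def chkf1_43 : Chk (boxf1.vC) (subst (sub pf1 ⟨true, false, true, true, true⟩) (strict (pf1.m3 false))) :=
  ⟨543, 35, 31, 6, 0, by decide +kernel⟩
/-- A check of piece 1. -/
def chkf1_44 : Chk (boxf1.vC) (subst (sub pf1 ⟨true, true, true, true, false⟩) (strict (pf1.m3 false))) :=
  ⟨547, 35, 31, 6, 0, by decide +kernel⟩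
/-- A check of piece 1. -/
def chkf1_45 : Chk (boxf1.vC) (subst (sub pf1 ⟨true, true, true, true, true⟩) (strict (pf1.m3 false))) :=
  ⟨545, 35, 31, 6, 0, by decide +kernel⟩
/-- A check of piece 1. -/
def chkf1_46 : Chk (boxf1.vC) (subst (sub pf1 ⟨false, false, true, true, false⟩) (strict (pf1.m3 true))) :=
  ⟨543, 35, 31, 6, 0, by decide +kernel⟩
/-- A check of piece 1. -/
def chkf1_47 : Chk (boxf1.vC) (subst (sub pf1 ⟨false, false, true, true, true⟩) (strict (pf1.m3 true))) :=
  ⟨541, 35, 31, 6, 0, by decide +kernel⟩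
/-- A check of piece 1. -/
def chkf1_48 : Chk (boxf1.vC) (subst (sub pf1 ⟨false, true, true, true, false⟩) (strict (pf1.m3 true))) :=
  ⟨545, 35, 31, 6, 0, by decide +kernel⟩
/-- A check of piece 1. -/
def chkf1_49 : Chk (boxf1.vC) (subst (sub pf1 ⟨false, true, true, true, true⟩) (strict (pf1.m3 true))) :=
  ⟨543, 35, 31, 6, 0, by decide +kernel⟩
/-- A check of piece 1. -/
def chkf1_50 : Chk (boxf1.vC) (subst (sub pf1 ⟨true, false, true, true, false⟩) (strict (pf1.m3 true))) :=
  ⟨543, 35, 31, 6, 0, by decide +kernel⟩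
/-- A check of piece 1. -/
def chkf1_51 : Chk (boxf1.vC) (subst (sub pf1 ⟨true, false, true, true, true⟩) (strict (pf1.m3 true))) :=
  ⟨541, 35, 31, 6, 0, by decide +kernel⟩
/-- A check of piece 1. -/
def chkf1_52 : Chk (boxf1.vC) (subst (sub pf1 ⟨true, true, true, true, false⟩) (strict (pf1.m3 true))) :=
  ⟨545, 35, 31, 6, 0, by decide +kernel⟩
/-- A check of piece 1. -/
def chkf1_53 : Chk (boxf1.vC) (subst (sub pf1 ⟨true, true, true, true, true⟩) (strict (pf1.m3 true))) :=
  ⟨543, 35, 31, 6, 0, by decide +kernel⟩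
/-- A check of piece 1. -/
def chkf1_54 : Chk (boxf1.vC) (subst (sub pf1 ⟨false, false, true, true, false⟩) (negEx coMG12)) :=
  ⟨104, 8, 5, 4, 0, by decide +kernel⟩
/-- A check of piece 1. -/
def chkf1_55 : Chk (boxf1.vC) (subst (sub pf1 ⟨false, false, true, true, false⟩) (negEx (pf1.curve2 false))) :=
  ⟨115, 9, 5, 4, 0, by decide +kernel⟩
/-- A check of piece 1. -/
def chkf1_56 : Chk (boxf1.vC) (subst (sub pf1 ⟨false, false, true, true, false⟩) (negEx (pf1.curve2 true))) :=
  ⟨112, 9, 5, 4, 0, by decide +kernel⟩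
/-- A check of piece 1. -/
def chkf1_57 : Chk (boxf1.vC) (subst (sub pf1 ⟨false, false, true, true, false⟩) (negEx (pf1.curve3 false))) :=
  ⟨117, 9, 6, 4, 0, by decide +kernel⟩
/-- A check of piece 1. -/
def chkf1_58 : Chk (boxf1.vC) (subst (sub pf1 ⟨false, false, true, true, false⟩) (negEx (pf1.curve3 true))) :=
  ⟨115, 9, 6, 4, 0, by decide +kernel⟩
/-- A check of piece 1. -/
def chkf1_59 : Chk (boxf1.vC) (subst (sub pf1 ⟨false, false, true, true, false⟩) (slopeT)) :=
  ⟨123, 10, 7, 4, 0, by decide +kernel⟩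
/-- A check of piece 1. -/
def chkf1_60 : Chk (boxf1.vC) (subst (sub pf1 ⟨true, false, true, true, false⟩) (slopeT)) :=
  ⟨123, 10, 7, 4, 0, by decide +kernel⟩
/-- A check of piece 1. -/
def chkf1_61 : Chk (boxf1.gC true) (subst (gapSub pf1 true false false) tplL) :=
  ⟨337, 26, 22, 5, 2, by decide +kernel⟩
/-- A check of piece 1. -/
def chkf1_62 : Chk (boxf1.gC true) (subst (gapSub pf1 true false true) tplL) :=
  ⟨335, 26, 22, 5, 2, by decide +kernel⟩
/-- A check of piece 1. -/
def chkf1_63 : Chk (boxf1.gC true) (subst (gapSub pf1 true true false) tplL) :=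
  ⟨337, 26, 22, 5, 2, by decide +kernel⟩
/-- A check of piece 1. -/
def chkf1_64 : Chk (boxf1.gC true) (subst (gapSub pf1 true true true) tplL) :=
  ⟨335, 26, 22, 5, 2, by decide +kernel⟩

/-- Piece 1 passes. -/
theorem certf1 : Cert pf1 boxf1 true where
  pos := by
    refine ⟨⟨⟨?_, ?_, ?_, ?_, ?_, ?_, ?_⟩, ?_, ?_, ?_, ?_, ?_, ?_, ?_, ?_, ?_, ?_, ?_⟩, ?_, ?_⟩ <;>
      norm_num [fr, pf1]
  gX := fun p l => match p, l with
    | false, false => chkf1_18
    | false, true => chkf1_19
    | true, false => chkf1_20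
    | true, true => chkf1_21
  gMG := fun p l => match p, l with
    | false, false => chkf1_22
    | false, true => chkf1_23
    | true, false => chkf1_24
    | true, true => chkf1_25
  g1 := fun p l => match p, l with
    | false, false => chkf1_26
    | false, true => chkf1_27
    | true, false => chkf1_28
    | true, true => chkf1_29
  g2 := fun s p t => match s, p, t with
    | false, false, false => chkf1_30
    | false, false, true => chkf1_31
    | false, true, false => chkf1_32
    | false, true, true => chkf1_33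
    | true, false, false => chkf1_34
    | true, false, true => chkf1_35
    | true, true, false => chkf1_36
    | true, true, true => chkf1_37
  g3 := fun s p l t => match s, p, l, t with
    | false, false, false, false => chkf1_38
    | false, false, false, true => chkf1_39
    | false, false, true, false => chkf1_40
    | false, false, true, true => chkf1_41
    | false, true, false, false => chkf1_42
    | false, true, false, true => chkf1_43
    | false, true, true, false => chkf1_44
    | false, true, true, true => chkf1_45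
    | true, false, false, false => chkf1_46
    | true, false, false, true => chkf1_47
    | true, false, true, false => chkf1_48
    | true, false, true, true => chkf1_49
    | true, true, false, false => chkf1_50
    | true, true, false, true => chkf1_51
    | true, true, true, false => chkf1_52
    | true, true, true, true => chkf1_53
  cMG := chkf1_54
  c2 := fun s => match s with
    | false => chkf1_55
    | true => chkf1_56
  c3 := fun s => match s with
    | false => chkf1_57
    | true => chkf1_58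
  sT := fun p => match p with
    | false => chkf1_59
    | true => chkf1_60
  bnd := fun ze b => match ze, b with
    | false, .l0 => chkf1_0
    | false, .l1 => chkf1_1
    | false, .r => chkf1_2
    | false, .g0 => chkf1_3
    | false, .g1 => chkf1_4
    | false, .t0 => chkf1_5
    | false, .t1 => chkf1_6
    | false, .w0 => chkf1_7
    | false, .w1 => chkf1_8
    | true, .l0 => chkf1_9
    | true, .l1 => chkf1_10
    | true, .r => chkf1_11
    | true, .g0 => chkf1_12
    | true, .g1 => chkf1_13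
    | true, .t0 => chkf1_14
    | true, .t1 => chkf1_15
    | true, .w0 => chkf1_16
    | true, .w1 => chkf1_17
  gap := fun ze t => match ze, t with
    | false, false => chkf1_61
    | false, true => chkf1_62
    | true, false => chkf1_63
    | true, true => chkf1_64

end Vale.Agent.P100.Calib.StripMid
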