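import Vale.Agent.P100.Calib.SlabStripMidChart

/-!
# The checks of piece 2 on `153/200 < u ≤ 4/5`
-/

set_option linter.defProp false

namespace Vale.Agent.P100.Calib.StripMid

open Pack

/-- The numbers of piece 2. -/
def pf2 : Piece :=
  ⟨.D, (153, 200), (4, 5), (1, 1), (39, 100), (7, 4), (199, 500), (503, 1000),
    (477, 500), (821, -2550, 1000), (91, -240, 100), 37, (-47, -140, 584, 10), (259, 500), (413, 500), (9, 20),
    (1, 1), (7, 4)⟩

/-- The ranges of piece 2. -/
def boxf2 : Box :=
  ⟨(0, 1, 20), (100, 273, 2100), (55, 561, 100), (39, 175, 100),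
    (153, 160, 200)⟩

/-- A check of piece 2. -/
def chkf2_0 : Chk (boxf2.cC) (bound pf2 false .l0) :=
  ⟨241, 13, 9, 2, 3, by decide +kernel⟩
/-- A check of piece 2. -/
def chkf2_1 : Chk (boxf2.cC) (bound pf2 false .l1) :=
  ⟨242, 13, 9, 2, 3, by decide +kernel⟩
/-- A check of piece 2. -/
def chkf2_2 : Chk (boxf2.cC) (bound pf2 false .r) :=
  ⟨241, 13, 9, 2, 3, by decide +kernel⟩
/-- A check of piece 2. -/
def chkf2_3 : Chk (boxf2.cC) (bound pf2 false .g0) :=
  ⟨97, 4, 3, 1, 2, by decide +kernel⟩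
/-- A check of piece 2. -/
def chkf2_4 : Chk (boxf2.cC) (bound pf2 false .g1) :=
  ⟨97, 4, 3, 1, 2, by decide +kernel⟩
/-- A check of piece 2. -/
def chkf2_5 : Chk (boxf2.cC) (bound pf2 false .t0) :=
  ⟨162, 6, 6, 2, 3, by decide +kernel⟩
/-- A check of piece 2. -/
def chkf2_6 : Chk (boxf2.cC) (bound pf2 false .t1) :=
  ⟨159, 6, 6, 2, 3, by decide +kernel⟩
/-- A check of piece 2. -/
def chkf2_7 : Chk (boxf2.cC) (bound pf2 false .w0) :=
  ⟨206, 10, 7, 3, 4, by decide +kernel⟩
/-- A check of piece 2. -/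
def chkf2_8 : Chk (boxf2.cC) (bound pf2 false .w1) :=
  ⟨209, 10, 7, 3, 4, by decide +kernel⟩
/-- A check of piece 2. -/
def chkf2_9 : Chk (boxf2.cC) (bound pf2 true .l0) :=
  ⟨241, 13, 9, 2, 3, by decide +kernel⟩
/-- A check of piece 2. -/
def chkf2_10 : Chk (boxf2.cC) (bound pf2 true .l1) :=
  ⟨242, 13, 9, 2, 3, by decide +kernel⟩
/-- A check of piece 2. -/
def chkf2_11 : Chk (boxf2.cC) (bound pf2 true .r) :=
  ⟨241, 13, 9, 2, 3, by decide +kernel⟩
/-- A check of piece 2. -/
def chkf2_12 : Chk (boxf2.cC) (bound pf2 true .g0) :=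
  ⟨97, 4, 3, 1, 2, by decide +kernel⟩
/-- A check of piece 2. -/
def chkf2_13 : Chk (boxf2.cC) (bound pf2 true .g1) :=
  ⟨97, 4, 3, 1, 2, by decide +kernel⟩
/-- A check of piece 2. -/
def chkf2_14 : Chk (boxf2.cC) (bound pf2 true .t0) :=
  ⟨162, 6, 6, 2, 3, by decide +kernel⟩
/-- A check of piece 2. -/
def chkf2_15 : Chk (boxf2.cC) (bound pf2 true .t1) :=
  ⟨159, 6, 6, 2, 3, by decide +kernel⟩
/-- A check of piece 2. -/
def chkf2_16 : Chk (boxf2.cC) (bound pf2 true .w0) :=
  ⟨206, 10, 7, 3, 4, by decide +kernel⟩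
/-- A check of piece 2. -/
def chkf2_17 : Chk (boxf2.cC) (bound pf2 true .w1) :=
  ⟨209, 10, 7, 3, 4, by decide +kernel⟩
/-- A check of piece 2. -/
def chkf2_18 : Chk (boxf2.vC) (subst (sub pf2 ⟨false, false, true, true, false⟩) (condX)) :=
  ⟨260, 13, 10, 4, 0, by decide +kernel⟩
/-- A check of piece 2. -/
def chkf2_19 : Chk (boxf2.vC) (subst (sub pf2 ⟨false, true, true, true, false⟩) (condX)) :=
  ⟨261, 13, 10, 4, 0, by decide +kernel⟩
/-- A check of piece 2. -/
def chkf2_20 : Chk (boxf2.vC) (subst (sub pf2 ⟨true, false, true, true, false⟩) (condX)) :=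
  ⟨260, 13, 10, 4, 0, by decide +kernel⟩
/-- A check of piece 2. -/
def chkf2_21 : Chk (boxf2.vC) (subst (sub pf2 ⟨true, true, true, true, false⟩) (condX)) :=
  ⟨261, 13, 10, 4, 0, by decide +kernel⟩
/-- A check of piece 2. -/
def chkf2_22 : Chk (boxf2.vC) (subst (sub pf2 ⟨false, false, true, false, false⟩) (tplMG)) :=
  ⟨493, 26, 20, 6, 0, by decide +kernel⟩
/-- A check of piece 2. -/
def chkf2_23 : Chk (boxf2.vC) (subst (sub pf2 ⟨false, true, true, false, false⟩) (tplMG)) :=
  ⟨495, 26, 20, 6, 0, by decide +kernel⟩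
/-- A check of piece 2. -/
def chkf2_24 : Chk (boxf2.vC) (subst (sub pf2 ⟨true, false, true, false, false⟩) (tplMG)) :=
  ⟨493, 26, 20, 6, 0, by decide +kernel⟩
/-- A check of piece 2. -/
def chkf2_25 : Chk (boxf2.vC) (subst (sub pf2 ⟨true, true, true, false, false⟩) (tplMG)) :=
  ⟨495, 26, 20, 6, 0, by decide +kernel⟩
/-- A check of piece 2. -/
def chkf2_26 : Chk (boxf2.vC) (subst (sub pf2 ⟨false, false, false, false, false⟩) (pf2.m1)) :=
  ⟨344, 17, 14, 4, 0, by decide +kernel⟩
/-- A check of piece 2. -/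
def chkf2_27 : Chk (boxf2.vC) (subst (sub pf2 ⟨false, true, false, false, false⟩) (pf2.m1)) :=
  ⟨345, 17, 14, 4, 0, by decide +kernel⟩
/-- A check of piece 2. -/
def chkf2_28 : Chk (boxf2.vC) (subst (sub pf2 ⟨true, false, false, false, false⟩) (pf2.m1)) :=
  ⟨344, 17, 14, 4, 0, by decide +kernel⟩
/-- A check of piece 2. -/
def chkf2_29 : Chk (boxf2.vC) (subst (sub pf2 ⟨true, true, false, false, false⟩) (pf2.m1)) :=
  ⟨345, 17, 14, 4, 0, by decide +kernel⟩
/-- A check of piece 2. -/
def chkf2_30 : Chk (boxf2.vC) (subst (sub pf2 ⟨false, false, true, false, false⟩) (strict (pf2.m2 false))) :=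
  ⟨528, 24, 19, 6, 0, by decide +kernel⟩
/-- A check of piece 2. -/
def chkf2_31 : Chk (boxf2.vC) (subst (sub pf2 ⟨false, false, true, false, true⟩) (strict (pf2.m2 false))) :=
  ⟨522, 24, 19, 6, 0, by decide +kernel⟩
/-- A check of piece 2. -/
def chkf2_32 : Chk (boxf2.vC) (subst (sub pf2 ⟨true, false, true, false, false⟩) (strict (pf2.m2 false))) :=
  ⟨528, 24, 19, 6, 0, by decide +kernel⟩
/-- A check of piece 2. -/
def chkf2_33 : Chk (boxf2.vC) (subst (sub pf2 ⟨true, false, true, false, true⟩) (strict (pf2.m2 false))) :=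
  ⟨522, 24, 19, 6, 0, by decide +kernel⟩
/-- A check of piece 2. -/
def chkf2_34 : Chk (boxf2.vC) (subst (sub pf2 ⟨false, true, true, false, false⟩) (strict (pf2.m2 true))) :=
  ⟨527, 24, 19, 6, 0, by decide +kernel⟩
/-- A check of piece 2. -/
def chkf2_35 : Chk (boxf2.vC) (subst (sub pf2 ⟨false, true, true, false, true⟩) (strict (pf2.m2 true))) :=
  ⟨520, 24, 19, 6, 0, by decide +kernel⟩
/-- A check of piece 2. -/
def chkf2_36 : Chk (boxf2.vC) (subst (sub pf2 ⟨true, true, true, false, false⟩) (strict (pf2.m2 true))) :=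
  ⟨527, 24, 19, 6, 0, by decide +kernel⟩
/-- A check of piece 2. -/
def chkf2_37 : Chk (boxf2.vC) (subst (sub pf2 ⟨true, true, true, false, true⟩) (strict (pf2.m2 true))) :=
  ⟨520, 24, 19, 6, 0, by decide +kernel⟩
/-- A check of piece 2. -/
def chkf2_38 : Chk (boxf2.vC) (subst (sub pf2 ⟨false, false, true, true, false⟩) (strict (pf2.m3 false))) :=
  ⟨661, 31, 25, 6, 0, by decide +kernel⟩
/-- A check of piece 2. -/
def chkf2_39 : Chk (boxf2.vC) (subst (sub pf2 ⟨false, false, true, true, true⟩) (strict (pf2.m3 false))) :=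
  ⟨658, 31, 25, 6, 0, by decide +kernel⟩
/-- A check of piece 2. -/
def chkf2_40 : Chk (boxf2.vC) (subst (sub pf2 ⟨false, true, true, true, false⟩) (strict (pf2.m3 false))) :=
  ⟨663, 31, 25, 6, 0, by decide +kernel⟩
/-- A check of piece 2. -/
def chkf2_41 : Chk (boxf2.vC) (subst (sub pf2 ⟨false, true, true, true, true⟩) (strict (pf2.m3 false))) :=
  ⟨660, 31, 25, 6, 0, by decide +kernel⟩
/-- A check of piece 2. -/
def chkf2_42 : Chk (boxf2.vC) (subst (sub pf2 ⟨true, false, true, true, false⟩) (strict (pf2.m3 false))) :=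
  ⟨661, 31, 25, 6, 0, by decide +kernel⟩
/-- A check of piece 2. -/
def chkf2_43 : Chk (boxf2.vC) (subst (sub pf2 ⟨true, false, true, true, true⟩) (strict (pf2.m3 false))) :=
  ⟨658, 31, 25, 6, 0, by decide +kernel⟩
/-- A check of piece 2. -/
def chkf2_44 : Chk (boxf2.vC) (subst (sub pf2 ⟨true, true, true, true, false⟩) (strict (pf2.m3 false))) :=
  ⟨663, 31, 25, 6, 0, by decide +kernel⟩
/-- A check of piece 2. -/
def chkf2_45 : Chk (boxf2.vC) (subst (sub pf2 ⟨true, true, true, true, true⟩) (strict (pf2.m3 false))) :=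
  ⟨660, 31, 25, 6, 0, by decide +kernel⟩
/-- A check of piece 2. -/
def chkf2_46 : Chk (boxf2.vC) (subst (sub pf2 ⟨false, false, true, true, false⟩) (strict (pf2.m3 true))) :=
  ⟨659, 31, 25, 6, 0, by decide +kernel⟩
/-- A check of piece 2. -/
def chkf2_47 : Chk (boxf2.vC) (subst (sub pf2 ⟨false, false, true, true, true⟩) (strict (pf2.m3 true))) :=
  ⟨656, 31, 25, 6, 0, by decide +kernel⟩
/-- A check of piece 2. -/
def chkf2_48 : Chk (boxf2.vC) (subst (sub pf2 ⟨false, true, true, true, false⟩) (strict (pf2.m3 true))) :=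
  ⟨661, 31, 25, 6, 0, by decide +kernel⟩
/-- A check of piece 2. -/
def chkf2_49 : Chk (boxf2.vC) (subst (sub pf2 ⟨false, true, true, true, true⟩) (strict (pf2.m3 true))) :=
  ⟨658, 31, 25, 6, 0, by decide +kernel⟩
/-- A check of piece 2. -/
def chkf2_50 : Chk (boxf2.vC) (subst (sub pf2 ⟨true, false, true, true, false⟩) (strict (pf2.m3 true))) :=
  ⟨659, 31, 25, 6, 0, by decide +kernel⟩
/-- A check of piece 2. -/
def chkf2_51 : Chk (boxf2.vC) (subst (sub pf2 ⟨true, false, true, true, true⟩) (strict (pf2.m3 true))) :=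
  ⟨656, 31, 25, 6, 0, by decide +kernel⟩
/-- A check of piece 2. -/
def chkf2_52 : Chk (boxf2.vC) (subst (sub pf2 ⟨true, true, true, true, false⟩) (strict (pf2.m3 true))) :=
  ⟨661, 31, 25, 6, 0, by decide +kernel⟩
/-- A check of piece 2. -/
def chkf2_53 : Chk (boxf2.vC) (subst (sub pf2 ⟨true, true, true, true, true⟩) (strict (pf2.m3 true))) :=
  ⟨658, 31, 25, 6, 0, by decide +kernel⟩
/-- A check of piece 2. -/
def chkf2_54 : Chk (boxf2.vC) (subst (sub pf2 ⟨false, false, true, true, false⟩) (negEx coMG12)) :=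
  ⟨123, 5, 5, 4, 0, by decide +kernel⟩
/-- A check of piece 2. -/
def chkf2_55 : Chk (boxf2.vC) (subst (sub pf2 ⟨false, false, true, true, false⟩) (negEx (pf2.curve2 false))) :=
  ⟨129, 5, 5, 4, 0, by decide +kernel⟩
/-- A check of piece 2. -/
def chkf2_56 : Chk (boxf2.vC) (subst (sub pf2 ⟨false, false, true, true, false⟩) (negEx (pf2.curve2 true))) :=
  ⟨126, 5, 5, 4, 0, by decide +kernel⟩
/-- A check of piece 2. -/
def chkf2_57 : Chk (boxf2.vC) (subst (sub pf2 ⟨false, false, true, true, false⟩) (negEx (pf2.curve3 false))) :=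
  ⟨143, 6, 6, 4, 0, by decide +kernel⟩
/-- A check of piece 2. -/
def chkf2_58 : Chk (boxf2.vC) (subst (sub pf2 ⟨false, false, true, true, false⟩) (negEx (pf2.curve3 true))) :=
  ⟨141, 6, 6, 4, 0, by decide +kernel⟩
/-- A check of piece 2. -/
def chkf2_59 : Chk (boxf2.vC) (subst (sub pf2 ⟨false, false, true, true, false⟩) (slopeT)) :=
  ⟨147, 7, 6, 4, 0, by decide +kernel⟩
/-- A check of piece 2. -/
def chkf2_60 : Chk (boxf2.vC) (subst (sub pf2 ⟨true, false, true, true, false⟩) (slopeT)) :=
  ⟨147, 7, 6, 4, 0, by decide +kernel⟩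
/-- A check of piece 2. -/
def chkf2_61 : Chk (boxf2.gC true) (subst (gapSub pf2 true false false) tplL) :=
  ⟨407, 22, 17, 5, 2, by decide +kernel⟩
/-- A check of piece 2. -/
def chkf2_62 : Chk (boxf2.gC true) (subst (gapSub pf2 true false true) tplL) :=
  ⟨403, 22, 17, 5, 2, by decide +kernel⟩
/-- A check of piece 2. -/
def chkf2_63 : Chk (boxf2.gC true) (subst (gapSub pf2 true true false) tplL) :=
  ⟨407, 22, 17, 5, 2, by decide +kernel⟩
/-- A check of piece 2. -/
def chkf2_64 : Chk (boxf2.gC true) (subst (gapSub pf2 true true true) tplL) :=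
  ⟨403, 22, 17, 5, 2, by decide +kernel⟩

/-- Piece 2 passes. -/
theorem certf2 : Cert pf2 boxf2 true where
  pos := by
    refine ⟨⟨⟨?_, ?_, ?_, ?_, ?_, ?_, ?_⟩, ?_, ?_, ?_, ?_, ?_, ?_, ?_, ?_, ?_, ?_, ?_⟩, ?_, ?_⟩ <;>
      norm_num [fr, pf2]
  gX := fun p l => match p, l with
    | false, false => chkf2_18
    | false, true => chkf2_19
    | true, false => chkf2_20
    | true, true => chkf2_21
  gMG := fun p l => match p, l with
    | false, false => chkf2_22
    | false, true => chkf2_23
    | true, false => chkf2_24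
    | true, true => chkf2_25
  g1 := fun p l => match p, l with
    | false, false => chkf2_26
    | false, true => chkf2_27
    | true, false => chkf2_28
    | true, true => chkf2_29
  g2 := fun s p t => match s, p, t with
    | false, false, false => chkf2_30
    | false, false, true => chkf2_31
    | false, true, false => chkf2_32
    | false, true, true => chkf2_33
    | true, false, false => chkf2_34
    | true, false, true => chkf2_35
    | true, true, false => chkf2_36
    | true, true, true => chkf2_37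
  g3 := fun s p l t => match s, p, l, t with
    | false, false, false, false => chkf2_38
    | false, false, false, true => chkf2_39
    | false, false, true, false => chkf2_40
    | false, false, true, true => chkf2_41
    | false, true, false, false => chkf2_42
    | false, true, false, true => chkf2_43
    | false, true, true, false => chkf2_44
    | false, true, true, true => chkf2_45
    | true, false, false, false => chkf2_46
    | true, false, false, true => chkf2_47
    | true, false, true, false => chkf2_48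
    | true, false, true, true => chkf2_49
    | true, true, false, false => chkf2_50
    | true, true, false, true => chkf2_51
    | true, true, true, false => chkf2_52
    | true, true, true, true => chkf2_53
  cMG := chkf2_54
  c2 := fun s => match s with
    | false => chkf2_55
    | true => chkf2_56
  c3 := fun s => match s with
    | false => chkf2_57
    | true => chkf2_58
  sT := fun p => match p with
    | false => chkf2_59
    | true => chkf2_60
  bnd := fun ze b => match ze, b with
    | false, .l0 => chkf2_0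
    | false, .l1 => chkf2_1
    | false, .r => chkf2_2
    | false, .g0 => chkf2_3
    | false, .g1 => chkf2_4
    | false, .t0 => chkf2_5
    | false, .t1 => chkf2_6
    | false, .w0 => chkf2_7
    | false, .w1 => chkf2_8
    | true, .l0 => chkf2_9
    | true, .l1 => chkf2_10
    | true, .r => chkf2_11
    | true, .g0 => chkf2_12
    | true, .g1 => chkf2_13
    | true, .t0 => chkf2_14
    | true, .t1 => chkf2_15
    | true, .w0 => chkf2_16
    | true, .w1 => chkf2_17
  gap := fun ze t => match ze, t with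
    | false, false => chkf2_61
    | false, true => chkf2_62
    | true, false => chkf2_63
    | true, true => chkf2_64

end Vale.Agent.P100.Calib.StripMid
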