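import Vale.Agent.P100.Calib.SlabStripMidChart

/-!
# The checks of piece 3 on `153/200 < u ≤ 4/5`
-/

set_option linter.defProp false

namespace Vale.Agent.P100.Calib.StripMid

open Pack

/-- The numbers of piece 3. -/
def pf3 : Piece :=
  ⟨.D, (153, 200), (4, 5), (1, 1), (39, 100), (7, 4), (199, 500), (127, 250),
    (947, 1000), (701, -1500, 1000), (197, -375, 250), 35, (-77, -160, 352, 10), (717, 1000), (941, 1000), (9, 20),
    (1, 1), (21, 10)⟩

/-- The ranges of piece 3. -/
def boxf3 : Box :=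
  ⟨(0, 1, 20), (13, 18, 100), (47, 401, 100), (39, 175, 100),
    (153, 160, 200)⟩

/-- A check of piece 3. -/
def chkf3_0 : Chk (boxf3.cC) (bound pf3 false .l0) :=
  ⟨202, 13, 9, 2, 3, by decide +kernel⟩
/-- A check of piece 3. -/
def chkf3_1 : Chk (boxf3.cC) (bound pf3 false .l1) :=
  ⟨201, 13, 9, 2, 3, by decide +kernel⟩
/-- A check of piece 3. -/
def chkf3_2 : Chk (boxf3.cC) (bound pf3 false .r) :=
  ⟨203, 13, 9, 2, 3, by decide +kernel⟩
/-- A check of piece 3. -/
def chkf3_3 : Chk (boxf3.cC) (bound pf3 false .g0) :=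
  ⟨85, 4, 3, 1, 2, by decide +kernel⟩
/-- A check of piece 3. -/
def chkf3_4 : Chk (boxf3.cC) (bound pf3 false .g1) :=
  ⟨85, 4, 3, 1, 2, by decide +kernel⟩
/-- A check of piece 3. -/
def chkf3_5 : Chk (boxf3.cC) (bound pf3 false .t0) :=
  ⟨136, 6, 6, 2, 3, by decide +kernel⟩
/-- A check of piece 3. -/
def chkf3_6 : Chk (boxf3.cC) (bound pf3 false .t1) :=
  ⟨134, 6, 6, 2, 3, by decide +kernel⟩
/-- A check of piece 3. -/
def chkf3_7 : Chk (boxf3.cC) (bound pf3 false .w0) :=
  ⟨176, 10, 7, 3, 4, by decide +kernel⟩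
/-- A check of piece 3. -/
def chkf3_8 : Chk (boxf3.cC) (bound pf3 false .w1) :=
  ⟨179, 10, 7, 3, 4, by decide +kernel⟩
/-- A check of piece 3. -/
def chkf3_9 : Chk (boxf3.cC) (bound pf3 true .l0) :=
  ⟨202, 13, 9, 2, 3, by decide +kernel⟩
/-- A check of piece 3. -/
def chkf3_10 : Chk (boxf3.cC) (bound pf3 true .l1) :=
  ⟨201, 13, 9, 2, 3, by decide +kernel⟩
/-- A check of piece 3. -/
def chkf3_11 : Chk (boxf3.cC) (bound pf3 true .r) :=
  ⟨203, 13, 9, 2, 3, by decide +kernel⟩
/-- A check of piece 3. -/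
def chkf3_12 : Chk (boxf3.cC) (bound pf3 true .g0) :=
  ⟨85, 4, 3, 1, 2, by decide +kernel⟩
/-- A check of piece 3. -/
def chkf3_13 : Chk (boxf3.cC) (bound pf3 true .g1) :=
  ⟨85, 4, 3, 1, 2, by decide +kernel⟩
/-- A check of piece 3. -/
def chkf3_14 : Chk (boxf3.cC) (bound pf3 true .t0) :=
  ⟨136, 6, 6, 2, 3, by decide +kernel⟩
/-- A check of piece 3. -/
def chkf3_15 : Chk (boxf3.cC) (bound pf3 true .t1) :=
  ⟨134, 6, 6, 2, 3, by decide +kernel⟩
/-- A check of piece 3. -/
def chkf3_16 : Chk (boxf3.cC) (bound pf3 true .w0) :=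
  ⟨176, 10, 7, 3, 4, by decide +kernel⟩
/-- A check of piece 3. -/
def chkf3_17 : Chk (boxf3.cC) (bound pf3 true .w1) :=
  ⟨179, 10, 7, 3, 4, by decide +kernel⟩
/-- A check of piece 3. -/
def chkf3_18 : Chk (boxf3.vC) (subst (sub pf3 ⟨false, false, true, true, false⟩) (condX)) :=
  ⟨217, 13, 10, 4, 0, by decide +kernel⟩
/-- A check of piece 3. -/
def chkf3_19 : Chk (boxf3.vC) (subst (sub pf3 ⟨false, true, true, true, false⟩) (condX)) :=
  ⟨216, 13, 10, 4, 0, by decide +kernel⟩
/-- A check of piece 3. -/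
def chkf3_20 : Chk (boxf3.vC) (subst (sub pf3 ⟨true, false, true, true, false⟩) (condX)) :=
  ⟨217, 13, 10, 4, 0, by decide +kernel⟩
/-- A check of piece 3. -/
def chkf3_21 : Chk (boxf3.vC) (subst (sub pf3 ⟨true, true, true, true, false⟩) (condX)) :=
  ⟨217, 13, 10, 4, 0, by decide +kernel⟩
/-- A check of piece 3. -/
def chkf3_22 : Chk (boxf3.vC) (subst (sub pf3 ⟨false, false, true, false, false⟩) (tplMG)) :=
  ⟨410, 26, 20, 6, 0, by decide +kernel⟩
/-- A check of piece 3. -/
def chkf3_23 : Chk (boxf3.vC) (subst (sub pf3 ⟨false, true, true, false, false⟩) (tplMG)) :=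
  ⟨408, 26, 20, 6, 0, by decide +kernel⟩
/-- A check of piece 3. -/
def chkf3_24 : Chk (boxf3.vC) (subst (sub pf3 ⟨true, false, true, false, false⟩) (tplMG)) :=
  ⟨410, 26, 20, 6, 0, by decide +kernel⟩
/-- A check of piece 3. -/
def chkf3_25 : Chk (boxf3.vC) (subst (sub pf3 ⟨true, true, true, false, false⟩) (tplMG)) :=
  ⟨408, 26, 20, 6, 0, by decide +kernel⟩
/-- A check of piece 3. -/
def chkf3_26 : Chk (boxf3.vC) (subst (sub pf3 ⟨false, false, false, false, false⟩) (pf3.m1)) :=
  ⟨285, 17, 14, 4, 0, by decide +kernel⟩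
/-- A check of piece 3. -/
def chkf3_27 : Chk (boxf3.vC) (subst (sub pf3 ⟨false, true, false, false, false⟩) (pf3.m1)) :=
  ⟨285, 17, 14, 4, 0, by decide +kernel⟩
/-- A check of piece 3. -/
def chkf3_28 : Chk (boxf3.vC) (subst (sub pf3 ⟨true, false, false, false, false⟩) (pf3.m1)) :=
  ⟨285, 17, 14, 4, 0, by decide +kernel⟩
/-- A check of piece 3. -/
def chkf3_29 : Chk (boxf3.vC) (subst (sub pf3 ⟨true, true, false, false, false⟩) (pf3.m1)) :=
  ⟨285, 17, 14, 4, 0, by decide +kernel⟩
/-- A check of piece 3. -/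
def chkf3_30 : Chk (boxf3.vC) (subst (sub pf3 ⟨false, false, true, false, false⟩) (strict (pf3.m2 false))) :=
  ⟨450, 24, 19, 6, 0, by decide +kernel⟩
/-- A check of piece 3. -/
def chkf3_31 : Chk (boxf3.vC) (subst (sub pf3 ⟨false, false, true, false, true⟩) (strict (pf3.m2 false))) :=
  ⟨446, 24, 19, 6, 0, by decide +kernel⟩
/-- A check of piece 3. -/
def chkf3_32 : Chk (boxf3.vC) (subst (sub pf3 ⟨true, false, true, false, false⟩) (strict (pf3.m2 false))) :=
  ⟨450, 24, 19, 6, 0, by decide +kernel⟩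
/-- A check of piece 3. -/
def chkf3_33 : Chk (boxf3.vC) (subst (sub pf3 ⟨true, false, true, false, true⟩) (strict (pf3.m2 false))) :=
  ⟨446, 24, 19, 6, 0, by decide +kernel⟩
/-- A check of piece 3. -/
def chkf3_34 : Chk (boxf3.vC) (subst (sub pf3 ⟨false, true, true, false, false⟩) (strict (pf3.m2 true))) :=
  ⟨445, 24, 19, 6, 0, by decide +kernel⟩
/-- A check of piece 3. -/
def chkf3_35 : Chk (boxf3.vC) (subst (sub pf3 ⟨false, true, true, false, true⟩) (strict (pf3.m2 true))) :=
  ⟨441, 24, 19, 6, 0, by decide +kernel⟩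
/-- A check of piece 3. -/
def chkf3_36 : Chk (boxf3.vC) (subst (sub pf3 ⟨true, true, true, false, false⟩) (strict (pf3.m2 true))) :=
  ⟨445, 24, 19, 6, 0, by decide +kernel⟩
/-- A check of piece 3. -/
def chkf3_37 : Chk (boxf3.vC) (subst (sub pf3 ⟨true, true, true, false, true⟩) (strict (pf3.m2 true))) :=
  ⟨441, 24, 19, 6, 0, by decide +kernel⟩
/-- A check of piece 3. -/
def chkf3_38 : Chk (boxf3.vC) (subst (sub pf3 ⟨false, false, true, true, false⟩) (strict (pf3.m3 false))) :=
  ⟨560, 31, 25, 6, 0, by decide +kernel⟩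
/-- A check of piece 3. -/
def chkf3_39 : Chk (boxf3.vC) (subst (sub pf3 ⟨false, false, true, true, true⟩) (strict (pf3.m3 false))) :=
  ⟨558, 31, 25, 6, 0, by decide +kernel⟩
/-- A check of piece 3. -/
def chkf3_40 : Chk (boxf3.vC) (subst (sub pf3 ⟨false, true, true, true, false⟩) (strict (pf3.m3 false))) :=
  ⟨558, 31, 25, 6, 0, by decide +kernel⟩
/-- A check of piece 3. -/
def chkf3_41 : Chk (boxf3.vC) (subst (sub pf3 ⟨false, true, true, true, true⟩) (strict (pf3.m3 false))) :=
  ⟨556, 31, 25, 6, 0, by decide +kernel⟩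
/-- A check of piece 3. -/
def chkf3_42 : Chk (boxf3.vC) (subst (sub pf3 ⟨true, false, true, true, false⟩) (strict (pf3.m3 false))) :=
  ⟨560, 31, 25, 6, 0, by decide +kernel⟩
/-- A check of piece 3. -/
def chkf3_43 : Chk (boxf3.vC) (subst (sub pf3 ⟨true, false, true, true, true⟩) (strict (pf3.m3 false))) :=
  ⟨558, 31, 25, 6, 0, by decide +kernel⟩
/-- A check of piece 3. -/
def chkf3_44 : Chk (boxf3.vC) (subst (sub pf3 ⟨true, true, true, true, false⟩) (strict (pf3.m3 false))) :=
  ⟨558, 31, 25, 6, 0, by decide +kernel⟩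
/-- A check of piece 3. -/
def chkf3_45 : Chk (boxf3.vC) (subst (sub pf3 ⟨true, true, true, true, true⟩) (strict (pf3.m3 false))) :=
  ⟨556, 31, 25, 6, 0, by decide +kernel⟩
/-- A check of piece 3. -/
def chkf3_46 : Chk (boxf3.vC) (subst (sub pf3 ⟨false, false, true, true, false⟩) (strict (pf3.m3 true))) :=
  ⟨556, 31, 25, 6, 0, by decide +kernel⟩
/-- A check of piece 3. -/
def chkf3_47 : Chk (boxf3.vC) (subst (sub pf3 ⟨false, false, true, true, true⟩) (strict (pf3.m3 true))) :=
  ⟨554, 31, 25, 6, 0, by decide +kernel⟩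
/-- A check of piece 3. -/
def chkf3_48 : Chk (boxf3.vC) (subst (sub pf3 ⟨false, true, true, true, false⟩) (strict (pf3.m3 true))) :=
  ⟨554, 31, 25, 6, 0, by decide +kernel⟩
/-- A check of piece 3. -/
def chkf3_49 : Chk (boxf3.vC) (subst (sub pf3 ⟨false, true, true, true, true⟩) (strict (pf3.m3 true))) :=
  ⟨552, 31, 25, 6, 0, by decide +kernel⟩
/-- A check of piece 3. -/
def chkf3_50 : Chk (boxf3.vC) (subst (sub pf3 ⟨true, false, true, true, false⟩) (strict (pf3.m3 true))) :=
  ⟨556, 31, 25, 6, 0, by decide +kernel⟩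
/-- A check of piece 3. -/
def chkf3_51 : Chk (boxf3.vC) (subst (sub pf3 ⟨true, false, true, true, true⟩) (strict (pf3.m3 true))) :=
  ⟨554, 31, 25, 6, 0, by decide +kernel⟩
/-- A check of piece 3. -/
def chkf3_52 : Chk (boxf3.vC) (subst (sub pf3 ⟨true, true, true, true, false⟩) (strict (pf3.m3 true))) :=
  ⟨554, 31, 25, 6, 0, by decide +kernel⟩
/-- A check of piece 3. -/
def chkf3_53 : Chk (boxf3.vC) (subst (sub pf3 ⟨true, true, true, true, true⟩) (strict (pf3.m3 true))) :=
  ⟨552, 31, 25, 6, 0, by decide +kernel⟩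
/-- A check of piece 3. -/
def chkf3_54 : Chk (boxf3.vC) (subst (sub pf3 ⟨false, false, true, true, false⟩) (negEx coMG12)) :=
  ⟨101, 5, 5, 4, 0, by decide +kernel⟩
/-- A check of piece 3. -/
def chkf3_55 : Chk (boxf3.vC) (subst (sub pf3 ⟨false, false, true, true, false⟩) (negEx (pf3.curve2 false))) :=
  ⟨109, 5, 5, 4, 0, by decide +kernel⟩
/-- A check of piece 3. -/
def chkf3_56 : Chk (boxf3.vC) (subst (sub pf3 ⟨false, false, true, true, false⟩) (negEx (pf3.curve2 true))) :=
  ⟨104, 5, 5, 4, 0, by decide +kernel⟩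
/-- A check of piece 3. -/
def chkf3_57 : Chk (boxf3.vC) (subst (sub pf3 ⟨false, false, true, true, false⟩) (negEx (pf3.curve3 false))) :=
  ⟨119, 6, 6, 4, 0, by decide +kernel⟩
/-- A check of piece 3. -/
def chkf3_58 : Chk (boxf3.vC) (subst (sub pf3 ⟨false, false, true, true, false⟩) (negEx (pf3.curve3 true))) :=
  ⟨115, 6, 6, 4, 0, by decide +kernel⟩
/-- A check of piece 3. -/
def chkf3_59 : Chk (boxf3.vC) (subst (sub pf3 ⟨false, false, true, true, false⟩) (slopeT)) :=
  ⟨121, 7, 6, 4, 0, by decide +kernel⟩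
/-- A check of piece 3. -/
def chkf3_60 : Chk (boxf3.vC) (subst (sub pf3 ⟨true, false, true, true, false⟩) (slopeT)) :=
  ⟨121, 7, 6, 4, 0, by decide +kernel⟩
/-- A check of piece 3. -/
def chkf3_61 : Chk (boxf3.gC true) (subst (gapSub pf3 true false false) tplL) :=
  ⟨334, 22, 17, 5, 2, by decide +kernel⟩
/-- A check of piece 3. -/
def chkf3_62 : Chk (boxf3.gC true) (subst (gapSub pf3 true false true) tplL) :=
  ⟨332, 22, 17, 5, 2, by decide +kernel⟩
/-- A check of piece 3. -/
def chkf3_63 : Chk (boxf3.gC true) (subst (gapSub pf3 true true false) tplL) :=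
  ⟨334, 22, 17, 5, 2, by decide +kernel⟩
/-- A check of piece 3. -/
def chkf3_64 : Chk (boxf3.gC true) (subst (gapSub pf3 true true true) tplL) :=
  ⟨332, 22, 17, 5, 2, by decide +kernel⟩

/-- Piece 3 passes. -/
theorem certf3 : Cert pf3 boxf3 true where
  pos := by
    refine ⟨⟨⟨?_, ?_, ?_, ?_, ?_, ?_, ?_⟩, ?_, ?_, ?_, ?_, ?_, ?_, ?_, ?_, ?_, ?_, ?_⟩, ?_, ?_⟩ <;>
      norm_num [fr, pf3]
  gX := fun p l => match p, l with
    | false, false => chkf3_18
    | false, true => chkf3_19
    | true, false => chkf3_20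
    | true, true => chkf3_21
  gMG := fun p l => match p, l with
    | false, false => chkf3_22
    | false, true => chkf3_23
    | true, false => chkf3_24
    | true, true => chkf3_25
  g1 := fun p l => match p, l with
    | false, false => chkf3_26
    | false, true => chkf3_27
    | true, false => chkf3_28
    | true, true => chkf3_29
  g2 := fun s p t => match s, p, t with
    | false, false, false => chkf3_30
    | false, false, true => chkf3_31
    | false, true, false => chkf3_32
    | false, true, true => chkf3_33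
    | true, false, false => chkf3_34
    | true, false, true => chkf3_35
    | true, true, false => chkf3_36
    | true, true, true => chkf3_37
  g3 := fun s p l t => match s, p, l, t with
    | false, false, false, false => chkf3_38
    | false, false, false, true => chkf3_39
    | false, false, true, false => chkf3_40
    | false, false, true, true => chkf3_41
    | false, true, false, false => chkf3_42
    | false, true, false, true => chkf3_43
    | false, true, true, false => chkf3_44
    | false, true, true, true => chkf3_45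
    | true, false, false, false => chkf3_46
    | true, false, false, true => chkf3_47
    | true, false, true, false => chkf3_48
    | true, false, true, true => chkf3_49
    | true, true, false, false => chkf3_50
    | true, true, false, true => chkf3_51
    | true, true, true, false => chkf3_52
    | true, true, true, true => chkf3_53
  cMG := chkf3_54
  c2 := fun s => match s with
    | false => chkf3_55
    | true => chkf3_56
  c3 := fun s => match s with
    | false => chkf3_57
    | true => chkf3_58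
  sT := fun p => match p with
    | false => chkf3_59
    | true => chkf3_60
  bnd := fun ze b => match ze, b with
    | false, .l0 => chkf3_0
    | false, .l1 => chkf3_1
    | false, .r => chkf3_2
    | false, .g0 => chkf3_3
    | false, .g1 => chkf3_4
    | false, .t0 => chkf3_5
    | false, .t1 => chkf3_6
    | false, .w0 => chkf3_7
    | false, .w1 => chkf3_8
    | true, .l0 => chkf3_9
    | true, .l1 => chkf3_10
    | true, .r => chkf3_11
    | true, .g0 => chkf3_12
    | true, .g1 => chkf3_13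
    | true, .t0 => chkf3_14
    | true, .t1 => chkf3_15
    | true, .w0 => chkf3_16
    | true, .w1 => chkf3_17
  gap := fun ze t => match ze, t with
    | false, false => chkf3_61
    | false, true => chkf3_62
    | true, false => chkf3_63
    | true, true => chkf3_64

end Vale.Agent.P100.Calib.StripMid
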