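import Vale.Agent.P100.Calib.SlabStripMidChart

/-!
# The checks of piece 4 on `153/200 < u ≤ 4/5`
-/

set_option linter.defProp false

namespace Vale.Agent.P100.Calib.StripMid

open Pack

/-- The numbers of piece 4. -/
def pf4 : Piece :=
  ⟨.D, (3, 4), (4, 5), (1, 1), (39, 100), (7, 4), (199, 500), (273, 500),
    (187, 200), (309, -525, 500), (366, -525, 500), 34, (-44, -125, 130, 5), (829, 1000), (221, 200), (2, 5),
    (1, 1), (5, 2)⟩

/-- The ranges of piece 4. -/
def boxf4 : Box :=
  ⟨(0, 1, 20), (18, 25, 100), (37, 334, 100), (39, 175, 100),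
    (15, 16, 20)⟩

/-- A check of piece 4. -/
def chkf4_0 : Chk (boxf4.cC) (bound pf4 false .l0) :=
  ⟨192, 13, 9, 2, 3, by decide +kernel⟩
/-- A check of piece 4. -/
def chkf4_1 : Chk (boxf4.cC) (bound pf4 false .l1) :=
  ⟨193, 13, 9, 2, 3, by decide +kernel⟩
/-- A check of piece 4. -/
def chkf4_2 : Chk (boxf4.cC) (bound pf4 false .r) :=
  ⟨191, 13, 9, 2, 3, by decide +kernel⟩
/-- A check of piece 4. -/
def chkf4_3 : Chk (boxf4.cC) (bound pf4 false .g0) :=
  ⟨78, 4, 3, 1, 2, by decide +kernel⟩
/-- A check of piece 4. -/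
def chkf4_4 : Chk (boxf4.cC) (bound pf4 false .g1) :=
  ⟨76, 4, 3, 1, 2, by decide +kernel⟩
/-- A check of piece 4. -/
def chkf4_5 : Chk (boxf4.cC) (bound pf4 false .t0) :=
  ⟨125, 6, 6, 2, 3, by decide +kernel⟩
/-- A check of piece 4. -/
def chkf4_6 : Chk (boxf4.cC) (bound pf4 false .t1) :=
  ⟨125, 6, 6, 2, 3, by decide +kernel⟩
/-- A check of piece 4. -/
def chkf4_7 : Chk (boxf4.cC) (bound pf4 false .w0) :=
  ⟨162, 10, 7, 3, 4, by decide +kernel⟩
/-- A check of piece 4. -/
def chkf4_8 : Chk (boxf4.cC) (bound pf4 false .w1) :=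
  ⟨165, 10, 7, 3, 4, by decide +kernel⟩
/-- A check of piece 4. -/
def chkf4_9 : Chk (boxf4.cC) (bound pf4 true .l0) :=
  ⟨192, 13, 9, 2, 3, by decide +kernel⟩
/-- A check of piece 4. -/
def chkf4_10 : Chk (boxf4.cC) (bound pf4 true .l1) :=
  ⟨193, 13, 9, 2, 3, by decide +kernel⟩
/-- A check of piece 4. -/
def chkf4_11 : Chk (boxf4.cC) (bound pf4 true .r) :=
  ⟨191, 13, 9, 2, 3, by decide +kernel⟩
/-- A check of piece 4. -/
def chkf4_12 : Chk (boxf4.cC) (bound pf4 true .g0) :=
  ⟨78, 4, 3, 1, 2, by decide +kernel⟩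
/-- A check of piece 4. -/
def chkf4_13 : Chk (boxf4.cC) (bound pf4 true .g1) :=
  ⟨76, 4, 3, 1, 2, by decide +kernel⟩
/-- A check of piece 4. -/
def chkf4_14 : Chk (boxf4.cC) (bound pf4 true .t0) :=
  ⟨125, 6, 6, 2, 3, by decide +kernel⟩
/-- A check of piece 4. -/
def chkf4_15 : Chk (boxf4.cC) (bound pf4 true .t1) :=
  ⟨125, 6, 6, 2, 3, by decide +kernel⟩
/-- A check of piece 4. -/
def chkf4_16 : Chk (boxf4.cC) (bound pf4 true .w0) :=
  ⟨162, 10, 7, 3, 4, by decide +kernel⟩
/-- A check of piece 4. -/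
def chkf4_17 : Chk (boxf4.cC) (bound pf4 true .w1) :=
  ⟨165, 10, 7, 3, 4, by decide +kernel⟩
/-- A check of piece 4. -/
def chkf4_18 : Chk (boxf4.vC) (subst (sub pf4 ⟨false, false, true, true, false⟩) (condX)) :=
  ⟨214, 13, 10, 4, 0, by decide +kernel⟩
/-- A check of piece 4. -/
def chkf4_19 : Chk (boxf4.vC) (subst (sub pf4 ⟨false, true, true, true, false⟩) (condX)) :=
  ⟨214, 13, 10, 4, 0, by decide +kernel⟩
/-- A check of piece 4. -/
def chkf4_20 : Chk (boxf4.vC) (subst (sub pf4 ⟨true, false, true, true, false⟩) (condX)) :=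
  ⟨214, 13, 10, 4, 0, by decide +kernel⟩
/-- A check of piece 4. -/
def chkf4_21 : Chk (boxf4.vC) (subst (sub pf4 ⟨true, true, true, true, false⟩) (condX)) :=
  ⟨214, 13, 10, 4, 0, by decide +kernel⟩
/-- A check of piece 4. -/
def chkf4_22 : Chk (boxf4.vC) (subst (sub pf4 ⟨false, false, true, false, false⟩) (tplMG)) :=
  ⟨406, 26, 20, 6, 0, by decide +kernel⟩
/-- A check of piece 4. -/
def chkf4_23 : Chk (boxf4.vC) (subst (sub pf4 ⟨false, true, true, false, false⟩) (tplMG)) :=
  ⟨406, 26, 20, 6, 0, by decide +kernel⟩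
/-- A check of piece 4. -/
def chkf4_24 : Chk (boxf4.vC) (subst (sub pf4 ⟨true, false, true, false, false⟩) (tplMG)) :=
  ⟨406, 26, 20, 6, 0, by decide +kernel⟩
/-- A check of piece 4. -/
def chkf4_25 : Chk (boxf4.vC) (subst (sub pf4 ⟨true, true, true, false, false⟩) (tplMG)) :=
  ⟨406, 26, 20, 6, 0, by decide +kernel⟩
/-- A check of piece 4. -/
def chkf4_26 : Chk (boxf4.vC) (subst (sub pf4 ⟨false, false, false, false, false⟩) (pf4.m1)) :=
  ⟨278, 17, 14, 4, 0, by decide +kernel⟩
/-- A check of piece 4. -/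
def chkf4_27 : Chk (boxf4.vC) (subst (sub pf4 ⟨false, true, false, false, false⟩) (pf4.m1)) :=
  ⟨279, 17, 14, 4, 0, by decide +kernel⟩
/-- A check of piece 4. -/
def chkf4_28 : Chk (boxf4.vC) (subst (sub pf4 ⟨true, false, false, false, false⟩) (pf4.m1)) :=
  ⟨278, 17, 14, 4, 0, by decide +kernel⟩
/-- A check of piece 4. -/
def chkf4_29 : Chk (boxf4.vC) (subst (sub pf4 ⟨true, true, false, false, false⟩) (pf4.m1)) :=
  ⟨279, 17, 14, 4, 0, by decide +kernel⟩
/-- A check of piece 4. -/
def chkf4_30 : Chk (boxf4.vC) (subst (sub pf4 ⟨false, false, true, false, false⟩) (strict (pf4.m2 false))) :=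
  ⟨446, 24, 19, 6, 0, by decide +kernel⟩
/-- A check of piece 4. -/
def chkf4_31 : Chk (boxf4.vC) (subst (sub pf4 ⟨false, false, true, false, true⟩) (strict (pf4.m2 false))) :=
  ⟨446, 24, 19, 6, 0, by decide +kernel⟩
/-- A check of piece 4. -/
def chkf4_32 : Chk (boxf4.vC) (subst (sub pf4 ⟨true, false, true, false, false⟩) (strict (pf4.m2 false))) :=
  ⟨446, 24, 19, 6, 0, by decide +kernel⟩
/-- A check of piece 4. -/
def chkf4_33 : Chk (boxf4.vC) (subst (sub pf4 ⟨true, false, true, false, true⟩) (strict (pf4.m2 false))) :=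
  ⟨446, 24, 19, 6, 0, by decide +kernel⟩
/-- A check of piece 4. -/
def chkf4_34 : Chk (boxf4.vC) (subst (sub pf4 ⟨false, true, true, false, false⟩) (strict (pf4.m2 true))) :=
  ⟨444, 24, 19, 6, 0, by decide +kernel⟩
/-- A check of piece 4. -/
def chkf4_35 : Chk (boxf4.vC) (subst (sub pf4 ⟨false, true, true, false, true⟩) (strict (pf4.m2 true))) :=
  ⟨444, 24, 19, 6, 0, by decide +kernel⟩
/-- A check of piece 4. -/
def chkf4_36 : Chk (boxf4.vC) (subst (sub pf4 ⟨true, true, true, false, false⟩) (strict (pf4.m2 true))) :=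
  ⟨444, 24, 19, 6, 0, by decide +kernel⟩
/-- A check of piece 4. -/
def chkf4_37 : Chk (boxf4.vC) (subst (sub pf4 ⟨true, true, true, false, true⟩) (strict (pf4.m2 true))) :=
  ⟨444, 24, 19, 6, 0, by decide +kernel⟩
/-- A check of piece 4. -/
def chkf4_38 : Chk (boxf4.vC) (subst (sub pf4 ⟨false, false, true, true, false⟩) (strict (pf4.m3 false))) :=
  ⟨552, 31, 25, 6, 0, by decide +kernel⟩
/-- A check of piece 4. -/
def chkf4_39 : Chk (boxf4.vC) (subst (sub pf4 ⟨false, false, true, true, true⟩) (strict (pf4.m3 false))) :=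
  ⟨552, 31, 25, 6, 0, by decide +kernel⟩
/-- A check of piece 4. -/
def chkf4_40 : Chk (boxf4.vC) (subst (sub pf4 ⟨false, true, true, true, false⟩) (strict (pf4.m3 false))) :=
  ⟨552, 31, 25, 6, 0, by decide +kernel⟩
/-- A check of piece 4. -/
def chkf4_41 : Chk (boxf4.vC) (subst (sub pf4 ⟨false, true, true, true, true⟩) (strict (pf4.m3 false))) :=
  ⟨552, 31, 25, 6, 0, by decide +kernel⟩
/-- A check of piece 4. -/
def chkf4_42 : Chk (boxf4.vC) (subst (sub pf4 ⟨true, false, true, true, false⟩) (strict (pf4.m3 false))) :=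
  ⟨552, 31, 25, 6, 0, by decide +kernel⟩
/-- A check of piece 4. -/
def chkf4_43 : Chk (boxf4.vC) (subst (sub pf4 ⟨true, false, true, true, true⟩) (strict (pf4.m3 false))) :=
  ⟨552, 31, 25, 6, 0, by decide +kernel⟩
/-- A check of piece 4. -/
def chkf4_44 : Chk (boxf4.vC) (subst (sub pf4 ⟨true, true, true, true, false⟩) (strict (pf4.m3 false))) :=
  ⟨552, 31, 25, 6, 0, by decide +kernel⟩
/-- A check of piece 4. -/
def chkf4_45 : Chk (boxf4.vC) (subst (sub pf4 ⟨true, true, true, true, true⟩) (strict (pf4.m3 false))) :=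
  ⟨552, 31, 25, 6, 0, by decide +kernel⟩
/-- A check of piece 4. -/
def chkf4_46 : Chk (boxf4.vC) (subst (sub pf4 ⟨false, false, true, true, false⟩) (strict (pf4.m3 true))) :=
  ⟨550, 31, 25, 6, 0, by decide +kernel⟩
/-- A check of piece 4. -/
def chkf4_47 : Chk (boxf4.vC) (subst (sub pf4 ⟨false, false, true, true, true⟩) (strict (pf4.m3 true))) :=
  ⟨550, 31, 25, 6, 0, by decide +kernel⟩
/-- A check of piece 4. -/
def chkf4_48 : Chk (boxf4.vC) (subst (sub pf4 ⟨false, true, true, true, false⟩) (strict (pf4.m3 true))) :=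
  ⟨550, 31, 25, 6, 0, by decide +kernel⟩
/-- A check of piece 4. -/
def chkf4_49 : Chk (boxf4.vC) (subst (sub pf4 ⟨false, true, true, true, true⟩) (strict (pf4.m3 true))) :=
  ⟨550, 31, 25, 6, 0, by decide +kernel⟩
/-- A check of piece 4. -/
def chkf4_50 : Chk (boxf4.vC) (subst (sub pf4 ⟨true, false, true, true, false⟩) (strict (pf4.m3 true))) :=
  ⟨550, 31, 25, 6, 0, by decide +kernel⟩
/-- A check of piece 4. -/
def chkf4_51 : Chk (boxf4.vC) (subst (sub pf4 ⟨true, false, true, true, true⟩) (strict (pf4.m3 true))) :=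
  ⟨550, 31, 25, 6, 0, by decide +kernel⟩
/-- A check of piece 4. -/
def chkf4_52 : Chk (boxf4.vC) (subst (sub pf4 ⟨true, true, true, true, false⟩) (strict (pf4.m3 true))) :=
  ⟨550, 31, 25, 6, 0, by decide +kernel⟩
/-- A check of piece 4. -/
def chkf4_53 : Chk (boxf4.vC) (subst (sub pf4 ⟨true, true, true, true, true⟩) (strict (pf4.m3 true))) :=
  ⟨550, 31, 25, 6, 0, by decide +kernel⟩
/-- A check of piece 4. -/
def chkf4_54 : Chk (boxf4.vC) (subst (sub pf4 ⟨false, false, true, true, false⟩) (negEx coMG12)) :=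
  ⟨101, 5, 5, 4, 0, by decide +kernel⟩
/-- A check of piece 4. -/
def chkf4_55 : Chk (boxf4.vC) (subst (sub pf4 ⟨false, false, true, true, false⟩) (negEx (pf4.curve2 false))) :=
  ⟨107, 5, 5, 4, 0, by decide +kernel⟩
/-- A check of piece 4. -/
def chkf4_56 : Chk (boxf4.vC) (subst (sub pf4 ⟨false, false, true, true, false⟩) (negEx (pf4.curve2 true))) :=
  ⟨104, 5, 5, 4, 0, by decide +kernel⟩
/-- A check of piece 4. -/
def chkf4_57 : Chk (boxf4.vC) (subst (sub pf4 ⟨false, false, true, true, false⟩) (negEx (pf4.curve3 false))) :=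
  ⟨116, 6, 6, 4, 0, by decide +kernel⟩
/-- A check of piece 4. -/
def chkf4_58 : Chk (boxf4.vC) (subst (sub pf4 ⟨false, false, true, true, false⟩) (negEx (pf4.curve3 true))) :=
  ⟨115, 6, 6, 4, 0, by decide +kernel⟩
/-- A check of piece 4. -/
def chkf4_59 : Chk (boxf4.vC) (subst (sub pf4 ⟨false, false, true, true, false⟩) (slopeT)) :=
  ⟨121, 7, 6, 4, 0, by decide +kernel⟩
/-- A check of piece 4. -/
def chkf4_60 : Chk (boxf4.vC) (subst (sub pf4 ⟨true, false, true, true, false⟩) (slopeT)) :=
  ⟨121, 7, 6, 4, 0, by decide +kernel⟩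
/-- A check of piece 4. -/
def chkf4_61 : Chk (boxf4.gC false) (subst (gapSub pf4 false false false) tplL) :=
  ⟨443, 28, 23, 5, 8, by decide +kernel⟩
/-- A check of piece 4. -/
def chkf4_62 : Chk (boxf4.gC false) (subst (gapSub pf4 false false true) tplL) :=
  ⟨443, 28, 23, 5, 8, by decide +kernel⟩
/-- A check of piece 4. -/
def chkf4_63 : Chk (boxf4.gC false) (subst (gapSub pf4 false true false) tplL) :=
  ⟨443, 28, 23, 5, 8, by decide +kernel⟩
/-- A check of piece 4. -/
def chkf4_64 : Chk (boxf4.gC false) (subst (gapSub pf4 false true true) tplL) :=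
  ⟨443, 28, 23, 5, 8, by decide +kernel⟩

/-- Piece 4 passes. -/
theorem certf4 : Cert pf4 boxf4 false where
  pos := by
    refine ⟨⟨⟨?_, ?_, ?_, ?_, ?_, ?_, ?_⟩, ?_, ?_, ?_, ?_, ?_, ?_, ?_, ?_, ?_, ?_, ?_⟩, ?_, ?_⟩ <;>
      norm_num [fr, pf4]
  gX := fun p l => match p, l with
    | false, false => chkf4_18
    | false, true => chkf4_19
    | true, false => chkf4_20
    | true, true => chkf4_21
  gMG := fun p l => match p, l with
    | false, false => chkf4_22
    | false, true => chkf4_23
    | true, false => chkf4_24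
    | true, true => chkf4_25
  g1 := fun p l => match p, l with
    | false, false => chkf4_26
    | false, true => chkf4_27
    | true, false => chkf4_28
    | true, true => chkf4_29
  g2 := fun s p t => match s, p, t with
    | false, false, false => chkf4_30
    | false, false, true => chkf4_31
    | false, true, false => chkf4_32
    | false, true, true => chkf4_33
    | true, false, false => chkf4_34
    | true, false, true => chkf4_35
    | true, true, false => chkf4_36
    | true, true, true => chkf4_37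
  g3 := fun s p l t => match s, p, l, t with
    | false, false, false, false => chkf4_38
    | false, false, false, true => chkf4_39
    | false, false, true, false => chkf4_40
    | false, false, true, true => chkf4_41
    | false, true, false, false => chkf4_42
    | false, true, false, true => chkf4_43
    | false, true, true, false => chkf4_44
    | false, true, true, true => chkf4_45
    | true, false, false, false => chkf4_46
    | true, false, false, true => chkf4_47
    | true, false, true, false => chkf4_48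
    | true, false, true, true => chkf4_49
    | true, true, false, false => chkf4_50
    | true, true, false, true => chkf4_51
    | true, true, true, false => chkf4_52
    | true, true, true, true => chkf4_53
  cMG := chkf4_54
  c2 := fun s => match s with
    | false => chkf4_55
    | true => chkf4_56
  c3 := fun s => match s with
    | false => chkf4_57
    | true => chkf4_58
  sT := fun p => match p with
    | false => chkf4_59
    | true => chkf4_60
  bnd := fun ze b => match ze, b with
    | false, .l0 => chkf4_0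
    | false, .l1 => chkf4_1
    | false, .r => chkf4_2
    | false, .g0 => chkf4_3
    | false, .g1 => chkf4_4
    | false, .t0 => chkf4_5
    | false, .t1 => chkf4_6
    | false, .w0 => chkf4_7
    | false, .w1 => chkf4_8
    | true, .l0 => chkf4_9
    | true, .l1 => chkf4_10
    | true, .r => chkf4_11
    | true, .g0 => chkf4_12
    | true, .g1 => chkf4_13
    | true, .t0 => chkf4_14
    | true, .t1 => chkf4_15
    | true, .w0 => chkf4_16
    | true, .w1 => chkf4_17
  gap := fun ze t => match ze, t with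
    | false, false => chkf4_61
    | false, true => chkf4_62
    | true, false => chkf4_63
    | true, true => chkf4_64

end Vale.Agent.P100.Calib.StripMid
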