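import Vale.Agent.P100.Calib.SlabStripMidChart

/-!
# The checks of piece 5 on `153/200 < u ≤ 4/5`
-/

set_option linter.defProp false

namespace Vale.Agent.P100.Calib.StripMid

open Pack

/-- The numbers of piece 5. -/
def pf5 : Piece :=
  ⟨.D, (153, 200), (4, 5), (1, 1), (39, 100), (7, 4), (199, 500), (13, 25),
    (929, 1000), (273, -375, 500), (639, -750, 1000), 33, (-111, -270, 178, 10), (487, 500), (1181, 1000), (3, 8),
    (1, 1), (14, 5)⟩

/-- The ranges of piece 5. -/
def boxf5 : Box :=
  ⟨(0, 1, 20), (5, 6, 20), (33, 263, 100), (39, 175, 100),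
    (153, 160, 200)⟩

/-- A check of piece 5. -/
def chkf5_0 : Chk (boxf5.cC) (bound pf5 false .l0) :=
  ⟨182, 13, 9, 2, 3, by decide +kernel⟩
/-- A check of piece 5. -/
def chkf5_1 : Chk (boxf5.cC) (bound pf5 false .l1) :=
  ⟨178, 13, 9, 2, 3, by decide +kernel⟩
/-- A check of piece 5. -/
def chkf5_2 : Chk (boxf5.cC) (bound pf5 false .r) :=
  ⟨183, 13, 9, 2, 3, by decide +kernel⟩
/-- A check of piece 5. -/
def chkf5_3 : Chk (boxf5.cC) (bound pf5 false .g0) :=
  ⟨77, 4, 3, 1, 2, by decide +kernel⟩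
/-- A check of piece 5. -/
def chkf5_4 : Chk (boxf5.cC) (bound pf5 false .g1) :=
  ⟨78, 4, 3, 1, 2, by decide +kernel⟩
/-- A check of piece 5. -/
def chkf5_5 : Chk (boxf5.cC) (bound pf5 false .t0) :=
  ⟨121, 6, 6, 2, 3, by decide +kernel⟩
/-- A check of piece 5. -/
def chkf5_6 : Chk (boxf5.cC) (bound pf5 false .t1) :=
  ⟨122, 6, 6, 2, 3, by decide +kernel⟩
/-- A check of piece 5. -/
def chkf5_7 : Chk (boxf5.cC) (bound pf5 false .w0) :=
  ⟨160, 10, 7, 3, 4, by decide +kernel⟩
/-- A check of piece 5. -/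
def chkf5_8 : Chk (boxf5.cC) (bound pf5 false .w1) :=
  ⟨163, 10, 7, 3, 4, by decide +kernel⟩
/-- A check of piece 5. -/
def chkf5_9 : Chk (boxf5.cC) (bound pf5 true .l0) :=
  ⟨182, 13, 9, 2, 3, by decide +kernel⟩
/-- A check of piece 5. -/
def chkf5_10 : Chk (boxf5.cC) (bound pf5 true .l1) :=
  ⟨178, 13, 9, 2, 3, by decide +kernel⟩
/-- A check of piece 5. -/
def chkf5_11 : Chk (boxf5.cC) (bound pf5 true .r) :=
  ⟨183, 13, 9, 2, 3, by decide +kernel⟩
/-- A check of piece 5. -/
def chkf5_12 : Chk (boxf5.cC) (bound pf5 true .g0) :=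
  ⟨77, 4, 3, 1, 2, by decide +kernel⟩
/-- A check of piece 5. -/
def chkf5_13 : Chk (boxf5.cC) (bound pf5 true .g1) :=
  ⟨78, 4, 3, 1, 2, by decide +kernel⟩
/-- A check of piece 5. -/
def chkf5_14 : Chk (boxf5.cC) (bound pf5 true .t0) :=
  ⟨121, 6, 6, 2, 3, by decide +kernel⟩
/-- A check of piece 5. -/
def chkf5_15 : Chk (boxf5.cC) (bound pf5 true .t1) :=
  ⟨122, 6, 6, 2, 3, by decide +kernel⟩
/-- A check of piece 5. -/
def chkf5_16 : Chk (boxf5.cC) (bound pf5 true .w0) :=
  ⟨160, 10, 7, 3, 4, by decide +kernel⟩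
/-- A check of piece 5. -/
def chkf5_17 : Chk (boxf5.cC) (bound pf5 true .w1) :=
  ⟨163, 10, 7, 3, 4, by decide +kernel⟩
/-- A check of piece 5. -/
def chkf5_18 : Chk (boxf5.vC) (subst (sub pf5 ⟨false, false, true, true, false⟩) (condX)) :=
  ⟨194, 13, 10, 4, 0, by decide +kernel⟩
/-- A check of piece 5. -/
def chkf5_19 : Chk (boxf5.vC) (subst (sub pf5 ⟨false, true, true, true, false⟩) (condX)) :=
  ⟨190, 13, 10, 4, 0, by decide +kernel⟩
/-- A check of piece 5. -/
def chkf5_20 : Chk (boxf5.vC) (subst (sub pf5 ⟨true, false, true, true, false⟩) (condX)) :=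
  ⟨194, 13, 10, 4, 0, by decide +kernel⟩
/-- A check of piece 5. -/
def chkf5_21 : Chk (boxf5.vC) (subst (sub pf5 ⟨true, true, true, true, false⟩) (condX)) :=
  ⟨190, 13, 10, 4, 0, by decide +kernel⟩
/-- A check of piece 5. -/
def chkf5_22 : Chk (boxf5.vC) (subst (sub pf5 ⟨false, false, true, false, false⟩) (tplMG)) :=
  ⟨367, 26, 20, 6, 0, by decide +kernel⟩
/-- A check of piece 5. -/
def chkf5_23 : Chk (boxf5.vC) (subst (sub pf5 ⟨false, true, true, false, false⟩) (tplMG)) :=
  ⟨358, 26, 20, 6, 0, by decide +kernel⟩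
/-- A check of piece 5. -/
def chkf5_24 : Chk (boxf5.vC) (subst (sub pf5 ⟨true, false, true, false, false⟩) (tplMG)) :=
  ⟨367, 26, 20, 6, 0, by decide +kernel⟩
/-- A check of piece 5. -/
def chkf5_25 : Chk (boxf5.vC) (subst (sub pf5 ⟨true, true, true, false, false⟩) (tplMG)) :=
  ⟨358, 26, 20, 6, 0, by decide +kernel⟩
/-- A check of piece 5. -/
def chkf5_26 : Chk (boxf5.vC) (subst (sub pf5 ⟨false, false, false, false, false⟩) (pf5.m1)) :=
  ⟨253, 17, 14, 4, 0, by decide +kernel⟩
/-- A check of piece 5. -/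
def chkf5_27 : Chk (boxf5.vC) (subst (sub pf5 ⟨false, true, false, false, false⟩) (pf5.m1)) :=
  ⟨249, 17, 14, 4, 0, by decide +kernel⟩
/-- A check of piece 5. -/
def chkf5_28 : Chk (boxf5.vC) (subst (sub pf5 ⟨true, false, false, false, false⟩) (pf5.m1)) :=
  ⟨253, 17, 14, 4, 0, by decide +kernel⟩
/-- A check of piece 5. -/
def chkf5_29 : Chk (boxf5.vC) (subst (sub pf5 ⟨true, true, false, false, false⟩) (pf5.m1)) :=
  ⟨249, 17, 14, 4, 0, by decide +kernel⟩
/-- A check of piece 5. -/
def chkf5_30 : Chk (boxf5.vC) (subst (sub pf5 ⟨false, false, true, false, false⟩) (strict (pf5.m2 false))) :=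
  ⟨407, 24, 19, 6, 0, by decide +kernel⟩
/-- A check of piece 5. -/
def chkf5_31 : Chk (boxf5.vC) (subst (sub pf5 ⟨false, false, true, false, true⟩) (strict (pf5.m2 false))) :=
  ⟨409, 24, 19, 6, 0, by decide +kernel⟩
/-- A check of piece 5. -/
def chkf5_32 : Chk (boxf5.vC) (subst (sub pf5 ⟨true, false, true, false, false⟩) (strict (pf5.m2 false))) :=
  ⟨407, 24, 19, 6, 0, by decide +kernel⟩
/-- A check of piece 5. -/
def chkf5_33 : Chk (boxf5.vC) (subst (sub pf5 ⟨true, false, true, false, true⟩) (strict (pf5.m2 false))) :=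
  ⟨409, 24, 19, 6, 0, by decide +kernel⟩
/-- A check of piece 5. -/
def chkf5_34 : Chk (boxf5.vC) (subst (sub pf5 ⟨false, true, true, false, false⟩) (strict (pf5.m2 true))) :=
  ⟨399, 24, 19, 6, 0, by decide +kernel⟩
/-- A check of piece 5. -/
def chkf5_35 : Chk (boxf5.vC) (subst (sub pf5 ⟨false, true, true, false, true⟩) (strict (pf5.m2 true))) :=
  ⟨401, 24, 19, 6, 0, by decide +kernel⟩
/-- A check of piece 5. -/
def chkf5_36 : Chk (boxf5.vC) (subst (sub pf5 ⟨true, true, true, false, false⟩) (strict (pf5.m2 true))) :=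
  ⟨399, 24, 19, 6, 0, by decide +kernel⟩
/-- A check of piece 5. -/
def chkf5_37 : Chk (boxf5.vC) (subst (sub pf5 ⟨true, true, true, false, true⟩) (strict (pf5.m2 true))) :=
  ⟨401, 24, 19, 6, 0, by decide +kernel⟩
/-- A check of piece 5. -/
def chkf5_38 : Chk (boxf5.vC) (subst (sub pf5 ⟨false, false, true, true, false⟩) (strict (pf5.m3 false))) :=
  ⟨503, 31, 25, 6, 0, by decide +kernel⟩
/-- A check of piece 5. -/
def chkf5_39 : Chk (boxf5.vC) (subst (sub pf5 ⟨false, false, true, true, true⟩) (strict (pf5.m3 false))) :=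
  ⟨504, 31, 25, 6, 0, by decide +kernel⟩
/-- A check of piece 5. -/
def chkf5_40 : Chk (boxf5.vC) (subst (sub pf5 ⟨false, true, true, true, false⟩) (strict (pf5.m3 false))) :=
  ⟨494, 31, 25, 6, 0, by decide +kernel⟩
/-- A check of piece 5. -/
def chkf5_41 : Chk (boxf5.vC) (subst (sub pf5 ⟨false, true, true, true, true⟩) (strict (pf5.m3 false))) :=
  ⟨495, 31, 25, 6, 0, by decide +kernel⟩
/-- A check of piece 5. -/
def chkf5_42 : Chk (boxf5.vC) (subst (sub pf5 ⟨true, false, true, true, false⟩) (strict (pf5.m3 false))) :=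
  ⟨503, 31, 25, 6, 0, by decide +kernel⟩
/-- A check of piece 5. -/
def chkf5_43 : Chk (boxf5.vC) (subst (sub pf5 ⟨true, false, true, true, true⟩) (strict (pf5.m3 false))) :=
  ⟨504, 31, 25, 6, 0, by decide +kernel⟩
/-- A check of piece 5. -/
def chkf5_44 : Chk (boxf5.vC) (subst (sub pf5 ⟨true, true, true, true, false⟩) (strict (pf5.m3 false))) :=
  ⟨494, 31, 25, 6, 0, by decide +kernel⟩
/-- A check of piece 5. -/
def chkf5_45 : Chk (boxf5.vC) (subst (sub pf5 ⟨true, true, true, true, true⟩) (strict (pf5.m3 false))) :=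
  ⟨495, 31, 25, 6, 0, by decide +kernel⟩
/-- A check of piece 5. -/
def chkf5_46 : Chk (boxf5.vC) (subst (sub pf5 ⟨false, false, true, true, false⟩) (strict (pf5.m3 true))) :=
  ⟨500, 31, 25, 6, 0, by decide +kernel⟩
/-- A check of piece 5. -/
def chkf5_47 : Chk (boxf5.vC) (subst (sub pf5 ⟨false, false, true, true, true⟩) (strict (pf5.m3 true))) :=
  ⟨501, 31, 25, 6, 0, by decide +kernel⟩
/-- A check of piece 5. -/
def chkf5_48 : Chk (boxf5.vC) (subst (sub pf5 ⟨false, true, true, true, false⟩) (strict (pf5.m3 true))) :=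
  ⟨491, 31, 25, 6, 0, by decide +kernel⟩
/-- A check of piece 5. -/
def chkf5_49 : Chk (boxf5.vC) (subst (sub pf5 ⟨false, true, true, true, true⟩) (strict (pf5.m3 true))) :=
  ⟨492, 31, 25, 6, 0, by decide +kernel⟩
/-- A check of piece 5. -/
def chkf5_50 : Chk (boxf5.vC) (subst (sub pf5 ⟨true, false, true, true, false⟩) (strict (pf5.m3 true))) :=
  ⟨500, 31, 25, 6, 0, by decide +kernel⟩
/-- A check of piece 5. -/
def chkf5_51 : Chk (boxf5.vC) (subst (sub pf5 ⟨true, false, true, true, true⟩) (strict (pf5.m3 true))) :=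
  ⟨501, 31, 25, 6, 0, by decide +kernel⟩
/-- A check of piece 5. -/
def chkf5_52 : Chk (boxf5.vC) (subst (sub pf5 ⟨true, true, true, true, false⟩) (strict (pf5.m3 true))) :=
  ⟨491, 31, 25, 6, 0, by decide +kernel⟩
/-- A check of piece 5. -/
def chkf5_53 : Chk (boxf5.vC) (subst (sub pf5 ⟨true, true, true, true, true⟩) (strict (pf5.m3 true))) :=
  ⟨492, 31, 25, 6, 0, by decide +kernel⟩
/-- A check of piece 5. -/
def chkf5_54 : Chk (boxf5.vC) (subst (sub pf5 ⟨false, false, true, true, false⟩) (negEx coMG12)) :=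
  ⟨89, 5, 5, 4, 0, by decide +kernel⟩
/-- A check of piece 5. -/
def chkf5_55 : Chk (boxf5.vC) (subst (sub pf5 ⟨false, false, true, true, false⟩) (negEx (pf5.curve2 false))) :=
  ⟨97, 5, 5, 4, 0, by decide +kernel⟩
/-- A check of piece 5. -/
def chkf5_56 : Chk (boxf5.vC) (subst (sub pf5 ⟨false, false, true, true, false⟩) (negEx (pf5.curve2 true))) :=
  ⟨93, 5, 5, 4, 0, by decide +kernel⟩
/-- A check of piece 5. -/
def chkf5_57 : Chk (boxf5.vC) (subst (sub pf5 ⟨false, false, true, true, false⟩) (negEx (pf5.curve3 false))) :=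
  ⟨104, 6, 6, 4, 0, by decide +kernel⟩
/-- A check of piece 5. -/
def chkf5_58 : Chk (boxf5.vC) (subst (sub pf5 ⟨false, false, true, true, false⟩) (negEx (pf5.curve3 true))) :=
  ⟨101, 6, 6, 4, 0, by decide +kernel⟩
/-- A check of piece 5. -/
def chkf5_59 : Chk (boxf5.vC) (subst (sub pf5 ⟨false, false, true, true, false⟩) (slopeT)) :=
  ⟨107, 7, 6, 4, 0, by decide +kernel⟩
/-- A check of piece 5. -/
def chkf5_60 : Chk (boxf5.vC) (subst (sub pf5 ⟨true, false, true, true, false⟩) (slopeT)) :=
  ⟨107, 7, 6, 4, 0, by decide +kernel⟩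
/-- A check of piece 5. -/
def chkf5_61 : Chk (boxf5.gC false) (subst (gapSub pf5 false false false) tplL) :=
  ⟨417, 28, 23, 5, 8, by decide +kernel⟩
/-- A check of piece 5. -/
def chkf5_62 : Chk (boxf5.gC false) (subst (gapSub pf5 false false true) tplL) :=
  ⟨418, 28, 23, 5, 8, by decide +kernel⟩
/-- A check of piece 5. -/
def chkf5_63 : Chk (boxf5.gC false) (subst (gapSub pf5 false true false) tplL) :=
  ⟨417, 28, 23, 5, 8, by decide +kernel⟩
/-- A check of piece 5. -/
def chkf5_64 : Chk (boxf5.gC false) (subst (gapSub pf5 false true true) tplL) :=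
  ⟨418, 28, 23, 5, 8, by decide +kernel⟩

/-- Piece 5 passes. -/
theorem certf5 : Cert pf5 boxf5 false where
  pos := by
    refine ⟨⟨⟨?_, ?_, ?_, ?_, ?_, ?_, ?_⟩, ?_, ?_, ?_, ?_, ?_, ?_, ?_, ?_, ?_, ?_, ?_⟩, ?_, ?_⟩ <;>
      norm_num [fr, pf5]
  gX := fun p l => match p, l with
    | false, false => chkf5_18
    | false, true => chkf5_19
    | true, false => chkf5_20
    | true, true => chkf5_21
  gMG := fun p l => match p, l with
    | false, false => chkf5_22
    | false, true => chkf5_23
    | true, false => chkf5_24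
    | true, true => chkf5_25
  g1 := fun p l => match p, l with
    | false, false => chkf5_26
    | false, true => chkf5_27
    | true, false => chkf5_28
    | true, true => chkf5_29
  g2 := fun s p t => match s, p, t with
    | false, false, false => chkf5_30
    | false, false, true => chkf5_31
    | false, true, false => chkf5_32
    | false, true, true => chkf5_33
    | true, false, false => chkf5_34
    | true, false, true => chkf5_35
    | true, true, false => chkf5_36
    | true, true, true => chkf5_37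
  g3 := fun s p l t => match s, p, l, t with
    | false, false, false, false => chkf5_38
    | false, false, false, true => chkf5_39
    | false, false, true, false => chkf5_40
    | false, false, true, true => chkf5_41
    | false, true, false, false => chkf5_42
    | false, true, false, true => chkf5_43
    | false, true, true, false => chkf5_44
    | false, true, true, true => chkf5_45
    | true, false, false, false => chkf5_46
    | true, false, false, true => chkf5_47
    | true, false, true, false => chkf5_48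
    | true, false, true, true => chkf5_49
    | true, true, false, false => chkf5_50
    | true, true, false, true => chkf5_51
    | true, true, true, false => chkf5_52
    | true, true, true, true => chkf5_53
  cMG := chkf5_54
  c2 := fun s => match s with
    | false => chkf5_55
    | true => chkf5_56
  c3 := fun s => match s with
    | false => chkf5_57
    | true => chkf5_58
  sT := fun p => match p with
    | false => chkf5_59
    | true => chkf5_60
  bnd := fun ze b => match ze, b with
    | false, .l0 => chkf5_0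
    | false, .l1 => chkf5_1
    | false, .r => chkf5_2
    | false, .g0 => chkf5_3
    | false, .g1 => chkf5_4
    | false, .t0 => chkf5_5
    | false, .t1 => chkf5_6
    | false, .w0 => chkf5_7
    | false, .w1 => chkf5_8
    | true, .l0 => chkf5_9
    | true, .l1 => chkf5_10
    | true, .r => chkf5_11
    | true, .g0 => chkf5_12
    | true, .g1 => chkf5_13
    | true, .t0 => chkf5_14
    | true, .t1 => chkf5_15
    | true, .w0 => chkf5_16
    | true, .w1 => chkf5_17
  gap := fun ze t => match ze, t with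
    | false, false => chkf5_61
    | false, true => chkf5_62
    | true, false => chkf5_63
    | true, true => chkf5_64

end Vale.Agent.P100.Calib.StripMid
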