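import Vale.Agent.P100.Calib.SlabStripMidChart

/-!
# The checks of piece 6 on `153/200 < u ≤ 4/5`
-/

set_option linter.defProp false

namespace Vale.Agent.P100.Calib.StripMid

open Pack

/-- The numbers of piece 6. -/
def pf6 : Piece :=
  ⟨.D, (153, 200), (4, 5), (1, 1), (39, 100), (7, 4), (199, 500), (64, 125),
    (937, 1000), (101, -120, 200), (591, -600, 1000), 31, (-125, -280, 133, 10), (1077, 1000), (1217, 1000), (7, 20),
    (1, 1), (14, 5)⟩

/-- The ranges of piece 6. -/
def boxf6 : Box :=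
  ⟨(0, 1, 25), (15, 16, 50), (33, 223, 100), (39, 175, 100),
    (153, 160, 200)⟩

/-- A check of piece 6. -/
def chkf6_0 : Chk (boxf6.cC) (bound pf6 false .l0) :=
  ⟨198, 13, 9, 2, 3, by decide +kernel⟩
/-- A check of piece 6. -/
def chkf6_1 : Chk (boxf6.cC) (bound pf6 false .l1) :=
  ⟨196, 13, 9, 2, 3, by decide +kernel⟩
/-- A check of piece 6. -/
def chkf6_2 : Chk (boxf6.cC) (bound pf6 false .r) :=
  ⟨199, 13, 9, 2, 3, by decide +kernel⟩
/-- A check of piece 6. -/
def chkf6_3 : Chk (boxf6.cC) (bound pf6 false .g0) :=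
  ⟨84, 4, 3, 1, 2, by decide +kernel⟩
/-- A check of piece 6. -/
def chkf6_4 : Chk (boxf6.cC) (bound pf6 false .g1) :=
  ⟨84, 4, 3, 1, 2, by decide +kernel⟩
/-- A check of piece 6. -/
def chkf6_5 : Chk (boxf6.cC) (bound pf6 false .t0) :=
  ⟨129, 6, 6, 2, 3, by decide +kernel⟩
/-- A check of piece 6. -/
def chkf6_6 : Chk (boxf6.cC) (bound pf6 false .t1) :=
  ⟨132, 6, 6, 2, 3, by decide +kernel⟩
/-- A check of piece 6. -/
def chkf6_7 : Chk (boxf6.cC) (bound pf6 false .w0) :=
  ⟨172, 10, 7, 3, 4, by decide +kernel⟩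
/-- A check of piece 6. -/
def chkf6_8 : Chk (boxf6.cC) (bound pf6 false .w1) :=
  ⟨176, 10, 7, 3, 4, by decide +kernel⟩
/-- A check of piece 6. -/
def chkf6_9 : Chk (boxf6.cC) (bound pf6 true .l0) :=
  ⟨198, 13, 9, 2, 3, by decide +kernel⟩
/-- A check of piece 6. -/
def chkf6_10 : Chk (boxf6.cC) (bound pf6 true .l1) :=
  ⟨196, 13, 9, 2, 3, by decide +kernel⟩
/-- A check of piece 6. -/
def chkf6_11 : Chk (boxf6.cC) (bound pf6 true .r) :=
  ⟨199, 13, 9, 2, 3, by decide +kernel⟩
/-- A check of piece 6. -/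
def chkf6_12 : Chk (boxf6.cC) (bound pf6 true .g0) :=
  ⟨84, 4, 3, 1, 2, by decide +kernel⟩
/-- A check of piece 6. -/
def chkf6_13 : Chk (boxf6.cC) (bound pf6 true .g1) :=
  ⟨84, 4, 3, 1, 2, by decide +kernel⟩
/-- A check of piece 6. -/
def chkf6_14 : Chk (boxf6.cC) (bound pf6 true .t0) :=
  ⟨129, 6, 6, 2, 3, by decide +kernel⟩
/-- A check of piece 6. -/
def chkf6_15 : Chk (boxf6.cC) (bound pf6 true .t1) :=
  ⟨132, 6, 6, 2, 3, by decide +kernel⟩
/-- A check of piece 6. -/
def chkf6_16 : Chk (boxf6.cC) (bound pf6 true .w0) :=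
  ⟨172, 10, 7, 3, 4, by decide +kernel⟩
/-- A check of piece 6. -/
def chkf6_17 : Chk (boxf6.cC) (bound pf6 true .w1) :=
  ⟨176, 10, 7, 3, 4, by decide +kernel⟩
/-- A check of piece 6. -/
def chkf6_18 : Chk (boxf6.vC) (subst (sub pf6 ⟨false, false, true, true, false⟩) (condX)) :=
  ⟨212, 13, 10, 4, 0, by decide +kernel⟩
/-- A check of piece 6. -/
def chkf6_19 : Chk (boxf6.vC) (subst (sub pf6 ⟨false, true, true, true, false⟩) (condX)) :=
  ⟨210, 13, 10, 4, 0, by decide +kernel⟩
/-- A check of piece 6. -/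
def chkf6_20 : Chk (boxf6.vC) (subst (sub pf6 ⟨true, false, true, true, false⟩) (condX)) :=
  ⟨212, 13, 10, 4, 0, by decide +kernel⟩
/-- A check of piece 6. -/
def chkf6_21 : Chk (boxf6.vC) (subst (sub pf6 ⟨true, true, true, true, false⟩) (condX)) :=
  ⟨210, 13, 10, 4, 0, by decide +kernel⟩
/-- A check of piece 6. -/
def chkf6_22 : Chk (boxf6.vC) (subst (sub pf6 ⟨false, false, true, false, false⟩) (tplMG)) :=
  ⟨401, 26, 20, 6, 0, by decide +kernel⟩
/-- A check of piece 6. -/
def chkf6_23 : Chk (boxf6.vC) (subst (sub pf6 ⟨false, true, true, false, false⟩) (tplMG)) :=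
  ⟨397, 26, 20, 6, 0, by decide +kernel⟩
/-- A check of piece 6. -/
def chkf6_24 : Chk (boxf6.vC) (subst (sub pf6 ⟨true, false, true, false, false⟩) (tplMG)) :=
  ⟨401, 26, 20, 6, 0, by decide +kernel⟩
/-- A check of piece 6. -/
def chkf6_25 : Chk (boxf6.vC) (subst (sub pf6 ⟨true, true, true, false, false⟩) (tplMG)) :=
  ⟨397, 26, 20, 6, 0, by decide +kernel⟩
/-- A check of piece 6. -/
def chkf6_26 : Chk (boxf6.vC) (subst (sub pf6 ⟨false, false, false, false, false⟩) (pf6.m1)) :=
  ⟨278, 17, 14, 4, 0, by decide +kernel⟩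
/-- A check of piece 6. -/
def chkf6_27 : Chk (boxf6.vC) (subst (sub pf6 ⟨false, true, false, false, false⟩) (pf6.m1)) :=
  ⟨277, 17, 14, 4, 0, by decide +kernel⟩
/-- A check of piece 6. -/
def chkf6_28 : Chk (boxf6.vC) (subst (sub pf6 ⟨true, false, false, false, false⟩) (pf6.m1)) :=
  ⟨278, 17, 14, 4, 0, by decide +kernel⟩
/-- A check of piece 6. -/
def chkf6_29 : Chk (boxf6.vC) (subst (sub pf6 ⟨true, true, false, false, false⟩) (pf6.m1)) :=
  ⟨277, 17, 14, 4, 0, by decide +kernel⟩
/-- A check of piece 6. -/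
def chkf6_30 : Chk (boxf6.vC) (subst (sub pf6 ⟨false, false, true, false, false⟩) (strict (pf6.m2 false))) :=
  ⟨438, 24, 19, 6, 0, by decide +kernel⟩
/-- A check of piece 6. -/
def chkf6_31 : Chk (boxf6.vC) (subst (sub pf6 ⟨false, false, true, false, true⟩) (strict (pf6.m2 false))) :=
  ⟨442, 24, 19, 6, 0, by decide +kernel⟩
/-- A check of piece 6. -/
def chkf6_32 : Chk (boxf6.vC) (subst (sub pf6 ⟨true, false, true, false, false⟩) (strict (pf6.m2 false))) :=
  ⟨438, 24, 19, 6, 0, by decide +kernel⟩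
/-- A check of piece 6. -/
def chkf6_33 : Chk (boxf6.vC) (subst (sub pf6 ⟨true, false, true, false, true⟩) (strict (pf6.m2 false))) :=
  ⟨442, 24, 19, 6, 0, by decide +kernel⟩
/-- A check of piece 6. -/
def chkf6_34 : Chk (boxf6.vC) (subst (sub pf6 ⟨false, true, true, false, false⟩) (strict (pf6.m2 true))) :=
  ⟨433, 24, 19, 6, 0, by decide +kernel⟩
/-- A check of piece 6. -/
def chkf6_35 : Chk (boxf6.vC) (subst (sub pf6 ⟨false, true, true, false, true⟩) (strict (pf6.m2 true))) :=
  ⟨437, 24, 19, 6, 0, by decide +kernel⟩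
/-- A check of piece 6. -/
def chkf6_36 : Chk (boxf6.vC) (subst (sub pf6 ⟨true, true, true, false, false⟩) (strict (pf6.m2 true))) :=
  ⟨433, 24, 19, 6, 0, by decide +kernel⟩
/-- A check of piece 6. -/
def chkf6_37 : Chk (boxf6.vC) (subst (sub pf6 ⟨true, true, true, false, true⟩) (strict (pf6.m2 true))) :=
  ⟨437, 24, 19, 6, 0, by decide +kernel⟩
/-- A check of piece 6. -/
def chkf6_38 : Chk (boxf6.vC) (subst (sub pf6 ⟨false, false, true, true, false⟩) (strict (pf6.m3 false))) :=
  ⟨548, 31, 25, 6, 0, by decide +kernel⟩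
/-- A check of piece 6. -/
def chkf6_39 : Chk (boxf6.vC) (subst (sub pf6 ⟨false, false, true, true, true⟩) (strict (pf6.m3 false))) :=
  ⟨550, 31, 25, 6, 0, by decide +kernel⟩
/-- A check of piece 6. -/
def chkf6_40 : Chk (boxf6.vC) (subst (sub pf6 ⟨false, true, true, true, false⟩) (strict (pf6.m3 false))) :=
  ⟨544, 31, 25, 6, 0, by decide +kernel⟩
/-- A check of piece 6. -/
def chkf6_41 : Chk (boxf6.vC) (subst (sub pf6 ⟨false, true, true, true, true⟩) (strict (pf6.m3 false))) :=
  ⟨546, 31, 25, 6, 0, by decide +kernel⟩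
/-- A check of piece 6. -/
def chkf6_42 : Chk (boxf6.vC) (subst (sub pf6 ⟨true, false, true, true, false⟩) (strict (pf6.m3 false))) :=
  ⟨548, 31, 25, 6, 0, by decide +kernel⟩
/-- A check of piece 6. -/
def chkf6_43 : Chk (boxf6.vC) (subst (sub pf6 ⟨true, false, true, true, true⟩) (strict (pf6.m3 false))) :=
  ⟨550, 31, 25, 6, 0, by decide +kernel⟩
/-- A check of piece 6. -/
def chkf6_44 : Chk (boxf6.vC) (subst (sub pf6 ⟨true, true, true, true, false⟩) (strict (pf6.m3 false))) :=
  ⟨544, 31, 25, 6, 0, by decide +kernel⟩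
/-- A check of piece 6. -/
def chkf6_45 : Chk (boxf6.vC) (subst (sub pf6 ⟨true, true, true, true, true⟩) (strict (pf6.m3 false))) :=
  ⟨546, 31, 25, 6, 0, by decide +kernel⟩
/-- A check of piece 6. -/
def chkf6_46 : Chk (boxf6.vC) (subst (sub pf6 ⟨false, false, true, true, false⟩) (strict (pf6.m3 true))) :=
  ⟨545, 31, 25, 6, 0, by decide +kernel⟩
/-- A check of piece 6. -/
def chkf6_47 : Chk (boxf6.vC) (subst (sub pf6 ⟨false, false, true, true, true⟩) (strict (pf6.m3 true))) :=
  ⟨547, 31, 25, 6, 0, by decide +kernel⟩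
/-- A check of piece 6. -/
def chkf6_48 : Chk (boxf6.vC) (subst (sub pf6 ⟨false, true, true, true, false⟩) (strict (pf6.m3 true))) :=
  ⟨541, 31, 25, 6, 0, by decide +kernel⟩
/-- A check of piece 6. -/
def chkf6_49 : Chk (boxf6.vC) (subst (sub pf6 ⟨false, true, true, true, true⟩) (strict (pf6.m3 true))) :=
  ⟨543, 31, 25, 6, 0, by decide +kernel⟩
/-- A check of piece 6. -/
def chkf6_50 : Chk (boxf6.vC) (subst (sub pf6 ⟨true, false, true, true, false⟩) (strict (pf6.m3 true))) :=
  ⟨545, 31, 25, 6, 0, by decide +kernel⟩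
/-- A check of piece 6. -/
def chkf6_51 : Chk (boxf6.vC) (subst (sub pf6 ⟨true, false, true, true, true⟩) (strict (pf6.m3 true))) :=
  ⟨547, 31, 25, 6, 0, by decide +kernel⟩
/-- A check of piece 6. -/
def chkf6_52 : Chk (boxf6.vC) (subst (sub pf6 ⟨true, true, true, true, false⟩) (strict (pf6.m3 true))) :=
  ⟨541, 31, 25, 6, 0, by decide +kernel⟩
/-- A check of piece 6. -/
def chkf6_53 : Chk (boxf6.vC) (subst (sub pf6 ⟨true, true, true, true, true⟩) (strict (pf6.m3 true))) :=
  ⟨543, 31, 25, 6, 0, by decide +kernel⟩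
/-- A check of piece 6. -/
def chkf6_54 : Chk (boxf6.vC) (subst (sub pf6 ⟨false, false, true, true, false⟩) (negEx coMG12)) :=
  ⟨98, 5, 5, 4, 0, by decide +kernel⟩
/-- A check of piece 6. -/
def chkf6_55 : Chk (boxf6.vC) (subst (sub pf6 ⟨false, false, true, true, false⟩) (negEx (pf6.curve2 false))) :=
  ⟨105, 5, 5, 4, 0, by decide +kernel⟩
/-- A check of piece 6. -/
def chkf6_56 : Chk (boxf6.vC) (subst (sub pf6 ⟨false, false, true, true, false⟩) (negEx (pf6.curve2 true))) :=
  ⟨101, 5, 5, 4, 0, by decide +kernel⟩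
/-- A check of piece 6. -/
def chkf6_57 : Chk (boxf6.vC) (subst (sub pf6 ⟨false, false, true, true, false⟩) (negEx (pf6.curve3 false))) :=
  ⟨114, 6, 6, 4, 0, by decide +kernel⟩
/-- A check of piece 6. -/
def chkf6_58 : Chk (boxf6.vC) (subst (sub pf6 ⟨false, false, true, true, false⟩) (negEx (pf6.curve3 true))) :=
  ⟨111, 6, 6, 4, 0, by decide +kernel⟩
/-- A check of piece 6. -/
def chkf6_59 : Chk (boxf6.vC) (subst (sub pf6 ⟨false, false, true, true, false⟩) (slopeT)) :=
  ⟨117, 7, 6, 4, 0, by decide +kernel⟩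
/-- A check of piece 6. -/
def chkf6_60 : Chk (boxf6.vC) (subst (sub pf6 ⟨true, false, true, true, false⟩) (slopeT)) :=
  ⟨117, 7, 6, 4, 0, by decide +kernel⟩
/-- A check of piece 6. -/
def chkf6_61 : Chk (boxf6.gC true) (subst (gapSub pf6 true false false) tplL) :=
  ⟨324, 22, 17, 5, 2, by decide +kernel⟩
/-- A check of piece 6. -/
def chkf6_62 : Chk (boxf6.gC true) (subst (gapSub pf6 true false true) tplL) :=
  ⟨326, 22, 17, 5, 2, by decide +kernel⟩
/-- A check of piece 6. -/
def chkf6_63 : Chk (boxf6.gC true) (subst (gapSub pf6 true true false) tplL) :=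
  ⟨324, 22, 17, 5, 2, by decide +kernel⟩
/-- A check of piece 6. -/
def chkf6_64 : Chk (boxf6.gC true) (subst (gapSub pf6 true true true) tplL) :=
  ⟨326, 22, 17, 5, 2, by decide +kernel⟩

/-- Piece 6 passes. -/
theorem certf6 : Cert pf6 boxf6 true where
  pos := by
    refine ⟨⟨⟨?_, ?_, ?_, ?_, ?_, ?_, ?_⟩, ?_, ?_, ?_, ?_, ?_, ?_, ?_, ?_, ?_, ?_, ?_⟩, ?_, ?_⟩ <;>
      norm_num [fr, pf6]
  gX := fun p l => match p, l with
    | false, false => chkf6_18
    | false, true => chkf6_19
    | true, false => chkf6_20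
    | true, true => chkf6_21
  gMG := fun p l => match p, l with
    | false, false => chkf6_22
    | false, true => chkf6_23
    | true, false => chkf6_24
    | true, true => chkf6_25
  g1 := fun p l => match p, l with
    | false, false => chkf6_26
    | false, true => chkf6_27
    | true, false => chkf6_28
    | true, true => chkf6_29
  g2 := fun s p t => match s, p, t with
    | false, false, false => chkf6_30
    | false, false, true => chkf6_31
    | false, true, false => chkf6_32
    | false, true, true => chkf6_33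
    | true, false, false => chkf6_34
    | true, false, true => chkf6_35
    | true, true, false => chkf6_36
    | true, true, true => chkf6_37
  g3 := fun s p l t => match s, p, l, t with
    | false, false, false, false => chkf6_38
    | false, false, false, true => chkf6_39
    | false, false, true, false => chkf6_40
    | false, false, true, true => chkf6_41
    | false, true, false, false => chkf6_42
    | false, true, false, true => chkf6_43
    | false, true, true, false => chkf6_44
    | false, true, true, true => chkf6_45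
    | true, false, false, false => chkf6_46
    | true, false, false, true => chkf6_47
    | true, false, true, false => chkf6_48
    | true, false, true, true => chkf6_49
    | true, true, false, false => chkf6_50
    | true, true, false, true => chkf6_51
    | true, true, true, false => chkf6_52
    | true, true, true, true => chkf6_53
  cMG := chkf6_54
  c2 := fun s => match s with
    | false => chkf6_55
    | true => chkf6_56
  c3 := fun s => match s with
    | false => chkf6_57
    | true => chkf6_58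
  sT := fun p => match p with
    | false => chkf6_59
    | true => chkf6_60
  bnd := fun ze b => match ze, b with
    | false, .l0 => chkf6_0
    | false, .l1 => chkf6_1
    | false, .r => chkf6_2
    | false, .g0 => chkf6_3
    | false, .g1 => chkf6_4
    | false, .t0 => chkf6_5
    | false, .t1 => chkf6_6
    | false, .w0 => chkf6_7
    | false, .w1 => chkf6_8
    | true, .l0 => chkf6_9
    | true, .l1 => chkf6_10
    | true, .r => chkf6_11
    | true, .g0 => chkf6_12
    | true, .g1 => chkf6_13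
    | true, .t0 => chkf6_14
    | true, .t1 => chkf6_15
    | true, .w0 => chkf6_16
    | true, .w1 => chkf6_17
  gap := fun ze t => match ze, t with
    | false, false => chkf6_61
    | false, true => chkf6_62
    | true, false => chkf6_63
    | true, true => chkf6_64

end Vale.Agent.P100.Calib.StripMid
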