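import Vale.Agent.P100.Calib.SlabStripMidChart

/-!
# The checks of piece 7 on `153/200 < u ≤ 4/5`
-/

set_option linter.defProp false

namespace Vale.Agent.P100.Calib.StripMid

open Pack

/-- The numbers of piece 7. -/
def pf7 : Piece :=
  ⟨.D, (153, 200), (4, 5), (1, 1), (39, 100), (7, 4), (199, 500), (63, 125),
    (947, 1000), (51, -60, 100), (59, -60, 100), 29, (-131, -300, 111, 10), (281, 250), (313, 250), (7, 20),
    (1, 1), (14, 5)⟩

/-- The ranges of piece 7. -/
def boxf7 : Box :=
  ⟨(0, 3, 100), (16, 17, 50), (33, 209, 100), (39, 175, 100),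
    (153, 160, 200)⟩

/-- A check of piece 7. -/
def chkf7_0 : Chk (boxf7.cC) (bound pf7 false .l0) :=
  ⟨224, 13, 9, 2, 3, by decide +kernel⟩
/-- A check of piece 7. -/
def chkf7_1 : Chk (boxf7.cC) (bound pf7 false .l1) :=
  ⟨222, 13, 9, 2, 3, by decide +kernel⟩
/-- A check of piece 7. -/
def chkf7_2 : Chk (boxf7.cC) (bound pf7 false .r) :=
  ⟨225, 13, 9, 2, 3, by decide +kernel⟩
/-- A check of piece 7. -/
def chkf7_3 : Chk (boxf7.cC) (bound pf7 false .g0) :=
  ⟨90, 4, 3, 1, 2, by decide +kernel⟩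
/-- A check of piece 7. -/
def chkf7_4 : Chk (boxf7.cC) (bound pf7 false .g1) :=
  ⟨90, 4, 3, 1, 2, by decide +kernel⟩
/-- A check of piece 7. -/
def chkf7_5 : Chk (boxf7.cC) (bound pf7 false .t0) :=
  ⟨140, 6, 6, 2, 3, by decide +kernel⟩
/-- A check of piece 7. -/
def chkf7_6 : Chk (boxf7.cC) (bound pf7 false .t1) :=
  ⟨140, 6, 6, 2, 3, by decide +kernel⟩
/-- A check of piece 7. -/
def chkf7_7 : Chk (boxf7.cC) (bound pf7 false .w0) :=
  ⟨192, 10, 7, 3, 4, by decide +kernel⟩
/-- A check of piece 7. -/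
def chkf7_8 : Chk (boxf7.cC) (bound pf7 false .w1) :=
  ⟨195, 10, 7, 3, 4, by decide +kernel⟩
/-- A check of piece 7. -/
def chkf7_9 : Chk (boxf7.cC) (bound pf7 true .l0) :=
  ⟨224, 13, 9, 2, 3, by decide +kernel⟩
/-- A check of piece 7. -/
def chkf7_10 : Chk (boxf7.cC) (bound pf7 true .l1) :=
  ⟨222, 13, 9, 2, 3, by decide +kernel⟩
/-- A check of piece 7. -/
def chkf7_11 : Chk (boxf7.cC) (bound pf7 true .r) :=
  ⟨225, 13, 9, 2, 3, by decide +kernel⟩
/-- A check of piece 7. -/
def chkf7_12 : Chk (boxf7.cC) (bound pf7 true .g0) :=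
  ⟨90, 4, 3, 1, 2, by decide +kernel⟩
/-- A check of piece 7. -/
def chkf7_13 : Chk (boxf7.cC) (bound pf7 true .g1) :=
  ⟨90, 4, 3, 1, 2, by decide +kernel⟩
/-- A check of piece 7. -/
def chkf7_14 : Chk (boxf7.cC) (bound pf7 true .t0) :=
  ⟨140, 6, 6, 2, 3, by decide +kernel⟩
/-- A check of piece 7. -/
def chkf7_15 : Chk (boxf7.cC) (bound pf7 true .t1) :=
  ⟨141, 6, 6, 2, 3, by decide +kernel⟩
/-- A check of piece 7. -/
def chkf7_16 : Chk (boxf7.cC) (bound pf7 true .w0) :=
  ⟨192, 10, 7, 3, 4, by decide +kernel⟩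
/-- A check of piece 7. -/
def chkf7_17 : Chk (boxf7.cC) (bound pf7 true .w1) :=
  ⟨195, 10, 7, 3, 4, by decide +kernel⟩
/-- A check of piece 7. -/
def chkf7_18 : Chk (boxf7.vC) (subst (sub pf7 ⟨false, false, true, true, false⟩) (condX)) :=
  ⟨238, 13, 10, 4, 0, by decide +kernel⟩
/-- A check of piece 7. -/
def chkf7_19 : Chk (boxf7.vC) (subst (sub pf7 ⟨false, true, true, true, false⟩) (condX)) :=
  ⟨236, 13, 10, 4, 0, by decide +kernel⟩
/-- A check of piece 7. -/
def chkf7_20 : Chk (boxf7.vC) (subst (sub pf7 ⟨true, false, true, true, false⟩) (condX)) :=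
  ⟨238, 13, 10, 4, 0, by decide +kernel⟩
/-- A check of piece 7. -/
def chkf7_21 : Chk (boxf7.vC) (subst (sub pf7 ⟨true, true, true, true, false⟩) (condX)) :=
  ⟨236, 13, 10, 4, 0, by decide +kernel⟩
/-- A check of piece 7. -/
def chkf7_22 : Chk (boxf7.vC) (subst (sub pf7 ⟨false, false, true, false, false⟩) (tplMG)) :=
  ⟨452, 26, 20, 6, 0, by decide +kernel⟩
/-- A check of piece 7. -/
def chkf7_23 : Chk (boxf7.vC) (subst (sub pf7 ⟨false, true, true, false, false⟩) (tplMG)) :=
  ⟨448, 26, 20, 6, 0, by decide +kernel⟩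
/-- A check of piece 7. -/
def chkf7_24 : Chk (boxf7.vC) (subst (sub pf7 ⟨true, false, true, false, false⟩) (tplMG)) :=
  ⟨452, 26, 20, 6, 0, by decide +kernel⟩
/-- A check of piece 7. -/
def chkf7_25 : Chk (boxf7.vC) (subst (sub pf7 ⟨true, true, true, false, false⟩) (tplMG)) :=
  ⟨448, 26, 20, 6, 0, by decide +kernel⟩
/-- A check of piece 7. -/
def chkf7_26 : Chk (boxf7.vC) (subst (sub pf7 ⟨false, false, false, false, false⟩) (pf7.m1)) :=
  ⟨310, 17, 14, 4, 0, by decide +kernel⟩
/-- A check of piece 7. -/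
def chkf7_27 : Chk (boxf7.vC) (subst (sub pf7 ⟨false, true, false, false, false⟩) (pf7.m1)) :=
  ⟨309, 17, 14, 4, 0, by decide +kernel⟩
/-- A check of piece 7. -/
def chkf7_28 : Chk (boxf7.vC) (subst (sub pf7 ⟨true, false, false, false, false⟩) (pf7.m1)) :=
  ⟨310, 17, 14, 4, 0, by decide +kernel⟩
/-- A check of piece 7. -/
def chkf7_29 : Chk (boxf7.vC) (subst (sub pf7 ⟨true, true, false, false, false⟩) (pf7.m1)) :=
  ⟨309, 17, 14, 4, 0, by decide +kernel⟩
/-- A check of piece 7. -/
def chkf7_30 : Chk (boxf7.vC) (subst (sub pf7 ⟨false, false, true, false, false⟩) (strict (pf7.m2 false))) :=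
  ⟨484, 24, 19, 6, 0, by decide +kernel⟩
/-- A check of piece 7. -/
def chkf7_31 : Chk (boxf7.vC) (subst (sub pf7 ⟨false, false, true, false, true⟩) (strict (pf7.m2 false))) :=
  ⟨484, 24, 19, 6, 0, by decide +kernel⟩
/-- A check of piece 7. -/
def chkf7_32 : Chk (boxf7.vC) (subst (sub pf7 ⟨true, false, true, false, false⟩) (strict (pf7.m2 false))) :=
  ⟨484, 24, 19, 6, 0, by decide +kernel⟩
/-- A check of piece 7. -/
def chkf7_33 : Chk (boxf7.vC) (subst (sub pf7 ⟨true, false, true, false, true⟩) (strict (pf7.m2 false))) :=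
  ⟨484, 24, 19, 6, 0, by decide +kernel⟩
/-- A check of piece 7. -/
def chkf7_34 : Chk (boxf7.vC) (subst (sub pf7 ⟨false, true, true, false, false⟩) (strict (pf7.m2 true))) :=
  ⟨479, 24, 19, 6, 0, by decide +kernel⟩
/-- A check of piece 7. -/
def chkf7_35 : Chk (boxf7.vC) (subst (sub pf7 ⟨false, true, true, false, true⟩) (strict (pf7.m2 true))) :=
  ⟨479, 24, 19, 6, 0, by decide +kernel⟩
/-- A check of piece 7. -/
def chkf7_36 : Chk (boxf7.vC) (subst (sub pf7 ⟨true, true, true, false, false⟩) (strict (pf7.m2 true))) :=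
  ⟨479, 24, 19, 6, 0, by decide +kernel⟩
/-- A check of piece 7. -/
def chkf7_37 : Chk (boxf7.vC) (subst (sub pf7 ⟨true, true, true, false, true⟩) (strict (pf7.m2 true))) :=
  ⟨479, 24, 19, 6, 0, by decide +kernel⟩
/-- A check of piece 7. -/
def chkf7_38 : Chk (boxf7.vC) (subst (sub pf7 ⟨false, false, true, true, false⟩) (strict (pf7.m3 false))) :=
  ⟨607, 31, 25, 6, 0, by decide +kernel⟩
/-- A check of piece 7. -/
def chkf7_39 : Chk (boxf7.vC) (subst (sub pf7 ⟨false, false, true, true, true⟩) (strict (pf7.m3 false))) :=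
  ⟨607, 31, 25, 6, 0, by decide +kernel⟩
/-- A check of piece 7. -/
def chkf7_40 : Chk (boxf7.vC) (subst (sub pf7 ⟨false, true, true, true, false⟩) (strict (pf7.m3 false))) :=
  ⟨603, 31, 25, 6, 0, by decide +kernel⟩
/-- A check of piece 7. -/
def chkf7_41 : Chk (boxf7.vC) (subst (sub pf7 ⟨false, true, true, true, true⟩) (strict (pf7.m3 false))) :=
  ⟨603, 31, 25, 6, 0, by decide +kernel⟩
/-- A check of piece 7. -/
def chkf7_42 : Chk (boxf7.vC) (subst (sub pf7 ⟨true, false, true, true, false⟩) (strict (pf7.m3 false))) :=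
  ⟨607, 31, 25, 6, 0, by decide +kernel⟩
/-- A check of piece 7. -/
def chkf7_43 : Chk (boxf7.vC) (subst (sub pf7 ⟨true, false, true, true, true⟩) (strict (pf7.m3 false))) :=
  ⟨607, 31, 25, 6, 0, by decide +kernel⟩
/-- A check of piece 7. -/
def chkf7_44 : Chk (boxf7.vC) (subst (sub pf7 ⟨true, true, true, true, false⟩) (strict (pf7.m3 false))) :=
  ⟨603, 31, 25, 6, 0, by decide +kernel⟩
/-- A check of piece 7. -/
def chkf7_45 : Chk (boxf7.vC) (subst (sub pf7 ⟨true, true, true, true, true⟩) (strict (pf7.m3 false))) :=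
  ⟨603, 31, 25, 6, 0, by decide +kernel⟩
/-- A check of piece 7. -/
def chkf7_46 : Chk (boxf7.vC) (subst (sub pf7 ⟨false, false, true, true, false⟩) (strict (pf7.m3 true))) :=
  ⟨604, 31, 25, 6, 0, by decide +kernel⟩
/-- A check of piece 7. -/
def chkf7_47 : Chk (boxf7.vC) (subst (sub pf7 ⟨false, false, true, true, true⟩) (strict (pf7.m3 true))) :=
  ⟨604, 31, 25, 6, 0, by decide +kernel⟩
/-- A check of piece 7. -/
def chkf7_48 : Chk (boxf7.vC) (subst (sub pf7 ⟨false, true, true, true, false⟩) (strict (pf7.m3 true))) :=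
  ⟨600, 31, 25, 6, 0, by decide +kernel⟩
/-- A check of piece 7. -/
def chkf7_49 : Chk (boxf7.vC) (subst (sub pf7 ⟨false, true, true, true, true⟩) (strict (pf7.m3 true))) :=
  ⟨600, 31, 25, 6, 0, by decide +kernel⟩
/-- A check of piece 7. -/
def chkf7_50 : Chk (boxf7.vC) (subst (sub pf7 ⟨true, false, true, true, false⟩) (strict (pf7.m3 true))) :=
  ⟨604, 31, 25, 6, 0, by decide +kernel⟩
/-- A check of piece 7. -/
def chkf7_51 : Chk (boxf7.vC) (subst (sub pf7 ⟨true, false, true, true, true⟩) (strict (pf7.m3 true))) :=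
  ⟨604, 31, 25, 6, 0, by decide +kernel⟩
/-- A check of piece 7. -/
def chkf7_52 : Chk (boxf7.vC) (subst (sub pf7 ⟨true, true, true, true, false⟩) (strict (pf7.m3 true))) :=
  ⟨600, 31, 25, 6, 0, by decide +kernel⟩
/-- A check of piece 7. -/
def chkf7_53 : Chk (boxf7.vC) (subst (sub pf7 ⟨true, true, true, true, true⟩) (strict (pf7.m3 true))) :=
  ⟨600, 31, 25, 6, 0, by decide +kernel⟩
/-- A check of piece 7. -/
def chkf7_54 : Chk (boxf7.vC) (subst (sub pf7 ⟨false, false, true, true, false⟩) (negEx coMG12)) :=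
  ⟨108, 5, 5, 4, 0, by decide +kernel⟩
/-- A check of piece 7. -/
def chkf7_55 : Chk (boxf7.vC) (subst (sub pf7 ⟨false, false, true, true, false⟩) (negEx (pf7.curve2 false))) :=
  ⟨115, 5, 5, 4, 0, by decide +kernel⟩
/-- A check of piece 7. -/
def chkf7_56 : Chk (boxf7.vC) (subst (sub pf7 ⟨false, false, true, true, false⟩) (negEx (pf7.curve2 true))) :=
  ⟨111, 5, 5, 4, 0, by decide +kernel⟩
/-- A check of piece 7. -/
def chkf7_57 : Chk (boxf7.vC) (subst (sub pf7 ⟨false, false, true, true, false⟩) (negEx (pf7.curve3 false))) :=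
  ⟨126, 6, 6, 4, 0, by decide +kernel⟩
/-- A check of piece 7. -/
def chkf7_58 : Chk (boxf7.vC) (subst (sub pf7 ⟨false, false, true, true, false⟩) (negEx (pf7.curve3 true))) :=
  ⟨123, 6, 6, 4, 0, by decide +kernel⟩
/-- A check of piece 7. -/
def chkf7_59 : Chk (boxf7.vC) (subst (sub pf7 ⟨false, false, true, true, false⟩) (slopeT)) :=
  ⟨131, 7, 6, 4, 0, by decide +kernel⟩
/-- A check of piece 7. -/
def chkf7_60 : Chk (boxf7.vC) (subst (sub pf7 ⟨true, false, true, true, false⟩) (slopeT)) :=
  ⟨131, 7, 6, 4, 0, by decide +kernel⟩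
/-- A check of piece 7. -/
def chkf7_61 : Chk (boxf7.gC true) (subst (gapSub pf7 true false false) tplL) :=
  ⟨367, 22, 17, 5, 2, by decide +kernel⟩
/-- A check of piece 7. -/
def chkf7_62 : Chk (boxf7.gC true) (subst (gapSub pf7 true false true) tplL) :=
  ⟨367, 22, 17, 5, 2, by decide +kernel⟩
/-- A check of piece 7. -/
def chkf7_63 : Chk (boxf7.gC true) (subst (gapSub pf7 true true false) tplL) :=
  ⟨367, 22, 17, 5, 2, by decide +kernel⟩
/-- A check of piece 7. -/
def chkf7_64 : Chk (boxf7.gC true) (subst (gapSub pf7 true true true) tplL) :=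
  ⟨367, 22, 17, 5, 2, by decide +kernel⟩

/-- Piece 7 passes. -/
theorem certf7 : Cert pf7 boxf7 true where
  pos := by
    refine ⟨⟨⟨?_, ?_, ?_, ?_, ?_, ?_, ?_⟩, ?_, ?_, ?_, ?_, ?_, ?_, ?_, ?_, ?_, ?_, ?_⟩, ?_, ?_⟩ <;>
      norm_num [fr, pf7]
  gX := fun p l => match p, l with
    | false, false => chkf7_18
    | false, true => chkf7_19
    | true, false => chkf7_20
    | true, true => chkf7_21
  gMG := fun p l => match p, l with
    | false, false => chkf7_22
    | false, true => chkf7_23
    | true, false => chkf7_24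
    | true, true => chkf7_25
  g1 := fun p l => match p, l with
    | false, false => chkf7_26
    | false, true => chkf7_27
    | true, false => chkf7_28
    | true, true => chkf7_29
  g2 := fun s p t => match s, p, t with
    | false, false, false => chkf7_30
    | false, false, true => chkf7_31
    | false, true, false => chkf7_32
    | false, true, true => chkf7_33
    | true, false, false => chkf7_34
    | true, false, true => chkf7_35
    | true, true, false => chkf7_36
    | true, true, true => chkf7_37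
  g3 := fun s p l t => match s, p, l, t with
    | false, false, false, false => chkf7_38
    | false, false, false, true => chkf7_39
    | false, false, true, false => chkf7_40
    | false, false, true, true => chkf7_41
    | false, true, false, false => chkf7_42
    | false, true, false, true => chkf7_43
    | false, true, true, false => chkf7_44
    | false, true, true, true => chkf7_45
    | true, false, false, false => chkf7_46
    | true, false, false, true => chkf7_47
    | true, false, true, false => chkf7_48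
    | true, false, true, true => chkf7_49
    | true, true, false, false => chkf7_50
    | true, true, false, true => chkf7_51
    | true, true, true, false => chkf7_52
    | true, true, true, true => chkf7_53
  cMG := chkf7_54
  c2 := fun s => match s with
    | false => chkf7_55
    | true => chkf7_56
  c3 := fun s => match s with
    | false => chkf7_57
    | true => chkf7_58
  sT := fun p => match p with
    | false => chkf7_59
    | true => chkf7_60
  bnd := fun ze b => match ze, b with
    | false, .l0 => chkf7_0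
    | false, .l1 => chkf7_1
    | false, .r => chkf7_2
    | false, .g0 => chkf7_3
    | false, .g1 => chkf7_4
    | false, .t0 => chkf7_5
    | false, .t1 => chkf7_6
    | false, .w0 => chkf7_7
    | false, .w1 => chkf7_8
    | true, .l0 => chkf7_9
    | true, .l1 => chkf7_10
    | true, .r => chkf7_11
    | true, .g0 => chkf7_12
    | true, .g1 => chkf7_13
    | true, .t0 => chkf7_14
    | true, .t1 => chkf7_15
    | true, .w0 => chkf7_16
    | true, .w1 => chkf7_17
  gap := fun ze t => match ze, t with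
    | false, false => chkf7_61
    | false, true => chkf7_62
    | true, false => chkf7_63
    | true, true => chkf7_64

end Vale.Agent.P100.Calib.StripMid
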