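import Vale.Agent.P100.Calib.SlabStripMidChart

/-!
# The checks of piece 8 on `153/200 < u ≤ 4/5`
-/

set_option linter.defProp false

namespace Vale.Agent.P100.Calib.StripMid

open Pack

/-- The numbers of piece 8. -/
def pf8 : Piece :=
  ⟨.D, (153, 200), (4, 5), (1, 1), (39, 100), (7, 4), (199, 500), (99, 200),
    (959, 1000), (463, -450, 1000), (537, -440, 1000), 28, (-142, -290, 81, 10), (1173, 1000), (659, 500), (13, 40),
    (1, 1), (3, 1)⟩

/-- The ranges of piece 8. -/
def boxf8 : Box :=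
  ⟨(0, 1, 50), (17, 19, 50), (31, 196, 100), (39, 175, 100),
    (153, 160, 200)⟩

/-- A check of piece 8. -/
def chkf8_0 : Chk (boxf8.cC) (bound pf8 false .l0) :=
  ⟨211, 13, 9, 2, 3, by decide +kernel⟩
/-- A check of piece 8. -/
def chkf8_1 : Chk (boxf8.cC) (bound pf8 false .l1) :=
  ⟨210, 13, 9, 2, 3, by decide +kernel⟩
/-- A check of piece 8. -/
def chkf8_2 : Chk (boxf8.cC) (bound pf8 false .r) :=
  ⟨212, 13, 9, 2, 3, by decide +kernel⟩
/-- A check of piece 8. -/
def chkf8_3 : Chk (boxf8.cC) (bound pf8 false .g0) :=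
  ⟨88, 4, 3, 1, 2, by decide +kernel⟩
/-- A check of piece 8. -/
def chkf8_4 : Chk (boxf8.cC) (bound pf8 false .g1) :=
  ⟨87, 4, 3, 1, 2, by decide +kernel⟩
/-- A check of piece 8. -/
def chkf8_5 : Chk (boxf8.cC) (bound pf8 false .t0) :=
  ⟨138, 6, 6, 2, 3, by decide +kernel⟩
/-- A check of piece 8. -/
def chkf8_6 : Chk (boxf8.cC) (bound pf8 false .t1) :=
  ⟨138, 6, 6, 2, 3, by decide +kernel⟩
/-- A check of piece 8. -/
def chkf8_7 : Chk (boxf8.cC) (bound pf8 false .w0) :=
  ⟨182, 10, 7, 3, 4, by decide +kernel⟩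
/-- A check of piece 8. -/
def chkf8_8 : Chk (boxf8.cC) (bound pf8 false .w1) :=
  ⟨185, 10, 7, 3, 4, by decide +kernel⟩
/-- A check of piece 8. -/
def chkf8_9 : Chk (boxf8.cC) (bound pf8 true .l0) :=
  ⟨211, 13, 9, 2, 3, by decide +kernel⟩
/-- A check of piece 8. -/
def chkf8_10 : Chk (boxf8.cC) (bound pf8 true .l1) :=
  ⟨210, 13, 9, 2, 3, by decide +kernel⟩
/-- A check of piece 8. -/
def chkf8_11 : Chk (boxf8.cC) (bound pf8 true .r) :=
  ⟨212, 13, 9, 2, 3, by decide +kernel⟩
/-- A check of piece 8. -/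
def chkf8_12 : Chk (boxf8.cC) (bound pf8 true .g0) :=
  ⟨88, 4, 3, 1, 2, by decide +kernel⟩
/-- A check of piece 8. -/
def chkf8_13 : Chk (boxf8.cC) (bound pf8 true .g1) :=
  ⟨87, 4, 3, 1, 2, by decide +kernel⟩
/-- A check of piece 8. -/
def chkf8_14 : Chk (boxf8.cC) (bound pf8 true .t0) :=
  ⟨138, 6, 6, 2, 3, by decide +kernel⟩
/-- A check of piece 8. -/
def chkf8_15 : Chk (boxf8.cC) (bound pf8 true .t1) :=
  ⟨138, 6, 6, 2, 3, by decide +kernel⟩
/-- A check of piece 8. -/
def chkf8_16 : Chk (boxf8.cC) (bound pf8 true .w0) :=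
  ⟨182, 10, 7, 3, 4, by decide +kernel⟩
/-- A check of piece 8. -/
def chkf8_17 : Chk (boxf8.cC) (bound pf8 true .w1) :=
  ⟨185, 10, 7, 3, 4, by decide +kernel⟩
/-- A check of piece 8. -/
def chkf8_18 : Chk (boxf8.vC) (subst (sub pf8 ⟨false, false, true, true, false⟩) (condX)) :=
  ⟨225, 13, 10, 4, 0, by decide +kernel⟩
/-- A check of piece 8. -/
def chkf8_19 : Chk (boxf8.vC) (subst (sub pf8 ⟨false, true, true, true, false⟩) (condX)) :=
  ⟨224, 13, 10, 4, 0, by decide +kernel⟩
/-- A check of piece 8. -/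
def chkf8_20 : Chk (boxf8.vC) (subst (sub pf8 ⟨true, false, true, true, false⟩) (condX)) :=
  ⟨225, 13, 10, 4, 0, by decide +kernel⟩
/-- A check of piece 8. -/
def chkf8_21 : Chk (boxf8.vC) (subst (sub pf8 ⟨true, true, true, true, false⟩) (condX)) :=
  ⟨224, 13, 10, 4, 0, by decide +kernel⟩
/-- A check of piece 8. -/
def chkf8_22 : Chk (boxf8.vC) (subst (sub pf8 ⟨false, false, true, false, false⟩) (tplMG)) :=
  ⟨430, 26, 20, 6, 0, by decide +kernel⟩
/-- A check of piece 8. -/
def chkf8_23 : Chk (boxf8.vC) (subst (sub pf8 ⟨false, true, true, false, false⟩) (tplMG)) :=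
  ⟨427, 26, 20, 6, 0, by decide +kernel⟩
/-- A check of piece 8. -/
def chkf8_24 : Chk (boxf8.vC) (subst (sub pf8 ⟨true, false, true, false, false⟩) (tplMG)) :=
  ⟨430, 26, 20, 6, 0, by decide +kernel⟩
/-- A check of piece 8. -/
def chkf8_25 : Chk (boxf8.vC) (subst (sub pf8 ⟨true, true, true, false, false⟩) (tplMG)) :=
  ⟨427, 26, 20, 6, 0, by decide +kernel⟩
/-- A check of piece 8. -/
def chkf8_26 : Chk (boxf8.vC) (subst (sub pf8 ⟨false, false, false, false, false⟩) (pf8.m1)) :=
  ⟨296, 17, 14, 4, 0, by decide +kernel⟩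
/-- A check of piece 8. -/
def chkf8_27 : Chk (boxf8.vC) (subst (sub pf8 ⟨false, true, false, false, false⟩) (pf8.m1)) :=
  ⟨295, 17, 14, 4, 0, by decide +kernel⟩
/-- A check of piece 8. -/
def chkf8_28 : Chk (boxf8.vC) (subst (sub pf8 ⟨true, false, false, false, false⟩) (pf8.m1)) :=
  ⟨296, 17, 14, 4, 0, by decide +kernel⟩
/-- A check of piece 8. -/
def chkf8_29 : Chk (boxf8.vC) (subst (sub pf8 ⟨true, true, false, false, false⟩) (pf8.m1)) :=
  ⟨295, 17, 14, 4, 0, by decide +kernel⟩
/-- A check of piece 8. -/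
def chkf8_30 : Chk (boxf8.vC) (subst (sub pf8 ⟨false, false, true, false, false⟩) (strict (pf8.m2 false))) :=
  ⟨465, 24, 19, 6, 0, by decide +kernel⟩
/-- A check of piece 8. -/
def chkf8_31 : Chk (boxf8.vC) (subst (sub pf8 ⟨false, false, true, false, true⟩) (strict (pf8.m2 false))) :=
  ⟨465, 24, 19, 6, 0, by decide +kernel⟩
/-- A check of piece 8. -/
def chkf8_32 : Chk (boxf8.vC) (subst (sub pf8 ⟨true, false, true, false, false⟩) (strict (pf8.m2 false))) :=
  ⟨465, 24, 19, 6, 0, by decide +kernel⟩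
/-- A check of piece 8. -/
def chkf8_33 : Chk (boxf8.vC) (subst (sub pf8 ⟨true, false, true, false, true⟩) (strict (pf8.m2 false))) :=
  ⟨465, 24, 19, 6, 0, by decide +kernel⟩
/-- A check of piece 8. -/
def chkf8_34 : Chk (boxf8.vC) (subst (sub pf8 ⟨false, true, true, false, false⟩) (strict (pf8.m2 true))) :=
  ⟨462, 24, 19, 6, 0, by decide +kernel⟩
/-- A check of piece 8. -/
def chkf8_35 : Chk (boxf8.vC) (subst (sub pf8 ⟨false, true, true, false, true⟩) (strict (pf8.m2 true))) :=
  ⟨462, 24, 19, 6, 0, by decide +kernel⟩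
/-- A check of piece 8. -/
def chkf8_36 : Chk (boxf8.vC) (subst (sub pf8 ⟨true, true, true, false, false⟩) (strict (pf8.m2 true))) :=
  ⟨462, 24, 19, 6, 0, by decide +kernel⟩
/-- A check of piece 8. -/
def chkf8_37 : Chk (boxf8.vC) (subst (sub pf8 ⟨true, true, true, false, true⟩) (strict (pf8.m2 true))) :=
  ⟨462, 24, 19, 6, 0, by decide +kernel⟩
/-- A check of piece 8. -/
def chkf8_38 : Chk (boxf8.vC) (subst (sub pf8 ⟨false, false, true, true, false⟩) (strict (pf8.m3 false))) :=
  ⟨581, 31, 25, 6, 0, by decide +kernel⟩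
/-- A check of piece 8. -/
def chkf8_39 : Chk (boxf8.vC) (subst (sub pf8 ⟨false, false, true, true, true⟩) (strict (pf8.m3 false))) :=
  ⟨581, 31, 25, 6, 0, by decide +kernel⟩
/-- A check of piece 8. -/
def chkf8_40 : Chk (boxf8.vC) (subst (sub pf8 ⟨false, true, true, true, false⟩) (strict (pf8.m3 false))) :=
  ⟨578, 31, 25, 6, 0, by decide +kernel⟩
/-- A check of piece 8. -/
def chkf8_41 : Chk (boxf8.vC) (subst (sub pf8 ⟨false, true, true, true, true⟩) (strict (pf8.m3 false))) :=
  ⟨578, 31, 25, 6, 0, by decide +kernel⟩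
/-- A check of piece 8. -/
def chkf8_42 : Chk (boxf8.vC) (subst (sub pf8 ⟨true, false, true, true, false⟩) (strict (pf8.m3 false))) :=
  ⟨581, 31, 25, 6, 0, by decide +kernel⟩
/-- A check of piece 8. -/
def chkf8_43 : Chk (boxf8.vC) (subst (sub pf8 ⟨true, false, true, true, true⟩) (strict (pf8.m3 false))) :=
  ⟨581, 31, 25, 6, 0, by decide +kernel⟩
/-- A check of piece 8. -/
def chkf8_44 : Chk (boxf8.vC) (subst (sub pf8 ⟨true, true, true, true, false⟩) (strict (pf8.m3 false))) :=
  ⟨578, 31, 25, 6, 0, by decide +kernel⟩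
/-- A check of piece 8. -/
def chkf8_45 : Chk (boxf8.vC) (subst (sub pf8 ⟨true, true, true, true, true⟩) (strict (pf8.m3 false))) :=
  ⟨578, 31, 25, 6, 0, by decide +kernel⟩
/-- A check of piece 8. -/
def chkf8_46 : Chk (boxf8.vC) (subst (sub pf8 ⟨false, false, true, true, false⟩) (strict (pf8.m3 true))) :=
  ⟨580, 31, 25, 6, 0, by decide +kernel⟩
/-- A check of piece 8. -/
def chkf8_47 : Chk (boxf8.vC) (subst (sub pf8 ⟨false, false, true, true, true⟩) (strict (pf8.m3 true))) :=
  ⟨580, 31, 25, 6, 0, by decide +kernel⟩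
/-- A check of piece 8. -/
def chkf8_48 : Chk (boxf8.vC) (subst (sub pf8 ⟨false, true, true, true, false⟩) (strict (pf8.m3 true))) :=
  ⟨578, 31, 25, 6, 0, by decide +kernel⟩
/-- A check of piece 8. -/
def chkf8_49 : Chk (boxf8.vC) (subst (sub pf8 ⟨false, true, true, true, true⟩) (strict (pf8.m3 true))) :=
  ⟨578, 31, 25, 6, 0, by decide +kernel⟩
/-- A check of piece 8. -/
def chkf8_50 : Chk (boxf8.vC) (subst (sub pf8 ⟨true, false, true, true, false⟩) (strict (pf8.m3 true))) :=
  ⟨580, 31, 25, 6, 0, by decide +kernel⟩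
/-- A check of piece 8. -/
def chkf8_51 : Chk (boxf8.vC) (subst (sub pf8 ⟨true, false, true, true, true⟩) (strict (pf8.m3 true))) :=
  ⟨580, 31, 25, 6, 0, by decide +kernel⟩
/-- A check of piece 8. -/
def chkf8_52 : Chk (boxf8.vC) (subst (sub pf8 ⟨true, true, true, true, false⟩) (strict (pf8.m3 true))) :=
  ⟨578, 31, 25, 6, 0, by decide +kernel⟩
/-- A check of piece 8. -/
def chkf8_53 : Chk (boxf8.vC) (subst (sub pf8 ⟨true, true, true, true, true⟩) (strict (pf8.m3 true))) :=
  ⟨578, 31, 25, 6, 0, by decide +kernel⟩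
/-- A check of piece 8. -/
def chkf8_54 : Chk (boxf8.vC) (subst (sub pf8 ⟨false, false, true, true, false⟩) (negEx coMG12)) :=
  ⟨103, 5, 5, 4, 0, by decide +kernel⟩
/-- A check of piece 8. -/
def chkf8_55 : Chk (boxf8.vC) (subst (sub pf8 ⟨false, false, true, true, false⟩) (negEx (pf8.curve2 false))) :=
  ⟨108, 5, 5, 4, 0, by decide +kernel⟩
/-- A check of piece 8. -/
def chkf8_56 : Chk (boxf8.vC) (subst (sub pf8 ⟨false, false, true, true, false⟩) (negEx (pf8.curve2 true))) :=
  ⟨106, 5, 5, 4, 0, by decide +kernel⟩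
/-- A check of piece 8. -/
def chkf8_57 : Chk (boxf8.vC) (subst (sub pf8 ⟨false, false, true, true, false⟩) (negEx (pf8.curve3 false))) :=
  ⟨117, 6, 6, 4, 0, by decide +kernel⟩
/-- A check of piece 8. -/
def chkf8_58 : Chk (boxf8.vC) (subst (sub pf8 ⟨false, false, true, true, false⟩) (negEx (pf8.curve3 true))) :=
  ⟨117, 6, 6, 4, 0, by decide +kernel⟩
/-- A check of piece 8. -/
def chkf8_59 : Chk (boxf8.vC) (subst (sub pf8 ⟨false, false, true, true, false⟩) (slopeT)) :=
  ⟨123, 7, 6, 4, 0, by decide +kernel⟩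
/-- A check of piece 8. -/
def chkf8_60 : Chk (boxf8.vC) (subst (sub pf8 ⟨true, false, true, true, false⟩) (slopeT)) :=
  ⟨123, 7, 6, 4, 0, by decide +kernel⟩
/-- A check of piece 8. -/
def chkf8_61 : Chk (boxf8.gC true) (subst (gapSub pf8 true false false) tplL) :=
  ⟨349, 22, 17, 5, 2, by decide +kernel⟩
/-- A check of piece 8. -/
def chkf8_62 : Chk (boxf8.gC true) (subst (gapSub pf8 true false true) tplL) :=
  ⟨349, 22, 17, 5, 2, by decide +kernel⟩
/-- A check of piece 8. -/
def chkf8_63 : Chk (boxf8.gC true) (subst (gapSub pf8 true true false) tplL) :=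
  ⟨349, 22, 17, 5, 2, by decide +kernel⟩
/-- A check of piece 8. -/
def chkf8_64 : Chk (boxf8.gC true) (subst (gapSub pf8 true true true) tplL) :=
  ⟨349, 22, 17, 5, 2, by decide +kernel⟩

/-- Piece 8 passes. -/
theorem certf8 : Cert pf8 boxf8 true where
  pos := by
    refine ⟨⟨⟨?_, ?_, ?_, ?_, ?_, ?_, ?_⟩, ?_, ?_, ?_, ?_, ?_, ?_, ?_, ?_, ?_, ?_, ?_⟩, ?_, ?_⟩ <;>
      norm_num [fr, pf8]
  gX := fun p l => match p, l with
    | false, false => chkf8_18
    | false, true => chkf8_19
    | true, false => chkf8_20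
    | true, true => chkf8_21
  gMG := fun p l => match p, l with
    | false, false => chkf8_22
    | false, true => chkf8_23
    | true, false => chkf8_24
    | true, true => chkf8_25
  g1 := fun p l => match p, l with
    | false, false => chkf8_26
    | false, true => chkf8_27
    | true, false => chkf8_28
    | true, true => chkf8_29
  g2 := fun s p t => match s, p, t with
    | false, false, false => chkf8_30
    | false, false, true => chkf8_31
    | false, true, false => chkf8_32
    | false, true, true => chkf8_33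
    | true, false, false => chkf8_34
    | true, false, true => chkf8_35
    | true, true, false => chkf8_36
    | true, true, true => chkf8_37
  g3 := fun s p l t => match s, p, l, t with
    | false, false, false, false => chkf8_38
    | false, false, false, true => chkf8_39
    | false, false, true, false => chkf8_40
    | false, false, true, true => chkf8_41
    | false, true, false, false => chkf8_42
    | false, true, false, true => chkf8_43
    | false, true, true, false => chkf8_44
    | false, true, true, true => chkf8_45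
    | true, false, false, false => chkf8_46
    | true, false, false, true => chkf8_47
    | true, false, true, false => chkf8_48
    | true, false, true, true => chkf8_49
    | true, true, false, false => chkf8_50
    | true, true, false, true => chkf8_51
    | true, true, true, false => chkf8_52
    | true, true, true, true => chkf8_53
  cMG := chkf8_54
  c2 := fun s => match s with
    | false => chkf8_55
    | true => chkf8_56
  c3 := fun s => match s with
    | false => chkf8_57
    | true => chkf8_58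
  sT := fun p => match p with
    | false => chkf8_59
    | true => chkf8_60
  bnd := fun ze b => match ze, b with
    | false, .l0 => chkf8_0
    | false, .l1 => chkf8_1
    | false, .r => chkf8_2
    | false, .g0 => chkf8_3
    | false, .g1 => chkf8_4
    | false, .t0 => chkf8_5
    | false, .t1 => chkf8_6
    | false, .w0 => chkf8_7
    | false, .w1 => chkf8_8
    | true, .l0 => chkf8_9
    | true, .l1 => chkf8_10
    | true, .r => chkf8_11
    | true, .g0 => chkf8_12
    | true, .g1 => chkf8_13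
    | true, .t0 => chkf8_14
    | true, .t1 => chkf8_15
    | true, .w0 => chkf8_16
    | true, .w1 => chkf8_17
  gap := fun ze t => match ze, t with
    | false, false => chkf8_61
    | false, true => chkf8_62
    | true, false => chkf8_63
    | true, true => chkf8_64

end Vale.Agent.P100.Calib.StripMid
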