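import Vale.Agent.P100.Calib.SlabStripMidChart

/-!
# The checks of piece 1 below 153/200
-/

set_option linter.defProp false

namespace Vale.Agent.P100.Calib.StripMid

open Pack

/-- The numbers of piece 1. -/
def pc1 : Piece := ⟨.A, (9, 20), (16, 25), (1, 1), (53, 100), (19, 10), (717, 1000), (1117, 1000), (49, 50), (247, -825, 250), (503, -750, 500), 45, (-7,90,242,5), (717, 1000), (299, 250), (11, 20), (1, 1), (7, 4)⟩

/-- The ranges of piece 1. -/
def box1 : Box := ⟨(0, 1, 20), (0, 19, 18), (32, 339, 100), (53, 190, 100), (45, 64, 100)⟩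

def chk1_0 : Chk (box1.cC) (bound pc1 false .l0) :=
  ⟨182, 14, 9, 2, 3, by decide +kernel⟩
def chk1_1 : Chk (box1.cC) (bound pc1 false .l1) :=
  ⟨182, 14, 9, 2, 3, by decide +kernel⟩
def chk1_2 : Chk (box1.cC) (bound pc1 false .r) :=
  ⟨177, 14, 9, 2, 3, by decide +kernel⟩
def chk1_3 : Chk (box1.cC) (bound pc1 false .g0) :=
  ⟨80, 5, 3, 1, 2, by decide +kernel⟩
def chk1_4 : Chk (box1.cC) (bound pc1 false .g1) :=
  ⟨78, 5, 3, 1, 2, by decide +kernel⟩
def chk1_5 : Chk (box1.cC) (bound pc1 false .t0) :=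
  ⟨131, 9, 6, 2, 3, by decide +kernel⟩
def chk1_6 : Chk (box1.cC) (bound pc1 false .t1) :=
  ⟨132, 9, 6, 2, 3, by decide +kernel⟩
def chk1_7 : Chk (box1.cC) (bound pc1 false .w0) :=
  ⟨164, 12, 7, 3, 4, by decide +kernel⟩
def chk1_8 : Chk (box1.cC) (bound pc1 false .w1) :=
  ⟨166, 12, 7, 3, 4, by decide +kernel⟩
def chk1_9 : Chk (box1.cC) (bound pc1 true .l0) :=
  ⟨182, 14, 9, 2, 3, by decide +kernel⟩
def chk1_10 : Chk (box1.cC) (bound pc1 true .l1) :=
  ⟨182, 14, 9, 2, 3, by decide +kernel⟩
def chk1_11 : Chk (box1.cC) (bound pc1 true .r) :=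
  ⟨177, 14, 9, 2, 3, by decide +kernel⟩
def chk1_12 : Chk (box1.cC) (bound pc1 true .g0) :=
  ⟨80, 5, 3, 1, 2, by decide +kernel⟩
def chk1_13 : Chk (box1.cC) (bound pc1 true .g1) :=
  ⟨78, 5, 3, 1, 2, by decide +kernel⟩
def chk1_14 : Chk (box1.cC) (bound pc1 true .t0) :=
  ⟨131, 9, 6, 2, 3, by decide +kernel⟩
def chk1_15 : Chk (box1.cC) (bound pc1 true .t1) :=
  ⟨132, 9, 6, 2, 3, by decide +kernel⟩
def chk1_16 : Chk (box1.cC) (bound pc1 true .w0) :=
  ⟨164, 12, 7, 3, 4, by decide +kernel⟩
def chk1_17 : Chk (box1.cC) (bound pc1 true .w1) :=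
  ⟨166, 12, 7, 3, 4, by decide +kernel⟩
def chk1_18 : Chk (box1.vC) (subst (sub pc1 ⟨false, false, true, true, false⟩) (condX)) :=
  ⟨199, 15, 10, 4, 0, by decide +kernel⟩
def chk1_19 : Chk (box1.vC) (subst (sub pc1 ⟨false, true, true, true, false⟩) (condX)) :=
  ⟨200, 15, 10, 4, 0, by decide +kernel⟩
def chk1_20 : Chk (box1.vC) (subst (sub pc1 ⟨true, false, true, true, false⟩) (condX)) :=
  ⟨199, 15, 10, 4, 0, by decide +kernel⟩
def chk1_21 : Chk (box1.vC) (subst (sub pc1 ⟨true, true, true, true, false⟩) (condX)) :=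
  ⟨200, 15, 10, 4, 0, by decide +kernel⟩
def chk1_22 : Chk (box1.vC) (subst (sub pc1 ⟨false, false, true, false, false⟩) (tplMG)) :=
  ⟨340, 26, 18, 6, 0, by decide +kernel⟩
def chk1_23 : Chk (box1.vC) (subst (sub pc1 ⟨false, true, true, false, false⟩) (tplMG)) :=
  ⟨341, 26, 18, 6, 0, by decide +kernel⟩
def chk1_24 : Chk (box1.vC) (subst (sub pc1 ⟨true, false, true, false, false⟩) (tplMG)) :=
  ⟨340, 26, 18, 6, 0, by decide +kernel⟩
def chk1_25 : Chk (box1.vC) (subst (sub pc1 ⟨true, true, true, false, false⟩) (tplMG)) :=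
  ⟨341, 26, 18, 6, 0, by decide +kernel⟩
def chk1_26 : Chk (box1.vC) (subst (sub pc1 ⟨false, false, false, false, false⟩) (pc1.m1)) :=
  ⟨255, 19, 14, 4, 0, by decide +kernel⟩
def chk1_27 : Chk (box1.vC) (subst (sub pc1 ⟨false, true, false, false, false⟩) (pc1.m1)) :=
  ⟨255, 19, 14, 4, 0, by decide +kernel⟩
def chk1_28 : Chk (box1.vC) (subst (sub pc1 ⟨true, false, false, false, false⟩) (pc1.m1)) :=
  ⟨255, 19, 14, 4, 0, by decide +kernel⟩
def chk1_29 : Chk (box1.vC) (subst (sub pc1 ⟨true, true, false, false, false⟩) (pc1.m1)) :=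
  ⟨255, 19, 14, 4, 0, by decide +kernel⟩
def chk1_30 : Chk (box1.vC) (subst (sub pc1 ⟨false, false, true, false, false⟩) (strict (pc1.m2 false))) :=
  ⟨383, 24, 17, 6, 0, by decide +kernel⟩
def chk1_31 : Chk (box1.vC) (subst (sub pc1 ⟨false, false, true, false, true⟩) (strict (pc1.m2 false))) :=
  ⟨385, 24, 17, 6, 0, by decide +kernel⟩
def chk1_32 : Chk (box1.vC) (subst (sub pc1 ⟨true, false, true, false, false⟩) (strict (pc1.m2 false))) :=
  ⟨383, 24, 17, 6, 0, by decide +kernel⟩
def chk1_33 : Chk (box1.vC) (subst (sub pc1 ⟨true, false, true, false, true⟩) (strict (pc1.m2 false))) :=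
  ⟨385, 24, 17, 6, 0, by decide +kernel⟩
def chk1_34 : Chk (box1.vC) (subst (sub pc1 ⟨false, true, true, false, false⟩) (strict (pc1.m2 true))) :=
  ⟨380, 24, 17, 6, 0, by decide +kernel⟩
def chk1_35 : Chk (box1.vC) (subst (sub pc1 ⟨false, true, true, false, true⟩) (strict (pc1.m2 true))) :=
  ⟨382, 24, 17, 6, 0, by decide +kernel⟩
def chk1_36 : Chk (box1.vC) (subst (sub pc1 ⟨true, true, true, false, false⟩) (strict (pc1.m2 true))) :=
  ⟨381, 24, 17, 6, 0, by decide +kernel⟩
def chk1_37 : Chk (box1.vC) (subst (sub pc1 ⟨true, true, true, false, true⟩) (strict (pc1.m2 true))) :=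
  ⟨383, 24, 17, 6, 0, by decide +kernel⟩
def chk1_38 : Chk (box1.vC) (subst (sub pc1 ⟨false, false, true, true, false⟩) (strict (pc1.m3 false))) :=
  ⟨476, 31, 23, 6, 0, by decide +kernel⟩
def chk1_39 : Chk (box1.vC) (subst (sub pc1 ⟨false, false, true, true, true⟩) (strict (pc1.m3 false))) :=
  ⟨477, 31, 23, 6, 0, by decide +kernel⟩
def chk1_40 : Chk (box1.vC) (subst (sub pc1 ⟨false, true, true, true, false⟩) (strict (pc1.m3 false))) :=
  ⟨477, 31, 23, 6, 0, by decide +kernel⟩
def chk1_41 : Chk (box1.vC) (subst (sub pc1 ⟨false, true, true, true, true⟩) (strict (pc1.m3 false))) :=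
  ⟨478, 31, 23, 6, 0, by decide +kernel⟩
def chk1_42 : Chk (box1.vC) (subst (sub pc1 ⟨true, false, true, true, false⟩) (strict (pc1.m3 false))) :=
  ⟨476, 31, 23, 6, 0, by decide +kernel⟩
def chk1_43 : Chk (box1.vC) (subst (sub pc1 ⟨true, false, true, true, true⟩) (strict (pc1.m3 false))) :=
  ⟨477, 31, 23, 6, 0, by decide +kernel⟩
def chk1_44 : Chk (box1.vC) (subst (sub pc1 ⟨true, true, true, true, false⟩) (strict (pc1.m3 false))) :=
  ⟨477, 31, 23, 6, 0, by decide +kernel⟩
def chk1_45 : Chk (box1.vC) (subst (sub pc1 ⟨true, true, true, true, true⟩) (strict (pc1.m3 false))) :=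
  ⟨478, 31, 23, 6, 0, by decide +kernel⟩
def chk1_46 : Chk (box1.vC) (subst (sub pc1 ⟨false, false, true, true, false⟩) (strict (pc1.m3 true))) :=
  ⟨474, 31, 23, 6, 0, by decide +kernel⟩
def chk1_47 : Chk (box1.vC) (subst (sub pc1 ⟨false, false, true, true, true⟩) (strict (pc1.m3 true))) :=
  ⟨475, 31, 23, 6, 0, by decide +kernel⟩
def chk1_48 : Chk (box1.vC) (subst (sub pc1 ⟨false, true, true, true, false⟩) (strict (pc1.m3 true))) :=
  ⟨475, 31, 23, 6, 0, by decide +kernel⟩
def chk1_49 : Chk (box1.vC) (subst (sub pc1 ⟨false, true, true, true, true⟩) (strict (pc1.m3 true))) :=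
  ⟨476, 31, 23, 6, 0, by decide +kernel⟩
def chk1_50 : Chk (box1.vC) (subst (sub pc1 ⟨true, false, true, true, false⟩) (strict (pc1.m3 true))) :=
  ⟨474, 31, 23, 6, 0, by decide +kernel⟩
def chk1_51 : Chk (box1.vC) (subst (sub pc1 ⟨true, false, true, true, true⟩) (strict (pc1.m3 true))) :=
  ⟨475, 31, 23, 6, 0, by decide +kernel⟩
def chk1_52 : Chk (box1.vC) (subst (sub pc1 ⟨true, true, true, true, false⟩) (strict (pc1.m3 true))) :=
  ⟨475, 31, 23, 6, 0, by decide +kernel⟩
def chk1_53 : Chk (box1.vC) (subst (sub pc1 ⟨true, true, true, true, true⟩) (strict (pc1.m3 true))) :=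
  ⟨476, 31, 23, 6, 0, by decide +kernel⟩
def chk1_54 : Chk (box1.vC) (subst (sub pc1 ⟨false, false, true, true, false⟩) (negEx coMG12)) :=
  ⟨105, 8, 5, 4, 0, by decide +kernel⟩
def chk1_55 : Chk (box1.vC) (subst (sub pc1 ⟨false, false, true, true, false⟩) (negEx (pc1.curve2 false))) :=
  ⟨116, 9, 5, 4, 0, by decide +kernel⟩
def chk1_56 : Chk (box1.vC) (subst (sub pc1 ⟨false, false, true, true, false⟩) (negEx (pc1.curve2 true))) :=
  ⟨113, 9, 5, 4, 0, by decide +kernel⟩
def chk1_57 : Chk (box1.vC) (subst (sub pc1 ⟨false, false, true, true, false⟩) (negEx (pc1.curve3 false))) :=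
  ⟨118, 9, 6, 4, 0, by decide +kernel⟩
def chk1_58 : Chk (box1.vC) (subst (sub pc1 ⟨false, false, true, true, false⟩) (negEx (pc1.curve3 true))) :=
  ⟨116, 9, 6, 4, 0, by decide +kernel⟩
def chk1_59 : Chk (box1.vC) (subst (sub pc1 ⟨false, false, true, true, false⟩) (slopeT)) :=
  ⟨118, 10, 6, 4, 0, by decide +kernel⟩
def chk1_60 : Chk (box1.vC) (subst (sub pc1 ⟨true, false, true, true, false⟩) (slopeT)) :=
  ⟨118, 10, 6, 4, 0, by decide +kernel⟩
def chk1_61 : Chk (box1.gC true) (subst (gapSub pc1 true false false) tplL) :=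
  ⟨298, 25, 16, 5, 2, by decide +kernel⟩
def chk1_62 : Chk (box1.gC true) (subst (gapSub pc1 true false true) tplL) :=
  ⟨299, 25, 16, 5, 2, by decide +kernel⟩
def chk1_63 : Chk (box1.gC true) (subst (gapSub pc1 true true false) tplL) :=
  ⟨298, 25, 16, 5, 2, by decide +kernel⟩
def chk1_64 : Chk (box1.gC true) (subst (gapSub pc1 true true true) tplL) :=
  ⟨299, 25, 16, 5, 2, by decide +kernel⟩

/-- Piece 1 passes. -/
theorem cert1 : Cert pc1 box1 true where
  pos := by
    refine ⟨⟨⟨?_, ?_, ?_, ?_, ?_, ?_, ?_⟩, ?_, ?_, ?_, ?_, ?_, ?_, ?_, ?_, ?_, ?_, ?_⟩, ?_, ?_⟩ <;>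
      norm_num [fr, pc1]
  gX := fun p l => match p, l with
    | false, false => chk1_18
    | false, true => chk1_19
    | true, false => chk1_20
    | true, true => chk1_21
  gMG := fun p l => match p, l with
    | false, false => chk1_22
    | false, true => chk1_23
    | true, false => chk1_24
    | true, true => chk1_25
  g1 := fun p l => match p, l with
    | false, false => chk1_26
    | false, true => chk1_27
    | true, false => chk1_28
    | true, true => chk1_29
  g2 := fun s p t => match s, p, t with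
    | false, false, false => chk1_30
    | false, false, true => chk1_31
    | false, true, false => chk1_32
    | false, true, true => chk1_33
    | true, false, false => chk1_34
    | true, false, true => chk1_35
    | true, true, false => chk1_36
    | true, true, true => chk1_37
  g3 := fun s p l t => match s, p, l, t with
    | false, false, false, false => chk1_38
    | false, false, false, true => chk1_39
    | false, false, true, false => chk1_40
    | false, false, true, true => chk1_41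
    | false, true, false, false => chk1_42
    | false, true, false, true => chk1_43
    | false, true, true, false => chk1_44
    | false, true, true, true => chk1_45
    | true, false, false, false => chk1_46
    | true, false, false, true => chk1_47
    | true, false, true, false => chk1_48
    | true, false, true, true => chk1_49
    | true, true, false, false => chk1_50
    | true, true, false, true => chk1_51
    | true, true, true, false => chk1_52
    | true, true, true, true => chk1_53
  cMG := chk1_54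
  c2 := fun s => match s with
    | false => chk1_55
    | true => chk1_56
  c3 := fun s => match s with
    | false => chk1_57
    | true => chk1_58
  sT := fun p => match p with
    | false => chk1_59
    | true => chk1_60
  bnd := fun ze b => match ze, b with
    | false, .l0 => chk1_0
    | false, .l1 => chk1_1
    | false, .r => chk1_2
    | false, .g0 => chk1_3
    | false, .g1 => chk1_4
    | false, .t0 => chk1_5
    | false, .t1 => chk1_6
    | false, .w0 => chk1_7
    | false, .w1 => chk1_8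
    | true, .l0 => chk1_9
    | true, .l1 => chk1_10
    | true, .r => chk1_11
    | true, .g0 => chk1_12
    | true, .g1 => chk1_13
    | true, .t0 => chk1_14
    | true, .t1 => chk1_15
    | true, .w0 => chk1_16
    | true, .w1 => chk1_17
  gap := fun ze t => match ze, t with
    | false, false => chk1_61
    | false, true => chk1_62
    | true, false => chk1_63
    | true, true => chk1_64

end Vale.Agent.P100.Calib.StripMid
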