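import Vale.Agent.P100.Calib.SlabStripMidChart

/-!
# The checks of piece 11 below 153/200
-/

set_option linter.defProp false

namespace Vale.Agent.P100.Calib.StripMid

open Pack

/-- The numbers of piece 11. -/
def pc11 : Piece := ⟨.D, (33, 100), (13, 25), (1, 1), (13, 20), (41, 20), (239, 250), (1371, 1000), (971, 1000), (809, -600, 1000), (91, -30, 100), 43, (-14,-180,209,10), (349, 250), (1711, 1000), (1, 2), (7, 4), (23, 10)⟩

/-- The ranges of piece 11. -/
def box11 : Box := ⟨(0, 9, 200), (29, 38, 100), (13, 120, 100), (13, 41, 20), (33, 52, 100)⟩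

def chk11_0 : Chk (box11.cC) (bound pc11 false .l0) :=
  ⟨237, 13, 9, 2, 3, by decide +kernel⟩
def chk11_1 : Chk (box11.cC) (bound pc11 false .l1) :=
  ⟨239, 13, 9, 2, 3, by decide +kernel⟩
def chk11_2 : Chk (box11.cC) (bound pc11 false .r) :=
  ⟨238, 13, 9, 2, 3, by decide +kernel⟩
def chk11_3 : Chk (box11.cC) (bound pc11 false .g0) :=
  ⟨92, 4, 3, 1, 2, by decide +kernel⟩
def chk11_4 : Chk (box11.cC) (bound pc11 false .g1) :=
  ⟨94, 4, 3, 1, 2, by decide +kernel⟩
def chk11_5 : Chk (box11.cC) (bound pc11 false .t0) :=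
  ⟨147, 6, 6, 2, 3, by decide +kernel⟩
def chk11_6 : Chk (box11.cC) (bound pc11 false .t1) :=
  ⟨144, 6, 6, 2, 3, by decide +kernel⟩
def chk11_7 : Chk (box11.cC) (bound pc11 false .w0) :=
  ⟨197, 10, 7, 3, 4, by decide +kernel⟩
def chk11_8 : Chk (box11.cC) (bound pc11 false .w1) :=
  ⟨200, 10, 7, 3, 4, by decide +kernel⟩
def chk11_9 : Chk (box11.cC) (bound pc11 true .l0) :=
  ⟨237, 13, 9, 2, 3, by decide +kernel⟩
def chk11_10 : Chk (box11.cC) (bound pc11 true .l1) :=
  ⟨239, 13, 9, 2, 3, by decide +kernel⟩
def chk11_11 : Chk (box11.cC) (bound pc11 true .r) :=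
  ⟨238, 13, 9, 2, 3, by decide +kernel⟩
def chk11_12 : Chk (box11.cC) (bound pc11 true .g0) :=
  ⟨92, 4, 3, 1, 2, by decide +kernel⟩
def chk11_13 : Chk (box11.cC) (bound pc11 true .g1) :=
  ⟨94, 4, 3, 1, 2, by decide +kernel⟩
def chk11_14 : Chk (box11.cC) (bound pc11 true .t0) :=
  ⟨147, 6, 6, 2, 3, by decide +kernel⟩
def chk11_15 : Chk (box11.cC) (bound pc11 true .t1) :=
  ⟨144, 6, 6, 2, 3, by decide +kernel⟩
def chk11_16 : Chk (box11.cC) (bound pc11 true .w0) :=
  ⟨197, 10, 7, 3, 4, by decide +kernel⟩
def chk11_17 : Chk (box11.cC) (bound pc11 true .w1) :=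
  ⟨200, 10, 7, 3, 4, by decide +kernel⟩
def chk11_18 : Chk (box11.vC) (subst (sub pc11 ⟨false, false, true, true, false⟩) (condX)) :=
  ⟨261, 13, 10, 4, 0, by decide +kernel⟩
def chk11_19 : Chk (box11.vC) (subst (sub pc11 ⟨false, true, true, true, false⟩) (condX)) :=
  ⟨263, 13, 10, 4, 0, by decide +kernel⟩
def chk11_20 : Chk (box11.vC) (subst (sub pc11 ⟨true, false, true, true, false⟩) (condX)) :=
  ⟨261, 13, 10, 4, 0, by decide +kernel⟩
def chk11_21 : Chk (box11.vC) (subst (sub pc11 ⟨true, true, true, true, false⟩) (condX)) :=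
  ⟨263, 13, 10, 4, 0, by decide +kernel⟩
def chk11_22 : Chk (box11.vC) (subst (sub pc11 ⟨false, false, true, false, false⟩) (tplMG)) :=
  ⟨500, 26, 20, 6, 0, by decide +kernel⟩
def chk11_23 : Chk (box11.vC) (subst (sub pc11 ⟨false, true, true, false, false⟩) (tplMG)) :=
  ⟨504, 26, 20, 6, 0, by decide +kernel⟩
def chk11_24 : Chk (box11.vC) (subst (sub pc11 ⟨true, false, true, false, false⟩) (tplMG)) :=
  ⟨500, 26, 20, 6, 0, by decide +kernel⟩
def chk11_25 : Chk (box11.vC) (subst (sub pc11 ⟨true, true, true, false, false⟩) (tplMG)) :=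
  ⟨504, 26, 20, 6, 0, by decide +kernel⟩
def chk11_26 : Chk (box11.vC) (subst (sub pc11 ⟨false, false, false, false, false⟩) (pc11.m1)) :=
  ⟨341, 17, 14, 4, 0, by decide +kernel⟩
def chk11_27 : Chk (box11.vC) (subst (sub pc11 ⟨false, true, false, false, false⟩) (pc11.m1)) :=
  ⟨343, 17, 14, 4, 0, by decide +kernel⟩
def chk11_28 : Chk (box11.vC) (subst (sub pc11 ⟨true, false, false, false, false⟩) (pc11.m1)) :=
  ⟨341, 17, 14, 4, 0, by decide +kernel⟩
def chk11_29 : Chk (box11.vC) (subst (sub pc11 ⟨true, true, false, false, false⟩) (pc11.m1)) :=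
  ⟨343, 17, 14, 4, 0, by decide +kernel⟩
def chk11_30 : Chk (box11.vC) (subst (sub pc11 ⟨false, false, true, false, false⟩) (strict (pc11.m2 false))) :=
  ⟨534, 24, 19, 6, 0, by decide +kernel⟩
def chk11_31 : Chk (box11.vC) (subst (sub pc11 ⟨false, false, true, false, true⟩) (strict (pc11.m2 false))) :=
  ⟨527, 24, 19, 6, 0, by decide +kernel⟩
def chk11_32 : Chk (box11.vC) (subst (sub pc11 ⟨true, false, true, false, false⟩) (strict (pc11.m2 false))) :=
  ⟨534, 24, 19, 6, 0, by decide +kernel⟩
def chk11_33 : Chk (box11.vC) (subst (sub pc11 ⟨true, false, true, false, true⟩) (strict (pc11.m2 false))) :=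
  ⟨527, 24, 19, 6, 0, by decide +kernel⟩
def chk11_34 : Chk (box11.vC) (subst (sub pc11 ⟨false, true, true, false, false⟩) (strict (pc11.m2 true))) :=
  ⟨534, 24, 19, 6, 0, by decide +kernel⟩
def chk11_35 : Chk (box11.vC) (subst (sub pc11 ⟨false, true, true, false, true⟩) (strict (pc11.m2 true))) :=
  ⟨528, 24, 19, 6, 0, by decide +kernel⟩
def chk11_36 : Chk (box11.vC) (subst (sub pc11 ⟨true, true, true, false, false⟩) (strict (pc11.m2 true))) :=
  ⟨534, 24, 19, 6, 0, by decide +kernel⟩
def chk11_37 : Chk (box11.vC) (subst (sub pc11 ⟨true, true, true, false, true⟩) (strict (pc11.m2 true))) :=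
  ⟨528, 24, 19, 6, 0, by decide +kernel⟩
def chk11_38 : Chk (box11.vC) (subst (sub pc11 ⟨false, false, true, true, false⟩) (strict (pc11.m3 false))) :=
  ⟨663, 31, 25, 6, 0, by decide +kernel⟩
def chk11_39 : Chk (box11.vC) (subst (sub pc11 ⟨false, false, true, true, true⟩) (strict (pc11.m3 false))) :=
  ⟨660, 31, 25, 6, 0, by decide +kernel⟩
def chk11_40 : Chk (box11.vC) (subst (sub pc11 ⟨false, true, true, true, false⟩) (strict (pc11.m3 false))) :=
  ⟨667, 31, 25, 6, 0, by decide +kernel⟩
def chk11_41 : Chk (box11.vC) (subst (sub pc11 ⟨false, true, true, true, true⟩) (strict (pc11.m3 false))) :=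
  ⟨664, 31, 25, 6, 0, by decide +kernel⟩
def chk11_42 : Chk (box11.vC) (subst (sub pc11 ⟨true, false, true, true, false⟩) (strict (pc11.m3 false))) :=
  ⟨663, 31, 25, 6, 0, by decide +kernel⟩
def chk11_43 : Chk (box11.vC) (subst (sub pc11 ⟨true, false, true, true, true⟩) (strict (pc11.m3 false))) :=
  ⟨660, 31, 25, 6, 0, by decide +kernel⟩
def chk11_44 : Chk (box11.vC) (subst (sub pc11 ⟨true, true, true, true, false⟩) (strict (pc11.m3 false))) :=
  ⟨667, 31, 25, 6, 0, by decide +kernel⟩
def chk11_45 : Chk (box11.vC) (subst (sub pc11 ⟨true, true, true, true, true⟩) (strict (pc11.m3 false))) :=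
  ⟨664, 31, 25, 6, 0, by decide +kernel⟩
def chk11_46 : Chk (box11.vC) (subst (sub pc11 ⟨false, false, true, true, false⟩) (strict (pc11.m3 true))) :=
  ⟨662, 31, 25, 6, 0, by decide +kernel⟩
def chk11_47 : Chk (box11.vC) (subst (sub pc11 ⟨false, false, true, true, true⟩) (strict (pc11.m3 true))) :=
  ⟨658, 31, 25, 6, 0, by decide +kernel⟩
def chk11_48 : Chk (box11.vC) (subst (sub pc11 ⟨false, true, true, true, false⟩) (strict (pc11.m3 true))) :=
  ⟨666, 31, 25, 6, 0, by decide +kernel⟩
def chk11_49 : Chk (box11.vC) (subst (sub pc11 ⟨false, true, true, true, true⟩) (strict (pc11.m3 true))) :=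
  ⟨663, 31, 25, 6, 0, by decide +kernel⟩
def chk11_50 : Chk (box11.vC) (subst (sub pc11 ⟨true, false, true, true, false⟩) (strict (pc11.m3 true))) :=
  ⟨662, 31, 25, 6, 0, by decide +kernel⟩
def chk11_51 : Chk (box11.vC) (subst (sub pc11 ⟨true, false, true, true, true⟩) (strict (pc11.m3 true))) :=
  ⟨658, 31, 25, 6, 0, by decide +kernel⟩
def chk11_52 : Chk (box11.vC) (subst (sub pc11 ⟨true, true, true, true, false⟩) (strict (pc11.m3 true))) :=
  ⟨666, 31, 25, 6, 0, by decide +kernel⟩
def chk11_53 : Chk (box11.vC) (subst (sub pc11 ⟨true, true, true, true, true⟩) (strict (pc11.m3 true))) :=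
  ⟨663, 31, 25, 6, 0, by decide +kernel⟩
def chk11_54 : Chk (box11.vC) (subst (sub pc11 ⟨false, false, true, true, false⟩) (negEx coMG12)) :=
  ⟨118, 5, 5, 4, 0, by decide +kernel⟩
def chk11_55 : Chk (box11.vC) (subst (sub pc11 ⟨false, false, true, true, false⟩) (negEx (pc11.curve2 false))) :=
  ⟨126, 5, 5, 4, 0, by decide +kernel⟩
def chk11_56 : Chk (box11.vC) (subst (sub pc11 ⟨false, false, true, true, false⟩) (negEx (pc11.curve2 true))) :=
  ⟨124, 5, 5, 4, 0, by decide +kernel⟩
def chk11_57 : Chk (box11.vC) (subst (sub pc11 ⟨false, false, true, true, false⟩) (negEx (pc11.curve3 false))) :=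
  ⟨139, 6, 6, 4, 0, by decide +kernel⟩
def chk11_58 : Chk (box11.vC) (subst (sub pc11 ⟨false, false, true, true, false⟩) (negEx (pc11.curve3 true))) :=
  ⟨137, 6, 6, 4, 0, by decide +kernel⟩
def chk11_59 : Chk (box11.vC) (subst (sub pc11 ⟨false, false, true, true, false⟩) (slopeT)) :=
  ⟨144, 7, 6, 4, 0, by decide +kernel⟩
def chk11_60 : Chk (box11.vC) (subst (sub pc11 ⟨true, false, true, true, false⟩) (slopeT)) :=
  ⟨144, 7, 6, 4, 0, by decide +kernel⟩
def chk11_61 : Chk (box11.gC true) (subst (gapSub pc11 true false false) tplL) :=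
  ⟨406, 22, 17, 5, 2, by decide +kernel⟩
def chk11_62 : Chk (box11.gC true) (subst (gapSub pc11 true false true) tplL) :=
  ⟨403, 22, 17, 5, 2, by decide +kernel⟩
def chk11_63 : Chk (box11.gC true) (subst (gapSub pc11 true true false) tplL) :=
  ⟨406, 22, 17, 5, 2, by decide +kernel⟩
def chk11_64 : Chk (box11.gC true) (subst (gapSub pc11 true true true) tplL) :=
  ⟨403, 22, 17, 5, 2, by decide +kernel⟩

/-- Piece 11 passes. -/
theorem cert11 : Cert pc11 box11 true where
  pos := by
    refine ⟨⟨⟨?_, ?_, ?_, ?_, ?_, ?_, ?_⟩, ?_, ?_, ?_, ?_, ?_, ?_, ?_, ?_, ?_, ?_, ?_⟩, ?_, ?_⟩ <;>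
      norm_num [fr, pc11]
  gX := fun p l => match p, l with
    | false, false => chk11_18
    | false, true => chk11_19
    | true, false => chk11_20
    | true, true => chk11_21
  gMG := fun p l => match p, l with
    | false, false => chk11_22
    | false, true => chk11_23
    | true, false => chk11_24
    | true, true => chk11_25
  g1 := fun p l => match p, l with
    | false, false => chk11_26
    | false, true => chk11_27
    | true, false => chk11_28
    | true, true => chk11_29
  g2 := fun s p t => match s, p, t with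
    | false, false, false => chk11_30
    | false, false, true => chk11_31
    | false, true, false => chk11_32
    | false, true, true => chk11_33
    | true, false, false => chk11_34
    | true, false, true => chk11_35
    | true, true, false => chk11_36
    | true, true, true => chk11_37
  g3 := fun s p l t => match s, p, l, t with
    | false, false, false, false => chk11_38
    | false, false, false, true => chk11_39
    | false, false, true, false => chk11_40
    | false, false, true, true => chk11_41
    | false, true, false, false => chk11_42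
    | false, true, false, true => chk11_43
    | false, true, true, false => chk11_44
    | false, true, true, true => chk11_45
    | true, false, false, false => chk11_46
    | true, false, false, true => chk11_47
    | true, false, true, false => chk11_48
    | true, false, true, true => chk11_49
    | true, true, false, false => chk11_50
    | true, true, false, true => chk11_51
    | true, true, true, false => chk11_52
    | true, true, true, true => chk11_53
  cMG := chk11_54
  c2 := fun s => match s with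
    | false => chk11_55
    | true => chk11_56
  c3 := fun s => match s with
    | false => chk11_57
    | true => chk11_58
  sT := fun p => match p with
    | false => chk11_59
    | true => chk11_60
  bnd := fun ze b => match ze, b with
    | false, .l0 => chk11_0
    | false, .l1 => chk11_1
    | false, .r => chk11_2
    | false, .g0 => chk11_3
    | false, .g1 => chk11_4
    | false, .t0 => chk11_5
    | false, .t1 => chk11_6
    | false, .w0 => chk11_7
    | false, .w1 => chk11_8
    | true, .l0 => chk11_9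
    | true, .l1 => chk11_10
    | true, .r => chk11_11
    | true, .g0 => chk11_12
    | true, .g1 => chk11_13
    | true, .t0 => chk11_14
    | true, .t1 => chk11_15
    | true, .w0 => chk11_16
    | true, .w1 => chk11_17
  gap := fun ze t => match ze, t with
    | false, false => chk11_61
    | false, true => chk11_62
    | true, false => chk11_63
    | true, true => chk11_64

end Vale.Agent.P100.Calib.StripMid
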