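import Vale.Agent.P100.Calib.SlabStripMidChart

/-!
# The checks of piece 12 below 153/200
-/

set_option linter.defProp false

namespace Vale.Agent.P100.Calib.StripMid

open Pack

/-- The numbers of piece 12. -/
def pc12 : Piece := ⟨.D, (13, 25), (16, 25), (1, 1), (53, 100), (19, 10), (717, 1000), (124, 125), (97, 100), (451, -825, 500), (243, -300, 250), 40, (-8,-70,181,5), (821, 1000), (321, 250), (13, 20), (1, 1), (7, 4)⟩

/-- The ranges of piece 12. -/
def box12 : Box := ⟨(0, 1, 20), (50, 189, 1050), (31, 297, 100), (53, 190, 100), (13, 16, 25)⟩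

def chk12_0 : Chk (box12.cC) (bound pc12 false .l0) :=
  ⟨224, 13, 9, 2, 3, by decide +kernel⟩
def chk12_1 : Chk (box12.cC) (bound pc12 false .l1) :=
  ⟨221, 13, 9, 2, 3, by decide +kernel⟩
def chk12_2 : Chk (box12.cC) (bound pc12 false .r) :=
  ⟨220, 13, 9, 2, 3, by decide +kernel⟩
def chk12_3 : Chk (box12.cC) (bound pc12 false .g0) :=
  ⟨89, 4, 3, 1, 2, by decide +kernel⟩
def chk12_4 : Chk (box12.cC) (bound pc12 false .g1) :=
  ⟨87, 4, 3, 1, 2, by decide +kernel⟩
def chk12_5 : Chk (box12.cC) (bound pc12 false .t0) :=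
  ⟨145, 6, 6, 2, 3, by decide +kernel⟩
def chk12_6 : Chk (box12.cC) (bound pc12 false .t1) :=
  ⟨144, 6, 6, 2, 3, by decide +kernel⟩
def chk12_7 : Chk (box12.cC) (bound pc12 false .w0) :=
  ⟨187, 10, 7, 3, 4, by decide +kernel⟩
def chk12_8 : Chk (box12.cC) (bound pc12 false .w1) :=
  ⟨189, 10, 7, 3, 4, by decide +kernel⟩
def chk12_9 : Chk (box12.cC) (bound pc12 true .l0) :=
  ⟨224, 13, 9, 2, 3, by decide +kernel⟩
def chk12_10 : Chk (box12.cC) (bound pc12 true .l1) :=
  ⟨221, 13, 9, 2, 3, by decide +kernel⟩
def chk12_11 : Chk (box12.cC) (bound pc12 true .r) :=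
  ⟨220, 13, 9, 2, 3, by decide +kernel⟩
def chk12_12 : Chk (box12.cC) (bound pc12 true .g0) :=
  ⟨89, 4, 3, 1, 2, by decide +kernel⟩
def chk12_13 : Chk (box12.cC) (bound pc12 true .g1) :=
  ⟨87, 4, 3, 1, 2, by decide +kernel⟩
def chk12_14 : Chk (box12.cC) (bound pc12 true .t0) :=
  ⟨145, 6, 6, 2, 3, by decide +kernel⟩
def chk12_15 : Chk (box12.cC) (bound pc12 true .t1) :=
  ⟨144, 6, 6, 2, 3, by decide +kernel⟩
def chk12_16 : Chk (box12.cC) (bound pc12 true .w0) :=
  ⟨187, 10, 7, 3, 4, by decide +kernel⟩
def chk12_17 : Chk (box12.cC) (bound pc12 true .w1) :=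
  ⟨189, 10, 7, 3, 4, by decide +kernel⟩
def chk12_18 : Chk (box12.vC) (subst (sub pc12 ⟨false, false, true, true, false⟩) (condX)) :=
  ⟨248, 13, 10, 4, 0, by decide +kernel⟩
def chk12_19 : Chk (box12.vC) (subst (sub pc12 ⟨false, true, true, true, false⟩) (condX)) :=
  ⟨246, 13, 10, 4, 0, by decide +kernel⟩
def chk12_20 : Chk (box12.vC) (subst (sub pc12 ⟨true, false, true, true, false⟩) (condX)) :=
  ⟨248, 13, 10, 4, 0, by decide +kernel⟩
def chk12_21 : Chk (box12.vC) (subst (sub pc12 ⟨true, true, true, true, false⟩) (condX)) :=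
  ⟨246, 13, 10, 4, 0, by decide +kernel⟩
def chk12_22 : Chk (box12.vC) (subst (sub pc12 ⟨false, false, true, false, false⟩) (tplMG)) :=
  ⟨470, 26, 20, 6, 0, by decide +kernel⟩
def chk12_23 : Chk (box12.vC) (subst (sub pc12 ⟨false, true, true, false, false⟩) (tplMG)) :=
  ⟨464, 26, 20, 6, 0, by decide +kernel⟩
def chk12_24 : Chk (box12.vC) (subst (sub pc12 ⟨true, false, true, false, false⟩) (tplMG)) :=
  ⟨470, 26, 20, 6, 0, by decide +kernel⟩
def chk12_25 : Chk (box12.vC) (subst (sub pc12 ⟨true, true, true, false, false⟩) (tplMG)) :=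
  ⟨464, 26, 20, 6, 0, by decide +kernel⟩
def chk12_26 : Chk (box12.vC) (subst (sub pc12 ⟨false, false, false, false, false⟩) (pc12.m1)) :=
  ⟨328, 17, 14, 4, 0, by decide +kernel⟩
def chk12_27 : Chk (box12.vC) (subst (sub pc12 ⟨false, true, false, false, false⟩) (pc12.m1)) :=
  ⟨326, 17, 14, 4, 0, by decide +kernel⟩
def chk12_28 : Chk (box12.vC) (subst (sub pc12 ⟨true, false, false, false, false⟩) (pc12.m1)) :=
  ⟨328, 17, 14, 4, 0, by decide +kernel⟩
def chk12_29 : Chk (box12.vC) (subst (sub pc12 ⟨true, true, false, false, false⟩) (pc12.m1)) :=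
  ⟨326, 17, 14, 4, 0, by decide +kernel⟩
def chk12_30 : Chk (box12.vC) (subst (sub pc12 ⟨false, false, true, false, false⟩) (strict (pc12.m2 false))) :=
  ⟨507, 24, 19, 6, 0, by decide +kernel⟩
def chk12_31 : Chk (box12.vC) (subst (sub pc12 ⟨false, false, true, false, true⟩) (strict (pc12.m2 false))) :=
  ⟨505, 24, 19, 6, 0, by decide +kernel⟩
def chk12_32 : Chk (box12.vC) (subst (sub pc12 ⟨true, false, true, false, false⟩) (strict (pc12.m2 false))) :=
  ⟨507, 24, 19, 6, 0, by decide +kernel⟩
def chk12_33 : Chk (box12.vC) (subst (sub pc12 ⟨true, false, true, false, true⟩) (strict (pc12.m2 false))) :=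
  ⟨505, 24, 19, 6, 0, by decide +kernel⟩
def chk12_34 : Chk (box12.vC) (subst (sub pc12 ⟨false, true, true, false, false⟩) (strict (pc12.m2 true))) :=
  ⟨502, 24, 19, 6, 0, by decide +kernel⟩
def chk12_35 : Chk (box12.vC) (subst (sub pc12 ⟨false, true, true, false, true⟩) (strict (pc12.m2 true))) :=
  ⟨500, 24, 19, 6, 0, by decide +kernel⟩
def chk12_36 : Chk (box12.vC) (subst (sub pc12 ⟨true, true, true, false, false⟩) (strict (pc12.m2 true))) :=
  ⟨502, 24, 19, 6, 0, by decide +kernel⟩
def chk12_37 : Chk (box12.vC) (subst (sub pc12 ⟨true, true, true, false, true⟩) (strict (pc12.m2 true))) :=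
  ⟨500, 24, 19, 6, 0, by decide +kernel⟩
def chk12_38 : Chk (box12.vC) (subst (sub pc12 ⟨false, false, true, true, false⟩) (strict (pc12.m3 false))) :=
  ⟨635, 31, 25, 6, 0, by decide +kernel⟩
def chk12_39 : Chk (box12.vC) (subst (sub pc12 ⟨false, false, true, true, true⟩) (strict (pc12.m3 false))) :=
  ⟨634, 31, 25, 6, 0, by decide +kernel⟩
def chk12_40 : Chk (box12.vC) (subst (sub pc12 ⟨false, true, true, true, false⟩) (strict (pc12.m3 false))) :=
  ⟨629, 31, 25, 6, 0, by decide +kernel⟩
def chk12_41 : Chk (box12.vC) (subst (sub pc12 ⟨false, true, true, true, true⟩) (strict (pc12.m3 false))) :=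
  ⟨628, 31, 25, 6, 0, by decide +kernel⟩
def chk12_42 : Chk (box12.vC) (subst (sub pc12 ⟨true, false, true, true, false⟩) (strict (pc12.m3 false))) :=
  ⟨635, 31, 25, 6, 0, by decide +kernel⟩
def chk12_43 : Chk (box12.vC) (subst (sub pc12 ⟨true, false, true, true, true⟩) (strict (pc12.m3 false))) :=
  ⟨634, 31, 25, 6, 0, by decide +kernel⟩
def chk12_44 : Chk (box12.vC) (subst (sub pc12 ⟨true, true, true, true, false⟩) (strict (pc12.m3 false))) :=
  ⟨629, 31, 25, 6, 0, by decide +kernel⟩
def chk12_45 : Chk (box12.vC) (subst (sub pc12 ⟨true, true, true, true, true⟩) (strict (pc12.m3 false))) :=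
  ⟨628, 31, 25, 6, 0, by decide +kernel⟩
def chk12_46 : Chk (box12.vC) (subst (sub pc12 ⟨false, false, true, true, false⟩) (strict (pc12.m3 true))) :=
  ⟨633, 31, 25, 6, 0, by decide +kernel⟩
def chk12_47 : Chk (box12.vC) (subst (sub pc12 ⟨false, false, true, true, true⟩) (strict (pc12.m3 true))) :=
  ⟨632, 31, 25, 6, 0, by decide +kernel⟩
def chk12_48 : Chk (box12.vC) (subst (sub pc12 ⟨false, true, true, true, false⟩) (strict (pc12.m3 true))) :=
  ⟨627, 31, 25, 6, 0, by decide +kernel⟩
def chk12_49 : Chk (box12.vC) (subst (sub pc12 ⟨false, true, true, true, true⟩) (strict (pc12.m3 true))) :=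
  ⟨626, 31, 25, 6, 0, by decide +kernel⟩
def chk12_50 : Chk (box12.vC) (subst (sub pc12 ⟨true, false, true, true, false⟩) (strict (pc12.m3 true))) :=
  ⟨633, 31, 25, 6, 0, by decide +kernel⟩
def chk12_51 : Chk (box12.vC) (subst (sub pc12 ⟨true, false, true, true, true⟩) (strict (pc12.m3 true))) :=
  ⟨632, 31, 25, 6, 0, by decide +kernel⟩
def chk12_52 : Chk (box12.vC) (subst (sub pc12 ⟨true, true, true, true, false⟩) (strict (pc12.m3 true))) :=
  ⟨627, 31, 25, 6, 0, by decide +kernel⟩
def chk12_53 : Chk (box12.vC) (subst (sub pc12 ⟨true, true, true, true, true⟩) (strict (pc12.m3 true))) :=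
  ⟨626, 31, 25, 6, 0, by decide +kernel⟩
def chk12_54 : Chk (box12.vC) (subst (sub pc12 ⟨false, false, true, true, false⟩) (negEx coMG12)) :=
  ⟨118, 5, 5, 4, 0, by decide +kernel⟩
def chk12_55 : Chk (box12.vC) (subst (sub pc12 ⟨false, false, true, true, false⟩) (negEx (pc12.curve2 false))) :=
  ⟨124, 5, 5, 4, 0, by decide +kernel⟩
def chk12_56 : Chk (box12.vC) (subst (sub pc12 ⟨false, false, true, true, false⟩) (negEx (pc12.curve2 true))) :=
  ⟨121, 5, 5, 4, 0, by decide +kernel⟩
def chk12_57 : Chk (box12.vC) (subst (sub pc12 ⟨false, false, true, true, false⟩) (negEx (pc12.curve3 false))) :=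
  ⟨137, 6, 6, 4, 0, by decide +kernel⟩
def chk12_58 : Chk (box12.vC) (subst (sub pc12 ⟨false, false, true, true, false⟩) (negEx (pc12.curve3 true))) :=
  ⟨135, 6, 6, 4, 0, by decide +kernel⟩
def chk12_59 : Chk (box12.vC) (subst (sub pc12 ⟨false, false, true, true, false⟩) (slopeT)) :=
  ⟨140, 7, 6, 4, 0, by decide +kernel⟩
def chk12_60 : Chk (box12.vC) (subst (sub pc12 ⟨true, false, true, true, false⟩) (slopeT)) :=
  ⟨140, 7, 6, 4, 0, by decide +kernel⟩
def chk12_61 : Chk (box12.gC true) (subst (gapSub pc12 true false false) tplL) :=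
  ⟨383, 22, 17, 5, 2, by decide +kernel⟩
def chk12_62 : Chk (box12.gC true) (subst (gapSub pc12 true false true) tplL) :=
  ⟨382, 22, 17, 5, 2, by decide +kernel⟩
def chk12_63 : Chk (box12.gC true) (subst (gapSub pc12 true true false) tplL) :=
  ⟨383, 22, 17, 5, 2, by decide +kernel⟩
def chk12_64 : Chk (box12.gC true) (subst (gapSub pc12 true true true) tplL) :=
  ⟨382, 22, 17, 5, 2, by decide +kernel⟩

/-- Piece 12 passes. -/
theorem cert12 : Cert pc12 box12 true where
  pos := by
    refine ⟨⟨⟨?_, ?_, ?_, ?_, ?_, ?_, ?_⟩, ?_, ?_, ?_, ?_, ?_, ?_, ?_, ?_, ?_, ?_, ?_⟩, ?_, ?_⟩ <;>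
      norm_num [fr, pc12]
  gX := fun p l => match p, l with
    | false, false => chk12_18
    | false, true => chk12_19
    | true, false => chk12_20
    | true, true => chk12_21
  gMG := fun p l => match p, l with
    | false, false => chk12_22
    | false, true => chk12_23
    | true, false => chk12_24
    | true, true => chk12_25
  g1 := fun p l => match p, l with
    | false, false => chk12_26
    | false, true => chk12_27
    | true, false => chk12_28
    | true, true => chk12_29
  g2 := fun s p t => match s, p, t with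
    | false, false, false => chk12_30
    | false, false, true => chk12_31
    | false, true, false => chk12_32
    | false, true, true => chk12_33
    | true, false, false => chk12_34
    | true, false, true => chk12_35
    | true, true, false => chk12_36
    | true, true, true => chk12_37
  g3 := fun s p l t => match s, p, l, t with
    | false, false, false, false => chk12_38
    | false, false, false, true => chk12_39
    | false, false, true, false => chk12_40
    | false, false, true, true => chk12_41
    | false, true, false, false => chk12_42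
    | false, true, false, true => chk12_43
    | false, true, true, false => chk12_44
    | false, true, true, true => chk12_45
    | true, false, false, false => chk12_46
    | true, false, false, true => chk12_47
    | true, false, true, false => chk12_48
    | true, false, true, true => chk12_49
    | true, true, false, false => chk12_50
    | true, true, false, true => chk12_51
    | true, true, true, false => chk12_52
    | true, true, true, true => chk12_53
  cMG := chk12_54
  c2 := fun s => match s with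
    | false => chk12_55
    | true => chk12_56
  c3 := fun s => match s with
    | false => chk12_57
    | true => chk12_58
  sT := fun p => match p with
    | false => chk12_59
    | true => chk12_60
  bnd := fun ze b => match ze, b with
    | false, .l0 => chk12_0
    | false, .l1 => chk12_1
    | false, .r => chk12_2
    | false, .g0 => chk12_3
    | false, .g1 => chk12_4
    | false, .t0 => chk12_5
    | false, .t1 => chk12_6
    | false, .w0 => chk12_7
    | false, .w1 => chk12_8
    | true, .l0 => chk12_9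
    | true, .l1 => chk12_10
    | true, .r => chk12_11
    | true, .g0 => chk12_12
    | true, .g1 => chk12_13
    | true, .t0 => chk12_14
    | true, .t1 => chk12_15
    | true, .w0 => chk12_16
    | true, .w1 => chk12_17
  gap := fun ze t => match ze, t with
    | false, false => chk12_61
    | false, true => chk12_62
    | true, false => chk12_63
    | true, true => chk12_64

end Vale.Agent.P100.Calib.StripMid
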