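import Vale.Agent.P100.Calib.SlabStripMidChart

/-!
# The checks of piece 13 below 153/200
-/

set_option linter.defProp false

namespace Vale.Agent.P100.Calib.StripMid

open Pack

/-- The numbers of piece 13. -/
def pc13 : Piece := ⟨.D, (13, 25), (16, 25), (1, 1), (53, 100), (19, 10), (717, 1000), (1003, 1000), (957, 1000), (369, -375, 500), (863, -600, 1000), 38, (-34,-350,239,10), (537, 500), (1539, 1000), (11, 20), (1, 1), (5, 2)⟩

/-- The ranges of piece 13. -/
def box13 : Box := ⟨(0, 1, 20), (9, 19, 50), (19, 210, 100), (53, 190, 100), (13, 16, 25)⟩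

def chk13_0 : Chk (box13.cC) (bound pc13 false .l0) :=
  ⟨185, 13, 9, 2, 3, by decide +kernel⟩
def chk13_1 : Chk (box13.cC) (bound pc13 false .l1) :=
  ⟨185, 13, 9, 2, 3, by decide +kernel⟩
def chk13_2 : Chk (box13.cC) (bound pc13 false .r) :=
  ⟨185, 13, 9, 2, 3, by decide +kernel⟩
def chk13_3 : Chk (box13.cC) (bound pc13 false .g0) :=
  ⟨75, 4, 3, 1, 2, by decide +kernel⟩
def chk13_4 : Chk (box13.cC) (bound pc13 false .g1) :=
  ⟨76, 4, 3, 1, 2, by decide +kernel⟩
def chk13_5 : Chk (box13.cC) (bound pc13 false .t0) :=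
  ⟨119, 6, 6, 2, 3, by decide +kernel⟩
def chk13_6 : Chk (box13.cC) (bound pc13 false .t1) :=
  ⟨120, 6, 6, 2, 3, by decide +kernel⟩
def chk13_7 : Chk (box13.cC) (bound pc13 false .w0) :=
  ⟨156, 10, 7, 3, 4, by decide +kernel⟩
def chk13_8 : Chk (box13.cC) (bound pc13 false .w1) :=
  ⟨160, 10, 7, 3, 4, by decide +kernel⟩
def chk13_9 : Chk (box13.cC) (bound pc13 true .l0) :=
  ⟨185, 13, 9, 2, 3, by decide +kernel⟩
def chk13_10 : Chk (box13.cC) (bound pc13 true .l1) :=
  ⟨185, 13, 9, 2, 3, by decide +kernel⟩
def chk13_11 : Chk (box13.cC) (bound pc13 true .r) :=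
  ⟨185, 13, 9, 2, 3, by decide +kernel⟩
def chk13_12 : Chk (box13.cC) (bound pc13 true .g0) :=
  ⟨75, 4, 3, 1, 2, by decide +kernel⟩
def chk13_13 : Chk (box13.cC) (bound pc13 true .g1) :=
  ⟨76, 4, 3, 1, 2, by decide +kernel⟩
def chk13_14 : Chk (box13.cC) (bound pc13 true .t0) :=
  ⟨119, 6, 6, 2, 3, by decide +kernel⟩
def chk13_15 : Chk (box13.cC) (bound pc13 true .t1) :=
  ⟨120, 6, 6, 2, 3, by decide +kernel⟩
def chk13_16 : Chk (box13.cC) (bound pc13 true .w0) :=
  ⟨156, 10, 7, 3, 4, by decide +kernel⟩
def chk13_17 : Chk (box13.cC) (bound pc13 true .w1) :=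
  ⟨160, 10, 7, 3, 4, by decide +kernel⟩
def chk13_18 : Chk (box13.vC) (subst (sub pc13 ⟨false, false, true, true, false⟩) (condX)) :=
  ⟨209, 13, 10, 4, 0, by decide +kernel⟩
def chk13_19 : Chk (box13.vC) (subst (sub pc13 ⟨false, true, true, true, false⟩) (condX)) :=
  ⟨210, 13, 10, 4, 0, by decide +kernel⟩
def chk13_20 : Chk (box13.vC) (subst (sub pc13 ⟨true, false, true, true, false⟩) (condX)) :=
  ⟨209, 13, 10, 4, 0, by decide +kernel⟩
def chk13_21 : Chk (box13.vC) (subst (sub pc13 ⟨true, true, true, true, false⟩) (condX)) :=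
  ⟨210, 13, 10, 4, 0, by decide +kernel⟩
def chk13_22 : Chk (box13.vC) (subst (sub pc13 ⟨false, false, true, false, false⟩) (tplMG)) :=
  ⟨395, 26, 20, 6, 0, by decide +kernel⟩
def chk13_23 : Chk (box13.vC) (subst (sub pc13 ⟨false, true, true, false, false⟩) (tplMG)) :=
  ⟨396, 26, 20, 6, 0, by decide +kernel⟩
def chk13_24 : Chk (box13.vC) (subst (sub pc13 ⟨true, false, true, false, false⟩) (tplMG)) :=
  ⟨395, 26, 20, 6, 0, by decide +kernel⟩
def chk13_25 : Chk (box13.vC) (subst (sub pc13 ⟨true, true, true, false, false⟩) (tplMG)) :=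
  ⟨396, 26, 20, 6, 0, by decide +kernel⟩
def chk13_26 : Chk (box13.vC) (subst (sub pc13 ⟨false, false, false, false, false⟩) (pc13.m1)) :=
  ⟨275, 17, 14, 4, 0, by decide +kernel⟩
def chk13_27 : Chk (box13.vC) (subst (sub pc13 ⟨false, true, false, false, false⟩) (pc13.m1)) :=
  ⟨275, 17, 14, 4, 0, by decide +kernel⟩
def chk13_28 : Chk (box13.vC) (subst (sub pc13 ⟨true, false, false, false, false⟩) (pc13.m1)) :=
  ⟨275, 17, 14, 4, 0, by decide +kernel⟩
def chk13_29 : Chk (box13.vC) (subst (sub pc13 ⟨true, true, false, false, false⟩) (pc13.m1)) :=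
  ⟨275, 17, 14, 4, 0, by decide +kernel⟩
def chk13_30 : Chk (box13.vC) (subst (sub pc13 ⟨false, false, true, false, false⟩) (strict (pc13.m2 false))) :=
  ⟨432, 24, 19, 6, 0, by decide +kernel⟩
def chk13_31 : Chk (box13.vC) (subst (sub pc13 ⟨false, false, true, false, true⟩) (strict (pc13.m2 false))) :=
  ⟨434, 24, 19, 6, 0, by decide +kernel⟩
def chk13_32 : Chk (box13.vC) (subst (sub pc13 ⟨true, false, true, false, false⟩) (strict (pc13.m2 false))) :=
  ⟨432, 24, 19, 6, 0, by decide +kernel⟩
def chk13_33 : Chk (box13.vC) (subst (sub pc13 ⟨true, false, true, false, true⟩) (strict (pc13.m2 false))) :=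
  ⟨434, 24, 19, 6, 0, by decide +kernel⟩
def chk13_34 : Chk (box13.vC) (subst (sub pc13 ⟨false, true, true, false, false⟩) (strict (pc13.m2 true))) :=
  ⟨430, 24, 19, 6, 0, by decide +kernel⟩
def chk13_35 : Chk (box13.vC) (subst (sub pc13 ⟨false, true, true, false, true⟩) (strict (pc13.m2 true))) :=
  ⟨432, 24, 19, 6, 0, by decide +kernel⟩
def chk13_36 : Chk (box13.vC) (subst (sub pc13 ⟨true, true, true, false, false⟩) (strict (pc13.m2 true))) :=
  ⟨430, 24, 19, 6, 0, by decide +kernel⟩
def chk13_37 : Chk (box13.vC) (subst (sub pc13 ⟨true, true, true, false, true⟩) (strict (pc13.m2 true))) :=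
  ⟨432, 24, 19, 6, 0, by decide +kernel⟩
def chk13_38 : Chk (box13.vC) (subst (sub pc13 ⟨false, false, true, true, false⟩) (strict (pc13.m3 false))) :=
  ⟨538, 31, 25, 6, 0, by decide +kernel⟩
def chk13_39 : Chk (box13.vC) (subst (sub pc13 ⟨false, false, true, true, true⟩) (strict (pc13.m3 false))) :=
  ⟨539, 31, 25, 6, 0, by decide +kernel⟩
def chk13_40 : Chk (box13.vC) (subst (sub pc13 ⟨false, true, true, true, false⟩) (strict (pc13.m3 false))) :=
  ⟨538, 31, 25, 6, 0, by decide +kernel⟩
def chk13_41 : Chk (box13.vC) (subst (sub pc13 ⟨false, true, true, true, true⟩) (strict (pc13.m3 false))) :=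
  ⟨539, 31, 25, 6, 0, by decide +kernel⟩
def chk13_42 : Chk (box13.vC) (subst (sub pc13 ⟨true, false, true, true, false⟩) (strict (pc13.m3 false))) :=
  ⟨538, 31, 25, 6, 0, by decide +kernel⟩
def chk13_43 : Chk (box13.vC) (subst (sub pc13 ⟨true, false, true, true, true⟩) (strict (pc13.m3 false))) :=
  ⟨539, 31, 25, 6, 0, by decide +kernel⟩
def chk13_44 : Chk (box13.vC) (subst (sub pc13 ⟨true, true, true, true, false⟩) (strict (pc13.m3 false))) :=
  ⟨539, 31, 25, 6, 0, by decide +kernel⟩
def chk13_45 : Chk (box13.vC) (subst (sub pc13 ⟨true, true, true, true, true⟩) (strict (pc13.m3 false))) :=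
  ⟨540, 31, 25, 6, 0, by decide +kernel⟩
def chk13_46 : Chk (box13.vC) (subst (sub pc13 ⟨false, false, true, true, false⟩) (strict (pc13.m3 true))) :=
  ⟨537, 31, 25, 6, 0, by decide +kernel⟩
def chk13_47 : Chk (box13.vC) (subst (sub pc13 ⟨false, false, true, true, true⟩) (strict (pc13.m3 true))) :=
  ⟨538, 31, 25, 6, 0, by decide +kernel⟩
def chk13_48 : Chk (box13.vC) (subst (sub pc13 ⟨false, true, true, true, false⟩) (strict (pc13.m3 true))) :=
  ⟨537, 31, 25, 6, 0, by decide +kernel⟩
def chk13_49 : Chk (box13.vC) (subst (sub pc13 ⟨false, true, true, true, true⟩) (strict (pc13.m3 true))) :=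
  ⟨538, 31, 25, 6, 0, by decide +kernel⟩
def chk13_50 : Chk (box13.vC) (subst (sub pc13 ⟨true, false, true, true, false⟩) (strict (pc13.m3 true))) :=
  ⟨537, 31, 25, 6, 0, by decide +kernel⟩
def chk13_51 : Chk (box13.vC) (subst (sub pc13 ⟨true, false, true, true, true⟩) (strict (pc13.m3 true))) :=
  ⟨538, 31, 25, 6, 0, by decide +kernel⟩
def chk13_52 : Chk (box13.vC) (subst (sub pc13 ⟨true, true, true, true, false⟩) (strict (pc13.m3 true))) :=
  ⟨537, 31, 25, 6, 0, by decide +kernel⟩
def chk13_53 : Chk (box13.vC) (subst (sub pc13 ⟨true, true, true, true, true⟩) (strict (pc13.m3 true))) :=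
  ⟨538, 31, 25, 6, 0, by decide +kernel⟩
def chk13_54 : Chk (box13.vC) (subst (sub pc13 ⟨false, false, true, true, false⟩) (negEx coMG12)) :=
  ⟨96, 5, 5, 4, 0, by decide +kernel⟩
def chk13_55 : Chk (box13.vC) (subst (sub pc13 ⟨false, false, true, true, false⟩) (negEx (pc13.curve2 false))) :=
  ⟨102, 5, 5, 4, 0, by decide +kernel⟩
def chk13_56 : Chk (box13.vC) (subst (sub pc13 ⟨false, false, true, true, false⟩) (negEx (pc13.curve2 true))) :=
  ⟨99, 5, 5, 4, 0, by decide +kernel⟩
def chk13_57 : Chk (box13.vC) (subst (sub pc13 ⟨false, false, true, true, false⟩) (negEx (pc13.curve3 false))) :=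
  ⟨110, 6, 6, 4, 0, by decide +kernel⟩
def chk13_58 : Chk (box13.vC) (subst (sub pc13 ⟨false, false, true, true, false⟩) (negEx (pc13.curve3 true))) :=
  ⟨109, 6, 6, 4, 0, by decide +kernel⟩
def chk13_59 : Chk (box13.vC) (subst (sub pc13 ⟨false, false, true, true, false⟩) (slopeT)) :=
  ⟨115, 7, 6, 4, 0, by decide +kernel⟩
def chk13_60 : Chk (box13.vC) (subst (sub pc13 ⟨true, false, true, true, false⟩) (slopeT)) :=
  ⟨115, 7, 6, 4, 0, by decide +kernel⟩
def chk13_61 : Chk (box13.gC true) (subst (gapSub pc13 true false false) tplL) :=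
  ⟨311, 22, 17, 5, 2, by decide +kernel⟩
def chk13_62 : Chk (box13.gC true) (subst (gapSub pc13 true false true) tplL) :=
  ⟨312, 22, 17, 5, 2, by decide +kernel⟩
def chk13_63 : Chk (box13.gC true) (subst (gapSub pc13 true true false) tplL) :=
  ⟨311, 22, 17, 5, 2, by decide +kernel⟩
def chk13_64 : Chk (box13.gC true) (subst (gapSub pc13 true true true) tplL) :=
  ⟨312, 22, 17, 5, 2, by decide +kernel⟩

/-- Piece 13 passes. -/
theorem cert13 : Cert pc13 box13 true where
  pos := by
    refine ⟨⟨⟨?_, ?_, ?_, ?_, ?_, ?_, ?_⟩, ?_, ?_, ?_, ?_, ?_, ?_, ?_, ?_, ?_, ?_, ?_⟩, ?_, ?_⟩ <;>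
      norm_num [fr, pc13]
  gX := fun p l => match p, l with
    | false, false => chk13_18
    | false, true => chk13_19
    | true, false => chk13_20
    | true, true => chk13_21
  gMG := fun p l => match p, l with
    | false, false => chk13_22
    | false, true => chk13_23
    | true, false => chk13_24
    | true, true => chk13_25
  g1 := fun p l => match p, l with
    | false, false => chk13_26
    | false, true => chk13_27
    | true, false => chk13_28
    | true, true => chk13_29
  g2 := fun s p t => match s, p, t with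
    | false, false, false => chk13_30
    | false, false, true => chk13_31
    | false, true, false => chk13_32
    | false, true, true => chk13_33
    | true, false, false => chk13_34
    | true, false, true => chk13_35
    | true, true, false => chk13_36
    | true, true, true => chk13_37
  g3 := fun s p l t => match s, p, l, t with
    | false, false, false, false => chk13_38
    | false, false, false, true => chk13_39
    | false, false, true, false => chk13_40
    | false, false, true, true => chk13_41
    | false, true, false, false => chk13_42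
    | false, true, false, true => chk13_43
    | false, true, true, false => chk13_44
    | false, true, true, true => chk13_45
    | true, false, false, false => chk13_46
    | true, false, false, true => chk13_47
    | true, false, true, false => chk13_48
    | true, false, true, true => chk13_49
    | true, true, false, false => chk13_50
    | true, true, false, true => chk13_51
    | true, true, true, false => chk13_52
    | true, true, true, true => chk13_53
  cMG := chk13_54
  c2 := fun s => match s with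
    | false => chk13_55
    | true => chk13_56
  c3 := fun s => match s with
    | false => chk13_57
    | true => chk13_58
  sT := fun p => match p with
    | false => chk13_59
    | true => chk13_60
  bnd := fun ze b => match ze, b with
    | false, .l0 => chk13_0
    | false, .l1 => chk13_1
    | false, .r => chk13_2
    | false, .g0 => chk13_3
    | false, .g1 => chk13_4
    | false, .t0 => chk13_5
    | false, .t1 => chk13_6
    | false, .w0 => chk13_7
    | false, .w1 => chk13_8
    | true, .l0 => chk13_9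
    | true, .l1 => chk13_10
    | true, .r => chk13_11
    | true, .g0 => chk13_12
    | true, .g1 => chk13_13
    | true, .t0 => chk13_14
    | true, .t1 => chk13_15
    | true, .w0 => chk13_16
    | true, .w1 => chk13_17
  gap := fun ze t => match ze, t with
    | false, false => chk13_61
    | false, true => chk13_62
    | true, false => chk13_63
    | true, true => chk13_64

end Vale.Agent.P100.Calib.StripMid
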