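import Vale.Agent.P100.Calib.SlabStripMidChart

/-!
# The checks of piece 14 below 153/200
-/

set_option linter.defProp false

namespace Vale.Agent.P100.Calib.StripMid

open Pack

/-- The numbers of piece 14. -/
def pc14 : Piece := ⟨.D, (16, 25), (18, 25), (1, 1), (53, 100), (7, 4), (557, 1000), (151, 200), (961, 1000), (431, -975, 500), (953, -1650, 1000), 37, (-41,-240,400,10), (671, 1000), (223, 200), (11, 20), (1, 1), (7, 4)⟩

/-- The ranges of piece 14. -/
def box14 : Box := ⟨(0, 1, 20), (50, 189, 1050), (45, 382, 100), (53, 175, 100), (16, 18, 25)⟩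

def chk14_0 : Chk (box14.cC) (bound pc14 false .l0) :=
  ⟨224, 13, 9, 2, 3, by decide +kernel⟩
def chk14_1 : Chk (box14.cC) (bound pc14 false .l1) :=
  ⟨222, 13, 9, 2, 3, by decide +kernel⟩
def chk14_2 : Chk (box14.cC) (bound pc14 false .r) :=
  ⟨224, 13, 9, 2, 3, by decide +kernel⟩
def chk14_3 : Chk (box14.cC) (bound pc14 false .g0) :=
  ⟨89, 4, 3, 1, 2, by decide +kernel⟩
def chk14_4 : Chk (box14.cC) (bound pc14 false .g1) :=
  ⟨87, 4, 3, 1, 2, by decide +kernel⟩
def chk14_5 : Chk (box14.cC) (bound pc14 false .t0) :=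
  ⟨146, 6, 6, 2, 3, by decide +kernel⟩
def chk14_6 : Chk (box14.cC) (bound pc14 false .t1) :=
  ⟨147, 6, 6, 2, 3, by decide +kernel⟩
def chk14_7 : Chk (box14.cC) (bound pc14 false .w0) :=
  ⟨187, 10, 7, 3, 4, by decide +kernel⟩
def chk14_8 : Chk (box14.cC) (bound pc14 false .w1) :=
  ⟨190, 10, 7, 3, 4, by decide +kernel⟩
def chk14_9 : Chk (box14.cC) (bound pc14 true .l0) :=
  ⟨224, 13, 9, 2, 3, by decide +kernel⟩
def chk14_10 : Chk (box14.cC) (bound pc14 true .l1) :=
  ⟨222, 13, 9, 2, 3, by decide +kernel⟩
def chk14_11 : Chk (box14.cC) (bound pc14 true .r) :=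
  ⟨224, 13, 9, 2, 3, by decide +kernel⟩
def chk14_12 : Chk (box14.cC) (bound pc14 true .g0) :=
  ⟨89, 4, 3, 1, 2, by decide +kernel⟩
def chk14_13 : Chk (box14.cC) (bound pc14 true .g1) :=
  ⟨87, 4, 3, 1, 2, by decide +kernel⟩
def chk14_14 : Chk (box14.cC) (bound pc14 true .t0) :=
  ⟨146, 6, 6, 2, 3, by decide +kernel⟩
def chk14_15 : Chk (box14.cC) (bound pc14 true .t1) :=
  ⟨147, 6, 6, 2, 3, by decide +kernel⟩
def chk14_16 : Chk (box14.cC) (bound pc14 true .w0) :=
  ⟨187, 10, 7, 3, 4, by decide +kernel⟩
def chk14_17 : Chk (box14.cC) (bound pc14 true .w1) :=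
  ⟨190, 10, 7, 3, 4, by decide +kernel⟩
def chk14_18 : Chk (box14.vC) (subst (sub pc14 ⟨false, false, true, true, false⟩) (condX)) :=
  ⟨252, 13, 10, 4, 0, by decide +kernel⟩
def chk14_19 : Chk (box14.vC) (subst (sub pc14 ⟨false, true, true, true, false⟩) (condX)) :=
  ⟨251, 13, 10, 4, 0, by decide +kernel⟩
def chk14_20 : Chk (box14.vC) (subst (sub pc14 ⟨true, false, true, true, false⟩) (condX)) :=
  ⟨252, 13, 10, 4, 0, by decide +kernel⟩
def chk14_21 : Chk (box14.vC) (subst (sub pc14 ⟨true, true, true, true, false⟩) (condX)) :=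
  ⟨251, 13, 10, 4, 0, by decide +kernel⟩
def chk14_22 : Chk (box14.vC) (subst (sub pc14 ⟨false, false, true, false, false⟩) (tplMG)) :=
  ⟨477, 26, 20, 6, 0, by decide +kernel⟩
def chk14_23 : Chk (box14.vC) (subst (sub pc14 ⟨false, true, true, false, false⟩) (tplMG)) :=
  ⟨473, 26, 20, 6, 0, by decide +kernel⟩
def chk14_24 : Chk (box14.vC) (subst (sub pc14 ⟨true, false, true, false, false⟩) (tplMG)) :=
  ⟨477, 26, 20, 6, 0, by decide +kernel⟩
def chk14_25 : Chk (box14.vC) (subst (sub pc14 ⟨true, true, true, false, false⟩) (tplMG)) :=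
  ⟨473, 26, 20, 6, 0, by decide +kernel⟩
def chk14_26 : Chk (box14.vC) (subst (sub pc14 ⟨false, false, false, false, false⟩) (pc14.m1)) :=
  ⟨332, 17, 14, 4, 0, by decide +kernel⟩
def chk14_27 : Chk (box14.vC) (subst (sub pc14 ⟨false, true, false, false, false⟩) (pc14.m1)) :=
  ⟨330, 17, 14, 4, 0, by decide +kernel⟩
def chk14_28 : Chk (box14.vC) (subst (sub pc14 ⟨true, false, false, false, false⟩) (pc14.m1)) :=
  ⟨332, 17, 14, 4, 0, by decide +kernel⟩
def chk14_29 : Chk (box14.vC) (subst (sub pc14 ⟨true, true, false, false, false⟩) (pc14.m1)) :=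
  ⟨330, 17, 14, 4, 0, by decide +kernel⟩
def chk14_30 : Chk (box14.vC) (subst (sub pc14 ⟨false, false, true, false, false⟩) (strict (pc14.m2 false))) :=
  ⟨510, 24, 19, 6, 0, by decide +kernel⟩
def chk14_31 : Chk (box14.vC) (subst (sub pc14 ⟨false, false, true, false, true⟩) (strict (pc14.m2 false))) :=
  ⟨512, 24, 19, 6, 0, by decide +kernel⟩
def chk14_32 : Chk (box14.vC) (subst (sub pc14 ⟨true, false, true, false, false⟩) (strict (pc14.m2 false))) :=
  ⟨510, 24, 19, 6, 0, by decide +kernel⟩
def chk14_33 : Chk (box14.vC) (subst (sub pc14 ⟨true, false, true, false, true⟩) (strict (pc14.m2 false))) :=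
  ⟨513, 24, 19, 6, 0, by decide +kernel⟩
def chk14_34 : Chk (box14.vC) (subst (sub pc14 ⟨false, true, true, false, false⟩) (strict (pc14.m2 true))) :=
  ⟨506, 24, 19, 6, 0, by decide +kernel⟩
def chk14_35 : Chk (box14.vC) (subst (sub pc14 ⟨false, true, true, false, true⟩) (strict (pc14.m2 true))) :=
  ⟨508, 24, 19, 6, 0, by decide +kernel⟩
def chk14_36 : Chk (box14.vC) (subst (sub pc14 ⟨true, true, true, false, false⟩) (strict (pc14.m2 true))) :=
  ⟨506, 24, 19, 6, 0, by decide +kernel⟩
def chk14_37 : Chk (box14.vC) (subst (sub pc14 ⟨true, true, true, false, true⟩) (strict (pc14.m2 true))) :=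
  ⟨508, 24, 19, 6, 0, by decide +kernel⟩
def chk14_38 : Chk (box14.vC) (subst (sub pc14 ⟨false, false, true, true, false⟩) (strict (pc14.m3 false))) :=
  ⟨642, 31, 25, 6, 0, by decide +kernel⟩
def chk14_39 : Chk (box14.vC) (subst (sub pc14 ⟨false, false, true, true, true⟩) (strict (pc14.m3 false))) :=
  ⟨643, 31, 25, 6, 0, by decide +kernel⟩
def chk14_40 : Chk (box14.vC) (subst (sub pc14 ⟨false, true, true, true, false⟩) (strict (pc14.m3 false))) :=
  ⟨638, 31, 25, 6, 0, by decide +kernel⟩
def chk14_41 : Chk (box14.vC) (subst (sub pc14 ⟨false, true, true, true, true⟩) (strict (pc14.m3 false))) :=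
  ⟨639, 31, 25, 6, 0, by decide +kernel⟩
def chk14_42 : Chk (box14.vC) (subst (sub pc14 ⟨true, false, true, true, false⟩) (strict (pc14.m3 false))) :=
  ⟨642, 31, 25, 6, 0, by decide +kernel⟩
def chk14_43 : Chk (box14.vC) (subst (sub pc14 ⟨true, false, true, true, true⟩) (strict (pc14.m3 false))) :=
  ⟨643, 31, 25, 6, 0, by decide +kernel⟩
def chk14_44 : Chk (box14.vC) (subst (sub pc14 ⟨true, true, true, true, false⟩) (strict (pc14.m3 false))) :=
  ⟨638, 31, 25, 6, 0, by decide +kernel⟩
def chk14_45 : Chk (box14.vC) (subst (sub pc14 ⟨true, true, true, true, true⟩) (strict (pc14.m3 false))) :=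
  ⟨639, 31, 25, 6, 0, by decide +kernel⟩
def chk14_46 : Chk (box14.vC) (subst (sub pc14 ⟨false, false, true, true, false⟩) (strict (pc14.m3 true))) :=
  ⟨640, 31, 25, 6, 0, by decide +kernel⟩
def chk14_47 : Chk (box14.vC) (subst (sub pc14 ⟨false, false, true, true, true⟩) (strict (pc14.m3 true))) :=
  ⟨641, 31, 25, 6, 0, by decide +kernel⟩
def chk14_48 : Chk (box14.vC) (subst (sub pc14 ⟨false, true, true, true, false⟩) (strict (pc14.m3 true))) :=
  ⟨636, 31, 25, 6, 0, by decide +kernel⟩
def chk14_49 : Chk (box14.vC) (subst (sub pc14 ⟨false, true, true, true, true⟩) (strict (pc14.m3 true))) :=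
  ⟨637, 31, 25, 6, 0, by decide +kernel⟩
def chk14_50 : Chk (box14.vC) (subst (sub pc14 ⟨true, false, true, true, false⟩) (strict (pc14.m3 true))) :=
  ⟨640, 31, 25, 6, 0, by decide +kernel⟩
def chk14_51 : Chk (box14.vC) (subst (sub pc14 ⟨true, false, true, true, true⟩) (strict (pc14.m3 true))) :=
  ⟨641, 31, 25, 6, 0, by decide +kernel⟩
def chk14_52 : Chk (box14.vC) (subst (sub pc14 ⟨true, true, true, true, false⟩) (strict (pc14.m3 true))) :=
  ⟨636, 31, 25, 6, 0, by decide +kernel⟩
def chk14_53 : Chk (box14.vC) (subst (sub pc14 ⟨true, true, true, true, true⟩) (strict (pc14.m3 true))) :=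
  ⟨637, 31, 25, 6, 0, by decide +kernel⟩
def chk14_54 : Chk (box14.vC) (subst (sub pc14 ⟨false, false, true, true, false⟩) (negEx coMG12)) :=
  ⟨118, 5, 5, 4, 0, by decide +kernel⟩
def chk14_55 : Chk (box14.vC) (subst (sub pc14 ⟨false, false, true, true, false⟩) (negEx (pc14.curve2 false))) :=
  ⟨124, 5, 5, 4, 0, by decide +kernel⟩
def chk14_56 : Chk (box14.vC) (subst (sub pc14 ⟨false, false, true, true, false⟩) (negEx (pc14.curve2 true))) :=
  ⟨121, 5, 5, 4, 0, by decide +kernel⟩
def chk14_57 : Chk (box14.vC) (subst (sub pc14 ⟨false, false, true, true, false⟩) (negEx (pc14.curve3 false))) :=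
  ⟨137, 6, 6, 4, 0, by decide +kernel⟩
def chk14_58 : Chk (box14.vC) (subst (sub pc14 ⟨false, false, true, true, false⟩) (negEx (pc14.curve3 true))) :=
  ⟨135, 6, 6, 4, 0, by decide +kernel⟩
def chk14_59 : Chk (box14.vC) (subst (sub pc14 ⟨false, false, true, true, false⟩) (slopeT)) :=
  ⟨140, 7, 6, 4, 0, by decide +kernel⟩
def chk14_60 : Chk (box14.vC) (subst (sub pc14 ⟨true, false, true, true, false⟩) (slopeT)) :=
  ⟨140, 7, 6, 4, 0, by decide +kernel⟩
def chk14_61 : Chk (box14.gC true) (subst (gapSub pc14 true false false) tplL) :=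
  ⟨383, 22, 17, 5, 2, by decide +kernel⟩
def chk14_62 : Chk (box14.gC true) (subst (gapSub pc14 true false true) tplL) :=
  ⟨384, 22, 17, 5, 2, by decide +kernel⟩
def chk14_63 : Chk (box14.gC true) (subst (gapSub pc14 true true false) tplL) :=
  ⟨383, 22, 17, 5, 2, by decide +kernel⟩
def chk14_64 : Chk (box14.gC true) (subst (gapSub pc14 true true true) tplL) :=
  ⟨384, 22, 17, 5, 2, by decide +kernel⟩

/-- Piece 14 passes. -/
theorem cert14 : Cert pc14 box14 true where
  pos := by
    refine ⟨⟨⟨?_, ?_, ?_, ?_, ?_, ?_, ?_⟩, ?_, ?_, ?_, ?_, ?_, ?_, ?_, ?_, ?_, ?_, ?_⟩, ?_, ?_⟩ <;>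
      norm_num [fr, pc14]
  gX := fun p l => match p, l with
    | false, false => chk14_18
    | false, true => chk14_19
    | true, false => chk14_20
    | true, true => chk14_21
  gMG := fun p l => match p, l with
    | false, false => chk14_22
    | false, true => chk14_23
    | true, false => chk14_24
    | true, true => chk14_25
  g1 := fun p l => match p, l with
    | false, false => chk14_26
    | false, true => chk14_27
    | true, false => chk14_28
    | true, true => chk14_29
  g2 := fun s p t => match s, p, t with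
    | false, false, false => chk14_30
    | false, false, true => chk14_31
    | false, true, false => chk14_32
    | false, true, true => chk14_33
    | true, false, false => chk14_34
    | true, false, true => chk14_35
    | true, true, false => chk14_36
    | true, true, true => chk14_37
  g3 := fun s p l t => match s, p, l, t with
    | false, false, false, false => chk14_38
    | false, false, false, true => chk14_39
    | false, false, true, false => chk14_40
    | false, false, true, true => chk14_41
    | false, true, false, false => chk14_42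
    | false, true, false, true => chk14_43
    | false, true, true, false => chk14_44
    | false, true, true, true => chk14_45
    | true, false, false, false => chk14_46
    | true, false, false, true => chk14_47
    | true, false, true, false => chk14_48
    | true, false, true, true => chk14_49
    | true, true, false, false => chk14_50
    | true, true, false, true => chk14_51
    | true, true, true, false => chk14_52
    | true, true, true, true => chk14_53
  cMG := chk14_54
  c2 := fun s => match s with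
    | false => chk14_55
    | true => chk14_56
  c3 := fun s => match s with
    | false => chk14_57
    | true => chk14_58
  sT := fun p => match p with
    | false => chk14_59
    | true => chk14_60
  bnd := fun ze b => match ze, b with
    | false, .l0 => chk14_0
    | false, .l1 => chk14_1
    | false, .r => chk14_2
    | false, .g0 => chk14_3
    | false, .g1 => chk14_4
    | false, .t0 => chk14_5
    | false, .t1 => chk14_6
    | false, .w0 => chk14_7
    | false, .w1 => chk14_8
    | true, .l0 => chk14_9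
    | true, .l1 => chk14_10
    | true, .r => chk14_11
    | true, .g0 => chk14_12
    | true, .g1 => chk14_13
    | true, .t0 => chk14_14
    | true, .t1 => chk14_15
    | true, .w0 => chk14_16
    | true, .w1 => chk14_17
  gap := fun ze t => match ze, t with
    | false, false => chk14_61
    | false, true => chk14_62
    | true, false => chk14_63
    | true, true => chk14_64

end Vale.Agent.P100.Calib.StripMid
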