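import Vale.Agent.P100.Calib.SlabStripMidChart

/-!
# The checks of piece 15 below 153/200
-/

set_option linter.defProp false

namespace Vale.Agent.P100.Calib.StripMid

open Pack

/-- The numbers of piece 15. -/
def pc15 : Piece := ⟨.D, (16, 25), (18, 25), (1, 1), (53, 100), (7, 4), (557, 1000), (763, 1000), (951, 1000), (69, -90, 100), (821, -890, 1000), 35, (-67,-310,241,10), (477, 500), (1301, 1000), (11, 20), (1, 1), (23, 10)⟩

/-- The ranges of piece 15. -/
def box15 : Box := ⟨(0, 1, 20), (18, 29, 100), (33, 253, 100), (53, 175, 100), (16, 18, 25)⟩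

def chk15_0 : Chk (box15.cC) (bound pc15 false .l0) :=
  ⟨194, 13, 9, 2, 3, by decide +kernel⟩
def chk15_1 : Chk (box15.cC) (bound pc15 false .l1) :=
  ⟨194, 13, 9, 2, 3, by decide +kernel⟩
def chk15_2 : Chk (box15.cC) (bound pc15 false .r) :=
  ⟨194, 13, 9, 2, 3, by decide +kernel⟩
def chk15_3 : Chk (box15.cC) (bound pc15 false .g0) :=
  ⟨78, 4, 3, 1, 2, by decide +kernel⟩
def chk15_4 : Chk (box15.cC) (bound pc15 false .g1) :=
  ⟨79, 4, 3, 1, 2, by decide +kernel⟩
def chk15_5 : Chk (box15.cC) (bound pc15 false .t0) :=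
  ⟨123, 6, 6, 2, 3, by decide +kernel⟩
def chk15_6 : Chk (box15.cC) (bound pc15 false .t1) :=
  ⟨127, 6, 6, 2, 3, by decide +kernel⟩
def chk15_7 : Chk (box15.cC) (bound pc15 false .w0) :=
  ⟨163, 10, 7, 3, 4, by decide +kernel⟩
def chk15_8 : Chk (box15.cC) (bound pc15 false .w1) :=
  ⟨167, 10, 7, 3, 4, by decide +kernel⟩
def chk15_9 : Chk (box15.cC) (bound pc15 true .l0) :=
  ⟨194, 13, 9, 2, 3, by decide +kernel⟩
def chk15_10 : Chk (box15.cC) (bound pc15 true .l1) :=
  ⟨194, 13, 9, 2, 3, by decide +kernel⟩
def chk15_11 : Chk (box15.cC) (bound pc15 true .r) :=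
  ⟨194, 13, 9, 2, 3, by decide +kernel⟩
def chk15_12 : Chk (box15.cC) (bound pc15 true .g0) :=
  ⟨78, 4, 3, 1, 2, by decide +kernel⟩
def chk15_13 : Chk (box15.cC) (bound pc15 true .g1) :=
  ⟨79, 4, 3, 1, 2, by decide +kernel⟩
def chk15_14 : Chk (box15.cC) (bound pc15 true .t0) :=
  ⟨123, 6, 6, 2, 3, by decide +kernel⟩
def chk15_15 : Chk (box15.cC) (bound pc15 true .t1) :=
  ⟨127, 6, 6, 2, 3, by decide +kernel⟩
def chk15_16 : Chk (box15.cC) (bound pc15 true .w0) :=
  ⟨164, 10, 7, 3, 4, by decide +kernel⟩
def chk15_17 : Chk (box15.cC) (bound pc15 true .w1) :=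
  ⟨167, 10, 7, 3, 4, by decide +kernel⟩
def chk15_18 : Chk (box15.vC) (subst (sub pc15 ⟨false, false, true, true, false⟩) (condX)) :=
  ⟨219, 13, 10, 4, 0, by decide +kernel⟩
def chk15_19 : Chk (box15.vC) (subst (sub pc15 ⟨false, true, true, true, false⟩) (condX)) :=
  ⟨219, 13, 10, 4, 0, by decide +kernel⟩
def chk15_20 : Chk (box15.vC) (subst (sub pc15 ⟨true, false, true, true, false⟩) (condX)) :=
  ⟨219, 13, 10, 4, 0, by decide +kernel⟩
def chk15_21 : Chk (box15.vC) (subst (sub pc15 ⟨true, true, true, true, false⟩) (condX)) :=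
  ⟨219, 13, 10, 4, 0, by decide +kernel⟩
def chk15_22 : Chk (box15.vC) (subst (sub pc15 ⟨false, false, true, false, false⟩) (tplMG)) :=
  ⟨412, 26, 20, 6, 0, by decide +kernel⟩
def chk15_23 : Chk (box15.vC) (subst (sub pc15 ⟨false, true, true, false, false⟩) (tplMG)) :=
  ⟨412, 26, 20, 6, 0, by decide +kernel⟩
def chk15_24 : Chk (box15.vC) (subst (sub pc15 ⟨true, false, true, false, false⟩) (tplMG)) :=
  ⟨412, 26, 20, 6, 0, by decide +kernel⟩
def chk15_25 : Chk (box15.vC) (subst (sub pc15 ⟨true, true, true, false, false⟩) (tplMG)) :=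
  ⟨412, 26, 20, 6, 0, by decide +kernel⟩
def chk15_26 : Chk (box15.vC) (subst (sub pc15 ⟨false, false, false, false, false⟩) (pc15.m1)) :=
  ⟨288, 17, 14, 4, 0, by decide +kernel⟩
def chk15_27 : Chk (box15.vC) (subst (sub pc15 ⟨false, true, false, false, false⟩) (pc15.m1)) :=
  ⟨288, 17, 14, 4, 0, by decide +kernel⟩
def chk15_28 : Chk (box15.vC) (subst (sub pc15 ⟨true, false, false, false, false⟩) (pc15.m1)) :=
  ⟨288, 17, 14, 4, 0, by decide +kernel⟩
def chk15_29 : Chk (box15.vC) (subst (sub pc15 ⟨true, true, false, false, false⟩) (pc15.m1)) :=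
  ⟨288, 17, 14, 4, 0, by decide +kernel⟩
def chk15_30 : Chk (box15.vC) (subst (sub pc15 ⟨false, false, true, false, false⟩) (strict (pc15.m2 false))) :=
  ⟨447, 24, 19, 6, 0, by decide +kernel⟩
def chk15_31 : Chk (box15.vC) (subst (sub pc15 ⟨false, false, true, false, true⟩) (strict (pc15.m2 false))) :=
  ⟨454, 24, 19, 6, 0, by decide +kernel⟩
def chk15_32 : Chk (box15.vC) (subst (sub pc15 ⟨true, false, true, false, false⟩) (strict (pc15.m2 false))) :=
  ⟨447, 24, 19, 6, 0, by decide +kernel⟩
def chk15_33 : Chk (box15.vC) (subst (sub pc15 ⟨true, false, true, false, true⟩) (strict (pc15.m2 false))) :=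
  ⟨454, 24, 19, 6, 0, by decide +kernel⟩
def chk15_34 : Chk (box15.vC) (subst (sub pc15 ⟨false, true, true, false, false⟩) (strict (pc15.m2 true))) :=
  ⟨443, 24, 19, 6, 0, by decide +kernel⟩
def chk15_35 : Chk (box15.vC) (subst (sub pc15 ⟨false, true, true, false, true⟩) (strict (pc15.m2 true))) :=
  ⟨450, 24, 19, 6, 0, by decide +kernel⟩
def chk15_36 : Chk (box15.vC) (subst (sub pc15 ⟨true, true, true, false, false⟩) (strict (pc15.m2 true))) :=
  ⟨443, 24, 19, 6, 0, by decide +kernel⟩
def chk15_37 : Chk (box15.vC) (subst (sub pc15 ⟨true, true, true, false, true⟩) (strict (pc15.m2 true))) :=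
  ⟨450, 24, 19, 6, 0, by decide +kernel⟩
def chk15_38 : Chk (box15.vC) (subst (sub pc15 ⟨false, false, true, true, false⟩) (strict (pc15.m3 false))) :=
  ⟨561, 31, 25, 6, 0, by decide +kernel⟩
def chk15_39 : Chk (box15.vC) (subst (sub pc15 ⟨false, false, true, true, true⟩) (strict (pc15.m3 false))) :=
  ⟨565, 31, 25, 6, 0, by decide +kernel⟩
def chk15_40 : Chk (box15.vC) (subst (sub pc15 ⟨false, true, true, true, false⟩) (strict (pc15.m3 false))) :=
  ⟨562, 31, 25, 6, 0, by decide +kernel⟩
def chk15_41 : Chk (box15.vC) (subst (sub pc15 ⟨false, true, true, true, true⟩) (strict (pc15.m3 false))) :=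
  ⟨565, 31, 25, 6, 0, by decide +kernel⟩
def chk15_42 : Chk (box15.vC) (subst (sub pc15 ⟨true, false, true, true, false⟩) (strict (pc15.m3 false))) :=
  ⟨561, 31, 25, 6, 0, by decide +kernel⟩
def chk15_43 : Chk (box15.vC) (subst (sub pc15 ⟨true, false, true, true, true⟩) (strict (pc15.m3 false))) :=
  ⟨565, 31, 25, 6, 0, by decide +kernel⟩
def chk15_44 : Chk (box15.vC) (subst (sub pc15 ⟨true, true, true, true, false⟩) (strict (pc15.m3 false))) :=
  ⟨562, 31, 25, 6, 0, by decide +kernel⟩
def chk15_45 : Chk (box15.vC) (subst (sub pc15 ⟨true, true, true, true, true⟩) (strict (pc15.m3 false))) :=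
  ⟨565, 31, 25, 6, 0, by decide +kernel⟩
def chk15_46 : Chk (box15.vC) (subst (sub pc15 ⟨false, false, true, true, false⟩) (strict (pc15.m3 true))) :=
  ⟨558, 31, 25, 6, 0, by decide +kernel⟩
def chk15_47 : Chk (box15.vC) (subst (sub pc15 ⟨false, false, true, true, true⟩) (strict (pc15.m3 true))) :=
  ⟨561, 31, 25, 6, 0, by decide +kernel⟩
def chk15_48 : Chk (box15.vC) (subst (sub pc15 ⟨false, true, true, true, false⟩) (strict (pc15.m3 true))) :=
  ⟨558, 31, 25, 6, 0, by decide +kernel⟩
def chk15_49 : Chk (box15.vC) (subst (sub pc15 ⟨false, true, true, true, true⟩) (strict (pc15.m3 true))) :=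
  ⟨561, 31, 25, 6, 0, by decide +kernel⟩
def chk15_50 : Chk (box15.vC) (subst (sub pc15 ⟨true, false, true, true, false⟩) (strict (pc15.m3 true))) :=
  ⟨558, 31, 25, 6, 0, by decide +kernel⟩
def chk15_51 : Chk (box15.vC) (subst (sub pc15 ⟨true, false, true, true, true⟩) (strict (pc15.m3 true))) :=
  ⟨561, 31, 25, 6, 0, by decide +kernel⟩
def chk15_52 : Chk (box15.vC) (subst (sub pc15 ⟨true, true, true, true, false⟩) (strict (pc15.m3 true))) :=
  ⟨558, 31, 25, 6, 0, by decide +kernel⟩
def chk15_53 : Chk (box15.vC) (subst (sub pc15 ⟨true, true, true, true, true⟩) (strict (pc15.m3 true))) :=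
  ⟨561, 31, 25, 6, 0, by decide +kernel⟩
def chk15_54 : Chk (box15.vC) (subst (sub pc15 ⟨false, false, true, true, false⟩) (negEx coMG12)) :=
  ⟨101, 5, 5, 4, 0, by decide +kernel⟩
def chk15_55 : Chk (box15.vC) (subst (sub pc15 ⟨false, false, true, true, false⟩) (negEx (pc15.curve2 false))) :=
  ⟨109, 5, 5, 4, 0, by decide +kernel⟩
def chk15_56 : Chk (box15.vC) (subst (sub pc15 ⟨false, false, true, true, false⟩) (negEx (pc15.curve2 true))) :=
  ⟨104, 5, 5, 4, 0, by decide +kernel⟩
def chk15_57 : Chk (box15.vC) (subst (sub pc15 ⟨false, false, true, true, false⟩) (negEx (pc15.curve3 false))) :=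
  ⟨119, 6, 6, 4, 0, by decide +kernel⟩
def chk15_58 : Chk (box15.vC) (subst (sub pc15 ⟨false, false, true, true, false⟩) (negEx (pc15.curve3 true))) :=
  ⟨115, 6, 6, 4, 0, by decide +kernel⟩
def chk15_59 : Chk (box15.vC) (subst (sub pc15 ⟨false, false, true, true, false⟩) (slopeT)) :=
  ⟨121, 7, 6, 4, 0, by decide +kernel⟩
def chk15_60 : Chk (box15.vC) (subst (sub pc15 ⟨true, false, true, true, false⟩) (slopeT)) :=
  ⟨121, 7, 6, 4, 0, by decide +kernel⟩
def chk15_61 : Chk (box15.gC true) (subst (gapSub pc15 true false false) tplL) :=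
  ⟨325, 22, 17, 5, 2, by decide +kernel⟩
def chk15_62 : Chk (box15.gC true) (subst (gapSub pc15 true false true) tplL) :=
  ⟨329, 22, 17, 5, 2, by decide +kernel⟩
def chk15_63 : Chk (box15.gC true) (subst (gapSub pc15 true true false) tplL) :=
  ⟨325, 22, 17, 5, 2, by decide +kernel⟩
def chk15_64 : Chk (box15.gC true) (subst (gapSub pc15 true true true) tplL) :=
  ⟨329, 22, 17, 5, 2, by decide +kernel⟩

/-- Piece 15 passes. -/
theorem cert15 : Cert pc15 box15 true where
  pos := by
    refine ⟨⟨⟨?_, ?_, ?_, ?_, ?_, ?_, ?_⟩, ?_, ?_, ?_, ?_, ?_, ?_, ?_, ?_, ?_, ?_, ?_⟩, ?_, ?_⟩ <;>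
      norm_num [fr, pc15]
  gX := fun p l => match p, l with
    | false, false => chk15_18
    | false, true => chk15_19
    | true, false => chk15_20
    | true, true => chk15_21
  gMG := fun p l => match p, l with
    | false, false => chk15_22
    | false, true => chk15_23
    | true, false => chk15_24
    | true, true => chk15_25
  g1 := fun p l => match p, l with
    | false, false => chk15_26
    | false, true => chk15_27
    | true, false => chk15_28
    | true, true => chk15_29
  g2 := fun s p t => match s, p, t with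
    | false, false, false => chk15_30
    | false, false, true => chk15_31
    | false, true, false => chk15_32
    | false, true, true => chk15_33
    | true, false, false => chk15_34
    | true, false, true => chk15_35
    | true, true, false => chk15_36
    | true, true, true => chk15_37
  g3 := fun s p l t => match s, p, l, t with
    | false, false, false, false => chk15_38
    | false, false, false, true => chk15_39
    | false, false, true, false => chk15_40
    | false, false, true, true => chk15_41
    | false, true, false, false => chk15_42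
    | false, true, false, true => chk15_43
    | false, true, true, false => chk15_44
    | false, true, true, true => chk15_45
    | true, false, false, false => chk15_46
    | true, false, false, true => chk15_47
    | true, false, true, false => chk15_48
    | true, false, true, true => chk15_49
    | true, true, false, false => chk15_50
    | true, true, false, true => chk15_51
    | true, true, true, false => chk15_52
    | true, true, true, true => chk15_53
  cMG := chk15_54
  c2 := fun s => match s with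
    | false => chk15_55
    | true => chk15_56
  c3 := fun s => match s with
    | false => chk15_57
    | true => chk15_58
  sT := fun p => match p with
    | false => chk15_59
    | true => chk15_60
  bnd := fun ze b => match ze, b with
    | false, .l0 => chk15_0
    | false, .l1 => chk15_1
    | false, .r => chk15_2
    | false, .g0 => chk15_3
    | false, .g1 => chk15_4
    | false, .t0 => chk15_5
    | false, .t1 => chk15_6
    | false, .w0 => chk15_7
    | false, .w1 => chk15_8
    | true, .l0 => chk15_9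
    | true, .l1 => chk15_10
    | true, .r => chk15_11
    | true, .g0 => chk15_12
    | true, .g1 => chk15_13
    | true, .t0 => chk15_14
    | true, .t1 => chk15_15
    | true, .w0 => chk15_16
    | true, .w1 => chk15_17
  gap := fun ze t => match ze, t with
    | false, false => chk15_61
    | false, true => chk15_62
    | true, false => chk15_63
    | true, true => chk15_64

end Vale.Agent.P100.Calib.StripMid
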