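import Vale.Agent.P100.Calib.SlabStripMidChart

/-!
# The checks of piece 16 below 153/200
-/

set_option linter.defProp false

namespace Vale.Agent.P100.Calib.StripMid

open Pack

/-- The numbers of piece 16. -/
def pc16 : Piece := ⟨.D, (16, 25), (18, 25), (1, 1), (53, 100), (7, 4), (557, 1000), (153, 200), (947, 1000), (121, -120, 200), (737, -600, 1000), 32, (-47,-180,73,5), (289, 250), (1431, 1000), (1, 2), (1, 1), (11, 4)⟩

/-- The ranges of piece 16. -/
def box16 : Box := ⟨(0, 9, 200), (29, 38, 100), (27, 184, 100), (53, 175, 100), (16, 18, 25)⟩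

def chk16_0 : Chk (box16.cC) (bound pc16 false .l0) :=
  ⟨238, 13, 9, 2, 3, by decide +kernel⟩
def chk16_1 : Chk (box16.cC) (bound pc16 false .l1) :=
  ⟨236, 13, 9, 2, 3, by decide +kernel⟩
def chk16_2 : Chk (box16.cC) (bound pc16 false .r) :=
  ⟨238, 13, 9, 2, 3, by decide +kernel⟩
def chk16_3 : Chk (box16.cC) (bound pc16 false .g0) :=
  ⟨91, 4, 3, 1, 2, by decide +kernel⟩
def chk16_4 : Chk (box16.cC) (bound pc16 false .g1) :=
  ⟨93, 4, 3, 1, 2, by decide +kernel⟩
def chk16_5 : Chk (box16.cC) (bound pc16 false .t0) :=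
  ⟨144, 6, 6, 2, 3, by decide +kernel⟩
def chk16_6 : Chk (box16.cC) (bound pc16 false .t1) :=
  ⟨147, 6, 6, 2, 3, by decide +kernel⟩
def chk16_7 : Chk (box16.cC) (bound pc16 false .w0) :=
  ⟨197, 10, 7, 3, 4, by decide +kernel⟩
def chk16_8 : Chk (box16.cC) (bound pc16 false .w1) :=
  ⟨199, 10, 7, 3, 4, by decide +kernel⟩
def chk16_9 : Chk (box16.cC) (bound pc16 true .l0) :=
  ⟨238, 13, 9, 2, 3, by decide +kernel⟩
def chk16_10 : Chk (box16.cC) (bound pc16 true .l1) :=
  ⟨236, 13, 9, 2, 3, by decide +kernel⟩
def chk16_11 : Chk (box16.cC) (bound pc16 true .r) :=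
  ⟨238, 13, 9, 2, 3, by decide +kernel⟩
def chk16_12 : Chk (box16.cC) (bound pc16 true .g0) :=
  ⟨91, 4, 3, 1, 2, by decide +kernel⟩
def chk16_13 : Chk (box16.cC) (bound pc16 true .g1) :=
  ⟨93, 4, 3, 1, 2, by decide +kernel⟩
def chk16_14 : Chk (box16.cC) (bound pc16 true .t0) :=
  ⟨144, 6, 6, 2, 3, by decide +kernel⟩
def chk16_15 : Chk (box16.cC) (bound pc16 true .t1) :=
  ⟨147, 6, 6, 2, 3, by decide +kernel⟩
def chk16_16 : Chk (box16.cC) (bound pc16 true .w0) :=
  ⟨197, 10, 7, 3, 4, by decide +kernel⟩
def chk16_17 : Chk (box16.cC) (bound pc16 true .w1) :=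
  ⟨199, 10, 7, 3, 4, by decide +kernel⟩
def chk16_18 : Chk (box16.vC) (subst (sub pc16 ⟨false, false, true, true, false⟩) (condX)) :=
  ⟨261, 13, 10, 4, 0, by decide +kernel⟩
def chk16_19 : Chk (box16.vC) (subst (sub pc16 ⟨false, true, true, true, false⟩) (condX)) :=
  ⟨259, 13, 10, 4, 0, by decide +kernel⟩
def chk16_20 : Chk (box16.vC) (subst (sub pc16 ⟨true, false, true, true, false⟩) (condX)) :=
  ⟨261, 13, 10, 4, 0, by decide +kernel⟩
def chk16_21 : Chk (box16.vC) (subst (sub pc16 ⟨true, true, true, true, false⟩) (condX)) :=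
  ⟨259, 13, 10, 4, 0, by decide +kernel⟩
def chk16_22 : Chk (box16.vC) (subst (sub pc16 ⟨false, false, true, false, false⟩) (tplMG)) :=
  ⟨501, 26, 20, 6, 0, by decide +kernel⟩
def chk16_23 : Chk (box16.vC) (subst (sub pc16 ⟨false, true, true, false, false⟩) (tplMG)) :=
  ⟨496, 26, 20, 6, 0, by decide +kernel⟩
def chk16_24 : Chk (box16.vC) (subst (sub pc16 ⟨true, false, true, false, false⟩) (tplMG)) :=
  ⟨501, 26, 20, 6, 0, by decide +kernel⟩
def chk16_25 : Chk (box16.vC) (subst (sub pc16 ⟨true, true, true, false, false⟩) (tplMG)) :=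
  ⟨496, 26, 20, 6, 0, by decide +kernel⟩
def chk16_26 : Chk (box16.vC) (subst (sub pc16 ⟨false, false, false, false, false⟩) (pc16.m1)) :=
  ⟨341, 17, 14, 4, 0, by decide +kernel⟩
def chk16_27 : Chk (box16.vC) (subst (sub pc16 ⟨false, true, false, false, false⟩) (pc16.m1)) :=
  ⟨339, 17, 14, 4, 0, by decide +kernel⟩
def chk16_28 : Chk (box16.vC) (subst (sub pc16 ⟨true, false, false, false, false⟩) (pc16.m1)) :=
  ⟨341, 17, 14, 4, 0, by decide +kernel⟩
def chk16_29 : Chk (box16.vC) (subst (sub pc16 ⟨true, true, false, false, false⟩) (pc16.m1)) :=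
  ⟨339, 17, 14, 4, 0, by decide +kernel⟩
def chk16_30 : Chk (box16.vC) (subst (sub pc16 ⟨false, false, true, false, false⟩) (strict (pc16.m2 false))) :=
  ⟨530, 24, 19, 6, 0, by decide +kernel⟩
def chk16_31 : Chk (box16.vC) (subst (sub pc16 ⟨false, false, true, false, true⟩) (strict (pc16.m2 false))) :=
  ⟨535, 24, 19, 6, 0, by decide +kernel⟩
def chk16_32 : Chk (box16.vC) (subst (sub pc16 ⟨true, false, true, false, false⟩) (strict (pc16.m2 false))) :=
  ⟨530, 24, 19, 6, 0, by decide +kernel⟩
def chk16_33 : Chk (box16.vC) (subst (sub pc16 ⟨true, false, true, false, true⟩) (strict (pc16.m2 false))) :=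
  ⟨535, 24, 19, 6, 0, by decide +kernel⟩
def chk16_34 : Chk (box16.vC) (subst (sub pc16 ⟨false, true, true, false, false⟩) (strict (pc16.m2 true))) :=
  ⟨525, 24, 19, 6, 0, by decide +kernel⟩
def chk16_35 : Chk (box16.vC) (subst (sub pc16 ⟨false, true, true, false, true⟩) (strict (pc16.m2 true))) :=
  ⟨530, 24, 19, 6, 0, by decide +kernel⟩
def chk16_36 : Chk (box16.vC) (subst (sub pc16 ⟨true, true, true, false, false⟩) (strict (pc16.m2 true))) :=
  ⟨525, 24, 19, 6, 0, by decide +kernel⟩
def chk16_37 : Chk (box16.vC) (subst (sub pc16 ⟨true, true, true, false, true⟩) (strict (pc16.m2 true))) :=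
  ⟨530, 24, 19, 6, 0, by decide +kernel⟩
def chk16_38 : Chk (box16.vC) (subst (sub pc16 ⟨false, false, true, true, false⟩) (strict (pc16.m3 false))) :=
  ⟨662, 31, 25, 6, 0, by decide +kernel⟩
def chk16_39 : Chk (box16.vC) (subst (sub pc16 ⟨false, false, true, true, true⟩) (strict (pc16.m3 false))) :=
  ⟨665, 31, 25, 6, 0, by decide +kernel⟩
def chk16_40 : Chk (box16.vC) (subst (sub pc16 ⟨false, true, true, true, false⟩) (strict (pc16.m3 false))) :=
  ⟨658, 31, 25, 6, 0, by decide +kernel⟩
def chk16_41 : Chk (box16.vC) (subst (sub pc16 ⟨false, true, true, true, true⟩) (strict (pc16.m3 false))) :=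
  ⟨660, 31, 25, 6, 0, by decide +kernel⟩
def chk16_42 : Chk (box16.vC) (subst (sub pc16 ⟨true, false, true, true, false⟩) (strict (pc16.m3 false))) :=
  ⟨662, 31, 25, 6, 0, by decide +kernel⟩
def chk16_43 : Chk (box16.vC) (subst (sub pc16 ⟨true, false, true, true, true⟩) (strict (pc16.m3 false))) :=
  ⟨665, 31, 25, 6, 0, by decide +kernel⟩
def chk16_44 : Chk (box16.vC) (subst (sub pc16 ⟨true, true, true, true, false⟩) (strict (pc16.m3 false))) :=
  ⟨658, 31, 25, 6, 0, by decide +kernel⟩
def chk16_45 : Chk (box16.vC) (subst (sub pc16 ⟨true, true, true, true, true⟩) (strict (pc16.m3 false))) :=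
  ⟨660, 31, 25, 6, 0, by decide +kernel⟩
def chk16_46 : Chk (box16.vC) (subst (sub pc16 ⟨false, false, true, true, false⟩) (strict (pc16.m3 true))) :=
  ⟨660, 31, 25, 6, 0, by decide +kernel⟩
def chk16_47 : Chk (box16.vC) (subst (sub pc16 ⟨false, false, true, true, true⟩) (strict (pc16.m3 true))) :=
  ⟨662, 31, 25, 6, 0, by decide +kernel⟩
def chk16_48 : Chk (box16.vC) (subst (sub pc16 ⟨false, true, true, true, false⟩) (strict (pc16.m3 true))) :=
  ⟨655, 31, 25, 6, 0, by decide +kernel⟩
def chk16_49 : Chk (box16.vC) (subst (sub pc16 ⟨false, true, true, true, true⟩) (strict (pc16.m3 true))) :=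
  ⟨658, 31, 25, 6, 0, by decide +kernel⟩
def chk16_50 : Chk (box16.vC) (subst (sub pc16 ⟨true, false, true, true, false⟩) (strict (pc16.m3 true))) :=
  ⟨660, 31, 25, 6, 0, by decide +kernel⟩
def chk16_51 : Chk (box16.vC) (subst (sub pc16 ⟨true, false, true, true, true⟩) (strict (pc16.m3 true))) :=
  ⟨662, 31, 25, 6, 0, by decide +kernel⟩
def chk16_52 : Chk (box16.vC) (subst (sub pc16 ⟨true, true, true, true, false⟩) (strict (pc16.m3 true))) :=
  ⟨655, 31, 25, 6, 0, by decide +kernel⟩
def chk16_53 : Chk (box16.vC) (subst (sub pc16 ⟨true, true, true, true, true⟩) (strict (pc16.m3 true))) :=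
  ⟨658, 31, 25, 6, 0, by decide +kernel⟩
def chk16_54 : Chk (box16.vC) (subst (sub pc16 ⟨false, false, true, true, false⟩) (negEx coMG12)) :=
  ⟨118, 5, 5, 4, 0, by decide +kernel⟩
def chk16_55 : Chk (box16.vC) (subst (sub pc16 ⟨false, false, true, true, false⟩) (negEx (pc16.curve2 false))) :=
  ⟨125, 5, 5, 4, 0, by decide +kernel⟩
def chk16_56 : Chk (box16.vC) (subst (sub pc16 ⟨false, false, true, true, false⟩) (negEx (pc16.curve2 true))) :=
  ⟨121, 5, 5, 4, 0, by decide +kernel⟩
def chk16_57 : Chk (box16.vC) (subst (sub pc16 ⟨false, false, true, true, false⟩) (negEx (pc16.curve3 false))) :=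
  ⟨137, 6, 6, 4, 0, by decide +kernel⟩
def chk16_58 : Chk (box16.vC) (subst (sub pc16 ⟨false, false, true, true, false⟩) (negEx (pc16.curve3 true))) :=
  ⟨135, 6, 6, 4, 0, by decide +kernel⟩
def chk16_59 : Chk (box16.vC) (subst (sub pc16 ⟨false, false, true, true, false⟩) (slopeT)) :=
  ⟨144, 7, 6, 4, 0, by decide +kernel⟩
def chk16_60 : Chk (box16.vC) (subst (sub pc16 ⟨true, false, true, true, false⟩) (slopeT)) :=
  ⟨144, 7, 6, 4, 0, by decide +kernel⟩
def chk16_61 : Chk (box16.gC true) (subst (gapSub pc16 true false false) tplL) :=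
  ⟨401, 22, 17, 5, 2, by decide +kernel⟩
def chk16_62 : Chk (box16.gC true) (subst (gapSub pc16 true false true) tplL) :=
  ⟨403, 22, 17, 5, 2, by decide +kernel⟩
def chk16_63 : Chk (box16.gC true) (subst (gapSub pc16 true true false) tplL) :=
  ⟨401, 22, 17, 5, 2, by decide +kernel⟩
def chk16_64 : Chk (box16.gC true) (subst (gapSub pc16 true true true) tplL) :=
  ⟨403, 22, 17, 5, 2, by decide +kernel⟩

/-- Piece 16 passes. -/
theorem cert16 : Cert pc16 box16 true where
  pos := by
    refine ⟨⟨⟨?_, ?_, ?_, ?_, ?_, ?_, ?_⟩, ?_, ?_, ?_, ?_, ?_, ?_, ?_, ?_, ?_, ?_, ?_⟩, ?_, ?_⟩ <;>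
      norm_num [fr, pc16]
  gX := fun p l => match p, l with
    | false, false => chk16_18
    | false, true => chk16_19
    | true, false => chk16_20
    | true, true => chk16_21
  gMG := fun p l => match p, l with
    | false, false => chk16_22
    | false, true => chk16_23
    | true, false => chk16_24
    | true, true => chk16_25
  g1 := fun p l => match p, l with
    | false, false => chk16_26
    | false, true => chk16_27
    | true, false => chk16_28
    | true, true => chk16_29
  g2 := fun s p t => match s, p, t with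
    | false, false, false => chk16_30
    | false, false, true => chk16_31
    | false, true, false => chk16_32
    | false, true, true => chk16_33
    | true, false, false => chk16_34
    | true, false, true => chk16_35
    | true, true, false => chk16_36
    | true, true, true => chk16_37
  g3 := fun s p l t => match s, p, l, t with
    | false, false, false, false => chk16_38
    | false, false, false, true => chk16_39
    | false, false, true, false => chk16_40
    | false, false, true, true => chk16_41
    | false, true, false, false => chk16_42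
    | false, true, false, true => chk16_43
    | false, true, true, false => chk16_44
    | false, true, true, true => chk16_45
    | true, false, false, false => chk16_46
    | true, false, false, true => chk16_47
    | true, false, true, false => chk16_48
    | true, false, true, true => chk16_49
    | true, true, false, false => chk16_50
    | true, true, false, true => chk16_51
    | true, true, true, false => chk16_52
    | true, true, true, true => chk16_53
  cMG := chk16_54
  c2 := fun s => match s with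
    | false => chk16_55
    | true => chk16_56
  c3 := fun s => match s with
    | false => chk16_57
    | true => chk16_58
  sT := fun p => match p with
    | false => chk16_59
    | true => chk16_60
  bnd := fun ze b => match ze, b with
    | false, .l0 => chk16_0
    | false, .l1 => chk16_1
    | false, .r => chk16_2
    | false, .g0 => chk16_3
    | false, .g1 => chk16_4
    | false, .t0 => chk16_5
    | false, .t1 => chk16_6
    | false, .w0 => chk16_7
    | false, .w1 => chk16_8
    | true, .l0 => chk16_9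
    | true, .l1 => chk16_10
    | true, .r => chk16_11
    | true, .g0 => chk16_12
    | true, .g1 => chk16_13
    | true, .t0 => chk16_14
    | true, .t1 => chk16_15
    | true, .w0 => chk16_16
    | true, .w1 => chk16_17
  gap := fun ze t => match ze, t with
    | false, false => chk16_61
    | false, true => chk16_62
    | true, false => chk16_63
    | true, true => chk16_64

end Vale.Agent.P100.Calib.StripMid
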