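import Vale.Agent.P100.Calib.SlabStripMidChart

/-!
# The checks of piece 17 below 153/200
-/

set_option linter.defProp false

namespace Vale.Agent.P100.Calib.StripMid

open Pack

/-- The numbers of piece 17. -/
def pc17 : Piece := ⟨.D, (18, 25), (153, 200), (1, 1), (39, 100), (7, 4), (117, 250), (597, 1000), (191, 200), (33, -84, 40), (37, -78, 40), 38, (-43,-210,479,10), (293, 500), (251, 250), (1, 2), (1, 1), (21, 10)⟩

/-- The ranges of piece 17. -/
def box17 : Box := ⟨(0, 1, 20), (50, 189, 1050), (41, 470, 100), (39, 175, 100), (144, 153, 200)⟩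

def chk17_0 : Chk (box17.cC) (bound pc17 false .l0) :=
  ⟨231, 13, 9, 2, 3, by decide +kernel⟩
def chk17_1 : Chk (box17.cC) (bound pc17 false .l1) :=
  ⟨233, 13, 9, 2, 3, by decide +kernel⟩
def chk17_2 : Chk (box17.cC) (bound pc17 false .r) :=
  ⟨231, 13, 9, 2, 3, by decide +kernel⟩
def chk17_3 : Chk (box17.cC) (bound pc17 false .g0) :=
  ⟨94, 4, 3, 1, 2, by decide +kernel⟩
def chk17_4 : Chk (box17.cC) (bound pc17 false .g1) :=
  ⟨93, 4, 3, 1, 2, by decide +kernel⟩
def chk17_5 : Chk (box17.cC) (bound pc17 false .t0) :=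
  ⟨151, 6, 6, 2, 3, by decide +kernel⟩
def chk17_6 : Chk (box17.cC) (bound pc17 false .t1) :=
  ⟨151, 6, 6, 2, 3, by decide +kernel⟩
def chk17_7 : Chk (box17.cC) (bound pc17 false .w0) :=
  ⟨199, 10, 7, 3, 4, by decide +kernel⟩
def chk17_8 : Chk (box17.cC) (bound pc17 false .w1) :=
  ⟨202, 10, 7, 3, 4, by decide +kernel⟩
def chk17_9 : Chk (box17.cC) (bound pc17 true .l0) :=
  ⟨231, 13, 9, 2, 3, by decide +kernel⟩
def chk17_10 : Chk (box17.cC) (bound pc17 true .l1) :=
  ⟨233, 13, 9, 2, 3, by decide +kernel⟩
def chk17_11 : Chk (box17.cC) (bound pc17 true .r) :=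
  ⟨231, 13, 9, 2, 3, by decide +kernel⟩
def chk17_12 : Chk (box17.cC) (bound pc17 true .g0) :=
  ⟨94, 4, 3, 1, 2, by decide +kernel⟩
def chk17_13 : Chk (box17.cC) (bound pc17 true .g1) :=
  ⟨93, 4, 3, 1, 2, by decide +kernel⟩
def chk17_14 : Chk (box17.cC) (bound pc17 true .t0) :=
  ⟨151, 6, 6, 2, 3, by decide +kernel⟩
def chk17_15 : Chk (box17.cC) (bound pc17 true .t1) :=
  ⟨151, 6, 6, 2, 3, by decide +kernel⟩
def chk17_16 : Chk (box17.cC) (bound pc17 true .w0) :=
  ⟨199, 10, 7, 3, 4, by decide +kernel⟩
def chk17_17 : Chk (box17.cC) (bound pc17 true .w1) :=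
  ⟨202, 10, 7, 3, 4, by decide +kernel⟩
def chk17_18 : Chk (box17.vC) (subst (sub pc17 ⟨false, false, true, true, false⟩) (condX)) :=
  ⟨248, 13, 10, 4, 0, by decide +kernel⟩
def chk17_19 : Chk (box17.vC) (subst (sub pc17 ⟨false, true, true, true, false⟩) (condX)) :=
  ⟨250, 13, 10, 4, 0, by decide +kernel⟩
def chk17_20 : Chk (box17.vC) (subst (sub pc17 ⟨true, false, true, true, false⟩) (condX)) :=
  ⟨248, 13, 10, 4, 0, by decide +kernel⟩
def chk17_21 : Chk (box17.vC) (subst (sub pc17 ⟨true, true, true, true, false⟩) (condX)) :=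
  ⟨250, 13, 10, 4, 0, by decide +kernel⟩
def chk17_22 : Chk (box17.vC) (subst (sub pc17 ⟨false, false, true, false, false⟩) (tplMG)) :=
  ⟨465, 26, 20, 6, 0, by decide +kernel⟩
def chk17_23 : Chk (box17.vC) (subst (sub pc17 ⟨false, true, true, false, false⟩) (tplMG)) :=
  ⟨469, 26, 20, 6, 0, by decide +kernel⟩
def chk17_24 : Chk (box17.vC) (subst (sub pc17 ⟨true, false, true, false, false⟩) (tplMG)) :=
  ⟨465, 26, 20, 6, 0, by decide +kernel⟩
def chk17_25 : Chk (box17.vC) (subst (sub pc17 ⟨true, true, true, false, false⟩) (tplMG)) :=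
  ⟨469, 26, 20, 6, 0, by decide +kernel⟩
def chk17_26 : Chk (box17.vC) (subst (sub pc17 ⟨false, false, false, false, false⟩) (pc17.m1)) :=
  ⟨324, 17, 14, 4, 0, by decide +kernel⟩
def chk17_27 : Chk (box17.vC) (subst (sub pc17 ⟨false, true, false, false, false⟩) (pc17.m1)) :=
  ⟨326, 17, 14, 4, 0, by decide +kernel⟩
def chk17_28 : Chk (box17.vC) (subst (sub pc17 ⟨true, false, false, false, false⟩) (pc17.m1)) :=
  ⟨324, 17, 14, 4, 0, by decide +kernel⟩
def chk17_29 : Chk (box17.vC) (subst (sub pc17 ⟨true, true, false, false, false⟩) (pc17.m1)) :=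
  ⟨327, 17, 14, 4, 0, by decide +kernel⟩
def chk17_30 : Chk (box17.vC) (subst (sub pc17 ⟨false, false, true, false, false⟩) (strict (pc17.m2 false))) :=
  ⟨500, 24, 19, 6, 0, by decide +kernel⟩
def chk17_31 : Chk (box17.vC) (subst (sub pc17 ⟨false, false, true, false, true⟩) (strict (pc17.m2 false))) :=
  ⟨500, 24, 19, 6, 0, by decide +kernel⟩
def chk17_32 : Chk (box17.vC) (subst (sub pc17 ⟨true, false, true, false, false⟩) (strict (pc17.m2 false))) :=
  ⟨500, 24, 19, 6, 0, by decide +kernel⟩
def chk17_33 : Chk (box17.vC) (subst (sub pc17 ⟨true, false, true, false, true⟩) (strict (pc17.m2 false))) :=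
  ⟨500, 24, 19, 6, 0, by decide +kernel⟩
def chk17_34 : Chk (box17.vC) (subst (sub pc17 ⟨false, true, true, false, false⟩) (strict (pc17.m2 true))) :=
  ⟨499, 24, 19, 6, 0, by decide +kernel⟩
def chk17_35 : Chk (box17.vC) (subst (sub pc17 ⟨false, true, true, false, true⟩) (strict (pc17.m2 true))) :=
  ⟨499, 24, 19, 6, 0, by decide +kernel⟩
def chk17_36 : Chk (box17.vC) (subst (sub pc17 ⟨true, true, true, false, false⟩) (strict (pc17.m2 true))) :=
  ⟨499, 24, 19, 6, 0, by decide +kernel⟩
def chk17_37 : Chk (box17.vC) (subst (sub pc17 ⟨true, true, true, false, true⟩) (strict (pc17.m2 true))) :=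
  ⟨499, 24, 19, 6, 0, by decide +kernel⟩
def chk17_38 : Chk (box17.vC) (subst (sub pc17 ⟨false, false, true, true, false⟩) (strict (pc17.m3 false))) :=
  ⟨627, 31, 25, 6, 0, by decide +kernel⟩
def chk17_39 : Chk (box17.vC) (subst (sub pc17 ⟨false, false, true, true, true⟩) (strict (pc17.m3 false))) :=
  ⟨627, 31, 25, 6, 0, by decide +kernel⟩
def chk17_40 : Chk (box17.vC) (subst (sub pc17 ⟨false, true, true, true, false⟩) (strict (pc17.m3 false))) :=
  ⟨631, 31, 25, 6, 0, by decide +kernel⟩
def chk17_41 : Chk (box17.vC) (subst (sub pc17 ⟨false, true, true, true, true⟩) (strict (pc17.m3 false))) :=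
  ⟨631, 31, 25, 6, 0, by decide +kernel⟩
def chk17_42 : Chk (box17.vC) (subst (sub pc17 ⟨true, false, true, true, false⟩) (strict (pc17.m3 false))) :=
  ⟨627, 31, 25, 6, 0, by decide +kernel⟩
def chk17_43 : Chk (box17.vC) (subst (sub pc17 ⟨true, false, true, true, true⟩) (strict (pc17.m3 false))) :=
  ⟨627, 31, 25, 6, 0, by decide +kernel⟩
def chk17_44 : Chk (box17.vC) (subst (sub pc17 ⟨true, true, true, true, false⟩) (strict (pc17.m3 false))) :=
  ⟨631, 31, 25, 6, 0, by decide +kernel⟩
def chk17_45 : Chk (box17.vC) (subst (sub pc17 ⟨true, true, true, true, true⟩) (strict (pc17.m3 false))) :=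
  ⟨631, 31, 25, 6, 0, by decide +kernel⟩
def chk17_46 : Chk (box17.vC) (subst (sub pc17 ⟨false, false, true, true, false⟩) (strict (pc17.m3 true))) :=
  ⟨623, 31, 25, 6, 0, by decide +kernel⟩
def chk17_47 : Chk (box17.vC) (subst (sub pc17 ⟨false, false, true, true, true⟩) (strict (pc17.m3 true))) :=
  ⟨623, 31, 25, 6, 0, by decide +kernel⟩
def chk17_48 : Chk (box17.vC) (subst (sub pc17 ⟨false, true, true, true, false⟩) (strict (pc17.m3 true))) :=
  ⟨628, 31, 25, 6, 0, by decide +kernel⟩
def chk17_49 : Chk (box17.vC) (subst (sub pc17 ⟨false, true, true, true, true⟩) (strict (pc17.m3 true))) :=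
  ⟨628, 31, 25, 6, 0, by decide +kernel⟩
def chk17_50 : Chk (box17.vC) (subst (sub pc17 ⟨true, false, true, true, false⟩) (strict (pc17.m3 true))) :=
  ⟨623, 31, 25, 6, 0, by decide +kernel⟩
def chk17_51 : Chk (box17.vC) (subst (sub pc17 ⟨true, false, true, true, true⟩) (strict (pc17.m3 true))) :=
  ⟨623, 31, 25, 6, 0, by decide +kernel⟩
def chk17_52 : Chk (box17.vC) (subst (sub pc17 ⟨true, true, true, true, false⟩) (strict (pc17.m3 true))) :=
  ⟨628, 31, 25, 6, 0, by decide +kernel⟩
def chk17_53 : Chk (box17.vC) (subst (sub pc17 ⟨true, true, true, true, true⟩) (strict (pc17.m3 true))) :=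
  ⟨628, 31, 25, 6, 0, by decide +kernel⟩
def chk17_54 : Chk (box17.vC) (subst (sub pc17 ⟨false, false, true, true, false⟩) (negEx coMG12)) :=
  ⟨118, 5, 5, 4, 0, by decide +kernel⟩
def chk17_55 : Chk (box17.vC) (subst (sub pc17 ⟨false, false, true, true, false⟩) (negEx (pc17.curve2 false))) :=
  ⟨126, 5, 5, 4, 0, by decide +kernel⟩
def chk17_56 : Chk (box17.vC) (subst (sub pc17 ⟨false, false, true, true, false⟩) (negEx (pc17.curve2 true))) :=
  ⟨121, 5, 5, 4, 0, by decide +kernel⟩
def chk17_57 : Chk (box17.vC) (subst (sub pc17 ⟨false, false, true, true, false⟩) (negEx (pc17.curve3 false))) :=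
  ⟨139, 6, 6, 4, 0, by decide +kernel⟩
def chk17_58 : Chk (box17.vC) (subst (sub pc17 ⟨false, false, true, true, false⟩) (negEx (pc17.curve3 true))) :=
  ⟨135, 6, 6, 4, 0, by decide +kernel⟩
def chk17_59 : Chk (box17.vC) (subst (sub pc17 ⟨false, false, true, true, false⟩) (slopeT)) :=
  ⟨141, 7, 6, 4, 0, by decide +kernel⟩
def chk17_60 : Chk (box17.vC) (subst (sub pc17 ⟨true, false, true, true, false⟩) (slopeT)) :=
  ⟨141, 7, 6, 4, 0, by decide +kernel⟩
def chk17_61 : Chk (box17.gC true) (subst (gapSub pc17 true false false) tplL) :=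
  ⟨386, 22, 17, 5, 2, by decide +kernel⟩
def chk17_62 : Chk (box17.gC true) (subst (gapSub pc17 true false true) tplL) :=
  ⟨386, 22, 17, 5, 2, by decide +kernel⟩
def chk17_63 : Chk (box17.gC true) (subst (gapSub pc17 true true false) tplL) :=
  ⟨386, 22, 17, 5, 2, by decide +kernel⟩
def chk17_64 : Chk (box17.gC true) (subst (gapSub pc17 true true true) tplL) :=
  ⟨386, 22, 17, 5, 2, by decide +kernel⟩

/-- Piece 17 passes. -/
theorem cert17 : Cert pc17 box17 true where
  pos := by
    refine ⟨⟨⟨?_, ?_, ?_, ?_, ?_, ?_, ?_⟩, ?_, ?_, ?_, ?_, ?_, ?_, ?_, ?_, ?_, ?_, ?_⟩, ?_, ?_⟩ <;>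
      norm_num [fr, pc17]
  gX := fun p l => match p, l with
    | false, false => chk17_18
    | false, true => chk17_19
    | true, false => chk17_20
    | true, true => chk17_21
  gMG := fun p l => match p, l with
    | false, false => chk17_22
    | false, true => chk17_23
    | true, false => chk17_24
    | true, true => chk17_25
  g1 := fun p l => match p, l with
    | false, false => chk17_26
    | false, true => chk17_27
    | true, false => chk17_28
    | true, true => chk17_29
  g2 := fun s p t => match s, p, t with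
    | false, false, false => chk17_30
    | false, false, true => chk17_31
    | false, true, false => chk17_32
    | false, true, true => chk17_33
    | true, false, false => chk17_34
    | true, false, true => chk17_35
    | true, true, false => chk17_36
    | true, true, true => chk17_37
  g3 := fun s p l t => match s, p, l, t with
    | false, false, false, false => chk17_38
    | false, false, false, true => chk17_39
    | false, false, true, false => chk17_40
    | false, false, true, true => chk17_41
    | false, true, false, false => chk17_42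
    | false, true, false, true => chk17_43
    | false, true, true, false => chk17_44
    | false, true, true, true => chk17_45
    | true, false, false, false => chk17_46
    | true, false, false, true => chk17_47
    | true, false, true, false => chk17_48
    | true, false, true, true => chk17_49
    | true, true, false, false => chk17_50
    | true, true, false, true => chk17_51
    | true, true, true, false => chk17_52
    | true, true, true, true => chk17_53
  cMG := chk17_54
  c2 := fun s => match s with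
    | false => chk17_55
    | true => chk17_56
  c3 := fun s => match s with
    | false => chk17_57
    | true => chk17_58
  sT := fun p => match p with
    | false => chk17_59
    | true => chk17_60
  bnd := fun ze b => match ze, b with
    | false, .l0 => chk17_0
    | false, .l1 => chk17_1
    | false, .r => chk17_2
    | false, .g0 => chk17_3
    | false, .g1 => chk17_4
    | false, .t0 => chk17_5
    | false, .t1 => chk17_6
    | false, .w0 => chk17_7
    | false, .w1 => chk17_8
    | true, .l0 => chk17_9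
    | true, .l1 => chk17_10
    | true, .r => chk17_11
    | true, .g0 => chk17_12
    | true, .g1 => chk17_13
    | true, .t0 => chk17_14
    | true, .t1 => chk17_15
    | true, .w0 => chk17_16
    | true, .w1 => chk17_17
  gap := fun ze t => match ze, t with
    | false, false => chk17_61
    | false, true => chk17_62
    | true, false => chk17_63
    | true, true => chk17_64

end Vale.Agent.P100.Calib.StripMid
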