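import Vale.Agent.P100.Calib.SlabStripMidChart

/-!
# The checks of piece 18 below 153/200
-/

set_option linter.defProp false

namespace Vale.Agent.P100.Calib.StripMid

open Pack

/-- The numbers of piece 18. -/
def pc18 : Piece := ⟨.D, (18, 25), (153, 200), (1, 1), (39, 100), (7, 4), (117, 250), (76, 125), (471, 500), (334, -525, 500), (368, -445, 500), 35, (-83,-300,241,10), (221, 250), (1213, 1000), (9, 20), (1, 1), (11, 4)⟩

/-- The ranges of piece 18. -/
def box18 : Box := ⟨(0, 1, 20), (36, 47, 200), (6, 59, 20), (39, 175, 100), (144, 153, 200)⟩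

def chk18_0 : Chk (box18.cC) (bound pc18 false .l0) :=
  ⟨210, 13, 9, 2, 3, by decide +kernel⟩
def chk18_1 : Chk (box18.cC) (bound pc18 false .l1) :=
  ⟨209, 13, 9, 2, 3, by decide +kernel⟩
def chk18_2 : Chk (box18.cC) (bound pc18 false .r) :=
  ⟨211, 13, 9, 2, 3, by decide +kernel⟩
def chk18_3 : Chk (box18.cC) (bound pc18 false .g0) :=
  ⟨86, 4, 3, 1, 2, by decide +kernel⟩
def chk18_4 : Chk (box18.cC) (bound pc18 false .g1) :=
  ⟨88, 4, 3, 1, 2, by decide +kernel⟩
def chk18_5 : Chk (box18.cC) (bound pc18 false .t0) :=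
  ⟨141, 6, 6, 2, 3, by decide +kernel⟩
def chk18_6 : Chk (box18.cC) (bound pc18 false .t1) :=
  ⟨141, 6, 6, 2, 3, by decide +kernel⟩
def chk18_7 : Chk (box18.cC) (bound pc18 false .w0) :=
  ⟨183, 10, 7, 3, 4, by decide +kernel⟩
def chk18_8 : Chk (box18.cC) (bound pc18 false .w1) :=
  ⟨186, 10, 7, 3, 4, by decide +kernel⟩
def chk18_9 : Chk (box18.cC) (bound pc18 true .l0) :=
  ⟨210, 13, 9, 2, 3, by decide +kernel⟩
def chk18_10 : Chk (box18.cC) (bound pc18 true .l1) :=
  ⟨209, 13, 9, 2, 3, by decide +kernel⟩
def chk18_11 : Chk (box18.cC) (bound pc18 true .r) :=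
  ⟨211, 13, 9, 2, 3, by decide +kernel⟩
def chk18_12 : Chk (box18.cC) (bound pc18 true .g0) :=
  ⟨86, 4, 3, 1, 2, by decide +kernel⟩
def chk18_13 : Chk (box18.cC) (bound pc18 true .g1) :=
  ⟨88, 4, 3, 1, 2, by decide +kernel⟩
def chk18_14 : Chk (box18.cC) (bound pc18 true .t0) :=
  ⟨141, 6, 6, 2, 3, by decide +kernel⟩
def chk18_15 : Chk (box18.cC) (bound pc18 true .t1) :=
  ⟨141, 6, 6, 2, 3, by decide +kernel⟩
def chk18_16 : Chk (box18.cC) (bound pc18 true .w0) :=
  ⟨183, 10, 7, 3, 4, by decide +kernel⟩
def chk18_17 : Chk (box18.cC) (bound pc18 true .w1) :=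
  ⟨186, 10, 7, 3, 4, by decide +kernel⟩
def chk18_18 : Chk (box18.vC) (subst (sub pc18 ⟨false, false, true, true, false⟩) (condX)) :=
  ⟨216, 13, 10, 4, 0, by decide +kernel⟩
def chk18_19 : Chk (box18.vC) (subst (sub pc18 ⟨false, true, true, true, false⟩) (condX)) :=
  ⟨216, 13, 10, 4, 0, by decide +kernel⟩
def chk18_20 : Chk (box18.vC) (subst (sub pc18 ⟨true, false, true, true, false⟩) (condX)) :=
  ⟨216, 13, 10, 4, 0, by decide +kernel⟩
def chk18_21 : Chk (box18.vC) (subst (sub pc18 ⟨true, true, true, true, false⟩) (condX)) :=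
  ⟨216, 13, 10, 4, 0, by decide +kernel⟩
def chk18_22 : Chk (box18.vC) (subst (sub pc18 ⟨false, false, true, false, false⟩) (tplMG)) :=
  ⟨413, 26, 20, 6, 0, by decide +kernel⟩
def chk18_23 : Chk (box18.vC) (subst (sub pc18 ⟨false, true, true, false, false⟩) (tplMG)) :=
  ⟨411, 26, 20, 6, 0, by decide +kernel⟩
def chk18_24 : Chk (box18.vC) (subst (sub pc18 ⟨true, false, true, false, false⟩) (tplMG)) :=
  ⟨413, 26, 20, 6, 0, by decide +kernel⟩
def chk18_25 : Chk (box18.vC) (subst (sub pc18 ⟨true, true, true, false, false⟩) (tplMG)) :=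
  ⟨411, 26, 20, 6, 0, by decide +kernel⟩
def chk18_26 : Chk (box18.vC) (subst (sub pc18 ⟨false, false, false, false, false⟩) (pc18.m1)) :=
  ⟨289, 17, 14, 4, 0, by decide +kernel⟩
def chk18_27 : Chk (box18.vC) (subst (sub pc18 ⟨false, true, false, false, false⟩) (pc18.m1)) :=
  ⟨288, 17, 14, 4, 0, by decide +kernel⟩
def chk18_28 : Chk (box18.vC) (subst (sub pc18 ⟨true, false, false, false, false⟩) (pc18.m1)) :=
  ⟨289, 17, 14, 4, 0, by decide +kernel⟩
def chk18_29 : Chk (box18.vC) (subst (sub pc18 ⟨true, true, false, false, false⟩) (pc18.m1)) :=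
  ⟨288, 17, 14, 4, 0, by decide +kernel⟩
def chk18_30 : Chk (box18.vC) (subst (sub pc18 ⟨false, false, true, false, false⟩) (strict (pc18.m2 false))) :=
  ⟨452, 24, 19, 6, 0, by decide +kernel⟩
def chk18_31 : Chk (box18.vC) (subst (sub pc18 ⟨false, false, true, false, true⟩) (strict (pc18.m2 false))) :=
  ⟨452, 24, 19, 6, 0, by decide +kernel⟩
def chk18_32 : Chk (box18.vC) (subst (sub pc18 ⟨true, false, true, false, false⟩) (strict (pc18.m2 false))) :=
  ⟨452, 24, 19, 6, 0, by decide +kernel⟩
def chk18_33 : Chk (box18.vC) (subst (sub pc18 ⟨true, false, true, false, true⟩) (strict (pc18.m2 false))) :=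
  ⟨452, 24, 19, 6, 0, by decide +kernel⟩
def chk18_34 : Chk (box18.vC) (subst (sub pc18 ⟨false, true, true, false, false⟩) (strict (pc18.m2 true))) :=
  ⟨448, 24, 19, 6, 0, by decide +kernel⟩
def chk18_35 : Chk (box18.vC) (subst (sub pc18 ⟨false, true, true, false, true⟩) (strict (pc18.m2 true))) :=
  ⟨448, 24, 19, 6, 0, by decide +kernel⟩
def chk18_36 : Chk (box18.vC) (subst (sub pc18 ⟨true, true, true, false, false⟩) (strict (pc18.m2 true))) :=
  ⟨448, 24, 19, 6, 0, by decide +kernel⟩
def chk18_37 : Chk (box18.vC) (subst (sub pc18 ⟨true, true, true, false, true⟩) (strict (pc18.m2 true))) :=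
  ⟨448, 24, 19, 6, 0, by decide +kernel⟩
def chk18_38 : Chk (box18.vC) (subst (sub pc18 ⟨false, false, true, true, false⟩) (strict (pc18.m3 false))) :=
  ⟨565, 31, 25, 6, 0, by decide +kernel⟩
def chk18_39 : Chk (box18.vC) (subst (sub pc18 ⟨false, false, true, true, true⟩) (strict (pc18.m3 false))) :=
  ⟨565, 31, 25, 6, 0, by decide +kernel⟩
def chk18_40 : Chk (box18.vC) (subst (sub pc18 ⟨false, true, true, true, false⟩) (strict (pc18.m3 false))) :=
  ⟨563, 31, 25, 6, 0, by decide +kernel⟩
def chk18_41 : Chk (box18.vC) (subst (sub pc18 ⟨false, true, true, true, true⟩) (strict (pc18.m3 false))) :=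
  ⟨563, 31, 25, 6, 0, by decide +kernel⟩
def chk18_42 : Chk (box18.vC) (subst (sub pc18 ⟨true, false, true, true, false⟩) (strict (pc18.m3 false))) :=
  ⟨565, 31, 25, 6, 0, by decide +kernel⟩
def chk18_43 : Chk (box18.vC) (subst (sub pc18 ⟨true, false, true, true, true⟩) (strict (pc18.m3 false))) :=
  ⟨565, 31, 25, 6, 0, by decide +kernel⟩
def chk18_44 : Chk (box18.vC) (subst (sub pc18 ⟨true, true, true, true, false⟩) (strict (pc18.m3 false))) :=
  ⟨563, 31, 25, 6, 0, by decide +kernel⟩
def chk18_45 : Chk (box18.vC) (subst (sub pc18 ⟨true, true, true, true, true⟩) (strict (pc18.m3 false))) :=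
  ⟨563, 31, 25, 6, 0, by decide +kernel⟩
def chk18_46 : Chk (box18.vC) (subst (sub pc18 ⟨false, false, true, true, false⟩) (strict (pc18.m3 true))) :=
  ⟨563, 31, 25, 6, 0, by decide +kernel⟩
def chk18_47 : Chk (box18.vC) (subst (sub pc18 ⟨false, false, true, true, true⟩) (strict (pc18.m3 true))) :=
  ⟨563, 31, 25, 6, 0, by decide +kernel⟩
def chk18_48 : Chk (box18.vC) (subst (sub pc18 ⟨false, true, true, true, false⟩) (strict (pc18.m3 true))) :=
  ⟨561, 31, 25, 6, 0, by decide +kernel⟩
def chk18_49 : Chk (box18.vC) (subst (sub pc18 ⟨false, true, true, true, true⟩) (strict (pc18.m3 true))) :=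
  ⟨561, 31, 25, 6, 0, by decide +kernel⟩
def chk18_50 : Chk (box18.vC) (subst (sub pc18 ⟨true, false, true, true, false⟩) (strict (pc18.m3 true))) :=
  ⟨563, 31, 25, 6, 0, by decide +kernel⟩
def chk18_51 : Chk (box18.vC) (subst (sub pc18 ⟨true, false, true, true, true⟩) (strict (pc18.m3 true))) :=
  ⟨563, 31, 25, 6, 0, by decide +kernel⟩
def chk18_52 : Chk (box18.vC) (subst (sub pc18 ⟨true, true, true, true, false⟩) (strict (pc18.m3 true))) :=
  ⟨561, 31, 25, 6, 0, by decide +kernel⟩
def chk18_53 : Chk (box18.vC) (subst (sub pc18 ⟨true, true, true, true, true⟩) (strict (pc18.m3 true))) :=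
  ⟨561, 31, 25, 6, 0, by decide +kernel⟩
def chk18_54 : Chk (box18.vC) (subst (sub pc18 ⟨false, false, true, true, false⟩) (negEx coMG12)) :=
  ⟨97, 5, 5, 4, 0, by decide +kernel⟩
def chk18_55 : Chk (box18.vC) (subst (sub pc18 ⟨false, false, true, true, false⟩) (negEx (pc18.curve2 false))) :=
  ⟨103, 5, 5, 4, 0, by decide +kernel⟩
def chk18_56 : Chk (box18.vC) (subst (sub pc18 ⟨false, false, true, true, false⟩) (negEx (pc18.curve2 true))) :=
  ⟨100, 5, 5, 4, 0, by decide +kernel⟩
def chk18_57 : Chk (box18.vC) (subst (sub pc18 ⟨false, false, true, true, false⟩) (negEx (pc18.curve3 false))) :=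
  ⟨114, 6, 6, 4, 0, by decide +kernel⟩
def chk18_58 : Chk (box18.vC) (subst (sub pc18 ⟨false, false, true, true, false⟩) (negEx (pc18.curve3 true))) :=
  ⟨112, 6, 6, 4, 0, by decide +kernel⟩
def chk18_59 : Chk (box18.vC) (subst (sub pc18 ⟨false, false, true, true, false⟩) (slopeT)) :=
  ⟨118, 7, 6, 4, 0, by decide +kernel⟩
def chk18_60 : Chk (box18.vC) (subst (sub pc18 ⟨true, false, true, true, false⟩) (slopeT)) :=
  ⟨118, 7, 6, 4, 0, by decide +kernel⟩
def chk18_61 : Chk (box18.gC true) (subst (gapSub pc18 true false false) tplL) :=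
  ⟨339, 22, 17, 5, 2, by decide +kernel⟩
def chk18_62 : Chk (box18.gC true) (subst (gapSub pc18 true false true) tplL) :=
  ⟨339, 22, 17, 5, 2, by decide +kernel⟩
def chk18_63 : Chk (box18.gC true) (subst (gapSub pc18 true true false) tplL) :=
  ⟨339, 22, 17, 5, 2, by decide +kernel⟩
def chk18_64 : Chk (box18.gC true) (subst (gapSub pc18 true true true) tplL) :=
  ⟨339, 22, 17, 5, 2, by decide +kernel⟩

/-- Piece 18 passes. -/
theorem cert18 : Cert pc18 box18 true where
  pos := by
    refine ⟨⟨⟨?_, ?_, ?_, ?_, ?_, ?_, ?_⟩, ?_, ?_, ?_, ?_, ?_, ?_, ?_, ?_, ?_, ?_, ?_⟩, ?_, ?_⟩ <;>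
      norm_num [fr, pc18]
  gX := fun p l => match p, l with
    | false, false => chk18_18
    | false, true => chk18_19
    | true, false => chk18_20
    | true, true => chk18_21
  gMG := fun p l => match p, l with
    | false, false => chk18_22
    | false, true => chk18_23
    | true, false => chk18_24
    | true, true => chk18_25
  g1 := fun p l => match p, l with
    | false, false => chk18_26
    | false, true => chk18_27
    | true, false => chk18_28
    | true, true => chk18_29
  g2 := fun s p t => match s, p, t with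
    | false, false, false => chk18_30
    | false, false, true => chk18_31
    | false, true, false => chk18_32
    | false, true, true => chk18_33
    | true, false, false => chk18_34
    | true, false, true => chk18_35
    | true, true, false => chk18_36
    | true, true, true => chk18_37
  g3 := fun s p l t => match s, p, l, t with
    | false, false, false, false => chk18_38
    | false, false, false, true => chk18_39
    | false, false, true, false => chk18_40
    | false, false, true, true => chk18_41
    | false, true, false, false => chk18_42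
    | false, true, false, true => chk18_43
    | false, true, true, false => chk18_44
    | false, true, true, true => chk18_45
    | true, false, false, false => chk18_46
    | true, false, false, true => chk18_47
    | true, false, true, false => chk18_48
    | true, false, true, true => chk18_49
    | true, true, false, false => chk18_50
    | true, true, false, true => chk18_51
    | true, true, true, false => chk18_52
    | true, true, true, true => chk18_53
  cMG := chk18_54
  c2 := fun s => match s with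
    | false => chk18_55
    | true => chk18_56
  c3 := fun s => match s with
    | false => chk18_57
    | true => chk18_58
  sT := fun p => match p with
    | false => chk18_59
    | true => chk18_60
  bnd := fun ze b => match ze, b with
    | false, .l0 => chk18_0
    | false, .l1 => chk18_1
    | false, .r => chk18_2
    | false, .g0 => chk18_3
    | false, .g1 => chk18_4
    | false, .t0 => chk18_5
    | false, .t1 => chk18_6
    | false, .w0 => chk18_7
    | false, .w1 => chk18_8
    | true, .l0 => chk18_9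
    | true, .l1 => chk18_10
    | true, .r => chk18_11
    | true, .g0 => chk18_12
    | true, .g1 => chk18_13
    | true, .t0 => chk18_14
    | true, .t1 => chk18_15
    | true, .w0 => chk18_16
    | true, .w1 => chk18_17
  gap := fun ze t => match ze, t with
    | false, false => chk18_61
    | false, true => chk18_62
    | true, false => chk18_63
    | true, true => chk18_64

end Vale.Agent.P100.Calib.StripMid
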