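import Vale.Agent.P100.Calib.SlabStripMidChart

/-!
# The checks of piece 19 below 153/200
-/

set_option linter.defProp false

namespace Vale.Agent.P100.Calib.StripMid

open Pack

/-- The numbers of piece 19. -/
def pc19 : Piece := ⟨.D, (18, 25), (153, 200), (1, 1), (39, 100), (7, 4), (117, 250), (607, 1000), (939, 1000), (11, -12, 20), (81, -75, 125), 32, (-55,-155,73,5), (1099, 1000), (162, 125), (9, 20), (1, 1), (3, 1)⟩

/-- The ranges of piece 19. -/
def box19 : Box := ⟨(0, 9, 200), (29, 34, 100), (27, 209, 100), (39, 175, 100), (144, 153, 200)⟩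

def chk19_0 : Chk (box19.cC) (bound pc19 false .l0) :=
  ⟨245, 13, 9, 2, 3, by decide +kernel⟩
def chk19_1 : Chk (box19.cC) (bound pc19 false .l1) :=
  ⟨247, 13, 9, 2, 3, by decide +kernel⟩
def chk19_2 : Chk (box19.cC) (bound pc19 false .r) :=
  ⟨247, 13, 9, 2, 3, by decide +kernel⟩
def chk19_3 : Chk (box19.cC) (bound pc19 false .g0) :=
  ⟨99, 4, 3, 1, 2, by decide +kernel⟩
def chk19_4 : Chk (box19.cC) (bound pc19 false .g1) :=
  ⟨96, 4, 3, 1, 2, by decide +kernel⟩
def chk19_5 : Chk (box19.cC) (bound pc19 false .t0) :=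
  ⟨150, 6, 6, 2, 3, by decide +kernel⟩
def chk19_6 : Chk (box19.cC) (bound pc19 false .t1) :=
  ⟨153, 6, 6, 2, 3, by decide +kernel⟩
def chk19_7 : Chk (box19.cC) (bound pc19 false .w0) :=
  ⟨209, 10, 7, 3, 4, by decide +kernel⟩
def chk19_8 : Chk (box19.cC) (bound pc19 false .w1) :=
  ⟨211, 10, 7, 3, 4, by decide +kernel⟩
def chk19_9 : Chk (box19.cC) (bound pc19 true .l0) :=
  ⟨245, 13, 9, 2, 3, by decide +kernel⟩
def chk19_10 : Chk (box19.cC) (bound pc19 true .l1) :=
  ⟨247, 13, 9, 2, 3, by decide +kernel⟩
def chk19_11 : Chk (box19.cC) (bound pc19 true .r) :=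
  ⟨247, 13, 9, 2, 3, by decide +kernel⟩
def chk19_12 : Chk (box19.cC) (bound pc19 true .g0) :=
  ⟨99, 4, 3, 1, 2, by decide +kernel⟩
def chk19_13 : Chk (box19.cC) (bound pc19 true .g1) :=
  ⟨96, 4, 3, 1, 2, by decide +kernel⟩
def chk19_14 : Chk (box19.cC) (bound pc19 true .t0) :=
  ⟨150, 6, 6, 2, 3, by decide +kernel⟩
def chk19_15 : Chk (box19.cC) (bound pc19 true .t1) :=
  ⟨153, 6, 6, 2, 3, by decide +kernel⟩
def chk19_16 : Chk (box19.cC) (bound pc19 true .w0) :=
  ⟨209, 10, 7, 3, 4, by decide +kernel⟩
def chk19_17 : Chk (box19.cC) (bound pc19 true .w1) :=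
  ⟨211, 10, 7, 3, 4, by decide +kernel⟩
def chk19_18 : Chk (box19.vC) (subst (sub pc19 ⟨false, false, true, true, false⟩) (condX)) :=
  ⟨259, 13, 10, 4, 0, by decide +kernel⟩
def chk19_19 : Chk (box19.vC) (subst (sub pc19 ⟨false, true, true, true, false⟩) (condX)) :=
  ⟨261, 13, 10, 4, 0, by decide +kernel⟩
def chk19_20 : Chk (box19.vC) (subst (sub pc19 ⟨true, false, true, true, false⟩) (condX)) :=
  ⟨259, 13, 10, 4, 0, by decide +kernel⟩
def chk19_21 : Chk (box19.vC) (subst (sub pc19 ⟨true, true, true, true, false⟩) (condX)) :=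
  ⟨261, 13, 10, 4, 0, by decide +kernel⟩
def chk19_22 : Chk (box19.vC) (subst (sub pc19 ⟨false, false, true, false, false⟩) (tplMG)) :=
  ⟨493, 26, 20, 6, 0, by decide +kernel⟩
def chk19_23 : Chk (box19.vC) (subst (sub pc19 ⟨false, true, true, false, false⟩) (tplMG)) :=
  ⟨497, 26, 20, 6, 0, by decide +kernel⟩
def chk19_24 : Chk (box19.vC) (subst (sub pc19 ⟨true, false, true, false, false⟩) (tplMG)) :=
  ⟨493, 26, 20, 6, 0, by decide +kernel⟩
def chk19_25 : Chk (box19.vC) (subst (sub pc19 ⟨true, true, true, false, false⟩) (tplMG)) :=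
  ⟨497, 26, 20, 6, 0, by decide +kernel⟩
def chk19_26 : Chk (box19.vC) (subst (sub pc19 ⟨false, false, false, false, false⟩) (pc19.m1)) :=
  ⟨339, 17, 14, 4, 0, by decide +kernel⟩
def chk19_27 : Chk (box19.vC) (subst (sub pc19 ⟨false, true, false, false, false⟩) (pc19.m1)) :=
  ⟨341, 17, 14, 4, 0, by decide +kernel⟩
def chk19_28 : Chk (box19.vC) (subst (sub pc19 ⟨true, false, false, false, false⟩) (pc19.m1)) :=
  ⟨339, 17, 14, 4, 0, by decide +kernel⟩
def chk19_29 : Chk (box19.vC) (subst (sub pc19 ⟨true, true, false, false, false⟩) (pc19.m1)) :=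
  ⟨341, 17, 14, 4, 0, by decide +kernel⟩
def chk19_30 : Chk (box19.vC) (subst (sub pc19 ⟨false, false, true, false, false⟩) (strict (pc19.m2 false))) :=
  ⟨519, 24, 19, 6, 0, by decide +kernel⟩
def chk19_31 : Chk (box19.vC) (subst (sub pc19 ⟨false, false, true, false, true⟩) (strict (pc19.m2 false))) :=
  ⟨524, 24, 19, 6, 0, by decide +kernel⟩
def chk19_32 : Chk (box19.vC) (subst (sub pc19 ⟨true, false, true, false, false⟩) (strict (pc19.m2 false))) :=
  ⟨519, 24, 19, 6, 0, by decide +kernel⟩
def chk19_33 : Chk (box19.vC) (subst (sub pc19 ⟨true, false, true, false, true⟩) (strict (pc19.m2 false))) :=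
  ⟨524, 24, 19, 6, 0, by decide +kernel⟩
def chk19_34 : Chk (box19.vC) (subst (sub pc19 ⟨false, true, true, false, false⟩) (strict (pc19.m2 true))) :=
  ⟨520, 24, 19, 6, 0, by decide +kernel⟩
def chk19_35 : Chk (box19.vC) (subst (sub pc19 ⟨false, true, true, false, true⟩) (strict (pc19.m2 true))) :=
  ⟨525, 24, 19, 6, 0, by decide +kernel⟩
def chk19_36 : Chk (box19.vC) (subst (sub pc19 ⟨true, true, true, false, false⟩) (strict (pc19.m2 true))) :=
  ⟨520, 24, 19, 6, 0, by decide +kernel⟩
def chk19_37 : Chk (box19.vC) (subst (sub pc19 ⟨true, true, true, false, true⟩) (strict (pc19.m2 true))) :=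
  ⟨525, 24, 19, 6, 0, by decide +kernel⟩
def chk19_38 : Chk (box19.vC) (subst (sub pc19 ⟨false, false, true, true, false⟩) (strict (pc19.m3 false))) :=
  ⟨658, 31, 25, 6, 0, by decide +kernel⟩
def chk19_39 : Chk (box19.vC) (subst (sub pc19 ⟨false, false, true, true, true⟩) (strict (pc19.m3 false))) :=
  ⟨660, 31, 25, 6, 0, by decide +kernel⟩
def chk19_40 : Chk (box19.vC) (subst (sub pc19 ⟨false, true, true, true, false⟩) (strict (pc19.m3 false))) :=
  ⟨662, 31, 25, 6, 0, by decide +kernel⟩
def chk19_41 : Chk (box19.vC) (subst (sub pc19 ⟨false, true, true, true, true⟩) (strict (pc19.m3 false))) :=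
  ⟨664, 31, 25, 6, 0, by decide +kernel⟩
def chk19_42 : Chk (box19.vC) (subst (sub pc19 ⟨true, false, true, true, false⟩) (strict (pc19.m3 false))) :=
  ⟨658, 31, 25, 6, 0, by decide +kernel⟩
def chk19_43 : Chk (box19.vC) (subst (sub pc19 ⟨true, false, true, true, true⟩) (strict (pc19.m3 false))) :=
  ⟨660, 31, 25, 6, 0, by decide +kernel⟩
def chk19_44 : Chk (box19.vC) (subst (sub pc19 ⟨true, true, true, true, false⟩) (strict (pc19.m3 false))) :=
  ⟨662, 31, 25, 6, 0, by decide +kernel⟩
def chk19_45 : Chk (box19.vC) (subst (sub pc19 ⟨true, true, true, true, true⟩) (strict (pc19.m3 false))) :=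
  ⟨664, 31, 25, 6, 0, by decide +kernel⟩
def chk19_46 : Chk (box19.vC) (subst (sub pc19 ⟨false, false, true, true, false⟩) (strict (pc19.m3 true))) :=
  ⟨657, 31, 25, 6, 0, by decide +kernel⟩
def chk19_47 : Chk (box19.vC) (subst (sub pc19 ⟨false, false, true, true, true⟩) (strict (pc19.m3 true))) :=
  ⟨660, 31, 25, 6, 0, by decide +kernel⟩
def chk19_48 : Chk (box19.vC) (subst (sub pc19 ⟨false, true, true, true, false⟩) (strict (pc19.m3 true))) :=
  ⟨661, 31, 25, 6, 0, by decide +kernel⟩
def chk19_49 : Chk (box19.vC) (subst (sub pc19 ⟨false, true, true, true, true⟩) (strict (pc19.m3 true))) :=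
  ⟨664, 31, 25, 6, 0, by decide +kernel⟩
def chk19_50 : Chk (box19.vC) (subst (sub pc19 ⟨true, false, true, true, false⟩) (strict (pc19.m3 true))) :=
  ⟨657, 31, 25, 6, 0, by decide +kernel⟩
def chk19_51 : Chk (box19.vC) (subst (sub pc19 ⟨true, false, true, true, true⟩) (strict (pc19.m3 true))) :=
  ⟨660, 31, 25, 6, 0, by decide +kernel⟩
def chk19_52 : Chk (box19.vC) (subst (sub pc19 ⟨true, true, true, true, false⟩) (strict (pc19.m3 true))) :=
  ⟨661, 31, 25, 6, 0, by decide +kernel⟩
def chk19_53 : Chk (box19.vC) (subst (sub pc19 ⟨true, true, true, true, true⟩) (strict (pc19.m3 true))) :=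
  ⟨664, 31, 25, 6, 0, by decide +kernel⟩
def chk19_54 : Chk (box19.vC) (subst (sub pc19 ⟨false, false, true, true, false⟩) (negEx coMG12)) :=
  ⟨118, 5, 5, 4, 0, by decide +kernel⟩
def chk19_55 : Chk (box19.vC) (subst (sub pc19 ⟨false, false, true, true, false⟩) (negEx (pc19.curve2 false))) :=
  ⟨123, 5, 5, 4, 0, by decide +kernel⟩
def chk19_56 : Chk (box19.vC) (subst (sub pc19 ⟨false, false, true, true, false⟩) (negEx (pc19.curve2 true))) :=
  ⟨121, 5, 5, 4, 0, by decide +kernel⟩
def chk19_57 : Chk (box19.vC) (subst (sub pc19 ⟨false, false, true, true, false⟩) (negEx (pc19.curve3 false))) :=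
  ⟨135, 6, 6, 4, 0, by decide +kernel⟩
def chk19_58 : Chk (box19.vC) (subst (sub pc19 ⟨false, false, true, true, false⟩) (negEx (pc19.curve3 true))) :=
  ⟨135, 6, 6, 4, 0, by decide +kernel⟩
def chk19_59 : Chk (box19.vC) (subst (sub pc19 ⟨false, false, true, true, false⟩) (slopeT)) :=
  ⟨144, 7, 6, 4, 0, by decide +kernel⟩
def chk19_60 : Chk (box19.vC) (subst (sub pc19 ⟨true, false, true, true, false⟩) (slopeT)) :=
  ⟨144, 7, 6, 4, 0, by decide +kernel⟩
def chk19_61 : Chk (box19.gC true) (subst (gapSub pc19 true false false) tplL) :=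
  ⟨404, 22, 17, 5, 2, by decide +kernel⟩
def chk19_62 : Chk (box19.gC true) (subst (gapSub pc19 true false true) tplL) :=
  ⟨406, 22, 17, 5, 2, by decide +kernel⟩
def chk19_63 : Chk (box19.gC true) (subst (gapSub pc19 true true false) tplL) :=
  ⟨404, 22, 17, 5, 2, by decide +kernel⟩
def chk19_64 : Chk (box19.gC true) (subst (gapSub pc19 true true true) tplL) :=
  ⟨406, 22, 17, 5, 2, by decide +kernel⟩

/-- Piece 19 passes. -/
theorem cert19 : Cert pc19 box19 true where
  pos := by
    refine ⟨⟨⟨?_, ?_, ?_, ?_, ?_, ?_, ?_⟩, ?_, ?_, ?_, ?_, ?_, ?_, ?_, ?_, ?_, ?_, ?_⟩, ?_, ?_⟩ <;>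
      norm_num [fr, pc19]
  gX := fun p l => match p, l with
    | false, false => chk19_18
    | false, true => chk19_19
    | true, false => chk19_20
    | true, true => chk19_21
  gMG := fun p l => match p, l with
    | false, false => chk19_22
    | false, true => chk19_23
    | true, false => chk19_24
    | true, true => chk19_25
  g1 := fun p l => match p, l with
    | false, false => chk19_26
    | false, true => chk19_27
    | true, false => chk19_28
    | true, true => chk19_29
  g2 := fun s p t => match s, p, t with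
    | false, false, false => chk19_30
    | false, false, true => chk19_31
    | false, true, false => chk19_32
    | false, true, true => chk19_33
    | true, false, false => chk19_34
    | true, false, true => chk19_35
    | true, true, false => chk19_36
    | true, true, true => chk19_37
  g3 := fun s p l t => match s, p, l, t with
    | false, false, false, false => chk19_38
    | false, false, false, true => chk19_39
    | false, false, true, false => chk19_40
    | false, false, true, true => chk19_41
    | false, true, false, false => chk19_42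
    | false, true, false, true => chk19_43
    | false, true, true, false => chk19_44
    | false, true, true, true => chk19_45
    | true, false, false, false => chk19_46
    | true, false, false, true => chk19_47
    | true, false, true, false => chk19_48
    | true, false, true, true => chk19_49
    | true, true, false, false => chk19_50
    | true, true, false, true => chk19_51
    | true, true, true, false => chk19_52
    | true, true, true, true => chk19_53
  cMG := chk19_54
  c2 := fun s => match s with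
    | false => chk19_55
    | true => chk19_56
  c3 := fun s => match s with
    | false => chk19_57
    | true => chk19_58
  sT := fun p => match p with
    | false => chk19_59
    | true => chk19_60
  bnd := fun ze b => match ze, b with
    | false, .l0 => chk19_0
    | false, .l1 => chk19_1
    | false, .r => chk19_2
    | false, .g0 => chk19_3
    | false, .g1 => chk19_4
    | false, .t0 => chk19_5
    | false, .t1 => chk19_6
    | false, .w0 => chk19_7
    | false, .w1 => chk19_8
    | true, .l0 => chk19_9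
    | true, .l1 => chk19_10
    | true, .r => chk19_11
    | true, .g0 => chk19_12
    | true, .g1 => chk19_13
    | true, .t0 => chk19_14
    | true, .t1 => chk19_15
    | true, .w0 => chk19_16
    | true, .w1 => chk19_17
  gap := fun ze t => match ze, t with
    | false, false => chk19_61
    | false, true => chk19_62
    | true, false => chk19_63
    | true, true => chk19_64

end Vale.Agent.P100.Calib.StripMid
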