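import Vale.Agent.P100.Calib.SlabStripMidChart

/-!
# The checks of piece 2 below 153/200
-/

set_option linter.defProp false

namespace Vale.Agent.P100.Calib.StripMid

open Pack

/-- The numbers of piece 2. -/
def pc2 : Piece := ⟨.A, (16, 25), (153, 200), (1, 1), (39, 100), (7, 4), (117, 250), (739, 1000), (971, 1000), (492, -2775, 500), (251, -675, 250), 40, (-19,90,411,5), (117, 250), (213, 250), (1, 2), (1, 1), (7, 4)⟩

/-- The ranges of piece 2. -/
def box2 : Box := ⟨(0, 1, 20), (0, 19, 18), (46, 571, 100), (39, 175, 100), (128, 153, 200)⟩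

def chk2_0 : Chk (box2.cC) (bound pc2 false .l0) :=
  ⟨183, 14, 9, 2, 3, by decide +kernel⟩
def chk2_1 : Chk (box2.cC) (bound pc2 false .l1) :=
  ⟨185, 14, 9, 2, 3, by decide +kernel⟩
def chk2_2 : Chk (box2.cC) (bound pc2 false .r) :=
  ⟨185, 14, 9, 2, 3, by decide +kernel⟩
def chk2_3 : Chk (box2.cC) (bound pc2 false .g0) :=
  ⟨80, 5, 3, 1, 2, by decide +kernel⟩
def chk2_4 : Chk (box2.cC) (bound pc2 false .g1) :=
  ⟨81, 5, 3, 1, 2, by decide +kernel⟩
def chk2_5 : Chk (box2.cC) (bound pc2 false .t0) :=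
  ⟨135, 9, 6, 2, 3, by decide +kernel⟩
def chk2_6 : Chk (box2.cC) (bound pc2 false .t1) :=
  ⟨134, 9, 6, 2, 3, by decide +kernel⟩
def chk2_7 : Chk (box2.cC) (bound pc2 false .w0) :=
  ⟨168, 12, 7, 3, 4, by decide +kernel⟩
def chk2_8 : Chk (box2.cC) (bound pc2 false .w1) :=
  ⟨171, 12, 7, 3, 4, by decide +kernel⟩
def chk2_9 : Chk (box2.cC) (bound pc2 true .l0) :=
  ⟨183, 14, 9, 2, 3, by decide +kernel⟩
def chk2_10 : Chk (box2.cC) (bound pc2 true .l1) :=
  ⟨185, 14, 9, 2, 3, by decide +kernel⟩
def chk2_11 : Chk (box2.cC) (bound pc2 true .r) :=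
  ⟨185, 14, 9, 2, 3, by decide +kernel⟩
def chk2_12 : Chk (box2.cC) (bound pc2 true .g0) :=
  ⟨80, 5, 3, 1, 2, by decide +kernel⟩
def chk2_13 : Chk (box2.cC) (bound pc2 true .g1) :=
  ⟨81, 5, 3, 1, 2, by decide +kernel⟩
def chk2_14 : Chk (box2.cC) (bound pc2 true .t0) :=
  ⟨135, 9, 6, 2, 3, by decide +kernel⟩
def chk2_15 : Chk (box2.cC) (bound pc2 true .t1) :=
  ⟨134, 9, 6, 2, 3, by decide +kernel⟩
def chk2_16 : Chk (box2.cC) (bound pc2 true .w0) :=
  ⟨168, 12, 7, 3, 4, by decide +kernel⟩
def chk2_17 : Chk (box2.cC) (bound pc2 true .w1) :=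
  ⟨171, 12, 7, 3, 4, by decide +kernel⟩
def chk2_18 : Chk (box2.vC) (subst (sub pc2 ⟨false, false, true, true, false⟩) (condX)) :=
  ⟨201, 15, 10, 4, 0, by decide +kernel⟩
def chk2_19 : Chk (box2.vC) (subst (sub pc2 ⟨false, true, true, true, false⟩) (condX)) :=
  ⟨203, 15, 10, 4, 0, by decide +kernel⟩
def chk2_20 : Chk (box2.vC) (subst (sub pc2 ⟨true, false, true, true, false⟩) (condX)) :=
  ⟨201, 15, 10, 4, 0, by decide +kernel⟩
def chk2_21 : Chk (box2.vC) (subst (sub pc2 ⟨true, true, true, true, false⟩) (condX)) :=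
  ⟨204, 15, 10, 4, 0, by decide +kernel⟩
def chk2_22 : Chk (box2.vC) (subst (sub pc2 ⟨false, false, true, false, false⟩) (tplMG)) :=
  ⟨346, 26, 18, 6, 0, by decide +kernel⟩
def chk2_23 : Chk (box2.vC) (subst (sub pc2 ⟨false, true, true, false, false⟩) (tplMG)) :=
  ⟨350, 26, 18, 6, 0, by decide +kernel⟩
def chk2_24 : Chk (box2.vC) (subst (sub pc2 ⟨true, false, true, false, false⟩) (tplMG)) :=
  ⟨346, 26, 18, 6, 0, by decide +kernel⟩
def chk2_25 : Chk (box2.vC) (subst (sub pc2 ⟨true, true, true, false, false⟩) (tplMG)) :=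
  ⟨350, 26, 18, 6, 0, by decide +kernel⟩
def chk2_26 : Chk (box2.vC) (subst (sub pc2 ⟨false, false, false, false, false⟩) (pc2.m1)) :=
  ⟨253, 19, 14, 4, 0, by decide +kernel⟩
def chk2_27 : Chk (box2.vC) (subst (sub pc2 ⟨false, true, false, false, false⟩) (pc2.m1)) :=
  ⟨256, 19, 14, 4, 0, by decide +kernel⟩
def chk2_28 : Chk (box2.vC) (subst (sub pc2 ⟨true, false, false, false, false⟩) (pc2.m1)) :=
  ⟨253, 19, 14, 4, 0, by decide +kernel⟩
def chk2_29 : Chk (box2.vC) (subst (sub pc2 ⟨true, true, false, false, false⟩) (pc2.m1)) :=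
  ⟨256, 19, 14, 4, 0, by decide +kernel⟩
def chk2_30 : Chk (box2.vC) (subst (sub pc2 ⟨false, false, true, false, false⟩) (strict (pc2.m2 false))) :=
  ⟨388, 24, 17, 6, 0, by decide +kernel⟩
def chk2_31 : Chk (box2.vC) (subst (sub pc2 ⟨false, false, true, false, true⟩) (strict (pc2.m2 false))) :=
  ⟨386, 24, 17, 6, 0, by decide +kernel⟩
def chk2_32 : Chk (box2.vC) (subst (sub pc2 ⟨true, false, true, false, false⟩) (strict (pc2.m2 false))) :=
  ⟨388, 24, 17, 6, 0, by decide +kernel⟩
def chk2_33 : Chk (box2.vC) (subst (sub pc2 ⟨true, false, true, false, true⟩) (strict (pc2.m2 false))) :=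
  ⟨386, 24, 17, 6, 0, by decide +kernel⟩
def chk2_34 : Chk (box2.vC) (subst (sub pc2 ⟨false, true, true, false, false⟩) (strict (pc2.m2 true))) :=
  ⟨387, 24, 17, 6, 0, by decide +kernel⟩
def chk2_35 : Chk (box2.vC) (subst (sub pc2 ⟨false, true, true, false, true⟩) (strict (pc2.m2 true))) :=
  ⟨385, 24, 17, 6, 0, by decide +kernel⟩
def chk2_36 : Chk (box2.vC) (subst (sub pc2 ⟨true, true, true, false, false⟩) (strict (pc2.m2 true))) :=
  ⟨387, 24, 17, 6, 0, by decide +kernel⟩
def chk2_37 : Chk (box2.vC) (subst (sub pc2 ⟨true, true, true, false, true⟩) (strict (pc2.m2 true))) :=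
  ⟨385, 24, 17, 6, 0, by decide +kernel⟩
def chk2_38 : Chk (box2.vC) (subst (sub pc2 ⟨false, false, true, true, false⟩) (strict (pc2.m3 false))) :=
  ⟨476, 31, 23, 6, 0, by decide +kernel⟩
def chk2_39 : Chk (box2.vC) (subst (sub pc2 ⟨false, false, true, true, true⟩) (strict (pc2.m3 false))) :=
  ⟨475, 31, 23, 6, 0, by decide +kernel⟩
def chk2_40 : Chk (box2.vC) (subst (sub pc2 ⟨false, true, true, true, false⟩) (strict (pc2.m3 false))) :=
  ⟨480, 31, 23, 6, 0, by decide +kernel⟩
def chk2_41 : Chk (box2.vC) (subst (sub pc2 ⟨false, true, true, true, true⟩) (strict (pc2.m3 false))) :=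
  ⟨479, 31, 23, 6, 0, by decide +kernel⟩
def chk2_42 : Chk (box2.vC) (subst (sub pc2 ⟨true, false, true, true, false⟩) (strict (pc2.m3 false))) :=
  ⟨476, 31, 23, 6, 0, by decide +kernel⟩
def chk2_43 : Chk (box2.vC) (subst (sub pc2 ⟨true, false, true, true, true⟩) (strict (pc2.m3 false))) :=
  ⟨475, 31, 23, 6, 0, by decide +kernel⟩
def chk2_44 : Chk (box2.vC) (subst (sub pc2 ⟨true, true, true, true, false⟩) (strict (pc2.m3 false))) :=
  ⟨480, 31, 23, 6, 0, by decide +kernel⟩
def chk2_45 : Chk (box2.vC) (subst (sub pc2 ⟨true, true, true, true, true⟩) (strict (pc2.m3 false))) :=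
  ⟨479, 31, 23, 6, 0, by decide +kernel⟩
def chk2_46 : Chk (box2.vC) (subst (sub pc2 ⟨false, false, true, true, false⟩) (strict (pc2.m3 true))) :=
  ⟨474, 31, 23, 6, 0, by decide +kernel⟩
def chk2_47 : Chk (box2.vC) (subst (sub pc2 ⟨false, false, true, true, true⟩) (strict (pc2.m3 true))) :=
  ⟨473, 31, 23, 6, 0, by decide +kernel⟩
def chk2_48 : Chk (box2.vC) (subst (sub pc2 ⟨false, true, true, true, false⟩) (strict (pc2.m3 true))) :=
  ⟨478, 31, 23, 6, 0, by decide +kernel⟩
def chk2_49 : Chk (box2.vC) (subst (sub pc2 ⟨false, true, true, true, true⟩) (strict (pc2.m3 true))) :=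
  ⟨477, 31, 23, 6, 0, by decide +kernel⟩
def chk2_50 : Chk (box2.vC) (subst (sub pc2 ⟨true, false, true, true, false⟩) (strict (pc2.m3 true))) :=
  ⟨474, 31, 23, 6, 0, by decide +kernel⟩
def chk2_51 : Chk (box2.vC) (subst (sub pc2 ⟨true, false, true, true, true⟩) (strict (pc2.m3 true))) :=
  ⟨473, 31, 23, 6, 0, by decide +kernel⟩
def chk2_52 : Chk (box2.vC) (subst (sub pc2 ⟨true, true, true, true, false⟩) (strict (pc2.m3 true))) :=
  ⟨478, 31, 23, 6, 0, by decide +kernel⟩
def chk2_53 : Chk (box2.vC) (subst (sub pc2 ⟨true, true, true, true, true⟩) (strict (pc2.m3 true))) :=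
  ⟨477, 31, 23, 6, 0, by decide +kernel⟩
def chk2_54 : Chk (box2.vC) (subst (sub pc2 ⟨false, false, true, true, false⟩) (negEx coMG12)) :=
  ⟨105, 8, 5, 4, 0, by decide +kernel⟩
def chk2_55 : Chk (box2.vC) (subst (sub pc2 ⟨false, false, true, true, false⟩) (negEx (pc2.curve2 false))) :=
  ⟨116, 9, 5, 4, 0, by decide +kernel⟩
def chk2_56 : Chk (box2.vC) (subst (sub pc2 ⟨false, false, true, true, false⟩) (negEx (pc2.curve2 true))) :=
  ⟨113, 9, 5, 4, 0, by decide +kernel⟩
def chk2_57 : Chk (box2.vC) (subst (sub pc2 ⟨false, false, true, true, false⟩) (negEx (pc2.curve3 false))) :=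
  ⟨118, 9, 6, 4, 0, by decide +kernel⟩
def chk2_58 : Chk (box2.vC) (subst (sub pc2 ⟨false, false, true, true, false⟩) (negEx (pc2.curve3 true))) :=
  ⟨116, 9, 6, 4, 0, by decide +kernel⟩
def chk2_59 : Chk (box2.vC) (subst (sub pc2 ⟨false, false, true, true, false⟩) (slopeT)) :=
  ⟨118, 10, 6, 4, 0, by decide +kernel⟩
def chk2_60 : Chk (box2.vC) (subst (sub pc2 ⟨true, false, true, true, false⟩) (slopeT)) :=
  ⟨118, 10, 6, 4, 0, by decide +kernel⟩
def chk2_61 : Chk (box2.gC true) (subst (gapSub pc2 true false false) tplL) :=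
  ⟨302, 25, 16, 5, 2, by decide +kernel⟩
def chk2_62 : Chk (box2.gC true) (subst (gapSub pc2 true false true) tplL) :=
  ⟨301, 25, 16, 5, 2, by decide +kernel⟩
def chk2_63 : Chk (box2.gC true) (subst (gapSub pc2 true true false) tplL) :=
  ⟨302, 25, 16, 5, 2, by decide +kernel⟩
def chk2_64 : Chk (box2.gC true) (subst (gapSub pc2 true true true) tplL) :=
  ⟨301, 25, 16, 5, 2, by decide +kernel⟩

/-- Piece 2 passes. -/
theorem cert2 : Cert pc2 box2 true where
  pos := by
    refine ⟨⟨⟨?_, ?_, ?_, ?_, ?_, ?_, ?_⟩, ?_, ?_, ?_, ?_, ?_, ?_, ?_, ?_, ?_, ?_, ?_⟩, ?_, ?_⟩ <;>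
      norm_num [fr, pc2]
  gX := fun p l => match p, l with
    | false, false => chk2_18
    | false, true => chk2_19
    | true, false => chk2_20
    | true, true => chk2_21
  gMG := fun p l => match p, l with
    | false, false => chk2_22
    | false, true => chk2_23
    | true, false => chk2_24
    | true, true => chk2_25
  g1 := fun p l => match p, l with
    | false, false => chk2_26
    | false, true => chk2_27
    | true, false => chk2_28
    | true, true => chk2_29
  g2 := fun s p t => match s, p, t with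
    | false, false, false => chk2_30
    | false, false, true => chk2_31
    | false, true, false => chk2_32
    | false, true, true => chk2_33
    | true, false, false => chk2_34
    | true, false, true => chk2_35
    | true, true, false => chk2_36
    | true, true, true => chk2_37
  g3 := fun s p l t => match s, p, l, t with
    | false, false, false, false => chk2_38
    | false, false, false, true => chk2_39
    | false, false, true, false => chk2_40
    | false, false, true, true => chk2_41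
    | false, true, false, false => chk2_42
    | false, true, false, true => chk2_43
    | false, true, true, false => chk2_44
    | false, true, true, true => chk2_45
    | true, false, false, false => chk2_46
    | true, false, false, true => chk2_47
    | true, false, true, false => chk2_48
    | true, false, true, true => chk2_49
    | true, true, false, false => chk2_50
    | true, true, false, true => chk2_51
    | true, true, true, false => chk2_52
    | true, true, true, true => chk2_53
  cMG := chk2_54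
  c2 := fun s => match s with
    | false => chk2_55
    | true => chk2_56
  c3 := fun s => match s with
    | false => chk2_57
    | true => chk2_58
  sT := fun p => match p with
    | false => chk2_59
    | true => chk2_60
  bnd := fun ze b => match ze, b with
    | false, .l0 => chk2_0
    | false, .l1 => chk2_1
    | false, .r => chk2_2
    | false, .g0 => chk2_3
    | false, .g1 => chk2_4
    | false, .t0 => chk2_5
    | false, .t1 => chk2_6
    | false, .w0 => chk2_7
    | false, .w1 => chk2_8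
    | true, .l0 => chk2_9
    | true, .l1 => chk2_10
    | true, .r => chk2_11
    | true, .g0 => chk2_12
    | true, .g1 => chk2_13
    | true, .t0 => chk2_14
    | true, .t1 => chk2_15
    | true, .w0 => chk2_16
    | true, .w1 => chk2_17
  gap := fun ze t => match ze, t with
    | false, false => chk2_61
    | false, true => chk2_62
    | true, false => chk2_63
    | true, true => chk2_64

end Vale.Agent.P100.Calib.StripMid
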