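import Vale.Agent.P100.Calib.SlabStripMidChart

/-!
# The checks of piece 20 below 153/200
-/

set_option linter.defProp false

namespace Vale.Agent.P100.Calib.StripMid

open Pack

/-- The numbers of piece 20. -/
def pc20 : Piece := ⟨.D, (18, 25), (153, 200), (1, 1), (39, 100), (7, 4), (117, 250), (73, 125), (193, 200), (509, -450, 1000), (74, -55, 125), 28, (-126,-300,97,10), (1211, 1000), (1359, 1000), (9, 20), (1, 1), (3, 1)⟩

/-- The ranges of piece 20. -/
def box20 : Box := ⟨(0, 1, 50), (17, 19, 50), (27, 179, 100), (39, 175, 100), (144, 153, 200)⟩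

def chk20_0 : Chk (box20.cC) (bound pc20 false .l0) :=
  ⟨210, 13, 9, 2, 3, by decide +kernel⟩
def chk20_1 : Chk (box20.cC) (bound pc20 false .l1) :=
  ⟨209, 13, 9, 2, 3, by decide +kernel⟩
def chk20_2 : Chk (box20.cC) (bound pc20 false .r) :=
  ⟨210, 13, 9, 2, 3, by decide +kernel⟩
def chk20_3 : Chk (box20.cC) (bound pc20 false .g0) :=
  ⟨88, 4, 3, 1, 2, by decide +kernel⟩
def chk20_4 : Chk (box20.cC) (bound pc20 false .g1) :=
  ⟨88, 4, 3, 1, 2, by decide +kernel⟩
def chk20_5 : Chk (box20.cC) (bound pc20 false .t0) :=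
  ⟨138, 6, 6, 2, 3, by decide +kernel⟩
def chk20_6 : Chk (box20.cC) (bound pc20 false .t1) :=
  ⟨135, 6, 6, 2, 3, by decide +kernel⟩
def chk20_7 : Chk (box20.cC) (bound pc20 false .w0) :=
  ⟨182, 10, 7, 3, 4, by decide +kernel⟩
def chk20_8 : Chk (box20.cC) (bound pc20 false .w1) :=
  ⟨185, 10, 7, 3, 4, by decide +kernel⟩
def chk20_9 : Chk (box20.cC) (bound pc20 true .l0) :=
  ⟨210, 13, 9, 2, 3, by decide +kernel⟩
def chk20_10 : Chk (box20.cC) (bound pc20 true .l1) :=
  ⟨209, 13, 9, 2, 3, by decide +kernel⟩
def chk20_11 : Chk (box20.cC) (bound pc20 true .r) :=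
  ⟨210, 13, 9, 2, 3, by decide +kernel⟩
def chk20_12 : Chk (box20.cC) (bound pc20 true .g0) :=
  ⟨88, 4, 3, 1, 2, by decide +kernel⟩
def chk20_13 : Chk (box20.cC) (bound pc20 true .g1) :=
  ⟨88, 4, 3, 1, 2, by decide +kernel⟩
def chk20_14 : Chk (box20.cC) (bound pc20 true .t0) :=
  ⟨138, 6, 6, 2, 3, by decide +kernel⟩
def chk20_15 : Chk (box20.cC) (bound pc20 true .t1) :=
  ⟨135, 6, 6, 2, 3, by decide +kernel⟩
def chk20_16 : Chk (box20.cC) (bound pc20 true .w0) :=
  ⟨182, 10, 7, 3, 4, by decide +kernel⟩
def chk20_17 : Chk (box20.cC) (bound pc20 true .w1) :=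
  ⟨185, 10, 7, 3, 4, by decide +kernel⟩
def chk20_18 : Chk (box20.vC) (subst (sub pc20 ⟨false, false, true, true, false⟩) (condX)) :=
  ⟨222, 13, 10, 4, 0, by decide +kernel⟩
def chk20_19 : Chk (box20.vC) (subst (sub pc20 ⟨false, true, true, true, false⟩) (condX)) :=
  ⟨221, 13, 10, 4, 0, by decide +kernel⟩
def chk20_20 : Chk (box20.vC) (subst (sub pc20 ⟨true, false, true, true, false⟩) (condX)) :=
  ⟨222, 13, 10, 4, 0, by decide +kernel⟩
def chk20_21 : Chk (box20.vC) (subst (sub pc20 ⟨true, true, true, true, false⟩) (condX)) :=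
  ⟨221, 13, 10, 4, 0, by decide +kernel⟩
def chk20_22 : Chk (box20.vC) (subst (sub pc20 ⟨false, false, true, false, false⟩) (tplMG)) :=
  ⟨423, 26, 20, 6, 0, by decide +kernel⟩
def chk20_23 : Chk (box20.vC) (subst (sub pc20 ⟨false, true, true, false, false⟩) (tplMG)) :=
  ⟨421, 26, 20, 6, 0, by decide +kernel⟩
def chk20_24 : Chk (box20.vC) (subst (sub pc20 ⟨true, false, true, false, false⟩) (tplMG)) :=
  ⟨423, 26, 20, 6, 0, by decide +kernel⟩
def chk20_25 : Chk (box20.vC) (subst (sub pc20 ⟨true, true, true, false, false⟩) (tplMG)) :=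
  ⟨421, 26, 20, 6, 0, by decide +kernel⟩
def chk20_26 : Chk (box20.vC) (subst (sub pc20 ⟨false, false, false, false, false⟩) (pc20.m1)) :=
  ⟨293, 17, 14, 4, 0, by decide +kernel⟩
def chk20_27 : Chk (box20.vC) (subst (sub pc20 ⟨false, true, false, false, false⟩) (pc20.m1)) :=
  ⟨292, 17, 14, 4, 0, by decide +kernel⟩
def chk20_28 : Chk (box20.vC) (subst (sub pc20 ⟨true, false, false, false, false⟩) (pc20.m1)) :=
  ⟨293, 17, 14, 4, 0, by decide +kernel⟩
def chk20_29 : Chk (box20.vC) (subst (sub pc20 ⟨true, true, false, false, false⟩) (pc20.m1)) :=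
  ⟨292, 17, 14, 4, 0, by decide +kernel⟩
def chk20_30 : Chk (box20.vC) (subst (sub pc20 ⟨false, false, true, false, false⟩) (strict (pc20.m2 false))) :=
  ⟨461, 24, 19, 6, 0, by decide +kernel⟩
def chk20_31 : Chk (box20.vC) (subst (sub pc20 ⟨false, false, true, false, true⟩) (strict (pc20.m2 false))) :=
  ⟨455, 24, 19, 6, 0, by decide +kernel⟩
def chk20_32 : Chk (box20.vC) (subst (sub pc20 ⟨true, false, true, false, false⟩) (strict (pc20.m2 false))) :=
  ⟨461, 24, 19, 6, 0, by decide +kernel⟩
def chk20_33 : Chk (box20.vC) (subst (sub pc20 ⟨true, false, true, false, true⟩) (strict (pc20.m2 false))) :=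
  ⟨455, 24, 19, 6, 0, by decide +kernel⟩
def chk20_34 : Chk (box20.vC) (subst (sub pc20 ⟨false, true, true, false, false⟩) (strict (pc20.m2 true))) :=
  ⟨459, 24, 19, 6, 0, by decide +kernel⟩
def chk20_35 : Chk (box20.vC) (subst (sub pc20 ⟨false, true, true, false, true⟩) (strict (pc20.m2 true))) :=
  ⟨453, 24, 19, 6, 0, by decide +kernel⟩
def chk20_36 : Chk (box20.vC) (subst (sub pc20 ⟨true, true, true, false, false⟩) (strict (pc20.m2 true))) :=
  ⟨459, 24, 19, 6, 0, by decide +kernel⟩
def chk20_37 : Chk (box20.vC) (subst (sub pc20 ⟨true, true, true, false, true⟩) (strict (pc20.m2 true))) :=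
  ⟨453, 24, 19, 6, 0, by decide +kernel⟩
def chk20_38 : Chk (box20.vC) (subst (sub pc20 ⟨false, false, true, true, false⟩) (strict (pc20.m3 false))) :=
  ⟨573, 31, 25, 6, 0, by decide +kernel⟩
def chk20_39 : Chk (box20.vC) (subst (sub pc20 ⟨false, false, true, true, true⟩) (strict (pc20.m3 false))) :=
  ⟨570, 31, 25, 6, 0, by decide +kernel⟩
def chk20_40 : Chk (box20.vC) (subst (sub pc20 ⟨false, true, true, true, false⟩) (strict (pc20.m3 false))) :=
  ⟨571, 31, 25, 6, 0, by decide +kernel⟩
def chk20_41 : Chk (box20.vC) (subst (sub pc20 ⟨false, true, true, true, true⟩) (strict (pc20.m3 false))) :=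
  ⟨568, 31, 25, 6, 0, by decide +kernel⟩
def chk20_42 : Chk (box20.vC) (subst (sub pc20 ⟨true, false, true, true, false⟩) (strict (pc20.m3 false))) :=
  ⟨573, 31, 25, 6, 0, by decide +kernel⟩
def chk20_43 : Chk (box20.vC) (subst (sub pc20 ⟨true, false, true, true, true⟩) (strict (pc20.m3 false))) :=
  ⟨570, 31, 25, 6, 0, by decide +kernel⟩
def chk20_44 : Chk (box20.vC) (subst (sub pc20 ⟨true, true, true, true, false⟩) (strict (pc20.m3 false))) :=
  ⟨571, 31, 25, 6, 0, by decide +kernel⟩
def chk20_45 : Chk (box20.vC) (subst (sub pc20 ⟨true, true, true, true, true⟩) (strict (pc20.m3 false))) :=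
  ⟨568, 31, 25, 6, 0, by decide +kernel⟩
def chk20_46 : Chk (box20.vC) (subst (sub pc20 ⟨false, false, true, true, false⟩) (strict (pc20.m3 true))) :=
  ⟨573, 31, 25, 6, 0, by decide +kernel⟩
def chk20_47 : Chk (box20.vC) (subst (sub pc20 ⟨false, false, true, true, true⟩) (strict (pc20.m3 true))) :=
  ⟨570, 31, 25, 6, 0, by decide +kernel⟩
def chk20_48 : Chk (box20.vC) (subst (sub pc20 ⟨false, true, true, true, false⟩) (strict (pc20.m3 true))) :=
  ⟨571, 31, 25, 6, 0, by decide +kernel⟩
def chk20_49 : Chk (box20.vC) (subst (sub pc20 ⟨false, true, true, true, true⟩) (strict (pc20.m3 true))) :=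
  ⟨568, 31, 25, 6, 0, by decide +kernel⟩
def chk20_50 : Chk (box20.vC) (subst (sub pc20 ⟨true, false, true, true, false⟩) (strict (pc20.m3 true))) :=
  ⟨573, 31, 25, 6, 0, by decide +kernel⟩
def chk20_51 : Chk (box20.vC) (subst (sub pc20 ⟨true, false, true, true, true⟩) (strict (pc20.m3 true))) :=
  ⟨570, 31, 25, 6, 0, by decide +kernel⟩
def chk20_52 : Chk (box20.vC) (subst (sub pc20 ⟨true, true, true, true, false⟩) (strict (pc20.m3 true))) :=
  ⟨571, 31, 25, 6, 0, by decide +kernel⟩
def chk20_53 : Chk (box20.vC) (subst (sub pc20 ⟨true, true, true, true, true⟩) (strict (pc20.m3 true))) :=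
  ⟨568, 31, 25, 6, 0, by decide +kernel⟩
def chk20_54 : Chk (box20.vC) (subst (sub pc20 ⟨false, false, true, true, false⟩) (negEx coMG12)) :=
  ⟨103, 5, 5, 4, 0, by decide +kernel⟩
def chk20_55 : Chk (box20.vC) (subst (sub pc20 ⟨false, false, true, true, false⟩) (negEx (pc20.curve2 false))) :=
  ⟨108, 5, 5, 4, 0, by decide +kernel⟩
def chk20_56 : Chk (box20.vC) (subst (sub pc20 ⟨false, false, true, true, false⟩) (negEx (pc20.curve2 true))) :=
  ⟨106, 5, 5, 4, 0, by decide +kernel⟩
def chk20_57 : Chk (box20.vC) (subst (sub pc20 ⟨false, false, true, true, false⟩) (negEx (pc20.curve3 false))) :=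
  ⟨117, 6, 6, 4, 0, by decide +kernel⟩
def chk20_58 : Chk (box20.vC) (subst (sub pc20 ⟨false, false, true, true, false⟩) (negEx (pc20.curve3 true))) :=
  ⟨117, 6, 6, 4, 0, by decide +kernel⟩
def chk20_59 : Chk (box20.vC) (subst (sub pc20 ⟨false, false, true, true, false⟩) (slopeT)) :=
  ⟨123, 7, 6, 4, 0, by decide +kernel⟩
def chk20_60 : Chk (box20.vC) (subst (sub pc20 ⟨true, false, true, true, false⟩) (slopeT)) :=
  ⟨123, 7, 6, 4, 0, by decide +kernel⟩
def chk20_61 : Chk (box20.gC true) (subst (gapSub pc20 true false false) tplL) :=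
  ⟨348, 22, 17, 5, 2, by decide +kernel⟩
def chk20_62 : Chk (box20.gC true) (subst (gapSub pc20 true false true) tplL) :=
  ⟨345, 22, 17, 5, 2, by decide +kernel⟩
def chk20_63 : Chk (box20.gC true) (subst (gapSub pc20 true true false) tplL) :=
  ⟨348, 22, 17, 5, 2, by decide +kernel⟩
def chk20_64 : Chk (box20.gC true) (subst (gapSub pc20 true true true) tplL) :=
  ⟨345, 22, 17, 5, 2, by decide +kernel⟩

/-- Piece 20 passes. -/
theorem cert20 : Cert pc20 box20 true where
  pos := by
    refine ⟨⟨⟨?_, ?_, ?_, ?_, ?_, ?_, ?_⟩, ?_, ?_, ?_, ?_, ?_, ?_, ?_, ?_, ?_, ?_, ?_⟩, ?_, ?_⟩ <;>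
      norm_num [fr, pc20]
  gX := fun p l => match p, l with
    | false, false => chk20_18
    | false, true => chk20_19
    | true, false => chk20_20
    | true, true => chk20_21
  gMG := fun p l => match p, l with
    | false, false => chk20_22
    | false, true => chk20_23
    | true, false => chk20_24
    | true, true => chk20_25
  g1 := fun p l => match p, l with
    | false, false => chk20_26
    | false, true => chk20_27
    | true, false => chk20_28
    | true, true => chk20_29
  g2 := fun s p t => match s, p, t with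
    | false, false, false => chk20_30
    | false, false, true => chk20_31
    | false, true, false => chk20_32
    | false, true, true => chk20_33
    | true, false, false => chk20_34
    | true, false, true => chk20_35
    | true, true, false => chk20_36
    | true, true, true => chk20_37
  g3 := fun s p l t => match s, p, l, t with
    | false, false, false, false => chk20_38
    | false, false, false, true => chk20_39
    | false, false, true, false => chk20_40
    | false, false, true, true => chk20_41
    | false, true, false, false => chk20_42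
    | false, true, false, true => chk20_43
    | false, true, true, false => chk20_44
    | false, true, true, true => chk20_45
    | true, false, false, false => chk20_46
    | true, false, false, true => chk20_47
    | true, false, true, false => chk20_48
    | true, false, true, true => chk20_49
    | true, true, false, false => chk20_50
    | true, true, false, true => chk20_51
    | true, true, true, false => chk20_52
    | true, true, true, true => chk20_53
  cMG := chk20_54
  c2 := fun s => match s with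
    | false => chk20_55
    | true => chk20_56
  c3 := fun s => match s with
    | false => chk20_57
    | true => chk20_58
  sT := fun p => match p with
    | false => chk20_59
    | true => chk20_60
  bnd := fun ze b => match ze, b with
    | false, .l0 => chk20_0
    | false, .l1 => chk20_1
    | false, .r => chk20_2
    | false, .g0 => chk20_3
    | false, .g1 => chk20_4
    | false, .t0 => chk20_5
    | false, .t1 => chk20_6
    | false, .w0 => chk20_7
    | false, .w1 => chk20_8
    | true, .l0 => chk20_9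
    | true, .l1 => chk20_10
    | true, .r => chk20_11
    | true, .g0 => chk20_12
    | true, .g1 => chk20_13
    | true, .t0 => chk20_14
    | true, .t1 => chk20_15
    | true, .w0 => chk20_16
    | true, .w1 => chk20_17
  gap := fun ze t => match ze, t with
    | false, false => chk20_61
    | false, true => chk20_62
    | true, false => chk20_63
    | true, true => chk20_64

end Vale.Agent.P100.Calib.StripMid
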