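import Vale.Agent.P100.Calib.SlabStripMidChart

/-!
# The checks of piece 3 below 153/200
-/

set_option linter.defProp false

namespace Vale.Agent.P100.Calib.StripMid

open Pack

/-- The numbers of piece 3. -/
def pc3 : Piece := ⟨.B, (1, 10), (9, 20), (1, 2), (13, 100), (3, 1), (219, 200), (907, 500), (493, 500), (989, -1650, 1000), (502, -75, 500), 86, (203,1660,1242,10), (219, 200), (457, 250), (3, 4), (1, 1), (7, 2)⟩

/-- The ranges of piece 3. -/
def box3 : Box := ⟨(0, 1, 19), (0, 19, 18), (1, 246, 100), (13, 300, 100), (2, 9, 20)⟩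

def chk3_0 : Chk (box3.cC) (bound pc3 false .l0) :=
  ⟨192, 14, 13, 2, 3, by decide +kernel⟩
def chk3_1 : Chk (box3.cC) (bound pc3 false .l1) :=
  ⟨194, 14, 13, 2, 3, by decide +kernel⟩
def chk3_2 : Chk (box3.cC) (bound pc3 false .r) :=
  ⟨193, 14, 13, 2, 3, by decide +kernel⟩
def chk3_3 : Chk (box3.cC) (bound pc3 false .g0) :=
  ⟨79, 5, 4, 1, 2, by decide +kernel⟩
def chk3_4 : Chk (box3.cC) (bound pc3 false .g1) :=
  ⟨79, 5, 4, 1, 2, by decide +kernel⟩
def chk3_5 : Chk (box3.cC) (bound pc3 false .t0) :=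
  ⟨125, 9, 6, 2, 3, by decide +kernel⟩
def chk3_6 : Chk (box3.cC) (bound pc3 false .t1) :=
  ⟨124, 9, 6, 2, 3, by decide +kernel⟩
def chk3_7 : Chk (box3.cC) (bound pc3 false .w0) :=
  ⟨169, 12, 10, 3, 4, by decide +kernel⟩
def chk3_8 : Chk (box3.cC) (bound pc3 false .w1) :=
  ⟨172, 12, 10, 3, 4, by decide +kernel⟩
def chk3_9 : Chk (box3.cC) (bound pc3 true .l0) :=
  ⟨192, 14, 13, 2, 3, by decide +kernel⟩
def chk3_10 : Chk (box3.cC) (bound pc3 true .l1) :=
  ⟨194, 14, 13, 2, 3, by decide +kernel⟩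
def chk3_11 : Chk (box3.cC) (bound pc3 true .r) :=
  ⟨193, 14, 13, 2, 3, by decide +kernel⟩
def chk3_12 : Chk (box3.cC) (bound pc3 true .g0) :=
  ⟨79, 5, 4, 1, 2, by decide +kernel⟩
def chk3_13 : Chk (box3.cC) (bound pc3 true .g1) :=
  ⟨79, 5, 4, 1, 2, by decide +kernel⟩
def chk3_14 : Chk (box3.cC) (bound pc3 true .t0) :=
  ⟨125, 9, 6, 2, 3, by decide +kernel⟩
def chk3_15 : Chk (box3.cC) (bound pc3 true .t1) :=
  ⟨124, 9, 6, 2, 3, by decide +kernel⟩
def chk3_16 : Chk (box3.cC) (bound pc3 true .w0) :=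
  ⟨169, 12, 10, 3, 4, by decide +kernel⟩
def chk3_17 : Chk (box3.cC) (bound pc3 true .w1) :=
  ⟨172, 12, 10, 3, 4, by decide +kernel⟩
def chk3_18 : Chk (box3.vC) (subst (sub pc3 ⟨false, false, true, true, false⟩) (condX)) :=
  ⟨217, 15, 13, 4, 0, by decide +kernel⟩
def chk3_19 : Chk (box3.vC) (subst (sub pc3 ⟨false, true, true, true, false⟩) (condX)) :=
  ⟨219, 15, 13, 4, 0, by decide +kernel⟩
def chk3_20 : Chk (box3.vC) (subst (sub pc3 ⟨true, false, true, true, false⟩) (condX)) :=
  ⟨217, 15, 13, 4, 0, by decide +kernel⟩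
def chk3_21 : Chk (box3.vC) (subst (sub pc3 ⟨true, true, true, true, false⟩) (condX)) :=
  ⟨219, 15, 13, 4, 0, by decide +kernel⟩
def chk3_22 : Chk (box3.vC) (subst (sub pc3 ⟨false, false, true, false, false⟩) (tplMG)) :=
  ⟨408, 30, 26, 6, 0, by decide +kernel⟩
def chk3_23 : Chk (box3.vC) (subst (sub pc3 ⟨false, true, true, false, false⟩) (tplMG)) :=
  ⟨411, 30, 26, 6, 0, by decide +kernel⟩
def chk3_24 : Chk (box3.vC) (subst (sub pc3 ⟨true, false, true, false, false⟩) (tplMG)) :=
  ⟨408, 30, 26, 6, 0, by decide +kernel⟩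
def chk3_25 : Chk (box3.vC) (subst (sub pc3 ⟨true, true, true, false, false⟩) (tplMG)) :=
  ⟨411, 30, 26, 6, 0, by decide +kernel⟩
def chk3_26 : Chk (box3.vC) (subst (sub pc3 ⟨false, false, false, false, false⟩) (pc3.m1)) :=
  ⟨271, 19, 17, 4, 0, by decide +kernel⟩
def chk3_27 : Chk (box3.vC) (subst (sub pc3 ⟨false, true, false, false, false⟩) (pc3.m1)) :=
  ⟨273, 19, 17, 4, 0, by decide +kernel⟩
def chk3_28 : Chk (box3.vC) (subst (sub pc3 ⟨true, false, false, false, false⟩) (pc3.m1)) :=
  ⟨271, 19, 17, 4, 0, by decide +kernel⟩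
def chk3_29 : Chk (box3.vC) (subst (sub pc3 ⟨true, true, false, false, false⟩) (pc3.m1)) :=
  ⟨273, 19, 17, 4, 0, by decide +kernel⟩
def chk3_30 : Chk (box3.vC) (subst (sub pc3 ⟨false, false, true, false, false⟩) (strict (pc3.m2 false))) :=
  ⟨447, 28, 24, 6, 0, by decide +kernel⟩
def chk3_31 : Chk (box3.vC) (subst (sub pc3 ⟨false, false, true, false, true⟩) (strict (pc3.m2 false))) :=
  ⟨445, 28, 24, 6, 0, by decide +kernel⟩
def chk3_32 : Chk (box3.vC) (subst (sub pc3 ⟨true, false, true, false, false⟩) (strict (pc3.m2 false))) :=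
  ⟨447, 28, 24, 6, 0, by decide +kernel⟩
def chk3_33 : Chk (box3.vC) (subst (sub pc3 ⟨true, false, true, false, true⟩) (strict (pc3.m2 false))) :=
  ⟨445, 28, 24, 6, 0, by decide +kernel⟩
def chk3_34 : Chk (box3.vC) (subst (sub pc3 ⟨false, true, true, false, false⟩) (strict (pc3.m2 true))) :=
  ⟨446, 28, 24, 6, 0, by decide +kernel⟩
def chk3_35 : Chk (box3.vC) (subst (sub pc3 ⟨false, true, true, false, true⟩) (strict (pc3.m2 true))) :=
  ⟨444, 28, 24, 6, 0, by decide +kernel⟩
def chk3_36 : Chk (box3.vC) (subst (sub pc3 ⟨true, true, true, false, false⟩) (strict (pc3.m2 true))) :=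
  ⟨446, 28, 24, 6, 0, by decide +kernel⟩
def chk3_37 : Chk (box3.vC) (subst (sub pc3 ⟨true, true, true, false, true⟩) (strict (pc3.m2 true))) :=
  ⟨444, 28, 24, 6, 0, by decide +kernel⟩
def chk3_38 : Chk (box3.vC) (subst (sub pc3 ⟨false, false, true, true, false⟩) (strict (pc3.m3 false))) :=
  ⟨539, 35, 31, 6, 0, by decide +kernel⟩
def chk3_39 : Chk (box3.vC) (subst (sub pc3 ⟨false, false, true, true, true⟩) (strict (pc3.m3 false))) :=
  ⟨538, 35, 31, 6, 0, by decide +kernel⟩
def chk3_40 : Chk (box3.vC) (subst (sub pc3 ⟨false, true, true, true, false⟩) (strict (pc3.m3 false))) :=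
  ⟨543, 35, 31, 6, 0, by decide +kernel⟩
def chk3_41 : Chk (box3.vC) (subst (sub pc3 ⟨false, true, true, true, true⟩) (strict (pc3.m3 false))) :=
  ⟨542, 35, 31, 6, 0, by decide +kernel⟩
def chk3_42 : Chk (box3.vC) (subst (sub pc3 ⟨true, false, true, true, false⟩) (strict (pc3.m3 false))) :=
  ⟨539, 35, 31, 6, 0, by decide +kernel⟩
def chk3_43 : Chk (box3.vC) (subst (sub pc3 ⟨true, false, true, true, true⟩) (strict (pc3.m3 false))) :=
  ⟨538, 35, 31, 6, 0, by decide +kernel⟩
def chk3_44 : Chk (box3.vC) (subst (sub pc3 ⟨true, true, true, true, false⟩) (strict (pc3.m3 false))) :=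
  ⟨543, 35, 31, 6, 0, by decide +kernel⟩
def chk3_45 : Chk (box3.vC) (subst (sub pc3 ⟨true, true, true, true, true⟩) (strict (pc3.m3 false))) :=
  ⟨542, 35, 31, 6, 0, by decide +kernel⟩
def chk3_46 : Chk (box3.vC) (subst (sub pc3 ⟨false, false, true, true, false⟩) (strict (pc3.m3 true))) :=
  ⟨538, 35, 31, 6, 0, by decide +kernel⟩
def chk3_47 : Chk (box3.vC) (subst (sub pc3 ⟨false, false, true, true, true⟩) (strict (pc3.m3 true))) :=
  ⟨537, 35, 31, 6, 0, by decide +kernel⟩
def chk3_48 : Chk (box3.vC) (subst (sub pc3 ⟨false, true, true, true, false⟩) (strict (pc3.m3 true))) :=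
  ⟨542, 35, 31, 6, 0, by decide +kernel⟩
def chk3_49 : Chk (box3.vC) (subst (sub pc3 ⟨false, true, true, true, true⟩) (strict (pc3.m3 true))) :=
  ⟨541, 35, 31, 6, 0, by decide +kernel⟩
def chk3_50 : Chk (box3.vC) (subst (sub pc3 ⟨true, false, true, true, false⟩) (strict (pc3.m3 true))) :=
  ⟨538, 35, 31, 6, 0, by decide +kernel⟩
def chk3_51 : Chk (box3.vC) (subst (sub pc3 ⟨true, false, true, true, true⟩) (strict (pc3.m3 true))) :=
  ⟨537, 35, 31, 6, 0, by decide +kernel⟩
def chk3_52 : Chk (box3.vC) (subst (sub pc3 ⟨true, true, true, true, false⟩) (strict (pc3.m3 true))) :=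
  ⟨542, 35, 31, 6, 0, by decide +kernel⟩
def chk3_53 : Chk (box3.vC) (subst (sub pc3 ⟨true, true, true, true, true⟩) (strict (pc3.m3 true))) :=
  ⟨541, 35, 31, 6, 0, by decide +kernel⟩
def chk3_54 : Chk (box3.vC) (subst (sub pc3 ⟨false, false, true, true, false⟩) (negEx coMG12)) :=
  ⟨104, 8, 5, 4, 0, by decide +kernel⟩
def chk3_55 : Chk (box3.vC) (subst (sub pc3 ⟨false, false, true, true, false⟩) (negEx (pc3.curve2 false))) :=
  ⟨115, 9, 5, 4, 0, by decide +kernel⟩
def chk3_56 : Chk (box3.vC) (subst (sub pc3 ⟨false, false, true, true, false⟩) (negEx (pc3.curve2 true))) :=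
  ⟨112, 9, 5, 4, 0, by decide +kernel⟩
def chk3_57 : Chk (box3.vC) (subst (sub pc3 ⟨false, false, true, true, false⟩) (negEx (pc3.curve3 false))) :=
  ⟨116, 9, 6, 4, 0, by decide +kernel⟩
def chk3_58 : Chk (box3.vC) (subst (sub pc3 ⟨false, false, true, true, false⟩) (negEx (pc3.curve3 true))) :=
  ⟨115, 9, 6, 4, 0, by decide +kernel⟩
def chk3_59 : Chk (box3.vC) (subst (sub pc3 ⟨false, false, true, true, false⟩) (slopeT)) :=
  ⟨123, 10, 7, 4, 0, by decide +kernel⟩
def chk3_60 : Chk (box3.vC) (subst (sub pc3 ⟨true, false, true, true, false⟩) (slopeT)) :=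
  ⟨123, 10, 7, 4, 0, by decide +kernel⟩
def chk3_61 : Chk (box3.gC true) (subst (gapSub pc3 true false false) tplL) :=
  ⟨330, 26, 22, 5, 2, by decide +kernel⟩
def chk3_62 : Chk (box3.gC true) (subst (gapSub pc3 true false true) tplL) :=
  ⟨329, 26, 22, 5, 2, by decide +kernel⟩
def chk3_63 : Chk (box3.gC true) (subst (gapSub pc3 true true false) tplL) :=
  ⟨330, 26, 22, 5, 2, by decide +kernel⟩
def chk3_64 : Chk (box3.gC true) (subst (gapSub pc3 true true true) tplL) :=
  ⟨329, 26, 22, 5, 2, by decide +kernel⟩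

/-- Piece 3 passes. -/
theorem cert3 : Cert pc3 box3 true where
  pos := by
    refine ⟨⟨⟨?_, ?_, ?_, ?_, ?_, ?_, ?_⟩, ?_, ?_, ?_, ?_, ?_, ?_, ?_, ?_, ?_, ?_, ?_⟩, ?_, ?_⟩ <;>
      norm_num [fr, pc3]
  gX := fun p l => match p, l with
    | false, false => chk3_18
    | false, true => chk3_19
    | true, false => chk3_20
    | true, true => chk3_21
  gMG := fun p l => match p, l with
    | false, false => chk3_22
    | false, true => chk3_23
    | true, false => chk3_24
    | true, true => chk3_25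
  g1 := fun p l => match p, l with
    | false, false => chk3_26
    | false, true => chk3_27
    | true, false => chk3_28
    | true, true => chk3_29
  g2 := fun s p t => match s, p, t with
    | false, false, false => chk3_30
    | false, false, true => chk3_31
    | false, true, false => chk3_32
    | false, true, true => chk3_33
    | true, false, false => chk3_34
    | true, false, true => chk3_35
    | true, true, false => chk3_36
    | true, true, true => chk3_37
  g3 := fun s p l t => match s, p, l, t with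
    | false, false, false, false => chk3_38
    | false, false, false, true => chk3_39
    | false, false, true, false => chk3_40
    | false, false, true, true => chk3_41
    | false, true, false, false => chk3_42
    | false, true, false, true => chk3_43
    | false, true, true, false => chk3_44
    | false, true, true, true => chk3_45
    | true, false, false, false => chk3_46
    | true, false, false, true => chk3_47
    | true, false, true, false => chk3_48
    | true, false, true, true => chk3_49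
    | true, true, false, false => chk3_50
    | true, true, false, true => chk3_51
    | true, true, true, false => chk3_52
    | true, true, true, true => chk3_53
  cMG := chk3_54
  c2 := fun s => match s with
    | false => chk3_55
    | true => chk3_56
  c3 := fun s => match s with
    | false => chk3_57
    | true => chk3_58
  sT := fun p => match p with
    | false => chk3_59
    | true => chk3_60
  bnd := fun ze b => match ze, b with
    | false, .l0 => chk3_0
    | false, .l1 => chk3_1
    | false, .r => chk3_2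
    | false, .g0 => chk3_3
    | false, .g1 => chk3_4
    | false, .t0 => chk3_5
    | false, .t1 => chk3_6
    | false, .w0 => chk3_7
    | false, .w1 => chk3_8
    | true, .l0 => chk3_9
    | true, .l1 => chk3_10
    | true, .r => chk3_11
    | true, .g0 => chk3_12
    | true, .g1 => chk3_13
    | true, .t0 => chk3_14
    | true, .t1 => chk3_15
    | true, .w0 => chk3_16
    | true, .w1 => chk3_17
  gap := fun ze t => match ze, t with
    | false, false => chk3_61
    | false, true => chk3_62
    | true, false => chk3_63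
    | true, true => chk3_64

end Vale.Agent.P100.Calib.StripMid
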