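import Vale.Agent.P100.Calib.SlabStripMidChart

/-!
# The checks of piece 4 below 153/200
-/

set_option linter.defProp false

namespace Vale.Agent.P100.Calib.StripMid

open Pack

/-- The numbers of piece 4. -/
def pc4 : Piece := ⟨.B, (9, 20), (16, 25), (1, 1), (53, 100), (19, 10), (717, 1000), (559, 500), (49, 50), (493, -1575, 500), (502, -675, 500), 45, (-5,20,223,5), (717, 1000), (1197, 1000), (11, 20), (1, 1), (7, 4)⟩

/-- The ranges of piece 4. -/
def box4 : Box := ⟨(0, 1, 19), (0, 19, 18), (32, 339, 100), (53, 190, 100), (45, 64, 100)⟩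

def chk4_0 : Chk (box4.cC) (bound pc4 false .l0) :=
  ⟨201, 14, 13, 2, 3, by decide +kernel⟩
def chk4_1 : Chk (box4.cC) (bound pc4 false .l1) :=
  ⟨201, 14, 13, 2, 3, by decide +kernel⟩
def chk4_2 : Chk (box4.cC) (bound pc4 false .r) :=
  ⟨197, 14, 13, 2, 3, by decide +kernel⟩
def chk4_3 : Chk (box4.cC) (bound pc4 false .g0) :=
  ⟨85, 5, 4, 1, 2, by decide +kernel⟩
def chk4_4 : Chk (box4.cC) (bound pc4 false .g1) :=
  ⟨85, 5, 4, 1, 2, by decide +kernel⟩
def chk4_5 : Chk (box4.cC) (bound pc4 false .t0) :=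
  ⟨131, 9, 6, 2, 3, by decide +kernel⟩
def chk4_6 : Chk (box4.cC) (bound pc4 false .t1) :=
  ⟨131, 9, 6, 2, 3, by decide +kernel⟩
def chk4_7 : Chk (box4.cC) (bound pc4 false .w0) :=
  ⟨178, 12, 10, 3, 4, by decide +kernel⟩
def chk4_8 : Chk (box4.cC) (bound pc4 false .w1) :=
  ⟨180, 12, 10, 3, 4, by decide +kernel⟩
def chk4_9 : Chk (box4.cC) (bound pc4 true .l0) :=
  ⟨201, 14, 13, 2, 3, by decide +kernel⟩
def chk4_10 : Chk (box4.cC) (bound pc4 true .l1) :=
  ⟨201, 14, 13, 2, 3, by decide +kernel⟩
def chk4_11 : Chk (box4.cC) (bound pc4 true .r) :=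
  ⟨197, 14, 13, 2, 3, by decide +kernel⟩
def chk4_12 : Chk (box4.cC) (bound pc4 true .g0) :=
  ⟨85, 5, 4, 1, 2, by decide +kernel⟩
def chk4_13 : Chk (box4.cC) (bound pc4 true .g1) :=
  ⟨85, 5, 4, 1, 2, by decide +kernel⟩
def chk4_14 : Chk (box4.cC) (bound pc4 true .t0) :=
  ⟨131, 9, 6, 2, 3, by decide +kernel⟩
def chk4_15 : Chk (box4.cC) (bound pc4 true .t1) :=
  ⟨131, 9, 6, 2, 3, by decide +kernel⟩
def chk4_16 : Chk (box4.cC) (bound pc4 true .w0) :=
  ⟨178, 12, 10, 3, 4, by decide +kernel⟩
def chk4_17 : Chk (box4.cC) (bound pc4 true .w1) :=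
  ⟨181, 12, 10, 3, 4, by decide +kernel⟩
def chk4_18 : Chk (box4.vC) (subst (sub pc4 ⟨false, false, true, true, false⟩) (condX)) :=
  ⟨213, 15, 13, 4, 0, by decide +kernel⟩
def chk4_19 : Chk (box4.vC) (subst (sub pc4 ⟨false, true, true, true, false⟩) (condX)) :=
  ⟨213, 15, 13, 4, 0, by decide +kernel⟩
def chk4_20 : Chk (box4.vC) (subst (sub pc4 ⟨true, false, true, true, false⟩) (condX)) :=
  ⟨213, 15, 13, 4, 0, by decide +kernel⟩
def chk4_21 : Chk (box4.vC) (subst (sub pc4 ⟨true, true, true, true, false⟩) (condX)) :=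
  ⟨213, 15, 13, 4, 0, by decide +kernel⟩
def chk4_22 : Chk (box4.vC) (subst (sub pc4 ⟨false, false, true, false, false⟩) (tplMG)) :=
  ⟨402, 30, 26, 6, 0, by decide +kernel⟩
def chk4_23 : Chk (box4.vC) (subst (sub pc4 ⟨false, true, true, false, false⟩) (tplMG)) :=
  ⟨401, 30, 26, 6, 0, by decide +kernel⟩
def chk4_24 : Chk (box4.vC) (subst (sub pc4 ⟨true, false, true, false, false⟩) (tplMG)) :=
  ⟨402, 30, 26, 6, 0, by decide +kernel⟩
def chk4_25 : Chk (box4.vC) (subst (sub pc4 ⟨true, true, true, false, false⟩) (tplMG)) :=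
  ⟨401, 30, 26, 6, 0, by decide +kernel⟩
def chk4_26 : Chk (box4.vC) (subst (sub pc4 ⟨false, false, false, false, false⟩) (pc4.m1)) :=
  ⟨271, 19, 17, 4, 0, by decide +kernel⟩
def chk4_27 : Chk (box4.vC) (subst (sub pc4 ⟨false, true, false, false, false⟩) (pc4.m1)) :=
  ⟨270, 19, 17, 4, 0, by decide +kernel⟩
def chk4_28 : Chk (box4.vC) (subst (sub pc4 ⟨true, false, false, false, false⟩) (pc4.m1)) :=
  ⟨271, 19, 17, 4, 0, by decide +kernel⟩
def chk4_29 : Chk (box4.vC) (subst (sub pc4 ⟨true, true, false, false, false⟩) (pc4.m1)) :=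
  ⟨270, 19, 17, 4, 0, by decide +kernel⟩
def chk4_30 : Chk (box4.vC) (subst (sub pc4 ⟨false, false, true, false, false⟩) (strict (pc4.m2 false))) :=
  ⟨442, 28, 24, 6, 0, by decide +kernel⟩
def chk4_31 : Chk (box4.vC) (subst (sub pc4 ⟨false, false, true, false, true⟩) (strict (pc4.m2 false))) :=
  ⟨442, 28, 24, 6, 0, by decide +kernel⟩
def chk4_32 : Chk (box4.vC) (subst (sub pc4 ⟨true, false, true, false, false⟩) (strict (pc4.m2 false))) :=
  ⟨443, 28, 24, 6, 0, by decide +kernel⟩
def chk4_33 : Chk (box4.vC) (subst (sub pc4 ⟨true, false, true, false, true⟩) (strict (pc4.m2 false))) :=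
  ⟨443, 28, 24, 6, 0, by decide +kernel⟩
def chk4_34 : Chk (box4.vC) (subst (sub pc4 ⟨false, true, true, false, false⟩) (strict (pc4.m2 true))) :=
  ⟨439, 28, 24, 6, 0, by decide +kernel⟩
def chk4_35 : Chk (box4.vC) (subst (sub pc4 ⟨false, true, true, false, true⟩) (strict (pc4.m2 true))) :=
  ⟨439, 28, 24, 6, 0, by decide +kernel⟩
def chk4_36 : Chk (box4.vC) (subst (sub pc4 ⟨true, true, true, false, false⟩) (strict (pc4.m2 true))) :=
  ⟨439, 28, 24, 6, 0, by decide +kernel⟩
def chk4_37 : Chk (box4.vC) (subst (sub pc4 ⟨true, true, true, false, true⟩) (strict (pc4.m2 true))) :=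
  ⟨439, 28, 24, 6, 0, by decide +kernel⟩
def chk4_38 : Chk (box4.vC) (subst (sub pc4 ⟨false, false, true, true, false⟩) (strict (pc4.m3 false))) :=
  ⟨538, 35, 31, 6, 0, by decide +kernel⟩
def chk4_39 : Chk (box4.vC) (subst (sub pc4 ⟨false, false, true, true, true⟩) (strict (pc4.m3 false))) :=
  ⟨538, 35, 31, 6, 0, by decide +kernel⟩
def chk4_40 : Chk (box4.vC) (subst (sub pc4 ⟨false, true, true, true, false⟩) (strict (pc4.m3 false))) :=
  ⟨537, 35, 31, 6, 0, by decide +kernel⟩
def chk4_41 : Chk (box4.vC) (subst (sub pc4 ⟨false, true, true, true, true⟩) (strict (pc4.m3 false))) :=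
  ⟨537, 35, 31, 6, 0, by decide +kernel⟩
def chk4_42 : Chk (box4.vC) (subst (sub pc4 ⟨true, false, true, true, false⟩) (strict (pc4.m3 false))) :=
  ⟨538, 35, 31, 6, 0, by decide +kernel⟩
def chk4_43 : Chk (box4.vC) (subst (sub pc4 ⟨true, false, true, true, true⟩) (strict (pc4.m3 false))) :=
  ⟨538, 35, 31, 6, 0, by decide +kernel⟩
def chk4_44 : Chk (box4.vC) (subst (sub pc4 ⟨true, true, true, true, false⟩) (strict (pc4.m3 false))) :=
  ⟨537, 35, 31, 6, 0, by decide +kernel⟩
def chk4_45 : Chk (box4.vC) (subst (sub pc4 ⟨true, true, true, true, true⟩) (strict (pc4.m3 false))) :=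
  ⟨537, 35, 31, 6, 0, by decide +kernel⟩
def chk4_46 : Chk (box4.vC) (subst (sub pc4 ⟨false, false, true, true, false⟩) (strict (pc4.m3 true))) :=
  ⟨536, 35, 31, 6, 0, by decide +kernel⟩
def chk4_47 : Chk (box4.vC) (subst (sub pc4 ⟨false, false, true, true, true⟩) (strict (pc4.m3 true))) :=
  ⟨536, 35, 31, 6, 0, by decide +kernel⟩
def chk4_48 : Chk (box4.vC) (subst (sub pc4 ⟨false, true, true, true, false⟩) (strict (pc4.m3 true))) :=
  ⟨535, 35, 31, 6, 0, by decide +kernel⟩
def chk4_49 : Chk (box4.vC) (subst (sub pc4 ⟨false, true, true, true, true⟩) (strict (pc4.m3 true))) :=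
  ⟨535, 35, 31, 6, 0, by decide +kernel⟩
def chk4_50 : Chk (box4.vC) (subst (sub pc4 ⟨true, false, true, true, false⟩) (strict (pc4.m3 true))) :=
  ⟨536, 35, 31, 6, 0, by decide +kernel⟩
def chk4_51 : Chk (box4.vC) (subst (sub pc4 ⟨true, false, true, true, true⟩) (strict (pc4.m3 true))) :=
  ⟨536, 35, 31, 6, 0, by decide +kernel⟩
def chk4_52 : Chk (box4.vC) (subst (sub pc4 ⟨true, true, true, true, false⟩) (strict (pc4.m3 true))) :=
  ⟨535, 35, 31, 6, 0, by decide +kernel⟩
def chk4_53 : Chk (box4.vC) (subst (sub pc4 ⟨true, true, true, true, true⟩) (strict (pc4.m3 true))) :=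
  ⟨535, 35, 31, 6, 0, by decide +kernel⟩
def chk4_54 : Chk (box4.vC) (subst (sub pc4 ⟨false, false, true, true, false⟩) (negEx coMG12)) :=
  ⟨104, 8, 5, 4, 0, by decide +kernel⟩
def chk4_55 : Chk (box4.vC) (subst (sub pc4 ⟨false, false, true, true, false⟩) (negEx (pc4.curve2 false))) :=
  ⟨115, 9, 5, 4, 0, by decide +kernel⟩
def chk4_56 : Chk (box4.vC) (subst (sub pc4 ⟨false, false, true, true, false⟩) (negEx (pc4.curve2 true))) :=
  ⟨112, 9, 5, 4, 0, by decide +kernel⟩
def chk4_57 : Chk (box4.vC) (subst (sub pc4 ⟨false, false, true, true, false⟩) (negEx (pc4.curve3 false))) :=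
  ⟨117, 9, 6, 4, 0, by decide +kernel⟩
def chk4_58 : Chk (box4.vC) (subst (sub pc4 ⟨false, false, true, true, false⟩) (negEx (pc4.curve3 true))) :=
  ⟨115, 9, 6, 4, 0, by decide +kernel⟩
def chk4_59 : Chk (box4.vC) (subst (sub pc4 ⟨false, false, true, true, false⟩) (slopeT)) :=
  ⟨122, 10, 7, 4, 0, by decide +kernel⟩
def chk4_60 : Chk (box4.vC) (subst (sub pc4 ⟨true, false, true, true, false⟩) (slopeT)) :=
  ⟨122, 10, 7, 4, 0, by decide +kernel⟩
def chk4_61 : Chk (box4.gC true) (subst (gapSub pc4 true false false) tplL) :=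
  ⟨334, 26, 22, 5, 2, by decide +kernel⟩
def chk4_62 : Chk (box4.gC true) (subst (gapSub pc4 true false true) tplL) :=
  ⟨334, 26, 22, 5, 2, by decide +kernel⟩
def chk4_63 : Chk (box4.gC true) (subst (gapSub pc4 true true false) tplL) :=
  ⟨334, 26, 22, 5, 2, by decide +kernel⟩
def chk4_64 : Chk (box4.gC true) (subst (gapSub pc4 true true true) tplL) :=
  ⟨334, 26, 22, 5, 2, by decide +kernel⟩

/-- Piece 4 passes. -/
theorem cert4 : Cert pc4 box4 true where
  pos := by
    refine ⟨⟨⟨?_, ?_, ?_, ?_, ?_, ?_, ?_⟩, ?_, ?_, ?_, ?_, ?_, ?_, ?_, ?_, ?_, ?_, ?_⟩, ?_, ?_⟩ <;>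
      norm_num [fr, pc4]
  gX := fun p l => match p, l with
    | false, false => chk4_18
    | false, true => chk4_19
    | true, false => chk4_20
    | true, true => chk4_21
  gMG := fun p l => match p, l with
    | false, false => chk4_22
    | false, true => chk4_23
    | true, false => chk4_24
    | true, true => chk4_25
  g1 := fun p l => match p, l with
    | false, false => chk4_26
    | false, true => chk4_27
    | true, false => chk4_28
    | true, true => chk4_29
  g2 := fun s p t => match s, p, t with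
    | false, false, false => chk4_30
    | false, false, true => chk4_31
    | false, true, false => chk4_32
    | false, true, true => chk4_33
    | true, false, false => chk4_34
    | true, false, true => chk4_35
    | true, true, false => chk4_36
    | true, true, true => chk4_37
  g3 := fun s p l t => match s, p, l, t with
    | false, false, false, false => chk4_38
    | false, false, false, true => chk4_39
    | false, false, true, false => chk4_40
    | false, false, true, true => chk4_41
    | false, true, false, false => chk4_42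
    | false, true, false, true => chk4_43
    | false, true, true, false => chk4_44
    | false, true, true, true => chk4_45
    | true, false, false, false => chk4_46
    | true, false, false, true => chk4_47
    | true, false, true, false => chk4_48
    | true, false, true, true => chk4_49
    | true, true, false, false => chk4_50
    | true, true, false, true => chk4_51
    | true, true, true, false => chk4_52
    | true, true, true, true => chk4_53
  cMG := chk4_54
  c2 := fun s => match s with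
    | false => chk4_55
    | true => chk4_56
  c3 := fun s => match s with
    | false => chk4_57
    | true => chk4_58
  sT := fun p => match p with
    | false => chk4_59
    | true => chk4_60
  bnd := fun ze b => match ze, b with
    | false, .l0 => chk4_0
    | false, .l1 => chk4_1
    | false, .r => chk4_2
    | false, .g0 => chk4_3
    | false, .g1 => chk4_4
    | false, .t0 => chk4_5
    | false, .t1 => chk4_6
    | false, .w0 => chk4_7
    | false, .w1 => chk4_8
    | true, .l0 => chk4_9
    | true, .l1 => chk4_10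
    | true, .r => chk4_11
    | true, .g0 => chk4_12
    | true, .g1 => chk4_13
    | true, .t0 => chk4_14
    | true, .t1 => chk4_15
    | true, .w0 => chk4_16
    | true, .w1 => chk4_17
  gap := fun ze t => match ze, t with
    | false, false => chk4_61
    | false, true => chk4_62
    | true, false => chk4_63
    | true, true => chk4_64

end Vale.Agent.P100.Calib.StripMid
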