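import Vale.Agent.P100.Calib.SlabStripMidChart

/-!
# The checks of piece 5 below 153/200
-/

set_option linter.defProp false

namespace Vale.Agent.P100.Calib.StripMid

open Pack

/-- The numbers of piece 5. -/
def pc5 : Piece := ⟨.B, (16, 25), (153, 200), (1, 1), (39, 100), (7, 4), (117, 250), (739, 1000), (971, 1000), (489, -2550, 500), (251, -675, 250), 41, (-38,-90,541,10), (117, 250), (427, 500), (1, 2), (1, 1), (7, 4)⟩

/-- The ranges of piece 5. -/
def box5 : Box := ⟨(0, 1, 19), (0, 19, 18), (46, 571, 100), (39, 175, 100), (128, 153, 200)⟩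

def chk5_0 : Chk (box5.cC) (bound pc5 false .l0) :=
  ⟨203, 14, 13, 2, 3, by decide +kernel⟩
def chk5_1 : Chk (box5.cC) (bound pc5 false .l1) :=
  ⟨205, 14, 13, 2, 3, by decide +kernel⟩
def chk5_2 : Chk (box5.cC) (bound pc5 false .r) :=
  ⟨205, 14, 13, 2, 3, by decide +kernel⟩
def chk5_3 : Chk (box5.cC) (bound pc5 false .g0) :=
  ⟨85, 5, 4, 1, 2, by decide +kernel⟩
def chk5_4 : Chk (box5.cC) (bound pc5 false .g1) :=
  ⟨86, 5, 4, 1, 2, by decide +kernel⟩
def chk5_5 : Chk (box5.cC) (bound pc5 false .t0) :=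
  ⟨134, 9, 6, 2, 3, by decide +kernel⟩
def chk5_6 : Chk (box5.cC) (bound pc5 false .t1) :=
  ⟨133, 9, 6, 2, 3, by decide +kernel⟩
def chk5_7 : Chk (box5.cC) (bound pc5 false .w0) :=
  ⟨183, 12, 10, 3, 4, by decide +kernel⟩
def chk5_8 : Chk (box5.cC) (bound pc5 false .w1) :=
  ⟨186, 12, 10, 3, 4, by decide +kernel⟩
def chk5_9 : Chk (box5.cC) (bound pc5 true .l0) :=
  ⟨203, 14, 13, 2, 3, by decide +kernel⟩
def chk5_10 : Chk (box5.cC) (bound pc5 true .l1) :=
  ⟨205, 14, 13, 2, 3, by decide +kernel⟩
def chk5_11 : Chk (box5.cC) (bound pc5 true .r) :=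
  ⟨205, 14, 13, 2, 3, by decide +kernel⟩
def chk5_12 : Chk (box5.cC) (bound pc5 true .g0) :=
  ⟨85, 5, 4, 1, 2, by decide +kernel⟩
def chk5_13 : Chk (box5.cC) (bound pc5 true .g1) :=
  ⟨86, 5, 4, 1, 2, by decide +kernel⟩
def chk5_14 : Chk (box5.cC) (bound pc5 true .t0) :=
  ⟨134, 9, 6, 2, 3, by decide +kernel⟩
def chk5_15 : Chk (box5.cC) (bound pc5 true .t1) :=
  ⟨133, 9, 6, 2, 3, by decide +kernel⟩
def chk5_16 : Chk (box5.cC) (bound pc5 true .w0) :=
  ⟨183, 12, 10, 3, 4, by decide +kernel⟩
def chk5_17 : Chk (box5.cC) (bound pc5 true .w1) :=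
  ⟨186, 12, 10, 3, 4, by decide +kernel⟩
def chk5_18 : Chk (box5.vC) (subst (sub pc5 ⟨false, false, true, true, false⟩) (condX)) :=
  ⟨216, 15, 13, 4, 0, by decide +kernel⟩
def chk5_19 : Chk (box5.vC) (subst (sub pc5 ⟨false, true, true, true, false⟩) (condX)) :=
  ⟨219, 15, 13, 4, 0, by decide +kernel⟩
def chk5_20 : Chk (box5.vC) (subst (sub pc5 ⟨true, false, true, true, false⟩) (condX)) :=
  ⟨216, 15, 13, 4, 0, by decide +kernel⟩
def chk5_21 : Chk (box5.vC) (subst (sub pc5 ⟨true, true, true, true, false⟩) (condX)) :=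
  ⟨219, 15, 13, 4, 0, by decide +kernel⟩
def chk5_22 : Chk (box5.vC) (subst (sub pc5 ⟨false, false, true, false, false⟩) (tplMG)) :=
  ⟨408, 30, 26, 6, 0, by decide +kernel⟩
def chk5_23 : Chk (box5.vC) (subst (sub pc5 ⟨false, true, true, false, false⟩) (tplMG)) :=
  ⟨412, 30, 26, 6, 0, by decide +kernel⟩
def chk5_24 : Chk (box5.vC) (subst (sub pc5 ⟨true, false, true, false, false⟩) (tplMG)) :=
  ⟨408, 30, 26, 6, 0, by decide +kernel⟩
def chk5_25 : Chk (box5.vC) (subst (sub pc5 ⟨true, true, true, false, false⟩) (tplMG)) :=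
  ⟨412, 30, 26, 6, 0, by decide +kernel⟩
def chk5_26 : Chk (box5.vC) (subst (sub pc5 ⟨false, false, false, false, false⟩) (pc5.m1)) :=
  ⟨269, 19, 17, 4, 0, by decide +kernel⟩
def chk5_27 : Chk (box5.vC) (subst (sub pc5 ⟨false, true, false, false, false⟩) (pc5.m1)) :=
  ⟨272, 19, 17, 4, 0, by decide +kernel⟩
def chk5_28 : Chk (box5.vC) (subst (sub pc5 ⟨true, false, false, false, false⟩) (pc5.m1)) :=
  ⟨269, 19, 17, 4, 0, by decide +kernel⟩
def chk5_29 : Chk (box5.vC) (subst (sub pc5 ⟨true, true, false, false, false⟩) (pc5.m1)) :=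
  ⟨272, 19, 17, 4, 0, by decide +kernel⟩
def chk5_30 : Chk (box5.vC) (subst (sub pc5 ⟨false, false, true, false, false⟩) (strict (pc5.m2 false))) :=
  ⟨445, 28, 24, 6, 0, by decide +kernel⟩
def chk5_31 : Chk (box5.vC) (subst (sub pc5 ⟨false, false, true, false, true⟩) (strict (pc5.m2 false))) :=
  ⟨443, 28, 24, 6, 0, by decide +kernel⟩
def chk5_32 : Chk (box5.vC) (subst (sub pc5 ⟨true, false, true, false, false⟩) (strict (pc5.m2 false))) :=
  ⟨445, 28, 24, 6, 0, by decide +kernel⟩
def chk5_33 : Chk (box5.vC) (subst (sub pc5 ⟨true, false, true, false, true⟩) (strict (pc5.m2 false))) :=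
  ⟨443, 28, 24, 6, 0, by decide +kernel⟩
def chk5_34 : Chk (box5.vC) (subst (sub pc5 ⟨false, true, true, false, false⟩) (strict (pc5.m2 true))) :=
  ⟨444, 28, 24, 6, 0, by decide +kernel⟩
def chk5_35 : Chk (box5.vC) (subst (sub pc5 ⟨false, true, true, false, true⟩) (strict (pc5.m2 true))) :=
  ⟨442, 28, 24, 6, 0, by decide +kernel⟩
def chk5_36 : Chk (box5.vC) (subst (sub pc5 ⟨true, true, true, false, false⟩) (strict (pc5.m2 true))) :=
  ⟨444, 28, 24, 6, 0, by decide +kernel⟩
def chk5_37 : Chk (box5.vC) (subst (sub pc5 ⟨true, true, true, false, true⟩) (strict (pc5.m2 true))) :=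
  ⟨442, 28, 24, 6, 0, by decide +kernel⟩
def chk5_38 : Chk (box5.vC) (subst (sub pc5 ⟨false, false, true, true, false⟩) (strict (pc5.m3 false))) :=
  ⟨538, 35, 31, 6, 0, by decide +kernel⟩
def chk5_39 : Chk (box5.vC) (subst (sub pc5 ⟨false, false, true, true, true⟩) (strict (pc5.m3 false))) :=
  ⟨537, 35, 31, 6, 0, by decide +kernel⟩
def chk5_40 : Chk (box5.vC) (subst (sub pc5 ⟨false, true, true, true, false⟩) (strict (pc5.m3 false))) :=
  ⟨542, 35, 31, 6, 0, by decide +kernel⟩
def chk5_41 : Chk (box5.vC) (subst (sub pc5 ⟨false, true, true, true, true⟩) (strict (pc5.m3 false))) :=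
  ⟨541, 35, 31, 6, 0, by decide +kernel⟩
def chk5_42 : Chk (box5.vC) (subst (sub pc5 ⟨true, false, true, true, false⟩) (strict (pc5.m3 false))) :=
  ⟨538, 35, 31, 6, 0, by decide +kernel⟩
def chk5_43 : Chk (box5.vC) (subst (sub pc5 ⟨true, false, true, true, true⟩) (strict (pc5.m3 false))) :=
  ⟨537, 35, 31, 6, 0, by decide +kernel⟩
def chk5_44 : Chk (box5.vC) (subst (sub pc5 ⟨true, true, true, true, false⟩) (strict (pc5.m3 false))) :=
  ⟨542, 35, 31, 6, 0, by decide +kernel⟩
def chk5_45 : Chk (box5.vC) (subst (sub pc5 ⟨true, true, true, true, true⟩) (strict (pc5.m3 false))) :=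
  ⟨541, 35, 31, 6, 0, by decide +kernel⟩
def chk5_46 : Chk (box5.vC) (subst (sub pc5 ⟨false, false, true, true, false⟩) (strict (pc5.m3 true))) :=
  ⟨536, 35, 31, 6, 0, by decide +kernel⟩
def chk5_47 : Chk (box5.vC) (subst (sub pc5 ⟨false, false, true, true, true⟩) (strict (pc5.m3 true))) :=
  ⟨535, 35, 31, 6, 0, by decide +kernel⟩
def chk5_48 : Chk (box5.vC) (subst (sub pc5 ⟨false, true, true, true, false⟩) (strict (pc5.m3 true))) :=
  ⟨540, 35, 31, 6, 0, by decide +kernel⟩
def chk5_49 : Chk (box5.vC) (subst (sub pc5 ⟨false, true, true, true, true⟩) (strict (pc5.m3 true))) :=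
  ⟨539, 35, 31, 6, 0, by decide +kernel⟩
def chk5_50 : Chk (box5.vC) (subst (sub pc5 ⟨true, false, true, true, false⟩) (strict (pc5.m3 true))) :=
  ⟨536, 35, 31, 6, 0, by decide +kernel⟩
def chk5_51 : Chk (box5.vC) (subst (sub pc5 ⟨true, false, true, true, true⟩) (strict (pc5.m3 true))) :=
  ⟨535, 35, 31, 6, 0, by decide +kernel⟩
def chk5_52 : Chk (box5.vC) (subst (sub pc5 ⟨true, true, true, true, false⟩) (strict (pc5.m3 true))) :=
  ⟨540, 35, 31, 6, 0, by decide +kernel⟩
def chk5_53 : Chk (box5.vC) (subst (sub pc5 ⟨true, true, true, true, true⟩) (strict (pc5.m3 true))) :=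
  ⟨539, 35, 31, 6, 0, by decide +kernel⟩
def chk5_54 : Chk (box5.vC) (subst (sub pc5 ⟨false, false, true, true, false⟩) (negEx coMG12)) :=
  ⟨104, 8, 5, 4, 0, by decide +kernel⟩
def chk5_55 : Chk (box5.vC) (subst (sub pc5 ⟨false, false, true, true, false⟩) (negEx (pc5.curve2 false))) :=
  ⟨115, 9, 5, 4, 0, by decide +kernel⟩
def chk5_56 : Chk (box5.vC) (subst (sub pc5 ⟨false, false, true, true, false⟩) (negEx (pc5.curve2 true))) :=
  ⟨112, 9, 5, 4, 0, by decide +kernel⟩
def chk5_57 : Chk (box5.vC) (subst (sub pc5 ⟨false, false, true, true, false⟩) (negEx (pc5.curve3 false))) :=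
  ⟨117, 9, 6, 4, 0, by decide +kernel⟩
def chk5_58 : Chk (box5.vC) (subst (sub pc5 ⟨false, false, true, true, false⟩) (negEx (pc5.curve3 true))) :=
  ⟨115, 9, 6, 4, 0, by decide +kernel⟩
def chk5_59 : Chk (box5.vC) (subst (sub pc5 ⟨false, false, true, true, false⟩) (slopeT)) :=
  ⟨123, 10, 7, 4, 0, by decide +kernel⟩
def chk5_60 : Chk (box5.vC) (subst (sub pc5 ⟨true, false, true, true, false⟩) (slopeT)) :=
  ⟨123, 10, 7, 4, 0, by decide +kernel⟩
def chk5_61 : Chk (box5.gC true) (subst (gapSub pc5 true false false) tplL) :=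
  ⟨336, 26, 22, 5, 2, by decide +kernel⟩
def chk5_62 : Chk (box5.gC true) (subst (gapSub pc5 true false true) tplL) :=
  ⟨335, 26, 22, 5, 2, by decide +kernel⟩
def chk5_63 : Chk (box5.gC true) (subst (gapSub pc5 true true false) tplL) :=
  ⟨336, 26, 22, 5, 2, by decide +kernel⟩
def chk5_64 : Chk (box5.gC true) (subst (gapSub pc5 true true true) tplL) :=
  ⟨335, 26, 22, 5, 2, by decide +kernel⟩

/-- Piece 5 passes. -/
theorem cert5 : Cert pc5 box5 true where
  pos := by
    refine ⟨⟨⟨?_, ?_, ?_, ?_, ?_, ?_, ?_⟩, ?_, ?_, ?_, ?_, ?_, ?_, ?_, ?_, ?_, ?_, ?_⟩, ?_, ?_⟩ <;>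
      norm_num [fr, pc5]
  gX := fun p l => match p, l with
    | false, false => chk5_18
    | false, true => chk5_19
    | true, false => chk5_20
    | true, true => chk5_21
  gMG := fun p l => match p, l with
    | false, false => chk5_22
    | false, true => chk5_23
    | true, false => chk5_24
    | true, true => chk5_25
  g1 := fun p l => match p, l with
    | false, false => chk5_26
    | false, true => chk5_27
    | true, false => chk5_28
    | true, true => chk5_29
  g2 := fun s p t => match s, p, t with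
    | false, false, false => chk5_30
    | false, false, true => chk5_31
    | false, true, false => chk5_32
    | false, true, true => chk5_33
    | true, false, false => chk5_34
    | true, false, true => chk5_35
    | true, true, false => chk5_36
    | true, true, true => chk5_37
  g3 := fun s p l t => match s, p, l, t with
    | false, false, false, false => chk5_38
    | false, false, false, true => chk5_39
    | false, false, true, false => chk5_40
    | false, false, true, true => chk5_41
    | false, true, false, false => chk5_42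
    | false, true, false, true => chk5_43
    | false, true, true, false => chk5_44
    | false, true, true, true => chk5_45
    | true, false, false, false => chk5_46
    | true, false, false, true => chk5_47
    | true, false, true, false => chk5_48
    | true, false, true, true => chk5_49
    | true, true, false, false => chk5_50
    | true, true, false, true => chk5_51
    | true, true, true, false => chk5_52
    | true, true, true, true => chk5_53
  cMG := chk5_54
  c2 := fun s => match s with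
    | false => chk5_55
    | true => chk5_56
  c3 := fun s => match s with
    | false => chk5_57
    | true => chk5_58
  sT := fun p => match p with
    | false => chk5_59
    | true => chk5_60
  bnd := fun ze b => match ze, b with
    | false, .l0 => chk5_0
    | false, .l1 => chk5_1
    | false, .r => chk5_2
    | false, .g0 => chk5_3
    | false, .g1 => chk5_4
    | false, .t0 => chk5_5
    | false, .t1 => chk5_6
    | false, .w0 => chk5_7
    | false, .w1 => chk5_8
    | true, .l0 => chk5_9
    | true, .l1 => chk5_10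
    | true, .r => chk5_11
    | true, .g0 => chk5_12
    | true, .g1 => chk5_13
    | true, .t0 => chk5_14
    | true, .t1 => chk5_15
    | true, .w0 => chk5_16
    | true, .w1 => chk5_17
  gap := fun ze t => match ze, t with
    | false, false => chk5_61
    | false, true => chk5_62
    | true, false => chk5_63
    | true, true => chk5_64

end Vale.Agent.P100.Calib.StripMid
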