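import Vale.Agent.P100.Calib.SlabStripMidChart

/-!
# The checks of piece 6 below 153/200
-/

set_option linter.defProp false

namespace Vale.Agent.P100.Calib.StripMid

open Pack

/-- The numbers of piece 6. -/
def pc6 : Piece := ⟨.D, (1, 10), (33, 100), (1, 2), (13, 100), (3, 1), (667, 500), (909, 500), (197, 200), (484, -375, 500), (501, -75, 500), 81, (112,495,411,5), (1391, 1000), (1869, 1000), (13, 20), (1, 1), (7, 2)⟩

/-- The ranges of piece 6. -/
def box6 : Box := ⟨(0, 1, 20), (50, 189, 1050), (1, 138, 100), (13, 300, 100), (10, 33, 100)⟩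

def chk6_0 : Chk (box6.cC) (bound pc6 false .l0) :=
  ⟨229, 13, 9, 2, 3, by decide +kernel⟩
def chk6_1 : Chk (box6.cC) (bound pc6 false .l1) :=
  ⟨229, 13, 9, 2, 3, by decide +kernel⟩
def chk6_2 : Chk (box6.cC) (bound pc6 false .r) :=
  ⟨227, 13, 9, 2, 3, by decide +kernel⟩
def chk6_3 : Chk (box6.cC) (bound pc6 false .g0) :=
  ⟨93, 4, 3, 1, 2, by decide +kernel⟩
def chk6_4 : Chk (box6.cC) (bound pc6 false .g1) :=
  ⟨93, 4, 3, 1, 2, by decide +kernel⟩
def chk6_5 : Chk (box6.cC) (bound pc6 false .t0) :=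
  ⟨151, 6, 6, 2, 3, by decide +kernel⟩
def chk6_6 : Chk (box6.cC) (bound pc6 false .t1) :=
  ⟨151, 6, 6, 2, 3, by decide +kernel⟩
def chk6_7 : Chk (box6.cC) (bound pc6 false .w0) :=
  ⟨194, 10, 7, 3, 4, by decide +kernel⟩
def chk6_8 : Chk (box6.cC) (bound pc6 false .w1) :=
  ⟨196, 10, 7, 3, 4, by decide +kernel⟩
def chk6_9 : Chk (box6.cC) (bound pc6 true .l0) :=
  ⟨229, 13, 9, 2, 3, by decide +kernel⟩
def chk6_10 : Chk (box6.cC) (bound pc6 true .l1) :=
  ⟨229, 13, 9, 2, 3, by decide +kernel⟩
def chk6_11 : Chk (box6.cC) (bound pc6 true .r) :=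
  ⟨227, 13, 9, 2, 3, by decide +kernel⟩
def chk6_12 : Chk (box6.cC) (bound pc6 true .g0) :=
  ⟨93, 4, 3, 1, 2, by decide +kernel⟩
def chk6_13 : Chk (box6.cC) (bound pc6 true .g1) :=
  ⟨93, 4, 3, 1, 2, by decide +kernel⟩
def chk6_14 : Chk (box6.cC) (bound pc6 true .t0) :=
  ⟨151, 6, 6, 2, 3, by decide +kernel⟩
def chk6_15 : Chk (box6.cC) (bound pc6 true .t1) :=
  ⟨151, 6, 6, 2, 3, by decide +kernel⟩
def chk6_16 : Chk (box6.cC) (bound pc6 true .w0) :=
  ⟨194, 10, 7, 3, 4, by decide +kernel⟩
def chk6_17 : Chk (box6.cC) (bound pc6 true .w1) :=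
  ⟨196, 10, 7, 3, 4, by decide +kernel⟩
def chk6_18 : Chk (box6.vC) (subst (sub pc6 ⟨false, false, true, true, false⟩) (condX)) :=
  ⟨250, 13, 10, 4, 0, by decide +kernel⟩
def chk6_19 : Chk (box6.vC) (subst (sub pc6 ⟨false, true, true, true, false⟩) (condX)) :=
  ⟨251, 13, 10, 4, 0, by decide +kernel⟩
def chk6_20 : Chk (box6.vC) (subst (sub pc6 ⟨true, false, true, true, false⟩) (condX)) :=
  ⟨250, 13, 10, 4, 0, by decide +kernel⟩
def chk6_21 : Chk (box6.vC) (subst (sub pc6 ⟨true, true, true, true, false⟩) (condX)) :=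
  ⟨251, 13, 10, 4, 0, by decide +kernel⟩
def chk6_22 : Chk (box6.vC) (subst (sub pc6 ⟨false, false, true, false, false⟩) (tplMG)) :=
  ⟨472, 26, 20, 6, 0, by decide +kernel⟩
def chk6_23 : Chk (box6.vC) (subst (sub pc6 ⟨false, true, true, false, false⟩) (tplMG)) :=
  ⟨472, 26, 20, 6, 0, by decide +kernel⟩
def chk6_24 : Chk (box6.vC) (subst (sub pc6 ⟨true, false, true, false, false⟩) (tplMG)) :=
  ⟨472, 26, 20, 6, 0, by decide +kernel⟩
def chk6_25 : Chk (box6.vC) (subst (sub pc6 ⟨true, true, true, false, false⟩) (tplMG)) :=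
  ⟨472, 26, 20, 6, 0, by decide +kernel⟩
def chk6_26 : Chk (box6.vC) (subst (sub pc6 ⟨false, false, false, false, false⟩) (pc6.m1)) :=
  ⟨333, 17, 14, 4, 0, by decide +kernel⟩
def chk6_27 : Chk (box6.vC) (subst (sub pc6 ⟨false, true, false, false, false⟩) (pc6.m1)) :=
  ⟨333, 17, 14, 4, 0, by decide +kernel⟩
def chk6_28 : Chk (box6.vC) (subst (sub pc6 ⟨true, false, false, false, false⟩) (pc6.m1)) :=
  ⟨333, 17, 14, 4, 0, by decide +kernel⟩
def chk6_29 : Chk (box6.vC) (subst (sub pc6 ⟨true, true, false, false, false⟩) (pc6.m1)) :=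
  ⟨333, 17, 14, 4, 0, by decide +kernel⟩
def chk6_30 : Chk (box6.vC) (subst (sub pc6 ⟨false, false, true, false, false⟩) (strict (pc6.m2 false))) :=
  ⟨509, 24, 19, 6, 0, by decide +kernel⟩
def chk6_31 : Chk (box6.vC) (subst (sub pc6 ⟨false, false, true, false, true⟩) (strict (pc6.m2 false))) :=
  ⟨509, 24, 19, 6, 0, by decide +kernel⟩
def chk6_32 : Chk (box6.vC) (subst (sub pc6 ⟨true, false, true, false, false⟩) (strict (pc6.m2 false))) :=
  ⟨509, 24, 19, 6, 0, by decide +kernel⟩
def chk6_33 : Chk (box6.vC) (subst (sub pc6 ⟨true, false, true, false, true⟩) (strict (pc6.m2 false))) :=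
  ⟨509, 24, 19, 6, 0, by decide +kernel⟩
def chk6_34 : Chk (box6.vC) (subst (sub pc6 ⟨false, true, true, false, false⟩) (strict (pc6.m2 true))) :=
  ⟨506, 24, 19, 6, 0, by decide +kernel⟩
def chk6_35 : Chk (box6.vC) (subst (sub pc6 ⟨false, true, true, false, true⟩) (strict (pc6.m2 true))) :=
  ⟨506, 24, 19, 6, 0, by decide +kernel⟩
def chk6_36 : Chk (box6.vC) (subst (sub pc6 ⟨true, true, true, false, false⟩) (strict (pc6.m2 true))) :=
  ⟨506, 24, 19, 6, 0, by decide +kernel⟩
def chk6_37 : Chk (box6.vC) (subst (sub pc6 ⟨true, true, true, false, true⟩) (strict (pc6.m2 true))) :=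
  ⟨506, 24, 19, 6, 0, by decide +kernel⟩
def chk6_38 : Chk (box6.vC) (subst (sub pc6 ⟨false, false, true, true, false⟩) (strict (pc6.m3 false))) :=
  ⟨637, 31, 25, 6, 0, by decide +kernel⟩
def chk6_39 : Chk (box6.vC) (subst (sub pc6 ⟨false, false, true, true, true⟩) (strict (pc6.m3 false))) :=
  ⟨637, 31, 25, 6, 0, by decide +kernel⟩
def chk6_40 : Chk (box6.vC) (subst (sub pc6 ⟨false, true, true, true, false⟩) (strict (pc6.m3 false))) :=
  ⟨637, 31, 25, 6, 0, by decide +kernel⟩
def chk6_41 : Chk (box6.vC) (subst (sub pc6 ⟨false, true, true, true, true⟩) (strict (pc6.m3 false))) :=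
  ⟨637, 31, 25, 6, 0, by decide +kernel⟩
def chk6_42 : Chk (box6.vC) (subst (sub pc6 ⟨true, false, true, true, false⟩) (strict (pc6.m3 false))) :=
  ⟨637, 31, 25, 6, 0, by decide +kernel⟩
def chk6_43 : Chk (box6.vC) (subst (sub pc6 ⟨true, false, true, true, true⟩) (strict (pc6.m3 false))) :=
  ⟨637, 31, 25, 6, 0, by decide +kernel⟩
def chk6_44 : Chk (box6.vC) (subst (sub pc6 ⟨true, true, true, true, false⟩) (strict (pc6.m3 false))) :=
  ⟨637, 31, 25, 6, 0, by decide +kernel⟩
def chk6_45 : Chk (box6.vC) (subst (sub pc6 ⟨true, true, true, true, true⟩) (strict (pc6.m3 false))) :=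
  ⟨637, 31, 25, 6, 0, by decide +kernel⟩
def chk6_46 : Chk (box6.vC) (subst (sub pc6 ⟨false, false, true, true, false⟩) (strict (pc6.m3 true))) :=
  ⟨636, 31, 25, 6, 0, by decide +kernel⟩
def chk6_47 : Chk (box6.vC) (subst (sub pc6 ⟨false, false, true, true, true⟩) (strict (pc6.m3 true))) :=
  ⟨636, 31, 25, 6, 0, by decide +kernel⟩
def chk6_48 : Chk (box6.vC) (subst (sub pc6 ⟨false, true, true, true, false⟩) (strict (pc6.m3 true))) :=
  ⟨636, 31, 25, 6, 0, by decide +kernel⟩
def chk6_49 : Chk (box6.vC) (subst (sub pc6 ⟨false, true, true, true, true⟩) (strict (pc6.m3 true))) :=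
  ⟨636, 31, 25, 6, 0, by decide +kernel⟩
def chk6_50 : Chk (box6.vC) (subst (sub pc6 ⟨true, false, true, true, false⟩) (strict (pc6.m3 true))) :=
  ⟨636, 31, 25, 6, 0, by decide +kernel⟩
def chk6_51 : Chk (box6.vC) (subst (sub pc6 ⟨true, false, true, true, true⟩) (strict (pc6.m3 true))) :=
  ⟨636, 31, 25, 6, 0, by decide +kernel⟩
def chk6_52 : Chk (box6.vC) (subst (sub pc6 ⟨true, true, true, true, false⟩) (strict (pc6.m3 true))) :=
  ⟨636, 31, 25, 6, 0, by decide +kernel⟩
def chk6_53 : Chk (box6.vC) (subst (sub pc6 ⟨true, true, true, true, true⟩) (strict (pc6.m3 true))) :=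
  ⟨636, 31, 25, 6, 0, by decide +kernel⟩
def chk6_54 : Chk (box6.vC) (subst (sub pc6 ⟨false, false, true, true, false⟩) (negEx coMG12)) :=
  ⟨118, 5, 5, 4, 0, by decide +kernel⟩
def chk6_55 : Chk (box6.vC) (subst (sub pc6 ⟨false, false, true, true, false⟩) (negEx (pc6.curve2 false))) :=
  ⟨124, 5, 5, 4, 0, by decide +kernel⟩
def chk6_56 : Chk (box6.vC) (subst (sub pc6 ⟨false, false, true, true, false⟩) (negEx (pc6.curve2 true))) :=
  ⟨121, 5, 5, 4, 0, by decide +kernel⟩
def chk6_57 : Chk (box6.vC) (subst (sub pc6 ⟨false, false, true, true, false⟩) (negEx (pc6.curve3 false))) :=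
  ⟨136, 6, 6, 4, 0, by decide +kernel⟩
def chk6_58 : Chk (box6.vC) (subst (sub pc6 ⟨false, false, true, true, false⟩) (negEx (pc6.curve3 true))) :=
  ⟨135, 6, 6, 4, 0, by decide +kernel⟩
def chk6_59 : Chk (box6.vC) (subst (sub pc6 ⟨false, false, true, true, false⟩) (slopeT)) :=
  ⟨140, 7, 6, 4, 0, by decide +kernel⟩
def chk6_60 : Chk (box6.vC) (subst (sub pc6 ⟨true, false, true, true, false⟩) (slopeT)) :=
  ⟨140, 7, 6, 4, 0, by decide +kernel⟩
def chk6_61 : Chk (box6.gC true) (subst (gapSub pc6 true false false) tplL) :=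
  ⟨386, 22, 17, 5, 2, by decide +kernel⟩
def chk6_62 : Chk (box6.gC true) (subst (gapSub pc6 true false true) tplL) :=
  ⟨386, 22, 17, 5, 2, by decide +kernel⟩
def chk6_63 : Chk (box6.gC true) (subst (gapSub pc6 true true false) tplL) :=
  ⟨386, 22, 17, 5, 2, by decide +kernel⟩
def chk6_64 : Chk (box6.gC true) (subst (gapSub pc6 true true true) tplL) :=
  ⟨386, 22, 17, 5, 2, by decide +kernel⟩

/-- Piece 6 passes. -/
theorem cert6 : Cert pc6 box6 true where
  pos := by
    refine ⟨⟨⟨?_, ?_, ?_, ?_, ?_, ?_, ?_⟩, ?_, ?_, ?_, ?_, ?_, ?_, ?_, ?_, ?_, ?_, ?_⟩, ?_, ?_⟩ <;>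
      norm_num [fr, pc6]
  gX := fun p l => match p, l with
    | false, false => chk6_18
    | false, true => chk6_19
    | true, false => chk6_20
    | true, true => chk6_21
  gMG := fun p l => match p, l with
    | false, false => chk6_22
    | false, true => chk6_23
    | true, false => chk6_24
    | true, true => chk6_25
  g1 := fun p l => match p, l with
    | false, false => chk6_26
    | false, true => chk6_27
    | true, false => chk6_28
    | true, true => chk6_29
  g2 := fun s p t => match s, p, t with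
    | false, false, false => chk6_30
    | false, false, true => chk6_31
    | false, true, false => chk6_32
    | false, true, true => chk6_33
    | true, false, false => chk6_34
    | true, false, true => chk6_35
    | true, true, false => chk6_36
    | true, true, true => chk6_37
  g3 := fun s p l t => match s, p, l, t with
    | false, false, false, false => chk6_38
    | false, false, false, true => chk6_39
    | false, false, true, false => chk6_40
    | false, false, true, true => chk6_41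
    | false, true, false, false => chk6_42
    | false, true, false, true => chk6_43
    | false, true, true, false => chk6_44
    | false, true, true, true => chk6_45
    | true, false, false, false => chk6_46
    | true, false, false, true => chk6_47
    | true, false, true, false => chk6_48
    | true, false, true, true => chk6_49
    | true, true, false, false => chk6_50
    | true, true, false, true => chk6_51
    | true, true, true, false => chk6_52
    | true, true, true, true => chk6_53
  cMG := chk6_54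
  c2 := fun s => match s with
    | false => chk6_55
    | true => chk6_56
  c3 := fun s => match s with
    | false => chk6_57
    | true => chk6_58
  sT := fun p => match p with
    | false => chk6_59
    | true => chk6_60
  bnd := fun ze b => match ze, b with
    | false, .l0 => chk6_0
    | false, .l1 => chk6_1
    | false, .r => chk6_2
    | false, .g0 => chk6_3
    | false, .g1 => chk6_4
    | false, .t0 => chk6_5
    | false, .t1 => chk6_6
    | false, .w0 => chk6_7
    | false, .w1 => chk6_8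
    | true, .l0 => chk6_9
    | true, .l1 => chk6_10
    | true, .r => chk6_11
    | true, .g0 => chk6_12
    | true, .g1 => chk6_13
    | true, .t0 => chk6_14
    | true, .t1 => chk6_15
    | true, .w0 => chk6_16
    | true, .w1 => chk6_17
  gap := fun ze t => match ze, t with
    | false, false => chk6_61
    | false, true => chk6_62
    | true, false => chk6_63
    | true, true => chk6_64

end Vale.Agent.P100.Calib.StripMid
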