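import Vale.Agent.P100.Calib.SlabStripMidChart

/-!
# The checks of piece 7 below 153/200
-/

set_option linter.defProp false

namespace Vale.Agent.P100.Calib.StripMid

open Pack

/-- The numbers of piece 7. -/
def pc7 : Piece := ⟨.D, (1, 10), (33, 100), (1, 2), (13, 100), (3, 1), (667, 500), (91, 50), (983, 1000), (118, -75, 125), (20, -3, 20), 72, (229,510,684,10), (61, 40), (949, 500), (1, 2), (1, 1), (7, 2)⟩

/-- The ranges of piece 7. -/
def box7 : Box := ⟨(0, 1, 20), (18, 29, 100), (0, 28, 25), (13, 300, 100), (10, 33, 100)⟩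

def chk7_0 : Chk (box7.cC) (bound pc7 false .l0) :=
  ⟨199, 13, 9, 2, 3, by decide +kernel⟩
def chk7_1 : Chk (box7.cC) (bound pc7 false .l1) :=
  ⟨196, 13, 9, 2, 3, by decide +kernel⟩
def chk7_2 : Chk (box7.cC) (bound pc7 false .r) :=
  ⟨199, 13, 9, 2, 3, by decide +kernel⟩
def chk7_3 : Chk (box7.cC) (bound pc7 false .g0) :=
  ⟨79, 4, 3, 1, 2, by decide +kernel⟩
def chk7_4 : Chk (box7.cC) (bound pc7 false .g1) :=
  ⟨82, 4, 3, 1, 2, by decide +kernel⟩
def chk7_5 : Chk (box7.cC) (bound pc7 false .t0) :=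
  ⟨129, 6, 6, 2, 3, by decide +kernel⟩
def chk7_6 : Chk (box7.cC) (bound pc7 false .t1) :=
  ⟨126, 6, 6, 2, 3, by decide +kernel⟩
def chk7_7 : Chk (box7.cC) (bound pc7 false .w0) :=
  ⟨171, 10, 7, 3, 4, by decide +kernel⟩
def chk7_8 : Chk (box7.cC) (bound pc7 false .w1) :=
  ⟨174, 10, 7, 3, 4, by decide +kernel⟩
def chk7_9 : Chk (box7.cC) (bound pc7 true .l0) :=
  ⟨199, 13, 9, 2, 3, by decide +kernel⟩
def chk7_10 : Chk (box7.cC) (bound pc7 true .l1) :=
  ⟨196, 13, 9, 2, 3, by decide +kernel⟩
def chk7_11 : Chk (box7.cC) (bound pc7 true .r) :=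
  ⟨199, 13, 9, 2, 3, by decide +kernel⟩
def chk7_12 : Chk (box7.cC) (bound pc7 true .g0) :=
  ⟨79, 4, 3, 1, 2, by decide +kernel⟩
def chk7_13 : Chk (box7.cC) (bound pc7 true .g1) :=
  ⟨82, 4, 3, 1, 2, by decide +kernel⟩
def chk7_14 : Chk (box7.cC) (bound pc7 true .t0) :=
  ⟨129, 6, 6, 2, 3, by decide +kernel⟩
def chk7_15 : Chk (box7.cC) (bound pc7 true .t1) :=
  ⟨126, 6, 6, 2, 3, by decide +kernel⟩
def chk7_16 : Chk (box7.cC) (bound pc7 true .w0) :=
  ⟨171, 10, 7, 3, 4, by decide +kernel⟩
def chk7_17 : Chk (box7.cC) (bound pc7 true .w1) :=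
  ⟨174, 10, 7, 3, 4, by decide +kernel⟩
def chk7_18 : Chk (box7.vC) (subst (sub pc7 ⟨false, false, true, true, false⟩) (condX)) :=
  ⟨212, 13, 10, 4, 0, by decide +kernel⟩
def chk7_19 : Chk (box7.vC) (subst (sub pc7 ⟨false, true, true, true, false⟩) (condX)) :=
  ⟨209, 13, 10, 4, 0, by decide +kernel⟩
def chk7_20 : Chk (box7.vC) (subst (sub pc7 ⟨true, false, true, true, false⟩) (condX)) :=
  ⟨212, 13, 10, 4, 0, by decide +kernel⟩
def chk7_21 : Chk (box7.vC) (subst (sub pc7 ⟨true, true, true, true, false⟩) (condX)) :=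
  ⟨209, 13, 10, 4, 0, by decide +kernel⟩
def chk7_22 : Chk (box7.vC) (subst (sub pc7 ⟨false, false, true, false, false⟩) (tplMG)) :=
  ⟨400, 26, 20, 6, 0, by decide +kernel⟩
def chk7_23 : Chk (box7.vC) (subst (sub pc7 ⟨false, true, true, false, false⟩) (tplMG)) :=
  ⟨394, 26, 20, 6, 0, by decide +kernel⟩
def chk7_24 : Chk (box7.vC) (subst (sub pc7 ⟨true, false, true, false, false⟩) (tplMG)) :=
  ⟨400, 26, 20, 6, 0, by decide +kernel⟩
def chk7_25 : Chk (box7.vC) (subst (sub pc7 ⟨true, true, true, false, false⟩) (tplMG)) :=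
  ⟨394, 26, 20, 6, 0, by decide +kernel⟩
def chk7_26 : Chk (box7.vC) (subst (sub pc7 ⟨false, false, false, false, false⟩) (pc7.m1)) :=
  ⟨277, 17, 14, 4, 0, by decide +kernel⟩
def chk7_27 : Chk (box7.vC) (subst (sub pc7 ⟨false, true, false, false, false⟩) (pc7.m1)) :=
  ⟨274, 17, 14, 4, 0, by decide +kernel⟩
def chk7_28 : Chk (box7.vC) (subst (sub pc7 ⟨true, false, false, false, false⟩) (pc7.m1)) :=
  ⟨277, 17, 14, 4, 0, by decide +kernel⟩
def chk7_29 : Chk (box7.vC) (subst (sub pc7 ⟨true, true, false, false, false⟩) (pc7.m1)) :=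
  ⟨274, 17, 14, 4, 0, by decide +kernel⟩
def chk7_30 : Chk (box7.vC) (subst (sub pc7 ⟨false, false, true, false, false⟩) (strict (pc7.m2 false))) :=
  ⟨435, 24, 19, 6, 0, by decide +kernel⟩
def chk7_31 : Chk (box7.vC) (subst (sub pc7 ⟨false, false, true, false, true⟩) (strict (pc7.m2 false))) :=
  ⟨430, 24, 19, 6, 0, by decide +kernel⟩
def chk7_32 : Chk (box7.vC) (subst (sub pc7 ⟨true, false, true, false, false⟩) (strict (pc7.m2 false))) :=
  ⟨435, 24, 19, 6, 0, by decide +kernel⟩
def chk7_33 : Chk (box7.vC) (subst (sub pc7 ⟨true, false, true, false, true⟩) (strict (pc7.m2 false))) :=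
  ⟨430, 24, 19, 6, 0, by decide +kernel⟩
def chk7_34 : Chk (box7.vC) (subst (sub pc7 ⟨false, true, true, false, false⟩) (strict (pc7.m2 true))) :=
  ⟨429, 24, 19, 6, 0, by decide +kernel⟩
def chk7_35 : Chk (box7.vC) (subst (sub pc7 ⟨false, true, true, false, true⟩) (strict (pc7.m2 true))) :=
  ⟨424, 24, 19, 6, 0, by decide +kernel⟩
def chk7_36 : Chk (box7.vC) (subst (sub pc7 ⟨true, true, true, false, false⟩) (strict (pc7.m2 true))) :=
  ⟨429, 24, 19, 6, 0, by decide +kernel⟩
def chk7_37 : Chk (box7.vC) (subst (sub pc7 ⟨true, true, true, false, true⟩) (strict (pc7.m2 true))) :=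
  ⟨424, 24, 19, 6, 0, by decide +kernel⟩
def chk7_38 : Chk (box7.vC) (subst (sub pc7 ⟨false, false, true, true, false⟩) (strict (pc7.m3 false))) :=
  ⟨541, 31, 25, 6, 0, by decide +kernel⟩
def chk7_39 : Chk (box7.vC) (subst (sub pc7 ⟨false, false, true, true, true⟩) (strict (pc7.m3 false))) :=
  ⟨539, 31, 25, 6, 0, by decide +kernel⟩
def chk7_40 : Chk (box7.vC) (subst (sub pc7 ⟨false, true, true, true, false⟩) (strict (pc7.m3 false))) :=
  ⟨535, 31, 25, 6, 0, by decide +kernel⟩
def chk7_41 : Chk (box7.vC) (subst (sub pc7 ⟨false, true, true, true, true⟩) (strict (pc7.m3 false))) :=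
  ⟨532, 31, 25, 6, 0, by decide +kernel⟩
def chk7_42 : Chk (box7.vC) (subst (sub pc7 ⟨true, false, true, true, false⟩) (strict (pc7.m3 false))) :=
  ⟨541, 31, 25, 6, 0, by decide +kernel⟩
def chk7_43 : Chk (box7.vC) (subst (sub pc7 ⟨true, false, true, true, true⟩) (strict (pc7.m3 false))) :=
  ⟨539, 31, 25, 6, 0, by decide +kernel⟩
def chk7_44 : Chk (box7.vC) (subst (sub pc7 ⟨true, true, true, true, false⟩) (strict (pc7.m3 false))) :=
  ⟨535, 31, 25, 6, 0, by decide +kernel⟩
def chk7_45 : Chk (box7.vC) (subst (sub pc7 ⟨true, true, true, true, true⟩) (strict (pc7.m3 false))) :=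
  ⟨532, 31, 25, 6, 0, by decide +kernel⟩
def chk7_46 : Chk (box7.vC) (subst (sub pc7 ⟨false, false, true, true, false⟩) (strict (pc7.m3 true))) :=
  ⟨540, 31, 25, 6, 0, by decide +kernel⟩
def chk7_47 : Chk (box7.vC) (subst (sub pc7 ⟨false, false, true, true, true⟩) (strict (pc7.m3 true))) :=
  ⟨537, 31, 25, 6, 0, by decide +kernel⟩
def chk7_48 : Chk (box7.vC) (subst (sub pc7 ⟨false, true, true, true, false⟩) (strict (pc7.m3 true))) :=
  ⟨533, 31, 25, 6, 0, by decide +kernel⟩
def chk7_49 : Chk (box7.vC) (subst (sub pc7 ⟨false, true, true, true, true⟩) (strict (pc7.m3 true))) :=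
  ⟨531, 31, 25, 6, 0, by decide +kernel⟩
def chk7_50 : Chk (box7.vC) (subst (sub pc7 ⟨true, false, true, true, false⟩) (strict (pc7.m3 true))) :=
  ⟨540, 31, 25, 6, 0, by decide +kernel⟩
def chk7_51 : Chk (box7.vC) (subst (sub pc7 ⟨true, false, true, true, true⟩) (strict (pc7.m3 true))) :=
  ⟨537, 31, 25, 6, 0, by decide +kernel⟩
def chk7_52 : Chk (box7.vC) (subst (sub pc7 ⟨true, true, true, true, false⟩) (strict (pc7.m3 true))) :=
  ⟨533, 31, 25, 6, 0, by decide +kernel⟩
def chk7_53 : Chk (box7.vC) (subst (sub pc7 ⟨true, true, true, true, true⟩) (strict (pc7.m3 true))) :=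
  ⟨531, 31, 25, 6, 0, by decide +kernel⟩
def chk7_54 : Chk (box7.vC) (subst (sub pc7 ⟨false, false, true, true, false⟩) (negEx coMG12)) :=
  ⟨93, 5, 5, 4, 0, by decide +kernel⟩
def chk7_55 : Chk (box7.vC) (subst (sub pc7 ⟨false, false, true, true, false⟩) (negEx (pc7.curve2 false))) :=
  ⟨99, 5, 5, 4, 0, by decide +kernel⟩
def chk7_56 : Chk (box7.vC) (subst (sub pc7 ⟨false, false, true, true, false⟩) (negEx (pc7.curve2 true))) :=
  ⟨96, 5, 5, 4, 0, by decide +kernel⟩
def chk7_57 : Chk (box7.vC) (subst (sub pc7 ⟨false, false, true, true, false⟩) (negEx (pc7.curve3 false))) :=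
  ⟨108, 6, 6, 4, 0, by decide +kernel⟩
def chk7_58 : Chk (box7.vC) (subst (sub pc7 ⟨false, false, true, true, false⟩) (negEx (pc7.curve3 true))) :=
  ⟨107, 6, 6, 4, 0, by decide +kernel⟩
def chk7_59 : Chk (box7.vC) (subst (sub pc7 ⟨false, false, true, true, false⟩) (slopeT)) :=
  ⟨113, 7, 6, 4, 0, by decide +kernel⟩
def chk7_60 : Chk (box7.vC) (subst (sub pc7 ⟨true, false, true, true, false⟩) (slopeT)) :=
  ⟨113, 7, 6, 4, 0, by decide +kernel⟩
def chk7_61 : Chk (box7.gC true) (subst (gapSub pc7 true false false) tplL) :=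
  ⟨319, 22, 17, 5, 2, by decide +kernel⟩
def chk7_62 : Chk (box7.gC true) (subst (gapSub pc7 true false true) tplL) :=
  ⟨316, 22, 17, 5, 2, by decide +kernel⟩
def chk7_63 : Chk (box7.gC true) (subst (gapSub pc7 true true false) tplL) :=
  ⟨319, 22, 17, 5, 2, by decide +kernel⟩
def chk7_64 : Chk (box7.gC true) (subst (gapSub pc7 true true true) tplL) :=
  ⟨316, 22, 17, 5, 2, by decide +kernel⟩

/-- Piece 7 passes. -/
theorem cert7 : Cert pc7 box7 true where
  pos := by
    refine ⟨⟨⟨?_, ?_, ?_, ?_, ?_, ?_, ?_⟩, ?_, ?_, ?_, ?_, ?_, ?_, ?_, ?_, ?_, ?_, ?_⟩, ?_, ?_⟩ <;>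
      norm_num [fr, pc7]
  gX := fun p l => match p, l with
    | false, false => chk7_18
    | false, true => chk7_19
    | true, false => chk7_20
    | true, true => chk7_21
  gMG := fun p l => match p, l with
    | false, false => chk7_22
    | false, true => chk7_23
    | true, false => chk7_24
    | true, true => chk7_25
  g1 := fun p l => match p, l with
    | false, false => chk7_26
    | false, true => chk7_27
    | true, false => chk7_28
    | true, true => chk7_29
  g2 := fun s p t => match s, p, t with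
    | false, false, false => chk7_30
    | false, false, true => chk7_31
    | false, true, false => chk7_32
    | false, true, true => chk7_33
    | true, false, false => chk7_34
    | true, false, true => chk7_35
    | true, true, false => chk7_36
    | true, true, true => chk7_37
  g3 := fun s p l t => match s, p, l, t with
    | false, false, false, false => chk7_38
    | false, false, false, true => chk7_39
    | false, false, true, false => chk7_40
    | false, false, true, true => chk7_41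
    | false, true, false, false => chk7_42
    | false, true, false, true => chk7_43
    | false, true, true, false => chk7_44
    | false, true, true, true => chk7_45
    | true, false, false, false => chk7_46
    | true, false, false, true => chk7_47
    | true, false, true, false => chk7_48
    | true, false, true, true => chk7_49
    | true, true, false, false => chk7_50
    | true, true, false, true => chk7_51
    | true, true, true, false => chk7_52
    | true, true, true, true => chk7_53
  cMG := chk7_54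
  c2 := fun s => match s with
    | false => chk7_55
    | true => chk7_56
  c3 := fun s => match s with
    | false => chk7_57
    | true => chk7_58
  sT := fun p => match p with
    | false => chk7_59
    | true => chk7_60
  bnd := fun ze b => match ze, b with
    | false, .l0 => chk7_0
    | false, .l1 => chk7_1
    | false, .r => chk7_2
    | false, .g0 => chk7_3
    | false, .g1 => chk7_4
    | false, .t0 => chk7_5
    | false, .t1 => chk7_6
    | false, .w0 => chk7_7
    | false, .w1 => chk7_8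
    | true, .l0 => chk7_9
    | true, .l1 => chk7_10
    | true, .r => chk7_11
    | true, .g0 => chk7_12
    | true, .g1 => chk7_13
    | true, .t0 => chk7_14
    | true, .t1 => chk7_15
    | true, .w0 => chk7_16
    | true, .w1 => chk7_17
  gap := fun ze t => match ze, t with
    | false, false => chk7_61
    | false, true => chk7_62
    | true, false => chk7_63
    | true, true => chk7_64

end Vale.Agent.P100.Calib.StripMid
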