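import Vale.Agent.P100.Calib.SlabStripMidChart

/-!
# The checks of piece 8 below 153/200
-/

set_option linter.defProp false

namespace Vale.Agent.P100.Calib.StripMid

open Pack

/-- The numbers of piece 8. -/
def pc8 : Piece := ⟨.D, (1, 10), (33, 100), (1, 2), (13, 100), (3, 1), (667, 500), (91, 50), (491, 500), (91, -45, 100), (502, -75, 500), 65, (108,120,289,5), (202, 125), (959, 500), (9, 20), (1, 1), (11, 4)⟩

/-- The ranges of piece 8. -/
def box8 : Box := ⟨(0, 9, 200), (29, 38, 100), (0, 23, 25), (13, 300, 100), (10, 33, 100)⟩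

def chk8_0 : Chk (box8.cC) (bound pc8 false .l0) :=
  ⟨243, 13, 9, 2, 3, by decide +kernel⟩
def chk8_1 : Chk (box8.cC) (bound pc8 false .l1) :=
  ⟨239, 13, 9, 2, 3, by decide +kernel⟩
def chk8_2 : Chk (box8.cC) (bound pc8 false .r) :=
  ⟨242, 13, 9, 2, 3, by decide +kernel⟩
def chk8_3 : Chk (box8.cC) (bound pc8 false .g0) :=
  ⟨94, 4, 3, 1, 2, by decide +kernel⟩
def chk8_4 : Chk (box8.cC) (bound pc8 false .g1) :=
  ⟨96, 4, 3, 1, 2, by decide +kernel⟩
def chk8_5 : Chk (box8.cC) (bound pc8 false .t0) :=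
  ⟨149, 6, 6, 2, 3, by decide +kernel⟩
def chk8_6 : Chk (box8.cC) (bound pc8 false .t1) :=
  ⟨151, 6, 6, 2, 3, by decide +kernel⟩
def chk8_7 : Chk (box8.cC) (bound pc8 false .w0) :=
  ⟨204, 10, 7, 3, 4, by decide +kernel⟩
def chk8_8 : Chk (box8.cC) (bound pc8 false .w1) :=
  ⟨206, 10, 7, 3, 4, by decide +kernel⟩
def chk8_9 : Chk (box8.cC) (bound pc8 true .l0) :=
  ⟨243, 13, 9, 2, 3, by decide +kernel⟩
def chk8_10 : Chk (box8.cC) (bound pc8 true .l1) :=
  ⟨239, 13, 9, 2, 3, by decide +kernel⟩
def chk8_11 : Chk (box8.cC) (bound pc8 true .r) :=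
  ⟨242, 13, 9, 2, 3, by decide +kernel⟩
def chk8_12 : Chk (box8.cC) (bound pc8 true .g0) :=
  ⟨94, 4, 3, 1, 2, by decide +kernel⟩
def chk8_13 : Chk (box8.cC) (bound pc8 true .g1) :=
  ⟨96, 4, 3, 1, 2, by decide +kernel⟩
def chk8_14 : Chk (box8.cC) (bound pc8 true .t0) :=
  ⟨149, 6, 6, 2, 3, by decide +kernel⟩
def chk8_15 : Chk (box8.cC) (bound pc8 true .t1) :=
  ⟨151, 6, 6, 2, 3, by decide +kernel⟩
def chk8_16 : Chk (box8.cC) (bound pc8 true .w0) :=
  ⟨204, 10, 7, 3, 4, by decide +kernel⟩
def chk8_17 : Chk (box8.cC) (bound pc8 true .w1) :=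
  ⟨206, 10, 7, 3, 4, by decide +kernel⟩
def chk8_18 : Chk (box8.vC) (subst (sub pc8 ⟨false, false, true, true, false⟩) (condX)) :=
  ⟨253, 13, 10, 4, 0, by decide +kernel⟩
def chk8_19 : Chk (box8.vC) (subst (sub pc8 ⟨false, true, true, true, false⟩) (condX)) :=
  ⟨250, 13, 10, 4, 0, by decide +kernel⟩
def chk8_20 : Chk (box8.vC) (subst (sub pc8 ⟨true, false, true, true, false⟩) (condX)) :=
  ⟨253, 13, 10, 4, 0, by decide +kernel⟩
def chk8_21 : Chk (box8.vC) (subst (sub pc8 ⟨true, true, true, true, false⟩) (condX)) :=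
  ⟨250, 13, 10, 4, 0, by decide +kernel⟩
def chk8_22 : Chk (box8.vC) (subst (sub pc8 ⟨false, false, true, false, false⟩) (tplMG)) :=
  ⟨486, 26, 20, 6, 0, by decide +kernel⟩
def chk8_23 : Chk (box8.vC) (subst (sub pc8 ⟨false, true, true, false, false⟩) (tplMG)) :=
  ⟨479, 26, 20, 6, 0, by decide +kernel⟩
def chk8_24 : Chk (box8.vC) (subst (sub pc8 ⟨true, false, true, false, false⟩) (tplMG)) :=
  ⟨486, 26, 20, 6, 0, by decide +kernel⟩
def chk8_25 : Chk (box8.vC) (subst (sub pc8 ⟨true, true, true, false, false⟩) (tplMG)) :=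
  ⟨479, 26, 20, 6, 0, by decide +kernel⟩
def chk8_26 : Chk (box8.vC) (subst (sub pc8 ⟨false, false, false, false, false⟩) (pc8.m1)) :=
  ⟨336, 17, 14, 4, 0, by decide +kernel⟩
def chk8_27 : Chk (box8.vC) (subst (sub pc8 ⟨false, true, false, false, false⟩) (pc8.m1)) :=
  ⟨333, 17, 14, 4, 0, by decide +kernel⟩
def chk8_28 : Chk (box8.vC) (subst (sub pc8 ⟨true, false, false, false, false⟩) (pc8.m1)) :=
  ⟨336, 17, 14, 4, 0, by decide +kernel⟩
def chk8_29 : Chk (box8.vC) (subst (sub pc8 ⟨true, true, false, false, false⟩) (pc8.m1)) :=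
  ⟨333, 17, 14, 4, 0, by decide +kernel⟩
def chk8_30 : Chk (box8.vC) (subst (sub pc8 ⟨false, false, true, false, false⟩) (strict (pc8.m2 false))) :=
  ⟨516, 24, 19, 6, 0, by decide +kernel⟩
def chk8_31 : Chk (box8.vC) (subst (sub pc8 ⟨false, false, true, false, true⟩) (strict (pc8.m2 false))) :=
  ⟨521, 24, 19, 6, 0, by decide +kernel⟩
def chk8_32 : Chk (box8.vC) (subst (sub pc8 ⟨true, false, true, false, false⟩) (strict (pc8.m2 false))) :=
  ⟨516, 24, 19, 6, 0, by decide +kernel⟩
def chk8_33 : Chk (box8.vC) (subst (sub pc8 ⟨true, false, true, false, true⟩) (strict (pc8.m2 false))) :=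
  ⟨521, 24, 19, 6, 0, by decide +kernel⟩
def chk8_34 : Chk (box8.vC) (subst (sub pc8 ⟨false, true, true, false, false⟩) (strict (pc8.m2 true))) :=
  ⟨510, 24, 19, 6, 0, by decide +kernel⟩
def chk8_35 : Chk (box8.vC) (subst (sub pc8 ⟨false, true, true, false, true⟩) (strict (pc8.m2 true))) :=
  ⟨514, 24, 19, 6, 0, by decide +kernel⟩
def chk8_36 : Chk (box8.vC) (subst (sub pc8 ⟨true, true, true, false, false⟩) (strict (pc8.m2 true))) :=
  ⟨510, 24, 19, 6, 0, by decide +kernel⟩
def chk8_37 : Chk (box8.vC) (subst (sub pc8 ⟨true, true, true, false, true⟩) (strict (pc8.m2 true))) :=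
  ⟨514, 24, 19, 6, 0, by decide +kernel⟩
def chk8_38 : Chk (box8.vC) (subst (sub pc8 ⟨false, false, true, true, false⟩) (strict (pc8.m3 false))) :=
  ⟨650, 31, 25, 6, 0, by decide +kernel⟩
def chk8_39 : Chk (box8.vC) (subst (sub pc8 ⟨false, false, true, true, true⟩) (strict (pc8.m3 false))) :=
  ⟨653, 31, 25, 6, 0, by decide +kernel⟩
def chk8_40 : Chk (box8.vC) (subst (sub pc8 ⟨false, true, true, true, false⟩) (strict (pc8.m3 false))) :=
  ⟨644, 31, 25, 6, 0, by decide +kernel⟩
def chk8_41 : Chk (box8.vC) (subst (sub pc8 ⟨false, true, true, true, true⟩) (strict (pc8.m3 false))) :=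
  ⟨646, 31, 25, 6, 0, by decide +kernel⟩
def chk8_42 : Chk (box8.vC) (subst (sub pc8 ⟨true, false, true, true, false⟩) (strict (pc8.m3 false))) :=
  ⟨650, 31, 25, 6, 0, by decide +kernel⟩
def chk8_43 : Chk (box8.vC) (subst (sub pc8 ⟨true, false, true, true, true⟩) (strict (pc8.m3 false))) :=
  ⟨653, 31, 25, 6, 0, by decide +kernel⟩
def chk8_44 : Chk (box8.vC) (subst (sub pc8 ⟨true, true, true, true, false⟩) (strict (pc8.m3 false))) :=
  ⟨644, 31, 25, 6, 0, by decide +kernel⟩
def chk8_45 : Chk (box8.vC) (subst (sub pc8 ⟨true, true, true, true, true⟩) (strict (pc8.m3 false))) :=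
  ⟨646, 31, 25, 6, 0, by decide +kernel⟩
def chk8_46 : Chk (box8.vC) (subst (sub pc8 ⟨false, false, true, true, false⟩) (strict (pc8.m3 true))) :=
  ⟨648, 31, 25, 6, 0, by decide +kernel⟩
def chk8_47 : Chk (box8.vC) (subst (sub pc8 ⟨false, false, true, true, true⟩) (strict (pc8.m3 true))) :=
  ⟨650, 31, 25, 6, 0, by decide +kernel⟩
def chk8_48 : Chk (box8.vC) (subst (sub pc8 ⟨false, true, true, true, false⟩) (strict (pc8.m3 true))) :=
  ⟨641, 31, 25, 6, 0, by decide +kernel⟩
def chk8_49 : Chk (box8.vC) (subst (sub pc8 ⟨false, true, true, true, true⟩) (strict (pc8.m3 true))) :=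
  ⟨643, 31, 25, 6, 0, by decide +kernel⟩
def chk8_50 : Chk (box8.vC) (subst (sub pc8 ⟨true, false, true, true, false⟩) (strict (pc8.m3 true))) :=
  ⟨648, 31, 25, 6, 0, by decide +kernel⟩
def chk8_51 : Chk (box8.vC) (subst (sub pc8 ⟨true, false, true, true, true⟩) (strict (pc8.m3 true))) :=
  ⟨650, 31, 25, 6, 0, by decide +kernel⟩
def chk8_52 : Chk (box8.vC) (subst (sub pc8 ⟨true, true, true, true, false⟩) (strict (pc8.m3 true))) :=
  ⟨641, 31, 25, 6, 0, by decide +kernel⟩
def chk8_53 : Chk (box8.vC) (subst (sub pc8 ⟨true, true, true, true, true⟩) (strict (pc8.m3 true))) :=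
  ⟨644, 31, 25, 6, 0, by decide +kernel⟩
def chk8_54 : Chk (box8.vC) (subst (sub pc8 ⟨false, false, true, true, false⟩) (negEx coMG12)) :=
  ⟨110, 5, 5, 4, 0, by decide +kernel⟩
def chk8_55 : Chk (box8.vC) (subst (sub pc8 ⟨false, false, true, true, false⟩) (negEx (pc8.curve2 false))) :=
  ⟨116, 5, 5, 4, 0, by decide +kernel⟩
def chk8_56 : Chk (box8.vC) (subst (sub pc8 ⟨false, false, true, true, false⟩) (negEx (pc8.curve2 true))) :=
  ⟨113, 5, 5, 4, 0, by decide +kernel⟩
def chk8_57 : Chk (box8.vC) (subst (sub pc8 ⟨false, false, true, true, false⟩) (negEx (pc8.curve3 false))) :=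
  ⟨129, 6, 6, 4, 0, by decide +kernel⟩
def chk8_58 : Chk (box8.vC) (subst (sub pc8 ⟨false, false, true, true, false⟩) (negEx (pc8.curve3 true))) :=
  ⟨127, 6, 6, 4, 0, by decide +kernel⟩
def chk8_59 : Chk (box8.vC) (subst (sub pc8 ⟨false, false, true, true, false⟩) (slopeT)) :=
  ⟨137, 7, 6, 4, 0, by decide +kernel⟩
def chk8_60 : Chk (box8.vC) (subst (sub pc8 ⟨true, false, true, true, false⟩) (slopeT)) :=
  ⟨137, 7, 6, 4, 0, by decide +kernel⟩
def chk8_61 : Chk (box8.gC true) (subst (gapSub pc8 true false false) tplL) :=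
  ⟨393, 22, 17, 5, 2, by decide +kernel⟩
def chk8_62 : Chk (box8.gC true) (subst (gapSub pc8 true false true) tplL) :=
  ⟨395, 22, 17, 5, 2, by decide +kernel⟩
def chk8_63 : Chk (box8.gC true) (subst (gapSub pc8 true true false) tplL) :=
  ⟨393, 22, 17, 5, 2, by decide +kernel⟩
def chk8_64 : Chk (box8.gC true) (subst (gapSub pc8 true true true) tplL) :=
  ⟨395, 22, 17, 5, 2, by decide +kernel⟩

/-- Piece 8 passes. -/
theorem cert8 : Cert pc8 box8 true where
  pos := by
    refine ⟨⟨⟨?_, ?_, ?_, ?_, ?_, ?_, ?_⟩, ?_, ?_, ?_, ?_, ?_, ?_, ?_, ?_, ?_, ?_, ?_⟩, ?_, ?_⟩ <;>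
      norm_num [fr, pc8]
  gX := fun p l => match p, l with
    | false, false => chk8_18
    | false, true => chk8_19
    | true, false => chk8_20
    | true, true => chk8_21
  gMG := fun p l => match p, l with
    | false, false => chk8_22
    | false, true => chk8_23
    | true, false => chk8_24
    | true, true => chk8_25
  g1 := fun p l => match p, l with
    | false, false => chk8_26
    | false, true => chk8_27
    | true, false => chk8_28
    | true, true => chk8_29
  g2 := fun s p t => match s, p, t with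
    | false, false, false => chk8_30
    | false, false, true => chk8_31
    | false, true, false => chk8_32
    | false, true, true => chk8_33
    | true, false, false => chk8_34
    | true, false, true => chk8_35
    | true, true, false => chk8_36
    | true, true, true => chk8_37
  g3 := fun s p l t => match s, p, l, t with
    | false, false, false, false => chk8_38
    | false, false, false, true => chk8_39
    | false, false, true, false => chk8_40
    | false, false, true, true => chk8_41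
    | false, true, false, false => chk8_42
    | false, true, false, true => chk8_43
    | false, true, true, false => chk8_44
    | false, true, true, true => chk8_45
    | true, false, false, false => chk8_46
    | true, false, false, true => chk8_47
    | true, false, true, false => chk8_48
    | true, false, true, true => chk8_49
    | true, true, false, false => chk8_50
    | true, true, false, true => chk8_51
    | true, true, true, false => chk8_52
    | true, true, true, true => chk8_53
  cMG := chk8_54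
  c2 := fun s => match s with
    | false => chk8_55
    | true => chk8_56
  c3 := fun s => match s with
    | false => chk8_57
    | true => chk8_58
  sT := fun p => match p with
    | false => chk8_59
    | true => chk8_60
  bnd := fun ze b => match ze, b with
    | false, .l0 => chk8_0
    | false, .l1 => chk8_1
    | false, .r => chk8_2
    | false, .g0 => chk8_3
    | false, .g1 => chk8_4
    | false, .t0 => chk8_5
    | false, .t1 => chk8_6
    | false, .w0 => chk8_7
    | false, .w1 => chk8_8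
    | true, .l0 => chk8_9
    | true, .l1 => chk8_10
    | true, .r => chk8_11
    | true, .g0 => chk8_12
    | true, .g1 => chk8_13
    | true, .t0 => chk8_14
    | true, .t1 => chk8_15
    | true, .w0 => chk8_16
    | true, .w1 => chk8_17
  gap := fun ze t => match ze, t with
    | false, false => chk8_61
    | false, true => chk8_62
    | true, false => chk8_63
    | true, true => chk8_64

end Vale.Agent.P100.Calib.StripMid
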