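import Vale.Agent.P100.Calib.SlabStripMidChart

/-!
# The checks of piece 9 below 153/200
-/

set_option linter.defProp false

namespace Vale.Agent.P100.Calib.StripMid

open Pack

/-- The numbers of piece 9. -/
def pc9 : Piece := ⟨.D, (33, 100), (13, 25), (1, 1), (13, 20), (41, 20), (239, 250), (273, 200), (489, 500), (474, -675, 500), (99, -60, 100), 51, (19,-20,366,10), (1043, 1000), (31, 20), (13, 20), (1, 1), (21, 10)⟩

/-- The ranges of piece 9. -/
def box9 : Box := ⟨(0, 1, 20), (50, 189, 1050), (10, 101, 50), (13, 41, 20), (33, 52, 100)⟩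

def chk9_0 : Chk (box9.cC) (bound pc9 false .l0) :=
  ⟨223, 13, 9, 2, 3, by decide +kernel⟩
def chk9_1 : Chk (box9.cC) (bound pc9 false .l1) :=
  ⟨223, 13, 9, 2, 3, by decide +kernel⟩
def chk9_2 : Chk (box9.cC) (bound pc9 false .r) :=
  ⟨224, 13, 9, 2, 3, by decide +kernel⟩
def chk9_3 : Chk (box9.cC) (bound pc9 false .g0) :=
  ⟨90, 4, 3, 1, 2, by decide +kernel⟩
def chk9_4 : Chk (box9.cC) (bound pc9 false .g1) :=
  ⟨85, 4, 3, 1, 2, by decide +kernel⟩
def chk9_5 : Chk (box9.cC) (bound pc9 false .t0) :=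
  ⟨146, 6, 6, 2, 3, by decide +kernel⟩
def chk9_6 : Chk (box9.cC) (bound pc9 false .t1) :=
  ⟨144, 6, 6, 2, 3, by decide +kernel⟩
def chk9_7 : Chk (box9.cC) (bound pc9 false .w0) :=
  ⟨187, 10, 7, 3, 4, by decide +kernel⟩
def chk9_8 : Chk (box9.cC) (bound pc9 false .w1) :=
  ⟨190, 10, 7, 3, 4, by decide +kernel⟩
def chk9_9 : Chk (box9.cC) (bound pc9 true .l0) :=
  ⟨223, 13, 9, 2, 3, by decide +kernel⟩
def chk9_10 : Chk (box9.cC) (bound pc9 true .l1) :=
  ⟨223, 13, 9, 2, 3, by decide +kernel⟩
def chk9_11 : Chk (box9.cC) (bound pc9 true .r) :=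
  ⟨224, 13, 9, 2, 3, by decide +kernel⟩
def chk9_12 : Chk (box9.cC) (bound pc9 true .g0) :=
  ⟨90, 4, 3, 1, 2, by decide +kernel⟩
def chk9_13 : Chk (box9.cC) (bound pc9 true .g1) :=
  ⟨85, 4, 3, 1, 2, by decide +kernel⟩
def chk9_14 : Chk (box9.cC) (bound pc9 true .t0) :=
  ⟨146, 6, 6, 2, 3, by decide +kernel⟩
def chk9_15 : Chk (box9.cC) (bound pc9 true .t1) :=
  ⟨144, 6, 6, 2, 3, by decide +kernel⟩
def chk9_16 : Chk (box9.cC) (bound pc9 true .w0) :=
  ⟨187, 10, 7, 3, 4, by decide +kernel⟩
def chk9_17 : Chk (box9.cC) (bound pc9 true .w1) :=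
  ⟨190, 10, 7, 3, 4, by decide +kernel⟩
def chk9_18 : Chk (box9.vC) (subst (sub pc9 ⟨false, false, true, true, false⟩) (condX)) :=
  ⟨246, 13, 10, 4, 0, by decide +kernel⟩
def chk9_19 : Chk (box9.vC) (subst (sub pc9 ⟨false, true, true, true, false⟩) (condX)) :=
  ⟨246, 13, 10, 4, 0, by decide +kernel⟩
def chk9_20 : Chk (box9.vC) (subst (sub pc9 ⟨true, false, true, true, false⟩) (condX)) :=
  ⟨246, 13, 10, 4, 0, by decide +kernel⟩
def chk9_21 : Chk (box9.vC) (subst (sub pc9 ⟨true, true, true, true, false⟩) (condX)) :=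
  ⟨246, 13, 10, 4, 0, by decide +kernel⟩
def chk9_22 : Chk (box9.vC) (subst (sub pc9 ⟨false, false, true, false, false⟩) (tplMG)) :=
  ⟨465, 26, 20, 6, 0, by decide +kernel⟩
def chk9_23 : Chk (box9.vC) (subst (sub pc9 ⟨false, true, true, false, false⟩) (tplMG)) :=
  ⟨465, 26, 20, 6, 0, by decide +kernel⟩
def chk9_24 : Chk (box9.vC) (subst (sub pc9 ⟨true, false, true, false, false⟩) (tplMG)) :=
  ⟨465, 26, 20, 6, 0, by decide +kernel⟩
def chk9_25 : Chk (box9.vC) (subst (sub pc9 ⟨true, true, true, false, false⟩) (tplMG)) :=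
  ⟨465, 26, 20, 6, 0, by decide +kernel⟩
def chk9_26 : Chk (box9.vC) (subst (sub pc9 ⟨false, false, false, false, false⟩) (pc9.m1)) :=
  ⟨323, 17, 14, 4, 0, by decide +kernel⟩
def chk9_27 : Chk (box9.vC) (subst (sub pc9 ⟨false, true, false, false, false⟩) (pc9.m1)) :=
  ⟨323, 17, 14, 4, 0, by decide +kernel⟩
def chk9_28 : Chk (box9.vC) (subst (sub pc9 ⟨true, false, false, false, false⟩) (pc9.m1)) :=
  ⟨323, 17, 14, 4, 0, by decide +kernel⟩
def chk9_29 : Chk (box9.vC) (subst (sub pc9 ⟨true, true, false, false, false⟩) (pc9.m1)) :=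
  ⟨323, 17, 14, 4, 0, by decide +kernel⟩
def chk9_30 : Chk (box9.vC) (subst (sub pc9 ⟨false, false, true, false, false⟩) (strict (pc9.m2 false))) :=
  ⟨503, 24, 19, 6, 0, by decide +kernel⟩
def chk9_31 : Chk (box9.vC) (subst (sub pc9 ⟨false, false, true, false, true⟩) (strict (pc9.m2 false))) :=
  ⟨498, 24, 19, 6, 0, by decide +kernel⟩
def chk9_32 : Chk (box9.vC) (subst (sub pc9 ⟨true, false, true, false, false⟩) (strict (pc9.m2 false))) :=
  ⟨503, 24, 19, 6, 0, by decide +kernel⟩
def chk9_33 : Chk (box9.vC) (subst (sub pc9 ⟨true, false, true, false, true⟩) (strict (pc9.m2 false))) :=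
  ⟨498, 24, 19, 6, 0, by decide +kernel⟩
def chk9_34 : Chk (box9.vC) (subst (sub pc9 ⟨false, true, true, false, false⟩) (strict (pc9.m2 true))) :=
  ⟨499, 24, 19, 6, 0, by decide +kernel⟩
def chk9_35 : Chk (box9.vC) (subst (sub pc9 ⟨false, true, true, false, true⟩) (strict (pc9.m2 true))) :=
  ⟨494, 24, 19, 6, 0, by decide +kernel⟩
def chk9_36 : Chk (box9.vC) (subst (sub pc9 ⟨true, true, true, false, false⟩) (strict (pc9.m2 true))) :=
  ⟨499, 24, 19, 6, 0, by decide +kernel⟩
def chk9_37 : Chk (box9.vC) (subst (sub pc9 ⟨true, true, true, false, true⟩) (strict (pc9.m2 true))) :=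
  ⟨494, 24, 19, 6, 0, by decide +kernel⟩
def chk9_38 : Chk (box9.vC) (subst (sub pc9 ⟨false, false, true, true, false⟩) (strict (pc9.m3 false))) :=
  ⟨632, 31, 25, 6, 0, by decide +kernel⟩
def chk9_39 : Chk (box9.vC) (subst (sub pc9 ⟨false, false, true, true, true⟩) (strict (pc9.m3 false))) :=
  ⟨630, 31, 25, 6, 0, by decide +kernel⟩
def chk9_40 : Chk (box9.vC) (subst (sub pc9 ⟨false, true, true, true, false⟩) (strict (pc9.m3 false))) :=
  ⟨632, 31, 25, 6, 0, by decide +kernel⟩
def chk9_41 : Chk (box9.vC) (subst (sub pc9 ⟨false, true, true, true, true⟩) (strict (pc9.m3 false))) :=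
  ⟨630, 31, 25, 6, 0, by decide +kernel⟩
def chk9_42 : Chk (box9.vC) (subst (sub pc9 ⟨true, false, true, true, false⟩) (strict (pc9.m3 false))) :=
  ⟨632, 31, 25, 6, 0, by decide +kernel⟩
def chk9_43 : Chk (box9.vC) (subst (sub pc9 ⟨true, false, true, true, true⟩) (strict (pc9.m3 false))) :=
  ⟨630, 31, 25, 6, 0, by decide +kernel⟩
def chk9_44 : Chk (box9.vC) (subst (sub pc9 ⟨true, true, true, true, false⟩) (strict (pc9.m3 false))) :=
  ⟨632, 31, 25, 6, 0, by decide +kernel⟩
def chk9_45 : Chk (box9.vC) (subst (sub pc9 ⟨true, true, true, true, true⟩) (strict (pc9.m3 false))) :=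
  ⟨630, 31, 25, 6, 0, by decide +kernel⟩
def chk9_46 : Chk (box9.vC) (subst (sub pc9 ⟨false, false, true, true, false⟩) (strict (pc9.m3 true))) :=
  ⟨629, 31, 25, 6, 0, by decide +kernel⟩
def chk9_47 : Chk (box9.vC) (subst (sub pc9 ⟨false, false, true, true, true⟩) (strict (pc9.m3 true))) :=
  ⟨627, 31, 25, 6, 0, by decide +kernel⟩
def chk9_48 : Chk (box9.vC) (subst (sub pc9 ⟨false, true, true, true, false⟩) (strict (pc9.m3 true))) :=
  ⟨629, 31, 25, 6, 0, by decide +kernel⟩
def chk9_49 : Chk (box9.vC) (subst (sub pc9 ⟨false, true, true, true, true⟩) (strict (pc9.m3 true))) :=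
  ⟨626, 31, 25, 6, 0, by decide +kernel⟩
def chk9_50 : Chk (box9.vC) (subst (sub pc9 ⟨true, false, true, true, false⟩) (strict (pc9.m3 true))) :=
  ⟨629, 31, 25, 6, 0, by decide +kernel⟩
def chk9_51 : Chk (box9.vC) (subst (sub pc9 ⟨true, false, true, true, true⟩) (strict (pc9.m3 true))) :=
  ⟨627, 31, 25, 6, 0, by decide +kernel⟩
def chk9_52 : Chk (box9.vC) (subst (sub pc9 ⟨true, true, true, true, false⟩) (strict (pc9.m3 true))) :=
  ⟨629, 31, 25, 6, 0, by decide +kernel⟩
def chk9_53 : Chk (box9.vC) (subst (sub pc9 ⟨true, true, true, true, true⟩) (strict (pc9.m3 true))) :=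
  ⟨626, 31, 25, 6, 0, by decide +kernel⟩
def chk9_54 : Chk (box9.vC) (subst (sub pc9 ⟨false, false, true, true, false⟩) (negEx coMG12)) :=
  ⟨114, 5, 5, 4, 0, by decide +kernel⟩
def chk9_55 : Chk (box9.vC) (subst (sub pc9 ⟨false, false, true, true, false⟩) (negEx (pc9.curve2 false))) :=
  ⟨121, 5, 5, 4, 0, by decide +kernel⟩
def chk9_56 : Chk (box9.vC) (subst (sub pc9 ⟨false, false, true, true, false⟩) (negEx (pc9.curve2 true))) :=
  ⟨117, 5, 5, 4, 0, by decide +kernel⟩
def chk9_57 : Chk (box9.vC) (subst (sub pc9 ⟨false, false, true, true, false⟩) (negEx (pc9.curve3 false))) :=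
  ⟨135, 6, 6, 4, 0, by decide +kernel⟩
def chk9_58 : Chk (box9.vC) (subst (sub pc9 ⟨false, false, true, true, false⟩) (negEx (pc9.curve3 true))) :=
  ⟨131, 6, 6, 4, 0, by decide +kernel⟩
def chk9_59 : Chk (box9.vC) (subst (sub pc9 ⟨false, false, true, true, false⟩) (slopeT)) :=
  ⟨136, 7, 6, 4, 0, by decide +kernel⟩
def chk9_60 : Chk (box9.vC) (subst (sub pc9 ⟨true, false, true, true, false⟩) (slopeT)) :=
  ⟨136, 7, 6, 4, 0, by decide +kernel⟩
def chk9_61 : Chk (box9.gC true) (subst (gapSub pc9 true false false) tplL) :=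
  ⟨381, 22, 17, 5, 2, by decide +kernel⟩
def chk9_62 : Chk (box9.gC true) (subst (gapSub pc9 true false true) tplL) :=
  ⟨379, 22, 17, 5, 2, by decide +kernel⟩
def chk9_63 : Chk (box9.gC true) (subst (gapSub pc9 true true false) tplL) :=
  ⟨381, 22, 17, 5, 2, by decide +kernel⟩
def chk9_64 : Chk (box9.gC true) (subst (gapSub pc9 true true true) tplL) :=
  ⟨379, 22, 17, 5, 2, by decide +kernel⟩

/-- Piece 9 passes. -/
theorem cert9 : Cert pc9 box9 true where
  pos := by
    refine ⟨⟨⟨?_, ?_, ?_, ?_, ?_, ?_, ?_⟩, ?_, ?_, ?_, ?_, ?_, ?_, ?_, ?_, ?_, ?_, ?_⟩, ?_, ?_⟩ <;>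
      norm_num [fr, pc9]
  gX := fun p l => match p, l with
    | false, false => chk9_18
    | false, true => chk9_19
    | true, false => chk9_20
    | true, true => chk9_21
  gMG := fun p l => match p, l with
    | false, false => chk9_22
    | false, true => chk9_23
    | true, false => chk9_24
    | true, true => chk9_25
  g1 := fun p l => match p, l with
    | false, false => chk9_26
    | false, true => chk9_27
    | true, false => chk9_28
    | true, true => chk9_29
  g2 := fun s p t => match s, p, t with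
    | false, false, false => chk9_30
    | false, false, true => chk9_31
    | false, true, false => chk9_32
    | false, true, true => chk9_33
    | true, false, false => chk9_34
    | true, false, true => chk9_35
    | true, true, false => chk9_36
    | true, true, true => chk9_37
  g3 := fun s p l t => match s, p, l, t with
    | false, false, false, false => chk9_38
    | false, false, false, true => chk9_39
    | false, false, true, false => chk9_40
    | false, false, true, true => chk9_41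
    | false, true, false, false => chk9_42
    | false, true, false, true => chk9_43
    | false, true, true, false => chk9_44
    | false, true, true, true => chk9_45
    | true, false, false, false => chk9_46
    | true, false, false, true => chk9_47
    | true, false, true, false => chk9_48
    | true, false, true, true => chk9_49
    | true, true, false, false => chk9_50
    | true, true, false, true => chk9_51
    | true, true, true, false => chk9_52
    | true, true, true, true => chk9_53
  cMG := chk9_54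
  c2 := fun s => match s with
    | false => chk9_55
    | true => chk9_56
  c3 := fun s => match s with
    | false => chk9_57
    | true => chk9_58
  sT := fun p => match p with
    | false => chk9_59
    | true => chk9_60
  bnd := fun ze b => match ze, b with
    | false, .l0 => chk9_0
    | false, .l1 => chk9_1
    | false, .r => chk9_2
    | false, .g0 => chk9_3
    | false, .g1 => chk9_4
    | false, .t0 => chk9_5
    | false, .t1 => chk9_6
    | false, .w0 => chk9_7
    | false, .w1 => chk9_8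
    | true, .l0 => chk9_9
    | true, .l1 => chk9_10
    | true, .r => chk9_11
    | true, .g0 => chk9_12
    | true, .g1 => chk9_13
    | true, .t0 => chk9_14
    | true, .t1 => chk9_15
    | true, .w0 => chk9_16
    | true, .w1 => chk9_17
  gap := fun ze t => match ze, t with
    | false, false => chk9_61
    | false, true => chk9_62
    | true, false => chk9_63
    | true, true => chk9_64

end Vale.Agent.P100.Calib.StripMid
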