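import Vale.Agent.P100.Calib.SlabStripMidCheck0
import Vale.Agent.P100.Calib.SlabStripMidCheck1
import Vale.Agent.P100.Calib.SlabStripMidCheck2
import Vale.Agent.P100.Calib.SlabStripMidCheck3
import Vale.Agent.P100.Calib.SlabStripMidCheck4
import Vale.Agent.P100.Calib.SlabStripMidCheck5
import Vale.Agent.P100.Calib.SlabStripMidCheck6
import Vale.Agent.P100.Calib.SlabStripMidCheck7
import Vale.Agent.P100.Calib.SlabStripMidCheck8
import Vale.Agent.P100.Calib.SlabStripMidCheck9
import Vale.Agent.P100.Calib.SlabStripMidCheck10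
import Vale.Agent.P100.Calib.SlabStripMidCheck11
import Vale.Agent.P100.Calib.SlabStripMidCheck12
import Vale.Agent.P100.Calib.SlabStripMidCheck13
import Vale.Agent.P100.Calib.SlabStripMidCheck14
import Vale.Agent.P100.Calib.SlabStripMidCheck15
import Vale.Agent.P100.Calib.SlabStripMidCheck16
import Vale.Agent.P100.Calib.SlabStripMidCheck17
import Vale.Agent.P100.Calib.SlabStripMidCheck18
import Vale.Agent.P100.Calib.SlabStripMidCheck19
import Vale.Agent.P100.Calib.SlabStripMidCheck20
import Vale.Agent.P100.Calib.SlabStripMidCheck21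
import Vale.Agent.P100.Calib.SlabMainOrbit
import Vale.Agent.P100.Calib.SlabStripRange

/-!
# The closed signs of the strip along orbits on `1/10 < u ≤ 153/200`, from dimension twenty on
-/

set_option linter.unusedVariables false

open Set

namespace Vale.Agent.P100.Calib.StripMid

open Pack Band Bubble Chart

/-- The window of `v` in units of `2 I`. -/
def CWindow (d S u v c₀ c₁ : ℝ) : Prop :=
  c₀ * ((S - d) * u * (1 - S)) < (v - (1 - S)) * (1 - (S - d) * u) ∧
    (v - (1 - S)) * (1 - (S - d) * u) < c₁ * ((S - d) * u * (1 - S))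

theorem CWindow.mono {d S u v c₀ c₁ e₀ e₁ : ℝ} (h : CWindow d S u v c₀ c₁)
    (hk : 0 ≤ (S - d) * u * (1 - S)) (h0 : e₀ ≤ c₀) (h1 : c₁ ≤ e₁) : CWindow d S u v e₀ e₁ :=
  ⟨lt_of_le_of_lt (mul_le_mul_of_nonneg_right h0 hk) h.1,
    lt_of_lt_of_le h.2 (mul_le_mul_of_nonneg_right h1 hk)⟩

/-- What holds at a point of an orbit in the strip. -/
structure MidPoint (n : ℕ) (d S u v t : ℝ) : Prop where
  box : Closed.All.ChartBox n d S
  facts : Closed.All.ChartFacts d S u v t
  I_lt : (1 - S) / 2 < 1 / 20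
  a_low : 31 / 100 < (S - d) / 2

/-- The signs from a piece and a window. -/
theorem signs_piece {n : ℕ} {P : Piece} {B : Box} {rect : Bool} (K : Cert P B rect)
    {d S u v t m M c₀ c₁ : ℝ} (h : MidPoint n d S u v t) (hm : m ≤ S - d) (hM : S - d ≤ M)
    (hm0 : 0 ≤ m) (hr₀ : InR B.q₀ (mkPt P.kind d ((1 - S) / 2) 0 u 0))
    (hr₁ : InR B.q₁ (mkPt P.kind d ((1 - S) / 2) 0 u 1)) (hu : InU B.qu u)
    (hk : match P.kind with
      | .A => d * (1 - (1 - S) / 2) ≤ S * ((1 - S) / 2)
      | _ => S * ((1 - S) / 2) ≤ d * (1 - (1 - S) / 2))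
    (hw : CWindow d S u v c₀ c₁)
    (e₀ : c₀ = (B.qc.1 : ℝ) / B.qc.2.2) (e₁ : c₁ = (B.qc.2.1 : ℝ) / B.qc.2.2)
    (hqc : 0 < B.qc.2.2 ∧ 0 < B.qY.2.2 ∧ 0 ≤ B.qY.1 ∧ 0 ≤ B.qc.1 ∧ 0 ≤ B.qY.2.1)
    (hY0 : (B.qY.1 : ℝ) / B.qY.2.2 ≤
      (c₀ + (B.qY.1 : ℝ) / B.qY.2.2) * (m * ((B.qu.1 : ℝ) / B.qu.2.2)))
    (hY1 : (c₁ + (B.qY.2.1 : ℝ) / B.qY.2.2) * (M * ((B.qu.2.1 : ℝ) / B.qu.2.2)) ≤
      (B.qY.2.1 : ℝ) / B.qY.2.2)
    (hfl : allFlow ((S - d) / 2) ((S + d) / 2) u v (Closed.chH d S u v t) ≤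
      fr P.z * ((1 - S) / 2 * allDen ((S - d) / 2) ((S + d) / 2) u v (Closed.chH d S u v t))) :
    Closed.Strip.ChartSigns d S u v t := by
  have hS := h.box.S_lt
  have hd := h.box.pos
  have ha := h.a_low
  have hu0 := h.facts.u_pos
  have hu1 := h.facts.u_lt
  obtain ⟨hqu, hul, huh⟩ := hu
  obtain ⟨w, hw_⟩ : ∃ w, w = (S - d) * u := ⟨_, rfl⟩
  obtain ⟨hlo, hhi⟩ := hw
  rw [← hw_] at hlo hhi
  have hw0 : 0 < w := hw_ ▸ mul_pos (by linarith) hu0
  have hw1 : w < 1 := by
    rw [hw_]
    have := mul_le_mul_of_nonneg_right (show S - d ≤ 1 by linarith) hu0.le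
    linarith
  have hS' : 0 < 1 - S := sub_pos.2 hS
  obtain ⟨Y, hY⟩ : ∃ Y, Y = v / (1 - S) - 1 := ⟨_, rfl⟩
  obtain ⟨c, hc⟩ : ∃ c, c = Y * (1 - w) / w := ⟨_, rfl⟩
  have ev : v - (1 - S) = (1 - S) * Y := by rw [hY]; field_simp
  rw [ev] at hlo hhi
  have c0 : c₀ < c := by
    rw [hc, lt_div_iff₀ hw0]
    exact lt_of_mul_lt_mul_left (by linarith) hS'.le
  have c1 : c < c₁ := by
    rw [hc, div_lt_iff₀ hw0]
    exact lt_of_mul_lt_mul_left (by linarith) hS'.le
  have hcq : (0 : ℝ) ≤ c₀ := e₀ ▸ div_nonneg (by exact_mod_cast hqc.2.2.2.1) (Nat.cast_nonneg _)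
  have ec : Y * (1 - w) = c * w := by rw [hc]; field_simp
  have wlo : m * ((B.qu.1 : ℝ) / B.qu.2.2) ≤ w := by
    rw [hw_]
    exact (mul_le_mul_of_nonneg_left hul.le hm0).trans (mul_le_mul_of_nonneg_right hm hu0.le)
  have whi : w ≤ M * ((B.qu.2.1 : ℝ) / B.qu.2.2) := by
    rw [hw_]
    exact (mul_le_mul_of_nonneg_right hM hu0.le).trans
      (mul_le_mul_of_nonneg_left huh (by linarith))
  obtain ⟨Y0, hY0e⟩ : ∃ Y0, Y0 = (B.qY.1 : ℝ) / B.qY.2.2 := ⟨_, rfl⟩
  obtain ⟨Y1, hY1e⟩ : ∃ Y1, Y1 = (B.qY.2.1 : ℝ) / B.qY.2.2 := ⟨_, rfl⟩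
  rw [← hY0e] at hY0
  rw [← hY1e] at hY1
  have hY0n : 0 ≤ Y0 := hY0e ▸ div_nonneg (by exact_mod_cast hqc.2.2.1) (Nat.cast_nonneg _)
  have y0 : Y0 ≤ Y := by
    have h1 := mul_le_mul_of_nonneg_left wlo (show 0 ≤ c₀ + Y0 by linarith)
    have h2 := mul_lt_mul_of_pos_right c0 hw0
    refine (lt_of_mul_lt_mul_right (a := 1 - w) ?_ (by linarith)).le
    linarith
  have y1 : Y < Y1 := by
    have h2 := mul_lt_mul_of_pos_right c1 hw0
    have hMu : 0 ≤ M * ((B.qu.2.1 : ℝ) / B.qu.2.2) := hw0.le.trans whi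
    have hYp : 0 < Y := pos_of_mul_pos_left (ec ▸ mul_pos (lt_of_le_of_lt hcq c0) hw0)
      (by linarith)
    by_contra hn
    rw [not_lt] at hn
    have h3 := mul_le_mul_of_nonneg_right hn (show 0 ≤ 1 - w by linarith)
    have h4 : 0 ≤ Y1 := hY1e ▸ div_nonneg (by exact_mod_cast hqc.2.2.2.2) (Nat.cast_nonneg _)
    have h5 : 0 ≤ c₁ + Y1 := by linarith
    have := mul_le_mul_of_nonneg_left whi h5
    linarith
  refine chartSigns_of_cert K h.box ⟨h.facts, hd, hS, h.I_lt.le, ha, ⟨c, Y, ?_, ?_, ?_, ?_⟩, hr₀,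
    hr₁, ⟨hqu, hul, huh⟩, hk, hfl⟩
  · exact ⟨hqc.1, e₀ ▸ c0.le, e₁ ▸ c1⟩
  · exact ⟨hqc.2.1, hY0e ▸ y0, hY1e ▸ y1⟩
  · linarith
  · rw [← hw_, ec]

theorem le_of_lt_win {c e : ℝ} {S d u v : ℝ}
    (h : c * (2 * ((S - d) / 2) * u * (2 * ((1 - S) / 2))) <
      (v - 2 * ((1 - S) / 2)) * (1 - 2 * ((S - d) / 2) * u))
    (hk : 0 ≤ (S - d) * u * (1 - S)) (he : e ≤ c) :
    e * ((S - d) * u * (1 - S)) < (v - (1 - S)) * (1 - (S - d) * u) := by
  have := mul_le_mul_of_nonneg_right he hk
  linarith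

theorem lt_win_le {c e : ℝ} {S d u v : ℝ}
    (h : (v - 2 * ((1 - S) / 2)) * (1 - 2 * ((S - d) / 2) * u) <
      c * (2 * ((S - d) / 2) * u * (2 * ((1 - S) / 2))))
    (hk : 0 ≤ (S - d) * u * (1 - S)) (he : c ≤ e) :
    (v - (1 - S)) * (1 - (S - d) * u) < e * ((S - d) * u * (1 - S)) := by
  have := mul_le_mul_of_nonneg_right he hk
  linarith

/-- A point in a half open range. -/
theorem inR_of {q : ℤ × ℤ × ℕ} {x : ℝ} (h : 0 < q.2.2) (h0 : (q.1 : ℝ) / q.2.2 ≤ x)
    (h1 : x < (q.2.1 : ℝ) / q.2.2) : InR q x := ⟨h, h0, h1⟩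

theorem signs_pc0 {n : ℕ} {d S u v t : ℝ} (hp : MidPoint n d S u v t)
    (hu0 : (1 / 10) < u) (hu1 : u ≤ (9 / 20)) (hk : d * (1 - (1 - S) / 2) ≤ S * ((1 - S) / 2)) (hd0 : 0 ≤ d / ((1 - S) / 2)) (hd1 : d / ((1 - S) / 2) < 1) (hdI : d < (1 - S) / 2)
    (w : CWindow d S u v (13 / 100) 3)
    (hfl : allFlow ((S - d) / 2) ((S + d) / 2) u v (Closed.chH d S u v t) ≤
      (1 / 2) * ((1 - S) / 2 * allDen ((S - d) / 2) ((S + d) / 2) u v (Closed.chH d S u v t))) :
    Closed.Strip.ChartSigns d S u v t := by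
  have hI := hp.I_lt
  have ha := hp.a_low
  have hS := hp.box.S_lt
  have hd := hp.box.pos
  exact signs_piece cert0 hp (m := (847 / 1000)) (M := 1) (by linarith) (by linarith) (by norm_num)
    (inR_of (by norm_num [box0]) (by norm_num [mkPt, pc0, box0] <;> linarith) (by norm_num [mkPt, pc0, box0] <;> linarith))
    (inR_of (by norm_num [box0]) (by norm_num [mkPt, pc0, box0] <;> linarith) (by norm_num [mkPt, pc0, box0] <;> linarith))
    ⟨(by norm_num [box0]), by norm_num [box0] <;> linarith, by norm_num [box0] <;> linarith⟩ hk w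
    (by norm_num [box0]) (by norm_num [box0]) (by norm_num [box0]) (by norm_num [box0]) (by norm_num [box0])
    (by norm_num [fr, pc0] <;> linarith)

theorem signs_pc1 {n : ℕ} {d S u v t : ℝ} (hp : MidPoint n d S u v t)
    (hu0 : (9 / 20) < u) (hu1 : u ≤ (16 / 25)) (hk : d * (1 - (1 - S) / 2) ≤ S * ((1 - S) / 2)) (hd0 : 0 ≤ d / ((1 - S) / 2)) (hd1 : d / ((1 - S) / 2) < 1) (hdI : d < (1 - S) / 2)
    (w : CWindow d S u v (53 / 100) (19 / 10))
    (hfl : allFlow ((S - d) / 2) ((S + d) / 2) u v (Closed.chH d S u v t) ≤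
      1 * ((1 - S) / 2 * allDen ((S - d) / 2) ((S + d) / 2) u v (Closed.chH d S u v t))) :
    Closed.Strip.ChartSigns d S u v t := by
  have hI := hp.I_lt
  have ha := hp.a_low
  have hS := hp.box.S_lt
  have hd := hp.box.pos
  exact signs_piece cert1 hp (m := (847 / 1000)) (M := 1) (by linarith) (by linarith) (by norm_num)
    (inR_of (by norm_num [box1]) (by norm_num [mkPt, pc1, box1] <;> linarith) (by norm_num [mkPt, pc1, box1] <;> linarith))
    (inR_of (by norm_num [box1]) (by norm_num [mkPt, pc1, box1] <;> linarith) (by norm_num [mkPt, pc1, box1] <;> linarith))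
    ⟨(by norm_num [box1]), by norm_num [box1] <;> linarith, by norm_num [box1] <;> linarith⟩ hk w
    (by norm_num [box1]) (by norm_num [box1]) (by norm_num [box1]) (by norm_num [box1]) (by norm_num [box1])
    (by norm_num [fr, pc1] <;> linarith)

theorem signs_pc2 {n : ℕ} {d S u v t : ℝ} (hp : MidPoint n d S u v t)
    (hu0 : (16 / 25) < u) (hu1 : u ≤ (153 / 200)) (hk : d * (1 - (1 - S) / 2) ≤ S * ((1 - S) / 2)) (hd0 : 0 ≤ d / ((1 - S) / 2)) (hd1 : d / ((1 - S) / 2) < 1) (hdI : d < (1 - S) / 2)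
    (w : CWindow d S u v (39 / 100) (7 / 4))
    (hfl : allFlow ((S - d) / 2) ((S + d) / 2) u v (Closed.chH d S u v t) ≤
      1 * ((1 - S) / 2 * allDen ((S - d) / 2) ((S + d) / 2) u v (Closed.chH d S u v t))) :
    Closed.Strip.ChartSigns d S u v t := by
  have hI := hp.I_lt
  have ha := hp.a_low
  have hS := hp.box.S_lt
  have hd := hp.box.pos
  exact signs_piece cert2 hp (m := (847 / 1000)) (M := 1) (by linarith) (by linarith) (by norm_num)
    (inR_of (by norm_num [box2]) (by norm_num [mkPt, pc2, box2] <;> linarith) (by norm_num [mkPt, pc2, box2] <;> linarith))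
    (inR_of (by norm_num [box2]) (by norm_num [mkPt, pc2, box2] <;> linarith) (by norm_num [mkPt, pc2, box2] <;> linarith))
    ⟨(by norm_num [box2]), by norm_num [box2] <;> linarith, by norm_num [box2] <;> linarith⟩ hk w
    (by norm_num [box2]) (by norm_num [box2]) (by norm_num [box2]) (by norm_num [box2]) (by norm_num [box2])
    (by norm_num [fr, pc2] <;> linarith)

theorem signs_pc3 {n : ℕ} {d S u v t : ℝ} (hp : MidPoint n d S u v t)
    (hu0 : (1 / 10) < u) (hu1 : u ≤ (9 / 20)) (hk : S * ((1 - S) / 2) ≤ d * (1 - (1 - S) / 2)) (hd19 : d < 1 / 19) (hd0 : 0 ≤ (1 - S) / 2 / d) (hd1 : (1 - S) / 2 / d < 19 / 18)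
    (w : CWindow d S u v (13 / 100) 3)
    (hfl : allFlow ((S - d) / 2) ((S + d) / 2) u v (Closed.chH d S u v t) ≤
      (1 / 2) * ((1 - S) / 2 * allDen ((S - d) / 2) ((S + d) / 2) u v (Closed.chH d S u v t))) :
    Closed.Strip.ChartSigns d S u v t := by
  have hI := hp.I_lt
  have ha := hp.a_low
  have hS := hp.box.S_lt
  have hd := hp.box.pos
  exact signs_piece cert3 hp (m := (847 / 1000)) (M := 1) (by linarith) (by linarith) (by norm_num)
    (inR_of (by norm_num [box3]) (by norm_num [mkPt, pc3, box3] <;> linarith) (by norm_num [mkPt, pc3, box3] <;> linarith))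
    (inR_of (by norm_num [box3]) (by norm_num [mkPt, pc3, box3] <;> linarith) (by norm_num [mkPt, pc3, box3] <;> linarith))
    ⟨(by norm_num [box3]), by norm_num [box3] <;> linarith, by norm_num [box3] <;> linarith⟩ hk w
    (by norm_num [box3]) (by norm_num [box3]) (by norm_num [box3]) (by norm_num [box3]) (by norm_num [box3])
    (by norm_num [fr, pc3] <;> linarith)

theorem signs_pc4 {n : ℕ} {d S u v t : ℝ} (hp : MidPoint n d S u v t)
    (hu0 : (9 / 20) < u) (hu1 : u ≤ (16 / 25)) (hk : S * ((1 - S) / 2) ≤ d * (1 - (1 - S) / 2)) (hd19 : d < 1 / 19) (hd0 : 0 ≤ (1 - S) / 2 / d) (hd1 : (1 - S) / 2 / d < 19 / 18)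
    (w : CWindow d S u v (53 / 100) (19 / 10))
    (hfl : allFlow ((S - d) / 2) ((S + d) / 2) u v (Closed.chH d S u v t) ≤
      1 * ((1 - S) / 2 * allDen ((S - d) / 2) ((S + d) / 2) u v (Closed.chH d S u v t))) :
    Closed.Strip.ChartSigns d S u v t := by
  have hI := hp.I_lt
  have ha := hp.a_low
  have hS := hp.box.S_lt
  have hd := hp.box.pos
  exact signs_piece cert4 hp (m := (847 / 1000)) (M := 1) (by linarith) (by linarith) (by norm_num)
    (inR_of (by norm_num [box4]) (by norm_num [mkPt, pc4, box4] <;> linarith) (by norm_num [mkPt, pc4, box4] <;> linarith))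
    (inR_of (by norm_num [box4]) (by norm_num [mkPt, pc4, box4] <;> linarith) (by norm_num [mkPt, pc4, box4] <;> linarith))
    ⟨(by norm_num [box4]), by norm_num [box4] <;> linarith, by norm_num [box4] <;> linarith⟩ hk w
    (by norm_num [box4]) (by norm_num [box4]) (by norm_num [box4]) (by norm_num [box4]) (by norm_num [box4])
    (by norm_num [fr, pc4] <;> linarith)

theorem signs_pc5 {n : ℕ} {d S u v t : ℝ} (hp : MidPoint n d S u v t)
    (hu0 : (16 / 25) < u) (hu1 : u ≤ (153 / 200)) (hk : S * ((1 - S) / 2) ≤ d * (1 - (1 - S) / 2)) (hd19 : d < 1 / 19) (hd0 : 0 ≤ (1 - S) / 2 / d) (hd1 : (1 - S) / 2 / d < 19 / 18)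
    (w : CWindow d S u v (39 / 100) (7 / 4))
    (hfl : allFlow ((S - d) / 2) ((S + d) / 2) u v (Closed.chH d S u v t) ≤
      1 * ((1 - S) / 2 * allDen ((S - d) / 2) ((S + d) / 2) u v (Closed.chH d S u v t))) :
    Closed.Strip.ChartSigns d S u v t := by
  have hI := hp.I_lt
  have ha := hp.a_low
  have hS := hp.box.S_lt
  have hd := hp.box.pos
  exact signs_piece cert5 hp (m := (847 / 1000)) (M := 1) (by linarith) (by linarith) (by norm_num)
    (inR_of (by norm_num [box5]) (by norm_num [mkPt, pc5, box5] <;> linarith) (by norm_num [mkPt, pc5, box5] <;> linarith))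
    (inR_of (by norm_num [box5]) (by norm_num [mkPt, pc5, box5] <;> linarith) (by norm_num [mkPt, pc5, box5] <;> linarith))
    ⟨(by norm_num [box5]), by norm_num [box5] <;> linarith, by norm_num [box5] <;> linarith⟩ hk w
    (by norm_num [box5]) (by norm_num [box5]) (by norm_num [box5]) (by norm_num [box5]) (by norm_num [box5])
    (by norm_num [fr, pc5] <;> linarith)

theorem signs_pc6 {n : ℕ} {d S u v t : ℝ} (hp : MidPoint n d S u v t)
    (hu0 : (1 / 10) < u) (hu1 : u ≤ (33 / 100)) (hk : S * ((1 - S) / 2) ≤ d * (1 - (1 - S) / 2)) (hd0 : (1 / 21) ≤ d) (hd1 : d < (9 / 50))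
    (w : CWindow d S u v (13 / 100) 3)
    (hfl : allFlow ((S - d) / 2) ((S + d) / 2) u v (Closed.chH d S u v t) ≤
      (1 / 2) * ((1 - S) / 2 * allDen ((S - d) / 2) ((S + d) / 2) u v (Closed.chH d S u v t))) :
    Closed.Strip.ChartSigns d S u v t := by
  have hI := hp.I_lt
  have ha := hp.a_low
  have hS := hp.box.S_lt
  have hd := hp.box.pos
  exact signs_piece cert6 hp (m := (18 / 25)) (M := (20 / 21)) (by linarith) (by linarith) (by norm_num)
    (inR_of (by norm_num [box6]) (by norm_num [mkPt, pc6, box6] <;> linarith) (by norm_num [mkPt, pc6, box6] <;> linarith))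
    (inR_of (by norm_num [box6]) (by norm_num [mkPt, pc6, box6] <;> linarith) (by norm_num [mkPt, pc6, box6] <;> linarith))
    ⟨(by norm_num [box6]), by norm_num [box6] <;> linarith, by norm_num [box6] <;> linarith⟩ hk w
    (by norm_num [box6]) (by norm_num [box6]) (by norm_num [box6]) (by norm_num [box6]) (by norm_num [box6])
    (by norm_num [fr, pc6] <;> linarith)

theorem signs_pc7 {n : ℕ} {d S u v t : ℝ} (hp : MidPoint n d S u v t)
    (hu0 : (1 / 10) < u) (hu1 : u ≤ (33 / 100)) (hk : S * ((1 - S) / 2) ≤ d * (1 - (1 - S) / 2)) (hd0 : (9 / 50) ≤ d) (hd1 : d < (29 / 100))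
    (w : CWindow d S u v (13 / 100) 3)
    (hfl : allFlow ((S - d) / 2) ((S + d) / 2) u v (Closed.chH d S u v t) ≤
      (1 / 2) * ((1 - S) / 2 * allDen ((S - d) / 2) ((S + d) / 2) u v (Closed.chH d S u v t))) :
    Closed.Strip.ChartSigns d S u v t := by
  have hI := hp.I_lt
  have ha := hp.a_low
  have hS := hp.box.S_lt
  have hd := hp.box.pos
  exact signs_piece cert7 hp (m := (31 / 50)) (M := (41 / 50)) (by linarith) (by linarith) (by norm_num)
    (inR_of (by norm_num [box7]) (by norm_num [mkPt, pc7, box7] <;> linarith) (by norm_num [mkPt, pc7, box7] <;> linarith))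
    (inR_of (by norm_num [box7]) (by norm_num [mkPt, pc7, box7] <;> linarith) (by norm_num [mkPt, pc7, box7] <;> linarith))
    ⟨(by norm_num [box7]), by norm_num [box7] <;> linarith, by norm_num [box7] <;> linarith⟩ hk w
    (by norm_num [box7]) (by norm_num [box7]) (by norm_num [box7]) (by norm_num [box7]) (by norm_num [box7])
    (by norm_num [fr, pc7] <;> linarith)

theorem signs_pc8 {n : ℕ} {d S u v t : ℝ} (hp : MidPoint n d S u v t)
    (hu0 : (1 / 10) < u) (hu1 : u ≤ (33 / 100)) (hk : S * ((1 - S) / 2) ≤ d * (1 - (1 - S) / 2)) (hd0 : (29 / 100) ≤ d) (hd1 : d < (19 / 50))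
    (w : CWindow d S u v (13 / 100) 3)
    (hfl : allFlow ((S - d) / 2) ((S + d) / 2) u v (Closed.chH d S u v t) ≤
      (1 / 2) * ((1 - S) / 2 * allDen ((S - d) / 2) ((S + d) / 2) u v (Closed.chH d S u v t))) :
    Closed.Strip.ChartSigns d S u v t := by
  have hI := hp.I_lt
  have ha := hp.a_low
  have hS := hp.box.S_lt
  have hd := hp.box.pos
  exact signs_piece cert8 hp (m := (31 / 50)) (M := (71 / 100)) (by linarith) (by linarith) (by norm_num)
    (inR_of (by norm_num [box8]) (by norm_num [mkPt, pc8, box8] <;> linarith) (by norm_num [mkPt, pc8, box8] <;> linarith))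
    (inR_of (by norm_num [box8]) (by norm_num [mkPt, pc8, box8] <;> linarith) (by norm_num [mkPt, pc8, box8] <;> linarith))
    ⟨(by norm_num [box8]), by norm_num [box8] <;> linarith, by norm_num [box8] <;> linarith⟩ hk w
    (by norm_num [box8]) (by norm_num [box8]) (by norm_num [box8]) (by norm_num [box8]) (by norm_num [box8])
    (by norm_num [fr, pc8] <;> linarith)

theorem signs_pc9 {n : ℕ} {d S u v t : ℝ} (hp : MidPoint n d S u v t)
    (hu0 : (33 / 100) < u) (hu1 : u ≤ (13 / 25)) (hk : S * ((1 - S) / 2) ≤ d * (1 - (1 - S) / 2)) (hd0 : (1 / 21) ≤ d) (hd1 : d < (9 / 50))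
    (w : CWindow d S u v (13 / 20) (41 / 20))
    (hfl : allFlow ((S - d) / 2) ((S + d) / 2) u v (Closed.chH d S u v t) ≤
      1 * ((1 - S) / 2 * allDen ((S - d) / 2) ((S + d) / 2) u v (Closed.chH d S u v t))) :
    Closed.Strip.ChartSigns d S u v t := by
  have hI := hp.I_lt
  have ha := hp.a_low
  have hS := hp.box.S_lt
  have hd := hp.box.pos
  exact signs_piece cert9 hp (m := (18 / 25)) (M := (20 / 21)) (by linarith) (by linarith) (by norm_num)
    (inR_of (by norm_num [box9]) (by norm_num [mkPt, pc9, box9] <;> linarith) (by norm_num [mkPt, pc9, box9] <;> linarith))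
    (inR_of (by norm_num [box9]) (by norm_num [mkPt, pc9, box9] <;> linarith) (by norm_num [mkPt, pc9, box9] <;> linarith))
    ⟨(by norm_num [box9]), by norm_num [box9] <;> linarith, by norm_num [box9] <;> linarith⟩ hk w
    (by norm_num [box9]) (by norm_num [box9]) (by norm_num [box9]) (by norm_num [box9]) (by norm_num [box9])
    (by norm_num [fr, pc9] <;> linarith)

theorem signs_pc10 {n : ℕ} {d S u v t : ℝ} (hp : MidPoint n d S u v t)
    (hu0 : (33 / 100) < u) (hu1 : u ≤ (13 / 25)) (hk : S * ((1 - S) / 2) ≤ d * (1 - (1 - S) / 2)) (hd0 : (9 / 50) ≤ d) (hd1 : d < (29 / 100))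
    (w : CWindow d S u v (13 / 20) (41 / 20))
    (hfl : allFlow ((S - d) / 2) ((S + d) / 2) u v (Closed.chH d S u v t) ≤
      1 * ((1 - S) / 2 * allDen ((S - d) / 2) ((S + d) / 2) u v (Closed.chH d S u v t))) :
    Closed.Strip.ChartSigns d S u v t := by
  have hI := hp.I_lt
  have ha := hp.a_low
  have hS := hp.box.S_lt
  have hd := hp.box.pos
  exact signs_piece cert10 hp (m := (31 / 50)) (M := (41 / 50)) (by linarith) (by linarith) (by norm_num)
    (inR_of (by norm_num [box10]) (by norm_num [mkPt, pc10, box10] <;> linarith) (by norm_num [mkPt, pc10, box10] <;> linarith))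
    (inR_of (by norm_num [box10]) (by norm_num [mkPt, pc10, box10] <;> linarith) (by norm_num [mkPt, pc10, box10] <;> linarith))
    ⟨(by norm_num [box10]), by norm_num [box10] <;> linarith, by norm_num [box10] <;> linarith⟩ hk w
    (by norm_num [box10]) (by norm_num [box10]) (by norm_num [box10]) (by norm_num [box10]) (by norm_num [box10])
    (by norm_num [fr, pc10] <;> linarith)

theorem signs_pc11 {n : ℕ} {d S u v t : ℝ} (hp : MidPoint n d S u v t)
    (hu0 : (33 / 100) < u) (hu1 : u ≤ (13 / 25)) (hk : S * ((1 - S) / 2) ≤ d * (1 - (1 - S) / 2)) (hd0 : (29 / 100) ≤ d) (hd1 : d < (19 / 50))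
    (w : CWindow d S u v (13 / 20) (41 / 20))
    (hfl : allFlow ((S - d) / 2) ((S + d) / 2) u v (Closed.chH d S u v t) ≤
      1 * ((1 - S) / 2 * allDen ((S - d) / 2) ((S + d) / 2) u v (Closed.chH d S u v t))) :
    Closed.Strip.ChartSigns d S u v t := by
  have hI := hp.I_lt
  have ha := hp.a_low
  have hS := hp.box.S_lt
  have hd := hp.box.pos
  exact signs_piece cert11 hp (m := (31 / 50)) (M := (71 / 100)) (by linarith) (by linarith) (by norm_num)
    (inR_of (by norm_num [box11]) (by norm_num [mkPt, pc11, box11] <;> linarith) (by norm_num [mkPt, pc11, box11] <;> linarith))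
    (inR_of (by norm_num [box11]) (by norm_num [mkPt, pc11, box11] <;> linarith) (by norm_num [mkPt, pc11, box11] <;> linarith))
    ⟨(by norm_num [box11]), by norm_num [box11] <;> linarith, by norm_num [box11] <;> linarith⟩ hk w
    (by norm_num [box11]) (by norm_num [box11]) (by norm_num [box11]) (by norm_num [box11]) (by norm_num [box11])
    (by norm_num [fr, pc11] <;> linarith)

theorem signs_pc12 {n : ℕ} {d S u v t : ℝ} (hp : MidPoint n d S u v t)
    (hu0 : (13 / 25) < u) (hu1 : u ≤ (16 / 25)) (hk : S * ((1 - S) / 2) ≤ d * (1 - (1 - S) / 2)) (hd0 : (1 / 21) ≤ d) (hd1 : d < (9 / 50))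
    (w : CWindow d S u v (53 / 100) (19 / 10))
    (hfl : allFlow ((S - d) / 2) ((S + d) / 2) u v (Closed.chH d S u v t) ≤
      1 * ((1 - S) / 2 * allDen ((S - d) / 2) ((S + d) / 2) u v (Closed.chH d S u v t))) :
    Closed.Strip.ChartSigns d S u v t := by
  have hI := hp.I_lt
  have ha := hp.a_low
  have hS := hp.box.S_lt
  have hd := hp.box.pos
  exact signs_piece cert12 hp (m := (18 / 25)) (M := (20 / 21)) (by linarith) (by linarith) (by norm_num)
    (inR_of (by norm_num [box12]) (by norm_num [mkPt, pc12, box12] <;> linarith) (by norm_num [mkPt, pc12, box12] <;> linarith))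
    (inR_of (by norm_num [box12]) (by norm_num [mkPt, pc12, box12] <;> linarith) (by norm_num [mkPt, pc12, box12] <;> linarith))
    ⟨(by norm_num [box12]), by norm_num [box12] <;> linarith, by norm_num [box12] <;> linarith⟩ hk w
    (by norm_num [box12]) (by norm_num [box12]) (by norm_num [box12]) (by norm_num [box12]) (by norm_num [box12])
    (by norm_num [fr, pc12] <;> linarith)

theorem signs_pc13 {n : ℕ} {d S u v t : ℝ} (hp : MidPoint n d S u v t)
    (hu0 : (13 / 25) < u) (hu1 : u ≤ (16 / 25)) (hk : S * ((1 - S) / 2) ≤ d * (1 - (1 - S) / 2)) (hd0 : (9 / 50) ≤ d) (hd1 : d < (19 / 50))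
    (w : CWindow d S u v (53 / 100) (19 / 10))
    (hfl : allFlow ((S - d) / 2) ((S + d) / 2) u v (Closed.chH d S u v t) ≤
      1 * ((1 - S) / 2 * allDen ((S - d) / 2) ((S + d) / 2) u v (Closed.chH d S u v t))) :
    Closed.Strip.ChartSigns d S u v t := by
  have hI := hp.I_lt
  have ha := hp.a_low
  have hS := hp.box.S_lt
  have hd := hp.box.pos
  exact signs_piece cert13 hp (m := (31 / 50)) (M := (41 / 50)) (by linarith) (by linarith) (by norm_num)
    (inR_of (by norm_num [box13]) (by norm_num [mkPt, pc13, box13] <;> linarith) (by norm_num [mkPt, pc13, box13] <;> linarith))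
    (inR_of (by norm_num [box13]) (by norm_num [mkPt, pc13, box13] <;> linarith) (by norm_num [mkPt, pc13, box13] <;> linarith))
    ⟨(by norm_num [box13]), by norm_num [box13] <;> linarith, by norm_num [box13] <;> linarith⟩ hk w
    (by norm_num [box13]) (by norm_num [box13]) (by norm_num [box13]) (by norm_num [box13]) (by norm_num [box13])
    (by norm_num [fr, pc13] <;> linarith)

theorem signs_pc14 {n : ℕ} {d S u v t : ℝ} (hp : MidPoint n d S u v t)
    (hu0 : (16 / 25) < u) (hu1 : u ≤ (18 / 25)) (hk : S * ((1 - S) / 2) ≤ d * (1 - (1 - S) / 2)) (hd0 : (1 / 21) ≤ d) (hd1 : d < (9 / 50))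
    (w : CWindow d S u v (53 / 100) (7 / 4))
    (hfl : allFlow ((S - d) / 2) ((S + d) / 2) u v (Closed.chH d S u v t) ≤
      1 * ((1 - S) / 2 * allDen ((S - d) / 2) ((S + d) / 2) u v (Closed.chH d S u v t))) :
    Closed.Strip.ChartSigns d S u v t := by
  have hI := hp.I_lt
  have ha := hp.a_low
  have hS := hp.box.S_lt
  have hd := hp.box.pos
  exact signs_piece cert14 hp (m := (18 / 25)) (M := (20 / 21)) (by linarith) (by linarith) (by norm_num)
    (inR_of (by norm_num [box14]) (by norm_num [mkPt, pc14, box14] <;> linarith) (by norm_num [mkPt, pc14, box14] <;> linarith))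
    (inR_of (by norm_num [box14]) (by norm_num [mkPt, pc14, box14] <;> linarith) (by norm_num [mkPt, pc14, box14] <;> linarith))
    ⟨(by norm_num [box14]), by norm_num [box14] <;> linarith, by norm_num [box14] <;> linarith⟩ hk w
    (by norm_num [box14]) (by norm_num [box14]) (by norm_num [box14]) (by norm_num [box14]) (by norm_num [box14])
    (by norm_num [fr, pc14] <;> linarith)

theorem signs_pc15 {n : ℕ} {d S u v t : ℝ} (hp : MidPoint n d S u v t)
    (hu0 : (16 / 25) < u) (hu1 : u ≤ (18 / 25)) (hk : S * ((1 - S) / 2) ≤ d * (1 - (1 - S) / 2)) (hd0 : (9 / 50) ≤ d) (hd1 : d < (29 / 100))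
    (w : CWindow d S u v (53 / 100) (7 / 4))
    (hfl : allFlow ((S - d) / 2) ((S + d) / 2) u v (Closed.chH d S u v t) ≤
      1 * ((1 - S) / 2 * allDen ((S - d) / 2) ((S + d) / 2) u v (Closed.chH d S u v t))) :
    Closed.Strip.ChartSigns d S u v t := by
  have hI := hp.I_lt
  have ha := hp.a_low
  have hS := hp.box.S_lt
  have hd := hp.box.pos
  exact signs_piece cert15 hp (m := (31 / 50)) (M := (41 / 50)) (by linarith) (by linarith) (by norm_num)
    (inR_of (by norm_num [box15]) (by norm_num [mkPt, pc15, box15] <;> linarith) (by norm_num [mkPt, pc15, box15] <;> linarith))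
    (inR_of (by norm_num [box15]) (by norm_num [mkPt, pc15, box15] <;> linarith) (by norm_num [mkPt, pc15, box15] <;> linarith))
    ⟨(by norm_num [box15]), by norm_num [box15] <;> linarith, by norm_num [box15] <;> linarith⟩ hk w
    (by norm_num [box15]) (by norm_num [box15]) (by norm_num [box15]) (by norm_num [box15]) (by norm_num [box15])
    (by norm_num [fr, pc15] <;> linarith)

theorem signs_pc16 {n : ℕ} {d S u v t : ℝ} (hp : MidPoint n d S u v t)
    (hu0 : (16 / 25) < u) (hu1 : u ≤ (18 / 25)) (hk : S * ((1 - S) / 2) ≤ d * (1 - (1 - S) / 2)) (hd0 : (29 / 100) ≤ d) (hd1 : d < (19 / 50))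
    (w : CWindow d S u v (53 / 100) (7 / 4))
    (hfl : allFlow ((S - d) / 2) ((S + d) / 2) u v (Closed.chH d S u v t) ≤
      1 * ((1 - S) / 2 * allDen ((S - d) / 2) ((S + d) / 2) u v (Closed.chH d S u v t))) :
    Closed.Strip.ChartSigns d S u v t := by
  have hI := hp.I_lt
  have ha := hp.a_low
  have hS := hp.box.S_lt
  have hd := hp.box.pos
  exact signs_piece cert16 hp (m := (31 / 50)) (M := (71 / 100)) (by linarith) (by linarith) (by norm_num)
    (inR_of (by norm_num [box16]) (by norm_num [mkPt, pc16, box16] <;> linarith) (by norm_num [mkPt, pc16, box16] <;> linarith))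
    (inR_of (by norm_num [box16]) (by norm_num [mkPt, pc16, box16] <;> linarith) (by norm_num [mkPt, pc16, box16] <;> linarith))
    ⟨(by norm_num [box16]), by norm_num [box16] <;> linarith, by norm_num [box16] <;> linarith⟩ hk w
    (by norm_num [box16]) (by norm_num [box16]) (by norm_num [box16]) (by norm_num [box16]) (by norm_num [box16])
    (by norm_num [fr, pc16] <;> linarith)

theorem signs_pc17 {n : ℕ} {d S u v t : ℝ} (hp : MidPoint n d S u v t)
    (hu0 : (18 / 25) < u) (hu1 : u ≤ (153 / 200)) (hk : S * ((1 - S) / 2) ≤ d * (1 - (1 - S) / 2)) (hd0 : (1 / 21) ≤ d) (hd1 : d < (9 / 50))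
    (w : CWindow d S u v (39 / 100) (7 / 4))
    (hfl : allFlow ((S - d) / 2) ((S + d) / 2) u v (Closed.chH d S u v t) ≤
      1 * ((1 - S) / 2 * allDen ((S - d) / 2) ((S + d) / 2) u v (Closed.chH d S u v t))) :
    Closed.Strip.ChartSigns d S u v t := by
  have hI := hp.I_lt
  have ha := hp.a_low
  have hS := hp.box.S_lt
  have hd := hp.box.pos
  exact signs_piece cert17 hp (m := (18 / 25)) (M := (20 / 21)) (by linarith) (by linarith) (by norm_num)
    (inR_of (by norm_num [box17]) (by norm_num [mkPt, pc17, box17] <;> linarith) (by norm_num [mkPt, pc17, box17] <;> linarith))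
    (inR_of (by norm_num [box17]) (by norm_num [mkPt, pc17, box17] <;> linarith) (by norm_num [mkPt, pc17, box17] <;> linarith))
    ⟨(by norm_num [box17]), by norm_num [box17] <;> linarith, by norm_num [box17] <;> linarith⟩ hk w
    (by norm_num [box17]) (by norm_num [box17]) (by norm_num [box17]) (by norm_num [box17]) (by norm_num [box17])
    (by norm_num [fr, pc17] <;> linarith)

theorem signs_pc18 {n : ℕ} {d S u v t : ℝ} (hp : MidPoint n d S u v t)
    (hu0 : (18 / 25) < u) (hu1 : u ≤ (153 / 200)) (hk : S * ((1 - S) / 2) ≤ d * (1 - (1 - S) / 2)) (hd0 : (9 / 50) ≤ d) (hd1 : d < (47 / 200))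
    (w : CWindow d S u v (39 / 100) (7 / 4))
    (hfl : allFlow ((S - d) / 2) ((S + d) / 2) u v (Closed.chH d S u v t) ≤
      1 * ((1 - S) / 2 * allDen ((S - d) / 2) ((S + d) / 2) u v (Closed.chH d S u v t))) :
    Closed.Strip.ChartSigns d S u v t := by
  have hI := hp.I_lt
  have ha := hp.a_low
  have hS := hp.box.S_lt
  have hd := hp.box.pos
  exact signs_piece cert18 hp (m := (133 / 200)) (M := (41 / 50)) (by linarith) (by linarith) (by norm_num)
    (inR_of (by norm_num [box18]) (by norm_num [mkPt, pc18, box18] <;> linarith) (by norm_num [mkPt, pc18, box18] <;> linarith))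
    (inR_of (by norm_num [box18]) (by norm_num [mkPt, pc18, box18] <;> linarith) (by norm_num [mkPt, pc18, box18] <;> linarith))
    ⟨(by norm_num [box18]), by norm_num [box18] <;> linarith, by norm_num [box18] <;> linarith⟩ hk w
    (by norm_num [box18]) (by norm_num [box18]) (by norm_num [box18]) (by norm_num [box18]) (by norm_num [box18])
    (by norm_num [fr, pc18] <;> linarith)

theorem signs_pc19 {n : ℕ} {d S u v t : ℝ} (hp : MidPoint n d S u v t)
    (hu0 : (18 / 25) < u) (hu1 : u ≤ (153 / 200)) (hk : S * ((1 - S) / 2) ≤ d * (1 - (1 - S) / 2)) (hd0 : (29 / 100) ≤ d) (hd1 : d < (17 / 50))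
    (w : CWindow d S u v (39 / 100) (7 / 4))
    (hfl : allFlow ((S - d) / 2) ((S + d) / 2) u v (Closed.chH d S u v t) ≤
      1 * ((1 - S) / 2 * allDen ((S - d) / 2) ((S + d) / 2) u v (Closed.chH d S u v t))) :
    Closed.Strip.ChartSigns d S u v t := by
  have hI := hp.I_lt
  have ha := hp.a_low
  have hS := hp.box.S_lt
  have hd := hp.box.pos
  exact signs_piece cert19 hp (m := (31 / 50)) (M := (71 / 100)) (by linarith) (by linarith) (by norm_num)
    (inR_of (by norm_num [box19]) (by norm_num [mkPt, pc19, box19] <;> linarith) (by norm_num [mkPt, pc19, box19] <;> linarith))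
    (inR_of (by norm_num [box19]) (by norm_num [mkPt, pc19, box19] <;> linarith) (by norm_num [mkPt, pc19, box19] <;> linarith))
    ⟨(by norm_num [box19]), by norm_num [box19] <;> linarith, by norm_num [box19] <;> linarith⟩ hk w
    (by norm_num [box19]) (by norm_num [box19]) (by norm_num [box19]) (by norm_num [box19]) (by norm_num [box19])
    (by norm_num [fr, pc19] <;> linarith)

theorem signs_pc20 {n : ℕ} {d S u v t : ℝ} (hp : MidPoint n d S u v t)
    (hu0 : (18 / 25) < u) (hu1 : u ≤ (153 / 200)) (hk : S * ((1 - S) / 2) ≤ d * (1 - (1 - S) / 2)) (hd0 : (17 / 50) ≤ d) (hd1 : d < (19 / 50))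
    (w : CWindow d S u v (39 / 100) (7 / 4))
    (hfl : allFlow ((S - d) / 2) ((S + d) / 2) u v (Closed.chH d S u v t) ≤
      1 * ((1 - S) / 2 * allDen ((S - d) / 2) ((S + d) / 2) u v (Closed.chH d S u v t))) :
    Closed.Strip.ChartSigns d S u v t := by
  have hI := hp.I_lt
  have ha := hp.a_low
  have hS := hp.box.S_lt
  have hd := hp.box.pos
  exact signs_piece cert20 hp (m := (31 / 50)) (M := (33 / 50)) (by linarith) (by linarith) (by norm_num)
    (inR_of (by norm_num [box20]) (by norm_num [mkPt, pc20, box20] <;> linarith) (by norm_num [mkPt, pc20, box20] <;> linarith))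
    (inR_of (by norm_num [box20]) (by norm_num [mkPt, pc20, box20] <;> linarith) (by norm_num [mkPt, pc20, box20] <;> linarith))
    ⟨(by norm_num [box20]), by norm_num [box20] <;> linarith, by norm_num [box20] <;> linarith⟩ hk w
    (by norm_num [box20]) (by norm_num [box20]) (by norm_num [box20]) (by norm_num [box20]) (by norm_num [box20])
    (by norm_num [fr, pc20] <;> linarith)

theorem signs_pc21 {n : ℕ} {d S u v t : ℝ} (hp : MidPoint n d S u v t)
    (hu0 : (18 / 25) < u) (hu1 : u ≤ (153 / 200)) (hk : S * ((1 - S) / 2) ≤ d * (1 - (1 - S) / 2)) (hd0 : (47 / 200) ≤ d) (hd1 : d < (29 / 100))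
    (w : CWindow d S u v (39 / 100) (7 / 4))
    (hfl : allFlow ((S - d) / 2) ((S + d) / 2) u v (Closed.chH d S u v t) ≤
      1 * ((1 - S) / 2 * allDen ((S - d) / 2) ((S + d) / 2) u v (Closed.chH d S u v t))) :
    Closed.Strip.ChartSigns d S u v t := by
  have hI := hp.I_lt
  have ha := hp.a_low
  have hS := hp.box.S_lt
  have hd := hp.box.pos
  exact signs_piece cert21 hp (m := (31 / 50)) (M := (153 / 200)) (by linarith) (by linarith) (by norm_num)
    (inR_of (by norm_num [box21]) (by norm_num [mkPt, pc21, box21] <;> linarith) (by norm_num [mkPt, pc21, box21] <;> linarith))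
    (inR_of (by norm_num [box21]) (by norm_num [mkPt, pc21, box21] <;> linarith) (by norm_num [mkPt, pc21, box21] <;> linarith))
    ⟨(by norm_num [box21]), by norm_num [box21] <;> linarith, by norm_num [box21] <;> linarith⟩ hk w
    (by norm_num [box21]) (by norm_num [box21]) (by norm_num [box21]) (by norm_num [box21]) (by norm_num [box21])
    (by norm_num [fr, pc21] <;> linarith)

/-- The window cells of one region. -/
theorem signs_mid_A {n : ℕ} {d S u v t : ℝ} (hp : MidPoint n d S u v t)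
    (hu0 : 1 / 10 < u) (hu1 : u ≤ 153 / 200)
    (hL : ((1 / 10) < u → u ≤ (1 / 5) → (13 / 100) * (2 * ((S - d) / 2) * u * (2 * ((1 - S) / 2))) < (v - 2 * ((1 - S) / 2)) * (1 - 2 * ((S - d) / 2) * u)) ∧
      ((1 / 5) < u → u ≤ (3 / 10) → (1 / 2) * (2 * ((S - d) / 2) * u * (2 * ((1 - S) / 2))) < (v - 2 * ((1 - S) / 2)) * (1 - 2 * ((S - d) / 2) * u)) ∧
      ((3 / 10) < u → u ≤ (14 / 25) → (13 / 20) * (2 * ((S - d) / 2) * u * (2 * ((1 - S) / 2))) < (v - 2 * ((1 - S) / 2)) * (1 - 2 * ((S - d) / 2) * u)) ∧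
      ((14 / 25) < u → u ≤ (18 / 25) → (53 / 100) * (2 * ((S - d) / 2) * u * (2 * ((1 - S) / 2))) < (v - 2 * ((1 - S) / 2)) * (1 - 2 * ((S - d) / 2) * u)) ∧
      ((18 / 25) < u → u ≤ (4 / 5) → (39 / 100) * (2 * ((S - d) / 2) * u * (2 * ((1 - S) / 2))) < (v - 2 * ((1 - S) / 2)) * (1 - 2 * ((S - d) / 2) * u)) ∧
      (4 / 5 < u → u ≤ 83 / 100 → 17 / 50 * (2 * ((S - d) / 2) * u * (2 * ((1 - S) / 2))) < (v - 2 * ((1 - S) / 2)) * (1 - 2 * ((S - d) / 2) * u)))
    (hU : ((1 / 10) < u → u ≤ (1 / 5) → (v - 2 * ((1 - S) / 2)) * (1 - 2 * ((S - d) / 2) * u) < 3 * (2 * ((S - d) / 2) * u * (2 * ((1 - S) / 2)))) ∧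
      ((1 / 5) < u → u ≤ (3 / 10) → (v - 2 * ((1 - S) / 2)) * (1 - 2 * ((S - d) / 2) * u) < (12 / 5) * (2 * ((S - d) / 2) * u * (2 * ((1 - S) / 2)))) ∧
      ((3 / 10) < u → u ≤ (9 / 20) → (v - 2 * ((1 - S) / 2)) * (1 - 2 * ((S - d) / 2) * u) < (41 / 20) * (2 * ((S - d) / 2) * u * (2 * ((1 - S) / 2)))) ∧
      ((9 / 20) < u → u ≤ (14 / 25) → (v - 2 * ((1 - S) / 2)) * (1 - 2 * ((S - d) / 2) * u) < (19 / 10) * (2 * ((S - d) / 2) * u * (2 * ((1 - S) / 2)))) ∧
      ((14 / 25) < u → u ≤ (4 / 5) → (v - 2 * ((1 - S) / 2)) * (1 - 2 * ((S - d) / 2) * u) < (7 / 4) * (2 * ((S - d) / 2) * u * (2 * ((1 - S) / 2)))) ∧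
      (4 / 5 < u → u ≤ 83 / 100 → (v - 2 * ((1 - S) / 2)) * (1 - 2 * ((S - d) / 2) * u) < 33 / 20 * (2 * ((S - d) / 2) * u * (2 * ((1 - S) / 2)))))
    (fl2 : ∀ k : ℝ, k = 1 / 2 → u ≤ 9 / 20 → allFlow ((S - d) / 2) ((S + d) / 2) u v (Closed.chH d S u v t) ≤
      k * ((1 - S) / 2 * allDen ((S - d) / 2) ((S + d) / 2) u v (Closed.chH d S u v t)))
    (fl : ∀ k : ℝ, k = 1 → allFlow ((S - d) / 2) ((S + d) / 2) u v (Closed.chH d S u v t) ≤
      k * ((1 - S) / 2 * allDen ((S - d) / 2) ((S + d) / 2) u v (Closed.chH d S u v t)))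
    (hk : d * (1 - (1 - S) / 2) ≤ S * ((1 - S) / 2)) :
    Closed.Strip.ChartSigns d S u v t := by
  have hI := hp.I_lt
  have ha := hp.a_low
  have hd := hp.box.pos
  have hS := hp.box.S_lt
  have hk0 : 0 ≤ (S - d) * u * (1 - S) :=
    mul_nonneg (mul_nonneg (by linarith) (by linarith)) (by linarith)
  have hxA : d / ((1 - S) / 2) < 1 := by
    rw [div_lt_one (by linarith)]
    nlinarith [mul_pos hd (show 0 < (1 - S) / 2 by linarith)]
  have hxA0 : 0 ≤ d / ((1 - S) / 2) := div_nonneg hd.le (by linarith)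
  have hdI : d < (1 - S) / 2 := (div_lt_one (by linarith)).1 hxA
  rcases le_or_gt u (9 / 20) with g0 | g0
  · have w : CWindow d S u v (13 / 100) 3 := by
      refine ⟨?_, ?_⟩
      · rcases le_or_gt u (1 / 5) with g | g
        · exact le_of_lt_win (hL.1 (by linarith) (by linarith)) hk0 (by norm_num)
        · rcases le_or_gt u (3 / 10) with g | g
          · exact le_of_lt_win (hL.2.1 (by linarith) (by linarith)) hk0 (by norm_num)
          · exact le_of_lt_win (hL.2.2.1 (by linarith) (by linarith)) hk0 (by norm_num)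
      · rcases le_or_gt u (1 / 5) with g | g
        · exact lt_win_le (hU.1 (by linarith) (by linarith)) hk0 (by norm_num)
        · rcases le_or_gt u (3 / 10) with g | g
          · exact lt_win_le (hU.2.1 (by linarith) (by linarith)) hk0 (by norm_num)
          · exact lt_win_le (hU.2.2.1 (by linarith) (by linarith)) hk0 (by norm_num)
    exact signs_pc0 hp (by linarith) (by linarith) hk hxA0 hxA hdI
      w (fl2 _ rfl (by linarith))
  · rcases le_or_gt u (16 / 25) with g1 | g1
    · have w : CWindow d S u v (53 / 100) (19 / 10) := by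
        refine ⟨?_, ?_⟩
        · rcases le_or_gt u (14 / 25) with g | g
          · exact le_of_lt_win (hL.2.2.1 (by linarith) (by linarith)) hk0 (by norm_num)
          · exact le_of_lt_win (hL.2.2.2.1 (by linarith) (by linarith)) hk0 (by norm_num)
        · rcases le_or_gt u (14 / 25) with g | g
          · exact lt_win_le (hU.2.2.2.1 (by linarith) (by linarith)) hk0 (by norm_num)
          · exact lt_win_le (hU.2.2.2.2.1 (by linarith) (by linarith)) hk0 (by norm_num)
      exact signs_pc1 hp (by linarith) (by linarith) hk hxA0 hxA hdI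
        w (fl _ rfl)
    · have w : CWindow d S u v (39 / 100) (7 / 4) := by
        refine ⟨?_, ?_⟩
        · rcases le_or_gt u (18 / 25) with g | g
          · exact le_of_lt_win (hL.2.2.2.1 (by linarith) (by linarith)) hk0 (by norm_num)
          · exact le_of_lt_win (hL.2.2.2.2.1 (by linarith) (by linarith)) hk0 (by norm_num)
        · exact lt_win_le (hU.2.2.2.2.1 (by linarith) (by linarith)) hk0 (by norm_num)
      exact signs_pc2 hp (by linarith) (by linarith) hk hxA0 hxA hdI
        w (fl _ rfl)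

/-- The window cells of one region. -/
theorem signs_mid_B {n : ℕ} {d S u v t : ℝ} (hp : MidPoint n d S u v t)
    (hu0 : 1 / 10 < u) (hu1 : u ≤ 153 / 200)
    (hL : ((1 / 10) < u → u ≤ (1 / 5) → (13 / 100) * (2 * ((S - d) / 2) * u * (2 * ((1 - S) / 2))) < (v - 2 * ((1 - S) / 2)) * (1 - 2 * ((S - d) / 2) * u)) ∧
      ((1 / 5) < u → u ≤ (3 / 10) → (1 / 2) * (2 * ((S - d) / 2) * u * (2 * ((1 - S) / 2))) < (v - 2 * ((1 - S) / 2)) * (1 - 2 * ((S - d) / 2) * u)) ∧
      ((3 / 10) < u → u ≤ (14 / 25) → (13 / 20) * (2 * ((S - d) / 2) * u * (2 * ((1 - S) / 2))) < (v - 2 * ((1 - S) / 2)) * (1 - 2 * ((S - d) / 2) * u)) ∧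
      ((14 / 25) < u → u ≤ (18 / 25) → (53 / 100) * (2 * ((S - d) / 2) * u * (2 * ((1 - S) / 2))) < (v - 2 * ((1 - S) / 2)) * (1 - 2 * ((S - d) / 2) * u)) ∧
      ((18 / 25) < u → u ≤ (4 / 5) → (39 / 100) * (2 * ((S - d) / 2) * u * (2 * ((1 - S) / 2))) < (v - 2 * ((1 - S) / 2)) * (1 - 2 * ((S - d) / 2) * u)) ∧
      (4 / 5 < u → u ≤ 83 / 100 → 17 / 50 * (2 * ((S - d) / 2) * u * (2 * ((1 - S) / 2))) < (v - 2 * ((1 - S) / 2)) * (1 - 2 * ((S - d) / 2) * u)))
    (hU : ((1 / 10) < u → u ≤ (1 / 5) → (v - 2 * ((1 - S) / 2)) * (1 - 2 * ((S - d) / 2) * u) < 3 * (2 * ((S - d) / 2) * u * (2 * ((1 - S) / 2)))) ∧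
      ((1 / 5) < u → u ≤ (3 / 10) → (v - 2 * ((1 - S) / 2)) * (1 - 2 * ((S - d) / 2) * u) < (12 / 5) * (2 * ((S - d) / 2) * u * (2 * ((1 - S) / 2)))) ∧
      ((3 / 10) < u → u ≤ (9 / 20) → (v - 2 * ((1 - S) / 2)) * (1 - 2 * ((S - d) / 2) * u) < (41 / 20) * (2 * ((S - d) / 2) * u * (2 * ((1 - S) / 2)))) ∧
      ((9 / 20) < u → u ≤ (14 / 25) → (v - 2 * ((1 - S) / 2)) * (1 - 2 * ((S - d) / 2) * u) < (19 / 10) * (2 * ((S - d) / 2) * u * (2 * ((1 - S) / 2)))) ∧
      ((14 / 25) < u → u ≤ (4 / 5) → (v - 2 * ((1 - S) / 2)) * (1 - 2 * ((S - d) / 2) * u) < (7 / 4) * (2 * ((S - d) / 2) * u * (2 * ((1 - S) / 2)))) ∧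
      (4 / 5 < u → u ≤ 83 / 100 → (v - 2 * ((1 - S) / 2)) * (1 - 2 * ((S - d) / 2) * u) < 33 / 20 * (2 * ((S - d) / 2) * u * (2 * ((1 - S) / 2)))))
    (fl2 : ∀ k : ℝ, k = 1 / 2 → u ≤ 9 / 20 → allFlow ((S - d) / 2) ((S + d) / 2) u v (Closed.chH d S u v t) ≤
      k * ((1 - S) / 2 * allDen ((S - d) / 2) ((S + d) / 2) u v (Closed.chH d S u v t)))
    (fl : ∀ k : ℝ, k = 1 → allFlow ((S - d) / 2) ((S + d) / 2) u v (Closed.chH d S u v t) ≤
      k * ((1 - S) / 2 * allDen ((S - d) / 2) ((S + d) / 2) u v (Closed.chH d S u v t)))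
    (hk : S * ((1 - S) / 2) ≤ d * (1 - (1 - S) / 2)) (hd19 : d < 1 / 19) :
    Closed.Strip.ChartSigns d S u v t := by
  have hI := hp.I_lt
  have ha := hp.a_low
  have hd := hp.box.pos
  have hS := hp.box.S_lt
  have hk0 : 0 ≤ (S - d) * u * (1 - S) :=
    mul_nonneg (mul_nonneg (by linarith) (by linarith)) (by linarith)
  have hxB : (1 - S) / 2 / d < 19 / 18 := by
    rw [div_lt_iff₀ hd]
    nlinarith [mul_lt_mul_of_pos_right hI hd]
  have hxB0 : 0 ≤ (1 - S) / 2 / d := div_nonneg (by linarith) hd.le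
  rcases le_or_gt u (9 / 20) with g0 | g0
  · have w : CWindow d S u v (13 / 100) 3 := by
      refine ⟨?_, ?_⟩
      · rcases le_or_gt u (1 / 5) with g | g
        · exact le_of_lt_win (hL.1 (by linarith) (by linarith)) hk0 (by norm_num)
        · rcases le_or_gt u (3 / 10) with g | g
          · exact le_of_lt_win (hL.2.1 (by linarith) (by linarith)) hk0 (by norm_num)
          · exact le_of_lt_win (hL.2.2.1 (by linarith) (by linarith)) hk0 (by norm_num)
      · rcases le_or_gt u (1 / 5) with g | g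
        · exact lt_win_le (hU.1 (by linarith) (by linarith)) hk0 (by norm_num)
        · rcases le_or_gt u (3 / 10) with g | g
          · exact lt_win_le (hU.2.1 (by linarith) (by linarith)) hk0 (by norm_num)
          · exact lt_win_le (hU.2.2.1 (by linarith) (by linarith)) hk0 (by norm_num)
    exact signs_pc3 hp (by linarith) (by linarith) hk hd19 hxB0 hxB
      w (fl2 _ rfl (by linarith))
  · rcases le_or_gt u (16 / 25) with g1 | g1
    · have w : CWindow d S u v (53 / 100) (19 / 10) := by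
        refine ⟨?_, ?_⟩
        · rcases le_or_gt u (14 / 25) with g | g
          · exact le_of_lt_win (hL.2.2.1 (by linarith) (by linarith)) hk0 (by norm_num)
          · exact le_of_lt_win (hL.2.2.2.1 (by linarith) (by linarith)) hk0 (by norm_num)
        · rcases le_or_gt u (14 / 25) with g | g
          · exact lt_win_le (hU.2.2.2.1 (by linarith) (by linarith)) hk0 (by norm_num)
          · exact lt_win_le (hU.2.2.2.2.1 (by linarith) (by linarith)) hk0 (by norm_num)
      exact signs_pc4 hp (by linarith) (by linarith) hk hd19 hxB0 hxB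
        w (fl _ rfl)
    · have w : CWindow d S u v (39 / 100) (7 / 4) := by
        refine ⟨?_, ?_⟩
        · rcases le_or_gt u (18 / 25) with g | g
          · exact le_of_lt_win (hL.2.2.2.1 (by linarith) (by linarith)) hk0 (by norm_num)
          · exact le_of_lt_win (hL.2.2.2.2.1 (by linarith) (by linarith)) hk0 (by norm_num)
        · exact lt_win_le (hU.2.2.2.2.1 (by linarith) (by linarith)) hk0 (by norm_num)
      exact signs_pc5 hp (by linarith) (by linarith) hk hd19 hxB0 hxB
        w (fl _ rfl)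

/-- The window cells of one region. -/
theorem signs_mid_D {n : ℕ} {d S u v t : ℝ} (hp : MidPoint n d S u v t)
    (hu0 : 1 / 10 < u) (hu1 : u ≤ 153 / 200)
    (hL : ((1 / 10) < u → u ≤ (1 / 5) → (13 / 100) * (2 * ((S - d) / 2) * u * (2 * ((1 - S) / 2))) < (v - 2 * ((1 - S) / 2)) * (1 - 2 * ((S - d) / 2) * u)) ∧
      ((1 / 5) < u → u ≤ (3 / 10) → (1 / 2) * (2 * ((S - d) / 2) * u * (2 * ((1 - S) / 2))) < (v - 2 * ((1 - S) / 2)) * (1 - 2 * ((S - d) / 2) * u)) ∧
      ((3 / 10) < u → u ≤ (14 / 25) → (13 / 20) * (2 * ((S - d) / 2) * u * (2 * ((1 - S) / 2))) < (v - 2 * ((1 - S) / 2)) * (1 - 2 * ((S - d) / 2) * u)) ∧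
      ((14 / 25) < u → u ≤ (18 / 25) → (53 / 100) * (2 * ((S - d) / 2) * u * (2 * ((1 - S) / 2))) < (v - 2 * ((1 - S) / 2)) * (1 - 2 * ((S - d) / 2) * u)) ∧
      ((18 / 25) < u → u ≤ (4 / 5) → (39 / 100) * (2 * ((S - d) / 2) * u * (2 * ((1 - S) / 2))) < (v - 2 * ((1 - S) / 2)) * (1 - 2 * ((S - d) / 2) * u)) ∧
      (4 / 5 < u → u ≤ 83 / 100 → 17 / 50 * (2 * ((S - d) / 2) * u * (2 * ((1 - S) / 2))) < (v - 2 * ((1 - S) / 2)) * (1 - 2 * ((S - d) / 2) * u)))
    (hU : ((1 / 10) < u → u ≤ (1 / 5) → (v - 2 * ((1 - S) / 2)) * (1 - 2 * ((S - d) / 2) * u) < 3 * (2 * ((S - d) / 2) * u * (2 * ((1 - S) / 2)))) ∧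
      ((1 / 5) < u → u ≤ (3 / 10) → (v - 2 * ((1 - S) / 2)) * (1 - 2 * ((S - d) / 2) * u) < (12 / 5) * (2 * ((S - d) / 2) * u * (2 * ((1 - S) / 2)))) ∧
      ((3 / 10) < u → u ≤ (9 / 20) → (v - 2 * ((1 - S) / 2)) * (1 - 2 * ((S - d) / 2) * u) < (41 / 20) * (2 * ((S - d) / 2) * u * (2 * ((1 - S) / 2)))) ∧
      ((9 / 20) < u → u ≤ (14 / 25) → (v - 2 * ((1 - S) / 2)) * (1 - 2 * ((S - d) / 2) * u) < (19 / 10) * (2 * ((S - d) / 2) * u * (2 * ((1 - S) / 2)))) ∧
      ((14 / 25) < u → u ≤ (4 / 5) → (v - 2 * ((1 - S) / 2)) * (1 - 2 * ((S - d) / 2) * u) < (7 / 4) * (2 * ((S - d) / 2) * u * (2 * ((1 - S) / 2)))) ∧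
      (4 / 5 < u → u ≤ 83 / 100 → (v - 2 * ((1 - S) / 2)) * (1 - 2 * ((S - d) / 2) * u) < 33 / 20 * (2 * ((S - d) / 2) * u * (2 * ((1 - S) / 2)))))
    (fl2 : ∀ k : ℝ, k = 1 / 2 → u ≤ 9 / 20 → allFlow ((S - d) / 2) ((S + d) / 2) u v (Closed.chH d S u v t) ≤
      k * ((1 - S) / 2 * allDen ((S - d) / 2) ((S + d) / 2) u v (Closed.chH d S u v t)))
    (fl : ∀ k : ℝ, k = 1 → allFlow ((S - d) / 2) ((S + d) / 2) u v (Closed.chH d S u v t) ≤
      k * ((1 - S) / 2 * allDen ((S - d) / 2) ((S + d) / 2) u v (Closed.chH d S u v t)))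
    (hk : S * ((1 - S) / 2) ≤ d * (1 - (1 - S) / 2)) (hd19 : 1 / 19 ≤ d) :
    Closed.Strip.ChartSigns d S u v t := by
  have hI := hp.I_lt
  have ha := hp.a_low
  have hd := hp.box.pos
  have hS := hp.box.S_lt
  have hk0 : 0 ≤ (S - d) * u * (1 - S) :=
    mul_nonneg (mul_nonneg (by linarith) (by linarith)) (by linarith)
  rcases le_or_gt u (33 / 100) with g0 | g0
  · have w : CWindow d S u v (13 / 100) 3 := by
      refine ⟨?_, ?_⟩
      · rcases le_or_gt u (1 / 5) with g | g
        · exact le_of_lt_win (hL.1 (by linarith) (by linarith)) hk0 (by norm_num)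
        · rcases le_or_gt u (3 / 10) with g | g
          · exact le_of_lt_win (hL.2.1 (by linarith) (by linarith)) hk0 (by norm_num)
          · exact le_of_lt_win (hL.2.2.1 (by linarith) (by linarith)) hk0 (by norm_num)
      · rcases le_or_gt u (1 / 5) with g | g
        · exact lt_win_le (hU.1 (by linarith) (by linarith)) hk0 (by norm_num)
        · rcases le_or_gt u (3 / 10) with g | g
          · exact lt_win_le (hU.2.1 (by linarith) (by linarith)) hk0 (by norm_num)
          · exact lt_win_le (hU.2.2.1 (by linarith) (by linarith)) hk0 (by norm_num)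
    rcases lt_or_ge d (9 / 50) with r0 | r0
    · exact signs_pc6 hp (by linarith) (by linarith) hk (by linarith) (by linarith)
        w (fl2 _ rfl (by linarith))
    · rcases lt_or_ge d (29 / 100) with r1 | r1
      · exact signs_pc7 hp (by linarith) (by linarith) hk (by linarith) (by linarith)
          w (fl2 _ rfl (by linarith))
      · exact signs_pc8 hp (by linarith) (by linarith) hk (by linarith) (by linarith)
          w (fl2 _ rfl (by linarith))
  · rcases le_or_gt u (13 / 25) with g1 | g1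
    · have w : CWindow d S u v (13 / 20) (41 / 20) := by
        refine ⟨?_, ?_⟩
        · exact le_of_lt_win (hL.2.2.1 (by linarith) (by linarith)) hk0 (by norm_num)
        · rcases le_or_gt u (9 / 20) with g | g
          · exact lt_win_le (hU.2.2.1 (by linarith) (by linarith)) hk0 (by norm_num)
          · exact lt_win_le (hU.2.2.2.1 (by linarith) (by linarith)) hk0 (by norm_num)
      rcases lt_or_ge d (9 / 50) with r0 | r0
      · exact signs_pc9 hp (by linarith) (by linarith) hk (by linarith) (by linarith)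
          w (fl _ rfl)
      · rcases lt_or_ge d (29 / 100) with r1 | r1
        · exact signs_pc10 hp (by linarith) (by linarith) hk (by linarith) (by linarith)
            w (fl _ rfl)
        · exact signs_pc11 hp (by linarith) (by linarith) hk (by linarith) (by linarith)
            w (fl _ rfl)
    · rcases le_or_gt u (16 / 25) with g2 | g2
      · have w : CWindow d S u v (53 / 100) (19 / 10) := by
          refine ⟨?_, ?_⟩
          · rcases le_or_gt u (14 / 25) with g | g
            · exact le_of_lt_win (hL.2.2.1 (by linarith) (by linarith)) hk0 (by norm_num)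
            · exact le_of_lt_win (hL.2.2.2.1 (by linarith) (by linarith)) hk0 (by norm_num)
          · rcases le_or_gt u (14 / 25) with g | g
            · exact lt_win_le (hU.2.2.2.1 (by linarith) (by linarith)) hk0 (by norm_num)
            · exact lt_win_le (hU.2.2.2.2.1 (by linarith) (by linarith)) hk0 (by norm_num)
        rcases lt_or_ge d (9 / 50) with r0 | r0
        · exact signs_pc12 hp (by linarith) (by linarith) hk (by linarith) (by linarith)
            w (fl _ rfl)
        · exact signs_pc13 hp (by linarith) (by linarith) hk (by linarith) (by linarith)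
            w (fl _ rfl)
      · rcases le_or_gt u (18 / 25) with g3 | g3
        · have w : CWindow d S u v (53 / 100) (7 / 4) := by
            refine ⟨?_, ?_⟩
            · exact le_of_lt_win (hL.2.2.2.1 (by linarith) (by linarith)) hk0 (by norm_num)
            · exact lt_win_le (hU.2.2.2.2.1 (by linarith) (by linarith)) hk0 (by norm_num)
          rcases lt_or_ge d (9 / 50) with r0 | r0
          · exact signs_pc14 hp (by linarith) (by linarith) hk (by linarith) (by linarith)
              w (fl _ rfl)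
          · rcases lt_or_ge d (29 / 100) with r1 | r1
            · exact signs_pc15 hp (by linarith) (by linarith) hk (by linarith) (by linarith)
                w (fl _ rfl)
            · exact signs_pc16 hp (by linarith) (by linarith) hk (by linarith) (by linarith)
                w (fl _ rfl)
        · have w : CWindow d S u v (39 / 100) (7 / 4) := by
            refine ⟨?_, ?_⟩
            · exact le_of_lt_win (hL.2.2.2.2.1 (by linarith) (by linarith)) hk0 (by norm_num)
            · exact lt_win_le (hU.2.2.2.2.1 (by linarith) (by linarith)) hk0 (by norm_num)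
          rcases lt_or_ge d (9 / 50) with r0 | r0
          · exact signs_pc17 hp (by linarith) (by linarith) hk (by linarith) (by linarith)
              w (fl _ rfl)
          · rcases lt_or_ge d (47 / 200) with r1 | r1
            · exact signs_pc18 hp (by linarith) (by linarith) hk (by linarith) (by linarith)
                w (fl _ rfl)
            · rcases lt_or_ge d (29 / 100) with r2 | r2
              · exact signs_pc21 hp (by linarith) (by linarith) hk (by linarith) (by linarith)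
                  w (fl _ rfl)
              · rcases lt_or_ge d (17 / 50) with r3 | r3
                · exact signs_pc19 hp (by linarith) (by linarith) hk (by linarith) (by linarith)
                    w (fl _ rfl)
                · exact signs_pc20 hp (by linarith) (by linarith) hk (by linarith) (by linarith)
                    w (fl _ rfl)

/-- **The closed signs of the strip on `1/10 < u ≤ 153/200`** in every dimension from twenty on. -/
theorem orbit_signs_strip_mid {n : ℕ} (hn : 20 ≤ n) :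
    OrbitSignsStrip n (fun r u => 0 < r ∧ 1 / 10 < u ∧ u ≤ 153 / 200) := by
  intro N p q R₀ R x y s dx dy hc hf hb hcb ha z hz hκ hZ
  obtain ⟨hR, hu0, hu1⟩ := hZ
  have hn' : (20 : ℝ) ≤ n := by exact_mod_cast hn
  have hdim := hcb.dim_low
  have h20 : 20 ≤ N := by
    rw [← hb.dim_eq] at hdim
    linarith
  have hSl := hcb.S_lt
  have hI : (1 - (1 / (p + 1) + 1 / (q + 1))) / 2 < 1 / 20 := by
    rw [lt_div_iff₀ (by linarith)] at hdim
    have := mul_le_mul_of_nonneg_right hn' (sub_nonneg.2 hSl.le)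
    linarith
  have hL := orbit_strip_lower hf hb h20 ha hz hR
  have hU := orbit_strip_upper hf hb h20 ha hz hR
  have hF := orbit_strip_speed hf hb h20 ha hz hR
  obtain ⟨-, eH⟩ := slopeAt_eq_all hc hf hb hz hR.ne'
  have hfa := chartFacts_orbit_all hc hf hb hz hR
  obtain ⟨-, -, hd, -⟩ := hb.facts
  set al := 1 / (p + 1)
  set be := 1 / (q + 1)
  obtain ⟨d, ed⟩ : ∃ d, d = be - al := ⟨_, rfl⟩
  obtain ⟨S, eS⟩ : ∃ S, S = al + be := ⟨_, rfl⟩
  set u := uOf N (R z) (x z)
  set v := vOf al be (y z / x z)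
  set t := slopeAt N p q R x y dx dy z
  have ea : al = (S - d) / 2 := by rw [ed, eS]; ring
  have eb : be = (S + d) / 2 := by rw [ed, eS]; ring
  have eh : hOf N (R z) (x z) (y z) z / (be - al) = Closed.chH d S u v t := by
    rw [div_eq_iff hd.ne', ed, eS]; linarith
  simp only [allStabI] at hL hU hF
  simp only [show vOf al be (y z / x z) = v from rfl, eh, ← eS] at hL hU hF
  simp only [ea, eb] at hL hU hF
  rw [← ed, ← eS] at hfa hcb ⊢
  rw [← eS] at hI
  have hp : MidPoint n d S u v t := ⟨hcb, hfa, hI, ea ▸ ha⟩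
  have hd0 : 0 < d := ed ▸ hd
  have ha' : 31 / 100 < (S - d) / 2 := ea ▸ ha
  have hk0 : 0 ≤ (S - d) * u * (1 - S) :=
    mul_nonneg (mul_nonneg (by linarith) (by linarith)) (by linarith)
  have fl2 : ∀ k : ℝ, k = 1 / 2 → u ≤ 9 / 20 → allFlow ((S - d) / 2) ((S + d) / 2) u v (Closed.chH d S u v t) ≤
      k * ((1 - S) / 2 * allDen ((S - d) / 2) ((S + d) / 2) u v (Closed.chH d S u v t)) := by
    intro k hk h
    have := (hF.1 h).1
    rw [hk]; linarith
  have fl : ∀ k : ℝ, k = 1 → allFlow ((S - d) / 2) ((S + d) / 2) u v (Closed.chH d S u v t) ≤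
      k * ((1 - S) / 2 * allDen ((S - d) / 2) ((S + d) / 2) u v (Closed.chH d S u v t)) := by
    intro k hk
    have := hF.2.1 (by linarith)
    rw [hk]; linarith
  rcases le_or_gt (d * (1 - (1 - S) / 2)) (S * ((1 - S) / 2)) with hk | hk
  · exact signs_mid_A hp hu0 hu1 hL hU fl2 fl hk
  · rcases lt_or_ge d (1 / 19) with hd19 | hd19
    · exact signs_mid_B hp hu0 hu1 hL hU fl2 fl hk.le hd19
    · exact signs_mid_D hp hu0 hu1 hL hU fl2 fl hk.le hd19

end Vale.Agent.P100.Calib.StripMid
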