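import Vale.Agent.P100.Calib.SlabStripFarCheck0
import Vale.Agent.P100.Calib.SlabStripFarCheck1
import Vale.Agent.P100.Calib.SlabStripFarCheck2
import Vale.Agent.P100.Calib.SlabStripFarCheck3
import Vale.Agent.P100.Calib.SlabStripFarCheck4
import Vale.Agent.P100.Calib.SlabStripFarCheck5
import Vale.Agent.P100.Calib.SlabStripFarCheck6
import Vale.Agent.P100.Calib.SlabStripFarCheck7
import Vale.Agent.P100.Calib.SlabStripFarCheck8
import Vale.Agent.P100.Calib.SlabStripMidOrbit

/-!
# The closed signs of the strip along orbits on `153/200 < u ≤ 4/5`, from dimension twenty on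
-/

set_option linter.unusedVariables false

open Set

namespace Vale.Agent.P100.Calib.StripMid

open Pack Band Bubble Chart

/-- The signs on piece 0. -/
theorem signs_pf0 {n : ℕ} {d S u v t : ℝ} (hp : MidPoint n d S u v t)
    (hu0 : 153 / 200 < u) (hu1 : u ≤ 4 / 5) (hk : d * (1 - (1 - S) / 2) ≤ S * ((1 - S) / 2)) (hd0 : 0 ≤ d / ((1 - S) / 2))
    (hd1 : d / ((1 - S) / 2) < 1) (hdI : d < (1 - S) / 2)
    (w : CWindow d S u v (39 / 100) (7 / 4))
    (hfl : allFlow ((S - d) / 2) ((S + d) / 2) u v (Closed.chH d S u v t) ≤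
      1 * ((1 - S) / 2 * allDen ((S - d) / 2) ((S + d) / 2) u v (Closed.chH d S u v t))) :
    Closed.Strip.ChartSigns d S u v t := by
  have hI := hp.I_lt
  have ha := hp.a_low
  have hS := hp.box.S_lt
  have hd := hp.box.pos
  exact signs_piece certf0 hp (m := (847 / 1000)) (M := 1) (by linarith) (by linarith) (by norm_num)
    (inR_of (by norm_num [boxf0]) (by norm_num [mkPt, pf0, boxf0] <;> linarith)
      (by norm_num [mkPt, pf0, boxf0] <;> linarith))
    (inR_of (by norm_num [boxf0]) (by norm_num [mkPt, pf0, boxf0] <;> linarith)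
      (by norm_num [mkPt, pf0, boxf0] <;> linarith))
    ⟨(by norm_num [boxf0]), by norm_num [boxf0] <;> linarith, by norm_num [boxf0] <;> linarith⟩ hk w
    (by norm_num [boxf0]) (by norm_num [boxf0]) (by norm_num [boxf0]) (by norm_num [boxf0]) (by norm_num [boxf0])
    (by norm_num [fr, pf0] <;> linarith)

/-- The signs on piece 1. -/
theorem signs_pf1 {n : ℕ} {d S u v t : ℝ} (hp : MidPoint n d S u v t)
    (hu0 : 153 / 200 < u) (hu1 : u ≤ 4 / 5) (hk : S * ((1 - S) / 2) ≤ d * (1 - (1 - S) / 2)) (hd19 : d < 1 / 19)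
    (hd0 : 0 ≤ (1 - S) / 2 / d) (hd1 : (1 - S) / 2 / d < 19 / 18)
    (w : CWindow d S u v (39 / 100) (7 / 4))
    (hfl : allFlow ((S - d) / 2) ((S + d) / 2) u v (Closed.chH d S u v t) ≤
      1 * ((1 - S) / 2 * allDen ((S - d) / 2) ((S + d) / 2) u v (Closed.chH d S u v t))) :
    Closed.Strip.ChartSigns d S u v t := by
  have hI := hp.I_lt
  have ha := hp.a_low
  have hS := hp.box.S_lt
  have hd := hp.box.pos
  exact signs_piece certf1 hp (m := (847 / 1000)) (M := 1) (by linarith) (by linarith) (by norm_num)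
    (inR_of (by norm_num [boxf1]) (by norm_num [mkPt, pf1, boxf1] <;> linarith)
      (by norm_num [mkPt, pf1, boxf1] <;> linarith))
    (inR_of (by norm_num [boxf1]) (by norm_num [mkPt, pf1, boxf1] <;> linarith)
      (by norm_num [mkPt, pf1, boxf1] <;> linarith))
    ⟨(by norm_num [boxf1]), by norm_num [boxf1] <;> linarith, by norm_num [boxf1] <;> linarith⟩ hk w
    (by norm_num [boxf1]) (by norm_num [boxf1]) (by norm_num [boxf1]) (by norm_num [boxf1]) (by norm_num [boxf1])
    (by norm_num [fr, pf1] <;> linarith)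

/-- The signs on piece 2. -/
theorem signs_pf2 {n : ℕ} {d S u v t : ℝ} (hp : MidPoint n d S u v t)
    (hu0 : 153 / 200 < u) (hu1 : u ≤ 4 / 5) (hk : S * ((1 - S) / 2) ≤ d * (1 - (1 - S) / 2)) (hd0 : (1 / 21) ≤ d)
    (hd1 : d < (13 / 100))
    (w : CWindow d S u v (39 / 100) (7 / 4))
    (hfl : allFlow ((S - d) / 2) ((S + d) / 2) u v (Closed.chH d S u v t) ≤
      1 * ((1 - S) / 2 * allDen ((S - d) / 2) ((S + d) / 2) u v (Closed.chH d S u v t))) :
    Closed.Strip.ChartSigns d S u v t := by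
  have hI := hp.I_lt
  have ha := hp.a_low
  have hS := hp.box.S_lt
  have hd := hp.box.pos
  exact signs_piece certf2 hp (m := (77 / 100)) (M := (20 / 21)) (by linarith) (by linarith) (by norm_num)
    (inR_of (by norm_num [boxf2]) (by norm_num [mkPt, pf2, boxf2] <;> linarith)
      (by norm_num [mkPt, pf2, boxf2] <;> linarith))
    (inR_of (by norm_num [boxf2]) (by norm_num [mkPt, pf2, boxf2] <;> linarith)
      (by norm_num [mkPt, pf2, boxf2] <;> linarith))
    ⟨(by norm_num [boxf2]), by norm_num [boxf2] <;> linarith, by norm_num [boxf2] <;> linarith⟩ hk w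
    (by norm_num [boxf2]) (by norm_num [boxf2]) (by norm_num [boxf2]) (by norm_num [boxf2]) (by norm_num [boxf2])
    (by norm_num [fr, pf2] <;> linarith)

/-- The signs on piece 3. -/
theorem signs_pf3 {n : ℕ} {d S u v t : ℝ} (hp : MidPoint n d S u v t)
    (hu0 : 153 / 200 < u) (hu1 : u ≤ 4 / 5) (hk : S * ((1 - S) / 2) ≤ d * (1 - (1 - S) / 2)) (hd0 : (13 / 100) ≤ d)
    (hd1 : d < (9 / 50))
    (w : CWindow d S u v (39 / 100) (7 / 4))
    (hfl : allFlow ((S - d) / 2) ((S + d) / 2) u v (Closed.chH d S u v t) ≤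
      1 * ((1 - S) / 2 * allDen ((S - d) / 2) ((S + d) / 2) u v (Closed.chH d S u v t))) :
    Closed.Strip.ChartSigns d S u v t := by
  have hI := hp.I_lt
  have ha := hp.a_low
  have hS := hp.box.S_lt
  have hd := hp.box.pos
  exact signs_piece certf3 hp (m := (18 / 25)) (M := (87 / 100)) (by linarith) (by linarith) (by norm_num)
    (inR_of (by norm_num [boxf3]) (by norm_num [mkPt, pf3, boxf3] <;> linarith)
      (by norm_num [mkPt, pf3, boxf3] <;> linarith))
    (inR_of (by norm_num [boxf3]) (by norm_num [mkPt, pf3, boxf3] <;> linarith)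
      (by norm_num [mkPt, pf3, boxf3] <;> linarith))
    ⟨(by norm_num [boxf3]), by norm_num [boxf3] <;> linarith, by norm_num [boxf3] <;> linarith⟩ hk w
    (by norm_num [boxf3]) (by norm_num [boxf3]) (by norm_num [boxf3]) (by norm_num [boxf3]) (by norm_num [boxf3])
    (by norm_num [fr, pf3] <;> linarith)

/-- The signs on piece 4. -/
theorem signs_pf4 {n : ℕ} {d S u v t : ℝ} (hp : MidPoint n d S u v t)
    (hu0 : 153 / 200 < u) (hu1 : u ≤ 4 / 5) (hk : S * ((1 - S) / 2) ≤ d * (1 - (1 - S) / 2)) (hd0 : (9 / 50) ≤ d)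
    (hd1 : d < (1 / 4))
    (w : CWindow d S u v (39 / 100) (7 / 4))
    (hfl : allFlow ((S - d) / 2) ((S + d) / 2) u v (Closed.chH d S u v t) ≤
      1 * ((1 - S) / 2 * allDen ((S - d) / 2) ((S + d) / 2) u v (Closed.chH d S u v t))) :
    Closed.Strip.ChartSigns d S u v t := by
  have hI := hp.I_lt
  have ha := hp.a_low
  have hS := hp.box.S_lt
  have hd := hp.box.pos
  exact signs_piece certf4 hp (m := (13 / 20)) (M := (41 / 50)) (by linarith) (by linarith) (by norm_num)
    (inR_of (by norm_num [boxf4]) (by norm_num [mkPt, pf4, boxf4] <;> linarith)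
      (by norm_num [mkPt, pf4, boxf4] <;> linarith))
    (inR_of (by norm_num [boxf4]) (by norm_num [mkPt, pf4, boxf4] <;> linarith)
      (by norm_num [mkPt, pf4, boxf4] <;> linarith))
    ⟨(by norm_num [boxf4]), by norm_num [boxf4] <;> linarith, by norm_num [boxf4] <;> linarith⟩ hk w
    (by norm_num [boxf4]) (by norm_num [boxf4]) (by norm_num [boxf4]) (by norm_num [boxf4]) (by norm_num [boxf4])
    (by norm_num [fr, pf4] <;> linarith)

/-- The signs on piece 5. -/
theorem signs_pf5 {n : ℕ} {d S u v t : ℝ} (hp : MidPoint n d S u v t)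
    (hu0 : 153 / 200 < u) (hu1 : u ≤ 4 / 5) (hk : S * ((1 - S) / 2) ≤ d * (1 - (1 - S) / 2)) (hd0 : (1 / 4) ≤ d)
    (hd1 : d < (3 / 10))
    (w : CWindow d S u v (39 / 100) (7 / 4))
    (hfl : allFlow ((S - d) / 2) ((S + d) / 2) u v (Closed.chH d S u v t) ≤
      1 * ((1 - S) / 2 * allDen ((S - d) / 2) ((S + d) / 2) u v (Closed.chH d S u v t))) :
    Closed.Strip.ChartSigns d S u v t := by
  have hI := hp.I_lt
  have ha := hp.a_low
  have hS := hp.box.S_lt
  have hd := hp.box.pos
  exact signs_piece certf5 hp (m := (31 / 50)) (M := (3 / 4)) (by linarith) (by linarith) (by norm_num)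
    (inR_of (by norm_num [boxf5]) (by norm_num [mkPt, pf5, boxf5] <;> linarith)
      (by norm_num [mkPt, pf5, boxf5] <;> linarith))
    (inR_of (by norm_num [boxf5]) (by norm_num [mkPt, pf5, boxf5] <;> linarith)
      (by norm_num [mkPt, pf5, boxf5] <;> linarith))
    ⟨(by norm_num [boxf5]), by norm_num [boxf5] <;> linarith, by norm_num [boxf5] <;> linarith⟩ hk w
    (by norm_num [boxf5]) (by norm_num [boxf5]) (by norm_num [boxf5]) (by norm_num [boxf5]) (by norm_num [boxf5])
    (by norm_num [fr, pf5] <;> linarith)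

/-- The signs on piece 6. -/
theorem signs_pf6 {n : ℕ} {d S u v t : ℝ} (hp : MidPoint n d S u v t)
    (hu0 : 153 / 200 < u) (hu1 : u ≤ 4 / 5) (hk : S * ((1 - S) / 2) ≤ d * (1 - (1 - S) / 2)) (hd0 : (3 / 10) ≤ d)
    (hd1 : d < (8 / 25))
    (w : CWindow d S u v (39 / 100) (7 / 4))
    (hfl : allFlow ((S - d) / 2) ((S + d) / 2) u v (Closed.chH d S u v t) ≤
      1 * ((1 - S) / 2 * allDen ((S - d) / 2) ((S + d) / 2) u v (Closed.chH d S u v t))) :
    Closed.Strip.ChartSigns d S u v t := by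
  have hI := hp.I_lt
  have ha := hp.a_low
  have hS := hp.box.S_lt
  have hd := hp.box.pos
  exact signs_piece certf6 hp (m := (31 / 50)) (M := (7 / 10)) (by linarith) (by linarith) (by norm_num)
    (inR_of (by norm_num [boxf6]) (by norm_num [mkPt, pf6, boxf6] <;> linarith)
      (by norm_num [mkPt, pf6, boxf6] <;> linarith))
    (inR_of (by norm_num [boxf6]) (by norm_num [mkPt, pf6, boxf6] <;> linarith)
      (by norm_num [mkPt, pf6, boxf6] <;> linarith))
    ⟨(by norm_num [boxf6]), by norm_num [boxf6] <;> linarith, by norm_num [boxf6] <;> linarith⟩ hk w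
    (by norm_num [boxf6]) (by norm_num [boxf6]) (by norm_num [boxf6]) (by norm_num [boxf6]) (by norm_num [boxf6])
    (by norm_num [fr, pf6] <;> linarith)

/-- The signs on piece 7. -/
theorem signs_pf7 {n : ℕ} {d S u v t : ℝ} (hp : MidPoint n d S u v t)
    (hu0 : 153 / 200 < u) (hu1 : u ≤ 4 / 5) (hk : S * ((1 - S) / 2) ≤ d * (1 - (1 - S) / 2)) (hd0 : (8 / 25) ≤ d)
    (hd1 : d < (17 / 50))
    (w : CWindow d S u v (39 / 100) (7 / 4))
    (hfl : allFlow ((S - d) / 2) ((S + d) / 2) u v (Closed.chH d S u v t) ≤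
      1 * ((1 - S) / 2 * allDen ((S - d) / 2) ((S + d) / 2) u v (Closed.chH d S u v t))) :
    Closed.Strip.ChartSigns d S u v t := by
  have hI := hp.I_lt
  have ha := hp.a_low
  have hS := hp.box.S_lt
  have hd := hp.box.pos
  exact signs_piece certf7 hp (m := (31 / 50)) (M := (17 / 25)) (by linarith) (by linarith) (by norm_num)
    (inR_of (by norm_num [boxf7]) (by norm_num [mkPt, pf7, boxf7] <;> linarith)
      (by norm_num [mkPt, pf7, boxf7] <;> linarith))
    (inR_of (by norm_num [boxf7]) (by norm_num [mkPt, pf7, boxf7] <;> linarith)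
      (by norm_num [mkPt, pf7, boxf7] <;> linarith))
    ⟨(by norm_num [boxf7]), by norm_num [boxf7] <;> linarith, by norm_num [boxf7] <;> linarith⟩ hk w
    (by norm_num [boxf7]) (by norm_num [boxf7]) (by norm_num [boxf7]) (by norm_num [boxf7]) (by norm_num [boxf7])
    (by norm_num [fr, pf7] <;> linarith)

/-- The signs on piece 8. -/
theorem signs_pf8 {n : ℕ} {d S u v t : ℝ} (hp : MidPoint n d S u v t)
    (hu0 : 153 / 200 < u) (hu1 : u ≤ 4 / 5) (hk : S * ((1 - S) / 2) ≤ d * (1 - (1 - S) / 2)) (hd0 : (17 / 50) ≤ d)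
    (hd1 : d < (19 / 50))
    (w : CWindow d S u v (39 / 100) (7 / 4))
    (hfl : allFlow ((S - d) / 2) ((S + d) / 2) u v (Closed.chH d S u v t) ≤
      1 * ((1 - S) / 2 * allDen ((S - d) / 2) ((S + d) / 2) u v (Closed.chH d S u v t))) :
    Closed.Strip.ChartSigns d S u v t := by
  have hI := hp.I_lt
  have ha := hp.a_low
  have hS := hp.box.S_lt
  have hd := hp.box.pos
  exact signs_piece certf8 hp (m := (31 / 50)) (M := (33 / 50)) (by linarith) (by linarith) (by norm_num)
    (inR_of (by norm_num [boxf8]) (by norm_num [mkPt, pf8, boxf8] <;> linarith)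
      (by norm_num [mkPt, pf8, boxf8] <;> linarith))
    (inR_of (by norm_num [boxf8]) (by norm_num [mkPt, pf8, boxf8] <;> linarith)
      (by norm_num [mkPt, pf8, boxf8] <;> linarith))
    ⟨(by norm_num [boxf8]), by norm_num [boxf8] <;> linarith, by norm_num [boxf8] <;> linarith⟩ hk w
    (by norm_num [boxf8]) (by norm_num [boxf8]) (by norm_num [boxf8]) (by norm_num [boxf8]) (by norm_num [boxf8])
    (by norm_num [fr, pf8] <;> linarith)

/-- **The closed signs of the strip on `153/200 < u ≤ 4/5`** in every dimension from twenty on. -/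
theorem orbit_signs_strip_far {n : ℕ} (hn : 20 ≤ n) :
    OrbitSignsStrip n (fun r u => 0 < r ∧ 153 / 200 < u ∧ u ≤ 4 / 5) := by
  intro N p q R₀ R x y s dx dy hc hf hb hcb ha z hz hκ hZ
  obtain ⟨hR, hu0, hu1⟩ := hZ
  have hn' : (20 : ℝ) ≤ n := by exact_mod_cast hn
  have hdim := hcb.dim_low
  have h20 : 20 ≤ N := by
    rw [← hb.dim_eq] at hdim
    linarith
  have hSl := hcb.S_lt
  have hI : (1 - (1 / (p + 1) + 1 / (q + 1))) / 2 < 1 / 20 := by
    rw [lt_div_iff₀ (by linarith)] at hdim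
    have := mul_le_mul_of_nonneg_right hn' (sub_nonneg.2 hSl.le)
    linarith
  have hL := orbit_strip_lower hf hb h20 ha hz hR
  have hU := orbit_strip_upper hf hb h20 ha hz hR
  have hF := orbit_strip_speed hf hb h20 ha hz hR
  obtain ⟨-, eH⟩ := slopeAt_eq_all hc hf hb hz hR.ne'
  have hfa := chartFacts_orbit_all hc hf hb hz hR
  obtain ⟨-, -, hd, -⟩ := hb.facts
  set al := 1 / (p + 1)
  set be := 1 / (q + 1)
  obtain ⟨d, ed⟩ : ∃ d, d = be - al := ⟨_, rfl⟩
  obtain ⟨S, eS⟩ : ∃ S, S = al + be := ⟨_, rfl⟩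
  set u := uOf N (R z) (x z)
  set v := vOf al be (y z / x z)
  set t := slopeAt N p q R x y dx dy z
  have ea : al = (S - d) / 2 := by rw [ed, eS]; ring
  have eb : be = (S + d) / 2 := by rw [ed, eS]; ring
  have eh : hOf N (R z) (x z) (y z) z / (be - al) = Closed.chH d S u v t := by
    rw [div_eq_iff hd.ne', ed, eS]; linarith
  simp only [allStabI] at hL hU hF
  simp only [show vOf al be (y z / x z) = v from rfl, eh, ← eS] at hL hU hF
  simp only [ea, eb] at hL hU hF
  rw [← ed, ← eS] at hfa hcb ⊢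
  rw [← eS] at hI
  have hp : MidPoint n d S u v t := ⟨hcb, hfa, hI, ea ▸ ha⟩
  have hd0 : 0 < d := ed ▸ hd
  have ha' : 31 / 100 < (S - d) / 2 := ea ▸ ha
  have hk0 : 0 ≤ (S - d) * u * (1 - S) :=
    mul_nonneg (mul_nonneg (by linarith) (by linarith)) (by linarith)
  have w : CWindow d S u v (39 / 100) (7 / 4) :=
    ⟨le_of_lt_win (hL.2.2.2.2.1 (by linarith) hu1) hk0 le_rfl,
      lt_win_le (hU.2.2.2.2.1 (by linarith) hu1) hk0 le_rfl⟩
  have fl : allFlow ((S - d) / 2) ((S + d) / 2) u v (Closed.chH d S u v t) ≤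
      1 * ((1 - S) / 2 * allDen ((S - d) / 2) ((S + d) / 2) u v (Closed.chH d S u v t)) := by
    have := hF.2.1 (by linarith)
    linarith
  have hI0 : 0 < (1 - S) / 2 := by linarith [hcb.S_lt]
  rcases le_or_gt (d * (1 - (1 - S) / 2)) (S * ((1 - S) / 2)) with hk | hk
  · have hxA : d / ((1 - S) / 2) < 1 := by
      rw [div_lt_one hI0]
      nlinarith [mul_pos hd0 hI0]
    exact signs_pf0 hp hu0 hu1 hk (div_nonneg hd0.le hI0.le) hxA ((div_lt_one hI0).1 hxA) w fl
  rcases lt_or_ge d (1 / 19) with g1 | g1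
  · have hxB : (1 - S) / 2 / d < 19 / 18 := by
      rw [div_lt_iff₀ hd0]
      nlinarith [mul_lt_mul_of_pos_right hI hd0]
    exact signs_pf1 hp hu0 hu1 hk.le g1 (div_nonneg hI0.le hd0.le) hxB w fl
  rcases lt_or_ge d (13 / 100) with g2 | g2
  · exact signs_pf2 hp hu0 hu1 hk.le (by linarith) g2 w fl
  rcases lt_or_ge d (9 / 50) with g3 | g3
  · exact signs_pf3 hp hu0 hu1 hk.le (by linarith) g3 w fl
  rcases lt_or_ge d (1 / 4) with g4 | g4
  · exact signs_pf4 hp hu0 hu1 hk.le (by linarith) g4 w fl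
  rcases lt_or_ge d (3 / 10) with g5 | g5
  · exact signs_pf5 hp hu0 hu1 hk.le (by linarith) g5 w fl
  rcases lt_or_ge d (8 / 25) with g6 | g6
  · exact signs_pf6 hp hu0 hu1 hk.le (by linarith) g6 w fl
  rcases lt_or_ge d (17 / 50) with g7 | g7
  · exact signs_pf7 hp hu0 hu1 hk.le (by linarith) g7 w fl
  exact signs_pf8 hp hu0 hu1 hk.le (by linarith) (by linarith) w fl

end Vale.Agent.P100.Calib.StripMid
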