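import Vale.Agent.P100.Calib.SlabMainInputs
import Vale.Agent.P100.Calib.SlabMainStrip
import Vale.Agent.P100.Calib.SlabStripMidOrbit
import Vale.Agent.P100.Calib.SlabStripFarOrbit

/-!
# The conjecture from twenty on from the pending regions
-/

set_option linter.unusedVariables false

open Set Laplacian

namespace Vale.Agent.P100.Calib.Band

open Vale.Agent.P100.Bubble Chart Closed

variable {n : ℕ}

/-- **The conjecture from twenty on** from `3/5 ≤ u ≤ 91/100` at `1/(p+1) ≤ 31/100` and, in the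
strip, `4/5 ≤ u`. -/
theorem lane_emden_large_of (hn : 20 ≤ n)
    (hT : OrbitSignsSlope n (ZoneBetween (3 / 5) (91 / 100)))
    (sF : OrbitSignsStrip n (ZoneFrom (4 / 5)))
    {p q : ℝ} (hp : 0 < p) (hq : 0 < q)
    (hsub : ((n : ℝ) - 2) / n < 1 / (p + 1) + 1 / (q + 1)) :
    ¬ ∃ u v : EuclideanSpace ℝ (Fin n) → ℝ,
      Continuous u ∧ Continuous v ∧ ContDiffOn ℝ 2 u {0}ᶜ ∧ ContDiffOn ℝ 2 v {0}ᶜ ∧
      (∀ x, 0 < u x) ∧ (∀ x, 0 < v x) ∧ (∀ x, x ≠ 0 → Δ u x = -(v x) ^ p) ∧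
      (∀ x, x ≠ 0 → Δ v x = -(u x) ^ q) :=
  lane_emden_of_orbit_signs (by omega) (orbit_signs_slope_large hn hT (orbit_signs_gap_zone hn))
    (orbit_signs_strip_all (by omega) (StripMid.orbit_signs_strip_mid hn)
      (orbit_signs_strip_from (StripMid.orbit_signs_strip_mid hn) (StripMid.orbit_signs_strip_far hn) sF)) hp hq hsub

end Vale.Agent.P100.Calib.Band
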