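import Vale.Agent.P100.Calib.SlabStripEndSigns
import Vale.Agent.P100.Calib.SlabStripFarOrbit

/-!
# The zone `4/5 ≤ u` of the strip from twenty on, from the statements for the single charts
-/

namespace Vale.Agent.P100.Calib.Band

open Bubble Chart

/-- The zone `4/5 ≤ u` from twenty on. -/
theorem orbit_signs_strip_last {n : ℕ} (hn : 20 ≤ n) (hZ : StripEnd.CertsIZ n)
    (hC : StripEnd.CertsC n) (hD : StripEnd.CertsD n) :
    OrbitSignsStrip n (ZoneFrom (4 / 5)) :=
  (StripMid.orbit_signs_strip_far hn).mono (StripEnd.orbit_signs_strip_end_of hn hZ hC hD)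
    fun r u h => (lt_or_eq_of_le h.2).symm.imp (fun e => ⟨h.1, by linarith, e.ge⟩) fun e => ⟨h.1, e⟩

end Vale.Agent.P100.Calib.Band
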