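import Vale.Agent.P100.Calib.SlabAllExitExpr

/-!
# The numerator of the exit condition on the curve for small `a`

The curve is `v (50 - 100 a u - 25 I u (2 + 3 u)) = 2 I (56 + 100 I - 5 u ^ 2)`. A multiple of
`v S d - 2 I`, negative at a point of the chart, is added.
-/

namespace Vale.Agent.P100.Calib.Band.AllLow

open Pack

local instance allExitLowAdd : Add Pack.Ex := ⟨Ex.add⟩
local instance allExitLowSub : Sub Pack.Ex := ⟨Ex.sub⟩
local instance allExitLowMul : Mul Pack.Ex := ⟨Ex.mul⟩

/-- `v` times the bracket. -/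
def eLexV (I : Pack.Ex) : Pack.Ex := eN 2 * I * (eN 56 + eN 100 * I - eN 5 * (eU * eU))

/-- The lower band times the bracket. -/
def eLexN (I a : Pack.Ex) : Pack.Ex :=
  (eN 100 + I * (eN 450 * I - eN 413 +
    eN 100 * (eU * (eStabL1 I a + eU * (eStabL2 I a + eU * eStabL3 a))))) * eExitDen I a +
    eStabK I a * eLexV I

/-- `qn` times the bracket. -/
def eLexQn (I a : Pack.Ex) : Pack.Ex :=
  eB I a * (eN 2 * eExitDen I a + eD I a * eLexV I) -
    eS I * eU * (eExitDen I a + eD I a * eLexV I)

/-- The denominator of `qv`, cleared. -/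
def eLexBig (I a : Pack.Ex) : Pack.Ex :=
  (eN 2 * eExitDen I a + eD I a * eLexV I) * eStabGd I a - eU * eD I a * eLexN I a

/-- The numerator of `ev`, cleared. -/
def eLexEn (I a : Pack.Ex) : Pack.Ex :=
  (eStabGd I a * eExitDen I a - eU * eD I a * eLexN I a) * eLexQn I a -
    eS I * (eN 1 - eU) * eB I a * eLexBig I a * eExitDen I a

/-- The numerator of the radial speed, cleared. -/
def eLexFlow (I a : Pack.Ex) : Pack.Ex :=
  eLexQn I a * eLexN I a - eS I * (eExitDen I a - a * eLexV I) * eLexBig I a

/-- The derivative in `u`, times the bracket. -/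
def eLexGu (I a : Pack.Ex) : Pack.Ex :=
  eLexV I * eExitDl I a - eN 20 * (I * eU) * eExitDen I a

/-- The bracket of the range of `v`. -/
def eLexRange (I a : Pack.Ex) : Pack.Ex :=
  eLexV I * (eS I * eD I a) - eN 2 * I * eExitDen I a

/-- The exit condition less `I (a + I)`. -/
def eLex : Pack.Ex :=
  eLexFlow (.var 2) (.var 3) * (eExitDen (.var 2) (.var 3) +
      eD (.var 2) (.var 3) * eLexV (.var 2)) * eExitDen (.var 2) (.var 3) -
    eLexGu (.var 2) (.var 3) * eLexEn (.var 2) (.var 3) -
    .var 2 * (.var 3 + .var 2)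

/-- With a multiple of the bracket of the range. -/
def eLexL (L : ℤ) : Pack.Ex := eLex + eN L * eLexRange (.var 2) (.var 3)

theorem lex_a : checkFour (exitBox 0 500 0 51 0 101) 500 12 0 11 7 (eLexL 0) = true := by
  decide +kernel

theorem lex_b : checkFour (exitBox 500 750 0 51 0 50) 500 12 0 11 7 (eLexL 15000000) = true := by
  decide +kernel

theorem lex_c : checkFour (exitBox 500 750 0 51 50 101) 500 12 0 11 7 (eLexL 2250000) = true := by
  decide +kernel

theorem lex_d : checkFour (exitBox 750 996 0 25 0 50) 500 12 0 11 7 (eLexL 75000000) = true := by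
  decide +kernel

theorem lex_e : checkFour (exitBox 750 996 25 51 0 50) 500 12 0 11 7 (eLexL 32500000) = true := by
  decide +kernel

theorem lex_f : checkFour (exitBox 750 996 0 25 50 75) 500 12 0 11 7 (eLexL 30000000) = true := by
  decide +kernel

theorem lex_g : checkFour (exitBox 750 996 0 25 75 101) 500 12 0 11 7 (eLexL 5000000) = true := by
  decide +kernel

theorem lex_h : checkFour (exitBox 750 996 25 51 50 75) 500 12 0 11 7 (eLexL 7500000) = true := by
  decide +kernel

theorem lex_i : checkFour (exitBox 750 996 25 51 75 101) 500 12 0 11 7 (eLexL 2750000) = true := by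
  decide +kernel

end Vale.Agent.P100.Calib.Band.AllLow
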