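import Vale.Agent.P100.Calib.SlabWaistStrip
import Vale.Agent.P100.Calib.SlabAllExitLow
import Vale.Agent.P100.Calib.SlabMainOrbit

/-!
# The closed signs along orbits in the middle of the tail

The bands and the two exit curves of the orbits are the hypotheses of `Mid.signs_middle`.
-/

set_option linter.unusedVariables false

open Set

namespace Vale.Agent.P100.Calib.Band

open Vale.Agent.P100.Bubble Chart Closed

variable {N p q : ℝ} {S : Set ℝ} {R x y s dx dy : ℝ → ℝ}

/-- **The closed signs on orbits at `3/5 ≤ u ≤ 91/100`** in every dimension from twenty on. -/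
theorem orbit_signs_middle_all {n : ℕ} (hn : 20 ≤ n) (hc : IsCrit N p q)
    (hf : IsOrbitFns N p q S R x y s dx dy)
    (hb : SlabBoxAll N (1 / (p + 1)) (1 / (q + 1)))
    (hcb : All.ChartBox n (1 / (q + 1) - 1 / (p + 1)) (1 / (p + 1) + 1 / (q + 1)))
    (ha : 1 / (p + 1) ≤ 31 / 100) {z : ℝ} (hz : z ∈ S) (hR : 0 < R z)
    (hu : 3 / 5 ≤ uOf N (R z) (x z)) (hu' : uOf N (R z) (x z) ≤ 91 / 100) :
    All.ChartSigns (1 / (q + 1) - 1 / (p + 1)) (1 / (p + 1) + 1 / (q + 1)) (uOf N (R z) (x z))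
      (vOf (1 / (p + 1)) (1 / (q + 1)) (y z / x z)) (slopeAt N p q R x y dx dy z) := by
  have hn' : (20 : ℝ) ≤ n := by exact_mod_cast hn
  have h20 : 20 ≤ N := by
    have := hcb.dim_low
    rw [← hb.dim_eq] at this
    linarith
  have hlo := orbit_stab_low_all hf hb h20 ha hz hR
  have hup := orbit_stab_up_all hf hb h20 ha hz hR
  have hex := orbit_exit_all' hf hb h20 ha hz hR (by linarith)
  have hlow := fun h => orbit_exit_low_all hf hb h20 h hz hR (by linarith)
  obtain ⟨-, eH⟩ := slopeAt_eq_all hc hf hb hz hR.ne'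
  have hfa := chartFacts_orbit_all hc hf hb hz hR
  obtain ⟨hal, -, hd, -⟩ := hb.facts
  have hS := hb.S_lt
  have hI20 : (1 - (1 / (p + 1) + 1 / (q + 1))) / 2 ≤ 1 / 20 := by
    have := hb.sum
    have h := mul_le_mul_of_nonneg_right h20 (sub_pos.2 hS).le
    linarith
  simp only [allStabI] at hex hlow
  set al := 1 / (p + 1)
  set be := 1 / (q + 1)
  set u := uOf N (R z) (x z)
  set v := vOf al be (y z / x z)
  set t := slopeAt N p q R x y dx dy z
  have eq : hOf N (R z) (x z) (y z) z / (be - al) = chH (be - al) (al + be) u v t := by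
    rw [div_eq_iff hd.ne']; linarith
  rw [eq] at hlo hup
  generalize u = U at hu hu' hfa hlo hup hex hlow ⊢
  generalize v = V at hfa hlo hup hex hlow ⊢
  generalize t = T at hfa hlo hup hex hlow ⊢
  set I := (1 - (al + be)) / 2 with hI
  obtain ⟨X, hX⟩ : ∃ X, V = 2 * I * X :=
    ⟨V / (2 * I), by rw [mul_div_cancel₀ _ (by linarith : 2 * I ≠ 0)]⟩
  have hI0 : 0 < I := by linarith
  have e1 : be - al = 1 - 2 * I - 2 * al := by rw [hI]; ring
  have e2 : al + be = 1 - 2 * I := by rw [hI]; ring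
  have e3 : be = 1 - 2 * I - al := by linarith
  rw [e1, e2, hX] at hfa hlo hup ⊢
  rw [e3] at hlo hup
  rw [hX] at hex hlow
  obtain ⟨hD, h0, h2⟩ := Mid.ends_of_stab hal ha hI0 hI20 (by linarith) hlo hup
  refine Mid.signs_middle ⟨hal, ha, hI0, hI20, hfa, hD, h0, h2, ?_, fun h => ?_⟩ hu hu'
  · exact Mid.exit_of_curve false hI0 (by simpa using hex)
  · exact Mid.exit_of_curve true hI0 (by simpa using hlow h)

/-- The middle of the tail as a zone of the orbits. -/
theorem orbitSignsSlope_middle {n : ℕ} (hn : 20 ≤ n) :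
    OrbitSignsSlope n (ZoneBetween (3 / 5) (91 / 100)) :=
  fun N p q S R x y s dx dy hc hf hb hcb ha z hz _ hZ =>
    orbit_signs_middle_all hn hc hf hb hcb ha hz hZ.1 hZ.2.1 hZ.2.2

end Vale.Agent.P100.Calib.Band
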