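import Vale.Agent.P100.Calib.ConeMainOrbit
import Vale.Agent.P100.Calib.SlabMainLarge
import Vale.Agent.P100.Calib.SlabWaistOrbit
import Vale.Agent.P100.Calib.SlabStripEndZoneLarge

/-!
# The system with a common weight for `ν ≥ 20` from the charts of the end of the strip
-/

set_option linter.unusedVariables false

open Set Laplacian

namespace Vale.Agent.P100.Calib.Band

open Closed

/-- The signs of the strip in dimension twenty from the charts of its end. -/
theorem orbit_signs_strip_twenty (hZ : StripEnd.CertsIZ 20) (hC : StripEnd.CertsC 20)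
    (hD : StripEnd.CertsD 20) : OrbitSignsStrip 20 ZoneAll :=
  orbit_signs_strip_all (by norm_num) (StripMid.orbit_signs_strip_mid le_rfl)
    (orbit_signs_strip_from (StripMid.orbit_signs_strip_mid le_rfl)
      (StripMid.orbit_signs_strip_far le_rfl) (orbit_signs_strip_last le_rfl hZ hC hD))

/-- **No solution for `20 ≤ ν = 2 (n + w) / (2 + w)` (that is `9 w ≤ n - 20`) and subcritical
`p, q`**, from the charts of the end of the strip. -/
theorem henon_lane_emden_large_of_certs (hZ : StripEnd.CertsIZ 20) (hC : StripEnd.CertsC 20)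
    (hD : StripEnd.CertsD 20) {n : ℕ} (hn : 3 ≤ n) {w : ℝ} (hw0 : w ≤ 0)
    (hdim : 9 * w ≤ (n : ℝ) - 20) {p q : ℝ} (hp : 0 < p) (hq : 0 < q)
    (hsub : (n : ℝ) - 2 < ((n : ℝ) + w) / (p + 1) + ((n : ℝ) + w) / (q + 1)) :
    ¬ ∃ u v : EuclideanSpace ℝ (Fin n) → ℝ,
      Continuous u ∧ Continuous v ∧ ContDiffOn ℝ 2 u {0}ᶜ ∧ ContDiffOn ℝ 2 v {0}ᶜ ∧
      (∀ x, 0 < u x) ∧ (∀ x, 0 < v x) ∧ (∀ x, x ≠ 0 → Δ u x = -(‖x‖ ^ w * v x ^ p)) ∧
      (∀ x, x ≠ 0 → Δ v x = -(‖x‖ ^ w * u x ^ q)) :=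
  henon_lane_emden_high_of
    (orbit_signs_slope_large le_rfl (orbitSignsSlope_middle le_rfl) (orbit_signs_gap_zone le_rfl))
    (orbit_signs_strip_twenty hZ hC hD) hn hw0 hdim hp hq hsub

/-- **The Lane–Emden conjecture in every dimension from twenty on**, from the same charts. -/
theorem lane_emden_large_of_certs (hZ : StripEnd.CertsIZ 20) (hC : StripEnd.CertsC 20)
    (hD : StripEnd.CertsD 20) {n : ℕ} (hn : 20 ≤ n) {p q : ℝ} (hp : 0 < p) (hq : 0 < q)
    (hsub : ((n : ℝ) - 2) / n < 1 / (p + 1) + 1 / (q + 1)) :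
    ¬ ∃ u v : EuclideanSpace ℝ (Fin n) → ℝ,
      Continuous u ∧ Continuous v ∧ ContDiffOn ℝ 2 u {0}ᶜ ∧ ContDiffOn ℝ 2 v {0}ᶜ ∧
      (∀ x, 0 < u x) ∧ (∀ x, 0 < v x) ∧ (∀ x, x ≠ 0 → Δ u x = -(v x) ^ p) ∧
      (∀ x, x ≠ 0 → Δ v x = -(u x) ^ q) := by
  have hn' : (20 : ℝ) ≤ n := by exact_mod_cast hn
  have h := henon_lane_emden_large_of_certs hZ hC hD (n := n) (by omega) (le_refl (0 : ℝ))
    (by linarith) hp hq (by
      rw [div_lt_iff₀ (by linarith)] at hsub
      rw [add_zero, div_eq_mul_one_div (n : ℝ) (p + 1), div_eq_mul_one_div (n : ℝ) (q + 1)]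
      linarith)
  simpa [Real.rpow_zero] using h

end Vale.Agent.P100.Calib.Band
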