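import Mathlib
import Vale.Agent.P100.Calib.ConeCalib
import Vale.Agent.P100.Calib.SlabStripNumMain
import Vale.Agent.P100.RealDim.LayerEighth
import Vale.Agent.P100.RealDim.EighthNear

/-!
# The Hénon–Lane–Emden system with a common weight from closed signs along critical orbits

For `-2 < w ≤ 0` on `ℝ^n` let `ν = coneDim n w = 2 (n + w) / (2 + w)`. A pair `q < p` below the
weighted hyperbola is critical in a real dimension `N > ν`, and closed signs of the split family
along its orbit exclude solutions as soon as `α ≤ N - 3`. The diagonal follows from the layer.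
-/

set_option linter.unusedVariables false

open Set Laplacian

namespace Vale.Agent.P100.Calib

open Orb Bubble

variable {n : ℕ} {N p q : ℝ}

/-- `genAll` is admitted at every critical point with `α ≤ N - 3` in a real dimension `N > 6`;
`6` stands in for the natural parameter of the data. -/
theorem genAll_adm_crit {α β : ℝ} (hc : IsCrit N p q) (hpq : 1 < p * q) (hN : 6 < N)
    (hα : α = 2 * (p + 1) / (p * q - 1)) (hβ : β = 2 * (q + 1) / (p * q - 1))
    (hsum : α + β = N - 2) (h4 : α ≤ N - 3) (w₁ g₁ gY : ℝ) :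
    (genAll N p q w₁ g₁ gY).Adm 6 N p q ∧ 1 ≤ N / (p + 1) ∧
      (genAll N p q w₁ g₁ gY).kap ≤ 0 := by
  have hq := hc.q_pos
  have hp := hc.p_pos
  obtain ⟨hal, hlt, hw⟩ := hc.weights
  obtain ⟨eb, ea⟩ := scaling_eq hp hq hpq hα hβ (N := N) (by linarith)
  set b := N * (1 / (p + 1)) with hb
  have hb1 : 1 ≤ b := by linarith
  have hb2 : 1 ≤ N / (p + 1) := by rw [hb, mul_one_div] at hb1; exact hb1
  set k := AllN.kapAll N (1 / (p + 1)) with hk
  have hk1 : -1 ≤ k := le_max_left _ _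
  have hk2 : k ≤ 0 := by
    refine max_le (by norm_num) (neg_nonpos.2 ?_)
    rw [← hb]
    exact div_nonneg (mul_nonneg (by linarith) (by linarith)) (sq_nonneg _)
  have hqa : q * α = N - α := by
    have : α * (q + 1) = N := by rw [ea]; field_simp
    linarith
  have hα0 : 0 < α := by rw [hα]; exact div_pos (by linarith) (by linarith)
  have h3 : 3 ≤ q * α := by linarith
  refine ⟨⟨?_, hk1, ?_, ?_, ?_, ?_⟩, hb2, hk2⟩
  · exact mul_pos hal (hal.trans hlt)
  · show ((6 : ℕ) : ℝ) < N - k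
    push_cast; linarith
  · show k ≤ N - 4
    linarith
  · show 1 ≤ 2 * q * ((N - 4 - k) / 4)
    refine le_of_mul_le_mul_right (a := α) ?_ hα0
    have := mul_le_mul h3 (show N - 4 ≤ N - 4 - k by linarith) (by linarith) (by linarith)
    linarith
  · have e2 : 2 * N * (1 / (p + 1)) = 2 * b := by rw [hb]; ring
    rw [e2]
    show N - 3 - 2 * b ≤
      2 * N * (1 / (q + 1)) * (2 * q * ((N - 4 - k) / 4) - 1) + 3 * (k + 1)
    rw [show 2 * N * (1 / (q + 1)) = 2 * α by rw [ea]; ring]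
    have e : 2 * α * (2 * q * ((N - 4 - k) / 4) - 1) = q * α * (N - 4 - k) - 2 * α := by ring
    rw [e, hqa]
    have h5 : 0 ≤ (N - k) * (N - α - 3) := mul_nonneg (by linarith) (by linarith)
    linarith

/-- The closed signs of the split family along the orbit of a critical pair with `1/(p + 1) ≤ A` in the slab
`ν < N < ν + 1/8`. -/
def CritSplitSigns (ν A : ℝ) : Prop :=
  ∀ p q N α β : ℝ, 0 < q → q < p → 1 < p * q → IsCrit N p q →
    α = 2 * (p + 1) / (p * q - 1) → β = 2 * (q + 1) / (p * q - 1) → α + β = N - 2 →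
    ν < N → N < ν + 1 / 8 → α ≤ N - 3 → 1 / (p + 1) ≤ A →
    ∀ (S : Set ℝ) (R x y s dx dy : ℝ → ℝ), IsOrbitFns N p q S R x y s dx dy →
      ∀ z ∈ Ioc 0 ((p + 1) / (q + 1)),
        let al := 1 / (p + 1)
        let be := 1 / (q + 1)
        let v := (be * y z / (al * x z) - 1) / (be - al)
        ClosedGen.SignsMult al (be - al) v (s z / y z)
          (wFun N x y dx dy z / ((be - al) * x z ^ 2))
          (wFun₁ N R x y dx dy z / ((be - al) * x z ^ 3)) (R z * x z)
          (splitNum al (be - al) v (wFun N x y dx dy z / ((be - al) * x z ^ 2)) (R z * x z))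

/-- **No weighted solution at a critical point above the dimension of the cone.** -/
theorem no_solution_cone_of_crit (hn : 5 ≤ n) {w : ℝ} (hw : -2 < w) (hw0 : w ≤ 0)
    (h6 : 6 ≤ coneDim n w) {A : ℝ} (hS : CritSplitSigns (coneDim n w) A) {α β : ℝ}
    (hc : IsCrit N p q) (hpq : 1 < p * q) (hα : α = 2 * (p + 1) / (p * q - 1))
    (hβ : β = 2 * (q + 1) / (p * q - 1)) (hsum : α + β = N - 2) (hνN : coneDim n w < N) (hN8 : N < coneDim n w + 1 / 8)
    (h4 : α ≤ N - 3) (hal : 1 / (p + 1) ≤ A) :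
    ¬ ∃ u v : EuclideanSpace ℝ (Fin n) → ℝ,
      Continuous u ∧ Continuous v ∧ ContDiffOn ℝ 2 u {0}ᶜ ∧ ContDiffOn ℝ 2 v {0}ᶜ ∧
      (∀ x, 0 < u x) ∧ (∀ x, 0 < v x) ∧ (∀ x, x ≠ 0 → Δ u x = -(‖x‖ ^ w * v x ^ p)) ∧
      (∀ x, x ≠ 0 → Δ v x = -(‖x‖ ^ w * u x ^ q)) := by
  obtain ⟨S, R, x, y, s, dx, dy, h⟩ := exists_orbitFns hc
  obtain ⟨hA, hb, hk⟩ := genAll_adm_crit hc hpq (by linarith) hα hβ hsum h4
    (-(5 / 2) * ((1 / (p + 1)) / (1 / (q + 1))) / N)
    (-(3 / 10) * ((1 / (p + 1)) / (1 / (q + 1))) ^ 2) 0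
  obtain ⟨hA', -, hk'⟩ := genAll_adm_crit hc hpq (by linarith) hα hβ hsum h4
    (-stripK (1 / (p + 1)) (1 / (q + 1) - 1 / (p + 1)) N *
      ((1 / (p + 1)) / (1 / (q + 1))) / N)
    (-(1 / 10) * ((1 / (p + 1)) / (1 / (q + 1))) ^ 2) 0
  obtain ⟨hP, hPk, hE, hsg⟩ : (genSplit N p q).Adm 6 N p q ∧ (genSplit N p q).kap ≤ 0 ∧
      GenEnd N p q (genSplit N p q) ∧ ∀ z ∈ Ioc 0 ((p + 1) / (q + 1)),
        ∃ μ : ℝ, GenSigns N p q (genSplit N p q).kap ((genSplit N p q).num N (R z) (y z) z)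
          ((genSplit N p q).numW₁ z)
          ((genSplit N p q).numG₁ N p q (R z) (x z) (y z) z (wFun N x y dx dy z)) μ (R z) (x z)
          (y z) z (s z) (wFun N x y dx dy z) (wFun₁ N R x y dx dy z) := by
    have hs := fun z hz =>
      hS p q N α β hc.q_pos hc.lt hpq hc hα hβ hsum hνN hN8 h4 hal S R x y s dx dy h z hz
    unfold genSplit
    split_ifs with hal'
    · refine ⟨hA, hk, genEnd_all hc (by linarith) hb _ _ _, fun z hz => ?_⟩
      have hs := hs z hz
      simp only [splitNum, if_pos hal'] at hs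
      rw [← closedNum_all hc h (h.cover hz) rfl rfl rfl] at hs
      exact genSigns_of_closed hc h (genSlope N p q) hA.c_pos (h.cover hz) rfl rfl rfl hs
    · refine ⟨hA', hk', genEnd_all hc (by linarith) hb _ _ _, fun z hz => ?_⟩
      have hs := hs z hz
      simp only [splitNum, if_neg hal'] at hs
      rw [← closedNum_strip hc h (h.cover hz) rfl rfl rfl] at hs
      exact genSigns_of_closed hc h (genStrip N p q) hA'.c_pos (h.cover hz) rfl rfl rfl hs
  have o := OrbitCalib.of_block_end (n := 6) hc h (le_refl (0 : ℝ))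
    (r₂ := (N - 4 - (genSplit N p q).kap) / 4) (by have := hP.kap_high; linarith) (zero_add _)
    hP.kap_lt (contDiffOn_genK hc h (genSplit N p q))
    (fun z hz hR => genK_six hc h (genSplit N p q) hz hR)
    (contDiffOn_famE hc h (genSplit N p q).isC1Num_base)
    (((genSplit N p q).endVal N p q).shift (endOrb N p q (genSplit N p q).kap))
    (fun r hr => by simpa [hr] using (gen_limits hc h (genSplit N p q) r).1)
    (fun r hr => by simpa [hr] using (gen_limits hc h (genSplit N p q) r).2)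
    (by simpa using (gen_limits hc h (genSplit N p q) 6).1)
    (by simpa using (gen_limits hc h (genSplit N p q) 6).2)
    (fun z hz => (lamR_le_of_kap hc h hP.kap_low hP.exp_one hP.exp_drift (h.cover hz)).trans
      (by linarith))
    (fun z hz => by
      obtain ⟨e0, e1⟩ := genK_head hc h (genSplit N p q) hP.c_pos (h.cover hz)
      obtain ⟨μ, hμ⟩ := hsg z hz
      exact ⟨e0, e1, block_of_genSigns hc h (genSplit N p q) (h.cover hz) hμ⟩) hE
  have hν : coneDim n w = 2 * ((n : ℝ) - -w) / (2 - -w) := by rw [coneDim]; ring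
  simpa only [neg_neg] using o.no_solution_cone hc h hn (g := -w) (by linarith) (by linarith) hν hνN
    (by linarith)

/-- **Nonexistence for `q ≤ p`** with `α ≤ ν - 3` below the weighted hyperbola. -/
theorem no_solution_cone_ordered (hn : 5 ≤ n) {w : ℝ} (hw : -2 < w) (hw0 : w ≤ 0)
    (h6 : 6 ≤ coneDim n w) {A : ℝ} (hS : CritSplitSigns (coneDim n w) A) (hq : 0 < q) (hqp : q ≤ p)
    (hpq : 1 < p * q) (ha : 2 * (p + 1) / (p * q - 1) ≤ coneDim n w - 3)
    (hsub : coneDim n w - 2 < 2 * (p + 1) / (p * q - 1) + 2 * (q + 1) / (p * q - 1))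
    (hal : 1 / (p + 1) ≤ A) :
    ¬ ∃ u v : EuclideanSpace ℝ (Fin n) → ℝ,
      Continuous u ∧ Continuous v ∧ ContDiffOn ℝ 2 u {0}ᶜ ∧ ContDiffOn ℝ 2 v {0}ᶜ ∧
      (∀ x, 0 < u x) ∧ (∀ x, 0 < v x) ∧ (∀ x, x ≠ 0 → Δ u x = -(‖x‖ ^ w * v x ^ p)) ∧
      (∀ x, x ≠ 0 → Δ v x = -(‖x‖ ^ w * u x ^ q)) := by
  have hp : 0 < p := hq.trans_le hqp
  have hd : 0 < p * q - 1 := by linarith
  rcases hqp.eq_or_lt with e | hlt
  · subst e
    refine no_solutionG_of_params hn hw hw0 hp hq hpq
      (RealDim.hasParamsN_layer (by linarith) hq le_rfl hpq ?_ (Or.inr ⟨ha, hsub, ?_⟩))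
    · rw [div_le_iff₀ hd] at ha
      linarith
    · simp only [sub_self, ne_eq, OfNat.ofNat_ne_zero, not_false_eq_true, zero_pow, mul_zero,
        zero_div]
      linarith
  · obtain ⟨α, hα⟩ : ∃ α, α = 2 * (p + 1) / (p * q - 1) := ⟨_, rfl⟩
    obtain ⟨β, hβ⟩ : ∃ β, β = 2 * (q + 1) / (p * q - 1) := ⟨_, rfl⟩
    have hcr := crit_of_scaling hp hq hpq
    rw [← hα, ← hβ] at hcr hsub
    rw [← hα] at ha
    have hc : IsCrit (α + β + 2) p q :=
      ⟨by linarith, hq, hlt, by rw [hcr, add_sub_cancel_right]⟩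
    rcases le_or_gt (coneDim n w - 2 + 1 / 8) (α + β) with he | he
    · refine no_solutionG_of_params hn hw hw0 hp hq hpq ?_
      subst hα hβ
      rcases le_total (20 * (coneDim n w + 2)) (9 * (coneDim n w - 2) * p) with h | h
      · exact RealDim.hasParamsN_eighth (by linarith) hq hpq h ha he
      · exact RealDim.hasParamsN_eighth_near (by linarith) hq hqp hpq h ha he
    exact no_solution_cone_of_crit hn hw hw0 h6 hS hc hpq hα hβ (by ring) (by linarith)
      (by linarith) (by linarith) hal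

end Vale.Agent.P100.Calib
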