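import Vale.Agent.P100.Calib.SlabAllTailExpr

/-!
# The numerators of the exit band above at the end of the tail

The band is `H (b - u a) = 1 - I w (2 - 39/20 a) / d`, cleared by `20 d (b - u a)`; the range of `v`
between the forward curve (`var 1 = 1`) and the end (`var 1 = 0`) is cleared by `eTailDen`.
-/

namespace Vale.Agent.P100.Calib.Band.AllLow

open Pack

local instance allTopAdd : Add Pack.Ex := ⟨Ex.add⟩
local instance allTopSub : Sub Pack.Ex := ⟨Ex.sub⟩
local instance allTopMul : Mul Pack.Ex := ⟨Ex.mul⟩

/-- Twenty times the coefficient of the band. -/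
def eTopK (a : Pack.Ex) : Pack.Ex := eN 40 - eN 39 * a

/-- The band times its pole. -/
def eTopN (I a : Pack.Ex) : Pack.Ex := eN 20 * eD I a - I * eEndW * eTopK a

/-- Its pole. -/
def eTopG (I a : Pack.Ex) : Pack.Ex := eN 20 * (eD I a * eW I a)

/-- `v` times the pole, on the range. -/
def eTopV (I a : Pack.Ex) : Pack.Ex :=
  eN 2 * I * (eTailM a -
    .var 1 * (eTailB I a * eEndW - eN 1600 * (eTailR I a * (eEndW * eEndW))))

/-- `ev` times the pole of the band and that of `v`. -/
def eTopEn (n g den V I a : Pack.Ex) : Pack.Ex :=
  (g - eU * eD I a * n) * eTailQn den V I a -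
    eS I * eEndW * eB I a * eTailBig (n * den) g den V I a

/-- The radial speed less `S v` times the denominator, at the band. -/
def eTopBr (n g den V I a : Pack.Ex) : Pack.Ex :=
  eTailFlow (n * den) g den V I a - eS I * V * eTailBig (n * den) g den V I a

/-- The flow at the band, with the sign changed. -/
def eTopDot (n g den V I a : Pack.Ex) : Pack.Ex :=
  (eN 0 - a * n - I * eTopK a * eW I a) * eU * den * eTopEn n g den V I a +
    eW I a * (eN 0 - (g - eU * eD I a * n) * eTopBr n g den V I a -
      n * den * eTopEn n g den V I a)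

/-- The decrease of `ev` in `H`, times the pole of `v`. -/
def eTopE1 (den V I a : Pack.Ex) : Pack.Ex :=
  eU * eD I a * (eTailQn den V I a - eS I * eEndW * eB I a * den)

/-- The increase of the radial speed less `S v` times the denominator, times the pole. -/
def eTopF1 (den V I a : Pack.Ex) : Pack.Ex :=
  eTailQn den V I a + eS I * eU * eD I a * (den - a * V + V)

/-- The derivative of `eTopDot` in `H`. -/
def eTopSlope (n g den V I a : Pack.Ex) : Pack.Ex :=
  eN 0 - a * eU * den * eTopEn n g den V I a +
    (a * n + I * eTopK a * eW I a) * eU * eTopE1 den V I a * den +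
    eW I a * (eU * eD I a * eTopBr n g den V I a -
      (g - eU * eD I a * n) * eTopF1 den V I a * den - den * eTopEn n g den V I a +
      n * eTopE1 den V I a * den)

/-- The condition at the band, less a monomial. -/
def eTopCond : Pack.Ex :=
  eTopDot (eTopN (.var 2) (.var 3)) (eTopG (.var 2) (.var 3)) (eTailDen (.var 2) (.var 3))
      (eTopV (.var 2) (.var 3)) (.var 2) (.var 3) - .var 2 * .var 2 * eEndW

/-- The slope at the band, less a monomial. -/
def eTopTilt : Pack.Ex :=
  eTopSlope (eTopN (.var 2) (.var 3)) (eTopG (.var 2) (.var 3)) (eTailDen (.var 2) (.var 3))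
      (eTopV (.var 2) (.var 3)) (.var 2) (.var 3) - .var 2 * .var 2

theorem top_cond : checkFour (tailBox 974 1000 0 1001 310 0) 520 8 2 13 15 eTopCond = true := by
  decide +kernel

theorem top_tilt : checkFour (tailBox 974 1000 0 1001 310 0) 500 7 2 12 14 eTopTilt = true := by
  decide +kernel

end Vale.Agent.P100.Calib.Band.AllLow
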