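import Vale.Agent.P100.Calib.SlabAllTail
import Vale.Agent.P100.Calib.SlabAllTopExpr

/-!
# The band above at the end of the tail in every dimension from twenty on

`H (b - u a) <= 1 - I w (2 - 39/20 a) / d` on orbits for `39/40 <= u < 1`, `w = 1 - u`.
-/

open Set Filter Topology

namespace Vale.Agent.P100.Calib.Band

open Vale.Agent.P100.Bubble Chart

/-- The coefficient of the band above. -/
noncomputable def allTopC (a b : ℝ) : ℝ := allStabI a b * (40 - 39 * a) / (20 * (b - a))

/-- **The band function.** -/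
noncomputable def allTopF (a b u H : ℝ) : ℝ := 1 - (1 - u) * allTopC a b - H * (b - u * a)

theorem hasGrad_allTop (a b : ℝ) :
    HasGrad (fun u _ H => allTopF a b u H) (fun _ _ H => a * H + allTopC a b)
      (fun _ _ _ => 0) (fun u _ _ => -(b - u * a)) := by
  intro u v H du dv dh t hu _ hh
  refine ((((hu.const_sub 1).mul_const (allTopC a b)).const_sub 1).fun_sub
    (hh.fun_mul ((hu.mul_const a).const_sub b))).congr_deriv ?_
  ring

namespace AllLow

open Pack

local instance allTopRealAdd : Add Pack.Ex := ⟨Ex.add⟩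
local instance allTopRealSub : Sub Pack.Ex := ⟨Ex.sub⟩
local instance allTopRealMul : Mul Pack.Ex := ⟨Ex.mul⟩

/-- The flow of the band function, with the sign changed. -/
noncomputable def topT (a b u v H : ℝ) : ℝ :=
  allDot a b u v H (-(a * H) - allTopC a b) 0 (b - u * a)

/-- Its derivative in `H`. -/
noncomputable def topT1 (a b u v H : ℝ) : ℝ :=
  let e₁ := u * (b - a) * (allQn a b u v - (a + b) * (1 - u) * b)
  let f₁ := allQn a b u v + (a + b) * (1 - a * v) * (u * (b - a)) + (a + b) * v * (u * (b - a))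
  (a * H + allTopC a b) * (u * e₁) - a * u * allEn a b u v H +
    (b - u * a) * (u * (b - a) * (allFlow a b u v H - (a + b) * (v * allDen a b u v H)) -
      (1 - u * ((b - a) * H)) * f₁ - allEn a b u v H + H * e₁)

/-- The tangent is below. -/
theorem topT_tangent {a b u v H G : ℝ} (ha : 0 ≤ a) (hd : 0 ≤ b - a) (hS : a + b ≤ 2) (hv : 0 ≤ v)
    (hav : a * v ≤ 1) (hu : 0 ≤ u) (hu1 : u ≤ 1) :
    topT a b u v G + topT1 a b u v G * (H - G) ≤ topT a b u v H := by
  have hb : 0 ≤ b := by linarith
  have hS0 : 0 ≤ a + b := by linarith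
  have hdv : 0 ≤ (b - a) * v := by positivity
  have hw : 0 ≤ b - u * a := by linarith [mul_le_mul_of_nonneg_right hu1 ha]
  have key : 0 ≤ allQn a b u v - (a + b) * (1 - u) * b := by
    have e : allQn a b u v - (a + b) * (1 - u) * b =
        (1 - u) * ((2 - (a + b)) * b + b * ((b - a) * v)) + u * ((b - a) * (1 - a * v)) := by
      simp only [allQn]; ring
    rw [e]
    exact add_nonneg (mul_nonneg (by linarith) (add_nonneg (mul_nonneg (by linarith) hb)
      (mul_nonneg hb hdv))) (mul_nonneg hu (mul_nonneg hd (by linarith)))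
  have hq : 0 ≤ allQn a b u v := by
    linarith [mul_nonneg (mul_nonneg hS0 (show (0 : ℝ) ≤ 1 - u by linarith)) hb]
  set e₁ := u * (b - a) * (allQn a b u v - (a + b) * (1 - u) * b) with he
  set f₁ := allQn a b u v + (a + b) * (1 - a * v) * (u * (b - a)) +
    (a + b) * v * (u * (b - a)) with hf
  have h0 : 0 ≤ e₁ := by rw [he]; positivity
  have h1 : 0 ≤ 1 - a * v := by linarith
  have h2 : 0 ≤ f₁ := by rw [hf]; positivity
  have h3 : 0 ≤ (a * u * e₁ + (b - u * a) * (u * (b - a) * f₁ + e₁)) * (H - G) ^ 2 := by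
    positivity
  have e : topT a b u v H = topT a b u v G + topT1 a b u v G * (H - G) +
      (a * u * e₁ + (b - u * a) * (u * (b - a) * f₁ + e₁)) * (H - G) ^ 2 := by
    simp only [topT, topT1, he, hf, allDot, allEn, allFlow, allFh, allDen]
    ring
  linarith

/-- The values of the packed conditions. -/
theorem eval_top {a b I u v θ : ℝ} (hb : b = 1 - 2 * I - a) (hd : b - a ≠ 0)
    (hW : b - u * a ≠ 0) (hD : allTailDen a b ≠ 0)
    (hV : v * allTailDen a b = 2 * I * (1600 * (9 - 20 * a) -
      θ * allTailG 0 (allTailB I a) I a (1 - u))) :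
    let G := (20 * (b - a) - I * (1 - u) * (40 - 39 * a)) / (20 * ((b - a) * (b - u * a)))
    let c := (20 * ((b - a) * (b - u * a))) * allTailDen a b ^ 2
    (eTopDot (eTopN (.var 2) (.var 3)) (eTopG (.var 2) (.var 3)) (eTailDen (.var 2) (.var 3))
        (eTopV (.var 2) (.var 3)) (.var 2) (.var 3)).eval (stabPt u θ I a) =
        topT a b u v G * (c * (20 * ((b - a) * (b - u * a)))) ∧
      (eTopSlope (eTopN (.var 2) (.var 3)) (eTopG (.var 2) (.var 3)) (eTailDen (.var 2) (.var 3))
        (eTopV (.var 2) (.var 3)) (.var 2) (.var 3)).eval (stabPt u θ I a) =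
        topT1 a b u v G * c := by
  intro G c
  simp only [G, c]
  set x := stabPt u θ I a with hx
  have hI : (Ex.var 2).eval x = I := by simp [hx, Ex.eval, stabPt]
  have va : (Ex.var 3).eval x = a := by simp [hx, Ex.eval, stabPt]
  have vT : (Ex.var 1).eval x = θ := by simp [hx, Ex.eval, stabPt]
  have vU : eU.eval x = u := by simp [hx, eU, Ex.eval, stabPt]
  have eI' : allStabI a b = I := by rw [allStabI, hb]; ring
  have vS : (AllLow.eS (.var 2)).eval x = a + b := by
    simp only [AllLow.eS, eval_sub', eval_mul', eval_num', hI]; push_cast; rw [hb]; ring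
  have vB : (eB (.var 2) (.var 3)).eval x = b := by simp only [eB, eval_sub', vS, va]; ring
  have vD : (eD (.var 2) (.var 3)).eval x = b - a := by simp only [eD, eval_sub', vB, va]
  have vw : eEndW.eval x = 1 - u := by simp only [eEndW, eval_sub', eval_num', vU]; norm_num
  have vW : (eW (.var 2) (.var 3)).eval x = b - u * a := by
    simp only [eW, eval_sub', eval_mul', vB, vU, va]
  have vK : (eTopK (.var 3)).eval x = 40 - 39 * a := by
    simp only [eTopK, eval_sub', eval_mul', eval_num', va]; push_cast; ring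
  have vN : (eTopN (.var 2) (.var 3)).eval x =
      20 * (b - a) - I * (1 - u) * (40 - 39 * a) := by
    simp only [eTopN, eval_sub', eval_mul', eval_num', vD, hI, vw, vK]; push_cast; ring
  have vG : (eTopG (.var 2) (.var 3)).eval x = 20 * ((b - a) * (b - u * a)) := by
    simp only [eTopG, eval_mul', eval_num', vD, vW]; push_cast; ring
  have vM : (eTailM (.var 3)).eval x = 1600 * (9 - 20 * a) := by
    simp only [eTailM, eval_sub', eval_mul', eval_num', va]; push_cast; ring
  have vDen : (eTailDen (.var 2) (.var 3)).eval x = allTailDen a b := by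
    simp only [eTailDen, allTailDen, eval_mul', vS, vD, vM]
  have vR : (eTailR (.var 2) (.var 3)).eval x = allTailR I a := by
    simp only [eTailR, allTailR, eval_mul', eval_num', hI, va]; push_cast; ring
  obtain ⟨-, vTB, -, -⟩ := eval_coeffs u θ I a
  rw [← hx] at vTB
  have vV : (eTopV (.var 2) (.var 3)).eval x = v * allTailDen a b := by
    rw [hV]
    simp only [eTopV, allTailG, eval_sub', eval_mul', eval_num', vM, vR, vw, vTB, vT,
      hI]
    push_cast; ring
  have vQn : (eTailQn (eTailDen (.var 2) (.var 3)) (eTopV (.var 2) (.var 3)) (.var 2)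
      (.var 3)).eval x = allQn a b u v * allTailDen a b := by
    simp only [eTailQn, allQn, eval_add', eval_sub', eval_mul', eval_num', vS, vB, vD, vDen, vV, vU]
    push_cast; ring
  constructor <;>
    simp only [eTopDot, eTopSlope, eTopEn, eTopBr, eTopE1, eTopF1, eTailFlow, eTailBig,
      eval_add', eval_sub', eval_mul', eval_num', vQn, vV, vDen, vN, vG, vK, vW, vS, vB, vD, vw,
      vU, hI, va, topT, topT1, allTopC, eI', allDot, allEn, allFlow, allFh, allDen] <;>
    generalize 20 * (b - a) - I * (1 - u) * (40 - 39 * a) = n <;>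
    generalize allQn a b u v = Q <;>
    generalize allTailDen a b = D at hD ⊢ <;>
    generalize b - u * a = W at hW ⊢ <;>
    generalize b - a = d at hd ⊢ <;>
    push_cast <;> field_simp <;> ring

/-- The sign of the exit condition. -/
theorem top_sign {a b I u X H : ℝ} (hP : BandPlace a (1 / 2) I X) (hbI : b = 1 - 2 * I - a)
    (hu0 : 974 / 1000 ≤ u) (hu1 : u < 1) (hav : a * (2 * I * X) ≤ 1)
    (hXhi : (a + b) * (b - a) * (2 * I * X) < 2 * I)
    (hT : 0 < allTailF 0 (allTailB I a) a b u (2 * I * X)) (hF : allTopF a b u H ≤ 0) :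
    allDot a b u (2 * I * X) H (a * H + allTopC a b) 0 (-(b - u * a)) < 0 := by
  obtain ⟨hI0, hI20, hIa, ha, -, -, hXlo, -⟩ := id hP
  have ha0 : 0 < a := by linarith
  have hd : 0 < b - a := by linarith
  have hW : 0 < b - u * a := by linarith [mul_le_mul_of_nonneg_right hu1.le ha0.le]
  have eI' : allStabI a b = I := by rw [allStabI, hbI]; ring
  have hM : 0 < 1600 * (9 - 20 * a) := by linarith
  have hD : 0 < allTailDen a b := mul_pos (mul_pos (by linarith) hd) hM
  simp only [allTailF, eI'] at hT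
  have hlt : allTailDen a b * (2 * I * X) < 2 * I * (1600 * (9 - 20 * a)) := by
    have := mul_lt_mul_of_pos_right hXhi hM
    simp only [allTailDen]
    linarith
  have hg : 0 < 2 * I * allTailG 0 (allTailB I a) I a (1 - u) := by linarith
  obtain ⟨θ, hθ⟩ : ∃ θ, θ = (2 * I * (1600 * (9 - 20 * a)) - allTailDen a b * (2 * I * X)) /
      (2 * I * allTailG 0 (allTailB I a) I a (1 - u)) := ⟨_, rfl⟩
  have hθ0 : 0 ≤ θ := by rw [hθ]; exact div_nonneg (by linarith) hg.le
  have hθ1 : θ ≤ 1 := by rw [hθ]; exact div_le_one_of_le₀ (by linarith) hg.le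
  have hθe : θ * (2 * I * allTailG 0 (allTailB I a) I a (1 - u)) =
      2 * I * (1600 * (9 - 20 * a)) - allTailDen a b * (2 * I * X) := by
    rw [hθ, div_mul_cancel₀ _ hg.ne']
  obtain ⟨k1, k2⟩ := eval_top (v := 2 * I * X) (θ := θ) hbI hd.ne' hW.ne' hD.ne' (by linarith)
  have hpt := tail_point (X := θ) (u := u) (I := I) (a := a) (u₀ := 974) (u₁ := 1000) (X₁ := 1001)
    (a₀ := 310) (a₁ := 0)
    (side_point (den := 1000) (by norm_num) (by push_cast; linarith) (by push_cast; linarith))
    hθ0 (by push_cast; linarith) hI0 hI20 (by push_cast; linarith) (by push_cast; linarith)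
  have c1 := nonneg_of_checkFour top_cond hpt
  have c2 := nonneg_of_checkFour top_tilt hpt
  simp only [eTopCond, eTopTilt, eval_sub', eval_mul', k1, k2] at c1 c2
  simp only [eEndW, eU, eval_sub', eval_num', Ex.eval, stabPt] at c1 c2
  norm_num at c1 c2
  have hII : 0 < I * I := mul_pos hI0 hI0
  set G := (20 * (b - a) - I * (1 - u) * (40 - 39 * a)) / (20 * ((b - a) * (b - u * a))) with hGd
  have t0 : 0 < topT a b u (2 * I * X) G := by
    have := mul_pos hII (show 0 < 1 - u by linarith)
    refine pos_of_mul_pos_left (b := 20 * ((b - a) * (b - u * a)) * allTailDen a b ^ 2 *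
      (20 * ((b - a) * (b - u * a)))) ?_ (by positivity)
    linarith
  have t1 : 0 < topT1 a b u (2 * I * X) G := by
    refine pos_of_mul_pos_left (b := 20 * ((b - a) * (b - u * a)) * allTailDen a b ^ 2) ?_
      (by positivity)
    linarith
  have hHG : G ≤ H := by
    simp only [allTopF, allTopC, eI'] at hF
    have e : I * (40 - 39 * a) / (20 * (b - a)) * (20 * (b - a)) = I * (40 - 39 * a) :=
      div_mul_cancel₀ _ (by positivity)
    have := mul_le_mul_of_nonneg_left hF (mul_pos (by norm_num : (0 : ℝ) < 20) hd).le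
    rw [hGd, div_le_iff₀ (by positivity)]
    generalize I * (40 - 39 * a) / (20 * (b - a)) = c at e this
    linear_combination this + (1 - u) * e
  have ht := topT_tangent (G := G) (H := H) ha0.le hd.le (by linarith)
    (mul_nonneg (mul_nonneg two_pos.le hI0.le) (by linarith)) hav (by linarith) hu1.le
  have e : allDot a b u (2 * I * X) H (a * H + allTopC a b) 0 (-(b - u * a)) =
      -topT a b u (2 * I * X) H := by
    simp only [topT, allDot]; ring
  rw [e, neg_lt_zero]
  linarith [mul_nonneg t1.le (sub_nonneg.2 hHG)]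

end AllLow

variable {N p q : ℝ} {S : Set ℝ} {R x y s dx dy : ℝ → ℝ}

/-- **The band above at the end of the tail** for real `N ≥ 20` and `1/(p+1) ≤ 31/100`. -/
theorem orbit_end_top_all (hf : IsOrbitFns N p q S R x y s dx dy)
    (hb : SlabBoxAll N (1 / (p + 1)) (1 / (q + 1))) (h20 : 20 ≤ N) (ha : 1 / (p + 1) ≤ 31 / 100)
    {w : ℝ} (hw : w ∈ S) (hw0 : 0 < R w) (hwu : 39 / 40 ≤ uOf N (R w) (x w)) :
    let al := 1 / (p + 1)
    let be := 1 / (q + 1)
    let u := uOf N (R w) (x w)
    hOf N (R w) (x w) (y w) w / (be - al) * (be - u * al) ≤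
      1 - allStabI al be * (1 - u) * (2 - 39 * al / 20) / (be - al) := by
  intro al be u
  set I := allStabI (1 / (p + 1)) (1 / (q + 1)) with hI
  have hI0 : 0 < I := by
    obtain ⟨J, X, -, hbI, hB⟩ := AllLow.bandPlace_of (u := 1 / 2) hb h20 ha (by norm_num)
      (by norm_num) (orbit_point_all hf hb hw hw0).1.toVRange
    obtain ⟨hJ, -, -, -, -, -, -, -⟩ := hB
    simp only [hI, allStabI]
    linarith
  have key := exit_end_all hf hb (u₀ := 39 / 40) (η := I / 1000) (M := 5) (by positivity)
    (by norm_num) (hasGrad_allTop (1 / (p + 1)) (1 / (q + 1)))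
    (fun u v _ => (23 / 25 ≤ u → u ≤ 39 / 40 → 0 < allTailF (allEntryA I (1 / (p + 1)))
        (allEntryB I (1 / (p + 1))) (1 / (p + 1)) (1 / (q + 1)) u v) ∧
      (39 / 40 ≤ u → 0 < allTailF 0 (allTailB I (1 / (p + 1))) (1 / (p + 1)) (1 / (q + 1)) u v))
    (fun z hz hz0 => ⟨fun h1 h2 => orbit_entry_all hf hb h20 ha hz hz0 h1 h2,
      fun h1 => orbit_tail_all hf hb h20 ha hz hz0 h1⟩)
    (fun u_2 v H hP _ _ => ?_) (fun ε hε => ?_) (fun u v H hP _ hu hE hF => ?_) hw hw0 hwu
  · have hd : be - al ≠ 0 := hb.facts.2.2.1.ne'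
    simp only [allTopF, allTopC] at key
    simp only [al, be, u] at hd ⊢
    rw [hI]
    generalize 1 / (p + 1) = a at key hd ⊢
    generalize 1 / (q + 1) = b at key hd ⊢
    have e : allStabI a b * (1 - uOf N (R w) (x w)) * (2 - 39 * a / 20) / (b - a) =
        (1 - uOf N (R w) (x w)) * (allStabI a b * (40 - 39 * a) / (20 * (b - a))) := by
      field_simp
      ring
    linarith
  · obtain ⟨J, X, -, hbI, eI', hB, -, -⟩ :=
      AllLow.tail_facts hb h20 ha hP.toVRange hP.u_pos.le hP.u_lt.le
    obtain ⟨hJ0, hJ20, -, -, -, -, -, -⟩ := hB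
    obtain ⟨ha0, hb0, hd, -⟩ := hb.facts
    have hH := hP.H_lt
    have h1 : allTopC (1 / (p + 1)) (1 / (q + 1)) ≤ 2 / 5 := by
      simp only [allTopC, eI']
      rw [div_le_iff₀ (by positivity)]
      linarith [mul_le_mul hJ20 (show 40 - 39 * (1 / (p + 1)) ≤ 40 by linarith) (by linarith)
        (by norm_num : (0 : ℝ) ≤ 1 / 20)]
    have h2 : H ≤ 4 := le_of_mul_le_mul_left
      (show (1 / (q + 1) - 1 / (p + 1)) * H ≤ (1 / (q + 1) - 1 / (p + 1)) * 4 by linarith) hd
    have h3 : H * (1 / (q + 1) - u_2 * (1 / (p + 1))) ≤ 4 * 1 :=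
      mul_le_mul h2 (by linarith [mul_nonneg hP.u_pos.le ha0.le])
        (by linarith [mul_le_mul_of_nonneg_right hP.u_lt.le ha0.le]) (by norm_num)
    have h4 : (1 - u_2) * allTopC (1 / (p + 1)) (1 / (q + 1)) ≤ 1 * (2 / 5) :=
      mul_le_mul (by linarith [hP.u_pos]) h1
        (by simp only [allTopC, eI']; exact div_nonneg (mul_nonneg hJ0.le (by linarith)) (by linarith))
        one_pos.le
    simp only [allTopF]
    linarith
  · refine ⟨ε / 2, by linarith, fun u v H hP _ hu1 _ => ?_⟩
    obtain ⟨J, X, -, hbI, eI', hB, -, -⟩ :=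
      AllLow.tail_facts hb h20 ha hP.toVRange hP.u_pos.le hP.u_lt.le
    obtain ⟨hJ0, hJ20, -, -, -, -, -, -⟩ := hB
    obtain ⟨ha0, hb0, hd, -⟩ := hb.facts
    have hH := hP.H_lt
    have hw1 : 0 ≤ 1 - u := by linarith [hP.u_lt]
    have h1 : allTopC (1 / (p + 1)) (1 / (q + 1)) ≤ 2 / 5 := by
      simp only [allTopC, eI']
      rw [div_le_iff₀ (by positivity)]
      linarith [mul_le_mul hJ20 (show 40 - 39 * (1 / (p + 1)) ≤ 40 by linarith) (by linarith)
        (by norm_num : (0 : ℝ) ≤ 1 / 20)]
    have h2 : H ≤ 4 := le_of_mul_le_mul_left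
      (show (1 / (q + 1) - 1 / (p + 1)) * H ≤ (1 / (q + 1) - 1 / (p + 1)) * 4 by linarith) hd
    have h3 := mul_le_mul_of_nonneg_left h1 hw1
    have h4 := mul_le_mul_of_nonneg_left (mul_le_mul ha h2 hP.H_pos.le (by norm_num)) hw1
    simp only [allTopF]
    linarith
  · obtain ⟨J, X, rfl, hbI, eI', hB, -, -⟩ :=
      AllLow.tail_facts hb h20 ha hP.toVRange hP.u_pos.le hP.u_lt.le
    rw [← hI] at eI'
    subst eI'
    obtain ⟨ha0, hb0, hd, -⟩ := hb.facts
    obtain ⟨-, hI20, -, -, -, -, -, -⟩ := id hB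
    have hXhi : (1 / (p + 1) + 1 / (q + 1)) * (1 / (q + 1) - 1 / (p + 1)) * (2 * I * X) <
        2 * I := by
      have hN : 0 < N := by linarith
      have hIN : I * N = 1 := by
        have := hb.dim
        simp only [hI, allStabI]
        linarith
      have := mul_lt_mul_of_pos_left hP.high hI0
      rw [hb.dim] at this
      linear_combination this +
        (-((1 / (p + 1) + 1 / (q + 1)) * (1 / (q + 1) - 1 / (p + 1)) * (2 * I * X))) * hIN
    refine AllLow.top_sign hB hbI (by linarith) hP.u_lt hP.av.le hXhi ?_ hF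
    rcases le_or_gt (39 / 40) u with h | h
    · exact hE.2 h
    · have hpre := hE.1 (by linarith) h.le
      obtain ⟨hQ, hQ1, hS, hS1, hR0, hR, -⟩ := AllLow.tail_bounds hI0.le hI20 ha0.le ha
      generalize 1 / (p + 1) = al at ha0 hI hQ hQ1 hS hS1 hR0 hR hpre ⊢
      generalize 1 / (q + 1) = be at hI hpre ⊢
      generalize 2 * I * X = v at hpre ⊢
      simp only [allTailF, ← hI, allTailG, allTailB, allEntryA, allEntryB] at hpre ⊢
      have hc : -75000 * (39 / 40 - u) ≤
          (1600 * allTailQ I al - (1600 * allTailS I al + 80 * allTailR I al)) *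
            (39 / 40 - u) :=
        mul_le_mul_of_nonneg_right (by linarith) (by linarith)
      have hc' := mul_le_mul_of_nonneg_left hc (mul_nonneg two_pos.le hI0.le)
      have hsmall := mul_lt_mul_of_pos_left (show 39 / 40 - u < I / 1000 by linarith) hI0
      linarith [mul_pos hI0 hI0]

end Vale.Agent.P100.Calib.Band
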