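import Vale.Agent.P100.Calib.SlabAllGapMain
import Vale.Agent.P100.Calib.SlabAllTop
import Vale.Agent.P100.Calib.SlabChartOrbitAll

/-!
# The closed signs along orbits before the end of the tail

The facts of the orbits at `91/100 ≤ u ≤ 39/40` are the hypotheses of `Closed.All.signsTail_gap`.
-/

set_option linter.unusedVariables false

open Set Filter Topology

namespace Vale.Agent.P100.Calib.Band

open Vale.Agent.P100.Bubble Chart Closed

variable {N p q : ℝ} {S : Set ℝ} {R x y s dx dy : ℝ → ℝ}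

/-- **The closed signs on orbits at `91/100 ≤ u ≤ 39/40`** in every dimension from twenty on. -/
theorem orbit_signs_gap_all {n : ℕ} (hn : 20 ≤ n) (hc : IsCrit N p q)
    (hf : IsOrbitFns N p q S R x y s dx dy)
    (hb : SlabBoxAll N (1 / (p + 1)) (1 / (q + 1)))
    (hcb : All.ChartBox n (1 / (q + 1) - 1 / (p + 1)) (1 / (p + 1) + 1 / (q + 1)))
    (ha : 1 / (p + 1) ≤ 31 / 100) {z : ℝ} (hz : z ∈ S) (hR : 0 < R z)
    (hu : 91 / 100 ≤ uOf N (R z) (x z)) (hu' : uOf N (R z) (x z) ≤ 39 / 40) :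
    All.ChartSigns (1 / (q + 1) - 1 / (p + 1)) (1 / (p + 1) + 1 / (q + 1)) (uOf N (R z) (x z))
      (vOf (1 / (p + 1)) (1 / (q + 1)) (y z / x z)) (slopeAt N p q R x y dx dy z) := by
  have hn' : (20 : ℝ) ≤ n := by exact_mod_cast hn
  have h20 : 20 ≤ N := by
    have := hcb.dim_low
    rw [← hb.dim_eq] at this
    linarith
  have hT := fun h => orbit_entry_all hf hb h20 ha hz hR h hu'
  have hX := orbit_end_low_all hf hb h20 ha hz hR hu
  have hY := orbit_stab_up_all hf hb h20 ha hz hR
  obtain ⟨-, eH⟩ := slopeAt_eq_all hc hf hb hz hR.ne'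
  have hfa := chartFacts_orbit_all hc hf hb hz hR
  obtain ⟨-, -, hd, -⟩ := hb.facts
  set al := 1 / (p + 1)
  set be := 1 / (q + 1)
  set u := uOf N (R z) (x z)
  set v := vOf al be (y z / x z)
  set t := slopeAt N p q R x y dx dy z
  have e1 : (al + be - (be - al)) / 2 = al := by ring
  have e2 : (al + be + (be - al)) / 2 = be := by ring
  have eq : chH (be - al) (al + be) u v t = hOf N (R z) (x z) (y z) z / (be - al) := by
    rw [eq_div_iff hd.ne']; linarith
  simp only [allStabI] at hT hX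
  simp only [allEndLow, allEndC, allEndC1, allStabI] at hX
  refine All.signsTail_gap hn hcb (by rw [e1]; exact ha) hu hu' hfa ?_ ?_ ?_
  · rw [e1, e2]; exact hT
  · rw [e1, e2, eq, EndAll.lowC]
    have e : (1 - (al + be)) / 2 * (1 - u) *
        (200 + 230 * al + 1600 * al ^ 3 + (1 - (al + be)) / 2 *
          (520 + 700 * al + 33000 * al ^ 3 + 50000 * al ^ 4) -
        (3000 * al ^ 2 + 5700 * al ^ 3 + 2100 * ((1 - (al + be)) / 2) +
          500000 * ((1 - (al + be)) / 2 * al ^ 3) + 16000000 * ((1 - (al + be)) / 2 * al ^ 6)) *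
            (1 - u) + 150000000 * ((1 - (al + be)) / 2 * al ^ 6) * (1 - u) ^ 2) /
        (100 * (be - al)) = (1 - (al + be)) / 2 / (100 * (be - al)) * ((1 - u) *
        (200 + 230 * al + 1600 * al ^ 3 + (1 - (al + be)) / 2 *
          (520 + 700 * al + 33000 * al ^ 3 + 50000 * al ^ 4) -
        (3000 * al ^ 2 + 5700 * al ^ 3 + 2100 * ((1 - (al + be)) / 2) +
          500000 * ((1 - (al + be)) / 2 * al ^ 3) + 16000000 * ((1 - (al + be)) / 2 * al ^ 6)) *
            (1 - u) + 150000000 * ((1 - (al + be)) / 2 * al ^ 6) * (1 - u) ^ 2)) := by ring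
    rw [e]
    linarith
  · rw [e1, e2, eq]; exact hY

end Vale.Agent.P100.Calib.Band
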