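import Vale.Agent.P100.Calib.SlabMainUniform
import Vale.Agent.P100.Calib.SlabAllGapOrbit

/-!
# The proved regions of the uniform theorem for `1/(p + 1) ≤ 31/100`, from twenty on
-/

set_option linter.unusedVariables false

open Set Laplacian

namespace Vale.Agent.P100.Calib.Band

open Vale.Agent.P100.Bubble Chart Closed

variable {n : ℕ}

/-- The signs on `91/100 ≤ u ≤ 39/40` from twenty on. -/
theorem orbit_signs_gap_zone (hn : 20 ≤ n) :
    OrbitSignsSlope n (ZoneBetween (91 / 100) (39 / 40)) :=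
  fun N p q S R x y s dx dy hc hf hb hcb ha z hz _ hZ =>
    orbit_signs_gap_all hn hc hf hb hcb ha hz hZ.1 hZ.2.1 hZ.2.2

/-- **The conjecture from twenty on for `min (1/(p+1)) (1/(q+1)) ≤ 31/100`** from the signs on
`3/5 ≤ u ≤ 91/100`. -/
theorem lane_emden_large_below_of_top (hn : 20 ≤ n)
    (hT : OrbitSignsSlope n (ZoneBetween (3 / 5) (91 / 100)))
    {p q : ℝ} (hp : 0 < p) (hq : 0 < q) (ha : min (1 / (p + 1)) (1 / (q + 1)) ≤ 31 / 100)
    (hsub : ((n : ℝ) - 2) / n < 1 / (p + 1) + 1 / (q + 1)) :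
    ¬ ∃ u v : EuclideanSpace ℝ (Fin n) → ℝ,
      Continuous u ∧ Continuous v ∧ ContDiffOn ℝ 2 u {0}ᶜ ∧ ContDiffOn ℝ 2 v {0}ᶜ ∧
      (∀ x, 0 < u x) ∧ (∀ x, 0 < v x) ∧ (∀ x, x ≠ 0 → Δ u x = -(v x) ^ p) ∧
      (∀ x, x ≠ 0 → Δ v x = -(u x) ^ q) :=
  lane_emden_large_below_of hn hT (orbit_signs_gap_zone hn) hp hq ha hsub

end Vale.Agent.P100.Calib.Band
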