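import Vale.Agent.P100.Calib.ConeMainOrbit
import Vale.Agent.P100.Calib.SlabMainInputs
import Vale.Agent.P100.Calib.SlabWaistOrbit

/-!
# The system with a common weight for `ν ≥ 20` and one exponent at least `69/31`
-/

set_option linter.unusedVariables false

open Set Laplacian

namespace Vale.Agent.P100.Calib.Band

/-- **No solution for `20 ≤ ν = 2 (n + w) / (2 + w)` (that is `9 w ≤ n - 20`), subcritical `p, q` and
`min (1/(p+1)) (1/(q+1)) ≤ 31/100`.** -/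
theorem henon_lane_emden_large_below {n : ℕ} (hn : 3 ≤ n) {w : ℝ} (hw0 : w ≤ 0)
    (hdim : 9 * w ≤ (n : ℝ) - 20) {p q : ℝ} (hp : 0 < p) (hq : 0 < q)
    (hmin : min (1 / (p + 1)) (1 / (q + 1)) ≤ 31 / 100)
    (hsub : (n : ℝ) - 2 < ((n : ℝ) + w) / (p + 1) + ((n : ℝ) + w) / (q + 1)) :
    ¬ ∃ u v : EuclideanSpace ℝ (Fin n) → ℝ,
      Continuous u ∧ Continuous v ∧ ContDiffOn ℝ 2 u {0}ᶜ ∧ ContDiffOn ℝ 2 v {0}ᶜ ∧
      (∀ x, 0 < u x) ∧ (∀ x, 0 < v x) ∧ (∀ x, x ≠ 0 → Δ u x = -(‖x‖ ^ w * v x ^ p)) ∧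
      (∀ x, x ≠ 0 → Δ v x = -(‖x‖ ^ w * u x ^ q)) :=
  henon_lane_emden_high_below_of
    (orbit_signs_slope_large le_rfl (orbitSignsSlope_middle le_rfl) (orbit_signs_gap_zone le_rfl))
    hn hw0 hdim hp hq hmin hsub

end Vale.Agent.P100.Calib.Band
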