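import Mathlib
import Vale.Agent.P100.Calib.ConeMain
import Vale.Agent.P100.Calib.SlabMainOrbit
import Vale.Agent.P100.SoupletW.Main
import Vale.Agent.P100.SoupletW.LowDim

/-!
# The system with a common weight from the regions of the orbits

With `ν = 2 (n + w) / (2 + w)` the regions of the orbits enter only in dimension `20` for `20 ≤ ν`
and only in dimension `7` for `7 ≤ ν ≤ 159/8`.
-/

set_option linter.unusedVariables false

open Set Laplacian

namespace Vale.Agent.P100.Calib.Band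

open Vale.Agent.P100.Bubble Chart Closed

/-- The closed signs in the slab `ν < N < ν + 1/8` from those of a dimension `m` below it. -/
theorem critSplitSigns_of_orbit_signs {ν A : ℝ} {m : ℕ} (h6 : 6 ≤ ν) (hm : (m : ℝ) ≤ ν)
    (h20 : m < 20 → ν + 1 / 8 ≤ 20) (hA : OrbitSignsSlope m ZoneAll)
    (hB : A ≤ 31 / 100 ∨ OrbitSignsStrip m ZoneAll) : CritSplitSigns ν A := by
  intro p q N α β hq hqp hpq hc hα hβ hsum hνN hN8 h4 hAl S R x y s dx dy h z hz
  have hp : 0 < p := hq.trans hqp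
  obtain ⟨eb, ea⟩ := scaling_eq hp hq hpq hα hβ (N := N) (by linarith)
  have hlt : 1 / (p + 1) < 1 / (q + 1) := one_div_lt_one_div_of_lt (by linarith) (by linarith)
  have hb : SlabBoxAll N (1 / (p + 1)) (1 / (q + 1)) :=
    ⟨by linarith, by linarith, by linarith, hlt⟩
  have hcb : All.ChartBox m (1 / (q + 1) - 1 / (p + 1)) (1 / (p + 1) + 1 / (q + 1)) := by
    refine ⟨sub_pos.2 hlt, hb.S_low, hb.S_lt, ?_, ?_, fun hm' => ?_⟩
    · refine le_of_mul_le_mul_left (a := N) ?_ (by linarith)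
      linarith
    all_goals rw [← hb.dim_eq]
    · linarith
    · linarith [h20 hm']
  have hzS : z ∈ S := h.cover hz
  have hκ : z ≤ 1 / (q + 1) / (1 / (p + 1)) := by
    rw [div_div_eq_mul_div, div_one, one_div_mul_eq_div]; exact hz.2
  simp only [splitNum]
  split_ifs with ha
  · exact closedSigns_of_chart_all hc h hb hzS
      (hA N p q S R x y s dx dy hc h hb hcb ha z hzS hκ trivial)
  · refine closedSigns_of_chart_strip hc h hb hzS
      ((hB.resolve_left fun e => ha (hAl.trans e)) N p q S R x y s dx dy hc h hb hcb (lt_of_not_ge ha)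
        z hzS hκ trivial)

variable {n : ℕ}

/-- Nonexistence for the full subcritical range from the closed signs at the critical points above
`ν`. -/
theorem henon_lane_emden_of_crit_signs (hn : 5 ≤ n) {w : ℝ} (hw : -2 < w) (hw0 : w ≤ 0)
    (h6 : 6 ≤ coneDim n w) {A : ℝ} (hS : CritSplitSigns (coneDim n w) A) {p q : ℝ} (hp : 0 < p)
    (hq : 0 < q) (hmin : min (1 / (p + 1)) (1 / (q + 1)) ≤ A)
    (hsub : (n : ℝ) - 2 < ((n : ℝ) + w) / (p + 1) + ((n : ℝ) + w) / (q + 1)) :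
    ¬ ∃ u v : EuclideanSpace ℝ (Fin n) → ℝ,
      Continuous u ∧ Continuous v ∧ ContDiffOn ℝ 2 u {0}ᶜ ∧ ContDiffOn ℝ 2 v {0}ᶜ ∧
      (∀ x, 0 < u x) ∧ (∀ x, 0 < v x) ∧ (∀ x, x ≠ 0 → Δ u x = -(‖x‖ ^ w * v x ^ p)) ∧
      (∀ x, x ≠ 0 → Δ v x = -(‖x‖ ^ w * u x ^ q)) := by
  rintro ⟨u, v, h1, h2, h3, h4, h5, h6', h7, h8⟩
  rcases le_or_gt (p * q) 1 with hle | hpq
  · exact no_solutionW_trivial (by omega) hp hq hw0 hw0 (Or.inr (Or.inr (Or.inl hle)))
      h1 h2 h3 h4 h5 h6' h7 h8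
  rcases lt_or_ge ((n : ℝ) - 3)
      (max (2 * (p + 1) / (p * q - 1)) (2 * (q + 1) / (p * q - 1))) with hm | hm
  · exact SoupletW.souplet_range_equal_weight_max (by omega) hw hw0 hp hq hpq hm hsub
      ⟨u, v, h1, h2, h3, h4, h5, h6', h7, h8⟩
  have hn5 : (5 : ℝ) ≤ n := by exact_mod_cast hn
  have hnν : (n : ℝ) ≤ coneDim n w := natCast_le_coneDim (by omega) hw hw0
  obtain ⟨hmp, hmq⟩ := max_le_iff.1 hm
  have hcr := crit_of_scaling hp hq hpq
  have hsub' : coneDim n w - 2 < 2 * (p + 1) / (p * q - 1) + 2 * (q + 1) / (p * q - 1) := by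
    have hd : 0 < p * q - 1 := by linarith
    have ha : 0 < 2 * (p + 1) / (p * q - 1) + 2 * (q + 1) / (p * q - 1) := by positivity
    generalize 2 * (p + 1) / (p * q - 1) + 2 * (q + 1) / (p * q - 1) = t at *
    have e : ((n : ℝ) + w) / (p + 1) + ((n : ℝ) + w) / (q + 1) = ((n : ℝ) + w) * (t / (t + 2)) := by
      rw [← hcr]; ring
    rw [e, mul_div, lt_div_iff₀ (by linarith)] at hsub
    rw [coneDim, div_sub' (by linarith), div_lt_iff₀ (by linarith)]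
    linarith
  rcases le_total q p with hqp | hqp
  · exact no_solution_cone_ordered hn hw hw0 h6 hS hq hqp hpq (by linarith) hsub'
      (by rwa [min_eq_left (one_div_le_one_div_of_le (by linarith) (by linarith))] at hmin)
      ⟨u, v, h1, h2, h3, h4, h5, h6', h7, h8⟩
  · exact no_solution_cone_ordered (p := q) (q := p) hn hw hw0 h6 hS hp hqp (by rwa [mul_comm])
      (by rw [mul_comm q p]; linarith) (by rw [mul_comm q p]; linarith)
      (by rwa [min_eq_right (one_div_le_one_div_of_le (by linarith) (by linarith))] at hmin)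
      ⟨v, u, h2, h1, h4, h3, h6', h5, h8, h7⟩

/-- **The conjecture with a common weight for `ν ≥ 20`** from the signs in dimension twenty. -/
theorem henon_lane_emden_high_of (hA : OrbitSignsSlope 20 ZoneAll)
    (hB : OrbitSignsStrip 20 ZoneAll) (hn : 3 ≤ n) {w : ℝ} (hw0 : w ≤ 0)
    (hdim : 9 * w ≤ (n : ℝ) - 20) {p q : ℝ} (hp : 0 < p) (hq : 0 < q)
    (hsub : (n : ℝ) - 2 < ((n : ℝ) + w) / (p + 1) + ((n : ℝ) + w) / (q + 1)) :
    ¬ ∃ u v : EuclideanSpace ℝ (Fin n) → ℝ,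
      Continuous u ∧ Continuous v ∧ ContDiffOn ℝ 2 u {0}ᶜ ∧ ContDiffOn ℝ 2 v {0}ᶜ ∧
      (∀ x, 0 < u x) ∧ (∀ x, 0 < v x) ∧ (∀ x, x ≠ 0 → Δ u x = -(‖x‖ ^ w * v x ^ p)) ∧
      (∀ x, x ≠ 0 → Δ v x = -(‖x‖ ^ w * u x ^ q)) := by
  rcases le_or_gt n 4 with h4 | h4
  · exact SoupletW.no_solution_equal_weight_low hn h4 hw0 hp hq hsub
  rcases le_or_gt w (-2) with hw | hw
  · rintro ⟨u, v, h1, h2, h3, h4', h5, h6, h7, h8⟩
    exact no_solutionW_trivial hn hp hq hw0 hw0 (Or.inl hw) h1 h2 h3 h4' h5 h6 h7 h8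
  have h20 : 20 ≤ coneDim n w := by rw [coneDim, le_div_iff₀ (by linarith)]; linarith
  exact henon_lane_emden_of_crit_signs (by omega) hw hw0 (by linarith)
    (critSplitSigns_of_orbit_signs (A := 1) (m := 20) (by linarith) (by norm_num; linarith)
      (fun h => absurd h (by norm_num)) hA (Or.inr hB))
    hp hq ((min_le_left _ _).trans ((div_le_one (by linarith)).2 (by linarith))) hsub

/-- **The same for `min (1/(p+1)) (1/(q+1)) ≤ 31/100`** from the signs of `genSlope` only. -/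
theorem henon_lane_emden_high_below_of (hA : OrbitSignsSlope 20 ZoneAll) (hn : 3 ≤ n) {w : ℝ}
    (hw0 : w ≤ 0) (hdim : 9 * w ≤ (n : ℝ) - 20) {p q : ℝ} (hp : 0 < p) (hq : 0 < q)
    (hmin : min (1 / (p + 1)) (1 / (q + 1)) ≤ 31 / 100)
    (hsub : (n : ℝ) - 2 < ((n : ℝ) + w) / (p + 1) + ((n : ℝ) + w) / (q + 1)) :
    ¬ ∃ u v : EuclideanSpace ℝ (Fin n) → ℝ,
      Continuous u ∧ Continuous v ∧ ContDiffOn ℝ 2 u {0}ᶜ ∧ ContDiffOn ℝ 2 v {0}ᶜ ∧
      (∀ x, 0 < u x) ∧ (∀ x, 0 < v x) ∧ (∀ x, x ≠ 0 → Δ u x = -(‖x‖ ^ w * v x ^ p)) ∧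
      (∀ x, x ≠ 0 → Δ v x = -(‖x‖ ^ w * u x ^ q)) := by
  rcases le_or_gt n 4 with h4 | h4
  · exact SoupletW.no_solution_equal_weight_low hn h4 hw0 hp hq hsub
  rcases le_or_gt w (-2) with hw | hw
  · rintro ⟨u, v, h1, h2, h3, h4', h5, h6, h7, h8⟩
    exact no_solutionW_trivial hn hp hq hw0 hw0 (Or.inl hw) h1 h2 h3 h4' h5 h6 h7 h8
  have h20 : 20 ≤ coneDim n w := by rw [coneDim, le_div_iff₀ (by linarith)]; linarith
  exact henon_lane_emden_of_crit_signs (by omega) hw hw0 (by linarith)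
    (critSplitSigns_of_orbit_signs (A := 31 / 100) (m := 20) (by linarith) (by norm_num; linarith)
      (fun h => absurd h (by norm_num)) hA (Or.inl le_rfl))
    hp hq hmin hsub

/-- **The conjecture with a common weight for `7 ≤ ν ≤ 159/8`** from the signs in dimension seven. -/
theorem henon_lane_emden_low_of (hA : OrbitSignsSlope 7 ZoneAll)
    (hB : OrbitSignsStrip 7 ZoneAll) (hn : 3 ≤ n) {w : ℝ} (hw0 : w ≤ 0)
    (hlo : 5 * w ≤ 2 * (n : ℝ) - 14) (hhi : 16 * (n : ℝ) - 318 ≤ 143 * w) {p q : ℝ} (hp : 0 < p)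
    (hq : 0 < q) (hsub : (n : ℝ) - 2 < ((n : ℝ) + w) / (p + 1) + ((n : ℝ) + w) / (q + 1)) :
    ¬ ∃ u v : EuclideanSpace ℝ (Fin n) → ℝ,
      Continuous u ∧ Continuous v ∧ ContDiffOn ℝ 2 u {0}ᶜ ∧ ContDiffOn ℝ 2 v {0}ᶜ ∧
      (∀ x, 0 < u x) ∧ (∀ x, 0 < v x) ∧ (∀ x, x ≠ 0 → Δ u x = -(‖x‖ ^ w * v x ^ p)) ∧
      (∀ x, x ≠ 0 → Δ v x = -(‖x‖ ^ w * u x ^ q)) := by
  rcases le_or_gt n 4 with h4 | h4
  · exact SoupletW.no_solution_equal_weight_low hn h4 hw0 hp hq hsub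
  rcases le_or_gt w (-2) with hw | hw
  · rintro ⟨u, v, h1, h2, h3, h4', h5, h6, h7, h8⟩
    exact no_solutionW_trivial hn hp hq hw0 hw0 (Or.inl hw) h1 h2 h3 h4' h5 h6 h7 h8
  have h7 : 7 ≤ coneDim n w := by rw [coneDim, le_div_iff₀ (by linarith)]; linarith
  have h20 : coneDim n w ≤ 159 / 8 := by rw [coneDim, div_le_iff₀ (by linarith)]; linarith
  exact henon_lane_emden_of_crit_signs (by omega) hw hw0 (by linarith)
    (critSplitSigns_of_orbit_signs (A := 1) (m := 7) (by linarith) (by norm_num; linarith)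
      (fun _ => by linarith) hA (Or.inr hB))
    hp hq ((min_le_left _ _).trans ((div_le_one (by linarith)).2 (by linarith))) hsub

/-- **The same for `7 ≤ ν ≤ 159/8` and `min (1/(p+1)) (1/(q+1)) ≤ 31/100`** from the signs of
`genSlope` only. -/
theorem henon_lane_emden_low_below_of (hA : OrbitSignsSlope 7 ZoneAll) (hn : 3 ≤ n) {w : ℝ}
    (hw0 : w ≤ 0) (hlo : 5 * w ≤ 2 * (n : ℝ) - 14) (hhi : 16 * (n : ℝ) - 318 ≤ 143 * w) {p q : ℝ}
    (hp : 0 < p) (hq : 0 < q) (hmin : min (1 / (p + 1)) (1 / (q + 1)) ≤ 31 / 100)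
    (hsub : (n : ℝ) - 2 < ((n : ℝ) + w) / (p + 1) + ((n : ℝ) + w) / (q + 1)) :
    ¬ ∃ u v : EuclideanSpace ℝ (Fin n) → ℝ,
      Continuous u ∧ Continuous v ∧ ContDiffOn ℝ 2 u {0}ᶜ ∧ ContDiffOn ℝ 2 v {0}ᶜ ∧
      (∀ x, 0 < u x) ∧ (∀ x, 0 < v x) ∧ (∀ x, x ≠ 0 → Δ u x = -(‖x‖ ^ w * v x ^ p)) ∧
      (∀ x, x ≠ 0 → Δ v x = -(‖x‖ ^ w * u x ^ q)) := by
  rcases le_or_gt n 4 with h4 | h4
  · exact SoupletW.no_solution_equal_weight_low hn h4 hw0 hp hq hsub
  rcases le_or_gt w (-2) with hw | hw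
  · rintro ⟨u, v, h1, h2, h3, h4', h5, h6, h7, h8⟩
    exact no_solutionW_trivial hn hp hq hw0 hw0 (Or.inl hw) h1 h2 h3 h4' h5 h6 h7 h8
  have h7 : 7 ≤ coneDim n w := by rw [coneDim, le_div_iff₀ (by linarith)]; linarith
  have h20 : coneDim n w ≤ 159 / 8 := by rw [coneDim, div_le_iff₀ (by linarith)]; linarith
  exact henon_lane_emden_of_crit_signs (by omega) hw hw0 (by linarith)
    (critSplitSigns_of_orbit_signs (A := 31 / 100) (m := 7) (by linarith) (by norm_num; linarith)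
      (fun _ => by linarith) hA (Or.inl le_rfl))
    hp hq hmin hsub

end Vale.Agent.P100.Calib.Band
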