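import Mathlib
import Vale.Agent.P100.Calib.Strict

/-!
# Coefficients given along a curve

The coefficients of a calibration are given as functions of a parameter `ρ ∈ (a, ∞)` along which
`z = Z ρ` decreases to zero and passes `κ`. The inverse of `Z` turns them into `C¹` functions of
`z` on an open set containing `(0, κ]`, continuous at `z = 0` when the limits at infinity exist.
-/

open Set Filter Topology

namespace Vale.Agent.P100.Calib

variable {n : ℕ}

/-- Positivity of a calibration at one value `z` of `P / Q`, with coefficient values `c` and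
values `d` of `z c'`. -/
def PosAt (N p q L z : ℝ) (c d : Fin 14 → ℝ) : Prop :=
  0 < c 0 ∧ 0 < c 0 * c 3 - ((c 1 + c 2) / 2) ^ 2 ∧
    ∀ A B D Q : ℝ, 0 ≤ A → 0 ≤ B → D ^ 2 ≤ A * B → 0 ≤ Q → 0 < A + B + Q →
      let la := fun j => c j * L - (q + 1) * d j
      let mb := fun j => c j * L + (p + 1) * d j
      0 ≤ elimN N p q c la mb A D B (z * Q) Q ∧
        (elimN N p q c la mb A D B (z * Q) Q = 0 → 0 < elimGap c la mb A D B (z * Q) Q)

/-- The inverse of a function with negative derivative on a half line. -/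
theorem exists_inverse {a : ℝ} {Z dZ : ℝ → ℝ} (hZ : ∀ ρ, a < ρ → HasDerivAt Z (dZ ρ) ρ)
    (hneg : ∀ ρ, a < ρ → dZ ρ < 0) :
    ∃ g : ℝ → ℝ, IsOpen (Z '' Ioi a) ∧ (∀ ρ, a < ρ → g (Z ρ) = ρ) ∧
      StrictAntiOn Z (Ioi a) ∧ ∀ y ∈ Z '' Ioi a, HasDerivAt g (dZ (g y))⁻¹ y := by
  have hc : ContinuousOn Z (Ioi a) := fun x hx => (hZ x hx).continuousAt.continuousWithinAt
  have hanti : StrictAntiOn Z (Ioi a) :=
    strictAntiOn_of_hasDerivWithinAt_neg (f' := dZ) (convex_Ioi a) hc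
      (fun x hx => (hZ x (by rwa [interior_Ioi] at hx)).hasDerivWithinAt)
      fun x hx => hneg x (by rwa [interior_Ioi] at hx)
  set g := Function.invFunOn Z (Ioi a) with hg
  have hgZ : ∀ ρ, a < ρ → g (Z ρ) = ρ := fun ρ hρ => hanti.injOn.leftInvOn_invFunOn hρ
  have loc : ∀ x, a < x → ∀ e : ℝ, 0 < e → ∀ᶠ y in 𝓝 (Z x), ∃ x' ∈ Ioi a, dist x' x < e ∧ Z x' = y := by
    intro x hx e he
    set x₁ := max (x - e / 2) ((a + x) / 2) with hx₁
    have h1 : a < x₁ := lt_max_of_lt_right (by linarith)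
    have h1x : x₁ < x := max_lt (by linarith) (by linarith)
    have h2 : a < x + e / 2 := by linarith
    filter_upwards [Ioo_mem_nhds (hanti hx h2 (by linarith : x < x + e / 2)) (hanti h1 hx h1x)]
      with y hy
    obtain ⟨x', hx', hxy⟩ := intermediate_value_Icc' (show x₁ ≤ x + e / 2 by linarith)
      (hc.mono fun t ht => h1.trans_le ht.1) ⟨hy.1.le, hy.2.le⟩
    refine ⟨x', h1.trans_le hx'.1, ?_, hxy⟩
    rw [Real.dist_eq, abs_lt]
    constructor <;> linarith [hx'.1, hx'.2, le_max_left (x - e / 2) ((a + x) / 2)]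
  refine ⟨g, isOpen_iff_mem_nhds.2 ?_, hgZ, hanti, ?_⟩
  · rintro _ ⟨x, hx, rfl⟩
    exact (loc x hx 1 one_pos).mono fun y ⟨x', hx', _, h⟩ => ⟨x', hx', h⟩
  · rintro _ ⟨x, hx, rfl⟩
    rw [hgZ x hx]
    refine HasDerivAt.of_local_left_inverse (f := Z) ?_ (by rw [hgZ x hx]; exact hZ x hx)
      (hneg x hx).ne ?_
    · rw [ContinuousAt, hgZ x hx, Metric.tendsto_nhds]
      intro e he
      filter_upwards [loc x hx e he] with y ⟨x', hx', hd, h⟩
      rw [← h, hgZ x' hx']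
      exact hd
    · filter_upwards [loc x hx 1 one_pos] with y ⟨x', hx', _, h⟩
      rw [← h, hgZ x' hx']

/-- **No solution from a calibration along a curve.** -/
theorem no_solution_of_curve (hn : 3 ≤ n) {N p q L a : ℝ} (hN : (n : ℝ) < N) (hq : 0 < q)
    (hqp : q ≤ p) (hpq : 1 < p * q)
    (hsub : ((n : ℝ) - 2) < (n : ℝ) / (p + 1) + (n : ℝ) / (q + 1))
    (hL0 : 0 < L) (hL2 : L < 2) (hLn : (n : ℝ) - 5 ≤ L * ((n : ℝ) - 3))
    {Z dZ : ℝ → ℝ} {G dG : ℝ → Fin 14 → ℝ} {G₀ D₀ : Fin 14 → ℝ}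
    (hZ : ∀ ρ, a < ρ → HasDerivAt Z (dZ ρ) ρ) (hdZ : ContinuousOn dZ (Ioi a))
    (hneg : ∀ ρ, a < ρ → dZ ρ < 0) (hκ : ∃ ρ, a < ρ ∧ Z ρ = (p + 1) / (q + 1))
    (hZ0 : Tendsto Z atTop (𝓝 0))
    (hG : ∀ ρ, a < ρ → ∀ j, HasDerivAt (fun r => G r j) (dG ρ j) ρ)
    (hdG : ∀ j, ContinuousOn (fun r => dG r j) (Ioi a))
    (hG0 : ∀ j, Tendsto (fun r => G r j) atTop (𝓝 (G₀ j)))
    (hD0 : ∀ j, Tendsto (fun r => dG r j * Z r / dZ r) atTop (𝓝 (D₀ j)))
    (hpos : ∀ ρ, a < ρ → Z ρ ≤ (p + 1) / (q + 1) →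
      PosAt N p q L (Z ρ) (G ρ) (fun j => dG ρ j * Z ρ / dZ ρ))
    (hpos0 : PosAt N p q L 0 G₀ D₀) :
    ¬ ∃ u v : EuclideanSpace ℝ (Fin n) → ℝ, IsSol p q u v := by
  set κ := (p + 1) / (q + 1) with hκdef
  obtain ⟨g, hS, hgZ, hanti, hg⟩ := exists_inverse hZ hneg
  have hc : ContinuousOn Z (Ioi a) := fun x hx => (hZ x hx).continuousAt.continuousWithinAt
  obtain ⟨ρk, hρk, hZk⟩ := hκ
  have hI : Ioc 0 κ ⊆ Z '' Ioi a := by
    intro y hy
    obtain ⟨M, hM, hMk⟩ := ((hZ0.eventually (Iio_mem_nhds hy.1)).and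
      (eventually_ge_atTop ρk)).exists
    obtain ⟨x, hx, hxy⟩ := intermediate_value_Icc' hMk
      (hc.mono fun t ht => hρk.trans_le ht.1) ⟨le_of_lt hM, hZk ▸ hy.2⟩
    exact ⟨x, hρk.trans_le hx.1, hxy⟩
  have hgm : ∀ y ∈ Z '' Ioi a, a < g y ∧ Z (g y) = y := by
    rintro _ ⟨x, hx, rfl⟩
    rw [hgZ x hx]
    exact ⟨hx, rfl⟩
  have hgc : ContinuousOn g (Z '' Ioi a) := fun y hy => (hg y hy).continuousAt.continuousWithinAt
  have hgI : MapsTo g (Z '' Ioi a) (Ioi a) := fun y hy => (hgm y hy).1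
  set c : Fin 14 → ℝ → ℝ := fun j y => G (g y) j with hcdef
  have hder : ∀ j, ∀ y ∈ Z '' Ioi a, HasDerivAt (c j) (dG (g y) j * (dZ (g y))⁻¹) y := fun j y hy =>
    (hG (g y) (hgm y hy).1 j).comp y (hg y hy)
  have hcd : ∀ j, ContDiffOn ℝ 1 (c j) (Z '' Ioi a) := fun j => by
    rw [show (1 : WithTop ℕ∞) = 0 + 1 by rfl, contDiffOn_succ_iff_deriv_of_isOpen hS]
    refine ⟨fun y hy => (hder j y hy).differentiableAt.differentiableWithinAt, by simp, ?_⟩
    rw [contDiffOn_zero]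
    refine ContinuousOn.congr ?_ fun y hy => (hder j y hy).deriv
    exact ((hdG j).comp hgc hgI).mul ((hdZ.comp hgc hgI).inv₀ fun y hy =>
      (hneg _ (hgm y hy).1).ne)
  -- the values on the compact interval
  set Cv : ℝ → Fin 14 → ℝ := fun z j => if z = 0 then G₀ j else G (g z) j with hCv
  set Dv : ℝ → Fin 14 → ℝ :=
    fun z j => if z = 0 then D₀ j else dG (g z) j * Z (g z) / dZ (g z) with hDv
  have hinf : Tendsto g (𝓝[Icc 0 κ \ {0}] 0) atTop := by
    refine tendsto_atTop.2 fun M => ?_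
    have hM' : a < max M ρk := lt_max_of_lt_right hρk
    have hT0 : 0 < Z (max M ρk) := by
      refine lt_of_le_of_lt (le_of_tendsto hZ0 ?_)
        (hanti hM' (hM'.trans (lt_add_one _)) (lt_add_one _))
      exact (eventually_gt_atTop (max M ρk + 1)).mono fun r hr =>
        (hanti (hM'.trans (lt_add_one _)) (hM'.trans ((lt_add_one _).trans hr)) hr).le
    filter_upwards [self_mem_nhdsWithin, mem_nhdsWithin_of_mem_nhds (Iio_mem_nhds hT0)]
      with z hz hzT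
    have hz' : z ∈ Z '' Ioi a := hI ⟨lt_of_le_of_ne hz.1.1 (fun h => hz.2 h.symm), hz.1.2⟩
    by_contra hcon
    have := hanti.antitoneOn (hgm z hz').1 hM' ((not_le.1 hcon).le.trans (le_max_left _ _))
    rw [(hgm z hz').2] at this
    exact absurd hzT (not_lt.2 this)
  have hat : ∀ z, 0 < z → z ≤ κ → Icc 0 κ ∩ Ioi 0 ⊆ Z '' Ioi a := fun _ _ _ y hy =>
    hI ⟨hy.2, hy.1.2⟩
  have cont : ∀ (f : ℝ → ℝ) (f₀ : ℝ), ContinuousOn f (Ioi a) → Tendsto f atTop (𝓝 f₀) →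
      ContinuousOn (fun z => if z = 0 then f₀ else f (g z)) (Icc 0 κ) := by
    intro f f₀ hf hf₀ z hz
    rcases eq_or_lt_of_le hz.1 with h | h
    · subst h
      rw [← continuousWithinAt_sdiff_self, ContinuousWithinAt, if_pos rfl]
      refine (hf₀.comp hinf).congr' ?_
      filter_upwards [self_mem_nhdsWithin] with y hy
      simp only [Function.comp_apply]
      rw [if_neg]
      exact fun h => hy.2 h
    · have h1 : ContinuousWithinAt (fun y => f (g y)) (Icc 0 κ ∩ Ioi 0) z :=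
        ((hf.comp hgc hgI).mono (hat z h hz.2)) z ⟨hz, h⟩
      rw [continuousWithinAt_inter (Ioi_mem_nhds h)] at h1
      refine h1.congr_of_eventuallyEq ?_ (if_neg h.ne')
      filter_upwards [mem_nhdsWithin_of_mem_nhds (Ioi_mem_nhds h)] with y hy
      exact if_neg (ne_of_gt hy)
  have hsplit : ∀ z ∈ Icc 0 κ, PosAt N p q L z (Cv z) (Dv z) := by
    intro z hz
    rcases eq_or_lt_of_le hz.1 with h | h
    · subst h
      simpa [hCv, hDv] using hpos0
    · obtain ⟨h1, h2⟩ := hgm z (hI ⟨h, hz.2⟩)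
      have := hpos (g z) h1 (by rw [h2]; exact hz.2)
      simpa [hCv, hDv, h.ne', h2] using this
  refine no_solution_of_calib hn hN c hS hI hq hqp hpq hsub hL0 hL2 hLn hcd
    (Cv := Cv) (Dv := Dv)
    (fun j => cont _ _ (fun x hx => (hG x hx j).continuousAt.continuousWithinAt) (hG0 j))
    (fun j => cont (fun r => dG r j * Z r / dZ r) _
      (((hdG j).mul hc).div hdZ fun x hx => (hneg x hx).ne) (hD0 j))
    (fun j z hz => ?_) (fun z hz => (hsplit z hz).1) (fun z hz => (hsplit z hz).2.1)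
    (fun z hz => (hsplit z hz).2.2)
  simp only [hCv, hDv, hcdef, if_neg hz.1.ne', true_and]
  rw [(hder j z (hI hz)).deriv, (hgm z (hI hz)).2]
  ring

end Vale.Agent.P100.Calib
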