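import Vale.Agent.P100.Calib.SlabAllLowExpr

/-!
# The numerator of the flow at any band over `5 b (1 + 2 I) (b - u a)`

The band is `H = Gn/Gd`; the inputs are the expressions of `Gn` and of its two derivatives.
-/

namespace Vale.Agent.P100.Calib.Band.AllLow

open Pack

local instance allBandAdd : Add Pack.Ex := ⟨Ex.add⟩
local instance allBandSub : Sub Pack.Ex := ⟨Ex.sub⟩
local instance allBandMul : Mul Pack.Ex := ⟨Ex.mul⟩

/-- The denominator of `qv`, times `Gd`. -/
def eBandDen (gn I a : Pack.Ex) : Pack.Ex :=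
  (eN 2 + eDV I a) * eGd I a - eU * eD I a * gn

/-- The numerator of `ev`, times `Gd`. -/
def eBandEn (gn I a : Pack.Ex) : Pack.Ex :=
  (eGd I a - eU * eD I a * gn) * eQn I a - eS I * (eN 1 - eU) * eB I a * eBandDen gn I a

/-- The flow at the band, times `Gd ^ 3`. -/
def eBandNum (gn gu gv I a : Pack.Ex) : Pack.Ex :=
  eN 0 - (eGd I a - eU * eD I a * gn) *
      (eQn I a * gn - eS I * eQ I a * eBandDen gn I a) * eGd I a -
    gn * eBandEn gn I a * eGd I a - eU * (gu * eGd I a - gn * eDu I a) * eBandEn gn I a -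
    eU * (eN 1 + eDV I a) * gv * eGd I a *
      (eQn I a * gn - eS I * (eN 1 - a * eV I) * eBandDen gn I a)

end Vale.Agent.P100.Calib.Band.AllLow
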