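import Vale.Agent.P100.Calib.SlabAllLow
import Vale.Agent.P100.Calib.SlabAllBandExpr

/-!
# The flow at a band over `5 b (1 + 2 I) (b - u a)` from its packed numerator

`eval_bandAll` identifies the packed numerators; `BandPlace` collects what the chart says about
`(u, X, I, a)`, `v = 2 I X`.
-/

namespace Vale.Agent.P100.Calib.Band.AllLow

open Pack

local instance allBandRealAdd : Add Pack.Ex := ⟨Ex.add⟩
local instance allBandRealSub : Sub Pack.Ex := ⟨Ex.sub⟩
local instance allBandRealMul : Mul Pack.Ex := ⟨Ex.mul⟩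

/-- The values of the packed numerators of the flow at a band. -/
theorem eval_bandAll {a b I u X n nu nv : ℝ} {x : ℕ → ℝ} (tN tU tV tI tA : Pack.Ex)
    (hI : tI.eval x = I) (ha : tA.eval x = a) (hn : tN.eval x = n) (hnu : tU.eval x = nu)
    (hnv : tV.eval x = nv) (hu : x 0 = u) (hX : x 1 = X) (hb : b = 1 - 2 * I - a)
    (hu1 : u ≤ 1) (ha0 : 0 < a) (hd : 0 < b - a) (hI0 : 0 ≤ I) :
    let Gd := 5 * (b * (1 + 2 * I)) * (b - u * a)
    0 < Gd ∧ allDen a b u (2 * I * X) (n / Gd) * Gd = (eBandDen tN tI tA).eval x ∧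
      allDot a b u (2 * I * X) (n / Gd)
          (-((nu * Gd - n * ((-5) * (b * (1 + 2 * I)) * a)) / Gd ^ 2)) (-(nv / Gd)) 1 * Gd ^ 3 =
        (eBandNum tN tU tV tI tA).eval x := by
  intro Gd
  have hb0 : 0 < b := by linarith
  have hw : 0 < b - u * a := by linarith [mul_le_mul_of_nonneg_right hu1 ha0.le]
  have hG : 0 < Gd := mul_pos (by positivity) hw
  have vS : (AllLow.eS tI).eval x = a + b := by
    simp only [AllLow.eS, eval_sub', eval_mul', eval_num', hI]; push_cast; rw [hb]; ring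
  have vB : (eB tI tA).eval x = b := by simp only [eB, eval_sub', vS, ha]; ring
  have vD : (eD tI tA).eval x = b - a := by simp only [eD, eval_sub', vB, ha]
  have vV : (eV tI).eval x = 2 * I * X := by
    simp only [eV, eval_mul', eval_num', Ex.eval, hI, hX]; push_cast; ring
  have vDV : (eDV tI tA).eval x = (b - a) * (2 * I * X) := by simp only [eDV, eval_mul', vD, vV]
  have vJ : (eJ tI).eval x = 1 + 2 * I := by
    simp only [eJ, eval_add', eval_mul', eval_num', hI]; push_cast; ring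
  have vQ : (AllLow.eQ tI tA).eval x = 1 + (1 - a) * (2 * I * X) := by
    simp only [AllLow.eQ, eval_add', eval_sub', eval_mul', eval_num', ha, vV]; push_cast; ring
  have vU : eU.eval x = u := by simp only [eU, Ex.eval, hu]
  have vGd : (eGd tI tA).eval x = Gd := by
    simp only [eGd, eW, Gd, eval_sub', eval_mul', eval_num', vB, vJ, vU, ha]; push_cast; ring
  have vDu : (eDu tI tA).eval x = (-5) * (b * (1 + 2 * I)) * a := by
    simp only [eDu, eval_mul', eval_num', vB, vJ, ha]; push_cast; ring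
  have vQn : (eQn tI tA).eval x = allQn a b u (2 * I * X) := by
    simp only [eQn, allQn, eval_add', eval_sub', eval_mul', eval_num', vS, vB, vDV, vU]
    push_cast; ring
  have vDen : (eBandDen tN tI tA).eval x = (2 + (b - a) * (2 * I * X)) * Gd -
      u * (b - a) * n := by
    simp only [eBandDen, eval_add', eval_sub', eval_mul', eval_num', vDV, vGd, vU, vD, hn]
    push_cast; ring
  obtain ⟨k1, k2⟩ := dot_band (a := a) (b := b) (u := u) (v := 2 * I * X) (Gn := n) (Gu := nu)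
    (dU := (-5) * (b * (1 + 2 * I)) * a) (Gv := nv) hG.ne'
  refine ⟨hG, ?_, ?_⟩
  · rw [k1, vDen]
  · rw [k2]
    simp only [eBandNum, eBandEn, eval_add', eval_sub', eval_mul', eval_num', vDen, vQn, vGd,
      vDu, vS, vQ, vB, vU, vD, vDV, vV, ha, hn, hnu, hnv]
    generalize allQn a b u (2 * I * X) = Q
    generalize (-5 : ℝ) * (b * (1 + 2 * I)) * a = dU
    generalize Gd = g
    push_cast
    ring

/-- What the chart says about `(u, X, I, a)`. -/
structure BandPlace (a u I X : ℝ) : Prop where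
  I_pos : 0 < I
  I_le : I ≤ 1 / 20
  I_le_a : I ≤ a
  a_le : a ≤ 31 / 100
  u_pos : 0 < u
  u_le : u ≤ 3 / 5
  X_lo : 24 / 25 ≤ X
  X_hi : (1 - 2 * I) * (1 - 2 * I - 2 * a) * X < 1

theorem BandPlace.X_lt {a u I X : ℝ} (h : BandPlace a u I X) (A J K : ℝ) (ha : a ≤ A) (hI : I ≤ J)
    (hA : A ≤ 31 / 100) (hJ : J ≤ 1 / 20) (hK : 1 ≤ (1 - 2 * J) * (1 - 2 * J - 2 * A) * K) :
    X < K := by
  have h1 : (1 - 2 * J) * (1 - 2 * J - 2 * A) ≤ (1 - 2 * I) * (1 - 2 * I - 2 * a) :=
    mul_le_mul (by linarith) (by linarith) (by linarith) (by linarith)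
  have h2 : 0 < (1 - 2 * J) * (1 - 2 * J - 2 * A) := mul_pos (by linarith) (by linarith)
  refine lt_of_mul_lt_mul_left (a := (1 - 2 * J) * (1 - 2 * J - 2 * A)) ?_ h2.le
  have := mul_le_mul_of_nonneg_right h1 (show 0 ≤ X by linarith [h.X_lo])
  linarith [h.X_hi]

theorem bandPlace_of {N a b u v : ℝ} (hb : SlabBoxAll N a b) (h20 : 20 ≤ N) (ha : a ≤ 31 / 100)
    (hu : 0 < u) (hu1 : u ≤ 3 / 5) (hv : VRange N a b v) :
    ∃ I X, v = 2 * I * X ∧ b = 1 - 2 * I - a ∧ BandPlace a u I X := by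
  obtain ⟨ha0, -, -⟩ := hb.facts
  obtain ⟨I, hI⟩ : ∃ I, I = 1 / N := ⟨_, rfl⟩
  have hN : 0 < N := by linarith
  have hIN : I * N = 1 := by rw [hI]; field_simp
  have hI0 : 0 < I := hI ▸ one_div_pos.2 hN
  have hI20 : I ≤ 1 / 20 := hI ▸ one_div_le_one_div_of_le (by norm_num) h20
  have hIa : I ≤ a := le_of_mul_le_mul_right (by linarith [hb.one_le]) hN
  have hbI : b = 1 - 2 * I - a := by
    have : 1 - (a + b) = 2 * I := by
      refine mul_left_cancel₀ hN.ne' ?_
      rw [hb.sum]; linarith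
    linarith
  obtain ⟨X, rfl⟩ : ∃ X, v = 2 * I * X :=
    ⟨v / (2 * I), (mul_div_cancel₀ v (mul_pos two_pos hI0).ne').symm⟩
  have hX1 : 1 < (1 + 2 * a * I) * X := by
    have e : (N + 2 * a) * (2 * I * X) = 2 * ((1 + 2 * a * I) * X) := by
      linear_combination 2 * X * hIN
    linarith [hv.low]
  have hX0 : 0 < X := pos_of_mul_pos_right (one_pos.trans hX1) (by positivity)
  refine ⟨I, X, rfl, hbI, hI0, hI20, hIa, ha, hu, hu1, ?_, ?_⟩
  · have : a * I ≤ 31 / 100 * (1 / 20) := mul_le_mul ha hI20 hI0.le (by norm_num)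
    have := mul_le_mul_of_nonneg_right (show 2 * a * I ≤ 31 / 1000 by linarith) hX0.le
    linarith
  · have e : (N - 2) * ((b - a) * (2 * I * X)) =
        2 * ((1 - 2 * I) * (1 - 2 * I - 2 * a) * X) := by
      rw [hbI]; linear_combination 2 * (1 - 2 * I - 2 * a) * X * hIN
    linarith [hv.high]

end Vale.Agent.P100.Calib.Band.AllLow
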