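import Vale.Agent.P100.Calib.SlabAllEndSigns

/-!
# The upper end of the exit band, second parts
-/

open Set Filter Topology

namespace Vale.Agent.P100.Calib.Band

open Vale.Agent.P100.Bubble Chart

namespace AllLow

open Pack

theorem end_top_part5 {a b I u X : ℝ} (hP : BandPlace a (1 / 2) I X)
    (hbI : b = 1 - 2 * I - a) (hu0 : 907 / 1000 ≤ u) (hu1 : u < 1)
    (ha5 : 1 / 20 ≤ a) (k3_206 : (103 / 500) ≤ a) (k3_270 : a < (27 / 100)) (k3_248 : a < (31 / 125)) :
    endT a b I u X ((100 * (b - a) - I * (1 - u) * allEndC I a (1 - u)) /
      (((1 : ℤ) : ℝ) * (100 * ((b - a) * (b - u * a))))) < 0 := by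
  obtain ⟨hI0, hI20, hIa, ha, -, -, hXlo, -⟩ := id hP
  have hX4 := hP.X_lt (31 / 100) (1 / 20) 4 ha hI20 le_rfl le_rfl (by norm_num)
  rcases lt_or_ge a (227 / 1000) with k3_227 | k3_227
  · rcases lt_or_ge I (3 / 250) with k2_12 | k2_12
    · have hX := hP.X_lt (227 / 1000) (3 / 250) 2 k3_227.le k2_12.le
        (by norm_num) (by norm_num) (by norm_num)
      exact end_top_box hP hbI hu0 hu1 end_TopI_29
        (by push_cast; linarith) (by push_cast; linarith) (by push_cast; linarith)
        (by push_cast; linarith) (by push_cast; linarith) (by push_cast; linarith)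
        (by push_cast; linarith) (by push_cast; linarith)
    · rcases lt_or_ge I (1 / 40) with k2_25 | k2_25
      · have hX := hP.X_lt (227 / 1000) (1 / 40) (54 / 25) k3_227.le k2_25.le
          (by norm_num) (by norm_num) (by norm_num)
        exact end_top_box hP hbI hu0 hu1 end_TopI_30
          (by push_cast; linarith) (by push_cast; linarith) (by push_cast; linarith)
          (by push_cast; linarith) (by push_cast; linarith) (by push_cast; linarith)
          (by push_cast; linarith) (by push_cast; linarith)
      · have hX := hP.X_lt (227 / 1000) (1 / 20) (63 / 25) k3_227.le hI20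
          (by norm_num) (by norm_num) (by norm_num)
        exact end_top_box hP hbI hu0 hu1 end_TopI_31
          (by push_cast; linarith) (by push_cast; linarith) (by push_cast; linarith)
          (by push_cast; linarith) (by push_cast; linarith) (by push_cast; linarith)
          (by push_cast; linarith) (by push_cast; linarith)
  · rcases lt_or_ge I (3 / 250) with k2_12 | k2_12
    · have hX := hP.X_lt (31 / 125) (3 / 250) (54 / 25) k3_248.le k2_12.le
        (by norm_num) (by norm_num) (by norm_num)
      exact end_top_box hP hbI hu0 hu1 end_TopI_32
        (by push_cast; linarith) (by push_cast; linarith) (by push_cast; linarith)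
        (by push_cast; linarith) (by push_cast; linarith) (by push_cast; linarith)
        (by push_cast; linarith) (by push_cast; linarith)
    · rcases lt_or_ge I (1 / 40) with k2_25 | k2_25
      · have hX := hP.X_lt (31 / 125) (1 / 40) (58 / 25) k3_248.le k2_25.le
          (by norm_num) (by norm_num) (by norm_num)
        exact end_top_box hP hbI hu0 hu1 end_TopI_35
          (by push_cast; linarith) (by push_cast; linarith) (by push_cast; linarith)
          (by push_cast; linarith) (by push_cast; linarith) (by push_cast; linarith)
          (by push_cast; linarith) (by push_cast; linarith)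
      · have hX := hP.X_lt (31 / 125) (1 / 20) (69 / 25) k3_248.le hI20
          (by norm_num) (by norm_num) (by norm_num)
        exact end_top_box hP hbI hu0 hu1 end_TopI_37
          (by push_cast; linarith) (by push_cast; linarith) (by push_cast; linarith)
          (by push_cast; linarith) (by push_cast; linarith) (by push_cast; linarith)
          (by push_cast; linarith) (by push_cast; linarith)

theorem end_top_part6 {a b I u X : ℝ} (hP : BandPlace a (1 / 2) I X)
    (hbI : b = 1 - 2 * I - a) (hu0 : 907 / 1000 ≤ u) (hu1 : u < 1)
    (ha5 : 1 / 20 ≤ a) (k3_206 : (103 / 500) ≤ a) (k3_270 : a < (27 / 100)) (k3_248 : (31 / 125) ≤ a) :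
    endT a b I u X ((100 * (b - a) - I * (1 - u) * allEndC I a (1 - u)) /
      (((1 : ℤ) : ℝ) * (100 * ((b - a) * (b - u * a))))) < 0 := by
  obtain ⟨hI0, hI20, hIa, ha, -, -, hXlo, -⟩ := id hP
  have hX4 := hP.X_lt (31 / 100) (1 / 20) 4 ha hI20 le_rfl le_rfl (by norm_num)
  rcases lt_or_ge I (3 / 250) with k2_12 | k2_12
  · rcases lt_or_ge I (3 / 500) with k2_6 | k2_6
    · have hX := hP.X_lt (27 / 100) (3 / 500) (57 / 25) k3_270.le k2_6.le
        (by norm_num) (by norm_num) (by norm_num)
      exact end_top_box hP hbI hu0 hu1 end_TopI_33
        (by push_cast; linarith) (by push_cast; linarith) (by push_cast; linarith)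
        (by push_cast; linarith) (by push_cast; linarith) (by push_cast; linarith)
        (by push_cast; linarith) (by push_cast; linarith)
    · have hX := hP.X_lt (27 / 100) (3 / 250) (59 / 25) k3_270.le k2_12.le
        (by norm_num) (by norm_num) (by norm_num)
      exact end_top_box hP hbI hu0 hu1 end_TopI_34
        (by push_cast; linarith) (by push_cast; linarith) (by push_cast; linarith)
        (by push_cast; linarith) (by push_cast; linarith) (by push_cast; linarith)
        (by push_cast; linarith) (by push_cast; linarith)
  · rcases lt_or_ge I (1 / 40) with k2_25 | k2_25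
    · have hX := hP.X_lt (27 / 100) (1 / 40) (13 / 5) k3_270.le k2_25.le
        (by norm_num) (by norm_num) (by norm_num)
      exact end_top_box hP hbI hu0 hu1 end_TopI_36
        (by push_cast; linarith) (by push_cast; linarith) (by push_cast; linarith)
        (by push_cast; linarith) (by push_cast; linarith) (by push_cast; linarith)
        (by push_cast; linarith) (by push_cast; linarith)
    · have hX := hP.X_lt (27 / 100) (1 / 20) (78 / 25) k3_270.le hI20
        (by norm_num) (by norm_num) (by norm_num)
      exact end_top_box hP hbI hu0 hu1 end_TopI_38
        (by push_cast; linarith) (by push_cast; linarith) (by push_cast; linarith)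
        (by push_cast; linarith) (by push_cast; linarith) (by push_cast; linarith)
        (by push_cast; linarith) (by push_cast; linarith)

theorem end_top_part7 {a b I u X : ℝ} (hP : BandPlace a (1 / 2) I X)
    (hbI : b = 1 - 2 * I - a) (hu0 : 907 / 1000 ≤ u) (hu1 : u < 1)
    (ha5 : 1 / 20 ≤ a) (k3_206 : (103 / 500) ≤ a) (k3_270 : (27 / 100) ≤ a) (k2_6 : I < (3 / 500)) (k3_290 : a < (29 / 100)) :
    endT a b I u X ((100 * (b - a) - I * (1 - u) * allEndC I a (1 - u)) /
      (((1 : ℤ) : ℝ) * (100 * ((b - a) * (b - u * a))))) < 0 := by
  obtain ⟨hI0, hI20, hIa, ha, -, -, hXlo, -⟩ := id hP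
  have hX4 := hP.X_lt (31 / 100) (1 / 20) 4 ha hI20 le_rfl le_rfl (by norm_num)
  rcases lt_or_ge a (7 / 25) with k3_280 | k3_280
  · rcases lt_or_ge I (3 / 1000) with k2_3 | k2_3
    · have hX := hP.X_lt (7 / 25) (3 / 1000) (58 / 25) k3_280.le k2_3.le
        (by norm_num) (by norm_num) (by norm_num)
      exact end_top_box hP hbI hu0 hu1 end_TopI_39
        (by push_cast; linarith) (by push_cast; linarith) (by push_cast; linarith)
        (by push_cast; linarith) (by push_cast; linarith) (by push_cast; linarith)
        (by push_cast; linarith) (by push_cast; linarith)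
    · have hX := hP.X_lt (7 / 25) (3 / 500) (12 / 5) k3_280.le k2_6.le
        (by norm_num) (by norm_num) (by norm_num)
      exact end_top_box hP hbI hu0 hu1 end_TopI_41
        (by push_cast; linarith) (by push_cast; linarith) (by push_cast; linarith)
        (by push_cast; linarith) (by push_cast; linarith) (by push_cast; linarith)
        (by push_cast; linarith) (by push_cast; linarith)
  · rcases lt_or_ge I (3 / 1000) with k2_3 | k2_3
    · have hX := hP.X_lt (29 / 100) (3 / 1000) (61 / 25) k3_290.le k2_3.le
        (by norm_num) (by norm_num) (by norm_num)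
      exact end_top_box hP hbI hu0 hu1 end_TopI_40
        (by push_cast; linarith) (by push_cast; linarith) (by push_cast; linarith)
        (by push_cast; linarith) (by push_cast; linarith) (by push_cast; linarith)
        (by push_cast; linarith) (by push_cast; linarith)
    · have hX := hP.X_lt (29 / 100) (3 / 500) (63 / 25) k3_290.le k2_6.le
        (by norm_num) (by norm_num) (by norm_num)
      exact end_top_box hP hbI hu0 hu1 end_TopI_42
        (by push_cast; linarith) (by push_cast; linarith) (by push_cast; linarith)
        (by push_cast; linarith) (by push_cast; linarith) (by push_cast; linarith)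
        (by push_cast; linarith) (by push_cast; linarith)

theorem end_top_part8 {a b I u X : ℝ} (hP : BandPlace a (1 / 2) I X)
    (hbI : b = 1 - 2 * I - a) (hu0 : 907 / 1000 ≤ u) (hu1 : u < 1)
    (ha5 : 1 / 20 ≤ a) (k3_206 : (103 / 500) ≤ a) (k3_270 : (27 / 100) ≤ a) (k2_6 : I < (3 / 500)) (k3_290 : (29 / 100) ≤ a) :
    endT a b I u X ((100 * (b - a) - I * (1 - u) * allEndC I a (1 - u)) /
      (((1 : ℤ) : ℝ) * (100 * ((b - a) * (b - u * a))))) < 0 := by
  obtain ⟨hI0, hI20, hIa, ha, -, -, hXlo, -⟩ := id hP
  have hX4 := hP.X_lt (31 / 100) (1 / 20) 4 ha hI20 le_rfl le_rfl (by norm_num)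
  rcases lt_or_ge a (3 / 10) with k3_300 | k3_300
  · rcases lt_or_ge I (3 / 1000) with k2_3 | k2_3
    · have hX := hP.X_lt (3 / 10) (3 / 1000) (64 / 25) k3_300.le k2_3.le
        (by norm_num) (by norm_num) (by norm_num)
      exact end_top_box hP hbI hu0 hu1 end_TopI_44
        (by push_cast; linarith) (by push_cast; linarith) (by push_cast; linarith)
        (by push_cast; linarith) (by push_cast; linarith) (by push_cast; linarith)
        (by push_cast; linarith) (by push_cast; linarith)
    · have hX := hP.X_lt (3 / 10) (3 / 500) (66 / 25) k3_300.le k2_6.le
        (by norm_num) (by norm_num) (by norm_num)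
      exact end_top_box hP hbI hu0 hu1 end_TopI_45
        (by push_cast; linarith) (by push_cast; linarith) (by push_cast; linarith)
        (by push_cast; linarith) (by push_cast; linarith) (by push_cast; linarith)
        (by push_cast; linarith) (by push_cast; linarith)
  · rcases lt_or_ge I (3 / 1000) with k2_3 | k2_3
    · rcases lt_or_ge a (61 / 200) with k3_305 | k3_305
      · have hX := hP.X_lt (61 / 200) (3 / 1000) (66 / 25) k3_305.le k2_3.le
          (by norm_num) (by norm_num) (by norm_num)
        exact end_top_box hP hbI hu0 hu1 end_TopI_46
          (by push_cast; linarith) (by push_cast; linarith) (by push_cast; linarith)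
          (by push_cast; linarith) (by push_cast; linarith) (by push_cast; linarith)
          (by push_cast; linarith) (by push_cast; linarith)
      · rcases lt_or_ge a (77 / 250) with k3_308 | k3_308
        · have hX := hP.X_lt (77 / 250) (3 / 1000) (67 / 25) k3_308.le k2_3.le
            (by norm_num) (by norm_num) (by norm_num)
          exact end_top_box hP hbI hu0 hu1 end_TopI_47
            (by push_cast; linarith) (by push_cast; linarith) (by push_cast; linarith)
            (by push_cast; linarith) (by push_cast; linarith) (by push_cast; linarith)
            (by push_cast; linarith) (by push_cast; linarith)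
        · have hX := hP.X_lt (31 / 100) (3 / 1000) (68 / 25) ha k2_3.le
            (by norm_num) (by norm_num) (by norm_num)
          exact end_top_box hP hbI hu0 hu1 end_TopI_48
            (by push_cast; linarith) (by push_cast; linarith) (by push_cast; linarith)
            (by push_cast; linarith) (by push_cast; linarith) (by push_cast; linarith)
            (by push_cast; linarith) (by push_cast; linarith)
    · have hX := hP.X_lt (31 / 100) (3 / 500) (69 / 25) ha k2_6.le
        (by norm_num) (by norm_num) (by norm_num)
      exact end_top_box hP hbI hu0 hu1 end_TopI_49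
        (by push_cast; linarith) (by push_cast; linarith) (by push_cast; linarith)
        (by push_cast; linarith) (by push_cast; linarith) (by push_cast; linarith)
        (by push_cast; linarith) (by push_cast; linarith)

theorem end_top_part9 {a b I u X : ℝ} (hP : BandPlace a (1 / 2) I X)
    (hbI : b = 1 - 2 * I - a) (hu0 : 907 / 1000 ≤ u) (hu1 : u < 1)
    (ha5 : 1 / 20 ≤ a) (k3_206 : (103 / 500) ≤ a) (k3_270 : (27 / 100) ≤ a) (k2_6 : (3 / 500) ≤ I) :
    endT a b I u X ((100 * (b - a) - I * (1 - u) * allEndC I a (1 - u)) /
      (((1 : ℤ) : ℝ) * (100 * ((b - a) * (b - u * a))))) < 0 := by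
  obtain ⟨hI0, hI20, hIa, ha, -, -, hXlo, -⟩ := id hP
  have hX4 := hP.X_lt (31 / 100) (1 / 20) 4 ha hI20 le_rfl le_rfl (by norm_num)
  rcases lt_or_ge I (3 / 250) with k2_12 | k2_12
  · rcases lt_or_ge a (29 / 100) with k3_290 | k3_290
    · have hX := hP.X_lt (29 / 100) (3 / 250) (13 / 5) k3_290.le k2_12.le
        (by norm_num) (by norm_num) (by norm_num)
      exact end_top_box hP hbI hu0 hu1 end_TopI_43
        (by push_cast; linarith) (by push_cast; linarith) (by push_cast; linarith)
        (by push_cast; linarith) (by push_cast; linarith) (by push_cast; linarith)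
        (by push_cast; linarith) (by push_cast; linarith)
    · rcases lt_or_ge I (9 / 1000) with k2_9 | k2_9
      · have hX := hP.X_lt (31 / 100) (9 / 1000) (71 / 25) ha k2_9.le
          (by norm_num) (by norm_num) (by norm_num)
        exact end_top_box hP hbI hu0 hu1 end_TopI_50
          (by push_cast; linarith) (by push_cast; linarith) (by push_cast; linarith)
          (by push_cast; linarith) (by push_cast; linarith) (by push_cast; linarith)
          (by push_cast; linarith) (by push_cast; linarith)
      · have hX := hP.X_lt (31 / 100) (3 / 250) (72 / 25) ha k2_12.le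
          (by norm_num) (by norm_num) (by norm_num)
        exact end_top_box hP hbI hu0 hu1 end_TopI_51
          (by push_cast; linarith) (by push_cast; linarith) (by push_cast; linarith)
          (by push_cast; linarith) (by push_cast; linarith) (by push_cast; linarith)
          (by push_cast; linarith) (by push_cast; linarith)
  · rcases lt_or_ge X (62 / 25) with k1_62 | k1_62
    · exact end_top_box hP hbI hu0 hu1 end_TopI_52
        (by push_cast; linarith) (by push_cast; linarith) (by push_cast; linarith)
        (by push_cast; linarith) (by push_cast; linarith) (by push_cast; linarith)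
        (by push_cast; linarith) (by push_cast; linarith)
    · rcases lt_or_ge I (31 / 1000) with k2_31 | k2_31
      · have hX := hP.X_lt (31 / 100) (31 / 1000) (84 / 25) ha k2_31.le
          (by norm_num) (by norm_num) (by norm_num)
        exact end_top_box hP hbI hu0 hu1 end_TopI_53
          (by push_cast; linarith) (by push_cast; linarith) (by push_cast; linarith)
          (by push_cast; linarith) (by push_cast; linarith) (by push_cast; linarith)
          (by push_cast; linarith) (by push_cast; linarith)
      · rcases lt_or_ge a (29 / 100) with k3_290 | k3_290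
        · have hX := hP.X_lt (29 / 100) (1 / 20) (87 / 25) k3_290.le hI20
            (by norm_num) (by norm_num) (by norm_num)
          exact end_top_box hP hbI hu0 hu1 end_TopI_54
            (by push_cast; linarith) (by push_cast; linarith) (by push_cast; linarith)
            (by push_cast; linarith) (by push_cast; linarith) (by push_cast; linarith)
            (by push_cast; linarith) (by push_cast; linarith)
        · have hX := hP.X_lt (31 / 100) (1 / 20) 4 ha hI20
            (by norm_num) (by norm_num) (by norm_num)
          exact end_top_box hP hbI hu0 hu1 end_TopI_55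
            (by push_cast; linarith) (by push_cast; linarith) (by push_cast; linarith)
            (by push_cast; linarith) (by push_cast; linarith) (by push_cast; linarith)
            (by push_cast; linarith) (by push_cast; linarith)

end AllLow

end Vale.Agent.P100.Calib.Band
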