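import Vale.Agent.P100.Calib.SlabAllEndTopOne
import Vale.Agent.P100.Calib.SlabAllEndTopTwo

/-!
# The lower band at the end of the tail in every dimension from twenty on

`allEndLow` is nonnegative on orbits for `91/100 ≤ u < 1`.
-/

open Set Filter Topology

namespace Vale.Agent.P100.Calib.Band

open Vale.Agent.P100.Bubble Chart

namespace AllLow

open Pack

local instance allEndUseAdd : Add Pack.Ex := ⟨Ex.add⟩
local instance allEndUseSub : Sub Pack.Ex := ⟨Ex.sub⟩
local instance allEndUseMul : Mul Pack.Ex := ⟨Ex.mul⟩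

/-- The condition at the upper end. -/
theorem end_top_sign {a b I u X : ℝ} (hP : BandPlace a (1 / 2) I X) (hbI : b = 1 - 2 * I - a)
    (hu0 : 907 / 1000 ≤ u) (hu1 : u < 1) (ha5 : 1 / 20 ≤ a) :
    endT a b I u X ((100 * (b - a) - I * (1 - u) * allEndC I a (1 - u)) /
      (((1 : ℤ) : ℝ) * (100 * ((b - a) * (b - u * a))))) < 0 := by
  rcases lt_or_ge a (103 / 500) with k3_206 | k3_206
  · rcases lt_or_ge a (61 / 500) with k3_122 | k3_122
    · rcases lt_or_ge a (91 / 1000) with k3_91 | k3_91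
      · rcases lt_or_ge a (3 / 50) with k3_60 | k3_60
        · exact end_top_part0 hP hbI hu0 hu1 ha5 k3_206 k3_122 k3_91 k3_60
        · exact end_top_part1 hP hbI hu0 hu1 ha5 k3_206 k3_122 k3_91 k3_60
      · exact end_top_part2 hP hbI hu0 hu1 ha5 k3_206 k3_122 k3_91
    · rcases lt_or_ge a (153 / 1000) with k3_153 | k3_153
      · exact end_top_part3 hP hbI hu0 hu1 ha5 k3_206 k3_122 k3_153
      · exact end_top_part4 hP hbI hu0 hu1 ha5 k3_206 k3_122 k3_153
  · rcases lt_or_ge a (27 / 100) with k3_270 | k3_270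
    · rcases lt_or_ge a (31 / 125) with k3_248 | k3_248
      · exact end_top_part5 hP hbI hu0 hu1 ha5 k3_206 k3_270 k3_248
      · exact end_top_part6 hP hbI hu0 hu1 ha5 k3_206 k3_270 k3_248
    · rcases lt_or_ge I (3 / 500) with k2_6 | k2_6
      · rcases lt_or_ge a (29 / 100) with k3_290 | k3_290
        · exact end_top_part7 hP hbI hu0 hu1 ha5 k3_206 k3_270 k2_6 k3_290
        · exact end_top_part8 hP hbI hu0 hu1 ha5 k3_206 k3_270 k2_6 k3_290
      · exact end_top_part9 hP hbI hu0 hu1 ha5 k3_206 k3_270 k2_6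

/-- The condition at the upper end for `a ≤ 1/20`. -/
theorem end_top_small {a b I u X : ℝ} (hP : BandPlace a (1 / 2) I X) (hbI : b = 1 - 2 * I - a)
    (hu0 : 907 / 1000 ≤ u) (hu1 : u < 1) (ha5 : a < 1 / 20) :
    endT a b I u X ((100 * (b - a) - I * (1 - u) * allEndC I a (1 - u)) /
      (((1 : ℤ) : ℝ) * (100 * ((b - a) * (b - u * a))))) < 0 := by
  obtain ⟨hI0, hI20, hIa, ha, -, -, hXlo, hXhi⟩ := id hP
  have ha0 : 0 < a := by linarith
  have hd : 0 < b - a := by linarith
  obtain ⟨s, hs⟩ : ∃ s, I = s * a := ⟨I / a, (div_mul_cancel₀ I ha0.ne').symm⟩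
  have hs0 : 0 < s := pos_of_mul_pos_left (hs ▸ hI0) ha0.le
  have hs1 : s ≤ 1 := le_of_mul_le_mul_right (by rw [one_mul, ← hs]; exact hIa) ha0
  have hI5 : I ≤ 1 / 20 * s := by rw [hs, mul_comm (1 / 20 : ℝ)]; exact mul_le_mul_of_nonneg_left ha5.le hs0.le
  have hev : ∀ (h1 : 0 ≤ eEndTopS.eval (stabPt u X s a)),
      endT a b I u X ((100 * (b - a) - I * (1 - u) * allEndC I a (1 - u)) /
        (((1 : ℤ) : ℝ) * (100 * ((b - a) * (b - u * a))))) < 0 := by
    intro h1
    obtain ⟨e1, -, e3, -⟩ := eval_end_ends (b := b) (u := u) (x := stabPt u X s a) (.var 2 * .var 3)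
      (.var 3) (I := I) (by simp [stabPt, Ex.eval, hs]) (by simp [stabPt, Ex.eval])
      (by simp [stabPt]) hbI
    refine end_neg _ _ (.var 2 * .var 3) (.var 3) (by simp [stabPt, Ex.eval, hs])
      (by simp [stabPt, Ex.eval]) (by simp [stabPt]) (by simp [stabPt]) e1 e3 rfl hbI
      (end_G_ne ha0 hd hu1.le 1 one_ne_zero) hd.ne' ?_
    rw [eEndTopS, eval_add', eval_sub'] at h1
    generalize (eEndP (eEndTop (.var 2 * .var 3) (.var 3)) (eEndG (.var 2 * .var 3) (.var 3)) 1
      (.var 2 * .var 3) (.var 3)).eval (stabPt u X s a) = P at h1 ⊢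
    simp only [eEndW, eU, AllLow.eS, eD, eB, eval_sub', eval_num',
      Ex.eval, stabPt] at h1
    norm_num [← hs] at h1
    have hw : 0 < 1 - u := by linarith
    have hg : 0 ≤ I * (1 - u) * (4000000 - 5900000 * u + 2000000 * (u * u)) * (1 - 20 * a) := by
      refine mul_nonneg (mul_nonneg (mul_pos hI0 hw).le ?_) (by linarith)
      have e : (4000000 : ℝ) - 5900000 * u + 2000000 * (u * u) =
          100000 + 1900000 * (1 - u) + 2000000 * (1 - u) ^ 2 := by ring
      rw [e]; positivity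
    have hn : I * (1 - u) * (4000000 - 5900000 * u + 2000000 * (u * u)) * (1 - 20 * a) *
        (X * (1 - 2 * I) * (1 - 2 * I - a - a) - 1) ≤ 0 :=
      mul_nonpos_of_nonneg_of_nonpos hg (by linarith)
    have : 0 < I * I * (1 - u) := mul_pos (mul_pos hI0 hI0) hw
    linarith
  rcases lt_or_ge s (1 / 2) with h2 | h2
  · have hX := hP.X_lt (1 / 20) (1 / 40) (31 / 25) ha5.le (by linarith)
      (by norm_num) (by norm_num) (by norm_num)
    exact hev (nonneg_of_checkFour end_TopS_0 (end_point (by push_cast; linarith)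
      (by push_cast; linarith) (by push_cast; linarith) (by push_cast; linarith)
      (by push_cast; linarith) (by push_cast; linarith) (by push_cast; linarith)
      (by push_cast; linarith)))
  · have hX := hP.X_lt (1 / 20) (1 / 20) (7 / 5) ha5.le hI20 (by norm_num) le_rfl (by norm_num)
    exact hev (nonneg_of_checkFour end_TopS_1 (end_point (by push_cast; linarith)
      (by push_cast; linarith) (by push_cast; linarith) (by push_cast; linarith)
      (by push_cast; linarith) (by push_cast; linarith) (by push_cast; linarith)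
      (by push_cast; linarith)))

/-- The condition at the lower end. -/
theorem end_bot_sign {a b I u X : ℝ} (hP : BandPlace a (1 / 2) I X) (hbI : b = 1 - 2 * I - a)
    (hu0 : 907 / 1000 ≤ u) (hu1 : u < 1) :
    endT a b I u X (((b - a) * 25 * allStabN (allStabLC I a) I a b u (2 * I * (24 / 25))) /
      (((25 : ℤ) : ℝ) * (100 * ((b - a) * (b - u * a))))) < 0 := by
  obtain ⟨hI0, hI20, hIa, ha, -, -, hXlo, -⟩ := id hP
  have ha0 : 0 < a := by linarith
  have hd : 0 < b - a := by linarith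
  have hw : 0 < I * I * (1 - u) := mul_pos (mul_pos hI0 hI0) (by linarith)
  rcases lt_or_ge a (1 / 20) with h5 | h5
  · obtain ⟨s, hs⟩ : ∃ s, I = s * a := ⟨I / a, (div_mul_cancel₀ I ha0.ne').symm⟩
    have hs0 : 0 < s := pos_of_mul_pos_left (hs ▸ hI0) ha0.le
    have hs1 : s ≤ 1 := le_of_mul_le_mul_right (by rw [one_mul, ← hs]; exact hIa) ha0
    have hX := hP.X_lt (1 / 20) (1 / 20) (7 / 5) h5.le hI20 (by norm_num) le_rfl (by norm_num)
    have h1 := nonneg_of_checkFour end_BotS_0 (end_point (u := u) (X := X) (I := s) (a := a)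
      (by push_cast; linarith) (by push_cast; linarith) (by push_cast; linarith)
      (by push_cast; linarith) (by push_cast; linarith) (by push_cast; linarith)
      (by push_cast; linarith) (by push_cast; linarith))
    obtain ⟨-, e2, -, e4⟩ := eval_end_ends (b := b) (u := u) (x := stabPt u X s a) (.var 2 * .var 3)
      (.var 3) (I := I) (by simp [stabPt, Ex.eval, hs]) (by simp [stabPt, Ex.eval])
      (by simp [stabPt]) hbI
    refine end_neg _ _ (.var 2 * .var 3) (.var 3) (by simp [stabPt, Ex.eval, hs])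
      (by simp [stabPt, Ex.eval]) (by simp [stabPt]) (by simp [stabPt]) e2 e4 rfl hbI
      (end_G_ne ha0 hd hu1.le 25 (by norm_num)) hd.ne' ?_
    rw [eEndBotS, eval_sub'] at h1
    generalize (eEndP (eEndBot (.var 2 * .var 3) (.var 3))
      (eN 25 * eEndG (.var 2 * .var 3) (.var 3)) 25 (.var 2 * .var 3) (.var 3)).eval
        (stabPt u X s a) = P at h1 ⊢
    simp only [eEndW, eU, eval_sub', eval_num', Ex.eval, stabPt] at h1
    norm_num [← hs] at h1
    linarith
  · have hX := hP.X_lt (31 / 100) (1 / 20) 4 ha hI20 le_rfl le_rfl (by norm_num)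
    have h1 := nonneg_of_checkFour end_BotI_0 (end_point (u := u) (X := X) (I := I) (a := a)
      (by push_cast; linarith) (by push_cast; linarith) (by push_cast; linarith)
      (by push_cast; linarith) (by push_cast; linarith) (by push_cast; linarith)
      (by push_cast; linarith) (by push_cast; linarith))
    obtain ⟨-, e2, -, e4⟩ := eval_end_ends (b := b) (u := u) (x := stabPt u X I a) (.var 2) (.var 3)
      (by simp [stabPt, Ex.eval]) (by simp [stabPt, Ex.eval]) (by simp [stabPt]) hbI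
    refine end_neg (u := u) (X := X) _ _ (.var 2) (.var 3) (by simp [stabPt, Ex.eval]) (by simp [stabPt, Ex.eval])
      (by simp [stabPt]) (by simp [stabPt]) e2 e4 rfl hbI
      (end_G_ne ha0 hd hu1.le 25 (by norm_num)) hd.ne' ?_
    rw [eEndBotI, eval_sub'] at h1
    generalize (eEndP (eEndBot (.var 2) (.var 3)) (eN 25 * eEndG (.var 2) (.var 3)) 25
      (.var 2) (.var 3)).eval (stabPt u X I a) = P at h1 ⊢
    simp only [eEndW, eU, eval_sub', eval_num', Ex.eval, stabPt] at h1
    norm_num at h1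
    linarith

/-- The sign of the exit condition. -/
theorem end_low_sign {a b I u X H : ℝ} (hP : BandPlace a (1 / 2) I X) (hbI : b = 1 - 2 * I - a)
    (hu0 : 907 / 1000 ≤ u) (hu1 : u < 1) (hav : a * (2 * I * X) ≤ 1)
    (hfl : 0 ≤ allFlow a b u (2 * I * X) H) (hH : allStabLG a b u (2 * I * X) < H)
    (hF : allEndLow a b u H ≤ 0) :
    allDot a b u (2 * I * X) H (allEndLowU a b u H) 0 (b - u * a) < 0 := by
  obtain ⟨hI0, hI20, hIa, ha, -, -, hXlo, -⟩ := id hP
  have ha0 : 0 < a := by linarith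
  have hd : 0 < b - a := by linarith
  have hw : 0 < b - u * a := by linarith [mul_le_mul_of_nonneg_right hu1.le ha0.le]
  have eI' : allStabI a b = I := by rw [allStabI, hbI]; ring
  have hA : ((b - a) * 25 * allStabN (allStabLC I a) I a b u (2 * I * (24 / 25))) /
      (((25 : ℤ) : ℝ) * (100 * ((b - a) * (b - u * a)))) < H := by
    refine lt_of_le_of_lt ?_ hH
    have hK : 0 ≤ allStabK a b u := by
      have h3 : u * (33 - 23 * u) ≤ 12 := by nlinarith [sq_nonneg (u - 33 / 46)]
      have h4 := mul_le_mul_of_nonneg_left h3 ha0.le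
      simp only [allStabK]
      linarith
    have hN : allStabN (allStabLC I a) I a b u (2 * I * (24 / 25)) ≤
        allStabN (allStabLC I a) I a b u (2 * I * X) := by
      simp only [allStabN]
      linarith [mul_le_mul_of_nonneg_left (mul_le_mul_of_nonneg_left hXlo
        (mul_pos two_pos hI0).le) hK]
    simp only [allStabLG, allStabG, eI', (allPole_eq (a := a) (b := b) hu1.le).1]
    rw [show ((b - a) * 25 * allStabN (allStabLC I a) I a b u (2 * I * (24 / 25))) /
        (((25 : ℤ) : ℝ) * (100 * ((b - a) * (b - u * a)))) =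
        allStabN (allStabLC I a) I a b u (2 * I * (24 / 25)) / (100 * (b - u * a)) by
      push_cast; field_simp]
    exact div_le_div_of_nonneg_right hN (by positivity)
  have hB : H ≤ (100 * (b - a) - I * (1 - u) * allEndC I a (1 - u)) /
      (((1 : ℤ) : ℝ) * (100 * ((b - a) * (b - u * a)))) := by
    rw [le_div_iff₀ (by push_cast; positivity)]
    simp only [allEndLow, eI'] at hF
    have := mul_le_mul_of_nonneg_left hF (mul_pos (by norm_num : (0 : ℝ) < 100) hd).le
    rw [mul_add, ← mul_assoc (100 * (b - a)) (I / (100 * (b - a))),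
      mul_div_cancel₀ I (mul_pos (by norm_num : (0 : ℝ) < 100) hd).ne', mul_zero] at this
    push_cast
    linarith
  have tB := (lt_or_ge a (1 / 20)).elim (end_top_small hP hbI hu0 hu1)
    (end_top_sign hP hbI hu0 hu1)
  have ht := endT_convex ha0.le hd.le (by linarith) (by positivity) hav (by linarith) hu1.le hA hB
    (end_bot_sign hP hbI hu0 hu1) tB
  simp only [endT] at ht
  have hw1 : 0 ≤ 1 - u := by linarith
  have hm : 0 ≤ allEndMu I a X (1 - u) / 100 * (1 - u) * allFlow a b u (2 * I * X) H := by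
    refine mul_nonneg (mul_nonneg ?_ hw1) hfl
    simp only [allEndMu]
    positivity
  linarith

theorem end_coeff_bounds {I a w : ℝ} (hI0 : 0 ≤ I) (hI20 : I ≤ 1 / 20) (ha0 : 0 ≤ a)
    (ha : a ≤ 31 / 100) (hw0 : 0 ≤ w) (hw1 : w ≤ 1) :
    -2100 ≤ allEndC I a w ∧ (w ≤ 1 / 20 → 0 ≤ allEndC I a w) := by
  have h1 : allEndC1 I a ≤ allEndC1 (1 / 20) (31 / 100) := by
    simp only [allEndC1]
    gcongr
  have h2 : allEndC1 (1 / 20) (31 / 100) ≤ 2100 := by norm_num [allEndC1]
  have h0 : 0 ≤ allEndC1 I a := by simp only [allEndC1]; positivity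
  have h3 : 0 ≤ 230 * a + 1600 * a ^ 3 + I * (520 + 700 * a + 33000 * a ^ 3 + 50000 * a ^ 4) +
      150000000 * (I * a ^ 6) * w ^ 2 := by positivity
  simp only [allEndC]
  refine ⟨?_, fun hw => ?_⟩
  · linarith [mul_le_mul (h1.trans h2) hw1 hw0 (by norm_num : (0 : ℝ) ≤ 2100)]
  · linarith [mul_le_mul (h1.trans h2) hw hw0 (by norm_num : (0 : ℝ) ≤ 2100)]

end AllLow

variable {N p q : ℝ} {S : Set ℝ} {R x y s dx dy : ℝ → ℝ}

/-- **The lower band at the end of the tail** for real `N ≥ 20` and `1/(p+1) ≤ 31/100`. -/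
theorem orbit_end_low_all (hf : IsOrbitFns N p q S R x y s dx dy)
    (hb : SlabBoxAll N (1 / (p + 1)) (1 / (q + 1))) (h20 : 20 ≤ N) (ha : 1 / (p + 1) ≤ 31 / 100)
    {w : ℝ} (hw : w ∈ S) (hw0 : 0 < R w) (hwu : 91 / 100 ≤ uOf N (R w) (x w)) :
    0 ≤ allEndLow (1 / (p + 1)) (1 / (q + 1)) (uOf N (R w) (x w))
      (hOf N (R w) (x w) (y w) w / (1 / (q + 1) - 1 / (p + 1))) := by
  have facts : ∀ u v H, AllPoint N (1 / (p + 1)) (1 / (q + 1)) u v H →
      ∃ I X, v = 2 * I * X ∧ 1 / (q + 1) = 1 - 2 * I - 1 / (p + 1) ∧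
        allStabI (1 / (p + 1)) (1 / (q + 1)) = I ∧
        AllLow.BandPlace (1 / (p + 1)) (1 / 2) I X := fun u v H hP => by
    obtain ⟨I, X, h1, hbI, hB⟩ :=
      AllLow.bandPlace_of (u := 1 / 2) hb h20 ha (by norm_num) (by norm_num) hP.toVRange
    exact ⟨I, X, h1, hbI, by rw [allStabI, hbI]; ring, hB⟩
  obtain ⟨ha0, hb0, hd, -⟩ := hb.facts
  refine exit_end_all hf hb (u₀ := 91 / 100) (η := 3 / 1000) (M := 5) (by norm_num) (by norm_num)
    (hasGrad_allEndLow _ _)
    (fun u v H => allStabLG (1 / (p + 1)) (1 / (q + 1)) u v < H)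
    (fun z hz hz0 => orbit_stab_low_all hf hb h20 ha hz hz0)
    (fun u v H hP _ _ => ?_) (fun ε hε => ?_) (fun u v H hP _ hu hE hF => ?_) hw hw0 hwu
  · obtain ⟨I, X, -, hbI, eI', hB⟩ := facts u v H hP
    obtain ⟨hI0, hI20, -, -, -, -, -, -⟩ := hB
    have hu := hP.u_pos
    have hu1 := hP.u_lt
    have hc := (AllLow.end_coeff_bounds (w := 1 - u) hI0.le hI20 ha0.le ha (by linarith)
      (by linarith)).1
    have hW : 0 < 1 / (q + 1) - u * (1 / (p + 1)) := by
      linarith [mul_le_mul_of_nonneg_right hu1.le ha0.le]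
    have h4 : -2100 ≤ (1 - u) * allEndC I (1 / (p + 1)) (1 - u) := by
      linarith [mul_le_mul_of_nonneg_left hc (show (0 : ℝ) ≤ 1 - u by linarith)]
    have h5 : I / (100 * (1 / (q + 1) - 1 / (p + 1))) ≤ 1 / 560 := by
      rw [div_le_iff₀ (by positivity)]; linarith
    have h6 := mul_le_mul_of_nonneg_left h4
      (show 0 ≤ I / (100 * (1 / (q + 1) - 1 / (p + 1))) by positivity)
    simp only [allEndLow, eI']
    linarith [mul_pos hP.H_pos hW]
  · refine ⟨min ε (1 / 20), lt_min hε (by norm_num), fun u v H hP _ hu hh => ?_⟩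
    obtain ⟨I, X, -, hbI, eI', hB⟩ := facts u v H hP
    obtain ⟨hI0, hI20, -, -, -, -, -, -⟩ := hB
    have h0 := hP.u_pos
    have h1 := hP.u_lt
    have hc := (AllLow.end_coeff_bounds (w := 1 - u) hI0.le hI20 ha0.le ha (by linarith)
      (by linarith)).2 (by linarith [min_le_right ε (1 / 20)])
    have h7 : (1 / (q + 1) - 1 / (p + 1)) * H ≤ H * (1 / (q + 1) - u * (1 / (p + 1))) := by
      linarith [mul_le_mul_of_nonneg_left (mul_le_mul_of_nonneg_right h1.le ha0.le) hP.H_pos.le]
    have h8 : u * ((1 / (q + 1) - 1 / (p + 1)) * H) ≤ (1 / (q + 1) - 1 / (p + 1)) * H :=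
      mul_le_of_le_one_left (mul_pos hd hP.H_pos).le h1.le
    have h9 : 0 ≤ I / (100 * (1 / (q + 1) - 1 / (p + 1))) *
        ((1 - u) * allEndC I (1 / (p + 1)) (1 - u)) :=
      mul_nonneg (by positivity) (mul_nonneg (by linarith) hc)
    simp only [allEndLow, eI']
    linarith [min_le_left ε (1 / 20)]
  · obtain ⟨I, X, rfl, hbI, eI', hB⟩ := facts u v H hP
    exact AllLow.end_low_sign hB hbI (by linarith) hP.u_lt hP.av.le hP.flow_pos.le hE hF

end Vale.Agent.P100.Calib.Band
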