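import Vale.Agent.P100.Calib.SlabAllEndForms
import Vale.Agent.P100.Calib.SlabChartAll

/-!
# The chart near `u = 1` as fractions

Coordinates: `a`, `I = 1/N` (or `I / a` on the first piece), `w = 1 - u`, the scaled `τ`, and `θ` for
`ξ`, where `v = 2 I (1 - w τ)/(S d)` and `H (d + a w) = 1 - w I ξ / d`.
-/

set_option linter.unusedVariables false

namespace Vale.Agent.P100.Calib.EndAll

open Pack

local instance endAdd : Add Pack.Ex := ⟨Ex.add⟩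
local instance endSub : Sub Pack.Ex := ⟨Ex.sub⟩
local instance endMul : Mul Pack.Ex := ⟨Ex.mul⟩

/-- A piece: whether `I = a t`, the factor `cQ/cD` of `τ`, the range `[xL/xD, xU/xD]` of `ξ`. -/
structure Par where
  low : Bool
  cQ : Ex
  cD : ℕ
  xL : ℕ
  xU : ℕ
  xD : ℕ

namespace Par

variable (P : Par)

def A : Ex := .var 0
def I : Ex := cond P.low (.var 0 * .var 1) (.var 1)
def W : Ex := .var 2
def S : Ex := .num 1 - .num 2 * P.I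
def B : Ex := P.S - A
def D : Ex := P.B - A
def U : Ex := .num 1 - W
def E : Ex := P.D + A * W
def WT : Ex := P.cQ * (W * ((A + .num 2 * P.I) * .var 3))
def Q : Ex := .num P.cD - .num 2 * P.I * P.WT
def EnL : Ex := A * .num P.xD + P.I * .num P.xL
def EnU : Ex := A * .num P.xD + P.I * .num P.xU
def Dg (En : Ex) : Ex :=
  .num P.xD * P.Q * P.E + .num P.cD * (P.S * W * (.num P.xD * P.E + U * En))

/-- The atoms. -/
def atoms : List (List Ex) :=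
  [[A], [.var 1], [P.S], [P.B], [P.D], [U], [P.E], [P.Q], [P.Dg P.EnL, P.Dg P.EnU]]

end Par

/-- The value of `I`. -/
def iVal (P : Par) (x : ℕ → ℝ) : ℝ := cond P.low (x 0 * x 1) (x 1)

/-- The value of `τ`. -/
noncomputable def tauVal (P : Par) (x : ℕ → ℝ) : ℝ :=
  P.cQ.eval x / P.cD * ((x 0 + 2 * iVal P x) * x 3)

/-- The value of `ξ`. -/
noncomputable def xiVal (P : Par) (θ : ℝ) : ℝ := ((P.xL : ℝ) * (1 - θ) + P.xU * θ) / P.xD

/-- A point of a piece. -/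
structure Pt (P : Par) (x : ℕ → ℝ) (θ : ℝ) : Prop where
  a_pos : 0 < x 0
  t_pos : 0 < x 1
  S_pos : 0 < 1 - 2 * iVal P x
  d_pos : 0 < 1 - 2 * iVal P x - 2 * x 0
  w_pos : 0 < x 2
  w_lt : x 2 < 1
  q_pos : 0 < 1 - 2 * iVal P x * x 2 * tauVal P x
  cD_pos : 0 < P.cD
  xD_pos : 0 < P.xD
  th_low : 0 ≤ θ
  th_high : θ ≤ 1

/-! ### Real values in `(a, I, w, τ, ξ)` -/

noncomputable def pB (a I : ℝ) : ℝ := 1 - 2 * I - a
noncomputable def pD (a I : ℝ) : ℝ := 1 - 2 * I - 2 * a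
noncomputable def pE (a I w : ℝ) : ℝ := pD a I + a * w
noncomputable def pEta (a I w ξ : ℝ) : ℝ := (a + I * ξ) / pE a I w
noncomputable def pQ (I w τ : ℝ) : ℝ := 1 - 2 * I * w * τ
noncomputable def pDn (a I w τ ξ : ℝ) : ℝ :=
  pQ I w τ * pE a I w + (1 - 2 * I) * w * (pE a I w + (1 - w) * (a + I * ξ))
noncomputable def pH0 (a I w ξ : ℝ) : ℝ := w * (1 + pEta a I w ξ - w * pEta a I w ξ)
noncomputable def pG (a I w τ ξ : ℝ) : ℝ :=
  2 * (((pQ I w τ + (1 - 2 * I)) * pB a I) - (1 - 2 * I) * (1 - w) * pQ I w τ) * pE a I w / I /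
    pB a I / pDn a I w τ ξ
noncomputable def pV (a I w τ : ℝ) : ℝ := 2 * I * (1 - w * τ) / (1 - 2 * I) / pD a I
noncomputable def pDV (I w τ : ℝ) : ℝ := 2 * I * (1 - w * τ) / (1 - 2 * I)
noncomputable def pH (a I w ξ : ℝ) : ℝ := (1 - w * pEta a I w ξ) / pD a I
noncomputable def pW (a I w ξ : ℝ) : ℝ := 2 * I * pH a I w ξ / (1 - 2 * I)
noncomputable def pW1 (a I w τ ξ : ℝ) : ℝ :=
  2 * I * ((1 - w) * pH a I w ξ * (a - (1 - a) * pDV I w τ) -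
      (1 + 2 * I) * (pB a I * pH a I w ξ) / (1 - 2 * I) + (1 + (1 - a) * pV a I w τ)) /
    (1 - 2 * I) / pB a I / (1 - w)
noncomputable def pR (I w : ℝ) : ℝ := (1 - w) * (1 - 2 * I) / 2 / I
noncomputable def pG1 (a I w τ ξ : ℝ) : ℝ :=
  -(3 / 10) * a * (pH0 a I w ξ * (1 - 2 * I) / pQ I w τ) / pB a I / pD a I / pD a I

/-- The numbers of the family in these coordinates. -/
noncomputable def pNum (a I w τ ξ : ℝ) : ClosedGen.Num :=
  ⟨a * pB a I, -(1 - 2 * a - I / 2) * I,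
    (-2 * (1 - 3 * I - 2 * a * a) * I * (1 + pDV I w τ) + -(5 / 2) * pH0 a I w ξ) / pD a I,
    -(5 / 2) * pH0 a I w ξ,
    pG1 a I w τ ξ - a * (1 - 3 * a - I) * I / pD a I / pD a I,
    pG1 a I w τ ξ,
    (1 - 2 * a * (1 - I) / (1 - 2 * I) / (1 - 2 * I)) / pD a I / pD a I⟩

/-! ### Their fractions -/

namespace Par

variable (P : Par)

def fadd (F G : Fn) : Fn := Fn.add P.atoms F G
def fsub (F G : Fn) : Fn := Fn.sub P.atoms F G
def fa : Fn := Fn.inv 0 (-1)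
def fI : Fn := cond P.low (Fn.mul (Fn.inv 0 (-1)) (Fn.inv 1 (-1))) (Fn.inv 1 (-1))
def fiI : Fn := cond P.low (Fn.mul (Fn.inv 0 1) (Fn.inv 1 1)) (Fn.inv 1 1)
def fS : Fn := Fn.inv 2 (-1)
def fiS : Fn := Fn.inv 2 1
def fb : Fn := Fn.inv 3 (-1)
def fib : Fn := Fn.inv 3 1
def fd : Fn := Fn.inv 4 (-1)
def fid : Fn := Fn.inv 4 1
def fu : Fn := Fn.inv 5 (-1)
def fiu : Fn := Fn.inv 5 1
def fE : Fn := Fn.inv 6 (-1)
def fiE : Fn := Fn.inv 6 1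
def fiq : Fn := Fn.mul (Fn.int P.cD) (Fn.inv 7 1)
def fiDg : Fn := Fn.mul (Fn.int ((P.cD * P.xD : ℕ) : ℤ)) (Fn.inv 8 1)
def pq : Fn := Fn.divNat (Fn.poly [P.Q]) P.cD
def pwt : Fn := Fn.divNat (Fn.poly [P.WT]) P.cD
def fw : Fn := Fn.poly [W]
def feta : Fn := Fn.mul (Fn.divNat (Fn.poly [P.EnL, P.EnU]) P.xD) fiE
def fh0 : Fn := Fn.mul fw (P.fsub (P.fadd (Fn.int 1) P.feta) (Fn.mul fw P.feta))
def fg : Fn :=
  Fn.mul (Fn.mul (Fn.mul (Fn.mul (Fn.mul (Fn.int 2)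
    (P.fsub (Fn.mul (P.fadd P.pq (Fn.poly [P.S])) (Fn.poly [P.B]))
      (Fn.mul (Fn.mul (Fn.poly [P.S]) (Fn.poly [U])) P.pq))) fE) P.fiI) fib) P.fiDg
def fdv : Fn := Fn.mul (Fn.mul (Fn.mul (Fn.int 2) P.fI) (P.fsub (Fn.int 1) P.pwt)) fiS
def fv : Fn := Fn.mul P.fdv fid
def fH : Fn := Fn.mul (P.fsub (Fn.int 1) (Fn.mul fw P.feta)) fid
def fW : Fn := Fn.mul (Fn.mul (Fn.mul (Fn.int 2) P.fI) P.fH) fiS
def fW1 : Fn :=
  Fn.mul (Fn.mul (Fn.mul (Fn.mul (Fn.mul (Fn.int 2) P.fI)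
    (P.fadd (P.fsub (Fn.mul (Fn.mul fu P.fH)
        (P.fsub fa (Fn.mul (P.fsub (Fn.int 1) fa) P.fdv)))
      (Fn.mul (Fn.mul (P.fadd (Fn.int 1) (Fn.mul (Fn.int 2) P.fI)) (Fn.mul fb P.fH)) fiS))
      (P.fadd (Fn.int 1) (Fn.mul (P.fsub (Fn.int 1) fa) P.fv)))) fiS) fib) fiu
def fR : Fn := Fn.mul (Fn.divNat (Fn.mul fu fS) 2) P.fiI
def fK : Fn := Fn.mul (Fn.neg (Fn.divNat (Fn.int 5) 2)) P.fh0
def fEm : Fn :=
  Fn.mul (P.fadd (Fn.mul (Fn.mul (Fn.mul (Fn.neg (Fn.int 2))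
    (P.fsub (P.fsub (Fn.int 1) (Fn.mul (Fn.int 3) P.fI)) (Fn.mul (Fn.mul (Fn.int 2) fa) fa)))
    P.fI) (P.fadd (Fn.int 1) P.fdv)) P.fK) fid
def fG1 : Fn :=
  Fn.mul (Fn.mul (Fn.mul (Fn.mul (Fn.mul (Fn.neg (Fn.divNat (Fn.int 3) 10)) fa)
    (Fn.mul (Fn.mul P.fh0 fS) P.fiq)) fib) fid) fid
def fc : Fn := Fn.mul fa fb
def fe2 : Fn :=
  Fn.mul (Fn.neg (P.fsub (P.fsub (Fn.int 1) (Fn.mul (Fn.int 2) fa)) (Fn.divNat P.fI 2))) P.fI
def fG : Fn :=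
  P.fsub P.fG1 (Fn.mul (Fn.mul (Fn.mul (Fn.mul fa
    (P.fsub (P.fsub (Fn.int 1) (Fn.mul (Fn.int 3) fa)) P.fI)) P.fI) fid) fid)
def fD : Fn :=
  Fn.mul (Fn.mul (P.fsub (Fn.int 1) (Fn.mul (Fn.mul (Fn.mul (Fn.mul (Fn.int 2) fa)
    (P.fsub (Fn.int 1) P.fI)) fiS) fiS)) fid) fid

/-- The fraction of `gMS`. -/
def fgMS : Fn := eG_gMS P.atoms Par.fa Par.fd P.fv P.fg P.fW P.fW1 P.fR Par.fc P.fe2 P.fEm P.fK P.fG P.fG1 P.fD
/-- The fraction of `gES`. -/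
def fgES : Fn := eG_gES P.atoms Par.fa Par.fd P.fv P.fg P.fW P.fW1 P.fR Par.fc P.fe2 P.fEm P.fK P.fG P.fG1 P.fD
/-- The fraction of `gGS`. -/
def fgGS : Fn := eG_gGS P.atoms Par.fa Par.fd P.fv P.fg P.fW P.fW1 P.fR Par.fc P.fe2 P.fEm P.fK P.fG P.fG1 P.fD
/-- The fraction of `hES`. -/
def fhES : Fn := eG_hES P.atoms Par.fa Par.fd P.fv P.fg P.fW P.fW1 P.fR Par.fc P.fe2 P.fEm P.fK P.fG P.fG1 P.fD
/-- The fraction of `hGS`. -/
def fhGS : Fn := eG_hGS P.atoms Par.fa Par.fd P.fv P.fg P.fW P.fW1 P.fR Par.fc P.fe2 P.fEm P.fK P.fG P.fG1 P.fD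
/-- The fraction of `LEGS`. -/
def fLEGS : Fn := eG_LEGS P.atoms Par.fa Par.fd P.fv P.fg P.fW P.fW1 P.fR Par.fc P.fe2 P.fEm P.fK P.fG P.fG1 P.fD
/-- The fraction of `LGGS`. -/
def fLGGS : Fn := eG_LGGS P.atoms Par.fa Par.fd P.fv P.fg P.fW P.fW1 P.fR Par.fc P.fe2 P.fEm P.fK P.fG P.fG1 P.fD
/-- The fraction of `LLGS`. -/
def fLLGS : Fn := eG_LLGS P.atoms Par.fa Par.fd P.fv P.fg P.fW P.fW1 P.fR Par.fc P.fe2 P.fEm P.fK P.fG P.fG1 P.fD
/-- The fraction of `TMMS`. -/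
def fTMMS : Fn := eG_TMMS P.atoms Par.fa Par.fd P.fv P.fg P.fW P.fW1 P.fR Par.fc P.fe2 P.fEm P.fK P.fG P.fG1 P.fD
/-- The fraction of `TMES`. -/
def fTMES : Fn := eG_TMES P.atoms Par.fa Par.fd P.fv P.fg P.fW P.fW1 P.fR Par.fc P.fe2 P.fEm P.fK P.fG P.fG1 P.fD
/-- The fraction of `LEESLin`. -/
def fLEESLin (om : Fn) : Fn :=
  eG_LEESLin P.atoms Par.fa Par.fd P.fv P.fg P.fW P.fW1 P.fR Par.fc P.fe2 P.fEm P.fK P.fG P.fG1 P.fD om
/-- The fraction of `LMGSLin`. -/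
def fLMGSLin (om : Fn) : Fn :=
  eG_LMGSLin P.atoms Par.fa Par.fd P.fv P.fg P.fW P.fW1 P.fR Par.fc P.fe2 P.fEm P.fK P.fG P.fG1 P.fD om
/-- The fraction of `hM_c`. -/
def fhM : Fn := eG_hM_c P.atoms Par.fa Par.fd P.fv P.fg P.fW

end Par

/-- A closed form in these coordinates. -/
noncomputable def pForm (f : ℝ → ℝ → ℝ → ℝ → ℝ → ℝ → ℝ → ClosedGen.Num → ℝ) (a I w τ ξ : ℝ) : ℝ :=
  f a (pD a I) (pV a I w τ) (pG a I w τ ξ) (pW a I w ξ) (pW1 a I w τ ξ) (pR I w) (pNum a I w τ ξ)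

theorem Rep.cast {A : List (List Ex)} {x : ℕ → ℝ} {θ : ℝ} {F : Fn} {r s : ℝ}
    (h : Rep A x θ F r) (e : r = s) : Rep A x θ F s := e ▸ h

variable {P : Par} {x : ℕ → ℝ} {θ : ℝ}

theorem eval_add (e f : Ex) : (e + f).eval x = e.eval x + f.eval x := rfl
theorem eval_sub (e f : Ex) : (e - f).eval x = e.eval x - f.eval x := rfl
theorem eval_mul (e f : Ex) : (e * f).eval x = e.eval x * f.eval x := rfl
theorem eval_num (k : ℤ) : (Ex.num k).eval x = (k : ℝ) := rfl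
theorem eval_var (i : ℕ) : (Ex.var i).eval x = x i := rfl

theorem eval_I (P : Par) (x : ℕ → ℝ) : P.I.eval x = iVal P x := by
  rcases P with ⟨_ | _, cQ, cD, xL, xU, xD⟩ <;> rfl

namespace Pt

variable (h : Pt P x θ)
include h

theorem I_pos : 0 < iVal P x := by
  rcases P with ⟨_ | _, cQ, cD, xL, xU, xD⟩
  · exact h.t_pos
  · exact mul_pos h.a_pos h.t_pos

theorem E_pos : 0 < pE (x 0) (iVal P x) (x 2) :=
  add_pos h.d_pos (mul_pos h.a_pos h.w_pos)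

theorem b_pos : 0 < pB (x 0) (iVal P x) := by
  have := h.d_pos; have := h.a_pos; unfold pB; linarith

theorem xi_nonneg : 0 ≤ xiVal P θ := by
  have := h.th_low; have : 0 ≤ 1 - θ := by linarith [h.th_high]
  unfold xiVal; positivity

theorem Dn_pos : 0 < pDn (x 0) (iVal P x) (x 2) (tauVal P x) (xiVal P θ) := by
  have := h.I_pos; have := h.E_pos; have := h.q_pos; have := h.a_pos; have := h.xi_nonneg
  have := h.S_pos; have := h.w_pos; have : 0 < 1 - x 2 := by linarith [h.w_lt]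
  unfold pDn pQ; positivity

theorem bv_Q : bv x θ [P.Q] = P.cD * pQ (iVal P x) (x 2) (tauVal P x) := by
  have : (P.cD : ℝ) ≠ 0 := Nat.cast_ne_zero.2 h.cD_pos.ne'
  simp only [bv, Par.Q, Par.WT, Par.A, Par.W, pQ, tauVal, eval_add, eval_sub, eval_mul, eval_num,
    eval_var, eval_I, List.length_nil, Int.cast_natCast]
  push_cast
  field_simp
  ring

theorem bv_A : bv x θ [Par.A] = x 0 := by simp [bv, Par.A, eval_var]

theorem bv_S : bv x θ [P.S] = 1 - 2 * iVal P x := by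
  simp [bv, Par.S, eval_sub, eval_mul, eval_num, eval_I]

theorem bv_B : bv x θ [P.B] = pB (x 0) (iVal P x) := by
  simp [bv, Par.B, Par.S, Par.A, pB, eval_sub, eval_mul, eval_num, eval_var, eval_I]

theorem bv_D : bv x θ [P.D] = pD (x 0) (iVal P x) := by
  simp [bv, Par.D, Par.B, Par.S, Par.A, pD, eval_sub, eval_mul, eval_num, eval_var, eval_I]
  ring

theorem bv_U : bv x θ [Par.U] = 1 - x 2 := by
  simp [bv, Par.U, Par.W, eval_sub, eval_num, eval_var]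

theorem bv_E : bv x θ [P.E] = pE (x 0) (iVal P x) (x 2) := by
  simp [bv, Par.E, Par.D, Par.B, Par.S, Par.A, Par.W, pE, pD, eval_add, eval_sub, eval_mul,
    eval_num, eval_var, eval_I]
  ring

theorem bv_En : bv x θ [P.EnL, P.EnU] = P.xD * (x 0 + iVal P x * xiVal P θ) := by
  have : (P.xD : ℝ) ≠ 0 := Nat.cast_ne_zero.2 h.xD_pos.ne'
  simp only [bv, Par.EnL, Par.EnU, Par.A, xiVal, eval_add, eval_mul, eval_num, eval_var, eval_I,
    List.length_nil, List.length_cons, Int.cast_natCast]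
  field_simp
  ring

theorem bv_Dg : bv x θ [P.Dg P.EnL, P.Dg P.EnU] = (P.cD * P.xD : ℕ) *
    pDn (x 0) (iVal P x) (x 2) (tauVal P x) (xiVal P θ) := by
  have e1 := h.bv_En
  have e2 := h.bv_Q
  have e3 := h.bv_E
  have e4 := h.bv_S
  have e5 := h.bv_U
  simp only [bv, List.length_nil, List.length_cons, pow_zero, mul_one, mul_zero, add_zero]
    at e1 e2 e3 e4 e5 ⊢
  simp only [Par.Dg, eval_add, eval_mul, eval_num, Int.cast_natCast, e2, e3, e4, e5,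
    show Par.W.eval x = x 2 from rfl, Nat.cast_mul]
  unfold pDn
  linear_combination (P.cD : ℝ) * (1 - 2 * iVal P x) * x 2 * (1 - x 2) * e1

theorem pos : AtomsPos P.atoms x θ := by
  intro l hl
  simp only [Par.atoms, List.mem_cons, List.not_mem_nil, or_false] at hl
  rcases hl with rfl | rfl | rfl | rfl | rfl | rfl | rfl | rfl | rfl
  · rw [h.bv_A]; exact h.a_pos
  · simpa [bv, eval_var] using h.t_pos
  · rw [h.bv_S]; exact h.S_pos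
  · rw [h.bv_B]; exact h.b_pos
  · rw [h.bv_D]; exact h.d_pos
  · rw [h.bv_U]; linarith [h.w_lt]
  · rw [h.bv_E]; exact h.E_pos
  · rw [h.bv_Q]; exact mul_pos (Nat.cast_pos.2 h.cD_pos) h.q_pos
  · rw [h.bv_Dg]; exact mul_pos (Nat.cast_pos.2 (Nat.mul_pos h.cD_pos h.xD_pos)) h.Dn_pos

theorem rinv (i : ℕ) {l : List Ex} {r : ℝ} (hl : P.atoms[i]? = some l) (e : bv x θ l = r) :
    Rep P.atoms x θ (Fn.inv i 1) r⁻¹ :=
  (Rep.inv h.pos i 1 hl).cast (by rw [e, zpow_one, one_div])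

theorem ratom (i : ℕ) {l : List Ex} {r : ℝ} (hl : P.atoms[i]? = some l) (e : bv x θ l = r) :
    Rep P.atoms x θ (Fn.inv i (-1)) r :=
  (Rep.inv h.pos i (-1) hl).cast (by rw [e, zpow_neg_one, one_div, inv_inv])

theorem ra : Rep P.atoms x θ Par.fa (x 0) := h.ratom 0 rfl h.bv_A

theorem rI : Rep P.atoms x θ P.fI (iVal P x) := by
  have ht := h.ratom 1 (r := x 1) rfl (by simp [bv, eval_var])
  rcases P with ⟨_ | _, cQ, cD, xL, xU, xD⟩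
  · exact ht
  · exact h.ra.mul ht

theorem riI : Rep P.atoms x θ P.fiI (iVal P x)⁻¹ := by
  have ht := h.rinv 1 (r := x 1) rfl (by simp [bv, eval_var])
  have ha := h.rinv 0 rfl h.bv_A
  rcases P with ⟨_ | _, cQ, cD, xL, xU, xD⟩
  · exact ht
  · exact (ha.mul ht).cast (by simp [iVal, mul_comm])

theorem riq : Rep P.atoms x θ P.fiq (pQ (iVal P x) (x 2) (tauVal P x))⁻¹ := by
  refine ((Rep.int h.pos (P.cD : ℤ)).mul (h.rinv 7 rfl h.bv_Q)).cast ?_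
  have : (P.cD : ℝ) ≠ 0 := Nat.cast_ne_zero.2 h.cD_pos.ne'
  rw [Int.cast_natCast, mul_inv, ← mul_assoc, mul_inv_cancel₀ this, one_mul]

theorem riDg : Rep P.atoms x θ P.fiDg
    (pDn (x 0) (iVal P x) (x 2) (tauVal P x) (xiVal P θ))⁻¹ := by
  refine ((Rep.int h.pos ((P.cD * P.xD : ℕ) : ℤ)).mul (h.rinv 8 rfl h.bv_Dg)).cast ?_
  have : ((P.cD * P.xD : ℕ) : ℝ) ≠ 0 := Nat.cast_ne_zero.2 (Nat.mul_pos h.cD_pos h.xD_pos).ne'
  rw [Int.cast_natCast, mul_inv, ← mul_assoc, mul_inv_cancel₀ this, one_mul]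

theorem rpq : Rep P.atoms x θ P.pq (pQ (iVal P x) (x 2) (tauVal P x)) := by
  refine ((Rep.poly h.pos [P.Q]).divNat h.cD_pos).cast ?_
  have : (P.cD : ℝ) ≠ 0 := Nat.cast_ne_zero.2 h.cD_pos.ne'
  rw [h.bv_Q, mul_div_cancel_left₀ _ this]

theorem rpwt : Rep P.atoms x θ P.pwt (x 2 * tauVal P x) := by
  refine ((Rep.poly h.pos [P.WT]).divNat h.cD_pos).cast ?_
  simp [bv, Par.WT, Par.A, Par.W, tauVal, eval_add, eval_mul, eval_num, eval_var, eval_I]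
  ring

theorem rw' : Rep P.atoms x θ Par.fw (x 2) :=
  (Rep.poly h.pos [Par.W]).cast (by simp [bv, Par.W, eval_var])

theorem rpS : Rep P.atoms x θ (Fn.poly [P.S]) (1 - 2 * iVal P x) :=
  (Rep.poly h.pos _).cast h.bv_S

theorem rpB : Rep P.atoms x θ (Fn.poly [P.B]) (pB (x 0) (iVal P x)) :=
  (Rep.poly h.pos _).cast h.bv_B

theorem rpU : Rep P.atoms x θ (Fn.poly [Par.U]) (1 - x 2) := (Rep.poly h.pos _).cast h.bv_U

theorem rpA : Rep P.atoms x θ (Fn.poly [Par.A]) (x 0) := (Rep.poly h.pos _).cast h.bv_A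

theorem rpI : Rep P.atoms x θ (Fn.poly [P.I]) (iVal P x) :=
  (Rep.poly h.pos _).cast (by simp [bv, eval_I])

theorem rS : Rep P.atoms x θ Par.fS (1 - 2 * iVal P x) := h.ratom 2 rfl h.bv_S
theorem riS : Rep P.atoms x θ Par.fiS (1 - 2 * iVal P x)⁻¹ := h.rinv 2 rfl h.bv_S
theorem rb : Rep P.atoms x θ Par.fb (pB (x 0) (iVal P x)) := h.ratom 3 rfl h.bv_B
theorem rib : Rep P.atoms x θ Par.fib (pB (x 0) (iVal P x))⁻¹ := h.rinv 3 rfl h.bv_B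
theorem rd : Rep P.atoms x θ Par.fd (pD (x 0) (iVal P x)) := h.ratom 4 rfl h.bv_D
theorem rid : Rep P.atoms x θ Par.fid (pD (x 0) (iVal P x))⁻¹ := h.rinv 4 rfl h.bv_D
theorem ru : Rep P.atoms x θ Par.fu (1 - x 2) := h.ratom 5 rfl h.bv_U
theorem riu : Rep P.atoms x θ Par.fiu (1 - x 2)⁻¹ := h.rinv 5 rfl h.bv_U
theorem rE : Rep P.atoms x θ Par.fE (pE (x 0) (iVal P x) (x 2)) := h.ratom 6 rfl h.bv_E

theorem reta : Rep P.atoms x θ P.feta (pEta (x 0) (iVal P x) (x 2) (xiVal P θ)) := by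
  refine (((Rep.poly h.pos [P.EnL, P.EnU]).divNat h.xD_pos).mul (h.rinv 6 rfl h.bv_E)).cast ?_
  have : (P.xD : ℝ) ≠ 0 := Nat.cast_ne_zero.2 h.xD_pos.ne'
  rw [h.bv_En, mul_div_cancel_left₀ _ this, pEta, div_eq_mul_inv]

theorem one' : Rep P.atoms x θ (Fn.int 1) (1 : ℝ) := Rep.lit_one h.pos
theorem two' : Rep P.atoms x θ (Fn.int 2) (2 : ℝ) := Rep.natLit h.pos 2
theorem three' : Rep P.atoms x θ (Fn.int 3) (3 : ℝ) := Rep.natLit h.pos 3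

theorem rh0 : Rep P.atoms x θ P.fh0 (pH0 (x 0) (iVal P x) (x 2) (xiVal P θ)) :=
  h.rw'.mul ((h.one'.add h.reta).sub (h.rw'.mul h.reta))

theorem rg : Rep P.atoms x θ P.fg
    (pG (x 0) (iVal P x) (x 2) (tauVal P x) (xiVal P θ)) :=
  (((((h.two'.mul (((h.rpq.add h.rpS).mul h.rpB).sub ((h.rpS.mul h.rpU).mul h.rpq))).mul
    h.rE).mul h.riI).mul h.rib).mul h.riDg).cast (by simp only [pG, div_eq_mul_inv])

theorem rdv : Rep P.atoms x θ P.fdv (pDV (iVal P x) (x 2) (tauVal P x)) :=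
  (((h.two'.mul h.rI).mul (h.one'.sub h.rpwt)).mul h.riS).cast
    (by simp only [pDV, div_eq_mul_inv])

theorem rv : Rep P.atoms x θ P.fv (pV (x 0) (iVal P x) (x 2) (tauVal P x)) :=
  (h.rdv.mul h.rid).cast (by simp only [pV, pDV, div_eq_mul_inv])

theorem rH : Rep P.atoms x θ P.fH (pH (x 0) (iVal P x) (x 2) (xiVal P θ)) :=
  ((h.one'.sub (h.rw'.mul h.reta)).mul h.rid).cast (by simp only [pH, div_eq_mul_inv])

theorem rW : Rep P.atoms x θ P.fW (pW (x 0) (iVal P x) (x 2) (xiVal P θ)) :=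
  (((h.two'.mul h.rI).mul h.rH).mul h.riS).cast (by simp only [pW, div_eq_mul_inv])

theorem rW1 : Rep P.atoms x θ P.fW1
    (pW1 (x 0) (iVal P x) (x 2) (tauVal P x) (xiVal P θ)) :=
  (((((h.two'.mul h.rI).mul
    ((((h.ru.mul h.rH).mul (h.ra.sub ((h.one'.sub h.ra).mul h.rdv))).sub
      (((h.one'.add (h.two'.mul h.rI)).mul (h.rb.mul h.rH)).mul h.riS)).add
      (h.one'.add ((h.one'.sub h.ra).mul h.rv)))).mul h.riS).mul h.rib).mul h.riu).cast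
    (by simp only [pW1, div_eq_mul_inv])

theorem rR : Rep P.atoms x θ P.fR (pR (iVal P x) (x 2)) :=
  (((h.ru.mul h.rS).divLit 2).mul h.riI).cast (by simp only [pR, div_eq_mul_inv])

theorem rhalf5 : Rep P.atoms x θ (Fn.neg (Fn.divNat (Fn.int 5) 2)) (-(5 / 2 : ℝ)) :=
  ((Rep.natLit h.pos 5).divLit 2).neg

theorem rK : Rep P.atoms x θ P.fK (-(5 / 2) * pH0 (x 0) (iVal P x) (x 2) (xiVal P θ)) :=
  h.rhalf5.mul h.rh0

theorem rEm : Rep P.atoms x θ P.fEm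
    (pNum (x 0) (iVal P x) (x 2) (tauVal P x) (xiVal P θ)).E :=
  (((((h.two'.neg.mul ((h.one'.sub (h.three'.mul h.rI)).sub ((h.two'.mul h.ra).mul h.ra))).mul
    h.rI).mul (h.one'.add h.rdv)).add h.rK).mul h.rid).cast
    (by simp only [pNum, div_eq_mul_inv])

theorem rG1 : Rep P.atoms x θ P.fG1
    (pG1 (x 0) (iVal P x) (x 2) (tauVal P x) (xiVal P θ)) :=
  ((((((Rep.natLit h.pos 3).divLit 10).neg.mul h.ra).mul
    ((h.rh0.mul h.rS).mul h.riq)).mul h.rib).mul h.rid |>.mul h.rid).cast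
    (by simp only [pG1, div_eq_mul_inv])

theorem rc : Rep P.atoms x θ Par.fc (x 0 * pB (x 0) (iVal P x)) := h.ra.mul h.rb

theorem re2 : Rep P.atoms x θ P.fe2
    (pNum (x 0) (iVal P x) (x 2) (tauVal P x) (xiVal P θ)).e2 :=
  ((h.one'.sub (h.two'.mul h.ra)).sub (h.rI.divLit 2)).neg.mul h.rI

theorem rG : Rep P.atoms x θ P.fG
    (pNum (x 0) (iVal P x) (x 2) (tauVal P x) (xiVal P θ)).G :=
  (h.rG1.sub (((((h.ra.mul ((h.one'.sub (h.three'.mul h.ra)).sub h.rI)).mul h.rI).mul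
    h.rid).mul h.rid))).cast (by simp only [pNum, div_eq_mul_inv])

theorem rD : Rep P.atoms x θ P.fD
    (pNum (x 0) (iVal P x) (x 2) (tauVal P x) (xiVal P θ)).D2 :=
  (((h.one'.sub ((((h.two'.mul h.ra).mul (h.one'.sub h.rI)).mul h.riS).mul h.riS)).mul
    h.rid).mul h.rid).cast (by simp only [pNum, div_eq_mul_inv])

theorem rgMS : Rep P.atoms x θ P.fgMS
    (pForm ClosedGen.gMS (x 0) (iVal P x) (x 2) (tauVal P x) (xiVal P θ)) :=
  rG_gMS h.pos h.ra h.rd h.rv h.rg h.rW h.rW1 h.rR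
    (tt := pNum (x 0) (iVal P x) (x 2) (tauVal P x) (xiVal P θ)) h.rc h.re2 h.rEm h.rK h.rG h.rG1
    h.rD

theorem rgES : Rep P.atoms x θ P.fgES
    (pForm ClosedGen.gES (x 0) (iVal P x) (x 2) (tauVal P x) (xiVal P θ)) :=
  rG_gES h.pos h.ra h.rd h.rv h.rg h.rW h.rW1 h.rR
    (tt := pNum (x 0) (iVal P x) (x 2) (tauVal P x) (xiVal P θ)) h.rc h.re2 h.rEm h.rK h.rG h.rG1
    h.rD

theorem rgGS : Rep P.atoms x θ P.fgGS
    (pForm ClosedGen.gGS (x 0) (iVal P x) (x 2) (tauVal P x) (xiVal P θ)) :=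
  rG_gGS h.pos h.ra h.rd h.rv h.rg h.rW h.rW1 h.rR
    (tt := pNum (x 0) (iVal P x) (x 2) (tauVal P x) (xiVal P θ)) h.rc h.re2 h.rEm h.rK h.rG h.rG1
    h.rD

theorem rhES : Rep P.atoms x θ P.fhES
    (pForm ClosedGen.hES (x 0) (iVal P x) (x 2) (tauVal P x) (xiVal P θ)) :=
  rG_hES h.pos h.ra h.rd h.rv h.rg h.rW h.rW1 h.rR
    (tt := pNum (x 0) (iVal P x) (x 2) (tauVal P x) (xiVal P θ)) h.rc h.re2 h.rEm h.rK h.rG h.rG1
    h.rD

theorem rhGS : Rep P.atoms x θ P.fhGS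
    (pForm ClosedGen.hGS (x 0) (iVal P x) (x 2) (tauVal P x) (xiVal P θ)) :=
  rG_hGS h.pos h.ra h.rd h.rv h.rg h.rW h.rW1 h.rR
    (tt := pNum (x 0) (iVal P x) (x 2) (tauVal P x) (xiVal P θ)) h.rc h.re2 h.rEm h.rK h.rG h.rG1
    h.rD

theorem rLEGS : Rep P.atoms x θ P.fLEGS
    (pForm ClosedGen.LEGS (x 0) (iVal P x) (x 2) (tauVal P x) (xiVal P θ)) :=
  rG_LEGS h.pos h.ra h.rd h.rv h.rg h.rW h.rW1 h.rR
    (tt := pNum (x 0) (iVal P x) (x 2) (tauVal P x) (xiVal P θ)) h.rc h.re2 h.rEm h.rK h.rG h.rG1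
    h.rD

theorem rLGGS : Rep P.atoms x θ P.fLGGS
    (pForm ClosedGen.LGGS (x 0) (iVal P x) (x 2) (tauVal P x) (xiVal P θ)) :=
  rG_LGGS h.pos h.ra h.rd h.rv h.rg h.rW h.rW1 h.rR
    (tt := pNum (x 0) (iVal P x) (x 2) (tauVal P x) (xiVal P θ)) h.rc h.re2 h.rEm h.rK h.rG h.rG1
    h.rD

theorem rLLGS : Rep P.atoms x θ P.fLLGS
    (pForm ClosedGen.LLGS (x 0) (iVal P x) (x 2) (tauVal P x) (xiVal P θ)) :=
  rG_LLGS h.pos h.ra h.rd h.rv h.rg h.rW h.rW1 h.rR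
    (tt := pNum (x 0) (iVal P x) (x 2) (tauVal P x) (xiVal P θ)) h.rc h.re2 h.rEm h.rK h.rG h.rG1
    h.rD

theorem rTMMS : Rep P.atoms x θ P.fTMMS
    (pForm ClosedGen.TMMS (x 0) (iVal P x) (x 2) (tauVal P x) (xiVal P θ)) :=
  rG_TMMS h.pos h.ra h.rd h.rv h.rg h.rW h.rW1 h.rR
    (tt := pNum (x 0) (iVal P x) (x 2) (tauVal P x) (xiVal P θ)) h.rc h.re2 h.rEm h.rK h.rG h.rG1
    h.rD

theorem rTMES : Rep P.atoms x θ P.fTMES
    (pForm ClosedGen.TMES (x 0) (iVal P x) (x 2) (tauVal P x) (xiVal P θ)) :=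
  rG_TMES h.pos h.ra h.rd h.rv h.rg h.rW h.rW1 h.rR
    (tt := pNum (x 0) (iVal P x) (x 2) (tauVal P x) (xiVal P θ)) h.rc h.re2 h.rEm h.rK h.rG h.rG1
    h.rD

theorem rLEESLin {om : Fn} {r : ℝ} (hom : Rep P.atoms x θ om r) :
    Rep P.atoms x θ (P.fLEESLin om)
      (pForm (fun a d v g W W1 R t => LEESLin a d v g W W1 R t r) (x 0) (iVal P x) (x 2)
        (tauVal P x) (xiVal P θ)) :=
  rG_LEESLin h.pos h.ra h.rd h.rv h.rg h.rW h.rW1 h.rR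
    (tt := pNum (x 0) (iVal P x) (x 2) (tauVal P x) (xiVal P θ)) h.rc h.re2 h.rEm h.rK h.rG h.rG1
    h.rD hom

theorem rLMGSLin {om : Fn} {r : ℝ} (hom : Rep P.atoms x θ om r) :
    Rep P.atoms x θ (P.fLMGSLin om)
      (pForm (fun a d v g W W1 R t => LMGSLin a d v g W W1 R t r) (x 0) (iVal P x) (x 2)
        (tauVal P x) (xiVal P θ)) :=
  rG_LMGSLin h.pos h.ra h.rd h.rv h.rg h.rW h.rW1 h.rR
    (tt := pNum (x 0) (iVal P x) (x 2) (tauVal P x) (xiVal P θ)) h.rc h.re2 h.rEm h.rK h.rG h.rG1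
    h.rD hom

theorem rhM : Rep P.atoms x θ P.fhM
    (ClosedGen.hM_c (x 0) (pD (x 0) (iVal P x)) (pV (x 0) (iVal P x) (x 2) (tauVal P x))
      (pG (x 0) (iVal P x) (x 2) (tauVal P x) (xiVal P θ))
      (pW (x 0) (iVal P x) (x 2) (xiVal P θ))) :=
  rG_hM_c h.pos h.ra h.rd h.rv h.rg h.rW

end Pt

end Vale.Agent.P100.Calib.EndAll
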