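import Vale.Agent.P100.Pack.FastFour

/-!
# The four-variable test on long integers

`Nat.pow` is evaluated by the kernel only up to `2 ^ 24` bits. `checkLong` is `checkFour` with the two
long powers of two of the mask written as shifts.
-/

namespace Vale.Agent.P100.Calib.EndAll

open Pack

/-- The mask test with the powers of two as shifts. -/
def maskLong (K n Z : ℕ) : Bool :=
  Nat.blt Z (Nat.shiftLeft 1 (K * n)) &&
    Nat.beq (Nat.land Z (Nat.shiftLeft 1 (K - 1) * ((Nat.shiftLeft 1 (K * n) - 1) /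
      (Nat.shiftLeft 1 K - 1)))) 0

theorem maskLong_eq (K n Z : ℕ) : maskLong K n Z = maskDigits K n Z := by
  simp [maskLong, maskDigits, repunit, ← Nat.shiftLeft_eq_mul_pow, Nat.one_shiftLeft,
    Nat.land, HAnd.hAnd, AndOp.and]

/-- The test. -/
noncomputable def checkLong (C : ℕ → Chart) (K a b c d : ℕ) (e : Ex) : Bool :=
  let P := pt4 C K (deg4 a b c d)
  chartsOk C && e.ok 4 && decide (1 ≤ K) &&
    (Nat.beq (eval4 P e).n₀ a && Nat.beq (eval4 P e).n₁ b && Nat.beq (eval4 P e).n₂ c &&
      Nat.beq (eval4 P e).n₃ d) &&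
    Nat.blt (Nat.mul 2 (eval4 P e).bnd) (Nat.pow 2 K) && decide (0 ≤ (eval4 P e).val) &&
    maskLong K ((a + 1) * width 3 (deg4 a b c d)) (eval4 P e).val.toNat

theorem checkLong_eq (C : ℕ → Chart) (K a b c d : ℕ) (e : Ex) :
    checkLong C K a b c d e = checkFour C K a b c d e := by
  simp only [checkLong, checkFour, maskLong_eq]

end Vale.Agent.P100.Calib.EndAll
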