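import Vale.Agent.P100.Calib.SlabAllEndFn
import Vale.Agent.P100.Calib.SlabGenClosedMult

/-!
# The closed forms as fractions

One fraction for each closed form entering the signs with a multiplier, and its value.
-/

set_option linter.unusedVariables false

namespace Vale.Agent.P100.Calib.EndAll

open Pack

variable {A : List (List Ex)} {x : ℕ → ℝ} {θ : ℝ}

/-- `LEEc` with one factor of `g W` replaced by `om`. -/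
noncomputable def LEEcLin (a d v g W W1 : ℝ) (om : ℝ) : ℝ :=
  (Closed.LEEc_000000_0 a d v + v ^ (2 : ℕ) * Closed.LEEc_000000_1 a d v) + g * W1 * (v * (-4 * a
    ^ (2 : ℕ) * d - 8 * a * d ^ (2 : ℕ) - 4 * d ^ (3 : ℕ)) - 8 * a ^ (2 : ℕ) - 16 * a * d - 8 *
    d ^ (2 : ℕ)) + g * W * (Closed.LEEc_110000_0 a d v + v ^ (2 : ℕ) * Closed.LEEc_110000_1 a d
    v) + g * W * om * (v * (-a ^ (2 : ℕ) * d ^ (2 : ℕ) - 2 * a * d ^ (3 : ℕ) - d ^ 4))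

/-- `LMGc` with one factor of `g W` replaced by `om`. -/
noncomputable def LMGcLin (a d v g W W1 : ℝ) (om : ℝ) : ℝ :=
  (Closed.LMGc_000000_0 a d v + v ^ (2 : ℕ) * Closed.LMGc_000000_1 a d v) + g * W1 * (v * (-8 * a
    ^ (3 : ℕ) * d - 20 * a ^ (2 : ℕ) * d ^ (2 : ℕ) + 4 * a ^ (2 : ℕ) * d - 16 * a * d ^ (3 : ℕ)
    + 8 * a * d ^ (2 : ℕ) - 4 * d ^ (4 : ℕ) + 4 * d ^ (3 : ℕ)) - 16 * a ^ (3 : ℕ) - 40 * a ^ (2
    : ℕ) * d + 8 * a ^ (2 : ℕ) - 32 * a * d ^ (2 : ℕ) + 16 * a * d - 8 * d ^ (3 : ℕ) + 8 * d ^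
    (2 : ℕ)) + g * W * (v * (v * (12 * a ^ (3 : ℕ) * d ^ (2 : ℕ) + 12 * a ^ (2 : ℕ) * d ^ (3 :
    ℕ) - 4 * a ^ (2 : ℕ) * d ^ (2 : ℕ) - 3 * a * d ^ 4 - a * d ^ (2 : ℕ) - 3 * d ^ (5 : ℕ) + 4 *
    d ^ (4 : ℕ) - d ^ (3 : ℕ)) - 24 * a ^ (2 : ℕ) * d ^ (2 : ℕ) - 16 * a ^ (2 : ℕ) * d - 36 * a
    * d ^ (3 : ℕ) - 12 * a * d ^ (2 : ℕ) + 8 * a * d - 12 * d ^ (4 : ℕ) + 4 * d ^ (3 : ℕ) + 8 *
    d ^ (2 : ℕ)) - 8 * a ^ (2 : ℕ) - 12 * a * d + 4 * a - 4 * d ^ (2 : ℕ) + 4 * d) + g * W * om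
    * (v * (-2 * a ^ (3 : ℕ) * d ^ (2 : ℕ) - 5 * a ^ 2 * d ^ (3 : ℕ) + a ^ (2 : ℕ) * d ^ (2 : ℕ)
    - 4 * a * d ^ (4 : ℕ) + 2 * a * d ^ (3 : ℕ) - d ^ (5 : ℕ) + d ^ (4 : ℕ)))

/-- `LEES` with one factor of `g W` replaced by `om`. -/
noncomputable def LEESLin (a d v g W W1 R : ℝ) (t : ClosedGen.Num) (om : ℝ) : ℝ :=
  4 * a * (a + d) * v * (1 + d * v) * (Closed.LEE1 a d v) + t.c * (1 + d * v) * (LEEcLin a d v g W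
    W1 om) + 2 * t.e2 * a * (a + d) * (2 + d * v) ^ 2 * (Closed.LEEv a d v g W) + 4 * a * v * (1
    + d * v) * (Closed.LEEw a d v g t.E) + 4 * t.G * v * d ^ 3 * (2 + d * v) * (1 + d * v) *
    (ClosedGen.EE_g a d v g W) + 4 * t.D2 * a * (a + d) * d ^ 2 * (2 + d * v) ^ 2 * (1 + d * v)
    * (ClosedGen.EE_k1 a d v) + t.D2 * t.c * d ^ 2 * (2 + d * v) ^ 2 * (1 + d * v) *
    (ClosedGen.EE_kc a d v g W)

/-- `LMGS` with one factor of `g W` replaced by `om`. -/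
noncomputable def LMGSLin (a d v g W W1 R : ℝ) (t : ClosedGen.Num) (om : ℝ) : ℝ :=
  4 * a * (a + d) * v * (1 + d * v) * (Closed.LMG1 a d v) + t.c * (1 + d * v) * (LMGcLin a d v g W
    W1 om) + 8 * t.e2 * a * (a + d) * (2 + d * v) ^ 2 * (Closed.LMGv a d v g W) + 2 * a * (1 + d
    * v) * (Closed.LMGw a d v g t.E t.K) + 4 * t.G * v * d ^ 3 * (2 + d * v) * (1 + d * v) *
    (ClosedGen.MG_g a d v g W) + 4 * t.D2 * a * (a + d) * v * d ^ 2 * (2 + d * v) ^ 2 * (1 + d *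
    v) * (ClosedGen.MG_k1 a d v) + t.D2 * t.c * d ^ 2 * (2 + d * v) ^ 2 * (1 + d * v) *
    (ClosedGen.MG_kc a d v g W) + 2 * t.D2 * a * d ^ 2 * g * (2 + d * v) ^ 2 * (1 + d * v) *
    (ClosedGen.MG_kw a d v t.E)

/-- The fraction of `ClosedGen.gM_1`. -/
def eG_gM_1 (A : List (List Ex)) (a d v : Fn) : Fn :=
  (Fn.sub A (Fn.add A (Fn.add A (Fn.mul v (Fn.sub A (Fn.add A (Fn.mul v (Fn.mul (Fn.mul (Fn.int 2)
    a) (Fn.pow d 2))) (Fn.mul (Fn.mul (Fn.int 4) a) d)) (Fn.mul (Fn.int 2) d))) (Fn.mul (Fn.int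
    4) a)) (Fn.mul (Fn.int 2) d)) (Fn.int 2))

theorem rG_gM_1 (hA : AtomsPos A x θ) {a d v : Fn} {a' d' v' : ℝ}
    (ha : Rep A x θ a a')
    (hd : Rep A x θ d d')
    (hv : Rep A x θ v v')
    : Rep A x θ (eG_gM_1 A a d v)
      (ClosedGen.gM_1 a' d' v') :=
  (Rep.sub (Rep.add (Rep.add (Rep.mul hv (Rep.sub (Rep.add (Rep.mul hv (Rep.mul (Rep.mul
    (Rep.natLit hA 2) ha) (Rep.pow hd 2))) (Rep.mul (Rep.mul (Rep.natLit hA 4) ha) hd)) (Rep.mul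
    (Rep.natLit hA 2) hd))) (Rep.mul (Rep.natLit hA 4) ha)) (Rep.mul (Rep.natLit hA 2) hd))
    (Rep.natLit hA 2))

/-- The fraction of `ClosedGen.gMS`. -/
def eG_gMS (A : List (List Ex)) (a d v g W W1 R t_c t_e2 t_E t_K t_G t_G1 t_D2 : Fn) : Fn :=
  (eG_gM_1 A a d v)

theorem rG_gMS (hA : AtomsPos A x θ) {a d v g W W1 R t_c t_e2 t_E t_K t_G t_G1 t_D2 : Fn} {a' d' v' g' W' W1' R' : ℝ} {tt : ClosedGen.Num}
    (ha : Rep A x θ a a')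
    (hd : Rep A x θ d d')
    (hv : Rep A x θ v v')
    (hg : Rep A x θ g g')
    (hW : Rep A x θ W W')
    (hW1 : Rep A x θ W1 W1')
    (hR : Rep A x θ R R')
    (ht_c : Rep A x θ t_c tt.c)
    (ht_e2 : Rep A x θ t_e2 tt.e2)
    (ht_E : Rep A x θ t_E tt.E)
    (ht_K : Rep A x θ t_K tt.K)
    (ht_G : Rep A x θ t_G tt.G)
    (ht_G1 : Rep A x θ t_G1 tt.G1)
    (ht_D2 : Rep A x θ t_D2 tt.D2)
    : Rep A x θ (eG_gMS A a d v g W W1 R t_c t_e2 t_E t_K t_G t_G1 t_D2)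
      (ClosedGen.gMS a' d' v' g' W' W1' R' tt) :=
  (rG_gM_1 hA ha hd hv)

/-- The fraction of `ClosedGen.gE_1`. -/
def eG_gE_1 (A : List (List Ex)) (a d v : Fn) : Fn :=
  (Fn.add A (Fn.mul v (Fn.sub A (Fn.add A (Fn.mul (Fn.neg (Fn.int 6)) a) d) (Fn.int 3))) (Fn.int
    8))

theorem rG_gE_1 (hA : AtomsPos A x θ) {a d v : Fn} {a' d' v' : ℝ}
    (ha : Rep A x θ a a')
    (hd : Rep A x θ d d')
    (hv : Rep A x θ v v')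
    : Rep A x θ (eG_gE_1 A a d v)
      (ClosedGen.gE_1 a' d' v') :=
  (Rep.add (Rep.mul hv (Rep.sub (Rep.add (Rep.mul (Rep.neg (Rep.natLit hA 6)) ha) hd) (Rep.natLit
    hA 3))) (Rep.natLit hA 8))

/-- The fraction of `ClosedGen.gE_c`. -/
def eG_gE_c (A : List (List Ex)) (a d v W : Fn) : Fn :=
  (Fn.mul W (Fn.sub A (Fn.sub A (Fn.mul (Fn.neg (Fn.int 2)) a) d) (Fn.int 1)))

theorem rG_gE_c (hA : AtomsPos A x θ) {a d v W : Fn} {a' d' v' W' : ℝ}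
    (ha : Rep A x θ a a')
    (hd : Rep A x θ d d')
    (hv : Rep A x θ v v')
    (hW : Rep A x θ W W')
    : Rep A x θ (eG_gE_c A a d v W)
      (ClosedGen.gE_c a' d' v' W') :=
  (Rep.mul hW (Rep.sub (Rep.sub (Rep.mul (Rep.neg (Rep.natLit hA 2)) ha) hd) (Rep.lit_one hA)))

/-- The fraction of `ClosedGen.gE_w`. -/
def eG_gE_w (A : List (List Ex)) (a d v E : Fn) : Fn :=
  (Fn.mul E (Fn.add A (Fn.sub A (Fn.mul (Fn.neg (Fn.int 2)) a) d) (Fn.int 1)))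

theorem rG_gE_w (hA : AtomsPos A x θ) {a d v E : Fn} {a' d' v' E' : ℝ}
    (ha : Rep A x θ a a')
    (hd : Rep A x θ d d')
    (hv : Rep A x θ v v')
    (hE : Rep A x θ E E')
    : Rep A x θ (eG_gE_w A a d v E)
      (ClosedGen.gE_w a' d' v' E') :=
  (Rep.mul hE (Rep.add (Rep.sub (Rep.mul (Rep.neg (Rep.natLit hA 2)) ha) hd) (Rep.lit_one hA)))

/-- The fraction of `ClosedGen.gE_k1`. -/
def eG_gE_k1 (A : List (List Ex)) (a d v : Fn) : Fn :=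
  (Fn.sub A (Fn.add A (Fn.mul (Fn.int 2) a) d) (Fn.int 1))

theorem rG_gE_k1 (hA : AtomsPos A x θ) {a d v : Fn} {a' d' v' : ℝ}
    (ha : Rep A x θ a a')
    (hd : Rep A x θ d d')
    (hv : Rep A x θ v v')
    : Rep A x θ (eG_gE_k1 A a d v)
      (ClosedGen.gE_k1 a' d' v') :=
  (Rep.sub (Rep.add (Rep.mul (Rep.natLit hA 2) ha) hd) (Rep.lit_one hA))

/-- The fraction of `ClosedGen.gES`. -/
def eG_gES (A : List (List Ex)) (a d v g W W1 R t_c t_e2 t_E t_K t_G t_G1 t_D2 : Fn) : Fn :=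
  (Fn.add A (Fn.add A (Fn.add A (Fn.mul (Fn.mul (Fn.mul (Fn.mul (Fn.int 2) a) (Fn.add A a d)) v)
    (eG_gE_1 A a d v)) (Fn.mul (Fn.mul (Fn.mul (Fn.mul t_c (Fn.add A a d)) v) g) (eG_gE_c A a d
    v W))) (Fn.mul (Fn.mul (Fn.mul (Fn.mul (Fn.int 2) a) v) g) (eG_gE_w A a d v t_E))) (Fn.mul
    (Fn.mul (Fn.mul (Fn.mul (Fn.mul (Fn.int 2) t_D2) a) (Fn.add A a d)) (Fn.pow (Fn.add A
    (Fn.int 2) (Fn.mul d v)) 2)) (eG_gE_k1 A a d v)))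

theorem rG_gES (hA : AtomsPos A x θ) {a d v g W W1 R t_c t_e2 t_E t_K t_G t_G1 t_D2 : Fn} {a' d' v' g' W' W1' R' : ℝ} {tt : ClosedGen.Num}
    (ha : Rep A x θ a a')
    (hd : Rep A x θ d d')
    (hv : Rep A x θ v v')
    (hg : Rep A x θ g g')
    (hW : Rep A x θ W W')
    (hW1 : Rep A x θ W1 W1')
    (hR : Rep A x θ R R')
    (ht_c : Rep A x θ t_c tt.c)
    (ht_e2 : Rep A x θ t_e2 tt.e2)
    (ht_E : Rep A x θ t_E tt.E)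
    (ht_K : Rep A x θ t_K tt.K)
    (ht_G : Rep A x θ t_G tt.G)
    (ht_G1 : Rep A x θ t_G1 tt.G1)
    (ht_D2 : Rep A x θ t_D2 tt.D2)
    : Rep A x θ (eG_gES A a d v g W W1 R t_c t_e2 t_E t_K t_G t_G1 t_D2)
      (ClosedGen.gES a' d' v' g' W' W1' R' tt) :=
  (Rep.add (Rep.add (Rep.add (Rep.mul (Rep.mul (Rep.mul (Rep.mul (Rep.natLit hA 2) ha) (Rep.add ha
    hd)) hv) (rG_gE_1 hA ha hd hv)) (Rep.mul (Rep.mul (Rep.mul (Rep.mul ht_c (Rep.add ha hd))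
    hv) hg) (rG_gE_c hA ha hd hv hW))) (Rep.mul (Rep.mul (Rep.mul (Rep.mul (Rep.natLit hA 2) ha)
    hv) hg) (rG_gE_w hA ha hd hv ht_E))) (Rep.mul (Rep.mul (Rep.mul (Rep.mul (Rep.mul
    (Rep.natLit hA 2) ht_D2) ha) (Rep.add ha hd)) (Rep.pow (Rep.add (Rep.natLit hA 2) (Rep.mul
    hd hv)) 2)) (rG_gE_k1 hA ha hd hv)))

/-- The fraction of `ClosedGen.gG_1`. -/
def eG_gG_1 (A : List (List Ex)) (a d v : Fn) : Fn :=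
  (Fn.add A (Fn.add A (Fn.mul (Fn.int 2) a) d) (Fn.int 1))

theorem rG_gG_1 (hA : AtomsPos A x θ) {a d v : Fn} {a' d' v' : ℝ}
    (ha : Rep A x θ a a')
    (hd : Rep A x θ d d')
    (hv : Rep A x θ v v')
    : Rep A x θ (eG_gG_1 A a d v)
      (ClosedGen.gG_1 a' d' v') :=
  (Rep.add (Rep.add (Rep.mul (Rep.natLit hA 2) ha) hd) (Rep.lit_one hA))

/-- The fraction of `ClosedGen.gG_c`. -/
def eG_gG_c (A : List (List Ex)) (a d v g W : Fn) : Fn :=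
  (Fn.add A (Fn.sub A (Fn.mul v (Fn.sub A (Fn.sub A (Fn.sub A (Fn.mul (Fn.neg (Fn.int 8)) (Fn.pow
    a 2)) (Fn.mul (Fn.mul (Fn.int 8) a) d)) (Fn.mul (Fn.int 2) (Fn.pow d 2))) (Fn.mul (Fn.int 2)
    d))) (Fn.int 4)) (Fn.mul (Fn.mul g W) (Fn.add A a d)))

theorem rG_gG_c (hA : AtomsPos A x θ) {a d v g W : Fn} {a' d' v' g' W' : ℝ}
    (ha : Rep A x θ a a')
    (hd : Rep A x θ d d')
    (hv : Rep A x θ v v')
    (hg : Rep A x θ g g')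
    (hW : Rep A x θ W W')
    : Rep A x θ (eG_gG_c A a d v g W)
      (ClosedGen.gG_c a' d' v' g' W') :=
  (Rep.add (Rep.sub (Rep.mul hv (Rep.sub (Rep.sub (Rep.sub (Rep.mul (Rep.neg (Rep.natLit hA 8))
    (Rep.pow ha 2)) (Rep.mul (Rep.mul (Rep.natLit hA 8) ha) hd)) (Rep.mul (Rep.natLit hA 2)
    (Rep.pow hd 2))) (Rep.mul (Rep.natLit hA 2) hd))) (Rep.natLit hA 4)) (Rep.mul (Rep.mul hg
    hW) (Rep.add ha hd)))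

/-- The fraction of `ClosedGen.gG_v`. -/
def eG_gG_v (A : List (List Ex)) (a d v : Fn) : Fn :=
  (Fn.int 1)

theorem rG_gG_v (hA : AtomsPos A x θ) {a d v : Fn} {a' d' v' : ℝ}
    (ha : Rep A x θ a a')
    (hd : Rep A x θ d d')
    (hv : Rep A x θ v v')
    : Rep A x θ (eG_gG_v A a d v)
      (ClosedGen.gG_v a' d' v') :=
  (Rep.lit_one hA)

/-- The fraction of `ClosedGen.gGS`. -/
def eG_gGS (A : List (List Ex)) (a d v g W W1 R t_c t_e2 t_E t_K t_G t_G1 t_D2 : Fn) : Fn :=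
  (Fn.add A (Fn.add A (Fn.mul (Fn.mul (Fn.mul (Fn.mul (Fn.mul (Fn.int 2) a) (Fn.add A a d)) v)
    (Fn.add A (Fn.int 1) (Fn.mul d v))) (eG_gG_1 A a d v)) (Fn.mul (Fn.mul t_c (Fn.add A (Fn.int
    1) (Fn.mul d v))) (eG_gG_c A a d v g W))) (Fn.mul (Fn.mul (Fn.mul (Fn.mul (Fn.mul (Fn.mul
    (Fn.int 2) t_e2) a) (Fn.add A a d)) v) (Fn.pow (Fn.add A (Fn.int 2) (Fn.mul d v)) 2))
    (eG_gG_v A a d v)))

theorem rG_gGS (hA : AtomsPos A x θ) {a d v g W W1 R t_c t_e2 t_E t_K t_G t_G1 t_D2 : Fn} {a' d' v' g' W' W1' R' : ℝ} {tt : ClosedGen.Num}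
    (ha : Rep A x θ a a')
    (hd : Rep A x θ d d')
    (hv : Rep A x θ v v')
    (hg : Rep A x θ g g')
    (hW : Rep A x θ W W')
    (hW1 : Rep A x θ W1 W1')
    (hR : Rep A x θ R R')
    (ht_c : Rep A x θ t_c tt.c)
    (ht_e2 : Rep A x θ t_e2 tt.e2)
    (ht_E : Rep A x θ t_E tt.E)
    (ht_K : Rep A x θ t_K tt.K)
    (ht_G : Rep A x θ t_G tt.G)
    (ht_G1 : Rep A x θ t_G1 tt.G1)
    (ht_D2 : Rep A x θ t_D2 tt.D2)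
    : Rep A x θ (eG_gGS A a d v g W W1 R t_c t_e2 t_E t_K t_G t_G1 t_D2)
      (ClosedGen.gGS a' d' v' g' W' W1' R' tt) :=
  (Rep.add (Rep.add (Rep.mul (Rep.mul (Rep.mul (Rep.mul (Rep.mul (Rep.natLit hA 2) ha) (Rep.add ha
    hd)) hv) (Rep.add (Rep.lit_one hA) (Rep.mul hd hv))) (rG_gG_1 hA ha hd hv)) (Rep.mul
    (Rep.mul ht_c (Rep.add (Rep.lit_one hA) (Rep.mul hd hv))) (rG_gG_c hA ha hd hv hg hW)))
    (Rep.mul (Rep.mul (Rep.mul (Rep.mul (Rep.mul (Rep.mul (Rep.natLit hA 2) ht_e2) ha) (Rep.add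
    ha hd)) hv) (Rep.pow (Rep.add (Rep.natLit hA 2) (Rep.mul hd hv)) 2)) (rG_gG_v hA ha hd hv)))

/-- The fraction of `ClosedGen.hE_c`. -/
def eG_hE_c (A : List (List Ex)) (a d v g W : Fn) : Fn :=
  (Fn.add A (Fn.sub A (Fn.mul v (Fn.sub A (Fn.sub A (Fn.add A (Fn.sub A (Fn.sub A (Fn.mul v
    (Fn.sub A (Fn.add A (Fn.sub A (Fn.add A (Fn.sub A (Fn.sub A (Fn.mul v (Fn.mul (Fn.mul
    (Fn.int 4) a) (Fn.pow d 2))) (Fn.mul (Fn.mul (Fn.int 16) (Fn.pow a 2)) d)) (Fn.mul (Fn.mul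
    (Fn.int 16) a) (Fn.pow d 2))) (Fn.mul (Fn.mul (Fn.int 24) a) d)) (Fn.mul (Fn.int 4) (Fn.pow
    d 3))) (Fn.mul (Fn.int 4) (Fn.pow d 2))) (Fn.mul (Fn.int 4) d))) (Fn.mul (Fn.int 16) (Fn.pow
    a 2))) (Fn.mul (Fn.mul (Fn.int 16) a) d)) (Fn.mul (Fn.int 24) a)) (Fn.mul (Fn.int 4) (Fn.pow
    d 2))) (Fn.int 4))) (Fn.int 8)) (Fn.mul (Fn.mul g W) (Fn.add A (Fn.add A (Fn.mul v (Fn.add A
    (Fn.add A (Fn.mul v (Fn.sub A (Fn.mul (Fn.neg a) (Fn.pow d 2)) (Fn.pow d 3))) (Fn.mul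
    (Fn.mul (Fn.int 2) a) d)) (Fn.mul (Fn.int 2) (Fn.pow d 2)))) (Fn.mul (Fn.int 2) a)) (Fn.mul
    (Fn.int 2) d))))

theorem rG_hE_c (hA : AtomsPos A x θ) {a d v g W : Fn} {a' d' v' g' W' : ℝ}
    (ha : Rep A x θ a a')
    (hd : Rep A x θ d d')
    (hv : Rep A x θ v v')
    (hg : Rep A x θ g g')
    (hW : Rep A x θ W W')
    : Rep A x θ (eG_hE_c A a d v g W)
      (ClosedGen.hE_c a' d' v' g' W') :=
  (Rep.add (Rep.sub (Rep.mul hv (Rep.sub (Rep.sub (Rep.add (Rep.sub (Rep.sub (Rep.mul hv (Rep.sub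
    (Rep.add (Rep.sub (Rep.add (Rep.sub (Rep.sub (Rep.mul hv (Rep.mul (Rep.mul (Rep.natLit hA 4)
    ha) (Rep.pow hd 2))) (Rep.mul (Rep.mul (Rep.natLit hA 16) (Rep.pow ha 2)) hd)) (Rep.mul
    (Rep.mul (Rep.natLit hA 16) ha) (Rep.pow hd 2))) (Rep.mul (Rep.mul (Rep.natLit hA 24) ha)
    hd)) (Rep.mul (Rep.natLit hA 4) (Rep.pow hd 3))) (Rep.mul (Rep.natLit hA 4) (Rep.pow hd 2)))
    (Rep.mul (Rep.natLit hA 4) hd))) (Rep.mul (Rep.natLit hA 16) (Rep.pow ha 2))) (Rep.mul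
    (Rep.mul (Rep.natLit hA 16) ha) hd)) (Rep.mul (Rep.natLit hA 24) ha)) (Rep.mul (Rep.natLit
    hA 4) (Rep.pow hd 2))) (Rep.natLit hA 4))) (Rep.natLit hA 8)) (Rep.mul (Rep.mul hg hW)
    (Rep.add (Rep.add (Rep.mul hv (Rep.add (Rep.add (Rep.mul hv (Rep.sub (Rep.mul (Rep.neg ha)
    (Rep.pow hd 2)) (Rep.pow hd 3))) (Rep.mul (Rep.mul (Rep.natLit hA 2) ha) hd)) (Rep.mul
    (Rep.natLit hA 2) (Rep.pow hd 2)))) (Rep.mul (Rep.natLit hA 2) ha)) (Rep.mul (Rep.natLit hA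
    2) hd))))

/-- The fraction of `ClosedGen.hE_v`. -/
def eG_hE_v (A : List (List Ex)) (a d v : Fn) : Fn :=
  (Fn.int 1)

theorem rG_hE_v (hA : AtomsPos A x θ) {a d v : Fn} {a' d' v' : ℝ}
    (ha : Rep A x θ a a')
    (hd : Rep A x θ d d')
    (hv : Rep A x θ v v')
    : Rep A x θ (eG_hE_v A a d v)
      (ClosedGen.hE_v a' d' v') :=
  (Rep.lit_one hA)

/-- The fraction of `ClosedGen.hES`. -/
def eG_hES (A : List (List Ex)) (a d v g W W1 R t_c t_e2 t_E t_K t_G t_G1 t_D2 : Fn) : Fn :=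
  (Fn.add A (Fn.mul t_c (eG_hE_c A a d v g W)) (Fn.mul (Fn.mul (Fn.mul (Fn.mul (Fn.mul (Fn.mul
    (Fn.int 4) t_e2) a) (Fn.add A a d)) v) (Fn.pow (Fn.add A (Fn.int 2) (Fn.mul d v)) 2))
    (eG_hE_v A a d v)))

theorem rG_hES (hA : AtomsPos A x θ) {a d v g W W1 R t_c t_e2 t_E t_K t_G t_G1 t_D2 : Fn} {a' d' v' g' W' W1' R' : ℝ} {tt : ClosedGen.Num}
    (ha : Rep A x θ a a')
    (hd : Rep A x θ d d')
    (hv : Rep A x θ v v')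
    (hg : Rep A x θ g g')
    (hW : Rep A x θ W W')
    (hW1 : Rep A x θ W1 W1')
    (hR : Rep A x θ R R')
    (ht_c : Rep A x θ t_c tt.c)
    (ht_e2 : Rep A x θ t_e2 tt.e2)
    (ht_E : Rep A x θ t_E tt.E)
    (ht_K : Rep A x θ t_K tt.K)
    (ht_G : Rep A x θ t_G tt.G)
    (ht_G1 : Rep A x θ t_G1 tt.G1)
    (ht_D2 : Rep A x θ t_D2 tt.D2)
    : Rep A x θ (eG_hES A a d v g W W1 R t_c t_e2 t_E t_K t_G t_G1 t_D2)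
      (ClosedGen.hES a' d' v' g' W' W1' R' tt) :=
  (Rep.add (Rep.mul ht_c (rG_hE_c hA ha hd hv hg hW)) (Rep.mul (Rep.mul (Rep.mul (Rep.mul (Rep.mul
    (Rep.mul (Rep.natLit hA 4) ht_e2) ha) (Rep.add ha hd)) hv) (Rep.pow (Rep.add (Rep.natLit hA
    2) (Rep.mul hd hv)) 2)) (rG_hE_v hA ha hd hv)))

/-- The fraction of `ClosedGen.hG_c`. -/
def eG_hG_c (A : List (List Ex)) (a d v g W : Fn) : Fn :=
  (Fn.add A (Fn.add A (Fn.sub A (Fn.sub A (Fn.mul v (Fn.sub A (Fn.add A (Fn.sub A (Fn.sub A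
    (Fn.mul (Fn.neg (Fn.int 4)) (Fn.pow a 2)) (Fn.mul (Fn.mul (Fn.int 6) a) d)) (Fn.mul (Fn.int
    2) (Fn.pow d 2))) d) (Fn.int 1))) (Fn.mul (Fn.int 4) a)) (Fn.mul (Fn.int 2) d)) (Fn.int 2))
    (Fn.mul (Fn.mul g W) (Fn.add A a d)))

theorem rG_hG_c (hA : AtomsPos A x θ) {a d v g W : Fn} {a' d' v' g' W' : ℝ}
    (ha : Rep A x θ a a')
    (hd : Rep A x θ d d')
    (hv : Rep A x θ v v')
    (hg : Rep A x θ g g')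
    (hW : Rep A x θ W W')
    : Rep A x θ (eG_hG_c A a d v g W)
      (ClosedGen.hG_c a' d' v' g' W') :=
  (Rep.add (Rep.add (Rep.sub (Rep.sub (Rep.mul hv (Rep.sub (Rep.add (Rep.sub (Rep.sub (Rep.mul
    (Rep.neg (Rep.natLit hA 4)) (Rep.pow ha 2)) (Rep.mul (Rep.mul (Rep.natLit hA 6) ha) hd))
    (Rep.mul (Rep.natLit hA 2) (Rep.pow hd 2))) hd) (Rep.lit_one hA))) (Rep.mul (Rep.natLit hA
    4) ha)) (Rep.mul (Rep.natLit hA 2) hd)) (Rep.natLit hA 2)) (Rep.mul (Rep.mul hg hW) (Rep.add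
    ha hd)))

/-- The fraction of `ClosedGen.hG_g`. -/
def eG_hG_g (A : List (List Ex)) (a d v : Fn) : Fn :=
  (Fn.int 2)

theorem rG_hG_g (hA : AtomsPos A x θ) {a d v : Fn} {a' d' v' : ℝ}
    (ha : Rep A x θ a a')
    (hd : Rep A x θ d d')
    (hv : Rep A x θ v v')
    : Rep A x θ (eG_hG_g A a d v)
      (ClosedGen.hG_g a' d' v') :=
  (Rep.natLit hA 2)

/-- The fraction of `ClosedGen.hG_kc`. -/
def eG_hG_kc (A : List (List Ex)) (a d v : Fn) : Fn :=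
  (Fn.sub A (Fn.add A (Fn.mul (Fn.int 2) a) d) (Fn.int 1))

theorem rG_hG_kc (hA : AtomsPos A x θ) {a d v : Fn} {a' d' v' : ℝ}
    (ha : Rep A x θ a a')
    (hd : Rep A x θ d d')
    (hv : Rep A x θ v v')
    : Rep A x θ (eG_hG_kc A a d v)
      (ClosedGen.hG_kc a' d' v') :=
  (Rep.sub (Rep.add (Rep.mul (Rep.natLit hA 2) ha) hd) (Rep.lit_one hA))

/-- The fraction of `ClosedGen.hGS`. -/
def eG_hGS (A : List (List Ex)) (a d v g W W1 R t_c t_e2 t_E t_K t_G t_G1 t_D2 : Fn) : Fn :=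
  (Fn.add A (Fn.add A (Fn.mul (Fn.mul t_c v) (eG_hG_c A a d v g W)) (Fn.mul (Fn.mul (Fn.mul
    (Fn.mul (Fn.mul (Fn.int 2) t_G) v) d) (Fn.add A (Fn.int 2) (Fn.mul d v))) (eG_hG_g A a d
    v))) (Fn.mul (Fn.mul (Fn.mul t_D2 t_c) (Fn.pow (Fn.add A (Fn.int 2) (Fn.mul d v)) 2))
    (eG_hG_kc A a d v)))

theorem rG_hGS (hA : AtomsPos A x θ) {a d v g W W1 R t_c t_e2 t_E t_K t_G t_G1 t_D2 : Fn} {a' d' v' g' W' W1' R' : ℝ} {tt : ClosedGen.Num}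
    (ha : Rep A x θ a a')
    (hd : Rep A x θ d d')
    (hv : Rep A x θ v v')
    (hg : Rep A x θ g g')
    (hW : Rep A x θ W W')
    (hW1 : Rep A x θ W1 W1')
    (hR : Rep A x θ R R')
    (ht_c : Rep A x θ t_c tt.c)
    (ht_e2 : Rep A x θ t_e2 tt.e2)
    (ht_E : Rep A x θ t_E tt.E)
    (ht_K : Rep A x θ t_K tt.K)
    (ht_G : Rep A x θ t_G tt.G)
    (ht_G1 : Rep A x θ t_G1 tt.G1)
    (ht_D2 : Rep A x θ t_D2 tt.D2)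
    : Rep A x θ (eG_hGS A a d v g W W1 R t_c t_e2 t_E t_K t_G t_G1 t_D2)
      (ClosedGen.hGS a' d' v' g' W' W1' R' tt) :=
  (Rep.add (Rep.add (Rep.mul (Rep.mul ht_c hv) (rG_hG_c hA ha hd hv hg hW)) (Rep.mul (Rep.mul
    (Rep.mul (Rep.mul (Rep.mul (Rep.natLit hA 2) ht_G) hv) hd) (Rep.add (Rep.natLit hA 2)
    (Rep.mul hd hv))) (rG_hG_g hA ha hd hv))) (Rep.mul (Rep.mul (Rep.mul ht_D2 ht_c) (Rep.pow
    (Rep.add (Rep.natLit hA 2) (Rep.mul hd hv)) 2)) (rG_hG_kc hA ha hd hv)))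

/-- The fraction of `ClosedGen.hM_c`. -/
def eG_hM_c (A : List (List Ex)) (a d v g W : Fn) : Fn :=
  (Fn.add A (Fn.add A (Fn.mul v (Fn.mul (Fn.neg (Fn.int 4)) a)) (Fn.int 4)) (Fn.mul (Fn.mul g W)
    (Fn.sub A (Fn.neg a) d)))

theorem rG_hM_c (hA : AtomsPos A x θ) {a d v g W : Fn} {a' d' v' g' W' : ℝ}
    (ha : Rep A x θ a a')
    (hd : Rep A x θ d d')
    (hv : Rep A x θ v v')
    (hg : Rep A x θ g g')
    (hW : Rep A x θ W W')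
    : Rep A x θ (eG_hM_c A a d v g W)
      (ClosedGen.hM_c a' d' v' g' W') :=
  (Rep.add (Rep.add (Rep.mul hv (Rep.mul (Rep.neg (Rep.natLit hA 4)) ha)) (Rep.natLit hA 4))
    (Rep.mul (Rep.mul hg hW) (Rep.sub (Rep.neg ha) hd)))

/-- The fraction of `Closed.LEG1_000000_0`. -/
def eC_LEG1_000000_0 (A : List (List Ex)) (a d v : Fn) : Fn :=
  (Fn.add A (Fn.add A (Fn.add A (Fn.add A (Fn.add A (Fn.add A (Fn.add A (Fn.add A (Fn.add A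
    (Fn.mul v (Fn.sub A (Fn.sub A (Fn.add A (Fn.add A (Fn.sub A (Fn.sub A (Fn.sub A (Fn.add A
    (Fn.sub A (Fn.sub A (Fn.sub A (Fn.sub A (Fn.sub A (Fn.mul (Fn.neg (Fn.int 8)) (Fn.pow a 4))
    (Fn.mul (Fn.mul (Fn.int 12) (Fn.pow a 3)) d)) (Fn.mul (Fn.int 12) (Fn.pow a 3))) (Fn.mul
    (Fn.mul (Fn.int 2) (Fn.pow a 2)) (Fn.pow d 2))) (Fn.mul (Fn.mul (Fn.int 16) (Fn.pow a 2))
    d)) (Fn.mul (Fn.int 6) (Fn.pow a 2))) (Fn.mul (Fn.mul (Fn.int 3) a) (Fn.pow d 3))) (Fn.mul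
    (Fn.mul (Fn.int 3) a) (Fn.pow d 2))) (Fn.mul (Fn.mul (Fn.int 7) a) d)) a) (Fn.pow d 4))
    (Fn.pow d 3)) (Fn.pow d 2)) d)) (Fn.mul (Fn.int 16) (Fn.pow a 3))) (Fn.mul (Fn.mul (Fn.int
    32) (Fn.pow a 2)) d)) (Fn.mul (Fn.int 16) (Fn.pow a 2))) (Fn.mul (Fn.mul (Fn.int 20) a)
    (Fn.pow d 2))) (Fn.mul (Fn.mul (Fn.int 24) a) d)) (Fn.mul (Fn.int 4) a)) (Fn.mul (Fn.int 4)
    (Fn.pow d 3))) (Fn.mul (Fn.int 8) (Fn.pow d 2))) (Fn.mul (Fn.int 4) d))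

theorem rC_LEG1_000000_0 (hA : AtomsPos A x θ) {a d v : Fn} {a' d' v' : ℝ}
    (ha : Rep A x θ a a')
    (hd : Rep A x θ d d')
    (hv : Rep A x θ v v')
    : Rep A x θ (eC_LEG1_000000_0 A a d v)
      (Closed.LEG1_000000_0 a' d' v') :=
  (Rep.add (Rep.add (Rep.add (Rep.add (Rep.add (Rep.add (Rep.add (Rep.add (Rep.add (Rep.mul hv
    (Rep.sub (Rep.sub (Rep.add (Rep.add (Rep.sub (Rep.sub (Rep.sub (Rep.add (Rep.sub (Rep.sub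
    (Rep.sub (Rep.sub (Rep.sub (Rep.mul (Rep.neg (Rep.natLit hA 8)) (Rep.pow ha 4)) (Rep.mul
    (Rep.mul (Rep.natLit hA 12) (Rep.pow ha 3)) hd)) (Rep.mul (Rep.natLit hA 12) (Rep.pow ha
    3))) (Rep.mul (Rep.mul (Rep.natLit hA 2) (Rep.pow ha 2)) (Rep.pow hd 2))) (Rep.mul (Rep.mul
    (Rep.natLit hA 16) (Rep.pow ha 2)) hd)) (Rep.mul (Rep.natLit hA 6) (Rep.pow ha 2))) (Rep.mul
    (Rep.mul (Rep.natLit hA 3) ha) (Rep.pow hd 3))) (Rep.mul (Rep.mul (Rep.natLit hA 3) ha)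
    (Rep.pow hd 2))) (Rep.mul (Rep.mul (Rep.natLit hA 7) ha) hd)) ha) (Rep.pow hd 4)) (Rep.pow
    hd 3)) (Rep.pow hd 2)) hd)) (Rep.mul (Rep.natLit hA 16) (Rep.pow ha 3))) (Rep.mul (Rep.mul
    (Rep.natLit hA 32) (Rep.pow ha 2)) hd)) (Rep.mul (Rep.natLit hA 16) (Rep.pow ha 2)))
    (Rep.mul (Rep.mul (Rep.natLit hA 20) ha) (Rep.pow hd 2))) (Rep.mul (Rep.mul (Rep.natLit hA
    24) ha) hd)) (Rep.mul (Rep.natLit hA 4) ha)) (Rep.mul (Rep.natLit hA 4) (Rep.pow hd 3)))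
    (Rep.mul (Rep.natLit hA 8) (Rep.pow hd 2))) (Rep.mul (Rep.natLit hA 4) hd))

/-- The fraction of `Closed.LEG1`. -/
def eC_LEG1 (A : List (List Ex)) (a d v : Fn) : Fn :=
  (eC_LEG1_000000_0 A a d v)

theorem rC_LEG1 (hA : AtomsPos A x θ) {a d v : Fn} {a' d' v' : ℝ}
    (ha : Rep A x θ a a')
    (hd : Rep A x θ d d')
    (hv : Rep A x θ v v')
    : Rep A x θ (eC_LEG1 A a d v)
      (Closed.LEG1 a' d' v') :=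
  (rC_LEG1_000000_0 hA ha hd hv)

/-- The fraction of `Closed.LEGc`. -/
def eC_LEGc (A : List (List Ex)) (a d v g W : Fn) : Fn :=
  (Fn.add A (Fn.add A (Fn.sub A (Fn.sub A (Fn.add A (Fn.sub A (Fn.sub A (Fn.sub A (Fn.sub A
    (Fn.sub A (Fn.mul v (Fn.add A (Fn.sub A (Fn.add A (Fn.add A (Fn.sub A (Fn.add A (Fn.add A
    (Fn.sub A (Fn.add A (Fn.sub A (Fn.mul (Fn.neg (Fn.int 32)) (Fn.pow a 4)) (Fn.mul (Fn.mul
    (Fn.int 144) (Fn.pow a 3)) d)) (Fn.mul (Fn.int 16) (Fn.pow a 3))) (Fn.mul (Fn.mul (Fn.int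
    168) (Fn.pow a 2)) (Fn.pow d 2))) (Fn.mul (Fn.mul (Fn.int 16) (Fn.pow a 2)) d)) (Fn.mul
    (Fn.int 16) (Fn.pow a 2))) (Fn.mul (Fn.mul (Fn.int 76) a) (Fn.pow d 3))) (Fn.mul (Fn.mul
    (Fn.int 4) a) (Fn.pow d 2))) (Fn.mul (Fn.mul (Fn.int 32) a) d)) (Fn.mul (Fn.int 12) (Fn.pow
    d 4))) (Fn.mul (Fn.int 12) (Fn.pow d 2)))) (Fn.mul (Fn.int 160) (Fn.pow a 3))) (Fn.mul
    (Fn.mul (Fn.int 240) (Fn.pow a 2)) d)) (Fn.mul (Fn.int 16) (Fn.pow a 2))) (Fn.mul (Fn.mul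
    (Fn.int 120) a) (Fn.pow d 2))) (Fn.mul (Fn.mul (Fn.int 16) a) d)) (Fn.mul (Fn.int 32) a))
    (Fn.mul (Fn.int 20) (Fn.pow d 3))) (Fn.mul (Fn.int 4) (Fn.pow d 2))) (Fn.mul (Fn.int 16) d))
    (Fn.mul (Fn.mul g W) (Fn.add A (Fn.add A (Fn.sub A (Fn.add A (Fn.add A (Fn.sub A (Fn.add A
    (Fn.add A (Fn.sub A (Fn.add A (Fn.sub A (Fn.mul (Fn.neg (Fn.int 8)) (Fn.pow a 4)) (Fn.mul
    (Fn.mul (Fn.int 20) (Fn.pow a 3)) d)) (Fn.mul (Fn.int 4) (Fn.pow a 3))) (Fn.mul (Fn.mul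
    (Fn.int 18) (Fn.pow a 2)) (Fn.pow d 2))) (Fn.mul (Fn.mul (Fn.int 8) (Fn.pow a 2)) d))
    (Fn.mul (Fn.int 4) (Fn.pow a 2))) (Fn.mul (Fn.mul (Fn.int 7) a) (Fn.pow d 3))) (Fn.mul
    (Fn.mul (Fn.int 5) a) (Fn.pow d 2))) (Fn.mul (Fn.mul (Fn.int 6) a) d)) (Fn.pow d 4)) (Fn.pow
    d 3)) (Fn.mul (Fn.int 2) (Fn.pow d 2)))))

theorem rC_LEGc (hA : AtomsPos A x θ) {a d v g W : Fn} {a' d' v' g' W' : ℝ}
    (ha : Rep A x θ a a')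
    (hd : Rep A x θ d d')
    (hv : Rep A x θ v v')
    (hg : Rep A x θ g g')
    (hW : Rep A x θ W W')
    : Rep A x θ (eC_LEGc A a d v g W)
      (Closed.LEGc a' d' v' g' W') :=
  (Rep.add (Rep.add (Rep.sub (Rep.sub (Rep.add (Rep.sub (Rep.sub (Rep.sub (Rep.sub (Rep.sub
    (Rep.mul hv (Rep.add (Rep.sub (Rep.add (Rep.add (Rep.sub (Rep.add (Rep.add (Rep.sub (Rep.add
    (Rep.sub (Rep.mul (Rep.neg (Rep.natLit hA 32)) (Rep.pow ha 4)) (Rep.mul (Rep.mul (Rep.natLit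
    hA 144) (Rep.pow ha 3)) hd)) (Rep.mul (Rep.natLit hA 16) (Rep.pow ha 3))) (Rep.mul (Rep.mul
    (Rep.natLit hA 168) (Rep.pow ha 2)) (Rep.pow hd 2))) (Rep.mul (Rep.mul (Rep.natLit hA 16)
    (Rep.pow ha 2)) hd)) (Rep.mul (Rep.natLit hA 16) (Rep.pow ha 2))) (Rep.mul (Rep.mul
    (Rep.natLit hA 76) ha) (Rep.pow hd 3))) (Rep.mul (Rep.mul (Rep.natLit hA 4) ha) (Rep.pow hd
    2))) (Rep.mul (Rep.mul (Rep.natLit hA 32) ha) hd)) (Rep.mul (Rep.natLit hA 12) (Rep.pow hd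
    4))) (Rep.mul (Rep.natLit hA 12) (Rep.pow hd 2)))) (Rep.mul (Rep.natLit hA 160) (Rep.pow ha
    3))) (Rep.mul (Rep.mul (Rep.natLit hA 240) (Rep.pow ha 2)) hd)) (Rep.mul (Rep.natLit hA 16)
    (Rep.pow ha 2))) (Rep.mul (Rep.mul (Rep.natLit hA 120) ha) (Rep.pow hd 2))) (Rep.mul
    (Rep.mul (Rep.natLit hA 16) ha) hd)) (Rep.mul (Rep.natLit hA 32) ha)) (Rep.mul (Rep.natLit
    hA 20) (Rep.pow hd 3))) (Rep.mul (Rep.natLit hA 4) (Rep.pow hd 2))) (Rep.mul (Rep.natLit hA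
    16) hd)) (Rep.mul (Rep.mul hg hW) (Rep.add (Rep.add (Rep.sub (Rep.add (Rep.add (Rep.sub
    (Rep.add (Rep.add (Rep.sub (Rep.add (Rep.sub (Rep.mul (Rep.neg (Rep.natLit hA 8)) (Rep.pow
    ha 4)) (Rep.mul (Rep.mul (Rep.natLit hA 20) (Rep.pow ha 3)) hd)) (Rep.mul (Rep.natLit hA 4)
    (Rep.pow ha 3))) (Rep.mul (Rep.mul (Rep.natLit hA 18) (Rep.pow ha 2)) (Rep.pow hd 2)))
    (Rep.mul (Rep.mul (Rep.natLit hA 8) (Rep.pow ha 2)) hd)) (Rep.mul (Rep.natLit hA 4) (Rep.pow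
    ha 2))) (Rep.mul (Rep.mul (Rep.natLit hA 7) ha) (Rep.pow hd 3))) (Rep.mul (Rep.mul
    (Rep.natLit hA 5) ha) (Rep.pow hd 2))) (Rep.mul (Rep.mul (Rep.natLit hA 6) ha) hd)) (Rep.pow
    hd 4)) (Rep.pow hd 3)) (Rep.mul (Rep.natLit hA 2) (Rep.pow hd 2)))))

/-- The fraction of `Closed.LEGv`. -/
def eC_LEGv (A : List (List Ex)) (a d v g W : Fn) : Fn :=
  (Fn.add A (Fn.sub A (Fn.add A (Fn.sub A (Fn.add A (Fn.add A (Fn.mul v (Fn.sub A (Fn.add A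
    (Fn.sub A (Fn.add A (Fn.add A (Fn.add A (Fn.sub A (Fn.mul (Fn.neg (Fn.int 2)) (Fn.pow a 3))
    (Fn.mul (Fn.pow a 2) d)) (Fn.pow a 2)) (Fn.mul (Fn.mul (Fn.int 2) a) (Fn.pow d 2))) (Fn.mul
    a d)) a) (Fn.pow d 3)) d)) (Fn.mul (Fn.int 6) (Fn.pow a 2))) (Fn.mul (Fn.mul (Fn.int 9) a)
    d)) a) (Fn.mul (Fn.int 3) (Fn.pow d 2))) d) (Fn.mul (Fn.mul g W) (Fn.add A (Fn.add A (Fn.pow
    a 2) (Fn.mul (Fn.mul (Fn.int 2) a) d)) (Fn.pow d 2))))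

theorem rC_LEGv (hA : AtomsPos A x θ) {a d v g W : Fn} {a' d' v' g' W' : ℝ}
    (ha : Rep A x θ a a')
    (hd : Rep A x θ d d')
    (hv : Rep A x θ v v')
    (hg : Rep A x θ g g')
    (hW : Rep A x θ W W')
    : Rep A x θ (eC_LEGv A a d v g W)
      (Closed.LEGv a' d' v' g' W') :=
  (Rep.add (Rep.sub (Rep.add (Rep.sub (Rep.add (Rep.add (Rep.mul hv (Rep.sub (Rep.add (Rep.sub
    (Rep.add (Rep.add (Rep.add (Rep.sub (Rep.mul (Rep.neg (Rep.natLit hA 2)) (Rep.pow ha 3))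
    (Rep.mul (Rep.pow ha 2) hd)) (Rep.pow ha 2)) (Rep.mul (Rep.mul (Rep.natLit hA 2) ha)
    (Rep.pow hd 2))) (Rep.mul ha hd)) ha) (Rep.pow hd 3)) hd)) (Rep.mul (Rep.natLit hA 6)
    (Rep.pow ha 2))) (Rep.mul (Rep.mul (Rep.natLit hA 9) ha) hd)) ha) (Rep.mul (Rep.natLit hA 3)
    (Rep.pow hd 2))) hd) (Rep.mul (Rep.mul hg hW) (Rep.add (Rep.add (Rep.pow ha 2) (Rep.mul
    (Rep.mul (Rep.natLit hA 2) ha) hd)) (Rep.pow hd 2))))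

/-- The fraction of `Closed.LEGw`. -/
def eC_LEGw (A : List (List Ex)) (a d v g E : Fn) : Fn :=
  (Fn.mul (Fn.mul g E) (Fn.sub A (Fn.add A (Fn.sub A (Fn.sub A (Fn.add A (Fn.sub A (Fn.add A
    (Fn.sub A (Fn.mul (Fn.neg (Fn.int 8)) (Fn.pow a 3)) (Fn.mul (Fn.mul (Fn.int 12) (Fn.pow a
    2)) d)) (Fn.mul (Fn.int 8) (Fn.pow a 2))) (Fn.mul (Fn.mul (Fn.int 6) a) (Fn.pow d 2)))
    (Fn.mul (Fn.mul (Fn.int 8) a) d)) (Fn.mul (Fn.int 2) a)) (Fn.pow d 3)) (Fn.mul (Fn.int 2)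
    (Fn.pow d 2))) d))

theorem rC_LEGw (hA : AtomsPos A x θ) {a d v g E : Fn} {a' d' v' g' E' : ℝ}
    (ha : Rep A x θ a a')
    (hd : Rep A x θ d d')
    (hv : Rep A x θ v v')
    (hg : Rep A x θ g g')
    (hE : Rep A x θ E E')
    : Rep A x θ (eC_LEGw A a d v g E)
      (Closed.LEGw a' d' v' g' E') :=
  (Rep.mul (Rep.mul hg hE) (Rep.sub (Rep.add (Rep.sub (Rep.sub (Rep.add (Rep.sub (Rep.add (Rep.sub
    (Rep.mul (Rep.neg (Rep.natLit hA 8)) (Rep.pow ha 3)) (Rep.mul (Rep.mul (Rep.natLit hA 12)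
    (Rep.pow ha 2)) hd)) (Rep.mul (Rep.natLit hA 8) (Rep.pow ha 2))) (Rep.mul (Rep.mul
    (Rep.natLit hA 6) ha) (Rep.pow hd 2))) (Rep.mul (Rep.mul (Rep.natLit hA 8) ha) hd)) (Rep.mul
    (Rep.natLit hA 2) ha)) (Rep.pow hd 3)) (Rep.mul (Rep.natLit hA 2) (Rep.pow hd 2))) hd))

/-- The fraction of `ClosedGen.EG_g`. -/
def eG_EG_g (A : List (List Ex)) (a d v g W : Fn) : Fn :=
  (Fn.add A (Fn.sub A (Fn.mul v (Fn.sub A (Fn.sub A (Fn.add A (Fn.add A (Fn.add A (Fn.add A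
    (Fn.mul v (Fn.sub A (Fn.sub A (Fn.add A (Fn.add A (Fn.add A (Fn.add A (Fn.mul v (Fn.mul
    (Fn.mul (Fn.int 4) a) (Fn.pow d 2))) (Fn.mul (Fn.mul (Fn.int 32) (Fn.pow a 2)) d)) (Fn.mul
    (Fn.mul (Fn.int 32) a) (Fn.pow d 2))) (Fn.mul (Fn.mul (Fn.int 16) a) d)) (Fn.mul (Fn.int 8)
    (Fn.pow d 3))) (Fn.mul (Fn.int 8) (Fn.pow d 2))) (Fn.mul (Fn.int 4) d))) (Fn.mul (Fn.int 32)
    (Fn.pow a 2))) (Fn.mul (Fn.mul (Fn.int 32) a) d)) (Fn.mul (Fn.int 16) a)) (Fn.mul (Fn.int 8)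
    (Fn.pow d 2))) (Fn.mul (Fn.int 28) d)) (Fn.int 4))) (Fn.int 24)) (Fn.mul (Fn.mul g W)
    (Fn.add A (Fn.add A (Fn.mul v (Fn.add A (Fn.add A (Fn.mul v (Fn.sub A (Fn.mul (Fn.neg a)
    (Fn.pow d 2)) (Fn.pow d 3))) (Fn.mul (Fn.mul (Fn.int 6) a) d)) (Fn.mul (Fn.int 6) (Fn.pow d
    2)))) (Fn.mul (Fn.int 6) a)) (Fn.mul (Fn.int 6) d))))

theorem rG_EG_g (hA : AtomsPos A x θ) {a d v g W : Fn} {a' d' v' g' W' : ℝ}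
    (ha : Rep A x θ a a')
    (hd : Rep A x θ d d')
    (hv : Rep A x θ v v')
    (hg : Rep A x θ g g')
    (hW : Rep A x θ W W')
    : Rep A x θ (eG_EG_g A a d v g W)
      (ClosedGen.EG_g a' d' v' g' W') :=
  (Rep.add (Rep.sub (Rep.mul hv (Rep.sub (Rep.sub (Rep.add (Rep.add (Rep.add (Rep.add (Rep.mul hv
    (Rep.sub (Rep.sub (Rep.add (Rep.add (Rep.add (Rep.add (Rep.mul hv (Rep.mul (Rep.mul
    (Rep.natLit hA 4) ha) (Rep.pow hd 2))) (Rep.mul (Rep.mul (Rep.natLit hA 32) (Rep.pow ha 2))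
    hd)) (Rep.mul (Rep.mul (Rep.natLit hA 32) ha) (Rep.pow hd 2))) (Rep.mul (Rep.mul (Rep.natLit
    hA 16) ha) hd)) (Rep.mul (Rep.natLit hA 8) (Rep.pow hd 3))) (Rep.mul (Rep.natLit hA 8)
    (Rep.pow hd 2))) (Rep.mul (Rep.natLit hA 4) hd))) (Rep.mul (Rep.natLit hA 32) (Rep.pow ha
    2))) (Rep.mul (Rep.mul (Rep.natLit hA 32) ha) hd)) (Rep.mul (Rep.natLit hA 16) ha)) (Rep.mul
    (Rep.natLit hA 8) (Rep.pow hd 2))) (Rep.mul (Rep.natLit hA 28) hd)) (Rep.natLit hA 4)))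
    (Rep.natLit hA 24)) (Rep.mul (Rep.mul hg hW) (Rep.add (Rep.add (Rep.mul hv (Rep.add (Rep.add
    (Rep.mul hv (Rep.sub (Rep.mul (Rep.neg ha) (Rep.pow hd 2)) (Rep.pow hd 3))) (Rep.mul
    (Rep.mul (Rep.natLit hA 6) ha) hd)) (Rep.mul (Rep.natLit hA 6) (Rep.pow hd 2)))) (Rep.mul
    (Rep.natLit hA 6) ha)) (Rep.mul (Rep.natLit hA 6) hd))))

/-- The fraction of `ClosedGen.EG_g0`. -/
def eG_EG_g0 (A : List (List Ex)) (a d v : Fn) : Fn :=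
  (Fn.mul v (Fn.int 1))

theorem rG_EG_g0 (hA : AtomsPos A x θ) {a d v : Fn} {a' d' v' : ℝ}
    (ha : Rep A x θ a a')
    (hd : Rep A x θ d d')
    (hv : Rep A x θ v v')
    : Rep A x θ (eG_EG_g0 A a d v)
      (ClosedGen.EG_g0 a' d' v') :=
  (Rep.mul hv (Rep.lit_one hA))

/-- The fraction of `ClosedGen.EG_k1`. -/
def eG_EG_k1 (A : List (List Ex)) (a d v : Fn) : Fn :=
  (Fn.sub A (Fn.sub A (Fn.add A (Fn.add A (Fn.sub A (Fn.add A (Fn.add A (Fn.add A (Fn.add A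
    (Fn.mul (Fn.int 8) (Fn.pow a 3)) (Fn.mul (Fn.mul (Fn.int 12) (Fn.pow a 2)) d)) (Fn.mul
    (Fn.int 4) (Fn.pow a 2))) (Fn.mul (Fn.mul (Fn.int 6) a) (Fn.pow d 2))) (Fn.mul (Fn.mul
    (Fn.int 4) a) d)) (Fn.mul (Fn.int 2) a)) (Fn.pow d 3)) (Fn.pow d 2)) d) (Fn.int 1))

theorem rG_EG_k1 (hA : AtomsPos A x θ) {a d v : Fn} {a' d' v' : ℝ}
    (ha : Rep A x θ a a')
    (hd : Rep A x θ d d')
    (hv : Rep A x θ v v')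
    : Rep A x θ (eG_EG_k1 A a d v)
      (ClosedGen.EG_k1 a' d' v') :=
  (Rep.sub (Rep.sub (Rep.add (Rep.add (Rep.sub (Rep.add (Rep.add (Rep.add (Rep.add (Rep.mul
    (Rep.natLit hA 8) (Rep.pow ha 3)) (Rep.mul (Rep.mul (Rep.natLit hA 12) (Rep.pow ha 2)) hd))
    (Rep.mul (Rep.natLit hA 4) (Rep.pow ha 2))) (Rep.mul (Rep.mul (Rep.natLit hA 6) ha) (Rep.pow
    hd 2))) (Rep.mul (Rep.mul (Rep.natLit hA 4) ha) hd)) (Rep.mul (Rep.natLit hA 2) ha))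
    (Rep.pow hd 3)) (Rep.pow hd 2)) hd) (Rep.lit_one hA))

/-- The fraction of `ClosedGen.EG_kv`. -/
def eG_EG_kv (A : List (List Ex)) (a d v : Fn) : Fn :=
  (Fn.sub A (Fn.add A (Fn.mul (Fn.int 2) a) d) (Fn.int 1))

theorem rG_EG_kv (hA : AtomsPos A x θ) {a d v : Fn} {a' d' v' : ℝ}
    (ha : Rep A x θ a a')
    (hd : Rep A x θ d d')
    (hv : Rep A x θ v v')
    : Rep A x θ (eG_EG_kv A a d v)
      (ClosedGen.EG_kv a' d' v') :=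
  (Rep.sub (Rep.add (Rep.mul (Rep.natLit hA 2) ha) hd) (Rep.lit_one hA))

/-- The fraction of `ClosedGen.LEGS`. -/
def eG_LEGS (A : List (List Ex)) (a d v g W W1 R t_c t_e2 t_E t_K t_G t_G1 t_D2 : Fn) : Fn :=
  (Fn.add A (Fn.add A (Fn.add A (Fn.add A (Fn.add A (Fn.add A (Fn.add A (Fn.mul (Fn.mul (Fn.mul
    (Fn.mul (Fn.int 2) a) v) (Fn.add A (Fn.int 1) (Fn.mul d v))) (eC_LEG1 A a d v)) (Fn.mul
    (Fn.mul (Fn.mul t_c v) (Fn.add A (Fn.int 1) (Fn.mul d v))) (eC_LEGc A a d v g W))) (Fn.mul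
    (Fn.mul (Fn.mul (Fn.mul (Fn.mul (Fn.int 4) t_e2) a) v) (Fn.pow (Fn.add A (Fn.int 2) (Fn.mul
    d v)) 2)) (eC_LEGv A a d v g W))) (Fn.mul (Fn.mul (Fn.mul (Fn.mul (Fn.int 2) a) v) (Fn.add A
    (Fn.int 1) (Fn.mul d v))) (eC_LEGw A a d v g t_E))) (Fn.mul (Fn.mul (Fn.mul (Fn.mul (Fn.int
    2) t_G) d) (Fn.add A (Fn.int 2) (Fn.mul d v))) (eG_EG_g A a d v g W))) (Fn.mul (Fn.mul
    (Fn.mul (Fn.mul (Fn.mul (Fn.int 8) t_G1) v) (Fn.pow d 2)) (Fn.pow (Fn.add A (Fn.int 2)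
    (Fn.mul d v)) 2)) (eG_EG_g0 A a d v))) (Fn.mul (Fn.mul (Fn.mul (Fn.mul (Fn.mul (Fn.mul
    (Fn.int 2) t_D2) a) (Fn.add A a d)) (Fn.pow (Fn.add A (Fn.int 2) (Fn.mul d v)) 2)) (Fn.add A
    (Fn.int 1) (Fn.mul d v))) (eG_EG_k1 A a d v))) (Fn.mul (Fn.mul (Fn.mul (Fn.mul (Fn.mul
    (Fn.mul (Fn.int 4) t_D2) t_e2) a) (Fn.add A a d)) (Fn.pow (Fn.add A (Fn.int 2) (Fn.mul d v))
    4)) (eG_EG_kv A a d v)))

theorem rG_LEGS (hA : AtomsPos A x θ) {a d v g W W1 R t_c t_e2 t_E t_K t_G t_G1 t_D2 : Fn} {a' d' v' g' W' W1' R' : ℝ} {tt : ClosedGen.Num}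
    (ha : Rep A x θ a a')
    (hd : Rep A x θ d d')
    (hv : Rep A x θ v v')
    (hg : Rep A x θ g g')
    (hW : Rep A x θ W W')
    (hW1 : Rep A x θ W1 W1')
    (hR : Rep A x θ R R')
    (ht_c : Rep A x θ t_c tt.c)
    (ht_e2 : Rep A x θ t_e2 tt.e2)
    (ht_E : Rep A x θ t_E tt.E)
    (ht_K : Rep A x θ t_K tt.K)
    (ht_G : Rep A x θ t_G tt.G)
    (ht_G1 : Rep A x θ t_G1 tt.G1)
    (ht_D2 : Rep A x θ t_D2 tt.D2)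
    : Rep A x θ (eG_LEGS A a d v g W W1 R t_c t_e2 t_E t_K t_G t_G1 t_D2)
      (ClosedGen.LEGS a' d' v' g' W' W1' R' tt) :=
  (Rep.add (Rep.add (Rep.add (Rep.add (Rep.add (Rep.add (Rep.add (Rep.mul (Rep.mul (Rep.mul
    (Rep.mul (Rep.natLit hA 2) ha) hv) (Rep.add (Rep.lit_one hA) (Rep.mul hd hv))) (rC_LEG1 hA
    ha hd hv)) (Rep.mul (Rep.mul (Rep.mul ht_c hv) (Rep.add (Rep.lit_one hA) (Rep.mul hd hv)))
    (rC_LEGc hA ha hd hv hg hW))) (Rep.mul (Rep.mul (Rep.mul (Rep.mul (Rep.mul (Rep.natLit hA 4)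
    ht_e2) ha) hv) (Rep.pow (Rep.add (Rep.natLit hA 2) (Rep.mul hd hv)) 2)) (rC_LEGv hA ha hd hv
    hg hW))) (Rep.mul (Rep.mul (Rep.mul (Rep.mul (Rep.natLit hA 2) ha) hv) (Rep.add (Rep.lit_one
    hA) (Rep.mul hd hv))) (rC_LEGw hA ha hd hv hg ht_E))) (Rep.mul (Rep.mul (Rep.mul (Rep.mul
    (Rep.natLit hA 2) ht_G) hd) (Rep.add (Rep.natLit hA 2) (Rep.mul hd hv))) (rG_EG_g hA ha hd
    hv hg hW))) (Rep.mul (Rep.mul (Rep.mul (Rep.mul (Rep.mul (Rep.natLit hA 8) ht_G1) hv)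
    (Rep.pow hd 2)) (Rep.pow (Rep.add (Rep.natLit hA 2) (Rep.mul hd hv)) 2)) (rG_EG_g0 hA ha hd
    hv))) (Rep.mul (Rep.mul (Rep.mul (Rep.mul (Rep.mul (Rep.mul (Rep.natLit hA 2) ht_D2) ha)
    (Rep.add ha hd)) (Rep.pow (Rep.add (Rep.natLit hA 2) (Rep.mul hd hv)) 2)) (Rep.add
    (Rep.lit_one hA) (Rep.mul hd hv))) (rG_EG_k1 hA ha hd hv))) (Rep.mul (Rep.mul (Rep.mul
    (Rep.mul (Rep.mul (Rep.mul (Rep.natLit hA 4) ht_D2) ht_e2) ha) (Rep.add ha hd)) (Rep.pow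
    (Rep.add (Rep.natLit hA 2) (Rep.mul hd hv)) 4)) (rG_EG_kv hA ha hd hv)))

/-- The fraction of `Closed.LGGc`. -/
def eC_LGGc (A : List (List Ex)) (a d v : Fn) : Fn :=
  (Fn.add A (Fn.sub A (Fn.add A (Fn.sub A (Fn.add A (Fn.sub A (Fn.sub A (Fn.sub A (Fn.mul v
    (Fn.add A (Fn.sub A (Fn.add A (Fn.sub A (Fn.add A (Fn.sub A (Fn.sub A (Fn.mul (Fn.mul
    (Fn.neg (Fn.int 4)) (Fn.pow a 4)) d) (Fn.mul (Fn.mul (Fn.int 12) (Fn.pow a 3)) (Fn.pow d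
    2))) (Fn.mul (Fn.mul (Fn.int 13) (Fn.pow a 2)) (Fn.pow d 3))) (Fn.mul (Fn.pow a 2) d))
    (Fn.mul (Fn.mul (Fn.int 6) a) (Fn.pow d 4))) (Fn.mul (Fn.mul (Fn.int 2) a) (Fn.pow d 2)))
    (Fn.pow d 5)) (Fn.pow d 3))) (Fn.mul (Fn.int 8) (Fn.pow a 4))) (Fn.mul (Fn.mul (Fn.int 16)
    (Fn.pow a 3)) d)) (Fn.mul (Fn.mul (Fn.int 14) (Fn.pow a 2)) (Fn.pow d 2))) (Fn.mul (Fn.int
    2) (Fn.pow a 2))) (Fn.mul (Fn.mul (Fn.int 6) a) (Fn.pow d 3))) (Fn.mul (Fn.mul (Fn.int 2) a)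
    d)) (Fn.pow d 4)) (Fn.pow d 2))

theorem rC_LGGc (hA : AtomsPos A x θ) {a d v : Fn} {a' d' v' : ℝ}
    (ha : Rep A x θ a a')
    (hd : Rep A x θ d d')
    (hv : Rep A x θ v v')
    : Rep A x θ (eC_LGGc A a d v)
      (Closed.LGGc a' d' v') :=
  (Rep.add (Rep.sub (Rep.add (Rep.sub (Rep.add (Rep.sub (Rep.sub (Rep.sub (Rep.mul hv (Rep.add
    (Rep.sub (Rep.add (Rep.sub (Rep.add (Rep.sub (Rep.sub (Rep.mul (Rep.mul (Rep.neg (Rep.natLit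
    hA 4)) (Rep.pow ha 4)) hd) (Rep.mul (Rep.mul (Rep.natLit hA 12) (Rep.pow ha 3)) (Rep.pow hd
    2))) (Rep.mul (Rep.mul (Rep.natLit hA 13) (Rep.pow ha 2)) (Rep.pow hd 3))) (Rep.mul (Rep.pow
    ha 2) hd)) (Rep.mul (Rep.mul (Rep.natLit hA 6) ha) (Rep.pow hd 4))) (Rep.mul (Rep.mul
    (Rep.natLit hA 2) ha) (Rep.pow hd 2))) (Rep.pow hd 5)) (Rep.pow hd 3))) (Rep.mul (Rep.natLit
    hA 8) (Rep.pow ha 4))) (Rep.mul (Rep.mul (Rep.natLit hA 16) (Rep.pow ha 3)) hd)) (Rep.mul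
    (Rep.mul (Rep.natLit hA 14) (Rep.pow ha 2)) (Rep.pow hd 2))) (Rep.mul (Rep.natLit hA 2)
    (Rep.pow ha 2))) (Rep.mul (Rep.mul (Rep.natLit hA 6) ha) (Rep.pow hd 3))) (Rep.mul (Rep.mul
    (Rep.natLit hA 2) ha) hd)) (Rep.pow hd 4)) (Rep.pow hd 2))

/-- The fraction of `Closed.LGGv`. -/
def eC_LGGv (A : List (List Ex)) (a d v : Fn) : Fn :=
  (Fn.sub A (Fn.add A (Fn.sub A (Fn.add A (Fn.sub A (Fn.add A (Fn.mul (Fn.int 4) (Fn.pow a 3))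
    (Fn.mul (Fn.mul (Fn.int 8) (Fn.pow a 2)) d)) (Fn.mul (Fn.int 2) (Fn.pow a 2))) (Fn.mul
    (Fn.mul (Fn.int 5) a) (Fn.pow d 2))) (Fn.mul (Fn.mul (Fn.int 3) a) d)) (Fn.pow d 3)) (Fn.pow
    d 2))

theorem rC_LGGv (hA : AtomsPos A x θ) {a d v : Fn} {a' d' v' : ℝ}
    (ha : Rep A x θ a a')
    (hd : Rep A x θ d d')
    (hv : Rep A x θ v v')
    : Rep A x θ (eC_LGGv A a d v)
      (Closed.LGGv a' d' v') :=
  (Rep.sub (Rep.add (Rep.sub (Rep.add (Rep.sub (Rep.add (Rep.mul (Rep.natLit hA 4) (Rep.pow ha 3))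
    (Rep.mul (Rep.mul (Rep.natLit hA 8) (Rep.pow ha 2)) hd)) (Rep.mul (Rep.natLit hA 2) (Rep.pow
    ha 2))) (Rep.mul (Rep.mul (Rep.natLit hA 5) ha) (Rep.pow hd 2))) (Rep.mul (Rep.mul
    (Rep.natLit hA 3) ha) hd)) (Rep.pow hd 3)) (Rep.pow hd 2))

/-- The fraction of `ClosedGen.GG_g`. -/
def eG_GG_g (A : List (List Ex)) (a d v g W : Fn) : Fn :=
  (Fn.add A (Fn.add A (Fn.add A (Fn.mul v (Fn.sub A (Fn.sub A (Fn.add A (Fn.sub A (Fn.add A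
    (Fn.mul (Fn.int 4) (Fn.pow a 2)) (Fn.mul (Fn.mul (Fn.int 6) a) d)) (Fn.mul (Fn.int 2) a))
    (Fn.mul (Fn.int 2) (Fn.pow d 2))) d) (Fn.int 1))) (Fn.mul (Fn.int 4) a)) (Fn.mul (Fn.int 2)
    d)) (Fn.mul (Fn.mul g W) (Fn.add A a d)))

theorem rG_GG_g (hA : AtomsPos A x θ) {a d v g W : Fn} {a' d' v' g' W' : ℝ}
    (ha : Rep A x θ a a')
    (hd : Rep A x θ d d')
    (hv : Rep A x θ v v')
    (hg : Rep A x θ g g')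
    (hW : Rep A x θ W W')
    : Rep A x θ (eG_GG_g A a d v g W)
      (ClosedGen.GG_g a' d' v' g' W') :=
  (Rep.add (Rep.add (Rep.add (Rep.mul hv (Rep.sub (Rep.sub (Rep.add (Rep.sub (Rep.add (Rep.mul
    (Rep.natLit hA 4) (Rep.pow ha 2)) (Rep.mul (Rep.mul (Rep.natLit hA 6) ha) hd)) (Rep.mul
    (Rep.natLit hA 2) ha)) (Rep.mul (Rep.natLit hA 2) (Rep.pow hd 2))) hd) (Rep.lit_one hA)))
    (Rep.mul (Rep.natLit hA 4) ha)) (Rep.mul (Rep.natLit hA 2) hd)) (Rep.mul (Rep.mul hg hW)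
    (Rep.add ha hd)))

/-- The fraction of `ClosedGen.GG_g0`. -/
def eG_GG_g0 (A : List (List Ex)) (a d v : Fn) : Fn :=
  (Fn.neg (Fn.int 2))

theorem rG_GG_g0 (hA : AtomsPos A x θ) {a d v : Fn} {a' d' v' : ℝ}
    (ha : Rep A x θ a a')
    (hd : Rep A x θ d d')
    (hv : Rep A x θ v v')
    : Rep A x θ (eG_GG_g0 A a d v)
      (ClosedGen.GG_g0 a' d' v') :=
  (Rep.neg (Rep.natLit hA 2))

/-- The fraction of `ClosedGen.GG_kg`. -/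
def eG_GG_kg (A : List (List Ex)) (a d v : Fn) : Fn :=
  (Fn.sub A (Fn.add A (Fn.mul (Fn.int 2) a) d) (Fn.int 1))

theorem rG_GG_kg (hA : AtomsPos A x θ) {a d v : Fn} {a' d' v' : ℝ}
    (ha : Rep A x θ a a')
    (hd : Rep A x θ d d')
    (hv : Rep A x θ v v')
    : Rep A x θ (eG_GG_kg A a d v)
      (ClosedGen.GG_kg a' d' v') :=
  (Rep.sub (Rep.add (Rep.mul (Rep.natLit hA 2) ha) hd) (Rep.lit_one hA))

/-- The fraction of `ClosedGen.LGGS`. -/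
def eG_LGGS (A : List (List Ex)) (a d v g W W1 R t_c t_e2 t_E t_K t_G t_G1 t_D2 : Fn) : Fn :=
  (Fn.add A (Fn.add A (Fn.add A (Fn.add A (Fn.mul (Fn.mul t_c v) (eC_LGGc A a d v)) (Fn.mul
    (Fn.mul (Fn.mul (Fn.mul t_e2 a) v) (Fn.add A (Fn.int 2) (Fn.mul d v))) (eC_LGGv A a d v)))
    (Fn.mul (Fn.mul (Fn.mul t_G v) (Fn.pow d 3)) (eG_GG_g A a d v g W))) (Fn.mul (Fn.mul (Fn.mul
    (Fn.mul (Fn.mul (Fn.int 2) t_G1) v) (Fn.pow d 2)) (Fn.add A (Fn.int 2) (Fn.mul d v)))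
    (eG_GG_g0 A a d v))) (Fn.mul (Fn.mul (Fn.mul (Fn.mul t_D2 t_G) (Fn.pow d 3)) (Fn.pow (Fn.add
    A (Fn.int 2) (Fn.mul d v)) 2)) (eG_GG_kg A a d v)))

theorem rG_LGGS (hA : AtomsPos A x θ) {a d v g W W1 R t_c t_e2 t_E t_K t_G t_G1 t_D2 : Fn} {a' d' v' g' W' W1' R' : ℝ} {tt : ClosedGen.Num}
    (ha : Rep A x θ a a')
    (hd : Rep A x θ d d')
    (hv : Rep A x θ v v')
    (hg : Rep A x θ g g')
    (hW : Rep A x θ W W')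
    (hW1 : Rep A x θ W1 W1')
    (hR : Rep A x θ R R')
    (ht_c : Rep A x θ t_c tt.c)
    (ht_e2 : Rep A x θ t_e2 tt.e2)
    (ht_E : Rep A x θ t_E tt.E)
    (ht_K : Rep A x θ t_K tt.K)
    (ht_G : Rep A x θ t_G tt.G)
    (ht_G1 : Rep A x θ t_G1 tt.G1)
    (ht_D2 : Rep A x θ t_D2 tt.D2)
    : Rep A x θ (eG_LGGS A a d v g W W1 R t_c t_e2 t_E t_K t_G t_G1 t_D2)
      (ClosedGen.LGGS a' d' v' g' W' W1' R' tt) :=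
  (Rep.add (Rep.add (Rep.add (Rep.add (Rep.mul (Rep.mul ht_c hv) (rC_LGGc hA ha hd hv)) (Rep.mul
    (Rep.mul (Rep.mul (Rep.mul ht_e2 ha) hv) (Rep.add (Rep.natLit hA 2) (Rep.mul hd hv)))
    (rC_LGGv hA ha hd hv))) (Rep.mul (Rep.mul (Rep.mul ht_G hv) (Rep.pow hd 3)) (rG_GG_g hA ha
    hd hv hg hW))) (Rep.mul (Rep.mul (Rep.mul (Rep.mul (Rep.mul (Rep.natLit hA 2) ht_G1) hv)
    (Rep.pow hd 2)) (Rep.add (Rep.natLit hA 2) (Rep.mul hd hv))) (rG_GG_g0 hA ha hd hv)))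
    (Rep.mul (Rep.mul (Rep.mul (Rep.mul ht_D2 ht_G) (Rep.pow hd 3)) (Rep.pow (Rep.add
    (Rep.natLit hA 2) (Rep.mul hd hv)) 2)) (rG_GG_kg hA ha hd hv)))

/-- The fraction of `Closed.LLGc`. -/
def eC_LLGc (A : List (List Ex)) (a d v W R : Fn) : Fn :=
  (Fn.add A (Fn.add A (Fn.add A (Fn.sub A (Fn.add A (Fn.add A (Fn.sub A (Fn.add A (Fn.sub A
    (Fn.sub A (Fn.mul (Fn.neg (Fn.int 8)) (Fn.pow a 4)) (Fn.mul (Fn.mul (Fn.int 20) (Fn.pow a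
    3)) d)) (Fn.mul (Fn.mul (Fn.int 18) (Fn.pow a 2)) (Fn.pow d 2))) (Fn.mul (Fn.int 6) (Fn.pow
    a 2))) (Fn.mul (Fn.mul (Fn.int 7) a) (Fn.pow d 3))) (Fn.mul (Fn.mul (Fn.int 9) a) d))
    (Fn.mul (Fn.int 2) a)) (Fn.pow d 4)) (Fn.mul (Fn.int 3) (Fn.pow d 2))) (Fn.mul (Fn.int 2)
    d)) (Fn.mul (Fn.mul W R) (Fn.sub A (Fn.sub A (Fn.sub A (Fn.add A (Fn.sub A (Fn.sub A (Fn.sub
    A (Fn.add A (Fn.sub A (Fn.sub A (Fn.add A (Fn.add A (Fn.mul (Fn.mul (Fn.int 4) (Fn.pow a 4))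
    d) (Fn.mul (Fn.mul (Fn.int 12) (Fn.pow a 3)) (Fn.pow d 2))) (Fn.mul (Fn.mul (Fn.int 13)
    (Fn.pow a 2)) (Fn.pow d 3))) (Fn.mul (Fn.mul (Fn.int 2) (Fn.pow a 2)) (Fn.pow d 2))) (Fn.mul
    (Fn.mul (Fn.int 3) (Fn.pow a 2)) d)) (Fn.mul (Fn.mul (Fn.int 6) a) (Fn.pow d 4))) (Fn.mul
    (Fn.mul (Fn.int 3) a) (Fn.pow d 3))) (Fn.mul (Fn.mul (Fn.int 6) a) (Fn.pow d 2))) (Fn.mul a
    d)) (Fn.pow d 5)) (Fn.pow d 4)) (Fn.mul (Fn.int 3) (Fn.pow d 3))) (Fn.pow d 2))))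

theorem rC_LLGc (hA : AtomsPos A x θ) {a d v W R : Fn} {a' d' v' W' R' : ℝ}
    (ha : Rep A x θ a a')
    (hd : Rep A x θ d d')
    (hv : Rep A x θ v v')
    (hW : Rep A x θ W W')
    (hR : Rep A x θ R R')
    : Rep A x θ (eC_LLGc A a d v W R)
      (Closed.LLGc a' d' v' W' R') :=
  (Rep.add (Rep.add (Rep.add (Rep.sub (Rep.add (Rep.add (Rep.sub (Rep.add (Rep.sub (Rep.sub
    (Rep.mul (Rep.neg (Rep.natLit hA 8)) (Rep.pow ha 4)) (Rep.mul (Rep.mul (Rep.natLit hA 20)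
    (Rep.pow ha 3)) hd)) (Rep.mul (Rep.mul (Rep.natLit hA 18) (Rep.pow ha 2)) (Rep.pow hd 2)))
    (Rep.mul (Rep.natLit hA 6) (Rep.pow ha 2))) (Rep.mul (Rep.mul (Rep.natLit hA 7) ha) (Rep.pow
    hd 3))) (Rep.mul (Rep.mul (Rep.natLit hA 9) ha) hd)) (Rep.mul (Rep.natLit hA 2) ha))
    (Rep.pow hd 4)) (Rep.mul (Rep.natLit hA 3) (Rep.pow hd 2))) (Rep.mul (Rep.natLit hA 2) hd))
    (Rep.mul (Rep.mul hW hR) (Rep.sub (Rep.sub (Rep.sub (Rep.add (Rep.sub (Rep.sub (Rep.sub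
    (Rep.add (Rep.sub (Rep.sub (Rep.add (Rep.add (Rep.mul (Rep.mul (Rep.natLit hA 4) (Rep.pow ha
    4)) hd) (Rep.mul (Rep.mul (Rep.natLit hA 12) (Rep.pow ha 3)) (Rep.pow hd 2))) (Rep.mul
    (Rep.mul (Rep.natLit hA 13) (Rep.pow ha 2)) (Rep.pow hd 3))) (Rep.mul (Rep.mul (Rep.natLit
    hA 2) (Rep.pow ha 2)) (Rep.pow hd 2))) (Rep.mul (Rep.mul (Rep.natLit hA 3) (Rep.pow ha 2))
    hd)) (Rep.mul (Rep.mul (Rep.natLit hA 6) ha) (Rep.pow hd 4))) (Rep.mul (Rep.mul (Rep.natLit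
    hA 3) ha) (Rep.pow hd 3))) (Rep.mul (Rep.mul (Rep.natLit hA 6) ha) (Rep.pow hd 2))) (Rep.mul
    ha hd)) (Rep.pow hd 5)) (Rep.pow hd 4)) (Rep.mul (Rep.natLit hA 3) (Rep.pow hd 3))) (Rep.pow
    hd 2))))

/-- The fraction of `Closed.LLGv`. -/
def eC_LLGv (A : List (List Ex)) (a d v W R : Fn) : Fn :=
  (Fn.add A (Fn.sub A (Fn.add A (Fn.sub A (Fn.add A (Fn.sub A (Fn.add A (Fn.add A (Fn.mul v
    (Fn.sub A (Fn.add A (Fn.sub A (Fn.add A (Fn.sub A (Fn.add A (Fn.mul (Fn.mul (Fn.int 2)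
    (Fn.pow a 3)) d) (Fn.mul (Fn.mul (Fn.int 5) (Fn.pow a 2)) (Fn.pow d 2))) (Fn.mul (Fn.pow a
    2) d)) (Fn.mul (Fn.mul (Fn.int 4) a) (Fn.pow d 3))) (Fn.mul (Fn.mul (Fn.int 2) a) (Fn.pow d
    2))) (Fn.pow d 4)) (Fn.pow d 3))) (Fn.mul (Fn.int 4) (Fn.pow a 3))) (Fn.mul (Fn.mul (Fn.int
    10) (Fn.pow a 2)) d)) (Fn.mul (Fn.int 2) (Fn.pow a 2))) (Fn.mul (Fn.mul (Fn.int 8) a)
    (Fn.pow d 2))) (Fn.mul (Fn.mul (Fn.int 4) a) d)) (Fn.mul (Fn.int 2) (Fn.pow d 3))) (Fn.mul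
    (Fn.int 2) (Fn.pow d 2))) (Fn.mul (Fn.mul W R) (Fn.add A (Fn.sub A (Fn.add A (Fn.sub A
    (Fn.add A (Fn.sub A (Fn.mul (Fn.mul (Fn.neg (Fn.int 2)) (Fn.pow a 3)) d) (Fn.mul (Fn.mul
    (Fn.int 5) (Fn.pow a 2)) (Fn.pow d 2))) (Fn.mul (Fn.pow a 2) d)) (Fn.mul (Fn.mul (Fn.int 4)
    a) (Fn.pow d 3))) (Fn.mul (Fn.mul (Fn.int 2) a) (Fn.pow d 2))) (Fn.pow d 4)) (Fn.pow d 3))))

theorem rC_LLGv (hA : AtomsPos A x θ) {a d v W R : Fn} {a' d' v' W' R' : ℝ}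
    (ha : Rep A x θ a a')
    (hd : Rep A x θ d d')
    (hv : Rep A x θ v v')
    (hW : Rep A x θ W W')
    (hR : Rep A x θ R R')
    : Rep A x θ (eC_LLGv A a d v W R)
      (Closed.LLGv a' d' v' W' R') :=
  (Rep.add (Rep.sub (Rep.add (Rep.sub (Rep.add (Rep.sub (Rep.add (Rep.add (Rep.mul hv (Rep.sub
    (Rep.add (Rep.sub (Rep.add (Rep.sub (Rep.add (Rep.mul (Rep.mul (Rep.natLit hA 2) (Rep.pow ha
    3)) hd) (Rep.mul (Rep.mul (Rep.natLit hA 5) (Rep.pow ha 2)) (Rep.pow hd 2))) (Rep.mul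
    (Rep.pow ha 2) hd)) (Rep.mul (Rep.mul (Rep.natLit hA 4) ha) (Rep.pow hd 3))) (Rep.mul
    (Rep.mul (Rep.natLit hA 2) ha) (Rep.pow hd 2))) (Rep.pow hd 4)) (Rep.pow hd 3))) (Rep.mul
    (Rep.natLit hA 4) (Rep.pow ha 3))) (Rep.mul (Rep.mul (Rep.natLit hA 10) (Rep.pow ha 2)) hd))
    (Rep.mul (Rep.natLit hA 2) (Rep.pow ha 2))) (Rep.mul (Rep.mul (Rep.natLit hA 8) ha) (Rep.pow
    hd 2))) (Rep.mul (Rep.mul (Rep.natLit hA 4) ha) hd)) (Rep.mul (Rep.natLit hA 2) (Rep.pow hd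
    3))) (Rep.mul (Rep.natLit hA 2) (Rep.pow hd 2))) (Rep.mul (Rep.mul hW hR) (Rep.add (Rep.sub
    (Rep.add (Rep.sub (Rep.add (Rep.sub (Rep.mul (Rep.mul (Rep.neg (Rep.natLit hA 2)) (Rep.pow
    ha 3)) hd) (Rep.mul (Rep.mul (Rep.natLit hA 5) (Rep.pow ha 2)) (Rep.pow hd 2))) (Rep.mul
    (Rep.pow ha 2) hd)) (Rep.mul (Rep.mul (Rep.natLit hA 4) ha) (Rep.pow hd 3))) (Rep.mul
    (Rep.mul (Rep.natLit hA 2) ha) (Rep.pow hd 2))) (Rep.pow hd 4)) (Rep.pow hd 3))))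

/-- The fraction of `Closed.LLGw`. -/
def eC_LLGw (A : List (List Ex)) (a d v R E K : Fn) : Fn :=
  (Fn.add A (Fn.add A (Fn.mul E (Fn.sub A (Fn.add A (Fn.sub A (Fn.add A (Fn.add A (Fn.mul v
    (Fn.sub A (Fn.add A (Fn.sub A (Fn.add A (Fn.mul (Fn.mul (Fn.int 8) (Fn.pow a 2)) d) (Fn.mul
    (Fn.mul (Fn.int 12) a) (Fn.pow d 2))) (Fn.mul (Fn.mul (Fn.int 4) a) d)) (Fn.mul (Fn.int 4)
    (Fn.pow d 3))) (Fn.mul (Fn.int 4) (Fn.pow d 2)))) (Fn.mul (Fn.int 16) (Fn.pow a 2))) (Fn.mul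
    (Fn.mul (Fn.int 24) a) d)) (Fn.mul (Fn.int 8) a)) (Fn.mul (Fn.int 8) (Fn.pow d 2))) (Fn.mul
    (Fn.int 8) d))) (Fn.mul (Fn.mul R K) (Fn.mul v (Fn.add A (Fn.sub A (Fn.sub A (Fn.mul v
    (Fn.add A (Fn.sub A (Fn.mul (Fn.mul (Fn.neg (Fn.int 8)) a) d) (Fn.mul (Fn.int 4) (Fn.pow d
    2))) (Fn.mul (Fn.int 4) d))) (Fn.mul (Fn.int 16) a)) (Fn.mul (Fn.int 8) d)) (Fn.int 8)))))
    (Fn.mul (Fn.mul R E) (Fn.add A (Fn.sub A (Fn.add A (Fn.sub A (Fn.add A (Fn.add A (Fn.mul v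
    (Fn.sub A (Fn.add A (Fn.sub A (Fn.add A (Fn.add A (Fn.mul v (Fn.sub A (Fn.add A (Fn.sub A
    (Fn.add A (Fn.mul (Fn.mul (Fn.neg (Fn.int 2)) a) (Fn.pow d 3)) (Fn.mul (Fn.mul (Fn.int 2) a)
    (Fn.pow d 2))) (Fn.pow d 4)) (Fn.mul (Fn.int 2) (Fn.pow d 3))) (Fn.pow d 2))) (Fn.mul
    (Fn.mul (Fn.int 16) (Fn.pow a 2)) d)) (Fn.mul (Fn.mul (Fn.int 12) a) (Fn.pow d 2))) (Fn.mul
    (Fn.mul (Fn.int 8) a) d)) (Fn.mul (Fn.int 2) (Fn.pow d 3))) (Fn.mul (Fn.int 2) (Fn.pow d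
    2)))) (Fn.mul (Fn.int 16) (Fn.pow a 2))) (Fn.mul (Fn.mul (Fn.int 16) a) d)) (Fn.mul (Fn.int
    16) a)) (Fn.mul (Fn.int 4) (Fn.pow d 2))) (Fn.mul (Fn.int 8) d)) (Fn.int 4))))

theorem rC_LLGw (hA : AtomsPos A x θ) {a d v R E K : Fn} {a' d' v' R' E' K' : ℝ}
    (ha : Rep A x θ a a')
    (hd : Rep A x θ d d')
    (hv : Rep A x θ v v')
    (hR : Rep A x θ R R')
    (hE : Rep A x θ E E')
    (hK : Rep A x θ K K')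
    : Rep A x θ (eC_LLGw A a d v R E K)
      (Closed.LLGw a' d' v' R' E' K') :=
  (Rep.add (Rep.add (Rep.mul hE (Rep.sub (Rep.add (Rep.sub (Rep.add (Rep.add (Rep.mul hv (Rep.sub
    (Rep.add (Rep.sub (Rep.add (Rep.mul (Rep.mul (Rep.natLit hA 8) (Rep.pow ha 2)) hd) (Rep.mul
    (Rep.mul (Rep.natLit hA 12) ha) (Rep.pow hd 2))) (Rep.mul (Rep.mul (Rep.natLit hA 4) ha)
    hd)) (Rep.mul (Rep.natLit hA 4) (Rep.pow hd 3))) (Rep.mul (Rep.natLit hA 4) (Rep.pow hd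
    2)))) (Rep.mul (Rep.natLit hA 16) (Rep.pow ha 2))) (Rep.mul (Rep.mul (Rep.natLit hA 24) ha)
    hd)) (Rep.mul (Rep.natLit hA 8) ha)) (Rep.mul (Rep.natLit hA 8) (Rep.pow hd 2))) (Rep.mul
    (Rep.natLit hA 8) hd))) (Rep.mul (Rep.mul hR hK) (Rep.mul hv (Rep.add (Rep.sub (Rep.sub
    (Rep.mul hv (Rep.add (Rep.sub (Rep.mul (Rep.mul (Rep.neg (Rep.natLit hA 8)) ha) hd) (Rep.mul
    (Rep.natLit hA 4) (Rep.pow hd 2))) (Rep.mul (Rep.natLit hA 4) hd))) (Rep.mul (Rep.natLit hA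
    16) ha)) (Rep.mul (Rep.natLit hA 8) hd)) (Rep.natLit hA 8))))) (Rep.mul (Rep.mul hR hE)
    (Rep.add (Rep.sub (Rep.add (Rep.sub (Rep.add (Rep.add (Rep.mul hv (Rep.sub (Rep.add (Rep.sub
    (Rep.add (Rep.add (Rep.mul hv (Rep.sub (Rep.add (Rep.sub (Rep.add (Rep.mul (Rep.mul (Rep.neg
    (Rep.natLit hA 2)) ha) (Rep.pow hd 3)) (Rep.mul (Rep.mul (Rep.natLit hA 2) ha) (Rep.pow hd
    2))) (Rep.pow hd 4)) (Rep.mul (Rep.natLit hA 2) (Rep.pow hd 3))) (Rep.pow hd 2))) (Rep.mul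
    (Rep.mul (Rep.natLit hA 16) (Rep.pow ha 2)) hd)) (Rep.mul (Rep.mul (Rep.natLit hA 12) ha)
    (Rep.pow hd 2))) (Rep.mul (Rep.mul (Rep.natLit hA 8) ha) hd)) (Rep.mul (Rep.natLit hA 2)
    (Rep.pow hd 3))) (Rep.mul (Rep.natLit hA 2) (Rep.pow hd 2)))) (Rep.mul (Rep.natLit hA 16)
    (Rep.pow ha 2))) (Rep.mul (Rep.mul (Rep.natLit hA 16) ha) hd)) (Rep.mul (Rep.natLit hA 16)
    ha)) (Rep.mul (Rep.natLit hA 4) (Rep.pow hd 2))) (Rep.mul (Rep.natLit hA 8) hd)) (Rep.natLit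
    hA 4))))

/-- The fraction of `ClosedGen.LG_g`. -/
def eG_LG_g (A : List (List Ex)) (a d v W R : Fn) : Fn :=
  (Fn.mul (Fn.mul W R) (Fn.add A (Fn.sub A (Fn.mul (Fn.neg (Fn.int 2)) a) d) (Fn.int 2)))

theorem rG_LG_g (hA : AtomsPos A x θ) {a d v W R : Fn} {a' d' v' W' R' : ℝ}
    (ha : Rep A x θ a a')
    (hd : Rep A x θ d d')
    (hv : Rep A x θ v v')
    (hW : Rep A x θ W W')
    (hR : Rep A x θ R R')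
    : Rep A x θ (eG_LG_g A a d v W R)
      (ClosedGen.LG_g a' d' v' W' R') :=
  (Rep.mul (Rep.mul hW hR) (Rep.add (Rep.sub (Rep.mul (Rep.neg (Rep.natLit hA 2)) ha) hd)
    (Rep.natLit hA 2)))

/-- The fraction of `ClosedGen.LG_kw`. -/
def eG_LG_kw (A : List (List Ex)) (a d v R E : Fn) : Fn :=
  (Fn.mul (Fn.mul R E) (Fn.add A (Fn.sub A (Fn.add A (Fn.sub A (Fn.add A (Fn.mul (Fn.int 4)
    (Fn.pow a 2)) (Fn.mul (Fn.mul (Fn.int 4) a) d)) (Fn.mul (Fn.int 4) a)) (Fn.pow d 2)) (Fn.mul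
    (Fn.int 2) d)) (Fn.int 1)))

theorem rG_LG_kw (hA : AtomsPos A x θ) {a d v R E : Fn} {a' d' v' R' E' : ℝ}
    (ha : Rep A x θ a a')
    (hd : Rep A x θ d d')
    (hv : Rep A x θ v v')
    (hR : Rep A x θ R R')
    (hE : Rep A x θ E E')
    : Rep A x θ (eG_LG_kw A a d v R E)
      (ClosedGen.LG_kw a' d' v' R' E') :=
  (Rep.mul (Rep.mul hR hE) (Rep.add (Rep.sub (Rep.add (Rep.sub (Rep.add (Rep.mul (Rep.natLit hA 4)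
    (Rep.pow ha 2)) (Rep.mul (Rep.mul (Rep.natLit hA 4) ha) hd)) (Rep.mul (Rep.natLit hA 4) ha))
    (Rep.pow hd 2)) (Rep.mul (Rep.natLit hA 2) hd)) (Rep.lit_one hA)))

/-- The fraction of `ClosedGen.LLGS`. -/
def eG_LLGS (A : List (List Ex)) (a d v g W W1 R t_c t_e2 t_E t_K t_G t_G1 t_D2 : Fn) : Fn :=
  (Fn.add A (Fn.add A (Fn.add A (Fn.add A (Fn.mul (Fn.mul (Fn.mul (Fn.mul t_c v) (Fn.add A (Fn.int
    2) (Fn.mul d v))) (Fn.add A (Fn.int 1) (Fn.mul d v))) (eC_LLGc A a d v W R)) (Fn.mul (Fn.mul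
    (Fn.mul (Fn.mul t_e2 a) v) (Fn.pow (Fn.add A (Fn.int 2) (Fn.mul d v)) 2)) (eC_LLGv A a d v W
    R))) (Fn.mul (Fn.mul a (Fn.add A (Fn.int 1) (Fn.mul d v))) (eC_LLGw A a d v R t_E t_K)))
    (Fn.mul (Fn.mul (Fn.mul (Fn.mul (Fn.mul (Fn.mul (Fn.mul (Fn.int 2) t_G) (Fn.add A a d)) v)
    (Fn.pow d 3)) (Fn.add A (Fn.int 2) (Fn.mul d v))) (Fn.add A (Fn.int 1) (Fn.mul d v)))
    (eG_LG_g A a d v W R))) (Fn.mul (Fn.mul (Fn.mul (Fn.mul (Fn.mul t_D2 a) (Fn.pow d 2))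
    (Fn.pow (Fn.add A (Fn.int 2) (Fn.mul d v)) 2)) (Fn.add A (Fn.int 1) (Fn.mul d v))) (eG_LG_kw
    A a d v R t_E)))

theorem rG_LLGS (hA : AtomsPos A x θ) {a d v g W W1 R t_c t_e2 t_E t_K t_G t_G1 t_D2 : Fn} {a' d' v' g' W' W1' R' : ℝ} {tt : ClosedGen.Num}
    (ha : Rep A x θ a a')
    (hd : Rep A x θ d d')
    (hv : Rep A x θ v v')
    (hg : Rep A x θ g g')
    (hW : Rep A x θ W W')
    (hW1 : Rep A x θ W1 W1')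
    (hR : Rep A x θ R R')
    (ht_c : Rep A x θ t_c tt.c)
    (ht_e2 : Rep A x θ t_e2 tt.e2)
    (ht_E : Rep A x θ t_E tt.E)
    (ht_K : Rep A x θ t_K tt.K)
    (ht_G : Rep A x θ t_G tt.G)
    (ht_G1 : Rep A x θ t_G1 tt.G1)
    (ht_D2 : Rep A x θ t_D2 tt.D2)
    : Rep A x θ (eG_LLGS A a d v g W W1 R t_c t_e2 t_E t_K t_G t_G1 t_D2)
      (ClosedGen.LLGS a' d' v' g' W' W1' R' tt) :=
  (Rep.add (Rep.add (Rep.add (Rep.add (Rep.mul (Rep.mul (Rep.mul (Rep.mul ht_c hv) (Rep.add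
    (Rep.natLit hA 2) (Rep.mul hd hv))) (Rep.add (Rep.lit_one hA) (Rep.mul hd hv))) (rC_LLGc hA
    ha hd hv hW hR)) (Rep.mul (Rep.mul (Rep.mul (Rep.mul ht_e2 ha) hv) (Rep.pow (Rep.add
    (Rep.natLit hA 2) (Rep.mul hd hv)) 2)) (rC_LLGv hA ha hd hv hW hR))) (Rep.mul (Rep.mul ha
    (Rep.add (Rep.lit_one hA) (Rep.mul hd hv))) (rC_LLGw hA ha hd hv hR ht_E ht_K))) (Rep.mul
    (Rep.mul (Rep.mul (Rep.mul (Rep.mul (Rep.mul (Rep.mul (Rep.natLit hA 2) ht_G) (Rep.add ha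
    hd)) hv) (Rep.pow hd 3)) (Rep.add (Rep.natLit hA 2) (Rep.mul hd hv))) (Rep.add (Rep.lit_one
    hA) (Rep.mul hd hv))) (rG_LG_g hA ha hd hv hW hR))) (Rep.mul (Rep.mul (Rep.mul (Rep.mul
    (Rep.mul ht_D2 ha) (Rep.pow hd 2)) (Rep.pow (Rep.add (Rep.natLit hA 2) (Rep.mul hd hv)) 2))
    (Rep.add (Rep.lit_one hA) (Rep.mul hd hv))) (rG_LG_kw hA ha hd hv hR ht_E)))

/-- The fraction of `ClosedGen.TMM_w`. -/
def eG_TMM_w (A : List (List Ex)) (a d v W E : Fn) : Fn :=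
  (Fn.mul (Fn.mul W E) (Fn.sub A (Fn.add A (Fn.add A (Fn.mul v (Fn.sub A (Fn.add A (Fn.mul (Fn.mul
    (Fn.int 2) a) d) (Fn.pow d 2)) d)) (Fn.mul (Fn.int 2) a)) d) (Fn.int 1)))

theorem rG_TMM_w (hA : AtomsPos A x θ) {a d v W E : Fn} {a' d' v' W' E' : ℝ}
    (ha : Rep A x θ a a')
    (hd : Rep A x θ d d')
    (hv : Rep A x θ v v')
    (hW : Rep A x θ W W')
    (hE : Rep A x θ E E')
    : Rep A x θ (eG_TMM_w A a d v W E)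
      (ClosedGen.TMM_w a' d' v' W' E') :=
  (Rep.mul (Rep.mul hW hE) (Rep.sub (Rep.add (Rep.add (Rep.mul hv (Rep.sub (Rep.add (Rep.mul
    (Rep.mul (Rep.natLit hA 2) ha) hd) (Rep.pow hd 2)) hd)) (Rep.mul (Rep.natLit hA 2) ha)) hd)
    (Rep.lit_one hA)))

/-- The fraction of `ClosedGen.TMMS`. -/
def eG_TMMS (A : List (List Ex)) (a d v g W W1 R t_c t_e2 t_E t_K t_G t_G1 t_D2 : Fn) : Fn :=
  (eG_TMM_w A a d v W t_E)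

theorem rG_TMMS (hA : AtomsPos A x θ) {a d v g W W1 R t_c t_e2 t_E t_K t_G t_G1 t_D2 : Fn} {a' d' v' g' W' W1' R' : ℝ} {tt : ClosedGen.Num}
    (ha : Rep A x θ a a')
    (hd : Rep A x θ d d')
    (hv : Rep A x θ v v')
    (hg : Rep A x θ g g')
    (hW : Rep A x θ W W')
    (hW1 : Rep A x θ W1 W1')
    (hR : Rep A x θ R R')
    (ht_c : Rep A x θ t_c tt.c)
    (ht_e2 : Rep A x θ t_e2 tt.e2)
    (ht_E : Rep A x θ t_E tt.E)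
    (ht_K : Rep A x θ t_K tt.K)
    (ht_G : Rep A x θ t_G tt.G)
    (ht_G1 : Rep A x θ t_G1 tt.G1)
    (ht_D2 : Rep A x θ t_D2 tt.D2)
    : Rep A x θ (eG_TMMS A a d v g W W1 R t_c t_e2 t_E t_K t_G t_G1 t_D2)
      (ClosedGen.TMMS a' d' v' g' W' W1' R' tt) :=
  (rG_TMM_w hA ha hd hv hW ht_E)

/-- The fraction of `ClosedGen.TME_c`. -/
def eG_TME_c (A : List (List Ex)) (a d v W W1 : Fn) : Fn :=
  (Fn.add A (Fn.mul W1 (Fn.add A (Fn.add A (Fn.add A (Fn.add A (Fn.add A (Fn.mul v (Fn.add A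
    (Fn.add A (Fn.add A (Fn.add A (Fn.mul (Fn.mul (Fn.int 2) (Fn.pow a 2)) d) (Fn.mul (Fn.mul
    (Fn.int 3) a) (Fn.pow d 2))) (Fn.mul a d)) (Fn.pow d 3)) (Fn.pow d 2))) (Fn.mul (Fn.int 4)
    (Fn.pow a 2))) (Fn.mul (Fn.mul (Fn.int 6) a) d)) (Fn.mul (Fn.int 2) a)) (Fn.mul (Fn.int 2)
    (Fn.pow d 2))) (Fn.mul (Fn.int 2) d))) (Fn.mul W (Fn.add A (Fn.sub A (Fn.add A (Fn.sub A
    (Fn.sub A (Fn.sub A (Fn.mul v (Fn.add A (Fn.add A (Fn.sub A (Fn.add A (Fn.sub A (Fn.sub A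
    (Fn.mul (Fn.mul (Fn.neg (Fn.int 8)) (Fn.pow a 3)) d) (Fn.mul (Fn.mul (Fn.int 12) (Fn.pow a
    2)) (Fn.pow d 2))) (Fn.mul (Fn.mul (Fn.int 6) a) (Fn.pow d 3))) (Fn.mul (Fn.mul (Fn.int 4)
    a) d)) (Fn.pow d 4)) (Fn.mul (Fn.int 2) (Fn.pow d 2))) d)) (Fn.mul (Fn.int 8) (Fn.pow a 3)))
    (Fn.mul (Fn.mul (Fn.int 12) (Fn.pow a 2)) d)) (Fn.mul (Fn.mul (Fn.int 6) a) (Fn.pow d 2)))
    (Fn.mul (Fn.int 2) a)) (Fn.pow d 3)) d)))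

theorem rG_TME_c (hA : AtomsPos A x θ) {a d v W W1 : Fn} {a' d' v' W' W1' : ℝ}
    (ha : Rep A x θ a a')
    (hd : Rep A x θ d d')
    (hv : Rep A x θ v v')
    (hW : Rep A x θ W W')
    (hW1 : Rep A x θ W1 W1')
    : Rep A x θ (eG_TME_c A a d v W W1)
      (ClosedGen.TME_c a' d' v' W' W1') :=
  (Rep.add (Rep.mul hW1 (Rep.add (Rep.add (Rep.add (Rep.add (Rep.add (Rep.mul hv (Rep.add (Rep.add
    (Rep.add (Rep.add (Rep.mul (Rep.mul (Rep.natLit hA 2) (Rep.pow ha 2)) hd) (Rep.mul (Rep.mul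
    (Rep.natLit hA 3) ha) (Rep.pow hd 2))) (Rep.mul ha hd)) (Rep.pow hd 3)) (Rep.pow hd 2)))
    (Rep.mul (Rep.natLit hA 4) (Rep.pow ha 2))) (Rep.mul (Rep.mul (Rep.natLit hA 6) ha) hd))
    (Rep.mul (Rep.natLit hA 2) ha)) (Rep.mul (Rep.natLit hA 2) (Rep.pow hd 2))) (Rep.mul
    (Rep.natLit hA 2) hd))) (Rep.mul hW (Rep.add (Rep.sub (Rep.add (Rep.sub (Rep.sub (Rep.sub
    (Rep.mul hv (Rep.add (Rep.add (Rep.sub (Rep.add (Rep.sub (Rep.sub (Rep.mul (Rep.mul (Rep.neg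
    (Rep.natLit hA 8)) (Rep.pow ha 3)) hd) (Rep.mul (Rep.mul (Rep.natLit hA 12) (Rep.pow ha 2))
    (Rep.pow hd 2))) (Rep.mul (Rep.mul (Rep.natLit hA 6) ha) (Rep.pow hd 3))) (Rep.mul (Rep.mul
    (Rep.natLit hA 4) ha) hd)) (Rep.pow hd 4)) (Rep.mul (Rep.natLit hA 2) (Rep.pow hd 2))) hd))
    (Rep.mul (Rep.natLit hA 8) (Rep.pow ha 3))) (Rep.mul (Rep.mul (Rep.natLit hA 12) (Rep.pow ha
    2)) hd)) (Rep.mul (Rep.mul (Rep.natLit hA 6) ha) (Rep.pow hd 2))) (Rep.mul (Rep.natLit hA 2)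
    ha)) (Rep.pow hd 3)) hd)))

/-- The fraction of `ClosedGen.TME_v`. -/
def eG_TME_v (A : List (List Ex)) (a d v W : Fn) : Fn :=
  (Fn.mul W (Fn.sub A (Fn.add A (Fn.mul (Fn.int 2) a) d) (Fn.int 3)))

theorem rG_TME_v (hA : AtomsPos A x θ) {a d v W : Fn} {a' d' v' W' : ℝ}
    (ha : Rep A x θ a a')
    (hd : Rep A x θ d d')
    (hv : Rep A x θ v v')
    (hW : Rep A x θ W W')
    : Rep A x θ (eG_TME_v A a d v W)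
      (ClosedGen.TME_v a' d' v' W') :=
  (Rep.mul hW (Rep.sub (Rep.add (Rep.mul (Rep.natLit hA 2) ha) hd) (Rep.natLit hA 3)))

/-- The fraction of `ClosedGen.TME_w`. -/
def eG_TME_w (A : List (List Ex)) (a d v g W E K : Fn) : Fn :=
  (Fn.add A (Fn.add A (Fn.mul K (Fn.mul v (Fn.mul v (Fn.add A (Fn.sub A (Fn.sub A (Fn.mul v
    (Fn.add A (Fn.sub A (Fn.mul (Fn.mul (Fn.neg (Fn.int 4)) a) d) (Fn.mul (Fn.int 2) (Fn.pow d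
    2))) (Fn.mul (Fn.int 2) d))) (Fn.mul (Fn.int 8) a)) (Fn.mul (Fn.int 4) d)) (Fn.int 4)))))
    (Fn.mul E (Fn.sub A (Fn.add A (Fn.add A (Fn.mul v (Fn.add A (Fn.sub A (Fn.add A (Fn.sub A
    (Fn.add A (Fn.mul v (Fn.sub A (Fn.add A (Fn.mul (Fn.mul (Fn.int 4) a) (Fn.pow d 2)) (Fn.mul
    (Fn.int 2) (Fn.pow d 3))) (Fn.mul (Fn.int 2) (Fn.pow d 2)))) (Fn.mul (Fn.mul (Fn.int 12) a)
    d)) (Fn.mul (Fn.int 4) a)) (Fn.mul (Fn.int 6) (Fn.pow d 2))) (Fn.mul (Fn.int 8) d)) (Fn.int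
    2))) (Fn.mul (Fn.int 8) a)) (Fn.mul (Fn.int 4) d)) (Fn.int 4)))) (Fn.mul (Fn.mul (Fn.mul g
    W) E) (Fn.add A (Fn.sub A (Fn.add A (Fn.sub A (Fn.sub A (Fn.mul v (Fn.add A (Fn.sub A
    (Fn.add A (Fn.sub A (Fn.mul (Fn.mul (Fn.neg (Fn.int 2)) (Fn.pow a 2)) d) (Fn.mul (Fn.mul
    (Fn.int 3) a) (Fn.pow d 2))) (Fn.mul a d)) (Fn.pow d 3)) (Fn.pow d 2))) (Fn.mul (Fn.int 2)
    (Fn.pow a 2))) (Fn.mul (Fn.mul (Fn.int 3) a) d)) a) (Fn.pow d 2)) d)))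

theorem rG_TME_w (hA : AtomsPos A x θ) {a d v g W E K : Fn} {a' d' v' g' W' E' K' : ℝ}
    (ha : Rep A x θ a a')
    (hd : Rep A x θ d d')
    (hv : Rep A x θ v v')
    (hg : Rep A x θ g g')
    (hW : Rep A x θ W W')
    (hE : Rep A x θ E E')
    (hK : Rep A x θ K K')
    : Rep A x θ (eG_TME_w A a d v g W E K)
      (ClosedGen.TME_w a' d' v' g' W' E' K') :=
  (Rep.add (Rep.add (Rep.mul hK (Rep.mul hv (Rep.mul hv (Rep.add (Rep.sub (Rep.sub (Rep.mul hv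
    (Rep.add (Rep.sub (Rep.mul (Rep.mul (Rep.neg (Rep.natLit hA 4)) ha) hd) (Rep.mul (Rep.natLit
    hA 2) (Rep.pow hd 2))) (Rep.mul (Rep.natLit hA 2) hd))) (Rep.mul (Rep.natLit hA 8) ha))
    (Rep.mul (Rep.natLit hA 4) hd)) (Rep.natLit hA 4))))) (Rep.mul hE (Rep.sub (Rep.add (Rep.add
    (Rep.mul hv (Rep.add (Rep.sub (Rep.add (Rep.sub (Rep.add (Rep.mul hv (Rep.sub (Rep.add
    (Rep.mul (Rep.mul (Rep.natLit hA 4) ha) (Rep.pow hd 2)) (Rep.mul (Rep.natLit hA 2) (Rep.pow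
    hd 3))) (Rep.mul (Rep.natLit hA 2) (Rep.pow hd 2)))) (Rep.mul (Rep.mul (Rep.natLit hA 12)
    ha) hd)) (Rep.mul (Rep.natLit hA 4) ha)) (Rep.mul (Rep.natLit hA 6) (Rep.pow hd 2)))
    (Rep.mul (Rep.natLit hA 8) hd)) (Rep.natLit hA 2))) (Rep.mul (Rep.natLit hA 8) ha)) (Rep.mul
    (Rep.natLit hA 4) hd)) (Rep.natLit hA 4)))) (Rep.mul (Rep.mul (Rep.mul hg hW) hE) (Rep.add
    (Rep.sub (Rep.add (Rep.sub (Rep.sub (Rep.mul hv (Rep.add (Rep.sub (Rep.add (Rep.sub (Rep.mul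
    (Rep.mul (Rep.neg (Rep.natLit hA 2)) (Rep.pow ha 2)) hd) (Rep.mul (Rep.mul (Rep.natLit hA 3)
    ha) (Rep.pow hd 2))) (Rep.mul ha hd)) (Rep.pow hd 3)) (Rep.pow hd 2))) (Rep.mul (Rep.natLit
    hA 2) (Rep.pow ha 2))) (Rep.mul (Rep.mul (Rep.natLit hA 3) ha) hd)) ha) (Rep.pow hd 2))
    hd)))

/-- The fraction of `ClosedGen.TMES`. -/
def eG_TMES (A : List (List Ex)) (a d v g W W1 R t_c t_e2 t_E t_K t_G t_G1 t_D2 : Fn) : Fn :=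
  (Fn.add A (Fn.add A (Fn.mul (Fn.mul (Fn.mul t_c (Fn.add A a d)) v) (eG_TME_c A a d v W W1))
    (Fn.mul (Fn.mul (Fn.mul (Fn.mul (Fn.mul t_e2 a) (Fn.pow (Fn.add A a d) 2)) v) (Fn.pow
    (Fn.add A (Fn.int 2) (Fn.mul d v)) 2)) (eG_TME_v A a d v W))) (Fn.mul a (eG_TME_w A a d v g
    W t_E t_K)))

theorem rG_TMES (hA : AtomsPos A x θ) {a d v g W W1 R t_c t_e2 t_E t_K t_G t_G1 t_D2 : Fn} {a' d' v' g' W' W1' R' : ℝ} {tt : ClosedGen.Num}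
    (ha : Rep A x θ a a')
    (hd : Rep A x θ d d')
    (hv : Rep A x θ v v')
    (hg : Rep A x θ g g')
    (hW : Rep A x θ W W')
    (hW1 : Rep A x θ W1 W1')
    (hR : Rep A x θ R R')
    (ht_c : Rep A x θ t_c tt.c)
    (ht_e2 : Rep A x θ t_e2 tt.e2)
    (ht_E : Rep A x θ t_E tt.E)
    (ht_K : Rep A x θ t_K tt.K)
    (ht_G : Rep A x θ t_G tt.G)
    (ht_G1 : Rep A x θ t_G1 tt.G1)
    (ht_D2 : Rep A x θ t_D2 tt.D2)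
    : Rep A x θ (eG_TMES A a d v g W W1 R t_c t_e2 t_E t_K t_G t_G1 t_D2)
      (ClosedGen.TMES a' d' v' g' W' W1' R' tt) :=
  (Rep.add (Rep.add (Rep.mul (Rep.mul (Rep.mul ht_c (Rep.add ha hd)) hv) (rG_TME_c hA ha hd hv hW
    hW1)) (Rep.mul (Rep.mul (Rep.mul (Rep.mul (Rep.mul ht_e2 ha) (Rep.pow (Rep.add ha hd) 2))
    hv) (Rep.pow (Rep.add (Rep.natLit hA 2) (Rep.mul hd hv)) 2)) (rG_TME_v hA ha hd hv hW)))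
    (Rep.mul ha (rG_TME_w hA ha hd hv hg hW ht_E ht_K)))

/-- The fraction of `Closed.LEE1`. -/
def eC_LEE1 (A : List (List Ex)) (a d v : Fn) : Fn :=
  (Fn.sub A (Fn.add A (Fn.add A (Fn.add A (Fn.add A (Fn.add A (Fn.mul v (Fn.sub A (Fn.sub A
    (Fn.add A (Fn.sub A (Fn.sub A (Fn.add A (Fn.sub A (Fn.mul v (Fn.add A (Fn.add A (Fn.sub A
    (Fn.add A (Fn.mul (Fn.mul (Fn.int 4) (Fn.pow a 3)) (Fn.pow d 2)) (Fn.mul (Fn.mul (Fn.int 8)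
    (Fn.pow a 2)) (Fn.pow d 2))) (Fn.mul a (Fn.pow d 4))) (Fn.mul (Fn.mul (Fn.int 2) a) (Fn.pow
    d 3))) (Fn.mul (Fn.mul (Fn.int 3) a) (Fn.pow d 2)))) (Fn.mul (Fn.mul (Fn.int 12) (Fn.pow a
    2)) (Fn.pow d 2))) (Fn.mul (Fn.mul (Fn.int 8) (Fn.pow a 2)) d)) (Fn.mul (Fn.mul (Fn.int 4)
    a) (Fn.pow d 3))) (Fn.mul (Fn.mul (Fn.int 4) a) (Fn.pow d 2))) (Fn.pow d 4)) (Fn.mul (Fn.int
    3) (Fn.pow d 2))) (Fn.mul (Fn.int 2) d))) (Fn.mul (Fn.int 8) (Fn.pow a 2))) (Fn.mul (Fn.mul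
    (Fn.int 8) a) (Fn.pow d 2))) (Fn.mul (Fn.mul (Fn.int 8) a) d)) (Fn.mul (Fn.int 4) (Fn.pow d
    3))) (Fn.mul (Fn.int 6) (Fn.pow d 2))) (Fn.int 2))

theorem rC_LEE1 (hA : AtomsPos A x θ) {a d v : Fn} {a' d' v' : ℝ}
    (ha : Rep A x θ a a')
    (hd : Rep A x θ d d')
    (hv : Rep A x θ v v')
    : Rep A x θ (eC_LEE1 A a d v)
      (Closed.LEE1 a' d' v') :=
  (Rep.sub (Rep.add (Rep.add (Rep.add (Rep.add (Rep.add (Rep.mul hv (Rep.sub (Rep.sub (Rep.add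
    (Rep.sub (Rep.sub (Rep.add (Rep.sub (Rep.mul hv (Rep.add (Rep.add (Rep.sub (Rep.add (Rep.mul
    (Rep.mul (Rep.natLit hA 4) (Rep.pow ha 3)) (Rep.pow hd 2)) (Rep.mul (Rep.mul (Rep.natLit hA
    8) (Rep.pow ha 2)) (Rep.pow hd 2))) (Rep.mul ha (Rep.pow hd 4))) (Rep.mul (Rep.mul
    (Rep.natLit hA 2) ha) (Rep.pow hd 3))) (Rep.mul (Rep.mul (Rep.natLit hA 3) ha) (Rep.pow hd
    2)))) (Rep.mul (Rep.mul (Rep.natLit hA 12) (Rep.pow ha 2)) (Rep.pow hd 2))) (Rep.mul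
    (Rep.mul (Rep.natLit hA 8) (Rep.pow ha 2)) hd)) (Rep.mul (Rep.mul (Rep.natLit hA 4) ha)
    (Rep.pow hd 3))) (Rep.mul (Rep.mul (Rep.natLit hA 4) ha) (Rep.pow hd 2))) (Rep.pow hd 4))
    (Rep.mul (Rep.natLit hA 3) (Rep.pow hd 2))) (Rep.mul (Rep.natLit hA 2) hd))) (Rep.mul
    (Rep.natLit hA 8) (Rep.pow ha 2))) (Rep.mul (Rep.mul (Rep.natLit hA 8) ha) (Rep.pow hd 2)))
    (Rep.mul (Rep.mul (Rep.natLit hA 8) ha) hd)) (Rep.mul (Rep.natLit hA 4) (Rep.pow hd 3)))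
    (Rep.mul (Rep.natLit hA 6) (Rep.pow hd 2))) (Rep.natLit hA 2))

/-- The fraction of `Closed.LEEc_000000_0`. -/
def eC_LEEc_000000_0 (A : List (List Ex)) (a d v : Fn) : Fn :=
  (Fn.add A (Fn.add A (Fn.mul v (Fn.add A (Fn.sub A (Fn.sub A (Fn.add A (Fn.sub A (Fn.sub A
    (Fn.sub A (Fn.sub A (Fn.mul (Fn.neg (Fn.int 128)) (Fn.pow a 4)) (Fn.mul (Fn.mul (Fn.int 256)
    (Fn.pow a 3)) d)) (Fn.mul (Fn.mul (Fn.int 192) (Fn.pow a 2)) (Fn.pow d 2))) (Fn.mul (Fn.mul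
    (Fn.int 64) a) (Fn.pow d 3))) (Fn.mul (Fn.mul (Fn.int 16) a) (Fn.pow d 2))) (Fn.mul (Fn.mul
    (Fn.int 48) a) d)) (Fn.mul (Fn.int 8) (Fn.pow d 4))) (Fn.mul (Fn.int 8) (Fn.pow d 3)))
    (Fn.mul (Fn.int 48) (Fn.pow d 2)))) (Fn.mul (Fn.int 32) a)) (Fn.mul (Fn.int 16) d))

theorem rC_LEEc_000000_0 (hA : AtomsPos A x θ) {a d v : Fn} {a' d' v' : ℝ}
    (ha : Rep A x θ a a')
    (hd : Rep A x θ d d')
    (hv : Rep A x θ v v')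
    : Rep A x θ (eC_LEEc_000000_0 A a d v)
      (Closed.LEEc_000000_0 a' d' v') :=
  (Rep.add (Rep.add (Rep.mul hv (Rep.add (Rep.sub (Rep.sub (Rep.add (Rep.sub (Rep.sub (Rep.sub
    (Rep.sub (Rep.mul (Rep.neg (Rep.natLit hA 128)) (Rep.pow ha 4)) (Rep.mul (Rep.mul
    (Rep.natLit hA 256) (Rep.pow ha 3)) hd)) (Rep.mul (Rep.mul (Rep.natLit hA 192) (Rep.pow ha
    2)) (Rep.pow hd 2))) (Rep.mul (Rep.mul (Rep.natLit hA 64) ha) (Rep.pow hd 3))) (Rep.mul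
    (Rep.mul (Rep.natLit hA 16) ha) (Rep.pow hd 2))) (Rep.mul (Rep.mul (Rep.natLit hA 48) ha)
    hd)) (Rep.mul (Rep.natLit hA 8) (Rep.pow hd 4))) (Rep.mul (Rep.natLit hA 8) (Rep.pow hd 3)))
    (Rep.mul (Rep.natLit hA 48) (Rep.pow hd 2)))) (Rep.mul (Rep.natLit hA 32) ha)) (Rep.mul
    (Rep.natLit hA 16) hd))

/-- The fraction of `Closed.LEEc_000000_1`. -/
def eC_LEEc_000000_1 (A : List (List Ex)) (a d v : Fn) : Fn :=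
  (Fn.sub A (Fn.add A (Fn.sub A (Fn.sub A (Fn.add A (Fn.sub A (Fn.add A (Fn.sub A (Fn.sub A
    (Fn.sub A (Fn.mul v (Fn.add A (Fn.sub A (Fn.sub A (Fn.mul (Fn.mul (Fn.neg (Fn.int 16))
    (Fn.pow a 3)) (Fn.pow d 2)) (Fn.mul (Fn.mul (Fn.int 8) (Fn.pow a 2)) (Fn.pow d 3))) (Fn.mul
    (Fn.mul (Fn.int 12) a) (Fn.pow d 3))) (Fn.mul (Fn.mul (Fn.int 4) a) (Fn.pow d 2)))) (Fn.mul
    (Fn.mul (Fn.int 128) (Fn.pow a 4)) d)) (Fn.mul (Fn.mul (Fn.int 256) (Fn.pow a 3)) (Fn.pow d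
    2))) (Fn.mul (Fn.mul (Fn.int 192) (Fn.pow a 2)) (Fn.pow d 3))) (Fn.mul (Fn.mul (Fn.int 32)
    (Fn.pow a 2)) (Fn.pow d 2))) (Fn.mul (Fn.mul (Fn.int 64) a) (Fn.pow d 4))) (Fn.mul (Fn.mul
    (Fn.int 16) a) (Fn.pow d 3))) (Fn.mul (Fn.mul (Fn.int 8) a) (Fn.pow d 2))) (Fn.mul (Fn.int
    8) (Fn.pow d 5))) (Fn.mul (Fn.int 20) (Fn.pow d 3))) (Fn.mul (Fn.int 4) (Fn.pow d 2)))

theorem rC_LEEc_000000_1 (hA : AtomsPos A x θ) {a d v : Fn} {a' d' v' : ℝ}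
    (ha : Rep A x θ a a')
    (hd : Rep A x θ d d')
    (hv : Rep A x θ v v')
    : Rep A x θ (eC_LEEc_000000_1 A a d v)
      (Closed.LEEc_000000_1 a' d' v') :=
  (Rep.sub (Rep.add (Rep.sub (Rep.sub (Rep.add (Rep.sub (Rep.add (Rep.sub (Rep.sub (Rep.sub
    (Rep.mul hv (Rep.add (Rep.sub (Rep.sub (Rep.mul (Rep.mul (Rep.neg (Rep.natLit hA 16))
    (Rep.pow ha 3)) (Rep.pow hd 2)) (Rep.mul (Rep.mul (Rep.natLit hA 8) (Rep.pow ha 2)) (Rep.pow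
    hd 3))) (Rep.mul (Rep.mul (Rep.natLit hA 12) ha) (Rep.pow hd 3))) (Rep.mul (Rep.mul
    (Rep.natLit hA 4) ha) (Rep.pow hd 2)))) (Rep.mul (Rep.mul (Rep.natLit hA 128) (Rep.pow ha
    4)) hd)) (Rep.mul (Rep.mul (Rep.natLit hA 256) (Rep.pow ha 3)) (Rep.pow hd 2))) (Rep.mul
    (Rep.mul (Rep.natLit hA 192) (Rep.pow ha 2)) (Rep.pow hd 3))) (Rep.mul (Rep.mul (Rep.natLit
    hA 32) (Rep.pow ha 2)) (Rep.pow hd 2))) (Rep.mul (Rep.mul (Rep.natLit hA 64) ha) (Rep.pow hd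
    4))) (Rep.mul (Rep.mul (Rep.natLit hA 16) ha) (Rep.pow hd 3))) (Rep.mul (Rep.mul (Rep.natLit
    hA 8) ha) (Rep.pow hd 2))) (Rep.mul (Rep.natLit hA 8) (Rep.pow hd 5))) (Rep.mul (Rep.natLit
    hA 20) (Rep.pow hd 3))) (Rep.mul (Rep.natLit hA 4) (Rep.pow hd 2)))

/-- The fraction of `Closed.LEEc_110000_0`. -/
def eC_LEEc_110000_0 (A : List (List Ex)) (a d v : Fn) : Fn :=
  (Fn.sub A (Fn.sub A (Fn.mul v (Fn.sub A (Fn.sub A (Fn.add A (Fn.sub A (Fn.sub A (Fn.sub A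
    (Fn.add A (Fn.sub A (Fn.add A (Fn.sub A (Fn.mul (Fn.mul (Fn.neg (Fn.int 8)) (Fn.pow a 3))
    (Fn.pow d 2)) (Fn.mul (Fn.mul (Fn.int 16) (Fn.pow a 2)) (Fn.pow d 3))) (Fn.mul (Fn.mul
    (Fn.int 4) (Fn.pow a 2)) (Fn.pow d 2))) (Fn.mul (Fn.mul (Fn.int 10) a) (Fn.pow d 4)))
    (Fn.mul (Fn.mul (Fn.int 6) a) (Fn.pow d 3))) (Fn.mul (Fn.mul (Fn.int 8) a) (Fn.pow d 2)))
    (Fn.mul (Fn.mul (Fn.int 8) a) d)) (Fn.mul (Fn.int 2) (Fn.pow d 5))) (Fn.mul (Fn.int 2)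
    (Fn.pow d 4))) (Fn.mul (Fn.int 8) (Fn.pow d 3))) (Fn.mul (Fn.int 8) (Fn.pow d 2)))) (Fn.mul
    (Fn.int 4) a)) (Fn.mul (Fn.int 4) d))

theorem rC_LEEc_110000_0 (hA : AtomsPos A x θ) {a d v : Fn} {a' d' v' : ℝ}
    (ha : Rep A x θ a a')
    (hd : Rep A x θ d d')
    (hv : Rep A x θ v v')
    : Rep A x θ (eC_LEEc_110000_0 A a d v)
      (Closed.LEEc_110000_0 a' d' v') :=
  (Rep.sub (Rep.sub (Rep.mul hv (Rep.sub (Rep.sub (Rep.add (Rep.sub (Rep.sub (Rep.sub (Rep.add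
    (Rep.sub (Rep.add (Rep.sub (Rep.mul (Rep.mul (Rep.neg (Rep.natLit hA 8)) (Rep.pow ha 3))
    (Rep.pow hd 2)) (Rep.mul (Rep.mul (Rep.natLit hA 16) (Rep.pow ha 2)) (Rep.pow hd 3)))
    (Rep.mul (Rep.mul (Rep.natLit hA 4) (Rep.pow ha 2)) (Rep.pow hd 2))) (Rep.mul (Rep.mul
    (Rep.natLit hA 10) ha) (Rep.pow hd 4))) (Rep.mul (Rep.mul (Rep.natLit hA 6) ha) (Rep.pow hd
    3))) (Rep.mul (Rep.mul (Rep.natLit hA 8) ha) (Rep.pow hd 2))) (Rep.mul (Rep.mul (Rep.natLit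
    hA 8) ha) hd)) (Rep.mul (Rep.natLit hA 2) (Rep.pow hd 5))) (Rep.mul (Rep.natLit hA 2)
    (Rep.pow hd 4))) (Rep.mul (Rep.natLit hA 8) (Rep.pow hd 3))) (Rep.mul (Rep.natLit hA 8)
    (Rep.pow hd 2)))) (Rep.mul (Rep.natLit hA 4) ha)) (Rep.mul (Rep.natLit hA 4) hd))

/-- The fraction of `Closed.LEEc_110000_1`. -/
def eC_LEEc_110000_1 (A : List (List Ex)) (a d v : Fn) : Fn :=
  (Fn.add A (Fn.sub A (Fn.add A (Fn.sub A (Fn.sub A (Fn.add A (Fn.add A (Fn.sub A (Fn.add A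
    (Fn.sub A (Fn.add A (Fn.mul (Fn.mul (Fn.int 8) (Fn.pow a 4)) (Fn.pow d 2)) (Fn.mul (Fn.mul
    (Fn.int 16) (Fn.pow a 3)) (Fn.pow d 3))) (Fn.mul (Fn.mul (Fn.int 4) (Fn.pow a 3)) (Fn.pow d
    2))) (Fn.mul (Fn.mul (Fn.int 10) (Fn.pow a 2)) (Fn.pow d 4))) (Fn.mul (Fn.mul (Fn.int 6)
    (Fn.pow a 2)) (Fn.pow d 3))) (Fn.mul (Fn.mul (Fn.int 2) (Fn.pow a 2)) (Fn.pow d 2))) (Fn.mul
    (Fn.mul (Fn.int 2) a) (Fn.pow d 5))) (Fn.mul (Fn.mul (Fn.int 2) a) (Fn.pow d 4))) (Fn.mul a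
    (Fn.pow d 3))) (Fn.mul a (Fn.pow d 2))) (Fn.mul (Fn.int 3) (Fn.pow d 4))) (Fn.pow d 3))

theorem rC_LEEc_110000_1 (hA : AtomsPos A x θ) {a d v : Fn} {a' d' v' : ℝ}
    (ha : Rep A x θ a a')
    (hd : Rep A x θ d d')
    (hv : Rep A x θ v v')
    : Rep A x θ (eC_LEEc_110000_1 A a d v)
      (Closed.LEEc_110000_1 a' d' v') :=
  (Rep.add (Rep.sub (Rep.add (Rep.sub (Rep.sub (Rep.add (Rep.add (Rep.sub (Rep.add (Rep.sub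
    (Rep.add (Rep.mul (Rep.mul (Rep.natLit hA 8) (Rep.pow ha 4)) (Rep.pow hd 2)) (Rep.mul
    (Rep.mul (Rep.natLit hA 16) (Rep.pow ha 3)) (Rep.pow hd 3))) (Rep.mul (Rep.mul (Rep.natLit
    hA 4) (Rep.pow ha 3)) (Rep.pow hd 2))) (Rep.mul (Rep.mul (Rep.natLit hA 10) (Rep.pow ha 2))
    (Rep.pow hd 4))) (Rep.mul (Rep.mul (Rep.natLit hA 6) (Rep.pow ha 2)) (Rep.pow hd 3)))
    (Rep.mul (Rep.mul (Rep.natLit hA 2) (Rep.pow ha 2)) (Rep.pow hd 2))) (Rep.mul (Rep.mul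
    (Rep.natLit hA 2) ha) (Rep.pow hd 5))) (Rep.mul (Rep.mul (Rep.natLit hA 2) ha) (Rep.pow hd
    4))) (Rep.mul ha (Rep.pow hd 3))) (Rep.mul ha (Rep.pow hd 2))) (Rep.mul (Rep.natLit hA 3)
    (Rep.pow hd 4))) (Rep.pow hd 3))

/-- The fraction of `LEEcLin`. -/
def eLEEcLin (A : List (List Ex)) (a d v g W W1 om : Fn) : Fn :=
  (Fn.add A (Fn.add A (Fn.add A (Fn.add A (eC_LEEc_000000_0 A a d v) (Fn.mul (Fn.pow v 2)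
    (eC_LEEc_000000_1 A a d v))) (Fn.mul (Fn.mul g W1) (Fn.sub A (Fn.sub A (Fn.sub A (Fn.mul v
    (Fn.sub A (Fn.sub A (Fn.mul (Fn.mul (Fn.neg (Fn.int 4)) (Fn.pow a 2)) d) (Fn.mul (Fn.mul
    (Fn.int 8) a) (Fn.pow d 2))) (Fn.mul (Fn.int 4) (Fn.pow d 3)))) (Fn.mul (Fn.int 8) (Fn.pow a
    2))) (Fn.mul (Fn.mul (Fn.int 16) a) d)) (Fn.mul (Fn.int 8) (Fn.pow d 2))))) (Fn.mul (Fn.mul
    g W) (Fn.add A (eC_LEEc_110000_0 A a d v) (Fn.mul (Fn.pow v 2) (eC_LEEc_110000_1 A a d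
    v))))) (Fn.mul (Fn.mul (Fn.mul g W) om) (Fn.mul v (Fn.sub A (Fn.sub A (Fn.mul (Fn.neg
    (Fn.pow a 2)) (Fn.pow d 2)) (Fn.mul (Fn.mul (Fn.int 2) a) (Fn.pow d 3))) (Fn.pow d 4)))))

theorem rLEEcLin (hA : AtomsPos A x θ) {a d v g W W1 om : Fn} {a' d' v' g' W' W1' om' : ℝ}
    (ha : Rep A x θ a a')
    (hd : Rep A x θ d d')
    (hv : Rep A x θ v v')
    (hg : Rep A x θ g g')
    (hW : Rep A x θ W W')
    (hW1 : Rep A x θ W1 W1')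
    (hom : Rep A x θ om om')
    : Rep A x θ (eLEEcLin A a d v g W W1 om)
      (LEEcLin a' d' v' g' W' W1' om') :=
  (Rep.add (Rep.add (Rep.add (Rep.add (rC_LEEc_000000_0 hA ha hd hv) (Rep.mul (Rep.pow hv 2)
    (rC_LEEc_000000_1 hA ha hd hv))) (Rep.mul (Rep.mul hg hW1) (Rep.sub (Rep.sub (Rep.sub
    (Rep.mul hv (Rep.sub (Rep.sub (Rep.mul (Rep.mul (Rep.neg (Rep.natLit hA 4)) (Rep.pow ha 2))
    hd) (Rep.mul (Rep.mul (Rep.natLit hA 8) ha) (Rep.pow hd 2))) (Rep.mul (Rep.natLit hA 4)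
    (Rep.pow hd 3)))) (Rep.mul (Rep.natLit hA 8) (Rep.pow ha 2))) (Rep.mul (Rep.mul (Rep.natLit
    hA 16) ha) hd)) (Rep.mul (Rep.natLit hA 8) (Rep.pow hd 2))))) (Rep.mul (Rep.mul hg hW)
    (Rep.add (rC_LEEc_110000_0 hA ha hd hv) (Rep.mul (Rep.pow hv 2) (rC_LEEc_110000_1 hA ha hd
    hv))))) (Rep.mul (Rep.mul (Rep.mul hg hW) hom) (Rep.mul hv (Rep.sub (Rep.sub (Rep.mul
    (Rep.neg (Rep.pow ha 2)) (Rep.pow hd 2)) (Rep.mul (Rep.mul (Rep.natLit hA 2) ha) (Rep.pow hd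
    3))) (Rep.pow hd 4)))))

/-- The fraction of `Closed.LEEv`. -/
def eC_LEEv (A : List (List Ex)) (a d v g W : Fn) : Fn :=
  (Fn.add A (Fn.sub A (Fn.mul v (Fn.sub A (Fn.sub A (Fn.add A (Fn.add A (Fn.add A (Fn.add A
    (Fn.mul v (Fn.sub A (Fn.sub A (Fn.add A (Fn.add A (Fn.add A (Fn.add A (Fn.mul v (Fn.mul
    (Fn.mul (Fn.int 4) a) (Fn.pow d 2))) (Fn.mul (Fn.mul (Fn.int 16) (Fn.pow a 2)) d)) (Fn.mul
    (Fn.mul (Fn.int 16) a) (Fn.pow d 2))) (Fn.mul (Fn.mul (Fn.int 8) a) d)) (Fn.mul (Fn.int 4)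
    (Fn.pow d 3))) (Fn.mul (Fn.int 4) (Fn.pow d 2))) (Fn.mul (Fn.int 4) d))) (Fn.mul (Fn.int 16)
    (Fn.pow a 2))) (Fn.mul (Fn.mul (Fn.int 16) a) d)) (Fn.mul (Fn.int 8) a)) (Fn.mul (Fn.int 4)
    (Fn.pow d 2))) (Fn.mul (Fn.int 8) d)) (Fn.int 4))) (Fn.int 8)) (Fn.mul (Fn.mul g W) (Fn.add
    A (Fn.add A (Fn.mul v (Fn.add A (Fn.add A (Fn.mul v (Fn.sub A (Fn.mul (Fn.neg a) (Fn.pow d
    2)) (Fn.pow d 3))) (Fn.mul (Fn.mul (Fn.int 2) a) d)) (Fn.mul (Fn.int 2) (Fn.pow d 2))))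
    (Fn.mul (Fn.int 2) a)) (Fn.mul (Fn.int 2) d))))

theorem rC_LEEv (hA : AtomsPos A x θ) {a d v g W : Fn} {a' d' v' g' W' : ℝ}
    (ha : Rep A x θ a a')
    (hd : Rep A x θ d d')
    (hv : Rep A x θ v v')
    (hg : Rep A x θ g g')
    (hW : Rep A x θ W W')
    : Rep A x θ (eC_LEEv A a d v g W)
      (Closed.LEEv a' d' v' g' W') :=
  (Rep.add (Rep.sub (Rep.mul hv (Rep.sub (Rep.sub (Rep.add (Rep.add (Rep.add (Rep.add (Rep.mul hv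
    (Rep.sub (Rep.sub (Rep.add (Rep.add (Rep.add (Rep.add (Rep.mul hv (Rep.mul (Rep.mul
    (Rep.natLit hA 4) ha) (Rep.pow hd 2))) (Rep.mul (Rep.mul (Rep.natLit hA 16) (Rep.pow ha 2))
    hd)) (Rep.mul (Rep.mul (Rep.natLit hA 16) ha) (Rep.pow hd 2))) (Rep.mul (Rep.mul (Rep.natLit
    hA 8) ha) hd)) (Rep.mul (Rep.natLit hA 4) (Rep.pow hd 3))) (Rep.mul (Rep.natLit hA 4)
    (Rep.pow hd 2))) (Rep.mul (Rep.natLit hA 4) hd))) (Rep.mul (Rep.natLit hA 16) (Rep.pow ha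
    2))) (Rep.mul (Rep.mul (Rep.natLit hA 16) ha) hd)) (Rep.mul (Rep.natLit hA 8) ha)) (Rep.mul
    (Rep.natLit hA 4) (Rep.pow hd 2))) (Rep.mul (Rep.natLit hA 8) hd)) (Rep.natLit hA 4)))
    (Rep.natLit hA 8)) (Rep.mul (Rep.mul hg hW) (Rep.add (Rep.add (Rep.mul hv (Rep.add (Rep.add
    (Rep.mul hv (Rep.sub (Rep.mul (Rep.neg ha) (Rep.pow hd 2)) (Rep.pow hd 3))) (Rep.mul
    (Rep.mul (Rep.natLit hA 2) ha) hd)) (Rep.mul (Rep.natLit hA 2) (Rep.pow hd 2)))) (Rep.mul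
    (Rep.natLit hA 2) ha)) (Rep.mul (Rep.natLit hA 2) hd))))

/-- The fraction of `Closed.LEEw`. -/
def eC_LEEw (A : List (List Ex)) (a d v g E : Fn) : Fn :=
  (Fn.mul (Fn.mul g E) (Fn.sub A (Fn.add A (Fn.sub A (Fn.add A (Fn.sub A (Fn.sub A (Fn.mul v
    (Fn.add A (Fn.sub A (Fn.add A (Fn.sub A (Fn.add A (Fn.mul (Fn.mul (Fn.int 4) (Fn.pow a 3))
    (Fn.pow d 2)) (Fn.mul (Fn.mul (Fn.int 4) (Fn.pow a 2)) (Fn.pow d 3))) (Fn.mul (Fn.mul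
    (Fn.int 4) (Fn.pow a 2)) (Fn.pow d 2))) (Fn.mul a (Fn.pow d 4))) (Fn.mul (Fn.mul (Fn.int 2)
    a) (Fn.pow d 3))) (Fn.mul a (Fn.pow d 2)))) (Fn.mul (Fn.mul (Fn.int 4) (Fn.pow a 2)) (Fn.pow
    d 2))) (Fn.mul (Fn.mul (Fn.int 4) a) (Fn.pow d 3))) (Fn.mul (Fn.mul (Fn.int 4) a) (Fn.pow d
    2))) (Fn.pow d 4)) (Fn.mul (Fn.int 2) (Fn.pow d 3))) (Fn.pow d 2)))

theorem rC_LEEw (hA : AtomsPos A x θ) {a d v g E : Fn} {a' d' v' g' E' : ℝ}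
    (ha : Rep A x θ a a')
    (hd : Rep A x θ d d')
    (hv : Rep A x θ v v')
    (hg : Rep A x θ g g')
    (hE : Rep A x θ E E')
    : Rep A x θ (eC_LEEw A a d v g E)
      (Closed.LEEw a' d' v' g' E') :=
  (Rep.mul (Rep.mul hg hE) (Rep.sub (Rep.add (Rep.sub (Rep.add (Rep.sub (Rep.sub (Rep.mul hv
    (Rep.add (Rep.sub (Rep.add (Rep.sub (Rep.add (Rep.mul (Rep.mul (Rep.natLit hA 4) (Rep.pow ha
    3)) (Rep.pow hd 2)) (Rep.mul (Rep.mul (Rep.natLit hA 4) (Rep.pow ha 2)) (Rep.pow hd 3)))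
    (Rep.mul (Rep.mul (Rep.natLit hA 4) (Rep.pow ha 2)) (Rep.pow hd 2))) (Rep.mul ha (Rep.pow hd
    4))) (Rep.mul (Rep.mul (Rep.natLit hA 2) ha) (Rep.pow hd 3))) (Rep.mul ha (Rep.pow hd 2))))
    (Rep.mul (Rep.mul (Rep.natLit hA 4) (Rep.pow ha 2)) (Rep.pow hd 2))) (Rep.mul (Rep.mul
    (Rep.natLit hA 4) ha) (Rep.pow hd 3))) (Rep.mul (Rep.mul (Rep.natLit hA 4) ha) (Rep.pow hd
    2))) (Rep.pow hd 4)) (Rep.mul (Rep.natLit hA 2) (Rep.pow hd 3))) (Rep.pow hd 2)))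

/-- The fraction of `ClosedGen.EE_g`. -/
def eG_EE_g (A : List (List Ex)) (a d v g W : Fn) : Fn :=
  (Fn.add A (Fn.add A (Fn.mul v (Fn.mul (Fn.neg (Fn.int 4)) a)) (Fn.int 4)) (Fn.mul (Fn.mul g W)
    (Fn.sub A (Fn.neg a) d)))

theorem rG_EE_g (hA : AtomsPos A x θ) {a d v g W : Fn} {a' d' v' g' W' : ℝ}
    (ha : Rep A x θ a a')
    (hd : Rep A x θ d d')
    (hv : Rep A x θ v v')
    (hg : Rep A x θ g g')
    (hW : Rep A x θ W W')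
    : Rep A x θ (eG_EE_g A a d v g W)
      (ClosedGen.EE_g a' d' v' g' W') :=
  (Rep.add (Rep.add (Rep.mul hv (Rep.mul (Rep.neg (Rep.natLit hA 4)) ha)) (Rep.natLit hA 4))
    (Rep.mul (Rep.mul hg hW) (Rep.sub (Rep.neg ha) hd)))

/-- The fraction of `ClosedGen.EE_k1`. -/
def eG_EE_k1 (A : List (List Ex)) (a d v : Fn) : Fn :=
  (Fn.sub A (Fn.add A (Fn.add A (Fn.add A (Fn.mul v (Fn.add A (Fn.sub A (Fn.sub A (Fn.mul (Fn.neg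
    (Fn.int 4)) (Fn.pow a 3)) (Fn.mul (Fn.mul (Fn.int 4) (Fn.pow a 2)) d)) (Fn.mul a (Fn.pow d
    2))) a)) (Fn.mul (Fn.int 4) (Fn.pow a 2))) (Fn.mul (Fn.mul (Fn.int 4) a) d)) (Fn.pow d 2))
    (Fn.int 1))

theorem rG_EE_k1 (hA : AtomsPos A x θ) {a d v : Fn} {a' d' v' : ℝ}
    (ha : Rep A x θ a a')
    (hd : Rep A x θ d d')
    (hv : Rep A x θ v v')
    : Rep A x θ (eG_EE_k1 A a d v)
      (ClosedGen.EE_k1 a' d' v') :=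
  (Rep.sub (Rep.add (Rep.add (Rep.add (Rep.mul hv (Rep.add (Rep.sub (Rep.sub (Rep.mul (Rep.neg
    (Rep.natLit hA 4)) (Rep.pow ha 3)) (Rep.mul (Rep.mul (Rep.natLit hA 4) (Rep.pow ha 2)) hd))
    (Rep.mul ha (Rep.pow hd 2))) ha)) (Rep.mul (Rep.natLit hA 4) (Rep.pow ha 2))) (Rep.mul
    (Rep.mul (Rep.natLit hA 4) ha) hd)) (Rep.pow hd 2)) (Rep.lit_one hA))

/-- The fraction of `ClosedGen.EE_kc`. -/
def eG_EE_kc (A : List (List Ex)) (a d v g W : Fn) : Fn :=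
  (Fn.add A (Fn.sub A (Fn.add A (Fn.add A (Fn.mul v (Fn.add A (Fn.sub A (Fn.mul (Fn.neg (Fn.int
    8)) (Fn.pow a 2)) (Fn.mul (Fn.mul (Fn.int 4) a) d)) (Fn.mul (Fn.int 4) a))) (Fn.mul (Fn.int
    8) a)) (Fn.mul (Fn.int 4) d)) (Fn.int 4)) (Fn.mul (Fn.mul g W) (Fn.add A (Fn.sub A (Fn.add A
    (Fn.sub A (Fn.mul (Fn.neg (Fn.int 2)) (Fn.pow a 2)) (Fn.mul (Fn.mul (Fn.int 3) a) d)) a)
    (Fn.pow d 2)) d)))

theorem rG_EE_kc (hA : AtomsPos A x θ) {a d v g W : Fn} {a' d' v' g' W' : ℝ}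
    (ha : Rep A x θ a a')
    (hd : Rep A x θ d d')
    (hv : Rep A x θ v v')
    (hg : Rep A x θ g g')
    (hW : Rep A x θ W W')
    : Rep A x θ (eG_EE_kc A a d v g W)
      (ClosedGen.EE_kc a' d' v' g' W') :=
  (Rep.add (Rep.sub (Rep.add (Rep.add (Rep.mul hv (Rep.add (Rep.sub (Rep.mul (Rep.neg (Rep.natLit
    hA 8)) (Rep.pow ha 2)) (Rep.mul (Rep.mul (Rep.natLit hA 4) ha) hd)) (Rep.mul (Rep.natLit hA
    4) ha))) (Rep.mul (Rep.natLit hA 8) ha)) (Rep.mul (Rep.natLit hA 4) hd)) (Rep.natLit hA 4))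
    (Rep.mul (Rep.mul hg hW) (Rep.add (Rep.sub (Rep.add (Rep.sub (Rep.mul (Rep.neg (Rep.natLit
    hA 2)) (Rep.pow ha 2)) (Rep.mul (Rep.mul (Rep.natLit hA 3) ha) hd)) ha) (Rep.pow hd 2))
    hd)))

/-- The fraction of `LEESLin`. -/
def eG_LEESLin (A : List (List Ex)) (a d v g W W1 R t_c t_e2 t_E t_K t_G t_G1 t_D2 om : Fn) : Fn :=
  (Fn.add A (Fn.add A (Fn.add A (Fn.add A (Fn.add A (Fn.add A (Fn.mul (Fn.mul (Fn.mul (Fn.mul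
    (Fn.mul (Fn.int 4) a) (Fn.add A a d)) v) (Fn.add A (Fn.int 1) (Fn.mul d v))) (eC_LEE1 A a d
    v)) (Fn.mul (Fn.mul t_c (Fn.add A (Fn.int 1) (Fn.mul d v))) (eLEEcLin A a d v g W W1 om)))
    (Fn.mul (Fn.mul (Fn.mul (Fn.mul (Fn.mul (Fn.int 2) t_e2) a) (Fn.add A a d)) (Fn.pow (Fn.add
    A (Fn.int 2) (Fn.mul d v)) 2)) (eC_LEEv A a d v g W))) (Fn.mul (Fn.mul (Fn.mul (Fn.mul
    (Fn.int 4) a) v) (Fn.add A (Fn.int 1) (Fn.mul d v))) (eC_LEEw A a d v g t_E))) (Fn.mul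
    (Fn.mul (Fn.mul (Fn.mul (Fn.mul (Fn.mul (Fn.int 4) t_G) v) (Fn.pow d 3)) (Fn.add A (Fn.int
    2) (Fn.mul d v))) (Fn.add A (Fn.int 1) (Fn.mul d v))) (eG_EE_g A a d v g W))) (Fn.mul
    (Fn.mul (Fn.mul (Fn.mul (Fn.mul (Fn.mul (Fn.mul (Fn.int 4) t_D2) a) (Fn.add A a d)) (Fn.pow
    d 2)) (Fn.pow (Fn.add A (Fn.int 2) (Fn.mul d v)) 2)) (Fn.add A (Fn.int 1) (Fn.mul d v)))
    (eG_EE_k1 A a d v))) (Fn.mul (Fn.mul (Fn.mul (Fn.mul (Fn.mul t_D2 t_c) (Fn.pow d 2)) (Fn.pow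
    (Fn.add A (Fn.int 2) (Fn.mul d v)) 2)) (Fn.add A (Fn.int 1) (Fn.mul d v))) (eG_EE_kc A a d v
    g W)))

theorem rG_LEESLin (hA : AtomsPos A x θ) {a d v g W W1 R t_c t_e2 t_E t_K t_G t_G1 t_D2 om : Fn} {a' d' v' g' W' W1' R' om' : ℝ} {tt : ClosedGen.Num}
    (ha : Rep A x θ a a')
    (hd : Rep A x θ d d')
    (hv : Rep A x θ v v')
    (hg : Rep A x θ g g')
    (hW : Rep A x θ W W')
    (hW1 : Rep A x θ W1 W1')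
    (hR : Rep A x θ R R')
    (ht_c : Rep A x θ t_c tt.c)
    (ht_e2 : Rep A x θ t_e2 tt.e2)
    (ht_E : Rep A x θ t_E tt.E)
    (ht_K : Rep A x θ t_K tt.K)
    (ht_G : Rep A x θ t_G tt.G)
    (ht_G1 : Rep A x θ t_G1 tt.G1)
    (ht_D2 : Rep A x θ t_D2 tt.D2)
    (hom : Rep A x θ om om')
    : Rep A x θ (eG_LEESLin A a d v g W W1 R t_c t_e2 t_E t_K t_G t_G1 t_D2 om)
      (LEESLin a' d' v' g' W' W1' R' tt om') :=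
  (Rep.add (Rep.add (Rep.add (Rep.add (Rep.add (Rep.add (Rep.mul (Rep.mul (Rep.mul (Rep.mul
    (Rep.mul (Rep.natLit hA 4) ha) (Rep.add ha hd)) hv) (Rep.add (Rep.lit_one hA) (Rep.mul hd
    hv))) (rC_LEE1 hA ha hd hv)) (Rep.mul (Rep.mul ht_c (Rep.add (Rep.lit_one hA) (Rep.mul hd
    hv))) (rLEEcLin hA ha hd hv hg hW hW1 hom))) (Rep.mul (Rep.mul (Rep.mul (Rep.mul (Rep.mul
    (Rep.natLit hA 2) ht_e2) ha) (Rep.add ha hd)) (Rep.pow (Rep.add (Rep.natLit hA 2) (Rep.mul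
    hd hv)) 2)) (rC_LEEv hA ha hd hv hg hW))) (Rep.mul (Rep.mul (Rep.mul (Rep.mul (Rep.natLit hA
    4) ha) hv) (Rep.add (Rep.lit_one hA) (Rep.mul hd hv))) (rC_LEEw hA ha hd hv hg ht_E)))
    (Rep.mul (Rep.mul (Rep.mul (Rep.mul (Rep.mul (Rep.mul (Rep.natLit hA 4) ht_G) hv) (Rep.pow
    hd 3)) (Rep.add (Rep.natLit hA 2) (Rep.mul hd hv))) (Rep.add (Rep.lit_one hA) (Rep.mul hd
    hv))) (rG_EE_g hA ha hd hv hg hW))) (Rep.mul (Rep.mul (Rep.mul (Rep.mul (Rep.mul (Rep.mul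
    (Rep.mul (Rep.natLit hA 4) ht_D2) ha) (Rep.add ha hd)) (Rep.pow hd 2)) (Rep.pow (Rep.add
    (Rep.natLit hA 2) (Rep.mul hd hv)) 2)) (Rep.add (Rep.lit_one hA) (Rep.mul hd hv))) (rG_EE_k1
    hA ha hd hv))) (Rep.mul (Rep.mul (Rep.mul (Rep.mul (Rep.mul ht_D2 ht_c) (Rep.pow hd 2))
    (Rep.pow (Rep.add (Rep.natLit hA 2) (Rep.mul hd hv)) 2)) (Rep.add (Rep.lit_one hA) (Rep.mul
    hd hv))) (rG_EE_kc hA ha hd hv hg hW)))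

/-- The fraction of `Closed.LMG1_000000_0`. -/
def eC_LMG1_000000_0 (A : List (List Ex)) (a d v : Fn) : Fn :=
  (Fn.add A (Fn.sub A (Fn.sub A (Fn.add A (Fn.sub A (Fn.sub A (Fn.add A (Fn.sub A (Fn.add A
    (Fn.add A (Fn.mul v (Fn.add A (Fn.sub A (Fn.sub A (Fn.sub A (Fn.sub A (Fn.add A (Fn.sub A
    (Fn.add A (Fn.mul (Fn.mul (Fn.int 16) (Fn.pow a 3)) d) (Fn.mul (Fn.mul (Fn.int 16) (Fn.pow a
    2)) (Fn.pow d 2))) (Fn.mul (Fn.mul (Fn.int 8) (Fn.pow a 2)) d)) (Fn.mul (Fn.mul (Fn.int 4)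
    a) (Fn.pow d 3))) (Fn.mul (Fn.mul (Fn.int 16) a) (Fn.pow d 2))) (Fn.mul (Fn.mul (Fn.int 4)
    a) d)) (Fn.mul (Fn.int 6) (Fn.pow d 3))) (Fn.mul (Fn.int 4) (Fn.pow d 2))) (Fn.mul (Fn.int
    2) d))) (Fn.mul (Fn.int 16) (Fn.pow a 3))) (Fn.mul (Fn.mul (Fn.int 24) (Fn.pow a 2)) d))
    (Fn.mul (Fn.int 8) (Fn.pow a 2))) (Fn.mul (Fn.mul (Fn.int 12) a) (Fn.pow d 2))) (Fn.mul
    (Fn.mul (Fn.int 8) a) d)) (Fn.mul (Fn.int 4) a)) (Fn.mul (Fn.int 2) (Fn.pow d 3))) (Fn.mul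
    (Fn.int 2) (Fn.pow d 2))) (Fn.mul (Fn.int 2) d)) (Fn.int 2))

theorem rC_LMG1_000000_0 (hA : AtomsPos A x θ) {a d v : Fn} {a' d' v' : ℝ}
    (ha : Rep A x θ a a')
    (hd : Rep A x θ d d')
    (hv : Rep A x θ v v')
    : Rep A x θ (eC_LMG1_000000_0 A a d v)
      (Closed.LMG1_000000_0 a' d' v') :=
  (Rep.add (Rep.sub (Rep.sub (Rep.add (Rep.sub (Rep.sub (Rep.add (Rep.sub (Rep.add (Rep.add
    (Rep.mul hv (Rep.add (Rep.sub (Rep.sub (Rep.sub (Rep.sub (Rep.add (Rep.sub (Rep.add (Rep.mul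
    (Rep.mul (Rep.natLit hA 16) (Rep.pow ha 3)) hd) (Rep.mul (Rep.mul (Rep.natLit hA 16)
    (Rep.pow ha 2)) (Rep.pow hd 2))) (Rep.mul (Rep.mul (Rep.natLit hA 8) (Rep.pow ha 2)) hd))
    (Rep.mul (Rep.mul (Rep.natLit hA 4) ha) (Rep.pow hd 3))) (Rep.mul (Rep.mul (Rep.natLit hA
    16) ha) (Rep.pow hd 2))) (Rep.mul (Rep.mul (Rep.natLit hA 4) ha) hd)) (Rep.mul (Rep.natLit
    hA 6) (Rep.pow hd 3))) (Rep.mul (Rep.natLit hA 4) (Rep.pow hd 2))) (Rep.mul (Rep.natLit hA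
    2) hd))) (Rep.mul (Rep.natLit hA 16) (Rep.pow ha 3))) (Rep.mul (Rep.mul (Rep.natLit hA 24)
    (Rep.pow ha 2)) hd)) (Rep.mul (Rep.natLit hA 8) (Rep.pow ha 2))) (Rep.mul (Rep.mul
    (Rep.natLit hA 12) ha) (Rep.pow hd 2))) (Rep.mul (Rep.mul (Rep.natLit hA 8) ha) hd))
    (Rep.mul (Rep.natLit hA 4) ha)) (Rep.mul (Rep.natLit hA 2) (Rep.pow hd 3))) (Rep.mul
    (Rep.natLit hA 2) (Rep.pow hd 2))) (Rep.mul (Rep.natLit hA 2) hd)) (Rep.natLit hA 2))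

/-- The fraction of `Closed.LMG1_000000_1`. -/
def eC_LMG1_000000_1 (A : List (List Ex)) (a d v : Fn) : Fn :=
  (Fn.add A (Fn.sub A (Fn.add A (Fn.add A (Fn.add A (Fn.add A (Fn.mul (Fn.mul (Fn.int 8) (Fn.pow a
    3)) (Fn.pow d 2)) (Fn.mul (Fn.mul (Fn.int 8) (Fn.pow a 2)) (Fn.pow d 3))) (Fn.mul (Fn.mul
    (Fn.int 4) (Fn.pow a 2)) (Fn.pow d 2))) (Fn.mul (Fn.mul (Fn.int 2) a) (Fn.pow d 4))) (Fn.mul
    (Fn.mul (Fn.int 2) a) (Fn.pow d 2))) (Fn.pow d 4)) (Fn.pow d 2))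

theorem rC_LMG1_000000_1 (hA : AtomsPos A x θ) {a d v : Fn} {a' d' v' : ℝ}
    (ha : Rep A x θ a a')
    (hd : Rep A x θ d d')
    (hv : Rep A x θ v v')
    : Rep A x θ (eC_LMG1_000000_1 A a d v)
      (Closed.LMG1_000000_1 a' d' v') :=
  (Rep.add (Rep.sub (Rep.add (Rep.add (Rep.add (Rep.add (Rep.mul (Rep.mul (Rep.natLit hA 8)
    (Rep.pow ha 3)) (Rep.pow hd 2)) (Rep.mul (Rep.mul (Rep.natLit hA 8) (Rep.pow ha 2)) (Rep.pow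
    hd 3))) (Rep.mul (Rep.mul (Rep.natLit hA 4) (Rep.pow ha 2)) (Rep.pow hd 2))) (Rep.mul
    (Rep.mul (Rep.natLit hA 2) ha) (Rep.pow hd 4))) (Rep.mul (Rep.mul (Rep.natLit hA 2) ha)
    (Rep.pow hd 2))) (Rep.pow hd 4)) (Rep.pow hd 2))

/-- The fraction of `Closed.LMG1`. -/
def eC_LMG1 (A : List (List Ex)) (a d v : Fn) : Fn :=
  (Fn.add A (eC_LMG1_000000_0 A a d v) (Fn.mul (Fn.pow v 2) (eC_LMG1_000000_1 A a d v)))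

theorem rC_LMG1 (hA : AtomsPos A x θ) {a d v : Fn} {a' d' v' : ℝ}
    (ha : Rep A x θ a a')
    (hd : Rep A x θ d d')
    (hv : Rep A x θ v v')
    : Rep A x θ (eC_LMG1 A a d v)
      (Closed.LMG1 a' d' v') :=
  (Rep.add (rC_LMG1_000000_0 hA ha hd hv) (Rep.mul (Rep.pow hv 2) (rC_LMG1_000000_1 hA ha hd hv)))

/-- The fraction of `Closed.LMGc_000000_0`. -/
def eC_LMGc_000000_0 (A : List (List Ex)) (a d v : Fn) : Fn :=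
  (Fn.sub A (Fn.add A (Fn.sub A (Fn.add A (Fn.add A (Fn.mul v (Fn.sub A (Fn.add A (Fn.sub A
    (Fn.add A (Fn.add A (Fn.sub A (Fn.add A (Fn.sub A (Fn.sub A (Fn.sub A (Fn.mul (Fn.neg
    (Fn.int 128)) (Fn.pow a 4)) (Fn.mul (Fn.mul (Fn.int 256) (Fn.pow a 3)) d)) (Fn.mul (Fn.int
    64) (Fn.pow a 3))) (Fn.mul (Fn.mul (Fn.int 224) (Fn.pow a 2)) (Fn.pow d 2))) (Fn.mul (Fn.int
    64) (Fn.pow a 2))) (Fn.mul (Fn.mul (Fn.int 96) a) (Fn.pow d 3))) (Fn.mul (Fn.mul (Fn.int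
    112) a) (Fn.pow d 2))) (Fn.mul (Fn.mul (Fn.int 16) a) d)) (Fn.mul (Fn.int 16) (Fn.pow d 4)))
    (Fn.mul (Fn.int 48) (Fn.pow d 3))) (Fn.mul (Fn.int 32) (Fn.pow d 2)))) (Fn.mul (Fn.int 64)
    (Fn.pow a 2))) (Fn.mul (Fn.mul (Fn.int 64) a) d)) (Fn.mul (Fn.int 32) a)) (Fn.mul (Fn.int
    16) (Fn.pow d 2))) (Fn.mul (Fn.int 16) d))

theorem rC_LMGc_000000_0 (hA : AtomsPos A x θ) {a d v : Fn} {a' d' v' : ℝ}
    (ha : Rep A x θ a a')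
    (hd : Rep A x θ d d')
    (hv : Rep A x θ v v')
    : Rep A x θ (eC_LMGc_000000_0 A a d v)
      (Closed.LMGc_000000_0 a' d' v') :=
  (Rep.sub (Rep.add (Rep.sub (Rep.add (Rep.add (Rep.mul hv (Rep.sub (Rep.add (Rep.sub (Rep.add
    (Rep.add (Rep.sub (Rep.add (Rep.sub (Rep.sub (Rep.sub (Rep.mul (Rep.neg (Rep.natLit hA 128))
    (Rep.pow ha 4)) (Rep.mul (Rep.mul (Rep.natLit hA 256) (Rep.pow ha 3)) hd)) (Rep.mul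
    (Rep.natLit hA 64) (Rep.pow ha 3))) (Rep.mul (Rep.mul (Rep.natLit hA 224) (Rep.pow ha 2))
    (Rep.pow hd 2))) (Rep.mul (Rep.natLit hA 64) (Rep.pow ha 2))) (Rep.mul (Rep.mul (Rep.natLit
    hA 96) ha) (Rep.pow hd 3))) (Rep.mul (Rep.mul (Rep.natLit hA 112) ha) (Rep.pow hd 2)))
    (Rep.mul (Rep.mul (Rep.natLit hA 16) ha) hd)) (Rep.mul (Rep.natLit hA 16) (Rep.pow hd 4)))
    (Rep.mul (Rep.natLit hA 48) (Rep.pow hd 3))) (Rep.mul (Rep.natLit hA 32) (Rep.pow hd 2))))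
    (Rep.mul (Rep.natLit hA 64) (Rep.pow ha 2))) (Rep.mul (Rep.mul (Rep.natLit hA 64) ha) hd))
    (Rep.mul (Rep.natLit hA 32) ha)) (Rep.mul (Rep.natLit hA 16) (Rep.pow hd 2))) (Rep.mul
    (Rep.natLit hA 16) hd))

/-- The fraction of `Closed.LMGc_000000_1`. -/
def eC_LMGc_000000_1 (A : List (List Ex)) (a d v : Fn) : Fn :=
  (Fn.add A (Fn.sub A (Fn.add A (Fn.sub A (Fn.add A (Fn.sub A (Fn.sub A (Fn.add A (Fn.sub A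
    (Fn.sub A (Fn.sub A (Fn.sub A (Fn.sub A (Fn.mul v (Fn.sub A (Fn.add A (Fn.sub A (Fn.add A
    (Fn.sub A (Fn.sub A (Fn.add A (Fn.sub A (Fn.mul (Fn.mul (Fn.neg (Fn.int 32)) (Fn.pow a 4))
    (Fn.pow d 2)) (Fn.mul (Fn.mul (Fn.int 32) (Fn.pow a 3)) (Fn.pow d 3))) (Fn.mul (Fn.mul
    (Fn.int 16) (Fn.pow a 3)) (Fn.pow d 2))) (Fn.mul (Fn.mul (Fn.int 8) (Fn.pow a 2)) (Fn.pow d
    4))) (Fn.mul (Fn.mul (Fn.int 16) (Fn.pow a 2)) (Fn.pow d 3))) (Fn.mul (Fn.mul (Fn.int 8)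
    (Fn.pow a 2)) (Fn.pow d 2))) (Fn.mul (Fn.mul (Fn.int 12) a) (Fn.pow d 4))) (Fn.mul (Fn.mul
    (Fn.int 16) a) (Fn.pow d 3))) (Fn.mul (Fn.mul (Fn.int 4) a) (Fn.pow d 2)))) (Fn.mul (Fn.mul
    (Fn.int 128) (Fn.pow a 4)) d)) (Fn.mul (Fn.mul (Fn.int 192) (Fn.pow a 3)) (Fn.pow d 2)))
    (Fn.mul (Fn.mul (Fn.int 64) (Fn.pow a 3)) d)) (Fn.mul (Fn.mul (Fn.int 128) (Fn.pow a 2))
    (Fn.pow d 3))) (Fn.mul (Fn.mul (Fn.int 144) (Fn.pow a 2)) (Fn.pow d 2))) (Fn.mul (Fn.mul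
    (Fn.int 64) (Fn.pow a 2)) d)) (Fn.mul (Fn.mul (Fn.int 48) a) (Fn.pow d 4))) (Fn.mul (Fn.mul
    (Fn.int 32) a) (Fn.pow d 3))) (Fn.mul (Fn.mul (Fn.int 64) a) (Fn.pow d 2))) (Fn.mul (Fn.int
    8) (Fn.pow d 5))) (Fn.mul (Fn.int 12) (Fn.pow d 4))) (Fn.mul (Fn.int 8) (Fn.pow d 3)))
    (Fn.mul (Fn.int 4) (Fn.pow d 2)))

theorem rC_LMGc_000000_1 (hA : AtomsPos A x θ) {a d v : Fn} {a' d' v' : ℝ}
    (ha : Rep A x θ a a')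
    (hd : Rep A x θ d d')
    (hv : Rep A x θ v v')
    : Rep A x θ (eC_LMGc_000000_1 A a d v)
      (Closed.LMGc_000000_1 a' d' v') :=
  (Rep.add (Rep.sub (Rep.add (Rep.sub (Rep.add (Rep.sub (Rep.sub (Rep.add (Rep.sub (Rep.sub
    (Rep.sub (Rep.sub (Rep.sub (Rep.mul hv (Rep.sub (Rep.add (Rep.sub (Rep.add (Rep.sub (Rep.sub
    (Rep.add (Rep.sub (Rep.mul (Rep.mul (Rep.neg (Rep.natLit hA 32)) (Rep.pow ha 4)) (Rep.pow hd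
    2)) (Rep.mul (Rep.mul (Rep.natLit hA 32) (Rep.pow ha 3)) (Rep.pow hd 3))) (Rep.mul (Rep.mul
    (Rep.natLit hA 16) (Rep.pow ha 3)) (Rep.pow hd 2))) (Rep.mul (Rep.mul (Rep.natLit hA 8)
    (Rep.pow ha 2)) (Rep.pow hd 4))) (Rep.mul (Rep.mul (Rep.natLit hA 16) (Rep.pow ha 2))
    (Rep.pow hd 3))) (Rep.mul (Rep.mul (Rep.natLit hA 8) (Rep.pow ha 2)) (Rep.pow hd 2)))
    (Rep.mul (Rep.mul (Rep.natLit hA 12) ha) (Rep.pow hd 4))) (Rep.mul (Rep.mul (Rep.natLit hA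
    16) ha) (Rep.pow hd 3))) (Rep.mul (Rep.mul (Rep.natLit hA 4) ha) (Rep.pow hd 2)))) (Rep.mul
    (Rep.mul (Rep.natLit hA 128) (Rep.pow ha 4)) hd)) (Rep.mul (Rep.mul (Rep.natLit hA 192)
    (Rep.pow ha 3)) (Rep.pow hd 2))) (Rep.mul (Rep.mul (Rep.natLit hA 64) (Rep.pow ha 3)) hd))
    (Rep.mul (Rep.mul (Rep.natLit hA 128) (Rep.pow ha 2)) (Rep.pow hd 3))) (Rep.mul (Rep.mul
    (Rep.natLit hA 144) (Rep.pow ha 2)) (Rep.pow hd 2))) (Rep.mul (Rep.mul (Rep.natLit hA 64)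
    (Rep.pow ha 2)) hd)) (Rep.mul (Rep.mul (Rep.natLit hA 48) ha) (Rep.pow hd 4))) (Rep.mul
    (Rep.mul (Rep.natLit hA 32) ha) (Rep.pow hd 3))) (Rep.mul (Rep.mul (Rep.natLit hA 64) ha)
    (Rep.pow hd 2))) (Rep.mul (Rep.natLit hA 8) (Rep.pow hd 5))) (Rep.mul (Rep.natLit hA 12)
    (Rep.pow hd 4))) (Rep.mul (Rep.natLit hA 8) (Rep.pow hd 3))) (Rep.mul (Rep.natLit hA 4)
    (Rep.pow hd 2)))

/-- The fraction of `LMGcLin`. -/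
def eLMGcLin (A : List (List Ex)) (a d v g W W1 om : Fn) : Fn :=
  (Fn.add A (Fn.add A (Fn.add A (Fn.add A (eC_LMGc_000000_0 A a d v) (Fn.mul (Fn.pow v 2)
    (eC_LMGc_000000_1 A a d v))) (Fn.mul (Fn.mul g W1) (Fn.add A (Fn.sub A (Fn.add A (Fn.sub A
    (Fn.add A (Fn.sub A (Fn.sub A (Fn.mul v (Fn.add A (Fn.sub A (Fn.add A (Fn.sub A (Fn.add A
    (Fn.sub A (Fn.mul (Fn.mul (Fn.neg (Fn.int 8)) (Fn.pow a 3)) d) (Fn.mul (Fn.mul (Fn.int 20)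
    (Fn.pow a 2)) (Fn.pow d 2))) (Fn.mul (Fn.mul (Fn.int 4) (Fn.pow a 2)) d)) (Fn.mul (Fn.mul
    (Fn.int 16) a) (Fn.pow d 3))) (Fn.mul (Fn.mul (Fn.int 8) a) (Fn.pow d 2))) (Fn.mul (Fn.int
    4) (Fn.pow d 4))) (Fn.mul (Fn.int 4) (Fn.pow d 3)))) (Fn.mul (Fn.int 16) (Fn.pow a 3)))
    (Fn.mul (Fn.mul (Fn.int 40) (Fn.pow a 2)) d)) (Fn.mul (Fn.int 8) (Fn.pow a 2))) (Fn.mul
    (Fn.mul (Fn.int 32) a) (Fn.pow d 2))) (Fn.mul (Fn.mul (Fn.int 16) a) d)) (Fn.mul (Fn.int 8)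
    (Fn.pow d 3))) (Fn.mul (Fn.int 8) (Fn.pow d 2))))) (Fn.mul (Fn.mul g W) (Fn.add A (Fn.sub A
    (Fn.add A (Fn.sub A (Fn.sub A (Fn.mul v (Fn.add A (Fn.add A (Fn.sub A (Fn.add A (Fn.sub A
    (Fn.sub A (Fn.sub A (Fn.sub A (Fn.mul v (Fn.sub A (Fn.add A (Fn.sub A (Fn.sub A (Fn.sub A
    (Fn.sub A (Fn.add A (Fn.mul (Fn.mul (Fn.int 12) (Fn.pow a 3)) (Fn.pow d 2)) (Fn.mul (Fn.mul
    (Fn.int 12) (Fn.pow a 2)) (Fn.pow d 3))) (Fn.mul (Fn.mul (Fn.int 4) (Fn.pow a 2)) (Fn.pow d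
    2))) (Fn.mul (Fn.mul (Fn.int 3) a) (Fn.pow d 4))) (Fn.mul a (Fn.pow d 2))) (Fn.mul (Fn.int
    3) (Fn.pow d 5))) (Fn.mul (Fn.int 4) (Fn.pow d 4))) (Fn.pow d 3))) (Fn.mul (Fn.mul (Fn.int
    24) (Fn.pow a 2)) (Fn.pow d 2))) (Fn.mul (Fn.mul (Fn.int 16) (Fn.pow a 2)) d)) (Fn.mul
    (Fn.mul (Fn.int 36) a) (Fn.pow d 3))) (Fn.mul (Fn.mul (Fn.int 12) a) (Fn.pow d 2))) (Fn.mul
    (Fn.mul (Fn.int 8) a) d)) (Fn.mul (Fn.int 12) (Fn.pow d 4))) (Fn.mul (Fn.int 4) (Fn.pow d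
    3))) (Fn.mul (Fn.int 8) (Fn.pow d 2)))) (Fn.mul (Fn.int 8) (Fn.pow a 2))) (Fn.mul (Fn.mul
    (Fn.int 12) a) d)) (Fn.mul (Fn.int 4) a)) (Fn.mul (Fn.int 4) (Fn.pow d 2))) (Fn.mul (Fn.int
    4) d)))) (Fn.mul (Fn.mul (Fn.mul g W) om) (Fn.mul v (Fn.add A (Fn.sub A (Fn.add A (Fn.sub A
    (Fn.add A (Fn.sub A (Fn.mul (Fn.mul (Fn.neg (Fn.int 2)) (Fn.pow a 3)) (Fn.pow d 2)) (Fn.mul
    (Fn.mul (Fn.int 5) (Fn.pow a 2)) (Fn.pow d 3))) (Fn.mul (Fn.pow a 2) (Fn.pow d 2))) (Fn.mul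
    (Fn.mul (Fn.int 4) a) (Fn.pow d 4))) (Fn.mul (Fn.mul (Fn.int 2) a) (Fn.pow d 3))) (Fn.pow d
    5)) (Fn.pow d 4)))))

theorem rLMGcLin (hA : AtomsPos A x θ) {a d v g W W1 om : Fn} {a' d' v' g' W' W1' om' : ℝ}
    (ha : Rep A x θ a a')
    (hd : Rep A x θ d d')
    (hv : Rep A x θ v v')
    (hg : Rep A x θ g g')
    (hW : Rep A x θ W W')
    (hW1 : Rep A x θ W1 W1')
    (hom : Rep A x θ om om')
    : Rep A x θ (eLMGcLin A a d v g W W1 om)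
      (LMGcLin a' d' v' g' W' W1' om') :=
  (Rep.add (Rep.add (Rep.add (Rep.add (rC_LMGc_000000_0 hA ha hd hv) (Rep.mul (Rep.pow hv 2)
    (rC_LMGc_000000_1 hA ha hd hv))) (Rep.mul (Rep.mul hg hW1) (Rep.add (Rep.sub (Rep.add
    (Rep.sub (Rep.add (Rep.sub (Rep.sub (Rep.mul hv (Rep.add (Rep.sub (Rep.add (Rep.sub (Rep.add
    (Rep.sub (Rep.mul (Rep.mul (Rep.neg (Rep.natLit hA 8)) (Rep.pow ha 3)) hd) (Rep.mul (Rep.mul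
    (Rep.natLit hA 20) (Rep.pow ha 2)) (Rep.pow hd 2))) (Rep.mul (Rep.mul (Rep.natLit hA 4)
    (Rep.pow ha 2)) hd)) (Rep.mul (Rep.mul (Rep.natLit hA 16) ha) (Rep.pow hd 3))) (Rep.mul
    (Rep.mul (Rep.natLit hA 8) ha) (Rep.pow hd 2))) (Rep.mul (Rep.natLit hA 4) (Rep.pow hd 4)))
    (Rep.mul (Rep.natLit hA 4) (Rep.pow hd 3)))) (Rep.mul (Rep.natLit hA 16) (Rep.pow ha 3)))
    (Rep.mul (Rep.mul (Rep.natLit hA 40) (Rep.pow ha 2)) hd)) (Rep.mul (Rep.natLit hA 8)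
    (Rep.pow ha 2))) (Rep.mul (Rep.mul (Rep.natLit hA 32) ha) (Rep.pow hd 2))) (Rep.mul (Rep.mul
    (Rep.natLit hA 16) ha) hd)) (Rep.mul (Rep.natLit hA 8) (Rep.pow hd 3))) (Rep.mul (Rep.natLit
    hA 8) (Rep.pow hd 2))))) (Rep.mul (Rep.mul hg hW) (Rep.add (Rep.sub (Rep.add (Rep.sub
    (Rep.sub (Rep.mul hv (Rep.add (Rep.add (Rep.sub (Rep.add (Rep.sub (Rep.sub (Rep.sub (Rep.sub
    (Rep.mul hv (Rep.sub (Rep.add (Rep.sub (Rep.sub (Rep.sub (Rep.sub (Rep.add (Rep.mul (Rep.mul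
    (Rep.natLit hA 12) (Rep.pow ha 3)) (Rep.pow hd 2)) (Rep.mul (Rep.mul (Rep.natLit hA 12)
    (Rep.pow ha 2)) (Rep.pow hd 3))) (Rep.mul (Rep.mul (Rep.natLit hA 4) (Rep.pow ha 2))
    (Rep.pow hd 2))) (Rep.mul (Rep.mul (Rep.natLit hA 3) ha) (Rep.pow hd 4))) (Rep.mul ha
    (Rep.pow hd 2))) (Rep.mul (Rep.natLit hA 3) (Rep.pow hd 5))) (Rep.mul (Rep.natLit hA 4)
    (Rep.pow hd 4))) (Rep.pow hd 3))) (Rep.mul (Rep.mul (Rep.natLit hA 24) (Rep.pow ha 2))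
    (Rep.pow hd 2))) (Rep.mul (Rep.mul (Rep.natLit hA 16) (Rep.pow ha 2)) hd)) (Rep.mul (Rep.mul
    (Rep.natLit hA 36) ha) (Rep.pow hd 3))) (Rep.mul (Rep.mul (Rep.natLit hA 12) ha) (Rep.pow hd
    2))) (Rep.mul (Rep.mul (Rep.natLit hA 8) ha) hd)) (Rep.mul (Rep.natLit hA 12) (Rep.pow hd
    4))) (Rep.mul (Rep.natLit hA 4) (Rep.pow hd 3))) (Rep.mul (Rep.natLit hA 8) (Rep.pow hd
    2)))) (Rep.mul (Rep.natLit hA 8) (Rep.pow ha 2))) (Rep.mul (Rep.mul (Rep.natLit hA 12) ha)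
    hd)) (Rep.mul (Rep.natLit hA 4) ha)) (Rep.mul (Rep.natLit hA 4) (Rep.pow hd 2))) (Rep.mul
    (Rep.natLit hA 4) hd)))) (Rep.mul (Rep.mul (Rep.mul hg hW) hom) (Rep.mul hv (Rep.add
    (Rep.sub (Rep.add (Rep.sub (Rep.add (Rep.sub (Rep.mul (Rep.mul (Rep.neg (Rep.natLit hA 2))
    (Rep.pow ha 3)) (Rep.pow hd 2)) (Rep.mul (Rep.mul (Rep.natLit hA 5) (Rep.pow ha 2)) (Rep.pow
    hd 3))) (Rep.mul (Rep.pow ha 2) (Rep.pow hd 2))) (Rep.mul (Rep.mul (Rep.natLit hA 4) ha)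
    (Rep.pow hd 4))) (Rep.mul (Rep.mul (Rep.natLit hA 2) ha) (Rep.pow hd 3))) (Rep.pow hd 5))
    (Rep.pow hd 4)))))

/-- The fraction of `Closed.LMGv`. -/
def eC_LMGv (A : List (List Ex)) (a d v g W : Fn) : Fn :=
  (Fn.add A (Fn.sub A (Fn.mul v (Fn.sub A (Fn.add A (Fn.add A (Fn.add A (Fn.add A (Fn.mul v
    (Fn.add A (Fn.add A (Fn.add A (Fn.mul v (Fn.sub A (Fn.add A (Fn.mul (Fn.mul (Fn.int 2)
    (Fn.pow a 2)) (Fn.pow d 2)) (Fn.mul a (Fn.pow d 3))) (Fn.mul a (Fn.pow d 2)))) (Fn.mul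
    (Fn.mul (Fn.int 4) (Fn.pow a 2)) d)) (Fn.mul (Fn.mul (Fn.int 2) a) (Fn.pow d 2))) (Fn.mul
    (Fn.mul (Fn.int 2) a) d))) (Fn.mul (Fn.int 4) (Fn.pow a 2))) (Fn.mul (Fn.mul (Fn.int 4) a)
    d)) (Fn.mul (Fn.int 2) a)) (Fn.pow d 2)) (Fn.mul (Fn.int 5) d))) (Fn.int 4)) (Fn.mul (Fn.mul
    g W) (Fn.add A (Fn.add A (Fn.mul v (Fn.add A (Fn.mul a d) (Fn.pow d 2))) a) d)))

theorem rC_LMGv (hA : AtomsPos A x θ) {a d v g W : Fn} {a' d' v' g' W' : ℝ}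
    (ha : Rep A x θ a a')
    (hd : Rep A x θ d d')
    (hv : Rep A x θ v v')
    (hg : Rep A x θ g g')
    (hW : Rep A x θ W W')
    : Rep A x θ (eC_LMGv A a d v g W)
      (Closed.LMGv a' d' v' g' W') :=
  (Rep.add (Rep.sub (Rep.mul hv (Rep.sub (Rep.add (Rep.add (Rep.add (Rep.add (Rep.mul hv (Rep.add
    (Rep.add (Rep.add (Rep.mul hv (Rep.sub (Rep.add (Rep.mul (Rep.mul (Rep.natLit hA 2) (Rep.pow
    ha 2)) (Rep.pow hd 2)) (Rep.mul ha (Rep.pow hd 3))) (Rep.mul ha (Rep.pow hd 2)))) (Rep.mul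
    (Rep.mul (Rep.natLit hA 4) (Rep.pow ha 2)) hd)) (Rep.mul (Rep.mul (Rep.natLit hA 2) ha)
    (Rep.pow hd 2))) (Rep.mul (Rep.mul (Rep.natLit hA 2) ha) hd))) (Rep.mul (Rep.natLit hA 4)
    (Rep.pow ha 2))) (Rep.mul (Rep.mul (Rep.natLit hA 4) ha) hd)) (Rep.mul (Rep.natLit hA 2)
    ha)) (Rep.pow hd 2)) (Rep.mul (Rep.natLit hA 5) hd))) (Rep.natLit hA 4)) (Rep.mul (Rep.mul
    hg hW) (Rep.add (Rep.add (Rep.mul hv (Rep.add (Rep.mul ha hd) (Rep.pow hd 2))) ha) hd)))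

/-- The fraction of `Closed.LMGw`. -/
def eC_LMGw (A : List (List Ex)) (a d v g E K : Fn) : Fn :=
  (Fn.add A (Fn.mul (Fn.mul g K) (Fn.mul v (Fn.sub A (Fn.add A (Fn.add A (Fn.mul v (Fn.sub A
    (Fn.add A (Fn.mul (Fn.mul (Fn.int 8) a) d) (Fn.mul (Fn.int 4) (Fn.pow d 2))) (Fn.mul (Fn.int
    4) d))) (Fn.mul (Fn.int 16) a)) (Fn.mul (Fn.int 8) d)) (Fn.int 8)))) (Fn.mul (Fn.mul g E)
    (Fn.sub A (Fn.add A (Fn.sub A (Fn.add A (Fn.sub A (Fn.sub A (Fn.mul v (Fn.add A (Fn.sub A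
    (Fn.add A (Fn.sub A (Fn.sub A (Fn.mul v (Fn.sub A (Fn.add A (Fn.sub A (Fn.sub A (Fn.add A
    (Fn.mul (Fn.mul (Fn.int 8) (Fn.pow a 2)) (Fn.pow d 2)) (Fn.mul (Fn.mul (Fn.int 2) a) (Fn.pow
    d 3))) (Fn.mul (Fn.mul (Fn.int 2) a) (Fn.pow d 2))) (Fn.pow d 4)) (Fn.mul (Fn.int 2) (Fn.pow
    d 3))) (Fn.pow d 2))) (Fn.mul (Fn.mul (Fn.int 16) (Fn.pow a 2)) d)) (Fn.mul (Fn.mul (Fn.int
    28) a) (Fn.pow d 2))) (Fn.mul (Fn.mul (Fn.int 8) a) d)) (Fn.mul (Fn.int 10) (Fn.pow d 3)))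
    (Fn.mul (Fn.int 10) (Fn.pow d 2)))) (Fn.mul (Fn.int 16) (Fn.pow a 2))) (Fn.mul (Fn.mul
    (Fn.int 16) a) d)) (Fn.mul (Fn.int 16) a)) (Fn.mul (Fn.int 4) (Fn.pow d 2))) (Fn.mul (Fn.int
    8) d)) (Fn.int 4))))

theorem rC_LMGw (hA : AtomsPos A x θ) {a d v g E K : Fn} {a' d' v' g' E' K' : ℝ}
    (ha : Rep A x θ a a')
    (hd : Rep A x θ d d')
    (hv : Rep A x θ v v')
    (hg : Rep A x θ g g')
    (hE : Rep A x θ E E')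
    (hK : Rep A x θ K K')
    : Rep A x θ (eC_LMGw A a d v g E K)
      (Closed.LMGw a' d' v' g' E' K') :=
  (Rep.add (Rep.mul (Rep.mul hg hK) (Rep.mul hv (Rep.sub (Rep.add (Rep.add (Rep.mul hv (Rep.sub
    (Rep.add (Rep.mul (Rep.mul (Rep.natLit hA 8) ha) hd) (Rep.mul (Rep.natLit hA 4) (Rep.pow hd
    2))) (Rep.mul (Rep.natLit hA 4) hd))) (Rep.mul (Rep.natLit hA 16) ha)) (Rep.mul (Rep.natLit
    hA 8) hd)) (Rep.natLit hA 8)))) (Rep.mul (Rep.mul hg hE) (Rep.sub (Rep.add (Rep.sub (Rep.add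
    (Rep.sub (Rep.sub (Rep.mul hv (Rep.add (Rep.sub (Rep.add (Rep.sub (Rep.sub (Rep.mul hv
    (Rep.sub (Rep.add (Rep.sub (Rep.sub (Rep.add (Rep.mul (Rep.mul (Rep.natLit hA 8) (Rep.pow ha
    2)) (Rep.pow hd 2)) (Rep.mul (Rep.mul (Rep.natLit hA 2) ha) (Rep.pow hd 3))) (Rep.mul
    (Rep.mul (Rep.natLit hA 2) ha) (Rep.pow hd 2))) (Rep.pow hd 4)) (Rep.mul (Rep.natLit hA 2)
    (Rep.pow hd 3))) (Rep.pow hd 2))) (Rep.mul (Rep.mul (Rep.natLit hA 16) (Rep.pow ha 2)) hd))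
    (Rep.mul (Rep.mul (Rep.natLit hA 28) ha) (Rep.pow hd 2))) (Rep.mul (Rep.mul (Rep.natLit hA
    8) ha) hd)) (Rep.mul (Rep.natLit hA 10) (Rep.pow hd 3))) (Rep.mul (Rep.natLit hA 10)
    (Rep.pow hd 2)))) (Rep.mul (Rep.natLit hA 16) (Rep.pow ha 2))) (Rep.mul (Rep.mul (Rep.natLit
    hA 16) ha) hd)) (Rep.mul (Rep.natLit hA 16) ha)) (Rep.mul (Rep.natLit hA 4) (Rep.pow hd 2)))
    (Rep.mul (Rep.natLit hA 8) hd)) (Rep.natLit hA 4))))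

/-- The fraction of `ClosedGen.MG_g`. -/
def eG_MG_g (A : List (List Ex)) (a d v g W : Fn) : Fn :=
  (Fn.add A (Fn.sub A (Fn.add A (Fn.add A (Fn.mul v (Fn.add A (Fn.sub A (Fn.mul (Fn.neg (Fn.int
    8)) (Fn.pow a 2)) (Fn.mul (Fn.mul (Fn.int 4) a) d)) (Fn.mul (Fn.int 4) a))) (Fn.mul (Fn.int
    8) a)) (Fn.mul (Fn.int 4) d)) (Fn.int 4)) (Fn.mul (Fn.mul g W) (Fn.sub A (Fn.neg a) d)))

theorem rG_MG_g (hA : AtomsPos A x θ) {a d v g W : Fn} {a' d' v' g' W' : ℝ}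
    (ha : Rep A x θ a a')
    (hd : Rep A x θ d d')
    (hv : Rep A x θ v v')
    (hg : Rep A x θ g g')
    (hW : Rep A x θ W W')
    : Rep A x θ (eG_MG_g A a d v g W)
      (ClosedGen.MG_g a' d' v' g' W') :=
  (Rep.add (Rep.sub (Rep.add (Rep.add (Rep.mul hv (Rep.add (Rep.sub (Rep.mul (Rep.neg (Rep.natLit
    hA 8)) (Rep.pow ha 2)) (Rep.mul (Rep.mul (Rep.natLit hA 4) ha) hd)) (Rep.mul (Rep.natLit hA
    4) ha))) (Rep.mul (Rep.natLit hA 8) ha)) (Rep.mul (Rep.natLit hA 4) hd)) (Rep.natLit hA 4))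
    (Rep.mul (Rep.mul hg hW) (Rep.sub (Rep.neg ha) hd)))

/-- The fraction of `ClosedGen.MG_k1`. -/
def eG_MG_k1 (A : List (List Ex)) (a d v : Fn) : Fn :=
  (Fn.add A (Fn.sub A (Fn.sub A (Fn.mul (Fn.neg (Fn.int 4)) (Fn.pow a 2)) (Fn.mul (Fn.mul (Fn.int
    4) a) d)) (Fn.pow d 2)) (Fn.int 1))

theorem rG_MG_k1 (hA : AtomsPos A x θ) {a d v : Fn} {a' d' v' : ℝ}
    (ha : Rep A x θ a a')
    (hd : Rep A x θ d d')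
    (hv : Rep A x θ v v')
    : Rep A x θ (eG_MG_k1 A a d v)
      (ClosedGen.MG_k1 a' d' v') :=
  (Rep.add (Rep.sub (Rep.sub (Rep.mul (Rep.neg (Rep.natLit hA 4)) (Rep.pow ha 2)) (Rep.mul
    (Rep.mul (Rep.natLit hA 4) ha) hd)) (Rep.pow hd 2)) (Rep.lit_one hA))

/-- The fraction of `ClosedGen.MG_kc`. -/
def eG_MG_kc (A : List (List Ex)) (a d v g W : Fn) : Fn :=
  (Fn.add A (Fn.add A (Fn.sub A (Fn.add A (Fn.sub A (Fn.add A (Fn.add A (Fn.mul v (Fn.sub A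
    (Fn.add A (Fn.sub A (Fn.add A (Fn.sub A (Fn.mul (Fn.neg (Fn.int 16)) (Fn.pow a 3)) (Fn.mul
    (Fn.mul (Fn.int 16) (Fn.pow a 2)) d)) (Fn.mul (Fn.int 16) (Fn.pow a 2))) (Fn.mul (Fn.mul
    (Fn.int 4) a) (Fn.pow d 2))) (Fn.mul (Fn.mul (Fn.int 8) a) d)) (Fn.mul (Fn.int 4) a)))
    (Fn.mul (Fn.int 16) (Fn.pow a 2))) (Fn.mul (Fn.mul (Fn.int 16) a) d)) (Fn.mul (Fn.int 16)
    a)) (Fn.mul (Fn.int 4) (Fn.pow d 2))) (Fn.mul (Fn.int 8) d)) (Fn.int 4)) (Fn.mul (Fn.mul g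
    W) (Fn.sub A (Fn.add A (Fn.sub A (Fn.sub A (Fn.add A (Fn.sub A (Fn.add A (Fn.sub A (Fn.mul
    (Fn.neg (Fn.int 4)) (Fn.pow a 3)) (Fn.mul (Fn.mul (Fn.int 8) (Fn.pow a 2)) d)) (Fn.mul
    (Fn.int 4) (Fn.pow a 2))) (Fn.mul (Fn.mul (Fn.int 5) a) (Fn.pow d 2))) (Fn.mul (Fn.mul
    (Fn.int 6) a) d)) a) (Fn.pow d 3)) (Fn.mul (Fn.int 2) (Fn.pow d 2))) d)))

theorem rG_MG_kc (hA : AtomsPos A x θ) {a d v g W : Fn} {a' d' v' g' W' : ℝ}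
    (ha : Rep A x θ a a')
    (hd : Rep A x θ d d')
    (hv : Rep A x θ v v')
    (hg : Rep A x θ g g')
    (hW : Rep A x θ W W')
    : Rep A x θ (eG_MG_kc A a d v g W)
      (ClosedGen.MG_kc a' d' v' g' W') :=
  (Rep.add (Rep.add (Rep.sub (Rep.add (Rep.sub (Rep.add (Rep.add (Rep.mul hv (Rep.sub (Rep.add
    (Rep.sub (Rep.add (Rep.sub (Rep.mul (Rep.neg (Rep.natLit hA 16)) (Rep.pow ha 3)) (Rep.mul
    (Rep.mul (Rep.natLit hA 16) (Rep.pow ha 2)) hd)) (Rep.mul (Rep.natLit hA 16) (Rep.pow ha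
    2))) (Rep.mul (Rep.mul (Rep.natLit hA 4) ha) (Rep.pow hd 2))) (Rep.mul (Rep.mul (Rep.natLit
    hA 8) ha) hd)) (Rep.mul (Rep.natLit hA 4) ha))) (Rep.mul (Rep.natLit hA 16) (Rep.pow ha 2)))
    (Rep.mul (Rep.mul (Rep.natLit hA 16) ha) hd)) (Rep.mul (Rep.natLit hA 16) ha)) (Rep.mul
    (Rep.natLit hA 4) (Rep.pow hd 2))) (Rep.mul (Rep.natLit hA 8) hd)) (Rep.natLit hA 4))
    (Rep.mul (Rep.mul hg hW) (Rep.sub (Rep.add (Rep.sub (Rep.sub (Rep.add (Rep.sub (Rep.add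
    (Rep.sub (Rep.mul (Rep.neg (Rep.natLit hA 4)) (Rep.pow ha 3)) (Rep.mul (Rep.mul (Rep.natLit
    hA 8) (Rep.pow ha 2)) hd)) (Rep.mul (Rep.natLit hA 4) (Rep.pow ha 2))) (Rep.mul (Rep.mul
    (Rep.natLit hA 5) ha) (Rep.pow hd 2))) (Rep.mul (Rep.mul (Rep.natLit hA 6) ha) hd)) ha)
    (Rep.pow hd 3)) (Rep.mul (Rep.natLit hA 2) (Rep.pow hd 2))) hd)))

/-- The fraction of `ClosedGen.MG_kw`. -/
def eG_MG_kw (A : List (List Ex)) (a d v E : Fn) : Fn :=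
  (Fn.mul E (Fn.sub A (Fn.add A (Fn.sub A (Fn.add A (Fn.sub A (Fn.mul (Fn.neg (Fn.int 4)) (Fn.pow
    a 2)) (Fn.mul (Fn.mul (Fn.int 4) a) d)) (Fn.mul (Fn.int 4) a)) (Fn.pow d 2)) (Fn.mul (Fn.int
    2) d)) (Fn.int 1)))

theorem rG_MG_kw (hA : AtomsPos A x θ) {a d v E : Fn} {a' d' v' E' : ℝ}
    (ha : Rep A x θ a a')
    (hd : Rep A x θ d d')
    (hv : Rep A x θ v v')
    (hE : Rep A x θ E E')
    : Rep A x θ (eG_MG_kw A a d v E)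
      (ClosedGen.MG_kw a' d' v' E') :=
  (Rep.mul hE (Rep.sub (Rep.add (Rep.sub (Rep.add (Rep.sub (Rep.mul (Rep.neg (Rep.natLit hA 4))
    (Rep.pow ha 2)) (Rep.mul (Rep.mul (Rep.natLit hA 4) ha) hd)) (Rep.mul (Rep.natLit hA 4) ha))
    (Rep.pow hd 2)) (Rep.mul (Rep.natLit hA 2) hd)) (Rep.lit_one hA)))

/-- The fraction of `LMGSLin`. -/
def eG_LMGSLin (A : List (List Ex)) (a d v g W W1 R t_c t_e2 t_E t_K t_G t_G1 t_D2 om : Fn) : Fn :=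
  (Fn.add A (Fn.add A (Fn.add A (Fn.add A (Fn.add A (Fn.add A (Fn.add A (Fn.mul (Fn.mul (Fn.mul
    (Fn.mul (Fn.mul (Fn.int 4) a) (Fn.add A a d)) v) (Fn.add A (Fn.int 1) (Fn.mul d v)))
    (eC_LMG1 A a d v)) (Fn.mul (Fn.mul t_c (Fn.add A (Fn.int 1) (Fn.mul d v))) (eLMGcLin A a d v
    g W W1 om))) (Fn.mul (Fn.mul (Fn.mul (Fn.mul (Fn.mul (Fn.int 8) t_e2) a) (Fn.add A a d))
    (Fn.pow (Fn.add A (Fn.int 2) (Fn.mul d v)) 2)) (eC_LMGv A a d v g W))) (Fn.mul (Fn.mul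
    (Fn.mul (Fn.int 2) a) (Fn.add A (Fn.int 1) (Fn.mul d v))) (eC_LMGw A a d v g t_E t_K)))
    (Fn.mul (Fn.mul (Fn.mul (Fn.mul (Fn.mul (Fn.mul (Fn.int 4) t_G) v) (Fn.pow d 3)) (Fn.add A
    (Fn.int 2) (Fn.mul d v))) (Fn.add A (Fn.int 1) (Fn.mul d v))) (eG_MG_g A a d v g W)))
    (Fn.mul (Fn.mul (Fn.mul (Fn.mul (Fn.mul (Fn.mul (Fn.mul (Fn.mul (Fn.int 4) t_D2) a) (Fn.add
    A a d)) v) (Fn.pow d 2)) (Fn.pow (Fn.add A (Fn.int 2) (Fn.mul d v)) 2)) (Fn.add A (Fn.int 1)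
    (Fn.mul d v))) (eG_MG_k1 A a d v))) (Fn.mul (Fn.mul (Fn.mul (Fn.mul (Fn.mul t_D2 t_c)
    (Fn.pow d 2)) (Fn.pow (Fn.add A (Fn.int 2) (Fn.mul d v)) 2)) (Fn.add A (Fn.int 1) (Fn.mul d
    v))) (eG_MG_kc A a d v g W))) (Fn.mul (Fn.mul (Fn.mul (Fn.mul (Fn.mul (Fn.mul (Fn.mul
    (Fn.int 2) t_D2) a) (Fn.pow d 2)) g) (Fn.pow (Fn.add A (Fn.int 2) (Fn.mul d v)) 2)) (Fn.add
    A (Fn.int 1) (Fn.mul d v))) (eG_MG_kw A a d v t_E)))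

theorem rG_LMGSLin (hA : AtomsPos A x θ) {a d v g W W1 R t_c t_e2 t_E t_K t_G t_G1 t_D2 om : Fn} {a' d' v' g' W' W1' R' om' : ℝ} {tt : ClosedGen.Num}
    (ha : Rep A x θ a a')
    (hd : Rep A x θ d d')
    (hv : Rep A x θ v v')
    (hg : Rep A x θ g g')
    (hW : Rep A x θ W W')
    (hW1 : Rep A x θ W1 W1')
    (hR : Rep A x θ R R')
    (ht_c : Rep A x θ t_c tt.c)
    (ht_e2 : Rep A x θ t_e2 tt.e2)
    (ht_E : Rep A x θ t_E tt.E)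
    (ht_K : Rep A x θ t_K tt.K)
    (ht_G : Rep A x θ t_G tt.G)
    (ht_G1 : Rep A x θ t_G1 tt.G1)
    (ht_D2 : Rep A x θ t_D2 tt.D2)
    (hom : Rep A x θ om om')
    : Rep A x θ (eG_LMGSLin A a d v g W W1 R t_c t_e2 t_E t_K t_G t_G1 t_D2 om)
      (LMGSLin a' d' v' g' W' W1' R' tt om') :=
  (Rep.add (Rep.add (Rep.add (Rep.add (Rep.add (Rep.add (Rep.add (Rep.mul (Rep.mul (Rep.mul
    (Rep.mul (Rep.mul (Rep.natLit hA 4) ha) (Rep.add ha hd)) hv) (Rep.add (Rep.lit_one hA)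
    (Rep.mul hd hv))) (rC_LMG1 hA ha hd hv)) (Rep.mul (Rep.mul ht_c (Rep.add (Rep.lit_one hA)
    (Rep.mul hd hv))) (rLMGcLin hA ha hd hv hg hW hW1 hom))) (Rep.mul (Rep.mul (Rep.mul (Rep.mul
    (Rep.mul (Rep.natLit hA 8) ht_e2) ha) (Rep.add ha hd)) (Rep.pow (Rep.add (Rep.natLit hA 2)
    (Rep.mul hd hv)) 2)) (rC_LMGv hA ha hd hv hg hW))) (Rep.mul (Rep.mul (Rep.mul (Rep.natLit hA
    2) ha) (Rep.add (Rep.lit_one hA) (Rep.mul hd hv))) (rC_LMGw hA ha hd hv hg ht_E ht_K)))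
    (Rep.mul (Rep.mul (Rep.mul (Rep.mul (Rep.mul (Rep.mul (Rep.natLit hA 4) ht_G) hv) (Rep.pow
    hd 3)) (Rep.add (Rep.natLit hA 2) (Rep.mul hd hv))) (Rep.add (Rep.lit_one hA) (Rep.mul hd
    hv))) (rG_MG_g hA ha hd hv hg hW))) (Rep.mul (Rep.mul (Rep.mul (Rep.mul (Rep.mul (Rep.mul
    (Rep.mul (Rep.mul (Rep.natLit hA 4) ht_D2) ha) (Rep.add ha hd)) hv) (Rep.pow hd 2)) (Rep.pow
    (Rep.add (Rep.natLit hA 2) (Rep.mul hd hv)) 2)) (Rep.add (Rep.lit_one hA) (Rep.mul hd hv)))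
    (rG_MG_k1 hA ha hd hv))) (Rep.mul (Rep.mul (Rep.mul (Rep.mul (Rep.mul ht_D2 ht_c) (Rep.pow
    hd 2)) (Rep.pow (Rep.add (Rep.natLit hA 2) (Rep.mul hd hv)) 2)) (Rep.add (Rep.lit_one hA)
    (Rep.mul hd hv))) (rG_MG_kc hA ha hd hv hg hW))) (Rep.mul (Rep.mul (Rep.mul (Rep.mul
    (Rep.mul (Rep.mul (Rep.mul (Rep.natLit hA 2) ht_D2) ha) (Rep.pow hd 2)) hg) (Rep.pow
    (Rep.add (Rep.natLit hA 2) (Rep.mul hd hv)) 2)) (Rep.add (Rep.lit_one hA) (Rep.mul hd hv)))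
    (rG_MG_kw hA ha hd hv ht_E)))

end Vale.Agent.P100.Calib.EndAll
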