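import Vale.Agent.P100.Calib.SlabAllEndReal
import Vale.Agent.P100.Calib.SlabAllEndForms

/-!
# The signs with a multiplier from bounds of the rows and linear parts

The block entries are combinations of the rows and linear parts. With the rows in intervals, the
squares of `g W` linearised and the multiplier chosen so that `MG - NU` is a given multiple of
`v g`, the signs follow from inequalities between the bounds.
-/

set_option linter.unusedVariables false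

namespace Vale.Agent.P100.Calib.EndAll

variable {a d v g W W1 R : ℝ} {t : ClosedGen.Num}

theorem sum_eq : ClosedGen.TEES a d v g W W1 R t + ClosedGen.TMGS a d v g W W1 R t =
    v * (t.c * a * (a + d) * (8 * ClosedGen.LEES a d v g W W1 R t +
        4 * ClosedGen.LMGS a d v g W W1 R t -
        8 * (1 + (2 * a + d)) * (ClosedGen.gMS a d v g W W1 R t * ClosedGen.gGS a d v g W W1 R t))) -
      4 * (1 + (2 * a + d)) * (a * (a + d) * d ^ 2 * (1 + d * v) * t.c * v) *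
        (ClosedGen.hM_c a d v g W * ClosedGen.hGS a d v g W W1 R t) -
      (1 + (2 * a + d)) / 2 * (t.c * d ^ 2 * (1 + d * v) * ClosedGen.gES a d v g W W1 R t ^ 2 +
        a * (a + d) * ClosedGen.hES a d v g W W1 R t ^ 2) := by
  simp only [ClosedGen.TEES, ClosedGen.TMGS, ClosedGen.hMS, Closed.j1]
  ring

theorem mg_eq : ClosedGen.TMGS a d v g W W1 R t =
    v * (t.c * a * (a + d) * (4 * ClosedGen.LMGS a d v g W W1 R t +
        8 * (1 - (2 * a + d)) * (ClosedGen.gMS a d v g W W1 R t * ClosedGen.gGS a d v g W W1 R t))) +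
      4 * (1 - (2 * a + d)) * (a * (a + d) * d ^ 2 * (1 + d * v) * t.c * v) *
        (ClosedGen.hM_c a d v g W * ClosedGen.hGS a d v g W W1 R t) -
      1 / 2 * (t.c * d ^ 2 * (1 + d * v) * ClosedGen.gES a d v g W W1 R t ^ 2 +
        a * (a + d) * ClosedGen.hES a d v g W W1 R t ^ 2) := by
  simp only [ClosedGen.TMGS, ClosedGen.hMS, Closed.j1]
  ring

theorem gg_eq : ClosedGen.TGGS a d v g W W1 R t =
    v * (8 * (t.c * a * (a + d)) * (2 + d * v) * (1 + d * v) * ClosedGen.LGGS a d v g W W1 R t) -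
      (1 + (2 * a + d)) / 2 * (t.c * ClosedGen.gGS a d v g W W1 R t ^ 2 +
        a * (a + d) * d ^ 2 * (1 + d * v) * ClosedGen.hGS a d v g W W1 R t ^ 2) := by
  simp only [ClosedGen.TGGS, Closed.j1]
  ring

theorem eg_eq : ClosedGen.TEGS a d v g W W1 R t =
    v * (4 * (t.c * a * (a + d)) * ClosedGen.LEGS a d v g W W1 R t) -
      (1 + (2 * a + d)) *
        (t.c * (ClosedGen.gES a d v g W W1 R t * ClosedGen.gGS a d v g W W1 R t) +
        a * (a + d) * (ClosedGen.hES a d v g W W1 R t * ClosedGen.hGS a d v g W W1 R t)) := by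
  simp only [ClosedGen.TEGS, Closed.j1]
  ring

/-- The linearisation of `LEES` is below it. -/
theorem lee_low {om : ℝ} (hc : 0 ≤ t.c) (hv : 0 ≤ v) (hd : 0 ≤ d) (hgW : 0 ≤ g * W)
    (ho : g * W ≤ om) : LEESLin a d v g W W1 R t om ≤ ClosedGen.LEES a d v g W W1 R t := by
  have e : ClosedGen.LEES a d v g W W1 R t = LEESLin a d v g W W1 R t om +
      t.c * (1 + d * v) * (v * (d * (a + d)) ^ 2) * (g * W * (om - g * W)) := by
    simp only [ClosedGen.LEES, LEESLin, LEEcLin, Closed.LEEc]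
    ring
  have : 0 ≤ t.c * (1 + d * v) * (v * (d * (a + d)) ^ 2) * (g * W * (om - g * W)) :=
    mul_nonneg (by positivity) (mul_nonneg hgW (by linarith))
  linarith

/-- The linearisation of `LMGS` is below it. -/
theorem lmg_low {om : ℝ} (hc : 0 ≤ t.c) (hv : 0 ≤ v) (hd : 0 ≤ d) (hgW : 0 ≤ g * W)
    (ho : om ≤ g * W) (hI : 2 * a + d ≤ 1) :
    LMGSLin a d v g W W1 R t om ≤ ClosedGen.LMGS a d v g W W1 R t := by
  have e : ClosedGen.LMGS a d v g W W1 R t = LMGSLin a d v g W W1 R t om +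
      t.c * (1 + d * v) * ((1 - (2 * a + d)) * (v * (d * (a + d)) ^ 2)) *
        (g * W * (g * W - om)) := by
    simp only [ClosedGen.LMGS, LMGSLin, LMGcLin, Closed.LMGc]
    ring
  have h2 : 0 ≤ 1 - (2 * a + d) := by linarith
  have : 0 ≤ t.c * (1 + d * v) * ((1 - (2 * a + d)) * (v * (d * (a + d)) ^ 2)) *
      (g * W * (g * W - om)) :=
    mul_nonneg (by positivity) (mul_nonneg hgW (by linarith))
  linarith

/-- A bound of a scaled linear part minus squares. -/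
theorem scaled_low {X k b ν S Q p q L e : ℝ} (hk : 0 ≤ k) (hb : 0 ≤ b) (hS : 0 < S) (hd : 0 < d)
    (hν : ν * (S * d) ≤ 2) (hν0 : 0 ≤ ν) (hQ : S * Q ≤ 1) (hQ0 : 0 ≤ Q) (hp : 0 ≤ p) (hq : 0 ≤ q)
    (he : e ≤ S * S * d * L - 2 * k * b * (p + S * q)) (hX : L - k * b * ν * (Q * p + q) ≤ X) :
    e / (S ^ 2 * d) ≤ X := by
  rw [div_le_iff₀ (by positivity)]
  have h1 : ν * (S * d) * (S * Q * p + S * q) ≤ 2 * (1 * p + S * q) :=
    mul_le_mul hν (by linarith [mul_le_mul_of_nonneg_right hQ hp]) (by positivity) (by norm_num)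
  have h2 := mul_le_mul_of_nonneg_left h1 (mul_nonneg hk hb)
  have h3 := mul_le_mul_of_nonneg_right hX (show 0 ≤ S ^ 2 * d by positivity)
  linarith [show (L - k * b * ν * (Q * p + q)) * (S ^ 2 * d) =
    S * S * d * L - k * b * (ν * (S * d) * (S * Q * p + S * q)) by ring]

/-- The values of the surrogates at a point. -/
structure Bd where
  f0 : ℝ
  f1 : ℝ
  kG : ℝ
  kE : ℝ
  p0 : ℝ
  p1 : ℝ
  o0 : ℝ
  o1 : ℝ
  z : ℝ
  H : ℝ
  FM : ℝ
  PM : ℝ
  DF : ℝ
  DPs : ℝ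
  HH : ℝ
  al : ℝ
  ml : ℝ
  gl : ℝ
  L0 : ℝ
  L1 : ℝ
  M : ℝ
  y0 : ℝ
  y1 : ℝ
  e5 : ℝ
  g5 : ℝ
  XL : ℝ
  XH : ℝ

/-- The inequalities between the surrogates at `(a, I, w)`, `wl` being below `1 - w τ`. -/
structure BdOk (a I S b d wl : ℝ) (B : Bd) : Prop where
  eP : B.e5 ≤ S * S * d * B.al - (1 + S) * b * (d ^ 2 * B.f0 ^ 2 + S * B.kE ^ 2)
  gP : B.g5 ≤ S * S * d * B.gl - (1 + S) * b * (S * B.kG ^ 2 + d ^ 2 * B.p0 ^ 2)
  xlo : B.XL ≤ S * d * B.L0 - 2 * (1 + S) * b * (B.DF * B.kG + B.DPs * B.kE)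
  xhi : S * d * B.L1 + 2 * (1 + S) * b * (B.DF * B.kG + B.DPs * B.kE) ≤ B.XH
  hh : B.H * B.DPs ≤ B.HH
  df1 : B.f1 - B.FM ≤ B.DF
  df0 : B.FM - B.f0 ≤ B.DF
  dp1 : B.p1 - B.PM ≤ B.DPs
  dp0 : B.PM - B.p0 ≤ B.DPs
  f_neg : B.f0 + B.f1 ≤ 0
  p_neg : B.p0 + B.p1 ≤ 0
  o_pos : 0 ≤ B.o0
  nP : 0 ≤ S * S * d * B.ml - b * (d ^ 2 * B.f0 ^ 2 + S * B.kE ^ 2)
  e_pos : 0 < B.e5
  g_pos : 0 < B.g5
  M_pos : 0 < B.M
  fP : S ^ 3 * B.z ^ 2 ≤ 128 * b ^ 3 * wl * B.g5 * B.M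
  minor : ∀ X ∈ ({B.XL, B.XH} : Set ℝ), S * d ^ 2 * X ^ 2 < 4 * B.e5 * B.g5
  det : ∀ X ∈ ({B.XL, B.XH} : Set ℝ), ∀ y ∈ ({B.y0, B.y1} : Set ℝ),
    0 < wl * b ^ 3 * (256 * B.e5 * B.g5 * B.M - 64 * d ^ 2 * S * B.M * X ^ 2) -
      S ^ 2 * (512 * b ^ 4 * d ^ 2 * B.g5 * y ^ 2 - 32 * b ^ 2 * d ^ 2 * S * X * y * B.z +
        2 * S * B.e5 * B.z ^ 2)

/-- The bounds of rows and linear parts at a point. -/
structure RowOk (a I S b : ℝ) (B : Bd) (d v g W W1 R : ℝ) (t : ClosedGen.Num) : Prop where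
  phi : a * v * B.f0 ≤ ClosedGen.gES a d v g W W1 R t ∧
    ClosedGen.gES a d v g W W1 R t ≤ a * v * B.f1
  kg : |ClosedGen.gGS a d v g W W1 R t| ≤ a * v * B.kG
  ke : |ClosedGen.hES a d v g W W1 R t| ≤ a * v * B.kE
  psi : a * v * B.p0 ≤ ClosedGen.hGS a d v g W W1 R t ∧
    ClosedGen.hGS a d v g W W1 R t ≤ a * v * B.p1
  hm : |ClosedGen.hM_c a d v g W| ≤ B.H
  om : B.o0 ≤ b * g * W ∧ b * g * W ≤ B.o1
  mm : I * I * B.M ≤ ClosedGen.TMMS a d v g W W1 R t
  me : a * I * I * B.y0 ≤ ClosedGen.TMES a d v g W W1 R t ∧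
    ClosedGen.TMES a d v g W W1 R t ≤ a * I * I * B.y1
  la : g * (a * a * a * I * I) * B.z + a * a * a * I * B.al ≤
    t.c * a * b * (8 * LEESLin a d v g W W1 R t (B.o1 * b⁻¹) +
        4 * LMGSLin a d v g W W1 R t (B.o0 * b⁻¹) -
        8 * (1 + S) * (ClosedGen.gMS a d v g W W1 R t * ClosedGen.gGS a d v g W W1 R t)) -
      4 * (1 + S) * (a * b * d * d * (1 + d * v) * t.c * (a * v)) *
        (ClosedGen.hM_c a d v g W * B.PM + B.HH)
  lm : g * (a * a * a * I * I) * B.z + a * a * a * I * B.ml ≤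
    t.c * a * b * (4 * LMGSLin a d v g W W1 R t (B.o0 * b⁻¹) +
        16 * I * (ClosedGen.gMS a d v g W W1 R t * ClosedGen.gGS a d v g W W1 R t)) +
      8 * I * (a * b * d * d * (1 + d * v) * t.c * (a * v)) *
        (ClosedGen.hM_c a d v g W * B.PM - B.HH)
  lg : a * a * a * I * B.gl ≤
    8 * (t.c * a * b) * (2 + d * v) * (1 + d * v) * ClosedGen.LGGS a d v g W W1 R t
  ll : 0 ≤ R * a * I * I * B.z + 8 * b * b * ClosedGen.LLGS a d v g W W1 R t
  le : a * a * a * I * B.L0 ≤ 4 * (t.c * a * b) * ClosedGen.LEGS a d v g W W1 R t -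
      (1 + S) * (t.c * a * B.FM * ClosedGen.gGS a d v g W W1 R t +
        a * b * a * B.PM * ClosedGen.hES a d v g W W1 R t) ∧
    4 * (t.c * a * b) * ClosedGen.LEGS a d v g W W1 R t -
      (1 + S) * (t.c * a * B.FM * ClosedGen.gGS a d v g W W1 R t +
        a * b * a * B.PM * ClosedGen.hES a d v g W W1 R t) ≤ a * a * a * I * B.L1

theorem sq_le_low {p l h : ℝ} (h1 : l ≤ p) (h2 : p ≤ h) (h3 : l + h ≤ 0) : p ^ 2 ≤ l ^ 2 :=
  sq_le_sq' (by linarith) (by linarith) |>.trans_eq (neg_sq l)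

/-- The signs from bounds of the scaled entries. -/
theorem mult_of_scaled {I S b wl ν NU s₃ E' G' M' X' Y' : ℝ} {B : Bd} (ha : 0 < a) (hI : 0 < I)
    (hd : 0 < d) (hb : b = a + d) (hb0 : 0 < b) (hS0 : 0 < S) (hv : 0 < v) (hg : 0 < g)
    (hc : t.c = a * b) (hwl : 0 < wl) (hν : 2 * wl / (S * d) ≤ ν) (hν0 : 0 < ν)
    (hQS : S * (1 + d * v) ≤ 1) (hB : BdOk a I S b d wl B) (hs₃ : s₃ = a * a * a * I * I)
    (eG : ClosedGen.TGGS a d v g W W1 R t = s₃ * G')
    (eE : ClosedGen.TEES a d v g W W1 R t + NU = s₃ * E')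
    (eX : ClosedGen.TEGS a d v g W W1 R t = s₃ * X')
    (eY : ClosedGen.TMES a d v g W W1 R t = a * I * I * Y')
    (eM : ClosedGen.TMMS a d v g W W1 R t = I * I * M')
    (eN : ClosedGen.TMGS a d v g W W1 R t - NU = v * (g * s₃ * B.z))
    (bE : ν * B.e5 / (S ^ 2 * d) ≤ E') (bG : ν * B.g5 / (S ^ 2 * d) ≤ G') (bM : B.M ≤ M')
    (bX : ν * B.XL / (S * d) ≤ X' ∧ X' ≤ ν * B.XH / (S * d)) (bY : B.y0 ≤ Y' ∧ Y' ≤ B.y1)
    (hNU0 : 0 ≤ NU) (hll : 0 ≤ R * a * I * I * B.z + 8 * b * b * ClosedGen.LLGS a d v g W W1 R t) :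
    ClosedGen.SignsMult a d v g W W1 R t := by
  have hs0 : 0 < s₃ := by rw [hs₃]; positivity
  have hQ : 0 < 1 + d * v := by positivity
  set Q := 1 + d * v with hQd
  set E₀ := ν * B.e5 / (S ^ 2 * d) with hE₀
  set G₀ := ν * B.g5 / (S ^ 2 * d) with hG₀
  have pE : 0 < E₀ := div_pos (mul_pos hν0 hB.e_pos) (by positivity)
  have pG : 0 < G₀ := div_pos (mul_pos hν0 hB.g_pos) (by positivity)
  have corner : ∀ X ∈ ({B.XL, B.XH} : Set ℝ), ∀ y ∈ ({B.y0, B.y1} : Set ℝ),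
      B.z ^ 2 ≤ 64 * b ^ 3 * d ^ 2 * G₀ * B.M ∧
        d ^ 2 * Q * (ν * X / (S * d)) ^ 2 < 4 * E₀ * G₀ ∧
        0 < detF b d Q E₀ G₀ B.M (ν * X / (S * d)) y B.z :=
    fun X hX y hy => detF_low hb0 hd hS0 hQ hQS hν hwl hB.e_pos hB.g_pos hB.M_pos
      (hB.minor X hX) hB.fP (hB.det X hX y hy)
  obtain ⟨hF, m0, d00⟩ := corner B.XL (by simp) B.y0 (by simp)
  obtain ⟨-, m1, d10⟩ := corner B.XH (by simp) B.y0 (by simp)
  obtain ⟨-, -, d01⟩ := corner B.XL (by simp) B.y1 (by simp)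
  obtain ⟨-, -, d11⟩ := corner B.XH (by simp) B.y1 (by simp)
  have hm : d ^ 2 * Q * X' ^ 2 < 4 * E₀ * G₀ := by
    have := concave_pos (A := d ^ 2 * Q) (B := 0) (C := 4 * E₀ * G₀) (by positivity)
      (by linarith) (by linarith) bX.1 bX.2
    linarith
  have inY : ∀ x, 0 < detF b d Q E₀ G₀ B.M x B.y0 B.z → 0 < detF b d Q E₀ G₀ B.M x B.y1 B.z →
      0 < detF b d Q E₀ G₀ B.M x Y' B.z := fun x h0 h1 => by
    have := concave_pos (A := 256 * b ^ 4 * d ^ 2 * Q * G₀)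
      (B := 16 * b ^ 2 * d ^ 2 * Q * x * B.z)
      (C := 64 * b ^ 3 * d ^ 2 * E₀ * G₀ * B.M - 16 * b ^ 3 * d ^ 4 * Q * B.M * x ^ 2 -
        E₀ * B.z ^ 2) (by positivity) (by simp only [detF] at h0; linarith)
      (by simp only [detF] at h1; linarith) bY.1 bY.2
    simp only [detF]; linarith
  have q0 := inY _ d00 d01
  have q1 := inY _ d10 d11
  have hdet : 0 < detF b d Q E₀ G₀ B.M X' Y' B.z := by
    have := concave_pos (A := 16 * b ^ 3 * d ^ 4 * Q * B.M)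
      (B := 16 * b ^ 2 * d ^ 2 * Q * Y' * B.z)
      (C := 64 * b ^ 3 * d ^ 2 * E₀ * G₀ * B.M - 256 * b ^ 4 * d ^ 2 * Q * G₀ * Y' ^ 2 -
        E₀ * B.z ^ 2) (mul_nonneg (by positivity) hB.M_pos.le)
      (by simp only [detF] at q0; linarith) (by simp only [detF] at q1; linarith) bX.1 bX.2
    simp only [detF]; linarith
  have full := detF_mono hb0 hd hQ.le pE pG hB.M_pos bE bG bM hF hm hdet
  have hG0 : 0 < G' := lt_of_lt_of_le pG bG
  have hEG : E₀ * G₀ ≤ E' * G' := mul_le_mul bE bG pG.le (by linarith)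
  refine ⟨NU, ?_, ?_, ?_, hNU0, ?_⟩
  · rw [eG]; exact mul_pos hs0 hG0
  · rw [eG, eE, eX, ← hQd, show 4 * (s₃ * G') * (s₃ * E') - d ^ 2 * Q * (s₃ * X') ^ 2 =
      s₃ ^ 2 * (4 * (E' * G') - d ^ 2 * Q * X' ^ 2) by ring]
    exact mul_pos (pow_pos hs0 2) (by linarith)
  · have e : ClosedGen.TDetS a d v g W W1 R t NU =
        a ^ 9 * I ^ 6 * (v * g) ^ 2 * detF b d Q E' G' M' X' Y' B.z := by
      simp only [ClosedGen.TDetS, eG, eE, eX, eY, eM, ← hb, hc, ← hQd,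
        eN, hs₃, detF]
      ring
    rw [e]
    exact mul_pos (by positivity) full
  · rw [show NU = ClosedGen.TMGS a d v g W W1 R t - v * (g * s₃ * B.z) by linarith [eN], hc, ← hb,
      hs₃]
    have := mul_le_mul_of_nonneg_left hll (show 0 ≤ a * a * v * g by positivity)
    linarith


/-- **The signs with the multiplier `TMGS - v g a³ I² z`.** -/
theorem signsNu_of_bounds {I S b wl : ℝ} {B : Bd} (ha : 0 < a) (hI : 0 < I) (hd : 0 < d)
    (hb : b = a + d) (hS : S = 2 * a + d) (hSI : S = 1 - 2 * I) (hS0 : 0 < S) (hv : 0 < v)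
    (hg : 0 < g) (hc : t.c = a * b) (hwl : 0 < wl) (hν : 2 * wl / (S * d) ≤ v / I)
    (hν' : v / I * (S * d) ≤ 2) (hQS : S * (1 + d * v) ≤ 1)
    (hB : BdOk a I S b d wl B) (hr : RowOk a I S b B d v g W W1 R t) :
    ClosedGen.SignsMult a d v g W W1 R t := by
  have hb0 : 0 < b := by rw [hb]; linarith
  have hQ : 0 < 1 + d * v := by positivity
  set ν := v / I with hνd
  have hν0 : 0 < ν := div_pos hv hI
  have hνv : v = ν * I := by rw [hνd]; field_simp
  have hc0 : 0 ≤ t.c := by rw [hc]; positivity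
  obtain ⟨hE0, hE1⟩ := hr.phi
  obtain ⟨hP0, hP1⟩ := hr.psi
  obtain ⟨ho0, ho1⟩ := hr.om
  have hgW : 0 ≤ g * W := by
    have : 0 ≤ b * (g * W) := by linarith [hB.o_pos, mul_assoc b g W]
    exact nonneg_of_mul_nonneg_right this hb0
  have hl1 : LEESLin a d v g W W1 R t (B.o1 * b⁻¹) ≤ ClosedGen.LEES a d v g W W1 R t := by
    refine lee_low hc0 hv.le hd.le hgW ?_
    rw [← div_eq_mul_inv, le_div_iff₀ hb0]; linarith [mul_assoc b g W]
  have hl2 : LMGSLin a d v g W W1 R t (B.o0 * b⁻¹) ≤ ClosedGen.LMGS a d v g W W1 R t := by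
    refine lmg_low hc0 hv.le hd.le hgW ?_ (by linarith)
    rw [← div_eq_mul_inv, div_le_iff₀ hb0]; linarith [mul_assoc b g W]
  have hav : 0 ≤ a * v := by positivity
  have gE2 : ClosedGen.gES a d v g W W1 R t ^ 2 ≤ (a * v * B.f0) ^ 2 :=
    sq_le_low hE0 hE1 (by
      have := mul_nonpos_of_nonneg_of_nonpos hav hB.f_neg; linarith)
  have hG2 : ClosedGen.hGS a d v g W W1 R t ^ 2 ≤ (a * v * B.p0) ^ 2 :=
    sq_le_low hP0 hP1 (by
      have := mul_nonpos_of_nonneg_of_nonpos hav hB.p_neg; linarith)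
  have hkG := abs_le.1 hr.kg
  have hkE := abs_le.1 hr.ke
  have gG2 : ClosedGen.gGS a d v g W W1 R t ^ 2 ≤ (a * v * B.kG) ^ 2 := sq_le_sq' hkG.1 hkG.2
  have hE2 : ClosedGen.hES a d v g W W1 R t ^ 2 ≤ (a * v * B.kE) ^ 2 := sq_le_sq' hkE.1 hkE.2
  have dF : |ClosedGen.gES a d v g W W1 R t - a * v * B.FM| ≤ a * v * B.DF := by
    rw [abs_le]; constructor
    · linarith [mul_le_mul_of_nonneg_left hB.df0 hav]
    · linarith [mul_le_mul_of_nonneg_left hB.df1 hav]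
  have dP : |ClosedGen.hGS a d v g W W1 R t - a * v * B.PM| ≤ a * v * B.DPs := by
    rw [abs_le]; constructor
    · linarith [mul_le_mul_of_nonneg_left hB.dp0 hav]
    · linarith [mul_le_mul_of_nonneg_left hB.dp1 hav]
  have hH0 : 0 ≤ B.H := (abs_nonneg _).trans hr.hm
  have hprod : |ClosedGen.hM_c a d v g W * (ClosedGen.hGS a d v g W W1 R t - a * v * B.PM)| ≤
      a * v * B.HH := by
    rw [abs_mul]
    refine (mul_le_mul hr.hm dP (abs_nonneg _) hH0).trans ?_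
    linarith [mul_le_mul_of_nonneg_left hB.hh hav]
  obtain ⟨hpr0, hpr1⟩ := abs_le.1 hprod
  set s₃ := a * a * a * I * I with hs₃
  have hs0 : 0 < s₃ := by positivity
  set Z := g * s₃ * B.z with hZ
  set NU := ClosedGen.TMGS a d v g W W1 R t - v * Z with hNU
  have hK : 0 ≤ a * b * d ^ 2 * (1 + d * v) * t.c * v := by positivity
  have hKS : 0 ≤ 4 * (1 + S) * (a * b * d ^ 2 * (1 + d * v) * t.c * v) :=
    mul_nonneg (by linarith) hK
  have hj : 0 ≤ (1 + S) / 2 := by linarith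
  have q2 : t.c * d ^ 2 * (1 + d * v) * ClosedGen.gES a d v g W W1 R t ^ 2 +
      a * b * ClosedGen.hES a d v g W W1 R t ^ 2 ≤
      t.c * d ^ 2 * (1 + d * v) * (a * v * B.f0) ^ 2 + a * b * (a * v * B.kE) ^ 2 :=
    add_le_add (mul_le_mul_of_nonneg_left gE2 (by positivity))
      (mul_le_mul_of_nonneg_left hE2 (by positivity))
  have q3 : t.c * ClosedGen.gGS a d v g W W1 R t ^ 2 +
      a * b * d ^ 2 * (1 + d * v) * ClosedGen.hGS a d v g W W1 R t ^ 2 ≤
      t.c * (a * v * B.kG) ^ 2 + a * b * d ^ 2 * (1 + d * v) * (a * v * B.p0) ^ 2 :=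
    add_le_add (mul_le_mul_of_nonneg_left gG2 hc0)
      (mul_le_mul_of_nonneg_left hG2 (by positivity))
  set E' := (ClosedGen.TEES a d v g W W1 R t + NU) / s₃ with hE'
  set G' := ClosedGen.TGGS a d v g W W1 R t / s₃ with hG'
  set M' := ClosedGen.TMMS a d v g W W1 R t / (I * I) with hM'
  set X' := ClosedGen.TEGS a d v g W W1 R t / s₃ with hX'
  set Y' := ClosedGen.TMES a d v g W W1 R t / (a * I * I) with hY'
  have hν1 : ν * (S * d) ≤ 2 := hν'
  have bE : ν * B.e5 / (S ^ 2 * d) ≤ E' := by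
    have key : ν * (B.al - (1 + S) / 2 * b * ν * ((1 + d * v) * (d ^ 2 * B.f0 ^ 2) + B.kE ^ 2))
        ≤ E' := by
      rw [hE', le_div_iff₀ hs0, hNU, hZ]
      have e := @sum_eq a d v g W W1 R t
      rw [← hb, ← hS] at e
      have l1 := mul_le_mul_of_nonneg_left hr.la hv.le
      have l2 := mul_le_mul_of_nonneg_left (add_le_add (mul_le_mul_of_nonneg_left hl1
        (by norm_num : (0 : ℝ) ≤ 8)) (mul_le_mul_of_nonneg_left hl2 (by norm_num : (0 : ℝ) ≤ 4)))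
        (show 0 ≤ v * (t.c * a * b) by positivity)
      have l3 := mul_le_mul_of_nonneg_left
        (show ClosedGen.hM_c a d v g W * ClosedGen.hGS a d v g W W1 R t ≤
          a * v * (ClosedGen.hM_c a d v g W * B.PM + B.HH) by linarith) hKS
      have l4 := mul_le_mul_of_nonneg_left q2 hj
      rw [hc] at e l1 l2 l3 l4
      simp only [hs₃] at l1 ⊢
      rw [hνv] at e l1 l2 l3 l4 ⊢
      linarith
    have h0 := scaled_low (d := d) (L := B.al) (e := B.e5) hj hb0.le hS0 hd hν1 hν0.le hQS hQ.le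
      (by positivity : 0 ≤ d ^ 2 * B.f0 ^ 2) (sq_nonneg B.kE) (by linarith [hB.eP]) (le_refl _)
    calc ν * B.e5 / (S ^ 2 * d) = ν * (B.e5 / (S ^ 2 * d)) := by ring
      _ ≤ _ := (mul_le_mul_of_nonneg_left h0 hν0.le).trans key
  have bG : ν * B.g5 / (S ^ 2 * d) ≤ G' := by
    have key : ν * (B.gl - (1 + S) / 2 * b * ν * ((1 + d * v) * (d ^ 2 * B.p0 ^ 2) + B.kG ^ 2))
        ≤ G' := by
      rw [hG', le_div_iff₀ hs0]
      have e := @gg_eq a d v g W W1 R t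
      rw [← hb, ← hS] at e
      have l1 := mul_le_mul_of_nonneg_left hr.lg hv.le
      have l4 := mul_le_mul_of_nonneg_left q3 hj
      rw [hc] at e l1 l4
      simp only [hs₃]
      rw [hνv] at e l1 l4 ⊢
      linarith
    have h0 := scaled_low (d := d) (L := B.gl) (e := B.g5) hj hb0.le hS0 hd hν1 hν0.le hQS hQ.le
      (by positivity : 0 ≤ d ^ 2 * B.p0 ^ 2) (sq_nonneg B.kG) (by linarith [hB.gP]) (le_refl _)
    calc ν * B.g5 / (S ^ 2 * d) = ν * (B.g5 / (S ^ 2 * d)) := by ring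
      _ ≤ _ := (mul_le_mul_of_nonneg_left h0 hν0.le).trans key
  have hNU0 : 0 ≤ NU := by
    have h0 := scaled_low (d := d) (L := B.ml) (e := 0) (show (0 : ℝ) ≤ 1 / 2 by norm_num) hb0.le hS0 hd hν1
      hν0.le hQS hQ.le (by positivity : 0 ≤ d ^ 2 * B.f0 ^ 2) (sq_nonneg B.kE)
      (by linarith [hB.nP]) (le_refl (B.ml - _))
    rw [zero_div] at h0
    have key : s₃ * ν *
        (B.ml - 1 / 2 * b * ν * ((1 + d * v) * (d ^ 2 * B.f0 ^ 2) + B.kE ^ 2)) ≤ NU := by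
      rw [hNU, hZ]
      have e := @mg_eq a d v g W W1 R t
      rw [← hb, show 1 - (2 * a + d) = 2 * I by linarith] at e
      have l1 := mul_le_mul_of_nonneg_left hr.lm hv.le
      have l2 := mul_le_mul_of_nonneg_left (mul_le_mul_of_nonneg_left hl2
        (by norm_num : (0 : ℝ) ≤ 4)) (show 0 ≤ v * (t.c * a * b) by positivity)
      have l3 := mul_le_mul_of_nonneg_left
        (show a * v * (ClosedGen.hM_c a d v g W * B.PM - B.HH) ≤
          ClosedGen.hM_c a d v g W * ClosedGen.hGS a d v g W W1 R t by linarith)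
        (show 0 ≤ 8 * I * (a * b * d ^ 2 * (1 + d * v) * t.c * v) from
          mul_nonneg (by positivity) hK)
      have l4 := mul_le_mul_of_nonneg_left q2 (show (0 : ℝ) ≤ 1 / 2 by norm_num)
      rw [hc] at e l1 l2 l3 l4
      simp only [hs₃] at l1 ⊢
      rw [hνv] at e l1 l2 l3 l4 ⊢
      linarith
    exact le_trans (mul_nonneg (by positivity) h0) key
  have bX : ν * B.XL / (S * d) ≤ X' ∧ X' ≤ ν * B.XH / (S * d) := by
    have e := @eg_eq a d v g W W1 R t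
    rw [← hb, ← hS] at e
    have c1 : |(ClosedGen.gES a d v g W W1 R t - a * v * B.FM) *
        ClosedGen.gGS a d v g W W1 R t| ≤ a * v * B.DF * (a * v * B.kG) := by
      rw [abs_mul]; exact mul_le_mul dF hr.kg (abs_nonneg _) ((abs_nonneg _).trans dF)
    have c2 : |(ClosedGen.hGS a d v g W W1 R t - a * v * B.PM) *
        ClosedGen.hES a d v g W W1 R t| ≤ a * v * B.DPs * (a * v * B.kE) := by
      rw [abs_mul]; exact mul_le_mul dP hr.ke (abs_nonneg _) ((abs_nonneg _).trans dP)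
    obtain ⟨c1a, c1b⟩ := abs_le.1 c1
    obtain ⟨c2a, c2b⟩ := abs_le.1 c2
    have hJ : 0 ≤ (1 + S) * t.c := mul_nonneg (by linarith) hc0
    have hJ2 : 0 ≤ (1 + S) * (a * b) := mul_nonneg (by linarith) (by positivity)
    set r := B.DF * B.kG + B.DPs * B.kE with hr'
    have hr0 : 0 ≤ r := by
      have h1 : 0 ≤ a * v * B.DF * (a * v * B.kG) := (abs_nonneg _).trans c1
      have h2 : 0 ≤ a * v * B.DPs * (a * v * B.kE) := (abs_nonneg _).trans c2
      have : 0 ≤ (a * v) ^ 2 * r := by rw [hr']; linarith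
      exact nonneg_of_mul_nonneg_right this (by positivity)
    have hνr : (1 + S) * b * (ν * (S * d)) * r ≤ 2 * (1 + S) * b * r := by
      have := mul_le_mul_of_nonneg_right (mul_le_mul_of_nonneg_left hν1
        (show 0 ≤ (1 + S) * b by positivity)) hr0
      linarith
    have lo := mul_le_mul_of_nonneg_left hr.le.1 hv.le
    have hi := mul_le_mul_of_nonneg_left hr.le.2 hv.le
    have m1 := mul_le_mul_of_nonneg_left c1b hJ
    have m2 := mul_le_mul_of_nonneg_left c2b hJ2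
    have m3 := mul_le_mul_of_nonneg_left c1a hJ
    have m4 := mul_le_mul_of_nonneg_left c2a hJ2
    rw [hc] at e lo hi m1 m3
    rw [hνv] at e lo hi m1 m2 m3 m4
    constructor
    · have h1 : ν * (B.L0 - (1 + S) * b * ν * r) ≤ X' := by
        rw [hX', le_div_iff₀ hs0]; simp only [hs₃, hr']; rw [hνv]; linarith
      refine le_trans ?_ h1
      rw [div_le_iff₀ (by positivity), mul_assoc]
      refine mul_le_mul_of_nonneg_left ?_ hν0.le
      linarith [hB.xlo]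
    · have h1 : X' ≤ ν * (B.L1 + (1 + S) * b * ν * r) := by
        rw [hX', div_le_iff₀ hs0]; simp only [hs₃, hr']; rw [hνv]; linarith
      refine h1.trans ?_
      rw [le_div_iff₀ (by positivity), mul_assoc]
      refine mul_le_mul_of_nonneg_left ?_ hν0.le
      linarith [hB.xhi]
  have bM : B.M ≤ M' := by rw [hM', le_div_iff₀ (by positivity)]; linarith [hr.mm]
  have bY : B.y0 ≤ Y' ∧ Y' ≤ B.y1 := by
    constructor
    · rw [hY', le_div_iff₀ (by positivity)]; linarith [hr.me.1]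
    · rw [hY', div_le_iff₀ (by positivity)]; linarith [hr.me.2]
  exact mult_of_scaled ha hI hd hb hb0 hS0 hv hg hc hwl hν hν0 hQS hB hs₃
    (by rw [hG']; field_simp) (by rw [hE']; field_simp) (by rw [hX']; field_simp)
    (by rw [hY']; field_simp) (by rw [hM']; field_simp) (by rw [hNU, hZ]; ring)
    bE bG bM bX bY hNU0 hr.ll

end Vale.Agent.P100.Calib.EndAll
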