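import Vale.Agent.P100.Calib.SlabAllEndExpr

/-!
# The packed signs at the exit band at the end of the tail, part one
-/

namespace Vale.Agent.P100.Calib.Band.AllLow

open Pack

theorem end_TopS_0 : checkFour (endBox 907 1000 24 31 0 500 0 50) 560 9 4 10 22 eEndTopS = true := by
  decide +kernel

theorem end_TopS_1 : checkFour (endBox 907 1000 24 35 500 1001 0 50) 560 9 4 10 22 eEndTopS = true := by
  decide +kernel

theorem end_BotI_0 : checkFour (endBox 907 1000 24 100 0 51 49 311) 560 9 4 11 13 eEndBotI = true := by
  decide +kernel

theorem end_BotS_0 : checkFour (endBox 907 1000 24 35 0 1001 0 50) 560 9 4 11 18 eEndBotS = true := by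
  decide +kernel

theorem end_TopI_0 : checkFour (endBox 907 1000 24 30 0 12 50 60) 560 9 4 10 16 eEndTopI = true := by
  decide +kernel

theorem end_TopI_1 : checkFour (endBox 907 1000 24 32 12 25 50 60) 560 9 4 10 16 eEndTopI = true := by
  decide +kernel

theorem end_TopI_2 : checkFour (endBox 907 1000 24 34 25 38 50 60) 560 9 4 10 16 eEndTopI = true := by
  decide +kernel

theorem end_TopI_3 : checkFour (endBox 907 1000 24 36 38 51 50 60) 560 9 4 10 16 eEndTopI = true := by
  decide +kernel

theorem end_TopI_4 : checkFour (endBox 907 1000 24 32 0 6 60 91) 560 9 4 10 16 eEndTopI = true := by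
  decide +kernel

theorem end_TopI_5 : checkFour (endBox 907 1000 24 33 6 12 60 91) 560 9 4 10 16 eEndTopI = true := by
  decide +kernel

theorem end_TopI_6 : checkFour (endBox 907 1000 24 35 12 25 60 91) 560 9 4 10 16 eEndTopI = true := by
  decide +kernel

theorem end_TopI_7 : checkFour (endBox 907 1000 24 35 25 38 60 75) 560 9 4 10 16 eEndTopI = true := by
  decide +kernel

theorem end_TopI_8 : checkFour (endBox 907 1000 24 38 38 51 60 75) 560 9 4 10 16 eEndTopI = true := by
  decide +kernel

theorem end_TopI_9 : checkFour (endBox 907 1000 24 39 25 51 75 91) 560 9 4 10 16 eEndTopI = true := by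
  decide +kernel

theorem end_TopI_10 : checkFour (endBox 907 1000 24 38 0 25 91 122) 560 9 4 10 16 eEndTopI = true := by
  decide +kernel

theorem end_TopI_11 : checkFour (endBox 907 1000 24 39 25 38 91 106) 560 9 4 10 16 eEndTopI = true := by
  decide +kernel

theorem end_TopI_12 : checkFour (endBox 907 1000 24 41 38 51 91 106) 560 9 4 10 16 eEndTopI = true := by
  decide +kernel

theorem end_TopI_13 : checkFour (endBox 907 1000 24 40 25 38 106 122) 560 9 4 10 16 eEndTopI = true := by
  decide +kernel

theorem end_TopI_14 : checkFour (endBox 907 1000 24 43 38 51 106 122) 560 9 4 10 16 eEndTopI = true := by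
  decide +kernel

theorem end_TopI_15 : checkFour (endBox 907 1000 24 39 0 25 122 137) 560 9 4 10 16 eEndTopI = true := by
  decide +kernel

theorem end_TopI_16 : checkFour (endBox 907 1000 24 42 25 38 122 137) 560 9 4 10 16 eEndTopI = true := by
  decide +kernel

theorem end_TopI_17 : checkFour (endBox 907 1000 24 45 38 51 122 137) 560 9 4 10 16 eEndTopI = true := by
  decide +kernel

theorem end_TopI_18 : checkFour (endBox 907 1000 24 41 0 25 137 153) 560 9 4 10 16 eEndTopI = true := by
  decide +kernel

theorem end_TopI_19 : checkFour (endBox 907 1000 24 44 25 38 137 153) 560 9 4 10 16 eEndTopI = true := by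
  decide +kernel

theorem end_TopI_20 : checkFour (endBox 907 1000 24 47 38 51 137 153) 560 9 4 10 16 eEndTopI = true := by
  decide +kernel

theorem end_TopI_21 : checkFour (endBox 907 1000 24 44 0 25 153 169) 560 9 4 10 16 eEndTopI = true := by
  decide +kernel

theorem end_TopI_22 : checkFour (endBox 907 1000 24 47 25 38 153 169) 560 9 4 10 16 eEndTopI = true := by
  decide +kernel

theorem end_TopI_23 : checkFour (endBox 907 1000 24 50 38 51 153 169) 560 9 4 10 16 eEndTopI = true := by
  decide +kernel

theorem end_TopI_24 : checkFour (endBox 907 1000 24 46 0 25 169 185) 560 9 4 10 16 eEndTopI = true := by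
  decide +kernel

theorem end_TopI_25 : checkFour (endBox 907 1000 24 53 25 51 169 185) 560 9 4 10 16 eEndTopI = true := by
  decide +kernel

end Vale.Agent.P100.Calib.Band.AllLow
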