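import Vale.Agent.P100.Calib.SlabAllEndExpr

/-!
# The packed signs at the exit band at the end of the tail, part two
-/

namespace Vale.Agent.P100.Calib.Band.AllLow

open Pack

theorem end_TopI_26 : checkFour (endBox 907 1000 24 49 0 25 185 206) 560 9 4 10 16 eEndTopI = true := by
  decide +kernel

theorem end_TopI_27 : checkFour (endBox 907 1000 24 55 25 51 185 195) 560 9 4 10 16 eEndTopI = true := by
  decide +kernel

theorem end_TopI_28 : checkFour (endBox 907 1000 24 57 25 51 195 206) 560 9 4 10 16 eEndTopI = true := by
  decide +kernel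

theorem end_TopI_29 : checkFour (endBox 907 1000 24 50 0 12 206 227) 560 9 4 10 16 eEndTopI = true := by
  decide +kernel

theorem end_TopI_30 : checkFour (endBox 907 1000 24 54 12 25 206 227) 560 9 4 10 16 eEndTopI = true := by
  decide +kernel

theorem end_TopI_31 : checkFour (endBox 907 1000 24 63 25 51 206 227) 560 9 4 10 16 eEndTopI = true := by
  decide +kernel

theorem end_TopI_32 : checkFour (endBox 907 1000 24 54 0 12 227 248) 560 9 4 10 16 eEndTopI = true := by
  decide +kernel

theorem end_TopI_33 : checkFour (endBox 907 1000 24 57 0 6 248 270) 560 9 4 10 16 eEndTopI = true := by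
  decide +kernel

theorem end_TopI_34 : checkFour (endBox 907 1000 24 59 6 12 248 270) 560 9 4 10 16 eEndTopI = true := by
  decide +kernel

theorem end_TopI_35 : checkFour (endBox 907 1000 24 58 12 25 227 248) 560 9 4 10 16 eEndTopI = true := by
  decide +kernel

theorem end_TopI_36 : checkFour (endBox 907 1000 24 65 12 25 248 270) 560 9 4 10 16 eEndTopI = true := by
  decide +kernel

theorem end_TopI_37 : checkFour (endBox 907 1000 24 69 25 51 227 248) 560 9 4 10 16 eEndTopI = true := by
  decide +kernel

theorem end_TopI_38 : checkFour (endBox 907 1000 24 78 25 51 248 270) 560 9 4 10 16 eEndTopI = true := by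
  decide +kernel

theorem end_TopI_39 : checkFour (endBox 907 1000 24 58 0 3 270 280) 560 9 4 10 16 eEndTopI = true := by
  decide +kernel

theorem end_TopI_40 : checkFour (endBox 907 1000 24 61 0 3 280 290) 560 9 4 10 16 eEndTopI = true := by
  decide +kernel

theorem end_TopI_41 : checkFour (endBox 907 1000 24 60 3 6 270 280) 560 9 4 10 16 eEndTopI = true := by
  decide +kernel

theorem end_TopI_42 : checkFour (endBox 907 1000 24 63 3 6 280 290) 560 9 4 10 16 eEndTopI = true := by
  decide +kernel

theorem end_TopI_43 : checkFour (endBox 907 1000 24 65 6 12 270 290) 560 9 4 10 16 eEndTopI = true := by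
  decide +kernel

theorem end_TopI_44 : checkFour (endBox 907 1000 24 64 0 3 290 300) 560 9 4 10 16 eEndTopI = true := by
  decide +kernel

theorem end_TopI_45 : checkFour (endBox 907 1000 24 66 3 6 290 300) 560 9 4 10 16 eEndTopI = true := by
  decide +kernel

theorem end_TopI_46 : checkFour (endBox 907 1000 24 66 0 3 300 305) 560 9 4 10 16 eEndTopI = true := by
  decide +kernel

theorem end_TopI_47 : checkFour (endBox 907 1000 24 67 0 3 305 308) 560 9 4 10 16 eEndTopI = true := by
  decide +kernel

theorem end_TopI_48 : checkFour (endBox 907 1000 24 68 0 3 308 311) 560 9 4 10 16 eEndTopI = true := by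
  decide +kernel

theorem end_TopI_49 : checkFour (endBox 907 1000 24 69 3 6 300 311) 560 9 4 10 16 eEndTopI = true := by
  decide +kernel

theorem end_TopI_50 : checkFour (endBox 907 1000 24 71 6 9 290 311) 560 9 4 10 16 eEndTopI = true := by
  decide +kernel

theorem end_TopI_51 : checkFour (endBox 907 1000 24 72 9 12 290 311) 560 9 4 10 16 eEndTopI = true := by
  decide +kernel

theorem end_TopI_52 : checkFour (endBox 907 1000 24 62 12 51 270 311) 560 9 4 10 16 eEndTopI = true := by
  decide +kernel

theorem end_TopI_53 : checkFour (endBox 907 1000 62 84 12 31 270 311) 560 9 4 10 16 eEndTopI = true := by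
  decide +kernel

theorem end_TopI_54 : checkFour (endBox 907 1000 62 87 31 51 270 290) 560 9 4 10 16 eEndTopI = true := by
  decide +kernel

theorem end_TopI_55 : checkFour (endBox 907 1000 62 100 31 51 290 311) 560 9 4 10 16 eEndTopI = true := by
  decide +kernel

end Vale.Agent.P100.Calib.Band.AllLow
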