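import Vale.Agent.P100.Calib.SlabAllEndData
import Vale.Agent.P100.Calib.SlabAllEndBig

/-!
# Kernel checks of the piece A, part I
-/

namespace Vale.Agent.P100.Calib.EndAll

open Pack

set_option linter.defProp false

def Acf_15_0 : checkLong boxA 247 27 26 10 7
    (coef (parA.forms surA) 15 0) = true := by decide +kernel

def Acf_15_1 : checkLong boxA 248 27 26 10 7
    (coef (parA.forms surA) 15 1) = true := by decide +kernel

def Acf_15_2 : checkLong boxA 247 27 26 10 7
    (coef (parA.forms surA) 15 2) = true := by decide +kernel

end Vale.Agent.P100.Calib.EndAll
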