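import Vale.Agent.P100.Calib.SlabAllEndData
import Vale.Agent.P100.Calib.SlabAllEndBig

/-!
# Kernel checks of the piece A, part IV
-/

namespace Vale.Agent.P100.Calib.EndAll

open Pack

set_option linter.defProp false

def Acf_0_0 : checkLong boxA 157 15 15 8 3
    (coef (parA.forms surA) 0 0) = true := by decide +kernel

def Acf_0_1 : checkLong boxA 157 15 15 8 3
    (coef (parA.forms surA) 0 1) = true := by decide +kernel

def Acf_1_0 : checkLong boxA 157 15 15 8 3
    (coef (parA.forms surA) 1 0) = true := by decide +kernel

def Acf_1_1 : checkLong boxA 157 15 15 8 3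
    (coef (parA.forms surA) 1 1) = true := by decide +kernel

def Acf_2_0 : checkLong boxA 141 12 12 8 4
    (coef (parA.forms surA) 2 0) = true := by decide +kernel

def Acf_2_1 : checkLong boxA 141 12 12 8 4
    (coef (parA.forms surA) 2 1) = true := by decide +kernel

def Acf_3_0 : checkLong boxA 141 12 12 8 4
    (coef (parA.forms surA) 3 0) = true := by decide +kernel

def Acf_3_1 : checkLong boxA 141 12 12 8 4
    (coef (parA.forms surA) 3 1) = true := by decide +kernel

def Acf_4_0 : checkLong boxA 142 12 12 8 4
    (coef (parA.forms surA) 4 0) = true := by decide +kernel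

def Acf_4_1 : checkLong boxA 142 12 12 8 4
    (coef (parA.forms surA) 4 1) = true := by decide +kernel

def Acf_5_0 : checkLong boxA 142 12 12 8 4
    (coef (parA.forms surA) 5 0) = true := by decide +kernel

def Acf_5_1 : checkLong boxA 142 12 12 8 4
    (coef (parA.forms surA) 5 1) = true := by decide +kernel

def Acf_6_0 : checkLong boxA 184 18 18 10 4
    (coef (parA.forms surA) 6 0) = true := by decide +kernel

def Acf_6_1 : checkLong boxA 185 18 18 10 4
    (coef (parA.forms surA) 6 1) = true := by decide +kernel

def Acf_6_2 : checkLong boxA 184 18 18 10 4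
    (coef (parA.forms surA) 6 2) = true := by decide +kernel

def Acf_7_0 : checkLong boxA 184 18 18 10 4
    (coef (parA.forms surA) 7 0) = true := by decide +kernel

def Acf_7_1 : checkLong boxA 185 18 18 10 4
    (coef (parA.forms surA) 7 1) = true := by decide +kernel

def Acf_7_2 : checkLong boxA 184 18 18 10 4
    (coef (parA.forms surA) 7 2) = true := by decide +kernel

def Acf_8_0 : checkLong boxA 107 9 9 5 2
    (coef (parA.forms surA) 8 0) = true := by decide +kernel

def Acf_8_1 : checkLong boxA 107 9 9 5 2
    (coef (parA.forms surA) 8 1) = true := by decide +kernel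

def Acf_9_0 : checkLong boxA 107 9 9 5 2
    (coef (parA.forms surA) 9 0) = true := by decide +kernel

def Acf_9_1 : checkLong boxA 107 9 9 5 2
    (coef (parA.forms surA) 9 1) = true := by decide +kernel

def Acf_10_0 : checkLong boxA 105 10 10 4 1
    (coef (parA.forms surA) 10 0) = true := by decide +kernel

def Acf_10_1 : checkLong boxA 105 10 10 4 1
    (coef (parA.forms surA) 10 1) = true := by decide +kernel

def Acf_11_0 : checkLong boxA 105 10 10 4 1
    (coef (parA.forms surA) 11 0) = true := by decide +kernel

def Acf_11_1 : checkLong boxA 105 10 10 4 1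
    (coef (parA.forms surA) 11 1) = true := by decide +kernel

def Acf_12_0 : checkLong boxA 127 13 13 7 2
    (coef (parA.forms surA) 12 0) = true := by decide +kernel

def Acf_12_1 : checkLong boxA 128 13 13 7 2
    (coef (parA.forms surA) 12 1) = true := by decide +kernel

def Acf_12_2 : checkLong boxA 127 13 13 7 2
    (coef (parA.forms surA) 12 2) = true := by decide +kernel

def Acf_13_0 : checkLong boxA 183 19 19 9 4
    (coef (parA.forms surA) 13 0) = true := by decide +kernel

def Acf_13_1 : checkLong boxA 184 19 19 9 4
    (coef (parA.forms surA) 13 1) = true := by decide +kernel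

def Acf_13_2 : checkLong boxA 183 19 19 9 4
    (coef (parA.forms surA) 13 2) = true := by decide +kernel

def Acf_14_0 : checkLong boxA 183 19 19 9 4
    (coef (parA.forms surA) 14 0) = true := by decide +kernel

def Acf_14_1 : checkLong boxA 184 19 19 9 4
    (coef (parA.forms surA) 14 1) = true := by decide +kernel

def Acf_14_2 : checkLong boxA 183 19 19 9 4
    (coef (parA.forms surA) 14 2) = true := by decide +kernel

def Acp_0 : checkLong boxA 170 14 14 10 0
    ((parA.polys surA).getD 0 (.num 0)) = true := by decide +kernel

def Acp_1 : checkLong boxA 167 14 14 10 0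
    ((parA.polys surA).getD 1 (.num 0)) = true := by decide +kernel

def Acp_2 : checkLong boxA 151 12 11 9 0
    ((parA.polys surA).getD 2 (.num 0)) = true := by decide +kernel

def Acp_3 : checkLong boxA 149 12 11 9 0
    ((parA.polys surA).getD 3 (.num 0)) = true := by decide +kernel

def Acp_4 : checkLong boxA 104 8 7 7 0
    ((parA.polys surA).getD 4 (.num 0)) = true := by decide +kernel

def Acp_5 : checkLong boxA 73 5 5 5 0
    ((parA.polys surA).getD 5 (.num 0)) = true := by decide +kernel

def Acp_6 : checkLong boxA 73 5 5 5 0
    ((parA.polys surA).getD 6 (.num 0)) = true := by decide +kernel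

def Acp_7 : checkLong boxA 72 5 5 5 0
    ((parA.polys surA).getD 7 (.num 0)) = true := by decide +kernel

def Acp_8 : checkLong boxA 72 5 5 5 0
    ((parA.polys surA).getD 8 (.num 0)) = true := by decide +kernel

def Acp_9 : checkLong boxA 73 5 5 5 0
    ((parA.polys surA).getD 9 (.num 0)) = true := by decide +kernel

def Acp_10 : checkLong boxA 72 5 5 5 0
    ((parA.polys surA).getD 10 (.num 0)) = true := by decide +kernel

def Acp_11 : checkLong boxA 58 5 5 2 0
    ((parA.polys surA).getD 11 (.num 0)) = true := by decide +kernel

def Acp_12 : checkLong boxA 164 13 13 10 0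
    ((parA.polys surA).getD 12 (.num 0)) = true := by decide +kernel

def Acp_13 : checkLong boxA 77 5 5 5 0
    ((parA.polys surA).getD 13 (.num 0)) = true := by decide +kernel

def Acp_14 : checkLong boxA 74 5 5 5 0
    ((parA.polys surA).getD 14 (.num 0)) = true := by decide +kernel

def Acp_15 : checkLong boxA 71 5 5 5 0
    ((parA.polys surA).getD 15 (.num 0)) = true := by decide +kernel

def Acp_16 : checkLong boxA 179 14 14 11 0
    ((parA.polys surA).getD 16 (.num 0)) = true := by decide +kernel

def Acp_17 : checkLong boxA 177 13 13 10 0
    ((parA.polys surA).getD 17 (.num 0)) = true := by decide +kernel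

def Acp_18 : checkLong boxA 177 13 13 10 0
    ((parA.polys surA).getD 18 (.num 0)) = true := by decide +kernel

def Acp_19 : checkLong boxA 298 25 25 16 0
    ((parA.polys surA).getD 19 (.num 0)) = true := by decide +kernel

def Acp_20 : checkLong boxA 297 25 25 16 0
    ((parA.polys surA).getD 20 (.num 0)) = true := by decide +kernel

def Acp_21 : checkLong boxA 297 25 25 16 0
    ((parA.polys surA).getD 21 (.num 0)) = true := by decide +kernel

def Acp_22 : checkLong boxA 297 25 25 16 0
    ((parA.polys surA).getD 22 (.num 0)) = true := by decide +kernel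

end Vale.Agent.P100.Calib.EndAll
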