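import Vale.Agent.P100.Calib.SlabAllEndData
import Vale.Agent.P100.Calib.SlabAllEndBig

/-!
# Kernel checks of the piece B, part II
-/

namespace Vale.Agent.P100.Calib.EndAll

open Pack

set_option linter.defProp false

def Bcf_16_0 : checkLong boxB 325 23 26 10 7
    (coef (parB.forms surB) 16 0) = true := by decide +kernel

def Bcf_16_1 : checkLong boxB 326 23 26 10 7
    (coef (parB.forms surB) 16 1) = true := by decide +kernel

def Bcf_16_2 : checkLong boxB 325 23 26 10 7
    (coef (parB.forms surB) 16 2) = true := by decide +kernel

def Bcf_17_0 : checkLong boxB 284 21 23 9 6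
    (coef (parB.forms surB) 17 0) = true := by decide +kernel

def Bcf_17_1 : checkLong boxB 285 21 23 9 6
    (coef (parB.forms surB) 17 1) = true := by decide +kernel

def Bcf_17_2 : checkLong boxB 284 21 23 9 6
    (coef (parB.forms surB) 17 2) = true := by decide +kernel

end Vale.Agent.P100.Calib.EndAll
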