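import Vale.Agent.P100.Calib.SlabAllEndData
import Vale.Agent.P100.Calib.SlabAllEndBig

/-!
# Kernel checks of the piece B, part IV
-/

namespace Vale.Agent.P100.Calib.EndAll

open Pack

set_option linter.defProp false

def Bcf_0_0 : checkLong boxB 194 11 15 8 3
    (coef (parB.forms surB) 0 0) = true := by decide +kernel

def Bcf_0_1 : checkLong boxB 194 11 15 8 3
    (coef (parB.forms surB) 0 1) = true := by decide +kernel

def Bcf_1_0 : checkLong boxB 194 11 15 8 3
    (coef (parB.forms surB) 1 0) = true := by decide +kernel

def Bcf_1_1 : checkLong boxB 194 11 15 8 3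
    (coef (parB.forms surB) 1 1) = true := by decide +kernel

def Bcf_2_0 : checkLong boxB 181 11 12 8 4
    (coef (parB.forms surB) 2 0) = true := by decide +kernel

def Bcf_2_1 : checkLong boxB 181 11 12 8 4
    (coef (parB.forms surB) 2 1) = true := by decide +kernel

def Bcf_3_0 : checkLong boxB 181 11 12 8 4
    (coef (parB.forms surB) 3 0) = true := by decide +kernel

def Bcf_3_1 : checkLong boxB 181 11 12 8 4
    (coef (parB.forms surB) 3 1) = true := by decide +kernel

def Bcf_4_0 : checkLong boxB 182 11 12 8 4
    (coef (parB.forms surB) 4 0) = true := by decide +kernel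

def Bcf_4_1 : checkLong boxB 182 11 12 8 4
    (coef (parB.forms surB) 4 1) = true := by decide +kernel

def Bcf_5_0 : checkLong boxB 182 11 12 8 4
    (coef (parB.forms surB) 5 0) = true := by decide +kernel

def Bcf_5_1 : checkLong boxB 182 11 12 8 4
    (coef (parB.forms surB) 5 1) = true := by decide +kernel

def Bcf_6_0 : checkLong boxB 232 14 18 10 4
    (coef (parB.forms surB) 6 0) = true := by decide +kernel

def Bcf_6_1 : checkLong boxB 233 14 18 10 4
    (coef (parB.forms surB) 6 1) = true := by decide +kernel

def Bcf_6_2 : checkLong boxB 232 14 18 10 4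
    (coef (parB.forms surB) 6 2) = true := by decide +kernel

def Bcf_7_0 : checkLong boxB 232 14 18 10 4
    (coef (parB.forms surB) 7 0) = true := by decide +kernel

def Bcf_7_1 : checkLong boxB 233 14 18 10 4
    (coef (parB.forms surB) 7 1) = true := by decide +kernel

def Bcf_7_2 : checkLong boxB 232 14 18 10 4
    (coef (parB.forms surB) 7 2) = true := by decide +kernel

def Bcf_8_0 : checkLong boxB 131 7 9 5 2
    (coef (parB.forms surB) 8 0) = true := by decide +kernel

def Bcf_8_1 : checkLong boxB 131 7 9 5 2
    (coef (parB.forms surB) 8 1) = true := by decide +kernel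

def Bcf_9_0 : checkLong boxB 131 7 9 5 2
    (coef (parB.forms surB) 9 0) = true := by decide +kernel

def Bcf_9_1 : checkLong boxB 131 7 9 5 2
    (coef (parB.forms surB) 9 1) = true := by decide +kernel

def Bcf_10_0 : checkLong boxB 133 8 10 4 1
    (coef (parB.forms surB) 10 0) = true := by decide +kernel

def Bcf_10_1 : checkLong boxB 133 8 10 4 1
    (coef (parB.forms surB) 10 1) = true := by decide +kernel

def Bcf_11_0 : checkLong boxB 133 8 10 4 1
    (coef (parB.forms surB) 11 0) = true := by decide +kernel

def Bcf_11_1 : checkLong boxB 133 8 10 4 1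
    (coef (parB.forms surB) 11 1) = true := by decide +kernel

def Bcf_12_0 : checkLong boxB 158 9 13 7 2
    (coef (parB.forms surB) 12 0) = true := by decide +kernel

def Bcf_12_1 : checkLong boxB 159 9 13 7 2
    (coef (parB.forms surB) 12 1) = true := by decide +kernel

def Bcf_12_2 : checkLong boxB 158 9 13 7 2
    (coef (parB.forms surB) 12 2) = true := by decide +kernel

def Bcf_13_0 : checkLong boxB 235 15 19 9 4
    (coef (parB.forms surB) 13 0) = true := by decide +kernel

def Bcf_13_1 : checkLong boxB 236 15 19 9 4
    (coef (parB.forms surB) 13 1) = true := by decide +kernel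

def Bcf_13_2 : checkLong boxB 235 15 19 9 4
    (coef (parB.forms surB) 13 2) = true := by decide +kernel

def Bcf_14_0 : checkLong boxB 235 15 19 9 4
    (coef (parB.forms surB) 14 0) = true := by decide +kernel

def Bcf_14_1 : checkLong boxB 236 15 19 9 4
    (coef (parB.forms surB) 14 1) = true := by decide +kernel

def Bcf_14_2 : checkLong boxB 235 15 19 9 4
    (coef (parB.forms surB) 14 2) = true := by decide +kernel

def Bcp_0 : checkLong boxB 208 11 14 10 0
    ((parB.polys surB).getD 0 (.num 0)) = true := by decide +kernel

def Bcp_1 : checkLong boxB 206 11 14 10 0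
    ((parB.polys surB).getD 1 (.num 0)) = true := by decide +kernel

def Bcp_2 : checkLong boxB 183 9 12 9 0
    ((parB.polys surB).getD 2 (.num 0)) = true := by decide +kernel

def Bcp_3 : checkLong boxB 182 9 12 9 0
    ((parB.polys surB).getD 3 (.num 0)) = true := by decide +kernel

def Bcp_4 : checkLong boxB 130 6 8 7 0
    ((parB.polys surB).getD 4 (.num 0)) = true := by decide +kernel

def Bcp_5 : checkLong boxB 88 4 5 5 0
    ((parB.polys surB).getD 5 (.num 0)) = true := by decide +kernel

def Bcp_6 : checkLong boxB 88 4 5 5 0
    ((parB.polys surB).getD 6 (.num 0)) = true := by decide +kernel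

def Bcp_7 : checkLong boxB 87 4 5 5 0
    ((parB.polys surB).getD 7 (.num 0)) = true := by decide +kernel

def Bcp_8 : checkLong boxB 87 4 5 5 0
    ((parB.polys surB).getD 8 (.num 0)) = true := by decide +kernel

def Bcp_9 : checkLong boxB 88 4 5 5 0
    ((parB.polys surB).getD 9 (.num 0)) = true := by decide +kernel

def Bcp_10 : checkLong boxB 87 4 5 5 0
    ((parB.polys surB).getD 10 (.num 0)) = true := by decide +kernel

def Bcp_11 : checkLong boxB 71 4 5 2 0
    ((parB.polys surB).getD 11 (.num 0)) = true := by decide +kernel

def Bcp_12 : checkLong boxB 204 11 13 10 0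
    ((parB.polys surB).getD 12 (.num 0)) = true := by decide +kernel

def Bcp_13 : checkLong boxB 91 4 5 5 0
    ((parB.polys surB).getD 13 (.num 0)) = true := by decide +kernel

def Bcp_14 : checkLong boxB 89 4 5 5 0
    ((parB.polys surB).getD 14 (.num 0)) = true := by decide +kernel

def Bcp_15 : checkLong boxB 87 4 5 5 0
    ((parB.polys surB).getD 15 (.num 0)) = true := by decide +kernel

def Bcp_16 : checkLong boxB 228 13 14 11 0
    ((parB.polys surB).getD 16 (.num 0)) = true := by decide +kernel

def Bcp_17 : checkLong boxB 213 10 13 10 0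
    ((parB.polys surB).getD 17 (.num 0)) = true := by decide +kernel

def Bcp_18 : checkLong boxB 212 10 13 10 0
    ((parB.polys surB).getD 18 (.num 0)) = true := by decide +kernel

def Bcp_19 : checkLong boxB 364 19 25 16 0
    ((parB.polys surB).getD 19 (.num 0)) = true := by decide +kernel

def Bcp_20 : checkLong boxB 364 19 25 16 0
    ((parB.polys surB).getD 20 (.num 0)) = true := by decide +kernel

def Bcp_21 : checkLong boxB 364 19 25 16 0
    ((parB.polys surB).getD 21 (.num 0)) = true := by decide +kernel

def Bcp_22 : checkLong boxB 364 19 25 16 0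
    ((parB.polys surB).getD 22 (.num 0)) = true := by decide +kernel

end Vale.Agent.P100.Calib.EndAll
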