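import Vale.Agent.P100.Calib.SlabAllEndData
import Vale.Agent.P100.Calib.SlabAllEndBig

/-!
# Kernel checks of the piece C, part III
-/

namespace Vale.Agent.P100.Calib.EndAll

open Pack

set_option linter.defProp false

def Ccf_18_0 : checkLong boxC 247 14 26 8 5
    (coef (parC.forms surC) 18 0) = true := by decide +kernel

def Ccf_18_1 : checkLong boxC 248 14 26 8 5
    (coef (parC.forms surC) 18 1) = true := by decide +kernel

def Ccf_18_2 : checkLong boxC 247 14 26 8 5
    (coef (parC.forms surC) 18 2) = true := by decide +kernel

def Ccf_19_0 : checkLong boxC 297 15 31 9 6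
    (coef (parC.forms surC) 19 0) = true := by decide +kernel

def Ccf_19_1 : checkLong boxC 298 15 31 9 6
    (coef (parC.forms surC) 19 1) = true := by decide +kernel

def Ccf_19_2 : checkLong boxC 297 15 31 9 6
    (coef (parC.forms surC) 19 2) = true := by decide +kernel

def Ccf_20_0 : checkLong boxC 297 15 31 9 6
    (coef (parC.forms surC) 20 0) = true := by decide +kernel

def Ccf_20_1 : checkLong boxC 298 15 31 9 6
    (coef (parC.forms surC) 20 1) = true := by decide +kernel

def Ccf_20_2 : checkLong boxC 297 15 31 9 6
    (coef (parC.forms surC) 20 2) = true := by decide +kernel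

end Vale.Agent.P100.Calib.EndAll
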