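import Vale.Agent.P100.Calib.SlabAllEndData
import Vale.Agent.P100.Calib.SlabAllEndBig

/-!
# Kernel checks of the piece C, part IV
-/

namespace Vale.Agent.P100.Calib.EndAll

open Pack

set_option linter.defProp false

def Ccf_0_0 : checkLong boxC 190 9 17 8 3
    (coef (parC.forms surC) 0 0) = true := by decide +kernel

def Ccf_0_1 : checkLong boxC 190 9 17 8 3
    (coef (parC.forms surC) 0 1) = true := by decide +kernel

def Ccf_1_0 : checkLong boxC 190 9 17 8 3
    (coef (parC.forms surC) 1 0) = true := by decide +kernel

def Ccf_1_1 : checkLong boxC 190 9 17 8 3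
    (coef (parC.forms surC) 1 1) = true := by decide +kernel

def Ccf_2_0 : checkLong boxC 176 7 16 8 4
    (coef (parC.forms surC) 2 0) = true := by decide +kernel

def Ccf_2_1 : checkLong boxC 176 7 16 8 4
    (coef (parC.forms surC) 2 1) = true := by decide +kernel

def Ccf_3_0 : checkLong boxC 176 7 16 8 4
    (coef (parC.forms surC) 3 0) = true := by decide +kernel

def Ccf_3_1 : checkLong boxC 176 7 16 8 4
    (coef (parC.forms surC) 3 1) = true := by decide +kernel

def Ccf_4_0 : checkLong boxC 177 7 16 8 4
    (coef (parC.forms surC) 4 0) = true := by decide +kernel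

def Ccf_4_1 : checkLong boxC 177 7 16 8 4
    (coef (parC.forms surC) 4 1) = true := by decide +kernel

def Ccf_5_0 : checkLong boxC 177 7 16 8 4
    (coef (parC.forms surC) 5 0) = true := by decide +kernel

def Ccf_5_1 : checkLong boxC 177 7 16 8 4
    (coef (parC.forms surC) 5 1) = true := by decide +kernel

def Ccf_6_0 : checkLong boxC 226 11 21 10 4
    (coef (parC.forms surC) 6 0) = true := by decide +kernel

def Ccf_6_1 : checkLong boxC 227 11 21 10 4
    (coef (parC.forms surC) 6 1) = true := by decide +kernel

def Ccf_6_2 : checkLong boxC 226 11 21 10 4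
    (coef (parC.forms surC) 6 2) = true := by decide +kernel

def Ccf_7_0 : checkLong boxC 226 11 21 10 4
    (coef (parC.forms surC) 7 0) = true := by decide +kernel

def Ccf_7_1 : checkLong boxC 227 11 21 10 4
    (coef (parC.forms surC) 7 1) = true := by decide +kernel

def Ccf_7_2 : checkLong boxC 226 11 21 10 4
    (coef (parC.forms surC) 7 2) = true := by decide +kernel

def Ccf_8_0 : checkLong boxC 127 6 10 5 2
    (coef (parC.forms surC) 8 0) = true := by decide +kernel

def Ccf_8_1 : checkLong boxC 127 6 10 5 2
    (coef (parC.forms surC) 8 1) = true := by decide +kernel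

def Ccf_9_0 : checkLong boxC 127 6 10 5 2
    (coef (parC.forms surC) 9 0) = true := by decide +kernel

def Ccf_9_1 : checkLong boxC 127 6 10 5 2
    (coef (parC.forms surC) 9 1) = true := by decide +kernel

def Ccf_10_0 : checkLong boxC 129 7 11 4 1
    (coef (parC.forms surC) 10 0) = true := by decide +kernel

def Ccf_10_1 : checkLong boxC 129 7 11 4 1
    (coef (parC.forms surC) 10 1) = true := by decide +kernel

def Ccf_11_0 : checkLong boxC 129 7 11 4 1
    (coef (parC.forms surC) 11 0) = true := by decide +kernel

def Ccf_11_1 : checkLong boxC 129 7 11 4 1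
    (coef (parC.forms surC) 11 1) = true := by decide +kernel

def Ccf_12_0 : checkLong boxC 155 8 13 7 2
    (coef (parC.forms surC) 12 0) = true := by decide +kernel

def Ccf_12_1 : checkLong boxC 156 8 13 7 2
    (coef (parC.forms surC) 12 1) = true := by decide +kernel

def Ccf_12_2 : checkLong boxC 155 8 13 7 2
    (coef (parC.forms surC) 12 2) = true := by decide +kernel

def Ccf_13_0 : checkLong boxC 220 11 21 9 4
    (coef (parC.forms surC) 13 0) = true := by decide +kernel

def Ccf_13_1 : checkLong boxC 221 11 21 9 4
    (coef (parC.forms surC) 13 1) = true := by decide +kernel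

def Ccf_13_2 : checkLong boxC 220 11 21 9 4
    (coef (parC.forms surC) 13 2) = true := by decide +kernel

def Ccf_14_0 : checkLong boxC 220 11 21 9 4
    (coef (parC.forms surC) 14 0) = true := by decide +kernel

def Ccf_14_1 : checkLong boxC 221 11 21 9 4
    (coef (parC.forms surC) 14 1) = true := by decide +kernel

def Ccf_14_2 : checkLong boxC 220 11 21 9 4
    (coef (parC.forms surC) 14 2) = true := by decide +kernel

def Ccp_0 : checkLong boxC 205 11 14 10 0
    ((parC.polys surC).getD 0 (.num 0)) = true := by decide +kernel

def Ccp_1 : checkLong boxC 207 11 14 10 0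
    ((parC.polys surC).getD 1 (.num 0)) = true := by decide +kernel

def Ccp_2 : checkLong boxC 182 9 12 9 0
    ((parC.polys surC).getD 2 (.num 0)) = true := by decide +kernel

def Ccp_3 : checkLong boxC 181 9 12 9 0
    ((parC.polys surC).getD 3 (.num 0)) = true := by decide +kernel

def Ccp_4 : checkLong boxC 131 6 8 7 0
    ((parC.polys surC).getD 4 (.num 0)) = true := by decide +kernel

def Ccp_5 : checkLong boxC 88 4 5 5 0
    ((parC.polys surC).getD 5 (.num 0)) = true := by decide +kernel

def Ccp_6 : checkLong boxC 88 4 5 5 0
    ((parC.polys surC).getD 6 (.num 0)) = true := by decide +kernel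

def Ccp_7 : checkLong boxC 88 4 5 5 0
    ((parC.polys surC).getD 7 (.num 0)) = true := by decide +kernel

def Ccp_8 : checkLong boxC 88 4 5 5 0
    ((parC.polys surC).getD 8 (.num 0)) = true := by decide +kernel

def Ccp_9 : checkLong boxC 88 4 5 5 0
    ((parC.polys surC).getD 9 (.num 0)) = true := by decide +kernel

def Ccp_10 : checkLong boxC 89 4 5 5 0
    ((parC.polys surC).getD 10 (.num 0)) = true := by decide +kernel

def Ccp_11 : checkLong boxC 70 4 5 2 0
    ((parC.polys surC).getD 11 (.num 0)) = true := by decide +kernel

def Ccp_12 : checkLong boxC 200 11 13 10 0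
    ((parC.polys surC).getD 12 (.num 0)) = true := by decide +kernel

def Ccp_13 : checkLong boxC 90 4 5 5 0
    ((parC.polys surC).getD 13 (.num 0)) = true := by decide +kernel

def Ccp_14 : checkLong boxC 88 4 5 5 0
    ((parC.polys surC).getD 14 (.num 0)) = true := by decide +kernel

def Ccp_15 : checkLong boxC 92 4 5 5 0
    ((parC.polys surC).getD 15 (.num 0)) = true := by decide +kernel

def Ccp_16 : checkLong boxC 231 12 15 11 0
    ((parC.polys surC).getD 16 (.num 0)) = true := by decide +kernel

def Ccp_17 : checkLong boxC 212 10 13 10 0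
    ((parC.polys surC).getD 17 (.num 0)) = true := by decide +kernel

def Ccp_18 : checkLong boxC 210 10 13 10 0
    ((parC.polys surC).getD 18 (.num 0)) = true := by decide +kernel

def Ccp_19 : checkLong boxC 363 18 25 16 0
    ((parC.polys surC).getD 19 (.num 0)) = true := by decide +kernel

def Ccp_20 : checkLong boxC 363 18 25 16 0
    ((parC.polys surC).getD 20 (.num 0)) = true := by decide +kernel

def Ccp_21 : checkLong boxC 362 18 25 16 0
    ((parC.polys surC).getD 21 (.num 0)) = true := by decide +kernel

def Ccp_22 : checkLong boxC 362 18 25 16 0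
    ((parC.polys surC).getD 22 (.num 0)) = true := by decide +kernel

end Vale.Agent.P100.Calib.EndAll
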