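import Vale.Agent.P100.Calib.SlabAllEndData
import Vale.Agent.P100.Calib.SlabAllEndBig

/-!
# Kernel checks of the piece D, part II
-/

namespace Vale.Agent.P100.Calib.EndAll

open Pack

set_option linter.defProp false

def Dcf_16_0 : checkLong boxD 351 17 32 10 7
    (coef (parD.forms surD) 16 0) = true := by decide +kernel

def Dcf_16_1 : checkLong boxD 352 17 32 10 7
    (coef (parD.forms surD) 16 1) = true := by decide +kernel

def Dcf_16_2 : checkLong boxD 351 17 32 10 7
    (coef (parD.forms surD) 16 2) = true := by decide +kernel

def Dcf_17_0 : checkLong boxD 312 15 29 9 6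
    (coef (parD.forms surD) 17 0) = true := by decide +kernel

def Dcf_17_1 : checkLong boxD 313 15 29 9 6
    (coef (parD.forms surD) 17 1) = true := by decide +kernel

def Dcf_17_2 : checkLong boxD 312 15 29 9 6
    (coef (parD.forms surD) 17 2) = true := by decide +kernel

end Vale.Agent.P100.Calib.EndAll
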