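import Vale.Agent.P100.Calib.SlabAllEndData
import Vale.Agent.P100.Calib.SlabAllEndBig

/-!
# Kernel checks of the piece D, part IV
-/

namespace Vale.Agent.P100.Calib.EndAll

open Pack

set_option linter.defProp false

def Dcf_0_0 : checkLong boxD 207 9 17 8 3
    (coef (parD.forms surD) 0 0) = true := by decide +kernel

def Dcf_0_1 : checkLong boxD 207 9 17 8 3
    (coef (parD.forms surD) 0 1) = true := by decide +kernel

def Dcf_1_0 : checkLong boxD 207 9 17 8 3
    (coef (parD.forms surD) 1 0) = true := by decide +kernel

def Dcf_1_1 : checkLong boxD 207 9 17 8 3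
    (coef (parD.forms surD) 1 1) = true := by decide +kernel

def Dcf_2_0 : checkLong boxD 191 7 16 8 4
    (coef (parD.forms surD) 2 0) = true := by decide +kernel

def Dcf_2_1 : checkLong boxD 191 7 16 8 4
    (coef (parD.forms surD) 2 1) = true := by decide +kernel

def Dcf_3_0 : checkLong boxD 191 7 16 8 4
    (coef (parD.forms surD) 3 0) = true := by decide +kernel

def Dcf_3_1 : checkLong boxD 191 7 16 8 4
    (coef (parD.forms surD) 3 1) = true := by decide +kernel

def Dcf_4_0 : checkLong boxD 192 7 16 8 4
    (coef (parD.forms surD) 4 0) = true := by decide +kernel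

def Dcf_4_1 : checkLong boxD 192 7 16 8 4
    (coef (parD.forms surD) 4 1) = true := by decide +kernel

def Dcf_5_0 : checkLong boxD 192 7 16 8 4
    (coef (parD.forms surD) 5 0) = true := by decide +kernel

def Dcf_5_1 : checkLong boxD 192 7 16 8 4
    (coef (parD.forms surD) 5 1) = true := by decide +kernel

def Dcf_6_0 : checkLong boxD 250 11 21 10 4
    (coef (parD.forms surD) 6 0) = true := by decide +kernel

def Dcf_6_1 : checkLong boxD 251 11 21 10 4
    (coef (parD.forms surD) 6 1) = true := by decide +kernel

def Dcf_6_2 : checkLong boxD 250 11 21 10 4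
    (coef (parD.forms surD) 6 2) = true := by decide +kernel

def Dcf_7_0 : checkLong boxD 250 11 21 10 4
    (coef (parD.forms surD) 7 0) = true := by decide +kernel

def Dcf_7_1 : checkLong boxD 251 11 21 10 4
    (coef (parD.forms surD) 7 1) = true := by decide +kernel

def Dcf_7_2 : checkLong boxD 250 11 21 10 4
    (coef (parD.forms surD) 7 2) = true := by decide +kernel

def Dcf_8_0 : checkLong boxD 138 6 10 5 2
    (coef (parD.forms surD) 8 0) = true := by decide +kernel

def Dcf_8_1 : checkLong boxD 138 6 10 5 2
    (coef (parD.forms surD) 8 1) = true := by decide +kernel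

def Dcf_9_0 : checkLong boxD 138 6 10 5 2
    (coef (parD.forms surD) 9 0) = true := by decide +kernel

def Dcf_9_1 : checkLong boxD 138 6 10 5 2
    (coef (parD.forms surD) 9 1) = true := by decide +kernel

def Dcf_10_0 : checkLong boxD 143 7 11 4 1
    (coef (parD.forms surD) 10 0) = true := by decide +kernel

def Dcf_10_1 : checkLong boxD 143 7 11 4 1
    (coef (parD.forms surD) 10 1) = true := by decide +kernel

def Dcf_11_0 : checkLong boxD 143 7 11 4 1
    (coef (parD.forms surD) 11 0) = true := by decide +kernel

def Dcf_11_1 : checkLong boxD 143 7 11 4 1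
    (coef (parD.forms surD) 11 1) = true := by decide +kernel

def Dcf_12_0 : checkLong boxD 169 8 13 7 2
    (coef (parD.forms surD) 12 0) = true := by decide +kernel

def Dcf_12_1 : checkLong boxD 170 8 13 7 2
    (coef (parD.forms surD) 12 1) = true := by decide +kernel

def Dcf_12_2 : checkLong boxD 169 8 13 7 2
    (coef (parD.forms surD) 12 2) = true := by decide +kernel

def Dcf_13_0 : checkLong boxD 241 11 21 9 4
    (coef (parD.forms surD) 13 0) = true := by decide +kernel

def Dcf_13_1 : checkLong boxD 242 11 21 9 4
    (coef (parD.forms surD) 13 1) = true := by decide +kernel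

def Dcf_13_2 : checkLong boxD 241 11 21 9 4
    (coef (parD.forms surD) 13 2) = true := by decide +kernel

def Dcf_14_0 : checkLong boxD 241 11 21 9 4
    (coef (parD.forms surD) 14 0) = true := by decide +kernel

def Dcf_14_1 : checkLong boxD 242 11 21 9 4
    (coef (parD.forms surD) 14 1) = true := by decide +kernel

def Dcf_14_2 : checkLong boxD 241 11 21 9 4
    (coef (parD.forms surD) 14 2) = true := by decide +kernel

def Dcp_0 : checkLong boxD 225 11 14 10 0
    ((parD.polys surD).getD 0 (.num 0)) = true := by decide +kernel

def Dcp_1 : checkLong boxD 229 11 14 10 0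
    ((parD.polys surD).getD 1 (.num 0)) = true := by decide +kernel

def Dcp_2 : checkLong boxD 198 9 12 9 0
    ((parD.polys surD).getD 2 (.num 0)) = true := by decide +kernel

def Dcp_3 : checkLong boxD 198 9 12 9 0
    ((parD.polys surD).getD 3 (.num 0)) = true := by decide +kernel

def Dcp_4 : checkLong boxD 144 6 8 7 0
    ((parD.polys surD).getD 4 (.num 0)) = true := by decide +kernel

def Dcp_5 : checkLong boxD 96 4 5 5 0
    ((parD.polys surD).getD 5 (.num 0)) = true := by decide +kernel

def Dcp_6 : checkLong boxD 96 4 5 5 0
    ((parD.polys surD).getD 6 (.num 0)) = true := by decide +kernel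

def Dcp_7 : checkLong boxD 97 4 5 5 0
    ((parD.polys surD).getD 7 (.num 0)) = true := by decide +kernel

def Dcp_8 : checkLong boxD 97 4 5 5 0
    ((parD.polys surD).getD 8 (.num 0)) = true := by decide +kernel

def Dcp_9 : checkLong boxD 96 4 5 5 0
    ((parD.polys surD).getD 9 (.num 0)) = true := by decide +kernel

def Dcp_10 : checkLong boxD 98 4 5 5 0
    ((parD.polys surD).getD 10 (.num 0)) = true := by decide +kernel

def Dcp_11 : checkLong boxD 78 4 5 2 0
    ((parD.polys surD).getD 11 (.num 0)) = true := by decide +kernel

def Dcp_12 : checkLong boxD 220 11 13 10 0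
    ((parD.polys surD).getD 12 (.num 0)) = true := by decide +kernel

def Dcp_13 : checkLong boxD 97 4 5 5 0
    ((parD.polys surD).getD 13 (.num 0)) = true := by decide +kernel

def Dcp_14 : checkLong boxD 95 4 5 5 0
    ((parD.polys surD).getD 14 (.num 0)) = true := by decide +kernel

def Dcp_15 : checkLong boxD 101 4 5 5 0
    ((parD.polys surD).getD 15 (.num 0)) = true := by decide +kernel

def Dcp_16 : checkLong boxD 255 12 15 11 0
    ((parD.polys surD).getD 16 (.num 0)) = true := by decide +kernel

def Dcp_17 : checkLong boxD 230 10 13 10 0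
    ((parD.polys surD).getD 17 (.num 0)) = true := by decide +kernel

def Dcp_18 : checkLong boxD 228 10 13 10 0
    ((parD.polys surD).getD 18 (.num 0)) = true := by decide +kernel

def Dcp_19 : checkLong boxD 398 18 25 16 0
    ((parD.polys surD).getD 19 (.num 0)) = true := by decide +kernel

def Dcp_20 : checkLong boxD 398 18 25 16 0
    ((parD.polys surD).getD 20 (.num 0)) = true := by decide +kernel

def Dcp_21 : checkLong boxD 397 18 25 16 0
    ((parD.polys surD).getD 21 (.num 0)) = true := by decide +kernel

def Dcp_22 : checkLong boxD 396 18 25 16 0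
    ((parD.polys surD).getD 22 (.num 0)) = true := by decide +kernel

end Vale.Agent.P100.Calib.EndAll
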