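import Vale.Agent.P100.Calib.SlabAllEndData
import Vale.Agent.P100.Calib.SlabAllEndBlock

/-!
# From the checked coefficients to the signs

If all coefficients of `Par.forms` and all of `Par.polys` are nonnegative at a point, the rows and
linear parts lie between the surrogates, the surrogates satisfy the inequalities of `BdOk`, and so
the signs hold with a multiplier.
-/

namespace Vale.Agent.P100.Calib.EndAll

open Pack

local instance endCoreAdd : Add Pack.Ex := ⟨Ex.add⟩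
local instance endCoreSub : Sub Pack.Ex := ⟨Ex.sub⟩
local instance endCoreMul : Mul Pack.Ex := ⟨Ex.mul⟩

/-- All coefficients of the checks are nonnegative at the point. -/
structure CheckOk (P : Par) (D : Sur) (x : ℕ → ℝ) : Prop where
  f : ∀ i k, 0 ≤ (coef (P.forms D) i k).eval x
  p : ∀ i, 0 ≤ ((P.polys D).getD i (.num 0)).eval x

/-- The surrogates' values as a `Bd`. -/
noncomputable def bdVal (P : Par) (D : Sur) (x : ℕ → ℝ) : Bd :=
  let e := fun l => surVal l (x 0) (iVal P x) (x 2)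
  ⟨e D.f0, e D.f1, e D.kG, e D.kE, e D.p0, e D.p1, e D.o0, e D.o1, e D.z, e D.H, e D.FM, e D.PM,
    e D.DF, e D.DPs, e D.HH, e D.al, e D.ml, e D.gl, e D.L0, e D.L1, e D.M, e D.y0, e D.y1,
    e D.e5, e D.g5, e D.XL, e D.XH⟩

/-- The lower bound of `1 - w τ`. -/
noncomputable def wlVal (P : Par) (x : ℕ → ℝ) : ℝ :=
  1 - P.cQ.eval x / P.cD * (x 2 * (x 0 + 2 * iVal P x))

variable {P : Par} {D : Sur} {x : ℕ → ℝ} {θ : ℝ}

theorem eval_pe (l : List (ℤ × ℕ × ℕ × ℕ)) :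
    (P.pe l).eval x = 100000 * surVal l (x 0) (iVal P x) (x 2) := by
  simp only [Par.pe, eval_surEx, eval_I, surVal]; ring

theorem eval_S : P.S.eval x = 1 - 2 * iVal P x := by
  simp [Par.S, eval_sub, eval_mul, eval_num, eval_I]

theorem eval_B : P.B.eval x = pB (x 0) (iVal P x) := by
  simp [Par.B, Par.S, Par.A, pB, eval_sub, eval_mul, eval_num, eval_var, eval_I]

theorem eval_D : P.D.eval x = pD (x 0) (iVal P x) := by
  simp [Par.D, Par.B, Par.S, Par.A, pD, eval_sub, eval_mul, eval_num, eval_var, eval_I]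
  ring

theorem eval_pWl (h : 0 < P.cD) : P.pWl.eval x = P.cD * wlVal P x := by
  have : (P.cD : ℝ) ≠ 0 := Nat.cast_ne_zero.2 h.ne'
  simp only [Par.pWl, Par.W, Par.A, wlVal, eval_add, eval_sub, eval_mul, eval_num, eval_var,
    eval_I, Int.cast_natCast, Int.cast_ofNat]
  field_simp

theorem bdOk (h : Pt P x θ) (hc : CheckOk P D x) (hwl : 0 < wlVal P x) :
    BdOk (x 0) (iVal P x) (1 - 2 * iVal P x) (pB (x 0) (iVal P x)) (pD (x 0) (iVal P x))
      (wlVal P x) (bdVal P D x) := by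
  have hcD : 0 < P.cD := h.cD_pos
  have hc0 : (0 : ℝ) < P.cD := Nat.cast_pos.2 hcD
  have ha := h.a_pos
  have hI := h.I_pos
  have hb := h.b_pos
  have haI : 0 < x 0 * iVal P x := mul_pos ha hI
  have q0 : 0 ≤ (P.eP D - Par.kk * P.pe D.e5).eval x := hc.p 0
  have q1 : 0 ≤ (P.gP D - Par.kk * P.pe D.g5).eval x := hc.p 1
  have q2 : 0 ≤ (Par.kk * P.S * P.D * P.pe D.L0 - P.rP D - Par.kk * P.pe D.XL).eval x := hc.p 2
  have q3 : 0 ≤ (Par.kk * P.pe D.XH - (Par.kk * P.S * P.D * P.pe D.L1 + P.rP D)).eval x := hc.p 3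
  have q4 : 0 ≤ (Par.kk * P.pe D.HH - P.pe D.H * P.pe D.DPs).eval x := hc.p 4
  have q5 : 0 ≤ (P.pe D.DF - (P.pe D.f1 - P.pe D.FM)).eval x := hc.p 5
  have q6 : 0 ≤ (P.pe D.DF - (P.pe D.FM - P.pe D.f0)).eval x := hc.p 6
  have q7 : 0 ≤ (P.pe D.DPs - (P.pe D.p1 - P.pe D.PM)).eval x := hc.p 7
  have q8 : 0 ≤ (P.pe D.DPs - (P.pe D.PM - P.pe D.p0)).eval x := hc.p 8
  have q9 : 0 ≤ (Ex.num 0 - (P.pe D.f0 + P.pe D.f1)).eval x := hc.p 9
  have q10 : 0 ≤ (Ex.num 0 - (P.pe D.p0 + P.pe D.p1)).eval x := hc.p 10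
  have q11 : 0 ≤ (P.pe D.o0).eval x := hc.p 11
  have q12 : 0 ≤ (P.nP D).eval x := hc.p 12
  have q13 : 0 ≤ (P.pe D.e5 - Ex.num 100 * Par.A * P.I).eval x := hc.p 13
  have q14 : 0 ≤ (P.pe D.g5 - Ex.num 100 * Par.A * P.I).eval x := hc.p 14
  have q15 : 0 ≤ (P.pe D.M - Ex.num 100 * Par.A * P.I).eval x := hc.p 15
  have q16 : 0 ≤ (P.fP D).eval x := hc.p 16
  have q17 : 0 ≤ (P.minorP D (P.pe D.XL)).eval x := hc.p 17
  have q18 : 0 ≤ (P.minorP D (P.pe D.XH)).eval x := hc.p 18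
  have q19 : 0 ≤ (P.detP D (P.pe D.XL) (P.pe D.y0)).eval x := hc.p 19
  have q20 : 0 ≤ (P.detP D (P.pe D.XL) (P.pe D.y1)).eval x := hc.p 20
  have q21 : 0 ≤ (P.detP D (P.pe D.XH) (P.pe D.y0)).eval x := hc.p 21
  have q22 : 0 ≤ (P.detP D (P.pe D.XH) (P.pe D.y1)).eval x := hc.p 22
  simp only [Par.eP, Par.gP, Par.nP, Par.rP, Par.fP, Par.minorP, Par.detP, Par.kk, Par.pJ,
    eval_add, eval_sub, eval_mul, eval_num, eval_pe, eval_S, eval_B, eval_D, eval_pWl hcD, eval_I,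
    show Par.A.eval x = x 0 from rfl, Int.cast_natCast, Int.cast_ofNat, Int.cast_zero,
    Int.cast_one]
    at q0 q1 q2 q3 q4 q5 q6 q7 q8 q9 q10 q11 q12 q13 q14 q15 q16 q17 q18 q19 q20 q21 q22
  set B := bdVal P D x with hB
  simp only [show surVal D.f0 (x 0) (iVal P x) (x 2) = B.f0 from rfl,
    show surVal D.f1 (x 0) (iVal P x) (x 2) = B.f1 from rfl,
    show surVal D.kG (x 0) (iVal P x) (x 2) = B.kG from rfl,
    show surVal D.kE (x 0) (iVal P x) (x 2) = B.kE from rfl,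
    show surVal D.p0 (x 0) (iVal P x) (x 2) = B.p0 from rfl,
    show surVal D.p1 (x 0) (iVal P x) (x 2) = B.p1 from rfl,
    show surVal D.o0 (x 0) (iVal P x) (x 2) = B.o0 from rfl,
    show surVal D.z (x 0) (iVal P x) (x 2) = B.z from rfl,
    show surVal D.H (x 0) (iVal P x) (x 2) = B.H from rfl,
    show surVal D.FM (x 0) (iVal P x) (x 2) = B.FM from rfl,
    show surVal D.PM (x 0) (iVal P x) (x 2) = B.PM from rfl,
    show surVal D.DF (x 0) (iVal P x) (x 2) = B.DF from rfl,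
    show surVal D.DPs (x 0) (iVal P x) (x 2) = B.DPs from rfl,
    show surVal D.HH (x 0) (iVal P x) (x 2) = B.HH from rfl,
    show surVal D.al (x 0) (iVal P x) (x 2) = B.al from rfl,
    show surVal D.ml (x 0) (iVal P x) (x 2) = B.ml from rfl,
    show surVal D.gl (x 0) (iVal P x) (x 2) = B.gl from rfl,
    show surVal D.L0 (x 0) (iVal P x) (x 2) = B.L0 from rfl,
    show surVal D.L1 (x 0) (iVal P x) (x 2) = B.L1 from rfl,
    show surVal D.M (x 0) (iVal P x) (x 2) = B.M from rfl,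
    show surVal D.y0 (x 0) (iVal P x) (x 2) = B.y0 from rfl,
    show surVal D.y1 (x 0) (iVal P x) (x 2) = B.y1 from rfl,
    show surVal D.e5 (x 0) (iVal P x) (x 2) = B.e5 from rfl,
    show surVal D.g5 (x 0) (iVal P x) (x 2) = B.g5 from rfl,
    show surVal D.XL (x 0) (iVal P x) (x 2) = B.XL from rfl,
    show surVal D.XH (x 0) (iVal P x) (x 2) = B.XH from rfl]
    at q0 q1 q2 q3 q4 q5 q6 q7 q8 q9 q10 q11 q12 q13 q14 q15 q16 q17 q18 q19 q20 q21 q22
  clear_value B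
  have he : 0 < B.e5 := by linarith
  have hg : 0 < B.g5 := by linarith
  have hM : 0 < B.M := by linarith
  have sm : 0 < x 0 * x 0 * (B.e5 * B.g5) := mul_pos (mul_pos ha ha) (mul_pos he hg)
  have sd : 0 < x 0 * x 0 *
      (wlVal P x * pB (x 0) (iVal P x) ^ 3 * (B.e5 * B.g5 * B.M)) :=
    mul_pos (mul_pos ha ha) (mul_pos (mul_pos hwl (pow_pos hb 3)) (mul_pos (mul_pos he hg) hM))
  refine ⟨by linarith, by linarith, by linarith, by linarith, by linarith, by linarith,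
    by linarith, by linarith, by linarith, by linarith, by linarith, by linarith, by linarith,
    he, hg, hM, le_of_mul_le_mul_left (by linarith) hc0, ?_, ?_⟩
  · simp only [Set.mem_insert_iff, Set.mem_singleton_iff]
    rintro X (rfl | rfl) <;> linarith
  · simp only [Set.mem_insert_iff, Set.mem_singleton_iff]
    rintro X (rfl | rfl) y (rfl | rfl) <;>
      refine pos_of_mul_pos_right (a := (P.cD : ℝ)) ?_ hc0.le <;>
      linarith [mul_pos hc0 sd]

theorem rfs (h : Pt P x θ) (l : List (ℤ × ℕ × ℕ × ℕ)) :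
    Rep P.atoms x θ (P.fs l) (surVal l (x 0) (iVal P x) (x 2)) :=
  ((Rep.poly h.pos [surEx P.I l]).divNat (by norm_num : 0 < 100000)).cast
    (by simp [bv, eval_surEx, eval_I, surVal])

theorem dv_eq (h : Pt P x θ) : pDV (iVal P x) (x 2) (tauVal P x) =
    pD (x 0) (iVal P x) * pV (x 0) (iVal P x) (x 2) (tauVal P x) := by
  have hd : pD (x 0) (iVal P x) ≠ 0 := h.d_pos.ne'
  rw [pV, pDV]; field_simp

theorem formNonneg (h : Pt P x θ) (hc : CheckOk P D x) (i : ℕ) {F : Fn} {r : ℝ}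
    (hr : Rep P.atoms x θ F r) (hF : (P.forms D).getD i (Fn.int 0) = F) : 0 ≤ r := by
  subst hF
  exact hr.nonneg h.th_low h.th_high rfl fun k _ => hc.f i k

theorem rowOk (h : Pt P x θ) (hc : CheckOk P D x) :
    RowOk (x 0) (iVal P x) (1 - 2 * iVal P x) (pB (x 0) (iVal P x)) (bdVal P D x)
      (pD (x 0) (iVal P x)) (pV (x 0) (iVal P x) (x 2) (tauVal P x))
      (pG (x 0) (iVal P x) (x 2) (tauVal P x) (xiVal P θ))
      (pW (x 0) (iVal P x) (x 2) (xiVal P θ))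
      (pW1 (x 0) (iVal P x) (x 2) (tauVal P x) (xiVal P θ)) (pR (iVal P x) (x 2))
      (pNum (x 0) (iVal P x) (x 2) (tauVal P x) (xiVal P θ)) := by
  have hav := h.ra.mul h.rv
  have hu3 := ((h.ra.mul h.ra).mul h.ra).mul h.rI
  have hZ := (h.rg.mul (hu3.mul h.rI)).mul (rfs h D.z)
  have hQ : Rep P.atoms x θ P.fQ (1 + pDV (iVal P x) (x 2) (tauVal P x)) := h.one'.add h.rdv
  have hcab := (h.rc.mul h.ra).mul h.rb
  have hht := (((((h.ra.mul h.rb).mul h.rd).mul h.rd).mul hQ).mul h.rc).mul hav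
  have hgg := h.rgMS.mul h.rgGS
  have hle := h.rLEESLin ((rfs h D.o1).mul h.rib)
  have hlm := h.rLMGSLin ((rfs h D.o0).mul h.rib)
  have hS1 := h.one'.add h.rS
  have h4 : Rep P.atoms x θ (Fn.int 4) (4 : ℝ) := Rep.natLit h.pos 4
  have h8 : Rep P.atoms x θ (Fn.int 8) (8 : ℝ) := Rep.natLit h.pos 8
  have h16 : Rep P.atoms x θ (Fn.int 16) (16 : ℝ) := Rep.natLit h.pos 16
  have hEG := ((h4.mul hcab).mul h.rLEGS).sub
    (hS1.mul ((((h.rc.mul h.ra).mul (rfs h D.FM)).mul h.rgGS).add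
      ((((h.ra.mul h.rb).mul h.ra).mul (rfs h D.PM)).mul h.rhES)))
  have hI2 := h.rI.mul h.rI
  have haII := (h.ra.mul h.rI).mul h.rI
  have n0 := formNonneg h hc 0 (h.rgES.sub (hav.mul (rfs h D.f0))) rfl
  have n1 := formNonneg h hc 1 ((hav.mul (rfs h D.f1)).sub h.rgES) rfl
  have n2 := formNonneg h hc 2 (h.rgGS.add (hav.mul (rfs h D.kG))) rfl
  have n3 := formNonneg h hc 3 ((hav.mul (rfs h D.kG)).sub h.rgGS) rfl
  have n4 := formNonneg h hc 4 (h.rhES.add (hav.mul (rfs h D.kE))) rfl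
  have n5 := formNonneg h hc 5 ((hav.mul (rfs h D.kE)).sub h.rhES) rfl
  have n6 := formNonneg h hc 6 (h.rhGS.sub (hav.mul (rfs h D.p0))) rfl
  have n7 := formNonneg h hc 7 ((hav.mul (rfs h D.p1)).sub h.rhGS) rfl
  have n8 := formNonneg h hc 8 (h.rhM.add (rfs h D.H)) rfl
  have n9 := formNonneg h hc 9 ((rfs h D.H).sub h.rhM) rfl
  have n10 := formNonneg h hc 10 (((h.rb.mul h.rg).mul h.rW).sub (rfs h D.o0)) rfl
  have n11 := formNonneg h hc 11 ((rfs h D.o1).sub ((h.rb.mul h.rg).mul h.rW)) rfl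
  have n12 := formNonneg h hc 12 (h.rTMMS.sub (hI2.mul (rfs h D.M))) rfl
  have n13 := formNonneg h hc 13 (h.rTMES.sub (haII.mul (rfs h D.y0))) rfl
  have n14 := formNonneg h hc 14 ((haII.mul (rfs h D.y1)).sub h.rTMES) rfl
  have n15 := formNonneg h hc 15 ((((hcab.mul (((h8.mul hle).add (h4.mul hlm)).sub
      ((h8.mul hS1).mul hgg))).sub
    (((h4.mul hS1).mul hht).mul ((h.rhM.mul (rfs h D.PM)).add (rfs h D.HH)))).sub hZ).sub
      (hu3.mul (rfs h D.al))) rfl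
  have n16 := formNonneg h hc 16 ((((hcab.mul ((h4.mul hlm).add ((h16.mul h.rI).mul hgg))).add
    (((h8.mul h.rI).mul hht).mul ((h.rhM.mul (rfs h D.PM)).sub (rfs h D.HH)))).sub hZ).sub
      (hu3.mul (rfs h D.ml))) rfl
  have n17 := formNonneg h hc 17 (((((h8.mul hcab).mul (h.two'.add h.rdv)).mul hQ).mul
    h.rLGGS).sub (hu3.mul (rfs h D.gl))) rfl
  have n18 := formNonneg h hc 18 (((((h.rR.mul h.ra).mul h.rI).mul h.rI).mul (rfs h D.z)).add
    (((h8.mul h.rb).mul h.rb).mul h.rLLGS)) rfl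
  have n19 := formNonneg h hc 19 (hEG.sub (hu3.mul (rfs h D.L0))) rfl
  have n20 := formNonneg h hc 20 ((hu3.mul (rfs h D.L1)).sub hEG) rfl
  simp only [pForm, dv_eq h, show (pNum (x 0) (iVal P x) (x 2) (tauVal P x) (xiVal P θ)).c =
    x 0 * pB (x 0) (iVal P x) from rfl]
    at n0 n1 n2 n3 n4 n5 n6 n7 n8 n9 n10 n11 n12 n13 n14 n15 n16 n17 n18 n19 n20
  refine ⟨⟨?_, ?_⟩, abs_le.2 ⟨?_, ?_⟩, abs_le.2 ⟨?_, ?_⟩, ⟨?_, ?_⟩, abs_le.2 ⟨?_, ?_⟩, ⟨?_, ?_⟩,
    ?_, ⟨?_, ?_⟩, ?_, ?_, ?_, ?_, ⟨?_, ?_⟩⟩ <;>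
    simp only [bdVal, show (pNum (x 0) (iVal P x) (x 2) (tauVal P x) (xiVal P θ)).c =
      x 0 * pB (x 0) (iVal P x) from rfl] <;>
    linarith

/-- **The signs at a point where the checks pass.** -/
theorem signs_of_checks (h : Pt P x θ) (hc : CheckOk P D x) (hcQ : 0 ≤ P.cQ.eval x)
    (hT0 : 0 ≤ x 3) (hT1 : x 3 ≤ 1) (hwl : 0 < wlVal P x) (hI20 : iVal P x ≤ 1 / 20)
    (ha : x 0 ≤ 5 / 16) :
    ClosedGen.SignsMult (x 0) (pD (x 0) (iVal P x)) (pV (x 0) (iVal P x) (x 2) (tauVal P x))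
      (pG (x 0) (iVal P x) (x 2) (tauVal P x) (xiVal P θ))
      (pW (x 0) (iVal P x) (x 2) (xiVal P θ))
      (pW1 (x 0) (iVal P x) (x 2) (tauVal P x) (xiVal P θ)) (pR (iVal P x) (x 2))
      (pNum (x 0) (iVal P x) (x 2) (tauVal P x) (xiVal P θ)) := by
  set I := iVal P x with hIdef
  set τ := tauVal P x with hτdef
  have ha0 := h.a_pos
  have hI : 0 < I := h.I_pos
  have hb : 0 < pB (x 0) I := h.b_pos
  have hd : 0 < pD (x 0) I := h.d_pos
  have hS : 0 < 1 - 2 * I := h.S_pos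
  have hK : 0 ≤ P.cQ.eval x / P.cD * (x 2 * (x 0 + 2 * I)) :=
    mul_nonneg (div_nonneg hcQ (Nat.cast_nonneg _)) (mul_nonneg h.w_pos.le (by linarith))
  have hτ0 : 0 ≤ x 2 * τ := by
    rw [hτdef, tauVal, ← hIdef]
    have := mul_nonneg hK hT0; linarith
  have hτ1 : x 2 * τ ≤ 1 - wlVal P x := by
    rw [hτdef, tauVal, wlVal, ← hIdef]
    have := mul_le_mul_of_nonneg_left hT1 hK; linarith
  have hv : 0 < pV (x 0) I (x 2) τ := by
    have : 0 < 1 - x 2 * τ := by linarith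
    unfold pV; positivity
  have hνeq : pV (x 0) I (x 2) τ / I * ((1 - 2 * I) * pD (x 0) I) = 2 * (1 - x 2 * τ) := by
    unfold pV; field_simp
  have hq1 : pQ I (x 2) τ ≤ 1 := by
    have := mul_nonneg hI.le hτ0; unfold pQ; linarith
  have hq : 0 < pQ I (x 2) τ := h.q_pos
  have hN : 0 < (pQ I (x 2) τ + (1 - 2 * I)) * pB (x 0) I -
      (1 - 2 * I) * (1 - x 2) * pQ I (x 2) τ := by
    have e : (pQ I (x 2) τ + (1 - 2 * I)) * pB (x 0) I - (1 - 2 * I) * (1 - x 2) * pQ I (x 2) τ =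
        (1 - 2 * I) * pB (x 0) I - pQ I (x 2) τ * x 0 + pQ I (x 2) τ * x 2 * (1 - 2 * I) := by
      unfold pB; ring
    have h2 : (9 / 10) * (47 / 80) ≤ (1 - 2 * I) * pB (x 0) I :=
      mul_le_mul (by linarith) (by unfold pB; linarith) (by norm_num) hS.le
    have h3 : pQ I (x 2) τ * x 0 ≤ 1 * (5 / 16) := mul_le_mul hq1 ha ha0.le (by norm_num)
    have h4 : 0 ≤ pQ I (x 2) τ * x 2 * (1 - 2 * I) :=
      mul_nonneg (mul_nonneg hq.le h.w_pos.le) hS.le
    rw [e]; linarith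
  have hg : 0 < pG (x 0) I (x 2) τ (xiVal P θ) := by
    have hD := h.Dn_pos
    have hE := h.E_pos
    rw [← hIdef] at hD hE
    rw [← hτdef] at hD
    unfold pG; positivity
  refine signsNu_of_bounds (S := 1 - 2 * I) (b := pB (x 0) I) (wl := wlVal P x)
    (B := bdVal P D x) ha0 hI hd (by unfold pB pD; ring) (by unfold pD; ring) rfl hS hv hg rfl hwl
    ?_ ?_ ?_ (bdOk h hc hwl) (rowOk h hc)
  · rw [div_le_iff₀ (by positivity), hνeq]; linarith
  · rw [hνeq]; linarith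
  · have e : pD (x 0) I * pV (x 0) I (x 2) τ * (1 - 2 * I) = 2 * I * (1 - x 2 * τ) := by
      unfold pV; field_simp
    have := mul_nonneg hI.le hτ0
    linarith

end Vale.Agent.P100.Calib.EndAll
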