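import Vale.Agent.P100.Calib.SlabAllStabExpr

/-!
# The numerators of the exit band at the end of the tail

`c` is a hundred times the coefficient of the band `H (b - u a) = 1 - I w c / d`, `w = 1 - u`;
everything is cleared by `100 d (b - u a)`.
-/

namespace Vale.Agent.P100.Calib.Band.AllLow

open Pack

local instance allEndAdd : Add Pack.Ex := ⟨Ex.add⟩
local instance allEndSub : Sub Pack.Ex := ⟨Ex.sub⟩
local instance allEndMul : Mul Pack.Ex := ⟨Ex.mul⟩

/-- `1 - u`. -/
def eEndW : Pack.Ex := eN 1 - eU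

/-- The constant part of `c`. -/
def eEndC0 (I a : Pack.Ex) : Pack.Ex :=
  eN 200 + eN 230 * a + eN 1600 * (a * a * a) +
    I * (eN 520 + eN 700 * a + eN 33000 * (a * a * a) + eN 50000 * (a * (a * a * a)))

/-- The linear part of `c`. -/
def eEndC1 (I a : Pack.Ex) : Pack.Ex :=
  eN 3000 * (a * a) + eN 5700 * (a * a * a) + eN 2100 * I + eN 500000 * (I * (a * a * a)) +
    eN 16000000 * (I * (a * (a * (a * (a * a * a)))))

/-- The quadratic part of `c`. -/
def eEndC2 (I a : Pack.Ex) : Pack.Ex := eN 150000000 * (I * (a * (a * (a * (a * a * a)))))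

/-- `c`. -/
def eEndC (I a : Pack.Ex) : Pack.Ex :=
  eEndC0 I a - eEndC1 I a * eEndW + eEndC2 I a * (eEndW * eEndW)

/-- `c + w dc/dw`, the opposite of the derivative of `w c` in `u`. -/
def eEndCw (I a : Pack.Ex) : Pack.Ex :=
  eEndC I a - (eEndC1 I a - eN 2 * (eEndC2 I a * eEndW)) * eEndW

/-- The multiplier of the radial speed. -/
def eEndMu (I a : Pack.Ex) : Pack.Ex :=
  eN 295 + eN 100 * a + eN 700 * (a * a) + eN 25000 * (a * (a * (a * a * a))) +
    I * (eN 800 + eN 200000 * (a * (a * a * a))) +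
    eN 12000000 * (I * I * (a * (a * a * a))) +
    (eN 100 + eN 1600 * a + eN 52000 * (I * a) +
      eN 19000000 * (I * (a * (a * (a * (a * a * a)))) * (.var 1 * .var 1))) * eEndW

/-- The pole. -/
def eEndG (I a : Pack.Ex) : Pack.Ex := eN 100 * (eD I a * eW I a)

/-- The upper end. -/
def eEndTop (I a : Pack.Ex) : Pack.Ex := eN 100 * eD I a - I * eEndW * eEndC I a

/-- The lower end: the band `allStabLG` at `X = 24/25`. -/
def eEndBot (I a : Pack.Ex) : Pack.Ex :=
  eD I a * (eN 2500 + eStabK I a * (eN 2 * I * eN 24) + eN 25 * (I * (eN 450 * I - eN 413 +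
    eN 100 * (eU * (eStabL1 I a + eU * (eStabL2 I a + eU * eStabL3 a))))))

/-- The denominator of `qv` at `n/G`. -/
def eEndDen (n G I a : Pack.Ex) : Pack.Ex := (eN 2 + eDV I a) * G - eU * eD I a * n

/-- The numerator of `ev` at `n/G`. -/
def eEndEn (n G I a : Pack.Ex) : Pack.Ex :=
  (G - eU * eD I a * n) * eQn I a - eS I * eEndW * eB I a * eEndDen n G I a

/-- The numerator of the radial speed at `n/G`. -/
def eEndFlow (n G I a : Pack.Ex) : Pack.Ex :=
  eQn I a * n - eS I * (eN 1 - a * eV I) * eEndDen n G I a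

/-- The numerator of `fh` at `n/G`. -/
def eEndFh (n G I a : Pack.Ex) : Pack.Ex :=
  eN 0 - (G - eU * eD I a * n) * (eEndFlow n G I a - eS I * eV I * eEndDen n G I a) -
    n * eEndEn n G I a

/-- Minus the condition at `n/G`, with `k G = 100 k d (b - u a)`. -/
def eEndP (n G : Pack.Ex) (k : ℤ) (I a : Pack.Ex) : Pack.Ex :=
  eN 0 - (eN 100 * ((eN 0 - a * n - eN k * (I * eEndCw I a * eW I a)) * eU * eEndEn n G I a +
    eW I a * eEndFh n G I a) + eEndMu I a * eEndW * eEndFlow n G I a * G)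

/-- The condition at the upper end, less a monomial. -/
def eEndTopI : Pack.Ex :=
  eEndP (eEndTop (.var 2) (.var 3)) (eEndG (.var 2) (.var 3)) 1 (.var 2) (.var 3) -
    .var 2 * .var 2 * eEndW

/-- The condition at the upper end for `a ≤ 1/20`, in `(u, X, I/a, a)`, with a multiple of
`(1 - 2 I) d X - 1`. -/
def eEndTopS : Pack.Ex :=
  eEndP (eEndTop (.var 2 * .var 3) (.var 3)) (eEndG (.var 2 * .var 3) (.var 3)) 1
      (.var 2 * .var 3) (.var 3) -
    .var 2 * .var 3 * (.var 2 * .var 3) * eEndW +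
    .var 2 * .var 3 * eEndW * (eN 4000000 - eN 5900000 * eU + eN 2000000 * (eU * eU)) *
      (eN 1 - eN 20 * .var 3) *
      (.var 1 * eS (.var 2 * .var 3) * eD (.var 2 * .var 3) (.var 3) - eN 1)

/-- The condition at the lower end, less a monomial. -/
def eEndBotI : Pack.Ex :=
  eEndP (eEndBot (.var 2) (.var 3)) (eN 25 * eEndG (.var 2) (.var 3)) 25 (.var 2) (.var 3) -
    .var 2 * .var 2 * eEndW

/-- The condition at the lower end for `a ≤ 1/20`, in `(u, X, I/a, a)`. -/
def eEndBotS : Pack.Ex :=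
  eEndP (eEndBot (.var 2 * .var 3) (.var 3)) (eN 25 * eEndG (.var 2 * .var 3) (.var 3)) 25
      (.var 2 * .var 3) (.var 3) -
    .var 2 * .var 3 * (.var 2 * .var 3) * eEndW

/-- A box in thousandths, `X` in twenty-fifths. -/
def endBox (u₀ u₁ X₀ X₁ I₀ I₁ a₀ a₁ : ℤ) : ℕ → Chart
  | 0 => ⟨u₀, u₁, 1000, 1000⟩
  | 1 => ⟨X₀, X₁, 25, 25⟩
  | 2 => ⟨I₀, I₁, 1000, 1000⟩
  | _ => ⟨a₀, a₁, 1000, 1000⟩

end Vale.Agent.P100.Calib.Band.AllLow
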