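import Vale.Agent.P100.Pack.FastFour

/-!
# Fractions with numerators in four variables and a fifth split off

`Fn` is a fraction whose numerator is a list of expressions, the coefficients of `θ ^ k (1 - θ) ^ (n - k)`,
and whose denominator is a natural number times integer powers of given atoms. `Rep` says that a
fraction has a given real value at a point. If each coefficient passes `checkFour`, the value is
nonnegative.
-/

namespace Vale.Agent.P100.Calib.EndAll

open Pack

/-- The value of a coefficient list at `θ`. -/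
noncomputable def bv (x : ℕ → ℝ) (θ : ℝ) : List Ex → ℝ
  | [] => 0
  | c :: cs => c.eval x * (1 - θ) ^ cs.length + θ * bv x θ cs

/-- Sum of two lists, the shorter one extended by zeros. -/
def addPad : List Ex → List Ex → List Ex
  | [], q => q
  | p :: ps, [] => p :: ps
  | p :: ps, q :: qs => .add p q :: addPad ps qs

/-- `p` plus `q` shifted by one place. -/
def addShift : List Ex → List Ex → List Ex
  | [], _ => []
  | p :: ps, q => p :: addPad ps q

/-- A list times an expression. -/
def lscale (c : Ex) : List Ex → List Ex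
  | [] => []
  | p :: ps => .mul c p :: lscale c ps

/-- The product of two lists. -/
def conv : List Ex → List Ex → List Ex
  | [], _ => []
  | c :: cs, q => addShift (lscale c q) (conv cs q)

/-- A list times `(1 - θ) + θ`, `k` times. -/
def elev : ℕ → List Ex → List Ex
  | 0, p => p
  | k + 1, p => elev k (addShift p p)

/-- The sum of two lists. -/
def ladd (p q : List Ex) : List Ex :=
  addPad (elev (q.length - p.length) p) (elev (p.length - q.length) q)

/-- A list times a natural number. -/
def lnat (k : ℕ) (p : List Ex) : List Ex := if k = 1 then p else lscale (.num k) p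

/-- A power of a list. -/
def lpow : List Ex → ℕ → List Ex
  | _, 0 => [.num 1]
  | p, 1 => p
  | p, k + 2 => conv (lpow p (k + 1)) p

section
variable {x : ℕ → ℝ} {θ : ℝ}

theorem addPad_length : ∀ p q : List Ex, (addPad p q).length = max p.length q.length
  | [], q => by simp [addPad]
  | p :: ps, [] => by simp [addPad]
  | p :: ps, q :: qs => by simp [addPad, addPad_length ps qs]

theorem bv_addPad : ∀ p q : List Ex, bv x θ (addPad p q) =
    bv x θ p * (1 - θ) ^ (q.length - p.length) + bv x θ q * (1 - θ) ^ (p.length - q.length)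
  | [], q => by simp [addPad, bv]
  | p :: ps, [] => by simp [addPad, bv]
  | p :: ps, q :: qs => by
    simp only [addPad, bv, Ex.eval, bv_addPad ps qs, List.length_cons, addPad_length,
      Nat.add_sub_add_right]
    rcases le_total ps.length qs.length with h | h
    · obtain ⟨k, hk⟩ := Nat.exists_eq_add_of_le h
      simp only [hk, max_eq_right (Nat.le_add_right ps.length k), Nat.add_sub_cancel_left,
        Nat.sub_eq_zero_of_le (Nat.le_add_right ps.length k), pow_zero, mul_one, pow_add]
      ring
    · obtain ⟨k, hk⟩ := Nat.exists_eq_add_of_le h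
      simp only [hk, max_eq_left (Nat.le_add_right qs.length k), Nat.add_sub_cancel_left,
        Nat.sub_eq_zero_of_le (Nat.le_add_right qs.length k), pow_zero, mul_one, pow_add]
      ring

theorem lscale_length (c : Ex) : ∀ p : List Ex, (lscale c p).length = p.length
  | [] => rfl
  | p :: ps => by simp [lscale, lscale_length c ps]

theorem bv_lscale (c : Ex) : ∀ p : List Ex, bv x θ (lscale c p) = c.eval x * bv x θ p
  | [] => by simp [lscale, bv]
  | p :: ps => by
    simp only [lscale, bv, Ex.eval, bv_lscale c ps, lscale_length]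
    ring

theorem conv_length {q : List Ex} (hq : q ≠ []) : ∀ p : List Ex, p ≠ [] →
    (conv p q).length + 1 = p.length + q.length
  | [], h => absurd rfl h
  | [c], _ => by
    cases q with
    | nil => exact absurd rfl hq
    | cons b bs => simp [conv, lscale, addShift, addPad_length, lscale_length]; omega
  | c :: d :: cs, _ => by
    have := conv_length hq (d :: cs) (List.cons_ne_nil _ _)
    cases q with
    | nil => exact absurd rfl hq
    | cons b bs =>
      simp only [List.length_cons] at this
      rw [conv, lscale, addShift, List.length_cons, addPad_length, lscale_length]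
      simp only [List.length_cons]
      omega

theorem bv_conv : ∀ p q : List Ex, bv x θ (conv p q) = bv x θ p * bv x θ q
  | [], q => by simp [conv, bv]
  | c :: cs, [] => by simp [conv, lscale, addShift, bv]
  | [c], b :: bs => by
    simp [conv, lscale, addShift, bv, bv_addPad, Ex.eval, addPad_length, lscale_length, bv_lscale]
    ring
  | c :: d :: cs, b :: bs => by
    have hl := conv_length (List.cons_ne_nil b bs) (d :: cs) (List.cons_ne_nil _ _)
    simp only [List.length_cons] at hl
    rw [conv, lscale, addShift, bv, bv_addPad, bv_conv (d :: cs) (b :: bs), addPad_length,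
      lscale_length, bv_lscale]
    have e1 : (conv (d :: cs) (b :: bs)).length - bs.length = cs.length + 1 := by omega
    have e2 : bs.length - (conv (d :: cs) (b :: bs)).length = 0 := by omega
    have e3 : max bs.length (conv (d :: cs) (b :: bs)).length = bs.length + (cs.length + 1) := by
      omega
    simp only [e1, e2, e3, bv, Ex.eval, List.length_cons, pow_zero, pow_add]
    ring

theorem addShift_length {p : List Ex} (hp : p ≠ []) :
    (addShift p p).length = p.length + 1 := by
  cases p with
  | nil => exact absurd rfl hp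
  | cons a l => simp [addShift, addPad_length]

theorem bv_addShift (p : List Ex) : bv x θ (addShift p p) = bv x θ p := by
  cases p with
  | nil => rfl
  | cons a l =>
    simp only [addShift, bv, bv_addPad, addPad_length, List.length_cons]
    rw [max_eq_right (Nat.le_succ _), Nat.sub_eq_zero_of_le (Nat.le_succ _), pow_zero,
      Nat.succ_sub (le_refl _), Nat.sub_self, pow_one, pow_succ]
    ring

theorem bv_elev : ∀ k p, bv x θ (elev k p) = bv x θ p
  | 0, _ => rfl
  | k + 1, p => by rw [elev, bv_elev k, bv_addShift]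

theorem elev_length : ∀ (k : ℕ) (p : List Ex), p ≠ [] → (elev k p).length = p.length + k
  | 0, _, _ => by simp [elev]
  | k + 1, p, hp => by
    have h := addShift_length hp
    rw [elev, elev_length k _ (by intro e; simp [e] at h), h]; omega

theorem bv_ladd (p q : List Ex) : bv x θ (ladd p q) = bv x θ p + bv x θ q := by
  rcases eq_or_ne p [] with rfl | hp
  · simp [ladd, bv, addPad, bv_elev, show ∀ k, elev k ([] : List Ex) = [] from fun k => by
      induction k <;> simp_all [elev, addShift]]
  rcases eq_or_ne q [] with rfl | hq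
  · simp [ladd, bv, bv_addPad, bv_elev, show ∀ k, elev k ([] : List Ex) = [] from fun k => by
      induction k <;> simp_all [elev, addShift]]
  rw [ladd, bv_addPad, bv_elev, bv_elev, elev_length _ _ hp, elev_length _ _ hq]
  have e1 : q.length + (p.length - q.length) - (p.length + (q.length - p.length)) = 0 := by omega
  have e2 : p.length + (q.length - p.length) - (q.length + (p.length - q.length)) = 0 := by omega
  simp [e1, e2]

theorem bv_lnat (k : ℕ) (p : List Ex) : bv x θ (lnat k p) = k * bv x θ p := by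
  unfold lnat
  split <;> simp_all [bv_lscale, Ex.eval]

theorem bv_lpow : ∀ (p : List Ex) (k : ℕ), bv x θ (lpow p k) = bv x θ p ^ k
  | p, 0 => by simp [lpow, bv, Ex.eval]
  | p, 1 => by simp [lpow]
  | p, k + 2 => by rw [lpow, bv_conv, bv_lpow p (k + 1), pow_succ _ (k + 1)]

theorem bv_nonneg (h0 : 0 ≤ θ) (h1 : θ ≤ 1) : ∀ p : List Ex,
    (∀ c ∈ p, 0 ≤ c.eval x) → 0 ≤ bv x θ p
  | [], _ => le_rfl
  | c :: cs, h => by
    have := bv_nonneg h0 h1 cs fun d hd => h d (List.mem_cons_of_mem c hd)
    have h2 := h c List.mem_cons_self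
    have : 0 ≤ 1 - θ := by linarith
    rw [bv]; positivity

end

/-- Sum of exponent lists, the shorter one extended by zeros. -/
def eAdd : List ℤ → List ℤ → List ℤ
  | [], q => q
  | p :: ps, [] => p :: ps
  | p :: ps, q :: qs => (p + q) :: eAdd ps qs

/-- The positive parts. -/
def ePos : List ℤ → List ℤ
  | [] => []
  | q :: qs => max 0 q :: ePos qs

/-- Maximum of exponent lists, the shorter one extended by zeros. -/
def eMax : List ℤ → List ℤ → List ℤ
  | [], q => ePos q
  | p :: ps, [] => max 0 p :: ePos ps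
  | p :: ps, q :: qs => max p q :: eMax ps qs

/-- The exponent list of one atom. -/
def eOne : ℕ → ℤ → List ℤ
  | 0, k => [k]
  | i + 1, k => 0 :: eOne i k

/-- `k` times an exponent list. -/
def eMul (k : ℕ) : List ℤ → List ℤ
  | [] => []
  | p :: ps => (k * p) :: eMul k ps

/-- The product of the atoms to the powers `e`. -/
noncomputable def apow : List ℝ → List ℤ → ℝ
  | [], _ => 1
  | a :: as, e => a ^ e.headD 0 * apow as e.tail

/-- Lift a numerator from the exponents `e` to `m`. -/
def lift : List (List Ex) → List ℤ → List ℤ → List Ex → List Ex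
  | [], _, _, p => p
  | A :: As, m, e, p =>
    let k := (m.headD 0 - e.headD 0).toNat
    let r := lift As m.tail e.tail p
    if k = 0 then r else conv (lpow A k) r

section
variable {as : List ℝ}

theorem apow_nil : ∀ as : List ℝ, apow as [] = 1
  | [] => rfl
  | a :: as => by simp [apow, apow_nil as]

theorem apow_pos : ∀ {as : List ℝ}, (∀ a ∈ as, 0 < a) → ∀ e, 0 < apow as e
  | [], _, _ => one_pos
  | a :: as, h, e => mul_pos (zpow_pos (h a List.mem_cons_self) _)
      (apow_pos (fun b hb => h b (List.mem_cons_of_mem a hb)) _)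

theorem apow_add : ∀ {as : List ℝ}, (∀ a ∈ as, 0 < a) → ∀ e f,
    apow as (eAdd e f) = apow as e * apow as f
  | [], _, _, _ => by simp [apow]
  | a :: as, h, e, f => by
    have ih := apow_add (fun b hb => h b (List.mem_cons_of_mem a hb)) e.tail f.tail
    cases e <;> cases f <;>
      simp_all [eAdd, apow, apow_nil, zpow_add₀ (h a List.mem_cons_self).ne'] <;> ring

theorem apow_one : ∀ {as : List ℝ} (i : ℕ) (k : ℤ), i < as.length →
    apow as (eOne i k) = as.getD i 1 ^ k
  | [], i, _, h => absurd h (Nat.not_lt_zero i)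
  | a :: as, 0, k, _ => by simp [eOne, apow, apow_nil]
  | a :: as, i + 1, k, h => by
    simp [eOne, apow, apow_one (as := as) i k (Nat.lt_of_succ_lt_succ h)]

theorem apow_mul : ∀ {as : List ℝ} (k : ℕ) (e : List ℤ), apow as (eMul k e) = apow as e ^ k
  | [], k, e => by simp [apow]
  | a :: as, k, [] => by simp [eMul, apow, apow_nil]
  | a :: as, k, e :: es => by
    have hz : (a ^ e) ^ k = a ^ ((k : ℤ) * e) := by rw [← zpow_natCast, ← zpow_mul, mul_comm]
    simp [eMul, apow, apow_mul (as := as) k es, mul_pow, hz]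

/-- `m` is above `e` at every place of the atoms. -/
def eLe : ℕ → List ℤ → List ℤ → Prop
  | 0, _, _ => True
  | n + 1, e, m => e.headD 0 ≤ m.headD 0 ∧ eLe n e.tail m.tail

theorem eLe_pos : ∀ (n : ℕ) (e : List ℤ), eLe n [] (ePos e) ∧ eLe n e (ePos e)
  | 0, _ => ⟨trivial, trivial⟩
  | n + 1, [] => ⟨⟨le_rfl, by simpa [ePos] using (eLe_pos n []).1⟩, le_rfl,
      by simpa [ePos] using (eLe_pos n []).2⟩
  | n + 1, q :: qs => ⟨⟨by simp [ePos], by simpa [ePos] using (eLe_pos n qs).1⟩,
      by simp [ePos], by simpa [ePos] using (eLe_pos n qs).2⟩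

theorem eLe_max : ∀ (n : ℕ) (e f : List ℤ), eLe n e (eMax e f) ∧ eLe n f (eMax e f)
  | 0, _, _ => ⟨trivial, trivial⟩
  | n + 1, [], q => eLe_pos (n + 1) q
  | n + 1, p :: ps, [] => ⟨⟨by simp [eMax], by simpa [eMax] using (eLe_pos n ps).2⟩,
      by simp [eMax], by simpa [eMax] using (eLe_pos n ps).1⟩
  | n + 1, p :: ps, q :: qs =>
    ⟨⟨by simp [eMax], by simpa [eMax] using (eLe_max n ps qs).1⟩,
      by simp [eMax], by simpa [eMax] using (eLe_max n ps qs).2⟩

variable {x : ℕ → ℝ} {θ : ℝ}

theorem bv_lift : ∀ (A : List (List Ex)) (m e : List ℤ) (p : List Ex),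
    (∀ l ∈ A, 0 < bv x θ l) → eLe A.length e m →
    bv x θ (lift A m e p) * apow (A.map (bv x θ)) e = bv x θ p * apow (A.map (bv x θ)) m
  | [], m, e, p, _, _ => by simp [lift, apow]
  | A :: As, m, e, p, h, hle => by
    obtain ⟨h0, ht⟩ : e.headD 0 ≤ m.headD 0 ∧ eLe As.length e.tail m.tail := hle
    have hpos : 0 < bv x θ A := h A List.mem_cons_self
    have ih := bv_lift As m.tail e.tail p (fun l hl => h l (List.mem_cons_of_mem A hl)) ht
    have hk : bv x θ A ^ ((m.headD 0 - e.headD 0).toNat) * bv x θ A ^ e.headD 0 =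
        bv x θ A ^ m.headD 0 := by
      rw [← zpow_natCast, Int.toNat_of_nonneg (by linarith), ← zpow_add₀ hpos.ne', sub_add_cancel]
    simp only [lift, List.map_cons, apow, ← hk]
    split
    next h2 => simp only [h2, pow_zero]; linear_combination bv x θ A ^ e.headD 0 * ih
    next h2 =>
      rw [bv_conv, bv_lpow]
      linear_combination bv x θ A ^ (m.headD 0 - e.headD 0).toNat * bv x θ A ^ e.headD 0 * ih

end

/-- A fraction: the numerator, the natural denominator, the exponents of the atoms below. -/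
structure Fn where
  /-- the numerator -/
  num : List Ex
  /-- the natural factor of the denominator -/
  den : ℕ
  /-- the exponents of the atoms in the denominator -/
  ex : List ℤ

namespace Fn

/-- An integer. -/
def int (k : ℤ) : Fn := ⟨[.num k], 1, []⟩

/-- A polynomial. -/
def poly (p : List Ex) : Fn := ⟨p, 1, []⟩

/-- The atom `i` to an integer power, in the denominator. -/
def inv (i : ℕ) (k : ℤ) : Fn := ⟨[.num 1], 1, eOne i k⟩

/-- Division by a natural number. -/
def divNat (F : Fn) (k : ℕ) : Fn := ⟨F.num, F.den * k, F.ex⟩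

/-- Minus. -/
def neg (F : Fn) : Fn := ⟨lscale (.num (-1)) F.num, F.den, F.ex⟩

/-- Product. -/
def mul (F G : Fn) : Fn := ⟨conv F.num G.num, F.den * G.den, eAdd F.ex G.ex⟩

/-- Power. -/
def pow (F : Fn) (k : ℕ) : Fn := ⟨lpow F.num k, F.den ^ k, eMul k F.ex⟩

/-- Sum, over the atoms `A`. -/
def add (A : List (List Ex)) (F G : Fn) : Fn :=
  let g := Nat.gcd F.den G.den
  ⟨ladd (lnat (G.den / g) (lift A (eMax F.ex G.ex) F.ex F.num))
      (lnat (F.den / g) (lift A (eMax F.ex G.ex) G.ex G.num)),
    F.den * (G.den / g), eMax F.ex G.ex⟩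

/-- Difference, over the atoms `A`. -/
def sub (A : List (List Ex)) (F G : Fn) : Fn := add A F (neg G)

end Fn

/-- The atoms are positive at the point. -/
def AtomsPos (A : List (List Ex)) (x : ℕ → ℝ) (θ : ℝ) : Prop := ∀ l ∈ A, 0 < bv x θ l

/-- The fraction `F` has the value `r` at the point. -/
def Rep (A : List (List Ex)) (x : ℕ → ℝ) (θ : ℝ) (F : Fn) (r : ℝ) : Prop :=
  AtomsPos A x θ ∧ 0 < F.den ∧ r * (F.den * apow (A.map (bv x θ)) F.ex) = bv x θ F.num

namespace Rep

variable {A : List (List Ex)} {x : ℕ → ℝ} {θ : ℝ} {F G : Fn} {r s : ℝ}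

theorem apos (h : AtomsPos A x θ) : ∀ a ∈ A.map (bv x θ), 0 < a := fun a ha => by
  obtain ⟨l, hl, rfl⟩ := List.mem_map.1 ha
  exact h l hl

theorem poly (h : AtomsPos A x θ) (p : List Ex) : Rep A x θ (Fn.poly p) (bv x θ p) :=
  ⟨h, one_pos, by simp [Fn.poly, apow_nil]⟩

theorem int (h : AtomsPos A x θ) (k : ℤ) : Rep A x θ (Fn.int k) k :=
  ⟨h, one_pos, by simp [Fn.int, apow_nil, bv, Ex.eval]⟩

theorem natLit (h : AtomsPos A x θ) (k : ℕ) [k.AtLeastTwo] :
    Rep A x θ (Fn.int (OfNat.ofNat k)) (OfNat.ofNat k : ℝ) := by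
  simpa using int h (OfNat.ofNat k : ℤ)

theorem lit_one (h : AtomsPos A x θ) : Rep A x θ (Fn.int 1) (1 : ℝ) := by simpa using int h 1

theorem inv (h : AtomsPos A x θ) (i : ℕ) (k : ℤ) {l : List Ex} (hl : A[i]? = some l) :
    Rep A x θ (Fn.inv i k) (1 / bv x θ l ^ k) := by
  obtain ⟨hi, e⟩ := List.getElem?_eq_some_iff.1 hl
  refine ⟨h, one_pos, ?_⟩
  have hp : 0 < bv x θ l := h l (e ▸ List.getElem_mem hi)
  have ea : apow (A.map (bv x θ)) (eOne i k) = bv x θ l ^ k := by
    rw [apow_one i k (by simpa using hi)]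
    simp [List.getD_eq_getElem?_getD, hl]
  simp [Fn.inv, ea, bv, Ex.eval, (zpow_pos hp k).ne']

theorem divNat (h : Rep A x θ F r) {k : ℕ} (hk : 0 < k) :
    Rep A x θ (F.divNat k) (r / k) := by
  obtain ⟨ha, hd, he⟩ := h
  refine ⟨ha, Nat.mul_pos hd hk, ?_⟩
  have : (k : ℝ) ≠ 0 := by positivity
  simp only [Fn.divNat, Nat.cast_mul]
  rw [← he]; field_simp

theorem divLit (h : Rep A x θ F r) (k : ℕ) [k.AtLeastTwo] :
    Rep A x θ (F.divNat (OfNat.ofNat k)) (r / (OfNat.ofNat k : ℝ)) := by
  have := Nat.AtLeastTwo.prop (n := k)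
  simpa using h.divNat (k := OfNat.ofNat k) (by show 0 < k; omega)

theorem neg (h : Rep A x θ F r) : Rep A x θ F.neg (-r) := by
  obtain ⟨ha, hd, he⟩ := h
  refine ⟨ha, hd, ?_⟩
  simp only [Fn.neg, bv_lscale, Ex.eval]
  rw [← he]; push_cast; ring

theorem mul (h : Rep A x θ F r) (g : Rep A x θ G s) : Rep A x θ (F.mul G) (r * s) := by
  obtain ⟨ha, hd, he⟩ := h
  obtain ⟨-, gd, ge⟩ := g
  refine ⟨ha, Nat.mul_pos hd gd, ?_⟩
  simp only [Fn.mul, bv_conv, apow_add (apos ha), Nat.cast_mul, ← he, ← ge]
  ring

theorem pow (h : Rep A x θ F r) (k : ℕ) : Rep A x θ (F.pow k) (r ^ k) := by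
  obtain ⟨ha, hd, he⟩ := h
  refine ⟨ha, pow_pos hd k, ?_⟩
  simp only [Fn.pow, bv_lpow, apow_mul, Nat.cast_pow, ← he]
  ring

theorem add (h : Rep A x θ F r) (g : Rep A x θ G s) : Rep A x θ (Fn.add A F G) (r + s) := by
  obtain ⟨ha, hd, he⟩ := h
  obtain ⟨-, gd, ge⟩ := g
  have hg : 0 < Nat.gcd F.den G.den := Nat.gcd_pos_of_pos_left _ hd
  have hG : 0 < G.den / Nat.gcd F.den G.den :=
    Nat.div_pos (Nat.le_of_dvd gd (Nat.gcd_dvd_right _ _)) hg
  refine ⟨ha, Nat.mul_pos hd hG, ?_⟩
  simp only [Fn.add, bv_ladd, bv_lnat, Nat.cast_mul]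
  obtain ⟨l1, l2⟩ := eLe_max A.length F.ex G.ex
  have k1 := bv_lift (x := x) (θ := θ) A (eMax F.ex G.ex) F.ex F.num ha l1
  have k2 := bv_lift (x := x) (θ := θ) A (eMax F.ex G.ex) G.ex G.num ha l2
  rw [← he] at k1
  rw [← ge] at k2
  have p1 := apow_pos (apos ha) F.ex
  have p2 := apow_pos (apos ha) G.ex
  generalize apow (A.map (bv x θ)) (eMax F.ex G.ex) = M at *
  generalize bv x θ (lift A (eMax F.ex G.ex) F.ex F.num) = LF at *
  generalize bv x θ (lift A (eMax F.ex G.ex) G.ex G.num) = LG at *
  generalize apow (A.map (bv x θ)) F.ex = PF at *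
  generalize apow (A.map (bv x θ)) G.ex = PG at *
  have eF : LF = r * F.den * M := by
    refine mul_right_cancel₀ p1.ne' ?_; linear_combination k1
  have eG : LG = s * G.den * M := by
    refine mul_right_cancel₀ p2.ne' ?_; linear_combination k2
  have hc : ((F.den / Nat.gcd F.den G.den : ℕ) : ℝ) * G.den =
      F.den * ((G.den / Nat.gcd F.den G.den : ℕ) : ℝ) := by
    rw [← Nat.cast_mul, ← Nat.cast_mul, Nat.div_mul_right_comm (Nat.gcd_dvd_left _ _),
      Nat.mul_div_assoc _ (Nat.gcd_dvd_right _ _)]
  rw [eF, eG]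
  linear_combination -(s * M) * hc

theorem sub (h : Rep A x θ F r) (g : Rep A x θ G s) : Rep A x θ (Fn.sub A F G) (r - s) := by
  rw [sub_eq_add_neg]; exact h.add g.neg

/-- The sign of the value from the signs of the coefficients. -/
theorem nonneg (h : Rep A x θ F r) (h0 : 0 ≤ θ) (h1 : θ ≤ 1) {n : ℕ} (hn : F.num.length = n)
    (hc : ∀ k < n, 0 ≤ (F.num.getD k (.num 0)).eval x) : 0 ≤ r := by
  obtain ⟨ha, hd, he⟩ := h
  have hb : 0 ≤ bv x θ F.num := by
    refine bv_nonneg h0 h1 _ fun c hm => ?_
    obtain ⟨k, hk, rfl⟩ := List.mem_iff_getElem.1 hm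
    simpa [List.getD_eq_getElem?_getD, List.getElem?_eq_getElem hk] using hc k (hn ▸ hk)
  rw [← he] at hb
  exact nonneg_of_mul_nonneg_left hb (mul_pos (Nat.cast_pos.2 hd) (apow_pos (apos ha) _))

end Rep

end Vale.Agent.P100.Calib.EndAll
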