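import Vale.Agent.P100.Calib.SlabAllEndPieces
import Vale.Agent.P100.Calib.SlabChartAll

/-!
# The closed signs at the end of the tail in every dimension from twenty on

On `39/40 ≤ u < 1`, for `n ≥ 20` and `(S - d)/2 ≤ 31/100`, the signs hold with a multiplier below
the curve of the tail and between the two bands of `H (b - u a)` at the end.
-/

set_option linter.unusedVariables false

namespace Vale.Agent.P100.Calib.EndAll

open Pack

local instance endMainAdd : Add Pack.Ex := ⟨Ex.add⟩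
local instance endMainSub : Sub Pack.Ex := ⟨Ex.sub⟩
local instance endMainMul : Mul Pack.Ex := ⟨Ex.mul⟩

/-- A hundred times the coefficient of the lower band at the end. -/
noncomputable def lowC (I a w : ℝ) : ℝ :=
  200 + 230 * a + 1600 * a ^ 3 + I * (520 + 700 * a + 33000 * a ^ 3 + 50000 * a ^ 4) -
    (3000 * a ^ 2 + 5700 * a ^ 3 + 2100 * I + 500000 * (I * a ^ 3) + 16000000 * (I * a ^ 6)) * w +
    150000000 * (I * a ^ 6) * w ^ 2

theorem lowC_le {I a w A : ℝ} (hI : 0 ≤ I) (hI20 : I ≤ 1 / 20) (ha : 0 ≤ a) (hA : a ≤ A)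
    (hw : 0 ≤ w) (hw40 : w ≤ 1 / 40) :
    lowC I a w ≤ 200 + 230 * A + 1600 * A ^ 3 +
      1 / 20 * (520 + 700 * A + 33000 * A ^ 3 + 50000 * A ^ 4) +
      150000000 * (1 / 20 * A ^ 6) * (1 / 40) ^ 2 := by
  have hA0 : 0 ≤ A := ha.trans hA
  have h1 : 0 ≤ (3000 * a ^ 2 + 5700 * a ^ 3 + 2100 * I + 500000 * (I * a ^ 3) +
      16000000 * (I * a ^ 6)) * w := by positivity
  have h2 : 200 + 230 * a + 1600 * a ^ 3 + I * (520 + 700 * a + 33000 * a ^ 3 + 50000 * a ^ 4) +
      150000000 * (I * a ^ 6) * w ^ 2 ≤ 200 + 230 * A + 1600 * A ^ 3 +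
      1 / 20 * (520 + 700 * A + 33000 * A ^ 3 + 50000 * A ^ 4) +
      150000000 * (1 / 20 * A ^ 6) * (1 / 40) ^ 2 := by gcongr
  unfold lowC
  linarith

/-- The point of the checks. -/
noncomputable def endPt (a t w T : ℝ) : ℕ → ℝ :=
  fun i => if i = 0 then a else if i = 1 then t else if i = 2 then w else T

/-- The signs in the coordinates `(a, I, w, τ, ξ)`. -/
def PSigns (a I w τ ξ : ℝ) : Prop :=
  ClosedGen.SignsMult a (pD a I) (pV a I w τ) (pG a I w τ ξ) (pW a I w ξ) (pW1 a I w τ ξ)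
    (pR I w) (pNum a I w τ ξ)

/-- The signs at a point of a piece. -/
theorem piece_signs {P : Par} {D : Sur} {ca : Chart} {m : ℤ}
    (ok : ∀ {x : ℕ → ℝ}, InEnd ca m x → CheckOk P D x) {a I w τ ξ t cq : ℝ}
    (hdet : 0 < (ca.c : ℝ) * ca.b - ca.a * ca.d) (hlo : (ca.a : ℝ) ≤ a * ca.c)
    (hhi : a * ca.d < ca.b) (hm : 0 < m) (ha0 : 0 < a) (ha : a ≤ 31 / 100) (hI : 0 < I)
    (hI20 : I ≤ 1 / 20) (hw : 0 < w) (hw40 : w ≤ 1 / 40) (ht : 0 < t) (htm : t * m ≤ 1)
    (hI' : cond P.low (a * t) t = I) (hcD : 0 < P.cD) (hx : P.xL < P.xU) (hxD : 0 < P.xD)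
    (hxi0 : (P.xL : ℝ) ≤ ξ * P.xD) (hxi1 : ξ * P.xD ≤ P.xU)
    (hcq : ∀ T, P.cQ.eval (endPt a t w T) / P.cD = cq) (hc0 : 0 < cq) (hc1 : cq ≤ 80)
    (hτ0 : 0 ≤ τ) (hτ : τ ≤ cq * (a + 2 * I)) : PSigns a I w τ ξ := by
  have hK : 0 < cq * (a + 2 * I) := mul_pos hc0 (by linarith)
  set T := τ / (cq * (a + 2 * I)) with hT
  have hT0 : 0 ≤ T := div_nonneg hτ0 hK.le
  have hT1 : T ≤ 1 := (div_le_one hK).2 hτ
  set x := endPt a t w T with hxd
  have e0 : x 0 = a := rfl
  have e1 : x 1 = t := rfl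
  have e2 : x 2 = w := rfl
  have e3 : x 3 = T := rfl
  have eI : iVal P x = I := hI'
  have eτ : tauVal P x = τ := by
    rw [tauVal, eI, hxd, hcq, ← hxd, e0, e3, hT]; field_simp
  have hxD' : (0 : ℝ) < P.xD := Nat.cast_pos.2 hxD
  have hxx : (0 : ℝ) < P.xU - P.xL := sub_pos.2 (Nat.cast_lt.2 hx)
  set θ := (ξ * P.xD - P.xL) / (P.xU - P.xL) with hθ
  have hθ0 : 0 ≤ θ := div_nonneg (by linarith) hxx.le
  have hθ1 : θ ≤ 1 := (div_le_one hxx).2 (by linarith)
  have eξ : xiVal P θ = ξ := by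
    rw [xiVal, div_eq_iff hxD'.ne']
    have : θ * (P.xU - P.xL) = ξ * P.xD - P.xL := by rw [hθ, div_mul_cancel₀ _ hxx.ne']
    linarith
  have hwK : w * (cq * (a + 2 * I)) ≤ 1 / 40 * (80 * (41 / 100)) :=
    mul_le_mul hw40 (mul_le_mul hc1 (by linarith) (by linarith) (by norm_num)) hK.le (by norm_num)
  have hwτ : w * τ ≤ w * (cq * (a + 2 * I)) := mul_le_mul_of_nonneg_left hτ hw.le
  have h : Pt P x θ :=
    { a_pos := ha0
      t_pos := ht
      S_pos := by rw [eI]; linarith
      d_pos := by rw [eI, e0]; linarith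
      w_pos := hw
      w_lt := by rw [e2]; linarith
      q_pos := by
        rw [eI, e2, eτ]
        have h1 : I * (w * τ) ≤ 1 / 20 * (1 / 40 * (80 * (41 / 100))) :=
          mul_le_mul hI20 (hwτ.trans hwK) (mul_nonneg hw.le hτ0) (by norm_num)
        linarith
      cD_pos := hcD
      xD_pos := hxD
      th_low := hθ0
      th_high := hθ1 }
  have hin : InEnd ca m x :=
    ⟨hdet, hlo, hhi, hm, ht.le, htm, hw.le, by rw [e2]; linarith, hT0, hT1⟩
  have hq : P.cQ.eval x / P.cD = cq := hcq T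
  have hwl : 0 < wlVal P x := by rw [wlVal, hq, eI, e0, e2]; linarith
  have hcQ : 0 ≤ P.cQ.eval x := by
    rw [div_eq_iff (Nat.cast_pos.2 hcD).ne'] at hq
    rw [hq]; positivity
  have r := signs_of_checks h (ok hin) hcQ hT0 hT1 hwl (by rw [eI]; exact hI20)
    (by rw [e0]; linarith)
  rw [eI, eτ, eξ, e0, e2] at r
  exact r

/-- The signs in the coordinates `(a, I, w, τ, ξ)` between the bands. -/
theorem pSigns_of {a I w τ ξ : ℝ} (ha : a ≤ 31 / 100) (hI : 0 < I) (hI20 : I ≤ 1 / 20)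
    (hIa : I ≤ a) (hw : 0 < w) (hw40 : w ≤ 1 / 40) (hτ0 : 0 ≤ τ)
    (hτ : τ * (9 / 10 - 2 * a) ≤ (13 / 2 - 11 / 5 * a + 450 * I * a ^ 2) * (a + 2 * I))
    (hξ0 : 2 - 39 / 20 * a ≤ ξ) (hξ1 : ξ ≤ lowC I a w / 100) : PSigns a I w τ ξ := by
  have ha0 : 0 < a := hI.trans_le hIa
  have hp : 0 < 9 / 10 - 2 * a := by linarith
  have hK : ∀ cq, 13 / 2 - 11 / 5 * a + 450 * I * a ^ 2 ≤ cq * (9 / 10 - 2 * a) →
      τ ≤ cq * (a + 2 * I) := fun cq h => le_of_mul_le_mul_right
    (by linarith [mul_le_mul_of_nonneg_right h (show 0 ≤ a + 2 * I by linarith)]) hp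
  have hc := fun A hA => lowC_le (A := A) hI.le hI20 ha0.le hA hw.le hw40
  rcases lt_or_ge a (1 / 20) with h1 | h1
  · refine piece_signs okA (t := I / a) (cq := 9) (by norm_num) (by push_cast; linarith)
      (by push_cast; linarith) (by norm_num) ha0 ha hI hI20 hw hw40 (div_pos hI ha0) ?_ ?_
      (by decide) (by decide) (by decide) ?_ ?_ (fun T => by simp [parA, Ex.eval]) (by norm_num)
      (by norm_num) hτ0 (hK 9 ?_)
    · push_cast; rw [mul_one]; exact (div_le_one ha0).2 hIa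
    · simp only [parA, cond_true]; field_simp
    · simp only [parA]; norm_num; linarith
    · have := hc (1 / 20) h1.le; simp only [parA]; norm_num at this ⊢; linarith
    · have h2 : I * a ^ 2 ≤ 1 / 20 * (1 / 20) ^ 2 := by gcongr
      linarith
  rcases lt_or_ge a (1 / 5) with h2 | h2
  · refine piece_signs okB (t := I) (cq := 8 + 30 * a) (by norm_num) (by push_cast; linarith)
      (by push_cast; linarith) (by norm_num) ha0 ha hI hI20 hw hw40 hI (by push_cast; linarith)
      rfl (by decide) (by decide) (by decide) ?_ ?_ (fun T => ?_) (by linarith) (by linarith)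
      hτ0 (hK _ ?_)
    · simp only [parB]; norm_num; linarith
    · have := hc (1 / 5) h2.le; simp only [parB]; norm_num at this ⊢; linarith
    · simp [parB, endPt, eval_add, eval_mul, eval_num, eval_var, Par.A]
    · have h3 : I * a ^ 2 ≤ 1 / 20 * a ^ 2 := mul_le_mul_of_nonneg_right hI20 (sq_nonneg a)
      have h4 : 0 ≤ (a - 1 / 20) * (1 / 5 - a) := mul_nonneg (by linarith) (by linarith)
      linarith
  rcases lt_or_ge a (27 / 100) with h3 | h3
  · refine piece_signs okC (t := I) (cq := 17 + 92 * I) (by norm_num) (by push_cast; linarith)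
      (by push_cast; linarith) (by norm_num) ha0 ha hI hI20 hw hw40 hI (by push_cast; linarith)
      rfl (by decide) (by decide) (by decide) ?_ ?_ (fun T => ?_) (by linarith) (by linarith)
      hτ0 (hK _ ?_)
    · simp only [parC]; norm_num; linarith
    · have := hc (27 / 100) h3.le; simp only [parC]; norm_num at this ⊢; linarith
    · simp [parC, endPt, eval_add, eval_mul, eval_num, eval_var]
    · have h4 : 0 ≤ I * ((a - 1 / 5) * (27 / 100 - a)) :=
        mul_nonneg hI.le (mul_nonneg (by linarith) (by linarith))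
      have h5 : 0 ≤ (27 / 100 - a) * I := mul_nonneg (by linarith) hI.le
      linarith
  · refine piece_signs okD (t := I) (cq := (106 + 775 * I) / 5) (by norm_num)
      (by push_cast; linarith) (by push_cast; linarith) (by norm_num) ha0 ha hI hI20 hw hw40 hI
      (by push_cast; linarith) rfl (by decide) (by decide) (by decide) ?_ ?_ (fun T => ?_)
      (by linarith) (by linarith) hτ0 (hK _ ?_)
    · simp only [parD]; norm_num; linarith
    · have := hc (31 / 100) ha; simp only [parD]; norm_num at this ⊢; linarith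
    · simp [parD, endPt, eval_add, eval_mul, eval_num, eval_var]
    · have h4 : 0 ≤ I * ((a - 27 / 100) * (31 / 100 - a)) :=
        mul_nonneg hI.le (mul_nonneg (by linarith) (by linarith))
      have h5 : 0 ≤ (31 / 100 - a) * I := mul_nonneg (by linarith) hI.le
      linarith

/-- The coordinates `(a, I, w, τ, ξ)` in the chart. -/
theorem chartSigns_of' {a I w τ ξ d S u v t : ℝ} (ha : 0 < a) (ha3 : a ≤ 31 / 100) (hI : 0 < I)
    (hI20 : I ≤ 1 / 20) (hd : d = pD a I) (hS : S = 1 - 2 * I) (hu : u = 1 - w) (hw : 0 < w)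
    (hw1 : w < 1) (hv : v = pV a I w τ) (hQ : 0 < pQ I w τ)
    (hDn : 0 < pDn a I w τ ξ)
    (hH : Closed.chH d S u v t = pH a I w ξ) (h : PSigns a I w τ ξ) :
    Closed.All.ChartSigns d S u v t := by
  subst hd hS hu hv
  have hS0 : 0 < 1 - 2 * I := by linarith
  have hd0 : 0 < pD a I := by unfold pD; linarith
  have hb : 0 < pB a I := by unfold pB; linarith
  have hu0 : 0 < 1 - w := by linarith
  have hE : 0 < pE a I w := by
    have := mul_pos ha hw; unfold pE; linarith
  have ea : (1 - 2 * I - pD a I) / 2 = a := by unfold pD; ring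
  have eb : (1 - 2 * I + pD a I) / 2 = pB a I := by unfold pD pB; ring
  have edv : pD a I * pV a I w τ = pDV I w τ := by unfold pV pDV; field_simp
  have hQ' : (1 - 2 * I) * (1 + pDV I w τ) = pQ I w τ := by
    unfold pQ pDV; field_simp; ring
  have h2 : 1 - (1 - 2 * I) = 2 * I := by ring
  have eH : pD a I * pH a I w ξ = 1 - w * pEta a I w ξ := by unfold pH; field_simp
  have eη : pEta a I w ξ * pE a I w = a + I * ξ := by unfold pEta; field_simp
  have ht := hH
  rw [Closed.chH, ea, eb] at ht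
  have eW : Closed.chW (pD a I) (1 - 2 * I) (1 - w) (pV a I w τ) t = pW a I w ξ := by
    rw [Closed.chW, hH, h2, pW]; ring
  have eR : Closed.chR (1 - 2 * I) (1 - w) = pR I w := by
    rw [Closed.chR, h2, pR]; field_simp
  have eRW : pR I w * pD a I * pW a I w ξ = (1 - w) * (1 - w * pEta a I w ξ) := by
    rw [← eH]; unfold pR pW; field_simp
  have eG : Closed.chG (pD a I) (1 - 2 * I) (1 - w) (pV a I w τ) t = pG a I w τ ξ := by
    have e : (1 - 2 * I) *
        (2 + pD a I * pV a I w τ - pD a I * (1 - w) * Closed.chH (pD a I) (1 - 2 * I) (1 - w)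
          (pV a I w τ) t) * pE a I w = pDn a I w τ ξ := by
      rw [hH, edv]
      unfold pDn
      linear_combination (pE a I w) * hQ' - (1 - 2 * I) * (1 - w) * (pE a I w) * eH +
        (1 - 2 * I) * (1 - w) * w * eη
    have e' : (1 - 2 * I) * ((2 + pD a I * pV a I w τ) * pB a I -
        (1 - 2 * I) * (1 - w) * (1 + pD a I * pV a I w τ)) =
        (pQ I w τ + (1 - 2 * I)) * pB a I - (1 - 2 * I) * (1 - w) * pQ I w τ := by
      rw [edv]; linear_combination (pB a I - (1 - 2 * I) * (1 - w)) * hQ'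
    have hden : 0 < 2 + pD a I * pV a I w τ - pD a I * (1 - w) *
        Closed.chH (pD a I) (1 - 2 * I) (1 - w) (pV a I w τ) t :=
      pos_of_mul_pos_right (pos_of_mul_pos_left (e ▸ hDn) hE.le) hS0.le
    rw [Closed.chG, eb, h2, pG, ← e', ← e]
    field_simp
    ring
  have eW1 : Closed.chW1 (pD a I) (1 - 2 * I) (1 - w) (pV a I w τ) t = pW1 a I w τ ξ := by
    have et : t = (pH a I w ξ - (1 - 2 * I) * (1 + (1 - a) * pV a I w τ) /
        (pB a I * (2 - (1 - 2 * I)))) / (1 - w) := by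
      rw [eq_div_iff hu0.ne']; linarith
    have h3 : (2 : ℝ) - (1 - 2 * I) = 1 + 2 * I := by ring
    rw [Closed.chW1, hH, ea, eb, h2, et, h3, pW1]
    rw [show (1 - a) * pD a I * pV a I w τ = (1 - a) * pDV I w τ by rw [← edv]; ring]
    have h4 : (1 + 2 * I) ≠ 0 := by linarith
    field_simp
    ring
  have eN : allNum a (pD a I) (pV a I w τ) (pW a I w ξ) (pR I w) = pNum a I w τ ξ := by
    have eab : a + pD a I = pB a I := by unfold pB pD; ring
    have eD : dimAll a (pD a I) = I⁻¹ := by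
      rw [dimAll, eab, show 1 - (a + pB a I) = 2 * I by unfold pB; ring]; field_simp
    have eh : 1 - pR I w * pD a I * pW a I w ξ = pH0 a I w ξ := by
      rw [eRW]; unfold pH0; ring
    have hk : AllN.kapAll I⁻¹ a = -(2 * a * (1 - I) / (1 - 2 * I) / (1 - 2 * I)) := by
      have e : 2 * (I⁻¹ * a) * (I⁻¹ - 1) / (I⁻¹ - 2) ^ 2 =
          2 * a * (1 - I) / (1 - 2 * I) / (1 - 2 * I) := by
        have : I⁻¹ - 2 ≠ 0 := by
          rw [show I⁻¹ - 2 = (1 - 2 * I) / I by field_simp]
          exact (div_pos hS0 hI).ne'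
        field_simp
      rw [AllN.kapAll, e, max_eq_right]
      rw [neg_le_neg_iff, div_div, div_le_one (mul_pos hS0 hS0)]
      have h5 : 2 * a * (1 - I) ≤ 2 * (31 / 100) * 1 :=
        mul_le_mul (by linarith) (by linarith) (by linarith) (by norm_num)
      have h6 : (9 / 10) * (9 / 10) ≤ (1 - 2 * I) * (1 - 2 * I) :=
        mul_le_mul (by linarith) (by linarith) (by norm_num) hS0.le
      linarith
    have hq1 : (1 : ℝ) + pDV I w τ ≠ 0 := by
      intro e; rw [e, mul_zero] at hQ'; linarith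
    have e7 : pH0 a I w ξ * (1 - 2 * I) / ((1 - 2 * I) * (1 + pDV I w τ)) =
        pH0 a I w ξ / (1 + pDV I w τ) := by
      rw [mul_comm (pH0 a I w ξ), mul_div_mul_left _ _ hS0.ne']
    simp only [allNum, eD, hk, eh, edv, eab, pNum, pG1, ← hQ', e7, ClosedGen.Num.mk.injEq]
    refine ⟨trivial, ?_, ?_, trivial, ?_, ?_, ?_⟩ <;> field_simp <;> ring
  unfold Closed.All.ChartSigns
  rw [ea, eG, eW, eW1, eR, eN]
  exact h

/-- The coordinates `(a, I, w, τ, ξ)` in the chart when `ξ ≥ 0`. -/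
theorem chartSigns_of {a I w τ ξ d S u v t : ℝ} (ha : 0 < a) (ha3 : a ≤ 31 / 100) (hI : 0 < I)
    (hI20 : I ≤ 1 / 20) (hd : d = pD a I) (hS : S = 1 - 2 * I) (hu : u = 1 - w) (hw : 0 < w)
    (hw1 : w < 1) (hv : v = pV a I w τ) (hξ : 0 ≤ ξ) (hQ : 0 < pQ I w τ)
    (hH : Closed.chH d S u v t = pH a I w ξ) (h : PSigns a I w τ ξ) :
    Closed.All.ChartSigns d S u v t := by
  refine chartSigns_of' ha ha3 hI hI20 hd hS hu hw hw1 hv hQ ?_ hH h
  have hS0 : 0 < 1 - 2 * I := by linarith
  have hd0 : 0 < pD a I := by unfold pD; linarith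
  have hu0 : 0 < 1 - w := by linarith
  have hE : 0 < pE a I w := by
    have := mul_pos ha hw; unfold pE; linarith
  unfold pDn; positivity

end Vale.Agent.P100.Calib.EndAll

namespace Vale.Agent.P100.Calib.Closed.All

open EndAll

/-- **The closed signs at the end of the tail in every dimension from twenty on.** -/
theorem signsTail_end {n : ℕ} {d S u v t : ℝ} (hn : 20 ≤ n) (hb : ChartBox n d S)
    (ha : (S - d) / 2 ≤ 31 / 100) (hu : 39 / 40 ≤ u) (hf : ChartFacts d S u v t)
    (hT : ((1 - S) - S * d * v) * (9 / 10 - (S - d)) <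
      (1 - S) * ((1 - u) * ((13 / 2 - 11 / 5 * ((S - d) / 2) +
          450 * ((1 - S) / 2) * ((S - d) / 2) ^ 2) * ((S - d) / 2 + (1 - S))) -
        42000 * ((1 - S) / 2) * ((S - d) / 2) ^ 4 * (1 - u) ^ 2))
    (hlow : 1 - (1 - S) / 2 * (1 - u) * lowC ((1 - S) / 2) ((S - d) / 2) (1 - u) / (100 * d) ≤
      chH d S u v t * ((S + d) / 2 - u * ((S - d) / 2)))
    (htop : chH d S u v t * ((S + d) / 2 - u * ((S - d) / 2)) ≤
      1 - (1 - S) / 2 * (1 - u) * (2 - 39 / 20 * ((S - d) / 2)) / d) :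
    ChartSigns d S u v t := by
  obtain ⟨hd, hS2, hS1, hone, hdim, -⟩ := hb
  have hn' : (20 : ℝ) ≤ n := by exact_mod_cast hn
  have h1S : 0 < 1 - S := by linarith
  have hI20 : (1 - S) / 2 ≤ 1 / 20 := by
    rw [lt_div_iff₀ h1S] at hdim
    have := mul_le_mul_of_nonneg_right hn' h1S.le
    linarith
  set I := (1 - S) / 2 with hI
  set a := (S - d) / 2 with haa
  set w := 1 - u with hw
  set H := chH d S u v t with hHd
  have hI0 : 0 < I := by linarith
  have hw0 : 0 < w := by linarith [hf.u_lt]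
  have hIa : I ≤ a := by linarith
  have ha0 : 0 < a := by linarith
  have hS : 0 < S := by linarith
  set ξ := (1 - H * ((S + d) / 2 - u * a)) * d / (I * w) with hξ
  have hIw : 0 < I * w := mul_pos hI0 hw0
  have hξe : ξ * (I * w) = (1 - H * ((S + d) / 2 - u * a)) * d := by
    rw [hξ, div_mul_cancel₀ _ hIw.ne']
  have hξ1 : ξ ≤ lowC I a w / 100 := by
    have h := mul_le_mul_of_nonneg_right hlow (show 0 ≤ 100 * d by linarith)
    rw [sub_mul, div_mul_cancel₀ _ (by linarith : 100 * d ≠ 0)] at h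
    refine le_of_mul_le_mul_right ?_ hIw
    linarith
  have hξ0 : 2 - 39 / 20 * a ≤ ξ := by
    have h := mul_le_mul_of_nonneg_right htop hd.le
    rw [sub_mul, div_mul_cancel₀ _ hd.ne'] at h
    refine le_of_mul_le_mul_right ?_ hIw
    linarith
  set τ := (1 - S * d * v / (2 * I)) / w with hτ
  have hkap : S * d * v < 2 * I := by linarith [hf.kap]
  have hτ0 : 0 ≤ τ := div_nonneg (sub_nonneg.2 ((div_le_one (by linarith)).2 hkap.le)) hw0.le
  have hτe : w * τ * (2 * I) = 2 * I - S * d * v := by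
    rw [hτ]; field_simp
  have hτ1 : τ * (9 / 10 - 2 * a) ≤ (13 / 2 - 11 / 5 * a + 450 * I * a ^ 2) * (a + 2 * I) := by
    have e1 : (1 - S - S * d * v) * (9 / 10 - (S - d)) =
        w * τ * (2 * I) * (9 / 10 - 2 * a) := by rw [hτe, hI, haa]; ring
    have e2 : (1 - S) = 2 * I := by rw [hI]; ring
    rw [e1, e2] at hT
    have h3 : 0 ≤ 2 * I * (42000 * I * a ^ 4 * w ^ 2) := by positivity
    refine le_of_mul_le_mul_left ?_ (mul_pos (mul_pos two_pos hI0) hw0)
    linarith
  have hw40 : w ≤ 1 / 40 := by linarith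
  have hd' : d = pD a I := by rw [pD, hI, haa]; ring
  have hS' : S = 1 - 2 * I := by rw [hI]; ring
  have hv : v = pV a I w τ := by
    rw [pV, ← hd', ← hS', show 2 * I * (1 - w * τ) = S * d * v by linarith]
    field_simp
  have hQ : 0 < pQ I w τ := by
    have : 0 < S * (1 + d * v) := by
      have := hf.v_crit
      have : 0 < v := pos_of_mul_pos_left (lt_trans (by linarith) this) (by
        have := mul_nonneg (show 0 ≤ S - d by linarith) h1S.le; linarith)
      positivity
    rw [pQ]; linarith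
  have hE : 0 < d + a * w := by positivity
  have hH : chH d S u v t = pH a I w ξ := by
    rw [pH, pEta, pE, ← hd', ← hHd]
    field_simp
    have : (S + d) / 2 - u * a = d + a * w := by rw [hw, haa]; ring
    rw [this] at hξe
    linear_combination hξe
  exact chartSigns_of ha0 ha hI0 hI20 hd' hS' (by rw [hw]; ring) hw0 (by linarith) hv
    (by linarith) hQ hH (pSigns_of ha hI0 hI20 hIa hw0 hw40 hτ0 hτ1 hξ0 hξ1)

end Vale.Agent.P100.Calib.Closed.All
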