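import Vale.Agent.P100.Calib.SlabAllEndCheckAI
import Vale.Agent.P100.Calib.SlabAllEndCheckAII
import Vale.Agent.P100.Calib.SlabAllEndCheckAIII
import Vale.Agent.P100.Calib.SlabAllEndCheckAIV
import Vale.Agent.P100.Calib.SlabAllEndCheckBI
import Vale.Agent.P100.Calib.SlabAllEndCheckBII
import Vale.Agent.P100.Calib.SlabAllEndCheckBIII
import Vale.Agent.P100.Calib.SlabAllEndCheckBIV
import Vale.Agent.P100.Calib.SlabAllEndCheckCI
import Vale.Agent.P100.Calib.SlabAllEndCheckCII
import Vale.Agent.P100.Calib.SlabAllEndCheckCIII
import Vale.Agent.P100.Calib.SlabAllEndCheckCIV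
import Vale.Agent.P100.Calib.SlabAllEndCheckDI
import Vale.Agent.P100.Calib.SlabAllEndCheckDII
import Vale.Agent.P100.Calib.SlabAllEndCheckDIII
import Vale.Agent.P100.Calib.SlabAllEndCheckDIV
import Vale.Agent.P100.Calib.SlabAllEndCore

/-!
# The four pieces: all checks pass on the closed boxes

The charts cover the boxes without their upper faces. By continuity the coefficients are
nonnegative on the upper faces of the last three variables as well.
-/

namespace Vale.Agent.P100.Calib.EndAll

open Pack

/-- The point with the last three variables scaled by `s`. -/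
def scalePt (x : ℕ → ℝ) (s : ℝ) : ℕ → ℝ := fun i => if i = 0 then x i else s * x i

theorem continuous_eval (x : ℕ → ℝ) : ∀ e : Ex, Continuous fun s : ℝ => e.eval (scalePt x s)
  | .var i => by simp only [Ex.eval, scalePt]; split_ifs <;> fun_prop
  | .num z => by simp only [Ex.eval]; fun_prop
  | .add e f => by simp only [Ex.eval]; exact (continuous_eval x e).add (continuous_eval x f)
  | .sub e f => by simp only [Ex.eval]; exact (continuous_eval x e).sub (continuous_eval x f)
  | .mul e f => by simp only [Ex.eval]; exact (continuous_eval x e).mul (continuous_eval x f)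
  | .pow e n => by simp only [Ex.eval]; exact (continuous_eval x e).pow n

theorem chart_point {C : Chart} {y : ℝ} (hdet : 0 < (C.c : ℝ) * C.b - C.a * C.d)
    (h0 : (C.a : ℝ) ≤ y * C.c) (h1 : y * C.d < C.b) :
    ∃ t : ℝ, 0 ≤ t ∧ 0 < (C.c : ℝ) + C.d * t ∧
      (C.a : ℝ) + C.b * t = y * ((C.c : ℝ) + C.d * t) := by
  have hp : 0 < (C.b : ℝ) - y * C.d := by linarith
  refine ⟨(y * C.c - C.a) / (C.b - y * C.d), div_nonneg (by linarith) hp.le, ?_, ?_⟩
  · have e : (C.c : ℝ) + C.d * ((y * C.c - C.a) / (C.b - y * C.d)) =
        ((C.c : ℝ) * C.b - C.a * C.d) / (C.b - y * C.d) := by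
      rw [eq_div_iff hp.ne', add_mul, mul_assoc, div_mul_cancel₀ _ hp.ne']; ring
    rw [e]; exact div_pos hdet hp
  · have h2 : (y * C.c - C.a) / (C.b - y * C.d) * (C.b - y * C.d) = y * C.c - C.a :=
      div_mul_cancel₀ _ hp.ne'
    linarith

/-- The closed box of a piece. -/
structure InEnd (ca : Chart) (m : ℤ) (x : ℕ → ℝ) : Prop where
  det : 0 < (ca.c : ℝ) * ca.b - ca.a * ca.d
  a_low : (ca.a : ℝ) ≤ x 0 * ca.c
  a_high : x 0 * ca.d < ca.b
  m_pos : 0 < m
  t_low : 0 ≤ x 1
  t_high : x 1 * m ≤ 1
  w_low : 0 ≤ x 2
  w_high : x 2 * 40 ≤ 1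
  T_low : 0 ≤ x 3
  T_high : x 3 ≤ 1

theorem InEnd.nonneg {ca : Chart} {m : ℤ} {x : ℕ → ℝ} (h : InEnd ca m x) {K a b c d : ℕ} {e : Ex}
    (hc : checkLong (endBox ca m) K a b c d e = true) : 0 ≤ e.eval x := by
  rw [checkLong_eq] at hc
  have key : ∀ s : ℝ, 0 < s → s < 1 → 0 ≤ e.eval (scalePt x s) := by
    intro s hs0 hs1
    refine nonneg_of_checkFour hc fun i hi => ?_
    have hm : (0 : ℝ) < m := Int.cast_pos.2 h.m_pos
    interval_cases i
    · exact chart_point h.det (by simpa [scalePt, endBox] using h.a_low)
        (by simpa [scalePt, endBox] using h.a_high)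
    all_goals
      refine chart_point (by simp [endBox]) ?_ ?_ <;> simp [scalePt, endBox]
    · exact mul_nonneg hs0.le h.t_low
    · have := mul_le_mul_of_nonneg_left h.t_high hs0.le; linarith
    · exact mul_nonneg hs0.le h.w_low
    · have := mul_le_mul_of_nonneg_left h.w_high hs0.le; linarith
    · exact mul_nonneg hs0.le h.T_low
    · have := mul_le_mul_of_nonneg_left h.T_high hs0.le; linarith
  have lim : Filter.Tendsto (fun s : ℝ => e.eval (scalePt x s)) (nhdsWithin 1 (Set.Iio 1))
      (nhds (e.eval (scalePt x 1))) :=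
    ((continuous_eval x e).tendsto 1).mono_left nhdsWithin_le_nhds
  have h1 : scalePt x 1 = x := by funext i; simp [scalePt]
  rw [h1] at lim
  refine ge_of_tendsto lim ?_
  filter_upwards [Ioo_mem_nhdsLT (zero_lt_one' ℝ)] with s hs using key s hs.1 hs.2

theorem coef_out {L : List Fn} {ns : List ℕ} (hl : L.map (fun F => F.num.length) = ns) {x : ℕ → ℝ}
    (i k : ℕ) (h : ns.getD i 0 ≤ k) : 0 ≤ (coef L i k).eval x := by
  subst hl
  have : coef L i k = .num 0 := by
    unfold coef
    by_cases hi : i < L.length
    · simp [List.getD_eq_getElem?_getD, List.getElem?_map, List.getElem?_eq_getElem hi] at h ⊢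
      simp [List.getElem?_eq_none h]
    · rcases k with _ | k <;>
        simp [List.getD_eq_getElem?_getD, List.getElem?_eq_none (le_of_not_gt hi), Fn.int]
  simp [this, Ex.eval]

theorem poly_out {L : List Ex} {n : ℕ} (hl : L.length = n) {x : ℕ → ℝ} (i : ℕ) (h : n ≤ i) :
    0 ≤ (L.getD i (.num 0)).eval x := by
  simp [List.getD_eq_getElem?_getD, List.getElem?_eq_none (hl ▸ h), Ex.eval]

/-- The checks of the piece A hold on its closed box. -/
theorem okA {x : ℕ → ℝ} (h : InEnd ⟨0, 1, 1, 20⟩ 1 x) : CheckOk parA surA x := by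
  have hl : (parA.forms surA).map (fun F => F.num.length) =
      [2, 2, 2, 2, 2, 2, 3, 3, 2, 2, 2, 2, 3, 3, 3, 3, 3, 3, 3, 3, 3] := by decide +kernel
  have hp : (parA.polys surA).length = 23 := rfl
  exact
    { f := fun i k => match i with
        | 0 => match k with
          | 0 => h.nonneg Acf_0_0
          | 1 => h.nonneg Acf_0_1
          | k + 2 => coef_out hl 0 _ (Nat.le_add_left _ _)
        | 1 => match k with
          | 0 => h.nonneg Acf_1_0
          | 1 => h.nonneg Acf_1_1
          | k + 2 => coef_out hl 1 _ (Nat.le_add_left _ _)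
        | 2 => match k with
          | 0 => h.nonneg Acf_2_0
          | 1 => h.nonneg Acf_2_1
          | k + 2 => coef_out hl 2 _ (Nat.le_add_left _ _)
        | 3 => match k with
          | 0 => h.nonneg Acf_3_0
          | 1 => h.nonneg Acf_3_1
          | k + 2 => coef_out hl 3 _ (Nat.le_add_left _ _)
        | 4 => match k with
          | 0 => h.nonneg Acf_4_0
          | 1 => h.nonneg Acf_4_1
          | k + 2 => coef_out hl 4 _ (Nat.le_add_left _ _)
        | 5 => match k with
          | 0 => h.nonneg Acf_5_0
          | 1 => h.nonneg Acf_5_1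
          | k + 2 => coef_out hl 5 _ (Nat.le_add_left _ _)
        | 6 => match k with
          | 0 => h.nonneg Acf_6_0
          | 1 => h.nonneg Acf_6_1
          | 2 => h.nonneg Acf_6_2
          | k + 3 => coef_out hl 6 _ (Nat.le_add_left _ _)
        | 7 => match k with
          | 0 => h.nonneg Acf_7_0
          | 1 => h.nonneg Acf_7_1
          | 2 => h.nonneg Acf_7_2
          | k + 3 => coef_out hl 7 _ (Nat.le_add_left _ _)
        | 8 => match k with
          | 0 => h.nonneg Acf_8_0
          | 1 => h.nonneg Acf_8_1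
          | k + 2 => coef_out hl 8 _ (Nat.le_add_left _ _)
        | 9 => match k with
          | 0 => h.nonneg Acf_9_0
          | 1 => h.nonneg Acf_9_1
          | k + 2 => coef_out hl 9 _ (Nat.le_add_left _ _)
        | 10 => match k with
          | 0 => h.nonneg Acf_10_0
          | 1 => h.nonneg Acf_10_1
          | k + 2 => coef_out hl 10 _ (Nat.le_add_left _ _)
        | 11 => match k with
          | 0 => h.nonneg Acf_11_0
          | 1 => h.nonneg Acf_11_1
          | k + 2 => coef_out hl 11 _ (Nat.le_add_left _ _)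
        | 12 => match k with
          | 0 => h.nonneg Acf_12_0
          | 1 => h.nonneg Acf_12_1
          | 2 => h.nonneg Acf_12_2
          | k + 3 => coef_out hl 12 _ (Nat.le_add_left _ _)
        | 13 => match k with
          | 0 => h.nonneg Acf_13_0
          | 1 => h.nonneg Acf_13_1
          | 2 => h.nonneg Acf_13_2
          | k + 3 => coef_out hl 13 _ (Nat.le_add_left _ _)
        | 14 => match k with
          | 0 => h.nonneg Acf_14_0
          | 1 => h.nonneg Acf_14_1
          | 2 => h.nonneg Acf_14_2
          | k + 3 => coef_out hl 14 _ (Nat.le_add_left _ _)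
        | 15 => match k with
          | 0 => h.nonneg Acf_15_0
          | 1 => h.nonneg Acf_15_1
          | 2 => h.nonneg Acf_15_2
          | k + 3 => coef_out hl 15 _ (Nat.le_add_left _ _)
        | 16 => match k with
          | 0 => h.nonneg Acf_16_0
          | 1 => h.nonneg Acf_16_1
          | 2 => h.nonneg Acf_16_2
          | k + 3 => coef_out hl 16 _ (Nat.le_add_left _ _)
        | 17 => match k with
          | 0 => h.nonneg Acf_17_0
          | 1 => h.nonneg Acf_17_1
          | 2 => h.nonneg Acf_17_2
          | k + 3 => coef_out hl 17 _ (Nat.le_add_left _ _)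
        | 18 => match k with
          | 0 => h.nonneg Acf_18_0
          | 1 => h.nonneg Acf_18_1
          | 2 => h.nonneg Acf_18_2
          | k + 3 => coef_out hl 18 _ (Nat.le_add_left _ _)
        | 19 => match k with
          | 0 => h.nonneg Acf_19_0
          | 1 => h.nonneg Acf_19_1
          | 2 => h.nonneg Acf_19_2
          | k + 3 => coef_out hl 19 _ (Nat.le_add_left _ _)
        | 20 => match k with
          | 0 => h.nonneg Acf_20_0
          | 1 => h.nonneg Acf_20_1
          | 2 => h.nonneg Acf_20_2
          | k + 3 => coef_out hl 20 _ (Nat.le_add_left _ _)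
        | i + 21 => coef_out hl _ _ (Nat.zero_le _)
      p := fun i => match i with
        | 0 => h.nonneg Acp_0
        | 1 => h.nonneg Acp_1
        | 2 => h.nonneg Acp_2
        | 3 => h.nonneg Acp_3
        | 4 => h.nonneg Acp_4
        | 5 => h.nonneg Acp_5
        | 6 => h.nonneg Acp_6
        | 7 => h.nonneg Acp_7
        | 8 => h.nonneg Acp_8
        | 9 => h.nonneg Acp_9
        | 10 => h.nonneg Acp_10
        | 11 => h.nonneg Acp_11
        | 12 => h.nonneg Acp_12
        | 13 => h.nonneg Acp_13
        | 14 => h.nonneg Acp_14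
        | 15 => h.nonneg Acp_15
        | 16 => h.nonneg Acp_16
        | 17 => h.nonneg Acp_17
        | 18 => h.nonneg Acp_18
        | 19 => h.nonneg Acp_19
        | 20 => h.nonneg Acp_20
        | 21 => h.nonneg Acp_21
        | 22 => h.nonneg Acp_22
        | i + 23 => poly_out hp _ (Nat.le_add_left _ _) }

/-- The checks of the piece B hold on its closed box. -/
theorem okB {x : ℕ → ℝ} (h : InEnd ⟨1, 1, 20, 5⟩ 20 x) : CheckOk parB surB x := by
  have hl : (parB.forms surB).map (fun F => F.num.length) =
      [2, 2, 2, 2, 2, 2, 3, 3, 2, 2, 2, 2, 3, 3, 3, 3, 3, 3, 3, 3, 3] := by decide +kernel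
  have hp : (parB.polys surB).length = 23 := rfl
  exact
    { f := fun i k => match i with
        | 0 => match k with
          | 0 => h.nonneg Bcf_0_0
          | 1 => h.nonneg Bcf_0_1
          | k + 2 => coef_out hl 0 _ (Nat.le_add_left _ _)
        | 1 => match k with
          | 0 => h.nonneg Bcf_1_0
          | 1 => h.nonneg Bcf_1_1
          | k + 2 => coef_out hl 1 _ (Nat.le_add_left _ _)
        | 2 => match k with
          | 0 => h.nonneg Bcf_2_0
          | 1 => h.nonneg Bcf_2_1
          | k + 2 => coef_out hl 2 _ (Nat.le_add_left _ _)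
        | 3 => match k with
          | 0 => h.nonneg Bcf_3_0
          | 1 => h.nonneg Bcf_3_1
          | k + 2 => coef_out hl 3 _ (Nat.le_add_left _ _)
        | 4 => match k with
          | 0 => h.nonneg Bcf_4_0
          | 1 => h.nonneg Bcf_4_1
          | k + 2 => coef_out hl 4 _ (Nat.le_add_left _ _)
        | 5 => match k with
          | 0 => h.nonneg Bcf_5_0
          | 1 => h.nonneg Bcf_5_1
          | k + 2 => coef_out hl 5 _ (Nat.le_add_left _ _)
        | 6 => match k with
          | 0 => h.nonneg Bcf_6_0
          | 1 => h.nonneg Bcf_6_1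
          | 2 => h.nonneg Bcf_6_2
          | k + 3 => coef_out hl 6 _ (Nat.le_add_left _ _)
        | 7 => match k with
          | 0 => h.nonneg Bcf_7_0
          | 1 => h.nonneg Bcf_7_1
          | 2 => h.nonneg Bcf_7_2
          | k + 3 => coef_out hl 7 _ (Nat.le_add_left _ _)
        | 8 => match k with
          | 0 => h.nonneg Bcf_8_0
          | 1 => h.nonneg Bcf_8_1
          | k + 2 => coef_out hl 8 _ (Nat.le_add_left _ _)
        | 9 => match k with
          | 0 => h.nonneg Bcf_9_0
          | 1 => h.nonneg Bcf_9_1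
          | k + 2 => coef_out hl 9 _ (Nat.le_add_left _ _)
        | 10 => match k with
          | 0 => h.nonneg Bcf_10_0
          | 1 => h.nonneg Bcf_10_1
          | k + 2 => coef_out hl 10 _ (Nat.le_add_left _ _)
        | 11 => match k with
          | 0 => h.nonneg Bcf_11_0
          | 1 => h.nonneg Bcf_11_1
          | k + 2 => coef_out hl 11 _ (Nat.le_add_left _ _)
        | 12 => match k with
          | 0 => h.nonneg Bcf_12_0
          | 1 => h.nonneg Bcf_12_1
          | 2 => h.nonneg Bcf_12_2
          | k + 3 => coef_out hl 12 _ (Nat.le_add_left _ _)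
        | 13 => match k with
          | 0 => h.nonneg Bcf_13_0
          | 1 => h.nonneg Bcf_13_1
          | 2 => h.nonneg Bcf_13_2
          | k + 3 => coef_out hl 13 _ (Nat.le_add_left _ _)
        | 14 => match k with
          | 0 => h.nonneg Bcf_14_0
          | 1 => h.nonneg Bcf_14_1
          | 2 => h.nonneg Bcf_14_2
          | k + 3 => coef_out hl 14 _ (Nat.le_add_left _ _)
        | 15 => match k with
          | 0 => h.nonneg Bcf_15_0
          | 1 => h.nonneg Bcf_15_1
          | 2 => h.nonneg Bcf_15_2
          | k + 3 => coef_out hl 15 _ (Nat.le_add_left _ _)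
        | 16 => match k with
          | 0 => h.nonneg Bcf_16_0
          | 1 => h.nonneg Bcf_16_1
          | 2 => h.nonneg Bcf_16_2
          | k + 3 => coef_out hl 16 _ (Nat.le_add_left _ _)
        | 17 => match k with
          | 0 => h.nonneg Bcf_17_0
          | 1 => h.nonneg Bcf_17_1
          | 2 => h.nonneg Bcf_17_2
          | k + 3 => coef_out hl 17 _ (Nat.le_add_left _ _)
        | 18 => match k with
          | 0 => h.nonneg Bcf_18_0
          | 1 => h.nonneg Bcf_18_1
          | 2 => h.nonneg Bcf_18_2
          | k + 3 => coef_out hl 18 _ (Nat.le_add_left _ _)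
        | 19 => match k with
          | 0 => h.nonneg Bcf_19_0
          | 1 => h.nonneg Bcf_19_1
          | 2 => h.nonneg Bcf_19_2
          | k + 3 => coef_out hl 19 _ (Nat.le_add_left _ _)
        | 20 => match k with
          | 0 => h.nonneg Bcf_20_0
          | 1 => h.nonneg Bcf_20_1
          | 2 => h.nonneg Bcf_20_2
          | k + 3 => coef_out hl 20 _ (Nat.le_add_left _ _)
        | i + 21 => coef_out hl _ _ (Nat.zero_le _)
      p := fun i => match i with
        | 0 => h.nonneg Bcp_0
        | 1 => h.nonneg Bcp_1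
        | 2 => h.nonneg Bcp_2
        | 3 => h.nonneg Bcp_3
        | 4 => h.nonneg Bcp_4
        | 5 => h.nonneg Bcp_5
        | 6 => h.nonneg Bcp_6
        | 7 => h.nonneg Bcp_7
        | 8 => h.nonneg Bcp_8
        | 9 => h.nonneg Bcp_9
        | 10 => h.nonneg Bcp_10
        | 11 => h.nonneg Bcp_11
        | 12 => h.nonneg Bcp_12
        | 13 => h.nonneg Bcp_13
        | 14 => h.nonneg Bcp_14
        | 15 => h.nonneg Bcp_15
        | 16 => h.nonneg Bcp_16
        | 17 => h.nonneg Bcp_17
        | 18 => h.nonneg Bcp_18
        | 19 => h.nonneg Bcp_19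
        | 20 => h.nonneg Bcp_20
        | 21 => h.nonneg Bcp_21
        | 22 => h.nonneg Bcp_22
        | i + 23 => poly_out hp _ (Nat.le_add_left _ _) }

/-- The checks of the piece C hold on its closed box. -/
theorem okC {x : ℕ → ℝ} (h : InEnd ⟨1, 3, 5, 11⟩ 20 x) : CheckOk parC surC x := by
  have hl : (parC.forms surC).map (fun F => F.num.length) =
      [2, 2, 2, 2, 2, 2, 3, 3, 2, 2, 2, 2, 3, 3, 3, 3, 3, 3, 3, 3, 3] := by decide +kernel
  have hp : (parC.polys surC).length = 23 := rfl
  exact
    { f := fun i k => match i with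
        | 0 => match k with
          | 0 => h.nonneg Ccf_0_0
          | 1 => h.nonneg Ccf_0_1
          | k + 2 => coef_out hl 0 _ (Nat.le_add_left _ _)
        | 1 => match k with
          | 0 => h.nonneg Ccf_1_0
          | 1 => h.nonneg Ccf_1_1
          | k + 2 => coef_out hl 1 _ (Nat.le_add_left _ _)
        | 2 => match k with
          | 0 => h.nonneg Ccf_2_0
          | 1 => h.nonneg Ccf_2_1
          | k + 2 => coef_out hl 2 _ (Nat.le_add_left _ _)
        | 3 => match k with
          | 0 => h.nonneg Ccf_3_0
          | 1 => h.nonneg Ccf_3_1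
          | k + 2 => coef_out hl 3 _ (Nat.le_add_left _ _)
        | 4 => match k with
          | 0 => h.nonneg Ccf_4_0
          | 1 => h.nonneg Ccf_4_1
          | k + 2 => coef_out hl 4 _ (Nat.le_add_left _ _)
        | 5 => match k with
          | 0 => h.nonneg Ccf_5_0
          | 1 => h.nonneg Ccf_5_1
          | k + 2 => coef_out hl 5 _ (Nat.le_add_left _ _)
        | 6 => match k with
          | 0 => h.nonneg Ccf_6_0
          | 1 => h.nonneg Ccf_6_1
          | 2 => h.nonneg Ccf_6_2
          | k + 3 => coef_out hl 6 _ (Nat.le_add_left _ _)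
        | 7 => match k with
          | 0 => h.nonneg Ccf_7_0
          | 1 => h.nonneg Ccf_7_1
          | 2 => h.nonneg Ccf_7_2
          | k + 3 => coef_out hl 7 _ (Nat.le_add_left _ _)
        | 8 => match k with
          | 0 => h.nonneg Ccf_8_0
          | 1 => h.nonneg Ccf_8_1
          | k + 2 => coef_out hl 8 _ (Nat.le_add_left _ _)
        | 9 => match k with
          | 0 => h.nonneg Ccf_9_0
          | 1 => h.nonneg Ccf_9_1
          | k + 2 => coef_out hl 9 _ (Nat.le_add_left _ _)
        | 10 => match k with
          | 0 => h.nonneg Ccf_10_0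
          | 1 => h.nonneg Ccf_10_1
          | k + 2 => coef_out hl 10 _ (Nat.le_add_left _ _)
        | 11 => match k with
          | 0 => h.nonneg Ccf_11_0
          | 1 => h.nonneg Ccf_11_1
          | k + 2 => coef_out hl 11 _ (Nat.le_add_left _ _)
        | 12 => match k with
          | 0 => h.nonneg Ccf_12_0
          | 1 => h.nonneg Ccf_12_1
          | 2 => h.nonneg Ccf_12_2
          | k + 3 => coef_out hl 12 _ (Nat.le_add_left _ _)
        | 13 => match k with
          | 0 => h.nonneg Ccf_13_0
          | 1 => h.nonneg Ccf_13_1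
          | 2 => h.nonneg Ccf_13_2
          | k + 3 => coef_out hl 13 _ (Nat.le_add_left _ _)
        | 14 => match k with
          | 0 => h.nonneg Ccf_14_0
          | 1 => h.nonneg Ccf_14_1
          | 2 => h.nonneg Ccf_14_2
          | k + 3 => coef_out hl 14 _ (Nat.le_add_left _ _)
        | 15 => match k with
          | 0 => h.nonneg Ccf_15_0
          | 1 => h.nonneg Ccf_15_1
          | 2 => h.nonneg Ccf_15_2
          | k + 3 => coef_out hl 15 _ (Nat.le_add_left _ _)
        | 16 => match k with
          | 0 => h.nonneg Ccf_16_0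
          | 1 => h.nonneg Ccf_16_1
          | 2 => h.nonneg Ccf_16_2
          | k + 3 => coef_out hl 16 _ (Nat.le_add_left _ _)
        | 17 => match k with
          | 0 => h.nonneg Ccf_17_0
          | 1 => h.nonneg Ccf_17_1
          | 2 => h.nonneg Ccf_17_2
          | k + 3 => coef_out hl 17 _ (Nat.le_add_left _ _)
        | 18 => match k with
          | 0 => h.nonneg Ccf_18_0
          | 1 => h.nonneg Ccf_18_1
          | 2 => h.nonneg Ccf_18_2
          | k + 3 => coef_out hl 18 _ (Nat.le_add_left _ _)
        | 19 => match k with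
          | 0 => h.nonneg Ccf_19_0
          | 1 => h.nonneg Ccf_19_1
          | 2 => h.nonneg Ccf_19_2
          | k + 3 => coef_out hl 19 _ (Nat.le_add_left _ _)
        | 20 => match k with
          | 0 => h.nonneg Ccf_20_0
          | 1 => h.nonneg Ccf_20_1
          | 2 => h.nonneg Ccf_20_2
          | k + 3 => coef_out hl 20 _ (Nat.le_add_left _ _)
        | i + 21 => coef_out hl _ _ (Nat.zero_le _)
      p := fun i => match i with
        | 0 => h.nonneg Ccp_0
        | 1 => h.nonneg Ccp_1
        | 2 => h.nonneg Ccp_2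
        | 3 => h.nonneg Ccp_3
        | 4 => h.nonneg Ccp_4
        | 5 => h.nonneg Ccp_5
        | 6 => h.nonneg Ccp_6
        | 7 => h.nonneg Ccp_7
        | 8 => h.nonneg Ccp_8
        | 9 => h.nonneg Ccp_9
        | 10 => h.nonneg Ccp_10
        | 11 => h.nonneg Ccp_11
        | 12 => h.nonneg Ccp_12
        | 13 => h.nonneg Ccp_13
        | 14 => h.nonneg Ccp_14
        | 15 => h.nonneg Ccp_15
        | 16 => h.nonneg Ccp_16
        | 17 => h.nonneg Ccp_17
        | 18 => h.nonneg Ccp_18
        | 19 => h.nonneg Ccp_19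
        | 20 => h.nonneg Ccp_20
        | 21 => h.nonneg Ccp_21
        | 22 => h.nonneg Ccp_22
        | i + 23 => poly_out hp _ (Nat.le_add_left _ _) }

/-- The checks of the piece D hold on its closed box. -/
theorem okD {x : ℕ → ℝ} (h : InEnd ⟨7, 5, 26, 16⟩ 20 x) : CheckOk parD surD x := by
  have hl : (parD.forms surD).map (fun F => F.num.length) =
      [2, 2, 2, 2, 2, 2, 3, 3, 2, 2, 2, 2, 3, 3, 3, 3, 3, 3, 3, 3, 3] := by decide +kernel
  have hp : (parD.polys surD).length = 23 := rfl
  exact
    { f := fun i k => match i with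
        | 0 => match k with
          | 0 => h.nonneg Dcf_0_0
          | 1 => h.nonneg Dcf_0_1
          | k + 2 => coef_out hl 0 _ (Nat.le_add_left _ _)
        | 1 => match k with
          | 0 => h.nonneg Dcf_1_0
          | 1 => h.nonneg Dcf_1_1
          | k + 2 => coef_out hl 1 _ (Nat.le_add_left _ _)
        | 2 => match k with
          | 0 => h.nonneg Dcf_2_0
          | 1 => h.nonneg Dcf_2_1
          | k + 2 => coef_out hl 2 _ (Nat.le_add_left _ _)
        | 3 => match k with
          | 0 => h.nonneg Dcf_3_0
          | 1 => h.nonneg Dcf_3_1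
          | k + 2 => coef_out hl 3 _ (Nat.le_add_left _ _)
        | 4 => match k with
          | 0 => h.nonneg Dcf_4_0
          | 1 => h.nonneg Dcf_4_1
          | k + 2 => coef_out hl 4 _ (Nat.le_add_left _ _)
        | 5 => match k with
          | 0 => h.nonneg Dcf_5_0
          | 1 => h.nonneg Dcf_5_1
          | k + 2 => coef_out hl 5 _ (Nat.le_add_left _ _)
        | 6 => match k with
          | 0 => h.nonneg Dcf_6_0
          | 1 => h.nonneg Dcf_6_1
          | 2 => h.nonneg Dcf_6_2
          | k + 3 => coef_out hl 6 _ (Nat.le_add_left _ _)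
        | 7 => match k with
          | 0 => h.nonneg Dcf_7_0
          | 1 => h.nonneg Dcf_7_1
          | 2 => h.nonneg Dcf_7_2
          | k + 3 => coef_out hl 7 _ (Nat.le_add_left _ _)
        | 8 => match k with
          | 0 => h.nonneg Dcf_8_0
          | 1 => h.nonneg Dcf_8_1
          | k + 2 => coef_out hl 8 _ (Nat.le_add_left _ _)
        | 9 => match k with
          | 0 => h.nonneg Dcf_9_0
          | 1 => h.nonneg Dcf_9_1
          | k + 2 => coef_out hl 9 _ (Nat.le_add_left _ _)
        | 10 => match k with
          | 0 => h.nonneg Dcf_10_0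
          | 1 => h.nonneg Dcf_10_1
          | k + 2 => coef_out hl 10 _ (Nat.le_add_left _ _)
        | 11 => match k with
          | 0 => h.nonneg Dcf_11_0
          | 1 => h.nonneg Dcf_11_1
          | k + 2 => coef_out hl 11 _ (Nat.le_add_left _ _)
        | 12 => match k with
          | 0 => h.nonneg Dcf_12_0
          | 1 => h.nonneg Dcf_12_1
          | 2 => h.nonneg Dcf_12_2
          | k + 3 => coef_out hl 12 _ (Nat.le_add_left _ _)
        | 13 => match k with
          | 0 => h.nonneg Dcf_13_0
          | 1 => h.nonneg Dcf_13_1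
          | 2 => h.nonneg Dcf_13_2
          | k + 3 => coef_out hl 13 _ (Nat.le_add_left _ _)
        | 14 => match k with
          | 0 => h.nonneg Dcf_14_0
          | 1 => h.nonneg Dcf_14_1
          | 2 => h.nonneg Dcf_14_2
          | k + 3 => coef_out hl 14 _ (Nat.le_add_left _ _)
        | 15 => match k with
          | 0 => h.nonneg Dcf_15_0
          | 1 => h.nonneg Dcf_15_1
          | 2 => h.nonneg Dcf_15_2
          | k + 3 => coef_out hl 15 _ (Nat.le_add_left _ _)
        | 16 => match k with
          | 0 => h.nonneg Dcf_16_0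
          | 1 => h.nonneg Dcf_16_1
          | 2 => h.nonneg Dcf_16_2
          | k + 3 => coef_out hl 16 _ (Nat.le_add_left _ _)
        | 17 => match k with
          | 0 => h.nonneg Dcf_17_0
          | 1 => h.nonneg Dcf_17_1
          | 2 => h.nonneg Dcf_17_2
          | k + 3 => coef_out hl 17 _ (Nat.le_add_left _ _)
        | 18 => match k with
          | 0 => h.nonneg Dcf_18_0
          | 1 => h.nonneg Dcf_18_1
          | 2 => h.nonneg Dcf_18_2
          | k + 3 => coef_out hl 18 _ (Nat.le_add_left _ _)
        | 19 => match k with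
          | 0 => h.nonneg Dcf_19_0
          | 1 => h.nonneg Dcf_19_1
          | 2 => h.nonneg Dcf_19_2
          | k + 3 => coef_out hl 19 _ (Nat.le_add_left _ _)
        | 20 => match k with
          | 0 => h.nonneg Dcf_20_0
          | 1 => h.nonneg Dcf_20_1
          | 2 => h.nonneg Dcf_20_2
          | k + 3 => coef_out hl 20 _ (Nat.le_add_left _ _)
        | i + 21 => coef_out hl _ _ (Nat.zero_le _)
      p := fun i => match i with
        | 0 => h.nonneg Dcp_0
        | 1 => h.nonneg Dcp_1
        | 2 => h.nonneg Dcp_2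
        | 3 => h.nonneg Dcp_3
        | 4 => h.nonneg Dcp_4
        | 5 => h.nonneg Dcp_5
        | 6 => h.nonneg Dcp_6
        | 7 => h.nonneg Dcp_7
        | 8 => h.nonneg Dcp_8
        | 9 => h.nonneg Dcp_9
        | 10 => h.nonneg Dcp_10
        | 11 => h.nonneg Dcp_11
        | 12 => h.nonneg Dcp_12
        | 13 => h.nonneg Dcp_13
        | 14 => h.nonneg Dcp_14
        | 15 => h.nonneg Dcp_15
        | 16 => h.nonneg Dcp_16
        | 17 => h.nonneg Dcp_17
        | 18 => h.nonneg Dcp_18
        | 19 => h.nonneg Dcp_19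
        | 20 => h.nonneg Dcp_20
        | 21 => h.nonneg Dcp_21
        | 22 => h.nonneg Dcp_22
        | i + 23 => poly_out hp _ (Nat.le_add_left _ _) }

end Vale.Agent.P100.Calib.EndAll
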