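import Mathlib

/-!
# Real algebra of the end certificate

Concavity in one entry, monotonicity of the scaled determinant in the diagonal, and its reduction
to the least `v / I` and the largest `1 + d v`.
-/

namespace Vale.Agent.P100.Calib.EndAll

/-- A concave quadratic is positive between two points where it is. -/
theorem concave_pos {A B C l h t : ℝ} (hA : 0 ≤ A) (hl : 0 < -A * l ^ 2 + B * l + C)
    (hh : 0 < -A * h ^ 2 + B * h + C) (h1 : l ≤ t) (h2 : t ≤ h) :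
    0 < -A * t ^ 2 + B * t + C := by
  rcases eq_or_lt_of_le h1 with rfl | h1'
  · exact hl
  have e : (h - l) * (-A * t ^ 2 + B * t + C) = (h - t) * (-A * l ^ 2 + B * l + C) +
      (t - l) * (-A * h ^ 2 + B * h + C) + A * ((h - t) * (t - l) * (h - l)) := by ring
  have h4 : 0 < h - l := by linarith
  have h5 : 0 ≤ A * ((h - t) * (t - l) * (h - l)) :=
    mul_nonneg hA (mul_nonneg (mul_nonneg (by linarith) (by linarith)) h4.le)
  have h6 : 0 ≤ (h - t) * (-A * l ^ 2 + B * l + C) := mul_nonneg (by linarith) hl.le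
  have h7 : 0 < (t - l) * (-A * h ^ 2 + B * h + C) := mul_pos (by linarith) hh
  exact pos_of_mul_pos_right (by linarith [e]) h4.le

/-- The scaled determinant as a function of its entries. -/
def detF (b d Q E G M x y z : ℝ) : ℝ :=
  64 * b ^ 3 * d ^ 2 * E * G * M - 16 * b ^ 3 * d ^ 4 * Q * M * x ^ 2 -
    256 * b ^ 4 * d ^ 2 * Q * G * y ^ 2 + 16 * b ^ 2 * d ^ 2 * Q * x * y * z - E * z ^ 2

/-- The determinant increases in the diagonal entries. -/
theorem detF_mono {b d Q E₀ G₀ M₀ E G M x y z : ℝ} (hb : 0 < b) (hd : 0 < d) (hQ : 0 ≤ Q)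
    (hE : 0 < E₀) (hG : 0 < G₀) (hM : 0 < M₀) (hEE : E₀ ≤ E) (hGG : G₀ ≤ G) (hMM : M₀ ≤ M)
    (hF : z ^ 2 ≤ 64 * b ^ 3 * d ^ 2 * G₀ * M₀) (hm : d ^ 2 * Q * x ^ 2 < 4 * E₀ * G₀)
    (h : 0 < detF b d Q E₀ G₀ M₀ x y z) : 0 < detF b d Q E G M x y z := by
  have h1 : 0 < detF b d Q E G₀ M₀ x y z := by
    have e : detF b d Q E G₀ M₀ x y z = detF b d Q E₀ G₀ M₀ x y z +
        (E - E₀) * (64 * b ^ 3 * d ^ 2 * G₀ * M₀ - z ^ 2) := by simp only [detF]; ring
    have := mul_nonneg (sub_nonneg.2 hEE) (sub_nonneg.2 hF)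
    linarith
  set P := 64 * b ^ 3 * d ^ 2 * E * M₀ - 256 * b ^ 4 * d ^ 2 * Q * y ^ 2 with hP
  have hP0 : 0 < P := by
    have e : P * (64 * b ^ 3 * d ^ 2 * G₀ * M₀ - z ^ 2) =
        64 * b ^ 3 * d ^ 2 * M₀ * detF b d Q E G₀ M₀ x y z +
          256 * b ^ 4 * d ^ 2 * Q * (2 * b * d ^ 2 * x * M₀ - y * z) ^ 2 := by
      simp only [hP, detF]; ring
    have h3 : 0 < P * (64 * b ^ 3 * d ^ 2 * G₀ * M₀ - z ^ 2) := by rw [e]; positivity
    exact pos_of_mul_pos_left h3 (sub_nonneg.2 hF)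
  have h2 : 0 < detF b d Q E G M₀ x y z := by
    have e : detF b d Q E G M₀ x y z = detF b d Q E G₀ M₀ x y z + (G - G₀) * P := by
      simp only [detF, hP]; ring
    have := mul_nonneg (sub_nonneg.2 hGG) hP0.le
    linarith
  have hEG : E₀ * G₀ ≤ E * G := mul_le_mul hEE hGG hG.le (by linarith)
  have e : detF b d Q E G M x y z = detF b d Q E G M₀ x y z +
      (M - M₀) * (16 * b ^ 3 * d ^ 2 * (4 * (E * G) - d ^ 2 * Q * x ^ 2)) := by
    simp only [detF]; ring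
  have h4 : 0 ≤ (M - M₀) * (16 * b ^ 3 * d ^ 2 * (4 * (E * G) - d ^ 2 * Q * x ^ 2)) :=
    mul_nonneg (sub_nonneg.2 hMM) (mul_nonneg (by positivity) (by linarith))
  linarith

/-- The determinant at the lower bounds, from its value at the least `nu` and the largest `Q`. -/
theorem detF_low {b d S Q ν wl e g M X y z : ℝ} (hb : 0 < b) (hd : 0 < d) (hS : 0 < S)
    (hQ : 0 < Q) (hQS : S * Q ≤ 1) (hν : 2 * wl / (S * d) ≤ ν) (hwl : 0 < wl)
    (he : 0 < e) (hg : 0 < g) (hM : 0 < M) (hm : S * d ^ 2 * X ^ 2 < 4 * e * g)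
    (hF : S ^ 3 * z ^ 2 ≤ 128 * b ^ 3 * wl * g * M)
    (h : 0 < wl * b ^ 3 * (256 * e * g * M - 64 * d ^ 2 * S * M * X ^ 2) -
      S ^ 2 * (512 * b ^ 4 * d ^ 2 * g * y ^ 2 - 32 * b ^ 2 * d ^ 2 * S * X * y * z +
        2 * S * e * z ^ 2)) :
    z ^ 2 ≤ 64 * b ^ 3 * d ^ 2 * (ν * g / (S ^ 2 * d)) * M ∧
      d ^ 2 * Q * (ν * X / (S * d)) ^ 2 < 4 * (ν * e / (S ^ 2 * d)) * (ν * g / (S ^ 2 * d)) ∧
      0 < detF b d Q (ν * e / (S ^ 2 * d)) (ν * g / (S ^ 2 * d)) M (ν * X / (S * d)) y z := by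
  have hν0 : 0 < ν := lt_of_lt_of_le (by positivity) hν
  have hν' : 2 * wl ≤ ν * (S * d) := by rwa [div_le_iff₀ (by positivity)] at hν
  have hF' : z ^ 2 ≤ 64 * b ^ 3 * d ^ 2 * (ν * g / (S ^ 2 * d)) * M := by
    have h0 : 64 * b ^ 3 * d ^ 2 * (ν * g / (S ^ 2 * d)) * M =
        64 * b ^ 3 * g * M * (ν * (S * d)) / S ^ 3 := by field_simp
    rw [h0, le_div_iff₀ (by positivity)]
    have := mul_le_mul_of_nonneg_left hν' (show 0 ≤ 64 * b ^ 3 * g * M by positivity)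
    linarith
  have hm' : d ^ 2 * Q * (ν * X / (S * d)) ^ 2 <
      4 * (ν * e / (S ^ 2 * d)) * (ν * g / (S ^ 2 * d)) := by
    have h0 : d ^ 2 * Q * (ν * X / (S * d)) ^ 2 =
        ν ^ 2 / (S ^ 4 * d ^ 2) * ((S * Q) * (S * d ^ 2 * X ^ 2)) := by field_simp
    have h1 : 4 * (ν * e / (S ^ 2 * d)) * (ν * g / (S ^ 2 * d)) =
        ν ^ 2 / (S ^ 4 * d ^ 2) * (4 * e * g) := by field_simp
    rw [h0, h1]
    refine mul_lt_mul_of_pos_left (lt_of_le_of_lt ?_ hm) (by positivity)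
    exact mul_le_of_le_one_left (by positivity) hQS
  refine ⟨hF', hm', ?_⟩
  set T := 256 * e * g * M - 64 * d ^ 2 * S * M * X ^ 2 with hT
  set K := 512 * b ^ 4 * d ^ 2 * g * y ^ 2 - 32 * b ^ 2 * d ^ 2 * S * X * y * z +
    2 * S * e * z ^ 2 with hK
  have hT0 : 0 < T := by
    have : 0 < 64 * M * (4 * e * g - S * d ^ 2 * X ^ 2) := mul_pos (by positivity) (by linarith)
    rw [hT]; linarith
  have h2 : 0 < ν * (S * d) / 2 * b ^ 3 * T - S ^ 2 * K := by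
    have : wl * b ^ 3 * T ≤ ν * (S * d) / 2 * b ^ 3 * T :=
      mul_le_mul_of_nonneg_right (mul_le_mul_of_nonneg_right (by linarith) (by positivity)) hT0.le
    linarith
  have key : S * detF b d (1 / S) (ν * e / (S ^ 2 * d)) (ν * g / (S ^ 2 * d)) M (ν * X / (S * d))
      y z = ν / (2 * S ^ 4 * d) * (ν * (S * d) / 2 * b ^ 3 * T - S ^ 2 * K) := by
    simp only [detF, hT, hK]; field_simp; ring
  have h3 : 0 < detF b d (1 / S) (ν * e / (S ^ 2 * d)) (ν * g / (S ^ 2 * d)) M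
      (ν * X / (S * d)) y z := by
    have : 0 < S * detF b d (1 / S) (ν * e / (S ^ 2 * d)) (ν * g / (S ^ 2 * d)) M
      (ν * X / (S * d)) y z := by rw [key]; positivity
    exact pos_of_mul_pos_right this hS.le
  have hEF : 0 ≤ ν * e / (S ^ 2 * d) *
      (64 * b ^ 3 * d ^ 2 * (ν * g / (S ^ 2 * d)) * M - z ^ 2) :=
    mul_nonneg (by positivity) (sub_nonneg.2 hF')
  have e1 : ∀ E G x, detF b d Q E G M x y z = S * Q * detF b d (1 / S) E G M x y z +
      (1 - S * Q) * (E * (64 * b ^ 3 * d ^ 2 * G * M - z ^ 2)) := by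
    intro E G x; simp only [detF]; field_simp; ring
  rw [e1]
  have : 0 < S * Q := by positivity
  have h5 := mul_pos this h3
  have h6 := mul_nonneg (sub_nonneg.2 hQS) hEF
  linarith

end Vale.Agent.P100.Calib.EndAll
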