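import Vale.Agent.P100.Calib.SlabAllStab
import Vale.Agent.P100.Calib.SlabAllEndExit
import Vale.Agent.P100.Calib.SlabAllEndCertOne
import Vale.Agent.P100.Calib.SlabAllEndCertTwo

/-!
# The signs at the lower band at the end of the tail

`allEndLow` is `H (b - u a) - 1 + I w c / (100 d)`, `w = 1 - u`.
-/

open Set Filter Topology

namespace Vale.Agent.P100.Calib.Band

open Vale.Agent.P100.Bubble Chart

/-- The linear part of `allEndC`. -/
def allEndC1 (I a : ℝ) : ℝ :=
  3000 * a ^ 2 + 5700 * a ^ 3 + 2100 * I + 500000 * (I * a ^ 3) + 16000000 * (I * a ^ 6)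

/-- A hundred times the coefficient of the band. -/
def allEndC (I a w : ℝ) : ℝ :=
  200 + 230 * a + 1600 * a ^ 3 + I * (520 + 700 * a + 33000 * a ^ 3 + 50000 * a ^ 4) -
    allEndC1 I a * w + 150000000 * (I * a ^ 6) * w ^ 2

/-- The opposite of the derivative of `w allEndC` in `u`. -/
def allEndCw (I a w : ℝ) : ℝ :=
  allEndC I a w - (allEndC1 I a - 2 * (150000000 * (I * a ^ 6) * w)) * w

/-- A hundred times the multiplier of the radial speed. -/
def allEndMu (I a X w : ℝ) : ℝ :=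
  295 + 100 * a + 700 * a ^ 2 + 25000 * a ^ 5 + I * (800 + 200000 * a ^ 4) +
    12000000 * (I ^ 2 * a ^ 4) +
    (100 + 1600 * a + 52000 * (I * a) + 19000000 * (I * a ^ 6 * X ^ 2)) * w

/-- **The band function.** -/
noncomputable def allEndLow (a b u H : ℝ) : ℝ :=
  H * (b - u * a) - 1 + allStabI a b / (100 * (b - a)) *
    ((1 - u) * allEndC (allStabI a b) a (1 - u))

/-- Its derivative in `u`. -/
noncomputable def allEndLowU (a b u H : ℝ) : ℝ :=
  -(a * H) - allStabI a b / (100 * (b - a)) * allEndCw (allStabI a b) a (1 - u)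

theorem hasGrad_allEndLow (a b : ℝ) :
    HasGrad (fun u _ H => allEndLow a b u H) (fun u _ H => allEndLowU a b u H)
      (fun _ _ _ => 0) (fun u _ _ => b - u * a) := by
  intro u v H du dv dh t hu _ hh
  have hw := hu.const_sub 1
  have hC : HasDerivAt (fun s => allEndC (allStabI a b) a (1 - u s))
      ((allEndC1 (allStabI a b) a - 2 * (150000000 * (allStabI a b * a ^ 6) * (1 - u t))) * du)
      t := by
    refine (((hw.const_mul (allEndC1 (allStabI a b) a)).const_sub _).fun_add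
      ((hw.fun_pow 2).const_mul _)).congr_deriv ?_
    ring
  refine (((hh.fun_mul ((hu.mul_const a).const_sub b)).sub_const 1).fun_add
    ((hw.fun_mul hC).const_mul (allStabI a b / (100 * (b - a))))).congr_deriv ?_
  simp only [allEndLowU, allEndCw]
  ring

namespace AllLow

open Pack

local instance allEndRealAdd : Add Pack.Ex := ⟨Ex.add⟩
local instance allEndRealSub : Sub Pack.Ex := ⟨Ex.sub⟩
local instance allEndRealMul : Mul Pack.Ex := ⟨Ex.mul⟩

/-- The exit condition at `H`, with the multiple of the radial speed. -/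
noncomputable def endT (a b I u X H : ℝ) : ℝ :=
  allDot a b u (2 * I * X) H (allEndLowU a b u H) 0 (b - u * a) +
    allEndMu I a X (1 - u) / 100 * (1 - u) * allFlow a b u (2 * I * X) H

/-- `endT` is convex in `H`. -/
theorem endT_convex {a b I u X H A B : ℝ} (ha : 0 ≤ a) (hd : 0 ≤ b - a) (hS : a + b ≤ 2)
    (hv : 0 ≤ 2 * I * X) (hav : a * (2 * I * X) ≤ 1) (hu : 0 ≤ u) (hu1 : u ≤ 1) (hA : A < H)
    (hB : H ≤ B) (tA : endT a b I u X A < 0) (tB : endT a b I u X B < 0) :
    endT a b I u X H < 0 := by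
  simp only [endT] at tA tB ⊢
  generalize allEndMu I a X (1 - u) / 100 * (1 - u) = m at tA tB ⊢
  simp only [allEndLowU] at tA tB ⊢
  generalize allStabI a b / (100 * (b - a)) * allEndCw (allStabI a b) a (1 - u) = C at tA tB ⊢
  generalize 2 * I * X = v at hv hav tA tB ⊢
  have hb : 0 ≤ b := by linarith
  have hS0 : 0 ≤ a + b := by linarith
  have hdv : 0 ≤ (b - a) * v := by positivity
  have hw : 0 ≤ b - u * a := by linarith [mul_le_mul_of_nonneg_right hu1 ha]
  have key : 0 ≤ allQn a b u v - (a + b) * (1 - u) * b := by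
    have e : allQn a b u v - (a + b) * (1 - u) * b =
        (1 - u) * ((2 - (a + b)) * b + b * ((b - a) * v)) + u * ((b - a) * (1 - a * v)) := by
      simp only [allQn]; ring
    rw [e]
    exact add_nonneg (mul_nonneg (by linarith) (add_nonneg (mul_nonneg (by linarith) hb)
      (mul_nonneg hb hdv))) (mul_nonneg hu (mul_nonneg hd (by linarith)))
  have hq : 0 ≤ allQn a b u v := by
    linarith [mul_nonneg (mul_nonneg hS0 (show (0 : ℝ) ≤ 1 - u by linarith)) hb]
  set e₁ := u * (b - a) * (allQn a b u v - (a + b) * (1 - u) * b) with he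
  set f₁ := allQn a b u v + (a + b) * (1 - a * v) * (u * (b - a)) +
    (a + b) * v * (u * (b - a)) with hf
  set T : ℝ → ℝ := fun K =>
    allDot a b u v K (-(a * K) - C) 0 (b - u * a) + m * allFlow a b u v K with hT
  have e : (B - A) * T H = (B - H) * T A + (H - A) * T B -
      (a * u * e₁ + (b - u * a) * (u * (b - a) * f₁ + e₁)) * ((H - A) * (B - H) * (B - A)) := by
    simp only [hT, he, hf, allDot, allEn, allFlow, allFh, allDen]
    ring
  have h0 : 0 ≤ e₁ := by rw [he]; positivity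
  have h1 : 0 ≤ 1 - a * v := by linarith
  have h2 : 0 ≤ f₁ := by rw [hf]; positivity
  have h3 : 0 ≤ (a * u * e₁ + (b - u * a) * (u * (b - a) * f₁ + e₁)) *
      ((H - A) * (B - H) * (B - A)) :=
    mul_nonneg (by positivity) (mul_nonneg (mul_nonneg (by linarith) (by linarith)) (by linarith))
  have h4 : (B - H) * T A ≤ 0 := mul_nonpos_of_nonneg_of_nonpos (by linarith) tA.le
  have h5 : (H - A) * T B < 0 := mul_neg_of_pos_of_neg (by linarith) tB
  show T H < 0
  exact neg_of_mul_neg_right (a := B - A) (by rw [e]; linarith) (by linarith)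

/-- The values of the packed conditions. -/
theorem eval_end {a b I u X n g : ℝ} {k : ℤ} {x : ℕ → ℝ} (tN tG tI tA : Pack.Ex)
    (hI : tI.eval x = I) (ha : tA.eval x = a) (hu : x 0 = u) (hX : x 1 = X)
    (hn : tN.eval x = n) (hg : tG.eval x = g)
    (hgk : g = k * (100 * ((b - a) * (b - u * a)))) (hb : b = 1 - 2 * I - a) (hg0 : g ≠ 0)
    (hd : b - a ≠ 0) :
    (eEndP tN tG k tI tA).eval x = -(100 * g ^ 2) * endT a b I u X (n / g) := by
  have eI' : allStabI a b = I := by rw [allStabI, hb]; ring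
  have vU : eU.eval x = u := by simp only [eU, Ex.eval, hu]
  have vX : (Ex.var 1).eval x = X := by simp only [Ex.eval, hX]
  have vS : (AllLow.eS tI).eval x = a + b := by
    simp only [AllLow.eS, eval_sub', eval_mul', eval_num', hI]; push_cast; rw [hb]; ring
  have vB : (eB tI tA).eval x = b := by simp only [eB, eval_sub', vS, ha]; ring
  have vD : (eD tI tA).eval x = b - a := by simp only [eD, eval_sub', vB, ha]
  have vV : (eV tI).eval x = 2 * I * X := by
    simp only [eV, eval_mul', eval_num', hI, vX]; push_cast; ring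
  have vDV : (eDV tI tA).eval x = (b - a) * (2 * I * X) := by simp only [eDV, eval_mul', vD, vV]
  have vW : (eW tI tA).eval x = b - u * a := by simp only [eW, eval_sub', eval_mul', vB, vU, ha]
  have vw : eEndW.eval x = 1 - u := by simp only [eEndW, eval_sub', eval_num', vU]; norm_num
  have vC : (eEndCw tI tA).eval x = allEndCw I a (1 - u) := by
    simp only [eEndCw, eEndC, eEndC0, eEndC1, eEndC2, allEndCw, allEndC, allEndC1, eval_add',
      eval_sub', eval_mul', eval_num', vw, hI, ha]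
    push_cast; ring
  have vM : (eEndMu tI tA).eval x = allEndMu I a X (1 - u) := by
    simp only [eEndMu, allEndMu, eval_add', eval_mul', eval_num', vw, vX, hI, ha]
    push_cast; ring
  have vQn : (eQn tI tA).eval x = allQn a b u (2 * I * X) := by
    simp only [eQn, allQn, eval_add', eval_sub', eval_mul', eval_num', vS, vB, vDV, vU]
    push_cast; ring
  simp only [eEndP, eEndDen, eEndEn, eEndFlow, eEndFh, eval_add', eval_sub', eval_mul',
    eval_num', vU, vS, vB, vD, vV, vDV, vW, vw, vC, vM, vQn, hn, hg, ha, hI]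
  simp only [endT, allEndLowU, eI', allDot, allEn, allFlow, allFh, allDen]
  generalize allQn a b u (2 * I * X) = Q
  generalize allEndCw I a (1 - u) = C
  generalize allEndMu I a X (1 - u) = M
  subst hgk
  have hk : (k : ℝ) ≠ 0 := fun h => hg0 (by rw [h, zero_mul])
  have hw0 : b - u * a ≠ 0 := fun h => hg0 (by rw [h]; ring)
  generalize b - u * a = W at hw0 hg0 ⊢
  generalize b - a = d at hd hg0 ⊢
  push_cast
  field_simp
  ring

/-- The values at the two ends. -/
theorem eval_end_ends {a b I u : ℝ} {x : ℕ → ℝ} (tI tA : Pack.Ex) (hI : tI.eval x = I)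
    (ha : tA.eval x = a) (hu : x 0 = u) (hb : b = 1 - 2 * I - a) :
    (eEndTop tI tA).eval x = 100 * (b - a) - I * (1 - u) * allEndC I a (1 - u) ∧
      (eEndBot tI tA).eval x = (b - a) * 25 * allStabN (allStabLC I a) I a b u (2 * I * (24 / 25)) ∧
      (eEndG tI tA).eval x = ((1 : ℤ) : ℝ) * (100 * ((b - a) * (b - u * a))) ∧
      (eN 25 * eEndG tI tA).eval x = ((25 : ℤ) : ℝ) * (100 * ((b - a) * (b - u * a))) := by
  subst hb
  refine ⟨?_, ?_, ?_, ?_⟩ <;>
    simp only [eEndTop, eEndBot, eEndG, eEndW, eEndC, eEndC0, eEndC1, eEndC2, eStabK, eStabL1,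
      eStabL2, eStabL3, eD, eB, AllLow.eS, eW, eU, allEndC, allEndC1, allStabN, allStabK,
      allStabLC, eval_sub', eval_mul', eval_num', Ex.eval, hI, ha, hu] <;>
    push_cast <;> ring

theorem end_point {u X I a : ℝ} {u₀ u₁ X₀ X₁ I₀ I₁ a₀ a₁ : ℤ}
    (g1 : (u₀ : ℝ) ≤ u * 1000) (g2 : u * 1000 < u₁) (g0 : (X₀ : ℝ) ≤ X * 25)
    (g3 : X * 25 < X₁) (g4 : (I₀ : ℝ) ≤ I * 1000) (g5 : I * 1000 < I₁)
    (g6 : (a₀ : ℝ) ≤ a * 1000) (g7 : a * 1000 < a₁) :
    ∀ i < 4, ∃ t : ℝ, 0 ≤ t ∧
      0 < ((endBox u₀ u₁ X₀ X₁ I₀ I₁ a₀ a₁ i).c : ℝ) +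
        (endBox u₀ u₁ X₀ X₁ I₀ I₁ a₀ a₁ i).d * t ∧
      ((endBox u₀ u₁ X₀ X₁ I₀ I₁ a₀ a₁ i).a : ℝ) + (endBox u₀ u₁ X₀ X₁ I₀ I₁ a₀ a₁ i).b * t =
        stabPt u X I a i * (((endBox u₀ u₁ X₀ X₁ I₀ I₁ a₀ a₁ i).c : ℝ) +
          (endBox u₀ u₁ X₀ X₁ I₀ I₁ a₀ a₁ i).d * t) := by
  intro i hi
  interval_cases i <;> simp only [endBox]
  · exact side_point (den := 1000) (by norm_num) (by simpa [stabPt] using g1)
      (by simpa [stabPt] using g2)
  · exact side_point (den := 25) (by norm_num) (by simpa [stabPt] using g0)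
      (by simpa [stabPt] using g3)
  · exact side_point (den := 1000) (by norm_num) (by simpa [stabPt] using g4)
      (by simpa [stabPt] using g5)
  · exact side_point (den := 1000) (by norm_num) (by simpa [stabPt] using g6)
      (by simpa [stabPt] using g7)

/-- From a packed condition to the sign. -/
theorem end_neg {a b I u X n g : ℝ} {k : ℤ} {x : ℕ → ℝ} (tN tG tI tA : Pack.Ex)
    (hI : tI.eval x = I) (ha : tA.eval x = a) (hu : x 0 = u) (hX : x 1 = X)
    (hn : tN.eval x = n) (hg : tG.eval x = g)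
    (hgk : g = k * (100 * ((b - a) * (b - u * a)))) (hb : b = 1 - 2 * I - a) (hg0 : g ≠ 0)
    (hd : b - a ≠ 0) (hpos : 0 < (eEndP tN tG k tI tA).eval x) :
    endT a b I u X (n / g) < 0 := by
  rw [eval_end tN tG tI tA hI ha hu hX hn hg hgk hb hg0 hd, neg_mul, neg_pos] at hpos
  exact neg_of_mul_neg_right hpos (by positivity)

theorem end_G_ne {a b u : ℝ} (ha : 0 < a) (hd : 0 < b - a) (hu1 : u ≤ 1) (k : ℤ) (hk : k ≠ 0) :
    (k : ℝ) * (100 * ((b - a) * (b - u * a))) ≠ 0 := by
  have : 0 < b - u * a := by linarith [mul_le_mul_of_nonneg_right hu1 ha.le]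
  exact mul_ne_zero (Int.cast_ne_zero.2 hk) (by positivity)

theorem end_top_box {a b I u X : ℝ} (hP : BandPlace a (1 / 2) I X) (hbI : b = 1 - 2 * I - a)
    (hu0 : 907 / 1000 ≤ u) (hu1 : u < 1) {u₀ u₁ X₀ X₁ I₀ I₁ a₀ a₁ : ℤ}
    (c1 : checkFour (endBox u₀ u₁ X₀ X₁ I₀ I₁ a₀ a₁) 560 9 4 10 16 eEndTopI = true)
    (g1 : (u₀ : ℝ) ≤ u * 1000) (g2 : u * 1000 < u₁) (g0 : (X₀ : ℝ) ≤ X * 25)
    (g3 : X * 25 < X₁) (g4 : (I₀ : ℝ) ≤ I * 1000) (g5 : I * 1000 < I₁)
    (g6 : (a₀ : ℝ) ≤ a * 1000) (g7 : a * 1000 < a₁) :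
    endT a b I u X ((100 * (b - a) - I * (1 - u) * allEndC I a (1 - u)) /
      (((1 : ℤ) : ℝ) * (100 * ((b - a) * (b - u * a))))) < 0 := by
  obtain ⟨hI0, hI20, hIa, ha, -, -, -, -⟩ := id hP
  have hd : 0 < b - a := by linarith
  have h1 := nonneg_of_checkFour c1 (end_point g1 g2 g0 g3 g4 g5 g6 g7)
  obtain ⟨e1, -, e3, -⟩ := eval_end_ends (b := b) (u := u) (x := stabPt u X I a) (.var 2) (.var 3)
    (by simp [stabPt, Ex.eval]) (by simp [stabPt, Ex.eval]) (by simp [stabPt]) hbI
  refine end_neg (u := u) (X := X) _ _ (.var 2) (.var 3) (by simp [stabPt, Ex.eval]) (by simp [stabPt, Ex.eval])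
    (by simp [stabPt]) (by simp [stabPt]) e1 e3 rfl hbI
    (end_G_ne (by linarith) hd hu1.le 1 one_ne_zero) hd.ne' ?_
  rw [eEndTopI, eval_sub'] at h1
  generalize (eEndP (eEndTop (.var 2) (.var 3)) (eEndG (.var 2) (.var 3)) 1 (.var 2)
    (.var 3)).eval (stabPt u X I a) = P at h1 ⊢
  simp only [eEndW, eU, eval_sub', eval_num', Ex.eval, stabPt] at h1
  norm_num at h1
  have : 0 < I * I * (1 - u) := mul_pos (mul_pos hI0 hI0) (by linarith)
  linarith

end AllLow

end Vale.Agent.P100.Calib.Band
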