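import Vale.Agent.P100.Calib.SlabAllEndSigns

/-!
# The upper end of the exit band, first parts
-/

open Set Filter Topology

namespace Vale.Agent.P100.Calib.Band

open Vale.Agent.P100.Bubble Chart

namespace AllLow

open Pack

theorem end_top_part0 {a b I u X : ℝ} (hP : BandPlace a (1 / 2) I X)
    (hbI : b = 1 - 2 * I - a) (hu0 : 907 / 1000 ≤ u) (hu1 : u < 1)
    (ha5 : 1 / 20 ≤ a) (k3_206 : a < (103 / 500)) (k3_122 : a < (61 / 500)) (k3_91 : a < (91 / 1000)) (k3_60 : a < (3 / 50)) :
    endT a b I u X ((100 * (b - a) - I * (1 - u) * allEndC I a (1 - u)) /
      (((1 : ℤ) : ℝ) * (100 * ((b - a) * (b - u * a))))) < 0 := by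
  obtain ⟨hI0, hI20, hIa, ha, -, -, hXlo, -⟩ := id hP
  have hX4 := hP.X_lt (31 / 100) (1 / 20) 4 ha hI20 le_rfl le_rfl (by norm_num)
  rcases lt_or_ge I (1 / 40) with k2_25 | k2_25
  · rcases lt_or_ge I (3 / 250) with k2_12 | k2_12
    · have hX := hP.X_lt (3 / 50) (3 / 250) (6 / 5) k3_60.le k2_12.le
        (by norm_num) (by norm_num) (by norm_num)
      exact end_top_box hP hbI hu0 hu1 end_TopI_0
        (by push_cast; linarith) (by push_cast; linarith) (by push_cast; linarith)
        (by push_cast; linarith) (by push_cast; linarith) (by push_cast; linarith)
        (by push_cast; linarith) (by push_cast; linarith)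
    · have hX := hP.X_lt (3 / 50) (1 / 40) (32 / 25) k3_60.le k2_25.le
        (by norm_num) (by norm_num) (by norm_num)
      exact end_top_box hP hbI hu0 hu1 end_TopI_1
        (by push_cast; linarith) (by push_cast; linarith) (by push_cast; linarith)
        (by push_cast; linarith) (by push_cast; linarith) (by push_cast; linarith)
        (by push_cast; linarith) (by push_cast; linarith)
  · rcases lt_or_ge I (19 / 500) with k2_38 | k2_38
    · have hX := hP.X_lt (3 / 50) (19 / 500) (34 / 25) k3_60.le k2_38.le
        (by norm_num) (by norm_num) (by norm_num)
      exact end_top_box hP hbI hu0 hu1 end_TopI_2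
        (by push_cast; linarith) (by push_cast; linarith) (by push_cast; linarith)
        (by push_cast; linarith) (by push_cast; linarith) (by push_cast; linarith)
        (by push_cast; linarith) (by push_cast; linarith)
    · have hX := hP.X_lt (3 / 50) (1 / 20) (36 / 25) k3_60.le hI20
        (by norm_num) (by norm_num) (by norm_num)
      exact end_top_box hP hbI hu0 hu1 end_TopI_3
        (by push_cast; linarith) (by push_cast; linarith) (by push_cast; linarith)
        (by push_cast; linarith) (by push_cast; linarith) (by push_cast; linarith)
        (by push_cast; linarith) (by push_cast; linarith)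

theorem end_top_part1 {a b I u X : ℝ} (hP : BandPlace a (1 / 2) I X)
    (hbI : b = 1 - 2 * I - a) (hu0 : 907 / 1000 ≤ u) (hu1 : u < 1)
    (ha5 : 1 / 20 ≤ a) (k3_206 : a < (103 / 500)) (k3_122 : a < (61 / 500)) (k3_91 : a < (91 / 1000)) (k3_60 : (3 / 50) ≤ a) :
    endT a b I u X ((100 * (b - a) - I * (1 - u) * allEndC I a (1 - u)) /
      (((1 : ℤ) : ℝ) * (100 * ((b - a) * (b - u * a))))) < 0 := by
  obtain ⟨hI0, hI20, hIa, ha, -, -, hXlo, -⟩ := id hP
  have hX4 := hP.X_lt (31 / 100) (1 / 20) 4 ha hI20 le_rfl le_rfl (by norm_num)
  rcases lt_or_ge I (1 / 40) with k2_25 | k2_25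
  · rcases lt_or_ge I (3 / 500) with k2_6 | k2_6
    · have hX := hP.X_lt (91 / 1000) (3 / 500) (32 / 25) k3_91.le k2_6.le
        (by norm_num) (by norm_num) (by norm_num)
      exact end_top_box hP hbI hu0 hu1 end_TopI_4
        (by push_cast; linarith) (by push_cast; linarith) (by push_cast; linarith)
        (by push_cast; linarith) (by push_cast; linarith) (by push_cast; linarith)
        (by push_cast; linarith) (by push_cast; linarith)
    · rcases lt_or_ge I (3 / 250) with k2_12 | k2_12
      · have hX := hP.X_lt (91 / 1000) (3 / 250) (33 / 25) k3_91.le k2_12.le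
          (by norm_num) (by norm_num) (by norm_num)
        exact end_top_box hP hbI hu0 hu1 end_TopI_5
          (by push_cast; linarith) (by push_cast; linarith) (by push_cast; linarith)
          (by push_cast; linarith) (by push_cast; linarith) (by push_cast; linarith)
          (by push_cast; linarith) (by push_cast; linarith)
      · have hX := hP.X_lt (91 / 1000) (1 / 40) (7 / 5) k3_91.le k2_25.le
          (by norm_num) (by norm_num) (by norm_num)
        exact end_top_box hP hbI hu0 hu1 end_TopI_6
          (by push_cast; linarith) (by push_cast; linarith) (by push_cast; linarith)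
          (by push_cast; linarith) (by push_cast; linarith) (by push_cast; linarith)
          (by push_cast; linarith) (by push_cast; linarith)
  · rcases lt_or_ge a (3 / 40) with k3_75 | k3_75
    · rcases lt_or_ge I (19 / 500) with k2_38 | k2_38
      · have hX := hP.X_lt (3 / 40) (19 / 500) (7 / 5) k3_75.le k2_38.le
          (by norm_num) (by norm_num) (by norm_num)
        exact end_top_box hP hbI hu0 hu1 end_TopI_7
          (by push_cast; linarith) (by push_cast; linarith) (by push_cast; linarith)
          (by push_cast; linarith) (by push_cast; linarith) (by push_cast; linarith)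
          (by push_cast; linarith) (by push_cast; linarith)
      · have hX := hP.X_lt (3 / 40) (1 / 20) (38 / 25) k3_75.le hI20
          (by norm_num) (by norm_num) (by norm_num)
        exact end_top_box hP hbI hu0 hu1 end_TopI_8
          (by push_cast; linarith) (by push_cast; linarith) (by push_cast; linarith)
          (by push_cast; linarith) (by push_cast; linarith) (by push_cast; linarith)
          (by push_cast; linarith) (by push_cast; linarith)
    · have hX := hP.X_lt (91 / 1000) (1 / 20) (39 / 25) k3_91.le hI20
        (by norm_num) (by norm_num) (by norm_num)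
      exact end_top_box hP hbI hu0 hu1 end_TopI_9
        (by push_cast; linarith) (by push_cast; linarith) (by push_cast; linarith)
        (by push_cast; linarith) (by push_cast; linarith) (by push_cast; linarith)
        (by push_cast; linarith) (by push_cast; linarith)

theorem end_top_part2 {a b I u X : ℝ} (hP : BandPlace a (1 / 2) I X)
    (hbI : b = 1 - 2 * I - a) (hu0 : 907 / 1000 ≤ u) (hu1 : u < 1)
    (ha5 : 1 / 20 ≤ a) (k3_206 : a < (103 / 500)) (k3_122 : a < (61 / 500)) (k3_91 : (91 / 1000) ≤ a) :
    endT a b I u X ((100 * (b - a) - I * (1 - u) * allEndC I a (1 - u)) /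
      (((1 : ℤ) : ℝ) * (100 * ((b - a) * (b - u * a))))) < 0 := by
  obtain ⟨hI0, hI20, hIa, ha, -, -, hXlo, -⟩ := id hP
  have hX4 := hP.X_lt (31 / 100) (1 / 20) 4 ha hI20 le_rfl le_rfl (by norm_num)
  rcases lt_or_ge I (19 / 500) with k2_38 | k2_38
  · rcases lt_or_ge I (1 / 40) with k2_25 | k2_25
    · have hX := hP.X_lt (61 / 500) (1 / 40) (38 / 25) k3_122.le k2_25.le
        (by norm_num) (by norm_num) (by norm_num)
      exact end_top_box hP hbI hu0 hu1 end_TopI_10
        (by push_cast; linarith) (by push_cast; linarith) (by push_cast; linarith)
        (by push_cast; linarith) (by push_cast; linarith) (by push_cast; linarith)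
        (by push_cast; linarith) (by push_cast; linarith)
    · rcases lt_or_ge a (53 / 500) with k3_106 | k3_106
      · have hX := hP.X_lt (53 / 500) (19 / 500) (39 / 25) k3_106.le k2_38.le
          (by norm_num) (by norm_num) (by norm_num)
        exact end_top_box hP hbI hu0 hu1 end_TopI_11
          (by push_cast; linarith) (by push_cast; linarith) (by push_cast; linarith)
          (by push_cast; linarith) (by push_cast; linarith) (by push_cast; linarith)
          (by push_cast; linarith) (by push_cast; linarith)
      · have hX := hP.X_lt (61 / 500) (19 / 500) (8 / 5) k3_122.le k2_38.le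
          (by norm_num) (by norm_num) (by norm_num)
        exact end_top_box hP hbI hu0 hu1 end_TopI_13
          (by push_cast; linarith) (by push_cast; linarith) (by push_cast; linarith)
          (by push_cast; linarith) (by push_cast; linarith) (by push_cast; linarith)
          (by push_cast; linarith) (by push_cast; linarith)
  · rcases lt_or_ge a (53 / 500) with k3_106 | k3_106
    · have hX := hP.X_lt (53 / 500) (1 / 20) (41 / 25) k3_106.le hI20
        (by norm_num) (by norm_num) (by norm_num)
      exact end_top_box hP hbI hu0 hu1 end_TopI_12
        (by push_cast; linarith) (by push_cast; linarith) (by push_cast; linarith)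
        (by push_cast; linarith) (by push_cast; linarith) (by push_cast; linarith)
        (by push_cast; linarith) (by push_cast; linarith)
    · have hX := hP.X_lt (61 / 500) (1 / 20) (43 / 25) k3_122.le hI20
        (by norm_num) (by norm_num) (by norm_num)
      exact end_top_box hP hbI hu0 hu1 end_TopI_14
        (by push_cast; linarith) (by push_cast; linarith) (by push_cast; linarith)
        (by push_cast; linarith) (by push_cast; linarith) (by push_cast; linarith)
        (by push_cast; linarith) (by push_cast; linarith)

theorem end_top_part3 {a b I u X : ℝ} (hP : BandPlace a (1 / 2) I X)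
    (hbI : b = 1 - 2 * I - a) (hu0 : 907 / 1000 ≤ u) (hu1 : u < 1)
    (ha5 : 1 / 20 ≤ a) (k3_206 : a < (103 / 500)) (k3_122 : (61 / 500) ≤ a) (k3_153 : a < (153 / 1000)) :
    endT a b I u X ((100 * (b - a) - I * (1 - u) * allEndC I a (1 - u)) /
      (((1 : ℤ) : ℝ) * (100 * ((b - a) * (b - u * a))))) < 0 := by
  obtain ⟨hI0, hI20, hIa, ha, -, -, hXlo, -⟩ := id hP
  have hX4 := hP.X_lt (31 / 100) (1 / 20) 4 ha hI20 le_rfl le_rfl (by norm_num)
  rcases lt_or_ge a (137 / 1000) with k3_137 | k3_137
  · rcases lt_or_ge I (1 / 40) with k2_25 | k2_25
    · have hX := hP.X_lt (137 / 1000) (1 / 40) (39 / 25) k3_137.le k2_25.le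
        (by norm_num) (by norm_num) (by norm_num)
      exact end_top_box hP hbI hu0 hu1 end_TopI_15
        (by push_cast; linarith) (by push_cast; linarith) (by push_cast; linarith)
        (by push_cast; linarith) (by push_cast; linarith) (by push_cast; linarith)
        (by push_cast; linarith) (by push_cast; linarith)
    · rcases lt_or_ge I (19 / 500) with k2_38 | k2_38
      · have hX := hP.X_lt (137 / 1000) (19 / 500) (42 / 25) k3_137.le k2_38.le
          (by norm_num) (by norm_num) (by norm_num)
        exact end_top_box hP hbI hu0 hu1 end_TopI_16
          (by push_cast; linarith) (by push_cast; linarith) (by push_cast; linarith)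
          (by push_cast; linarith) (by push_cast; linarith) (by push_cast; linarith)
          (by push_cast; linarith) (by push_cast; linarith)
      · have hX := hP.X_lt (137 / 1000) (1 / 20) (9 / 5) k3_137.le hI20
          (by norm_num) (by norm_num) (by norm_num)
        exact end_top_box hP hbI hu0 hu1 end_TopI_17
          (by push_cast; linarith) (by push_cast; linarith) (by push_cast; linarith)
          (by push_cast; linarith) (by push_cast; linarith) (by push_cast; linarith)
          (by push_cast; linarith) (by push_cast; linarith)
  · rcases lt_or_ge I (1 / 40) with k2_25 | k2_25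
    · have hX := hP.X_lt (153 / 1000) (1 / 40) (41 / 25) k3_153.le k2_25.le
        (by norm_num) (by norm_num) (by norm_num)
      exact end_top_box hP hbI hu0 hu1 end_TopI_18
        (by push_cast; linarith) (by push_cast; linarith) (by push_cast; linarith)
        (by push_cast; linarith) (by push_cast; linarith) (by push_cast; linarith)
        (by push_cast; linarith) (by push_cast; linarith)
    · rcases lt_or_ge I (19 / 500) with k2_38 | k2_38
      · have hX := hP.X_lt (153 / 1000) (19 / 500) (44 / 25) k3_153.le k2_38.le
          (by norm_num) (by norm_num) (by norm_num)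
        exact end_top_box hP hbI hu0 hu1 end_TopI_19
          (by push_cast; linarith) (by push_cast; linarith) (by push_cast; linarith)
          (by push_cast; linarith) (by push_cast; linarith) (by push_cast; linarith)
          (by push_cast; linarith) (by push_cast; linarith)
      · have hX := hP.X_lt (153 / 1000) (1 / 20) (47 / 25) k3_153.le hI20
          (by norm_num) (by norm_num) (by norm_num)
        exact end_top_box hP hbI hu0 hu1 end_TopI_20
          (by push_cast; linarith) (by push_cast; linarith) (by push_cast; linarith)
          (by push_cast; linarith) (by push_cast; linarith) (by push_cast; linarith)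
          (by push_cast; linarith) (by push_cast; linarith)

theorem end_top_part4 {a b I u X : ℝ} (hP : BandPlace a (1 / 2) I X)
    (hbI : b = 1 - 2 * I - a) (hu0 : 907 / 1000 ≤ u) (hu1 : u < 1)
    (ha5 : 1 / 20 ≤ a) (k3_206 : a < (103 / 500)) (k3_122 : (61 / 500) ≤ a) (k3_153 : (153 / 1000) ≤ a) :
    endT a b I u X ((100 * (b - a) - I * (1 - u) * allEndC I a (1 - u)) /
      (((1 : ℤ) : ℝ) * (100 * ((b - a) * (b - u * a))))) < 0 := by
  obtain ⟨hI0, hI20, hIa, ha, -, -, hXlo, -⟩ := id hP
  have hX4 := hP.X_lt (31 / 100) (1 / 20) 4 ha hI20 le_rfl le_rfl (by norm_num)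
  rcases lt_or_ge a (169 / 1000) with k3_169 | k3_169
  · rcases lt_or_ge I (1 / 40) with k2_25 | k2_25
    · have hX := hP.X_lt (169 / 1000) (1 / 40) (44 / 25) k3_169.le k2_25.le
        (by norm_num) (by norm_num) (by norm_num)
      exact end_top_box hP hbI hu0 hu1 end_TopI_21
        (by push_cast; linarith) (by push_cast; linarith) (by push_cast; linarith)
        (by push_cast; linarith) (by push_cast; linarith) (by push_cast; linarith)
        (by push_cast; linarith) (by push_cast; linarith)
    · rcases lt_or_ge I (19 / 500) with k2_38 | k2_38
      · have hX := hP.X_lt (169 / 1000) (19 / 500) (47 / 25) k3_169.le k2_38.le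
          (by norm_num) (by norm_num) (by norm_num)
        exact end_top_box hP hbI hu0 hu1 end_TopI_22
          (by push_cast; linarith) (by push_cast; linarith) (by push_cast; linarith)
          (by push_cast; linarith) (by push_cast; linarith) (by push_cast; linarith)
          (by push_cast; linarith) (by push_cast; linarith)
      · have hX := hP.X_lt (169 / 1000) (1 / 20) 2 k3_169.le hI20
          (by norm_num) (by norm_num) (by norm_num)
        exact end_top_box hP hbI hu0 hu1 end_TopI_23
          (by push_cast; linarith) (by push_cast; linarith) (by push_cast; linarith)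
          (by push_cast; linarith) (by push_cast; linarith) (by push_cast; linarith)
          (by push_cast; linarith) (by push_cast; linarith)
  · rcases lt_or_ge a (37 / 200) with k3_185 | k3_185
    · rcases lt_or_ge I (1 / 40) with k2_25 | k2_25
      · have hX := hP.X_lt (37 / 200) (1 / 40) (46 / 25) k3_185.le k2_25.le
          (by norm_num) (by norm_num) (by norm_num)
        exact end_top_box hP hbI hu0 hu1 end_TopI_24
          (by push_cast; linarith) (by push_cast; linarith) (by push_cast; linarith)
          (by push_cast; linarith) (by push_cast; linarith) (by push_cast; linarith)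
          (by push_cast; linarith) (by push_cast; linarith)
      · have hX := hP.X_lt (37 / 200) (1 / 20) (53 / 25) k3_185.le hI20
          (by norm_num) (by norm_num) (by norm_num)
        exact end_top_box hP hbI hu0 hu1 end_TopI_25
          (by push_cast; linarith) (by push_cast; linarith) (by push_cast; linarith)
          (by push_cast; linarith) (by push_cast; linarith) (by push_cast; linarith)
          (by push_cast; linarith) (by push_cast; linarith)
    · rcases lt_or_ge I (1 / 40) with k2_25 | k2_25
      · have hX := hP.X_lt (103 / 500) (1 / 40) (49 / 25) k3_206.le k2_25.le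
          (by norm_num) (by norm_num) (by norm_num)
        exact end_top_box hP hbI hu0 hu1 end_TopI_26
          (by push_cast; linarith) (by push_cast; linarith) (by push_cast; linarith)
          (by push_cast; linarith) (by push_cast; linarith) (by push_cast; linarith)
          (by push_cast; linarith) (by push_cast; linarith)
      · rcases lt_or_ge a (39 / 200) with k3_195 | k3_195
        · have hX := hP.X_lt (39 / 200) (1 / 20) (11 / 5) k3_195.le hI20
            (by norm_num) (by norm_num) (by norm_num)
          exact end_top_box hP hbI hu0 hu1 end_TopI_27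
            (by push_cast; linarith) (by push_cast; linarith) (by push_cast; linarith)
            (by push_cast; linarith) (by push_cast; linarith) (by push_cast; linarith)
            (by push_cast; linarith) (by push_cast; linarith)
        · have hX := hP.X_lt (103 / 500) (1 / 20) (57 / 25) k3_206.le hI20
            (by norm_num) (by norm_num) (by norm_num)
          exact end_top_box hP hbI hu0 hu1 end_TopI_28
            (by push_cast; linarith) (by push_cast; linarith) (by push_cast; linarith)
            (by push_cast; linarith) (by push_cast; linarith) (by push_cast; linarith)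
            (by push_cast; linarith) (by push_cast; linarith)

end AllLow

end Vale.Agent.P100.Calib.Band
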