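import Vale.Agent.P100.Calib.SlabAllStabExpr

/-!
# The numerator of the exit condition at the lower band

On the curve `v (50 - 100 a u - 25 I u (2 + 3 u)) = 2 I (56 + 100 I)` everything is cleared by
that bracket and by `100 (b - u a)`; the second variable does not occur.
-/

namespace Vale.Agent.P100.Calib.Band.AllLow

open Pack

local instance allExitAdd : Add Pack.Ex := ⟨Ex.add⟩
local instance allExitSub : Sub Pack.Ex := ⟨Ex.sub⟩
local instance allExitMul : Mul Pack.Ex := ⟨Ex.mul⟩

/-- The bracket. -/
def eExitDen (I a : Pack.Ex) : Pack.Ex :=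
  eN 50 - eN 100 * a * eU - eN 25 * (I * eU * (eN 2 + eN 3 * eU))

/-- Its derivative with the sign changed. -/
def eExitDl (I a : Pack.Ex) : Pack.Ex := eN 100 * a + eN 25 * (I * (eN 2 + eN 6 * eU))

/-- `v` times the bracket. -/
def eExitV (I : Pack.Ex) : Pack.Ex := eN 2 * I * (eN 56 + eN 100 * I)

/-- The lower band times the bracket. -/
def eExitN (I a : Pack.Ex) : Pack.Ex :=
  (eN 100 + I * (eN 450 * I - eN 413 +
    eN 100 * (eU * (eStabL1 I a + eU * (eStabL2 I a + eU * eStabL3 a))))) * eExitDen I a +
    eStabK I a * eExitV I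

/-- `qn` times the bracket. -/
def eExitQn (I a : Pack.Ex) : Pack.Ex :=
  eB I a * (eN 2 * eExitDen I a + eD I a * eExitV I) -
    eS I * eU * (eExitDen I a + eD I a * eExitV I)

/-- The denominator of `qv`, cleared. -/
def eExitBig (I a : Pack.Ex) : Pack.Ex :=
  (eN 2 * eExitDen I a + eD I a * eExitV I) * eStabGd I a - eU * eD I a * eExitN I a

/-- The numerator of `ev`, cleared. -/
def eExitEn (I a : Pack.Ex) : Pack.Ex :=
  (eStabGd I a * eExitDen I a - eU * eD I a * eExitN I a) * eExitQn I a -
    eS I * (eN 1 - eU) * eB I a * eExitBig I a * eExitDen I a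

/-- The numerator of the radial speed, cleared. -/
def eExitFlow (I a : Pack.Ex) : Pack.Ex :=
  eExitQn I a * eExitN I a - eS I * (eExitDen I a - a * eExitV I) * eExitBig I a

/-- The exit condition, less `I (a + I)`. -/
def eExit : Pack.Ex :=
  eExitFlow (.var 2) (.var 3) * (eExitDen (.var 2) (.var 3) +
      eD (.var 2) (.var 3) * eExitV (.var 2)) * eExitDen (.var 2) (.var 3) -
    eExitV (.var 2) * eExitDl (.var 2) (.var 3) * eExitEn (.var 2) (.var 3) -
    .var 2 * (.var 3 + .var 2)

/-- A box in thousandths; the second variable is idle. -/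
def exitBox (u₀ u₁ I₀ I₁ a₀ a₁ : ℤ) : ℕ → Chart := stabBox u₀ u₁ 25 I₀ I₁ a₀ a₁

theorem exit_a : checkFour (exitBox 0 500 0 51 0 155) 470 12 0 11 7 eExit = true := by
  decide +kernel

theorem exit_b : checkFour (exitBox 0 500 0 51 155 311) 470 12 0 11 7 eExit = true := by
  decide +kernel

theorem exit_c : checkFour (exitBox 500 750 0 12 0 19) 470 12 0 11 7 eExit = true := by
  decide +kernel

theorem exit_d : checkFour (exitBox 750 1000 0 12 9 19) 470 12 0 11 7 eExit = true := by
  decide +kernel

theorem exit_e : checkFour (exitBox 500 1000 12 25 0 19) 470 12 0 11 7 eExit = true := by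
  decide +kernel

theorem exit_f : checkFour (exitBox 500 1000 25 51 0 19) 470 12 0 11 7 eExit = true := by
  decide +kernel

theorem exit_g : checkFour (exitBox 500 1000 0 51 19 38) 470 12 0 11 7 eExit = true := by
  decide +kernel

theorem exit_h : checkFour (exitBox 500 1000 0 51 38 77) 470 12 0 11 7 eExit = true := by
  decide +kernel

theorem exit_i : checkFour (exitBox 500 1000 0 51 77 155) 470 12 0 11 7 eExit = true := by
  decide +kernel

theorem exit_j : checkFour (exitBox 500 1000 0 51 155 233) 470 12 0 11 7 eExit = true := by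
  decide +kernel

theorem exit_k : checkFour (exitBox 500 750 0 51 233 272) 470 12 0 11 7 eExit = true := by
  decide +kernel

theorem exit_l : checkFour (exitBox 500 750 0 51 272 311) 470 12 0 11 7 eExit = true := by
  decide +kernel

theorem exit_m : checkFour (exitBox 750 1000 0 51 233 311) 470 12 0 11 7 eExit = true := by
  decide +kernel

end Vale.Agent.P100.Calib.Band.AllLow
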