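import Vale.Agent.P100.Calib.SlabAllStab
import Vale.Agent.P100.Calib.SlabAllExitExpr

/-!
# The exit curve in every dimension from twenty on

Below `u = 199/200` the orbit has `v (50 - 100 a u - 25 I u (2 + 3 u)) < 2 I (56 + 100 I)`;
at `u = 199/200` this follows from the range of `v`.
-/

open Set Filter Topology

namespace Vale.Agent.P100.Calib.Band

open Vale.Agent.P100.Bubble Chart

/-- The bracket of the exit curve. -/
def allExitDen (I a u : ℝ) : ℝ := 50 - 100 * a * u - 25 * (I * u * (2 + 3 * u))

/-- Its derivative with the sign changed. -/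
def allExitDl (I a u : ℝ) : ℝ := 100 * a + 25 * (I * (2 + 6 * u))

/-- The exit function. -/
noncomputable def allExitF (a b u v : ℝ) : ℝ :=
  2 * allStabI a b * (56 + 100 * allStabI a b) - v * allExitDen (allStabI a b) a u

theorem hasGrad_allExit (a b : ℝ) :
    HasGrad (fun u v _ => allExitF a b u v)
      (fun u v _ => v * allExitDl (allStabI a b) a u)
      (fun u _ _ => -allExitDen (allStabI a b) a u) (fun _ _ _ => 0) := by
  intro u v H du dv dh t hu hv _
  have h1 := hu.const_mul (100 * a)
  have h2 := ((hu.const_mul (allStabI a b)).fun_mul ((hu.const_mul 3).const_add 2)).const_mul 25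
  refine ((hv.fun_mul ((h1.const_sub 50).fun_sub h2)).const_sub
    (2 * allStabI a b * (56 + 100 * allStabI a b))).congr_deriv ?_
  simp only [allExitDen, allExitDl]
  ring

namespace AllLow

open Pack

local instance allExitRealAdd : Add Pack.Ex := ⟨Ex.add⟩
local instance allExitRealSub : Sub Pack.Ex := ⟨Ex.sub⟩
local instance allExitRealMul : Mul Pack.Ex := ⟨Ex.mul⟩

theorem exitDen_pos {a I u : ℝ} (hI0 : 0 < I) (hI20 : I ≤ 1 / 20) (ha0 : 0 < a)
    (ha : a ≤ 31 / 100) (hu : 0 ≤ u) (hu1 : u ≤ 1) : 0 < allExitDen I a u := by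
  have h1 : a * u ≤ a := mul_le_of_le_one_right ha0.le hu1
  have h2 : I * u * (2 + 3 * u) ≤ 1 / 20 * 1 * 5 :=
    mul_le_mul (mul_le_mul hI20 hu1 hu (by norm_num)) (by linarith) (by linarith) (by norm_num)
  simp only [allExitDen]
  linarith

theorem exit_corner {a b I u X : ℝ} (hP : BandPlace a (1 / 2) I X) (hbI : b = 1 - 2 * I - a)
    (hu : 0 < u) (hu1 : u < 1) (hF : allExitF a b u (2 * I * X) = 0) (hI : I < 3 / 250)
    (hA : a < 9 / 1000) : False := by
  obtain ⟨hI0, hI20, hIa, ha, -, -, hXlo, hXhi⟩ := id hP
  have ha0 : 0 < a := by linarith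
  have eI' : allStabI a b = I := by rw [allStabI, hbI]; ring
  have hD := exitDen_pos hI0 hI20 ha0 ha hu.le hu1.le
  simp only [allExitF, eI'] at hF
  have hX : X * allExitDen I a u = 56 + 100 * I := by
    refine mul_left_cancel₀ (mul_pos two_pos hI0).ne' ?_
    linarith
  have hD50 : allExitDen I a u ≤ 50 := by
    have : 0 ≤ a * u := by positivity
    have : 0 ≤ I * u * (2 + 3 * u) := by positivity
    simp only [allExitDen]
    linarith
  have h1 := mul_lt_mul_of_pos_right hXhi hD
  rw [one_mul, mul_assoc, hX] at h1
  have h2 : (244 / 250 : ℝ) * (950 / 1000) ≤ (1 - 2 * I) * (1 - 2 * I - 2 * a) :=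
    mul_le_mul (by linarith) (by linarith) (by norm_num) (by linarith)
  have h3 := mul_le_mul h2 (show (56 : ℝ) ≤ 56 + 100 * I by linarith) (by norm_num)
    (le_trans (by norm_num) h2)
  linarith

/-- `dot` on the curve is affine and decreasing in `H`. -/
theorem exit_affine {a b u v dl den H G : ℝ} (ha : 0 ≤ a) (hd : 0 ≤ b - a) (hS : a + b ≤ 2)
    (hv : 0 ≤ v) (hav : a * v ≤ 1) (hu : 0 ≤ u) (hu1 : u ≤ 1) (hdl : 0 ≤ dl) (hden : 0 ≤ den)
    (hH : G ≤ H) :
    allDot a b u v H (v * dl) (-den) 0 ≤ allDot a b u v G (v * dl) (-den) 0 := by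
  have hb : 0 ≤ b := by linarith
  have hS0 : 0 ≤ a + b := by linarith
  have hdv : 0 ≤ (b - a) * v := by positivity
  have key : 0 ≤ allQn a b u v - (a + b) * (1 - u) * b := by
    have e : allQn a b u v - (a + b) * (1 - u) * b =
        (1 - u) * ((2 - (a + b)) * b + b * ((b - a) * v)) + u * ((b - a) * (1 - a * v)) := by
      simp only [allQn]; ring
    rw [e]
    exact add_nonneg (mul_nonneg (by linarith) (add_nonneg (mul_nonneg (by linarith) hb)
      (mul_nonneg hb hdv))) (mul_nonneg hu (mul_nonneg hd (by linarith)))
  have hq : 0 ≤ allQn a b u v := by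
    linarith [mul_nonneg (mul_nonneg hS0 (show (0 : ℝ) ≤ 1 - u by linarith)) hb]
  have e : allDot a b u v G (v * dl) (-den) 0 - allDot a b u v H (v * dl) (-den) 0 =
      (H - G) * (v * dl * u * (u * (b - a) * (allQn a b u v - (a + b) * (1 - u) * b)) +
        den * (1 + (b - a) * v) * u *
          (allQn a b u v + (a + b) * (1 - a * v) * (u * (b - a)))) := by
    simp only [allDot, allEn, allFlow, allDen]; ring
  have h1 : 0 ≤ 1 - a * v := by linarith
  have h2 : 0 ≤ H - G := by linarith
  rw [← sub_nonneg, e]
  positivity

/-- The value of the packed exit condition. -/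
theorem eval_exit {a b I u X v : ℝ} (hb : b = 1 - 2 * I - a) (hu1 : u ≤ 1) (ha0 : 0 < a)
    (hd : 0 < b - a) (hV : v * allExitDen I a u = 2 * I * (56 + 100 * I)) :
    (eExit.eval (stabPt u X I a) + I * (a + I)) * u =
      -allDot a b u v (allStabLG a b u v) (v * allExitDl I a u) (-allExitDen I a u) 0 *
        (allExitDen I a u ^ 2 * (100 * (b - u * a))) * allExitDen I a u := by
  have hw : 0 < b - u * a := by linarith [mul_le_mul_of_nonneg_right hu1 ha0.le]
  have hG : 100 * (b - u * a) ≠ 0 := (mul_pos (by norm_num) hw).ne'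
  have eI' : allStabI a b = I := by rw [allStabI, hb]; ring
  set x := stabPt u X I a with hx
  have hI : (Ex.var 2).eval x = I := by simp [hx, Ex.eval, stabPt]
  have va : (Ex.var 3).eval x = a := by simp [hx, Ex.eval, stabPt]
  have vU : eU.eval x = u := by simp [hx, eU, Ex.eval, stabPt]
  have vS : (AllLow.eS (.var 2)).eval x = a + b := by
    simp only [AllLow.eS, eval_sub', eval_mul', eval_num', hI]; push_cast; rw [hb]; ring
  have vB : (eB (.var 2) (.var 3)).eval x = b := by simp only [eB, eval_sub', vS, va]; ring
  have vD : (eD (.var 2) (.var 3)).eval x = b - a := by simp only [eD, eval_sub', vB, va]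
  have vE : (eExitDen (.var 2) (.var 3)).eval x = allExitDen I a u := by
    simp only [eExitDen, allExitDen, eval_add', eval_sub', eval_mul', eval_num', hI, va, vU]
    push_cast; ring
  have vL : (eExitDl (.var 2) (.var 3)).eval x = allExitDl I a u := by
    simp only [eExitDl, allExitDl, eval_add', eval_mul', eval_num', hI, va, vU]
    push_cast; ring
  have vV : (eExitV (.var 2)).eval x = v * allExitDen I a u := by
    rw [hV]; simp only [eExitV, eval_add', eval_mul', eval_num', hI]; push_cast; ring
  have vGd : (eStabGd (.var 2) (.var 3)).eval x = 100 * (b - u * a) := by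
    simp only [eStabGd, eW, eval_sub', eval_mul', eval_num', vB, vU, va]; push_cast; ring
  have vN : (eExitN (.var 2) (.var 3)).eval x =
      allStabN (allStabLC I a) I a b u v * allExitDen I a u := by
    simp only [eExitN, eStabK, eStabL1, eStabL2, eStabL3, allStabN, allStabLC, allStabK,
      eval_add', eval_sub', eval_mul', eval_num', vE, vV, vB, hI, va, vU]
    generalize allExitDen I a u = e
    push_cast; ring
  have vQn : (eExitQn (.var 2) (.var 3)).eval x = allQn a b u v * allExitDen I a u := by
    simp only [eExitQn, allQn, eval_add', eval_sub', eval_mul', eval_num', vS, vB, vD, vE, vV, vU]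
    push_cast; ring
  have vBig : (eExitBig (.var 2) (.var 3)).eval x = allExitDen I a u *
      ((2 + (b - a) * v) * (100 * (b - u * a)) -
        u * (b - a) * allStabN (allStabLC I a) I a b u v) := by
    simp only [eExitBig, eval_add', eval_sub', eval_mul', eval_num', vD, vE, vV, vGd, vN, vU]
    push_cast; ring
  have eG : allStabLG a b u v = allStabN (allStabLC I a) I a b u v / (100 * (b - u * a)) := by
    simp only [allStabLG, allStabG, eI', (allPole_eq (a := a) (b := b) hu1).1]
  rw [eG]
  simp only [eExit, eExitFlow, eExitEn, eval_add', eval_sub', eval_mul', eval_num', vBig, vQn, vN,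
    vS, vB, vD, vE, vL, vV, vGd, vU, hI, va, allDot, allEn, allFlow, allDen]
  generalize allQn a b u v = Q
  generalize allStabN (allStabLC I a) I a b u v = n
  generalize 100 * (b - u * a) = g at hG ⊢
  generalize allExitDen I a u = e
  generalize allExitDl I a u = dl
  push_cast
  field_simp
  ring

theorem exit_box {a b I u X H : ℝ} (hP : BandPlace a (1 / 2) I X) (hbI : b = 1 - 2 * I - a)
    (hu : 0 < u) (hu1 : u < 1) (hF : allExitF a b u (2 * I * X) = 0)
    (hH : allStabLG a b u (2 * I * X) < H ∧ a * (2 * I * X) < 1)
    {u₀ u₁ I₀ I₁ a₀ a₁ : ℤ}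
    (c1 : checkFour (exitBox u₀ u₁ I₀ I₁ a₀ a₁) 470 12 0 11 7 eExit = true)
    (g1 : (u₀ : ℝ) ≤ u * 1000) (g2 : u * 1000 < u₁)
    (g4 : (I₀ : ℝ) ≤ I * 1000) (g5 : I * 1000 < I₁) (g6 : (a₀ : ℝ) ≤ a * 1000)
    (g7 : a * 1000 < a₁) :
    allDot a b u (2 * I * X) H (2 * I * X * allExitDl I a u) (-allExitDen I a u) 0 < 0 := by
  obtain ⟨hI0, hI20, hIa, ha, -, -, hXlo, -⟩ := id hP
  have ha0 : 0 < a := by linarith
  have hd : 0 < b - a := by linarith
  have hD := exitDen_pos hI0 hI20 ha0 ha hu.le hu1.le
  have eI' : allStabI a b = I := by rw [allStabI, hbI]; ring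
  simp only [allExitF, eI'] at hF
  have h1 := nonneg_of_checkFour c1 (stab_point (X := 24 / 25) le_rfl g1 g2
    (by push_cast; norm_num) g4 g5 g6 g7)
  have k := eval_exit (X := 24 / 25) (v := 2 * I * X) hbI hu1.le ha0 hd (by linarith)
  have hm := exit_affine (dl := allExitDl I a u) (den := allExitDen I a u) ha0.le hd.le
    (by linarith) (by positivity) hH.2.le hu.le hu1.le
    (by simp only [allExitDl]; positivity) hD.le hH.1.le
  refine hm.trans_lt (neg_pos.1 ?_)
  have hw : 0 < b - u * a := by linarith [mul_le_mul_of_nonneg_right hu1.le ha0.le]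
  refine pos_of_mul_pos_left (b := allExitDen I a u ^ 2 * (100 * (b - u * a))) ?_ (by positivity)
  refine pos_of_mul_pos_left (b := allExitDen I a u) ?_ hD.le
  rw [← k]
  exact mul_pos (by linarith [mul_pos hI0 (add_pos ha0 hI0)]) hu

/-- The sign of the exit condition above the lower band. -/
theorem exit_signs {a b I u X H : ℝ} (hP : BandPlace a (1 / 2) I X) (hbI : b = 1 - 2 * I - a)
    (hu : 0 < u) (hu1 : u < 1) (hF : allExitF a b u (2 * I * X) = 0)
    (hH : allStabLG a b u (2 * I * X) < H ∧ a * (2 * I * X) < 1) :
    allDot a b u (2 * I * X) H (2 * I * X * allExitDl I a u) (-allExitDen I a u) 0 < 0 := by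
  obtain ⟨hI0, hI20, hIa, ha, -, -, -, -⟩ := id hP
  rcases lt_or_ge a (31 / 200) with k3155 | k3155
  · rcases lt_or_ge u (1 / 2) with k0500 | k0500
    · exact exit_box hP hbI hu hu1 hF hH exit_a (by push_cast; linarith) (by push_cast; linarith)
        (by push_cast; linarith) (by push_cast; linarith) (by push_cast; linarith)
        (by push_cast; linarith)
    · rcases lt_or_ge a (19 / 1000) with k319 | k319
      · rcases lt_or_ge I (3 / 250) with k212 | k212
        · rcases lt_or_ge u (3 / 4) with k0750 | k0750
          · exact exit_box hP hbI hu hu1 hF hH exit_c (by push_cast; linarith) (by push_cast; linarith)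
              (by push_cast; linarith) (by push_cast; linarith) (by push_cast; linarith)
              (by push_cast; linarith)
          · rcases lt_or_ge a (9 / 1000) with k39 | k39
            · exact absurd (exit_corner hP hbI hu hu1 hF k212 k39) id
            · exact exit_box hP hbI hu hu1 hF hH exit_d (by push_cast; linarith) (by push_cast; linarith)
                (by push_cast; linarith) (by push_cast; linarith) (by push_cast; linarith)
                (by push_cast; linarith)
        · rcases lt_or_ge I (1 / 40) with k225 | k225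
          · exact exit_box hP hbI hu hu1 hF hH exit_e (by push_cast; linarith) (by push_cast; linarith)
              (by push_cast; linarith) (by push_cast; linarith) (by push_cast; linarith)
              (by push_cast; linarith)
          · exact exit_box hP hbI hu hu1 hF hH exit_f (by push_cast; linarith) (by push_cast; linarith)
              (by push_cast; linarith) (by push_cast; linarith) (by push_cast; linarith)
              (by push_cast; linarith)
      · rcases lt_or_ge a (19 / 500) with k338 | k338
        · exact exit_box hP hbI hu hu1 hF hH exit_g (by push_cast; linarith) (by push_cast; linarith)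
            (by push_cast; linarith) (by push_cast; linarith) (by push_cast; linarith)
            (by push_cast; linarith)
        · rcases lt_or_ge a (77 / 1000) with k377 | k377
          · exact exit_box hP hbI hu hu1 hF hH exit_h (by push_cast; linarith) (by push_cast; linarith)
              (by push_cast; linarith) (by push_cast; linarith) (by push_cast; linarith)
              (by push_cast; linarith)
          · exact exit_box hP hbI hu hu1 hF hH exit_i (by push_cast; linarith) (by push_cast; linarith)
              (by push_cast; linarith) (by push_cast; linarith) (by push_cast; linarith)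
              (by push_cast; linarith)
  · rcases lt_or_ge u (1 / 2) with k0500 | k0500
    · exact exit_box hP hbI hu hu1 hF hH exit_b (by push_cast; linarith) (by push_cast; linarith)
        (by push_cast; linarith) (by push_cast; linarith) (by push_cast; linarith)
        (by push_cast; linarith)
    · rcases lt_or_ge a (233 / 1000) with k3233 | k3233
      · exact exit_box hP hbI hu hu1 hF hH exit_j (by push_cast; linarith) (by push_cast; linarith)
          (by push_cast; linarith) (by push_cast; linarith) (by push_cast; linarith)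
          (by push_cast; linarith)
      · rcases lt_or_ge u (3 / 4) with k0750 | k0750
        · rcases lt_or_ge a (34 / 125) with k3272 | k3272
          · exact exit_box hP hbI hu hu1 hF hH exit_k (by push_cast; linarith) (by push_cast; linarith)
              (by push_cast; linarith) (by push_cast; linarith) (by push_cast; linarith)
              (by push_cast; linarith)
          · exact exit_box hP hbI hu hu1 hF hH exit_l (by push_cast; linarith) (by push_cast; linarith)
              (by push_cast; linarith) (by push_cast; linarith) (by push_cast; linarith)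
              (by push_cast; linarith)
        · exact exit_box hP hbI hu hu1 hF hH exit_m (by push_cast; linarith) (by push_cast; linarith)
            (by push_cast; linarith) (by push_cast; linarith) (by push_cast; linarith)
            (by push_cast; linarith)

end AllLow

variable {N p q : ℝ} {S : Set ℝ} {R x y s dx dy : ℝ → ℝ}

/-- **The exit curve** for real `N ≥ 20` and `1/(p+1) ≤ 31/100`. -/
theorem orbit_exit_all (hf : IsOrbitFns N p q S R x y s dx dy)
    (hb : SlabBoxAll N (1 / (p + 1)) (1 / (q + 1))) (h20 : 20 ≤ N) (ha : 1 / (p + 1) ≤ 31 / 100)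
    {w : ℝ} (hw : w ∈ S) (hw0 : 0 < R w) (hwu : uOf N (R w) (x w) ≤ 199 / 200) :
    0 < allExitF (1 / (p + 1)) (1 / (q + 1)) (uOf N (R w) (x w))
      (vOf (1 / (p + 1)) (1 / (q + 1)) (y w / x w)) := by
  refine exit_step_all hf hb (u₁ := 199 / 200) (by norm_num) (hasGrad_allExit _ _)
    (fun u v H => allStabLG (1 / (p + 1)) (1 / (q + 1)) u v < H)
    (fun z hz hz0 _ => orbit_stab_low_all hf hb h20 ha hz hz0) (fun v H hP _ _ => ?_)
    (fun u v H hP _ _ hE hF => ?_) hw hw0 hwu
  · generalize 1 / (p + 1) = al at hb ha hP ⊢
    generalize 1 / (q + 1) = be at hb hP ⊢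
    obtain ⟨I, X, rfl, hbI, hB⟩ :=
      AllLow.bandPlace_of (u := 1 / 2) hb h20 ha (by norm_num) (by norm_num) hP.toVRange
    obtain ⟨hI0, hI20, hIa, -, -, -, hXlo, hXhi⟩ := id hB
    have ha0 : 0 < al := by linarith
    have eI' : allStabI al be = I := by rw [allStabI, hbI]; ring
    simp only [allExitF, eI', allExitDen]
    have hD : 50 - 100 * al * (199 / 200) - 25 * (I * (199 / 200) * (2 + 3 * (199 / 200))) ≤
        (56 + 100 * I) * ((1 - 2 * I) * (1 - 2 * I - 2 * al)) := by
      linarith [mul_le_mul_of_nonneg_left hI20 hI0.le, mul_nonneg ha0.le hI0.le,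
        mul_le_mul_of_nonneg_left hI20 (mul_nonneg hI0.le hI0.le), mul_nonneg (mul_nonneg hI0.le hI0.le) ha0.le,
        pow_nonneg hI0.le 3, mul_nonneg hI0.le hI0.le]
    have h1 := mul_le_mul_of_nonneg_left hD (show 0 ≤ X by linarith)
    have h2 := mul_lt_mul_of_pos_left hXhi (show 0 < 56 + 100 * I by linarith)
    have h3 : X * (50 - 100 * al * (199 / 200) -
        25 * (I * (199 / 200) * (2 + 3 * (199 / 200)))) < 56 + 100 * I := by linarith
    have h4 := mul_lt_mul_of_pos_left h3 (mul_pos two_pos hI0)
    linarith
  · generalize 1 / (p + 1) = al at hb ha hP hE hF ⊢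
    generalize 1 / (q + 1) = be at hb hP hE hF ⊢
    obtain ⟨I, X, rfl, hbI, hB⟩ :=
      AllLow.bandPlace_of (u := 1 / 2) hb h20 ha (by norm_num) (by norm_num) hP.toVRange
    have eI' : allStabI al be = I := by rw [allStabI, hbI]; ring
    simp only [eI']
    exact AllLow.exit_signs hB hbI hP.u_pos hP.u_lt hF ⟨hE, hP.av⟩

/-- The exit curve with the bracket in the open. -/
theorem orbit_exit_all' (hf : IsOrbitFns N p q S R x y s dx dy)
    (hb : SlabBoxAll N (1 / (p + 1)) (1 / (q + 1))) (h20 : 20 ≤ N) (ha : 1 / (p + 1) ≤ 31 / 100)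
    {w : ℝ} (hw : w ∈ S) (hw0 : 0 < R w) (hwu : uOf N (R w) (x w) ≤ 199 / 200) :
    let al := 1 / (p + 1)
    let I := allStabI al (1 / (q + 1))
    vOf al (1 / (q + 1)) (y w / x w) * allExitDen I al (uOf N (R w) (x w)) <
      2 * I * (56 + 100 * I) := by
  intro al I
  exact sub_pos.1 (orbit_exit_all hf hb h20 ha hw hw0 hwu)

end Vale.Agent.P100.Calib.Band
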