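import Vale.Agent.P100.Calib.SlabAllGapDom
import Vale.Agent.P100.Calib.SlabAllEndBig

/-!
# The boxes of the pieces on `91/100 ≤ u ≤ 39/40`
-/

namespace Vale.Agent.P100.Calib.GapAll

open Pack

/-- The box of a piece: the chart of `a`, the second variable in `[0, 1/m]`, the chart of `w`,
the scaled `σ` in `[0, 1]`. -/
def gapBox (ca : Chart) (m : ℤ) (cw : Chart) : ℕ → Chart
  | 0 => ca
  | 1 => ⟨0, 1, 1, m⟩
  | 2 => cw
  | _ => ⟨0, 1, 1, 1⟩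

/-- `a` below `1/200`. -/
def aLow : Chart := ⟨0, 1, 1, 200⟩
/-- `a` in `[1/200, 1/33)`. -/
def aMid : Chart := ⟨1, 1, 200, 33⟩
/-- `a` in `[1/33, 2/9)`. -/
def aHigh : Chart := ⟨1, 2, 33, 9⟩
/-- `a` in `[2/9, 5/16)`. -/
def aTop : Chart := ⟨2, 5, 9, 16⟩
/-- `w` in `[1/40, 1/11)`. -/
def wAll : Chart := ⟨1, 1, 40, 11⟩
/-- `w` in `[1/40, 1/29)`. -/
def wLow : Chart := ⟨1, 1, 40, 29⟩
/-- `w` in `[1/29, 1/11)`. -/
def wMid : Chart := ⟨1, 1, 29, 11⟩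
/-- `w` in `[1/40, 1/22)`. -/
def wNear : Chart := ⟨1, 1, 40, 22⟩
/-- `w` in `[1/22, 1/11)`. -/
def wFar : Chart := ⟨1, 1, 22, 11⟩

def boxA : ℕ → Chart := gapBox aLow 1 wAll
def boxB : ℕ → Chart := gapBox aMid 33 wLow
def boxC : ℕ → Chart := gapBox aMid 33 wMid
def boxD : ℕ → Chart := gapBox aHigh 20 wNear
def boxE : ℕ → Chart := gapBox aHigh 20 wNear
def boxF : ℕ → Chart := gapBox aTop 20 wNear
def boxG : ℕ → Chart := gapBox aHigh 20 wFar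
def boxH : ℕ → Chart := gapBox aHigh 20 wFar
def boxI : ℕ → Chart := gapBox aTop 20 wFar
def boxJ : ℕ → Chart := gapBox aTop 20 wFar
def boxK : ℕ → Chart := gapBox aTop 20 wNear

/-- `a` in `[1/200, 1/60)`. -/
def aMidL : Chart := ⟨1, 1, 200, 60⟩
/-- `a` in `[1/60, 1/33)`. -/
def aMidR : Chart := ⟨1, 1, 60, 33⟩
/-- `a` in `[1/33, 1/9)`. -/
def aHighL : Chart := ⟨1, 1, 33, 9⟩
/-- `a` in `[1/9, 2/9)`. -/
def aHighR : Chart := ⟨1, 2, 9, 9⟩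
/-- `w` in `[1/40, 1/30)`. -/
def wNearL : Chart := ⟨1, 1, 40, 30⟩
/-- `w` in `[1/30, 1/22)`. -/
def wNearR : Chart := ⟨1, 1, 30, 22⟩

/-- `w` in `[1/22, 1/15)`. -/
def wFarL : Chart := ⟨1, 1, 22, 15⟩
/-- `w` in `[1/15, 1/11)`. -/
def wFarR : Chart := ⟨1, 1, 15, 11⟩

end Vale.Agent.P100.Calib.GapAll
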