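import Vale.Agent.P100.Calib.SlabAllGapBox
import Vale.Agent.P100.Calib.SlabAllGapDataOne

/-!
# Kernel checks of the piece A on `91/100 ≤ u ≤ 39/40`, part five
-/

namespace Vale.Agent.P100.Calib.GapAll

open Pack EndAll

set_option linter.defProp false

def Acp_0 : checkLong boxA 161 10 10 6 0
    ((parA.polys surA).getD 0 (.num 0)) = true := by decide +kernel

def Acp_1 : checkLong boxA 158 10 10 6 0
    ((parA.polys surA).getD 1 (.num 0)) = true := by decide +kernel

def Acp_2 : checkLong boxA 142 8 8 6 0
    ((parA.polys surA).getD 2 (.num 0)) = true := by decide +kernel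

def Acp_3 : checkLong boxA 138 8 8 6 0
    ((parA.polys surA).getD 3 (.num 0)) = true := by decide +kernel

def Acp_4 : checkLong boxA 111 6 6 6 0
    ((parA.polys surA).getD 4 (.num 0)) = true := by decide +kernel

def Acp_5 : checkLong boxA 62 3 3 3 0
    ((parA.polys surA).getD 5 (.num 0)) = true := by decide +kernel

def Acp_6 : checkLong boxA 62 3 3 3 0
    ((parA.polys surA).getD 6 (.num 0)) = true := by decide +kernel

def Acp_7 : checkLong boxA 60 3 3 3 0
    ((parA.polys surA).getD 7 (.num 0)) = true := by decide +kernel

def Acp_8 : checkLong boxA 60 3 3 3 0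
    ((parA.polys surA).getD 8 (.num 0)) = true := by decide +kernel

def Acp_9 : checkLong boxA 62 3 3 3 0
    ((parA.polys surA).getD 9 (.num 0)) = true := by decide +kernel

def Acp_10 : checkLong boxA 60 3 3 3 0
    ((parA.polys surA).getD 10 (.num 0)) = true := by decide +kernel

def Acp_11 : checkLong boxA 63 3 3 3 0
    ((parA.polys surA).getD 11 (.num 0)) = true := by decide +kernel

def Acp_12 : checkLong boxA 152 9 9 6 0
    ((parA.polys surA).getD 12 (.num 0)) = true := by decide +kernel

def Acp_13 : checkLong boxA 80 4 4 4 0
    ((parA.polys surA).getD 13 (.num 0)) = true := by decide +kernel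

def Acp_14 : checkLong boxA 77 4 4 4 0
    ((parA.polys surA).getD 14 (.num 0)) = true := by decide +kernel

def Acp_15 : checkLong boxA 60 3 3 3 0
    ((parA.polys surA).getD 15 (.num 0)) = true := by decide +kernel

def Acp_16 : checkLong boxA 191 11 11 7 0
    ((parA.polys surA).getD 16 (.num 0)) = true := by decide +kernel

def Acp_17 : checkLong boxA 194 11 11 8 0
    ((parA.polys surA).getD 17 (.num 0)) = true := by decide +kernel

def Acp_18 : checkLong boxA 194 11 11 8 0
    ((parA.polys surA).getD 18 (.num 0)) = true := by decide +kernel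

def Acp_19 : checkLong boxA 307 18 18 11 0
    ((parA.polys surA).getD 19 (.num 0)) = true := by decide +kernel

def Acp_20 : checkLong boxA 307 18 18 11 0
    ((parA.polys surA).getD 20 (.num 0)) = true := by decide +kernel

def Acp_21 : checkLong boxA 307 18 18 11 0
    ((parA.polys surA).getD 21 (.num 0)) = true := by decide +kernel

def Acp_22 : checkLong boxA 307 18 18 11 0
    ((parA.polys surA).getD 22 (.num 0)) = true := by decide +kernel

def Acd_0 : checkLong boxA 17 1 1 0 0
    (parA.domSigns.getD 0 (.num 0)) = true := by decide +kernel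

def Acd_1 : checkLong boxA 26 1 1 0 0
    (parA.domSigns.getD 1 (.num 0)) = true := by decide +kernel

def Acd_2 : checkLong boxA 29 1 1 1 1
    (parA.domSigns.getD 2 (.num 0)) = true := by decide +kernel

def Acd_3 : checkLong boxA 16 0 0 1 0
    (parA.domSigns.getD 3 (.num 0)) = true := by decide +kernel

def Acd_4 : checkLong boxA 55 3 3 1 1
    (parA.domSigns.getD 4 (.num 0)) = true := by decide +kernel

def Acd_5 : checkLong boxA 89 7 1 3 0
    parA.domU = true := by decide +kernel

def Acd_6 : checkLong boxA 40 3 2 0 0
    parA.domTv = true := by decide +kernel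

def Acd_7 : checkLong boxA 87 4 3 3 1
    parA.domLUG = true := by decide +kernel

end Vale.Agent.P100.Calib.GapAll
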