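import Vale.Agent.P100.Calib.SlabAllGapBox
import Vale.Agent.P100.Calib.SlabAllGapDataOne

/-!
# Kernel checks of the piece A on `91/100 ≤ u ≤ 39/40`, part four
-/

namespace Vale.Agent.P100.Calib.GapAll

open Pack EndAll

set_option linter.defProp false

def Acf_0_0 : checkLong boxA 212 13 13 5 3
    (coef (parA.forms surA) 0 0) = true := by decide +kernel

def Acf_0_1 : checkLong boxA 212 13 13 5 3
    (coef (parA.forms surA) 0 1) = true := by decide +kernel

def Acf_1_0 : checkLong boxA 212 13 13 5 3
    (coef (parA.forms surA) 1 0) = true := by decide +kernel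

def Acf_1_1 : checkLong boxA 212 13 13 5 3
    (coef (parA.forms surA) 1 1) = true := by decide +kernel

def Acf_2_0 : checkLong boxA 204 12 12 5 4
    (coef (parA.forms surA) 2 0) = true := by decide +kernel

def Acf_2_1 : checkLong boxA 204 12 12 5 4
    (coef (parA.forms surA) 2 1) = true := by decide +kernel

def Acf_3_0 : checkLong boxA 204 12 12 5 4
    (coef (parA.forms surA) 3 0) = true := by decide +kernel

def Acf_3_1 : checkLong boxA 204 12 12 5 4
    (coef (parA.forms surA) 3 1) = true := by decide +kernel

def Acf_4_0 : checkLong boxA 217 12 12 5 4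
    (coef (parA.forms surA) 4 0) = true := by decide +kernel

def Acf_4_1 : checkLong boxA 217 12 12 5 4
    (coef (parA.forms surA) 4 1) = true := by decide +kernel

def Acf_5_0 : checkLong boxA 217 12 12 5 4
    (coef (parA.forms surA) 5 0) = true := by decide +kernel

def Acf_5_1 : checkLong boxA 217 12 12 5 4
    (coef (parA.forms surA) 5 1) = true := by decide +kernel

def Acf_6_0 : checkLong boxA 258 16 16 6 4
    (coef (parA.forms surA) 6 0) = true := by decide +kernel

def Acf_6_1 : checkLong boxA 259 16 16 6 4
    (coef (parA.forms surA) 6 1) = true := by decide +kernel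

def Acf_6_2 : checkLong boxA 258 16 16 6 4
    (coef (parA.forms surA) 6 2) = true := by decide +kernel

def Acf_7_0 : checkLong boxA 258 16 16 6 4
    (coef (parA.forms surA) 7 0) = true := by decide +kernel

def Acf_7_1 : checkLong boxA 259 16 16 6 4
    (coef (parA.forms surA) 7 1) = true := by decide +kernel

def Acf_7_2 : checkLong boxA 258 16 16 6 4
    (coef (parA.forms surA) 7 2) = true := by decide +kernel

def Acf_8_0 : checkLong boxA 163 9 9 5 2
    (coef (parA.forms surA) 8 0) = true := by decide +kernel

def Acf_8_1 : checkLong boxA 163 9 9 5 2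
    (coef (parA.forms surA) 8 1) = true := by decide +kernel

def Acf_9_0 : checkLong boxA 163 9 9 5 2
    (coef (parA.forms surA) 9 0) = true := by decide +kernel

def Acf_9_1 : checkLong boxA 163 9 9 5 2
    (coef (parA.forms surA) 9 1) = true := by decide +kernel

def Acf_10_0 : checkLong boxA 154 8 8 5 2
    (coef (parA.forms surA) 10 0) = true := by decide +kernel

def Acf_10_1 : checkLong boxA 153 8 8 5 1
    (coef (parA.forms surA) 10 1) = true := by decide +kernel

def Acf_11_0 : checkLong boxA 154 8 8 5 2
    (coef (parA.forms surA) 11 0) = true := by decide +kernel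

def Acf_11_1 : checkLong boxA 153 8 8 5 1
    (coef (parA.forms surA) 11 1) = true := by decide +kernel

def Acf_12_0 : checkLong boxA 165 11 11 5 3
    (coef (parA.forms surA) 12 0) = true := by decide +kernel

def Acf_12_1 : checkLong boxA 166 11 11 5 3
    (coef (parA.forms surA) 12 1) = true := by decide +kernel

def Acf_12_2 : checkLong boxA 164 11 11 5 2
    (coef (parA.forms surA) 12 2) = true := by decide +kernel

def Acf_13_0 : checkLong boxA 279 18 18 7 5
    (coef (parA.forms surA) 13 0) = true := by decide +kernel

def Acf_13_1 : checkLong boxA 280 18 18 7 5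
    (coef (parA.forms surA) 13 1) = true := by decide +kernel

def Acf_13_2 : checkLong boxA 269 17 17 7 4
    (coef (parA.forms surA) 13 2) = true := by decide +kernel

def Acf_14_0 : checkLong boxA 279 18 18 7 5
    (coef (parA.forms surA) 14 0) = true := by decide +kernel

def Acf_14_1 : checkLong boxA 280 18 18 7 5
    (coef (parA.forms surA) 14 1) = true := by decide +kernel

def Acf_14_2 : checkLong boxA 269 17 17 7 4
    (coef (parA.forms surA) 14 2) = true := by decide +kernel

end Vale.Agent.P100.Calib.GapAll
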