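import Vale.Agent.P100.Calib.SlabAllGapBox
import Vale.Agent.P100.Calib.SlabAllGapDataOne

/-!
# Kernel checks of the piece B on `91/100 ≤ u ≤ 39/40`, part five
-/

namespace Vale.Agent.P100.Calib.GapAll

open Pack EndAll

set_option linter.defProp false

def Bcp_0 : checkLong boxB 203 9 10 6 0
    ((parB.polys surB).getD 0 (.num 0)) = true := by decide +kernel

def Bcp_1 : checkLong boxB 197 9 10 6 0
    ((parB.polys surB).getD 1 (.num 0)) = true := by decide +kernel

def Bcp_2 : checkLong boxB 174 7 8 6 0
    ((parB.polys surB).getD 2 (.num 0)) = true := by decide +kernel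

def Bcp_3 : checkLong boxB 171 7 8 6 0
    ((parB.polys surB).getD 3 (.num 0)) = true := by decide +kernel

def Bcp_4 : checkLong boxB 143 6 6 6 0
    ((parB.polys surB).getD 4 (.num 0)) = true := by decide +kernel

def Bcp_5 : checkLong boxB 77 3 3 3 0
    ((parB.polys surB).getD 5 (.num 0)) = true := by decide +kernel

def Bcp_6 : checkLong boxB 78 3 3 3 0
    ((parB.polys surB).getD 6 (.num 0)) = true := by decide +kernel

def Bcp_7 : checkLong boxB 76 3 3 3 0
    ((parB.polys surB).getD 7 (.num 0)) = true := by decide +kernel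

def Bcp_8 : checkLong boxB 76 3 3 3 0
    ((parB.polys surB).getD 8 (.num 0)) = true := by decide +kernel

def Bcp_9 : checkLong boxB 77 3 3 3 0
    ((parB.polys surB).getD 9 (.num 0)) = true := by decide +kernel

def Bcp_10 : checkLong boxB 76 3 3 3 0
    ((parB.polys surB).getD 10 (.num 0)) = true := by decide +kernel

def Bcp_11 : checkLong boxB 77 3 3 3 0
    ((parB.polys surB).getD 11 (.num 0)) = true := by decide +kernel

def Bcp_12 : checkLong boxB 197 9 9 6 0
    ((parB.polys surB).getD 12 (.num 0)) = true := by decide +kernel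

def Bcp_13 : checkLong boxB 103 4 4 4 0
    ((parB.polys surB).getD 13 (.num 0)) = true := by decide +kernel

def Bcp_14 : checkLong boxB 97 4 4 4 0
    ((parB.polys surB).getD 14 (.num 0)) = true := by decide +kernel

def Bcp_15 : checkLong boxB 75 3 3 3 0
    ((parB.polys surB).getD 15 (.num 0)) = true := by decide +kernel

def Bcp_16 : checkLong boxB 254 11 11 8 0
    ((parB.polys surB).getD 16 (.num 0)) = true := by decide +kernel

def Bcp_17 : checkLong boxB 242 10 11 8 0
    ((parB.polys surB).getD 17 (.num 0)) = true := by decide +kernel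

def Bcp_18 : checkLong boxB 242 10 11 8 0
    ((parB.polys surB).getD 18 (.num 0)) = true := by decide +kernel

def Bcp_19 : checkLong boxB 398 17 18 12 0
    ((parB.polys surB).getD 19 (.num 0)) = true := by decide +kernel

def Bcp_20 : checkLong boxB 398 17 18 12 0
    ((parB.polys surB).getD 20 (.num 0)) = true := by decide +kernel

def Bcp_21 : checkLong boxB 398 17 18 12 0
    ((parB.polys surB).getD 21 (.num 0)) = true := by decide +kernel

def Bcp_22 : checkLong boxB 398 17 18 12 0
    ((parB.polys surB).getD 22 (.num 0)) = true := by decide +kernel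

def Bcd_0 : checkLong boxB 30 1 1 1 0
    (parB.domSigns.getD 0 (.num 0)) = true := by decide +kernel

def Bcd_1 : checkLong boxB 36 1 1 1 0
    (parB.domSigns.getD 1 (.num 0)) = true := by decide +kernel

def Bcd_2 : checkLong boxB 35 1 1 1 1
    (parB.domSigns.getD 2 (.num 0)) = true := by decide +kernel

def Bcd_3 : checkLong boxB 29 1 1 1 0
    (parB.domSigns.getD 3 (.num 0)) = true := by decide +kernel

def Bcd_4 : checkLong boxB 66 2 3 2 1
    (parB.domSigns.getD 4 (.num 0)) = true := by decide +kernel

def Bcd_5 : checkLong boxB 88 6 1 3 0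
    parB.domU = true := by decide +kernel

def Bcd_6 : checkLong boxB 80 4 2 2 0
    parB.domTt = true := by decide +kernel

def Bcd_7L : checkLong (gapBox aMidL 33 wLow) 139 3 3 3 1
    parB.domLUG = true := by decide +kernel

def Bcd_7R : checkLong (gapBox aMidR 33 wLow) 139 3 3 3 1
    parB.domLUG = true := by decide +kernel

end Vale.Agent.P100.Calib.GapAll
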