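import Vale.Agent.P100.Calib.SlabAllGapBox
import Vale.Agent.P100.Calib.SlabAllGapDataOne

/-!
# Kernel checks of the piece B on `91/100 ≤ u ≤ 39/40`, part four
-/

namespace Vale.Agent.P100.Calib.GapAll

open Pack EndAll

set_option linter.defProp false

def Bcf_0_0 : checkLong boxB 238 8 13 6 3
    (coef (parB.forms surB) 0 0) = true := by decide +kernel

def Bcf_0_1 : checkLong boxB 238 8 13 6 3
    (coef (parB.forms surB) 0 1) = true := by decide +kernel

def Bcf_1_0 : checkLong boxB 238 8 13 6 3
    (coef (parB.forms surB) 1 0) = true := by decide +kernel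

def Bcf_1_1 : checkLong boxB 238 8 13 6 3
    (coef (parB.forms surB) 1 1) = true := by decide +kernel

def Bcf_2_0 : checkLong boxB 225 7 12 6 4
    (coef (parB.forms surB) 2 0) = true := by decide +kernel

def Bcf_2_1 : checkLong boxB 225 7 12 6 4
    (coef (parB.forms surB) 2 1) = true := by decide +kernel

def Bcf_3_0 : checkLong boxB 225 7 12 6 4
    (coef (parB.forms surB) 3 0) = true := by decide +kernel

def Bcf_3_1 : checkLong boxB 225 7 12 6 4
    (coef (parB.forms surB) 3 1) = true := by decide +kernel

def Bcf_4_0 : checkLong boxB 232 7 12 5 4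
    (coef (parB.forms surB) 4 0) = true := by decide +kernel

def Bcf_4_1 : checkLong boxB 232 7 12 5 4
    (coef (parB.forms surB) 4 1) = true := by decide +kernel

def Bcf_5_0 : checkLong boxB 232 7 12 5 4
    (coef (parB.forms surB) 5 0) = true := by decide +kernel

def Bcf_5_1 : checkLong boxB 232 7 12 5 4
    (coef (parB.forms surB) 5 1) = true := by decide +kernel

def Bcf_6_0 : checkLong boxB 296 10 16 8 4
    (coef (parB.forms surB) 6 0) = true := by decide +kernel

def Bcf_6_1 : checkLong boxB 297 10 16 8 4
    (coef (parB.forms surB) 6 1) = true := by decide +kernel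

def Bcf_6_2 : checkLong boxB 296 10 16 8 4
    (coef (parB.forms surB) 6 2) = true := by decide +kernel

def Bcf_7_0 : checkLong boxB 296 10 16 8 4
    (coef (parB.forms surB) 7 0) = true := by decide +kernel

def Bcf_7_1 : checkLong boxB 297 10 16 8 4
    (coef (parB.forms surB) 7 1) = true := by decide +kernel

def Bcf_7_2 : checkLong boxB 296 10 16 8 4
    (coef (parB.forms surB) 7 2) = true := by decide +kernel

def Bcf_8_0 : checkLong boxB 188 7 9 5 2
    (coef (parB.forms surB) 8 0) = true := by decide +kernel

def Bcf_8_1 : checkLong boxB 188 7 9 5 2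
    (coef (parB.forms surB) 8 1) = true := by decide +kernel

def Bcf_9_0 : checkLong boxB 188 7 9 5 2
    (coef (parB.forms surB) 9 0) = true := by decide +kernel

def Bcf_9_1 : checkLong boxB 188 7 9 5 2
    (coef (parB.forms surB) 9 1) = true := by decide +kernel

def Bcf_10_0 : checkLong boxB 175 6 8 5 2
    (coef (parB.forms surB) 10 0) = true := by decide +kernel

def Bcf_10_1 : checkLong boxB 174 6 8 5 1
    (coef (parB.forms surB) 10 1) = true := by decide +kernel

def Bcf_11_0 : checkLong boxB 175 6 8 5 2
    (coef (parB.forms surB) 11 0) = true := by decide +kernel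

def Bcf_11_1 : checkLong boxB 174 6 8 5 1
    (coef (parB.forms surB) 11 1) = true := by decide +kernel

def Bcf_12_0 : checkLong boxB 184 7 11 5 3
    (coef (parB.forms surB) 12 0) = true := by decide +kernel

def Bcf_12_1 : checkLong boxB 185 7 11 5 3
    (coef (parB.forms surB) 12 1) = true := by decide +kernel

def Bcf_12_2 : checkLong boxB 183 7 11 5 2
    (coef (parB.forms surB) 12 2) = true := by decide +kernel

def Bcf_13_0 : checkLong boxB 312 11 18 8 5
    (coef (parB.forms surB) 13 0) = true := by decide +kernel

def Bcf_13_1 : checkLong boxB 312 11 18 8 5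
    (coef (parB.forms surB) 13 1) = true := by decide +kernel

def Bcf_13_2 : checkLong boxB 310 11 18 8 4
    (coef (parB.forms surB) 13 2) = true := by decide +kernel

def Bcf_14_0 : checkLong boxB 312 11 18 8 5
    (coef (parB.forms surB) 14 0) = true := by decide +kernel

def Bcf_14_1 : checkLong boxB 312 11 18 8 5
    (coef (parB.forms surB) 14 1) = true := by decide +kernel

def Bcf_14_2 : checkLong boxB 310 11 18 8 4
    (coef (parB.forms surB) 14 2) = true := by decide +kernel

end Vale.Agent.P100.Calib.GapAll
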