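import Vale.Agent.P100.Calib.SlabAllGapBox
import Vale.Agent.P100.Calib.SlabAllGapDataOne

/-!
# Kernel checks of the piece C on `91/100 ≤ u ≤ 39/40`, part five
-/

namespace Vale.Agent.P100.Calib.GapAll

open Pack EndAll

set_option linter.defProp false

def Ccp_0 : checkLong boxC 196 9 10 6 0
    ((parC.polys surC).getD 0 (.num 0)) = true := by decide +kernel

def Ccp_1 : checkLong boxC 192 9 10 6 0
    ((parC.polys surC).getD 1 (.num 0)) = true := by decide +kernel

def Ccp_2 : checkLong boxC 167 7 8 6 0
    ((parC.polys surC).getD 2 (.num 0)) = true := by decide +kernel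

def Ccp_3 : checkLong boxC 165 7 8 6 0
    ((parC.polys surC).getD 3 (.num 0)) = true := by decide +kernel

def Ccp_4 : checkLong boxC 137 6 6 6 0
    ((parC.polys surC).getD 4 (.num 0)) = true := by decide +kernel

def Ccp_5 : checkLong boxC 75 3 3 3 0
    ((parC.polys surC).getD 5 (.num 0)) = true := by decide +kernel

def Ccp_6 : checkLong boxC 75 3 3 3 0
    ((parC.polys surC).getD 6 (.num 0)) = true := by decide +kernel

def Ccp_7 : checkLong boxC 73 3 3 3 0
    ((parC.polys surC).getD 7 (.num 0)) = true := by decide +kernel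

def Ccp_8 : checkLong boxC 74 3 3 3 0
    ((parC.polys surC).getD 8 (.num 0)) = true := by decide +kernel

def Ccp_9 : checkLong boxC 75 3 3 3 0
    ((parC.polys surC).getD 9 (.num 0)) = true := by decide +kernel

def Ccp_10 : checkLong boxC 73 3 3 3 0
    ((parC.polys surC).getD 10 (.num 0)) = true := by decide +kernel

def Ccp_11 : checkLong boxC 75 3 3 3 0
    ((parC.polys surC).getD 11 (.num 0)) = true := by decide +kernel

def Ccp_12 : checkLong boxC 190 9 9 6 0
    ((parC.polys surC).getD 12 (.num 0)) = true := by decide +kernel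

def Ccp_13 : checkLong boxC 98 4 4 4 0
    ((parC.polys surC).getD 13 (.num 0)) = true := by decide +kernel

def Ccp_14 : checkLong boxC 94 4 4 4 0
    ((parC.polys surC).getD 14 (.num 0)) = true := by decide +kernel

def Ccp_15 : checkLong boxC 73 3 3 3 0
    ((parC.polys surC).getD 15 (.num 0)) = true := by decide +kernel

def Ccp_16 : checkLong boxC 243 11 11 8 0
    ((parC.polys surC).getD 16 (.num 0)) = true := by decide +kernel

def Ccp_17 : checkLong boxC 233 10 11 8 0
    ((parC.polys surC).getD 17 (.num 0)) = true := by decide +kernel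

def Ccp_18 : checkLong boxC 233 10 11 8 0
    ((parC.polys surC).getD 18 (.num 0)) = true := by decide +kernel

def Ccp_19 : checkLong boxC 382 17 18 12 0
    ((parC.polys surC).getD 19 (.num 0)) = true := by decide +kernel

def Ccp_20 : checkLong boxC 382 17 18 12 0
    ((parC.polys surC).getD 20 (.num 0)) = true := by decide +kernel

def Ccp_21 : checkLong boxC 382 17 18 12 0
    ((parC.polys surC).getD 21 (.num 0)) = true := by decide +kernel

def Ccp_22 : checkLong boxC 382 17 18 12 0
    ((parC.polys surC).getD 22 (.num 0)) = true := by decide +kernel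

def Ccd_0 : checkLong boxC 27 1 1 1 0
    (parC.domSigns.getD 0 (.num 0)) = true := by decide +kernel

def Ccd_1 : checkLong boxC 36 1 1 1 0
    (parC.domSigns.getD 1 (.num 0)) = true := by decide +kernel

def Ccd_2 : checkLong boxC 34 1 1 1 1
    (parC.domSigns.getD 2 (.num 0)) = true := by decide +kernel

def Ccd_3 : checkLong boxC 29 1 1 1 0
    (parC.domSigns.getD 3 (.num 0)) = true := by decide +kernel

def Ccd_4 : checkLong boxC 65 2 3 2 1
    (parC.domSigns.getD 4 (.num 0)) = true := by decide +kernel

def Ccd_5 : checkLong boxC 86 6 1 3 0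
    parC.domU = true := by decide +kernel

def Ccd_6 : checkLong boxC 102 6 3 3 0
    parC.domTc = true := by decide +kernel

def Ccd_7 : checkLong boxC 92 3 3 3 1
    parC.domLUG = true := by decide +kernel

end Vale.Agent.P100.Calib.GapAll
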