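import Vale.Agent.P100.Calib.SlabAllGapBox
import Vale.Agent.P100.Calib.SlabAllGapDataOne

/-!
# Kernel checks of the piece D on `91/100 ≤ u ≤ 39/40`, part five
-/

namespace Vale.Agent.P100.Calib.GapAll

open Pack EndAll

set_option linter.defProp false

def Dcp_0 : checkLong boxD 206 11 12 8 0
    ((parD.polys surD).getD 0 (.num 0)) = true := by decide +kernel

def Dcp_1 : checkLong boxD 200 11 12 8 0
    ((parD.polys surD).getD 1 (.num 0)) = true := by decide +kernel

def Dcp_2 : checkLong boxD 182 9 10 8 0
    ((parD.polys surD).getD 2 (.num 0)) = true := by decide +kernel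

def Dcp_3 : checkLong boxD 181 9 10 8 0
    ((parD.polys surD).getD 3 (.num 0)) = true := by decide +kernel

def Dcp_4 : checkLong boxD 157 8 8 8 0
    ((parD.polys surD).getD 4 (.num 0)) = true := by decide +kernel

def Dcp_5 : checkLong boxD 84 4 4 4 0
    ((parD.polys surD).getD 5 (.num 0)) = true := by decide +kernel

def Dcp_6 : checkLong boxD 84 4 4 4 0
    ((parD.polys surD).getD 6 (.num 0)) = true := by decide +kernel

def Dcp_7 : checkLong boxD 83 4 4 4 0
    ((parD.polys surD).getD 7 (.num 0)) = true := by decide +kernel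

def Dcp_8 : checkLong boxD 83 4 4 4 0
    ((parD.polys surD).getD 8 (.num 0)) = true := by decide +kernel

def Dcp_9 : checkLong boxD 84 4 4 4 0
    ((parD.polys surD).getD 9 (.num 0)) = true := by decide +kernel

def Dcp_10 : checkLong boxD 83 4 4 4 0
    ((parD.polys surD).getD 10 (.num 0)) = true := by decide +kernel

def Dcp_11 : checkLong boxD 83 4 4 4 0
    ((parD.polys surD).getD 11 (.num 0)) = true := by decide +kernel

def Dcp_12 : checkLong boxD 200 11 11 8 0
    ((parD.polys surD).getD 12 (.num 0)) = true := by decide +kernel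

def Dcp_13 : checkLong boxD 89 4 4 4 0
    ((parD.polys surD).getD 13 (.num 0)) = true := by decide +kernel

def Dcp_14 : checkLong boxD 84 4 4 4 0
    ((parD.polys surD).getD 14 (.num 0)) = true := by decide +kernel

def Dcp_15 : checkLong boxD 84 4 4 4 0
    ((parD.polys surD).getD 15 (.num 0)) = true := by decide +kernel

def Dcp_16 : checkLong boxD 235 12 12 9 0
    ((parD.polys surD).getD 16 (.num 0)) = true := by decide +kernel

def Dcp_17 : checkLong boxD 208 10 11 8 0
    ((parD.polys surD).getD 17 (.num 0)) = true := by decide +kernel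

def Dcp_18 : checkLong boxD 208 10 11 8 0
    ((parD.polys surD).getD 18 (.num 0)) = true := by decide +kernel

def Dcp_19 : checkLong boxD 363 18 20 13 0
    ((parD.polys surD).getD 19 (.num 0)) = true := by decide +kernel

def Dcp_20 : checkLong boxD 363 18 20 13 0
    ((parD.polys surD).getD 20 (.num 0)) = true := by decide +kernel

def Dcp_21 : checkLong boxD 362 18 20 13 0
    ((parD.polys surD).getD 21 (.num 0)) = true := by decide +kernel

def Dcp_22 : checkLong boxD 362 18 20 13 0
    ((parD.polys surD).getD 22 (.num 0)) = true := by decide +kernel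

def Dcd_0 : checkLong boxD 27 1 1 1 0
    (parD.domSigns.getD 0 (.num 0)) = true := by decide +kernel

def Dcd_1 : checkLong boxD 36 1 1 1 0
    (parD.domSigns.getD 1 (.num 0)) = true := by decide +kernel

def Dcd_2 : checkLong boxD 30 1 1 1 0
    (parD.domSigns.getD 2 (.num 0)) = true := by decide +kernel

def Dcd_3 : checkLong boxD 26 1 1 1 0
    (parD.domSigns.getD 3 (.num 0)) = true := by decide +kernel

def Dcd_4 : checkLong boxD 62 2 3 2 1
    (parD.domSigns.getD 4 (.num 0)) = true := by decide +kernel

def Dcd_5 : checkLong boxD 72 6 1 3 0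
    parD.domU = true := by decide +kernel

def Dcd_6L : checkLong (gapBox aHigh 20 wNearL) 114 4 2 2 0
    parD.domTt = true := by decide +kernel

def Dcd_6R : checkLong (gapBox aHigh 20 wNearR) 114 4 2 2 0
    parD.domTt = true := by decide +kernel

def Dcd_7 : checkLong boxD 149 5 7 6 2
    (parD.domL 0 1) = true := by decide +kernel

end Vale.Agent.P100.Calib.GapAll
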