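import Vale.Agent.P100.Calib.SlabAllGapBox
import Vale.Agent.P100.Calib.SlabAllGapDataOne

/-!
# Kernel checks of the piece D on `91/100 ≤ u ≤ 39/40`, part four
-/

namespace Vale.Agent.P100.Calib.GapAll

open Pack EndAll

set_option linter.defProp false

def Dcf_0_0 : checkLong boxD 237 9 14 7 3
    (coef (parD.forms surD) 0 0) = true := by decide +kernel

def Dcf_0_1 : checkLong boxD 237 9 14 7 3
    (coef (parD.forms surD) 0 1) = true := by decide +kernel

def Dcf_1_0 : checkLong boxD 237 9 14 7 3
    (coef (parD.forms surD) 1 0) = true := by decide +kernel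

def Dcf_1_1 : checkLong boxD 237 9 14 7 3
    (coef (parD.forms surD) 1 1) = true := by decide +kernel

def Dcf_2_0 : checkLong boxD 217 7 12 7 4
    (coef (parD.forms surD) 2 0) = true := by decide +kernel

def Dcf_2_1 : checkLong boxD 217 7 12 7 4
    (coef (parD.forms surD) 2 1) = true := by decide +kernel

def Dcf_3_0 : checkLong boxD 217 7 12 7 4
    (coef (parD.forms surD) 3 0) = true := by decide +kernel

def Dcf_3_1 : checkLong boxD 217 7 12 7 4
    (coef (parD.forms surD) 3 1) = true := by decide +kernel

def Dcf_4_0 : checkLong boxD 229 7 12 7 4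
    (coef (parD.forms surD) 4 0) = true := by decide +kernel

def Dcf_4_1 : checkLong boxD 229 7 12 7 4
    (coef (parD.forms surD) 4 1) = true := by decide +kernel

def Dcf_5_0 : checkLong boxD 229 7 12 7 4
    (coef (parD.forms surD) 5 0) = true := by decide +kernel

def Dcf_5_1 : checkLong boxD 229 7 12 7 4
    (coef (parD.forms surD) 5 1) = true := by decide +kernel

def Dcf_6_0 : checkLong boxD 287 11 17 9 4
    (coef (parD.forms surD) 6 0) = true := by decide +kernel

def Dcf_6_1 : checkLong boxD 288 11 17 9 4
    (coef (parD.forms surD) 6 1) = true := by decide +kernel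

def Dcf_6_2 : checkLong boxD 287 11 17 9 4
    (coef (parD.forms surD) 6 2) = true := by decide +kernel

def Dcf_7_0 : checkLong boxD 287 11 17 9 4
    (coef (parD.forms surD) 7 0) = true := by decide +kernel

def Dcf_7_1 : checkLong boxD 288 11 17 9 4
    (coef (parD.forms surD) 7 1) = true := by decide +kernel

def Dcf_7_2 : checkLong boxD 287 11 17 9 4
    (coef (parD.forms surD) 7 2) = true := by decide +kernel

def Dcf_8_0 : checkLong boxD 186 8 10 6 2
    (coef (parD.forms surD) 8 0) = true := by decide +kernel

def Dcf_8_1 : checkLong boxD 186 8 10 6 2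
    (coef (parD.forms surD) 8 1) = true := by decide +kernel

def Dcf_9_0 : checkLong boxD 186 8 10 6 2
    (coef (parD.forms surD) 9 0) = true := by decide +kernel

def Dcf_9_1 : checkLong boxD 186 8 10 6 2
    (coef (parD.forms surD) 9 1) = true := by decide +kernel

def Dcf_10_0 : checkLong boxD 175 7 9 6 1
    (coef (parD.forms surD) 10 0) = true := by decide +kernel

def Dcf_10_1 : checkLong boxD 175 7 9 6 1
    (coef (parD.forms surD) 10 1) = true := by decide +kernel

def Dcf_11_0 : checkLong boxD 175 7 9 6 1
    (coef (parD.forms surD) 11 0) = true := by decide +kernel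

def Dcf_11_1 : checkLong boxD 175 7 9 6 1
    (coef (parD.forms surD) 11 1) = true := by decide +kernel

def Dcf_12_0 : checkLong boxD 180 8 12 6 2
    (coef (parD.forms surD) 12 0) = true := by decide +kernel

def Dcf_12_1 : checkLong boxD 181 8 12 6 2
    (coef (parD.forms surD) 12 1) = true := by decide +kernel

def Dcf_12_2 : checkLong boxD 180 8 12 6 2
    (coef (parD.forms surD) 12 2) = true := by decide +kernel

def Dcf_13_0 : checkLong boxD 282 11 18 8 4
    (coef (parD.forms surD) 13 0) = true := by decide +kernel

def Dcf_13_1 : checkLong boxD 283 11 18 8 4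
    (coef (parD.forms surD) 13 1) = true := by decide +kernel

def Dcf_13_2 : checkLong boxD 282 11 18 8 4
    (coef (parD.forms surD) 13 2) = true := by decide +kernel

def Dcf_14_0 : checkLong boxD 282 11 18 8 4
    (coef (parD.forms surD) 14 0) = true := by decide +kernel

def Dcf_14_1 : checkLong boxD 283 11 18 8 4
    (coef (parD.forms surD) 14 1) = true := by decide +kernel

def Dcf_14_2 : checkLong boxD 282 11 18 8 4
    (coef (parD.forms surD) 14 2) = true := by decide +kernel

end Vale.Agent.P100.Calib.GapAll
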