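import Vale.Agent.P100.Calib.SlabAllGapBox
import Vale.Agent.P100.Calib.SlabAllGapDataTwo

/-!
# Kernel checks of the piece E on `91/100 ≤ u ≤ 39/40`, part five
-/

namespace Vale.Agent.P100.Calib.GapAll

open Pack EndAll

set_option linter.defProp false

def Ecp_0 : checkLong boxE 204 11 12 8 0
    ((parE.polys surE).getD 0 (.num 0)) = true := by decide +kernel

def Ecp_1 : checkLong boxE 200 11 12 8 0
    ((parE.polys surE).getD 1 (.num 0)) = true := by decide +kernel

def Ecp_2 : checkLong boxE 182 9 10 8 0
    ((parE.polys surE).getD 2 (.num 0)) = true := by decide +kernel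

def Ecp_3 : checkLong boxE 181 9 10 8 0
    ((parE.polys surE).getD 3 (.num 0)) = true := by decide +kernel

def Ecp_4 : checkLong boxE 157 8 8 8 0
    ((parE.polys surE).getD 4 (.num 0)) = true := by decide +kernel

def Ecp_5 : checkLong boxE 84 4 4 4 0
    ((parE.polys surE).getD 5 (.num 0)) = true := by decide +kernel

def Ecp_6 : checkLong boxE 84 4 4 4 0
    ((parE.polys surE).getD 6 (.num 0)) = true := by decide +kernel

def Ecp_7 : checkLong boxE 83 4 4 4 0
    ((parE.polys surE).getD 7 (.num 0)) = true := by decide +kernel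

def Ecp_8 : checkLong boxE 83 4 4 4 0
    ((parE.polys surE).getD 8 (.num 0)) = true := by decide +kernel

def Ecp_9 : checkLong boxE 84 4 4 4 0
    ((parE.polys surE).getD 9 (.num 0)) = true := by decide +kernel

def Ecp_10 : checkLong boxE 83 4 4 4 0
    ((parE.polys surE).getD 10 (.num 0)) = true := by decide +kernel

def Ecp_11 : checkLong boxE 83 4 4 4 0
    ((parE.polys surE).getD 11 (.num 0)) = true := by decide +kernel

def Ecp_12 : checkLong boxE 199 11 11 8 0
    ((parE.polys surE).getD 12 (.num 0)) = true := by decide +kernel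

def Ecp_13 : checkLong boxE 89 4 4 4 0
    ((parE.polys surE).getD 13 (.num 0)) = true := by decide +kernel

def Ecp_14 : checkLong boxE 85 4 4 4 0
    ((parE.polys surE).getD 14 (.num 0)) = true := by decide +kernel

def Ecp_15 : checkLong boxE 84 4 4 4 0
    ((parE.polys surE).getD 15 (.num 0)) = true := by decide +kernel

def Ecp_16 : checkLong boxE 236 12 12 9 0
    ((parE.polys surE).getD 16 (.num 0)) = true := by decide +kernel

def Ecp_17 : checkLong boxE 209 10 11 8 0
    ((parE.polys surE).getD 17 (.num 0)) = true := by decide +kernel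

def Ecp_18 : checkLong boxE 209 10 11 8 0
    ((parE.polys surE).getD 18 (.num 0)) = true := by decide +kernel

def Ecp_19 : checkLong boxE 363 18 20 13 0
    ((parE.polys surE).getD 19 (.num 0)) = true := by decide +kernel

def Ecp_20 : checkLong boxE 363 18 20 13 0
    ((parE.polys surE).getD 20 (.num 0)) = true := by decide +kernel

def Ecp_21 : checkLong boxE 363 18 20 13 0
    ((parE.polys surE).getD 21 (.num 0)) = true := by decide +kernel

def Ecp_22 : checkLong boxE 363 18 20 13 0
    ((parE.polys surE).getD 22 (.num 0)) = true := by decide +kernel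

def Ecd_0 : checkLong boxE 27 1 1 1 0
    (parE.domSigns.getD 0 (.num 0)) = true := by decide +kernel

def Ecd_1 : checkLong boxE 36 1 1 1 0
    (parE.domSigns.getD 1 (.num 0)) = true := by decide +kernel

def Ecd_2 : checkLong boxE 31 1 1 1 1
    (parE.domSigns.getD 2 (.num 0)) = true := by decide +kernel

def Ecd_3 : checkLong boxE 26 1 1 1 0
    (parE.domSigns.getD 3 (.num 0)) = true := by decide +kernel

def Ecd_4 : checkLong boxE 62 2 3 2 1
    (parE.domSigns.getD 4 (.num 0)) = true := by decide +kernel

def Ecd_5 : checkLong boxE 72 6 1 3 0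
    parE.domU = true := by decide +kernel

def Ecd_6L : checkLong (gapBox aHigh 20 wNearL) 114 4 2 2 0
    parE.domTt = true := by decide +kernel

def Ecd_6R : checkLong (gapBox aHigh 20 wNearR) 114 4 2 2 0
    parE.domTt = true := by decide +kernel

def Ecd_7L : checkLong (gapBox aHighL 20 wNear) 196 5 7 6 2
    (parE.domL 3 5) = true := by decide +kernel

def Ecd_7R : checkLong (gapBox aHighR 20 wNear) 196 5 7 6 2
    (parE.domL 3 5) = true := by decide +kernel

end Vale.Agent.P100.Calib.GapAll
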