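import Vale.Agent.P100.Calib.SlabAllGapBox
import Vale.Agent.P100.Calib.SlabAllGapDataTwo

/-!
# Kernel checks of the piece F on `91/100 ≤ u ≤ 39/40`, part five
-/

namespace Vale.Agent.P100.Calib.GapAll

open Pack EndAll

set_option linter.defProp false

def Fcp_0 : checkLong boxF 204 11 12 8 0
    ((parF.polys surF).getD 0 (.num 0)) = true := by decide +kernel

def Fcp_1 : checkLong boxF 205 11 12 8 0
    ((parF.polys surF).getD 1 (.num 0)) = true := by decide +kernel

def Fcp_2 : checkLong boxF 181 9 10 8 0
    ((parF.polys surF).getD 2 (.num 0)) = true := by decide +kernel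

def Fcp_3 : checkLong boxF 181 9 10 8 0
    ((parF.polys surF).getD 3 (.num 0)) = true := by decide +kernel

def Fcp_4 : checkLong boxF 163 8 8 8 0
    ((parF.polys surF).getD 4 (.num 0)) = true := by decide +kernel

def Fcp_5 : checkLong boxF 86 4 4 4 0
    ((parF.polys surF).getD 5 (.num 0)) = true := by decide +kernel

def Fcp_6 : checkLong boxF 86 4 4 4 0
    ((parF.polys surF).getD 6 (.num 0)) = true := by decide +kernel

def Fcp_7 : checkLong boxF 86 4 4 4 0
    ((parF.polys surF).getD 7 (.num 0)) = true := by decide +kernel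

def Fcp_8 : checkLong boxF 87 4 4 4 0
    ((parF.polys surF).getD 8 (.num 0)) = true := by decide +kernel

def Fcp_9 : checkLong boxF 86 4 4 4 0
    ((parF.polys surF).getD 9 (.num 0)) = true := by decide +kernel

def Fcp_10 : checkLong boxF 87 4 4 4 0
    ((parF.polys surF).getD 10 (.num 0)) = true := by decide +kernel

def Fcp_11 : checkLong boxF 83 4 4 4 0
    ((parF.polys surF).getD 11 (.num 0)) = true := by decide +kernel

def Fcp_12 : checkLong boxF 199 11 11 8 0
    ((parF.polys surF).getD 12 (.num 0)) = true := by decide +kernel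

def Fcp_13 : checkLong boxF 87 4 4 4 0
    ((parF.polys surF).getD 13 (.num 0)) = true := by decide +kernel

def Fcp_14 : checkLong boxF 85 4 4 4 0
    ((parF.polys surF).getD 14 (.num 0)) = true := by decide +kernel

def Fcp_15 : checkLong boxF 90 4 4 4 0
    ((parF.polys surF).getD 15 (.num 0)) = true := by decide +kernel

def Fcp_16 : checkLong boxF 239 12 12 9 0
    ((parF.polys surF).getD 16 (.num 0)) = true := by decide +kernel

def Fcp_17 : checkLong boxF 208 10 11 8 0
    ((parF.polys surF).getD 17 (.num 0)) = true := by decide +kernel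

def Fcp_18 : checkLong boxF 206 10 11 8 0
    ((parF.polys surF).getD 18 (.num 0)) = true := by decide +kernel

def Fcp_19 : checkLong boxF 368 18 20 13 0
    ((parF.polys surF).getD 19 (.num 0)) = true := by decide +kernel

def Fcp_20 : checkLong boxF 367 18 20 13 0
    ((parF.polys surF).getD 20 (.num 0)) = true := by decide +kernel

def Fcp_21 : checkLong boxF 367 18 20 13 0
    ((parF.polys surF).getD 21 (.num 0)) = true := by decide +kernel

def Fcp_22 : checkLong boxF 365 18 20 13 0
    ((parF.polys surF).getD 22 (.num 0)) = true := by decide +kernel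

def Fcd_0 : checkLong boxF 28 1 1 1 0
    (parF.domSigns.getD 0 (.num 0)) = true := by decide +kernel

def Fcd_1 : checkLong boxF 35 1 1 1 0
    (parF.domSigns.getD 1 (.num 0)) = true := by decide +kernel

def Fcd_2 : checkLong boxF 31 1 1 1 1
    (parF.domSigns.getD 2 (.num 0)) = true := by decide +kernel

def Fcd_3 : checkLong boxF 26 1 1 1 0
    (parF.domSigns.getD 3 (.num 0)) = true := by decide +kernel

def Fcd_4 : checkLong boxF 60 2 3 2 1
    (parF.domSigns.getD 4 (.num 0)) = true := by decide +kernel

def Fcd_5 : checkLong boxF 69 6 1 3 0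
    parF.domU = true := by decide +kernel

def Fcd_6L : checkLong (gapBox aTop 20 wNearL) 112 4 2 2 0
    parF.domTt = true := by decide +kernel

def Fcd_6R : checkLong (gapBox aTop 20 wNearR) 112 4 2 2 0
    parF.domTt = true := by decide +kernel

def Fcd_7 : checkLong boxF 146 5 7 6 2
    (parF.domL 1 2) = true := by decide +kernel

end Vale.Agent.P100.Calib.GapAll
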