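import Vale.Agent.P100.Calib.SlabAllGapBox
import Vale.Agent.P100.Calib.SlabAllGapDataTwo

/-!
# Kernel checks of the piece F on `91/100 ≤ u ≤ 39/40`, part two
-/

namespace Vale.Agent.P100.Calib.GapAll

open Pack EndAll

set_option linter.defProp false

def Fcf_16_0 : checkLong boxF 417 17 26 12 7
    (coef (parF.forms surF) 16 0) = true := by decide +kernel

def Fcf_16_1 : checkLong boxF 417 17 26 12 7
    (coef (parF.forms surF) 16 1) = true := by decide +kernel

def Fcf_16_2 : checkLong boxF 416 17 26 12 7
    (coef (parF.forms surF) 16 2) = true := by decide +kernel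

def Fcf_17_0 : checkLong boxF 365 15 23 8 6
    (coef (parF.forms surF) 17 0) = true := by decide +kernel

def Fcf_17_1 : checkLong boxF 366 15 23 8 6
    (coef (parF.forms surF) 17 1) = true := by decide +kernel

def Fcf_17_2 : checkLong boxF 365 15 23 8 6
    (coef (parF.forms surF) 17 2) = true := by decide +kernel

end Vale.Agent.P100.Calib.GapAll
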