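import Vale.Agent.P100.Calib.SlabAllGapBox
import Vale.Agent.P100.Calib.SlabAllGapDataTwo

/-!
# Kernel checks of the piece G on `91/100 ≤ u ≤ 39/40`, part five
-/

namespace Vale.Agent.P100.Calib.GapAll

open Pack EndAll

set_option linter.defProp false

def Gcp_0 : checkLong boxG 197 11 12 8 0
    ((parG.polys surG).getD 0 (.num 0)) = true := by decide +kernel

def Gcp_1 : checkLong boxG 193 11 12 8 0
    ((parG.polys surG).getD 1 (.num 0)) = true := by decide +kernel

def Gcp_2 : checkLong boxG 174 9 10 8 0
    ((parG.polys surG).getD 2 (.num 0)) = true := by decide +kernel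

def Gcp_3 : checkLong boxG 173 9 10 8 0
    ((parG.polys surG).getD 3 (.num 0)) = true := by decide +kernel

def Gcp_4 : checkLong boxG 152 8 8 8 0
    ((parG.polys surG).getD 4 (.num 0)) = true := by decide +kernel

def Gcp_5 : checkLong boxG 80 4 4 4 0
    ((parG.polys surG).getD 5 (.num 0)) = true := by decide +kernel

def Gcp_6 : checkLong boxG 81 4 4 4 0
    ((parG.polys surG).getD 6 (.num 0)) = true := by decide +kernel

def Gcp_7 : checkLong boxG 79 4 4 4 0
    ((parG.polys surG).getD 7 (.num 0)) = true := by decide +kernel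

def Gcp_8 : checkLong boxG 80 4 4 4 0
    ((parG.polys surG).getD 8 (.num 0)) = true := by decide +kernel

def Gcp_9 : checkLong boxG 81 4 4 4 0
    ((parG.polys surG).getD 9 (.num 0)) = true := by decide +kernel

def Gcp_10 : checkLong boxG 79 4 4 4 0
    ((parG.polys surG).getD 10 (.num 0)) = true := by decide +kernel

def Gcp_11 : checkLong boxG 79 4 4 4 0
    ((parG.polys surG).getD 11 (.num 0)) = true := by decide +kernel

def Gcp_12 : checkLong boxG 191 11 11 8 0
    ((parG.polys surG).getD 12 (.num 0)) = true := by decide +kernel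

def Gcp_13 : checkLong boxG 85 4 4 4 0
    ((parG.polys surG).getD 13 (.num 0)) = true := by decide +kernel

def Gcp_14 : checkLong boxG 81 4 4 4 0
    ((parG.polys surG).getD 14 (.num 0)) = true := by decide +kernel

def Gcp_15 : checkLong boxG 81 4 4 4 0
    ((parG.polys surG).getD 15 (.num 0)) = true := by decide +kernel

def Gcp_16 : checkLong boxG 227 12 12 9 0
    ((parG.polys surG).getD 16 (.num 0)) = true := by decide +kernel

def Gcp_17 : checkLong boxG 201 10 11 8 0
    ((parG.polys surG).getD 17 (.num 0)) = true := by decide +kernel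

def Gcp_18 : checkLong boxG 201 10 11 8 0
    ((parG.polys surG).getD 18 (.num 0)) = true := by decide +kernel

def Gcp_19 : checkLong boxG 351 18 20 13 0
    ((parG.polys surG).getD 19 (.num 0)) = true := by decide +kernel

def Gcp_20 : checkLong boxG 351 18 20 13 0
    ((parG.polys surG).getD 20 (.num 0)) = true := by decide +kernel

def Gcp_21 : checkLong boxG 351 18 20 13 0
    ((parG.polys surG).getD 21 (.num 0)) = true := by decide +kernel

def Gcp_22 : checkLong boxG 350 18 20 13 0
    ((parG.polys surG).getD 22 (.num 0)) = true := by decide +kernel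

def Gcd_0 : checkLong boxG 26 1 1 1 0
    (parG.domSigns.getD 0 (.num 0)) = true := by decide +kernel

def Gcd_1 : checkLong boxG 34 1 1 1 0
    (parG.domSigns.getD 1 (.num 0)) = true := by decide +kernel

def Gcd_2 : checkLong boxG 29 1 1 1 0
    (parG.domSigns.getD 2 (.num 0)) = true := by decide +kernel

def Gcd_3 : checkLong boxG 26 1 1 1 0
    (parG.domSigns.getD 3 (.num 0)) = true := by decide +kernel

def Gcd_4 : checkLong boxG 59 2 3 2 1
    (parG.domSigns.getD 4 (.num 0)) = true := by decide +kernel

def Gcd_5 : checkLong boxG 71 6 1 3 0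
    parG.domU = true := by decide +kernel

def Gcd_6L : checkLong (gapBox aHighL 20 wFar) 130 6 3 3 0
    parG.domTc = true := by decide +kernel

def Gcd_6R : checkLong (gapBox aHighR 20 wFar) 130 6 3 3 0
    parG.domTc = true := by decide +kernel

def Gcd_7 : checkLong boxG 142 5 7 6 2
    (parG.domL 0 1) = true := by decide +kernel

end Vale.Agent.P100.Calib.GapAll
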