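import Vale.Agent.P100.Calib.SlabAllGapBox
import Vale.Agent.P100.Calib.SlabAllGapDataTwo

/-!
# Kernel checks of the piece H on `91/100 ≤ u ≤ 39/40`, part five
-/

namespace Vale.Agent.P100.Calib.GapAll

open Pack EndAll

set_option linter.defProp false

def Hcp_0 : checkLong boxH 196 11 12 8 0
    ((parH.polys surH).getD 0 (.num 0)) = true := by decide +kernel

def Hcp_1 : checkLong boxH 193 11 12 8 0
    ((parH.polys surH).getD 1 (.num 0)) = true := by decide +kernel

def Hcp_2 : checkLong boxH 174 9 10 8 0
    ((parH.polys surH).getD 2 (.num 0)) = true := by decide +kernel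

def Hcp_3 : checkLong boxH 174 9 10 8 0
    ((parH.polys surH).getD 3 (.num 0)) = true := by decide +kernel

def Hcp_4 : checkLong boxH 151 8 8 8 0
    ((parH.polys surH).getD 4 (.num 0)) = true := by decide +kernel

def Hcp_5 : checkLong boxH 81 4 4 4 0
    ((parH.polys surH).getD 5 (.num 0)) = true := by decide +kernel

def Hcp_6 : checkLong boxH 81 4 4 4 0
    ((parH.polys surH).getD 6 (.num 0)) = true := by decide +kernel

def Hcp_7 : checkLong boxH 79 4 4 4 0
    ((parH.polys surH).getD 7 (.num 0)) = true := by decide +kernel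

def Hcp_8 : checkLong boxH 80 4 4 4 0
    ((parH.polys surH).getD 8 (.num 0)) = true := by decide +kernel

def Hcp_9 : checkLong boxH 81 4 4 4 0
    ((parH.polys surH).getD 9 (.num 0)) = true := by decide +kernel

def Hcp_10 : checkLong boxH 80 4 4 4 0
    ((parH.polys surH).getD 10 (.num 0)) = true := by decide +kernel

def Hcp_11 : checkLong boxH 79 4 4 4 0
    ((parH.polys surH).getD 11 (.num 0)) = true := by decide +kernel

def Hcp_12 : checkLong boxH 191 11 11 8 0
    ((parH.polys surH).getD 12 (.num 0)) = true := by decide +kernel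

def Hcp_13 : checkLong boxH 85 4 4 4 0
    ((parH.polys surH).getD 13 (.num 0)) = true := by decide +kernel

def Hcp_14 : checkLong boxH 81 4 4 4 0
    ((parH.polys surH).getD 14 (.num 0)) = true := by decide +kernel

def Hcp_15 : checkLong boxH 81 4 4 4 0
    ((parH.polys surH).getD 15 (.num 0)) = true := by decide +kernel

def Hcp_16 : checkLong boxH 227 12 12 9 0
    ((parH.polys surH).getD 16 (.num 0)) = true := by decide +kernel

def Hcp_17 : checkLong boxH 201 10 11 8 0
    ((parH.polys surH).getD 17 (.num 0)) = true := by decide +kernel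

def Hcp_18 : checkLong boxH 201 10 11 8 0
    ((parH.polys surH).getD 18 (.num 0)) = true := by decide +kernel

def Hcp_19 : checkLong boxH 351 18 20 13 0
    ((parH.polys surH).getD 19 (.num 0)) = true := by decide +kernel

def Hcp_20 : checkLong boxH 351 18 20 13 0
    ((parH.polys surH).getD 20 (.num 0)) = true := by decide +kernel

def Hcp_21 : checkLong boxH 351 18 20 13 0
    ((parH.polys surH).getD 21 (.num 0)) = true := by decide +kernel

def Hcp_22 : checkLong boxH 350 18 20 13 0
    ((parH.polys surH).getD 22 (.num 0)) = true := by decide +kernel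

def Hcd_0 : checkLong boxH 26 1 1 1 0
    (parH.domSigns.getD 0 (.num 0)) = true := by decide +kernel

def Hcd_1 : checkLong boxH 34 1 1 1 0
    (parH.domSigns.getD 1 (.num 0)) = true := by decide +kernel

def Hcd_2 : checkLong boxH 30 1 1 1 1
    (parH.domSigns.getD 2 (.num 0)) = true := by decide +kernel

def Hcd_3 : checkLong boxH 26 1 1 1 0
    (parH.domSigns.getD 3 (.num 0)) = true := by decide +kernel

def Hcd_4 : checkLong boxH 59 2 3 2 1
    (parH.domSigns.getD 4 (.num 0)) = true := by decide +kernel

def Hcd_5 : checkLong boxH 71 6 1 3 0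
    parH.domU = true := by decide +kernel

def Hcd_6L : checkLong (gapBox aHighL 20 wFar) 130 6 3 3 0
    parH.domTc = true := by decide +kernel

def Hcd_6R : checkLong (gapBox aHighR 20 wFar) 130 6 3 3 0
    parH.domTc = true := by decide +kernel

def Hcd_7L : checkLong (gapBox aHighL 20 wFar) 188 5 7 6 2
    (parH.domL 4 5) = true := by decide +kernel

def Hcd_7R : checkLong (gapBox aHighR 20 wFar) 188 5 7 6 2
    (parH.domL 4 5) = true := by decide +kernel

end Vale.Agent.P100.Calib.GapAll
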