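import Vale.Agent.P100.Calib.SlabAllGapBox
import Vale.Agent.P100.Calib.SlabAllGapDataTwo

/-!
# Kernel checks of the piece H on `91/100 ≤ u ≤ 39/40`, part four
-/

namespace Vale.Agent.P100.Calib.GapAll

open Pack EndAll

set_option linter.defProp false

def Hcf_0_0 : checkLong boxH 226 9 14 7 3
    (coef (parH.forms surH) 0 0) = true := by decide +kernel

def Hcf_0_1 : checkLong boxH 226 9 14 7 3
    (coef (parH.forms surH) 0 1) = true := by decide +kernel

def Hcf_1_0 : checkLong boxH 226 9 14 7 3
    (coef (parH.forms surH) 1 0) = true := by decide +kernel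

def Hcf_1_1 : checkLong boxH 226 9 14 7 3
    (coef (parH.forms surH) 1 1) = true := by decide +kernel

def Hcf_2_0 : checkLong boxH 206 7 12 7 4
    (coef (parH.forms surH) 2 0) = true := by decide +kernel

def Hcf_2_1 : checkLong boxH 206 7 12 7 4
    (coef (parH.forms surH) 2 1) = true := by decide +kernel

def Hcf_3_0 : checkLong boxH 206 7 12 7 4
    (coef (parH.forms surH) 3 0) = true := by decide +kernel

def Hcf_3_1 : checkLong boxH 206 7 12 7 4
    (coef (parH.forms surH) 3 1) = true := by decide +kernel

def Hcf_4_0 : checkLong boxH 208 7 12 5 4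
    (coef (parH.forms surH) 4 0) = true := by decide +kernel

def Hcf_4_1 : checkLong boxH 208 7 12 5 4
    (coef (parH.forms surH) 4 1) = true := by decide +kernel

def Hcf_5_0 : checkLong boxH 208 7 12 5 4
    (coef (parH.forms surH) 5 0) = true := by decide +kernel

def Hcf_5_1 : checkLong boxH 208 7 12 5 4
    (coef (parH.forms surH) 5 1) = true := by decide +kernel

def Hcf_6_0 : checkLong boxH 274 11 17 9 4
    (coef (parH.forms surH) 6 0) = true := by decide +kernel

def Hcf_6_1 : checkLong boxH 275 11 17 9 4
    (coef (parH.forms surH) 6 1) = true := by decide +kernel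

def Hcf_6_2 : checkLong boxH 274 11 17 9 4
    (coef (parH.forms surH) 6 2) = true := by decide +kernel

def Hcf_7_0 : checkLong boxH 274 11 17 9 4
    (coef (parH.forms surH) 7 0) = true := by decide +kernel

def Hcf_7_1 : checkLong boxH 275 11 17 9 4
    (coef (parH.forms surH) 7 1) = true := by decide +kernel

def Hcf_7_2 : checkLong boxH 274 11 17 9 4
    (coef (parH.forms surH) 7 2) = true := by decide +kernel

def Hcf_8_0 : checkLong boxH 178 8 10 6 2
    (coef (parH.forms surH) 8 0) = true := by decide +kernel

def Hcf_8_1 : checkLong boxH 178 8 10 6 2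
    (coef (parH.forms surH) 8 1) = true := by decide +kernel

def Hcf_9_0 : checkLong boxH 178 8 10 6 2
    (coef (parH.forms surH) 9 0) = true := by decide +kernel

def Hcf_9_1 : checkLong boxH 178 8 10 6 2
    (coef (parH.forms surH) 9 1) = true := by decide +kernel

def Hcf_10_0 : checkLong boxH 168 7 9 6 2
    (coef (parH.forms surH) 10 0) = true := by decide +kernel

def Hcf_10_1 : checkLong boxH 167 7 9 6 1
    (coef (parH.forms surH) 10 1) = true := by decide +kernel

def Hcf_11_0 : checkLong boxH 168 7 9 6 2
    (coef (parH.forms surH) 11 0) = true := by decide +kernel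

def Hcf_11_1 : checkLong boxH 167 7 9 6 1
    (coef (parH.forms surH) 11 1) = true := by decide +kernel

def Hcf_12_0 : checkLong boxH 174 8 12 6 3
    (coef (parH.forms surH) 12 0) = true := by decide +kernel

def Hcf_12_1 : checkLong boxH 175 8 12 6 3
    (coef (parH.forms surH) 12 1) = true := by decide +kernel

def Hcf_12_2 : checkLong boxH 173 8 12 6 2
    (coef (parH.forms surH) 12 2) = true := by decide +kernel

def Hcf_13_0 : checkLong boxH 272 11 18 8 5
    (coef (parH.forms surH) 13 0) = true := by decide +kernel

def Hcf_13_1 : checkLong boxH 273 11 18 8 5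
    (coef (parH.forms surH) 13 1) = true := by decide +kernel

def Hcf_13_2 : checkLong boxH 271 11 18 8 4
    (coef (parH.forms surH) 13 2) = true := by decide +kernel

def Hcf_14_0 : checkLong boxH 272 11 18 8 5
    (coef (parH.forms surH) 14 0) = true := by decide +kernel

def Hcf_14_1 : checkLong boxH 273 11 18 8 5
    (coef (parH.forms surH) 14 1) = true := by decide +kernel

def Hcf_14_2 : checkLong boxH 271 11 18 8 4
    (coef (parH.forms surH) 14 2) = true := by decide +kernel

end Vale.Agent.P100.Calib.GapAll
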