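import Vale.Agent.P100.Calib.SlabAllGapBox
import Vale.Agent.P100.Calib.SlabAllGapDataTwo

/-!
# Kernel checks of the piece H on `91/100 ≤ u ≤ 39/40`, part one
-/

namespace Vale.Agent.P100.Calib.GapAll

open Pack EndAll

set_option linter.defProp false

def Hcf_15_0 : checkLong boxH 413 17 26 12 7
    (coef (parH.forms surH) 15 0) = true := by decide +kernel

def Hcf_15_1 : checkLong boxH 414 17 26 12 7
    (coef (parH.forms surH) 15 1) = true := by decide +kernel

def Hcf_15_2 : checkLong boxH 413 17 26 12 7
    (coef (parH.forms surH) 15 2) = true := by decide +kernel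

end Vale.Agent.P100.Calib.GapAll
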