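import Vale.Agent.P100.Calib.SlabAllGapBox
import Vale.Agent.P100.Calib.SlabAllGapDataThree

/-!
# Kernel checks of the piece I on `91/100 ≤ u ≤ 39/40`, part five
-/

namespace Vale.Agent.P100.Calib.GapAll

open Pack EndAll

set_option linter.defProp false

def Icp_0 : checkLong boxI 199 11 12 8 0
    ((parI.polys surI).getD 0 (.num 0)) = true := by decide +kernel

def Icp_1 : checkLong boxI 200 11 12 8 0
    ((parI.polys surI).getD 1 (.num 0)) = true := by decide +kernel

def Icp_2 : checkLong boxI 175 9 10 8 0
    ((parI.polys surI).getD 2 (.num 0)) = true := by decide +kernel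

def Icp_3 : checkLong boxI 174 9 10 8 0
    ((parI.polys surI).getD 3 (.num 0)) = true := by decide +kernel

def Icp_4 : checkLong boxI 157 8 8 8 0
    ((parI.polys surI).getD 4 (.num 0)) = true := by decide +kernel

def Icp_5 : checkLong boxI 83 4 4 4 0
    ((parI.polys surI).getD 5 (.num 0)) = true := by decide +kernel

def Icp_6 : checkLong boxI 83 4 4 4 0
    ((parI.polys surI).getD 6 (.num 0)) = true := by decide +kernel

def Icp_7 : checkLong boxI 84 4 4 4 0
    ((parI.polys surI).getD 7 (.num 0)) = true := by decide +kernel

def Icp_8 : checkLong boxI 84 4 4 4 0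
    ((parI.polys surI).getD 8 (.num 0)) = true := by decide +kernel

def Icp_9 : checkLong boxI 84 4 4 4 0
    ((parI.polys surI).getD 9 (.num 0)) = true := by decide +kernel

def Icp_10 : checkLong boxI 84 4 4 4 0
    ((parI.polys surI).getD 10 (.num 0)) = true := by decide +kernel

def Icp_11 : checkLong boxI 79 4 4 4 0
    ((parI.polys surI).getD 11 (.num 0)) = true := by decide +kernel

def Icp_12 : checkLong boxI 193 11 11 8 0
    ((parI.polys surI).getD 12 (.num 0)) = true := by decide +kernel

def Icp_13 : checkLong boxI 88 4 4 4 0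
    ((parI.polys surI).getD 13 (.num 0)) = true := by decide +kernel

def Icp_14 : checkLong boxI 81 4 4 4 0
    ((parI.polys surI).getD 14 (.num 0)) = true := by decide +kernel

def Icp_15 : checkLong boxI 87 4 4 4 0
    ((parI.polys surI).getD 15 (.num 0)) = true := by decide +kernel

def Icp_16 : checkLong boxI 230 12 12 9 0
    ((parI.polys surI).getD 16 (.num 0)) = true := by decide +kernel

def Icp_17 : checkLong boxI 206 10 11 8 0
    ((parI.polys surI).getD 17 (.num 0)) = true := by decide +kernel

def Icp_18 : checkLong boxI 203 10 11 8 0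
    ((parI.polys surI).getD 18 (.num 0)) = true := by decide +kernel

def Icp_19 : checkLong boxI 359 18 20 13 0
    ((parI.polys surI).getD 19 (.num 0)) = true := by decide +kernel

def Icp_20 : checkLong boxI 358 18 20 13 0
    ((parI.polys surI).getD 20 (.num 0)) = true := by decide +kernel

def Icp_21 : checkLong boxI 358 18 20 13 0
    ((parI.polys surI).getD 21 (.num 0)) = true := by decide +kernel

def Icp_22 : checkLong boxI 356 18 20 13 0
    ((parI.polys surI).getD 22 (.num 0)) = true := by decide +kernel

def Icd_0 : checkLong boxI 27 1 1 1 0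
    (parI.domSigns.getD 0 (.num 0)) = true := by decide +kernel

def Icd_1 : checkLong boxI 33 1 1 1 0
    (parI.domSigns.getD 1 (.num 0)) = true := by decide +kernel

def Icd_2 : checkLong boxI 28 1 1 1 0
    (parI.domSigns.getD 2 (.num 0)) = true := by decide +kernel

def Icd_3 : checkLong boxI 26 1 1 1 0
    (parI.domSigns.getD 3 (.num 0)) = true := by decide +kernel

def Icd_4 : checkLong boxI 57 2 3 2 1
    (parI.domSigns.getD 4 (.num 0)) = true := by decide +kernel

def Icd_5 : checkLong boxI 67 6 1 3 0
    parI.domU = true := by decide +kernel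

def Icd_6L : checkLong (gapBox aTop 20 wFarL) 127 6 3 3 0
    parI.domTc = true := by decide +kernel

def Icd_6R : checkLong (gapBox aTop 20 wFarR) 127 6 3 3 0
    parI.domTc = true := by decide +kernel

def Icd_7 : checkLong boxI 137 5 7 6 2
    (parI.domL 0 1) = true := by decide +kernel

end Vale.Agent.P100.Calib.GapAll
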