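import Vale.Agent.P100.Calib.SlabAllGapBox
import Vale.Agent.P100.Calib.SlabAllGapDataThree

/-!
# Kernel checks of the piece I on `91/100 ≤ u ≤ 39/40`, part three
-/

namespace Vale.Agent.P100.Calib.GapAll

open Pack EndAll

set_option linter.defProp false

def Icf_18_0 : checkLong boxI 297 14 21 8 5
    (coef (parI.forms surI) 18 0) = true := by decide +kernel

def Icf_18_1 : checkLong boxI 298 14 21 8 5
    (coef (parI.forms surI) 18 1) = true := by decide +kernel

def Icf_18_2 : checkLong boxI 297 14 21 8 5
    (coef (parI.forms surI) 18 2) = true := by decide +kernel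

def Icf_19_0 : checkLong boxI 367 14 24 10 6
    (coef (parI.forms surI) 19 0) = true := by decide +kernel

def Icf_19_1 : checkLong boxI 368 14 24 10 6
    (coef (parI.forms surI) 19 1) = true := by decide +kernel

def Icf_19_2 : checkLong boxI 367 14 24 10 6
    (coef (parI.forms surI) 19 2) = true := by decide +kernel

def Icf_20_0 : checkLong boxI 367 14 24 10 6
    (coef (parI.forms surI) 20 0) = true := by decide +kernel

def Icf_20_1 : checkLong boxI 368 14 24 10 6
    (coef (parI.forms surI) 20 1) = true := by decide +kernel

def Icf_20_2 : checkLong boxI 367 14 24 10 6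
    (coef (parI.forms surI) 20 2) = true := by decide +kernel

end Vale.Agent.P100.Calib.GapAll
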