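import Vale.Agent.P100.Calib.SlabAllGapBox
import Vale.Agent.P100.Calib.SlabAllGapDataThree

/-!
# Kernel checks of the piece J on `91/100 ≤ u ≤ 39/40`, part five
-/

namespace Vale.Agent.P100.Calib.GapAll

open Pack EndAll

set_option linter.defProp false

def Jcp_0 : checkLong boxJ 199 11 12 8 0
    ((parJ.polys surJ).getD 0 (.num 0)) = true := by decide +kernel

def Jcp_1 : checkLong boxJ 200 11 12 8 0
    ((parJ.polys surJ).getD 1 (.num 0)) = true := by decide +kernel

def Jcp_2 : checkLong boxJ 177 9 10 8 0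
    ((parJ.polys surJ).getD 2 (.num 0)) = true := by decide +kernel

def Jcp_3 : checkLong boxJ 177 9 10 8 0
    ((parJ.polys surJ).getD 3 (.num 0)) = true := by decide +kernel

def Jcp_4 : checkLong boxJ 157 8 8 8 0
    ((parJ.polys surJ).getD 4 (.num 0)) = true := by decide +kernel

def Jcp_5 : checkLong boxJ 83 4 4 4 0
    ((parJ.polys surJ).getD 5 (.num 0)) = true := by decide +kernel

def Jcp_6 : checkLong boxJ 83 4 4 4 0
    ((parJ.polys surJ).getD 6 (.num 0)) = true := by decide +kernel

def Jcp_7 : checkLong boxJ 84 4 4 4 0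
    ((parJ.polys surJ).getD 7 (.num 0)) = true := by decide +kernel

def Jcp_8 : checkLong boxJ 84 4 4 4 0
    ((parJ.polys surJ).getD 8 (.num 0)) = true := by decide +kernel

def Jcp_9 : checkLong boxJ 84 4 4 4 0
    ((parJ.polys surJ).getD 9 (.num 0)) = true := by decide +kernel

def Jcp_10 : checkLong boxJ 84 4 4 4 0
    ((parJ.polys surJ).getD 10 (.num 0)) = true := by decide +kernel

def Jcp_11 : checkLong boxJ 79 4 4 4 0
    ((parJ.polys surJ).getD 11 (.num 0)) = true := by decide +kernel

def Jcp_12 : checkLong boxJ 194 11 11 8 0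
    ((parJ.polys surJ).getD 12 (.num 0)) = true := by decide +kernel

def Jcp_13 : checkLong boxJ 87 4 4 4 0
    ((parJ.polys surJ).getD 13 (.num 0)) = true := by decide +kernel

def Jcp_14 : checkLong boxJ 81 4 4 4 0
    ((parJ.polys surJ).getD 14 (.num 0)) = true := by decide +kernel

def Jcp_15 : checkLong boxJ 87 4 4 4 0
    ((parJ.polys surJ).getD 15 (.num 0)) = true := by decide +kernel

def Jcp_16 : checkLong boxJ 231 12 12 9 0
    ((parJ.polys surJ).getD 16 (.num 0)) = true := by decide +kernel

def Jcp_17 : checkLong boxJ 202 10 11 8 0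
    ((parJ.polys surJ).getD 17 (.num 0)) = true := by decide +kernel

def Jcp_18 : checkLong boxJ 203 10 11 8 0
    ((parJ.polys surJ).getD 18 (.num 0)) = true := by decide +kernel

def Jcp_19 : checkLong boxJ 357 18 20 13 0
    ((parJ.polys surJ).getD 19 (.num 0)) = true := by decide +kernel

def Jcp_20 : checkLong boxJ 355 18 20 13 0
    ((parJ.polys surJ).getD 20 (.num 0)) = true := by decide +kernel

def Jcp_21 : checkLong boxJ 358 18 20 13 0
    ((parJ.polys surJ).getD 21 (.num 0)) = true := by decide +kernel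

def Jcp_22 : checkLong boxJ 356 18 20 13 0
    ((parJ.polys surJ).getD 22 (.num 0)) = true := by decide +kernel

def Jcd_0 : checkLong boxJ 27 1 1 1 0
    (parJ.domSigns.getD 0 (.num 0)) = true := by decide +kernel

def Jcd_1 : checkLong boxJ 33 1 1 1 0
    (parJ.domSigns.getD 1 (.num 0)) = true := by decide +kernel

def Jcd_2 : checkLong boxJ 30 1 1 1 1
    (parJ.domSigns.getD 2 (.num 0)) = true := by decide +kernel

def Jcd_3 : checkLong boxJ 26 1 1 1 0
    (parJ.domSigns.getD 3 (.num 0)) = true := by decide +kernel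

def Jcd_4 : checkLong boxJ 57 2 3 2 1
    (parJ.domSigns.getD 4 (.num 0)) = true := by decide +kernel

def Jcd_5 : checkLong boxJ 67 6 1 3 0
    parJ.domU = true := by decide +kernel

def Jcd_6L : checkLong (gapBox aTop 20 wFarL) 127 6 3 3 0
    parJ.domTc = true := by decide +kernel

def Jcd_6R : checkLong (gapBox aTop 20 wFarR) 127 6 3 3 0
    parJ.domTc = true := by decide +kernel

def Jcd_7 : checkLong boxJ 82 3 3 3 1
    parJ.domLUG = true := by decide +kernel

end Vale.Agent.P100.Calib.GapAll
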