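import Vale.Agent.P100.Calib.SlabAllGapBox
import Vale.Agent.P100.Calib.SlabAllGapDataThree

/-!
# Kernel checks of the piece J on `91/100 ≤ u ≤ 39/40`, part four
-/

namespace Vale.Agent.P100.Calib.GapAll

open Pack EndAll

set_option linter.defProp false

def Jcf_0_0 : checkLong boxJ 218 9 14 7 3
    (coef (parJ.forms surJ) 0 0) = true := by decide +kernel

def Jcf_0_1 : checkLong boxJ 218 9 14 7 3
    (coef (parJ.forms surJ) 0 1) = true := by decide +kernel

def Jcf_1_0 : checkLong boxJ 218 9 14 7 3
    (coef (parJ.forms surJ) 1 0) = true := by decide +kernel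

def Jcf_1_1 : checkLong boxJ 218 9 14 7 3
    (coef (parJ.forms surJ) 1 1) = true := by decide +kernel

def Jcf_2_0 : checkLong boxJ 199 7 12 7 4
    (coef (parJ.forms surJ) 2 0) = true := by decide +kernel

def Jcf_2_1 : checkLong boxJ 199 7 12 7 4
    (coef (parJ.forms surJ) 2 1) = true := by decide +kernel

def Jcf_3_0 : checkLong boxJ 199 7 12 7 4
    (coef (parJ.forms surJ) 3 0) = true := by decide +kernel

def Jcf_3_1 : checkLong boxJ 199 7 12 7 4
    (coef (parJ.forms surJ) 3 1) = true := by decide +kernel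

def Jcf_4_0 : checkLong boxJ 212 7 12 7 4
    (coef (parJ.forms surJ) 4 0) = true := by decide +kernel

def Jcf_4_1 : checkLong boxJ 212 7 12 7 4
    (coef (parJ.forms surJ) 4 1) = true := by decide +kernel

def Jcf_5_0 : checkLong boxJ 212 7 12 7 4
    (coef (parJ.forms surJ) 5 0) = true := by decide +kernel

def Jcf_5_1 : checkLong boxJ 212 7 12 7 4
    (coef (parJ.forms surJ) 5 1) = true := by decide +kernel

def Jcf_6_0 : checkLong boxJ 268 11 17 9 4
    (coef (parJ.forms surJ) 6 0) = true := by decide +kernel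

def Jcf_6_1 : checkLong boxJ 269 11 17 9 4
    (coef (parJ.forms surJ) 6 1) = true := by decide +kernel

def Jcf_6_2 : checkLong boxJ 268 11 17 9 4
    (coef (parJ.forms surJ) 6 2) = true := by decide +kernel

def Jcf_7_0 : checkLong boxJ 267 11 17 9 4
    (coef (parJ.forms surJ) 7 0) = true := by decide +kernel

def Jcf_7_1 : checkLong boxJ 268 11 17 9 4
    (coef (parJ.forms surJ) 7 1) = true := by decide +kernel

def Jcf_7_2 : checkLong boxJ 267 11 17 9 4
    (coef (parJ.forms surJ) 7 2) = true := by decide +kernel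

def Jcf_8_0 : checkLong boxJ 173 8 10 6 2
    (coef (parJ.forms surJ) 8 0) = true := by decide +kernel

def Jcf_8_1 : checkLong boxJ 173 8 10 6 2
    (coef (parJ.forms surJ) 8 1) = true := by decide +kernel

def Jcf_9_0 : checkLong boxJ 173 8 10 6 2
    (coef (parJ.forms surJ) 9 0) = true := by decide +kernel

def Jcf_9_1 : checkLong boxJ 173 8 10 6 2
    (coef (parJ.forms surJ) 9 1) = true := by decide +kernel

def Jcf_10_0 : checkLong boxJ 164 7 9 6 2
    (coef (parJ.forms surJ) 10 0) = true := by decide +kernel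

def Jcf_10_1 : checkLong boxJ 163 7 9 6 1
    (coef (parJ.forms surJ) 10 1) = true := by decide +kernel

def Jcf_11_0 : checkLong boxJ 163 7 9 6 2
    (coef (parJ.forms surJ) 11 0) = true := by decide +kernel

def Jcf_11_1 : checkLong boxJ 162 7 9 6 1
    (coef (parJ.forms surJ) 11 1) = true := by decide +kernel

def Jcf_12_0 : checkLong boxJ 175 8 12 6 3
    (coef (parJ.forms surJ) 12 0) = true := by decide +kernel

def Jcf_12_1 : checkLong boxJ 176 8 12 6 3
    (coef (parJ.forms surJ) 12 1) = true := by decide +kernel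

def Jcf_12_2 : checkLong boxJ 174 8 12 6 2
    (coef (parJ.forms surJ) 12 2) = true := by decide +kernel

def Jcf_13_0 : checkLong boxJ 265 11 18 8 5
    (coef (parJ.forms surJ) 13 0) = true := by decide +kernel

def Jcf_13_1 : checkLong boxJ 266 11 18 8 5
    (coef (parJ.forms surJ) 13 1) = true := by decide +kernel

def Jcf_13_2 : checkLong boxJ 264 11 18 8 4
    (coef (parJ.forms surJ) 13 2) = true := by decide +kernel

def Jcf_14_0 : checkLong boxJ 264 11 18 8 5
    (coef (parJ.forms surJ) 14 0) = true := by decide +kernel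

def Jcf_14_1 : checkLong boxJ 265 11 18 8 5
    (coef (parJ.forms surJ) 14 1) = true := by decide +kernel

def Jcf_14_2 : checkLong boxJ 263 11 18 8 4
    (coef (parJ.forms surJ) 14 2) = true := by decide +kernel

end Vale.Agent.P100.Calib.GapAll
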