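import Vale.Agent.P100.Calib.SlabAllGapBox
import Vale.Agent.P100.Calib.SlabAllGapDataThree

/-!
# Kernel checks of the piece K on `91/100 ≤ u ≤ 39/40`, part five
-/

namespace Vale.Agent.P100.Calib.GapAll

open Pack EndAll

set_option linter.defProp false

def Kcp_0 : checkLong boxK 204 11 12 8 0
    ((parK.polys surK).getD 0 (.num 0)) = true := by decide +kernel

def Kcp_1 : checkLong boxK 205 11 12 8 0
    ((parK.polys surK).getD 1 (.num 0)) = true := by decide +kernel

def Kcp_2 : checkLong boxK 182 9 10 8 0
    ((parK.polys surK).getD 2 (.num 0)) = true := by decide +kernel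

def Kcp_3 : checkLong boxK 182 9 10 8 0
    ((parK.polys surK).getD 3 (.num 0)) = true := by decide +kernel

def Kcp_4 : checkLong boxK 162 8 8 8 0
    ((parK.polys surK).getD 4 (.num 0)) = true := by decide +kernel

def Kcp_5 : checkLong boxK 86 4 4 4 0
    ((parK.polys surK).getD 5 (.num 0)) = true := by decide +kernel

def Kcp_6 : checkLong boxK 86 4 4 4 0
    ((parK.polys surK).getD 6 (.num 0)) = true := by decide +kernel

def Kcp_7 : checkLong boxK 86 4 4 4 0
    ((parK.polys surK).getD 7 (.num 0)) = true := by decide +kernel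

def Kcp_8 : checkLong boxK 87 4 4 4 0
    ((parK.polys surK).getD 8 (.num 0)) = true := by decide +kernel

def Kcp_9 : checkLong boxK 86 4 4 4 0
    ((parK.polys surK).getD 9 (.num 0)) = true := by decide +kernel

def Kcp_10 : checkLong boxK 87 4 4 4 0
    ((parK.polys surK).getD 10 (.num 0)) = true := by decide +kernel

def Kcp_11 : checkLong boxK 83 4 4 4 0
    ((parK.polys surK).getD 11 (.num 0)) = true := by decide +kernel

def Kcp_12 : checkLong boxK 199 11 11 8 0
    ((parK.polys surK).getD 12 (.num 0)) = true := by decide +kernel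

def Kcp_13 : checkLong boxK 87 4 4 4 0
    ((parK.polys surK).getD 13 (.num 0)) = true := by decide +kernel

def Kcp_14 : checkLong boxK 84 4 4 4 0
    ((parK.polys surK).getD 14 (.num 0)) = true := by decide +kernel

def Kcp_15 : checkLong boxK 90 4 4 4 0
    ((parK.polys surK).getD 15 (.num 0)) = true := by decide +kernel

def Kcp_16 : checkLong boxK 239 12 12 9 0
    ((parK.polys surK).getD 16 (.num 0)) = true := by decide +kernel

def Kcp_17 : checkLong boxK 207 10 11 8 0
    ((parK.polys surK).getD 17 (.num 0)) = true := by decide +kernel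

def Kcp_18 : checkLong boxK 207 10 11 8 0
    ((parK.polys surK).getD 18 (.num 0)) = true := by decide +kernel

def Kcp_19 : checkLong boxK 367 18 20 13 0
    ((parK.polys surK).getD 19 (.num 0)) = true := by decide +kernel

def Kcp_20 : checkLong boxK 367 18 20 13 0
    ((parK.polys surK).getD 20 (.num 0)) = true := by decide +kernel

def Kcp_21 : checkLong boxK 367 18 20 13 0
    ((parK.polys surK).getD 21 (.num 0)) = true := by decide +kernel

def Kcp_22 : checkLong boxK 366 18 20 13 0
    ((parK.polys surK).getD 22 (.num 0)) = true := by decide +kernel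

def Kcd_0 : checkLong boxK 28 1 1 1 0
    (parK.domSigns.getD 0 (.num 0)) = true := by decide +kernel

def Kcd_1 : checkLong boxK 35 1 1 1 0
    (parK.domSigns.getD 1 (.num 0)) = true := by decide +kernel

def Kcd_2 : checkLong boxK 29 1 1 1 0
    (parK.domSigns.getD 2 (.num 0)) = true := by decide +kernel

def Kcd_3 : checkLong boxK 26 1 1 1 0
    (parK.domSigns.getD 3 (.num 0)) = true := by decide +kernel

def Kcd_4 : checkLong boxK 60 2 3 2 1
    (parK.domSigns.getD 4 (.num 0)) = true := by decide +kernel

def Kcd_5 : checkLong boxK 69 6 1 3 0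
    parK.domU = true := by decide +kernel

def Kcd_6L : checkLong (gapBox aTop 20 wNearL) 112 4 2 2 0
    parK.domTt = true := by decide +kernel

def Kcd_6R : checkLong (gapBox aTop 20 wNearR) 112 4 2 2 0
    parK.domTt = true := by decide +kernel

def Kcd_7 : checkLong boxK 145 5 7 6 2
    (parK.domL 0 1) = true := by decide +kernel

end Vale.Agent.P100.Calib.GapAll
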