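import Vale.Agent.P100.Calib.SlabAllGapBox
import Vale.Agent.P100.Calib.SlabAllGapDataThree

/-!
# Kernel checks of the piece K on `91/100 ≤ u ≤ 39/40`, part four
-/

namespace Vale.Agent.P100.Calib.GapAll

open Pack EndAll

set_option linter.defProp false

def Kcf_0_0 : checkLong boxK 230 9 14 7 3
    (coef (parK.forms surK) 0 0) = true := by decide +kernel

def Kcf_0_1 : checkLong boxK 230 9 14 7 3
    (coef (parK.forms surK) 0 1) = true := by decide +kernel

def Kcf_1_0 : checkLong boxK 230 9 14 7 3
    (coef (parK.forms surK) 1 0) = true := by decide +kernel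

def Kcf_1_1 : checkLong boxK 230 9 14 7 3
    (coef (parK.forms surK) 1 1) = true := by decide +kernel

def Kcf_2_0 : checkLong boxK 211 7 12 7 4
    (coef (parK.forms surK) 2 0) = true := by decide +kernel

def Kcf_2_1 : checkLong boxK 211 7 12 7 4
    (coef (parK.forms surK) 2 1) = true := by decide +kernel

def Kcf_3_0 : checkLong boxK 211 7 12 7 4
    (coef (parK.forms surK) 3 0) = true := by decide +kernel

def Kcf_3_1 : checkLong boxK 211 7 12 7 4
    (coef (parK.forms surK) 3 1) = true := by decide +kernel

def Kcf_4_0 : checkLong boxK 223 7 12 7 4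
    (coef (parK.forms surK) 4 0) = true := by decide +kernel

def Kcf_4_1 : checkLong boxK 223 7 12 7 4
    (coef (parK.forms surK) 4 1) = true := by decide +kernel

def Kcf_5_0 : checkLong boxK 223 7 12 7 4
    (coef (parK.forms surK) 5 0) = true := by decide +kernel

def Kcf_5_1 : checkLong boxK 223 7 12 7 4
    (coef (parK.forms surK) 5 1) = true := by decide +kernel

def Kcf_6_0 : checkLong boxK 280 11 17 9 4
    (coef (parK.forms surK) 6 0) = true := by decide +kernel

def Kcf_6_1 : checkLong boxK 281 11 17 9 4
    (coef (parK.forms surK) 6 1) = true := by decide +kernel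

def Kcf_6_2 : checkLong boxK 280 11 17 9 4
    (coef (parK.forms surK) 6 2) = true := by decide +kernel

def Kcf_7_0 : checkLong boxK 280 11 17 9 4
    (coef (parK.forms surK) 7 0) = true := by decide +kernel

def Kcf_7_1 : checkLong boxK 281 11 17 9 4
    (coef (parK.forms surK) 7 1) = true := by decide +kernel

def Kcf_7_2 : checkLong boxK 280 11 17 9 4
    (coef (parK.forms surK) 7 2) = true := by decide +kernel

def Kcf_8_0 : checkLong boxK 181 8 10 6 2
    (coef (parK.forms surK) 8 0) = true := by decide +kernel

def Kcf_8_1 : checkLong boxK 181 8 10 6 2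
    (coef (parK.forms surK) 8 1) = true := by decide +kernel

def Kcf_9_0 : checkLong boxK 181 8 10 6 2
    (coef (parK.forms surK) 9 0) = true := by decide +kernel

def Kcf_9_1 : checkLong boxK 181 8 10 6 2
    (coef (parK.forms surK) 9 1) = true := by decide +kernel

def Kcf_10_0 : checkLong boxK 171 7 9 6 1
    (coef (parK.forms surK) 10 0) = true := by decide +kernel

def Kcf_10_1 : checkLong boxK 171 7 9 6 1
    (coef (parK.forms surK) 10 1) = true := by decide +kernel

def Kcf_11_0 : checkLong boxK 171 7 9 6 1
    (coef (parK.forms surK) 11 0) = true := by decide +kernel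

def Kcf_11_1 : checkLong boxK 171 7 9 6 1
    (coef (parK.forms surK) 11 1) = true := by decide +kernel

def Kcf_12_0 : checkLong boxK 183 8 12 6 2
    (coef (parK.forms surK) 12 0) = true := by decide +kernel

def Kcf_12_1 : checkLong boxK 184 8 12 6 2
    (coef (parK.forms surK) 12 1) = true := by decide +kernel

def Kcf_12_2 : checkLong boxK 183 8 12 6 2
    (coef (parK.forms surK) 12 2) = true := by decide +kernel

def Kcf_13_0 : checkLong boxK 275 11 18 8 4
    (coef (parK.forms surK) 13 0) = true := by decide +kernel

def Kcf_13_1 : checkLong boxK 276 11 18 8 4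
    (coef (parK.forms surK) 13 1) = true := by decide +kernel

def Kcf_13_2 : checkLong boxK 275 11 18 8 4
    (coef (parK.forms surK) 13 2) = true := by decide +kernel

def Kcf_14_0 : checkLong boxK 275 11 18 8 4
    (coef (parK.forms surK) 14 0) = true := by decide +kernel

def Kcf_14_1 : checkLong boxK 276 11 18 8 4
    (coef (parK.forms surK) 14 1) = true := by decide +kernel

def Kcf_14_2 : checkLong boxK 275 11 18 8 4
    (coef (parK.forms surK) 14 2) = true := by decide +kernel

end Vale.Agent.P100.Calib.GapAll
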