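import Vale.Agent.P100.Calib.SlabAllGapBox
import Vale.Agent.P100.Calib.SlabAllGapDataThree

/-!
# Kernel checks of the piece K on `91/100 ≤ u ≤ 39/40`, part one
-/

namespace Vale.Agent.P100.Calib.GapAll

open Pack EndAll

set_option linter.defProp false

def Kcf_15_0 : checkLong boxK 417 17 26 12 7
    (coef (parK.forms surK) 15 0) = true := by decide +kernel

def Kcf_15_1 : checkLong boxK 418 17 26 12 7
    (coef (parK.forms surK) 15 1) = true := by decide +kernel

def Kcf_15_2 : checkLong boxK 417 17 26 12 7
    (coef (parK.forms surK) 15 2) = true := by decide +kernel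

end Vale.Agent.P100.Calib.GapAll
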